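import Vale.Agent.Lib.P154.PChain.BA.R3_0

set_option linter.all false

namespace Vale.Agent.Lib.P154.PChain.BA.S4

open Vale.Agent.Lib.P154.Chain

noncomputable def pc0 : PT := (PT.nd (nat_lit 975312) (PT.nd (nat_lit 497562) (PT.nd (nat_lit 232206) (PT.nd (nat_lit 126048) (PT.nd (nat_lit 72930) (PT.nd (nat_lit 19890) PT.nil (PT.lf (nat_lit 76) (nat_lit 3) (nat_lit 1) (nat_lit 1) (nat_lit 255) (nat_lit 0) (nat_lit 255))) (PT.nd (nat_lit 78) (PT.lf (nat_lit 152) (nat_lit 6) (nat_lit 2) (nat_lit 3) (nat_lit 254) (nat_lit 1) (nat_lit 255)) (PT.lf (nat_lit 152) (nat_lit 6) (nat_lit 2) (nat_lit 1) (nat_lit 255) (nat_lit 1) (nat_lit 254)))) (PT.nd (nat_lit 53040) (PT.lf (nat_lit 304) (nat_lit 3) (nat_lit 4) (nat_lit 1) (nat_lit 254) (nat_lit 2) (nat_lit 254)) (PT.nd (nat_lit 78) (PT.lf (nat_lit 380) (nat_lit 6) (nat_lit 5) (nat_lit 3) (nat_lit 253) (nat_lit 3) (nat_lit 254)) (PT.lf (nat_lit 380) (nat_lit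 6) (nat_lit 5) (nat_lit 1) (nat_lit 254) (nat_lit 3) (nat_lit 253))))) (PT.nd (nat_lit 106158) (PT.nd (nat_lit 53040) (PT.lf (nat_lit 532) (nat_lit 3) (nat_lit 7) (nat_lit 1) (nat_lit 253) (nat_lit 4) (nat_lit 253)) (PT.nd (nat_lit 78) (PT.lf (nat_lit 608) (nat_lit 6) (nat_lit 8) (nat_lit 3) (nat_lit 252) (nat_lit 5) (nat_lit 253)) (PT.lf (nat_lit 608) (nat_lit 6) (nat_lit 8) (nat_lit 1) (nat_lit 253) (nat_lit 5) (nat_lit 252)))) (PT.nd (nat_lit 53118) (PT.nd (nat_lit 53040) (PT.lf (nat_lit 760) (nat_lit 3) (nat_lit 10) (nat_lit 1) (nat_lit 252) (nat_lit 6) (nat_lit 252)) (PT.lf (nat_lit 836) (nat_lit 6) (nat_lit 11) (nat_lit 3) (nat_lit 251) (nat_lit 7) (nat_lit 252))) (PT.nd (nat_lit 53040) (PT.lf (nat_lit 836) (nat_lit 6) (nat_lit 11) (nat_lit 1) (nat_lit 252) (nat_lit 7) (nat_lit 251)) (PT.lf (nat_lit 988) (nat_lit 3) (nat_lit 13) (nat_lit 1) (nat_lit 251) (nat_lit 8) (nat_lit 251)))))) (PT.nd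 (nat_lit 212394) (PT.nd (nat_lit 106158) (PT.nd (nat_lit 78) (PT.lf (nat_lit 1064) (nat_lit 6) (nat_lit 14) (nat_lit 3) (nat_lit 250) (nat_lit 9) (nat_lit 251)) (PT.nd (nat_lit 53040) (PT.lf (nat_lit 1064) (nat_lit 6) (nat_lit 14) (nat_lit 1) (nat_lit 251) (nat_lit 9) (nat_lit 250)) (PT.lf (nat_lit 1216) (nat_lit 3) (nat_lit 16) (nat_lit 1) (nat_lit 250) (nat_lit 10) (nat_lit 250)))) (PT.nd (nat_lit 53118) (PT.nd (nat_lit 78) (PT.lf (nat_lit 1292) (nat_lit 6) (nat_lit 17) (nat_lit 3) (nat_lit 249) (nat_lit 11) (nat_lit 250)) (PT.lf (nat_lit 1292) (nat_lit 6) (nat_lit 17) (nat_lit 1) (nat_lit 250) (nat_lit 11) (nat_lit 249))) (PT.nd (nat_lit 53040) (PT.lf (nat_lit 1444) (nat_lit 3) (nat_lit 19) (nat_lit 1) (nat_lit 249) (nat_lit 12) (nat_lit 249)) (PT.lf (nat_lit 1520) (nat_lit 6) (nat_lit 20) (nat_lit 3) (nat_lit 248) (nat_lit 13) (nat_lit 249))))) (PT.nd (nat_lit 106158) (PT.nd (nat_lit 53040)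 (PT.lf (nat_lit 1520) (nat_lit 6) (nat_lit 20) (nat_lit 1) (nat_lit 249) (nat_lit 13) (nat_lit 248)) (PT.nd (nat_lit 53040) (PT.lf (nat_lit 1672) (nat_lit 3) (nat_lit 22) (nat_lit 1) (nat_lit 248) (nat_lit 14) (nat_lit 248)) (PT.lf (nat_lit 1748) (nat_lit 6) (nat_lit 23) (nat_lit 3) (nat_lit 247) (nat_lit 15) (nat_lit 248)))) (PT.nd (nat_lit 106080) (PT.nd (nat_lit 53040) (PT.lf (nat_lit 1748) (nat_lit 6) (nat_lit 23) (nat_lit 1) (nat_lit 248) (nat_lit 15) (nat_lit 247)) (PT.lf (nat_lit 1900) (nat_lit 3) (nat_lit 25) (nat_lit 1) (nat_lit 247) (nat_lit 16) (nat_lit 247))) (PT.nd (nat_lit 78) (PT.lf (nat_lit 1976) (nat_lit 6) (nat_lit 26) (nat_lit 3) (nat_lit 246) (nat_lit 17) (nat_lit 247)) (PT.lf (nat_lit 1976) (nat_lit 6) (nat_lit 26) (nat_lit 1) (nat_lit 247) (nat_lit 17) (nat_lit 246))))))) (PT.nd (nat_lit 477672) (PT.nd (nat_lit 212316) (PT.nd (nat_lit 106158) (PT.nd (nat_lit 53040) (PT.lf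 (nat_lit 2128) (nat_lit 3) (nat_lit 28) (nat_lit 1) (nat_lit 246) (nat_lit 18) (nat_lit 246)) (PT.nd (nat_lit 78) (PT.lf (nat_lit 2204) (nat_lit 6) (nat_lit 29) (nat_lit 3) (nat_lit 245) (nat_lit 19) (nat_lit 246)) (PT.lf (nat_lit 2204) (nat_lit 6) (nat_lit 29) (nat_lit 1) (nat_lit 246) (nat_lit 19) (nat_lit 245)))) (PT.nd (nat_lit 53040) (PT.lf (nat_lit 2356) (nat_lit 3) (nat_lit 31) (nat_lit 1) (nat_lit 245) (nat_lit 20) (nat_lit 245)) (PT.nd (nat_lit 78) (PT.lf (nat_lit 2432) (nat_lit 6) (nat_lit 32) (nat_lit 3) (nat_lit 244) (nat_lit 21) (nat_lit 245)) (PT.lf (nat_lit 2432) (nat_lit 6) (nat_lit 32) (nat_lit 1) (nat_lit 245) (nat_lit 21) (nat_lit 244))))) (PT.nd (nat_lit 106158) (PT.nd (nat_lit 53040) (PT.lf (nat_lit 2584) (nat_lit 3) (nat_lit 34) (nat_lit 1) (nat_lit 244) (nat_lit 22) (nat_lit 244)) (PT.nd (nat_lit 78) (PT.lf (nat_lit 2660) (nat_lit 6) (nat_lit 35) (nat_lit 3) (nat_lit 243)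 (nat_lit 23) (nat_lit 244)) (PT.lf (nat_lit 2660) (nat_lit 6) (nat_lit 35) (nat_lit 1) (nat_lit 244) (nat_lit 23) (nat_lit 243)))) (PT.nd (nat_lit 53118) (PT.nd (nat_lit 53040) (PT.lf (nat_lit 2812) (nat_lit 3) (nat_lit 37) (nat_lit 1) (nat_lit 243) (nat_lit 24) (nat_lit 243)) (PT.lf (nat_lit 2888) (nat_lit 6) (nat_lit 38) (nat_lit 3) (nat_lit 242) (nat_lit 25) (nat_lit 243))) (PT.nd (nat_lit 53040) (PT.lf (nat_lit 2888) (nat_lit 6) (nat_lit 38) (nat_lit 1) (nat_lit 243) (nat_lit 25) (nat_lit 242)) (PT.lf (nat_lit 3040) (nat_lit 3) (nat_lit 40) (nat_lit 1) (nat_lit 242) (nat_lit 26) (nat_lit 242)))))) (PT.nd (nat_lit 212394) (PT.nd (nat_lit 106158) (PT.nd (nat_lit 78) (PT.lf (nat_lit 3116) (nat_lit 6) (nat_lit 41) (nat_lit 3) (nat_lit 241) (nat_lit 27) (nat_lit 242)) (PT.nd (nat_lit 53040) (PT.lf (nat_lit 3116) (nat_lit 6) (nat_lit 41) (nat_lit 1) (nat_lit 242) (nat_lit 27) (nat_lit 241)) (PT.lf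 (nat_lit 3268) (nat_lit 3) (nat_lit 43) (nat_lit 1) (nat_lit 241) (nat_lit 28) (nat_lit 241)))) (PT.nd (nat_lit 53118) (PT.nd (nat_lit 78) (PT.lf (nat_lit 3344) (nat_lit 6) (nat_lit 44) (nat_lit 3) (nat_lit 240) (nat_lit 29) (nat_lit 241)) (PT.lf (nat_lit 3344) (nat_lit 6) (nat_lit 44) (nat_lit 1) (nat_lit 241) (nat_lit 29) (nat_lit 240))) (PT.nd (nat_lit 53040) (PT.lf (nat_lit 3496) (nat_lit 3) (nat_lit 46) (nat_lit 1) (nat_lit 240) (nat_lit 30) (nat_lit 240)) (PT.lf (nat_lit 3572) (nat_lit 6) (nat_lit 47) (nat_lit 3) (nat_lit 239) (nat_lit 31) (nat_lit 240))))) (PT.nd (nat_lit 106158) (PT.nd (nat_lit 53040) (PT.lf (nat_lit 3572) (nat_lit 6) (nat_lit 47) (nat_lit 1) (nat_lit 240) (nat_lit 31) (nat_lit 239)) (PT.nd (nat_lit 53040) (PT.lf (nat_lit 3724) (nat_lit 3) (nat_lit 49) (nat_lit 1) (nat_lit 239) (nat_lit 32) (nat_lit 239)) (PT.lf (nat_lit 3800) (nat_lit 6) (nat_lit 50) (nat_lit 3) (nat_lit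 238) (nat_lit 33) (nat_lit 239)))) (PT.nd (nat_lit 106080) (PT.nd (nat_lit 53040) (PT.lf (nat_lit 3800) (nat_lit 6) (nat_lit 50) (nat_lit 1) (nat_lit 239) (nat_lit 33) (nat_lit 238)) (PT.lf (nat_lit 3952) (nat_lit 3) (nat_lit 52) (nat_lit 1) (nat_lit 238) (nat_lit 34) (nat_lit 238))) (PT.nd (nat_lit 78) (PT.lf (nat_lit 4028) (nat_lit 6) (nat_lit 53) (nat_lit 3) (nat_lit 237) (nat_lit 35) (nat_lit 238)) (PT.lf (nat_lit 4028) (nat_lit 6) (nat_lit 53) (nat_lit 1) (nat_lit 238) (nat_lit 35) (nat_lit 237))))))))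
noncomputable def pc1 : PT := (PT.nd (nat_lit 530946) (PT.nd (nat_lit 265434) (PT.nd (nat_lit 106236) (PT.nd (nat_lit 53118) (PT.nd (nat_lit 78) (PT.lf (nat_lit 4104) (nat_lit 6) (nat_lit 54) (nat_lit 3) (nat_lit 236) (nat_lit 36) (nat_lit 238)) (PT.nd (nat_lit 78) (PT.lf (nat_lit 4180) (nat_lit 3) (nat_lit 55) (nat_lit 1) (nat_lit 237) (nat_lit 36) (nat_lit 237)) (PT.lf (nat_lit 4104) (nat_lit 6) (nat_lit 54) (nat_lit 1) (nat_lit 238) (nat_lit 36) (nat_lit 236)))) (PT.nd (nat_lit 78) (PT.lf (nat_lit 4256) (nat_lit 6) (nat_lit 56) (nat_lit 3) (nat_lit 236) (nat_lit 37) (nat_lit 237)) (PT.nd (nat_lit 52962) (PT.lf (nat_lit 4256) (nat_lit 6) (nat_lit 56) (nat_lit 1) (nat_lit 237) (nat_lit 37) (nat_lit 236)) (PT.lf (nat_lit 4332) (nat_lit 6) (nat_lit 57) (nat_lit 3) (nat_lit 235) (nat_lit 38) (nat_lit 237))))) (PT.nd (nat_lit 53118) (PT.nd (nat_lit 78) (PT.lf (nat_lit 4408) (nat_lit 3) (nat_lit 58)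 (nat_lit 1) (nat_lit 236) (nat_lit 38) (nat_lit 236)) (PT.nd (nat_lit 52962) (PT.lf (nat_lit 4332) (nat_lit 6) (nat_lit 57) (nat_lit 1) (nat_lit 237) (nat_lit 38) (nat_lit 235)) (PT.lf (nat_lit 4484) (nat_lit 6) (nat_lit 59) (nat_lit 3) (nat_lit 235) (nat_lit 39) (nat_lit 236)))) (PT.nd (nat_lit 53040) (PT.nd (nat_lit 52962) (PT.lf (nat_lit 4484) (nat_lit 6) (nat_lit 59) (nat_lit 1) (nat_lit 236) (nat_lit 39) (nat_lit 235)) (PT.lf (nat_lit 4560) (nat_lit 6) (nat_lit 60) (nat_lit 3) (nat_lit 234) (nat_lit 40) (nat_lit 236))) (PT.nd (nat_lit 78) (PT.lf (nat_lit 4636) (nat_lit 3) (nat_lit 61) (nat_lit 1) (nat_lit 235) (nat_lit 40) (nat_lit 235)) (PT.lf (nat_lit 4560) (nat_lit 6) (nat_lit 60) (nat_lit 1) (nat_lit 236) (nat_lit 40) (nat_lit 234)))))) (PT.nd (nat_lit 159198) (PT.nd (nat_lit 53118) (PT.nd (nat_lit 78) (PT.lf (nat_lit 4712) (nat_lit 6) (nat_lit 62) (nat_lit 3) (nat_lit 234) (nat_lit 41)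 (nat_lit 235)) (PT.nd (nat_lit 52962) (PT.lf (nat_lit 4712) (nat_lit 6) (nat_lit 62) (nat_lit 1) (nat_lit 235) (nat_lit 41) (nat_lit 234)) (PT.lf (nat_lit 4788) (nat_lit 6) (nat_lit 63) (nat_lit 3) (nat_lit 233) (nat_lit 42) (nat_lit 235)))) (PT.nd (nat_lit 53040) (PT.nd (nat_lit 78) (PT.lf (nat_lit 4864) (nat_lit 3) (nat_lit 64) (nat_lit 1) (nat_lit 234) (nat_lit 42) (nat_lit 234)) (PT.lf (nat_lit 4788) (nat_lit 6) (nat_lit 63) (nat_lit 1) (nat_lit 235) (nat_lit 42) (nat_lit 233))) (PT.nd (nat_lit 78) (PT.lf (nat_lit 4940) (nat_lit 6) (nat_lit 65) (nat_lit 3) (nat_lit 233) (nat_lit 43) (nat_lit 234)) (PT.lf (nat_lit 4940) (nat_lit 6) (nat_lit 65) (nat_lit 1) (nat_lit 234) (nat_lit 43) (nat_lit 233))))) (PT.nd (nat_lit 53118) (PT.nd (nat_lit 78) (PT.lf (nat_lit 5016) (nat_lit 6) (nat_lit 66) (nat_lit 3) (nat_lit 232) (nat_lit 44) (nat_lit 234)) (PT.nd (nat_lit 78) (PT.lf (nat_lit 5092) (nat_lit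 3) (nat_lit 67) (nat_lit 1) (nat_lit 233) (nat_lit 44) (nat_lit 233)) (PT.lf (nat_lit 5016) (nat_lit 6) (nat_lit 66) (nat_lit 1) (nat_lit 234) (nat_lit 44) (nat_lit 232)))) (PT.nd (nat_lit 53040) (PT.nd (nat_lit 78) (PT.lf (nat_lit 5168) (nat_lit 6) (nat_lit 68) (nat_lit 3) (nat_lit 232) (nat_lit 45) (nat_lit 233)) (PT.lf (nat_lit 5168) (nat_lit 6) (nat_lit 68) (nat_lit 1) (nat_lit 233) (nat_lit 45) (nat_lit 232))) (PT.nd (nat_lit 78) (PT.lf (nat_lit 5244) (nat_lit 6) (nat_lit 69) (nat_lit 3) (nat_lit 231) (nat_lit 46) (nat_lit 233)) (PT.lf (nat_lit 5320) (nat_lit 3) (nat_lit 70) (nat_lit 1) (nat_lit 232) (nat_lit 46) (nat_lit 232))))))) (PT.nd (nat_lit 318318) (PT.nd (nat_lit 159120) (PT.nd (nat_lit 106002) (PT.nd (nat_lit 52962) (PT.lf (nat_lit 5244) (nat_lit 6) (nat_lit 69) (nat_lit 1) (nat_lit 233) (nat_lit 46) (nat_lit 231)) (PT.nd (nat_lit 78) (PT.lf (nat_lit 5396) (nat_lit 6) (nat_lit 71)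 (nat_lit 3) (nat_lit 231) (nat_lit 47) (nat_lit 232)) (PT.lf (nat_lit 5396) (nat_lit 6) (nat_lit 71) (nat_lit 1) (nat_lit 232) (nat_lit 47) (nat_lit 231)))) (PT.nd (nat_lit 78) (PT.lf (nat_lit 5472) (nat_lit 6) (nat_lit 72) (nat_lit 3) (nat_lit 230) (nat_lit 48) (nat_lit 232)) (PT.nd (nat_lit 78) (PT.lf (nat_lit 5548) (nat_lit 3) (nat_lit 73) (nat_lit 1) (nat_lit 231) (nat_lit 48) (nat_lit 231)) (PT.lf (nat_lit 5472) (nat_lit 6) (nat_lit 72) (nat_lit 1) (nat_lit 232) (nat_lit 48) (nat_lit 230))))) (PT.nd (nat_lit 53118) (PT.nd (nat_lit 78) (PT.lf (nat_lit 5624) (nat_lit 6) (nat_lit 74) (nat_lit 3) (nat_lit 230) (nat_lit 49) (nat_lit 231)) (PT.nd (nat_lit 52962) (PT.lf (nat_lit 5624) (nat_lit 6) (nat_lit 74) (nat_lit 1) (nat_lit 231) (nat_lit 49) (nat_lit 230)) (PT.lf (nat_lit 5700) (nat_lit 6) (nat_lit 75) (nat_lit 3) (nat_lit 229) (nat_lit 50) (nat_lit 231)))) (PT.nd (nat_lit 53040) (PT.nd (nat_lit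 78) (PT.lf (nat_lit 5776) (nat_lit 3) (nat_lit 76) (nat_lit 1) (nat_lit 230) (nat_lit 50) (nat_lit 230)) (PT.lf (nat_lit 5700) (nat_lit 6) (nat_lit 75) (nat_lit 1) (nat_lit 231) (nat_lit 50) (nat_lit 229))) (PT.nd (nat_lit 78) (PT.lf (nat_lit 5852) (nat_lit 6) (nat_lit 77) (nat_lit 3) (nat_lit 229) (nat_lit 51) (nat_lit 230)) (PT.lf (nat_lit 5852) (nat_lit 6) (nat_lit 77) (nat_lit 1) (nat_lit 230) (nat_lit 51) (nat_lit 229)))))) (PT.nd (nat_lit 106314) (PT.nd (nat_lit 53118) (PT.nd (nat_lit 78) (PT.lf (nat_lit 5928) (nat_lit 6) (nat_lit 78) (nat_lit 3) (nat_lit 228) (nat_lit 52) (nat_lit 230)) (PT.nd (nat_lit 78) (PT.lf (nat_lit 6004) (nat_lit 3) (nat_lit 79) (nat_lit 1) (nat_lit 229) (nat_lit 52) (nat_lit 229)) (PT.lf (nat_lit 5928) (nat_lit 6) (nat_lit 78) (nat_lit 1) (nat_lit 230) (nat_lit 52) (nat_lit 228)))) (PT.nd (nat_lit 53040) (PT.nd (nat_lit 78) (PT.lf (nat_lit 6080) (nat_lit 6) (nat_lit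 80) (nat_lit 3) (nat_lit 228) (nat_lit 53) (nat_lit 229)) (PT.lf (nat_lit 6080) (nat_lit 6) (nat_lit 80) (nat_lit 1) (nat_lit 229) (nat_lit 53) (nat_lit 228))) (PT.nd (nat_lit 78) (PT.lf (nat_lit 6156) (nat_lit 6) (nat_lit 81) (nat_lit 3) (nat_lit 227) (nat_lit 54) (nat_lit 229)) (PT.lf (nat_lit 6232) (nat_lit 3) (nat_lit 82) (nat_lit 1) (nat_lit 228) (nat_lit 54) (nat_lit 228))))) (PT.nd (nat_lit 106002) (PT.nd (nat_lit 52962) (PT.lf (nat_lit 6156) (nat_lit 6) (nat_lit 81) (nat_lit 1) (nat_lit 229) (nat_lit 54) (nat_lit 227)) (PT.nd (nat_lit 78) (PT.lf (nat_lit 6308) (nat_lit 6) (nat_lit 83) (nat_lit 3) (nat_lit 227) (nat_lit 55) (nat_lit 228)) (PT.lf (nat_lit 6308) (nat_lit 6) (nat_lit 83) (nat_lit 1) (nat_lit 228) (nat_lit 55) (nat_lit 227)))) (PT.nd (nat_lit 156) (PT.nd (nat_lit 78) (PT.lf (nat_lit 6384) (nat_lit 6) (nat_lit 84) (nat_lit 3) (nat_lit 226) (nat_lit 56) (nat_lit 228)) (PT.lf (nat_lit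 6460) (nat_lit 3) (nat_lit 85) (nat_lit 1) (nat_lit 227) (nat_lit 56) (nat_lit 227))) (PT.nd (nat_lit 52962) (PT.lf (nat_lit 6384) (nat_lit 6) (nat_lit 84) (nat_lit 1) (nat_lit 228) (nat_lit 56) (nat_lit 226)) (PT.lf (nat_lit 6536) (nat_lit 6) (nat_lit 86) (nat_lit 3) (nat_lit 226) (nat_lit 57) (nat_lit 227))))))))
noncomputable def pc2 : PT := (PT.nd (nat_lit 583830) (PT.nd (nat_lit 265434) (PT.nd (nat_lit 159120) (PT.nd (nat_lit 53118) (PT.nd (nat_lit 52962) (PT.lf (nat_lit 6536) (nat_lit 6) (nat_lit 86) (nat_lit 1) (nat_lit 227) (nat_lit 57) (nat_lit 226)) (PT.nd (nat_lit 78) (PT.lf (nat_lit 6612) (nat_lit 6) (nat_lit 87) (nat_lit 3) (nat_lit 225) (nat_lit 58) (nat_lit 227)) (PT.lf (nat_lit 6688) (nat_lit 3) (nat_lit 88) (nat_lit 1) (nat_lit 226) (nat_lit 58) (nat_lit 226)))) (PT.nd (nat_lit 52962) (PT.lf (nat_lit 6612) (nat_lit 6) (nat_lit 87) (nat_lit 1) (nat_lit 227) (nat_lit 58) (nat_lit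 225)) (PT.nd (nat_lit 78) (PT.lf (nat_lit 6764) (nat_lit 6) (nat_lit 89) (nat_lit 3) (nat_lit 225) (nat_lit 59) (nat_lit 226)) (PT.lf (nat_lit 6764) (nat_lit 6) (nat_lit 89) (nat_lit 1) (nat_lit 226) (nat_lit 59) (nat_lit 225))))) (PT.nd (nat_lit 53118) (PT.nd (nat_lit 78) (PT.lf (nat_lit 6840) (nat_lit 6) (nat_lit 90) (nat_lit 3) (nat_lit 224) (nat_lit 60) (nat_lit 226)) (PT.nd (nat_lit 78) (PT.lf (nat_lit 6916) (nat_lit 3) (nat_lit 91) (nat_lit 1) (nat_lit 225) (nat_lit 60) (nat_lit 225)) (PT.lf (nat_lit 6840) (nat_lit 6) (nat_lit 90) (nat_lit 1) (nat_lit 226) (nat_lit 60) (nat_lit 224)))) (PT.nd (nat_lit 53040) (PT.nd (nat_lit 78) (PT.lf (nat_lit 6992) (nat_lit 6) (nat_lit 92) (nat_lit 3) (nat_lit 224) (nat_lit 61) (nat_lit 225)) (PT.lf (nat_lit 6992) (nat_lit 6) (nat_lit 92) (nat_lit 1) (nat_lit 225) (nat_lit 61) (nat_lit 224))) (PT.nd (nat_lit 78) (PT.lf (nat_lit 7068) (nat_lit 6) (nat_lit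 93) (nat_lit 3) (nat_lit 223) (nat_lit 62) (nat_lit 225)) (PT.lf (nat_lit 7144) (nat_lit 3) (nat_lit 94) (nat_lit 1) (nat_lit 224) (nat_lit 62) (nat_lit 224)))))) (PT.nd (nat_lit 159198) (PT.nd (nat_lit 106002) (PT.nd (nat_lit 52962) (PT.lf (nat_lit 7068) (nat_lit 6) (nat_lit 93) (nat_lit 1) (nat_lit 225) (nat_lit 62) (nat_lit 223)) (PT.nd (nat_lit 78) (PT.lf (nat_lit 7220) (nat_lit 6) (nat_lit 95) (nat_lit 3) (nat_lit 223) (nat_lit 63) (nat_lit 224)) (PT.lf (nat_lit 7220) (nat_lit 6) (nat_lit 95) (nat_lit 1) (nat_lit 224) (nat_lit 63) (nat_lit 223)))) (PT.nd (nat_lit 156) (PT.nd (nat_lit 78) (PT.lf (nat_lit 7296) (nat_lit 6) (nat_lit 96) (nat_lit 3) (nat_lit 222) (nat_lit 64) (nat_lit 224)) (PT.lf (nat_lit 7372) (nat_lit 3) (nat_lit 97) (nat_lit 1) (nat_lit 223) (nat_lit 64) (nat_lit 223))) (PT.nd (nat_lit 52962) (PT.lf (nat_lit 7296) (nat_lit 6) (nat_lit 96) (nat_lit 1) (nat_lit 224) (nat_lit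 64) (nat_lit 222)) (PT.lf (nat_lit 7448) (nat_lit 6) (nat_lit 98) (nat_lit 3) (nat_lit 222) (nat_lit 65) (nat_lit 223))))) (PT.nd (nat_lit 53118) (PT.nd (nat_lit 52962) (PT.lf (nat_lit 7448) (nat_lit 6) (nat_lit 98) (nat_lit 1) (nat_lit 223) (nat_lit 65) (nat_lit 222)) (PT.nd (nat_lit 78) (PT.lf (nat_lit 7524) (nat_lit 6) (nat_lit 99) (nat_lit 3) (nat_lit 221) (nat_lit 66) (nat_lit 223)) (PT.lf (nat_lit 7600) (nat_lit 3) (nat_lit 100) (nat_lit 1) (nat_lit 222) (nat_lit 66) (nat_lit 222)))) (PT.nd (nat_lit 53040) (PT.nd (nat_lit 52962) (PT.lf (nat_lit 7524) (nat_lit 6) (nat_lit 99) (nat_lit 1) (nat_lit 223) (nat_lit 66) (nat_lit 221)) (PT.lf (nat_lit 7676) (nat_lit 6) (nat_lit 101) (nat_lit 3) (nat_lit 221) (nat_lit 67) (nat_lit 222))) (PT.nd (nat_lit 52962) (PT.lf (nat_lit 7676) (nat_lit 6) (nat_lit 101) (nat_lit 1) (nat_lit 222) (nat_lit 67) (nat_lit 221)) (PT.lf (nat_lit 7752) (nat_lit 6) (nat_lit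 102) (nat_lit 3) (nat_lit 220) (nat_lit 68) (nat_lit 222))))))) (PT.nd (nat_lit 265434) (PT.nd (nat_lit 106236) (PT.nd (nat_lit 53118) (PT.nd (nat_lit 78) (PT.lf (nat_lit 7828) (nat_lit 3) (nat_lit 103) (nat_lit 1) (nat_lit 221) (nat_lit 68) (nat_lit 221)) (PT.nd (nat_lit 52962) (PT.lf (nat_lit 7752) (nat_lit 6) (nat_lit 102) (nat_lit 1) (nat_lit 222) (nat_lit 68) (nat_lit 220)) (PT.lf (nat_lit 7904) (nat_lit 6) (nat_lit 104) (nat_lit 3) (nat_lit 220) (nat_lit 69) (nat_lit 221)))) (PT.nd (nat_lit 52962) (PT.lf (nat_lit 7904) (nat_lit 6) (nat_lit 104) (nat_lit 1) (nat_lit 221) (nat_lit 69) (nat_lit 220)) (PT.nd (nat_lit 78) (PT.lf (nat_lit 7980) (nat_lit 6) (nat_lit 105) (nat_lit 3) (nat_lit 219) (nat_lit 70) (nat_lit 221)) (PT.lf (nat_lit 8056) (nat_lit 3) (nat_lit 106) (nat_lit 1) (nat_lit 220) (nat_lit 70) (nat_lit 220))))) (PT.nd (nat_lit 106002) (PT.nd (nat_lit 52962) (PT.lf (nat_lit 7980)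 (nat_lit 6) (nat_lit 105) (nat_lit 1) (nat_lit 221) (nat_lit 70) (nat_lit 219)) (PT.nd (nat_lit 78) (PT.lf (nat_lit 8132) (nat_lit 6) (nat_lit 107) (nat_lit 3) (nat_lit 219) (nat_lit 71) (nat_lit 220)) (PT.lf (nat_lit 8132) (nat_lit 6) (nat_lit 107) (nat_lit 1) (nat_lit 220) (nat_lit 71) (nat_lit 219)))) (PT.nd (nat_lit 156) (PT.nd (nat_lit 78) (PT.lf (nat_lit 8208) (nat_lit 6) (nat_lit 108) (nat_lit 3) (nat_lit 218) (nat_lit 72) (nat_lit 220)) (PT.lf (nat_lit 8284) (nat_lit 3) (nat_lit 109) (nat_lit 1) (nat_lit 219) (nat_lit 72) (nat_lit 219))) (PT.nd (nat_lit 52962) (PT.lf (nat_lit 8208) (nat_lit 6) (nat_lit 108) (nat_lit 1) (nat_lit 220) (nat_lit 72) (nat_lit 218)) (PT.lf (nat_lit 8360) (nat_lit 6) (nat_lit 110) (nat_lit 3) (nat_lit 218) (nat_lit 73) (nat_lit 219)))))) (PT.nd (nat_lit 159198) (PT.nd (nat_lit 53118) (PT.nd (nat_lit 52962) (PT.lf (nat_lit 8360) (nat_lit 6) (nat_lit 110) (nat_lit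 1) (nat_lit 219) (nat_lit 73) (nat_lit 218)) (PT.nd (nat_lit 78) (PT.lf (nat_lit 8436) (nat_lit 6) (nat_lit 111) (nat_lit 3) (nat_lit 217) (nat_lit 74) (nat_lit 219)) (PT.lf (nat_lit 8512) (nat_lit 3) (nat_lit 112) (nat_lit 1) (nat_lit 218) (nat_lit 74) (nat_lit 218)))) (PT.nd (nat_lit 53040) (PT.nd (nat_lit 52962) (PT.lf (nat_lit 8436) (nat_lit 6) (nat_lit 111) (nat_lit 1) (nat_lit 219) (nat_lit 74) (nat_lit 217)) (PT.lf (nat_lit 8588) (nat_lit 6) (nat_lit 113) (nat_lit 3) (nat_lit 217) (nat_lit 75) (nat_lit 218))) (PT.nd (nat_lit 52962) (PT.lf (nat_lit 8588) (nat_lit 6) (nat_lit 113) (nat_lit 1) (nat_lit 218) (nat_lit 75) (nat_lit 217)) (PT.lf (nat_lit 8664) (nat_lit 6) (nat_lit 114) (nat_lit 3) (nat_lit 216) (nat_lit 76) (nat_lit 218))))) (PT.nd (nat_lit 53118) (PT.nd (nat_lit 78) (PT.lf (nat_lit 8740) (nat_lit 3) (nat_lit 115) (nat_lit 1) (nat_lit 217) (nat_lit 76) (nat_lit 217)) (PT.nd (nat_lit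 52962) (PT.lf (nat_lit 8664) (nat_lit 6) (nat_lit 114) (nat_lit 1) (nat_lit 218) (nat_lit 76) (nat_lit 216)) (PT.lf (nat_lit 8816) (nat_lit 6) (nat_lit 116) (nat_lit 3) (nat_lit 216) (nat_lit 77) (nat_lit 217)))) (PT.nd (nat_lit 53040) (PT.nd (nat_lit 52962) (PT.lf (nat_lit 8816) (nat_lit 6) (nat_lit 116) (nat_lit 1) (nat_lit 217) (nat_lit 77) (nat_lit 216)) (PT.lf (nat_lit 8892) (nat_lit 6) (nat_lit 117) (nat_lit 3) (nat_lit 215) (nat_lit 78) (nat_lit 217))) (PT.nd (nat_lit 78) (PT.lf (nat_lit 8968) (nat_lit 3) (nat_lit 118) (nat_lit 1) (nat_lit 216) (nat_lit 78) (nat_lit 216)) (PT.lf (nat_lit 8892) (nat_lit 6) (nat_lit 117) (nat_lit 1) (nat_lit 217) (nat_lit 78) (nat_lit 215))))))))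
noncomputable def pc3 : PT := (PT.nd (nat_lit 583830) (PT.nd (nat_lit 265434) (PT.nd (nat_lit 106236) (PT.nd (nat_lit 53118) (PT.nd (nat_lit 78) (PT.lf (nat_lit 9044) (nat_lit 6) (nat_lit 119) (nat_lit 3) (nat_lit 215) (nat_lit 79) (nat_lit 216)) (PT.nd (nat_lit 52962) (PT.lf (nat_lit 9044) (nat_lit 6) (nat_lit 119) (nat_lit 1) (nat_lit 216) (nat_lit 79) (nat_lit 215)) (PT.lf (nat_lit 9120) (nat_lit 6) (nat_lit 120) (nat_lit 3) (nat_lit 214) (nat_lit 80) (nat_lit 216)))) (PT.nd (nat_lit 78) (PT.lf (nat_lit 9196) (nat_lit 3) (nat_lit 121) (nat_lit 1) (nat_lit 215) (nat_lit 80) (nat_lit 215)) (PT.nd (nat_lit 52962) (PT.lf (nat_lit 9120) (nat_lit 6) (nat_lit 120) (nat_lit 1) (nat_lit 216) (nat_lit 80) (nat_lit 214)) (PT.lf (nat_lit 9272) (nat_lit 6) (nat_lit 122) (nat_lit 3) (nat_lit 214) (nat_lit 81) (nat_lit 215))))) (PT.nd (nat_lit 53118) (PT.nd (nat_lit 52962) (PT.lf (nat_lit 9272) (nat_lit 6)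 (nat_lit 122) (nat_lit 1) (nat_lit 215) (nat_lit 81) (nat_lit 214)) (PT.nd (nat_lit 78) (PT.lf (nat_lit 9348) (nat_lit 6) (nat_lit 123) (nat_lit 3) (nat_lit 213) (nat_lit 82) (nat_lit 215)) (PT.lf (nat_lit 9424) (nat_lit 3) (nat_lit 124) (nat_lit 1) (nat_lit 214) (nat_lit 82) (nat_lit 214)))) (PT.nd (nat_lit 53040) (PT.nd (nat_lit 52962) (PT.lf (nat_lit 9348) (nat_lit 6) (nat_lit 123) (nat_lit 1) (nat_lit 215) (nat_lit 82) (nat_lit 213)) (PT.lf (nat_lit 9500) (nat_lit 6) (nat_lit 125) (nat_lit 3) (nat_lit 213) (nat_lit 83) (nat_lit 214))) (PT.nd (nat_lit 52962) (PT.lf (nat_lit 9500) (nat_lit 6) (nat_lit 125) (nat_lit 1) (nat_lit 214) (nat_lit 83) (nat_lit 213)) (PT.lf (nat_lit 9576) (nat_lit 6) (nat_lit 126) (nat_lit 3) (nat_lit 212) (nat_lit 84) (nat_lit 214)))))) (PT.nd (nat_lit 159198) (PT.nd (nat_lit 53118) (PT.nd (nat_lit 78) (PT.lf (nat_lit 9652) (nat_lit 3) (nat_lit 127) (nat_lit 1) (nat_lit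 213) (nat_lit 84) (nat_lit 213)) (PT.nd (nat_lit 52962) (PT.lf (nat_lit 9576) (nat_lit 6) (nat_lit 126) (nat_lit 1) (nat_lit 214) (nat_lit 84) (nat_lit 212)) (PT.lf (nat_lit 9728) (nat_lit 6) (nat_lit 128) (nat_lit 3) (nat_lit 212) (nat_lit 85) (nat_lit 213)))) (PT.nd (nat_lit 53040) (PT.nd (nat_lit 52962) (PT.lf (nat_lit 9728) (nat_lit 6) (nat_lit 128) (nat_lit 1) (nat_lit 213) (nat_lit 85) (nat_lit 212)) (PT.lf (nat_lit 9804) (nat_lit 6) (nat_lit 129) (nat_lit 3) (nat_lit 211) (nat_lit 86) (nat_lit 213))) (PT.nd (nat_lit 78) (PT.lf (nat_lit 9880) (nat_lit 3) (nat_lit 130) (nat_lit 1) (nat_lit 212) (nat_lit 86) (nat_lit 212)) (PT.lf (nat_lit 9804) (nat_lit 6) (nat_lit 129) (nat_lit 1) (nat_lit 213) (nat_lit 86) (nat_lit 211))))) (PT.nd (nat_lit 53118) (PT.nd (nat_lit 78) (PT.lf (nat_lit 9956) (nat_lit 6) (nat_lit 131) (nat_lit 3) (nat_lit 211) (nat_lit 87) (nat_lit 212)) (PT.nd (nat_lit 52962)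 (PT.lf (nat_lit 9956) (nat_lit 6) (nat_lit 131) (nat_lit 1) (nat_lit 212) (nat_lit 87) (nat_lit 211)) (PT.lf (nat_lit 10032) (nat_lit 6) (nat_lit 132) (nat_lit 3) (nat_lit 210) (nat_lit 88) (nat_lit 212)))) (PT.nd (nat_lit 53040) (PT.nd (nat_lit 78) (PT.lf (nat_lit 10108) (nat_lit 3) (nat_lit 133) (nat_lit 1) (nat_lit 211) (nat_lit 88) (nat_lit 211)) (PT.lf (nat_lit 10032) (nat_lit 6) (nat_lit 132) (nat_lit 1) (nat_lit 212) (nat_lit 88) (nat_lit 210))) (PT.nd (nat_lit 78) (PT.lf (nat_lit 10184) (nat_lit 6) (nat_lit 134) (nat_lit 3) (nat_lit 210) (nat_lit 89) (nat_lit 211)) (PT.lf (nat_lit 10184) (nat_lit 6) (nat_lit 134) (nat_lit 1) (nat_lit 211) (nat_lit 89) (nat_lit 210))))))) (PT.nd (nat_lit 265434) (PT.nd (nat_lit 106236) (PT.nd (nat_lit 53118) (PT.nd (nat_lit 78) (PT.lf (nat_lit 10260) (nat_lit 6) (nat_lit 135) (nat_lit 3) (nat_lit 209) (nat_lit 90) (nat_lit 211)) (PT.nd (nat_lit 78) (PT.lf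 (nat_lit 10336) (nat_lit 3) (nat_lit 136) (nat_lit 1) (nat_lit 210) (nat_lit 90) (nat_lit 210)) (PT.lf (nat_lit 10260) (nat_lit 6) (nat_lit 135) (nat_lit 1) (nat_lit 211) (nat_lit 90) (nat_lit 209)))) (PT.nd (nat_lit 78) (PT.lf (nat_lit 10412) (nat_lit 6) (nat_lit 137) (nat_lit 3) (nat_lit 209) (nat_lit 91) (nat_lit 210)) (PT.nd (nat_lit 52962) (PT.lf (nat_lit 10412) (nat_lit 6) (nat_lit 137) (nat_lit 1) (nat_lit 210) (nat_lit 91) (nat_lit 209)) (PT.lf (nat_lit 10488) (nat_lit 6) (nat_lit 138) (nat_lit 3) (nat_lit 208) (nat_lit 92) (nat_lit 210))))) (PT.nd (nat_lit 53118) (PT.nd (nat_lit 78) (PT.lf (nat_lit 10564) (nat_lit 3) (nat_lit 139) (nat_lit 1) (nat_lit 209) (nat_lit 92) (nat_lit 209)) (PT.nd (nat_lit 52962) (PT.lf (nat_lit 10488) (nat_lit 6) (nat_lit 138) (nat_lit 1) (nat_lit 210) (nat_lit 92) (nat_lit 208)) (PT.lf (nat_lit 10640) (nat_lit 6) (nat_lit 140) (nat_lit 3) (nat_lit 208) (nat_lit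 93) (nat_lit 209)))) (PT.nd (nat_lit 53040) (PT.nd (nat_lit 52962) (PT.lf (nat_lit 10640) (nat_lit 6) (nat_lit 140) (nat_lit 1) (nat_lit 209) (nat_lit 93) (nat_lit 208)) (PT.lf (nat_lit 10716) (nat_lit 6) (nat_lit 141) (nat_lit 3) (nat_lit 207) (nat_lit 94) (nat_lit 209))) (PT.nd (nat_lit 78) (PT.lf (nat_lit 10792) (nat_lit 3) (nat_lit 142) (nat_lit 1) (nat_lit 208) (nat_lit 94) (nat_lit 208)) (PT.lf (nat_lit 10716) (nat_lit 6) (nat_lit 141) (nat_lit 1) (nat_lit 209) (nat_lit 94) (nat_lit 207)))))) (PT.nd (nat_lit 159198) (PT.nd (nat_lit 53118) (PT.nd (nat_lit 78) (PT.lf (nat_lit 10868) (nat_lit 6) (nat_lit 143) (nat_lit 3) (nat_lit 207) (nat_lit 95) (nat_lit 208)) (PT.nd (nat_lit 52962) (PT.lf (nat_lit 10868) (nat_lit 6) (nat_lit 143) (nat_lit 1) (nat_lit 208) (nat_lit 95) (nat_lit 207)) (PT.lf (nat_lit 10944) (nat_lit 6) (nat_lit 144) (nat_lit 3) (nat_lit 206) (nat_lit 96) (nat_lit 208)))) (PT.nd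 (nat_lit 53040) (PT.nd (nat_lit 78) (PT.lf (nat_lit 11020) (nat_lit 3) (nat_lit 145) (nat_lit 1) (nat_lit 207) (nat_lit 96) (nat_lit 207)) (PT.lf (nat_lit 10944) (nat_lit 6) (nat_lit 144) (nat_lit 1) (nat_lit 208) (nat_lit 96) (nat_lit 206))) (PT.nd (nat_lit 78) (PT.lf (nat_lit 11096) (nat_lit 6) (nat_lit 146) (nat_lit 3) (nat_lit 206) (nat_lit 97) (nat_lit 207)) (PT.lf (nat_lit 11096) (nat_lit 6) (nat_lit 146) (nat_lit 1) (nat_lit 207) (nat_lit 97) (nat_lit 206))))) (PT.nd (nat_lit 53118) (PT.nd (nat_lit 78) (PT.lf (nat_lit 11172) (nat_lit 6) (nat_lit 147) (nat_lit 3) (nat_lit 205) (nat_lit 98) (nat_lit 207)) (PT.nd (nat_lit 78) (PT.lf (nat_lit 11248) (nat_lit 3) (nat_lit 148) (nat_lit 1) (nat_lit 206) (nat_lit 98) (nat_lit 206)) (PT.lf (nat_lit 11172) (nat_lit 6) (nat_lit 147) (nat_lit 1) (nat_lit 207) (nat_lit 98) (nat_lit 205)))) (PT.nd (nat_lit 53040) (PT.nd (nat_lit 78) (PT.lf (nat_lit 11324)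 (nat_lit 6) (nat_lit 149) (nat_lit 3) (nat_lit 205) (nat_lit 99) (nat_lit 206)) (PT.lf (nat_lit 11324) (nat_lit 6) (nat_lit 149) (nat_lit 1) (nat_lit 206) (nat_lit 99) (nat_lit 205))) (PT.nd (nat_lit 78) (PT.lf (nat_lit 11400) (nat_lit 6) (nat_lit 150) (nat_lit 3) (nat_lit 204) (nat_lit 100) (nat_lit 206)) (PT.lf (nat_lit 11476) (nat_lit 3) (nat_lit 151) (nat_lit 1) (nat_lit 205) (nat_lit 100) (nat_lit 205))))))))
noncomputable def pc4 : PT := (PT.nd (nat_lit 583830) (PT.nd (nat_lit 318318) (PT.nd (nat_lit 159120) (PT.nd (nat_lit 106002) (PT.nd (nat_lit 52962) (PT.lf (nat_lit 11400) (nat_lit 6) (nat_lit 150) (nat_lit 1) (nat_lit 206) (nat_lit 100) (nat_lit 204)) (PT.nd (nat_lit 78) (PT.lf (nat_lit 11552) (nat_lit 6) (nat_lit 152) (nat_lit 3) (nat_lit 204) (nat_lit 101) (nat_lit 205)) (PT.lf (nat_lit 11552) (nat_lit 6) (nat_lit 152) (nat_lit 1) (nat_lit 205) (nat_lit 101) (nat_lit 204)))) (PT.nd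 (nat_lit 78) (PT.lf (nat_lit 11628) (nat_lit 6) (nat_lit 153) (nat_lit 3) (nat_lit 203) (nat_lit 102) (nat_lit 205)) (PT.nd (nat_lit 78) (PT.lf (nat_lit 11704) (nat_lit 3) (nat_lit 154) (nat_lit 1) (nat_lit 204) (nat_lit 102) (nat_lit 204)) (PT.lf (nat_lit 11628) (nat_lit 6) (nat_lit 153) (nat_lit 1) (nat_lit 205) (nat_lit 102) (nat_lit 203))))) (PT.nd (nat_lit 53118) (PT.nd (nat_lit 78) (PT.lf (nat_lit 11780) (nat_lit 6) (nat_lit 155) (nat_lit 3) (nat_lit 203) (nat_lit 103) (nat_lit 204)) (PT.nd (nat_lit 52962) (PT.lf (nat_lit 11780) (nat_lit 6) (nat_lit 155) (nat_lit 1) (nat_lit 204) (nat_lit 103) (nat_lit 203)) (PT.lf (nat_lit 11856) (nat_lit 6) (nat_lit 156) (nat_lit 3) (nat_lit 202) (nat_lit 104) (nat_lit 204)))) (PT.nd (nat_lit 53040) (PT.nd (nat_lit 78) (PT.lf (nat_lit 11932) (nat_lit 3) (nat_lit 157) (nat_lit 1) (nat_lit 203) (nat_lit 104) (nat_lit 203)) (PT.lf (nat_lit 11856) (nat_lit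 6) (nat_lit 156) (nat_lit 1) (nat_lit 204) (nat_lit 104) (nat_lit 202))) (PT.nd (nat_lit 78) (PT.lf (nat_lit 12008) (nat_lit 6) (nat_lit 158) (nat_lit 3) (nat_lit 202) (nat_lit 105) (nat_lit 203)) (PT.lf (nat_lit 12008) (nat_lit 6) (nat_lit 158) (nat_lit 1) (nat_lit 203) (nat_lit 105) (nat_lit 202)))))) (PT.nd (nat_lit 106314) (PT.nd (nat_lit 53118) (PT.nd (nat_lit 78) (PT.lf (nat_lit 12084) (nat_lit 6) (nat_lit 159) (nat_lit 3) (nat_lit 201) (nat_lit 106) (nat_lit 203)) (PT.nd (nat_lit 78) (PT.lf (nat_lit 12160) (nat_lit 3) (nat_lit 160) (nat_lit 1) (nat_lit 202) (nat_lit 106) (nat_lit 202)) (PT.lf (nat_lit 12084) (nat_lit 6) (nat_lit 159) (nat_lit 1) (nat_lit 203) (nat_lit 106) (nat_lit 201)))) (PT.nd (nat_lit 53040) (PT.nd (nat_lit 78) (PT.lf (nat_lit 12236) (nat_lit 6) (nat_lit 161) (nat_lit 3) (nat_lit 201) (nat_lit 107) (nat_lit 202)) (PT.lf (nat_lit 12236) (nat_lit 6) (nat_lit 161) (nat_lit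 1) (nat_lit 202) (nat_lit 107) (nat_lit 201))) (PT.nd (nat_lit 78) (PT.lf (nat_lit 12312) (nat_lit 6) (nat_lit 162) (nat_lit 3) (nat_lit 200) (nat_lit 108) (nat_lit 202)) (PT.lf (nat_lit 12388) (nat_lit 3) (nat_lit 163) (nat_lit 1) (nat_lit 201) (nat_lit 108) (nat_lit 201))))) (PT.nd (nat_lit 106002) (PT.nd (nat_lit 52962) (PT.lf (nat_lit 12312) (nat_lit 6) (nat_lit 162) (nat_lit 1) (nat_lit 202) (nat_lit 108) (nat_lit 200)) (PT.nd (nat_lit 78) (PT.lf (nat_lit 12464) (nat_lit 6) (nat_lit 164) (nat_lit 3) (nat_lit 200) (nat_lit 109) (nat_lit 201)) (PT.lf (nat_lit 12464) (nat_lit 6) (nat_lit 164) (nat_lit 1) (nat_lit 201) (nat_lit 109) (nat_lit 200)))) (PT.nd (nat_lit 156) (PT.nd (nat_lit 78) (PT.lf (nat_lit 12540) (nat_lit 6) (nat_lit 165) (nat_lit 3) (nat_lit 199) (nat_lit 110) (nat_lit 201)) (PT.lf (nat_lit 12616) (nat_lit 3) (nat_lit 166) (nat_lit 1) (nat_lit 200) (nat_lit 110) (nat_lit 200)))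 (PT.nd (nat_lit 52962) (PT.lf (nat_lit 12540) (nat_lit 6) (nat_lit 165) (nat_lit 1) (nat_lit 201) (nat_lit 110) (nat_lit 199)) (PT.lf (nat_lit 12692) (nat_lit 6) (nat_lit 167) (nat_lit 3) (nat_lit 199) (nat_lit 111) (nat_lit 200))))))) (PT.nd (nat_lit 265434) (PT.nd (nat_lit 159120) (PT.nd (nat_lit 53118) (PT.nd (nat_lit 52962) (PT.lf (nat_lit 12692) (nat_lit 6) (nat_lit 167) (nat_lit 1) (nat_lit 200) (nat_lit 111) (nat_lit 199)) (PT.nd (nat_lit 78) (PT.lf (nat_lit 12768) (nat_lit 6) (nat_lit 168) (nat_lit 3) (nat_lit 198) (nat_lit 112) (nat_lit 200)) (PT.lf (nat_lit 12844) (nat_lit 3) (nat_lit 169) (nat_lit 1) (nat_lit 199) (nat_lit 112) (nat_lit 199)))) (PT.nd (nat_lit 52962) (PT.lf (nat_lit 12768) (nat_lit 6) (nat_lit 168) (nat_lit 1) (nat_lit 200) (nat_lit 112) (nat_lit 198)) (PT.nd (nat_lit 78) (PT.lf (nat_lit 12920) (nat_lit 6) (nat_lit 170) (nat_lit 3) (nat_lit 198) (nat_lit 113) (nat_lit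 199)) (PT.lf (nat_lit 12920) (nat_lit 6) (nat_lit 170) (nat_lit 1) (nat_lit 199) (nat_lit 113) (nat_lit 198))))) (PT.nd (nat_lit 53118) (PT.nd (nat_lit 78) (PT.lf (nat_lit 12996) (nat_lit 6) (nat_lit 171) (nat_lit 3) (nat_lit 197) (nat_lit 114) (nat_lit 199)) (PT.nd (nat_lit 78) (PT.lf (nat_lit 13072) (nat_lit 3) (nat_lit 172) (nat_lit 1) (nat_lit 198) (nat_lit 114) (nat_lit 198)) (PT.lf (nat_lit 12996) (nat_lit 6) (nat_lit 171) (nat_lit 1) (nat_lit 199) (nat_lit 114) (nat_lit 197)))) (PT.nd (nat_lit 53040) (PT.nd (nat_lit 78) (PT.lf (nat_lit 13148) (nat_lit 6) (nat_lit 173) (nat_lit 3) (nat_lit 197) (nat_lit 115) (nat_lit 198)) (PT.lf (nat_lit 13148) (nat_lit 6) (nat_lit 173) (nat_lit 1) (nat_lit 198) (nat_lit 115) (nat_lit 197))) (PT.nd (nat_lit 78) (PT.lf (nat_lit 13224) (nat_lit 6) (nat_lit 174) (nat_lit 3) (nat_lit 196) (nat_lit 116) (nat_lit 198)) (PT.lf (nat_lit 13300) (nat_lit 3) (nat_lit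 175) (nat_lit 1) (nat_lit 197) (nat_lit 116) (nat_lit 197)))))) (PT.nd (nat_lit 159198) (PT.nd (nat_lit 106002) (PT.nd (nat_lit 52962) (PT.lf (nat_lit 13224) (nat_lit 6) (nat_lit 174) (nat_lit 1) (nat_lit 198) (nat_lit 116) (nat_lit 196)) (PT.nd (nat_lit 78) (PT.lf (nat_lit 13376) (nat_lit 6) (nat_lit 176) (nat_lit 3) (nat_lit 196) (nat_lit 117) (nat_lit 197)) (PT.lf (nat_lit 13376) (nat_lit 6) (nat_lit 176) (nat_lit 1) (nat_lit 197) (nat_lit 117) (nat_lit 196)))) (PT.nd (nat_lit 156) (PT.nd (nat_lit 78) (PT.lf (nat_lit 13452) (nat_lit 6) (nat_lit 177) (nat_lit 3) (nat_lit 195) (nat_lit 118) (nat_lit 197)) (PT.lf (nat_lit 13528) (nat_lit 3) (nat_lit 178) (nat_lit 1) (nat_lit 196) (nat_lit 118) (nat_lit 196))) (PT.nd (nat_lit 52962) (PT.lf (nat_lit 13452) (nat_lit 6) (nat_lit 177) (nat_lit 1) (nat_lit 197) (nat_lit 118) (nat_lit 195)) (PT.lf (nat_lit 13604) (nat_lit 6) (nat_lit 179) (nat_lit 3)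 (nat_lit 195) (nat_lit 119) (nat_lit 196))))) (PT.nd (nat_lit 53118) (PT.nd (nat_lit 52962) (PT.lf (nat_lit 13604) (nat_lit 6) (nat_lit 179) (nat_lit 1) (nat_lit 196) (nat_lit 119) (nat_lit 195)) (PT.nd (nat_lit 78) (PT.lf (nat_lit 13680) (nat_lit 6) (nat_lit 180) (nat_lit 3) (nat_lit 194) (nat_lit 120) (nat_lit 196)) (PT.lf (nat_lit 13756) (nat_lit 3) (nat_lit 181) (nat_lit 1) (nat_lit 195) (nat_lit 120) (nat_lit 195)))) (PT.nd (nat_lit 53040) (PT.nd (nat_lit 52962) (PT.lf (nat_lit 13680) (nat_lit 6) (nat_lit 180) (nat_lit 1) (nat_lit 196) (nat_lit 120) (nat_lit 194)) (PT.lf (nat_lit 13832) (nat_lit 6) (nat_lit 182) (nat_lit 3) (nat_lit 194) (nat_lit 121) (nat_lit 195))) (PT.nd (nat_lit 52962) (PT.lf (nat_lit 13832) (nat_lit 6) (nat_lit 182) (nat_lit 1) (nat_lit 195) (nat_lit 121) (nat_lit 194)) (PT.lf (nat_lit 13908) (nat_lit 6) (nat_lit 183) (nat_lit 3) (nat_lit 193) (nat_lit 122) (nat_lit 195))))))))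
noncomputable def pc5 : PT := (PT.nd (nat_lit 477828) (PT.nd (nat_lit 265434) (PT.nd (nat_lit 106236) (PT.nd (nat_lit 53118) (PT.nd (nat_lit 78) (PT.lf (nat_lit 13984) (nat_lit 3) (nat_lit 184) (nat_lit 1) (nat_lit 194) (nat_lit 122) (nat_lit 194)) (PT.nd (nat_lit 52962) (PT.lf (nat_lit 13908) (nat_lit 6) (nat_lit 183) (nat_lit 1) (nat_lit 195) (nat_lit 122) (nat_lit 193)) (PT.lf (nat_lit 14060) (nat_lit 6) (nat_lit 185) (nat_lit 3) (nat_lit 193) (nat_lit 123) (nat_lit 194)))) (PT.nd (nat_lit 52962) (PT.lf (nat_lit 14060) (nat_lit 6) (nat_lit 185) (nat_lit 1) (nat_lit 194) (nat_lit 123) (nat_lit 193)) (PT.nd (nat_lit 78) (PT.lf (nat_lit 14136) (nat_lit 6) (nat_lit 186) (nat_lit 3) (nat_lit 192) (nat_lit 124) (nat_lit 194)) (PT.lf (nat_lit 14212) (nat_lit 3) (nat_lit 187) (nat_lit 1) (nat_lit 193) (nat_lit 124) (nat_lit 193))))) (PT.nd (nat_lit 106002) (PT.nd (nat_lit 52962) (PT.lf (nat_lit 14136)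 (nat_lit 6) (nat_lit 186) (nat_lit 1) (nat_lit 194) (nat_lit 124) (nat_lit 192)) (PT.nd (nat_lit 78) (PT.lf (nat_lit 14288) (nat_lit 6) (nat_lit 188) (nat_lit 3) (nat_lit 192) (nat_lit 125) (nat_lit 193)) (PT.lf (nat_lit 14288) (nat_lit 6) (nat_lit 188) (nat_lit 1) (nat_lit 193) (nat_lit 125) (nat_lit 192)))) (PT.nd (nat_lit 156) (PT.nd (nat_lit 78) (PT.lf (nat_lit 14364) (nat_lit 6) (nat_lit 189) (nat_lit 3) (nat_lit 191) (nat_lit 126) (nat_lit 193)) (PT.lf (nat_lit 14440) (nat_lit 3) (nat_lit 190) (nat_lit 1) (nat_lit 192) (nat_lit 126) (nat_lit 192))) (PT.nd (nat_lit 52962) (PT.lf (nat_lit 14364) (nat_lit 6) (nat_lit 189) (nat_lit 1) (nat_lit 193) (nat_lit 126) (nat_lit 191)) (PT.lf (nat_lit 14516) (nat_lit 6) (nat_lit 191) (nat_lit 3) (nat_lit 191) (nat_lit 127) (nat_lit 192)))))) (PT.nd (nat_lit 106236) (PT.nd (nat_lit 53118) (PT.nd (nat_lit 52962) (PT.lf (nat_lit 14516) (nat_lit 6) (nat_lit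 191) (nat_lit 1) (nat_lit 192) (nat_lit 127) (nat_lit 191)) (PT.nd (nat_lit 78) (PT.lf (nat_lit 14592) (nat_lit 6) (nat_lit 192) (nat_lit 3) (nat_lit 190) (nat_lit 128) (nat_lit 192)) (PT.lf (nat_lit 14668) (nat_lit 3) (nat_lit 193) (nat_lit 1) (nat_lit 191) (nat_lit 128) (nat_lit 191)))) (PT.nd (nat_lit 52962) (PT.nd (nat_lit 52884) (PT.lf (nat_lit 14592) (nat_lit 6) (nat_lit 192) (nat_lit 1) (nat_lit 192) (nat_lit 128) (nat_lit 190)) (PT.lf (nat_lit 14744) (nat_lit 6) (nat_lit 194) (nat_lit 3) (nat_lit 189) (nat_lit 129) (nat_lit 192))) (PT.nd (nat_lit 78) (PT.lf (nat_lit 14820) (nat_lit 6) (nat_lit 195) (nat_lit 3) (nat_lit 190) (nat_lit 129) (nat_lit 191)) (PT.lf (nat_lit 14820) (nat_lit 6) (nat_lit 195) (nat_lit 1) (nat_lit 191) (nat_lit 129) (nat_lit 190))))) (PT.nd (nat_lit 53040) (PT.nd (nat_lit 52884) (PT.lf (nat_lit 14744) (nat_lit 6) (nat_lit 194) (nat_lit 1) (nat_lit 192) (nat_lit 129)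 (nat_lit 189)) (PT.nd (nat_lit 78) (PT.lf (nat_lit 14896) (nat_lit 6) (nat_lit 196) (nat_lit 3) (nat_lit 189) (nat_lit 130) (nat_lit 191)) (PT.lf (nat_lit 14972) (nat_lit 3) (nat_lit 197) (nat_lit 1) (nat_lit 190) (nat_lit 130) (nat_lit 190)))) (PT.nd (nat_lit 52962) (PT.nd (nat_lit 52884) (PT.lf (nat_lit 14896) (nat_lit 6) (nat_lit 196) (nat_lit 1) (nat_lit 191) (nat_lit 130) (nat_lit 189)) (PT.lf (nat_lit 15048) (nat_lit 6) (nat_lit 198) (nat_lit 3) (nat_lit 188) (nat_lit 131) (nat_lit 191))) (PT.nd (nat_lit 78) (PT.lf (nat_lit 15124) (nat_lit 6) (nat_lit 199) (nat_lit 3) (nat_lit 189) (nat_lit 131) (nat_lit 190)) (PT.lf (nat_lit 15124) (nat_lit 6) (nat_lit 199) (nat_lit 1) (nat_lit 190) (nat_lit 131) (nat_lit 189))))))) (PT.nd (nat_lit 212238) (PT.nd (nat_lit 106080) (PT.nd (nat_lit 53040) (PT.nd (nat_lit 52884) (PT.lf (nat_lit 15048) (nat_lit 6) (nat_lit 198) (nat_lit 1) (nat_lit 191) (nat_lit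 131) (nat_lit 188)) (PT.nd (nat_lit 78) (PT.lf (nat_lit 15200) (nat_lit 6) (nat_lit 200) (nat_lit 3) (nat_lit 188) (nat_lit 132) (nat_lit 190)) (PT.lf (nat_lit 15276) (nat_lit 3) (nat_lit 201) (nat_lit 1) (nat_lit 189) (nat_lit 132) (nat_lit 189)))) (PT.nd (nat_lit 52884) (PT.lf (nat_lit 15200) (nat_lit 6) (nat_lit 200) (nat_lit 1) (nat_lit 190) (nat_lit 132) (nat_lit 188)) (PT.nd (nat_lit 78) (PT.lf (nat_lit 15352) (nat_lit 6) (nat_lit 202) (nat_lit 3) (nat_lit 187) (nat_lit 133) (nat_lit 190)) (PT.lf (nat_lit 15428) (nat_lit 6) (nat_lit 203) (nat_lit 3) (nat_lit 188) (nat_lit 133) (nat_lit 189))))) (PT.nd (nat_lit 53040) (PT.nd (nat_lit 78) (PT.lf (nat_lit 15428) (nat_lit 6) (nat_lit 203) (nat_lit 1) (nat_lit 189) (nat_lit 133) (nat_lit 188)) (PT.nd (nat_lit 52884) (PT.lf (nat_lit 15352) (nat_lit 6) (nat_lit 202) (nat_lit 1) (nat_lit 190) (nat_lit 133) (nat_lit 187)) (PT.lf (nat_lit 15504) (nat_lit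 6) (nat_lit 204) (nat_lit 3) (nat_lit 187) (nat_lit 134) (nat_lit 189)))) (PT.nd (nat_lit 52962) (PT.nd (nat_lit 78) (PT.lf (nat_lit 15580) (nat_lit 3) (nat_lit 205) (nat_lit 1) (nat_lit 188) (nat_lit 134) (nat_lit 188)) (PT.lf (nat_lit 15504) (nat_lit 6) (nat_lit 204) (nat_lit 1) (nat_lit 189) (nat_lit 134) (nat_lit 187))) (PT.nd (nat_lit 78) (PT.lf (nat_lit 15656) (nat_lit 6) (nat_lit 206) (nat_lit 3) (nat_lit 186) (nat_lit 135) (nat_lit 189)) (PT.lf (nat_lit 15732) (nat_lit 6) (nat_lit 207) (nat_lit 3) (nat_lit 187) (nat_lit 135) (nat_lit 188)))))) (PT.nd (nat_lit 106158) (PT.nd (nat_lit 53040) (PT.nd (nat_lit 78) (PT.lf (nat_lit 15732) (nat_lit 6) (nat_lit 207) (nat_lit 1) (nat_lit 188) (nat_lit 135) (nat_lit 187)) (PT.nd (nat_lit 52884) (PT.lf (nat_lit 15656) (nat_lit 6) (nat_lit 206) (nat_lit 1) (nat_lit 189) (nat_lit 135) (nat_lit 186)) (PT.lf (nat_lit 15808) (nat_lit 6) (nat_lit 208) (nat_lit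 3) (nat_lit 186) (nat_lit 136) (nat_lit 188)))) (PT.nd (nat_lit 52962) (PT.nd (nat_lit 78) (PT.lf (nat_lit 15884) (nat_lit 3) (nat_lit 209) (nat_lit 1) (nat_lit 187) (nat_lit 136) (nat_lit 187)) (PT.lf (nat_lit 15808) (nat_lit 6) (nat_lit 208) (nat_lit 1) (nat_lit 188) (nat_lit 136) (nat_lit 186))) (PT.nd (nat_lit 78) (PT.lf (nat_lit 15960) (nat_lit 6) (nat_lit 210) (nat_lit 3) (nat_lit 185) (nat_lit 137) (nat_lit 188)) (PT.lf (nat_lit 16036) (nat_lit 6) (nat_lit 211) (nat_lit 3) (nat_lit 186) (nat_lit 137) (nat_lit 187))))) (PT.nd (nat_lit 53040) (PT.nd (nat_lit 78) (PT.lf (nat_lit 16036) (nat_lit 6) (nat_lit 211) (nat_lit 1) (nat_lit 187) (nat_lit 137) (nat_lit 186)) (PT.nd (nat_lit 52884) (PT.lf (nat_lit 15960) (nat_lit 6) (nat_lit 210) (nat_lit 1) (nat_lit 188) (nat_lit 137) (nat_lit 185)) (PT.lf (nat_lit 16112) (nat_lit 6) (nat_lit 212) (nat_lit 3) (nat_lit 185) (nat_lit 138) (nat_lit 187))))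 (PT.nd (nat_lit 52962) (PT.nd (nat_lit 78) (PT.lf (nat_lit 16188) (nat_lit 3) (nat_lit 213) (nat_lit 1) (nat_lit 186) (nat_lit 138) (nat_lit 186)) (PT.lf (nat_lit 16112) (nat_lit 6) (nat_lit 212) (nat_lit 1) (nat_lit 187) (nat_lit 138) (nat_lit 185))) (PT.nd (nat_lit 78) (PT.lf (nat_lit 16264) (nat_lit 6) (nat_lit 214) (nat_lit 3) (nat_lit 184) (nat_lit 139) (nat_lit 187)) (PT.lf (nat_lit 16340) (nat_lit 6) (nat_lit 215) (nat_lit 3) (nat_lit 185) (nat_lit 139) (nat_lit 186))))))))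
noncomputable def pc6 : PT := (PT.nd (nat_lit 318396) (PT.nd (nat_lit 159198) (PT.nd (nat_lit 53196) (PT.nd (nat_lit 52962) (PT.nd (nat_lit 78) (PT.lf (nat_lit 16340) (nat_lit 6) (nat_lit 215) (nat_lit 1) (nat_lit 186) (nat_lit 139) (nat_lit 185)) (PT.nd (nat_lit 52806) (PT.lf (nat_lit 16264) (nat_lit 6) (nat_lit 214) (nat_lit 1) (nat_lit 187) (nat_lit 139) (nat_lit 184)) (PT.lf (nat_lit 16416) (nat_lit 6) (nat_lit 216) (nat_lit 3) (nat_lit 183) (nat_lit 140) (nat_lit 187)))) (PT.nd (nat_lit 78) (PT.lf (nat_lit 16492) (nat_lit 6) (nat_lit 217) (nat_lit 3) (nat_lit 184) (nat_lit 140) (nat_lit 186)) (PT.nd (nat_lit 78) (PT.lf (nat_lit 16568) (nat_lit 3) (nat_lit 218) (nat_lit 1) (nat_lit 185) (nat_lit 140) (nat_lit 185)) (PT.lf (nat_lit 16492) (nat_lit 6) (nat_lit 217) (nat_lit 1) (nat_lit 186) (nat_lit 140) (nat_lit 184))))) (PT.nd (nat_lit 52962) (PT.nd (nat_lit 52806) (PT.lf (nat_lit 16416) (nat_lit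 6) (nat_lit 216) (nat_lit 1) (nat_lit 187) (nat_lit 140) (nat_lit 183)) (PT.nd (nat_lit 78) (PT.lf (nat_lit 16644) (nat_lit 6) (nat_lit 219) (nat_lit 3) (nat_lit 183) (nat_lit 141) (nat_lit 186)) (PT.lf (nat_lit 16720) (nat_lit 6) (nat_lit 220) (nat_lit 3) (nat_lit 184) (nat_lit 141) (nat_lit 185)))) (PT.nd (nat_lit 52884) (PT.nd (nat_lit 78) (PT.lf (nat_lit 16720) (nat_lit 6) (nat_lit 220) (nat_lit 1) (nat_lit 185) (nat_lit 141) (nat_lit 184)) (PT.lf (nat_lit 16644) (nat_lit 6) (nat_lit 219) (nat_lit 1) (nat_lit 186) (nat_lit 141) (nat_lit 183))) (PT.nd (nat_lit 78) (PT.lf (nat_lit 16796) (nat_lit 6) (nat_lit 221) (nat_lit 3) (nat_lit 182) (nat_lit 142) (nat_lit 186)) (PT.lf (nat_lit 16872) (nat_lit 6) (nat_lit 222) (nat_lit 3) (nat_lit 183) (nat_lit 142) (nat_lit 185)))))) (PT.nd (nat_lit 106002) (PT.nd (nat_lit 52962) (PT.nd (nat_lit 78) (PT.lf (nat_lit 16948) (nat_lit 3) (nat_lit 223) (nat_lit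 1) (nat_lit 184) (nat_lit 142) (nat_lit 184)) (PT.nd (nat_lit 78) (PT.lf (nat_lit 16872) (nat_lit 6) (nat_lit 222) (nat_lit 1) (nat_lit 185) (nat_lit 142) (nat_lit 183)) (PT.lf (nat_lit 16796) (nat_lit 6) (nat_lit 221) (nat_lit 1) (nat_lit 186) (nat_lit 142) (nat_lit 182)))) (PT.nd (nat_lit 156) (PT.nd (nat_lit 78) (PT.lf (nat_lit 17024) (nat_lit 6) (nat_lit 224) (nat_lit 3) (nat_lit 182) (nat_lit 143) (nat_lit 185)) (PT.lf (nat_lit 17100) (nat_lit 6) (nat_lit 225) (nat_lit 3) (nat_lit 183) (nat_lit 143) (nat_lit 184))) (PT.nd (nat_lit 78) (PT.lf (nat_lit 17100) (nat_lit 6) (nat_lit 225) (nat_lit 1) (nat_lit 184) (nat_lit 143) (nat_lit 183)) (PT.lf (nat_lit 17024) (nat_lit 6) (nat_lit 224) (nat_lit 1) (nat_lit 185) (nat_lit 143) (nat_lit 182))))) (PT.nd (nat_lit 234) (PT.nd (nat_lit 78) (PT.lf (nat_lit 17176) (nat_lit 6) (nat_lit 226) (nat_lit 3) (nat_lit 181) (nat_lit 144) (nat_lit 185)) (PT.nd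 (nat_lit 78) (PT.lf (nat_lit 17252) (nat_lit 6) (nat_lit 227) (nat_lit 3) (nat_lit 182) (nat_lit 144) (nat_lit 184)) (PT.lf (nat_lit 17328) (nat_lit 3) (nat_lit 228) (nat_lit 1) (nat_lit 183) (nat_lit 144) (nat_lit 183)))) (PT.nd (nat_lit 52806) (PT.nd (nat_lit 78) (PT.lf (nat_lit 17252) (nat_lit 6) (nat_lit 227) (nat_lit 1) (nat_lit 184) (nat_lit 144) (nat_lit 182)) (PT.lf (nat_lit 17176) (nat_lit 6) (nat_lit 226) (nat_lit 1) (nat_lit 185) (nat_lit 144) (nat_lit 181))) (PT.nd (nat_lit 78) (PT.lf (nat_lit 17404) (nat_lit 6) (nat_lit 229) (nat_lit 3) (nat_lit 180) (nat_lit 145) (nat_lit 185)) (PT.lf (nat_lit 17480) (nat_lit 6) (nat_lit 230) (nat_lit 3) (nat_lit 181) (nat_lit 145) (nat_lit 184))))))) (PT.nd (nat_lit 106314) (PT.nd (nat_lit 53118) (PT.nd (nat_lit 234) (PT.nd (nat_lit 78) (PT.lf (nat_lit 17556) (nat_lit 6) (nat_lit 231) (nat_lit 3) (nat_lit 182) (nat_lit 145) (nat_lit 183)) (PT.nd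 (nat_lit 78) (PT.lf (nat_lit 17556) (nat_lit 6) (nat_lit 231) (nat_lit 1) (nat_lit 183) (nat_lit 145) (nat_lit 182)) (PT.lf (nat_lit 17480) (nat_lit 6) (nat_lit 230) (nat_lit 1) (nat_lit 184) (nat_lit 145) (nat_lit 181)))) (PT.nd (nat_lit 52728) (PT.lf (nat_lit 17404) (nat_lit 6) (nat_lit 229) (nat_lit 1) (nat_lit 185) (nat_lit 145) (nat_lit 180)) (PT.nd (nat_lit 78) (PT.lf (nat_lit 17632) (nat_lit 6) (nat_lit 232) (nat_lit 3) (nat_lit 180) (nat_lit 146) (nat_lit 184)) (PT.lf (nat_lit 17708) (nat_lit 6) (nat_lit 233) (nat_lit 3) (nat_lit 181) (nat_lit 146) (nat_lit 183))))) (PT.nd (nat_lit 52884) (PT.nd (nat_lit 78) (PT.lf (nat_lit 17784) (nat_lit 3) (nat_lit 234) (nat_lit 1) (nat_lit 182) (nat_lit 146) (nat_lit 182)) (PT.nd (nat_lit 78) (PT.lf (nat_lit 17708) (nat_lit 6) (nat_lit 233) (nat_lit 1) (nat_lit 183) (nat_lit 146) (nat_lit 181)) (PT.lf (nat_lit 17632) (nat_lit 6) (nat_lit 232) (nat_lit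 1) (nat_lit 184) (nat_lit 146) (nat_lit 180)))) (PT.nd (nat_lit 156) (PT.nd (nat_lit 78) (PT.lf (nat_lit 17860) (nat_lit 6) (nat_lit 235) (nat_lit 3) (nat_lit 179) (nat_lit 147) (nat_lit 184)) (PT.lf (nat_lit 17936) (nat_lit 6) (nat_lit 236) (nat_lit 3) (nat_lit 180) (nat_lit 147) (nat_lit 183))) (PT.nd (nat_lit 78) (PT.lf (nat_lit 18012) (nat_lit 6) (nat_lit 237) (nat_lit 3) (nat_lit 181) (nat_lit 147) (nat_lit 182)) (PT.lf (nat_lit 18012) (nat_lit 6) (nat_lit 237) (nat_lit 1) (nat_lit 182) (nat_lit 147) (nat_lit 181)))))) (PT.nd (nat_lit 53118) (PT.nd (nat_lit 52806) (PT.nd (nat_lit 78) (PT.lf (nat_lit 17936) (nat_lit 6) (nat_lit 236) (nat_lit 1) (nat_lit 183) (nat_lit 147) (nat_lit 180)) (PT.nd (nat_lit 52650) (PT.lf (nat_lit 17860) (nat_lit 6) (nat_lit 235) (nat_lit 1) (nat_lit 184) (nat_lit 147) (nat_lit 179)) (PT.lf (nat_lit 18088) (nat_lit 6) (nat_lit 238) (nat_lit 3) (nat_lit 178) (nat_lit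 148) (nat_lit 184)))) (PT.nd (nat_lit 156) (PT.nd (nat_lit 78) (PT.lf (nat_lit 18164) (nat_lit 6) (nat_lit 239) (nat_lit 3) (nat_lit 179) (nat_lit 148) (nat_lit 183)) (PT.lf (nat_lit 18240) (nat_lit 6) (nat_lit 240) (nat_lit 3) (nat_lit 180) (nat_lit 148) (nat_lit 182))) (PT.nd (nat_lit 78) (PT.lf (nat_lit 18316) (nat_lit 3) (nat_lit 241) (nat_lit 1) (nat_lit 181) (nat_lit 148) (nat_lit 181)) (PT.lf (nat_lit 18240) (nat_lit 6) (nat_lit 240) (nat_lit 1) (nat_lit 182) (nat_lit 148) (nat_lit 180))))) (PT.nd (nat_lit 52806) (PT.nd (nat_lit 78) (PT.lf (nat_lit 18164) (nat_lit 6) (nat_lit 239) (nat_lit 1) (nat_lit 183) (nat_lit 148) (nat_lit 179)) (PT.nd (nat_lit 52650) (PT.lf (nat_lit 18088) (nat_lit 6) (nat_lit 238) (nat_lit 1) (nat_lit 184) (nat_lit 148) (nat_lit 178)) (PT.lf (nat_lit 18392) (nat_lit 6) (nat_lit 242) (nat_lit 3) (nat_lit 178) (nat_lit 149) (nat_lit 183)))) (PT.nd (nat_lit 156) (PT.nd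 (nat_lit 78) (PT.lf (nat_lit 18468) (nat_lit 6) (nat_lit 243) (nat_lit 3) (nat_lit 179) (nat_lit 149) (nat_lit 182)) (PT.lf (nat_lit 18544) (nat_lit 6) (nat_lit 244) (nat_lit 3) (nat_lit 180) (nat_lit 149) (nat_lit 181))) (PT.nd (nat_lit 78) (PT.lf (nat_lit 18544) (nat_lit 6) (nat_lit 244) (nat_lit 1) (nat_lit 181) (nat_lit 149) (nat_lit 180)) (PT.lf (nat_lit 18468) (nat_lit 6) (nat_lit 243) (nat_lit 1) (nat_lit 182) (nat_lit 149) (nat_lit 179))))))))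
noncomputable def pc7 : PT := (PT.nd (nat_lit 212160) (PT.nd (nat_lit 106080) (PT.nd (nat_lit 53040) (PT.nd (nat_lit 52806) (PT.nd (nat_lit 52650) (PT.lf (nat_lit 18392) (nat_lit 6) (nat_lit 242) (nat_lit 1) (nat_lit 183) (nat_lit 149) (nat_lit 178)) (PT.nd (nat_lit 78) (PT.lf (nat_lit 18620) (nat_lit 6) (nat_lit 245) (nat_lit 3) (nat_lit 177) (nat_lit 150) (nat_lit 183)) (PT.lf (nat_lit 18696) (nat_lit 6) (nat_lit 246) (nat_lit 3) (nat_lit 178) (nat_lit 150) (nat_lit 182)))) (PT.nd (nat_lit 78) (PT.lf (nat_lit 18772) (nat_lit 6) (nat_lit 247) (nat_lit 3) (nat_lit 179) (nat_lit 150) (nat_lit 181)) (PT.nd (nat_lit 78) (PT.lf (nat_lit 18848) (nat_lit 3) (nat_lit 248) (nat_lit 1) (nat_lit 180) (nat_lit 150) (nat_lit 180)) (PT.lf (nat_lit 18772) (nat_lit 6) (nat_lit 247) (nat_lit 1) (nat_lit 181) (nat_lit 150) (nat_lit 179))))) (PT.nd (nat_lit 52728) (PT.nd (nat_lit 78) (PT.lf (nat_lit 18696) (nat_lit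 6) (nat_lit 246) (nat_lit 1) (nat_lit 182) (nat_lit 150) (nat_lit 178)) (PT.nd (nat_lit 52572) (PT.lf (nat_lit 18620) (nat_lit 6) (nat_lit 245) (nat_lit 1) (nat_lit 183) (nat_lit 150) (nat_lit 177)) (PT.lf (nat_lit 18924) (nat_lit 6) (nat_lit 249) (nat_lit 3) (nat_lit 176) (nat_lit 151) (nat_lit 183)))) (PT.nd (nat_lit 156) (PT.nd (nat_lit 78) (PT.lf (nat_lit 19000) (nat_lit 6) (nat_lit 250) (nat_lit 3) (nat_lit 177) (nat_lit 151) (nat_lit 182)) (PT.lf (nat_lit 19076) (nat_lit 6) (nat_lit 251) (nat_lit 3) (nat_lit 178) (nat_lit 151) (nat_lit 181))) (PT.nd (nat_lit 78) (PT.lf (nat_lit 19152) (nat_lit 6) (nat_lit 252) (nat_lit 3) (nat_lit 179) (nat_lit 151) (nat_lit 180)) (PT.lf (nat_lit 19152) (nat_lit 6) (nat_lit 252) (nat_lit 1) (nat_lit 180) (nat_lit 151) (nat_lit 179)))))) (PT.nd (nat_lit 53040) (PT.nd (nat_lit 52728) (PT.nd (nat_lit 78) (PT.lf (nat_lit 19076) (nat_lit 6) (nat_lit 251) (nat_lit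 1) (nat_lit 181) (nat_lit 151) (nat_lit 178)) (PT.nd (nat_lit 78) (PT.lf (nat_lit 19000) (nat_lit 6) (nat_lit 250) (nat_lit 1) (nat_lit 182) (nat_lit 151) (nat_lit 177)) (PT.lf (nat_lit 18924) (nat_lit 6) (nat_lit 249) (nat_lit 1) (nat_lit 183) (nat_lit 151) (nat_lit 176)))) (PT.nd (nat_lit 156) (PT.nd (nat_lit 78) (PT.lf (nat_lit 19228) (nat_lit 6) (nat_lit 253) (nat_lit 3) (nat_lit 176) (nat_lit 152) (nat_lit 182)) (PT.lf (nat_lit 19304) (nat_lit 6) (nat_lit 254) (nat_lit 3) (nat_lit 177) (nat_lit 152) (nat_lit 181))) (PT.nd (nat_lit 78) (PT.lf (nat_lit 19380) (nat_lit 6) (nat_lit 255) (nat_lit 3) (nat_lit 178) (nat_lit 152) (nat_lit 180)) (PT.lf (nat_lit 19456) (nat_lit 3) (nat_lit 256) (nat_lit 1) (nat_lit 179) (nat_lit 152) (nat_lit 179))))) (PT.nd (nat_lit 52728) (PT.nd (nat_lit 78) (PT.lf (nat_lit 19380) (nat_lit 6) (nat_lit 255) (nat_lit 1) (nat_lit 180) (nat_lit 152) (nat_lit 178)) (PT.nd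 (nat_lit 78) (PT.lf (nat_lit 19304) (nat_lit 6) (nat_lit 254) (nat_lit 1) (nat_lit 181) (nat_lit 152) (nat_lit 177)) (PT.lf (nat_lit 19228) (nat_lit 6) (nat_lit 253) (nat_lit 1) (nat_lit 182) (nat_lit 152) (nat_lit 176)))) (PT.nd (nat_lit 156) (PT.nd (nat_lit 78) (PT.lf (nat_lit 19532) (nat_lit 6) (nat_lit 257) (nat_lit 3) (nat_lit 175) (nat_lit 153) (nat_lit 182)) (PT.lf (nat_lit 19608) (nat_lit 6) (nat_lit 258) (nat_lit 3) (nat_lit 176) (nat_lit 153) (nat_lit 181))) (PT.nd (nat_lit 78) (PT.lf (nat_lit 19684) (nat_lit 6) (nat_lit 259) (nat_lit 3) (nat_lit 177) (nat_lit 153) (nat_lit 180)) (PT.lf (nat_lit 19760) (nat_lit 6) (nat_lit 260) (nat_lit 3) (nat_lit 178) (nat_lit 153) (nat_lit 179))))))) (PT.nd (nat_lit 105924) (PT.nd (nat_lit 52962) (PT.nd (nat_lit 234) (PT.nd (nat_lit 78) (PT.lf (nat_lit 19760) (nat_lit 6) (nat_lit 260) (nat_lit 1) (nat_lit 179) (nat_lit 153) (nat_lit 178)) (PT.nd (nat_lit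 78) (PT.lf (nat_lit 19684) (nat_lit 6) (nat_lit 259) (nat_lit 1) (nat_lit 180) (nat_lit 153) (nat_lit 177)) (PT.lf (nat_lit 19608) (nat_lit 6) (nat_lit 258) (nat_lit 1) (nat_lit 181) (nat_lit 153) (nat_lit 176)))) (PT.nd (nat_lit 52572) (PT.nd (nat_lit 52494) (PT.lf (nat_lit 19532) (nat_lit 6) (nat_lit 257) (nat_lit 1) (nat_lit 182) (nat_lit 153) (nat_lit 175)) (PT.lf (nat_lit 19836) (nat_lit 6) (nat_lit 261) (nat_lit 3) (nat_lit 174) (nat_lit 154) (nat_lit 182))) (PT.nd (nat_lit 78) (PT.lf (nat_lit 19912) (nat_lit 6) (nat_lit 262) (nat_lit 3) (nat_lit 175) (nat_lit 154) (nat_lit 181)) (PT.lf (nat_lit 19988) (nat_lit 6) (nat_lit 263) (nat_lit 3) (nat_lit 176) (nat_lit 154) (nat_lit 180))))) (PT.nd (nat_lit 234) (PT.nd (nat_lit 78) (PT.lf (nat_lit 20064) (nat_lit 6) (nat_lit 264) (nat_lit 3) (nat_lit 177) (nat_lit 154) (nat_lit 179)) (PT.nd (nat_lit 78) (PT.lf (nat_lit 20140) (nat_lit 3) (nat_lit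 265) (nat_lit 1) (nat_lit 178) (nat_lit 154) (nat_lit 178)) (PT.lf (nat_lit 20064) (nat_lit 6) (nat_lit 264) (nat_lit 1) (nat_lit 179) (nat_lit 154) (nat_lit 177)))) (PT.nd (nat_lit 156) (PT.nd (nat_lit 78) (PT.lf (nat_lit 19988) (nat_lit 6) (nat_lit 263) (nat_lit 1) (nat_lit 180) (nat_lit 154) (nat_lit 176)) (PT.lf (nat_lit 19912) (nat_lit 6) (nat_lit 262) (nat_lit 1) (nat_lit 181) (nat_lit 154) (nat_lit 175))) (PT.nd (nat_lit 52494) (PT.lf (nat_lit 19836) (nat_lit 6) (nat_lit 261) (nat_lit 1) (nat_lit 182) (nat_lit 154) (nat_lit 174)) (PT.lf (nat_lit 20216) (nat_lit 6) (nat_lit 266) (nat_lit 3) (nat_lit 174) (nat_lit 155) (nat_lit 181)))))) (PT.nd (nat_lit 52962) (PT.nd (nat_lit 234) (PT.nd (nat_lit 78) (PT.lf (nat_lit 20292) (nat_lit 6) (nat_lit 267) (nat_lit 3) (nat_lit 175) (nat_lit 155) (nat_lit 180)) (PT.nd (nat_lit 78) (PT.lf (nat_lit 20368) (nat_lit 6) (nat_lit 268) (nat_lit 3) (nat_lit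 176) (nat_lit 155) (nat_lit 179)) (PT.lf (nat_lit 20444) (nat_lit 6) (nat_lit 269) (nat_lit 3) (nat_lit 177) (nat_lit 155) (nat_lit 178)))) (PT.nd (nat_lit 156) (PT.nd (nat_lit 78) (PT.lf (nat_lit 20444) (nat_lit 6) (nat_lit 269) (nat_lit 1) (nat_lit 178) (nat_lit 155) (nat_lit 177)) (PT.lf (nat_lit 20368) (nat_lit 6) (nat_lit 268) (nat_lit 1) (nat_lit 179) (nat_lit 155) (nat_lit 176))) (PT.nd (nat_lit 78) (PT.lf (nat_lit 20292) (nat_lit 6) (nat_lit 267) (nat_lit 1) (nat_lit 180) (nat_lit 155) (nat_lit 175)) (PT.lf (nat_lit 20216) (nat_lit 6) (nat_lit 266) (nat_lit 1) (nat_lit 181) (nat_lit 155) (nat_lit 174))))) (PT.nd (nat_lit 234) (PT.nd (nat_lit 78) (PT.lf (nat_lit 20520) (nat_lit 6) (nat_lit 270) (nat_lit 3) (nat_lit 173) (nat_lit 156) (nat_lit 181)) (PT.nd (nat_lit 78) (PT.lf (nat_lit 20596) (nat_lit 6) (nat_lit 271) (nat_lit 3) (nat_lit 174) (nat_lit 156) (nat_lit 180)) (PT.lf (nat_lit 20672)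 (nat_lit 6) (nat_lit 272) (nat_lit 3) (nat_lit 175) (nat_lit 156) (nat_lit 179)))) (PT.nd (nat_lit 156) (PT.nd (nat_lit 78) (PT.lf (nat_lit 20748) (nat_lit 6) (nat_lit 273) (nat_lit 3) (nat_lit 176) (nat_lit 156) (nat_lit 178)) (PT.lf (nat_lit 20824) (nat_lit 3) (nat_lit 274) (nat_lit 1) (nat_lit 177) (nat_lit 156) (nat_lit 177))) (PT.nd (nat_lit 78) (PT.lf (nat_lit 20748) (nat_lit 6) (nat_lit 273) (nat_lit 1) (nat_lit 178) (nat_lit 156) (nat_lit 176)) (PT.lf (nat_lit 20672) (nat_lit 6) (nat_lit 272) (nat_lit 1) (nat_lit 179) (nat_lit 156) (nat_lit 175))))))))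
noncomputable def pc8 : PT := (PT.nd (nat_lit 158886) (PT.nd (nat_lit 105612) (PT.nd (nat_lit 52806) (PT.nd (nat_lit 52572) (PT.nd (nat_lit 78) (PT.lf (nat_lit 20596) (nat_lit 6) (nat_lit 271) (nat_lit 1) (nat_lit 180) (nat_lit 156) (nat_lit 174)) (PT.nd (nat_lit 52416) (PT.lf (nat_lit 20520) (nat_lit 6) (nat_lit 270) (nat_lit 1) (nat_lit 181) (nat_lit 156) (nat_lit 173)) (PT.lf (nat_lit 20900) (nat_lit 6) (nat_lit 275) (nat_lit 3) (nat_lit 172) (nat_lit 157) (nat_lit 181)))) (PT.nd (nat_lit 78) (PT.lf (nat_lit 20976) (nat_lit 6) (nat_lit 276) (nat_lit 3) (nat_lit 173) (nat_lit 157) (nat_lit 180)) (PT.nd (nat_lit 78) (PT.lf (nat_lit 21052) (nat_lit 6) (nat_lit 277) (nat_lit 3) (nat_lit 174) (nat_lit 157) (nat_lit 179)) (PT.lf (nat_lit 21128) (nat_lit 6) (nat_lit 278) (nat_lit 3) (nat_lit 175) (nat_lit 157) (nat_lit 178))))) (PT.nd (nat_lit 234) (PT.nd (nat_lit 78) (PT.lf (nat_lit 21204) (nat_lit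 6) (nat_lit 279) (nat_lit 3) (nat_lit 176) (nat_lit 157) (nat_lit 177)) (PT.nd (nat_lit 78) (PT.lf (nat_lit 21204) (nat_lit 6) (nat_lit 279) (nat_lit 1) (nat_lit 177) (nat_lit 157) (nat_lit 176)) (PT.lf (nat_lit 21128) (nat_lit 6) (nat_lit 278) (nat_lit 1) (nat_lit 178) (nat_lit 157) (nat_lit 175)))) (PT.nd (nat_lit 156) (PT.nd (nat_lit 78) (PT.lf (nat_lit 21052) (nat_lit 6) (nat_lit 277) (nat_lit 1) (nat_lit 179) (nat_lit 157) (nat_lit 174)) (PT.lf (nat_lit 20976) (nat_lit 6) (nat_lit 276) (nat_lit 1) (nat_lit 180) (nat_lit 157) (nat_lit 173))) (PT.nd (nat_lit 52338) (PT.lf (nat_lit 20900) (nat_lit 6) (nat_lit 275) (nat_lit 1) (nat_lit 181) (nat_lit 157) (nat_lit 172)) (PT.lf (nat_lit 21280) (nat_lit 6) (nat_lit 280) (nat_lit 3) (nat_lit 171) (nat_lit 158) (nat_lit 181)))))) (PT.nd (nat_lit 546) (PT.nd (nat_lit 234) (PT.nd (nat_lit 78) (PT.lf (nat_lit 21356) (nat_lit 6) (nat_lit 281) (nat_lit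 3) (nat_lit 172) (nat_lit 158) (nat_lit 180)) (PT.nd (nat_lit 78) (PT.lf (nat_lit 21432) (nat_lit 6) (nat_lit 282) (nat_lit 3) (nat_lit 173) (nat_lit 158) (nat_lit 179)) (PT.lf (nat_lit 21508) (nat_lit 6) (nat_lit 283) (nat_lit 3) (nat_lit 174) (nat_lit 158) (nat_lit 178)))) (PT.nd (nat_lit 156) (PT.nd (nat_lit 78) (PT.lf (nat_lit 21584) (nat_lit 6) (nat_lit 284) (nat_lit 3) (nat_lit 175) (nat_lit 158) (nat_lit 177)) (PT.lf (nat_lit 21660) (nat_lit 3) (nat_lit 285) (nat_lit 1) (nat_lit 176) (nat_lit 158) (nat_lit 176))) (PT.nd (nat_lit 78) (PT.lf (nat_lit 21584) (nat_lit 6) (nat_lit 284) (nat_lit 1) (nat_lit 177) (nat_lit 158) (nat_lit 175)) (PT.lf (nat_lit 21508) (nat_lit 6) (nat_lit 283) (nat_lit 1) (nat_lit 178) (nat_lit 158) (nat_lit 174))))) (PT.nd (nat_lit 52416) (PT.nd (nat_lit 78) (PT.lf (nat_lit 21432) (nat_lit 6) (nat_lit 282) (nat_lit 1) (nat_lit 179) (nat_lit 158) (nat_lit 173)) (PT.nd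 (nat_lit 78) (PT.lf (nat_lit 21356) (nat_lit 6) (nat_lit 281) (nat_lit 1) (nat_lit 180) (nat_lit 158) (nat_lit 172)) (PT.lf (nat_lit 21280) (nat_lit 6) (nat_lit 280) (nat_lit 1) (nat_lit 181) (nat_lit 158) (nat_lit 171)))) (PT.nd (nat_lit 156) (PT.nd (nat_lit 78) (PT.lf (nat_lit 21736) (nat_lit 6) (nat_lit 286) (nat_lit 3) (nat_lit 170) (nat_lit 159) (nat_lit 181)) (PT.lf (nat_lit 21812) (nat_lit 6) (nat_lit 287) (nat_lit 3) (nat_lit 171) (nat_lit 159) (nat_lit 180))) (PT.nd (nat_lit 78) (PT.lf (nat_lit 21888) (nat_lit 6) (nat_lit 288) (nat_lit 3) (nat_lit 172) (nat_lit 159) (nat_lit 179)) (PT.lf (nat_lit 21964) (nat_lit 6) (nat_lit 289) (nat_lit 3) (nat_lit 173) (nat_lit 159) (nat_lit 178))))))) (PT.nd (nat_lit 53196) (PT.nd (nat_lit 468) (PT.nd (nat_lit 234) (PT.nd (nat_lit 78) (PT.lf (nat_lit 22040) (nat_lit 6) (nat_lit 290) (nat_lit 3) (nat_lit 174) (nat_lit 159) (nat_lit 177)) (PT.nd (nat_lit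 78) (PT.lf (nat_lit 22116) (nat_lit 6) (nat_lit 291) (nat_lit 3) (nat_lit 175) (nat_lit 159) (nat_lit 176)) (PT.lf (nat_lit 22116) (nat_lit 6) (nat_lit 291) (nat_lit 1) (nat_lit 176) (nat_lit 159) (nat_lit 175)))) (PT.nd (nat_lit 78) (PT.lf (nat_lit 22040) (nat_lit 6) (nat_lit 290) (nat_lit 1) (nat_lit 177) (nat_lit 159) (nat_lit 174)) (PT.nd (nat_lit 78) (PT.lf (nat_lit 21964) (nat_lit 6) (nat_lit 289) (nat_lit 1) (nat_lit 178) (nat_lit 159) (nat_lit 173)) (PT.lf (nat_lit 21888) (nat_lit 6) (nat_lit 288) (nat_lit 1) (nat_lit 179) (nat_lit 159) (nat_lit 172))))) (PT.nd (nat_lit 52416) (PT.nd (nat_lit 78) (PT.lf (nat_lit 21812) (nat_lit 6) (nat_lit 287) (nat_lit 1) (nat_lit 180) (nat_lit 159) (nat_lit 171)) (PT.nd (nat_lit 52260) (PT.lf (nat_lit 21736) (nat_lit 6) (nat_lit 286) (nat_lit 1) (nat_lit 181) (nat_lit 159) (nat_lit 170)) (PT.lf (nat_lit 22572) (nat_lit 6) (nat_lit 297) (nat_lit 3) (nat_lit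 170) (nat_lit 160) (nat_lit 180)))) (PT.nd (nat_lit 156) (PT.nd (nat_lit 78) (PT.lf (nat_lit 22648) (nat_lit 6) (nat_lit 298) (nat_lit 3) (nat_lit 171) (nat_lit 160) (nat_lit 179)) (PT.lf (nat_lit 22724) (nat_lit 6) (nat_lit 299) (nat_lit 3) (nat_lit 172) (nat_lit 160) (nat_lit 178))) (PT.nd (nat_lit 78) (PT.lf (nat_lit 22800) (nat_lit 6) (nat_lit 300) (nat_lit 3) (nat_lit 173) (nat_lit 160) (nat_lit 177)) (PT.lf (nat_lit 22876) (nat_lit 6) (nat_lit 301) (nat_lit 3) (nat_lit 174) (nat_lit 160) (nat_lit 176)))))) (PT.nd (nat_lit 52728) (PT.nd (nat_lit 234) (PT.nd (nat_lit 78) (PT.lf (nat_lit 22952) (nat_lit 3) (nat_lit 302) (nat_lit 1) (nat_lit 175) (nat_lit 160) (nat_lit 175)) (PT.nd (nat_lit 78) (PT.lf (nat_lit 22876) (nat_lit 6) (nat_lit 301) (nat_lit 1) (nat_lit 176) (nat_lit 160) (nat_lit 174)) (PT.lf (nat_lit 22800) (nat_lit 6) (nat_lit 300) (nat_lit 1) (nat_lit 177) (nat_lit 160) (nat_lit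 173)))) (PT.nd (nat_lit 156) (PT.nd (nat_lit 78) (PT.lf (nat_lit 22724) (nat_lit 6) (nat_lit 299) (nat_lit 1) (nat_lit 178) (nat_lit 160) (nat_lit 172)) (PT.lf (nat_lit 22648) (nat_lit 6) (nat_lit 298) (nat_lit 1) (nat_lit 179) (nat_lit 160) (nat_lit 171))) (PT.nd (nat_lit 52260) (PT.lf (nat_lit 22572) (nat_lit 6) (nat_lit 297) (nat_lit 1) (nat_lit 180) (nat_lit 160) (nat_lit 170)) (PT.lf (nat_lit 22496) (nat_lit 6) (nat_lit 296) (nat_lit 3) (nat_lit 169) (nat_lit 161) (nat_lit 180))))) (PT.nd (nat_lit 234) (PT.nd (nat_lit 78) (PT.lf (nat_lit 23332) (nat_lit 6) (nat_lit 307) (nat_lit 3) (nat_lit 170) (nat_lit 161) (nat_lit 179)) (PT.nd (nat_lit 78) (PT.lf (nat_lit 23408) (nat_lit 6) (nat_lit 308) (nat_lit 3) (nat_lit 171) (nat_lit 161) (nat_lit 178)) (PT.lf (nat_lit 23484) (nat_lit 6) (nat_lit 309) (nat_lit 3) (nat_lit 172) (nat_lit 161) (nat_lit 177)))) (PT.nd (nat_lit 156) (PT.nd (nat_lit 78)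 (PT.lf (nat_lit 23560) (nat_lit 6) (nat_lit 310) (nat_lit 3) (nat_lit 173) (nat_lit 161) (nat_lit 176)) (PT.lf (nat_lit 23636) (nat_lit 6) (nat_lit 311) (nat_lit 3) (nat_lit 174) (nat_lit 161) (nat_lit 175))) (PT.nd (nat_lit 78) (PT.lf (nat_lit 23636) (nat_lit 6) (nat_lit 311) (nat_lit 1) (nat_lit 175) (nat_lit 161) (nat_lit 174)) (PT.lf (nat_lit 23560) (nat_lit 6) (nat_lit 310) (nat_lit 1) (nat_lit 176) (nat_lit 161) (nat_lit 173))))))))
noncomputable def pc9 : PT := (PT.nd (nat_lit 106236) (PT.nd (nat_lit 53118) (PT.nd (nat_lit 52572) (PT.nd (nat_lit 234) (PT.nd (nat_lit 78) (PT.lf (nat_lit 23484) (nat_lit 6) (nat_lit 309) (nat_lit 1) (nat_lit 177) (nat_lit 161) (nat_lit 172)) (PT.nd (nat_lit 78) (PT.lf (nat_lit 23408) (nat_lit 6) (nat_lit 308) (nat_lit 1) (nat_lit 178) (nat_lit 161) (nat_lit 171)) (PT.lf (nat_lit 23332) (nat_lit 6) (nat_lit 307) (nat_lit 1) (nat_lit 179) (nat_lit 161) (nat_lit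 170)))) (PT.nd (nat_lit 52182) (PT.lf (nat_lit 22496) (nat_lit 6) (nat_lit 296) (nat_lit 1) (nat_lit 180) (nat_lit 161) (nat_lit 169)) (PT.nd (nat_lit 78) (PT.lf (nat_lit 22420) (nat_lit 6) (nat_lit 295) (nat_lit 3) (nat_lit 168) (nat_lit 162) (nat_lit 180)) (PT.lf (nat_lit 23256) (nat_lit 6) (nat_lit 306) (nat_lit 3) (nat_lit 169) (nat_lit 162) (nat_lit 179))))) (PT.nd (nat_lit 234) (PT.nd (nat_lit 78) (PT.lf (nat_lit 24016) (nat_lit 6) (nat_lit 316) (nat_lit 3) (nat_lit 170) (nat_lit 162) (nat_lit 178)) (PT.nd (nat_lit 78) (PT.lf (nat_lit 24092) (nat_lit 6) (nat_lit 317) (nat_lit 3) (nat_lit 171) (nat_lit 162) (nat_lit 177)) (PT.lf (nat_lit 24168) (nat_lit 6) (nat_lit 318) (nat_lit 3) (nat_lit 172) (nat_lit 162) (nat_lit 176)))) (PT.nd (nat_lit 156) (PT.nd (nat_lit 78) (PT.lf (nat_lit 24244) (nat_lit 6) (nat_lit 319) (nat_lit 3) (nat_lit 173) (nat_lit 162) (nat_lit 175)) (PT.lf (nat_lit 24320)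 (nat_lit 3) (nat_lit 320) (nat_lit 1) (nat_lit 174) (nat_lit 162) (nat_lit 174))) (PT.nd (nat_lit 78) (PT.lf (nat_lit 24244) (nat_lit 6) (nat_lit 319) (nat_lit 1) (nat_lit 175) (nat_lit 162) (nat_lit 173)) (PT.lf (nat_lit 24168) (nat_lit 6) (nat_lit 318) (nat_lit 1) (nat_lit 176) (nat_lit 162) (nat_lit 172)))))) (PT.nd (nat_lit 52572) (PT.nd (nat_lit 234) (PT.nd (nat_lit 78) (PT.lf (nat_lit 24092) (nat_lit 6) (nat_lit 317) (nat_lit 1) (nat_lit 177) (nat_lit 162) (nat_lit 171)) (PT.nd (nat_lit 78) (PT.lf (nat_lit 24016) (nat_lit 6) (nat_lit 316) (nat_lit 1) (nat_lit 178) (nat_lit 162) (nat_lit 170)) (PT.lf (nat_lit 23256) (nat_lit 6) (nat_lit 306) (nat_lit 1) (nat_lit 179) (nat_lit 162) (nat_lit 169)))) (PT.nd (nat_lit 52182) (PT.nd (nat_lit 52104) (PT.lf (nat_lit 22420) (nat_lit 6) (nat_lit 295) (nat_lit 1) (nat_lit 180) (nat_lit 162) (nat_lit 168)) (PT.lf (nat_lit 22344) (nat_lit 6) (nat_lit 294)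 (nat_lit 3) (nat_lit 167) (nat_lit 163) (nat_lit 180))) (PT.nd (nat_lit 78) (PT.lf (nat_lit 23180) (nat_lit 6) (nat_lit 305) (nat_lit 3) (nat_lit 168) (nat_lit 163) (nat_lit 179)) (PT.lf (nat_lit 23940) (nat_lit 6) (nat_lit 315) (nat_lit 3) (nat_lit 169) (nat_lit 163) (nat_lit 178))))) (PT.nd (nat_lit 234) (PT.nd (nat_lit 78) (PT.lf (nat_lit 24624) (nat_lit 6) (nat_lit 324) (nat_lit 3) (nat_lit 170) (nat_lit 163) (nat_lit 177)) (PT.nd (nat_lit 78) (PT.lf (nat_lit 24700) (nat_lit 6) (nat_lit 325) (nat_lit 3) (nat_lit 171) (nat_lit 163) (nat_lit 176)) (PT.lf (nat_lit 24776) (nat_lit 6) (nat_lit 326) (nat_lit 3) (nat_lit 172) (nat_lit 163) (nat_lit 175)))) (PT.nd (nat_lit 156) (PT.nd (nat_lit 78) (PT.lf (nat_lit 24852) (nat_lit 6) (nat_lit 327) (nat_lit 3) (nat_lit 173) (nat_lit 163) (nat_lit 174)) (PT.lf (nat_lit 24852) (nat_lit 6) (nat_lit 327) (nat_lit 1) (nat_lit 174) (nat_lit 163) (nat_lit 173)))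 (PT.nd (nat_lit 78) (PT.lf (nat_lit 24776) (nat_lit 6) (nat_lit 326) (nat_lit 1) (nat_lit 175) (nat_lit 163) (nat_lit 172)) (PT.lf (nat_lit 24700) (nat_lit 6) (nat_lit 325) (nat_lit 1) (nat_lit 176) (nat_lit 163) (nat_lit 171))))))) (PT.nd (nat_lit 52962) (PT.nd (nat_lit 52416) (PT.nd (nat_lit 234) (PT.nd (nat_lit 78) (PT.lf (nat_lit 24624) (nat_lit 6) (nat_lit 324) (nat_lit 1) (nat_lit 177) (nat_lit 163) (nat_lit 170)) (PT.nd (nat_lit 78) (PT.lf (nat_lit 23940) (nat_lit 6) (nat_lit 315) (nat_lit 1) (nat_lit 178) (nat_lit 163) (nat_lit 169)) (PT.lf (nat_lit 23180) (nat_lit 6) (nat_lit 305) (nat_lit 1) (nat_lit 179) (nat_lit 163) (nat_lit 168)))) (PT.nd (nat_lit 52026) (PT.lf (nat_lit 22344) (nat_lit 6) (nat_lit 294) (nat_lit 1) (nat_lit 180) (nat_lit 163) (nat_lit 167)) (PT.nd (nat_lit 78) (PT.lf (nat_lit 22268) (nat_lit 6) (nat_lit 293) (nat_lit 3) (nat_lit 166) (nat_lit 164) (nat_lit 180)) (PT.lf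 (nat_lit 23104) (nat_lit 6) (nat_lit 304) (nat_lit 3) (nat_lit 167) (nat_lit 164) (nat_lit 179))))) (PT.nd (nat_lit 234) (PT.nd (nat_lit 78) (PT.lf (nat_lit 23864) (nat_lit 6) (nat_lit 314) (nat_lit 3) (nat_lit 168) (nat_lit 164) (nat_lit 178)) (PT.nd (nat_lit 78) (PT.lf (nat_lit 24548) (nat_lit 6) (nat_lit 323) (nat_lit 3) (nat_lit 169) (nat_lit 164) (nat_lit 177)) (PT.lf (nat_lit 25156) (nat_lit 6) (nat_lit 331) (nat_lit 3) (nat_lit 170) (nat_lit 164) (nat_lit 176)))) (PT.nd (nat_lit 156) (PT.nd (nat_lit 78) (PT.lf (nat_lit 25232) (nat_lit 6) (nat_lit 332) (nat_lit 3) (nat_lit 171) (nat_lit 164) (nat_lit 175)) (PT.lf (nat_lit 25308) (nat_lit 6) (nat_lit 333) (nat_lit 3) (nat_lit 172) (nat_lit 164) (nat_lit 174))) (PT.nd (nat_lit 78) (PT.lf (nat_lit 25384) (nat_lit 3) (nat_lit 334) (nat_lit 1) (nat_lit 173) (nat_lit 164) (nat_lit 173)) (PT.lf (nat_lit 25308) (nat_lit 6) (nat_lit 333) (nat_lit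 1) (nat_lit 174) (nat_lit 164) (nat_lit 172)))))) (PT.nd (nat_lit 52416) (PT.nd (nat_lit 234) (PT.nd (nat_lit 78) (PT.lf (nat_lit 25232) (nat_lit 6) (nat_lit 332) (nat_lit 1) (nat_lit 175) (nat_lit 164) (nat_lit 171)) (PT.nd (nat_lit 78) (PT.lf (nat_lit 25156) (nat_lit 6) (nat_lit 331) (nat_lit 1) (nat_lit 176) (nat_lit 164) (nat_lit 170)) (PT.lf (nat_lit 24548) (nat_lit 6) (nat_lit 323) (nat_lit 1) (nat_lit 177) (nat_lit 164) (nat_lit 169)))) (PT.nd (nat_lit 156) (PT.nd (nat_lit 78) (PT.lf (nat_lit 23864) (nat_lit 6) (nat_lit 314) (nat_lit 1) (nat_lit 178) (nat_lit 164) (nat_lit 168)) (PT.lf (nat_lit 23104) (nat_lit 6) (nat_lit 304) (nat_lit 1) (nat_lit 179) (nat_lit 164) (nat_lit 167))) (PT.nd (nat_lit 51948) (PT.lf (nat_lit 22268) (nat_lit 6) (nat_lit 293) (nat_lit 1) (nat_lit 180) (nat_lit 164) (nat_lit 166)) (PT.lf (nat_lit 22192) (nat_lit 3) (nat_lit 292) (nat_lit 3) (nat_lit 165) (nat_lit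 165) (nat_lit 180))))) (PT.nd (nat_lit 234) (PT.nd (nat_lit 78) (PT.lf (nat_lit 23028) (nat_lit 6) (nat_lit 303) (nat_lit 3) (nat_lit 166) (nat_lit 165) (nat_lit 179)) (PT.nd (nat_lit 78) (PT.lf (nat_lit 23788) (nat_lit 6) (nat_lit 313) (nat_lit 3) (nat_lit 167) (nat_lit 165) (nat_lit 178)) (PT.lf (nat_lit 24472) (nat_lit 6) (nat_lit 322) (nat_lit 3) (nat_lit 168) (nat_lit 165) (nat_lit 177)))) (PT.nd (nat_lit 156) (PT.nd (nat_lit 78) (PT.lf (nat_lit 25080) (nat_lit 6) (nat_lit 330) (nat_lit 3) (nat_lit 169) (nat_lit 165) (nat_lit 176)) (PT.lf (nat_lit 25612) (nat_lit 6) (nat_lit 337) (nat_lit 3) (nat_lit 170) (nat_lit 165) (nat_lit 175))) (PT.nd (nat_lit 78) (PT.lf (nat_lit 25688) (nat_lit 6) (nat_lit 338) (nat_lit 3) (nat_lit 171) (nat_lit 165) (nat_lit 174)) (PT.lf (nat_lit 25764) (nat_lit 6) (nat_lit 339) (nat_lit 3) (nat_lit 172) (nat_lit 165) (nat_lit 173))))))))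
noncomputable def pc10 : PT := (PT.nd (nat_lit 105612) (PT.nd (nat_lit 52806) (PT.nd (nat_lit 468) (PT.nd (nat_lit 234) (PT.nd (nat_lit 78) (PT.lf (nat_lit 25764) (nat_lit 6) (nat_lit 339) (nat_lit 1) (nat_lit 173) (nat_lit 165) (nat_lit 172)) (PT.nd (nat_lit 78) (PT.lf (nat_lit 25688) (nat_lit 6) (nat_lit 338) (nat_lit 1) (nat_lit 174) (nat_lit 165) (nat_lit 171)) (PT.lf (nat_lit 25612) (nat_lit 6) (nat_lit 337) (nat_lit 1) (nat_lit 175) (nat_lit 165) (nat_lit 170)))) (PT.nd (nat_lit 78) (PT.lf (nat_lit 25080) (nat_lit 6) (nat_lit 330) (nat_lit 1) (nat_lit 176) (nat_lit 165) (nat_lit 169)) (PT.nd (nat_lit 78) (PT.lf (nat_lit 24472) (nat_lit 6) (nat_lit 322) (nat_lit 1) (nat_lit 177) (nat_lit 165) (nat_lit 168)) (PT.lf (nat_lit 23788) (nat_lit 6) (nat_lit 313) (nat_lit 1) (nat_lit 178) (nat_lit 165) (nat_lit 167))))) (PT.nd (nat_lit 52026) (PT.nd (nat_lit 78) (PT.lf (nat_lit 23028) (nat_lit 6)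 (nat_lit 303) (nat_lit 1) (nat_lit 179) (nat_lit 165) (nat_lit 166)) (PT.nd (nat_lit 51870) (PT.lf (nat_lit 22192) (nat_lit 3) (nat_lit 292) (nat_lit 0) (nat_lit 180) (nat_lit 165) (nat_lit 165)) (PT.lf (nat_lit 22268) (nat_lit 6) (nat_lit 293) (nat_lit 5) (nat_lit 164) (nat_lit 166) (nat_lit 180)))) (PT.nd (nat_lit 156) (PT.nd (nat_lit 78) (PT.lf (nat_lit 23028) (nat_lit 6) (nat_lit 303) (nat_lit 5) (nat_lit 165) (nat_lit 166) (nat_lit 179)) (PT.lf (nat_lit 23712) (nat_lit 3) (nat_lit 312) (nat_lit 3) (nat_lit 166) (nat_lit 166) (nat_lit 178))) (PT.nd (nat_lit 78) (PT.lf (nat_lit 24396) (nat_lit 6) (nat_lit 321) (nat_lit 3) (nat_lit 167) (nat_lit 166) (nat_lit 177)) (PT.lf (nat_lit 25004) (nat_lit 6) (nat_lit 329) (nat_lit 3) (nat_lit 168) (nat_lit 166) (nat_lit 176)))))) (PT.nd (nat_lit 546) (PT.nd (nat_lit 234) (PT.nd (nat_lit 78) (PT.lf (nat_lit 25536) (nat_lit 6) (nat_lit 336) (nat_lit 3)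 (nat_lit 169) (nat_lit 166) (nat_lit 175)) (PT.nd (nat_lit 78) (PT.lf (nat_lit 25992) (nat_lit 6) (nat_lit 342) (nat_lit 3) (nat_lit 170) (nat_lit 166) (nat_lit 174)) (PT.lf (nat_lit 26068) (nat_lit 6) (nat_lit 343) (nat_lit 3) (nat_lit 171) (nat_lit 166) (nat_lit 173)))) (PT.nd (nat_lit 156) (PT.nd (nat_lit 78) (PT.lf (nat_lit 26144) (nat_lit 3) (nat_lit 344) (nat_lit 1) (nat_lit 172) (nat_lit 166) (nat_lit 172)) (PT.lf (nat_lit 26068) (nat_lit 6) (nat_lit 343) (nat_lit 1) (nat_lit 173) (nat_lit 166) (nat_lit 171))) (PT.nd (nat_lit 78) (PT.lf (nat_lit 25992) (nat_lit 6) (nat_lit 342) (nat_lit 1) (nat_lit 174) (nat_lit 166) (nat_lit 170)) (PT.lf (nat_lit 25536) (nat_lit 6) (nat_lit 336) (nat_lit 1) (nat_lit 175) (nat_lit 166) (nat_lit 169))))) (PT.nd (nat_lit 234) (PT.nd (nat_lit 78) (PT.lf (nat_lit 25004) (nat_lit 6) (nat_lit 329) (nat_lit 1) (nat_lit 176) (nat_lit 166) (nat_lit 168)) (PT.nd (nat_lit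 78) (PT.lf (nat_lit 24396) (nat_lit 6) (nat_lit 321) (nat_lit 1) (nat_lit 177) (nat_lit 166) (nat_lit 167)) (PT.lf (nat_lit 23712) (nat_lit 3) (nat_lit 312) (nat_lit 0) (nat_lit 178) (nat_lit 166) (nat_lit 166)))) (PT.nd (nat_lit 51870) (PT.nd (nat_lit 78) (PT.lf (nat_lit 23028) (nat_lit 6) (nat_lit 303) (nat_lit 0) (nat_lit 179) (nat_lit 166) (nat_lit 165)) (PT.lf (nat_lit 22268) (nat_lit 6) (nat_lit 293) (nat_lit 0) (nat_lit 180) (nat_lit 166) (nat_lit 164))) (PT.nd (nat_lit 78) (PT.lf (nat_lit 22344) (nat_lit 6) (nat_lit 294) (nat_lit 5) (nat_lit 163) (nat_lit 167) (nat_lit 180)) (PT.lf (nat_lit 23104) (nat_lit 6) (nat_lit 304) (nat_lit 5) (nat_lit 164) (nat_lit 167) (nat_lit 179))))))) (PT.nd (nat_lit 1014) (PT.nd (nat_lit 468) (PT.nd (nat_lit 234) (PT.nd (nat_lit 78) (PT.lf (nat_lit 23788) (nat_lit 6) (nat_lit 313) (nat_lit 5) (nat_lit 165) (nat_lit 167) (nat_lit 178)) (PT.nd (nat_lit 78)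 (PT.lf (nat_lit 24396) (nat_lit 6) (nat_lit 321) (nat_lit 5) (nat_lit 166) (nat_lit 167) (nat_lit 177)) (PT.lf (nat_lit 24928) (nat_lit 3) (nat_lit 328) (nat_lit 3) (nat_lit 167) (nat_lit 167) (nat_lit 176)))) (PT.nd (nat_lit 78) (PT.lf (nat_lit 25460) (nat_lit 6) (nat_lit 335) (nat_lit 3) (nat_lit 168) (nat_lit 167) (nat_lit 175)) (PT.nd (nat_lit 78) (PT.lf (nat_lit 25916) (nat_lit 6) (nat_lit 341) (nat_lit 3) (nat_lit 169) (nat_lit 167) (nat_lit 174)) (PT.lf (nat_lit 26296) (nat_lit 6) (nat_lit 346) (nat_lit 3) (nat_lit 170) (nat_lit 167) (nat_lit 173))))) (PT.nd (nat_lit 234) (PT.nd (nat_lit 78) (PT.lf (nat_lit 26372) (nat_lit 6) (nat_lit 347) (nat_lit 3) (nat_lit 171) (nat_lit 167) (nat_lit 172)) (PT.nd (nat_lit 78) (PT.lf (nat_lit 26372) (nat_lit 6) (nat_lit 347) (nat_lit 1) (nat_lit 172) (nat_lit 167) (nat_lit 171)) (PT.lf (nat_lit 26296) (nat_lit 6) (nat_lit 346) (nat_lit 1) (nat_lit 173)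 (nat_lit 167) (nat_lit 170)))) (PT.nd (nat_lit 156) (PT.nd (nat_lit 78) (PT.lf (nat_lit 25916) (nat_lit 6) (nat_lit 341) (nat_lit 1) (nat_lit 174) (nat_lit 167) (nat_lit 169)) (PT.lf (nat_lit 25460) (nat_lit 6) (nat_lit 335) (nat_lit 1) (nat_lit 175) (nat_lit 167) (nat_lit 168))) (PT.nd (nat_lit 78) (PT.lf (nat_lit 24928) (nat_lit 3) (nat_lit 328) (nat_lit 0) (nat_lit 176) (nat_lit 167) (nat_lit 167)) (PT.lf (nat_lit 24396) (nat_lit 6) (nat_lit 321) (nat_lit 0) (nat_lit 177) (nat_lit 167) (nat_lit 166)))))) (PT.nd (nat_lit 52182) (PT.nd (nat_lit 51870) (PT.nd (nat_lit 78) (PT.lf (nat_lit 23788) (nat_lit 6) (nat_lit 313) (nat_lit 0) (nat_lit 178) (nat_lit 167) (nat_lit 165)) (PT.nd (nat_lit 78) (PT.lf (nat_lit 23104) (nat_lit 6) (nat_lit 304) (nat_lit 0) (nat_lit 179) (nat_lit 167) (nat_lit 164)) (PT.lf (nat_lit 22344) (nat_lit 6) (nat_lit 294) (nat_lit 0) (nat_lit 180) (nat_lit 167) (nat_lit 163))))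 (PT.nd (nat_lit 156) (PT.nd (nat_lit 78) (PT.lf (nat_lit 22420) (nat_lit 6) (nat_lit 295) (nat_lit 5) (nat_lit 162) (nat_lit 168) (nat_lit 180)) (PT.lf (nat_lit 23180) (nat_lit 6) (nat_lit 305) (nat_lit 5) (nat_lit 163) (nat_lit 168) (nat_lit 179))) (PT.nd (nat_lit 78) (PT.lf (nat_lit 23864) (nat_lit 6) (nat_lit 314) (nat_lit 5) (nat_lit 164) (nat_lit 168) (nat_lit 178)) (PT.lf (nat_lit 24472) (nat_lit 6) (nat_lit 322) (nat_lit 5) (nat_lit 165) (nat_lit 168) (nat_lit 177))))) (PT.nd (nat_lit 234) (PT.nd (nat_lit 78) (PT.lf (nat_lit 25004) (nat_lit 6) (nat_lit 329) (nat_lit 5) (nat_lit 166) (nat_lit 168) (nat_lit 176)) (PT.nd (nat_lit 78) (PT.lf (nat_lit 25460) (nat_lit 6) (nat_lit 335) (nat_lit 5) (nat_lit 167) (nat_lit 168) (nat_lit 175)) (PT.lf (nat_lit 25840) (nat_lit 3) (nat_lit 340) (nat_lit 3) (nat_lit 168) (nat_lit 168) (nat_lit 174)))) (PT.nd (nat_lit 156) (PT.nd (nat_lit 78) (PT.lf (nat_lit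 26220) (nat_lit 6) (nat_lit 345) (nat_lit 3) (nat_lit 169) (nat_lit 168) (nat_lit 173)) (PT.lf (nat_lit 26524) (nat_lit 6) (nat_lit 349) (nat_lit 3) (nat_lit 170) (nat_lit 168) (nat_lit 172))) (PT.nd (nat_lit 78) (PT.lf (nat_lit 26600) (nat_lit 3) (nat_lit 350) (nat_lit 1) (nat_lit 171) (nat_lit 168) (nat_lit 171)) (PT.lf (nat_lit 26524) (nat_lit 6) (nat_lit 349) (nat_lit 1) (nat_lit 172) (nat_lit 168) (nat_lit 170))))))))
noncomputable def pc11 : PT := (PT.nd (nat_lit 53664) (PT.nd (nat_lit 52572) (PT.nd (nat_lit 468) (PT.nd (nat_lit 234) (PT.nd (nat_lit 78) (PT.lf (nat_lit 26220) (nat_lit 6) (nat_lit 345) (nat_lit 1) (nat_lit 173) (nat_lit 168) (nat_lit 169)) (PT.nd (nat_lit 78) (PT.lf (nat_lit 25840) (nat_lit 3) (nat_lit 340) (nat_lit 0) (nat_lit 174) (nat_lit 168) (nat_lit 168)) (PT.lf (nat_lit 25460) (nat_lit 6) (nat_lit 335) (nat_lit 0) (nat_lit 175) (nat_lit 168) (nat_lit 167)))) (PT.nd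 (nat_lit 78) (PT.lf (nat_lit 25004) (nat_lit 6) (nat_lit 329) (nat_lit 0) (nat_lit 176) (nat_lit 168) (nat_lit 166)) (PT.nd (nat_lit 78) (PT.lf (nat_lit 24472) (nat_lit 6) (nat_lit 322) (nat_lit 0) (nat_lit 177) (nat_lit 168) (nat_lit 165)) (PT.lf (nat_lit 23864) (nat_lit 6) (nat_lit 314) (nat_lit 0) (nat_lit 178) (nat_lit 168) (nat_lit 164))))) (PT.nd (nat_lit 51792) (PT.nd (nat_lit 78) (PT.lf (nat_lit 23180) (nat_lit 6) (nat_lit 305) (nat_lit 0) (nat_lit 179) (nat_lit 168) (nat_lit 163)) (PT.nd (nat_lit 51636) (PT.lf (nat_lit 22420) (nat_lit 6) (nat_lit 295) (nat_lit 0) (nat_lit 180) (nat_lit 168) (nat_lit 162)) (PT.lf (nat_lit 22496) (nat_lit 6) (nat_lit 296) (nat_lit 5) (nat_lit 161) (nat_lit 169) (nat_lit 180)))) (PT.nd (nat_lit 156) (PT.nd (nat_lit 78) (PT.lf (nat_lit 23256) (nat_lit 6) (nat_lit 306) (nat_lit 5) (nat_lit 162) (nat_lit 169) (nat_lit 179)) (PT.lf (nat_lit 23940) (nat_lit 6)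 (nat_lit 315) (nat_lit 5) (nat_lit 163) (nat_lit 169) (nat_lit 178))) (PT.nd (nat_lit 78) (PT.lf (nat_lit 24548) (nat_lit 6) (nat_lit 323) (nat_lit 5) (nat_lit 164) (nat_lit 169) (nat_lit 177)) (PT.lf (nat_lit 25080) (nat_lit 6) (nat_lit 330) (nat_lit 5) (nat_lit 165) (nat_lit 169) (nat_lit 176)))))) (PT.nd (nat_lit 546) (PT.nd (nat_lit 234) (PT.nd (nat_lit 78) (PT.lf (nat_lit 25536) (nat_lit 6) (nat_lit 336) (nat_lit 5) (nat_lit 166) (nat_lit 169) (nat_lit 175)) (PT.nd (nat_lit 78) (PT.lf (nat_lit 25916) (nat_lit 6) (nat_lit 341) (nat_lit 5) (nat_lit 167) (nat_lit 169) (nat_lit 174)) (PT.lf (nat_lit 26220) (nat_lit 6) (nat_lit 345) (nat_lit 5) (nat_lit 168) (nat_lit 169) (nat_lit 173)))) (PT.nd (nat_lit 156) (PT.nd (nat_lit 78) (PT.lf (nat_lit 26448) (nat_lit 3) (nat_lit 348) (nat_lit 3) (nat_lit 169) (nat_lit 169) (nat_lit 172)) (PT.lf (nat_lit 26676) (nat_lit 6) (nat_lit 351) (nat_lit 3) (nat_lit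 170) (nat_lit 169) (nat_lit 171))) (PT.nd (nat_lit 78) (PT.lf (nat_lit 26676) (nat_lit 6) (nat_lit 351) (nat_lit 1) (nat_lit 171) (nat_lit 169) (nat_lit 170)) (PT.lf (nat_lit 26448) (nat_lit 3) (nat_lit 348) (nat_lit 0) (nat_lit 172) (nat_lit 169) (nat_lit 169))))) (PT.nd (nat_lit 234) (PT.nd (nat_lit 78) (PT.lf (nat_lit 26220) (nat_lit 6) (nat_lit 345) (nat_lit 0) (nat_lit 173) (nat_lit 169) (nat_lit 168)) (PT.nd (nat_lit 78) (PT.lf (nat_lit 25916) (nat_lit 6) (nat_lit 341) (nat_lit 0) (nat_lit 174) (nat_lit 169) (nat_lit 167)) (PT.lf (nat_lit 25536) (nat_lit 6) (nat_lit 336) (nat_lit 0) (nat_lit 175) (nat_lit 169) (nat_lit 166)))) (PT.nd (nat_lit 156) (PT.nd (nat_lit 78) (PT.lf (nat_lit 25080) (nat_lit 6) (nat_lit 330) (nat_lit 0) (nat_lit 176) (nat_lit 169) (nat_lit 165)) (PT.lf (nat_lit 24548) (nat_lit 6) (nat_lit 323) (nat_lit 0) (nat_lit 177) (nat_lit 169) (nat_lit 164))) (PT.nd (nat_lit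 78) (PT.lf (nat_lit 23940) (nat_lit 6) (nat_lit 315) (nat_lit 0) (nat_lit 178) (nat_lit 169) (nat_lit 163)) (PT.lf (nat_lit 23256) (nat_lit 6) (nat_lit 306) (nat_lit 0) (nat_lit 179) (nat_lit 169) (nat_lit 162))))))) (PT.nd (nat_lit 52494) (PT.nd (nat_lit 51948) (PT.nd (nat_lit 51636) (PT.nd (nat_lit 51480) (PT.lf (nat_lit 22496) (nat_lit 6) (nat_lit 296) (nat_lit 0) (nat_lit 180) (nat_lit 169) (nat_lit 161)) (PT.nd (nat_lit 78) (PT.lf (nat_lit 21736) (nat_lit 6) (nat_lit 286) (nat_lit 5) (nat_lit 159) (nat_lit 170) (nat_lit 181)) (PT.lf (nat_lit 22572) (nat_lit 6) (nat_lit 297) (nat_lit 5) (nat_lit 160) (nat_lit 170) (nat_lit 180)))) (PT.nd (nat_lit 156) (PT.nd (nat_lit 78) (PT.lf (nat_lit 23332) (nat_lit 6) (nat_lit 307) (nat_lit 5) (nat_lit 161) (nat_lit 170) (nat_lit 179)) (PT.lf (nat_lit 24016) (nat_lit 6) (nat_lit 316) (nat_lit 5) (nat_lit 162) (nat_lit 170) (nat_lit 178))) (PT.nd (nat_lit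 78) (PT.lf (nat_lit 24624) (nat_lit 6) (nat_lit 324) (nat_lit 5) (nat_lit 163) (nat_lit 170) (nat_lit 177)) (PT.lf (nat_lit 25156) (nat_lit 6) (nat_lit 331) (nat_lit 5) (nat_lit 164) (nat_lit 170) (nat_lit 176))))) (PT.nd (nat_lit 234) (PT.nd (nat_lit 78) (PT.lf (nat_lit 25612) (nat_lit 6) (nat_lit 337) (nat_lit 5) (nat_lit 165) (nat_lit 170) (nat_lit 175)) (PT.nd (nat_lit 78) (PT.lf (nat_lit 25992) (nat_lit 6) (nat_lit 342) (nat_lit 5) (nat_lit 166) (nat_lit 170) (nat_lit 174)) (PT.lf (nat_lit 26296) (nat_lit 6) (nat_lit 346) (nat_lit 5) (nat_lit 167) (nat_lit 170) (nat_lit 173)))) (PT.nd (nat_lit 156) (PT.nd (nat_lit 78) (PT.lf (nat_lit 26524) (nat_lit 6) (nat_lit 349) (nat_lit 5) (nat_lit 168) (nat_lit 170) (nat_lit 172)) (PT.lf (nat_lit 26676) (nat_lit 6) (nat_lit 351) (nat_lit 5) (nat_lit 169) (nat_lit 170) (nat_lit 171))) (PT.nd (nat_lit 78) (PT.lf (nat_lit 26752) (nat_lit 1) (nat_lit 352)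 (nat_lit 0) (nat_lit 170) (nat_lit 170) (nat_lit 170)) (PT.lf (nat_lit 26676) (nat_lit 6) (nat_lit 351) (nat_lit 0) (nat_lit 171) (nat_lit 170) (nat_lit 169)))))) (PT.nd (nat_lit 546) (PT.nd (nat_lit 234) (PT.nd (nat_lit 78) (PT.lf (nat_lit 26524) (nat_lit 6) (nat_lit 349) (nat_lit 0) (nat_lit 172) (nat_lit 170) (nat_lit 168)) (PT.nd (nat_lit 78) (PT.lf (nat_lit 26296) (nat_lit 6) (nat_lit 346) (nat_lit 0) (nat_lit 173) (nat_lit 170) (nat_lit 167)) (PT.lf (nat_lit 25992) (nat_lit 6) (nat_lit 342) (nat_lit 0) (nat_lit 174) (nat_lit 170) (nat_lit 166)))) (PT.nd (nat_lit 156) (PT.nd (nat_lit 78) (PT.lf (nat_lit 25612) (nat_lit 6) (nat_lit 337) (nat_lit 0) (nat_lit 175) (nat_lit 170) (nat_lit 165)) (PT.lf (nat_lit 25156) (nat_lit 6) (nat_lit 331) (nat_lit 0) (nat_lit 176) (nat_lit 170) (nat_lit 164))) (PT.nd (nat_lit 78) (PT.lf (nat_lit 24624) (nat_lit 6) (nat_lit 324) (nat_lit 0) (nat_lit 177) (nat_lit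 170) (nat_lit 163)) (PT.lf (nat_lit 24016) (nat_lit 6) (nat_lit 316) (nat_lit 0) (nat_lit 178) (nat_lit 170) (nat_lit 162))))) (PT.nd (nat_lit 51480) (PT.nd (nat_lit 78) (PT.lf (nat_lit 23332) (nat_lit 6) (nat_lit 307) (nat_lit 0) (nat_lit 179) (nat_lit 170) (nat_lit 161)) (PT.nd (nat_lit 78) (PT.lf (nat_lit 22572) (nat_lit 6) (nat_lit 297) (nat_lit 0) (nat_lit 180) (nat_lit 170) (nat_lit 160)) (PT.lf (nat_lit 21736) (nat_lit 6) (nat_lit 286) (nat_lit 0) (nat_lit 181) (nat_lit 170) (nat_lit 159)))) (PT.nd (nat_lit 156) (PT.nd (nat_lit 78) (PT.lf (nat_lit 21280) (nat_lit 6) (nat_lit 280) (nat_lit 5) (nat_lit 158) (nat_lit 171) (nat_lit 181)) (PT.lf (nat_lit 21812) (nat_lit 6) (nat_lit 287) (nat_lit 5) (nat_lit 159) (nat_lit 171) (nat_lit 180))) (PT.nd (nat_lit 78) (PT.lf (nat_lit 22648) (nat_lit 6) (nat_lit 298) (nat_lit 5) (nat_lit 160) (nat_lit 171) (nat_lit 179)) (PT.lf (nat_lit 23408) (nat_lit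 6) (nat_lit 308) (nat_lit 5) (nat_lit 161) (nat_lit 171) (nat_lit 178))))))))
noncomputable def pc12 : PT := (PT.nd (nat_lit 53274) (PT.nd (nat_lit 1014) (PT.nd (nat_lit 468) (PT.nd (nat_lit 234) (PT.nd (nat_lit 78) (PT.lf (nat_lit 24092) (nat_lit 6) (nat_lit 317) (nat_lit 5) (nat_lit 162) (nat_lit 171) (nat_lit 177)) (PT.nd (nat_lit 78) (PT.lf (nat_lit 24700) (nat_lit 6) (nat_lit 325) (nat_lit 5) (nat_lit 163) (nat_lit 171) (nat_lit 176)) (PT.lf (nat_lit 25232) (nat_lit 6) (nat_lit 332) (nat_lit 5) (nat_lit 164) (nat_lit 171) (nat_lit 175)))) (PT.nd (nat_lit 78) (PT.lf (nat_lit 25688) (nat_lit 6) (nat_lit 338) (nat_lit 5) (nat_lit 165) (nat_lit 171) (nat_lit 174)) (PT.nd (nat_lit 78) (PT.lf (nat_lit 26068) (nat_lit 6) (nat_lit 343) (nat_lit 5) (nat_lit 166) (nat_lit 171) (nat_lit 173)) (PT.lf (nat_lit 26372) (nat_lit 6) (nat_lit 347) (nat_lit 5) (nat_lit 167) (nat_lit 171) (nat_lit 172))))) (PT.nd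 (nat_lit 234) (PT.nd (nat_lit 78) (PT.lf (nat_lit 26600) (nat_lit 3) (nat_lit 350) (nat_lit 4) (nat_lit 168) (nat_lit 171) (nat_lit 171)) (PT.nd (nat_lit 78) (PT.lf (nat_lit 26676) (nat_lit 6) (nat_lit 351) (nat_lit 4) (nat_lit 169) (nat_lit 171) (nat_lit 170)) (PT.lf (nat_lit 26676) (nat_lit 6) (nat_lit 351) (nat_lit 2) (nat_lit 170) (nat_lit 171) (nat_lit 169)))) (PT.nd (nat_lit 156) (PT.nd (nat_lit 78) (PT.lf (nat_lit 26600) (nat_lit 3) (nat_lit 350) (nat_lit 0) (nat_lit 171) (nat_lit 171) (nat_lit 168)) (PT.lf (nat_lit 26372) (nat_lit 6) (nat_lit 347) (nat_lit 0) (nat_lit 172) (nat_lit 171) (nat_lit 167))) (PT.nd (nat_lit 78) (PT.lf (nat_lit 26068) (nat_lit 6) (nat_lit 343) (nat_lit 0) (nat_lit 173) (nat_lit 171) (nat_lit 166)) (PT.lf (nat_lit 25688) (nat_lit 6) (nat_lit 338) (nat_lit 0) (nat_lit 174) (nat_lit 171) (nat_lit 165)))))) (PT.nd (nat_lit 51714) (PT.nd (nat_lit 234) (PT.nd (nat_lit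 78) (PT.lf (nat_lit 25232) (nat_lit 6) (nat_lit 332) (nat_lit 0) (nat_lit 175) (nat_lit 171) (nat_lit 164)) (PT.nd (nat_lit 78) (PT.lf (nat_lit 24700) (nat_lit 6) (nat_lit 325) (nat_lit 0) (nat_lit 176) (nat_lit 171) (nat_lit 163)) (PT.lf (nat_lit 24092) (nat_lit 6) (nat_lit 317) (nat_lit 0) (nat_lit 177) (nat_lit 171) (nat_lit 162)))) (PT.nd (nat_lit 156) (PT.nd (nat_lit 78) (PT.lf (nat_lit 23408) (nat_lit 6) (nat_lit 308) (nat_lit 0) (nat_lit 178) (nat_lit 171) (nat_lit 161)) (PT.lf (nat_lit 22648) (nat_lit 6) (nat_lit 298) (nat_lit 0) (nat_lit 179) (nat_lit 171) (nat_lit 160))) (PT.nd (nat_lit 78) (PT.lf (nat_lit 21812) (nat_lit 6) (nat_lit 287) (nat_lit 0) (nat_lit 180) (nat_lit 171) (nat_lit 159)) (PT.lf (nat_lit 21280) (nat_lit 6) (nat_lit 280) (nat_lit 0) (nat_lit 181) (nat_lit 171) (nat_lit 158))))) (PT.nd (nat_lit 234) (PT.nd (nat_lit 78) (PT.lf (nat_lit 20900) (nat_lit 6) (nat_lit 275)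 (nat_lit 5) (nat_lit 157) (nat_lit 172) (nat_lit 181)) (PT.nd (nat_lit 78) (PT.lf (nat_lit 21356) (nat_lit 6) (nat_lit 281) (nat_lit 5) (nat_lit 158) (nat_lit 172) (nat_lit 180)) (PT.lf (nat_lit 21888) (nat_lit 6) (nat_lit 288) (nat_lit 5) (nat_lit 159) (nat_lit 172) (nat_lit 179)))) (PT.nd (nat_lit 156) (PT.nd (nat_lit 78) (PT.lf (nat_lit 22724) (nat_lit 6) (nat_lit 299) (nat_lit 5) (nat_lit 160) (nat_lit 172) (nat_lit 178)) (PT.lf (nat_lit 23484) (nat_lit 6) (nat_lit 309) (nat_lit 5) (nat_lit 161) (nat_lit 172) (nat_lit 177))) (PT.nd (nat_lit 78) (PT.lf (nat_lit 24168) (nat_lit 6) (nat_lit 318) (nat_lit 5) (nat_lit 162) (nat_lit 172) (nat_lit 176)) (PT.lf (nat_lit 24776) (nat_lit 6) (nat_lit 326) (nat_lit 5) (nat_lit 163) (nat_lit 172) (nat_lit 175))))))) (PT.nd (nat_lit 1014) (PT.nd (nat_lit 468) (PT.nd (nat_lit 234) (PT.nd (nat_lit 78) (PT.lf (nat_lit 25308) (nat_lit 6) (nat_lit 333) (nat_lit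 5) (nat_lit 164) (nat_lit 172) (nat_lit 174)) (PT.nd (nat_lit 78) (PT.lf (nat_lit 25764) (nat_lit 6) (nat_lit 339) (nat_lit 5) (nat_lit 165) (nat_lit 172) (nat_lit 173)) (PT.lf (nat_lit 26144) (nat_lit 3) (nat_lit 344) (nat_lit 4) (nat_lit 166) (nat_lit 172) (nat_lit 172)))) (PT.nd (nat_lit 78) (PT.lf (nat_lit 26372) (nat_lit 6) (nat_lit 347) (nat_lit 4) (nat_lit 167) (nat_lit 172) (nat_lit 171)) (PT.nd (nat_lit 78) (PT.lf (nat_lit 26524) (nat_lit 6) (nat_lit 349) (nat_lit 4) (nat_lit 168) (nat_lit 172) (nat_lit 170)) (PT.lf (nat_lit 26448) (nat_lit 3) (nat_lit 348) (nat_lit 2) (nat_lit 169) (nat_lit 172) (nat_lit 169))))) (PT.nd (nat_lit 234) (PT.nd (nat_lit 78) (PT.lf (nat_lit 26524) (nat_lit 6) (nat_lit 349) (nat_lit 2) (nat_lit 170) (nat_lit 172) (nat_lit 168)) (PT.nd (nat_lit 78) (PT.lf (nat_lit 26372) (nat_lit 6) (nat_lit 347) (nat_lit 2) (nat_lit 171) (nat_lit 172) (nat_lit 167)) (PT.lf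 (nat_lit 26144) (nat_lit 3) (nat_lit 344) (nat_lit 0) (nat_lit 172) (nat_lit 172) (nat_lit 166)))) (PT.nd (nat_lit 156) (PT.nd (nat_lit 78) (PT.lf (nat_lit 25764) (nat_lit 6) (nat_lit 339) (nat_lit 0) (nat_lit 173) (nat_lit 172) (nat_lit 165)) (PT.lf (nat_lit 25308) (nat_lit 6) (nat_lit 333) (nat_lit 0) (nat_lit 174) (nat_lit 172) (nat_lit 164))) (PT.nd (nat_lit 78) (PT.lf (nat_lit 24776) (nat_lit 6) (nat_lit 326) (nat_lit 0) (nat_lit 175) (nat_lit 172) (nat_lit 163)) (PT.lf (nat_lit 24168) (nat_lit 6) (nat_lit 318) (nat_lit 0) (nat_lit 176) (nat_lit 172) (nat_lit 162)))))) (PT.nd (nat_lit 51636) (PT.nd (nat_lit 234) (PT.nd (nat_lit 78) (PT.lf (nat_lit 23484) (nat_lit 6) (nat_lit 309) (nat_lit 0) (nat_lit 177) (nat_lit 172) (nat_lit 161)) (PT.nd (nat_lit 78) (PT.lf (nat_lit 22724) (nat_lit 6) (nat_lit 299) (nat_lit 0) (nat_lit 178) (nat_lit 172) (nat_lit 160)) (PT.lf (nat_lit 21888) (nat_lit 6)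 (nat_lit 288) (nat_lit 0) (nat_lit 179) (nat_lit 172) (nat_lit 159)))) (PT.nd (nat_lit 51246) (PT.nd (nat_lit 78) (PT.lf (nat_lit 21356) (nat_lit 6) (nat_lit 281) (nat_lit 0) (nat_lit 180) (nat_lit 172) (nat_lit 158)) (PT.lf (nat_lit 20900) (nat_lit 6) (nat_lit 275) (nat_lit 0) (nat_lit 181) (nat_lit 172) (nat_lit 157))) (PT.nd (nat_lit 78) (PT.lf (nat_lit 20520) (nat_lit 6) (nat_lit 270) (nat_lit 5) (nat_lit 156) (nat_lit 173) (nat_lit 181)) (PT.lf (nat_lit 20976) (nat_lit 6) (nat_lit 276) (nat_lit 5) (nat_lit 157) (nat_lit 173) (nat_lit 180))))) (PT.nd (nat_lit 234) (PT.nd (nat_lit 78) (PT.lf (nat_lit 21432) (nat_lit 6) (nat_lit 282) (nat_lit 5) (nat_lit 158) (nat_lit 173) (nat_lit 179)) (PT.nd (nat_lit 78) (PT.lf (nat_lit 21964) (nat_lit 6) (nat_lit 289) (nat_lit 5) (nat_lit 159) (nat_lit 173) (nat_lit 178)) (PT.lf (nat_lit 22800) (nat_lit 6) (nat_lit 300) (nat_lit 5) (nat_lit 160) (nat_lit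 173) (nat_lit 177)))) (PT.nd (nat_lit 156) (PT.nd (nat_lit 78) (PT.lf (nat_lit 23560) (nat_lit 6) (nat_lit 310) (nat_lit 5) (nat_lit 161) (nat_lit 173) (nat_lit 176)) (PT.lf (nat_lit 24244) (nat_lit 6) (nat_lit 319) (nat_lit 5) (nat_lit 162) (nat_lit 173) (nat_lit 175))) (PT.nd (nat_lit 78) (PT.lf (nat_lit 24852) (nat_lit 6) (nat_lit 327) (nat_lit 5) (nat_lit 163) (nat_lit 173) (nat_lit 174)) (PT.lf (nat_lit 25384) (nat_lit 3) (nat_lit 334) (nat_lit 4) (nat_lit 164) (nat_lit 173) (nat_lit 173))))))))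
noncomputable def pc13 : PT := (PT.nd (nat_lit 53040) (PT.nd (nat_lit 1014) (PT.nd (nat_lit 468) (PT.nd (nat_lit 234) (PT.nd (nat_lit 78) (PT.lf (nat_lit 25764) (nat_lit 6) (nat_lit 339) (nat_lit 4) (nat_lit 165) (nat_lit 173) (nat_lit 172)) (PT.nd (nat_lit 78) (PT.lf (nat_lit 26068) (nat_lit 6) (nat_lit 343) (nat_lit 4) (nat_lit 166) (nat_lit 173) (nat_lit 171)) (PT.lf (nat_lit 26296) (nat_lit 6) (nat_lit 346) (nat_lit 4) (nat_lit 167) (nat_lit 173) (nat_lit 170)))) (PT.nd (nat_lit 78) (PT.lf (nat_lit 26220) (nat_lit 6) (nat_lit 345) (nat_lit 4) (nat_lit 168) (nat_lit 173) (nat_lit 169)) (PT.nd (nat_lit 78) (PT.lf (nat_lit 26220) (nat_lit 6) (nat_lit 345) (nat_lit 2) (nat_lit 169) (nat_lit 173) (nat_lit 168)) (PT.lf (nat_lit 26296) (nat_lit 6) (nat_lit 346) (nat_lit 2) (nat_lit 170) (nat_lit 173) (nat_lit 167))))) (PT.nd (nat_lit 234) (PT.nd (nat_lit 78) (PT.lf (nat_lit 26068) (nat_lit 6) (nat_lit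 343) (nat_lit 2) (nat_lit 171) (nat_lit 173) (nat_lit 166)) (PT.nd (nat_lit 78) (PT.lf (nat_lit 25764) (nat_lit 6) (nat_lit 339) (nat_lit 2) (nat_lit 172) (nat_lit 173) (nat_lit 165)) (PT.lf (nat_lit 25384) (nat_lit 3) (nat_lit 334) (nat_lit 0) (nat_lit 173) (nat_lit 173) (nat_lit 164)))) (PT.nd (nat_lit 156) (PT.nd (nat_lit 78) (PT.lf (nat_lit 24852) (nat_lit 6) (nat_lit 327) (nat_lit 0) (nat_lit 174) (nat_lit 173) (nat_lit 163)) (PT.lf (nat_lit 24244) (nat_lit 6) (nat_lit 319) (nat_lit 0) (nat_lit 175) (nat_lit 173) (nat_lit 162))) (PT.nd (nat_lit 78) (PT.lf (nat_lit 23560) (nat_lit 6) (nat_lit 310) (nat_lit 0) (nat_lit 176) (nat_lit 173) (nat_lit 161)) (PT.lf (nat_lit 22800) (nat_lit 6) (nat_lit 300) (nat_lit 0) (nat_lit 177) (nat_lit 173) (nat_lit 160)))))) (PT.nd (nat_lit 51480) (PT.nd (nat_lit 234) (PT.nd (nat_lit 78) (PT.lf (nat_lit 21964) (nat_lit 6) (nat_lit 289) (nat_lit 0) (nat_lit 178)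 (nat_lit 173) (nat_lit 159)) (PT.nd (nat_lit 78) (PT.lf (nat_lit 21432) (nat_lit 6) (nat_lit 282) (nat_lit 0) (nat_lit 179) (nat_lit 173) (nat_lit 158)) (PT.lf (nat_lit 20976) (nat_lit 6) (nat_lit 276) (nat_lit 0) (nat_lit 180) (nat_lit 173) (nat_lit 157)))) (PT.nd (nat_lit 51090) (PT.nd (nat_lit 51012) (PT.lf (nat_lit 20520) (nat_lit 6) (nat_lit 270) (nat_lit 0) (nat_lit 181) (nat_lit 173) (nat_lit 156)) (PT.lf (nat_lit 19836) (nat_lit 6) (nat_lit 261) (nat_lit 5) (nat_lit 154) (nat_lit 174) (nat_lit 182))) (PT.nd (nat_lit 78) (PT.lf (nat_lit 20216) (nat_lit 6) (nat_lit 266) (nat_lit 5) (nat_lit 155) (nat_lit 174) (nat_lit 181)) (PT.lf (nat_lit 20596) (nat_lit 6) (nat_lit 271) (nat_lit 5) (nat_lit 156) (nat_lit 174) (nat_lit 180))))) (PT.nd (nat_lit 234) (PT.nd (nat_lit 78) (PT.lf (nat_lit 21052) (nat_lit 6) (nat_lit 277) (nat_lit 5) (nat_lit 157) (nat_lit 174) (nat_lit 179)) (PT.nd (nat_lit 78)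 (PT.lf (nat_lit 21508) (nat_lit 6) (nat_lit 283) (nat_lit 5) (nat_lit 158) (nat_lit 174) (nat_lit 178)) (PT.lf (nat_lit 22040) (nat_lit 6) (nat_lit 290) (nat_lit 5) (nat_lit 159) (nat_lit 174) (nat_lit 177)))) (PT.nd (nat_lit 156) (PT.nd (nat_lit 78) (PT.lf (nat_lit 22876) (nat_lit 6) (nat_lit 301) (nat_lit 5) (nat_lit 160) (nat_lit 174) (nat_lit 176)) (PT.lf (nat_lit 23636) (nat_lit 6) (nat_lit 311) (nat_lit 5) (nat_lit 161) (nat_lit 174) (nat_lit 175))) (PT.nd (nat_lit 78) (PT.lf (nat_lit 24320) (nat_lit 3) (nat_lit 320) (nat_lit 4) (nat_lit 162) (nat_lit 174) (nat_lit 174)) (PT.lf (nat_lit 24852) (nat_lit 6) (nat_lit 327) (nat_lit 4) (nat_lit 163) (nat_lit 174) (nat_lit 173))))))) (PT.nd (nat_lit 1014) (PT.nd (nat_lit 468) (PT.nd (nat_lit 234) (PT.nd (nat_lit 78) (PT.lf (nat_lit 25308) (nat_lit 6) (nat_lit 333) (nat_lit 4) (nat_lit 164) (nat_lit 174) (nat_lit 172)) (PT.nd (nat_lit 78) (PT.lf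 (nat_lit 25688) (nat_lit 6) (nat_lit 338) (nat_lit 4) (nat_lit 165) (nat_lit 174) (nat_lit 171)) (PT.lf (nat_lit 25992) (nat_lit 6) (nat_lit 342) (nat_lit 4) (nat_lit 166) (nat_lit 174) (nat_lit 170)))) (PT.nd (nat_lit 78) (PT.lf (nat_lit 25916) (nat_lit 6) (nat_lit 341) (nat_lit 4) (nat_lit 167) (nat_lit 174) (nat_lit 169)) (PT.nd (nat_lit 78) (PT.lf (nat_lit 25840) (nat_lit 3) (nat_lit 340) (nat_lit 2) (nat_lit 168) (nat_lit 174) (nat_lit 168)) (PT.lf (nat_lit 25916) (nat_lit 6) (nat_lit 341) (nat_lit 2) (nat_lit 169) (nat_lit 174) (nat_lit 167))))) (PT.nd (nat_lit 234) (PT.nd (nat_lit 78) (PT.lf (nat_lit 25992) (nat_lit 6) (nat_lit 342) (nat_lit 2) (nat_lit 170) (nat_lit 174) (nat_lit 166)) (PT.nd (nat_lit 78) (PT.lf (nat_lit 25688) (nat_lit 6) (nat_lit 338) (nat_lit 2) (nat_lit 171) (nat_lit 174) (nat_lit 165)) (PT.lf (nat_lit 25308) (nat_lit 6) (nat_lit 333) (nat_lit 2) (nat_lit 172) (nat_lit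 174) (nat_lit 164)))) (PT.nd (nat_lit 156) (PT.nd (nat_lit 78) (PT.lf (nat_lit 24852) (nat_lit 6) (nat_lit 327) (nat_lit 2) (nat_lit 173) (nat_lit 174) (nat_lit 163)) (PT.lf (nat_lit 24320) (nat_lit 3) (nat_lit 320) (nat_lit 0) (nat_lit 174) (nat_lit 174) (nat_lit 162))) (PT.nd (nat_lit 78) (PT.lf (nat_lit 23636) (nat_lit 6) (nat_lit 311) (nat_lit 0) (nat_lit 175) (nat_lit 174) (nat_lit 161)) (PT.lf (nat_lit 22876) (nat_lit 6) (nat_lit 301) (nat_lit 0) (nat_lit 176) (nat_lit 174) (nat_lit 160)))))) (PT.nd (nat_lit 51324) (PT.nd (nat_lit 234) (PT.nd (nat_lit 78) (PT.lf (nat_lit 22040) (nat_lit 6) (nat_lit 290) (nat_lit 0) (nat_lit 177) (nat_lit 174) (nat_lit 159)) (PT.nd (nat_lit 78) (PT.lf (nat_lit 21508) (nat_lit 6) (nat_lit 283) (nat_lit 0) (nat_lit 178) (nat_lit 174) (nat_lit 158)) (PT.lf (nat_lit 21052) (nat_lit 6) (nat_lit 277) (nat_lit 0) (nat_lit 179) (nat_lit 174) (nat_lit 157)))) (PT.nd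 (nat_lit 156) (PT.nd (nat_lit 78) (PT.lf (nat_lit 20596) (nat_lit 6) (nat_lit 271) (nat_lit 0) (nat_lit 180) (nat_lit 174) (nat_lit 156)) (PT.lf (nat_lit 20216) (nat_lit 6) (nat_lit 266) (nat_lit 0) (nat_lit 181) (nat_lit 174) (nat_lit 155))) (PT.nd (nat_lit 50856) (PT.lf (nat_lit 19836) (nat_lit 6) (nat_lit 261) (nat_lit 0) (nat_lit 182) (nat_lit 174) (nat_lit 154)) (PT.lf (nat_lit 19532) (nat_lit 6) (nat_lit 257) (nat_lit 5) (nat_lit 153) (nat_lit 175) (nat_lit 182))))) (PT.nd (nat_lit 234) (PT.nd (nat_lit 78) (PT.lf (nat_lit 19912) (nat_lit 6) (nat_lit 262) (nat_lit 5) (nat_lit 154) (nat_lit 175) (nat_lit 181)) (PT.nd (nat_lit 78) (PT.lf (nat_lit 20292) (nat_lit 6) (nat_lit 267) (nat_lit 5) (nat_lit 155) (nat_lit 175) (nat_lit 180)) (PT.lf (nat_lit 20672) (nat_lit 6) (nat_lit 272) (nat_lit 5) (nat_lit 156) (nat_lit 175) (nat_lit 179)))) (PT.nd (nat_lit 156) (PT.nd (nat_lit 78) (PT.lf (nat_lit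 21128) (nat_lit 6) (nat_lit 278) (nat_lit 5) (nat_lit 157) (nat_lit 175) (nat_lit 178)) (PT.lf (nat_lit 21584) (nat_lit 6) (nat_lit 284) (nat_lit 5) (nat_lit 158) (nat_lit 175) (nat_lit 177))) (PT.nd (nat_lit 78) (PT.lf (nat_lit 22116) (nat_lit 6) (nat_lit 291) (nat_lit 5) (nat_lit 159) (nat_lit 175) (nat_lit 176)) (PT.lf (nat_lit 22952) (nat_lit 3) (nat_lit 302) (nat_lit 4) (nat_lit 160) (nat_lit 175) (nat_lit 175))))))))
noncomputable def pc14 : PT := (PT.nd (nat_lit 52728) (PT.nd (nat_lit 1014) (PT.nd (nat_lit 468) (PT.nd (nat_lit 234) (PT.nd (nat_lit 78) (PT.lf (nat_lit 23636) (nat_lit 6) (nat_lit 311) (nat_lit 4) (nat_lit 161) (nat_lit 175) (nat_lit 174)) (PT.nd (nat_lit 78) (PT.lf (nat_lit 24244) (nat_lit 6) (nat_lit 319) (nat_lit 4) (nat_lit 162) (nat_lit 175) (nat_lit 173)) (PT.lf (nat_lit 24776) (nat_lit 6) (nat_lit 326) (nat_lit 4) (nat_lit 163) (nat_lit 175) (nat_lit 172)))) (PT.nd (nat_lit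 78) (PT.lf (nat_lit 25232) (nat_lit 6) (nat_lit 332) (nat_lit 4) (nat_lit 164) (nat_lit 175) (nat_lit 171)) (PT.nd (nat_lit 78) (PT.lf (nat_lit 25612) (nat_lit 6) (nat_lit 337) (nat_lit 4) (nat_lit 165) (nat_lit 175) (nat_lit 170)) (PT.lf (nat_lit 25536) (nat_lit 6) (nat_lit 336) (nat_lit 4) (nat_lit 166) (nat_lit 175) (nat_lit 169))))) (PT.nd (nat_lit 234) (PT.nd (nat_lit 78) (PT.lf (nat_lit 25460) (nat_lit 6) (nat_lit 335) (nat_lit 4) (nat_lit 167) (nat_lit 175) (nat_lit 168)) (PT.nd (nat_lit 78) (PT.lf (nat_lit 25460) (nat_lit 6) (nat_lit 335) (nat_lit 2) (nat_lit 168) (nat_lit 175) (nat_lit 167)) (PT.lf (nat_lit 25536) (nat_lit 6) (nat_lit 336) (nat_lit 2) (nat_lit 169) (nat_lit 175) (nat_lit 166)))) (PT.nd (nat_lit 156) (PT.nd (nat_lit 78) (PT.lf (nat_lit 25612) (nat_lit 6) (nat_lit 337) (nat_lit 2) (nat_lit 170) (nat_lit 175) (nat_lit 165)) (PT.lf (nat_lit 25232) (nat_lit 6) (nat_lit 332)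 (nat_lit 2) (nat_lit 171) (nat_lit 175) (nat_lit 164))) (PT.nd (nat_lit 78) (PT.lf (nat_lit 24776) (nat_lit 6) (nat_lit 326) (nat_lit 2) (nat_lit 172) (nat_lit 175) (nat_lit 163)) (PT.lf (nat_lit 24244) (nat_lit 6) (nat_lit 319) (nat_lit 2) (nat_lit 173) (nat_lit 175) (nat_lit 162)))))) (PT.nd (nat_lit 546) (PT.nd (nat_lit 234) (PT.nd (nat_lit 78) (PT.lf (nat_lit 23636) (nat_lit 6) (nat_lit 311) (nat_lit 2) (nat_lit 174) (nat_lit 175) (nat_lit 161)) (PT.nd (nat_lit 78) (PT.lf (nat_lit 22952) (nat_lit 3) (nat_lit 302) (nat_lit 0) (nat_lit 175) (nat_lit 175) (nat_lit 160)) (PT.lf (nat_lit 22116) (nat_lit 6) (nat_lit 291) (nat_lit 0) (nat_lit 176) (nat_lit 175) (nat_lit 159)))) (PT.nd (nat_lit 156) (PT.nd (nat_lit 78) (PT.lf (nat_lit 21584) (nat_lit 6) (nat_lit 284) (nat_lit 0) (nat_lit 177) (nat_lit 175) (nat_lit 158)) (PT.lf (nat_lit 21128) (nat_lit 6) (nat_lit 278) (nat_lit 0) (nat_lit 178) (nat_lit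 175) (nat_lit 157))) (PT.nd (nat_lit 78) (PT.lf (nat_lit 20672) (nat_lit 6) (nat_lit 272) (nat_lit 0) (nat_lit 179) (nat_lit 175) (nat_lit 156)) (PT.lf (nat_lit 20292) (nat_lit 6) (nat_lit 267) (nat_lit 0) (nat_lit 180) (nat_lit 175) (nat_lit 155))))) (PT.nd (nat_lit 50856) (PT.nd (nat_lit 78) (PT.lf (nat_lit 19912) (nat_lit 6) (nat_lit 262) (nat_lit 0) (nat_lit 181) (nat_lit 175) (nat_lit 154)) (PT.nd (nat_lit 50700) (PT.lf (nat_lit 19532) (nat_lit 6) (nat_lit 257) (nat_lit 0) (nat_lit 182) (nat_lit 175) (nat_lit 153)) (PT.lf (nat_lit 18924) (nat_lit 6) (nat_lit 249) (nat_lit 5) (nat_lit 151) (nat_lit 176) (nat_lit 183)))) (PT.nd (nat_lit 156) (PT.nd (nat_lit 78) (PT.lf (nat_lit 19228) (nat_lit 6) (nat_lit 253) (nat_lit 5) (nat_lit 152) (nat_lit 176) (nat_lit 182)) (PT.lf (nat_lit 19608) (nat_lit 6) (nat_lit 258) (nat_lit 5) (nat_lit 153) (nat_lit 176) (nat_lit 181))) (PT.nd (nat_lit 78) (PT.lf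 (nat_lit 19988) (nat_lit 6) (nat_lit 263) (nat_lit 5) (nat_lit 154) (nat_lit 176) (nat_lit 180)) (PT.lf (nat_lit 20368) (nat_lit 6) (nat_lit 268) (nat_lit 5) (nat_lit 155) (nat_lit 176) (nat_lit 179))))))) (PT.nd (nat_lit 1014) (PT.nd (nat_lit 468) (PT.nd (nat_lit 234) (PT.nd (nat_lit 78) (PT.lf (nat_lit 20748) (nat_lit 6) (nat_lit 273) (nat_lit 5) (nat_lit 156) (nat_lit 176) (nat_lit 178)) (PT.nd (nat_lit 78) (PT.lf (nat_lit 21204) (nat_lit 6) (nat_lit 279) (nat_lit 5) (nat_lit 157) (nat_lit 176) (nat_lit 177)) (PT.lf (nat_lit 21660) (nat_lit 3) (nat_lit 285) (nat_lit 4) (nat_lit 158) (nat_lit 176) (nat_lit 176)))) (PT.nd (nat_lit 78) (PT.lf (nat_lit 22116) (nat_lit 6) (nat_lit 291) (nat_lit 4) (nat_lit 159) (nat_lit 176) (nat_lit 175)) (PT.nd (nat_lit 78) (PT.lf (nat_lit 22876) (nat_lit 6) (nat_lit 301) (nat_lit 4) (nat_lit 160) (nat_lit 176) (nat_lit 174)) (PT.lf (nat_lit 23560) (nat_lit 6)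 (nat_lit 310) (nat_lit 4) (nat_lit 161) (nat_lit 176) (nat_lit 173))))) (PT.nd (nat_lit 234) (PT.nd (nat_lit 78) (PT.lf (nat_lit 24168) (nat_lit 6) (nat_lit 318) (nat_lit 4) (nat_lit 162) (nat_lit 176) (nat_lit 172)) (PT.nd (nat_lit 78) (PT.lf (nat_lit 24700) (nat_lit 6) (nat_lit 325) (nat_lit 4) (nat_lit 163) (nat_lit 176) (nat_lit 171)) (PT.lf (nat_lit 25156) (nat_lit 6) (nat_lit 331) (nat_lit 4) (nat_lit 164) (nat_lit 176) (nat_lit 170)))) (PT.nd (nat_lit 156) (PT.nd (nat_lit 78) (PT.lf (nat_lit 25080) (nat_lit 6) (nat_lit 330) (nat_lit 4) (nat_lit 165) (nat_lit 176) (nat_lit 169)) (PT.lf (nat_lit 25004) (nat_lit 6) (nat_lit 329) (nat_lit 4) (nat_lit 166) (nat_lit 176) (nat_lit 168))) (PT.nd (nat_lit 78) (PT.lf (nat_lit 24928) (nat_lit 3) (nat_lit 328) (nat_lit 2) (nat_lit 167) (nat_lit 176) (nat_lit 167)) (PT.lf (nat_lit 25004) (nat_lit 6) (nat_lit 329) (nat_lit 2) (nat_lit 168) (nat_lit 176)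 (nat_lit 166)))))) (PT.nd (nat_lit 546) (PT.nd (nat_lit 234) (PT.nd (nat_lit 78) (PT.lf (nat_lit 25080) (nat_lit 6) (nat_lit 330) (nat_lit 2) (nat_lit 169) (nat_lit 176) (nat_lit 165)) (PT.nd (nat_lit 78) (PT.lf (nat_lit 25156) (nat_lit 6) (nat_lit 331) (nat_lit 2) (nat_lit 170) (nat_lit 176) (nat_lit 164)) (PT.lf (nat_lit 24700) (nat_lit 6) (nat_lit 325) (nat_lit 2) (nat_lit 171) (nat_lit 176) (nat_lit 163)))) (PT.nd (nat_lit 156) (PT.nd (nat_lit 78) (PT.lf (nat_lit 24168) (nat_lit 6) (nat_lit 318) (nat_lit 2) (nat_lit 172) (nat_lit 176) (nat_lit 162)) (PT.lf (nat_lit 23560) (nat_lit 6) (nat_lit 310) (nat_lit 2) (nat_lit 173) (nat_lit 176) (nat_lit 161))) (PT.nd (nat_lit 78) (PT.lf (nat_lit 22876) (nat_lit 6) (nat_lit 301) (nat_lit 2) (nat_lit 174) (nat_lit 176) (nat_lit 160)) (PT.lf (nat_lit 22116) (nat_lit 6) (nat_lit 291) (nat_lit 2) (nat_lit 175) (nat_lit 176) (nat_lit 159))))) (PT.nd (nat_lit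 234) (PT.nd (nat_lit 78) (PT.lf (nat_lit 21660) (nat_lit 3) (nat_lit 285) (nat_lit 0) (nat_lit 176) (nat_lit 176) (nat_lit 158)) (PT.nd (nat_lit 78) (PT.lf (nat_lit 21204) (nat_lit 6) (nat_lit 279) (nat_lit 0) (nat_lit 177) (nat_lit 176) (nat_lit 157)) (PT.lf (nat_lit 20748) (nat_lit 6) (nat_lit 273) (nat_lit 0) (nat_lit 178) (nat_lit 176) (nat_lit 156)))) (PT.nd (nat_lit 156) (PT.nd (nat_lit 78) (PT.lf (nat_lit 20368) (nat_lit 6) (nat_lit 268) (nat_lit 0) (nat_lit 179) (nat_lit 176) (nat_lit 155)) (PT.lf (nat_lit 19988) (nat_lit 6) (nat_lit 263) (nat_lit 0) (nat_lit 180) (nat_lit 176) (nat_lit 154))) (PT.nd (nat_lit 78) (PT.lf (nat_lit 19608) (nat_lit 6) (nat_lit 258) (nat_lit 0) (nat_lit 181) (nat_lit 176) (nat_lit 153)) (PT.lf (nat_lit 19228) (nat_lit 6) (nat_lit 253) (nat_lit 0) (nat_lit 182) (nat_lit 176) (nat_lit 152))))))))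
noncomputable def pc15 : PT := (PT.nd (nat_lit 52572) (PT.nd (nat_lit 51480) (PT.nd (nat_lit 50934) (PT.nd (nat_lit 50700) (PT.nd (nat_lit 50544) (PT.lf (nat_lit 18924) (nat_lit 6) (nat_lit 249) (nat_lit 0) (nat_lit 183) (nat_lit 176) (nat_lit 151)) (PT.nd (nat_lit 78) (PT.lf (nat_lit 18620) (nat_lit 6) (nat_lit 245) (nat_lit 5) (nat_lit 150) (nat_lit 177) (nat_lit 183)) (PT.lf (nat_lit 19000) (nat_lit 6) (nat_lit 250) (nat_lit 5) (nat_lit 151) (nat_lit 177) (nat_lit 182)))) (PT.nd (nat_lit 78) (PT.lf (nat_lit 19304) (nat_lit 6) (nat_lit 254) (nat_lit 5) (nat_lit 152) (nat_lit 177) (nat_lit 181)) (PT.nd (nat_lit 78) (PT.lf (nat_lit 19684) (nat_lit 6) (nat_lit 259) (nat_lit 5) (nat_lit 153) (nat_lit 177) (nat_lit 180)) (PT.lf (nat_lit 20064) (nat_lit 6) (nat_lit 264) (nat_lit 5) (nat_lit 154) (nat_lit 177) (nat_lit 179))))) (PT.nd (nat_lit 234) (PT.nd (nat_lit 78) (PT.lf (nat_lit 20444) (nat_lit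 6) (nat_lit 269) (nat_lit 5) (nat_lit 155) (nat_lit 177) (nat_lit 178)) (PT.nd (nat_lit 78) (PT.lf (nat_lit 20824) (nat_lit 3) (nat_lit 274) (nat_lit 4) (nat_lit 156) (nat_lit 177) (nat_lit 177)) (PT.lf (nat_lit 21204) (nat_lit 6) (nat_lit 279) (nat_lit 4) (nat_lit 157) (nat_lit 177) (nat_lit 176)))) (PT.nd (nat_lit 156) (PT.nd (nat_lit 78) (PT.lf (nat_lit 21584) (nat_lit 6) (nat_lit 284) (nat_lit 4) (nat_lit 158) (nat_lit 177) (nat_lit 175)) (PT.lf (nat_lit 22040) (nat_lit 6) (nat_lit 290) (nat_lit 4) (nat_lit 159) (nat_lit 177) (nat_lit 174))) (PT.nd (nat_lit 78) (PT.lf (nat_lit 22800) (nat_lit 6) (nat_lit 300) (nat_lit 4) (nat_lit 160) (nat_lit 177) (nat_lit 173)) (PT.lf (nat_lit 23484) (nat_lit 6) (nat_lit 309) (nat_lit 4) (nat_lit 161) (nat_lit 177) (nat_lit 172)))))) (PT.nd (nat_lit 546) (PT.nd (nat_lit 234) (PT.nd (nat_lit 78) (PT.lf (nat_lit 24092) (nat_lit 6) (nat_lit 317) (nat_lit 4)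 (nat_lit 162) (nat_lit 177) (nat_lit 171)) (PT.nd (nat_lit 78) (PT.lf (nat_lit 24624) (nat_lit 6) (nat_lit 324) (nat_lit 4) (nat_lit 163) (nat_lit 177) (nat_lit 170)) (PT.lf (nat_lit 24548) (nat_lit 6) (nat_lit 323) (nat_lit 4) (nat_lit 164) (nat_lit 177) (nat_lit 169)))) (PT.nd (nat_lit 156) (PT.nd (nat_lit 78) (PT.lf (nat_lit 24472) (nat_lit 6) (nat_lit 322) (nat_lit 4) (nat_lit 165) (nat_lit 177) (nat_lit 168)) (PT.lf (nat_lit 24396) (nat_lit 6) (nat_lit 321) (nat_lit 4) (nat_lit 166) (nat_lit 177) (nat_lit 167))) (PT.nd (nat_lit 78) (PT.lf (nat_lit 24396) (nat_lit 6) (nat_lit 321) (nat_lit 2) (nat_lit 167) (nat_lit 177) (nat_lit 166)) (PT.lf (nat_lit 24472) (nat_lit 6) (nat_lit 322) (nat_lit 2) (nat_lit 168) (nat_lit 177) (nat_lit 165))))) (PT.nd (nat_lit 234) (PT.nd (nat_lit 78) (PT.lf (nat_lit 24548) (nat_lit 6) (nat_lit 323) (nat_lit 2) (nat_lit 169) (nat_lit 177) (nat_lit 164)) (PT.nd (nat_lit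 78) (PT.lf (nat_lit 24624) (nat_lit 6) (nat_lit 324) (nat_lit 2) (nat_lit 170) (nat_lit 177) (nat_lit 163)) (PT.lf (nat_lit 24092) (nat_lit 6) (nat_lit 317) (nat_lit 2) (nat_lit 171) (nat_lit 177) (nat_lit 162)))) (PT.nd (nat_lit 156) (PT.nd (nat_lit 78) (PT.lf (nat_lit 23484) (nat_lit 6) (nat_lit 309) (nat_lit 2) (nat_lit 172) (nat_lit 177) (nat_lit 161)) (PT.lf (nat_lit 22800) (nat_lit 6) (nat_lit 300) (nat_lit 2) (nat_lit 173) (nat_lit 177) (nat_lit 160))) (PT.nd (nat_lit 78) (PT.lf (nat_lit 22040) (nat_lit 6) (nat_lit 290) (nat_lit 2) (nat_lit 174) (nat_lit 177) (nat_lit 159)) (PT.lf (nat_lit 21584) (nat_lit 6) (nat_lit 284) (nat_lit 2) (nat_lit 175) (nat_lit 177) (nat_lit 158))))))) (PT.nd (nat_lit 51402) (PT.nd (nat_lit 546) (PT.nd (nat_lit 234) (PT.nd (nat_lit 78) (PT.lf (nat_lit 21204) (nat_lit 6) (nat_lit 279) (nat_lit 2) (nat_lit 176) (nat_lit 177) (nat_lit 157)) (PT.nd (nat_lit 78) (PT.lf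 (nat_lit 20824) (nat_lit 3) (nat_lit 274) (nat_lit 0) (nat_lit 177) (nat_lit 177) (nat_lit 156)) (PT.lf (nat_lit 20444) (nat_lit 6) (nat_lit 269) (nat_lit 0) (nat_lit 178) (nat_lit 177) (nat_lit 155)))) (PT.nd (nat_lit 156) (PT.nd (nat_lit 78) (PT.lf (nat_lit 20064) (nat_lit 6) (nat_lit 264) (nat_lit 0) (nat_lit 179) (nat_lit 177) (nat_lit 154)) (PT.lf (nat_lit 19684) (nat_lit 6) (nat_lit 259) (nat_lit 0) (nat_lit 180) (nat_lit 177) (nat_lit 153))) (PT.nd (nat_lit 78) (PT.lf (nat_lit 19304) (nat_lit 6) (nat_lit 254) (nat_lit 0) (nat_lit 181) (nat_lit 177) (nat_lit 152)) (PT.lf (nat_lit 19000) (nat_lit 6) (nat_lit 250) (nat_lit 0) (nat_lit 182) (nat_lit 177) (nat_lit 151))))) (PT.nd (nat_lit 50544) (PT.nd (nat_lit 50388) (PT.lf (nat_lit 18620) (nat_lit 6) (nat_lit 245) (nat_lit 0) (nat_lit 183) (nat_lit 177) (nat_lit 150)) (PT.nd (nat_lit 78) (PT.lf (nat_lit 18088) (nat_lit 6) (nat_lit 238) (nat_lit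 5) (nat_lit 148) (nat_lit 178) (nat_lit 184)) (PT.lf (nat_lit 18392) (nat_lit 6) (nat_lit 242) (nat_lit 5) (nat_lit 149) (nat_lit 178) (nat_lit 183)))) (PT.nd (nat_lit 156) (PT.nd (nat_lit 78) (PT.lf (nat_lit 18696) (nat_lit 6) (nat_lit 246) (nat_lit 5) (nat_lit 150) (nat_lit 178) (nat_lit 182)) (PT.lf (nat_lit 19076) (nat_lit 6) (nat_lit 251) (nat_lit 5) (nat_lit 151) (nat_lit 178) (nat_lit 181))) (PT.nd (nat_lit 78) (PT.lf (nat_lit 19380) (nat_lit 6) (nat_lit 255) (nat_lit 5) (nat_lit 152) (nat_lit 178) (nat_lit 180)) (PT.lf (nat_lit 19760) (nat_lit 6) (nat_lit 260) (nat_lit 5) (nat_lit 153) (nat_lit 178) (nat_lit 179)))))) (PT.nd (nat_lit 546) (PT.nd (nat_lit 234) (PT.nd (nat_lit 78) (PT.lf (nat_lit 20140) (nat_lit 3) (nat_lit 265) (nat_lit 4) (nat_lit 154) (nat_lit 178) (nat_lit 178)) (PT.nd (nat_lit 78) (PT.lf (nat_lit 20444) (nat_lit 6) (nat_lit 269) (nat_lit 4) (nat_lit 155) (nat_lit 178)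 (nat_lit 177)) (PT.lf (nat_lit 20748) (nat_lit 6) (nat_lit 273) (nat_lit 4) (nat_lit 156) (nat_lit 178) (nat_lit 176)))) (PT.nd (nat_lit 156) (PT.nd (nat_lit 78) (PT.lf (nat_lit 21128) (nat_lit 6) (nat_lit 278) (nat_lit 4) (nat_lit 157) (nat_lit 178) (nat_lit 175)) (PT.lf (nat_lit 21508) (nat_lit 6) (nat_lit 283) (nat_lit 4) (nat_lit 158) (nat_lit 178) (nat_lit 174))) (PT.nd (nat_lit 78) (PT.lf (nat_lit 21964) (nat_lit 6) (nat_lit 289) (nat_lit 4) (nat_lit 159) (nat_lit 178) (nat_lit 173)) (PT.lf (nat_lit 22724) (nat_lit 6) (nat_lit 299) (nat_lit 4) (nat_lit 160) (nat_lit 178) (nat_lit 172))))) (PT.nd (nat_lit 234) (PT.nd (nat_lit 78) (PT.lf (nat_lit 23408) (nat_lit 6) (nat_lit 308) (nat_lit 4) (nat_lit 161) (nat_lit 178) (nat_lit 171)) (PT.nd (nat_lit 78) (PT.lf (nat_lit 24016) (nat_lit 6) (nat_lit 316) (nat_lit 4) (nat_lit 162) (nat_lit 178) (nat_lit 170)) (PT.lf (nat_lit 23940) (nat_lit 6) (nat_lit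 315) (nat_lit 4) (nat_lit 163) (nat_lit 178) (nat_lit 169)))) (PT.nd (nat_lit 156) (PT.nd (nat_lit 78) (PT.lf (nat_lit 23864) (nat_lit 6) (nat_lit 314) (nat_lit 4) (nat_lit 164) (nat_lit 178) (nat_lit 168)) (PT.lf (nat_lit 23788) (nat_lit 6) (nat_lit 313) (nat_lit 4) (nat_lit 165) (nat_lit 178) (nat_lit 167))) (PT.nd (nat_lit 78) (PT.lf (nat_lit 23712) (nat_lit 3) (nat_lit 312) (nat_lit 2) (nat_lit 166) (nat_lit 178) (nat_lit 166)) (PT.lf (nat_lit 23788) (nat_lit 6) (nat_lit 313) (nat_lit 2) (nat_lit 167) (nat_lit 178) (nat_lit 165))))))))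
noncomputable def pc16 : PT := (PT.nd (nat_lit 52260) (PT.nd (nat_lit 1014) (PT.nd (nat_lit 468) (PT.nd (nat_lit 234) (PT.nd (nat_lit 78) (PT.lf (nat_lit 23864) (nat_lit 6) (nat_lit 314) (nat_lit 2) (nat_lit 168) (nat_lit 178) (nat_lit 164)) (PT.nd (nat_lit 78) (PT.lf (nat_lit 23940) (nat_lit 6) (nat_lit 315) (nat_lit 2) (nat_lit 169) (nat_lit 178) (nat_lit 163)) (PT.lf (nat_lit 24016) (nat_lit 6) (nat_lit 316) (nat_lit 2) (nat_lit 170) (nat_lit 178) (nat_lit 162)))) (PT.nd (nat_lit 78) (PT.lf (nat_lit 23408) (nat_lit 6) (nat_lit 308) (nat_lit 2) (nat_lit 171) (nat_lit 178) (nat_lit 161)) (PT.nd (nat_lit 78) (PT.lf (nat_lit 22724) (nat_lit 6) (nat_lit 299) (nat_lit 2) (nat_lit 172) (nat_lit 178) (nat_lit 160)) (PT.lf (nat_lit 21964) (nat_lit 6) (nat_lit 289) (nat_lit 2) (nat_lit 173) (nat_lit 178) (nat_lit 159))))) (PT.nd (nat_lit 234) (PT.nd (nat_lit 78) (PT.lf (nat_lit 21508) (nat_lit 6) (nat_lit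 283) (nat_lit 2) (nat_lit 174) (nat_lit 178) (nat_lit 158)) (PT.nd (nat_lit 78) (PT.lf (nat_lit 21128) (nat_lit 6) (nat_lit 278) (nat_lit 2) (nat_lit 175) (nat_lit 178) (nat_lit 157)) (PT.lf (nat_lit 20748) (nat_lit 6) (nat_lit 273) (nat_lit 2) (nat_lit 176) (nat_lit 178) (nat_lit 156)))) (PT.nd (nat_lit 156) (PT.nd (nat_lit 78) (PT.lf (nat_lit 20444) (nat_lit 6) (nat_lit 269) (nat_lit 2) (nat_lit 177) (nat_lit 178) (nat_lit 155)) (PT.lf (nat_lit 20140) (nat_lit 3) (nat_lit 265) (nat_lit 0) (nat_lit 178) (nat_lit 178) (nat_lit 154))) (PT.nd (nat_lit 78) (PT.lf (nat_lit 19760) (nat_lit 6) (nat_lit 260) (nat_lit 0) (nat_lit 179) (nat_lit 178) (nat_lit 153)) (PT.lf (nat_lit 19380) (nat_lit 6) (nat_lit 255) (nat_lit 0) (nat_lit 180) (nat_lit 178) (nat_lit 152)))))) (PT.nd (nat_lit 50700) (PT.nd (nat_lit 234) (PT.nd (nat_lit 78) (PT.lf (nat_lit 19076) (nat_lit 6) (nat_lit 251) (nat_lit 0) (nat_lit 181)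 (nat_lit 178) (nat_lit 151)) (PT.nd (nat_lit 78) (PT.lf (nat_lit 18696) (nat_lit 6) (nat_lit 246) (nat_lit 0) (nat_lit 182) (nat_lit 178) (nat_lit 150)) (PT.lf (nat_lit 18392) (nat_lit 6) (nat_lit 242) (nat_lit 0) (nat_lit 183) (nat_lit 178) (nat_lit 149)))) (PT.nd (nat_lit 50310) (PT.nd (nat_lit 50232) (PT.lf (nat_lit 18088) (nat_lit 6) (nat_lit 238) (nat_lit 0) (nat_lit 184) (nat_lit 178) (nat_lit 148)) (PT.lf (nat_lit 17860) (nat_lit 6) (nat_lit 235) (nat_lit 5) (nat_lit 147) (nat_lit 179) (nat_lit 184))) (PT.nd (nat_lit 78) (PT.lf (nat_lit 18164) (nat_lit 6) (nat_lit 239) (nat_lit 5) (nat_lit 148) (nat_lit 179) (nat_lit 183)) (PT.lf (nat_lit 18468) (nat_lit 6) (nat_lit 243) (nat_lit 5) (nat_lit 149) (nat_lit 179) (nat_lit 182))))) (PT.nd (nat_lit 234) (PT.nd (nat_lit 78) (PT.lf (nat_lit 18772) (nat_lit 6) (nat_lit 247) (nat_lit 5) (nat_lit 150) (nat_lit 179) (nat_lit 181)) (PT.nd (nat_lit 78)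 (PT.lf (nat_lit 19152) (nat_lit 6) (nat_lit 252) (nat_lit 5) (nat_lit 151) (nat_lit 179) (nat_lit 180)) (PT.lf (nat_lit 19456) (nat_lit 3) (nat_lit 256) (nat_lit 4) (nat_lit 152) (nat_lit 179) (nat_lit 179)))) (PT.nd (nat_lit 156) (PT.nd (nat_lit 78) (PT.lf (nat_lit 19760) (nat_lit 6) (nat_lit 260) (nat_lit 4) (nat_lit 153) (nat_lit 179) (nat_lit 178)) (PT.lf (nat_lit 20064) (nat_lit 6) (nat_lit 264) (nat_lit 4) (nat_lit 154) (nat_lit 179) (nat_lit 177))) (PT.nd (nat_lit 78) (PT.lf (nat_lit 20368) (nat_lit 6) (nat_lit 268) (nat_lit 4) (nat_lit 155) (nat_lit 179) (nat_lit 176)) (PT.lf (nat_lit 20672) (nat_lit 6) (nat_lit 272) (nat_lit 4) (nat_lit 156) (nat_lit 179) (nat_lit 175))))))) (PT.nd (nat_lit 1014) (PT.nd (nat_lit 468) (PT.nd (nat_lit 234) (PT.nd (nat_lit 78) (PT.lf (nat_lit 21052) (nat_lit 6) (nat_lit 277) (nat_lit 4) (nat_lit 157) (nat_lit 179) (nat_lit 174)) (PT.nd (nat_lit 78) (PT.lf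 (nat_lit 21432) (nat_lit 6) (nat_lit 282) (nat_lit 4) (nat_lit 158) (nat_lit 179) (nat_lit 173)) (PT.lf (nat_lit 21888) (nat_lit 6) (nat_lit 288) (nat_lit 4) (nat_lit 159) (nat_lit 179) (nat_lit 172)))) (PT.nd (nat_lit 78) (PT.lf (nat_lit 22648) (nat_lit 6) (nat_lit 298) (nat_lit 4) (nat_lit 160) (nat_lit 179) (nat_lit 171)) (PT.nd (nat_lit 78) (PT.lf (nat_lit 23332) (nat_lit 6) (nat_lit 307) (nat_lit 4) (nat_lit 161) (nat_lit 179) (nat_lit 170)) (PT.lf (nat_lit 23256) (nat_lit 6) (nat_lit 306) (nat_lit 4) (nat_lit 162) (nat_lit 179) (nat_lit 169))))) (PT.nd (nat_lit 234) (PT.nd (nat_lit 78) (PT.lf (nat_lit 23180) (nat_lit 6) (nat_lit 305) (nat_lit 4) (nat_lit 163) (nat_lit 179) (nat_lit 168)) (PT.nd (nat_lit 78) (PT.lf (nat_lit 23104) (nat_lit 6) (nat_lit 304) (nat_lit 4) (nat_lit 164) (nat_lit 179) (nat_lit 167)) (PT.lf (nat_lit 23028) (nat_lit 6) (nat_lit 303) (nat_lit 4) (nat_lit 165) (nat_lit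 179) (nat_lit 166)))) (PT.nd (nat_lit 156) (PT.nd (nat_lit 78) (PT.lf (nat_lit 23028) (nat_lit 6) (nat_lit 303) (nat_lit 2) (nat_lit 166) (nat_lit 179) (nat_lit 165)) (PT.lf (nat_lit 23104) (nat_lit 6) (nat_lit 304) (nat_lit 2) (nat_lit 167) (nat_lit 179) (nat_lit 164))) (PT.nd (nat_lit 78) (PT.lf (nat_lit 23180) (nat_lit 6) (nat_lit 305) (nat_lit 2) (nat_lit 168) (nat_lit 179) (nat_lit 163)) (PT.lf (nat_lit 23256) (nat_lit 6) (nat_lit 306) (nat_lit 2) (nat_lit 169) (nat_lit 179) (nat_lit 162)))))) (PT.nd (nat_lit 546) (PT.nd (nat_lit 234) (PT.nd (nat_lit 78) (PT.lf (nat_lit 23332) (nat_lit 6) (nat_lit 307) (nat_lit 2) (nat_lit 170) (nat_lit 179) (nat_lit 161)) (PT.nd (nat_lit 78) (PT.lf (nat_lit 22648) (nat_lit 6) (nat_lit 298) (nat_lit 2) (nat_lit 171) (nat_lit 179) (nat_lit 160)) (PT.lf (nat_lit 21888) (nat_lit 6) (nat_lit 288) (nat_lit 2) (nat_lit 172) (nat_lit 179) (nat_lit 159)))) (PT.nd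 (nat_lit 156) (PT.nd (nat_lit 78) (PT.lf (nat_lit 21432) (nat_lit 6) (nat_lit 282) (nat_lit 2) (nat_lit 173) (nat_lit 179) (nat_lit 158)) (PT.lf (nat_lit 21052) (nat_lit 6) (nat_lit 277) (nat_lit 2) (nat_lit 174) (nat_lit 179) (nat_lit 157))) (PT.nd (nat_lit 78) (PT.lf (nat_lit 20672) (nat_lit 6) (nat_lit 272) (nat_lit 2) (nat_lit 175) (nat_lit 179) (nat_lit 156)) (PT.lf (nat_lit 20368) (nat_lit 6) (nat_lit 268) (nat_lit 2) (nat_lit 176) (nat_lit 179) (nat_lit 155))))) (PT.nd (nat_lit 234) (PT.nd (nat_lit 78) (PT.lf (nat_lit 20064) (nat_lit 6) (nat_lit 264) (nat_lit 2) (nat_lit 177) (nat_lit 179) (nat_lit 154)) (PT.nd (nat_lit 78) (PT.lf (nat_lit 19760) (nat_lit 6) (nat_lit 260) (nat_lit 2) (nat_lit 178) (nat_lit 179) (nat_lit 153)) (PT.lf (nat_lit 19456) (nat_lit 3) (nat_lit 256) (nat_lit 0) (nat_lit 179) (nat_lit 179) (nat_lit 152)))) (PT.nd (nat_lit 156) (PT.nd (nat_lit 78) (PT.lf (nat_lit 19152)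 (nat_lit 6) (nat_lit 252) (nat_lit 0) (nat_lit 180) (nat_lit 179) (nat_lit 151)) (PT.lf (nat_lit 18772) (nat_lit 6) (nat_lit 247) (nat_lit 0) (nat_lit 181) (nat_lit 179) (nat_lit 150))) (PT.nd (nat_lit 78) (PT.lf (nat_lit 18468) (nat_lit 6) (nat_lit 243) (nat_lit 0) (nat_lit 182) (nat_lit 179) (nat_lit 149)) (PT.lf (nat_lit 18164) (nat_lit 6) (nat_lit 239) (nat_lit 0) (nat_lit 183) (nat_lit 179) (nat_lit 148))))))))
noncomputable def pc17 : PT := (PT.nd (nat_lit 52104) (PT.nd (nat_lit 51012) (PT.nd (nat_lit 50466) (PT.nd (nat_lit 50232) (PT.nd (nat_lit 50076) (PT.lf (nat_lit 17860) (nat_lit 6) (nat_lit 235) (nat_lit 0) (nat_lit 184) (nat_lit 179) (nat_lit 147)) (PT.nd (nat_lit 78) (PT.lf (nat_lit 17404) (nat_lit 6) (nat_lit 229) (nat_lit 5) (nat_lit 145) (nat_lit 180) (nat_lit 185)) (PT.lf (nat_lit 17632) (nat_lit 6) (nat_lit 232) (nat_lit 5) (nat_lit 146) (nat_lit 180) (nat_lit 184)))) (PT.nd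 (nat_lit 78) (PT.lf (nat_lit 17936) (nat_lit 6) (nat_lit 236) (nat_lit 5) (nat_lit 147) (nat_lit 180) (nat_lit 183)) (PT.nd (nat_lit 78) (PT.lf (nat_lit 18240) (nat_lit 6) (nat_lit 240) (nat_lit 5) (nat_lit 148) (nat_lit 180) (nat_lit 182)) (PT.lf (nat_lit 18544) (nat_lit 6) (nat_lit 244) (nat_lit 5) (nat_lit 149) (nat_lit 180) (nat_lit 181))))) (PT.nd (nat_lit 234) (PT.nd (nat_lit 78) (PT.lf (nat_lit 18848) (nat_lit 3) (nat_lit 248) (nat_lit 4) (nat_lit 150) (nat_lit 180) (nat_lit 180)) (PT.nd (nat_lit 78) (PT.lf (nat_lit 19152) (nat_lit 6) (nat_lit 252) (nat_lit 4) (nat_lit 151) (nat_lit 180) (nat_lit 179)) (PT.lf (nat_lit 19380) (nat_lit 6) (nat_lit 255) (nat_lit 4) (nat_lit 152) (nat_lit 180) (nat_lit 178)))) (PT.nd (nat_lit 156) (PT.nd (nat_lit 78) (PT.lf (nat_lit 19684) (nat_lit 6) (nat_lit 259) (nat_lit 4) (nat_lit 153) (nat_lit 180) (nat_lit 177)) (PT.lf (nat_lit 19988) (nat_lit 6) (nat_lit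 263) (nat_lit 4) (nat_lit 154) (nat_lit 180) (nat_lit 176))) (PT.nd (nat_lit 78) (PT.lf (nat_lit 20292) (nat_lit 6) (nat_lit 267) (nat_lit 4) (nat_lit 155) (nat_lit 180) (nat_lit 175)) (PT.lf (nat_lit 20596) (nat_lit 6) (nat_lit 271) (nat_lit 4) (nat_lit 156) (nat_lit 180) (nat_lit 174)))))) (PT.nd (nat_lit 546) (PT.nd (nat_lit 234) (PT.nd (nat_lit 78) (PT.lf (nat_lit 20976) (nat_lit 6) (nat_lit 276) (nat_lit 4) (nat_lit 157) (nat_lit 180) (nat_lit 173)) (PT.nd (nat_lit 78) (PT.lf (nat_lit 21356) (nat_lit 6) (nat_lit 281) (nat_lit 4) (nat_lit 158) (nat_lit 180) (nat_lit 172)) (PT.lf (nat_lit 21812) (nat_lit 6) (nat_lit 287) (nat_lit 4) (nat_lit 159) (nat_lit 180) (nat_lit 171)))) (PT.nd (nat_lit 156) (PT.nd (nat_lit 78) (PT.lf (nat_lit 22572) (nat_lit 6) (nat_lit 297) (nat_lit 4) (nat_lit 160) (nat_lit 180) (nat_lit 170)) (PT.lf (nat_lit 22496) (nat_lit 6) (nat_lit 296) (nat_lit 4) (nat_lit 161)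 (nat_lit 180) (nat_lit 169))) (PT.nd (nat_lit 78) (PT.lf (nat_lit 22420) (nat_lit 6) (nat_lit 295) (nat_lit 4) (nat_lit 162) (nat_lit 180) (nat_lit 168)) (PT.lf (nat_lit 22344) (nat_lit 6) (nat_lit 294) (nat_lit 4) (nat_lit 163) (nat_lit 180) (nat_lit 167))))) (PT.nd (nat_lit 234) (PT.nd (nat_lit 78) (PT.lf (nat_lit 22268) (nat_lit 6) (nat_lit 293) (nat_lit 4) (nat_lit 164) (nat_lit 180) (nat_lit 166)) (PT.nd (nat_lit 78) (PT.lf (nat_lit 22192) (nat_lit 3) (nat_lit 292) (nat_lit 2) (nat_lit 165) (nat_lit 180) (nat_lit 165)) (PT.lf (nat_lit 22268) (nat_lit 6) (nat_lit 293) (nat_lit 2) (nat_lit 166) (nat_lit 180) (nat_lit 164)))) (PT.nd (nat_lit 156) (PT.nd (nat_lit 78) (PT.lf (nat_lit 22344) (nat_lit 6) (nat_lit 294) (nat_lit 2) (nat_lit 167) (nat_lit 180) (nat_lit 163)) (PT.lf (nat_lit 22420) (nat_lit 6) (nat_lit 295) (nat_lit 2) (nat_lit 168) (nat_lit 180) (nat_lit 162))) (PT.nd (nat_lit 78) (PT.lf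 (nat_lit 22496) (nat_lit 6) (nat_lit 296) (nat_lit 2) (nat_lit 169) (nat_lit 180) (nat_lit 161)) (PT.lf (nat_lit 22572) (nat_lit 6) (nat_lit 297) (nat_lit 2) (nat_lit 170) (nat_lit 180) (nat_lit 160))))))) (PT.nd (nat_lit 1014) (PT.nd (nat_lit 468) (PT.nd (nat_lit 234) (PT.nd (nat_lit 78) (PT.lf (nat_lit 21812) (nat_lit 6) (nat_lit 287) (nat_lit 2) (nat_lit 171) (nat_lit 180) (nat_lit 159)) (PT.nd (nat_lit 78) (PT.lf (nat_lit 21356) (nat_lit 6) (nat_lit 281) (nat_lit 2) (nat_lit 172) (nat_lit 180) (nat_lit 158)) (PT.lf (nat_lit 20976) (nat_lit 6) (nat_lit 276) (nat_lit 2) (nat_lit 173) (nat_lit 180) (nat_lit 157)))) (PT.nd (nat_lit 78) (PT.lf (nat_lit 20596) (nat_lit 6) (nat_lit 271) (nat_lit 2) (nat_lit 174) (nat_lit 180) (nat_lit 156)) (PT.nd (nat_lit 78) (PT.lf (nat_lit 20292) (nat_lit 6) (nat_lit 267) (nat_lit 2) (nat_lit 175) (nat_lit 180) (nat_lit 155)) (PT.lf (nat_lit 19988) (nat_lit 6)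 (nat_lit 263) (nat_lit 2) (nat_lit 176) (nat_lit 180) (nat_lit 154))))) (PT.nd (nat_lit 234) (PT.nd (nat_lit 78) (PT.lf (nat_lit 19684) (nat_lit 6) (nat_lit 259) (nat_lit 2) (nat_lit 177) (nat_lit 180) (nat_lit 153)) (PT.nd (nat_lit 78) (PT.lf (nat_lit 19380) (nat_lit 6) (nat_lit 255) (nat_lit 2) (nat_lit 178) (nat_lit 180) (nat_lit 152)) (PT.lf (nat_lit 19152) (nat_lit 6) (nat_lit 252) (nat_lit 2) (nat_lit 179) (nat_lit 180) (nat_lit 151)))) (PT.nd (nat_lit 156) (PT.nd (nat_lit 78) (PT.lf (nat_lit 18848) (nat_lit 3) (nat_lit 248) (nat_lit 0) (nat_lit 180) (nat_lit 180) (nat_lit 150)) (PT.lf (nat_lit 18544) (nat_lit 6) (nat_lit 244) (nat_lit 0) (nat_lit 181) (nat_lit 180) (nat_lit 149))) (PT.nd (nat_lit 78) (PT.lf (nat_lit 18240) (nat_lit 6) (nat_lit 240) (nat_lit 0) (nat_lit 182) (nat_lit 180) (nat_lit 148)) (PT.lf (nat_lit 17936) (nat_lit 6) (nat_lit 236) (nat_lit 0) (nat_lit 183) (nat_lit 180)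 (nat_lit 147)))))) (PT.nd (nat_lit 50388) (PT.nd (nat_lit 50076) (PT.nd (nat_lit 78) (PT.lf (nat_lit 17632) (nat_lit 6) (nat_lit 232) (nat_lit 0) (nat_lit 184) (nat_lit 180) (nat_lit 146)) (PT.nd (nat_lit 49920) (PT.lf (nat_lit 17404) (nat_lit 6) (nat_lit 229) (nat_lit 0) (nat_lit 185) (nat_lit 180) (nat_lit 145)) (PT.lf (nat_lit 17176) (nat_lit 6) (nat_lit 226) (nat_lit 5) (nat_lit 144) (nat_lit 181) (nat_lit 185)))) (PT.nd (nat_lit 156) (PT.nd (nat_lit 78) (PT.lf (nat_lit 17480) (nat_lit 6) (nat_lit 230) (nat_lit 5) (nat_lit 145) (nat_lit 181) (nat_lit 184)) (PT.lf (nat_lit 17708) (nat_lit 6) (nat_lit 233) (nat_lit 5) (nat_lit 146) (nat_lit 181) (nat_lit 183))) (PT.nd (nat_lit 78) (PT.lf (nat_lit 18012) (nat_lit 6) (nat_lit 237) (nat_lit 5) (nat_lit 147) (nat_lit 181) (nat_lit 182)) (PT.lf (nat_lit 18316) (nat_lit 3) (nat_lit 241) (nat_lit 4) (nat_lit 148) (nat_lit 181) (nat_lit 181))))) (PT.nd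 (nat_lit 234) (PT.nd (nat_lit 78) (PT.lf (nat_lit 18544) (nat_lit 6) (nat_lit 244) (nat_lit 4) (nat_lit 149) (nat_lit 181) (nat_lit 180)) (PT.nd (nat_lit 78) (PT.lf (nat_lit 18772) (nat_lit 6) (nat_lit 247) (nat_lit 4) (nat_lit 150) (nat_lit 181) (nat_lit 179)) (PT.lf (nat_lit 19076) (nat_lit 6) (nat_lit 251) (nat_lit 4) (nat_lit 151) (nat_lit 181) (nat_lit 178)))) (PT.nd (nat_lit 156) (PT.nd (nat_lit 78) (PT.lf (nat_lit 19304) (nat_lit 6) (nat_lit 254) (nat_lit 4) (nat_lit 152) (nat_lit 181) (nat_lit 177)) (PT.lf (nat_lit 19608) (nat_lit 6) (nat_lit 258) (nat_lit 4) (nat_lit 153) (nat_lit 181) (nat_lit 176))) (PT.nd (nat_lit 78) (PT.lf (nat_lit 19912) (nat_lit 6) (nat_lit 262) (nat_lit 4) (nat_lit 154) (nat_lit 181) (nat_lit 175)) (PT.lf (nat_lit 20216) (nat_lit 6) (nat_lit 266) (nat_lit 4) (nat_lit 155) (nat_lit 181) (nat_lit 174))))))))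
noncomputable def pc18 : PT := (PT.nd (nat_lit 52572) (PT.nd (nat_lit 1794) (PT.nd (nat_lit 1248) (PT.nd (nat_lit 234) (PT.nd (nat_lit 78) (PT.lf (nat_lit 20520) (nat_lit 6) (nat_lit 270) (nat_lit 4) (nat_lit 156) (nat_lit 181) (nat_lit 173)) (PT.nd (nat_lit 78) (PT.lf (nat_lit 20900) (nat_lit 6) (nat_lit 275) (nat_lit 4) (nat_lit 157) (nat_lit 181) (nat_lit 172)) (PT.lf (nat_lit 21280) (nat_lit 6) (nat_lit 280) (nat_lit 4) (nat_lit 158) (nat_lit 181) (nat_lit 171)))) (PT.nd (nat_lit 858) (PT.lf (nat_lit 21736) (nat_lit 6) (nat_lit 286) (nat_lit 4) (nat_lit 159) (nat_lit 181) (nat_lit 170)) (PT.nd (nat_lit 78) (PT.lf (nat_lit 21736) (nat_lit 6) (nat_lit 286) (nat_lit 2) (nat_lit 170) (nat_lit 181) (nat_lit 159)) (PT.lf (nat_lit 21280) (nat_lit 6) (nat_lit 280) (nat_lit 2) (nat_lit 171) (nat_lit 181) (nat_lit 158))))) (PT.nd (nat_lit 234) (PT.nd (nat_lit 78) (PT.lf (nat_lit 20900) (nat_lit 6) (nat_lit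 275) (nat_lit 2) (nat_lit 172) (nat_lit 181) (nat_lit 157)) (PT.nd (nat_lit 78) (PT.lf (nat_lit 20520) (nat_lit 6) (nat_lit 270) (nat_lit 2) (nat_lit 173) (nat_lit 181) (nat_lit 156)) (PT.lf (nat_lit 20216) (nat_lit 6) (nat_lit 266) (nat_lit 2) (nat_lit 174) (nat_lit 181) (nat_lit 155)))) (PT.nd (nat_lit 156) (PT.nd (nat_lit 78) (PT.lf (nat_lit 19912) (nat_lit 6) (nat_lit 262) (nat_lit 2) (nat_lit 175) (nat_lit 181) (nat_lit 154)) (PT.lf (nat_lit 19608) (nat_lit 6) (nat_lit 258) (nat_lit 2) (nat_lit 176) (nat_lit 181) (nat_lit 153))) (PT.nd (nat_lit 78) (PT.lf (nat_lit 19304) (nat_lit 6) (nat_lit 254) (nat_lit 2) (nat_lit 177) (nat_lit 181) (nat_lit 152)) (PT.lf (nat_lit 19076) (nat_lit 6) (nat_lit 251) (nat_lit 2) (nat_lit 178) (nat_lit 181) (nat_lit 151)))))) (PT.nd (nat_lit 50232) (PT.nd (nat_lit 234) (PT.nd (nat_lit 78) (PT.lf (nat_lit 18772) (nat_lit 6) (nat_lit 247) (nat_lit 2) (nat_lit 179)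 (nat_lit 181) (nat_lit 150)) (PT.nd (nat_lit 78) (PT.lf (nat_lit 18544) (nat_lit 6) (nat_lit 244) (nat_lit 2) (nat_lit 180) (nat_lit 181) (nat_lit 149)) (PT.lf (nat_lit 18316) (nat_lit 3) (nat_lit 241) (nat_lit 0) (nat_lit 181) (nat_lit 181) (nat_lit 148)))) (PT.nd (nat_lit 156) (PT.nd (nat_lit 78) (PT.lf (nat_lit 18012) (nat_lit 6) (nat_lit 237) (nat_lit 0) (nat_lit 182) (nat_lit 181) (nat_lit 147)) (PT.lf (nat_lit 17708) (nat_lit 6) (nat_lit 233) (nat_lit 0) (nat_lit 183) (nat_lit 181) (nat_lit 146))) (PT.nd (nat_lit 78) (PT.lf (nat_lit 17480) (nat_lit 6) (nat_lit 230) (nat_lit 0) (nat_lit 184) (nat_lit 181) (nat_lit 145)) (PT.lf (nat_lit 17176) (nat_lit 6) (nat_lit 226) (nat_lit 0) (nat_lit 185) (nat_lit 181) (nat_lit 144))))) (PT.nd (nat_lit 234) (PT.nd (nat_lit 78) (PT.lf (nat_lit 16796) (nat_lit 6) (nat_lit 221) (nat_lit 5) (nat_lit 142) (nat_lit 182) (nat_lit 186)) (PT.nd (nat_lit 78) (PT.lf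 (nat_lit 17024) (nat_lit 6) (nat_lit 224) (nat_lit 5) (nat_lit 143) (nat_lit 182) (nat_lit 185)) (PT.lf (nat_lit 17252) (nat_lit 6) (nat_lit 227) (nat_lit 5) (nat_lit 144) (nat_lit 182) (nat_lit 184)))) (PT.nd (nat_lit 156) (PT.nd (nat_lit 78) (PT.lf (nat_lit 17556) (nat_lit 6) (nat_lit 231) (nat_lit 5) (nat_lit 145) (nat_lit 182) (nat_lit 183)) (PT.lf (nat_lit 17784) (nat_lit 3) (nat_lit 234) (nat_lit 4) (nat_lit 146) (nat_lit 182) (nat_lit 182))) (PT.nd (nat_lit 78) (PT.lf (nat_lit 18012) (nat_lit 6) (nat_lit 237) (nat_lit 4) (nat_lit 147) (nat_lit 182) (nat_lit 181)) (PT.lf (nat_lit 18240) (nat_lit 6) (nat_lit 240) (nat_lit 4) (nat_lit 148) (nat_lit 182) (nat_lit 180))))))) (PT.nd (nat_lit 2496) (PT.nd (nat_lit 1950) (PT.nd (nat_lit 234) (PT.nd (nat_lit 78) (PT.lf (nat_lit 18468) (nat_lit 6) (nat_lit 243) (nat_lit 4) (nat_lit 149) (nat_lit 182) (nat_lit 179)) (PT.nd (nat_lit 78) (PT.lf (nat_lit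 18696) (nat_lit 6) (nat_lit 246) (nat_lit 4) (nat_lit 150) (nat_lit 182) (nat_lit 178)) (PT.lf (nat_lit 19000) (nat_lit 6) (nat_lit 250) (nat_lit 4) (nat_lit 151) (nat_lit 182) (nat_lit 177)))) (PT.nd (nat_lit 78) (PT.lf (nat_lit 19228) (nat_lit 6) (nat_lit 253) (nat_lit 4) (nat_lit 152) (nat_lit 182) (nat_lit 176)) (PT.nd (nat_lit 78) (PT.lf (nat_lit 19532) (nat_lit 6) (nat_lit 257) (nat_lit 4) (nat_lit 153) (nat_lit 182) (nat_lit 175)) (PT.lf (nat_lit 19836) (nat_lit 6) (nat_lit 261) (nat_lit 4) (nat_lit 154) (nat_lit 182) (nat_lit 174))))) (PT.nd (nat_lit 234) (PT.nd (nat_lit 78) (PT.lf (nat_lit 19836) (nat_lit 6) (nat_lit 261) (nat_lit 2) (nat_lit 174) (nat_lit 182) (nat_lit 154)) (PT.nd (nat_lit 78) (PT.lf (nat_lit 19532) (nat_lit 6) (nat_lit 257) (nat_lit 2) (nat_lit 175) (nat_lit 182) (nat_lit 153)) (PT.lf (nat_lit 19228) (nat_lit 6) (nat_lit 253) (nat_lit 2) (nat_lit 176) (nat_lit 182)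 (nat_lit 152)))) (PT.nd (nat_lit 156) (PT.nd (nat_lit 78) (PT.lf (nat_lit 19000) (nat_lit 6) (nat_lit 250) (nat_lit 2) (nat_lit 177) (nat_lit 182) (nat_lit 151)) (PT.lf (nat_lit 18696) (nat_lit 6) (nat_lit 246) (nat_lit 2) (nat_lit 178) (nat_lit 182) (nat_lit 150))) (PT.nd (nat_lit 78) (PT.lf (nat_lit 18468) (nat_lit 6) (nat_lit 243) (nat_lit 2) (nat_lit 179) (nat_lit 182) (nat_lit 149)) (PT.lf (nat_lit 18240) (nat_lit 6) (nat_lit 240) (nat_lit 2) (nat_lit 180) (nat_lit 182) (nat_lit 148)))))) (PT.nd (nat_lit 49998) (PT.nd (nat_lit 234) (PT.nd (nat_lit 78) (PT.lf (nat_lit 18012) (nat_lit 6) (nat_lit 237) (nat_lit 2) (nat_lit 181) (nat_lit 182) (nat_lit 147)) (PT.nd (nat_lit 78) (PT.lf (nat_lit 17784) (nat_lit 3) (nat_lit 234) (nat_lit 0) (nat_lit 182) (nat_lit 182) (nat_lit 146)) (PT.lf (nat_lit 17556) (nat_lit 6) (nat_lit 231) (nat_lit 0) (nat_lit 183) (nat_lit 182) (nat_lit 145)))) (PT.nd (nat_lit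 156) (PT.nd (nat_lit 78) (PT.lf (nat_lit 17252) (nat_lit 6) (nat_lit 227) (nat_lit 0) (nat_lit 184) (nat_lit 182) (nat_lit 144)) (PT.lf (nat_lit 17024) (nat_lit 6) (nat_lit 224) (nat_lit 0) (nat_lit 185) (nat_lit 182) (nat_lit 143))) (PT.nd (nat_lit 49530) (PT.lf (nat_lit 16796) (nat_lit 6) (nat_lit 221) (nat_lit 0) (nat_lit 186) (nat_lit 182) (nat_lit 142)) (PT.lf (nat_lit 16416) (nat_lit 6) (nat_lit 216) (nat_lit 5) (nat_lit 140) (nat_lit 183) (nat_lit 187))))) (PT.nd (nat_lit 234) (PT.nd (nat_lit 78) (PT.lf (nat_lit 16644) (nat_lit 6) (nat_lit 219) (nat_lit 5) (nat_lit 141) (nat_lit 183) (nat_lit 186)) (PT.nd (nat_lit 78) (PT.lf (nat_lit 16872) (nat_lit 6) (nat_lit 222) (nat_lit 5) (nat_lit 142) (nat_lit 183) (nat_lit 185)) (PT.lf (nat_lit 17100) (nat_lit 6) (nat_lit 225) (nat_lit 5) (nat_lit 143) (nat_lit 183) (nat_lit 184)))) (PT.nd (nat_lit 156) (PT.nd (nat_lit 78) (PT.lf (nat_lit 17328)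 (nat_lit 3) (nat_lit 228) (nat_lit 4) (nat_lit 144) (nat_lit 183) (nat_lit 183)) (PT.lf (nat_lit 17556) (nat_lit 6) (nat_lit 231) (nat_lit 4) (nat_lit 145) (nat_lit 183) (nat_lit 182))) (PT.nd (nat_lit 78) (PT.lf (nat_lit 17708) (nat_lit 6) (nat_lit 233) (nat_lit 4) (nat_lit 146) (nat_lit 183) (nat_lit 181)) (PT.lf (nat_lit 17936) (nat_lit 6) (nat_lit 236) (nat_lit 4) (nat_lit 147) (nat_lit 183) (nat_lit 180))))))))
noncomputable def pc19 : PT := (PT.nd (nat_lit 55536) (PT.nd (nat_lit 2886) (PT.nd (nat_lit 2340) (PT.nd (nat_lit 234) (PT.nd (nat_lit 78) (PT.lf (nat_lit 18164) (nat_lit 6) (nat_lit 239) (nat_lit 4) (nat_lit 148) (nat_lit 183) (nat_lit 179)) (PT.nd (nat_lit 78) (PT.lf (nat_lit 18392) (nat_lit 6) (nat_lit 242) (nat_lit 4) (nat_lit 149) (nat_lit 183) (nat_lit 178)) (PT.lf (nat_lit 18620) (nat_lit 6) (nat_lit 245) (nat_lit 4) (nat_lit 150) (nat_lit 183) (nat_lit 177)))) (PT.nd (nat_lit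 1950) (PT.lf (nat_lit 18924) (nat_lit 6) (nat_lit 249) (nat_lit 4) (nat_lit 151) (nat_lit 183) (nat_lit 176)) (PT.nd (nat_lit 78) (PT.lf (nat_lit 18924) (nat_lit 6) (nat_lit 249) (nat_lit 2) (nat_lit 176) (nat_lit 183) (nat_lit 151)) (PT.lf (nat_lit 18620) (nat_lit 6) (nat_lit 245) (nat_lit 2) (nat_lit 177) (nat_lit 183) (nat_lit 150))))) (PT.nd (nat_lit 234) (PT.nd (nat_lit 78) (PT.lf (nat_lit 18392) (nat_lit 6) (nat_lit 242) (nat_lit 2) (nat_lit 178) (nat_lit 183) (nat_lit 149)) (PT.nd (nat_lit 78) (PT.lf (nat_lit 18164) (nat_lit 6) (nat_lit 239) (nat_lit 2) (nat_lit 179) (nat_lit 183) (nat_lit 148)) (PT.lf (nat_lit 17936) (nat_lit 6) (nat_lit 236) (nat_lit 2) (nat_lit 180) (nat_lit 183) (nat_lit 147)))) (PT.nd (nat_lit 156) (PT.nd (nat_lit 78) (PT.lf (nat_lit 17708) (nat_lit 6) (nat_lit 233) (nat_lit 2) (nat_lit 181) (nat_lit 183) (nat_lit 146)) (PT.lf (nat_lit 17556) (nat_lit 6) (nat_lit 231)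 (nat_lit 2) (nat_lit 182) (nat_lit 183) (nat_lit 145))) (PT.nd (nat_lit 78) (PT.lf (nat_lit 17328) (nat_lit 3) (nat_lit 228) (nat_lit 0) (nat_lit 183) (nat_lit 183) (nat_lit 144)) (PT.lf (nat_lit 17100) (nat_lit 6) (nat_lit 225) (nat_lit 0) (nat_lit 184) (nat_lit 183) (nat_lit 143)))))) (PT.nd (nat_lit 49842) (PT.nd (nat_lit 49530) (PT.nd (nat_lit 78) (PT.lf (nat_lit 16872) (nat_lit 6) (nat_lit 222) (nat_lit 0) (nat_lit 185) (nat_lit 183) (nat_lit 142)) (PT.nd (nat_lit 78) (PT.lf (nat_lit 16644) (nat_lit 6) (nat_lit 219) (nat_lit 0) (nat_lit 186) (nat_lit 183) (nat_lit 141)) (PT.lf (nat_lit 16416) (nat_lit 6) (nat_lit 216) (nat_lit 0) (nat_lit 187) (nat_lit 183) (nat_lit 140)))) (PT.nd (nat_lit 156) (PT.nd (nat_lit 78) (PT.lf (nat_lit 16264) (nat_lit 6) (nat_lit 214) (nat_lit 5) (nat_lit 139) (nat_lit 184) (nat_lit 187)) (PT.lf (nat_lit 16492) (nat_lit 6) (nat_lit 217) (nat_lit 5) (nat_lit 140)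 (nat_lit 184) (nat_lit 186))) (PT.nd (nat_lit 78) (PT.lf (nat_lit 16720) (nat_lit 6) (nat_lit 220) (nat_lit 5) (nat_lit 141) (nat_lit 184) (nat_lit 185)) (PT.lf (nat_lit 16948) (nat_lit 3) (nat_lit 223) (nat_lit 4) (nat_lit 142) (nat_lit 184) (nat_lit 184))))) (PT.nd (nat_lit 234) (PT.nd (nat_lit 78) (PT.lf (nat_lit 17100) (nat_lit 6) (nat_lit 225) (nat_lit 4) (nat_lit 143) (nat_lit 184) (nat_lit 183)) (PT.nd (nat_lit 78) (PT.lf (nat_lit 17252) (nat_lit 6) (nat_lit 227) (nat_lit 4) (nat_lit 144) (nat_lit 184) (nat_lit 182)) (PT.lf (nat_lit 17480) (nat_lit 6) (nat_lit 230) (nat_lit 4) (nat_lit 145) (nat_lit 184) (nat_lit 181)))) (PT.nd (nat_lit 156) (PT.nd (nat_lit 78) (PT.lf (nat_lit 17632) (nat_lit 6) (nat_lit 232) (nat_lit 4) (nat_lit 146) (nat_lit 184) (nat_lit 180)) (PT.lf (nat_lit 17860) (nat_lit 6) (nat_lit 235) (nat_lit 4) (nat_lit 147) (nat_lit 184) (nat_lit 179))) (PT.nd (nat_lit 2340)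 (PT.lf (nat_lit 18088) (nat_lit 6) (nat_lit 238) (nat_lit 4) (nat_lit 148) (nat_lit 184) (nat_lit 178)) (PT.lf (nat_lit 18088) (nat_lit 6) (nat_lit 238) (nat_lit 2) (nat_lit 178) (nat_lit 184) (nat_lit 148))))))) (PT.nd (nat_lit 50232) (PT.nd (nat_lit 546) (PT.nd (nat_lit 234) (PT.nd (nat_lit 78) (PT.lf (nat_lit 17860) (nat_lit 6) (nat_lit 235) (nat_lit 2) (nat_lit 179) (nat_lit 184) (nat_lit 147)) (PT.nd (nat_lit 78) (PT.lf (nat_lit 17632) (nat_lit 6) (nat_lit 232) (nat_lit 2) (nat_lit 180) (nat_lit 184) (nat_lit 146)) (PT.lf (nat_lit 17480) (nat_lit 6) (nat_lit 230) (nat_lit 2) (nat_lit 181) (nat_lit 184) (nat_lit 145)))) (PT.nd (nat_lit 156) (PT.nd (nat_lit 78) (PT.lf (nat_lit 17252) (nat_lit 6) (nat_lit 227) (nat_lit 2) (nat_lit 182) (nat_lit 184) (nat_lit 144)) (PT.lf (nat_lit 17100) (nat_lit 6) (nat_lit 225) (nat_lit 2) (nat_lit 183) (nat_lit 184) (nat_lit 143))) (PT.nd (nat_lit 78) (PT.lf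 (nat_lit 16948) (nat_lit 3) (nat_lit 223) (nat_lit 0) (nat_lit 184) (nat_lit 184) (nat_lit 142)) (PT.lf (nat_lit 16720) (nat_lit 6) (nat_lit 220) (nat_lit 0) (nat_lit 185) (nat_lit 184) (nat_lit 141))))) (PT.nd (nat_lit 49374) (PT.nd (nat_lit 78) (PT.lf (nat_lit 16492) (nat_lit 6) (nat_lit 217) (nat_lit 0) (nat_lit 186) (nat_lit 184) (nat_lit 140)) (PT.nd (nat_lit 49218) (PT.lf (nat_lit 16264) (nat_lit 6) (nat_lit 214) (nat_lit 0) (nat_lit 187) (nat_lit 184) (nat_lit 139)) (PT.lf (nat_lit 15960) (nat_lit 6) (nat_lit 210) (nat_lit 5) (nat_lit 137) (nat_lit 185) (nat_lit 188)))) (PT.nd (nat_lit 156) (PT.nd (nat_lit 78) (PT.lf (nat_lit 16112) (nat_lit 6) (nat_lit 212) (nat_lit 5) (nat_lit 138) (nat_lit 185) (nat_lit 187)) (PT.lf (nat_lit 16340) (nat_lit 6) (nat_lit 215) (nat_lit 5) (nat_lit 139) (nat_lit 185) (nat_lit 186))) (PT.nd (nat_lit 78) (PT.lf (nat_lit 16568) (nat_lit 3) (nat_lit 218) (nat_lit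 4) (nat_lit 140) (nat_lit 185) (nat_lit 185)) (PT.lf (nat_lit 16720) (nat_lit 6) (nat_lit 220) (nat_lit 4) (nat_lit 141) (nat_lit 185) (nat_lit 184)))))) (PT.nd (nat_lit 3198) (PT.nd (nat_lit 234) (PT.nd (nat_lit 78) (PT.lf (nat_lit 16872) (nat_lit 6) (nat_lit 222) (nat_lit 4) (nat_lit 142) (nat_lit 185) (nat_lit 183)) (PT.nd (nat_lit 78) (PT.lf (nat_lit 17024) (nat_lit 6) (nat_lit 224) (nat_lit 4) (nat_lit 143) (nat_lit 185) (nat_lit 182)) (PT.lf (nat_lit 17176) (nat_lit 6) (nat_lit 226) (nat_lit 4) (nat_lit 144) (nat_lit 185) (nat_lit 181)))) (PT.nd (nat_lit 2808) (PT.nd (nat_lit 2730) (PT.lf (nat_lit 17404) (nat_lit 6) (nat_lit 229) (nat_lit 4) (nat_lit 145) (nat_lit 185) (nat_lit 180)) (PT.lf (nat_lit 17404) (nat_lit 6) (nat_lit 229) (nat_lit 2) (nat_lit 180) (nat_lit 185) (nat_lit 145))) (PT.nd (nat_lit 78) (PT.lf (nat_lit 17176) (nat_lit 6) (nat_lit 226) (nat_lit 2) (nat_lit 181) (nat_lit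 185) (nat_lit 144)) (PT.lf (nat_lit 17024) (nat_lit 6) (nat_lit 224) (nat_lit 2) (nat_lit 182) (nat_lit 185) (nat_lit 143))))) (PT.nd (nat_lit 234) (PT.nd (nat_lit 78) (PT.lf (nat_lit 16872) (nat_lit 6) (nat_lit 222) (nat_lit 2) (nat_lit 183) (nat_lit 185) (nat_lit 142)) (PT.nd (nat_lit 78) (PT.lf (nat_lit 16720) (nat_lit 6) (nat_lit 220) (nat_lit 2) (nat_lit 184) (nat_lit 185) (nat_lit 141)) (PT.lf (nat_lit 16568) (nat_lit 3) (nat_lit 218) (nat_lit 0) (nat_lit 185) (nat_lit 185) (nat_lit 140)))) (PT.nd (nat_lit 156) (PT.nd (nat_lit 78) (PT.lf (nat_lit 16340) (nat_lit 6) (nat_lit 215) (nat_lit 0) (nat_lit 186) (nat_lit 185) (nat_lit 139)) (PT.lf (nat_lit 16112) (nat_lit 6) (nat_lit 212) (nat_lit 0) (nat_lit 187) (nat_lit 185) (nat_lit 138))) (PT.nd (nat_lit 48984) (PT.lf (nat_lit 15960) (nat_lit 6) (nat_lit 210) (nat_lit 0) (nat_lit 188) (nat_lit 185) (nat_lit 137)) (PT.lf (nat_lit 15656) (nat_lit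 6) (nat_lit 206) (nat_lit 5) (nat_lit 135) (nat_lit 186) (nat_lit 189))))))))
noncomputable def pc20 : PT := (PT.nd (nat_lit 57096) (PT.nd (nat_lit 4056) (PT.nd (nat_lit 468) (PT.nd (nat_lit 234) (PT.nd (nat_lit 78) (PT.lf (nat_lit 15808) (nat_lit 6) (nat_lit 208) (nat_lit 5) (nat_lit 136) (nat_lit 186) (nat_lit 188)) (PT.nd (nat_lit 78) (PT.lf (nat_lit 16036) (nat_lit 6) (nat_lit 211) (nat_lit 5) (nat_lit 137) (nat_lit 186) (nat_lit 187)) (PT.lf (nat_lit 16188) (nat_lit 3) (nat_lit 213) (nat_lit 4) (nat_lit 138) (nat_lit 186) (nat_lit 186)))) (PT.nd (nat_lit 78) (PT.lf (nat_lit 16340) (nat_lit 6) (nat_lit 215) (nat_lit 4) (nat_lit 139) (nat_lit 186) (nat_lit 185)) (PT.nd (nat_lit 78) (PT.lf (nat_lit 16492) (nat_lit 6) (nat_lit 217) (nat_lit 4) (nat_lit 140) (nat_lit 186) (nat_lit 184)) (PT.lf (nat_lit 16644) (nat_lit 6) (nat_lit 219) (nat_lit 4) (nat_lit 141) (nat_lit 186) (nat_lit 183))))) (PT.nd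 (nat_lit 3276) (PT.nd (nat_lit 3120) (PT.lf (nat_lit 16796) (nat_lit 6) (nat_lit 221) (nat_lit 4) (nat_lit 142) (nat_lit 186) (nat_lit 182)) (PT.nd (nat_lit 78) (PT.lf (nat_lit 16796) (nat_lit 6) (nat_lit 221) (nat_lit 2) (nat_lit 182) (nat_lit 186) (nat_lit 142)) (PT.lf (nat_lit 16644) (nat_lit 6) (nat_lit 219) (nat_lit 2) (nat_lit 183) (nat_lit 186) (nat_lit 141)))) (PT.nd (nat_lit 156) (PT.nd (nat_lit 78) (PT.lf (nat_lit 16492) (nat_lit 6) (nat_lit 217) (nat_lit 2) (nat_lit 184) (nat_lit 186) (nat_lit 140)) (PT.lf (nat_lit 16340) (nat_lit 6) (nat_lit 215) (nat_lit 2) (nat_lit 185) (nat_lit 186) (nat_lit 139))) (PT.nd (nat_lit 78) (PT.lf (nat_lit 16188) (nat_lit 3) (nat_lit 213) (nat_lit 0) (nat_lit 186) (nat_lit 186) (nat_lit 138)) (PT.lf (nat_lit 16036) (nat_lit 6) (nat_lit 211) (nat_lit 0) (nat_lit 187) (nat_lit 186) (nat_lit 137)))))) (PT.nd (nat_lit 49218) (PT.nd (nat_lit 48906) (PT.nd (nat_lit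 78) (PT.lf (nat_lit 15808) (nat_lit 6) (nat_lit 208) (nat_lit 0) (nat_lit 188) (nat_lit 186) (nat_lit 136)) (PT.nd (nat_lit 48750) (PT.lf (nat_lit 15656) (nat_lit 6) (nat_lit 206) (nat_lit 0) (nat_lit 189) (nat_lit 186) (nat_lit 135)) (PT.lf (nat_lit 15352) (nat_lit 6) (nat_lit 202) (nat_lit 5) (nat_lit 133) (nat_lit 187) (nat_lit 190)))) (PT.nd (nat_lit 156) (PT.nd (nat_lit 78) (PT.lf (nat_lit 15504) (nat_lit 6) (nat_lit 204) (nat_lit 5) (nat_lit 134) (nat_lit 187) (nat_lit 189)) (PT.lf (nat_lit 15732) (nat_lit 6) (nat_lit 207) (nat_lit 5) (nat_lit 135) (nat_lit 187) (nat_lit 188))) (PT.nd (nat_lit 78) (PT.lf (nat_lit 15884) (nat_lit 3) (nat_lit 209) (nat_lit 4) (nat_lit 136) (nat_lit 187) (nat_lit 187)) (PT.lf (nat_lit 16036) (nat_lit 6) (nat_lit 211) (nat_lit 4) (nat_lit 137) (nat_lit 187) (nat_lit 186))))) (PT.nd (nat_lit 3510) (PT.nd (nat_lit 78) (PT.lf (nat_lit 16112) (nat_lit 6) (nat_lit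 212) (nat_lit 4) (nat_lit 138) (nat_lit 187) (nat_lit 185)) (PT.nd (nat_lit 78) (PT.lf (nat_lit 16264) (nat_lit 6) (nat_lit 214) (nat_lit 4) (nat_lit 139) (nat_lit 187) (nat_lit 184)) (PT.lf (nat_lit 16416) (nat_lit 6) (nat_lit 216) (nat_lit 4) (nat_lit 140) (nat_lit 187) (nat_lit 183)))) (PT.nd (nat_lit 156) (PT.nd (nat_lit 78) (PT.lf (nat_lit 16416) (nat_lit 6) (nat_lit 216) (nat_lit 2) (nat_lit 183) (nat_lit 187) (nat_lit 140)) (PT.lf (nat_lit 16264) (nat_lit 6) (nat_lit 214) (nat_lit 2) (nat_lit 184) (nat_lit 187) (nat_lit 139))) (PT.nd (nat_lit 78) (PT.lf (nat_lit 16112) (nat_lit 6) (nat_lit 212) (nat_lit 2) (nat_lit 185) (nat_lit 187) (nat_lit 138)) (PT.lf (nat_lit 16036) (nat_lit 6) (nat_lit 211) (nat_lit 2) (nat_lit 186) (nat_lit 187) (nat_lit 137))))))) (PT.nd (nat_lit 53118) (PT.nd (nat_lit 48906) (PT.nd (nat_lit 234) (PT.nd (nat_lit 78) (PT.lf (nat_lit 15884) (nat_lit 3) (nat_lit 209)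 (nat_lit 0) (nat_lit 187) (nat_lit 187) (nat_lit 136)) (PT.nd (nat_lit 78) (PT.lf (nat_lit 15732) (nat_lit 6) (nat_lit 207) (nat_lit 0) (nat_lit 188) (nat_lit 187) (nat_lit 135)) (PT.lf (nat_lit 15504) (nat_lit 6) (nat_lit 204) (nat_lit 0) (nat_lit 189) (nat_lit 187) (nat_lit 134)))) (PT.nd (nat_lit 48516) (PT.lf (nat_lit 15352) (nat_lit 6) (nat_lit 202) (nat_lit 0) (nat_lit 190) (nat_lit 187) (nat_lit 133)) (PT.nd (nat_lit 78) (PT.lf (nat_lit 15048) (nat_lit 6) (nat_lit 198) (nat_lit 5) (nat_lit 131) (nat_lit 188) (nat_lit 191)) (PT.lf (nat_lit 15200) (nat_lit 6) (nat_lit 200) (nat_lit 5) (nat_lit 132) (nat_lit 188) (nat_lit 190))))) (PT.nd (nat_lit 234) (PT.nd (nat_lit 78) (PT.lf (nat_lit 15428) (nat_lit 6) (nat_lit 203) (nat_lit 5) (nat_lit 133) (nat_lit 188) (nat_lit 189)) (PT.nd (nat_lit 78) (PT.lf (nat_lit 15580) (nat_lit 3) (nat_lit 205) (nat_lit 4) (nat_lit 134) (nat_lit 188) (nat_lit 188))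 (PT.lf (nat_lit 15732) (nat_lit 6) (nat_lit 207) (nat_lit 4) (nat_lit 135) (nat_lit 188) (nat_lit 187)))) (PT.nd (nat_lit 3822) (PT.nd (nat_lit 78) (PT.lf (nat_lit 15808) (nat_lit 6) (nat_lit 208) (nat_lit 4) (nat_lit 136) (nat_lit 188) (nat_lit 186)) (PT.lf (nat_lit 15960) (nat_lit 6) (nat_lit 210) (nat_lit 4) (nat_lit 137) (nat_lit 188) (nat_lit 185))) (PT.nd (nat_lit 78) (PT.lf (nat_lit 15960) (nat_lit 6) (nat_lit 210) (nat_lit 2) (nat_lit 185) (nat_lit 188) (nat_lit 137)) (PT.lf (nat_lit 15808) (nat_lit 6) (nat_lit 208) (nat_lit 2) (nat_lit 186) (nat_lit 188) (nat_lit 136)))))) (PT.nd (nat_lit 48750) (PT.nd (nat_lit 234) (PT.nd (nat_lit 78) (PT.lf (nat_lit 15732) (nat_lit 6) (nat_lit 207) (nat_lit 2) (nat_lit 187) (nat_lit 188) (nat_lit 135)) (PT.nd (nat_lit 78) (PT.lf (nat_lit 15580) (nat_lit 3) (nat_lit 205) (nat_lit 0) (nat_lit 188) (nat_lit 188) (nat_lit 134)) (PT.lf (nat_lit 15428) (nat_lit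 6) (nat_lit 203) (nat_lit 0) (nat_lit 189) (nat_lit 188) (nat_lit 133)))) (PT.nd (nat_lit 48360) (PT.nd (nat_lit 78) (PT.lf (nat_lit 15200) (nat_lit 6) (nat_lit 200) (nat_lit 0) (nat_lit 190) (nat_lit 188) (nat_lit 132)) (PT.lf (nat_lit 15048) (nat_lit 6) (nat_lit 198) (nat_lit 0) (nat_lit 191) (nat_lit 188) (nat_lit 131))) (PT.nd (nat_lit 78) (PT.lf (nat_lit 14744) (nat_lit 6) (nat_lit 194) (nat_lit 5) (nat_lit 129) (nat_lit 189) (nat_lit 192)) (PT.lf (nat_lit 14896) (nat_lit 6) (nat_lit 196) (nat_lit 5) (nat_lit 130) (nat_lit 189) (nat_lit 191))))) (PT.nd (nat_lit 234) (PT.nd (nat_lit 78) (PT.lf (nat_lit 15124) (nat_lit 6) (nat_lit 199) (nat_lit 5) (nat_lit 131) (nat_lit 189) (nat_lit 190)) (PT.nd (nat_lit 78) (PT.lf (nat_lit 15276) (nat_lit 3) (nat_lit 201) (nat_lit 4) (nat_lit 132) (nat_lit 189) (nat_lit 189)) (PT.lf (nat_lit 15428) (nat_lit 6) (nat_lit 203) (nat_lit 4) (nat_lit 133) (nat_lit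 189) (nat_lit 188)))) (PT.nd (nat_lit 4056) (PT.nd (nat_lit 78) (PT.lf (nat_lit 15504) (nat_lit 6) (nat_lit 204) (nat_lit 4) (nat_lit 134) (nat_lit 189) (nat_lit 187)) (PT.lf (nat_lit 15656) (nat_lit 6) (nat_lit 206) (nat_lit 4) (nat_lit 135) (nat_lit 189) (nat_lit 186))) (PT.nd (nat_lit 78) (PT.lf (nat_lit 15656) (nat_lit 6) (nat_lit 206) (nat_lit 2) (nat_lit 186) (nat_lit 189) (nat_lit 135)) (PT.lf (nat_lit 15504) (nat_lit 6) (nat_lit 204) (nat_lit 2) (nat_lit 187) (nat_lit 189) (nat_lit 134))))))))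
noncomputable def pc21 : PT := (PT.nd (nat_lit 106548) (PT.nd (nat_lit 53196) (PT.nd (nat_lit 48516) (PT.nd (nat_lit 234) (PT.nd (nat_lit 78) (PT.lf (nat_lit 15428) (nat_lit 6) (nat_lit 203) (nat_lit 2) (nat_lit 188) (nat_lit 189) (nat_lit 133)) (PT.nd (nat_lit 78) (PT.lf (nat_lit 15276) (nat_lit 3) (nat_lit 201) (nat_lit 0) (nat_lit 189) (nat_lit 189) (nat_lit 132)) (PT.lf (nat_lit 15124) (nat_lit 6) (nat_lit 199) (nat_lit 0) (nat_lit 190) (nat_lit 189) (nat_lit 131)))) (PT.nd (nat_lit 78) (PT.lf (nat_lit 14896) (nat_lit 6) (nat_lit 196) (nat_lit 0) (nat_lit 191) (nat_lit 189) (nat_lit 130)) (PT.nd (nat_lit 48126) (PT.lf (nat_lit 14744) (nat_lit 6) (nat_lit 194) (nat_lit 0) (nat_lit 192) (nat_lit 189) (nat_lit 129)) (PT.lf (nat_lit 14592) (nat_lit 6) (nat_lit 192) (nat_lit 5) (nat_lit 128) (nat_lit 190) (nat_lit 192))))) (PT.nd (nat_lit 234) (PT.nd (nat_lit 78) (PT.lf (nat_lit 14820) (nat_lit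 6) (nat_lit 195) (nat_lit 5) (nat_lit 129) (nat_lit 190) (nat_lit 191)) (PT.nd (nat_lit 78) (PT.lf (nat_lit 14972) (nat_lit 3) (nat_lit 197) (nat_lit 4) (nat_lit 130) (nat_lit 190) (nat_lit 190)) (PT.lf (nat_lit 15124) (nat_lit 6) (nat_lit 199) (nat_lit 4) (nat_lit 131) (nat_lit 190) (nat_lit 189)))) (PT.nd (nat_lit 4290) (PT.nd (nat_lit 78) (PT.lf (nat_lit 15200) (nat_lit 6) (nat_lit 200) (nat_lit 4) (nat_lit 132) (nat_lit 190) (nat_lit 188)) (PT.lf (nat_lit 15352) (nat_lit 6) (nat_lit 202) (nat_lit 4) (nat_lit 133) (nat_lit 190) (nat_lit 187))) (PT.nd (nat_lit 78) (PT.lf (nat_lit 15352) (nat_lit 6) (nat_lit 202) (nat_lit 2) (nat_lit 187) (nat_lit 190) (nat_lit 133)) (PT.lf (nat_lit 15200) (nat_lit 6) (nat_lit 200) (nat_lit 2) (nat_lit 188) (nat_lit 190) (nat_lit 132)))))) (PT.nd (nat_lit 48438) (PT.nd (nat_lit 234) (PT.nd (nat_lit 78) (PT.lf (nat_lit 15124) (nat_lit 6) (nat_lit 199) (nat_lit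 2) (nat_lit 189) (nat_lit 190) (nat_lit 131)) (PT.nd (nat_lit 78) (PT.lf (nat_lit 14972) (nat_lit 3) (nat_lit 197) (nat_lit 0) (nat_lit 190) (nat_lit 190) (nat_lit 130)) (PT.lf (nat_lit 14820) (nat_lit 6) (nat_lit 195) (nat_lit 0) (nat_lit 191) (nat_lit 190) (nat_lit 129)))) (PT.nd (nat_lit 48048) (PT.nd (nat_lit 47970) (PT.lf (nat_lit 14592) (nat_lit 6) (nat_lit 192) (nat_lit 0) (nat_lit 192) (nat_lit 190) (nat_lit 128)) (PT.lf (nat_lit 14364) (nat_lit 6) (nat_lit 189) (nat_lit 5) (nat_lit 126) (nat_lit 191) (nat_lit 193))) (PT.nd (nat_lit 78) (PT.lf (nat_lit 14516) (nat_lit 6) (nat_lit 191) (nat_lit 5) (nat_lit 127) (nat_lit 191) (nat_lit 192)) (PT.lf (nat_lit 14668) (nat_lit 3) (nat_lit 193) (nat_lit 4) (nat_lit 128) (nat_lit 191) (nat_lit 191))))) (PT.nd (nat_lit 4602) (PT.nd (nat_lit 78) (PT.lf (nat_lit 14820) (nat_lit 6) (nat_lit 195) (nat_lit 4) (nat_lit 129) (nat_lit 191) (nat_lit 190))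 (PT.nd (nat_lit 78) (PT.lf (nat_lit 14896) (nat_lit 6) (nat_lit 196) (nat_lit 4) (nat_lit 130) (nat_lit 191) (nat_lit 189)) (PT.lf (nat_lit 15048) (nat_lit 6) (nat_lit 198) (nat_lit 4) (nat_lit 131) (nat_lit 191) (nat_lit 188)))) (PT.nd (nat_lit 156) (PT.nd (nat_lit 78) (PT.lf (nat_lit 15048) (nat_lit 6) (nat_lit 198) (nat_lit 2) (nat_lit 188) (nat_lit 191) (nat_lit 131)) (PT.lf (nat_lit 14896) (nat_lit 6) (nat_lit 196) (nat_lit 2) (nat_lit 189) (nat_lit 191) (nat_lit 130))) (PT.nd (nat_lit 78) (PT.lf (nat_lit 14820) (nat_lit 6) (nat_lit 195) (nat_lit 2) (nat_lit 190) (nat_lit 191) (nat_lit 129)) (PT.lf (nat_lit 14668) (nat_lit 3) (nat_lit 193) (nat_lit 0) (nat_lit 191) (nat_lit 191) (nat_lit 128))))))) (PT.nd (nat_lit 53274) (PT.nd (nat_lit 48126) (PT.nd (nat_lit 47892) (PT.nd (nat_lit 78) (PT.lf (nat_lit 14516) (nat_lit 6) (nat_lit 191) (nat_lit 0) (nat_lit 192) (nat_lit 191) (nat_lit 127)) (PT.nd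 (nat_lit 47736) (PT.lf (nat_lit 14364) (nat_lit 6) (nat_lit 189) (nat_lit 0) (nat_lit 193) (nat_lit 191) (nat_lit 126)) (PT.lf (nat_lit 14136) (nat_lit 6) (nat_lit 186) (nat_lit 5) (nat_lit 124) (nat_lit 192) (nat_lit 194)))) (PT.nd (nat_lit 78) (PT.lf (nat_lit 14288) (nat_lit 6) (nat_lit 188) (nat_lit 5) (nat_lit 125) (nat_lit 192) (nat_lit 193)) (PT.nd (nat_lit 78) (PT.lf (nat_lit 14440) (nat_lit 3) (nat_lit 190) (nat_lit 4) (nat_lit 126) (nat_lit 192) (nat_lit 192)) (PT.lf (nat_lit 14516) (nat_lit 6) (nat_lit 191) (nat_lit 4) (nat_lit 127) (nat_lit 192) (nat_lit 191))))) (PT.nd (nat_lit 4836) (PT.nd (nat_lit 78) (PT.lf (nat_lit 14592) (nat_lit 6) (nat_lit 192) (nat_lit 4) (nat_lit 128) (nat_lit 192) (nat_lit 190)) (PT.nd (nat_lit 4680) (PT.lf (nat_lit 14744) (nat_lit 6) (nat_lit 194) (nat_lit 4) (nat_lit 129) (nat_lit 192) (nat_lit 189)) (PT.lf (nat_lit 14744) (nat_lit 6) (nat_lit 194) (nat_lit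 2) (nat_lit 189) (nat_lit 192) (nat_lit 129)))) (PT.nd (nat_lit 156) (PT.nd (nat_lit 78) (PT.lf (nat_lit 14592) (nat_lit 6) (nat_lit 192) (nat_lit 2) (nat_lit 190) (nat_lit 192) (nat_lit 128)) (PT.lf (nat_lit 14516) (nat_lit 6) (nat_lit 191) (nat_lit 2) (nat_lit 191) (nat_lit 192) (nat_lit 127))) (PT.nd (nat_lit 78) (PT.lf (nat_lit 14440) (nat_lit 3) (nat_lit 190) (nat_lit 0) (nat_lit 192) (nat_lit 192) (nat_lit 126)) (PT.lf (nat_lit 14288) (nat_lit 6) (nat_lit 188) (nat_lit 0) (nat_lit 193) (nat_lit 192) (nat_lit 125)))))) (PT.nd (nat_lit 52962) (PT.nd (nat_lit 47658) (PT.nd (nat_lit 47502) (PT.lf (nat_lit 14136) (nat_lit 6) (nat_lit 186) (nat_lit 0) (nat_lit 194) (nat_lit 192) (nat_lit 124)) (PT.nd (nat_lit 78) (PT.lf (nat_lit 13908) (nat_lit 6) (nat_lit 183) (nat_lit 5) (nat_lit 122) (nat_lit 193) (nat_lit 195)) (PT.lf (nat_lit 14060) (nat_lit 6) (nat_lit 185) (nat_lit 5) (nat_lit 123) (nat_lit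 193) (nat_lit 194)))) (PT.nd (nat_lit 156) (PT.nd (nat_lit 78) (PT.lf (nat_lit 14212) (nat_lit 3) (nat_lit 187) (nat_lit 4) (nat_lit 124) (nat_lit 193) (nat_lit 193)) (PT.lf (nat_lit 14288) (nat_lit 6) (nat_lit 188) (nat_lit 4) (nat_lit 125) (nat_lit 193) (nat_lit 192))) (PT.nd (nat_lit 5070) (PT.lf (nat_lit 14364) (nat_lit 6) (nat_lit 189) (nat_lit 4) (nat_lit 126) (nat_lit 193) (nat_lit 191)) (PT.lf (nat_lit 14364) (nat_lit 6) (nat_lit 189) (nat_lit 2) (nat_lit 191) (nat_lit 193) (nat_lit 126))))) (PT.nd (nat_lit 234) (PT.nd (nat_lit 78) (PT.lf (nat_lit 14288) (nat_lit 6) (nat_lit 188) (nat_lit 2) (nat_lit 192) (nat_lit 193) (nat_lit 125)) (PT.nd (nat_lit 78) (PT.lf (nat_lit 14212) (nat_lit 3) (nat_lit 187) (nat_lit 0) (nat_lit 193) (nat_lit 193) (nat_lit 124)) (PT.lf (nat_lit 14060) (nat_lit 6) (nat_lit 185) (nat_lit 0) (nat_lit 194) (nat_lit 193) (nat_lit 123)))) (PT.nd (nat_lit 47346) (PT.nd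 (nat_lit 47268) (PT.lf (nat_lit 13908) (nat_lit 6) (nat_lit 183) (nat_lit 0) (nat_lit 195) (nat_lit 193) (nat_lit 122)) (PT.lf (nat_lit 13680) (nat_lit 6) (nat_lit 180) (nat_lit 5) (nat_lit 120) (nat_lit 194) (nat_lit 196))) (PT.nd (nat_lit 78) (PT.lf (nat_lit 13832) (nat_lit 6) (nat_lit 182) (nat_lit 5) (nat_lit 121) (nat_lit 194) (nat_lit 195)) (PT.lf (nat_lit 13984) (nat_lit 3) (nat_lit 184) (nat_lit 4) (nat_lit 122) (nat_lit 194) (nat_lit 194))))))))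
noncomputable def pc22 : PT := (PT.nd (nat_lit 158652) (PT.nd (nat_lit 58656) (PT.nd (nat_lit 5694) (PT.nd (nat_lit 5460) (PT.nd (nat_lit 78) (PT.lf (nat_lit 14060) (nat_lit 6) (nat_lit 185) (nat_lit 4) (nat_lit 123) (nat_lit 194) (nat_lit 193)) (PT.nd (nat_lit 5304) (PT.lf (nat_lit 14136) (nat_lit 6) (nat_lit 186) (nat_lit 4) (nat_lit 124) (nat_lit 194) (nat_lit 192)) (PT.lf (nat_lit 14136) (nat_lit 6) (nat_lit 186) (nat_lit 2) (nat_lit 192) (nat_lit 194) (nat_lit 124)))) (PT.nd (nat_lit 78) (PT.lf (nat_lit 14060) (nat_lit 6) (nat_lit 185) (nat_lit 2) (nat_lit 193) (nat_lit 194) (nat_lit 123)) (PT.nd (nat_lit 78) (PT.lf (nat_lit 13984) (nat_lit 3) (nat_lit 184) (nat_lit 0) (nat_lit 194) (nat_lit 194) (nat_lit 122)) (PT.lf (nat_lit 13832) (nat_lit 6) (nat_lit 182) (nat_lit 0) (nat_lit 195) (nat_lit 194) (nat_lit 121))))) (PT.nd (nat_lit 47190) (PT.nd (nat_lit 47034) (PT.lf (nat_lit 13680) (nat_lit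 6) (nat_lit 180) (nat_lit 0) (nat_lit 196) (nat_lit 194) (nat_lit 120)) (PT.nd (nat_lit 78) (PT.lf (nat_lit 13452) (nat_lit 6) (nat_lit 177) (nat_lit 5) (nat_lit 118) (nat_lit 195) (nat_lit 197)) (PT.lf (nat_lit 13604) (nat_lit 6) (nat_lit 179) (nat_lit 5) (nat_lit 119) (nat_lit 195) (nat_lit 196)))) (PT.nd (nat_lit 156) (PT.nd (nat_lit 78) (PT.lf (nat_lit 13756) (nat_lit 3) (nat_lit 181) (nat_lit 4) (nat_lit 120) (nat_lit 195) (nat_lit 195)) (PT.lf (nat_lit 13832) (nat_lit 6) (nat_lit 182) (nat_lit 4) (nat_lit 121) (nat_lit 195) (nat_lit 194))) (PT.nd (nat_lit 5538) (PT.lf (nat_lit 13908) (nat_lit 6) (nat_lit 183) (nat_lit 4) (nat_lit 122) (nat_lit 195) (nat_lit 193)) (PT.lf (nat_lit 13908) (nat_lit 6) (nat_lit 183) (nat_lit 2) (nat_lit 193) (nat_lit 195) (nat_lit 122)))))) (PT.nd (nat_lit 47268) (PT.nd (nat_lit 234) (PT.nd (nat_lit 78) (PT.lf (nat_lit 13832) (nat_lit 6) (nat_lit 182) (nat_lit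 2) (nat_lit 194) (nat_lit 195) (nat_lit 121)) (PT.nd (nat_lit 78) (PT.lf (nat_lit 13756) (nat_lit 3) (nat_lit 181) (nat_lit 0) (nat_lit 195) (nat_lit 195) (nat_lit 120)) (PT.lf (nat_lit 13604) (nat_lit 6) (nat_lit 179) (nat_lit 0) (nat_lit 196) (nat_lit 195) (nat_lit 119)))) (PT.nd (nat_lit 46878) (PT.nd (nat_lit 46800) (PT.lf (nat_lit 13452) (nat_lit 6) (nat_lit 177) (nat_lit 0) (nat_lit 197) (nat_lit 195) (nat_lit 118)) (PT.lf (nat_lit 13224) (nat_lit 6) (nat_lit 174) (nat_lit 5) (nat_lit 116) (nat_lit 196) (nat_lit 198))) (PT.nd (nat_lit 78) (PT.lf (nat_lit 13376) (nat_lit 6) (nat_lit 176) (nat_lit 5) (nat_lit 117) (nat_lit 196) (nat_lit 197)) (PT.lf (nat_lit 13528) (nat_lit 3) (nat_lit 178) (nat_lit 4) (nat_lit 118) (nat_lit 196) (nat_lit 196))))) (PT.nd (nat_lit 5928) (PT.nd (nat_lit 78) (PT.lf (nat_lit 13604) (nat_lit 6) (nat_lit 179) (nat_lit 4) (nat_lit 119) (nat_lit 196) (nat_lit 195))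 (PT.nd (nat_lit 5772) (PT.lf (nat_lit 13680) (nat_lit 6) (nat_lit 180) (nat_lit 4) (nat_lit 120) (nat_lit 196) (nat_lit 194)) (PT.lf (nat_lit 13680) (nat_lit 6) (nat_lit 180) (nat_lit 2) (nat_lit 194) (nat_lit 196) (nat_lit 120)))) (PT.nd (nat_lit 156) (PT.nd (nat_lit 78) (PT.lf (nat_lit 13604) (nat_lit 6) (nat_lit 179) (nat_lit 2) (nat_lit 195) (nat_lit 196) (nat_lit 119)) (PT.lf (nat_lit 13528) (nat_lit 3) (nat_lit 178) (nat_lit 0) (nat_lit 196) (nat_lit 196) (nat_lit 118))) (PT.nd (nat_lit 78) (PT.lf (nat_lit 13376) (nat_lit 6) (nat_lit 176) (nat_lit 0) (nat_lit 197) (nat_lit 196) (nat_lit 117)) (PT.lf (nat_lit 13224) (nat_lit 6) (nat_lit 174) (nat_lit 0) (nat_lit 198) (nat_lit 196) (nat_lit 116))))))) (PT.nd (nat_lit 53196) (PT.nd (nat_lit 6396) (PT.nd (nat_lit 234) (PT.nd (nat_lit 78) (PT.lf (nat_lit 12996) (nat_lit 6) (nat_lit 171) (nat_lit 5) (nat_lit 114) (nat_lit 197) (nat_lit 199)) (PT.nd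 (nat_lit 78) (PT.lf (nat_lit 13148) (nat_lit 6) (nat_lit 173) (nat_lit 5) (nat_lit 115) (nat_lit 197) (nat_lit 198)) (PT.lf (nat_lit 13300) (nat_lit 3) (nat_lit 175) (nat_lit 4) (nat_lit 116) (nat_lit 197) (nat_lit 197)))) (PT.nd (nat_lit 78) (PT.lf (nat_lit 13376) (nat_lit 6) (nat_lit 176) (nat_lit 4) (nat_lit 117) (nat_lit 197) (nat_lit 196)) (PT.nd (nat_lit 6006) (PT.lf (nat_lit 13452) (nat_lit 6) (nat_lit 177) (nat_lit 4) (nat_lit 118) (nat_lit 197) (nat_lit 195)) (PT.lf (nat_lit 13452) (nat_lit 6) (nat_lit 177) (nat_lit 2) (nat_lit 195) (nat_lit 197) (nat_lit 118))))) (PT.nd (nat_lit 234) (PT.nd (nat_lit 78) (PT.lf (nat_lit 13376) (nat_lit 6) (nat_lit 176) (nat_lit 2) (nat_lit 196) (nat_lit 197) (nat_lit 117)) (PT.nd (nat_lit 78) (PT.lf (nat_lit 13300) (nat_lit 3) (nat_lit 175) (nat_lit 0) (nat_lit 197) (nat_lit 197) (nat_lit 116)) (PT.lf (nat_lit 13148) (nat_lit 6) (nat_lit 173) (nat_lit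 0) (nat_lit 198) (nat_lit 197) (nat_lit 115)))) (PT.nd (nat_lit 46410) (PT.nd (nat_lit 46332) (PT.lf (nat_lit 12996) (nat_lit 6) (nat_lit 171) (nat_lit 0) (nat_lit 199) (nat_lit 197) (nat_lit 114)) (PT.lf (nat_lit 12768) (nat_lit 6) (nat_lit 168) (nat_lit 5) (nat_lit 112) (nat_lit 198) (nat_lit 200))) (PT.nd (nat_lit 78) (PT.lf (nat_lit 12920) (nat_lit 6) (nat_lit 170) (nat_lit 5) (nat_lit 113) (nat_lit 198) (nat_lit 199)) (PT.lf (nat_lit 13072) (nat_lit 3) (nat_lit 172) (nat_lit 4) (nat_lit 114) (nat_lit 198) (nat_lit 198)))))) (PT.nd (nat_lit 52728) (PT.nd (nat_lit 6396) (PT.nd (nat_lit 78) (PT.lf (nat_lit 13148) (nat_lit 6) (nat_lit 173) (nat_lit 4) (nat_lit 115) (nat_lit 198) (nat_lit 197)) (PT.nd (nat_lit 6240) (PT.lf (nat_lit 13224) (nat_lit 6) (nat_lit 174) (nat_lit 4) (nat_lit 116) (nat_lit 198) (nat_lit 196)) (PT.lf (nat_lit 13224) (nat_lit 6) (nat_lit 174) (nat_lit 2) (nat_lit 196) (nat_lit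 198) (nat_lit 116)))) (PT.nd (nat_lit 156) (PT.nd (nat_lit 78) (PT.lf (nat_lit 13148) (nat_lit 6) (nat_lit 173) (nat_lit 2) (nat_lit 197) (nat_lit 198) (nat_lit 115)) (PT.lf (nat_lit 13072) (nat_lit 3) (nat_lit 172) (nat_lit 0) (nat_lit 198) (nat_lit 198) (nat_lit 114))) (PT.nd (nat_lit 78) (PT.lf (nat_lit 12920) (nat_lit 6) (nat_lit 170) (nat_lit 0) (nat_lit 199) (nat_lit 198) (nat_lit 113)) (PT.lf (nat_lit 12768) (nat_lit 6) (nat_lit 168) (nat_lit 0) (nat_lit 200) (nat_lit 198) (nat_lit 112))))) (PT.nd (nat_lit 234) (PT.nd (nat_lit 78) (PT.lf (nat_lit 12540) (nat_lit 6) (nat_lit 165) (nat_lit 5) (nat_lit 110) (nat_lit 199) (nat_lit 201)) (PT.nd (nat_lit 78) (PT.lf (nat_lit 12692) (nat_lit 6) (nat_lit 167) (nat_lit 5) (nat_lit 111) (nat_lit 199) (nat_lit 200)) (PT.lf (nat_lit 12844) (nat_lit 3) (nat_lit 169) (nat_lit 4) (nat_lit 112) (nat_lit 199) (nat_lit 199)))) (PT.nd (nat_lit 6552) (PT.nd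 (nat_lit 78) (PT.lf (nat_lit 12920) (nat_lit 6) (nat_lit 170) (nat_lit 4) (nat_lit 113) (nat_lit 199) (nat_lit 198)) (PT.lf (nat_lit 12996) (nat_lit 6) (nat_lit 171) (nat_lit 4) (nat_lit 114) (nat_lit 199) (nat_lit 197))) (PT.nd (nat_lit 78) (PT.lf (nat_lit 12996) (nat_lit 6) (nat_lit 171) (nat_lit 2) (nat_lit 197) (nat_lit 199) (nat_lit 114)) (PT.lf (nat_lit 12920) (nat_lit 6) (nat_lit 170) (nat_lit 2) (nat_lit 198) (nat_lit 199) (nat_lit 113))))))))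
noncomputable def pc23 : PT := (PT.nd (nat_lit 152256) (PT.nd (nat_lit 98982) (PT.nd (nat_lit 46254) (PT.nd (nat_lit 46020) (PT.nd (nat_lit 78) (PT.lf (nat_lit 12844) (nat_lit 3) (nat_lit 169) (nat_lit 0) (nat_lit 199) (nat_lit 199) (nat_lit 112)) (PT.nd (nat_lit 78) (PT.lf (nat_lit 12692) (nat_lit 6) (nat_lit 167) (nat_lit 0) (nat_lit 200) (nat_lit 199) (nat_lit 111)) (PT.lf (nat_lit 12540) (nat_lit 6) (nat_lit 165) (nat_lit 0) (nat_lit 201) (nat_lit 199) (nat_lit 110)))) (PT.nd (nat_lit 78) (PT.lf (nat_lit 12312) (nat_lit 6) (nat_lit 162) (nat_lit 5) (nat_lit 108) (nat_lit 200) (nat_lit 202)) (PT.nd (nat_lit 78) (PT.lf (nat_lit 12464) (nat_lit 6) (nat_lit 164) (nat_lit 5) (nat_lit 109) (nat_lit 200) (nat_lit 201)) (PT.lf (nat_lit 12616) (nat_lit 3) (nat_lit 166) (nat_lit 4) (nat_lit 110) (nat_lit 200) (nat_lit 200))))) (PT.nd (nat_lit 6864) (PT.nd (nat_lit 78) (PT.lf (nat_lit 12692) (nat_lit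 6) (nat_lit 167) (nat_lit 4) (nat_lit 111) (nat_lit 200) (nat_lit 199)) (PT.nd (nat_lit 6708) (PT.lf (nat_lit 12768) (nat_lit 6) (nat_lit 168) (nat_lit 4) (nat_lit 112) (nat_lit 200) (nat_lit 198)) (PT.lf (nat_lit 12768) (nat_lit 6) (nat_lit 168) (nat_lit 2) (nat_lit 198) (nat_lit 200) (nat_lit 112)))) (PT.nd (nat_lit 156) (PT.nd (nat_lit 78) (PT.lf (nat_lit 12692) (nat_lit 6) (nat_lit 167) (nat_lit 2) (nat_lit 199) (nat_lit 200) (nat_lit 111)) (PT.lf (nat_lit 12616) (nat_lit 3) (nat_lit 166) (nat_lit 0) (nat_lit 200) (nat_lit 200) (nat_lit 110))) (PT.nd (nat_lit 78) (PT.lf (nat_lit 12464) (nat_lit 6) (nat_lit 164) (nat_lit 0) (nat_lit 201) (nat_lit 200) (nat_lit 109)) (PT.lf (nat_lit 12312) (nat_lit 6) (nat_lit 162) (nat_lit 0) (nat_lit 202) (nat_lit 200) (nat_lit 108)))))) (PT.nd (nat_lit 7410) (PT.nd (nat_lit 234) (PT.nd (nat_lit 78) (PT.lf (nat_lit 12084) (nat_lit 6) (nat_lit 159) (nat_lit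 5) (nat_lit 106) (nat_lit 201) (nat_lit 203)) (PT.nd (nat_lit 78) (PT.lf (nat_lit 12236) (nat_lit 6) (nat_lit 161) (nat_lit 5) (nat_lit 107) (nat_lit 201) (nat_lit 202)) (PT.lf (nat_lit 12388) (nat_lit 3) (nat_lit 163) (nat_lit 4) (nat_lit 108) (nat_lit 201) (nat_lit 201)))) (PT.nd (nat_lit 7020) (PT.nd (nat_lit 78) (PT.lf (nat_lit 12464) (nat_lit 6) (nat_lit 164) (nat_lit 4) (nat_lit 109) (nat_lit 201) (nat_lit 200)) (PT.lf (nat_lit 12540) (nat_lit 6) (nat_lit 165) (nat_lit 4) (nat_lit 110) (nat_lit 201) (nat_lit 199))) (PT.nd (nat_lit 78) (PT.lf (nat_lit 12540) (nat_lit 6) (nat_lit 165) (nat_lit 2) (nat_lit 199) (nat_lit 201) (nat_lit 110)) (PT.lf (nat_lit 12464) (nat_lit 6) (nat_lit 164) (nat_lit 2) (nat_lit 200) (nat_lit 201) (nat_lit 109))))) (PT.nd (nat_lit 45552) (PT.nd (nat_lit 78) (PT.lf (nat_lit 12388) (nat_lit 3) (nat_lit 163) (nat_lit 0) (nat_lit 201) (nat_lit 201) (nat_lit 108)) (PT.nd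 (nat_lit 78) (PT.lf (nat_lit 12236) (nat_lit 6) (nat_lit 161) (nat_lit 0) (nat_lit 202) (nat_lit 201) (nat_lit 107)) (PT.lf (nat_lit 12084) (nat_lit 6) (nat_lit 159) (nat_lit 0) (nat_lit 203) (nat_lit 201) (nat_lit 106)))) (PT.nd (nat_lit 156) (PT.nd (nat_lit 78) (PT.lf (nat_lit 11856) (nat_lit 6) (nat_lit 156) (nat_lit 5) (nat_lit 104) (nat_lit 202) (nat_lit 204)) (PT.lf (nat_lit 12008) (nat_lit 6) (nat_lit 158) (nat_lit 5) (nat_lit 105) (nat_lit 202) (nat_lit 203))) (PT.nd (nat_lit 78) (PT.lf (nat_lit 12160) (nat_lit 3) (nat_lit 160) (nat_lit 4) (nat_lit 106) (nat_lit 202) (nat_lit 202)) (PT.lf (nat_lit 12236) (nat_lit 6) (nat_lit 161) (nat_lit 4) (nat_lit 107) (nat_lit 202) (nat_lit 201))))))) (PT.nd (nat_lit 60606) (PT.nd (nat_lit 52728) (PT.nd (nat_lit 7332) (PT.nd (nat_lit 7176) (PT.lf (nat_lit 12312) (nat_lit 6) (nat_lit 162) (nat_lit 4) (nat_lit 108) (nat_lit 202) (nat_lit 200)) (PT.nd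 (nat_lit 78) (PT.lf (nat_lit 12312) (nat_lit 6) (nat_lit 162) (nat_lit 2) (nat_lit 200) (nat_lit 202) (nat_lit 108)) (PT.lf (nat_lit 12236) (nat_lit 6) (nat_lit 161) (nat_lit 2) (nat_lit 201) (nat_lit 202) (nat_lit 107)))) (PT.nd (nat_lit 156) (PT.nd (nat_lit 78) (PT.lf (nat_lit 12160) (nat_lit 3) (nat_lit 160) (nat_lit 0) (nat_lit 202) (nat_lit 202) (nat_lit 106)) (PT.lf (nat_lit 12008) (nat_lit 6) (nat_lit 158) (nat_lit 0) (nat_lit 203) (nat_lit 202) (nat_lit 105))) (PT.nd (nat_lit 45162) (PT.lf (nat_lit 11856) (nat_lit 6) (nat_lit 156) (nat_lit 0) (nat_lit 204) (nat_lit 202) (nat_lit 104)) (PT.lf (nat_lit 11628) (nat_lit 6) (nat_lit 153) (nat_lit 5) (nat_lit 102) (nat_lit 203) (nat_lit 205))))) (PT.nd (nat_lit 234) (PT.nd (nat_lit 78) (PT.lf (nat_lit 11780) (nat_lit 6) (nat_lit 155) (nat_lit 5) (nat_lit 103) (nat_lit 203) (nat_lit 204)) (PT.nd (nat_lit 78) (PT.lf (nat_lit 11932) (nat_lit 3)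 (nat_lit 157) (nat_lit 4) (nat_lit 104) (nat_lit 203) (nat_lit 203)) (PT.lf (nat_lit 12008) (nat_lit 6) (nat_lit 158) (nat_lit 4) (nat_lit 105) (nat_lit 203) (nat_lit 202)))) (PT.nd (nat_lit 7488) (PT.nd (nat_lit 7410) (PT.lf (nat_lit 12084) (nat_lit 6) (nat_lit 159) (nat_lit 4) (nat_lit 106) (nat_lit 203) (nat_lit 201)) (PT.lf (nat_lit 12084) (nat_lit 6) (nat_lit 159) (nat_lit 2) (nat_lit 201) (nat_lit 203) (nat_lit 106))) (PT.nd (nat_lit 78) (PT.lf (nat_lit 12008) (nat_lit 6) (nat_lit 158) (nat_lit 2) (nat_lit 202) (nat_lit 203) (nat_lit 105)) (PT.lf (nat_lit 11932) (nat_lit 3) (nat_lit 157) (nat_lit 0) (nat_lit 203) (nat_lit 203) (nat_lit 104)))))) (PT.nd (nat_lit 52962) (PT.nd (nat_lit 45084) (PT.nd (nat_lit 78) (PT.lf (nat_lit 11780) (nat_lit 6) (nat_lit 155) (nat_lit 0) (nat_lit 204) (nat_lit 203) (nat_lit 103)) (PT.nd (nat_lit 44928) (PT.lf (nat_lit 11628) (nat_lit 6) (nat_lit 153) (nat_lit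 0) (nat_lit 205) (nat_lit 203) (nat_lit 102)) (PT.lf (nat_lit 11400) (nat_lit 6) (nat_lit 150) (nat_lit 5) (nat_lit 100) (nat_lit 204) (nat_lit 206)))) (PT.nd (nat_lit 156) (PT.nd (nat_lit 78) (PT.lf (nat_lit 11552) (nat_lit 6) (nat_lit 152) (nat_lit 5) (nat_lit 101) (nat_lit 204) (nat_lit 205)) (PT.lf (nat_lit 11704) (nat_lit 3) (nat_lit 154) (nat_lit 4) (nat_lit 102) (nat_lit 204) (nat_lit 204))) (PT.nd (nat_lit 78) (PT.lf (nat_lit 11780) (nat_lit 6) (nat_lit 155) (nat_lit 4) (nat_lit 103) (nat_lit 204) (nat_lit 203)) (PT.lf (nat_lit 11856) (nat_lit 6) (nat_lit 156) (nat_lit 4) (nat_lit 104) (nat_lit 204) (nat_lit 202))))) (PT.nd (nat_lit 234) (PT.nd (nat_lit 78) (PT.lf (nat_lit 11856) (nat_lit 6) (nat_lit 156) (nat_lit 2) (nat_lit 202) (nat_lit 204) (nat_lit 104)) (PT.nd (nat_lit 78) (PT.lf (nat_lit 11780) (nat_lit 6) (nat_lit 155) (nat_lit 2) (nat_lit 203) (nat_lit 204) (nat_lit 103)) (PT.lf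 (nat_lit 11704) (nat_lit 3) (nat_lit 154) (nat_lit 0) (nat_lit 204) (nat_lit 204) (nat_lit 102)))) (PT.nd (nat_lit 44772) (PT.nd (nat_lit 78) (PT.lf (nat_lit 11552) (nat_lit 6) (nat_lit 152) (nat_lit 0) (nat_lit 205) (nat_lit 204) (nat_lit 101)) (PT.lf (nat_lit 11400) (nat_lit 6) (nat_lit 150) (nat_lit 0) (nat_lit 206) (nat_lit 204) (nat_lit 100))) (PT.nd (nat_lit 78) (PT.lf (nat_lit 11172) (nat_lit 6) (nat_lit 147) (nat_lit 5) (nat_lit 98) (nat_lit 205) (nat_lit 207)) (PT.lf (nat_lit 11324) (nat_lit 6) (nat_lit 149) (nat_lit 5) (nat_lit 99) (nat_lit 205) (nat_lit 206))))))))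
noncomputable def pc24 : PT := (PT.nd (nat_lit 114738) (PT.nd (nat_lit 61230) (PT.nd (nat_lit 8268) (PT.nd (nat_lit 8034) (PT.nd (nat_lit 78) (PT.lf (nat_lit 11476) (nat_lit 3) (nat_lit 151) (nat_lit 4) (nat_lit 100) (nat_lit 205) (nat_lit 205)) (PT.nd (nat_lit 78) (PT.lf (nat_lit 11552) (nat_lit 6) (nat_lit 152) (nat_lit 4) (nat_lit 101) (nat_lit 205) (nat_lit 204)) (PT.lf (nat_lit 11628) (nat_lit 6) (nat_lit 153) (nat_lit 4) (nat_lit 102) (nat_lit 205) (nat_lit 203)))) (PT.nd (nat_lit 78) (PT.lf (nat_lit 11628) (nat_lit 6) (nat_lit 153) (nat_lit 2) (nat_lit 203) (nat_lit 205) (nat_lit 102)) (PT.nd (nat_lit 78) (PT.lf (nat_lit 11552) (nat_lit 6) (nat_lit 152) (nat_lit 2) (nat_lit 204) (nat_lit 205) (nat_lit 101)) (PT.lf (nat_lit 11476) (nat_lit 3) (nat_lit 151) (nat_lit 0) (nat_lit 205) (nat_lit 205) (nat_lit 100))))) (PT.nd (nat_lit 44616) (PT.nd (nat_lit 78) (PT.lf (nat_lit 11324) (nat_lit 6)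 (nat_lit 149) (nat_lit 0) (nat_lit 206) (nat_lit 205) (nat_lit 99)) (PT.nd (nat_lit 44460) (PT.lf (nat_lit 11172) (nat_lit 6) (nat_lit 147) (nat_lit 0) (nat_lit 207) (nat_lit 205) (nat_lit 98)) (PT.lf (nat_lit 10944) (nat_lit 6) (nat_lit 144) (nat_lit 5) (nat_lit 96) (nat_lit 206) (nat_lit 208)))) (PT.nd (nat_lit 156) (PT.nd (nat_lit 78) (PT.lf (nat_lit 11096) (nat_lit 6) (nat_lit 146) (nat_lit 5) (nat_lit 97) (nat_lit 206) (nat_lit 207)) (PT.lf (nat_lit 11248) (nat_lit 3) (nat_lit 148) (nat_lit 4) (nat_lit 98) (nat_lit 206) (nat_lit 206))) (PT.nd (nat_lit 78) (PT.lf (nat_lit 11324) (nat_lit 6) (nat_lit 149) (nat_lit 4) (nat_lit 99) (nat_lit 206) (nat_lit 205)) (PT.lf (nat_lit 11400) (nat_lit 6) (nat_lit 150) (nat_lit 4) (nat_lit 100) (nat_lit 206) (nat_lit 204)))))) (PT.nd (nat_lit 44694) (PT.nd (nat_lit 234) (PT.nd (nat_lit 78) (PT.lf (nat_lit 11400) (nat_lit 6) (nat_lit 150) (nat_lit 2) (nat_lit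 204) (nat_lit 206) (nat_lit 100)) (PT.nd (nat_lit 78) (PT.lf (nat_lit 11324) (nat_lit 6) (nat_lit 149) (nat_lit 2) (nat_lit 205) (nat_lit 206) (nat_lit 99)) (PT.lf (nat_lit 11248) (nat_lit 3) (nat_lit 148) (nat_lit 0) (nat_lit 206) (nat_lit 206) (nat_lit 98)))) (PT.nd (nat_lit 44304) (PT.nd (nat_lit 78) (PT.lf (nat_lit 11096) (nat_lit 6) (nat_lit 146) (nat_lit 0) (nat_lit 207) (nat_lit 206) (nat_lit 97)) (PT.lf (nat_lit 10944) (nat_lit 6) (nat_lit 144) (nat_lit 0) (nat_lit 208) (nat_lit 206) (nat_lit 96))) (PT.nd (nat_lit 78) (PT.lf (nat_lit 10716) (nat_lit 6) (nat_lit 141) (nat_lit 5) (nat_lit 94) (nat_lit 207) (nat_lit 209)) (PT.lf (nat_lit 10868) (nat_lit 6) (nat_lit 143) (nat_lit 5) (nat_lit 95) (nat_lit 207) (nat_lit 208))))) (PT.nd (nat_lit 8502) (PT.nd (nat_lit 78) (PT.lf (nat_lit 11020) (nat_lit 3) (nat_lit 145) (nat_lit 4) (nat_lit 96) (nat_lit 207) (nat_lit 207)) (PT.nd (nat_lit 78) (PT.lf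 (nat_lit 11096) (nat_lit 6) (nat_lit 146) (nat_lit 4) (nat_lit 97) (nat_lit 207) (nat_lit 206)) (PT.lf (nat_lit 11172) (nat_lit 6) (nat_lit 147) (nat_lit 4) (nat_lit 98) (nat_lit 207) (nat_lit 205)))) (PT.nd (nat_lit 156) (PT.nd (nat_lit 78) (PT.lf (nat_lit 11172) (nat_lit 6) (nat_lit 147) (nat_lit 2) (nat_lit 205) (nat_lit 207) (nat_lit 98)) (PT.lf (nat_lit 11096) (nat_lit 6) (nat_lit 146) (nat_lit 2) (nat_lit 206) (nat_lit 207) (nat_lit 97))) (PT.nd (nat_lit 78) (PT.lf (nat_lit 11020) (nat_lit 3) (nat_lit 145) (nat_lit 0) (nat_lit 207) (nat_lit 207) (nat_lit 96)) (PT.lf (nat_lit 10868) (nat_lit 6) (nat_lit 143) (nat_lit 0) (nat_lit 208) (nat_lit 207) (nat_lit 95))))))) (PT.nd (nat_lit 97110) (PT.nd (nat_lit 52884) (PT.nd (nat_lit 44148) (PT.nd (nat_lit 43992) (PT.lf (nat_lit 10716) (nat_lit 6) (nat_lit 141) (nat_lit 0) (nat_lit 209) (nat_lit 207) (nat_lit 94)) (PT.nd (nat_lit 78) (PT.lf (nat_lit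 10488) (nat_lit 6) (nat_lit 138) (nat_lit 5) (nat_lit 92) (nat_lit 208) (nat_lit 210)) (PT.lf (nat_lit 10640) (nat_lit 6) (nat_lit 140) (nat_lit 5) (nat_lit 93) (nat_lit 208) (nat_lit 209)))) (PT.nd (nat_lit 78) (PT.lf (nat_lit 10792) (nat_lit 3) (nat_lit 142) (nat_lit 4) (nat_lit 94) (nat_lit 208) (nat_lit 208)) (PT.nd (nat_lit 78) (PT.lf (nat_lit 10868) (nat_lit 6) (nat_lit 143) (nat_lit 4) (nat_lit 95) (nat_lit 208) (nat_lit 207)) (PT.lf (nat_lit 10944) (nat_lit 6) (nat_lit 144) (nat_lit 4) (nat_lit 96) (nat_lit 208) (nat_lit 206))))) (PT.nd (nat_lit 234) (PT.nd (nat_lit 78) (PT.lf (nat_lit 10944) (nat_lit 6) (nat_lit 144) (nat_lit 2) (nat_lit 206) (nat_lit 208) (nat_lit 96)) (PT.nd (nat_lit 78) (PT.lf (nat_lit 10868) (nat_lit 6) (nat_lit 143) (nat_lit 2) (nat_lit 207) (nat_lit 208) (nat_lit 95)) (PT.lf (nat_lit 10792) (nat_lit 3) (nat_lit 142) (nat_lit 0) (nat_lit 208) (nat_lit 208) (nat_lit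 94)))) (PT.nd (nat_lit 43836) (PT.nd (nat_lit 78) (PT.lf (nat_lit 10640) (nat_lit 6) (nat_lit 140) (nat_lit 0) (nat_lit 209) (nat_lit 208) (nat_lit 93)) (PT.lf (nat_lit 10488) (nat_lit 6) (nat_lit 138) (nat_lit 0) (nat_lit 210) (nat_lit 208) (nat_lit 92))) (PT.nd (nat_lit 78) (PT.lf (nat_lit 10260) (nat_lit 6) (nat_lit 135) (nat_lit 5) (nat_lit 90) (nat_lit 209) (nat_lit 211)) (PT.lf (nat_lit 10412) (nat_lit 6) (nat_lit 137) (nat_lit 5) (nat_lit 91) (nat_lit 209) (nat_lit 210)))))) (PT.nd (nat_lit 9282) (PT.nd (nat_lit 8970) (PT.nd (nat_lit 78) (PT.lf (nat_lit 10564) (nat_lit 3) (nat_lit 139) (nat_lit 4) (nat_lit 92) (nat_lit 209) (nat_lit 209)) (PT.nd (nat_lit 78) (PT.lf (nat_lit 10640) (nat_lit 6) (nat_lit 140) (nat_lit 4) (nat_lit 93) (nat_lit 209) (nat_lit 208)) (PT.lf (nat_lit 10716) (nat_lit 6) (nat_lit 141) (nat_lit 4) (nat_lit 94) (nat_lit 209) (nat_lit 207)))) (PT.nd (nat_lit 156) (PT.nd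 (nat_lit 78) (PT.lf (nat_lit 10716) (nat_lit 6) (nat_lit 141) (nat_lit 2) (nat_lit 207) (nat_lit 209) (nat_lit 94)) (PT.lf (nat_lit 10640) (nat_lit 6) (nat_lit 140) (nat_lit 2) (nat_lit 208) (nat_lit 209) (nat_lit 93))) (PT.nd (nat_lit 78) (PT.lf (nat_lit 10564) (nat_lit 3) (nat_lit 139) (nat_lit 0) (nat_lit 209) (nat_lit 209) (nat_lit 92)) (PT.lf (nat_lit 10412) (nat_lit 6) (nat_lit 137) (nat_lit 0) (nat_lit 210) (nat_lit 209) (nat_lit 91))))) (PT.nd (nat_lit 43680) (PT.nd (nat_lit 43524) (PT.lf (nat_lit 10260) (nat_lit 6) (nat_lit 135) (nat_lit 0) (nat_lit 211) (nat_lit 209) (nat_lit 90)) (PT.nd (nat_lit 78) (PT.lf (nat_lit 10032) (nat_lit 6) (nat_lit 132) (nat_lit 5) (nat_lit 88) (nat_lit 210) (nat_lit 212)) (PT.lf (nat_lit 10184) (nat_lit 6) (nat_lit 134) (nat_lit 5) (nat_lit 89) (nat_lit 210) (nat_lit 211)))) (PT.nd (nat_lit 156) (PT.nd (nat_lit 78) (PT.lf (nat_lit 10336) (nat_lit 3) (nat_lit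 136) (nat_lit 4) (nat_lit 90) (nat_lit 210) (nat_lit 210)) (PT.lf (nat_lit 10412) (nat_lit 6) (nat_lit 137) (nat_lit 4) (nat_lit 91) (nat_lit 210) (nat_lit 209))) (PT.nd (nat_lit 9048) (PT.lf (nat_lit 10488) (nat_lit 6) (nat_lit 138) (nat_lit 4) (nat_lit 92) (nat_lit 210) (nat_lit 208)) (PT.lf (nat_lit 10488) (nat_lit 6) (nat_lit 138) (nat_lit 2) (nat_lit 208) (nat_lit 210) (nat_lit 92))))))))
noncomputable def pc25 : PT := (PT.nd (nat_lit 149682) (PT.nd (nat_lit 53430) (PT.nd (nat_lit 43680) (PT.nd (nat_lit 234) (PT.nd (nat_lit 78) (PT.lf (nat_lit 10412) (nat_lit 6) (nat_lit 137) (nat_lit 2) (nat_lit 209) (nat_lit 210) (nat_lit 91)) (PT.nd (nat_lit 78) (PT.lf (nat_lit 10336) (nat_lit 3) (nat_lit 136) (nat_lit 0) (nat_lit 210) (nat_lit 210) (nat_lit 90)) (PT.lf (nat_lit 10184) (nat_lit 6) (nat_lit 134) (nat_lit 0) (nat_lit 211) (nat_lit 210) (nat_lit 89)))) (PT.nd (nat_lit 43290) (PT.lf (nat_lit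 10032) (nat_lit 6) (nat_lit 132) (nat_lit 0) (nat_lit 212) (nat_lit 210) (nat_lit 88)) (PT.nd (nat_lit 78) (PT.lf (nat_lit 9804) (nat_lit 6) (nat_lit 129) (nat_lit 5) (nat_lit 86) (nat_lit 211) (nat_lit 213)) (PT.lf (nat_lit 9956) (nat_lit 6) (nat_lit 131) (nat_lit 5) (nat_lit 87) (nat_lit 211) (nat_lit 212))))) (PT.nd (nat_lit 9438) (PT.nd (nat_lit 78) (PT.lf (nat_lit 10108) (nat_lit 3) (nat_lit 133) (nat_lit 4) (nat_lit 88) (nat_lit 211) (nat_lit 211)) (PT.nd (nat_lit 78) (PT.lf (nat_lit 10184) (nat_lit 6) (nat_lit 134) (nat_lit 4) (nat_lit 89) (nat_lit 211) (nat_lit 210)) (PT.lf (nat_lit 10260) (nat_lit 6) (nat_lit 135) (nat_lit 4) (nat_lit 90) (nat_lit 211) (nat_lit 209)))) (PT.nd (nat_lit 156) (PT.nd (nat_lit 78) (PT.lf (nat_lit 10260) (nat_lit 6) (nat_lit 135) (nat_lit 2) (nat_lit 209) (nat_lit 211) (nat_lit 90)) (PT.lf (nat_lit 10184) (nat_lit 6) (nat_lit 134) (nat_lit 2) (nat_lit 210) (nat_lit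 211) (nat_lit 89))) (PT.nd (nat_lit 78) (PT.lf (nat_lit 10108) (nat_lit 3) (nat_lit 133) (nat_lit 0) (nat_lit 211) (nat_lit 211) (nat_lit 88)) (PT.lf (nat_lit 9956) (nat_lit 6) (nat_lit 131) (nat_lit 0) (nat_lit 212) (nat_lit 211) (nat_lit 87)))))) (PT.nd (nat_lit 52962) (PT.nd (nat_lit 43212) (PT.nd (nat_lit 43056) (PT.lf (nat_lit 9804) (nat_lit 6) (nat_lit 129) (nat_lit 0) (nat_lit 213) (nat_lit 211) (nat_lit 86)) (PT.nd (nat_lit 78) (PT.lf (nat_lit 9576) (nat_lit 6) (nat_lit 126) (nat_lit 5) (nat_lit 84) (nat_lit 212) (nat_lit 214)) (PT.lf (nat_lit 9728) (nat_lit 6) (nat_lit 128) (nat_lit 5) (nat_lit 85) (nat_lit 212) (nat_lit 213)))) (PT.nd (nat_lit 156) (PT.nd (nat_lit 78) (PT.lf (nat_lit 9880) (nat_lit 3) (nat_lit 130) (nat_lit 4) (nat_lit 86) (nat_lit 212) (nat_lit 212)) (PT.lf (nat_lit 9956) (nat_lit 6) (nat_lit 131) (nat_lit 4) (nat_lit 87) (nat_lit 212) (nat_lit 211))) (PT.nd (nat_lit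 9516) (PT.lf (nat_lit 10032) (nat_lit 6) (nat_lit 132) (nat_lit 4) (nat_lit 88) (nat_lit 212) (nat_lit 210)) (PT.lf (nat_lit 10032) (nat_lit 6) (nat_lit 132) (nat_lit 2) (nat_lit 210) (nat_lit 212) (nat_lit 88))))) (PT.nd (nat_lit 234) (PT.nd (nat_lit 78) (PT.lf (nat_lit 9956) (nat_lit 6) (nat_lit 131) (nat_lit 2) (nat_lit 211) (nat_lit 212) (nat_lit 87)) (PT.nd (nat_lit 78) (PT.lf (nat_lit 9880) (nat_lit 3) (nat_lit 130) (nat_lit 0) (nat_lit 212) (nat_lit 212) (nat_lit 86)) (PT.lf (nat_lit 9728) (nat_lit 6) (nat_lit 128) (nat_lit 0) (nat_lit 213) (nat_lit 212) (nat_lit 85)))) (PT.nd (nat_lit 42900) (PT.nd (nat_lit 42822) (PT.lf (nat_lit 9576) (nat_lit 6) (nat_lit 126) (nat_lit 0) (nat_lit 214) (nat_lit 212) (nat_lit 84)) (PT.lf (nat_lit 9348) (nat_lit 6) (nat_lit 123) (nat_lit 5) (nat_lit 82) (nat_lit 213) (nat_lit 215))) (PT.nd (nat_lit 78) (PT.lf (nat_lit 9500) (nat_lit 6) (nat_lit 125) (nat_lit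 5) (nat_lit 83) (nat_lit 213) (nat_lit 214)) (PT.lf (nat_lit 9652) (nat_lit 3) (nat_lit 127) (nat_lit 4) (nat_lit 84) (nat_lit 213) (nat_lit 213))))))) (PT.nd (nat_lit 63102) (PT.nd (nat_lit 10140) (PT.nd (nat_lit 9906) (PT.nd (nat_lit 78) (PT.lf (nat_lit 9728) (nat_lit 6) (nat_lit 128) (nat_lit 4) (nat_lit 85) (nat_lit 213) (nat_lit 212)) (PT.nd (nat_lit 9750) (PT.lf (nat_lit 9804) (nat_lit 6) (nat_lit 129) (nat_lit 4) (nat_lit 86) (nat_lit 213) (nat_lit 211)) (PT.lf (nat_lit 9804) (nat_lit 6) (nat_lit 129) (nat_lit 2) (nat_lit 211) (nat_lit 213) (nat_lit 86)))) (PT.nd (nat_lit 78) (PT.lf (nat_lit 9728) (nat_lit 6) (nat_lit 128) (nat_lit 2) (nat_lit 212) (nat_lit 213) (nat_lit 85)) (PT.nd (nat_lit 78) (PT.lf (nat_lit 9652) (nat_lit 3) (nat_lit 127) (nat_lit 0) (nat_lit 213) (nat_lit 213) (nat_lit 84)) (PT.lf (nat_lit 9500) (nat_lit 6) (nat_lit 125) (nat_lit 0) (nat_lit 214) (nat_lit 213) (nat_lit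 83))))) (PT.nd (nat_lit 42744) (PT.nd (nat_lit 42588) (PT.lf (nat_lit 9348) (nat_lit 6) (nat_lit 123) (nat_lit 0) (nat_lit 215) (nat_lit 213) (nat_lit 82)) (PT.nd (nat_lit 78) (PT.lf (nat_lit 9120) (nat_lit 6) (nat_lit 120) (nat_lit 5) (nat_lit 80) (nat_lit 214) (nat_lit 216)) (PT.lf (nat_lit 9272) (nat_lit 6) (nat_lit 122) (nat_lit 5) (nat_lit 81) (nat_lit 214) (nat_lit 215)))) (PT.nd (nat_lit 156) (PT.nd (nat_lit 78) (PT.lf (nat_lit 9424) (nat_lit 3) (nat_lit 124) (nat_lit 4) (nat_lit 82) (nat_lit 214) (nat_lit 214)) (PT.lf (nat_lit 9500) (nat_lit 6) (nat_lit 125) (nat_lit 4) (nat_lit 83) (nat_lit 214) (nat_lit 213))) (PT.nd (nat_lit 9984) (PT.lf (nat_lit 9576) (nat_lit 6) (nat_lit 126) (nat_lit 4) (nat_lit 84) (nat_lit 214) (nat_lit 212)) (PT.lf (nat_lit 9576) (nat_lit 6) (nat_lit 126) (nat_lit 2) (nat_lit 212) (nat_lit 214) (nat_lit 84)))))) (PT.nd (nat_lit 42822) (PT.nd (nat_lit 234) (PT.nd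 (nat_lit 78) (PT.lf (nat_lit 9500) (nat_lit 6) (nat_lit 125) (nat_lit 2) (nat_lit 213) (nat_lit 214) (nat_lit 83)) (PT.nd (nat_lit 78) (PT.lf (nat_lit 9424) (nat_lit 3) (nat_lit 124) (nat_lit 0) (nat_lit 214) (nat_lit 214) (nat_lit 82)) (PT.lf (nat_lit 9272) (nat_lit 6) (nat_lit 122) (nat_lit 0) (nat_lit 215) (nat_lit 214) (nat_lit 81)))) (PT.nd (nat_lit 42432) (PT.nd (nat_lit 42354) (PT.lf (nat_lit 9120) (nat_lit 6) (nat_lit 120) (nat_lit 0) (nat_lit 216) (nat_lit 214) (nat_lit 80)) (PT.lf (nat_lit 8892) (nat_lit 6) (nat_lit 117) (nat_lit 5) (nat_lit 78) (nat_lit 215) (nat_lit 217))) (PT.nd (nat_lit 78) (PT.lf (nat_lit 9044) (nat_lit 6) (nat_lit 119) (nat_lit 5) (nat_lit 79) (nat_lit 215) (nat_lit 216)) (PT.lf (nat_lit 9196) (nat_lit 3) (nat_lit 121) (nat_lit 4) (nat_lit 80) (nat_lit 215) (nat_lit 215))))) (PT.nd (nat_lit 10374) (PT.nd (nat_lit 78) (PT.lf (nat_lit 9272) (nat_lit 6) (nat_lit 122)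 (nat_lit 4) (nat_lit 81) (nat_lit 215) (nat_lit 214)) (PT.nd (nat_lit 10218) (PT.lf (nat_lit 9348) (nat_lit 6) (nat_lit 123) (nat_lit 4) (nat_lit 82) (nat_lit 215) (nat_lit 213)) (PT.lf (nat_lit 9348) (nat_lit 6) (nat_lit 123) (nat_lit 2) (nat_lit 213) (nat_lit 215) (nat_lit 82)))) (PT.nd (nat_lit 156) (PT.nd (nat_lit 78) (PT.lf (nat_lit 9272) (nat_lit 6) (nat_lit 122) (nat_lit 2) (nat_lit 214) (nat_lit 215) (nat_lit 81)) (PT.lf (nat_lit 9196) (nat_lit 3) (nat_lit 121) (nat_lit 0) (nat_lit 215) (nat_lit 215) (nat_lit 80))) (PT.nd (nat_lit 78) (PT.lf (nat_lit 9044) (nat_lit 6) (nat_lit 119) (nat_lit 0) (nat_lit 216) (nat_lit 215) (nat_lit 79)) (PT.lf (nat_lit 8892) (nat_lit 6) (nat_lit 117) (nat_lit 0) (nat_lit 217) (nat_lit 215) (nat_lit 78))))))))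
noncomputable def pc26 : PT := (PT.nd (nat_lit 117312) (PT.nd (nat_lit 53196) (PT.nd (nat_lit 10842) (PT.nd (nat_lit 234) (PT.nd (nat_lit 78) (PT.lf (nat_lit 8664) (nat_lit 6) (nat_lit 114) (nat_lit 5) (nat_lit 76) (nat_lit 216) (nat_lit 218)) (PT.nd (nat_lit 78) (PT.lf (nat_lit 8816) (nat_lit 6) (nat_lit 116) (nat_lit 5) (nat_lit 77) (nat_lit 216) (nat_lit 217)) (PT.lf (nat_lit 8968) (nat_lit 3) (nat_lit 118) (nat_lit 4) (nat_lit 78) (nat_lit 216) (nat_lit 216)))) (PT.nd (nat_lit 78) (PT.lf (nat_lit 9044) (nat_lit 6) (nat_lit 119) (nat_lit 4) (nat_lit 79) (nat_lit 216) (nat_lit 215)) (PT.nd (nat_lit 10452) (PT.lf (nat_lit 9120) (nat_lit 6) (nat_lit 120) (nat_lit 4) (nat_lit 80) (nat_lit 216) (nat_lit 214)) (PT.lf (nat_lit 9120) (nat_lit 6) (nat_lit 120) (nat_lit 2) (nat_lit 214) (nat_lit 216) (nat_lit 80))))) (PT.nd (nat_lit 234) (PT.nd (nat_lit 78) (PT.lf (nat_lit 9044) (nat_lit 6) (nat_lit 119)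 (nat_lit 2) (nat_lit 215) (nat_lit 216) (nat_lit 79)) (PT.nd (nat_lit 78) (PT.lf (nat_lit 8968) (nat_lit 3) (nat_lit 118) (nat_lit 0) (nat_lit 216) (nat_lit 216) (nat_lit 78)) (PT.lf (nat_lit 8816) (nat_lit 6) (nat_lit 116) (nat_lit 0) (nat_lit 217) (nat_lit 216) (nat_lit 77)))) (PT.nd (nat_lit 41964) (PT.nd (nat_lit 41886) (PT.lf (nat_lit 8664) (nat_lit 6) (nat_lit 114) (nat_lit 0) (nat_lit 218) (nat_lit 216) (nat_lit 76)) (PT.lf (nat_lit 8436) (nat_lit 6) (nat_lit 111) (nat_lit 5) (nat_lit 74) (nat_lit 217) (nat_lit 219))) (PT.nd (nat_lit 78) (PT.lf (nat_lit 8588) (nat_lit 6) (nat_lit 113) (nat_lit 5) (nat_lit 75) (nat_lit 217) (nat_lit 218)) (PT.lf (nat_lit 8740) (nat_lit 3) (nat_lit 115) (nat_lit 4) (nat_lit 76) (nat_lit 217) (nat_lit 217)))))) (PT.nd (nat_lit 52728) (PT.nd (nat_lit 10842) (PT.nd (nat_lit 78) (PT.lf (nat_lit 8816) (nat_lit 6) (nat_lit 116) (nat_lit 4) (nat_lit 77) (nat_lit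 217) (nat_lit 216)) (PT.nd (nat_lit 10686) (PT.lf (nat_lit 8892) (nat_lit 6) (nat_lit 117) (nat_lit 4) (nat_lit 78) (nat_lit 217) (nat_lit 215)) (PT.lf (nat_lit 8892) (nat_lit 6) (nat_lit 117) (nat_lit 2) (nat_lit 215) (nat_lit 217) (nat_lit 78)))) (PT.nd (nat_lit 156) (PT.nd (nat_lit 78) (PT.lf (nat_lit 8816) (nat_lit 6) (nat_lit 116) (nat_lit 2) (nat_lit 216) (nat_lit 217) (nat_lit 77)) (PT.lf (nat_lit 8740) (nat_lit 3) (nat_lit 115) (nat_lit 0) (nat_lit 217) (nat_lit 217) (nat_lit 76))) (PT.nd (nat_lit 78) (PT.lf (nat_lit 8588) (nat_lit 6) (nat_lit 113) (nat_lit 0) (nat_lit 218) (nat_lit 217) (nat_lit 75)) (PT.lf (nat_lit 8436) (nat_lit 6) (nat_lit 111) (nat_lit 0) (nat_lit 219) (nat_lit 217) (nat_lit 74))))) (PT.nd (nat_lit 234) (PT.nd (nat_lit 78) (PT.lf (nat_lit 8208) (nat_lit 6) (nat_lit 108) (nat_lit 5) (nat_lit 72) (nat_lit 218) (nat_lit 220)) (PT.nd (nat_lit 78) (PT.lf (nat_lit 8360)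 (nat_lit 6) (nat_lit 110) (nat_lit 5) (nat_lit 73) (nat_lit 218) (nat_lit 219)) (PT.lf (nat_lit 8512) (nat_lit 3) (nat_lit 112) (nat_lit 4) (nat_lit 74) (nat_lit 218) (nat_lit 218)))) (PT.nd (nat_lit 10998) (PT.nd (nat_lit 78) (PT.lf (nat_lit 8588) (nat_lit 6) (nat_lit 113) (nat_lit 4) (nat_lit 75) (nat_lit 218) (nat_lit 217)) (PT.lf (nat_lit 8664) (nat_lit 6) (nat_lit 114) (nat_lit 4) (nat_lit 76) (nat_lit 218) (nat_lit 216))) (PT.nd (nat_lit 78) (PT.lf (nat_lit 8664) (nat_lit 6) (nat_lit 114) (nat_lit 2) (nat_lit 216) (nat_lit 218) (nat_lit 76)) (PT.lf (nat_lit 8588) (nat_lit 6) (nat_lit 113) (nat_lit 2) (nat_lit 217) (nat_lit 218) (nat_lit 75))))))) (PT.nd (nat_lit 94536) (PT.nd (nat_lit 41808) (PT.nd (nat_lit 41574) (PT.nd (nat_lit 78) (PT.lf (nat_lit 8512) (nat_lit 3) (nat_lit 112) (nat_lit 0) (nat_lit 218) (nat_lit 218) (nat_lit 74)) (PT.nd (nat_lit 78) (PT.lf (nat_lit 8360) (nat_lit 6) (nat_lit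 110) (nat_lit 0) (nat_lit 219) (nat_lit 218) (nat_lit 73)) (PT.lf (nat_lit 8208) (nat_lit 6) (nat_lit 108) (nat_lit 0) (nat_lit 220) (nat_lit 218) (nat_lit 72)))) (PT.nd (nat_lit 78) (PT.lf (nat_lit 7980) (nat_lit 6) (nat_lit 105) (nat_lit 5) (nat_lit 70) (nat_lit 219) (nat_lit 221)) (PT.nd (nat_lit 78) (PT.lf (nat_lit 8132) (nat_lit 6) (nat_lit 107) (nat_lit 5) (nat_lit 71) (nat_lit 219) (nat_lit 220)) (PT.lf (nat_lit 8284) (nat_lit 3) (nat_lit 109) (nat_lit 4) (nat_lit 72) (nat_lit 219) (nat_lit 219))))) (PT.nd (nat_lit 11310) (PT.nd (nat_lit 78) (PT.lf (nat_lit 8360) (nat_lit 6) (nat_lit 110) (nat_lit 4) (nat_lit 73) (nat_lit 219) (nat_lit 218)) (PT.nd (nat_lit 11154) (PT.lf (nat_lit 8436) (nat_lit 6) (nat_lit 111) (nat_lit 4) (nat_lit 74) (nat_lit 219) (nat_lit 217)) (PT.lf (nat_lit 8436) (nat_lit 6) (nat_lit 111) (nat_lit 2) (nat_lit 217) (nat_lit 219) (nat_lit 74)))) (PT.nd (nat_lit 156)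 (PT.nd (nat_lit 78) (PT.lf (nat_lit 8360) (nat_lit 6) (nat_lit 110) (nat_lit 2) (nat_lit 218) (nat_lit 219) (nat_lit 73)) (PT.lf (nat_lit 8284) (nat_lit 3) (nat_lit 109) (nat_lit 0) (nat_lit 219) (nat_lit 219) (nat_lit 72))) (PT.nd (nat_lit 78) (PT.lf (nat_lit 8132) (nat_lit 6) (nat_lit 107) (nat_lit 0) (nat_lit 220) (nat_lit 219) (nat_lit 71)) (PT.lf (nat_lit 7980) (nat_lit 6) (nat_lit 105) (nat_lit 0) (nat_lit 221) (nat_lit 219) (nat_lit 70)))))) (PT.nd (nat_lit 11856) (PT.nd (nat_lit 234) (PT.nd (nat_lit 78) (PT.lf (nat_lit 7752) (nat_lit 6) (nat_lit 102) (nat_lit 5) (nat_lit 68) (nat_lit 220) (nat_lit 222)) (PT.nd (nat_lit 78) (PT.lf (nat_lit 7904) (nat_lit 6) (nat_lit 104) (nat_lit 5) (nat_lit 69) (nat_lit 220) (nat_lit 221)) (PT.lf (nat_lit 8056) (nat_lit 3) (nat_lit 106) (nat_lit 4) (nat_lit 70) (nat_lit 220) (nat_lit 220)))) (PT.nd (nat_lit 11466) (PT.nd (nat_lit 78) (PT.lf (nat_lit 8132)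 (nat_lit 6) (nat_lit 107) (nat_lit 4) (nat_lit 71) (nat_lit 220) (nat_lit 219)) (PT.lf (nat_lit 8208) (nat_lit 6) (nat_lit 108) (nat_lit 4) (nat_lit 72) (nat_lit 220) (nat_lit 218))) (PT.nd (nat_lit 78) (PT.lf (nat_lit 8208) (nat_lit 6) (nat_lit 108) (nat_lit 2) (nat_lit 218) (nat_lit 220) (nat_lit 72)) (PT.lf (nat_lit 8132) (nat_lit 6) (nat_lit 107) (nat_lit 2) (nat_lit 219) (nat_lit 220) (nat_lit 71))))) (PT.nd (nat_lit 41106) (PT.nd (nat_lit 78) (PT.lf (nat_lit 8056) (nat_lit 3) (nat_lit 106) (nat_lit 0) (nat_lit 220) (nat_lit 220) (nat_lit 70)) (PT.nd (nat_lit 78) (PT.lf (nat_lit 7904) (nat_lit 6) (nat_lit 104) (nat_lit 0) (nat_lit 221) (nat_lit 220) (nat_lit 69)) (PT.lf (nat_lit 7752) (nat_lit 6) (nat_lit 102) (nat_lit 0) (nat_lit 222) (nat_lit 220) (nat_lit 68)))) (PT.nd (nat_lit 156) (PT.nd (nat_lit 78) (PT.lf (nat_lit 7524) (nat_lit 6) (nat_lit 99) (nat_lit 5) (nat_lit 66) (nat_lit 221)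 (nat_lit 223)) (PT.lf (nat_lit 7676) (nat_lit 6) (nat_lit 101) (nat_lit 5) (nat_lit 67) (nat_lit 221) (nat_lit 222))) (PT.nd (nat_lit 78) (PT.lf (nat_lit 7828) (nat_lit 3) (nat_lit 103) (nat_lit 4) (nat_lit 68) (nat_lit 221) (nat_lit 221)) (PT.lf (nat_lit 7904) (nat_lit 6) (nat_lit 104) (nat_lit 4) (nat_lit 69) (nat_lit 221) (nat_lit 220))))))))
noncomputable def pc27 : PT := (PT.nd (nat_lit 158652) (PT.nd (nat_lit 64974) (PT.nd (nat_lit 52650) (PT.nd (nat_lit 11778) (PT.nd (nat_lit 11622) (PT.lf (nat_lit 7980) (nat_lit 6) (nat_lit 105) (nat_lit 4) (nat_lit 70) (nat_lit 221) (nat_lit 219)) (PT.nd (nat_lit 78) (PT.lf (nat_lit 7980) (nat_lit 6) (nat_lit 105) (nat_lit 2) (nat_lit 219) (nat_lit 221) (nat_lit 70)) (PT.lf (nat_lit 7904) (nat_lit 6) (nat_lit 104) (nat_lit 2) (nat_lit 220) (nat_lit 221) (nat_lit 69)))) (PT.nd (nat_lit 78) (PT.lf (nat_lit 7828) (nat_lit 3) (nat_lit 103) (nat_lit 0) (nat_lit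 221) (nat_lit 221) (nat_lit 68)) (PT.nd (nat_lit 78) (PT.lf (nat_lit 7676) (nat_lit 6) (nat_lit 101) (nat_lit 0) (nat_lit 222) (nat_lit 221) (nat_lit 67)) (PT.lf (nat_lit 7524) (nat_lit 6) (nat_lit 99) (nat_lit 0) (nat_lit 223) (nat_lit 221) (nat_lit 66))))) (PT.nd (nat_lit 234) (PT.nd (nat_lit 78) (PT.lf (nat_lit 7296) (nat_lit 6) (nat_lit 96) (nat_lit 5) (nat_lit 64) (nat_lit 222) (nat_lit 224)) (PT.nd (nat_lit 78) (PT.lf (nat_lit 7448) (nat_lit 6) (nat_lit 98) (nat_lit 5) (nat_lit 65) (nat_lit 222) (nat_lit 223)) (PT.lf (nat_lit 7600) (nat_lit 3) (nat_lit 100) (nat_lit 4) (nat_lit 66) (nat_lit 222) (nat_lit 222)))) (PT.nd (nat_lit 11934) (PT.nd (nat_lit 78) (PT.lf (nat_lit 7676) (nat_lit 6) (nat_lit 101) (nat_lit 4) (nat_lit 67) (nat_lit 222) (nat_lit 221)) (PT.lf (nat_lit 7752) (nat_lit 6) (nat_lit 102) (nat_lit 4) (nat_lit 68) (nat_lit 222) (nat_lit 220))) (PT.nd (nat_lit 78) (PT.lf (nat_lit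 7752) (nat_lit 6) (nat_lit 102) (nat_lit 2) (nat_lit 220) (nat_lit 222) (nat_lit 68)) (PT.lf (nat_lit 7676) (nat_lit 6) (nat_lit 101) (nat_lit 2) (nat_lit 221) (nat_lit 222) (nat_lit 67)))))) (PT.nd (nat_lit 40950) (PT.nd (nat_lit 40638) (PT.nd (nat_lit 78) (PT.lf (nat_lit 7600) (nat_lit 3) (nat_lit 100) (nat_lit 0) (nat_lit 222) (nat_lit 222) (nat_lit 66)) (PT.nd (nat_lit 78) (PT.lf (nat_lit 7448) (nat_lit 6) (nat_lit 98) (nat_lit 0) (nat_lit 223) (nat_lit 222) (nat_lit 65)) (PT.lf (nat_lit 7296) (nat_lit 6) (nat_lit 96) (nat_lit 0) (nat_lit 224) (nat_lit 222) (nat_lit 64)))) (PT.nd (nat_lit 156) (PT.nd (nat_lit 78) (PT.lf (nat_lit 7068) (nat_lit 6) (nat_lit 93) (nat_lit 5) (nat_lit 62) (nat_lit 223) (nat_lit 225)) (PT.lf (nat_lit 7220) (nat_lit 6) (nat_lit 95) (nat_lit 5) (nat_lit 63) (nat_lit 223) (nat_lit 224))) (PT.nd (nat_lit 78) (PT.lf (nat_lit 7372) (nat_lit 3) (nat_lit 97) (nat_lit 4)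 (nat_lit 64) (nat_lit 223) (nat_lit 223)) (PT.lf (nat_lit 7448) (nat_lit 6) (nat_lit 98) (nat_lit 4) (nat_lit 65) (nat_lit 223) (nat_lit 222))))) (PT.nd (nat_lit 12246) (PT.nd (nat_lit 12090) (PT.lf (nat_lit 7524) (nat_lit 6) (nat_lit 99) (nat_lit 4) (nat_lit 66) (nat_lit 223) (nat_lit 221)) (PT.nd (nat_lit 78) (PT.lf (nat_lit 7524) (nat_lit 6) (nat_lit 99) (nat_lit 2) (nat_lit 221) (nat_lit 223) (nat_lit 66)) (PT.lf (nat_lit 7448) (nat_lit 6) (nat_lit 98) (nat_lit 2) (nat_lit 222) (nat_lit 223) (nat_lit 65)))) (PT.nd (nat_lit 156) (PT.nd (nat_lit 78) (PT.lf (nat_lit 7372) (nat_lit 3) (nat_lit 97) (nat_lit 0) (nat_lit 223) (nat_lit 223) (nat_lit 64)) (PT.lf (nat_lit 7220) (nat_lit 6) (nat_lit 95) (nat_lit 0) (nat_lit 224) (nat_lit 223) (nat_lit 63))) (PT.nd (nat_lit 40248) (PT.lf (nat_lit 7068) (nat_lit 6) (nat_lit 93) (nat_lit 0) (nat_lit 225) (nat_lit 223) (nat_lit 62)) (PT.lf (nat_lit 6840)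 (nat_lit 6) (nat_lit 90) (nat_lit 5) (nat_lit 60) (nat_lit 224) (nat_lit 226))))))) (PT.nd (nat_lit 65754) (PT.nd (nat_lit 12792) (PT.nd (nat_lit 234) (PT.nd (nat_lit 78) (PT.lf (nat_lit 6992) (nat_lit 6) (nat_lit 92) (nat_lit 5) (nat_lit 61) (nat_lit 224) (nat_lit 225)) (PT.nd (nat_lit 78) (PT.lf (nat_lit 7144) (nat_lit 3) (nat_lit 94) (nat_lit 4) (nat_lit 62) (nat_lit 224) (nat_lit 224)) (PT.lf (nat_lit 7220) (nat_lit 6) (nat_lit 95) (nat_lit 4) (nat_lit 63) (nat_lit 224) (nat_lit 223)))) (PT.nd (nat_lit 12402) (PT.nd (nat_lit 12324) (PT.lf (nat_lit 7296) (nat_lit 6) (nat_lit 96) (nat_lit 4) (nat_lit 64) (nat_lit 224) (nat_lit 222)) (PT.lf (nat_lit 7296) (nat_lit 6) (nat_lit 96) (nat_lit 2) (nat_lit 222) (nat_lit 224) (nat_lit 64))) (PT.nd (nat_lit 78) (PT.lf (nat_lit 7220) (nat_lit 6) (nat_lit 95) (nat_lit 2) (nat_lit 223) (nat_lit 224) (nat_lit 63)) (PT.lf (nat_lit 7144) (nat_lit 3) (nat_lit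 94) (nat_lit 0) (nat_lit 224) (nat_lit 224) (nat_lit 62))))) (PT.nd (nat_lit 40170) (PT.nd (nat_lit 78) (PT.lf (nat_lit 6992) (nat_lit 6) (nat_lit 92) (nat_lit 0) (nat_lit 225) (nat_lit 224) (nat_lit 61)) (PT.nd (nat_lit 40014) (PT.lf (nat_lit 6840) (nat_lit 6) (nat_lit 90) (nat_lit 0) (nat_lit 226) (nat_lit 224) (nat_lit 60)) (PT.lf (nat_lit 6612) (nat_lit 6) (nat_lit 87) (nat_lit 5) (nat_lit 58) (nat_lit 225) (nat_lit 227)))) (PT.nd (nat_lit 156) (PT.nd (nat_lit 78) (PT.lf (nat_lit 6764) (nat_lit 6) (nat_lit 89) (nat_lit 5) (nat_lit 59) (nat_lit 225) (nat_lit 226)) (PT.lf (nat_lit 6916) (nat_lit 3) (nat_lit 91) (nat_lit 4) (nat_lit 60) (nat_lit 225) (nat_lit 225))) (PT.nd (nat_lit 78) (PT.lf (nat_lit 6992) (nat_lit 6) (nat_lit 92) (nat_lit 4) (nat_lit 61) (nat_lit 225) (nat_lit 224)) (PT.lf (nat_lit 7068) (nat_lit 6) (nat_lit 93) (nat_lit 4) (nat_lit 62) (nat_lit 225) (nat_lit 223)))))) (PT.nd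 (nat_lit 40248) (PT.nd (nat_lit 234) (PT.nd (nat_lit 78) (PT.lf (nat_lit 7068) (nat_lit 6) (nat_lit 93) (nat_lit 2) (nat_lit 223) (nat_lit 225) (nat_lit 62)) (PT.nd (nat_lit 78) (PT.lf (nat_lit 6992) (nat_lit 6) (nat_lit 92) (nat_lit 2) (nat_lit 224) (nat_lit 225) (nat_lit 61)) (PT.lf (nat_lit 6916) (nat_lit 3) (nat_lit 91) (nat_lit 0) (nat_lit 225) (nat_lit 225) (nat_lit 60)))) (PT.nd (nat_lit 39858) (PT.nd (nat_lit 78) (PT.lf (nat_lit 6764) (nat_lit 6) (nat_lit 89) (nat_lit 0) (nat_lit 226) (nat_lit 225) (nat_lit 59)) (PT.lf (nat_lit 6612) (nat_lit 6) (nat_lit 87) (nat_lit 0) (nat_lit 227) (nat_lit 225) (nat_lit 58))) (PT.nd (nat_lit 78) (PT.lf (nat_lit 6384) (nat_lit 6) (nat_lit 84) (nat_lit 5) (nat_lit 56) (nat_lit 226) (nat_lit 228)) (PT.lf (nat_lit 6536) (nat_lit 6) (nat_lit 86) (nat_lit 5) (nat_lit 57) (nat_lit 226) (nat_lit 227))))) (PT.nd (nat_lit 12948) (PT.nd (nat_lit 78) (PT.lf (nat_lit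 6688) (nat_lit 3) (nat_lit 88) (nat_lit 4) (nat_lit 58) (nat_lit 226) (nat_lit 226)) (PT.nd (nat_lit 78) (PT.lf (nat_lit 6764) (nat_lit 6) (nat_lit 89) (nat_lit 4) (nat_lit 59) (nat_lit 226) (nat_lit 225)) (PT.lf (nat_lit 6840) (nat_lit 6) (nat_lit 90) (nat_lit 4) (nat_lit 60) (nat_lit 226) (nat_lit 224)))) (PT.nd (nat_lit 156) (PT.nd (nat_lit 78) (PT.lf (nat_lit 6840) (nat_lit 6) (nat_lit 90) (nat_lit 2) (nat_lit 224) (nat_lit 226) (nat_lit 60)) (PT.lf (nat_lit 6764) (nat_lit 6) (nat_lit 89) (nat_lit 2) (nat_lit 225) (nat_lit 226) (nat_lit 59))) (PT.nd (nat_lit 78) (PT.lf (nat_lit 6688) (nat_lit 3) (nat_lit 88) (nat_lit 0) (nat_lit 226) (nat_lit 226) (nat_lit 58)) (PT.lf (nat_lit 6536) (nat_lit 6) (nat_lit 86) (nat_lit 0) (nat_lit 227) (nat_lit 226) (nat_lit 57))))))))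
noncomputable def pc28 : PT := (PT.nd (nat_lit 159354) (PT.nd (nat_lit 92664) (PT.nd (nat_lit 52884) (PT.nd (nat_lit 39702) (PT.nd (nat_lit 39546) (PT.lf (nat_lit 6384) (nat_lit 6) (nat_lit 84) (nat_lit 0) (nat_lit 228) (nat_lit 226) (nat_lit 56)) (PT.nd (nat_lit 78) (PT.lf (nat_lit 6156) (nat_lit 6) (nat_lit 81) (nat_lit 5) (nat_lit 54) (nat_lit 227) (nat_lit 229)) (PT.lf (nat_lit 6308) (nat_lit 6) (nat_lit 83) (nat_lit 5) (nat_lit 55) (nat_lit 227) (nat_lit 228)))) (PT.nd (nat_lit 78) (PT.lf (nat_lit 6460) (nat_lit 3) (nat_lit 85) (nat_lit 4) (nat_lit 56) (nat_lit 227) (nat_lit 227)) (PT.nd (nat_lit 78) (PT.lf (nat_lit 6536) (nat_lit 6) (nat_lit 86) (nat_lit 4) (nat_lit 57) (nat_lit 227) (nat_lit 226)) (PT.lf (nat_lit 6612) (nat_lit 6) (nat_lit 87) (nat_lit 4) (nat_lit 58) (nat_lit 227) (nat_lit 225))))) (PT.nd (nat_lit 234) (PT.nd (nat_lit 78) (PT.lf (nat_lit 6612) (nat_lit 6) (nat_lit 87) (nat_lit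 2) (nat_lit 225) (nat_lit 227) (nat_lit 58)) (PT.nd (nat_lit 78) (PT.lf (nat_lit 6536) (nat_lit 6) (nat_lit 86) (nat_lit 2) (nat_lit 226) (nat_lit 227) (nat_lit 57)) (PT.lf (nat_lit 6460) (nat_lit 3) (nat_lit 85) (nat_lit 0) (nat_lit 227) (nat_lit 227) (nat_lit 56)))) (PT.nd (nat_lit 39390) (PT.nd (nat_lit 78) (PT.lf (nat_lit 6308) (nat_lit 6) (nat_lit 83) (nat_lit 0) (nat_lit 228) (nat_lit 227) (nat_lit 55)) (PT.lf (nat_lit 6156) (nat_lit 6) (nat_lit 81) (nat_lit 0) (nat_lit 229) (nat_lit 227) (nat_lit 54))) (PT.nd (nat_lit 78) (PT.lf (nat_lit 5928) (nat_lit 6) (nat_lit 78) (nat_lit 5) (nat_lit 52) (nat_lit 228) (nat_lit 230)) (PT.lf (nat_lit 6080) (nat_lit 6) (nat_lit 80) (nat_lit 5) (nat_lit 53) (nat_lit 228) (nat_lit 229)))))) (PT.nd (nat_lit 13728) (PT.nd (nat_lit 13416) (PT.nd (nat_lit 78) (PT.lf (nat_lit 6232) (nat_lit 3) (nat_lit 82) (nat_lit 4) (nat_lit 54) (nat_lit 228) (nat_lit 228))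 (PT.nd (nat_lit 78) (PT.lf (nat_lit 6308) (nat_lit 6) (nat_lit 83) (nat_lit 4) (nat_lit 55) (nat_lit 228) (nat_lit 227)) (PT.lf (nat_lit 6384) (nat_lit 6) (nat_lit 84) (nat_lit 4) (nat_lit 56) (nat_lit 228) (nat_lit 226)))) (PT.nd (nat_lit 156) (PT.nd (nat_lit 78) (PT.lf (nat_lit 6384) (nat_lit 6) (nat_lit 84) (nat_lit 2) (nat_lit 226) (nat_lit 228) (nat_lit 56)) (PT.lf (nat_lit 6308) (nat_lit 6) (nat_lit 83) (nat_lit 2) (nat_lit 227) (nat_lit 228) (nat_lit 55))) (PT.nd (nat_lit 78) (PT.lf (nat_lit 6232) (nat_lit 3) (nat_lit 82) (nat_lit 0) (nat_lit 228) (nat_lit 228) (nat_lit 54)) (PT.lf (nat_lit 6080) (nat_lit 6) (nat_lit 80) (nat_lit 0) (nat_lit 229) (nat_lit 228) (nat_lit 53))))) (PT.nd (nat_lit 39234) (PT.nd (nat_lit 39078) (PT.lf (nat_lit 5928) (nat_lit 6) (nat_lit 78) (nat_lit 0) (nat_lit 230) (nat_lit 228) (nat_lit 52)) (PT.nd (nat_lit 78) (PT.lf (nat_lit 5700) (nat_lit 6) (nat_lit 75)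 (nat_lit 5) (nat_lit 50) (nat_lit 229) (nat_lit 231)) (PT.lf (nat_lit 5852) (nat_lit 6) (nat_lit 77) (nat_lit 5) (nat_lit 51) (nat_lit 229) (nat_lit 230)))) (PT.nd (nat_lit 156) (PT.nd (nat_lit 78) (PT.lf (nat_lit 6004) (nat_lit 3) (nat_lit 79) (nat_lit 4) (nat_lit 52) (nat_lit 229) (nat_lit 229)) (PT.lf (nat_lit 6080) (nat_lit 6) (nat_lit 80) (nat_lit 4) (nat_lit 53) (nat_lit 229) (nat_lit 228))) (PT.nd (nat_lit 13494) (PT.lf (nat_lit 6156) (nat_lit 6) (nat_lit 81) (nat_lit 4) (nat_lit 54) (nat_lit 229) (nat_lit 227)) (PT.lf (nat_lit 6156) (nat_lit 6) (nat_lit 81) (nat_lit 2) (nat_lit 227) (nat_lit 229) (nat_lit 54))))))) (PT.nd (nat_lit 53430) (PT.nd (nat_lit 39234) (PT.nd (nat_lit 234) (PT.nd (nat_lit 78) (PT.lf (nat_lit 6080) (nat_lit 6) (nat_lit 80) (nat_lit 2) (nat_lit 228) (nat_lit 229) (nat_lit 53)) (PT.nd (nat_lit 78) (PT.lf (nat_lit 6004) (nat_lit 3) (nat_lit 79) (nat_lit 0) (nat_lit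 229) (nat_lit 229) (nat_lit 52)) (PT.lf (nat_lit 5852) (nat_lit 6) (nat_lit 77) (nat_lit 0) (nat_lit 230) (nat_lit 229) (nat_lit 51)))) (PT.nd (nat_lit 38844) (PT.lf (nat_lit 5700) (nat_lit 6) (nat_lit 75) (nat_lit 0) (nat_lit 231) (nat_lit 229) (nat_lit 50)) (PT.nd (nat_lit 78) (PT.lf (nat_lit 5472) (nat_lit 6) (nat_lit 72) (nat_lit 5) (nat_lit 48) (nat_lit 230) (nat_lit 232)) (PT.lf (nat_lit 5624) (nat_lit 6) (nat_lit 74) (nat_lit 5) (nat_lit 49) (nat_lit 230) (nat_lit 231))))) (PT.nd (nat_lit 13884) (PT.nd (nat_lit 78) (PT.lf (nat_lit 5776) (nat_lit 3) (nat_lit 76) (nat_lit 4) (nat_lit 50) (nat_lit 230) (nat_lit 230)) (PT.nd (nat_lit 78) (PT.lf (nat_lit 5852) (nat_lit 6) (nat_lit 77) (nat_lit 4) (nat_lit 51) (nat_lit 230) (nat_lit 229)) (PT.lf (nat_lit 5928) (nat_lit 6) (nat_lit 78) (nat_lit 4) (nat_lit 52) (nat_lit 230) (nat_lit 228)))) (PT.nd (nat_lit 156) (PT.nd (nat_lit 78) (PT.lf (nat_lit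 5928) (nat_lit 6) (nat_lit 78) (nat_lit 2) (nat_lit 228) (nat_lit 230) (nat_lit 52)) (PT.lf (nat_lit 5852) (nat_lit 6) (nat_lit 77) (nat_lit 2) (nat_lit 229) (nat_lit 230) (nat_lit 51))) (PT.nd (nat_lit 78) (PT.lf (nat_lit 5776) (nat_lit 3) (nat_lit 76) (nat_lit 0) (nat_lit 230) (nat_lit 230) (nat_lit 50)) (PT.lf (nat_lit 5624) (nat_lit 6) (nat_lit 74) (nat_lit 0) (nat_lit 231) (nat_lit 230) (nat_lit 49)))))) (PT.nd (nat_lit 52962) (PT.nd (nat_lit 38766) (PT.nd (nat_lit 38610) (PT.lf (nat_lit 5472) (nat_lit 6) (nat_lit 72) (nat_lit 0) (nat_lit 232) (nat_lit 230) (nat_lit 48)) (PT.nd (nat_lit 78) (PT.lf (nat_lit 5244) (nat_lit 6) (nat_lit 69) (nat_lit 5) (nat_lit 46) (nat_lit 231) (nat_lit 233)) (PT.lf (nat_lit 5396) (nat_lit 6) (nat_lit 71) (nat_lit 5) (nat_lit 47) (nat_lit 231) (nat_lit 232)))) (PT.nd (nat_lit 156) (PT.nd (nat_lit 78) (PT.lf (nat_lit 5548) (nat_lit 3) (nat_lit 73) (nat_lit 4)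 (nat_lit 48) (nat_lit 231) (nat_lit 231)) (PT.lf (nat_lit 5624) (nat_lit 6) (nat_lit 74) (nat_lit 4) (nat_lit 49) (nat_lit 231) (nat_lit 230))) (PT.nd (nat_lit 13962) (PT.lf (nat_lit 5700) (nat_lit 6) (nat_lit 75) (nat_lit 4) (nat_lit 50) (nat_lit 231) (nat_lit 229)) (PT.lf (nat_lit 5700) (nat_lit 6) (nat_lit 75) (nat_lit 2) (nat_lit 229) (nat_lit 231) (nat_lit 50))))) (PT.nd (nat_lit 234) (PT.nd (nat_lit 78) (PT.lf (nat_lit 5624) (nat_lit 6) (nat_lit 74) (nat_lit 2) (nat_lit 230) (nat_lit 231) (nat_lit 49)) (PT.nd (nat_lit 78) (PT.lf (nat_lit 5548) (nat_lit 3) (nat_lit 73) (nat_lit 0) (nat_lit 231) (nat_lit 231) (nat_lit 48)) (PT.lf (nat_lit 5396) (nat_lit 6) (nat_lit 71) (nat_lit 0) (nat_lit 232) (nat_lit 231) (nat_lit 47)))) (PT.nd (nat_lit 38454) (PT.nd (nat_lit 38376) (PT.lf (nat_lit 5244) (nat_lit 6) (nat_lit 69) (nat_lit 0) (nat_lit 233) (nat_lit 231) (nat_lit 46)) (PT.lf (nat_lit 5016)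 (nat_lit 6) (nat_lit 66) (nat_lit 5) (nat_lit 44) (nat_lit 232) (nat_lit 234))) (PT.nd (nat_lit 78) (PT.lf (nat_lit 5168) (nat_lit 6) (nat_lit 68) (nat_lit 5) (nat_lit 45) (nat_lit 232) (nat_lit 233)) (PT.lf (nat_lit 5320) (nat_lit 3) (nat_lit 70) (nat_lit 4) (nat_lit 46) (nat_lit 232) (nat_lit 232))))))))
noncomputable def pc29 : PT := (PT.nd (nat_lit 158652) (PT.nd (nat_lit 67548) (PT.nd (nat_lit 14586) (PT.nd (nat_lit 14352) (PT.nd (nat_lit 78) (PT.lf (nat_lit 5396) (nat_lit 6) (nat_lit 71) (nat_lit 4) (nat_lit 47) (nat_lit 232) (nat_lit 231)) (PT.nd (nat_lit 14196) (PT.lf (nat_lit 5472) (nat_lit 6) (nat_lit 72) (nat_lit 4) (nat_lit 48) (nat_lit 232) (nat_lit 230)) (PT.lf (nat_lit 5472) (nat_lit 6) (nat_lit 72) (nat_lit 2) (nat_lit 230) (nat_lit 232) (nat_lit 48)))) (PT.nd (nat_lit 78) (PT.lf (nat_lit 5396) (nat_lit 6) (nat_lit 71) (nat_lit 2) (nat_lit 231) (nat_lit 232) (nat_lit 47)) (PT.nd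 (nat_lit 78) (PT.lf (nat_lit 5320) (nat_lit 3) (nat_lit 70) (nat_lit 0) (nat_lit 232) (nat_lit 232) (nat_lit 46)) (PT.lf (nat_lit 5168) (nat_lit 6) (nat_lit 68) (nat_lit 0) (nat_lit 233) (nat_lit 232) (nat_lit 45))))) (PT.nd (nat_lit 38298) (PT.nd (nat_lit 38142) (PT.lf (nat_lit 5016) (nat_lit 6) (nat_lit 66) (nat_lit 0) (nat_lit 234) (nat_lit 232) (nat_lit 44)) (PT.nd (nat_lit 78) (PT.lf (nat_lit 4788) (nat_lit 6) (nat_lit 63) (nat_lit 5) (nat_lit 42) (nat_lit 233) (nat_lit 235)) (PT.lf (nat_lit 4940) (nat_lit 6) (nat_lit 65) (nat_lit 5) (nat_lit 43) (nat_lit 233) (nat_lit 234)))) (PT.nd (nat_lit 156) (PT.nd (nat_lit 78) (PT.lf (nat_lit 5092) (nat_lit 3) (nat_lit 67) (nat_lit 4) (nat_lit 44) (nat_lit 233) (nat_lit 233)) (PT.lf (nat_lit 5168) (nat_lit 6) (nat_lit 68) (nat_lit 4) (nat_lit 45) (nat_lit 233) (nat_lit 232))) (PT.nd (nat_lit 14430) (PT.lf (nat_lit 5244) (nat_lit 6) (nat_lit 69) (nat_lit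 4) (nat_lit 46) (nat_lit 233) (nat_lit 231)) (PT.lf (nat_lit 5244) (nat_lit 6) (nat_lit 69) (nat_lit 2) (nat_lit 231) (nat_lit 233) (nat_lit 46)))))) (PT.nd (nat_lit 38376) (PT.nd (nat_lit 234) (PT.nd (nat_lit 78) (PT.lf (nat_lit 5168) (nat_lit 6) (nat_lit 68) (nat_lit 2) (nat_lit 232) (nat_lit 233) (nat_lit 45)) (PT.nd (nat_lit 78) (PT.lf (nat_lit 5092) (nat_lit 3) (nat_lit 67) (nat_lit 0) (nat_lit 233) (nat_lit 233) (nat_lit 44)) (PT.lf (nat_lit 4940) (nat_lit 6) (nat_lit 65) (nat_lit 0) (nat_lit 234) (nat_lit 233) (nat_lit 43)))) (PT.nd (nat_lit 37986) (PT.nd (nat_lit 37908) (PT.lf (nat_lit 4788) (nat_lit 6) (nat_lit 63) (nat_lit 0) (nat_lit 235) (nat_lit 233) (nat_lit 42)) (PT.lf (nat_lit 4560) (nat_lit 6) (nat_lit 60) (nat_lit 5) (nat_lit 40) (nat_lit 234) (nat_lit 236))) (PT.nd (nat_lit 78) (PT.lf (nat_lit 4712) (nat_lit 6) (nat_lit 62) (nat_lit 5) (nat_lit 41) (nat_lit 234) (nat_lit 235))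 (PT.lf (nat_lit 4864) (nat_lit 3) (nat_lit 64) (nat_lit 4) (nat_lit 42) (nat_lit 234) (nat_lit 234))))) (PT.nd (nat_lit 14820) (PT.nd (nat_lit 78) (PT.lf (nat_lit 4940) (nat_lit 6) (nat_lit 65) (nat_lit 4) (nat_lit 43) (nat_lit 234) (nat_lit 233)) (PT.nd (nat_lit 14664) (PT.lf (nat_lit 5016) (nat_lit 6) (nat_lit 66) (nat_lit 4) (nat_lit 44) (nat_lit 234) (nat_lit 232)) (PT.lf (nat_lit 5016) (nat_lit 6) (nat_lit 66) (nat_lit 2) (nat_lit 232) (nat_lit 234) (nat_lit 44)))) (PT.nd (nat_lit 156) (PT.nd (nat_lit 78) (PT.lf (nat_lit 4940) (nat_lit 6) (nat_lit 65) (nat_lit 2) (nat_lit 233) (nat_lit 234) (nat_lit 43)) (PT.lf (nat_lit 4864) (nat_lit 3) (nat_lit 64) (nat_lit 0) (nat_lit 234) (nat_lit 234) (nat_lit 42))) (PT.nd (nat_lit 78) (PT.lf (nat_lit 4712) (nat_lit 6) (nat_lit 62) (nat_lit 0) (nat_lit 235) (nat_lit 234) (nat_lit 41)) (PT.lf (nat_lit 4560) (nat_lit 6) (nat_lit 60) (nat_lit 0) (nat_lit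 236) (nat_lit 234) (nat_lit 40))))))) (PT.nd (nat_lit 53196) (PT.nd (nat_lit 15288) (PT.nd (nat_lit 234) (PT.nd (nat_lit 78) (PT.lf (nat_lit 4332) (nat_lit 6) (nat_lit 57) (nat_lit 5) (nat_lit 38) (nat_lit 235) (nat_lit 237)) (PT.nd (nat_lit 78) (PT.lf (nat_lit 4484) (nat_lit 6) (nat_lit 59) (nat_lit 5) (nat_lit 39) (nat_lit 235) (nat_lit 236)) (PT.lf (nat_lit 4636) (nat_lit 3) (nat_lit 61) (nat_lit 4) (nat_lit 40) (nat_lit 235) (nat_lit 235)))) (PT.nd (nat_lit 78) (PT.lf (nat_lit 4712) (nat_lit 6) (nat_lit 62) (nat_lit 4) (nat_lit 41) (nat_lit 235) (nat_lit 234)) (PT.nd (nat_lit 14898) (PT.lf (nat_lit 4788) (nat_lit 6) (nat_lit 63) (nat_lit 4) (nat_lit 42) (nat_lit 235) (nat_lit 233)) (PT.lf (nat_lit 4788) (nat_lit 6) (nat_lit 63) (nat_lit 2) (nat_lit 233) (nat_lit 235) (nat_lit 42))))) (PT.nd (nat_lit 234) (PT.nd (nat_lit 78) (PT.lf (nat_lit 4712) (nat_lit 6) (nat_lit 62) (nat_lit 2) (nat_lit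 234) (nat_lit 235) (nat_lit 41)) (PT.nd (nat_lit 78) (PT.lf (nat_lit 4636) (nat_lit 3) (nat_lit 61) (nat_lit 0) (nat_lit 235) (nat_lit 235) (nat_lit 40)) (PT.lf (nat_lit 4484) (nat_lit 6) (nat_lit 59) (nat_lit 0) (nat_lit 236) (nat_lit 235) (nat_lit 39)))) (PT.nd (nat_lit 37518) (PT.nd (nat_lit 37440) (PT.lf (nat_lit 4332) (nat_lit 6) (nat_lit 57) (nat_lit 0) (nat_lit 237) (nat_lit 235) (nat_lit 38)) (PT.lf (nat_lit 4104) (nat_lit 6) (nat_lit 54) (nat_lit 5) (nat_lit 36) (nat_lit 236) (nat_lit 238))) (PT.nd (nat_lit 78) (PT.lf (nat_lit 4256) (nat_lit 6) (nat_lit 56) (nat_lit 5) (nat_lit 37) (nat_lit 236) (nat_lit 237)) (PT.lf (nat_lit 4408) (nat_lit 3) (nat_lit 58) (nat_lit 4) (nat_lit 38) (nat_lit 236) (nat_lit 236)))))) (PT.nd (nat_lit 52806) (PT.nd (nat_lit 15288) (PT.nd (nat_lit 78) (PT.lf (nat_lit 4484) (nat_lit 6) (nat_lit 59) (nat_lit 4) (nat_lit 39) (nat_lit 236) (nat_lit 235)) (PT.nd (nat_lit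 15132) (PT.lf (nat_lit 4560) (nat_lit 6) (nat_lit 60) (nat_lit 4) (nat_lit 40) (nat_lit 236) (nat_lit 234)) (PT.lf (nat_lit 4560) (nat_lit 6) (nat_lit 60) (nat_lit 2) (nat_lit 234) (nat_lit 236) (nat_lit 40)))) (PT.nd (nat_lit 156) (PT.nd (nat_lit 78) (PT.lf (nat_lit 4484) (nat_lit 6) (nat_lit 59) (nat_lit 2) (nat_lit 235) (nat_lit 236) (nat_lit 39)) (PT.lf (nat_lit 4408) (nat_lit 3) (nat_lit 58) (nat_lit 0) (nat_lit 236) (nat_lit 236) (nat_lit 38))) (PT.nd (nat_lit 78) (PT.lf (nat_lit 4256) (nat_lit 6) (nat_lit 56) (nat_lit 0) (nat_lit 237) (nat_lit 236) (nat_lit 37)) (PT.lf (nat_lit 4104) (nat_lit 6) (nat_lit 54) (nat_lit 0) (nat_lit 238) (nat_lit 236) (nat_lit 36))))) (PT.nd (nat_lit 234) (PT.nd (nat_lit 78) (PT.lf (nat_lit 4028) (nat_lit 6) (nat_lit 53) (nat_lit 5) (nat_lit 35) (nat_lit 237) (nat_lit 238)) (PT.nd (nat_lit 78) (PT.lf (nat_lit 4180) (nat_lit 3) (nat_lit 55) (nat_lit 4) (nat_lit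 36) (nat_lit 237) (nat_lit 237)) (PT.lf (nat_lit 4256) (nat_lit 6) (nat_lit 56) (nat_lit 4) (nat_lit 37) (nat_lit 237) (nat_lit 236)))) (PT.nd (nat_lit 15444) (PT.nd (nat_lit 15366) (PT.lf (nat_lit 4332) (nat_lit 6) (nat_lit 57) (nat_lit 4) (nat_lit 38) (nat_lit 237) (nat_lit 235)) (PT.lf (nat_lit 4332) (nat_lit 6) (nat_lit 57) (nat_lit 2) (nat_lit 235) (nat_lit 237) (nat_lit 38))) (PT.nd (nat_lit 78) (PT.lf (nat_lit 4256) (nat_lit 6) (nat_lit 56) (nat_lit 2) (nat_lit 236) (nat_lit 237) (nat_lit 37)) (PT.lf (nat_lit 4180) (nat_lit 3) (nat_lit 55) (nat_lit 0) (nat_lit 237) (nat_lit 237) (nat_lit 36))))))))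
noncomputable def pc30 : PT := (PT.nd (nat_lit 248976) (PT.nd (nat_lit 106314) (PT.nd (nat_lit 53040) (PT.nd (nat_lit 37284) (PT.nd (nat_lit 37128) (PT.lf (nat_lit 4028) (nat_lit 6) (nat_lit 53) (nat_lit 0) (nat_lit 238) (nat_lit 237) (nat_lit 35)) (PT.nd (nat_lit 78) (PT.lf (nat_lit 3800) (nat_lit 6) (nat_lit 50) (nat_lit 5) (nat_lit 33) (nat_lit 238) (nat_lit 239)) (PT.lf (nat_lit 3952) (nat_lit 3) (nat_lit 52) (nat_lit 4) (nat_lit 34) (nat_lit 238) (nat_lit 238)))) (PT.nd (nat_lit 78) (PT.lf (nat_lit 4028) (nat_lit 6) (nat_lit 53) (nat_lit 4) (nat_lit 35) (nat_lit 238) (nat_lit 237)) (PT.nd (nat_lit 15600) (PT.lf (nat_lit 4104) (nat_lit 6) (nat_lit 54) (nat_lit 4) (nat_lit 36) (nat_lit 238) (nat_lit 236)) (PT.lf (nat_lit 4104) (nat_lit 6) (nat_lit 54) (nat_lit 2) (nat_lit 236) (nat_lit 238) (nat_lit 36))))) (PT.nd (nat_lit 37050) (PT.nd (nat_lit 78) (PT.lf (nat_lit 4028) (nat_lit 6) (nat_lit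 53) (nat_lit 2) (nat_lit 237) (nat_lit 238) (nat_lit 35)) (PT.nd (nat_lit 78) (PT.lf (nat_lit 3952) (nat_lit 3) (nat_lit 52) (nat_lit 0) (nat_lit 238) (nat_lit 238) (nat_lit 34)) (PT.lf (nat_lit 3800) (nat_lit 6) (nat_lit 50) (nat_lit 0) (nat_lit 239) (nat_lit 238) (nat_lit 33)))) (PT.nd (nat_lit 156) (PT.nd (nat_lit 78) (PT.lf (nat_lit 3572) (nat_lit 6) (nat_lit 47) (nat_lit 5) (nat_lit 31) (nat_lit 239) (nat_lit 240)) (PT.lf (nat_lit 3724) (nat_lit 3) (nat_lit 49) (nat_lit 4) (nat_lit 32) (nat_lit 239) (nat_lit 239))) (PT.nd (nat_lit 15990) (PT.lf (nat_lit 3800) (nat_lit 6) (nat_lit 50) (nat_lit 4) (nat_lit 33) (nat_lit 239) (nat_lit 238)) (PT.lf (nat_lit 3800) (nat_lit 6) (nat_lit 50) (nat_lit 2) (nat_lit 238) (nat_lit 239) (nat_lit 33)))))) (PT.nd (nat_lit 53274) (PT.nd (nat_lit 36816) (PT.nd (nat_lit 78) (PT.lf (nat_lit 3724) (nat_lit 3) (nat_lit 49) (nat_lit 0) (nat_lit 239) (nat_lit 239)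 (nat_lit 32)) (PT.nd (nat_lit 36660) (PT.lf (nat_lit 3572) (nat_lit 6) (nat_lit 47) (nat_lit 0) (nat_lit 240) (nat_lit 239) (nat_lit 31)) (PT.lf (nat_lit 3344) (nat_lit 6) (nat_lit 44) (nat_lit 5) (nat_lit 29) (nat_lit 240) (nat_lit 241)))) (PT.nd (nat_lit 16302) (PT.nd (nat_lit 78) (PT.lf (nat_lit 3496) (nat_lit 3) (nat_lit 46) (nat_lit 4) (nat_lit 30) (nat_lit 240) (nat_lit 240)) (PT.lf (nat_lit 3572) (nat_lit 6) (nat_lit 47) (nat_lit 4) (nat_lit 31) (nat_lit 240) (nat_lit 239))) (PT.nd (nat_lit 78) (PT.lf (nat_lit 3572) (nat_lit 6) (nat_lit 47) (nat_lit 2) (nat_lit 239) (nat_lit 240) (nat_lit 31)) (PT.lf (nat_lit 3496) (nat_lit 3) (nat_lit 46) (nat_lit 0) (nat_lit 240) (nat_lit 240) (nat_lit 30))))) (PT.nd (nat_lit 36582) (PT.nd (nat_lit 36426) (PT.lf (nat_lit 3344) (nat_lit 6) (nat_lit 44) (nat_lit 0) (nat_lit 241) (nat_lit 240) (nat_lit 29)) (PT.nd (nat_lit 78) (PT.lf (nat_lit 3116) (nat_lit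 6) (nat_lit 41) (nat_lit 5) (nat_lit 27) (nat_lit 241) (nat_lit 242)) (PT.lf (nat_lit 3268) (nat_lit 3) (nat_lit 43) (nat_lit 4) (nat_lit 28) (nat_lit 241) (nat_lit 241)))) (PT.nd (nat_lit 16536) (PT.nd (nat_lit 16458) (PT.lf (nat_lit 3344) (nat_lit 6) (nat_lit 44) (nat_lit 4) (nat_lit 29) (nat_lit 241) (nat_lit 240)) (PT.lf (nat_lit 3344) (nat_lit 6) (nat_lit 44) (nat_lit 2) (nat_lit 240) (nat_lit 241) (nat_lit 29))) (PT.nd (nat_lit 78) (PT.lf (nat_lit 3268) (nat_lit 3) (nat_lit 43) (nat_lit 0) (nat_lit 241) (nat_lit 241) (nat_lit 28)) (PT.lf (nat_lit 3116) (nat_lit 6) (nat_lit 41) (nat_lit 0) (nat_lit 242) (nat_lit 241) (nat_lit 27))))))) (PT.nd (nat_lit 106002) (PT.nd (nat_lit 52962) (PT.nd (nat_lit 16848) (PT.nd (nat_lit 78) (PT.lf (nat_lit 2888) (nat_lit 6) (nat_lit 38) (nat_lit 5) (nat_lit 25) (nat_lit 242) (nat_lit 243)) (PT.nd (nat_lit 78) (PT.lf (nat_lit 3040) (nat_lit 3) (nat_lit 40)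 (nat_lit 4) (nat_lit 26) (nat_lit 242) (nat_lit 242)) (PT.lf (nat_lit 3116) (nat_lit 6) (nat_lit 41) (nat_lit 4) (nat_lit 27) (nat_lit 242) (nat_lit 241)))) (PT.nd (nat_lit 78) (PT.lf (nat_lit 3116) (nat_lit 6) (nat_lit 41) (nat_lit 2) (nat_lit 241) (nat_lit 242) (nat_lit 27)) (PT.nd (nat_lit 78) (PT.lf (nat_lit 3040) (nat_lit 3) (nat_lit 40) (nat_lit 0) (nat_lit 242) (nat_lit 242) (nat_lit 26)) (PT.lf (nat_lit 2888) (nat_lit 6) (nat_lit 38) (nat_lit 0) (nat_lit 243) (nat_lit 242) (nat_lit 25))))) (PT.nd (nat_lit 17082) (PT.nd (nat_lit 78) (PT.lf (nat_lit 2660) (nat_lit 6) (nat_lit 35) (nat_lit 5) (nat_lit 23) (nat_lit 243) (nat_lit 244)) (PT.nd (nat_lit 78) (PT.lf (nat_lit 2812) (nat_lit 3) (nat_lit 37) (nat_lit 4) (nat_lit 24) (nat_lit 243) (nat_lit 243)) (PT.lf (nat_lit 2888) (nat_lit 6) (nat_lit 38) (nat_lit 4) (nat_lit 25) (nat_lit 243) (nat_lit 242)))) (PT.nd (nat_lit 156) (PT.nd (nat_lit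 78) (PT.lf (nat_lit 2888) (nat_lit 6) (nat_lit 38) (nat_lit 2) (nat_lit 242) (nat_lit 243) (nat_lit 25)) (PT.lf (nat_lit 2812) (nat_lit 3) (nat_lit 37) (nat_lit 0) (nat_lit 243) (nat_lit 243) (nat_lit 24))) (PT.nd (nat_lit 35724) (PT.lf (nat_lit 2660) (nat_lit 6) (nat_lit 35) (nat_lit 0) (nat_lit 244) (nat_lit 243) (nat_lit 23)) (PT.lf (nat_lit 2432) (nat_lit 6) (nat_lit 32) (nat_lit 5) (nat_lit 21) (nat_lit 244) (nat_lit 245)))))) (PT.nd (nat_lit 53040) (PT.nd (nat_lit 17316) (PT.nd (nat_lit 78) (PT.lf (nat_lit 2584) (nat_lit 3) (nat_lit 34) (nat_lit 4) (nat_lit 22) (nat_lit 244) (nat_lit 244)) (PT.nd (nat_lit 17160) (PT.lf (nat_lit 2660) (nat_lit 6) (nat_lit 35) (nat_lit 4) (nat_lit 23) (nat_lit 244) (nat_lit 243)) (PT.lf (nat_lit 2660) (nat_lit 6) (nat_lit 35) (nat_lit 2) (nat_lit 243) (nat_lit 244) (nat_lit 23)))) (PT.nd (nat_lit 35568) (PT.nd (nat_lit 78) (PT.lf (nat_lit 2584) (nat_lit 3)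 (nat_lit 34) (nat_lit 0) (nat_lit 244) (nat_lit 244) (nat_lit 22)) (PT.lf (nat_lit 2432) (nat_lit 6) (nat_lit 32) (nat_lit 0) (nat_lit 245) (nat_lit 244) (nat_lit 21))) (PT.nd (nat_lit 78) (PT.lf (nat_lit 2204) (nat_lit 6) (nat_lit 29) (nat_lit 5) (nat_lit 19) (nat_lit 245) (nat_lit 246)) (PT.lf (nat_lit 2356) (nat_lit 3) (nat_lit 31) (nat_lit 4) (nat_lit 20) (nat_lit 245) (nat_lit 245))))) (PT.nd (nat_lit 17550) (PT.nd (nat_lit 17394) (PT.lf (nat_lit 2432) (nat_lit 6) (nat_lit 32) (nat_lit 4) (nat_lit 21) (nat_lit 245) (nat_lit 244)) (PT.nd (nat_lit 78) (PT.lf (nat_lit 2432) (nat_lit 6) (nat_lit 32) (nat_lit 2) (nat_lit 244) (nat_lit 245) (nat_lit 21)) (PT.lf (nat_lit 2356) (nat_lit 3) (nat_lit 31) (nat_lit 0) (nat_lit 245) (nat_lit 245) (nat_lit 20)))) (PT.nd (nat_lit 35334) (PT.nd (nat_lit 35256) (PT.lf (nat_lit 2204) (nat_lit 6) (nat_lit 29) (nat_lit 0) (nat_lit 246) (nat_lit 245) (nat_lit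 19)) (PT.lf (nat_lit 1976) (nat_lit 6) (nat_lit 26) (nat_lit 5) (nat_lit 17) (nat_lit 246) (nat_lit 247))) (PT.nd (nat_lit 78) (PT.lf (nat_lit 2128) (nat_lit 3) (nat_lit 28) (nat_lit 4) (nat_lit 18) (nat_lit 246) (nat_lit 246)) (PT.lf (nat_lit 2204) (nat_lit 6) (nat_lit 29) (nat_lit 4) (nat_lit 19) (nat_lit 246) (nat_lit 245))))))))
noncomputable def pc31 : PT := (PT.nd (nat_lit 247026) (PT.nd (nat_lit 106470) (PT.nd (nat_lit 53196) (PT.nd (nat_lit 35178) (PT.nd (nat_lit 78) (PT.lf (nat_lit 2204) (nat_lit 6) (nat_lit 29) (nat_lit 2) (nat_lit 245) (nat_lit 246) (nat_lit 19)) (PT.nd (nat_lit 78) (PT.lf (nat_lit 2128) (nat_lit 3) (nat_lit 28) (nat_lit 0) (nat_lit 246) (nat_lit 246) (nat_lit 18)) (PT.lf (nat_lit 1976) (nat_lit 6) (nat_lit 26) (nat_lit 0) (nat_lit 247) (nat_lit 246) (nat_lit 17)))) (PT.nd (nat_lit 78) (PT.lf (nat_lit 1748) (nat_lit 6) (nat_lit 23) (nat_lit 5) (nat_lit 15) (nat_lit 247)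 (nat_lit 248)) (PT.nd (nat_lit 78) (PT.lf (nat_lit 1900) (nat_lit 3) (nat_lit 25) (nat_lit 4) (nat_lit 16) (nat_lit 247) (nat_lit 247)) (PT.lf (nat_lit 1976) (nat_lit 6) (nat_lit 26) (nat_lit 4) (nat_lit 17) (nat_lit 247) (nat_lit 246))))) (PT.nd (nat_lit 34944) (PT.nd (nat_lit 78) (PT.lf (nat_lit 1976) (nat_lit 6) (nat_lit 26) (nat_lit 2) (nat_lit 246) (nat_lit 247) (nat_lit 17)) (PT.nd (nat_lit 78) (PT.lf (nat_lit 1900) (nat_lit 3) (nat_lit 25) (nat_lit 0) (nat_lit 247) (nat_lit 247) (nat_lit 16)) (PT.lf (nat_lit 1748) (nat_lit 6) (nat_lit 23) (nat_lit 0) (nat_lit 248) (nat_lit 247) (nat_lit 15)))) (PT.nd (nat_lit 156) (PT.nd (nat_lit 78) (PT.lf (nat_lit 1520) (nat_lit 6) (nat_lit 20) (nat_lit 5) (nat_lit 13) (nat_lit 248) (nat_lit 249)) (PT.lf (nat_lit 1672) (nat_lit 3) (nat_lit 22) (nat_lit 4) (nat_lit 14) (nat_lit 248) (nat_lit 248))) (PT.nd (nat_lit 18096) (PT.lf (nat_lit 1748) (nat_lit 6)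 (nat_lit 23) (nat_lit 4) (nat_lit 15) (nat_lit 248) (nat_lit 247)) (PT.lf (nat_lit 1748) (nat_lit 6) (nat_lit 23) (nat_lit 2) (nat_lit 247) (nat_lit 248) (nat_lit 15)))))) (PT.nd (nat_lit 53274) (PT.nd (nat_lit 34710) (PT.nd (nat_lit 78) (PT.lf (nat_lit 1672) (nat_lit 3) (nat_lit 22) (nat_lit 0) (nat_lit 248) (nat_lit 248) (nat_lit 14)) (PT.nd (nat_lit 34554) (PT.lf (nat_lit 1520) (nat_lit 6) (nat_lit 20) (nat_lit 0) (nat_lit 249) (nat_lit 248) (nat_lit 13)) (PT.lf (nat_lit 1292) (nat_lit 6) (nat_lit 17) (nat_lit 5) (nat_lit 11) (nat_lit 249) (nat_lit 250)))) (PT.nd (nat_lit 18408) (PT.nd (nat_lit 78) (PT.lf (nat_lit 1444) (nat_lit 3) (nat_lit 19) (nat_lit 4) (nat_lit 12) (nat_lit 249) (nat_lit 249)) (PT.lf (nat_lit 1520) (nat_lit 6) (nat_lit 20) (nat_lit 4) (nat_lit 13) (nat_lit 249) (nat_lit 248))) (PT.nd (nat_lit 78) (PT.lf (nat_lit 1520) (nat_lit 6) (nat_lit 20) (nat_lit 2) (nat_lit 248) (nat_lit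 249) (nat_lit 13)) (PT.lf (nat_lit 1444) (nat_lit 3) (nat_lit 19) (nat_lit 0) (nat_lit 249) (nat_lit 249) (nat_lit 12))))) (PT.nd (nat_lit 34476) (PT.nd (nat_lit 34320) (PT.lf (nat_lit 1292) (nat_lit 6) (nat_lit 17) (nat_lit 0) (nat_lit 250) (nat_lit 249) (nat_lit 11)) (PT.nd (nat_lit 78) (PT.lf (nat_lit 1064) (nat_lit 6) (nat_lit 14) (nat_lit 5) (nat_lit 9) (nat_lit 250) (nat_lit 251)) (PT.lf (nat_lit 1216) (nat_lit 3) (nat_lit 16) (nat_lit 4) (nat_lit 10) (nat_lit 250) (nat_lit 250)))) (PT.nd (nat_lit 18642) (PT.nd (nat_lit 18564) (PT.lf (nat_lit 1292) (nat_lit 6) (nat_lit 17) (nat_lit 4) (nat_lit 11) (nat_lit 250) (nat_lit 249)) (PT.lf (nat_lit 1292) (nat_lit 6) (nat_lit 17) (nat_lit 2) (nat_lit 249) (nat_lit 250) (nat_lit 11))) (PT.nd (nat_lit 78) (PT.lf (nat_lit 1216) (nat_lit 3) (nat_lit 16) (nat_lit 0) (nat_lit 250) (nat_lit 250) (nat_lit 10)) (PT.lf (nat_lit 1064) (nat_lit 6) (nat_lit 14)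 (nat_lit 0) (nat_lit 251) (nat_lit 250) (nat_lit 9))))))) (PT.nd (nat_lit 106080) (PT.nd (nat_lit 53040) (PT.nd (nat_lit 18954) (PT.nd (nat_lit 78) (PT.lf (nat_lit 836) (nat_lit 6) (nat_lit 11) (nat_lit 5) (nat_lit 7) (nat_lit 251) (nat_lit 252)) (PT.nd (nat_lit 78) (PT.lf (nat_lit 988) (nat_lit 3) (nat_lit 13) (nat_lit 4) (nat_lit 8) (nat_lit 251) (nat_lit 251)) (PT.lf (nat_lit 1064) (nat_lit 6) (nat_lit 14) (nat_lit 4) (nat_lit 9) (nat_lit 251) (nat_lit 250)))) (PT.nd (nat_lit 156) (PT.nd (nat_lit 78) (PT.lf (nat_lit 1064) (nat_lit 6) (nat_lit 14) (nat_lit 2) (nat_lit 250) (nat_lit 251) (nat_lit 9)) (PT.lf (nat_lit 988) (nat_lit 3) (nat_lit 13) (nat_lit 0) (nat_lit 251) (nat_lit 251) (nat_lit 8))) (PT.nd (nat_lit 33852) (PT.lf (nat_lit 836) (nat_lit 6) (nat_lit 11) (nat_lit 0) (nat_lit 252) (nat_lit 251) (nat_lit 7)) (PT.lf (nat_lit 608) (nat_lit 6) (nat_lit 8) (nat_lit 5) (nat_lit 5) (nat_lit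 252) (nat_lit 253))))) (PT.nd (nat_lit 19188) (PT.nd (nat_lit 78) (PT.lf (nat_lit 760) (nat_lit 3) (nat_lit 10) (nat_lit 4) (nat_lit 6) (nat_lit 252) (nat_lit 252)) (PT.nd (nat_lit 19032) (PT.lf (nat_lit 836) (nat_lit 6) (nat_lit 11) (nat_lit 4) (nat_lit 7) (nat_lit 252) (nat_lit 251)) (PT.lf (nat_lit 836) (nat_lit 6) (nat_lit 11) (nat_lit 2) (nat_lit 251) (nat_lit 252) (nat_lit 7)))) (PT.nd (nat_lit 33696) (PT.nd (nat_lit 78) (PT.lf (nat_lit 760) (nat_lit 3) (nat_lit 10) (nat_lit 0) (nat_lit 252) (nat_lit 252) (nat_lit 6)) (PT.lf (nat_lit 608) (nat_lit 6) (nat_lit 8) (nat_lit 0) (nat_lit 253) (nat_lit 252) (nat_lit 5))) (PT.nd (nat_lit 78) (PT.lf (nat_lit 380) (nat_lit 6) (nat_lit 5) (nat_lit 5) (nat_lit 3) (nat_lit 253) (nat_lit 254)) (PT.lf (nat_lit 532) (nat_lit 3) (nat_lit 7) (nat_lit 4) (nat_lit 4) (nat_lit 253) (nat_lit 253)))))) (PT.nd (nat_lit 72462) (PT.nd (nat_lit 19422) (PT.nd (nat_lit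 19266) (PT.lf (nat_lit 608) (nat_lit 6) (nat_lit 8) (nat_lit 4) (nat_lit 5) (nat_lit 253) (nat_lit 252)) (PT.nd (nat_lit 78) (PT.lf (nat_lit 608) (nat_lit 6) (nat_lit 8) (nat_lit 2) (nat_lit 252) (nat_lit 253) (nat_lit 5)) (PT.lf (nat_lit 532) (nat_lit 3) (nat_lit 7) (nat_lit 0) (nat_lit 253) (nat_lit 253) (nat_lit 4)))) (PT.nd (nat_lit 33462) (PT.nd (nat_lit 33384) (PT.lf (nat_lit 380) (nat_lit 6) (nat_lit 5) (nat_lit 0) (nat_lit 254) (nat_lit 253) (nat_lit 3)) (PT.lf (nat_lit 152) (nat_lit 6) (nat_lit 2) (nat_lit 5) (nat_lit 1) (nat_lit 254) (nat_lit 255))) (PT.nd (nat_lit 78) (PT.lf (nat_lit 304) (nat_lit 3) (nat_lit 4) (nat_lit 4) (nat_lit 2) (nat_lit 254) (nat_lit 254)) (PT.lf (nat_lit 380) (nat_lit 6) (nat_lit 5) (nat_lit 4) (nat_lit 3) (nat_lit 254) (nat_lit 253))))) (PT.nd (nat_lit 33384) (PT.nd (nat_lit 78) (PT.lf (nat_lit 380) (nat_lit 6) (nat_lit 5) (nat_lit 2) (nat_lit 253) (nat_lit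 254) (nat_lit 3)) (PT.nd (nat_lit 78) (PT.lf (nat_lit 304) (nat_lit 3) (nat_lit 4) (nat_lit 0) (nat_lit 254) (nat_lit 254) (nat_lit 2)) (PT.lf (nat_lit 152) (nat_lit 6) (nat_lit 2) (nat_lit 0) (nat_lit 255) (nat_lit 254) (nat_lit 1)))) (PT.nd (nat_lit 19812) (PT.nd (nat_lit 78) (PT.lf (nat_lit 76) (nat_lit 3) (nat_lit 1) (nat_lit 4) (nat_lit 0) (nat_lit 255) (nat_lit 255)) (PT.lf (nat_lit 152) (nat_lit 6) (nat_lit 2) (nat_lit 4) (nat_lit 1) (nat_lit 255) (nat_lit 254))) (PT.nd (nat_lit 78) (PT.lf (nat_lit 152) (nat_lit 6) (nat_lit 2) (nat_lit 2) (nat_lit 254) (nat_lit 255) (nat_lit 1)) (PT.lf (nat_lit 76) (nat_lit 3) (nat_lit 1) (nat_lit 0) (nat_lit 255) (nat_lit 255) (nat_lit 0))))))))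
noncomputable def xc0 : XT := (XT.nd (nat_lit 264966) (nat_lit 0) (nat_lit 0) (XT.nd (nat_lit 159198) (nat_lit 0) (nat_lit 0) (XT.nd (nat_lit 106080) (nat_lit 0) (nat_lit 0) (XT.nd (nat_lit 53118) (nat_lit 0) (nat_lit 0) (XT.nd (nat_lit 52962) (nat_lit 0) (nat_lit 228) (XT.nd (nat_lit 78) (nat_lit 76) (nat_lit 0) (XT.lf (nat_lit 0) (nat_lit 24162446668) (nat_lit 152) (nat_lit 42874593152) (nat_lit 0) (nat_lit 24162446668) (nat_lit 35) (nat_lit 5) (nat_lit 37) (nat_lit 4) (nat_lit 35) (nat_lit 4) (nat_lit 496) (nat_lit 262) (nat_lit 262)) (XT.lf (nat_lit 0) (nat_lit 98337894959) (nat_lit 76) (nat_lit 44294158356) (nat_lit 76) (nat_lit 44292220829) (nat_lit 34) (nat_lit 4) (nat_lit 35) (nat_lit 5) (nat_lit 35) (nat_lit 4) (nat_lit 497) (nat_lit 262) (nat_lit 261))) (XT.nd (nat_lit 78) (nat_lit 76) (nat_lit 0) (XT.lf (nat_lit 0) (nat_lit 23012905356) (nat_lit 152) (nat_lit 40830943219) (nat_lit 0)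 (nat_lit 23012905356) (nat_lit 38) (nat_lit 5) (nat_lit 40) (nat_lit 4) (nat_lit 38) (nat_lit 4) (nat_lit 494) (nat_lit 263) (nat_lit 263)) (XT.lf (nat_lit 0) (nat_lit 93659177252) (nat_lit 76) (nat_lit 42183134723) (nat_lit 76) (nat_lit 42180998600) (nat_lit 37) (nat_lit 4) (nat_lit 38) (nat_lit 5) (nat_lit 38) (nat_lit 4) (nat_lit 495) (nat_lit 263) (nat_lit 262)))) (XT.nd (nat_lit 52806) (nat_lit 0) (nat_lit 456) (XT.nd (nat_lit 78) (nat_lit 76) (nat_lit 0) (XT.lf (nat_lit 0) (nat_lit 46869546779) (nat_lit 152) (nat_lit 88736720399) (nat_lit 0) (nat_lit 46865574850) (nat_lit 35) (nat_lit 5) (nat_lit 37) (nat_lit 4) (nat_lit 35) (nat_lit 4) (nat_lit 496) (nat_lit 263) (nat_lit 261)) (XT.lf (nat_lit 0) (nat_lit 92312231436) (nat_lit 76) (nat_lit 47382415958) (nat_lit 76) (nat_lit 47376598766) (nat_lit 34) (nat_lit 4) (nat_lit 35) (nat_lit 5) (nat_lit 35) (nat_lit 4) (nat_lit 497) (nat_lit 263)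 (nat_lit 260))) (XT.nd (nat_lit 78) (nat_lit 76) (nat_lit 0) (XT.lf (nat_lit 0) (nat_lit 21918211873) (nat_lit 152) (nat_lit 38884404679) (nat_lit 0) (nat_lit 21918211873) (nat_lit 41) (nat_lit 5) (nat_lit 43) (nat_lit 4) (nat_lit 41) (nat_lit 4) (nat_lit 492) (nat_lit 264) (nat_lit 264)) (XT.lf (nat_lit 0) (nat_lit 89203669644) (nat_lit 76) (nat_lit 40172453780) (nat_lit 76) (nat_lit 40170098705) (nat_lit 40) (nat_lit 4) (nat_lit 41) (nat_lit 5) (nat_lit 41) (nat_lit 4) (nat_lit 493) (nat_lit 264) (nat_lit 263))))) (XT.nd (nat_lit 52806) (nat_lit 0) (nat_lit 456) (XT.nd (nat_lit 156) (nat_lit 228) (nat_lit 0) (XT.nd (nat_lit 78) (nat_lit 76) (nat_lit 0) (XT.lf (nat_lit 0) (nat_lit 44640067006) (nat_lit 152) (nat_lit 84507152236) (nat_lit 0) (nat_lit 44635687954) (nat_lit 38) (nat_lit 5) (nat_lit 40) (nat_lit 4) (nat_lit 38) (nat_lit 4) (nat_lit 494) (nat_lit 264) (nat_lit 262)) (XT.lf (nat_lit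 0) (nat_lit 87920459704) (nat_lit 76) (nat_lit 45124619066) (nat_lit 76) (nat_lit 45118205611) (nat_lit 37) (nat_lit 4) (nat_lit 38) (nat_lit 5) (nat_lit 38) (nat_lit 4) (nat_lit 495) (nat_lit 264) (nat_lit 261))) (XT.nd (nat_lit 78) (nat_lit 76) (nat_lit 0) (XT.lf (nat_lit 0) (nat_lit 42496070065) (nat_lit 152) (nat_lit 97706435856) (nat_lit 0) (nat_lit 42488116749) (nat_lit 35) (nat_lit 5) (nat_lit 37) (nat_lit 4) (nat_lit 35) (nat_lit 4) (nat_lit 496) (nat_lit 264) (nat_lit 260)) (XT.lf (nat_lit 0) (nat_lit 80246557572) (nat_lit 76) (nat_lit 53564346631) (nat_lit 76) (nat_lit 53554635922) (nat_lit 34) (nat_lit 4) (nat_lit 35) (nat_lit 5) (nat_lit 35) (nat_lit 4) (nat_lit 497) (nat_lit 264) (nat_lit 259)))) (XT.nd (nat_lit 156) (nat_lit 228) (nat_lit 0) (XT.nd (nat_lit 78) (nat_lit 76) (nat_lit 0) (XT.lf (nat_lit 0) (nat_lit 20875765465) (nat_lit 152) (nat_lit 37030332139) (nat_lit 0) (nat_lit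 20875765465) (nat_lit 44) (nat_lit 5) (nat_lit 46) (nat_lit 4) (nat_lit 44) (nat_lit 4) (nat_lit 490) (nat_lit 265) (nat_lit 265)) (XT.lf (nat_lit 0) (nat_lit 84960785519) (nat_lit 76) (nat_lit 38257318624) (nat_lit 76) (nat_lit 38254722154) (nat_lit 43) (nat_lit 4) (nat_lit 44) (nat_lit 5) (nat_lit 44) (nat_lit 4) (nat_lit 491) (nat_lit 265) (nat_lit 264))) (XT.nd (nat_lit 78) (nat_lit 76) (nat_lit 0) (XT.lf (nat_lit 0) (nat_lit 42516999285) (nat_lit 152) (nat_lit 80478581051) (nat_lit 0) (nat_lit 42512171380) (nat_lit 41) (nat_lit 5) (nat_lit 43) (nat_lit 4) (nat_lit 41) (nat_lit 4) (nat_lit 492) (nat_lit 265) (nat_lit 263)) (XT.lf (nat_lit 0) (nat_lit 83738234963) (nat_lit 76) (nat_lit 42974183446) (nat_lit 76) (nat_lit 42967112612) (nat_lit 40) (nat_lit 4) (nat_lit 41) (nat_lit 5) (nat_lit 41) (nat_lit 4) (nat_lit 493) (nat_lit 265) (nat_lit 262)))))) (XT.nd (nat_lit 52962) (nat_lit 0) (nat_lit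 0) (XT.nd (nat_lit 52650) (nat_lit 0) (nat_lit 684) (XT.nd (nat_lit 156) (nat_lit 228) (nat_lit 0) (XT.nd (nat_lit 78) (nat_lit 76) (nat_lit 0) (XT.lf (nat_lit 0) (nat_lit 40475157444) (nat_lit 152) (nat_lit 93049724070) (nat_lit 0) (nat_lit 40466388913) (nat_lit 38) (nat_lit 5) (nat_lit 40) (nat_lit 4) (nat_lit 38) (nat_lit 4) (nat_lit 494) (nat_lit 265) (nat_lit 261)) (XT.lf (nat_lit 0) (nat_lit 76429360996) (nat_lit 76) (nat_lit 51012455163) (nat_lit 76) (nat_lit 51001749106) (nat_lit 37) (nat_lit 4) (nat_lit 38) (nat_lit 5) (nat_lit 38) (nat_lit 4) (nat_lit 495) (nat_lit 265) (nat_lit 260))) (XT.nd (nat_lit 78) (nat_lit 76) (nat_lit 0) (XT.lf (nat_lit 0) (nat_lit 35194050154) (nat_lit 152) (nat_lit 112679689143) (nat_lit 0) (nat_lit 35182096515) (nat_lit 35) (nat_lit 5) (nat_lit 37) (nat_lit 4) (nat_lit 35) (nat_lit 4) (nat_lit 496) (nat_lit 265) (nat_lit 259)) (XT.lf (nat_lit 0) (nat_lit 62112145573)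 (nat_lit 76) (nat_lit 62854669257) (nat_lit 76) (nat_lit 62841041910) (nat_lit 34) (nat_lit 4) (nat_lit 35) (nat_lit 5) (nat_lit 35) (nat_lit 4) (nat_lit 497) (nat_lit 265) (nat_lit 258)))) (XT.nd (nat_lit 156) (nat_lit 228) (nat_lit 0) (XT.nd (nat_lit 78) (nat_lit 76) (nat_lit 0) (XT.lf (nat_lit 0) (nat_lit 19883090353) (nat_lit 152) (nat_lit 35264299260) (nat_lit 0) (nat_lit 19883090353) (nat_lit 47) (nat_lit 5) (nat_lit 49) (nat_lit 4) (nat_lit 47) (nat_lit 4) (nat_lit 488) (nat_lit 266) (nat_lit 266)) (XT.lf (nat_lit 0) (nat_lit 80920446737) (nat_lit 76) (nat_lit 36433158861) (nat_lit 76) (nat_lit 36430296252) (nat_lit 46) (nat_lit 4) (nat_lit 47) (nat_lit 5) (nat_lit 47) (nat_lit 4) (nat_lit 489) (nat_lit 266) (nat_lit 265))) (XT.nd (nat_lit 78) (nat_lit 76) (nat_lit 0) (XT.lf (nat_lit 0) (nat_lit 40495301627) (nat_lit 152) (nat_lit 76641393429) (nat_lit 0) (nat_lit 40489978862) (nat_lit 44)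 (nat_lit 5) (nat_lit 46) (nat_lit 4) (nat_lit 44) (nat_lit 4) (nat_lit 490) (nat_lit 266) (nat_lit 264)) (XT.lf (nat_lit 0) (nat_lit 79755621323) (nat_lit 76) (nat_lit 40925980988) (nat_lit 76) (nat_lit 40918185393) (nat_lit 43) (nat_lit 4) (nat_lit 44) (nat_lit 5) (nat_lit 44) (nat_lit 4) (nat_lit 491) (nat_lit 266) (nat_lit 263))))) (XT.nd (nat_lit 312) (nat_lit 228) (nat_lit 0) (XT.nd (nat_lit 156) (nat_lit 228) (nat_lit 0) (XT.nd (nat_lit 78) (nat_lit 76) (nat_lit 0) (XT.lf (nat_lit 0) (nat_lit 38550756509) (nat_lit 152) (nat_lit 88614347967) (nat_lit 0) (nat_lit 38541089203) (nat_lit 41) (nat_lit 5) (nat_lit 43) (nat_lit 4) (nat_lit 41) (nat_lit 4) (nat_lit 492) (nat_lit 266) (nat_lit 262)) (XT.lf (nat_lit 0) (nat_lit 72794352663) (nat_lit 76) (nat_lit 48581958486) (nat_lit 76) (nat_lit 48570155058) (nat_lit 40) (nat_lit 4) (nat_lit 41) (nat_lit 5) (nat_lit 41) (nat_lit 4) (nat_lit 493) (nat_lit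 266) (nat_lit 261))) (XT.nd (nat_lit 78) (nat_lit 76) (nat_lit 0) (XT.lf (nat_lit 0) (nat_lit 33521165576) (nat_lit 152) (nat_lit 107309941398) (nat_lit 0) (nat_lit 33507986689) (nat_lit 38) (nat_lit 5) (nat_lit 40) (nat_lit 4) (nat_lit 38) (nat_lit 4) (nat_lit 494) (nat_lit 266) (nat_lit 260)) (XT.lf (nat_lit 0) (nat_lit 59158521368) (nat_lit 76) (nat_lit 59860661672) (nat_lit 76) (nat_lit 59845637522) (nat_lit 37) (nat_lit 4) (nat_lit 38) (nat_lit 5) (nat_lit 38) (nat_lit 4) (nat_lit 495) (nat_lit 266) (nat_lit 259)))) (XT.nd (nat_lit 52338) (nat_lit 0) (nat_lit 1140) (XT.nd (nat_lit 78) (nat_lit 76) (nat_lit 0) (XT.lf (nat_lit 0) (nat_lit 24946101285) (nat_lit 152) (nat_lit 133692130862) (nat_lit 0) (nat_lit 24930118862) (nat_lit 35) (nat_lit 5) (nat_lit 37) (nat_lit 4) (nat_lit 35) (nat_lit 4) (nat_lit 496) (nat_lit 266) (nat_lit 258)) (XT.lf (nat_lit 0) (nat_lit 37865818266) (nat_lit 76) (nat_lit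 75275503652) (nat_lit 76) (nat_lit 75257927221) (nat_lit 34) (nat_lit 4) (nat_lit 35) (nat_lit 5) (nat_lit 35) (nat_lit 4) (nat_lit 497) (nat_lit 266) (nat_lit 257))) (XT.nd (nat_lit 78) (nat_lit 76) (nat_lit 0) (XT.lf (nat_lit 0) (nat_lit 18937829903) (nat_lit 152) (nat_lit 33582088103) (nat_lit 0) (nat_lit 18937829903) (nat_lit 50) (nat_lit 5) (nat_lit 52) (nat_lit 4) (nat_lit 50) (nat_lit 4) (nat_lit 486) (nat_lit 267) (nat_lit 267)) (XT.lf (nat_lit 0) (nat_lit 77073059862) (nat_lit 76) (nat_lit 34695619623) (nat_lit 76) (nat_lit 34692463597) (nat_lit 49) (nat_lit 4) (nat_lit 50) (nat_lit 5) (nat_lit 50) (nat_lit 4) (nat_lit 487) (nat_lit 267) (nat_lit 266))))))) (XT.nd (nat_lit 53274) (nat_lit 0) (nat_lit 76) (XT.nd (nat_lit 624) (nat_lit 228) (nat_lit 0) (XT.nd (nat_lit 312) (nat_lit 456) (nat_lit 0) (XT.nd (nat_lit 156) (nat_lit 228) (nat_lit 0) (XT.nd (nat_lit 78) (nat_lit 76) (nat_lit 0)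 (XT.lf (nat_lit 0) (nat_lit 38570174726) (nat_lit 152) (nat_lit 72986429417) (nat_lit 0) (nat_lit 38564306377) (nat_lit 47) (nat_lit 5) (nat_lit 49) (nat_lit 4) (nat_lit 47) (nat_lit 4) (nat_lit 488) (nat_lit 267) (nat_lit 265)) (XT.lf (nat_lit 0) (nat_lit 75963160390) (nat_lit 76) (nat_lit 38975126171) (nat_lit 76) (nat_lit 38966531528) (nat_lit 46) (nat_lit 4) (nat_lit 47) (nat_lit 5) (nat_lit 47) (nat_lit 4) (nat_lit 489) (nat_lit 267) (nat_lit 264))) (XT.nd (nat_lit 78) (nat_lit 76) (nat_lit 0) (XT.lf (nat_lit 0) (nat_lit 36718299933) (nat_lit 152) (nat_lit 84389725471) (nat_lit 0) (nat_lit 36707641729) (nat_lit 44) (nat_lit 5) (nat_lit 46) (nat_lit 4) (nat_lit 44) (nat_lit 4) (nat_lit 490) (nat_lit 267) (nat_lit 263)) (XT.lf (nat_lit 0) (nat_lit 69332899682) (nat_lit 76) (nat_lit 46267063202) (nat_lit 76) (nat_lit 46254049922) (nat_lit 43) (nat_lit 4) (nat_lit 44) (nat_lit 5) (nat_lit 44)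 (nat_lit 4) (nat_lit 491) (nat_lit 267) (nat_lit 262)))) (XT.nd (nat_lit 156) (nat_lit 228) (nat_lit 0) (XT.nd (nat_lit 78) (nat_lit 76) (nat_lit 0) (XT.lf (nat_lit 0) (nat_lit 31928251982) (nat_lit 152) (nat_lit 102195480979) (nat_lit 0) (nat_lit 31913722259) (nat_lit 41) (nat_lit 5) (nat_lit 43) (nat_lit 4) (nat_lit 41) (nat_lit 4) (nat_lit 492) (nat_lit 267) (nat_lit 261)) (XT.lf (nat_lit 0) (nat_lit 56345965880) (nat_lit 76) (nat_lit 57009130747) (nat_lit 76) (nat_lit 56992566622) (nat_lit 40) (nat_lit 4) (nat_lit 41) (nat_lit 5) (nat_lit 41) (nat_lit 4) (nat_lit 493) (nat_lit 267) (nat_lit 260))) (XT.nd (nat_lit 78) (nat_lit 76) (nat_lit 0) (XT.lf (nat_lit 0) (nat_lit 23761534277) (nat_lit 152) (nat_lit 127321757118) (nat_lit 0) (nat_lit 23743913656) (nat_lit 38) (nat_lit 5) (nat_lit 40) (nat_lit 4) (nat_lit 38) (nat_lit 4) (nat_lit 494) (nat_lit 267) (nat_lit 259)) (XT.lf (nat_lit 0) (nat_lit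 36066819774) (nat_lit 76) (nat_lit 71690305751) (nat_lit 76) (nat_lit 71670927737) (nat_lit 37) (nat_lit 4) (nat_lit 38) (nat_lit 5) (nat_lit 38) (nat_lit 4) (nat_lit 495) (nat_lit 267) (nat_lit 258))))) (XT.nd (nat_lit 52338) (nat_lit 0) (nat_lit 912) (XT.nd (nat_lit 52182) (nat_lit 0) (nat_lit 1368) (XT.nd (nat_lit 78) (nat_lit 76) (nat_lit 0) (XT.lf (nat_lit 0) (nat_lit 11727823580) (nat_lit 152) (nat_lit 160793790636) (nat_lit 0) (nat_lit 11707774320) (nat_lit 35) (nat_lit 5) (nat_lit 37) (nat_lit 4) (nat_lit 35) (nat_lit 4) (nat_lit 496) (nat_lit 267) (nat_lit 257)) (XT.lf (nat_lit 0) (nat_lit 7449846302) (nat_lit 76) (nat_lit 90856423231) (nat_lit 76) (nat_lit 90834855868) (nat_lit 34) (nat_lit 4) (nat_lit 35) (nat_lit 5) (nat_lit 35) (nat_lit 4) (nat_lit 497) (nat_lit 267) (nat_lit 256))) (XT.nd (nat_lit 78) (nat_lit 76) (nat_lit 0) (XT.lf (nat_lit 0) (nat_lit 18037741076) (nat_lit 152)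 (nat_lit 31979678961) (nat_lit 0) (nat_lit 18037741076) (nat_lit 53) (nat_lit 5) (nat_lit 55) (nat_lit 4) (nat_lit 53) (nat_lit 4) (nat_lit 484) (nat_lit 268) (nat_lit 268)) (XT.lf (nat_lit 0) (nat_lit 73409493579) (nat_lit 76) (nat_lit 33040551091) (nat_lit 76) (nat_lit 33037071571) (nat_lit 52) (nat_lit 4) (nat_lit 53) (nat_lit 5) (nat_lit 53) (nat_lit 4) (nat_lit 485) (nat_lit 268) (nat_lit 267)))) (XT.nd (nat_lit 156) (nat_lit 228) (nat_lit 0) (XT.nd (nat_lit 78) (nat_lit 76) (nat_lit 0) (XT.lf (nat_lit 0) (nat_lit 36737050665) (nat_lit 152) (nat_lit 69504960491) (nat_lit 0) (nat_lit 36730580810) (nat_lit 50) (nat_lit 5) (nat_lit 52) (nat_lit 4) (nat_lit 50) (nat_lit 4) (nat_lit 486) (nat_lit 268) (nat_lit 266)) (XT.lf (nat_lit 0) (nat_lit 72351848979) (nat_lit 76) (nat_lit 37116964348) (nat_lit 76) (nat_lit 37107488754) (nat_lit 49) (nat_lit 4) (nat_lit 50) (nat_lit 5) (nat_lit 50) (nat_lit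 4) (nat_lit 487) (nat_lit 268) (nat_lit 265))) (XT.nd (nat_lit 78) (nat_lit 76) (nat_lit 0) (XT.lf (nat_lit 0) (nat_lit 34973440802) (nat_lit 152) (nat_lit 80365774082) (nat_lit 0) (nat_lit 34961690132) (nat_lit 47) (nat_lit 5) (nat_lit 49) (nat_lit 4) (nat_lit 47) (nat_lit 4) (nat_lit 488) (nat_lit 268) (nat_lit 264)) (XT.lf (nat_lit 0) (nat_lit 66036784634) (nat_lit 76) (nat_lit 44062250485) (nat_lit 76) (nat_lit 44047903344) (nat_lit 46) (nat_lit 4) (nat_lit 47) (nat_lit 5) (nat_lit 47) (nat_lit 4) (nat_lit 489) (nat_lit 268) (nat_lit 263)))))) (XT.nd (nat_lit 52494) (nat_lit 0) (nat_lit 836) (XT.nd (nat_lit 312) (nat_lit 380) (nat_lit 0) (XT.nd (nat_lit 156) (nat_lit 228) (nat_lit 0) (XT.nd (nat_lit 78) (nat_lit 76) (nat_lit 0) (XT.lf (nat_lit 0) (nat_lit 30411532985) (nat_lit 152) (nat_lit 97324108816) (nat_lit 0) (nat_lit 30395513966) (nat_lit 44) (nat_lit 5) (nat_lit 46) (nat_lit 4) (nat_lit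 44) (nat_lit 4) (nat_lit 490) (nat_lit 268) (nat_lit 262)) (XT.lf (nat_lit 0) (nat_lit 53667804592) (nat_lit 76) (nat_lit 54293282128) (nat_lit 76) (nat_lit 54275020180) (nat_lit 43) (nat_lit 4) (nat_lit 44) (nat_lit 5) (nat_lit 44) (nat_lit 4) (nat_lit 491) (nat_lit 268) (nat_lit 261))) (XT.nd (nat_lit 78) (nat_lit 76) (nat_lit 0) (XT.lf (nat_lit 0) (nat_lit 22633717837) (nat_lit 152) (nat_lit 121254316119) (nat_lit 0) (nat_lit 22614291102) (nat_lit 41) (nat_lit 5) (nat_lit 43) (nat_lit 4) (nat_lit 41) (nat_lit 4) (nat_lit 492) (nat_lit 268) (nat_lit 260)) (XT.lf (nat_lit 0) (nat_lit 34353911788) (nat_lit 76) (nat_lit 68275764924) (nat_lit 76) (nat_lit 68254400663) (nat_lit 40) (nat_lit 4) (nat_lit 41) (nat_lit 5) (nat_lit 41) (nat_lit 4) (nat_lit 493) (nat_lit 268) (nat_lit 259)))) (XT.nd (nat_lit 156) (nat_lit 152) (nat_lit 0) (XT.nd (nat_lit 78) (nat_lit 76) (nat_lit 0) (XT.lf (nat_lit 0) (nat_lit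 11173026331) (nat_lit 152) (nat_lit 153132818410) (nat_lit 0) (nat_lit 11150922022) (nat_lit 38) (nat_lit 5) (nat_lit 40) (nat_lit 4) (nat_lit 38) (nat_lit 4) (nat_lit 494) (nat_lit 268) (nat_lit 258)) (XT.lf (nat_lit 0) (nat_lit 7099275972) (nat_lit 76) (nat_lit 86529553220) (nat_lit 76) (nat_lit 86505775202) (nat_lit 37) (nat_lit 4) (nat_lit 38) (nat_lit 5) (nat_lit 38) (nat_lit 4) (nat_lit 495) (nat_lit 268) (nat_lit 257))) (XT.nd (nat_lit 78) (nat_lit 152) (nat_lit 0) (XT.lf (nat_lit 0) (nat_lit 176162965385) (nat_lit 76) (nat_lit 4444372384) (nat_lit 76) (nat_lit 4419000358) (nat_lit 37) (nat_lit 4) (nat_lit 38) (nat_lit 5) (nat_lit 38) (nat_lit 4) (nat_lit 496) (nat_lit 268) (nat_lit 256)) (XT.lf (nat_lit 0) (nat_lit 80882357811) (nat_lit 152) (nat_lit 28273344834) (nat_lit 0) (nat_lit 80856748165) (nat_lit 35) (nat_lit 5) (nat_lit 37) (nat_lit 4) (nat_lit 35) (nat_lit 4) (nat_lit 497) (nat_lit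 268) (nat_lit 255))))) (XT.nd (nat_lit 312) (nat_lit 456) (nat_lit 0) (XT.nd (nat_lit 156) (nat_lit 228) (nat_lit 0) (XT.nd (nat_lit 78) (nat_lit 76) (nat_lit 0) (XT.lf (nat_lit 0) (nat_lit 17180689163) (nat_lit 152) (nat_lit 30453240651) (nat_lit 0) (nat_lit 17180689163) (nat_lit 56) (nat_lit 5) (nat_lit 58) (nat_lit 4) (nat_lit 56) (nat_lit 4) (nat_lit 482) (nat_lit 269) (nat_lit 269)) (XT.lf (nat_lit 0) (nat_lit 69921057225) (nat_lit 76) (nat_lit 31463998488) (nat_lit 76) (nat_lit 31460162318) (nat_lit 55) (nat_lit 4) (nat_lit 56) (nat_lit 5) (nat_lit 56) (nat_lit 4) (nat_lit 483) (nat_lit 269) (nat_lit 268))) (XT.nd (nat_lit 78) (nat_lit 76) (nat_lit 0) (XT.lf (nat_lit 0) (nat_lit 34991582196) (nat_lit 152) (nat_lit 66188668521) (nat_lit 0) (nat_lit 34984449181) (nat_lit 53) (nat_lit 5) (nat_lit 55) (nat_lit 4) (nat_lit 53) (nat_lit 4) (nat_lit 484) (nat_lit 269) (nat_lit 267)) (XT.lf (nat_lit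 0) (nat_lit 68913117927) (nat_lit 76) (nat_lit 35347060570) (nat_lit 76) (nat_lit 35336613728) (nat_lit 52) (nat_lit 4) (nat_lit 53) (nat_lit 5) (nat_lit 53) (nat_lit 4) (nat_lit 485) (nat_lit 269) (nat_lit 266)))) (XT.nd (nat_lit 156) (nat_lit 228) (nat_lit 0) (XT.nd (nat_lit 78) (nat_lit 76) (nat_lit 0) (XT.lf (nat_lit 0) (nat_lit 33312042414) (nat_lit 152) (nat_lit 76532886640) (nat_lit 0) (nat_lit 33299087300) (nat_lit 50) (nat_lit 5) (nat_lit 52) (nat_lit 4) (nat_lit 50) (nat_lit 4) (nat_lit 486) (nat_lit 269) (nat_lit 265)) (XT.lf (nat_lit 0) (nat_lit 62898186234) (nat_lit 76) (nat_lit 41962262879) (nat_lit 76) (nat_lit 41946445156) (nat_lit 49) (nat_lit 4) (nat_lit 50) (nat_lit 5) (nat_lit 50) (nat_lit 4) (nat_lit 487) (nat_lit 269) (nat_lit 264))) (XT.nd (nat_lit 78) (nat_lit 76) (nat_lit 0) (XT.lf (nat_lit 0) (nat_lit 28967415284) (nat_lit 152) (nat_lit 92684202385) (nat_lit 0) (nat_lit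 28949754315) (nat_lit 47) (nat_lit 5) (nat_lit 49) (nat_lit 4) (nat_lit 47) (nat_lit 4) (nat_lit 488) (nat_lit 269) (nat_lit 263)) (XT.lf (nat_lit 0) (nat_lit 51117685240) (nat_lit 76) (nat_lit 51706644003) (nat_lit 76) (nat_lit 51686510205) (nat_lit 46) (nat_lit 4) (nat_lit 47) (nat_lit 5) (nat_lit 47) (nat_lit 4) (nat_lit 489) (nat_lit 269) (nat_lit 262))))))))
noncomputable def xc1 : XT := (XT.nd (nat_lit 105768) (nat_lit 0) (nat_lit 0) (XT.nd (nat_lit 52962) (nat_lit 0) (nat_lit 0) (XT.nd (nat_lit 52338) (nat_lit 0) (nat_lit 1064) (XT.nd (nat_lit 312) (nat_lit 380) (nat_lit 0) (XT.nd (nat_lit 156) (nat_lit 228) (nat_lit 0) (XT.nd (nat_lit 78) (nat_lit 76) (nat_lit 0) (XT.lf (nat_lit 0) (nat_lit 21559984673) (nat_lit 152) (nat_lit 115475339614) (nat_lit 0) (nat_lit 21538566698) (nat_lit 44) (nat_lit 5) (nat_lit 46) (nat_lit 4) (nat_lit 44) (nat_lit 4) (nat_lit 490) (nat_lit 269) (nat_lit 261))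 (XT.lf (nat_lit 0) (nat_lit 32723038209) (nat_lit 76) (nat_lit 65023747813) (nat_lit 76) (nat_lit 65000193715) (nat_lit 43) (nat_lit 4) (nat_lit 44) (nat_lit 5) (nat_lit 44) (nat_lit 4) (nat_lit 491) (nat_lit 269) (nat_lit 260))) (XT.nd (nat_lit 78) (nat_lit 76) (nat_lit 0) (XT.lf (nat_lit 0) (nat_lit 10645024230) (nat_lit 152) (nat_lit 145836231566) (nat_lit 0) (nat_lit 10620654229) (nat_lit 41) (nat_lit 5) (nat_lit 43) (nat_lit 4) (nat_lit 41) (nat_lit 4) (nat_lit 492) (nat_lit 269) (nat_lit 259)) (XT.lf (nat_lit 0) (nat_lit 6765828354) (nat_lit 76) (nat_lit 82408686337) (nat_lit 76) (nat_lit 82382471072) (nat_lit 40) (nat_lit 4) (nat_lit 41) (nat_lit 5) (nat_lit 41) (nat_lit 4) (nat_lit 493) (nat_lit 269) (nat_lit 258)))) (XT.nd (nat_lit 156) (nat_lit 228) (nat_lit 0) (XT.nd (nat_lit 78) (nat_lit 152) (nat_lit 0) (XT.lf (nat_lit 0) (nat_lit 167778784840) (nat_lit 76) (nat_lit 4232481877) (nat_lit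 76) (nat_lit 4204509219) (nat_lit 40) (nat_lit 4) (nat_lit 41) (nat_lit 5) (nat_lit 41) (nat_lit 4) (nat_lit 494) (nat_lit 269) (nat_lit 257)) (XT.lf (nat_lit 0) (nat_lit 77034895369) (nat_lit 152) (nat_lit 26922888111) (nat_lit 0) (nat_lit 77006660735) (nat_lit 38) (nat_lit 5) (nat_lit 40) (nat_lit 4) (nat_lit 38) (nat_lit 4) (nat_lit 495) (nat_lit 269) (nat_lit 256))) (XT.nd (nat_lit 78) (nat_lit 152) (nat_lit 0) (XT.lf (nat_lit 0) (nat_lit 139161672744) (nat_lit 76) (nat_lit 23398460733) (nat_lit 76) (nat_lit 23368707995) (nat_lit 37) (nat_lit 4) (nat_lit 38) (nat_lit 5) (nat_lit 38) (nat_lit 4) (nat_lit 496) (nat_lit 269) (nat_lit 255)) (XT.lf (nat_lit 0) (nat_lit 60586125579) (nat_lit 152) (nat_lit 69884860482) (nat_lit 0) (nat_lit 60556412675) (nat_lit 35) (nat_lit 5) (nat_lit 37) (nat_lit 4) (nat_lit 35) (nat_lit 4) (nat_lit 497) (nat_lit 269) (nat_lit 254))))) (XT.nd (nat_lit 312) (nat_lit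 456) (nat_lit 0) (XT.nd (nat_lit 156) (nat_lit 228) (nat_lit 0) (XT.nd (nat_lit 78) (nat_lit 76) (nat_lit 0) (XT.lf (nat_lit 0) (nat_lit 16364642780) (nat_lit 152) (nat_lit 28999121244) (nat_lit 0) (nat_lit 16364642780) (nat_lit 59) (nat_lit 5) (nat_lit 61) (nat_lit 4) (nat_lit 59) (nat_lit 4) (nat_lit 480) (nat_lit 270) (nat_lit 270)) (XT.lf (nat_lit 0) (nat_lit 66599480403) (nat_lit 76) (nat_lit 29962192534) (nat_lit 76) (nat_lit 29957963156) (nat_lit 58) (nat_lit 4) (nat_lit 59) (nat_lit 5) (nat_lit 59) (nat_lit 4) (nat_lit 481) (nat_lit 270) (nat_lit 269))) (XT.nd (nat_lit 78) (nat_lit 76) (nat_lit 0) (XT.lf (nat_lit 0) (nat_lit 33329632550) (nat_lit 152) (nat_lit 63029625692) (nat_lit 0) (nat_lit 33321768401) (nat_lit 56) (nat_lit 5) (nat_lit 58) (nat_lit 4) (nat_lit 56) (nat_lit 4) (nat_lit 482) (nat_lit 270) (nat_lit 268)) (XT.lf (nat_lit 0) (nat_lit 65638811970) (nat_lit 76) (nat_lit 33661188922)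 (nat_lit 76) (nat_lit 33649671279) (nat_lit 55) (nat_lit 4) (nat_lit 56) (nat_lit 5) (nat_lit 56) (nat_lit 4) (nat_lit 483) (nat_lit 270) (nat_lit 267)))) (XT.nd (nat_lit 156) (nat_lit 228) (nat_lit 0) (XT.nd (nat_lit 78) (nat_lit 76) (nat_lit 0) (XT.lf (nat_lit 0) (nat_lit 31730168599) (nat_lit 152) (nat_lit 72881908201) (nat_lit 0) (nat_lit 31715885586) (nat_lit 53) (nat_lit 5) (nat_lit 55) (nat_lit 4) (nat_lit 53) (nat_lit 4) (nat_lit 484) (nat_lit 270) (nat_lit 266)) (XT.lf (nat_lit 0) (nat_lit 59909660967) (nat_lit 76) (nat_lit 39962091699) (nat_lit 76) (nat_lit 39944652660) (nat_lit 52) (nat_lit 4) (nat_lit 53) (nat_lit 5) (nat_lit 53) (nat_lit 4) (nat_lit 485) (nat_lit 270) (nat_lit 265))) (XT.nd (nat_lit 78) (nat_lit 76) (nat_lit 0) (XT.lf (nat_lit 0) (nat_lit 27592480271) (nat_lit 152) (nat_lit 88264687812) (nat_lit 0) (nat_lit 27573009053) (nat_lit 50) (nat_lit 5) (nat_lit 52) (nat_lit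 4) (nat_lit 50) (nat_lit 4) (nat_lit 486) (nat_lit 270) (nat_lit 264)) (XT.lf (nat_lit 0) (nat_lit 48689562907) (nat_lit 76) (nat_lit 49243051639) (nat_lit 76) (nat_lit 49220854126) (nat_lit 49) (nat_lit 4) (nat_lit 50) (nat_lit 5) (nat_lit 50) (nat_lit 4) (nat_lit 487) (nat_lit 270) (nat_lit 263)))))) (XT.nd (nat_lit 624) (nat_lit 228) (nat_lit 0) (XT.nd (nat_lit 312) (nat_lit 380) (nat_lit 0) (XT.nd (nat_lit 156) (nat_lit 228) (nat_lit 0) (XT.nd (nat_lit 78) (nat_lit 76) (nat_lit 0) (XT.lf (nat_lit 0) (nat_lit 20537798109) (nat_lit 152) (nat_lit 109971043918) (nat_lit 0) (nat_lit 20514184792) (nat_lit 47) (nat_lit 5) (nat_lit 49) (nat_lit 4) (nat_lit 47) (nat_lit 4) (nat_lit 488) (nat_lit 270) (nat_lit 262)) (XT.lf (nat_lit 0) (nat_lit 31170340543) (nat_lit 76) (nat_lit 61926507663) (nat_lit 76) (nat_lit 61900539270) (nat_lit 46) (nat_lit 4) (nat_lit 47) (nat_lit 5) (nat_lit 47) (nat_lit 4) (nat_lit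 489) (nat_lit 270) (nat_lit 261))) (XT.nd (nat_lit 78) (nat_lit 76) (nat_lit 0) (XT.lf (nat_lit 0) (nat_lit 10142579880) (nat_lit 152) (nat_lit 138886635082) (nat_lit 0) (nat_lit 10115711954) (nat_lit 44) (nat_lit 5) (nat_lit 46) (nat_lit 4) (nat_lit 44) (nat_lit 4) (nat_lit 490) (nat_lit 270) (nat_lit 260)) (XT.lf (nat_lit 0) (nat_lit 6448732041) (nat_lit 76) (nat_lit 78484008983) (nat_lit 76) (nat_lit 78455106654) (nat_lit 43) (nat_lit 4) (nat_lit 44) (nat_lit 5) (nat_lit 44) (nat_lit 4) (nat_lit 491) (nat_lit 270) (nat_lit 259)))) (XT.nd (nat_lit 156) (nat_lit 228) (nat_lit 0) (XT.nd (nat_lit 78) (nat_lit 152) (nat_lit 0) (XT.lf (nat_lit 0) (nat_lit 159794315527) (nat_lit 76) (nat_lit 4030655387) (nat_lit 76) (nat_lit 3999815531) (nat_lit 43) (nat_lit 4) (nat_lit 44) (nat_lit 5) (nat_lit 44) (nat_lit 4) (nat_lit 492) (nat_lit 270) (nat_lit 258)) (XT.lf (nat_lit 0) (nat_lit 73371063461) (nat_lit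 152) (nat_lit 25636317888) (nat_lit 0) (nat_lit 73339934777) (nat_lit 41) (nat_lit 5) (nat_lit 43) (nat_lit 4) (nat_lit 41) (nat_lit 4) (nat_lit 493) (nat_lit 270) (nat_lit 257))) (XT.nd (nat_lit 78) (nat_lit 152) (nat_lit 0) (XT.lf (nat_lit 0) (nat_lit 132539526879) (nat_lit 76) (nat_lit 22284290850) (nat_lit 76) (nat_lit 22251488457) (nat_lit 40) (nat_lit 4) (nat_lit 41) (nat_lit 5) (nat_lit 41) (nat_lit 4) (nat_lit 494) (nat_lit 270) (nat_lit 256)) (XT.lf (nat_lit 0) (nat_lit 57705493242) (nat_lit 152) (nat_lit 66552836601) (nat_lit 0) (nat_lit 57672734765) (nat_lit 38) (nat_lit 5) (nat_lit 40) (nat_lit 4) (nat_lit 38) (nat_lit 4) (nat_lit 495) (nat_lit 270) (nat_lit 255))))) (XT.nd (nat_lit 51870) (nat_lit 0) (nat_lit 1520) (XT.nd (nat_lit 51714) (nat_lit 0) (nat_lit 1976) (XT.nd (nat_lit 78) (nat_lit 152) (nat_lit 0) (XT.lf (nat_lit 0) (nat_lit 96231916051) (nat_lit 76) (nat_lit 45389117497)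 (nat_lit 76) (nat_lit 45354913208) (nat_lit 37) (nat_lit 4) (nat_lit 38) (nat_lit 5) (nat_lit 38) (nat_lit 4) (nat_lit 496) (nat_lit 270) (nat_lit 254)) (XT.lf (nat_lit 0) (nat_lit 37252935496) (nat_lit 152) (nat_lit 117722217287) (nat_lit 0) (nat_lit 37219048589) (nat_lit 35) (nat_lit 5) (nat_lit 37) (nat_lit 4) (nat_lit 35) (nat_lit 4) (nat_lit 497) (nat_lit 270) (nat_lit 253))) (XT.nd (nat_lit 78) (nat_lit 76) (nat_lit 0) (XT.lf (nat_lit 0) (nat_lit 15587669120) (nat_lit 152) (nat_lit 27613839196) (nat_lit 0) (nat_lit 15587669120) (nat_lit 62) (nat_lit 5) (nat_lit 64) (nat_lit 4) (nat_lit 62) (nat_lit 4) (nat_lit 478) (nat_lit 271) (nat_lit 271)) (XT.lf (nat_lit 0) (nat_lit 63436893632) (nat_lit 76) (nat_lit 28531540316) (nat_lit 76) (nat_lit 28526877428) (nat_lit 61) (nat_lit 4) (nat_lit 62) (nat_lit 5) (nat_lit 62) (nat_lit 4) (nat_lit 479) (nat_lit 271) (nat_lit 270)))) (XT.nd (nat_lit 156)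 (nat_lit 228) (nat_lit 0) (XT.nd (nat_lit 78) (nat_lit 76) (nat_lit 0) (XT.lf (nat_lit 0) (nat_lit 31747265771) (nat_lit 152) (nat_lit 60020275323) (nat_lit 0) (nat_lit 31738595547) (nat_lit 59) (nat_lit 5) (nat_lit 61) (nat_lit 4) (nat_lit 59) (nat_lit 4) (nat_lit 480) (nat_lit 271) (nat_lit 269)) (XT.lf (nat_lit 0) (nat_lit 62521170630) (nat_lit 76) (nat_lit 32055322353) (nat_lit 76) (nat_lit 32042624150) (nat_lit 58) (nat_lit 4) (nat_lit 59) (nat_lit 5) (nat_lit 59) (nat_lit 4) (nat_lit 481) (nat_lit 271) (nat_lit 268))) (XT.nd (nat_lit 78) (nat_lit 76) (nat_lit 0) (XT.lf (nat_lit 0) (nat_lit 30224074535) (nat_lit 152) (nat_lit 69404113964) (nat_lit 0) (nat_lit 30208327514) (nat_lit 56) (nat_lit 5) (nat_lit 58) (nat_lit 4) (nat_lit 56) (nat_lit 4) (nat_lit 482) (nat_lit 271) (nat_lit 267)) (XT.lf (nat_lit 0) (nat_lit 57064125638) (nat_lit 76) (nat_lit 38056965027) (nat_lit 76) (nat_lit 38037738486)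 (nat_lit 55) (nat_lit 4) (nat_lit 56) (nat_lit 5) (nat_lit 56) (nat_lit 4) (nat_lit 483) (nat_lit 271) (nat_lit 266))))))) (XT.nd (nat_lit 52650) (nat_lit 0) (nat_lit 456) (XT.nd (nat_lit 624) (nat_lit 684) (nat_lit 0) (XT.nd (nat_lit 312) (nat_lit 380) (nat_lit 0) (XT.nd (nat_lit 156) (nat_lit 228) (nat_lit 0) (XT.nd (nat_lit 78) (nat_lit 76) (nat_lit 0) (XT.lf (nat_lit 0) (nat_lit 26283476091) (nat_lit 152) (nat_lit 84055013247) (nat_lit 0) (nat_lit 26262009073) (nat_lit 53) (nat_lit 5) (nat_lit 55) (nat_lit 4) (nat_lit 53) (nat_lit 4) (nat_lit 484) (nat_lit 271) (nat_lit 265)) (XT.lf (nat_lit 0) (nat_lit 46377685895) (nat_lit 76) (nat_lit 46896632646) (nat_lit 76) (nat_lit 46872159889) (nat_lit 52) (nat_lit 4) (nat_lit 53) (nat_lit 5) (nat_lit 53) (nat_lit 4) (nat_lit 485) (nat_lit 271) (nat_lit 264))) (XT.nd (nat_lit 78) (nat_lit 76) (nat_lit 0) (XT.lf (nat_lit 0) (nat_lit 19564746232) (nat_lit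 152) (nat_lit 104728296865) (nat_lit 0) (nat_lit 19538712550) (nat_lit 50) (nat_lit 5) (nat_lit 52) (nat_lit 4) (nat_lit 50) (nat_lit 4) (nat_lit 486) (nat_lit 271) (nat_lit 263)) (XT.lf (nat_lit 0) (nat_lit 29692148941) (nat_lit 76) (nat_lit 58976665840) (nat_lit 76) (nat_lit 58948035687) (nat_lit 49) (nat_lit 4) (nat_lit 50) (nat_lit 5) (nat_lit 50) (nat_lit 4) (nat_lit 487) (nat_lit 271) (nat_lit 262)))) (XT.nd (nat_lit 156) (nat_lit 152) (nat_lit 0) (XT.nd (nat_lit 78) (nat_lit 76) (nat_lit 0) (XT.lf (nat_lit 0) (nat_lit 9664518762) (nat_lit 152) (nat_lit 132267457826) (nat_lit 0) (nat_lit 9634896873) (nat_lit 47) (nat_lit 5) (nat_lit 49) (nat_lit 4) (nat_lit 47) (nat_lit 4) (nat_lit 488) (nat_lit 271) (nat_lit 261)) (XT.lf (nat_lit 0) (nat_lit 6147256866) (nat_lit 76) (nat_lit 74746174473) (nat_lit 76) (nat_lit 74714309655) (nat_lit 46) (nat_lit 4) (nat_lit 47) (nat_lit 5) (nat_lit 47) (nat_lit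 4) (nat_lit 489) (nat_lit 271) (nat_lit 260))) (XT.nd (nat_lit 78) (nat_lit 152) (nat_lit 0) (XT.lf (nat_lit 0) (nat_lit 152190571192) (nat_lit 76) (nat_lit 3838411009) (nat_lit 76) (nat_lit 3804410068) (nat_lit 46) (nat_lit 4) (nat_lit 47) (nat_lit 5) (nat_lit 47) (nat_lit 4) (nat_lit 490) (nat_lit 271) (nat_lit 259)) (XT.lf (nat_lit 0) (nat_lit 69882160625) (nat_lit 152) (nat_lit 24410548800) (nat_lit 0) (nat_lit 69847841250) (nat_lit 44) (nat_lit 5) (nat_lit 46) (nat_lit 4) (nat_lit 44) (nat_lit 4) (nat_lit 491) (nat_lit 271) (nat_lit 258))))) (XT.nd (nat_lit 312) (nat_lit 228) (nat_lit 0) (XT.nd (nat_lit 156) (nat_lit 228) (nat_lit 0) (XT.nd (nat_lit 78) (nat_lit 152) (nat_lit 0) (XT.lf (nat_lit 0) (nat_lit 126233192840) (nat_lit 76) (nat_lit 21223181035) (nat_lit 76) (nat_lit 21187016397) (nat_lit 43) (nat_lit 4) (nat_lit 44) (nat_lit 5) (nat_lit 44) (nat_lit 4) (nat_lit 492) (nat_lit 271)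 (nat_lit 257)) (XT.lf (nat_lit 0) (nat_lit 54962487053) (nat_lit 152) (nat_lit 63379052753) (nat_lit 0) (nat_lit 54926370832) (nat_lit 41) (nat_lit 5) (nat_lit 43) (nat_lit 4) (nat_lit 41) (nat_lit 4) (nat_lit 493) (nat_lit 271) (nat_lit 256))) (XT.nd (nat_lit 78) (nat_lit 152) (nat_lit 0) (XT.lf (nat_lit 0) (nat_lit 91654123632) (nat_lit 76) (nat_lit 43228069843) (nat_lit 76) (nat_lit 43190359615) (nat_lit 40) (nat_lit 4) (nat_lit 41) (nat_lit 5) (nat_lit 41) (nat_lit 4) (nat_lit 494) (nat_lit 271) (nat_lit 255)) (XT.lf (nat_lit 0) (nat_lit 35483760831) (nat_lit 152) (nat_lit 112112147684) (nat_lit 0) (nat_lit 35446400515) (nat_lit 38) (nat_lit 5) (nat_lit 40) (nat_lit 4) (nat_lit 38) (nat_lit 4) (nat_lit 495) (nat_lit 271) (nat_lit 254)))) (XT.nd (nat_lit 51558) (nat_lit 0) (nat_lit 2204) (XT.nd (nat_lit 78) (nat_lit 152) (nat_lit 0) (XT.lf (nat_lit 0) (nat_lit 47271481600) (nat_lit 76) (nat_lit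 70468701382) (nat_lit 76) (nat_lit 70429964103) (nat_lit 37) (nat_lit 4) (nat_lit 38) (nat_lit 5) (nat_lit 38) (nat_lit 4) (nat_lit 496) (nat_lit 271) (nat_lit 253)) (XT.lf (nat_lit 0) (nat_lit 10827232347) (nat_lit 152) (nat_lit 171899313716) (nat_lit 0) (nat_lit 10789090753) (nat_lit 35) (nat_lit 5) (nat_lit 37) (nat_lit 4) (nat_lit 35) (nat_lit 4) (nat_lit 497) (nat_lit 271) (nat_lit 252))) (XT.nd (nat_lit 78) (nat_lit 76) (nat_lit 0) (XT.lf (nat_lit 0) (nat_lit 14847929448) (nat_lit 152) (nat_lit 26294074880) (nat_lit 0) (nat_lit 14847929448) (nat_lit 65) (nat_lit 5) (nat_lit 67) (nat_lit 4) (nat_lit 65) (nat_lit 4) (nat_lit 476) (nat_lit 272) (nat_lit 272)) (XT.lf (nat_lit 0) (nat_lit 60425809981) (nat_lit 76) (nat_lit 27168616578) (nat_lit 76) (nat_lit 27163475743) (nat_lit 64) (nat_lit 4) (nat_lit 65) (nat_lit 5) (nat_lit 65) (nat_lit 4) (nat_lit 477) (nat_lit 272) (nat_lit 271)))))) (XT.nd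 (nat_lit 624) (nat_lit 836) (nat_lit 0) (XT.nd (nat_lit 312) (nat_lit 456) (nat_lit 0) (XT.nd (nat_lit 156) (nat_lit 228) (nat_lit 0) (XT.nd (nat_lit 78) (nat_lit 76) (nat_lit 0) (XT.lf (nat_lit 0) (nat_lit 30240737546) (nat_lit 152) (nat_lit 57153413541) (nat_lit 0) (nat_lit 30231178624) (nat_lit 62) (nat_lit 5) (nat_lit 64) (nat_lit 4) (nat_lit 62) (nat_lit 4) (nat_lit 478) (nat_lit 272) (nat_lit 270)) (XT.lf (nat_lit 0) (nat_lit 59552810080) (nat_lit 76) (nat_lit 30525622956) (nat_lit 76) (nat_lit 30511623188) (nat_lit 61) (nat_lit 4) (nat_lit 62) (nat_lit 5) (nat_lit 62) (nat_lit 4) (nat_lit 479) (nat_lit 272) (nat_lit 269))) (XT.nd (nat_lit 78) (nat_lit 76) (nat_lit 0) (XT.lf (nat_lit 0) (nat_lit 28790198037) (nat_lit 152) (nat_lit 66091188189) (nat_lit 0) (nat_lit 28772836946) (nat_lit 59) (nat_lit 5) (nat_lit 61) (nat_lit 4) (nat_lit 59) (nat_lit 4) (nat_lit 480) (nat_lit 272) (nat_lit 268))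 (XT.lf (nat_lit 0) (nat_lit 54354840823) (nat_lit 76) (nat_lit 36242336255) (nat_lit 76) (nat_lit 36221138994) (nat_lit 58) (nat_lit 4) (nat_lit 59) (nat_lit 5) (nat_lit 59) (nat_lit 4) (nat_lit 481) (nat_lit 272) (nat_lit 267)))) (XT.nd (nat_lit 156) (nat_lit 228) (nat_lit 0) (XT.nd (nat_lit 78) (nat_lit 76) (nat_lit 0) (XT.lf (nat_lit 0) (nat_lit 25037310096) (nat_lit 152) (nat_lit 80045123471) (nat_lit 0) (nat_lit 25013642709) (nat_lit 56) (nat_lit 5) (nat_lit 58) (nat_lit 4) (nat_lit 56) (nat_lit 4) (nat_lit 482) (nat_lit 272) (nat_lit 266)) (XT.lf (nat_lit 0) (nat_lit 44176582309) (nat_lit 76) (nat_lit 44661792935) (nat_lit 76) (nat_lit 44634811720) (nat_lit 55) (nat_lit 4) (nat_lit 56) (nat_lit 5) (nat_lit 56) (nat_lit 4) (nat_lit 483) (nat_lit 272) (nat_lit 265))) (XT.nd (nat_lit 78) (nat_lit 76) (nat_lit 0) (XT.lf (nat_lit 0) (nat_lit 18638536356) (nat_lit 152) (nat_lit 99734586290) (nat_lit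 0) (nat_lit 18609834221) (nat_lit 53) (nat_lit 5) (nat_lit 55) (nat_lit 4) (nat_lit 53) (nat_lit 4) (nat_lit 484) (nat_lit 272) (nat_lit 264)) (XT.lf (nat_lit 0) (nat_lit 28284973725) (nat_lit 76) (nat_lit 56167194224) (nat_lit 76) (nat_lit 56135629480) (nat_lit 52) (nat_lit 4) (nat_lit 53) (nat_lit 5) (nat_lit 53) (nat_lit 4) (nat_lit 485) (nat_lit 272) (nat_lit 263))))) (XT.nd (nat_lit 312) (nat_lit 456) (nat_lit 0) (XT.nd (nat_lit 156) (nat_lit 152) (nat_lit 0) (XT.nd (nat_lit 78) (nat_lit 76) (nat_lit 0) (XT.lf (nat_lit 0) (nat_lit 9209726644) (nat_lit 152) (nat_lit 125962912870) (nat_lit 0) (nat_lit 9177068512) (nat_lit 50) (nat_lit 5) (nat_lit 52) (nat_lit 4) (nat_lit 50) (nat_lit 4) (nat_lit 486) (nat_lit 272) (nat_lit 262)) (XT.lf (nat_lit 0) (nat_lit 5860712400) (nat_lit 76) (nat_lit 71186280755) (nat_lit 76) (nat_lit 71151149794) (nat_lit 49) (nat_lit 4) (nat_lit 50) (nat_lit 5) (nat_lit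 50) (nat_lit 4) (nat_lit 487) (nat_lit 272) (nat_lit 261))) (XT.nd (nat_lit 78) (nat_lit 152) (nat_lit 0) (XT.lf (nat_lit 0) (nat_lit 144949474572) (nat_lit 76) (nat_lit 3655289514) (nat_lit 76) (nat_lit 3617803477) (nat_lit 49) (nat_lit 4) (nat_lit 50) (nat_lit 5) (nat_lit 50) (nat_lit 4) (nat_lit 488) (nat_lit 272) (nat_lit 260)) (XT.lf (nat_lit 0) (nat_lit 66559904144) (nat_lit 152) (nat_lit 23242637984) (nat_lit 0) (nat_lit 66522067034) (nat_lit 47) (nat_lit 5) (nat_lit 49) (nat_lit 4) (nat_lit 47) (nat_lit 4) (nat_lit 489) (nat_lit 272) (nat_lit 259)))) (XT.nd (nat_lit 156) (nat_lit 228) (nat_lit 0) (XT.nd (nat_lit 78) (nat_lit 152) (nat_lit 0) (XT.lf (nat_lit 0) (nat_lit 120227680302) (nat_lit 76) (nat_lit 20212605066) (nat_lit 76) (nat_lit 20172733552) (nat_lit 46) (nat_lit 4) (nat_lit 47) (nat_lit 5) (nat_lit 47) (nat_lit 4) (nat_lit 490) (nat_lit 272) (nat_lit 258)) (XT.lf (nat_lit 0)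 (nat_lit 52350599836) (nat_lit 152) (nat_lit 60355929850) (nat_lit 0) (nat_lit 52310781702) (nat_lit 44) (nat_lit 5) (nat_lit 46) (nat_lit 4) (nat_lit 44) (nat_lit 4) (nat_lit 491) (nat_lit 272) (nat_lit 257))) (XT.nd (nat_lit 78) (nat_lit 152) (nat_lit 0) (XT.lf (nat_lit 0) (nat_lit 87294801004) (nat_lit 76) (nat_lit 41169963958) (nat_lit 76) (nat_lit 41128388431) (nat_lit 43) (nat_lit 4) (nat_lit 44) (nat_lit 5) (nat_lit 44) (nat_lit 4) (nat_lit 492) (nat_lit 272) (nat_lit 256)) (XT.lf (nat_lit 0) (nat_lit 33799321979) (nat_lit 152) (nat_lit 106768788656) (nat_lit 0) (nat_lit 33758132231) (nat_lit 41) (nat_lit 5) (nat_lit 43) (nat_lit 4) (nat_lit 41) (nat_lit 4) (nat_lit 493) (nat_lit 272) (nat_lit 255))))))))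
noncomputable def xc2 : XT := (XT.nd (nat_lit 104832) (nat_lit 0) (nat_lit 0) (XT.nd (nat_lit 52494) (nat_lit 0) (nat_lit 0) (XT.nd (nat_lit 51870) (nat_lit 0) (nat_lit 1140) (XT.nd (nat_lit 51558) (nat_lit 0) (nat_lit 2052) (XT.nd (nat_lit 156) (nat_lit 76) (nat_lit 0) (XT.nd (nat_lit 78) (nat_lit 152) (nat_lit 0) (XT.lf (nat_lit 0) (nat_lit 45025228900) (nat_lit 76) (nat_lit 67113684998) (nat_lit 76) (nat_lit 67070977147) (nat_lit 40) (nat_lit 4) (nat_lit 41) (nat_lit 5) (nat_lit 41) (nat_lit 4) (nat_lit 494) (nat_lit 272) (nat_lit 254)) (XT.lf (nat_lit 0) (nat_lit 10316789249) (nat_lit 152) (nat_lit 163709295911) (nat_lit 0) (nat_lit 10274738141) (nat_lit 38) (nat_lit 5) (nat_lit 40) (nat_lit 4) (nat_lit 38) (nat_lit 4) (nat_lit 495) (nat_lit 272) (nat_lit 253))) (XT.nd (nat_lit 78) (nat_lit 76) (nat_lit 0) (XT.lf (nat_lit 0) (nat_lit 90983067704) (nat_lit 152) (nat_lit 7585395635) (nat_lit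 0) (nat_lit 90939705202) (nat_lit 38) (nat_lit 5) (nat_lit 40) (nat_lit 4) (nat_lit 38) (nat_lit 4) (nat_lit 496) (nat_lit 272) (nat_lit 252)) (XT.lf (nat_lit 0) (nat_lit 157991086736) (nat_lit 76) (nat_lit 18494626547) (nat_lit 76) (nat_lit 18450015099) (nat_lit 37) (nat_lit 4) (nat_lit 38) (nat_lit 5) (nat_lit 38) (nat_lit 4) (nat_lit 497) (nat_lit 272) (nat_lit 251)))) (XT.nd (nat_lit 156) (nat_lit 228) (nat_lit 0) (XT.nd (nat_lit 78) (nat_lit 76) (nat_lit 0) (XT.lf (nat_lit 0) (nat_lit 14143674829) (nat_lit 152) (nat_lit 25036662476) (nat_lit 0) (nat_lit 14143674829) (nat_lit 68) (nat_lit 5) (nat_lit 70) (nat_lit 4) (nat_lit 68) (nat_lit 4) (nat_lit 474) (nat_lit 273) (nat_lit 273)) (XT.lf (nat_lit 0) (nat_lit 57559107647) (nat_lit 76) (nat_lit 25870155377) (nat_lit 76) (nat_lit 25864487606) (nat_lit 67) (nat_lit 4) (nat_lit 68) (nat_lit 5) (nat_lit 68) (nat_lit 4) (nat_lit 475) (nat_lit 273)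 (nat_lit 272))) (XT.nd (nat_lit 78) (nat_lit 76) (nat_lit 0) (XT.lf (nat_lit 0) (nat_lit 28806486509) (nat_lit 152) (nat_lit 54422171760) (nat_lit 0) (nat_lit 28795947798) (nat_lit 65) (nat_lit 5) (nat_lit 67) (nat_lit 4) (nat_lit 65) (nat_lit 4) (nat_lit 476) (nat_lit 273) (nat_lit 271)) (XT.lf (nat_lit 0) (nat_lit 56726705932) (nat_lit 76) (nat_lit 29068432702) (nat_lit 76) (nat_lit 29052997958) (nat_lit 64) (nat_lit 4) (nat_lit 65) (nat_lit 5) (nat_lit 65) (nat_lit 4) (nat_lit 477) (nat_lit 273) (nat_lit 270))))) (XT.nd (nat_lit 312) (nat_lit 456) (nat_lit 0) (XT.nd (nat_lit 156) (nat_lit 228) (nat_lit 0) (XT.nd (nat_lit 78) (nat_lit 76) (nat_lit 0) (XT.lf (nat_lit 0) (nat_lit 27425151299) (nat_lit 152) (nat_lit 62935204069) (nat_lit 0) (nat_lit 27406010696) (nat_lit 62) (nat_lit 5) (nat_lit 64) (nat_lit 4) (nat_lit 62) (nat_lit 4) (nat_lit 478) (nat_lit 273) (nat_lit 269)) (XT.lf (nat_lit 0)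 (nat_lit 51775395157) (nat_lit 76) (nat_lit 34513873163) (nat_lit 76) (nat_lit 34490503182) (nat_lit 61) (nat_lit 4) (nat_lit 62) (nat_lit 5) (nat_lit 62) (nat_lit 4) (nat_lit 479) (nat_lit 273) (nat_lit 268))) (XT.nd (nat_lit 78) (nat_lit 76) (nat_lit 0) (XT.lf (nat_lit 0) (nat_lit 23851041721) (nat_lit 152) (nat_lit 76225435643) (nat_lit 0) (nat_lit 23824948426) (nat_lit 59) (nat_lit 5) (nat_lit 61) (nat_lit 4) (nat_lit 59) (nat_lit 4) (nat_lit 480) (nat_lit 273) (nat_lit 267)) (XT.lf (nat_lit 0) (nat_lit 42081047339) (nat_lit 76) (nat_lit 42533203323) (nat_lit 76) (nat_lit 42503456533) (nat_lit 58) (nat_lit 4) (nat_lit 59) (nat_lit 5) (nat_lit 59) (nat_lit 4) (nat_lit 481) (nat_lit 273) (nat_lit 266)))) (XT.nd (nat_lit 156) (nat_lit 228) (nat_lit 0) (XT.nd (nat_lit 78) (nat_lit 76) (nat_lit 0) (XT.lf (nat_lit 0) (nat_lit 17756989794) (nat_lit 152) (nat_lit 94977989952) (nat_lit 0) (nat_lit 17725345690)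 (nat_lit 56) (nat_lit 5) (nat_lit 58) (nat_lit 4) (nat_lit 56) (nat_lit 4) (nat_lit 482) (nat_lit 273) (nat_lit 265)) (XT.lf (nat_lit 0) (nat_lit 26945497357) (nat_lit 76) (nat_lit 53491398428) (nat_lit 76) (nat_lit 53456598297) (nat_lit 55) (nat_lit 4) (nat_lit 56) (nat_lit 5) (nat_lit 56) (nat_lit 4) (nat_lit 483) (nat_lit 273) (nat_lit 264))) (XT.nd (nat_lit 78) (nat_lit 76) (nat_lit 0) (XT.lf (nat_lit 0) (nat_lit 8777147157) (nat_lit 152) (nat_lit 119957959646) (nat_lit 0) (nat_lit 8741141566) (nat_lit 53) (nat_lit 5) (nat_lit 55) (nat_lit 4) (nat_lit 53) (nat_lit 4) (nat_lit 484) (nat_lit 273) (nat_lit 263)) (XT.lf (nat_lit 0) (nat_lit 5588446569) (nat_lit 76) (nat_lit 67795849198) (nat_lit 76) (nat_lit 67757117313) (nat_lit 52) (nat_lit 4) (nat_lit 53) (nat_lit 5) (nat_lit 53) (nat_lit 4) (nat_lit 485) (nat_lit 273) (nat_lit 262)))))) (XT.nd (nat_lit 624) (nat_lit 304) (nat_lit 0) (XT.nd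 (nat_lit 312) (nat_lit 456) (nat_lit 0) (XT.nd (nat_lit 156) (nat_lit 228) (nat_lit 0) (XT.nd (nat_lit 78) (nat_lit 152) (nat_lit 0) (XT.lf (nat_lit 0) (nat_lit 138053814604) (nat_lit 76) (nat_lit 3480853238) (nat_lit 76) (nat_lit 3439524883) (nat_lit 52) (nat_lit 4) (nat_lit 53) (nat_lit 5) (nat_lit 53) (nat_lit 4) (nat_lit 486) (nat_lit 273) (nat_lit 261)) (XT.lf (nat_lit 0) (nat_lit 63396410563) (nat_lit 152) (nat_lit 22129777836) (nat_lit 0) (nat_lit 63354695148) (nat_lit 50) (nat_lit 5) (nat_lit 52) (nat_lit 4) (nat_lit 50) (nat_lit 4) (nat_lit 487) (nat_lit 273) (nat_lit 260))) (XT.nd (nat_lit 78) (nat_lit 152) (nat_lit 0) (XT.lf (nat_lit 0) (nat_lit 114508717719) (nat_lit 76) (nat_lit 19250157061) (nat_lit 76) (nat_lit 19206198717) (nat_lit 49) (nat_lit 4) (nat_lit 50) (nat_lit 5) (nat_lit 50) (nat_lit 4) (nat_lit 488) (nat_lit 273) (nat_lit 259)) (XT.lf (nat_lit 0) (nat_lit 49863639043)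 (nat_lit 152) (nat_lit 57476245222) (nat_lit 0) (nat_lit 49819739551) (nat_lit 47) (nat_lit 5) (nat_lit 49) (nat_lit 4) (nat_lit 47) (nat_lit 4) (nat_lit 489) (nat_lit 273) (nat_lit 258)))) (XT.nd (nat_lit 156) (nat_lit 228) (nat_lit 0) (XT.nd (nat_lit 78) (nat_lit 152) (nat_lit 0) (XT.lf (nat_lit 0) (nat_lit 83143594011) (nat_lit 76) (nat_lit 39209901412) (nat_lit 76) (nat_lit 39164064393) (nat_lit 46) (nat_lit 4) (nat_lit 47) (nat_lit 5) (nat_lit 47) (nat_lit 4) (nat_lit 490) (nat_lit 273) (nat_lit 257)) (XT.lf (nat_lit 0) (nat_lit 32195634066) (nat_lit 152) (nat_lit 101679395050) (nat_lit 0) (nat_lit 32150222369) (nat_lit 44) (nat_lit 5) (nat_lit 46) (nat_lit 4) (nat_lit 44) (nat_lit 4) (nat_lit 491) (nat_lit 273) (nat_lit 256))) (XT.nd (nat_lit 78) (nat_lit 152) (nat_lit 0) (XT.lf (nat_lit 0) (nat_lit 42886429562) (nat_lit 76) (nat_lit 63918496495) (nat_lit 76) (nat_lit 63871411089) (nat_lit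 43) (nat_lit 4) (nat_lit 44) (nat_lit 5) (nat_lit 44) (nat_lit 4) (nat_lit 492) (nat_lit 273) (nat_lit 255)) (XT.lf (nat_lit 0) (nat_lit 9831179753) (nat_lit 152) (nat_lit 155908834493) (nat_lit 0) (nat_lit 9784818407) (nat_lit 41) (nat_lit 5) (nat_lit 43) (nat_lit 4) (nat_lit 41) (nat_lit 4) (nat_lit 493) (nat_lit 273) (nat_lit 254))))) (XT.nd (nat_lit 51402) (nat_lit 0) (nat_lit 2280) (XT.nd (nat_lit 156) (nat_lit 228) (nat_lit 0) (XT.nd (nat_lit 78) (nat_lit 76) (nat_lit 0) (XT.lf (nat_lit 0) (nat_lit 86656271399) (nat_lit 152) (nat_lit 7219470205) (nat_lit 0) (nat_lit 86608464240) (nat_lit 41) (nat_lit 5) (nat_lit 43) (nat_lit 4) (nat_lit 41) (nat_lit 4) (nat_lit 494) (nat_lit 273) (nat_lit 253)) (XT.lf (nat_lit 0) (nat_lit 150472510198) (nat_lit 76) (nat_lit 17614988776) (nat_lit 76) (nat_lit 17565804654) (nat_lit 40) (nat_lit 4) (nat_lit 41) (nat_lit 5) (nat_lit 41) (nat_lit 4) (nat_lit 495)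 (nat_lit 273) (nat_lit 252))) (XT.nd (nat_lit 78) (nat_lit 76) (nat_lit 0) (XT.lf (nat_lit 0) (nat_lit 61999408551) (nat_lit 152) (nat_lit 67006799341) (nat_lit 0) (nat_lit 61951317583) (nat_lit 38) (nat_lit 5) (nat_lit 40) (nat_lit 4) (nat_lit 38) (nat_lit 4) (nat_lit 496) (nat_lit 273) (nat_lit 251)) (XT.lf (nat_lit 0) (nat_lit 94968206827) (nat_lit 76) (nat_lit 50777000632) (nat_lit 76) (nat_lit 50727720190) (nat_lit 37) (nat_lit 4) (nat_lit 38) (nat_lit 5) (nat_lit 38) (nat_lit 4) (nat_lit 497) (nat_lit 273) (nat_lit 250)))) (XT.nd (nat_lit 156) (nat_lit 228) (nat_lit 0) (XT.nd (nat_lit 78) (nat_lit 76) (nat_lit 0) (XT.lf (nat_lit 0) (nat_lit 13473242082) (nat_lit 152) (nat_lit 23838582209) (nat_lit 0) (nat_lit 13473242082) (nat_lit 71) (nat_lit 5) (nat_lit 73) (nat_lit 4) (nat_lit 71) (nat_lit 4) (nat_lit 472) (nat_lit 274) (nat_lit 274)) (XT.lf (nat_lit 0) (nat_lit 54830013461) (nat_lit 76)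 (nat_lit 24633042111) (nat_lit 76) (nat_lit 24626793395) (nat_lit 70) (nat_lit 4) (nat_lit 71) (nat_lit 5) (nat_lit 71) (nat_lit 4) (nat_lit 473) (nat_lit 274) (nat_lit 273))) (XT.nd (nat_lit 78) (nat_lit 76) (nat_lit 0) (XT.lf (nat_lit 0) (nat_lit 27441126009) (nat_lit 152) (nat_lit 51819999919) (nat_lit 0) (nat_lit 27429507080) (nat_lit 68) (nat_lit 5) (nat_lit 70) (nat_lit 4) (nat_lit 68) (nat_lit 4) (nat_lit 474) (nat_lit 274) (nat_lit 272)) (XT.lf (nat_lit 0) (nat_lit 54036176928) (nat_lit 76) (nat_lit 27680264571) (nat_lit 76) (nat_lit 27663247765) (nat_lit 67) (nat_lit 4) (nat_lit 68) (nat_lit 5) (nat_lit 68) (nat_lit 4) (nat_lit 475) (nat_lit 274) (nat_lit 271))))))) (XT.nd (nat_lit 1248) (nat_lit 532) (nat_lit 0) (XT.nd (nat_lit 624) (nat_lit 836) (nat_lit 0) (XT.nd (nat_lit 312) (nat_lit 456) (nat_lit 0) (XT.nd (nat_lit 156) (nat_lit 228) (nat_lit 0) (XT.nd (nat_lit 78) (nat_lit 76) (nat_lit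 0) (XT.lf (nat_lit 0) (nat_lit 26125713083) (nat_lit 152) (nat_lit 59928604477) (nat_lit 0) (nat_lit 26104610568) (nat_lit 65) (nat_lit 5) (nat_lit 67) (nat_lit 4) (nat_lit 65) (nat_lit 4) (nat_lit 476) (nat_lit 274) (nat_lit 270)) (XT.lf (nat_lit 0) (nat_lit 49319690445) (nat_lit 76) (nat_lit 32867447487) (nat_lit 76) (nat_lit 32841682083) (nat_lit 64) (nat_lit 4) (nat_lit 65) (nat_lit 5) (nat_lit 65) (nat_lit 4) (nat_lit 477) (nat_lit 274) (nat_lit 269))) (XT.nd (nat_lit 78) (nat_lit 76) (nat_lit 0) (XT.lf (nat_lit 0) (nat_lit 22721875725) (nat_lit 152) (nat_lit 72586816144) (nat_lit 0) (nat_lit 22693107868) (nat_lit 62) (nat_lit 5) (nat_lit 64) (nat_lit 4) (nat_lit 62) (nat_lit 4) (nat_lit 478) (nat_lit 274) (nat_lit 268)) (XT.lf (nat_lit 0) (nat_lit 40086131208) (nat_lit 76) (nat_lit 40505786770) (nat_lit 76) (nat_lit 40472990934) (nat_lit 61) (nat_lit 4) (nat_lit 62) (nat_lit 5) (nat_lit 62)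 (nat_lit 4) (nat_lit 479) (nat_lit 274) (nat_lit 267)))) (XT.nd (nat_lit 156) (nat_lit 228) (nat_lit 0) (XT.nd (nat_lit 78) (nat_lit 76) (nat_lit 0) (XT.lf (nat_lit 0) (nat_lit 16918036926) (nat_lit 152) (nat_lit 90447146844) (nat_lit 0) (nat_lit 16883149302) (nat_lit 59) (nat_lit 5) (nat_lit 61) (nat_lit 4) (nat_lit 59) (nat_lit 4) (nat_lit 480) (nat_lit 274) (nat_lit 266)) (XT.lf (nat_lit 0) (nat_lit 25670566861) (nat_lit 76) (nat_lit 50942901810) (nat_lit 76) (nat_lit 50904534666) (nat_lit 58) (nat_lit 4) (nat_lit 59) (nat_lit 5) (nat_lit 59) (nat_lit 4) (nat_lit 481) (nat_lit 274) (nat_lit 265))) (XT.nd (nat_lit 78) (nat_lit 76) (nat_lit 0) (XT.lf (nat_lit 0) (nat_lit 8365779533) (nat_lit 152) (nat_lit 114238267850) (nat_lit 0) (nat_lit 8326083369) (nat_lit 56) (nat_lit 5) (nat_lit 58) (nat_lit 4) (nat_lit 56) (nat_lit 4) (nat_lit 482) (nat_lit 274) (nat_lit 264)) (XT.lf (nat_lit 0) (nat_lit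 5329844388) (nat_lit 76) (nat_lit 64566804375) (nat_lit 76) (nat_lit 64524102471) (nat_lit 55) (nat_lit 4) (nat_lit 56) (nat_lit 5) (nat_lit 56) (nat_lit 4) (nat_lit 483) (nat_lit 274) (nat_lit 263))))) (XT.nd (nat_lit 312) (nat_lit 456) (nat_lit 0) (XT.nd (nat_lit 156) (nat_lit 228) (nat_lit 0) (XT.nd (nat_lit 78) (nat_lit 152) (nat_lit 0) (XT.lf (nat_lit 0) (nat_lit 131487205733) (nat_lit 76) (nat_lit 3314685028) (nat_lit 76) (nat_lit 3269120515) (nat_lit 55) (nat_lit 4) (nat_lit 56) (nat_lit 5) (nat_lit 56) (nat_lit 4) (nat_lit 484) (nat_lit 274) (nat_lit 262)) (XT.lf (nat_lit 0) (nat_lit 60384177163) (nat_lit 152) (nat_lit 21069289073) (nat_lit 0) (nat_lit 60338185919) (nat_lit 53) (nat_lit 5) (nat_lit 55) (nat_lit 4) (nat_lit 53) (nat_lit 4) (nat_lit 485) (nat_lit 274) (nat_lit 261))) (XT.nd (nat_lit 78) (nat_lit 152) (nat_lit 0) (XT.lf (nat_lit 0) (nat_lit 109062718606) (nat_lit 76) (nat_lit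 18333545756) (nat_lit 76) (nat_lit 18285081682) (nat_lit 52) (nat_lit 4) (nat_lit 53) (nat_lit 5) (nat_lit 53) (nat_lit 4) (nat_lit 486) (nat_lit 274) (nat_lit 260)) (XT.lf (nat_lit 0) (nat_lit 47495712258) (nat_lit 152) (nat_lit 54733115179) (nat_lit 0) (nat_lit 47447313068) (nat_lit 50) (nat_lit 5) (nat_lit 52) (nat_lit 4) (nat_lit 50) (nat_lit 4) (nat_lit 487) (nat_lit 274) (nat_lit 259)))) (XT.nd (nat_lit 156) (nat_lit 228) (nat_lit 0) (XT.nd (nat_lit 78) (nat_lit 152) (nat_lit 0) (XT.lf (nat_lit 0) (nat_lit 79190646593) (nat_lit 76) (nat_lit 37343217400) (nat_lit 76) (nat_lit 37292682087) (nat_lit 49) (nat_lit 4) (nat_lit 50) (nat_lit 5) (nat_lit 50) (nat_lit 4) (nat_lit 488) (nat_lit 274) (nat_lit 258)) (XT.lf (nat_lit 0) (nat_lit 30668907114) (nat_lit 152) (nat_lit 96831824049) (nat_lit 0) (nat_lit 30618840718) (nat_lit 47) (nat_lit 5) (nat_lit 49) (nat_lit 4) (nat_lit 47) (nat_lit 4) (nat_lit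 489) (nat_lit 274) (nat_lit 257))) (XT.nd (nat_lit 78) (nat_lit 152) (nat_lit 0) (XT.lf (nat_lit 0) (nat_lit 40850016878) (nat_lit 76) (nat_lit 60875531704) (nat_lit 76) (nat_lit 60823620045) (nat_lit 46) (nat_lit 4) (nat_lit 47) (nat_lit 5) (nat_lit 47) (nat_lit 4) (nat_lit 490) (nat_lit 274) (nat_lit 256)) (XT.lf (nat_lit 0) (nat_lit 9369275303) (nat_lit 152) (nat_lit 148479333601) (nat_lit 0) (nat_lit 9318161918) (nat_lit 44) (nat_lit 5) (nat_lit 46) (nat_lit 4) (nat_lit 44) (nat_lit 4) (nat_lit 491) (nat_lit 274) (nat_lit 255)))))) (XT.nd (nat_lit 51558) (nat_lit 0) (nat_lit 1824) (XT.nd (nat_lit 312) (nat_lit 228) (nat_lit 0) (XT.nd (nat_lit 156) (nat_lit 228) (nat_lit 0) (XT.nd (nat_lit 78) (nat_lit 76) (nat_lit 0) (XT.lf (nat_lit 0) (nat_lit 82536100413) (nat_lit 152) (nat_lit 6870486394) (nat_lit 0) (nat_lit 82483393021) (nat_lit 44) (nat_lit 5) (nat_lit 46) (nat_lit 4) (nat_lit 44) (nat_lit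 4) (nat_lit 492) (nat_lit 274) (nat_lit 254)) (XT.lf (nat_lit 0) (nat_lit 143312453991) (nat_lit 76) (nat_lit 16777347037) (nat_lit 76) (nat_lit 16723121542) (nat_lit 43) (nat_lit 4) (nat_lit 44) (nat_lit 5) (nat_lit 44) (nat_lit 4) (nat_lit 493) (nat_lit 274) (nat_lit 253))) (XT.nd (nat_lit 78) (nat_lit 76) (nat_lit 0) (XT.lf (nat_lit 0) (nat_lit 59053199046) (nat_lit 152) (nat_lit 63811173471) (nat_lit 0) (nat_lit 59000178754) (nat_lit 41) (nat_lit 5) (nat_lit 43) (nat_lit 4) (nat_lit 41) (nat_lit 4) (nat_lit 494) (nat_lit 274) (nat_lit 252)) (XT.lf (nat_lit 0) (nat_lit 90450836251) (nat_lit 76) (nat_lit 48360401955) (nat_lit 76) (nat_lit 48306070269) (nat_lit 40) (nat_lit 4) (nat_lit 41) (nat_lit 5) (nat_lit 41) (nat_lit 4) (nat_lit 495) (nat_lit 274) (nat_lit 251)))) (XT.nd (nat_lit 51090) (nat_lit 0) (nat_lit 2736) (XT.nd (nat_lit 78) (nat_lit 76) (nat_lit 0) (XT.lf (nat_lit 0) (nat_lit 29982156506)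 (nat_lit 152) (nat_lit 132647191676) (nat_lit 0) (nat_lit 29929222569) (nat_lit 38) (nat_lit 5) (nat_lit 40) (nat_lit 4) (nat_lit 38) (nat_lit 4) (nat_lit 496) (nat_lit 274) (nat_lit 250)) (XT.lf (nat_lit 0) (nat_lit 25598650260) (nat_lit 76) (nat_lit 86310173021) (nat_lit 76) (nat_lit 86256106252) (nat_lit 37) (nat_lit 4) (nat_lit 38) (nat_lit 5) (nat_lit 38) (nat_lit 4) (nat_lit 497) (nat_lit 274) (nat_lit 249))) (XT.nd (nat_lit 78) (nat_lit 76) (nat_lit 0) (XT.lf (nat_lit 0) (nat_lit 12835049951) (nat_lit 152) (nat_lit 22696952913) (nat_lit 0) (nat_lit 12835049951) (nat_lit 74) (nat_lit 5) (nat_lit 76) (nat_lit 4) (nat_lit 74) (nat_lit 4) (nat_lit 470) (nat_lit 275) (nat_lit 275)) (XT.lf (nat_lit 0) (nat_lit 52232087249) (nat_lit 76) (nat_lit 23454305888) (nat_lit 76) (nat_lit 23447416678) (nat_lit 73) (nat_lit 4) (nat_lit 74) (nat_lit 5) (nat_lit 74) (nat_lit 4) (nat_lit 471) (nat_lit 275)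 (nat_lit 274))))) (XT.nd (nat_lit 312) (nat_lit 456) (nat_lit 0) (XT.nd (nat_lit 156) (nat_lit 228) (nat_lit 0) (XT.nd (nat_lit 78) (nat_lit 76) (nat_lit 0) (XT.lf (nat_lit 0) (nat_lit 26141436314) (nat_lit 152) (nat_lit 49340650438) (nat_lit 0) (nat_lit 26128626445) (nat_lit 71) (nat_lit 5) (nat_lit 73) (nat_lit 4) (nat_lit 71) (nat_lit 4) (nat_lit 472) (nat_lit 275) (nat_lit 273)) (XT.lf (nat_lit 0) (nat_lit 51474869480) (nat_lit 76) (nat_lit 26357794087) (nat_lit 76) (nat_lit 26339033058) (nat_lit 70) (nat_lit 4) (nat_lit 71) (nat_lit 5) (nat_lit 71) (nat_lit 4) (nat_lit 473) (nat_lit 275) (nat_lit 272))) (XT.nd (nat_lit 78) (nat_lit 76) (nat_lit 0) (XT.lf (nat_lit 0) (nat_lit 24888821316) (nat_lit 152) (nat_lit 57064183569) (nat_lit 0) (nat_lit 24865555794) (nat_lit 68) (nat_lit 5) (nat_lit 70) (nat_lit 4) (nat_lit 68) (nat_lit 4) (nat_lit 474) (nat_lit 275) (nat_lit 271)) (XT.lf (nat_lit 0)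 (nat_lit 46981927559) (nat_lit 76) (nat_lit 31299124973) (nat_lit 76) (nat_lit 31270718616) (nat_lit 67) (nat_lit 4) (nat_lit 68) (nat_lit 5) (nat_lit 68) (nat_lit 4) (nat_lit 475) (nat_lit 275) (nat_lit 270)))) (XT.nd (nat_lit 156) (nat_lit 228) (nat_lit 0) (XT.nd (nat_lit 78) (nat_lit 76) (nat_lit 0) (XT.lf (nat_lit 0) (nat_lit 21647155823) (nat_lit 152) (nat_lit 69120558464) (nat_lit 0) (nat_lit 21615439261) (nat_lit 65) (nat_lit 5) (nat_lit 67) (nat_lit 4) (nat_lit 65) (nat_lit 4) (nat_lit 476) (nat_lit 275) (nat_lit 269)) (XT.lf (nat_lit 0) (nat_lit 38187127768) (nat_lit 76) (nat_lit 38574706206) (nat_lit 76) (nat_lit 38538548797) (nat_lit 64) (nat_lit 4) (nat_lit 65) (nat_lit 5) (nat_lit 65) (nat_lit 4) (nat_lit 477) (nat_lit 275) (nat_lit 268))) (XT.nd (nat_lit 78) (nat_lit 76) (nat_lit 0) (XT.lf (nat_lit 0) (nat_lit 16119712547) (nat_lit 152) (nat_lit 86131229796) (nat_lit 0) (nat_lit 16081248941)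 (nat_lit 62) (nat_lit 5) (nat_lit 64) (nat_lit 4) (nat_lit 62) (nat_lit 4) (nat_lit 478) (nat_lit 275) (nat_lit 267)) (XT.lf (nat_lit 0) (nat_lit 24457186654) (nat_lit 76) (nat_lit 48515630239) (nat_lit 76) (nat_lit 48473330463) (nat_lit 61) (nat_lit 4) (nat_lit 62) (nat_lit 5) (nat_lit 62) (nat_lit 4) (nat_lit 479) (nat_lit 275) (nat_lit 266))))))))
noncomputable def xc3 : XT := (XT.nd (nat_lit 1248) (nat_lit 152) (nat_lit 0) (XT.nd (nat_lit 624) (nat_lit 760) (nat_lit 0) (XT.nd (nat_lit 312) (nat_lit 456) (nat_lit 0) (XT.nd (nat_lit 156) (nat_lit 152) (nat_lit 0) (XT.nd (nat_lit 78) (nat_lit 76) (nat_lit 0) (XT.lf (nat_lit 0) (nat_lit 7974676499) (nat_lit 152) (nat_lit 108790183009) (nat_lit 0) (nat_lit 7930911479) (nat_lit 59) (nat_lit 5) (nat_lit 61) (nat_lit 4) (nat_lit 59) (nat_lit 4) (nat_lit 480) (nat_lit 275) (nat_lit 265)) (XT.lf (nat_lit 0) (nat_lit 5084326815) (nat_lit 76) (nat_lit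 61491454808) (nat_lit 76) (nat_lit 61444375959) (nat_lit 58) (nat_lit 4) (nat_lit 59) (nat_lit 5) (nat_lit 59) (nat_lit 4) (nat_lit 481) (nat_lit 275) (nat_lit 264))) (XT.nd (nat_lit 78) (nat_lit 152) (nat_lit 0) (XT.lf (nat_lit 0) (nat_lit 125234049208) (nat_lit 76) (nat_lit 3156387227) (nat_lit 76) (nat_lit 3106152352) (nat_lit 58) (nat_lit 4) (nat_lit 59) (nat_lit 5) (nat_lit 59) (nat_lit 4) (nat_lit 482) (nat_lit 275) (nat_lit 263)) (XT.lf (nat_lit 0) (nat_lit 57516064387) (nat_lit 152) (nat_lit 20058614068) (nat_lit 0) (nat_lit 57465359040) (nat_lit 56) (nat_lit 5) (nat_lit 58) (nat_lit 4) (nat_lit 56) (nat_lit 4) (nat_lit 483) (nat_lit 275) (nat_lit 262)))) (XT.nd (nat_lit 156) (nat_lit 228) (nat_lit 0) (XT.nd (nat_lit 78) (nat_lit 152) (nat_lit 0) (XT.lf (nat_lit 0) (nat_lit 103876749473) (nat_lit 76) (nat_lit 17460589050) (nat_lit 76) (nat_lit 17407157408) (nat_lit 55) (nat_lit 4) (nat_lit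 56) (nat_lit 5) (nat_lit 56) (nat_lit 4) (nat_lit 484) (nat_lit 275) (nat_lit 261)) (XT.lf (nat_lit 0) (nat_lit 45241213444) (nat_lit 152) (nat_lit 52119978362) (nat_lit 0) (nat_lit 45187853337) (nat_lit 53) (nat_lit 5) (nat_lit 55) (nat_lit 4) (nat_lit 53) (nat_lit 4) (nat_lit 485) (nat_lit 275) (nat_lit 260))) (XT.nd (nat_lit 78) (nat_lit 152) (nat_lit 0) (XT.lf (nat_lit 0) (nat_lit 75426577578) (nat_lit 76) (nat_lit 35565469654) (nat_lit 76) (nat_lit 35509754471) (nat_lit 52) (nat_lit 4) (nat_lit 53) (nat_lit 5) (nat_lit 53) (nat_lit 4) (nat_lit 486) (nat_lit 275) (nat_lit 259)) (XT.lf (nat_lit 0) (nat_lit 29215537290) (nat_lit 152) (nat_lit 92214506020) (nat_lit 0) (nat_lit 29160339088) (nat_lit 50) (nat_lit 5) (nat_lit 52) (nat_lit 4) (nat_lit 50) (nat_lit 4) (nat_lit 487) (nat_lit 275) (nat_lit 258))))) (XT.nd (nat_lit 312) (nat_lit 456) (nat_lit 0) (XT.nd (nat_lit 156) (nat_lit 76) (nat_lit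 0) (XT.nd (nat_lit 78) (nat_lit 152) (nat_lit 0) (XT.lf (nat_lit 0) (nat_lit 38911170547) (nat_lit 76) (nat_lit 57977549246) (nat_lit 76) (nat_lit 57920316641) (nat_lit 49) (nat_lit 4) (nat_lit 50) (nat_lit 5) (nat_lit 50) (nat_lit 4) (nat_lit 488) (nat_lit 275) (nat_lit 257)) (XT.lf (nat_lit 0) (nat_lit 8930006616) (nat_lit 152) (nat_lit 141403078222) (nat_lit 0) (nat_lit 8873654110) (nat_lit 47) (nat_lit 5) (nat_lit 49) (nat_lit 4) (nat_lit 47) (nat_lit 4) (nat_lit 489) (nat_lit 275) (nat_lit 256))) (XT.nd (nat_lit 78) (nat_lit 76) (nat_lit 0) (XT.lf (nat_lit 0) (nat_lit 78612775653) (nat_lit 152) (nat_lit 6537587909) (nat_lit 0) (nat_lit 78554665754) (nat_lit 47) (nat_lit 5) (nat_lit 49) (nat_lit 4) (nat_lit 47) (nat_lit 4) (nat_lit 490) (nat_lit 275) (nat_lit 255)) (XT.lf (nat_lit 0) (nat_lit 136493896237) (nat_lit 76) (nat_lit 15979712643) (nat_lit 76) (nat_lit 15919929035) (nat_lit 46) (nat_lit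 4) (nat_lit 47) (nat_lit 5) (nat_lit 47) (nat_lit 4) (nat_lit 491) (nat_lit 275) (nat_lit 254)))) (XT.nd (nat_lit 156) (nat_lit 228) (nat_lit 0) (XT.nd (nat_lit 78) (nat_lit 76) (nat_lit 0) (XT.lf (nat_lit 0) (nat_lit 56247914919) (nat_lit 152) (nat_lit 60767225606) (nat_lit 0) (nat_lit 56189460046) (nat_lit 44) (nat_lit 5) (nat_lit 46) (nat_lit 4) (nat_lit 44) (nat_lit 4) (nat_lit 492) (nat_lit 275) (nat_lit 253)) (XT.lf (nat_lit 0) (nat_lit 86149083370) (nat_lit 76) (nat_lit 46059018164) (nat_lit 76) (nat_lit 45999117480) (nat_lit 43) (nat_lit 4) (nat_lit 44) (nat_lit 5) (nat_lit 44) (nat_lit 4) (nat_lit 493) (nat_lit 275) (nat_lit 252))) (XT.nd (nat_lit 78) (nat_lit 76) (nat_lit 0) (XT.lf (nat_lit 0) (nat_lit 28561005233) (nat_lit 152) (nat_lit 126325711560) (nat_lit 0) (nat_lit 28502645568) (nat_lit 41) (nat_lit 5) (nat_lit 43) (nat_lit 4) (nat_lit 41) (nat_lit 4) (nat_lit 494) (nat_lit 275)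 (nat_lit 251)) (XT.lf (nat_lit 0) (nat_lit 24384720069) (nat_lit 76) (nat_lit 82201816743) (nat_lit 76) (nat_lit 82142208131) (nat_lit 40) (nat_lit 4) (nat_lit 41) (nat_lit 5) (nat_lit 41) (nat_lit 4) (nat_lit 495) (nat_lit 275) (nat_lit 250)))))) (XT.nd (nat_lit 51402) (nat_lit 0) (nat_lit 1596) (XT.nd (nat_lit 51090) (nat_lit 0) (nat_lit 2432) (XT.nd (nat_lit 50934) (nat_lit 0) (nat_lit 2888) (XT.nd (nat_lit 78) (nat_lit 152) (nat_lit 0) (XT.lf (nat_lit 0) (nat_lit 184117980032) (nat_lit 76) (nat_lit 5120820954) (nat_lit 76) (nat_lit 5060022869) (nat_lit 40) (nat_lit 4) (nat_lit 41) (nat_lit 5) (nat_lit 41) (nat_lit 4) (nat_lit 496) (nat_lit 275) (nat_lit 249)) (XT.lf (nat_lit 0) (nat_lit 75681052552) (nat_lit 152) (nat_lit 48673386599) (nat_lit 0) (nat_lit 75622070727) (nat_lit 38) (nat_lit 5) (nat_lit 40) (nat_lit 4) (nat_lit 38) (nat_lit 4) (nat_lit 497) (nat_lit 275) (nat_lit 248))) (XT.nd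 (nat_lit 78) (nat_lit 76) (nat_lit 0) (XT.lf (nat_lit 0) (nat_lit 12227595481) (nat_lit 152) (nat_lit 21609024898) (nat_lit 0) (nat_lit 12227595481) (nat_lit 77) (nat_lit 5) (nat_lit 79) (nat_lit 4) (nat_lit 77) (nat_lit 4) (nat_lit 468) (nat_lit 276) (nat_lit 276)) (XT.lf (nat_lit 0) (nat_lit 49759207058) (nat_lit 76) (nat_lit 22331112205) (nat_lit 76) (nat_lit 22323516850) (nat_lit 76) (nat_lit 4) (nat_lit 77) (nat_lit 5) (nat_lit 77) (nat_lit 4) (nat_lit 469) (nat_lit 276) (nat_lit 275)))) (XT.nd (nat_lit 156) (nat_lit 228) (nat_lit 0) (XT.nd (nat_lit 78) (nat_lit 76) (nat_lit 0) (XT.lf (nat_lit 0) (nat_lit 24904357240) (nat_lit 152) (nat_lit 46978162848) (nat_lit 0) (nat_lit 24890234359) (nat_lit 74) (nat_lit 5) (nat_lit 76) (nat_lit 4) (nat_lit 74) (nat_lit 4) (nat_lit 470) (nat_lit 276) (nat_lit 274)) (XT.lf (nat_lit 0) (nat_lit 49036743046) (nat_lit 76) (nat_lit 25097851216) (nat_lit 76)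 (nat_lit 25077167182) (nat_lit 73) (nat_lit 4) (nat_lit 74) (nat_lit 5) (nat_lit 74) (nat_lit 4) (nat_lit 471) (nat_lit 276) (nat_lit 273))) (XT.nd (nat_lit 78) (nat_lit 76) (nat_lit 0) (XT.lf (nat_lit 0) (nat_lit 23711566113) (nat_lit 152) (nat_lit 54335069179) (nat_lit 0) (nat_lit 23685915875) (nat_lit 71) (nat_lit 5) (nat_lit 73) (nat_lit 4) (nat_lit 71) (nat_lit 4) (nat_lit 472) (nat_lit 276) (nat_lit 272)) (XT.lf (nat_lit 0) (nat_lit 44756593080) (nat_lit 76) (nat_lit 29805155872) (nat_lit 76) (nat_lit 29773837863) (nat_lit 70) (nat_lit 4) (nat_lit 71) (nat_lit 5) (nat_lit 71) (nat_lit 4) (nat_lit 473) (nat_lit 276) (nat_lit 271))))) (XT.nd (nat_lit 312) (nat_lit 380) (nat_lit 0) (XT.nd (nat_lit 156) (nat_lit 228) (nat_lit 0) (XT.nd (nat_lit 78) (nat_lit 76) (nat_lit 0) (XT.lf (nat_lit 0) (nat_lit 20624358663) (nat_lit 152) (nat_lit 65818362054) (nat_lit 0) (nat_lit 20589391153) (nat_lit 68)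 (nat_lit 5) (nat_lit 70) (nat_lit 4) (nat_lit 68) (nat_lit 4) (nat_lit 474) (nat_lit 276) (nat_lit 270)) (XT.lf (nat_lit 0) (nat_lit 36379563709) (nat_lit 76) (nat_lit 36735352918) (nat_lit 76) (nat_lit 36695489375) (nat_lit 67) (nat_lit 4) (nat_lit 68) (nat_lit 5) (nat_lit 68) (nat_lit 4) (nat_lit 475) (nat_lit 276) (nat_lit 269))) (XT.nd (nat_lit 78) (nat_lit 76) (nat_lit 0) (XT.lf (nat_lit 0) (nat_lit 15360151499) (nat_lit 152) (nat_lit 82019919328) (nat_lit 0) (nat_lit 15317745373) (nat_lit 65) (nat_lit 5) (nat_lit 67) (nat_lit 4) (nat_lit 65) (nat_lit 4) (nat_lit 476) (nat_lit 276) (nat_lit 268)) (XT.lf (nat_lit 0) (nat_lit 23302511800) (nat_lit 76) (nat_lit 46203797570) (nat_lit 76) (nat_lit 46157162067) (nat_lit 64) (nat_lit 4) (nat_lit 65) (nat_lit 5) (nat_lit 65) (nat_lit 4) (nat_lit 477) (nat_lit 276) (nat_lit 267)))) (XT.nd (nat_lit 156) (nat_lit 152) (nat_lit 0) (XT.nd (nat_lit 78)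 (nat_lit 76) (nat_lit 0) (XT.lf (nat_lit 0) (nat_lit 7602942330) (nat_lit 152) (nat_lit 103600693629) (nat_lit 0) (nat_lit 7554691395) (nat_lit 62) (nat_lit 5) (nat_lit 64) (nat_lit 4) (nat_lit 62) (nat_lit 4) (nat_lit 478) (nat_lit 276) (nat_lit 266)) (XT.lf (nat_lit 0) (nat_lit 4851349720) (nat_lit 76) (nat_lit 58562474625) (nat_lit 76) (nat_lit 58510570195) (nat_lit 61) (nat_lit 4) (nat_lit 62) (nat_lit 5) (nat_lit 62) (nat_lit 4) (nat_lit 479) (nat_lit 276) (nat_lit 265))) (XT.nd (nat_lit 78) (nat_lit 152) (nat_lit 0) (XT.lf (nat_lit 0) (nat_lit 119279496288) (nat_lit 76) (nat_lit 3005580711) (nat_lit 76) (nat_lit 2950196761) (nat_lit 61) (nat_lit 4) (nat_lit 62) (nat_lit 5) (nat_lit 62) (nat_lit 4) (nat_lit 480) (nat_lit 276) (nat_lit 264)) (XT.lf (nat_lit 0) (nat_lit 54785279144) (nat_lit 152) (nat_lit 19095310453) (nat_lit 0) (nat_lit 54729376498) (nat_lit 59) (nat_lit 5) (nat_lit 61) (nat_lit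 4) (nat_lit 59) (nat_lit 4) (nat_lit 481) (nat_lit 276) (nat_lit 263)))))))
noncomputable def xc4 : XT := (XT.nd (nat_lit 51948) (nat_lit 0) (nat_lit 1216) (XT.nd (nat_lit 624) (nat_lit 684) (nat_lit 0) (XT.nd (nat_lit 312) (nat_lit 304) (nat_lit 0) (XT.nd (nat_lit 156) (nat_lit 228) (nat_lit 0) (XT.nd (nat_lit 78) (nat_lit 152) (nat_lit 0) (XT.lf (nat_lit 0) (nat_lit 98938499351) (nat_lit 76) (nat_lit 16629208811) (nat_lit 76) (nat_lit 16570300426) (nat_lit 58) (nat_lit 4) (nat_lit 59) (nat_lit 5) (nat_lit 59) (nat_lit 4) (nat_lit 482) (nat_lit 276) (nat_lit 262)) (XT.lf (nat_lit 0) (nat_lit 43094809897) (nat_lit 152) (nat_lit 49630579837) (nat_lit 0) (nat_lit 43035980379) (nat_lit 56) (nat_lit 5) (nat_lit 58) (nat_lit 4) (nat_lit 56) (nat_lit 4) (nat_lit 483) (nat_lit 276) (nat_lit 261))) (XT.nd (nat_lit 78) (nat_lit 152) (nat_lit 0) (XT.lf (nat_lit 0) (nat_lit 71842458646) (nat_lit 76) (nat_lit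 33872427884) (nat_lit 76) (nat_lit 33811001895) (nat_lit 55) (nat_lit 4) (nat_lit 56) (nat_lit 5) (nat_lit 56) (nat_lit 4) (nat_lit 484) (nat_lit 276) (nat_lit 260)) (XT.lf (nat_lit 0) (nat_lit 27832098621) (nat_lit 152) (nat_lit 87816416702) (nat_lit 0) (nat_lit 27771242603) (nat_lit 53) (nat_lit 5) (nat_lit 55) (nat_lit 4) (nat_lit 53) (nat_lit 4) (nat_lit 485) (nat_lit 276) (nat_lit 259)))) (XT.nd (nat_lit 156) (nat_lit 76) (nat_lit 0) (XT.nd (nat_lit 78) (nat_lit 152) (nat_lit 0) (XT.lf (nat_lit 0) (nat_lit 37065305470) (nat_lit 76) (nat_lit 55217653321) (nat_lit 76) (nat_lit 55154554374) (nat_lit 52) (nat_lit 4) (nat_lit 53) (nat_lit 5) (nat_lit 53) (nat_lit 4) (nat_lit 486) (nat_lit 276) (nat_lit 258)) (XT.lf (nat_lit 0) (nat_lit 8512361433) (nat_lit 152) (nat_lit 134663191765) (nat_lit 0) (nat_lit 8450232795) (nat_lit 50) (nat_lit 5) (nat_lit 52) (nat_lit 4) (nat_lit 50) (nat_lit 4) (nat_lit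 487) (nat_lit 276) (nat_lit 257))) (XT.nd (nat_lit 78) (nat_lit 76) (nat_lit 0) (XT.lf (nat_lit 0) (nat_lit 74876989871) (nat_lit 152) (nat_lit 6219954155) (nat_lit 0) (nat_lit 74812923706) (nat_lit 50) (nat_lit 5) (nat_lit 52) (nat_lit 4) (nat_lit 50) (nat_lit 4) (nat_lit 488) (nat_lit 276) (nat_lit 256)) (XT.lf (nat_lit 0) (nat_lit 130000630802) (nat_lit 76) (nat_lit 15220192747) (nat_lit 76) (nat_lit 15154281319) (nat_lit 49) (nat_lit 4) (nat_lit 50) (nat_lit 5) (nat_lit 50) (nat_lit 4) (nat_lit 489) (nat_lit 276) (nat_lit 255))))) (XT.nd (nat_lit 312) (nat_lit 228) (nat_lit 0) (XT.nd (nat_lit 156) (nat_lit 228) (nat_lit 0) (XT.nd (nat_lit 78) (nat_lit 76) (nat_lit 0) (XT.lf (nat_lit 0) (nat_lit 53576909979) (nat_lit 152) (nat_lit 57867682283) (nat_lit 0) (nat_lit 53512463482) (nat_lit 47) (nat_lit 5) (nat_lit 49) (nat_lit 4) (nat_lit 47) (nat_lit 4) (nat_lit 490) (nat_lit 276) (nat_lit 254))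 (XT.lf (nat_lit 0) (nat_lit 82052732418) (nat_lit 76) (nat_lit 43867377058) (nat_lit 76) (nat_lit 43801336553) (nat_lit 46) (nat_lit 4) (nat_lit 47) (nat_lit 5) (nat_lit 47) (nat_lit 4) (nat_lit 491) (nat_lit 276) (nat_lit 253))) (XT.nd (nat_lit 78) (nat_lit 76) (nat_lit 0) (XT.lf (nat_lit 0) (nat_lit 27208201302) (nat_lit 152) (nat_lit 120304747221) (nat_lit 0) (nat_lit 27143859771) (nat_lit 44) (nat_lit 5) (nat_lit 46) (nat_lit 4) (nat_lit 44) (nat_lit 4) (nat_lit 492) (nat_lit 276) (nat_lit 252)) (XT.lf (nat_lit 0) (nat_lit 23229114025) (nat_lit 76) (nat_lit 78289265806) (nat_lit 76) (nat_lit 78223547311) (nat_lit 43) (nat_lit 4) (nat_lit 44) (nat_lit 5) (nat_lit 44) (nat_lit 4) (nat_lit 493) (nat_lit 276) (nat_lit 251)))) (XT.nd (nat_lit 156) (nat_lit 76) (nat_lit 0) (XT.nd (nat_lit 78) (nat_lit 152) (nat_lit 0) (XT.lf (nat_lit 0) (nat_lit 175355967795) (nat_lit 76) (nat_lit 4878911707) (nat_lit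 76) (nat_lit 4811881818) (nat_lit 43) (nat_lit 4) (nat_lit 44) (nat_lit 5) (nat_lit 44) (nat_lit 4) (nat_lit 494) (nat_lit 276) (nat_lit 250)) (XT.lf (nat_lit 0) (nat_lit 72084259300) (nat_lit 152) (nat_lit 46350579151) (nat_lit 0) (nat_lit 72019231837) (nat_lit 41) (nat_lit 5) (nat_lit 43) (nat_lit 4) (nat_lit 41) (nat_lit 4) (nat_lit 495) (nat_lit 276) (nat_lit 249))) (XT.nd (nat_lit 50778) (nat_lit 0) (nat_lit 3040) (XT.lf (nat_lit 0) (nat_lit 110503576994) (nat_lit 76) (nat_lit 42828477963) (nat_lit 76) (nat_lit 42762317668) (nat_lit 40) (nat_lit 4) (nat_lit 41) (nat_lit 5) (nat_lit 41) (nat_lit 4) (nat_lit 496) (nat_lit 276) (nat_lit 248)) (XT.lf (nat_lit 0) (nat_lit 11649450599) (nat_lit 152) (nat_lit 20572173104) (nat_lit 0) (nat_lit 11649450599) (nat_lit 80) (nat_lit 5) (nat_lit 82) (nat_lit 4) (nat_lit 80) (nat_lit 4) (nat_lit 466) (nat_lit 277) (nat_lit 277)))))) (XT.nd (nat_lit 624)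 (nat_lit 912) (nat_lit 0) (XT.nd (nat_lit 312) (nat_lit 456) (nat_lit 0) (XT.nd (nat_lit 156) (nat_lit 228) (nat_lit 0) (XT.nd (nat_lit 78) (nat_lit 152) (nat_lit 0) (XT.lf (nat_lit 0) (nat_lit 47405555178) (nat_lit 76) (nat_lit 21260755932) (nat_lit 76) (nat_lit 21252382054) (nat_lit 79) (nat_lit 4) (nat_lit 80) (nat_lit 5) (nat_lit 80) (nat_lit 4) (nat_lit 467) (nat_lit 277) (nat_lit 276)) (XT.lf (nat_lit 0) (nat_lit 23726981194) (nat_lit 152) (nat_lit 44726849054) (nat_lit 0) (nat_lit 23711410717) (nat_lit 77) (nat_lit 5) (nat_lit 79) (nat_lit 4) (nat_lit 77) (nat_lit 4) (nat_lit 468) (nat_lit 277) (nat_lit 275))) (XT.nd (nat_lit 78) (nat_lit 152) (nat_lit 0) (XT.lf (nat_lit 0) (nat_lit 46716056298) (nat_lit 76) (nat_lit 23897412618) (nat_lit 76) (nat_lit 23874608471) (nat_lit 76) (nat_lit 4) (nat_lit 77) (nat_lit 5) (nat_lit 77) (nat_lit 4) (nat_lit 469) (nat_lit 277) (nat_lit 274)) (XT.lf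 (nat_lit 0) (nat_lit 22591183175) (nat_lit 152) (nat_lit 51734705955) (nat_lit 0) (nat_lit 22562903787) (nat_lit 74) (nat_lit 5) (nat_lit 76) (nat_lit 4) (nat_lit 74) (nat_lit 4) (nat_lit 470) (nat_lit 277) (nat_lit 273)))) (XT.nd (nat_lit 156) (nat_lit 228) (nat_lit 0) (XT.nd (nat_lit 78) (nat_lit 152) (nat_lit 0) (XT.lf (nat_lit 0) (nat_lit 42638446676) (nat_lit 76) (nat_lit 28381965863) (nat_lit 76) (nat_lit 28347437758) (nat_lit 73) (nat_lit 4) (nat_lit 74) (nat_lit 5) (nat_lit 74) (nat_lit 4) (nat_lit 471) (nat_lit 277) (nat_lit 272)) (XT.lf (nat_lit 0) (nat_lit 19651088157) (nat_lit 152) (nat_lit 62672312115) (nat_lit 0) (nat_lit 19612536477) (nat_lit 71) (nat_lit 5) (nat_lit 73) (nat_lit 4) (nat_lit 71) (nat_lit 4) (nat_lit 472) (nat_lit 277) (nat_lit 271))) (XT.nd (nat_lit 78) (nat_lit 152) (nat_lit 0) (XT.lf (nat_lit 0) (nat_lit 34659188364) (nat_lit 76) (nat_lit 34983335473) (nat_lit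 76) (nat_lit 34939385917) (nat_lit 70) (nat_lit 4) (nat_lit 71) (nat_lit 5) (nat_lit 71) (nat_lit 4) (nat_lit 473) (nat_lit 277) (nat_lit 270)) (XT.lf (nat_lit 0) (nat_lit 14637584566) (nat_lit 152) (nat_lit 78103378657) (nat_lit 0) (nat_lit 14590831812) (nat_lit 68) (nat_lit 5) (nat_lit 70) (nat_lit 4) (nat_lit 68) (nat_lit 4) (nat_lit 474) (nat_lit 277) (nat_lit 269))))) (XT.nd (nat_lit 312) (nat_lit 608) (nat_lit 0) (XT.nd (nat_lit 156) (nat_lit 76) (nat_lit 0) (XT.nd (nat_lit 78) (nat_lit 152) (nat_lit 0) (XT.lf (nat_lit 0) (nat_lit 22203841654) (nat_lit 76) (nat_lit 44001891804) (nat_lit 76) (nat_lit 43950476162) (nat_lit 67) (nat_lit 4) (nat_lit 68) (nat_lit 5) (nat_lit 68) (nat_lit 4) (nat_lit 475) (nat_lit 277) (nat_lit 268)) (XT.lf (nat_lit 0) (nat_lit 7249731052) (nat_lit 152) (nat_lit 98657399832) (nat_lit 0) (nat_lit 7196534396) (nat_lit 65) (nat_lit 5) (nat_lit 67) (nat_lit 4) (nat_lit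 65) (nat_lit 4) (nat_lit 476) (nat_lit 277) (nat_lit 267))) (XT.nd (nat_lit 78) (nat_lit 0) (nat_lit 0) (XT.lf (nat_lit 0) (nat_lit 4630402978) (nat_lit 76) (nat_lit 55772886083) (nat_lit 76) (nat_lit 55715661449) (nat_lit 64) (nat_lit 4) (nat_lit 65) (nat_lit 5) (nat_lit 65) (nat_lit 4) (nat_lit 477) (nat_lit 277) (nat_lit 266)) (XT.lf (nat_lit 0) (nat_lit 113609413262) (nat_lit 76) (nat_lit 2861903966) (nat_lit 76) (nat_lit 2800843161) (nat_lit 64) (nat_lit 4) (nat_lit 65) (nat_lit 5) (nat_lit 65) (nat_lit 4) (nat_lit 478) (nat_lit 277) (nat_lit 265)))) (XT.nd (nat_lit 156) (nat_lit 380) (nat_lit 0) (XT.nd (nat_lit 78) (nat_lit 76) (nat_lit 0) (XT.lf (nat_lit 0) (nat_lit 52185358976) (nat_lit 152) (nat_lit 18177044958) (nat_lit 0) (nat_lit 52123726310) (nat_lit 62) (nat_lit 5) (nat_lit 64) (nat_lit 4) (nat_lit 62) (nat_lit 4) (nat_lit 479) (nat_lit 277) (nat_lit 264)) (XT.lf (nat_lit 0) (nat_lit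 94236250827) (nat_lit 76) (nat_lit 15837425938) (nat_lit 76) (nat_lit 15772479443) (nat_lit 61) (nat_lit 4) (nat_lit 62) (nat_lit 5) (nat_lit 62) (nat_lit 4) (nat_lit 480) (nat_lit 277) (nat_lit 263))) (XT.nd (nat_lit 78) (nat_lit 228) (nat_lit 0) (XT.lf (nat_lit 0) (nat_lit 41051429888) (nat_lit 152) (nat_lit 47258955882) (nat_lit 0) (nat_lit 40986570345) (nat_lit 59) (nat_lit 5) (nat_lit 61) (nat_lit 4) (nat_lit 59) (nat_lit 4) (nat_lit 481) (nat_lit 277) (nat_lit 262)) (XT.nd (nat_lit 78) (nat_lit 152) (nat_lit 0) (XT.lf (nat_lit 0) (nat_lit 68429793386) (nat_lit 76) (nat_lit 32260063733) (nat_lit 76) (nat_lit 32192341580) (nat_lit 58) (nat_lit 4) (nat_lit 59) (nat_lit 5) (nat_lit 59) (nat_lit 4) (nat_lit 482) (nat_lit 277) (nat_lit 261)) (XT.lf (nat_lit 0) (nat_lit 26515335166) (nat_lit 152) (nat_lit 83627050666) (nat_lit 0) (nat_lit 26448241406) (nat_lit 56) (nat_lit 5) (nat_lit 58) (nat_lit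 4) (nat_lit 56) (nat_lit 4) (nat_lit 483) (nat_lit 277) (nat_lit 260))))))))
noncomputable def xc5 : XT := (XT.nd (nat_lit 53040) (nat_lit 0) (nat_lit 76) (XT.nd (nat_lit 51792) (nat_lit 0) (nat_lit 1368) (XT.nd (nat_lit 624) (nat_lit 456) (nat_lit 0) (XT.nd (nat_lit 312) (nat_lit 456) (nat_lit 0) (XT.nd (nat_lit 156) (nat_lit 76) (nat_lit 0) (XT.nd (nat_lit 78) (nat_lit 152) (nat_lit 0) (XT.lf (nat_lit 0) (nat_lit 35308061131) (nat_lit 76) (nat_lit 52589277337) (nat_lit 76) (nat_lit 52519710748) (nat_lit 55) (nat_lit 4) (nat_lit 56) (nat_lit 5) (nat_lit 56) (nat_lit 4) (nat_lit 484) (nat_lit 277) (nat_lit 259)) (XT.lf (nat_lit 0) (nat_lit 8115382420) (nat_lit 152) (nat_lit 128243595612) (nat_lit 0) (nat_lit 8046885597) (nat_lit 53) (nat_lit 5) (nat_lit 55) (nat_lit 4) (nat_lit 53) (nat_lit 4) (nat_lit 485) (nat_lit 277) (nat_lit 258))) (XT.nd (nat_lit 78) (nat_lit 76) (nat_lit 0) (XT.lf (nat_lit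 0) (nat_lit 71319885820) (nat_lit 152) (nat_lit 5916798014) (nat_lit 0) (nat_lit 71249252874) (nat_lit 53) (nat_lit 5) (nat_lit 55) (nat_lit 4) (nat_lit 53) (nat_lit 4) (nat_lit 486) (nat_lit 277) (nat_lit 257)) (XT.lf (nat_lit 0) (nat_lit 123817228985) (nat_lit 76) (nat_lit 14496985891) (nat_lit 76) (nat_lit 14424318542) (nat_lit 52) (nat_lit 4) (nat_lit 53) (nat_lit 5) (nat_lit 53) (nat_lit 4) (nat_lit 487) (nat_lit 277) (nat_lit 256)))) (XT.nd (nat_lit 156) (nat_lit 228) (nat_lit 0) (XT.nd (nat_lit 78) (nat_lit 76) (nat_lit 0) (XT.lf (nat_lit 0) (nat_lit 51033861139) (nat_lit 152) (nat_lit 55105611196) (nat_lit 0) (nat_lit 50962808876) (nat_lit 50) (nat_lit 5) (nat_lit 52) (nat_lit 4) (nat_lit 50) (nat_lit 4) (nat_lit 488) (nat_lit 277) (nat_lit 255)) (XT.lf (nat_lit 0) (nat_lit 78152059399) (nat_lit 76) (nat_lit 41780268475) (nat_lit 76) (nat_lit 41707458819) (nat_lit 49) (nat_lit 4) (nat_lit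 50) (nat_lit 5) (nat_lit 50) (nat_lit 4) (nat_lit 489) (nat_lit 277) (nat_lit 254))) (XT.nd (nat_lit 78) (nat_lit 76) (nat_lit 0) (XT.lf (nat_lit 0) (nat_lit 25920559110) (nat_lit 152) (nat_lit 114569936407) (nat_lit 0) (nat_lit 25849622572) (nat_lit 47) (nat_lit 5) (nat_lit 49) (nat_lit 4) (nat_lit 47) (nat_lit 4) (nat_lit 490) (nat_lit 277) (nat_lit 253)) (XT.lf (nat_lit 0) (nat_lit 22129107878) (nat_lit 76) (nat_lit 74563213499) (nat_lit 76) (nat_lit 74490758859) (nat_lit 46) (nat_lit 4) (nat_lit 47) (nat_lit 5) (nat_lit 47) (nat_lit 4) (nat_lit 491) (nat_lit 277) (nat_lit 252))))) (XT.nd (nat_lit 312) (nat_lit 76) (nat_lit 0) (XT.nd (nat_lit 156) (nat_lit 228) (nat_lit 0) (XT.nd (nat_lit 78) (nat_lit 152) (nat_lit 0) (XT.lf (nat_lit 0) (nat_lit 167011759074) (nat_lit 76) (nat_lit 4648720734) (nat_lit 76) (nat_lit 4574820281) (nat_lit 46) (nat_lit 4) (nat_lit 47) (nat_lit 5) (nat_lit 47) (nat_lit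 4) (nat_lit 492) (nat_lit 277) (nat_lit 251)) (XT.lf (nat_lit 0) (nat_lit 68659466222) (nat_lit 152) (nat_lit 44137866301) (nat_lit 0) (nat_lit 68587773444) (nat_lit 44) (nat_lit 5) (nat_lit 46) (nat_lit 4) (nat_lit 44) (nat_lit 4) (nat_lit 493) (nat_lit 277) (nat_lit 250))) (XT.nd (nat_lit 78) (nat_lit 152) (nat_lit 0) (XT.lf (nat_lit 0) (nat_lit 105247169970) (nat_lit 76) (nat_lit 40791293510) (nat_lit 76) (nat_lit 40718351785) (nat_lit 43) (nat_lit 4) (nat_lit 44) (nat_lit 5) (nat_lit 44) (nat_lit 4) (nat_lit 494) (nat_lit 277) (nat_lit 249)) (XT.lf (nat_lit 0) (nat_lit 34953114263) (nat_lit 152) (nat_lit 122475222197) (nat_lit 0) (nat_lit 34882513122) (nat_lit 41) (nat_lit 5) (nat_lit 43) (nat_lit 4) (nat_lit 41) (nat_lit 4) (nat_lit 495) (nat_lit 277) (nat_lit 248)))) (XT.nd (nat_lit 50700) (nat_lit 0) (nat_lit 3040) (XT.nd (nat_lit 50622) (nat_lit 0) (nat_lit 3268) (XT.lf (nat_lit 0) (nat_lit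 30579486276) (nat_lit 76) (nat_lit 83768008222) (nat_lit 76) (nat_lit 83696328193) (nat_lit 40) (nat_lit 4) (nat_lit 41) (nat_lit 5) (nat_lit 41) (nat_lit 4) (nat_lit 496) (nat_lit 277) (nat_lit 247)) (XT.lf (nat_lit 0) (nat_lit 11099258886) (nat_lit 152) (nat_lit 19583890518) (nat_lit 0) (nat_lit 11099258886) (nat_lit 83) (nat_lit 5) (nat_lit 85) (nat_lit 4) (nat_lit 83) (nat_lit 4) (nat_lit 464) (nat_lit 278) (nat_lit 278))) (XT.nd (nat_lit 78) (nat_lit 152) (nat_lit 0) (XT.lf (nat_lit 0) (nat_lit 45165604961) (nat_lit 76) (nat_lit 20240654583) (nat_lit 76) (nat_lit 20231422382) (nat_lit 82) (nat_lit 4) (nat_lit 83) (nat_lit 5) (nat_lit 83) (nat_lit 4) (nat_lit 465) (nat_lit 278) (nat_lit 277)) (XT.lf (nat_lit 0) (nat_lit 22606546611) (nat_lit 152) (nat_lit 42581279191) (nat_lit 0) (nat_lit 22589380161) (nat_lit 80) (nat_lit 5) (nat_lit 82) (nat_lit 4) (nat_lit 80) (nat_lit 4) (nat_lit 466) (nat_lit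 278) (nat_lit 276)))))) (XT.nd (nat_lit 624) (nat_lit 760) (nat_lit 0) (XT.nd (nat_lit 312) (nat_lit 456) (nat_lit 0) (XT.nd (nat_lit 156) (nat_lit 228) (nat_lit 0) (XT.nd (nat_lit 78) (nat_lit 152) (nat_lit 0) (XT.lf (nat_lit 0) (nat_lit 44507354059) (nat_lit 76) (nat_lit 22753594224) (nat_lit 76) (nat_lit 22728452651) (nat_lit 79) (nat_lit 4) (nat_lit 80) (nat_lit 5) (nat_lit 80) (nat_lit 4) (nat_lit 467) (nat_lit 278) (nat_lit 275)) (XT.lf (nat_lit 0) (nat_lit 21525047580) (nat_lit 152) (nat_lit 49256839206) (nat_lit 0) (nat_lit 21493869554) (nat_lit 77) (nat_lit 5) (nat_lit 79) (nat_lit 4) (nat_lit 77) (nat_lit 4) (nat_lit 468) (nat_lit 278) (nat_lit 274))) (XT.nd (nat_lit 78) (nat_lit 152) (nat_lit 0) (XT.lf (nat_lit 0) (nat_lit 40622509180) (nat_lit 76) (nat_lit 27026147377) (nat_lit 76) (nat_lit 26988080142) (nat_lit 76) (nat_lit 4) (nat_lit 77) (nat_lit 5) (nat_lit 77) (nat_lit 4) (nat_lit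 469) (nat_lit 278) (nat_lit 273)) (XT.lf (nat_lit 0) (nat_lit 18725070151) (nat_lit 152) (nat_lit 59674860250) (nat_lit 0) (nat_lit 18682566924) (nat_lit 74) (nat_lit 5) (nat_lit 76) (nat_lit 4) (nat_lit 74) (nat_lit 4) (nat_lit 470) (nat_lit 278) (nat_lit 272)))) (XT.nd (nat_lit 156) (nat_lit 228) (nat_lit 0) (XT.nd (nat_lit 78) (nat_lit 152) (nat_lit 0) (XT.lf (nat_lit 0) (nat_lit 33021964101) (nat_lit 76) (nat_lit 33314469151) (nat_lit 76) (nat_lit 33266014766) (nat_lit 73) (nat_lit 4) (nat_lit 74) (nat_lit 5) (nat_lit 74) (nat_lit 4) (nat_lit 471) (nat_lit 278) (nat_lit 271)) (XT.lf (nat_lit 0) (nat_lit 13950334639) (nat_lit 152) (nat_lit 74372229824) (nat_lit 0) (nat_lit 13898789729) (nat_lit 71) (nat_lit 5) (nat_lit 73) (nat_lit 4) (nat_lit 71) (nat_lit 4) (nat_lit 472) (nat_lit 278) (nat_lit 270))) (XT.nd (nat_lit 78) (nat_lit 152) (nat_lit 0) (XT.lf (nat_lit 0) (nat_lit 21158613894) (nat_lit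 76) (nat_lit 41904661888) (nat_lit 76) (nat_lit 41847976143) (nat_lit 70) (nat_lit 4) (nat_lit 71) (nat_lit 5) (nat_lit 71) (nat_lit 4) (nat_lit 473) (nat_lit 278) (nat_lit 269)) (XT.lf (nat_lit 0) (nat_lit 6914244802) (nat_lit 152) (nat_lit 93948483416) (nat_lit 0) (nat_lit 6855595489) (nat_lit 68) (nat_lit 5) (nat_lit 70) (nat_lit 4) (nat_lit 68) (nat_lit 4) (nat_lit 474) (nat_lit 278) (nat_lit 268))))) (XT.nd (nat_lit 312) (nat_lit 456) (nat_lit 0) (XT.nd (nat_lit 156) (nat_lit 228) (nat_lit 0) (XT.nd (nat_lit 78) (nat_lit 0) (nat_lit 0) (XT.lf (nat_lit 0) (nat_lit 4421009675) (nat_lit 76) (nat_lit 53116042916) (nat_lit 76) (nat_lit 53052952756) (nat_lit 67) (nat_lit 4) (nat_lit 68) (nat_lit 5) (nat_lit 68) (nat_lit 4) (nat_lit 475) (nat_lit 278) (nat_lit 267)) (XT.lf (nat_lit 0) (nat_lit 108210348222) (nat_lit 76) (nat_lit 2725012201) (nat_lit 76) (nat_lit 2657692664) (nat_lit 67) (nat_lit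 4) (nat_lit 68) (nat_lit 5) (nat_lit 68) (nat_lit 4) (nat_lit 476) (nat_lit 278) (nat_lit 266))) (XT.nd (nat_lit 78) (nat_lit 76) (nat_lit 0) (XT.lf (nat_lit 0) (nat_lit 49710157053) (nat_lit 152) (nat_lit 17301587480) (nat_lit 0) (nat_lit 49642207038) (nat_lit 65) (nat_lit 5) (nat_lit 67) (nat_lit 4) (nat_lit 65) (nat_lit 4) (nat_lit 477) (nat_lit 278) (nat_lit 265)) (XT.lf (nat_lit 0) (nat_lit 89758852529) (nat_lit 76) (nat_lit 15083355642) (nat_lit 76) (nat_lit 15011752132) (nat_lit 64) (nat_lit 4) (nat_lit 65) (nat_lit 5) (nat_lit 65) (nat_lit 4) (nat_lit 478) (nat_lit 278) (nat_lit 264)))) (XT.nd (nat_lit 156) (nat_lit 228) (nat_lit 0) (XT.nd (nat_lit 78) (nat_lit 76) (nat_lit 0) (XT.lf (nat_lit 0) (nat_lit 39106250954) (nat_lit 152) (nat_lit 44999419443) (nat_lit 0) (nat_lit 39034743307) (nat_lit 62) (nat_lit 5) (nat_lit 64) (nat_lit 4) (nat_lit 62) (nat_lit 4) (nat_lit 479) (nat_lit 278)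 (nat_lit 263)) (XT.lf (nat_lit 0) (nat_lit 65180497427) (nat_lit 76) (nat_lit 30724541209) (nat_lit 76) (nat_lit 30649877535) (nat_lit 61) (nat_lit 4) (nat_lit 62) (nat_lit 5) (nat_lit 62) (nat_lit 4) (nat_lit 480) (nat_lit 278) (nat_lit 262))) (XT.nd (nat_lit 78) (nat_lit 76) (nat_lit 0) (XT.lf (nat_lit 0) (nat_lit 25262153627) (nat_lit 152) (nat_lit 79636395981) (nat_lit 0) (nat_lit 25188182757) (nat_lit 59) (nat_lit 5) (nat_lit 61) (nat_lit 4) (nat_lit 59) (nat_lit 4) (nat_lit 481) (nat_lit 278) (nat_lit 261)) (XT.lf (nat_lit 0) (nat_lit 33635291539) (nat_lit 76) (nat_lit 50086168312) (nat_lit 76) (nat_lit 50009471147) (nat_lit 58) (nat_lit 4) (nat_lit 59) (nat_lit 5) (nat_lit 59) (nat_lit 4) (nat_lit 482) (nat_lit 278) (nat_lit 260))))))) (XT.nd (nat_lit 51636) (nat_lit 0) (nat_lit 1596) (XT.nd (nat_lit 624) (nat_lit 608) (nat_lit 0) (XT.nd (nat_lit 312) (nat_lit 304) (nat_lit 0) (XT.nd (nat_lit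 156) (nat_lit 228) (nat_lit 0) (XT.nd (nat_lit 78) (nat_lit 0) (nat_lit 0) (XT.lf (nat_lit 0) (nat_lit 7738165253) (nat_lit 152) (nat_lit 122128970534) (nat_lit 0) (nat_lit 7662647505) (nat_lit 56) (nat_lit 5) (nat_lit 58) (nat_lit 4) (nat_lit 56) (nat_lit 4) (nat_lit 483) (nat_lit 278) (nat_lit 259)) (XT.lf (nat_lit 0) (nat_lit 67933035534) (nat_lit 152) (nat_lit 5627363675) (nat_lit 0) (nat_lit 67855162711) (nat_lit 56) (nat_lit 5) (nat_lit 58) (nat_lit 4) (nat_lit 56) (nat_lit 4) (nat_lit 484) (nat_lit 278) (nat_lit 258))) (XT.nd (nat_lit 78) (nat_lit 152) (nat_lit 0) (XT.lf (nat_lit 0) (nat_lit 117929003075) (nat_lit 76) (nat_lit 13808377790) (nat_lit 76) (nat_lit 13728262038) (nat_lit 55) (nat_lit 4) (nat_lit 56) (nat_lit 5) (nat_lit 56) (nat_lit 4) (nat_lit 485) (nat_lit 278) (nat_lit 257)) (XT.lf (nat_lit 0) (nat_lit 48612753702) (nat_lit 152) (nat_lit 52474404418) (nat_lit 0) (nat_lit 48534418583)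 (nat_lit 53) (nat_lit 5) (nat_lit 55) (nat_lit 4) (nat_lit 53) (nat_lit 4) (nat_lit 486) (nat_lit 278) (nat_lit 256)))) (XT.nd (nat_lit 156) (nat_lit 76) (nat_lit 0) (XT.nd (nat_lit 78) (nat_lit 152) (nat_lit 0) (XT.lf (nat_lit 0) (nat_lit 74437809209) (nat_lit 76) (nat_lit 39792731964) (nat_lit 76) (nat_lit 39712459318) (nat_lit 52) (nat_lit 4) (nat_lit 53) (nat_lit 5) (nat_lit 53) (nat_lit 4) (nat_lit 487) (nat_lit 278) (nat_lit 255)) (XT.lf (nat_lit 0) (nat_lit 24695051823) (nat_lit 152) (nat_lit 109107595457) (nat_lit 0) (nat_lit 24616844290) (nat_lit 50) (nat_lit 5) (nat_lit 52) (nat_lit 4) (nat_lit 50) (nat_lit 4) (nat_lit 488) (nat_lit 278) (nat_lit 254))) (XT.nd (nat_lit 78) (nat_lit 0) (nat_lit 0) (XT.lf (nat_lit 0) (nat_lit 21082112546) (nat_lit 76) (nat_lit 71014798072) (nat_lit 76) (nat_lit 70934916831) (nat_lit 49) (nat_lit 4) (nat_lit 50) (nat_lit 5) (nat_lit 50) (nat_lit 4) (nat_lit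 489) (nat_lit 278) (nat_lit 253)) (XT.lf (nat_lit 0) (nat_lit 159065516361) (nat_lit 76) (nat_lit 4429710396) (nat_lit 76) (nat_lit 4348235147) (nat_lit 49) (nat_lit 4) (nat_lit 50) (nat_lit 5) (nat_lit 50) (nat_lit 4) (nat_lit 490) (nat_lit 278) (nat_lit 252))))) (XT.nd (nat_lit 312) (nat_lit 152) (nat_lit 0) (XT.nd (nat_lit 156) (nat_lit 228) (nat_lit 0) (XT.nd (nat_lit 78) (nat_lit 76) (nat_lit 0) (XT.lf (nat_lit 0) (nat_lit 65398557075) (nat_lit 152) (nat_lit 42029952632) (nat_lit 0) (nat_lit 65319515787) (nat_lit 47) (nat_lit 5) (nat_lit 49) (nat_lit 4) (nat_lit 47) (nat_lit 4) (nat_lit 491) (nat_lit 278) (nat_lit 251)) (XT.lf (nat_lit 0) (nat_lit 100241649020) (nat_lit 76) (nat_lit 38851350196) (nat_lit 76) (nat_lit 38770931944) (nat_lit 46) (nat_lit 4) (nat_lit 47) (nat_lit 5) (nat_lit 47) (nat_lit 4) (nat_lit 492) (nat_lit 278) (nat_lit 250))) (XT.nd (nat_lit 78) (nat_lit 76) (nat_lit 0)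 (XT.lf (nat_lit 0) (nat_lit 33296974786) (nat_lit 152) (nat_lit 116637363526) (nat_lit 0) (nat_lit 33219137028) (nat_lit 44) (nat_lit 5) (nat_lit 46) (nat_lit 4) (nat_lit 44) (nat_lit 4) (nat_lit 493) (nat_lit 278) (nat_lit 249)) (XT.lf (nat_lit 0) (nat_lit 29129159278) (nat_lit 76) (nat_lit 79781655234) (nat_lit 76) (nat_lit 79702628003) (nat_lit 43) (nat_lit 4) (nat_lit 44) (nat_lit 5) (nat_lit 44) (nat_lit 4) (nat_lit 494) (nat_lit 278) (nat_lit 248)))) (XT.nd (nat_lit 50544) (nat_lit 0) (nat_lit 3344) (XT.nd (nat_lit 78) (nat_lit 152) (nat_lit 0) (XT.lf (nat_lit 0) (nat_lit 183848848418) (nat_lit 76) (nat_lit 5268558334) (nat_lit 76) (nat_lit 5188398271) (nat_lit 43) (nat_lit 4) (nat_lit 44) (nat_lit 5) (nat_lit 44) (nat_lit 4) (nat_lit 495) (nat_lit 278) (nat_lit 247)) (XT.lf (nat_lit 0) (nat_lit 73064189741) (nat_lit 152) (nat_lit 54057212019) (nat_lit 0) (nat_lit 72986819313) (nat_lit 41)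 (nat_lit 5) (nat_lit 43) (nat_lit 4) (nat_lit 41) (nat_lit 4) (nat_lit 496) (nat_lit 278) (nat_lit 246))) (XT.nd (nat_lit 78) (nat_lit 76) (nat_lit 0) (XT.lf (nat_lit 0) (nat_lit 10575732542) (nat_lit 152) (nat_lit 18641781840) (nat_lit 0) (nat_lit 10575732542) (nat_lit 86) (nat_lit 5) (nat_lit 88) (nat_lit 4) (nat_lit 86) (nat_lit 4) (nat_lit 462) (nat_lit 279) (nat_lit 279)) (XT.lf (nat_lit 0) (nat_lit 43034108400) (nat_lit 76) (nat_lit 19268341837) (nat_lit 76) (nat_lit 19258163336) (nat_lit 85) (nat_lit 4) (nat_lit 86) (nat_lit 5) (nat_lit 86) (nat_lit 4) (nat_lit 463) (nat_lit 279) (nat_lit 278)))))) (XT.nd (nat_lit 624) (nat_lit 836) (nat_lit 0) (XT.nd (nat_lit 312) (nat_lit 456) (nat_lit 0) (XT.nd (nat_lit 156) (nat_lit 228) (nat_lit 0) (XT.nd (nat_lit 78) (nat_lit 76) (nat_lit 0) (XT.lf (nat_lit 0) (nat_lit 21540431776) (nat_lit 152) (nat_lit 40536268031) (nat_lit 0) (nat_lit 21521505765)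 (nat_lit 83) (nat_lit 5) (nat_lit 85) (nat_lit 4) (nat_lit 83) (nat_lit 4) (nat_lit 464) (nat_lit 279) (nat_lit 277)) (XT.lf (nat_lit 0) (nat_lit 42405454983) (nat_lit 76) (nat_lit 21663644119) (nat_lit 76) (nat_lit 21635925536) (nat_lit 82) (nat_lit 4) (nat_lit 83) (nat_lit 5) (nat_lit 83) (nat_lit 4) (nat_lit 465) (nat_lit 279) (nat_lit 276))) (XT.nd (nat_lit 78) (nat_lit 76) (nat_lit 0) (XT.lf (nat_lit 0) (nat_lit 20510667937) (nat_lit 152) (nat_lit 46895499406) (nat_lit 0) (nat_lit 20476294164) (nat_lit 80) (nat_lit 5) (nat_lit 82) (nat_lit 4) (nat_lit 80) (nat_lit 4) (nat_lit 466) (nat_lit 279) (nat_lit 275)) (XT.lf (nat_lit 0) (nat_lit 38704051341) (nat_lit 76) (nat_lit 25734451306) (nat_lit 76) (nat_lit 25692482178) (nat_lit 79) (nat_lit 4) (nat_lit 80) (nat_lit 5) (nat_lit 80) (nat_lit 4) (nat_lit 467) (nat_lit 279) (nat_lit 274)))) (XT.nd (nat_lit 156) (nat_lit 228) (nat_lit 0) (XT.nd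 (nat_lit 78) (nat_lit 76) (nat_lit 0) (XT.lf (nat_lit 0) (nat_lit 17844147421) (nat_lit 152) (nat_lit 56818805943) (nat_lit 0) (nat_lit 17797287613) (nat_lit 77) (nat_lit 5) (nat_lit 79) (nat_lit 4) (nat_lit 77) (nat_lit 4) (nat_lit 468) (nat_lit 279) (nat_lit 273)) (XT.lf (nat_lit 0) (nat_lit 31464057258) (nat_lit 76) (nat_lit 31724765851) (nat_lit 76) (nat_lit 31671344890) (nat_lit 76) (nat_lit 4) (nat_lit 77) (nat_lit 5) (nat_lit 77) (nat_lit 4) (nat_lit 469) (nat_lit 279) (nat_lit 272))) (XT.nd (nat_lit 78) (nat_lit 76) (nat_lit 0) (XT.lf (nat_lit 0) (nat_lit 13296813136) (nat_lit 152) (nat_lit 70817530862) (nat_lit 0) (nat_lit 13239984872) (nat_lit 74) (nat_lit 5) (nat_lit 76) (nat_lit 4) (nat_lit 74) (nat_lit 4) (nat_lit 470) (nat_lit 279) (nat_lit 271)) (XT.lf (nat_lit 0) (nat_lit 20164398934) (nat_lit 76) (nat_lit 39907105136) (nat_lit 76) (nat_lit 39844609101) (nat_lit 73) (nat_lit 4)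 (nat_lit 74) (nat_lit 5) (nat_lit 74) (nat_lit 4) (nat_lit 471) (nat_lit 279) (nat_lit 270))))) (XT.nd (nat_lit 312) (nat_lit 456) (nat_lit 0) (XT.nd (nat_lit 156) (nat_lit 152) (nat_lit 0) (XT.nd (nat_lit 78) (nat_lit 76) (nat_lit 0) (XT.lf (nat_lit 0) (nat_lit 6595732339) (nat_lit 152) (nat_lit 89462679253) (nat_lit 0) (nat_lit 6531071472) (nat_lit 71) (nat_lit 5) (nat_lit 73) (nat_lit 4) (nat_lit 71) (nat_lit 4) (nat_lit 472) (nat_lit 279) (nat_lit 269)) (XT.lf (nat_lit 0) (nat_lit 4222725444) (nat_lit 76) (nat_lit 50585614466) (nat_lit 76) (nat_lit 50516057565) (nat_lit 70) (nat_lit 4) (nat_lit 71) (nat_lit 5) (nat_lit 71) (nat_lit 4) (nat_lit 473) (nat_lit 279) (nat_lit 268))) (XT.nd (nat_lit 78) (nat_lit 152) (nat_lit 0) (XT.lf (nat_lit 0) (nat_lit 103069499487) (nat_lit 76) (nat_lit 2594576502) (nat_lit 76) (nat_lit 2520356712) (nat_lit 70) (nat_lit 4) (nat_lit 71) (nat_lit 5) (nat_lit 71)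 (nat_lit 4) (nat_lit 474) (nat_lit 279) (nat_lit 267)) (XT.lf (nat_lit 0) (nat_lit 47353827943) (nat_lit 152) (nat_lit 16466805352) (nat_lit 0) (nat_lit 47278913052) (nat_lit 68) (nat_lit 5) (nat_lit 70) (nat_lit 4) (nat_lit 68) (nat_lit 4) (nat_lit 475) (nat_lit 279) (nat_lit 266)))) (XT.nd (nat_lit 156) (nat_lit 228) (nat_lit 0) (XT.nd (nat_lit 78) (nat_lit 152) (nat_lit 0) (XT.lf (nat_lit 0) (nat_lit 85495693002) (nat_lit 76) (nat_lit 14365202972) (nat_lit 76) (nat_lit 14286260102) (nat_lit 67) (nat_lit 4) (nat_lit 68) (nat_lit 5) (nat_lit 68) (nat_lit 4) (nat_lit 476) (nat_lit 279) (nat_lit 265)) (XT.lf (nat_lit 0) (nat_lit 37254688821) (nat_lit 152) (nat_lit 42846546206) (nat_lit 0) (nat_lit 37175851640) (nat_lit 65) (nat_lit 5) (nat_lit 67) (nat_lit 4) (nat_lit 65) (nat_lit 4) (nat_lit 477) (nat_lit 279) (nat_lit 264))) (XT.nd (nat_lit 78) (nat_lit 152) (nat_lit 0) (XT.lf (nat_lit 0) (nat_lit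 62086879574) (nat_lit 76) (nat_lit 29262207582) (nat_lit 76) (nat_lit 29179890882) (nat_lit 64) (nat_lit 4) (nat_lit 65) (nat_lit 5) (nat_lit 65) (nat_lit 4) (nat_lit 478) (nat_lit 279) (nat_lit 263)) (XT.lf (nat_lit 0) (nat_lit 24069616379) (nat_lit 152) (nat_lit 75834910018) (nat_lit 0) (nat_lit 23988063495) (nat_lit 62) (nat_lit 5) (nat_lit 64) (nat_lit 4) (nat_lit 62) (nat_lit 4) (nat_lit 479) (nat_lit 279) (nat_lit 262))))))))
noncomputable def xc6 : XT := (XT.nd (nat_lit 1248) (nat_lit 152) (nat_lit 0) (XT.nd (nat_lit 624) (nat_lit 684) (nat_lit 0) (XT.nd (nat_lit 312) (nat_lit 456) (nat_lit 0) (XT.nd (nat_lit 156) (nat_lit 76) (nat_lit 0) (XT.nd (nat_lit 78) (nat_lit 152) (nat_lit 0) (XT.lf (nat_lit 0) (nat_lit 32043055724) (nat_lit 76) (nat_lit 47702372038) (nat_lit 76) (nat_lit 47617813414) (nat_lit 61) (nat_lit 4) (nat_lit 62) (nat_lit 5) (nat_lit 62) (nat_lit 4) (nat_lit 480) (nat_lit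 279) (nat_lit 261)) (XT.lf (nat_lit 0) (nat_lit 7379856843) (nat_lit 152) (nat_lit 116304719892) (nat_lit 0) (nat_lit 7296598526) (nat_lit 59) (nat_lit 5) (nat_lit 61) (nat_lit 4) (nat_lit 59) (nat_lit 4) (nat_lit 481) (nat_lit 279) (nat_lit 260))) (XT.nd (nat_lit 78) (nat_lit 76) (nat_lit 0) (XT.lf (nat_lit 0) (nat_lit 64708420646) (nat_lit 152) (nat_lit 5350924513) (nat_lit 0) (nat_lit 64622565858) (nat_lit 59) (nat_lit 5) (nat_lit 61) (nat_lit 4) (nat_lit 59) (nat_lit 4) (nat_lit 482) (nat_lit 279) (nat_lit 259)) (XT.lf (nat_lit 0) (nat_lit 112321971718) (nat_lit 76) (nat_lit 13152737319) (nat_lit 76) (nat_lit 13064409702) (nat_lit 58) (nat_lit 4) (nat_lit 59) (nat_lit 5) (nat_lit 59) (nat_lit 4) (nat_lit 483) (nat_lit 279) (nat_lit 258)))) (XT.nd (nat_lit 156) (nat_lit 228) (nat_lit 0) (XT.nd (nat_lit 78) (nat_lit 76) (nat_lit 0) (XT.lf (nat_lit 0) (nat_lit 46307867430) (nat_lit 152) (nat_lit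 49967762370) (nat_lit 0) (nat_lit 46221502961) (nat_lit 56) (nat_lit 5) (nat_lit 58) (nat_lit 4) (nat_lit 56) (nat_lit 4) (nat_lit 484) (nat_lit 279) (nat_lit 257)) (XT.lf (nat_lit 0) (nat_lit 70901173912) (nat_lit 76) (nat_lit 37900045057) (nat_lit 76) (nat_lit 37811544464) (nat_lit 55) (nat_lit 4) (nat_lit 56) (nat_lit 5) (nat_lit 56) (nat_lit 4) (nat_lit 485) (nat_lit 279) (nat_lit 256))) (XT.nd (nat_lit 78) (nat_lit 76) (nat_lit 0) (XT.lf (nat_lit 0) (nat_lit 23528804544) (nat_lit 152) (nat_lit 103904686437) (nat_lit 0) (nat_lit 23442580738) (nat_lit 53) (nat_lit 5) (nat_lit 55) (nat_lit 4) (nat_lit 53) (nat_lit 4) (nat_lit 486) (nat_lit 279) (nat_lit 255)) (XT.lf (nat_lit 0) (nat_lit 20085668235) (nat_lit 76) (nat_lit 67635581721) (nat_lit 76) (nat_lit 67547512653) (nat_lit 52) (nat_lit 4) (nat_lit 53) (nat_lit 5) (nat_lit 53) (nat_lit 4) (nat_lit 487) (nat_lit 279) (nat_lit 254))))) (XT.nd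 (nat_lit 312) (nat_lit 304) (nat_lit 0) (XT.nd (nat_lit 156) (nat_lit 228) (nat_lit 0) (XT.nd (nat_lit 78) (nat_lit 152) (nat_lit 0) (XT.lf (nat_lit 0) (nat_lit 151498352723) (nat_lit 76) (nat_lit 4221370746) (nat_lit 76) (nat_lit 4131544284) (nat_lit 52) (nat_lit 4) (nat_lit 53) (nat_lit 5) (nat_lit 53) (nat_lit 4) (nat_lit 488) (nat_lit 279) (nat_lit 253)) (XT.lf (nat_lit 0) (nat_lit 62293809713) (nat_lit 152) (nat_lit 40021789476) (nat_lit 0) (nat_lit 62206666694) (nat_lit 50) (nat_lit 5) (nat_lit 52) (nat_lit 4) (nat_lit 50) (nat_lit 4) (nat_lit 489) (nat_lit 279) (nat_lit 252))) (XT.nd (nat_lit 78) (nat_lit 152) (nat_lit 0) (XT.lf (nat_lit 0) (nat_lit 95475126738) (nat_lit 76) (nat_lit 37004041306) (nat_lit 76) (nat_lit 36915380184) (nat_lit 49) (nat_lit 4) (nat_lit 50) (nat_lit 5) (nat_lit 50) (nat_lit 4) (nat_lit 490) (nat_lit 279) (nat_lit 251)) (XT.lf (nat_lit 0) (nat_lit 31720549283)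 (nat_lit 152) (nat_lit 111076913339) (nat_lit 0) (nat_lit 31634733155) (nat_lit 47) (nat_lit 5) (nat_lit 49) (nat_lit 4) (nat_lit 47) (nat_lit 4) (nat_lit 491) (nat_lit 279) (nat_lit 250)))) (XT.nd (nat_lit 156) (nat_lit 228) (nat_lit 0) (XT.nd (nat_lit 78) (nat_lit 0) (nat_lit 0) (XT.lf (nat_lit 0) (nat_lit 27748493970) (nat_lit 76) (nat_lit 75985395058) (nat_lit 76) (nat_lit 75898267535) (nat_lit 46) (nat_lit 4) (nat_lit 47) (nat_lit 5) (nat_lit 47) (nat_lit 4) (nat_lit 492) (nat_lit 279) (nat_lit 249)) (XT.lf (nat_lit 0) (nat_lit 175100521265) (nat_lit 76) (nat_lit 5020653326) (nat_lit 76) (nat_lit 4932276857) (nat_lit 46) (nat_lit 4) (nat_lit 47) (nat_lit 5) (nat_lit 47) (nat_lit 4) (nat_lit 493) (nat_lit 279) (nat_lit 248))) (XT.nd (nat_lit 78) (nat_lit 76) (nat_lit 0) (XT.lf (nat_lit 0) (nat_lit 69593811306) (nat_lit 152) (nat_lit 51477228004) (nat_lit 0) (nat_lit 69508510408) (nat_lit 44)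 (nat_lit 5) (nat_lit 46) (nat_lit 4) (nat_lit 44) (nat_lit 4) (nat_lit 494) (nat_lit 279) (nat_lit 247)) (XT.lf (nat_lit 0) (nat_lit 100432588623) (nat_lit 76) (nat_lit 47997119090) (nat_lit 76) (nat_lit 47910739305) (nat_lit 43) (nat_lit 4) (nat_lit 44) (nat_lit 5) (nat_lit 44) (nat_lit 4) (nat_lit 495) (nat_lit 279) (nat_lit 246)))))) (XT.nd (nat_lit 50856) (nat_lit 0) (nat_lit 2204) (XT.nd (nat_lit 50544) (nat_lit 0) (nat_lit 2964) (XT.nd (nat_lit 50388) (nat_lit 0) (nat_lit 3420) (XT.nd (nat_lit 50310) (nat_lit 0) (nat_lit 3648) (XT.lf (nat_lit 0) (nat_lit 29092007763) (nat_lit 152) (nat_lit 144206304492) (nat_lit 0) (nat_lit 29008762719) (nat_lit 41) (nat_lit 5) (nat_lit 43) (nat_lit 4) (nat_lit 41) (nat_lit 4) (nat_lit 496) (nat_lit 279) (nat_lit 245)) (XT.lf (nat_lit 0) (nat_lit 10077649527) (nat_lit 152) (nat_lit 17743557377) (nat_lit 0) (nat_lit 10077649527) (nat_lit 89) (nat_lit 5) (nat_lit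 91) (nat_lit 4) (nat_lit 89) (nat_lit 4) (nat_lit 460) (nat_lit 280) (nat_lit 280))) (XT.nd (nat_lit 78) (nat_lit 152) (nat_lit 0) (XT.lf (nat_lit 0) (nat_lit 41006084445) (nat_lit 76) (nat_lit 18341461314) (nat_lit 76) (nat_lit 18330239516) (nat_lit 88) (nat_lit 4) (nat_lit 89) (nat_lit 5) (nat_lit 89) (nat_lit 4) (nat_lit 461) (nat_lit 280) (nat_lit 279)) (XT.lf (nat_lit 0) (nat_lit 20526149021) (nat_lit 152) (nat_lit 38586861907) (nat_lit 0) (nat_lit 20505283094) (nat_lit 86) (nat_lit 5) (nat_lit 88) (nat_lit 4) (nat_lit 86) (nat_lit 4) (nat_lit 462) (nat_lit 280) (nat_lit 278)))) (XT.nd (nat_lit 156) (nat_lit 228) (nat_lit 0) (XT.nd (nat_lit 78) (nat_lit 152) (nat_lit 0) (XT.lf (nat_lit 0) (nat_lit 40405439961) (nat_lit 76) (nat_lit 20624935725) (nat_lit 76) (nat_lit 20594375987) (nat_lit 85) (nat_lit 4) (nat_lit 86) (nat_lit 5) (nat_lit 86) (nat_lit 4) (nat_lit 463) (nat_lit 280) (nat_lit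 277)) (XT.lf (nat_lit 0) (nat_lit 19545680905) (nat_lit 152) (nat_lit 44644987315) (nat_lit 0) (nat_lit 19507783820) (nat_lit 83) (nat_lit 5) (nat_lit 85) (nat_lit 4) (nat_lit 83) (nat_lit 4) (nat_lit 464) (nat_lit 280) (nat_lit 276))) (XT.nd (nat_lit 78) (nat_lit 152) (nat_lit 0) (XT.lf (nat_lit 0) (nat_lit 36878583243) (nat_lit 76) (nat_lit 24503779062) (nat_lit 76) (nat_lit 24457508099) (nat_lit 82) (nat_lit 4) (nat_lit 83) (nat_lit 5) (nat_lit 83) (nat_lit 4) (nat_lit 465) (nat_lit 280) (nat_lit 275)) (XT.lf (nat_lit 0) (nat_lit 17006274988) (nat_lit 152) (nat_lit 54097278806) (nat_lit 0) (nat_lit 16954612050) (nat_lit 80) (nat_lit 5) (nat_lit 82) (nat_lit 4) (nat_lit 80) (nat_lit 4) (nat_lit 466) (nat_lit 280) (nat_lit 274))))) (XT.nd (nat_lit 312) (nat_lit 304) (nat_lit 0) (XT.nd (nat_lit 156) (nat_lit 228) (nat_lit 0) (XT.nd (nat_lit 78) (nat_lit 152) (nat_lit 0) (XT.lf (nat_lit 0) (nat_lit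 29981829639) (nat_lit 76) (nat_lit 30210424457) (nat_lit 76) (nat_lit 30151527848) (nat_lit 79) (nat_lit 4) (nat_lit 80) (nat_lit 5) (nat_lit 80) (nat_lit 4) (nat_lit 467) (nat_lit 280) (nat_lit 273)) (XT.lf (nat_lit 0) (nat_lit 12675516669) (nat_lit 152) (nat_lit 67430753948) (nat_lit 0) (nat_lit 12612863508) (nat_lit 77) (nat_lit 5) (nat_lit 79) (nat_lit 4) (nat_lit 77) (nat_lit 4) (nat_lit 468) (nat_lit 280) (nat_lit 272))) (XT.nd (nat_lit 78) (nat_lit 152) (nat_lit 0) (XT.lf (nat_lit 0) (nat_lit 19218894696) (nat_lit 76) (nat_lit 38004455226) (nat_lit 76) (nat_lit 37935553348) (nat_lit 76) (nat_lit 4) (nat_lit 77) (nat_lit 5) (nat_lit 77) (nat_lit 4) (nat_lit 469) (nat_lit 280) (nat_lit 271)) (XT.lf (nat_lit 0) (nat_lit 6293487709) (nat_lit 152) (nat_lit 85189247959) (nat_lit 0) (nat_lit 6222199102) (nat_lit 74) (nat_lit 5) (nat_lit 76) (nat_lit 4) (nat_lit 74) (nat_lit 4) (nat_lit 470) (nat_lit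 280) (nat_lit 270)))) (XT.nd (nat_lit 156) (nat_lit 228) (nat_lit 0) (XT.nd (nat_lit 78) (nat_lit 0) (nat_lit 0) (XT.lf (nat_lit 0) (nat_lit 4035137924) (nat_lit 76) (nat_lit 48175570569) (nat_lit 76) (nat_lit 48098884086) (nat_lit 73) (nat_lit 4) (nat_lit 74) (nat_lit 5) (nat_lit 74) (nat_lit 4) (nat_lit 471) (nat_lit 280) (nat_lit 269)) (XT.lf (nat_lit 0) (nat_lit 98174685633) (nat_lit 76) (nat_lit 2470283022) (nat_lit 76) (nat_lit 2388455705) (nat_lit 73) (nat_lit 4) (nat_lit 74) (nat_lit 5) (nat_lit 74) (nat_lit 4) (nat_lit 472) (nat_lit 280) (nat_lit 268))) (XT.nd (nat_lit 78) (nat_lit 76) (nat_lit 0) (XT.lf (nat_lit 0) (nat_lit 45110814157) (nat_lit 152) (nat_lit 15670657811) (nat_lit 0) (nat_lit 45028220489) (nat_lit 71) (nat_lit 5) (nat_lit 73) (nat_lit 4) (nat_lit 71) (nat_lit 4) (nat_lit 473) (nat_lit 280) (nat_lit 267)) (XT.lf (nat_lit 0) (nat_lit 81436675905) (nat_lit 76) (nat_lit 13681258541)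 (nat_lit 76) (nat_lit 13594224027) (nat_lit 70) (nat_lit 4) (nat_lit 71) (nat_lit 5) (nat_lit 71) (nat_lit 4) (nat_lit 474) (nat_lit 280) (nat_lit 266)))))))
noncomputable def xc7 : XT := (XT.nd (nat_lit 1248) (nat_lit 456) (nat_lit 0) (XT.nd (nat_lit 624) (nat_lit 760) (nat_lit 0) (XT.nd (nat_lit 312) (nat_lit 380) (nat_lit 0) (XT.nd (nat_lit 156) (nat_lit 228) (nat_lit 0) (XT.nd (nat_lit 78) (nat_lit 76) (nat_lit 0) (XT.lf (nat_lit 0) (nat_lit 35492386943) (nat_lit 152) (nat_lit 40795161258) (nat_lit 0) (nat_lit 35405468952) (nat_lit 68) (nat_lit 5) (nat_lit 70) (nat_lit 4) (nat_lit 68) (nat_lit 4) (nat_lit 475) (nat_lit 280) (nat_lit 265)) (XT.lf (nat_lit 0) (nat_lit 59141623931) (nat_lit 76) (nat_lit 27869584715) (nat_lit 76) (nat_lit 27778830553) (nat_lit 67) (nat_lit 4) (nat_lit 68) (nat_lit 5) (nat_lit 68) (nat_lit 4) (nat_lit 476) (nat_lit 280) (nat_lit 264))) (XT.nd (nat_lit 78) (nat_lit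 76) (nat_lit 0) (XT.lf (nat_lit 0) (nat_lit 22934934921) (nat_lit 152) (nat_lit 72213496342) (nat_lit 0) (nat_lit 22845022867) (nat_lit 65) (nat_lit 5) (nat_lit 67) (nat_lit 4) (nat_lit 65) (nat_lit 4) (nat_lit 477) (nat_lit 280) (nat_lit 263)) (XT.lf (nat_lit 0) (nat_lit 30527608747) (nat_lit 76) (nat_lit 45432218956) (nat_lit 76) (nat_lit 45338993074) (nat_lit 64) (nat_lit 4) (nat_lit 65) (nat_lit 5) (nat_lit 65) (nat_lit 4) (nat_lit 478) (nat_lit 280) (nat_lit 262)))) (XT.nd (nat_lit 156) (nat_lit 228) (nat_lit 0) (XT.nd (nat_lit 78) (nat_lit 0) (nat_lit 0) (XT.lf (nat_lit 0) (nat_lit 7039653743) (nat_lit 152) (nat_lit 110756934517) (nat_lit 0) (nat_lit 6947861448) (nat_lit 62) (nat_lit 5) (nat_lit 64) (nat_lit 4) (nat_lit 62) (nat_lit 4) (nat_lit 479) (nat_lit 280) (nat_lit 261)) (XT.lf (nat_lit 0) (nat_lit 61638413732) (nat_lit 152) (nat_lit 5086781000) (nat_lit 0) (nat_lit 61543758829) (nat_lit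 62) (nat_lit 5) (nat_lit 64) (nat_lit 4) (nat_lit 62) (nat_lit 4) (nat_lit 480) (nat_lit 280) (nat_lit 260))) (XT.nd (nat_lit 78) (nat_lit 152) (nat_lit 0) (XT.lf (nat_lit 0) (nat_lit 106982826988) (nat_lit 76) (nat_lit 12528512708) (nat_lit 76) (nat_lit 12431131511) (nat_lit 61) (nat_lit 4) (nat_lit 62) (nat_lit 5) (nat_lit 62) (nat_lit 4) (nat_lit 481) (nat_lit 280) (nat_lit 259)) (XT.lf (nat_lit 0) (nat_lit 44113763340) (nat_lit 152) (nat_lit 47579678489) (nat_lit 0) (nat_lit 44018546513) (nat_lit 59) (nat_lit 5) (nat_lit 61) (nat_lit 4) (nat_lit 59) (nat_lit 4) (nat_lit 482) (nat_lit 280) (nat_lit 258))))) (XT.nd (nat_lit 312) (nat_lit 456) (nat_lit 0) (XT.nd (nat_lit 156) (nat_lit 76) (nat_lit 0) (XT.nd (nat_lit 78) (nat_lit 152) (nat_lit 0) (XT.lf (nat_lit 0) (nat_lit 67533772103) (nat_lit 76) (nat_lit 36097712120) (nat_lit 76) (nat_lit 36000140217) (nat_lit 58) (nat_lit 4) (nat_lit 59) (nat_lit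 5) (nat_lit 59) (nat_lit 4) (nat_lit 483) (nat_lit 280) (nat_lit 257)) (XT.lf (nat_lit 0) (nat_lit 22419087875) (nat_lit 152) (nat_lit 98948785792) (nat_lit 0) (nat_lit 22324026130) (nat_lit 56) (nat_lit 5) (nat_lit 58) (nat_lit 4) (nat_lit 56) (nat_lit 4) (nat_lit 484) (nat_lit 280) (nat_lit 256))) (XT.nd (nat_lit 78) (nat_lit 0) (nat_lit 0) (XT.lf (nat_lit 0) (nat_lit 19137438899) (nat_lit 76) (nat_lit 64417530607) (nat_lit 76) (nat_lit 64320434459) (nat_lit 55) (nat_lit 4) (nat_lit 56) (nat_lit 5) (nat_lit 56) (nat_lit 4) (nat_lit 485) (nat_lit 280) (nat_lit 255)) (XT.lf (nat_lit 0) (nat_lit 144292287148) (nat_lit 76) (nat_lit 4023218424) (nat_lit 76) (nat_lit 3924184750) (nat_lit 55) (nat_lit 4) (nat_lit 56) (nat_lit 5) (nat_lit 56) (nat_lit 4) (nat_lit 486) (nat_lit 280) (nat_lit 254)))) (XT.nd (nat_lit 156) (nat_lit 228) (nat_lit 0) (XT.nd (nat_lit 78) (nat_lit 76) (nat_lit 0) (XT.lf (nat_lit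 0) (nat_lit 59337878103) (nat_lit 152) (nat_lit 38108562612) (nat_lit 0) (nat_lit 59241802924) (nat_lit 53) (nat_lit 5) (nat_lit 55) (nat_lit 4) (nat_lit 53) (nat_lit 4) (nat_lit 487) (nat_lit 280) (nat_lit 253)) (XT.lf (nat_lit 0) (nat_lit 90936287888) (nat_lit 76) (nat_lit 35244981935) (nat_lit 76) (nat_lit 35147233048) (nat_lit 52) (nat_lit 4) (nat_lit 53) (nat_lit 5) (nat_lit 53) (nat_lit 4) (nat_lit 488) (nat_lit 280) (nat_lit 252))) (XT.nd (nat_lit 78) (nat_lit 76) (nat_lit 0) (XT.lf (nat_lit 0) (nat_lit 30220128996) (nat_lit 152) (nat_lit 105780601767) (nat_lit 0) (nat_lit 30125516715) (nat_lit 50) (nat_lit 5) (nat_lit 52) (nat_lit 4) (nat_lit 50) (nat_lit 4) (nat_lit 489) (nat_lit 280) (nat_lit 251)) (XT.lf (nat_lit 0) (nat_lit 26434234475) (nat_lit 76) (nat_lit 72370202967) (nat_lit 76) (nat_lit 72274144874) (nat_lit 49) (nat_lit 4) (nat_lit 50) (nat_lit 5) (nat_lit 50) (nat_lit 4) (nat_lit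 490) (nat_lit 280) (nat_lit 250)))))) (XT.nd (nat_lit 50700) (nat_lit 0) (nat_lit 2584) (XT.nd (nat_lit 312) (nat_lit 76) (nat_lit 0) (XT.nd (nat_lit 156) (nat_lit 228) (nat_lit 0) (XT.nd (nat_lit 78) (nat_lit 152) (nat_lit 0) (XT.lf (nat_lit 0) (nat_lit 166769435060) (nat_lit 76) (nat_lit 4784858637) (nat_lit 76) (nat_lit 4687423580) (nat_lit 49) (nat_lit 4) (nat_lit 50) (nat_lit 5) (nat_lit 50) (nat_lit 4) (nat_lit 491) (nat_lit 280) (nat_lit 249)) (XT.lf (nat_lit 0) (nat_lit 66289598027) (nat_lit 152) (nat_lit 49019502687) (nat_lit 0) (nat_lit 66195553788) (nat_lit 47) (nat_lit 5) (nat_lit 49) (nat_lit 4) (nat_lit 47) (nat_lit 4) (nat_lit 492) (nat_lit 280) (nat_lit 248))) (XT.nd (nat_lit 78) (nat_lit 152) (nat_lit 0) (XT.lf (nat_lit 0) (nat_lit 95656670853) (nat_lit 76) (nat_lit 45714889211) (nat_lit 76) (nat_lit 45619655498) (nat_lit 46) (nat_lit 4) (nat_lit 47) (nat_lit 5) (nat_lit 47) (nat_lit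 4) (nat_lit 493) (nat_lit 280) (nat_lit 247)) (XT.lf (nat_lit 0) (nat_lit 27716084928) (nat_lit 152) (nat_lit 137333313735) (nat_lit 0) (nat_lit 27624307267) (nat_lit 44) (nat_lit 5) (nat_lit 46) (nat_lit 4) (nat_lit 44) (nat_lit 4) (nat_lit 494) (nat_lit 280) (nat_lit 246)))) (XT.nd (nat_lit 50232) (nat_lit 0) (nat_lit 3648) (XT.nd (nat_lit 78) (nat_lit 0) (nat_lit 0) (XT.lf (nat_lit 0) (nat_lit 10682662601) (nat_lit 76) (nat_lit 93969859385) (nat_lit 76) (nat_lit 93877054212) (nat_lit 43) (nat_lit 4) (nat_lit 44) (nat_lit 5) (nat_lit 44) (nat_lit 4) (nat_lit 495) (nat_lit 280) (nat_lit 245)) (XT.lf (nat_lit 0) (nat_lit 168807480077) (nat_lit 76) (nat_lit 17949248146) (nat_lit 76) (nat_lit 17855464390) (nat_lit 43) (nat_lit 4) (nat_lit 44) (nat_lit 5) (nat_lit 44) (nat_lit 4) (nat_lit 496) (nat_lit 280) (nat_lit 244))) (XT.nd (nat_lit 78) (nat_lit 76) (nat_lit 0) (XT.lf (nat_lit 0) (nat_lit 9603850889)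 (nat_lit 152) (nat_lit 16887027150) (nat_lit 0) (nat_lit 9603850889) (nat_lit 92) (nat_lit 5) (nat_lit 94) (nat_lit 4) (nat_lit 92) (nat_lit 4) (nat_lit 458) (nat_lit 281) (nat_lit 281)) (XT.lf (nat_lit 0) (nat_lit 39076808038) (nat_lit 76) (nat_lit 17457760563) (nat_lit 76) (nat_lit 17445388531) (nat_lit 91) (nat_lit 4) (nat_lit 92) (nat_lit 5) (nat_lit 92) (nat_lit 4) (nat_lit 459) (nat_lit 281) (nat_lit 280))))) (XT.nd (nat_lit 312) (nat_lit 608) (nat_lit 0) (XT.nd (nat_lit 156) (nat_lit 228) (nat_lit 0) (XT.nd (nat_lit 78) (nat_lit 76) (nat_lit 0) (XT.lf (nat_lit 0) (nat_lit 19561339285) (nat_lit 152) (nat_lit 36728326112) (nat_lit 0) (nat_lit 19538334600) (nat_lit 89) (nat_lit 5) (nat_lit 91) (nat_lit 4) (nat_lit 89) (nat_lit 4) (nat_lit 460) (nat_lit 281) (nat_lit 279)) (XT.lf (nat_lit 0) (nat_lit 38502641216) (nat_lit 76) (nat_lit 19634961240) (nat_lit 76) (nat_lit 19601269129) (nat_lit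 88) (nat_lit 4) (nat_lit 89) (nat_lit 5) (nat_lit 89) (nat_lit 4) (nat_lit 461) (nat_lit 281) (nat_lit 278))) (XT.nd (nat_lit 78) (nat_lit 76) (nat_lit 0) (XT.lf (nat_lit 0) (nat_lit 18627846059) (nat_lit 152) (nat_lit 42499859677) (nat_lit 0) (nat_lit 18586064523) (nat_lit 86) (nat_lit 5) (nat_lit 88) (nat_lit 4) (nat_lit 86) (nat_lit 4) (nat_lit 462) (nat_lit 281) (nat_lit 277)) (XT.lf (nat_lit 0) (nat_lit 35141844348) (nat_lit 76) (nat_lit 23331174984) (nat_lit 76) (nat_lit 23280161248) (nat_lit 85) (nat_lit 4) (nat_lit 86) (nat_lit 5) (nat_lit 86) (nat_lit 4) (nat_lit 463) (nat_lit 281) (nat_lit 276)))) (XT.nd (nat_lit 156) (nat_lit 380) (nat_lit 0) (XT.nd (nat_lit 78) (nat_lit 76) (nat_lit 0) (XT.lf (nat_lit 0) (nat_lit 16209515752) (nat_lit 152) (nat_lit 51503721555) (nat_lit 0) (nat_lit 16152557363) (nat_lit 83) (nat_lit 5) (nat_lit 85) (nat_lit 4) (nat_lit 83) (nat_lit 4) (nat_lit 464)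 (nat_lit 281) (nat_lit 275)) (XT.lf (nat_lit 0) (nat_lit 28571830521) (nat_lit 76) (nat_lit 28767821636) (nat_lit 76) (nat_lit 28702888125) (nat_lit 82) (nat_lit 4) (nat_lit 83) (nat_lit 5) (nat_lit 83) (nat_lit 4) (nat_lit 465) (nat_lit 281) (nat_lit 274))) (XT.nd (nat_lit 78) (nat_lit 228) (nat_lit 0) (XT.lf (nat_lit 0) (nat_lit 12085023972) (nat_lit 152) (nat_lit 64203764486) (nat_lit 0) (nat_lit 12015948862) (nat_lit 80) (nat_lit 5) (nat_lit 82) (nat_lit 4) (nat_lit 80) (nat_lit 4) (nat_lit 466) (nat_lit 281) (nat_lit 273)) (XT.nd (nat_lit 78) (nat_lit 152) (nat_lit 0) (XT.lf (nat_lit 0) (nat_lit 18319921756) (nat_lit 76) (nat_lit 36192170756) (nat_lit 76) (nat_lit 36116206436) (nat_lit 79) (nat_lit 4) (nat_lit 80) (nat_lit 5) (nat_lit 80) (nat_lit 4) (nat_lit 467) (nat_lit 281) (nat_lit 272)) (XT.lf (nat_lit 0) (nat_lit 6006849060) (nat_lit 152) (nat_lit 81117949763) (nat_lit 0) (nat_lit 5928253372)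 (nat_lit 77) (nat_lit 5) (nat_lit 79) (nat_lit 4) (nat_lit 77) (nat_lit 4) (nat_lit 468) (nat_lit 281) (nat_lit 271))))))))
noncomputable def xc8 : XT := (XT.nd (nat_lit 52416) (nat_lit 0) (nat_lit 456) (XT.nd (nat_lit 1248) (nat_lit 1140) (nat_lit 0) (XT.nd (nat_lit 624) (nat_lit 684) (nat_lit 0) (XT.nd (nat_lit 312) (nat_lit 456) (nat_lit 0) (XT.nd (nat_lit 156) (nat_lit 228) (nat_lit 0) (XT.nd (nat_lit 78) (nat_lit 0) (nat_lit 0) (XT.lf (nat_lit 0) (nat_lit 3857866343) (nat_lit 76) (nat_lit 45880167143) (nat_lit 76) (nat_lit 45795620295) (nat_lit 76) (nat_lit 4) (nat_lit 77) (nat_lit 5) (nat_lit 77) (nat_lit 4) (nat_lit 469) (nat_lit 281) (nat_lit 270)) (XT.lf (nat_lit 0) (nat_lit 93514317053) (nat_lit 76) (nat_lit 2351832203) (nat_lit 76) (nat_lit 2261617585) (nat_lit 76) (nat_lit 4) (nat_lit 77) (nat_lit 5) (nat_lit 77) (nat_lit 4) (nat_lit 470) (nat_lit 281) (nat_lit 269))) (XT.nd (nat_lit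 78) (nat_lit 76) (nat_lit 0) (XT.lf (nat_lit 0) (nat_lit 42975833417) (nat_lit 152) (nat_lit 14911190627) (nat_lit 0) (nat_lit 42884773898) (nat_lit 74) (nat_lit 5) (nat_lit 76) (nat_lit 4) (nat_lit 74) (nat_lit 4) (nat_lit 471) (nat_lit 281) (nat_lit 268)) (XT.lf (nat_lit 0) (nat_lit 77572196490) (nat_lit 76) (nat_lit 13029894459) (nat_lit 76) (nat_lit 12933938907) (nat_lit 73) (nat_lit 4) (nat_lit 74) (nat_lit 5) (nat_lit 74) (nat_lit 4) (nat_lit 472) (nat_lit 281) (nat_lit 267)))) (XT.nd (nat_lit 156) (nat_lit 228) (nat_lit 0) (XT.nd (nat_lit 78) (nat_lit 76) (nat_lit 0) (XT.lf (nat_lit 0) (nat_lit 33815206623) (nat_lit 152) (nat_lit 38840326303) (nat_lit 0) (nat_lit 33719379537) (nat_lit 71) (nat_lit 5) (nat_lit 73) (nat_lit 4) (nat_lit 71) (nat_lit 4) (nat_lit 473) (nat_lit 281) (nat_lit 266)) (XT.lf (nat_lit 0) (nat_lit 56337772956) (nat_lit 76) (nat_lit 26543360821) (nat_lit 76) (nat_lit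 26443304357) (nat_lit 70) (nat_lit 4) (nat_lit 71) (nat_lit 5) (nat_lit 71) (nat_lit 4) (nat_lit 474) (nat_lit 281) (nat_lit 265))) (XT.nd (nat_lit 78) (nat_lit 76) (nat_lit 0) (XT.lf (nat_lit 0) (nat_lit 21855463715) (nat_lit 152) (nat_lit 68763482618) (nat_lit 0) (nat_lit 21756335675) (nat_lit 68) (nat_lit 5) (nat_lit 70) (nat_lit 4) (nat_lit 68) (nat_lit 4) (nat_lit 475) (nat_lit 281) (nat_lit 264)) (XT.lf (nat_lit 0) (nat_lit 29085393227) (nat_lit 76) (nat_lit 43270310718) (nat_lit 76) (nat_lit 43167529183) (nat_lit 67) (nat_lit 4) (nat_lit 68) (nat_lit 5) (nat_lit 68) (nat_lit 4) (nat_lit 476) (nat_lit 281) (nat_lit 263))))) (XT.nd (nat_lit 312) (nat_lit 304) (nat_lit 0) (XT.nd (nat_lit 156) (nat_lit 228) (nat_lit 0) (XT.nd (nat_lit 78) (nat_lit 0) (nat_lit 0) (XT.lf (nat_lit 0) (nat_lit 6716800702) (nat_lit 152) (nat_lit 105472359197) (nat_lit 0) (nat_lit 6615599697) (nat_lit 65) (nat_lit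 5) (nat_lit 67) (nat_lit 4) (nat_lit 65) (nat_lit 4) (nat_lit 477) (nat_lit 281) (nat_lit 262)) (XT.lf (nat_lit 0) (nat_lit 58715760635) (nat_lit 152) (nat_lit 4834258648) (nat_lit 0) (nat_lit 58611403604) (nat_lit 65) (nat_lit 5) (nat_lit 67) (nat_lit 4) (nat_lit 65) (nat_lit 4) (nat_lit 478) (nat_lit 281) (nat_lit 261))) (XT.nd (nat_lit 78) (nat_lit 152) (nat_lit 0) (XT.lf (nat_lit 0) (nat_lit 101898903106) (nat_lit 76) (nat_lit 11934227942) (nat_lit 76) (nat_lit 11826865171) (nat_lit 64) (nat_lit 4) (nat_lit 65) (nat_lit 5) (nat_lit 65) (nat_lit 4) (nat_lit 479) (nat_lit 281) (nat_lit 260)) (XT.lf (nat_lit 0) (nat_lit 42025271224) (nat_lit 152) (nat_lit 45304424559) (nat_lit 0) (nat_lit 41920294671) (nat_lit 62) (nat_lit 5) (nat_lit 64) (nat_lit 4) (nat_lit 62) (nat_lit 4) (nat_lit 480) (nat_lit 281) (nat_lit 259)))) (XT.nd (nat_lit 156) (nat_lit 76) (nat_lit 0) (XT.nd (nat_lit 78) (nat_lit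 152) (nat_lit 0) (XT.lf (nat_lit 0) (nat_lit 64327629330) (nat_lit 76) (nat_lit 34381453750) (nat_lit 76) (nat_lit 34273880726) (nat_lit 61) (nat_lit 4) (nat_lit 62) (nat_lit 5) (nat_lit 62) (nat_lit 4) (nat_lit 481) (nat_lit 281) (nat_lit 258)) (XT.lf (nat_lit 0) (nat_lit 21363311873) (nat_lit 152) (nat_lit 94228054427) (nat_lit 0) (nat_lit 21258506299) (nat_lit 59) (nat_lit 5) (nat_lit 61) (nat_lit 4) (nat_lit 59) (nat_lit 4) (nat_lit 482) (nat_lit 281) (nat_lit 257))) (XT.nd (nat_lit 78) (nat_lit 0) (nat_lit 0) (XT.lf (nat_lit 0) (nat_lit 18235207024) (nat_lit 76) (nat_lit 61352995835) (nat_lit 76) (nat_lit 61245947332) (nat_lit 58) (nat_lit 4) (nat_lit 59) (nat_lit 5) (nat_lit 59) (nat_lit 4) (nat_lit 483) (nat_lit 281) (nat_lit 256)) (XT.lf (nat_lit 0) (nat_lit 137430202077) (nat_lit 76) (nat_lit 3834795624) (nat_lit 76) (nat_lit 3725610997) (nat_lit 58) (nat_lit 4) (nat_lit 59) (nat_lit 5)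 (nat_lit 59) (nat_lit 4) (nat_lit 484) (nat_lit 281) (nat_lit 255)))))) (XT.nd (nat_lit 624) (nat_lit 304) (nat_lit 0) (XT.nd (nat_lit 312) (nat_lit 380) (nat_lit 0) (XT.nd (nat_lit 156) (nat_lit 228) (nat_lit 0) (XT.nd (nat_lit 78) (nat_lit 76) (nat_lit 0) (XT.lf (nat_lit 0) (nat_lit 56523775269) (nat_lit 152) (nat_lit 36285680483) (nat_lit 0) (nat_lit 56417852384) (nat_lit 56) (nat_lit 5) (nat_lit 58) (nat_lit 4) (nat_lit 56) (nat_lit 4) (nat_lit 485) (nat_lit 281) (nat_lit 254)) (XT.lf (nat_lit 0) (nat_lit 86614362787) (nat_lit 76) (nat_lit 33569998675) (nat_lit 76) (nat_lit 33462230526) (nat_lit 55) (nat_lit 4) (nat_lit 56) (nat_lit 5) (nat_lit 56) (nat_lit 4) (nat_lit 486) (nat_lit 281) (nat_lit 253))) (XT.nd (nat_lit 78) (nat_lit 76) (nat_lit 0) (XT.lf (nat_lit 0) (nat_lit 28792190705) (nat_lit 152) (nat_lit 100735784696) (nat_lit 0) (nat_lit 28687880665) (nat_lit 53) (nat_lit 5) (nat_lit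 55) (nat_lit 4) (nat_lit 53) (nat_lit 4) (nat_lit 487) (nat_lit 281) (nat_lit 252)) (XT.lf (nat_lit 0) (nat_lit 25183286244) (nat_lit 76) (nat_lit 68927486786) (nat_lit 76) (nat_lit 68821582738) (nat_lit 52) (nat_lit 4) (nat_lit 53) (nat_lit 5) (nat_lit 53) (nat_lit 4) (nat_lit 488) (nat_lit 281) (nat_lit 251)))) (XT.nd (nat_lit 156) (nat_lit 228) (nat_lit 0) (XT.nd (nat_lit 78) (nat_lit 152) (nat_lit 0) (XT.lf (nat_lit 0) (nat_lit 158835788216) (nat_lit 76) (nat_lit 4560628881) (nat_lit 76) (nat_lit 4453206730) (nat_lit 52) (nat_lit 4) (nat_lit 53) (nat_lit 5) (nat_lit 53) (nat_lit 4) (nat_lit 489) (nat_lit 281) (nat_lit 250)) (XT.lf (nat_lit 0) (nat_lit 63143730456) (nat_lit 152) (nat_lit 46678152962) (nat_lit 0) (nat_lit 63040046682) (nat_lit 50) (nat_lit 5) (nat_lit 52) (nat_lit 4) (nat_lit 50) (nat_lit 4) (nat_lit 490) (nat_lit 281) (nat_lit 249))) (XT.nd (nat_lit 78) (nat_lit 152) (nat_lit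 0) (XT.lf (nat_lit 0) (nat_lit 91108852851) (nat_lit 76) (nat_lit 43541680035) (nat_lit 76) (nat_lit 43436684867) (nat_lit 49) (nat_lit 4) (nat_lit 50) (nat_lit 5) (nat_lit 50) (nat_lit 4) (nat_lit 491) (nat_lit 281) (nat_lit 248)) (XT.lf (nat_lit 0) (nat_lit 26406646843) (nat_lit 152) (nat_lit 130786990805) (nat_lit 0) (nat_lit 26305461971) (nat_lit 47) (nat_lit 5) (nat_lit 49) (nat_lit 4) (nat_lit 47) (nat_lit 4) (nat_lit 492) (nat_lit 281) (nat_lit 247))))) (XT.nd (nat_lit 50232) (nat_lit 0) (nat_lit 3648) (XT.nd (nat_lit 156) (nat_lit 228) (nat_lit 0) (XT.nd (nat_lit 78) (nat_lit 0) (nat_lit 0) (XT.lf (nat_lit 0) (nat_lit 10180773052) (nat_lit 76) (nat_lit 89498827864) (nat_lit 76) (nat_lit 89396510161) (nat_lit 46) (nat_lit 4) (nat_lit 47) (nat_lit 5) (nat_lit 47) (nat_lit 4) (nat_lit 493) (nat_lit 281) (nat_lit 246)) (XT.lf (nat_lit 0) (nat_lit 160775787557) (nat_lit 76) (nat_lit 17098342878)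 (nat_lit 76) (nat_lit 16994946287) (nat_lit 46) (nat_lit 4) (nat_lit 47) (nat_lit 5) (nat_lit 47) (nat_lit 4) (nat_lit 494) (nat_lit 281) (nat_lit 245))) (XT.nd (nat_lit 78) (nat_lit 76) (nat_lit 0) (XT.lf (nat_lit 0) (nat_lit 59018302331) (nat_lit 152) (nat_lit 82874417433) (nat_lit 0) (nat_lit 58918850805) (nat_lit 44) (nat_lit 5) (nat_lit 46) (nat_lit 4) (nat_lit 44) (nat_lit 4) (nat_lit 495) (nat_lit 281) (nat_lit 244)) (XT.lf (nat_lit 0) (nat_lit 71553235753) (nat_lit 76) (nat_lit 67765755308) (nat_lit 76) (nat_lit 67665371798) (nat_lit 43) (nat_lit 4) (nat_lit 44) (nat_lit 5) (nat_lit 44) (nat_lit 4) (nat_lit 496) (nat_lit 281) (nat_lit 243)))) (XT.nd (nat_lit 156) (nat_lit 228) (nat_lit 0) (XT.nd (nat_lit 78) (nat_lit 76) (nat_lit 0) (XT.lf (nat_lit 0) (nat_lit 9153238258) (nat_lit 152) (nat_lit 16070095186) (nat_lit 0) (nat_lit 9153238258) (nat_lit 95) (nat_lit 5) (nat_lit 97) (nat_lit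 4) (nat_lit 95) (nat_lit 4) (nat_lit 456) (nat_lit 282) (nat_lit 282)) (XT.lf (nat_lit 0) (nat_lit 37241799849) (nat_lit 76) (nat_lit 16615085273) (nat_lit 76) (nat_lit 16601445108) (nat_lit 94) (nat_lit 4) (nat_lit 95) (nat_lit 5) (nat_lit 95) (nat_lit 4) (nat_lit 457) (nat_lit 282) (nat_lit 281))) (XT.nd (nat_lit 78) (nat_lit 76) (nat_lit 0) (XT.lf (nat_lit 0) (nat_lit 18643767027) (nat_lit 152) (nat_lit 34956132738) (nat_lit 0) (nat_lit 18618404362) (nat_lit 92) (nat_lit 5) (nat_lit 94) (nat_lit 4) (nat_lit 92) (nat_lit 4) (nat_lit 458) (nat_lit 282) (nat_lit 280)) (XT.lf (nat_lit 0) (nat_lit 36692632091) (nat_lit 76) (nat_lit 18691325342) (nat_lit 76) (nat_lit 18654179789) (nat_lit 91) (nat_lit 4) (nat_lit 92) (nat_lit 5) (nat_lit 92) (nat_lit 4) (nat_lit 459) (nat_lit 282) (nat_lit 279))))))) (XT.nd (nat_lit 1248) (nat_lit 1444) (nat_lit 0) (XT.nd (nat_lit 624) (nat_lit 836) (nat_lit 0) (XT.nd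 (nat_lit 312) (nat_lit 456) (nat_lit 0) (XT.nd (nat_lit 156) (nat_lit 228) (nat_lit 0) (XT.nd (nat_lit 78) (nat_lit 76) (nat_lit 0) (XT.lf (nat_lit 0) (nat_lit 17755041101) (nat_lit 152) (nat_lit 40454915449) (nat_lit 0) (nat_lit 17708976958) (nat_lit 89) (nat_lit 5) (nat_lit 91) (nat_lit 4) (nat_lit 89) (nat_lit 4) (nat_lit 460) (nat_lit 282) (nat_lit 278)) (XT.lf (nat_lit 0) (nat_lit 33489794178) (nat_lit 76) (nat_lit 22213819057) (nat_lit 76) (nat_lit 22157576412) (nat_lit 88) (nat_lit 4) (nat_lit 89) (nat_lit 5) (nat_lit 89) (nat_lit 4) (nat_lit 461) (nat_lit 282) (nat_lit 277))) (XT.nd (nat_lit 78) (nat_lit 76) (nat_lit 0) (XT.lf (nat_lit 0) (nat_lit 15452036428) (nat_lit 152) (nat_lit 49031873653) (nat_lit 0) (nat_lit 15389239804) (nat_lit 86) (nat_lit 5) (nat_lit 88) (nat_lit 4) (nat_lit 86) (nat_lit 4) (nat_lit 462) (nat_lit 282) (nat_lit 276)) (XT.lf (nat_lit 0) (nat_lit 27230789192) (nat_lit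 76) (nat_lit 27393503042) (nat_lit 76) (nat_lit 27321913846) (nat_lit 85) (nat_lit 4) (nat_lit 86) (nat_lit 5) (nat_lit 86) (nat_lit 4) (nat_lit 463) (nat_lit 282) (nat_lit 275)))) (XT.nd (nat_lit 156) (nat_lit 228) (nat_lit 0) (XT.nd (nat_lit 78) (nat_lit 76) (nat_lit 0) (XT.lf (nat_lit 0) (nat_lit 11523993066) (nat_lit 152) (nat_lit 61128801069) (nat_lit 0) (nat_lit 11447837758) (nat_lit 83) (nat_lit 5) (nat_lit 85) (nat_lit 4) (nat_lit 83) (nat_lit 4) (nat_lit 464) (nat_lit 282) (nat_lit 274)) (XT.lf (nat_lit 0) (nat_lit 17465418835) (nat_lit 76) (nat_lit 34465924325) (nat_lit 76) (nat_lit 34382173662) (nat_lit 82) (nat_lit 4) (nat_lit 83) (nat_lit 5) (nat_lit 83) (nat_lit 4) (nat_lit 465) (nat_lit 282) (nat_lit 273))) (XT.nd (nat_lit 78) (nat_lit 76) (nat_lit 0) (XT.lf (nat_lit 0) (nat_lit 5735197624) (nat_lit 152) (nat_lit 77239019507) (nat_lit 0) (nat_lit 5648545877) (nat_lit 80) (nat_lit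 5) (nat_lit 82) (nat_lit 4) (nat_lit 80) (nat_lit 4) (nat_lit 466) (nat_lit 282) (nat_lit 272)) (XT.lf (nat_lit 0) (nat_lit 3690561246) (nat_lit 76) (nat_lit 43693932456) (nat_lit 76) (nat_lit 43600719557) (nat_lit 79) (nat_lit 4) (nat_lit 80) (nat_lit 5) (nat_lit 80) (nat_lit 4) (nat_lit 467) (nat_lit 282) (nat_lit 271))))) (XT.nd (nat_lit 312) (nat_lit 456) (nat_lit 0) (XT.nd (nat_lit 156) (nat_lit 228) (nat_lit 0) (XT.nd (nat_lit 78) (nat_lit 152) (nat_lit 0) (XT.lf (nat_lit 0) (nat_lit 89077368972) (nat_lit 76) (nat_lit 2238938023) (nat_lit 76) (nat_lit 2139476407) (nat_lit 79) (nat_lit 4) (nat_lit 80) (nat_lit 5) (nat_lit 80) (nat_lit 4) (nat_lit 468) (nat_lit 282) (nat_lit 270)) (XT.lf (nat_lit 0) (nat_lit 40943866636) (nat_lit 152) (nat_lit 14186530895) (nat_lit 0) (nat_lit 40843473517) (nat_lit 77) (nat_lit 5) (nat_lit 79) (nat_lit 4) (nat_lit 77) (nat_lit 4) (nat_lit 469) (nat_lit 282)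 (nat_lit 269))) (XT.nd (nat_lit 78) (nat_lit 152) (nat_lit 0) (XT.lf (nat_lit 0) (nat_lit 73893119301) (nat_lit 76) (nat_lit 12409560467) (nat_lit 76) (nat_lit 12303769472) (nat_lit 76) (nat_lit 4) (nat_lit 77) (nat_lit 5) (nat_lit 77) (nat_lit 4) (nat_lit 470) (nat_lit 282) (nat_lit 268)) (XT.lf (nat_lit 0) (nat_lit 32219217699) (nat_lit 152) (nat_lit 36977327382) (nat_lit 0) (nat_lit 32113568337) (nat_lit 74) (nat_lit 5) (nat_lit 76) (nat_lit 4) (nat_lit 74) (nat_lit 4) (nat_lit 471) (nat_lit 282) (nat_lit 267)))) (XT.nd (nat_lit 156) (nat_lit 228) (nat_lit 0) (XT.nd (nat_lit 78) (nat_lit 152) (nat_lit 0) (XT.lf (nat_lit 0) (nat_lit 53668711420) (nat_lit 76) (nat_lit 25280382612) (nat_lit 76) (nat_lit 25170070361) (nat_lit 73) (nat_lit 4) (nat_lit 74) (nat_lit 5) (nat_lit 74) (nat_lit 4) (nat_lit 472) (nat_lit 282) (nat_lit 266)) (XT.lf (nat_lit 0) (nat_lit 20828694427) (nat_lit 152) (nat_lit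 65476599493) (nat_lit 0) (nat_lit 20719405762) (nat_lit 71) (nat_lit 5) (nat_lit 73) (nat_lit 4) (nat_lit 71) (nat_lit 4) (nat_lit 473) (nat_lit 282) (nat_lit 265))) (XT.nd (nat_lit 78) (nat_lit 152) (nat_lit 0) (XT.lf (nat_lit 0) (nat_lit 27713031349) (nat_lit 76) (nat_lit 41211507395) (nat_lit 76) (nat_lit 41098190752) (nat_lit 70) (nat_lit 4) (nat_lit 71) (nat_lit 5) (nat_lit 71) (nat_lit 4) (nat_lit 474) (nat_lit 282) (nat_lit 264)) (XT.lf (nat_lit 0) (nat_lit 6410589393) (nat_lit 152) (nat_lit 100438360674) (nat_lit 0) (nat_lit 6299015286) (nat_lit 68) (nat_lit 5) (nat_lit 70) (nat_lit 4) (nat_lit 68) (nat_lit 4) (nat_lit 475) (nat_lit 282) (nat_lit 263)))))) (XT.nd (nat_lit 624) (nat_lit 760) (nat_lit 0) (XT.nd (nat_lit 312) (nat_lit 380) (nat_lit 0) (XT.nd (nat_lit 156) (nat_lit 228) (nat_lit 0) (XT.nd (nat_lit 78) (nat_lit 76) (nat_lit 0) (XT.lf (nat_lit 0) (nat_lit 55933563715) (nat_lit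 152) (nat_lit 4592705965) (nat_lit 0) (nat_lit 55818510088) (nat_lit 68) (nat_lit 5) (nat_lit 70) (nat_lit 4) (nat_lit 68) (nat_lit 4) (nat_lit 476) (nat_lit 282) (nat_lit 262)) (XT.lf (nat_lit 0) (nat_lit 97058146724) (nat_lit 76) (nat_lit 11368479335) (nat_lit 76) (nat_lit 11250111880) (nat_lit 67) (nat_lit 4) (nat_lit 68) (nat_lit 5) (nat_lit 68) (nat_lit 4) (nat_lit 477) (nat_lit 282) (nat_lit 261))) (XT.nd (nat_lit 78) (nat_lit 76) (nat_lit 0) (XT.lf (nat_lit 0) (nat_lit 40037477849) (nat_lit 152) (nat_lit 43136536671) (nat_lit 0) (nat_lit 39921741200) (nat_lit 65) (nat_lit 5) (nat_lit 67) (nat_lit 4) (nat_lit 65) (nat_lit 4) (nat_lit 478) (nat_lit 282) (nat_lit 260)) (XT.lf (nat_lit 0) (nat_lit 61275159514) (nat_lit 76) (nat_lit 32747196699) (nat_lit 76) (nat_lit 32628597441) (nat_lit 64) (nat_lit 4) (nat_lit 65) (nat_lit 5) (nat_lit 65) (nat_lit 4) (nat_lit 479) (nat_lit 282) (nat_lit 259))))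 (XT.nd (nat_lit 156) (nat_lit 152) (nat_lit 0) (XT.nd (nat_lit 78) (nat_lit 76) (nat_lit 0) (XT.lf (nat_lit 0) (nat_lit 20359020379) (nat_lit 152) (nat_lit 89731209140) (nat_lit 0) (nat_lit 20243472233) (nat_lit 62) (nat_lit 5) (nat_lit 64) (nat_lit 4) (nat_lit 62) (nat_lit 4) (nat_lit 480) (nat_lit 282) (nat_lit 258)) (XT.lf (nat_lit 0) (nat_lit 17376868732) (nat_lit 76) (nat_lit 58434695377) (nat_lit 76) (nat_lit 58316674402) (nat_lit 61) (nat_lit 4) (nat_lit 62) (nat_lit 5) (nat_lit 62) (nat_lit 4) (nat_lit 481) (nat_lit 282) (nat_lit 257))) (XT.nd (nat_lit 78) (nat_lit 152) (nat_lit 0) (XT.lf (nat_lit 0) (nat_lit 130895803025) (nat_lit 76) (nat_lit 3655669138) (nat_lit 76) (nat_lit 3535293087) (nat_lit 61) (nat_lit 4) (nat_lit 62) (nat_lit 5) (nat_lit 62) (nat_lit 4) (nat_lit 482) (nat_lit 282) (nat_lit 256)) (XT.lf (nat_lit 0) (nat_lit 53844857149) (nat_lit 152) (nat_lit 34548762927) (nat_lit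 0) (nat_lit 53728077168) (nat_lit 59) (nat_lit 5) (nat_lit 61) (nat_lit 4) (nat_lit 59) (nat_lit 4) (nat_lit 483) (nat_lit 282) (nat_lit 255))))) (XT.nd (nat_lit 312) (nat_lit 456) (nat_lit 0) (XT.nd (nat_lit 156) (nat_lit 76) (nat_lit 0) (XT.nd (nat_lit 78) (nat_lit 152) (nat_lit 0) (XT.lf (nat_lit 0) (nat_lit 82499102012) (nat_lit 76) (nat_lit 31975119816) (nat_lit 76) (nat_lit 31856305432) (nat_lit 58) (nat_lit 4) (nat_lit 59) (nat_lit 5) (nat_lit 59) (nat_lit 4) (nat_lit 484) (nat_lit 282) (nat_lit 254)) (XT.lf (nat_lit 0) (nat_lit 27433388811) (nat_lit 152) (nat_lit 95930413341) (nat_lit 0) (nat_lit 27318386992) (nat_lit 56) (nat_lit 5) (nat_lit 58) (nat_lit 4) (nat_lit 56) (nat_lit 4) (nat_lit 485) (nat_lit 282) (nat_lit 253))) (XT.nd (nat_lit 78) (nat_lit 0) (nat_lit 0) (XT.lf (nat_lit 0) (nat_lit 23992709023) (nat_lit 76) (nat_lit 65649066577) (nat_lit 76) (nat_lit 65532307365) (nat_lit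 55) (nat_lit 4) (nat_lit 56) (nat_lit 5) (nat_lit 56) (nat_lit 4) (nat_lit 486) (nat_lit 282) (nat_lit 252)) (XT.lf (nat_lit 0) (nat_lit 151280728948) (nat_lit 76) (nat_lit 4347447849) (nat_lit 76) (nat_lit 4229014928) (nat_lit 55) (nat_lit 4) (nat_lit 56) (nat_lit 5) (nat_lit 56) (nat_lit 4) (nat_lit 487) (nat_lit 282) (nat_lit 251)))) (XT.nd (nat_lit 156) (nat_lit 228) (nat_lit 0) (XT.nd (nat_lit 78) (nat_lit 76) (nat_lit 0) (XT.lf (nat_lit 0) (nat_lit 60148771048) (nat_lit 152) (nat_lit 44447569593) (nat_lit 0) (nat_lit 60034459687) (nat_lit 53) (nat_lit 5) (nat_lit 55) (nat_lit 4) (nat_lit 53) (nat_lit 4) (nat_lit 488) (nat_lit 282) (nat_lit 250)) (XT.lf (nat_lit 0) (nat_lit 86778341921) (nat_lit 76) (nat_lit 41472335267) (nat_lit 76) (nat_lit 41356578094) (nat_lit 52) (nat_lit 4) (nat_lit 53) (nat_lit 5) (nat_lit 53) (nat_lit 4) (nat_lit 489) (nat_lit 282) (nat_lit 249))) (XT.nd (nat_lit 78)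 (nat_lit 76) (nat_lit 0) (XT.lf (nat_lit 0) (nat_lit 25160626438) (nat_lit 152) (nat_lit 124551716803) (nat_lit 0) (nat_lit 25049070117) (nat_lit 50) (nat_lit 5) (nat_lit 52) (nat_lit 4) (nat_lit 50) (nat_lit 4) (nat_lit 490) (nat_lit 282) (nat_lit 248)) (XT.lf (nat_lit 0) (nat_lit 9703480894) (nat_lit 76) (nat_lit 85241084285) (nat_lit 76) (nat_lit 85128279017) (nat_lit 49) (nat_lit 4) (nat_lit 50) (nat_lit 5) (nat_lit 50) (nat_lit 4) (nat_lit 491) (nat_lit 282) (nat_lit 247))))))))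
noncomputable def xc9 : XT := (XT.nd (nat_lit 51012) (nat_lit 0) (nat_lit 1520) (XT.nd (nat_lit 50388) (nat_lit 0) (nat_lit 2964) (XT.nd (nat_lit 312) (nat_lit 0) (nat_lit 0) (XT.nd (nat_lit 156) (nat_lit 228) (nat_lit 0) (XT.nd (nat_lit 78) (nat_lit 152) (nat_lit 0) (XT.lf (nat_lit 0) (nat_lit 153127249374) (nat_lit 76) (nat_lit 16288348544) (nat_lit 76) (nat_lit 16174353803) (nat_lit 49) (nat_lit 4) (nat_lit 50) (nat_lit 5) (nat_lit 50) (nat_lit 4) (nat_lit 492) (nat_lit 282) (nat_lit 246)) (XT.lf (nat_lit 0) (nat_lit 56218953079) (nat_lit 152) (nat_lit 78921195054) (nat_lit 0) (nat_lit 56109307772) (nat_lit 47) (nat_lit 5) (nat_lit 49) (nat_lit 4) (nat_lit 47) (nat_lit 4) (nat_lit 493) (nat_lit 282) (nat_lit 245))) (XT.nd (nat_lit 78) (nat_lit 152) (nat_lit 0) (XT.lf (nat_lit 0) (nat_lit 68152938524) (nat_lit 76) (nat_lit 64543016121) (nat_lit 76) (nat_lit 64432343302) (nat_lit 46) (nat_lit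 4) (nat_lit 47) (nat_lit 5) (nat_lit 47) (nat_lit 4) (nat_lit 494) (nat_lit 282) (nat_lit 244)) (XT.lf (nat_lit 0) (nat_lit 10351117687) (nat_lit 152) (nat_lit 182649326654) (nat_lit 0) (nat_lit 10244783019) (nat_lit 44) (nat_lit 5) (nat_lit 46) (nat_lit 4) (nat_lit 44) (nat_lit 4) (nat_lit 495) (nat_lit 282) (nat_lit 243)))) (XT.nd (nat_lit 49920) (nat_lit 0) (nat_lit 3876) (XT.nd (nat_lit 49842) (nat_lit 0) (nat_lit 4104) (XT.lf (nat_lit 0) (nat_lit 89104286071) (nat_lit 152) (nat_lit 31394045797) (nat_lit 0) (nat_lit 88997063799) (nat_lit 44) (nat_lit 5) (nat_lit 46) (nat_lit 4) (nat_lit 44) (nat_lit 4) (nat_lit 496) (nat_lit 282) (nat_lit 242)) (XT.lf (nat_lit 0) (nat_lit 8724771516) (nat_lit 152) (nat_lit 15290753994) (nat_lit 0) (nat_lit 8724771516) (nat_lit 98) (nat_lit 5) (nat_lit 100) (nat_lit 4) (nat_lit 98) (nat_lit 4) (nat_lit 454) (nat_lit 283) (nat_lit 283))) (XT.nd (nat_lit 78) (nat_lit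 152) (nat_lit 0) (XT.lf (nat_lit 0) (nat_lit 35496816703) (nat_lit 76) (nat_lit 15811373659) (nat_lit 76) (nat_lit 15796335376) (nat_lit 97) (nat_lit 4) (nat_lit 98) (nat_lit 5) (nat_lit 98) (nat_lit 4) (nat_lit 455) (nat_lit 283) (nat_lit 282)) (XT.lf (nat_lit 0) (nat_lit 17771315496) (nat_lit 152) (nat_lit 33265948915) (nat_lit 0) (nat_lit 17743353157) (nat_lit 95) (nat_lit 5) (nat_lit 97) (nat_lit 4) (nat_lit 95) (nat_lit 4) (nat_lit 456) (nat_lit 283) (nat_lit 281))))) (XT.nd (nat_lit 312) (nat_lit 456) (nat_lit 0) (XT.nd (nat_lit 156) (nat_lit 228) (nat_lit 0) (XT.nd (nat_lit 78) (nat_lit 152) (nat_lit 0) (XT.lf (nat_lit 0) (nat_lit 34971217501) (nat_lit 76) (nat_lit 17791739118) (nat_lit 76) (nat_lit 17750786146) (nat_lit 94) (nat_lit 4) (nat_lit 95) (nat_lit 5) (nat_lit 95) (nat_lit 4) (nat_lit 457) (nat_lit 283) (nat_lit 280)) (XT.lf (nat_lit 0) (nat_lit 16925257405) (nat_lit 152) (nat_lit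 38505182525) (nat_lit 0) (nat_lit 16874471687) (nat_lit 92) (nat_lit 5) (nat_lit 94) (nat_lit 4) (nat_lit 92) (nat_lit 4) (nat_lit 458) (nat_lit 283) (nat_lit 279))) (XT.nd (nat_lit 78) (nat_lit 152) (nat_lit 0) (XT.lf (nat_lit 0) (nat_lit 31918603589) (nat_lit 76) (nat_lit 21149019926) (nat_lit 76) (nat_lit 21087012411) (nat_lit 91) (nat_lit 4) (nat_lit 92) (nat_lit 5) (nat_lit 92) (nat_lit 4) (nat_lit 459) (nat_lit 283) (nat_lit 278)) (XT.lf (nat_lit 0) (nat_lit 14732103793) (nat_lit 152) (nat_lit 46675755597) (nat_lit 0) (nat_lit 14662870515) (nat_lit 89) (nat_lit 5) (nat_lit 91) (nat_lit 4) (nat_lit 89) (nat_lit 4) (nat_lit 460) (nat_lit 283) (nat_lit 277)))) (XT.nd (nat_lit 156) (nat_lit 228) (nat_lit 0) (XT.nd (nat_lit 78) (nat_lit 152) (nat_lit 0) (XT.lf (nat_lit 0) (nat_lit 25955607981) (nat_lit 76) (nat_lit 26084174902) (nat_lit 76) (nat_lit 26005247813) (nat_lit 88) (nat_lit 4) (nat_lit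 89) (nat_lit 5) (nat_lit 89) (nat_lit 4) (nat_lit 461) (nat_lit 283) (nat_lit 276)) (XT.lf (nat_lit 0) (nat_lit 10991158677) (nat_lit 152) (nat_lit 58198456249) (nat_lit 0) (nat_lit 10907197449) (nat_lit 86) (nat_lit 5) (nat_lit 88) (nat_lit 4) (nat_lit 86) (nat_lit 4) (nat_lit 462) (nat_lit 283) (nat_lit 275))) (XT.nd (nat_lit 78) (nat_lit 152) (nat_lit 0) (XT.lf (nat_lit 0) (nat_lit 16653438646) (nat_lit 76) (nat_lit 32821592108) (nat_lit 76) (nat_lit 32729257002) (nat_lit 85) (nat_lit 4) (nat_lit 86) (nat_lit 5) (nat_lit 86) (nat_lit 4) (nat_lit 463) (nat_lit 283) (nat_lit 274)) (XT.lf (nat_lit 0) (nat_lit 5477956842) (nat_lit 152) (nat_lit 73543142715) (nat_lit 0) (nat_lit 5382423292) (nat_lit 83) (nat_lit 5) (nat_lit 85) (nat_lit 4) (nat_lit 83) (nat_lit 4) (nat_lit 464) (nat_lit 283) (nat_lit 273)))))) (XT.nd (nat_lit 624) (nat_lit 684) (nat_lit 0) (XT.nd (nat_lit 312) (nat_lit 456) (nat_lit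 0) (XT.nd (nat_lit 156) (nat_lit 228) (nat_lit 0) (XT.nd (nat_lit 78) (nat_lit 0) (nat_lit 0) (XT.lf (nat_lit 0) (nat_lit 3532904347) (nat_lit 76) (nat_lit 41611654039) (nat_lit 76) (nat_lit 41508886818) (nat_lit 82) (nat_lit 4) (nat_lit 83) (nat_lit 5) (nat_lit 83) (nat_lit 4) (nat_lit 465) (nat_lit 283) (nat_lit 272)) (XT.lf (nat_lit 0) (nat_lit 84853355883) (nat_lit 76) (nat_lit 2131327285) (nat_lit 76) (nat_lit 2021670853) (nat_lit 82) (nat_lit 4) (nat_lit 83) (nat_lit 5) (nat_lit 83) (nat_lit 4) (nat_lit 466) (nat_lit 283) (nat_lit 271))) (XT.nd (nat_lit 78) (nat_lit 76) (nat_lit 0) (XT.lf (nat_lit 0) (nat_lit 39010146580) (nat_lit 152) (nat_lit 13494881959) (nat_lit 0) (nat_lit 38899463166) (nat_lit 80) (nat_lit 5) (nat_lit 82) (nat_lit 4) (nat_lit 80) (nat_lit 4) (nat_lit 467) (nat_lit 283) (nat_lit 270)) (XT.lf (nat_lit 0) (nat_lit 70390757049) (nat_lit 76) (nat_lit 11818780250) (nat_lit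 76) (nat_lit 11702145677) (nat_lit 79) (nat_lit 4) (nat_lit 80) (nat_lit 5) (nat_lit 80) (nat_lit 4) (nat_lit 468) (nat_lit 283) (nat_lit 269)))) (XT.nd (nat_lit 156) (nat_lit 228) (nat_lit 0) (XT.nd (nat_lit 78) (nat_lit 76) (nat_lit 0) (XT.lf (nat_lit 0) (nat_lit 30700689797) (nat_lit 152) (nat_lit 35201663090) (nat_lit 0) (nat_lit 30584211375) (nat_lit 77) (nat_lit 5) (nat_lit 79) (nat_lit 4) (nat_lit 77) (nat_lit 4) (nat_lit 469) (nat_lit 283) (nat_lit 268)) (XT.lf (nat_lit 0) (nat_lit 51128151231) (nat_lit 76) (nat_lit 24077647836) (nat_lit 76) (nat_lit 23956028579) (nat_lit 76) (nat_lit 4) (nat_lit 77) (nat_lit 5) (nat_lit 77) (nat_lit 4) (nat_lit 470) (nat_lit 283) (nat_lit 267))) (XT.nd (nat_lit 78) (nat_lit 76) (nat_lit 0) (XT.lf (nat_lit 0) (nat_lit 19852250539) (nat_lit 152) (nat_lit 62344960375) (nat_lit 0) (nat_lit 19731759787) (nat_lit 74) (nat_lit 5) (nat_lit 76) (nat_lit 4) (nat_lit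 74) (nat_lit 4) (nat_lit 471) (nat_lit 283) (nat_lit 266)) (XT.lf (nat_lit 0) (nat_lit 26407317364) (nat_lit 76) (nat_lit 39250915310) (nat_lit 76) (nat_lit 39125983711) (nat_lit 73) (nat_lit 4) (nat_lit 74) (nat_lit 5) (nat_lit 74) (nat_lit 4) (nat_lit 472) (nat_lit 283) (nat_lit 265))))) (XT.nd (nat_lit 312) (nat_lit 304) (nat_lit 0) (XT.nd (nat_lit 156) (nat_lit 228) (nat_lit 0) (XT.nd (nat_lit 78) (nat_lit 0) (nat_lit 0) (XT.lf (nat_lit 0) (nat_lit 6120357301) (nat_lit 152) (nat_lit 95642897080) (nat_lit 0) (nat_lit 5997346848) (nat_lit 71) (nat_lit 5) (nat_lit 73) (nat_lit 4) (nat_lit 71) (nat_lit 4) (nat_lit 473) (nat_lit 283) (nat_lit 264)) (XT.lf (nat_lit 0) (nat_lit 53285266010) (nat_lit 152) (nat_lit 4361492426) (nat_lit 0) (nat_lit 53158419387) (nat_lit 71) (nat_lit 5) (nat_lit 73) (nat_lit 4) (nat_lit 71) (nat_lit 4) (nat_lit 474) (nat_lit 283) (nat_lit 263))) (XT.nd (nat_lit 78) (nat_lit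 152) (nat_lit 0) (XT.lf (nat_lit 0) (nat_lit 92449088715) (nat_lit 76) (nat_lit 10829932304) (nat_lit 76) (nat_lit 10699432185) (nat_lit 70) (nat_lit 4) (nat_lit 71) (nat_lit 5) (nat_lit 71) (nat_lit 4) (nat_lit 475) (nat_lit 283) (nat_lit 262)) (XT.lf (nat_lit 0) (nat_lit 38145715829) (nat_lit 152) (nat_lit 41070801770) (nat_lit 0) (nat_lit 38018116174) (nat_lit 68) (nat_lit 5) (nat_lit 70) (nat_lit 4) (nat_lit 68) (nat_lit 4) (nat_lit 476) (nat_lit 283) (nat_lit 261)))) (XT.nd (nat_lit 156) (nat_lit 76) (nat_lit 0) (XT.nd (nat_lit 78) (nat_lit 152) (nat_lit 0) (XT.lf (nat_lit 0) (nat_lit 58369147342) (nat_lit 76) (nat_lit 31191064304) (nat_lit 76) (nat_lit 31060308622) (nat_lit 67) (nat_lit 4) (nat_lit 68) (nat_lit 5) (nat_lit 68) (nat_lit 4) (nat_lit 477) (nat_lit 283) (nat_lit 260)) (XT.lf (nat_lit 0) (nat_lit 19403885719) (nat_lit 152) (nat_lit 85447495348) (nat_lit 0) (nat_lit 19276493889)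 (nat_lit 65) (nat_lit 5) (nat_lit 67) (nat_lit 4) (nat_lit 65) (nat_lit 4) (nat_lit 478) (nat_lit 283) (nat_lit 259))) (XT.nd (nat_lit 78) (nat_lit 0) (nat_lit 0) (XT.lf (nat_lit 0) (nat_lit 16560429194) (nat_lit 76) (nat_lit 55655696861) (nat_lit 76) (nat_lit 55525578736) (nat_lit 64) (nat_lit 4) (nat_lit 65) (nat_lit 5) (nat_lit 65) (nat_lit 4) (nat_lit 479) (nat_lit 283) (nat_lit 258)) (XT.lf (nat_lit 0) (nat_lit 124673580201) (nat_lit 76) (nat_lit 3485429475) (nat_lit 76) (nat_lit 3352714879) (nat_lit 64) (nat_lit 4) (nat_lit 65) (nat_lit 5) (nat_lit 65) (nat_lit 4) (nat_lit 480) (nat_lit 283) (nat_lit 257)))))))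
noncomputable def xc10 : XT := (XT.nd (nat_lit 50856) (nat_lit 0) (nat_lit 2660) (XT.nd (nat_lit 624) (nat_lit 684) (nat_lit 0) (XT.nd (nat_lit 312) (nat_lit 380) (nat_lit 0) (XT.nd (nat_lit 156) (nat_lit 228) (nat_lit 0) (XT.nd (nat_lit 78) (nat_lit 76) (nat_lit 0) (XT.lf (nat_lit 0) (nat_lit 51294807307) (nat_lit 152) (nat_lit 32893630360) (nat_lit 0) (nat_lit 51166057378) (nat_lit 62) (nat_lit 5) (nat_lit 64) (nat_lit 4) (nat_lit 62) (nat_lit 4) (nat_lit 481) (nat_lit 283) (nat_lit 256)) (XT.lf (nat_lit 0) (nat_lit 78580752385) (nat_lit 76) (nat_lit 30456566051) (nat_lit 76) (nat_lit 30325573193) (nat_lit 61) (nat_lit 4) (nat_lit 62) (nat_lit 5) (nat_lit 62) (nat_lit 4) (nat_lit 482) (nat_lit 283) (nat_lit 255))) (XT.nd (nat_lit 78) (nat_lit 76) (nat_lit 0) (XT.lf (nat_lit 0) (nat_lit 26140547886) (nat_lit 152) (nat_lit 91353005196) (nat_lit 0) (nat_lit 26013758381) (nat_lit 59) (nat_lit 5)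 (nat_lit 61) (nat_lit 4) (nat_lit 59) (nat_lit 4) (nat_lit 483) (nat_lit 283) (nat_lit 254)) (XT.lf (nat_lit 0) (nat_lit 22859710211) (nat_lit 76) (nat_lit 62527155326) (nat_lit 76) (nat_lit 62398428294) (nat_lit 58) (nat_lit 4) (nat_lit 59) (nat_lit 5) (nat_lit 59) (nat_lit 4) (nat_lit 484) (nat_lit 283) (nat_lit 253)))) (XT.nd (nat_lit 156) (nat_lit 228) (nat_lit 0) (XT.nd (nat_lit 78) (nat_lit 152) (nat_lit 0) (XT.lf (nat_lit 0) (nat_lit 144086310751) (nat_lit 76) (nat_lit 4144827451) (nat_lit 76) (nat_lit 4014255156) (nat_lit 58) (nat_lit 4) (nat_lit 59) (nat_lit 5) (nat_lit 59) (nat_lit 4) (nat_lit 485) (nat_lit 283) (nat_lit 252)) (XT.lf (nat_lit 0) (nat_lit 57297646957) (nat_lit 152) (nat_lit 42322403526) (nat_lit 0) (nat_lit 57171618681) (nat_lit 56) (nat_lit 5) (nat_lit 58) (nat_lit 4) (nat_lit 56) (nat_lit 4) (nat_lit 486) (nat_lit 283) (nat_lit 251))) (XT.nd (nat_lit 78) (nat_lit 152)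 (nat_lit 0) (XT.lf (nat_lit 0) (nat_lit 82654866399) (nat_lit 76) (nat_lit 39501947754) (nat_lit 76) (nat_lit 39374325471) (nat_lit 55) (nat_lit 4) (nat_lit 56) (nat_lit 5) (nat_lit 56) (nat_lit 4) (nat_lit 487) (nat_lit 283) (nat_lit 250)) (XT.lf (nat_lit 0) (nat_lit 23975112834) (nat_lit 152) (nat_lit 118612610100) (nat_lit 0) (nat_lit 23852121990) (nat_lit 53) (nat_lit 5) (nat_lit 55) (nat_lit 4) (nat_lit 53) (nat_lit 4) (nat_lit 488) (nat_lit 283) (nat_lit 249))))) (XT.nd (nat_lit 312) (nat_lit 380) (nat_lit 0) (XT.nd (nat_lit 156) (nat_lit 228) (nat_lit 0) (XT.nd (nat_lit 78) (nat_lit 0) (nat_lit 0) (XT.lf (nat_lit 0) (nat_lit 9249686356) (nat_lit 76) (nat_lit 81186511200) (nat_lit 76) (nat_lit 81062143392) (nat_lit 52) (nat_lit 4) (nat_lit 53) (nat_lit 5) (nat_lit 53) (nat_lit 4) (nat_lit 489) (nat_lit 283) (nat_lit 248)) (XT.lf (nat_lit 0) (nat_lit 145843691094) (nat_lit 76) (nat_lit 15517357147)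 (nat_lit 76) (nat_lit 15391677945) (nat_lit 52) (nat_lit 4) (nat_lit 53) (nat_lit 5) (nat_lit 53) (nat_lit 4) (nat_lit 490) (nat_lit 283) (nat_lit 247))) (XT.nd (nat_lit 78) (nat_lit 76) (nat_lit 0) (XT.lf (nat_lit 0) (nat_lit 53554038398) (nat_lit 152) (nat_lit 75155522151) (nat_lit 0) (nat_lit 53433154447) (nat_lit 50) (nat_lit 5) (nat_lit 52) (nat_lit 4) (nat_lit 50) (nat_lit 4) (nat_lit 491) (nat_lit 283) (nat_lit 246)) (XT.lf (nat_lit 0) (nat_lit 64915277681) (nat_lit 76) (nat_lit 61474171363) (nat_lit 76) (nat_lit 61352154580) (nat_lit 49) (nat_lit 4) (nat_lit 50) (nat_lit 5) (nat_lit 50) (nat_lit 4) (nat_lit 492) (nat_lit 283) (nat_lit 245)))) (XT.nd (nat_lit 156) (nat_lit 228) (nat_lit 0) (XT.nd (nat_lit 78) (nat_lit 0) (nat_lit 0) (XT.lf (nat_lit 0) (nat_lit 9869899760) (nat_lit 152) (nat_lit 173944671081) (nat_lit 0) (nat_lit 9752665788) (nat_lit 47) (nat_lit 5) (nat_lit 49) (nat_lit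 4) (nat_lit 47) (nat_lit 4) (nat_lit 493) (nat_lit 283) (nat_lit 244)) (XT.lf (nat_lit 0) (nat_lit 84872960955) (nat_lit 152) (nat_lit 29892066333) (nat_lit 0) (nat_lit 84754748401) (nat_lit 47) (nat_lit 5) (nat_lit 49) (nat_lit 4) (nat_lit 47) (nat_lit 4) (nat_lit 494) (nat_lit 283) (nat_lit 243))) (XT.nd (nat_lit 78) (nat_lit 152) (nat_lit 0) (XT.lf (nat_lit 0) (nat_lit 123681335400) (nat_lit 76) (nat_lit 41075606259) (nat_lit 76) (nat_lit 40956461721) (nat_lit 46) (nat_lit 4) (nat_lit 47) (nat_lit 5) (nat_lit 47) (nat_lit 4) (nat_lit 495) (nat_lit 283) (nat_lit 242)) (XT.lf (nat_lit 0) (nat_lit 36711596069) (nat_lit 152) (nat_lit 138806466789) (nat_lit 0) (nat_lit 36597279745) (nat_lit 44) (nat_lit 5) (nat_lit 46) (nat_lit 4) (nat_lit 44) (nat_lit 4) (nat_lit 496) (nat_lit 283) (nat_lit 241)))))) (XT.nd (nat_lit 624) (nat_lit 912) (nat_lit 0) (XT.nd (nat_lit 312) (nat_lit 456) (nat_lit 0) (XT.nd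 (nat_lit 156) (nat_lit 228) (nat_lit 0) (XT.nd (nat_lit 78) (nat_lit 76) (nat_lit 0) (XT.lf (nat_lit 0) (nat_lit 8317466631) (nat_lit 152) (nat_lit 14547079185) (nat_lit 0) (nat_lit 8317466631) (nat_lit 101) (nat_lit 5) (nat_lit 103) (nat_lit 4) (nat_lit 101) (nat_lit 4) (nat_lit 452) (nat_lit 284) (nat_lit 284)) (XT.lf (nat_lit 0) (nat_lit 33837842672) (nat_lit 76) (nat_lit 15044651025) (nat_lit 76) (nat_lit 15028071319) (nat_lit 100) (nat_lit 4) (nat_lit 101) (nat_lit 5) (nat_lit 101) (nat_lit 4) (nat_lit 453) (nat_lit 284) (nat_lit 283))) (XT.nd (nat_lit 78) (nat_lit 76) (nat_lit 0) (XT.lf (nat_lit 0) (nat_lit 16941982332) (nat_lit 152) (nat_lit 31653625413) (nat_lit 0) (nat_lit 16911153854) (nat_lit 98) (nat_lit 5) (nat_lit 100) (nat_lit 4) (nat_lit 98) (nat_lit 4) (nat_lit 454) (nat_lit 284) (nat_lit 282)) (XT.lf (nat_lit 0) (nat_lit 33334425028) (nat_lit 76) (nat_lit 16934014214) (nat_lit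 76) (nat_lit 16888863562) (nat_lit 97) (nat_lit 4) (nat_lit 98) (nat_lit 5) (nat_lit 98) (nat_lit 4) (nat_lit 455) (nat_lit 284) (nat_lit 281)))) (XT.nd (nat_lit 156) (nat_lit 228) (nat_lit 0) (XT.nd (nat_lit 78) (nat_lit 76) (nat_lit 0) (XT.lf (nat_lit 0) (nat_lit 16136595899) (nat_lit 152) (nat_lit 36645904917) (nat_lit 0) (nat_lit 16080604645) (nat_lit 95) (nat_lit 5) (nat_lit 97) (nat_lit 4) (nat_lit 95) (nat_lit 4) (nat_lit 456) (nat_lit 284) (nat_lit 280)) (XT.lf (nat_lit 0) (nat_lit 30424646656) (nat_lit 76) (nat_lit 20134208199) (nat_lit 76) (nat_lit 20065844913) (nat_lit 94) (nat_lit 4) (nat_lit 95) (nat_lit 5) (nat_lit 95) (nat_lit 4) (nat_lit 457) (nat_lit 284) (nat_lit 279))) (XT.nd (nat_lit 78) (nat_lit 76) (nat_lit 0) (XT.lf (nat_lit 0) (nat_lit 14048081223) (nat_lit 152) (nat_lit 44429653778) (nat_lit 0) (nat_lit 13971751533) (nat_lit 92) (nat_lit 5) (nat_lit 94) (nat_lit 4) (nat_lit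 92) (nat_lit 4) (nat_lit 458) (nat_lit 284) (nat_lit 278)) (XT.lf (nat_lit 0) (nat_lit 24743355797) (nat_lit 76) (nat_lit 24836695971) (nat_lit 76) (nat_lit 24749678855) (nat_lit 91) (nat_lit 4) (nat_lit 92) (nat_lit 5) (nat_lit 92) (nat_lit 4) (nat_lit 459) (nat_lit 284) (nat_lit 277))))) (XT.nd (nat_lit 312) (nat_lit 456) (nat_lit 0) (XT.nd (nat_lit 156) (nat_lit 228) (nat_lit 0) (XT.nd (nat_lit 78) (nat_lit 76) (nat_lit 0) (XT.lf (nat_lit 0) (nat_lit 10485329891) (nat_lit 152) (nat_lit 55405658081) (nat_lit 0) (nat_lit 10392762637) (nat_lit 89) (nat_lit 5) (nat_lit 91) (nat_lit 4) (nat_lit 89) (nat_lit 4) (nat_lit 460) (nat_lit 284) (nat_lit 276)) (XT.lf (nat_lit 0) (nat_lit 15882144088) (nat_lit 76) (nat_lit 31255243908) (nat_lit 76) (nat_lit 31153444453) (nat_lit 88) (nat_lit 4) (nat_lit 89) (nat_lit 5) (nat_lit 89) (nat_lit 4) (nat_lit 461) (nat_lit 284) (nat_lit 275))) (XT.nd (nat_lit 78)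 (nat_lit 76) (nat_lit 0) (XT.lf (nat_lit 0) (nat_lit 5234591668) (nat_lit 152) (nat_lit 70021432661) (nat_lit 0) (nat_lit 5129265928) (nat_lit 86) (nat_lit 5) (nat_lit 88) (nat_lit 4) (nat_lit 86) (nat_lit 4) (nat_lit 462) (nat_lit 284) (nat_lit 274)) (XT.lf (nat_lit 0) (nat_lit 3384608542) (nat_lit 76) (nat_lit 39628366204) (nat_lit 76) (nat_lit 39515065342) (nat_lit 85) (nat_lit 4) (nat_lit 86) (nat_lit 5) (nat_lit 86) (nat_lit 4) (nat_lit 463) (nat_lit 284) (nat_lit 273)))) (XT.nd (nat_lit 156) (nat_lit 304) (nat_lit 0) (XT.nd (nat_lit 78) (nat_lit 152) (nat_lit 0) (XT.lf (nat_lit 0) (nat_lit 80832307329) (nat_lit 76) (nat_lit 2028738916) (nat_lit 76) (nat_lit 1907842700) (nat_lit 85) (nat_lit 4) (nat_lit 86) (nat_lit 5) (nat_lit 86) (nat_lit 4) (nat_lit 464) (nat_lit 284) (nat_lit 272)) (XT.lf (nat_lit 0) (nat_lit 37170147189) (nat_lit 152) (nat_lit 12834518452) (nat_lit 0) (nat_lit 37048118725)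 (nat_lit 83) (nat_lit 5) (nat_lit 85) (nat_lit 4) (nat_lit 83) (nat_lit 4) (nat_lit 465) (nat_lit 284) (nat_lit 271))) (XT.nd (nat_lit 78) (nat_lit 228) (nat_lit 0) (XT.lf (nat_lit 0) (nat_lit 67056850619) (nat_lit 76) (nat_lit 11256147926) (nat_lit 76) (nat_lit 11127558309) (nat_lit 82) (nat_lit 4) (nat_lit 83) (nat_lit 5) (nat_lit 83) (nat_lit 4) (nat_lit 466) (nat_lit 284) (nat_lit 270)) (XT.nd (nat_lit 78) (nat_lit 76) (nat_lit 0) (XT.lf (nat_lit 0) (nat_lit 29256084105) (nat_lit 152) (nat_lit 33509033225) (nat_lit 0) (nat_lit 29127666644) (nat_lit 80) (nat_lit 5) (nat_lit 82) (nat_lit 4) (nat_lit 80) (nat_lit 4) (nat_lit 467) (nat_lit 284) (nat_lit 269)) (XT.lf (nat_lit 0) (nat_lit 48710117104) (nat_lit 76) (nat_lit 22932298174) (nat_lit 76) (nat_lit 22798212944) (nat_lit 79) (nat_lit 4) (nat_lit 80) (nat_lit 5) (nat_lit 80) (nat_lit 4) (nat_lit 468) (nat_lit 284) (nat_lit 268))))))))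
noncomputable def xc11 : XT := (XT.nd (nat_lit 51948) (nat_lit 0) (nat_lit 912) (XT.nd (nat_lit 1248) (nat_lit 988) (nat_lit 0) (XT.nd (nat_lit 624) (nat_lit 684) (nat_lit 0) (XT.nd (nat_lit 312) (nat_lit 456) (nat_lit 0) (XT.nd (nat_lit 156) (nat_lit 152) (nat_lit 0) (XT.nd (nat_lit 78) (nat_lit 76) (nat_lit 0) (XT.lf (nat_lit 0) (nat_lit 18923882347) (nat_lit 152) (nat_lit 59361042085) (nat_lit 0) (nat_lit 18791041293) (nat_lit 77) (nat_lit 5) (nat_lit 79) (nat_lit 4) (nat_lit 77) (nat_lit 4) (nat_lit 469) (nat_lit 284) (nat_lit 267)) (XT.lf (nat_lit 0) (nat_lit 25165210538) (nat_lit 76) (nat_lit 37383875469) (nat_lit 76) (nat_lit 37246138382) (nat_lit 76) (nat_lit 4) (nat_lit 77) (nat_lit 5) (nat_lit 77) (nat_lit 4) (nat_lit 470) (nat_lit 284) (nat_lit 266))) (XT.nd (nat_lit 78) (nat_lit 0) (nat_lit 0) (XT.lf (nat_lit 0) (nat_lit 5845486777) (nat_lit 152) (nat_lit 91074488733) (nat_lit 0) (nat_lit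 5709867752) (nat_lit 74) (nat_lit 5) (nat_lit 76) (nat_lit 4) (nat_lit 74) (nat_lit 4) (nat_lit 471) (nat_lit 284) (nat_lit 265)) (XT.lf (nat_lit 0) (nat_lit 50764636266) (nat_lit 152) (nat_lit 4140006448) (nat_lit 0) (nat_lit 50624787863) (nat_lit 74) (nat_lit 5) (nat_lit 76) (nat_lit 4) (nat_lit 74) (nat_lit 4) (nat_lit 472) (nat_lit 284) (nat_lit 264)))) (XT.nd (nat_lit 156) (nat_lit 228) (nat_lit 0) (XT.nd (nat_lit 78) (nat_lit 152) (nat_lit 0) (XT.lf (nat_lit 0) (nat_lit 88060817405) (nat_lit 76) (nat_lit 10317318305) (nat_lit 76) (nat_lit 10173441924) (nat_lit 73) (nat_lit 4) (nat_lit 74) (nat_lit 5) (nat_lit 74) (nat_lit 4) (nat_lit 473) (nat_lit 284) (nat_lit 263)) (XT.lf (nat_lit 0) (nat_lit 36345553130) (nat_lit 152) (nat_lit 39102244752) (nat_lit 0) (nat_lit 36204874510) (nat_lit 71) (nat_lit 5) (nat_lit 73) (nat_lit 4) (nat_lit 71) (nat_lit 4) (nat_lit 474) (nat_lit 284) (nat_lit 262)))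 (XT.nd (nat_lit 78) (nat_lit 152) (nat_lit 0) (XT.lf (nat_lit 0) (nat_lit 55602731591) (nat_lit 76) (nat_lit 29709367389) (nat_lit 76) (nat_lit 29565209250) (nat_lit 70) (nat_lit 4) (nat_lit 71) (nat_lit 5) (nat_lit 71) (nat_lit 4) (nat_lit 475) (nat_lit 284) (nat_lit 261)) (XT.lf (nat_lit 0) (nat_lit 18495703768) (nat_lit 152) (nat_lit 81366661022) (nat_lit 0) (nat_lit 18355254276) (nat_lit 68) (nat_lit 5) (nat_lit 70) (nat_lit 4) (nat_lit 68) (nat_lit 4) (nat_lit 476) (nat_lit 284) (nat_lit 260))))) (XT.nd (nat_lit 312) (nat_lit 380) (nat_lit 0) (XT.nd (nat_lit 156) (nat_lit 228) (nat_lit 0) (XT.nd (nat_lit 78) (nat_lit 0) (nat_lit 0) (XT.lf (nat_lit 0) (nat_lit 15783998345) (nat_lit 76) (nat_lit 53009401225) (nat_lit 76) (nat_lit 52865945993) (nat_lit 67) (nat_lit 4) (nat_lit 68) (nat_lit 5) (nat_lit 68) (nat_lit 4) (nat_lit 477) (nat_lit 284) (nat_lit 259)) (XT.lf (nat_lit 0) (nat_lit 118748772045)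 (nat_lit 76) (nat_lit 3323690043) (nat_lit 76) (nat_lit 3177372202) (nat_lit 67) (nat_lit 4) (nat_lit 68) (nat_lit 5) (nat_lit 68) (nat_lit 4) (nat_lit 478) (nat_lit 284) (nat_lit 258))) (XT.nd (nat_lit 78) (nat_lit 76) (nat_lit 0) (XT.lf (nat_lit 0) (nat_lit 48867622484) (nat_lit 152) (nat_lit 31316293408) (nat_lit 0) (nat_lit 48725675688) (nat_lit 65) (nat_lit 5) (nat_lit 67) (nat_lit 4) (nat_lit 65) (nat_lit 4) (nat_lit 479) (nat_lit 284) (nat_lit 257)) (XT.lf (nat_lit 0) (nat_lit 74850034188) (nat_lit 76) (nat_lit 29010741647) (nat_lit 76) (nat_lit 28866322021) (nat_lit 64) (nat_lit 4) (nat_lit 65) (nat_lit 5) (nat_lit 65) (nat_lit 4) (nat_lit 480) (nat_lit 284) (nat_lit 256)))) (XT.nd (nat_lit 156) (nat_lit 152) (nat_lit 0) (XT.nd (nat_lit 78) (nat_lit 76) (nat_lit 0) (XT.lf (nat_lit 0) (nat_lit 24910655686) (nat_lit 152) (nat_lit 86992616313) (nat_lit 0) (nat_lit 24770870256) (nat_lit 62)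 (nat_lit 5) (nat_lit 64) (nat_lit 4) (nat_lit 62) (nat_lit 4) (nat_lit 481) (nat_lit 284) (nat_lit 255)) (XT.lf (nat_lit 0) (nat_lit 21781638615) (nat_lit 76) (nat_lit 59554340579) (nat_lit 76) (nat_lit 59412419027) (nat_lit 61) (nat_lit 4) (nat_lit 62) (nat_lit 5) (nat_lit 62) (nat_lit 4) (nat_lit 482) (nat_lit 284) (nat_lit 254))) (XT.nd (nat_lit 78) (nat_lit 152) (nat_lit 0) (XT.lf (nat_lit 0) (nat_lit 137235450066) (nat_lit 76) (nat_lit 3952306740) (nat_lit 76) (nat_lit 3808350784) (nat_lit 61) (nat_lit 4) (nat_lit 62) (nat_lit 5) (nat_lit 62) (nat_lit 4) (nat_lit 483) (nat_lit 284) (nat_lit 253)) (XT.lf (nat_lit 0) (nat_lit 54583633747) (nat_lit 152) (nat_lit 40297552792) (nat_lit 0) (nat_lit 54444687574) (nat_lit 59) (nat_lit 5) (nat_lit 61) (nat_lit 4) (nat_lit 59) (nat_lit 4) (nat_lit 484) (nat_lit 284) (nat_lit 252)))))) (XT.nd (nat_lit 624) (nat_lit 304) (nat_lit 0) (XT.nd (nat_lit 312)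 (nat_lit 380) (nat_lit 0) (XT.nd (nat_lit 156) (nat_lit 76) (nat_lit 0) (XT.nd (nat_lit 78) (nat_lit 152) (nat_lit 0) (XT.lf (nat_lit 0) (nat_lit 78728651568) (nat_lit 76) (nat_lit 37625847992) (nat_lit 76) (nat_lit 37485144425) (nat_lit 58) (nat_lit 4) (nat_lit 59) (nat_lit 5) (nat_lit 59) (nat_lit 4) (nat_lit 485) (nat_lit 284) (nat_lit 251)) (XT.lf (nat_lit 0) (nat_lit 22847344932) (nat_lit 152) (nat_lit 112955490562) (nat_lit 0) (nat_lit 22711747527) (nat_lit 56) (nat_lit 5) (nat_lit 58) (nat_lit 4) (nat_lit 56) (nat_lit 4) (nat_lit 486) (nat_lit 284) (nat_lit 250))) (XT.nd (nat_lit 78) (nat_lit 0) (nat_lit 0) (XT.lf (nat_lit 0) (nat_lit 8818349370) (nat_lit 76) (nat_lit 77325476955) (nat_lit 76) (nat_lit 77188361447) (nat_lit 55) (nat_lit 4) (nat_lit 56) (nat_lit 5) (nat_lit 56) (nat_lit 4) (nat_lit 487) (nat_lit 284) (nat_lit 249)) (XT.lf (nat_lit 0) (nat_lit 138907811011) (nat_lit 76) (nat_lit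 14783555662) (nat_lit 76) (nat_lit 14644994342) (nat_lit 55) (nat_lit 4) (nat_lit 56) (nat_lit 5) (nat_lit 56) (nat_lit 4) (nat_lit 488) (nat_lit 284) (nat_lit 248)))) (XT.nd (nat_lit 156) (nat_lit 152) (nat_lit 0) (XT.nd (nat_lit 78) (nat_lit 76) (nat_lit 0) (XT.lf (nat_lit 0) (nat_lit 51017272694) (nat_lit 152) (nat_lit 71568396127) (nat_lit 0) (nat_lit 50883998137) (nat_lit 53) (nat_lit 5) (nat_lit 55) (nat_lit 4) (nat_lit 53) (nat_lit 4) (nat_lit 489) (nat_lit 284) (nat_lit 247)) (XT.lf (nat_lit 0) (nat_lit 61832582175) (nat_lit 76) (nat_lit 58551936871) (nat_lit 76) (nat_lit 58417413368) (nat_lit 52) (nat_lit 4) (nat_lit 53) (nat_lit 5) (nat_lit 53) (nat_lit 4) (nat_lit 490) (nat_lit 284) (nat_lit 246))) (XT.nd (nat_lit 78) (nat_lit 0) (nat_lit 0) (XT.lf (nat_lit 0) (nat_lit 9412795447) (nat_lit 152) (nat_lit 165653798386) (nat_lit 0) (nat_lit 9283544993) (nat_lit 50) (nat_lit 5) (nat_lit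 52) (nat_lit 4) (nat_lit 50) (nat_lit 4) (nat_lit 491) (nat_lit 284) (nat_lit 245)) (XT.lf (nat_lit 0) (nat_lit 80844330465) (nat_lit 152) (nat_lit 28460889648) (nat_lit 0) (nat_lit 80714001124) (nat_lit 50) (nat_lit 5) (nat_lit 52) (nat_lit 4) (nat_lit 50) (nat_lit 4) (nat_lit 492) (nat_lit 284) (nat_lit 244))))) (XT.nd (nat_lit 49764) (nat_lit 0) (nat_lit 4104) (XT.nd (nat_lit 156) (nat_lit 76) (nat_lit 0) (XT.nd (nat_lit 78) (nat_lit 152) (nat_lit 0) (XT.lf (nat_lit 0) (nat_lit 117799701650) (nat_lit 76) (nat_lit 39124780489) (nat_lit 76) (nat_lit 38993423636) (nat_lit 49) (nat_lit 4) (nat_lit 50) (nat_lit 5) (nat_lit 50) (nat_lit 4) (nat_lit 493) (nat_lit 284) (nat_lit 243)) (XT.lf (nat_lit 0) (nat_lit 34975833055) (nat_lit 152) (nat_lit 132189344184) (nat_lit 0) (nat_lit 34849799307) (nat_lit 47) (nat_lit 5) (nat_lit 49) (nat_lit 4) (nat_lit 47) (nat_lit 4) (nat_lit 494) (nat_lit 284) (nat_lit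 242))) (XT.nd (nat_lit 78) (nat_lit 0) (nat_lit 0) (XT.lf (nat_lit 0) (nat_lit 17214354781) (nat_lit 76) (nat_lit 95611435978) (nat_lit 76) (nat_lit 95484514627) (nat_lit 46) (nat_lit 4) (nat_lit 47) (nat_lit 5) (nat_lit 47) (nat_lit 4) (nat_lit 495) (nat_lit 284) (nat_lit 241)) (XT.lf (nat_lit 0) (nat_lit 177140458814) (nat_lit 76) (nat_lit 18916633132) (nat_lit 76) (nat_lit 18788866444) (nat_lit 46) (nat_lit 4) (nat_lit 47) (nat_lit 5) (nat_lit 47) (nat_lit 4) (nat_lit 496) (nat_lit 284) (nat_lit 240)))) (XT.nd (nat_lit 156) (nat_lit 228) (nat_lit 0) (XT.nd (nat_lit 78) (nat_lit 76) (nat_lit 0) (XT.lf (nat_lit 0) (nat_lit 7930393660) (nat_lit 152) (nat_lit 13837224236) (nat_lit 0) (nat_lit 7930393660) (nat_lit 104) (nat_lit 5) (nat_lit 106) (nat_lit 4) (nat_lit 104) (nat_lit 4) (nat_lit 450) (nat_lit 285) (nat_lit 285)) (XT.lf (nat_lit 0) (nat_lit 32261080837) (nat_lit 76) (nat_lit 14313024485)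 (nat_lit 76) (nat_lit 14294745359) (nat_lit 103) (nat_lit 4) (nat_lit 104) (nat_lit 5) (nat_lit 104) (nat_lit 4) (nat_lit 451) (nat_lit 285) (nat_lit 284))) (XT.nd (nat_lit 78) (nat_lit 76) (nat_lit 0) (XT.lf (nat_lit 0) (nat_lit 16153875519) (nat_lit 152) (nat_lit 30115185574) (nat_lit 0) (nat_lit 16119887122) (nat_lit 101) (nat_lit 5) (nat_lit 103) (nat_lit 4) (nat_lit 101) (nat_lit 4) (nat_lit 452) (nat_lit 285) (nat_lit 283)) (XT.lf (nat_lit 0) (nat_lit 31778496673) (nat_lit 76) (nat_lit 16116057182) (nat_lit 76) (nat_lit 16066278588) (nat_lit 100) (nat_lit 4) (nat_lit 101) (nat_lit 5) (nat_lit 101) (nat_lit 4) (nat_lit 453) (nat_lit 285) (nat_lit 282))))))) (XT.nd (nat_lit 1248) (nat_lit 1444) (nat_lit 0) (XT.nd (nat_lit 624) (nat_lit 836) (nat_lit 0) (XT.nd (nat_lit 312) (nat_lit 456) (nat_lit 0) (XT.nd (nat_lit 156) (nat_lit 228) (nat_lit 0) (XT.nd (nat_lit 78) (nat_lit 76) (nat_lit 0) (XT.lf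 (nat_lit 0) (nat_lit 15387263275) (nat_lit 152) (nat_lit 34872530345) (nat_lit 0) (nat_lit 15325532917) (nat_lit 98) (nat_lit 5) (nat_lit 100) (nat_lit 4) (nat_lit 98) (nat_lit 4) (nat_lit 454) (nat_lit 285) (nat_lit 281)) (XT.lf (nat_lit 0) (nat_lit 29004493127) (nat_lit 76) (nat_lit 19166929996) (nat_lit 76) (nat_lit 19091559473) (nat_lit 97) (nat_lit 4) (nat_lit 98) (nat_lit 5) (nat_lit 98) (nat_lit 4) (nat_lit 455) (nat_lit 285) (nat_lit 280))) (XT.nd (nat_lit 78) (nat_lit 76) (nat_lit 0) (XT.lf (nat_lit 0) (nat_lit 13398425539) (nat_lit 152) (nat_lit 42288105893) (nat_lit 0) (nat_lit 13314272057) (nat_lit 95) (nat_lit 5) (nat_lit 97) (nat_lit 4) (nat_lit 95) (nat_lit 4) (nat_lit 456) (nat_lit 285) (nat_lit 279)) (XT.lf (nat_lit 0) (nat_lit 23591262145) (nat_lit 76) (nat_lit 23648069823) (nat_lit 76) (nat_lit 23552133453) (nat_lit 94) (nat_lit 4) (nat_lit 95) (nat_lit 5) (nat_lit 95) (nat_lit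 4) (nat_lit 457) (nat_lit 285) (nat_lit 278)))) (XT.nd (nat_lit 156) (nat_lit 228) (nat_lit 0) (XT.nd (nat_lit 78) (nat_lit 76) (nat_lit 0) (XT.lf (nat_lit 0) (nat_lit 10005388061) (nat_lit 152) (nat_lit 52743652383) (nat_lit 0) (nat_lit 9903332663) (nat_lit 92) (nat_lit 5) (nat_lit 94) (nat_lit 4) (nat_lit 92) (nat_lit 4) (nat_lit 458) (nat_lit 285) (nat_lit 277)) (XT.lf (nat_lit 0) (nat_lit 15149804791) (nat_lit 76) (nat_lit 29763133655) (nat_lit 76) (nat_lit 29650899757) (nat_lit 91) (nat_lit 4) (nat_lit 92) (nat_lit 5) (nat_lit 92) (nat_lit 4) (nat_lit 459) (nat_lit 285) (nat_lit 276))) (XT.nd (nat_lit 78) (nat_lit 76) (nat_lit 0) (XT.lf (nat_lit 0) (nat_lit 5004608028) (nat_lit 152) (nat_lit 66665408382) (nat_lit 0) (nat_lit 4888486400) (nat_lit 89) (nat_lit 5) (nat_lit 91) (nat_lit 4) (nat_lit 89) (nat_lit 4) (nat_lit 460) (nat_lit 285) (nat_lit 275)) (XT.lf (nat_lit 0) (nat_lit 3245418059)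 (nat_lit 76) (nat_lit 37739338144) (nat_lit 76) (nat_lit 37614423944) (nat_lit 88) (nat_lit 4) (nat_lit 89) (nat_lit 5) (nat_lit 89) (nat_lit 4) (nat_lit 461) (nat_lit 285) (nat_lit 274))))) (XT.nd (nat_lit 312) (nat_lit 456) (nat_lit 0) (XT.nd (nat_lit 156) (nat_lit 228) (nat_lit 0) (XT.nd (nat_lit 78) (nat_lit 152) (nat_lit 0) (XT.lf (nat_lit 0) (nat_lit 77004744991) (nat_lit 76) (nat_lit 1930923307) (nat_lit 76) (nat_lit 1797635229) (nat_lit 88) (nat_lit 4) (nat_lit 89) (nat_lit 5) (nat_lit 89) (nat_lit 4) (nat_lit 462) (nat_lit 285) (nat_lit 273)) (XT.lf (nat_lit 0) (nat_lit 35419573547) (nat_lit 152) (nat_lit 12203781443) (nat_lit 0) (nat_lit 35285037166) (nat_lit 86) (nat_lit 5) (nat_lit 88) (nat_lit 4) (nat_lit 86) (nat_lit 4) (nat_lit 463) (nat_lit 285) (nat_lit 272))) (XT.nd (nat_lit 78) (nat_lit 152) (nat_lit 0) (XT.lf (nat_lit 0) (nat_lit 63883550161) (nat_lit 76) (nat_lit 10720324707)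 (nat_lit 76) (nat_lit 10578554655) (nat_lit 85) (nat_lit 4) (nat_lit 86) (nat_lit 5) (nat_lit 86) (nat_lit 4) (nat_lit 464) (nat_lit 285) (nat_lit 271)) (XT.lf (nat_lit 0) (nat_lit 27882045681) (nat_lit 152) (nat_lit 31895327862) (nat_lit 0) (nat_lit 27740465431) (nat_lit 83) (nat_lit 5) (nat_lit 85) (nat_lit 4) (nat_lit 83) (nat_lit 4) (nat_lit 465) (nat_lit 285) (nat_lit 270)))) (XT.nd (nat_lit 156) (nat_lit 228) (nat_lit 0) (XT.nd (nat_lit 78) (nat_lit 152) (nat_lit 0) (XT.lf (nat_lit 0) (nat_lit 46408933033) (nat_lit 76) (nat_lit 21841612485) (nat_lit 76) (nat_lit 21693783518) (nat_lit 82) (nat_lit 4) (nat_lit 83) (nat_lit 5) (nat_lit 83) (nat_lit 4) (nat_lit 466) (nat_lit 285) (nat_lit 269)) (XT.lf (nat_lit 0) (nat_lit 18041462314) (nat_lit 152) (nat_lit 56517666300) (nat_lit 0) (nat_lit 17895005051) (nat_lit 80) (nat_lit 5) (nat_lit 82) (nat_lit 4) (nat_lit 80) (nat_lit 4) (nat_lit 467) (nat_lit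 285) (nat_lit 268))) (XT.nd (nat_lit 78) (nat_lit 152) (nat_lit 0) (XT.lf (nat_lit 0) (nat_lit 23983828565) (nat_lit 76) (nat_lit 35605952553) (nat_lit 76) (nat_lit 35454097414) (nat_lit 79) (nat_lit 4) (nat_lit 80) (nat_lit 5) (nat_lit 80) (nat_lit 4) (nat_lit 468) (nat_lit 285) (nat_lit 267)) (XT.lf (nat_lit 0) (nat_lit 5585404269) (nat_lit 152) (nat_lit 86722190210) (nat_lit 0) (nat_lit 5435884294) (nat_lit 77) (nat_lit 5) (nat_lit 79) (nat_lit 4) (nat_lit 77) (nat_lit 4) (nat_lit 469) (nat_lit 285) (nat_lit 266)))))) (XT.nd (nat_lit 624) (nat_lit 760) (nat_lit 0) (XT.nd (nat_lit 312) (nat_lit 380) (nat_lit 0) (XT.nd (nat_lit 156) (nat_lit 228) (nat_lit 0) (XT.nd (nat_lit 78) (nat_lit 76) (nat_lit 0) (XT.lf (nat_lit 0) (nat_lit 48365754807) (nat_lit 152) (nat_lit 3927653344) (nat_lit 0) (nat_lit 48211571943) (nat_lit 77) (nat_lit 5) (nat_lit 79) (nat_lit 4) (nat_lit 77) (nat_lit 4) (nat_lit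 470) (nat_lit 285) (nat_lit 265)) (XT.lf (nat_lit 0) (nat_lit 83882953187) (nat_lit 76) (nat_lit 9829431946) (nat_lit 76) (nat_lit 9670808235) (nat_lit 76) (nat_lit 4) (nat_lit 77) (nat_lit 5) (nat_lit 77) (nat_lit 4) (nat_lit 471) (nat_lit 285) (nat_lit 264))) (XT.nd (nat_lit 78) (nat_lit 76) (nat_lit 0) (XT.lf (nat_lit 0) (nat_lit 34632783210) (nat_lit 152) (nat_lit 37226116077) (nat_lit 0) (nat_lit 34477685032) (nat_lit 74) (nat_lit 5) (nat_lit 76) (nat_lit 4) (nat_lit 74) (nat_lit 4) (nat_lit 472) (nat_lit 285) (nat_lit 263)) (XT.lf (nat_lit 0) (nat_lit 52969389337) (nat_lit 76) (nat_lit 28298595636) (nat_lit 76) (nat_lit 28139661287) (nat_lit 73) (nat_lit 4) (nat_lit 74) (nat_lit 5) (nat_lit 74) (nat_lit 4) (nat_lit 473) (nat_lit 285) (nat_lit 262)))) (XT.nd (nat_lit 156) (nat_lit 152) (nat_lit 0) (XT.nd (nat_lit 78) (nat_lit 76) (nat_lit 0) (XT.lf (nat_lit 0) (nat_lit 17632389370) (nat_lit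 152) (nat_lit 77478931778) (nat_lit 0) (nat_lit 17477543804) (nat_lit 71) (nat_lit 5) (nat_lit 73) (nat_lit 4) (nat_lit 71) (nat_lit 4) (nat_lit 474) (nat_lit 285) (nat_lit 261)) (XT.lf (nat_lit 0) (nat_lit 15045786899) (nat_lit 76) (nat_lit 50489527171) (nat_lit 76) (nat_lit 50331367777) (nat_lit 70) (nat_lit 4) (nat_lit 71) (nat_lit 5) (nat_lit 71) (nat_lit 4) (nat_lit 475) (nat_lit 285) (nat_lit 260))) (XT.nd (nat_lit 78) (nat_lit 152) (nat_lit 0) (XT.lf (nat_lit 0) (nat_lit 113107330582) (nat_lit 76) (nat_lit 3170086414) (nat_lit 76) (nat_lit 3008770993) (nat_lit 70) (nat_lit 4) (nat_lit 71) (nat_lit 5) (nat_lit 71) (nat_lit 4) (nat_lit 476) (nat_lit 285) (nat_lit 259)) (XT.lf (nat_lit 0) (nat_lit 46557598959) (nat_lit 152) (nat_lit 29812942945) (nat_lit 0) (nat_lit 46401102616) (nat_lit 68) (nat_lit 5) (nat_lit 70) (nat_lit 4) (nat_lit 68) (nat_lit 4) (nat_lit 477) (nat_lit 285) (nat_lit 258)))))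 (XT.nd (nat_lit 312) (nat_lit 456) (nat_lit 0) (XT.nd (nat_lit 156) (nat_lit 76) (nat_lit 0) (XT.nd (nat_lit 78) (nat_lit 152) (nat_lit 0) (XT.lf (nat_lit 0) (nat_lit 71298119534) (nat_lit 76) (nat_lit 27634226071) (nat_lit 76) (nat_lit 27475003434) (nat_lit 67) (nat_lit 4) (nat_lit 68) (nat_lit 5) (nat_lit 68) (nat_lit 4) (nat_lit 478) (nat_lit 285) (nat_lit 257)) (XT.lf (nat_lit 0) (nat_lit 23740856599) (nat_lit 152) (nat_lit 82838814803) (nat_lit 0) (nat_lit 23586743162) (nat_lit 65) (nat_lit 5) (nat_lit 67) (nat_lit 4) (nat_lit 65) (nat_lit 4) (nat_lit 479) (nat_lit 285) (nat_lit 256))) (XT.nd (nat_lit 78) (nat_lit 0) (nat_lit 0) (XT.lf (nat_lit 0) (nat_lit 20755978580) (nat_lit 76) (nat_lit 56723566996) (nat_lit 76) (nat_lit 56567098484) (nat_lit 64) (nat_lit 4) (nat_lit 65) (nat_lit 5) (nat_lit 65) (nat_lit 4) (nat_lit 480) (nat_lit 285) (nat_lit 255)) (XT.lf (nat_lit 0) (nat_lit 130711886043)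 (nat_lit 76) (nat_lit 3769451013) (nat_lit 76) (nat_lit 3610739572) (nat_lit 64) (nat_lit 4) (nat_lit 65) (nat_lit 5) (nat_lit 65) (nat_lit 4) (nat_lit 481) (nat_lit 285) (nat_lit 254)))) (XT.nd (nat_lit 156) (nat_lit 228) (nat_lit 0) (XT.nd (nat_lit 78) (nat_lit 76) (nat_lit 0) (XT.lf (nat_lit 0) (nat_lit 52000339995) (nat_lit 152) (nat_lit 38368149958) (nat_lit 0) (nat_lit 51847151838) (nat_lit 62) (nat_lit 5) (nat_lit 64) (nat_lit 4) (nat_lit 62) (nat_lit 4) (nat_lit 482) (nat_lit 285) (nat_lit 253)) (XT.lf (nat_lit 0) (nat_lit 74990396794) (nat_lit 76) (nat_lit 35839593214) (nat_lit 76) (nat_lit 35684467531) (nat_lit 61) (nat_lit 4) (nat_lit 62) (nat_lit 5) (nat_lit 62) (nat_lit 4) (nat_lit 483) (nat_lit 285) (nat_lit 252))) (XT.nd (nat_lit 78) (nat_lit 76) (nat_lit 0) (XT.lf (nat_lit 0) (nat_lit 21774705439) (nat_lit 152) (nat_lit 107566845419) (nat_lit 0) (nat_lit 21625209300) (nat_lit 59)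 (nat_lit 5) (nat_lit 61) (nat_lit 4) (nat_lit 59) (nat_lit 4) (nat_lit 484) (nat_lit 285) (nat_lit 251)) (XT.lf (nat_lit 0) (nat_lit 8408487478) (nat_lit 76) (nat_lit 73648812969) (nat_lit 76) (nat_lit 73497643122) (nat_lit 58) (nat_lit 4) (nat_lit 59) (nat_lit 5) (nat_lit 59) (nat_lit 4) (nat_lit 485) (nat_lit 285) (nat_lit 250))))))))
noncomputable def xc12 : XT := (XT.nd (nat_lit 51792) (nat_lit 0) (nat_lit 76) (XT.nd (nat_lit 50544) (nat_lit 0) (nat_lit 2584) (XT.nd (nat_lit 624) (nat_lit 228) (nat_lit 0) (XT.nd (nat_lit 312) (nat_lit 304) (nat_lit 0) (XT.nd (nat_lit 156) (nat_lit 228) (nat_lit 0) (XT.nd (nat_lit 78) (nat_lit 152) (nat_lit 0) (XT.lf (nat_lit 0) (nat_lit 132303139336) (nat_lit 76) (nat_lit 14085221934) (nat_lit 76) (nat_lit 13932458078) (nat_lit 58) (nat_lit 4) (nat_lit 59) (nat_lit 5) (nat_lit 59) (nat_lit 4) (nat_lit 486) (nat_lit 285) (nat_lit 249)) (XT.lf (nat_lit 0) (nat_lit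 48602681583) (nat_lit 152) (nat_lit 68151235736) (nat_lit 0) (nat_lit 48455746384) (nat_lit 56) (nat_lit 5) (nat_lit 58) (nat_lit 4) (nat_lit 56) (nat_lit 4) (nat_lit 487) (nat_lit 285) (nat_lit 248))) (XT.nd (nat_lit 78) (nat_lit 152) (nat_lit 0) (XT.lf (nat_lit 0) (nat_lit 58897553783) (nat_lit 76) (nat_lit 55769379869) (nat_lit 76) (nat_lit 55621067707) (nat_lit 55) (nat_lit 4) (nat_lit 56) (nat_lit 5) (nat_lit 56) (nat_lit 4) (nat_lit 488) (nat_lit 285) (nat_lit 247)) (XT.lf (nat_lit 0) (nat_lit 8978779325) (nat_lit 152) (nat_lit 157756930357) (nat_lit 0) (nat_lit 8836280700) (nat_lit 53) (nat_lit 5) (nat_lit 55) (nat_lit 4) (nat_lit 53) (nat_lit 4) (nat_lit 489) (nat_lit 285) (nat_lit 246)))) (XT.nd (nat_lit 156) (nat_lit 228) (nat_lit 0) (XT.nd (nat_lit 78) (nat_lit 76) (nat_lit 0) (XT.lf (nat_lit 0) (nat_lit 77008865778) (nat_lit 152) (nat_lit 27097070376) (nat_lit 0) (nat_lit 76865177679)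 (nat_lit 53) (nat_lit 5) (nat_lit 55) (nat_lit 4) (nat_lit 53) (nat_lit 4) (nat_lit 490) (nat_lit 285) (nat_lit 245)) (XT.lf (nat_lit 0) (nat_lit 112198960946) (nat_lit 76) (nat_lit 37267379620) (nat_lit 76) (nat_lit 37122558690) (nat_lit 52) (nat_lit 4) (nat_lit 53) (nat_lit 5) (nat_lit 53) (nat_lit 4) (nat_lit 491) (nat_lit 285) (nat_lit 244))) (XT.nd (nat_lit 78) (nat_lit 76) (nat_lit 0) (XT.lf (nat_lit 0) (nat_lit 33323997265) (nat_lit 152) (nat_lit 125886575343) (nat_lit 0) (nat_lit 33185045058) (nat_lit 50) (nat_lit 5) (nat_lit 52) (nat_lit 4) (nat_lit 50) (nat_lit 4) (nat_lit 492) (nat_lit 285) (nat_lit 243)) (XT.lf (nat_lit 0) (nat_lit 16402882412) (nat_lit 76) (nat_lit 91064104344) (nat_lit 76) (nat_lit 90924173554) (nat_lit 49) (nat_lit 4) (nat_lit 50) (nat_lit 5) (nat_lit 50) (nat_lit 4) (nat_lit 493) (nat_lit 285) (nat_lit 242))))) (XT.nd (nat_lit 49608) (nat_lit 0) (nat_lit 4180) (XT.nd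 (nat_lit 156) (nat_lit 76) (nat_lit 0) (XT.nd (nat_lit 78) (nat_lit 152) (nat_lit 0) (XT.lf (nat_lit 0) (nat_lit 168713414700) (nat_lit 76) (nat_lit 18021518885) (nat_lit 76) (nat_lit 17880656112) (nat_lit 49) (nat_lit 4) (nat_lit 50) (nat_lit 5) (nat_lit 50) (nat_lit 4) (nat_lit 494) (nat_lit 285) (nat_lit 241)) (XT.lf (nat_lit 0) (nat_lit 59048831788) (nat_lit 152) (nat_lit 93036851800) (nat_lit 0) (nat_lit 58913831430) (nat_lit 47) (nat_lit 5) (nat_lit 49) (nat_lit 4) (nat_lit 47) (nat_lit 4) (nat_lit 495) (nat_lit 285) (nat_lit 240))) (XT.nd (nat_lit 49374) (nat_lit 0) (nat_lit 4636) (XT.lf (nat_lit 0) (nat_lit 63098935990) (nat_lit 76) (nat_lit 77332242596) (nat_lit 76) (nat_lit 77196437155) (nat_lit 46) (nat_lit 4) (nat_lit 47) (nat_lit 5) (nat_lit 47) (nat_lit 4) (nat_lit 496) (nat_lit 285) (nat_lit 239)) (XT.lf (nat_lit 0) (nat_lit 7562674914) (nat_lit 152) (nat_lit 13159415371) (nat_lit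 0) (nat_lit 7562674914) (nat_lit 107) (nat_lit 5) (nat_lit 109) (nat_lit 4) (nat_lit 107) (nat_lit 4) (nat_lit 448) (nat_lit 286) (nat_lit 286)))) (XT.nd (nat_lit 156) (nat_lit 228) (nat_lit 0) (XT.nd (nat_lit 78) (nat_lit 152) (nat_lit 0) (XT.lf (nat_lit 0) (nat_lit 30762945711) (nat_lit 76) (nat_lit 13614677809) (nat_lit 76) (nat_lit 13594525073) (nat_lit 106) (nat_lit 4) (nat_lit 107) (nat_lit 5) (nat_lit 107) (nat_lit 4) (nat_lit 449) (nat_lit 286) (nat_lit 285)) (XT.lf (nat_lit 0) (nat_lit 15405209663) (nat_lit 152) (nat_lit 28646814531) (nat_lit 0) (nat_lit 15367737455) (nat_lit 104) (nat_lit 5) (nat_lit 106) (nat_lit 4) (nat_lit 104) (nat_lit 4) (nat_lit 450) (nat_lit 286) (nat_lit 284))) (XT.nd (nat_lit 78) (nat_lit 152) (nat_lit 0) (XT.lf (nat_lit 0) (nat_lit 30299881229) (nat_lit 76) (nat_lit 15335864005) (nat_lit 76) (nat_lit 15280983106) (nat_lit 103) (nat_lit 4) (nat_lit 104) (nat_lit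 5) (nat_lit 104) (nat_lit 4) (nat_lit 451) (nat_lit 286) (nat_lit 283)) (XT.lf (nat_lit 0) (nat_lit 14675568518) (nat_lit 152) (nat_lit 33180698205) (nat_lit 0) (nat_lit 14607510799) (nat_lit 101) (nat_lit 5) (nat_lit 103) (nat_lit 4) (nat_lit 101) (nat_lit 4) (nat_lit 452) (nat_lit 286) (nat_lit 282)))))) (XT.nd (nat_lit 624) (nat_lit 836) (nat_lit 0) (XT.nd (nat_lit 312) (nat_lit 304) (nat_lit 0) (XT.nd (nat_lit 156) (nat_lit 228) (nat_lit 0) (XT.nd (nat_lit 78) (nat_lit 152) (nat_lit 0) (XT.lf (nat_lit 0) (nat_lit 27654901471) (nat_lit 76) (nat_lit 18244840755) (nat_lit 76) (nat_lit 18161744754) (nat_lit 100) (nat_lit 4) (nat_lit 101) (nat_lit 5) (nat_lit 101) (nat_lit 4) (nat_lit 453) (nat_lit 286) (nat_lit 281)) (XT.lf (nat_lit 0) (nat_lit 12781684149) (nat_lit 152) (nat_lit 40245886845) (nat_lit 0) (nat_lit 12688904935) (nat_lit 98) (nat_lit 5) (nat_lit 100) (nat_lit 4) (nat_lit 98) (nat_lit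 4) (nat_lit 454) (nat_lit 286) (nat_lit 280))) (XT.nd (nat_lit 78) (nat_lit 152) (nat_lit 0) (XT.lf (nat_lit 0) (nat_lit 22496711637) (nat_lit 76) (nat_lit 22515437471) (nat_lit 76) (nat_lit 22409667623) (nat_lit 97) (nat_lit 4) (nat_lit 98) (nat_lit 5) (nat_lit 98) (nat_lit 4) (nat_lit 455) (nat_lit 286) (nat_lit 279)) (XT.lf (nat_lit 0) (nat_lit 9550284962) (nat_lit 152) (nat_lit 50205985656) (nat_lit 0) (nat_lit 9437768886) (nat_lit 95) (nat_lit 5) (nat_lit 97) (nat_lit 4) (nat_lit 95) (nat_lit 4) (nat_lit 456) (nat_lit 286) (nat_lit 278)))) (XT.nd (nat_lit 156) (nat_lit 76) (nat_lit 0) (XT.nd (nat_lit 78) (nat_lit 152) (nat_lit 0) (XT.lf (nat_lit 0) (nat_lit 14454794005) (nat_lit 76) (nat_lit 28341690328) (nat_lit 76) (nat_lit 28217952455) (nat_lit 94) (nat_lit 4) (nat_lit 95) (nat_lit 5) (nat_lit 95) (nat_lit 4) (nat_lit 457) (nat_lit 286) (nat_lit 277)) (XT.lf (nat_lit 0) (nat_lit 4787552459)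 (nat_lit 152) (nat_lit 63466973573) (nat_lit 0) (nat_lit 4659528364) (nat_lit 92) (nat_lit 5) (nat_lit 94) (nat_lit 4) (nat_lit 92) (nat_lit 4) (nat_lit 458) (nat_lit 286) (nat_lit 276))) (XT.nd (nat_lit 78) (nat_lit 0) (nat_lit 0) (XT.lf (nat_lit 0) (nat_lit 3115108783) (nat_lit 76) (nat_lit 35940062594) (nat_lit 76) (nat_lit 35802344689) (nat_lit 91) (nat_lit 4) (nat_lit 92) (nat_lit 5) (nat_lit 92) (nat_lit 4) (nat_lit 459) (nat_lit 286) (nat_lit 275)) (XT.lf (nat_lit 0) (nat_lit 73361661029) (nat_lit 76) (nat_lit 1837641662) (nat_lit 76) (nat_lit 1690691556) (nat_lit 91) (nat_lit 4) (nat_lit 92) (nat_lit 5) (nat_lit 92) (nat_lit 4) (nat_lit 460) (nat_lit 286) (nat_lit 274))))) (XT.nd (nat_lit 312) (nat_lit 380) (nat_lit 0) (XT.nd (nat_lit 156) (nat_lit 228) (nat_lit 0) (XT.nd (nat_lit 78) (nat_lit 76) (nat_lit 0) (XT.lf (nat_lit 0) (nat_lit 33754352474) (nat_lit 152) (nat_lit 11601073659) (nat_lit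 0) (nat_lit 33606026114) (nat_lit 89) (nat_lit 5) (nat_lit 91) (nat_lit 4) (nat_lit 89) (nat_lit 4) (nat_lit 461) (nat_lit 286) (nat_lit 273)) (XT.lf (nat_lit 0) (nat_lit 60863397247) (nat_lit 76) (nat_lit 10210035721) (nat_lit 76) (nat_lit 10053734239) (nat_lit 88) (nat_lit 4) (nat_lit 89) (nat_lit 5) (nat_lit 89) (nat_lit 4) (nat_lit 462) (nat_lit 286) (nat_lit 272))) (XT.nd (nat_lit 78) (nat_lit 76) (nat_lit 0) (XT.lf (nat_lit 0) (nat_lit 26575396273) (nat_lit 152) (nat_lit 30356616807) (nat_lit 0) (nat_lit 26419304048) (nat_lit 86) (nat_lit 5) (nat_lit 88) (nat_lit 4) (nat_lit 86) (nat_lit 4) (nat_lit 463) (nat_lit 286) (nat_lit 271)) (XT.lf (nat_lit 0) (nat_lit 44219209551) (nat_lit 76) (nat_lit 20803000381) (nat_lit 76) (nat_lit 20640018945) (nat_lit 85) (nat_lit 4) (nat_lit 86) (nat_lit 5) (nat_lit 86) (nat_lit 4) (nat_lit 464) (nat_lit 286) (nat_lit 270)))) (XT.nd (nat_lit 156) (nat_lit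 152) (nat_lit 0) (XT.nd (nat_lit 78) (nat_lit 76) (nat_lit 0) (XT.lf (nat_lit 0) (nat_lit 17202980797) (nat_lit 152) (nat_lit 53807981763) (nat_lit 0) (nat_lit 17041511666) (nat_lit 83) (nat_lit 5) (nat_lit 85) (nat_lit 4) (nat_lit 83) (nat_lit 4) (nat_lit 465) (nat_lit 286) (nat_lit 269)) (XT.lf (nat_lit 0) (nat_lit 22860441419) (nat_lit 76) (nat_lit 33912924449) (nat_lit 76) (nat_lit 33745504158) (nat_lit 82) (nat_lit 4) (nat_lit 83) (nat_lit 5) (nat_lit 83) (nat_lit 4) (nat_lit 466) (nat_lit 286) (nat_lit 268))) (XT.nd (nat_lit 78) (nat_lit 0) (nat_lit 0) (XT.lf (nat_lit 0) (nat_lit 5339579728) (nat_lit 152) (nat_lit 82575563643) (nat_lit 0) (nat_lit 5174733955) (nat_lit 80) (nat_lit 5) (nat_lit 82) (nat_lit 4) (nat_lit 80) (nat_lit 4) (nat_lit 467) (nat_lit 286) (nat_lit 267)) (XT.lf (nat_lit 0) (nat_lit 46083000220) (nat_lit 152) (nat_lit 3723853275) (nat_lit 0) (nat_lit 45913013613) (nat_lit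 80) (nat_lit 5) (nat_lit 82) (nat_lit 4) (nat_lit 80) (nat_lit 4) (nat_lit 468) (nat_lit 286) (nat_lit 266))))))) (XT.nd (nat_lit 1248) (nat_lit 1064) (nat_lit 0) (XT.nd (nat_lit 624) (nat_lit 684) (nat_lit 0) (XT.nd (nat_lit 312) (nat_lit 304) (nat_lit 0) (XT.nd (nat_lit 156) (nat_lit 228) (nat_lit 0) (XT.nd (nat_lit 78) (nat_lit 152) (nat_lit 0) (XT.lf (nat_lit 0) (nat_lit 79905624457) (nat_lit 76) (nat_lit 9365128258) (nat_lit 76) (nat_lit 9190245617) (nat_lit 79) (nat_lit 4) (nat_lit 80) (nat_lit 5) (nat_lit 80) (nat_lit 4) (nat_lit 469) (nat_lit 286) (nat_lit 265)) (XT.lf (nat_lit 0) (nat_lit 33003415760) (nat_lit 152) (nat_lit 35437879869) (nat_lit 0) (nat_lit 32832420018) (nat_lit 77) (nat_lit 5) (nat_lit 79) (nat_lit 4) (nat_lit 77) (nat_lit 4) (nat_lit 470) (nat_lit 286) (nat_lit 264))) (XT.nd (nat_lit 78) (nat_lit 152) (nat_lit 0) (XT.lf (nat_lit 0) (nat_lit 50462921038) (nat_lit 76)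 (nat_lit 26955409393) (nat_lit 76) (nat_lit 26780184273) (nat_lit 76) (nat_lit 4) (nat_lit 77) (nat_lit 5) (nat_lit 77) (nat_lit 4) (nat_lit 471) (nat_lit 286) (nat_lit 263)) (XT.lf (nat_lit 0) (nat_lit 16811972104) (nat_lit 152) (nat_lit 73774987048) (nat_lit 0) (nat_lit 16641254868) (nat_lit 74) (nat_lit 5) (nat_lit 76) (nat_lit 4) (nat_lit 74) (nat_lit 4) (nat_lit 472) (nat_lit 286) (nat_lit 262)))) (XT.nd (nat_lit 156) (nat_lit 228) (nat_lit 0) (XT.nd (nat_lit 78) (nat_lit 0) (nat_lit 0) (XT.lf (nat_lit 0) (nat_lit 14344102650) (nat_lit 76) (nat_lit 48090096392) (nat_lit 76) (nat_lit 47915725660) (nat_lit 73) (nat_lit 4) (nat_lit 74) (nat_lit 5) (nat_lit 74) (nat_lit 4) (nat_lit 473) (nat_lit 286) (nat_lit 261)) (XT.lf (nat_lit 0) (nat_lit 107735888540) (nat_lit 76) (nat_lit 3024275643) (nat_lit 76) (nat_lit 2846425392) (nat_lit 73) (nat_lit 4) (nat_lit 74) (nat_lit 5) (nat_lit 74) (nat_lit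 4) (nat_lit 474) (nat_lit 286) (nat_lit 260))) (XT.nd (nat_lit 78) (nat_lit 76) (nat_lit 0) (XT.lf (nat_lit 0) (nat_lit 44359319681) (nat_lit 152) (nat_lit 28379940514) (nat_lit 0) (nat_lit 44186782463) (nat_lit 71) (nat_lit 5) (nat_lit 73) (nat_lit 4) (nat_lit 71) (nat_lit 4) (nat_lit 475) (nat_lit 286) (nat_lit 259)) (XT.lf (nat_lit 0) (nat_lit 67916611874) (nat_lit 76) (nat_lit 26323766058) (nat_lit 76) (nat_lit 26148223100) (nat_lit 70) (nat_lit 4) (nat_lit 71) (nat_lit 5) (nat_lit 71) (nat_lit 4) (nat_lit 476) (nat_lit 286) (nat_lit 258))))) (XT.nd (nat_lit 312) (nat_lit 304) (nat_lit 0) (XT.nd (nat_lit 156) (nat_lit 152) (nat_lit 0) (XT.nd (nat_lit 78) (nat_lit 76) (nat_lit 0) (XT.lf (nat_lit 0) (nat_lit 22628445548) (nat_lit 152) (nat_lit 78881655529) (nat_lit 0) (nat_lit 22458535485) (nat_lit 68) (nat_lit 5) (nat_lit 70) (nat_lit 4) (nat_lit 68) (nat_lit 4) (nat_lit 477) (nat_lit 286) (nat_lit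 257)) (XT.lf (nat_lit 0) (nat_lit 19780344487) (nat_lit 76) (nat_lit 54028119763) (nat_lit 76) (nat_lit 53855613228) (nat_lit 67) (nat_lit 4) (nat_lit 68) (nat_lit 5) (nat_lit 68) (nat_lit 4) (nat_lit 478) (nat_lit 286) (nat_lit 256))) (XT.nd (nat_lit 78) (nat_lit 152) (nat_lit 0) (XT.lf (nat_lit 0) (nat_lit 124500142310) (nat_lit 76) (nat_lit 3595851011) (nat_lit 76) (nat_lit 3420871647) (nat_lit 67) (nat_lit 4) (nat_lit 68) (nat_lit 5) (nat_lit 68) (nat_lit 4) (nat_lit 479) (nat_lit 286) (nat_lit 255)) (XT.lf (nat_lit 0) (nat_lit 49541692738) (nat_lit 152) (nat_lit 36529550095) (nat_lit 0) (nat_lit 49372802795) (nat_lit 65) (nat_lit 5) (nat_lit 67) (nat_lit 4) (nat_lit 65) (nat_lit 4) (nat_lit 480) (nat_lit 286) (nat_lit 254)))) (XT.nd (nat_lit 156) (nat_lit 76) (nat_lit 0) (XT.nd (nat_lit 78) (nat_lit 152) (nat_lit 0) (XT.lf (nat_lit 0) (nat_lit 71431253838) (nat_lit 76) (nat_lit 34138957045)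 (nat_lit 76) (nat_lit 33967930979) (nat_lit 64) (nat_lit 4) (nat_lit 65) (nat_lit 5) (nat_lit 65) (nat_lit 4) (nat_lit 481) (nat_lit 286) (nat_lit 253)) (XT.lf (nat_lit 0) (nat_lit 20754715271) (nat_lit 152) (nat_lit 102433796669) (nat_lit 0) (nat_lit 20589895778) (nat_lit 62) (nat_lit 5) (nat_lit 64) (nat_lit 4) (nat_lit 62) (nat_lit 4) (nat_lit 482) (nat_lit 286) (nat_lit 252))) (XT.nd (nat_lit 78) (nat_lit 0) (nat_lit 0) (XT.lf (nat_lit 0) (nat_lit 8019173918) (nat_lit 76) (nat_lit 70147792133) (nat_lit 76) (nat_lit 69981127376) (nat_lit 61) (nat_lit 4) (nat_lit 62) (nat_lit 5) (nat_lit 62) (nat_lit 4) (nat_lit 483) (nat_lit 286) (nat_lit 251)) (XT.lf (nat_lit 0) (nat_lit 126013999399) (nat_lit 76) (nat_lit 13420720816) (nat_lit 76) (nat_lit 13252298665) (nat_lit 61) (nat_lit 4) (nat_lit 62) (nat_lit 5) (nat_lit 62) (nat_lit 4) (nat_lit 484) (nat_lit 286) (nat_lit 250)))))) (XT.nd (nat_lit 624)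 (nat_lit 380) (nat_lit 0) (XT.nd (nat_lit 312) (nat_lit 304) (nat_lit 0) (XT.nd (nat_lit 156) (nat_lit 152) (nat_lit 0) (XT.nd (nat_lit 78) (nat_lit 76) (nat_lit 0) (XT.lf (nat_lit 0) (nat_lit 46304588290) (nat_lit 152) (nat_lit 64895860262) (nat_lit 0) (nat_lit 46142592234) (nat_lit 59) (nat_lit 5) (nat_lit 61) (nat_lit 4) (nat_lit 59) (nat_lit 4) (nat_lit 485) (nat_lit 286) (nat_lit 249)) (XT.lf (nat_lit 0) (nat_lit 56103250127) (nat_lit 76) (nat_lit 53119902705) (nat_lit 76) (nat_lit 52956388546) (nat_lit 58) (nat_lit 4) (nat_lit 59) (nat_lit 5) (nat_lit 59) (nat_lit 4) (nat_lit 486) (nat_lit 286) (nat_lit 248))) (XT.nd (nat_lit 78) (nat_lit 0) (nat_lit 0) (XT.lf (nat_lit 0) (nat_lit 8566887391) (nat_lit 152) (nat_lit 150235222993) (nat_lit 0) (nat_lit 8409782657) (nat_lit 56) (nat_lit 5) (nat_lit 58) (nat_lit 4) (nat_lit 56) (nat_lit 4) (nat_lit 487) (nat_lit 286) (nat_lit 247)) (XT.lf (nat_lit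 0) (nat_lit 73357504463) (nat_lit 152) (nat_lit 25797319651) (nat_lit 0) (nat_lit 73199088334) (nat_lit 56) (nat_lit 5) (nat_lit 58) (nat_lit 4) (nat_lit 56) (nat_lit 4) (nat_lit 488) (nat_lit 286) (nat_lit 246)))) (XT.nd (nat_lit 156) (nat_lit 76) (nat_lit 0) (XT.nd (nat_lit 78) (nat_lit 152) (nat_lit 0) (XT.lf (nat_lit 0) (nat_lit 106865820992) (nat_lit 76) (nat_lit 35499009014) (nat_lit 76) (nat_lit 35339343938) (nat_lit 55) (nat_lit 4) (nat_lit 56) (nat_lit 5) (nat_lit 56) (nat_lit 4) (nat_lit 489) (nat_lit 286) (nat_lit 245)) (XT.lf (nat_lit 0) (nat_lit 31752222529) (nat_lit 152) (nat_lit 119883114440) (nat_lit 0) (nat_lit 31599027721) (nat_lit 53) (nat_lit 5) (nat_lit 55) (nat_lit 4) (nat_lit 53) (nat_lit 4) (nat_lit 490) (nat_lit 286) (nat_lit 244))) (XT.nd (nat_lit 78) (nat_lit 0) (nat_lit 0) (XT.lf (nat_lit 0) (nat_lit 15630898114) (nat_lit 76) (nat_lit 86733885685) (nat_lit 76) (nat_lit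 86579611990) (nat_lit 52) (nat_lit 4) (nat_lit 53) (nat_lit 5) (nat_lit 53) (nat_lit 4) (nat_lit 491) (nat_lit 286) (nat_lit 243)) (XT.lf (nat_lit 0) (nat_lit 160688500523) (nat_lit 76) (nat_lit 17169611101) (nat_lit 76) (nat_lit 17014309894) (nat_lit 52) (nat_lit 4) (nat_lit 53) (nat_lit 5) (nat_lit 53) (nat_lit 4) (nat_lit 492) (nat_lit 286) (nat_lit 242))))) (XT.nd (nat_lit 49452) (nat_lit 0) (nat_lit 4484) (XT.nd (nat_lit 156) (nat_lit 152) (nat_lit 0) (XT.nd (nat_lit 78) (nat_lit 76) (nat_lit 0) (XT.lf (nat_lit 0) (nat_lit 56251477895) (nat_lit 152) (nat_lit 88598216616) (nat_lit 0) (nat_lit 56102639999) (nat_lit 50) (nat_lit 5) (nat_lit 52) (nat_lit 4) (nat_lit 50) (nat_lit 4) (nat_lit 493) (nat_lit 286) (nat_lit 241)) (XT.lf (nat_lit 0) (nat_lit 60102767454) (nat_lit 76) (nat_lit 73655880392) (nat_lit 76) (nat_lit 73506154893) (nat_lit 49) (nat_lit 4) (nat_lit 50) (nat_lit 5) (nat_lit 50)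 (nat_lit 4) (nat_lit 494) (nat_lit 286) (nat_lit 240))) (XT.nd (nat_lit 78) (nat_lit 0) (nat_lit 0) (XT.lf (nat_lit 0) (nat_lit 2173944984) (nat_lit 152) (nat_lit 209639149953) (nat_lit 0) (nat_lit 2030544189) (nat_lit 47) (nat_lit 5) (nat_lit 49) (nat_lit 4) (nat_lit 47) (nat_lit 4) (nat_lit 495) (nat_lit 286) (nat_lit 239)) (XT.lf (nat_lit 0) (nat_lit 82249987283) (nat_lit 152) (nat_lit 56181248048) (nat_lit 0) (nat_lit 82105819743) (nat_lit 47) (nat_lit 5) (nat_lit 49) (nat_lit 4) (nat_lit 47) (nat_lit 4) (nat_lit 496) (nat_lit 286) (nat_lit 238)))) (XT.nd (nat_lit 156) (nat_lit 228) (nat_lit 0) (XT.nd (nat_lit 78) (nat_lit 76) (nat_lit 0) (XT.lf (nat_lit 0) (nat_lit 7213483288) (nat_lit 152) (nat_lit 12511946544) (nat_lit 0) (nat_lit 7213483288) (nat_lit 110) (nat_lit 5) (nat_lit 112) (nat_lit 4) (nat_lit 110) (nat_lit 4) (nat_lit 446) (nat_lit 287) (nat_lit 287)) (XT.lf (nat_lit 0) (nat_lit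 29340056301) (nat_lit 76) (nat_lit 12947866394) (nat_lit 76) (nat_lit 12925648002) (nat_lit 109) (nat_lit 4) (nat_lit 110) (nat_lit 5) (nat_lit 110) (nat_lit 4) (nat_lit 447) (nat_lit 287) (nat_lit 286))) (XT.nd (nat_lit 78) (nat_lit 76) (nat_lit 0) (XT.lf (nat_lit 0) (nat_lit 14694302609) (nat_lit 152) (nat_lit 27244848672) (nat_lit 0) (nat_lit 14652989500) (nat_lit 107) (nat_lit 5) (nat_lit 109) (nat_lit 4) (nat_lit 107) (nat_lit 4) (nat_lit 448) (nat_lit 287) (nat_lit 285)) (XT.lf (nat_lit 0) (nat_lit 28895227291) (nat_lit 76) (nat_lit 14591514792) (nat_lit 76) (nat_lit 14531008601) (nat_lit 106) (nat_lit 4) (nat_lit 107) (nat_lit 5) (nat_lit 107) (nat_lit 4) (nat_lit 449) (nat_lit 287) (nat_lit 284))))))))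
noncomputable def xc13 : XT := (XT.nd (nat_lit 2496) (nat_lit 1292) (nat_lit 0) (XT.nd (nat_lit 1248) (nat_lit 1444) (nat_lit 0) (XT.nd (nat_lit 624) (nat_lit 836) (nat_lit 0) (XT.nd (nat_lit 312) (nat_lit 456) (nat_lit 0) (XT.nd (nat_lit 156) (nat_lit 228) (nat_lit 0) (XT.nd (nat_lit 78) (nat_lit 76) (nat_lit 0) (XT.lf (nat_lit 0) (nat_lit 13999919775) (nat_lit 152) (nat_lit 31566227866) (nat_lit 0) (nat_lit 13924886140) (nat_lit 104) (nat_lit 5) (nat_lit 106) (nat_lit 4) (nat_lit 104) (nat_lit 4) (nat_lit 450) (nat_lit 287) (nat_lit 283)) (XT.lf (nat_lit 0) (nat_lit 26372812490) (nat_lit 76) (nat_lit 17365699252) (nat_lit 76) (nat_lit 17274085910) (nat_lit 103) (nat_lit 4) (nat_lit 104) (nat_lit 5) (nat_lit 104) (nat_lit 4) (nat_lit 451) (nat_lit 287) (nat_lit 282))) (XT.nd (nat_lit 78) (nat_lit 76) (nat_lit 0) (XT.lf (nat_lit 0) (nat_lit 12196492481) (nat_lit 152) (nat_lit 38297995101) (nat_lit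 0) (nat_lit 12094203397) (nat_lit 101) (nat_lit 5) (nat_lit 103) (nat_lit 4) (nat_lit 101) (nat_lit 4) (nat_lit 452) (nat_lit 287) (nat_lit 281)) (XT.lf (nat_lit 0) (nat_lit 21457238982) (nat_lit 76) (nat_lit 21436070279) (nat_lit 76) (nat_lit 21319459022) (nat_lit 100) (nat_lit 4) (nat_lit 101) (nat_lit 5) (nat_lit 101) (nat_lit 4) (nat_lit 453) (nat_lit 287) (nat_lit 280)))) (XT.nd (nat_lit 156) (nat_lit 228) (nat_lit 0) (XT.nd (nat_lit 78) (nat_lit 76) (nat_lit 0) (XT.lf (nat_lit 0) (nat_lit 9119041194) (nat_lit 152) (nat_lit 47786488617) (nat_lit 0) (nat_lit 8994992221) (nat_lit 98) (nat_lit 5) (nat_lit 100) (nat_lit 4) (nat_lit 98) (nat_lit 4) (nat_lit 454) (nat_lit 287) (nat_lit 279)) (XT.lf (nat_lit 0) (nat_lit 13795585841) (nat_lit 76) (nat_lit 26987509275) (nat_lit 76) (nat_lit 26851088270) (nat_lit 97) (nat_lit 4) (nat_lit 98) (nat_lit 5) (nat_lit 98) (nat_lit 4) (nat_lit 455) (nat_lit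 287) (nat_lit 278))) (XT.nd (nat_lit 78) (nat_lit 76) (nat_lit 0) (XT.lf (nat_lit 0) (nat_lit 4583011927) (nat_lit 152) (nat_lit 60418396300) (nat_lit 0) (nat_lit 4441865363) (nat_lit 95) (nat_lit 5) (nat_lit 97) (nat_lit 4) (nat_lit 95) (nat_lit 4) (nat_lit 456) (nat_lit 287) (nat_lit 277)) (XT.lf (nat_lit 0) (nat_lit 2993488741) (nat_lit 76) (nat_lit 34226245001) (nat_lit 76) (nat_lit 34074411010) (nat_lit 94) (nat_lit 4) (nat_lit 95) (nat_lit 5) (nat_lit 95) (nat_lit 4) (nat_lit 457) (nat_lit 287) (nat_lit 276))))) (XT.nd (nat_lit 312) (nat_lit 456) (nat_lit 0) (XT.nd (nat_lit 156) (nat_lit 228) (nat_lit 0) (XT.nd (nat_lit 78) (nat_lit 152) (nat_lit 0) (XT.lf (nat_lit 0) (nat_lit 69894497643) (nat_lit 76) (nat_lit 1748665377) (nat_lit 76) (nat_lit 1586652885) (nat_lit 94) (nat_lit 4) (nat_lit 95) (nat_lit 5) (nat_lit 95) (nat_lit 4) (nat_lit 458) (nat_lit 287) (nat_lit 275)) (XT.lf (nat_lit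 0) (nat_lit 32170623735) (nat_lit 152) (nat_lit 11024854775) (nat_lit 0) (nat_lit 32007093923) (nat_lit 92) (nat_lit 5) (nat_lit 94) (nat_lit 4) (nat_lit 92) (nat_lit 4) (nat_lit 459) (nat_lit 287) (nat_lit 274))) (XT.nd (nat_lit 78) (nat_lit 152) (nat_lit 0) (XT.lf (nat_lit 0) (nat_lit 57989308030) (nat_lit 76) (nat_lit 9724066985) (nat_lit 76) (nat_lit 9551744601) (nat_lit 91) (nat_lit 4) (nat_lit 92) (nat_lit 5) (nat_lit 92) (nat_lit 4) (nat_lit 460) (nat_lit 287) (nat_lit 273)) (XT.lf (nat_lit 0) (nat_lit 25333127639) (nat_lit 152) (nat_lit 28889139400) (nat_lit 0) (nat_lit 25161035960) (nat_lit 89) (nat_lit 5) (nat_lit 91) (nat_lit 4) (nat_lit 89) (nat_lit 4) (nat_lit 461) (nat_lit 287) (nat_lit 272)))) (XT.nd (nat_lit 156) (nat_lit 228) (nat_lit 0) (XT.nd (nat_lit 78) (nat_lit 152) (nat_lit 0) (XT.lf (nat_lit 0) (nat_lit 42135831751) (nat_lit 76) (nat_lit 19813996127) (nat_lit 76) (nat_lit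 19634309094) (nat_lit 88) (nat_lit 4) (nat_lit 89) (nat_lit 5) (nat_lit 89) (nat_lit 4) (nat_lit 462) (nat_lit 287) (nat_lit 271)) (XT.lf (nat_lit 0) (nat_lit 16406542135) (nat_lit 152) (nat_lit 51225447196) (nat_lit 0) (nat_lit 16228522417) (nat_lit 86) (nat_lit 5) (nat_lit 88) (nat_lit 4) (nat_lit 86) (nat_lit 4) (nat_lit 463) (nat_lit 287) (nat_lit 270))) (XT.nd (nat_lit 78) (nat_lit 152) (nat_lit 0) (XT.lf (nat_lit 0) (nat_lit 21792465642) (nat_lit 76) (nat_lit 32300772310) (nat_lit 76) (nat_lit 32116191439) (nat_lit 85) (nat_lit 4) (nat_lit 86) (nat_lit 5) (nat_lit 86) (nat_lit 4) (nat_lit 464) (nat_lit 287) (nat_lit 269)) (XT.lf (nat_lit 0) (nat_lit 5107526194) (nat_lit 152) (nat_lit 78624653141) (nat_lit 0) (nat_lit 4925783730) (nat_lit 83) (nat_lit 5) (nat_lit 85) (nat_lit 4) (nat_lit 83) (nat_lit 4) (nat_lit 465) (nat_lit 287) (nat_lit 268)))))) (XT.nd (nat_lit 624) (nat_lit 760) (nat_lit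 0) (XT.nd (nat_lit 312) (nat_lit 380) (nat_lit 0) (XT.nd (nat_lit 156) (nat_lit 228) (nat_lit 0) (XT.nd (nat_lit 78) (nat_lit 76) (nat_lit 0) (XT.lf (nat_lit 0) (nat_lit 43911036835) (nat_lit 152) (nat_lit 3528039153) (nat_lit 0) (nat_lit 43723626600) (nat_lit 83) (nat_lit 5) (nat_lit 85) (nat_lit 4) (nat_lit 83) (nat_lit 4) (nat_lit 466) (nat_lit 287) (nat_lit 267)) (XT.lf (nat_lit 0) (nat_lit 76119444839) (nat_lit 76) (nat_lit 8923320130) (nat_lit 76) (nat_lit 8730512019) (nat_lit 82) (nat_lit 4) (nat_lit 83) (nat_lit 5) (nat_lit 83) (nat_lit 4) (nat_lit 467) (nat_lit 287) (nat_lit 266))) (XT.nd (nat_lit 78) (nat_lit 76) (nat_lit 0) (XT.lf (nat_lit 0) (nat_lit 31453668039) (nat_lit 152) (nat_lit 33733202454) (nat_lit 0) (nat_lit 31265145233) (nat_lit 80) (nat_lit 5) (nat_lit 82) (nat_lit 4) (nat_lit 80) (nat_lit 4) (nat_lit 468) (nat_lit 287) (nat_lit 265)) (XT.lf (nat_lit 0) (nat_lit 48077436438)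 (nat_lit 76) (nat_lit 25676631907) (nat_lit 76) (nat_lit 25483446213) (nat_lit 79) (nat_lit 4) (nat_lit 80) (nat_lit 5) (nat_lit 80) (nat_lit 4) (nat_lit 469) (nat_lit 287) (nat_lit 264)))) (XT.nd (nat_lit 156) (nat_lit 152) (nat_lit 0) (XT.nd (nat_lit 78) (nat_lit 76) (nat_lit 0) (XT.lf (nat_lit 0) (nat_lit 16032592410) (nat_lit 152) (nat_lit 70245937280) (nat_lit 0) (nat_lit 15844376657) (nat_lit 77) (nat_lit 5) (nat_lit 79) (nat_lit 4) (nat_lit 77) (nat_lit 4) (nat_lit 470) (nat_lit 287) (nat_lit 263)) (XT.lf (nat_lit 0) (nat_lit 13677347070) (nat_lit 76) (nat_lit 45805419544) (nat_lit 76) (nat_lit 45613175813) (nat_lit 76) (nat_lit 4) (nat_lit 77) (nat_lit 5) (nat_lit 77) (nat_lit 4) (nat_lit 471) (nat_lit 287) (nat_lit 262))) (XT.nd (nat_lit 78) (nat_lit 152) (nat_lit 0) (XT.lf (nat_lit 0) (nat_lit 102621728139) (nat_lit 76) (nat_lit 2885935680) (nat_lit 76) (nat_lit 2689855778) (nat_lit 76)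 (nat_lit 4) (nat_lit 77) (nat_lit 5) (nat_lit 77) (nat_lit 4) (nat_lit 472) (nat_lit 287) (nat_lit 261)) (XT.lf (nat_lit 0) (nat_lit 42267642166) (nat_lit 152) (nat_lit 27013809099) (nat_lit 0) (nat_lit 42077419883) (nat_lit 74) (nat_lit 5) (nat_lit 76) (nat_lit 4) (nat_lit 74) (nat_lit 4) (nat_lit 473) (nat_lit 287) (nat_lit 260))))) (XT.nd (nat_lit 312) (nat_lit 456) (nat_lit 0) (XT.nd (nat_lit 156) (nat_lit 76) (nat_lit 0) (XT.nd (nat_lit 78) (nat_lit 152) (nat_lit 0) (XT.lf (nat_lit 0) (nat_lit 64697526578) (nat_lit 76) (nat_lit 25076268093) (nat_lit 76) (nat_lit 24882731982) (nat_lit 73) (nat_lit 4) (nat_lit 74) (nat_lit 5) (nat_lit 74) (nat_lit 4) (nat_lit 474) (nat_lit 287) (nat_lit 259)) (XT.lf (nat_lit 0) (nat_lit 21570862310) (nat_lit 152) (nat_lit 75111655894) (nat_lit 0) (nat_lit 21383536465) (nat_lit 71) (nat_lit 5) (nat_lit 73) (nat_lit 4) (nat_lit 71) (nat_lit 4) (nat_lit 475) (nat_lit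 287) (nat_lit 258))) (XT.nd (nat_lit 78) (nat_lit 0) (nat_lit 0) (XT.lf (nat_lit 0) (nat_lit 18852475608) (nat_lit 76) (nat_lit 51461608848) (nat_lit 76) (nat_lit 51271420394) (nat_lit 70) (nat_lit 4) (nat_lit 71) (nat_lit 5) (nat_lit 71) (nat_lit 4) (nat_lit 476) (nat_lit 287) (nat_lit 257)) (XT.lf (nat_lit 0) (nat_lit 118585490657) (nat_lit 76) (nat_lit 3431122187) (nat_lit 76) (nat_lit 3238207438) (nat_lit 70) (nat_lit 4) (nat_lit 71) (nat_lit 5) (nat_lit 71) (nat_lit 4) (nat_lit 477) (nat_lit 287) (nat_lit 256)))) (XT.nd (nat_lit 156) (nat_lit 228) (nat_lit 0) (XT.nd (nat_lit 78) (nat_lit 76) (nat_lit 0) (XT.lf (nat_lit 0) (nat_lit 47201923761) (nat_lit 152) (nat_lit 34777319233) (nat_lit 0) (nat_lit 47015722599) (nat_lit 68) (nat_lit 5) (nat_lit 70) (nat_lit 4) (nat_lit 68) (nat_lit 4) (nat_lit 478) (nat_lit 287) (nat_lit 255)) (XT.lf (nat_lit 0) (nat_lit 68042806282) (nat_lit 76) (nat_lit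 32519919691) (nat_lit 76) (nat_lit 32331363454) (nat_lit 67) (nat_lit 4) (nat_lit 68) (nat_lit 5) (nat_lit 68) (nat_lit 4) (nat_lit 479) (nat_lit 287) (nat_lit 254))) (XT.nd (nat_lit 78) (nat_lit 76) (nat_lit 0) (XT.lf (nat_lit 0) (nat_lit 19785028372) (nat_lit 152) (nat_lit 97544069965) (nat_lit 0) (nat_lit 19603314880) (nat_lit 65) (nat_lit 5) (nat_lit 67) (nat_lit 4) (nat_lit 65) (nat_lit 4) (nat_lit 480) (nat_lit 287) (nat_lit 253)) (XT.lf (nat_lit 0) (nat_lit 7649535886) (nat_lit 76) (nat_lit 66814108289) (nat_lit 76) (nat_lit 66630360394) (nat_lit 64) (nat_lit 4) (nat_lit 65) (nat_lit 5) (nat_lit 65) (nat_lit 4) (nat_lit 481) (nat_lit 287) (nat_lit 252))))))) (XT.nd (nat_lit 50232) (nat_lit 0) (nat_lit 3344) (XT.nd (nat_lit 624) (nat_lit 608) (nat_lit 0) (XT.nd (nat_lit 312) (nat_lit 304) (nat_lit 0) (XT.nd (nat_lit 156) (nat_lit 228) (nat_lit 0) (XT.nd (nat_lit 78) (nat_lit 152) (nat_lit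 0) (XT.lf (nat_lit 0) (nat_lit 120025470796) (nat_lit 76) (nat_lit 12788500542) (nat_lit 76) (nat_lit 12602815121) (nat_lit 64) (nat_lit 4) (nat_lit 65) (nat_lit 5) (nat_lit 65) (nat_lit 4) (nat_lit 482) (nat_lit 287) (nat_lit 251)) (XT.lf (nat_lit 0) (nat_lit 44117600824) (nat_lit 152) (nat_lit 61794469618) (nat_lit 0) (nat_lit 43939000172) (nat_lit 62) (nat_lit 5) (nat_lit 64) (nat_lit 4) (nat_lit 62) (nat_lit 4) (nat_lit 483) (nat_lit 287) (nat_lit 250))) (XT.nd (nat_lit 78) (nat_lit 152) (nat_lit 0) (XT.lf (nat_lit 0) (nat_lit 53443068580) (nat_lit 76) (nat_lit 50597227399) (nat_lit 76) (nat_lit 50416953038) (nat_lit 61) (nat_lit 4) (nat_lit 62) (nat_lit 5) (nat_lit 62) (nat_lit 4) (nat_lit 484) (nat_lit 287) (nat_lit 249)) (XT.lf (nat_lit 0) (nat_lit 8176215430) (nat_lit 152) (nat_lit 143070721229) (nat_lit 0) (nat_lit 8003007461) (nat_lit 59) (nat_lit 5) (nat_lit 61) (nat_lit 4) (nat_lit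 59) (nat_lit 4) (nat_lit 485) (nat_lit 287) (nat_lit 248)))) (XT.nd (nat_lit 156) (nat_lit 228) (nat_lit 0) (XT.nd (nat_lit 78) (nat_lit 76) (nat_lit 0) (XT.lf (nat_lit 0) (nat_lit 69881629568) (nat_lit 152) (nat_lit 24558496878) (nat_lit 0) (nat_lit 69706975786) (nat_lit 59) (nat_lit 5) (nat_lit 61) (nat_lit 4) (nat_lit 59) (nat_lit 4) (nat_lit 486) (nat_lit 287) (nat_lit 247)) (XT.lf (nat_lit 0) (nat_lit 101787631024) (nat_lit 76) (nat_lit 33815488850) (nat_lit 76) (nat_lit 33639458104) (nat_lit 58) (nat_lit 4) (nat_lit 59) (nat_lit 5) (nat_lit 59) (nat_lit 4) (nat_lit 487) (nat_lit 287) (nat_lit 246))) (XT.nd (nat_lit 78) (nat_lit 76) (nat_lit 0) (XT.lf (nat_lit 0) (nat_lit 30256840143) (nat_lit 152) (nat_lit 114164624264) (nat_lit 0) (nat_lit 30087942867) (nat_lit 56) (nat_lit 5) (nat_lit 58) (nat_lit 4) (nat_lit 56) (nat_lit 4) (nat_lit 488) (nat_lit 287) (nat_lit 245)) (XT.lf (nat_lit 0)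 (nat_lit 14896608269) (nat_lit 76) (nat_lit 82610500059) (nat_lit 76) (nat_lit 82440413310) (nat_lit 55) (nat_lit 4) (nat_lit 56) (nat_lit 5) (nat_lit 56) (nat_lit 4) (nat_lit 489) (nat_lit 287) (nat_lit 244))))) (XT.nd (nat_lit 312) (nat_lit 228) (nat_lit 0) (XT.nd (nat_lit 156) (nat_lit 228) (nat_lit 0) (XT.nd (nat_lit 78) (nat_lit 152) (nat_lit 0) (XT.lf (nat_lit 0) (nat_lit 153046653556) (nat_lit 76) (nat_lit 16358911983) (nat_lit 76) (nat_lit 16187692401) (nat_lit 55) (nat_lit 4) (nat_lit 56) (nat_lit 5) (nat_lit 56) (nat_lit 4) (nat_lit 490) (nat_lit 287) (nat_lit 243)) (XT.lf (nat_lit 0) (nat_lit 53588817092) (nat_lit 152) (nat_lit 84370093349) (nat_lit 0) (nat_lit 53424723312) (nat_lit 53) (nat_lit 5) (nat_lit 55) (nat_lit 4) (nat_lit 53) (nat_lit 4) (nat_lit 491) (nat_lit 287) (nat_lit 242))) (XT.nd (nat_lit 78) (nat_lit 152) (nat_lit 0) (XT.lf (nat_lit 0) (nat_lit 57250149238) (nat_lit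 76) (nat_lit 70155210922) (nat_lit 76) (nat_lit 69990138560) (nat_lit 52) (nat_lit 4) (nat_lit 53) (nat_lit 5) (nat_lit 53) (nat_lit 4) (nat_lit 492) (nat_lit 287) (nat_lit 241)) (XT.lf (nat_lit 0) (nat_lit 2085725028) (nat_lit 152) (nat_lit 199647690168) (nat_lit 0) (nat_lit 1927625652) (nat_lit 50) (nat_lit 5) (nat_lit 52) (nat_lit 4) (nat_lit 50) (nat_lit 4) (nat_lit 493) (nat_lit 287) (nat_lit 240)))) (XT.nd (nat_lit 156) (nat_lit 152) (nat_lit 0) (XT.nd (nat_lit 78) (nat_lit 76) (nat_lit 0) (XT.lf (nat_lit 0) (nat_lit 78348660195) (nat_lit 152) (nat_lit 53497345140) (nat_lit 0) (nat_lit 78189715482) (nat_lit 50) (nat_lit 5) (nat_lit 52) (nat_lit 4) (nat_lit 50) (nat_lit 4) (nat_lit 494) (nat_lit 287) (nat_lit 239)) (XT.lf (nat_lit 0) (nat_lit 102001094872) (nat_lit 76) (nat_lit 57419010765) (nat_lit 76) (nat_lit 57259260970) (nat_lit 49) (nat_lit 4) (nat_lit 50) (nat_lit 5) (nat_lit 50) (nat_lit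 4) (nat_lit 495) (nat_lit 287) (nat_lit 238))) (XT.nd (nat_lit 49062) (nat_lit 0) (nat_lit 5016) (XT.lf (nat_lit 0) (nat_lit 21567131667) (nat_lit 152) (nat_lit 180590206172) (nat_lit 0) (nat_lit 21414258772) (nat_lit 47) (nat_lit 5) (nat_lit 49) (nat_lit 4) (nat_lit 47) (nat_lit 4) (nat_lit 496) (nat_lit 287) (nat_lit 237)) (XT.lf (nat_lit 0) (nat_lit 6882040748) (nat_lit 152) (nat_lit 11893174490) (nat_lit 0) (nat_lit 6882040748) (nat_lit 113) (nat_lit 5) (nat_lit 115) (nat_lit 4) (nat_lit 113) (nat_lit 4) (nat_lit 444) (nat_lit 288) (nat_lit 288)))))) (XT.nd (nat_lit 624) (nat_lit 760) (nat_lit 0) (XT.nd (nat_lit 312) (nat_lit 456) (nat_lit 0) (XT.nd (nat_lit 156) (nat_lit 228) (nat_lit 0) (XT.nd (nat_lit 78) (nat_lit 152) (nat_lit 0) (XT.lf (nat_lit 0) (nat_lit 27989229838) (nat_lit 76) (nat_lit 12310912327) (nat_lit 76) (nat_lit 12286416550) (nat_lit 112) (nat_lit 4) (nat_lit 113) (nat_lit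 5) (nat_lit 113) (nat_lit 4) (nat_lit 445) (nat_lit 288) (nat_lit 287)) (XT.lf (nat_lit 0) (nat_lit 14019572394) (nat_lit 152) (nat_lit 25905765330) (nat_lit 0) (nat_lit 13974024691) (nat_lit 110) (nat_lit 5) (nat_lit 112) (nat_lit 4) (nat_lit 110) (nat_lit 4) (nat_lit 446) (nat_lit 288) (nat_lit 286))) (XT.nd (nat_lit 78) (nat_lit 152) (nat_lit 0) (XT.lf (nat_lit 0) (nat_lit 27561376883) (nat_lit 76) (nat_lit 13881168608) (nat_lit 76) (nat_lit 13814460531) (nat_lit 109) (nat_lit 4) (nat_lit 110) (nat_lit 5) (nat_lit 110) (nat_lit 4) (nat_lit 447) (nat_lit 288) (nat_lit 285)) (XT.lf (nat_lit 0) (nat_lit 13358821537) (nat_lit 152) (nat_lit 30025107265) (nat_lit 0) (nat_lit 13276096953) (nat_lit 107) (nat_lit 5) (nat_lit 109) (nat_lit 4) (nat_lit 107) (nat_lit 4) (nat_lit 448) (nat_lit 288) (nat_lit 284)))) (XT.nd (nat_lit 156) (nat_lit 228) (nat_lit 0) (XT.nd (nat_lit 78) (nat_lit 152) (nat_lit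 0) (XT.lf (nat_lit 0) (nat_lit 25155343502) (nat_lit 76) (nat_lit 16527361824) (nat_lit 76) (nat_lit 16426358115) (nat_lit 106) (nat_lit 4) (nat_lit 107) (nat_lit 5) (nat_lit 107) (nat_lit 4) (nat_lit 449) (nat_lit 288) (nat_lit 283)) (XT.lf (nat_lit 0) (nat_lit 11641571728) (nat_lit 152) (nat_lit 36439639461) (nat_lit 0) (nat_lit 11528798013) (nat_lit 104) (nat_lit 5) (nat_lit 106) (nat_lit 4) (nat_lit 104) (nat_lit 4) (nat_lit 450) (nat_lit 288) (nat_lit 282))) (XT.nd (nat_lit 78) (nat_lit 152) (nat_lit 0) (XT.lf (nat_lit 0) (nat_lit 20470524456) (nat_lit 76) (nat_lit 20407363166) (nat_lit 76) (nat_lit 20278799255) (nat_lit 103) (nat_lit 4) (nat_lit 104) (nat_lit 5) (nat_lit 104) (nat_lit 4) (nat_lit 451) (nat_lit 288) (nat_lit 281)) (XT.lf (nat_lit 0) (nat_lit 8710744844) (nat_lit 152) (nat_lit 45479260303) (nat_lit 0) (nat_lit 8573980850) (nat_lit 101) (nat_lit 5) (nat_lit 103) (nat_lit 4)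 (nat_lit 101) (nat_lit 4) (nat_lit 452) (nat_lit 288) (nat_lit 280))))) (XT.nd (nat_lit 312) (nat_lit 456) (nat_lit 0) (XT.nd (nat_lit 156) (nat_lit 76) (nat_lit 0) (XT.nd (nat_lit 78) (nat_lit 152) (nat_lit 0) (XT.lf (nat_lit 0) (nat_lit 13170752866) (nat_lit 76) (nat_lit 25697343918) (nat_lit 76) (nat_lit 25546939759) (nat_lit 100) (nat_lit 4) (nat_lit 101) (nat_lit 5) (nat_lit 101) (nat_lit 4) (nat_lit 453) (nat_lit 288) (nat_lit 279)) (XT.lf (nat_lit 0) (nat_lit 4390613832) (nat_lit 152) (nat_lit 57512289478) (nat_lit 0) (nat_lit 4234999744) (nat_lit 98) (nat_lit 5) (nat_lit 100) (nat_lit 4) (nat_lit 98) (nat_lit 4) (nat_lit 454) (nat_lit 288) (nat_lit 278))) (XT.nd (nat_lit 78) (nat_lit 0) (nat_lit 0) (XT.lf (nat_lit 0) (nat_lit 2880398773) (nat_lit 76) (nat_lit 32593793200) (nat_lit 76) (nat_lit 32426396225) (nat_lit 97) (nat_lit 4) (nat_lit 98) (nat_lit 5) (nat_lit 98) (nat_lit 4) (nat_lit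 455) (nat_lit 288) (nat_lit 277)) (XT.lf (nat_lit 0) (nat_lit 66595127802) (nat_lit 76) (nat_lit 1663775429) (nat_lit 76) (nat_lit 1485156657) (nat_lit 97) (nat_lit 4) (nat_lit 98) (nat_lit 5) (nat_lit 98) (nat_lit 4) (nat_lit 456) (nat_lit 288) (nat_lit 276)))) (XT.nd (nat_lit 156) (nat_lit 228) (nat_lit 0) (XT.nd (nat_lit 78) (nat_lit 76) (nat_lit 0) (XT.lf (nat_lit 0) (nat_lit 30664731842) (nat_lit 152) (nat_lit 10473636737) (nat_lit 0) (nat_lit 30484440224) (nat_lit 95) (nat_lit 5) (nat_lit 97) (nat_lit 4) (nat_lit 95) (nat_lit 4) (nat_lit 457) (nat_lit 288) (nat_lit 275)) (XT.lf (nat_lit 0) (nat_lit 55254557404) (nat_lit 76) (nat_lit 9261262520) (nat_lit 76) (nat_lit 9071277091) (nat_lit 94) (nat_lit 4) (nat_lit 95) (nat_lit 5) (nat_lit 95) (nat_lit 4) (nat_lit 458) (nat_lit 288) (nat_lit 274))) (XT.nd (nat_lit 78) (nat_lit 76) (nat_lit 0) (XT.lf (nat_lit 0) (nat_lit 24152395363) (nat_lit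 152) (nat_lit 27489294637) (nat_lit 0) (nat_lit 23962664287) (nat_lit 92) (nat_lit 5) (nat_lit 94) (nat_lit 4) (nat_lit 92) (nat_lit 4) (nat_lit 459) (nat_lit 288) (nat_lit 273)) (XT.lf (nat_lit 0) (nat_lit 40153948049) (nat_lit 76) (nat_lit 18872252831) (nat_lit 76) (nat_lit 18674147877) (nat_lit 91) (nat_lit 4) (nat_lit 92) (nat_lit 5) (nat_lit 92) (nat_lit 4) (nat_lit 460) (nat_lit 288) (nat_lit 272))))))))
noncomputable def xc14 : XT := (XT.nd (nat_lit 1248) (nat_lit 1368) (nat_lit 0) (XT.nd (nat_lit 624) (nat_lit 684) (nat_lit 0) (XT.nd (nat_lit 312) (nat_lit 456) (nat_lit 0) (XT.nd (nat_lit 156) (nat_lit 152) (nat_lit 0) (XT.nd (nat_lit 78) (nat_lit 76) (nat_lit 0) (XT.lf (nat_lit 0) (nat_lit 15650361091) (nat_lit 152) (nat_lit 48763814869) (nat_lit 0) (nat_lit 15454094352) (nat_lit 89) (nat_lit 5) (nat_lit 91) (nat_lit 4) (nat_lit 89) (nat_lit 4) (nat_lit 461) (nat_lit 288) (nat_lit 271))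 (XT.lf (nat_lit 0) (nat_lit 20777459062) (nat_lit 76) (nat_lit 30765671095) (nat_lit 76) (nat_lit 30562170685) (nat_lit 88) (nat_lit 4) (nat_lit 89) (nat_lit 5) (nat_lit 89) (nat_lit 4) (nat_lit 462) (nat_lit 288) (nat_lit 270))) (XT.nd (nat_lit 78) (nat_lit 0) (nat_lit 0) (XT.lf (nat_lit 0) (nat_lit 4888799575) (nat_lit 152) (nat_lit 74859960302) (nat_lit 0) (nat_lit 4688428509) (nat_lit 86) (nat_lit 5) (nat_lit 88) (nat_lit 4) (nat_lit 86) (nat_lit 4) (nat_lit 463) (nat_lit 288) (nat_lit 269)) (XT.lf (nat_lit 0) (nat_lit 41844802959) (nat_lit 152) (nat_lit 3339654515) (nat_lit 0) (nat_lit 41638183176) (nat_lit 86) (nat_lit 5) (nat_lit 88) (nat_lit 4) (nat_lit 86) (nat_lit 4) (nat_lit 464) (nat_lit 288) (nat_lit 268)))) (XT.nd (nat_lit 156) (nat_lit 228) (nat_lit 0) (XT.nd (nat_lit 78) (nat_lit 152) (nat_lit 0) (XT.lf (nat_lit 0) (nat_lit 72515491625) (nat_lit 76) (nat_lit 8502975897) (nat_lit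 76) (nat_lit 8290404955) (nat_lit 85) (nat_lit 4) (nat_lit 86) (nat_lit 5) (nat_lit 86) (nat_lit 4) (nat_lit 465) (nat_lit 288) (nat_lit 267)) (XT.lf (nat_lit 0) (nat_lit 29979956787) (nat_lit 152) (nat_lit 32107941324) (nat_lit 0) (nat_lit 29772110393) (nat_lit 83) (nat_lit 5) (nat_lit 85) (nat_lit 4) (nat_lit 83) (nat_lit 4) (nat_lit 466) (nat_lit 288) (nat_lit 266))) (XT.nd (nat_lit 78) (nat_lit 152) (nat_lit 0) (XT.lf (nat_lit 0) (nat_lit 45807341287) (nat_lit 76) (nat_lit 24459241965) (nat_lit 76) (nat_lit 24246254737) (nat_lit 82) (nat_lit 4) (nat_lit 83) (nat_lit 5) (nat_lit 83) (nat_lit 4) (nat_lit 467) (nat_lit 288) (nat_lit 265)) (XT.lf (nat_lit 0) (nat_lit 15292498052) (nat_lit 152) (nat_lit 66883302099) (nat_lit 0) (nat_lit 15084990184) (nat_lit 80) (nat_lit 5) (nat_lit 82) (nat_lit 4) (nat_lit 80) (nat_lit 4) (nat_lit 468) (nat_lit 288) (nat_lit 264))))) (XT.nd (nat_lit 312) (nat_lit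 380) (nat_lit 0) (XT.nd (nat_lit 156) (nat_lit 228) (nat_lit 0) (XT.nd (nat_lit 78) (nat_lit 0) (nat_lit 0) (XT.lf (nat_lit 0) (nat_lit 13044012190) (nat_lit 76) (nat_lit 43630082926) (nat_lit 76) (nat_lit 43418134212) (nat_lit 79) (nat_lit 4) (nat_lit 80) (nat_lit 5) (nat_lit 80) (nat_lit 4) (nat_lit 469) (nat_lit 288) (nat_lit 263)) (XT.lf (nat_lit 0) (nat_lit 97752751485) (nat_lit 76) (nat_lit 2754764833) (nat_lit 76) (nat_lit 2538586741) (nat_lit 79) (nat_lit 4) (nat_lit 80) (nat_lit 5) (nat_lit 80) (nat_lit 4) (nat_lit 470) (nat_lit 288) (nat_lit 262))) (XT.nd (nat_lit 78) (nat_lit 76) (nat_lit 0) (XT.lf (nat_lit 0) (nat_lit 40277687123) (nat_lit 152) (nat_lit 25711224230) (nat_lit 0) (nat_lit 40067967057) (nat_lit 77) (nat_lit 5) (nat_lit 79) (nat_lit 4) (nat_lit 77) (nat_lit 4) (nat_lit 471) (nat_lit 288) (nat_lit 261)) (XT.lf (nat_lit 0) (nat_lit 61633272565) (nat_lit 76) (nat_lit 23888791300)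 (nat_lit 76) (nat_lit 23675417738) (nat_lit 76) (nat_lit 4) (nat_lit 77) (nat_lit 5) (nat_lit 77) (nat_lit 4) (nat_lit 472) (nat_lit 288) (nat_lit 260)))) (XT.nd (nat_lit 156) (nat_lit 152) (nat_lit 0) (XT.nd (nat_lit 78) (nat_lit 76) (nat_lit 0) (XT.lf (nat_lit 0) (nat_lit 20565686262) (nat_lit 152) (nat_lit 71519772694) (nat_lit 0) (nat_lit 20359159518) (nat_lit 74) (nat_lit 5) (nat_lit 76) (nat_lit 4) (nat_lit 74) (nat_lit 4) (nat_lit 473) (nat_lit 288) (nat_lit 259)) (XT.lf (nat_lit 0) (nat_lit 17970231322) (nat_lit 76) (nat_lit 49017954049) (nat_lit 76) (nat_lit 48808271279) (nat_lit 73) (nat_lit 4) (nat_lit 74) (nat_lit 5) (nat_lit 74) (nat_lit 4) (nat_lit 474) (nat_lit 288) (nat_lit 258))) (XT.nd (nat_lit 78) (nat_lit 152) (nat_lit 0) (XT.lf (nat_lit 0) (nat_lit 112953916555) (nat_lit 76) (nat_lit 3274904065) (nat_lit 76) (nat_lit 3062215555) (nat_lit 73) (nat_lit 4) (nat_lit 74) (nat_lit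 5) (nat_lit 74) (nat_lit 4) (nat_lit 475) (nat_lit 288) (nat_lit 257)) (XT.lf (nat_lit 0) (nat_lit 44975556677) (nat_lit 152) (nat_lit 33107223267) (nat_lit 0) (nat_lit 44770269897) (nat_lit 71) (nat_lit 5) (nat_lit 73) (nat_lit 4) (nat_lit 71) (nat_lit 4) (nat_lit 476) (nat_lit 288) (nat_lit 256)))))) (XT.nd (nat_lit 624) (nat_lit 684) (nat_lit 0) (XT.nd (nat_lit 312) (nat_lit 380) (nat_lit 0) (XT.nd (nat_lit 156) (nat_lit 76) (nat_lit 0) (XT.nd (nat_lit 78) (nat_lit 152) (nat_lit 0) (XT.lf (nat_lit 0) (nat_lit 64817050046) (nat_lit 76) (nat_lit 30978658649) (nat_lit 76) (nat_lit 30770775397) (nat_lit 70) (nat_lit 4) (nat_lit 71) (nat_lit 5) (nat_lit 71) (nat_lit 4) (nat_lit 477) (nat_lit 288) (nat_lit 255)) (XT.lf (nat_lit 0) (nat_lit 18863426909) (nat_lit 152) (nat_lit 92885964886) (nat_lit 0) (nat_lit 18663087784) (nat_lit 68) (nat_lit 5) (nat_lit 70) (nat_lit 4) (nat_lit 68) (nat_lit 4) (nat_lit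 478) (nat_lit 288) (nat_lit 254))) (XT.nd (nat_lit 78) (nat_lit 0) (nat_lit 0) (XT.lf (nat_lit 0) (nat_lit 7298752973) (nat_lit 76) (nat_lit 63639856733) (nat_lit 76) (nat_lit 63437274679) (nat_lit 67) (nat_lit 4) (nat_lit 68) (nat_lit 5) (nat_lit 68) (nat_lit 4) (nat_lit 479) (nat_lit 288) (nat_lit 253)) (XT.lf (nat_lit 0) (nat_lit 114323354370) (nat_lit 76) (nat_lit 12187089317) (nat_lit 76) (nat_lit 11982371140) (nat_lit 67) (nat_lit 4) (nat_lit 68) (nat_lit 5) (nat_lit 68) (nat_lit 4) (nat_lit 480) (nat_lit 288) (nat_lit 252)))) (XT.nd (nat_lit 156) (nat_lit 152) (nat_lit 0) (XT.nd (nat_lit 78) (nat_lit 76) (nat_lit 0) (XT.lf (nat_lit 0) (nat_lit 42036599893) (nat_lit 152) (nat_lit 58839625305) (nat_lit 0) (nat_lit 41839692674) (nat_lit 65) (nat_lit 5) (nat_lit 67) (nat_lit 4) (nat_lit 65) (nat_lit 4) (nat_lit 481) (nat_lit 288) (nat_lit 251)) (XT.lf (nat_lit 0) (nat_lit 50910731029) (nat_lit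 76) (nat_lit 48195380984) (nat_lit 76) (nat_lit 47996628502) (nat_lit 64) (nat_lit 4) (nat_lit 65) (nat_lit 5) (nat_lit 65) (nat_lit 4) (nat_lit 482) (nat_lit 288) (nat_lit 250))) (XT.nd (nat_lit 78) (nat_lit 0) (nat_lit 0) (XT.lf (nat_lit 0) (nat_lit 7805917590) (nat_lit 152) (nat_lit 136246315755) (nat_lit 0) (nat_lit 7614955803) (nat_lit 62) (nat_lit 5) (nat_lit 64) (nat_lit 4) (nat_lit 62) (nat_lit 4) (nat_lit 483) (nat_lit 288) (nat_lit 249)) (XT.lf (nat_lit 0) (nat_lit 66573049835) (nat_lit 152) (nat_lit 23377601821) (nat_lit 0) (nat_lit 66380494041) (nat_lit 62) (nat_lit 5) (nat_lit 64) (nat_lit 4) (nat_lit 62) (nat_lit 4) (nat_lit 484) (nat_lit 288) (nat_lit 248))))) (XT.nd (nat_lit 312) (nat_lit 380) (nat_lit 0) (XT.nd (nat_lit 156) (nat_lit 76) (nat_lit 0) (XT.nd (nat_lit 78) (nat_lit 152) (nat_lit 0) (XT.lf (nat_lit 0) (nat_lit 96952352138) (nat_lit 76) (nat_lit 32212844468) (nat_lit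 76) (nat_lit 32018770571) (nat_lit 61) (nat_lit 4) (nat_lit 62) (nat_lit 5) (nat_lit 62) (nat_lit 4) (nat_lit 485) (nat_lit 288) (nat_lit 247)) (XT.lf (nat_lit 0) (nat_lit 28834370834) (nat_lit 152) (nat_lit 108717441674) (nat_lit 0) (nat_lit 28648161587) (nat_lit 59) (nat_lit 5) (nat_lit 61) (nat_lit 4) (nat_lit 59) (nat_lit 4) (nat_lit 486) (nat_lit 288) (nat_lit 246))) (XT.nd (nat_lit 78) (nat_lit 0) (nat_lit 0) (XT.lf (nat_lit 0) (nat_lit 14198313568) (nat_lit 76) (nat_lit 78684163069) (nat_lit 76) (nat_lit 78496642428) (nat_lit 58) (nat_lit 4) (nat_lit 59) (nat_lit 5) (nat_lit 59) (nat_lit 4) (nat_lit 487) (nat_lit 288) (nat_lit 245)) (XT.lf (nat_lit 0) (nat_lit 145769727669) (nat_lit 76) (nat_lit 15587524979) (nat_lit 76) (nat_lit 15398755390) (nat_lit 58) (nat_lit 4) (nat_lit 59) (nat_lit 5) (nat_lit 59) (nat_lit 4) (nat_lit 488) (nat_lit 288) (nat_lit 244)))) (XT.nd (nat_lit 156) (nat_lit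 152) (nat_lit 0) (XT.nd (nat_lit 78) (nat_lit 76) (nat_lit 0) (XT.lf (nat_lit 0) (nat_lit 51054587713) (nat_lit 152) (nat_lit 80342370327) (nat_lit 0) (nat_lit 50873674321) (nat_lit 56) (nat_lit 5) (nat_lit 58) (nat_lit 4) (nat_lit 56) (nat_lit 4) (nat_lit 489) (nat_lit 288) (nat_lit 243)) (XT.lf (nat_lit 0) (nat_lit 54534335363) (nat_lit 76) (nat_lit 66821932222) (nat_lit 76) (nat_lit 66639939943) (nat_lit 55) (nat_lit 4) (nat_lit 56) (nat_lit 5) (nat_lit 56) (nat_lit 4) (nat_lit 490) (nat_lit 288) (nat_lit 242))) (XT.nd (nat_lit 78) (nat_lit 0) (nat_lit 0) (XT.lf (nat_lit 0) (nat_lit 2003274399) (nat_lit 152) (nat_lit 190131128262) (nat_lit 0) (nat_lit 1828969836) (nat_lit 53) (nat_lit 5) (nat_lit 55) (nat_lit 4) (nat_lit 53) (nat_lit 4) (nat_lit 491) (nat_lit 288) (nat_lit 241)) (XT.lf (nat_lit 0) (nat_lit 74634682831) (nat_lit 152) (nat_lit 50940365080) (nat_lit 0) (nat_lit 74459446285) (nat_lit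 53) (nat_lit 5) (nat_lit 55) (nat_lit 4) (nat_lit 53) (nat_lit 4) (nat_lit 492) (nat_lit 288) (nat_lit 240)))))))
noncomputable def xc15 : XT := (XT.nd (nat_lit 50076) (nat_lit 0) (nat_lit 2280) (XT.nd (nat_lit 49452) (nat_lit 0) (nat_lit 3876) (XT.nd (nat_lit 49140) (nat_lit 0) (nat_lit 4788) (XT.nd (nat_lit 156) (nat_lit 76) (nat_lit 0) (XT.nd (nat_lit 78) (nat_lit 152) (nat_lit 0) (XT.lf (nat_lit 0) (nat_lit 97153660073) (nat_lit 76) (nat_lit 54692115189) (nat_lit 76) (nat_lit 54515991039) (nat_lit 52) (nat_lit 4) (nat_lit 53) (nat_lit 5) (nat_lit 53) (nat_lit 4) (nat_lit 493) (nat_lit 288) (nat_lit 239)) (XT.lf (nat_lit 0) (nat_lit 20556304999) (nat_lit 152) (nat_lit 171981710574) (nat_lit 0) (nat_lit 20387762631) (nat_lit 50) (nat_lit 5) (nat_lit 52) (nat_lit 4) (nat_lit 50) (nat_lit 4) (nat_lit 494) (nat_lit 288) (nat_lit 238))) (XT.nd (nat_lit 78) (nat_lit 76) (nat_lit 0) (XT.lf (nat_lit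 0) (nat_lit 99757801508) (nat_lit 152) (nat_lit 20316627537) (nat_lit 0) (nat_lit 99588492396) (nat_lit 50) (nat_lit 5) (nat_lit 52) (nat_lit 4) (nat_lit 50) (nat_lit 4) (nat_lit 495) (nat_lit 288) (nat_lit 237)) (XT.lf (nat_lit 0) (nat_lit 142378418590) (nat_lit 76) (nat_lit 42222239175) (nat_lit 76) (nat_lit 42052199829) (nat_lit 49) (nat_lit 4) (nat_lit 50) (nat_lit 5) (nat_lit 50) (nat_lit 4) (nat_lit 496) (nat_lit 288) (nat_lit 236)))) (XT.nd (nat_lit 156) (nat_lit 228) (nat_lit 0) (XT.nd (nat_lit 78) (nat_lit 76) (nat_lit 0) (XT.lf (nat_lit 0) (nat_lit 6567616995) (nat_lit 152) (nat_lit 11301513852) (nat_lit 0) (nat_lit 6567616995) (nat_lit 116) (nat_lit 5) (nat_lit 118) (nat_lit 4) (nat_lit 116) (nat_lit 4) (nat_lit 442) (nat_lit 289) (nat_lit 289)) (XT.lf (nat_lit 0) (nat_lit 26707476150) (nat_lit 76) (nat_lit 11702199533) (nat_lit 76) (nat_lit 11675192939) (nat_lit 115) (nat_lit 4) (nat_lit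 116) (nat_lit 5) (nat_lit 116) (nat_lit 4) (nat_lit 443) (nat_lit 289) (nat_lit 288))) (XT.nd (nat_lit 78) (nat_lit 76) (nat_lit 0) (XT.lf (nat_lit 0) (nat_lit 13379534533) (nat_lit 152) (nat_lit 24626172628) (nat_lit 0) (nat_lit 13329318190) (nat_lit 113) (nat_lit 5) (nat_lit 115) (nat_lit 4) (nat_lit 113) (nat_lit 4) (nat_lit 444) (nat_lit 289) (nat_lit 287)) (XT.lf (nat_lit 0) (nat_lit 26295359724) (nat_lit 76) (nat_lit 13203058436) (nat_lit 76) (nat_lit 13129512783) (nat_lit 112) (nat_lit 4) (nat_lit 113) (nat_lit 5) (nat_lit 113) (nat_lit 4) (nat_lit 445) (nat_lit 289) (nat_lit 286))))) (XT.nd (nat_lit 312) (nat_lit 456) (nat_lit 0) (XT.nd (nat_lit 156) (nat_lit 228) (nat_lit 0) (XT.nd (nat_lit 78) (nat_lit 76) (nat_lit 0) (XT.lf (nat_lit 0) (nat_lit 12750872158) (nat_lit 152) (nat_lit 28553481752) (nat_lit 0) (nat_lit 12659668305) (nat_lit 110) (nat_lit 5) (nat_lit 112) (nat_lit 4) (nat_lit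 110) (nat_lit 4) (nat_lit 446) (nat_lit 289) (nat_lit 285)) (XT.lf (nat_lit 0) (nat_lit 23999783098) (nat_lit 76) (nat_lit 15727776791) (nat_lit 76) (nat_lit 15616420202) (nat_lit 109) (nat_lit 4) (nat_lit 110) (nat_lit 5) (nat_lit 110) (nat_lit 4) (nat_lit 447) (nat_lit 289) (nat_lit 284))) (XT.nd (nat_lit 78) (nat_lit 76) (nat_lit 0) (XT.lf (nat_lit 0) (nat_lit 11115726895) (nat_lit 152) (nat_lit 34666226183) (nat_lit 0) (nat_lit 10991393874) (nat_lit 107) (nat_lit 5) (nat_lit 109) (nat_lit 4) (nat_lit 107) (nat_lit 4) (nat_lit 448) (nat_lit 289) (nat_lit 283)) (XT.lf (nat_lit 0) (nat_lit 19534389859) (nat_lit 76) (nat_lit 19426828065) (nat_lit 76) (nat_lit 19285086353) (nat_lit 106) (nat_lit 4) (nat_lit 107) (nat_lit 5) (nat_lit 107) (nat_lit 4) (nat_lit 449) (nat_lit 289) (nat_lit 282)))) (XT.nd (nat_lit 156) (nat_lit 228) (nat_lit 0) (XT.nd (nat_lit 78) (nat_lit 76) (nat_lit 0) (XT.lf (nat_lit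 0) (nat_lit 8324550407) (nat_lit 152) (nat_lit 43278652676) (nat_lit 0) (nat_lit 8173768104) (nat_lit 104) (nat_lit 5) (nat_lit 106) (nat_lit 4) (nat_lit 104) (nat_lit 4) (nat_lit 450) (nat_lit 289) (nat_lit 281)) (XT.lf (nat_lit 0) (nat_lit 12578964061) (nat_lit 76) (nat_lit 24468097804) (nat_lit 76) (nat_lit 24302277219) (nat_lit 103) (nat_lit 4) (nat_lit 104) (nat_lit 5) (nat_lit 104) (nat_lit 4) (nat_lit 451) (nat_lit 289) (nat_lit 280))) (XT.nd (nat_lit 78) (nat_lit 76) (nat_lit 0) (XT.lf (nat_lit 0) (nat_lit 4210026209) (nat_lit 152) (nat_lit 54741592061) (nat_lit 0) (nat_lit 4038461677) (nat_lit 101) (nat_lit 5) (nat_lit 103) (nat_lit 4) (nat_lit 101) (nat_lit 4) (nat_lit 452) (nat_lit 289) (nat_lit 279)) (XT.lf (nat_lit 0) (nat_lit 2775713396) (nat_lit 76) (nat_lit 31038807561) (nat_lit 76) (nat_lit 30854252396) (nat_lit 100) (nat_lit 4) (nat_lit 101) (nat_lit 5) (nat_lit 101) (nat_lit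 4) (nat_lit 453) (nat_lit 289) (nat_lit 278)))))) (XT.nd (nat_lit 624) (nat_lit 760) (nat_lit 0) (XT.nd (nat_lit 312) (nat_lit 456) (nat_lit 0) (XT.nd (nat_lit 156) (nat_lit 228) (nat_lit 0) (XT.nd (nat_lit 78) (nat_lit 152) (nat_lit 0) (XT.lf (nat_lit 0) (nat_lit 63455837117) (nat_lit 76) (nat_lit 1582761793) (nat_lit 76) (nat_lit 1385834596) (nat_lit 100) (nat_lit 4) (nat_lit 101) (nat_lit 5) (nat_lit 101) (nat_lit 4) (nat_lit 454) (nat_lit 289) (nat_lit 277)) (XT.lf (nat_lit 0) (nat_lit 29233218450) (nat_lit 152) (nat_lit 9945979120) (nat_lit 0) (nat_lit 29034446941) (nat_lit 98) (nat_lit 5) (nat_lit 100) (nat_lit 4) (nat_lit 98) (nat_lit 4) (nat_lit 455) (nat_lit 289) (nat_lit 276))) (XT.nd (nat_lit 78) (nat_lit 152) (nat_lit 0) (XT.lf (nat_lit 0) (nat_lit 52652764110) (nat_lit 76) (nat_lit 8820521612) (nat_lit 76) (nat_lit 8611062677) (nat_lit 97) (nat_lit 4) (nat_lit 98) (nat_lit 5) (nat_lit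 98) (nat_lit 4) (nat_lit 456) (nat_lit 289) (nat_lit 275)) (XT.lf (nat_lit 0) (nat_lit 23030513164) (nat_lit 152) (nat_lit 26153631574) (nat_lit 0) (nat_lit 22821334653) (nat_lit 95) (nat_lit 5) (nat_lit 97) (nat_lit 4) (nat_lit 95) (nat_lit 4) (nat_lit 457) (nat_lit 289) (nat_lit 274)))) (XT.nd (nat_lit 156) (nat_lit 228) (nat_lit 0) (XT.nd (nat_lit 78) (nat_lit 152) (nat_lit 0) (XT.lf (nat_lit 0) (nat_lit 38268959670) (nat_lit 76) (nat_lit 17975536938) (nat_lit 76) (nat_lit 17757126226) (nat_lit 94) (nat_lit 4) (nat_lit 95) (nat_lit 5) (nat_lit 95) (nat_lit 4) (nat_lit 458) (nat_lit 289) (nat_lit 273)) (XT.lf (nat_lit 0) (nat_lit 14932759662) (nat_lit 152) (nat_lit 46417114784) (nat_lit 0) (nat_lit 14716375582) (nat_lit 92) (nat_lit 5) (nat_lit 94) (nat_lit 4) (nat_lit 92) (nat_lit 4) (nat_lit 459) (nat_lit 289) (nat_lit 272))) (XT.nd (nat_lit 78) (nat_lit 152) (nat_lit 0) (XT.lf (nat_lit 0)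 (nat_lit 19813115942) (nat_lit 76) (nat_lit 29303980595) (nat_lit 76) (nat_lit 29079621393) (nat_lit 91) (nat_lit 4) (nat_lit 92) (nat_lit 5) (nat_lit 92) (nat_lit 4) (nat_lit 460) (nat_lit 289) (nat_lit 271)) (XT.lf (nat_lit 0) (nat_lit 4682998624) (nat_lit 152) (nat_lit 71272420723) (nat_lit 0) (nat_lit 4462089523) (nat_lit 89) (nat_lit 5) (nat_lit 91) (nat_lit 4) (nat_lit 89) (nat_lit 4) (nat_lit 461) (nat_lit 289) (nat_lit 270))))) (XT.nd (nat_lit 312) (nat_lit 456) (nat_lit 0) (XT.nd (nat_lit 156) (nat_lit 228) (nat_lit 0) (XT.nd (nat_lit 78) (nat_lit 76) (nat_lit 0) (XT.lf (nat_lit 0) (nat_lit 39879499881) (nat_lit 152) (nat_lit 3158151341) (nat_lit 0) (nat_lit 39651701569) (nat_lit 89) (nat_lit 5) (nat_lit 91) (nat_lit 4) (nat_lit 89) (nat_lit 4) (nat_lit 462) (nat_lit 289) (nat_lit 269)) (XT.lf (nat_lit 0) (nat_lit 69085285412) (nat_lit 76) (nat_lit 8103117073) (nat_lit 76) (nat_lit 7868757609)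 (nat_lit 88) (nat_lit 4) (nat_lit 89) (nat_lit 5) (nat_lit 89) (nat_lit 4) (nat_lit 463) (nat_lit 289) (nat_lit 268))) (XT.nd (nat_lit 78) (nat_lit 76) (nat_lit 0) (XT.lf (nat_lit 0) (nat_lit 28578890713) (nat_lit 152) (nat_lit 30558134469) (nat_lit 0) (nat_lit 28349740065) (nat_lit 86) (nat_lit 5) (nat_lit 88) (nat_lit 4) (nat_lit 86) (nat_lit 4) (nat_lit 464) (nat_lit 289) (nat_lit 267)) (XT.lf (nat_lit 0) (nat_lit 43647324829) (nat_lit 76) (nat_lit 23300366920) (nat_lit 76) (nat_lit 23065548502) (nat_lit 85) (nat_lit 4) (nat_lit 86) (nat_lit 5) (nat_lit 86) (nat_lit 4) (nat_lit 465) (nat_lit 289) (nat_lit 266)))) (XT.nd (nat_lit 156) (nat_lit 228) (nat_lit 0) (XT.nd (nat_lit 78) (nat_lit 76) (nat_lit 0) (XT.lf (nat_lit 0) (nat_lit 14590040930) (nat_lit 152) (nat_lit 63678989371) (nat_lit 0) (nat_lit 14361263506) (nat_lit 83) (nat_lit 5) (nat_lit 85) (nat_lit 4) (nat_lit 83) (nat_lit 4) (nat_lit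 466) (nat_lit 289) (nat_lit 265)) (XT.lf (nat_lit 0) (nat_lit 12442677770) (nat_lit 76) (nat_lit 41558935834) (nat_lit 76) (nat_lit 41325262377) (nat_lit 82) (nat_lit 4) (nat_lit 83) (nat_lit 5) (nat_lit 83) (nat_lit 4) (nat_lit 467) (nat_lit 289) (nat_lit 264))) (XT.nd (nat_lit 78) (nat_lit 228) (nat_lit 0) (XT.lf (nat_lit 0) (nat_lit 93117452524) (nat_lit 76) (nat_lit 2630481319) (nat_lit 76) (nat_lit 2392144973) (nat_lit 82) (nat_lit 4) (nat_lit 83) (nat_lit 5) (nat_lit 83) (nat_lit 4) (nat_lit 468) (nat_lit 289) (nat_lit 263)) (XT.nd (nat_lit 78) (nat_lit 76) (nat_lit 0) (XT.lf (nat_lit 0) (nat_lit 38384827802) (nat_lit 152) (nat_lit 24469005378) (nat_lit 0) (nat_lit 38153611428) (nat_lit 80) (nat_lit 5) (nat_lit 82) (nat_lit 4) (nat_lit 80) (nat_lit 4) (nat_lit 469) (nat_lit 289) (nat_lit 262)) (XT.lf (nat_lit 0) (nat_lit 58716634919) (nat_lit 76) (nat_lit 22758540720) (nat_lit 76) (nat_lit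 22523296368) (nat_lit 79) (nat_lit 4) (nat_lit 80) (nat_lit 5) (nat_lit 80) (nat_lit 4) (nat_lit 470) (nat_lit 289) (nat_lit 261))))))))
noncomputable def xc16 : XT := (XT.nd (nat_lit 51168) (nat_lit 0) (nat_lit 1672) (XT.nd (nat_lit 1248) (nat_lit 912) (nat_lit 0) (XT.nd (nat_lit 624) (nat_lit 684) (nat_lit 0) (XT.nd (nat_lit 312) (nat_lit 304) (nat_lit 0) (XT.nd (nat_lit 156) (nat_lit 152) (nat_lit 0) (XT.nd (nat_lit 78) (nat_lit 76) (nat_lit 0) (XT.lf (nat_lit 0) (nat_lit 19610631547) (nat_lit 152) (nat_lit 68097379939) (nat_lit 0) (nat_lit 19382935811) (nat_lit 77) (nat_lit 5) (nat_lit 79) (nat_lit 4) (nat_lit 77) (nat_lit 4) (nat_lit 471) (nat_lit 289) (nat_lit 260)) (XT.lf (nat_lit 0) (nat_lit 17131586664) (nat_lit 76) (nat_lit 46691370811) (nat_lit 76) (nat_lit 46460195556) (nat_lit 76) (nat_lit 4) (nat_lit 77) (nat_lit 5) (nat_lit 77) (nat_lit 4) (nat_lit 472) (nat_lit 289) (nat_lit 259)))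 (XT.nd (nat_lit 78) (nat_lit 152) (nat_lit 0) (XT.lf (nat_lit 0) (nat_lit 107592086435) (nat_lit 76) (nat_lit 3126859689) (nat_lit 76) (nat_lit 2892370606) (nat_lit 76) (nat_lit 4) (nat_lit 77) (nat_lit 5) (nat_lit 77) (nat_lit 4) (nat_lit 473) (nat_lit 289) (nat_lit 258)) (XT.lf (nat_lit 0) (nat_lit 42857394790) (nat_lit 152) (nat_lit 31515217283) (nat_lit 0) (nat_lit 42631066114) (nat_lit 74) (nat_lit 5) (nat_lit 76) (nat_lit 4) (nat_lit 74) (nat_lit 4) (nat_lit 474) (nat_lit 289) (nat_lit 257)))) (XT.nd (nat_lit 156) (nat_lit 76) (nat_lit 0) (XT.nd (nat_lit 78) (nat_lit 152) (nat_lit 0) (XT.lf (nat_lit 0) (nat_lit 61746374933) (nat_lit 76) (nat_lit 29511539912) (nat_lit 76) (nat_lit 29282348627) (nat_lit 73) (nat_lit 4) (nat_lit 74) (nat_lit 5) (nat_lit 74) (nat_lit 4) (nat_lit 475) (nat_lit 289) (nat_lit 256)) (XT.lf (nat_lit 0) (nat_lit 17987816862) (nat_lit 152) (nat_lit 88448326525) (nat_lit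 0) (nat_lit 17766942977) (nat_lit 71) (nat_lit 5) (nat_lit 73) (nat_lit 4) (nat_lit 71) (nat_lit 4) (nat_lit 476) (nat_lit 289) (nat_lit 255))) (XT.nd (nat_lit 78) (nat_lit 0) (nat_lit 0) (XT.lf (nat_lit 0) (nat_lit 6966055780) (nat_lit 76) (nat_lit 60617515709) (nat_lit 76) (nat_lit 60394168995) (nat_lit 70) (nat_lit 4) (nat_lit 71) (nat_lit 5) (nat_lit 71) (nat_lit 4) (nat_lit 477) (nat_lit 289) (nat_lit 254)) (XT.lf (nat_lit 0) (nat_lit 108894138972) (nat_lit 76) (nat_lit 11615092133) (nat_lit 76) (nat_lit 11389390343) (nat_lit 70) (nat_lit 4) (nat_lit 71) (nat_lit 5) (nat_lit 71) (nat_lit 4) (nat_lit 478) (nat_lit 289) (nat_lit 253))))) (XT.nd (nat_lit 312) (nat_lit 304) (nat_lit 0) (XT.nd (nat_lit 156) (nat_lit 152) (nat_lit 0) (XT.nd (nat_lit 78) (nat_lit 76) (nat_lit 0) (XT.lf (nat_lit 0) (nat_lit 40056727558) (nat_lit 152) (nat_lit 56024232186) (nat_lit 0) (nat_lit 39839637349) (nat_lit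 68) (nat_lit 5) (nat_lit 70) (nat_lit 4) (nat_lit 68) (nat_lit 4) (nat_lit 479) (nat_lit 289) (nat_lit 252)) (XT.lf (nat_lit 0) (nat_lit 48500269454) (nat_lit 76) (nat_lit 45908681609) (nat_lit 76) (nat_lit 45689556997) (nat_lit 67) (nat_lit 4) (nat_lit 68) (nat_lit 5) (nat_lit 68) (nat_lit 4) (nat_lit 480) (nat_lit 289) (nat_lit 251))) (XT.nd (nat_lit 78) (nat_lit 0) (nat_lit 0) (XT.lf (nat_lit 0) (nat_lit 7455205169) (nat_lit 152) (nat_lit 129745701786) (nat_lit 0) (nat_lit 7244669799) (nat_lit 65) (nat_lit 5) (nat_lit 67) (nat_lit 4) (nat_lit 65) (nat_lit 4) (nat_lit 481) (nat_lit 289) (nat_lit 250)) (XT.lf (nat_lit 0) (nat_lit 63423981001) (nat_lit 152) (nat_lit 22251766971) (nat_lit 0) (nat_lit 63211688238) (nat_lit 65) (nat_lit 5) (nat_lit 67) (nat_lit 4) (nat_lit 65) (nat_lit 4) (nat_lit 482) (nat_lit 289) (nat_lit 249)))) (XT.nd (nat_lit 156) (nat_lit 76) (nat_lit 0) (XT.nd (nat_lit 78)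 (nat_lit 152) (nat_lit 0) (XT.lf (nat_lit 0) (nat_lit 92348529122) (nat_lit 76) (nat_lit 30687297227) (nat_lit 76) (nat_lit 30473330756) (nat_lit 64) (nat_lit 4) (nat_lit 65) (nat_lit 5) (nat_lit 65) (nat_lit 4) (nat_lit 483) (nat_lit 289) (nat_lit 248)) (XT.lf (nat_lit 0) (nat_lit 27481517250) (nat_lit 152) (nat_lit 103528544611) (nat_lit 0) (nat_lit 27276221555) (nat_lit 62) (nat_lit 5) (nat_lit 64) (nat_lit 4) (nat_lit 62) (nat_lit 4) (nat_lit 484) (nat_lit 289) (nat_lit 247))) (XT.nd (nat_lit 78) (nat_lit 0) (nat_lit 0) (XT.lf (nat_lit 0) (nat_lit 13534405425) (nat_lit 76) (nat_lit 74945562882) (nat_lit 76) (nat_lit 74738821375) (nat_lit 61) (nat_lit 4) (nat_lit 62) (nat_lit 5) (nat_lit 62) (nat_lit 4) (nat_lit 485) (nat_lit 289) (nat_lit 246)) (XT.lf (nat_lit 0) (nat_lit 138840450587) (nat_lit 76) (nat_lit 14853650591) (nat_lit 76) (nat_lit 14645532120) (nat_lit 61) (nat_lit 4) (nat_lit 62)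 (nat_lit 5) (nat_lit 62) (nat_lit 4) (nat_lit 486) (nat_lit 289) (nat_lit 245)))))) (XT.nd (nat_lit 624) (nat_lit 228) (nat_lit 0) (XT.nd (nat_lit 312) (nat_lit 304) (nat_lit 0) (XT.nd (nat_lit 156) (nat_lit 152) (nat_lit 0) (XT.nd (nat_lit 78) (nat_lit 76) (nat_lit 0) (XT.lf (nat_lit 0) (nat_lit 48642841876) (nat_lit 152) (nat_lit 76505408437) (nat_lit 0) (nat_lit 48443384861) (nat_lit 59) (nat_lit 5) (nat_lit 61) (nat_lit 4) (nat_lit 59) (nat_lit 4) (nat_lit 487) (nat_lit 289) (nat_lit 244)) (XT.lf (nat_lit 0) (nat_lit 51948910288) (nat_lit 76) (nat_lit 63648144257) (nat_lit 76) (nat_lit 63447497769) (nat_lit 58) (nat_lit 4) (nat_lit 59) (nat_lit 5) (nat_lit 59) (nat_lit 4) (nat_lit 488) (nat_lit 289) (nat_lit 243))) (XT.nd (nat_lit 78) (nat_lit 0) (nat_lit 0) (XT.lf (nat_lit 0) (nat_lit 1926479125) (nat_lit 152) (nat_lit 181066759244) (nat_lit 0) (nat_lit 1734308345) (nat_lit 56) (nat_lit 5)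 (nat_lit 58) (nat_lit 4) (nat_lit 56) (nat_lit 4) (nat_lit 489) (nat_lit 289) (nat_lit 242)) (XT.lf (nat_lit 0) (nat_lit 71099294932) (nat_lit 152) (nat_lit 48504173514) (nat_lit 0) (nat_lit 70906096640) (nat_lit 56) (nat_lit 5) (nat_lit 58) (nat_lit 4) (nat_lit 56) (nat_lit 4) (nat_lit 490) (nat_lit 289) (nat_lit 241)))) (XT.nd (nat_lit 156) (nat_lit 76) (nat_lit 0) (XT.nd (nat_lit 78) (nat_lit 152) (nat_lit 0) (XT.lf (nat_lit 0) (nat_lit 92538055923) (nat_lit 76) (nat_lit 52095824443) (nat_lit 76) (nat_lit 51901647569) (nat_lit 55) (nat_lit 4) (nat_lit 56) (nat_lit 5) (nat_lit 56) (nat_lit 4) (nat_lit 491) (nat_lit 289) (nat_lit 240)) (XT.lf (nat_lit 0) (nat_lit 19595271343) (nat_lit 152) (nat_lit 163782224736) (nat_lit 0) (nat_lit 19409453383) (nat_lit 53) (nat_lit 5) (nat_lit 55) (nat_lit 4) (nat_lit 53) (nat_lit 4) (nat_lit 492) (nat_lit 289) (nat_lit 239))) (XT.nd (nat_lit 78) (nat_lit 76)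 (nat_lit 0) (XT.lf (nat_lit 0) (nat_lit 95025305757) (nat_lit 152) (nat_lit 19339326249) (nat_lit 0) (nat_lit 94838642461) (nat_lit 53) (nat_lit 5) (nat_lit 55) (nat_lit 4) (nat_lit 53) (nat_lit 4) (nat_lit 493) (nat_lit 289) (nat_lit 238)) (XT.lf (nat_lit 0) (nat_lit 135608625048) (nat_lit 76) (nat_lit 40219595071) (nat_lit 76) (nat_lit 40032126692) (nat_lit 52) (nat_lit 4) (nat_lit 53) (nat_lit 5) (nat_lit 53) (nat_lit 4) (nat_lit 494) (nat_lit 289) (nat_lit 237))))) (XT.nd (nat_lit 48984) (nat_lit 0) (nat_lit 4788) (XT.nd (nat_lit 48828) (nat_lit 0) (nat_lit 5244) (XT.nd (nat_lit 78) (nat_lit 76) (nat_lit 0) (XT.lf (nat_lit 0) (nat_lit 38242890062) (nat_lit 152) (nat_lit 146432620046) (nat_lit 0) (nat_lit 38063618515) (nat_lit 50) (nat_lit 5) (nat_lit 52) (nat_lit 4) (nat_lit 50) (nat_lit 4) (nat_lit 495) (nat_lit 289) (nat_lit 236)) (XT.lf (nat_lit 0) (nat_lit 11559592676) (nat_lit 76) (nat_lit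 109232071605) (nat_lit 76) (nat_lit 109052104598) (nat_lit 49) (nat_lit 4) (nat_lit 50) (nat_lit 5) (nat_lit 50) (nat_lit 4) (nat_lit 496) (nat_lit 289) (nat_lit 235))) (XT.nd (nat_lit 78) (nat_lit 76) (nat_lit 0) (XT.lf (nat_lit 0) (nat_lit 6269528279) (nat_lit 152) (nat_lit 10735432333) (nat_lit 0) (nat_lit 6269528279) (nat_lit 119) (nat_lit 5) (nat_lit 121) (nat_lit 4) (nat_lit 119) (nat_lit 4) (nat_lit 440) (nat_lit 290) (nat_lit 290)) (XT.lf (nat_lit 0) (nat_lit 25491992697) (nat_lit 76) (nat_lit 11120168979) (nat_lit 76) (nat_lit 11090394209) (nat_lit 118) (nat_lit 4) (nat_lit 119) (nat_lit 5) (nat_lit 119) (nat_lit 4) (nat_lit 441) (nat_lit 290) (nat_lit 289)))) (XT.nd (nat_lit 156) (nat_lit 228) (nat_lit 0) (XT.nd (nat_lit 78) (nat_lit 76) (nat_lit 0) (XT.lf (nat_lit 0) (nat_lit 12772799649) (nat_lit 152) (nat_lit 23402799466) (nat_lit 0) (nat_lit 12717436132) (nat_lit 116) (nat_lit 5)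 (nat_lit 118) (nat_lit 4) (nat_lit 116) (nat_lit 4) (nat_lit 442) (nat_lit 290) (nat_lit 288)) (XT.lf (nat_lit 0) (nat_lit 25094388106) (nat_lit 76) (nat_lit 12555486256) (nat_lit 76) (nat_lit 12474402173) (nat_lit 115) (nat_lit 4) (nat_lit 116) (nat_lit 5) (nat_lit 116) (nat_lit 4) (nat_lit 443) (nat_lit 290) (nat_lit 287))) (XT.nd (nat_lit 78) (nat_lit 76) (nat_lit 0) (XT.lf (nat_lit 0) (nat_lit 12174761710) (nat_lit 152) (nat_lit 27147643149) (nat_lit 0) (nat_lit 12074209462) (nat_lit 113) (nat_lit 5) (nat_lit 115) (nat_lit 4) (nat_lit 113) (nat_lit 4) (nat_lit 444) (nat_lit 290) (nat_lit 286)) (XT.lf (nat_lit 0) (nat_lit 22903586472) (nat_lit 76) (nat_lit 14964979036) (nat_lit 76) (nat_lit 14842208397) (nat_lit 112) (nat_lit 4) (nat_lit 113) (nat_lit 5) (nat_lit 113) (nat_lit 4) (nat_lit 445) (nat_lit 290) (nat_lit 285))))))) (XT.nd (nat_lit 1248) (nat_lit 1520) (nat_lit 0) (XT.nd (nat_lit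 624) (nat_lit 760) (nat_lit 0) (XT.nd (nat_lit 312) (nat_lit 380) (nat_lit 0) (XT.nd (nat_lit 156) (nat_lit 228) (nat_lit 0) (XT.nd (nat_lit 78) (nat_lit 76) (nat_lit 0) (XT.lf (nat_lit 0) (nat_lit 10617845154) (nat_lit 152) (nat_lit 32973346441) (nat_lit 0) (nat_lit 10480767999) (nat_lit 110) (nat_lit 5) (nat_lit 112) (nat_lit 4) (nat_lit 110) (nat_lit 4) (nat_lit 446) (nat_lit 290) (nat_lit 284)) (XT.lf (nat_lit 0) (nat_lit 18646794959) (nat_lit 76) (nat_lit 18492087632) (nat_lit 76) (nat_lit 18335817394) (nat_lit 109) (nat_lit 4) (nat_lit 110) (nat_lit 5) (nat_lit 110) (nat_lit 4) (nat_lit 447) (nat_lit 290) (nat_lit 283))) (XT.nd (nat_lit 78) (nat_lit 76) (nat_lit 0) (XT.lf (nat_lit 0) (nat_lit 7959677982) (nat_lit 152) (nat_lit 41179255711) (nat_lit 0) (nat_lit 7793440494) (nat_lit 107) (nat_lit 5) (nat_lit 109) (nat_lit 4) (nat_lit 107) (nat_lit 4) (nat_lit 448) (nat_lit 290) (nat_lit 282))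 (XT.lf (nat_lit 0) (nat_lit 12018983139) (nat_lit 76) (nat_lit 23296817005) (nat_lit 76) (nat_lit 23113999810) (nat_lit 106) (nat_lit 4) (nat_lit 107) (nat_lit 5) (nat_lit 107) (nat_lit 4) (nat_lit 449) (nat_lit 290) (nat_lit 281)))) (XT.nd (nat_lit 156) (nat_lit 152) (nat_lit 0) (XT.nd (nat_lit 78) (nat_lit 76) (nat_lit 0) (XT.lf (nat_lit 0) (nat_lit 4040958142) (nat_lit 152) (nat_lit 52099550878) (nat_lit 0) (nat_lit 3851808246) (nat_lit 104) (nat_lit 5) (nat_lit 106) (nat_lit 4) (nat_lit 104) (nat_lit 4) (nat_lit 450) (nat_lit 290) (nat_lit 280)) (XT.lf (nat_lit 0) (nat_lit 2679341874) (nat_lit 76) (nat_lit 29557571583) (nat_lit 76) (nat_lit 29354099513) (nat_lit 103) (nat_lit 4) (nat_lit 104) (nat_lit 5) (nat_lit 104) (nat_lit 4) (nat_lit 451) (nat_lit 290) (nat_lit 279))) (XT.nd (nat_lit 78) (nat_lit 152) (nat_lit 0) (XT.lf (nat_lit 0) (nat_lit 60469306816) (nat_lit 76) (nat_lit 1505422860)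 (nat_lit 76) (nat_lit 1288310626) (nat_lit 103) (nat_lit 4) (nat_lit 104) (nat_lit 5) (nat_lit 104) (nat_lit 4) (nat_lit 452) (nat_lit 290) (nat_lit 278)) (XT.lf (nat_lit 0) (nat_lit 27872815335) (nat_lit 152) (nat_lit 9440484472) (nat_lit 0) (nat_lit 27653669747) (nat_lit 101) (nat_lit 5) (nat_lit 103) (nat_lit 4) (nat_lit 101) (nat_lit 4) (nat_lit 453) (nat_lit 290) (nat_lit 277))))) (XT.nd (nat_lit 312) (nat_lit 304) (nat_lit 0) (XT.nd (nat_lit 156) (nat_lit 228) (nat_lit 0) (XT.nd (nat_lit 78) (nat_lit 152) (nat_lit 0) (XT.lf (nat_lit 0) (nat_lit 50177876786) (nat_lit 76) (nat_lit 8400796206) (nat_lit 76) (nat_lit 8169867730) (nat_lit 100) (nat_lit 4) (nat_lit 101) (nat_lit 5) (nat_lit 101) (nat_lit 4) (nat_lit 454) (nat_lit 290) (nat_lit 276)) (XT.lf (nat_lit 0) (nat_lit 21964947694) (nat_lit 152) (nat_lit 24878839988) (nat_lit 0) (nat_lit 21734328386) (nat_lit 98) (nat_lit 5) (nat_lit 100)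 (nat_lit 4) (nat_lit 98) (nat_lit 4) (nat_lit 455) (nat_lit 290) (nat_lit 275))) (XT.nd (nat_lit 78) (nat_lit 152) (nat_lit 0) (XT.lf (nat_lit 0) (nat_lit 36476510842) (nat_lit 76) (nat_lit 17121722990) (nat_lit 76) (nat_lit 16880925181) (nat_lit 97) (nat_lit 4) (nat_lit 98) (nat_lit 5) (nat_lit 98) (nat_lit 4) (nat_lit 456) (nat_lit 290) (nat_lit 274)) (XT.lf (nat_lit 0) (nat_lit 14252164250) (nat_lit 152) (nat_lit 44179639422) (nat_lit 0) (nat_lit 14013600802) (nat_lit 95) (nat_lit 5) (nat_lit 97) (nat_lit 4) (nat_lit 95) (nat_lit 4) (nat_lit 457) (nat_lit 290) (nat_lit 273)))) (XT.nd (nat_lit 156) (nat_lit 76) (nat_lit 0) (XT.nd (nat_lit 78) (nat_lit 152) (nat_lit 0) (XT.lf (nat_lit 0) (nat_lit 18897262542) (nat_lit 76) (nat_lit 27912236904) (nat_lit 76) (nat_lit 27664880884) (nat_lit 94) (nat_lit 4) (nat_lit 95) (nat_lit 5) (nat_lit 95) (nat_lit 4) (nat_lit 458) (nat_lit 290) (nat_lit 272))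 (XT.lf (nat_lit 0) (nat_lit 4489765119) (nat_lit 152) (nat_lit 67853381456) (nat_lit 0) (nat_lit 4246212835) (nat_lit 92) (nat_lit 5) (nat_lit 94) (nat_lit 4) (nat_lit 92) (nat_lit 4) (nat_lit 459) (nat_lit 290) (nat_lit 271))) (XT.nd (nat_lit 78) (nat_lit 76) (nat_lit 0) (XT.lf (nat_lit 0) (nat_lit 38010581588) (nat_lit 152) (nat_lit 2982987794) (nat_lit 0) (nat_lit 37759433950) (nat_lit 92) (nat_lit 5) (nat_lit 94) (nat_lit 4) (nat_lit 92) (nat_lit 4) (nat_lit 460) (nat_lit 290) (nat_lit 270)) (XT.lf (nat_lit 0) (nat_lit 65820770877) (nat_lit 76) (nat_lit 7722816236) (nat_lit 76) (nat_lit 7464434927) (nat_lit 91) (nat_lit 4) (nat_lit 92) (nat_lit 5) (nat_lit 92) (nat_lit 4) (nat_lit 461) (nat_lit 290) (nat_lit 269)))))) (XT.nd (nat_lit 624) (nat_lit 684) (nat_lit 0) (XT.nd (nat_lit 312) (nat_lit 380) (nat_lit 0) (XT.nd (nat_lit 156) (nat_lit 228) (nat_lit 0) (XT.nd (nat_lit 78) (nat_lit 76) (nat_lit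 0) (XT.lf (nat_lit 0) (nat_lit 27247263541) (nat_lit 152) (nat_lit 29079990071) (nat_lit 0) (nat_lit 26994624951) (nat_lit 89) (nat_lit 5) (nat_lit 91) (nat_lit 4) (nat_lit 89) (nat_lit 4) (nat_lit 462) (nat_lit 290) (nat_lit 268)) (XT.lf (nat_lit 0) (nat_lit 41592348062) (nat_lit 76) (nat_lit 22197276105) (nat_lit 76) (nat_lit 21938388799) (nat_lit 88) (nat_lit 4) (nat_lit 89) (nat_lit 5) (nat_lit 89) (nat_lit 4) (nat_lit 463) (nat_lit 290) (nat_lit 267))) (XT.nd (nat_lit 78) (nat_lit 76) (nat_lit 0) (XT.lf (nat_lit 0) (nat_lit 13923674247) (nat_lit 152) (nat_lit 60625275121) (nat_lit 0) (nat_lit 13671447137) (nat_lit 86) (nat_lit 5) (nat_lit 88) (nat_lit 4) (nat_lit 86) (nat_lit 4) (nat_lit 464) (nat_lit 290) (nat_lit 266)) (XT.lf (nat_lit 0) (nat_lit 11872008746) (nat_lit 76) (nat_lit 39587078574) (nat_lit 76) (nat_lit 39329453587) (nat_lit 85) (nat_lit 4) (nat_lit 86) (nat_lit 5) (nat_lit 86)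 (nat_lit 4) (nat_lit 465) (nat_lit 290) (nat_lit 265)))) (XT.nd (nat_lit 156) (nat_lit 228) (nat_lit 0) (XT.nd (nat_lit 78) (nat_lit 152) (nat_lit 0) (XT.lf (nat_lit 0) (nat_lit 88704890466) (nat_lit 76) (nat_lit 2512822884) (nat_lit 76) (nat_lit 2250057063) (nat_lit 85) (nat_lit 4) (nat_lit 86) (nat_lit 5) (nat_lit 86) (nat_lit 4) (nat_lit 466) (nat_lit 290) (nat_lit 264)) (XT.lf (nat_lit 0) (nat_lit 36584680031) (nat_lit 152) (nat_lit 23284107633) (nat_lit 0) (nat_lit 36329763979) (nat_lit 83) (nat_lit 5) (nat_lit 85) (nat_lit 4) (nat_lit 83) (nat_lit 4) (nat_lit 467) (nat_lit 290) (nat_lit 263))) (XT.nd (nat_lit 78) (nat_lit 152) (nat_lit 0) (XT.lf (nat_lit 0) (nat_lit 55940758490) (nat_lit 76) (nat_lit 21682860965) (nat_lit 76) (nat_lit 21423504066) (nat_lit 82) (nat_lit 4) (nat_lit 83) (nat_lit 5) (nat_lit 83) (nat_lit 4) (nat_lit 468) (nat_lit 290) (nat_lit 262)) (XT.lf (nat_lit 0) (nat_lit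 18703542655) (nat_lit 152) (nat_lit 64836247614) (nat_lit 0) (nat_lit 18452508106) (nat_lit 80) (nat_lit 5) (nat_lit 82) (nat_lit 4) (nat_lit 80) (nat_lit 4) (nat_lit 469) (nat_lit 290) (nat_lit 261))))) (XT.nd (nat_lit 312) (nat_lit 380) (nat_lit 0) (XT.nd (nat_lit 156) (nat_lit 228) (nat_lit 0) (XT.nd (nat_lit 78) (nat_lit 0) (nat_lit 0) (XT.lf (nat_lit 0) (nat_lit 16334628232) (nat_lit 76) (nat_lit 44476356767) (nat_lit 76) (nat_lit 44221486049) (nat_lit 79) (nat_lit 4) (nat_lit 80) (nat_lit 5) (nat_lit 80) (nat_lit 4) (nat_lit 470) (nat_lit 290) (nat_lit 260)) (XT.lf (nat_lit 0) (nat_lit 102487316659) (nat_lit 76) (nat_lit 2986675146) (nat_lit 76) (nat_lit 2728150932) (nat_lit 79) (nat_lit 4) (nat_lit 80) (nat_lit 5) (nat_lit 80) (nat_lit 4) (nat_lit 471) (nat_lit 290) (nat_lit 259))) (XT.nd (nat_lit 78) (nat_lit 76) (nat_lit 0) (XT.lf (nat_lit 0) (nat_lit 40842509711) (nat_lit 152) (nat_lit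 29997435275) (nat_lit 0) (nat_lit 40592982347) (nat_lit 77) (nat_lit 5) (nat_lit 79) (nat_lit 4) (nat_lit 77) (nat_lit 4) (nat_lit 472) (nat_lit 290) (nat_lit 258)) (XT.lf (nat_lit 0) (nat_lit 58823547180) (nat_lit 76) (nat_lit 28115109660) (nat_lit 76) (nat_lit 27862426268) (nat_lit 76) (nat_lit 4) (nat_lit 77) (nat_lit 5) (nat_lit 77) (nat_lit 4) (nat_lit 473) (nat_lit 290) (nat_lit 257)))) (XT.nd (nat_lit 156) (nat_lit 152) (nat_lit 0) (XT.nd (nat_lit 78) (nat_lit 76) (nat_lit 0) (XT.lf (nat_lit 0) (nat_lit 17156223989) (nat_lit 152) (nat_lit 84220518315) (nat_lit 0) (nat_lit 16912710531) (nat_lit 74) (nat_lit 5) (nat_lit 76) (nat_lit 4) (nat_lit 74) (nat_lit 4) (nat_lit 474) (nat_lit 290) (nat_lit 256)) (XT.lf (nat_lit 0) (nat_lit 6650724714) (nat_lit 76) (nat_lit 57739928842) (nat_lit 76) (nat_lit 57493689089) (nat_lit 73) (nat_lit 4) (nat_lit 74) (nat_lit 5) (nat_lit 74) (nat_lit 4) (nat_lit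 475) (nat_lit 290) (nat_lit 255))) (XT.nd (nat_lit 78) (nat_lit 152) (nat_lit 0) (XT.lf (nat_lit 0) (nat_lit 103724969911) (nat_lit 76) (nat_lit 11071187801) (nat_lit 76) (nat_lit 10822351577) (nat_lit 73) (nat_lit 4) (nat_lit 74) (nat_lit 5) (nat_lit 74) (nat_lit 4) (nat_lit 476) (nat_lit 290) (nat_lit 254)) (XT.lf (nat_lit 0) (nat_lit 38173376586) (nat_lit 152) (nat_lit 53341521020) (nat_lit 0) (nat_lit 37934034631) (nat_lit 71) (nat_lit 5) (nat_lit 73) (nat_lit 4) (nat_lit 71) (nat_lit 4) (nat_lit 477) (nat_lit 290) (nat_lit 253))))))))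
noncomputable def xc17 : XT := (XT.nd (nat_lit 1248) (nat_lit 228) (nat_lit 0) (XT.nd (nat_lit 624) (nat_lit 684) (nat_lit 0) (XT.nd (nat_lit 312) (nat_lit 380) (nat_lit 0) (XT.nd (nat_lit 156) (nat_lit 76) (nat_lit 0) (XT.nd (nat_lit 78) (nat_lit 152) (nat_lit 0) (XT.lf (nat_lit 0) (nat_lit 46206012306) (nat_lit 76) (nat_lit 43731725353) (nat_lit 76) (nat_lit 43490140469) (nat_lit 70) (nat_lit 4) (nat_lit 71) (nat_lit 5) (nat_lit 71) (nat_lit 4) (nat_lit 478) (nat_lit 290) (nat_lit 252)) (XT.lf (nat_lit 0) (nat_lit 7123345628) (nat_lit 152) (nat_lit 123553339711) (nat_lit 0) (nat_lit 6891230383) (nat_lit 68) (nat_lit 5) (nat_lit 70) (nat_lit 4) (nat_lit 68) (nat_lit 4) (nat_lit 479) (nat_lit 290) (nat_lit 251))) (XT.nd (nat_lit 78) (nat_lit 76) (nat_lit 0) (XT.lf (nat_lit 0) (nat_lit 60427028157) (nat_lit 152) (nat_lit 21178250195) (nat_lit 0) (nat_lit 60192975385) (nat_lit 68) (nat_lit 5) (nat_lit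 70) (nat_lit 4) (nat_lit 68) (nat_lit 4) (nat_lit 480) (nat_lit 290) (nat_lit 250)) (XT.lf (nat_lit 0) (nat_lit 87965263727) (nat_lit 76) (nat_lit 29235255861) (nat_lit 76) (nat_lit 28999357826) (nat_lit 67) (nat_lit 4) (nat_lit 68) (nat_lit 5) (nat_lit 68) (nat_lit 4) (nat_lit 481) (nat_lit 290) (nat_lit 249)))) (XT.nd (nat_lit 156) (nat_lit 152) (nat_lit 0) (XT.nd (nat_lit 78) (nat_lit 76) (nat_lit 0) (XT.lf (nat_lit 0) (nat_lit 26195156964) (nat_lit 152) (nat_lit 98585520590) (nat_lit 0) (nat_lit 25968818460) (nat_lit 65) (nat_lit 5) (nat_lit 67) (nat_lit 4) (nat_lit 65) (nat_lit 4) (nat_lit 482) (nat_lit 290) (nat_lit 248)) (XT.lf (nat_lit 0) (nat_lit 12903362662) (nat_lit 76) (nat_lit 71385838410) (nat_lit 76) (nat_lit 71157905898) (nat_lit 64) (nat_lit 4) (nat_lit 65) (nat_lit 5) (nat_lit 65) (nat_lit 4) (nat_lit 483) (nat_lit 290) (nat_lit 247))) (XT.nd (nat_lit 78) (nat_lit 152) (nat_lit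 0) (XT.lf (nat_lit 0) (nat_lit 132242383279) (nat_lit 76) (nat_lit 14155582446) (nat_lit 76) (nat_lit 13926131832) (nat_lit 64) (nat_lit 4) (nat_lit 65) (nat_lit 5) (nat_lit 65) (nat_lit 4) (nat_lit 484) (nat_lit 290) (nat_lit 246)) (XT.lf (nat_lit 0) (nat_lit 46347932143) (nat_lit 152) (nat_lit 72850017708) (nat_lit 0) (nat_lit 46128030784) (nat_lit 62) (nat_lit 5) (nat_lit 64) (nat_lit 4) (nat_lit 62) (nat_lit 4) (nat_lit 485) (nat_lit 290) (nat_lit 245))))) (XT.nd (nat_lit 312) (nat_lit 380) (nat_lit 0) (XT.nd (nat_lit 156) (nat_lit 76) (nat_lit 0) (XT.nd (nat_lit 78) (nat_lit 152) (nat_lit 0) (XT.lf (nat_lit 0) (nat_lit 49487774117) (nat_lit 76) (nat_lit 60626330455) (nat_lit 76) (nat_lit 60405117702) (nat_lit 61) (nat_lit 4) (nat_lit 62) (nat_lit 5) (nat_lit 62) (nat_lit 4) (nat_lit 486) (nat_lit 290) (nat_lit 244)) (XT.lf (nat_lit 0) (nat_lit 1855247141) (nat_lit 152) (nat_lit 172432950005)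 (nat_lit 0) (nat_lit 1643378855) (nat_lit 59) (nat_lit 5) (nat_lit 61) (nat_lit 4) (nat_lit 59) (nat_lit 4) (nat_lit 487) (nat_lit 290) (nat_lit 243))) (XT.nd (nat_lit 78) (nat_lit 76) (nat_lit 0) (XT.lf (nat_lit 0) (nat_lit 67734169911) (nat_lit 152) (nat_lit 46182918931) (nat_lit 0) (nat_lit 67521168794) (nat_lit 59) (nat_lit 5) (nat_lit 61) (nat_lit 4) (nat_lit 59) (nat_lit 4) (nat_lit 488) (nat_lit 290) (nat_lit 242)) (XT.lf (nat_lit 0) (nat_lit 88143345410) (nat_lit 76) (nat_lit 49623996399) (nat_lit 76) (nat_lit 49409916395) (nat_lit 58) (nat_lit 4) (nat_lit 59) (nat_lit 5) (nat_lit 59) (nat_lit 4) (nat_lit 489) (nat_lit 290) (nat_lit 241)))) (XT.nd (nat_lit 156) (nat_lit 228) (nat_lit 0) (XT.nd (nat_lit 78) (nat_lit 0) (nat_lit 0) (XT.lf (nat_lit 0) (nat_lit 18681829590) (nat_lit 152) (nat_lit 155972177845) (nat_lit 0) (nat_lit 18476965289) (nat_lit 56) (nat_lit 5) (nat_lit 58) (nat_lit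 4) (nat_lit 56) (nat_lit 4) (nat_lit 490) (nat_lit 290) (nat_lit 240)) (XT.lf (nat_lit 0) (nat_lit 90519999211) (nat_lit 152) (nat_lit 18407554227) (nat_lit 0) (nat_lit 90314202926) (nat_lit 56) (nat_lit 5) (nat_lit 58) (nat_lit 4) (nat_lit 56) (nat_lit 4) (nat_lit 491) (nat_lit 290) (nat_lit 239))) (XT.nd (nat_lit 78) (nat_lit 152) (nat_lit 0) (XT.lf (nat_lit 0) (nat_lit 129162241070) (nat_lit 76) (nat_lit 38313128690) (nat_lit 76) (nat_lit 38106444803) (nat_lit 55) (nat_lit 4) (nat_lit 56) (nat_lit 5) (nat_lit 56) (nat_lit 4) (nat_lit 492) (nat_lit 290) (nat_lit 238)) (XT.lf (nat_lit 0) (nat_lit 36440643276) (nat_lit 152) (nat_lit 139449376844) (nat_lit 0) (nat_lit 36242996396) (nat_lit 53) (nat_lit 5) (nat_lit 55) (nat_lit 4) (nat_lit 53) (nat_lit 4) (nat_lit 493) (nat_lit 290) (nat_lit 237)))))) (XT.nd (nat_lit 49140) (nat_lit 0) (nat_lit 4256) (XT.nd (nat_lit 48828) (nat_lit 0) (nat_lit 5016)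 (XT.nd (nat_lit 156) (nat_lit 152) (nat_lit 0) (XT.nd (nat_lit 78) (nat_lit 0) (nat_lit 0) (XT.lf (nat_lit 0) (nat_lit 11019701101) (nat_lit 76) (nat_lit 104039021567) (nat_lit 76) (nat_lit 103840607942) (nat_lit 52) (nat_lit 4) (nat_lit 53) (nat_lit 5) (nat_lit 53) (nat_lit 4) (nat_lit 494) (nat_lit 290) (nat_lit 236)) (XT.lf (nat_lit 0) (nat_lit 172862781444) (nat_lit 76) (nat_lit 26623204415) (nat_lit 76) (nat_lit 26424060556) (nat_lit 52) (nat_lit 4) (nat_lit 53) (nat_lit 5) (nat_lit 53) (nat_lit 4) (nat_lit 495) (nat_lit 290) (nat_lit 235))) (XT.nd (nat_lit 48594) (nat_lit 0) (nat_lit 5472) (XT.lf (nat_lit 0) (nat_lit 55265029861) (nat_lit 152) (nat_lit 122780848730) (nat_lit 0) (nat_lit 55074706700) (nat_lit 50) (nat_lit 5) (nat_lit 52) (nat_lit 4) (nat_lit 50) (nat_lit 4) (nat_lit 496) (nat_lit 290) (nat_lit 234)) (XT.lf (nat_lit 0) (nat_lit 5987136397) (nat_lit 152) (nat_lit 10193445872)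 (nat_lit 0) (nat_lit 5987136397) (nat_lit 122) (nat_lit 5) (nat_lit 124) (nat_lit 4) (nat_lit 122) (nat_lit 4) (nat_lit 438) (nat_lit 291) (nat_lit 291)))) (XT.nd (nat_lit 156) (nat_lit 228) (nat_lit 0) (XT.nd (nat_lit 78) (nat_lit 152) (nat_lit 0) (XT.lf (nat_lit 0) (nat_lit 24340160274) (nat_lit 76) (nat_lit 10563313911) (nat_lit 76) (nat_lit 10530487228) (nat_lit 121) (nat_lit 4) (nat_lit 122) (nat_lit 5) (nat_lit 122) (nat_lit 4) (nat_lit 439) (nat_lit 291) (nat_lit 290)) (XT.lf (nat_lit 0) (nat_lit 12198071449) (nat_lit 152) (nat_lit 22232485596) (nat_lit 0) (nat_lit 12137033171) (nat_lit 119) (nat_lit 5) (nat_lit 121) (nat_lit 4) (nat_lit 119) (nat_lit 4) (nat_lit 440) (nat_lit 291) (nat_lit 289))) (XT.nd (nat_lit 78) (nat_lit 152) (nat_lit 0) (XT.lf (nat_lit 0) (nat_lit 23955852419) (nat_lit 76) (nat_lit 11936818198) (nat_lit 76) (nat_lit 11847422996) (nat_lit 118) (nat_lit 4) (nat_lit 119)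 (nat_lit 5) (nat_lit 119) (nat_lit 4) (nat_lit 441) (nat_lit 291) (nat_lit 288)) (XT.lf (nat_lit 0) (nat_lit 11629270172) (nat_lit 152) (nat_lit 25804018969) (nat_lit 0) (nat_lit 11518411319) (nat_lit 116) (nat_lit 5) (nat_lit 118) (nat_lit 4) (nat_lit 116) (nat_lit 4) (nat_lit 442) (nat_lit 291) (nat_lit 287))))) (XT.nd (nat_lit 312) (nat_lit 304) (nat_lit 0) (XT.nd (nat_lit 156) (nat_lit 228) (nat_lit 0) (XT.nd (nat_lit 78) (nat_lit 152) (nat_lit 0) (XT.lf (nat_lit 0) (nat_lit 21864371330) (nat_lit 76) (nat_lit 14237084744) (nat_lit 76) (nat_lit 14101730114) (nat_lit 115) (nat_lit 4) (nat_lit 116) (nat_lit 5) (nat_lit 116) (nat_lit 4) (nat_lit 443) (nat_lit 291) (nat_lit 286)) (XT.lf (nat_lit 0) (nat_lit 10146894522) (nat_lit 152) (nat_lit 31356764046) (nat_lit 0) (nat_lit 9995766959) (nat_lit 113) (nat_lit 5) (nat_lit 115) (nat_lit 4) (nat_lit 113) (nat_lit 4) (nat_lit 444) (nat_lit 291) (nat_lit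 285))) (XT.nd (nat_lit 78) (nat_lit 152) (nat_lit 0) (XT.lf (nat_lit 0) (nat_lit 17805834432) (nat_lit 76) (nat_lit 17600869176) (nat_lit 76) (nat_lit 17428581239) (nat_lit 112) (nat_lit 4) (nat_lit 113) (nat_lit 5) (nat_lit 113) (nat_lit 4) (nat_lit 445) (nat_lit 291) (nat_lit 284)) (XT.lf (nat_lit 0) (nat_lit 7615412745) (nat_lit 152) (nat_lit 39175882884) (nat_lit 0) (nat_lit 7432135914) (nat_lit 110) (nat_lit 5) (nat_lit 112) (nat_lit 4) (nat_lit 110) (nat_lit 4) (nat_lit 446) (nat_lit 291) (nat_lit 283)))) (XT.nd (nat_lit 156) (nat_lit 76) (nat_lit 0) (XT.nd (nat_lit 78) (nat_lit 152) (nat_lit 0) (XT.lf (nat_lit 0) (nat_lit 11489667256) (nat_lit 76) (nat_lit 22180682821) (nat_lit 76) (nat_lit 21979126863) (nat_lit 109) (nat_lit 4) (nat_lit 110) (nat_lit 5) (nat_lit 110) (nat_lit 4) (nat_lit 447) (nat_lit 291) (nat_lit 282)) (XT.lf (nat_lit 0) (nat_lit 3883160396) (nat_lit 152) (nat_lit 49579703062)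 (nat_lit 0) (nat_lit 3674622636) (nat_lit 107) (nat_lit 5) (nat_lit 109) (nat_lit 4) (nat_lit 107) (nat_lit 4) (nat_lit 448) (nat_lit 291) (nat_lit 281))) (XT.nd (nat_lit 78) (nat_lit 0) (nat_lit 0) (XT.lf (nat_lit 0) (nat_lit 2591229517) (nat_lit 76) (nat_lit 28146542904) (nat_lit 76) (nat_lit 27922214948) (nat_lit 106) (nat_lit 4) (nat_lit 107) (nat_lit 5) (nat_lit 107) (nat_lit 4) (nat_lit 449) (nat_lit 291) (nat_lit 280)) (XT.lf (nat_lit 0) (nat_lit 57628597808) (nat_lit 76) (nat_lit 1431564878) (nat_lit 76) (nat_lit 1192198640) (nat_lit 106) (nat_lit 4) (nat_lit 107) (nat_lit 5) (nat_lit 107) (nat_lit 4) (nat_lit 450) (nat_lit 291) (nat_lit 279)))))))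
noncomputable def xc18 : XT := (XT.nd (nat_lit 1248) (nat_lit 1520) (nat_lit 0) (XT.nd (nat_lit 624) (nat_lit 760) (nat_lit 0) (XT.nd (nat_lit 312) (nat_lit 380) (nat_lit 0) (XT.nd (nat_lit 156) (nat_lit 228) (nat_lit 0) (XT.nd (nat_lit 78) (nat_lit 76) (nat_lit 0) (XT.lf (nat_lit 0) (nat_lit 26580437949) (nat_lit 152) (nat_lit 8955793648) (nat_lit 0) (nat_lit 26338829938) (nat_lit 104) (nat_lit 5) (nat_lit 106) (nat_lit 4) (nat_lit 104) (nat_lit 4) (nat_lit 451) (nat_lit 291) (nat_lit 278)) (XT.lf (nat_lit 0) (nat_lit 47824160923) (nat_lit 76) (nat_lit 8001088415) (nat_lit 76) (nat_lit 7746489770) (nat_lit 103) (nat_lit 4) (nat_lit 104) (nat_lit 5) (nat_lit 104) (nat_lit 4) (nat_lit 452) (nat_lit 291) (nat_lit 277))) (XT.nd (nat_lit 78) (nat_lit 76) (nat_lit 0) (XT.lf (nat_lit 0) (nat_lit 20953313814) (nat_lit 152) (nat_lit 23661741255) (nat_lit 0) (nat_lit 20699056026) (nat_lit 101) (nat_lit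 5) (nat_lit 103) (nat_lit 4) (nat_lit 101) (nat_lit 4) (nat_lit 453) (nat_lit 291) (nat_lit 276)) (XT.lf (nat_lit 0) (nat_lit 34772479686) (nat_lit 76) (nat_lit 16308788660) (nat_lit 76) (nat_lit 16043309074) (nat_lit 100) (nat_lit 4) (nat_lit 101) (nat_lit 5) (nat_lit 101) (nat_lit 4) (nat_lit 454) (nat_lit 291) (nat_lit 275)))) (XT.nd (nat_lit 156) (nat_lit 152) (nat_lit 0) (XT.nd (nat_lit 78) (nat_lit 76) (nat_lit 0) (XT.lf (nat_lit 0) (nat_lit 13607103202) (nat_lit 152) (nat_lit 42045929008) (nat_lit 0) (nat_lit 13344087001) (nat_lit 98) (nat_lit 5) (nat_lit 100) (nat_lit 4) (nat_lit 98) (nat_lit 4) (nat_lit 455) (nat_lit 291) (nat_lit 274)) (XT.lf (nat_lit 0) (nat_lit 18027853109) (nat_lit 76) (nat_lit 26587144328) (nat_lit 76) (nat_lit 26314434316) (nat_lit 97) (nat_lit 4) (nat_lit 98) (nat_lit 5) (nat_lit 98) (nat_lit 4) (nat_lit 456) (nat_lit 291) (nat_lit 273))) (XT.nd (nat_lit 78) (nat_lit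 0) (nat_lit 0) (XT.lf (nat_lit 0) (nat_lit 4308784267) (nat_lit 152) (nat_lit 64594579350) (nat_lit 0) (nat_lit 4040267874) (nat_lit 95) (nat_lit 5) (nat_lit 97) (nat_lit 4) (nat_lit 95) (nat_lit 4) (nat_lit 457) (nat_lit 291) (nat_lit 272)) (XT.lf (nat_lit 0) (nat_lit 36233745220) (nat_lit 152) (nat_lit 2813625891) (nat_lit 0) (nat_lit 35956854949) (nat_lit 95) (nat_lit 5) (nat_lit 97) (nat_lit 4) (nat_lit 95) (nat_lit 4) (nat_lit 458) (nat_lit 291) (nat_lit 271))))) (XT.nd (nat_lit 312) (nat_lit 304) (nat_lit 0) (XT.nd (nat_lit 156) (nat_lit 228) (nat_lit 0) (XT.nd (nat_lit 78) (nat_lit 152) (nat_lit 0) (XT.lf (nat_lit 0) (nat_lit 62714298663) (nat_lit 76) (nat_lit 7361195056) (nat_lit 76) (nat_lit 7076329662) (nat_lit 94) (nat_lit 4) (nat_lit 95) (nat_lit 5) (nat_lit 95) (nat_lit 4) (nat_lit 459) (nat_lit 291) (nat_lit 270)) (XT.lf (nat_lit 0) (nat_lit 25982047607) (nat_lit 152) (nat_lit 27669876500)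 (nat_lit 0) (nat_lit 25703513561) (nat_lit 92) (nat_lit 5) (nat_lit 94) (nat_lit 4) (nat_lit 92) (nat_lit 4) (nat_lit 460) (nat_lit 291) (nat_lit 269))) (XT.nd (nat_lit 78) (nat_lit 152) (nat_lit 0) (XT.lf (nat_lit 0) (nat_lit 39637632727) (nat_lit 76) (nat_lit 21147374597) (nat_lit 76) (nat_lit 20861951342) (nat_lit 91) (nat_lit 4) (nat_lit 92) (nat_lit 5) (nat_lit 92) (nat_lit 4) (nat_lit 461) (nat_lit 291) (nat_lit 268)) (XT.lf (nat_lit 0) (nat_lit 13291950022) (nat_lit 152) (nat_lit 57714784240) (nat_lit 0) (nat_lit 13013869633) (nat_lit 89) (nat_lit 5) (nat_lit 91) (nat_lit 4) (nat_lit 89) (nat_lit 4) (nat_lit 462) (nat_lit 291) (nat_lit 267)))) (XT.nd (nat_lit 156) (nat_lit 228) (nat_lit 0) (XT.nd (nat_lit 78) (nat_lit 0) (nat_lit 0) (XT.lf (nat_lit 0) (nat_lit 11330752980) (nat_lit 76) (nat_lit 37709851096) (nat_lit 76) (nat_lit 37425819549) (nat_lit 88) (nat_lit 4) (nat_lit 89) (nat_lit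 5) (nat_lit 89) (nat_lit 4) (nat_lit 463) (nat_lit 291) (nat_lit 266)) (XT.lf (nat_lit 0) (nat_lit 84504664652) (nat_lit 76) (nat_lit 2401546496) (nat_lit 76) (nat_lit 2111847178) (nat_lit 88) (nat_lit 4) (nat_lit 89) (nat_lit 5) (nat_lit 89) (nat_lit 4) (nat_lit 464) (nat_lit 291) (nat_lit 265))) (XT.nd (nat_lit 78) (nat_lit 76) (nat_lit 0) (XT.lf (nat_lit 0) (nat_lit 34873092953) (nat_lit 152) (nat_lit 22153613623) (nat_lit 0) (nat_lit 34592048006) (nat_lit 86) (nat_lit 5) (nat_lit 88) (nat_lit 4) (nat_lit 86) (nat_lit 4) (nat_lit 465) (nat_lit 291) (nat_lit 264)) (XT.lf (nat_lit 0) (nat_lit 53299132417) (nat_lit 76) (nat_lit 20659230233) (nat_lit 76) (nat_lit 20373289253) (nat_lit 85) (nat_lit 4) (nat_lit 86) (nat_lit 5) (nat_lit 86) (nat_lit 4) (nat_lit 466) (nat_lit 291) (nat_lit 263)))))) (XT.nd (nat_lit 624) (nat_lit 836) (nat_lit 0) (XT.nd (nat_lit 312) (nat_lit 304) (nat_lit 0) (XT.nd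 (nat_lit 156) (nat_lit 152) (nat_lit 0) (XT.nd (nat_lit 78) (nat_lit 76) (nat_lit 0) (XT.lf (nat_lit 0) (nat_lit 17842390419) (nat_lit 152) (nat_lit 61728521311) (nat_lit 0) (nat_lit 17565624829) (nat_lit 83) (nat_lit 5) (nat_lit 85) (nat_lit 4) (nat_lit 83) (nat_lit 4) (nat_lit 467) (nat_lit 291) (nat_lit 262)) (XT.lf (nat_lit 0) (nat_lit 15577550421) (nat_lit 76) (nat_lit 42367679001) (nat_lit 76) (nat_lit 42086684034) (nat_lit 82) (nat_lit 4) (nat_lit 83) (nat_lit 5) (nat_lit 83) (nat_lit 4) (nat_lit 468) (nat_lit 291) (nat_lit 261))) (XT.nd (nat_lit 78) (nat_lit 152) (nat_lit 0) (XT.lf (nat_lit 0) (nat_lit 97627544107) (nat_lit 76) (nat_lit 2854059196) (nat_lit 76) (nat_lit 2569036250) (nat_lit 82) (nat_lit 4) (nat_lit 83) (nat_lit 5) (nat_lit 83) (nat_lit 4) (nat_lit 469) (nat_lit 291) (nat_lit 260)) (XT.lf (nat_lit 0) (nat_lit 38926230724) (nat_lit 152) (nat_lit 28550180219) (nat_lit 0) (nat_lit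 38651126804) (nat_lit 80) (nat_lit 5) (nat_lit 82) (nat_lit 4) (nat_lit 80) (nat_lit 4) (nat_lit 470) (nat_lit 291) (nat_lit 259)))) (XT.nd (nat_lit 156) (nat_lit 76) (nat_lit 0) (XT.nd (nat_lit 78) (nat_lit 152) (nat_lit 0) (XT.lf (nat_lit 0) (nat_lit 56041692972) (nat_lit 76) (nat_lit 26786086406) (nat_lit 76) (nat_lit 26507502967) (nat_lit 79) (nat_lit 4) (nat_lit 80) (nat_lit 5) (nat_lit 80) (nat_lit 4) (nat_lit 471) (nat_lit 291) (nat_lit 258)) (XT.lf (nat_lit 0) (nat_lit 16366790186) (nat_lit 152) (nat_lit 80192396035) (nat_lit 0) (nat_lit 16098316598) (nat_lit 77) (nat_lit 5) (nat_lit 79) (nat_lit 4) (nat_lit 77) (nat_lit 4) (nat_lit 472) (nat_lit 291) (nat_lit 257))) (XT.nd (nat_lit 78) (nat_lit 0) (nat_lit 0) (XT.lf (nat_lit 0) (nat_lit 6352088965) (nat_lit 76) (nat_lit 55000288475) (nat_lit 76) (nat_lit 54728809147) (nat_lit 76) (nat_lit 4) (nat_lit 77) (nat_lit 5) (nat_lit 77) (nat_lit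 4) (nat_lit 473) (nat_lit 291) (nat_lit 256)) (XT.lf (nat_lit 0) (nat_lit 98803619036) (nat_lit 76) (nat_lit 10554126193) (nat_lit 76) (nat_lit 10279784257) (nat_lit 76) (nat_lit 4) (nat_lit 77) (nat_lit 5) (nat_lit 77) (nat_lit 4) (nat_lit 474) (nat_lit 291) (nat_lit 255))))) (XT.nd (nat_lit 312) (nat_lit 456) (nat_lit 0) (XT.nd (nat_lit 156) (nat_lit 152) (nat_lit 0) (XT.nd (nat_lit 78) (nat_lit 76) (nat_lit 0) (XT.lf (nat_lit 0) (nat_lit 36382180499) (nat_lit 152) (nat_lit 50785031720) (nat_lit 0) (nat_lit 36118305993) (nat_lit 74) (nat_lit 5) (nat_lit 76) (nat_lit 4) (nat_lit 74) (nat_lit 4) (nat_lit 475) (nat_lit 291) (nat_lit 254)) (XT.lf (nat_lit 0) (nat_lit 44022571646) (nat_lit 76) (nat_lit 41659373754) (nat_lit 76) (nat_lit 41393026419) (nat_lit 73) (nat_lit 4) (nat_lit 74) (nat_lit 5) (nat_lit 74) (nat_lit 4) (nat_lit 476) (nat_lit 291) (nat_lit 253))) (XT.nd (nat_lit 78) (nat_lit 0)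 (nat_lit 0) (XT.lf (nat_lit 0) (nat_lit 6809661821) (nat_lit 152) (nat_lit 117654417499) (nat_lit 0) (nat_lit 6553754763) (nat_lit 71) (nat_lit 5) (nat_lit 73) (nat_lit 4) (nat_lit 71) (nat_lit 4) (nat_lit 477) (nat_lit 291) (nat_lit 252)) (XT.lf (nat_lit 0) (nat_lit 57575169118) (nat_lit 152) (nat_lit 20154427610) (nat_lit 0) (nat_lit 57317125937) (nat_lit 71) (nat_lit 5) (nat_lit 73) (nat_lit 4) (nat_lit 71) (nat_lit 4) (nat_lit 478) (nat_lit 291) (nat_lit 251)))) (XT.nd (nat_lit 156) (nat_lit 228) (nat_lit 0) (XT.nd (nat_lit 78) (nat_lit 152) (nat_lit 0) (XT.lf (nat_lit 0) (nat_lit 83792189327) (nat_lit 76) (nat_lit 27853308318) (nat_lit 76) (nat_lit 27593230734) (nat_lit 70) (nat_lit 4) (nat_lit 71) (nat_lit 5) (nat_lit 71) (nat_lit 4) (nat_lit 479) (nat_lit 291) (nat_lit 250)) (XT.lf (nat_lit 0) (nat_lit 24972335977) (nat_lit 152) (nat_lit 93876536601) (nat_lit 0) (nat_lit 24722797777) (nat_lit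 68) (nat_lit 5) (nat_lit 70) (nat_lit 4) (nat_lit 68) (nat_lit 4) (nat_lit 480) (nat_lit 291) (nat_lit 249))) (XT.nd (nat_lit 78) (nat_lit 152) (nat_lit 0) (XT.lf (nat_lit 0) (nat_lit 12303748461) (nat_lit 76) (nat_lit 67996558592) (nat_lit 76) (nat_lit 67745262997) (nat_lit 67) (nat_lit 4) (nat_lit 68) (nat_lit 5) (nat_lit 68) (nat_lit 4) (nat_lit 481) (nat_lit 291) (nat_lit 248)) (XT.nd (nat_lit 78) (nat_lit 152) (nat_lit 0) (XT.lf (nat_lit 0) (nat_lit 125959881381) (nat_lit 76) (nat_lit 13491703617) (nat_lit 76) (nat_lit 13238734315) (nat_lit 67) (nat_lit 4) (nat_lit 68) (nat_lit 5) (nat_lit 68) (nat_lit 4) (nat_lit 482) (nat_lit 291) (nat_lit 247)) (XT.lf (nat_lit 0) (nat_lit 44164498972) (nat_lit 152) (nat_lit 69367434910) (nat_lit 0) (nat_lit 43922057724) (nat_lit 65) (nat_lit 5) (nat_lit 67) (nat_lit 4) (nat_lit 65) (nat_lit 4) (nat_lit 483) (nat_lit 291) (nat_lit 246))))))))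
noncomputable def xc19 : XT := (XT.nd (nat_lit 50856) (nat_lit 0) (nat_lit 760) (XT.nd (nat_lit 49608) (nat_lit 0) (nat_lit 3648) (XT.nd (nat_lit 624) (nat_lit 304) (nat_lit 0) (XT.nd (nat_lit 312) (nat_lit 380) (nat_lit 0) (XT.nd (nat_lit 156) (nat_lit 76) (nat_lit 0) (XT.nd (nat_lit 78) (nat_lit 152) (nat_lit 0) (XT.lf (nat_lit 0) (nat_lit 47145128607) (nat_lit 76) (nat_lit 57749340194) (nat_lit 76) (nat_lit 57505453134) (nat_lit 64) (nat_lit 4) (nat_lit 65) (nat_lit 5) (nat_lit 65) (nat_lit 4) (nat_lit 484) (nat_lit 291) (nat_lit 245)) (XT.lf (nat_lit 0) (nat_lit 1789508930) (nat_lit 152) (nat_lit 164209087322) (nat_lit 0) (nat_lit 1555924145) (nat_lit 62) (nat_lit 5) (nat_lit 64) (nat_lit 4) (nat_lit 62) (nat_lit 4) (nat_lit 485) (nat_lit 291) (nat_lit 244))) (XT.nd (nat_lit 78) (nat_lit 76) (nat_lit 0) (XT.lf (nat_lit 0) (nat_lit 64531395897) (nat_lit 152) (nat_lit 43971018246) (nat_lit 0)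 (nat_lit 64296562166) (nat_lit 62) (nat_lit 5) (nat_lit 64) (nat_lit 4) (nat_lit 62) (nat_lit 4) (nat_lit 486) (nat_lit 291) (nat_lit 243)) (XT.lf (nat_lit 0) (nat_lit 83959122842) (nat_lit 76) (nat_lit 47270789316) (nat_lit 76) (nat_lit 47034766111) (nat_lit 61) (nat_lit 4) (nat_lit 62) (nat_lit 5) (nat_lit 62) (nat_lit 4) (nat_lit 487) (nat_lit 291) (nat_lit 242)))) (XT.nd (nat_lit 156) (nat_lit 228) (nat_lit 0) (XT.nd (nat_lit 78) (nat_lit 0) (nat_lit 0) (XT.lf (nat_lit 0) (nat_lit 17813900871) (nat_lit 152) (nat_lit 148532921383) (nat_lit 0) (nat_lit 17588037979) (nat_lit 59) (nat_lit 5) (nat_lit 61) (nat_lit 4) (nat_lit 59) (nat_lit 4) (nat_lit 488) (nat_lit 291) (nat_lit 241)) (XT.lf (nat_lit 0) (nat_lit 86231251143) (nat_lit 152) (nat_lit 17519039999) (nat_lit 0) (nat_lit 86004360739) (nat_lit 59) (nat_lit 5) (nat_lit 61) (nat_lit 4) (nat_lit 59) (nat_lit 4) (nat_lit 489) (nat_lit 291) (nat_lit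 240))) (XT.nd (nat_lit 78) (nat_lit 152) (nat_lit 0) (XT.lf (nat_lit 0) (nat_lit 123023972641) (nat_lit 76) (nat_lit 36498343547) (nat_lit 76) (nat_lit 36270474561) (nat_lit 58) (nat_lit 4) (nat_lit 59) (nat_lit 5) (nat_lit 59) (nat_lit 4) (nat_lit 490) (nat_lit 291) (nat_lit 239)) (XT.lf (nat_lit 0) (nat_lit 34726149196) (nat_lit 152) (nat_lit 132797617249) (nat_lit 0) (nat_lit 34508243510) (nat_lit 56) (nat_lit 5) (nat_lit 58) (nat_lit 4) (nat_lit 56) (nat_lit 4) (nat_lit 491) (nat_lit 291) (nat_lit 238))))) (XT.nd (nat_lit 312) (nat_lit 0) (nat_lit 0) (XT.nd (nat_lit 156) (nat_lit 228) (nat_lit 0) (XT.nd (nat_lit 78) (nat_lit 0) (nat_lit 0) (XT.lf (nat_lit 0) (nat_lit 10506601582) (nat_lit 76) (nat_lit 99094128537) (nat_lit 76) (nat_lit 98875377515) (nat_lit 55) (nat_lit 4) (nat_lit 56) (nat_lit 5) (nat_lit 56) (nat_lit 4) (nat_lit 492) (nat_lit 291) (nat_lit 237)) (XT.lf (nat_lit 0) (nat_lit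 164642831446) (nat_lit 76) (nat_lit 25364851361) (nat_lit 76) (nat_lit 25145295257) (nat_lit 55) (nat_lit 4) (nat_lit 56) (nat_lit 5) (nat_lit 56) (nat_lit 4) (nat_lit 493) (nat_lit 291) (nat_lit 236))) (XT.nd (nat_lit 78) (nat_lit 76) (nat_lit 0) (XT.lf (nat_lit 0) (nat_lit 52653249922) (nat_lit 152) (nat_lit 116923470059) (nat_lit 0) (nat_lit 52443418637) (nat_lit 53) (nat_lit 5) (nat_lit 55) (nat_lit 4) (nat_lit 53) (nat_lit 4) (nat_lit 494) (nat_lit 291) (nat_lit 235)) (XT.lf (nat_lit 0) (nat_lit 40593281531) (nat_lit 76) (nat_lit 94376810350) (nat_lit 76) (nat_lit 94166283605) (nat_lit 52) (nat_lit 4) (nat_lit 53) (nat_lit 5) (nat_lit 53) (nat_lit 4) (nat_lit 495) (nat_lit 291) (nat_lit 234)))) (XT.nd (nat_lit 48516) (nat_lit 0) (nat_lit 5320) (XT.nd (nat_lit 48438) (nat_lit 0) (nat_lit 5548) (XT.lf (nat_lit 0) (nat_lit 209146487540) (nat_lit 76) (nat_lit 13798019593) (nat_lit 76) (nat_lit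 13586830504) (nat_lit 52) (nat_lit 4) (nat_lit 53) (nat_lit 5) (nat_lit 53) (nat_lit 4) (nat_lit 496) (nat_lit 291) (nat_lit 233)) (XT.lf (nat_lit 0) (nat_lit 5719847849) (nat_lit 152) (nat_lit 9674113812) (nat_lit 0) (nat_lit 5719847849) (nat_lit 125) (nat_lit 5) (nat_lit 127) (nat_lit 4) (nat_lit 125) (nat_lit 4) (nat_lit 436) (nat_lit 292) (nat_lit 292))) (XT.nd (nat_lit 78) (nat_lit 152) (nat_lit 0) (XT.lf (nat_lit 0) (nat_lit 23249539393) (nat_lit 76) (nat_lit 10030175123) (nat_lit 76) (nat_lit 9993983704) (nat_lit 124) (nat_lit 4) (nat_lit 125) (nat_lit 5) (nat_lit 125) (nat_lit 4) (nat_lit 437) (nat_lit 292) (nat_lit 291)) (XT.lf (nat_lit 0) (nat_lit 11654145044) (nat_lit 152) (nat_lit 21112171736) (nat_lit 0) (nat_lit 11586850343) (nat_lit 122) (nat_lit 5) (nat_lit 124) (nat_lit 4) (nat_lit 122) (nat_lit 4) (nat_lit 438) (nat_lit 292) (nat_lit 290)))))) (XT.nd (nat_lit 624) (nat_lit 760)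 (nat_lit 0) (XT.nd (nat_lit 312) (nat_lit 456) (nat_lit 0) (XT.nd (nat_lit 156) (nat_lit 228) (nat_lit 0) (XT.nd (nat_lit 78) (nat_lit 152) (nat_lit 0) (XT.lf (nat_lit 0) (nat_lit 22877317324) (nat_lit 76) (nat_lit 11345479777) (nat_lit 76) (nat_lit 11246921567) (nat_lit 121) (nat_lit 4) (nat_lit 122) (nat_lit 5) (nat_lit 122) (nat_lit 4) (nat_lit 439) (nat_lit 292) (nat_lit 289)) (XT.lf (nat_lit 0) (nat_lit 11113265971) (nat_lit 152) (nat_lit 24519161768) (nat_lit 0) (nat_lit 10991044085) (nat_lit 119) (nat_lit 5) (nat_lit 121) (nat_lit 4) (nat_lit 119) (nat_lit 4) (nat_lit 440) (nat_lit 292) (nat_lit 288))) (XT.nd (nat_lit 78) (nat_lit 152) (nat_lit 0) (XT.lf (nat_lit 0) (nat_lit 20879914386) (nat_lit 76) (nat_lit 13542286269) (nat_lit 76) (nat_lit 13393057789) (nat_lit 118) (nat_lit 4) (nat_lit 119) (nat_lit 5) (nat_lit 119) (nat_lit 4) (nat_lit 441) (nat_lit 292) (nat_lit 287)) (XT.lf (nat_lit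 0) (nat_lit 9701922868) (nat_lit 152) (nat_lit 29812403403) (nat_lit 0) (nat_lit 9535304729) (nat_lit 116) (nat_lit 5) (nat_lit 118) (nat_lit 4) (nat_lit 116) (nat_lit 4) (nat_lit 442) (nat_lit 292) (nat_lit 286)))) (XT.nd (nat_lit 156) (nat_lit 228) (nat_lit 0) (XT.nd (nat_lit 78) (nat_lit 152) (nat_lit 0) (XT.lf (nat_lit 0) (nat_lit 17009735308) (nat_lit 76) (nat_lit 16750998802) (nat_lit 76) (nat_lit 16561051352) (nat_lit 115) (nat_lit 4) (nat_lit 116) (nat_lit 5) (nat_lit 116) (nat_lit 4) (nat_lit 443) (nat_lit 292) (nat_lit 285)) (XT.lf (nat_lit 0) (nat_lit 7291104714) (nat_lit 152) (nat_lit 37263557034) (nat_lit 0) (nat_lit 7089042007) (nat_lit 113) (nat_lit 5) (nat_lit 115) (nat_lit 4) (nat_lit 113) (nat_lit 4) (nat_lit 444) (nat_lit 292) (nat_lit 284))) (XT.nd (nat_lit 78) (nat_lit 152) (nat_lit 0) (XT.lf (nat_lit 0) (nat_lit 10989966097) (nat_lit 76) (nat_lit 21117004783) (nat_lit 76)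 (nat_lit 20894789341) (nat_lit 112) (nat_lit 4) (nat_lit 113) (nat_lit 5) (nat_lit 113) (nat_lit 4) (nat_lit 445) (nat_lit 292) (nat_lit 283)) (XT.lf (nat_lit 0) (nat_lit 3736426284) (nat_lit 152) (nat_lit 47175859025) (nat_lit 0) (nat_lit 3506513404) (nat_lit 110) (nat_lit 5) (nat_lit 112) (nat_lit 4) (nat_lit 110) (nat_lit 4) (nat_lit 446) (nat_lit 292) (nat_lit 282))))) (XT.nd (nat_lit 312) (nat_lit 456) (nat_lit 0) (XT.nd (nat_lit 156) (nat_lit 228) (nat_lit 0) (XT.nd (nat_lit 78) (nat_lit 0) (nat_lit 0) (XT.lf (nat_lit 0) (nat_lit 2511359210) (nat_lit 76) (nat_lit 26802344728) (nat_lit 76) (nat_lit 26555023156) (nat_lit 109) (nat_lit 4) (nat_lit 110) (nat_lit 5) (nat_lit 110) (nat_lit 4) (nat_lit 447) (nat_lit 292) (nat_lit 281)) (XT.lf (nat_lit 0) (nat_lit 54927135791) (nat_lit 76) (nat_lit 1361001397) (nat_lit 76) (nat_lit 1097100119) (nat_lit 109) (nat_lit 4) (nat_lit 110) (nat_lit 5) (nat_lit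 110) (nat_lit 4) (nat_lit 448) (nat_lit 292) (nat_lit 280))) (XT.nd (nat_lit 78) (nat_lit 76) (nat_lit 0) (XT.lf (nat_lit 0) (nat_lit 25353179546) (nat_lit 152) (nat_lit 8490581084) (nat_lit 0) (nat_lit 25086806713) (nat_lit 107) (nat_lit 5) (nat_lit 109) (nat_lit 4) (nat_lit 107) (nat_lit 4) (nat_lit 449) (nat_lit 292) (nat_lit 279)) (XT.lf (nat_lit 0) (nat_lit 45586186719) (nat_lit 76) (nat_lit 7620448166) (nat_lit 76) (nat_lit 7339753160) (nat_lit 106) (nat_lit 4) (nat_lit 107) (nat_lit 5) (nat_lit 107) (nat_lit 4) (nat_lit 450) (nat_lit 292) (nat_lit 278)))) (XT.nd (nat_lit 156) (nat_lit 228) (nat_lit 0) (XT.nd (nat_lit 78) (nat_lit 76) (nat_lit 0) (XT.lf (nat_lit 0) (nat_lit 19993370367) (nat_lit 152) (nat_lit 22499279419) (nat_lit 0) (nat_lit 19713051156) (nat_lit 104) (nat_lit 5) (nat_lit 106) (nat_lit 4) (nat_lit 104) (nat_lit 4) (nat_lit 451) (nat_lit 292) (nat_lit 277)) (XT.lf (nat_lit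 0) (nat_lit 33152969789) (nat_lit 76) (nat_lit 15534810033) (nat_lit 76) (nat_lit 15242118791) (nat_lit 103) (nat_lit 4) (nat_lit 104) (nat_lit 5) (nat_lit 104) (nat_lit 4) (nat_lit 452) (nat_lit 292) (nat_lit 276))) (XT.nd (nat_lit 78) (nat_lit 76) (nat_lit 0) (XT.lf (nat_lit 0) (nat_lit 12996204725) (nat_lit 152) (nat_lit 40010757251) (nat_lit 0) (nat_lit 12706229363) (nat_lit 101) (nat_lit 5) (nat_lit 103) (nat_lit 4) (nat_lit 101) (nat_lit 4) (nat_lit 453) (nat_lit 292) (nat_lit 275)) (XT.lf (nat_lit 0) (nat_lit 17202966298) (nat_lit 76) (nat_lit 25325567708) (nat_lit 76) (nat_lit 25024904919) (nat_lit 100) (nat_lit 4) (nat_lit 101) (nat_lit 5) (nat_lit 101) (nat_lit 4) (nat_lit 454) (nat_lit 292) (nat_lit 274))))))) (XT.nd (nat_lit 1248) (nat_lit 1368) (nat_lit 0) (XT.nd (nat_lit 624) (nat_lit 836) (nat_lit 0) (XT.nd (nat_lit 312) (nat_lit 304) (nat_lit 0) (XT.nd (nat_lit 156) (nat_lit 228)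 (nat_lit 0) (XT.nd (nat_lit 78) (nat_lit 0) (nat_lit 0) (XT.lf (nat_lit 0) (nat_lit 4139785345) (nat_lit 152) (nat_lit 61488120204) (nat_lit 0) (nat_lit 3843746021) (nat_lit 98) (nat_lit 5) (nat_lit 100) (nat_lit 4) (nat_lit 98) (nat_lit 4) (nat_lit 455) (nat_lit 292) (nat_lit 273)) (XT.lf (nat_lit 0) (nat_lit 34544922218) (nat_lit 152) (nat_lit 2649529067) (nat_lit 0) (nat_lit 34239650694) (nat_lit 98) (nat_lit 5) (nat_lit 100) (nat_lit 4) (nat_lit 98) (nat_lit 4) (nat_lit 456) (nat_lit 292) (nat_lit 272))) (XT.nd (nat_lit 78) (nat_lit 152) (nat_lit 0) (XT.lf (nat_lit 0) (nat_lit 59758608344) (nat_lit 76) (nat_lit 7017422459) (nat_lit 76) (nat_lit 6703358363) (nat_lit 97) (nat_lit 4) (nat_lit 98) (nat_lit 5) (nat_lit 98) (nat_lit 4) (nat_lit 457) (nat_lit 292) (nat_lit 271)) (XT.lf (nat_lit 0) (nat_lit 24780388012) (nat_lit 152) (nat_lit 26324312600) (nat_lit 0) (nat_lit 24473304227) (nat_lit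 95) (nat_lit 5) (nat_lit 97) (nat_lit 4) (nat_lit 95) (nat_lit 4) (nat_lit 458) (nat_lit 292) (nat_lit 270)))) (XT.nd (nat_lit 156) (nat_lit 76) (nat_lit 0) (XT.nd (nat_lit 78) (nat_lit 152) (nat_lit 0) (XT.lf (nat_lit 0) (nat_lit 37778651023) (nat_lit 76) (nat_lit 20148197342) (nat_lit 76) (nat_lit 19833518203) (nat_lit 94) (nat_lit 4) (nat_lit 95) (nat_lit 5) (nat_lit 95) (nat_lit 4) (nat_lit 459) (nat_lit 292) (nat_lit 269)) (XT.lf (nat_lit 0) (nat_lit 12693516960) (nat_lit 152) (nat_lit 54940471929) (nat_lit 0) (nat_lit 12386933331) (nat_lit 92) (nat_lit 5) (nat_lit 94) (nat_lit 4) (nat_lit 92) (nat_lit 4) (nat_lit 460) (nat_lit 292) (nat_lit 268))) (XT.nd (nat_lit 78) (nat_lit 0) (nat_lit 0) (XT.lf (nat_lit 0) (nat_lit 10817739291) (nat_lit 76) (nat_lit 35922822232) (nat_lit 76) (nat_lit 35609677451) (nat_lit 91) (nat_lit 4) (nat_lit 92) (nat_lit 5) (nat_lit 92) (nat_lit 4) (nat_lit 461) (nat_lit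 292) (nat_lit 267)) (XT.lf (nat_lit 0) (nat_lit 80506890791) (nat_lit 76) (nat_lit 2296428123) (nat_lit 76) (nat_lit 1977034624) (nat_lit 91) (nat_lit 4) (nat_lit 92) (nat_lit 5) (nat_lit 92) (nat_lit 4) (nat_lit 462) (nat_lit 292) (nat_lit 266))))) (XT.nd (nat_lit 312) (nat_lit 380) (nat_lit 0) (XT.nd (nat_lit 156) (nat_lit 228) (nat_lit 0) (XT.nd (nat_lit 78) (nat_lit 76) (nat_lit 0) (XT.lf (nat_lit 0) (nat_lit 33246140427) (nat_lit 152) (nat_lit 21074725644) (nat_lit 0) (nat_lit 32936288373) (nat_lit 89) (nat_lit 5) (nat_lit 91) (nat_lit 4) (nat_lit 89) (nat_lit 4) (nat_lit 463) (nat_lit 292) (nat_lit 265)) (XT.lf (nat_lit 0) (nat_lit 50785575569) (nat_lit 76) (nat_lit 19685254685) (nat_lit 76) (nat_lit 19370004754) (nat_lit 88) (nat_lit 4) (nat_lit 89) (nat_lit 5) (nat_lit 89) (nat_lit 4) (nat_lit 464) (nat_lit 292) (nat_lit 264))) (XT.nd (nat_lit 78) (nat_lit 76) (nat_lit 0) (XT.lf (nat_lit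 0) (nat_lit 17025268430) (nat_lit 152) (nat_lit 58766702665) (nat_lit 0) (nat_lit 16720134367) (nat_lit 86) (nat_lit 5) (nat_lit 88) (nat_lit 4) (nat_lit 86) (nat_lit 4) (nat_lit 465) (nat_lit 292) (nat_lit 263)) (XT.lf (nat_lit 0) (nat_lit 14858652002) (nat_lit 76) (nat_lit 40360361971) (nat_lit 76) (nat_lit 40050565019) (nat_lit 85) (nat_lit 4) (nat_lit 86) (nat_lit 5) (nat_lit 86) (nat_lit 4) (nat_lit 466) (nat_lit 292) (nat_lit 262)))) (XT.nd (nat_lit 156) (nat_lit 228) (nat_lit 0) (XT.nd (nat_lit 78) (nat_lit 152) (nat_lit 0) (XT.lf (nat_lit 0) (nat_lit 93001298321) (nat_lit 76) (nat_lit 2728742975) (nat_lit 76) (nat_lit 2414505177) (nat_lit 85) (nat_lit 4) (nat_lit 86) (nat_lit 5) (nat_lit 86) (nat_lit 4) (nat_lit 467) (nat_lit 292) (nat_lit 261)) (XT.lf (nat_lit 0) (nat_lit 37104134866) (nat_lit 152) (nat_lit 27169914481) (nat_lit 0) (nat_lit 36800832794) (nat_lit 83) (nat_lit 5) (nat_lit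 85) (nat_lit 4) (nat_lit 83) (nat_lit 4) (nat_lit 468) (nat_lit 292) (nat_lit 260))) (XT.nd (nat_lit 78) (nat_lit 152) (nat_lit 0) (XT.lf (nat_lit 0) (nat_lit 53394282888) (nat_lit 76) (nat_lit 25521353602) (nat_lit 76) (nat_lit 25214215360) (nat_lit 82) (nat_lit 4) (nat_lit 83) (nat_lit 5) (nat_lit 83) (nat_lit 4) (nat_lit 469) (nat_lit 292) (nat_lit 259)) (XT.lf (nat_lit 0) (nat_lit 15617770215) (nat_lit 152) (nat_lit 76354282907) (nat_lit 0) (nat_lit 15321778085) (nat_lit 80) (nat_lit 5) (nat_lit 82) (nat_lit 4) (nat_lit 80) (nat_lit 4) (nat_lit 470) (nat_lit 292) (nat_lit 258)))))) (XT.nd (nat_lit 624) (nat_lit 684) (nat_lit 0) (XT.nd (nat_lit 312) (nat_lit 380) (nat_lit 0) (XT.nd (nat_lit 156) (nat_lit 228) (nat_lit 0) (XT.nd (nat_lit 78) (nat_lit 0) (nat_lit 0) (XT.lf (nat_lit 0) (nat_lit 6069525673) (nat_lit 76) (nat_lit 52392119878) (nat_lit 76) (nat_lit 52092813919) (nat_lit 79) (nat_lit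 4) (nat_lit 80) (nat_lit 5) (nat_lit 80) (nat_lit 4) (nat_lit 471) (nat_lit 292) (nat_lit 257)) (XT.lf (nat_lit 0) (nat_lit 94118456376) (nat_lit 76) (nat_lit 10062725692) (nat_lit 76) (nat_lit 9760263707) (nat_lit 79) (nat_lit 4) (nat_lit 80) (nat_lit 5) (nat_lit 80) (nat_lit 4) (nat_lit 472) (nat_lit 292) (nat_lit 256))) (XT.nd (nat_lit 78) (nat_lit 76) (nat_lit 0) (XT.lf (nat_lit 0) (nat_lit 34679004298) (nat_lit 152) (nat_lit 48348597276) (nat_lit 0) (nat_lit 34388082655) (nat_lit 77) (nat_lit 5) (nat_lit 79) (nat_lit 4) (nat_lit 77) (nat_lit 4) (nat_lit 473) (nat_lit 292) (nat_lit 255)) (XT.lf (nat_lit 0) (nat_lit 41944831030) (nat_lit 76) (nat_lit 39686741994) (nat_lit 76) (nat_lit 39393094057) (nat_lit 76) (nat_lit 4) (nat_lit 77) (nat_lit 5) (nat_lit 77) (nat_lit 4) (nat_lit 474) (nat_lit 292) (nat_lit 254)))) (XT.nd (nat_lit 156) (nat_lit 228) (nat_lit 0) (XT.nd (nat_lit 78) (nat_lit 0)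 (nat_lit 0) (XT.lf (nat_lit 0) (nat_lit 6513531459) (nat_lit 152) (nat_lit 112034814787) (nat_lit 0) (nat_lit 6231393928) (nat_lit 74) (nat_lit 5) (nat_lit 76) (nat_lit 4) (nat_lit 74) (nat_lit 4) (nat_lit 475) (nat_lit 292) (nat_lit 253)) (XT.lf (nat_lit 0) (nat_lit 54861738785) (nat_lit 152) (nat_lit 19177786697) (nat_lit 0) (nat_lit 54577246178) (nat_lit 74) (nat_lit 5) (nat_lit 76) (nat_lit 4) (nat_lit 74) (nat_lit 4) (nat_lit 476) (nat_lit 292) (nat_lit 252))) (XT.nd (nat_lit 78) (nat_lit 152) (nat_lit 0) (XT.lf (nat_lit 0) (nat_lit 79819446892) (nat_lit 76) (nat_lit 26538214070) (nat_lit 76) (nat_lit 26251478534) (nat_lit 73) (nat_lit 4) (nat_lit 74) (nat_lit 5) (nat_lit 74) (nat_lit 4) (nat_lit 477) (nat_lit 292) (nat_lit 251)) (XT.lf (nat_lit 0) (nat_lit 23810262724) (nat_lit 152) (nat_lit 89390310316) (nat_lit 0) (nat_lit 23535146858) (nat_lit 71) (nat_lit 5) (nat_lit 73) (nat_lit 4) (nat_lit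 71) (nat_lit 4) (nat_lit 478) (nat_lit 292) (nat_lit 250))))) (XT.nd (nat_lit 312) (nat_lit 380) (nat_lit 0) (XT.nd (nat_lit 156) (nat_lit 228) (nat_lit 0) (XT.nd (nat_lit 78) (nat_lit 0) (nat_lit 0) (XT.lf (nat_lit 0) (nat_lit 11734207559) (nat_lit 76) (nat_lit 64769702747) (nat_lit 76) (nat_lit 64492649355) (nat_lit 70) (nat_lit 4) (nat_lit 71) (nat_lit 5) (nat_lit 71) (nat_lit 4) (nat_lit 479) (nat_lit 292) (nat_lit 249)) (XT.lf (nat_lit 0) (nat_lit 119978058571) (nat_lit 76) (nat_lit 12860483210) (nat_lit 76) (nat_lit 12581584554) (nat_lit 70) (nat_lit 4) (nat_lit 71) (nat_lit 5) (nat_lit 71) (nat_lit 4) (nat_lit 480) (nat_lit 292) (nat_lit 248))) (XT.nd (nat_lit 78) (nat_lit 76) (nat_lit 0) (XT.lf (nat_lit 0) (nat_lit 42087458960) (nat_lit 152) (nat_lit 66049302119) (nat_lit 0) (nat_lit 41820167484) (nat_lit 68) (nat_lit 5) (nat_lit 70) (nat_lit 4) (nat_lit 68) (nat_lit 4) (nat_lit 481) (nat_lit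 292) (nat_lit 247)) (XT.lf (nat_lit 0) (nat_lit 44915463948) (nat_lit 76) (nat_lit 55010372200) (nat_lit 76) (nat_lit 54741486717) (nat_lit 67) (nat_lit 4) (nat_lit 68) (nat_lit 5) (nat_lit 68) (nat_lit 4) (nat_lit 482) (nat_lit 292) (nat_lit 246)))) (XT.nd (nat_lit 156) (nat_lit 228) (nat_lit 0) (XT.nd (nat_lit 78) (nat_lit 0) (nat_lit 0) (XT.lf (nat_lit 0) (nat_lit 1729218317) (nat_lit 152) (nat_lit 156375528240) (nat_lit 0) (nat_lit 1471691091) (nat_lit 65) (nat_lit 5) (nat_lit 67) (nat_lit 4) (nat_lit 65) (nat_lit 4) (nat_lit 483) (nat_lit 292) (nat_lit 245)) (XT.lf (nat_lit 0) (nat_lit 61483457853) (nat_lit 152) (nat_lit 41863142974) (nat_lit 0) (nat_lit 61224553664) (nat_lit 65) (nat_lit 5) (nat_lit 67) (nat_lit 4) (nat_lit 65) (nat_lit 4) (nat_lit 484) (nat_lit 292) (nat_lit 244))) (XT.nd (nat_lit 78) (nat_lit 152) (nat_lit 0) (XT.lf (nat_lit 0) (nat_lit 79975489627) (nat_lit 76) (nat_lit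 45030648351) (nat_lit 76) (nat_lit 44770432767) (nat_lit 64) (nat_lit 4) (nat_lit 65) (nat_lit 5) (nat_lit 65) (nat_lit 4) (nat_lit 485) (nat_lit 292) (nat_lit 243)) (XT.lf (nat_lit 0) (nat_lit 16989524517) (nat_lit 152) (nat_lit 141446684214) (nat_lit 0) (nat_lit 16740510679) (nat_lit 62) (nat_lit 5) (nat_lit 64) (nat_lit 4) (nat_lit 62) (nat_lit 4) (nat_lit 486) (nat_lit 292) (nat_lit 242))))))))
noncomputable def xc20 : XT := (XT.nd (nat_lit 49452) (nat_lit 0) (nat_lit 3648) (XT.nd (nat_lit 624) (nat_lit 228) (nat_lit 0) (XT.nd (nat_lit 312) (nat_lit 228) (nat_lit 0) (XT.nd (nat_lit 156) (nat_lit 228) (nat_lit 0) (XT.nd (nat_lit 78) (nat_lit 76) (nat_lit 0) (XT.lf (nat_lit 0) (nat_lit 82148956302) (nat_lit 152) (nat_lit 16671609660) (nat_lit 0) (nat_lit 81898809632) (nat_lit 62) (nat_lit 5) (nat_lit 64) (nat_lit 4) (nat_lit 62) (nat_lit 4) (nat_lit 487) (nat_lit 292) (nat_lit 241)) (XT.lf (nat_lit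 0) (nat_lit 117179264943) (nat_lit 76) (nat_lit 34770965824) (nat_lit 76) (nat_lit 34519740266) (nat_lit 61) (nat_lit 4) (nat_lit 62) (nat_lit 5) (nat_lit 62) (nat_lit 4) (nat_lit 488) (nat_lit 292) (nat_lit 240))) (XT.nd (nat_lit 78) (nat_lit 76) (nat_lit 0) (XT.lf (nat_lit 0) (nat_lit 33095427092) (nat_lit 152) (nat_lit 126461448520) (nat_lit 0) (nat_lit 32855186073) (nat_lit 59) (nat_lit 5) (nat_lit 61) (nat_lit 4) (nat_lit 59) (nat_lit 4) (nat_lit 489) (nat_lit 292) (nat_lit 239)) (XT.lf (nat_lit 0) (nat_lit 10019129310) (nat_lit 76) (nat_lit 94385664579) (nat_lit 76) (nat_lit 94144491577) (nat_lit 58) (nat_lit 4) (nat_lit 59) (nat_lit 5) (nat_lit 59) (nat_lit 4) (nat_lit 490) (nat_lit 292) (nat_lit 238)))) (XT.nd (nat_lit 156) (nat_lit 76) (nat_lit 0) (XT.nd (nat_lit 78) (nat_lit 152) (nat_lit 0) (XT.lf (nat_lit 0) (nat_lit 156815497768) (nat_lit 76) (nat_lit 24167385285) (nat_lit 76) (nat_lit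 23925324681) (nat_lit 58) (nat_lit 4) (nat_lit 59) (nat_lit 5) (nat_lit 59) (nat_lit 4) (nat_lit 491) (nat_lit 292) (nat_lit 237)) (XT.lf (nat_lit 0) (nat_lit 50167878992) (nat_lit 152) (nat_lit 111343920344) (nat_lit 0) (nat_lit 49936540000) (nat_lit 56) (nat_lit 5) (nat_lit 58) (nat_lit 4) (nat_lit 56) (nat_lit 4) (nat_lit 492) (nat_lit 292) (nat_lit 236))) (XT.nd (nat_lit 78) (nat_lit 0) (nat_lit 0) (XT.lf (nat_lit 0) (nat_lit 38672387207) (nat_lit 76) (nat_lit 89892707569) (nat_lit 76) (nat_lit 89660601833) (nat_lit 55) (nat_lit 4) (nat_lit 56) (nat_lit 5) (nat_lit 56) (nat_lit 4) (nat_lit 493) (nat_lit 292) (nat_lit 235)) (XT.lf (nat_lit 0) (nat_lit 199199216395) (nat_lit 76) (nat_lit 13151067839) (nat_lit 76) (nat_lit 12918231869) (nat_lit 55) (nat_lit 4) (nat_lit 56) (nat_lit 5) (nat_lit 56) (nat_lit 4) (nat_lit 494) (nat_lit 292) (nat_lit 234))))) (XT.nd (nat_lit 48516) (nat_lit 0) (nat_lit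 5244) (XT.nd (nat_lit 48360) (nat_lit 0) (nat_lit 5700) (XT.nd (nat_lit 78) (nat_lit 76) (nat_lit 0) (XT.lf (nat_lit 0) (nat_lit 68338587685) (nat_lit 152) (nat_lit 96013747301) (nat_lit 0) (nat_lit 68116176799) (nat_lit 53) (nat_lit 5) (nat_lit 55) (nat_lit 4) (nat_lit 53) (nat_lit 4) (nat_lit 495) (nat_lit 292) (nat_lit 233)) (XT.lf (nat_lit 0) (nat_lit 68947295154) (nat_lit 76) (nat_lit 85613417493) (nat_lit 76) (nat_lit 85390375804) (nat_lit 52) (nat_lit 4) (nat_lit 53) (nat_lit 5) (nat_lit 53) (nat_lit 4) (nat_lit 496) (nat_lit 292) (nat_lit 232))) (XT.nd (nat_lit 78) (nat_lit 76) (nat_lit 0) (XT.lf (nat_lit 0) (nat_lit 5467113178) (nat_lit 152) (nat_lit 9176034038) (nat_lit 0) (nat_lit 5467113178) (nat_lit 128) (nat_lit 5) (nat_lit 130) (nat_lit 4) (nat_lit 128) (nat_lit 4) (nat_lit 434) (nat_lit 293) (nat_lit 293)) (XT.lf (nat_lit 0) (nat_lit 22217867363) (nat_lit 76) (nat_lit 9519336203)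 (nat_lit 76) (nat_lit 9479435163) (nat_lit 127) (nat_lit 4) (nat_lit 128) (nat_lit 5) (nat_lit 128) (nat_lit 4) (nat_lit 435) (nat_lit 293) (nat_lit 292)))) (XT.nd (nat_lit 156) (nat_lit 228) (nat_lit 0) (XT.nd (nat_lit 78) (nat_lit 76) (nat_lit 0) (XT.lf (nat_lit 0) (nat_lit 11139905647) (nat_lit 152) (nat_lit 20038889688) (nat_lit 0) (nat_lit 11065713238) (nat_lit 125) (nat_lit 5) (nat_lit 127) (nat_lit 4) (nat_lit 125) (nat_lit 4) (nat_lit 436) (nat_lit 293) (nat_lit 291)) (XT.lf (nat_lit 0) (nat_lit 21856518570) (nat_lit 76) (nat_lit 10779951183) (nat_lit 76) (nat_lit 10671290756) (nat_lit 124) (nat_lit 4) (nat_lit 125) (nat_lit 5) (nat_lit 125) (nat_lit 4) (nat_lit 437) (nat_lit 293) (nat_lit 290))) (XT.nd (nat_lit 78) (nat_lit 76) (nat_lit 0) (XT.lf (nat_lit 0) (nat_lit 10625704882) (nat_lit 152) (nat_lit 23289738568) (nat_lit 0) (nat_lit 10490955253) (nat_lit 122) (nat_lit 5) (nat_lit 124)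 (nat_lit 4) (nat_lit 122) (nat_lit 4) (nat_lit 438) (nat_lit 293) (nat_lit 289)) (XT.lf (nat_lit 0) (nat_lit 19948148463) (nat_lit 76) (nat_lit 12878847125) (nat_lit 76) (nat_lit 12714322726) (nat_lit 121) (nat_lit 4) (nat_lit 122) (nat_lit 5) (nat_lit 122) (nat_lit 4) (nat_lit 439) (nat_lit 293) (nat_lit 288)))))) (XT.nd (nat_lit 624) (nat_lit 760) (nat_lit 0) (XT.nd (nat_lit 312) (nat_lit 380) (nat_lit 0) (XT.nd (nat_lit 156) (nat_lit 228) (nat_lit 0) (XT.nd (nat_lit 78) (nat_lit 76) (nat_lit 0) (XT.lf (nat_lit 0) (nat_lit 9282057255) (nat_lit 152) (nat_lit 28336337649) (nat_lit 0) (nat_lit 9098360757) (nat_lit 119) (nat_lit 5) (nat_lit 121) (nat_lit 4) (nat_lit 119) (nat_lit 4) (nat_lit 440) (nat_lit 293) (nat_lit 287)) (XT.lf (nat_lit 0) (nat_lit 16256854937) (nat_lit 76) (nat_lit 15940395736) (nat_lit 76) (nat_lit 15730978673) (nat_lit 118) (nat_lit 4) (nat_lit 119) (nat_lit 5) (nat_lit 119)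 (nat_lit 4) (nat_lit 441) (nat_lit 293) (nat_lit 286))) (XT.nd (nat_lit 78) (nat_lit 76) (nat_lit 0) (XT.lf (nat_lit 0) (nat_lit 6986168816) (nat_lit 152) (nat_lit 35437496540) (nat_lit 0) (nat_lit 6763394682) (nat_lit 116) (nat_lit 5) (nat_lit 118) (nat_lit 4) (nat_lit 116) (nat_lit 4) (nat_lit 442) (nat_lit 293) (nat_lit 285)) (XT.lf (nat_lit 0) (nat_lit 10518921382) (nat_lit 76) (nat_lit 20103213939) (nat_lit 76) (nat_lit 19858221414) (nat_lit 115) (nat_lit 4) (nat_lit 116) (nat_lit 5) (nat_lit 116) (nat_lit 4) (nat_lit 443) (nat_lit 293) (nat_lit 284)))) (XT.nd (nat_lit 156) (nat_lit 152) (nat_lit 0) (XT.nd (nat_lit 78) (nat_lit 76) (nat_lit 0) (XT.lf (nat_lit 0) (nat_lit 3600592785) (nat_lit 152) (nat_lit 44882085908) (nat_lit 0) (nat_lit 3347113834) (nat_lit 113) (nat_lit 5) (nat_lit 115) (nat_lit 4) (nat_lit 113) (nat_lit 4) (nat_lit 444) (nat_lit 293) (nat_lit 283)) (XT.lf (nat_lit 0) (nat_lit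 2439753212) (nat_lit 76) (nat_lit 25521757611) (nat_lit 76) (nat_lit 25249085577) (nat_lit 112) (nat_lit 4) (nat_lit 113) (nat_lit 5) (nat_lit 113) (nat_lit 4) (nat_lit 445) (nat_lit 293) (nat_lit 282))) (XT.nd (nat_lit 78) (nat_lit 152) (nat_lit 0) (XT.lf (nat_lit 0) (nat_lit 52358697408) (nat_lit 76) (nat_lit 1293552724) (nat_lit 76) (nat_lit 1002601565) (nat_lit 112) (nat_lit 4) (nat_lit 113) (nat_lit 5) (nat_lit 113) (nat_lit 4) (nat_lit 446) (nat_lit 293) (nat_lit 281)) (XT.lf (nat_lit 0) (nat_lit 24188305884) (nat_lit 152) (nat_lit 8043550014) (nat_lit 0) (nat_lit 23894629836) (nat_lit 110) (nat_lit 5) (nat_lit 112) (nat_lit 4) (nat_lit 110) (nat_lit 4) (nat_lit 447) (nat_lit 293) (nat_lit 280))))) (XT.nd (nat_lit 312) (nat_lit 304) (nat_lit 0) (XT.nd (nat_lit 156) (nat_lit 228) (nat_lit 0) (XT.nd (nat_lit 78) (nat_lit 152) (nat_lit 0) (XT.lf (nat_lit 0) (nat_lit 43458817811) (nat_lit 76)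 (nat_lit 7257970950) (nat_lit 76) (nat_lit 6948504706) (nat_lit 109) (nat_lit 4) (nat_lit 110) (nat_lit 5) (nat_lit 110) (nat_lit 4) (nat_lit 448) (nat_lit 293) (nat_lit 279)) (XT.lf (nat_lit 0) (nat_lit 19083016436) (nat_lit 152) (nat_lit 21388512402) (nat_lit 0) (nat_lit 18773964506) (nat_lit 107) (nat_lit 5) (nat_lit 109) (nat_lit 4) (nat_lit 107) (nat_lit 4) (nat_lit 449) (nat_lit 293) (nat_lit 278))) (XT.nd (nat_lit 78) (nat_lit 152) (nat_lit 0) (XT.lf (nat_lit 0) (nat_lit 31614302463) (nat_lit 76) (nat_lit 14797957144) (nat_lit 76) (nat_lit 14475265049) (nat_lit 106) (nat_lit 4) (nat_lit 107) (nat_lit 5) (nat_lit 107) (nat_lit 4) (nat_lit 450) (nat_lit 293) (nat_lit 277)) (XT.lf (nat_lit 0) (nat_lit 12418195180) (nat_lit 152) (nat_lit 38069117507) (nat_lit 0) (nat_lit 12098497344) (nat_lit 104) (nat_lit 5) (nat_lit 106) (nat_lit 4) (nat_lit 104) (nat_lit 4) (nat_lit 451) (nat_lit 293) (nat_lit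 276)))) (XT.nd (nat_lit 156) (nat_lit 76) (nat_lit 0) (XT.nd (nat_lit 78) (nat_lit 152) (nat_lit 0) (XT.lf (nat_lit 0) (nat_lit 16420802006) (nat_lit 76) (nat_lit 24124525147) (nat_lit 76) (nat_lit 23793044423) (nat_lit 103) (nat_lit 4) (nat_lit 104) (nat_lit 5) (nat_lit 104) (nat_lit 4) (nat_lit 452) (nat_lit 293) (nat_lit 275)) (XT.lf (nat_lit 0) (nat_lit 3982542571) (nat_lit 152) (nat_lit 58526458688) (nat_lit 0) (nat_lit 3656159217) (nat_lit 101) (nat_lit 5) (nat_lit 103) (nat_lit 4) (nat_lit 101) (nat_lit 4) (nat_lit 453) (nat_lit 293) (nat_lit 274))) (XT.nd (nat_lit 78) (nat_lit 76) (nat_lit 0) (XT.lf (nat_lit 0) (nat_lit 32940270187) (nat_lit 152) (nat_lit 2490159627) (nat_lit 0) (nat_lit 32603708332) (nat_lit 101) (nat_lit 5) (nat_lit 103) (nat_lit 4) (nat_lit 101) (nat_lit 4) (nat_lit 454) (nat_lit 293) (nat_lit 273)) (XT.lf (nat_lit 0) (nat_lit 56946812431) (nat_lit 76) (nat_lit 6690712937)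 (nat_lit 76) (nat_lit 6344457271) (nat_lit 100) (nat_lit 4) (nat_lit 101) (nat_lit 5) (nat_lit 101) (nat_lit 4) (nat_lit 455) (nat_lit 293) (nat_lit 272)))))))
noncomputable def xc21 : XT := (XT.nd (nat_lit 1248) (nat_lit 1444) (nat_lit 0) (XT.nd (nat_lit 624) (nat_lit 684) (nat_lit 0) (XT.nd (nat_lit 312) (nat_lit 380) (nat_lit 0) (XT.nd (nat_lit 156) (nat_lit 228) (nat_lit 0) (XT.nd (nat_lit 78) (nat_lit 76) (nat_lit 0) (XT.lf (nat_lit 0) (nat_lit 23639597332) (nat_lit 152) (nat_lit 25039958222) (nat_lit 0) (nat_lit 23301037459) (nat_lit 98) (nat_lit 5) (nat_lit 100) (nat_lit 4) (nat_lit 98) (nat_lit 4) (nat_lit 456) (nat_lit 293) (nat_lit 271)) (XT.lf (nat_lit 0) (nat_lit 36011116031) (nat_lit 76) (nat_lit 19197403616) (nat_lit 76) (nat_lit 18850469865) (nat_lit 97) (nat_lit 4) (nat_lit 98) (nat_lit 5) (nat_lit 98) (nat_lit 4) (nat_lit 457) (nat_lit 293) (nat_lit 270))) (XT.nd (nat_lit 78) (nat_lit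 76) (nat_lit 0) (XT.lf (nat_lit 0) (nat_lit 12127118696) (nat_lit 152) (nat_lit 52295605829) (nat_lit 0) (nat_lit 11789110246) (nat_lit 95) (nat_lit 5) (nat_lit 97) (nat_lit 4) (nat_lit 95) (nat_lit 4) (nat_lit 458) (nat_lit 293) (nat_lit 269)) (XT.lf (nat_lit 0) (nat_lit 10331875789) (nat_lit 76) (nat_lit 34221779510) (nat_lit 76) (nat_lit 33876537389) (nat_lit 94) (nat_lit 4) (nat_lit 95) (nat_lit 5) (nat_lit 95) (nat_lit 4) (nat_lit 459) (nat_lit 293) (nat_lit 268)))) (XT.nd (nat_lit 156) (nat_lit 228) (nat_lit 0) (XT.nd (nat_lit 78) (nat_lit 152) (nat_lit 0) (XT.lf (nat_lit 0) (nat_lit 76702178538) (nat_lit 76) (nat_lit 2197262587) (nat_lit 76) (nat_lit 1845131255) (nat_lit 94) (nat_lit 4) (nat_lit 95) (nat_lit 5) (nat_lit 95) (nat_lit 4) (nat_lit 460) (nat_lit 293) (nat_lit 267)) (XT.lf (nat_lit 0) (nat_lit 31700113103) (nat_lit 152) (nat_lit 20044757999) (nat_lit 0) (nat_lit 31358501213)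 (nat_lit 92) (nat_lit 5) (nat_lit 94) (nat_lit 4) (nat_lit 92) (nat_lit 4) (nat_lit 461) (nat_lit 293) (nat_lit 266))) (XT.nd (nat_lit 78) (nat_lit 152) (nat_lit 0) (XT.lf (nat_lit 0) (nat_lit 48394222854) (nat_lit 76) (nat_lit 18758663149) (nat_lit 76) (nat_lit 18411100100) (nat_lit 91) (nat_lit 4) (nat_lit 92) (nat_lit 5) (nat_lit 92) (nat_lit 4) (nat_lit 462) (nat_lit 293) (nat_lit 265)) (XT.lf (nat_lit 0) (nat_lit 16250389865) (nat_lit 152) (nat_lit 55943630565) (nat_lit 0) (nat_lit 15913979561) (nat_lit 89) (nat_lit 5) (nat_lit 91) (nat_lit 4) (nat_lit 89) (nat_lit 4) (nat_lit 463) (nat_lit 293) (nat_lit 264))))) (XT.nd (nat_lit 312) (nat_lit 380) (nat_lit 0) (XT.nd (nat_lit 156) (nat_lit 228) (nat_lit 0) (XT.nd (nat_lit 78) (nat_lit 0) (nat_lit 0) (XT.lf (nat_lit 0) (nat_lit 14176333034) (nat_lit 76) (nat_lit 38449676093) (nat_lit 76) (nat_lit 38108124955) (nat_lit 88) (nat_lit 4) (nat_lit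 89) (nat_lit 5) (nat_lit 89) (nat_lit 4) (nat_lit 464) (nat_lit 293) (nat_lit 263)) (XT.lf (nat_lit 0) (nat_lit 88597675155) (nat_lit 76) (nat_lit 2610479808) (nat_lit 76) (nat_lit 2264032636) (nat_lit 88) (nat_lit 4) (nat_lit 89) (nat_lit 5) (nat_lit 89) (nat_lit 4) (nat_lit 465) (nat_lit 293) (nat_lit 262))) (XT.nd (nat_lit 78) (nat_lit 76) (nat_lit 0) (XT.lf (nat_lit 0) (nat_lit 35372037730) (nat_lit 152) (nat_lit 25853250514) (nat_lit 0) (nat_lit 35037647196) (nat_lit 86) (nat_lit 5) (nat_lit 88) (nat_lit 4) (nat_lit 86) (nat_lit 4) (nat_lit 466) (nat_lit 293) (nat_lit 261)) (XT.lf (nat_lit 0) (nat_lit 50875117252) (nat_lit 76) (nat_lit 24317952669) (nat_lit 76) (nat_lit 23979332758) (nat_lit 85) (nat_lit 4) (nat_lit 86) (nat_lit 5) (nat_lit 86) (nat_lit 4) (nat_lit 467) (nat_lit 293) (nat_lit 260)))) (XT.nd (nat_lit 156) (nat_lit 152) (nat_lit 0) (XT.nd (nat_lit 78) (nat_lit 76) (nat_lit 0)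 (XT.lf (nat_lit 0) (nat_lit 14907528839) (nat_lit 152) (nat_lit 72696945742) (nat_lit 0) (nat_lit 14581197516) (nat_lit 83) (nat_lit 5) (nat_lit 85) (nat_lit 4) (nat_lit 83) (nat_lit 4) (nat_lit 468) (nat_lit 293) (nat_lit 259)) (XT.lf (nat_lit 0) (nat_lit 5802459282) (nat_lit 76) (nat_lit 49909266293) (nat_lit 76) (nat_lit 49579281474) (nat_lit 82) (nat_lit 4) (nat_lit 83) (nat_lit 5) (nat_lit 83) (nat_lit 4) (nat_lit 469) (nat_lit 293) (nat_lit 258))) (XT.nd (nat_lit 78) (nat_lit 152) (nat_lit 0) (XT.lf (nat_lit 0) (nat_lit 89658423287) (nat_lit 76) (nat_lit 9595870851) (nat_lit 76) (nat_lit 9262406513) (nat_lit 82) (nat_lit 4) (nat_lit 83) (nat_lit 5) (nat_lit 83) (nat_lit 4) (nat_lit 470) (nat_lit 293) (nat_lit 257)) (XT.lf (nat_lit 0) (nat_lit 33059935855) (nat_lit 152) (nat_lit 46026328312) (nat_lit 0) (nat_lit 32739194744) (nat_lit 80) (nat_lit 5) (nat_lit 82) (nat_lit 4) (nat_lit 80) (nat_lit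 4) (nat_lit 471) (nat_lit 293) (nat_lit 256)))))) (XT.nd (nat_lit 624) (nat_lit 760) (nat_lit 0) (XT.nd (nat_lit 312) (nat_lit 380) (nat_lit 0) (XT.nd (nat_lit 156) (nat_lit 76) (nat_lit 0) (XT.nd (nat_lit 78) (nat_lit 152) (nat_lit 0) (XT.lf (nat_lit 0) (nat_lit 39967934105) (nat_lit 76) (nat_lit 37809187744) (nat_lit 76) (nat_lit 37485440894) (nat_lit 79) (nat_lit 4) (nat_lit 80) (nat_lit 5) (nat_lit 80) (nat_lit 4) (nat_lit 472) (nat_lit 293) (nat_lit 255)) (XT.lf (nat_lit 0) (nat_lit 6234386816) (nat_lit 152) (nat_lit 106681068534) (nat_lit 0) (nat_lit 5923330188) (nat_lit 77) (nat_lit 5) (nat_lit 79) (nat_lit 4) (nat_lit 77) (nat_lit 4) (nat_lit 473) (nat_lit 293) (nat_lit 254))) (XT.nd (nat_lit 78) (nat_lit 76) (nat_lit 0) (XT.lf (nat_lit 0) (nat_lit 52280414470) (nat_lit 152) (nat_lit 18245919602) (nat_lit 0) (nat_lit 51966761371) (nat_lit 77) (nat_lit 5) (nat_lit 79) (nat_lit 4) (nat_lit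 77) (nat_lit 4) (nat_lit 474) (nat_lit 293) (nat_lit 253)) (XT.lf (nat_lit 0) (nat_lit 76037662255) (nat_lit 76) (nat_lit 25286896868) (nat_lit 76) (nat_lit 24970770939) (nat_lit 76) (nat_lit 4) (nat_lit 77) (nat_lit 5) (nat_lit 77) (nat_lit 4) (nat_lit 475) (nat_lit 293) (nat_lit 252)))) (XT.nd (nat_lit 156) (nat_lit 152) (nat_lit 0) (XT.nd (nat_lit 78) (nat_lit 76) (nat_lit 0) (XT.lf (nat_lit 0) (nat_lit 22706302566) (nat_lit 152) (nat_lit 85116082565) (nat_lit 0) (nat_lit 22402987324) (nat_lit 74) (nat_lit 5) (nat_lit 76) (nat_lit 4) (nat_lit 74) (nat_lit 4) (nat_lit 476) (nat_lit 293) (nat_lit 251)) (XT.lf (nat_lit 0) (nat_lit 11193463721) (nat_lit 76) (nat_lit 61697641945) (nat_lit 76) (nat_lit 61392190580) (nat_lit 73) (nat_lit 4) (nat_lit 74) (nat_lit 5) (nat_lit 74) (nat_lit 4) (nat_lit 477) (nat_lit 293) (nat_lit 250))) (XT.nd (nat_lit 78) (nat_lit 152) (nat_lit 0) (XT.lf (nat_lit 0) (nat_lit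 114282751812) (nat_lit 76) (nat_lit 12260473189) (nat_lit 76) (nat_lit 11952987421) (nat_lit 73) (nat_lit 4) (nat_lit 74) (nat_lit 5) (nat_lit 74) (nat_lit 4) (nat_lit 478) (nat_lit 293) (nat_lit 249)) (XT.lf (nat_lit 0) (nat_lit 40111993830) (nat_lit 152) (nat_lit 62887646187) (nat_lit 0) (nat_lit 39817304978) (nat_lit 71) (nat_lit 5) (nat_lit 73) (nat_lit 4) (nat_lit 71) (nat_lit 4) (nat_lit 479) (nat_lit 293) (nat_lit 248))))) (XT.nd (nat_lit 312) (nat_lit 456) (nat_lit 0) (XT.nd (nat_lit 156) (nat_lit 76) (nat_lit 0) (XT.nd (nat_lit 78) (nat_lit 152) (nat_lit 0) (XT.lf (nat_lit 0) (nat_lit 42793546297) (nat_lit 76) (nat_lit 52402958814) (nat_lit 76) (nat_lit 52106512568) (nat_lit 70) (nat_lit 4) (nat_lit 71) (nat_lit 5) (nat_lit 71) (nat_lit 4) (nat_lit 480) (nat_lit 293) (nat_lit 247)) (XT.lf (nat_lit 0) (nat_lit 1674353405) (nat_lit 152) (nat_lit 148913552711) (nat_lit 0) (nat_lit 1390429639)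 (nat_lit 68) (nat_lit 5) (nat_lit 70) (nat_lit 4) (nat_lit 68) (nat_lit 4) (nat_lit 481) (nat_lit 293) (nat_lit 246))) (XT.nd (nat_lit 78) (nat_lit 76) (nat_lit 0) (XT.lf (nat_lit 0) (nat_lit 58583220737) (nat_lit 152) (nat_lit 39854205945) (nat_lit 0) (nat_lit 58297778868) (nat_lit 68) (nat_lit 5) (nat_lit 70) (nat_lit 4) (nat_lit 68) (nat_lit 4) (nat_lit 482) (nat_lit 293) (nat_lit 245)) (XT.lf (nat_lit 0) (nat_lit 76183031308) (nat_lit 76) (nat_lit 42898292787) (nat_lit 76) (nat_lit 42611405106) (nat_lit 67) (nat_lit 4) (nat_lit 68) (nat_lit 5) (nat_lit 68) (nat_lit 4) (nat_lit 483) (nat_lit 293) (nat_lit 244)))) (XT.nd (nat_lit 156) (nat_lit 304) (nat_lit 0) (XT.nd (nat_lit 78) (nat_lit 0) (nat_lit 0) (XT.lf (nat_lit 0) (nat_lit 16206854406) (nat_lit 152) (nat_lit 134696529717) (nat_lit 0) (nat_lit 15932316649) (nat_lit 65) (nat_lit 5) (nat_lit 67) (nat_lit 4) (nat_lit 65) (nat_lit 4) (nat_lit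 484) (nat_lit 293) (nat_lit 243)) (XT.lf (nat_lit 0) (nat_lit 78263511863) (nat_lit 152) (nat_lit 15863181137) (nat_lit 0) (nat_lit 77987725160) (nat_lit 65) (nat_lit 5) (nat_lit 67) (nat_lit 4) (nat_lit 65) (nat_lit 4) (nat_lit 485) (nat_lit 293) (nat_lit 242))) (XT.nd (nat_lit 78) (nat_lit 228) (nat_lit 0) (XT.lf (nat_lit 0) (nat_lit 111614268273) (nat_lit 76) (nat_lit 33126934642) (nat_lit 76) (nat_lit 32849958466) (nat_lit 64) (nat_lit 4) (nat_lit 65) (nat_lit 5) (nat_lit 65) (nat_lit 4) (nat_lit 486) (nat_lit 293) (nat_lit 241)) (XT.nd (nat_lit 78) (nat_lit 76) (nat_lit 0) (XT.lf (nat_lit 0) (nat_lit 31544706086) (nat_lit 152) (nat_lit 120425723664) (nat_lit 0) (nat_lit 31279840363) (nat_lit 62) (nat_lit 5) (nat_lit 64) (nat_lit 4) (nat_lit 62) (nat_lit 4) (nat_lit 487) (nat_lit 293) (nat_lit 240)) (XT.lf (nat_lit 0) (nat_lit 9556186318) (nat_lit 76) (nat_lit 89902469356) (nat_lit 76) (nat_lit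 89636576122) (nat_lit 61) (nat_lit 4) (nat_lit 62) (nat_lit 5) (nat_lit 62) (nat_lit 4) (nat_lit 488) (nat_lit 293) (nat_lit 239))))))))
noncomputable def xc22 : XT := (XT.nd (nat_lit 50544) (nat_lit 0) (nat_lit 836) (XT.nd (nat_lit 49296) (nat_lit 0) (nat_lit 3572) (XT.nd (nat_lit 48672) (nat_lit 0) (nat_lit 5168) (XT.nd (nat_lit 312) (nat_lit 380) (nat_lit 0) (XT.nd (nat_lit 156) (nat_lit 76) (nat_lit 0) (XT.nd (nat_lit 78) (nat_lit 152) (nat_lit 0) (XT.lf (nat_lit 0) (nat_lit 149362206384) (nat_lit 76) (nat_lit 23028005763) (nat_lit 76) (nat_lit 22761133946) (nat_lit 61) (nat_lit 4) (nat_lit 62) (nat_lit 5) (nat_lit 62) (nat_lit 4) (nat_lit 489) (nat_lit 293) (nat_lit 238)) (XT.lf (nat_lit 0) (nat_lit 47803106543) (nat_lit 152) (nat_lit 106028857516) (nat_lit 0) (nat_lit 47548055305) (nat_lit 59) (nat_lit 5) (nat_lit 61) (nat_lit 4) (nat_lit 59) (nat_lit 4) (nat_lit 490) (nat_lit 293) (nat_lit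 237))) (XT.nd (nat_lit 78) (nat_lit 0) (nat_lit 0) (XT.lf (nat_lit 0) (nat_lit 36844206247) (nat_lit 76) (nat_lit 85623161675) (nat_lit 76) (nat_lit 85367265100) (nat_lit 58) (nat_lit 4) (nat_lit 59) (nat_lit 5) (nat_lit 59) (nat_lit 4) (nat_lit 491) (nat_lit 293) (nat_lit 236)) (XT.lf (nat_lit 0) (nat_lit 189726863582) (nat_lit 76) (nat_lit 12535958233) (nat_lit 76) (nat_lit 12279256576) (nat_lit 58) (nat_lit 4) (nat_lit 59) (nat_lit 5) (nat_lit 59) (nat_lit 4) (nat_lit 492) (nat_lit 293) (nat_lit 235)))) (XT.nd (nat_lit 156) (nat_lit 152) (nat_lit 0) (XT.nd (nat_lit 78) (nat_lit 76) (nat_lit 0) (XT.lf (nat_lit 0) (nat_lit 65107495015) (nat_lit 152) (nat_lit 91429413171) (nat_lit 0) (nat_lit 64862287013) (nat_lit 56) (nat_lit 5) (nat_lit 58) (nat_lit 4) (nat_lit 56) (nat_lit 4) (nat_lit 493) (nat_lit 293) (nat_lit 234)) (XT.lf (nat_lit 0) (nat_lit 65676714545) (nat_lit 76) (nat_lit 81547318100)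 (nat_lit 76) (nat_lit 81301414638) (nat_lit 55) (nat_lit 4) (nat_lit 56) (nat_lit 5) (nat_lit 56) (nat_lit 4) (nat_lit 494) (nat_lit 293) (nat_lit 233))) (XT.nd (nat_lit 78) (nat_lit 152) (nat_lit 0) (XT.lf (nat_lit 0) (nat_lit 233036041955) (nat_lit 76) (nat_lit 1580026138) (nat_lit 76) (nat_lit 1333460332) (nat_lit 55) (nat_lit 4) (nat_lit 56) (nat_lit 5) (nat_lit 56) (nat_lit 4) (nat_lit 495) (nat_lit 293) (nat_lit 232)) (XT.lf (nat_lit 0) (nat_lit 83594678309) (nat_lit 152) (nat_lit 76546048036) (nat_lit 0) (nat_lit 83359252968) (nat_lit 53) (nat_lit 5) (nat_lit 55) (nat_lit 4) (nat_lit 53) (nat_lit 4) (nat_lit 496) (nat_lit 293) (nat_lit 231))))) (XT.nd (nat_lit 312) (nat_lit 456) (nat_lit 0) (XT.nd (nat_lit 156) (nat_lit 228) (nat_lit 0) (XT.nd (nat_lit 78) (nat_lit 76) (nat_lit 0) (XT.lf (nat_lit 0) (nat_lit 5228426492) (nat_lit 152) (nat_lit 8697838060) (nat_lit 0) (nat_lit 5228426492)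 (nat_lit 131) (nat_lit 5) (nat_lit 133) (nat_lit 4) (nat_lit 131) (nat_lit 4) (nat_lit 432) (nat_lit 294) (nat_lit 294)) (XT.lf (nat_lit 0) (nat_lit 21243056083) (nat_lit 76) (nat_lit 9029418763) (nat_lit 76) (nat_lit 8985427867) (nat_lit 130) (nat_lit 4) (nat_lit 131) (nat_lit 5) (nat_lit 131) (nat_lit 4) (nat_lit 433) (nat_lit 294) (nat_lit 293))) (XT.nd (nat_lit 78) (nat_lit 76) (nat_lit 0) (XT.lf (nat_lit 0) (nat_lit 10654327628) (nat_lit 152) (nat_lit 19009752404) (nat_lit 0) (nat_lit 10572530497) (nat_lit 128) (nat_lit 5) (nat_lit 130) (nat_lit 4) (nat_lit 128) (nat_lit 4) (nat_lit 434) (nat_lit 294) (nat_lit 292)) (XT.lf (nat_lit 0) (nat_lit 20891360505) (nat_lit 76) (nat_lit 10238762587) (nat_lit 76) (nat_lit 10118964466) (nat_lit 127) (nat_lit 4) (nat_lit 128) (nat_lit 5) (nat_lit 128) (nat_lit 4) (nat_lit 435) (nat_lit 294) (nat_lit 291)))) (XT.nd (nat_lit 156) (nat_lit 228) (nat_lit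 0) (XT.nd (nat_lit 78) (nat_lit 76) (nat_lit 0) (XT.lf (nat_lit 0) (nat_lit 10165629298) (nat_lit 152) (nat_lit 22112520313) (nat_lit 0) (nat_lit 10017067832) (nat_lit 125) (nat_lit 5) (nat_lit 127) (nat_lit 4) (nat_lit 125) (nat_lit 4) (nat_lit 436) (nat_lit 294) (nat_lit 290)) (XT.lf (nat_lit 0) (nat_lit 19067160207) (nat_lit 76) (nat_lit 12245097064) (nat_lit 76) (nat_lit 12063708914) (nat_lit 124) (nat_lit 4) (nat_lit 125) (nat_lit 5) (nat_lit 125) (nat_lit 4) (nat_lit 437) (nat_lit 294) (nat_lit 289))) (XT.nd (nat_lit 78) (nat_lit 76) (nat_lit 0) (XT.lf (nat_lit 0) (nat_lit 8886503640) (nat_lit 152) (nat_lit 26924776922) (nat_lit 0) (nat_lit 8683978251) (nat_lit 122) (nat_lit 5) (nat_lit 124) (nat_lit 4) (nat_lit 122) (nat_lit 4) (nat_lit 438) (nat_lit 294) (nat_lit 288)) (XT.lf (nat_lit 0) (nat_lit 15545679481) (nat_lit 76) (nat_lit 15167066830) (nat_lit 76) (nat_lit 14936184517) (nat_lit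 121) (nat_lit 4) (nat_lit 122) (nat_lit 5) (nat_lit 122) (nat_lit 4) (nat_lit 439) (nat_lit 294) (nat_lit 287)))))) (XT.nd (nat_lit 624) (nat_lit 760) (nat_lit 0) (XT.nd (nat_lit 312) (nat_lit 380) (nat_lit 0) (XT.nd (nat_lit 156) (nat_lit 228) (nat_lit 0) (XT.nd (nat_lit 78) (nat_lit 76) (nat_lit 0) (XT.lf (nat_lit 0) (nat_lit 6700085280) (nat_lit 152) (nat_lit 33693101754) (nat_lit 0) (nat_lit 6454476797) (nat_lit 119) (nat_lit 5) (nat_lit 121) (nat_lit 4) (nat_lit 119) (nat_lit 4) (nat_lit 440) (nat_lit 294) (nat_lit 286)) (XT.lf (nat_lit 0) (nat_lit 10075666785) (nat_lit 76) (nat_lit 19136856383) (nat_lit 76) (nat_lit 18866752123) (nat_lit 118) (nat_lit 4) (nat_lit 119) (nat_lit 5) (nat_lit 119) (nat_lit 4) (nat_lit 441) (nat_lit 294) (nat_lit 285))) (XT.nd (nat_lit 78) (nat_lit 76) (nat_lit 0) (XT.lf (nat_lit 0) (nat_lit 3475541933) (nat_lit 152) (nat_lit 42692691459) (nat_lit 0) (nat_lit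 3196081390) (nat_lit 116) (nat_lit 5) (nat_lit 118) (nat_lit 4) (nat_lit 116) (nat_lit 4) (nat_lit 442) (nat_lit 294) (nat_lit 284)) (XT.lf (nat_lit 0) (nat_lit 2376475233) (nat_lit 76) (nat_lit 24301711621) (nat_lit 76) (nat_lit 24001090705) (nat_lit 115) (nat_lit 4) (nat_lit 116) (nat_lit 5) (nat_lit 116) (nat_lit 4) (nat_lit 443) (nat_lit 294) (nat_lit 283)))) (XT.nd (nat_lit 156) (nat_lit 228) (nat_lit 0) (XT.nd (nat_lit 78) (nat_lit 152) (nat_lit 0) (XT.lf (nat_lit 0) (nat_lit 49917397414) (nat_lit 76) (nat_lit 1229045387) (nat_lit 76) (nat_lit 908271735) (nat_lit 115) (nat_lit 4) (nat_lit 116) (nat_lit 5) (nat_lit 116) (nat_lit 4) (nat_lit 444) (nat_lit 294) (nat_lit 282)) (XT.lf (nat_lit 0) (nat_lit 23083250509) (nat_lit 152) (nat_lit 7613427575) (nat_lit 0) (nat_lit 22759472666) (nat_lit 113) (nat_lit 5) (nat_lit 115) (nat_lit 4) (nat_lit 113) (nat_lit 4) (nat_lit 445) (nat_lit 294) (nat_lit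 281))) (XT.nd (nat_lit 78) (nat_lit 152) (nat_lit 0) (XT.lf (nat_lit 0) (nat_lit 41437200878) (nat_lit 76) (nat_lit 6912795683) (nat_lit 76) (nat_lit 6571609149) (nat_lit 112) (nat_lit 4) (nat_lit 113) (nat_lit 5) (nat_lit 113) (nat_lit 4) (nat_lit 446) (nat_lit 294) (nat_lit 280)) (XT.lf (nat_lit 0) (nat_lit 18220288103) (nat_lit 152) (nat_lit 20326603345) (nat_lit 0) (nat_lit 17879558351) (nat_lit 110) (nat_lit 5) (nat_lit 112) (nat_lit 4) (nat_lit 110) (nat_lit 4) (nat_lit 447) (nat_lit 294) (nat_lit 279))))) (XT.nd (nat_lit 312) (nat_lit 304) (nat_lit 0) (XT.nd (nat_lit 156) (nat_lit 228) (nat_lit 0) (XT.nd (nat_lit 78) (nat_lit 152) (nat_lit 0) (XT.lf (nat_lit 0) (nat_lit 30153009677) (nat_lit 76) (nat_lit 14096489734) (nat_lit 76) (nat_lit 13740721699) (nat_lit 109) (nat_lit 4) (nat_lit 110) (nat_lit 5) (nat_lit 110) (nat_lit 4) (nat_lit 448) (nat_lit 294) (nat_lit 278)) (XT.lf (nat_lit 0)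 (nat_lit 11871897778) (nat_lit 152) (nat_lit 36216209325) (nat_lit 0) (nat_lit 11519430913) (nat_lit 107) (nat_lit 5) (nat_lit 109) (nat_lit 4) (nat_lit 107) (nat_lit 4) (nat_lit 449) (nat_lit 294) (nat_lit 277))) (XT.nd (nat_lit 78) (nat_lit 152) (nat_lit 0) (XT.lf (nat_lit 0) (nat_lit 15679678652) (nat_lit 76) (nat_lit 22981181116) (nat_lit 76) (nat_lit 22615723618) (nat_lit 106) (nat_lit 4) (nat_lit 107) (nat_lit 5) (nat_lit 107) (nat_lit 4) (nat_lit 450) (nat_lit 294) (nat_lit 276)) (XT.lf (nat_lit 0) (nat_lit 3836876259) (nat_lit 152) (nat_lit 55702378953) (nat_lit 0) (nat_lit 3477038611) (nat_lit 104) (nat_lit 5) (nat_lit 106) (nat_lit 4) (nat_lit 104) (nat_lit 4) (nat_lit 451) (nat_lit 294) (nat_lit 275)))) (XT.nd (nat_lit 156) (nat_lit 228) (nat_lit 0) (XT.nd (nat_lit 78) (nat_lit 76) (nat_lit 0) (XT.lf (nat_lit 0) (nat_lit 31416165444) (nat_lit 152) (nat_lit 2334976065) (nat_lit 0) (nat_lit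 31045105998) (nat_lit 104) (nat_lit 5) (nat_lit 106) (nat_lit 4) (nat_lit 104) (nat_lit 4) (nat_lit 452) (nat_lit 294) (nat_lit 274)) (XT.lf (nat_lit 0) (nat_lit 54272381402) (nat_lit 76) (nat_lit 6380324990) (nat_lit 76) (nat_lit 5998578118) (nat_lit 103) (nat_lit 4) (nat_lit 104) (nat_lit 5) (nat_lit 104) (nat_lit 4) (nat_lit 453) (nat_lit 294) (nat_lit 273))) (XT.nd (nat_lit 78) (nat_lit 76) (nat_lit 0) (XT.lf (nat_lit 0) (nat_lit 22557150866) (nat_lit 152) (nat_lit 23813604968) (nat_lit 0) (nat_lit 22183888606) (nat_lit 101) (nat_lit 5) (nat_lit 103) (nat_lit 4) (nat_lit 101) (nat_lit 4) (nat_lit 454) (nat_lit 294) (nat_lit 272)) (XT.lf (nat_lit 0) (nat_lit 34330972832) (nat_lit 76) (nat_lit 18292771817) (nat_lit 76) (nat_lit 17910277356) (nat_lit 100) (nat_lit 4) (nat_lit 101) (nat_lit 5) (nat_lit 101) (nat_lit 4) (nat_lit 455) (nat_lit 294) (nat_lit 271))))))) (XT.nd (nat_lit 1248) (nat_lit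 1216) (nat_lit 0) (XT.nd (nat_lit 624) (nat_lit 836) (nat_lit 0) (XT.nd (nat_lit 312) (nat_lit 304) (nat_lit 0) (XT.nd (nat_lit 156) (nat_lit 152) (nat_lit 0) (XT.nd (nat_lit 78) (nat_lit 76) (nat_lit 0) (XT.lf (nat_lit 0) (nat_lit 11591592409) (nat_lit 152) (nat_lit 49773748786) (nat_lit 0) (nat_lit 11218938092) (nat_lit 98) (nat_lit 5) (nat_lit 100) (nat_lit 4) (nat_lit 98) (nat_lit 4) (nat_lit 456) (nat_lit 294) (nat_lit 270)) (XT.lf (nat_lit 0) (nat_lit 9872148505) (nat_lit 76) (nat_lit 32602719528) (nat_lit 76) (nat_lit 32222090089) (nat_lit 97) (nat_lit 4) (nat_lit 98) (nat_lit 5) (nat_lit 98) (nat_lit 4) (nat_lit 457) (nat_lit 294) (nat_lit 269))) (XT.nd (nat_lit 78) (nat_lit 152) (nat_lit 0) (XT.lf (nat_lit 0) (nat_lit 73081610353) (nat_lit 76) (nat_lit 2103863508) (nat_lit 76) (nat_lit 1715638715) (nat_lit 97) (nat_lit 4) (nat_lit 98) (nat_lit 5) (nat_lit 98) (nat_lit 4) (nat_lit 458)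 (nat_lit 294) (nat_lit 268)) (XT.lf (nat_lit 0) (nat_lit 30231511155) (nat_lit 152) (nat_lit 19061129481) (nat_lit 0) (nat_lit 29854884047) (nat_lit 95) (nat_lit 5) (nat_lit 97) (nat_lit 4) (nat_lit 95) (nat_lit 4) (nat_lit 459) (nat_lit 294) (nat_lit 267)))) (XT.nd (nat_lit 156) (nat_lit 76) (nat_lit 0) (XT.nd (nat_lit 78) (nat_lit 152) (nat_lit 0) (XT.lf (nat_lit 0) (nat_lit 46119512400) (nat_lit 76) (nat_lit 17877302178) (nat_lit 76) (nat_lit 17494113917) (nat_lit 94) (nat_lit 4) (nat_lit 95) (nat_lit 5) (nat_lit 95) (nat_lit 4) (nat_lit 460) (nat_lit 294) (nat_lit 266)) (XT.lf (nat_lit 0) (nat_lit 15516084751) (nat_lit 152) (nat_lit 53252463056) (nat_lit 0) (nat_lit 15145192391) (nat_lit 92) (nat_lit 5) (nat_lit 94) (nat_lit 4) (nat_lit 92) (nat_lit 4) (nat_lit 461) (nat_lit 294) (nat_lit 265))) (XT.nd (nat_lit 78) (nat_lit 0) (nat_lit 0) (XT.lf (nat_lit 0) (nat_lit 13529092125) (nat_lit 76)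 (nat_lit 36631126960) (nat_lit 76) (nat_lit 36254566830) (nat_lit 91) (nat_lit 4) (nat_lit 92) (nat_lit 5) (nat_lit 92) (nat_lit 4) (nat_lit 462) (nat_lit 294) (nat_lit 264)) (XT.lf (nat_lit 0) (nat_lit 84406311863) (nat_lit 76) (nat_lit 2499045109) (nat_lit 76) (nat_lit 2117087102) (nat_lit 91) (nat_lit 4) (nat_lit 92) (nat_lit 5) (nat_lit 92) (nat_lit 4) (nat_lit 463) (nat_lit 294) (nat_lit 263))))) (XT.nd (nat_lit 312) (nat_lit 380) (nat_lit 0) (XT.nd (nat_lit 156) (nat_lit 228) (nat_lit 0) (XT.nd (nat_lit 78) (nat_lit 76) (nat_lit 0) (XT.lf (nat_lit 0) (nat_lit 33725984970) (nat_lit 152) (nat_lit 24596941834) (nat_lit 0) (nat_lit 33357319406) (nat_lit 89) (nat_lit 5) (nat_lit 91) (nat_lit 4) (nat_lit 89) (nat_lit 4) (nat_lit 464) (nat_lit 294) (nat_lit 262)) (XT.lf (nat_lit 0) (nat_lit 48478312360) (nat_lit 76) (nat_lit 23173076459) (nat_lit 76) (nat_lit 22799748006) (nat_lit 88) (nat_lit 4)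 (nat_lit 89) (nat_lit 5) (nat_lit 89) (nat_lit 4) (nat_lit 465) (nat_lit 294) (nat_lit 261))) (XT.nd (nat_lit 78) (nat_lit 76) (nat_lit 0) (XT.lf (nat_lit 0) (nat_lit 14234538333) (nat_lit 152) (nat_lit 69211572048) (nat_lit 0) (nat_lit 13874758048) (nat_lit 86) (nat_lit 5) (nat_lit 88) (nat_lit 4) (nat_lit 86) (nat_lit 4) (nat_lit 466) (nat_lit 294) (nat_lit 260)) (XT.lf (nat_lit 0) (nat_lit 5550361099) (nat_lit 76) (nat_lit 47545874782) (nat_lit 76) (nat_lit 47182066519) (nat_lit 85) (nat_lit 4) (nat_lit 86) (nat_lit 5) (nat_lit 86) (nat_lit 4) (nat_lit 467) (nat_lit 294) (nat_lit 259)))) (XT.nd (nat_lit 156) (nat_lit 228) (nat_lit 0) (XT.nd (nat_lit 78) (nat_lit 152) (nat_lit 0) (XT.lf (nat_lit 0) (nat_lit 85413007038) (nat_lit 76) (nat_lit 9152510257) (nat_lit 76) (nat_lit 8784865824) (nat_lit 85) (nat_lit 4) (nat_lit 86) (nat_lit 5) (nat_lit 86) (nat_lit 4) (nat_lit 468) (nat_lit 294) (nat_lit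 258)) (XT.lf (nat_lit 0) (nat_lit 31521277963) (nat_lit 152) (nat_lit 43812598216) (nat_lit 0) (nat_lit 31167660889) (nat_lit 83) (nat_lit 5) (nat_lit 85) (nat_lit 4) (nat_lit 83) (nat_lit 4) (nat_lit 469) (nat_lit 294) (nat_lit 257))) (XT.nd (nat_lit 78) (nat_lit 152) (nat_lit 0) (XT.lf (nat_lit 0) (nat_lit 38087273917) (nat_lit 76) (nat_lit 36022300627) (nat_lit 76) (nat_lit 35665369724) (nat_lit 82) (nat_lit 4) (nat_lit 83) (nat_lit 5) (nat_lit 83) (nat_lit 4) (nat_lit 470) (nat_lit 294) (nat_lit 256)) (XT.lf (nat_lit 0) (nat_lit 5971714686) (nat_lit 152) (nat_lit 101580340185) (nat_lit 0) (nat_lit 5628774753) (nat_lit 80) (nat_lit 5) (nat_lit 82) (nat_lit 4) (nat_lit 80) (nat_lit 4) (nat_lit 471) (nat_lit 294) (nat_lit 255)))))) (XT.nd (nat_lit 624) (nat_lit 532) (nat_lit 0) (XT.nd (nat_lit 312) (nat_lit 380) (nat_lit 0) (XT.nd (nat_lit 156) (nat_lit 228) (nat_lit 0) (XT.nd (nat_lit 78) (nat_lit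 76) (nat_lit 0) (XT.lf (nat_lit 0) (nat_lit 49825202153) (nat_lit 152) (nat_lit 17356516618) (nat_lit 0) (nat_lit 49479399611) (nat_lit 80) (nat_lit 5) (nat_lit 82) (nat_lit 4) (nat_lit 80) (nat_lit 4) (nat_lit 472) (nat_lit 294) (nat_lit 254)) (XT.lf (nat_lit 0) (nat_lit 72437924595) (nat_lit 76) (nat_lit 24096437946) (nat_lit 76) (nat_lit 23747909109) (nat_lit 79) (nat_lit 4) (nat_lit 80) (nat_lit 5) (nat_lit 80) (nat_lit 4) (nat_lit 473) (nat_lit 294) (nat_lit 253))) (XT.nd (nat_lit 78) (nat_lit 76) (nat_lit 0) (XT.lf (nat_lit 0) (nat_lit 21657972783) (nat_lit 152) (nat_lit 81043590973) (nat_lit 0) (nat_lit 21323567728) (nat_lit 77) (nat_lit 5) (nat_lit 79) (nat_lit 4) (nat_lit 77) (nat_lit 4) (nat_lit 474) (nat_lit 294) (nat_lit 252)) (XT.lf (nat_lit 0) (nat_lit 10680317454) (nat_lit 76) (nat_lit 58773121355) (nat_lit 76) (nat_lit 58436361225) (nat_lit 76) (nat_lit 4) (nat_lit 77) (nat_lit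 5) (nat_lit 77) (nat_lit 4) (nat_lit 475) (nat_lit 294) (nat_lit 251)))) (XT.nd (nat_lit 156) (nat_lit 228) (nat_lit 0) (XT.nd (nat_lit 78) (nat_lit 152) (nat_lit 0) (XT.lf (nat_lit 0) (nat_lit 108860488384) (nat_lit 76) (nat_lit 11690305452) (nat_lit 76) (nat_lit 11351302393) (nat_lit 76) (nat_lit 4) (nat_lit 77) (nat_lit 5) (nat_lit 77) (nat_lit 4) (nat_lit 476) (nat_lit 294) (nat_lit 250)) (XT.lf (nat_lit 0) (nat_lit 38233540175) (nat_lit 152) (nat_lit 59874859065) (nat_lit 0) (nat_lit 37908645715) (nat_lit 74) (nat_lit 5) (nat_lit 76) (nat_lit 4) (nat_lit 74) (nat_lit 4) (nat_lit 477) (nat_lit 294) (nat_lit 249))) (XT.nd (nat_lit 78) (nat_lit 152) (nat_lit 0) (XT.lf (nat_lit 0) (nat_lit 40774406026) (nat_lit 76) (nat_lit 49920951105) (nat_lit 76) (nat_lit 49594119119) (nat_lit 73) (nat_lit 4) (nat_lit 74) (nat_lit 5) (nat_lit 74) (nat_lit 4) (nat_lit 478) (nat_lit 294) (nat_lit 248)) (XT.lf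 (nat_lit 0) (nat_lit 1624917687) (nat_lit 152) (nat_lit 141805318365) (nat_lit 0) (nat_lit 1311891735) (nat_lit 71) (nat_lit 5) (nat_lit 73) (nat_lit 4) (nat_lit 71) (nat_lit 4) (nat_lit 479) (nat_lit 294) (nat_lit 247))))) (XT.nd (nat_lit 312) (nat_lit 304) (nat_lit 0) (XT.nd (nat_lit 156) (nat_lit 152) (nat_lit 0) (XT.nd (nat_lit 78) (nat_lit 76) (nat_lit 0) (XT.lf (nat_lit 0) (nat_lit 55823913675) (nat_lit 152) (nat_lit 37939348547) (nat_lit 0) (nat_lit 55509214015) (nat_lit 71) (nat_lit 5) (nat_lit 73) (nat_lit 4) (nat_lit 71) (nat_lit 4) (nat_lit 480) (nat_lit 294) (nat_lit 246)) (XT.lf (nat_lit 0) (nat_lit 72572795821) (nat_lit 76) (nat_lit 40868703970) (nat_lit 76) (nat_lit 40552410302) (nat_lit 70) (nat_lit 4) (nat_lit 71) (nat_lit 5) (nat_lit 71) (nat_lit 4) (nat_lit 481) (nat_lit 294) (nat_lit 245))) (XT.nd (nat_lit 78) (nat_lit 0) (nat_lit 0) (XT.lf (nat_lit 0) (nat_lit 15464155674)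 (nat_lit 152) (nat_lit 128266314842) (nat_lit 0) (nat_lit 15161477797) (nat_lit 68) (nat_lit 5) (nat_lit 70) (nat_lit 4) (nat_lit 68) (nat_lit 4) (nat_lit 482) (nat_lit 294) (nat_lit 244)) (XT.lf (nat_lit 0) (nat_lit 74565795677) (nat_lit 152) (nat_lit 15091758619) (nat_lit 0) (nat_lit 74261740836) (nat_lit 68) (nat_lit 5) (nat_lit 70) (nat_lit 4) (nat_lit 68) (nat_lit 4) (nat_lit 483) (nat_lit 294) (nat_lit 243)))) (XT.nd (nat_lit 156) (nat_lit 76) (nat_lit 0) (XT.nd (nat_lit 78) (nat_lit 152) (nat_lit 0) (XT.lf (nat_lit 0) (nat_lit 106315805697) (nat_lit 76) (nat_lit 31562392893) (nat_lit 76) (nat_lit 31257026658) (nat_lit 67) (nat_lit 4) (nat_lit 68) (nat_lit 5) (nat_lit 68) (nat_lit 4) (nat_lit 484) (nat_lit 294) (nat_lit 242)) (XT.lf (nat_lit 0) (nat_lit 30070417238) (nat_lit 152) (nat_lit 114676004787) (nat_lit 0) (nat_lit 29778402779) (nat_lit 65) (nat_lit 5) (nat_lit 67) (nat_lit 4) (nat_lit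 65) (nat_lit 4) (nat_lit 485) (nat_lit 294) (nat_lit 241))) (XT.nd (nat_lit 78) (nat_lit 0) (nat_lit 0) (XT.lf (nat_lit 0) (nat_lit 9116739466) (nat_lit 76) (nat_lit 85633924045) (nat_lit 76) (nat_lit 85340776754) (nat_lit 64) (nat_lit 4) (nat_lit 65) (nat_lit 5) (nat_lit 65) (nat_lit 4) (nat_lit 486) (nat_lit 294) (nat_lit 240)) (XT.lf (nat_lit 0) (nat_lit 142265280247) (nat_lit 76) (nat_lit 21944055864) (nat_lit 76) (nat_lit 21649829686) (nat_lit 64) (nat_lit 4) (nat_lit 65) (nat_lit 5) (nat_lit 65) (nat_lit 4) (nat_lit 487) (nat_lit 294) (nat_lit 239))))))))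
noncomputable def xc23 : XT := (XT.nd (nat_lit 50388) (nat_lit 0) (nat_lit 1064) (XT.nd (nat_lit 49140) (nat_lit 0) (nat_lit 3876) (XT.nd (nat_lit 624) (nat_lit 152) (nat_lit 0) (XT.nd (nat_lit 312) (nat_lit 304) (nat_lit 0) (XT.nd (nat_lit 156) (nat_lit 152) (nat_lit 0) (XT.nd (nat_lit 78) (nat_lit 76) (nat_lit 0) (XT.lf (nat_lit 0) (nat_lit 45553420159) (nat_lit 152) (nat_lit 100965563352) (nat_lit 0) (nat_lit 45272226169) (nat_lit 62) (nat_lit 5) (nat_lit 64) (nat_lit 4) (nat_lit 62) (nat_lit 4) (nat_lit 488) (nat_lit 294) (nat_lit 238)) (XT.lf (nat_lit 0) (nat_lit 35104451056) (nat_lit 76) (nat_lit 81558061060) (nat_lit 76) (nat_lit 81275935087) (nat_lit 61) (nat_lit 4) (nat_lit 62) (nat_lit 5) (nat_lit 62) (nat_lit 4) (nat_lit 489) (nat_lit 294) (nat_lit 237))) (XT.nd (nat_lit 78) (nat_lit 152) (nat_lit 0) (XT.lf (nat_lit 0) (nat_lit 180706940915) (nat_lit 76) (nat_lit 11951280562) (nat_lit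 76) (nat_lit 11668266985) (nat_lit 61) (nat_lit 4) (nat_lit 62) (nat_lit 5) (nat_lit 62) (nat_lit 4) (nat_lit 490) (nat_lit 294) (nat_lit 236)) (XT.lf (nat_lit 0) (nat_lit 62032634294) (nat_lit 152) (nat_lit 87062124945) (nat_lit 0) (nat_lit 61762292472) (nat_lit 59) (nat_lit 5) (nat_lit 61) (nat_lit 4) (nat_lit 59) (nat_lit 4) (nat_lit 491) (nat_lit 294) (nat_lit 235)))) (XT.nd (nat_lit 156) (nat_lit 228) (nat_lit 0) (XT.nd (nat_lit 78) (nat_lit 0) (nat_lit 0) (XT.lf (nat_lit 0) (nat_lit 62563169822) (nat_lit 76) (nat_lit 77675942314) (nat_lit 76) (nat_lit 77404833747) (nat_lit 58) (nat_lit 4) (nat_lit 59) (nat_lit 5) (nat_lit 59) (nat_lit 4) (nat_lit 492) (nat_lit 294) (nat_lit 234)) (XT.lf (nat_lit 0) (nat_lit 221952971773) (nat_lit 76) (nat_lit 1516682388) (nat_lit 76) (nat_lit 1244843587) (nat_lit 58) (nat_lit 4) (nat_lit 59) (nat_lit 5) (nat_lit 59) (nat_lit 4) (nat_lit 493) (nat_lit 294)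 (nat_lit 233))) (XT.nd (nat_lit 78) (nat_lit 76) (nat_lit 0) (XT.lf (nat_lit 0) (nat_lit 79638354640) (nat_lit 152) (nat_lit 72888227874) (nat_lit 0) (nat_lit 79378798201) (nat_lit 56) (nat_lit 5) (nat_lit 58) (nat_lit 4) (nat_lit 56) (nat_lit 4) (nat_lit 494) (nat_lit 294) (nat_lit 232)) (XT.lf (nat_lit 0) (nat_lit 91700421454) (nat_lit 76) (nat_lit 73978402964) (nat_lit 76) (nat_lit 73718215722) (nat_lit 55) (nat_lit 4) (nat_lit 56) (nat_lit 5) (nat_lit 56) (nat_lit 4) (nat_lit 495) (nat_lit 294) (nat_lit 231))))) (XT.nd (nat_lit 48204) (nat_lit 0) (nat_lit 5472) (XT.nd (nat_lit 48048) (nat_lit 0) (nat_lit 5928) (XT.nd (nat_lit 47970) (nat_lit 0) (nat_lit 6156) (XT.lf (nat_lit 0) (nat_lit 9844019074) (nat_lit 152) (nat_lit 227748462259) (nat_lit 0) (nat_lit 9595649543) (nat_lit 53) (nat_lit 5) (nat_lit 55) (nat_lit 4) (nat_lit 53) (nat_lit 4) (nat_lit 496) (nat_lit 294) (nat_lit 230)) (XT.lf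 (nat_lit 0) (nat_lit 5003325173) (nat_lit 152) (nat_lit 8238186017) (nat_lit 0) (nat_lit 5003325173) (nat_lit 134) (nat_lit 5) (nat_lit 136) (nat_lit 4) (nat_lit 134) (nat_lit 4) (nat_lit 430) (nat_lit 295) (nat_lit 295))) (XT.nd (nat_lit 78) (nat_lit 152) (nat_lit 0) (XT.lf (nat_lit 0) (nat_lit 20323190585) (nat_lit 76) (nat_lit 8559077614) (nat_lit 76) (nat_lit 8510577651) (nat_lit 133) (nat_lit 4) (nat_lit 134) (nat_lit 5) (nat_lit 134) (nat_lit 4) (nat_lit 431) (nat_lit 295) (nat_lit 294)) (XT.lf (nat_lit 0) (nat_lit 10196473974) (nat_lit 152) (nat_lit 18021943952) (nat_lit 0) (nat_lit 10106292638) (nat_lit 131) (nat_lit 5) (nat_lit 133) (nat_lit 4) (nat_lit 131) (nat_lit 4) (nat_lit 432) (nat_lit 295) (nat_lit 293)))) (XT.nd (nat_lit 156) (nat_lit 228) (nat_lit 0) (XT.nd (nat_lit 78) (nat_lit 152) (nat_lit 0) (XT.lf (nat_lit 0) (nat_lit 19979914272) (nat_lit 76) (nat_lit 9720489473) (nat_lit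 76) (nat_lit 9588412045) (nat_lit 130) (nat_lit 4) (nat_lit 131) (nat_lit 5) (nat_lit 131) (nat_lit 4) (nat_lit 433) (nat_lit 295) (nat_lit 292)) (XT.lf (nat_lit 0) (nat_lit 9732167887) (nat_lit 152) (nat_lit 20984371303) (nat_lit 0) (nat_lit 9568378871) (nat_lit 128) (nat_lit 5) (nat_lit 130) (nat_lit 4) (nat_lit 128) (nat_lit 4) (nat_lit 434) (nat_lit 295) (nat_lit 291))) (XT.nd (nat_lit 78) (nat_lit 152) (nat_lit 0) (XT.lf (nat_lit 0) (nat_lit 18235188438) (nat_lit 76) (nat_lit 11639427235) (nat_lit 76) (nat_lit 11439446800) (nat_lit 127) (nat_lit 4) (nat_lit 128) (nat_lit 5) (nat_lit 128) (nat_lit 4) (nat_lit 435) (nat_lit 295) (nat_lit 290)) (XT.lf (nat_lit 0) (nat_lit 8514546946) (nat_lit 152) (nat_lit 25574056713) (nat_lit 0) (nat_lit 8291262705) (nat_lit 125) (nat_lit 5) (nat_lit 127) (nat_lit 4) (nat_lit 125) (nat_lit 4) (nat_lit 436) (nat_lit 295) (nat_lit 289)))))) (XT.nd (nat_lit 624)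 (nat_lit 836) (nat_lit 0) (XT.nd (nat_lit 312) (nat_lit 304) (nat_lit 0) (XT.nd (nat_lit 156) (nat_lit 228) (nat_lit 0) (XT.nd (nat_lit 78) (nat_lit 152) (nat_lit 0) (XT.lf (nat_lit 0) (nat_lit 14874822974) (nat_lit 76) (nat_lit 14429101209) (nat_lit 76) (nat_lit 14174553460) (nat_lit 124) (nat_lit 4) (nat_lit 125) (nat_lit 5) (nat_lit 125) (nat_lit 4) (nat_lit 437) (nat_lit 295) (nat_lit 288)) (XT.lf (nat_lit 0) (nat_lit 6432400364) (nat_lit 152) (nat_lit 32025941653) (nat_lit 0) (nat_lit 6161617012) (nat_lit 122) (nat_lit 5) (nat_lit 124) (nat_lit 4) (nat_lit 122) (nat_lit 4) (nat_lit 438) (nat_lit 295) (nat_lit 287))) (XT.nd (nat_lit 78) (nat_lit 152) (nat_lit 0) (XT.lf (nat_lit 0) (nat_lit 9659428309) (nat_lit 76) (nat_lit 18215587033) (nat_lit 76) (nat_lit 17917797087) (nat_lit 121) (nat_lit 4) (nat_lit 122) (nat_lit 5) (nat_lit 122) (nat_lit 4) (nat_lit 439) (nat_lit 295) (nat_lit 286)) (XT.lf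 (nat_lit 0) (nat_lit 3361202493) (nat_lit 152) (nat_lit 40602208282) (nat_lit 0) (nat_lit 3053097244) (nat_lit 119) (nat_lit 5) (nat_lit 121) (nat_lit 4) (nat_lit 119) (nat_lit 4) (nat_lit 440) (nat_lit 295) (nat_lit 285)))) (XT.nd (nat_lit 156) (nat_lit 228) (nat_lit 0) (XT.nd (nat_lit 78) (nat_lit 0) (nat_lit 0) (XT.lf (nat_lit 0) (nat_lit 2321632818) (nat_lit 76) (nat_lit 23139278829) (nat_lit 76) (nat_lit 22807844269) (nat_lit 118) (nat_lit 4) (nat_lit 119) (nat_lit 5) (nat_lit 119) (nat_lit 4) (nat_lit 441) (nat_lit 295) (nat_lit 284)) (XT.lf (nat_lit 0) (nat_lit 47597676860) (nat_lit 76) (nat_lit 1167311596) (nat_lit 76) (nat_lit 813658644) (nat_lit 118) (nat_lit 4) (nat_lit 119) (nat_lit 5) (nat_lit 119) (nat_lit 4) (nat_lit 442) (nat_lit 295) (nat_lit 283))) (XT.nd (nat_lit 78) (nat_lit 76) (nat_lit 0) (XT.lf (nat_lit 0) (nat_lit 22035610611) (nat_lit 152) (nat_lit 7198959792) (nat_lit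 0) (nat_lit 21678645539) (nat_lit 116) (nat_lit 5) (nat_lit 118) (nat_lit 4) (nat_lit 116) (nat_lit 4) (nat_lit 443) (nat_lit 295) (nat_lit 282)) (XT.lf (nat_lit 0) (nat_lit 39516756102) (nat_lit 76) (nat_lit 6584102680) (nat_lit 76) (nat_lit 6207944526) (nat_lit 115) (nat_lit 4) (nat_lit 116) (nat_lit 5) (nat_lit 116) (nat_lit 4) (nat_lit 444) (nat_lit 295) (nat_lit 281))))) (XT.nd (nat_lit 312) (nat_lit 380) (nat_lit 0) (XT.nd (nat_lit 156) (nat_lit 228) (nat_lit 0) (XT.nd (nat_lit 78) (nat_lit 76) (nat_lit 0) (XT.lf (nat_lit 0) (nat_lit 17403355712) (nat_lit 152) (nat_lit 19310812018) (nat_lit 0) (nat_lit 17027701160) (nat_lit 113) (nat_lit 5) (nat_lit 115) (nat_lit 4) (nat_lit 113) (nat_lit 4) (nat_lit 445) (nat_lit 295) (nat_lit 280)) (XT.lf (nat_lit 0) (nat_lit 28765827656) (nat_lit 76) (nat_lit 13428753248) (nat_lit 76) (nat_lit 13036518990) (nat_lit 112) (nat_lit 4) (nat_lit 113) (nat_lit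 5) (nat_lit 113) (nat_lit 4) (nat_lit 446) (nat_lit 295) (nat_lit 279))) (XT.nd (nat_lit 78) (nat_lit 76) (nat_lit 0) (XT.lf (nat_lit 0) (nat_lit 11356231673) (nat_lit 152) (nat_lit 34447425327) (nat_lit 0) (nat_lit 10967636955) (nat_lit 110) (nat_lit 5) (nat_lit 112) (nat_lit 4) (nat_lit 110) (nat_lit 4) (nat_lit 447) (nat_lit 295) (nat_lit 278)) (XT.lf (nat_lit 0) (nat_lit 14978030894) (nat_lit 76) (nat_lit 21892839935) (nat_lit 76) (nat_lit 21489923043) (nat_lit 109) (nat_lit 4) (nat_lit 110) (nat_lit 5) (nat_lit 110) (nat_lit 4) (nat_lit 448) (nat_lit 295) (nat_lit 277)))) (XT.nd (nat_lit 156) (nat_lit 228) (nat_lit 0) (XT.nd (nat_lit 78) (nat_lit 0) (nat_lit 0) (XT.lf (nat_lit 0) (nat_lit 3702654242) (nat_lit 152) (nat_lit 53008975892) (nat_lit 0) (nat_lit 3305933235) (nat_lit 107) (nat_lit 5) (nat_lit 109) (nat_lit 4) (nat_lit 107) (nat_lit 4) (nat_lit 449) (nat_lit 295) (nat_lit 276)) (XT.lf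 (nat_lit 0) (nat_lit 29969196271) (nat_lit 152) (nat_lit 2183430232) (nat_lit 0) (nat_lit 29560103233) (nat_lit 107) (nat_lit 5) (nat_lit 109) (nat_lit 4) (nat_lit 107) (nat_lit 4) (nat_lit 450) (nat_lit 295) (nat_lit 275))) (XT.nd (nat_lit 78) (nat_lit 152) (nat_lit 0) (XT.lf (nat_lit 0) (nat_lit 51729129731) (nat_lit 76) (nat_lit 6085559708) (nat_lit 76) (nat_lit 5664683782) (nat_lit 106) (nat_lit 4) (nat_lit 107) (nat_lit 5) (nat_lit 107) (nat_lit 4) (nat_lit 451) (nat_lit 295) (nat_lit 274)) (XT.lf (nat_lit 0) (nat_lit 21530682457) (nat_lit 152) (nat_lit 22642167123) (nat_lit 0) (nat_lit 21119160815) (nat_lit 104) (nat_lit 5) (nat_lit 106) (nat_lit 4) (nat_lit 104) (nat_lit 4) (nat_lit 452) (nat_lit 295) (nat_lit 273))))))) (XT.nd (nat_lit 1248) (nat_lit 1368) (nat_lit 0) (XT.nd (nat_lit 624) (nat_lit 684) (nat_lit 0) (XT.nd (nat_lit 312) (nat_lit 456) (nat_lit 0) (XT.nd (nat_lit 156) (nat_lit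 76) (nat_lit 0) (XT.nd (nat_lit 78) (nat_lit 152) (nat_lit 0) (XT.lf (nat_lit 0) (nat_lit 32734390316) (nat_lit 76) (nat_lit 17432194575) (nat_lit 76) (nat_lit 17010494432) (nat_lit 103) (nat_lit 4) (nat_lit 104) (nat_lit 5) (nat_lit 104) (nat_lit 4) (nat_lit 453) (nat_lit 295) (nat_lit 272)) (XT.lf (nat_lit 0) (nat_lit 11085867818) (nat_lit 152) (nat_lit 47368742188) (nat_lit 0) (nat_lit 10675016433) (nat_lit 101) (nat_lit 5) (nat_lit 103) (nat_lit 4) (nat_lit 101) (nat_lit 4) (nat_lit 454) (nat_lit 295) (nat_lit 271))) (XT.nd (nat_lit 78) (nat_lit 0) (nat_lit 0) (XT.lf (nat_lit 0) (nat_lit 9437620343) (nat_lit 76) (nat_lit 31061838868) (nat_lit 76) (nat_lit 30642194911) (nat_lit 100) (nat_lit 4) (nat_lit 101) (nat_lit 5) (nat_lit 101) (nat_lit 4) (nat_lit 455) (nat_lit 295) (nat_lit 270)) (XT.lf (nat_lit 0) (nat_lit 69636721618) (nat_lit 76) (nat_lit 2016063334) (nat_lit 76) (nat_lit 1588045499)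 (nat_lit 100) (nat_lit 4) (nat_lit 101) (nat_lit 5) (nat_lit 101) (nat_lit 4) (nat_lit 456) (nat_lit 295) (nat_lit 269)))) (XT.nd (nat_lit 156) (nat_lit 228) (nat_lit 0) (XT.nd (nat_lit 78) (nat_lit 76) (nat_lit 0) (XT.lf (nat_lit 0) (nat_lit 28837037677) (nat_lit 152) (nat_lit 18121356003) (nat_lit 0) (nat_lit 28421806289) (nat_lit 98) (nat_lit 5) (nat_lit 100) (nat_lit 4) (nat_lit 98) (nat_lit 4) (nat_lit 457) (nat_lit 295) (nat_lit 268)) (XT.lf (nat_lit 0) (nat_lit 43956173568) (nat_lit 76) (nat_lit 17039131420) (nat_lit 76) (nat_lit 16616666362) (nat_lit 97) (nat_lit 4) (nat_lit 98) (nat_lit 5) (nat_lit 98) (nat_lit 4) (nat_lit 458) (nat_lit 295) (nat_lit 267))) (XT.nd (nat_lit 78) (nat_lit 76) (nat_lit 0) (XT.lf (nat_lit 0) (nat_lit 14820797653) (nat_lit 152) (nat_lit 50686659908) (nat_lit 0) (nat_lit 14411888826) (nat_lit 95) (nat_lit 5) (nat_lit 97) (nat_lit 4) (nat_lit 95) (nat_lit 4) (nat_lit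 459) (nat_lit 295) (nat_lit 266)) (XT.lf (nat_lit 0) (nat_lit 12915524024) (nat_lit 76) (nat_lit 34900445157) (nat_lit 76) (nat_lit 34485287613) (nat_lit 94) (nat_lit 4) (nat_lit 95) (nat_lit 5) (nat_lit 95) (nat_lit 4) (nat_lit 460) (nat_lit 295) (nat_lit 265))))) (XT.nd (nat_lit 312) (nat_lit 304) (nat_lit 0) (XT.nd (nat_lit 156) (nat_lit 228) (nat_lit 0) (XT.nd (nat_lit 78) (nat_lit 152) (nat_lit 0) (XT.lf (nat_lit 0) (nat_lit 80417363596) (nat_lit 76) (nat_lit 2394236397) (nat_lit 76) (nat_lit 1973127694) (nat_lit 94) (nat_lit 4) (nat_lit 95) (nat_lit 5) (nat_lit 95) (nat_lit 4) (nat_lit 461) (nat_lit 295) (nat_lit 264)) (XT.lf (nat_lit 0) (nat_lit 32162244497) (nat_lit 152) (nat_lit 23397874222) (nat_lit 0) (nat_lit 31755790714) (nat_lit 92) (nat_lit 5) (nat_lit 94) (nat_lit 4) (nat_lit 92) (nat_lit 4) (nat_lit 462) (nat_lit 295) (nat_lit 263))) (XT.nd (nat_lit 78) (nat_lit 152) (nat_lit 0)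 (XT.lf (nat_lit 0) (nat_lit 46198287556) (nat_lit 76) (nat_lit 22084063121) (nat_lit 76) (nat_lit 21672468502) (nat_lit 91) (nat_lit 4) (nat_lit 92) (nat_lit 5) (nat_lit 92) (nat_lit 4) (nat_lit 463) (nat_lit 295) (nat_lit 262)) (XT.lf (nat_lit 0) (nat_lit 13597376405) (nat_lit 152) (nat_lit 65889748058) (nat_lit 0) (nat_lit 13200718641) (nat_lit 89) (nat_lit 5) (nat_lit 91) (nat_lit 4) (nat_lit 89) (nat_lit 4) (nat_lit 464) (nat_lit 295) (nat_lit 261)))) (XT.nd (nat_lit 156) (nat_lit 228) (nat_lit 0) (XT.nd (nat_lit 78) (nat_lit 0) (nat_lit 0) (XT.lf (nat_lit 0) (nat_lit 5312749055) (nat_lit 76) (nat_lit 45296382846) (nat_lit 76) (nat_lit 44895284236) (nat_lit 88) (nat_lit 4) (nat_lit 89) (nat_lit 5) (nat_lit 89) (nat_lit 4) (nat_lit 465) (nat_lit 295) (nat_lit 260)) (XT.lf (nat_lit 0) (nat_lit 81372216797) (nat_lit 76) (nat_lit 8731654600) (nat_lit 76) (nat_lit 8326326612) (nat_lit 88) (nat_lit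 4) (nat_lit 89) (nat_lit 5) (nat_lit 89) (nat_lit 4) (nat_lit 466) (nat_lit 295) (nat_lit 259))) (XT.nd (nat_lit 78) (nat_lit 76) (nat_lit 0) (XT.lf (nat_lit 0) (nat_lit 30059541033) (nat_lit 152) (nat_lit 41702028820) (nat_lit 0) (nat_lit 29669678208) (nat_lit 86) (nat_lit 5) (nat_lit 88) (nat_lit 4) (nat_lit 86) (nat_lit 4) (nat_lit 467) (nat_lit 295) (nat_lit 258)) (XT.lf (nat_lit 0) (nat_lit 36298482890) (nat_lit 76) (nat_lit 34321892287) (nat_lit 76) (nat_lit 33928375967) (nat_lit 85) (nat_lit 4) (nat_lit 86) (nat_lit 5) (nat_lit 86) (nat_lit 4) (nat_lit 468) (nat_lit 295) (nat_lit 257)))))) (XT.nd (nat_lit 624) (nat_lit 684) (nat_lit 0) (XT.nd (nat_lit 312) (nat_lit 304) (nat_lit 0) (XT.nd (nat_lit 156) (nat_lit 228) (nat_lit 0) (XT.nd (nat_lit 78) (nat_lit 0) (nat_lit 0) (XT.lf (nat_lit 0) (nat_lit 5725056604) (nat_lit 152) (nat_lit 96720384221) (nat_lit 0) (nat_lit 5346965328) (nat_lit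 83) (nat_lit 5) (nat_lit 85) (nat_lit 4) (nat_lit 83) (nat_lit 4) (nat_lit 469) (nat_lit 295) (nat_lit 256)) (XT.lf (nat_lit 0) (nat_lit 47490423659) (nat_lit 152) (nat_lit 16507359815) (nat_lit 0) (nat_lit 47109176357) (nat_lit 83) (nat_lit 5) (nat_lit 85) (nat_lit 4) (nat_lit 83) (nat_lit 4) (nat_lit 470) (nat_lit 295) (nat_lit 255))) (XT.nd (nat_lit 78) (nat_lit 152) (nat_lit 0) (XT.lf (nat_lit 0) (nat_lit 69011766113) (nat_lit 76) (nat_lit 22964069643) (nat_lit 76) (nat_lit 22579816601) (nat_lit 82) (nat_lit 4) (nat_lit 83) (nat_lit 5) (nat_lit 83) (nat_lit 4) (nat_lit 471) (nat_lit 295) (nat_lit 254)) (XT.lf (nat_lit 0) (nat_lit 20662938044) (nat_lit 152) (nat_lit 77163044709) (nat_lit 0) (nat_lit 20294256471) (nat_lit 80) (nat_lit 5) (nat_lit 82) (nat_lit 4) (nat_lit 80) (nat_lit 4) (nat_lit 472) (nat_lit 295) (nat_lit 253)))) (XT.nd (nat_lit 156) (nat_lit 228) (nat_lit 0) (XT.nd (nat_lit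 78) (nat_lit 0) (nat_lit 0) (XT.lf (nat_lit 0) (nat_lit 10193643995) (nat_lit 76) (nat_lit 55989243543) (nat_lit 76) (nat_lit 55617965499) (nat_lit 79) (nat_lit 4) (nat_lit 80) (nat_lit 5) (nat_lit 80) (nat_lit 4) (nat_lit 473) (nat_lit 295) (nat_lit 252)) (XT.lf (nat_lit 0) (nat_lit 103698454644) (nat_lit 76) (nat_lit 11148689153) (nat_lit 76) (nat_lit 10774938280) (nat_lit 79) (nat_lit 4) (nat_lit 80) (nat_lit 5) (nat_lit 80) (nat_lit 4) (nat_lit 474) (nat_lit 295) (nat_lit 251))) (XT.nd (nat_lit 78) (nat_lit 76) (nat_lit 0) (XT.lf (nat_lit 0) (nat_lit 36447779926) (nat_lit 152) (nat_lit 57003678922) (nat_lit 0) (nat_lit 36089583785) (nat_lit 77) (nat_lit 5) (nat_lit 79) (nat_lit 4) (nat_lit 77) (nat_lit 4) (nat_lit 475) (nat_lit 295) (nat_lit 250)) (XT.lf (nat_lit 0) (nat_lit 38853326675) (nat_lit 76) (nat_lit 47558504795) (nat_lit 76) (nat_lit 47198172531) (nat_lit 76) (nat_lit 4) (nat_lit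 77) (nat_lit 5) (nat_lit 77) (nat_lit 4) (nat_lit 476) (nat_lit 295) (nat_lit 249))))) (XT.nd (nat_lit 312) (nat_lit 304) (nat_lit 0) (XT.nd (nat_lit 156) (nat_lit 228) (nat_lit 0) (XT.nd (nat_lit 78) (nat_lit 0) (nat_lit 0) (XT.lf (nat_lit 0) (nat_lit 1580941328) (nat_lit 152) (nat_lit 135033817309) (nat_lit 0) (nat_lit 1235830216) (nat_lit 74) (nat_lit 5) (nat_lit 76) (nat_lit 4) (nat_lit 74) (nat_lit 4) (nat_lit 477) (nat_lit 295) (nat_lit 248)) (XT.lf (nat_lit 0) (nat_lit 53199115125) (nat_lit 152) (nat_lit 36113928432) (nat_lit 0) (nat_lit 52852158749) (nat_lit 74) (nat_lit 5) (nat_lit 76) (nat_lit 4) (nat_lit 74) (nat_lit 4) (nat_lit 478) (nat_lit 295) (nat_lit 247))) (XT.nd (nat_lit 78) (nat_lit 152) (nat_lit 0) (XT.lf (nat_lit 0) (nat_lit 69136272920) (nat_lit 76) (nat_lit 38937113909) (nat_lit 76) (nat_lit 38588400140) (nat_lit 73) (nat_lit 4) (nat_lit 74) (nat_lit 5) (nat_lit 74) (nat_lit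 4) (nat_lit 479) (nat_lit 295) (nat_lit 246)) (XT.lf (nat_lit 0) (nat_lit 14759801813) (nat_lit 152) (nat_lit 122140650998) (nat_lit 0) (nat_lit 14426099453) (nat_lit 71) (nat_lit 5) (nat_lit 73) (nat_lit 4) (nat_lit 71) (nat_lit 4) (nat_lit 480) (nat_lit 295) (nat_lit 245)))) (XT.nd (nat_lit 156) (nat_lit 228) (nat_lit 0) (XT.nd (nat_lit 78) (nat_lit 76) (nat_lit 0) (XT.lf (nat_lit 0) (nat_lit 71047145779) (nat_lit 152) (nat_lit 14355427130) (nat_lit 0) (nat_lit 70711925317) (nat_lit 71) (nat_lit 5) (nat_lit 73) (nat_lit 4) (nat_lit 71) (nat_lit 4) (nat_lit 481) (nat_lit 295) (nat_lit 244)) (XT.lf (nat_lit 0) (nat_lit 101271342377) (nat_lit 76) (nat_lit 30073678592) (nat_lit 76) (nat_lit 29737012318) (nat_lit 70) (nat_lit 4) (nat_lit 71) (nat_lit 5) (nat_lit 71) (nat_lit 4) (nat_lit 482) (nat_lit 295) (nat_lit 243))) (XT.nd (nat_lit 78) (nat_lit 76) (nat_lit 0) (XT.lf (nat_lit 0) (nat_lit 28669186223)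 (nat_lit 152) (nat_lit 109198528085) (nat_lit 0) (nat_lit 28347240282) (nat_lit 68) (nat_lit 5) (nat_lit 70) (nat_lit 4) (nat_lit 68) (nat_lit 4) (nat_lit 483) (nat_lit 295) (nat_lit 242)) (XT.lf (nat_lit 0) (nat_lit 8699818643) (nat_lit 76) (nat_lit 81569926573) (nat_lit 76) (nat_lit 81246731685) (nat_lit 67) (nat_lit 4) (nat_lit 68) (nat_lit 5) (nat_lit 68) (nat_lit 4) (nat_lit 484) (nat_lit 295) (nat_lit 241))))))))
noncomputable def xc24 : XT := (XT.nd (nat_lit 50232) (nat_lit 0) (nat_lit 1444) (XT.nd (nat_lit 48984) (nat_lit 0) (nat_lit 4180) (XT.nd (nat_lit 624) (nat_lit 304) (nat_lit 0) (XT.nd (nat_lit 312) (nat_lit 380) (nat_lit 0) (XT.nd (nat_lit 156) (nat_lit 76) (nat_lit 0) (XT.nd (nat_lit 78) (nat_lit 152) (nat_lit 0) (XT.lf (nat_lit 0) (nat_lit 135507897862) (nat_lit 76) (nat_lit 20913016362) (nat_lit 76) (nat_lit 20588632000) (nat_lit 67) (nat_lit 4) (nat_lit 68) (nat_lit 5) (nat_lit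 68) (nat_lit 4) (nat_lit 485) (nat_lit 295) (nat_lit 240)) (XT.lf (nat_lit 0) (nat_lit 43413593531) (nat_lit 152) (nat_lit 96141912586) (nat_lit 0) (nat_lit 43103577157) (nat_lit 65) (nat_lit 5) (nat_lit 67) (nat_lit 4) (nat_lit 65) (nat_lit 4) (nat_lit 486) (nat_lit 295) (nat_lit 239))) (XT.nd (nat_lit 78) (nat_lit 0) (nat_lit 0) (XT.lf (nat_lit 0) (nat_lit 33449051259) (nat_lit 76) (nat_lit 77687786427) (nat_lit 76) (nat_lit 77376742541) (nat_lit 64) (nat_lit 4) (nat_lit 65) (nat_lit 5) (nat_lit 65) (nat_lit 4) (nat_lit 487) (nat_lit 295) (nat_lit 238)) (XT.lf (nat_lit 0) (nat_lit 172118044089) (nat_lit 76) (nat_lit 11395702638) (nat_lit 76) (nat_lit 11083680170) (nat_lit 64) (nat_lit 4) (nat_lit 65) (nat_lit 5) (nat_lit 65) (nat_lit 4) (nat_lit 488) (nat_lit 295) (nat_lit 237)))) (XT.nd (nat_lit 156) (nat_lit 152) (nat_lit 0) (XT.nd (nat_lit 78) (nat_lit 76) (nat_lit 0) (XT.lf (nat_lit 0) (nat_lit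 59106808872) (nat_lit 152) (nat_lit 82901418395) (nat_lit 0) (nat_lit 58808757013) (nat_lit 62) (nat_lit 5) (nat_lit 64) (nat_lit 4) (nat_lit 62) (nat_lit 4) (nat_lit 489) (nat_lit 295) (nat_lit 236)) (XT.lf (nat_lit 0) (nat_lit 59599315716) (nat_lit 76) (nat_lit 73990130314) (nat_lit 76) (nat_lit 73691233119) (nat_lit 61) (nat_lit 4) (nat_lit 62) (nat_lit 5) (nat_lit 62) (nat_lit 4) (nat_lit 490) (nat_lit 295) (nat_lit 235))) (XT.nd (nat_lit 78) (nat_lit 152) (nat_lit 0) (XT.lf (nat_lit 0) (nat_lit 211399089967) (nat_lit 76) (nat_lit 1457574304) (nat_lit 76) (nat_lit 1157872027) (nat_lit 61) (nat_lit 4) (nat_lit 62) (nat_lit 5) (nat_lit 62) (nat_lit 4) (nat_lit 491) (nat_lit 295) (nat_lit 234)) (XT.lf (nat_lit 0) (nat_lit 75872925804) (nat_lit 152) (nat_lit 69403280674) (nat_lit 0) (nat_lit 75586764830) (nat_lit 59) (nat_lit 5) (nat_lit 61) (nat_lit 4) (nat_lit 59) (nat_lit 4) (nat_lit 492) (nat_lit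 295) (nat_lit 233))))) (XT.nd (nat_lit 48048) (nat_lit 0) (nat_lit 5928) (XT.nd (nat_lit 156) (nat_lit 76) (nat_lit 0) (XT.nd (nat_lit 78) (nat_lit 152) (nat_lit 0) (XT.lf (nat_lit 0) (nat_lit 87348247372) (nat_lit 76) (nat_lit 70468240614) (nat_lit 76) (nat_lit 70181384179) (nat_lit 58) (nat_lit 4) (nat_lit 59) (nat_lit 5) (nat_lit 59) (nat_lit 4) (nat_lit 493) (nat_lit 295) (nat_lit 232)) (XT.lf (nat_lit 0) (nat_lit 9400908054) (nat_lit 152) (nat_lit 216889946352) (nat_lit 0) (nat_lit 9127080647) (nat_lit 56) (nat_lit 5) (nat_lit 58) (nat_lit 4) (nat_lit 56) (nat_lit 4) (nat_lit 494) (nat_lit 295) (nat_lit 231))) (XT.nd (nat_lit 78) (nat_lit 76) (nat_lit 0) (XT.lf (nat_lit 0) (nat_lit 93847469537) (nat_lit 152) (nat_lit 55568778991) (nat_lit 0) (nat_lit 93573041365) (nat_lit 56) (nat_lit 5) (nat_lit 58) (nat_lit 4) (nat_lit 56) (nat_lit 4) (nat_lit 495) (nat_lit 295) (nat_lit 230)) (XT.lf (nat_lit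 0) (nat_lit 116911176025) (nat_lit 76) (nat_lit 67113802894) (nat_lit 76) (nat_lit 66838802565) (nat_lit 55) (nat_lit 4) (nat_lit 56) (nat_lit 5) (nat_lit 56) (nat_lit 4) (nat_lit 496) (nat_lit 295) (nat_lit 229)))) (XT.nd (nat_lit 156) (nat_lit 228) (nat_lit 0) (XT.nd (nat_lit 78) (nat_lit 76) (nat_lit 0) (XT.lf (nat_lit 0) (nat_lit 4791389780) (nat_lit 152) (nat_lit 7795761565) (nat_lit 0) (nat_lit 4791389780) (nat_lit 137) (nat_lit 5) (nat_lit 139) (nat_lit 4) (nat_lit 137) (nat_lit 4) (nat_lit 428) (nat_lit 296) (nat_lit 296)) (XT.lf (nat_lit 0) (nat_lit 19456528338) (nat_lit 76) (nat_lit 8106995858) (nat_lit 76) (nat_lit 8053524649) (nat_lit 136) (nat_lit 4) (nat_lit 137) (nat_lit 5) (nat_lit 137) (nat_lit 4) (nat_lit 429) (nat_lit 296) (nat_lit 295))) (XT.nd (nat_lit 78) (nat_lit 76) (nat_lit 0) (XT.lf (nat_lit 0) (nat_lit 9765496142) (nat_lit 152) (nat_lit 17072709328) (nat_lit 0) (nat_lit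 9666071218) (nat_lit 134) (nat_lit 5) (nat_lit 136) (nat_lit 4) (nat_lit 134) (nat_lit 4) (nat_lit 430) (nat_lit 296) (nat_lit 294)) (XT.lf (nat_lit 0) (nat_lit 19120416738) (nat_lit 76) (nat_lit 9223747951) (nat_lit 76) (nat_lit 9078132586) (nat_lit 133) (nat_lit 4) (nat_lit 134) (nat_lit 5) (nat_lit 134) (nat_lit 4) (nat_lit 431) (nat_lit 296) (nat_lit 293)))))) (XT.nd (nat_lit 624) (nat_lit 836) (nat_lit 0) (XT.nd (nat_lit 312) (nat_lit 456) (nat_lit 0) (XT.nd (nat_lit 156) (nat_lit 228) (nat_lit 0) (XT.nd (nat_lit 78) (nat_lit 76) (nat_lit 0) (XT.lf (nat_lit 0) (nat_lit 9324535654) (nat_lit 152) (nat_lit 19902238561) (nat_lit 0) (nat_lit 9143958263) (nat_lit 131) (nat_lit 5) (nat_lit 133) (nat_lit 4) (nat_lit 131) (nat_lit 4) (nat_lit 432) (nat_lit 296) (nat_lit 292)) (XT.lf (nat_lit 0) (nat_lit 17450623168) (nat_lit 76) (nat_lit 11060285405) (nat_lit 76) (nat_lit 10839806975) (nat_lit 130)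 (nat_lit 4) (nat_lit 131) (nat_lit 5) (nat_lit 131) (nat_lit 4) (nat_lit 433) (nat_lit 296) (nat_lit 291))) (XT.nd (nat_lit 78) (nat_lit 76) (nat_lit 0) (XT.lf (nat_lit 0) (nat_lit 8165551515) (nat_lit 152) (nat_lit 24280626247) (nat_lit 0) (nat_lit 7919380640) (nat_lit 128) (nat_lit 5) (nat_lit 130) (nat_lit 4) (nat_lit 128) (nat_lit 4) (nat_lit 434) (nat_lit 296) (nat_lit 290)) (XT.lf (nat_lit 0) (nat_lit 14243026945) (nat_lit 76) (nat_lit 13724665064) (nat_lit 76) (nat_lit 13444026170) (nat_lit 127) (nat_lit 4) (nat_lit 128) (nat_lit 5) (nat_lit 128) (nat_lit 4) (nat_lit 435) (nat_lit 296) (nat_lit 289)))) (XT.nd (nat_lit 156) (nat_lit 228) (nat_lit 0) (XT.nd (nat_lit 78) (nat_lit 76) (nat_lit 0) (XT.lf (nat_lit 0) (nat_lit 6182727443) (nat_lit 152) (nat_lit 30431740644) (nat_lit 0) (nat_lit 5884188797) (nat_lit 125) (nat_lit 5) (nat_lit 127) (nat_lit 4) (nat_lit 125) (nat_lit 4) (nat_lit 436)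 (nat_lit 296) (nat_lit 288)) (XT.lf (nat_lit 0) (nat_lit 9269525118) (nat_lit 76) (nat_lit 17337163629) (nat_lit 76) (nat_lit 17008850213) (nat_lit 124) (nat_lit 4) (nat_lit 125) (nat_lit 5) (nat_lit 125) (nat_lit 4) (nat_lit 437) (nat_lit 296) (nat_lit 287))) (XT.nd (nat_lit 78) (nat_lit 76) (nat_lit 0) (XT.lf (nat_lit 0) (nat_lit 3257551951) (nat_lit 152) (nat_lit 38605378390) (nat_lit 0) (nat_lit 2917865914) (nat_lit 122) (nat_lit 5) (nat_lit 124) (nat_lit 4) (nat_lit 122) (nat_lit 4) (nat_lit 438) (nat_lit 296) (nat_lit 286)) (XT.lf (nat_lit 0) (nat_lit 2275380062) (nat_lit 76) (nat_lit 22031666116) (nat_lit 76) (nat_lit 21666259513) (nat_lit 121) (nat_lit 4) (nat_lit 122) (nat_lit 5) (nat_lit 122) (nat_lit 4) (nat_lit 439) (nat_lit 296) (nat_lit 285))))) (XT.nd (nat_lit 312) (nat_lit 456) (nat_lit 0) (XT.nd (nat_lit 156) (nat_lit 228) (nat_lit 0) (XT.nd (nat_lit 78) (nat_lit 152) (nat_lit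 0) (XT.lf (nat_lit 0) (nat_lit 45394292273) (nat_lit 76) (nat_lit 1108188707) (nat_lit 76) (nat_lit 718286327) (nat_lit 121) (nat_lit 4) (nat_lit 122) (nat_lit 5) (nat_lit 122) (nat_lit 4) (nat_lit 440) (nat_lit 296) (nat_lit 284)) (XT.lf (nat_lit 0) (nat_lit 21043143485) (nat_lit 152) (nat_lit 6798906399) (nat_lit 0) (nat_lit 20649589493) (nat_lit 119) (nat_lit 5) (nat_lit 121) (nat_lit 4) (nat_lit 119) (nat_lit 4) (nat_lit 441) (nat_lit 296) (nat_lit 283))) (XT.nd (nat_lit 78) (nat_lit 152) (nat_lit 0) (XT.lf (nat_lit 0) (nat_lit 37693168493) (nat_lit 76) (nat_lit 6271111718) (nat_lit 76) (nat_lit 5856397353) (nat_lit 118) (nat_lit 4) (nat_lit 119) (nat_lit 5) (nat_lit 119) (nat_lit 4) (nat_lit 442) (nat_lit 296) (nat_lit 282)) (XT.lf (nat_lit 0) (nat_lit 16630521652) (nat_lit 152) (nat_lit 18338486279) (nat_lit 0) (nat_lit 16216362509) (nat_lit 116) (nat_lit 5) (nat_lit 118) (nat_lit 4) (nat_lit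 116) (nat_lit 4) (nat_lit 443) (nat_lit 296) (nat_lit 281)))) (XT.nd (nat_lit 156) (nat_lit 228) (nat_lit 0) (XT.nd (nat_lit 78) (nat_lit 152) (nat_lit 0) (XT.lf (nat_lit 0) (nat_lit 27449691168) (nat_lit 76) (nat_lit 12793175044) (nat_lit 76) (nat_lit 12360736774) (nat_lit 115) (nat_lit 4) (nat_lit 116) (nat_lit 5) (nat_lit 116) (nat_lit 4) (nat_lit 444) (nat_lit 296) (nat_lit 280)) (XT.lf (nat_lit 0) (nat_lit 10870211489) (nat_lit 152) (nat_lit 32758338372) (nat_lit 0) (nat_lit 10441785812) (nat_lit 113) (nat_lit 5) (nat_lit 115) (nat_lit 4) (nat_lit 113) (nat_lit 4) (nat_lit 445) (nat_lit 296) (nat_lit 279))) (XT.nd (nat_lit 78) (nat_lit 152) (nat_lit 0) (XT.lf (nat_lit 0) (nat_lit 14314407805) (nat_lit 76) (nat_lit 20856939604) (nat_lit 76) (nat_lit 20412723731) (nat_lit 112) (nat_lit 4) (nat_lit 113) (nat_lit 5) (nat_lit 113) (nat_lit 4) (nat_lit 446) (nat_lit 296) (nat_lit 278)) (XT.lf (nat_lit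 0) (nat_lit 3579793603) (nat_lit 152) (nat_lit 50439636964) (nat_lit 0) (nat_lit 3142408693) (nat_lit 110) (nat_lit 5) (nat_lit 112) (nat_lit 4) (nat_lit 110) (nat_lit 4) (nat_lit 447) (nat_lit 296) (nat_lit 277))))))) (XT.nd (nat_lit 1248) (nat_lit 1292) (nat_lit 0) (XT.nd (nat_lit 624) (nat_lit 760) (nat_lit 0) (XT.nd (nat_lit 312) (nat_lit 380) (nat_lit 0) (XT.nd (nat_lit 156) (nat_lit 228) (nat_lit 0) (XT.nd (nat_lit 78) (nat_lit 76) (nat_lit 0) (XT.lf (nat_lit 0) (nat_lit 28596156860) (nat_lit 152) (nat_lit 2034964327) (nat_lit 0) (nat_lit 28145131785) (nat_lit 110) (nat_lit 5) (nat_lit 112) (nat_lit 4) (nat_lit 110) (nat_lit 4) (nat_lit 448) (nat_lit 296) (nat_lit 276)) (XT.lf (nat_lit 0) (nat_lit 49311202895) (nat_lit 76) (nat_lit 5805759490) (nat_lit 76) (nat_lit 5341743781) (nat_lit 109) (nat_lit 4) (nat_lit 110) (nat_lit 5) (nat_lit 110) (nat_lit 4) (nat_lit 449) (nat_lit 296) (nat_lit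 275))) (XT.nd (nat_lit 78) (nat_lit 76) (nat_lit 0) (XT.lf (nat_lit 0) (nat_lit 20557980863) (nat_lit 152) (nat_lit 21522672725) (nat_lit 0) (nat_lit 20104278253) (nat_lit 107) (nat_lit 5) (nat_lit 109) (nat_lit 4) (nat_lit 107) (nat_lit 4) (nat_lit 450) (nat_lit 296) (nat_lit 274)) (XT.lf (nat_lit 0) (nat_lit 31217753675) (nat_lit 76) (nat_lit 16613674184) (nat_lit 76) (nat_lit 16148749776) (nat_lit 106) (nat_lit 4) (nat_lit 107) (nat_lit 5) (nat_lit 107) (nat_lit 4) (nat_lit 451) (nat_lit 296) (nat_lit 273)))) (XT.nd (nat_lit 156) (nat_lit 152) (nat_lit 0) (XT.nd (nat_lit 78) (nat_lit 76) (nat_lit 0) (XT.lf (nat_lit 0) (nat_lit 10608966590) (nat_lit 152) (nat_lit 45074689836) (nat_lit 0) (nat_lit 10156002938) (nat_lit 104) (nat_lit 5) (nat_lit 106) (nat_lit 4) (nat_lit 104) (nat_lit 4) (nat_lit 452) (nat_lit 296) (nat_lit 272)) (XT.lf (nat_lit 0) (nat_lit 9027430349) (nat_lit 76) (nat_lit 29595525531)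 (nat_lit 76) (nat_lit 29132868069) (nat_lit 103) (nat_lit 4) (nat_lit 104) (nat_lit 5) (nat_lit 104) (nat_lit 4) (nat_lit 453) (nat_lit 296) (nat_lit 271))) (XT.nd (nat_lit 78) (nat_lit 152) (nat_lit 0) (XT.lf (nat_lit 0) (nat_lit 66359481969) (nat_lit 76) (nat_lit 1933713459) (nat_lit 76) (nat_lit 1461823797) (nat_lit 103) (nat_lit 4) (nat_lit 104) (nat_lit 5) (nat_lit 104) (nat_lit 4) (nat_lit 454) (nat_lit 296) (nat_lit 270)) (XT.lf (nat_lit 0) (nat_lit 27513592732) (nat_lit 152) (nat_lit 17223043326) (nat_lit 0) (nat_lit 27055800127) (nat_lit 101) (nat_lit 5) (nat_lit 103) (nat_lit 4) (nat_lit 101) (nat_lit 4) (nat_lit 455) (nat_lit 296) (nat_lit 269))))) (XT.nd (nat_lit 312) (nat_lit 456) (nat_lit 0) (XT.nd (nat_lit 156) (nat_lit 76) (nat_lit 0) (XT.nd (nat_lit 78) (nat_lit 152) (nat_lit 0) (XT.lf (nat_lit 0) (nat_lit 41899215784) (nat_lit 76) (nat_lit 16242219312) (nat_lit 76) (nat_lit 15776451586)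 (nat_lit 100) (nat_lit 4) (nat_lit 101) (nat_lit 5) (nat_lit 101) (nat_lit 4) (nat_lit 456) (nat_lit 296) (nat_lit 268)) (XT.lf (nat_lit 0) (nat_lit 14163085807) (nat_lit 152) (nat_lit 48239965776) (nat_lit 0) (nat_lit 13712263825) (nat_lit 98) (nat_lit 5) (nat_lit 100) (nat_lit 4) (nat_lit 98) (nat_lit 4) (nat_lit 457) (nat_lit 296) (nat_lit 267))) (XT.nd (nat_lit 78) (nat_lit 0) (nat_lit 0) (XT.lf (nat_lit 0) (nat_lit 12334317576) (nat_lit 76) (nat_lit 33253576674) (nat_lit 76) (nat_lit 32795865482) (nat_lit 97) (nat_lit 4) (nat_lit 98) (nat_lit 5) (nat_lit 98) (nat_lit 4) (nat_lit 458) (nat_lit 296) (nat_lit 266)) (XT.lf (nat_lit 0) (nat_lit 76621481238) (nat_lit 76) (nat_lit 2295873402) (nat_lit 76) (nat_lit 1831601057) (nat_lit 97) (nat_lit 4) (nat_lit 98) (nat_lit 5) (nat_lit 98) (nat_lit 4) (nat_lit 459) (nat_lit 296) (nat_lit 265)))) (XT.nd (nat_lit 156) (nat_lit 228) (nat_lit 0) (XT.nd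 (nat_lit 78) (nat_lit 76) (nat_lit 0) (XT.lf (nat_lit 0) (nat_lit 30677299386) (nat_lit 152) (nat_lit 22253057139) (nat_lit 0) (nat_lit 30229184089) (nat_lit 95) (nat_lit 5) (nat_lit 97) (nat_lit 4) (nat_lit 95) (nat_lit 4) (nat_lit 460) (nat_lit 296) (nat_lit 264)) (XT.lf (nat_lit 0) (nat_lit 44029753155) (nat_lit 76) (nat_lit 21048390376) (nat_lit 76) (nat_lit 20594607309) (nat_lit 94) (nat_lit 4) (nat_lit 95) (nat_lit 5) (nat_lit 95) (nat_lit 4) (nat_lit 461) (nat_lit 296) (nat_lit 263))) (XT.nd (nat_lit 78) (nat_lit 76) (nat_lit 0) (XT.lf (nat_lit 0) (nat_lit 12994724527) (nat_lit 152) (nat_lit 62723437590) (nat_lit 0) (nat_lit 12557409343) (nat_lit 92) (nat_lit 5) (nat_lit 94) (nat_lit 4) (nat_lit 92) (nat_lit 4) (nat_lit 462) (nat_lit 296) (nat_lit 262)) (XT.lf (nat_lit 0) (nat_lit 5089187683) (nat_lit 76) (nat_lit 43155505801) (nat_lit 76) (nat_lit 42713294583) (nat_lit 91) (nat_lit 4) (nat_lit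 92) (nat_lit 5) (nat_lit 92) (nat_lit 4) (nat_lit 463) (nat_lit 296) (nat_lit 261)))))) (XT.nd (nat_lit 624) (nat_lit 608) (nat_lit 0) (XT.nd (nat_lit 312) (nat_lit 304) (nat_lit 0) (XT.nd (nat_lit 156) (nat_lit 228) (nat_lit 0) (XT.nd (nat_lit 78) (nat_lit 152) (nat_lit 0) (XT.lf (nat_lit 0) (nat_lit 77526560960) (nat_lit 76) (nat_lit 8332374950) (nat_lit 76) (nat_lit 7885500844) (nat_lit 91) (nat_lit 4) (nat_lit 92) (nat_lit 5) (nat_lit 92) (nat_lit 4) (nat_lit 464) (nat_lit 296) (nat_lit 260)) (XT.lf (nat_lit 0) (nat_lit 28671436445) (nat_lit 152) (nat_lit 39689476572) (nat_lit 0) (nat_lit 28241612681) (nat_lit 89) (nat_lit 5) (nat_lit 91) (nat_lit 4) (nat_lit 89) (nat_lit 4) (nat_lit 465) (nat_lit 296) (nat_lit 259))) (XT.nd (nat_lit 78) (nat_lit 152) (nat_lit 0) (XT.lf (nat_lit 0) (nat_lit 34597423478) (nat_lit 76) (nat_lit 32703987053) (nat_lit 76) (nat_lit 32270135310) (nat_lit 88) (nat_lit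 4) (nat_lit 89) (nat_lit 5) (nat_lit 89) (nat_lit 4) (nat_lit 466) (nat_lit 296) (nat_lit 258)) (XT.lf (nat_lit 0) (nat_lit 5494009347) (nat_lit 152) (nat_lit 92089518049) (nat_lit 0) (nat_lit 5077163716) (nat_lit 86) (nat_lit 5) (nat_lit 88) (nat_lit 4) (nat_lit 86) (nat_lit 4) (nat_lit 467) (nat_lit 296) (nat_lit 257)))) (XT.nd (nat_lit 156) (nat_lit 228) (nat_lit 0) (XT.nd (nat_lit 78) (nat_lit 76) (nat_lit 0) (XT.lf (nat_lit 0) (nat_lit 45270704737) (nat_lit 152) (nat_lit 15696316809) (nat_lit 0) (nat_lit 44850379586) (nat_lit 86) (nat_lit 5) (nat_lit 88) (nat_lit 4) (nat_lit 86) (nat_lit 4) (nat_lit 468) (nat_lit 296) (nat_lit 256)) (XT.lf (nat_lit 0) (nat_lit 65751142850) (nat_lit 76) (nat_lit 21887169456) (nat_lit 76) (nat_lit 21463530477) (nat_lit 85) (nat_lit 4) (nat_lit 86) (nat_lit 5) (nat_lit 86) (nat_lit 4) (nat_lit 469) (nat_lit 296) (nat_lit 255))) (XT.nd (nat_lit 78) (nat_lit 76)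 (nat_lit 0) (XT.lf (nat_lit 0) (nat_lit 19719006385) (nat_lit 152) (nat_lit 73465100279) (nat_lit 0) (nat_lit 19312534951) (nat_lit 83) (nat_lit 5) (nat_lit 85) (nat_lit 4) (nat_lit 83) (nat_lit 4) (nat_lit 470) (nat_lit 296) (nat_lit 254)) (XT.lf (nat_lit 0) (nat_lit 9732391554) (nat_lit 76) (nat_lit 53339452671) (nat_lit 76) (nat_lit 52930118628) (nat_lit 82) (nat_lit 4) (nat_lit 83) (nat_lit 5) (nat_lit 83) (nat_lit 4) (nat_lit 471) (nat_lit 296) (nat_lit 253))))) (XT.nd (nat_lit 312) (nat_lit 228) (nat_lit 0) (XT.nd (nat_lit 156) (nat_lit 228) (nat_lit 0) (XT.nd (nat_lit 78) (nat_lit 152) (nat_lit 0) (XT.lf (nat_lit 0) (nat_lit 98784466436) (nat_lit 76) (nat_lit 10634408259) (nat_lit 76) (nat_lit 10222347922) (nat_lit 82) (nat_lit 4) (nat_lit 83) (nat_lit 5) (nat_lit 83) (nat_lit 4) (nat_lit 472) (nat_lit 296) (nat_lit 252)) (XT.lf (nat_lit 0) (nat_lit 34750631543) (nat_lit 152) (nat_lit 54267172015)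 (nat_lit 0) (nat_lit 34355720298) (nat_lit 80) (nat_lit 5) (nat_lit 82) (nat_lit 4) (nat_lit 80) (nat_lit 4) (nat_lit 473) (nat_lit 296) (nat_lit 251))) (XT.nd (nat_lit 78) (nat_lit 152) (nat_lit 0) (XT.lf (nat_lit 0) (nat_lit 37025834594) (nat_lit 76) (nat_lit 45310066967) (nat_lit 76) (nat_lit 44912800646) (nat_lit 79) (nat_lit 4) (nat_lit 80) (nat_lit 5) (nat_lit 80) (nat_lit 4) (nat_lit 474) (nat_lit 296) (nat_lit 250)) (XT.lf (nat_lit 0) (nat_lit 1542482651) (nat_lit 152) (nat_lit 128582834832) (nat_lit 0) (nat_lit 1161997651) (nat_lit 77) (nat_lit 5) (nat_lit 79) (nat_lit 4) (nat_lit 77) (nat_lit 4) (nat_lit 475) (nat_lit 296) (nat_lit 249)))) (XT.nd (nat_lit 156) (nat_lit 152) (nat_lit 0) (XT.nd (nat_lit 78) (nat_lit 76) (nat_lit 0) (XT.lf (nat_lit 0) (nat_lit 50702738994) (nat_lit 152) (nat_lit 34373507676) (nat_lit 0) (nat_lit 50320219591) (nat_lit 77) (nat_lit 5) (nat_lit 79) (nat_lit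 4) (nat_lit 77) (nat_lit 4) (nat_lit 476) (nat_lit 296) (nat_lit 248)) (XT.lf (nat_lit 0) (nat_lit 65865374730) (nat_lit 76) (nat_lit 37098994545) (nat_lit 76) (nat_lit 36714537614) (nat_lit 76) (nat_lit 4) (nat_lit 77) (nat_lit 5) (nat_lit 77) (nat_lit 4) (nat_lit 477) (nat_lit 296) (nat_lit 247))) (XT.nd (nat_lit 78) (nat_lit 0) (nat_lit 0) (XT.lf (nat_lit 0) (nat_lit 14092272148) (nat_lit 152) (nat_lit 116304866664) (nat_lit 0) (nat_lit 13724365297) (nat_lit 74) (nat_lit 5) (nat_lit 76) (nat_lit 4) (nat_lit 74) (nat_lit 4) (nat_lit 478) (nat_lit 296) (nat_lit 246)) (XT.lf (nat_lit 0) (nat_lit 67699341122) (nat_lit 152) (nat_lit 13652347224) (nat_lit 0) (nat_lit 67329760563) (nat_lit 74) (nat_lit 5) (nat_lit 76) (nat_lit 4) (nat_lit 74) (nat_lit 4) (nat_lit 479) (nat_lit 296) (nat_lit 245))))))))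
noncomputable def xc25 : XT := (XT.nd (nat_lit 1248) (nat_lit 0) (nat_lit 0) (XT.nd (nat_lit 624) (nat_lit 684) (nat_lit 0) (XT.nd (nat_lit 312) (nat_lit 380) (nat_lit 0) (XT.nd (nat_lit 156) (nat_lit 76) (nat_lit 0) (XT.nd (nat_lit 78) (nat_lit 152) (nat_lit 0) (XT.lf (nat_lit 0) (nat_lit 96468956492) (nat_lit 76) (nat_lit 28657316770) (nat_lit 76) (nat_lit 28286142202) (nat_lit 73) (nat_lit 4) (nat_lit 74) (nat_lit 5) (nat_lit 74) (nat_lit 4) (nat_lit 480) (nat_lit 296) (nat_lit 244)) (XT.lf (nat_lit 0) (nat_lit 27337826590) (nat_lit 152) (nat_lit 103980170364) (nat_lit 0) (nat_lit 26982881190) (nat_lit 71) (nat_lit 5) (nat_lit 73) (nat_lit 4) (nat_lit 71) (nat_lit 4) (nat_lit 481) (nat_lit 296) (nat_lit 243))) (XT.nd (nat_lit 78) (nat_lit 0) (nat_lit 0) (XT.lf (nat_lit 0) (nat_lit 8304515179) (nat_lit 76) (nat_lit 77700868155) (nat_lit 76) (nat_lit 77344545791) (nat_lit 70) (nat_lit 4) (nat_lit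 71) (nat_lit 5) (nat_lit 71) (nat_lit 4) (nat_lit 482) (nat_lit 296) (nat_lit 242)) (XT.lf (nat_lit 0) (nat_lit 129074053955) (nat_lit 76) (nat_lit 19932500321) (nat_lit 76) (nat_lit 19574866563) (nat_lit 70) (nat_lit 4) (nat_lit 71) (nat_lit 5) (nat_lit 71) (nat_lit 4) (nat_lit 483) (nat_lit 296) (nat_lit 241)))) (XT.nd (nat_lit 156) (nat_lit 152) (nat_lit 0) (XT.nd (nat_lit 78) (nat_lit 76) (nat_lit 0) (XT.lf (nat_lit 0) (nat_lit 41378675253) (nat_lit 152) (nat_lit 91546343380) (nat_lit 0) (nat_lit 41036882201) (nat_lit 68) (nat_lit 5) (nat_lit 70) (nat_lit 4) (nat_lit 68) (nat_lit 4) (nat_lit 484) (nat_lit 296) (nat_lit 240)) (XT.lf (nat_lit 0) (nat_lit 31874144699) (nat_lit 76) (nat_lit 74003188449) (nat_lit 76) (nat_lit 73660262565) (nat_lit 67) (nat_lit 4) (nat_lit 68) (nat_lit 5) (nat_lit 68) (nat_lit 4) (nat_lit 485) (nat_lit 296) (nat_lit 239))) (XT.nd (nat_lit 78) (nat_lit 152) (nat_lit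 0) (XT.lf (nat_lit 0) (nat_lit 163939802398) (nat_lit 76) (nat_lit 10867967701) (nat_lit 76) (nat_lit 10523962929) (nat_lit 67) (nat_lit 4) (nat_lit 68) (nat_lit 5) (nat_lit 68) (nat_lit 4) (nat_lit 486) (nat_lit 296) (nat_lit 238)) (XT.lf (nat_lit 0) (nat_lit 56323189697) (nat_lit 152) (nat_lit 78937314392) (nat_lit 0) (nat_lit 55994587523) (nat_lit 65) (nat_lit 5) (nat_lit 67) (nat_lit 4) (nat_lit 65) (nat_lit 4) (nat_lit 487) (nat_lit 296) (nat_lit 237))))) (XT.nd (nat_lit 312) (nat_lit 380) (nat_lit 0) (XT.nd (nat_lit 156) (nat_lit 228) (nat_lit 0) (XT.nd (nat_lit 78) (nat_lit 0) (nat_lit 0) (XT.lf (nat_lit 0) (nat_lit 56778170326) (nat_lit 76) (nat_lit 70481170016) (nat_lit 76) (nat_lit 70151635859) (nat_lit 64) (nat_lit 4) (nat_lit 65) (nat_lit 5) (nat_lit 65) (nat_lit 4) (nat_lit 488) (nat_lit 296) (nat_lit 236)) (XT.lf (nat_lit 0) (nat_lit 201349342963) (nat_lit 76) (nat_lit 1402625168)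 (nat_lit 76) (nat_lit 1072203407) (nat_lit 64) (nat_lit 4) (nat_lit 65) (nat_lit 5) (nat_lit 65) (nat_lit 4) (nat_lit 489) (nat_lit 296) (nat_lit 235))) (XT.nd (nat_lit 78) (nat_lit 76) (nat_lit 0) (XT.lf (nat_lit 0) (nat_lit 72289557664) (nat_lit 152) (nat_lit 66082840222) (nat_lit 0) (nat_lit 71974065190) (nat_lit 62) (nat_lit 5) (nat_lit 64) (nat_lit 4) (nat_lit 62) (nat_lit 4) (nat_lit 490) (nat_lit 296) (nat_lit 234)) (XT.lf (nat_lit 0) (nat_lit 83204807222) (nat_lit 76) (nat_lit 67126522272) (nat_lit 76) (nat_lit 66810263053) (nat_lit 61) (nat_lit 4) (nat_lit 62) (nat_lit 5) (nat_lit 62) (nat_lit 4) (nat_lit 491) (nat_lit 296) (nat_lit 233)))) (XT.nd (nat_lit 156) (nat_lit 228) (nat_lit 0) (XT.nd (nat_lit 78) (nat_lit 0) (nat_lit 0) (XT.lf (nat_lit 0) (nat_lit 8981526868) (nat_lit 152) (nat_lit 206547134150) (nat_lit 0) (nat_lit 8679632151) (nat_lit 59) (nat_lit 5) (nat_lit 61) (nat_lit 4)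 (nat_lit 59) (nat_lit 4) (nat_lit 492) (nat_lit 296) (nat_lit 232)) (XT.lf (nat_lit 0) (nat_lit 89406853087) (nat_lit 152) (nat_lit 52907956709) (nat_lit 0) (nat_lit 89104296028) (nat_lit 59) (nat_lit 5) (nat_lit 61) (nat_lit 4) (nat_lit 59) (nat_lit 4) (nat_lit 493) (nat_lit 296) (nat_lit 231))) (XT.nd (nat_lit 78) (nat_lit 152) (nat_lit 0) (XT.lf (nat_lit 0) (nat_lit 111359123739) (nat_lit 76) (nat_lit 63931336258) (nat_lit 76) (nat_lit 63628148395) (nat_lit 58) (nat_lit 4) (nat_lit 59) (nat_lit 5) (nat_lit 59) (nat_lit 4) (nat_lit 494) (nat_lit 296) (nat_lit 230)) (XT.lf (nat_lit 0) (nat_lit 19611141232) (nat_lit 152) (nat_lit 207768862454) (nat_lit 0) (nat_lit 19321818730) (nat_lit 56) (nat_lit 5) (nat_lit 58) (nat_lit 4) (nat_lit 56) (nat_lit 4) (nat_lit 495) (nat_lit 296) (nat_lit 229)))))) (XT.nd (nat_lit 48204) (nat_lit 0) (nat_lit 4940) (XT.nd (nat_lit 47892) (nat_lit 0) (nat_lit 5700)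 (XT.nd (nat_lit 47736) (nat_lit 0) (nat_lit 6156) (XT.nd (nat_lit 47658) (nat_lit 0) (nat_lit 6384) (XT.lf (nat_lit 0) (nat_lit 107816212324) (nat_lit 152) (nat_lit 39332378688) (nat_lit 0) (nat_lit 107526344910) (nat_lit 56) (nat_lit 5) (nat_lit 58) (nat_lit 4) (nat_lit 56) (nat_lit 4) (nat_lit 496) (nat_lit 296) (nat_lit 228)) (XT.lf (nat_lit 0) (nat_lit 4592244163) (nat_lit 152) (nat_lit 7369266632) (nat_lit 0) (nat_lit 4592244163) (nat_lit 140) (nat_lit 5) (nat_lit 142) (nat_lit 4) (nat_lit 140) (nat_lit 4) (nat_lit 426) (nat_lit 297) (nat_lit 297))) (XT.nd (nat_lit 78) (nat_lit 152) (nat_lit 0) (XT.lf (nat_lit 0) (nat_lit 18641499366) (nat_lit 76) (nat_lit 7671879875) (nat_lit 76) (nat_lit 7612927867) (nat_lit 139) (nat_lit 4) (nat_lit 140) (nat_lit 5) (nat_lit 140) (nat_lit 4) (nat_lit 427) (nat_lit 297) (nat_lit 296)) (XT.lf (nat_lit 0) (nat_lit 9360634339) (nat_lit 152) (nat_lit 16159344054)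 (nat_lit 0) (nat_lit 9251018361) (nat_lit 137) (nat_lit 5) (nat_lit 139) (nat_lit 4) (nat_lit 137) (nat_lit 4) (nat_lit 428) (nat_lit 297) (nat_lit 295)))) (XT.nd (nat_lit 156) (nat_lit 228) (nat_lit 0) (XT.nd (nat_lit 78) (nat_lit 152) (nat_lit 0) (XT.lf (nat_lit 0) (nat_lit 18311270170) (nat_lit 76) (nat_lit 8747190026) (nat_lit 76) (nat_lit 8586649087) (nat_lit 136) (nat_lit 4) (nat_lit 137) (nat_lit 5) (nat_lit 137) (nat_lit 4) (nat_lit 429) (nat_lit 297) (nat_lit 294)) (XT.lf (nat_lit 0) (nat_lit 8942034424) (nat_lit 152) (nat_lit 18863141059) (nat_lit 0) (nat_lit 8742947851) (nat_lit 134) (nat_lit 5) (nat_lit 136) (nat_lit 4) (nat_lit 134) (nat_lit 4) (nat_lit 430) (nat_lit 297) (nat_lit 293))) (XT.nd (nat_lit 78) (nat_lit 152) (nat_lit 0) (XT.lf (nat_lit 0) (nat_lit 16712005295) (nat_lit 76) (nat_lit 10506171209) (nat_lit 76) (nat_lit 10263093740) (nat_lit 133) (nat_lit 4) (nat_lit 134)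 (nat_lit 5) (nat_lit 134) (nat_lit 4) (nat_lit 431) (nat_lit 297) (nat_lit 292)) (XT.lf (nat_lit 0) (nat_lit 7838961981) (nat_lit 152) (nat_lit 23041036838) (nat_lit 0) (nat_lit 7567558591) (nat_lit 131) (nat_lit 5) (nat_lit 133) (nat_lit 4) (nat_lit 131) (nat_lit 4) (nat_lit 432) (nat_lit 297) (nat_lit 291))))) (XT.nd (nat_lit 312) (nat_lit 304) (nat_lit 0) (XT.nd (nat_lit 156) (nat_lit 228) (nat_lit 0) (XT.nd (nat_lit 78) (nat_lit 152) (nat_lit 0) (XT.lf (nat_lit 0) (nat_lit 13649160650) (nat_lit 76) (nat_lit 13051996547) (nat_lit 76) (nat_lit 12742592167) (nat_lit 130) (nat_lit 4) (nat_lit 131) (nat_lit 5) (nat_lit 131) (nat_lit 4) (nat_lit 433) (nat_lit 297) (nat_lit 290)) (XT.lf (nat_lit 0) (nat_lit 5950748474) (nat_lit 152) (nat_lit 28906365461) (nat_lit 0) (nat_lit 5621609617) (nat_lit 128) (nat_lit 5) (nat_lit 130) (nat_lit 4) (nat_lit 128) (nat_lit 4) (nat_lit 434) (nat_lit 297) (nat_lit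 289))) (XT.nd (nat_lit 78) (nat_lit 152) (nat_lit 0) (XT.lf (nat_lit 0) (nat_lit 8905370878) (nat_lit 76) (nat_lit 16499440925) (nat_lit 76) (nat_lit 16137475384) (nat_lit 127) (nat_lit 4) (nat_lit 128) (nat_lit 5) (nat_lit 128) (nat_lit 4) (nat_lit 435) (nat_lit 297) (nat_lit 288)) (XT.lf (nat_lit 0) (nat_lit 3164618837) (nat_lit 152) (nat_lit 36697138018) (nat_lit 0) (nat_lit 2790114981) (nat_lit 125) (nat_lit 5) (nat_lit 127) (nat_lit 4) (nat_lit 125) (nat_lit 4) (nat_lit 436) (nat_lit 297) (nat_lit 287)))) (XT.nd (nat_lit 156) (nat_lit 228) (nat_lit 0) (XT.nd (nat_lit 78) (nat_lit 0) (nat_lit 0) (XT.lf (nat_lit 0) (nat_lit 2237920689) (nat_lit 76) (nat_lit 20976208281) (nat_lit 76) (nat_lit 20573347501) (nat_lit 124) (nat_lit 4) (nat_lit 125) (nat_lit 5) (nat_lit 125) (nat_lit 4) (nat_lit 437) (nat_lit 297) (nat_lit 286)) (XT.lf (nat_lit 0) (nat_lit 43302305835) (nat_lit 76) (nat_lit 1051518690)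 (nat_lit 76) (nat_lit 621651316) (nat_lit 124) (nat_lit 4) (nat_lit 125) (nat_lit 5) (nat_lit 125) (nat_lit 4) (nat_lit 438) (nat_lit 297) (nat_lit 285))) (XT.nd (nat_lit 78) (nat_lit 76) (nat_lit 0) (XT.lf (nat_lit 0) (nat_lit 20103763583) (nat_lit 152) (nat_lit 6412035475) (nat_lit 0) (nat_lit 19669870308) (nat_lit 122) (nat_lit 5) (nat_lit 124) (nat_lit 4) (nat_lit 122) (nat_lit 4) (nat_lit 439) (nat_lit 297) (nat_lit 284)) (XT.lf (nat_lit 0) (nat_lit 35962380064) (nat_lit 76) (nat_lit 5973080205) (nat_lit 76) (nat_lit 5515857618) (nat_lit 121) (nat_lit 4) (nat_lit 122) (nat_lit 5) (nat_lit 122) (nat_lit 4) (nat_lit 440) (nat_lit 297) (nat_lit 283)))))))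
noncomputable def xc26 : XT := (XT.nd (nat_lit 1248) (nat_lit 1520) (nat_lit 0) (XT.nd (nat_lit 624) (nat_lit 760) (nat_lit 0) (XT.nd (nat_lit 312) (nat_lit 380) (nat_lit 0) (XT.nd (nat_lit 156) (nat_lit 228) (nat_lit 0) (XT.nd (nat_lit 78) (nat_lit 76) (nat_lit 0) (XT.lf (nat_lit 0) (nat_lit 15900218674) (nat_lit 152) (nat_lit 17407053531) (nat_lit 0) (nat_lit 15443608218) (nat_lit 119) (nat_lit 5) (nat_lit 121) (nat_lit 4) (nat_lit 119) (nat_lit 4) (nat_lit 441) (nat_lit 297) (nat_lit 282)) (XT.lf (nat_lit 0) (nat_lit 26201728492) (nat_lit 76) (nat_lit 12188260807) (nat_lit 76) (nat_lit 11711497615) (nat_lit 118) (nat_lit 4) (nat_lit 119) (nat_lit 5) (nat_lit 119) (nat_lit 4) (nat_lit 442) (nat_lit 297) (nat_lit 281))) (XT.nd (nat_lit 78) (nat_lit 76) (nat_lit 0) (XT.lf (nat_lit 0) (nat_lit 10412947280) (nat_lit 152) (nat_lit 31144688959) (nat_lit 0) (nat_lit 9940607971) (nat_lit 116) (nat_lit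 5) (nat_lit 118) (nat_lit 4) (nat_lit 116) (nat_lit 4) (nat_lit 443) (nat_lit 297) (nat_lit 280)) (XT.lf (nat_lit 0) (nat_lit 13687471504) (nat_lit 76) (nat_lit 19871045985) (nat_lit 76) (nat_lit 19381297985) (nat_lit 115) (nat_lit 4) (nat_lit 116) (nat_lit 5) (nat_lit 116) (nat_lit 4) (nat_lit 444) (nat_lit 297) (nat_lit 279)))) (XT.nd (nat_lit 156) (nat_lit 228) (nat_lit 0) (XT.nd (nat_lit 78) (nat_lit 0) (nat_lit 0) (XT.lf (nat_lit 0) (nat_lit 3468262734) (nat_lit 152) (nat_lit 47988024556) (nat_lit 0) (nat_lit 2986045871) (nat_lit 113) (nat_lit 5) (nat_lit 115) (nat_lit 4) (nat_lit 113) (nat_lit 4) (nat_lit 445) (nat_lit 297) (nat_lit 278)) (XT.lf (nat_lit 0) (nat_lit 27294041958) (nat_lit 152) (nat_lit 1889007690) (nat_lit 0) (nat_lit 26796786813) (nat_lit 113) (nat_lit 5) (nat_lit 115) (nat_lit 4) (nat_lit 113) (nat_lit 4) (nat_lit 446) (nat_lit 297) (nat_lit 277))) (XT.nd (nat_lit 78) (nat_lit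 152) (nat_lit 0) (XT.lf (nat_lit 0) (nat_lit 47013065350) (nat_lit 76) (nat_lit 5540306896) (nat_lit 76) (nat_lit 5028729577) (nat_lit 112) (nat_lit 4) (nat_lit 113) (nat_lit 5) (nat_lit 113) (nat_lit 4) (nat_lit 447) (nat_lit 297) (nat_lit 276)) (XT.lf (nat_lit 0) (nat_lit 19636986714) (nat_lit 152) (nat_lit 20452254749) (nat_lit 0) (nat_lit 19136779587) (nat_lit 110) (nat_lit 5) (nat_lit 112) (nat_lit 4) (nat_lit 110) (nat_lit 4) (nat_lit 448) (nat_lit 297) (nat_lit 275))))) (XT.nd (nat_lit 312) (nat_lit 456) (nat_lit 0) (XT.nd (nat_lit 156) (nat_lit 76) (nat_lit 0) (XT.nd (nat_lit 78) (nat_lit 152) (nat_lit 0) (XT.lf (nat_lit 0) (nat_lit 29777657571) (nat_lit 76) (nat_lit 15835318325) (nat_lit 76) (nat_lit 15322739166) (nat_lit 109) (nat_lit 4) (nat_lit 110) (nat_lit 5) (nat_lit 110) (nat_lit 4) (nat_lit 449) (nat_lit 297) (nat_lit 274)) (XT.lf (nat_lit 0) (nat_lit 10160002161) (nat_lit 152)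 (nat_lit 42885942281) (nat_lit 0) (nat_lit 9660609735) (nat_lit 107) (nat_lit 5) (nat_lit 109) (nat_lit 4) (nat_lit 107) (nat_lit 4) (nat_lit 450) (nat_lit 297) (nat_lit 273))) (XT.nd (nat_lit 78) (nat_lit 0) (nat_lit 0) (XT.lf (nat_lit 0) (nat_lit 8640793313) (nat_lit 76) (nat_lit 28200350879) (nat_lit 76) (nat_lit 27690271027) (nat_lit 106) (nat_lit 4) (nat_lit 107) (nat_lit 5) (nat_lit 107) (nat_lit 4) (nat_lit 451) (nat_lit 297) (nat_lit 272)) (XT.lf (nat_lit 0) (nat_lit 63242277810) (nat_lit 76) (nat_lit 1856684455) (nat_lit 76) (nat_lit 1336426102) (nat_lit 106) (nat_lit 4) (nat_lit 107) (nat_lit 5) (nat_lit 107) (nat_lit 4) (nat_lit 452) (nat_lit 297) (nat_lit 271)))) (XT.nd (nat_lit 156) (nat_lit 228) (nat_lit 0) (XT.nd (nat_lit 78) (nat_lit 76) (nat_lit 0) (XT.lf (nat_lit 0) (nat_lit 26258268075) (nat_lit 152) (nat_lit 16363879870) (nat_lit 0) (nat_lit 25753551729) (nat_lit 104) (nat_lit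 5) (nat_lit 106) (nat_lit 4) (nat_lit 104) (nat_lit 4) (nat_lit 453) (nat_lit 297) (nat_lit 270)) (XT.lf (nat_lit 0) (nat_lit 39943918188) (nat_lit 76) (nat_lit 15484739098) (nat_lit 76) (nat_lit 14971230180) (nat_lit 103) (nat_lit 4) (nat_lit 104) (nat_lit 5) (nat_lit 104) (nat_lit 4) (nat_lit 454) (nat_lit 297) (nat_lit 269))) (XT.nd (nat_lit 78) (nat_lit 76) (nat_lit 0) (XT.lf (nat_lit 0) (nat_lit 13541617716) (nat_lit 152) (nat_lit 45906393913) (nat_lit 0) (nat_lit 13044586481) (nat_lit 101) (nat_lit 5) (nat_lit 103) (nat_lit 4) (nat_lit 101) (nat_lit 4) (nat_lit 455) (nat_lit 297) (nat_lit 268)) (XT.lf (nat_lit 0) (nat_lit 11784254022) (nat_lit 76) (nat_lit 31686673892) (nat_lit 76) (nat_lit 31182047303) (nat_lit 100) (nat_lit 4) (nat_lit 101) (nat_lit 5) (nat_lit 101) (nat_lit 4) (nat_lit 456) (nat_lit 297) (nat_lit 267)))))) (XT.nd (nat_lit 624) (nat_lit 836) (nat_lit 0) (XT.nd (nat_lit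 312) (nat_lit 304) (nat_lit 0) (XT.nd (nat_lit 156) (nat_lit 228) (nat_lit 0) (XT.nd (nat_lit 78) (nat_lit 152) (nat_lit 0) (XT.lf (nat_lit 0) (nat_lit 73009790563) (nat_lit 76) (nat_lit 2203798306) (nat_lit 76) (nat_lit 1691938046) (nat_lit 100) (nat_lit 4) (nat_lit 101) (nat_lit 5) (nat_lit 101) (nat_lit 4) (nat_lit 457) (nat_lit 297) (nat_lit 266)) (XT.lf (nat_lit 0) (nat_lit 29267841456) (nat_lit 152) (nat_lit 21159615314) (nat_lit 0) (nat_lit 28773794341) (nat_lit 98) (nat_lit 5) (nat_lit 100) (nat_lit 4) (nat_lit 98) (nat_lit 4) (nat_lit 458) (nat_lit 297) (nat_lit 265))) (XT.nd (nat_lit 78) (nat_lit 152) (nat_lit 0) (XT.lf (nat_lit 0) (nat_lit 41967699161) (nat_lit 76) (nat_lit 20063670185) (nat_lit 76) (nat_lit 19563374354) (nat_lit 97) (nat_lit 4) (nat_lit 98) (nat_lit 5) (nat_lit 98) (nat_lit 4) (nat_lit 459) (nat_lit 297) (nat_lit 264)) (XT.lf (nat_lit 0) (nat_lit 12425366687) (nat_lit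 152) (nat_lit 59704961711) (nat_lit 0) (nat_lit 11943226696) (nat_lit 95) (nat_lit 5) (nat_lit 97) (nat_lit 4) (nat_lit 95) (nat_lit 4) (nat_lit 460) (nat_lit 297) (nat_lit 263)))) (XT.nd (nat_lit 156) (nat_lit 228) (nat_lit 0) (XT.nd (nat_lit 78) (nat_lit 0) (nat_lit 0) (XT.lf (nat_lit 0) (nat_lit 4879288326) (nat_lit 76) (nat_lit 41118224872) (nat_lit 76) (nat_lit 40630687004) (nat_lit 94) (nat_lit 4) (nat_lit 95) (nat_lit 5) (nat_lit 95) (nat_lit 4) (nat_lit 461) (nat_lit 297) (nat_lit 262)) (XT.lf (nat_lit 0) (nat_lit 73867025782) (nat_lit 76) (nat_lit 7953801243) (nat_lit 76) (nat_lit 7461122541) (nat_lit 94) (nat_lit 4) (nat_lit 95) (nat_lit 5) (nat_lit 95) (nat_lit 4) (nat_lit 462) (nat_lit 297) (nat_lit 261))) (XT.nd (nat_lit 78) (nat_lit 76) (nat_lit 0) (XT.lf (nat_lit 0) (nat_lit 27353870544) (nat_lit 152) (nat_lit 37770019156) (nat_lit 0) (nat_lit 26879989843) (nat_lit 92) (nat_lit 5)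 (nat_lit 94) (nat_lit 4) (nat_lit 92) (nat_lit 4) (nat_lit 463) (nat_lit 297) (nat_lit 260)) (XT.lf (nat_lit 0) (nat_lit 32980179473) (nat_lit 76) (nat_lit 31164813160) (nat_lit 76) (nat_lit 30686491614) (nat_lit 91) (nat_lit 4) (nat_lit 92) (nat_lit 5) (nat_lit 92) (nat_lit 4) (nat_lit 464) (nat_lit 297) (nat_lit 259))))) (XT.nd (nat_lit 312) (nat_lit 456) (nat_lit 0) (XT.nd (nat_lit 156) (nat_lit 228) (nat_lit 0) (XT.nd (nat_lit 78) (nat_lit 0) (nat_lit 0) (XT.lf (nat_lit 0) (nat_lit 5278225725) (nat_lit 152) (nat_lit 87676593121) (nat_lit 0) (nat_lit 4818653416) (nat_lit 89) (nat_lit 5) (nat_lit 91) (nat_lit 4) (nat_lit 89) (nat_lit 4) (nat_lit 465) (nat_lit 297) (nat_lit 258)) (XT.lf (nat_lit 0) (nat_lit 43160964023) (nat_lit 152) (nat_lit 14921334628) (nat_lit 0) (nat_lit 42697555544) (nat_lit 89) (nat_lit 5) (nat_lit 91) (nat_lit 4) (nat_lit 89) (nat_lit 4) (nat_lit 466) (nat_lit 297) (nat_lit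 257))) (XT.nd (nat_lit 78) (nat_lit 152) (nat_lit 0) (XT.lf (nat_lit 0) (nat_lit 62648416622) (nat_lit 76) (nat_lit 20863254492) (nat_lit 76) (nat_lit 20396192517) (nat_lit 88) (nat_lit 4) (nat_lit 89) (nat_lit 5) (nat_lit 89) (nat_lit 4) (nat_lit 467) (nat_lit 297) (nat_lit 256)) (XT.lf (nat_lit 0) (nat_lit 18824125673) (nat_lit 152) (nat_lit 69940838283) (nat_lit 0) (nat_lit 18375990918) (nat_lit 86) (nat_lit 5) (nat_lit 88) (nat_lit 4) (nat_lit 86) (nat_lit 4) (nat_lit 468) (nat_lit 297) (nat_lit 255)))) (XT.nd (nat_lit 156) (nat_lit 380) (nat_lit 0) (XT.nd (nat_lit 78) (nat_lit 0) (nat_lit 0) (XT.lf (nat_lit 0) (nat_lit 9295579830) (nat_lit 76) (nat_lit 50817519585) (nat_lit 76) (nat_lit 50366228802) (nat_lit 85) (nat_lit 4) (nat_lit 86) (nat_lit 5) (nat_lit 86) (nat_lit 4) (nat_lit 469) (nat_lit 297) (nat_lit 254)) (XT.lf (nat_lit 0) (nat_lit 94106941095) (nat_lit 76) (nat_lit 10146319361)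 (nat_lit 76) (nat_lit 9692022840) (nat_lit 85) (nat_lit 4) (nat_lit 86) (nat_lit 5) (nat_lit 86) (nat_lit 4) (nat_lit 470) (nat_lit 297) (nat_lit 253))) (XT.nd (nat_lit 78) (nat_lit 228) (nat_lit 0) (XT.lf (nat_lit 0) (nat_lit 33138241919) (nat_lit 152) (nat_lit 51658715244) (nat_lit 0) (nat_lit 32702852271) (nat_lit 83) (nat_lit 5) (nat_lit 85) (nat_lit 4) (nat_lit 83) (nat_lit 4) (nat_lit 471) (nat_lit 297) (nat_lit 252)) (XT.nd (nat_lit 78) (nat_lit 152) (nat_lit 0) (XT.lf (nat_lit 0) (nat_lit 35287689244) (nat_lit 76) (nat_lit 43170363527) (nat_lit 76) (nat_lit 42732377408) (nat_lit 82) (nat_lit 4) (nat_lit 83) (nat_lit 5) (nat_lit 83) (nat_lit 4) (nat_lit 472) (nat_lit 297) (nat_lit 251)) (XT.lf (nat_lit 0) (nat_lit 1509629825) (nat_lit 152) (nat_lit 122436909924) (nat_lit 0) (nat_lit 1090145112) (nat_lit 80) (nat_lit 5) (nat_lit 82) (nat_lit 4) (nat_lit 80) (nat_lit 4) (nat_lit 473) (nat_lit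 297) (nat_lit 250))))))))
noncomputable def xc27 : XT := (XT.nd (nat_lit 49920) (nat_lit 0) (nat_lit 2736) (XT.nd (nat_lit 1248) (nat_lit 608) (nat_lit 0) (XT.nd (nat_lit 624) (nat_lit 684) (nat_lit 0) (XT.nd (nat_lit 312) (nat_lit 304) (nat_lit 0) (XT.nd (nat_lit 156) (nat_lit 152) (nat_lit 0) (XT.nd (nat_lit 78) (nat_lit 76) (nat_lit 0) (XT.lf (nat_lit 0) (nat_lit 48329021712) (nat_lit 152) (nat_lit 32713841337) (nat_lit 0) (nat_lit 47907294070) (nat_lit 80) (nat_lit 5) (nat_lit 82) (nat_lit 4) (nat_lit 80) (nat_lit 4) (nat_lit 474) (nat_lit 297) (nat_lit 249)) (XT.lf (nat_lit 0) (nat_lit 62752417388) (nat_lit 76) (nat_lit 35350047638) (nat_lit 76) (nat_lit 34926183872) (nat_lit 79) (nat_lit 4) (nat_lit 80) (nat_lit 5) (nat_lit 80) (nat_lit 4) (nat_lit 475) (nat_lit 297) (nat_lit 248))) (XT.nd (nat_lit 78) (nat_lit 0) (nat_lit 0) (XT.lf (nat_lit 0) (nat_lit 13460149710) (nat_lit 152) (nat_lit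 110744971628) (nat_lit 0) (nat_lit 13054532406) (nat_lit 77) (nat_lit 5) (nat_lit 79) (nat_lit 4) (nat_lit 77) (nat_lit 4) (nat_lit 476) (nat_lit 297) (nat_lit 247)) (XT.lf (nat_lit 0) (nat_lit 64514583492) (nat_lit 152) (nat_lit 12980749779) (nat_lit 0) (nat_lit 64107120926) (nat_lit 77) (nat_lit 5) (nat_lit 79) (nat_lit 4) (nat_lit 77) (nat_lit 4) (nat_lit 477) (nat_lit 297) (nat_lit 246)))) (XT.nd (nat_lit 156) (nat_lit 76) (nat_lit 0) (XT.nd (nat_lit 78) (nat_lit 152) (nat_lit 0) (XT.lf (nat_lit 0) (nat_lit 91897311694) (nat_lit 76) (nat_lit 27310011855) (nat_lit 76) (nat_lit 26900791894) (nat_lit 76) (nat_lit 4) (nat_lit 77) (nat_lit 5) (nat_lit 77) (nat_lit 4) (nat_lit 478) (nat_lit 297) (nat_lit 245)) (XT.lf (nat_lit 0) (nat_lit 26073333604) (nat_lit 152) (nat_lit 99008417016) (nat_lit 0) (nat_lit 25682006301) (nat_lit 74) (nat_lit 5) (nat_lit 76) (nat_lit 4) (nat_lit 74) (nat_lit 4) (nat_lit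 479) (nat_lit 297) (nat_lit 244))) (XT.nd (nat_lit 78) (nat_lit 0) (nat_lit 0) (XT.lf (nat_lit 0) (nat_lit 7929980485) (nat_lit 76) (nat_lit 74017611054) (nat_lit 76) (nat_lit 73624765648) (nat_lit 73) (nat_lit 4) (nat_lit 74) (nat_lit 5) (nat_lit 74) (nat_lit 4) (nat_lit 480) (nat_lit 297) (nat_lit 243)) (XT.lf (nat_lit 0) (nat_lit 122948522163) (nat_lit 76) (nat_lit 19000248064) (nat_lit 76) (nat_lit 18605956845) (nat_lit 73) (nat_lit 4) (nat_lit 74) (nat_lit 5) (nat_lit 74) (nat_lit 4) (nat_lit 481) (nat_lit 297) (nat_lit 242))))) (XT.nd (nat_lit 312) (nat_lit 304) (nat_lit 0) (XT.nd (nat_lit 156) (nat_lit 152) (nat_lit 0) (XT.nd (nat_lit 78) (nat_lit 76) (nat_lit 0) (XT.lf (nat_lit 0) (nat_lit 39443978406) (nat_lit 152) (nat_lit 87167829055) (nat_lit 0) (nat_lit 39067151565) (nat_lit 71) (nat_lit 5) (nat_lit 73) (nat_lit 4) (nat_lit 71) (nat_lit 4) (nat_lit 482) (nat_lit 297) (nat_lit 241))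 (XT.lf (nat_lit 0) (nat_lit 30376068993) (nat_lit 76) (nat_lit 70495566610) (nat_lit 76) (nat_lit 70117490823) (nat_lit 70) (nat_lit 4) (nat_lit 71) (nat_lit 5) (nat_lit 71) (nat_lit 4) (nat_lit 483) (nat_lit 297) (nat_lit 240))) (XT.nd (nat_lit 78) (nat_lit 152) (nat_lit 0) (XT.lf (nat_lit 0) (nat_lit 156152830991) (nat_lit 76) (nat_lit 10366892049) (nat_lit 76) (nat_lit 9987626788) (nat_lit 70) (nat_lit 4) (nat_lit 71) (nat_lit 5) (nat_lit 71) (nat_lit 4) (nat_lit 484) (nat_lit 297) (nat_lit 239)) (XT.lf (nat_lit 0) (nat_lit 53675300371) (nat_lit 152) (nat_lit 75160294462) (nat_lit 0) (nat_lit 53313016474) (nat_lit 68) (nat_lit 5) (nat_lit 70) (nat_lit 4) (nat_lit 68) (nat_lit 4) (nat_lit 485) (nat_lit 297) (nat_lit 238)))) (XT.nd (nat_lit 156) (nat_lit 228) (nat_lit 0) (XT.nd (nat_lit 78) (nat_lit 0) (nat_lit 0) (XT.lf (nat_lit 0) (nat_lit 54093099212) (nat_lit 76) (nat_lit 67140776939) (nat_lit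 76) (nat_lit 66777465530) (nat_lit 67) (nat_lit 4) (nat_lit 68) (nat_lit 5) (nat_lit 68) (nat_lit 4) (nat_lit 486) (nat_lit 297) (nat_lit 237)) (XT.lf (nat_lit 0) (nat_lit 191779885164) (nat_lit 76) (nat_lit 1351774721) (nat_lit 76) (nat_lit 987484730) (nat_lit 67) (nat_lit 4) (nat_lit 68) (nat_lit 5) (nat_lit 68) (nat_lit 4) (nat_lit 487) (nat_lit 297) (nat_lit 236))) (XT.nd (nat_lit 78) (nat_lit 76) (nat_lit 0) (XT.lf (nat_lit 0) (nat_lit 68879863006) (nat_lit 152) (nat_lit 62918924944) (nat_lit 0) (nat_lit 68532032553) (nat_lit 65) (nat_lit 5) (nat_lit 67) (nat_lit 4) (nat_lit 65) (nat_lit 4) (nat_lit 488) (nat_lit 297) (nat_lit 235)) (XT.lf (nat_lit 0) (nat_lit 79260313766) (nat_lit 76) (nat_lit 63945359372) (nat_lit 76) (nat_lit 63596683584) (nat_lit 64) (nat_lit 4) (nat_lit 65) (nat_lit 5) (nat_lit 65) (nat_lit 4) (nat_lit 489) (nat_lit 297) (nat_lit 234)))))) (XT.nd (nat_lit 48048) (nat_lit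 0) (nat_lit 5700) (XT.nd (nat_lit 312) (nat_lit 228) (nat_lit 0) (XT.nd (nat_lit 156) (nat_lit 228) (nat_lit 0) (XT.nd (nat_lit 78) (nat_lit 0) (nat_lit 0) (XT.lf (nat_lit 0) (nat_lit 8585015027) (nat_lit 152) (nat_lit 196695328064) (nat_lit 0) (nat_lit 8252176102) (nat_lit 62) (nat_lit 5) (nat_lit 64) (nat_lit 4) (nat_lit 62) (nat_lit 4) (nat_lit 490) (nat_lit 297) (nat_lit 233)) (XT.lf (nat_lit 0) (nat_lit 85180596408) (nat_lit 152) (nat_lit 50372334530) (nat_lit 0) (nat_lit 84847027249) (nat_lit 62) (nat_lit 5) (nat_lit 64) (nat_lit 4) (nat_lit 62) (nat_lit 4) (nat_lit 491) (nat_lit 297) (nat_lit 232))) (XT.nd (nat_lit 78) (nat_lit 152) (nat_lit 0) (XT.lf (nat_lit 0) (nat_lit 106073007420) (nat_lit 76) (nat_lit 60901792098) (nat_lit 76) (nat_lit 60567527479) (nat_lit 61) (nat_lit 4) (nat_lit 62) (nat_lit 5) (nat_lit 62) (nat_lit 4) (nat_lit 492) (nat_lit 297) (nat_lit 231)) (XT.lf (nat_lit 0)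 (nat_lit 18707061300) (nat_lit 152) (nat_lit 197859740383) (nat_lit 0) (nat_lit 18388083241) (nat_lit 59) (nat_lit 5) (nat_lit 61) (nat_lit 4) (nat_lit 59) (nat_lit 4) (nat_lit 493) (nat_lit 297) (nat_lit 230)))) (XT.nd (nat_lit 156) (nat_lit 152) (nat_lit 0) (XT.nd (nat_lit 78) (nat_lit 76) (nat_lit 0) (XT.lf (nat_lit 0) (nat_lit 102711917731) (nat_lit 152) (nat_lit 37444068378) (nat_lit 0) (nat_lit 102392338907) (nat_lit 59) (nat_lit 5) (nat_lit 61) (nat_lit 4) (nat_lit 59) (nat_lit 4) (nat_lit 494) (nat_lit 297) (nat_lit 229)) (XT.lf (nat_lit 0) (nat_lit 134744280832) (nat_lit 76) (nat_lit 58002899546) (nat_lit 76) (nat_lit 57682748565) (nat_lit 58) (nat_lit 4) (nat_lit 59) (nat_lit 5) (nat_lit 59) (nat_lit 4) (nat_lit 495) (nat_lit 297) (nat_lit 228))) (XT.nd (nat_lit 47502) (nat_lit 0) (nat_lit 6612) (XT.lf (nat_lit 0) (nat_lit 29426335733) (nat_lit 152) (nat_lit 200047934859) (nat_lit 0)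 (nat_lit 29120911074) (nat_lit 56) (nat_lit 5) (nat_lit 58) (nat_lit 4) (nat_lit 56) (nat_lit 4) (nat_lit 496) (nat_lit 297) (nat_lit 227)) (XT.lf (nat_lit 0) (nat_lit 4405555790) (nat_lit 152) (nat_lit 6957415991) (nat_lit 0) (nat_lit 4405555790) (nat_lit 143) (nat_lit 5) (nat_lit 145) (nat_lit 4) (nat_lit 143) (nat_lit 4) (nat_lit 424) (nat_lit 298) (nat_lit 298))))) (XT.nd (nat_lit 312) (nat_lit 456) (nat_lit 0) (XT.nd (nat_lit 156) (nat_lit 228) (nat_lit 0) (XT.nd (nat_lit 78) (nat_lit 152) (nat_lit 0) (XT.lf (nat_lit 0) (nat_lit 17876707217) (nat_lit 76) (nat_lit 7252454173) (nat_lit 76) (nat_lit 7187459585) (nat_lit 142) (nat_lit 4) (nat_lit 143) (nat_lit 5) (nat_lit 143) (nat_lit 4) (nat_lit 425) (nat_lit 298) (nat_lit 297)) (XT.lf (nat_lit 0) (nat_lit 8981218257) (nat_lit 152) (nat_lit 15279183504) (nat_lit 0) (nat_lit 8860366641) (nat_lit 140) (nat_lit 5) (nat_lit 142) (nat_lit 4) (nat_lit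 140) (nat_lit 4) (nat_lit 426) (nat_lit 298) (nat_lit 296))) (XT.nd (nat_lit 78) (nat_lit 152) (nat_lit 0) (XT.lf (nat_lit 0) (nat_lit 17551042712) (nat_lit 76) (nat_lit 8289498824) (nat_lit 76) (nat_lit 8112502438) (nat_lit 139) (nat_lit 4) (nat_lit 140) (nat_lit 5) (nat_lit 140) (nat_lit 4) (nat_lit 427) (nat_lit 298) (nat_lit 295)) (XT.lf (nat_lit 0) (nat_lit 8584053776) (nat_lit 152) (nat_lit 17864158776) (nat_lit 0) (nat_lit 8364560829) (nat_lit 137) (nat_lit 5) (nat_lit 139) (nat_lit 4) (nat_lit 137) (nat_lit 4) (nat_lit 428) (nat_lit 298) (nat_lit 294)))) (XT.nd (nat_lit 156) (nat_lit 228) (nat_lit 0) (XT.nd (nat_lit 78) (nat_lit 152) (nat_lit 0) (XT.lf (nat_lit 0) (nat_lit 16018027030) (nat_lit 76) (nat_lit 9975631425) (nat_lit 76) (nat_lit 9707638516) (nat_lit 136) (nat_lit 4) (nat_lit 137) (nat_lit 5) (nat_lit 137) (nat_lit 4) (nat_lit 429) (nat_lit 298) (nat_lit 293)) (XT.lf (nat_lit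 0) (nat_lit 7534304571) (nat_lit 152) (nat_lit 21851930161) (nat_lit 0) (nat_lit 7235082333) (nat_lit 134) (nat_lit 5) (nat_lit 136) (nat_lit 4) (nat_lit 134) (nat_lit 4) (nat_lit 430) (nat_lit 298) (nat_lit 292))) (XT.nd (nat_lit 78) (nat_lit 152) (nat_lit 0) (XT.lf (nat_lit 0) (nat_lit 13092221944) (nat_lit 76) (nat_lit 12409400779) (nat_lit 76) (nat_lit 12068282449) (nat_lit 133) (nat_lit 4) (nat_lit 134) (nat_lit 5) (nat_lit 134) (nat_lit 4) (nat_lit 431) (nat_lit 298) (nat_lit 291)) (XT.lf (nat_lit 0) (nat_lit 5736215876) (nat_lit 152) (nat_lit 27445812113) (nat_lit 0) (nat_lit 5373340287) (nat_lit 131) (nat_lit 5) (nat_lit 133) (nat_lit 4) (nat_lit 131) (nat_lit 4) (nat_lit 432) (nat_lit 298) (nat_lit 290))))))) (XT.nd (nat_lit 1248) (nat_lit 1368) (nat_lit 0) (XT.nd (nat_lit 624) (nat_lit 836) (nat_lit 0) (XT.nd (nat_lit 312) (nat_lit 456) (nat_lit 0) (XT.nd (nat_lit 156) (nat_lit 76) (nat_lit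 0) (XT.nd (nat_lit 78) (nat_lit 152) (nat_lit 0) (XT.lf (nat_lit 0) (nat_lit 8566475617) (nat_lit 76) (nat_lit 15700365071) (nat_lit 76) (nat_lit 15301298062) (nat_lit 130) (nat_lit 4) (nat_lit 131) (nat_lit 5) (nat_lit 131) (nat_lit 4) (nat_lit 433) (nat_lit 298) (nat_lit 289)) (XT.lf (nat_lit 0) (nat_lit 3082485422) (nat_lit 152) (nat_lit 34872602611) (nat_lit 0) (nat_lit 2669594920) (nat_lit 128) (nat_lit 5) (nat_lit 130) (nat_lit 4) (nat_lit 128) (nat_lit 4) (nat_lit 434) (nat_lit 298) (nat_lit 288))) (XT.nd (nat_lit 78) (nat_lit 0) (nat_lit 0) (XT.lf (nat_lit 0) (nat_lit 2209511532) (nat_lit 76) (nat_lit 19970361427) (nat_lit 76) (nat_lit 19526207417) (nat_lit 127) (nat_lit 4) (nat_lit 128) (nat_lit 5) (nat_lit 128) (nat_lit 4) (nat_lit 435) (nat_lit 298) (nat_lit 287)) (XT.lf (nat_lit 0) (nat_lit 41317076568) (nat_lit 76) (nat_lit 997147585) (nat_lit 76) (nat_lit 523218805) (nat_lit 127)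 (nat_lit 4) (nat_lit 128) (nat_lit 5) (nat_lit 128) (nat_lit 4) (nat_lit 436) (nat_lit 298) (nat_lit 286)))) (XT.nd (nat_lit 156) (nat_lit 228) (nat_lit 0) (XT.nd (nat_lit 78) (nat_lit 76) (nat_lit 0) (XT.lf (nat_lit 0) (nat_lit 19215540200) (nat_lit 152) (nat_lit 6037117845) (nat_lit 0) (nat_lit 18737172863) (nat_lit 125) (nat_lit 5) (nat_lit 127) (nat_lit 4) (nat_lit 125) (nat_lit 4) (nat_lit 437) (nat_lit 298) (nat_lit 285)) (XT.lf (nat_lit 0) (nat_lit 34320582878) (nat_lit 76) (nat_lit 5689301437) (nat_lit 76) (nat_lit 5185213535) (nat_lit 124) (nat_lit 4) (nat_lit 125) (nat_lit 5) (nat_lit 125) (nat_lit 4) (nat_lit 438) (nat_lit 298) (nat_lit 284))) (XT.nd (nat_lit 78) (nat_lit 76) (nat_lit 0) (XT.lf (nat_lit 0) (nat_lit 15211008756) (nat_lit 152) (nat_lit 16514012145) (nat_lit 0) (nat_lit 14707595728) (nat_lit 122) (nat_lit 5) (nat_lit 124) (nat_lit 4) (nat_lit 122) (nat_lit 4) (nat_lit 439)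 (nat_lit 298) (nat_lit 283)) (XT.lf (nat_lit 0) (nat_lit 25019257070) (nat_lit 76) (nat_lit 11612591180) (nat_lit 76) (nat_lit 11086959760) (nat_lit 121) (nat_lit 4) (nat_lit 122) (nat_lit 5) (nat_lit 122) (nat_lit 4) (nat_lit 440) (nat_lit 298) (nat_lit 282))))) (XT.nd (nat_lit 312) (nat_lit 456) (nat_lit 0) (XT.nd (nat_lit 156) (nat_lit 152) (nat_lit 0) (XT.nd (nat_lit 78) (nat_lit 76) (nat_lit 0) (XT.lf (nat_lit 0) (nat_lit 9983644961) (nat_lit 152) (nat_lit 29602372819) (nat_lit 0) (nat_lit 9462890873) (nat_lit 119) (nat_lit 5) (nat_lit 121) (nat_lit 4) (nat_lit 119) (nat_lit 4) (nat_lit 441) (nat_lit 298) (nat_lit 281)) (XT.lf (nat_lit 0) (nat_lit 13095996284) (nat_lit 76) (nat_lit 18932847315) (nat_lit 76) (nat_lit 18392900145) (nat_lit 118) (nat_lit 4) (nat_lit 119) (nat_lit 5) (nat_lit 119) (nat_lit 4) (nat_lit 442) (nat_lit 298) (nat_lit 280))) (XT.nd (nat_lit 78) (nat_lit 0) (nat_lit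 0) (XT.lf (nat_lit 0) (nat_lit 3368083747) (nat_lit 152) (nat_lit 45648058790) (nat_lit 0) (nat_lit 2836439655) (nat_lit 116) (nat_lit 5) (nat_lit 118) (nat_lit 4) (nat_lit 116) (nat_lit 4) (nat_lit 443) (nat_lit 298) (nat_lit 279)) (XT.lf (nat_lit 0) (nat_lit 26060042230) (nat_lit 152) (nat_lit 1744973379) (nat_lit 0) (nat_lit 25511818433) (nat_lit 116) (nat_lit 5) (nat_lit 118) (nat_lit 4) (nat_lit 116) (nat_lit 4) (nat_lit 444) (nat_lit 298) (nat_lit 278)))) (XT.nd (nat_lit 156) (nat_lit 228) (nat_lit 0) (XT.nd (nat_lit 78) (nat_lit 152) (nat_lit 0) (XT.lf (nat_lit 0) (nat_lit 44829489462) (nat_lit 76) (nat_lit 5288623646) (nat_lit 76) (nat_lit 4724609653) (nat_lit 115) (nat_lit 4) (nat_lit 116) (nat_lit 5) (nat_lit 116) (nat_lit 4) (nat_lit 445) (nat_lit 298) (nat_lit 277)) (XT.lf (nat_lit 0) (nat_lit 18765790056) (nat_lit 152) (nat_lit 19428142355) (nat_lit 0) (nat_lit 18214311698) (nat_lit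 113) (nat_lit 5) (nat_lit 115) (nat_lit 4) (nat_lit 113) (nat_lit 4) (nat_lit 446) (nat_lit 298) (nat_lit 276))) (XT.nd (nat_lit 78) (nat_lit 152) (nat_lit 0) (XT.lf (nat_lit 0) (nat_lit 28410899990) (nat_lit 76) (nat_lit 15095336108) (nat_lit 76) (nat_lit 14530217585) (nat_lit 112) (nat_lit 4) (nat_lit 113) (nat_lit 5) (nat_lit 113) (nat_lit 4) (nat_lit 447) (nat_lit 298) (nat_lit 275)) (XT.lf (nat_lit 0) (nat_lit 9738179998) (nat_lit 152) (nat_lit 40797081590) (nat_lit 0) (nat_lit 9187599848) (nat_lit 110) (nat_lit 5) (nat_lit 112) (nat_lit 4) (nat_lit 110) (nat_lit 4) (nat_lit 448) (nat_lit 298) (nat_lit 274)))))) (XT.nd (nat_lit 624) (nat_lit 684) (nat_lit 0) (XT.nd (nat_lit 312) (nat_lit 380) (nat_lit 0) (XT.nd (nat_lit 156) (nat_lit 228) (nat_lit 0) (XT.nd (nat_lit 78) (nat_lit 0) (nat_lit 0) (XT.lf (nat_lit 0) (nat_lit 8276999726) (nat_lit 76) (nat_lit 26873062063) (nat_lit 76) (nat_lit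 26310699027) (nat_lit 109) (nat_lit 4) (nat_lit 110) (nat_lit 5) (nat_lit 110) (nat_lit 4) (nat_lit 449) (nat_lit 298) (nat_lit 273)) (XT.lf (nat_lit 0) (nat_lit 60277895988) (nat_lit 76) (nat_lit 1784866388) (nat_lit 76) (nat_lit 1211281554) (nat_lit 109) (nat_lit 4) (nat_lit 110) (nat_lit 5) (nat_lit 110) (nat_lit 4) (nat_lit 450) (nat_lit 298) (nat_lit 272))) (XT.nd (nat_lit 78) (nat_lit 76) (nat_lit 0) (XT.lf (nat_lit 0) (nat_lit 25068342542) (nat_lit 152) (nat_lit 15541629559) (nat_lit 0) (nat_lit 24511892770) (nat_lit 107) (nat_lit 5) (nat_lit 109) (nat_lit 4) (nat_lit 107) (nat_lit 4) (nat_lit 451) (nat_lit 298) (nat_lit 271)) (XT.lf (nat_lit 0) (nat_lit 38085820075) (nat_lit 76) (nat_lit 14764965148) (nat_lit 76) (nat_lit 14198821565) (nat_lit 106) (nat_lit 4) (nat_lit 107) (nat_lit 5) (nat_lit 107) (nat_lit 4) (nat_lit 452) (nat_lit 298) (nat_lit 270)))) (XT.nd (nat_lit 156) (nat_lit 152)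 (nat_lit 0) (XT.nd (nat_lit 78) (nat_lit 76) (nat_lit 0) (XT.lf (nat_lit 0) (nat_lit 12955172212) (nat_lit 152) (nat_lit 43680210380) (nat_lit 0) (nat_lit 12407195276) (nat_lit 104) (nat_lit 5) (nat_lit 106) (nat_lit 4) (nat_lit 104) (nat_lit 4) (nat_lit 453) (nat_lit 298) (nat_lit 269)) (XT.lf (nat_lit 0) (nat_lit 11264205674) (nat_lit 76) (nat_lit 30196087117) (nat_lit 76) (nat_lit 29639736302) (nat_lit 103) (nat_lit 4) (nat_lit 104) (nat_lit 5) (nat_lit 104) (nat_lit 4) (nat_lit 454) (nat_lit 298) (nat_lit 268))) (XT.nd (nat_lit 78) (nat_lit 152) (nat_lit 0) (XT.lf (nat_lit 0) (nat_lit 69573872666) (nat_lit 76) (nat_lit 2117876090) (nat_lit 76) (nat_lit 1553550154) (nat_lit 103) (nat_lit 4) (nat_lit 104) (nat_lit 5) (nat_lit 104) (nat_lit 4) (nat_lit 455) (nat_lit 298) (nat_lit 267)) (XT.lf (nat_lit 0) (nat_lit 27930765570) (nat_lit 152) (nat_lit 20114780473) (nat_lit 0) (nat_lit 27386078626)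 (nat_lit 101) (nat_lit 5) (nat_lit 103) (nat_lit 4) (nat_lit 101) (nat_lit 4) (nat_lit 456) (nat_lit 298) (nat_lit 266))))) (XT.nd (nat_lit 312) (nat_lit 380) (nat_lit 0) (XT.nd (nat_lit 156) (nat_lit 76) (nat_lit 0) (XT.nd (nat_lit 78) (nat_lit 152) (nat_lit 0) (XT.lf (nat_lit 0) (nat_lit 40007384809) (nat_lit 76) (nat_lit 19127643804) (nat_lit 76) (nat_lit 18576067650) (nat_lit 100) (nat_lit 4) (nat_lit 101) (nat_lit 5) (nat_lit 101) (nat_lit 4) (nat_lit 457) (nat_lit 298) (nat_lit 265)) (XT.lf (nat_lit 0) (nat_lit 11888188578) (nat_lit 152) (nat_lit 56826979114) (nat_lit 0) (nat_lit 11356629238) (nat_lit 98) (nat_lit 5) (nat_lit 100) (nat_lit 4) (nat_lit 98) (nat_lit 4) (nat_lit 458) (nat_lit 298) (nat_lit 264))) (XT.nd (nat_lit 78) (nat_lit 0) (nat_lit 0) (XT.lf (nat_lit 0) (nat_lit 4682709575) (nat_lit 76) (nat_lit 39179775994) (nat_lit 76) (nat_lit 38642265495) (nat_lit 97) (nat_lit 4) (nat_lit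 98) (nat_lit 5) (nat_lit 98) (nat_lit 4) (nat_lit 459) (nat_lit 298) (nat_lit 263)) (XT.lf (nat_lit 0) (nat_lit 70385055281) (nat_lit 76) (nat_lit 7595120976) (nat_lit 76) (nat_lit 7051942706) (nat_lit 97) (nat_lit 4) (nat_lit 98) (nat_lit 5) (nat_lit 98) (nat_lit 4) (nat_lit 460) (nat_lit 298) (nat_lit 262)))) (XT.nd (nat_lit 156) (nat_lit 152) (nat_lit 0) (XT.nd (nat_lit 78) (nat_lit 76) (nat_lit 0) (XT.lf (nat_lit 0) (nat_lit 26103939287) (nat_lit 152) (nat_lit 35938942535) (nat_lit 0) (nat_lit 25581485815) (nat_lit 95) (nat_lit 5) (nat_lit 97) (nat_lit 4) (nat_lit 95) (nat_lit 4) (nat_lit 461) (nat_lit 298) (nat_lit 261)) (XT.lf (nat_lit 0) (nat_lit 31443047952) (nat_lit 76) (nat_lit 29700794542) (nat_lit 76) (nat_lit 29173445037) (nat_lit 94) (nat_lit 4) (nat_lit 95) (nat_lit 5) (nat_lit 95) (nat_lit 4) (nat_lit 462) (nat_lit 298) (nat_lit 260))) (XT.nd (nat_lit 78) (nat_lit 0) (nat_lit 0)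 (XT.lf (nat_lit 0) (nat_lit 5077415690) (nat_lit 152) (nat_lit 83470967222) (nat_lit 0) (nat_lit 4570737220) (nat_lit 92) (nat_lit 5) (nat_lit 94) (nat_lit 4) (nat_lit 92) (nat_lit 4) (nat_lit 463) (nat_lit 298) (nat_lit 259)) (XT.lf (nat_lit 0) (nat_lit 41156402883) (nat_lit 152) (nat_lit 14180433662) (nat_lit 0) (nat_lit 40645495035) (nat_lit 92) (nat_lit 5) (nat_lit 94) (nat_lit 4) (nat_lit 92) (nat_lit 4) (nat_lit 464) (nat_lit 298) (nat_lit 258))))))))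
noncomputable def xc28 : XT := (XT.nd (nat_lit 1248) (nat_lit 1216) (nat_lit 0) (XT.nd (nat_lit 624) (nat_lit 684) (nat_lit 0) (XT.nd (nat_lit 312) (nat_lit 380) (nat_lit 0) (XT.nd (nat_lit 156) (nat_lit 76) (nat_lit 0) (XT.nd (nat_lit 78) (nat_lit 152) (nat_lit 0) (XT.lf (nat_lit 0) (nat_lit 59696338020) (nat_lit 76) (nat_lit 19889976330) (nat_lit 76) (nat_lit 19375040504) (nat_lit 91) (nat_lit 4) (nat_lit 92) (nat_lit 5) (nat_lit 92) (nat_lit 4) (nat_lit 465) (nat_lit 298) (nat_lit 257)) (XT.lf (nat_lit 0) (nat_lit 17976380588) (nat_lit 152) (nat_lit 66581741089) (nat_lit 0) (nat_lit 17482312020) (nat_lit 89) (nat_lit 5) (nat_lit 91) (nat_lit 4) (nat_lit 89) (nat_lit 4) (nat_lit 466) (nat_lit 298) (nat_lit 256))) (XT.nd (nat_lit 78) (nat_lit 0) (nat_lit 0) (XT.lf (nat_lit 0) (nat_lit 8882298803) (nat_lit 76) (nat_lit 48417527737) (nat_lit 76) (nat_lit 47919979649) (nat_lit 88) (nat_lit 4) (nat_lit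 89) (nat_lit 5) (nat_lit 89) (nat_lit 4) (nat_lit 467) (nat_lit 298) (nat_lit 255)) (XT.lf (nat_lit 0) (nat_lit 89654870985) (nat_lit 76) (nat_lit 9683349720) (nat_lit 76) (nat_lit 9182487805) (nat_lit 88) (nat_lit 4) (nat_lit 89) (nat_lit 5) (nat_lit 89) (nat_lit 4) (nat_lit 468) (nat_lit 298) (nat_lit 254)))) (XT.nd (nat_lit 156) (nat_lit 152) (nat_lit 0) (XT.nd (nat_lit 78) (nat_lit 76) (nat_lit 0) (XT.lf (nat_lit 0) (nat_lit 31606978995) (nat_lit 152) (nat_lit 49171979365) (nat_lit 0) (nat_lit 31126961907) (nat_lit 86) (nat_lit 5) (nat_lit 88) (nat_lit 4) (nat_lit 86) (nat_lit 4) (nat_lit 469) (nat_lit 298) (nat_lit 253)) (XT.lf (nat_lit 0) (nat_lit 33634874157) (nat_lit 76) (nat_lit 41134387404) (nat_lit 76) (nat_lit 40651507707) (nat_lit 85) (nat_lit 4) (nat_lit 86) (nat_lit 5) (nat_lit 86) (nat_lit 4) (nat_lit 470) (nat_lit 298) (nat_lit 252))) (XT.nd (nat_lit 78) (nat_lit 0) (nat_lit 0)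 (XT.lf (nat_lit 0) (nat_lit 1482502789) (nat_lit 152) (nat_lit 116581297498) (nat_lit 0) (nat_lit 1020020892) (nat_lit 83) (nat_lit 5) (nat_lit 85) (nat_lit 4) (nat_lit 83) (nat_lit 4) (nat_lit 471) (nat_lit 298) (nat_lit 251)) (XT.lf (nat_lit 0) (nat_lit 46072510220) (nat_lit 152) (nat_lit 31130866382) (nat_lit 0) (nat_lit 45607555494) (nat_lit 83) (nat_lit 5) (nat_lit 85) (nat_lit 4) (nat_lit 83) (nat_lit 4) (nat_lit 472) (nat_lit 298) (nat_lit 250))))) (XT.nd (nat_lit 312) (nat_lit 380) (nat_lit 0) (XT.nd (nat_lit 156) (nat_lit 76) (nat_lit 0) (XT.nd (nat_lit 78) (nat_lit 152) (nat_lit 0) (XT.lf (nat_lit 0) (nat_lit 59790103740) (nat_lit 76) (nat_lit 33686195285) (nat_lit 76) (nat_lit 33218885483) (nat_lit 82) (nat_lit 4) (nat_lit 83) (nat_lit 5) (nat_lit 83) (nat_lit 4) (nat_lit 473) (nat_lit 298) (nat_lit 249)) (XT.lf (nat_lit 0) (nat_lit 12862119499) (nat_lit 152) (nat_lit 105447622774) (nat_lit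 0) (nat_lit 12414926422) (nat_lit 80) (nat_lit 5) (nat_lit 82) (nat_lit 4) (nat_lit 80) (nat_lit 4) (nat_lit 474) (nat_lit 298) (nat_lit 248))) (XT.nd (nat_lit 78) (nat_lit 76) (nat_lit 0) (XT.lf (nat_lit 0) (nat_lit 61485480591) (nat_lit 152) (nat_lit 12338930883) (nat_lit 0) (nat_lit 61036253111) (nat_lit 80) (nat_lit 5) (nat_lit 82) (nat_lit 4) (nat_lit 80) (nat_lit 4) (nat_lit 475) (nat_lit 298) (nat_lit 247)) (XT.lf (nat_lit 0) (nat_lit 87545631060) (nat_lit 76) (nat_lit 26028640561) (nat_lit 76) (nat_lit 25577475555) (nat_lit 79) (nat_lit 4) (nat_lit 80) (nat_lit 5) (nat_lit 80) (nat_lit 4) (nat_lit 476) (nat_lit 298) (nat_lit 246)))) (XT.nd (nat_lit 156) (nat_lit 152) (nat_lit 0) (XT.nd (nat_lit 78) (nat_lit 76) (nat_lit 0) (XT.lf (nat_lit 0) (nat_lit 24872878670) (nat_lit 152) (nat_lit 94271331371) (nat_lit 0) (nat_lit 24441440318) (nat_lit 77) (nat_lit 5) (nat_lit 79) (nat_lit 4) (nat_lit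 77) (nat_lit 4) (nat_lit 477) (nat_lit 298) (nat_lit 245)) (XT.lf (nat_lit 0) (nat_lit 7575424913) (nat_lit 76) (nat_lit 70511467533) (nat_lit 76) (nat_lit 70078355472) (nat_lit 76) (nat_lit 4) (nat_lit 77) (nat_lit 5) (nat_lit 77) (nat_lit 4) (nat_lit 478) (nat_lit 298) (nat_lit 244))) (XT.nd (nat_lit 78) (nat_lit 152) (nat_lit 0) (XT.lf (nat_lit 0) (nat_lit 117116819663) (nat_lit 76) (nat_lit 18114122499) (nat_lit 76) (nat_lit 17679416431) (nat_lit 76) (nat_lit 4) (nat_lit 77) (nat_lit 5) (nat_lit 77) (nat_lit 4) (nat_lit 479) (nat_lit 298) (nat_lit 243)) (XT.lf (nat_lit 0) (nat_lit 37605070896) (nat_lit 152) (nat_lit 82995851037) (nat_lit 0) (nat_lit 37189619304) (nat_lit 74) (nat_lit 5) (nat_lit 76) (nat_lit 4) (nat_lit 74) (nat_lit 4) (nat_lit 480) (nat_lit 298) (nat_lit 242)))))) (XT.nd (nat_lit 624) (nat_lit 532) (nat_lit 0) (XT.nd (nat_lit 312) (nat_lit 380) (nat_lit 0) (XT.nd (nat_lit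 156) (nat_lit 228) (nat_lit 0) (XT.nd (nat_lit 78) (nat_lit 0) (nat_lit 0) (XT.lf (nat_lit 0) (nat_lit 28951353648) (nat_lit 76) (nat_lit 67156649184) (nat_lit 76) (nat_lit 66739820628) (nat_lit 73) (nat_lit 4) (nat_lit 74) (nat_lit 5) (nat_lit 74) (nat_lit 4) (nat_lit 481) (nat_lit 298) (nat_lit 241)) (XT.lf (nat_lit 0) (nat_lit 148738685546) (nat_lit 76) (nat_lit 9891362921) (nat_lit 76) (nat_lit 9473222971) (nat_lit 73) (nat_lit 4) (nat_lit 74) (nat_lit 5) (nat_lit 74) (nat_lit 4) (nat_lit 482) (nat_lit 298) (nat_lit 240))) (XT.nd (nat_lit 78) (nat_lit 76) (nat_lit 0) (XT.lf (nat_lit 0) (nat_lit 51157003164) (nat_lit 152) (nat_lit 71561277354) (nat_lit 0) (nat_lit 50757585167) (nat_lit 71) (nat_lit 5) (nat_lit 73) (nat_lit 4) (nat_lit 71) (nat_lit 4) (nat_lit 483) (nat_lit 298) (nat_lit 239)) (XT.lf (nat_lit 0) (nat_lit 51537800384) (nat_lit 76) (nat_lit 63961075142) (nat_lit 76) (nat_lit 63560524314)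 (nat_lit 70) (nat_lit 4) (nat_lit 71) (nat_lit 5) (nat_lit 71) (nat_lit 4) (nat_lit 484) (nat_lit 298) (nat_lit 238)))) (XT.nd (nat_lit 156) (nat_lit 228) (nat_lit 0) (XT.nd (nat_lit 78) (nat_lit 152) (nat_lit 0) (XT.lf (nat_lit 0) (nat_lit 182668022961) (nat_lit 76) (nat_lit 1304979701) (nat_lit 76) (nat_lit 903349985) (nat_lit 70) (nat_lit 4) (nat_lit 71) (nat_lit 5) (nat_lit 71) (nat_lit 4) (nat_lit 485) (nat_lit 298) (nat_lit 237)) (XT.lf (nat_lit 0) (nat_lit 65635882946) (nat_lit 152) (nat_lit 59903918178) (nat_lit 0) (nat_lit 65252399872) (nat_lit 68) (nat_lit 5) (nat_lit 70) (nat_lit 4) (nat_lit 68) (nat_lit 4) (nat_lit 486) (nat_lit 298) (nat_lit 236))) (XT.nd (nat_lit 78) (nat_lit 152) (nat_lit 0) (XT.lf (nat_lit 0) (nat_lit 75505461455) (nat_lit 76) (nat_lit 60917252582) (nat_lit 76) (nat_lit 60532837525) (nat_lit 67) (nat_lit 4) (nat_lit 68) (nat_lit 5) (nat_lit 68) (nat_lit 4) (nat_lit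 487) (nat_lit 298) (nat_lit 235)) (XT.lf (nat_lit 0) (nat_lit 8210580644) (nat_lit 152) (nat_lit 187310992204) (nat_lit 0) (nat_lit 7843625729) (nat_lit 65) (nat_lit 5) (nat_lit 67) (nat_lit 4) (nat_lit 65) (nat_lit 4) (nat_lit 488) (nat_lit 298) (nat_lit 234))))) (XT.nd (nat_lit 312) (nat_lit 304) (nat_lit 0) (XT.nd (nat_lit 156) (nat_lit 152) (nat_lit 0) (XT.nd (nat_lit 78) (nat_lit 76) (nat_lit 0) (XT.lf (nat_lit 0) (nat_lit 81158789329) (nat_lit 152) (nat_lit 47955796208) (nat_lit 0) (nat_lit 80791029332) (nat_lit 65) (nat_lit 5) (nat_lit 67) (nat_lit 4) (nat_lit 65) (nat_lit 4) (nat_lit 489) (nat_lit 298) (nat_lit 233)) (XT.lf (nat_lit 0) (nat_lit 101040322583) (nat_lit 76) (nat_lit 58018029477) (nat_lit 76) (nat_lit 57649502735) (nat_lit 64) (nat_lit 4) (nat_lit 65) (nat_lit 5) (nat_lit 65) (nat_lit 4) (nat_lit 490) (nat_lit 298) (nat_lit 232))) (XT.nd (nat_lit 78) (nat_lit 0) (nat_lit 0)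 (XT.lf (nat_lit 0) (nat_lit 17849085645) (nat_lit 152) (nat_lit 188420906179) (nat_lit 0) (nat_lit 17497412336) (nat_lit 62) (nat_lit 5) (nat_lit 64) (nat_lit 4) (nat_lit 62) (nat_lit 4) (nat_lit 491) (nat_lit 298) (nat_lit 231)) (XT.lf (nat_lit 0) (nat_lit 97853740387) (nat_lit 152) (nat_lit 35644105267) (nat_lit 0) (nat_lit 97501404734) (nat_lit 62) (nat_lit 5) (nat_lit 64) (nat_lit 4) (nat_lit 62) (nat_lit 4) (nat_lit 492) (nat_lit 298) (nat_lit 230)))) (XT.nd (nat_lit 156) (nat_lit 76) (nat_lit 0) (XT.nd (nat_lit 78) (nat_lit 152) (nat_lit 0) (XT.lf (nat_lit 0) (nat_lit 128345328845) (nat_lit 76) (nat_lit 55256581215) (nat_lit 76) (nat_lit 54903614759) (nat_lit 61) (nat_lit 4) (nat_lit 62) (nat_lit 5) (nat_lit 62) (nat_lit 4) (nat_lit 493) (nat_lit 298) (nat_lit 229)) (XT.lf (nat_lit 0) (nat_lit 28056435307) (nat_lit 152) (nat_lit 190505788195) (nat_lit 0) (nat_lit 27719704620) (nat_lit 59)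 (nat_lit 5) (nat_lit 61) (nat_lit 4) (nat_lit 59) (nat_lit 4) (nat_lit 494) (nat_lit 298) (nat_lit 228))) (XT.nd (nat_lit 78) (nat_lit 76) (nat_lit 0) (XT.lf (nat_lit 0) (nat_lit 115860866895) (nat_lit 152) (nat_lit 22890615410) (nat_lit 0) (nat_lit 115523591297) (nat_lit 59) (nat_lit 5) (nat_lit 61) (nat_lit 4) (nat_lit 59) (nat_lit 4) (nat_lit 495) (nat_lit 298) (nat_lit 227)) (XT.lf (nat_lit 0) (nat_lit 157642221319) (nat_lit 76) (nat_lit 52626397335) (nat_lit 76) (nat_lit 52288602774) (nat_lit 58) (nat_lit 4) (nat_lit 59) (nat_lit 5) (nat_lit 59) (nat_lit 4) (nat_lit 496) (nat_lit 298) (nat_lit 226)))))))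
noncomputable def xc29 : XT := (XT.nd (nat_lit 1248) (nat_lit 1596) (nat_lit 0) (XT.nd (nat_lit 624) (nat_lit 836) (nat_lit 0) (XT.nd (nat_lit 312) (nat_lit 456) (nat_lit 0) (XT.nd (nat_lit 156) (nat_lit 228) (nat_lit 0) (XT.nd (nat_lit 78) (nat_lit 76) (nat_lit 0) (XT.lf (nat_lit 0) (nat_lit 4231036306) (nat_lit 152) (nat_lit 6558931635) (nat_lit 0) (nat_lit 4231036306) (nat_lit 146) (nat_lit 5) (nat_lit 148) (nat_lit 4) (nat_lit 146) (nat_lit 4) (nat_lit 422) (nat_lit 299) (nat_lit 299)) (XT.lf (nat_lit 0) (nat_lit 17160930816) (nat_lit 76) (nat_lit 6847456070) (nat_lit 76) (nat_lit 6775799536) (nat_lit 145) (nat_lit 4) (nat_lit 146) (nat_lit 5) (nat_lit 146) (nat_lit 4) (nat_lit 423) (nat_lit 299) (nat_lit 298))) (XT.nd (nat_lit 78) (nat_lit 76) (nat_lit 0) (XT.lf (nat_lit 0) (nat_lit 8626668269) (nat_lit 152) (nat_lit 14429591895) (nat_lit 0) (nat_lit 8493429362) (nat_lit 143) (nat_lit 5) (nat_lit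 145) (nat_lit 4) (nat_lit 143) (nat_lit 4) (nat_lit 424) (nat_lit 299) (nat_lit 297)) (XT.lf (nat_lit 0) (nat_lit 16838469685) (nat_lit 76) (nat_lit 7849383710) (nat_lit 76) (nat_lit 7654245195) (nat_lit 142) (nat_lit 4) (nat_lit 143) (nat_lit 5) (nat_lit 143) (nat_lit 4) (nat_lit 425) (nat_lit 299) (nat_lit 296)))) (XT.nd (nat_lit 156) (nat_lit 228) (nat_lit 0) (XT.nd (nat_lit 78) (nat_lit 76) (nat_lit 0) (XT.lf (nat_lit 0) (nat_lit 8250072454) (nat_lit 152) (nat_lit 16902421488) (nat_lit 0) (nat_lit 8008081480) (nat_lit 140) (nat_lit 5) (nat_lit 142) (nat_lit 4) (nat_lit 140) (nat_lit 4) (nat_lit 426) (nat_lit 299) (nat_lit 295)) (XT.lf (nat_lit 0) (nat_lit 15367533079) (nat_lit 76) (nat_lit 9467255234) (nat_lit 76) (nat_lit 9171793051) (nat_lit 139) (nat_lit 4) (nat_lit 140) (nat_lit 5) (nat_lit 140) (nat_lit 4) (nat_lit 427) (nat_lit 299) (nat_lit 294))) (XT.nd (nat_lit 78) (nat_lit 76) (nat_lit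 0) (XT.lf (nat_lit 0) (nat_lit 7251188872) (nat_lit 152) (nat_lit 20710026382) (nat_lit 0) (nat_lit 6921296354) (nat_lit 137) (nat_lit 5) (nat_lit 139) (nat_lit 4) (nat_lit 137) (nat_lit 4) (nat_lit 428) (nat_lit 299) (nat_lit 293)) (XT.lf (nat_lit 0) (nat_lit 12571338814) (nat_lit 76) (nat_lit 11795244916) (nat_lit 76) (nat_lit 11419161958) (nat_lit 136) (nat_lit 4) (nat_lit 137) (nat_lit 5) (nat_lit 137) (nat_lit 4) (nat_lit 429) (nat_lit 299) (nat_lit 292))))) (XT.nd (nat_lit 312) (nat_lit 380) (nat_lit 0) (XT.nd (nat_lit 156) (nat_lit 228) (nat_lit 0) (XT.nd (nat_lit 78) (nat_lit 76) (nat_lit 0) (XT.lf (nat_lit 0) (nat_lit 5538954845) (nat_lit 152) (nat_lit 26046192799) (nat_lit 0) (nat_lit 5138884508) (nat_lit 134) (nat_lit 5) (nat_lit 136) (nat_lit 4) (nat_lit 134) (nat_lit 4) (nat_lit 430) (nat_lit 299) (nat_lit 291)) (XT.lf (nat_lit 0) (nat_lit 8252448153) (nat_lit 76) (nat_lit 14937968158)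 (nat_lit 76) (nat_lit 14497996781) (nat_lit 133) (nat_lit 4) (nat_lit 134) (nat_lit 5) (nat_lit 134) (nat_lit 4) (nat_lit 431) (nat_lit 299) (nat_lit 290))) (XT.nd (nat_lit 78) (nat_lit 76) (nat_lit 0) (XT.lf (nat_lit 0) (nat_lit 3011290800) (nat_lit 152) (nat_lit 33127051946) (nat_lit 0) (nat_lit 2556079022) (nat_lit 131) (nat_lit 5) (nat_lit 133) (nat_lit 4) (nat_lit 131) (nat_lit 4) (nat_lit 432) (nat_lit 299) (nat_lit 289)) (XT.lf (nat_lit 0) (nat_lit 2190466438) (nat_lit 76) (nat_lit 19011696614) (nat_lit 76) (nat_lit 18522016818) (nat_lit 130) (nat_lit 4) (nat_lit 131) (nat_lit 5) (nat_lit 131) (nat_lit 4) (nat_lit 433) (nat_lit 299) (nat_lit 288)))) (XT.nd (nat_lit 156) (nat_lit 228) (nat_lit 0) (XT.nd (nat_lit 78) (nat_lit 152) (nat_lit 0) (XT.lf (nat_lit 0) (nat_lit 39434252522) (nat_lit 76) (nat_lit 944924954) (nat_lit 76) (nat_lit 422418474) (nat_lit 130) (nat_lit 4) (nat_lit 131) (nat_lit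 5) (nat_lit 131) (nat_lit 4) (nat_lit 434) (nat_lit 299) (nat_lit 287)) (XT.lf (nat_lit 0) (nat_lit 18376695783) (nat_lit 152) (nat_lit 5672921218) (nat_lit 0) (nat_lit 17849295795) (nat_lit 128) (nat_lit 5) (nat_lit 130) (nat_lit 4) (nat_lit 128) (nat_lit 4) (nat_lit 435) (nat_lit 299) (nat_lit 286))) (XT.nd (nat_lit 78) (nat_lit 152) (nat_lit 0) (XT.lf (nat_lit 0) (nat_lit 32764212963) (nat_lit 76) (nat_lit 5419102940) (nat_lit 76) (nat_lit 4863346028) (nat_lit 127) (nat_lit 4) (nat_lit 128) (nat_lit 5) (nat_lit 128) (nat_lit 4) (nat_lit 436) (nat_lit 299) (nat_lit 285)) (XT.lf (nat_lit 0) (nat_lit 14561582552) (nat_lit 152) (nat_lit 15656922796) (nat_lit 0) (nat_lit 14006569689) (nat_lit 125) (nat_lit 5) (nat_lit 127) (nat_lit 4) (nat_lit 125) (nat_lit 4) (nat_lit 437) (nat_lit 299) (nat_lit 284)))))) (XT.nd (nat_lit 624) (nat_lit 836) (nat_lit 0) (XT.nd (nat_lit 312) (nat_lit 304) (nat_lit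 0) (XT.nd (nat_lit 156) (nat_lit 228) (nat_lit 0) (XT.nd (nat_lit 78) (nat_lit 152) (nat_lit 0) (XT.lf (nat_lit 0) (nat_lit 23899779881) (nat_lit 76) (nat_lit 11064818575) (nat_lit 76) (nat_lit 10485309935) (nat_lit 124) (nat_lit 4) (nat_lit 125) (nat_lit 5) (nat_lit 125) (nat_lit 4) (nat_lit 438) (nat_lit 299) (nat_lit 283)) (XT.lf (nat_lit 0) (nat_lit 9581607221) (nat_lit 152) (nat_lit 28127428644) (nat_lit 0) (nat_lit 9007475839) (nat_lit 122) (nat_lit 5) (nat_lit 124) (nat_lit 4) (nat_lit 122) (nat_lit 4) (nat_lit 439) (nat_lit 299) (nat_lit 282))) (XT.nd (nat_lit 78) (nat_lit 152) (nat_lit 0) (XT.lf (nat_lit 0) (nat_lit 12538868238) (nat_lit 76) (nat_lit 18040149037) (nat_lit 76) (nat_lit 17444857282) (nat_lit 121) (nat_lit 4) (nat_lit 122) (nat_lit 5) (nat_lit 122) (nat_lit 4) (nat_lit 440) (nat_lit 299) (nat_lit 281)) (XT.lf (nat_lit 0) (nat_lit 3279335267) (nat_lit 152) (nat_lit 43413900737)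 (nat_lit 0) (nat_lit 2693197656) (nat_lit 119) (nat_lit 5) (nat_lit 121) (nat_lit 4) (nat_lit 119) (nat_lit 4) (nat_lit 441) (nat_lit 299) (nat_lit 280)))) (XT.nd (nat_lit 156) (nat_lit 228) (nat_lit 0) (XT.nd (nat_lit 78) (nat_lit 76) (nat_lit 0) (XT.lf (nat_lit 0) (nat_lit 24891540341) (nat_lit 152) (nat_lit 1602254483) (nat_lit 0) (nat_lit 24287123604) (nat_lit 119) (nat_lit 5) (nat_lit 121) (nat_lit 4) (nat_lit 119) (nat_lit 4) (nat_lit 442) (nat_lit 299) (nat_lit 279)) (XT.lf (nat_lit 0) (nat_lit 42755545382) (nat_lit 76) (nat_lit 5050169755) (nat_lit 76) (nat_lit 4428344326) (nat_lit 118) (nat_lit 4) (nat_lit 119) (nat_lit 5) (nat_lit 119) (nat_lit 4) (nat_lit 443) (nat_lit 299) (nat_lit 278))) (XT.nd (nat_lit 78) (nat_lit 76) (nat_lit 0) (XT.lf (nat_lit 0) (nat_lit 17942628492) (nat_lit 152) (nat_lit 18447652179) (nat_lit 0) (nat_lit 17334623602) (nat_lit 116) (nat_lit 5) (nat_lit 118) (nat_lit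 4) (nat_lit 116) (nat_lit 4) (nat_lit 444) (nat_lit 299) (nat_lit 277)) (XT.lf (nat_lit 0) (nat_lit 27114476780) (nat_lit 76) (nat_lit 14392034397) (nat_lit 76) (nat_lit 13768991225) (nat_lit 115) (nat_lit 4) (nat_lit 116) (nat_lit 5) (nat_lit 116) (nat_lit 4) (nat_lit 445) (nat_lit 299) (nat_lit 276))))) (XT.nd (nat_lit 312) (nat_lit 456) (nat_lit 0) (XT.nd (nat_lit 156) (nat_lit 152) (nat_lit 0) (XT.nd (nat_lit 78) (nat_lit 76) (nat_lit 0) (XT.lf (nat_lit 0) (nat_lit 9342798319) (nat_lit 152) (nat_lit 38802906477) (nat_lit 0) (nat_lit 8735783705) (nat_lit 113) (nat_lit 5) (nat_lit 115) (nat_lit 4) (nat_lit 113) (nat_lit 4) (nat_lit 446) (nat_lit 299) (nat_lit 275)) (XT.lf (nat_lit 0) (nat_lit 7935416101) (nat_lit 76) (nat_lit 25610574943) (nat_lit 76) (nat_lit 24990569695) (nat_lit 112) (nat_lit 4) (nat_lit 113) (nat_lit 5) (nat_lit 113) (nat_lit 4) (nat_lit 447) (nat_lit 299) (nat_lit 274)))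 (XT.nd (nat_lit 78) (nat_lit 152) (nat_lit 0) (XT.lf (nat_lit 0) (nat_lit 57459508616) (nat_lit 76) (nat_lit 1718169266) (nat_lit 76) (nat_lit 1085791986) (nat_lit 112) (nat_lit 4) (nat_lit 113) (nat_lit 5) (nat_lit 113) (nat_lit 4) (nat_lit 448) (nat_lit 299) (nat_lit 273)) (XT.lf (nat_lit 0) (nat_lit 23941278119) (nat_lit 152) (nat_lit 14754124687) (nat_lit 0) (nat_lit 23327792245) (nat_lit 110) (nat_lit 5) (nat_lit 112) (nat_lit 4) (nat_lit 110) (nat_lit 4) (nat_lit 449) (nat_lit 299) (nat_lit 272)))) (XT.nd (nat_lit 156) (nat_lit 228) (nat_lit 0) (XT.nd (nat_lit 78) (nat_lit 152) (nat_lit 0) (XT.lf (nat_lit 0) (nat_lit 36320712130) (nat_lit 76) (nat_lit 14081269592) (nat_lit 76) (nat_lit 13457096292) (nat_lit 109) (nat_lit 4) (nat_lit 110) (nat_lit 5) (nat_lit 110) (nat_lit 4) (nat_lit 450) (nat_lit 299) (nat_lit 271)) (XT.lf (nat_lit 0) (nat_lit 12402638012) (nat_lit 152) (nat_lit 41555918697)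 (nat_lit 0) (nat_lit 11798493439) (nat_lit 107) (nat_lit 5) (nat_lit 109) (nat_lit 4) (nat_lit 107) (nat_lit 4) (nat_lit 451) (nat_lit 299) (nat_lit 270))) (XT.nd (nat_lit 78) (nat_lit 152) (nat_lit 0) (XT.lf (nat_lit 0) (nat_lit 10773134959) (nat_lit 76) (nat_lit 28778356666) (nat_lit 76) (nat_lit 28164979893) (nat_lit 106) (nat_lit 4) (nat_lit 107) (nat_lit 5) (nat_lit 107) (nat_lit 4) (nat_lit 452) (nat_lit 299) (nat_lit 269)) (XT.nd (nat_lit 78) (nat_lit 152) (nat_lit 0) (XT.lf (nat_lit 0) (nat_lit 66305745633) (nat_lit 76) (nat_lit 2037995016) (nat_lit 76) (nat_lit 1415825671) (nat_lit 106) (nat_lit 4) (nat_lit 107) (nat_lit 5) (nat_lit 107) (nat_lit 4) (nat_lit 453) (nat_lit 299) (nat_lit 268)) (XT.lf (nat_lit 0) (nat_lit 26663164626) (nat_lit 152) (nat_lit 19115883175) (nat_lit 0) (nat_lit 26062647270) (nat_lit 104) (nat_lit 5) (nat_lit 106) (nat_lit 4) (nat_lit 104) (nat_lit 4) (nat_lit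 454) (nat_lit 299) (nat_lit 267))))))))
noncomputable def xc30 : XT := (XT.nd (nat_lit 2496) (nat_lit 684) (nat_lit 0) (XT.nd (nat_lit 1248) (nat_lit 1368) (nat_lit 0) (XT.nd (nat_lit 624) (nat_lit 684) (nat_lit 0) (XT.nd (nat_lit 312) (nat_lit 380) (nat_lit 0) (XT.nd (nat_lit 156) (nat_lit 76) (nat_lit 0) (XT.nd (nat_lit 78) (nat_lit 152) (nat_lit 0) (XT.lf (nat_lit 0) (nat_lit 38144328880) (nat_lit 76) (nat_lit 18238177222) (nat_lit 76) (nat_lit 17630064512) (nat_lit 103) (nat_lit 4) (nat_lit 104) (nat_lit 5) (nat_lit 104) (nat_lit 4) (nat_lit 455) (nat_lit 299) (nat_lit 266)) (XT.lf (nat_lit 0) (nat_lit 11382177246) (nat_lit 152) (nat_lit 54082467165) (nat_lit 0) (nat_lit 10796133074) (nat_lit 101) (nat_lit 5) (nat_lit 103) (nat_lit 4) (nat_lit 101) (nat_lit 4) (nat_lit 456) (nat_lit 299) (nat_lit 265))) (XT.nd (nat_lit 78) (nat_lit 0) (nat_lit 0) (XT.lf (nat_lit 0) (nat_lit 4499157969) (nat_lit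 76) (nat_lit 37335639293) (nat_lit 76) (nat_lit 36743033969) (nat_lit 100) (nat_lit 4) (nat_lit 101) (nat_lit 5) (nat_lit 101) (nat_lit 4) (nat_lit 457) (nat_lit 299) (nat_lit 264)) (XT.lf (nat_lit 0) (nat_lit 67072532359) (nat_lit 76) (nat_lit 7255578119) (nat_lit 76) (nat_lit 6656724077) (nat_lit 100) (nat_lit 4) (nat_lit 101) (nat_lit 5) (nat_lit 101) (nat_lit 4) (nat_lit 458) (nat_lit 299) (nat_lit 263)))) (XT.nd (nat_lit 156) (nat_lit 152) (nat_lit 0) (XT.nd (nat_lit 78) (nat_lit 76) (nat_lit 0) (XT.lf (nat_lit 0) (nat_lit 24918923552) (nat_lit 152) (nat_lit 34191728350) (nat_lit 0) (nat_lit 24342918599) (nat_lit 98) (nat_lit 5) (nat_lit 100) (nat_lit 4) (nat_lit 98) (nat_lit 4) (nat_lit 459) (nat_lit 299) (nat_lit 262)) (XT.lf (nat_lit 0) (nat_lit 29982531875) (nat_lit 76) (nat_lit 28308543157) (nat_lit 76) (nat_lit 27727140327) (nat_lit 97) (nat_lit 4) (nat_lit 98) (nat_lit 5) (nat_lit 98)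 (nat_lit 4) (nat_lit 460) (nat_lit 299) (nat_lit 261))) (XT.nd (nat_lit 78) (nat_lit 0) (nat_lit 0) (XT.lf (nat_lit 0) (nat_lit 4891347778) (nat_lit 152) (nat_lit 79462477844) (nat_lit 0) (nat_lit 4332734765) (nat_lit 95) (nat_lit 5) (nat_lit 97) (nat_lit 4) (nat_lit 95) (nat_lit 4) (nat_lit 461) (nat_lit 299) (nat_lit 260)) (XT.lf (nat_lit 0) (nat_lit 39252496129) (nat_lit 152) (nat_lit 13471701669) (nat_lit 0) (nat_lit 38689220227) (nat_lit 95) (nat_lit 5) (nat_lit 97) (nat_lit 4) (nat_lit 95) (nat_lit 4) (nat_lit 462) (nat_lit 299) (nat_lit 259))))) (XT.nd (nat_lit 312) (nat_lit 380) (nat_lit 0) (XT.nd (nat_lit 156) (nat_lit 76) (nat_lit 0) (XT.nd (nat_lit 78) (nat_lit 152) (nat_lit 0) (XT.lf (nat_lit 0) (nat_lit 56888030472) (nat_lit 76) (nat_lit 18965116289) (nat_lit 76) (nat_lit 18397399540) (nat_lit 94) (nat_lit 4) (nat_lit 95) (nat_lit 5) (nat_lit 95) (nat_lit 4) (nat_lit 463) (nat_lit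 299) (nat_lit 258)) (XT.lf (nat_lit 0) (nat_lit 17173990105) (nat_lit 152) (nat_lit 63379671343) (nat_lit 0) (nat_lit 16629279509) (nat_lit 92) (nat_lit 5) (nat_lit 94) (nat_lit 4) (nat_lit 92) (nat_lit 4) (nat_lit 464) (nat_lit 299) (nat_lit 257))) (XT.nd (nat_lit 78) (nat_lit 0) (nat_lit 0) (XT.lf (nat_lit 0) (nat_lit 8491707802) (nat_lit 76) (nat_lit 46133859944) (nat_lit 76) (nat_lit 45585313177) (nat_lit 91) (nat_lit 4) (nat_lit 92) (nat_lit 5) (nat_lit 92) (nat_lit 4) (nat_lit 465) (nat_lit 299) (nat_lit 256)) (XT.lf (nat_lit 0) (nat_lit 85417798526) (nat_lit 76) (nat_lit 9244495566) (nat_lit 76) (nat_lit 8692295304) (nat_lit 91) (nat_lit 4) (nat_lit 92) (nat_lit 5) (nat_lit 92) (nat_lit 4) (nat_lit 466) (nat_lit 299) (nat_lit 255)))) (XT.nd (nat_lit 156) (nat_lit 152) (nat_lit 0) (XT.nd (nat_lit 78) (nat_lit 76) (nat_lit 0) (XT.lf (nat_lit 0) (nat_lit 30153425083) (nat_lit 152) (nat_lit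 46800912781) (nat_lit 0) (nat_lit 29624206244) (nat_lit 89) (nat_lit 5) (nat_lit 91) (nat_lit 4) (nat_lit 89) (nat_lit 4) (nat_lit 467) (nat_lit 299) (nat_lit 254)) (XT.lf (nat_lit 0) (nat_lit 32063588536) (nat_lit 76) (nat_lit 39197387461) (nat_lit 76) (nat_lit 38665012595) (nat_lit 88) (nat_lit 4) (nat_lit 89) (nat_lit 5) (nat_lit 89) (nat_lit 4) (nat_lit 468) (nat_lit 299) (nat_lit 253))) (XT.nd (nat_lit 78) (nat_lit 0) (nat_lit 0) (XT.lf (nat_lit 0) (nat_lit 1461255426) (nat_lit 152) (nat_lit 111001932213) (nat_lit 0) (nat_lit 951369135) (nat_lit 86) (nat_lit 5) (nat_lit 88) (nat_lit 4) (nat_lit 86) (nat_lit 4) (nat_lit 469) (nat_lit 299) (nat_lit 252)) (XT.lf (nat_lit 0) (nat_lit 43928050881) (nat_lit 152) (nat_lit 29620690956) (nat_lit 0) (nat_lit 43415438296) (nat_lit 86) (nat_lit 5) (nat_lit 88) (nat_lit 4) (nat_lit 86) (nat_lit 4) (nat_lit 470) (nat_lit 299) (nat_lit 251)))))) (XT.nd (nat_lit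 624) (nat_lit 684) (nat_lit 0) (XT.nd (nat_lit 312) (nat_lit 380) (nat_lit 0) (XT.nd (nat_lit 156) (nat_lit 76) (nat_lit 0) (XT.nd (nat_lit 78) (nat_lit 152) (nat_lit 0) (XT.lf (nat_lit 0) (nat_lit 56971507059) (nat_lit 76) (nat_lit 32103571029) (nat_lit 76) (nat_lit 31588361973) (nat_lit 85) (nat_lit 4) (nat_lit 86) (nat_lit 5) (nat_lit 86) (nat_lit 4) (nat_lit 471) (nat_lit 299) (nat_lit 250)) (XT.lf (nat_lit 0) (nat_lit 12296967171) (nat_lit 152) (nat_lit 100400091302) (nat_lit 0) (nat_lit 11803936803) (nat_lit 83) (nat_lit 5) (nat_lit 85) (nat_lit 4) (nat_lit 83) (nat_lit 4) (nat_lit 472) (nat_lit 299) (nat_lit 249))) (XT.nd (nat_lit 78) (nat_lit 76) (nat_lit 0) (XT.lf (nat_lit 0) (nat_lit 58605030247) (nat_lit 152) (nat_lit 11725246776) (nat_lit 0) (nat_lit 58109756951) (nat_lit 83) (nat_lit 5) (nat_lit 85) (nat_lit 4) (nat_lit 83) (nat_lit 4) (nat_lit 473) (nat_lit 299) (nat_lit 248)) (XT.lf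 (nat_lit 0) (nat_lit 83403672450) (nat_lit 76) (nat_lit 24810245258) (nat_lit 76) (nat_lit 24312835839) (nat_lit 82) (nat_lit 4) (nat_lit 83) (nat_lit 5) (nat_lit 83) (nat_lit 4) (nat_lit 474) (nat_lit 299) (nat_lit 247)))) (XT.nd (nat_lit 156) (nat_lit 152) (nat_lit 0) (XT.nd (nat_lit 78) (nat_lit 76) (nat_lit 0) (XT.lf (nat_lit 0) (nat_lit 23733804324) (nat_lit 152) (nat_lit 89757525322) (nat_lit 0) (nat_lit 23258143541) (nat_lit 80) (nat_lit 5) (nat_lit 82) (nat_lit 4) (nat_lit 80) (nat_lit 4) (nat_lit 475) (nat_lit 299) (nat_lit 246)) (XT.lf (nat_lit 0) (nat_lit 7240116851) (nat_lit 76) (nat_lit 67174179950) (nat_lit 76) (nat_lit 66696673904) (nat_lit 79) (nat_lit 4) (nat_lit 80) (nat_lit 5) (nat_lit 80) (nat_lit 4) (nat_lit 476) (nat_lit 299) (nat_lit 245))) (XT.nd (nat_lit 78) (nat_lit 152) (nat_lit 0) (XT.lf (nat_lit 0) (nat_lit 111565173658) (nat_lit 76) (nat_lit 17272104826) (nat_lit 76)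 (nat_lit 16792841386) (nat_lit 79) (nat_lit 4) (nat_lit 80) (nat_lit 5) (nat_lit 80) (nat_lit 4) (nat_lit 477) (nat_lit 299) (nat_lit 244)) (XT.lf (nat_lit 0) (nat_lit 35857766571) (nat_lit 152) (nat_lit 79020372915) (nat_lit 0) (nat_lit 35399731191) (nat_lit 77) (nat_lit 5) (nat_lit 79) (nat_lit 4) (nat_lit 77) (nat_lit 4) (nat_lit 478) (nat_lit 299) (nat_lit 243))))) (XT.nd (nat_lit 312) (nat_lit 380) (nat_lit 0) (XT.nd (nat_lit 156) (nat_lit 228) (nat_lit 0) (XT.nd (nat_lit 78) (nat_lit 0) (nat_lit 0) (XT.lf (nat_lit 0) (nat_lit 27596712715) (nat_lit 76) (nat_lit 63978574292) (nat_lit 76) (nat_lit 63519020810) (nat_lit 76) (nat_lit 4) (nat_lit 77) (nat_lit 5) (nat_lit 77) (nat_lit 4) (nat_lit 479) (nat_lit 299) (nat_lit 242)) (XT.lf (nat_lit 0) (nat_lit 141679819271) (nat_lit 76) (nat_lit 9440336608) (nat_lit 76) (nat_lit 8979337314) (nat_lit 76) (nat_lit 4) (nat_lit 77) (nat_lit 5) (nat_lit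 77) (nat_lit 4) (nat_lit 480) (nat_lit 299) (nat_lit 241))) (XT.nd (nat_lit 78) (nat_lit 76) (nat_lit 0) (XT.lf (nat_lit 0) (nat_lit 48762485993) (nat_lit 152) (nat_lit 68131596578) (nat_lit 0) (nat_lit 48322127651) (nat_lit 74) (nat_lit 5) (nat_lit 76) (nat_lit 4) (nat_lit 74) (nat_lit 4) (nat_lit 481) (nat_lit 299) (nat_lit 240)) (XT.lf (nat_lit 0) (nat_lit 49106290165) (nat_lit 76) (nat_lit 60934579218) (nat_lit 76) (nat_lit 60492971930) (nat_lit 73) (nat_lit 4) (nat_lit 74) (nat_lit 5) (nat_lit 74) (nat_lit 4) (nat_lit 482) (nat_lit 299) (nat_lit 239)))) (XT.nd (nat_lit 156) (nat_lit 228) (nat_lit 0) (XT.nd (nat_lit 78) (nat_lit 152) (nat_lit 0) (XT.lf (nat_lit 0) (nat_lit 173992161570) (nat_lit 76) (nat_lit 1262214472) (nat_lit 76) (nat_lit 819417711) (nat_lit 73) (nat_lit 4) (nat_lit 74) (nat_lit 5) (nat_lit 74) (nat_lit 4) (nat_lit 483) (nat_lit 299) (nat_lit 238)) (XT.lf (nat_lit 0) (nat_lit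 62550069502) (nat_lit 152) (nat_lit 57030549246) (nat_lit 0) (nat_lit 62127279413) (nat_lit 71) (nat_lit 5) (nat_lit 73) (nat_lit 4) (nat_lit 71) (nat_lit 4) (nat_lit 484) (nat_lit 299) (nat_lit 237))) (XT.nd (nat_lit 78) (nat_lit 152) (nat_lit 0) (XT.lf (nat_lit 0) (nat_lit 71931405090) (nat_lit 76) (nat_lit 58035074661) (nat_lit 76) (nat_lit 57611257060) (nat_lit 70) (nat_lit 4) (nat_lit 71) (nat_lit 5) (nat_lit 71) (nat_lit 4) (nat_lit 485) (nat_lit 299) (nat_lit 236)) (XT.lf (nat_lit 0) (nat_lit 7857499995) (nat_lit 152) (nat_lit 178371695584) (nat_lit 0) (nat_lit 7452932201) (nat_lit 68) (nat_lit 5) (nat_lit 70) (nat_lit 4) (nat_lit 68) (nat_lit 4) (nat_lit 486) (nat_lit 299) (nat_lit 235))))))) (XT.nd (nat_lit 48360) (nat_lit 0) (nat_lit 4712) (XT.nd (nat_lit 624) (nat_lit 152) (nat_lit 0) (XT.nd (nat_lit 312) (nat_lit 304) (nat_lit 0) (XT.nd (nat_lit 156) (nat_lit 152) (nat_lit 0) (XT.nd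 (nat_lit 78) (nat_lit 76) (nat_lit 0) (XT.lf (nat_lit 0) (nat_lit 77332024082) (nat_lit 152) (nat_lit 45652500928) (nat_lit 0) (nat_lit 76926568686) (nat_lit 68) (nat_lit 5) (nat_lit 70) (nat_lit 4) (nat_lit 68) (nat_lit 4) (nat_lit 487) (nat_lit 299) (nat_lit 234)) (XT.lf (nat_lit 0) (nat_lit 96249176507) (nat_lit 76) (nat_lit 55273261965) (nat_lit 76) (nat_lit 54866961232) (nat_lit 67) (nat_lit 4) (nat_lit 68) (nat_lit 5) (nat_lit 68) (nat_lit 4) (nat_lit 488) (nat_lit 299) (nat_lit 233))) (XT.nd (nat_lit 78) (nat_lit 0) (nat_lit 0) (XT.lf (nat_lit 0) (nat_lit 17035331746) (nat_lit 152) (nat_lit 179429803735) (nat_lit 0) (nat_lit 16647611921) (nat_lit 65) (nat_lit 5) (nat_lit 67) (nat_lit 4) (nat_lit 65) (nat_lit 4) (nat_lit 489) (nat_lit 299) (nat_lit 232)) (XT.lf (nat_lit 0) (nat_lit 93230273624) (nat_lit 152) (nat_lit 33928121181) (nat_lit 0) (nat_lit 92841823566) (nat_lit 65) (nat_lit 5)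 (nat_lit 67) (nat_lit 4) (nat_lit 65) (nat_lit 4) (nat_lit 490) (nat_lit 299) (nat_lit 231)))) (XT.nd (nat_lit 156) (nat_lit 76) (nat_lit 0) (XT.nd (nat_lit 78) (nat_lit 152) (nat_lit 0) (XT.lf (nat_lit 0) (nat_lit 122252876697) (nat_lit 76) (nat_lit 52642651710) (nat_lit 76) (nat_lit 52253506192) (nat_lit 64) (nat_lit 4) (nat_lit 65) (nat_lit 5) (nat_lit 65) (nat_lit 4) (nat_lit 491) (nat_lit 299) (nat_lit 230)) (XT.lf (nat_lit 0) (nat_lit 26754981984) (nat_lit 152) (nat_lit 181416383879) (nat_lit 0) (nat_lit 26383736402) (nat_lit 62) (nat_lit 5) (nat_lit 64) (nat_lit 4) (nat_lit 62) (nat_lit 4) (nat_lit 492) (nat_lit 299) (nat_lit 229))) (XT.nd (nat_lit 78) (nat_lit 76) (nat_lit 0) (XT.lf (nat_lit 0) (nat_lit 110378276984) (nat_lit 152) (nat_lit 21782912808) (nat_lit 0) (nat_lit 110006430637) (nat_lit 62) (nat_lit 5) (nat_lit 64) (nat_lit 4) (nat_lit 62) (nat_lit 4) (nat_lit 493) (nat_lit 299)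 (nat_lit 228)) (XT.lf (nat_lit 0) (nat_lit 150153680143) (nat_lit 76) (nat_lit 50137051557) (nat_lit 76) (nat_lit 49764633053) (nat_lit 61) (nat_lit 4) (nat_lit 62) (nat_lit 5) (nat_lit 62) (nat_lit 4) (nat_lit 494) (nat_lit 299) (nat_lit 227))))) (XT.nd (nat_lit 47424) (nat_lit 0) (nat_lit 6308) (XT.nd (nat_lit 47268) (nat_lit 0) (nat_lit 6764) (XT.nd (nat_lit 78) (nat_lit 0) (nat_lit 0) (XT.lf (nat_lit 0) (nat_lit 37091022099) (nat_lit 152) (nat_lit 184387595332) (nat_lit 0) (nat_lit 36735818846) (nat_lit 59) (nat_lit 5) (nat_lit 61) (nat_lit 4) (nat_lit 59) (nat_lit 4) (nat_lit 495) (nat_lit 299) (nat_lit 226)) (XT.lf (nat_lit 0) (nat_lit 128922257885) (nat_lit 152) (nat_lit 9136591634) (nat_lit 0) (nat_lit 128566560382) (nat_lit 59) (nat_lit 5) (nat_lit 61) (nat_lit 4) (nat_lit 59) (nat_lit 4) (nat_lit 496) (nat_lit 299) (nat_lit 225))) (XT.nd (nat_lit 78) (nat_lit 76) (nat_lit 0) (XT.lf (nat_lit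 0) (nat_lit 4068442335) (nat_lit 152) (nat_lit 6172536894) (nat_lit 0) (nat_lit 4068442335) (nat_lit 149) (nat_lit 5) (nat_lit 151) (nat_lit 4) (nat_lit 149) (nat_lit 4) (nat_lit 420) (nat_lit 300) (nat_lit 300)) (XT.lf (nat_lit 0) (nat_lit 16493127282) (nat_lit 76) (nat_lit 6455630168) (nat_lit 76) (nat_lit 6376628839) (nat_lit 148) (nat_lit 4) (nat_lit 149) (nat_lit 5) (nat_lit 149) (nat_lit 4) (nat_lit 421) (nat_lit 300) (nat_lit 299)))) (XT.nd (nat_lit 156) (nat_lit 228) (nat_lit 0) (XT.nd (nat_lit 78) (nat_lit 76) (nat_lit 0) (XT.lf (nat_lit 0) (nat_lit 8296497139) (nat_lit 152) (nat_lit 13607950856) (nat_lit 0) (nat_lit 8149601244) (nat_lit 146) (nat_lit 5) (nat_lit 148) (nat_lit 4) (nat_lit 146) (nat_lit 4) (nat_lit 422) (nat_lit 300) (nat_lit 298)) (XT.lf (nat_lit 0) (nat_lit 16172455775) (nat_lit 76) (nat_lit 7425575309) (nat_lit 76) (nat_lit 7210435096) (nat_lit 145) (nat_lit 4) (nat_lit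 146) (nat_lit 5) (nat_lit 146) (nat_lit 4) (nat_lit 423) (nat_lit 300) (nat_lit 297))) (XT.nd (nat_lit 78) (nat_lit 76) (nat_lit 0) (XT.lf (nat_lit 0) (nat_lit 7939660276) (nat_lit 152) (nat_lit 15975097249) (nat_lit 0) (nat_lit 7672865227) (nat_lit 143) (nat_lit 5) (nat_lit 145) (nat_lit 4) (nat_lit 143) (nat_lit 4) (nat_lit 424) (nat_lit 300) (nat_lit 296)) (XT.lf (nat_lit 0) (nat_lit 14759522628) (nat_lit 76) (nat_lit 8979669456) (nat_lit 76) (nat_lit 8653922399) (nat_lit 142) (nat_lit 4) (nat_lit 143) (nat_lit 5) (nat_lit 143) (nat_lit 4) (nat_lit 425) (nat_lit 300) (nat_lit 295)))))) (XT.nd (nat_lit 624) (nat_lit 760) (nat_lit 0) (XT.nd (nat_lit 312) (nat_lit 380) (nat_lit 0) (XT.nd (nat_lit 156) (nat_lit 228) (nat_lit 0) (XT.nd (nat_lit 78) (nat_lit 76) (nat_lit 0) (XT.lf (nat_lit 0) (nat_lit 6989310095) (nat_lit 152) (nat_lit 19612112066) (nat_lit 0) (nat_lit 6625603594) (nat_lit 140) (nat_lit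 5) (nat_lit 142) (nat_lit 4) (nat_lit 140) (nat_lit 4) (nat_lit 426) (nat_lit 300) (nat_lit 294)) (XT.lf (nat_lit 0) (nat_lit 12085771634) (nat_lit 76) (nat_lit 11207953289) (nat_lit 76) (nat_lit 10793321827) (nat_lit 139) (nat_lit 4) (nat_lit 140) (nat_lit 5) (nat_lit 140) (nat_lit 4) (nat_lit 427) (nat_lit 300) (nat_lit 293))) (XT.nd (nat_lit 78) (nat_lit 76) (nat_lit 0) (XT.lf (nat_lit 0) (nat_lit 5358866137) (nat_lit 152) (nat_lit 24703722746) (nat_lit 0) (nat_lit 4917788590) (nat_lit 137) (nat_lit 5) (nat_lit 139) (nat_lit 4) (nat_lit 137) (nat_lit 4) (nat_lit 428) (nat_lit 300) (nat_lit 292)) (XT.lf (nat_lit 0) (nat_lit 7962999122) (nat_lit 76) (nat_lit 14210362911) (nat_lit 76) (nat_lit 13725294468) (nat_lit 136) (nat_lit 4) (nat_lit 137) (nat_lit 5) (nat_lit 137) (nat_lit 4) (nat_lit 429) (nat_lit 300) (nat_lit 291)))) (XT.nd (nat_lit 156) (nat_lit 152) (nat_lit 0) (XT.nd (nat_lit 78) (nat_lit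 76) (nat_lit 0) (XT.lf (nat_lit 0) (nat_lit 2951234414) (nat_lit 152) (nat_lit 31455915311) (nat_lit 0) (nat_lit 2449363429) (nat_lit 134) (nat_lit 5) (nat_lit 136) (nat_lit 4) (nat_lit 134) (nat_lit 4) (nat_lit 430) (nat_lit 300) (nat_lit 290)) (XT.lf (nat_lit 0) (nat_lit 2181160652) (nat_lit 76) (nat_lit 18097893746) (nat_lit 76) (nat_lit 17558021771) (nat_lit 133) (nat_lit 4) (nat_lit 134) (nat_lit 5) (nat_lit 134) (nat_lit 4) (nat_lit 431) (nat_lit 300) (nat_lit 289))) (XT.nd (nat_lit 78) (nat_lit 152) (nat_lit 0) (XT.lf (nat_lit 0) (nat_lit 37649763981) (nat_lit 76) (nat_lit 894703325) (nat_lit 76) (nat_lit 318639932) (nat_lit 133) (nat_lit 4) (nat_lit 134) (nat_lit 5) (nat_lit 134) (nat_lit 4) (nat_lit 432) (nat_lit 300) (nat_lit 288)) (XT.lf (nat_lit 0) (nat_lit 17585604923) (nat_lit 152) (nat_lit 5318204018) (nat_lit 0) (nat_lit 17004146436) (nat_lit 131) (nat_lit 5) (nat_lit 133) (nat_lit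 4) (nat_lit 131) (nat_lit 4) (nat_lit 433) (nat_lit 300) (nat_lit 287))))) (XT.nd (nat_lit 312) (nat_lit 304) (nat_lit 0) (XT.nd (nat_lit 156) (nat_lit 228) (nat_lit 0) (XT.nd (nat_lit 78) (nat_lit 152) (nat_lit 0) (XT.lf (nat_lit 0) (nat_lit 31289945116) (nat_lit 76) (nat_lit 5161844902) (nat_lit 76) (nat_lit 4549122906) (nat_lit 130) (nat_lit 4) (nat_lit 131) (nat_lit 5) (nat_lit 131) (nat_lit 4) (nat_lit 434) (nat_lit 300) (nat_lit 286)) (XT.lf (nat_lit 0) (nat_lit 13950759429) (nat_lit 152) (nat_lit 14833399675) (nat_lit 0) (nat_lit 13338857748) (nat_lit 128) (nat_lit 5) (nat_lit 130) (nat_lit 4) (nat_lit 128) (nat_lit 4) (nat_lit 435) (nat_lit 300) (nat_lit 285))) (XT.nd (nat_lit 78) (nat_lit 152) (nat_lit 0) (XT.lf (nat_lit 0) (nat_lit 22840982519) (nat_lit 76) (nat_lit 10543664193) (nat_lit 76) (nat_lit 9904755917) (nat_lit 127) (nat_lit 4) (nat_lit 128) (nat_lit 5) (nat_lit 128) (nat_lit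 4) (nat_lit 436) (nat_lit 300) (nat_lit 284)) (XT.lf (nat_lit 0) (nat_lit 9206234963) (nat_lit 152) (nat_lit 26716025900) (nat_lit 0) (nat_lit 8573255115) (nat_lit 125) (nat_lit 5) (nat_lit 127) (nat_lit 4) (nat_lit 125) (nat_lit 4) (nat_lit 437) (nat_lit 300) (nat_lit 283)))) (XT.nd (nat_lit 156) (nat_lit 76) (nat_lit 0) (XT.nd (nat_lit 78) (nat_lit 152) (nat_lit 0) (XT.lf (nat_lit 0) (nat_lit 12015085408) (nat_lit 76) (nat_lit 17190868954) (nat_lit 76) (nat_lit 16534559794) (nat_lit 124) (nat_lit 4) (nat_lit 125) (nat_lit 5) (nat_lit 125) (nat_lit 4) (nat_lit 438) (nat_lit 300) (nat_lit 282)) (XT.lf (nat_lit 0) (nat_lit 3202155642) (nat_lit 152) (nat_lit 41279935964) (nat_lit 0) (nat_lit 2555938926) (nat_lit 122) (nat_lit 5) (nat_lit 124) (nat_lit 4) (nat_lit 122) (nat_lit 4) (nat_lit 439) (nat_lit 300) (nat_lit 281))) (XT.nd (nat_lit 78) (nat_lit 76) (nat_lit 0) (XT.lf (nat_lit 0) (nat_lit 23786107781)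 (nat_lit 152) (nat_lit 1460220171) (nat_lit 0) (nat_lit 23119738328) (nat_lit 122) (nat_lit 5) (nat_lit 124) (nat_lit 4) (nat_lit 122) (nat_lit 4) (nat_lit 440) (nat_lit 300) (nat_lit 280)) (XT.lf (nat_lit 0) (nat_lit 40786591879) (nat_lit 76) (nat_lit 4824442806) (nat_lit 76) (nat_lit 4138880272) (nat_lit 121) (nat_lit 4) (nat_lit 122) (nat_lit 5) (nat_lit 122) (nat_lit 4) (nat_lit 441) (nat_lit 300) (nat_lit 279))))))))
noncomputable def xc31 : XT := (XT.nd (nat_lit 1248) (nat_lit 1368) (nat_lit 0) (XT.nd (nat_lit 624) (nat_lit 684) (nat_lit 0) (XT.nd (nat_lit 312) (nat_lit 380) (nat_lit 0) (XT.nd (nat_lit 156) (nat_lit 228) (nat_lit 0) (XT.nd (nat_lit 78) (nat_lit 76) (nat_lit 0) (XT.lf (nat_lit 0) (nat_lit 17165885965) (nat_lit 152) (nat_lit 17508179606) (nat_lit 0) (nat_lit 16495560575) (nat_lit 119) (nat_lit 5) (nat_lit 121) (nat_lit 4) (nat_lit 119) (nat_lit 4) (nat_lit 442) (nat_lit 300)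 (nat_lit 278)) (XT.lf (nat_lit 0) (nat_lit 25885576880) (nat_lit 76) (nat_lit 13723814434) (nat_lit 76) (nat_lit 13036909338) (nat_lit 118) (nat_lit 4) (nat_lit 119) (nat_lit 5) (nat_lit 119) (nat_lit 4) (nat_lit 443) (nat_lit 300) (nat_lit 277))) (XT.nd (nat_lit 78) (nat_lit 76) (nat_lit 0) (XT.lf (nat_lit 0) (nat_lit 8973249310) (nat_lit 152) (nat_lit 36898417747) (nat_lit 0) (nat_lit 8304015698) (nat_lit 116) (nat_lit 5) (nat_lit 118) (nat_lit 4) (nat_lit 116) (nat_lit 4) (nat_lit 444) (nat_lit 300) (nat_lit 276)) (XT.lf (nat_lit 0) (nat_lit 7615485683) (nat_lit 76) (nat_lit 24409967464) (nat_lit 76) (nat_lit 23726411678) (nat_lit 115) (nat_lit 4) (nat_lit 116) (nat_lit 5) (nat_lit 116) (nat_lit 4) (nat_lit 445) (nat_lit 300) (nat_lit 275)))) (XT.nd (nat_lit 156) (nat_lit 228) (nat_lit 0) (XT.nd (nat_lit 78) (nat_lit 152) (nat_lit 0) (XT.lf (nat_lit 0) (nat_lit 54780659000) (nat_lit 76) (nat_lit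 1656523590) (nat_lit 76) (nat_lit 959327639) (nat_lit 115) (nat_lit 4) (nat_lit 116) (nat_lit 5) (nat_lit 116) (nat_lit 4) (nat_lit 446) (nat_lit 300) (nat_lit 274)) (XT.lf (nat_lit 0) (nat_lit 22874716713) (nat_lit 152) (nat_lit 13999258751) (nat_lit 0) (nat_lit 22198348537) (nat_lit 113) (nat_lit 5) (nat_lit 115) (nat_lit 4) (nat_lit 113) (nat_lit 4) (nat_lit 447) (nat_lit 300) (nat_lit 273))) (XT.nd (nat_lit 78) (nat_lit 152) (nat_lit 0) (XT.lf (nat_lit 0) (nat_lit 34644628455) (nat_lit 76) (nat_lit 13432119265) (nat_lit 76) (nat_lit 12743968201) (nat_lit 112) (nat_lit 4) (nat_lit 113) (nat_lit 5) (nat_lit 113) (nat_lit 4) (nat_lit 448) (nat_lit 300) (nat_lit 272)) (XT.lf (nat_lit 0) (nat_lit 11883013787) (nat_lit 152) (nat_lit 39528244891) (nat_lit 0) (nat_lit 11216944395) (nat_lit 110) (nat_lit 5) (nat_lit 112) (nat_lit 4) (nat_lit 110) (nat_lit 4) (nat_lit 449) (nat_lit 300) (nat_lit 271)))))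 (XT.nd (nat_lit 312) (nat_lit 380) (nat_lit 0) (XT.nd (nat_lit 156) (nat_lit 228) (nat_lit 0) (XT.nd (nat_lit 78) (nat_lit 0) (nat_lit 0) (XT.lf (nat_lit 0) (nat_lit 10310093868) (nat_lit 76) (nat_lit 27430205481) (nat_lit 76) (nat_lit 26753957589) (nat_lit 109) (nat_lit 4) (nat_lit 110) (nat_lit 5) (nat_lit 110) (nat_lit 4) (nat_lit 450) (nat_lit 300) (nat_lit 270)) (XT.lf (nat_lit 0) (nat_lit 63197847436) (nat_lit 76) (nat_lit 1964067245) (nat_lit 76) (nat_lit 1278125541) (nat_lit 109) (nat_lit 4) (nat_lit 110) (nat_lit 5) (nat_lit 110) (nat_lit 4) (nat_lit 451) (nat_lit 300) (nat_lit 269))) (XT.nd (nat_lit 78) (nat_lit 76) (nat_lit 0) (XT.lf (nat_lit 0) (nat_lit 25462325272) (nat_lit 152) (nat_lit 18160344728) (nat_lit 0) (nat_lit 24800254888) (nat_lit 107) (nat_lit 5) (nat_lit 109) (nat_lit 4) (nat_lit 107) (nat_lit 4) (nat_lit 452) (nat_lit 300) (nat_lit 268)) (XT.lf (nat_lit 0) (nat_lit 36374300807)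 (nat_lit 76) (nat_lit 17393256985) (nat_lit 76) (nat_lit 16722812723) (nat_lit 106) (nat_lit 4) (nat_lit 107) (nat_lit 5) (nat_lit 107) (nat_lit 4) (nat_lit 453) (nat_lit 300) (nat_lit 267)))) (XT.nd (nat_lit 156) (nat_lit 152) (nat_lit 0) (XT.nd (nat_lit 78) (nat_lit 76) (nat_lit 0) (XT.lf (nat_lit 0) (nat_lit 10906421213) (nat_lit 152) (nat_lit 51464703566) (nat_lit 0) (nat_lit 10260307513) (nat_lit 104) (nat_lit 5) (nat_lit 106) (nat_lit 4) (nat_lit 104) (nat_lit 4) (nat_lit 454) (nat_lit 300) (nat_lit 266)) (XT.lf (nat_lit 0) (nat_lit 4328388959) (nat_lit 76) (nat_lit 35581529235) (nat_lit 76) (nat_lit 34928181865) (nat_lit 103) (nat_lit 4) (nat_lit 104) (nat_lit 5) (nat_lit 104) (nat_lit 4) (nat_lit 455) (nat_lit 300) (nat_lit 265))) (XT.nd (nat_lit 78) (nat_lit 152) (nat_lit 0) (XT.lf (nat_lit 0) (nat_lit 63921761126) (nat_lit 76) (nat_lit 6934472250) (nat_lit 76) (nat_lit 6274235669) (nat_lit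 103) (nat_lit 4) (nat_lit 104) (nat_lit 5) (nat_lit 104) (nat_lit 4) (nat_lit 456) (nat_lit 300) (nat_lit 264)) (XT.lf (nat_lit 0) (nat_lit 23796285109) (nat_lit 152) (nat_lit 32524041653) (nat_lit 0) (nat_lit 23161239648) (nat_lit 101) (nat_lit 5) (nat_lit 103) (nat_lit 4) (nat_lit 101) (nat_lit 4) (nat_lit 457) (nat_lit 300) (nat_lit 263)))))) (XT.nd (nat_lit 624) (nat_lit 684) (nat_lit 0) (XT.nd (nat_lit 312) (nat_lit 380) (nat_lit 0) (XT.nd (nat_lit 156) (nat_lit 76) (nat_lit 0) (XT.nd (nat_lit 78) (nat_lit 152) (nat_lit 0) (XT.lf (nat_lit 0) (nat_lit 28595333305) (nat_lit 76) (nat_lit 26984851853) (nat_lit 76) (nat_lit 26343855233) (nat_lit 100) (nat_lit 4) (nat_lit 101) (nat_lit 5) (nat_lit 101) (nat_lit 4) (nat_lit 458) (nat_lit 300) (nat_lit 262)) (XT.lf (nat_lit 0) (nat_lit 4719850906) (nat_lit 152) (nat_lit 75641416568) (nat_lit 0) (nat_lit 4103980059) (nat_lit 98) (nat_lit 5) (nat_lit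 100) (nat_lit 4) (nat_lit 98) (nat_lit 4) (nat_lit 459) (nat_lit 300) (nat_lit 261))) (XT.nd (nat_lit 78) (nat_lit 76) (nat_lit 0) (XT.lf (nat_lit 0) (nat_lit 37444983602) (nat_lit 152) (nat_lit 12793287810) (nat_lit 0) (nat_lit 36823971919) (nat_lit 98) (nat_lit 5) (nat_lit 100) (nat_lit 4) (nat_lit 98) (nat_lit 4) (nat_lit 460) (nat_lit 300) (nat_lit 260)) (XT.lf (nat_lit 0) (nat_lit 54216975313) (nat_lit 76) (nat_lit 18086581074) (nat_lit 76) (nat_lit 17460673359) (nat_lit 97) (nat_lit 4) (nat_lit 98) (nat_lit 5) (nat_lit 98) (nat_lit 4) (nat_lit 461) (nat_lit 300) (nat_lit 259)))) (XT.nd (nat_lit 156) (nat_lit 152) (nat_lit 0) (XT.nd (nat_lit 78) (nat_lit 76) (nat_lit 0) (XT.lf (nat_lit 0) (nat_lit 16415305527) (nat_lit 152) (nat_lit 60326851267) (nat_lit 0) (nat_lit 15814762094) (nat_lit 95) (nat_lit 5) (nat_lit 97) (nat_lit 4) (nat_lit 95) (nat_lit 4) (nat_lit 462) (nat_lit 300) (nat_lit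 258)) (XT.lf (nat_lit 0) (nat_lit 8123034872) (nat_lit 76) (nat_lit 43961185935) (nat_lit 76) (nat_lit 43356413125) (nat_lit 94) (nat_lit 4) (nat_lit 95) (nat_lit 5) (nat_lit 95) (nat_lit 4) (nat_lit 463) (nat_lit 300) (nat_lit 257))) (XT.nd (nat_lit 78) (nat_lit 152) (nat_lit 0) (XT.lf (nat_lit 0) (nat_lit 81385792650) (nat_lit 76) (nat_lit 8828820647) (nat_lit 76) (nat_lit 8220019858) (nat_lit 94) (nat_lit 4) (nat_lit 95) (nat_lit 5) (nat_lit 95) (nat_lit 4) (nat_lit 464) (nat_lit 300) (nat_lit 256)) (XT.lf (nat_lit 0) (nat_lit 28774370908) (nat_lit 152) (nat_lit 44539725894) (nat_lit 0) (nat_lit 28190907138) (nat_lit 92) (nat_lit 5) (nat_lit 94) (nat_lit 4) (nat_lit 92) (nat_lit 4) (nat_lit 465) (nat_lit 300) (nat_lit 255))))) (XT.nd (nat_lit 312) (nat_lit 380) (nat_lit 0) (XT.nd (nat_lit 156) (nat_lit 76) (nat_lit 0) (XT.nd (nat_lit 78) (nat_lit 152) (nat_lit 0) (XT.lf (nat_lit 0) (nat_lit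 30570239482) (nat_lit 76) (nat_lit 37354858102) (nat_lit 76) (nat_lit 36767914813) (nat_lit 91) (nat_lit 4) (nat_lit 92) (nat_lit 5) (nat_lit 92) (nat_lit 4) (nat_lit 466) (nat_lit 300) (nat_lit 254)) (XT.lf (nat_lit 0) (nat_lit 1446078014) (nat_lit 152) (nat_lit 105685393809) (nat_lit 0) (nat_lit 883928378) (nat_lit 89) (nat_lit 5) (nat_lit 91) (nat_lit 4) (nat_lit 89) (nat_lit 4) (nat_lit 467) (nat_lit 300) (nat_lit 253))) (XT.nd (nat_lit 78) (nat_lit 76) (nat_lit 0) (XT.lf (nat_lit 0) (nat_lit 41890779300) (nat_lit 152) (nat_lit 28179583941) (nat_lit 0) (nat_lit 41325623925) (nat_lit 89) (nat_lit 5) (nat_lit 91) (nat_lit 4) (nat_lit 89) (nat_lit 4) (nat_lit 468) (nat_lit 300) (nat_lit 252)) (XT.lf (nat_lit 0) (nat_lit 54290055756) (nat_lit 76) (nat_lit 30598511562) (nat_lit 76) (nat_lit 30030493577) (nat_lit 88) (nat_lit 4) (nat_lit 89) (nat_lit 5) (nat_lit 89) (nat_lit 4) (nat_lit 469) (nat_lit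 300) (nat_lit 251)))) (XT.nd (nat_lit 156) (nat_lit 228) (nat_lit 0) (XT.nd (nat_lit 78) (nat_lit 0) (nat_lit 0) (XT.lf (nat_lit 0) (nat_lit 11763578137) (nat_lit 152) (nat_lit 95590231322) (nat_lit 0) (nat_lit 11220012157) (nat_lit 86) (nat_lit 5) (nat_lit 88) (nat_lit 4) (nat_lit 86) (nat_lit 4) (nat_lit 470) (nat_lit 300) (nat_lit 250)) (XT.lf (nat_lit 0) (nat_lit 55866605749) (nat_lit 152) (nat_lit 11138108835) (nat_lit 0) (nat_lit 55320566939) (nat_lit 86) (nat_lit 5) (nat_lit 88) (nat_lit 4) (nat_lit 86) (nat_lit 4) (nat_lit 471) (nat_lit 300) (nat_lit 249))) (XT.nd (nat_lit 78) (nat_lit 152) (nat_lit 0) (XT.lf (nat_lit 0) (nat_lit 79461705263) (nat_lit 76) (nat_lit 23652027816) (nat_lit 76) (nat_lit 23103633931) (nat_lit 85) (nat_lit 4) (nat_lit 86) (nat_lit 5) (nat_lit 86) (nat_lit 4) (nat_lit 472) (nat_lit 300) (nat_lit 248)) (XT.lf (nat_lit 0) (nat_lit 22653619831) (nat_lit 152) (nat_lit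 85456131177) (nat_lit 0) (nat_lit 22129203817) (nat_lit 83) (nat_lit 5) (nat_lit 85) (nat_lit 4) (nat_lit 83) (nat_lit 4) (nat_lit 473) (nat_lit 300) (nat_lit 247)))))))
noncomputable def xc32 : XT := (XT.nd (nat_lit 1248) (nat_lit 608) (nat_lit 0) (XT.nd (nat_lit 624) (nat_lit 684) (nat_lit 0) (XT.nd (nat_lit 312) (nat_lit 228) (nat_lit 0) (XT.nd (nat_lit 156) (nat_lit 228) (nat_lit 0) (XT.nd (nat_lit 78) (nat_lit 0) (nat_lit 0) (XT.lf (nat_lit 0) (nat_lit 6923382052) (nat_lit 76) (nat_lit 63997901963) (nat_lit 76) (nat_lit 63471451546) (nat_lit 82) (nat_lit 4) (nat_lit 83) (nat_lit 5) (nat_lit 83) (nat_lit 4) (nat_lit 474) (nat_lit 300) (nat_lit 246)) (XT.lf (nat_lit 0) (nat_lit 106280489653) (nat_lit 76) (nat_lit 16472290591) (nat_lit 76) (nat_lit 15943902648) (nat_lit 82) (nat_lit 4) (nat_lit 83) (nat_lit 5) (nat_lit 83) (nat_lit 4) (nat_lit 475) (nat_lit 300) (nat_lit 245))) (XT.nd (nat_lit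 78) (nat_lit 76) (nat_lit 0) (XT.lf (nat_lit 0) (nat_lit 34198117081) (nat_lit 152) (nat_lit 75231815564) (nat_lit 0) (nat_lit 33693133075) (nat_lit 80) (nat_lit 5) (nat_lit 82) (nat_lit 4) (nat_lit 80) (nat_lit 4) (nat_lit 476) (nat_lit 300) (nat_lit 244)) (XT.lf (nat_lit 0) (nat_lit 26309037975) (nat_lit 76) (nat_lit 60953872031) (nat_lit 76) (nat_lit 60447214317) (nat_lit 79) (nat_lit 4) (nat_lit 80) (nat_lit 5) (nat_lit 80) (nat_lit 4) (nat_lit 477) (nat_lit 300) (nat_lit 243)))) (XT.nd (nat_lit 156) (nat_lit 76) (nat_lit 0) (XT.nd (nat_lit 78) (nat_lit 152) (nat_lit 0) (XT.lf (nat_lit 0) (nat_lit 134959542133) (nat_lit 76) (nat_lit 9012836813) (nat_lit 76) (nat_lit 8504585091) (nat_lit 79) (nat_lit 4) (nat_lit 80) (nat_lit 5) (nat_lit 80) (nat_lit 4) (nat_lit 478) (nat_lit 300) (nat_lit 242)) (XT.lf (nat_lit 0) (nat_lit 46486250335) (nat_lit 152) (nat_lit 64862978841) (nat_lit 0) (nat_lit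 46000755264) (nat_lit 77) (nat_lit 5) (nat_lit 79) (nat_lit 4) (nat_lit 77) (nat_lit 4) (nat_lit 479) (nat_lit 300) (nat_lit 241))) (XT.nd (nat_lit 78) (nat_lit 0) (nat_lit 0) (XT.lf (nat_lit 0) (nat_lit 46792889898) (nat_lit 76) (nat_lit 58054177277) (nat_lit 76) (nat_lit 57567305242) (nat_lit 76) (nat_lit 4) (nat_lit 77) (nat_lit 5) (nat_lit 77) (nat_lit 4) (nat_lit 480) (nat_lit 300) (nat_lit 240)) (XT.lf (nat_lit 0) (nat_lit 165731754565) (nat_lit 76) (nat_lit 1223471791) (nat_lit 76) (nat_lit 735288362) (nat_lit 76) (nat_lit 4) (nat_lit 77) (nat_lit 5) (nat_lit 77) (nat_lit 4) (nat_lit 481) (nat_lit 300) (nat_lit 239))))) (XT.nd (nat_lit 312) (nat_lit 304) (nat_lit 0) (XT.nd (nat_lit 156) (nat_lit 152) (nat_lit 0) (XT.nd (nat_lit 78) (nat_lit 76) (nat_lit 0) (XT.lf (nat_lit 0) (nat_lit 59615269297) (nat_lit 152) (nat_lit 54291875262) (nat_lit 0) (nat_lit 59149143224) (nat_lit 74) (nat_lit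 5) (nat_lit 76) (nat_lit 4) (nat_lit 74) (nat_lit 4) (nat_lit 482) (nat_lit 300) (nat_lit 238)) (XT.lf (nat_lit 0) (nat_lit 68529739670) (nat_lit 76) (nat_lit 55292054279) (nat_lit 76) (nat_lit 54824795375) (nat_lit 73) (nat_lit 4) (nat_lit 74) (nat_lit 5) (nat_lit 74) (nat_lit 4) (nat_lit 483) (nat_lit 300) (nat_lit 237))) (XT.nd (nat_lit 78) (nat_lit 0) (nat_lit 0) (XT.lf (nat_lit 0) (nat_lit 7525117396) (nat_lit 152) (nat_lit 169856057885) (nat_lit 0) (nat_lit 7079081404) (nat_lit 71) (nat_lit 5) (nat_lit 73) (nat_lit 4) (nat_lit 71) (nat_lit 4) (nat_lit 484) (nat_lit 300) (nat_lit 236)) (XT.lf (nat_lit 0) (nat_lit 73691374501) (nat_lit 152) (nat_lit 43456868566) (nat_lit 0) (nat_lit 73244359926) (nat_lit 71) (nat_lit 5) (nat_lit 73) (nat_lit 4) (nat_lit 71) (nat_lit 4) (nat_lit 485) (nat_lit 300) (nat_lit 235)))) (XT.nd (nat_lit 156) (nat_lit 76) (nat_lit 0) (XT.nd (nat_lit 78) (nat_lit 152)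 (nat_lit 0) (XT.lf (nat_lit 0) (nat_lit 91688260774) (nat_lit 76) (nat_lit 52661042236) (nat_lit 76) (nat_lit 52213095678) (nat_lit 70) (nat_lit 4) (nat_lit 71) (nat_lit 5) (nat_lit 71) (nat_lit 4) (nat_lit 486) (nat_lit 300) (nat_lit 234)) (XT.lf (nat_lit 0) (nat_lit 16264038794) (nat_lit 152) (nat_lit 170864934497) (nat_lit 0) (nat_lit 15836577688) (nat_lit 68) (nat_lit 5) (nat_lit 70) (nat_lit 4) (nat_lit 68) (nat_lit 4) (nat_lit 487) (nat_lit 300) (nat_lit 233))) (XT.nd (nat_lit 78) (nat_lit 76) (nat_lit 0) (XT.lf (nat_lit 0) (nat_lit 88830686048) (nat_lit 152) (nat_lit 32291939435) (nat_lit 0) (nat_lit 88402419859) (nat_lit 68) (nat_lit 5) (nat_lit 70) (nat_lit 4) (nat_lit 68) (nat_lit 4) (nat_lit 488) (nat_lit 300) (nat_lit 232)) (XT.lf (nat_lit 0) (nat_lit 116452512411) (nat_lit 76) (nat_lit 50154972005) (nat_lit 76) (nat_lit 49725939071) (nat_lit 67) (nat_lit 4) (nat_lit 68) (nat_lit 5)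 (nat_lit 68) (nat_lit 4) (nat_lit 489) (nat_lit 300) (nat_lit 231)))))) (XT.nd (nat_lit 47580) (nat_lit 0) (nat_lit 6080) (XT.nd (nat_lit 312) (nat_lit 228) (nat_lit 0) (XT.nd (nat_lit 156) (nat_lit 228) (nat_lit 0) (XT.nd (nat_lit 78) (nat_lit 0) (nat_lit 0) (XT.lf (nat_lit 0) (nat_lit 25519045788) (nat_lit 152) (nat_lit 172757994077) (nat_lit 0) (nat_lit 25109747534) (nat_lit 65) (nat_lit 5) (nat_lit 67) (nat_lit 4) (nat_lit 65) (nat_lit 4) (nat_lit 490) (nat_lit 300) (nat_lit 230)) (XT.lf (nat_lit 0) (nat_lit 105160308691) (nat_lit 152) (nat_lit 20726146436) (nat_lit 0) (nat_lit 104750348094) (nat_lit 65) (nat_lit 5) (nat_lit 67) (nat_lit 4) (nat_lit 65) (nat_lit 4) (nat_lit 491) (nat_lit 300) (nat_lit 229))) (XT.nd (nat_lit 78) (nat_lit 152) (nat_lit 0) (XT.lf (nat_lit 0) (nat_lit 143023604871) (nat_lit 76) (nat_lit 47767955051) (nat_lit 76) (nat_lit 47357363651) (nat_lit 64) (nat_lit 4) (nat_lit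 65) (nat_lit 5) (nat_lit 65) (nat_lit 4) (nat_lit 492) (nat_lit 300) (nat_lit 228)) (XT.lf (nat_lit 0) (nat_lit 35361159252) (nat_lit 152) (nat_lit 175588729051) (nat_lit 0) (nat_lit 34969547666) (nat_lit 62) (nat_lit 5) (nat_lit 64) (nat_lit 4) (nat_lit 62) (nat_lit 4) (nat_lit 493) (nat_lit 300) (nat_lit 227)))) (XT.nd (nat_lit 156) (nat_lit 152) (nat_lit 0) (XT.nd (nat_lit 78) (nat_lit 76) (nat_lit 0) (XT.lf (nat_lit 0) (nat_lit 122819503375) (nat_lit 152) (nat_lit 8683035571) (nat_lit 0) (nat_lit 122427346878) (nat_lit 62) (nat_lit 5) (nat_lit 64) (nat_lit 4) (nat_lit 62) (nat_lit 4) (nat_lit 494) (nat_lit 300) (nat_lit 226)) (XT.lf (nat_lit 0) (nat_lit 171621531821) (nat_lit 76) (nat_lit 45494372417) (nat_lit 76) (nat_lit 45101696956) (nat_lit 61) (nat_lit 4) (nat_lit 62) (nat_lit 5) (nat_lit 62) (nat_lit 4) (nat_lit 495) (nat_lit 300) (nat_lit 225))) (XT.nd (nat_lit 47034) (nat_lit 0) (nat_lit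 7068) (XT.lf (nat_lit 0) (nat_lit 45867809056) (nat_lit 152) (nat_lit 179417875531) (nat_lit 0) (nat_lit 45493361712) (nat_lit 59) (nat_lit 5) (nat_lit 61) (nat_lit 4) (nat_lit 59) (nat_lit 4) (nat_lit 496) (nat_lit 300) (nat_lit 224)) (XT.lf (nat_lit 0) (nat_lit 3917576539) (nat_lit 152) (nat_lit 5796950274) (nat_lit 0) (nat_lit 3917576539) (nat_lit 152) (nat_lit 5) (nat_lit 154) (nat_lit 4) (nat_lit 152) (nat_lit 4) (nat_lit 418) (nat_lit 301) (nat_lit 301))))) (XT.nd (nat_lit 312) (nat_lit 532) (nat_lit 0) (XT.nd (nat_lit 156) (nat_lit 228) (nat_lit 0) (XT.nd (nat_lit 78) (nat_lit 152) (nat_lit 0) (XT.lf (nat_lit 0) (nat_lit 15872435740) (nat_lit 76) (nat_lit 6075722595) (nat_lit 76) (nat_lit 5988623630) (nat_lit 151) (nat_lit 4) (nat_lit 152) (nat_lit 5) (nat_lit 152) (nat_lit 4) (nat_lit 419) (nat_lit 301) (nat_lit 300)) (XT.lf (nat_lit 0) (nat_lit 7990312260) (nat_lit 152) (nat_lit 12811647525)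 (nat_lit 0) (nat_lit 7828359536) (nat_lit 149) (nat_lit 5) (nat_lit 151) (nat_lit 4) (nat_lit 149) (nat_lit 4) (nat_lit 420) (nat_lit 301) (nat_lit 299))) (XT.nd (nat_lit 78) (nat_lit 152) (nat_lit 0) (XT.lf (nat_lit 0) (nat_lit 15552078157) (nat_lit 76) (nat_lit 7016820367) (nat_lit 76) (nat_lit 6779628282) (nat_lit 148) (nat_lit 4) (nat_lit 149) (nat_lit 5) (nat_lit 149) (nat_lit 4) (nat_lit 421) (nat_lit 301) (nat_lit 298)) (XT.lf (nat_lit 0) (nat_lit 7652480593) (nat_lit 152) (nat_lit 15079380487) (nat_lit 0) (nat_lit 7358339052) (nat_lit 146) (nat_lit 5) (nat_lit 148) (nat_lit 4) (nat_lit 146) (nat_lit 4) (nat_lit 422) (nat_lit 301) (nat_lit 297)))) (XT.nd (nat_lit 156) (nat_lit 304) (nat_lit 0) (XT.nd (nat_lit 78) (nat_lit 152) (nat_lit 0) (XT.lf (nat_lit 0) (nat_lit 14193152181) (nat_lit 76) (nat_lit 8511533727) (nat_lit 76) (nat_lit 8152397597) (nat_lit 145) (nat_lit 4) (nat_lit 146) (nat_lit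 5) (nat_lit 146) (nat_lit 4) (nat_lit 423) (nat_lit 301) (nat_lit 296)) (XT.lf (nat_lit 0) (nat_lit 6748451869) (nat_lit 152) (nat_lit 18555027820) (nat_lit 0) (nat_lit 6347465452) (nat_lit 143) (nat_lit 5) (nat_lit 145) (nat_lit 4) (nat_lit 143) (nat_lit 4) (nat_lit 424) (nat_lit 301) (nat_lit 295))) (XT.nd (nat_lit 78) (nat_lit 228) (nat_lit 0) (XT.lf (nat_lit 0) (nat_lit 11634916171) (nat_lit 76) (nat_lit 10646002567) (nat_lit 76) (nat_lit 10188871380) (nat_lit 142) (nat_lit 4) (nat_lit 143) (nat_lit 5) (nat_lit 143) (nat_lit 4) (nat_lit 425) (nat_lit 301) (nat_lit 294)) (XT.nd (nat_lit 78) (nat_lit 76) (nat_lit 0) (XT.lf (nat_lit 0) (nat_lit 5195929365) (nat_lit 152) (nat_lit 23414706884) (nat_lit 0) (nat_lit 4709641369) (nat_lit 140) (nat_lit 5) (nat_lit 142) (nat_lit 4) (nat_lit 140) (nat_lit 4) (nat_lit 426) (nat_lit 301) (nat_lit 293)) (XT.lf (nat_lit 0) (nat_lit 7697944659) (nat_lit 76)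 (nat_lit 13515737507) (nat_lit 76) (nat_lit 12980949549) (nat_lit 139) (nat_lit 4) (nat_lit 140) (nat_lit 5) (nat_lit 140) (nat_lit 4) (nat_lit 427) (nat_lit 301) (nat_lit 292))))))))
noncomputable def xc33 : XT := (XT.nd (nat_lit 2496) (nat_lit 2660) (nat_lit 0) (XT.nd (nat_lit 1248) (nat_lit 1368) (nat_lit 0) (XT.nd (nat_lit 624) (nat_lit 760) (nat_lit 0) (XT.nd (nat_lit 312) (nat_lit 456) (nat_lit 0) (XT.nd (nat_lit 156) (nat_lit 152) (nat_lit 0) (XT.nd (nat_lit 78) (nat_lit 76) (nat_lit 0) (XT.lf (nat_lit 0) (nat_lit 2902580043) (nat_lit 152) (nat_lit 29854756668) (nat_lit 0) (nat_lit 2349267283) (nat_lit 137) (nat_lit 5) (nat_lit 139) (nat_lit 4) (nat_lit 137) (nat_lit 4) (nat_lit 428) (nat_lit 301) (nat_lit 291)) (XT.lf (nat_lit 0) (nat_lit 2182035717) (nat_lit 76) (nat_lit 17226735692) (nat_lit 76) (nat_lit 16631526840) (nat_lit 136) (nat_lit 4) (nat_lit 137) (nat_lit 5) (nat_lit 137) (nat_lit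 4) (nat_lit 429) (nat_lit 301) (nat_lit 290))) (XT.nd (nat_lit 78) (nat_lit 152) (nat_lit 0) (XT.lf (nat_lit 0) (nat_lit 35959817719) (nat_lit 76) (nat_lit 846337620) (nat_lit 76) (nat_lit 211227728) (nat_lit 136) (nat_lit 4) (nat_lit 137) (nat_lit 5) (nat_lit 137) (nat_lit 4) (nat_lit 430) (nat_lit 301) (nat_lit 289)) (XT.lf (nat_lit 0) (nat_lit 16840794020) (nat_lit 152) (nat_lit 4971708858) (nat_lit 0) (nat_lit 16199736038) (nat_lit 134) (nat_lit 5) (nat_lit 136) (nat_lit 4) (nat_lit 134) (nat_lit 4) (nat_lit 431) (nat_lit 301) (nat_lit 288)))) (XT.nd (nat_lit 156) (nat_lit 228) (nat_lit 0) (XT.nd (nat_lit 78) (nat_lit 152) (nat_lit 0) (XT.lf (nat_lit 0) (nat_lit 29894688608) (nat_lit 76) (nat_lit 4916918680) (nat_lit 76) (nat_lit 4241392680) (nat_lit 133) (nat_lit 4) (nat_lit 134) (nat_lit 5) (nat_lit 134) (nat_lit 4) (nat_lit 432) (nat_lit 301) (nat_lit 287)) (XT.lf (nat_lit 0) (nat_lit 13377488143)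 (nat_lit 152) (nat_lit 14041101515) (nat_lit 0) (nat_lit 12702866539) (nat_lit 131) (nat_lit 5) (nat_lit 133) (nat_lit 4) (nat_lit 131) (nat_lit 4) (nat_lit 433) (nat_lit 301) (nat_lit 286))) (XT.nd (nat_lit 78) (nat_lit 152) (nat_lit 0) (XT.lf (nat_lit 0) (nat_lit 21840731037) (nat_lit 76) (nat_lit 10047915214) (nat_lit 76) (nat_lit 9343518841) (nat_lit 130) (nat_lit 4) (nat_lit 131) (nat_lit 5) (nat_lit 131) (nat_lit 4) (nat_lit 434) (nat_lit 301) (nat_lit 285)) (XT.lf (nat_lit 0) (nat_lit 8857029287) (nat_lit 152) (nat_lit 25364452669) (nat_lit 0) (nat_lit 8159169004) (nat_lit 128) (nat_lit 5) (nat_lit 130) (nat_lit 4) (nat_lit 128) (nat_lit 4) (nat_lit 435) (nat_lit 301) (nat_lit 284))))) (XT.nd (nat_lit 312) (nat_lit 456) (nat_lit 0) (XT.nd (nat_lit 156) (nat_lit 76) (nat_lit 0) (XT.nd (nat_lit 78) (nat_lit 152) (nat_lit 0) (XT.lf (nat_lit 0) (nat_lit 11523758497) (nat_lit 76) (nat_lit 16383032679)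 (nat_lit 76) (nat_lit 15659451830) (nat_lit 127) (nat_lit 4) (nat_lit 128) (nat_lit 5) (nat_lit 128) (nat_lit 4) (nat_lit 436) (nat_lit 301) (nat_lit 283)) (XT.lf (nat_lit 0) (nat_lit 3136746605) (nat_lit 152) (nat_lit 39240758354) (nat_lit 0) (nat_lit 2424292676) (nat_lit 125) (nat_lit 5) (nat_lit 127) (nat_lit 4) (nat_lit 125) (nat_lit 4) (nat_lit 437) (nat_lit 301) (nat_lit 282))) (XT.nd (nat_lit 78) (nat_lit 76) (nat_lit 0) (XT.lf (nat_lit 0) (nat_lit 22741502452) (nat_lit 152) (nat_lit 1318211408) (nat_lit 0) (nat_lit 22006830130) (nat_lit 125) (nat_lit 5) (nat_lit 127) (nat_lit 4) (nat_lit 125) (nat_lit 4) (nat_lit 438) (nat_lit 301) (nat_lit 281)) (XT.lf (nat_lit 0) (nat_lit 38918268114) (nat_lit 76) (nat_lit 4610977386) (nat_lit 76) (nat_lit 3855144692) (nat_lit 124) (nat_lit 4) (nat_lit 125) (nat_lit 5) (nat_lit 125) (nat_lit 4) (nat_lit 439) (nat_lit 301) (nat_lit 280)))) (XT.nd (nat_lit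 156) (nat_lit 228) (nat_lit 0) (XT.nd (nat_lit 78) (nat_lit 76) (nat_lit 0) (XT.lf (nat_lit 0) (nat_lit 16434092184) (nat_lit 152) (nat_lit 16607189995) (nat_lit 0) (nat_lit 15695058441) (nat_lit 122) (nat_lit 5) (nat_lit 124) (nat_lit 4) (nat_lit 122) (nat_lit 4) (nat_lit 440) (nat_lit 301) (nat_lit 279)) (XT.lf (nat_lit 0) (nat_lit 24721578253) (nat_lit 76) (nat_lit 13089168759) (nat_lit 76) (nat_lit 12331855890) (nat_lit 121) (nat_lit 4) (nat_lit 122) (nat_lit 5) (nat_lit 122) (nat_lit 4) (nat_lit 441) (nat_lit 301) (nat_lit 278))) (XT.nd (nat_lit 78) (nat_lit 76) (nat_lit 0) (XT.lf (nat_lit 0) (nat_lit 8629020853) (nat_lit 152) (nat_lit 35078804000) (nat_lit 0) (nat_lit 7891190796) (nat_lit 119) (nat_lit 5) (nat_lit 121) (nat_lit 4) (nat_lit 119) (nat_lit 4) (nat_lit 442) (nat_lit 301) (nat_lit 277)) (XT.lf (nat_lit 0) (nat_lit 7316729567) (nat_lit 76) (nat_lit 23268473500) (nat_lit 76) (nat_lit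 22514853246) (nat_lit 118) (nat_lit 4) (nat_lit 119) (nat_lit 5) (nat_lit 119) (nat_lit 4) (nat_lit 443) (nat_lit 301) (nat_lit 276)))))) (XT.nd (nat_lit 624) (nat_lit 684) (nat_lit 0) (XT.nd (nat_lit 312) (nat_lit 304) (nat_lit 0) (XT.nd (nat_lit 156) (nat_lit 228) (nat_lit 0) (XT.nd (nat_lit 78) (nat_lit 152) (nat_lit 0) (XT.lf (nat_lit 0) (nat_lit 52235248691) (nat_lit 76) (nat_lit 1599881043) (nat_lit 76) (nat_lit 831222507) (nat_lit 118) (nat_lit 4) (nat_lit 119) (nat_lit 5) (nat_lit 119) (nat_lit 4) (nat_lit 444) (nat_lit 301) (nat_lit 275)) (XT.lf (nat_lit 0) (nat_lit 21866477639) (nat_lit 152) (nat_lit 13274979234) (nat_lit 0) (nat_lit 21120781726) (nat_lit 116) (nat_lit 5) (nat_lit 118) (nat_lit 4) (nat_lit 116) (nat_lit 4) (nat_lit 445) (nat_lit 301) (nat_lit 274))) (XT.nd (nat_lit 78) (nat_lit 152) (nat_lit 0) (XT.lf (nat_lit 0) (nat_lit 33053839377) (nat_lit 76) (nat_lit 12816072955)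 (nat_lit 76) (nat_lit 12057386408) (nat_lit 115) (nat_lit 4) (nat_lit 116) (nat_lit 5) (nat_lit 116) (nat_lit 4) (nat_lit 446) (nat_lit 301) (nat_lit 273)) (XT.lf (nat_lit 0) (nat_lit 11395408775) (nat_lit 152) (nat_lit 37592122874) (nat_lit 0) (nat_lit 10661067271) (nat_lit 113) (nat_lit 5) (nat_lit 115) (nat_lit 4) (nat_lit 113) (nat_lit 4) (nat_lit 447) (nat_lit 301) (nat_lit 272)))) (XT.nd (nat_lit 156) (nat_lit 228) (nat_lit 0) (XT.nd (nat_lit 78) (nat_lit 0) (nat_lit 0) (XT.lf (nat_lit 0) (nat_lit 9874223799) (nat_lit 76) (nat_lit 26148532264) (nat_lit 76) (nat_lit 25402968963) (nat_lit 112) (nat_lit 4) (nat_lit 113) (nat_lit 5) (nat_lit 113) (nat_lit 4) (nat_lit 448) (nat_lit 301) (nat_lit 271)) (XT.lf (nat_lit 0) (nat_lit 60243020012) (nat_lit 76) (nat_lit 1896029603) (nat_lit 76) (nat_lit 1139778876) (nat_lit 112) (nat_lit 4) (nat_lit 113) (nat_lit 5) (nat_lit 113) (nat_lit 4) (nat_lit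 449) (nat_lit 301) (nat_lit 270))) (XT.nd (nat_lit 78) (nat_lit 76) (nat_lit 0) (XT.lf (nat_lit 0) (nat_lit 24325724348) (nat_lit 152) (nat_lit 17245669136) (nat_lit 0) (nat_lit 23595791749) (nat_lit 110) (nat_lit 5) (nat_lit 112) (nat_lit 4) (nat_lit 110) (nat_lit 4) (nat_lit 450) (nat_lit 301) (nat_lit 269)) (XT.lf (nat_lit 0) (nat_lit 34693312560) (nat_lit 76) (nat_lit 16590986396) (nat_lit 76) (nat_lit 15851821596) (nat_lit 109) (nat_lit 4) (nat_lit 110) (nat_lit 5) (nat_lit 110) (nat_lit 4) (nat_lit 451) (nat_lit 301) (nat_lit 268))))) (XT.nd (nat_lit 312) (nat_lit 304) (nat_lit 0) (XT.nd (nat_lit 156) (nat_lit 152) (nat_lit 0) (XT.nd (nat_lit 78) (nat_lit 76) (nat_lit 0) (XT.lf (nat_lit 0) (nat_lit 10460111100) (nat_lit 152) (nat_lit 48967248554) (nat_lit 0) (nat_lit 9747770746) (nat_lit 107) (nat_lit 5) (nat_lit 109) (nat_lit 4) (nat_lit 107) (nat_lit 4) (nat_lit 452) (nat_lit 301) (nat_lit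 267)) (XT.lf (nat_lit 0) (nat_lit 4170208158) (nat_lit 76) (nat_lit 33913385424) (nat_lit 76) (nat_lit 33193069948) (nat_lit 106) (nat_lit 4) (nat_lit 107) (nat_lit 5) (nat_lit 107) (nat_lit 4) (nat_lit 453) (nat_lit 301) (nat_lit 266))) (XT.nd (nat_lit 78) (nat_lit 152) (nat_lit 0) (XT.lf (nat_lit 0) (nat_lit 60925450404) (nat_lit 76) (nat_lit 6631157917) (nat_lit 76) (nat_lit 5903247087) (nat_lit 106) (nat_lit 4) (nat_lit 107) (nat_lit 5) (nat_lit 107) (nat_lit 4) (nat_lit 454) (nat_lit 301) (nat_lit 265)) (XT.lf (nat_lit 0) (nat_lit 22733663278) (nat_lit 152) (nat_lit 30931718920) (nat_lit 0) (nat_lit 22033525658) (nat_lit 104) (nat_lit 5) (nat_lit 106) (nat_lit 4) (nat_lit 104) (nat_lit 4) (nat_lit 455) (nat_lit 301) (nat_lit 264)))) (XT.nd (nat_lit 156) (nat_lit 76) (nat_lit 0) (XT.nd (nat_lit 78) (nat_lit 152) (nat_lit 0) (XT.lf (nat_lit 0) (nat_lit 27278347266) (nat_lit 76) (nat_lit 25726687761)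 (nat_lit 76) (nat_lit 25019988988) (nat_lit 103) (nat_lit 4) (nat_lit 104) (nat_lit 5) (nat_lit 104) (nat_lit 4) (nat_lit 456) (nat_lit 301) (nat_lit 263)) (XT.lf (nat_lit 0) (nat_lit 4562816558) (nat_lit 152) (nat_lit 71998504381) (nat_lit 0) (nat_lit 3883818948) (nat_lit 101) (nat_lit 5) (nat_lit 103) (nat_lit 4) (nat_lit 101) (nat_lit 4) (nat_lit 457) (nat_lit 301) (nat_lit 262))) (XT.nd (nat_lit 78) (nat_lit 76) (nat_lit 0) (XT.lf (nat_lit 0) (nat_lit 35729862630) (nat_lit 152) (nat_lit 12143396687) (nat_lit 0) (nat_lit 35045197250) (nat_lit 101) (nat_lit 5) (nat_lit 103) (nat_lit 4) (nat_lit 101) (nat_lit 4) (nat_lit 458) (nat_lit 301) (nat_lit 261)) (XT.lf (nat_lit 0) (nat_lit 51676997872) (nat_lit 76) (nat_lit 17252398840) (nat_lit 76) (nat_lit 16562335584) (nat_lit 100) (nat_lit 4) (nat_lit 101) (nat_lit 5) (nat_lit 101) (nat_lit 4) (nat_lit 459) (nat_lit 301) (nat_lit 260))))))) (XT.nd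 (nat_lit 1248) (nat_lit 1292) (nat_lit 0) (XT.nd (nat_lit 624) (nat_lit 684) (nat_lit 0) (XT.nd (nat_lit 312) (nat_lit 304) (nat_lit 0) (XT.nd (nat_lit 156) (nat_lit 152) (nat_lit 0) (XT.nd (nat_lit 78) (nat_lit 76) (nat_lit 0) (XT.lf (nat_lit 0) (nat_lit 15698809044) (nat_lit 152) (nat_lit 57415842676) (nat_lit 0) (nat_lit 15036709910) (nat_lit 98) (nat_lit 5) (nat_lit 100) (nat_lit 4) (nat_lit 98) (nat_lit 4) (nat_lit 460) (nat_lit 301) (nat_lit 259)) (XT.lf (nat_lit 0) (nat_lit 7775576443) (nat_lit 76) (nat_lit 41894450681) (nat_lit 76) (nat_lit 41227688658) (nat_lit 97) (nat_lit 4) (nat_lit 98) (nat_lit 5) (nat_lit 98) (nat_lit 4) (nat_lit 461) (nat_lit 301) (nat_lit 258))) (XT.nd (nat_lit 78) (nat_lit 152) (nat_lit 0) (XT.lf (nat_lit 0) (nat_lit 77549426659) (nat_lit 76) (nat_lit 8435455035) (nat_lit 76) (nat_lit 7764252165) (nat_lit 97) (nat_lit 4) (nat_lit 98) (nat_lit 5) (nat_lit 98) (nat_lit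 4) (nat_lit 462) (nat_lit 301) (nat_lit 257)) (XT.lf (nat_lit 0) (nat_lit 27466810359) (nat_lit 152) (nat_lit 42382875945) (nat_lit 0) (nat_lit 26823541552) (nat_lit 95) (nat_lit 5) (nat_lit 97) (nat_lit 4) (nat_lit 95) (nat_lit 4) (nat_lit 463) (nat_lit 301) (nat_lit 256)))) (XT.nd (nat_lit 156) (nat_lit 76) (nat_lit 0) (XT.nd (nat_lit 78) (nat_lit 152) (nat_lit 0) (XT.lf (nat_lit 0) (nat_lit 29151434859) (nat_lit 76) (nat_lit 35602529559) (nat_lit 76) (nat_lit 34955424582) (nat_lit 94) (nat_lit 4) (nat_lit 95) (nat_lit 5) (nat_lit 95) (nat_lit 4) (nat_lit 464) (nat_lit 301) (nat_lit 255)) (XT.lf (nat_lit 0) (nat_lit 1437199968) (nat_lit 152) (nat_lit 100618873859) (nat_lit 0) (nat_lit 817429995) (nat_lit 92) (nat_lit 5) (nat_lit 94) (nat_lit 4) (nat_lit 92) (nat_lit 4) (nat_lit 465) (nat_lit 301) (nat_lit 254))) (XT.nd (nat_lit 78) (nat_lit 76) (nat_lit 0) (XT.lf (nat_lit 0) (nat_lit 39956111039)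 (nat_lit 152) (nat_lit 26803964782) (nat_lit 0) (nat_lit 39333027238) (nat_lit 92) (nat_lit 5) (nat_lit 94) (nat_lit 4) (nat_lit 92) (nat_lit 4) (nat_lit 466) (nat_lit 301) (nat_lit 253)) (XT.lf (nat_lit 0) (nat_lit 51739519066) (nat_lit 76) (nat_lit 29167548999) (nat_lit 76) (nat_lit 28541309171) (nat_lit 91) (nat_lit 4) (nat_lit 92) (nat_lit 5) (nat_lit 92) (nat_lit 4) (nat_lit 467) (nat_lit 301) (nat_lit 252))))) (XT.nd (nat_lit 312) (nat_lit 304) (nat_lit 0) (XT.nd (nat_lit 156) (nat_lit 228) (nat_lit 0) (XT.nd (nat_lit 78) (nat_lit 0) (nat_lit 0) (XT.lf (nat_lit 0) (nat_lit 11260937117) (nat_lit 152) (nat_lit 91006449710) (nat_lit 0) (nat_lit 10661655624) (nat_lit 89) (nat_lit 5) (nat_lit 91) (nat_lit 4) (nat_lit 89) (nat_lit 4) (nat_lit 468) (nat_lit 301) (nat_lit 251)) (XT.lf (nat_lit 0) (nat_lit 53263942267) (nat_lit 152) (nat_lit 10575978576) (nat_lit 0) (nat_lit 52661934480) (nat_lit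 89) (nat_lit 5) (nat_lit 91) (nat_lit 4) (nat_lit 89) (nat_lit 4) (nat_lit 469) (nat_lit 301) (nat_lit 250))) (XT.nd (nat_lit 78) (nat_lit 152) (nat_lit 0) (XT.lf (nat_lit 0) (nat_lit 75710488516) (nat_lit 76) (nat_lit 22551343923) (nat_lit 76) (nat_lit 21946739664) (nat_lit 88) (nat_lit 4) (nat_lit 89) (nat_lit 5) (nat_lit 89) (nat_lit 4) (nat_lit 470) (nat_lit 301) (nat_lit 249)) (XT.lf (nat_lit 0) (nat_lit 21629997352) (nat_lit 152) (nat_lit 81356774632) (nat_lit 0) (nat_lit 21051828697) (nat_lit 86) (nat_lit 5) (nat_lit 88) (nat_lit 4) (nat_lit 86) (nat_lit 4) (nat_lit 471) (nat_lit 301) (nat_lit 248)))) (XT.nd (nat_lit 156) (nat_lit 228) (nat_lit 0) (XT.nd (nat_lit 78) (nat_lit 0) (nat_lit 0) (XT.lf (nat_lit 0) (nat_lit 6624603211) (nat_lit 76) (nat_lit 60975180787) (nat_lit 76) (nat_lit 60394769203) (nat_lit 85) (nat_lit 4) (nat_lit 86) (nat_lit 5) (nat_lit 86) (nat_lit 4) (nat_lit 472) (nat_lit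 301) (nat_lit 247)) (XT.lf (nat_lit 0) (nat_lit 101250321457) (nat_lit 76) (nat_lit 15712886109) (nat_lit 76) (nat_lit 15130338402) (nat_lit 85) (nat_lit 4) (nat_lit 86) (nat_lit 5) (nat_lit 86) (nat_lit 4) (nat_lit 473) (nat_lit 301) (nat_lit 246))) (XT.nd (nat_lit 78) (nat_lit 76) (nat_lit 0) (XT.lf (nat_lit 0) (nat_lit 32622404497) (nat_lit 152) (nat_lit 71621033255) (nat_lit 0) (nat_lit 32065659631) (nat_lit 83) (nat_lit 5) (nat_lit 85) (nat_lit 4) (nat_lit 83) (nat_lit 4) (nat_lit 474) (nat_lit 301) (nat_lit 245)) (XT.lf (nat_lit 0) (nat_lit 25085392660) (nat_lit 76) (nat_lit 58075447603) (nat_lit 76) (nat_lit 57516857473) (nat_lit 82) (nat_lit 4) (nat_lit 83) (nat_lit 5) (nat_lit 83) (nat_lit 4) (nat_lit 475) (nat_lit 301) (nat_lit 244)))))) (XT.nd (nat_lit 624) (nat_lit 684) (nat_lit 0) (XT.nd (nat_lit 312) (nat_lit 380) (nat_lit 0) (XT.nd (nat_lit 156) (nat_lit 76) (nat_lit 0) (XT.nd (nat_lit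 78) (nat_lit 152) (nat_lit 0) (XT.lf (nat_lit 0) (nat_lit 128561982236) (nat_lit 76) (nat_lit 8607953256) (nat_lit 76) (nat_lit 8047605732) (nat_lit 82) (nat_lit 4) (nat_lit 83) (nat_lit 5) (nat_lit 83) (nat_lit 4) (nat_lit 476) (nat_lit 301) (nat_lit 243)) (XT.lf (nat_lit 0) (nat_lit 44323100069) (nat_lit 152) (nat_lit 61747523328) (nat_lit 0) (nat_lit 43787841753) (nat_lit 80) (nat_lit 5) (nat_lit 82) (nat_lit 4) (nat_lit 80) (nat_lit 4) (nat_lit 477) (nat_lit 301) (nat_lit 242))) (XT.nd (nat_lit 78) (nat_lit 0) (nat_lit 0) (XT.lf (nat_lit 0) (nat_lit 44592213485) (nat_lit 76) (nat_lit 55313114914) (nat_lit 76) (nat_lit 54776338495) (nat_lit 79) (nat_lit 4) (nat_lit 80) (nat_lit 5) (nat_lit 80) (nat_lit 4) (nat_lit 478) (nat_lit 301) (nat_lit 241)) (XT.lf (nat_lit 0) (nat_lit 157867256012) (nat_lit 76) (nat_lit 1188763684) (nat_lit 76) (nat_lit 650541453) (nat_lit 79) (nat_lit 4) (nat_lit 80)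 (nat_lit 5) (nat_lit 80) (nat_lit 4) (nat_lit 479) (nat_lit 301) (nat_lit 240)))) (XT.nd (nat_lit 156) (nat_lit 152) (nat_lit 0) (XT.nd (nat_lit 78) (nat_lit 76) (nat_lit 0) (XT.lf (nat_lit 0) (nat_lit 56824708372) (nat_lit 152) (nat_lit 51681263637) (nat_lit 0) (nat_lit 56310804376) (nat_lit 77) (nat_lit 5) (nat_lit 79) (nat_lit 4) (nat_lit 77) (nat_lit 4) (nat_lit 480) (nat_lit 301) (nat_lit 239)) (XT.lf (nat_lit 0) (nat_lit 65292481374) (nat_lit 76) (nat_lit 52681760763) (nat_lit 76) (nat_lit 52166607821) (nat_lit 76) (nat_lit 4) (nat_lit 77) (nat_lit 5) (nat_lit 77) (nat_lit 4) (nat_lit 481) (nat_lit 301) (nat_lit 238))) (XT.nd (nat_lit 78) (nat_lit 0) (nat_lit 0) (XT.lf (nat_lit 0) (nat_lit 7212845408) (nat_lit 152) (nat_lit 161743697631) (nat_lit 0) (nat_lit 6721090727) (nat_lit 74) (nat_lit 5) (nat_lit 76) (nat_lit 4) (nat_lit 74) (nat_lit 4) (nat_lit 482) (nat_lit 301) (nat_lit 237)) (XT.lf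 (nat_lit 0) (nat_lit 70228376529) (nat_lit 152) (nat_lit 41363565493) (nat_lit 0) (nat_lit 69735542961) (nat_lit 74) (nat_lit 5) (nat_lit 76) (nat_lit 4) (nat_lit 74) (nat_lit 4) (nat_lit 483) (nat_lit 301) (nat_lit 236))))) (XT.nd (nat_lit 312) (nat_lit 380) (nat_lit 0) (XT.nd (nat_lit 156) (nat_lit 76) (nat_lit 0) (XT.nd (nat_lit 78) (nat_lit 152) (nat_lit 0) (XT.lf (nat_lit 0) (nat_lit 87346825290) (nat_lit 76) (nat_lit 50175247560) (nat_lit 76) (nat_lit 49681386480) (nat_lit 73) (nat_lit 4) (nat_lit 74) (nat_lit 5) (nat_lit 74) (nat_lit 4) (nat_lit 484) (nat_lit 301) (nat_lit 235)) (XT.lf (nat_lit 0) (nat_lit 15533565194) (nat_lit 152) (nat_lit 162705805406) (nat_lit 0) (nat_lit 15062289324) (nat_lit 71) (nat_lit 5) (nat_lit 73) (nat_lit 4) (nat_lit 71) (nat_lit 4) (nat_lit 485) (nat_lit 301) (nat_lit 234))) (XT.nd (nat_lit 78) (nat_lit 76) (nat_lit 0) (XT.lf (nat_lit 0) (nat_lit 84644697442)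 (nat_lit 152) (nat_lit 30731564020) (nat_lit 0) (nat_lit 84172533969) (nat_lit 71) (nat_lit 5) (nat_lit 73) (nat_lit 4) (nat_lit 71) (nat_lit 4) (nat_lit 486) (nat_lit 301) (nat_lit 233)) (XT.lf (nat_lit 0) (nat_lit 110930529078) (nat_lit 76) (nat_lit 47787712345) (nat_lit 76) (nat_lit 47314703536) (nat_lit 70) (nat_lit 4) (nat_lit 71) (nat_lit 5) (nat_lit 71) (nat_lit 4) (nat_lit 487) (nat_lit 301) (nat_lit 232)))) (XT.nd (nat_lit 156) (nat_lit 228) (nat_lit 0) (XT.nd (nat_lit 78) (nat_lit 0) (nat_lit 0) (XT.lf (nat_lit 0) (nat_lit 24345870030) (nat_lit 152) (nat_lit 164509908328) (nat_lit 0) (nat_lit 23894618705) (nat_lit 68) (nat_lit 5) (nat_lit 70) (nat_lit 4) (nat_lit 68) (nat_lit 4) (nat_lit 488) (nat_lit 301) (nat_lit 231)) (XT.lf (nat_lit 0) (nat_lit 100194724442) (nat_lit 152) (nat_lit 19717705079) (nat_lit 0) (nat_lit 99742742884) (nat_lit 68) (nat_lit 5) (nat_lit 70) (nat_lit 4) (nat_lit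 68) (nat_lit 4) (nat_lit 489) (nat_lit 301) (nat_lit 230))) (XT.nd (nat_lit 78) (nat_lit 152) (nat_lit 0) (XT.lf (nat_lit 0) (nat_lit 136235117241) (nat_lit 76) (nat_lit 45513556834) (nat_lit 76) (nat_lit 45060879815) (nat_lit 67) (nat_lit 4) (nat_lit 68) (nat_lit 5) (nat_lit 68) (nat_lit 4) (nat_lit 490) (nat_lit 301) (nat_lit 229)) (XT.lf (nat_lit 0) (nat_lit 33717399398) (nat_lit 152) (nat_lit 167206959682) (nat_lit 0) (nat_lit 33285647624) (nat_lit 65) (nat_lit 5) (nat_lit 67) (nat_lit 4) (nat_lit 65) (nat_lit 4) (nat_lit 491) (nat_lit 301) (nat_lit 228))))))))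
noncomputable def xc34 : XT := (XT.nd (nat_lit 49296) (nat_lit 0) (nat_lit 1824) (XT.nd (nat_lit 48048) (nat_lit 0) (nat_lit 4560) (XT.nd (nat_lit 47424) (nat_lit 0) (nat_lit 6004) (XT.nd (nat_lit 312) (nat_lit 0) (nat_lit 0) (XT.nd (nat_lit 156) (nat_lit 228) (nat_lit 0) (XT.nd (nat_lit 78) (nat_lit 76) (nat_lit 0) (XT.lf (nat_lit 0) (nat_lit 117011087287) (nat_lit 152) (nat_lit 8249183187) (nat_lit 0) (nat_lit 116578734749) (nat_lit 65) (nat_lit 5) (nat_lit 67) (nat_lit 4) (nat_lit 65) (nat_lit 4) (nat_lit 492) (nat_lit 301) (nat_lit 227)) (XT.lf (nat_lit 0) (nat_lit 163470099709) (nat_lit 76) (nat_lit 43347437389) (nat_lit 76) (nat_lit 42914512694) (nat_lit 64) (nat_lit 4) (nat_lit 65) (nat_lit 5) (nat_lit 65) (nat_lit 4) (nat_lit 493) (nat_lit 301) (nat_lit 226))) (XT.nd (nat_lit 78) (nat_lit 76) (nat_lit 0) (XT.lf (nat_lit 0) (nat_lit 43721895826) (nat_lit 152) (nat_lit 170854810382) (nat_lit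 0) (nat_lit 43309067629) (nat_lit 62) (nat_lit 5) (nat_lit 64) (nat_lit 4) (nat_lit 62) (nat_lit 4) (nat_lit 494) (nat_lit 301) (nat_lit 225)) (XT.lf (nat_lit 0) (nat_lit 3876755043) (nat_lit 76) (nat_lit 131422992046) (nat_lit 76) (nat_lit 131009669599) (nat_lit 61) (nat_lit 4) (nat_lit 62) (nat_lit 5) (nat_lit 62) (nat_lit 4) (nat_lit 495) (nat_lit 301) (nat_lit 224)))) (XT.nd (nat_lit 46956) (nat_lit 0) (nat_lit 6916) (XT.nd (nat_lit 46878) (nat_lit 0) (nat_lit 7144) (XT.lf (nat_lit 0) (nat_lit 192864892013) (nat_lit 76) (nat_lit 41284255012) (nat_lit 76) (nat_lit 40870461850) (nat_lit 61) (nat_lit 4) (nat_lit 62) (nat_lit 5) (nat_lit 62) (nat_lit 4) (nat_lit 496) (nat_lit 301) (nat_lit 223)) (XT.lf (nat_lit 0) (nat_lit 3778288957) (nat_lit 152) (nat_lit 5430878962) (nat_lit 0) (nat_lit 3778288957) (nat_lit 155) (nat_lit 5) (nat_lit 157) (nat_lit 4) (nat_lit 155) (nat_lit 4) (nat_lit 416) (nat_lit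 302) (nat_lit 302))) (XT.nd (nat_lit 78) (nat_lit 152) (nat_lit 0) (XT.lf (nat_lit 0) (nat_lit 15298182224) (nat_lit 76) (nat_lit 5706474956) (nat_lit 76) (nat_lit 5610448347) (nat_lit 154) (nat_lit 4) (nat_lit 155) (nat_lit 5) (nat_lit 155) (nat_lit 4) (nat_lit 417) (nat_lit 302) (nat_lit 301)) (XT.lf (nat_lit 0) (nat_lit 7707818470) (nat_lit 152) (nat_lit 12038062069) (nat_lit 0) (nat_lit 7529265592) (nat_lit 152) (nat_lit 5) (nat_lit 154) (nat_lit 4) (nat_lit 152) (nat_lit 4) (nat_lit 418) (nat_lit 302) (nat_lit 300))))) (XT.nd (nat_lit 312) (nat_lit 456) (nat_lit 0) (XT.nd (nat_lit 156) (nat_lit 228) (nat_lit 0) (XT.nd (nat_lit 78) (nat_lit 152) (nat_lit 0) (XT.lf (nat_lit 0) (nat_lit 14976590610) (nat_lit 76) (nat_lit 6621876444) (nat_lit 76) (nat_lit 6360372171) (nat_lit 151) (nat_lit 4) (nat_lit 152) (nat_lit 5) (nat_lit 152) (nat_lit 4) (nat_lit 419) (nat_lit 302) (nat_lit 299)) (XT.lf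 (nat_lit 0) (nat_lit 7388293320) (nat_lit 152) (nat_lit 14212479625) (nat_lit 0) (nat_lit 7064002271) (nat_lit 149) (nat_lit 5) (nat_lit 151) (nat_lit 4) (nat_lit 149) (nat_lit 4) (nat_lit 420) (nat_lit 302) (nat_lit 298))) (XT.nd (nat_lit 78) (nat_lit 152) (nat_lit 0) (XT.lf (nat_lit 0) (nat_lit 13667739312) (nat_lit 76) (nat_lit 8061535603) (nat_lit 76) (nat_lit 7665588020) (nat_lit 148) (nat_lit 4) (nat_lit 149) (nat_lit 5) (nat_lit 149) (nat_lit 4) (nat_lit 421) (nat_lit 302) (nat_lit 297)) (XT.lf (nat_lit 0) (nat_lit 6528489604) (nat_lit 152) (nat_lit 17535655568) (nat_lit 0) (nat_lit 6086402079) (nat_lit 146) (nat_lit 5) (nat_lit 148) (nat_lit 4) (nat_lit 146) (nat_lit 4) (nat_lit 422) (nat_lit 302) (nat_lit 296)))) (XT.nd (nat_lit 156) (nat_lit 228) (nat_lit 0) (XT.nd (nat_lit 78) (nat_lit 152) (nat_lit 0) (XT.lf (nat_lit 0) (nat_lit 11218307406) (nat_lit 76) (nat_lit 10107916940) (nat_lit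 76) (nat_lit 9603929807) (nat_lit 145) (nat_lit 4) (nat_lit 146) (nat_lit 5) (nat_lit 146) (nat_lit 4) (nat_lit 423) (nat_lit 302) (nat_lit 295)) (XT.lf (nat_lit 0) (nat_lit 5050206837) (nat_lit 152) (nat_lit 22175526300) (nat_lit 0) (nat_lit 4514074322) (nat_lit 143) (nat_lit 5) (nat_lit 145) (nat_lit 4) (nat_lit 143) (nat_lit 4) (nat_lit 424) (nat_lit 302) (nat_lit 294))) (XT.nd (nat_lit 78) (nat_lit 152) (nat_lit 0) (XT.lf (nat_lit 0) (nat_lit 7457210775) (nat_lit 76) (nat_lit 12852350503) (nat_lit 76) (nat_lit 12262746779) (nat_lit 142) (nat_lit 4) (nat_lit 143) (nat_lit 5) (nat_lit 143) (nat_lit 4) (nat_lit 425) (nat_lit 302) (nat_lit 293)) (XT.lf (nat_lit 0) (nat_lit 2865660309) (nat_lit 152) (nat_lit 28319259739) (nat_lit 0) (nat_lit 2255632990) (nat_lit 140) (nat_lit 5) (nat_lit 142) (nat_lit 4) (nat_lit 140) (nat_lit 4) (nat_lit 426) (nat_lit 302) (nat_lit 292)))))) (XT.nd (nat_lit 624)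 (nat_lit 684) (nat_lit 0) (XT.nd (nat_lit 312) (nat_lit 456) (nat_lit 0) (XT.nd (nat_lit 156) (nat_lit 228) (nat_lit 0) (XT.nd (nat_lit 78) (nat_lit 0) (nat_lit 0) (XT.lf (nat_lit 0) (nat_lit 2193604948) (nat_lit 76) (nat_lit 16396102612) (nat_lit 76) (nat_lit 15739884853) (nat_lit 139) (nat_lit 4) (nat_lit 140) (nat_lit 5) (nat_lit 140) (nat_lit 4) (nat_lit 427) (nat_lit 302) (nat_lit 291)) (XT.lf (nat_lit 0) (nat_lit 34360892301) (nat_lit 76) (nat_lit 799684563) (nat_lit 76) (nat_lit 99475907) (nat_lit 139) (nat_lit 4) (nat_lit 140) (nat_lit 5) (nat_lit 140) (nat_lit 4) (nat_lit 428) (nat_lit 302) (nat_lit 290))) (XT.nd (nat_lit 78) (nat_lit 76) (nat_lit 0) (XT.lf (nat_lit 0) (nat_lit 16140941686) (nat_lit 152) (nat_lit 4632155615) (nat_lit 0) (nat_lit 15434175261) (nat_lit 137) (nat_lit 5) (nat_lit 139) (nat_lit 4) (nat_lit 137) (nat_lit 4) (nat_lit 429) (nat_lit 302) (nat_lit 289)) (XT.lf (nat_lit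 0) (nat_lit 28575583827) (nat_lit 76) (nat_lit 4683745394) (nat_lit 76) (nat_lit 3938977979) (nat_lit 136) (nat_lit 4) (nat_lit 137) (nat_lit 5) (nat_lit 137) (nat_lit 4) (nat_lit 430) (nat_lit 302) (nat_lit 288)))) (XT.nd (nat_lit 156) (nat_lit 228) (nat_lit 0) (XT.nd (nat_lit 78) (nat_lit 76) (nat_lit 0) (XT.lf (nat_lit 0) (nat_lit 12840848174) (nat_lit 152) (nat_lit 13277722395) (nat_lit 0) (nat_lit 12097077856) (nat_lit 134) (nat_lit 5) (nat_lit 136) (nat_lit 4) (nat_lit 134) (nat_lit 4) (nat_lit 431) (nat_lit 302) (nat_lit 287)) (XT.lf (nat_lit 0) (nat_lit 20897070549) (nat_lit 76) (nat_lit 9576422183) (nat_lit 76) (nat_lit 8799825181) (nat_lit 133) (nat_lit 4) (nat_lit 134) (nat_lit 5) (nat_lit 134) (nat_lit 4) (nat_lit 432) (nat_lit 302) (nat_lit 286))) (XT.nd (nat_lit 78) (nat_lit 76) (nat_lit 0) (XT.lf (nat_lit 0) (nat_lit 8533594065) (nat_lit 152) (nat_lit 24069103462) (nat_lit 0) (nat_lit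 7764203102) (nat_lit 131) (nat_lit 5) (nat_lit 133) (nat_lit 4) (nat_lit 131) (nat_lit 4) (nat_lit 433) (nat_lit 302) (nat_lit 285)) (XT.lf (nat_lit 0) (nat_lit 11064112156) (nat_lit 76) (nat_lit 15614769393) (nat_lit 76) (nat_lit 14817021507) (nat_lit 130) (nat_lit 4) (nat_lit 131) (nat_lit 5) (nat_lit 131) (nat_lit 4) (nat_lit 434) (nat_lit 302) (nat_lit 284))))) (XT.nd (nat_lit 312) (nat_lit 304) (nat_lit 0) (XT.nd (nat_lit 156) (nat_lit 228) (nat_lit 0) (XT.nd (nat_lit 78) (nat_lit 0) (nat_lit 0) (XT.lf (nat_lit 0) (nat_lit 3083377427) (nat_lit 152) (nat_lit 37291154136) (nat_lit 0) (nat_lit 2297896970) (nat_lit 128) (nat_lit 5) (nat_lit 130) (nat_lit 4) (nat_lit 128) (nat_lit 4) (nat_lit 435) (nat_lit 302) (nat_lit 283)) (XT.lf (nat_lit 0) (nat_lit 21755667047) (nat_lit 152) (nat_lit 1175536334) (nat_lit 0) (nat_lit 20945690812) (nat_lit 128) (nat_lit 5) (nat_lit 130) (nat_lit 4) (nat_lit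 128) (nat_lit 4) (nat_lit 436) (nat_lit 302) (nat_lit 282))) (XT.nd (nat_lit 78) (nat_lit 152) (nat_lit 0) (XT.lf (nat_lit 0) (nat_lit 37146486375) (nat_lit 76) (nat_lit 4409344656) (nat_lit 76) (nat_lit 3576039111) (nat_lit 127) (nat_lit 4) (nat_lit 128) (nat_lit 5) (nat_lit 128) (nat_lit 4) (nat_lit 437) (nat_lit 302) (nat_lit 281)) (XT.lf (nat_lit 0) (nat_lit 15745922735) (nat_lit 152) (nat_lit 15742209807) (nat_lit 0) (nat_lit 14931138033) (nat_lit 125) (nat_lit 5) (nat_lit 127) (nat_lit 4) (nat_lit 125) (nat_lit 4) (nat_lit 438) (nat_lit 302) (nat_lit 280)))) (XT.nd (nat_lit 156) (nat_lit 76) (nat_lit 0) (XT.nd (nat_lit 78) (nat_lit 152) (nat_lit 0) (XT.lf (nat_lit 0) (nat_lit 23620044541) (nat_lit 76) (nat_lit 12486678409) (nat_lit 76) (nat_lit 11651740971) (nat_lit 124) (nat_lit 4) (nat_lit 125) (nat_lit 5) (nat_lit 125) (nat_lit 4) (nat_lit 439) (nat_lit 302) (nat_lit 279)) (XT.lf (nat_lit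 0) (nat_lit 8309698814) (nat_lit 152) (nat_lit 33339427538) (nat_lit 0) (nat_lit 7496241175) (nat_lit 122) (nat_lit 5) (nat_lit 124) (nat_lit 4) (nat_lit 122) (nat_lit 4) (nat_lit 440) (nat_lit 302) (nat_lit 278))) (XT.nd (nat_lit 78) (nat_lit 0) (nat_lit 0) (XT.lf (nat_lit 0) (nat_lit 7038748254) (nat_lit 76) (nat_lit 22183477148) (nat_lit 76) (nat_lit 21352610818) (nat_lit 121) (nat_lit 4) (nat_lit 122) (nat_lit 5) (nat_lit 122) (nat_lit 4) (nat_lit 441) (nat_lit 302) (nat_lit 277)) (XT.lf (nat_lit 0) (nat_lit 49817525629) (nat_lit 76) (nat_lit 1548215312) (nat_lit 76) (nat_lit 700769277) (nat_lit 121) (nat_lit 4) (nat_lit 122) (nat_lit 5) (nat_lit 122) (nat_lit 4) (nat_lit 442) (nat_lit 302) (nat_lit 276))))))) (XT.nd (nat_lit 1248) (nat_lit 1216) (nat_lit 0) (XT.nd (nat_lit 624) (nat_lit 684) (nat_lit 0) (XT.nd (nat_lit 312) (nat_lit 380) (nat_lit 0) (XT.nd (nat_lit 156) (nat_lit 228) (nat_lit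 0) (XT.nd (nat_lit 78) (nat_lit 76) (nat_lit 0) (XT.lf (nat_lit 0) (nat_lit 20914555848) (nat_lit 152) (nat_lit 12579280282) (nat_lit 0) (nat_lit 20092426104) (nat_lit 119) (nat_lit 5) (nat_lit 121) (nat_lit 4) (nat_lit 119) (nat_lit 4) (nat_lit 443) (nat_lit 302) (nat_lit 275)) (XT.lf (nat_lit 0) (nat_lit 31544845062) (nat_lit 76) (nat_lit 12231778972) (nat_lit 76) (nat_lit 11395327054) (nat_lit 118) (nat_lit 4) (nat_lit 119) (nat_lit 5) (nat_lit 119) (nat_lit 4) (nat_lit 444) (nat_lit 302) (nat_lit 274))) (XT.nd (nat_lit 78) (nat_lit 76) (nat_lit 0) (XT.lf (nat_lit 0) (nat_lit 10939043960) (nat_lit 152) (nat_lit 35742680119) (nat_lit 0) (nat_lit 10129432452) (nat_lit 116) (nat_lit 5) (nat_lit 118) (nat_lit 4) (nat_lit 116) (nat_lit 4) (nat_lit 445) (nat_lit 302) (nat_lit 273)) (XT.lf (nat_lit 0) (nat_lit 9464755843) (nat_lit 76) (nat_lit 24930405127) (nat_lit 76) (nat_lit 24108421587) (nat_lit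 115) (nat_lit 4) (nat_lit 116) (nat_lit 5) (nat_lit 116) (nat_lit 4) (nat_lit 446) (nat_lit 302) (nat_lit 272)))) (XT.nd (nat_lit 156) (nat_lit 228) (nat_lit 0) (XT.nd (nat_lit 78) (nat_lit 152) (nat_lit 0) (XT.lf (nat_lit 0) (nat_lit 57434494530) (nat_lit 76) (nat_lit 1833844510) (nat_lit 76) (nat_lit 1000078083) (nat_lit 115) (nat_lit 4) (nat_lit 116) (nat_lit 5) (nat_lit 116) (nat_lit 4) (nat_lit 447) (nat_lit 302) (nat_lit 271)) (XT.lf (nat_lit 0) (nat_lit 23251026079) (nat_lit 152) (nat_lit 16369435055) (nat_lit 0) (nat_lit 22446275389) (nat_lit 113) (nat_lit 5) (nat_lit 115) (nat_lit 4) (nat_lit 113) (nat_lit 4) (nat_lit 448) (nat_lit 302) (nat_lit 270))) (XT.nd (nat_lit 78) (nat_lit 152) (nat_lit 0) (XT.lf (nat_lit 0) (nat_lit 33097611308) (nat_lit 76) (nat_lit 15829582092) (nat_lit 76) (nat_lit 15014652900) (nat_lit 112) (nat_lit 4) (nat_lit 113) (nat_lit 5) (nat_lit 113) (nat_lit 4) (nat_lit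 449) (nat_lit 302) (nat_lit 269)) (XT.lf (nat_lit 0) (nat_lit 10042540786) (nat_lit 152) (nat_lit 46583927600) (nat_lit 0) (nat_lit 9257185546) (nat_lit 110) (nat_lit 5) (nat_lit 112) (nat_lit 4) (nat_lit 110) (nat_lit 4) (nat_lit 450) (nat_lit 302) (nat_lit 268))))) (XT.nd (nat_lit 312) (nat_lit 380) (nat_lit 0) (XT.nd (nat_lit 156) (nat_lit 228) (nat_lit 0) (XT.nd (nat_lit 78) (nat_lit 0) (nat_lit 0) (XT.lf (nat_lit 0) (nat_lit 4024472905) (nat_lit 76) (nat_lit 32327364042) (nat_lit 76) (nat_lit 31533216229) (nat_lit 109) (nat_lit 4) (nat_lit 110) (nat_lit 5) (nat_lit 110) (nat_lit 4) (nat_lit 451) (nat_lit 302) (nat_lit 267)) (XT.lf (nat_lit 0) (nat_lit 58076698369) (nat_lit 76) (nat_lit 6345044234) (nat_lit 76) (nat_lit 5542522543) (nat_lit 109) (nat_lit 4) (nat_lit 110) (nat_lit 5) (nat_lit 110) (nat_lit 4) (nat_lit 452) (nat_lit 302) (nat_lit 266))) (XT.nd (nat_lit 78) (nat_lit 76) (nat_lit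 0) (XT.lf (nat_lit 0) (nat_lit 21728872284) (nat_lit 152) (nat_lit 29410756297) (nat_lit 0) (nat_lit 20956970558) (nat_lit 107) (nat_lit 5) (nat_lit 109) (nat_lit 4) (nat_lit 107) (nat_lit 4) (nat_lit 453) (nat_lit 302) (nat_lit 265)) (XT.lf (nat_lit 0) (nat_lit 26028656239) (nat_lit 76) (nat_lit 24531186203) (nat_lit 76) (nat_lit 23752050805) (nat_lit 106) (nat_lit 4) (nat_lit 107) (nat_lit 5) (nat_lit 107) (nat_lit 4) (nat_lit 454) (nat_lit 302) (nat_lit 264)))) (XT.nd (nat_lit 156) (nat_lit 228) (nat_lit 0) (XT.nd (nat_lit 78) (nat_lit 0) (nat_lit 0) (XT.lf (nat_lit 0) (nat_lit 4420201382) (nat_lit 152) (nat_lit 68524867855) (nat_lit 0) (nat_lit 3671606518) (nat_lit 104) (nat_lit 5) (nat_lit 106) (nat_lit 4) (nat_lit 104) (nat_lit 4) (nat_lit 455) (nat_lit 302) (nat_lit 263)) (XT.lf (nat_lit 0) (nat_lit 34103381367) (nat_lit 152) (nat_lit 11520282349) (nat_lit 0) (nat_lit 33348537786) (nat_lit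 104) (nat_lit 5) (nat_lit 106) (nat_lit 4) (nat_lit 104) (nat_lit 4) (nat_lit 456) (nat_lit 302) (nat_lit 262))) (XT.nd (nat_lit 78) (nat_lit 152) (nat_lit 0) (XT.lf (nat_lit 0) (nat_lit 49262254525) (nat_lit 76) (nat_lit 16460715631) (nat_lit 76) (nat_lit 15699920891) (nat_lit 103) (nat_lit 4) (nat_lit 104) (nat_lit 5) (nat_lit 104) (nat_lit 4) (nat_lit 457) (nat_lit 302) (nat_lit 261)) (XT.lf (nat_lit 0) (nat_lit 15023112876) (nat_lit 152) (nat_lit 54639527649) (nat_lit 0) (nat_lit 14293148581) (nat_lit 101) (nat_lit 5) (nat_lit 103) (nat_lit 4) (nat_lit 101) (nat_lit 4) (nat_lit 458) (nat_lit 302) (nat_lit 260)))))) (XT.nd (nat_lit 624) (nat_lit 532) (nat_lit 0) (XT.nd (nat_lit 312) (nat_lit 380) (nat_lit 0) (XT.nd (nat_lit 156) (nat_lit 228) (nat_lit 0) (XT.nd (nat_lit 78) (nat_lit 0) (nat_lit 0) (XT.lf (nat_lit 0) (nat_lit 7448697310) (nat_lit 76) (nat_lit 39928863482) (nat_lit 76) (nat_lit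 39193758352) (nat_lit 100) (nat_lit 4) (nat_lit 101) (nat_lit 5) (nat_lit 101) (nat_lit 4) (nat_lit 459) (nat_lit 302) (nat_lit 259)) (XT.lf (nat_lit 0) (nat_lit 73899757428) (nat_lit 76) (nat_lit 8063594197) (nat_lit 76) (nat_lit 7323593033) (nat_lit 100) (nat_lit 4) (nat_lit 101) (nat_lit 5) (nat_lit 101) (nat_lit 4) (nat_lit 460) (nat_lit 302) (nat_lit 258))) (XT.nd (nat_lit 78) (nat_lit 76) (nat_lit 0) (XT.lf (nat_lit 0) (nat_lit 26227935975) (nat_lit 152) (nat_lit 40325052297) (nat_lit 0) (nat_lit 25518732116) (nat_lit 98) (nat_lit 5) (nat_lit 100) (nat_lit 4) (nat_lit 98) (nat_lit 4) (nat_lit 461) (nat_lit 302) (nat_lit 257)) (XT.lf (nat_lit 0) (nat_lit 27803976769) (nat_lit 76) (nat_lit 33936358840) (nat_lit 76) (nat_lit 33222925604) (nat_lit 97) (nat_lit 4) (nat_lit 98) (nat_lit 5) (nat_lit 98) (nat_lit 4) (nat_lit 462) (nat_lit 302) (nat_lit 256)))) (XT.nd (nat_lit 156) (nat_lit 228) (nat_lit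 0) (XT.nd (nat_lit 78) (nat_lit 0) (nat_lit 0) (XT.lf (nat_lit 0) (nat_lit 1434892925) (nat_lit 152) (nat_lit 95790143843) (nat_lit 0) (nat_lit 751596530) (nat_lit 95) (nat_lit 5) (nat_lit 97) (nat_lit 4) (nat_lit 95) (nat_lit 4) (nat_lit 463) (nat_lit 302) (nat_lit 255)) (XT.lf (nat_lit 0) (nat_lit 38119733240) (nat_lit 152) (nat_lit 25490393541) (nat_lit 0) (nat_lit 37432783349) (nat_lit 95) (nat_lit 5) (nat_lit 97) (nat_lit 4) (nat_lit 95) (nat_lit 4) (nat_lit 464) (nat_lit 302) (nat_lit 254))) (XT.nd (nat_lit 78) (nat_lit 152) (nat_lit 0) (XT.lf (nat_lit 0) (nat_lit 49313993670) (nat_lit 76) (nat_lit 27807403726) (nat_lit 76) (nat_lit 27116974316) (nat_lit 94) (nat_lit 4) (nat_lit 95) (nat_lit 5) (nat_lit 95) (nat_lit 4) (nat_lit 465) (nat_lit 302) (nat_lit 253)) (XT.lf (nat_lit 0) (nat_lit 10788128143) (nat_lit 152) (nat_lit 86637677164) (nat_lit 0) (nat_lit 10127420297) (nat_lit 92) (nat_lit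 5) (nat_lit 94) (nat_lit 4) (nat_lit 92) (nat_lit 4) (nat_lit 466) (nat_lit 302) (nat_lit 252))))) (XT.nd (nat_lit 312) (nat_lit 228) (nat_lit 0) (XT.nd (nat_lit 156) (nat_lit 228) (nat_lit 0) (XT.nd (nat_lit 78) (nat_lit 76) (nat_lit 0) (XT.lf (nat_lit 0) (nat_lit 50791124378) (nat_lit 152) (nat_lit 10037362652) (nat_lit 0) (nat_lit 50127410792) (nat_lit 92) (nat_lit 5) (nat_lit 94) (nat_lit 4) (nat_lit 92) (nat_lit 4) (nat_lit 467) (nat_lit 302) (nat_lit 251)) (XT.lf (nat_lit 0) (nat_lit 72141250221) (nat_lit 76) (nat_lit 21505697871) (nat_lit 76) (nat_lit 20839121676) (nat_lit 91) (nat_lit 4) (nat_lit 92) (nat_lit 5) (nat_lit 92) (nat_lit 4) (nat_lit 468) (nat_lit 302) (nat_lit 250))) (XT.nd (nat_lit 78) (nat_lit 76) (nat_lit 0) (XT.lf (nat_lit 0) (nat_lit 20660768737) (nat_lit 152) (nat_lit 77449548803) (nat_lit 0) (nat_lit 20023337795) (nat_lit 89) (nat_lit 5) (nat_lit 91) (nat_lit 4) (nat_lit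 89) (nat_lit 4) (nat_lit 469) (nat_lit 302) (nat_lit 249)) (XT.lf (nat_lit 0) (nat_lit 6343219800) (nat_lit 76) (nat_lit 58098940507) (nat_lit 76) (nat_lit 57459036736) (nat_lit 88) (nat_lit 4) (nat_lit 89) (nat_lit 5) (nat_lit 89) (nat_lit 4) (nat_lit 470) (nat_lit 302) (nat_lit 248)))) (XT.nd (nat_lit 156) (nat_lit 76) (nat_lit 0) (XT.nd (nat_lit 78) (nat_lit 152) (nat_lit 0) (XT.lf (nat_lit 0) (nat_lit 96462842848) (nat_lit 76) (nat_lit 14992205253) (nat_lit 76) (nat_lit 14349946405) (nat_lit 88) (nat_lit 4) (nat_lit 89) (nat_lit 5) (nat_lit 89) (nat_lit 4) (nat_lit 471) (nat_lit 302) (nat_lit 247)) (XT.lf (nat_lit 0) (nat_lit 31127134687) (nat_lit 152) (nat_lit 68179290683) (nat_lit 0) (nat_lit 30513323472) (nat_lit 86) (nat_lit 5) (nat_lit 88) (nat_lit 4) (nat_lit 86) (nat_lit 4) (nat_lit 472) (nat_lit 302) (nat_lit 246))) (XT.nd (nat_lit 78) (nat_lit 0) (nat_lit 0) (XT.lf (nat_lit 0) (nat_lit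 23923005686) (nat_lit 76) (nat_lit 55336565449) (nat_lit 76) (nat_lit 54720719830) (nat_lit 85) (nat_lit 4) (nat_lit 86) (nat_lit 5) (nat_lit 86) (nat_lit 4) (nat_lit 473) (nat_lit 302) (nat_lit 245)) (XT.lf (nat_lit 0) (nat_lit 122472049258) (nat_lit 76) (nat_lit 8224840531) (nat_lit 76) (nat_lit 7607057386) (nat_lit 85) (nat_lit 4) (nat_lit 86) (nat_lit 5) (nat_lit 86) (nat_lit 4) (nat_lit 474) (nat_lit 302) (nat_lit 244))))))))
noncomputable def xc35 : XT := (XT.nd (nat_lit 49140) (nat_lit 0) (nat_lit 3420) (XT.nd (nat_lit 1248) (nat_lit 532) (nat_lit 0) (XT.nd (nat_lit 624) (nat_lit 608) (nat_lit 0) (XT.nd (nat_lit 312) (nat_lit 304) (nat_lit 0) (XT.nd (nat_lit 156) (nat_lit 152) (nat_lit 0) (XT.nd (nat_lit 78) (nat_lit 76) (nat_lit 0) (XT.lf (nat_lit 0) (nat_lit 42268131230) (nat_lit 152) (nat_lit 58777681761) (nat_lit 0) (nat_lit 41678008936) (nat_lit 83) (nat_lit 5) (nat_lit 85) (nat_lit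 4) (nat_lit 83) (nat_lit 4) (nat_lit 475) (nat_lit 302) (nat_lit 243)) (XT.lf (nat_lit 0) (nat_lit 42499155722) (nat_lit 76) (nat_lit 52704980113) (nat_lit 76) (nat_lit 52113184111) (nat_lit 82) (nat_lit 4) (nat_lit 83) (nat_lit 5) (nat_lit 83) (nat_lit 4) (nat_lit 476) (nat_lit 302) (nat_lit 242))) (XT.nd (nat_lit 78) (nat_lit 152) (nat_lit 0) (XT.lf (nat_lit 0) (nat_lit 150380075090) (nat_lit 76) (nat_lit 1158122470) (nat_lit 76) (nat_lit 564732461) (nat_lit 82) (nat_lit 4) (nat_lit 83) (nat_lit 5) (nat_lit 83) (nat_lit 4) (nat_lit 477) (nat_lit 302) (nat_lit 241)) (XT.lf (nat_lit 0) (nat_lit 54171978096) (nat_lit 152) (nat_lit 49192375218) (nat_lit 0) (nat_lit 53605398941) (nat_lit 80) (nat_lit 5) (nat_lit 82) (nat_lit 4) (nat_lit 80) (nat_lit 4) (nat_lit 478) (nat_lit 302) (nat_lit 240)))) (XT.nd (nat_lit 156) (nat_lit 76) (nat_lit 0) (XT.nd (nat_lit 78) (nat_lit 152) (nat_lit 0) (XT.lf (nat_lit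 0) (nat_lit 62212049657) (nat_lit 76) (nat_lit 50198089736) (nat_lit 76) (nat_lit 49630133617) (nat_lit 79) (nat_lit 4) (nat_lit 80) (nat_lit 5) (nat_lit 80) (nat_lit 4) (nat_lit 479) (nat_lit 302) (nat_lit 239)) (XT.lf (nat_lit 0) (nat_lit 6920165375) (nat_lit 152) (nat_lit 154015182651) (nat_lit 0) (nat_lit 6378005839) (nat_lit 77) (nat_lit 5) (nat_lit 79) (nat_lit 4) (nat_lit 77) (nat_lit 4) (nat_lit 480) (nat_lit 302) (nat_lit 238))) (XT.nd (nat_lit 78) (nat_lit 76) (nat_lit 0) (XT.lf (nat_lit 0) (nat_lit 66935010021) (nat_lit 152) (nat_lit 39367490860) (nat_lit 0) (nat_lit 66391661012) (nat_lit 77) (nat_lit 5) (nat_lit 79) (nat_lit 4) (nat_lit 77) (nat_lit 4) (nat_lit 481) (nat_lit 302) (nat_lit 237)) (XT.lf (nat_lit 0) (nat_lit 83214653726) (nat_lit 76) (nat_lit 47810066145) (nat_lit 76) (nat_lit 47265584304) (nat_lit 76) (nat_lit 4) (nat_lit 77) (nat_lit 5) (nat_lit 77) (nat_lit 4) (nat_lit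 482) (nat_lit 302) (nat_lit 236))))) (XT.nd (nat_lit 312) (nat_lit 228) (nat_lit 0) (XT.nd (nat_lit 156) (nat_lit 228) (nat_lit 0) (XT.nd (nat_lit 78) (nat_lit 0) (nat_lit 0) (XT.lf (nat_lit 0) (nat_lit 14842386505) (nat_lit 152) (nat_lit 154932879149) (nat_lit 0) (nat_lit 14322804859) (nat_lit 74) (nat_lit 5) (nat_lit 76) (nat_lit 4) (nat_lit 74) (nat_lit 4) (nat_lit 483) (nat_lit 302) (nat_lit 235)) (XT.lf (nat_lit 0) (nat_lit 80662556143) (nat_lit 152) (nat_lit 29243169136) (nat_lit 0) (nat_lit 80141995915) (nat_lit 74) (nat_lit 5) (nat_lit 76) (nat_lit 4) (nat_lit 74) (nat_lit 4) (nat_lit 484) (nat_lit 302) (nat_lit 234))) (XT.nd (nat_lit 78) (nat_lit 152) (nat_lit 0) (XT.lf (nat_lit 0) (nat_lit 105673893209) (nat_lit 76) (nat_lit 45535339251) (nat_lit 76) (nat_lit 45013847039) (nat_lit 73) (nat_lit 4) (nat_lit 74) (nat_lit 5) (nat_lit 74) (nat_lit 4) (nat_lit 485) (nat_lit 302) (nat_lit 233))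 (XT.lf (nat_lit 0) (nat_lit 23232866516) (nat_lit 152) (nat_lit 156652383320) (nat_lit 0) (nat_lit 22735361930) (nat_lit 71) (nat_lit 5) (nat_lit 73) (nat_lit 4) (nat_lit 71) (nat_lit 4) (nat_lit 486) (nat_lit 302) (nat_lit 232)))) (XT.nd (nat_lit 156) (nat_lit 152) (nat_lit 0) (XT.nd (nat_lit 78) (nat_lit 76) (nat_lit 0) (XT.lf (nat_lit 0) (nat_lit 95469906660) (nat_lit 152) (nat_lit 18755082834) (nat_lit 0) (nat_lit 94971596992) (nat_lit 71) (nat_lit 5) (nat_lit 73) (nat_lit 4) (nat_lit 71) (nat_lit 4) (nat_lit 487) (nat_lit 302) (nat_lit 231)) (XT.lf (nat_lit 0) (nat_lit 129772162348) (nat_lit 76) (nat_lit 43368588210) (nat_lit 76) (nat_lit 42869511796) (nat_lit 70) (nat_lit 4) (nat_lit 71) (nat_lit 5) (nat_lit 71) (nat_lit 4) (nat_lit 488) (nat_lit 302) (nat_lit 230))) (XT.nd (nat_lit 78) (nat_lit 0) (nat_lit 0) (XT.lf (nat_lit 0) (nat_lit 32156024572) (nat_lit 152) (nat_lit 159222231051) (nat_lit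 0) (nat_lit 31680018241) (nat_lit 68) (nat_lit 5) (nat_lit 70) (nat_lit 4) (nat_lit 68) (nat_lit 4) (nat_lit 489) (nat_lit 302) (nat_lit 229)) (XT.lf (nat_lit 0) (nat_lit 111483375941) (nat_lit 152) (nat_lit 7833902054) (nat_lit 0) (nat_lit 111006707267) (nat_lit 68) (nat_lit 5) (nat_lit 70) (nat_lit 4) (nat_lit 68) (nat_lit 4) (nat_lit 490) (nat_lit 302) (nat_lit 228)))))) (XT.nd (nat_lit 47268) (nat_lit 0) (nat_lit 6384) (XT.nd (nat_lit 312) (nat_lit 228) (nat_lit 0) (XT.nd (nat_lit 156) (nat_lit 76) (nat_lit 0) (XT.nd (nat_lit 78) (nat_lit 152) (nat_lit 0) (XT.lf (nat_lit 0) (nat_lit 155708985764) (nat_lit 76) (nat_lit 41304732389) (nat_lit 76) (nat_lit 40827432912) (nat_lit 67) (nat_lit 4) (nat_lit 68) (nat_lit 5) (nat_lit 68) (nat_lit 4) (nat_lit 491) (nat_lit 302) (nat_lit 227)) (XT.lf (nat_lit 0) (nat_lit 41682091427) (nat_lit 152) (nat_lit 162697526169) (nat_lit 0) (nat_lit 41226948340)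 (nat_lit 65) (nat_lit 5) (nat_lit 67) (nat_lit 4) (nat_lit 65) (nat_lit 4) (nat_lit 492) (nat_lit 302) (nat_lit 226))) (XT.nd (nat_lit 78) (nat_lit 0) (nat_lit 0) (XT.lf (nat_lit 0) (nat_lit 3714169015) (nat_lit 76) (nat_lit 125185291756) (nat_lit 76) (nat_lit 124729603758) (nat_lit 64) (nat_lit 4) (nat_lit 65) (nat_lit 5) (nat_lit 65) (nat_lit 4) (nat_lit 493) (nat_lit 302) (nat_lit 225)) (XT.lf (nat_lit 0) (nat_lit 183702846957) (nat_lit 76) (nat_lit 39338922262) (nat_lit 76) (nat_lit 38882715300) (nat_lit 64) (nat_lit 4) (nat_lit 65) (nat_lit 5) (nat_lit 65) (nat_lit 4) (nat_lit 494) (nat_lit 302) (nat_lit 224)))) (XT.nd (nat_lit 46800) (nat_lit 0) (nat_lit 7296) (XT.nd (nat_lit 78) (nat_lit 76) (nat_lit 0) (XT.lf (nat_lit 0) (nat_lit 51887744460) (nat_lit 152) (nat_lit 167140539453) (nat_lit 0) (nat_lit 51452790924) (nat_lit 62) (nat_lit 5) (nat_lit 64) (nat_lit 4) (nat_lit 62) (nat_lit 4)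 (nat_lit 495) (nat_lit 302) (nat_lit 223)) (XT.lf (nat_lit 0) (nat_lit 16129910510) (nat_lit 76) (nat_lit 131818107339) (nat_lit 76) (nat_lit 131382705503) (nat_lit 61) (nat_lit 4) (nat_lit 62) (nat_lit 5) (nat_lit 62) (nat_lit 4) (nat_lit 496) (nat_lit 302) (nat_lit 222))) (XT.nd (nat_lit 78) (nat_lit 76) (nat_lit 0) (XT.lf (nat_lit 0) (nat_lit 3650478645) (nat_lit 152) (nat_lit 5073011945) (nat_lit 0) (nat_lit 3650478645) (nat_lit 158) (nat_lit 5) (nat_lit 160) (nat_lit 4) (nat_lit 158) (nat_lit 4) (nat_lit 414) (nat_lit 303) (nat_lit 303)) (XT.lf (nat_lit 0) (nat_lit 14769885731) (nat_lit 76) (nat_lit 5346617967) (nat_lit 76) (nat_lit 5240748631) (nat_lit 157) (nat_lit 4) (nat_lit 158) (nat_lit 5) (nat_lit 158) (nat_lit 4) (nat_lit 415) (nat_lit 303) (nat_lit 302))))) (XT.nd (nat_lit 312) (nat_lit 456) (nat_lit 0) (XT.nd (nat_lit 156) (nat_lit 228) (nat_lit 0) (XT.nd (nat_lit 78) (nat_lit 76)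 (nat_lit 0) (XT.lf (nat_lit 0) (nat_lit 7448821486) (nat_lit 152) (nat_lit 11284554548) (nat_lit 0) (nat_lit 7251966938) (nat_lit 155) (nat_lit 5) (nat_lit 157) (nat_lit 4) (nat_lit 155) (nat_lit 4) (nat_lit 416) (nat_lit 303) (nat_lit 301)) (XT.lf (nat_lit 0) (nat_lit 14445428711) (nat_lit 76) (nat_lit 6239506389) (nat_lit 76) (nat_lit 5951197928) (nat_lit 154) (nat_lit 4) (nat_lit 155) (nat_lit 5) (nat_lit 155) (nat_lit 4) (nat_lit 417) (nat_lit 303) (nat_lit 300))) (XT.nd (nat_lit 78) (nat_lit 76) (nat_lit 0) (XT.lf (nat_lit 0) (nat_lit 7146958590) (nat_lit 152) (nat_lit 13371604157) (nat_lit 0) (nat_lit 6789427709) (nat_lit 152) (nat_lit 5) (nat_lit 154) (nat_lit 4) (nat_lit 152) (nat_lit 4) (nat_lit 418) (nat_lit 303) (nat_lit 299)) (XT.lf (nat_lit 0) (nat_lit 13182767384) (nat_lit 76) (nat_lit 7628385544) (nat_lit 76) (nat_lit 7191853334) (nat_lit 151) (nat_lit 4) (nat_lit 152) (nat_lit 5)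 (nat_lit 152) (nat_lit 4) (nat_lit 419) (nat_lit 303) (nat_lit 298)))) (XT.nd (nat_lit 156) (nat_lit 228) (nat_lit 0) (XT.nd (nat_lit 78) (nat_lit 76) (nat_lit 0) (XT.lf (nat_lit 0) (nat_lit 6329394473) (nat_lit 152) (nat_lit 16550905404) (nat_lit 0) (nat_lit 5841992977) (nat_lit 149) (nat_lit 5) (nat_lit 151) (nat_lit 4) (nat_lit 149) (nat_lit 4) (nat_lit 420) (nat_lit 303) (nat_lit 297)) (XT.lf (nat_lit 0) (nat_lit 10835624227) (nat_lit 76) (nat_lit 9592263293) (nat_lit 76) (nat_lit 9036617479) (nat_lit 148) (nat_lit 4) (nat_lit 149) (nat_lit 5) (nat_lit 149) (nat_lit 4) (nat_lit 421) (nat_lit 303) (nat_lit 296))) (XT.nd (nat_lit 78) (nat_lit 76) (nat_lit 0) (XT.lf (nat_lit 0) (nat_lit 4921848002) (nat_lit 152) (nat_lit 20982624373) (nat_lit 0) (nat_lit 4330761905) (nat_lit 146) (nat_lit 5) (nat_lit 148) (nat_lit 4) (nat_lit 146) (nat_lit 4) (nat_lit 422) (nat_lit 303) (nat_lit 295)) (XT.lf (nat_lit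 0) (nat_lit 7240838486) (nat_lit 76) (nat_lit 12218525860) (nat_lit 76) (nat_lit 11568487755) (nat_lit 145) (nat_lit 4) (nat_lit 146) (nat_lit 5) (nat_lit 146) (nat_lit 4) (nat_lit 423) (nat_lit 303) (nat_lit 294))))))) (XT.nd (nat_lit 1248) (nat_lit 1368) (nat_lit 0) (XT.nd (nat_lit 624) (nat_lit 760) (nat_lit 0) (XT.nd (nat_lit 312) (nat_lit 456) (nat_lit 0) (XT.nd (nat_lit 156) (nat_lit 152) (nat_lit 0) (XT.nd (nat_lit 78) (nat_lit 76) (nat_lit 0) (XT.lf (nat_lit 0) (nat_lit 2840881740) (nat_lit 152) (nat_lit 26845212923) (nat_lit 0) (nat_lit 2168326621) (nat_lit 143) (nat_lit 5) (nat_lit 145) (nat_lit 4) (nat_lit 143) (nat_lit 4) (nat_lit 424) (nat_lit 303) (nat_lit 293)) (XT.lf (nat_lit 0) (nat_lit 2216459522) (nat_lit 76) (nat_lit 15603966474) (nat_lit 76) (nat_lit 14880486394) (nat_lit 142) (nat_lit 4) (nat_lit 143) (nat_lit 5) (nat_lit 143) (nat_lit 4) (nat_lit 425) (nat_lit 303) (nat_lit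 292))) (XT.nd (nat_lit 78) (nat_lit 76) (nat_lit 0) (XT.lf (nat_lit 0) (nat_lit 16821763) (nat_lit 152) (nat_lit 737495427) (nat_lit 76) (nat_lit 32832627843) (nat_lit 141) (nat_lit 5) (nat_lit 143) (nat_lit 5) (nat_lit 142) (nat_lit 4) (nat_lit 426) (nat_lit 303) (nat_lit 291)) (XT.lf (nat_lit 0) (nat_lit 15484879903) (nat_lit 152) (nat_lit 4298234040) (nat_lit 0) (nat_lit 14705669919) (nat_lit 140) (nat_lit 5) (nat_lit 142) (nat_lit 4) (nat_lit 140) (nat_lit 4) (nat_lit 427) (nat_lit 303) (nat_lit 290)))) (XT.nd (nat_lit 156) (nat_lit 228) (nat_lit 0) (XT.nd (nat_lit 78) (nat_lit 152) (nat_lit 0) (XT.lf (nat_lit 0) (nat_lit 27329999871) (nat_lit 76) (nat_lit 4461774581) (nat_lit 76) (nat_lit 3640668506) (nat_lit 139) (nat_lit 4) (nat_lit 140) (nat_lit 5) (nat_lit 140) (nat_lit 4) (nat_lit 428) (nat_lit 303) (nat_lit 289)) (XT.lf (nat_lit 0) (nat_lit 12340051776) (nat_lit 152) (nat_lit 12540982250)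 (nat_lit 0) (nat_lit 11520045000) (nat_lit 137) (nat_lit 5) (nat_lit 139) (nat_lit 4) (nat_lit 137) (nat_lit 4) (nat_lit 429) (nat_lit 303) (nat_lit 288))) (XT.nd (nat_lit 78) (nat_lit 152) (nat_lit 0) (XT.lf (nat_lit 0) (nat_lit 20008224643) (nat_lit 76) (nat_lit 9128096560) (nat_lit 76) (nat_lit 8271898365) (nat_lit 136) (nat_lit 4) (nat_lit 137) (nat_lit 5) (nat_lit 137) (nat_lit 4) (nat_lit 430) (nat_lit 303) (nat_lit 287)) (XT.lf (nat_lit 0) (nat_lit 8235639148) (nat_lit 152) (nat_lit 22826466943) (nat_lit 0) (nat_lit 7387385612) (nat_lit 134) (nat_lit 5) (nat_lit 136) (nat_lit 4) (nat_lit 134) (nat_lit 4) (nat_lit 431) (nat_lit 303) (nat_lit 286))))) (XT.nd (nat_lit 312) (nat_lit 456) (nat_lit 0) (XT.nd (nat_lit 156) (nat_lit 76) (nat_lit 0) (XT.nd (nat_lit 78) (nat_lit 152) (nat_lit 0) (XT.lf (nat_lit 0) (nat_lit 10635486903) (nat_lit 76) (nat_lit 14884307889) (nat_lit 76) (nat_lit 14004790844)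 (nat_lit 133) (nat_lit 4) (nat_lit 134) (nat_lit 5) (nat_lit 134) (nat_lit 4) (nat_lit 432) (nat_lit 303) (nat_lit 285)) (XT.lf (nat_lit 0) (nat_lit 3042389609) (nat_lit 152) (nat_lit 35426086055) (nat_lit 0) (nat_lit 2176397405) (nat_lit 131) (nat_lit 5) (nat_lit 133) (nat_lit 4) (nat_lit 131) (nat_lit 4) (nat_lit 433) (nat_lit 303) (nat_lit 284))) (XT.nd (nat_lit 78) (nat_lit 76) (nat_lit 0) (XT.lf (nat_lit 0) (nat_lit 20826728246) (nat_lit 152) (nat_lit 1031465243) (nat_lit 0) (nat_lit 19933729448) (nat_lit 131) (nat_lit 5) (nat_lit 133) (nat_lit 4) (nat_lit 131) (nat_lit 4) (nat_lit 434) (nat_lit 303) (nat_lit 283)) (XT.lf (nat_lit 0) (nat_lit 35467425779) (nat_lit 76) (nat_lit 4219152091) (nat_lit 76) (nat_lit 3300432727) (nat_lit 130) (nat_lit 4) (nat_lit 131) (nat_lit 5) (nat_lit 131) (nat_lit 4) (nat_lit 435) (nat_lit 303) (nat_lit 282)))) (XT.nd (nat_lit 156) (nat_lit 228) (nat_lit 0)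 (XT.nd (nat_lit 78) (nat_lit 76) (nat_lit 0) (XT.lf (nat_lit 0) (nat_lit 15100199913) (nat_lit 152) (nat_lit 14910817587) (nat_lit 0) (nat_lit 14201899779) (nat_lit 128) (nat_lit 5) (nat_lit 130) (nat_lit 4) (nat_lit 128) (nat_lit 4) (nat_lit 436) (nat_lit 303) (nat_lit 281)) (XT.lf (nat_lit 0) (nat_lit 22578722456) (nat_lit 76) (nat_lit 11915010424) (nat_lit 76) (nat_lit 10994491899) (nat_lit 127) (nat_lit 4) (nat_lit 128) (nat_lit 5) (nat_lit 128) (nat_lit 4) (nat_lit 437) (nat_lit 303) (nat_lit 280))) (XT.nd (nat_lit 78) (nat_lit 76) (nat_lit 0) (XT.lf (nat_lit 0) (nat_lit 8014969916) (nat_lit 152) (nat_lit 31675810411) (nat_lit 0) (nat_lit 7118132870) (nat_lit 125) (nat_lit 5) (nat_lit 127) (nat_lit 4) (nat_lit 125) (nat_lit 4) (nat_lit 438) (nat_lit 303) (nat_lit 279)) (XT.lf (nat_lit 0) (nat_lit 6781223670) (nat_lit 76) (nat_lit 21152507475) (nat_lit 76) (nat_lit 20236477346) (nat_lit 124)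 (nat_lit 4) (nat_lit 125) (nat_lit 5) (nat_lit 125) (nat_lit 4) (nat_lit 439) (nat_lit 303) (nat_lit 278)))))) (XT.nd (nat_lit 624) (nat_lit 684) (nat_lit 0) (XT.nd (nat_lit 312) (nat_lit 304) (nat_lit 0) (XT.nd (nat_lit 156) (nat_lit 228) (nat_lit 0) (XT.nd (nat_lit 78) (nat_lit 152) (nat_lit 0) (XT.lf (nat_lit 0) (nat_lit 47522073384) (nat_lit 76) (nat_lit 1501523060) (nat_lit 76) (nat_lit 567213806) (nat_lit 124) (nat_lit 4) (nat_lit 125) (nat_lit 5) (nat_lit 125) (nat_lit 4) (nat_lit 440) (nat_lit 303) (nat_lit 277)) (XT.lf (nat_lit 0) (nat_lit 20017120919) (nat_lit 152) (nat_lit 11910195251) (nat_lit 0) (nat_lit 19110722875) (nat_lit 122) (nat_lit 5) (nat_lit 124) (nat_lit 4) (nat_lit 122) (nat_lit 4) (nat_lit 441) (nat_lit 303) (nat_lit 276))) (XT.nd (nat_lit 78) (nat_lit 152) (nat_lit 0) (XT.lf (nat_lit 0) (nat_lit 30114369917) (nat_lit 76) (nat_lit 11677973021) (nat_lit 76) (nat_lit 10755784781)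 (nat_lit 121) (nat_lit 4) (nat_lit 122) (nat_lit 5) (nat_lit 122) (nat_lit 4) (nat_lit 442) (nat_lit 303) (nat_lit 275)) (XT.lf (nat_lit 0) (nat_lit 10513253857) (nat_lit 152) (nat_lit 33975223546) (nat_lit 0) (nat_lit 9620657169) (nat_lit 119) (nat_lit 5) (nat_lit 121) (nat_lit 4) (nat_lit 119) (nat_lit 4) (nat_lit 443) (nat_lit 303) (nat_lit 274)))) (XT.nd (nat_lit 156) (nat_lit 228) (nat_lit 0) (XT.nd (nat_lit 78) (nat_lit 0) (nat_lit 0) (XT.lf (nat_lit 0) (nat_lit 9081011512) (nat_lit 76) (nat_lit 23773055753) (nat_lit 76) (nat_lit 22866818900) (nat_lit 118) (nat_lit 4) (nat_lit 119) (nat_lit 5) (nat_lit 119) (nat_lit 4) (nat_lit 444) (nat_lit 303) (nat_lit 273)) (XT.lf (nat_lit 0) (nat_lit 54765877806) (nat_lit 76) (nat_lit 1777501070) (nat_lit 76) (nat_lit 858273584) (nat_lit 118) (nat_lit 4) (nat_lit 119) (nat_lit 5) (nat_lit 119) (nat_lit 4) (nat_lit 445) (nat_lit 303) (nat_lit 272))) (XT.nd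 (nat_lit 78) (nat_lit 76) (nat_lit 0) (XT.lf (nat_lit 0) (nat_lit 22236080049) (nat_lit 152) (nat_lit 15529287702) (nat_lit 0) (nat_lit 21348842412) (nat_lit 116) (nat_lit 5) (nat_lit 118) (nat_lit 4) (nat_lit 116) (nat_lit 4) (nat_lit 446) (nat_lit 303) (nat_lit 271)) (XT.lf (nat_lit 0) (nat_lit 31583672858) (nat_lit 76) (nat_lit 15107371009) (nat_lit 76) (nat_lit 14208911575) (nat_lit 115) (nat_lit 4) (nat_lit 116) (nat_lit 5) (nat_lit 116) (nat_lit 4) (nat_lit 447) (nat_lit 303) (nat_lit 270))))) (XT.nd (nat_lit 312) (nat_lit 304) (nat_lit 0) (XT.nd (nat_lit 156) (nat_lit 152) (nat_lit 0) (XT.nd (nat_lit 78) (nat_lit 76) (nat_lit 0) (XT.lf (nat_lit 0) (nat_lit 9653109120) (nat_lit 152) (nat_lit 44308814531) (nat_lit 0) (nat_lit 8787254968) (nat_lit 113) (nat_lit 5) (nat_lit 115) (nat_lit 4) (nat_lit 113) (nat_lit 4) (nat_lit 448) (nat_lit 303) (nat_lit 269)) (XT.lf (nat_lit 0) (nat_lit 3891094149)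 (nat_lit 76) (nat_lit 30819829915) (nat_lit 76) (nat_lit 29944281951) (nat_lit 112) (nat_lit 4) (nat_lit 113) (nat_lit 5) (nat_lit 113) (nat_lit 4) (nat_lit 449) (nat_lit 303) (nat_lit 268))) (XT.nd (nat_lit 78) (nat_lit 152) (nat_lit 0) (XT.lf (nat_lit 0) (nat_lit 55368978330) (nat_lit 76) (nat_lit 6075594725) (nat_lit 76) (nat_lit 5190814561) (nat_lit 112) (nat_lit 4) (nat_lit 113) (nat_lit 5) (nat_lit 113) (nat_lit 4) (nat_lit 450) (nat_lit 303) (nat_lit 267)) (XT.lf (nat_lit 0) (nat_lit 20779899332) (nat_lit 152) (nat_lit 27957298045) (nat_lit 0) (nat_lit 19928877678) (nat_lit 110) (nat_lit 5) (nat_lit 112) (nat_lit 4) (nat_lit 110) (nat_lit 4) (nat_lit 451) (nat_lit 303) (nat_lit 266)))) (XT.nd (nat_lit 156) (nat_lit 76) (nat_lit 0) (XT.nd (nat_lit 78) (nat_lit 152) (nat_lit 0) (XT.lf (nat_lit 0) (nat_lit 24843525293) (nat_lit 76) (nat_lit 23395645118) (nat_lit 76) (nat_lit 22536648342) (nat_lit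 109) (nat_lit 4) (nat_lit 110) (nat_lit 5) (nat_lit 110) (nat_lit 4) (nat_lit 452) (nat_lit 303) (nat_lit 265)) (XT.lf (nat_lit 0) (nat_lit 4292030241) (nat_lit 152) (nat_lit 65212016120) (nat_lit 0) (nat_lit 3466704403) (nat_lit 107) (nat_lit 5) (nat_lit 109) (nat_lit 4) (nat_lit 107) (nat_lit 4) (nat_lit 453) (nat_lit 303) (nat_lit 264))) (XT.nd (nat_lit 78) (nat_lit 76) (nat_lit 0) (XT.lf (nat_lit 0) (nat_lit 32562033022) (nat_lit 152) (nat_lit 10922242244) (nat_lit 0) (nat_lit 31729817974) (nat_lit 107) (nat_lit 5) (nat_lit 109) (nat_lit 4) (nat_lit 107) (nat_lit 4) (nat_lit 454) (nat_lit 303) (nat_lit 263)) (XT.lf (nat_lit 0) (nat_lit 46967220728) (nat_lit 76) (nat_lit 15709792231) (nat_lit 76) (nat_lit 14871016031) (nat_lit 106) (nat_lit 4) (nat_lit 107) (nat_lit 5) (nat_lit 107) (nat_lit 4) (nat_lit 455) (nat_lit 303) (nat_lit 262))))))))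
noncomputable def xc36 : XT := (XT.nd (nat_lit 1248) (nat_lit 1292) (nat_lit 0) (XT.nd (nat_lit 624) (nat_lit 684) (nat_lit 0) (XT.nd (nat_lit 312) (nat_lit 304) (nat_lit 0) (XT.nd (nat_lit 156) (nat_lit 152) (nat_lit 0) (XT.nd (nat_lit 78) (nat_lit 76) (nat_lit 0) (XT.lf (nat_lit 0) (nat_lit 14386958999) (nat_lit 152) (nat_lit 51991089804) (nat_lit 0) (nat_lit 13582173363) (nat_lit 104) (nat_lit 5) (nat_lit 106) (nat_lit 4) (nat_lit 104) (nat_lit 4) (nat_lit 456) (nat_lit 303) (nat_lit 261)) (XT.lf (nat_lit 0) (nat_lit 7141830957) (nat_lit 76) (nat_lit 38059887806) (nat_lit 76) (nat_lit 37249434399) (nat_lit 103) (nat_lit 4) (nat_lit 104) (nat_lit 5) (nat_lit 104) (nat_lit 4) (nat_lit 457) (nat_lit 303) (nat_lit 260))) (XT.nd (nat_lit 78) (nat_lit 152) (nat_lit 0) (XT.lf (nat_lit 0) (nat_lit 70428305931) (nat_lit 76) (nat_lit 7712498336) (nat_lit 76) (nat_lit 6896647053) (nat_lit 103) (nat_lit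 4) (nat_lit 104) (nat_lit 5) (nat_lit 104) (nat_lit 4) (nat_lit 458) (nat_lit 303) (nat_lit 259)) (XT.lf (nat_lit 0) (nat_lit 25055135179) (nat_lit 152) (nat_lit 38361162127) (nat_lit 0) (nat_lit 24273237924) (nat_lit 101) (nat_lit 5) (nat_lit 103) (nat_lit 4) (nat_lit 101) (nat_lit 4) (nat_lit 459) (nat_lit 303) (nat_lit 258)))) (XT.nd (nat_lit 156) (nat_lit 76) (nat_lit 0) (XT.nd (nat_lit 78) (nat_lit 152) (nat_lit 0) (XT.lf (nat_lit 0) (nat_lit 26524855662) (nat_lit 76) (nat_lit 32352521337) (nat_lit 76) (nat_lit 31565961193) (nat_lit 100) (nat_lit 4) (nat_lit 101) (nat_lit 5) (nat_lit 101) (nat_lit 4) (nat_lit 460) (nat_lit 303) (nat_lit 257)) (XT.lf (nat_lit 0) (nat_lit 1439474174) (nat_lit 152) (nat_lit 91187524457) (nat_lit 0) (nat_lit 686139898) (nat_lit 98) (nat_lit 5) (nat_lit 100) (nat_lit 4) (nat_lit 98) (nat_lit 4) (nat_lit 461) (nat_lit 303) (nat_lit 256))) (XT.nd (nat_lit 78) (nat_lit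 76) (nat_lit 0) (XT.lf (nat_lit 0) (nat_lit 36377597154) (nat_lit 152) (nat_lit 24235561136) (nat_lit 0) (nat_lit 35620234899) (nat_lit 98) (nat_lit 5) (nat_lit 100) (nat_lit 4) (nat_lit 98) (nat_lit 4) (nat_lit 462) (nat_lit 303) (nat_lit 255)) (XT.lf (nat_lit 0) (nat_lit 47007891259) (nat_lit 76) (nat_lit 26514977803) (nat_lit 76) (nat_lit 25753779379) (nat_lit 97) (nat_lit 4) (nat_lit 98) (nat_lit 5) (nat_lit 98) (nat_lit 4) (nat_lit 463) (nat_lit 303) (nat_lit 254))))) (XT.nd (nat_lit 312) (nat_lit 304) (nat_lit 0) (XT.nd (nat_lit 156) (nat_lit 228) (nat_lit 0) (XT.nd (nat_lit 78) (nat_lit 0) (nat_lit 0) (XT.lf (nat_lit 0) (nat_lit 10344335060) (nat_lit 152) (nat_lit 82473340368) (nat_lit 0) (nat_lit 9615904660) (nat_lit 95) (nat_lit 5) (nat_lit 97) (nat_lit 4) (nat_lit 95) (nat_lit 4) (nat_lit 464) (nat_lit 303) (nat_lit 253)) (XT.lf (nat_lit 0) (nat_lit 48442574653) (nat_lit 152) (nat_lit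 9520807821) (nat_lit 0) (nat_lit 47710830425) (nat_lit 95) (nat_lit 5) (nat_lit 97) (nat_lit 4) (nat_lit 95) (nat_lit 4) (nat_lit 465) (nat_lit 303) (nat_lit 252))) (XT.nd (nat_lit 78) (nat_lit 152) (nat_lit 0) (XT.lf (nat_lit 0) (nat_lit 68745668018) (nat_lit 76) (nat_lit 20512737803) (nat_lit 76) (nat_lit 19777837549) (nat_lit 94) (nat_lit 4) (nat_lit 95) (nat_lit 5) (nat_lit 95) (nat_lit 4) (nat_lit 466) (nat_lit 303) (nat_lit 251)) (XT.lf (nat_lit 0) (nat_lit 19743922919) (nat_lit 152) (nat_lit 73724989242) (nat_lit 0) (nat_lit 19041155305) (nat_lit 92) (nat_lit 5) (nat_lit 94) (nat_lit 4) (nat_lit 92) (nat_lit 4) (nat_lit 467) (nat_lit 303) (nat_lit 250)))) (XT.nd (nat_lit 156) (nat_lit 228) (nat_lit 0) (XT.nd (nat_lit 78) (nat_lit 0) (nat_lit 0) (XT.lf (nat_lit 0) (nat_lit 6078728173) (nat_lit 76) (nat_lit 55362466375) (nat_lit 76) (nat_lit 54656972467) (nat_lit 91) (nat_lit 4) (nat_lit 92)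 (nat_lit 5) (nat_lit 92) (nat_lit 4) (nat_lit 468) (nat_lit 303) (nat_lit 249)) (XT.lf (nat_lit 0) (nat_lit 91906820852) (nat_lit 76) (nat_lit 14308666593) (nat_lit 76) (nat_lit 13600576214) (nat_lit 91) (nat_lit 4) (nat_lit 92) (nat_lit 5) (nat_lit 92) (nat_lit 4) (nat_lit 469) (nat_lit 303) (nat_lit 248))) (XT.nd (nat_lit 78) (nat_lit 76) (nat_lit 0) (XT.lf (nat_lit 0) (nat_lit 29709031449) (nat_lit 152) (nat_lit 64898240854) (nat_lit 0) (nat_lit 29032304584) (nat_lit 89) (nat_lit 5) (nat_lit 91) (nat_lit 4) (nat_lit 89) (nat_lit 4) (nat_lit 470) (nat_lit 303) (nat_lit 247)) (XT.lf (nat_lit 0) (nat_lit 22819266415) (nat_lit 76) (nat_lit 52730834327) (nat_lit 76) (nat_lit 52051864533) (nat_lit 88) (nat_lit 4) (nat_lit 89) (nat_lit 5) (nat_lit 89) (nat_lit 4) (nat_lit 471) (nat_lit 303) (nat_lit 246)))))) (XT.nd (nat_lit 624) (nat_lit 684) (nat_lit 0) (XT.nd (nat_lit 312) (nat_lit 380) (nat_lit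 0) (XT.nd (nat_lit 156) (nat_lit 76) (nat_lit 0) (XT.nd (nat_lit 78) (nat_lit 152) (nat_lit 0) (XT.lf (nat_lit 0) (nat_lit 116675399872) (nat_lit 76) (nat_lit 7862717224) (nat_lit 76) (nat_lit 7181611307) (nat_lit 88) (nat_lit 4) (nat_lit 89) (nat_lit 5) (nat_lit 89) (nat_lit 4) (nat_lit 472) (nat_lit 303) (nat_lit 245)) (XT.lf (nat_lit 0) (nat_lit 40316722685) (nat_lit 152) (nat_lit 55946239181) (nat_lit 0) (nat_lit 39666112856) (nat_lit 86) (nat_lit 5) (nat_lit 88) (nat_lit 4) (nat_lit 86) (nat_lit 4) (nat_lit 473) (nat_lit 303) (nat_lit 244))) (XT.nd (nat_lit 78) (nat_lit 0) (nat_lit 0) (XT.lf (nat_lit 0) (nat_lit 40508881426) (nat_lit 76) (nat_lit 50223689069) (nat_lit 76) (nat_lit 49571233977) (nat_lit 85) (nat_lit 4) (nat_lit 86) (nat_lit 5) (nat_lit 86) (nat_lit 4) (nat_lit 474) (nat_lit 303) (nat_lit 243)) (XT.lf (nat_lit 0) (nat_lit 143252533107) (nat_lit 76) (nat_lit 1131601937) (nat_lit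 76) (nat_lit 477389451) (nat_lit 85) (nat_lit 4) (nat_lit 86) (nat_lit 5) (nat_lit 86) (nat_lit 4) (nat_lit 475) (nat_lit 303) (nat_lit 242)))) (XT.nd (nat_lit 156) (nat_lit 152) (nat_lit 0) (XT.nd (nat_lit 78) (nat_lit 76) (nat_lit 0) (XT.lf (nat_lit 0) (nat_lit 51651022152) (nat_lit 152) (nat_lit 46819148019) (nat_lit 0) (nat_lit 51026368634) (nat_lit 83) (nat_lit 5) (nat_lit 85) (nat_lit 4) (nat_lit 83) (nat_lit 4) (nat_lit 476) (nat_lit 303) (nat_lit 241)) (XT.lf (nat_lit 0) (nat_lit 59281250405) (nat_lit 76) (nat_lit 47835249644) (nat_lit 76) (nat_lit 47209078023) (nat_lit 82) (nat_lit 4) (nat_lit 83) (nat_lit 5) (nat_lit 83) (nat_lit 4) (nat_lit 477) (nat_lit 303) (nat_lit 240))) (XT.nd (nat_lit 78) (nat_lit 0) (nat_lit 0) (XT.lf (nat_lit 0) (nat_lit 6646628338) (nat_lit 152) (nat_lit 146651982694) (nat_lit 0) (nat_lit 6048897449) (nat_lit 80) (nat_lit 5) (nat_lit 82) (nat_lit 4) (nat_lit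 80) (nat_lit 4) (nat_lit 478) (nat_lit 303) (nat_lit 239)) (XT.lf (nat_lit 0) (nat_lit 63803681785) (nat_lit 152) (nat_lit 37463763343) (nat_lit 0) (nat_lit 63204639502) (nat_lit 80) (nat_lit 5) (nat_lit 82) (nat_lit 4) (nat_lit 80) (nat_lit 4) (nat_lit 479) (nat_lit 303) (nat_lit 238))))) (XT.nd (nat_lit 312) (nat_lit 380) (nat_lit 0) (XT.nd (nat_lit 156) (nat_lit 76) (nat_lit 0) (XT.nd (nat_lit 78) (nat_lit 152) (nat_lit 0) (XT.lf (nat_lit 0) (nat_lit 79282040346) (nat_lit 76) (nat_lit 45559984315) (nat_lit 76) (nat_lit 44959693085) (nat_lit 79) (nat_lit 4) (nat_lit 80) (nat_lit 5) (nat_lit 80) (nat_lit 4) (nat_lit 480) (nat_lit 303) (nat_lit 237)) (XT.lf (nat_lit 0) (nat_lit 14189093864) (nat_lit 152) (nat_lit 147527526584) (nat_lit 0) (nat_lit 13616255099) (nat_lit 77) (nat_lit 5) (nat_lit 79) (nat_lit 4) (nat_lit 77) (nat_lit 4) (nat_lit 481) (nat_lit 303) (nat_lit 236))) (XT.nd (nat_lit 78)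 (nat_lit 76) (nat_lit 0) (XT.lf (nat_lit 0) (nat_lit 76875017875) (nat_lit 152) (nat_lit 27823089022) (nat_lit 0) (nat_lit 76301100223) (nat_lit 77) (nat_lit 5) (nat_lit 79) (nat_lit 4) (nat_lit 77) (nat_lit 4) (nat_lit 482) (nat_lit 303) (nat_lit 235)) (XT.lf (nat_lit 0) (nat_lit 100670214787) (nat_lit 76) (nat_lit 43392603324) (nat_lit 76) (nat_lit 42817658160) (nat_lit 76) (nat_lit 4) (nat_lit 77) (nat_lit 5) (nat_lit 77) (nat_lit 4) (nat_lit 483) (nat_lit 303) (nat_lit 234)))) (XT.nd (nat_lit 156) (nat_lit 228) (nat_lit 0) (XT.nd (nat_lit 78) (nat_lit 0) (nat_lit 0) (XT.lf (nat_lit 0) (nat_lit 22177611342) (nat_lit 152) (nat_lit 149166594885) (nat_lit 0) (nat_lit 21629112536) (nat_lit 74) (nat_lit 5) (nat_lit 76) (nat_lit 4) (nat_lit 74) (nat_lit 4) (nat_lit 484) (nat_lit 303) (nat_lit 233)) (XT.lf (nat_lit 0) (nat_lit 90974832057) (nat_lit 152) (nat_lit 17835872143) (nat_lit 0) (nat_lit 90425445647)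 (nat_lit 74) (nat_lit 5) (nat_lit 76) (nat_lit 4) (nat_lit 74) (nat_lit 4) (nat_lit 485) (nat_lit 303) (nat_lit 232))) (XT.nd (nat_lit 78) (nat_lit 152) (nat_lit 0) (XT.lf (nat_lit 0) (nat_lit 123619471456) (nat_lit 76) (nat_lit 41328051168) (nat_lit 76) (nat_lit 40777819422) (nat_lit 73) (nat_lit 4) (nat_lit 74) (nat_lit 5) (nat_lit 74) (nat_lit 4) (nat_lit 486) (nat_lit 303) (nat_lit 231)) (XT.lf (nat_lit 0) (nat_lit 30673533029) (nat_lit 152) (nat_lit 151615422117) (nat_lit 0) (nat_lit 30148736050) (nat_lit 71) (nat_lit 5) (nat_lit 73) (nat_lit 4) (nat_lit 71) (nat_lit 4) (nat_lit 487) (nat_lit 303) (nat_lit 230)))))))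
noncomputable def xc37 : XT := (XT.nd (nat_lit 47736) (nat_lit 0) (nat_lit 5168) (XT.nd (nat_lit 624) (nat_lit 152) (nat_lit 0) (XT.nd (nat_lit 312) (nat_lit 228) (nat_lit 0) (XT.nd (nat_lit 156) (nat_lit 228) (nat_lit 0) (XT.nd (nat_lit 78) (nat_lit 76) (nat_lit 0) (XT.lf (nat_lit 0) (nat_lit 106223424075) (nat_lit 152) (nat_lit 7436093768) (nat_lit 0) (nat_lit 105697896863) (nat_lit 71) (nat_lit 5) (nat_lit 73) (nat_lit 4) (nat_lit 71) (nat_lit 4) (nat_lit 488) (nat_lit 303) (nat_lit 229)) (XT.lf (nat_lit 0) (nat_lit 148319824267) (nat_lit 76) (nat_lit 39361498570) (nat_lit 76) (nat_lit 38835275897) (nat_lit 70) (nat_lit 4) (nat_lit 71) (nat_lit 5) (nat_lit 71) (nat_lit 4) (nat_lit 489) (nat_lit 303) (nat_lit 228))) (XT.nd (nat_lit 78) (nat_lit 76) (nat_lit 0) (XT.lf (nat_lit 0) (nat_lit 39743745111) (nat_lit 152) (nat_lit 154926496624) (nat_lit 0) (nat_lit 39241949857) (nat_lit 68) (nat_lit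 5) (nat_lit 70) (nat_lit 4) (nat_lit 68) (nat_lit 4) (nat_lit 490) (nat_lit 303) (nat_lit 227)) (XT.lf (nat_lit 0) (nat_lit 3561582368) (nat_lit 76) (nat_lit 119246729899) (nat_lit 76) (nat_lit 118744333881) (nat_lit 67) (nat_lit 4) (nat_lit 68) (nat_lit 5) (nat_lit 68) (nat_lit 4) (nat_lit 491) (nat_lit 303) (nat_lit 226)))) (XT.nd (nat_lit 156) (nat_lit 76) (nat_lit 0) (XT.nd (nat_lit 78) (nat_lit 152) (nat_lit 0) (XT.lf (nat_lit 0) (nat_lit 174979344496) (nat_lit 76) (nat_lit 37488334281) (nat_lit 76) (nat_lit 36985366106) (nat_lit 67) (nat_lit 4) (nat_lit 68) (nat_lit 5) (nat_lit 68) (nat_lit 4) (nat_lit 492) (nat_lit 303) (nat_lit 225)) (XT.lf (nat_lit 0) (nat_lit 49461272696) (nat_lit 152) (nat_lit 159159131280) (nat_lit 0) (nat_lit 48981736423) (nat_lit 65) (nat_lit 5) (nat_lit 67) (nat_lit 4) (nat_lit 65) (nat_lit 4) (nat_lit 493) (nat_lit 303) (nat_lit 224))) (XT.nd (nat_lit 78) (nat_lit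 0) (nat_lit 0) (XT.lf (nat_lit 0) (nat_lit 15384870096) (nat_lit 76) (nat_lit 125562759204) (nat_lit 76) (nat_lit 125082728680) (nat_lit 64) (nat_lit 4) (nat_lit 65) (nat_lit 5) (nat_lit 65) (nat_lit 4) (nat_lit 494) (nat_lit 303) (nat_lit 223)) (XT.lf (nat_lit 0) (nat_lit 203826077524) (nat_lit 76) (nat_lit 35704156813) (nat_lit 76) (nat_lit 35223655575) (nat_lit 64) (nat_lit 4) (nat_lit 65) (nat_lit 5) (nat_lit 65) (nat_lit 4) (nat_lit 495) (nat_lit 303) (nat_lit 222))))) (XT.nd (nat_lit 46800) (nat_lit 0) (nat_lit 6840) (XT.nd (nat_lit 46644) (nat_lit 0) (nat_lit 7296) (XT.nd (nat_lit 46566) (nat_lit 0) (nat_lit 7524) (XT.lf (nat_lit 0) (nat_lit 59905944692) (nat_lit 152) (nat_lit 164380095724) (nat_lit 0) (nat_lit 59447897513) (nat_lit 62) (nat_lit 5) (nat_lit 64) (nat_lit 4) (nat_lit 62) (nat_lit 4) (nat_lit 496) (nat_lit 303) (nat_lit 221)) (XT.lf (nat_lit 0) (nat_lit 3534095630) (nat_lit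 152) (nat_lit 4722012708) (nat_lit 0) (nat_lit 3534095630) (nat_lit 161) (nat_lit 5) (nat_lit 163) (nat_lit 4) (nat_lit 161) (nat_lit 4) (nat_lit 412) (nat_lit 304) (nat_lit 304))) (XT.nd (nat_lit 78) (nat_lit 152) (nat_lit 0) (XT.lf (nat_lit 0) (nat_lit 14287265523) (nat_lit 76) (nat_lit 4994864716) (nat_lit 76) (nat_lit 4878143773) (nat_lit 160) (nat_lit 4) (nat_lit 161) (nat_lit 5) (nat_lit 161) (nat_lit 4) (nat_lit 413) (nat_lit 304) (nat_lit 303)) (XT.lf (nat_lit 0) (nat_lit 7213231996) (nat_lit 152) (nat_lit 10548451024) (nat_lit 0) (nat_lit 6996199857) (nat_lit 158) (nat_lit 5) (nat_lit 160) (nat_lit 4) (nat_lit 158) (nat_lit 4) (nat_lit 414) (nat_lit 304) (nat_lit 302)))) (XT.nd (nat_lit 156) (nat_lit 228) (nat_lit 0) (XT.nd (nat_lit 78) (nat_lit 152) (nat_lit 0) (XT.lf (nat_lit 0) (nat_lit 13958216167) (nat_lit 76) (nat_lit 5868472564) (nat_lit 76) (nat_lit 5550612486) (nat_lit 157) (nat_lit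 4) (nat_lit 158) (nat_lit 5) (nat_lit 158) (nat_lit 4) (nat_lit 415) (nat_lit 304) (nat_lit 301)) (XT.lf (nat_lit 0) (nat_lit 6928441089) (nat_lit 152) (nat_lit 12553951078) (nat_lit 0) (nat_lit 6534263292) (nat_lit 155) (nat_lit 5) (nat_lit 157) (nat_lit 4) (nat_lit 155) (nat_lit 4) (nat_lit 416) (nat_lit 304) (nat_lit 300))) (XT.nd (nat_lit 78) (nat_lit 152) (nat_lit 0) (XT.lf (nat_lit 0) (nat_lit 12737891320) (nat_lit 76) (nat_lit 7210811769) (nat_lit 76) (nat_lit 6729535007) (nat_lit 154) (nat_lit 4) (nat_lit 155) (nat_lit 5) (nat_lit 155) (nat_lit 4) (nat_lit 417) (nat_lit 304) (nat_lit 299)) (XT.lf (nat_lit 0) (nat_lit 6151238058) (nat_lit 152) (nat_lit 15597701912) (nat_lit 0) (nat_lit 5613877909) (nat_lit 152) (nat_lit 5) (nat_lit 154) (nat_lit 4) (nat_lit 152) (nat_lit 4) (nat_lit 418) (nat_lit 304) (nat_lit 298)))))) (XT.nd (nat_lit 624) (nat_lit 912) (nat_lit 0) (XT.nd (nat_lit 312)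 (nat_lit 304) (nat_lit 0) (XT.nd (nat_lit 156) (nat_lit 228) (nat_lit 0) (XT.nd (nat_lit 78) (nat_lit 152) (nat_lit 0) (XT.lf (nat_lit 0) (nat_lit 10486695056) (nat_lit 76) (nat_lit 9097646345) (nat_lit 76) (nat_lit 8485046835) (nat_lit 151) (nat_lit 4) (nat_lit 152) (nat_lit 5) (nat_lit 152) (nat_lit 4) (nat_lit 419) (nat_lit 304) (nat_lit 297)) (XT.lf (nat_lit 0) (nat_lit 4811094532) (nat_lit 152) (nat_lit 19832492541) (nat_lit 0) (nat_lit 4159422109) (nat_lit 149) (nat_lit 5) (nat_lit 151) (nat_lit 4) (nat_lit 149) (nat_lit 4) (nat_lit 420) (nat_lit 304) (nat_lit 296))) (XT.nd (nat_lit 78) (nat_lit 152) (nat_lit 0) (XT.lf (nat_lit 0) (nat_lit 7048989772) (nat_lit 76) (nat_lit 11612648028) (nat_lit 76) (nat_lit 10895981017) (nat_lit 148) (nat_lit 4) (nat_lit 149) (nat_lit 5) (nat_lit 149) (nat_lit 4) (nat_lit 421) (nat_lit 304) (nat_lit 295)) (XT.lf (nat_lit 0) (nat_lit 2828730451) (nat_lit 152)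 (nat_lit 25428493971) (nat_lit 0) (nat_lit 2087238432) (nat_lit 146) (nat_lit 5) (nat_lit 148) (nat_lit 4) (nat_lit 146) (nat_lit 4) (nat_lit 422) (nat_lit 304) (nat_lit 294)))) (XT.nd (nat_lit 156) (nat_lit 152) (nat_lit 0) (XT.nd (nat_lit 78) (nat_lit 76) (nat_lit 0) (XT.lf (nat_lit 0) (nat_lit 2251275258) (nat_lit 76) (nat_lit 14848385747) (nat_lit 76) (nat_lit 14050748959) (nat_lit 145) (nat_lit 4) (nat_lit 146) (nat_lit 5) (nat_lit 146) (nat_lit 4) (nat_lit 423) (nat_lit 304) (nat_lit 293)) (XT.lf (nat_lit 0) (nat_lit 135673382) (nat_lit 152) (nat_lit 572977563) (nat_lit 76) (nat_lit 31285385705) (nat_lit 144) (nat_lit 5) (nat_lit 146) (nat_lit 5) (nat_lit 145) (nat_lit 4) (nat_lit 424) (nat_lit 304) (nat_lit 292))) (XT.nd (nat_lit 78) (nat_lit 76) (nat_lit 0) (XT.lf (nat_lit 0) (nat_lit 14871595992) (nat_lit 152) (nat_lit 3968595863) (nat_lit 0) (nat_lit 14012516985) (nat_lit 143) (nat_lit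 5) (nat_lit 145) (nat_lit 4) (nat_lit 143) (nat_lit 4) (nat_lit 425) (nat_lit 304) (nat_lit 291)) (XT.lf (nat_lit 0) (nat_lit 26155533144) (nat_lit 76) (nat_lit 4250482938) (nat_lit 76) (nat_lit 3345213490) (nat_lit 142) (nat_lit 4) (nat_lit 143) (nat_lit 5) (nat_lit 143) (nat_lit 4) (nat_lit 426) (nat_lit 304) (nat_lit 290))))) (XT.nd (nat_lit 312) (nat_lit 456) (nat_lit 0) (XT.nd (nat_lit 156) (nat_lit 228) (nat_lit 0) (XT.nd (nat_lit 78) (nat_lit 76) (nat_lit 0) (XT.lf (nat_lit 0) (nat_lit 11874446763) (nat_lit 152) (nat_lit 11828617034) (nat_lit 0) (nat_lit 10970389292) (nat_lit 140) (nat_lit 5) (nat_lit 142) (nat_lit 4) (nat_lit 140) (nat_lit 4) (nat_lit 427) (nat_lit 304) (nat_lit 289)) (XT.lf (nat_lit 0) (nat_lit 19172595633) (nat_lit 76) (nat_lit 8701908461) (nat_lit 76) (nat_lit 7757949951) (nat_lit 139) (nat_lit 4) (nat_lit 140) (nat_lit 5) (nat_lit 140) (nat_lit 4) (nat_lit 428) (nat_lit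 304) (nat_lit 288))) (XT.nd (nat_lit 78) (nat_lit 76) (nat_lit 0) (XT.lf (nat_lit 0) (nat_lit 7962984248) (nat_lit 152) (nat_lit 21633113496) (nat_lit 0) (nat_lit 7027784724) (nat_lit 137) (nat_lit 5) (nat_lit 139) (nat_lit 4) (nat_lit 137) (nat_lit 4) (nat_lit 429) (nat_lit 304) (nat_lit 287)) (XT.lf (nat_lit 0) (nat_lit 10237341692) (nat_lit 76) (nat_lit 14189972907) (nat_lit 76) (nat_lit 13220305366) (nat_lit 136) (nat_lit 4) (nat_lit 137) (nat_lit 5) (nat_lit 137) (nat_lit 4) (nat_lit 430) (nat_lit 304) (nat_lit 286)))) (XT.nd (nat_lit 156) (nat_lit 304) (nat_lit 0) (XT.nd (nat_lit 78) (nat_lit 0) (nat_lit 0) (XT.lf (nat_lit 0) (nat_lit 3014202159) (nat_lit 152) (nat_lit 33640677609) (nat_lit 0) (nat_lit 2059445753) (nat_lit 134) (nat_lit 5) (nat_lit 136) (nat_lit 4) (nat_lit 134) (nat_lit 4) (nat_lit 431) (nat_lit 304) (nat_lit 285)) (XT.lf (nat_lit 0) (nat_lit 19952996775) (nat_lit 152) (nat_lit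 885225131) (nat_lit 0) (nat_lit 18968465600) (nat_lit 134) (nat_lit 5) (nat_lit 136) (nat_lit 4) (nat_lit 134) (nat_lit 4) (nat_lit 432) (nat_lit 304) (nat_lit 284))) (XT.nd (nat_lit 78) (nat_lit 228) (nat_lit 0) (XT.lf (nat_lit 0) (nat_lit 33877526970) (nat_lit 76) (nat_lit 4040043378) (nat_lit 76) (nat_lit 3027155279) (nat_lit 133) (nat_lit 4) (nat_lit 134) (nat_lit 5) (nat_lit 134) (nat_lit 4) (nat_lit 433) (nat_lit 304) (nat_lit 283)) (XT.nd (nat_lit 78) (nat_lit 76) (nat_lit 0) (XT.lf (nat_lit 0) (nat_lit 14495894307) (nat_lit 152) (nat_lit 14110634746) (nat_lit 0) (nat_lit 13505518409) (nat_lit 131) (nat_lit 5) (nat_lit 133) (nat_lit 4) (nat_lit 131) (nat_lit 4) (nat_lit 434) (nat_lit 304) (nat_lit 282)) (XT.lf (nat_lit 0) (nat_lit 21595539935) (nat_lit 76) (nat_lit 11372915639) (nat_lit 76) (nat_lit 10358043964) (nat_lit 130) (nat_lit 4) (nat_lit 131) (nat_lit 5) (nat_lit 131) (nat_lit 4)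 (nat_lit 435) (nat_lit 304) (nat_lit 281))))))))
noncomputable def xc38 : XT := (XT.nd (nat_lit 2496) (nat_lit 2280) (nat_lit 0) (XT.nd (nat_lit 1248) (nat_lit 1216) (nat_lit 0) (XT.nd (nat_lit 624) (nat_lit 836) (nat_lit 0) (XT.nd (nat_lit 312) (nat_lit 304) (nat_lit 0) (XT.nd (nat_lit 156) (nat_lit 152) (nat_lit 0) (XT.nd (nat_lit 78) (nat_lit 76) (nat_lit 0) (XT.lf (nat_lit 0) (nat_lit 7744625260) (nat_lit 152) (nat_lit 30083620551) (nat_lit 0) (nat_lit 6755862417) (nat_lit 128) (nat_lit 5) (nat_lit 130) (nat_lit 4) (nat_lit 128) (nat_lit 4) (nat_lit 436) (nat_lit 304) (nat_lit 280)) (XT.lf (nat_lit 0) (nat_lit 6543921687) (nat_lit 76) (nat_lit 20173233700) (nat_lit 76) (nat_lit 19163310483) (nat_lit 127) (nat_lit 4) (nat_lit 128) (nat_lit 5) (nat_lit 128) (nat_lit 4) (nat_lit 437) (nat_lit 304) (nat_lit 279))) (XT.nd (nat_lit 78) (nat_lit 152) (nat_lit 0) (XT.lf (nat_lit 0) (nat_lit 45343801503)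 (nat_lit 76) (nat_lit 1459825058) (nat_lit 76) (nat_lit 429749105) (nat_lit 127) (nat_lit 4) (nat_lit 128) (nat_lit 5) (nat_lit 128) (nat_lit 4) (nat_lit 438) (nat_lit 304) (nat_lit 278)) (XT.lf (nat_lit 0) (nat_lit 19172516857) (nat_lit 152) (nat_lit 11265789064) (nat_lit 0) (nat_lit 18173213014) (nat_lit 125) (nat_lit 5) (nat_lit 127) (nat_lit 4) (nat_lit 125) (nat_lit 4) (nat_lit 439) (nat_lit 304) (nat_lit 277)))) (XT.nd (nat_lit 156) (nat_lit 76) (nat_lit 0) (XT.nd (nat_lit 78) (nat_lit 152) (nat_lit 0) (XT.lf (nat_lit 0) (nat_lit 28759357821) (nat_lit 76) (nat_lit 11153476402) (nat_lit 76) (nat_lit 10136763867) (nat_lit 124) (nat_lit 4) (nat_lit 125) (nat_lit 5) (nat_lit 125) (nat_lit 4) (nat_lit 440) (nat_lit 304) (nat_lit 276)) (XT.lf (nat_lit 0) (nat_lit 10117488940) (nat_lit 152) (nat_lit 32285225592) (nat_lit 0) (nat_lit 9133401092) (nat_lit 122) (nat_lit 5) (nat_lit 124) (nat_lit 4)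 (nat_lit 122) (nat_lit 4) (nat_lit 441) (nat_lit 304) (nat_lit 275))) (XT.nd (nat_lit 78) (nat_lit 0) (nat_lit 0) (XT.lf (nat_lit 0) (nat_lit 8722403949) (nat_lit 76) (nat_lit 22673874063) (nat_lit 76) (nat_lit 21674747933) (nat_lit 121) (nat_lit 4) (nat_lit 122) (nat_lit 5) (nat_lit 122) (nat_lit 4) (nat_lit 442) (nat_lit 304) (nat_lit 274)) (XT.lf (nat_lit 0) (nat_lit 52231139887) (nat_lit 76) (nat_lit 1727016356) (nat_lit 76) (nat_lit 713568053) (nat_lit 121) (nat_lit 4) (nat_lit 122) (nat_lit 5) (nat_lit 122) (nat_lit 4) (nat_lit 443) (nat_lit 304) (nat_lit 273))))) (XT.nd (nat_lit 312) (nat_lit 380) (nat_lit 0) (XT.nd (nat_lit 156) (nat_lit 228) (nat_lit 0) (XT.nd (nat_lit 78) (nat_lit 76) (nat_lit 0) (XT.lf (nat_lit 0) (nat_lit 21278919964) (nat_lit 152) (nat_lit 14722930696) (nat_lit 0) (nat_lit 20300740470) (nat_lit 119) (nat_lit 5) (nat_lit 121) (nat_lit 4) (nat_lit 119) (nat_lit 4) (nat_lit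 444) (nat_lit 304) (nat_lit 272)) (XT.lf (nat_lit 0) (nat_lit 30148195888) (nat_lit 76) (nat_lit 14422787730) (nat_lit 76) (nat_lit 13432236205) (nat_lit 118) (nat_lit 4) (nat_lit 119) (nat_lit 5) (nat_lit 119) (nat_lit 4) (nat_lit 445) (nat_lit 304) (nat_lit 271))) (XT.nd (nat_lit 78) (nat_lit 76) (nat_lit 0) (XT.lf (nat_lit 0) (nat_lit 9291322237) (nat_lit 152) (nat_lit 42136215022) (nat_lit 0) (nat_lit 8336718033) (nat_lit 116) (nat_lit 5) (nat_lit 118) (nat_lit 4) (nat_lit 116) (nat_lit 4) (nat_lit 446) (nat_lit 304) (nat_lit 270)) (XT.lf (nat_lit 0) (nat_lit 3770038701) (nat_lit 76) (nat_lit 29387349203) (nat_lit 76) (nat_lit 28422057574) (nat_lit 115) (nat_lit 4) (nat_lit 116) (nat_lit 5) (nat_lit 116) (nat_lit 4) (nat_lit 447) (nat_lit 304) (nat_lit 269)))) (XT.nd (nat_lit 156) (nat_lit 228) (nat_lit 0) (XT.nd (nat_lit 78) (nat_lit 152) (nat_lit 0) (XT.lf (nat_lit 0) (nat_lit 52796125637)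 (nat_lit 76) (nat_lit 5822327429) (nat_lit 76) (nat_lit 4846857298) (nat_lit 115) (nat_lit 4) (nat_lit 116) (nat_lit 5) (nat_lit 116) (nat_lit 4) (nat_lit 448) (nat_lit 304) (nat_lit 268)) (XT.lf (nat_lit 0) (nat_lit 19884903430) (nat_lit 152) (nat_lit 26567625120) (nat_lit 0) (nat_lit 18946652057) (nat_lit 113) (nat_lit 5) (nat_lit 115) (nat_lit 4) (nat_lit 113) (nat_lit 4) (nat_lit 449) (nat_lit 304) (nat_lit 267))) (XT.nd (nat_lit 78) (nat_lit 152) (nat_lit 0) (XT.lf (nat_lit 0) (nat_lit 23720397863) (nat_lit 76) (nat_lit 22317520009) (nat_lit 76) (nat_lit 21370476064) (nat_lit 112) (nat_lit 4) (nat_lit 113) (nat_lit 5) (nat_lit 113) (nat_lit 4) (nat_lit 450) (nat_lit 304) (nat_lit 266)) (XT.lf (nat_lit 0) (nat_lit 4178399737) (nat_lit 152) (nat_lit 62051818544) (nat_lit 0) (nat_lit 3268478001) (nat_lit 110) (nat_lit 5) (nat_lit 112) (nat_lit 4) (nat_lit 110) (nat_lit 4) (nat_lit 451) (nat_lit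 304) (nat_lit 265)))))) (XT.nd (nat_lit 624) (nat_lit 532) (nat_lit 0) (XT.nd (nat_lit 312) (nat_lit 380) (nat_lit 0) (XT.nd (nat_lit 156) (nat_lit 228) (nat_lit 0) (XT.nd (nat_lit 78) (nat_lit 76) (nat_lit 0) (XT.lf (nat_lit 0) (nat_lit 31102550993) (nat_lit 152) (nat_lit 10347611078) (nat_lit 0) (nat_lit 30185033902) (nat_lit 110) (nat_lit 5) (nat_lit 112) (nat_lit 4) (nat_lit 110) (nat_lit 4) (nat_lit 452) (nat_lit 304) (nat_lit 264)) (XT.lf (nat_lit 0) (nat_lit 44786680010) (nat_lit 76) (nat_lit 14998001409) (nat_lit 76) (nat_lit 14073250648) (nat_lit 109) (nat_lit 4) (nat_lit 110) (nat_lit 5) (nat_lit 110) (nat_lit 4) (nat_lit 453) (nat_lit 304) (nat_lit 263))) (XT.nd (nat_lit 78) (nat_lit 76) (nat_lit 0) (XT.lf (nat_lit 0) (nat_lit 13789219490) (nat_lit 152) (nat_lit 49463996100) (nat_lit 0) (nat_lit 12901943326) (nat_lit 107) (nat_lit 5) (nat_lit 109) (nat_lit 4) (nat_lit 107) (nat_lit 4)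 (nat_lit 454) (nat_lit 304) (nat_lit 262)) (XT.lf (nat_lit 0) (nat_lit 6854480223) (nat_lit 76) (nat_lit 36283231845) (nat_lit 76) (nat_lit 35389706965) (nat_lit 106) (nat_lit 4) (nat_lit 107) (nat_lit 5) (nat_lit 107) (nat_lit 4) (nat_lit 455) (nat_lit 304) (nat_lit 261)))) (XT.nd (nat_lit 156) (nat_lit 228) (nat_lit 0) (XT.nd (nat_lit 78) (nat_lit 152) (nat_lit 0) (XT.lf (nat_lit 0) (nat_lit 67127039068) (nat_lit 76) (nat_lit 7381492019) (nat_lit 76) (nat_lit 6482015979) (nat_lit 106) (nat_lit 4) (nat_lit 107) (nat_lit 5) (nat_lit 107) (nat_lit 4) (nat_lit 456) (nat_lit 304) (nat_lit 260)) (XT.lf (nat_lit 0) (nat_lit 23945987264) (nat_lit 152) (nat_lit 36486316453) (nat_lit 0) (nat_lit 23083945541) (nat_lit 104) (nat_lit 5) (nat_lit 106) (nat_lit 4) (nat_lit 104) (nat_lit 4) (nat_lit 457) (nat_lit 304) (nat_lit 259))) (XT.nd (nat_lit 78) (nat_lit 152) (nat_lit 0) (XT.lf (nat_lit 0) (nat_lit 25311245058)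 (nat_lit 76) (nat_lit 30847403075) (nat_lit 76) (nat_lit 29980220516) (nat_lit 103) (nat_lit 4) (nat_lit 104) (nat_lit 5) (nat_lit 104) (nat_lit 4) (nat_lit 458) (nat_lit 304) (nat_lit 258)) (XT.lf (nat_lit 0) (nat_lit 1451310490) (nat_lit 152) (nat_lit 86799856067) (nat_lit 0) (nat_lit 620759451) (nat_lit 101) (nat_lit 5) (nat_lit 103) (nat_lit 4) (nat_lit 101) (nat_lit 4) (nat_lit 459) (nat_lit 304) (nat_lit 257))))) (XT.nd (nat_lit 312) (nat_lit 304) (nat_lit 0) (XT.nd (nat_lit 156) (nat_lit 152) (nat_lit 0) (XT.nd (nat_lit 78) (nat_lit 76) (nat_lit 0) (XT.lf (nat_lit 0) (nat_lit 34725911582) (nat_lit 152) (nat_lit 23036279729) (nat_lit 0) (nat_lit 33890919697) (nat_lit 101) (nat_lit 5) (nat_lit 103) (nat_lit 4) (nat_lit 101) (nat_lit 4) (nat_lit 460) (nat_lit 304) (nat_lit 256)) (XT.lf (nat_lit 0) (nat_lit 44815927006) (nat_lit 76) (nat_lit 25287348928) (nat_lit 76) (nat_lit 24448127665) (nat_lit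 100) (nat_lit 4) (nat_lit 101) (nat_lit 5) (nat_lit 101) (nat_lit 4) (nat_lit 461) (nat_lit 304) (nat_lit 255))) (XT.nd (nat_lit 78) (nat_lit 0) (nat_lit 0) (XT.lf (nat_lit 0) (nat_lit 9928842530) (nat_lit 152) (nat_lit 78503335179) (nat_lit 0) (nat_lit 9125748014) (nat_lit 98) (nat_lit 5) (nat_lit 100) (nat_lit 4) (nat_lit 98) (nat_lit 4) (nat_lit 462) (nat_lit 304) (nat_lit 254)) (XT.lf (nat_lit 0) (nat_lit 46213043342) (nat_lit 152) (nat_lit 9024895858) (nat_lit 0) (nat_lit 45406295331) (nat_lit 98) (nat_lit 5) (nat_lit 100) (nat_lit 4) (nat_lit 98) (nat_lit 4) (nat_lit 463) (nat_lit 304) (nat_lit 253)))) (XT.nd (nat_lit 156) (nat_lit 76) (nat_lit 0) (XT.nd (nat_lit 78) (nat_lit 152) (nat_lit 0) (XT.lf (nat_lit 0) (nat_lit 65515851038) (nat_lit 76) (nat_lit 19570251429) (nat_lit 76) (nat_lit 18760023898) (nat_lit 97) (nat_lit 4) (nat_lit 98) (nat_lit 5) (nat_lit 98) (nat_lit 4) (nat_lit 464)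 (nat_lit 304) (nat_lit 252)) (XT.lf (nat_lit 0) (nat_lit 18877603957) (nat_lit 152) (nat_lit 70174049865) (nat_lit 0) (nat_lit 18102802663) (nat_lit 95) (nat_lit 5) (nat_lit 97) (nat_lit 4) (nat_lit 95) (nat_lit 4) (nat_lit 465) (nat_lit 304) (nat_lit 251))) (XT.nd (nat_lit 78) (nat_lit 0) (nat_lit 0) (XT.lf (nat_lit 0) (nat_lit 5830681947) (nat_lit 76) (nat_lit 52759390099) (nat_lit 76) (nat_lit 51981583065) (nat_lit 94) (nat_lit 4) (nat_lit 95) (nat_lit 5) (nat_lit 95) (nat_lit 4) (nat_lit 466) (nat_lit 304) (nat_lit 250)) (XT.lf (nat_lit 0) (nat_lit 87571590571) (nat_lit 76) (nat_lit 13660790921) (nat_lit 76) (nat_lit 12880121278) (nat_lit 94) (nat_lit 4) (nat_lit 95) (nat_lit 5) (nat_lit 95) (nat_lit 4) (nat_lit 467) (nat_lit 304) (nat_lit 249))))))) (XT.nd (nat_lit 1248) (nat_lit 988) (nat_lit 0) (XT.nd (nat_lit 624) (nat_lit 608) (nat_lit 0) (XT.nd (nat_lit 312) (nat_lit 304) (nat_lit 0)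 (XT.nd (nat_lit 156) (nat_lit 152) (nat_lit 0) (XT.nd (nat_lit 78) (nat_lit 76) (nat_lit 0) (XT.lf (nat_lit 0) (nat_lit 28365031417) (nat_lit 152) (nat_lit 61769903757) (nat_lit 0) (nat_lit 27618940048) (nat_lit 92) (nat_lit 5) (nat_lit 94) (nat_lit 4) (nat_lit 92) (nat_lit 4) (nat_lit 468) (nat_lit 304) (nat_lit 248)) (XT.lf (nat_lit 0) (nat_lit 21771719934) (nat_lit 76) (nat_lit 50252193341) (nat_lit 76) (nat_lit 49503629142) (nat_lit 91) (nat_lit 4) (nat_lit 92) (nat_lit 5) (nat_lit 92) (nat_lit 4) (nat_lit 469) (nat_lit 304) (nat_lit 247))) (XT.nd (nat_lit 78) (nat_lit 152) (nat_lit 0) (XT.lf (nat_lit 0) (nat_lit 111158405086) (nat_lit 76) (nat_lit 7520865300) (nat_lit 76) (nat_lit 6769946026) (nat_lit 91) (nat_lit 4) (nat_lit 92) (nat_lit 5) (nat_lit 92) (nat_lit 4) (nat_lit 470) (nat_lit 304) (nat_lit 246)) (XT.lf (nat_lit 0) (nat_lit 38464527716) (nat_lit 152) (nat_lit 53246295401) (nat_lit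 0) (nat_lit 37747230380) (nat_lit 89) (nat_lit 5) (nat_lit 91) (nat_lit 4) (nat_lit 89) (nat_lit 4) (nat_lit 471) (nat_lit 304) (nat_lit 245)))) (XT.nd (nat_lit 156) (nat_lit 228) (nat_lit 0) (XT.nd (nat_lit 78) (nat_lit 0) (nat_lit 0) (XT.lf (nat_lit 0) (nat_lit 38616815337) (nat_lit 76) (nat_lit 47863472909) (nat_lit 76) (nat_lit 47144141170) (nat_lit 88) (nat_lit 4) (nat_lit 89) (nat_lit 5) (nat_lit 89) (nat_lit 4) (nat_lit 472) (nat_lit 304) (nat_lit 244)) (XT.lf (nat_lit 0) (nat_lit 136467822818) (nat_lit 76) (nat_lit 1109278671) (nat_lit 76) (nat_lit 388009406) (nat_lit 88) (nat_lit 4) (nat_lit 89) (nat_lit 5) (nat_lit 89) (nat_lit 4) (nat_lit 473) (nat_lit 304) (nat_lit 243))) (XT.nd (nat_lit 78) (nat_lit 76) (nat_lit 0) (XT.lf (nat_lit 0) (nat_lit 49256124591) (nat_lit 152) (nat_lit 44555781492) (nat_lit 0) (nat_lit 48567444087) (nat_lit 86) (nat_lit 5) (nat_lit 88) (nat_lit 4) (nat_lit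 86) (nat_lit 4) (nat_lit 474) (nat_lit 304) (nat_lit 242)) (XT.lf (nat_lit 0) (nat_lit 56493260151) (nat_lit 76) (nat_lit 45587749122) (nat_lit 76) (nat_lit 44897394910) (nat_lit 85) (nat_lit 4) (nat_lit 86) (nat_lit 5) (nat_lit 86) (nat_lit 4) (nat_lit 475) (nat_lit 304) (nat_lit 241))))) (XT.nd (nat_lit 312) (nat_lit 228) (nat_lit 0) (XT.nd (nat_lit 156) (nat_lit 228) (nat_lit 0) (XT.nd (nat_lit 78) (nat_lit 0) (nat_lit 0) (XT.lf (nat_lit 0) (nat_lit 6391856326) (nat_lit 152) (nat_lit 139636424084) (nat_lit 0) (nat_lit 5732858021) (nat_lit 83) (nat_lit 5) (nat_lit 85) (nat_lit 4) (nat_lit 83) (nat_lit 4) (nat_lit 476) (nat_lit 304) (nat_lit 240)) (XT.lf (nat_lit 0) (nat_lit 60827209868) (nat_lit 152) (nat_lit 35647708295) (nat_lit 0) (nat_lit 60166765751) (nat_lit 83) (nat_lit 5) (nat_lit 85) (nat_lit 4) (nat_lit 83) (nat_lit 4) (nat_lit 477) (nat_lit 304) (nat_lit 239))) (XT.nd (nat_lit 78)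 (nat_lit 152) (nat_lit 0) (XT.lf (nat_lit 0) (nat_lit 75539768161) (nat_lit 76) (nat_lit 43419774507) (nat_lit 76) (nat_lit 42757953426) (nat_lit 82) (nat_lit 4) (nat_lit 83) (nat_lit 5) (nat_lit 83) (nat_lit 4) (nat_lit 478) (nat_lit 304) (nat_lit 238)) (XT.lf (nat_lit 0) (nat_lit 13572392882) (nat_lit 152) (nat_lit 140471981223) (nat_lit 0) (nat_lit 12940838144) (nat_lit 80) (nat_lit 5) (nat_lit 82) (nat_lit 4) (nat_lit 80) (nat_lit 4) (nat_lit 479) (nat_lit 304) (nat_lit 237)))) (XT.nd (nat_lit 156) (nat_lit 152) (nat_lit 0) (XT.nd (nat_lit 78) (nat_lit 76) (nat_lit 0) (XT.lf (nat_lit 0) (nat_lit 73273325995) (nat_lit 152) (nat_lit 26467808076) (nat_lit 0) (nat_lit 72640581784) (nat_lit 80) (nat_lit 5) (nat_lit 82) (nat_lit 4) (nat_lit 80) (nat_lit 4) (nat_lit 480) (nat_lit 304) (nat_lit 236)) (XT.lf (nat_lit 0) (nat_lit 95907718968) (nat_lit 76) (nat_lit 41354527832) (nat_lit 76) (nat_lit 40720650788)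 (nat_lit 79) (nat_lit 4) (nat_lit 80) (nat_lit 5) (nat_lit 80) (nat_lit 4) (nat_lit 481) (nat_lit 304) (nat_lit 235))) (XT.nd (nat_lit 78) (nat_lit 0) (nat_lit 0) (XT.lf (nat_lit 0) (nat_lit 21177841274) (nat_lit 152) (nat_lit 142034592075) (nat_lit 0) (nat_lit 20573121340) (nat_lit 77) (nat_lit 5) (nat_lit 79) (nat_lit 4) (nat_lit 77) (nat_lit 4) (nat_lit 482) (nat_lit 304) (nat_lit 234)) (XT.lf (nat_lit 0) (nat_lit 86699047547) (nat_lit 152) (nat_lit 16957756961) (nat_lit 0) (nat_lit 86093349030) (nat_lit 77) (nat_lit 5) (nat_lit 79) (nat_lit 4) (nat_lit 77) (nat_lit 4) (nat_lit 483) (nat_lit 304) (nat_lit 233)))))) (XT.nd (nat_lit 624) (nat_lit 304) (nat_lit 0) (XT.nd (nat_lit 312) (nat_lit 380) (nat_lit 0) (XT.nd (nat_lit 156) (nat_lit 76) (nat_lit 0) (XT.nd (nat_lit 78) (nat_lit 152) (nat_lit 0) (XT.lf (nat_lit 0) (nat_lit 117762526772) (nat_lit 76) (nat_lit 39387207524) (nat_lit 76) (nat_lit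 38780577024) (nat_lit 76) (nat_lit 4) (nat_lit 77) (nat_lit 5) (nat_lit 77) (nat_lit 4) (nat_lit 484) (nat_lit 304) (nat_lit 232)) (XT.lf (nat_lit 0) (nat_lit 29266632963) (nat_lit 152) (nat_lit 144368300392) (nat_lit 0) (nat_lit 28688044293) (nat_lit 74) (nat_lit 5) (nat_lit 76) (nat_lit 4) (nat_lit 74) (nat_lit 4) (nat_lit 485) (nat_lit 304) (nat_lit 231))) (XT.nd (nat_lit 78) (nat_lit 76) (nat_lit 0) (XT.lf (nat_lit 0) (nat_lit 101218946092) (nat_lit 152) (nat_lit 7054690287) (nat_lit 0) (nat_lit 100639552340) (nat_lit 74) (nat_lit 5) (nat_lit 76) (nat_lit 4) (nat_lit 74) (nat_lit 4) (nat_lit 486) (nat_lit 304) (nat_lit 230)) (XT.lf (nat_lit 0) (nat_lit 141285146695) (nat_lit 76) (nat_lit 37513224660) (nat_lit 76) (nat_lit 36933064163) (nat_lit 73) (nat_lit 4) (nat_lit 74) (nat_lit 5) (nat_lit 74) (nat_lit 4) (nat_lit 487) (nat_lit 304) (nat_lit 229)))) (XT.nd (nat_lit 156) (nat_lit 152) (nat_lit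 0) (XT.nd (nat_lit 78) (nat_lit 76) (nat_lit 0) (XT.lf (nat_lit 0) (nat_lit 37902468806) (nat_lit 152) (nat_lit 147523104454) (nat_lit 0) (nat_lit 37349239539) (nat_lit 71) (nat_lit 5) (nat_lit 73) (nat_lit 4) (nat_lit 71) (nat_lit 4) (nat_lit 488) (nat_lit 304) (nat_lit 228)) (XT.lf (nat_lit 0) (nat_lit 3418750303) (nat_lit 76) (nat_lit 113593277560) (nat_lit 76) (nat_lit 113039385950) (nat_lit 70) (nat_lit 4) (nat_lit 71) (nat_lit 5) (nat_lit 71) (nat_lit 4) (nat_lit 489) (nat_lit 304) (nat_lit 227))) (XT.nd (nat_lit 78) (nat_lit 152) (nat_lit 0) (XT.lf (nat_lit 0) (nat_lit 166673732761) (nat_lit 76) (nat_lit 35728195675) (nat_lit 76) (nat_lit 35173673262) (nat_lit 70) (nat_lit 4) (nat_lit 71) (nat_lit 5) (nat_lit 71) (nat_lit 4) (nat_lit 490) (nat_lit 304) (nat_lit 226)) (XT.lf (nat_lit 0) (nat_lit 47154895460) (nat_lit 152) (nat_lit 151555500838) (nat_lit 0) (nat_lit 46626206719) (nat_lit 68)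 (nat_lit 5) (nat_lit 70) (nat_lit 4) (nat_lit 68) (nat_lit 4) (nat_lit 491) (nat_lit 304) (nat_lit 225))))) (XT.nd (nat_lit 312) (nat_lit 0) (nat_lit 0) (XT.nd (nat_lit 156) (nat_lit 228) (nat_lit 0) (XT.nd (nat_lit 78) (nat_lit 0) (nat_lit 0) (XT.lf (nat_lit 0) (nat_lit 14677670480) (nat_lit 76) (nat_lit 119607509511) (nat_lit 76) (nat_lit 119078275859) (nat_lit 67) (nat_lit 4) (nat_lit 68) (nat_lit 5) (nat_lit 68) (nat_lit 4) (nat_lit 492) (nat_lit 304) (nat_lit 224)) (XT.lf (nat_lit 0) (nat_lit 194145463144) (nat_lit 76) (nat_lit 34027934916) (nat_lit 76) (nat_lit 33498182300) (nat_lit 67) (nat_lit 4) (nat_lit 68) (nat_lit 5) (nat_lit 68) (nat_lit 4) (nat_lit 493) (nat_lit 304) (nat_lit 223))) (XT.nd (nat_lit 78) (nat_lit 76) (nat_lit 0) (XT.lf (nat_lit 0) (nat_lit 57099938777) (nat_lit 152) (nat_lit 156529086757) (nat_lit 0) (nat_lit 56594941762) (nat_lit 65) (nat_lit 5) (nat_lit 67) (nat_lit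 4) (nat_lit 65) (nat_lit 4) (nat_lit 494) (nat_lit 304) (nat_lit 222)) (XT.lf (nat_lit 0) (nat_lit 26571340477) (nat_lit 76) (nat_lit 126505933772) (nat_lit 76) (nat_lit 126000488456) (nat_lit 64) (nat_lit 4) (nat_lit 65) (nat_lit 5) (nat_lit 65) (nat_lit 4) (nat_lit 495) (nat_lit 304) (nat_lit 221)))) (XT.nd (nat_lit 46488) (nat_lit 0) (nat_lit 7372) (XT.nd (nat_lit 46410) (nat_lit 0) (nat_lit 7600) (XT.lf (nat_lit 0) (nat_lit 223938549854) (nat_lit 76) (nat_lit 32408447138) (nat_lit 76) (nat_lit 31902574870) (nat_lit 64) (nat_lit 4) (nat_lit 65) (nat_lit 5) (nat_lit 65) (nat_lit 4) (nat_lit 496) (nat_lit 304) (nat_lit 220)) (XT.lf (nat_lit 0) (nat_lit 3429143216) (nat_lit 152) (nat_lit 4376511428) (nat_lit 0) (nat_lit 3429143216) (nat_lit 164) (nat_lit 5) (nat_lit 166) (nat_lit 4) (nat_lit 164) (nat_lit 4) (nat_lit 410) (nat_lit 305) (nat_lit 305))) (XT.nd (nat_lit 78) (nat_lit 152) (nat_lit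 0) (XT.lf (nat_lit 0) (nat_lit 13850249766) (nat_lit 76) (nat_lit 4649903500) (nat_lit 76) (nat_lit 4521218660) (nat_lit 163) (nat_lit 4) (nat_lit 164) (nat_lit 5) (nat_lit 164) (nat_lit 4) (nat_lit 411) (nat_lit 305) (nat_lit 304)) (XT.lf (nat_lit 0) (nat_lit 7001070473) (nat_lit 152) (nat_lit 9827028811) (nat_lit 0) (nat_lit 6761792540) (nat_lit 161) (nat_lit 5) (nat_lit 163) (nat_lit 4) (nat_lit 161) (nat_lit 4) (nat_lit 412) (nat_lit 305) (nat_lit 303))))))))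
noncomputable def xc39 : XT := (XT.nd (nat_lit 1248) (nat_lit 1520) (nat_lit 0) (XT.nd (nat_lit 624) (nat_lit 760) (nat_lit 0) (XT.nd (nat_lit 312) (nat_lit 456) (nat_lit 0) (XT.nd (nat_lit 156) (nat_lit 228) (nat_lit 0) (XT.nd (nat_lit 78) (nat_lit 152) (nat_lit 0) (XT.lf (nat_lit 0) (nat_lit 13514772385) (nat_lit 76) (nat_lit 5507530783) (nat_lit 76) (nat_lit 5157090047) (nat_lit 160) (nat_lit 4) (nat_lit 161) (nat_lit 5) (nat_lit 161) (nat_lit 4) (nat_lit 413) (nat_lit 305) (nat_lit 302)) (XT.lf (nat_lit 0) (nat_lit 6732815104) (nat_lit 152) (nat_lit 11756690582) (nat_lit 0) (nat_lit 6298234083) (nat_lit 158) (nat_lit 5) (nat_lit 160) (nat_lit 4) (nat_lit 158) (nat_lit 4) (nat_lit 414) (nat_lit 305) (nat_lit 301))) (XT.nd (nat_lit 78) (nat_lit 152) (nat_lit 0) (XT.lf (nat_lit 0) (nat_lit 12332944493) (nat_lit 76) (nat_lit 6807554933) (nat_lit 76) (nat_lit 6276947303) (nat_lit 157) (nat_lit 4)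 (nat_lit 158) (nat_lit 5) (nat_lit 158) (nat_lit 4) (nat_lit 415) (nat_lit 305) (nat_lit 300)) (XT.lf (nat_lit 0) (nat_lit 5994197723) (nat_lit 152) (nat_lit 14672969887) (nat_lit 0) (nat_lit 5401758158) (nat_lit 155) (nat_lit 5) (nat_lit 157) (nat_lit 4) (nat_lit 155) (nat_lit 4) (nat_lit 416) (nat_lit 305) (nat_lit 299)))) (XT.nd (nat_lit 156) (nat_lit 228) (nat_lit 0) (XT.nd (nat_lit 78) (nat_lit 152) (nat_lit 0) (XT.lf (nat_lit 0) (nat_lit 10171504485) (nat_lit 76) (nat_lit 8622703727) (nat_lit 76) (nat_lit 7947312767) (nat_lit 154) (nat_lit 4) (nat_lit 155) (nat_lit 5) (nat_lit 155) (nat_lit 4) (nat_lit 417) (nat_lit 305) (nat_lit 298)) (XT.lf (nat_lit 0) (nat_lit 4718286111) (nat_lit 152) (nat_lit 18721655569) (nat_lit 0) (nat_lit 3999817264) (nat_lit 152) (nat_lit 5) (nat_lit 154) (nat_lit 4) (nat_lit 152) (nat_lit 4) (nat_lit 418) (nat_lit 305) (nat_lit 297))) (XT.nd (nat_lit 78) (nat_lit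 152) (nat_lit 0) (XT.lf (nat_lit 0) (nat_lit 6881954404) (nat_lit 76) (nat_lit 11033157086) (nat_lit 76) (nat_lit 10243031706) (nat_lit 151) (nat_lit 4) (nat_lit 152) (nat_lit 5) (nat_lit 152) (nat_lit 4) (nat_lit 419) (nat_lit 305) (nat_lit 296)) (XT.lf (nat_lit 0) (nat_lit 2829778496) (nat_lit 152) (nat_lit 24065054339) (nat_lit 0) (nat_lit 2012283545) (nat_lit 149) (nat_lit 5) (nat_lit 151) (nat_lit 4) (nat_lit 149) (nat_lit 4) (nat_lit 420) (nat_lit 305) (nat_lit 295))))) (XT.nd (nat_lit 312) (nat_lit 456) (nat_lit 0) (XT.nd (nat_lit 156) (nat_lit 152) (nat_lit 0) (XT.nd (nat_lit 78) (nat_lit 76) (nat_lit 0) (XT.lf (nat_lit 0) (nat_lit 2298820148) (nat_lit 76) (nat_lit 14127500247) (nat_lit 76) (nat_lit 13248105688) (nat_lit 148) (nat_lit 4) (nat_lit 149) (nat_lit 5) (nat_lit 149) (nat_lit 4) (nat_lit 421) (nat_lit 305) (nat_lit 294)) (XT.lf (nat_lit 0) (nat_lit 261129796) (nat_lit 152) (nat_lit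 403030482) (nat_lit 76) (nat_lit 29813483938) (nat_lit 147) (nat_lit 5) (nat_lit 149) (nat_lit 5) (nat_lit 148) (nat_lit 4) (nat_lit 422) (nat_lit 305) (nat_lit 293))) (XT.nd (nat_lit 78) (nat_lit 76) (nat_lit 0) (XT.lf (nat_lit 0) (nat_lit 14300235437) (nat_lit 152) (nat_lit 3641846304) (nat_lit 0) (nat_lit 13353100832) (nat_lit 146) (nat_lit 5) (nat_lit 148) (nat_lit 4) (nat_lit 146) (nat_lit 4) (nat_lit 423) (nat_lit 305) (nat_lit 292)) (XT.lf (nat_lit 0) (nat_lit 25050006993) (nat_lit 76) (nat_lit 4049373116) (nat_lit 76) (nat_lit 3051313550) (nat_lit 145) (nat_lit 4) (nat_lit 146) (nat_lit 5) (nat_lit 146) (nat_lit 4) (nat_lit 424) (nat_lit 305) (nat_lit 291)))) (XT.nd (nat_lit 156) (nat_lit 228) (nat_lit 0) (XT.nd (nat_lit 78) (nat_lit 76) (nat_lit 0) (XT.lf (nat_lit 0) (nat_lit 11443520108) (nat_lit 152) (nat_lit 11138368475) (nat_lit 0) (nat_lit 10446796747) (nat_lit 143) (nat_lit 5) (nat_lit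 145) (nat_lit 4) (nat_lit 143) (nat_lit 4) (nat_lit 425) (nat_lit 305) (nat_lit 290)) (XT.lf (nat_lit 0) (nat_lit 18388765700) (nat_lit 76) (nat_lit 8296884558) (nat_lit 76) (nat_lit 7256170301) (nat_lit 142) (nat_lit 4) (nat_lit 143) (nat_lit 5) (nat_lit 143) (nat_lit 4) (nat_lit 426) (nat_lit 305) (nat_lit 289))) (XT.nd (nat_lit 78) (nat_lit 76) (nat_lit 0) (XT.lf (nat_lit 0) (nat_lit 7715563549) (nat_lit 152) (nat_lit 20485682574) (nat_lit 0) (nat_lit 6684506075) (nat_lit 140) (nat_lit 5) (nat_lit 142) (nat_lit 4) (nat_lit 140) (nat_lit 4) (nat_lit 427) (nat_lit 305) (nat_lit 288)) (XT.lf (nat_lit 0) (nat_lit 9869257198) (nat_lit 76) (nat_lit 13530181759) (nat_lit 76) (nat_lit 12461123294) (nat_lit 139) (nat_lit 4) (nat_lit 140) (nat_lit 5) (nat_lit 140) (nat_lit 4) (nat_lit 428) (nat_lit 305) (nat_lit 287)))))) (XT.nd (nat_lit 624) (nat_lit 836) (nat_lit 0) (XT.nd (nat_lit 312) (nat_lit 304)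 (nat_lit 0) (XT.nd (nat_lit 156) (nat_lit 228) (nat_lit 0) (XT.nd (nat_lit 78) (nat_lit 0) (nat_lit 0) (XT.lf (nat_lit 0) (nat_lit 2999317513) (nat_lit 152) (nat_lit 31930197286) (nat_lit 0) (nat_lit 1946698576) (nat_lit 137) (nat_lit 5) (nat_lit 139) (nat_lit 4) (nat_lit 137) (nat_lit 4) (nat_lit 429) (nat_lit 305) (nat_lit 286)) (XT.lf (nat_lit 0) (nat_lit 19132968357) (nat_lit 152) (nat_lit 735993754) (nat_lit 0) (nat_lit 18047522736) (nat_lit 137) (nat_lit 5) (nat_lit 139) (nat_lit 4) (nat_lit 137) (nat_lit 4) (nat_lit 430) (nat_lit 305) (nat_lit 285))) (XT.nd (nat_lit 78) (nat_lit 152) (nat_lit 0) (XT.lf (nat_lit 0) (nat_lit 32373487816) (nat_lit 76) (nat_lit 3871698489) (nat_lit 76) (nat_lit 2754989360) (nat_lit 136) (nat_lit 4) (nat_lit 137) (nat_lit 5) (nat_lit 137) (nat_lit 4) (nat_lit 431) (nat_lit 305) (nat_lit 284)) (XT.lf (nat_lit 0) (nat_lit 13932127190) (nat_lit 152) (nat_lit 13339316099)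 (nat_lit 0) (nat_lit 12840237762) (nat_lit 134) (nat_lit 5) (nat_lit 136) (nat_lit 4) (nat_lit 134) (nat_lit 4) (nat_lit 432) (nat_lit 305) (nat_lit 283)))) (XT.nd (nat_lit 156) (nat_lit 76) (nat_lit 0) (XT.nd (nat_lit 78) (nat_lit 152) (nat_lit 0) (XT.lf (nat_lit 0) (nat_lit 20668605091) (nat_lit 76) (nat_lit 10859226774) (nat_lit 76) (nat_lit 9740330753) (nat_lit 133) (nat_lit 4) (nat_lit 134) (nat_lit 5) (nat_lit 134) (nat_lit 4) (nat_lit 433) (nat_lit 305) (nat_lit 282)) (XT.lf (nat_lit 0) (nat_lit 7498564519) (nat_lit 152) (nat_lit 28558657916) (nat_lit 0) (nat_lit 6408453484) (nat_lit 131) (nat_lit 5) (nat_lit 133) (nat_lit 4) (nat_lit 131) (nat_lit 4) (nat_lit 434) (nat_lit 305) (nat_lit 281))) (XT.nd (nat_lit 78) (nat_lit 0) (nat_lit 0) (XT.lf (nat_lit 0) (nat_lit 6326695175) (nat_lit 76) (nat_lit 19243460829) (nat_lit 76) (nat_lit 18130020482) (nat_lit 130) (nat_lit 4) (nat_lit 131) (nat_lit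 5) (nat_lit 131) (nat_lit 4) (nat_lit 435) (nat_lit 305) (nat_lit 280)) (XT.lf (nat_lit 0) (nat_lit 43277936965) (nat_lit 76) (nat_lit 1423167492) (nat_lit 76) (nat_lit 287508754) (nat_lit 130) (nat_lit 4) (nat_lit 131) (nat_lit 5) (nat_lit 131) (nat_lit 4) (nat_lit 436) (nat_lit 305) (nat_lit 279))))) (XT.nd (nat_lit 312) (nat_lit 380) (nat_lit 0) (XT.nd (nat_lit 156) (nat_lit 228) (nat_lit 0) (XT.nd (nat_lit 78) (nat_lit 76) (nat_lit 0) (XT.lf (nat_lit 0) (nat_lit 18379262734) (nat_lit 152) (nat_lit 10644150347) (nat_lit 0) (nat_lit 17277530247) (nat_lit 128) (nat_lit 5) (nat_lit 130) (nat_lit 4) (nat_lit 128) (nat_lit 4) (nat_lit 437) (nat_lit 305) (nat_lit 278)) (XT.lf (nat_lit 0) (nat_lit 27476968176) (nat_lit 76) (nat_lit 10657194539) (nat_lit 76) (nat_lit 9536268970) (nat_lit 127) (nat_lit 4) (nat_lit 128) (nat_lit 5) (nat_lit 128) (nat_lit 4) (nat_lit 438) (nat_lit 305) (nat_lit 277)))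 (XT.nd (nat_lit 78) (nat_lit 76) (nat_lit 0) (XT.lf (nat_lit 0) (nat_lit 9751318760) (nat_lit 152) (nat_lit 30668310389) (nat_lit 0) (nat_lit 8666361907) (nat_lit 125) (nat_lit 5) (nat_lit 127) (nat_lit 4) (nat_lit 125) (nat_lit 4) (nat_lit 439) (nat_lit 305) (nat_lit 276)) (XT.lf (nat_lit 0) (nat_lit 8388439646) (nat_lit 76) (nat_lit 21630403389) (nat_lit 76) (nat_lit 20528866831) (nat_lit 124) (nat_lit 4) (nat_lit 125) (nat_lit 5) (nat_lit 125) (nat_lit 4) (nat_lit 440) (nat_lit 305) (nat_lit 275)))) (XT.nd (nat_lit 156) (nat_lit 228) (nat_lit 0) (XT.nd (nat_lit 78) (nat_lit 152) (nat_lit 0) (XT.lf (nat_lit 0) (nat_lit 49824602780) (nat_lit 76) (nat_lit 1682436891) (nat_lit 76) (nat_lit 565110137) (nat_lit 124) (nat_lit 4) (nat_lit 125) (nat_lit 5) (nat_lit 125) (nat_lit 4) (nat_lit 441) (nat_lit 305) (nat_lit 274)) (XT.lf (nat_lit 0) (nat_lit 20377763270) (nat_lit 152) (nat_lit 13948117763)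 (nat_lit 0) (nat_lit 19299320378) (nat_lit 122) (nat_lit 5) (nat_lit 124) (nat_lit 4) (nat_lit 122) (nat_lit 4) (nat_lit 442) (nat_lit 305) (nat_lit 273))) (XT.nd (nat_lit 78) (nat_lit 152) (nat_lit 0) (XT.lf (nat_lit 0) (nat_lit 28788096979) (nat_lit 76) (nat_lit 13774372228) (nat_lit 76) (nat_lit 12682289171) (nat_lit 121) (nat_lit 4) (nat_lit 122) (nat_lit 5) (nat_lit 122) (nat_lit 4) (nat_lit 443) (nat_lit 305) (nat_lit 272)) (XT.lf (nat_lit 0) (nat_lit 8956796510) (nat_lit 152) (nat_lit 40060650397) (nat_lit 0) (nat_lit 7904345376) (nat_lit 119) (nat_lit 5) (nat_lit 121) (nat_lit 4) (nat_lit 119) (nat_lit 4) (nat_lit 444) (nat_lit 305) (nat_lit 271)))))))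
noncomputable def xc40 : XT := (XT.nd (nat_lit 1248) (nat_lit 1368) (nat_lit 0) (XT.nd (nat_lit 624) (nat_lit 684) (nat_lit 0) (XT.nd (nat_lit 312) (nat_lit 380) (nat_lit 0) (XT.nd (nat_lit 156) (nat_lit 228) (nat_lit 0) (XT.nd (nat_lit 78) (nat_lit 0) (nat_lit 0) (XT.lf (nat_lit 0) (nat_lit 3661331861) (nat_lit 76) (nat_lit 28026682709) (nat_lit 76) (nat_lit 26962448687) (nat_lit 118) (nat_lit 4) (nat_lit 119) (nat_lit 5) (nat_lit 119) (nat_lit 4) (nat_lit 445) (nat_lit 305) (nat_lit 270)) (XT.lf (nat_lit 0) (nat_lit 50352325684) (nat_lit 76) (nat_lit 5584815271) (nat_lit 76) (nat_lit 4509359452) (nat_lit 118) (nat_lit 4) (nat_lit 119) (nat_lit 5) (nat_lit 119) (nat_lit 4) (nat_lit 446) (nat_lit 305) (nat_lit 269))) (XT.nd (nat_lit 78) (nat_lit 76) (nat_lit 0) (XT.lf (nat_lit 0) (nat_lit 19042215001) (nat_lit 152) (nat_lit 25238143862) (nat_lit 0) (nat_lit 18007792862) (nat_lit 116) (nat_lit 5)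 (nat_lit 118) (nat_lit 4) (nat_lit 116) (nat_lit 4) (nat_lit 447) (nat_lit 305) (nat_lit 268)) (XT.lf (nat_lit 0) (nat_lit 22656892195) (nat_lit 76) (nat_lit 21294419396) (nat_lit 76) (nat_lit 20250303447) (nat_lit 115) (nat_lit 4) (nat_lit 116) (nat_lit 5) (nat_lit 116) (nat_lit 4) (nat_lit 448) (nat_lit 305) (nat_lit 267)))) (XT.nd (nat_lit 156) (nat_lit 228) (nat_lit 0) (XT.nd (nat_lit 78) (nat_lit 0) (nat_lit 0) (XT.lf (nat_lit 0) (nat_lit 4079482279) (nat_lit 152) (nat_lit 59036483060) (nat_lit 0) (nat_lit 3076293564) (nat_lit 113) (nat_lit 5) (nat_lit 115) (nat_lit 4) (nat_lit 113) (nat_lit 4) (nat_lit 449) (nat_lit 305) (nat_lit 266)) (XT.lf (nat_lit 0) (nat_lit 29721904932) (nat_lit 152) (nat_lit 9794754550) (nat_lit 0) (nat_lit 28710342339) (nat_lit 113) (nat_lit 5) (nat_lit 115) (nat_lit 4) (nat_lit 113) (nat_lit 4) (nat_lit 450) (nat_lit 305) (nat_lit 265))) (XT.nd (nat_lit 78) (nat_lit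 152) (nat_lit 0) (XT.lf (nat_lit 0) (nat_lit 42715713908) (nat_lit 76) (nat_lit 14323825577) (nat_lit 76) (nat_lit 13304287862) (nat_lit 112) (nat_lit 4) (nat_lit 113) (nat_lit 5) (nat_lit 113) (nat_lit 4) (nat_lit 451) (nat_lit 305) (nat_lit 264)) (XT.lf (nat_lit 0) (nat_lit 13228897528) (nat_lit 152) (nat_lit 47051979120) (nat_lit 0) (nat_lit 12250675558) (nat_lit 110) (nat_lit 5) (nat_lit 112) (nat_lit 4) (nat_lit 110) (nat_lit 4) (nat_lit 452) (nat_lit 305) (nat_lit 263))))) (XT.nd (nat_lit 312) (nat_lit 380) (nat_lit 0) (XT.nd (nat_lit 156) (nat_lit 228) (nat_lit 0) (XT.nd (nat_lit 78) (nat_lit 0) (nat_lit 0) (XT.lf (nat_lit 0) (nat_lit 6586218345) (nat_lit 76) (nat_lit 34594839813) (nat_lit 76) (nat_lit 33609728632) (nat_lit 109) (nat_lit 4) (nat_lit 110) (nat_lit 5) (nat_lit 110) (nat_lit 4) (nat_lit 453) (nat_lit 305) (nat_lit 262)) (XT.lf (nat_lit 0) (nat_lit 63988352742) (nat_lit 76)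 (nat_lit 7069964097) (nat_lit 76) (nat_lit 6078291764) (nat_lit 109) (nat_lit 4) (nat_lit 110) (nat_lit 5) (nat_lit 110) (nat_lit 4) (nat_lit 454) (nat_lit 305) (nat_lit 261))) (XT.nd (nat_lit 78) (nat_lit 76) (nat_lit 0) (XT.lf (nat_lit 0) (nat_lit 22898261178) (nat_lit 152) (nat_lit 34695816470) (nat_lit 0) (nat_lit 21947860178) (nat_lit 107) (nat_lit 5) (nat_lit 109) (nat_lit 4) (nat_lit 107) (nat_lit 4) (nat_lit 455) (nat_lit 305) (nat_lit 260)) (XT.lf (nat_lit 0) (nat_lit 24160496904) (nat_lit 76) (nat_lit 29417593604) (nat_lit 76) (nat_lit 28461524834) (nat_lit 106) (nat_lit 4) (nat_lit 107) (nat_lit 5) (nat_lit 107) (nat_lit 4) (nat_lit 456) (nat_lit 305) (nat_lit 259)))) (XT.nd (nat_lit 156) (nat_lit 228) (nat_lit 0) (XT.nd (nat_lit 78) (nat_lit 0) (nat_lit 0) (XT.lf (nat_lit 0) (nat_lit 1470822400) (nat_lit 152) (nat_lit 82616470221) (nat_lit 0) (nat_lit 555139879) (nat_lit 104) (nat_lit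 5) (nat_lit 106) (nat_lit 4) (nat_lit 104) (nat_lit 4) (nat_lit 457) (nat_lit 305) (nat_lit 258)) (XT.lf (nat_lit 0) (nat_lit 33161137254) (nat_lit 152) (nat_lit 21889473237) (nat_lit 0) (nat_lit 32240558700) (nat_lit 104) (nat_lit 5) (nat_lit 106) (nat_lit 4) (nat_lit 104) (nat_lit 4) (nat_lit 458) (nat_lit 305) (nat_lit 257))) (XT.nd (nat_lit 78) (nat_lit 152) (nat_lit 0) (XT.lf (nat_lit 0) (nat_lit 42733108946) (nat_lit 76) (nat_lit 24121764955) (nat_lit 76) (nat_lit 23196523512) (nat_lit 103) (nat_lit 4) (nat_lit 104) (nat_lit 5) (nat_lit 104) (nat_lit 4) (nat_lit 459) (nat_lit 305) (nat_lit 256)) (XT.lf (nat_lit 0) (nat_lit 9541037582) (nat_lit 152) (nat_lit 74718000772) (nat_lit 0) (nat_lit 8655625878) (nat_lit 101) (nat_lit 5) (nat_lit 103) (nat_lit 4) (nat_lit 101) (nat_lit 4) (nat_lit 460) (nat_lit 305) (nat_lit 255)))))) (XT.nd (nat_lit 624) (nat_lit 836) (nat_lit 0) (XT.nd (nat_lit 312)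 (nat_lit 228) (nat_lit 0) (XT.nd (nat_lit 156) (nat_lit 228) (nat_lit 0) (XT.nd (nat_lit 78) (nat_lit 76) (nat_lit 0) (XT.lf (nat_lit 0) (nat_lit 44097599130) (nat_lit 152) (nat_lit 8548238384) (nat_lit 0) (nat_lit 43208159447) (nat_lit 101) (nat_lit 5) (nat_lit 103) (nat_lit 4) (nat_lit 101) (nat_lit 4) (nat_lit 461) (nat_lit 305) (nat_lit 254)) (XT.lf (nat_lit 0) (nat_lit 62444322957) (nat_lit 76) (nat_lit 18676162201) (nat_lit 76) (nat_lit 17782886349) (nat_lit 100) (nat_lit 4) (nat_lit 101) (nat_lit 5) (nat_lit 101) (nat_lit 4) (nat_lit 462) (nat_lit 305) (nat_lit 253))) (XT.nd (nat_lit 78) (nat_lit 76) (nat_lit 0) (XT.lf (nat_lit 0) (nat_lit 18060109734) (nat_lit 152) (nat_lit 66788079715) (nat_lit 0) (nat_lit 17205891307) (nat_lit 98) (nat_lit 5) (nat_lit 100) (nat_lit 4) (nat_lit 98) (nat_lit 4) (nat_lit 463) (nat_lit 305) (nat_lit 252)) (XT.lf (nat_lit 0) (nat_lit 5598692691) (nat_lit 76)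 (nat_lit 50283676079) (nat_lit 76) (nat_lit 49426143824) (nat_lit 97) (nat_lit 4) (nat_lit 98) (nat_lit 5) (nat_lit 98) (nat_lit 4) (nat_lit 464) (nat_lit 305) (nat_lit 251)))) (XT.nd (nat_lit 156) (nat_lit 76) (nat_lit 0) (XT.nd (nat_lit 78) (nat_lit 152) (nat_lit 0) (XT.lf (nat_lit 0) (nat_lit 83447031541) (nat_lit 76) (nat_lit 13047199135) (nat_lit 76) (nat_lit 12186510854) (nat_lit 97) (nat_lit 4) (nat_lit 98) (nat_lit 5) (nat_lit 98) (nat_lit 4) (nat_lit 465) (nat_lit 305) (nat_lit 250)) (XT.lf (nat_lit 0) (nat_lit 27092279751) (nat_lit 152) (nat_lit 58786645763) (nat_lit 0) (nat_lit 26269714017) (nat_lit 95) (nat_lit 5) (nat_lit 97) (nat_lit 4) (nat_lit 95) (nat_lit 4) (nat_lit 466) (nat_lit 305) (nat_lit 249))) (XT.nd (nat_lit 78) (nat_lit 0) (nat_lit 0) (XT.lf (nat_lit 0) (nat_lit 20778062856) (nat_lit 76) (nat_lit 47894898868) (nat_lit 76) (nat_lit 47069606839) (nat_lit 94) (nat_lit 4)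 (nat_lit 95) (nat_lit 5) (nat_lit 95) (nat_lit 4) (nat_lit 467) (nat_lit 305) (nat_lit 248)) (XT.lf (nat_lit 0) (nat_lit 105908119444) (nat_lit 76) (nat_lit 7198629766) (nat_lit 76) (nat_lit 6370741266) (nat_lit 94) (nat_lit 4) (nat_lit 95) (nat_lit 5) (nat_lit 95) (nat_lit 4) (nat_lit 468) (nat_lit 305) (nat_lit 247))))) (XT.nd (nat_lit 312) (nat_lit 456) (nat_lit 0) (XT.nd (nat_lit 156) (nat_lit 152) (nat_lit 0) (XT.nd (nat_lit 78) (nat_lit 76) (nat_lit 0) (XT.lf (nat_lit 0) (nat_lit 36707466527) (nat_lit 152) (nat_lit 50671247065) (nat_lit 0) (nat_lit 35916646214) (nat_lit 92) (nat_lit 5) (nat_lit 94) (nat_lit 4) (nat_lit 92) (nat_lit 4) (nat_lit 469) (nat_lit 305) (nat_lit 246)) (XT.lf (nat_lit 0) (nat_lit 36818632780) (nat_lit 76) (nat_lit 45618865272) (nat_lit 76) (nat_lit 44825802030) (nat_lit 91) (nat_lit 4) (nat_lit 92) (nat_lit 5) (nat_lit 92) (nat_lit 4) (nat_lit 470) (nat_lit 305) (nat_lit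 245))) (XT.nd (nat_lit 78) (nat_lit 152) (nat_lit 0) (XT.lf (nat_lit 0) (nat_lit 130009969960) (nat_lit 76) (nat_lit 1091253579) (nat_lit 76) (nat_lit 296054214) (nat_lit 91) (nat_lit 4) (nat_lit 92) (nat_lit 5) (nat_lit 92) (nat_lit 4) (nat_lit 471) (nat_lit 305) (nat_lit 244)) (XT.lf (nat_lit 0) (nat_lit 46981898950) (nat_lit 152) (nat_lit 42396721286) (nat_lit 0) (nat_lit 46222628694) (nat_lit 89) (nat_lit 5) (nat_lit 91) (nat_lit 4) (nat_lit 89) (nat_lit 4) (nat_lit 472) (nat_lit 305) (nat_lit 243)))) (XT.nd (nat_lit 156) (nat_lit 228) (nat_lit 0) (XT.nd (nat_lit 78) (nat_lit 152) (nat_lit 0) (XT.lf (nat_lit 0) (nat_lit 53841611298) (nat_lit 76) (nat_lit 43450385208) (nat_lit 76) (nat_lit 42689269689) (nat_lit 88) (nat_lit 4) (nat_lit 89) (nat_lit 5) (nat_lit 89) (nat_lit 4) (nat_lit 473) (nat_lit 305) (nat_lit 242)) (XT.lf (nat_lit 0) (nat_lit 6155544059) (nat_lit 152) (nat_lit 132951646280)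 (nat_lit 0) (nat_lit 5428998428) (nat_lit 86) (nat_lit 5) (nat_lit 88) (nat_lit 4) (nat_lit 86) (nat_lit 4) (nat_lit 474) (nat_lit 305) (nat_lit 241))) (XT.nd (nat_lit 78) (nat_lit 228) (nat_lit 0) (XT.lf (nat_lit 0) (nat_lit 57998809071) (nat_lit 152) (nat_lit 33914845262) (nat_lit 0) (nat_lit 57270669432) (nat_lit 86) (nat_lit 5) (nat_lit 88) (nat_lit 4) (nat_lit 86) (nat_lit 4) (nat_lit 475) (nat_lit 305) (nat_lit 240)) (XT.nd (nat_lit 78) (nat_lit 152) (nat_lit 0) (XT.lf (nat_lit 0) (nat_lit 71979088378) (nat_lit 76) (nat_lit 41384484061) (nat_lit 76) (nat_lit 40654826319) (nat_lit 85) (nat_lit 4) (nat_lit 86) (nat_lit 5) (nat_lit 86) (nat_lit 4) (nat_lit 476) (nat_lit 305) (nat_lit 239)) (XT.lf (nat_lit 0) (nat_lit 12991103055) (nat_lit 152) (nat_lit 133749295646) (nat_lit 0) (nat_lit 12294813956) (nat_lit 83) (nat_lit 5) (nat_lit 85) (nat_lit 4) (nat_lit 83) (nat_lit 4) (nat_lit 477) (nat_lit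 305) (nat_lit 238))))))))
noncomputable def xc41 : XT := (XT.nd (nat_lit 48672) (nat_lit 0) (nat_lit 3648) (XT.nd (nat_lit 1248) (nat_lit 228) (nat_lit 0) (XT.nd (nat_lit 624) (nat_lit 684) (nat_lit 0) (XT.nd (nat_lit 312) (nat_lit 304) (nat_lit 0) (XT.nd (nat_lit 156) (nat_lit 152) (nat_lit 0) (XT.nd (nat_lit 78) (nat_lit 76) (nat_lit 0) (XT.lf (nat_lit 0) (nat_lit 69849193136) (nat_lit 152) (nat_lit 25173951193) (nat_lit 0) (nat_lit 69151592643) (nat_lit 83) (nat_lit 5) (nat_lit 85) (nat_lit 4) (nat_lit 83) (nat_lit 4) (nat_lit 478) (nat_lit 305) (nat_lit 237)) (XT.lf (nat_lit 0) (nat_lit 91375219368) (nat_lit 76) (nat_lit 39416398046) (nat_lit 76) (nat_lit 38717548606) (nat_lit 82) (nat_lit 4) (nat_lit 83) (nat_lit 5) (nat_lit 83) (nat_lit 4) (nat_lit 479) (nat_lit 305) (nat_lit 236))) (XT.nd (nat_lit 78) (nat_lit 0) (nat_lit 0) (XT.lf (nat_lit 0) (nat_lit 20231450737) (nat_lit 152) (nat_lit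 135239253205) (nat_lit 0) (nat_lit 19564747010) (nat_lit 80) (nat_lit 5) (nat_lit 82) (nat_lit 4) (nat_lit 80) (nat_lit 4) (nat_lit 480) (nat_lit 305) (nat_lit 235)) (XT.lf (nat_lit 0) (nat_lit 82632647734) (nat_lit 152) (nat_lit 16118506023) (nat_lit 0) (nat_lit 81964865119) (nat_lit 80) (nat_lit 5) (nat_lit 82) (nat_lit 4) (nat_lit 80) (nat_lit 4) (nat_lit 481) (nat_lit 305) (nat_lit 234)))) (XT.nd (nat_lit 156) (nat_lit 76) (nat_lit 0) (XT.nd (nat_lit 78) (nat_lit 152) (nat_lit 0) (XT.lf (nat_lit 0) (nat_lit 112187528140) (nat_lit 76) (nat_lit 37541568782) (nat_lit 76) (nat_lit 36872758656) (nat_lit 79) (nat_lit 4) (nat_lit 80) (nat_lit 5) (nat_lit 80) (nat_lit 4) (nat_lit 482) (nat_lit 305) (nat_lit 233)) (XT.lf (nat_lit 0) (nat_lit 27932236935) (nat_lit 152) (nat_lit 137463477381) (nat_lit 0) (nat_lit 27294342927) (nat_lit 77) (nat_lit 5) (nat_lit 79) (nat_lit 4) (nat_lit 77) (nat_lit 4) (nat_lit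 483) (nat_lit 305) (nat_lit 232))) (XT.nd (nat_lit 78) (nat_lit 76) (nat_lit 0) (XT.lf (nat_lit 0) (nat_lit 96458289065) (nat_lit 152) (nat_lit 6688650239) (nat_lit 0) (nat_lit 95819507453) (nat_lit 77) (nat_lit 5) (nat_lit 79) (nat_lit 4) (nat_lit 77) (nat_lit 4) (nat_lit 484) (nat_lit 305) (nat_lit 231)) (XT.lf (nat_lit 0) (nat_lit 134588341317) (nat_lit 76) (nat_lit 35755637318) (nat_lit 76) (nat_lit 35116010370) (nat_lit 76) (nat_lit 4) (nat_lit 77) (nat_lit 5) (nat_lit 77) (nat_lit 4) (nat_lit 485) (nat_lit 305) (nat_lit 230))))) (XT.nd (nat_lit 312) (nat_lit 304) (nat_lit 0) (XT.nd (nat_lit 156) (nat_lit 152) (nat_lit 0) (XT.nd (nat_lit 78) (nat_lit 76) (nat_lit 0) (XT.lf (nat_lit 0) (nat_lit 36154128832) (nat_lit 152) (nat_lit 140469595923) (nat_lit 0) (nat_lit 35544193565) (nat_lit 74) (nat_lit 5) (nat_lit 76) (nat_lit 4) (nat_lit 74) (nat_lit 4) (nat_lit 486) (nat_lit 305) (nat_lit 229))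 (XT.lf (nat_lit 0) (nat_lit 3285463391) (nat_lit 76) (nat_lit 108211595982) (nat_lit 76) (nat_lit 107600930482) (nat_lit 73) (nat_lit 4) (nat_lit 74) (nat_lit 5) (nat_lit 74) (nat_lit 4) (nat_lit 487) (nat_lit 305) (nat_lit 228))) (XT.nd (nat_lit 78) (nat_lit 152) (nat_lit 0) (XT.lf (nat_lit 0) (nat_lit 158766366992) (nat_lit 76) (nat_lit 34054437761) (nat_lit 76) (nat_lit 33443076800) (nat_lit 73) (nat_lit 4) (nat_lit 74) (nat_lit 5) (nat_lit 74) (nat_lit 4) (nat_lit 488) (nat_lit 305) (nat_lit 227)) (XT.lf (nat_lit 0) (nat_lit 44963360162) (nat_lit 152) (nat_lit 144311424057) (nat_lit 0) (nat_lit 44380480825) (nat_lit 71) (nat_lit 5) (nat_lit 73) (nat_lit 4) (nat_lit 71) (nat_lit 4) (nat_lit 489) (nat_lit 305) (nat_lit 226)))) (XT.nd (nat_lit 156) (nat_lit 228) (nat_lit 0) (XT.nd (nat_lit 78) (nat_lit 0) (nat_lit 0) (XT.lf (nat_lit 0) (nat_lit 14006751894) (nat_lit 76) (nat_lit 113938295892)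 (nat_lit 76) (nat_lit 113354815790) (nat_lit 70) (nat_lit 4) (nat_lit 71) (nat_lit 5) (nat_lit 71) (nat_lit 4) (nat_lit 490) (nat_lit 305) (nat_lit 225)) (XT.lf (nat_lit 0) (nat_lit 184928432805) (nat_lit 76) (nat_lit 32433990653) (nat_lit 76) (nat_lit 31849938394) (nat_lit 70) (nat_lit 4) (nat_lit 71) (nat_lit 5) (nat_lit 71) (nat_lit 4) (nat_lit 491) (nat_lit 305) (nat_lit 224))) (XT.nd (nat_lit 78) (nat_lit 76) (nat_lit 0) (XT.lf (nat_lit 0) (nat_lit 54432334649) (nat_lit 152) (nat_lit 149049538359) (nat_lit 0) (nat_lit 53875575439) (nat_lit 68) (nat_lit 5) (nat_lit 70) (nat_lit 4) (nat_lit 68) (nat_lit 4) (nat_lit 492) (nat_lit 305) (nat_lit 223)) (XT.lf (nat_lit 0) (nat_lit 25332650598) (nat_lit 76) (nat_lit 120507107768) (nat_lit 76) (nat_lit 119949854308) (nat_lit 67) (nat_lit 4) (nat_lit 68) (nat_lit 5) (nat_lit 68) (nat_lit 4) (nat_lit 493) (nat_lit 305) (nat_lit 222)))))) (XT.nd (nat_lit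 46800) (nat_lit 0) (nat_lit 6536) (XT.nd (nat_lit 46488) (nat_lit 0) (nat_lit 7372) (XT.nd (nat_lit 156) (nat_lit 76) (nat_lit 0) (XT.nd (nat_lit 78) (nat_lit 152) (nat_lit 0) (XT.lf (nat_lit 0) (nat_lit 213301399723) (nat_lit 76) (nat_lit 30890496215) (nat_lit 76) (nat_lit 30332772040) (nat_lit 67) (nat_lit 4) (nat_lit 68) (nat_lit 5) (nat_lit 68) (nat_lit 4) (nat_lit 494) (nat_lit 305) (nat_lit 221)) (XT.lf (nat_lit 0) (nat_lit 64640289409) (nat_lit 152) (nat_lit 154751911991) (nat_lit 0) (nat_lit 64108696576) (nat_lit 65) (nat_lit 5) (nat_lit 67) (nat_lit 4) (nat_lit 65) (nat_lit 4) (nat_lit 495) (nat_lit 305) (nat_lit 220))) (XT.nd (nat_lit 46254) (nat_lit 0) (nat_lit 7828) (XT.lf (nat_lit 0) (nat_lit 37348639361) (nat_lit 76) (nat_lit 127992261397) (nat_lit 76) (nat_lit 127460261943) (nat_lit 64) (nat_lit 4) (nat_lit 65) (nat_lit 5) (nat_lit 65) (nat_lit 4) (nat_lit 496) (nat_lit 305) (nat_lit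 219)) (XT.lf (nat_lit 0) (nat_lit 3335680666) (nat_lit 152) (nat_lit 4035096627) (nat_lit 0) (nat_lit 3335680666) (nat_lit 167) (nat_lit 5) (nat_lit 169) (nat_lit 4) (nat_lit 167) (nat_lit 4) (nat_lit 408) (nat_lit 306) (nat_lit 306)))) (XT.nd (nat_lit 156) (nat_lit 228) (nat_lit 0) (XT.nd (nat_lit 78) (nat_lit 152) (nat_lit 0) (XT.lf (nat_lit 0) (nat_lit 13458985632) (nat_lit 76) (nat_lit 4310390181) (nat_lit 76) (nat_lit 4168515145) (nat_lit 166) (nat_lit 4) (nat_lit 167) (nat_lit 5) (nat_lit 167) (nat_lit 4) (nat_lit 409) (nat_lit 306) (nat_lit 305)) (XT.lf (nat_lit 0) (nat_lit 6812472766) (nat_lit 152) (nat_lit 9117500748) (nat_lit 0) (nat_lit 6548668844) (nat_lit 164) (nat_lit 5) (nat_lit 166) (nat_lit 4) (nat_lit 164) (nat_lit 4) (nat_lit 410) (nat_lit 306) (nat_lit 304))) (XT.nd (nat_lit 78) (nat_lit 152) (nat_lit 0) (XT.lf (nat_lit 0) (nat_lit 13115121374) (nat_lit 76) (nat_lit 5155423909)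 (nat_lit 76) (nat_lit 4769062997) (nat_lit 163) (nat_lit 4) (nat_lit 164) (nat_lit 5) (nat_lit 164) (nat_lit 4) (nat_lit 411) (nat_lit 306) (nat_lit 303)) (XT.lf (nat_lit 0) (nat_lit 6560270369) (nat_lit 152) (nat_lit 10976950909) (nat_lit 0) (nat_lit 6081144793) (nat_lit 161) (nat_lit 5) (nat_lit 163) (nat_lit 4) (nat_lit 161) (nat_lit 4) (nat_lit 412) (nat_lit 306) (nat_lit 302))))) (XT.nd (nat_lit 312) (nat_lit 380) (nat_lit 0) (XT.nd (nat_lit 156) (nat_lit 228) (nat_lit 0) (XT.nd (nat_lit 78) (nat_lit 152) (nat_lit 0) (XT.lf (nat_lit 0) (nat_lit 11967946840) (nat_lit 76) (nat_lit 6417362608) (nat_lit 76) (nat_lit 5832367696) (nat_lit 160) (nat_lit 4) (nat_lit 161) (nat_lit 5) (nat_lit 161) (nat_lit 4) (nat_lit 413) (nat_lit 306) (nat_lit 301)) (XT.lf (nat_lit 0) (nat_lit 5858562764) (nat_lit 152) (nat_lit 13773619327) (nat_lit 0) (nat_lit 5205398144) (nat_lit 158) (nat_lit 5) (nat_lit 160)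 (nat_lit 4) (nat_lit 158) (nat_lit 4) (nat_lit 414) (nat_lit 306) (nat_lit 300))) (XT.nd (nat_lit 78) (nat_lit 152) (nat_lit 0) (XT.lf (nat_lit 0) (nat_lit 9890201014) (nat_lit 76) (nat_lit 8166100985) (nat_lit 76) (nat_lit 7421482452) (nat_lit 157) (nat_lit 4) (nat_lit 158) (nat_lit 5) (nat_lit 158) (nat_lit 4) (nat_lit 415) (nat_lit 306) (nat_lit 299)) (XT.lf (nat_lit 0) (nat_lit 4643866998) (nat_lit 152) (nat_lit 17646656257) (nat_lit 0) (nat_lit 3851755095) (nat_lit 155) (nat_lit 5) (nat_lit 157) (nat_lit 4) (nat_lit 155) (nat_lit 4) (nat_lit 416) (nat_lit 306) (nat_lit 298)))) (XT.nd (nat_lit 156) (nat_lit 152) (nat_lit 0) (XT.nd (nat_lit 78) (nat_lit 152) (nat_lit 0) (XT.lf (nat_lit 0) (nat_lit 6740157761) (nat_lit 76) (nat_lit 10478543912) (nat_lit 76) (nat_lit 9607430680) (nat_lit 154) (nat_lit 4) (nat_lit 155) (nat_lit 5) (nat_lit 155) (nat_lit 4) (nat_lit 417) (nat_lit 306) (nat_lit 297))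 (XT.lf (nat_lit 0) (nat_lit 2844690957) (nat_lit 152) (nat_lit 22750903111) (nat_lit 0) (nat_lit 1943402774) (nat_lit 152) (nat_lit 5) (nat_lit 154) (nat_lit 4) (nat_lit 152) (nat_lit 4) (nat_lit 418) (nat_lit 306) (nat_lit 296))) (XT.nd (nat_lit 78) (nat_lit 76) (nat_lit 0) (XT.lf (nat_lit 0) (nat_lit 2359962715) (nat_lit 76) (nat_lit 13439526128) (nat_lit 76) (nat_lit 12469993627) (nat_lit 151) (nat_lit 4) (nat_lit 152) (nat_lit 5) (nat_lit 152) (nat_lit 4) (nat_lit 419) (nat_lit 306) (nat_lit 295)) (XT.lf (nat_lit 0) (nat_lit 394133594) (nat_lit 152) (nat_lit 226553220) (nat_lit 76) (nat_lit 28413505277) (nat_lit 150) (nat_lit 5) (nat_lit 152) (nat_lit 5) (nat_lit 151) (nat_lit 4) (nat_lit 420) (nat_lit 306) (nat_lit 294))))))) (XT.nd (nat_lit 1248) (nat_lit 1368) (nat_lit 0) (XT.nd (nat_lit 624) (nat_lit 760) (nat_lit 0) (XT.nd (nat_lit 312) (nat_lit 380) (nat_lit 0) (XT.nd (nat_lit 156) (nat_lit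 228) (nat_lit 0) (XT.nd (nat_lit 78) (nat_lit 76) (nat_lit 0) (XT.lf (nat_lit 0) (nat_lit 13770105623) (nat_lit 152) (nat_lit 3316534946) (nat_lit 0) (nat_lit 12725889720) (nat_lit 149) (nat_lit 5) (nat_lit 151) (nat_lit 4) (nat_lit 149) (nat_lit 4) (nat_lit 421) (nat_lit 306) (nat_lit 293)) (XT.lf (nat_lit 0) (nat_lit 24011472426) (nat_lit 76) (nat_lit 3857972601) (nat_lit 76) (nat_lit 2757611929) (nat_lit 148) (nat_lit 4) (nat_lit 149) (nat_lit 5) (nat_lit 149) (nat_lit 4) (nat_lit 422) (nat_lit 306) (nat_lit 292))) (XT.nd (nat_lit 78) (nat_lit 76) (nat_lit 0) (XT.lf (nat_lit 0) (nat_lit 11046902397) (nat_lit 152) (nat_lit 10467973333) (nat_lit 0) (nat_lit 9948014891) (nat_lit 146) (nat_lit 5) (nat_lit 148) (nat_lit 4) (nat_lit 146) (nat_lit 4) (nat_lit 423) (nat_lit 306) (nat_lit 291)) (XT.lf (nat_lit 0) (nat_lit 17655498959) (nat_lit 76) (nat_lit 7912106158) (nat_lit 76) (nat_lit 6764718690)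 (nat_lit 145) (nat_lit 4) (nat_lit 146) (nat_lit 5) (nat_lit 146) (nat_lit 4) (nat_lit 424) (nat_lit 306) (nat_lit 290)))) (XT.nd (nat_lit 156) (nat_lit 152) (nat_lit 0) (XT.nd (nat_lit 78) (nat_lit 76) (nat_lit 0) (XT.lf (nat_lit 0) (nat_lit 7493431114) (nat_lit 152) (nat_lit 19380869746) (nat_lit 0) (nat_lit 6356690249) (nat_lit 143) (nat_lit 5) (nat_lit 145) (nat_lit 4) (nat_lit 143) (nat_lit 4) (nat_lit 425) (nat_lit 306) (nat_lit 289)) (XT.lf (nat_lit 0) (nat_lit 9530939854) (nat_lit 76) (nat_lit 12903441225) (nat_lit 76) (nat_lit 11724804268) (nat_lit 142) (nat_lit 4) (nat_lit 143) (nat_lit 5) (nat_lit 143) (nat_lit 4) (nat_lit 426) (nat_lit 306) (nat_lit 288))) (XT.nd (nat_lit 78) (nat_lit 0) (nat_lit 0) (XT.lf (nat_lit 0) (nat_lit 2998328161) (nat_lit 152) (nat_lit 30290042719) (nat_lit 0) (nat_lit 1837815783) (nat_lit 140) (nat_lit 5) (nat_lit 142) (nat_lit 4) (nat_lit 140) (nat_lit 4)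 (nat_lit 427) (nat_lit 306) (nat_lit 287)) (XT.lf (nat_lit 0) (nat_lit 18365325625) (nat_lit 152) (nat_lit 582893159) (nat_lit 0) (nat_lit 17168621829) (nat_lit 140) (nat_lit 5) (nat_lit 142) (nat_lit 4) (nat_lit 140) (nat_lit 4) (nat_lit 428) (nat_lit 306) (nat_lit 286))))) (XT.nd (nat_lit 312) (nat_lit 304) (nat_lit 0) (XT.nd (nat_lit 156) (nat_lit 228) (nat_lit 0) (XT.nd (nat_lit 78) (nat_lit 152) (nat_lit 0) (XT.lf (nat_lit 0) (nat_lit 30952260157) (nat_lit 76) (nat_lit 3713833931) (nat_lit 76) (nat_lit 2482662116) (nat_lit 139) (nat_lit 4) (nat_lit 140) (nat_lit 5) (nat_lit 140) (nat_lit 4) (nat_lit 429) (nat_lit 306) (nat_lit 285)) (XT.lf (nat_lit 0) (nat_lit 13408173766) (nat_lit 152) (nat_lit 12594540086) (nat_lit 0) (nat_lit 12204365672) (nat_lit 137) (nat_lit 5) (nat_lit 139) (nat_lit 4) (nat_lit 137) (nat_lit 4) (nat_lit 430) (nat_lit 306) (nat_lit 284))) (XT.nd (nat_lit 78) (nat_lit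 152) (nat_lit 0) (XT.lf (nat_lit 0) (nat_lit 19796205982) (nat_lit 76) (nat_lit 10372856834) (nat_lit 76) (nat_lit 9139273971) (nat_lit 136) (nat_lit 4) (nat_lit 137) (nat_lit 5) (nat_lit 137) (nat_lit 4) (nat_lit 431) (nat_lit 306) (nat_lit 283)) (XT.lf (nat_lit 0) (nat_lit 7276800877) (nat_lit 152) (nat_lit 27096840599) (nat_lit 0) (nat_lit 6074953460) (nat_lit 134) (nat_lit 5) (nat_lit 136) (nat_lit 4) (nat_lit 134) (nat_lit 4) (nat_lit 432) (nat_lit 306) (nat_lit 282)))) (XT.nd (nat_lit 156) (nat_lit 228) (nat_lit 0) (XT.nd (nat_lit 78) (nat_lit 0) (nat_lit 0) (XT.lf (nat_lit 0) (nat_lit 6129487635) (nat_lit 76) (nat_lit 18361125730) (nat_lit 76) (nat_lit 17133557748) (nat_lit 133) (nat_lit 4) (nat_lit 134) (nat_lit 5) (nat_lit 134) (nat_lit 4) (nat_lit 433) (nat_lit 306) (nat_lit 281)) (XT.lf (nat_lit 0) (nat_lit 41320016749) (nat_lit 76) (nat_lit 1391623461) (nat_lit 76) (nat_lit 139559702)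 (nat_lit 133) (nat_lit 4) (nat_lit 134) (nat_lit 5) (nat_lit 134) (nat_lit 4) (nat_lit 434) (nat_lit 306) (nat_lit 280))) (XT.nd (nat_lit 78) (nat_lit 76) (nat_lit 0) (XT.lf (nat_lit 0) (nat_lit 17636054211) (nat_lit 152) (nat_lit 10043383286) (nat_lit 0) (nat_lit 16421394144) (nat_lit 131) (nat_lit 5) (nat_lit 133) (nat_lit 4) (nat_lit 131) (nat_lit 4) (nat_lit 435) (nat_lit 306) (nat_lit 279)) (XT.lf (nat_lit 0) (nat_lit 26264572822) (nat_lit 76) (nat_lit 10188115842) (nat_lit 76) (nat_lit 8952295402) (nat_lit 130) (nat_lit 4) (nat_lit 131) (nat_lit 5) (nat_lit 131) (nat_lit 4) (nat_lit 436) (nat_lit 306) (nat_lit 278)))))) (XT.nd (nat_lit 624) (nat_lit 684) (nat_lit 0) (XT.nd (nat_lit 312) (nat_lit 304) (nat_lit 0) (XT.nd (nat_lit 156) (nat_lit 152) (nat_lit 0) (XT.nd (nat_lit 78) (nat_lit 76) (nat_lit 0) (XT.lf (nat_lit 0) (nat_lit 9414435792) (nat_lit 152) (nat_lit 29120239989) (nat_lit 0)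 (nat_lit 8218270862) (nat_lit 128) (nat_lit 5) (nat_lit 130) (nat_lit 4) (nat_lit 128) (nat_lit 4) (nat_lit 437) (nat_lit 306) (nat_lit 277)) (XT.lf (nat_lit 0) (nat_lit 8078720702) (nat_lit 76) (nat_lit 20640336150) (nat_lit 76) (nat_lit 19425892094) (nat_lit 127) (nat_lit 4) (nat_lit 128) (nat_lit 5) (nat_lit 128) (nat_lit 4) (nat_lit 438) (nat_lit 306) (nat_lit 276))) (XT.nd (nat_lit 78) (nat_lit 152) (nat_lit 0) (XT.lf (nat_lit 0) (nat_lit 47540930330) (nat_lit 76) (nat_lit 1643840347) (nat_lit 76) (nat_lit 411987600) (nat_lit 127) (nat_lit 4) (nat_lit 128) (nat_lit 5) (nat_lit 128) (nat_lit 4) (nat_lit 439) (nat_lit 306) (nat_lit 275)) (XT.lf (nat_lit 0) (nat_lit 19531011634) (nat_lit 152) (nat_lit 13202644282) (nat_lit 0) (nat_lit 18342028346) (nat_lit 125) (nat_lit 5) (nat_lit 127) (nat_lit 4) (nat_lit 125) (nat_lit 4) (nat_lit 440) (nat_lit 306) (nat_lit 274)))) (XT.nd (nat_lit 156) (nat_lit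 76) (nat_lit 0) (XT.nd (nat_lit 78) (nat_lit 152) (nat_lit 0) (XT.lf (nat_lit 0) (nat_lit 27500506454) (nat_lit 76) (nat_lit 13160768005) (nat_lit 76) (nat_lit 11956746435) (nat_lit 124) (nat_lit 4) (nat_lit 125) (nat_lit 5) (nat_lit 125) (nat_lit 4) (nat_lit 441) (nat_lit 306) (nat_lit 273)) (XT.lf (nat_lit 0) (nat_lit 8649262195) (nat_lit 152) (nat_lit 38076841667) (nat_lit 0) (nat_lit 7488934819) (nat_lit 122) (nat_lit 5) (nat_lit 124) (nat_lit 4) (nat_lit 122) (nat_lit 4) (nat_lit 442) (nat_lit 306) (nat_lit 272))) (XT.nd (nat_lit 78) (nat_lit 0) (nat_lit 0) (XT.lf (nat_lit 0) (nat_lit 3565060464) (nat_lit 76) (nat_lit 26734779793) (nat_lit 76) (nat_lit 25561461784) (nat_lit 121) (nat_lit 4) (nat_lit 122) (nat_lit 5) (nat_lit 122) (nat_lit 4) (nat_lit 443) (nat_lit 306) (nat_lit 271)) (XT.lf (nat_lit 0) (nat_lit 48032103037) (nat_lit 76) (nat_lit 5362686723) (nat_lit 76) (nat_lit 4176996682)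 (nat_lit 121) (nat_lit 4) (nat_lit 122) (nat_lit 5) (nat_lit 122) (nat_lit 4) (nat_lit 444) (nat_lit 306) (nat_lit 270))))) (XT.nd (nat_lit 312) (nat_lit 304) (nat_lit 0) (XT.nd (nat_lit 156) (nat_lit 152) (nat_lit 0) (XT.nd (nat_lit 78) (nat_lit 76) (nat_lit 0) (XT.lf (nat_lit 0) (nat_lit 18250336294) (nat_lit 152) (nat_lit 23965374719) (nat_lit 0) (nat_lit 17109885886) (nat_lit 119) (nat_lit 5) (nat_lit 121) (nat_lit 4) (nat_lit 119) (nat_lit 4) (nat_lit 445) (nat_lit 306) (nat_lit 269)) (XT.lf (nat_lit 0) (nat_lit 21650798454) (nat_lit 76) (nat_lit 20324100800) (nat_lit 76) (nat_lit 19172962966) (nat_lit 118) (nat_lit 4) (nat_lit 119) (nat_lit 5) (nat_lit 119) (nat_lit 4) (nat_lit 446) (nat_lit 306) (nat_lit 268))) (XT.nd (nat_lit 78) (nat_lit 0) (nat_lit 0) (XT.lf (nat_lit 0) (nat_lit 3995530706) (nat_lit 152) (nat_lit 56158535065) (nat_lit 0) (nat_lit 2889515148) (nat_lit 116) (nat_lit 5)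 (nat_lit 118) (nat_lit 4) (nat_lit 116) (nat_lit 4) (nat_lit 447) (nat_lit 306) (nat_lit 267)) (XT.lf (nat_lit 0) (nat_lit 28417297771) (nat_lit 152) (nat_lit 9262062926) (nat_lit 0) (nat_lit 27302050012) (nat_lit 116) (nat_lit 5) (nat_lit 118) (nat_lit 4) (nat_lit 116) (nat_lit 4) (nat_lit 448) (nat_lit 306) (nat_lit 266)))) (XT.nd (nat_lit 156) (nat_lit 76) (nat_lit 0) (XT.nd (nat_lit 78) (nat_lit 152) (nat_lit 0) (XT.lf (nat_lit 0) (nat_lit 40749692866) (nat_lit 76) (nat_lit 13685854863) (nat_lit 76) (nat_lit 12561814533) (nat_lit 115) (nat_lit 4) (nat_lit 116) (nat_lit 5) (nat_lit 116) (nat_lit 4) (nat_lit 449) (nat_lit 306) (nat_lit 265)) (XT.lf (nat_lit 0) (nat_lit 12705129088) (nat_lit 152) (nat_lit 44749019760) (nat_lit 0) (nat_lit 11626639366) (nat_lit 113) (nat_lit 5) (nat_lit 115) (nat_lit 4) (nat_lit 113) (nat_lit 4) (nat_lit 450) (nat_lit 306) (nat_lit 264))) (XT.nd (nat_lit 78) (nat_lit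 0) (nat_lit 0) (XT.lf (nat_lit 0) (nat_lit 6336690390) (nat_lit 76) (nat_lit 32990883945) (nat_lit 76) (nat_lit 31904798869) (nat_lit 112) (nat_lit 4) (nat_lit 113) (nat_lit 5) (nat_lit 113) (nat_lit 4) (nat_lit 451) (nat_lit 306) (nat_lit 263)) (XT.lf (nat_lit 0) (nat_lit 61005056203) (nat_lit 76) (nat_lit 6777367937) (nat_lit 76) (nat_lit 5684049190) (nat_lit 112) (nat_lit 4) (nat_lit 113) (nat_lit 5) (nat_lit 113) (nat_lit 4) (nat_lit 452) (nat_lit 306) (nat_lit 262))))))))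
noncomputable def xc42 : XT := (XT.nd (nat_lit 1248) (nat_lit 1292) (nat_lit 0) (XT.nd (nat_lit 624) (nat_lit 684) (nat_lit 0) (XT.nd (nat_lit 312) (nat_lit 304) (nat_lit 0) (XT.nd (nat_lit 156) (nat_lit 152) (nat_lit 0) (XT.nd (nat_lit 78) (nat_lit 76) (nat_lit 0) (XT.lf (nat_lit 0) (nat_lit 21909914109) (nat_lit 152) (nat_lit 32985140115) (nat_lit 0) (nat_lit 20862097007) (nat_lit 110) (nat_lit 5) (nat_lit 112) (nat_lit 4) (nat_lit 110) (nat_lit 4) (nat_lit 453) (nat_lit 306) (nat_lit 261)) (XT.lf (nat_lit 0) (nat_lit 23070137578) (nat_lit 76) (nat_lit 28059879534) (nat_lit 76) (nat_lit 27005813715) (nat_lit 109) (nat_lit 4) (nat_lit 110) (nat_lit 5) (nat_lit 110) (nat_lit 4) (nat_lit 454) (nat_lit 306) (nat_lit 260))) (XT.nd (nat_lit 78) (nat_lit 0) (nat_lit 0) (XT.lf (nat_lit 0) (nat_lit 1498488919) (nat_lit 152) (nat_lit 78627162140) (nat_lit 0) (nat_lit 488948940) (nat_lit 107) (nat_lit 5)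 (nat_lit 109) (nat_lit 4) (nat_lit 107) (nat_lit 4) (nat_lit 455) (nat_lit 306) (nat_lit 259)) (XT.lf (nat_lit 0) (nat_lit 31679982140) (nat_lit 152) (nat_lit 20792167897) (nat_lit 0) (nat_lit 30665044284) (nat_lit 107) (nat_lit 5) (nat_lit 109) (nat_lit 4) (nat_lit 107) (nat_lit 4) (nat_lit 456) (nat_lit 306) (nat_lit 258)))) (XT.nd (nat_lit 156) (nat_lit 76) (nat_lit 0) (XT.nd (nat_lit 78) (nat_lit 152) (nat_lit 0) (XT.lf (nat_lit 0) (nat_lit 40754728253) (nat_lit 76) (nat_lit 23015638969) (nat_lit 76) (nat_lit 21995560279) (nat_lit 106) (nat_lit 4) (nat_lit 107) (nat_lit 5) (nat_lit 107) (nat_lit 4) (nat_lit 457) (nat_lit 306) (nat_lit 257)) (XT.lf (nat_lit 0) (nat_lit 9180411735) (nat_lit 152) (nat_lit 71108094647) (nat_lit 0) (nat_lit 8204245332) (nat_lit 104) (nat_lit 5) (nat_lit 106) (nat_lit 4) (nat_lit 104) (nat_lit 4) (nat_lit 458) (nat_lit 306) (nat_lit 256))) (XT.nd (nat_lit 78) (nat_lit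 76) (nat_lit 0) (XT.lf (nat_lit 0) (nat_lit 42091620988) (nat_lit 152) (nat_lit 8089471580) (nat_lit 0) (nat_lit 41111013738) (nat_lit 104) (nat_lit 5) (nat_lit 106) (nat_lit 4) (nat_lit 104) (nat_lit 4) (nat_lit 459) (nat_lit 306) (nat_lit 255)) (XT.lf (nat_lit 0) (nat_lit 59524006239) (nat_lit 76) (nat_lit 17828525971) (nat_lit 76) (nat_lit 16843689343) (nat_lit 103) (nat_lit 4) (nat_lit 104) (nat_lit 5) (nat_lit 104) (nat_lit 4) (nat_lit 460) (nat_lit 306) (nat_lit 254))))) (XT.nd (nat_lit 312) (nat_lit 304) (nat_lit 0) (XT.nd (nat_lit 156) (nat_lit 152) (nat_lit 0) (XT.nd (nat_lit 78) (nat_lit 76) (nat_lit 0) (XT.lf (nat_lit 0) (nat_lit 17289891335) (nat_lit 152) (nat_lit 63558800494) (nat_lit 0) (nat_lit 16348115520) (nat_lit 101) (nat_lit 5) (nat_lit 103) (nat_lit 4) (nat_lit 101) (nat_lit 4) (nat_lit 461) (nat_lit 306) (nat_lit 253)) (XT.lf (nat_lit 0) (nat_lit 5382430925) (nat_lit 76) (nat_lit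 47929608587) (nat_lit 76) (nat_lit 46984179276) (nat_lit 100) (nat_lit 4) (nat_lit 101) (nat_lit 5) (nat_lit 101) (nat_lit 4) (nat_lit 462) (nat_lit 306) (nat_lit 252))) (XT.nd (nat_lit 78) (nat_lit 152) (nat_lit 0) (XT.lf (nat_lit 0) (nat_lit 79523545545) (nat_lit 76) (nat_lit 12466610517) (nat_lit 76) (nat_lit 11517701687) (nat_lit 100) (nat_lit 4) (nat_lit 101) (nat_lit 5) (nat_lit 101) (nat_lit 4) (nat_lit 463) (nat_lit 306) (nat_lit 251)) (XT.lf (nat_lit 0) (nat_lit 25888126628) (nat_lit 152) (nat_lit 55941159689) (nat_lit 0) (nat_lit 24981247907) (nat_lit 98) (nat_lit 5) (nat_lit 100) (nat_lit 4) (nat_lit 98) (nat_lit 4) (nat_lit 464) (nat_lit 306) (nat_lit 250)))) (XT.nd (nat_lit 156) (nat_lit 228) (nat_lit 0) (XT.nd (nat_lit 78) (nat_lit 0) (nat_lit 0) (XT.lf (nat_lit 0) (nat_lit 19836139660) (nat_lit 76) (nat_lit 45653512392) (nat_lit 76) (nat_lit 44743627930) (nat_lit 97) (nat_lit 4)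 (nat_lit 98) (nat_lit 5) (nat_lit 98) (nat_lit 4) (nat_lit 465) (nat_lit 306) (nat_lit 249)) (XT.lf (nat_lit 0) (nat_lit 100912252007) (nat_lit 76) (nat_lit 6895418624) (nat_lit 76) (nat_lit 5982671553) (nat_lit 97) (nat_lit 4) (nat_lit 98) (nat_lit 5) (nat_lit 98) (nat_lit 4) (nat_lit 466) (nat_lit 306) (nat_lit 248))) (XT.nd (nat_lit 78) (nat_lit 76) (nat_lit 0) (XT.lf (nat_lit 0) (nat_lit 35041719675) (nat_lit 152) (nat_lit 48214770255) (nat_lit 0) (nat_lit 34169840280) (nat_lit 95) (nat_lit 5) (nat_lit 97) (nat_lit 4) (nat_lit 95) (nat_lit 4) (nat_lit 467) (nat_lit 306) (nat_lit 247)) (XT.lf (nat_lit 0) (nat_lit 35110251089) (nat_lit 76) (nat_lit 43484690763) (nat_lit 76) (nat_lit 42610338538) (nat_lit 94) (nat_lit 4) (nat_lit 95) (nat_lit 5) (nat_lit 95) (nat_lit 4) (nat_lit 468) (nat_lit 306) (nat_lit 246)))))) (XT.nd (nat_lit 624) (nat_lit 684) (nat_lit 0) (XT.nd (nat_lit 312) (nat_lit 228)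 (nat_lit 0) (XT.nd (nat_lit 156) (nat_lit 228) (nat_lit 0) (XT.nd (nat_lit 78) (nat_lit 152) (nat_lit 0) (XT.lf (nat_lit 0) (nat_lit 123863796930) (nat_lit 76) (nat_lit 1077653589) (nat_lit 76) (nat_lit 200946289) (nat_lit 94) (nat_lit 4) (nat_lit 95) (nat_lit 5) (nat_lit 95) (nat_lit 4) (nat_lit 469) (nat_lit 306) (nat_lit 245)) (XT.lf (nat_lit 0) (nat_lit 44823278438) (nat_lit 152) (nat_lit 40336644447) (nat_lit 0) (nat_lit 43986182982) (nat_lit 92) (nat_lit 5) (nat_lit 94) (nat_lit 4) (nat_lit 92) (nat_lit 4) (nat_lit 470) (nat_lit 306) (nat_lit 244))) (XT.nd (nat_lit 78) (nat_lit 152) (nat_lit 0) (XT.lf (nat_lit 0) (nat_lit 51320178342) (nat_lit 76) (nat_lit 41418232358) (nat_lit 76) (nat_lit 40579102499) (nat_lit 91) (nat_lit 4) (nat_lit 92) (nat_lit 5) (nat_lit 92) (nat_lit 4) (nat_lit 471) (nat_lit 306) (nat_lit 243)) (XT.lf (nat_lit 0) (nat_lit 5937461097) (nat_lit 152) (nat_lit 126581560239)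 (nat_lit 0) (nat_lit 5136444538) (nat_lit 89) (nat_lit 5) (nat_lit 91) (nat_lit 4) (nat_lit 89) (nat_lit 4) (nat_lit 472) (nat_lit 306) (nat_lit 242)))) (XT.nd (nat_lit 156) (nat_lit 152) (nat_lit 0) (XT.nd (nat_lit 78) (nat_lit 76) (nat_lit 0) (XT.lf (nat_lit 0) (nat_lit 55312077659) (nat_lit 152) (nat_lit 32260875821) (nat_lit 0) (nat_lit 54509303707) (nat_lit 89) (nat_lit 5) (nat_lit 91) (nat_lit 4) (nat_lit 89) (nat_lit 4) (nat_lit 473) (nat_lit 306) (nat_lit 241)) (XT.lf (nat_lit 0) (nat_lit 68591701108) (nat_lit 76) (nat_lit 39449424789) (nat_lit 76) (nat_lit 38644977128) (nat_lit 88) (nat_lit 4) (nat_lit 89) (nat_lit 5) (nat_lit 89) (nat_lit 4) (nat_lit 474) (nat_lit 306) (nat_lit 240))) (XT.nd (nat_lit 78) (nat_lit 0) (nat_lit 0) (XT.lf (nat_lit 0) (nat_lit 12444157692) (nat_lit 152) (nat_lit 127343299732) (nat_lit 0) (nat_lit 11676498960) (nat_lit 86) (nat_lit 5) (nat_lit 88) (nat_lit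 4) (nat_lit 86) (nat_lit 4) (nat_lit 475) (nat_lit 306) (nat_lit 239)) (XT.lf (nat_lit 0) (nat_lit 66594784219) (nat_lit 152) (nat_lit 23938274324) (nat_lit 0) (nat_lit 65825679676) (nat_lit 86) (nat_lit 5) (nat_lit 88) (nat_lit 4) (nat_lit 86) (nat_lit 4) (nat_lit 476) (nat_lit 306) (nat_lit 238))))) (XT.nd (nat_lit 312) (nat_lit 380) (nat_lit 0) (XT.nd (nat_lit 156) (nat_lit 76) (nat_lit 0) (XT.nd (nat_lit 78) (nat_lit 152) (nat_lit 0) (XT.lf (nat_lit 0) (nat_lit 87062092882) (nat_lit 76) (nat_lit 37573751332) (nat_lit 76) (nat_lit 36803269825) (nat_lit 85) (nat_lit 4) (nat_lit 86) (nat_lit 5) (nat_lit 86) (nat_lit 4) (nat_lit 477) (nat_lit 306) (nat_lit 237)) (XT.lf (nat_lit 0) (nat_lit 19336489421) (nat_lit 152) (nat_lit 128764243746) (nat_lit 0) (nat_lit 18601448562) (nat_lit 83) (nat_lit 5) (nat_lit 85) (nat_lit 4) (nat_lit 83) (nat_lit 4) (nat_lit 478) (nat_lit 306) (nat_lit 236))) (XT.nd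 (nat_lit 78) (nat_lit 76) (nat_lit 0) (XT.lf (nat_lit 0) (nat_lit 78766253948) (nat_lit 152) (nat_lit 15315966198) (nat_lit 0) (nat_lit 78030023616) (nat_lit 83) (nat_lit 5) (nat_lit 85) (nat_lit 4) (nat_lit 83) (nat_lit 4) (nat_lit 479) (nat_lit 306) (nat_lit 235)) (XT.lf (nat_lit 0) (nat_lit 106881361559) (nat_lit 76) (nat_lit 35786886713) (nat_lit 76) (nat_lit 35049523549) (nat_lit 82) (nat_lit 4) (nat_lit 83) (nat_lit 5) (nat_lit 83) (nat_lit 4) (nat_lit 480) (nat_lit 306) (nat_lit 234)))) (XT.nd (nat_lit 156) (nat_lit 228) (nat_lit 0) (XT.nd (nat_lit 78) (nat_lit 0) (nat_lit 0) (XT.lf (nat_lit 0) (nat_lit 26667457025) (nat_lit 152) (nat_lit 130884365906) (nat_lit 0) (nat_lit 25964178881) (nat_lit 80) (nat_lit 5) (nat_lit 82) (nat_lit 4) (nat_lit 80) (nat_lit 4) (nat_lit 481) (nat_lit 306) (nat_lit 233)) (XT.lf (nat_lit 0) (nat_lit 91930407502) (nat_lit 152) (nat_lit 6336955172) (nat_lit 0)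 (nat_lit 91226150776) (nat_lit 80) (nat_lit 5) (nat_lit 82) (nat_lit 4) (nat_lit 80) (nat_lit 4) (nat_lit 482) (nat_lit 306) (nat_lit 232))) (XT.nd (nat_lit 78) (nat_lit 152) (nat_lit 0) (XT.lf (nat_lit 0) (nat_lit 128213614955) (nat_lit 76) (nat_lit 34084692172) (nat_lit 76) (nat_lit 33379503462) (nat_lit 79) (nat_lit 4) (nat_lit 80) (nat_lit 5) (nat_lit 80) (nat_lit 4) (nat_lit 483) (nat_lit 306) (nat_lit 231)) (XT.lf (nat_lit 0) (nat_lit 34494838440) (nat_lit 152) (nat_lit 133749037374) (nat_lit 0) (nat_lit 33822384809) (nat_lit 77) (nat_lit 5) (nat_lit 79) (nat_lit 4) (nat_lit 77) (nat_lit 4) (nat_lit 484) (nat_lit 306) (nat_lit 230)))))))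
noncomputable def xc43 : XT := (XT.nd (nat_lit 47268) (nat_lit 0) (nat_lit 5928) (XT.nd (nat_lit 624) (nat_lit 380) (nat_lit 0) (XT.nd (nat_lit 312) (nat_lit 228) (nat_lit 0) (XT.nd (nat_lit 156) (nat_lit 228) (nat_lit 0) (XT.nd (nat_lit 78) (nat_lit 0) (nat_lit 0) (XT.lf (nat_lit 0) (nat_lit 3161548325) (nat_lit 76) (nat_lit 103089005973) (nat_lit 76) (nat_lit 102415747259) (nat_lit 76) (nat_lit 4) (nat_lit 77) (nat_lit 5) (nat_lit 77) (nat_lit 4) (nat_lit 485) (nat_lit 306) (nat_lit 229)) (XT.lf (nat_lit 0) (nat_lit 151238564011) (nat_lit 76) (nat_lit 32463210040) (nat_lit 76) (nat_lit 31789184581) (nat_lit 76) (nat_lit 4) (nat_lit 77) (nat_lit 5) (nat_lit 77) (nat_lit 4) (nat_lit 486) (nat_lit 306) (nat_lit 228))) (XT.nd (nat_lit 78) (nat_lit 76) (nat_lit 0) (XT.lf (nat_lit 0) (nat_lit 42881712118) (nat_lit 152) (nat_lit 137409520627) (nat_lit 0) (nat_lit 42239087649) (nat_lit 74) (nat_lit 5)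 (nat_lit 76) (nat_lit 4) (nat_lit 74) (nat_lit 4) (nat_lit 487) (nat_lit 306) (nat_lit 227)) (XT.lf (nat_lit 0) (nat_lit 13370653668) (nat_lit 76) (nat_lit 108541748989) (nat_lit 76) (nat_lit 107898462176) (nat_lit 73) (nat_lit 4) (nat_lit 74) (nat_lit 5) (nat_lit 74) (nat_lit 4) (nat_lit 488) (nat_lit 306) (nat_lit 226)))) (XT.nd (nat_lit 156) (nat_lit 76) (nat_lit 0) (XT.nd (nat_lit 78) (nat_lit 152) (nat_lit 0) (XT.lf (nat_lit 0) (nat_lit 176153177824) (nat_lit 76) (nat_lit 30918657941) (nat_lit 76) (nat_lit 30274740326) (nat_lit 73) (nat_lit 4) (nat_lit 74) (nat_lit 5) (nat_lit 74) (nat_lit 4) (nat_lit 489) (nat_lit 306) (nat_lit 225)) (XT.lf (nat_lit 0) (nat_lit 51897031947) (nat_lit 152) (nat_lit 141923516241) (nat_lit 0) (nat_lit 51283204919) (nat_lit 71) (nat_lit 5) (nat_lit 73) (nat_lit 4) (nat_lit 71) (nat_lit 4) (nat_lit 490) (nat_lit 306) (nat_lit 224))) (XT.nd (nat_lit 78) (nat_lit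 0) (nat_lit 0) (XT.lf (nat_lit 0) (nat_lit 24155673686) (nat_lit 76) (nat_lit 114796529919) (nat_lit 76) (nat_lit 114182157979) (nat_lit 70) (nat_lit 4) (nat_lit 71) (nat_lit 5) (nat_lit 71) (nat_lit 4) (nat_lit 491) (nat_lit 306) (nat_lit 223)) (XT.lf (nat_lit 0) (nat_lit 203173506061) (nat_lit 76) (nat_lit 29447422788) (nat_lit 76) (nat_lit 28832531885) (nat_lit 70) (nat_lit 4) (nat_lit 71) (nat_lit 5) (nat_lit 71) (nat_lit 4) (nat_lit 492) (nat_lit 306) (nat_lit 222))))) (XT.nd (nat_lit 46332) (nat_lit 0) (nat_lit 7676) (XT.nd (nat_lit 156) (nat_lit 152) (nat_lit 0) (XT.nd (nat_lit 78) (nat_lit 76) (nat_lit 0) (XT.lf (nat_lit 0) (nat_lit 61616259242) (nat_lit 152) (nat_lit 147355768093) (nat_lit 0) (nat_lit 61030178143) (nat_lit 68) (nat_lit 5) (nat_lit 70) (nat_lit 4) (nat_lit 68) (nat_lit 4) (nat_lit 493) (nat_lit 306) (nat_lit 221)) (XT.lf (nat_lit 0) (nat_lit 35598010196) (nat_lit 76) (nat_lit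 121924048446) (nat_lit 76) (nat_lit 121337519047) (nat_lit 67) (nat_lit 4) (nat_lit 68) (nat_lit 5) (nat_lit 68) (nat_lit 4) (nat_lit 494) (nat_lit 306) (nat_lit 220))) (XT.nd (nat_lit 78) (nat_lit 152) (nat_lit 0) (XT.lf (nat_lit 0) (nat_lit 232536685965) (nat_lit 76) (nat_lit 28046054635) (nat_lit 76) (nat_lit 27459098284) (nat_lit 67) (nat_lit 4) (nat_lit 68) (nat_lit 5) (nat_lit 68) (nat_lit 4) (nat_lit 495) (nat_lit 306) (nat_lit 219)) (XT.lf (nat_lit 0) (nat_lit 72122057797) (nat_lit 152) (nat_lit 153778732893) (nat_lit 0) (nat_lit 71562664489) (nat_lit 65) (nat_lit 5) (nat_lit 67) (nat_lit 4) (nat_lit 65) (nat_lit 4) (nat_lit 496) (nat_lit 306) (nat_lit 218)))) (XT.nd (nat_lit 156) (nat_lit 228) (nat_lit 0) (XT.nd (nat_lit 78) (nat_lit 76) (nat_lit 0) (XT.lf (nat_lit 0) (nat_lit 3253826288) (nat_lit 152) (nat_lit 3696306202) (nat_lit 0) (nat_lit 3253826288) (nat_lit 170) (nat_lit 5) (nat_lit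 172) (nat_lit 4) (nat_lit 170) (nat_lit 4) (nat_lit 406) (nat_lit 307) (nat_lit 307)) (XT.lf (nat_lit 0) (nat_lit 13113850958) (nat_lit 76) (nat_lit 3974940005) (nat_lit 76) (nat_lit 3818522778) (nat_lit 169) (nat_lit 4) (nat_lit 170) (nat_lit 5) (nat_lit 170) (nat_lit 4) (nat_lit 407) (nat_lit 307) (nat_lit 306))) (XT.nd (nat_lit 78) (nat_lit 76) (nat_lit 0) (XT.lf (nat_lit 0) (nat_lit 6647696528) (nat_lit 152) (nat_lit 8416998368) (nat_lit 0) (nat_lit 6356852705) (nat_lit 167) (nat_lit 5) (nat_lit 169) (nat_lit 4) (nat_lit 167) (nat_lit 4) (nat_lit 408) (nat_lit 307) (nat_lit 305)) (XT.lf (nat_lit 0) (nat_lit 12759502095) (nat_lit 76) (nat_lit 4810875070) (nat_lit 76) (nat_lit 4384912165) (nat_lit 166) (nat_lit 4) (nat_lit 167) (nat_lit 5) (nat_lit 167) (nat_lit 4) (nat_lit 409) (nat_lit 307) (nat_lit 304)))))) (XT.nd (nat_lit 624) (nat_lit 836) (nat_lit 0) (XT.nd (nat_lit 312) (nat_lit 456)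 (nat_lit 0) (XT.nd (nat_lit 156) (nat_lit 228) (nat_lit 0) (XT.nd (nat_lit 78) (nat_lit 76) (nat_lit 0) (XT.lf (nat_lit 0) (nat_lit 6411118765) (nat_lit 152) (nat_lit 10211802227) (nat_lit 0) (nat_lit 5882882818) (nat_lit 164) (nat_lit 5) (nat_lit 166) (nat_lit 4) (nat_lit 164) (nat_lit 4) (nat_lit 410) (nat_lit 307) (nat_lit 303)) (XT.lf (nat_lit 0) (nat_lit 11643114283) (nat_lit 76) (nat_lit 6038983507) (nat_lit 76) (nat_lit 5394026617) (nat_lit 163) (nat_lit 4) (nat_lit 164) (nat_lit 5) (nat_lit 164) (nat_lit 4) (nat_lit 411) (nat_lit 307) (nat_lit 302))) (XT.nd (nat_lit 78) (nat_lit 76) (nat_lit 0) (XT.lf (nat_lit 0) (nat_lit 5744741424) (nat_lit 152) (nat_lit 12896529619) (nat_lit 0) (nat_lit 5024627430) (nat_lit 161) (nat_lit 5) (nat_lit 163) (nat_lit 4) (nat_lit 161) (nat_lit 4) (nat_lit 412) (nat_lit 307) (nat_lit 301)) (XT.lf (nat_lit 0) (nat_lit 9643105970) (nat_lit 76) (nat_lit 7726526456)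 (nat_lit 76) (nat_lit 6905584523) (nat_lit 160) (nat_lit 4) (nat_lit 161) (nat_lit 5) (nat_lit 161) (nat_lit 4) (nat_lit 413) (nat_lit 307) (nat_lit 300)))) (XT.nd (nat_lit 156) (nat_lit 228) (nat_lit 0) (XT.nd (nat_lit 78) (nat_lit 76) (nat_lit 0) (XT.lf (nat_lit 0) (nat_lit 4588393424) (nat_lit 152) (nat_lit 16604039469) (nat_lit 0) (nat_lit 3715090051) (nat_lit 158) (nat_lit 5) (nat_lit 160) (nat_lit 4) (nat_lit 158) (nat_lit 4) (nat_lit 414) (nat_lit 307) (nat_lit 299)) (XT.lf (nat_lit 0) (nat_lit 6624169674) (nat_lit 76) (nat_lit 9947345353) (nat_lit 76) (nat_lit 8986943015) (nat_lit 157) (nat_lit 4) (nat_lit 158) (nat_lit 5) (nat_lit 158) (nat_lit 4) (nat_lit 415) (nat_lit 307) (nat_lit 298))) (XT.nd (nat_lit 78) (nat_lit 76) (nat_lit 0) (XT.lf (nat_lit 0) (nat_lit 2874233842) (nat_lit 152) (nat_lit 21482090396) (nat_lit 0) (nat_lit 1880563620) (nat_lit 155) (nat_lit 5) (nat_lit 157) (nat_lit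 4) (nat_lit 155) (nat_lit 4) (nat_lit 416) (nat_lit 307) (nat_lit 297)) (XT.lf (nat_lit 0) (nat_lit 2435681275) (nat_lit 76) (nat_lit 12782750990) (nat_lit 76) (nat_lit 11713841408) (nat_lit 154) (nat_lit 4) (nat_lit 155) (nat_lit 5) (nat_lit 155) (nat_lit 4) (nat_lit 417) (nat_lit 307) (nat_lit 296))))) (XT.nd (nat_lit 312) (nat_lit 456) (nat_lit 0) (XT.nd (nat_lit 156) (nat_lit 228) (nat_lit 0) (XT.nd (nat_lit 78) (nat_lit 76) (nat_lit 0) (XT.lf (nat_lit 0) (nat_lit 535711329) (nat_lit 152) (nat_lit 42357891) (nat_lit 76) (nat_lit 27082212650) (nat_lit 153) (nat_lit 5) (nat_lit 155) (nat_lit 5) (nat_lit 154) (nat_lit 4) (nat_lit 418) (nat_lit 307) (nat_lit 295)) (XT.lf (nat_lit 0) (nat_lit 13280680548) (nat_lit 152) (nat_lit 2991145868) (nat_lit 0) (nat_lit 12129432515) (nat_lit 152) (nat_lit 5) (nat_lit 154) (nat_lit 4) (nat_lit 152) (nat_lit 4) (nat_lit 419) (nat_lit 307) (nat_lit 294))) (XT.nd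 (nat_lit 78) (nat_lit 152) (nat_lit 0) (XT.lf (nat_lit 0) (nat_lit 23038209984) (nat_lit 76) (nat_lit 3675832641) (nat_lit 76) (nat_lit 2462685000) (nat_lit 151) (nat_lit 4) (nat_lit 152) (nat_lit 5) (nat_lit 152) (nat_lit 4) (nat_lit 420) (nat_lit 307) (nat_lit 293)) (XT.lf (nat_lit 0) (nat_lit 10684373205) (nat_lit 152) (nat_lit 9815152114) (nat_lit 0) (nat_lit 9472849730) (nat_lit 149) (nat_lit 5) (nat_lit 151) (nat_lit 4) (nat_lit 149) (nat_lit 4) (nat_lit 421) (nat_lit 307) (nat_lit 292)))) (XT.nd (nat_lit 156) (nat_lit 228) (nat_lit 0) (XT.nd (nat_lit 78) (nat_lit 152) (nat_lit 0) (XT.lf (nat_lit 0) (nat_lit 16971744531) (nat_lit 76) (nat_lit 7546707451) (nat_lit 76) (nat_lit 6281712768) (nat_lit 148) (nat_lit 4) (nat_lit 149) (nat_lit 5) (nat_lit 149) (nat_lit 4) (nat_lit 422) (nat_lit 307) (nat_lit 291)) (XT.lf (nat_lit 0) (nat_lit 7296767138) (nat_lit 152) (nat_lit 18315413380) (nat_lit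 0) (nat_lit 6043510334) (nat_lit 146) (nat_lit 5) (nat_lit 148) (nat_lit 4) (nat_lit 146) (nat_lit 4) (nat_lit 423) (nat_lit 307) (nat_lit 290))) (XT.nd (nat_lit 78) (nat_lit 152) (nat_lit 0) (XT.lf (nat_lit 0) (nat_lit 9222226706) (nat_lit 76) (nat_lit 12308344748) (nat_lit 76) (nat_lit 11008897502) (nat_lit 145) (nat_lit 4) (nat_lit 146) (nat_lit 5) (nat_lit 146) (nat_lit 4) (nat_lit 424) (nat_lit 307) (nat_lit 289)) (XT.nd (nat_lit 78) (nat_lit 0) (nat_lit 0) (XT.lf (nat_lit 0) (nat_lit 3011924038) (nat_lit 152) (nat_lit 28715724680) (nat_lit 0) (nat_lit 1732459142) (nat_lit 143) (nat_lit 5) (nat_lit 145) (nat_lit 4) (nat_lit 143) (nat_lit 4) (nat_lit 425) (nat_lit 307) (nat_lit 288)) (XT.lf (nat_lit 0) (nat_lit 17648941037) (nat_lit 152) (nat_lit 424982608) (nat_lit 0) (nat_lit 16329575101) (nat_lit 143) (nat_lit 5) (nat_lit 145) (nat_lit 4) (nat_lit 143) (nat_lit 4) (nat_lit 426) (nat_lit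 307) (nat_lit 287))))))))
noncomputable def xc44 : XT := (XT.nd (nat_lit 2496) (nat_lit 2508) (nat_lit 0) (XT.nd (nat_lit 1248) (nat_lit 1368) (nat_lit 0) (XT.nd (nat_lit 624) (nat_lit 684) (nat_lit 0) (XT.nd (nat_lit 312) (nat_lit 304) (nat_lit 0) (XT.nd (nat_lit 156) (nat_lit 228) (nat_lit 0) (XT.nd (nat_lit 78) (nat_lit 152) (nat_lit 0) (XT.lf (nat_lit 0) (nat_lit 29611047623) (nat_lit 76) (nat_lit 3566203192) (nat_lit 76) (nat_lit 2208836266) (nat_lit 142) (nat_lit 4) (nat_lit 143) (nat_lit 5) (nat_lit 143) (nat_lit 4) (nat_lit 427) (nat_lit 307) (nat_lit 286)) (XT.lf (nat_lit 0) (nat_lit 12923467329) (nat_lit 152) (nat_lit 11873998623) (nat_lit 0) (nat_lit 11596268906) (nat_lit 140) (nat_lit 5) (nat_lit 142) (nat_lit 4) (nat_lit 140) (nat_lit 4) (nat_lit 428) (nat_lit 307) (nat_lit 285))) (XT.nd (nat_lit 78) (nat_lit 152) (nat_lit 0) (XT.lf (nat_lit 0) (nat_lit 18976811256) (nat_lit 76) (nat_lit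 9912797818) (nat_lit 76) (nat_lit 8552772711) (nat_lit 139) (nat_lit 4) (nat_lit 140) (nat_lit 5) (nat_lit 140) (nat_lit 4) (nat_lit 429) (nat_lit 307) (nat_lit 284)) (XT.lf (nat_lit 0) (nat_lit 7079466771) (nat_lit 152) (nat_lit 25694190805) (nat_lit 0) (nat_lit 5754429994) (nat_lit 137) (nat_lit 5) (nat_lit 139) (nat_lit 4) (nat_lit 137) (nat_lit 4) (nat_lit 430) (nat_lit 307) (nat_lit 283)))) (XT.nd (nat_lit 156) (nat_lit 152) (nat_lit 0) (XT.nd (nat_lit 78) (nat_lit 76) (nat_lit 0) (XT.lf (nat_lit 0) (nat_lit 5952337455) (nat_lit 76) (nat_lit 17524293657) (nat_lit 76) (nat_lit 16170899956) (nat_lit 136) (nat_lit 4) (nat_lit 137) (nat_lit 5) (nat_lit 137) (nat_lit 4) (nat_lit 431) (nat_lit 307) (nat_lit 282)) (XT.lf (nat_lit 0) (nat_lit 14622144) (nat_lit 152) (nat_lit 1350424898) (nat_lit 76) (nat_lit 39451011779) (nat_lit 135) (nat_lit 5) (nat_lit 137) (nat_lit 5) (nat_lit 136) (nat_lit 4)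 (nat_lit 432) (nat_lit 307) (nat_lit 281))) (XT.nd (nat_lit 78) (nat_lit 76) (nat_lit 0) (XT.lf (nat_lit 0) (nat_lit 16941766003) (nat_lit 152) (nat_lit 9461599148) (nat_lit 0) (nat_lit 15602603279) (nat_lit 134) (nat_lit 5) (nat_lit 136) (nat_lit 4) (nat_lit 134) (nat_lit 4) (nat_lit 433) (nat_lit 307) (nat_lit 280)) (XT.lf (nat_lit 0) (nat_lit 25119753829) (nat_lit 76) (nat_lit 9745310919) (nat_lit 76) (nat_lit 8382818884) (nat_lit 133) (nat_lit 4) (nat_lit 134) (nat_lit 5) (nat_lit 134) (nat_lit 4) (nat_lit 434) (nat_lit 307) (nat_lit 279))))) (XT.nd (nat_lit 312) (nat_lit 304) (nat_lit 0) (XT.nd (nat_lit 156) (nat_lit 152) (nat_lit 0) (XT.nd (nat_lit 78) (nat_lit 76) (nat_lit 0) (XT.lf (nat_lit 0) (nat_lit 9106660089) (nat_lit 152) (nat_lit 27636900573) (nat_lit 0) (nat_lit 7787888254) (nat_lit 131) (nat_lit 5) (nat_lit 133) (nat_lit 4) (nat_lit 131) (nat_lit 4) (nat_lit 435) (nat_lit 307)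 (nat_lit 278)) (XT.lf (nat_lit 0) (nat_lit 7792947662) (nat_lit 76) (nat_lit 19701510047) (nat_lit 76) (nat_lit 18362585475) (nat_lit 130) (nat_lit 4) (nat_lit 131) (nat_lit 5) (nat_lit 131) (nat_lit 4) (nat_lit 436) (nat_lit 307) (nat_lit 277))) (XT.nd (nat_lit 78) (nat_lit 152) (nat_lit 0) (XT.lf (nat_lit 0) (nat_lit 45375119275) (nat_lit 76) (nat_lit 1611337483) (nat_lit 76) (nat_lit 253219829) (nat_lit 130) (nat_lit 4) (nat_lit 131) (nat_lit 5) (nat_lit 131) (nat_lit 4) (nat_lit 437) (nat_lit 307) (nat_lit 276)) (XT.lf (nat_lit 0) (nat_lit 18737252354) (nat_lit 152) (nat_lit 12484338605) (nat_lit 0) (nat_lit 17426398278) (nat_lit 128) (nat_lit 5) (nat_lit 130) (nat_lit 4) (nat_lit 128) (nat_lit 4) (nat_lit 438) (nat_lit 307) (nat_lit 275)))) (XT.nd (nat_lit 156) (nat_lit 76) (nat_lit 0) (XT.nd (nat_lit 78) (nat_lit 152) (nat_lit 0) (XT.lf (nat_lit 0) (nat_lit 26282765066) (nat_lit 76) (nat_lit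 12580720654) (nat_lit 76) (nat_lit 11253286872) (nat_lit 127) (nat_lit 4) (nat_lit 128) (nat_lit 5) (nat_lit 128) (nat_lit 4) (nat_lit 439) (nat_lit 307) (nat_lit 274)) (XT.lf (nat_lit 0) (nat_lit 8368567800) (nat_lit 152) (nat_lit 36179693752) (nat_lit 0) (nat_lit 7089306869) (nat_lit 125) (nat_lit 5) (nat_lit 127) (nat_lit 4) (nat_lit 125) (nat_lit 4) (nat_lit 440) (nat_lit 307) (nat_lit 273))) (XT.nd (nat_lit 78) (nat_lit 0) (nat_lit 0) (XT.lf (nat_lit 0) (nat_lit 3481376388) (nat_lit 76) (nat_lit 25508772918) (nat_lit 76) (nat_lit 24215189814) (nat_lit 124) (nat_lit 4) (nat_lit 125) (nat_lit 5) (nat_lit 125) (nat_lit 4) (nat_lit 441) (nat_lit 307) (nat_lit 272)) (XT.lf (nat_lit 0) (nat_lit 45830311665) (nat_lit 76) (nat_lit 5155626766) (nat_lit 76) (nat_lit 3848403496) (nat_lit 124) (nat_lit 4) (nat_lit 125) (nat_lit 5) (nat_lit 125) (nat_lit 4) (nat_lit 442) (nat_lit 307) (nat_lit 271))))))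 (XT.nd (nat_lit 624) (nat_lit 684) (nat_lit 0) (XT.nd (nat_lit 312) (nat_lit 304) (nat_lit 0) (XT.nd (nat_lit 156) (nat_lit 152) (nat_lit 0) (XT.nd (nat_lit 78) (nat_lit 76) (nat_lit 0) (XT.lf (nat_lit 0) (nat_lit 17507942675) (nat_lit 152) (nat_lit 22745940972) (nat_lit 0) (nat_lit 16250596100) (nat_lit 122) (nat_lit 5) (nat_lit 124) (nat_lit 4) (nat_lit 122) (nat_lit 4) (nat_lit 443) (nat_lit 307) (nat_lit 270)) (XT.lf (nat_lit 0) (nat_lit 20700076543) (nat_lit 76) (nat_lit 19404467243) (nat_lit 76) (nat_lit 18135337781) (nat_lit 121) (nat_lit 4) (nat_lit 122) (nat_lit 5) (nat_lit 122) (nat_lit 4) (nat_lit 444) (nat_lit 307) (nat_lit 269))) (XT.nd (nat_lit 78) (nat_lit 0) (nat_lit 0) (XT.lf (nat_lit 0) (nat_lit 3926883550) (nat_lit 152) (nat_lit 53410796806) (nat_lit 0) (nat_lit 2707501398) (nat_lit 119) (nat_lit 5) (nat_lit 121) (nat_lit 4) (nat_lit 119) (nat_lit 4) (nat_lit 445) (nat_lit 307)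 (nat_lit 268)) (XT.lf (nat_lit 0) (nat_lit 27186163729) (nat_lit 152) (nat_lit 8747944410) (nat_lit 0) (nat_lit 25956603075) (nat_lit 119) (nat_lit 5) (nat_lit 121) (nat_lit 4) (nat_lit 119) (nat_lit 4) (nat_lit 446) (nat_lit 307) (nat_lit 267)))) (XT.nd (nat_lit 156) (nat_lit 76) (nat_lit 0) (XT.nd (nat_lit 78) (nat_lit 152) (nat_lit 0) (XT.lf (nat_lit 0) (nat_lit 38884268083) (nat_lit 76) (nat_lit 13082785620) (nat_lit 76) (nat_lit 11843531156) (nat_lit 118) (nat_lit 4) (nat_lit 119) (nat_lit 5) (nat_lit 119) (nat_lit 4) (nat_lit 447) (nat_lit 307) (nat_lit 266)) (XT.lf (nat_lit 0) (nat_lit 12217185355) (nat_lit 152) (nat_lit 42549330268) (nat_lit 0) (nat_lit 11028150437) (nat_lit 116) (nat_lit 5) (nat_lit 118) (nat_lit 4) (nat_lit 116) (nat_lit 4) (nat_lit 448) (nat_lit 307) (nat_lit 265))) (XT.nd (nat_lit 78) (nat_lit 0) (nat_lit 0) (XT.lf (nat_lit 0) (nat_lit 6105615122) (nat_lit 76) (nat_lit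 31467757218) (nat_lit 76) (nat_lit 30270348421) (nat_lit 115) (nat_lit 4) (nat_lit 116) (nat_lit 5) (nat_lit 116) (nat_lit 4) (nat_lit 449) (nat_lit 307) (nat_lit 264)) (XT.lf (nat_lit 0) (nat_lit 58170357611) (nat_lit 76) (nat_lit 6503221980) (nat_lit 76) (nat_lit 5297838061) (nat_lit 115) (nat_lit 4) (nat_lit 116) (nat_lit 5) (nat_lit 116) (nat_lit 4) (nat_lit 450) (nat_lit 307) (nat_lit 263))))) (XT.nd (nat_lit 312) (nat_lit 304) (nat_lit 0) (XT.nd (nat_lit 156) (nat_lit 152) (nat_lit 0) (XT.nd (nat_lit 78) (nat_lit 76) (nat_lit 0) (XT.lf (nat_lit 0) (nat_lit 20979090935) (nat_lit 152) (nat_lit 31349928841) (nat_lit 0) (nat_lit 19823872579) (nat_lit 113) (nat_lit 5) (nat_lit 115) (nat_lit 4) (nat_lit 113) (nat_lit 4) (nat_lit 451) (nat_lit 307) (nat_lit 262)) (XT.lf (nat_lit 0) (nat_lit 22037864529) (nat_lit 76) (nat_lit 26771238697) (nat_lit 76) (nat_lit 25609131131) (nat_lit 112) (nat_lit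 4) (nat_lit 113) (nat_lit 5) (nat_lit 113) (nat_lit 4) (nat_lit 452) (nat_lit 307) (nat_lit 261))) (XT.nd (nat_lit 78) (nat_lit 0) (nat_lit 0) (XT.lf (nat_lit 0) (nat_lit 1534852817) (nat_lit 152) (nat_lit 74822164089) (nat_lit 0) (nat_lit 421834990) (nat_lit 110) (nat_lit 5) (nat_lit 112) (nat_lit 4) (nat_lit 110) (nat_lit 4) (nat_lit 453) (nat_lit 307) (nat_lit 260)) (XT.lf (nat_lit 0) (nat_lit 30279397755) (nat_lit 152) (nat_lit 19741482871) (nat_lit 0) (nat_lit 29160428769) (nat_lit 110) (nat_lit 5) (nat_lit 112) (nat_lit 4) (nat_lit 110) (nat_lit 4) (nat_lit 454) (nat_lit 307) (nat_lit 259)))) (XT.nd (nat_lit 156) (nat_lit 76) (nat_lit 0) (XT.nd (nat_lit 78) (nat_lit 152) (nat_lit 0) (XT.lf (nat_lit 0) (nat_lit 38876350413) (nat_lit 76) (nat_lit 21966544922) (nat_lit 76) (nat_lit 20841908166) (nat_lit 109) (nat_lit 4) (nat_lit 110) (nat_lit 5) (nat_lit 110) (nat_lit 4) (nat_lit 455) (nat_lit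 307) (nat_lit 258)) (XT.lf (nat_lit 0) (nat_lit 8846563749) (nat_lit 152) (nat_lit 67664768441) (nat_lit 0) (nat_lit 7770340289) (nat_lit 107) (nat_lit 5) (nat_lit 109) (nat_lit 4) (nat_lit 107) (nat_lit 4) (nat_lit 456) (nat_lit 307) (nat_lit 257))) (XT.nd (nat_lit 78) (nat_lit 76) (nat_lit 0) (XT.lf (nat_lit 0) (nat_lit 40190791137) (nat_lit 152) (nat_lit 7647250762) (nat_lit 0) (nat_lit 39109671644) (nat_lit 107) (nat_lit 5) (nat_lit 109) (nat_lit 4) (nat_lit 107) (nat_lit 4) (nat_lit 457) (nat_lit 307) (nat_lit 256)) (XT.lf (nat_lit 0) (nat_lit 56748207525) (nat_lit 76) (nat_lit 17025528115) (nat_lit 76) (nat_lit 15939745733) (nat_lit 106) (nat_lit 4) (nat_lit 107) (nat_lit 5) (nat_lit 107) (nat_lit 4) (nat_lit 458) (nat_lit 307) (nat_lit 255))))))) (XT.nd (nat_lit 1248) (nat_lit 1216) (nat_lit 0) (XT.nd (nat_lit 624) (nat_lit 608) (nat_lit 0) (XT.nd (nat_lit 312) (nat_lit 304) (nat_lit 0)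 (XT.nd (nat_lit 156) (nat_lit 152) (nat_lit 0) (XT.nd (nat_lit 78) (nat_lit 76) (nat_lit 0) (XT.lf (nat_lit 0) (nat_lit 16565553152) (nat_lit 152) (nat_lit 60478284790) (nat_lit 0) (nat_lit 15527245316) (nat_lit 104) (nat_lit 5) (nat_lit 106) (nat_lit 4) (nat_lit 104) (nat_lit 4) (nat_lit 459) (nat_lit 307) (nat_lit 254)) (XT.lf (nat_lit 0) (nat_lit 5181627459) (nat_lit 76) (nat_lit 45691779857) (nat_lit 76) (nat_lit 44649444042) (nat_lit 103) (nat_lit 4) (nat_lit 104) (nat_lit 5) (nat_lit 104) (nat_lit 4) (nat_lit 460) (nat_lit 307) (nat_lit 253))) (XT.nd (nat_lit 78) (nat_lit 152) (nat_lit 0) (XT.lf (nat_lit 0) (nat_lit 75792035890) (nat_lit 76) (nat_lit 11917841401) (nat_lit 76) (nat_lit 10871669416) (nat_lit 103) (nat_lit 4) (nat_lit 104) (nat_lit 5) (nat_lit 104) (nat_lit 4) (nat_lit 461) (nat_lit 307) (nat_lit 252)) (XT.lf (nat_lit 0) (nat_lit 24750124563) (nat_lit 152) (nat_lit 53226445447)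 (nat_lit 0) (nat_lit 23750290773) (nat_lit 101) (nat_lit 5) (nat_lit 103) (nat_lit 4) (nat_lit 101) (nat_lit 4) (nat_lit 462) (nat_lit 307) (nat_lit 251)))) (XT.nd (nat_lit 156) (nat_lit 228) (nat_lit 0) (XT.nd (nat_lit 78) (nat_lit 0) (nat_lit 0) (XT.lf (nat_lit 0) (nat_lit 18943939557) (nat_lit 76) (nat_lit 43522889212) (nat_lit 76) (nat_lit 42519741593) (nat_lit 100) (nat_lit 4) (nat_lit 101) (nat_lit 5) (nat_lit 101) (nat_lit 4) (nat_lit 463) (nat_lit 307) (nat_lit 250)) (XT.lf (nat_lit 0) (nat_lit 96159139096) (nat_lit 76) (nat_lit 6610703135) (nat_lit 76) (nat_lit 5604399489) (nat_lit 100) (nat_lit 4) (nat_lit 101) (nat_lit 5) (nat_lit 101) (nat_lit 4) (nat_lit 464) (nat_lit 307) (nat_lit 249))) (XT.nd (nat_lit 78) (nat_lit 76) (nat_lit 0) (XT.lf (nat_lit 0) (nat_lit 33463722445) (nat_lit 152) (nat_lit 45870803603) (nat_lit 0) (nat_lit 32502475412) (nat_lit 98) (nat_lit 5) (nat_lit 100) (nat_lit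 4) (nat_lit 98) (nat_lit 4) (nat_lit 465) (nat_lit 307) (nat_lit 248)) (XT.lf (nat_lit 0) (nat_lit 33487821776) (nat_lit 76) (nat_lit 41456054233) (nat_lit 76) (nat_lit 40492080905) (nat_lit 97) (nat_lit 4) (nat_lit 98) (nat_lit 5) (nat_lit 98) (nat_lit 4) (nat_lit 466) (nat_lit 307) (nat_lit 247))))) (XT.nd (nat_lit 312) (nat_lit 228) (nat_lit 0) (XT.nd (nat_lit 156) (nat_lit 228) (nat_lit 0) (XT.nd (nat_lit 78) (nat_lit 152) (nat_lit 0) (XT.lf (nat_lit 0) (nat_lit 118014888544) (nat_lit 76) (nat_lit 1068633575) (nat_lit 76) (nat_lit 102063777) (nat_lit 97) (nat_lit 4) (nat_lit 98) (nat_lit 5) (nat_lit 98) (nat_lit 4) (nat_lit 467) (nat_lit 307) (nat_lit 246)) (XT.lf (nat_lit 0) (nat_lit 42775507189) (nat_lit 152) (nat_lit 38370445008) (nat_lit 0) (nat_lit 41852609448) (nat_lit 95) (nat_lit 5) (nat_lit 97) (nat_lit 4) (nat_lit 95) (nat_lit 4) (nat_lit 468) (nat_lit 307) (nat_lit 245))) (XT.nd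 (nat_lit 78) (nat_lit 152) (nat_lit 0) (XT.lf (nat_lit 0) (nat_lit 48923165085) (nat_lit 76) (nat_lit 39486632286) (nat_lit 76) (nat_lit 38561491616) (nat_lit 94) (nat_lit 4) (nat_lit 95) (nat_lit 5) (nat_lit 95) (nat_lit 4) (nat_lit 469) (nat_lit 307) (nat_lit 244)) (XT.lf (nat_lit 0) (nat_lit 5737454451) (nat_lit 152) (nat_lit 120510808465) (nat_lit 0) (nat_lit 4854333695) (nat_lit 92) (nat_lit 5) (nat_lit 94) (nat_lit 4) (nat_lit 92) (nat_lit 4) (nat_lit 470) (nat_lit 307) (nat_lit 243)))) (XT.nd (nat_lit 156) (nat_lit 152) (nat_lit 0) (XT.nd (nat_lit 78) (nat_lit 76) (nat_lit 0) (XT.lf (nat_lit 0) (nat_lit 52760985294) (nat_lit 152) (nat_lit 30681671708) (nat_lit 0) (nat_lit 51875927012) (nat_lit 92) (nat_lit 5) (nat_lit 94) (nat_lit 4) (nat_lit 92) (nat_lit 4) (nat_lit 471) (nat_lit 307) (nat_lit 242)) (XT.lf (nat_lit 0) (nat_lit 65369737302) (nat_lit 76) (nat_lit 37610163316) (nat_lit 76)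 (nat_lit 36723259771) (nat_lit 91) (nat_lit 4) (nat_lit 92) (nat_lit 5) (nat_lit 92) (nat_lit 4) (nat_lit 472) (nat_lit 307) (nat_lit 241))) (XT.nd (nat_lit 78) (nat_lit 0) (nat_lit 0) (XT.lf (nat_lit 0) (nat_lit 11930604401) (nat_lit 152) (nat_lit 121238560605) (nat_lit 0) (nat_lit 11084260650) (nat_lit 89) (nat_lit 5) (nat_lit 91) (nat_lit 4) (nat_lit 89) (nat_lit 4) (nat_lit 473) (nat_lit 307) (nat_lit 240)) (XT.lf (nat_lit 0) (nat_lit 63502700828) (nat_lit 152) (nat_lit 22757655187) (nat_lit 0) (nat_lit 62654763068) (nat_lit 89) (nat_lit 5) (nat_lit 91) (nat_lit 4) (nat_lit 89) (nat_lit 4) (nat_lit 474) (nat_lit 307) (nat_lit 239)))))) (XT.nd (nat_lit 624) (nat_lit 532) (nat_lit 0) (XT.nd (nat_lit 312) (nat_lit 380) (nat_lit 0) (XT.nd (nat_lit 156) (nat_lit 76) (nat_lit 0) (XT.nd (nat_lit 78) (nat_lit 152) (nat_lit 0) (XT.lf (nat_lit 0) (nat_lit 82958256001) (nat_lit 76) (nat_lit 35822367974)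 (nat_lit 76) (nat_lit 34972912112) (nat_lit 88) (nat_lit 4) (nat_lit 89) (nat_lit 5) (nat_lit 89) (nat_lit 4) (nat_lit 475) (nat_lit 307) (nat_lit 238)) (XT.lf (nat_lit 0) (nat_lit 18491160523) (nat_lit 152) (nat_lit 122593975956) (nat_lit 0) (nat_lit 17680777976) (nat_lit 86) (nat_lit 5) (nat_lit 88) (nat_lit 4) (nat_lit 86) (nat_lit 4) (nat_lit 476) (nat_lit 307) (nat_lit 237))) (XT.nd (nat_lit 78) (nat_lit 76) (nat_lit 0) (XT.lf (nat_lit 0) (nat_lit 75090994809) (nat_lit 152) (nat_lit 14548055885) (nat_lit 0) (nat_lit 74279300868) (nat_lit 86) (nat_lit 5) (nat_lit 88) (nat_lit 4) (nat_lit 86) (nat_lit 4) (nat_lit 477) (nat_lit 307) (nat_lit 236)) (XT.lf (nat_lit 0) (nat_lit 101831569485) (nat_lit 76) (nat_lit 34119144630) (nat_lit 76) (nat_lit 33306201741) (nat_lit 85) (nat_lit 4) (nat_lit 86) (nat_lit 5) (nat_lit 86) (nat_lit 4) (nat_lit 478) (nat_lit 307) (nat_lit 235)))) (XT.nd (nat_lit 156)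 (nat_lit 228) (nat_lit 0) (XT.nd (nat_lit 78) (nat_lit 0) (nat_lit 0) (XT.lf (nat_lit 0) (nat_lit 25469600707) (nat_lit 152) (nat_lit 124615139214) (nat_lit 0) (nat_lit 24694236553) (nat_lit 83) (nat_lit 5) (nat_lit 85) (nat_lit 4) (nat_lit 83) (nat_lit 4) (nat_lit 479) (nat_lit 307) (nat_lit 234)) (XT.lf (nat_lit 0) (nat_lit 87624839803) (nat_lit 152) (nat_lit 5998605729) (nat_lit 0) (nat_lit 86848396762) (nat_lit 83) (nat_lit 5) (nat_lit 85) (nat_lit 4) (nat_lit 83) (nat_lit 4) (nat_lit 480) (nat_lit 307) (nat_lit 233))) (XT.nd (nat_lit 78) (nat_lit 152) (nat_lit 0) (XT.lf (nat_lit 0) (nat_lit 122145956824) (nat_lit 76) (nat_lit 32496565529) (nat_lit 76) (nat_lit 31719094976) (nat_lit 82) (nat_lit 4) (nat_lit 83) (nat_lit 5) (nat_lit 83) (nat_lit 4) (nat_lit 481) (nat_lit 307) (nat_lit 232)) (XT.lf (nat_lit 0) (nat_lit 32920951193) (nat_lit 152) (nat_lit 127345273580) (nat_lit 0) (nat_lit 32179571064)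 (nat_lit 80) (nat_lit 5) (nat_lit 82) (nat_lit 4) (nat_lit 80) (nat_lit 4) (nat_lit 482) (nat_lit 307) (nat_lit 231))))) (XT.nd (nat_lit 312) (nat_lit 228) (nat_lit 0) (XT.nd (nat_lit 156) (nat_lit 228) (nat_lit 0) (XT.nd (nat_lit 78) (nat_lit 0) (nat_lit 0) (XT.lf (nat_lit 0) (nat_lit 3046868872) (nat_lit 76) (nat_lit 98213458992) (nat_lit 76) (nat_lit 97471191260) (nat_lit 79) (nat_lit 4) (nat_lit 80) (nat_lit 5) (nat_lit 80) (nat_lit 4) (nat_lit 483) (nat_lit 307) (nat_lit 230)) (XT.lf (nat_lit 0) (nat_lit 144072559110) (nat_lit 76) (nat_lit 30950872315) (nat_lit 76) (nat_lit 30207759246) (nat_lit 79) (nat_lit 4) (nat_lit 80) (nat_lit 5) (nat_lit 80) (nat_lit 4) (nat_lit 484) (nat_lit 307) (nat_lit 229))) (XT.nd (nat_lit 78) (nat_lit 76) (nat_lit 0) (XT.lf (nat_lit 0) (nat_lit 40905285267) (nat_lit 152) (nat_lit 130833211351) (nat_lit 0) (nat_lit 40196791790) (nat_lit 77) (nat_lit 5) (nat_lit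 79) (nat_lit 4) (nat_lit 77) (nat_lit 4) (nat_lit 485) (nat_lit 307) (nat_lit 228)) (XT.lf (nat_lit 0) (nat_lit 12768012054) (nat_lit 76) (nat_lit 103405161848) (nat_lit 76) (nat_lit 102695938138) (nat_lit 76) (nat_lit 4) (nat_lit 77) (nat_lit 5) (nat_lit 77) (nat_lit 4) (nat_lit 486) (nat_lit 307) (nat_lit 227)))) (XT.nd (nat_lit 156) (nat_lit 76) (nat_lit 0) (XT.nd (nat_lit 78) (nat_lit 152) (nat_lit 0) (XT.lf (nat_lit 0) (nat_lit 167798955367) (nat_lit 76) (nat_lit 29478471091) (nat_lit 76) (nat_lit 28768551920) (nat_lit 76) (nat_lit 4) (nat_lit 77) (nat_lit 5) (nat_lit 77) (nat_lit 4) (nat_lit 487) (nat_lit 307) (nat_lit 226)) (XT.lf (nat_lit 0) (nat_lit 49488271052) (nat_lit 152) (nat_lit 135133914941) (nat_lit 0) (nat_lit 48811526753) (nat_lit 74) (nat_lit 5) (nat_lit 76) (nat_lit 4) (nat_lit 74) (nat_lit 4) (nat_lit 488) (nat_lit 307) (nat_lit 225))) (XT.nd (nat_lit 78) (nat_lit 0) (nat_lit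 0) (XT.lf (nat_lit 0) (nat_lit 23037750621) (nat_lit 76) (nat_lit 109360739574) (nat_lit 76) (nat_lit 108683394510) (nat_lit 73) (nat_lit 4) (nat_lit 74) (nat_lit 5) (nat_lit 74) (nat_lit 4) (nat_lit 489) (nat_lit 307) (nat_lit 224)) (XT.lf (nat_lit 0) (nat_lit 193530897924) (nat_lit 76) (nat_lit 28075927158) (nat_lit 76) (nat_lit 27398009937) (nat_lit 73) (nat_lit 4) (nat_lit 74) (nat_lit 5) (nat_lit 74) (nat_lit 4) (nat_lit 490) (nat_lit 307) (nat_lit 223))))))))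
noncomputable def xc45 : XT := (XT.nd (nat_lit 48360) (nat_lit 0) (nat_lit 2736) (XT.nd (nat_lit 47112) (nat_lit 0) (nat_lit 5472) (XT.nd (nat_lit 46488) (nat_lit 0) (nat_lit 7068) (XT.nd (nat_lit 312) (nat_lit 76) (nat_lit 0) (XT.nd (nat_lit 156) (nat_lit 152) (nat_lit 0) (XT.nd (nat_lit 78) (nat_lit 76) (nat_lit 0) (XT.lf (nat_lit 0) (nat_lit 58741773592) (nat_lit 152) (nat_lit 140309053487) (nat_lit 0) (nat_lit 58095619181) (nat_lit 71) (nat_lit 5) (nat_lit 73) (nat_lit 4) (nat_lit 71) (nat_lit 4) (nat_lit 491) (nat_lit 307) (nat_lit 222)) (XT.lf (nat_lit 0) (nat_lit 33933601766) (nat_lit 76) (nat_lit 116147530322) (nat_lit 76) (nat_lit 115500881660) (nat_lit 70) (nat_lit 4) (nat_lit 71) (nat_lit 5) (nat_lit 71) (nat_lit 4) (nat_lit 492) (nat_lit 307) (nat_lit 221))) (XT.nd (nat_lit 78) (nat_lit 152) (nat_lit 0) (XT.lf (nat_lit 0) (nat_lit 221494223646) (nat_lit 76) (nat_lit 26739959554) (nat_lit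 76) (nat_lit 26092840176) (nat_lit 70) (nat_lit 4) (nat_lit 71) (nat_lit 5) (nat_lit 71) (nat_lit 4) (nat_lit 493) (nat_lit 307) (nat_lit 220)) (XT.lf (nat_lit 0) (nat_lit 68744516975) (nat_lit 152) (nat_lit 146427640684) (nat_lit 0) (nat_lit 68127785854) (nat_lit 68) (nat_lit 5) (nat_lit 70) (nat_lit 4) (nat_lit 68) (nat_lit 4) (nat_lit 494) (nat_lit 307) (nat_lit 219)))) (XT.nd (nat_lit 46020) (nat_lit 0) (nat_lit 7980) (XT.nd (nat_lit 78) (nat_lit 0) (nat_lit 0) (XT.lf (nat_lit 0) (nat_lit 45540021426) (nat_lit 76) (nat_lit 123840282877) (nat_lit 76) (nat_lit 123223145135) (nat_lit 67) (nat_lit 4) (nat_lit 68) (nat_lit 5) (nat_lit 68) (nat_lit 4) (nat_lit 495) (nat_lit 307) (nat_lit 218)) (XT.lf (nat_lit 0) (nat_lit 251936959045) (nat_lit 76) (nat_lit 25467435471) (nat_lit 76) (nat_lit 24849910470) (nat_lit 67) (nat_lit 4) (nat_lit 68) (nat_lit 5) (nat_lit 68) (nat_lit 4) (nat_lit 496) (nat_lit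 307) (nat_lit 217))) (XT.nd (nat_lit 78) (nat_lit 76) (nat_lit 0) (XT.lf (nat_lit 0) (nat_lit 3183760961) (nat_lit 152) (nat_lit 3358617749) (nat_lit 0) (nat_lit 3183760961) (nat_lit 173) (nat_lit 5) (nat_lit 175) (nat_lit 4) (nat_lit 173) (nat_lit 4) (nat_lit 404) (nat_lit 308) (nat_lit 308)) (XT.lf (nat_lit 0) (nat_lit 12815467633) (nat_lit 76) (nat_lit 3642118813) (nat_lit 76) (nat_lit 3469668820) (nat_lit 172) (nat_lit 4) (nat_lit 173) (nat_lit 5) (nat_lit 173) (nat_lit 4) (nat_lit 405) (nat_lit 308) (nat_lit 307))))) (XT.nd (nat_lit 312) (nat_lit 456) (nat_lit 0) (XT.nd (nat_lit 156) (nat_lit 228) (nat_lit 0) (XT.nd (nat_lit 78) (nat_lit 76) (nat_lit 0) (XT.lf (nat_lit 0) (nat_lit 6507128569) (nat_lit 152) (nat_lit 7722553837) (nat_lit 0) (nat_lit 6186473254) (nat_lit 170) (nat_lit 5) (nat_lit 172) (nat_lit 4) (nat_lit 170) (nat_lit 4) (nat_lit 406) (nat_lit 308) (nat_lit 306)) (XT.lf (nat_lit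 0) (nat_lit 12448380374) (nat_lit 76) (nat_lit 4472580441) (nat_lit 76) (nat_lit 4002956338) (nat_lit 169) (nat_lit 4) (nat_lit 170) (nat_lit 5) (nat_lit 170) (nat_lit 4) (nat_lit 407) (nat_lit 308) (nat_lit 305))) (XT.nd (nat_lit 78) (nat_lit 76) (nat_lit 0) (XT.lf (nat_lit 0) (nat_lit 6285801946) (nat_lit 152) (nat_lit 9458239431) (nat_lit 0) (nat_lit 5703421814) (nat_lit 167) (nat_lit 5) (nat_lit 169) (nat_lit 4) (nat_lit 167) (nat_lit 4) (nat_lit 408) (nat_lit 308) (nat_lit 304)) (XT.lf (nat_lit 0) (nat_lit 11358869584) (nat_lit 76) (nat_lit 5671161443) (nat_lit 76) (nat_lit 4960096471) (nat_lit 166) (nat_lit 4) (nat_lit 167) (nat_lit 5) (nat_lit 167) (nat_lit 4) (nat_lit 409) (nat_lit 308) (nat_lit 303)))) (XT.nd (nat_lit 156) (nat_lit 228) (nat_lit 0) (XT.nd (nat_lit 78) (nat_lit 76) (nat_lit 0) (XT.lf (nat_lit 0) (nat_lit 5653268825) (nat_lit 152) (nat_lit 12038532773) (nat_lit 0) (nat_lit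 4859343147) (nat_lit 164) (nat_lit 5) (nat_lit 166) (nat_lit 4) (nat_lit 164) (nat_lit 4) (nat_lit 410) (nat_lit 308) (nat_lit 302)) (XT.lf (nat_lit 0) (nat_lit 9430723715) (nat_lit 76) (nat_lit 7302686008) (nat_lit 76) (nat_lit 6397597527) (nat_lit 163) (nat_lit 4) (nat_lit 164) (nat_lit 5) (nat_lit 164) (nat_lit 4) (nat_lit 411) (nat_lit 308) (nat_lit 301))) (XT.nd (nat_lit 78) (nat_lit 76) (nat_lit 0) (XT.lf (nat_lit 0) (nat_lit 4552541901) (nat_lit 152) (nat_lit 15590335368) (nat_lit 0) (nat_lit 3589724932) (nat_lit 161) (nat_lit 5) (nat_lit 163) (nat_lit 4) (nat_lit 161) (nat_lit 4) (nat_lit 412) (nat_lit 308) (nat_lit 300)) (XT.lf (nat_lit 0) (nat_lit 6534714439) (nat_lit 76) (nat_lit 9438139384) (nat_lit 76) (nat_lit 8379295807) (nat_lit 160) (nat_lit 4) (nat_lit 161) (nat_lit 5) (nat_lit 161) (nat_lit 4) (nat_lit 413) (nat_lit 308) (nat_lit 299)))))) (XT.nd (nat_lit 624) (nat_lit 760) (nat_lit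 0) (XT.nd (nat_lit 312) (nat_lit 456) (nat_lit 0) (XT.nd (nat_lit 156) (nat_lit 152) (nat_lit 0) (XT.nd (nat_lit 78) (nat_lit 76) (nat_lit 0) (XT.lf (nat_lit 0) (nat_lit 2919282871) (nat_lit 152) (nat_lit 20254690105) (nat_lit 0) (nat_lit 1823761451) (nat_lit 158) (nat_lit 5) (nat_lit 160) (nat_lit 4) (nat_lit 158) (nat_lit 4) (nat_lit 414) (nat_lit 308) (nat_lit 298)) (XT.lf (nat_lit 0) (nat_lit 2527074208) (nat_lit 76) (nat_lit 12155529094) (nat_lit 76) (nat_lit 10977056279) (nat_lit 157) (nat_lit 4) (nat_lit 158) (nat_lit 5) (nat_lit 158) (nat_lit 4) (nat_lit 415) (nat_lit 308) (nat_lit 297))) (XT.nd (nat_lit 78) (nat_lit 0) (nat_lit 0) (XT.lf (nat_lit 0) (nat_lit 155827924) (nat_lit 76) (nat_lit 533587718) (nat_lit 152) (nat_lit 25663147368) (nat_lit 155) (nat_lit 5) (nat_lit 156) (nat_lit 5) (nat_lit 157) (nat_lit 4) (nat_lit 416) (nat_lit 308) (nat_lit 296)) (XT.lf (nat_lit 0) (nat_lit 12831606589)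 (nat_lit 152) (nat_lit 2664086978) (nat_lit 0) (nat_lit 11562355632) (nat_lit 155) (nat_lit 5) (nat_lit 157) (nat_lit 4) (nat_lit 155) (nat_lit 4) (nat_lit 417) (nat_lit 308) (nat_lit 295)))) (XT.nd (nat_lit 156) (nat_lit 228) (nat_lit 0) (XT.nd (nat_lit 78) (nat_lit 152) (nat_lit 0) (XT.lf (nat_lit 0) (nat_lit 22128732826) (nat_lit 76) (nat_lit 3502527247) (nat_lit 76) (nat_lit 2165031973) (nat_lit 154) (nat_lit 4) (nat_lit 155) (nat_lit 5) (nat_lit 155) (nat_lit 4) (nat_lit 418) (nat_lit 308) (nat_lit 294)) (XT.lf (nat_lit 0) (nat_lit 10355867471) (nat_lit 152) (nat_lit 9177597124) (nat_lit 0) (nat_lit 9020162840) (nat_lit 152) (nat_lit 5) (nat_lit 154) (nat_lit 4) (nat_lit 152) (nat_lit 4) (nat_lit 419) (nat_lit 308) (nat_lit 293))) (XT.nd (nat_lit 78) (nat_lit 152) (nat_lit 0) (XT.lf (nat_lit 0) (nat_lit 16336640658) (nat_lit 76) (nat_lit 7199873929) (nat_lit 76) (nat_lit 5805217290) (nat_lit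 151) (nat_lit 4) (nat_lit 152) (nat_lit 5) (nat_lit 152) (nat_lit 4) (nat_lit 420) (nat_lit 308) (nat_lit 292)) (XT.lf (nat_lit 0) (nat_lit 7125885136) (nat_lit 152) (nat_lit 17286080855) (nat_lit 0) (nat_lit 5744169509) (nat_lit 149) (nat_lit 5) (nat_lit 151) (nat_lit 4) (nat_lit 149) (nat_lit 4) (nat_lit 421) (nat_lit 308) (nat_lit 291))))) (XT.nd (nat_lit 312) (nat_lit 456) (nat_lit 0) (XT.nd (nat_lit 156) (nat_lit 76) (nat_lit 0) (XT.nd (nat_lit 78) (nat_lit 152) (nat_lit 0) (XT.lf (nat_lit 0) (nat_lit 8943091150) (nat_lit 76) (nat_lit 11743569891) (nat_lit 76) (nat_lit 10310929303) (nat_lit 148) (nat_lit 4) (nat_lit 149) (nat_lit 5) (nat_lit 149) (nat_lit 4) (nat_lit 422) (nat_lit 308) (nat_lit 290)) (XT.lf (nat_lit 0) (nat_lit 3040900767) (nat_lit 152) (nat_lit 27202850824) (nat_lit 0) (nat_lit 1630290719) (nat_lit 146) (nat_lit 5) (nat_lit 148) (nat_lit 4) (nat_lit 146) (nat_lit 4) (nat_lit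 423) (nat_lit 308) (nat_lit 289))) (XT.nd (nat_lit 78) (nat_lit 76) (nat_lit 0) (XT.lf (nat_lit 0) (nat_lit 16982880860) (nat_lit 152) (nat_lit 261250850) (nat_lit 0) (nat_lit 15528279916) (nat_lit 146) (nat_lit 5) (nat_lit 148) (nat_lit 4) (nat_lit 146) (nat_lit 4) (nat_lit 424) (nat_lit 308) (nat_lit 288)) (XT.lf (nat_lit 0) (nat_lit 28347304576) (nat_lit 76) (nat_lit 3428597383) (nat_lit 76) (nat_lit 1932100348) (nat_lit 145) (nat_lit 4) (nat_lit 146) (nat_lit 5) (nat_lit 146) (nat_lit 4) (nat_lit 425) (nat_lit 308) (nat_lit 287)))) (XT.nd (nat_lit 156) (nat_lit 228) (nat_lit 0) (XT.nd (nat_lit 78) (nat_lit 76) (nat_lit 0) (XT.lf (nat_lit 0) (nat_lit 12477604399) (nat_lit 152) (nat_lit 11175386509) (nat_lit 0) (nat_lit 11014368137) (nat_lit 143) (nat_lit 5) (nat_lit 145) (nat_lit 4) (nat_lit 143) (nat_lit 4) (nat_lit 426) (nat_lit 308) (nat_lit 286)) (XT.lf (nat_lit 0) (nat_lit 18209071706)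 (nat_lit 76) (nat_lit 9478119745) (nat_lit 76) (nat_lit 7978692065) (nat_lit 142) (nat_lit 4) (nat_lit 143) (nat_lit 5) (nat_lit 143) (nat_lit 4) (nat_lit 427) (nat_lit 308) (nat_lit 285))) (XT.nd (nat_lit 78) (nat_lit 76) (nat_lit 0) (XT.lf (nat_lit 0) (nat_lit 6906820500) (nat_lit 152) (nat_lit 24346820643) (nat_lit 0) (nat_lit 5445967454) (nat_lit 140) (nat_lit 5) (nat_lit 142) (nat_lit 4) (nat_lit 140) (nat_lit 4) (nat_lit 428) (nat_lit 308) (nat_lit 284)) (XT.lf (nat_lit 0) (nat_lit 5795382842) (nat_lit 76) (nat_lit 16731155223) (nat_lit 76) (nat_lit 15239038668) (nat_lit 139) (nat_lit 4) (nat_lit 140) (nat_lit 5) (nat_lit 140) (nat_lit 4) (nat_lit 429) (nat_lit 308) (nat_lit 283))))))) (XT.nd (nat_lit 1248) (nat_lit 1368) (nat_lit 0) (XT.nd (nat_lit 624) (nat_lit 684) (nat_lit 0) (XT.nd (nat_lit 312) (nat_lit 304) (nat_lit 0) (XT.nd (nat_lit 156) (nat_lit 228) (nat_lit 0) (XT.nd (nat_lit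 78) (nat_lit 76) (nat_lit 0) (XT.lf (nat_lit 0) (nat_lit 171894331) (nat_lit 152) (nat_lit 1169507944) (nat_lit 76) (nat_lit 37536865247) (nat_lit 138) (nat_lit 5) (nat_lit 140) (nat_lit 5) (nat_lit 139) (nat_lit 4) (nat_lit 430) (nat_lit 308) (nat_lit 282)) (XT.lf (nat_lit 0) (nat_lit 16295455337) (nat_lit 152) (nat_lit 8896907417) (nat_lit 0) (nat_lit 14819028434) (nat_lit 137) (nat_lit 5) (nat_lit 139) (nat_lit 4) (nat_lit 137) (nat_lit 4) (nat_lit 431) (nat_lit 308) (nat_lit 281))) (XT.nd (nat_lit 78) (nat_lit 152) (nat_lit 0) (XT.lf (nat_lit 0) (nat_lit 24040302209) (nat_lit 76) (nat_lit 9327932148) (nat_lit 76) (nat_lit 7825784680) (nat_lit 136) (nat_lit 4) (nat_lit 137) (nat_lit 5) (nat_lit 137) (nat_lit 4) (nat_lit 432) (nat_lit 308) (nat_lit 280)) (XT.lf (nat_lit 0) (nat_lit 8827944776) (nat_lit 152) (nat_lit 26214288583) (nat_lit 0) (nat_lit 7373998827) (nat_lit 134) (nat_lit 5) (nat_lit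 136) (nat_lit 4) (nat_lit 134) (nat_lit 4) (nat_lit 433) (nat_lit 308) (nat_lit 279)))) (XT.nd (nat_lit 156) (nat_lit 228) (nat_lit 0) (XT.nd (nat_lit 78) (nat_lit 0) (nat_lit 0) (XT.lf (nat_lit 0) (nat_lit 7530922977) (nat_lit 76) (nat_lit 18811904770) (nat_lit 76) (nat_lit 17335740431) (nat_lit 133) (nat_lit 4) (nat_lit 134) (nat_lit 5) (nat_lit 134) (nat_lit 4) (nat_lit 434) (nat_lit 308) (nat_lit 278)) (XT.lf (nat_lit 0) (nat_lit 43322491464) (nat_lit 76) (nat_lit 1585074336) (nat_lit 76) (nat_lit 87749623) (nat_lit 133) (nat_lit 4) (nat_lit 134) (nat_lit 5) (nat_lit 134) (nat_lit 4) (nat_lit 435) (nat_lit 308) (nat_lit 277))) (XT.nd (nat_lit 78) (nat_lit 76) (nat_lit 0) (XT.lf (nat_lit 0) (nat_lit 17995260746) (nat_lit 152) (nat_lit 11791053106) (nat_lit 0) (nat_lit 16550044128) (nat_lit 131) (nat_lit 5) (nat_lit 133) (nat_lit 4) (nat_lit 131) (nat_lit 4) (nat_lit 436) (nat_lit 308) (nat_lit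 276)) (XT.lf (nat_lit 0) (nat_lit 25132421533) (nat_lit 76) (nat_lit 12033076833) (nat_lit 76) (nat_lit 10569581088) (nat_lit 130) (nat_lit 4) (nat_lit 131) (nat_lit 5) (nat_lit 131) (nat_lit 4) (nat_lit 437) (nat_lit 308) (nat_lit 275))))) (XT.nd (nat_lit 312) (nat_lit 304) (nat_lit 0) (XT.nd (nat_lit 156) (nat_lit 152) (nat_lit 0) (XT.nd (nat_lit 78) (nat_lit 76) (nat_lit 0) (XT.lf (nat_lit 0) (nat_lit 8114685267) (nat_lit 152) (nat_lit 34364279804) (nat_lit 0) (nat_lit 6704300091) (nat_lit 128) (nat_lit 5) (nat_lit 130) (nat_lit 4) (nat_lit 128) (nat_lit 4) (nat_lit 438) (nat_lit 308) (nat_lit 274)) (XT.lf (nat_lit 0) (nat_lit 3410500541) (nat_lit 76) (nat_lit 24345972806) (nat_lit 76) (nat_lit 22919797433) (nat_lit 127) (nat_lit 4) (nat_lit 128) (nat_lit 5) (nat_lit 128) (nat_lit 4) (nat_lit 439) (nat_lit 308) (nat_lit 273))) (XT.nd (nat_lit 78) (nat_lit 152) (nat_lit 0) (XT.lf (nat_lit 0)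 (nat_lit 43742126294) (nat_lit 76) (nat_lit 4963378180) (nat_lit 76) (nat_lit 3522164525) (nat_lit 127) (nat_lit 4) (nat_lit 128) (nat_lit 5) (nat_lit 128) (nat_lit 4) (nat_lit 440) (nat_lit 308) (nat_lit 272)) (XT.lf (nat_lit 0) (nat_lit 16813884809) (nat_lit 152) (nat_lit 21576557393) (nat_lit 0) (nat_lit 15427660210) (nat_lit 125) (nat_lit 5) (nat_lit 127) (nat_lit 4) (nat_lit 125) (nat_lit 4) (nat_lit 441) (nat_lit 308) (nat_lit 271)))) (XT.nd (nat_lit 156) (nat_lit 76) (nat_lit 0) (XT.nd (nat_lit 78) (nat_lit 152) (nat_lit 0) (XT.lf (nat_lit 0) (nat_lit 19802854625) (nat_lit 76) (nat_lit 18533564288) (nat_lit 76) (nat_lit 17134349056) (nat_lit 124) (nat_lit 4) (nat_lit 125) (nat_lit 5) (nat_lit 125) (nat_lit 4) (nat_lit 442) (nat_lit 308) (nat_lit 270)) (XT.lf (nat_lit 0) (nat_lit 3873970967) (nat_lit 152) (nat_lit 50786367189) (nat_lit 0) (nat_lit 2529602144) (nat_lit 122) (nat_lit 5) (nat_lit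 124) (nat_lit 4) (nat_lit 122) (nat_lit 4) (nat_lit 443) (nat_lit 308) (nat_lit 269))) (XT.nd (nat_lit 78) (nat_lit 76) (nat_lit 0) (XT.lf (nat_lit 0) (nat_lit 26026167355) (nat_lit 152) (nat_lit 8250818267) (nat_lit 0) (nat_lit 24670576735) (nat_lit 122) (nat_lit 5) (nat_lit 124) (nat_lit 4) (nat_lit 122) (nat_lit 4) (nat_lit 444) (nat_lit 308) (nat_lit 268)) (XT.lf (nat_lit 0) (nat_lit 37115364322) (nat_lit 76) (nat_lit 12513419368) (nat_lit 76) (nat_lit 11147141321) (nat_lit 121) (nat_lit 4) (nat_lit 122) (nat_lit 5) (nat_lit 122) (nat_lit 4) (nat_lit 445) (nat_lit 308) (nat_lit 267)))))) (XT.nd (nat_lit 624) (nat_lit 684) (nat_lit 0) (XT.nd (nat_lit 312) (nat_lit 304) (nat_lit 0) (XT.nd (nat_lit 156) (nat_lit 152) (nat_lit 0) (XT.nd (nat_lit 78) (nat_lit 76) (nat_lit 0) (XT.lf (nat_lit 0) (nat_lit 11764475936) (nat_lit 152) (nat_lit 40447337555) (nat_lit 0) (nat_lit 10453564938) (nat_lit 119)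 (nat_lit 5) (nat_lit 121) (nat_lit 4) (nat_lit 119) (nat_lit 4) (nat_lit 446) (nat_lit 308) (nat_lit 266)) (XT.lf (nat_lit 0) (nat_lit 5892787307) (nat_lit 76) (nat_lit 30022066779) (nat_lit 76) (nat_lit 28701923580) (nat_lit 118) (nat_lit 4) (nat_lit 119) (nat_lit 5) (nat_lit 119) (nat_lit 4) (nat_lit 447) (nat_lit 308) (nat_lit 265))) (XT.nd (nat_lit 78) (nat_lit 152) (nat_lit 0) (XT.lf (nat_lit 0) (nat_lit 55477850835) (nat_lit 76) (nat_lit 6247110641) (nat_lit 76) (nat_lit 4918174871) (nat_lit 118) (nat_lit 4) (nat_lit 119) (nat_lit 5) (nat_lit 119) (nat_lit 4) (nat_lit 448) (nat_lit 308) (nat_lit 264)) (XT.lf (nat_lit 0) (nat_lit 20104124546) (nat_lit 152) (nat_lit 29785974513) (nat_lit 0) (nat_lit 18830496309) (nat_lit 116) (nat_lit 5) (nat_lit 118) (nat_lit 4) (nat_lit 116) (nat_lit 4) (nat_lit 449) (nat_lit 308) (nat_lit 263)))) (XT.nd (nat_lit 156) (nat_lit 76) (nat_lit 0) (XT.nd (nat_lit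 78) (nat_lit 152) (nat_lit 0) (XT.lf (nat_lit 0) (nat_lit 21061543594) (nat_lit 76) (nat_lit 25548834958) (nat_lit 76) (nat_lit 24267611367) (nat_lit 115) (nat_lit 4) (nat_lit 116) (nat_lit 5) (nat_lit 116) (nat_lit 4) (nat_lit 450) (nat_lit 308) (nat_lit 262)) (XT.lf (nat_lit 0) (nat_lit 1580526454) (nat_lit 152) (nat_lit 71192119556) (nat_lit 0) (nat_lit 353424299) (nat_lit 113) (nat_lit 5) (nat_lit 115) (nat_lit 4) (nat_lit 113) (nat_lit 4) (nat_lit 451) (nat_lit 308) (nat_lit 261))) (XT.nd (nat_lit 78) (nat_lit 76) (nat_lit 0) (XT.lf (nat_lit 0) (nat_lit 28956576450) (nat_lit 152) (nat_lit 18734620832) (nat_lit 0) (nat_lit 27722913143) (nat_lit 113) (nat_lit 5) (nat_lit 115) (nat_lit 4) (nat_lit 113) (nat_lit 4) (nat_lit 452) (nat_lit 308) (nat_lit 260)) (XT.lf (nat_lit 0) (nat_lit 37093807296) (nat_lit 76) (nat_lit 20972213833) (nat_lit 76) (nat_lit 19732301809) (nat_lit 112) (nat_lit 4) (nat_lit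 113) (nat_lit 5) (nat_lit 113) (nat_lit 4) (nat_lit 453) (nat_lit 308) (nat_lit 259))))) (XT.nd (nat_lit 312) (nat_lit 304) (nat_lit 0) (XT.nd (nat_lit 156) (nat_lit 228) (nat_lit 0) (XT.nd (nat_lit 78) (nat_lit 0) (nat_lit 0) (XT.lf (nat_lit 0) (nat_lit 8539203021) (nat_lit 152) (nat_lit 64379544437) (nat_lit 0) (nat_lit 7352666656) (nat_lit 110) (nat_lit 5) (nat_lit 112) (nat_lit 4) (nat_lit 110) (nat_lit 4) (nat_lit 454) (nat_lit 308) (nat_lit 258)) (XT.lf (nat_lit 0) (nat_lit 38391089131) (nat_lit 152) (nat_lit 7220244770) (nat_lit 0) (nat_lit 37199154890) (nat_lit 110) (nat_lit 5) (nat_lit 112) (nat_lit 4) (nat_lit 110) (nat_lit 4) (nat_lit 455) (nat_lit 308) (nat_lit 257))) (XT.nd (nat_lit 78) (nat_lit 152) (nat_lit 0) (XT.lf (nat_lit 0) (nat_lit 54110604174) (nat_lit 76) (nat_lit 16265481158) (nat_lit 76) (nat_lit 15068406082) (nat_lit 109) (nat_lit 4) (nat_lit 110) (nat_lit 5) (nat_lit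 110) (nat_lit 4) (nat_lit 456) (nat_lit 308) (nat_lit 256)) (XT.lf (nat_lit 0) (nat_lit 15885853737) (nat_lit 152) (nat_lit 57538934930) (nat_lit 0) (nat_lit 14741119347) (nat_lit 107) (nat_lit 5) (nat_lit 109) (nat_lit 4) (nat_lit 107) (nat_lit 4) (nat_lit 457) (nat_lit 308) (nat_lit 255)))) (XT.nd (nat_lit 156) (nat_lit 228) (nat_lit 0) (XT.nd (nat_lit 78) (nat_lit 0) (nat_lit 0) (XT.lf (nat_lit 0) (nat_lit 4996075097) (nat_lit 76) (nat_lit 43565079093) (nat_lit 76) (nat_lit 42415903857) (nat_lit 106) (nat_lit 4) (nat_lit 107) (nat_lit 5) (nat_lit 107) (nat_lit 4) (nat_lit 458) (nat_lit 308) (nat_lit 254)) (XT.lf (nat_lit 0) (nat_lit 72243888069) (nat_lit 76) (nat_lit 11399804246) (nat_lit 76) (nat_lit 10246399632) (nat_lit 106) (nat_lit 4) (nat_lit 107) (nat_lit 5) (nat_lit 107) (nat_lit 4) (nat_lit 459) (nat_lit 308) (nat_lit 253))) (XT.nd (nat_lit 78) (nat_lit 76) (nat_lit 0) (XT.lf (nat_lit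 0) (nat_lit 23676026574) (nat_lit 152) (nat_lit 50635791239) (nat_lit 0) (nat_lit 22573709820) (nat_lit 104) (nat_lit 5) (nat_lit 106) (nat_lit 4) (nat_lit 104) (nat_lit 4) (nat_lit 460) (nat_lit 308) (nat_lit 252)) (XT.lf (nat_lit 0) (nat_lit 18099593916) (nat_lit 76) (nat_lit 41498168023) (nat_lit 76) (nat_lit 40392197774) (nat_lit 103) (nat_lit 4) (nat_lit 104) (nat_lit 5) (nat_lit 104) (nat_lit 4) (nat_lit 461) (nat_lit 308) (nat_lit 251))))))))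
noncomputable def xc46 : XT := (XT.nd (nat_lit 2496) (nat_lit 228) (nat_lit 0) (XT.nd (nat_lit 1248) (nat_lit 1216) (nat_lit 0) (XT.nd (nat_lit 624) (nat_lit 684) (nat_lit 0) (XT.nd (nat_lit 312) (nat_lit 304) (nat_lit 0) (XT.nd (nat_lit 156) (nat_lit 152) (nat_lit 0) (XT.nd (nat_lit 78) (nat_lit 152) (nat_lit 0) (XT.lf (nat_lit 0) (nat_lit 91637718717) (nat_lit 76) (nat_lit 6344018398) (nat_lit 76) (nat_lit 5234568629) (nat_lit 103) (nat_lit 4) (nat_lit 104) (nat_lit 5) (nat_lit 104) (nat_lit 4) (nat_lit 462) (nat_lit 308) (nat_lit 250)) (XT.lf (nat_lit 0) (nat_lit 31970160190) (nat_lit 152) (nat_lit 43633531827) (nat_lit 0) (nat_lit 30910385335) (nat_lit 101) (nat_lit 5) (nat_lit 103) (nat_lit 4) (nat_lit 101) (nat_lit 4) (nat_lit 463) (nat_lit 308) (nat_lit 249))) (XT.nd (nat_lit 78) (nat_lit 76) (nat_lit 0) (XT.lf (nat_lit 0) (nat_lit 31947723462) (nat_lit 76) (nat_lit 39528330903) (nat_lit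 76) (nat_lit 38465550309) (nat_lit 100) (nat_lit 4) (nat_lit 101) (nat_lit 5) (nat_lit 101) (nat_lit 4) (nat_lit 464) (nat_lit 308) (nat_lit 248)) (XT.lf (nat_lit 0) (nat_lit 1224214) (nat_lit 152) (nat_lit 1063133564) (nat_lit 76) (nat_lit 112448314843) (nat_lit 99) (nat_lit 5) (nat_lit 101) (nat_lit 5) (nat_lit 100) (nat_lit 4) (nat_lit 465) (nat_lit 308) (nat_lit 247)))) (XT.nd (nat_lit 156) (nat_lit 152) (nat_lit 0) (XT.nd (nat_lit 78) (nat_lit 76) (nat_lit 0) (XT.lf (nat_lit 0) (nat_lit 40834132591) (nat_lit 152) (nat_lit 36493219911) (nat_lit 0) (nat_lit 39816637831) (nat_lit 98) (nat_lit 5) (nat_lit 100) (nat_lit 4) (nat_lit 98) (nat_lit 4) (nat_lit 466) (nat_lit 308) (nat_lit 246)) (XT.lf (nat_lit 0) (nat_lit 46645092804) (nat_lit 76) (nat_lit 37651184582) (nat_lit 76) (nat_lit 36631216994) (nat_lit 97) (nat_lit 4) (nat_lit 98) (nat_lit 5) (nat_lit 98) (nat_lit 4) (nat_lit 467) (nat_lit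 308) (nat_lit 245))) (XT.nd (nat_lit 78) (nat_lit 0) (nat_lit 0) (XT.lf (nat_lit 0) (nat_lit 5555451715) (nat_lit 152) (nat_lit 114724726619) (nat_lit 0) (nat_lit 4581811082) (nat_lit 95) (nat_lit 5) (nat_lit 97) (nat_lit 4) (nat_lit 95) (nat_lit 4) (nat_lit 468) (nat_lit 308) (nat_lit 244)) (XT.lf (nat_lit 0) (nat_lit 50339862167) (nat_lit 152) (nat_lit 29173263167) (nat_lit 0) (nat_lit 49364085411) (nat_lit 95) (nat_lit 5) (nat_lit 97) (nat_lit 4) (nat_lit 95) (nat_lit 4) (nat_lit 469) (nat_lit 308) (nat_lit 243))))) (XT.nd (nat_lit 312) (nat_lit 380) (nat_lit 0) (XT.nd (nat_lit 156) (nat_lit 76) (nat_lit 0) (XT.nd (nat_lit 78) (nat_lit 152) (nat_lit 0) (XT.lf (nat_lit 0) (nat_lit 62305741881) (nat_lit 76) (nat_lit 35862512187) (nat_lit 76) (nat_lit 34884701028) (nat_lit 94) (nat_lit 4) (nat_lit 95) (nat_lit 5) (nat_lit 95) (nat_lit 4) (nat_lit 470) (nat_lit 308) (nat_lit 242)) (XT.lf (nat_lit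 0) (nat_lit 11449606158) (nat_lit 152) (nat_lit 115420344163) (nat_lit 0) (nat_lit 10516512172) (nat_lit 92) (nat_lit 5) (nat_lit 94) (nat_lit 4) (nat_lit 92) (nat_lit 4) (nat_lit 471) (nat_lit 308) (nat_lit 241))) (XT.nd (nat_lit 78) (nat_lit 76) (nat_lit 0) (XT.lf (nat_lit 0) (nat_lit 60565966925) (nat_lit 152) (nat_lit 21629084126) (nat_lit 0) (nat_lit 59631115545) (nat_lit 92) (nat_lit 5) (nat_lit 94) (nat_lit 4) (nat_lit 92) (nat_lit 4) (nat_lit 472) (nat_lit 308) (nat_lit 240)) (XT.lf (nat_lit 0) (nat_lit 79054142574) (nat_lit 76) (nat_lit 34158262721) (nat_lit 76) (nat_lit 33221737632) (nat_lit 91) (nat_lit 4) (nat_lit 92) (nat_lit 5) (nat_lit 92) (nat_lit 4) (nat_lit 473) (nat_lit 308) (nat_lit 239)))) (XT.nd (nat_lit 156) (nat_lit 228) (nat_lit 0) (XT.nd (nat_lit 78) (nat_lit 0) (nat_lit 0) (XT.lf (nat_lit 0) (nat_lit 17693819655) (nat_lit 152) (nat_lit 116713570135) (nat_lit 0) (nat_lit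 16800372897) (nat_lit 89) (nat_lit 5) (nat_lit 91) (nat_lit 4) (nat_lit 89) (nat_lit 4) (nat_lit 474) (nat_lit 308) (nat_lit 238)) (XT.lf (nat_lit 0) (nat_lit 71598488282) (nat_lit 152) (nat_lit 13812758423) (nat_lit 0) (nat_lit 70703595712) (nat_lit 89) (nat_lit 5) (nat_lit 91) (nat_lit 4) (nat_lit 89) (nat_lit 4) (nat_lit 475) (nat_lit 308) (nat_lit 237))) (XT.nd (nat_lit 78) (nat_lit 152) (nat_lit 0) (XT.lf (nat_lit 0) (nat_lit 97026322849) (nat_lit 76) (nat_lit 32534549363) (nat_lit 76) (nat_lit 31638279828) (nat_lit 88) (nat_lit 4) (nat_lit 89) (nat_lit 5) (nat_lit 89) (nat_lit 4) (nat_lit 476) (nat_lit 308) (nat_lit 236)) (XT.lf (nat_lit 0) (nat_lit 24336167481) (nat_lit 152) (nat_lit 118640691749) (nat_lit 0) (nat_lit 23481328502) (nat_lit 86) (nat_lit 5) (nat_lit 88) (nat_lit 4) (nat_lit 86) (nat_lit 4) (nat_lit 477) (nat_lit 308) (nat_lit 235)))))) (XT.nd (nat_lit 624) (nat_lit 684) (nat_lit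 0) (XT.nd (nat_lit 312) (nat_lit 228) (nat_lit 0) (XT.nd (nat_lit 156) (nat_lit 228) (nat_lit 0) (XT.nd (nat_lit 78) (nat_lit 76) (nat_lit 0) (XT.lf (nat_lit 0) (nat_lit 83531686389) (nat_lit 152) (nat_lit 5672617722) (nat_lit 0) (nat_lit 82675657936) (nat_lit 86) (nat_lit 5) (nat_lit 88) (nat_lit 4) (nat_lit 86) (nat_lit 4) (nat_lit 478) (nat_lit 308) (nat_lit 234)) (XT.lf (nat_lit 0) (nat_lit 116371104385) (nat_lit 76) (nat_lit 30987646741) (nat_lit 76) (nat_lit 30130485457) (nat_lit 85) (nat_lit 4) (nat_lit 86) (nat_lit 5) (nat_lit 86) (nat_lit 4) (nat_lit 479) (nat_lit 308) (nat_lit 233))) (XT.nd (nat_lit 78) (nat_lit 76) (nat_lit 0) (XT.lf (nat_lit 0) (nat_lit 31429055178) (nat_lit 152) (nat_lit 121242887813) (nat_lit 0) (nat_lit 30611683586) (nat_lit 83) (nat_lit 5) (nat_lit 85) (nat_lit 4) (nat_lit 83) (nat_lit 4) (nat_lit 480) (nat_lit 308) (nat_lit 232)) (XT.lf (nat_lit 0) (nat_lit 2941327068)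 (nat_lit 76) (nat_lit 93573509878) (nat_lit 76) (nat_lit 92755159704) (nat_lit 82) (nat_lit 4) (nat_lit 83) (nat_lit 5) (nat_lit 83) (nat_lit 4) (nat_lit 481) (nat_lit 308) (nat_lit 231)))) (XT.nd (nat_lit 156) (nat_lit 76) (nat_lit 0) (XT.nd (nat_lit 78) (nat_lit 152) (nat_lit 0) (XT.lf (nat_lit 0) (nat_lit 137251465265) (nat_lit 76) (nat_lit 29513987438) (nat_lit 76) (nat_lit 28694705280) (nat_lit 82) (nat_lit 4) (nat_lit 83) (nat_lit 5) (nat_lit 83) (nat_lit 4) (nat_lit 482) (nat_lit 308) (nat_lit 230)) (XT.lf (nat_lit 0) (nat_lit 39029693824) (nat_lit 152) (nat_lit 124566677286) (nat_lit 0) (nat_lit 38248579765) (nat_lit 80) (nat_lit 5) (nat_lit 82) (nat_lit 4) (nat_lit 80) (nat_lit 4) (nat_lit 483) (nat_lit 308) (nat_lit 229))) (XT.nd (nat_lit 78) (nat_lit 0) (nat_lit 0) (XT.lf (nat_lit 0) (nat_lit 12197558418) (nat_lit 76) (nat_lit 98516461021) (nat_lit 76) (nat_lit 97734541881) (nat_lit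 79) (nat_lit 4) (nat_lit 80) (nat_lit 5) (nat_lit 80) (nat_lit 4) (nat_lit 484) (nat_lit 308) (nat_lit 228)) (XT.lf (nat_lit 0) (nat_lit 159846040497) (nat_lit 76) (nat_lit 28110157912) (nat_lit 76) (nat_lit 27327472026) (nat_lit 79) (nat_lit 4) (nat_lit 80) (nat_lit 5) (nat_lit 80) (nat_lit 4) (nat_lit 485) (nat_lit 308) (nat_lit 227))))) (XT.nd (nat_lit 312) (nat_lit 304) (nat_lit 0) (XT.nd (nat_lit 156) (nat_lit 152) (nat_lit 0) (XT.nd (nat_lit 78) (nat_lit 76) (nat_lit 0) (XT.lf (nat_lit 0) (nat_lit 47200622007) (nat_lit 152) (nat_lit 128664415781) (nat_lit 0) (nat_lit 46454511418) (nat_lit 77) (nat_lit 5) (nat_lit 79) (nat_lit 4) (nat_lit 77) (nat_lit 4) (nat_lit 486) (nat_lit 308) (nat_lit 226)) (XT.lf (nat_lit 0) (nat_lit 21976377567) (nat_lit 76) (nat_lit 104186944273) (nat_lit 76) (nat_lit 103440171340) (nat_lit 76) (nat_lit 4) (nat_lit 77) (nat_lit 5) (nat_lit 77) (nat_lit 4) (nat_lit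 487) (nat_lit 308) (nat_lit 225))) (XT.nd (nat_lit 78) (nat_lit 152) (nat_lit 0) (XT.lf (nat_lit 0) (nat_lit 184350774478) (nat_lit 76) (nat_lit 26772894010) (nat_lit 76) (nat_lit 26025490274) (nat_lit 76) (nat_lit 4) (nat_lit 77) (nat_lit 5) (nat_lit 77) (nat_lit 4) (nat_lit 488) (nat_lit 308) (nat_lit 224)) (XT.lf (nat_lit 0) (nat_lit 56010279461) (nat_lit 152) (nat_lit 133594844959) (nat_lit 0) (nat_lit 55297894222) (nat_lit 74) (nat_lit 5) (nat_lit 76) (nat_lit 4) (nat_lit 74) (nat_lit 4) (nat_lit 489) (nat_lit 308) (nat_lit 223)))) (XT.nd (nat_lit 156) (nat_lit 228) (nat_lit 0) (XT.nd (nat_lit 78) (nat_lit 0) (nat_lit 0) (XT.lf (nat_lit 0) (nat_lit 32351601208) (nat_lit 76) (nat_lit 110649096857) (nat_lit 76) (nat_lit 109936166707) (nat_lit 73) (nat_lit 4) (nat_lit 74) (nat_lit 5) (nat_lit 74) (nat_lit 4) (nat_lit 490) (nat_lit 308) (nat_lit 222)) (XT.lf (nat_lit 0) (nat_lit 210980740969)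 (nat_lit 76) (nat_lit 25499076187) (nat_lit 76) (nat_lit 24785627074) (nat_lit 73) (nat_lit 4) (nat_lit 74) (nat_lit 5) (nat_lit 74) (nat_lit 4) (nat_lit 491) (nat_lit 308) (nat_lit 221))) (XT.nd (nat_lit 78) (nat_lit 76) (nat_lit 0) (XT.lf (nat_lit 0) (nat_lit 65533637826) (nat_lit 152) (nat_lit 139423700205) (nat_lit 0) (nat_lit 64853691765) (nat_lit 71) (nat_lit 5) (nat_lit 73) (nat_lit 4) (nat_lit 71) (nat_lit 4) (nat_lit 492) (nat_lit 308) (nat_lit 220)) (XT.lf (nat_lit 0) (nat_lit 43403655456) (nat_lit 76) (nat_lit 117974112196) (nat_lit 76) (nat_lit 117293717835) (nat_lit 70) (nat_lit 4) (nat_lit 71) (nat_lit 5) (nat_lit 71) (nat_lit 4) (nat_lit 493) (nat_lit 308) (nat_lit 219))))))) (XT.nd (nat_lit 46956) (nat_lit 0) (nat_lit 5472) (XT.nd (nat_lit 46332) (nat_lit 0) (nat_lit 6916) (XT.nd (nat_lit 46020) (nat_lit 0) (nat_lit 7828) (XT.nd (nat_lit 156) (nat_lit 76) (nat_lit 0) (XT.nd (nat_lit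 78) (nat_lit 152) (nat_lit 0) (XT.lf (nat_lit 0) (nat_lit 239972147783) (nat_lit 76) (nat_lit 24285724539) (nat_lit 76) (nat_lit 23604903226) (nat_lit 70) (nat_lit 4) (nat_lit 71) (nat_lit 5) (nat_lit 71) (nat_lit 4) (nat_lit 494) (nat_lit 308) (nat_lit 218)) (XT.lf (nat_lit 0) (nat_lit 75852894543) (nat_lit 152) (nat_lit 146224382524) (nat_lit 0) (nat_lit 75204106034) (nat_lit 68) (nat_lit 5) (nat_lit 70) (nat_lit 4) (nat_lit 68) (nat_lit 4) (nat_lit 495) (nat_lit 308) (nat_lit 217))) (XT.nd (nat_lit 45786) (nat_lit 0) (nat_lit 8284) (XT.lf (nat_lit 0) (nat_lit 55220297527) (nat_lit 76) (nat_lit 126240942834) (nat_lit 76) (nat_lit 125591785507) (nat_lit 67) (nat_lit 4) (nat_lit 68) (nat_lit 5) (nat_lit 68) (nat_lit 4) (nat_lit 496) (nat_lit 308) (nat_lit 216)) (XT.lf (nat_lit 0) (nat_lit 3125732154) (nat_lit 152) (nat_lit 3020438127) (nat_lit 0) (nat_lit 3125732154) (nat_lit 176) (nat_lit 5) (nat_lit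 178) (nat_lit 4) (nat_lit 176) (nat_lit 4) (nat_lit 402) (nat_lit 309) (nat_lit 309)))) (XT.nd (nat_lit 156) (nat_lit 228) (nat_lit 0) (XT.nd (nat_lit 78) (nat_lit 152) (nat_lit 0) (XT.lf (nat_lit 0) (nat_lit 12564716829) (nat_lit 76) (nat_lit 3310433569) (nat_lit 76) (nat_lit 3120307452) (nat_lit 175) (nat_lit 4) (nat_lit 176) (nat_lit 5) (nat_lit 176) (nat_lit 4) (nat_lit 403) (nat_lit 309) (nat_lit 308)) (XT.lf (nat_lit 0) (nat_lit 6391293197) (nat_lit 152) (nat_lit 7031080497) (nat_lit 0) (nat_lit 6037770711) (nat_lit 173) (nat_lit 5) (nat_lit 175) (nat_lit 4) (nat_lit 173) (nat_lit 4) (nat_lit 404) (nat_lit 309) (nat_lit 307))) (XT.nd (nat_lit 78) (nat_lit 152) (nat_lit 0) (XT.lf (nat_lit 0) (nat_lit 12182462519) (nat_lit 76) (nat_lit 4139201532) (nat_lit 76) (nat_lit 3621440959) (nat_lit 172) (nat_lit 4) (nat_lit 173) (nat_lit 5) (nat_lit 173) (nat_lit 4) (nat_lit 405) (nat_lit 309) (nat_lit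 306)) (XT.lf (nat_lit 0) (nat_lit 6184899986) (nat_lit 152) (nat_lit 8713163711) (nat_lit 0) (nat_lit 5542825891) (nat_lit 170) (nat_lit 5) (nat_lit 172) (nat_lit 4) (nat_lit 170) (nat_lit 4) (nat_lit 406) (nat_lit 309) (nat_lit 305))))) (XT.nd (nat_lit 312) (nat_lit 456) (nat_lit 0) (XT.nd (nat_lit 156) (nat_lit 228) (nat_lit 0) (XT.nd (nat_lit 78) (nat_lit 152) (nat_lit 0) (XT.lf (nat_lit 0) (nat_lit 11115854752) (nat_lit 76) (nat_lit 5312628944) (nat_lit 76) (nat_lit 4528679812) (nat_lit 169) (nat_lit 4) (nat_lit 170) (nat_lit 5) (nat_lit 170) (nat_lit 4) (nat_lit 407) (nat_lit 309) (nat_lit 304)) (XT.lf (nat_lit 0) (nat_lit 5584815933) (nat_lit 152) (nat_lit 11196395590) (nat_lit 0) (nat_lit 4709512873) (nat_lit 167) (nat_lit 5) (nat_lit 169) (nat_lit 4) (nat_lit 167) (nat_lit 4) (nat_lit 408) (nat_lit 309) (nat_lit 303))) (XT.nd (nat_lit 78) (nat_lit 152) (nat_lit 0) (XT.lf (nat_lit 0) (nat_lit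 9253753260) (nat_lit 76) (nat_lit 6893297600) (nat_lit 76) (nat_lit 5895437550) (nat_lit 166) (nat_lit 4) (nat_lit 167) (nat_lit 5) (nat_lit 167) (nat_lit 4) (nat_lit 409) (nat_lit 309) (nat_lit 302)) (XT.lf (nat_lit 0) (nat_lit 4537118542) (nat_lit 152) (nat_lit 14602041746) (nat_lit 0) (nat_lit 3475612834) (nat_lit 164) (nat_lit 5) (nat_lit 166) (nat_lit 4) (nat_lit 164) (nat_lit 4) (nat_lit 410) (nat_lit 309) (nat_lit 301)))) (XT.nd (nat_lit 156) (nat_lit 228) (nat_lit 0) (XT.nd (nat_lit 78) (nat_lit 152) (nat_lit 0) (XT.lf (nat_lit 0) (nat_lit 6472682073) (nat_lit 76) (nat_lit 8949540226) (nat_lit 76) (nat_lit 7782165182) (nat_lit 163) (nat_lit 4) (nat_lit 164) (nat_lit 5) (nat_lit 164) (nat_lit 4) (nat_lit 411) (nat_lit 309) (nat_lit 300)) (XT.lf (nat_lit 0) (nat_lit 2980833231) (nat_lit 152) (nat_lit 19064781977) (nat_lit 0) (nat_lit 1773020866) (nat_lit 161) (nat_lit 5) (nat_lit 163) (nat_lit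 4) (nat_lit 161) (nat_lit 4) (nat_lit 412) (nat_lit 309) (nat_lit 299))) (XT.nd (nat_lit 78) (nat_lit 152) (nat_lit 0) (XT.lf (nat_lit 0) (nat_lit 2635371316) (nat_lit 76) (nat_lit 11556276662) (nat_lit 76) (nat_lit 10257010384) (nat_lit 160) (nat_lit 4) (nat_lit 161) (nat_lit 5) (nat_lit 161) (nat_lit 4) (nat_lit 413) (nat_lit 309) (nat_lit 298)) (XT.lf (nat_lit 0) (nat_lit 366154190) (nat_lit 76) (nat_lit 488733338) (nat_lit 152) (nat_lit 24253160418) (nat_lit 158) (nat_lit 5) (nat_lit 159) (nat_lit 5) (nat_lit 160) (nat_lit 4) (nat_lit 414) (nat_lit 309) (nat_lit 297)))))) (XT.nd (nat_lit 624) (nat_lit 760) (nat_lit 0) (XT.nd (nat_lit 312) (nat_lit 380) (nat_lit 0) (XT.nd (nat_lit 156) (nat_lit 228) (nat_lit 0) (XT.nd (nat_lit 78) (nat_lit 76) (nat_lit 0) (XT.lf (nat_lit 0) (nat_lit 12422709392) (nat_lit 152) (nat_lit 2333678424) (nat_lit 0) (nat_lit 11023360213) (nat_lit 158) (nat_lit 5) (nat_lit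 160) (nat_lit 4) (nat_lit 158) (nat_lit 4) (nat_lit 415) (nat_lit 309) (nat_lit 296)) (XT.lf (nat_lit 0) (nat_lit 21281791101) (nat_lit 76) (nat_lit 3337652252) (nat_lit 76) (nat_lit 1863063713) (nat_lit 157) (nat_lit 4) (nat_lit 158) (nat_lit 5) (nat_lit 158) (nat_lit 4) (nat_lit 416) (nat_lit 309) (nat_lit 295))) (XT.nd (nat_lit 78) (nat_lit 76) (nat_lit 0) (XT.lf (nat_lit 0) (nat_lit 10061482946) (nat_lit 152) (nat_lit 8552959799) (nat_lit 0) (nat_lit 8588868590) (nat_lit 155) (nat_lit 5) (nat_lit 157) (nat_lit 4) (nat_lit 155) (nat_lit 4) (nat_lit 417) (nat_lit 309) (nat_lit 294)) (XT.lf (nat_lit 0) (nat_lit 15749519957) (nat_lit 76) (nat_lit 6870840973) (nat_lit 76) (nat_lit 5333232028) (nat_lit 154) (nat_lit 4) (nat_lit 155) (nat_lit 5) (nat_lit 155) (nat_lit 4) (nat_lit 418) (nat_lit 309) (nat_lit 293)))) (XT.nd (nat_lit 156) (nat_lit 152) (nat_lit 0) (XT.nd (nat_lit 78) (nat_lit 76) (nat_lit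 0) (XT.lf (nat_lit 0) (nat_lit 6981240140) (nat_lit 152) (nat_lit 16289654242) (nat_lit 0) (nat_lit 5457898661) (nat_lit 152) (nat_lit 5) (nat_lit 154) (nat_lit 4) (nat_lit 152) (nat_lit 4) (nat_lit 419) (nat_lit 309) (nat_lit 292)) (XT.lf (nat_lit 0) (nat_lit 8693649619) (nat_lit 76) (nat_lit 11207876096) (nat_lit 76) (nat_lit 9628389848) (nat_lit 151) (nat_lit 4) (nat_lit 152) (nat_lit 5) (nat_lit 152) (nat_lit 4) (nat_lit 420) (nat_lit 309) (nat_lit 291))) (XT.nd (nat_lit 78) (nat_lit 0) (nat_lit 0) (XT.lf (nat_lit 0) (nat_lit 3086168824) (nat_lit 152) (nat_lit 25747109095) (nat_lit 0) (nat_lit 1530971246) (nat_lit 149) (nat_lit 5) (nat_lit 151) (nat_lit 4) (nat_lit 149) (nat_lit 4) (nat_lit 421) (nat_lit 309) (nat_lit 290)) (XT.lf (nat_lit 0) (nat_lit 16366410307) (nat_lit 152) (nat_lit 90607657) (nat_lit 0) (nat_lit 14762712766) (nat_lit 149) (nat_lit 5) (nat_lit 151) (nat_lit 4) (nat_lit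 149) (nat_lit 4) (nat_lit 422) (nat_lit 309) (nat_lit 289))))) (XT.nd (nat_lit 312) (nat_lit 304) (nat_lit 0) (XT.nd (nat_lit 156) (nat_lit 228) (nat_lit 0) (XT.nd (nat_lit 78) (nat_lit 152) (nat_lit 0) (XT.lf (nat_lit 0) (nat_lit 27158736220) (nat_lit 76) (nat_lit 3300846105) (nat_lit 76) (nat_lit 1650958124) (nat_lit 148) (nat_lit 4) (nat_lit 149) (nat_lit 5) (nat_lit 149) (nat_lit 4) (nat_lit 423) (nat_lit 309) (nat_lit 288)) (XT.lf (nat_lit 0) (nat_lit 12070350915) (nat_lit 152) (nat_lit 10496390319) (nat_lit 0) (nat_lit 10457132937) (nat_lit 146) (nat_lit 5) (nat_lit 148) (nat_lit 4) (nat_lit 146) (nat_lit 4) (nat_lit 424) (nat_lit 309) (nat_lit 287))) (XT.nd (nat_lit 78) (nat_lit 152) (nat_lit 0) (XT.lf (nat_lit 0) (nat_lit 17491822790) (nat_lit 76) (nat_lit 9067970020) (nat_lit 76) (nat_lit 7414851002) (nat_lit 145) (nat_lit 4) (nat_lit 146) (nat_lit 5) (nat_lit 146) (nat_lit 4) (nat_lit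 425) (nat_lit 309) (nat_lit 286)) (XT.lf (nat_lit 0) (nat_lit 6759253777) (nat_lit 152) (nat_lit 23050917645) (nat_lit 0) (nat_lit 5148663294) (nat_lit 143) (nat_lit 5) (nat_lit 145) (nat_lit 4) (nat_lit 143) (nat_lit 4) (nat_lit 426) (nat_lit 309) (nat_lit 285)))) (XT.nd (nat_lit 156) (nat_lit 152) (nat_lit 0) (XT.nd (nat_lit 78) (nat_lit 76) (nat_lit 0) (XT.lf (nat_lit 0) (nat_lit 5658867486) (nat_lit 76) (nat_lit 15980023839) (nat_lit 76) (nat_lit 14334965337) (nat_lit 142) (nat_lit 4) (nat_lit 143) (nat_lit 5) (nat_lit 143) (nat_lit 4) (nat_lit 427) (nat_lit 309) (nat_lit 284)) (XT.lf (nat_lit 0) (nat_lit 337869136) (nat_lit 152) (nat_lit 985253455) (nat_lit 76) (nat_lit 35710227041) (nat_lit 141) (nat_lit 5) (nat_lit 143) (nat_lit 5) (nat_lit 142) (nat_lit 4) (nat_lit 428) (nat_lit 309) (nat_lit 283))) (XT.nd (nat_lit 78) (nat_lit 76) (nat_lit 0) (XT.lf (nat_lit 0) (nat_lit 15696366479) (nat_lit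 152) (nat_lit 8347406481) (nat_lit 0) (nat_lit 14068605819) (nat_lit 140) (nat_lit 5) (nat_lit 142) (nat_lit 4) (nat_lit 140) (nat_lit 4) (nat_lit 429) (nat_lit 309) (nat_lit 282)) (XT.lf (nat_lit 0) (nat_lit 23024217578) (nat_lit 76) (nat_lit 8935213632) (nat_lit 76) (nat_lit 7279096047) (nat_lit 139) (nat_lit 4) (nat_lit 140) (nat_lit 5) (nat_lit 140) (nat_lit 4) (nat_lit 430) (nat_lit 309) (nat_lit 281))))))))
noncomputable def xc47 : XT := (XT.nd (nat_lit 1248) (nat_lit 1368) (nat_lit 0) (XT.nd (nat_lit 624) (nat_lit 684) (nat_lit 0) (XT.nd (nat_lit 312) (nat_lit 304) (nat_lit 0) (XT.nd (nat_lit 156) (nat_lit 152) (nat_lit 0) (XT.nd (nat_lit 78) (nat_lit 76) (nat_lit 0) (XT.lf (nat_lit 0) (nat_lit 8578382474) (nat_lit 152) (nat_lit 24848496687) (nat_lit 0) (nat_lit 6975407066) (nat_lit 137) (nat_lit 5) (nat_lit 139) (nat_lit 4) (nat_lit 137) (nat_lit 4) (nat_lit 431) (nat_lit 309) (nat_lit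 280)) (XT.lf (nat_lit 0) (nat_lit 7292555134) (nat_lit 76) (nat_lit 17969639242) (nat_lit 76) (nat_lit 16342168057) (nat_lit 136) (nat_lit 4) (nat_lit 137) (nat_lit 5) (nat_lit 137) (nat_lit 4) (nat_lit 432) (nat_lit 309) (nat_lit 279))) (XT.nd (nat_lit 78) (nat_lit 76) (nat_lit 0) (XT.lf (nat_lit 0) (nat_lit 82827150) (nat_lit 152) (nat_lit 1481004836) (nat_lit 76) (nat_lit 41294457411) (nat_lit 135) (nat_lit 5) (nat_lit 137) (nat_lit 5) (nat_lit 136) (nat_lit 4) (nat_lit 433) (nat_lit 309) (nat_lit 278)) (XT.lf (nat_lit 0) (nat_lit 17304003569) (nat_lit 152) (nat_lit 11120654901) (nat_lit 0) (nat_lit 15710652247) (nat_lit 134) (nat_lit 5) (nat_lit 136) (nat_lit 4) (nat_lit 134) (nat_lit 4) (nat_lit 434) (nat_lit 309) (nat_lit 277)))) (XT.nd (nat_lit 156) (nat_lit 76) (nat_lit 0) (XT.nd (nat_lit 78) (nat_lit 152) (nat_lit 0) (XT.lf (nat_lit 0) (nat_lit 24047230977) (nat_lit 76) (nat_lit 11516783696)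 (nat_lit 76) (nat_lit 9903279638) (nat_lit 133) (nat_lit 4) (nat_lit 134) (nat_lit 5) (nat_lit 134) (nat_lit 4) (nat_lit 435) (nat_lit 309) (nat_lit 276)) (XT.lf (nat_lit 0) (nat_lit 7887716000) (nat_lit 152) (nat_lit 32625825571) (nat_lit 0) (nat_lit 6332766343) (nat_lit 131) (nat_lit 5) (nat_lit 133) (nat_lit 4) (nat_lit 131) (nat_lit 4) (nat_lit 436) (nat_lit 309) (nat_lit 275))) (XT.nd (nat_lit 78) (nat_lit 0) (nat_lit 0) (XT.lf (nat_lit 0) (nat_lit 3352727392) (nat_lit 76) (nat_lit 23243864222) (nat_lit 76) (nat_lit 21671505874) (nat_lit 130) (nat_lit 4) (nat_lit 131) (nat_lit 5) (nat_lit 131) (nat_lit 4) (nat_lit 437) (nat_lit 309) (nat_lit 274)) (XT.lf (nat_lit 0) (nat_lit 41763034890) (nat_lit 76) (nat_lit 4785743177) (nat_lit 76) (nat_lit 3196805122) (nat_lit 130) (nat_lit 4) (nat_lit 131) (nat_lit 5) (nat_lit 131) (nat_lit 4) (nat_lit 438) (nat_lit 309) (nat_lit 273))))) (XT.nd (nat_lit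 312) (nat_lit 304) (nat_lit 0) (XT.nd (nat_lit 156) (nat_lit 152) (nat_lit 0) (XT.nd (nat_lit 78) (nat_lit 76) (nat_lit 0) (XT.lf (nat_lit 0) (nat_lit 16167191821) (nat_lit 152) (nat_lit 20454018784) (nat_lit 0) (nat_lit 14638879201) (nat_lit 128) (nat_lit 5) (nat_lit 130) (nat_lit 4) (nat_lit 128) (nat_lit 4) (nat_lit 439) (nat_lit 309) (nat_lit 272)) (XT.lf (nat_lit 0) (nat_lit 18957428401) (nat_lit 76) (nat_lit 17709577631) (nat_lit 76) (nat_lit 16166942837) (nat_lit 127) (nat_lit 4) (nat_lit 128) (nat_lit 5) (nat_lit 128) (nat_lit 4) (nat_lit 440) (nat_lit 309) (nat_lit 271))) (XT.nd (nat_lit 78) (nat_lit 0) (nat_lit 0) (XT.lf (nat_lit 0) (nat_lit 3837321423) (nat_lit 152) (nat_lit 48278601931) (nat_lit 0) (nat_lit 2355154796) (nat_lit 125) (nat_lit 5) (nat_lit 127) (nat_lit 4) (nat_lit 125) (nat_lit 4) (nat_lit 441) (nat_lit 309) (nat_lit 270)) (XT.lf (nat_lit 0) (nat_lit 24935203646) (nat_lit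 152) (nat_lit 7769107669) (nat_lit 0) (nat_lit 23440664987) (nat_lit 125) (nat_lit 5) (nat_lit 127) (nat_lit 4) (nat_lit 125) (nat_lit 4) (nat_lit 442) (nat_lit 309) (nat_lit 269)))) (XT.nd (nat_lit 156) (nat_lit 76) (nat_lit 0) (XT.nd (nat_lit 78) (nat_lit 152) (nat_lit 0) (XT.lf (nat_lit 0) (nat_lit 35439173698) (nat_lit 76) (nat_lit 11976662207) (nat_lit 76) (nat_lit 10470340661) (nat_lit 124) (nat_lit 4) (nat_lit 125) (nat_lit 5) (nat_lit 125) (nat_lit 4) (nat_lit 443) (nat_lit 309) (nat_lit 268)) (XT.lf (nat_lit 0) (nat_lit 11346552893) (nat_lit 152) (nat_lit 38437666735) (nat_lit 0) (nat_lit 9901273518) (nat_lit 122) (nat_lit 5) (nat_lit 124) (nat_lit 4) (nat_lit 122) (nat_lit 4) (nat_lit 444) (nat_lit 309) (nat_lit 267))) (XT.nd (nat_lit 78) (nat_lit 0) (nat_lit 0) (XT.lf (nat_lit 0) (nat_lit 5698080516) (nat_lit 76) (nat_lit 28650628096) (nat_lit 76) (nat_lit 27195170219) (nat_lit 121)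 (nat_lit 4) (nat_lit 122) (nat_lit 5) (nat_lit 122) (nat_lit 4) (nat_lit 445) (nat_lit 309) (nat_lit 266)) (XT.lf (nat_lit 0) (nat_lit 52921503469) (nat_lit 76) (nat_lit 6008685585) (nat_lit 76) (nat_lit 4543533898) (nat_lit 121) (nat_lit 4) (nat_lit 122) (nat_lit 5) (nat_lit 122) (nat_lit 4) (nat_lit 446) (nat_lit 309) (nat_lit 265)))))) (XT.nd (nat_lit 624) (nat_lit 684) (nat_lit 0) (XT.nd (nat_lit 312) (nat_lit 304) (nat_lit 0) (XT.nd (nat_lit 156) (nat_lit 152) (nat_lit 0) (XT.nd (nat_lit 78) (nat_lit 76) (nat_lit 0) (XT.lf (nat_lit 0) (nat_lit 19283537111) (nat_lit 152) (nat_lit 28289206391) (nat_lit 0) (nat_lit 17879361980) (nat_lit 119) (nat_lit 5) (nat_lit 121) (nat_lit 4) (nat_lit 119) (nat_lit 4) (nat_lit 447) (nat_lit 309) (nat_lit 264)) (XT.lf (nat_lit 0) (nat_lit 20139207004) (nat_lit 76) (nat_lit 24390013680) (nat_lit 76) (nat_lit 22977464671) (nat_lit 118) (nat_lit 4) (nat_lit 119)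 (nat_lit 5) (nat_lit 119) (nat_lit 4) (nat_lit 448) (nat_lit 309) (nat_lit 263))) (XT.nd (nat_lit 78) (nat_lit 0) (nat_lit 0) (XT.lf (nat_lit 0) (nat_lit 1636198246) (nat_lit 152) (nat_lit 67728058141) (nat_lit 0) (nat_lit 283318121) (nat_lit 116) (nat_lit 5) (nat_lit 118) (nat_lit 4) (nat_lit 116) (nat_lit 4) (nat_lit 449) (nat_lit 309) (nat_lit 262)) (XT.lf (nat_lit 0) (nat_lit 27708949750) (nat_lit 152) (nat_lit 17768858482) (nat_lit 0) (nat_lit 26348835954) (nat_lit 116) (nat_lit 5) (nat_lit 118) (nat_lit 4) (nat_lit 116) (nat_lit 4) (nat_lit 450) (nat_lit 309) (nat_lit 261)))) (XT.nd (nat_lit 156) (nat_lit 76) (nat_lit 0) (XT.nd (nat_lit 78) (nat_lit 152) (nat_lit 0) (XT.lf (nat_lit 0) (nat_lit 35403190130) (nat_lit 76) (nat_lit 20030530565) (nat_lit 76) (nat_lit 18663527559) (nat_lit 115) (nat_lit 4) (nat_lit 116) (nat_lit 5) (nat_lit 116) (nat_lit 4) (nat_lit 451) (nat_lit 309) (nat_lit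 260)) (XT.lf (nat_lit 0) (nat_lit 8258153699) (nat_lit 152) (nat_lit 61244292723) (nat_lit 0) (nat_lit 6949997357) (nat_lit 113) (nat_lit 5) (nat_lit 115) (nat_lit 4) (nat_lit 113) (nat_lit 4) (nat_lit 452) (nat_lit 309) (nat_lit 259))) (XT.nd (nat_lit 78) (nat_lit 76) (nat_lit 0) (XT.lf (nat_lit 0) (nat_lit 36688787103) (nat_lit 152) (nat_lit 6807130149) (nat_lit 0) (nat_lit 35374679602) (nat_lit 113) (nat_lit 5) (nat_lit 115) (nat_lit 4) (nat_lit 113) (nat_lit 4) (nat_lit 453) (nat_lit 309) (nat_lit 258)) (XT.lf (nat_lit 0) (nat_lit 51605231938) (nat_lit 76) (nat_lit 15546822892) (nat_lit 76) (nat_lit 14227047621) (nat_lit 112) (nat_lit 4) (nat_lit 113) (nat_lit 5) (nat_lit 113) (nat_lit 4) (nat_lit 454) (nat_lit 309) (nat_lit 257))))) (XT.nd (nat_lit 312) (nat_lit 304) (nat_lit 0) (XT.nd (nat_lit 156) (nat_lit 152) (nat_lit 0) (XT.nd (nat_lit 78) (nat_lit 76) (nat_lit 0) (XT.lf (nat_lit 0) (nat_lit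 15249707446) (nat_lit 152) (nat_lit 54733462378) (nat_lit 0) (nat_lit 13987637781) (nat_lit 110) (nat_lit 5) (nat_lit 112) (nat_lit 4) (nat_lit 110) (nat_lit 4) (nat_lit 455) (nat_lit 309) (nat_lit 256)) (XT.lf (nat_lit 0) (nat_lit 4825630721) (nat_lit 76) (nat_lit 41544682366) (nat_lit 76) (nat_lit 40277716669) (nat_lit 109) (nat_lit 4) (nat_lit 110) (nat_lit 5) (nat_lit 110) (nat_lit 4) (nat_lit 456) (nat_lit 309) (nat_lit 255))) (XT.nd (nat_lit 78) (nat_lit 152) (nat_lit 0) (XT.lf (nat_lit 0) (nat_lit 68870951835) (nat_lit 76) (nat_lit 10911507134) (nat_lit 76) (nat_lit 9639878548) (nat_lit 109) (nat_lit 4) (nat_lit 110) (nat_lit 5) (nat_lit 110) (nat_lit 4) (nat_lit 457) (nat_lit 309) (nat_lit 254)) (XT.lf (nat_lit 0) (nat_lit 22663785244) (nat_lit 152) (nat_lit 48162755206) (nat_lit 0) (nat_lit 21448481023) (nat_lit 107) (nat_lit 5) (nat_lit 109) (nat_lit 4) (nat_lit 107) (nat_lit 4) (nat_lit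 458) (nat_lit 309) (nat_lit 253)))) (XT.nd (nat_lit 156) (nat_lit 228) (nat_lit 0) (XT.nd (nat_lit 78) (nat_lit 0) (nat_lit 0) (XT.lf (nat_lit 0) (nat_lit 17301374249) (nat_lit 76) (nat_lit 39574761357) (nat_lit 76) (nat_lit 38355429157) (nat_lit 106) (nat_lit 4) (nat_lit 107) (nat_lit 5) (nat_lit 107) (nat_lit 4) (nat_lit 459) (nat_lit 309) (nat_lit 252)) (XT.lf (nat_lit 0) (nat_lit 87337506661) (nat_lit 76) (nat_lit 6094964277) (nat_lit 76) (nat_lit 4871795906) (nat_lit 106) (nat_lit 4) (nat_lit 107) (nat_lit 5) (nat_lit 107) (nat_lit 4) (nat_lit 460) (nat_lit 309) (nat_lit 251))) (XT.nd (nat_lit 78) (nat_lit 76) (nat_lit 0) (XT.lf (nat_lit 0) (nat_lit 30557964651) (nat_lit 152) (nat_lit 41497369653) (nat_lit 0) (nat_lit 29389562874) (nat_lit 104) (nat_lit 5) (nat_lit 106) (nat_lit 4) (nat_lit 104) (nat_lit 4) (nat_lit 461) (nat_lit 309) (nat_lit 250)) (XT.lf (nat_lit 0) (nat_lit 30486555548)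 (nat_lit 76) (nat_lit 37697157307) (nat_lit 76) (nat_lit 36525441702) (nat_lit 103) (nat_lit 4) (nat_lit 104) (nat_lit 5) (nat_lit 104) (nat_lit 4) (nat_lit 462) (nat_lit 309) (nat_lit 249)))))))
noncomputable def xc48 : XT := (XT.nd (nat_lit 1248) (nat_lit 1216) (nat_lit 0) (XT.nd (nat_lit 624) (nat_lit 684) (nat_lit 0) (XT.nd (nat_lit 312) (nat_lit 228) (nat_lit 0) (XT.nd (nat_lit 156) (nat_lit 228) (nat_lit 0) (XT.nd (nat_lit 78) (nat_lit 76) (nat_lit 0) (XT.lf (nat_lit 0) (nat_lit 106252567) (nat_lit 152) (nat_lit 957053866) (nat_lit 76) (nat_lit 107046773538) (nat_lit 102) (nat_lit 5) (nat_lit 104) (nat_lit 5) (nat_lit 103) (nat_lit 4) (nat_lit 463) (nat_lit 309) (nat_lit 248)) (XT.lf (nat_lit 0) (nat_lit 38994998719) (nat_lit 152) (nat_lit 34700255228) (nat_lit 0) (nat_lit 37873210747) (nat_lit 101) (nat_lit 5) (nat_lit 103) (nat_lit 4) (nat_lit 101) (nat_lit 4) (nat_lit 464) (nat_lit 309)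 (nat_lit 247))) (XT.nd (nat_lit 78) (nat_lit 152) (nat_lit 0) (XT.lf (nat_lit 0) (nat_lit 44480789387) (nat_lit 76) (nat_lit 35907738133) (nat_lit 76) (nat_lit 34783223866) (nat_lit 100) (nat_lit 4) (nat_lit 101) (nat_lit 5) (nat_lit 101) (nat_lit 4) (nat_lit 465) (nat_lit 309) (nat_lit 246)) (XT.lf (nat_lit 0) (nat_lit 5391464737) (nat_lit 152) (nat_lit 109209306609) (nat_lit 0) (nat_lit 4318025939) (nat_lit 98) (nat_lit 5) (nat_lit 100) (nat_lit 4) (nat_lit 98) (nat_lit 4) (nat_lit 466) (nat_lit 309) (nat_lit 245)))) (XT.nd (nat_lit 156) (nat_lit 152) (nat_lit 0) (XT.nd (nat_lit 78) (nat_lit 76) (nat_lit 0) (XT.lf (nat_lit 0) (nat_lit 48043389354) (nat_lit 152) (nat_lit 27731827507) (nat_lit 0) (nat_lit 46967595481) (nat_lit 98) (nat_lit 5) (nat_lit 100) (nat_lit 4) (nat_lit 98) (nat_lit 4) (nat_lit 467) (nat_lit 309) (nat_lit 244)) (XT.lf (nat_lit 0) (nat_lit 59392658047) (nat_lit 76) (nat_lit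 34202521715) (nat_lit 76) (nat_lit 33124484912) (nat_lit 97) (nat_lit 4) (nat_lit 98) (nat_lit 5) (nat_lit 98) (nat_lit 4) (nat_lit 468) (nat_lit 309) (nat_lit 243))) (XT.nd (nat_lit 78) (nat_lit 0) (nat_lit 0) (XT.lf (nat_lit 0) (nat_lit 11000442985) (nat_lit 152) (nat_lit 109874578102) (nat_lit 0) (nat_lit 9971706866) (nat_lit 95) (nat_lit 5) (nat_lit 97) (nat_lit 4) (nat_lit 95) (nat_lit 4) (nat_lit 469) (nat_lit 309) (nat_lit 242)) (XT.lf (nat_lit 0) (nat_lit 57778015928) (nat_lit 152) (nat_lit 20549655040) (nat_lit 0) (nat_lit 56747342282) (nat_lit 95) (nat_lit 5) (nat_lit 97) (nat_lit 4) (nat_lit 95) (nat_lit 4) (nat_lit 470) (nat_lit 309) (nat_lit 241))))) (XT.nd (nat_lit 312) (nat_lit 380) (nat_lit 0) (XT.nd (nat_lit 156) (nat_lit 76) (nat_lit 0) (XT.nd (nat_lit 78) (nat_lit 152) (nat_lit 0) (XT.lf (nat_lit 0) (nat_lit 75340682981) (nat_lit 76) (nat_lit 32577677058) (nat_lit 76) (nat_lit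 31545158148) (nat_lit 94) (nat_lit 4) (nat_lit 95) (nat_lit 5) (nat_lit 95) (nat_lit 4) (nat_lit 471) (nat_lit 309) (nat_lit 240)) (XT.lf (nat_lit 0) (nat_lit 16942974434) (nat_lit 152) (nat_lit 111108817402) (nat_lit 0) (nat_lit 15957949383) (nat_lit 92) (nat_lit 5) (nat_lit 94) (nat_lit 4) (nat_lit 92) (nat_lit 4) (nat_lit 472) (nat_lit 309) (nat_lit 239))) (XT.nd (nat_lit 78) (nat_lit 76) (nat_lit 0) (XT.lf (nat_lit 0) (nat_lit 68280825241) (nat_lit 152) (nat_lit 13108115504) (nat_lit 0) (nat_lit 67294206182) (nat_lit 92) (nat_lit 5) (nat_lit 94) (nat_lit 4) (nat_lit 92) (nat_lit 4) (nat_lit 473) (nat_lit 309) (nat_lit 238)) (XT.lf (nat_lit 0) (nat_lit 92454394743) (nat_lit 76) (nat_lit 31029523919) (nat_lit 76) (nat_lit 30041386757) (nat_lit 91) (nat_lit 4) (nat_lit 92) (nat_lit 5) (nat_lit 92) (nat_lit 4) (nat_lit 474) (nat_lit 309) (nat_lit 237)))) (XT.nd (nat_lit 156) (nat_lit 228) (nat_lit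 0) (XT.nd (nat_lit 78) (nat_lit 0) (nat_lit 0) (XT.lf (nat_lit 0) (nat_lit 23264846269) (nat_lit 152) (nat_lit 112946601477) (nat_lit 0) (nat_lit 22322386294) (nat_lit 89) (nat_lit 5) (nat_lit 91) (nat_lit 4) (nat_lit 89) (nat_lit 4) (nat_lit 475) (nat_lit 309) (nat_lit 236)) (XT.lf (nat_lit 0) (nat_lit 79641589488) (nat_lit 152) (nat_lit 5358018091) (nat_lit 0) (nat_lit 78697818119) (nat_lit 89) (nat_lit 5) (nat_lit 91) (nat_lit 4) (nat_lit 89) (nat_lit 4) (nat_lit 476) (nat_lit 309) (nat_lit 235))) (XT.nd (nat_lit 78) (nat_lit 152) (nat_lit 0) (XT.lf (nat_lit 0) (nat_lit 110875511144) (nat_lit 76) (nat_lit 29554531243) (nat_lit 76) (nat_lit 28609510927) (nat_lit 88) (nat_lit 4) (nat_lit 89) (nat_lit 5) (nat_lit 89) (nat_lit 4) (nat_lit 477) (nat_lit 309) (nat_lit 234)) (XT.lf (nat_lit 0) (nat_lit 30015968084) (nat_lit 152) (nat_lit 115427163520) (nat_lit 0) (nat_lit 29114815904) (nat_lit 86)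 (nat_lit 5) (nat_lit 88) (nat_lit 4) (nat_lit 86) (nat_lit 4) (nat_lit 478) (nat_lit 309) (nat_lit 233)))))) (XT.nd (nat_lit 624) (nat_lit 684) (nat_lit 0) (XT.nd (nat_lit 312) (nat_lit 228) (nat_lit 0) (XT.nd (nat_lit 156) (nat_lit 228) (nat_lit 0) (XT.nd (nat_lit 78) (nat_lit 0) (nat_lit 0) (XT.lf (nat_lit 0) (nat_lit 2844864652) (nat_lit 76) (nat_lit 89158291155) (nat_lit 76) (nat_lit 88256060088) (nat_lit 85) (nat_lit 4) (nat_lit 86) (nat_lit 5) (nat_lit 86) (nat_lit 4) (nat_lit 479) (nat_lit 309) (nat_lit 232)) (XT.lf (nat_lit 0) (nat_lit 130759234594) (nat_lit 76) (nat_lit 28149314684) (nat_lit 76) (nat_lit 27246056105) (nat_lit 85) (nat_lit 4) (nat_lit 86) (nat_lit 5) (nat_lit 86) (nat_lit 4) (nat_lit 480) (nat_lit 309) (nat_lit 231))) (XT.nd (nat_lit 78) (nat_lit 76) (nat_lit 0) (XT.lf (nat_lit 0) (nat_lit 37250824885) (nat_lit 152) (nat_lit 118594820538) (nat_lit 0) (nat_lit 36389646635)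 (nat_lit 83) (nat_lit 5) (nat_lit 85) (nat_lit 4) (nat_lit 83) (nat_lit 4) (nat_lit 481) (nat_lit 309) (nat_lit 230)) (XT.lf (nat_lit 0) (nat_lit 11658117803) (nat_lit 76) (nat_lit 93864179308) (nat_lit 76) (nat_lit 93002113456) (nat_lit 82) (nat_lit 4) (nat_lit 83) (nat_lit 5) (nat_lit 83) (nat_lit 4) (nat_lit 482) (nat_lit 309) (nat_lit 229)))) (XT.nd (nat_lit 156) (nat_lit 76) (nat_lit 0) (XT.nd (nat_lit 78) (nat_lit 152) (nat_lit 0) (XT.lf (nat_lit 0) (nat_lit 152275680796) (nat_lit 76) (nat_lit 26810633416) (nat_lit 76) (nat_lit 25947722227) (nat_lit 82) (nat_lit 4) (nat_lit 83) (nat_lit 5) (nat_lit 83) (nat_lit 4) (nat_lit 483) (nat_lit 309) (nat_lit 228)) (XT.lf (nat_lit 0) (nat_lit 45028974498) (nat_lit 152) (nat_lit 122499446549) (nat_lit 0) (nat_lit 44206387573) (nat_lit 80) (nat_lit 5) (nat_lit 82) (nat_lit 4) (nat_lit 80) (nat_lit 4) (nat_lit 484) (nat_lit 309) (nat_lit 227))) (XT.nd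 (nat_lit 78) (nat_lit 0) (nat_lit 0) (XT.lf (nat_lit 0) (nat_lit 20969201512) (nat_lit 76) (nat_lit 99262990721) (nat_lit 76) (nat_lit 98439673563) (nat_lit 79) (nat_lit 4) (nat_lit 80) (nat_lit 5) (nat_lit 80) (nat_lit 4) (nat_lit 485) (nat_lit 309) (nat_lit 226)) (XT.lf (nat_lit 0) (nat_lit 175611452210) (nat_lit 76) (nat_lit 25535386425) (nat_lit 76) (nat_lit 24711373806) (nat_lit 79) (nat_lit 4) (nat_lit 80) (nat_lit 5) (nat_lit 80) (nat_lit 4) (nat_lit 486) (nat_lit 309) (nat_lit 225))))) (XT.nd (nat_lit 312) (nat_lit 304) (nat_lit 0) (XT.nd (nat_lit 156) (nat_lit 152) (nat_lit 0) (XT.nd (nat_lit 78) (nat_lit 76) (nat_lit 0) (XT.lf (nat_lit 0) (nat_lit 53415594129) (nat_lit 152) (nat_lit 127196996082) (nat_lit 0) (nat_lit 52630189403) (nat_lit 77) (nat_lit 5) (nat_lit 79) (nat_lit 4) (nat_lit 77) (nat_lit 4) (nat_lit 487) (nat_lit 309) (nat_lit 224)) (XT.lf (nat_lit 0) (nat_lit 30848407247)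 (nat_lit 76) (nat_lit 105415814691) (nat_lit 76) (nat_lit 104629809200) (nat_lit 76) (nat_lit 4) (nat_lit 77) (nat_lit 5) (nat_lit 77) (nat_lit 4) (nat_lit 488) (nat_lit 309) (nat_lit 223))) (XT.nd (nat_lit 78) (nat_lit 152) (nat_lit 0) (XT.lf (nat_lit 0) (nat_lit 200971371109) (nat_lit 76) (nat_lit 24320608429) (nat_lit 76) (nat_lit 23534030781) (nat_lit 76) (nat_lit 4) (nat_lit 77) (nat_lit 5) (nat_lit 77) (nat_lit 4) (nat_lit 489) (nat_lit 309) (nat_lit 222)) (XT.lf (nat_lit 0) (nat_lit 62482081285) (nat_lit 152) (nat_lit 132750083145) (nat_lit 0) (nat_lit 61732440752) (nat_lit 74) (nat_lit 5) (nat_lit 76) (nat_lit 4) (nat_lit 74) (nat_lit 4) (nat_lit 490) (nat_lit 309) (nat_lit 221)))) (XT.nd (nat_lit 156) (nat_lit 228) (nat_lit 0) (XT.nd (nat_lit 78) (nat_lit 0) (nat_lit 0) (XT.lf (nat_lit 0) (nat_lit 41372322362) (nat_lit 76) (nat_lit 112390459005) (nat_lit 76) (nat_lit 111640324222) (nat_lit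 73) (nat_lit 4) (nat_lit 74) (nat_lit 5) (nat_lit 74) (nat_lit 4) (nat_lit 491) (nat_lit 309) (nat_lit 220)) (XT.lf (nat_lit 0) (nat_lit 228580388584) (nat_lit 76) (nat_lit 23163465526) (nat_lit 76) (nat_lit 22412860028) (nat_lit 73) (nat_lit 4) (nat_lit 74) (nat_lit 5) (nat_lit 74) (nat_lit 4) (nat_lit 492) (nat_lit 309) (nat_lit 219))) (XT.nd (nat_lit 78) (nat_lit 76) (nat_lit 0) (XT.lf (nat_lit 0) (nat_lit 72306714777) (nat_lit 152) (nat_lit 139228621310) (nat_lit 0) (nat_lit 71591425445) (nat_lit 71) (nat_lit 5) (nat_lit 73) (nat_lit 4) (nat_lit 71) (nat_lit 4) (nat_lit 493) (nat_lit 309) (nat_lit 218)) (XT.nd (nat_lit 78) (nat_lit 0) (nat_lit 0) (XT.lf (nat_lit 0) (nat_lit 52624517232) (nat_lit 76) (nat_lit 120262119718) (nat_lit 76) (nat_lit 119546423766) (nat_lit 70) (nat_lit 4) (nat_lit 71) (nat_lit 5) (nat_lit 71) (nat_lit 4) (nat_lit 494) (nat_lit 309) (nat_lit 217)) (XT.lf (nat_lit 0)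 (nat_lit 258685687556) (nat_lit 76) (nat_lit 22061250682) (nat_lit 76) (nat_lit 21345167471) (nat_lit 70) (nat_lit 4) (nat_lit 71) (nat_lit 5) (nat_lit 71) (nat_lit 4) (nat_lit 495) (nat_lit 309) (nat_lit 216))))))))
noncomputable def xc49 : XT := (XT.nd (nat_lit 2496) (nat_lit 2660) (nat_lit 0) (XT.nd (nat_lit 1248) (nat_lit 1520) (nat_lit 0) (XT.nd (nat_lit 624) (nat_lit 836) (nat_lit 0) (XT.nd (nat_lit 312) (nat_lit 456) (nat_lit 0) (XT.nd (nat_lit 156) (nat_lit 228) (nat_lit 0) (XT.nd (nat_lit 78) (nat_lit 76) (nat_lit 0) (XT.lf (nat_lit 0) (nat_lit 3080058456) (nat_lit 152) (nat_lit 2680092139) (nat_lit 0) (nat_lit 3080058456) (nat_lit 179) (nat_lit 5) (nat_lit 181) (nat_lit 4) (nat_lit 179) (nat_lit 4) (nat_lit 400) (nat_lit 310) (nat_lit 310)) (XT.lf (nat_lit 0) (nat_lit 12362756269) (nat_lit 76) (nat_lit 2978322133) (nat_lit 76) (nat_lit 2768708089) (nat_lit 178) (nat_lit 4) (nat_lit 179)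 (nat_lit 5) (nat_lit 179) (nat_lit 4) (nat_lit 401) (nat_lit 310) (nat_lit 309))) (XT.nd (nat_lit 78) (nat_lit 76) (nat_lit 0) (XT.lf (nat_lit 0) (nat_lit 6300861653) (nat_lit 152) (nat_lit 6339351860) (nat_lit 0) (nat_lit 5911103113) (nat_lit 176) (nat_lit 5) (nat_lit 178) (nat_lit 4) (nat_lit 176) (nat_lit 4) (nat_lit 402) (nat_lit 310) (nat_lit 308)) (XT.lf (nat_lit 0) (nat_lit 11962710791) (nat_lit 76) (nat_lit 3809356924) (nat_lit 76) (nat_lit 3238525892) (nat_lit 175) (nat_lit 4) (nat_lit 176) (nat_lit 5) (nat_lit 176) (nat_lit 4) (nat_lit 403) (nat_lit 310) (nat_lit 307)))) (XT.nd (nat_lit 156) (nat_lit 228) (nat_lit 0) (XT.nd (nat_lit 78) (nat_lit 76) (nat_lit 0) (XT.lf (nat_lit 0) (nat_lit 6109141131) (nat_lit 152) (nat_lit 7973362743) (nat_lit 0) (nat_lit 5401254440) (nat_lit 173) (nat_lit 5) (nat_lit 175) (nat_lit 4) (nat_lit 173) (nat_lit 4) (nat_lit 404) (nat_lit 310) (nat_lit 306))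 (XT.lf (nat_lit 0) (nat_lit 10914945136) (nat_lit 76) (nat_lit 4962100509) (nat_lit 76) (nat_lit 4097796591) (nat_lit 172) (nat_lit 4) (nat_lit 173) (nat_lit 5) (nat_lit 173) (nat_lit 4) (nat_lit 405) (nat_lit 310) (nat_lit 305))) (XT.nd (nat_lit 78) (nat_lit 76) (nat_lit 0) (XT.lf (nat_lit 0) (nat_lit 5540199617) (nat_lit 152) (nat_lit 10366800621) (nat_lit 0) (nat_lit 4575177993) (nat_lit 170) (nat_lit 5) (nat_lit 172) (nat_lit 4) (nat_lit 170) (nat_lit 4) (nat_lit 406) (nat_lit 310) (nat_lit 304)) (XT.lf (nat_lit 0) (nat_lit 9113101412) (nat_lit 76) (nat_lit 6497085629) (nat_lit 76) (nat_lit 5396944924) (nat_lit 169) (nat_lit 4) (nat_lit 170) (nat_lit 5) (nat_lit 170) (nat_lit 4) (nat_lit 407) (nat_lit 310) (nat_lit 303))))) (XT.nd (nat_lit 312) (nat_lit 380) (nat_lit 0) (XT.nd (nat_lit 156) (nat_lit 228) (nat_lit 0) (XT.nd (nat_lit 78) (nat_lit 76) (nat_lit 0) (XT.lf (nat_lit 0) (nat_lit 4543069475)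 (nat_lit 152) (nat_lit 13635605313) (nat_lit 0) (nat_lit 3372759431) (nat_lit 167) (nat_lit 5) (nat_lit 169) (nat_lit 4) (nat_lit 167) (nat_lit 4) (nat_lit 408) (nat_lit 310) (nat_lit 302)) (XT.lf (nat_lit 0) (nat_lit 6439140942) (nat_lit 76) (nat_lit 8480193390) (nat_lit 76) (nat_lit 7193162404) (nat_lit 166) (nat_lit 4) (nat_lit 167) (nat_lit 5) (nat_lit 167) (nat_lit 4) (nat_lit 409) (nat_lit 310) (nat_lit 301))) (XT.nd (nat_lit 78) (nat_lit 76) (nat_lit 0) (XT.lf (nat_lit 0) (nat_lit 3060010414) (nat_lit 152) (nat_lit 17908432737) (nat_lit 0) (nat_lit 1728397282) (nat_lit 164) (nat_lit 5) (nat_lit 166) (nat_lit 4) (nat_lit 164) (nat_lit 4) (nat_lit 410) (nat_lit 310) (nat_lit 300)) (XT.lf (nat_lit 0) (nat_lit 2761946402) (nat_lit 76) (nat_lit 10983467244) (nat_lit 76) (nat_lit 9551026173) (nat_lit 163) (nat_lit 4) (nat_lit 164) (nat_lit 5) (nat_lit 164) (nat_lit 4) (nat_lit 411) (nat_lit 310)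 (nat_lit 299)))) (XT.nd (nat_lit 156) (nat_lit 228) (nat_lit 0) (XT.nd (nat_lit 78) (nat_lit 0) (nat_lit 0) (XT.lf (nat_lit 0) (nat_lit 588783950) (nat_lit 76) (nat_lit 444021723) (nat_lit 152) (nat_lit 22891052640) (nat_lit 161) (nat_lit 5) (nat_lit 162) (nat_lit 5) (nat_lit 163) (nat_lit 4) (nat_lit 412) (nat_lit 310) (nat_lit 298)) (XT.lf (nat_lit 0) (nat_lit 12054001988) (nat_lit 152) (nat_lit 1998140016) (nat_lit 0) (nat_lit 10511219518) (nat_lit 161) (nat_lit 5) (nat_lit 163) (nat_lit 4) (nat_lit 161) (nat_lit 4) (nat_lit 413) (nat_lit 310) (nat_lit 297))) (XT.nd (nat_lit 78) (nat_lit 152) (nat_lit 0) (XT.lf (nat_lit 0) (nat_lit 20496377699) (nat_lit 76) (nat_lit 3180824429) (nat_lit 76) (nat_lit 1555090564) (nat_lit 160) (nat_lit 4) (nat_lit 161) (nat_lit 5) (nat_lit 161) (nat_lit 4) (nat_lit 414) (nat_lit 310) (nat_lit 296)) (XT.lf (nat_lit 0) (nat_lit 9801488814) (nat_lit 152) (nat_lit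 7938837197) (nat_lit 0) (nat_lit 8177931486) (nat_lit 158) (nat_lit 5) (nat_lit 160) (nat_lit 4) (nat_lit 158) (nat_lit 4) (nat_lit 415) (nat_lit 310) (nat_lit 295)))))) (XT.nd (nat_lit 624) (nat_lit 760) (nat_lit 0) (XT.nd (nat_lit 312) (nat_lit 304) (nat_lit 0) (XT.nd (nat_lit 156) (nat_lit 228) (nat_lit 0) (XT.nd (nat_lit 78) (nat_lit 152) (nat_lit 0) (XT.lf (nat_lit 0) (nat_lit 15209915878) (nat_lit 76) (nat_lit 6558892616) (nat_lit 76) (nat_lit 4863678755) (nat_lit 157) (nat_lit 4) (nat_lit 158) (nat_lit 5) (nat_lit 158) (nat_lit 4) (nat_lit 416) (nat_lit 310) (nat_lit 294)) (XT.lf (nat_lit 0) (nat_lit 6863437995) (nat_lit 152) (nat_lit 15322915325) (nat_lit 0) (nat_lit 5183954014) (nat_lit 155) (nat_lit 5) (nat_lit 157) (nat_lit 4) (nat_lit 155) (nat_lit 4) (nat_lit 417) (nat_lit 310) (nat_lit 293))) (XT.nd (nat_lit 78) (nat_lit 152) (nat_lit 0) (XT.lf (nat_lit 0) (nat_lit 8474169301) (nat_lit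 76) (nat_lit 10700102722) (nat_lit 76) (nat_lit 8958719133) (nat_lit 154) (nat_lit 4) (nat_lit 155) (nat_lit 5) (nat_lit 155) (nat_lit 4) (nat_lit 418) (nat_lit 310) (nat_lit 292)) (XT.lf (nat_lit 0) (nat_lit 3148763728) (nat_lit 152) (nat_lit 24344250693) (nat_lit 0) (nat_lit 1434158398) (nat_lit 152) (nat_lit 5) (nat_lit 154) (nat_lit 4) (nat_lit 152) (nat_lit 4) (nat_lit 419) (nat_lit 310) (nat_lit 291)))) (XT.nd (nat_lit 156) (nat_lit 228) (nat_lit 0) (XT.nd (nat_lit 78) (nat_lit 0) (nat_lit 0) (XT.lf (nat_lit 0) (nat_lit 91039269) (nat_lit 76) (nat_lit 15709382004) (nat_lit 76) (nat_lit 13941305466) (nat_lit 151) (nat_lit 4) (nat_lit 152) (nat_lit 5) (nat_lit 152) (nat_lit 4) (nat_lit 420) (nat_lit 310) (nat_lit 290)) (XT.lf (nat_lit 0) (nat_lit 26043299944) (nat_lit 76) (nat_lit 3182818536) (nat_lit 76) (nat_lit 1363817037) (nat_lit 151) (nat_lit 4) (nat_lit 152) (nat_lit 5) (nat_lit 152)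 (nat_lit 4) (nat_lit 421) (nat_lit 310) (nat_lit 289))) (XT.nd (nat_lit 78) (nat_lit 76) (nat_lit 0) (XT.lf (nat_lit 0) (nat_lit 11701649565) (nat_lit 152) (nat_lit 9834676701) (nat_lit 0) (nat_lit 9923076744) (nat_lit 149) (nat_lit 5) (nat_lit 151) (nat_lit 4) (nat_lit 149) (nat_lit 4) (nat_lit 422) (nat_lit 310) (nat_lit 288)) (XT.lf (nat_lit 0) (nat_lit 16824088182) (nat_lit 76) (nat_lit 8681573138) (nat_lit 76) (nat_lit 6859009421) (nat_lit 148) (nat_lit 4) (nat_lit 149) (nat_lit 5) (nat_lit 149) (nat_lit 4) (nat_lit 423) (nat_lit 310) (nat_lit 287))))) (XT.nd (nat_lit 312) (nat_lit 380) (nat_lit 0) (XT.nd (nat_lit 156) (nat_lit 152) (nat_lit 0) (XT.nd (nat_lit 78) (nat_lit 76) (nat_lit 0) (XT.lf (nat_lit 0) (nat_lit 6637300315) (nat_lit 152) (nat_lit 21802729929) (nat_lit 0) (nat_lit 4861624307) (nat_lit 146) (nat_lit 5) (nat_lit 148) (nat_lit 4) (nat_lit 146) (nat_lit 4) (nat_lit 424) (nat_lit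 310) (nat_lit 286)) (XT.lf (nat_lit 0) (nat_lit 5543147025) (nat_lit 76) (nat_lit 15269333621) (nat_lit 76) (nat_lit 13455656624) (nat_lit 145) (nat_lit 4) (nat_lit 146) (nat_lit 5) (nat_lit 146) (nat_lit 4) (nat_lit 425) (nat_lit 310) (nat_lit 285))) (XT.nd (nat_lit 78) (nat_lit 76) (nat_lit 0) (XT.lf (nat_lit 0) (nat_lit 513791804) (nat_lit 152) (nat_lit 796595216) (nat_lit 76) (nat_lit 33966556842) (nat_lit 144) (nat_lit 5) (nat_lit 146) (nat_lit 5) (nat_lit 145) (nat_lit 4) (nat_lit 426) (nat_lit 310) (nat_lit 284)) (XT.lf (nat_lit 0) (nat_lit 15143936396) (nat_lit 152) (nat_lit 7811173792) (nat_lit 0) (nat_lit 13349330268) (nat_lit 143) (nat_lit 5) (nat_lit 145) (nat_lit 4) (nat_lit 143) (nat_lit 4) (nat_lit 427) (nat_lit 310) (nat_lit 283)))) (XT.nd (nat_lit 156) (nat_lit 152) (nat_lit 0) (XT.nd (nat_lit 78) (nat_lit 152) (nat_lit 0) (XT.lf (nat_lit 0) (nat_lit 22069708826) (nat_lit 76) (nat_lit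 8566471541) (nat_lit 76) (nat_lit 6740601905) (nat_lit 142) (nat_lit 4) (nat_lit 143) (nat_lit 5) (nat_lit 143) (nat_lit 4) (nat_lit 428) (nat_lit 310) (nat_lit 282)) (XT.lf (nat_lit 0) (nat_lit 8358212734) (nat_lit 152) (nat_lit 23535699525) (nat_lit 0) (nat_lit 6590932347) (nat_lit 140) (nat_lit 5) (nat_lit 142) (nat_lit 4) (nat_lit 140) (nat_lit 4) (nat_lit 429) (nat_lit 310) (nat_lit 281))) (XT.nd (nat_lit 78) (nat_lit 76) (nat_lit 0) (XT.lf (nat_lit 0) (nat_lit 7077863513) (nat_lit 76) (nat_lit 17172969391) (nat_lit 76) (nat_lit 15378682409) (nat_lit 139) (nat_lit 4) (nat_lit 140) (nat_lit 5) (nat_lit 140) (nat_lit 4) (nat_lit 430) (nat_lit 310) (nat_lit 280)) (XT.lf (nat_lit 0) (nat_lit 259388077) (nat_lit 152) (nat_lit 1288261988) (nat_lit 76) (nat_lit 39275879349) (nat_lit 138) (nat_lit 5) (nat_lit 140) (nat_lit 5) (nat_lit 139) (nat_lit 4) (nat_lit 431) (nat_lit 310) (nat_lit 279)))))))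 (XT.nd (nat_lit 1248) (nat_lit 1216) (nat_lit 0) (XT.nd (nat_lit 624) (nat_lit 684) (nat_lit 0) (XT.nd (nat_lit 312) (nat_lit 380) (nat_lit 0) (XT.nd (nat_lit 156) (nat_lit 228) (nat_lit 0) (XT.nd (nat_lit 78) (nat_lit 76) (nat_lit 0) (XT.lf (nat_lit 0) (nat_lit 16662643550) (nat_lit 152) (nat_lit 10471016173) (nat_lit 0) (nat_lit 14905973718) (nat_lit 137) (nat_lit 5) (nat_lit 139) (nat_lit 4) (nat_lit 137) (nat_lit 4) (nat_lit 432) (nat_lit 310) (nat_lit 278)) (XT.lf (nat_lit 0) (nat_lit 23025154281) (nat_lit 76) (nat_lit 11030888775) (nat_lit 76) (nat_lit 9252000551) (nat_lit 136) (nat_lit 4) (nat_lit 137) (nat_lit 5) (nat_lit 137) (nat_lit 4) (nat_lit 433) (nat_lit 310) (nat_lit 277))) (XT.nd (nat_lit 78) (nat_lit 76) (nat_lit 0) (XT.lf (nat_lit 0) (nat_lit 7687897835) (nat_lit 152) (nat_lit 30959693728) (nat_lit 0) (nat_lit 5973565838) (nat_lit 134) (nat_lit 5) (nat_lit 136) (nat_lit 4) (nat_lit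 134) (nat_lit 4) (nat_lit 434) (nat_lit 310) (nat_lit 276)) (XT.lf (nat_lit 0) (nat_lit 3308430088) (nat_lit 76) (nat_lit 22200102404) (nat_lit 76) (nat_lit 20466577324) (nat_lit 133) (nat_lit 4) (nat_lit 134) (nat_lit 5) (nat_lit 134) (nat_lit 4) (nat_lit 435) (nat_lit 310) (nat_lit 275)))) (XT.nd (nat_lit 156) (nat_lit 228) (nat_lit 0) (XT.nd (nat_lit 78) (nat_lit 152) (nat_lit 0) (XT.lf (nat_lit 0) (nat_lit 39888832300) (nat_lit 76) (nat_lit 4622585408) (nat_lit 76) (nat_lit 2870781203) (nat_lit 133) (nat_lit 4) (nat_lit 134) (nat_lit 5) (nat_lit 134) (nat_lit 4) (nat_lit 436) (nat_lit 310) (nat_lit 274)) (XT.lf (nat_lit 0) (nat_lit 15567075476) (nat_lit 152) (nat_lit 19375188336) (nat_lit 0) (nat_lit 13882110813) (nat_lit 131) (nat_lit 5) (nat_lit 133) (nat_lit 4) (nat_lit 131) (nat_lit 4) (nat_lit 437) (nat_lit 310) (nat_lit 273))) (XT.nd (nat_lit 78) (nat_lit 152) (nat_lit 0) (XT.lf (nat_lit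 0) (nat_lit 18162261171) (nat_lit 76) (nat_lit 16930831245) (nat_lit 76) (nat_lit 15230076386) (nat_lit 130) (nat_lit 4) (nat_lit 131) (nat_lit 5) (nat_lit 131) (nat_lit 4) (nat_lit 438) (nat_lit 310) (nat_lit 272)) (XT.lf (nat_lit 0) (nat_lit 3817569186) (nat_lit 152) (nat_lit 45881093968) (nat_lit 0) (nat_lit 2183480479) (nat_lit 128) (nat_lit 5) (nat_lit 130) (nat_lit 4) (nat_lit 128) (nat_lit 4) (nat_lit 439) (nat_lit 310) (nat_lit 271))))) (XT.nd (nat_lit 312) (nat_lit 380) (nat_lit 0) (XT.nd (nat_lit 156) (nat_lit 228) (nat_lit 0) (XT.nd (nat_lit 78) (nat_lit 76) (nat_lit 0) (XT.lf (nat_lit 0) (nat_lit 23911399294) (nat_lit 152) (nat_lit 7301232185) (nat_lit 0) (nat_lit 22263670422) (nat_lit 128) (nat_lit 5) (nat_lit 130) (nat_lit 4) (nat_lit 128) (nat_lit 4) (nat_lit 440) (nat_lit 310) (nat_lit 270)) (XT.lf (nat_lit 0) (nat_lit 33852150463) (nat_lit 76) (nat_lit 11471524706) (nat_lit 76)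 (nat_lit 9810805202) (nat_lit 127) (nat_lit 4) (nat_lit 128) (nat_lit 5) (nat_lit 128) (nat_lit 4) (nat_lit 441) (nat_lit 310) (nat_lit 269))) (XT.nd (nat_lit 78) (nat_lit 76) (nat_lit 0) (XT.lf (nat_lit 0) (nat_lit 10963115682) (nat_lit 152) (nat_lit 36515124796) (nat_lit 0) (nat_lit 9369695171) (nat_lit 125) (nat_lit 5) (nat_lit 127) (nat_lit 4) (nat_lit 125) (nat_lit 4) (nat_lit 442) (nat_lit 310) (nat_lit 268)) (XT.lf (nat_lit 0) (nat_lit 5521450445) (nat_lit 76) (nat_lit 27350459830) (nat_lit 76) (nat_lit 25745817521) (nat_lit 124) (nat_lit 4) (nat_lit 125) (nat_lit 5) (nat_lit 125) (nat_lit 4) (nat_lit 443) (nat_lit 310) (nat_lit 267)))) (XT.nd (nat_lit 156) (nat_lit 228) (nat_lit 0) (XT.nd (nat_lit 78) (nat_lit 152) (nat_lit 0) (XT.lf (nat_lit 0) (nat_lit 50495646072) (nat_lit 76) (nat_lit 5787667385) (nat_lit 76) (nat_lit 4172337650) (nat_lit 124) (nat_lit 4) (nat_lit 125) (nat_lit 5) (nat_lit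 125) (nat_lit 4) (nat_lit 444) (nat_lit 310) (nat_lit 266)) (XT.lf (nat_lit 0) (nat_lit 18516042332) (nat_lit 152) (nat_lit 26855678133) (nat_lit 0) (nat_lit 16967939249) (nat_lit 122) (nat_lit 5) (nat_lit 124) (nat_lit 4) (nat_lit 122) (nat_lit 4) (nat_lit 445) (nat_lit 310) (nat_lit 265))) (XT.nd (nat_lit 78) (nat_lit 152) (nat_lit 0) (XT.lf (nat_lit 0) (nat_lit 19269052095) (nat_lit 76) (nat_lit 23292297833) (nat_lit 76) (nat_lit 21734962550) (nat_lit 121) (nat_lit 4) (nat_lit 122) (nat_lit 5) (nat_lit 122) (nat_lit 4) (nat_lit 446) (nat_lit 310) (nat_lit 264)) (XT.lf (nat_lit 0) (nat_lit 1702639834) (nat_lit 152) (nat_lit 64421371082) (nat_lit 0) (nat_lit 211089496) (nat_lit 119) (nat_lit 5) (nat_lit 121) (nat_lit 4) (nat_lit 119) (nat_lit 4) (nat_lit 447) (nat_lit 310) (nat_lit 263)))))) (XT.nd (nat_lit 624) (nat_lit 684) (nat_lit 0) (XT.nd (nat_lit 312) (nat_lit 304) (nat_lit 0) (XT.nd (nat_lit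 156) (nat_lit 152) (nat_lit 0) (XT.nd (nat_lit 78) (nat_lit 76) (nat_lit 0) (XT.lf (nat_lit 0) (nat_lit 26534187779) (nat_lit 152) (nat_lit 16841536968) (nat_lit 0) (nat_lit 25034662319) (nat_lit 119) (nat_lit 5) (nat_lit 121) (nat_lit 4) (nat_lit 119) (nat_lit 4) (nat_lit 448) (nat_lit 310) (nat_lit 262)) (XT.lf (nat_lit 0) (nat_lit 33800843392) (nat_lit 76) (nat_lit 19139531201) (nat_lit 76) (nat_lit 17632410386) (nat_lit 118) (nat_lit 4) (nat_lit 119) (nat_lit 5) (nat_lit 119) (nat_lit 4) (nat_lit 449) (nat_lit 310) (nat_lit 261))) (XT.nd (nat_lit 78) (nat_lit 0) (nat_lit 0) (XT.lf (nat_lit 0) (nat_lit 8003359565) (nat_lit 152) (nat_lit 58251208900) (nat_lit 0) (nat_lit 6561117198) (nat_lit 116) (nat_lit 5) (nat_lit 118) (nat_lit 4) (nat_lit 116) (nat_lit 4) (nat_lit 450) (nat_lit 310) (nat_lit 260)) (XT.lf (nat_lit 0) (nat_lit 35080446196) (nat_lit 152) (nat_lit 6406585075) (nat_lit 0) (nat_lit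 33631642677) (nat_lit 116) (nat_lit 5) (nat_lit 118) (nat_lit 4) (nat_lit 116) (nat_lit 4) (nat_lit 451) (nat_lit 310) (nat_lit 259)))) (XT.nd (nat_lit 156) (nat_lit 76) (nat_lit 0) (XT.nd (nat_lit 78) (nat_lit 152) (nat_lit 0) (XT.lf (nat_lit 0) (nat_lit 49226473770) (nat_lit 76) (nat_lit 14868115016) (nat_lit 76) (nat_lit 13413062779) (nat_lit 115) (nat_lit 4) (nat_lit 116) (nat_lit 5) (nat_lit 116) (nat_lit 4) (nat_lit 452) (nat_lit 310) (nat_lit 258)) (XT.lf (nat_lit 0) (nat_lit 14656186936) (nat_lit 152) (nat_lit 52054867621) (nat_lit 0) (nat_lit 13264755131) (nat_lit 113) (nat_lit 5) (nat_lit 115) (nat_lit 4) (nat_lit 113) (nat_lit 4) (nat_lit 453) (nat_lit 310) (nat_lit 257))) (XT.nd (nat_lit 78) (nat_lit 0) (nat_lit 0) (XT.lf (nat_lit 0) (nat_lit 4670217800) (nat_lit 76) (nat_lit 39626043420) (nat_lit 76) (nat_lit 38229213738) (nat_lit 112) (nat_lit 4) (nat_lit 113) (nat_lit 5) (nat_lit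 113) (nat_lit 4) (nat_lit 454) (nat_lit 310) (nat_lit 256)) (XT.lf (nat_lit 0) (nat_lit 65665524626) (nat_lit 76) (nat_lit 10452053713) (nat_lit 76) (nat_lit 9050083197) (nat_lit 112) (nat_lit 4) (nat_lit 113) (nat_lit 5) (nat_lit 113) (nat_lit 4) (nat_lit 455) (nat_lit 310) (nat_lit 255))))) (XT.nd (nat_lit 312) (nat_lit 304) (nat_lit 0) (XT.nd (nat_lit 156) (nat_lit 152) (nat_lit 0) (XT.nd (nat_lit 78) (nat_lit 76) (nat_lit 0) (XT.lf (nat_lit 0) (nat_lit 21711552704) (nat_lit 152) (nat_lit 45801147487) (nat_lit 0) (nat_lit 20371679800) (nat_lit 110) (nat_lit 5) (nat_lit 112) (nat_lit 4) (nat_lit 110) (nat_lit 4) (nat_lit 456) (nat_lit 310) (nat_lit 254)) (XT.lf (nat_lit 0) (nat_lit 16547690783) (nat_lit 76) (nat_lit 37748346883) (nat_lit 76) (nat_lit 36404033132) (nat_lit 109) (nat_lit 4) (nat_lit 110) (nat_lit 5) (nat_lit 110) (nat_lit 4) (nat_lit 457) (nat_lit 310) (nat_lit 253))) (XT.nd (nat_lit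 78) (nat_lit 152) (nat_lit 0) (XT.lf (nat_lit 0) (nat_lit 83248574213) (nat_lit 76) (nat_lit 5863206679) (nat_lit 76) (nat_lit 4514663551) (nat_lit 109) (nat_lit 4) (nat_lit 110) (nat_lit 5) (nat_lit 110) (nat_lit 4) (nat_lit 458) (nat_lit 310) (nat_lit 252)) (XT.lf (nat_lit 0) (nat_lit 29224311305) (nat_lit 152) (nat_lit 39456946055) (nat_lit 0) (nat_lit 27936148347) (nat_lit 107) (nat_lit 5) (nat_lit 109) (nat_lit 4) (nat_lit 107) (nat_lit 4) (nat_lit 459) (nat_lit 310) (nat_lit 251)))) (XT.nd (nat_lit 156) (nat_lit 152) (nat_lit 0) (XT.nd (nat_lit 78) (nat_lit 76) (nat_lit 0) (XT.lf (nat_lit 0) (nat_lit 29101132665) (nat_lit 76) (nat_lit 35958423062) (nat_lit 76) (nat_lit 34666606607) (nat_lit 106) (nat_lit 4) (nat_lit 107) (nat_lit 5) (nat_lit 107) (nat_lit 4) (nat_lit 460) (nat_lit 310) (nat_lit 250)) (XT.lf (nat_lit 0) (nat_lit 217050953) (nat_lit 152) (nat_lit 850341519) (nat_lit 76) (nat_lit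 101897645372) (nat_lit 105) (nat_lit 5) (nat_lit 107) (nat_lit 5) (nat_lit 106) (nat_lit 4) (nat_lit 461) (nat_lit 310) (nat_lit 249))) (XT.nd (nat_lit 78) (nat_lit 76) (nat_lit 0) (XT.lf (nat_lit 0) (nat_lit 37254240886) (nat_lit 152) (nat_lit 32987012604) (nat_lit 0) (nat_lit 36017469646) (nat_lit 104) (nat_lit 5) (nat_lit 106) (nat_lit 4) (nat_lit 104) (nat_lit 4) (nat_lit 462) (nat_lit 310) (nat_lit 248)) (XT.lf (nat_lit 0) (nat_lit 42425379413) (nat_lit 76) (nat_lit 34252383320) (nat_lit 76) (nat_lit 33012606341) (nat_lit 103) (nat_lit 4) (nat_lit 104) (nat_lit 5) (nat_lit 104) (nat_lit 4) (nat_lit 463) (nat_lit 310) (nat_lit 247))))))))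
noncomputable def xc50 : XT := (XT.nd (nat_lit 1248) (nat_lit 1216) (nat_lit 0) (XT.nd (nat_lit 624) (nat_lit 684) (nat_lit 0) (XT.nd (nat_lit 312) (nat_lit 228) (nat_lit 0) (XT.nd (nat_lit 156) (nat_lit 228) (nat_lit 0) (XT.nd (nat_lit 78) (nat_lit 0) (nat_lit 0) (XT.lf (nat_lit 0) (nat_lit 5245593893) (nat_lit 152) (nat_lit 103951161024) (nat_lit 0) (nat_lit 4062127619) (nat_lit 101) (nat_lit 5) (nat_lit 103) (nat_lit 4) (nat_lit 101) (nat_lit 4) (nat_lit 464) (nat_lit 310) (nat_lit 246)) (XT.lf (nat_lit 0) (nat_lit 45866590397) (nat_lit 152) (nat_lit 26353677794) (nat_lit 0) (nat_lit 44680527651) (nat_lit 101) (nat_lit 5) (nat_lit 103) (nat_lit 4) (nat_lit 101) (nat_lit 4) (nat_lit 465) (nat_lit 310) (nat_lit 245))) (XT.nd (nat_lit 78) (nat_lit 152) (nat_lit 0) (XT.lf (nat_lit 0) (nat_lit 56623812758) (nat_lit 76) (nat_lit 32626472599) (nat_lit 76) (nat_lit 31437937024) (nat_lit 100) (nat_lit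 4) (nat_lit 101) (nat_lit 5) (nat_lit 101) (nat_lit 4) (nat_lit 466) (nat_lit 310) (nat_lit 244)) (XT.lf (nat_lit 0) (nat_lit 10582514292) (nat_lit 152) (nat_lit 104587816321) (nat_lit 0) (nat_lit 9448332720) (nat_lit 98) (nat_lit 5) (nat_lit 100) (nat_lit 4) (nat_lit 98) (nat_lit 4) (nat_lit 467) (nat_lit 310) (nat_lit 243)))) (XT.nd (nat_lit 156) (nat_lit 152) (nat_lit 0) (XT.nd (nat_lit 78) (nat_lit 76) (nat_lit 0) (XT.lf (nat_lit 0) (nat_lit 55132679125) (nat_lit 152) (nat_lit 19516556389) (nat_lit 0) (nat_lit 53996361430) (nat_lit 98) (nat_lit 5) (nat_lit 100) (nat_lit 4) (nat_lit 98) (nat_lit 4) (nat_lit 468) (nat_lit 310) (nat_lit 242)) (XT.lf (nat_lit 0) (nat_lit 71809284694) (nat_lit 76) (nat_lit 31077072203) (nat_lit 76) (nat_lit 29938720105) (nat_lit 97) (nat_lit 4) (nat_lit 98) (nat_lit 5) (nat_lit 98) (nat_lit 4) (nat_lit 469) (nat_lit 310) (nat_lit 241))) (XT.nd (nat_lit 78) (nat_lit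 0) (nat_lit 0) (XT.lf (nat_lit 0) (nat_lit 16237284803) (nat_lit 152) (nat_lit 105766143879) (nat_lit 0) (nat_lit 15151294685) (nat_lit 95) (nat_lit 5) (nat_lit 97) (nat_lit 4) (nat_lit 95) (nat_lit 4) (nat_lit 470) (nat_lit 310) (nat_lit 240)) (XT.lf (nat_lit 0) (nat_lit 65130554504) (nat_lit 152) (nat_lit 12432220528) (nat_lit 0) (nat_lit 64042806992) (nat_lit 95) (nat_lit 5) (nat_lit 97) (nat_lit 4) (nat_lit 95) (nat_lit 4) (nat_lit 471) (nat_lit 310) (nat_lit 239))))) (XT.nd (nat_lit 312) (nat_lit 380) (nat_lit 0) (XT.nd (nat_lit 156) (nat_lit 76) (nat_lit 0) (XT.nd (nat_lit 78) (nat_lit 152) (nat_lit 0) (XT.lf (nat_lit 0) (nat_lit 88105135729) (nat_lit 76) (nat_lit 29600700831) (nat_lit 76) (nat_lit 28511279610) (nat_lit 94) (nat_lit 4) (nat_lit 95) (nat_lit 5) (nat_lit 95) (nat_lit 4) (nat_lit 472) (nat_lit 310) (nat_lit 238)) (XT.lf (nat_lit 0) (nat_lit 22253513603) (nat_lit 152) (nat_lit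 107519093674) (nat_lit 0) (nat_lit 21214451480) (nat_lit 92) (nat_lit 5) (nat_lit 94) (nat_lit 4) (nat_lit 92) (nat_lit 4) (nat_lit 473) (nat_lit 310) (nat_lit 237))) (XT.nd (nat_lit 78) (nat_lit 76) (nat_lit 0) (XT.lf (nat_lit 0) (nat_lit 75945714548) (nat_lit 152) (nat_lit 5053840710) (nat_lit 0) (nat_lit 74905206613) (nat_lit 92) (nat_lit 5) (nat_lit 94) (nat_lit 4) (nat_lit 92) (nat_lit 4) (nat_lit 474) (nat_lit 310) (nat_lit 236)) (XT.lf (nat_lit 0) (nat_lit 105646316330) (nat_lit 76) (nat_lit 28194014230) (nat_lit 76) (nat_lit 27152129331) (nat_lit 91) (nat_lit 4) (nat_lit 92) (nat_lit 5) (nat_lit 92) (nat_lit 4) (nat_lit 475) (nat_lit 310) (nat_lit 235)))) (XT.nd (nat_lit 156) (nat_lit 152) (nat_lit 0) (XT.nd (nat_lit 78) (nat_lit 76) (nat_lit 0) (XT.lf (nat_lit 0) (nat_lit 28678733146) (nat_lit 152) (nat_lit 109884047500) (nat_lit 0) (nat_lit 27685212867) (nat_lit 89) (nat_lit 5) (nat_lit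 91) (nat_lit 4) (nat_lit 89) (nat_lit 4) (nat_lit 476) (nat_lit 310) (nat_lit 234)) (XT.lf (nat_lit 0) (nat_lit 2757464763) (nat_lit 76) (nat_lit 84957488869) (nat_lit 76) (nat_lit 83962779117) (nat_lit 88) (nat_lit 4) (nat_lit 89) (nat_lit 5) (nat_lit 89) (nat_lit 4) (nat_lit 477) (nat_lit 310) (nat_lit 233))) (XT.nd (nat_lit 78) (nat_lit 152) (nat_lit 0) (XT.lf (nat_lit 0) (nat_lit 124580621986) (nat_lit 76) (nat_lit 26853803758) (nat_lit 76) (nat_lit 25857961174) (nat_lit 88) (nat_lit 4) (nat_lit 89) (nat_lit 5) (nat_lit 89) (nat_lit 4) (nat_lit 478) (nat_lit 310) (nat_lit 232)) (XT.lf (nat_lit 0) (nat_lit 35564832001) (nat_lit 152) (nat_lit 112903226624) (nat_lit 0) (nat_lit 34615382981) (nat_lit 86) (nat_lit 5) (nat_lit 88) (nat_lit 4) (nat_lit 86) (nat_lit 4) (nat_lit 479) (nat_lit 310) (nat_lit 231)))))) (XT.nd (nat_lit 624) (nat_lit 684) (nat_lit 0) (XT.nd (nat_lit 312) (nat_lit 228) (nat_lit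 0) (XT.nd (nat_lit 156) (nat_lit 228) (nat_lit 0) (XT.nd (nat_lit 78) (nat_lit 0) (nat_lit 0) (XT.lf (nat_lit 0) (nat_lit 11148607874) (nat_lit 76) (nat_lit 89437430099) (nat_lit 76) (nat_lit 88487002497) (nat_lit 85) (nat_lit 4) (nat_lit 86) (nat_lit 5) (nat_lit 86) (nat_lit 4) (nat_lit 480) (nat_lit 310) (nat_lit 230)) (XT.lf (nat_lit 0) (nat_lit 145070053456) (nat_lit 76) (nat_lit 25576994120) (nat_lit 76) (nat_lit 24625634534) (nat_lit 85) (nat_lit 4) (nat_lit 86) (nat_lit 5) (nat_lit 86) (nat_lit 4) (nat_lit 481) (nat_lit 310) (nat_lit 229))) (XT.nd (nat_lit 78) (nat_lit 76) (nat_lit 0) (XT.lf (nat_lit 0) (nat_lit 42968528894) (nat_lit 152) (nat_lit 116624142820) (nat_lit 0) (nat_lit 42061626809) (nat_lit 83) (nat_lit 5) (nat_lit 85) (nat_lit 4) (nat_lit 83) (nat_lit 4) (nat_lit 482) (nat_lit 310) (nat_lit 228)) (XT.lf (nat_lit 0) (nat_lit 20014016329) (nat_lit 76) (nat_lit 94577337422) (nat_lit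 76) (nat_lit 93669630255) (nat_lit 82) (nat_lit 4) (nat_lit 83) (nat_lit 5) (nat_lit 83) (nat_lit 4) (nat_lit 483) (nat_lit 310) (nat_lit 227)))) (XT.nd (nat_lit 156) (nat_lit 76) (nat_lit 0) (XT.nd (nat_lit 78) (nat_lit 152) (nat_lit 0) (XT.lf (nat_lit 0) (nat_lit 167292314965) (nat_lit 76) (nat_lit 24360640466) (nat_lit 76) (nat_lit 23452166554) (nat_lit 82) (nat_lit 4) (nat_lit 83) (nat_lit 5) (nat_lit 83) (nat_lit 4) (nat_lit 484) (nat_lit 310) (nat_lit 226)) (XT.lf (nat_lit 0) (nat_lit 50951893503) (nat_lit 152) (nat_lit 121100097242) (nat_lit 0) (nat_lit 50085984792) (nat_lit 80) (nat_lit 5) (nat_lit 82) (nat_lit 4) (nat_lit 80) (nat_lit 4) (nat_lit 485) (nat_lit 310) (nat_lit 225))) (XT.nd (nat_lit 78) (nat_lit 0) (nat_lit 0) (XT.lf (nat_lit 0) (nat_lit 29420623195) (nat_lit 76) (nat_lit 100435397988) (nat_lit 76) (nat_lit 99568826935) (nat_lit 79) (nat_lit 4) (nat_lit 80) (nat_lit 5) (nat_lit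 80) (nat_lit 4) (nat_lit 486) (nat_lit 310) (nat_lit 224)) (XT.lf (nat_lit 0) (nat_lit 191442464447) (nat_lit 76) (nat_lit 23201925014) (nat_lit 76) (nat_lit 22334723158) (nat_lit 79) (nat_lit 4) (nat_lit 80) (nat_lit 5) (nat_lit 80) (nat_lit 4) (nat_lit 487) (nat_lit 310) (nat_lit 223))))) (XT.nd (nat_lit 312) (nat_lit 304) (nat_lit 0) (XT.nd (nat_lit 156) (nat_lit 152) (nat_lit 0) (XT.nd (nat_lit 78) (nat_lit 76) (nat_lit 0) (XT.lf (nat_lit 0) (nat_lit 59582918980) (nat_lit 152) (nat_lit 126390732065) (nat_lit 0) (nat_lit 58756440293) (nat_lit 77) (nat_lit 5) (nat_lit 79) (nat_lit 4) (nat_lit 77) (nat_lit 4) (nat_lit 488) (nat_lit 310) (nat_lit 222)) (XT.lf (nat_lit 0) (nat_lit 39441358950) (nat_lit 76) (nat_lit 107076195633) (nat_lit 76) (nat_lit 106249172035) (nat_lit 76) (nat_lit 4) (nat_lit 77) (nat_lit 5) (nat_lit 77) (nat_lit 4) (nat_lit 489) (nat_lit 310) (nat_lit 221))) (XT.nd (nat_lit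 78) (nat_lit 152) (nat_lit 0) (XT.lf (nat_lit 0) (nat_lit 217734731417) (nat_lit 76) (nat_lit 22098153334) (nat_lit 76) (nat_lit 21270610772) (nat_lit 76) (nat_lit 4) (nat_lit 77) (nat_lit 5) (nat_lit 77) (nat_lit 4) (nat_lit 490) (nat_lit 310) (nat_lit 220)) (XT.lf (nat_lit 0) (nat_lit 68936151654) (nat_lit 152) (nat_lit 132562640306) (nat_lit 0) (nat_lit 68147545166) (nat_lit 74) (nat_lit 5) (nat_lit 76) (nat_lit 4) (nat_lit 74) (nat_lit 4) (nat_lit 491) (nat_lit 310) (nat_lit 219)))) (XT.nd (nat_lit 156) (nat_lit 228) (nat_lit 0) (XT.nd (nat_lit 78) (nat_lit 0) (nat_lit 0) (XT.lf (nat_lit 0) (nat_lit 50155805686) (nat_lit 76) (nat_lit 114571349126) (nat_lit 76) (nat_lit 113782294339) (nat_lit 73) (nat_lit 4) (nat_lit 74) (nat_lit 5) (nat_lit 74) (nat_lit 4) (nat_lit 492) (nat_lit 310) (nat_lit 218)) (XT.lf (nat_lit 0) (nat_lit 246404519637) (nat_lit 76) (nat_lit 21046750393) (nat_lit 76) (nat_lit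 20257268653) (nat_lit 73) (nat_lit 4) (nat_lit 74) (nat_lit 5) (nat_lit 74) (nat_lit 4) (nat_lit 493) (nat_lit 310) (nat_lit 217))) (XT.nd (nat_lit 78) (nat_lit 76) (nat_lit 0) (XT.lf (nat_lit 0) (nat_lit 79093383903) (nat_lit 152) (nat_lit 139690039763) (nat_lit 0) (nat_lit 78341109273) (nat_lit 71) (nat_lit 5) (nat_lit 73) (nat_lit 4) (nat_lit 71) (nat_lit 4) (nat_lit 494) (nat_lit 310) (nat_lit 216)) (XT.lf (nat_lit 0) (nat_lit 61650916794) (nat_lit 76) (nat_lit 123000216101) (nat_lit 76) (nat_lit 122247572653) (nat_lit 70) (nat_lit 4) (nat_lit 71) (nat_lit 5) (nat_lit 71) (nat_lit 4) (nat_lit 495) (nat_lit 310) (nat_lit 215)))))))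
noncomputable def xc51 : XT := (XT.nd (nat_lit 1248) (nat_lit 1596) (nat_lit 0) (XT.nd (nat_lit 624) (nat_lit 836) (nat_lit 0) (XT.nd (nat_lit 312) (nat_lit 456) (nat_lit 0) (XT.nd (nat_lit 156) (nat_lit 228) (nat_lit 0) (XT.nd (nat_lit 78) (nat_lit 76) (nat_lit 0) (XT.lf (nat_lit 0) (nat_lit 3047134693) (nat_lit 152) (nat_lit 2335810253) (nat_lit 0) (nat_lit 3047134693) (nat_lit 182) (nat_lit 5) (nat_lit 184) (nat_lit 4) (nat_lit 182) (nat_lit 4) (nat_lit 398) (nat_lit 311) (nat_lit 311)) (XT.lf (nat_lit 0) (nat_lit 12211039706) (nat_lit 76) (nat_lit 2644142173) (nat_lit 76) (nat_lit 2413042689) (nat_lit 181) (nat_lit 4) (nat_lit 182) (nat_lit 5) (nat_lit 182) (nat_lit 4) (nat_lit 399) (nat_lit 311) (nat_lit 310))) (XT.nd (nat_lit 78) (nat_lit 76) (nat_lit 0) (XT.lf (nat_lit 0) (nat_lit 6236662738) (nat_lit 152) (nat_lit 5643978865) (nat_lit 0) (nat_lit 5806953948) (nat_lit 179) (nat_lit 5) (nat_lit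 181) (nat_lit 4) (nat_lit 179) (nat_lit 4) (nat_lit 400) (nat_lit 311) (nat_lit 309)) (XT.lf (nat_lit 0) (nat_lit 11790360898) (nat_lit 76) (nat_lit 3481613375) (nat_lit 76) (nat_lit 2852272162) (nat_lit 178) (nat_lit 4) (nat_lit 179) (nat_lit 5) (nat_lit 179) (nat_lit 4) (nat_lit 401) (nat_lit 311) (nat_lit 308)))) (XT.nd (nat_lit 156) (nat_lit 228) (nat_lit 0) (XT.nd (nat_lit 78) (nat_lit 76) (nat_lit 0) (XT.lf (nat_lit 0) (nat_lit 6059412760) (nat_lit 152) (nat_lit 7235489330) (nat_lit 0) (nat_lit 5278967683) (nat_lit 176) (nat_lit 5) (nat_lit 178) (nat_lit 4) (nat_lit 176) (nat_lit 4) (nat_lit 402) (nat_lit 311) (nat_lit 307)) (XT.lf (nat_lit 0) (nat_lit 10757265367) (nat_lit 76) (nat_lit 4618265428) (nat_lit 76) (nat_lit 3665370359) (nat_lit 175) (nat_lit 4) (nat_lit 176) (nat_lit 5) (nat_lit 176) (nat_lit 4) (nat_lit 403) (nat_lit 311) (nat_lit 306))) (XT.nd (nat_lit 78) (nat_lit 76) (nat_lit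 0) (XT.lf (nat_lit 0) (nat_lit 5520393935) (nat_lit 152) (nat_lit 9546325765) (nat_lit 0) (nat_lit 4456457595) (nat_lit 173) (nat_lit 5) (nat_lit 175) (nat_lit 4) (nat_lit 173) (nat_lit 4) (nat_lit 404) (nat_lit 311) (nat_lit 305)) (XT.lf (nat_lit 0) (nat_lit 9009897586) (nat_lit 76) (nat_lit 6112775026) (nat_lit 76) (nat_lit 4899869898) (nat_lit 172) (nat_lit 4) (nat_lit 173) (nat_lit 5) (nat_lit 173) (nat_lit 4) (nat_lit 405) (nat_lit 311) (nat_lit 304))))) (XT.nd (nat_lit 312) (nat_lit 380) (nat_lit 0) (XT.nd (nat_lit 156) (nat_lit 228) (nat_lit 0) (XT.nd (nat_lit 78) (nat_lit 76) (nat_lit 0) (XT.lf (nat_lit 0) (nat_lit 4571492460) (nat_lit 152) (nat_lit 12687401799) (nat_lit 0) (nat_lit 3281225637) (nat_lit 170) (nat_lit 5) (nat_lit 172) (nat_lit 4) (nat_lit 170) (nat_lit 4) (nat_lit 406) (nat_lit 311) (nat_lit 303)) (XT.lf (nat_lit 0) (nat_lit 6435351894) (nat_lit 76) (nat_lit 8028770633)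 (nat_lit 76) (nat_lit 6609818970) (nat_lit 169) (nat_lit 4) (nat_lit 170) (nat_lit 5) (nat_lit 170) (nat_lit 4) (nat_lit 407) (nat_lit 311) (nat_lit 302))) (XT.nd (nat_lit 78) (nat_lit 76) (nat_lit 0) (XT.lf (nat_lit 0) (nat_lit 3158082222) (nat_lit 152) (nat_lit 16781676241) (nat_lit 0) (nat_lit 1689978743) (nat_lit 167) (nat_lit 5) (nat_lit 169) (nat_lit 4) (nat_lit 167) (nat_lit 4) (nat_lit 408) (nat_lit 311) (nat_lit 301)) (XT.lf (nat_lit 0) (nat_lit 2908331170) (nat_lit 76) (nat_lit 10435627137) (nat_lit 76) (nat_lit 8856360855) (nat_lit 166) (nat_lit 4) (nat_lit 167) (nat_lit 5) (nat_lit 167) (nat_lit 4) (nat_lit 409) (nat_lit 311) (nat_lit 300)))) (XT.nd (nat_lit 156) (nat_lit 228) (nat_lit 0) (XT.nd (nat_lit 78) (nat_lit 0) (nat_lit 0) (XT.lf (nat_lit 0) (nat_lit 825419025) (nat_lit 76) (nat_lit 399241776) (nat_lit 152) (nat_lit 21572569612) (nat_lit 164) (nat_lit 5) (nat_lit 165) (nat_lit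 5) (nat_lit 166) (nat_lit 4) (nat_lit 410) (nat_lit 311) (nat_lit 299)) (XT.lf (nat_lit 0) (nat_lit 11725694224) (nat_lit 152) (nat_lit 1655577514) (nat_lit 0) (nat_lit 10024776551) (nat_lit 164) (nat_lit 5) (nat_lit 166) (nat_lit 4) (nat_lit 164) (nat_lit 4) (nat_lit 411) (nat_lit 311) (nat_lit 298))) (XT.nd (nat_lit 78) (nat_lit 152) (nat_lit 0) (XT.lf (nat_lit 0) (nat_lit 19771735470) (nat_lit 76) (nat_lit 3031680668) (nat_lit 76) (nat_lit 1239309081) (nat_lit 163) (nat_lit 4) (nat_lit 164) (nat_lit 5) (nat_lit 164) (nat_lit 4) (nat_lit 412) (nat_lit 311) (nat_lit 297)) (XT.lf (nat_lit 0) (nat_lit 9576335575) (nat_lit 152) (nat_lit 7332757551) (nat_lit 0) (nat_lit 7786363622) (nat_lit 161) (nat_lit 5) (nat_lit 163) (nat_lit 4) (nat_lit 161) (nat_lit 4) (nat_lit 413) (nat_lit 311) (nat_lit 296)))))) (XT.nd (nat_lit 624) (nat_lit 836) (nat_lit 0) (XT.nd (nat_lit 312) (nat_lit 304) (nat_lit 0)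 (XT.nd (nat_lit 156) (nat_lit 228) (nat_lit 0) (XT.nd (nat_lit 78) (nat_lit 152) (nat_lit 0) (XT.lf (nat_lit 0) (nat_lit 14717570470) (nat_lit 76) (nat_lit 6263360484) (nat_lit 76) (nat_lit 4394387202) (nat_lit 160) (nat_lit 4) (nat_lit 161) (nat_lit 5) (nat_lit 161) (nat_lit 4) (nat_lit 414) (nat_lit 311) (nat_lit 295)) (XT.lf (nat_lit 0) (nat_lit 6773245856) (nat_lit 152) (nat_lit 14382629883) (nat_lit 0) (nat_lit 4921614768) (nat_lit 158) (nat_lit 5) (nat_lit 160) (nat_lit 4) (nat_lit 158) (nat_lit 4) (nat_lit 415) (nat_lit 311) (nat_lit 294))) (XT.nd (nat_lit 78) (nat_lit 152) (nat_lit 0) (XT.lf (nat_lit 0) (nat_lit 8285076983) (nat_lit 76) (nat_lit 10219167370) (nat_lit 76) (nat_lit 8299291964) (nat_lit 157) (nat_lit 4) (nat_lit 158) (nat_lit 5) (nat_lit 158) (nat_lit 4) (nat_lit 416) (nat_lit 311) (nat_lit 293)) (XT.lf (nat_lit 0) (nat_lit 3229857342) (nat_lit 152) (nat_lit 22990072499) (nat_lit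 0) (nat_lit 1339504966) (nat_lit 155) (nat_lit 5) (nat_lit 157) (nat_lit 4) (nat_lit 155) (nat_lit 4) (nat_lit 417) (nat_lit 311) (nat_lit 292)))) (XT.nd (nat_lit 156) (nat_lit 228) (nat_lit 0) (XT.nd (nat_lit 78) (nat_lit 0) (nat_lit 0) (XT.lf (nat_lit 0) (nat_lit 285358594) (nat_lit 76) (nat_lit 14999429784) (nat_lit 76) (nat_lit 13050125400) (nat_lit 154) (nat_lit 4) (nat_lit 155) (nat_lit 5) (nat_lit 155) (nat_lit 4) (nat_lit 418) (nat_lit 311) (nat_lit 291)) (XT.lf (nat_lit 0) (nat_lit 24999207962) (nat_lit 76) (nat_lit 3074424774) (nat_lit 76) (nat_lit 1068975621) (nat_lit 154) (nat_lit 4) (nat_lit 155) (nat_lit 5) (nat_lit 155) (nat_lit 4) (nat_lit 419) (nat_lit 311) (nat_lit 290))) (XT.nd (nat_lit 78) (nat_lit 76) (nat_lit 0) (XT.lf (nat_lit 0) (nat_lit 11371628342) (nat_lit 152) (nat_lit 9187879990) (nat_lit 0) (nat_lit 9410751806) (nat_lit 152) (nat_lit 5) (nat_lit 154) (nat_lit 4) (nat_lit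 152) (nat_lit 4) (nat_lit 420) (nat_lit 311) (nat_lit 289)) (XT.lf (nat_lit 0) (nat_lit 16205084418) (nat_lit 76) (nat_lit 8318230757) (nat_lit 76) (nat_lit 6308854259) (nat_lit 151) (nat_lit 4) (nat_lit 152) (nat_lit 5) (nat_lit 152) (nat_lit 4) (nat_lit 421) (nat_lit 311) (nat_lit 288))))) (XT.nd (nat_lit 312) (nat_lit 456) (nat_lit 0) (XT.nd (nat_lit 156) (nat_lit 152) (nat_lit 0) (XT.nd (nat_lit 78) (nat_lit 76) (nat_lit 0) (XT.lf (nat_lit 0) (nat_lit 6541645526) (nat_lit 152) (nat_lit 20598550913) (nat_lit 0) (nat_lit 4583962727) (nat_lit 149) (nat_lit 5) (nat_lit 151) (nat_lit 4) (nat_lit 149) (nat_lit 4) (nat_lit 422) (nat_lit 311) (nat_lit 287)) (XT.lf (nat_lit 0) (nat_lit 5448696378) (nat_lit 76) (nat_lit 14597637783) (nat_lit 76) (nat_lit 12598058893) (nat_lit 148) (nat_lit 4) (nat_lit 149) (nat_lit 5) (nat_lit 149) (nat_lit 4) (nat_lit 423) (nat_lit 311) (nat_lit 286))) (XT.nd (nat_lit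 78) (nat_lit 76) (nat_lit 0) (XT.lf (nat_lit 0) (nat_lit 701018399) (nat_lit 152) (nat_lit 602392209) (nat_lit 76) (nat_lit 32301492279) (nat_lit 147) (nat_lit 5) (nat_lit 149) (nat_lit 5) (nat_lit 148) (nat_lit 4) (nat_lit 424) (nat_lit 311) (nat_lit 285)) (XT.lf (nat_lit 0) (nat_lit 14637801641) (nat_lit 152) (nat_lit 7286255436) (nat_lit 0) (nat_lit 12659248385) (nat_lit 146) (nat_lit 5) (nat_lit 148) (nat_lit 4) (nat_lit 146) (nat_lit 4) (nat_lit 425) (nat_lit 311) (nat_lit 284)))) (XT.nd (nat_lit 156) (nat_lit 228) (nat_lit 0) (XT.nd (nat_lit 78) (nat_lit 152) (nat_lit 0) (XT.lf (nat_lit 0) (nat_lit 21175195833) (nat_lit 76) (nat_lit 8221104886) (nat_lit 76) (nat_lit 6208083612) (nat_lit 145) (nat_lit 4) (nat_lit 146) (nat_lit 5) (nat_lit 146) (nat_lit 4) (nat_lit 426) (nat_lit 311) (nat_lit 283)) (XT.lf (nat_lit 0) (nat_lit 8167830546) (nat_lit 152) (nat_lit 22272139134) (nat_lit 0) (nat_lit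 6219403919) (nat_lit 143) (nat_lit 5) (nat_lit 145) (nat_lit 4) (nat_lit 143) (nat_lit 4) (nat_lit 427) (nat_lit 311) (nat_lit 282))) (XT.nd (nat_lit 78) (nat_lit 152) (nat_lit 0) (XT.lf (nat_lit 0) (nat_lit 6886984026) (nat_lit 76) (nat_lit 16420286492) (nat_lit 76) (nat_lit 14442085096) (nat_lit 142) (nat_lit 4) (nat_lit 143) (nat_lit 5) (nat_lit 143) (nat_lit 4) (nat_lit 428) (nat_lit 311) (nat_lit 281)) (XT.nd (nat_lit 78) (nat_lit 76) (nat_lit 0) (XT.lf (nat_lit 0) (nat_lit 446043110) (nat_lit 152) (nat_lit 1092169944) (nat_lit 76) (nat_lit 37348076081) (nat_lit 141) (nat_lit 5) (nat_lit 143) (nat_lit 5) (nat_lit 142) (nat_lit 4) (nat_lit 429) (nat_lit 311) (nat_lit 280)) (XT.lf (nat_lit 0) (nat_lit 16070545100) (nat_lit 152) (nat_lit 9840004040) (nat_lit 0) (nat_lit 14133816610) (nat_lit 140) (nat_lit 5) (nat_lit 142) (nat_lit 4) (nat_lit 140) (nat_lit 4) (nat_lit 430) (nat_lit 311) (nat_lit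 279))))))))
noncomputable def xc52 : XT := (XT.nd (nat_lit 2496) (nat_lit 2356) (nat_lit 0) (XT.nd (nat_lit 1248) (nat_lit 1368) (nat_lit 0) (XT.nd (nat_lit 624) (nat_lit 684) (nat_lit 0) (XT.nd (nat_lit 312) (nat_lit 380) (nat_lit 0) (XT.nd (nat_lit 156) (nat_lit 76) (nat_lit 0) (XT.nd (nat_lit 78) (nat_lit 152) (nat_lit 0) (XT.lf (nat_lit 0) (nat_lit 22064358433) (nat_lit 76) (nat_lit 10574540350) (nat_lit 76) (nat_lit 8613316084) (nat_lit 139) (nat_lit 4) (nat_lit 140) (nat_lit 5) (nat_lit 140) (nat_lit 4) (nat_lit 431) (nat_lit 311) (nat_lit 278)) (XT.lf (nat_lit 0) (nat_lit 7515613026) (nat_lit 152) (nat_lit 29361368083) (nat_lit 0) (nat_lit 5625561999) (nat_lit 137) (nat_lit 5) (nat_lit 139) (nat_lit 4) (nat_lit 137) (nat_lit 4) (nat_lit 432) (nat_lit 311) (nat_lit 277))) (XT.nd (nat_lit 78) (nat_lit 0) (nat_lit 0) (XT.lf (nat_lit 0) (nat_lit 3278066209) (nat_lit 76) (nat_lit 21212510137)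 (nat_lit 76) (nat_lit 19301298737) (nat_lit 136) (nat_lit 4) (nat_lit 137) (nat_lit 5) (nat_lit 137) (nat_lit 4) (nat_lit 433) (nat_lit 311) (nat_lit 276)) (XT.lf (nat_lit 0) (nat_lit 38115615071) (nat_lit 76) (nat_lit 4473832370) (nat_lit 76) (nat_lit 2542468234) (nat_lit 136) (nat_lit 4) (nat_lit 137) (nat_lit 5) (nat_lit 137) (nat_lit 4) (nat_lit 434) (nat_lit 311) (nat_lit 275)))) (XT.nd (nat_lit 156) (nat_lit 152) (nat_lit 0) (XT.nd (nat_lit 78) (nat_lit 76) (nat_lit 0) (XT.lf (nat_lit 0) (nat_lit 15012935469) (nat_lit 152) (nat_lit 18336985737) (nat_lit 0) (nat_lit 13155261928) (nat_lit 134) (nat_lit 5) (nat_lit 136) (nat_lit 4) (nat_lit 134) (nat_lit 4) (nat_lit 435) (nat_lit 311) (nat_lit 274)) (XT.lf (nat_lit 0) (nat_lit 17415984711) (nat_lit 76) (nat_lit 16195786121) (nat_lit 76) (nat_lit 14320703889) (nat_lit 133) (nat_lit 4) (nat_lit 134) (nat_lit 5) (nat_lit 134) (nat_lit 4) (nat_lit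 436) (nat_lit 311) (nat_lit 273))) (XT.nd (nat_lit 78) (nat_lit 0) (nat_lit 0) (XT.lf (nat_lit 0) (nat_lit 3815462709) (nat_lit 152) (nat_lit 43587654041) (nat_lit 0) (nat_lit 2013879911) (nat_lit 131) (nat_lit 5) (nat_lit 133) (nat_lit 4) (nat_lit 131) (nat_lit 4) (nat_lit 437) (nat_lit 311) (nat_lit 272)) (XT.lf (nat_lit 0) (nat_lit 22953115125) (nat_lit 152) (nat_lit 6845599894) (nat_lit 0) (nat_lit 21136494044) (nat_lit 131) (nat_lit 5) (nat_lit 133) (nat_lit 4) (nat_lit 131) (nat_lit 4) (nat_lit 438) (nat_lit 311) (nat_lit 271))))) (XT.nd (nat_lit 312) (nat_lit 380) (nat_lit 0) (XT.nd (nat_lit 156) (nat_lit 76) (nat_lit 0) (XT.nd (nat_lit 78) (nat_lit 152) (nat_lit 0) (XT.lf (nat_lit 0) (nat_lit 32351006800) (nat_lit 76) (nat_lit 10997122297) (nat_lit 76) (nat_lit 9166179042) (nat_lit 130) (nat_lit 4) (nat_lit 131) (nat_lit 5) (nat_lit 131) (nat_lit 4) (nat_lit 439) (nat_lit 311) (nat_lit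 270)) (XT.lf (nat_lit 0) (nat_lit 10614017056) (nat_lit 152) (nat_lit 34674684344) (nat_lit 0) (nat_lit 8857270943) (nat_lit 128) (nat_lit 5) (nat_lit 130) (nat_lit 4) (nat_lit 128) (nat_lit 4) (nat_lit 440) (nat_lit 311) (nat_lit 269))) (XT.nd (nat_lit 78) (nat_lit 0) (nat_lit 0) (XT.lf (nat_lit 0) (nat_lit 5362938807) (nat_lit 76) (nat_lit 26118779443) (nat_lit 76) (nat_lit 24349661297) (nat_lit 127) (nat_lit 4) (nat_lit 128) (nat_lit 5) (nat_lit 128) (nat_lit 4) (nat_lit 441) (nat_lit 311) (nat_lit 268)) (XT.lf (nat_lit 0) (nat_lit 48194962649) (nat_lit 76) (nat_lit 5583847603) (nat_lit 76) (nat_lit 3802946570) (nat_lit 127) (nat_lit 4) (nat_lit 128) (nat_lit 5) (nat_lit 128) (nat_lit 4) (nat_lit 442) (nat_lit 311) (nat_lit 267)))) (XT.nd (nat_lit 156) (nat_lit 152) (nat_lit 0) (XT.nd (nat_lit 78) (nat_lit 76) (nat_lit 0) (XT.lf (nat_lit 0) (nat_lit 17800548734) (nat_lit 152) (nat_lit 25481554748)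 (nat_lit 0) (nat_lit 16093765086) (nat_lit 125) (nat_lit 5) (nat_lit 127) (nat_lit 4) (nat_lit 125) (nat_lit 4) (nat_lit 443) (nat_lit 311) (nat_lit 266)) (XT.lf (nat_lit 0) (nat_lit 18449440766) (nat_lit 76) (nat_lit 22253384790) (nat_lit 76) (nat_lit 20536422641) (nat_lit 124) (nat_lit 4) (nat_lit 125) (nat_lit 5) (nat_lit 125) (nat_lit 4) (nat_lit 444) (nat_lit 311) (nat_lit 265))) (XT.nd (nat_lit 78) (nat_lit 0) (nat_lit 0) (XT.lf (nat_lit 0) (nat_lit 1780714006) (nat_lit 152) (nat_lit 61263787315) (nat_lit 0) (nat_lit 136279758) (nat_lit 122) (nat_lit 5) (nat_lit 124) (nat_lit 4) (nat_lit 122) (nat_lit 4) (nat_lit 445) (nat_lit 311) (nat_lit 264)) (XT.lf (nat_lit 0) (nat_lit 25430199817) (nat_lit 152) (nat_lit 15950052118) (nat_lit 0) (nat_lit 23776972997) (nat_lit 122) (nat_lit 5) (nat_lit 124) (nat_lit 4) (nat_lit 122) (nat_lit 4) (nat_lit 446) (nat_lit 311) (nat_lit 263)))))) (XT.nd (nat_lit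 624) (nat_lit 684) (nat_lit 0) (XT.nd (nat_lit 312) (nat_lit 380) (nat_lit 0) (XT.nd (nat_lit 156) (nat_lit 76) (nat_lit 0) (XT.nd (nat_lit 78) (nat_lit 152) (nat_lit 0) (XT.lf (nat_lit 0) (nat_lit 32283359623) (nat_lit 76) (nat_lit 18297401008) (nat_lit 76) (nat_lit 16635800310) (nat_lit 121) (nat_lit 4) (nat_lit 122) (nat_lit 5) (nat_lit 122) (nat_lit 4) (nat_lit 447) (nat_lit 311) (nat_lit 262)) (XT.lf (nat_lit 0) (nat_lit 7774889743) (nat_lit 152) (nat_lit 55392792262) (nat_lit 0) (nat_lit 6184817533) (nat_lit 119) (nat_lit 5) (nat_lit 121) (nat_lit 4) (nat_lit 119) (nat_lit 4) (nat_lit 448) (nat_lit 311) (nat_lit 261))) (XT.nd (nat_lit 78) (nat_lit 76) (nat_lit 0) (XT.lf (nat_lit 0) (nat_lit 33562914232) (nat_lit 152) (nat_lit 6017282984) (nat_lit 0) (nat_lit 31965608351) (nat_lit 119) (nat_lit 5) (nat_lit 121) (nat_lit 4) (nat_lit 119) (nat_lit 4) (nat_lit 449) (nat_lit 311) (nat_lit 260))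 (XT.lf (nat_lit 0) (nat_lit 46969049767) (nat_lit 76) (nat_lit 14228042307) (nat_lit 76) (nat_lit 12623847216) (nat_lit 118) (nat_lit 4) (nat_lit 119) (nat_lit 5) (nat_lit 119) (nat_lit 4) (nat_lit 450) (nat_lit 311) (nat_lit 259)))) (XT.nd (nat_lit 156) (nat_lit 152) (nat_lit 0) (XT.nd (nat_lit 78) (nat_lit 76) (nat_lit 0) (XT.lf (nat_lit 0) (nat_lit 14104526552) (nat_lit 152) (nat_lit 49496420457) (nat_lit 0) (nat_lit 12570472987) (nat_lit 116) (nat_lit 5) (nat_lit 118) (nat_lit 4) (nat_lit 116) (nat_lit 4) (nat_lit 451) (nat_lit 311) (nat_lit 258)) (XT.lf (nat_lit 0) (nat_lit 4529829344) (nat_lit 76) (nat_lit 37804885358) (nat_lit 76) (nat_lit 36264880634) (nat_lit 115) (nat_lit 4) (nat_lit 116) (nat_lit 5) (nat_lit 116) (nat_lit 4) (nat_lit 452) (nat_lit 311) (nat_lit 257))) (XT.nd (nat_lit 78) (nat_lit 152) (nat_lit 0) (XT.lf (nat_lit 0) (nat_lit 62620336354) (nat_lit 76) (nat_lit 10020643598)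 (nat_lit 76) (nat_lit 8474971104) (nat_lit 115) (nat_lit 4) (nat_lit 116) (nat_lit 5) (nat_lit 116) (nat_lit 4) (nat_lit 453) (nat_lit 311) (nat_lit 256)) (XT.lf (nat_lit 0) (nat_lit 20817681592) (nat_lit 152) (nat_lit 43545012601) (nat_lit 0) (nat_lit 19340471715) (nat_lit 113) (nat_lit 5) (nat_lit 115) (nat_lit 4) (nat_lit 113) (nat_lit 4) (nat_lit 454) (nat_lit 311) (nat_lit 255))))) (XT.nd (nat_lit 312) (nat_lit 380) (nat_lit 0) (XT.nd (nat_lit 156) (nat_lit 228) (nat_lit 0) (XT.nd (nat_lit 78) (nat_lit 0) (nat_lit 0) (XT.lf (nat_lit 0) (nat_lit 15837091634) (nat_lit 76) (nat_lit 36014859569) (nat_lit 76) (nat_lit 34532753658) (nat_lit 112) (nat_lit 4) (nat_lit 113) (nat_lit 5) (nat_lit 113) (nat_lit 4) (nat_lit 455) (nat_lit 311) (nat_lit 254)) (XT.lf (nat_lit 0) (nat_lit 79361527470) (nat_lit 76) (nat_lit 5648479235) (nat_lit 76) (nat_lit 4161710436) (nat_lit 112) (nat_lit 4) (nat_lit 113)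 (nat_lit 5) (nat_lit 113) (nat_lit 4) (nat_lit 456) (nat_lit 311) (nat_lit 253))) (XT.nd (nat_lit 78) (nat_lit 76) (nat_lit 0) (XT.lf (nat_lit 0) (nat_lit 27966617765) (nat_lit 152) (nat_lit 37507088752) (nat_lit 0) (nat_lit 26546418102) (nat_lit 110) (nat_lit 5) (nat_lit 112) (nat_lit 4) (nat_lit 110) (nat_lit 4) (nat_lit 457) (nat_lit 311) (nat_lit 252)) (XT.lf (nat_lit 0) (nat_lit 27788479880) (nat_lit 76) (nat_lit 34308263454) (nat_lit 76) (nat_lit 32884035814) (nat_lit 109) (nat_lit 4) (nat_lit 110) (nat_lit 5) (nat_lit 110) (nat_lit 4) (nat_lit 458) (nat_lit 311) (nat_lit 251)))) (XT.nd (nat_lit 156) (nat_lit 228) (nat_lit 0) (XT.nd (nat_lit 78) (nat_lit 76) (nat_lit 0) (XT.lf (nat_lit 0) (nat_lit 334448673) (nat_lit 152) (nat_lit 742444030) (nat_lit 76) (nat_lit 96988418352) (nat_lit 108) (nat_lit 5) (nat_lit 110) (nat_lit 5) (nat_lit 109) (nat_lit 4) (nat_lit 459) (nat_lit 311) (nat_lit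 250)) (XT.lf (nat_lit 0) (nat_lit 35608281337) (nat_lit 152) (nat_lit 31349115887) (nat_lit 0) (nat_lit 34244741045) (nat_lit 107) (nat_lit 5) (nat_lit 109) (nat_lit 4) (nat_lit 107) (nat_lit 4) (nat_lit 460) (nat_lit 311) (nat_lit 249))) (XT.nd (nat_lit 78) (nat_lit 152) (nat_lit 0) (XT.lf (nat_lit 0) (nat_lit 40474275197) (nat_lit 76) (nat_lit 32681445019) (nat_lit 76) (nat_lit 31314590900) (nat_lit 106) (nat_lit 4) (nat_lit 107) (nat_lit 5) (nat_lit 107) (nat_lit 4) (nat_lit 461) (nat_lit 311) (nat_lit 248)) (XT.lf (nat_lit 0) (nat_lit 5118033001) (nat_lit 152) (nat_lit 98937488826) (nat_lit 0) (nat_lit 3813261434) (nat_lit 104) (nat_lit 5) (nat_lit 106) (nat_lit 4) (nat_lit 104) (nat_lit 4) (nat_lit 462) (nat_lit 311) (nat_lit 247))))))) (XT.nd (nat_lit 1248) (nat_lit 1140) (nat_lit 0) (XT.nd (nat_lit 624) (nat_lit 684) (nat_lit 0) (XT.nd (nat_lit 312) (nat_lit 304) (nat_lit 0) (XT.nd (nat_lit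 156) (nat_lit 152) (nat_lit 0) (XT.nd (nat_lit 78) (nat_lit 76) (nat_lit 0) (XT.lf (nat_lit 0) (nat_lit 43804824134) (nat_lit 152) (nat_lit 25035251642) (nat_lit 0) (nat_lit 42497189957) (nat_lit 104) (nat_lit 5) (nat_lit 106) (nat_lit 4) (nat_lit 104) (nat_lit 4) (nat_lit 463) (nat_lit 311) (nat_lit 246)) (XT.lf (nat_lit 0) (nat_lit 53992903338) (nat_lit 76) (nat_lit 31130869287) (nat_lit 76) (nat_lit 29820508815) (nat_lit 103) (nat_lit 4) (nat_lit 104) (nat_lit 5) (nat_lit 104) (nat_lit 4) (nat_lit 464) (nat_lit 311) (nat_lit 245))) (XT.nd (nat_lit 78) (nat_lit 0) (nat_lit 0) (XT.lf (nat_lit 0) (nat_lit 10195341913) (nat_lit 152) (nat_lit 99547204603) (nat_lit 0) (nat_lit 8944906730) (nat_lit 101) (nat_lit 5) (nat_lit 103) (nat_lit 4) (nat_lit 101) (nat_lit 4) (nat_lit 465) (nat_lit 311) (nat_lit 244)) (XT.lf (nat_lit 0) (nat_lit 52624175464) (nat_lit 152) (nat_lit 18527062187) (nat_lit 0) (nat_lit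 51371385205) (nat_lit 101) (nat_lit 5) (nat_lit 103) (nat_lit 4) (nat_lit 101) (nat_lit 4) (nat_lit 466) (nat_lit 311) (nat_lit 243)))) (XT.nd (nat_lit 156) (nat_lit 76) (nat_lit 0) (XT.nd (nat_lit 78) (nat_lit 152) (nat_lit 0) (XT.lf (nat_lit 0) (nat_lit 68451814191) (nat_lit 76) (nat_lit 29653122814) (nat_lit 76) (nat_lit 28398089626) (nat_lit 100) (nat_lit 4) (nat_lit 101) (nat_lit 5) (nat_lit 101) (nat_lit 4) (nat_lit 467) (nat_lit 311) (nat_lit 242)) (XT.lf (nat_lit 0) (nat_lit 15575564105) (nat_lit 152) (nat_lit 100672576191) (nat_lit 0) (nat_lit 14378260000) (nat_lit 98) (nat_lit 5) (nat_lit 100) (nat_lit 4) (nat_lit 98) (nat_lit 4) (nat_lit 468) (nat_lit 311) (nat_lit 241))) (XT.nd (nat_lit 78) (nat_lit 76) (nat_lit 0) (XT.lf (nat_lit 0) (nat_lit 62140669366) (nat_lit 152) (nat_lit 11783211878) (nat_lit 0) (nat_lit 60941427734) (nat_lit 98) (nat_lit 5) (nat_lit 100) (nat_lit 4) (nat_lit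 98) (nat_lit 4) (nat_lit 469) (nat_lit 311) (nat_lit 240)) (XT.lf (nat_lit 0) (nat_lit 83968450737) (nat_lit 76) (nat_lit 28244916200) (nat_lit 76) (nat_lit 27043829304) (nat_lit 97) (nat_lit 4) (nat_lit 98) (nat_lit 5) (nat_lit 98) (nat_lit 4) (nat_lit 470) (nat_lit 311) (nat_lit 239))))) (XT.nd (nat_lit 312) (nat_lit 304) (nat_lit 0) (XT.nd (nat_lit 156) (nat_lit 228) (nat_lit 0) (XT.nd (nat_lit 78) (nat_lit 0) (nat_lit 0) (XT.lf (nat_lit 0) (nat_lit 21300232644) (nat_lit 152) (nat_lit 102345006058) (nat_lit 0) (nat_lit 20154666654) (nat_lit 95) (nat_lit 5) (nat_lit 97) (nat_lit 4) (nat_lit 95) (nat_lit 4) (nat_lit 471) (nat_lit 311) (nat_lit 238)) (XT.lf (nat_lit 0) (nat_lit 72435733277) (nat_lit 152) (nat_lit 4759122017) (nat_lit 0) (nat_lit 71288573279) (nat_lit 95) (nat_lit 5) (nat_lit 97) (nat_lit 4) (nat_lit 95) (nat_lit 4) (nat_lit 472) (nat_lit 311) (nat_lit 237))) (XT.nd (nat_lit 78)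 (nat_lit 152) (nat_lit 0) (XT.lf (nat_lit 0) (nat_lit 100671316415) (nat_lit 76) (nat_lit 26903085006) (nat_lit 76) (nat_lit 25754406906) (nat_lit 94) (nat_lit 4) (nat_lit 95) (nat_lit 5) (nat_lit 95) (nat_lit 4) (nat_lit 473) (nat_lit 311) (nat_lit 236)) (XT.lf (nat_lit 0) (nat_lit 27414615992) (nat_lit 152) (nat_lit 104600114483) (nat_lit 0) (nat_lit 26319259885) (nat_lit 92) (nat_lit 5) (nat_lit 94) (nat_lit 4) (nat_lit 92) (nat_lit 4) (nat_lit 474) (nat_lit 311) (nat_lit 235)))) (XT.nd (nat_lit 156) (nat_lit 228) (nat_lit 0) (XT.nd (nat_lit 78) (nat_lit 0) (nat_lit 0) (XT.lf (nat_lit 0) (nat_lit 2679153935) (nat_lit 76) (nat_lit 80961319927) (nat_lit 76) (nat_lit 79864652425) (nat_lit 91) (nat_lit 4) (nat_lit 92) (nat_lit 5) (nat_lit 92) (nat_lit 4) (nat_lit 475) (nat_lit 311) (nat_lit 234)) (XT.lf (nat_lit 0) (nat_lit 118701150832) (nat_lit 76) (nat_lit 25624589422) (nat_lit 76) (nat_lit 24526672973)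 (nat_lit 91) (nat_lit 4) (nat_lit 92) (nat_lit 5) (nat_lit 92) (nat_lit 4) (nat_lit 476) (nat_lit 311) (nat_lit 233))) (XT.nd (nat_lit 78) (nat_lit 76) (nat_lit 0) (XT.lf (nat_lit 0) (nat_lit 33968129725) (nat_lit 152) (nat_lit 107478128287) (nat_lit 0) (nat_lit 32921362181) (nat_lit 89) (nat_lit 5) (nat_lit 91) (nat_lit 4) (nat_lit 89) (nat_lit 4) (nat_lit 477) (nat_lit 311) (nat_lit 232)) (XT.lf (nat_lit 0) (nat_lit 10668038273) (nat_lit 76) (nat_lit 85225883267) (nat_lit 76) (nat_lit 84178036835) (nat_lit 88) (nat_lit 4) (nat_lit 89) (nat_lit 5) (nat_lit 89) (nat_lit 4) (nat_lit 478) (nat_lit 311) (nat_lit 231)))))) (XT.nd (nat_lit 624) (nat_lit 532) (nat_lit 0) (XT.nd (nat_lit 312) (nat_lit 380) (nat_lit 0) (XT.nd (nat_lit 156) (nat_lit 76) (nat_lit 0) (XT.nd (nat_lit 78) (nat_lit 152) (nat_lit 0) (XT.lf (nat_lit 0) (nat_lit 138212224773) (nat_lit 76) (nat_lit 24406512950) (nat_lit 76) (nat_lit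 23357639006) (nat_lit 88) (nat_lit 4) (nat_lit 89) (nat_lit 5) (nat_lit 89) (nat_lit 4) (nat_lit 479) (nat_lit 311) (nat_lit 230)) (XT.lf (nat_lit 0) (nat_lit 41014788353) (nat_lit 152) (nat_lit 111024310793) (nat_lit 0) (nat_lit 40014928804) (nat_lit 86) (nat_lit 5) (nat_lit 88) (nat_lit 4) (nat_lit 86) (nat_lit 4) (nat_lit 480) (nat_lit 311) (nat_lit 229))) (XT.nd (nat_lit 78) (nat_lit 0) (nat_lit 0) (XT.lf (nat_lit 0) (nat_lit 19108759347) (nat_lit 76) (nat_lit 90119028939) (nat_lit 76) (nat_lit 89118281787) (nat_lit 85) (nat_lit 4) (nat_lit 86) (nat_lit 5) (nat_lit 86) (nat_lit 4) (nat_lit 481) (nat_lit 311) (nat_lit 228)) (XT.lf (nat_lit 0) (nat_lit 159373766681) (nat_lit 76) (nat_lit 23246060335) (nat_lit 76) (nat_lit 22244467847) (nat_lit 85) (nat_lit 4) (nat_lit 86) (nat_lit 5) (nat_lit 86) (nat_lit 4) (nat_lit 482) (nat_lit 311) (nat_lit 227)))) (XT.nd (nat_lit 156) (nat_lit 152) (nat_lit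 0) (XT.nd (nat_lit 78) (nat_lit 76) (nat_lit 0) (XT.lf (nat_lit 0) (nat_lit 48613701610) (nat_lit 152) (nat_lit 115289437268) (nat_lit 0) (nat_lit 47659037257) (nat_lit 83) (nat_lit 5) (nat_lit 85) (nat_lit 4) (nat_lit 83) (nat_lit 4) (nat_lit 483) (nat_lit 311) (nat_lit 226)) (XT.lf (nat_lit 0) (nat_lit 28065050602) (nat_lit 76) (nat_lit 95696180845) (nat_lit 76) (nat_lit 94740786259) (nat_lit 82) (nat_lit 4) (nat_lit 83) (nat_lit 5) (nat_lit 83) (nat_lit 4) (nat_lit 484) (nat_lit 311) (nat_lit 225))) (XT.nd (nat_lit 78) (nat_lit 152) (nat_lit 0) (XT.lf (nat_lit 0) (nat_lit 182371534005) (nat_lit 76) (nat_lit 22140554920) (nat_lit 76) (nat_lit 21184464873) (nat_lit 82) (nat_lit 4) (nat_lit 83) (nat_lit 5) (nat_lit 83) (nat_lit 4) (nat_lit 485) (nat_lit 311) (nat_lit 224)) (XT.lf (nat_lit 0) (nat_lit 56829619950) (nat_lit 152) (nat_lit 120330320576) (nat_lit 0) (nat_lit 55918427198) (nat_lit 80)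 (nat_lit 5) (nat_lit 82) (nat_lit 4) (nat_lit 80) (nat_lit 4) (nat_lit 486) (nat_lit 311) (nat_lit 223))))) (XT.nd (nat_lit 312) (nat_lit 228) (nat_lit 0) (XT.nd (nat_lit 156) (nat_lit 228) (nat_lit 0) (XT.nd (nat_lit 78) (nat_lit 0) (nat_lit 0) (XT.lf (nat_lit 0) (nat_lit 37606358761) (nat_lit 76) (nat_lit 102018852905) (nat_lit 76) (nat_lit 101107059387) (nat_lit 79) (nat_lit 4) (nat_lit 80) (nat_lit 5) (nat_lit 80) (nat_lit 4) (nat_lit 487) (nat_lit 311) (nat_lit 222)) (XT.lf (nat_lit 0) (nat_lit 207409544247) (nat_lit 76) (nat_lit 21087435567) (nat_lit 76) (nat_lit 20175069892) (nat_lit 79) (nat_lit 4) (nat_lit 80) (nat_lit 5) (nat_lit 80) (nat_lit 4) (nat_lit 488) (nat_lit 311) (nat_lit 221))) (XT.nd (nat_lit 78) (nat_lit 76) (nat_lit 0) (XT.lf (nat_lit 0) (nat_lit 65733534448) (nat_lit 152) (nat_lit 126210392187) (nat_lit 0) (nat_lit 64864095795) (nat_lit 77) (nat_lit 5) (nat_lit 79) (nat_lit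 4) (nat_lit 77) (nat_lit 4) (nat_lit 489) (nat_lit 311) (nat_lit 220)) (XT.lf (nat_lit 0) (nat_lit 47808466662) (nat_lit 76) (nat_lit 109155257304) (nat_lit 76) (nat_lit 108285324401) (nat_lit 76) (nat_lit 4) (nat_lit 77) (nat_lit 5) (nat_lit 77) (nat_lit 4) (nat_lit 490) (nat_lit 311) (nat_lit 219)))) (XT.nd (nat_lit 156) (nat_lit 76) (nat_lit 0) (XT.nd (nat_lit 78) (nat_lit 152) (nat_lit 0) (XT.lf (nat_lit 0) (nat_lit 234711982049) (nat_lit 76) (nat_lit 20084253276) (nat_lit 76) (nat_lit 19213849657) (nat_lit 76) (nat_lit 4) (nat_lit 77) (nat_lit 5) (nat_lit 77) (nat_lit 4) (nat_lit 491) (nat_lit 311) (nat_lit 218)) (XT.lf (nat_lit 0) (nat_lit 75403336837) (nat_lit 152) (nat_lit 133000344207) (nat_lit 0) (nat_lit 74573954057) (nat_lit 74) (nat_lit 5) (nat_lit 76) (nat_lit 4) (nat_lit 74) (nat_lit 4) (nat_lit 492) (nat_lit 311) (nat_lit 217))) (XT.nd (nat_lit 78) (nat_lit 0) (nat_lit 0) (XT.lf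 (nat_lit 0) (nat_lit 58754178470) (nat_lit 76) (nat_lit 117180975241) (nat_lit 76) (nat_lit 116351185840) (nat_lit 73) (nat_lit 4) (nat_lit 74) (nat_lit 5) (nat_lit 74) (nat_lit 4) (nat_lit 493) (nat_lit 311) (nat_lit 216)) (XT.lf (nat_lit 0) (nat_lit 264525300380) (nat_lit 76) (nat_lit 19128667587) (nat_lit 76) (nat_lit 18298490928) (nat_lit 73) (nat_lit 4) (nat_lit 74) (nat_lit 5) (nat_lit 74) (nat_lit 4) (nat_lit 494) (nat_lit 311) (nat_lit 215))))))))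
noncomputable def xc53 : XT := (XT.nd (nat_lit 46566) (nat_lit 0) (nat_lit 5624) (XT.nd (nat_lit 45942) (nat_lit 0) (nat_lit 7220) (XT.nd (nat_lit 45630) (nat_lit 0) (nat_lit 7980) (XT.nd (nat_lit 45474) (nat_lit 0) (nat_lit 8436) (XT.nd (nat_lit 45396) (nat_lit 0) (nat_lit 8664) (XT.lf (nat_lit 0) (nat_lit 85924545967) (nat_lit 152) (nat_lit 140778838701) (nat_lit 0) (nat_lit 85133550275) (nat_lit 71) (nat_lit 5) (nat_lit 73) (nat_lit 4) (nat_lit 71) (nat_lit 4) (nat_lit 495) (nat_lit 311) (nat_lit 214)) (XT.lf (nat_lit 0) (nat_lit 3027437660) (nat_lit 152) (nat_lit 1985715252) (nat_lit 0) (nat_lit 3027437660) (nat_lit 185) (nat_lit 5) (nat_lit 187) (nat_lit 4) (nat_lit 185) (nat_lit 4) (nat_lit 396) (nat_lit 312) (nat_lit 312))) (XT.nd (nat_lit 78) (nat_lit 152) (nat_lit 0) (XT.lf (nat_lit 0) (nat_lit 12111338818) (nat_lit 76) (nat_lit 2306159147) (nat_lit 76) (nat_lit 2051371966) (nat_lit 184)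 (nat_lit 4) (nat_lit 185) (nat_lit 5) (nat_lit 185) (nat_lit 4) (nat_lit 397) (nat_lit 312) (nat_lit 311)) (XT.lf (nat_lit 0) (nat_lit 6199694731) (nat_lit 152) (nat_lit 4941385212) (nat_lit 0) (nat_lit 5725940790) (nat_lit 182) (nat_lit 5) (nat_lit 184) (nat_lit 4) (nat_lit 182) (nat_lit 4) (nat_lit 398) (nat_lit 312) (nat_lit 310)))) (XT.nd (nat_lit 156) (nat_lit 228) (nat_lit 0) (XT.nd (nat_lit 78) (nat_lit 152) (nat_lit 0) (XT.lf (nat_lit 0) (nat_lit 11666941701) (nat_lit 76) (nat_lit 3154476237) (nat_lit 76) (nat_lit 2460627550) (nat_lit 181) (nat_lit 4) (nat_lit 182) (nat_lit 5) (nat_lit 182) (nat_lit 4) (nat_lit 399) (nat_lit 312) (nat_lit 309)) (XT.lf (nat_lit 0) (nat_lit 6036773675) (nat_lit 152) (nat_lit 6496038325) (nat_lit 0) (nat_lit 5176332978) (nat_lit 179) (nat_lit 5) (nat_lit 181) (nat_lit 4) (nat_lit 179) (nat_lit 4) (nat_lit 400) (nat_lit 312) (nat_lit 308))) (XT.nd (nat_lit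 78) (nat_lit 152) (nat_lit 0) (XT.lf (nat_lit 0) (nat_lit 10644207309) (nat_lit 76) (nat_lit 4279780127) (nat_lit 76) (nat_lit 3229213314) (nat_lit 178) (nat_lit 4) (nat_lit 179) (nat_lit 5) (nat_lit 179) (nat_lit 4) (nat_lit 401) (nat_lit 312) (nat_lit 307)) (XT.lf (nat_lit 0) (nat_lit 5526542750) (nat_lit 152) (nat_lit 8731422326) (nat_lit 0) (nat_lit 4353552935) (nat_lit 176) (nat_lit 5) (nat_lit 178) (nat_lit 4) (nat_lit 176) (nat_lit 4) (nat_lit 402) (nat_lit 312) (nat_lit 306))))) (XT.nd (nat_lit 312) (nat_lit 304) (nat_lit 0) (XT.nd (nat_lit 156) (nat_lit 228) (nat_lit 0) (XT.nd (nat_lit 78) (nat_lit 152) (nat_lit 0) (XT.lf (nat_lit 0) (nat_lit 8945510449) (nat_lit 76) (nat_lit 5739085056) (nat_lit 76) (nat_lit 4401857152) (nat_lit 175) (nat_lit 4) (nat_lit 176) (nat_lit 5) (nat_lit 176) (nat_lit 4) (nat_lit 403) (nat_lit 312) (nat_lit 305)) (XT.lf (nat_lit 0) (nat_lit 4623649831) (nat_lit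 152) (nat_lit 11753714713) (nat_lit 0) (nat_lit 3201130659) (nat_lit 173) (nat_lit 5) (nat_lit 175) (nat_lit 4) (nat_lit 173) (nat_lit 4) (nat_lit 404) (nat_lit 312) (nat_lit 304))) (XT.nd (nat_lit 78) (nat_lit 152) (nat_lit 0) (XT.lf (nat_lit 0) (nat_lit 6462784040) (nat_lit 76) (nat_lit 7593964784) (nat_lit 76) (nat_lit 6029570576) (nat_lit 172) (nat_lit 4) (nat_lit 173) (nat_lit 5) (nat_lit 173) (nat_lit 4) (nat_lit 405) (nat_lit 312) (nat_lit 303)) (XT.lf (nat_lit 0) (nat_lit 3276472069) (nat_lit 152) (nat_lit 15680492483) (nat_lit 0) (nat_lit 1657887984) (nat_lit 170) (nat_lit 5) (nat_lit 172) (nat_lit 4) (nat_lit 170) (nat_lit 4) (nat_lit 406) (nat_lit 312) (nat_lit 302)))) (XT.nd (nat_lit 156) (nat_lit 76) (nat_lit 0) (XT.nd (nat_lit 78) (nat_lit 152) (nat_lit 0) (XT.lf (nat_lit 0) (nat_lit 3076230603) (nat_lit 76) (nat_lit 9911330822) (nat_lit 76) (nat_lit 8170189747) (nat_lit 169) (nat_lit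 4) (nat_lit 170) (nat_lit 5) (nat_lit 170) (nat_lit 4) (nat_lit 407) (nat_lit 312) (nat_lit 301)) (XT.lf (nat_lit 0) (nat_lit 1077914684) (nat_lit 76) (nat_lit 354171512) (nat_lit 152) (nat_lit 20293457118) (nat_lit 167) (nat_lit 5) (nat_lit 168) (nat_lit 5) (nat_lit 169) (nat_lit 4) (nat_lit 408) (nat_lit 312) (nat_lit 300))) (XT.nd (nat_lit 78) (nat_lit 76) (nat_lit 0) (XT.lf (nat_lit 0) (nat_lit 11438203627) (nat_lit 152) (nat_lit 1303967682) (nat_lit 0) (nat_lit 9562941892) (nat_lit 167) (nat_lit 5) (nat_lit 169) (nat_lit 4) (nat_lit 167) (nat_lit 4) (nat_lit 409) (nat_lit 312) (nat_lit 299)) (XT.lf (nat_lit 0) (nat_lit 19107366029) (nat_lit 76) (nat_lit 2889877207) (nat_lit 76) (nat_lit 913787533) (nat_lit 166) (nat_lit 4) (nat_lit 167) (nat_lit 5) (nat_lit 167) (nat_lit 4) (nat_lit 410) (nat_lit 312) (nat_lit 298)))))) (XT.nd (nat_lit 624) (nat_lit 760) (nat_lit 0) (XT.nd (nat_lit 312) (nat_lit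 380) (nat_lit 0) (XT.nd (nat_lit 156) (nat_lit 228) (nat_lit 0) (XT.nd (nat_lit 78) (nat_lit 76) (nat_lit 0) (XT.lf (nat_lit 0) (nat_lit 9386666312) (nat_lit 152) (nat_lit 6732164764) (nat_lit 0) (nat_lit 7413222234) (nat_lit 164) (nat_lit 5) (nat_lit 166) (nat_lit 4) (nat_lit 164) (nat_lit 4) (nat_lit 411) (nat_lit 312) (nat_lit 297)) (XT.lf (nat_lit 0) (nat_lit 14272443552) (nat_lit 76) (nat_lit 5983622910) (nat_lit 76) (nat_lit 3923079866) (nat_lit 163) (nat_lit 4) (nat_lit 164) (nat_lit 5) (nat_lit 164) (nat_lit 4) (nat_lit 412) (nat_lit 312) (nat_lit 296))) (XT.nd (nat_lit 78) (nat_lit 76) (nat_lit 0) (XT.lf (nat_lit 0) (nat_lit 6711604001) (nat_lit 152) (nat_lit 13465531099) (nat_lit 0) (nat_lit 4670180726) (nat_lit 161) (nat_lit 5) (nat_lit 163) (nat_lit 4) (nat_lit 161) (nat_lit 4) (nat_lit 413) (nat_lit 312) (nat_lit 295)) (XT.lf (nat_lit 0) (nat_lit 8126969116) (nat_lit 76) (nat_lit 9764064520)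 (nat_lit 76) (nat_lit 7647401885) (nat_lit 160) (nat_lit 4) (nat_lit 161) (nat_lit 5) (nat_lit 161) (nat_lit 4) (nat_lit 414) (nat_lit 312) (nat_lit 294)))) (XT.nd (nat_lit 156) (nat_lit 152) (nat_lit 0) (XT.nd (nat_lit 78) (nat_lit 76) (nat_lit 0) (XT.lf (nat_lit 0) (nat_lit 3330770417) (nat_lit 152) (nat_lit 21680398844) (nat_lit 0) (nat_lit 1246656922) (nat_lit 158) (nat_lit 5) (nat_lit 160) (nat_lit 4) (nat_lit 158) (nat_lit 4) (nat_lit 415) (nat_lit 312) (nat_lit 293)) (XT.lf (nat_lit 0) (nat_lit 490786706) (nat_lit 76) (nat_lit 14327191454) (nat_lit 76) (nat_lit 12178083371) (nat_lit 157) (nat_lit 4) (nat_lit 158) (nat_lit 5) (nat_lit 158) (nat_lit 4) (nat_lit 416) (nat_lit 312) (nat_lit 292))) (XT.nd (nat_lit 78) (nat_lit 152) (nat_lit 0) (XT.lf (nat_lit 0) (nat_lit 24024931324) (nat_lit 76) (nat_lit 2975617445) (nat_lit 76) (nat_lit 764609754) (nat_lit 157) (nat_lit 4) (nat_lit 158) (nat_lit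 5) (nat_lit 158) (nat_lit 4) (nat_lit 417) (nat_lit 312) (nat_lit 291)) (XT.lf (nat_lit 0) (nat_lit 11080610434) (nat_lit 152) (nat_lit 8553589048) (nat_lit 0) (nat_lit 8918744053) (nat_lit 155) (nat_lit 5) (nat_lit 157) (nat_lit 4) (nat_lit 155) (nat_lit 4) (nat_lit 418) (nat_lit 312) (nat_lit 290))))) (XT.nd (nat_lit 312) (nat_lit 380) (nat_lit 0) (XT.nd (nat_lit 156) (nat_lit 152) (nat_lit 0) (XT.nd (nat_lit 78) (nat_lit 152) (nat_lit 0) (XT.lf (nat_lit 0) (nat_lit 15634226710) (nat_lit 76) (nat_lit 7977322146) (nat_lit 76) (nat_lit 5761984557) (nat_lit 154) (nat_lit 4) (nat_lit 155) (nat_lit 5) (nat_lit 155) (nat_lit 4) (nat_lit 419) (nat_lit 312) (nat_lit 289)) (XT.lf (nat_lit 0) (nat_lit 6473137457) (nat_lit 152) (nat_lit 19434703492) (nat_lit 0) (nat_lit 4314792172) (nat_lit 152) (nat_lit 5) (nat_lit 154) (nat_lit 4) (nat_lit 152) (nat_lit 4) (nat_lit 420) (nat_lit 312) (nat_lit 288))) (XT.nd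 (nat_lit 78) (nat_lit 76) (nat_lit 0) (XT.lf (nat_lit 0) (nat_lit 5376118025) (nat_lit 76) (nat_lit 13963607528) (nat_lit 76) (nat_lit 11759071802) (nat_lit 151) (nat_lit 4) (nat_lit 152) (nat_lit 5) (nat_lit 152) (nat_lit 4) (nat_lit 421) (nat_lit 312) (nat_lit 287)) (XT.lf (nat_lit 0) (nat_lit 901027962) (nat_lit 152) (nat_lit 401419299) (nat_lit 76) (nat_lit 30710836534) (nat_lit 150) (nat_lit 5) (nat_lit 152) (nat_lit 5) (nat_lit 151) (nat_lit 4) (nat_lit 422) (nat_lit 312) (nat_lit 286)))) (XT.nd (nat_lit 156) (nat_lit 228) (nat_lit 0) (XT.nd (nat_lit 78) (nat_lit 76) (nat_lit 0) (XT.lf (nat_lit 0) (nat_lit 14177806562) (nat_lit 152) (nat_lit 6770655028) (nat_lit 0) (nat_lit 11996451596) (nat_lit 149) (nat_lit 5) (nat_lit 151) (nat_lit 4) (nat_lit 149) (nat_lit 4) (nat_lit 423) (nat_lit 312) (nat_lit 285)) (XT.lf (nat_lit 0) (nat_lit 20339312314) (nat_lit 76) (nat_lit 7898596720) (nat_lit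 76) (nat_lit 5679240765) (nat_lit 148) (nat_lit 4) (nat_lit 149) (nat_lit 5) (nat_lit 149) (nat_lit 4) (nat_lit 424) (nat_lit 312) (nat_lit 284))) (XT.nd (nat_lit 78) (nat_lit 76) (nat_lit 0) (XT.lf (nat_lit 0) (nat_lit 8007796039) (nat_lit 152) (nat_lit 21054109974) (nat_lit 0) (nat_lit 5859655683) (nat_lit 146) (nat_lit 5) (nat_lit 148) (nat_lit 4) (nat_lit 146) (nat_lit 4) (nat_lit 425) (nat_lit 312) (nat_lit 283)) (XT.lf (nat_lit 0) (nat_lit 6720175605) (nat_lit 76) (nat_lit 15710116086) (nat_lit 76) (nat_lit 13529149046) (nat_lit 145) (nat_lit 4) (nat_lit 146) (nat_lit 5) (nat_lit 146) (nat_lit 4) (nat_lit 426) (nat_lit 312) (nat_lit 282)))))))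
noncomputable def xc54 : XT := (XT.nd (nat_lit 1248) (nat_lit 1368) (nat_lit 0) (XT.nd (nat_lit 624) (nat_lit 684) (nat_lit 0) (XT.nd (nat_lit 312) (nat_lit 304) (nat_lit 0) (XT.nd (nat_lit 156) (nat_lit 228) (nat_lit 0) (XT.nd (nat_lit 78) (nat_lit 76) (nat_lit 0) (XT.lf (nat_lit 0) (nat_lit 644208010) (nat_lit 152) (nat_lit 891604126) (nat_lit 76) (nat_lit 35506176830) (nat_lit 144) (nat_lit 5) (nat_lit 146) (nat_lit 5) (nat_lit 145) (nat_lit 4) (nat_lit 427) (nat_lit 312) (nat_lit 281)) (XT.lf (nat_lit 0) (nat_lit 15527281293) (nat_lit 152) (nat_lit 9225469891) (nat_lit 0) (nat_lit 13392038133) (nat_lit 143) (nat_lit 5) (nat_lit 145) (nat_lit 4) (nat_lit 143) (nat_lit 4) (nat_lit 428) (nat_lit 312) (nat_lit 280))) (XT.nd (nat_lit 78) (nat_lit 152) (nat_lit 0) (XT.lf (nat_lit 0) (nat_lit 21163217875) (nat_lit 76) (nat_lit 10146988333) (nat_lit 76) (nat_lit 7984738579) (nat_lit 142) (nat_lit 4)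 (nat_lit 143) (nat_lit 5) (nat_lit 143) (nat_lit 4) (nat_lit 429) (nat_lit 312) (nat_lit 279)) (XT.lf (nat_lit 0) (nat_lit 7371397325) (nat_lit 152) (nat_lit 27826437596) (nat_lit 0) (nat_lit 5287616068) (nat_lit 140) (nat_lit 5) (nat_lit 142) (nat_lit 4) (nat_lit 140) (nat_lit 4) (nat_lit 430) (nat_lit 312) (nat_lit 278)))) (XT.nd (nat_lit 156) (nat_lit 228) (nat_lit 0) (XT.nd (nat_lit 78) (nat_lit 0) (nat_lit 0) (XT.lf (nat_lit 0) (nat_lit 3262184221) (nat_lit 76) (nat_lit 20279075508) (nat_lit 76) (nat_lit 18171964940) (nat_lit 139) (nat_lit 4) (nat_lit 140) (nat_lit 5) (nat_lit 140) (nat_lit 4) (nat_lit 431) (nat_lit 312) (nat_lit 277)) (XT.lf (nat_lit 0) (nat_lit 36439777483) (nat_lit 76) (nat_lit 4339478244) (nat_lit 76) (nat_lit 2210149283) (nat_lit 139) (nat_lit 4) (nat_lit 140) (nat_lit 5) (nat_lit 140) (nat_lit 4) (nat_lit 432) (nat_lit 312) (nat_lit 276))) (XT.nd (nat_lit 78) (nat_lit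 76) (nat_lit 0) (XT.lf (nat_lit 0) (nat_lit 14504365885) (nat_lit 152) (nat_lit 17336374962) (nat_lit 0) (nat_lit 12456280806) (nat_lit 137) (nat_lit 5) (nat_lit 139) (nat_lit 4) (nat_lit 137) (nat_lit 4) (nat_lit 433) (nat_lit 312) (nat_lit 275)) (XT.lf (nat_lit 0) (nat_lit 16717401020) (nat_lit 76) (nat_lit 15503039602) (nat_lit 76) (nat_lit 13435761441) (nat_lit 136) (nat_lit 4) (nat_lit 137) (nat_lit 5) (nat_lit 137) (nat_lit 4) (nat_lit 434) (nat_lit 312) (nat_lit 274))))) (XT.nd (nat_lit 312) (nat_lit 304) (nat_lit 0) (XT.nd (nat_lit 156) (nat_lit 228) (nat_lit 0) (XT.nd (nat_lit 78) (nat_lit 0) (nat_lit 0) (XT.lf (nat_lit 0) (nat_lit 3831874001) (nat_lit 152) (nat_lit 41392291381) (nat_lit 0) (nat_lit 1845628965) (nat_lit 134) (nat_lit 5) (nat_lit 136) (nat_lit 4) (nat_lit 134) (nat_lit 4) (nat_lit 435) (nat_lit 312) (nat_lit 273)) (XT.lf (nat_lit 0) (nat_lit 22058949809) (nat_lit 152) (nat_lit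 6400599035) (nat_lit 0) (nat_lit 20056125068) (nat_lit 134) (nat_lit 5) (nat_lit 136) (nat_lit 4) (nat_lit 134) (nat_lit 4) (nat_lit 436) (nat_lit 312) (nat_lit 272))) (XT.nd (nat_lit 78) (nat_lit 152) (nat_lit 0) (XT.lf (nat_lit 0) (nat_lit 30932709677) (nat_lit 76) (nat_lit 10552676196) (nat_lit 76) (nat_lit 8534061259) (nat_lit 133) (nat_lit 4) (nat_lit 134) (nat_lit 5) (nat_lit 134) (nat_lit 4) (nat_lit 437) (nat_lit 312) (nat_lit 271)) (XT.lf (nat_lit 0) (nat_lit 10299270011) (nat_lit 152) (nat_lit 32911467354) (nat_lit 0) (nat_lit 8362457421) (nat_lit 131) (nat_lit 5) (nat_lit 133) (nat_lit 4) (nat_lit 131) (nat_lit 4) (nat_lit 438) (nat_lit 312) (nat_lit 270)))) (XT.nd (nat_lit 156) (nat_lit 228) (nat_lit 0) (XT.nd (nat_lit 78) (nat_lit 0) (nat_lit 0) (XT.lf (nat_lit 0) (nat_lit 5222677835) (nat_lit 76) (nat_lit 24952999555) (nat_lit 76) (nat_lit 23002546800) (nat_lit 130) (nat_lit 4) (nat_lit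 131) (nat_lit 5) (nat_lit 131) (nat_lit 4) (nat_lit 439) (nat_lit 312) (nat_lit 269)) (XT.lf (nat_lit 0) (nat_lit 46014482374) (nat_lit 76) (nat_lit 5397091327) (nat_lit 76) (nat_lit 3433647938) (nat_lit 130) (nat_lit 4) (nat_lit 131) (nat_lit 5) (nat_lit 131) (nat_lit 4) (nat_lit 440) (nat_lit 312) (nat_lit 268))) (XT.nd (nat_lit 78) (nat_lit 76) (nat_lit 0) (XT.lf (nat_lit 0) (nat_lit 17136164087) (nat_lit 152) (nat_lit 24163099449) (nat_lit 0) (nat_lit 15254435115) (nat_lit 128) (nat_lit 5) (nat_lit 130) (nat_lit 4) (nat_lit 128) (nat_lit 4) (nat_lit 441) (nat_lit 312) (nat_lit 267)) (XT.lf (nat_lit 0) (nat_lit 17678899712) (nat_lit 76) (nat_lit 21271143807) (nat_lit 76) (nat_lit 19378193037) (nat_lit 127) (nat_lit 4) (nat_lit 128) (nat_lit 5) (nat_lit 128) (nat_lit 4) (nat_lit 442) (nat_lit 312) (nat_lit 266)))))) (XT.nd (nat_lit 624) (nat_lit 684) (nat_lit 0) (XT.nd (nat_lit 312) (nat_lit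 304) (nat_lit 0) (XT.nd (nat_lit 156) (nat_lit 228) (nat_lit 0) (XT.nd (nat_lit 78) (nat_lit 0) (nat_lit 0) (XT.lf (nat_lit 0) (nat_lit 1871383466) (nat_lit 152) (nat_lit 58247349989) (nat_lit 0) (nat_lit 58394708) (nat_lit 125) (nat_lit 5) (nat_lit 127) (nat_lit 4) (nat_lit 125) (nat_lit 4) (nat_lit 443) (nat_lit 312) (nat_lit 265)) (XT.lf (nat_lit 0) (nat_lit 24395136051) (nat_lit 152) (nat_lit 15091844470) (nat_lit 0) (nat_lit 22572453482) (nat_lit 125) (nat_lit 5) (nat_lit 127) (nat_lit 4) (nat_lit 125) (nat_lit 4) (nat_lit 444) (nat_lit 312) (nat_lit 264))) (XT.nd (nat_lit 78) (nat_lit 152) (nat_lit 0) (XT.lf (nat_lit 0) (nat_lit 30847575207) (nat_lit 76) (nat_lit 17502473049) (nat_lit 76) (nat_lit 15670558280) (nat_lit 124) (nat_lit 4) (nat_lit 125) (nat_lit 5) (nat_lit 125) (nat_lit 4) (nat_lit 445) (nat_lit 312) (nat_lit 263)) (XT.lf (nat_lit 0) (nat_lit 7572945295) (nat_lit 152) (nat_lit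 52661824374) (nat_lit 0) (nat_lit 5819890684) (nat_lit 122) (nat_lit 5) (nat_lit 124) (nat_lit 4) (nat_lit 122) (nat_lit 4) (nat_lit 446) (nat_lit 312) (nat_lit 262)))) (XT.nd (nat_lit 156) (nat_lit 228) (nat_lit 0) (XT.nd (nat_lit 78) (nat_lit 76) (nat_lit 0) (XT.lf (nat_lit 0) (nat_lit 32133324655) (nat_lit 152) (nat_lit 5637885860) (nat_lit 0) (nat_lit 30372294921) (nat_lit 122) (nat_lit 5) (nat_lit 124) (nat_lit 4) (nat_lit 122) (nat_lit 4) (nat_lit 447) (nat_lit 312) (nat_lit 261)) (XT.lf (nat_lit 0) (nat_lit 44828008260) (nat_lit 76) (nat_lit 13625412359) (nat_lit 76) (nat_lit 11856787272) (nat_lit 121) (nat_lit 4) (nat_lit 122) (nat_lit 5) (nat_lit 122) (nat_lit 4) (nat_lit 448) (nat_lit 312) (nat_lit 260))) (XT.nd (nat_lit 78) (nat_lit 76) (nat_lit 0) (XT.lf (nat_lit 0) (nat_lit 13594126671) (nat_lit 152) (nat_lit 47051640606) (nat_lit 0) (nat_lit 11902832615) (nat_lit 119) (nat_lit 5)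 (nat_lit 121) (nat_lit 4) (nat_lit 119) (nat_lit 4) (nat_lit 449) (nat_lit 312) (nat_lit 259)) (XT.lf (nat_lit 0) (nat_lit 4404531347) (nat_lit 76) (nat_lit 36077193237) (nat_lit 76) (nat_lit 34379338029) (nat_lit 118) (nat_lit 4) (nat_lit 119) (nat_lit 5) (nat_lit 119) (nat_lit 4) (nat_lit 450) (nat_lit 312) (nat_lit 258))))) (XT.nd (nat_lit 312) (nat_lit 456) (nat_lit 0) (XT.nd (nat_lit 156) (nat_lit 76) (nat_lit 0) (XT.nd (nat_lit 78) (nat_lit 152) (nat_lit 0) (XT.lf (nat_lit 0) (nat_lit 59728535549) (nat_lit 76) (nat_lit 9616573262) (nat_lit 76) (nat_lit 7912469337) (nat_lit 118) (nat_lit 4) (nat_lit 119) (nat_lit 5) (nat_lit 119) (nat_lit 4) (nat_lit 451) (nat_lit 312) (nat_lit 257)) (XT.lf (nat_lit 0) (nat_lit 19980727037) (nat_lit 152) (nat_lit 41388612104) (nat_lit 0) (nat_lit 18352103148) (nat_lit 116) (nat_lit 5) (nat_lit 118) (nat_lit 4) (nat_lit 116) (nat_lit 4) (nat_lit 452) (nat_lit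 312) (nat_lit 256))) (XT.nd (nat_lit 78) (nat_lit 0) (nat_lit 0) (XT.lf (nat_lit 0) (nat_lit 15168262617) (nat_lit 76) (nat_lit 34370484703) (nat_lit 76) (nat_lit 32736462937) (nat_lit 115) (nat_lit 4) (nat_lit 116) (nat_lit 5) (nat_lit 116) (nat_lit 4) (nat_lit 453) (nat_lit 312) (nat_lit 255)) (XT.lf (nat_lit 0) (nat_lit 75667488225) (nat_lit 76) (nat_lit 5450585376) (nat_lit 76) (nat_lit 3811422776) (nat_lit 115) (nat_lit 4) (nat_lit 116) (nat_lit 5) (nat_lit 116) (nat_lit 4) (nat_lit 454) (nat_lit 312) (nat_lit 254)))) (XT.nd (nat_lit 156) (nat_lit 228) (nat_lit 0) (XT.nd (nat_lit 78) (nat_lit 76) (nat_lit 0) (XT.lf (nat_lit 0) (nat_lit 26782543276) (nat_lit 152) (nat_lit 35642808899) (nat_lit 0) (nat_lit 25216773149) (nat_lit 113) (nat_lit 5) (nat_lit 115) (nat_lit 4) (nat_lit 113) (nat_lit 4) (nat_lit 455) (nat_lit 312) (nat_lit 253)) (XT.lf (nat_lit 0) (nat_lit 26545828704) (nat_lit 76)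 (nat_lit 32743052867) (nat_lit 76) (nat_lit 31172841893) (nat_lit 112) (nat_lit 4) (nat_lit 113) (nat_lit 5) (nat_lit 113) (nat_lit 4) (nat_lit 456) (nat_lit 312) (nat_lit 252))) (XT.nd (nat_lit 78) (nat_lit 152) (nat_lit 0) (XT.lf (nat_lit 0) (nat_lit 459348707) (nat_lit 152) (nat_lit 632775501) (nat_lit 76) (nat_lit 92307125832) (nat_lit 111) (nat_lit 5) (nat_lit 113) (nat_lit 5) (nat_lit 112) (nat_lit 4) (nat_lit 457) (nat_lit 312) (nat_lit 251)) (XT.nd (nat_lit 78) (nat_lit 76) (nat_lit 0) (XT.lf (nat_lit 0) (nat_lit 34053826136) (nat_lit 152) (nat_lit 29782337876) (nat_lit 0) (nat_lit 32550522964) (nat_lit 110) (nat_lit 5) (nat_lit 112) (nat_lit 4) (nat_lit 110) (nat_lit 4) (nat_lit 458) (nat_lit 312) (nat_lit 250)) (XT.lf (nat_lit 0) (nat_lit 38623168780) (nat_lit 76) (nat_lit 31191476380) (nat_lit 76) (nat_lit 29684519713) (nat_lit 109) (nat_lit 4) (nat_lit 110) (nat_lit 5) (nat_lit 110)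 (nat_lit 4) (nat_lit 459) (nat_lit 312) (nat_lit 249))))))))
noncomputable def xc55 : XT := (XT.nd (nat_lit 2496) (nat_lit 228) (nat_lit 0) (XT.nd (nat_lit 1248) (nat_lit 1216) (nat_lit 0) (XT.nd (nat_lit 624) (nat_lit 684) (nat_lit 0) (XT.nd (nat_lit 312) (nat_lit 228) (nat_lit 0) (XT.nd (nat_lit 156) (nat_lit 228) (nat_lit 0) (XT.nd (nat_lit 78) (nat_lit 0) (nat_lit 0) (XT.lf (nat_lit 0) (nat_lit 5009074940) (nat_lit 152) (nat_lit 94156042189) (nat_lit 0) (nat_lit 3570564287) (nat_lit 107) (nat_lit 5) (nat_lit 109) (nat_lit 4) (nat_lit 107) (nat_lit 4) (nat_lit 460) (nat_lit 312) (nat_lit 248)) (XT.lf (nat_lit 0) (nat_lit 41853778820) (nat_lit 152) (nat_lit 23773100053) (nat_lit 0) (nat_lit 40412112140) (nat_lit 107) (nat_lit 5) (nat_lit 109) (nat_lit 4) (nat_lit 107) (nat_lit 4) (nat_lit 461) (nat_lit 312) (nat_lit 247))) (XT.nd (nat_lit 78) (nat_lit 152) (nat_lit 0) (XT.lf (nat_lit 0) (nat_lit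 51493985237) (nat_lit 76) (nat_lit 29712434099) (nat_lit 76) (nat_lit 28267761680) (nat_lit 106) (nat_lit 4) (nat_lit 107) (nat_lit 5) (nat_lit 107) (nat_lit 4) (nat_lit 462) (nat_lit 312) (nat_lit 246)) (XT.lf (nat_lit 0) (nat_lit 9838573893) (nat_lit 152) (nat_lit 94740447464) (nat_lit 0) (nat_lit 8459969104) (nat_lit 104) (nat_lit 5) (nat_lit 106) (nat_lit 4) (nat_lit 104) (nat_lit 4) (nat_lit 463) (nat_lit 312) (nat_lit 245)))) (XT.nd (nat_lit 156) (nat_lit 152) (nat_lit 0) (XT.nd (nat_lit 78) (nat_lit 76) (nat_lit 0) (XT.lf (nat_lit 0) (nat_lit 50247102714) (nat_lit 152) (nat_lit 17578522983) (nat_lit 0) (nat_lit 48865901454) (nat_lit 104) (nat_lit 5) (nat_lit 106) (nat_lit 4) (nat_lit 104) (nat_lit 4) (nat_lit 464) (nat_lit 312) (nat_lit 244)) (XT.lf (nat_lit 0) (nat_lit 65260580209) (nat_lit 76) (nat_lit 28302711436) (nat_lit 76) (nat_lit 26919037347) (nat_lit 103) (nat_lit 4) (nat_lit 104)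 (nat_lit 5) (nat_lit 104) (nat_lit 4) (nat_lit 465) (nat_lit 312) (nat_lit 243))) (XT.nd (nat_lit 78) (nat_lit 0) (nat_lit 0) (XT.lf (nat_lit 0) (nat_lit 14956780959) (nat_lit 152) (nat_lit 95815708169) (nat_lit 0) (nat_lit 13636753183) (nat_lit 101) (nat_lit 5) (nat_lit 103) (nat_lit 4) (nat_lit 101) (nat_lit 4) (nat_lit 466) (nat_lit 312) (nat_lit 242)) (XT.lf (nat_lit 0) (nat_lit 59304595619) (nat_lit 152) (nat_lit 11159266092) (nat_lit 0) (nat_lit 57982431719) (nat_lit 101) (nat_lit 5) (nat_lit 103) (nat_lit 4) (nat_lit 101) (nat_lit 4) (nat_lit 467) (nat_lit 312) (nat_lit 241))))) (XT.nd (nat_lit 312) (nat_lit 380) (nat_lit 0) (XT.nd (nat_lit 156) (nat_lit 76) (nat_lit 0) (XT.nd (nat_lit 78) (nat_lit 152) (nat_lit 0) (XT.lf (nat_lit 0) (nat_lit 80034777504) (nat_lit 76) (nat_lit 26959204429) (nat_lit 76) (nat_lit 25635006126) (nat_lit 100) (nat_lit 4) (nat_lit 101) (nat_lit 5) (nat_lit 101)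 (nat_lit 4) (nat_lit 468) (nat_lit 312) (nat_lit 240)) (XT.lf (nat_lit 0) (nat_lit 20403253057) (nat_lit 152) (nat_lit 97411755162) (nat_lit 0) (nat_lit 19140266554) (nat_lit 98) (nat_lit 5) (nat_lit 100) (nat_lit 4) (nat_lit 98) (nat_lit 4) (nat_lit 469) (nat_lit 312) (nat_lit 239))) (XT.nd (nat_lit 78) (nat_lit 76) (nat_lit 0) (XT.lf (nat_lit 0) (nat_lit 69103808307) (nat_lit 152) (nat_lit 4472896436) (nat_lit 0) (nat_lit 67839064410) (nat_lit 98) (nat_lit 5) (nat_lit 100) (nat_lit 4) (nat_lit 98) (nat_lit 4) (nat_lit 470) (nat_lit 312) (nat_lit 238)) (XT.lf (nat_lit 0) (nat_lit 95938938406) (nat_lit 76) (nat_lit 25678921999) (nat_lit 76) (nat_lit 24412504393) (nat_lit 97) (nat_lit 4) (nat_lit 98) (nat_lit 5) (nat_lit 98) (nat_lit 4) (nat_lit 471) (nat_lit 312) (nat_lit 237)))) (XT.nd (nat_lit 156) (nat_lit 152) (nat_lit 0) (XT.nd (nat_lit 78) (nat_lit 76) (nat_lit 0) (XT.lf (nat_lit 0) (nat_lit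 26221102416) (nat_lit 152) (nat_lit 99562532992) (nat_lit 0) (nat_lit 25013472308) (nat_lit 95) (nat_lit 5) (nat_lit 97) (nat_lit 4) (nat_lit 95) (nat_lit 4) (nat_lit 472) (nat_lit 312) (nat_lit 236)) (XT.lf (nat_lit 0) (nat_lit 2610004387) (nat_lit 76) (nat_lit 77160510884) (nat_lit 76) (nat_lit 75951434964) (nat_lit 94) (nat_lit 4) (nat_lit 95) (nat_lit 5) (nat_lit 95) (nat_lit 4) (nat_lit 473) (nat_lit 312) (nat_lit 235))) (XT.nd (nat_lit 78) (nat_lit 152) (nat_lit 0) (XT.lf (nat_lit 0) (nat_lit 113107080784) (nat_lit 76) (nat_lit 24458986770) (nat_lit 76) (nat_lit 23248533886) (nat_lit 94) (nat_lit 4) (nat_lit 95) (nat_lit 5) (nat_lit 95) (nat_lit 4) (nat_lit 474) (nat_lit 312) (nat_lit 234)) (XT.lf (nat_lit 0) (nat_lit 32457389159) (nat_lit 152) (nat_lit 102306370660) (nat_lit 0) (nat_lit 31303327941) (nat_lit 92) (nat_lit 5) (nat_lit 94) (nat_lit 4) (nat_lit 92) (nat_lit 4) (nat_lit 475)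 (nat_lit 312) (nat_lit 233)))))) (XT.nd (nat_lit 624) (nat_lit 684) (nat_lit 0) (XT.nd (nat_lit 312) (nat_lit 228) (nat_lit 0) (XT.nd (nat_lit 156) (nat_lit 228) (nat_lit 0) (XT.nd (nat_lit 78) (nat_lit 0) (nat_lit 0) (XT.lf (nat_lit 0) (nat_lit 10215510379) (nat_lit 76) (nat_lit 81219742571) (nat_lit 76) (nat_lit 80064491880) (nat_lit 91) (nat_lit 4) (nat_lit 92) (nat_lit 5) (nat_lit 92) (nat_lit 4) (nat_lit 476) (nat_lit 312) (nat_lit 232)) (XT.lf (nat_lit 0) (nat_lit 131686111943) (nat_lit 76) (nat_lit 23296634749) (nat_lit 76) (nat_lit 22140251226) (nat_lit 91) (nat_lit 4) (nat_lit 92) (nat_lit 5) (nat_lit 92) (nat_lit 4) (nat_lit 477) (nat_lit 312) (nat_lit 231))) (XT.nd (nat_lit 78) (nat_lit 76) (nat_lit 0) (XT.lf (nat_lit 0) (nat_lit 39163552013) (nat_lit 152) (nat_lit 105686391538) (nat_lit 0) (nat_lit 38061206861) (nat_lit 89) (nat_lit 5) (nat_lit 91) (nat_lit 4) (nat_lit 89) (nat_lit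 4) (nat_lit 478) (nat_lit 312) (nat_lit 230)) (XT.lf (nat_lit 0) (nat_lit 18251508461) (nat_lit 76) (nat_lit 85877671720) (nat_lit 76) (nat_lit 84774347986) (nat_lit 88) (nat_lit 4) (nat_lit 89) (nat_lit 5) (nat_lit 89) (nat_lit 4) (nat_lit 479) (nat_lit 312) (nat_lit 229)))) (XT.nd (nat_lit 156) (nat_lit 76) (nat_lit 0) (XT.nd (nat_lit 78) (nat_lit 152) (nat_lit 0) (XT.lf (nat_lit 0) (nat_lit 151837186748) (nat_lit 76) (nat_lit 22189214112) (nat_lit 76) (nat_lit 21084958393) (nat_lit 88) (nat_lit 4) (nat_lit 89) (nat_lit 5) (nat_lit 89) (nat_lit 4) (nat_lit 480) (nat_lit 312) (nat_lit 228)) (XT.lf (nat_lit 0) (nat_lit 46395881286) (nat_lit 152) (nat_lit 109750966548) (nat_lit 0) (nat_lit 45343363837) (nat_lit 86) (nat_lit 5) (nat_lit 88) (nat_lit 4) (nat_lit 86) (nat_lit 4) (nat_lit 481) (nat_lit 312) (nat_lit 227))) (XT.nd (nat_lit 78) (nat_lit 0) (nat_lit 0) (XT.lf (nat_lit 0) (nat_lit 26778683554)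 (nat_lit 76) (nat_lit 91187091347) (nat_lit 76) (nat_lit 90133768816) (nat_lit 85) (nat_lit 4) (nat_lit 86) (nat_lit 5) (nat_lit 86) (nat_lit 4) (nat_lit 482) (nat_lit 312) (nat_lit 226)) (XT.lf (nat_lit 0) (nat_lit 173737203815) (nat_lit 76) (nat_lit 21134183315) (nat_lit 76) (nat_lit 20080094039) (nat_lit 85) (nat_lit 4) (nat_lit 86) (nat_lit 5) (nat_lit 86) (nat_lit 4) (nat_lit 483) (nat_lit 312) (nat_lit 225))))) (XT.nd (nat_lit 312) (nat_lit 304) (nat_lit 0) (XT.nd (nat_lit 156) (nat_lit 152) (nat_lit 0) (XT.nd (nat_lit 78) (nat_lit 76) (nat_lit 0) (XT.lf (nat_lit 0) (nat_lit 54216038638) (nat_lit 152) (nat_lit 114554215078) (nat_lit 0) (nat_lit 53211448629) (nat_lit 83) (nat_lit 5) (nat_lit 85) (nat_lit 4) (nat_lit 83) (nat_lit 4) (nat_lit 484) (nat_lit 312) (nat_lit 224)) (XT.lf (nat_lit 0) (nat_lit 35863163410) (nat_lit 76) (nat_lit 97206592202) (nat_lit 76) (nat_lit 96201339850) (nat_lit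 82) (nat_lit 4) (nat_lit 83) (nat_lit 5) (nat_lit 83) (nat_lit 4) (nat_lit 485) (nat_lit 312) (nat_lit 223))) (XT.nd (nat_lit 78) (nat_lit 152) (nat_lit 0) (XT.lf (nat_lit 0) (nat_lit 197580453828) (nat_lit 76) (nat_lit 20129108680) (nat_lit 76) (nat_lit 19123225524) (nat_lit 82) (nat_lit 4) (nat_lit 83) (nat_lit 5) (nat_lit 83) (nat_lit 4) (nat_lit 486) (nat_lit 312) (nat_lit 222)) (XT.lf (nat_lit 0) (nat_lit 62691628633) (nat_lit 152) (nat_lit 120156558576) (nat_lit 0) (nat_lit 61733072518) (nat_lit 80) (nat_lit 5) (nat_lit 82) (nat_lit 4) (nat_lit 80) (nat_lit 4) (nat_lit 487) (nat_lit 312) (nat_lit 221)))) (XT.nd (nat_lit 156) (nat_lit 228) (nat_lit 0) (XT.nd (nat_lit 78) (nat_lit 0) (nat_lit 0) (XT.lf (nat_lit 0) (nat_lit 45577111535) (nat_lit 76) (nat_lit 104001142504) (nat_lit 76) (nat_lit 103042041478) (nat_lit 79) (nat_lit 4) (nat_lit 80) (nat_lit 5) (nat_lit 80) (nat_lit 4) (nat_lit 488)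 (nat_lit 312) (nat_lit 220)) (XT.lf (nat_lit 0) (nat_lit 223580435588) (nat_lit 76) (nat_lit 19171661587) (nat_lit 76) (nat_lit 18212041598) (nat_lit 79) (nat_lit 4) (nat_lit 80) (nat_lit 5) (nat_lit 80) (nat_lit 4) (nat_lit 489) (nat_lit 312) (nat_lit 219))) (XT.nd (nat_lit 78) (nat_lit 76) (nat_lit 0) (XT.lf (nat_lit 0) (nat_lit 71896827514) (nat_lit 152) (nat_lit 126625332221) (nat_lit 0) (nat_lit 70982432999) (nat_lit 77) (nat_lit 5) (nat_lit 79) (nat_lit 4) (nat_lit 77) (nat_lit 4) (nat_lit 490) (nat_lit 312) (nat_lit 218)) (XT.lf (nat_lit 0) (nat_lit 55999379577) (nat_lit 76) (nat_lit 111642727098) (nat_lit 76) (nat_lit 110727884284) (nat_lit 76) (nat_lit 4) (nat_lit 77) (nat_lit 5) (nat_lit 77) (nat_lit 4) (nat_lit 491) (nat_lit 312) (nat_lit 217))))))) (XT.nd (nat_lit 46410) (nat_lit 0) (nat_lit 6004) (XT.nd (nat_lit 45786) (nat_lit 0) (nat_lit 7524) (XT.nd (nat_lit 45474) (nat_lit 0) (nat_lit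 8436) (XT.nd (nat_lit 156) (nat_lit 76) (nat_lit 0) (XT.nd (nat_lit 78) (nat_lit 152) (nat_lit 0) (XT.lf (nat_lit 0) (nat_lit 251971856944) (nat_lit 76) (nat_lit 18259615396) (nat_lit 76) (nat_lit 17344345629) (nat_lit 76) (nat_lit 4) (nat_lit 77) (nat_lit 5) (nat_lit 77) (nat_lit 4) (nat_lit 492) (nat_lit 312) (nat_lit 216)) (XT.lf (nat_lit 0) (nat_lit 81913075199) (nat_lit 152) (nat_lit 134035460634) (nat_lit 0) (nat_lit 81041002448) (nat_lit 74) (nat_lit 5) (nat_lit 76) (nat_lit 4) (nat_lit 74) (nat_lit 4) (nat_lit 493) (nat_lit 312) (nat_lit 215))) (XT.nd (nat_lit 78) (nat_lit 0) (nat_lit 0) (XT.lf (nat_lit 0) (nat_lit 67216225261) (nat_lit 76) (nat_lit 120211052264) (nat_lit 76) (nat_lit 119338610697) (nat_lit 73) (nat_lit 4) (nat_lit 74) (nat_lit 5) (nat_lit 74) (nat_lit 4) (nat_lit 494) (nat_lit 312) (nat_lit 214)) (XT.lf (nat_lit 0) (nat_lit 283012839559) (nat_lit 76) (nat_lit 17390842168)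 (nat_lit 76) (nat_lit 16518049345) (nat_lit 73) (nat_lit 4) (nat_lit 74) (nat_lit 5) (nat_lit 74) (nat_lit 4) (nat_lit 495) (nat_lit 312) (nat_lit 213)))) (XT.nd (nat_lit 156) (nat_lit 228) (nat_lit 0) (XT.nd (nat_lit 78) (nat_lit 76) (nat_lit 0) (XT.lf (nat_lit 0) (nat_lit 3021532554) (nat_lit 152) (nat_lit 1627807682) (nat_lit 0) (nat_lit 3021532554) (nat_lit 188) (nat_lit 5) (nat_lit 190) (nat_lit 4) (nat_lit 188) (nat_lit 4) (nat_lit 394) (nat_lit 313) (nat_lit 313)) (XT.lf (nat_lit 0) (nat_lit 12065767754) (nat_lit 76) (nat_lit 1962533222) (nat_lit 76) (nat_lit 1681630356) (nat_lit 187) (nat_lit 4) (nat_lit 188) (nat_lit 5) (nat_lit 188) (nat_lit 4) (nat_lit 395) (nat_lit 313) (nat_lit 312))) (XT.nd (nat_lit 78) (nat_lit 76) (nat_lit 0) (XT.lf (nat_lit 0) (nat_lit 6191138739) (nat_lit 152) (nat_lit 4227780543) (nat_lit 0) (nat_lit 5668825019) (nat_lit 185) (nat_lit 5) (nat_lit 187) (nat_lit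 4) (nat_lit 185) (nat_lit 4) (nat_lit 396) (nat_lit 313) (nat_lit 311)) (XT.lf (nat_lit 0) (nat_lit 11594297330) (nat_lit 76) (nat_lit 2826379092) (nat_lit 76) (nat_lit 2061410914) (nat_lit 184) (nat_lit 4) (nat_lit 185) (nat_lit 5) (nat_lit 185) (nat_lit 4) (nat_lit 397) (nat_lit 313) (nat_lit 310))))) (XT.nd (nat_lit 312) (nat_lit 456) (nat_lit 0) (XT.nd (nat_lit 156) (nat_lit 228) (nat_lit 0) (XT.nd (nat_lit 78) (nat_lit 76) (nat_lit 0) (XT.lf (nat_lit 0) (nat_lit 6042467841) (nat_lit 152) (nat_lit 5751321624) (nat_lit 0) (nat_lit 5093831973) (nat_lit 182) (nat_lit 5) (nat_lit 184) (nat_lit 4) (nat_lit 182) (nat_lit 4) (nat_lit 398) (nat_lit 313) (nat_lit 309)) (XT.lf (nat_lit 0) (nat_lit 10577450217) (nat_lit 76) (nat_lit 3945259965) (nat_lit 76) (nat_lit 2787010053) (nat_lit 181) (nat_lit 4) (nat_lit 182) (nat_lit 5) (nat_lit 182) (nat_lit 4) (nat_lit 399) (nat_lit 313) (nat_lit 308))) (XT.nd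 (nat_lit 78) (nat_lit 76) (nat_lit 0) (XT.lf (nat_lit 0) (nat_lit 5559973797) (nat_lit 152) (nat_lit 7918391373) (nat_lit 0) (nat_lit 4266752525) (nat_lit 179) (nat_lit 5) (nat_lit 181) (nat_lit 4) (nat_lit 179) (nat_lit 4) (nat_lit 400) (nat_lit 313) (nat_lit 307)) (XT.lf (nat_lit 0) (nat_lit 8921566566) (nat_lit 76) (nat_lit 5374722788) (nat_lit 76) (nat_lit 3900429024) (nat_lit 178) (nat_lit 4) (nat_lit 179) (nat_lit 5) (nat_lit 179) (nat_lit 4) (nat_lit 401) (nat_lit 313) (nat_lit 306)))) (XT.nd (nat_lit 156) (nat_lit 228) (nat_lit 0) (XT.nd (nat_lit 78) (nat_lit 76) (nat_lit 0) (XT.lf (nat_lit 0) (nat_lit 4700982885) (nat_lit 152) (nat_lit 10830712594) (nat_lit 0) (nat_lit 3132655498) (nat_lit 176) (nat_lit 5) (nat_lit 178) (nat_lit 4) (nat_lit 176) (nat_lit 4) (nat_lit 402) (nat_lit 313) (nat_lit 305)) (XT.lf (nat_lit 0) (nat_lit 6523132334) (nat_lit 76) (nat_lit 7174484424) (nat_lit 76)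 (nat_lit 5449739810) (nat_lit 175) (nat_lit 4) (nat_lit 176) (nat_lit 5) (nat_lit 176) (nat_lit 4) (nat_lit 403) (nat_lit 313) (nat_lit 304))) (XT.nd (nat_lit 78) (nat_lit 76) (nat_lit 0) (XT.lf (nat_lit 0) (nat_lit 3416773712) (nat_lit 152) (nat_lit 14600785275) (nat_lit 0) (nat_lit 1632284758) (nat_lit 173) (nat_lit 5) (nat_lit 175) (nat_lit 4) (nat_lit 173) (nat_lit 4) (nat_lit 404) (nat_lit 313) (nat_lit 303)) (XT.lf (nat_lit 0) (nat_lit 3267539943) (nat_lit 76) (nat_lit 9409196426) (nat_lit 76) (nat_lit 7489588391) (nat_lit 172) (nat_lit 4) (nat_lit 173) (nat_lit 5) (nat_lit 173) (nat_lit 4) (nat_lit 405) (nat_lit 313) (nat_lit 302)))))) (XT.nd (nat_lit 624) (nat_lit 684) (nat_lit 0) (XT.nd (nat_lit 312) (nat_lit 456) (nat_lit 0) (XT.nd (nat_lit 156) (nat_lit 228) (nat_lit 0) (XT.nd (nat_lit 78) (nat_lit 0) (nat_lit 0) (XT.lf (nat_lit 0) (nat_lit 1348296377) (nat_lit 76) (nat_lit 308576428)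 (nat_lit 152) (nat_lit 19049440396) (nat_lit 170) (nat_lit 5) (nat_lit 171) (nat_lit 5) (nat_lit 172) (nat_lit 4) (nat_lit 406) (nat_lit 313) (nat_lit 301)) (XT.lf (nat_lit 0) (nat_lit 11192167827) (nat_lit 152) (nat_lit 941141963) (nat_lit 0) (nat_lit 9124691765) (nat_lit 170) (nat_lit 5) (nat_lit 172) (nat_lit 4) (nat_lit 170) (nat_lit 4) (nat_lit 407) (nat_lit 313) (nat_lit 300))) (XT.nd (nat_lit 78) (nat_lit 152) (nat_lit 0) (XT.lf (nat_lit 0) (nat_lit 18503040260) (nat_lit 76) (nat_lit 2755088926) (nat_lit 76) (nat_lit 576450061) (nat_lit 169) (nat_lit 4) (nat_lit 170) (nat_lit 5) (nat_lit 170) (nat_lit 4) (nat_lit 408) (nat_lit 313) (nat_lit 299)) (XT.lf (nat_lit 0) (nat_lit 9233329458) (nat_lit 152) (nat_lit 6134401713) (nat_lit 0) (nat_lit 7057607361) (nat_lit 167) (nat_lit 5) (nat_lit 169) (nat_lit 4) (nat_lit 167) (nat_lit 4) (nat_lit 409) (nat_lit 313) (nat_lit 298)))) (XT.nd (nat_lit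 156) (nat_lit 228) (nat_lit 0) (XT.nd (nat_lit 78) (nat_lit 152) (nat_lit 0) (XT.lf (nat_lit 0) (nat_lit 13874723405) (nat_lit 76) (nat_lit 5719104235) (nat_lit 76) (nat_lit 3447355530) (nat_lit 166) (nat_lit 4) (nat_lit 167) (nat_lit 5) (nat_lit 167) (nat_lit 4) (nat_lit 410) (nat_lit 313) (nat_lit 297)) (XT.lf (nat_lit 0) (nat_lit 6679639073) (nat_lit 152) (nat_lit 12568301993) (nat_lit 0) (nat_lit 4428969912) (nat_lit 164) (nat_lit 5) (nat_lit 166) (nat_lit 4) (nat_lit 164) (nat_lit 4) (nat_lit 411) (nat_lit 313) (nat_lit 296))) (XT.nd (nat_lit 78) (nat_lit 152) (nat_lit 0) (XT.lf (nat_lit 0) (nat_lit 8000623205) (nat_lit 76) (nat_lit 9333864462) (nat_lit 76) (nat_lit 7000243906) (nat_lit 163) (nat_lit 4) (nat_lit 164) (nat_lit 5) (nat_lit 164) (nat_lit 4) (nat_lit 412) (nat_lit 313) (nat_lit 295)) (XT.lf (nat_lit 0) (nat_lit 3452986477) (nat_lit 152) (nat_lit 20411062501) (nat_lit 0) (nat_lit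 1155251349) (nat_lit 161) (nat_lit 5) (nat_lit 163) (nat_lit 4) (nat_lit 161) (nat_lit 4) (nat_lit 413) (nat_lit 313) (nat_lit 294))))) (XT.nd (nat_lit 312) (nat_lit 380) (nat_lit 0) (XT.nd (nat_lit 156) (nat_lit 228) (nat_lit 0) (XT.nd (nat_lit 78) (nat_lit 0) (nat_lit 0) (XT.lf (nat_lit 0) (nat_lit 708881731) (nat_lit 76) (nat_lit 13691271547) (nat_lit 76) (nat_lit 11321879886) (nat_lit 160) (nat_lit 4) (nat_lit 161) (nat_lit 5) (nat_lit 161) (nat_lit 4) (nat_lit 414) (nat_lit 313) (nat_lit 293)) (XT.lf (nat_lit 0) (nat_lit 23119205400) (nat_lit 76) (nat_lit 2886393596) (nat_lit 76) (nat_lit 448757617) (nat_lit 160) (nat_lit 4) (nat_lit 161) (nat_lit 5) (nat_lit 161) (nat_lit 4) (nat_lit 415) (nat_lit 313) (nat_lit 292))) (XT.nd (nat_lit 78) (nat_lit 76) (nat_lit 0) (XT.lf (nat_lit 0) (nat_lit 10829125562) (nat_lit 152) (nat_lit 7929333220) (nat_lit 0) (nat_lit 8445667878) (nat_lit 158) (nat_lit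 5) (nat_lit 160) (nat_lit 4) (nat_lit 158) (nat_lit 4) (nat_lit 416) (nat_lit 313) (nat_lit 291)) (XT.lf (nat_lit 0) (nat_lit 15111136034) (nat_lit 76) (nat_lit 7658305033) (nat_lit 76) (nat_lit 5215895341) (nat_lit 157) (nat_lit 4) (nat_lit 158) (nat_lit 5) (nat_lit 158) (nat_lit 4) (nat_lit 417) (nat_lit 313) (nat_lit 290)))) (XT.nd (nat_lit 156) (nat_lit 152) (nat_lit 0) (XT.nd (nat_lit 78) (nat_lit 76) (nat_lit 0) (XT.lf (nat_lit 0) (nat_lit 6432799061) (nat_lit 152) (nat_lit 18307523563) (nat_lit 0) (nat_lit 4053223384) (nat_lit 155) (nat_lit 5) (nat_lit 157) (nat_lit 4) (nat_lit 155) (nat_lit 4) (nat_lit 418) (nat_lit 313) (nat_lit 289)) (XT.lf (nat_lit 0) (nat_lit 5326151332) (nat_lit 76) (nat_lit 13366031463) (nat_lit 76) (nat_lit 10935530825) (nat_lit 154) (nat_lit 4) (nat_lit 155) (nat_lit 5) (nat_lit 155) (nat_lit 4) (nat_lit 419) (nat_lit 313) (nat_lit 288))) (XT.nd (nat_lit 78) (nat_lit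 76) (nat_lit 0) (XT.lf (nat_lit 0) (nat_lit 1115435877) (nat_lit 152) (nat_lit 192357052) (nat_lit 76) (nat_lit 29190546133) (nat_lit 153) (nat_lit 5) (nat_lit 155) (nat_lit 5) (nat_lit 154) (nat_lit 4) (nat_lit 420) (nat_lit 313) (nat_lit 287)) (XT.lf (nat_lit 0) (nat_lit 13764012927) (nat_lit 152) (nat_lit 6262321844) (nat_lit 0) (nat_lit 11359069077) (nat_lit 152) (nat_lit 5) (nat_lit 154) (nat_lit 4) (nat_lit 152) (nat_lit 4) (nat_lit 421) (nat_lit 313) (nat_lit 286))))))))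
noncomputable def xc56 : XT := (XT.nd (nat_lit 2496) (nat_lit 2508) (nat_lit 0) (XT.nd (nat_lit 1248) (nat_lit 1292) (nat_lit 0) (XT.nd (nat_lit 624) (nat_lit 684) (nat_lit 0) (XT.nd (nat_lit 312) (nat_lit 380) (nat_lit 0) (XT.nd (nat_lit 156) (nat_lit 152) (nat_lit 0) (XT.nd (nat_lit 78) (nat_lit 152) (nat_lit 0) (XT.lf (nat_lit 0) (nat_lit 19560909833) (nat_lit 76) (nat_lit 7598515819) (nat_lit 76) (nat_lit 5151675879) (nat_lit 151) (nat_lit 4) (nat_lit 152) (nat_lit 5) (nat_lit 152) (nat_lit 4) (nat_lit 422) (nat_lit 313) (nat_lit 285)) (XT.lf (nat_lit 0) (nat_lit 7878845479) (nat_lit 152) (nat_lit 19877943464) (nat_lit 0) (nat_lit 5510520736) (nat_lit 149) (nat_lit 5) (nat_lit 151) (nat_lit 4) (nat_lit 149) (nat_lit 4) (nat_lit 423) (nat_lit 313) (nat_lit 284))) (XT.nd (nat_lit 78) (nat_lit 76) (nat_lit 0) (XT.lf (nat_lit 0) (nat_lit 6577827621) (nat_lit 76) (nat_lit 15041117487) (nat_lit 76)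 (nat_lit 12636601326) (nat_lit 148) (nat_lit 4) (nat_lit 149) (nat_lit 5) (nat_lit 149) (nat_lit 4) (nat_lit 424) (nat_lit 313) (nat_lit 283)) (XT.lf (nat_lit 0) (nat_lit 855425504) (nat_lit 152) (nat_lit 685361895) (nat_lit 76) (nat_lit 33745486576) (nat_lit 147) (nat_lit 5) (nat_lit 149) (nat_lit 5) (nat_lit 148) (nat_lit 4) (nat_lit 425) (nat_lit 313) (nat_lit 282)))) (XT.nd (nat_lit 156) (nat_lit 228) (nat_lit 0) (XT.nd (nat_lit 78) (nat_lit 76) (nat_lit 0) (XT.lf (nat_lit 0) (nat_lit 15032642216) (nat_lit 152) (nat_lit 8625238114) (nat_lit 0) (nat_lit 12678536632) (nat_lit 146) (nat_lit 5) (nat_lit 148) (nat_lit 4) (nat_lit 146) (nat_lit 4) (nat_lit 426) (nat_lit 313) (nat_lit 281)) (XT.lf (nat_lit 0) (nat_lit 20320316948) (nat_lit 76) (nat_lit 9747585681) (nat_lit 76) (nat_lit 7363705327) (nat_lit 145) (nat_lit 4) (nat_lit 146) (nat_lit 5) (nat_lit 146) (nat_lit 4) (nat_lit 427) (nat_lit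 313) (nat_lit 280))) (XT.nd (nat_lit 78) (nat_lit 76) (nat_lit 0) (XT.lf (nat_lit 0) (nat_lit 7255950278) (nat_lit 152) (nat_lit 26350580101) (nat_lit 0) (nat_lit 4958581442) (nat_lit 143) (nat_lit 5) (nat_lit 145) (nat_lit 4) (nat_lit 143) (nat_lit 4) (nat_lit 428) (nat_lit 313) (nat_lit 279)) (XT.lf (nat_lit 0) (nat_lit 3261430700) (nat_lit 76) (nat_lit 19397950350) (nat_lit 76) (nat_lit 17074860948) (nat_lit 142) (nat_lit 4) (nat_lit 143) (nat_lit 5) (nat_lit 143) (nat_lit 4) (nat_lit 429) (nat_lit 313) (nat_lit 278))))) (XT.nd (nat_lit 312) (nat_lit 304) (nat_lit 0) (XT.nd (nat_lit 156) (nat_lit 228) (nat_lit 0) (XT.nd (nat_lit 78) (nat_lit 152) (nat_lit 0) (XT.lf (nat_lit 0) (nat_lit 34858008835) (nat_lit 76) (nat_lit 4219587197) (nat_lit 76) (nat_lit 1872002018) (nat_lit 142) (nat_lit 4) (nat_lit 143) (nat_lit 5) (nat_lit 143) (nat_lit 4) (nat_lit 430) (nat_lit 313) (nat_lit 277)) (XT.lf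 (nat_lit 0) (nat_lit 14041162940) (nat_lit 152) (nat_lit 16370351670) (nat_lit 0) (nat_lit 11783149140) (nat_lit 140) (nat_lit 5) (nat_lit 142) (nat_lit 4) (nat_lit 140) (nat_lit 4) (nat_lit 431) (nat_lit 313) (nat_lit 276))) (XT.nd (nat_lit 78) (nat_lit 152) (nat_lit 0) (XT.lf (nat_lit 0) (nat_lit 16065484983) (nat_lit 76) (nat_lit 14851325355) (nat_lit 76) (nat_lit 12572151183) (nat_lit 139) (nat_lit 4) (nat_lit 140) (nat_lit 5) (nat_lit 140) (nat_lit 4) (nat_lit 432) (nat_lit 313) (nat_lit 275)) (XT.lf (nat_lit 0) (nat_lit 3867809052) (nat_lit 152) (nat_lit 39289194392) (nat_lit 0) (nat_lit 1677973900) (nat_lit 137) (nat_lit 5) (nat_lit 139) (nat_lit 4) (nat_lit 137) (nat_lit 4) (nat_lit 433) (nat_lit 313) (nat_lit 274)))) (XT.nd (nat_lit 156) (nat_lit 228) (nat_lit 0) (XT.nd (nat_lit 78) (nat_lit 76) (nat_lit 0) (XT.lf (nat_lit 0) (nat_lit 21227744912) (nat_lit 152) (nat_lit 5964589153) (nat_lit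 0) (nat_lit 19019630634) (nat_lit 137) (nat_lit 5) (nat_lit 139) (nat_lit 4) (nat_lit 137) (nat_lit 4) (nat_lit 434) (nat_lit 313) (nat_lit 273)) (XT.lf (nat_lit 0) (nat_lit 29594478782) (nat_lit 76) (nat_lit 10137514901) (nat_lit 76) (nat_lit 7911991933) (nat_lit 136) (nat_lit 4) (nat_lit 137) (nat_lit 5) (nat_lit 137) (nat_lit 4) (nat_lit 435) (nat_lit 313) (nat_lit 272))) (XT.nd (nat_lit 78) (nat_lit 76) (nat_lit 0) (XT.lf (nat_lit 0) (nat_lit 10019055860) (nat_lit 152) (nat_lit 31220728818) (nat_lit 0) (nat_lit 7883719979) (nat_lit 134) (nat_lit 5) (nat_lit 136) (nat_lit 4) (nat_lit 134) (nat_lit 4) (nat_lit 436) (nat_lit 313) (nat_lit 271)) (XT.lf (nat_lit 0) (nat_lit 5100895458) (nat_lit 76) (nat_lit 23850725076) (nat_lit 76) (nat_lit 21700350913) (nat_lit 133) (nat_lit 4) (nat_lit 134) (nat_lit 5) (nat_lit 134) (nat_lit 4) (nat_lit 437) (nat_lit 313) (nat_lit 270)))))) (XT.nd (nat_lit 624)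 (nat_lit 684) (nat_lit 0) (XT.nd (nat_lit 312) (nat_lit 228) (nat_lit 0) (XT.nd (nat_lit 156) (nat_lit 228) (nat_lit 0) (XT.nd (nat_lit 78) (nat_lit 152) (nat_lit 0) (XT.lf (nat_lit 0) (nat_lit 43949572581) (nat_lit 76) (nat_lit 5227340182) (nat_lit 76) (nat_lit 3062643846) (nat_lit 133) (nat_lit 4) (nat_lit 134) (nat_lit 5) (nat_lit 134) (nat_lit 4) (nat_lit 438) (nat_lit 313) (nat_lit 269)) (XT.lf (nat_lit 0) (nat_lit 16522201009) (nat_lit 152) (nat_lit 22896660323) (nat_lit 0) (nat_lit 14447594817) (nat_lit 131) (nat_lit 5) (nat_lit 133) (nat_lit 4) (nat_lit 131) (nat_lit 4) (nat_lit 439) (nat_lit 313) (nat_lit 268))) (XT.nd (nat_lit 78) (nat_lit 152) (nat_lit 0) (XT.lf (nat_lit 0) (nat_lit 16956121474) (nat_lit 76) (nat_lit 20343614214) (nat_lit 76) (nat_lit 18256635991) (nat_lit 130) (nat_lit 4) (nat_lit 131) (nat_lit 5) (nat_lit 131) (nat_lit 4) (nat_lit 440) (nat_lit 313) (nat_lit 267))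 (XT.lf (nat_lit 0) (nat_lit 1952229758) (nat_lit 76) (nat_lit 23863348) (nat_lit 152) (nat_lit 55340902562) (nat_lit 128) (nat_lit 5) (nat_lit 129) (nat_lit 5) (nat_lit 130) (nat_lit 4) (nat_lit 441) (nat_lit 313) (nat_lit 266)))) (XT.nd (nat_lit 156) (nat_lit 152) (nat_lit 0) (XT.nd (nat_lit 78) (nat_lit 76) (nat_lit 0) (XT.lf (nat_lit 0) (nat_lit 23427390594) (nat_lit 152) (nat_lit 14264389014) (nat_lit 0) (nat_lit 21417883062) (nat_lit 128) (nat_lit 5) (nat_lit 130) (nat_lit 4) (nat_lit 128) (nat_lit 4) (nat_lit 442) (nat_lit 313) (nat_lit 265)) (XT.lf (nat_lit 0) (nat_lit 29490567116) (nat_lit 76) (nat_lit 16753227430) (nat_lit 76) (nat_lit 14733541396) (nat_lit 127) (nat_lit 4) (nat_lit 128) (nat_lit 5) (nat_lit 128) (nat_lit 4) (nat_lit 443) (nat_lit 313) (nat_lit 264))) (XT.nd (nat_lit 78) (nat_lit 0) (nat_lit 0) (XT.lf (nat_lit 0) (nat_lit 7397866811) (nat_lit 152) (nat_lit 50051347949)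 (nat_lit 0) (nat_lit 5465124102) (nat_lit 125) (nat_lit 5) (nat_lit 127) (nat_lit 4) (nat_lit 125) (nat_lit 4) (nat_lit 444) (nat_lit 313) (nat_lit 263)) (XT.lf (nat_lit 0) (nat_lit 30789096826) (nat_lit 152) (nat_lit 5267037132) (nat_lit 0) (nat_lit 28847561546) (nat_lit 125) (nat_lit 5) (nat_lit 127) (nat_lit 4) (nat_lit 125) (nat_lit 4) (nat_lit 445) (nat_lit 313) (nat_lit 262))))) (XT.nd (nat_lit 312) (nat_lit 380) (nat_lit 0) (XT.nd (nat_lit 156) (nat_lit 76) (nat_lit 0) (XT.nd (nat_lit 78) (nat_lit 152) (nat_lit 0) (XT.lf (nat_lit 0) (nat_lit 42798718051) (nat_lit 76) (nat_lit 13059155903) (nat_lit 76) (nat_lit 11109246744) (nat_lit 124) (nat_lit 4) (nat_lit 125) (nat_lit 5) (nat_lit 125) (nat_lit 4) (nat_lit 446) (nat_lit 313) (nat_lit 261)) (XT.lf (nat_lit 0) (nat_lit 13124559081) (nat_lit 152) (nat_lit 44714278580) (nat_lit 0) (nat_lit 11259907384) (nat_lit 122) (nat_lit 5) (nat_lit 124)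 (nat_lit 4) (nat_lit 122) (nat_lit 4) (nat_lit 447) (nat_lit 313) (nat_lit 260))) (XT.nd (nat_lit 78) (nat_lit 0) (nat_lit 0) (XT.lf (nat_lit 0) (nat_lit 4294466757) (nat_lit 76) (nat_lit 34439207573) (nat_lit 76) (nat_lit 32567322206) (nat_lit 121) (nat_lit 4) (nat_lit 122) (nat_lit 5) (nat_lit 122) (nat_lit 4) (nat_lit 448) (nat_lit 313) (nat_lit 259)) (XT.lf (nat_lit 0) (nat_lit 56983676842) (nat_lit 76) (nat_lit 9239237445) (nat_lit 76) (nat_lit 7360462867) (nat_lit 121) (nat_lit 4) (nat_lit 122) (nat_lit 5) (nat_lit 122) (nat_lit 4) (nat_lit 449) (nat_lit 313) (nat_lit 258)))) (XT.nd (nat_lit 156) (nat_lit 152) (nat_lit 0) (XT.nd (nat_lit 78) (nat_lit 76) (nat_lit 0) (XT.lf (nat_lit 0) (nat_lit 19199449731) (nat_lit 152) (nat_lit 39326407427) (nat_lit 0) (nat_lit 17403891893) (nat_lit 119) (nat_lit 5) (nat_lit 121) (nat_lit 4) (nat_lit 119) (nat_lit 4) (nat_lit 450) (nat_lit 313) (nat_lit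 257)) (XT.lf (nat_lit 0) (nat_lit 14540027717) (nat_lit 76) (nat_lit 32811651794) (nat_lit 76) (nat_lit 31010142797) (nat_lit 118) (nat_lit 4) (nat_lit 119) (nat_lit 5) (nat_lit 119) (nat_lit 4) (nat_lit 451) (nat_lit 313) (nat_lit 256))) (XT.nd (nat_lit 78) (nat_lit 152) (nat_lit 0) (XT.lf (nat_lit 0) (nat_lit 72158076425) (nat_lit 76) (nat_lit 5269400872) (nat_lit 76) (nat_lit 3462224105) (nat_lit 118) (nat_lit 4) (nat_lit 119) (nat_lit 5) (nat_lit 119) (nat_lit 4) (nat_lit 452) (nat_lit 313) (nat_lit 255)) (XT.lf (nat_lit 0) (nat_lit 25669989382) (nat_lit 152) (nat_lit 33859285905) (nat_lit 0) (nat_lit 23943727816) (nat_lit 116) (nat_lit 5) (nat_lit 118) (nat_lit 4) (nat_lit 116) (nat_lit 4) (nat_lit 453) (nat_lit 313) (nat_lit 254))))))) (XT.nd (nat_lit 1248) (nat_lit 1292) (nat_lit 0) (XT.nd (nat_lit 624) (nat_lit 532) (nat_lit 0) (XT.nd (nat_lit 312) (nat_lit 380) (nat_lit 0) (XT.nd (nat_lit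 156) (nat_lit 152) (nat_lit 0) (XT.nd (nat_lit 78) (nat_lit 76) (nat_lit 0) (XT.lf (nat_lit 0) (nat_lit 25370613894) (nat_lit 76) (nat_lit 31259399032) (nat_lit 76) (nat_lit 29528241433) (nat_lit 115) (nat_lit 4) (nat_lit 116) (nat_lit 5) (nat_lit 116) (nat_lit 4) (nat_lit 454) (nat_lit 313) (nat_lit 253)) (XT.lf (nat_lit 0) (nat_lit 592735801) (nat_lit 152) (nat_lit 520712093) (nat_lit 76) (nat_lit 87842315373) (nat_lit 114) (nat_lit 5) (nat_lit 116) (nat_lit 5) (nat_lit 115) (nat_lit 4) (nat_lit 455) (nat_lit 313) (nat_lit 252))) (XT.nd (nat_lit 78) (nat_lit 76) (nat_lit 0) (XT.lf (nat_lit 0) (nat_lit 32587863279) (nat_lit 152) (nat_lit 28282587137) (nat_lit 0) (nat_lit 30930471532) (nat_lit 113) (nat_lit 5) (nat_lit 115) (nat_lit 4) (nat_lit 113) (nat_lit 4) (nat_lit 456) (nat_lit 313) (nat_lit 251)) (XT.lf (nat_lit 0) (nat_lit 36868024890) (nat_lit 76) (nat_lit 29779253419) (nat_lit 76) (nat_lit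 28117833694) (nat_lit 112) (nat_lit 4) (nat_lit 113) (nat_lit 5) (nat_lit 113) (nat_lit 4) (nat_lit 457) (nat_lit 313) (nat_lit 250)))) (XT.nd (nat_lit 156) (nat_lit 228) (nat_lit 0) (XT.nd (nat_lit 78) (nat_lit 0) (nat_lit 0) (XT.lf (nat_lit 0) (nat_lit 4919118032) (nat_lit 152) (nat_lit 89595094379) (nat_lit 0) (nat_lit 3333160037) (nat_lit 110) (nat_lit 5) (nat_lit 112) (nat_lit 4) (nat_lit 110) (nat_lit 4) (nat_lit 458) (nat_lit 313) (nat_lit 249)) (XT.lf (nat_lit 0) (nat_lit 40009467541) (nat_lit 152) (nat_lit 22563876254) (nat_lit 0) (nat_lit 38420030026) (nat_lit 110) (nat_lit 5) (nat_lit 112) (nat_lit 4) (nat_lit 110) (nat_lit 4) (nat_lit 459) (nat_lit 313) (nat_lit 248))) (XT.nd (nat_lit 78) (nat_lit 152) (nat_lit 0) (XT.lf (nat_lit 0) (nat_lit 49121460921) (nat_lit 76) (nat_lit 28368102129) (nat_lit 76) (nat_lit 26775350786) (nat_lit 109) (nat_lit 4) (nat_lit 110) (nat_lit 5) (nat_lit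 110) (nat_lit 4) (nat_lit 460) (nat_lit 313) (nat_lit 247)) (XT.lf (nat_lit 0) (nat_lit 9511989083) (nat_lit 152) (nat_lit 90155776081) (nat_lit 0) (nat_lit 7992077303) (nat_lit 107) (nat_lit 5) (nat_lit 109) (nat_lit 4) (nat_lit 107) (nat_lit 4) (nat_lit 461) (nat_lit 313) (nat_lit 246))))) (XT.nd (nat_lit 312) (nat_lit 304) (nat_lit 0) (XT.nd (nat_lit 156) (nat_lit 152) (nat_lit 0) (XT.nd (nat_lit 78) (nat_lit 76) (nat_lit 0) (XT.lf (nat_lit 0) (nat_lit 47996430043) (nat_lit 152) (nat_lit 16668356753) (nat_lit 0) (nat_lit 46473655653) (nat_lit 107) (nat_lit 5) (nat_lit 109) (nat_lit 4) (nat_lit 107) (nat_lit 4) (nat_lit 462) (nat_lit 313) (nat_lit 245)) (XT.lf (nat_lit 0) (nat_lit 62228318313) (nat_lit 76) (nat_lit 27022923677) (nat_lit 76) (nat_lit 25497422993) (nat_lit 106) (nat_lit 4) (nat_lit 107) (nat_lit 5) (nat_lit 107) (nat_lit 4) (nat_lit 463) (nat_lit 313) (nat_lit 244))) (XT.nd (nat_lit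 78) (nat_lit 0) (nat_lit 0) (XT.lf (nat_lit 0) (nat_lit 14380061991) (nat_lit 152) (nat_lit 91183668656) (nat_lit 0) (nat_lit 12924731368) (nat_lit 104) (nat_lit 5) (nat_lit 106) (nat_lit 4) (nat_lit 104) (nat_lit 4) (nat_lit 464) (nat_lit 313) (nat_lit 243)) (XT.lf (nat_lit 0) (nat_lit 56616181091) (nat_lit 152) (nat_lit 10558590864) (nat_lit 0) (nat_lit 55158495392) (nat_lit 104) (nat_lit 5) (nat_lit 106) (nat_lit 4) (nat_lit 104) (nat_lit 4) (nat_lit 465) (nat_lit 313) (nat_lit 242)))) (XT.nd (nat_lit 156) (nat_lit 76) (nat_lit 0) (XT.nd (nat_lit 78) (nat_lit 152) (nat_lit 0) (XT.lf (nat_lit 0) (nat_lit 76295066548) (nat_lit 76) (nat_lit 25740793662) (nat_lit 76) (nat_lit 24280865033) (nat_lit 103) (nat_lit 4) (nat_lit 104) (nat_lit 5) (nat_lit 104) (nat_lit 4) (nat_lit 466) (nat_lit 313) (nat_lit 241)) (XT.lf (nat_lit 0) (nat_lit 19561011799) (nat_lit 152) (nat_lit 92707303860) (nat_lit 0)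 (nat_lit 18168569178) (nat_lit 101) (nat_lit 5) (nat_lit 103) (nat_lit 4) (nat_lit 101) (nat_lit 4) (nat_lit 467) (nat_lit 313) (nat_lit 240))) (XT.nd (nat_lit 78) (nat_lit 76) (nat_lit 0) (XT.lf (nat_lit 0) (nat_lit 65942579487) (nat_lit 152) (nat_lit 4194191571) (nat_lit 0) (nat_lit 64548199340) (nat_lit 101) (nat_lit 5) (nat_lit 103) (nat_lit 4) (nat_lit 101) (nat_lit 4) (nat_lit 468) (nat_lit 313) (nat_lit 239)) (XT.lf (nat_lit 0) (nat_lit 91438214886) (nat_lit 76) (nat_lit 24518888436) (nat_lit 76) (nat_lit 23122663025) (nat_lit 100) (nat_lit 4) (nat_lit 101) (nat_lit 5) (nat_lit 101) (nat_lit 4) (nat_lit 469) (nat_lit 313) (nat_lit 238)))))) (XT.nd (nat_lit 624) (nat_lit 608) (nat_lit 0) (XT.nd (nat_lit 312) (nat_lit 304) (nat_lit 0) (XT.nd (nat_lit 156) (nat_lit 152) (nat_lit 0) (XT.nd (nat_lit 78) (nat_lit 76) (nat_lit 0) (XT.lf (nat_lit 0) (nat_lit 25095897113) (nat_lit 152) (nat_lit 94759032410)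 (nat_lit 0) (nat_lit 23764484919) (nat_lit 98) (nat_lit 5) (nat_lit 100) (nat_lit 4) (nat_lit 98) (nat_lit 4) (nat_lit 470) (nat_lit 313) (nat_lit 237)) (XT.lf (nat_lit 0) (nat_lit 2550136670) (nat_lit 76) (nat_lit 73546278169) (nat_lit 76) (nat_lit 72213271966) (nat_lit 97) (nat_lit 4) (nat_lit 98) (nat_lit 5) (nat_lit 98) (nat_lit 4) (nat_lit 471) (nat_lit 313) (nat_lit 236))) (XT.nd (nat_lit 78) (nat_lit 152) (nat_lit 0) (XT.lf (nat_lit 0) (nat_lit 107785377510) (nat_lit 76) (nat_lit 23354487136) (nat_lit 76) (nat_lit 22019962831) (nat_lit 97) (nat_lit 4) (nat_lit 98) (nat_lit 5) (nat_lit 98) (nat_lit 4) (nat_lit 472) (nat_lit 313) (nat_lit 235)) (XT.lf (nat_lit 0) (nat_lit 31029534535) (nat_lit 152) (nat_lit 97375377675) (nat_lit 0) (nat_lit 29757182042) (nat_lit 95) (nat_lit 5) (nat_lit 97) (nat_lit 4) (nat_lit 95) (nat_lit 4) (nat_lit 473) (nat_lit 313) (nat_lit 234)))) (XT.nd (nat_lit 156)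 (nat_lit 228) (nat_lit 0) (XT.nd (nat_lit 78) (nat_lit 0) (nat_lit 0) (XT.lf (nat_lit 0) (nat_lit 9790217510) (nat_lit 76) (nat_lit 77409724537) (nat_lit 76) (nat_lit 76136060650) (nat_lit 94) (nat_lit 4) (nat_lit 95) (nat_lit 5) (nat_lit 95) (nat_lit 4) (nat_lit 474) (nat_lit 313) (nat_lit 233)) (XT.lf (nat_lit 0) (nat_lit 125476447113) (nat_lit 76) (nat_lit 22244972402) (nat_lit 76) (nat_lit 20970059569) (nat_lit 94) (nat_lit 4) (nat_lit 95) (nat_lit 5) (nat_lit 95) (nat_lit 4) (nat_lit 475) (nat_lit 313) (nat_lit 232))) (XT.nd (nat_lit 78) (nat_lit 76) (nat_lit 0) (XT.lf (nat_lit 0) (nat_lit 37410909290) (nat_lit 152) (nat_lit 100597426565) (nat_lit 0) (nat_lit 36195573759) (nat_lit 92) (nat_lit 5) (nat_lit 94) (nat_lit 4) (nat_lit 92) (nat_lit 4) (nat_lit 476) (nat_lit 313) (nat_lit 231)) (XT.lf (nat_lit 0) (nat_lit 17440479774) (nat_lit 76) (nat_lit 81843411467) (nat_lit 76) (nat_lit 80626997049)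 (nat_lit 91) (nat_lit 4) (nat_lit 92) (nat_lit 5) (nat_lit 92) (nat_lit 4) (nat_lit 477) (nat_lit 313) (nat_lit 230))))) (XT.nd (nat_lit 312) (nat_lit 380) (nat_lit 0) (XT.nd (nat_lit 156) (nat_lit 76) (nat_lit 0) (XT.nd (nat_lit 78) (nat_lit 152) (nat_lit 0) (XT.lf (nat_lit 0) (nat_lit 144664887897) (nat_lit 76) (nat_lit 21187830074) (nat_lit 76) (nat_lit 19970388145) (nat_lit 91) (nat_lit 4) (nat_lit 92) (nat_lit 5) (nat_lit 92) (nat_lit 4) (nat_lit 478) (nat_lit 313) (nat_lit 229)) (XT.lf (nat_lit 0) (nat_lit 44293626033) (nat_lit 152) (nat_lit 104471261534) (nat_lit 0) (nat_lit 43133225546) (nat_lit 89) (nat_lit 5) (nat_lit 91) (nat_lit 4) (nat_lit 89) (nat_lit 4) (nat_lit 479) (nat_lit 313) (nat_lit 228))) (XT.nd (nat_lit 78) (nat_lit 0) (nat_lit 0) (XT.lf (nat_lit 0) (nat_lit 25558703633) (nat_lit 76) (nat_lit 86897627225) (nat_lit 76) (nat_lit 85736339134) (nat_lit 88) (nat_lit 4) (nat_lit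 89) (nat_lit 5) (nat_lit 89) (nat_lit 4) (nat_lit 480) (nat_lit 313) (nat_lit 227)) (XT.lf (nat_lit 0) (nat_lit 165519160133) (nat_lit 76) (nat_lit 20180648073) (nat_lit 76) (nat_lit 19018514645) (nat_lit 88) (nat_lit 4) (nat_lit 89) (nat_lit 5) (nat_lit 89) (nat_lit 4) (nat_lit 481) (nat_lit 313) (nat_lit 226)))) (XT.nd (nat_lit 156) (nat_lit 152) (nat_lit 0) (XT.nd (nat_lit 78) (nat_lit 76) (nat_lit 0) (XT.lf (nat_lit 0) (nat_lit 51736404163) (nat_lit 152) (nat_lit 109048437973) (nat_lit 0) (nat_lit 50628843678) (nat_lit 86) (nat_lit 5) (nat_lit 88) (nat_lit 4) (nat_lit 86) (nat_lit 4) (nat_lit 482) (nat_lit 313) (nat_lit 225)) (XT.lf (nat_lit 0) (nat_lit 34207854684) (nat_lit 76) (nat_lit 92628179213) (nat_lit 76) (nat_lit 91519888494) (nat_lit 85) (nat_lit 4) (nat_lit 86) (nat_lit 5) (nat_lit 86) (nat_lit 4) (nat_lit 483) (nat_lit 313) (nat_lit 224))) (XT.nd (nat_lit 78) (nat_lit 152) (nat_lit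 0) (XT.lf (nat_lit 0) (nat_lit 188224289674) (nat_lit 76) (nat_lit 19221114670) (nat_lit 76) (nat_lit 18112128491) (nat_lit 85) (nat_lit 4) (nat_lit 86) (nat_lit 5) (nat_lit 86) (nat_lit 4) (nat_lit 484) (nat_lit 313) (nat_lit 223)) (XT.lf (nat_lit 0) (nat_lit 59803622382) (nat_lit 152) (nat_lit 114386511725) (nat_lit 0) (nat_lit 58746814265) (nat_lit 83) (nat_lit 5) (nat_lit 85) (nat_lit 4) (nat_lit 83) (nat_lit 4) (nat_lit 485) (nat_lit 313) (nat_lit 222))))))))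
noncomputable def xc57 : XT := (XT.nd (nat_lit 47502) (nat_lit 0) (nat_lit 3952) (XT.nd (nat_lit 46254) (nat_lit 0) (nat_lit 6840) (XT.nd (nat_lit 624) (nat_lit 228) (nat_lit 0) (XT.nd (nat_lit 312) (nat_lit 228) (nat_lit 0) (XT.nd (nat_lit 156) (nat_lit 228) (nat_lit 0) (XT.nd (nat_lit 78) (nat_lit 0) (nat_lit 0) (XT.lf (nat_lit 0) (nat_lit 43456648363) (nat_lit 76) (nat_lit 99096946588) (nat_lit 76) (nat_lit 98039537706) (nat_lit 82) (nat_lit 4) (nat_lit 83) (nat_lit 5) (nat_lit 83) (nat_lit 4) (nat_lit 486) (nat_lit 313) (nat_lit 221)) (XT.lf (nat_lit 0) (nat_lit 212983597265) (nat_lit 76) (nat_lit 18307016281) (nat_lit 76) (nat_lit 17249035242) (nat_lit 82) (nat_lit 4) (nat_lit 83) (nat_lit 5) (nat_lit 83) (nat_lit 4) (nat_lit 487) (nat_lit 313) (nat_lit 220))) (XT.nd (nat_lit 78) (nat_lit 76) (nat_lit 0) (XT.lf (nat_lit 0) (nat_lit 68565917716) (nat_lit 152) (nat_lit 120549621852) (nat_lit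 0) (nat_lit 67557797764) (nat_lit 80) (nat_lit 5) (nat_lit 82) (nat_lit 4) (nat_lit 80) (nat_lit 4) (nat_lit 488) (nat_lit 313) (nat_lit 219)) (XT.lf (nat_lit 0) (nat_lit 53380171044) (nat_lit 76) (nat_lit 106372489383) (nat_lit 76) (nat_lit 105363875181) (nat_lit 79) (nat_lit 4) (nat_lit 80) (nat_lit 5) (nat_lit 80) (nat_lit 4) (nat_lit 489) (nat_lit 313) (nat_lit 218)))) (XT.nd (nat_lit 156) (nat_lit 76) (nat_lit 0) (XT.nd (nat_lit 78) (nat_lit 152) (nat_lit 0) (XT.lf (nat_lit 0) (nat_lit 240020603970) (nat_lit 76) (nat_lit 17436234908) (nat_lit 76) (nat_lit 16427149991) (nat_lit 79) (nat_lit 4) (nat_lit 80) (nat_lit 5) (nat_lit 80) (nat_lit 4) (nat_lit 490) (nat_lit 313) (nat_lit 217)) (XT.lf (nat_lit 0) (nat_lit 78100844711) (nat_lit 152) (nat_lit 127609134365) (nat_lit 0) (nat_lit 77139384504) (nat_lit 77) (nat_lit 5) (nat_lit 79) (nat_lit 4) (nat_lit 77) (nat_lit 4) (nat_lit 491) (nat_lit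 313) (nat_lit 216))) (XT.nd (nat_lit 78) (nat_lit 0) (nat_lit 0) (XT.lf (nat_lit 0) (nat_lit 64060563596) (nat_lit 76) (nat_lit 114530720078) (nat_lit 76) (nat_lit 113568853250) (nat_lit 76) (nat_lit 4) (nat_lit 77) (nat_lit 5) (nat_lit 77) (nat_lit 4) (nat_lit 492) (nat_lit 313) (nat_lit 215)) (XT.lf (nat_lit 0) (nat_lit 269581130782) (nat_lit 76) (nat_lit 16606745332) (nat_lit 76) (nat_lit 15644491245) (nat_lit 76) (nat_lit 4) (nat_lit 77) (nat_lit 5) (nat_lit 77) (nat_lit 4) (nat_lit 493) (nat_lit 313) (nat_lit 214))))) (XT.nd (nat_lit 45318) (nat_lit 0) (nat_lit 8436) (XT.nd (nat_lit 45162) (nat_lit 0) (nat_lit 8892) (XT.nd (nat_lit 78) (nat_lit 76) (nat_lit 0) (XT.lf (nat_lit 0) (nat_lit 88493601085) (nat_lit 152) (nat_lit 135644353136) (nat_lit 0) (nat_lit 87576817367) (nat_lit 74) (nat_lit 5) (nat_lit 76) (nat_lit 4) (nat_lit 74) (nat_lit 4) (nat_lit 494) (nat_lit 313) (nat_lit 213)) (XT.lf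 (nat_lit 0) (nat_lit 75587773819) (nat_lit 76) (nat_lit 123655644117) (nat_lit 76) (nat_lit 122738525870) (nat_lit 73) (nat_lit 4) (nat_lit 74) (nat_lit 5) (nat_lit 74) (nat_lit 4) (nat_lit 495) (nat_lit 313) (nat_lit 212))) (XT.nd (nat_lit 78) (nat_lit 76) (nat_lit 0) (XT.lf (nat_lit 0) (nat_lit 3030080150) (nat_lit 152) (nat_lit 1259949986) (nat_lit 0) (nat_lit 3030080150) (nat_lit 191) (nat_lit 5) (nat_lit 193) (nat_lit 4) (nat_lit 191) (nat_lit 4) (nat_lit 392) (nat_lit 314) (nat_lit 314)) (XT.lf (nat_lit 0) (nat_lit 12076810575) (nat_lit 76) (nat_lit 1611305033) (nat_lit 76) (nat_lit 1301609623) (nat_lit 190) (nat_lit 4) (nat_lit 191) (nat_lit 5) (nat_lit 191) (nat_lit 4) (nat_lit 393) (nat_lit 314) (nat_lit 313)))) (XT.nd (nat_lit 156) (nat_lit 228) (nat_lit 0) (XT.nd (nat_lit 78) (nat_lit 76) (nat_lit 0) (XT.lf (nat_lit 0) (nat_lit 6212373600) (nat_lit 152) (nat_lit 3499131236) (nat_lit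 0) (nat_lit 5636522724) (nat_lit 188) (nat_lit 5) (nat_lit 190) (nat_lit 4) (nat_lit 188) (nat_lit 4) (nat_lit 394) (nat_lit 314) (nat_lit 312)) (XT.lf (nat_lit 0) (nat_lit 11574611954) (nat_lit 76) (nat_lit 2495672510) (nat_lit 76) (nat_lit 1652295094) (nat_lit 187) (nat_lit 4) (nat_lit 188) (nat_lit 5) (nat_lit 188) (nat_lit 4) (nat_lit 395) (nat_lit 314) (nat_lit 311))) (XT.nd (nat_lit 78) (nat_lit 76) (nat_lit 0) (XT.lf (nat_lit 0) (nat_lit 6077939713) (nat_lit 152) (nat_lit 4997441015) (nat_lit 0) (nat_lit 5032068668) (nat_lit 185) (nat_lit 5) (nat_lit 187) (nat_lit 4) (nat_lit 185) (nat_lit 4) (nat_lit 396) (nat_lit 314) (nat_lit 310)) (XT.lf (nat_lit 0) (nat_lit 10558983302) (nat_lit 76) (nat_lit 3613270420) (nat_lit 76) (nat_lit 2336299892) (nat_lit 184) (nat_lit 4) (nat_lit 185) (nat_lit 5) (nat_lit 185) (nat_lit 4) (nat_lit 397) (nat_lit 314) (nat_lit 309)))))) (XT.nd (nat_lit 624) (nat_lit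 760) (nat_lit 0) (XT.nd (nat_lit 312) (nat_lit 380) (nat_lit 0) (XT.nd (nat_lit 156) (nat_lit 228) (nat_lit 0) (XT.nd (nat_lit 78) (nat_lit 76) (nat_lit 0) (XT.lf (nat_lit 0) (nat_lit 5622214363) (nat_lit 152) (nat_lit 7103358163) (nat_lit 0) (nat_lit 4196437912) (nat_lit 182) (nat_lit 5) (nat_lit 184) (nat_lit 4) (nat_lit 182) (nat_lit 4) (nat_lit 398) (nat_lit 314) (nat_lit 308)) (XT.lf (nat_lit 0) (nat_lit 8939971230) (nat_lit 76) (nat_lit 5018376173) (nat_lit 76) (nat_lit 3392967298) (nat_lit 181) (nat_lit 4) (nat_lit 182) (nat_lit 5) (nat_lit 182) (nat_lit 4) (nat_lit 399) (nat_lit 314) (nat_lit 307))) (XT.nd (nat_lit 78) (nat_lit 76) (nat_lit 0) (XT.lf (nat_lit 0) (nat_lit 4805127866) (nat_lit 152) (nat_lit 9914424563) (nat_lit 0) (nat_lit 3076046922) (nat_lit 179) (nat_lit 5) (nat_lit 181) (nat_lit 4) (nat_lit 179) (nat_lit 4) (nat_lit 400) (nat_lit 314) (nat_lit 306)) (XT.lf (nat_lit 0)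 (nat_lit 6618337142) (nat_lit 76) (nat_lit 6769048362) (nat_lit 76) (nat_lit 4867517425) (nat_lit 178) (nat_lit 4) (nat_lit 179) (nat_lit 5) (nat_lit 179) (nat_lit 4) (nat_lit 401) (nat_lit 314) (nat_lit 305)))) (XT.nd (nat_lit 156) (nat_lit 152) (nat_lit 0) (XT.nd (nat_lit 78) (nat_lit 76) (nat_lit 0) (XT.lf (nat_lit 0) (nat_lit 3580767548) (nat_lit 152) (nat_lit 13538358444) (nat_lit 0) (nat_lit 1613368476) (nat_lit 176) (nat_lit 5) (nat_lit 178) (nat_lit 4) (nat_lit 176) (nat_lit 4) (nat_lit 402) (nat_lit 314) (nat_lit 304)) (XT.lf (nat_lit 0) (nat_lit 3484363457) (nat_lit 76) (nat_lit 8927881150) (nat_lit 76) (nat_lit 6811513291) (nat_lit 175) (nat_lit 4) (nat_lit 176) (nat_lit 5) (nat_lit 176) (nat_lit 4) (nat_lit 403) (nat_lit 314) (nat_lit 303))) (XT.nd (nat_lit 78) (nat_lit 0) (nat_lit 0) (XT.lf (nat_lit 0) (nat_lit 1638778124) (nat_lit 76) (nat_lit 262207738) (nat_lit 152) (nat_lit 17836202250)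 (nat_lit 173) (nat_lit 5) (nat_lit 174) (nat_lit 5) (nat_lit 175) (nat_lit 4) (nat_lit 404) (nat_lit 314) (nat_lit 302)) (XT.lf (nat_lit 0) (nat_lit 10988458676) (nat_lit 152) (nat_lit 564768626) (nat_lit 0) (nat_lit 8709066317) (nat_lit 173) (nat_lit 5) (nat_lit 175) (nat_lit 4) (nat_lit 173) (nat_lit 4) (nat_lit 405) (nat_lit 314) (nat_lit 301))))) (XT.nd (nat_lit 312) (nat_lit 304) (nat_lit 0) (XT.nd (nat_lit 156) (nat_lit 228) (nat_lit 0) (XT.nd (nat_lit 78) (nat_lit 152) (nat_lit 0) (XT.lf (nat_lit 0) (nat_lit 17958810661) (nat_lit 76) (nat_lit 2627008689) (nat_lit 76) (nat_lit 225059340) (nat_lit 172) (nat_lit 4) (nat_lit 173) (nat_lit 5) (nat_lit 173) (nat_lit 4) (nat_lit 406) (nat_lit 314) (nat_lit 300)) (XT.lf (nat_lit 0) (nat_lit 9117393202) (nat_lit 152) (nat_lit 5536692232) (nat_lit 0) (nat_lit 6718659590) (nat_lit 170) (nat_lit 5) (nat_lit 172) (nat_lit 4) (nat_lit 170) (nat_lit 4)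 (nat_lit 407) (nat_lit 314) (nat_lit 299))) (XT.nd (nat_lit 78) (nat_lit 152) (nat_lit 0) (XT.lf (nat_lit 0) (nat_lit 13524839116) (nat_lit 76) (nat_lit 5469274302) (nat_lit 76) (nat_lit 2964671355) (nat_lit 169) (nat_lit 4) (nat_lit 170) (nat_lit 5) (nat_lit 170) (nat_lit 4) (nat_lit 408) (nat_lit 314) (nat_lit 298)) (XT.lf (nat_lit 0) (nat_lit 6678678898) (nat_lit 152) (nat_lit 11687556714) (nat_lit 0) (nat_lit 4197316149) (nat_lit 167) (nat_lit 5) (nat_lit 169) (nat_lit 4) (nat_lit 167) (nat_lit 4) (nat_lit 409) (nat_lit 314) (nat_lit 297)))) (XT.nd (nat_lit 156) (nat_lit 76) (nat_lit 0) (XT.nd (nat_lit 78) (nat_lit 152) (nat_lit 0) (XT.lf (nat_lit 0) (nat_lit 7907010659) (nat_lit 76) (nat_lit 8927712549) (nat_lit 76) (nat_lit 6354895886) (nat_lit 166) (nat_lit 4) (nat_lit 167) (nat_lit 5) (nat_lit 167) (nat_lit 4) (nat_lit 410) (nat_lit 314) (nat_lit 296)) (XT.lf (nat_lit 0) (nat_lit 3598167203)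 (nat_lit 152) (nat_lit 19177884765) (nat_lit 0) (nat_lit 1064914224) (nat_lit 164) (nat_lit 5) (nat_lit 166) (nat_lit 4) (nat_lit 164) (nat_lit 4) (nat_lit 411) (nat_lit 314) (nat_lit 295))) (XT.nd (nat_lit 78) (nat_lit 0) (nat_lit 0) (XT.lf (nat_lit 0) (nat_lit 941341525) (nat_lit 76) (nat_lit 13090382090) (nat_lit 76) (nat_lit 10478127783) (nat_lit 163) (nat_lit 4) (nat_lit 164) (nat_lit 5) (nat_lit 164) (nat_lit 4) (nat_lit 412) (nat_lit 314) (nat_lit 294)) (XT.lf (nat_lit 0) (nat_lit 22281036921) (nat_lit 76) (nat_lit 2806796905) (nat_lit 76) (nat_lit 119303237) (nat_lit 163) (nat_lit 4) (nat_lit 164) (nat_lit 5) (nat_lit 164) (nat_lit 4) (nat_lit 413) (nat_lit 314) (nat_lit 293))))))) (XT.nd (nat_lit 1248) (nat_lit 1368) (nat_lit 0) (XT.nd (nat_lit 624) (nat_lit 684) (nat_lit 0) (XT.nd (nat_lit 312) (nat_lit 380) (nat_lit 0) (XT.nd (nat_lit 156) (nat_lit 228) (nat_lit 0) (XT.nd (nat_lit 78)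 (nat_lit 76) (nat_lit 0) (XT.lf (nat_lit 0) (nat_lit 10617922893) (nat_lit 152) (nat_lit 7312567299) (nat_lit 0) (nat_lit 7990160797) (nat_lit 161) (nat_lit 5) (nat_lit 163) (nat_lit 4) (nat_lit 161) (nat_lit 4) (nat_lit 414) (nat_lit 314) (nat_lit 292)) (XT.lf (nat_lit 0) (nat_lit 14635647559) (nat_lit 76) (nat_lit 7360716887) (nat_lit 76) (nat_lit 4667960202) (nat_lit 160) (nat_lit 4) (nat_lit 161) (nat_lit 5) (nat_lit 161) (nat_lit 4) (nat_lit 415) (nat_lit 314) (nat_lit 291))) (XT.nd (nat_lit 78) (nat_lit 76) (nat_lit 0) (XT.lf (nat_lit 0) (nat_lit 6421841931) (nat_lit 152) (nat_lit 17213342788) (nat_lit 0) (nat_lit 3798359747) (nat_lit 158) (nat_lit 5) (nat_lit 160) (nat_lit 4) (nat_lit 158) (nat_lit 4) (nat_lit 416) (nat_lit 314) (nat_lit 290)) (XT.lf (nat_lit 0) (nat_lit 5299682994) (nat_lit 76) (nat_lit 12803815559) (nat_lit 76) (nat_lit 10124188605) (nat_lit 157) (nat_lit 4) (nat_lit 158)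 (nat_lit 5) (nat_lit 158) (nat_lit 4) (nat_lit 417) (nat_lit 314) (nat_lit 289)))) (XT.nd (nat_lit 156) (nat_lit 228) (nat_lit 0) (XT.nd (nat_lit 78) (nat_lit 0) (nat_lit 0) (XT.lf (nat_lit 0) (nat_lit 27086353) (nat_lit 76) (nat_lit 1319345117) (nat_lit 152) (nat_lit 27710055418) (nat_lit 155) (nat_lit 5) (nat_lit 156) (nat_lit 5) (nat_lit 157) (nat_lit 4) (nat_lit 418) (nat_lit 314) (nat_lit 288)) (XT.lf (nat_lit 0) (nat_lit 13396711101) (nat_lit 152) (nat_lit 5759138095) (nat_lit 0) (nat_lit 10745260508) (nat_lit 155) (nat_lit 5) (nat_lit 157) (nat_lit 4) (nat_lit 155) (nat_lit 4) (nat_lit 419) (nat_lit 314) (nat_lit 287))) (XT.nd (nat_lit 78) (nat_lit 152) (nat_lit 0) (XT.lf (nat_lit 0) (nat_lit 18839063098) (nat_lit 76) (nat_lit 7320518868) (nat_lit 76) (nat_lit 4622877834) (nat_lit 154) (nat_lit 4) (nat_lit 155) (nat_lit 5) (nat_lit 155) (nat_lit 4) (nat_lit 420) (nat_lit 314) (nat_lit 286))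 (XT.lf (nat_lit 0) (nat_lit 7781903660) (nat_lit 152) (nat_lit 18739991924) (nat_lit 0) (nat_lit 5170825631) (nat_lit 152) (nat_lit 5) (nat_lit 154) (nat_lit 4) (nat_lit 152) (nat_lit 4) (nat_lit 421) (nat_lit 314) (nat_lit 285))))) (XT.nd (nat_lit 312) (nat_lit 380) (nat_lit 0) (XT.nd (nat_lit 156) (nat_lit 152) (nat_lit 0) (XT.nd (nat_lit 78) (nat_lit 76) (nat_lit 0) (XT.lf (nat_lit 0) (nat_lit 6460468301) (nat_lit 76) (nat_lit 14412083937) (nat_lit 76) (nat_lit 11761104869) (nat_lit 151) (nat_lit 4) (nat_lit 152) (nat_lit 5) (nat_lit 152) (nat_lit 4) (nat_lit 422) (nat_lit 314) (nat_lit 284)) (XT.lf (nat_lit 0) (nat_lit 1081379163) (nat_lit 152) (nat_lit 472152772) (nat_lit 76) (nat_lit 32061471921) (nat_lit 150) (nat_lit 5) (nat_lit 152) (nat_lit 5) (nat_lit 151) (nat_lit 4) (nat_lit 423) (nat_lit 314) (nat_lit 283))) (XT.nd (nat_lit 78) (nat_lit 76) (nat_lit 0) (XT.lf (nat_lit 0) (nat_lit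 14586644796) (nat_lit 152) (nat_lit 8037094125) (nat_lit 0) (nat_lit 11991243390) (nat_lit 149) (nat_lit 5) (nat_lit 151) (nat_lit 4) (nat_lit 149) (nat_lit 4) (nat_lit 424) (nat_lit 314) (nat_lit 282)) (XT.lf (nat_lit 0) (nat_lit 19534453473) (nat_lit 76) (nat_lit 9375790399) (nat_lit 76) (nat_lit 6747562308) (nat_lit 148) (nat_lit 4) (nat_lit 149) (nat_lit 5) (nat_lit 149) (nat_lit 4) (nat_lit 425) (nat_lit 314) (nat_lit 281)))) (XT.nd (nat_lit 156) (nat_lit 152) (nat_lit 0) (XT.nd (nat_lit 78) (nat_lit 76) (nat_lit 0) (XT.lf (nat_lit 0) (nat_lit 7170146827) (nat_lit 152) (nat_lit 24929545658) (nat_lit 0) (nat_lit 4637297686) (nat_lit 146) (nat_lit 5) (nat_lit 148) (nat_lit 4) (nat_lit 146) (nat_lit 4) (nat_lit 426) (nat_lit 314) (nat_lit 280)) (XT.lf (nat_lit 0) (nat_lit 3276558390) (nat_lit 76) (nat_lit 18567449406) (nat_lit 76) (nat_lit 16006243341) (nat_lit 145) (nat_lit 4) (nat_lit 146)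 (nat_lit 5) (nat_lit 146) (nat_lit 4) (nat_lit 427) (nat_lit 314) (nat_lit 279))) (XT.nd (nat_lit 78) (nat_lit 152) (nat_lit 0) (XT.lf (nat_lit 0) (nat_lit 33367292035) (nat_lit 76) (nat_lit 4114297202) (nat_lit 76) (nat_lit 1526084543) (nat_lit 145) (nat_lit 4) (nat_lit 146) (nat_lit 5) (nat_lit 146) (nat_lit 4) (nat_lit 428) (nat_lit 314) (nat_lit 278)) (XT.lf (nat_lit 0) (nat_lit 13623334096) (nat_lit 152) (nat_lit 15435930119) (nat_lit 0) (nat_lit 11133873882) (nat_lit 143) (nat_lit 5) (nat_lit 145) (nat_lit 4) (nat_lit 143) (nat_lit 4) (nat_lit 429) (nat_lit 314) (nat_lit 277)))))) (XT.nd (nat_lit 624) (nat_lit 684) (nat_lit 0) (XT.nd (nat_lit 312) (nat_lit 380) (nat_lit 0) (XT.nd (nat_lit 156) (nat_lit 76) (nat_lit 0) (XT.nd (nat_lit 78) (nat_lit 152) (nat_lit 0) (XT.lf (nat_lit 0) (nat_lit 15459388012) (nat_lit 76) (nat_lit 14239514008) (nat_lit 76) (nat_lit 11726724482) (nat_lit 142) (nat_lit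 4) (nat_lit 143) (nat_lit 5) (nat_lit 143) (nat_lit 4) (nat_lit 430) (nat_lit 314) (nat_lit 276)) (XT.lf (nat_lit 0) (nat_lit 3924419447) (nat_lit 152) (nat_lit 37272711240) (nat_lit 0) (nat_lit 1510126192) (nat_lit 140) (nat_lit 5) (nat_lit 142) (nat_lit 4) (nat_lit 140) (nat_lit 4) (nat_lit 431) (nat_lit 314) (nat_lit 275))) (XT.nd (nat_lit 78) (nat_lit 76) (nat_lit 0) (XT.lf (nat_lit 0) (nat_lit 20458591382) (nat_lit 152) (nat_lit 5535891651) (nat_lit 0) (nat_lit 18024145391) (nat_lit 140) (nat_lit 5) (nat_lit 142) (nat_lit 4) (nat_lit 140) (nat_lit 4) (nat_lit 432) (nat_lit 314) (nat_lit 274)) (XT.lf (nat_lit 0) (nat_lit 28333785583) (nat_lit 76) (nat_lit 9751076269) (nat_lit 76) (nat_lit 7297437196) (nat_lit 139) (nat_lit 4) (nat_lit 140) (nat_lit 5) (nat_lit 140) (nat_lit 4) (nat_lit 433) (nat_lit 314) (nat_lit 273)))) (XT.nd (nat_lit 156) (nat_lit 152) (nat_lit 0) (XT.nd (nat_lit 78) (nat_lit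 76) (nat_lit 0) (XT.lf (nat_lit 0) (nat_lit 9773733536) (nat_lit 152) (nat_lit 29597840247) (nat_lit 0) (nat_lit 7419525727) (nat_lit 137) (nat_lit 5) (nat_lit 139) (nat_lit 4) (nat_lit 137) (nat_lit 4) (nat_lit 434) (nat_lit 314) (nat_lit 272)) (XT.lf (nat_lit 0) (nat_lit 4997921189) (nat_lit 76) (nat_lit 22809751126) (nat_lit 76) (nat_lit 20438963611) (nat_lit 136) (nat_lit 4) (nat_lit 137) (nat_lit 5) (nat_lit 137) (nat_lit 4) (nat_lit 435) (nat_lit 314) (nat_lit 271))) (XT.nd (nat_lit 78) (nat_lit 152) (nat_lit 0) (XT.lf (nat_lit 0) (nat_lit 41995933070) (nat_lit 76) (nat_lit 5074615879) (nat_lit 76) (nat_lit 2688038168) (nat_lit 136) (nat_lit 4) (nat_lit 137) (nat_lit 5) (nat_lit 137) (nat_lit 4) (nat_lit 436) (nat_lit 314) (nat_lit 270)) (XT.lf (nat_lit 0) (nat_lit 15958183853) (nat_lit 152) (nat_lit 21678656750) (nat_lit 0) (nat_lit 13670930527) (nat_lit 134) (nat_lit 5) (nat_lit 136) (nat_lit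 4) (nat_lit 134) (nat_lit 4) (nat_lit 437) (nat_lit 314) (nat_lit 269))))) (XT.nd (nat_lit 312) (nat_lit 380) (nat_lit 0) (XT.nd (nat_lit 156) (nat_lit 76) (nat_lit 0) (XT.nd (nat_lit 78) (nat_lit 152) (nat_lit 0) (XT.lf (nat_lit 0) (nat_lit 16279966345) (nat_lit 76) (nat_lit 19469004354) (nat_lit 76) (nat_lit 17168110863) (nat_lit 133) (nat_lit 4) (nat_lit 134) (nat_lit 5) (nat_lit 134) (nat_lit 4) (nat_lit 438) (nat_lit 314) (nat_lit 268)) (XT.lf (nat_lit 0) (nat_lit 1984294271) (nat_lit 76) (nat_lit 112378117) (nat_lit 152) (nat_lit 52496896240) (nat_lit 131) (nat_lit 5) (nat_lit 132) (nat_lit 5) (nat_lit 133) (nat_lit 4) (nat_lit 439) (nat_lit 314) (nat_lit 267))) (XT.nd (nat_lit 78) (nat_lit 76) (nat_lit 0) (XT.lf (nat_lit 0) (nat_lit 22525605842) (nat_lit 152) (nat_lit 13465184588) (nat_lit 0) (nat_lit 20310123788) (nat_lit 131) (nat_lit 5) (nat_lit 133) (nat_lit 4) (nat_lit 131) (nat_lit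 4) (nat_lit 440) (nat_lit 314) (nat_lit 266)) (XT.lf (nat_lit 0) (nat_lit 28209650674) (nat_lit 76) (nat_lit 16048291235) (nat_lit 76) (nat_lit 13821587383) (nat_lit 130) (nat_lit 4) (nat_lit 131) (nat_lit 5) (nat_lit 131) (nat_lit 4) (nat_lit 441) (nat_lit 314) (nat_lit 265)))) (XT.nd (nat_lit 156) (nat_lit 228) (nat_lit 0) (XT.nd (nat_lit 78) (nat_lit 0) (nat_lit 0) (XT.lf (nat_lit 0) (nat_lit 7250143038) (nat_lit 152) (nat_lit 47554645948) (nat_lit 0) (nat_lit 5119294201) (nat_lit 128) (nat_lit 5) (nat_lit 130) (nat_lit 4) (nat_lit 128) (nat_lit 4) (nat_lit 442) (nat_lit 314) (nat_lit 264)) (XT.lf (nat_lit 0) (nat_lit 29527937722) (nat_lit 152) (nat_lit 4903354126) (nat_lit 0) (nat_lit 27387395075) (nat_lit 128) (nat_lit 5) (nat_lit 130) (nat_lit 4) (nat_lit 128) (nat_lit 4) (nat_lit 443) (nat_lit 314) (nat_lit 263))) (XT.nd (nat_lit 78) (nat_lit 152) (nat_lit 0) (XT.lf (nat_lit 0) (nat_lit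 40876861837) (nat_lit 76) (nat_lit 12528327742) (nat_lit 76) (nat_lit 10378552895) (nat_lit 127) (nat_lit 4) (nat_lit 128) (nat_lit 5) (nat_lit 128) (nat_lit 4) (nat_lit 444) (nat_lit 314) (nat_lit 262)) (XT.lf (nat_lit 0) (nat_lit 12695573459) (nat_lit 152) (nat_lit 42478296717) (nat_lit 0) (nat_lit 10639794964) (nat_lit 125) (nat_lit 5) (nat_lit 127) (nat_lit 4) (nat_lit 125) (nat_lit 4) (nat_lit 445) (nat_lit 314) (nat_lit 261))))))))
noncomputable def xc58 : XT := (XT.nd (nat_lit 1248) (nat_lit 1292) (nat_lit 0) (XT.nd (nat_lit 624) (nat_lit 608) (nat_lit 0) (XT.nd (nat_lit 312) (nat_lit 304) (nat_lit 0) (XT.nd (nat_lit 156) (nat_lit 228) (nat_lit 0) (XT.nd (nat_lit 78) (nat_lit 0) (nat_lit 0) (XT.lf (nat_lit 0) (nat_lit 4199860026) (nat_lit 76) (nat_lit 32887418758) (nat_lit 76) (nat_lit 30823665141) (nat_lit 124) (nat_lit 4) (nat_lit 125) (nat_lit 5) (nat_lit 125) (nat_lit 4) (nat_lit 446)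 (nat_lit 314) (nat_lit 260)) (XT.lf (nat_lit 0) (nat_lit 54379709812) (nat_lit 76) (nat_lit 8888131114) (nat_lit 76) (nat_lit 6816782143) (nat_lit 124) (nat_lit 4) (nat_lit 125) (nat_lit 5) (nat_lit 125) (nat_lit 4) (nat_lit 447) (nat_lit 314) (nat_lit 259))) (XT.nd (nat_lit 78) (nat_lit 76) (nat_lit 0) (XT.lf (nat_lit 0) (nat_lit 18472820160) (nat_lit 152) (nat_lit 37353042838) (nat_lit 0) (nat_lit 16493217644) (nat_lit 122) (nat_lit 5) (nat_lit 124) (nat_lit 4) (nat_lit 122) (nat_lit 4) (nat_lit 448) (nat_lit 314) (nat_lit 258)) (XT.lf (nat_lit 0) (nat_lit 13951350256) (nat_lit 76) (nat_lit 31335029349) (nat_lit 76) (nat_lit 29348865680) (nat_lit 121) (nat_lit 4) (nat_lit 122) (nat_lit 5) (nat_lit 122) (nat_lit 4) (nat_lit 449) (nat_lit 314) (nat_lit 257)))) (XT.nd (nat_lit 156) (nat_lit 152) (nat_lit 0) (XT.nd (nat_lit 78) (nat_lit 152) (nat_lit 0) (XT.lf (nat_lit 0) (nat_lit 68825394171) (nat_lit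 76) (nat_lit 5104876838) (nat_lit 76) (nat_lit 3112464452) (nat_lit 121) (nat_lit 4) (nat_lit 122) (nat_lit 5) (nat_lit 122) (nat_lit 4) (nat_lit 450) (nat_lit 314) (nat_lit 256)) (XT.lf (nat_lit 0) (nat_lit 24627101789) (nat_lit 152) (nat_lit 32151852324) (nat_lit 0) (nat_lit 22723898413) (nat_lit 119) (nat_lit 5) (nat_lit 121) (nat_lit 4) (nat_lit 119) (nat_lit 4) (nat_lit 451) (nat_lit 314) (nat_lit 255))) (XT.nd (nat_lit 78) (nat_lit 76) (nat_lit 0) (XT.lf (nat_lit 0) (nat_lit 24260471102) (nat_lit 76) (nat_lit 29854138143) (nat_lit 76) (nat_lit 27945536891) (nat_lit 118) (nat_lit 4) (nat_lit 119) (nat_lit 5) (nat_lit 119) (nat_lit 4) (nat_lit 452) (nat_lit 314) (nat_lit 254)) (XT.lf (nat_lit 0) (nat_lit 735685366) (nat_lit 152) (nat_lit 405587085) (nat_lit 76) (nat_lit 83583018548) (nat_lit 117) (nat_lit 5) (nat_lit 119) (nat_lit 5) (nat_lit 118) (nat_lit 4) (nat_lit 453) (nat_lit 314) (nat_lit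 253))))) (XT.nd (nat_lit 312) (nat_lit 304) (nat_lit 0) (XT.nd (nat_lit 156) (nat_lit 152) (nat_lit 0) (XT.nd (nat_lit 78) (nat_lit 76) (nat_lit 0) (XT.lf (nat_lit 0) (nat_lit 31207662087) (nat_lit 152) (nat_lit 26845894823) (nat_lit 0) (nat_lit 29380387687) (nat_lit 116) (nat_lit 5) (nat_lit 118) (nat_lit 4) (nat_lit 116) (nat_lit 4) (nat_lit 454) (nat_lit 314) (nat_lit 252)) (XT.lf (nat_lit 0) (nat_lit 35205074880) (nat_lit 76) (nat_lit 28441770429) (nat_lit 76) (nat_lit 26610055182) (nat_lit 115) (nat_lit 4) (nat_lit 116) (nat_lit 5) (nat_lit 116) (nat_lit 4) (nat_lit 455) (nat_lit 314) (nat_lit 251))) (XT.nd (nat_lit 78) (nat_lit 0) (nat_lit 0) (XT.lf (nat_lit 0) (nat_lit 4848673259) (nat_lit 152) (nat_lit 85243408568) (nat_lit 0) (nat_lit 3100154569) (nat_lit 113) (nat_lit 5) (nat_lit 115) (nat_lit 4) (nat_lit 113) (nat_lit 4) (nat_lit 456) (nat_lit 314) (nat_lit 250)) (XT.lf (nat_lit 0) (nat_lit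 38268225004) (nat_lit 152) (nat_lit 21404324470) (nat_lit 0) (nat_lit 36515870144) (nat_lit 113) (nat_lit 5) (nat_lit 115) (nat_lit 4) (nat_lit 113) (nat_lit 4) (nat_lit 457) (nat_lit 314) (nat_lit 249)))) (XT.nd (nat_lit 156) (nat_lit 76) (nat_lit 0) (XT.nd (nat_lit 78) (nat_lit 152) (nat_lit 0) (XT.lf (nat_lit 0) (nat_lit 46870069900) (nat_lit 76) (nat_lit 27095016915) (nat_lit 76) (nat_lit 25339008560) (nat_lit 112) (nat_lit 4) (nat_lit 113) (nat_lit 5) (nat_lit 113) (nat_lit 4) (nat_lit 458) (nat_lit 314) (nat_lit 248)) (XT.lf (nat_lit 0) (nat_lit 9215502598) (nat_lit 152) (nat_lit 85781917178) (nat_lit 0) (nat_lit 7539799861) (nat_lit 110) (nat_lit 5) (nat_lit 112) (nat_lit 4) (nat_lit 110) (nat_lit 4) (nat_lit 459) (nat_lit 314) (nat_lit 247))) (XT.nd (nat_lit 78) (nat_lit 76) (nat_lit 0) (XT.lf (nat_lit 0) (nat_lit 45867492027) (nat_lit 152) (nat_lit 15794039666) (nat_lit 0) (nat_lit 44188633263)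 (nat_lit 110) (nat_lit 5) (nat_lit 112) (nat_lit 4) (nat_lit 110) (nat_lit 4) (nat_lit 460) (nat_lit 314) (nat_lit 246)) (XT.lf (nat_lit 0) (nat_lit 59348176780) (nat_lit 76) (nat_lit 25811044133) (nat_lit 76) (nat_lit 24129179629) (nat_lit 109) (nat_lit 4) (nat_lit 110) (nat_lit 5) (nat_lit 110) (nat_lit 4) (nat_lit 461) (nat_lit 314) (nat_lit 245)))))) (XT.nd (nat_lit 624) (nat_lit 608) (nat_lit 0) (XT.nd (nat_lit 312) (nat_lit 304) (nat_lit 0) (XT.nd (nat_lit 156) (nat_lit 228) (nat_lit 0) (XT.nd (nat_lit 78) (nat_lit 0) (nat_lit 0) (XT.lf (nat_lit 0) (nat_lit 13844695473) (nat_lit 152) (nat_lit 86765090311) (nat_lit 0) (nat_lit 12240193460) (nat_lit 107) (nat_lit 5) (nat_lit 109) (nat_lit 4) (nat_lit 107) (nat_lit 4) (nat_lit 462) (nat_lit 314) (nat_lit 244)) (XT.lf (nat_lit 0) (nat_lit 54069686721) (nat_lit 152) (nat_lit 9979417853) (nat_lit 0) (nat_lit 52462588238) (nat_lit 107) (nat_lit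 5) (nat_lit 109) (nat_lit 4) (nat_lit 107) (nat_lit 4) (nat_lit 463) (nat_lit 314) (nat_lit 243))) (XT.nd (nat_lit 78) (nat_lit 152) (nat_lit 0) (XT.lf (nat_lit 0) (nat_lit 72740762631) (nat_lit 76) (nat_lit 24587101945) (nat_lit 76) (nat_lit 22977530632) (nat_lit 106) (nat_lit 4) (nat_lit 107) (nat_lit 5) (nat_lit 107) (nat_lit 4) (nat_lit 464) (nat_lit 314) (nat_lit 242)) (XT.lf (nat_lit 0) (nat_lit 18772134844) (nat_lit 152) (nat_lit 88220129928) (nat_lit 0) (nat_lit 17236966855) (nat_lit 104) (nat_lit 5) (nat_lit 106) (nat_lit 4) (nat_lit 104) (nat_lit 4) (nat_lit 465) (nat_lit 314) (nat_lit 241)))) (XT.nd (nat_lit 156) (nat_lit 228) (nat_lit 0) (XT.nd (nat_lit 78) (nat_lit 76) (nat_lit 0) (XT.lf (nat_lit 0) (nat_lit 62945151816) (nat_lit 152) (nat_lit 3922023112) (nat_lit 0) (nat_lit 61407847704) (nat_lit 104) (nat_lit 5) (nat_lit 106) (nat_lit 4) (nat_lit 104) (nat_lit 4) (nat_lit 466) (nat_lit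 314) (nat_lit 240)) (XT.lf (nat_lit 0) (nat_lit 87158760763) (nat_lit 76) (nat_lit 23420528722) (nat_lit 76) (nat_lit 21881190207) (nat_lit 103) (nat_lit 4) (nat_lit 104) (nat_lit 5) (nat_lit 104) (nat_lit 4) (nat_lit 467) (nat_lit 314) (nat_lit 239))) (XT.nd (nat_lit 78) (nat_lit 76) (nat_lit 0) (XT.lf (nat_lit 0) (nat_lit 24036923424) (nat_lit 152) (nat_lit 90177871123) (nat_lit 0) (nat_lit 22569041480) (nat_lit 101) (nat_lit 5) (nat_lit 103) (nat_lit 4) (nat_lit 101) (nat_lit 4) (nat_lit 468) (nat_lit 314) (nat_lit 238)) (XT.lf (nat_lit 0) (nat_lit 2499722662) (nat_lit 76) (nat_lit 70110309699) (nat_lit 76) (nat_lit 68640670361) (nat_lit 100) (nat_lit 4) (nat_lit 101) (nat_lit 5) (nat_lit 101) (nat_lit 4) (nat_lit 469) (nat_lit 314) (nat_lit 237))))) (XT.nd (nat_lit 312) (nat_lit 380) (nat_lit 0) (XT.nd (nat_lit 156) (nat_lit 76) (nat_lit 0) (XT.nd (nat_lit 78) (nat_lit 152) (nat_lit 0) (XT.lf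 (nat_lit 0) (nat_lit 102723684367) (nat_lit 76) (nat_lit 22308754659) (nat_lit 76) (nat_lit 20837441613) (nat_lit 100) (nat_lit 4) (nat_lit 101) (nat_lit 5) (nat_lit 101) (nat_lit 4) (nat_lit 470) (nat_lit 314) (nat_lit 236)) (XT.lf (nat_lit 0) (nat_lit 29681740861) (nat_lit 152) (nat_lit 92673119622) (nat_lit 0) (nat_lit 28278972238) (nat_lit 98) (nat_lit 5) (nat_lit 100) (nat_lit 4) (nat_lit 98) (nat_lit 4) (nat_lit 471) (nat_lit 314) (nat_lit 235))) (XT.nd (nat_lit 78) (nat_lit 0) (nat_lit 0) (XT.lf (nat_lit 0) (nat_lit 9391445583) (nat_lit 76) (nat_lit 73787038779) (nat_lit 76) (nat_lit 72382824344) (nat_lit 97) (nat_lit 4) (nat_lit 98) (nat_lit 5) (nat_lit 98) (nat_lit 4) (nat_lit 472) (nat_lit 314) (nat_lit 234)) (XT.lf (nat_lit 0) (nat_lit 119568743604) (nat_lit 76) (nat_lit 21249303590) (nat_lit 76) (nat_lit 19843712190) (nat_lit 97) (nat_lit 4) (nat_lit 98) (nat_lit 5) (nat_lit 98) (nat_lit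 4) (nat_lit 473) (nat_lit 314) (nat_lit 233)))) (XT.nd (nat_lit 156) (nat_lit 152) (nat_lit 0) (XT.nd (nat_lit 78) (nat_lit 76) (nat_lit 0) (XT.lf (nat_lit 0) (nat_lit 35753235296) (nat_lit 152) (nat_lit 95745024593) (nat_lit 0) (nat_lit 34413327874) (nat_lit 95) (nat_lit 5) (nat_lit 97) (nat_lit 4) (nat_lit 95) (nat_lit 4) (nat_lit 474) (nat_lit 314) (nat_lit 232)) (XT.lf (nat_lit 0) (nat_lit 16674025804) (nat_lit 76) (nat_lit 78006911995) (nat_lit 76) (nat_lit 76665815100) (nat_lit 94) (nat_lit 4) (nat_lit 95) (nat_lit 5) (nat_lit 95) (nat_lit 4) (nat_lit 475) (nat_lit 314) (nat_lit 231))) (XT.nd (nat_lit 78) (nat_lit 152) (nat_lit 0) (XT.lf (nat_lit 0) (nat_lit 137840076533) (nat_lit 76) (nat_lit 20239793624) (nat_lit 76) (nat_lit 18897563897) (nat_lit 94) (nat_lit 4) (nat_lit 95) (nat_lit 5) (nat_lit 95) (nat_lit 4) (nat_lit 476) (nat_lit 314) (nat_lit 230)) (XT.lf (nat_lit 0) (nat_lit 42302453097)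 (nat_lit 152) (nat_lit 99437490522) (nat_lit 0) (nat_lit 41023111559) (nat_lit 92) (nat_lit 5) (nat_lit 94) (nat_lit 4) (nat_lit 92) (nat_lit 4) (nat_lit 477) (nat_lit 314) (nat_lit 229)))))))
noncomputable def xc59 : XT := (XT.nd (nat_lit 1248) (nat_lit 152) (nat_lit 0) (XT.nd (nat_lit 624) (nat_lit 684) (nat_lit 0) (XT.nd (nat_lit 312) (nat_lit 228) (nat_lit 0) (XT.nd (nat_lit 156) (nat_lit 228) (nat_lit 0) (XT.nd (nat_lit 78) (nat_lit 0) (nat_lit 0) (XT.lf (nat_lit 0) (nat_lit 24402475532) (nat_lit 76) (nat_lit 82817833077) (nat_lit 76) (nat_lit 81537512956) (nat_lit 91) (nat_lit 4) (nat_lit 92) (nat_lit 5) (nat_lit 92) (nat_lit 4) (nat_lit 478) (nat_lit 314) (nat_lit 228)) (XT.lf (nat_lit 0) (nat_lit 157698105406) (nat_lit 76) (nat_lit 19277936850) (nat_lit 76) (nat_lit 17996684747) (nat_lit 91) (nat_lit 4) (nat_lit 92) (nat_lit 5) (nat_lit 92) (nat_lit 4) (nat_lit 479) (nat_lit 314) (nat_lit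 227))) (XT.nd (nat_lit 78) (nat_lit 76) (nat_lit 0) (XT.lf (nat_lit 0) (nat_lit 49385310890) (nat_lit 152) (nat_lit 103799632247) (nat_lit 0) (nat_lit 48164225454) (nat_lit 89) (nat_lit 5) (nat_lit 91) (nat_lit 4) (nat_lit 89) (nat_lit 4) (nat_lit 480) (nat_lit 314) (nat_lit 226)) (XT.lf (nat_lit 0) (nat_lit 32636747431) (nat_lit 76) (nat_lit 88272959306) (nat_lit 76) (nat_lit 87051068788) (nat_lit 88) (nat_lit 4) (nat_lit 89) (nat_lit 5) (nat_lit 89) (nat_lit 4) (nat_lit 481) (nat_lit 314) (nat_lit 225)))) (XT.nd (nat_lit 156) (nat_lit 76) (nat_lit 0) (XT.nd (nat_lit 78) (nat_lit 152) (nat_lit 0) (XT.lf (nat_lit 0) (nat_lit 179319031107) (nat_lit 76) (nat_lit 18361538304) (nat_lit 76) (nat_lit 17138881042) (nat_lit 88) (nat_lit 4) (nat_lit 89) (nat_lit 5) (nat_lit 89) (nat_lit 4) (nat_lit 482) (nat_lit 314) (nat_lit 224)) (XT.lf (nat_lit 0) (nat_lit 57063114451) (nat_lit 152) (nat_lit 108886277648)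 (nat_lit 0) (nat_lit 55897983502) (nat_lit 86) (nat_lit 5) (nat_lit 88) (nat_lit 4) (nat_lit 86) (nat_lit 4) (nat_lit 483) (nat_lit 314) (nat_lit 223))) (XT.nd (nat_lit 78) (nat_lit 0) (nat_lit 0) (XT.lf (nat_lit 0) (nat_lit 41442271864) (nat_lit 76) (nat_lit 94431228353) (nat_lit 76) (nat_lit 93265435061) (nat_lit 85) (nat_lit 4) (nat_lit 86) (nat_lit 5) (nat_lit 86) (nat_lit 4) (nat_lit 484) (nat_lit 314) (nat_lit 222)) (XT.lf (nat_lit 0) (nat_lit 202896479821) (nat_lit 76) (nat_lit 17488494384) (nat_lit 76) (nat_lit 16322070289) (nat_lit 85) (nat_lit 4) (nat_lit 86) (nat_lit 5) (nat_lit 86) (nat_lit 4) (nat_lit 485) (nat_lit 314) (nat_lit 221))))) (XT.nd (nat_lit 312) (nat_lit 304) (nat_lit 0) (XT.nd (nat_lit 156) (nat_lit 152) (nat_lit 0) (XT.nd (nat_lit 78) (nat_lit 76) (nat_lit 0) (XT.lf (nat_lit 0) (nat_lit 65403129407) (nat_lit 152) (nat_lit 114758522928) (nat_lit 0) (nat_lit 64291677160)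 (nat_lit 83) (nat_lit 5) (nat_lit 85) (nat_lit 4) (nat_lit 83) (nat_lit 4) (nat_lit 486) (nat_lit 314) (nat_lit 220)) (XT.lf (nat_lit 0) (nat_lit 50890548158) (nat_lit 76) (nat_lit 101357938838) (nat_lit 76) (nat_lit 100245941679) (nat_lit 82) (nat_lit 4) (nat_lit 83) (nat_lit 5) (nat_lit 83) (nat_lit 4) (nat_lit 487) (nat_lit 314) (nat_lit 219))) (XT.nd (nat_lit 78) (nat_lit 152) (nat_lit 0) (XT.lf (nat_lit 0) (nat_lit 228643317487) (nat_lit 76) (nat_lit 16656790829) (nat_lit 76) (nat_lit 15544274707) (nat_lit 82) (nat_lit 4) (nat_lit 83) (nat_lit 5) (nat_lit 83) (nat_lit 4) (nat_lit 488) (nat_lit 314) (nat_lit 218)) (XT.lf (nat_lit 0) (nat_lit 74479209203) (nat_lit 152) (nat_lit 121484345890) (nat_lit 0) (nat_lit 73419199325) (nat_lit 80) (nat_lit 5) (nat_lit 82) (nat_lit 4) (nat_lit 80) (nat_lit 4) (nat_lit 489) (nat_lit 314) (nat_lit 217)))) (XT.nd (nat_lit 156) (nat_lit 228) (nat_lit 0) (XT.nd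 (nat_lit 78) (nat_lit 0) (nat_lit 0) (XT.lf (nat_lit 0) (nat_lit 61059795408) (nat_lit 76) (nat_lit 109125390274) (nat_lit 76) (nat_lit 108064932095) (nat_lit 79) (nat_lit 4) (nat_lit 80) (nat_lit 5) (nat_lit 80) (nat_lit 4) (nat_lit 490) (nat_lit 314) (nat_lit 216)) (XT.lf (nat_lit 0) (nat_lit 256793649228) (nat_lit 76) (nat_lit 15864500388) (nat_lit 76) (nat_lit 14803615257) (nat_lit 79) (nat_lit 4) (nat_lit 80) (nat_lit 5) (nat_lit 80) (nat_lit 4) (nat_lit 491) (nat_lit 314) (nat_lit 215))) (XT.nd (nat_lit 78) (nat_lit 76) (nat_lit 0) (XT.lf (nat_lit 0) (nat_lit 84372486331) (nat_lit 152) (nat_lit 129139283176) (nat_lit 0) (nat_lit 83361732282) (nat_lit 77) (nat_lit 5) (nat_lit 79) (nat_lit 4) (nat_lit 77) (nat_lit 4) (nat_lit 492) (nat_lit 314) (nat_lit 214)) (XT.lf (nat_lit 0) (nat_lit 72035668910) (nat_lit 76) (nat_lit 117813588622) (nat_lit 76) (nat_lit 116802465755) (nat_lit 76) (nat_lit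 4) (nat_lit 77) (nat_lit 5) (nat_lit 77) (nat_lit 4) (nat_lit 493) (nat_lit 314) (nat_lit 213)))))) (XT.nd (nat_lit 45474) (nat_lit 0) (nat_lit 7600) (XT.nd (nat_lit 45162) (nat_lit 0) (nat_lit 8588) (XT.nd (nat_lit 45006) (nat_lit 0) (nat_lit 9044) (XT.nd (nat_lit 78) (nat_lit 152) (nat_lit 0) (XT.lf (nat_lit 0) (nat_lit 287605022687) (nat_lit 76) (nat_lit 15109780256) (nat_lit 76) (nat_lit 14098306134) (nat_lit 76) (nat_lit 4) (nat_lit 77) (nat_lit 5) (nat_lit 77) (nat_lit 4) (nat_lit 494) (nat_lit 314) (nat_lit 212)) (XT.lf (nat_lit 0) (nat_lit 95172133409) (nat_lit 152) (nat_lit 137807178023) (nat_lit 0) (nat_lit 94208506123) (nat_lit 74) (nat_lit 5) (nat_lit 76) (nat_lit 4) (nat_lit 74) (nat_lit 4) (nat_lit 495) (nat_lit 314) (nat_lit 211))) (XT.nd (nat_lit 78) (nat_lit 152) (nat_lit 0) (XT.lf (nat_lit 0) (nat_lit 3053844803) (nat_lit 152) (nat_lit 879849160) (nat_lit 0) (nat_lit 3053844803)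 (nat_lit 195) (nat_lit 5) (nat_lit 197) (nat_lit 4) (nat_lit 195) (nat_lit 4) (nat_lit 390) (nat_lit 315) (nat_lit 315)) (XT.lf (nat_lit 0) (nat_lit 12147351873) (nat_lit 152) (nat_lit 1250380137) (nat_lit 152) (nat_lit 908940947) (nat_lit 193) (nat_lit 4) (nat_lit 195) (nat_lit 5) (nat_lit 195) (nat_lit 4) (nat_lit 391) (nat_lit 315) (nat_lit 314)))) (XT.nd (nat_lit 156) (nat_lit 228) (nat_lit 0) (XT.nd (nat_lit 78) (nat_lit 76) (nat_lit 0) (XT.lf (nat_lit 0) (nat_lit 6264992505) (nat_lit 152) (nat_lit 2751128556) (nat_lit 0) (nat_lit 5630116913) (nat_lit 191) (nat_lit 5) (nat_lit 193) (nat_lit 4) (nat_lit 191) (nat_lit 4) (nat_lit 392) (nat_lit 315) (nat_lit 313)) (XT.lf (nat_lit 0) (nat_lit 11610437439) (nat_lit 76) (nat_lit 2160611858) (nat_lit 76) (nat_lit 1230788257) (nat_lit 190) (nat_lit 4) (nat_lit 191) (nat_lit 5) (nat_lit 191) (nat_lit 4) (nat_lit 393) (nat_lit 315) (nat_lit 312))) (XT.nd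 (nat_lit 78) (nat_lit 76) (nat_lit 0) (XT.lf (nat_lit 0) (nat_lit 6144851312) (nat_lit 152) (nat_lit 4230258647) (nat_lit 0) (nat_lit 4991778486) (nat_lit 188) (nat_lit 5) (nat_lit 190) (nat_lit 4) (nat_lit 188) (nat_lit 4) (nat_lit 394) (nat_lit 315) (nat_lit 311)) (XT.lf (nat_lit 0) (nat_lit 10591130936) (nat_lit 76) (nat_lit 3282317598) (nat_lit 76) (nat_lit 1874457591) (nat_lit 187) (nat_lit 4) (nat_lit 188) (nat_lit 5) (nat_lit 188) (nat_lit 4) (nat_lit 395) (nat_lit 315) (nat_lit 310))))) (XT.nd (nat_lit 312) (nat_lit 532) (nat_lit 0) (XT.nd (nat_lit 156) (nat_lit 228) (nat_lit 0) (XT.nd (nat_lit 78) (nat_lit 76) (nat_lit 0) (XT.lf (nat_lit 0) (nat_lit 5715008719) (nat_lit 152) (nat_lit 6282244445) (nat_lit 0) (nat_lit 4143090181) (nat_lit 185) (nat_lit 5) (nat_lit 187) (nat_lit 4) (nat_lit 185) (nat_lit 4) (nat_lit 396) (nat_lit 315) (nat_lit 309)) (XT.lf (nat_lit 0) (nat_lit 9002931701)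 (nat_lit 76) (nat_lit 4668706682) (nat_lit 76) (nat_lit 2876693398) (nat_lit 184) (nat_lit 4) (nat_lit 185) (nat_lit 5) (nat_lit 185) (nat_lit 4) (nat_lit 397) (nat_lit 315) (nat_lit 308))) (XT.nd (nat_lit 78) (nat_lit 76) (nat_lit 0) (XT.lf (nat_lit 0) (nat_lit 4937933696) (nat_lit 152) (nat_lit 9000713963) (nat_lit 0) (nat_lit 3031621955) (nat_lit 182) (nat_lit 5) (nat_lit 184) (nat_lit 4) (nat_lit 182) (nat_lit 4) (nat_lit 398) (nat_lit 315) (nat_lit 307)) (XT.lf (nat_lit 0) (nat_lit 6750605978) (nat_lit 76) (nat_lit 6376379900) (nat_lit 76) (nat_lit 4279942042) (nat_lit 181) (nat_lit 4) (nat_lit 182) (nat_lit 5) (nat_lit 182) (nat_lit 4) (nat_lit 399) (nat_lit 315) (nat_lit 306)))) (XT.nd (nat_lit 156) (nat_lit 304) (nat_lit 0) (XT.nd (nat_lit 78) (nat_lit 76) (nat_lit 0) (XT.lf (nat_lit 0) (nat_lit 3770438631) (nat_lit 152) (nat_lit 12488890354) (nat_lit 0) (nat_lit 1601381154) (nat_lit 179)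 (nat_lit 5) (nat_lit 181) (nat_lit 4) (nat_lit 179) (nat_lit 4) (nat_lit 400) (nat_lit 315) (nat_lit 305)) (XT.lf (nat_lit 0) (nat_lit 3729035158) (nat_lit 76) (nat_lit 8466076673) (nat_lit 76) (nat_lit 6132781108) (nat_lit 178) (nat_lit 4) (nat_lit 179) (nat_lit 5) (nat_lit 179) (nat_lit 4) (nat_lit 401) (nat_lit 315) (nat_lit 304))) (XT.nd (nat_lit 78) (nat_lit 152) (nat_lit 0) (XT.lf (nat_lit 0) (nat_lit 1951782757) (nat_lit 76) (nat_lit 214800437) (nat_lit 152) (nat_lit 16649359851) (nat_lit 176) (nat_lit 5) (nat_lit 177) (nat_lit 5) (nat_lit 178) (nat_lit 4) (nat_lit 402) (nat_lit 315) (nat_lit 303)) (XT.nd (nat_lit 78) (nat_lit 152) (nat_lit 0) (XT.lf (nat_lit 0) (nat_lit 10828198210) (nat_lit 152) (nat_lit 172333232) (nat_lit 0) (nat_lit 8315168135) (nat_lit 176) (nat_lit 5) (nat_lit 178) (nat_lit 4) (nat_lit 176) (nat_lit 4) (nat_lit 403) (nat_lit 315) (nat_lit 302)) (XT.lf (nat_lit 0)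 (nat_lit 138231843) (nat_lit 152) (nat_lit 2364773879) (nat_lit 76) (nat_lit 17334452815) (nat_lit 174) (nat_lit 5) (nat_lit 176) (nat_lit 5) (nat_lit 175) (nat_lit 4) (nat_lit 404) (nat_lit 315) (nat_lit 301))))))))
noncomputable def xc60 : XT := (XT.nd (nat_lit 2496) (nat_lit 2508) (nat_lit 0) (XT.nd (nat_lit 1248) (nat_lit 1368) (nat_lit 0) (XT.nd (nat_lit 624) (nat_lit 760) (nat_lit 0) (XT.nd (nat_lit 312) (nat_lit 380) (nat_lit 0) (XT.nd (nat_lit 156) (nat_lit 228) (nat_lit 0) (XT.nd (nat_lit 78) (nat_lit 76) (nat_lit 0) (XT.lf (nat_lit 0) (nat_lit 9040161695) (nat_lit 152) (nat_lit 4936121608) (nat_lit 0) (nat_lit 6395557888) (nat_lit 173) (nat_lit 5) (nat_lit 175) (nat_lit 4) (nat_lit 173) (nat_lit 4) (nat_lit 405) (nat_lit 315) (nat_lit 300)) (XT.lf (nat_lit 0) (nat_lit 13223474708) (nat_lit 76) (nat_lit 5233648140) (nat_lit 76) (nat_lit 2472323390) (nat_lit 172) (nat_lit 4) (nat_lit 173)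 (nat_lit 5) (nat_lit 173) (nat_lit 4) (nat_lit 406) (nat_lit 315) (nat_lit 299))) (XT.nd (nat_lit 78) (nat_lit 76) (nat_lit 0) (XT.lf (nat_lit 0) (nat_lit 6710269029) (nat_lit 152) (nat_lit 10819820580) (nat_lit 0) (nat_lit 3974566598) (nat_lit 170) (nat_lit 5) (nat_lit 172) (nat_lit 4) (nat_lit 170) (nat_lit 4) (nat_lit 407) (nat_lit 315) (nat_lit 298)) (XT.lf (nat_lit 0) (nat_lit 7847311229) (nat_lit 76) (nat_lit 8544828780) (nat_lit 76) (nat_lit 5708298409) (nat_lit 169) (nat_lit 4) (nat_lit 170) (nat_lit 5) (nat_lit 170) (nat_lit 4) (nat_lit 408) (nat_lit 315) (nat_lit 297)))) (XT.nd (nat_lit 156) (nat_lit 152) (nat_lit 0) (XT.nd (nat_lit 78) (nat_lit 76) (nat_lit 0) (XT.lf (nat_lit 0) (nat_lit 3768169448) (nat_lit 152) (nat_lit 17976654484) (nat_lit 0) (nat_lit 975258039) (nat_lit 167) (nat_lit 5) (nat_lit 169) (nat_lit 4) (nat_lit 167) (nat_lit 4) (nat_lit 409) (nat_lit 315) (nat_lit 296))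 (XT.lf (nat_lit 0) (nat_lit 1190018951) (nat_lit 76) (nat_lit 12523341691) (nat_lit 76) (nat_lit 9643331317) (nat_lit 166) (nat_lit 4) (nat_lit 167) (nat_lit 5) (nat_lit 167) (nat_lit 4) (nat_lit 410) (nat_lit 315) (nat_lit 295))) (XT.nd (nat_lit 78) (nat_lit 76) (nat_lit 0) (XT.lf (nat_lit 0) (nat_lit 218806805) (nat_lit 152) (nat_lit 2514407817) (nat_lit 76) (nat_lit 21287200293) (nat_lit 165) (nat_lit 5) (nat_lit 167) (nat_lit 5) (nat_lit 166) (nat_lit 4) (nat_lit 411) (nat_lit 315) (nat_lit 294)) (XT.lf (nat_lit 0) (nat_lit 10447985667) (nat_lit 152) (nat_lit 6700655374) (nat_lit 0) (nat_lit 7550877955) (nat_lit 164) (nat_lit 5) (nat_lit 166) (nat_lit 4) (nat_lit 164) (nat_lit 4) (nat_lit 412) (nat_lit 315) (nat_lit 293))))) (XT.nd (nat_lit 312) (nat_lit 304) (nat_lit 0) (XT.nd (nat_lit 156) (nat_lit 228) (nat_lit 0) (XT.nd (nat_lit 78) (nat_lit 152) (nat_lit 0) (XT.lf (nat_lit 0) (nat_lit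 14207820558) (nat_lit 76) (nat_lit 7084176642) (nat_lit 76) (nat_lit 4115412396) (nat_lit 163) (nat_lit 4) (nat_lit 164) (nat_lit 5) (nat_lit 164) (nat_lit 4) (nat_lit 413) (nat_lit 315) (nat_lit 292)) (XT.lf (nat_lit 0) (nat_lit 6441681650) (nat_lit 152) (nat_lit 16148470481) (nat_lit 0) (nat_lit 3549292541) (nat_lit 161) (nat_lit 5) (nat_lit 163) (nat_lit 4) (nat_lit 161) (nat_lit 4) (nat_lit 414) (nat_lit 315) (nat_lit 291))) (XT.nd (nat_lit 78) (nat_lit 152) (nat_lit 0) (XT.lf (nat_lit 0) (nat_lit 5297758740) (nat_lit 76) (nat_lit 12275983673) (nat_lit 76) (nat_lit 9321694956) (nat_lit 160) (nat_lit 4) (nat_lit 161) (nat_lit 5) (nat_lit 161) (nat_lit 4) (nat_lit 415) (nat_lit 315) (nat_lit 290)) (XT.lf (nat_lit 0) (nat_lit 264312339) (nat_lit 76) (nat_lit 1334494033) (nat_lit 152) (nat_lit 26085396179) (nat_lit 158) (nat_lit 5) (nat_lit 159) (nat_lit 5) (nat_lit 160) (nat_lit 4) (nat_lit 416)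 (nat_lit 315) (nat_lit 289)))) (XT.nd (nat_lit 156) (nat_lit 228) (nat_lit 0) (XT.nd (nat_lit 78) (nat_lit 76) (nat_lit 0) (XT.lf (nat_lit 0) (nat_lit 13076432894) (nat_lit 152) (nat_lit 5258905238) (nat_lit 0) (nat_lit 10153208614) (nat_lit 158) (nat_lit 5) (nat_lit 160) (nat_lit 4) (nat_lit 158) (nat_lit 4) (nat_lit 417) (nat_lit 315) (nat_lit 288)) (XT.lf (nat_lit 0) (nat_lit 18173076596) (nat_lit 76) (nat_lit 7064353173) (nat_lit 76) (nat_lit 4090203932) (nat_lit 157) (nat_lit 4) (nat_lit 158) (nat_lit 5) (nat_lit 158) (nat_lit 4) (nat_lit 418) (nat_lit 315) (nat_lit 287))) (XT.nd (nat_lit 78) (nat_lit 76) (nat_lit 0) (XT.lf (nat_lit 0) (nat_lit 7718097852) (nat_lit 152) (nat_lit 17636611815) (nat_lit 0) (nat_lit 4839384325) (nat_lit 155) (nat_lit 5) (nat_lit 157) (nat_lit 4) (nat_lit 155) (nat_lit 4) (nat_lit 419) (nat_lit 315) (nat_lit 286)) (XT.lf (nat_lit 0) (nat_lit 6368774253) (nat_lit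 76) (nat_lit 13821943405) (nat_lit 76) (nat_lit 10899238982) (nat_lit 154) (nat_lit 4) (nat_lit 155) (nat_lit 5) (nat_lit 155) (nat_lit 4) (nat_lit 420) (nat_lit 315) (nat_lit 285)))))) (XT.nd (nat_lit 624) (nat_lit 684) (nat_lit 0) (XT.nd (nat_lit 312) (nat_lit 304) (nat_lit 0) (XT.nd (nat_lit 156) (nat_lit 228) (nat_lit 0) (XT.nd (nat_lit 78) (nat_lit 76) (nat_lit 0) (XT.lf (nat_lit 0) (nat_lit 1323908666) (nat_lit 152) (nat_lit 250587747) (nat_lit 76) (nat_lit 30449747052) (nat_lit 153) (nat_lit 5) (nat_lit 155) (nat_lit 5) (nat_lit 154) (nat_lit 4) (nat_lit 421) (nat_lit 315) (nat_lit 284)) (XT.lf (nat_lit 0) (nat_lit 14189544224) (nat_lit 152) (nat_lit 7458771610) (nat_lit 0) (nat_lit 11328114173) (nat_lit 152) (nat_lit 5) (nat_lit 154) (nat_lit 4) (nat_lit 152) (nat_lit 4) (nat_lit 422) (nat_lit 315) (nat_lit 283))) (XT.nd (nat_lit 78) (nat_lit 152) (nat_lit 0) (XT.lf (nat_lit 0) (nat_lit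 18804643563) (nat_lit 76) (nat_lit 9031168138) (nat_lit 76) (nat_lit 6133546669) (nat_lit 151) (nat_lit 4) (nat_lit 152) (nat_lit 5) (nat_lit 152) (nat_lit 4) (nat_lit 423) (nat_lit 315) (nat_lit 282)) (XT.lf (nat_lit 0) (nat_lit 7115050349) (nat_lit 152) (nat_lit 23559139418) (nat_lit 0) (nat_lit 4322584170) (nat_lit 149) (nat_lit 5) (nat_lit 151) (nat_lit 4) (nat_lit 149) (nat_lit 4) (nat_lit 424) (nat_lit 315) (nat_lit 281)))) (XT.nd (nat_lit 156) (nat_lit 228) (nat_lit 0) (XT.nd (nat_lit 78) (nat_lit 0) (nat_lit 0) (XT.lf (nat_lit 0) (nat_lit 3308435190) (nat_lit 76) (nat_lit 17786050251) (nat_lit 76) (nat_lit 14962320564) (nat_lit 148) (nat_lit 4) (nat_lit 149) (nat_lit 5) (nat_lit 149) (nat_lit 4) (nat_lit 425) (nat_lit 315) (nat_lit 280)) (XT.lf (nat_lit 0) (nat_lit 31964903559) (nat_lit 76) (nat_lit 4023824397) (nat_lit 76) (nat_lit 1170319940) (nat_lit 148) (nat_lit 4) (nat_lit 149) (nat_lit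 5) (nat_lit 149) (nat_lit 4) (nat_lit 426) (nat_lit 315) (nat_lit 279))) (XT.nd (nat_lit 78) (nat_lit 76) (nat_lit 0) (XT.lf (nat_lit 0) (nat_lit 13251108655) (nat_lit 152) (nat_lit 14530129531) (nat_lit 0) (nat_lit 10506478769) (nat_lit 146) (nat_lit 5) (nat_lit 148) (nat_lit 4) (nat_lit 146) (nat_lit 4) (nat_lit 427) (nat_lit 315) (nat_lit 278)) (XT.lf (nat_lit 0) (nat_lit 14898442729) (nat_lit 76) (nat_lit 13666614483) (nat_lit 76) (nat_lit 10896264031) (nat_lit 145) (nat_lit 4) (nat_lit 146) (nat_lit 5) (nat_lit 146) (nat_lit 4) (nat_lit 428) (nat_lit 315) (nat_lit 277))))) (XT.nd (nat_lit 312) (nat_lit 304) (nat_lit 0) (XT.nd (nat_lit 156) (nat_lit 228) (nat_lit 0) (XT.nd (nat_lit 78) (nat_lit 0) (nat_lit 0) (XT.lf (nat_lit 0) (nat_lit 4003015266) (nat_lit 152) (nat_lit 35337330260) (nat_lit 0) (nat_lit 1341256953) (nat_lit 143) (nat_lit 5) (nat_lit 145) (nat_lit 4) (nat_lit 143) (nat_lit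 4) (nat_lit 429) (nat_lit 315) (nat_lit 276)) (XT.lf (nat_lit 0) (nat_lit 19750837585) (nat_lit 152) (nat_lit 5112779699) (nat_lit 0) (nat_lit 17066860880) (nat_lit 143) (nat_lit 5) (nat_lit 145) (nat_lit 4) (nat_lit 143) (nat_lit 4) (nat_lit 430) (nat_lit 315) (nat_lit 275))) (XT.nd (nat_lit 78) (nat_lit 152) (nat_lit 0) (XT.lf (nat_lit 0) (nat_lit 27148353582) (nat_lit 76) (nat_lit 9392910244) (nat_lit 76) (nat_lit 6687773166) (nat_lit 142) (nat_lit 4) (nat_lit 143) (nat_lit 5) (nat_lit 143) (nat_lit 4) (nat_lit 431) (nat_lit 315) (nat_lit 274)) (XT.lf (nat_lit 0) (nat_lit 9563850223) (nat_lit 152) (nat_lit 28038272896) (nat_lit 0) (nat_lit 6968336114) (nat_lit 140) (nat_lit 5) (nat_lit 142) (nat_lit 4) (nat_lit 140) (nat_lit 4) (nat_lit 432) (nat_lit 315) (nat_lit 273)))) (XT.nd (nat_lit 156) (nat_lit 228) (nat_lit 0) (XT.nd (nat_lit 78) (nat_lit 0) (nat_lit 0) (XT.lf (nat_lit 0) (nat_lit 4914192822)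 (nat_lit 76) (nat_lit 21828061787) (nat_lit 76) (nat_lit 19214268553) (nat_lit 139) (nat_lit 4) (nat_lit 140) (nat_lit 5) (nat_lit 140) (nat_lit 4) (nat_lit 433) (nat_lit 315) (nat_lit 272)) (XT.lf (nat_lit 0) (nat_lit 40149591733) (nat_lit 76) (nat_lit 4939024319) (nat_lit 76) (nat_lit 2307822393) (nat_lit 139) (nat_lit 4) (nat_lit 140) (nat_lit 5) (nat_lit 140) (nat_lit 4) (nat_lit 434) (nat_lit 315) (nat_lit 271))) (XT.nd (nat_lit 78) (nat_lit 76) (nat_lit 0) (XT.lf (nat_lit 0) (nat_lit 15443856975) (nat_lit 152) (nat_lit 20505565489) (nat_lit 0) (nat_lit 12922160183) (nat_lit 137) (nat_lit 5) (nat_lit 139) (nat_lit 4) (nat_lit 137) (nat_lit 4) (nat_lit 435) (nat_lit 315) (nat_lit 270)) (XT.lf (nat_lit 0) (nat_lit 15649465200) (nat_lit 76) (nat_lit 18645691285) (nat_lit 76) (nat_lit 16108956210) (nat_lit 136) (nat_lit 4) (nat_lit 137) (nat_lit 5) (nat_lit 137) (nat_lit 4) (nat_lit 436) (nat_lit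 315) (nat_lit 269))))))) (XT.nd (nat_lit 1248) (nat_lit 1216) (nat_lit 0) (XT.nd (nat_lit 624) (nat_lit 608) (nat_lit 0) (XT.nd (nat_lit 312) (nat_lit 304) (nat_lit 0) (XT.nd (nat_lit 156) (nat_lit 228) (nat_lit 0) (XT.nd (nat_lit 78) (nat_lit 0) (nat_lit 0) (XT.lf (nat_lit 0) (nat_lit 2027647256) (nat_lit 76) (nat_lit 205867135) (nat_lit 152) (nat_lit 49766924454) (nat_lit 134) (nat_lit 5) (nat_lit 135) (nat_lit 5) (nat_lit 136) (nat_lit 4) (nat_lit 437) (nat_lit 315) (nat_lit 268)) (XT.lf (nat_lit 0) (nat_lit 21688678262) (nat_lit 152) (nat_lit 12691742866) (nat_lit 0) (nat_lit 19246109297) (nat_lit 134) (nat_lit 5) (nat_lit 136) (nat_lit 4) (nat_lit 134) (nat_lit 4) (nat_lit 438) (nat_lit 315) (nat_lit 267))) (XT.nd (nat_lit 78) (nat_lit 152) (nat_lit 0) (XT.lf (nat_lit 0) (nat_lit 27002378371) (nat_lit 76) (nat_lit 15386439175) (nat_lit 76) (nat_lit 12931498178) (nat_lit 133) (nat_lit 4) (nat_lit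 134) (nat_lit 5) (nat_lit 134) (nat_lit 4) (nat_lit 439) (nat_lit 315) (nat_lit 266)) (XT.lf (nat_lit 0) (nat_lit 7130420679) (nat_lit 152) (nat_lit 45165220810) (nat_lit 0) (nat_lit 4781159837) (nat_lit 131) (nat_lit 5) (nat_lit 133) (nat_lit 4) (nat_lit 131) (nat_lit 4) (nat_lit 440) (nat_lit 315) (nat_lit 265)))) (XT.nd (nat_lit 156) (nat_lit 228) (nat_lit 0) (XT.nd (nat_lit 78) (nat_lit 76) (nat_lit 0) (XT.lf (nat_lit 0) (nat_lit 28347845121) (nat_lit 152) (nat_lit 4545420007) (nat_lit 0) (nat_lit 25987896852) (nat_lit 131) (nat_lit 5) (nat_lit 133) (nat_lit 4) (nat_lit 131) (nat_lit 4) (nat_lit 441) (nat_lit 315) (nat_lit 264)) (XT.lf (nat_lit 0) (nat_lit 39058430828) (nat_lit 76) (nat_lit 12032108345) (nat_lit 76) (nat_lit 9661981575) (nat_lit 130) (nat_lit 4) (nat_lit 131) (nat_lit 5) (nat_lit 131) (nat_lit 4) (nat_lit 442) (nat_lit 315) (nat_lit 263))) (XT.nd (nat_lit 78) (nat_lit 76) (nat_lit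 0) (XT.lf (nat_lit 0) (nat_lit 12307105045) (nat_lit 152) (nat_lit 40337850304) (nat_lit 0) (nat_lit 10040609254) (nat_lit 128) (nat_lit 5) (nat_lit 130) (nat_lit 4) (nat_lit 128) (nat_lit 4) (nat_lit 443) (nat_lit 315) (nat_lit 262)) (XT.lf (nat_lit 0) (nat_lit 4121022274) (nat_lit 76) (nat_lit 31418562427) (nat_lit 76) (nat_lit 29143274064) (nat_lit 127) (nat_lit 4) (nat_lit 128) (nat_lit 5) (nat_lit 128) (nat_lit 4) (nat_lit 444) (nat_lit 315) (nat_lit 261))))) (XT.nd (nat_lit 312) (nat_lit 380) (nat_lit 0) (XT.nd (nat_lit 156) (nat_lit 76) (nat_lit 0) (XT.nd (nat_lit 78) (nat_lit 152) (nat_lit 0) (XT.lf (nat_lit 0) (nat_lit 51910969206) (nat_lit 76) (nat_lit 8562852013) (nat_lit 76) (nat_lit 6279189771) (nat_lit 127) (nat_lit 4) (nat_lit 128) (nat_lit 5) (nat_lit 128) (nat_lit 4) (nat_lit 445) (nat_lit 315) (nat_lit 260)) (XT.lf (nat_lit 0) (nat_lit 17800024066) (nat_lit 152) (nat_lit 35463328442)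 (nat_lit 0) (nat_lit 15617512291) (nat_lit 125) (nat_lit 5) (nat_lit 127) (nat_lit 4) (nat_lit 125) (nat_lit 4) (nat_lit 446) (nat_lit 315) (nat_lit 259))) (XT.nd (nat_lit 78) (nat_lit 0) (nat_lit 0) (XT.lf (nat_lit 0) (nat_lit 13401334797) (nat_lit 76) (nat_lit 29937520568) (nat_lit 76) (nat_lit 27747775123) (nat_lit 124) (nat_lit 4) (nat_lit 125) (nat_lit 5) (nat_lit 125) (nat_lit 4) (nat_lit 447) (nat_lit 315) (nat_lit 258)) (XT.lf (nat_lit 0) (nat_lit 65662011275) (nat_lit 76) (nat_lit 4957043263) (nat_lit 76) (nat_lit 2760408607) (nat_lit 124) (nat_lit 4) (nat_lit 125) (nat_lit 5) (nat_lit 125) (nat_lit 4) (nat_lit 448) (nat_lit 315) (nat_lit 257)))) (XT.nd (nat_lit 156) (nat_lit 152) (nat_lit 0) (XT.nd (nat_lit 78) (nat_lit 76) (nat_lit 0) (XT.lf (nat_lit 0) (nat_lit 23652273527) (nat_lit 152) (nat_lit 30515978724) (nat_lit 0) (nat_lit 21553991805) (nat_lit 122) (nat_lit 5) (nat_lit 124)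 (nat_lit 4) (nat_lit 122) (nat_lit 4) (nat_lit 449) (nat_lit 315) (nat_lit 256)) (XT.lf (nat_lit 0) (nat_lit 23213235374) (nat_lit 76) (nat_lit 28524330837) (nat_lit 76) (nat_lit 26420097956) (nat_lit 121) (nat_lit 4) (nat_lit 122) (nat_lit 5) (nat_lit 122) (nat_lit 4) (nat_lit 450) (nat_lit 315) (nat_lit 255))) (XT.nd (nat_lit 78) (nat_lit 76) (nat_lit 0) (XT.lf (nat_lit 0) (nat_lit 889373254) (nat_lit 152) (nat_lit 286685478) (nat_lit 76) (nat_lit 79518721616) (nat_lit 120) (nat_lit 5) (nat_lit 122) (nat_lit 5) (nat_lit 121) (nat_lit 4) (nat_lit 451) (nat_lit 315) (nat_lit 254)) (XT.lf (nat_lit 0) (nat_lit 29910773949) (nat_lit 152) (nat_lit 25468401426) (nat_lit 0) (nat_lit 27896203922) (nat_lit 119) (nat_lit 5) (nat_lit 121) (nat_lit 4) (nat_lit 119) (nat_lit 4) (nat_lit 452) (nat_lit 315) (nat_lit 253)))))) (XT.nd (nat_lit 624) (nat_lit 532) (nat_lit 0) (XT.nd (nat_lit 312) (nat_lit 380) (nat_lit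 0) (XT.nd (nat_lit 156) (nat_lit 76) (nat_lit 0) (XT.nd (nat_lit 78) (nat_lit 152) (nat_lit 0) (XT.lf (nat_lit 0) (nat_lit 33630811663) (nat_lit 76) (nat_lit 27176236216) (nat_lit 76) (nat_lit 25156770156) (nat_lit 118) (nat_lit 4) (nat_lit 119) (nat_lit 5) (nat_lit 119) (nat_lit 4) (nat_lit 453) (nat_lit 315) (nat_lit 252)) (XT.lf (nat_lit 0) (nat_lit 4798372391) (nat_lit 152) (nat_lit 81090207485) (nat_lit 0) (nat_lit 2870630536) (nat_lit 116) (nat_lit 5) (nat_lit 118) (nat_lit 4) (nat_lit 116) (nat_lit 4) (nat_lit 454) (nat_lit 315) (nat_lit 251))) (XT.nd (nat_lit 78) (nat_lit 76) (nat_lit 0) (XT.lf (nat_lit 0) (nat_lit 36626705723) (nat_lit 152) (nat_lit 20291268586) (nat_lit 0) (nat_lit 34694734490) (nat_lit 116) (nat_lit 5) (nat_lit 118) (nat_lit 4) (nat_lit 116) (nat_lit 4) (nat_lit 455) (nat_lit 315) (nat_lit 250)) (XT.lf (nat_lit 0) (nat_lit 44734879908) (nat_lit 76) (nat_lit 25890526928)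 (nat_lit 76) (nat_lit 23954527716) (nat_lit 115) (nat_lit 4) (nat_lit 116) (nat_lit 5) (nat_lit 116) (nat_lit 4) (nat_lit 456) (nat_lit 315) (nat_lit 249)))) (XT.nd (nat_lit 156) (nat_lit 228) (nat_lit 0) (XT.nd (nat_lit 78) (nat_lit 0) (nat_lit 0) (XT.lf (nat_lit 0) (nat_lit 8949172218) (nat_lit 152) (nat_lit 81608062784) (nat_lit 0) (nat_lit 7101709950) (nat_lit 113) (nat_lit 5) (nat_lit 115) (nat_lit 4) (nat_lit 113) (nat_lit 4) (nat_lit 457) (nat_lit 315) (nat_lit 248)) (XT.lf (nat_lit 0) (nat_lit 43855984155) (nat_lit 152) (nat_lit 14953096681) (nat_lit 0) (nat_lit 42005042367) (nat_lit 113) (nat_lit 5) (nat_lit 115) (nat_lit 4) (nat_lit 113) (nat_lit 4) (nat_lit 458) (nat_lit 315) (nat_lit 247))) (XT.nd (nat_lit 78) (nat_lit 152) (nat_lit 0) (XT.lf (nat_lit 0) (nat_lit 56613703795) (nat_lit 76) (nat_lit 24664553089) (nat_lit 76) (nat_lit 22810297473) (nat_lit 112) (nat_lit 4) (nat_lit 113)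 (nat_lit 5) (nat_lit 113) (nat_lit 4) (nat_lit 459) (nat_lit 315) (nat_lit 246)) (XT.lf (nat_lit 0) (nat_lit 13350135927) (nat_lit 152) (nat_lit 82549079323) (nat_lit 0) (nat_lit 11581172459) (nat_lit 110) (nat_lit 5) (nat_lit 112) (nat_lit 4) (nat_lit 110) (nat_lit 4) (nat_lit 460) (nat_lit 315) (nat_lit 245))))) (XT.nd (nat_lit 312) (nat_lit 304) (nat_lit 0) (XT.nd (nat_lit 156) (nat_lit 152) (nat_lit 0) (XT.nd (nat_lit 78) (nat_lit 76) (nat_lit 0) (XT.lf (nat_lit 0) (nat_lit 51659779199) (nat_lit 152) (nat_lit 9419995255) (nat_lit 0) (nat_lit 49887953121) (nat_lit 110) (nat_lit 5) (nat_lit 112) (nat_lit 4) (nat_lit 110) (nat_lit 4) (nat_lit 461) (nat_lit 315) (nat_lit 244)) (XT.lf (nat_lit 0) (nat_lit 69363787717) (nat_lit 76) (nat_lit 23495734115) (nat_lit 76) (nat_lit 21721181743) (nat_lit 109) (nat_lit 4) (nat_lit 110) (nat_lit 5) (nat_lit 110) (nat_lit 4) (nat_lit 462) (nat_lit 315) (nat_lit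 243))) (XT.nd (nat_lit 78) (nat_lit 0) (nat_lit 0) (XT.lf (nat_lit 0) (nat_lit 18035439938) (nat_lit 152) (nat_lit 83939195553) (nat_lit 0) (nat_lit 16342917230) (nat_lit 107) (nat_lit 5) (nat_lit 109) (nat_lit 4) (nat_lit 107) (nat_lit 4) (nat_lit 463) (nat_lit 315) (nat_lit 242)) (XT.lf (nat_lit 0) (nat_lit 60105085050) (nat_lit 152) (nat_lit 3655389438) (nat_lit 0) (nat_lit 58410207266) (nat_lit 107) (nat_lit 5) (nat_lit 109) (nat_lit 4) (nat_lit 107) (nat_lit 4) (nat_lit 464) (nat_lit 315) (nat_lit 241)))) (XT.nd (nat_lit 156) (nat_lit 76) (nat_lit 0) (XT.nd (nat_lit 78) (nat_lit 152) (nat_lit 0) (XT.lf (nat_lit 0) (nat_lit 83090751695) (nat_lit 76) (nat_lit 22381565508) (nat_lit 76) (nat_lit 20684444795) (nat_lit 106) (nat_lit 4) (nat_lit 107) (nat_lit 5) (nat_lit 107) (nat_lit 4) (nat_lit 465) (nat_lit 315) (nat_lit 240)) (XT.lf (nat_lit 0) (nat_lit 23042324129) (nat_lit 152) (nat_lit 85807805667)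 (nat_lit 0) (nat_lit 21423984286) (nat_lit 104) (nat_lit 5) (nat_lit 106) (nat_lit 4) (nat_lit 104) (nat_lit 4) (nat_lit 466) (nat_lit 315) (nat_lit 239))) (XT.nd (nat_lit 78) (nat_lit 0) (nat_lit 0) (XT.lf (nat_lit 0) (nat_lit 2458988981) (nat_lit 76) (nat_lit 66844747889) (nat_lit 76) (nat_lit 65224470519) (nat_lit 103) (nat_lit 4) (nat_lit 104) (nat_lit 5) (nat_lit 104) (nat_lit 4) (nat_lit 467) (nat_lit 315) (nat_lit 238)) (XT.lf (nat_lit 0) (nat_lit 97910295978) (nat_lit 76) (nat_lit 21319623527) (nat_lit 76) (nat_lit 19697500894) (nat_lit 103) (nat_lit 4) (nat_lit 104) (nat_lit 5) (nat_lit 104) (nat_lit 4) (nat_lit 468) (nat_lit 315) (nat_lit 237))))))))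
noncomputable def xc61 : XT := (XT.nd (nat_lit 1248) (nat_lit 760) (nat_lit 0) (XT.nd (nat_lit 624) (nat_lit 608) (nat_lit 0) (XT.nd (nat_lit 312) (nat_lit 304) (nat_lit 0) (XT.nd (nat_lit 156) (nat_lit 152) (nat_lit 0) (XT.nd (nat_lit 78) (nat_lit 76) (nat_lit 0) (XT.lf (nat_lit 0) (nat_lit 28411432666) (nat_lit 152) (nat_lit 88188081750) (nat_lit 0) (nat_lit 26864880259) (nat_lit 101) (nat_lit 5) (nat_lit 103) (nat_lit 4) (nat_lit 101) (nat_lit 4) (nat_lit 469) (nat_lit 315) (nat_lit 236)) (XT.lf (nat_lit 0) (nat_lit 9018574258) (nat_lit 76) (nat_lit 70343369757) (nat_lit 76) (nat_lit 68795223342) (nat_lit 100) (nat_lit 4) (nat_lit 101) (nat_lit 5) (nat_lit 101) (nat_lit 4) (nat_lit 470) (nat_lit 315) (nat_lit 235))) (XT.nd (nat_lit 78) (nat_lit 152) (nat_lit 0) (XT.lf (nat_lit 0) (nat_lit 113949264264) (nat_lit 76) (nat_lit 20307568175) (nat_lit 76) (nat_lit 18757903658) (nat_lit 100) (nat_lit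 4) (nat_lit 101) (nat_lit 5) (nat_lit 101) (nat_lit 4) (nat_lit 471) (nat_lit 315) (nat_lit 234)) (XT.lf (nat_lit 0) (nat_lit 34187187443) (nat_lit 152) (nat_lit 91117329427) (nat_lit 0) (nat_lit 32709939509) (nat_lit 98) (nat_lit 5) (nat_lit 100) (nat_lit 4) (nat_lit 98) (nat_lit 4) (nat_lit 472) (nat_lit 315) (nat_lit 233)))) (XT.nd (nat_lit 156) (nat_lit 228) (nat_lit 0) (XT.nd (nat_lit 78) (nat_lit 0) (nat_lit 0) (XT.lf (nat_lit 0) (nat_lit 15950634261) (nat_lit 76) (nat_lit 74359335573) (nat_lit 76) (nat_lit 72880776245) (nat_lit 97) (nat_lit 4) (nat_lit 98) (nat_lit 5) (nat_lit 98) (nat_lit 4) (nat_lit 473) (nat_lit 315) (nat_lit 232)) (XT.lf (nat_lit 0) (nat_lit 131346815450) (nat_lit 76) (nat_lit 19343144821) (nat_lit 76) (nat_lit 17863336547) (nat_lit 97) (nat_lit 4) (nat_lit 98) (nat_lit 5) (nat_lit 98) (nat_lit 4) (nat_lit 474) (nat_lit 315) (nat_lit 231))) (XT.nd (nat_lit 78) (nat_lit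 76) (nat_lit 0) (XT.lf (nat_lit 0) (nat_lit 40418197773) (nat_lit 152) (nat_lit 94637380615) (nat_lit 0) (nat_lit 39007723728) (nat_lit 95) (nat_lit 5) (nat_lit 97) (nat_lit 4) (nat_lit 95) (nat_lit 4) (nat_lit 475) (nat_lit 315) (nat_lit 230)) (XT.lf (nat_lit 0) (nat_lit 23307543346) (nat_lit 76) (nat_lit 78938279121) (nat_lit 76) (nat_lit 77526726188) (nat_lit 94) (nat_lit 4) (nat_lit 95) (nat_lit 5) (nat_lit 95) (nat_lit 4) (nat_lit 476) (nat_lit 315) (nat_lit 229))))) (XT.nd (nat_lit 312) (nat_lit 380) (nat_lit 0) (XT.nd (nat_lit 156) (nat_lit 76) (nat_lit 0) (XT.nd (nat_lit 78) (nat_lit 152) (nat_lit 0) (XT.lf (nat_lit 0) (nat_lit 150255714885) (nat_lit 76) (nat_lit 18424184759) (nat_lit 76) (nat_lit 17011604314) (nat_lit 94) (nat_lit 4) (nat_lit 95) (nat_lit 5) (nat_lit 95) (nat_lit 4) (nat_lit 477) (nat_lit 315) (nat_lit 228)) (XT.lf (nat_lit 0) (nat_lit 47157710303) (nat_lit 152) (nat_lit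 98795027296) (nat_lit 0) (nat_lit 45811463611) (nat_lit 92) (nat_lit 5) (nat_lit 94) (nat_lit 4) (nat_lit 92) (nat_lit 4) (nat_lit 478) (nat_lit 315) (nat_lit 227))) (XT.nd (nat_lit 78) (nat_lit 0) (nat_lit 0) (XT.lf (nat_lit 0) (nat_lit 31146383226) (nat_lit 76) (nat_lit 84130834514) (nat_lit 76) (nat_lit 82783700218) (nat_lit 91) (nat_lit 4) (nat_lit 92) (nat_lit 5) (nat_lit 92) (nat_lit 4) (nat_lit 479) (nat_lit 315) (nat_lit 226)) (XT.lf (nat_lit 0) (nat_lit 170843757264) (nat_lit 76) (nat_lit 17548604915) (nat_lit 76) (nat_lit 16200625283) (nat_lit 91) (nat_lit 4) (nat_lit 92) (nat_lit 5) (nat_lit 92) (nat_lit 4) (nat_lit 480) (nat_lit 315) (nat_lit 225)))) (XT.nd (nat_lit 156) (nat_lit 152) (nat_lit 0) (XT.nd (nat_lit 78) (nat_lit 76) (nat_lit 0) (XT.lf (nat_lit 0) (nat_lit 54464103468) (nat_lit 152) (nat_lit 103642500604) (nat_lit 0) (nat_lit 53179546597) (nat_lit 89) (nat_lit 5) (nat_lit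 91) (nat_lit 4) (nat_lit 89) (nat_lit 4) (nat_lit 481) (nat_lit 315) (nat_lit 224)) (XT.lf (nat_lit 0) (nat_lit 39529454296) (nat_lit 76) (nat_lit 89993138536) (nat_lit 76) (nat_lit 88707851432) (nat_lit 88) (nat_lit 4) (nat_lit 89) (nat_lit 5) (nat_lit 89) (nat_lit 4) (nat_lit 482) (nat_lit 315) (nat_lit 223))) (XT.nd (nat_lit 78) (nat_lit 152) (nat_lit 0) (XT.lf (nat_lit 0) (nat_lit 193295334561) (nat_lit 76) (nat_lit 16714406900) (nat_lit 76) (nat_lit 15428424336) (nat_lit 88) (nat_lit 4) (nat_lit 89) (nat_lit 5) (nat_lit 89) (nat_lit 4) (nat_lit 483) (nat_lit 315) (nat_lit 222)) (XT.lf (nat_lit 0) (nat_lit 62401431243) (nat_lit 152) (nat_lit 109237999944) (nat_lit 0) (nat_lit 61176055141) (nat_lit 86) (nat_lit 5) (nat_lit 88) (nat_lit 4) (nat_lit 86) (nat_lit 4) (nat_lit 484) (nat_lit 315) (nat_lit 221)))))) (XT.nd (nat_lit 624) (nat_lit 228) (nat_lit 0) (XT.nd (nat_lit 312) (nat_lit 228) (nat_lit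 0) (XT.nd (nat_lit 156) (nat_lit 228) (nat_lit 0) (XT.nd (nat_lit 78) (nat_lit 0) (nat_lit 0) (XT.lf (nat_lit 0) (nat_lit 48524838470) (nat_lit 76) (nat_lit 96587384038) (nat_lit 76) (nat_lit 95361407171) (nat_lit 85) (nat_lit 4) (nat_lit 86) (nat_lit 5) (nat_lit 86) (nat_lit 4) (nat_lit 485) (nat_lit 315) (nat_lit 220)) (XT.lf (nat_lit 0) (nat_lit 217813163824) (nat_lit 76) (nat_lit 15919675548) (nat_lit 76) (nat_lit 14693126524) (nat_lit 85) (nat_lit 4) (nat_lit 86) (nat_lit 5) (nat_lit 86) (nat_lit 4) (nat_lit 486) (nat_lit 315) (nat_lit 219))) (XT.nd (nat_lit 78) (nat_lit 76) (nat_lit 0) (XT.lf (nat_lit 0) (nat_lit 71040021393) (nat_lit 152) (nat_lit 115646277299) (nat_lit 0) (nat_lit 69871360502) (nat_lit 83) (nat_lit 5) (nat_lit 85) (nat_lit 4) (nat_lit 83) (nat_lit 4) (nat_lit 487) (nat_lit 315) (nat_lit 218)) (XT.lf (nat_lit 0) (nat_lit 58207018765) (nat_lit 76) (nat_lit 103982429812) (nat_lit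 76) (nat_lit 102813274670) (nat_lit 82) (nat_lit 4) (nat_lit 83) (nat_lit 5) (nat_lit 83) (nat_lit 4) (nat_lit 488) (nat_lit 315) (nat_lit 217)))) (XT.nd (nat_lit 156) (nat_lit 76) (nat_lit 0) (XT.nd (nat_lit 78) (nat_lit 152) (nat_lit 0) (XT.lf (nat_lit 0) (nat_lit 244620191169) (nat_lit 76) (nat_lit 15162577068) (nat_lit 76) (nat_lit 13992951211) (nat_lit 82) (nat_lit 4) (nat_lit 83) (nat_lit 5) (nat_lit 83) (nat_lit 4) (nat_lit 489) (nat_lit 315) (nat_lit 216)) (XT.lf (nat_lit 0) (nat_lit 80457133928) (nat_lit 152) (nat_lit 122939282409) (nat_lit 0) (nat_lit 79342777588) (nat_lit 80) (nat_lit 5) (nat_lit 82) (nat_lit 4) (nat_lit 80) (nat_lit 4) (nat_lit 490) (nat_lit 315) (nat_lit 215))) (XT.nd (nat_lit 78) (nat_lit 0) (nat_lit 0) (XT.lf (nat_lit 0) (nat_lit 68657561425) (nat_lit 76) (nat_lit 112254472868) (nat_lit 76) (nat_lit 111139709907) (nat_lit 79) (nat_lit 4) (nat_lit 80) (nat_lit 5)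 (nat_lit 80) (nat_lit 4) (nat_lit 491) (nat_lit 315) (nat_lit 214)) (XT.lf (nat_lit 0) (nat_lit 273961690019) (nat_lit 76) (nat_lit 14441356913) (nat_lit 76) (nat_lit 13326206693) (nat_lit 79) (nat_lit 4) (nat_lit 80) (nat_lit 5) (nat_lit 80) (nat_lit 4) (nat_lit 492) (nat_lit 315) (nat_lit 213))))) (XT.nd (nat_lit 45006) (nat_lit 0) (nat_lit 8740) (XT.nd (nat_lit 156) (nat_lit 0) (nat_lit 0) (XT.nd (nat_lit 78) (nat_lit 76) (nat_lit 0) (XT.lf (nat_lit 0) (nat_lit 90737686054) (nat_lit 152) (nat_lit 131196875084) (nat_lit 0) (nat_lit 89675286971) (nat_lit 77) (nat_lit 5) (nat_lit 79) (nat_lit 4) (nat_lit 77) (nat_lit 4) (nat_lit 493) (nat_lit 315) (nat_lit 212)) (XT.lf (nat_lit 0) (nat_lit 79965866990) (nat_lit 76) (nat_lit 121487789631) (nat_lit 76) (nat_lit 120425056020) (nat_lit 76) (nat_lit 4) (nat_lit 77) (nat_lit 5) (nat_lit 77) (nat_lit 4) (nat_lit 494) (nat_lit 315) (nat_lit 211))) (XT.nd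 (nat_lit 44772) (nat_lit 0) (nat_lit 9348) (XT.lf (nat_lit 0) (nat_lit 306107573473) (nat_lit 76) (nat_lit 13754337438) (nat_lit 76) (nat_lit 12691285229) (nat_lit 76) (nat_lit 4) (nat_lit 77) (nat_lit 5) (nat_lit 77) (nat_lit 4) (nat_lit 495) (nat_lit 315) (nat_lit 210)) (XT.lf (nat_lit 0) (nat_lit 3093703359) (nat_lit 152) (nat_lit 485037796) (nat_lit 0) (nat_lit 3093703359) (nat_lit 199) (nat_lit 5) (nat_lit 201) (nat_lit 4) (nat_lit 199) (nat_lit 4) (nat_lit 388) (nat_lit 316) (nat_lit 316)))) (XT.nd (nat_lit 156) (nat_lit 304) (nat_lit 0) (XT.nd (nat_lit 78) (nat_lit 152) (nat_lit 0) (XT.lf (nat_lit 0) (nat_lit 12280710883) (nat_lit 152) (nat_lit 877512043) (nat_lit 152) (nat_lit 501075336) (nat_lit 197) (nat_lit 4) (nat_lit 199) (nat_lit 5) (nat_lit 199) (nat_lit 4) (nat_lit 389) (nat_lit 316) (nat_lit 315)) (XT.lf (nat_lit 0) (nat_lit 6350821484) (nat_lit 152) (nat_lit 1979153870) (nat_lit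 0) (nat_lit 5650871145) (nat_lit 195) (nat_lit 5) (nat_lit 197) (nat_lit 4) (nat_lit 195) (nat_lit 4) (nat_lit 390) (nat_lit 316) (nat_lit 314))) (XT.nd (nat_lit 78) (nat_lit 152) (nat_lit 0) (XT.lf (nat_lit 0) (nat_lit 11704724191) (nat_lit 152) (nat_lit 1819344017) (nat_lit 152) (nat_lit 794213497) (nat_lit 193) (nat_lit 4) (nat_lit 195) (nat_lit 5) (nat_lit 195) (nat_lit 4) (nat_lit 391) (nat_lit 316) (nat_lit 313)) (XT.lf (nat_lit 0) (nat_lit 6245101219) (nat_lit 152) (nat_lit 3445364851) (nat_lit 0) (nat_lit 4973838428) (nat_lit 191) (nat_lit 5) (nat_lit 193) (nat_lit 4) (nat_lit 191) (nat_lit 4) (nat_lit 392) (nat_lit 316) (nat_lit 312)))))))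
noncomputable def xc62 : XT := (XT.nd (nat_lit 1248) (nat_lit 1520) (nat_lit 0) (XT.nd (nat_lit 624) (nat_lit 760) (nat_lit 0) (XT.nd (nat_lit 312) (nat_lit 456) (nat_lit 0) (XT.nd (nat_lit 156) (nat_lit 228) (nat_lit 0) (XT.nd (nat_lit 78) (nat_lit 152) (nat_lit 0) (XT.lf (nat_lit 0) (nat_lit 10676580757) (nat_lit 76) (nat_lit 2950837972) (nat_lit 76) (nat_lit 1398672314) (nat_lit 190) (nat_lit 4) (nat_lit 191) (nat_lit 5) (nat_lit 191) (nat_lit 4) (nat_lit 393) (nat_lit 316) (nat_lit 311)) (XT.lf (nat_lit 0) (nat_lit 5840337478) (nat_lit 152) (nat_lit 5450738378) (nat_lit 0) (nat_lit 4107297290) (nat_lit 188) (nat_lit 5) (nat_lit 190) (nat_lit 4) (nat_lit 188) (nat_lit 4) (nat_lit 394) (nat_lit 316) (nat_lit 310))) (XT.nd (nat_lit 78) (nat_lit 152) (nat_lit 0) (XT.lf (nat_lit 0) (nat_lit 9112983077) (nat_lit 76) (nat_lit 4324341452) (nat_lit 76) (nat_lit 2348646806) (nat_lit 187) (nat_lit 4)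 (nat_lit 188) (nat_lit 5) (nat_lit 188) (nat_lit 4) (nat_lit 395) (nat_lit 316) (nat_lit 309)) (XT.lf (nat_lit 0) (nat_lit 5101481637) (nat_lit 152) (nat_lit 8085249890) (nat_lit 0) (nat_lit 2999772943) (nat_lit 185) (nat_lit 5) (nat_lit 187) (nat_lit 4) (nat_lit 185) (nat_lit 4) (nat_lit 396) (nat_lit 316) (nat_lit 308)))) (XT.nd (nat_lit 156) (nat_lit 228) (nat_lit 0) (XT.nd (nat_lit 78) (nat_lit 152) (nat_lit 0) (XT.lf (nat_lit 0) (nat_lit 6922437643) (nat_lit 76) (nat_lit 5995200822) (nat_lit 76) (nat_lit 3683878083) (nat_lit 184) (nat_lit 4) (nat_lit 185) (nat_lit 5) (nat_lit 185) (nat_lit 4) (nat_lit 397) (nat_lit 316) (nat_lit 307)) (XT.lf (nat_lit 0) (nat_lit 3987996600) (nat_lit 152) (nat_lit 11447906539) (nat_lit 0) (nat_lit 1596610732) (nat_lit 182) (nat_lit 5) (nat_lit 184) (nat_lit 4) (nat_lit 182) (nat_lit 4) (nat_lit 398) (nat_lit 316) (nat_lit 306))) (XT.nd (nat_lit 78) (nat_lit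 152) (nat_lit 0) (XT.lf (nat_lit 0) (nat_lit 4004141688) (nat_lit 76) (nat_lit 8022504489) (nat_lit 76) (nat_lit 5450046129) (nat_lit 181) (nat_lit 4) (nat_lit 182) (nat_lit 5) (nat_lit 182) (nat_lit 4) (nat_lit 399) (nat_lit 316) (nat_lit 305)) (XT.lf (nat_lit 0) (nat_lit 2289964180) (nat_lit 76) (nat_lit 166071201) (nat_lit 152) (nat_lit 15484440064) (nat_lit 179) (nat_lit 5) (nat_lit 180) (nat_lit 5) (nat_lit 181) (nat_lit 4) (nat_lit 400) (nat_lit 316) (nat_lit 304))))) (XT.nd (nat_lit 312) (nat_lit 456) (nat_lit 0) (XT.nd (nat_lit 156) (nat_lit 152) (nat_lit 0) (XT.nd (nat_lit 78) (nat_lit 76) (nat_lit 0) (XT.lf (nat_lit 0) (nat_lit 246781325) (nat_lit 76) (nat_lit 10469848264) (nat_lit 76) (nat_lit 7699232606) (nat_lit 178) (nat_lit 4) (nat_lit 179) (nat_lit 5) (nat_lit 179) (nat_lit 4) (nat_lit 401) (nat_lit 316) (nat_lit 303)) (XT.lf (nat_lit 0) (nat_lit 512798819) (nat_lit 152) (nat_lit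 1868346866) (nat_lit 76) (nat_lit 16530862906) (nat_lit 177) (nat_lit 5) (nat_lit 179) (nat_lit 5) (nat_lit 178) (nat_lit 4) (nat_lit 402) (nat_lit 316) (nat_lit 302))) (XT.nd (nat_lit 78) (nat_lit 76) (nat_lit 0) (XT.lf (nat_lit 0) (nat_lit 9003193212) (nat_lit 152) (nat_lit 4329615427) (nat_lit 0) (nat_lit 6087517515) (nat_lit 176) (nat_lit 5) (nat_lit 178) (nat_lit 4) (nat_lit 176) (nat_lit 4) (nat_lit 403) (nat_lit 316) (nat_lit 301)) (XT.lf (nat_lit 0) (nat_lit 12971585229) (nat_lit 76) (nat_lit 5011785858) (nat_lit 76) (nat_lit 1967425321) (nat_lit 175) (nat_lit 4) (nat_lit 176) (nat_lit 5) (nat_lit 176) (nat_lit 4) (nat_lit 404) (nat_lit 316) (nat_lit 300)))) (XT.nd (nat_lit 156) (nat_lit 228) (nat_lit 0) (XT.nd (nat_lit 78) (nat_lit 76) (nat_lit 0) (XT.lf (nat_lit 0) (nat_lit 6776191170) (nat_lit 152) (nat_lit 9961508668) (nat_lit 0) (nat_lit 3760079239) (nat_lit 173) (nat_lit 5) (nat_lit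 175) (nat_lit 4) (nat_lit 173) (nat_lit 4) (nat_lit 405) (nat_lit 316) (nat_lit 299)) (XT.lf (nat_lit 0) (nat_lit 7822929179) (nat_lit 76) (nat_lit 8184507724) (nat_lit 76) (nat_lit 5057232991) (nat_lit 172) (nat_lit 4) (nat_lit 173) (nat_lit 5) (nat_lit 173) (nat_lit 4) (nat_lit 406) (nat_lit 316) (nat_lit 298))) (XT.nd (nat_lit 78) (nat_lit 76) (nat_lit 0) (XT.lf (nat_lit 0) (nat_lit 3965064061) (nat_lit 152) (nat_lit 16803105884) (nat_lit 0) (nat_lit 885879233) (nat_lit 170) (nat_lit 5) (nat_lit 172) (nat_lit 4) (nat_lit 170) (nat_lit 4) (nat_lit 407) (nat_lit 316) (nat_lit 297)) (XT.lf (nat_lit 0) (nat_lit 1456938675) (nat_lit 76) (nat_lit 11989075107) (nat_lit 76) (nat_lit 8813863670) (nat_lit 169) (nat_lit 4) (nat_lit 170) (nat_lit 5) (nat_lit 170) (nat_lit 4) (nat_lit 408) (nat_lit 316) (nat_lit 296)))))) (XT.nd (nat_lit 624) (nat_lit 836) (nat_lit 0) (XT.nd (nat_lit 312) (nat_lit 304) (nat_lit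 0) (XT.nd (nat_lit 156) (nat_lit 228) (nat_lit 0) (XT.nd (nat_lit 78) (nat_lit 76) (nat_lit 0) (XT.lf (nat_lit 0) (nat_lit 570880965) (nat_lit 152) (nat_lit 2096359369) (nat_lit 76) (nat_lit 20224261035) (nat_lit 168) (nat_lit 5) (nat_lit 170) (nat_lit 5) (nat_lit 169) (nat_lit 4) (nat_lit 409) (nat_lit 316) (nat_lit 295)) (XT.lf (nat_lit 0) (nat_lit 10320547700) (nat_lit 152) (nat_lit 6090853433) (nat_lit 0) (nat_lit 7126486448) (nat_lit 167) (nat_lit 5) (nat_lit 169) (nat_lit 4) (nat_lit 167) (nat_lit 4) (nat_lit 410) (nat_lit 316) (nat_lit 294))) (XT.nd (nat_lit 78) (nat_lit 152) (nat_lit 0) (XT.lf (nat_lit 0) (nat_lit 13827949904) (nat_lit 76) (nat_lit 6828386914) (nat_lit 76) (nat_lit 3555324333) (nat_lit 166) (nat_lit 4) (nat_lit 167) (nat_lit 5) (nat_lit 167) (nat_lit 4) (nat_lit 411) (nat_lit 316) (nat_lit 293)) (XT.lf (nat_lit 0) (nat_lit 6493954895) (nat_lit 152) (nat_lit 15109174474)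 (nat_lit 0) (nat_lit 3305095903) (nat_lit 164) (nat_lit 5) (nat_lit 166) (nat_lit 4) (nat_lit 164) (nat_lit 4) (nat_lit 412) (nat_lit 316) (nat_lit 292)))) (XT.nd (nat_lit 156) (nat_lit 76) (nat_lit 0) (XT.nd (nat_lit 78) (nat_lit 152) (nat_lit 0) (XT.lf (nat_lit 0) (nat_lit 5321596382) (nat_lit 76) (nat_lit 11781678684) (nat_lit 76) (nat_lit 8524575375) (nat_lit 163) (nat_lit 4) (nat_lit 164) (nat_lit 5) (nat_lit 164) (nat_lit 4) (nat_lit 413) (nat_lit 316) (nat_lit 291)) (XT.lf (nat_lit 0) (nat_lit 514689720) (nat_lit 76) (nat_lit 1356913996) (nat_lit 152) (nat_lit 24506825556) (nat_lit 161) (nat_lit 5) (nat_lit 162) (nat_lit 5) (nat_lit 163) (nat_lit 4) (nat_lit 414) (nat_lit 316) (nat_lit 290))) (XT.nd (nat_lit 78) (nat_lit 76) (nat_lit 0) (XT.lf (nat_lit 0) (nat_lit 12803966222) (nat_lit 152) (nat_lit 4759329205) (nat_lit 0) (nat_lit 9581111454) (nat_lit 161) (nat_lit 5) (nat_lit 163) (nat_lit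 4) (nat_lit 161) (nat_lit 4) (nat_lit 415) (nat_lit 316) (nat_lit 289)) (XT.lf (nat_lit 0) (nat_lit 17562492691) (nat_lit 76) (nat_lit 6829859964) (nat_lit 76) (nat_lit 3550860427) (nat_lit 160) (nat_lit 4) (nat_lit 161) (nat_lit 5) (nat_lit 161) (nat_lit 4) (nat_lit 416) (nat_lit 316) (nat_lit 288))))) (XT.nd (nat_lit 312) (nat_lit 456) (nat_lit 0) (XT.nd (nat_lit 156) (nat_lit 152) (nat_lit 0) (XT.nd (nat_lit 78) (nat_lit 76) (nat_lit 0) (XT.lf (nat_lit 0) (nat_lit 7688773421) (nat_lit 152) (nat_lit 16564146163) (nat_lit 0) (nat_lit 4514991758) (nat_lit 158) (nat_lit 5) (nat_lit 160) (nat_lit 4) (nat_lit 158) (nat_lit 4) (nat_lit 417) (nat_lit 316) (nat_lit 287)) (XT.lf (nat_lit 0) (nat_lit 6303581186) (nat_lit 76) (nat_lit 13269760094) (nat_lit 76) (nat_lit 10047478468) (nat_lit 157) (nat_lit 4) (nat_lit 158) (nat_lit 5) (nat_lit 158) (nat_lit 4) (nat_lit 418) (nat_lit 316) (nat_lit 286))) (XT.nd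 (nat_lit 78) (nat_lit 76) (nat_lit 0) (XT.lf (nat_lit 0) (nat_lit 1585026579) (nat_lit 152) (nat_lit 19167578) (nat_lit 76) (nat_lit 28906059704) (nat_lit 156) (nat_lit 5) (nat_lit 158) (nat_lit 5) (nat_lit 157) (nat_lit 4) (nat_lit 419) (nat_lit 316) (nat_lit 285)) (XT.lf (nat_lit 0) (nat_lit 13841847113) (nat_lit 152) (nat_lit 6887938878) (nat_lit 0) (nat_lit 10687120482) (nat_lit 155) (nat_lit 5) (nat_lit 157) (nat_lit 4) (nat_lit 155) (nat_lit 4) (nat_lit 420) (nat_lit 316) (nat_lit 284)))) (XT.nd (nat_lit 156) (nat_lit 228) (nat_lit 0) (XT.nd (nat_lit 78) (nat_lit 152) (nat_lit 0) (XT.lf (nat_lit 0) (nat_lit 18130127726) (nat_lit 76) (nat_lit 8713395467) (nat_lit 76) (nat_lit 5518767796) (nat_lit 154) (nat_lit 4) (nat_lit 155) (nat_lit 5) (nat_lit 155) (nat_lit 4) (nat_lit 421) (nat_lit 316) (nat_lit 283)) (XT.lf (nat_lit 0) (nat_lit 7091927269) (nat_lit 152) (nat_lit 22235203904) (nat_lit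 0) (nat_lit 4013233307) (nat_lit 152) (nat_lit 5) (nat_lit 154) (nat_lit 4) (nat_lit 152) (nat_lit 4) (nat_lit 422) (nat_lit 316) (nat_lit 282))) (XT.nd (nat_lit 78) (nat_lit 152) (nat_lit 0) (XT.lf (nat_lit 0) (nat_lit 3358054145) (nat_lit 76) (nat_lit 17052394003) (nat_lit 76) (nat_lit 13939232023) (nat_lit 151) (nat_lit 4) (nat_lit 152) (nat_lit 5) (nat_lit 152) (nat_lit 4) (nat_lit 423) (nat_lit 316) (nat_lit 281)) (XT.nd (nat_lit 78) (nat_lit 152) (nat_lit 0) (XT.lf (nat_lit 0) (nat_lit 30648414831) (nat_lit 76) (nat_lit 3948468046) (nat_lit 76) (nat_lit 802479382) (nat_lit 151) (nat_lit 4) (nat_lit 152) (nat_lit 5) (nat_lit 152) (nat_lit 4) (nat_lit 424) (nat_lit 316) (nat_lit 280)) (XT.lf (nat_lit 0) (nat_lit 12924949972) (nat_lit 152) (nat_lit 13649959785) (nat_lit 0) (nat_lit 9898995523) (nat_lit 149) (nat_lit 5) (nat_lit 151) (nat_lit 4) (nat_lit 149) (nat_lit 4) (nat_lit 425) (nat_lit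 316) (nat_lit 279))))))))
noncomputable def xc63 : XT := (XT.nd (nat_lit 2496) (nat_lit 2508) (nat_lit 0) (XT.nd (nat_lit 1248) (nat_lit 1216) (nat_lit 0) (XT.nd (nat_lit 624) (nat_lit 684) (nat_lit 0) (XT.nd (nat_lit 312) (nat_lit 380) (nat_lit 0) (XT.nd (nat_lit 156) (nat_lit 76) (nat_lit 0) (XT.nd (nat_lit 78) (nat_lit 152) (nat_lit 0) (XT.lf (nat_lit 0) (nat_lit 14382168771) (nat_lit 76) (nat_lit 13131776076) (nat_lit 76) (nat_lit 10077464703) (nat_lit 148) (nat_lit 4) (nat_lit 149) (nat_lit 5) (nat_lit 149) (nat_lit 4) (nat_lit 426) (nat_lit 316) (nat_lit 278)) (XT.lf (nat_lit 0) (nat_lit 4105079403) (nat_lit 152) (nat_lit 33477660056) (nat_lit 0) (nat_lit 1170490863) (nat_lit 146) (nat_lit 5) (nat_lit 148) (nat_lit 4) (nat_lit 146) (nat_lit 4) (nat_lit 427) (nat_lit 316) (nat_lit 277))) (XT.nd (nat_lit 78) (nat_lit 76) (nat_lit 0) (XT.lf (nat_lit 0) (nat_lit 19104098996) (nat_lit 152) (nat_lit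 4693467383) (nat_lit 0) (nat_lit 16145014679) (nat_lit 146) (nat_lit 5) (nat_lit 148) (nat_lit 4) (nat_lit 146) (nat_lit 4) (nat_lit 428) (nat_lit 316) (nat_lit 276)) (XT.lf (nat_lit 0) (nat_lit 26036159803) (nat_lit 76) (nat_lit 9062682265) (nat_lit 76) (nat_lit 6080268637) (nat_lit 145) (nat_lit 4) (nat_lit 146) (nat_lit 5) (nat_lit 146) (nat_lit 4) (nat_lit 429) (nat_lit 316) (nat_lit 275)))) (XT.nd (nat_lit 156) (nat_lit 152) (nat_lit 0) (XT.nd (nat_lit 78) (nat_lit 76) (nat_lit 0) (XT.lf (nat_lit 0) (nat_lit 9390153443) (nat_lit 152) (nat_lit 26537580652) (nat_lit 0) (nat_lit 6528599138) (nat_lit 143) (nat_lit 5) (nat_lit 145) (nat_lit 4) (nat_lit 143) (nat_lit 4) (nat_lit 430) (nat_lit 316) (nat_lit 274)) (XT.lf (nat_lit 0) (nat_lit 4850263978) (nat_lit 76) (nat_lit 20903829712) (nat_lit 76) (nat_lit 18022122671) (nat_lit 142) (nat_lit 4) (nat_lit 143) (nat_lit 5) (nat_lit 143) (nat_lit 4)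 (nat_lit 431) (nat_lit 316) (nat_lit 273))) (XT.nd (nat_lit 78) (nat_lit 152) (nat_lit 0) (XT.lf (nat_lit 0) (nat_lit 38406901574) (nat_lit 76) (nat_lit 4820760324) (nat_lit 76) (nat_lit 1919860200) (nat_lit 142) (nat_lit 4) (nat_lit 143) (nat_lit 5) (nat_lit 143) (nat_lit 4) (nat_lit 432) (nat_lit 316) (nat_lit 272)) (XT.lf (nat_lit 0) (nat_lit 14979194484) (nat_lit 152) (nat_lit 19373906353) (nat_lit 0) (nat_lit 12199023770) (nat_lit 140) (nat_lit 5) (nat_lit 142) (nat_lit 4) (nat_lit 140) (nat_lit 4) (nat_lit 433) (nat_lit 316) (nat_lit 271))))) (XT.nd (nat_lit 312) (nat_lit 380) (nat_lit 0) (XT.nd (nat_lit 156) (nat_lit 76) (nat_lit 0) (XT.nd (nat_lit 78) (nat_lit 152) (nat_lit 0) (XT.lf (nat_lit 0) (nat_lit 15063823292) (nat_lit 76) (nat_lit 17872221293) (nat_lit 76) (nat_lit 15075470873) (nat_lit 139) (nat_lit 4) (nat_lit 140) (nat_lit 5) (nat_lit 140) (nat_lit 4) (nat_lit 434) (nat_lit 316)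 (nat_lit 270)) (XT.lf (nat_lit 0) (nat_lit 2083064740) (nat_lit 76) (nat_lit 305035433) (nat_lit 152) (nat_lit 47143364066) (nat_lit 137) (nat_lit 5) (nat_lit 138) (nat_lit 5) (nat_lit 139) (nat_lit 4) (nat_lit 435) (nat_lit 316) (nat_lit 269))) (XT.nd (nat_lit 78) (nat_lit 76) (nat_lit 0) (XT.lf (nat_lit 0) (nat_lit 20915765709) (nat_lit 152) (nat_lit 11941576851) (nat_lit 0) (nat_lit 18222833425) (nat_lit 137) (nat_lit 5) (nat_lit 139) (nat_lit 4) (nat_lit 137) (nat_lit 4) (nat_lit 436) (nat_lit 316) (nat_lit 268)) (XT.lf (nat_lit 0) (nat_lit 25866539777) (nat_lit 76) (nat_lit 14766594989) (nat_lit 76) (nat_lit 12060022540) (nat_lit 136) (nat_lit 4) (nat_lit 137) (nat_lit 5) (nat_lit 137) (nat_lit 4) (nat_lit 437) (nat_lit 316) (nat_lit 267)))) (XT.nd (nat_lit 156) (nat_lit 228) (nat_lit 0) (XT.nd (nat_lit 78) (nat_lit 0) (nat_lit 0) (XT.lf (nat_lit 0) (nat_lit 7039515446) (nat_lit 152) (nat_lit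 42876773707) (nat_lit 0) (nat_lit 4449455368) (nat_lit 134) (nat_lit 5) (nat_lit 136) (nat_lit 4) (nat_lit 134) (nat_lit 4) (nat_lit 438) (nat_lit 316) (nat_lit 266)) (XT.lf (nat_lit 0) (nat_lit 27247112371) (nat_lit 152) (nat_lit 4191775161) (nat_lit 0) (nat_lit 24645269405) (nat_lit 134) (nat_lit 5) (nat_lit 136) (nat_lit 4) (nat_lit 134) (nat_lit 4) (nat_lit 439) (nat_lit 316) (nat_lit 265))) (XT.nd (nat_lit 78) (nat_lit 152) (nat_lit 0) (XT.lf (nat_lit 0) (nat_lit 37339720609) (nat_lit 76) (nat_lit 11569806125) (nat_lit 76) (nat_lit 8956741361) (nat_lit 133) (nat_lit 4) (nat_lit 134) (nat_lit 5) (nat_lit 134) (nat_lit 4) (nat_lit 440) (nat_lit 316) (nat_lit 264)) (XT.lf (nat_lit 0) (nat_lit 11959283605) (nat_lit 152) (nat_lit 38287268698) (nat_lit 0) (nat_lit 9460471995) (nat_lit 131) (nat_lit 5) (nat_lit 133) (nat_lit 4) (nat_lit 131) (nat_lit 4) (nat_lit 441) (nat_lit 316) (nat_lit 263))))))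 (XT.nd (nat_lit 624) (nat_lit 608) (nat_lit 0) (XT.nd (nat_lit 312) (nat_lit 304) (nat_lit 0) (XT.nd (nat_lit 156) (nat_lit 228) (nat_lit 0) (XT.nd (nat_lit 78) (nat_lit 0) (nat_lit 0) (XT.lf (nat_lit 0) (nat_lit 4058357149) (nat_lit 76) (nat_lit 30029615786) (nat_lit 76) (nat_lit 27521110366) (nat_lit 130) (nat_lit 4) (nat_lit 131) (nat_lit 5) (nat_lit 131) (nat_lit 4) (nat_lit 442) (nat_lit 316) (nat_lit 262)) (XT.lf (nat_lit 0) (nat_lit 49572166537) (nat_lit 76) (nat_lit 8263103828) (nat_lit 76) (nat_lit 5745366208) (nat_lit 130) (nat_lit 4) (nat_lit 131) (nat_lit 5) (nat_lit 131) (nat_lit 4) (nat_lit 443) (nat_lit 316) (nat_lit 261))) (XT.nd (nat_lit 78) (nat_lit 76) (nat_lit 0) (XT.lf (nat_lit 0) (nat_lit 17180469237) (nat_lit 152) (nat_lit 33652223145) (nat_lit 0) (nat_lit 14774250006) (nat_lit 128) (nat_lit 5) (nat_lit 130) (nat_lit 4) (nat_lit 128) (nat_lit 4) (nat_lit 444) (nat_lit 316)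 (nat_lit 260)) (XT.lf (nat_lit 0) (nat_lit 12889229842) (nat_lit 76) (nat_lit 28616259960) (nat_lit 76) (nat_lit 26202065607) (nat_lit 127) (nat_lit 4) (nat_lit 128) (nat_lit 5) (nat_lit 128) (nat_lit 4) (nat_lit 445) (nat_lit 316) (nat_lit 259)))) (XT.nd (nat_lit 156) (nat_lit 152) (nat_lit 0) (XT.nd (nat_lit 78) (nat_lit 152) (nat_lit 0) (XT.lf (nat_lit 0) (nat_lit 62660952384) (nat_lit 76) (nat_lit 4826013101) (nat_lit 76) (nat_lit 2404223393) (nat_lit 127) (nat_lit 4) (nat_lit 128) (nat_lit 5) (nat_lit 128) (nat_lit 4) (nat_lit 446) (nat_lit 316) (nat_lit 258)) (XT.lf (nat_lit 0) (nat_lit 22744149473) (nat_lit 152) (nat_lit 28947258483) (nat_lit 0) (nat_lit 20430793874) (nat_lit 125) (nat_lit 5) (nat_lit 127) (nat_lit 4) (nat_lit 125) (nat_lit 4) (nat_lit 447) (nat_lit 316) (nat_lit 257))) (XT.nd (nat_lit 78) (nat_lit 76) (nat_lit 0) (XT.lf (nat_lit 0) (nat_lit 22226940557) (nat_lit 76) (nat_lit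 27267259066) (nat_lit 76) (nat_lit 24947342315) (nat_lit 124) (nat_lit 4) (nat_lit 125) (nat_lit 5) (nat_lit 125) (nat_lit 4) (nat_lit 448) (nat_lit 316) (nat_lit 256)) (XT.lf (nat_lit 0) (nat_lit 1055086526) (nat_lit 152) (nat_lit 163238089) (nat_lit 76) (nat_lit 75639336931) (nat_lit 123) (nat_lit 5) (nat_lit 125) (nat_lit 5) (nat_lit 124) (nat_lit 4) (nat_lit 449) (nat_lit 316) (nat_lit 255))))) (XT.nd (nat_lit 312) (nat_lit 304) (nat_lit 0) (XT.nd (nat_lit 156) (nat_lit 152) (nat_lit 0) (XT.nd (nat_lit 78) (nat_lit 76) (nat_lit 0) (XT.lf (nat_lit 0) (nat_lit 28695034467) (nat_lit 152) (nat_lit 24146343415) (nat_lit 0) (nat_lit 26473971013) (nat_lit 122) (nat_lit 5) (nat_lit 124) (nat_lit 4) (nat_lit 122) (nat_lit 4) (nat_lit 450) (nat_lit 316) (nat_lit 254)) (XT.lf (nat_lit 0) (nat_lit 32141985675) (nat_lit 76) (nat_lit 25980071207) (nat_lit 76) (nat_lit 23753609876) (nat_lit 121) (nat_lit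 4) (nat_lit 122) (nat_lit 5) (nat_lit 122) (nat_lit 4) (nat_lit 451) (nat_lit 316) (nat_lit 253))) (XT.nd (nat_lit 78) (nat_lit 0) (nat_lit 0) (XT.lf (nat_lit 0) (nat_lit 4768977107) (nat_lit 152) (nat_lit 77125143788) (nat_lit 0) (nat_lit 2643641711) (nat_lit 119) (nat_lit 5) (nat_lit 121) (nat_lit 4) (nat_lit 119) (nat_lit 4) (nat_lit 452) (nat_lit 316) (nat_lit 252)) (XT.lf (nat_lit 0) (nat_lit 35081883686) (nat_lit 152) (nat_lit 19221600624) (nat_lit 0) (nat_lit 32951885401) (nat_lit 119) (nat_lit 5) (nat_lit 121) (nat_lit 4) (nat_lit 119) (nat_lit 4) (nat_lit 453) (nat_lit 316) (nat_lit 251)))) (XT.nd (nat_lit 156) (nat_lit 76) (nat_lit 0) (XT.nd (nat_lit 78) (nat_lit 152) (nat_lit 0) (XT.lf (nat_lit 0) (nat_lit 42711279235) (nat_lit 76) (nat_lit 24752182870) (nat_lit 76) (nat_lit 22617743739) (nat_lit 118) (nat_lit 4) (nat_lit 119) (nat_lit 5) (nat_lit 119) (nat_lit 4) (nat_lit 454) (nat_lit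 316) (nat_lit 250)) (XT.lf (nat_lit 0) (nat_lit 8713205803) (nat_lit 152) (nat_lit 77623840738) (nat_lit 0) (nat_lit 6676378652) (nat_lit 116) (nat_lit 5) (nat_lit 118) (nat_lit 4) (nat_lit 116) (nat_lit 4) (nat_lit 455) (nat_lit 316) (nat_lit 249))) (XT.nd (nat_lit 78) (nat_lit 76) (nat_lit 0) (XT.lf (nat_lit 0) (nat_lit 41957959859) (nat_lit 152) (nat_lit 14143091900) (nat_lit 0) (nat_lit 39917296538) (nat_lit 116) (nat_lit 5) (nat_lit 118) (nat_lit 4) (nat_lit 116) (nat_lit 4) (nat_lit 456) (nat_lit 316) (nat_lit 248)) (XT.lf (nat_lit 0) (nat_lit 54018835953) (nat_lit 76) (nat_lit 23581124002) (nat_lit 76) (nat_lit 21536807186) (nat_lit 115) (nat_lit 4) (nat_lit 116) (nat_lit 5) (nat_lit 116) (nat_lit 4) (nat_lit 457) (nat_lit 316) (nat_lit 247))))))) (XT.nd (nat_lit 1248) (nat_lit 1216) (nat_lit 0) (XT.nd (nat_lit 624) (nat_lit 608) (nat_lit 0) (XT.nd (nat_lit 312) (nat_lit 304) (nat_lit 0)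 (XT.nd (nat_lit 156) (nat_lit 228) (nat_lit 0) (XT.nd (nat_lit 78) (nat_lit 0) (nat_lit 0) (XT.lf (nat_lit 0) (nat_lit 12896009783) (nat_lit 152) (nat_lit 78525185911) (nat_lit 0) (nat_lit 10945727558) (nat_lit 113) (nat_lit 5) (nat_lit 115) (nat_lit 4) (nat_lit 113) (nat_lit 4) (nat_lit 458) (nat_lit 316) (nat_lit 246)) (XT.lf (nat_lit 0) (nat_lit 49381525223) (nat_lit 152) (nat_lit 8878580075) (nat_lit 0) (nat_lit 47428086972) (nat_lit 113) (nat_lit 5) (nat_lit 115) (nat_lit 4) (nat_lit 113) (nat_lit 4) (nat_lit 459) (nat_lit 316) (nat_lit 245))) (XT.nd (nat_lit 78) (nat_lit 152) (nat_lit 0) (XT.lf (nat_lit 0) (nat_lit 66156525401) (nat_lit 76) (nat_lit 22464479454) (nat_lit 76) (nat_lit 20508035463) (nat_lit 112) (nat_lit 4) (nat_lit 113) (nat_lit 5) (nat_lit 113) (nat_lit 4) (nat_lit 460) (nat_lit 316) (nat_lit 244)) (XT.lf (nat_lit 0) (nat_lit 17349940410) (nat_lit 152) (nat_lit 79853917675)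 (nat_lit 0) (nat_lit 15483934125) (nat_lit 110) (nat_lit 5) (nat_lit 112) (nat_lit 4) (nat_lit 110) (nat_lit 4) (nat_lit 461) (nat_lit 316) (nat_lit 243)))) (XT.nd (nat_lit 156) (nat_lit 228) (nat_lit 0) (XT.nd (nat_lit 78) (nat_lit 76) (nat_lit 0) (XT.lf (nat_lit 0) (nat_lit 57416385003) (nat_lit 152) (nat_lit 3393265862) (nat_lit 0) (nat_lit 55547782247) (nat_lit 110) (nat_lit 5) (nat_lit 112) (nat_lit 4) (nat_lit 110) (nat_lit 4) (nat_lit 462) (nat_lit 316) (nat_lit 242)) (XT.lf (nat_lit 0) (nat_lit 79224904175) (nat_lit 76) (nat_lit 21399897488) (nat_lit 76) (nat_lit 19528821903) (nat_lit 109) (nat_lit 4) (nat_lit 110) (nat_lit 5) (nat_lit 110) (nat_lit 4) (nat_lit 463) (nat_lit 316) (nat_lit 241))) (XT.nd (nat_lit 78) (nat_lit 76) (nat_lit 0) (XT.lf (nat_lit 0) (nat_lit 22110463356) (nat_lit 152) (nat_lit 81638060751) (nat_lit 0) (nat_lit 20326243679) (nat_lit 107) (nat_lit 5) (nat_lit 109)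 (nat_lit 4) (nat_lit 107) (nat_lit 4) (nat_lit 464) (nat_lit 316) (nat_lit 240)) (XT.lf (nat_lit 0) (nat_lit 2428220824) (nat_lit 76) (nat_lit 63742174020) (nat_lit 76) (nat_lit 61955818219) (nat_lit 106) (nat_lit 4) (nat_lit 107) (nat_lit 5) (nat_lit 107) (nat_lit 4) (nat_lit 465) (nat_lit 316) (nat_lit 239))))) (XT.nd (nat_lit 312) (nat_lit 380) (nat_lit 0) (XT.nd (nat_lit 156) (nat_lit 76) (nat_lit 0) (XT.nd (nat_lit 78) (nat_lit 152) (nat_lit 0) (XT.lf (nat_lit 0) (nat_lit 93334133663) (nat_lit 76) (nat_lit 20385095907) (nat_lit 76) (nat_lit 18596705703) (nat_lit 106) (nat_lit 4) (nat_lit 107) (nat_lit 5) (nat_lit 107) (nat_lit 4) (nat_lit 466) (nat_lit 316) (nat_lit 238)) (XT.lf (nat_lit 0) (nat_lit 27216283912) (nat_lit 152) (nat_lit 83909233812) (nat_lit 0) (nat_lit 25511209883) (nat_lit 104) (nat_lit 5) (nat_lit 106) (nat_lit 4) (nat_lit 104) (nat_lit 4) (nat_lit 467) (nat_lit 316) (nat_lit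 237))) (XT.nd (nat_lit 78) (nat_lit 0) (nat_lit 0) (XT.lf (nat_lit 0) (nat_lit 8671078599) (nat_lit 76) (nat_lit 67070859921) (nat_lit 76) (nat_lit 65364028499) (nat_lit 103) (nat_lit 4) (nat_lit 104) (nat_lit 5) (nat_lit 104) (nat_lit 4) (nat_lit 468) (nat_lit 316) (nat_lit 236)) (XT.lf (nat_lit 0) (nat_lit 108604991890) (nat_lit 76) (nat_lit 19417866263) (nat_lit 76) (nat_lit 17709361133) (nat_lit 103) (nat_lit 4) (nat_lit 104) (nat_lit 5) (nat_lit 104) (nat_lit 4) (nat_lit 469) (nat_lit 316) (nat_lit 235)))) (XT.nd (nat_lit 156) (nat_lit 152) (nat_lit 0) (XT.nd (nat_lit 78) (nat_lit 76) (nat_lit 0) (XT.lf (nat_lit 0) (nat_lit 32709703230) (nat_lit 152) (nat_lit 86702988849) (nat_lit 0) (nat_lit 31081037384) (nat_lit 101) (nat_lit 5) (nat_lit 103) (nat_lit 4) (nat_lit 101) (nat_lit 4) (nat_lit 470) (nat_lit 316) (nat_lit 234)) (XT.lf (nat_lit 0) (nat_lit 15268927427) (nat_lit 76) (nat_lit 70892324705)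 (nat_lit 76) (nat_lit 69262213047) (nat_lit 100) (nat_lit 4) (nat_lit 101) (nat_lit 5) (nat_lit 101) (nat_lit 4) (nat_lit 471) (nat_lit 316) (nat_lit 233))) (XT.nd (nat_lit 78) (nat_lit 152) (nat_lit 0) (XT.lf (nat_lit 0) (nat_lit 125169988864) (nat_lit 76) (nat_lit 18496076546) (nat_lit 76) (nat_lit 16864587924) (nat_lit 100) (nat_lit 4) (nat_lit 101) (nat_lit 5) (nat_lit 101) (nat_lit 4) (nat_lit 472) (nat_lit 316) (nat_lit 232)) (XT.lf (nat_lit 0) (nat_lit 38637008981) (nat_lit 152) (nat_lit 90059185762) (nat_lit 0) (nat_lit 37081961347) (nat_lit 98) (nat_lit 5) (nat_lit 100) (nat_lit 4) (nat_lit 98) (nat_lit 4) (nat_lit 473) (nat_lit 316) (nat_lit 231)))))) (XT.nd (nat_lit 624) (nat_lit 684) (nat_lit 0) (XT.nd (nat_lit 312) (nat_lit 228) (nat_lit 0) (XT.nd (nat_lit 156) (nat_lit 228) (nat_lit 0) (XT.nd (nat_lit 78) (nat_lit 0) (nat_lit 0) (XT.lf (nat_lit 0) (nat_lit 22271627560) (nat_lit 76)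 (nat_lit 75250041448) (nat_lit 76) (nat_lit 73693804340) (nat_lit 97) (nat_lit 4) (nat_lit 98) (nat_lit 5) (nat_lit 98) (nat_lit 4) (nat_lit 474) (nat_lit 316) (nat_lit 230)) (XT.lf (nat_lit 0) (nat_lit 143174595828) (nat_lit 76) (nat_lit 17617672631) (nat_lit 76) (nat_lit 16060302691) (nat_lit 97) (nat_lit 4) (nat_lit 98) (nat_lit 5) (nat_lit 98) (nat_lit 4) (nat_lit 475) (nat_lit 316) (nat_lit 229))) (XT.nd (nat_lit 78) (nat_lit 76) (nat_lit 0) (XT.lf (nat_lit 0) (nat_lit 45048904225) (nat_lit 152) (nat_lit 94022405921) (nat_lit 0) (nat_lit 43564667247) (nat_lit 95) (nat_lit 5) (nat_lit 97) (nat_lit 4) (nat_lit 95) (nat_lit 4) (nat_lit 476) (nat_lit 316) (nat_lit 228)) (XT.lf (nat_lit 0) (nat_lit 29733524823) (nat_lit 76) (nat_lit 80192242080) (nat_lit 76) (nat_lit 78707026519) (nat_lit 94) (nat_lit 4) (nat_lit 95) (nat_lit 5) (nat_lit 95) (nat_lit 4) (nat_lit 477) (nat_lit 316) (nat_lit 227))))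 (XT.nd (nat_lit 156) (nat_lit 76) (nat_lit 0) (XT.nd (nat_lit 78) (nat_lit 152) (nat_lit 0) (XT.lf (nat_lit 0) (nat_lit 162778599973) (nat_lit 76) (nat_lit 16780678761) (nat_lit 76) (nat_lit 15294531217) (nat_lit 94) (nat_lit 4) (nat_lit 95) (nat_lit 5) (nat_lit 95) (nat_lit 4) (nat_lit 478) (nat_lit 316) (nat_lit 226)) (XT.lf (nat_lit 0) (nat_lit 52000978631) (nat_lit 152) (nat_lit 98642408817) (nat_lit 0) (nat_lit 50584754681) (nat_lit 92) (nat_lit 5) (nat_lit 94) (nat_lit 4) (nat_lit 92) (nat_lit 4) (nat_lit 479) (nat_lit 316) (nat_lit 225))) (XT.nd (nat_lit 78) (nat_lit 0) (nat_lit 0) (XT.lf (nat_lit 0) (nat_lit 37713937233) (nat_lit 76) (nat_lit 85772396451) (nat_lit 76) (nat_lit 84355367419) (nat_lit 91) (nat_lit 4) (nat_lit 92) (nat_lit 5) (nat_lit 92) (nat_lit 4) (nat_lit 480) (nat_lit 316) (nat_lit 224)) (XT.lf (nat_lit 0) (nat_lit 184157597362) (nat_lit 76) (nat_lit 15983197267) (nat_lit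 76) (nat_lit 14565401490) (nat_lit 91) (nat_lit 4) (nat_lit 92) (nat_lit 5) (nat_lit 92) (nat_lit 4) (nat_lit 481) (nat_lit 316) (nat_lit 223))))) (XT.nd (nat_lit 312) (nat_lit 304) (nat_lit 0) (XT.nd (nat_lit 156) (nat_lit 152) (nat_lit 0) (XT.nd (nat_lit 78) (nat_lit 76) (nat_lit 0) (XT.lf (nat_lit 0) (nat_lit 59554226586) (nat_lit 152) (nat_lit 103974636287) (nat_lit 0) (nat_lit 58203249433) (nat_lit 89) (nat_lit 5) (nat_lit 91) (nat_lit 4) (nat_lit 89) (nat_lit 4) (nat_lit 482) (nat_lit 316) (nat_lit 222)) (XT.lf (nat_lit 0) (nat_lit 46277690723) (nat_lit 76) (nat_lit 92049739920) (nat_lit 76) (nat_lit 90698100424) (nat_lit 88) (nat_lit 4) (nat_lit 89) (nat_lit 5) (nat_lit 89) (nat_lit 4) (nat_lit 483) (nat_lit 316) (nat_lit 221))) (XT.nd (nat_lit 78) (nat_lit 152) (nat_lit 0) (XT.lf (nat_lit 0) (nat_lit 207504638158) (nat_lit 76) (nat_lit 15223407682) (nat_lit 76) (nat_lit 13871137382) (nat_lit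 88) (nat_lit 4) (nat_lit 89) (nat_lit 5) (nat_lit 89) (nat_lit 4) (nat_lit 484) (nat_lit 316) (nat_lit 220)) (XT.lf (nat_lit 0) (nat_lit 67775617154) (nat_lit 152) (nat_lit 110080769251) (nat_lit 0) (nat_lit 66487168522) (nat_lit 86) (nat_lit 5) (nat_lit 88) (nat_lit 4) (nat_lit 86) (nat_lit 4) (nat_lit 485) (nat_lit 316) (nat_lit 219)))) (XT.nd (nat_lit 156) (nat_lit 228) (nat_lit 0) (XT.nd (nat_lit 78) (nat_lit 0) (nat_lit 0) (XT.lf (nat_lit 0) (nat_lit 55495708976) (nat_lit 76) (nat_lit 99089854616) (nat_lit 76) (nat_lit 97800861072) (nat_lit 85) (nat_lit 4) (nat_lit 86) (nat_lit 5) (nat_lit 86) (nat_lit 4) (nat_lit 486) (nat_lit 316) (nat_lit 218)) (XT.lf (nat_lit 0) (nat_lit 233032039713) (nat_lit 76) (nat_lit 14499565398) (nat_lit 76) (nat_lit 13210052891) (nat_lit 85) (nat_lit 4) (nat_lit 86) (nat_lit 5) (nat_lit 86) (nat_lit 4) (nat_lit 487) (nat_lit 316) (nat_lit 217))) (XT.nd (nat_lit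 78) (nat_lit 76) (nat_lit 0) (XT.lf (nat_lit 0) (nat_lit 76738721343) (nat_lit 152) (nat_lit 117029342387) (nat_lit 0) (nat_lit 75510143479) (nat_lit 83) (nat_lit 5) (nat_lit 85) (nat_lit 4) (nat_lit 83) (nat_lit 4) (nat_lit 488) (nat_lit 316) (nat_lit 216)) (XT.lf (nat_lit 0) (nat_lit 65445662854) (nat_lit 76) (nat_lit 106965310063) (nat_lit 76) (nat_lit 105736283898) (nat_lit 82) (nat_lit 4) (nat_lit 83) (nat_lit 5) (nat_lit 83) (nat_lit 4) (nat_lit 489) (nat_lit 316) (nat_lit 215))))))))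
noncomputable def xc64 : XT := (XT.nd (nat_lit 45786) (nat_lit 0) (nat_lit 6840) (XT.nd (nat_lit 45162) (nat_lit 0) (nat_lit 8436) (XT.nd (nat_lit 312) (nat_lit 228) (nat_lit 0) (XT.nd (nat_lit 156) (nat_lit 76) (nat_lit 0) (XT.nd (nat_lit 78) (nat_lit 152) (nat_lit 0) (XT.lf (nat_lit 0) (nat_lit 260973384681) (nat_lit 76) (nat_lit 13809999978) (nat_lit 76) (nat_lit 12580546861) (nat_lit 82) (nat_lit 4) (nat_lit 83) (nat_lit 5) (nat_lit 83) (nat_lit 4) (nat_lit 490) (nat_lit 316) (nat_lit 214)) (XT.lf (nat_lit 0) (nat_lit 86524402656) (nat_lit 152) (nat_lit 124896422698) (nat_lit 0) (nat_lit 85353107667) (nat_lit 80) (nat_lit 5) (nat_lit 82) (nat_lit 4) (nat_lit 80) (nat_lit 4) (nat_lit 491) (nat_lit 316) (nat_lit 213))) (XT.nd (nat_lit 78) (nat_lit 0) (nat_lit 0) (XT.lf (nat_lit 0) (nat_lit 76212685525) (nat_lit 76) (nat_lit 115756369373) (nat_lit 76) (nat_lit 114584705567) (nat_lit 79) (nat_lit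 4) (nat_lit 80) (nat_lit 5) (nat_lit 80) (nat_lit 4) (nat_lit 492) (nat_lit 316) (nat_lit 212)) (XT.lf (nat_lit 0) (nat_lit 291585723119) (nat_lit 76) (nat_lit 13153113198) (nat_lit 76) (nat_lit 11981098138) (nat_lit 79) (nat_lit 4) (nat_lit 80) (nat_lit 5) (nat_lit 80) (nat_lit 4) (nat_lit 493) (nat_lit 316) (nat_lit 211)))) (XT.nd (nat_lit 44694) (nat_lit 0) (nat_lit 9500) (XT.nd (nat_lit 78) (nat_lit 76) (nat_lit 0) (XT.lf (nat_lit 0) (nat_lit 97221577527) (nat_lit 152) (nat_lit 133766358519) (nat_lit 0) (nat_lit 96105054109) (nat_lit 77) (nat_lit 5) (nat_lit 79) (nat_lit 4) (nat_lit 77) (nat_lit 4) (nat_lit 494) (nat_lit 316) (nat_lit 210)) (XT.lf (nat_lit 0) (nat_lit 87890160008) (nat_lit 76) (nat_lit 125551767845) (nat_lit 76) (nat_lit 124434941000) (nat_lit 76) (nat_lit 4) (nat_lit 77) (nat_lit 5) (nat_lit 77) (nat_lit 4) (nat_lit 495) (nat_lit 316) (nat_lit 209))) (XT.nd (nat_lit 78) (nat_lit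 152) (nat_lit 0) (XT.lf (nat_lit 0) (nat_lit 3150655062) (nat_lit 152) (nat_lit 72853309) (nat_lit 0) (nat_lit 3150655062) (nat_lit 203) (nat_lit 5) (nat_lit 205) (nat_lit 4) (nat_lit 203) (nat_lit 4) (nat_lit 386) (nat_lit 317) (nat_lit 317)) (XT.lf (nat_lit 0) (nat_lit 12480679409) (nat_lit 152) (nat_lit 490283638) (nat_lit 152) (nat_lit 75262168) (nat_lit 201) (nat_lit 4) (nat_lit 203) (nat_lit 5) (nat_lit 203) (nat_lit 4) (nat_lit 387) (nat_lit 317) (nat_lit 316))))) (XT.nd (nat_lit 312) (nat_lit 456) (nat_lit 0) (XT.nd (nat_lit 156) (nat_lit 304) (nat_lit 0) (XT.nd (nat_lit 78) (nat_lit 152) (nat_lit 0) (XT.lf (nat_lit 0) (nat_lit 6471939970) (nat_lit 152) (nat_lit 1178240605) (nat_lit 0) (nat_lit 5700244721) (nat_lit 199) (nat_lit 5) (nat_lit 201) (nat_lit 4) (nat_lit 199) (nat_lit 4) (nat_lit 388) (nat_lit 317) (nat_lit 315)) (XT.lf (nat_lit 0) (nat_lit 11860855482) (nat_lit 152) (nat_lit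 1469892916) (nat_lit 152) (nat_lit 339686517) (nat_lit 197) (nat_lit 4) (nat_lit 199) (nat_lit 5) (nat_lit 199) (nat_lit 4) (nat_lit 389) (nat_lit 317) (nat_lit 314))) (XT.nd (nat_lit 78) (nat_lit 152) (nat_lit 0) (XT.lf (nat_lit 0) (nat_lit 6380845662) (nat_lit 152) (nat_lit 2638043028) (nat_lit 0) (nat_lit 4979278435) (nat_lit 195) (nat_lit 5) (nat_lit 197) (nat_lit 4) (nat_lit 195) (nat_lit 4) (nat_lit 390) (nat_lit 317) (nat_lit 313)) (XT.lf (nat_lit 0) (nat_lit 10818414951) (nat_lit 152) (nat_lit 2617187264) (nat_lit 152) (nat_lit 905924626) (nat_lit 193) (nat_lit 4) (nat_lit 195) (nat_lit 5) (nat_lit 195) (nat_lit 4) (nat_lit 391) (nat_lit 317) (nat_lit 312)))) (XT.nd (nat_lit 156) (nat_lit 228) (nat_lit 0) (XT.nd (nat_lit 78) (nat_lit 76) (nat_lit 0) (XT.lf (nat_lit 0) (nat_lit 6000439084) (nat_lit 152) (nat_lit 4604261801) (nat_lit 0) (nat_lit 4089762277) (nat_lit 191) (nat_lit 5) (nat_lit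 193) (nat_lit 4) (nat_lit 191) (nat_lit 4) (nat_lit 392) (nat_lit 317) (nat_lit 311)) (XT.lf (nat_lit 0) (nat_lit 9273017058) (nat_lit 76) (nat_lit 3983864865) (nat_lit 76) (nat_lit 1805661518) (nat_lit 190) (nat_lit 4) (nat_lit 191) (nat_lit 5) (nat_lit 191) (nat_lit 4) (nat_lit 393) (nat_lit 317) (nat_lit 310))) (XT.nd (nat_lit 78) (nat_lit 76) (nat_lit 0) (XT.lf (nat_lit 0) (nat_lit 5298107064) (nat_lit 152) (nat_lit 7163476333) (nat_lit 0) (nat_lit 2980973228) (nat_lit 188) (nat_lit 5) (nat_lit 190) (nat_lit 4) (nat_lit 188) (nat_lit 4) (nat_lit 394) (nat_lit 317) (nat_lit 309)) (XT.lf (nat_lit 0) (nat_lit 7136648979) (nat_lit 76) (nat_lit 5624225079) (nat_lit 76) (nat_lit 3075991760) (nat_lit 187) (nat_lit 4) (nat_lit 188) (nat_lit 5) (nat_lit 188) (nat_lit 4) (nat_lit 395) (nat_lit 317) (nat_lit 308)))))) (XT.nd (nat_lit 624) (nat_lit 760) (nat_lit 0) (XT.nd (nat_lit 312) (nat_lit 380) (nat_lit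 0) (XT.nd (nat_lit 156) (nat_lit 228) (nat_lit 0) (XT.nd (nat_lit 78) (nat_lit 76) (nat_lit 0) (XT.lf (nat_lit 0) (nat_lit 4235897688) (nat_lit 152) (nat_lit 10410750220) (nat_lit 0) (nat_lit 1599394769) (nat_lit 185) (nat_lit 5) (nat_lit 187) (nat_lit 4) (nat_lit 185) (nat_lit 4) (nat_lit 396) (nat_lit 317) (nat_lit 307)) (XT.lf (nat_lit 0) (nat_lit 4312547569) (nat_lit 76) (nat_lit 7595911158) (nat_lit 76) (nat_lit 4759775816) (nat_lit 184) (nat_lit 4) (nat_lit 185) (nat_lit 5) (nat_lit 185) (nat_lit 4) (nat_lit 397) (nat_lit 317) (nat_lit 306))) (XT.nd (nat_lit 78) (nat_lit 76) (nat_lit 0) (XT.lf (nat_lit 0) (nat_lit 2656231881) (nat_lit 76) (nat_lit 115716089) (nat_lit 152) (nat_lit 14336853102) (nat_lit 182) (nat_lit 5) (nat_lit 183) (nat_lit 5) (nat_lit 184) (nat_lit 4) (nat_lit 398) (nat_lit 317) (nat_lit 305)) (XT.lf (nat_lit 0) (nat_lit 694039159) (nat_lit 76) (nat_lit 9960669284) (nat_lit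 76) (nat_lit 6906065521) (nat_lit 181) (nat_lit 4) (nat_lit 182) (nat_lit 5) (nat_lit 182) (nat_lit 4) (nat_lit 399) (nat_lit 317) (nat_lit 304)))) (XT.nd (nat_lit 156) (nat_lit 228) (nat_lit 0) (XT.nd (nat_lit 78) (nat_lit 76) (nat_lit 0) (XT.lf (nat_lit 0) (nat_lit 908597091) (nat_lit 152) (nat_lit 1356217815) (nat_lit 76) (nat_lit 15767779855) (nat_lit 180) (nat_lit 5) (nat_lit 182) (nat_lit 5) (nat_lit 181) (nat_lit 4) (nat_lit 400) (nat_lit 317) (nat_lit 303)) (XT.lf (nat_lit 0) (nat_lit 9008320462) (nat_lit 152) (nat_lit 3713916584) (nat_lit 0) (nat_lit 5793788006) (nat_lit 179) (nat_lit 5) (nat_lit 181) (nat_lit 4) (nat_lit 179) (nat_lit 4) (nat_lit 401) (nat_lit 317) (nat_lit 302))) (XT.nd (nat_lit 78) (nat_lit 152) (nat_lit 0) (XT.lf (nat_lit 0) (nat_lit 12770414967) (nat_lit 76) (nat_lit 4803292749) (nat_lit 76) (nat_lit 1446885257) (nat_lit 178) (nat_lit 4) (nat_lit 179) (nat_lit 5)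 (nat_lit 179) (nat_lit 4) (nat_lit 402) (nat_lit 317) (nat_lit 301)) (XT.lf (nat_lit 0) (nat_lit 6878483684) (nat_lit 152) (nat_lit 9108902810) (nat_lit 0) (nat_lit 3553220280) (nat_lit 176) (nat_lit 5) (nat_lit 178) (nat_lit 4) (nat_lit 176) (nat_lit 4) (nat_lit 403) (nat_lit 317) (nat_lit 300))))) (XT.nd (nat_lit 312) (nat_lit 380) (nat_lit 0) (XT.nd (nat_lit 156) (nat_lit 152) (nat_lit 0) (XT.nd (nat_lit 78) (nat_lit 152) (nat_lit 0) (XT.lf (nat_lit 0) (nat_lit 7835511372) (nat_lit 76) (nat_lit 7846118809) (nat_lit 76) (nat_lit 4398298416) (nat_lit 175) (nat_lit 4) (nat_lit 176) (nat_lit 5) (nat_lit 176) (nat_lit 4) (nat_lit 404) (nat_lit 317) (nat_lit 299)) (XT.lf (nat_lit 0) (nat_lit 4191156693) (nat_lit 152) (nat_lit 15652895014) (nat_lit 0) (nat_lit 796355420) (nat_lit 173) (nat_lit 5) (nat_lit 175) (nat_lit 4) (nat_lit 173) (nat_lit 4) (nat_lit 405) (nat_lit 317) (nat_lit 298))) (XT.nd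 (nat_lit 78) (nat_lit 76) (nat_lit 0) (XT.lf (nat_lit 0) (nat_lit 1744315634) (nat_lit 76) (nat_lit 11486613298) (nat_lit 76) (nat_lit 7985942689) (nat_lit 172) (nat_lit 4) (nat_lit 173) (nat_lit 5) (nat_lit 173) (nat_lit 4) (nat_lit 406) (nat_lit 317) (nat_lit 297)) (XT.lf (nat_lit 0) (nat_lit 943345277) (nat_lit 152) (nat_lit 1667640730) (nat_lit 76) (nat_lit 19206888470) (nat_lit 171) (nat_lit 5) (nat_lit 173) (nat_lit 5) (nat_lit 172) (nat_lit 4) (nat_lit 407) (nat_lit 317) (nat_lit 296)))) (XT.nd (nat_lit 156) (nat_lit 228) (nat_lit 0) (XT.nd (nat_lit 78) (nat_lit 76) (nat_lit 0) (XT.lf (nat_lit 0) (nat_lit 10237111936) (nat_lit 152) (nat_lit 5480290561) (nat_lit 0) (nat_lit 6715659406) (nat_lit 170) (nat_lit 5) (nat_lit 172) (nat_lit 4) (nat_lit 170) (nat_lit 4) (nat_lit 408) (nat_lit 317) (nat_lit 295)) (XT.lf (nat_lit 0) (nat_lit 13496579282) (nat_lit 76) (nat_lit 6593136731) (nat_lit 76)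 (nat_lit 2984585235) (nat_lit 169) (nat_lit 4) (nat_lit 170) (nat_lit 5) (nat_lit 170) (nat_lit 4) (nat_lit 409) (nat_lit 317) (nat_lit 294))) (XT.nd (nat_lit 78) (nat_lit 76) (nat_lit 0) (XT.lf (nat_lit 0) (nat_lit 6580538488) (nat_lit 152) (nat_lit 14091660828) (nat_lit 0) (nat_lit 3064821449) (nat_lit 167) (nat_lit 5) (nat_lit 169) (nat_lit 4) (nat_lit 167) (nat_lit 4) (nat_lit 410) (nat_lit 317) (nat_lit 293)) (XT.lf (nat_lit 0) (nat_lit 5372600364) (nat_lit 76) (nat_lit 11320164259) (nat_lit 76) (nat_lit 7729207860) (nat_lit 166) (nat_lit 4) (nat_lit 167) (nat_lit 5) (nat_lit 167) (nat_lit 4) (nat_lit 411) (nat_lit 317) (nat_lit 292)))))))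
noncomputable def xc65 : XT := (XT.nd (nat_lit 1248) (nat_lit 1368) (nat_lit 0) (XT.nd (nat_lit 624) (nat_lit 684) (nat_lit 0) (XT.nd (nat_lit 312) (nat_lit 304) (nat_lit 0) (XT.nd (nat_lit 156) (nat_lit 228) (nat_lit 0) (XT.nd (nat_lit 78) (nat_lit 0) (nat_lit 0) (XT.lf (nat_lit 0) (nat_lit 780098146) (nat_lit 76) (nat_lit 1387077989) (nat_lit 152) (nat_lit 22968943049) (nat_lit 164) (nat_lit 5) (nat_lit 165) (nat_lit 5) (nat_lit 166) (nat_lit 4) (nat_lit 412) (nat_lit 317) (nat_lit 291)) (XT.lf (nat_lit 0) (nat_lit 12580371767) (nat_lit 152) (nat_lit 4258004429) (nat_lit 0) (nat_lit 9027174385) (nat_lit 164) (nat_lit 5) (nat_lit 166) (nat_lit 4) (nat_lit 164) (nat_lit 4) (nat_lit 413) (nat_lit 317) (nat_lit 290))) (XT.nd (nat_lit 78) (nat_lit 152) (nat_lit 0) (XT.lf (nat_lit 0) (nat_lit 17007101280) (nat_lit 76) (nat_lit 6616978317) (nat_lit 76) (nat_lit 3001881327) (nat_lit 163) (nat_lit 4)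 (nat_lit 164) (nat_lit 5) (nat_lit 164) (nat_lit 4) (nat_lit 414) (nat_lit 317) (nat_lit 289)) (XT.lf (nat_lit 0) (nat_lit 7695511305) (nat_lit 152) (nat_lit 15518906037) (nat_lit 0) (nat_lit 4196417022) (nat_lit 161) (nat_lit 5) (nat_lit 163) (nat_lit 4) (nat_lit 161) (nat_lit 4) (nat_lit 415) (nat_lit 317) (nat_lit 288)))) (XT.nd (nat_lit 156) (nat_lit 76) (nat_lit 0) (XT.nd (nat_lit 78) (nat_lit 152) (nat_lit 0) (XT.lf (nat_lit 0) (nat_lit 6265895945) (nat_lit 76) (nat_lit 12754736684) (nat_lit 76) (nat_lit 9202171191) (nat_lit 160) (nat_lit 4) (nat_lit 161) (nat_lit 5) (nat_lit 161) (nat_lit 4) (nat_lit 416) (nat_lit 317) (nat_lit 287)) (XT.lf (nat_lit 0) (nat_lit 231127568) (nat_lit 76) (nat_lit 1639417807) (nat_lit 152) (nat_lit 27198758070) (nat_lit 158) (nat_lit 5) (nat_lit 159) (nat_lit 5) (nat_lit 160) (nat_lit 4) (nat_lit 417) (nat_lit 317) (nat_lit 286))) (XT.nd (nat_lit 78) (nat_lit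 76) (nat_lit 0) (XT.lf (nat_lit 0) (nat_lit 13544326543) (nat_lit 152) (nat_lit 6322184212) (nat_lit 0) (nat_lit 10066240432) (nat_lit 158) (nat_lit 5) (nat_lit 160) (nat_lit 4) (nat_lit 158) (nat_lit 4) (nat_lit 418) (nat_lit 317) (nat_lit 285)) (XT.lf (nat_lit 0) (nat_lit 17510378388) (nat_lit 76) (nat_lit 8422263830) (nat_lit 76) (nat_lit 4900186823) (nat_lit 157) (nat_lit 4) (nat_lit 158) (nat_lit 5) (nat_lit 158) (nat_lit 4) (nat_lit 419) (nat_lit 317) (nat_lit 284))))) (XT.nd (nat_lit 312) (nat_lit 304) (nat_lit 0) (XT.nd (nat_lit 156) (nat_lit 152) (nat_lit 0) (XT.nd (nat_lit 78) (nat_lit 76) (nat_lit 0) (XT.lf (nat_lit 0) (nat_lit 7102263394) (nat_lit 152) (nat_lit 20953600586) (nat_lit 0) (nat_lit 3708003301) (nat_lit 155) (nat_lit 5) (nat_lit 157) (nat_lit 4) (nat_lit 155) (nat_lit 4) (nat_lit 420) (nat_lit 317) (nat_lit 283)) (XT.lf (nat_lit 0) (nat_lit 3426544550) (nat_lit 76) (nat_lit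 16365286866) (nat_lit 76) (nat_lit 12933025783) (nat_lit 154) (nat_lit 4) (nat_lit 155) (nat_lit 5) (nat_lit 155) (nat_lit 4) (nat_lit 421) (nat_lit 317) (nat_lit 282))) (XT.nd (nat_lit 78) (nat_lit 152) (nat_lit 0) (XT.lf (nat_lit 0) (nat_lit 29415695120) (nat_lit 76) (nat_lit 3888616162) (nat_lit 76) (nat_lit 420163660) (nat_lit 154) (nat_lit 4) (nat_lit 155) (nat_lit 5) (nat_lit 155) (nat_lit 4) (nat_lit 422) (nat_lit 317) (nat_lit 281)) (XT.lf (nat_lit 0) (nat_lit 12645569421) (nat_lit 152) (nat_lit 12792406354) (nat_lit 0) (nat_lit 9309454640) (nat_lit 152) (nat_lit 5) (nat_lit 154) (nat_lit 4) (nat_lit 152) (nat_lit 4) (nat_lit 423) (nat_lit 317) (nat_lit 280)))) (XT.nd (nat_lit 156) (nat_lit 76) (nat_lit 0) (XT.nd (nat_lit 78) (nat_lit 152) (nat_lit 0) (XT.lf (nat_lit 0) (nat_lit 13910279796) (nat_lit 76) (nat_lit 12634291323) (nat_lit 76) (nat_lit 9266913034) (nat_lit 151) (nat_lit 4) (nat_lit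 152) (nat_lit 5) (nat_lit 152) (nat_lit 4) (nat_lit 424) (nat_lit 317) (nat_lit 279)) (XT.lf (nat_lit 0) (nat_lit 4232283445) (nat_lit 152) (nat_lit 31688409207) (nat_lit 0) (nat_lit 996899579) (nat_lit 149) (nat_lit 5) (nat_lit 151) (nat_lit 4) (nat_lit 149) (nat_lit 4) (nat_lit 425) (nat_lit 317) (nat_lit 278))) (XT.nd (nat_lit 78) (nat_lit 76) (nat_lit 0) (XT.lf (nat_lit 0) (nat_lit 18518269676) (nat_lit 152) (nat_lit 4276098042) (nat_lit 0) (nat_lit 15255879216) (nat_lit 149) (nat_lit 5) (nat_lit 151) (nat_lit 4) (nat_lit 149) (nat_lit 4) (nat_lit 426) (nat_lit 317) (nat_lit 277)) (XT.lf (nat_lit 0) (nat_lit 24995437591) (nat_lit 76) (nat_lit 8760177408) (nat_lit 76) (nat_lit 5472066383) (nat_lit 148) (nat_lit 4) (nat_lit 149) (nat_lit 5) (nat_lit 149) (nat_lit 4) (nat_lit 427) (nat_lit 317) (nat_lit 276)))))) (XT.nd (nat_lit 624) (nat_lit 684) (nat_lit 0) (XT.nd (nat_lit 312) (nat_lit 304)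 (nat_lit 0) (XT.nd (nat_lit 156) (nat_lit 152) (nat_lit 0) (XT.nd (nat_lit 78) (nat_lit 76) (nat_lit 0) (XT.lf (nat_lit 0) (nat_lit 9253604715) (nat_lit 152) (nat_lit 25091382463) (nat_lit 0) (nat_lit 6098741094) (nat_lit 146) (nat_lit 5) (nat_lit 148) (nat_lit 4) (nat_lit 146) (nat_lit 4) (nat_lit 428) (nat_lit 317) (nat_lit 275)) (XT.lf (nat_lit 0) (nat_lit 4806812599) (nat_lit 76) (nat_lit 20035416631) (nat_lit 76) (nat_lit 16858334618) (nat_lit 145) (nat_lit 4) (nat_lit 146) (nat_lit 5) (nat_lit 146) (nat_lit 4) (nat_lit 429) (nat_lit 317) (nat_lit 274))) (XT.nd (nat_lit 78) (nat_lit 152) (nat_lit 0) (XT.lf (nat_lit 0) (nat_lit 36764539165) (nat_lit 76) (nat_lit 4720113030) (nat_lit 76) (nat_lit 1521870644) (nat_lit 145) (nat_lit 4) (nat_lit 146) (nat_lit 5) (nat_lit 146) (nat_lit 4) (nat_lit 430) (nat_lit 317) (nat_lit 273)) (XT.lf (nat_lit 0) (nat_lit 14564411603) (nat_lit 152) (nat_lit 18280227376)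 (nat_lit 0) (nat_lit 11499273391) (nat_lit 143) (nat_lit 5) (nat_lit 145) (nat_lit 4) (nat_lit 143) (nat_lit 4) (nat_lit 431) (nat_lit 317) (nat_lit 272)))) (XT.nd (nat_lit 156) (nat_lit 76) (nat_lit 0) (XT.nd (nat_lit 78) (nat_lit 152) (nat_lit 0) (XT.lf (nat_lit 0) (nat_lit 14522425093) (nat_lit 76) (nat_lit 17147311262) (nat_lit 76) (nat_lit 14063893924) (nat_lit 142) (nat_lit 4) (nat_lit 143) (nat_lit 5) (nat_lit 143) (nat_lit 4) (nat_lit 432) (nat_lit 317) (nat_lit 271)) (XT.lf (nat_lit 0) (nat_lit 2151420438) (nat_lit 76) (nat_lit 410651009) (nat_lit 152) (nat_lit 44618730174) (nat_lit 140) (nat_lit 5) (nat_lit 141) (nat_lit 5) (nat_lit 142) (nat_lit 4) (nat_lit 433) (nat_lit 317) (nat_lit 270))) (XT.nd (nat_lit 78) (nat_lit 76) (nat_lit 0) (XT.lf (nat_lit 0) (nat_lit 20206296385) (nat_lit 152) (nat_lit 11212188803) (nat_lit 0) (nat_lit 17237338542) (nat_lit 140) (nat_lit 5) (nat_lit 142)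 (nat_lit 4) (nat_lit 140) (nat_lit 4) (nat_lit 434) (nat_lit 317) (nat_lit 269)) (XT.lf (nat_lit 0) (nat_lit 24800162601) (nat_lit 76) (nat_lit 14187833641) (nat_lit 76) (nat_lit 11203837516) (nat_lit 139) (nat_lit 4) (nat_lit 140) (nat_lit 5) (nat_lit 140) (nat_lit 4) (nat_lit 435) (nat_lit 317) (nat_lit 268))))) (XT.nd (nat_lit 312) (nat_lit 304) (nat_lit 0) (XT.nd (nat_lit 156) (nat_lit 228) (nat_lit 0) (XT.nd (nat_lit 78) (nat_lit 0) (nat_lit 0) (XT.lf (nat_lit 0) (nat_lit 6978424491) (nat_lit 152) (nat_lit 40683183739) (nat_lit 0) (nat_lit 4122883255) (nat_lit 137) (nat_lit 5) (nat_lit 139) (nat_lit 4) (nat_lit 137) (nat_lit 4) (nat_lit 436) (nat_lit 317) (nat_lit 267)) (XT.lf (nat_lit 0) (nat_lit 26224334842) (nat_lit 152) (nat_lit 3840907927) (nat_lit 0) (nat_lit 23355802972) (nat_lit 137) (nat_lit 5) (nat_lit 139) (nat_lit 4) (nat_lit 137) (nat_lit 4) (nat_lit 437) (nat_lit 317) (nat_lit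 266))) (XT.nd (nat_lit 78) (nat_lit 152) (nat_lit 0) (XT.lf (nat_lit 0) (nat_lit 35717328278) (nat_lit 76) (nat_lit 11140860467) (nat_lit 76) (nat_lit 8259956565) (nat_lit 136) (nat_lit 4) (nat_lit 137) (nat_lit 5) (nat_lit 137) (nat_lit 4) (nat_lit 438) (nat_lit 317) (nat_lit 265)) (XT.lf (nat_lit 0) (nat_lit 11652443786) (nat_lit 152) (nat_lit 36321036346) (nat_lit 0) (nat_lit 8897503987) (nat_lit 134) (nat_lit 5) (nat_lit 136) (nat_lit 4) (nat_lit 134) (nat_lit 4) (nat_lit 439) (nat_lit 317) (nat_lit 264)))) (XT.nd (nat_lit 156) (nat_lit 228) (nat_lit 0) (XT.nd (nat_lit 78) (nat_lit 0) (nat_lit 0) (XT.lf (nat_lit 0) (nat_lit 4012367416) (nat_lit 76) (nat_lit 28717794938) (nat_lit 76) (nat_lit 25952167712) (nat_lit 133) (nat_lit 4) (nat_lit 134) (nat_lit 5) (nat_lit 134) (nat_lit 4) (nat_lit 440) (nat_lit 317) (nat_lit 263)) (XT.lf (nat_lit 0) (nat_lit 47358383119) (nat_lit 76) (nat_lit 7988700051)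 (nat_lit 76) (nat_lit 5212894324) (nat_lit 133) (nat_lit 4) (nat_lit 134) (nat_lit 5) (nat_lit 134) (nat_lit 4) (nat_lit 441) (nat_lit 317) (nat_lit 262))) (XT.nd (nat_lit 78) (nat_lit 76) (nat_lit 0) (XT.lf (nat_lit 0) (nat_lit 16613793719) (nat_lit 152) (nat_lit 31914817481) (nat_lit 0) (nat_lit 13960937016) (nat_lit 131) (nat_lit 5) (nat_lit 133) (nat_lit 4) (nat_lit 131) (nat_lit 4) (nat_lit 442) (nat_lit 317) (nat_lit 261)) (XT.nd (nat_lit 78) (nat_lit 0) (nat_lit 0) (XT.lf (nat_lit 0) (nat_lit 12414431357) (nat_lit 76) (nat_lit 27368610924) (nat_lit 76) (nat_lit 24706961650) (nat_lit 130) (nat_lit 4) (nat_lit 131) (nat_lit 5) (nat_lit 131) (nat_lit 4) (nat_lit 443) (nat_lit 317) (nat_lit 260)) (XT.lf (nat_lit 0) (nat_lit 59815685674) (nat_lit 76) (nat_lit 4711986971) (nat_lit 76) (nat_lit 2041963819) (nat_lit 130) (nat_lit 4) (nat_lit 131) (nat_lit 5) (nat_lit 131) (nat_lit 4) (nat_lit 444)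 (nat_lit 317) (nat_lit 259))))))))
noncomputable def xc66 : XT := (XT.nd (nat_lit 2496) (nat_lit 1520) (nat_lit 0) (XT.nd (nat_lit 1248) (nat_lit 1216) (nat_lit 0) (XT.nd (nat_lit 624) (nat_lit 608) (nat_lit 0) (XT.nd (nat_lit 312) (nat_lit 304) (nat_lit 0) (XT.nd (nat_lit 156) (nat_lit 152) (nat_lit 0) (XT.nd (nat_lit 78) (nat_lit 76) (nat_lit 0) (XT.lf (nat_lit 0) (nat_lit 21901632326) (nat_lit 152) (nat_lit 27441392420) (nat_lit 0) (nat_lit 19351157779) (nat_lit 128) (nat_lit 5) (nat_lit 130) (nat_lit 4) (nat_lit 128) (nat_lit 4) (nat_lit 445) (nat_lit 317) (nat_lit 258)) (XT.lf (nat_lit 0) (nat_lit 21299819637) (nat_lit 76) (nat_lit 26080423899) (nat_lit 76) (nat_lit 23522715681) (nat_lit 127) (nat_lit 4) (nat_lit 128) (nat_lit 5) (nat_lit 128) (nat_lit 4) (nat_lit 446) (nat_lit 317) (nat_lit 257))) (XT.nd (nat_lit 78) (nat_lit 76) (nat_lit 0) (XT.lf (nat_lit 0) (nat_lit 1234235287) (nat_lit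 152) (nat_lit 34415088) (nat_lit 76) (nat_lit 71935175013) (nat_lit 126) (nat_lit 5) (nat_lit 128) (nat_lit 5) (nat_lit 127) (nat_lit 4) (nat_lit 447) (nat_lit 317) (nat_lit 256)) (XT.lf (nat_lit 0) (nat_lit 27558567108) (nat_lit 152) (nat_lit 22876039656) (nat_lit 0) (nat_lit 25109844650) (nat_lit 125) (nat_lit 5) (nat_lit 127) (nat_lit 4) (nat_lit 125) (nat_lit 4) (nat_lit 448) (nat_lit 317) (nat_lit 255)))) (XT.nd (nat_lit 156) (nat_lit 76) (nat_lit 0) (XT.nd (nat_lit 78) (nat_lit 152) (nat_lit 0) (XT.lf (nat_lit 0) (nat_lit 30735601889) (nat_lit 76) (nat_lit 24850905438) (nat_lit 76) (nat_lit 22396231821) (nat_lit 124) (nat_lit 4) (nat_lit 125) (nat_lit 5) (nat_lit 125) (nat_lit 4) (nat_lit 449) (nat_lit 317) (nat_lit 254)) (XT.lf (nat_lit 0) (nat_lit 4761389209) (nat_lit 152) (nat_lit 73338271061) (nat_lit 0) (nat_lit 2418206935) (nat_lit 122) (nat_lit 5) (nat_lit 124) (nat_lit 4) (nat_lit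 122) (nat_lit 4) (nat_lit 450) (nat_lit 317) (nat_lit 253))) (XT.nd (nat_lit 78) (nat_lit 76) (nat_lit 0) (XT.lf (nat_lit 0) (nat_lit 33631053550) (nat_lit 152) (nat_lit 18192268980) (nat_lit 0) (nat_lit 31282730442) (nat_lit 122) (nat_lit 5) (nat_lit 124) (nat_lit 4) (nat_lit 122) (nat_lit 4) (nat_lit 451) (nat_lit 317) (nat_lit 252)) (XT.lf (nat_lit 0) (nat_lit 40794970248) (nat_lit 76) (nat_lit 23677735836) (nat_lit 76) (nat_lit 21324516694) (nat_lit 121) (nat_lit 4) (nat_lit 122) (nat_lit 5) (nat_lit 122) (nat_lit 4) (nat_lit 452) (nat_lit 317) (nat_lit 251))))) (XT.nd (nat_lit 312) (nat_lit 228) (nat_lit 0) (XT.nd (nat_lit 156) (nat_lit 228) (nat_lit 0) (XT.nd (nat_lit 78) (nat_lit 0) (nat_lit 0) (XT.lf (nat_lit 0) (nat_lit 8507969810) (nat_lit 152) (nat_lit 73819285859) (nat_lit 0) (nat_lit 6262367876) (nat_lit 119) (nat_lit 5) (nat_lit 121) (nat_lit 4) (nat_lit 119) (nat_lit 4) (nat_lit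 453) (nat_lit 317) (nat_lit 250)) (XT.lf (nat_lit 0) (nat_lit 40169829153) (nat_lit 152) (nat_lit 13361618637) (nat_lit 0) (nat_lit 37919997842) (nat_lit 119) (nat_lit 5) (nat_lit 121) (nat_lit 4) (nat_lit 119) (nat_lit 4) (nat_lit 454) (nat_lit 317) (nat_lit 249))) (XT.nd (nat_lit 78) (nat_lit 152) (nat_lit 0) (XT.lf (nat_lit 0) (nat_lit 51557888085) (nat_lit 76) (nat_lit 22558621804) (nat_lit 76) (nat_lit 20304762514) (nat_lit 118) (nat_lit 4) (nat_lit 119) (nat_lit 5) (nat_lit 119) (nat_lit 4) (nat_lit 455) (nat_lit 317) (nat_lit 248)) (XT.lf (nat_lit 0) (nat_lit 12482122141) (nat_lit 152) (nat_lit 74683375521) (nat_lit 0) (nat_lit 10331935988) (nat_lit 116) (nat_lit 5) (nat_lit 118) (nat_lit 4) (nat_lit 116) (nat_lit 4) (nat_lit 456) (nat_lit 317) (nat_lit 247)))) (XT.nd (nat_lit 156) (nat_lit 152) (nat_lit 0) (XT.nd (nat_lit 78) (nat_lit 76) (nat_lit 0) (XT.lf (nat_lit 0) (nat_lit 47230387421)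 (nat_lit 152) (nat_lit 8353430063) (nat_lit 0) (nat_lit 45076721750) (nat_lit 116) (nat_lit 5) (nat_lit 118) (nat_lit 4) (nat_lit 116) (nat_lit 4) (nat_lit 457) (nat_lit 317) (nat_lit 246)) (XT.lf (nat_lit 0) (nat_lit 63111806820) (nat_lit 76) (nat_lit 21491310114) (nat_lit 76) (nat_lit 19334330614) (nat_lit 115) (nat_lit 4) (nat_lit 116) (nat_lit 5) (nat_lit 116) (nat_lit 4) (nat_lit 458) (nat_lit 317) (nat_lit 245))) (XT.nd (nat_lit 78) (nat_lit 0) (nat_lit 0) (XT.lf (nat_lit 0) (nat_lit 16714850139) (nat_lit 152) (nat_lit 75954139073) (nat_lit 0) (nat_lit 14657578209) (nat_lit 113) (nat_lit 5) (nat_lit 115) (nat_lit 4) (nat_lit 113) (nat_lit 4) (nat_lit 459) (nat_lit 317) (nat_lit 244)) (XT.lf (nat_lit 0) (nat_lit 54873496596) (nat_lit 152) (nat_lit 3134598476) (nat_lit 0) (nat_lit 52813362057) (nat_lit 113) (nat_lit 5) (nat_lit 115) (nat_lit 4) (nat_lit 113) (nat_lit 4) (nat_lit 460) (nat_lit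 317) (nat_lit 243)))))) (XT.nd (nat_lit 624) (nat_lit 532) (nat_lit 0) (XT.nd (nat_lit 312) (nat_lit 380) (nat_lit 0) (XT.nd (nat_lit 156) (nat_lit 76) (nat_lit 0) (XT.nd (nat_lit 78) (nat_lit 152) (nat_lit 0) (XT.lf (nat_lit 0) (nat_lit 75552457265) (nat_lit 76) (nat_lit 20473597949) (nat_lit 76) (nat_lit 18410737115) (nat_lit 112) (nat_lit 4) (nat_lit 113) (nat_lit 5) (nat_lit 113) (nat_lit 4) (nat_lit 461) (nat_lit 317) (nat_lit 242)) (XT.lf (nat_lit 0) (nat_lit 21239929663) (nat_lit 152) (nat_lit 77658300077) (nat_lit 0) (nat_lit 19272827469) (nat_lit 110) (nat_lit 5) (nat_lit 112) (nat_lit 4) (nat_lit 110) (nat_lit 4) (nat_lit 462) (nat_lit 317) (nat_lit 241))) (XT.nd (nat_lit 78) (nat_lit 0) (nat_lit 0) (XT.lf (nat_lit 0) (nat_lit 2407766290) (nat_lit 76) (nat_lit 60795593974) (nat_lit 76) (nat_lit 58826136703) (nat_lit 109) (nat_lit 4) (nat_lit 110) (nat_lit 5) (nat_lit 110) (nat_lit 4)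 (nat_lit 463) (nat_lit 317) (nat_lit 240)) (XT.lf (nat_lit 0) (nat_lit 88984722693) (nat_lit 76) (nat_lit 19503340587) (nat_lit 76) (nat_lit 17531640388) (nat_lit 109) (nat_lit 4) (nat_lit 110) (nat_lit 5) (nat_lit 110) (nat_lit 4) (nat_lit 464) (nat_lit 317) (nat_lit 239)))) (XT.nd (nat_lit 156) (nat_lit 152) (nat_lit 0) (XT.nd (nat_lit 78) (nat_lit 76) (nat_lit 0) (XT.lf (nat_lit 0) (nat_lit 26094219106) (nat_lit 152) (nat_lit 79826000452) (nat_lit 0) (nat_lit 24214374989) (nat_lit 107) (nat_lit 5) (nat_lit 109) (nat_lit 4) (nat_lit 107) (nat_lit 4) (nat_lit 465) (nat_lit 317) (nat_lit 238)) (XT.lf (nat_lit 0) (nat_lit 8348531278) (nat_lit 76) (nat_lit 63962094267) (nat_lit 76) (nat_lit 62080312624) (nat_lit 106) (nat_lit 4) (nat_lit 107) (nat_lit 5) (nat_lit 107) (nat_lit 4) (nat_lit 466) (nat_lit 317) (nat_lit 237))) (XT.nd (nat_lit 78) (nat_lit 152) (nat_lit 0) (XT.lf (nat_lit 0) (nat_lit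 103523601691) (nat_lit 76) (nat_lit 18578456936) (nat_lit 76) (nat_lit 16694830030) (nat_lit 106) (nat_lit 4) (nat_lit 107) (nat_lit 5) (nat_lit 107) (nat_lit 4) (nat_lit 467) (nat_lit 317) (nat_lit 236)) (XT.lf (nat_lit 0) (nat_lit 31317999310) (nat_lit 152) (nat_lit 82491124402) (nat_lit 0) (nat_lit 29522395215) (nat_lit 104) (nat_lit 5) (nat_lit 106) (nat_lit 4) (nat_lit 104) (nat_lit 4) (nat_lit 468) (nat_lit 317) (nat_lit 235))))) (XT.nd (nat_lit 312) (nat_lit 228) (nat_lit 0) (XT.nd (nat_lit 156) (nat_lit 228) (nat_lit 0) (XT.nd (nat_lit 78) (nat_lit 0) (nat_lit 0) (XT.lf (nat_lit 0) (nat_lit 14627662160) (nat_lit 76) (nat_lit 67597985355) (nat_lit 76) (nat_lit 65800787251) (nat_lit 103) (nat_lit 4) (nat_lit 104) (nat_lit 5) (nat_lit 104) (nat_lit 4) (nat_lit 469) (nat_lit 317) (nat_lit 234)) (XT.lf (nat_lit 0) (nat_lit 119295269705) (nat_lit 76) (nat_lit 17696933327) (nat_lit 76) (nat_lit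 15898217120) (nat_lit 103) (nat_lit 4) (nat_lit 104) (nat_lit 5) (nat_lit 104) (nat_lit 4) (nat_lit 470) (nat_lit 317) (nat_lit 233))) (XT.nd (nat_lit 78) (nat_lit 76) (nat_lit 0) (XT.lf (nat_lit 0) (nat_lit 36955346151) (nat_lit 152) (nat_lit 85691655762) (nat_lit 0) (nat_lit 35240906134) (nat_lit 101) (nat_lit 5) (nat_lit 103) (nat_lit 4) (nat_lit 101) (nat_lit 4) (nat_lit 471) (nat_lit 317) (nat_lit 232)) (XT.lf (nat_lit 0) (nat_lit 21292622739) (nat_lit 76) (nat_lit 71744683761) (nat_lit 76) (nat_lit 70028932350) (nat_lit 100) (nat_lit 4) (nat_lit 101) (nat_lit 5) (nat_lit 101) (nat_lit 4) (nat_lit 472) (nat_lit 317) (nat_lit 231)))) (XT.nd (nat_lit 156) (nat_lit 76) (nat_lit 0) (XT.nd (nat_lit 78) (nat_lit 152) (nat_lit 0) (XT.lf (nat_lit 0) (nat_lit 136438249203) (nat_lit 76) (nat_lit 16856825918) (nat_lit 76) (nat_lit 15139825559) (nat_lit 100) (nat_lit 4) (nat_lit 101) (nat_lit 5) (nat_lit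 101) (nat_lit 4) (nat_lit 473) (nat_lit 317) (nat_lit 230)) (XT.lf (nat_lit 0) (nat_lit 43054539400) (nat_lit 152) (nat_lit 89470072363) (nat_lit 0) (nat_lit 41418168132) (nat_lit 98) (nat_lit 5) (nat_lit 100) (nat_lit 4) (nat_lit 98) (nat_lit 4) (nat_lit 474) (nat_lit 317) (nat_lit 229))) (XT.nd (nat_lit 78) (nat_lit 0) (nat_lit 0) (XT.lf (nat_lit 0) (nat_lit 28395151420) (nat_lit 76) (nat_lit 76448134539) (nat_lit 76) (nat_lit 74810684383) (nat_lit 97) (nat_lit 4) (nat_lit 98) (nat_lit 5) (nat_lit 98) (nat_lit 4) (nat_lit 475) (nat_lit 317) (nat_lit 228)) (XT.lf (nat_lit 0) (nat_lit 155104699412) (nat_lit 76) (nat_lit 16056261993) (nat_lit 76) (nat_lit 14417784326) (nat_lit 97) (nat_lit 4) (nat_lit 98) (nat_lit 5) (nat_lit 98) (nat_lit 4) (nat_lit 476) (nat_lit 317) (nat_lit 227))))))) (XT.nd (nat_lit 1248) (nat_lit 228) (nat_lit 0) (XT.nd (nat_lit 624) (nat_lit 608) (nat_lit 0) (XT.nd (nat_lit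 312) (nat_lit 304) (nat_lit 0) (XT.nd (nat_lit 156) (nat_lit 152) (nat_lit 0) (XT.nd (nat_lit 78) (nat_lit 76) (nat_lit 0) (XT.lf (nat_lit 0) (nat_lit 49668511853) (nat_lit 152) (nat_lit 93873781341) (nat_lit 0) (nat_lit 48107124948) (nat_lit 95) (nat_lit 5) (nat_lit 97) (nat_lit 4) (nat_lit 95) (nat_lit 4) (nat_lit 477) (nat_lit 317) (nat_lit 226)) (XT.lf (nat_lit 0) (nat_lit 35991724249) (nat_lit 76) (nat_lit 81759268245) (nat_lit 76) (nat_lit 80196993737) (nat_lit 94) (nat_lit 4) (nat_lit 95) (nat_lit 5) (nat_lit 95) (nat_lit 4) (nat_lit 478) (nat_lit 317) (nat_lit 225))) (XT.nd (nat_lit 78) (nat_lit 152) (nat_lit 0) (XT.lf (nat_lit 0) (nat_lit 175461837766) (nat_lit 76) (nat_lit 15293440377) (nat_lit 76) (nat_lit 13730320532) (nat_lit 94) (nat_lit 4) (nat_lit 95) (nat_lit 5) (nat_lit 95) (nat_lit 4) (nat_lit 479) (nat_lit 317) (nat_lit 224)) (XT.lf (nat_lit 0) (nat_lit 56855343039) (nat_lit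 152) (nat_lit 98955599695) (nat_lit 0) (nat_lit 55365890728) (nat_lit 92) (nat_lit 5) (nat_lit 94) (nat_lit 4) (nat_lit 92) (nat_lit 4) (nat_lit 480) (nat_lit 317) (nat_lit 223)))) (XT.nd (nat_lit 156) (nat_lit 228) (nat_lit 0) (XT.nd (nat_lit 78) (nat_lit 0) (nat_lit 0) (XT.lf (nat_lit 0) (nat_lit 44144064794) (nat_lit 76) (nat_lit 87734503994) (nat_lit 76) (nat_lit 86244321449) (nat_lit 91) (nat_lit 4) (nat_lit 92) (nat_lit 5) (nat_lit 92) (nat_lit 4) (nat_lit 481) (nat_lit 317) (nat_lit 222)) (XT.lf (nat_lit 0) (nat_lit 197693506467) (nat_lit 76) (nat_lit 14566631150) (nat_lit 76) (nat_lit 13075753145) (nat_lit 91) (nat_lit 4) (nat_lit 92) (nat_lit 5) (nat_lit 92) (nat_lit 4) (nat_lit 482) (nat_lit 317) (nat_lit 221))) (XT.nd (nat_lit 78) (nat_lit 76) (nat_lit 0) (XT.lf (nat_lit 0) (nat_lit 64678802264) (nat_lit 152) (nat_lit 104774284793) (nat_lit 0) (nat_lit 63258287646) (nat_lit 89) (nat_lit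 5) (nat_lit 91) (nat_lit 4) (nat_lit 89) (nat_lit 4) (nat_lit 483) (nat_lit 317) (nat_lit 220)) (XT.lf (nat_lit 0) (nat_lit 52919705611) (nat_lit 76) (nat_lit 94436303522) (nat_lit 76) (nat_lit 93015188140) (nat_lit 88) (nat_lit 4) (nat_lit 89) (nat_lit 5) (nat_lit 89) (nat_lit 4) (nat_lit 484) (nat_lit 317) (nat_lit 219))))) (XT.nd (nat_lit 312) (nat_lit 380) (nat_lit 0) (XT.nd (nat_lit 156) (nat_lit 76) (nat_lit 0) (XT.nd (nat_lit 78) (nat_lit 152) (nat_lit 0) (XT.lf (nat_lit 0) (nat_lit 222001898972) (nat_lit 76) (nat_lit 13874174833) (nat_lit 76) (nat_lit 12452487294) (nat_lit 88) (nat_lit 4) (nat_lit 89) (nat_lit 5) (nat_lit 89) (nat_lit 4) (nat_lit 485) (nat_lit 317) (nat_lit 218)) (XT.lf (nat_lit 0) (nat_lit 73208946175) (nat_lit 152) (nat_lit 111395120012) (nat_lit 0) (nat_lit 71854439079) (nat_lit 86) (nat_lit 5) (nat_lit 88) (nat_lit 4) (nat_lit 86) (nat_lit 4) (nat_lit 486) (nat_lit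 317) (nat_lit 217))) (XT.nd (nat_lit 78) (nat_lit 0) (nat_lit 0) (XT.lf (nat_lit 0) (nat_lit 62392606518) (nat_lit 76) (nat_lit 101933781702) (nat_lit 76) (nat_lit 100578780356) (nat_lit 85) (nat_lit 4) (nat_lit 86) (nat_lit 5) (nat_lit 86) (nat_lit 4) (nat_lit 487) (nat_lit 317) (nat_lit 216)) (XT.lf (nat_lit 0) (nat_lit 248609462740) (nat_lit 76) (nat_lit 13214481149) (nat_lit 76) (nat_lit 11859009088) (nat_lit 85) (nat_lit 4) (nat_lit 86) (nat_lit 5) (nat_lit 86) (nat_lit 4) (nat_lit 488) (nat_lit 317) (nat_lit 215)))) (XT.nd (nat_lit 156) (nat_lit 152) (nat_lit 0) (XT.nd (nat_lit 78) (nat_lit 76) (nat_lit 0) (XT.lf (nat_lit 0) (nat_lit 82522776577) (nat_lit 152) (nat_lit 118890561184) (nat_lit 0) (nat_lit 81231423852) (nat_lit 83) (nat_lit 5) (nat_lit 85) (nat_lit 4) (nat_lit 83) (nat_lit 4) (nat_lit 489) (nat_lit 317) (nat_lit 214)) (XT.lf (nat_lit 0) (nat_lit 72643835476) (nat_lit 76) (nat_lit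 110303379429) (nat_lit 76) (nat_lit 109011620083) (nat_lit 82) (nat_lit 4) (nat_lit 83) (nat_lit 5) (nat_lit 83) (nat_lit 4) (nat_lit 490) (nat_lit 317) (nat_lit 213))) (XT.nd (nat_lit 78) (nat_lit 152) (nat_lit 0) (XT.lf (nat_lit 0) (nat_lit 277760996276) (nat_lit 76) (nat_lit 12586027466) (nat_lit 76) (nat_lit 11293880861) (nat_lit 82) (nat_lit 4) (nat_lit 83) (nat_lit 5) (nat_lit 83) (nat_lit 4) (nat_lit 491) (nat_lit 317) (nat_lit 212)) (XT.lf (nat_lit 0) (nat_lit 92704964767) (nat_lit 152) (nat_lit 127340950107) (nat_lit 0) (nat_lit 91473997698) (nat_lit 80) (nat_lit 5) (nat_lit 82) (nat_lit 4) (nat_lit 80) (nat_lit 4) (nat_lit 492) (nat_lit 317) (nat_lit 211)))))) (XT.nd (nat_lit 45006) (nat_lit 0) (nat_lit 8208) (XT.nd (nat_lit 44694) (nat_lit 0) (nat_lit 9272) (XT.nd (nat_lit 156) (nat_lit 152) (nat_lit 0) (XT.nd (nat_lit 78) (nat_lit 0) (nat_lit 0) (XT.lf (nat_lit 0) (nat_lit 83762318467)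 (nat_lit 76) (nat_lit 119629605404) (nat_lit 76) (nat_lit 118398303807) (nat_lit 79) (nat_lit 4) (nat_lit 80) (nat_lit 5) (nat_lit 80) (nat_lit 4) (nat_lit 493) (nat_lit 317) (nat_lit 210)) (XT.lf (nat_lit 0) (nat_lit 309725960384) (nat_lit 76) (nat_lit 11987357013) (nat_lit 76) (nat_lit 10755736817) (nat_lit 79) (nat_lit 4) (nat_lit 80) (nat_lit 5) (nat_lit 80) (nat_lit 4) (nat_lit 494) (nat_lit 317) (nat_lit 209))) (XT.nd (nat_lit 44460) (nat_lit 0) (nat_lit 9728) (XT.lf (nat_lit 0) (nat_lit 103848649302) (nat_lit 152) (nat_lit 136835302007) (nat_lit 0) (nat_lit 102675388709) (nat_lit 77) (nat_lit 5) (nat_lit 79) (nat_lit 4) (nat_lit 77) (nat_lit 4) (nat_lit 495) (nat_lit 317) (nat_lit 208)) (XT.lf (nat_lit 0) (nat_lit 371474305) (nat_lit 152) (nat_lit 2860157997) (nat_lit 152) (nat_lit 2860157997) (nat_lit 205) (nat_lit 4) (nat_lit 207) (nat_lit 5) (nat_lit 207) (nat_lit 4) (nat_lit 384) (nat_lit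 318) (nat_lit 318)))) (XT.nd (nat_lit 156) (nat_lit 304) (nat_lit 0) (XT.nd (nat_lit 78) (nat_lit 0) (nat_lit 0) (XT.lf (nat_lit 0) (nat_lit 288832117) (nat_lit 76) (nat_lit 75262168) (nat_lit 152) (nat_lit 12101566772) (nat_lit 203) (nat_lit 5) (nat_lit 204) (nat_lit 5) (nat_lit 205) (nat_lit 4) (nat_lit 385) (nat_lit 318) (nat_lit 317)) (XT.lf (nat_lit 0) (nat_lit 6630703611) (nat_lit 152) (nat_lit 343032613) (nat_lit 0) (nat_lit 5779909598) (nat_lit 203) (nat_lit 5) (nat_lit 205) (nat_lit 4) (nat_lit 203) (nat_lit 4) (nat_lit 386) (nat_lit 318) (nat_lit 316))) (XT.nd (nat_lit 78) (nat_lit 76) (nat_lit 0) (XT.lf (nat_lit 0) (nat_lit 131558886) (nat_lit 228) (nat_lit 976356837) (nat_lit 76) (nat_lit 11948898708) (nat_lit 200) (nat_lit 5) (nat_lit 203) (nat_lit 5) (nat_lit 201) (nat_lit 4) (nat_lit 387) (nat_lit 318) (nat_lit 315)) (XT.lf (nat_lit 0) (nat_lit 6554521932) (nat_lit 152) (nat_lit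 1803231275) (nat_lit 0) (nat_lit 5009294064) (nat_lit 199) (nat_lit 5) (nat_lit 201) (nat_lit 4) (nat_lit 199) (nat_lit 4) (nat_lit 388) (nat_lit 318) (nat_lit 314))))) (XT.nd (nat_lit 312) (nat_lit 456) (nat_lit 0) (XT.nd (nat_lit 156) (nat_lit 304) (nat_lit 0) (XT.nd (nat_lit 78) (nat_lit 152) (nat_lit 0) (XT.lf (nat_lit 0) (nat_lit 11020145023) (nat_lit 152) (nat_lit 2279628386) (nat_lit 152) (nat_lit 392961328) (nat_lit 197) (nat_lit 4) (nat_lit 199) (nat_lit 5) (nat_lit 199) (nat_lit 4) (nat_lit 389) (nat_lit 318) (nat_lit 313)) (XT.lf (nat_lit 0) (nat_lit 6197833627) (nat_lit 152) (nat_lit 3737934579) (nat_lit 0) (nat_lit 4091312447) (nat_lit 195) (nat_lit 5) (nat_lit 197) (nat_lit 4) (nat_lit 195) (nat_lit 4) (nat_lit 390) (nat_lit 318) (nat_lit 312))) (XT.nd (nat_lit 78) (nat_lit 152) (nat_lit 0) (XT.lf (nat_lit 0) (nat_lit 9486313893) (nat_lit 152) (nat_lit 3645809503) (nat_lit 152) (nat_lit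 1244340313) (nat_lit 193) (nat_lit 4) (nat_lit 195) (nat_lit 5) (nat_lit 195) (nat_lit 4) (nat_lit 391) (nat_lit 318) (nat_lit 311)) (XT.lf (nat_lit 0) (nat_lit 5530423571) (nat_lit 152) (nat_lit 6230578685) (nat_lit 0) (nat_lit 2975783517) (nat_lit 191) (nat_lit 5) (nat_lit 193) (nat_lit 4) (nat_lit 191) (nat_lit 4) (nat_lit 392) (nat_lit 318) (nat_lit 310)))) (XT.nd (nat_lit 156) (nat_lit 228) (nat_lit 0) (XT.nd (nat_lit 78) (nat_lit 152) (nat_lit 0) (XT.lf (nat_lit 0) (nat_lit 7396404525) (nat_lit 76) (nat_lit 5262152124) (nat_lit 76) (nat_lit 2452724890) (nat_lit 190) (nat_lit 4) (nat_lit 191) (nat_lit 5) (nat_lit 191) (nat_lit 4) (nat_lit 393) (nat_lit 318) (nat_lit 309)) (XT.lf (nat_lit 0) (nat_lit 4516869046) (nat_lit 152) (nat_lit 9372550461) (nat_lit 0) (nat_lit 1610124578) (nat_lit 188) (nat_lit 5) (nat_lit 190) (nat_lit 4) (nat_lit 188) (nat_lit 4) (nat_lit 394) (nat_lit 318) (nat_lit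 308))) (XT.nd (nat_lit 78) (nat_lit 152) (nat_lit 0) (XT.lf (nat_lit 0) (nat_lit 4657423083) (nat_lit 76) (nat_lit 7185063442) (nat_lit 76) (nat_lit 4058224227) (nat_lit 187) (nat_lit 4) (nat_lit 188) (nat_lit 5) (nat_lit 188) (nat_lit 4) (nat_lit 395) (nat_lit 318) (nat_lit 307)) (XT.lf (nat_lit 0) (nat_lit 3053777908) (nat_lit 76) (nat_lit 63408026) (nat_lit 152) (nat_lit 13201864290) (nat_lit 185) (nat_lit 5) (nat_lit 186) (nat_lit 5) (nat_lit 187) (nat_lit 4) (nat_lit 396) (nat_lit 318) (nat_lit 306))))))))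
noncomputable def xc67 : XT := (XT.nd (nat_lit 2496) (nat_lit 2660) (nat_lit 0) (XT.nd (nat_lit 1248) (nat_lit 1368) (nat_lit 0) (XT.nd (nat_lit 624) (nat_lit 684) (nat_lit 0) (XT.nd (nat_lit 312) (nat_lit 456) (nat_lit 0) (XT.nd (nat_lit 156) (nat_lit 152) (nat_lit 0) (XT.nd (nat_lit 78) (nat_lit 76) (nat_lit 0) (XT.lf (nat_lit 0) (nat_lit 1167047456) (nat_lit 76) (nat_lit 9474648907) (nat_lit 76) (nat_lit 6106948258) (nat_lit 184) (nat_lit 4) (nat_lit 185) (nat_lit 5) (nat_lit 185) (nat_lit 4) (nat_lit 397) (nat_lit 318) (nat_lit 305)) (XT.lf (nat_lit 0) (nat_lit 1328620095) (nat_lit 152) (nat_lit 825101945) (nat_lit 76) (nat_lit 15043504435) (nat_lit 183) (nat_lit 5) (nat_lit 185) (nat_lit 5) (nat_lit 184) (nat_lit 4) (nat_lit 398) (nat_lit 318) (nat_lit 304))) (XT.nd (nat_lit 78) (nat_lit 76) (nat_lit 0) (XT.lf (nat_lit 0) (nat_lit 9057673258) (nat_lit 152) (nat_lit 3085560249) (nat_lit 0)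 (nat_lit 5513651225) (nat_lit 182) (nat_lit 5) (nat_lit 184) (nat_lit 4) (nat_lit 182) (nat_lit 4) (nat_lit 399) (nat_lit 318) (nat_lit 303)) (XT.lf (nat_lit 0) (nat_lit 12621517979) (nat_lit 76) (nat_lit 4607819628) (nat_lit 76) (nat_lit 907380368) (nat_lit 181) (nat_lit 4) (nat_lit 182) (nat_lit 5) (nat_lit 182) (nat_lit 4) (nat_lit 400) (nat_lit 318) (nat_lit 302)))) (XT.nd (nat_lit 156) (nat_lit 228) (nat_lit 0) (XT.nd (nat_lit 78) (nat_lit 76) (nat_lit 0) (XT.lf (nat_lit 0) (nat_lit 7019464375) (nat_lit 152) (nat_lit 8258126779) (nat_lit 0) (nat_lit 3353361473) (nat_lit 179) (nat_lit 5) (nat_lit 181) (nat_lit 4) (nat_lit 179) (nat_lit 4) (nat_lit 401) (nat_lit 318) (nat_lit 301)) (XT.lf (nat_lit 0) (nat_lit 7886967432) (nat_lit 76) (nat_lit 7529106980) (nat_lit 76) (nat_lit 3727884996) (nat_lit 178) (nat_lit 4) (nat_lit 179) (nat_lit 5) (nat_lit 179) (nat_lit 4) (nat_lit 402) (nat_lit 318)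 (nat_lit 300))) (XT.nd (nat_lit 78) (nat_lit 76) (nat_lit 0) (XT.lf (nat_lit 0) (nat_lit 4449010793) (nat_lit 152) (nat_lit 14521574635) (nat_lit 0) (nat_lit 706242390) (nat_lit 176) (nat_lit 5) (nat_lit 178) (nat_lit 4) (nat_lit 176) (nat_lit 4) (nat_lit 403) (nat_lit 318) (nat_lit 299)) (XT.lf (nat_lit 0) (nat_lit 2054575361) (nat_lit 76) (nat_lit 11015094011) (nat_lit 76) (nat_lit 7155604665) (nat_lit 175) (nat_lit 4) (nat_lit 176) (nat_lit 5) (nat_lit 176) (nat_lit 4) (nat_lit 404) (nat_lit 318) (nat_lit 298))))) (XT.nd (nat_lit 312) (nat_lit 304) (nat_lit 0) (XT.nd (nat_lit 156) (nat_lit 228) (nat_lit 0) (XT.nd (nat_lit 78) (nat_lit 76) (nat_lit 0) (XT.lf (nat_lit 0) (nat_lit 1339037227) (nat_lit 152) (nat_lit 1225625833) (nat_lit 76) (nat_lit 18232395184) (nat_lit 174) (nat_lit 5) (nat_lit 176) (nat_lit 5) (nat_lit 175) (nat_lit 4) (nat_lit 405) (nat_lit 318) (nat_lit 297)) (XT.lf (nat_lit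 0) (nat_lit 10199471241) (nat_lit 152) (nat_lit 4865948582) (nat_lit 0) (nat_lit 6317069826) (nat_lit 173) (nat_lit 5) (nat_lit 175) (nat_lit 4) (nat_lit 173) (nat_lit 4) (nat_lit 406) (nat_lit 318) (nat_lit 296))) (XT.nd (nat_lit 78) (nat_lit 152) (nat_lit 0) (XT.lf (nat_lit 0) (nat_lit 13214516289) (nat_lit 76) (nat_lit 6378304825) (nat_lit 76) (nat_lit 2399876801) (nat_lit 172) (nat_lit 4) (nat_lit 173) (nat_lit 5) (nat_lit 173) (nat_lit 4) (nat_lit 407) (nat_lit 318) (nat_lit 295)) (XT.lf (nat_lit 0) (nat_lit 6703570555) (nat_lit 152) (nat_lit 13092052225) (nat_lit 0) (nat_lit 2827492520) (nat_lit 170) (nat_lit 5) (nat_lit 172) (nat_lit 4) (nat_lit 170) (nat_lit 4) (nat_lit 408) (nat_lit 318) (nat_lit 294)))) (XT.nd (nat_lit 156) (nat_lit 76) (nat_lit 0) (XT.nd (nat_lit 78) (nat_lit 152) (nat_lit 0) (XT.lf (nat_lit 0) (nat_lit 5452377952) (nat_lit 76) (nat_lit 10890827295) (nat_lit 76) (nat_lit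 6931797866) (nat_lit 169) (nat_lit 4) (nat_lit 170) (nat_lit 5) (nat_lit 170) (nat_lit 4) (nat_lit 409) (nat_lit 318) (nat_lit 293)) (XT.lf (nat_lit 0) (nat_lit 1062584616) (nat_lit 76) (nat_lit 1425520444) (nat_lit 152) (nat_lit 21466276735) (nat_lit 167) (nat_lit 5) (nat_lit 168) (nat_lit 5) (nat_lit 169) (nat_lit 4) (nat_lit 410) (nat_lit 318) (nat_lit 292))) (XT.nd (nat_lit 78) (nat_lit 76) (nat_lit 0) (XT.lf (nat_lit 0) (nat_lit 12407001784) (nat_lit 152) (nat_lit 3752396530) (nat_lit 0) (nat_lit 8489601670) (nat_lit 167) (nat_lit 5) (nat_lit 169) (nat_lit 4) (nat_lit 167) (nat_lit 4) (nat_lit 411) (nat_lit 318) (nat_lit 291)) (XT.lf (nat_lit 0) (nat_lit 16506951151) (nat_lit 76) (nat_lit 6425749743) (nat_lit 76) (nat_lit 2440105312) (nat_lit 166) (nat_lit 4) (nat_lit 167) (nat_lit 5) (nat_lit 167) (nat_lit 4) (nat_lit 412) (nat_lit 318) (nat_lit 290)))))) (XT.nd (nat_lit 624) (nat_lit 684)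 (nat_lit 0) (XT.nd (nat_lit 312) (nat_lit 304) (nat_lit 0) (XT.nd (nat_lit 156) (nat_lit 152) (nat_lit 0) (XT.nd (nat_lit 78) (nat_lit 76) (nat_lit 0) (XT.lf (nat_lit 0) (nat_lit 7740147508) (nat_lit 152) (nat_lit 14497150947) (nat_lit 0) (nat_lit 3882396061) (nat_lit 164) (nat_lit 5) (nat_lit 166) (nat_lit 4) (nat_lit 164) (nat_lit 4) (nat_lit 413) (nat_lit 318) (nat_lit 289)) (XT.lf (nat_lit 0) (nat_lit 6256909983) (nat_lit 76) (nat_lit 12276217366) (nat_lit 76) (nat_lit 8359513911) (nat_lit 163) (nat_lit 4) (nat_lit 164) (nat_lit 5) (nat_lit 164) (nat_lit 4) (nat_lit 414) (nat_lit 318) (nat_lit 288))) (XT.nd (nat_lit 78) (nat_lit 0) (nat_lit 0) (XT.lf (nat_lit 0) (nat_lit 495731051) (nat_lit 76) (nat_lit 1684063717) (nat_lit 152) (nat_lit 25518380398) (nat_lit 161) (nat_lit 5) (nat_lit 162) (nat_lit 5) (nat_lit 163) (nat_lit 4) (nat_lit 415) (nat_lit 318) (nat_lit 287)) (XT.lf (nat_lit 0) (nat_lit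 13298039157) (nat_lit 152) (nat_lit 5759000092) (nat_lit 0) (nat_lit 9463449220) (nat_lit 161) (nat_lit 5) (nat_lit 163) (nat_lit 4) (nat_lit 161) (nat_lit 4) (nat_lit 416) (nat_lit 318) (nat_lit 286)))) (XT.nd (nat_lit 156) (nat_lit 76) (nat_lit 0) (XT.nd (nat_lit 78) (nat_lit 152) (nat_lit 0) (XT.lf (nat_lit 0) (nat_lit 16945108906) (nat_lit 76) (nat_lit 8157684280) (nat_lit 76) (nat_lit 4274594380) (nat_lit 160) (nat_lit 4) (nat_lit 161) (nat_lit 5) (nat_lit 161) (nat_lit 4) (nat_lit 417) (nat_lit 318) (nat_lit 285)) (XT.lf (nat_lit 0) (nat_lit 7147782134) (nat_lit 152) (nat_lit 19710190628) (nat_lit 0) (nat_lit 3405610382) (nat_lit 158) (nat_lit 5) (nat_lit 160) (nat_lit 4) (nat_lit 158) (nat_lit 4) (nat_lit 418) (nat_lit 318) (nat_lit 284))) (XT.nd (nat_lit 78) (nat_lit 0) (nat_lit 0) (XT.lf (nat_lit 0) (nat_lit 3515184277) (nat_lit 76) (nat_lit 15723702557) (nat_lit 76) (nat_lit 11939634713)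 (nat_lit 157) (nat_lit 4) (nat_lit 158) (nat_lit 5) (nat_lit 158) (nat_lit 4) (nat_lit 419) (nat_lit 318) (nat_lit 283)) (XT.lf (nat_lit 0) (nat_lit 28264916031) (nat_lit 76) (nat_lit 3844751834) (nat_lit 76) (nat_lit 20782951) (nat_lit 157) (nat_lit 4) (nat_lit 158) (nat_lit 5) (nat_lit 158) (nat_lit 4) (nat_lit 420) (nat_lit 318) (nat_lit 282))))) (XT.nd (nat_lit 312) (nat_lit 304) (nat_lit 0) (XT.nd (nat_lit 156) (nat_lit 152) (nat_lit 0) (XT.nd (nat_lit 78) (nat_lit 76) (nat_lit 0) (XT.lf (nat_lit 0) (nat_lit 12413942263) (nat_lit 152) (nat_lit 11954414378) (nat_lit 0) (nat_lit 8735875718) (nat_lit 155) (nat_lit 5) (nat_lit 157) (nat_lit 4) (nat_lit 155) (nat_lit 4) (nat_lit 421) (nat_lit 318) (nat_lit 281)) (XT.lf (nat_lit 0) (nat_lit 13482691785) (nat_lit 76) (nat_lit 12173599706) (nat_lit 76) (nat_lit 8461065142) (nat_lit 154) (nat_lit 4) (nat_lit 155) (nat_lit 5) (nat_lit 155) (nat_lit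 4) (nat_lit 422) (nat_lit 318) (nat_lit 280))) (XT.nd (nat_lit 78) (nat_lit 0) (nat_lit 0) (XT.lf (nat_lit 0) (nat_lit 4386505262) (nat_lit 152) (nat_lit 29964365432) (nat_lit 0) (nat_lit 819494550) (nat_lit 152) (nat_lit 5) (nat_lit 154) (nat_lit 4) (nat_lit 152) (nat_lit 4) (nat_lit 423) (nat_lit 318) (nat_lit 279)) (XT.lf (nat_lit 0) (nat_lit 17993535681) (nat_lit 152) (nat_lit 3858731664) (nat_lit 0) (nat_lit 14396750200) (nat_lit 152) (nat_lit 5) (nat_lit 154) (nat_lit 4) (nat_lit 152) (nat_lit 4) (nat_lit 424) (nat_lit 318) (nat_lit 278)))) (XT.nd (nat_lit 156) (nat_lit 76) (nat_lit 0) (XT.nd (nat_lit 78) (nat_lit 152) (nat_lit 0) (XT.lf (nat_lit 0) (nat_lit 24024680809) (nat_lit 76) (nat_lit 8485305317) (nat_lit 76) (nat_lit 4860162912) (nat_lit 151) (nat_lit 4) (nat_lit 152) (nat_lit 5) (nat_lit 152) (nat_lit 4) (nat_lit 425) (nat_lit 318) (nat_lit 277)) (XT.lf (nat_lit 0) (nat_lit 9155394955)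 (nat_lit 152) (nat_lit 23695344208) (nat_lit 0) (nat_lit 5677157812) (nat_lit 149) (nat_lit 5) (nat_lit 151) (nat_lit 4) (nat_lit 149) (nat_lit 4) (nat_lit 426) (nat_lit 318) (nat_lit 276))) (XT.nd (nat_lit 78) (nat_lit 0) (nat_lit 0) (XT.lf (nat_lit 0) (nat_lit 4784650474) (nat_lit 76) (nat_lit 19221374809) (nat_lit 76) (nat_lit 15718641890) (nat_lit 148) (nat_lit 4) (nat_lit 149) (nat_lit 5) (nat_lit 149) (nat_lit 4) (nat_lit 427) (nat_lit 318) (nat_lit 275)) (XT.lf (nat_lit 0) (nat_lit 35219504601) (nat_lit 76) (nat_lit 4637472019) (nat_lit 76) (nat_lit 1111409788) (nat_lit 148) (nat_lit 4) (nat_lit 149) (nat_lit 5) (nat_lit 149) (nat_lit 4) (nat_lit 428) (nat_lit 318) (nat_lit 274))))))) (XT.nd (nat_lit 1248) (nat_lit 1292) (nat_lit 0) (XT.nd (nat_lit 624) (nat_lit 684) (nat_lit 0) (XT.nd (nat_lit 312) (nat_lit 304) (nat_lit 0) (XT.nd (nat_lit 156) (nat_lit 152) (nat_lit 0) (XT.nd (nat_lit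 78) (nat_lit 76) (nat_lit 0) (XT.lf (nat_lit 0) (nat_lit 14199977777) (nat_lit 152) (nat_lit 17221089368) (nat_lit 0) (nat_lit 10820662899) (nat_lit 146) (nat_lit 5) (nat_lit 148) (nat_lit 4) (nat_lit 146) (nat_lit 4) (nat_lit 429) (nat_lit 318) (nat_lit 273)) (XT.lf (nat_lit 0) (nat_lit 14024840250) (nat_lit 76) (nat_lit 16469850940) (nat_lit 76) (nat_lit 13070383325) (nat_lit 145) (nat_lit 4) (nat_lit 146) (nat_lit 5) (nat_lit 146) (nat_lit 4) (nat_lit 430) (nat_lit 318) (nat_lit 272))) (XT.nd (nat_lit 78) (nat_lit 0) (nat_lit 0) (XT.lf (nat_lit 0) (nat_lit 2233694901) (nat_lit 76) (nat_lit 523551731) (nat_lit 152) (nat_lit 42185646485) (nat_lit 143) (nat_lit 5) (nat_lit 144) (nat_lit 5) (nat_lit 145) (nat_lit 4) (nat_lit 431) (nat_lit 318) (nat_lit 271)) (XT.lf (nat_lit 0) (nat_lit 19559979564) (nat_lit 152) (nat_lit 10501057512) (nat_lit 0) (nat_lit 16286703543) (nat_lit 143) (nat_lit 5) (nat_lit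 145) (nat_lit 4) (nat_lit 143) (nat_lit 4) (nat_lit 432) (nat_lit 318) (nat_lit 270)))) (XT.nd (nat_lit 156) (nat_lit 76) (nat_lit 0) (XT.nd (nat_lit 78) (nat_lit 152) (nat_lit 0) (XT.lf (nat_lit 0) (nat_lit 23801514980) (nat_lit 76) (nat_lit 13649384366) (nat_lit 76) (nat_lit 10359528639) (nat_lit 142) (nat_lit 4) (nat_lit 143) (nat_lit 5) (nat_lit 143) (nat_lit 4) (nat_lit 433) (nat_lit 318) (nat_lit 269)) (XT.lf (nat_lit 0) (nat_lit 6948340346) (nat_lit 152) (nat_lit 38578486956) (nat_lit 0) (nat_lit 3800106133) (nat_lit 140) (nat_lit 5) (nat_lit 142) (nat_lit 4) (nat_lit 140) (nat_lit 4) (nat_lit 434) (nat_lit 318) (nat_lit 268))) (XT.nd (nat_lit 78) (nat_lit 76) (nat_lit 0) (XT.lf (nat_lit 0) (nat_lit 25278418167) (nat_lit 152) (nat_lit 3491244621) (nat_lit 0) (nat_lit 22115861780) (nat_lit 140) (nat_lit 5) (nat_lit 142) (nat_lit 4) (nat_lit 140) (nat_lit 4) (nat_lit 435) (nat_lit 318) (nat_lit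 267)) (XT.lf (nat_lit 0) (nat_lit 34188150908) (nat_lit 76) (nat_lit 10744845536) (nat_lit 76) (nat_lit 7568648984) (nat_lit 139) (nat_lit 4) (nat_lit 140) (nat_lit 5) (nat_lit 140) (nat_lit 4) (nat_lit 436) (nat_lit 318) (nat_lit 266))))) (XT.nd (nat_lit 312) (nat_lit 304) (nat_lit 0) (XT.nd (nat_lit 156) (nat_lit 152) (nat_lit 0) (XT.nd (nat_lit 78) (nat_lit 76) (nat_lit 0) (XT.lf (nat_lit 0) (nat_lit 11387137000) (nat_lit 152) (nat_lit 34433773625) (nat_lit 0) (nat_lit 8349815871) (nat_lit 137) (nat_lit 5) (nat_lit 139) (nat_lit 4) (nat_lit 137) (nat_lit 4) (nat_lit 437) (nat_lit 318) (nat_lit 265)) (XT.lf (nat_lit 0) (nat_lit 3983662370) (nat_lit 76) (nat_lit 27480553237) (nat_lit 76) (nat_lit 24431449221) (nat_lit 136) (nat_lit 4) (nat_lit 137) (nat_lit 5) (nat_lit 137) (nat_lit 4) (nat_lit 438) (nat_lit 318) (nat_lit 264))) (XT.nd (nat_lit 78) (nat_lit 152) (nat_lit 0) (XT.lf (nat_lit 0)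 (nat_lit 45265064543) (nat_lit 76) (nat_lit 7739568550) (nat_lit 76) (nat_lit 4679242736) (nat_lit 136) (nat_lit 4) (nat_lit 137) (nat_lit 5) (nat_lit 137) (nat_lit 4) (nat_lit 439) (nat_lit 318) (nat_lit 263)) (XT.lf (nat_lit 0) (nat_lit 16099875560) (nat_lit 152) (nat_lit 30246316239) (nat_lit 0) (nat_lit 13175101046) (nat_lit 134) (nat_lit 5) (nat_lit 136) (nat_lit 4) (nat_lit 134) (nat_lit 4) (nat_lit 440) (nat_lit 318) (nat_lit 262)))) (XT.nd (nat_lit 156) (nat_lit 228) (nat_lit 0) (XT.nd (nat_lit 78) (nat_lit 0) (nat_lit 0) (XT.lf (nat_lit 0) (nat_lit 11976487196) (nat_lit 76) (nat_lit 26192164323) (nat_lit 76) (nat_lit 23257695998) (nat_lit 133) (nat_lit 4) (nat_lit 134) (nat_lit 5) (nat_lit 134) (nat_lit 4) (nat_lit 441) (nat_lit 318) (nat_lit 261)) (XT.lf (nat_lit 0) (nat_lit 57120113141) (nat_lit 76) (nat_lit 4615258519) (nat_lit 76) (nat_lit 1671557993) (nat_lit 133) (nat_lit 4) (nat_lit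 134) (nat_lit 5) (nat_lit 134) (nat_lit 4) (nat_lit 442) (nat_lit 318) (nat_lit 260))) (XT.nd (nat_lit 78) (nat_lit 76) (nat_lit 0) (XT.lf (nat_lit 0) (nat_lit 21123890147) (nat_lit 152) (nat_lit 25994173184) (nat_lit 0) (nat_lit 18311991958) (nat_lit 131) (nat_lit 5) (nat_lit 133) (nat_lit 4) (nat_lit 131) (nat_lit 4) (nat_lit 443) (nat_lit 318) (nat_lit 259)) (XT.lf (nat_lit 0) (nat_lit 20430306077) (nat_lit 76) (nat_lit 24961544282) (nat_lit 76) (nat_lit 22141670971) (nat_lit 130) (nat_lit 4) (nat_lit 131) (nat_lit 5) (nat_lit 131) (nat_lit 4) (nat_lit 444) (nat_lit 318) (nat_lit 258)))))) (XT.nd (nat_lit 624) (nat_lit 684) (nat_lit 0) (XT.nd (nat_lit 312) (nat_lit 228) (nat_lit 0) (XT.nd (nat_lit 156) (nat_lit 228) (nat_lit 0) (XT.nd (nat_lit 78) (nat_lit 0) (nat_lit 0) (XT.lf (nat_lit 0) (nat_lit 104010055) (nat_lit 76) (nat_lit 1325979564) (nat_lit 152) (nat_lit 68294530996) (nat_lit 128)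 (nat_lit 5) (nat_lit 129) (nat_lit 5) (nat_lit 130) (nat_lit 4) (nat_lit 445) (nat_lit 318) (nat_lit 257)) (XT.lf (nat_lit 0) (nat_lit 26499788435) (nat_lit 152) (nat_lit 21653877568) (nat_lit 0) (nat_lit 23800071924) (nat_lit 128) (nat_lit 5) (nat_lit 130) (nat_lit 4) (nat_lit 128) (nat_lit 4) (nat_lit 446) (nat_lit 318) (nat_lit 256))) (XT.nd (nat_lit 78) (nat_lit 152) (nat_lit 0) (XT.lf (nat_lit 0) (nat_lit 29408917924) (nat_lit 76) (nat_lit 23786577467) (nat_lit 76) (nat_lit 21080299804) (nat_lit 127) (nat_lit 4) (nat_lit 128) (nat_lit 5) (nat_lit 128) (nat_lit 4) (nat_lit 447) (nat_lit 318) (nat_lit 255)) (XT.lf (nat_lit 0) (nat_lit 4776662030) (nat_lit 152) (nat_lit 69720015307) (nat_lit 0) (nat_lit 2193303573) (nat_lit 125) (nat_lit 5) (nat_lit 127) (nat_lit 4) (nat_lit 125) (nat_lit 4) (nat_lit 448) (nat_lit 318) (nat_lit 254)))) (XT.nd (nat_lit 156) (nat_lit 152) (nat_lit 0) (XT.nd (nat_lit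 78) (nat_lit 76) (nat_lit 0) (XT.lf (nat_lit 0) (nat_lit 32271833479) (nat_lit 152) (nat_lit 17200266353) (nat_lit 0) (nat_lit 29682807251) (nat_lit 125) (nat_lit 5) (nat_lit 127) (nat_lit 4) (nat_lit 125) (nat_lit 4) (nat_lit 449) (nat_lit 318) (nat_lit 253)) (XT.lf (nat_lit 0) (nat_lit 38981964119) (nat_lit 76) (nat_lit 22665136351) (nat_lit 76) (nat_lit 20070712247) (nat_lit 124) (nat_lit 4) (nat_lit 125) (nat_lit 5) (nat_lit 125) (nat_lit 4) (nat_lit 450) (nat_lit 318) (nat_lit 252))) (XT.nd (nat_lit 78) (nat_lit 0) (nat_lit 0) (XT.lf (nat_lit 0) (nat_lit 8333999012) (nat_lit 152) (nat_lit 70184811657) (nat_lit 0) (nat_lit 5858222880) (nat_lit 122) (nat_lit 5) (nat_lit 124) (nat_lit 4) (nat_lit 122) (nat_lit 4) (nat_lit 451) (nat_lit 318) (nat_lit 251)) (XT.lf (nat_lit 0) (nat_lit 38488358935) (nat_lit 152) (nat_lit 12606289136) (nat_lit 0) (nat_lit 36007919914) (nat_lit 122) (nat_lit 5) (nat_lit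 124) (nat_lit 4) (nat_lit 122) (nat_lit 4) (nat_lit 452) (nat_lit 318) (nat_lit 250))))) (XT.nd (nat_lit 312) (nat_lit 380) (nat_lit 0) (XT.nd (nat_lit 156) (nat_lit 76) (nat_lit 0) (XT.nd (nat_lit 78) (nat_lit 152) (nat_lit 0) (XT.lf (nat_lit 0) (nat_lit 49225544420) (nat_lit 76) (nat_lit 21595102055) (nat_lit 76) (nat_lit 19110222188) (nat_lit 121) (nat_lit 4) (nat_lit 122) (nat_lit 5) (nat_lit 122) (nat_lit 4) (nat_lit 453) (nat_lit 318) (nat_lit 249)) (XT.lf (nat_lit 0) (nat_lit 12108464760) (nat_lit 152) (nat_lit 71014000612) (nat_lit 0) (nat_lit 9737884527) (nat_lit 119) (nat_lit 5) (nat_lit 121) (nat_lit 4) (nat_lit 119) (nat_lit 4) (nat_lit 454) (nat_lit 318) (nat_lit 248))) (XT.nd (nat_lit 78) (nat_lit 76) (nat_lit 0) (XT.lf (nat_lit 0) (nat_lit 45202222001) (nat_lit 152) (nat_lit 7842795245) (nat_lit 0) (nat_lit 42827805598) (nat_lit 119) (nat_lit 5) (nat_lit 121) (nat_lit 4) (nat_lit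 119) (nat_lit 4) (nat_lit 455) (nat_lit 318) (nat_lit 247)) (XT.lf (nat_lit 0) (nat_lit 60222898034) (nat_lit 76) (nat_lit 20574380368) (nat_lit 76) (nat_lit 18196310470) (nat_lit 118) (nat_lit 4) (nat_lit 119) (nat_lit 5) (nat_lit 119) (nat_lit 4) (nat_lit 456) (nat_lit 318) (nat_lit 246)))) (XT.nd (nat_lit 156) (nat_lit 228) (nat_lit 0) (XT.nd (nat_lit 78) (nat_lit 0) (nat_lit 0) (XT.lf (nat_lit 0) (nat_lit 16129589742) (nat_lit 152) (nat_lit 72230100077) (nat_lit 0) (nat_lit 13861447439) (nat_lit 116) (nat_lit 5) (nat_lit 118) (nat_lit 4) (nat_lit 116) (nat_lit 4) (nat_lit 457) (nat_lit 318) (nat_lit 245)) (XT.lf (nat_lit 0) (nat_lit 52471298692) (nat_lit 152) (nat_lit 2878297547) (nat_lit 0) (nat_lit 50200000362) (nat_lit 116) (nat_lit 5) (nat_lit 118) (nat_lit 4) (nat_lit 116) (nat_lit 4) (nat_lit 458) (nat_lit 318) (nat_lit 244))) (XT.nd (nat_lit 78) (nat_lit 152) (nat_lit 0) (XT.lf (nat_lit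 0) (nat_lit 72065155955) (nat_lit 76) (nat_lit 19600914089) (nat_lit 76) (nat_lit 17326610020) (nat_lit 115) (nat_lit 4) (nat_lit 116) (nat_lit 5) (nat_lit 116) (nat_lit 4) (nat_lit 459) (nat_lit 318) (nat_lit 243)) (XT.lf (nat_lit 0) (nat_lit 20429540371) (nat_lit 152) (nat_lit 73858597833) (nat_lit 0) (nat_lit 18260810202) (nat_lit 113) (nat_lit 5) (nat_lit 115) (nat_lit 4) (nat_lit 113) (nat_lit 4) (nat_lit 460) (nat_lit 318) (nat_lit 242))))))))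
noncomputable def xc68 : XT := (XT.nd (nat_lit 2496) (nat_lit 228) (nat_lit 0) (XT.nd (nat_lit 1248) (nat_lit 1140) (nat_lit 0) (XT.nd (nat_lit 624) (nat_lit 684) (nat_lit 0) (XT.nd (nat_lit 312) (nat_lit 228) (nat_lit 0) (XT.nd (nat_lit 156) (nat_lit 228) (nat_lit 0) (XT.nd (nat_lit 78) (nat_lit 0) (nat_lit 0) (XT.lf (nat_lit 0) (nat_lit 2398041221) (nat_lit 76) (nat_lit 57998425324) (nat_lit 76) (nat_lit 55827098684) (nat_lit 112) (nat_lit 4) (nat_lit 113) (nat_lit 5) (nat_lit 113) (nat_lit 4) (nat_lit 461) (nat_lit 318) (nat_lit 241)) (XT.lf (nat_lit 0) (nat_lit 84852171369) (nat_lit 76) (nat_lit 18672692379) (nat_lit 76) (nat_lit 16498892909) (nat_lit 112) (nat_lit 4) (nat_lit 113) (nat_lit 5) (nat_lit 113) (nat_lit 4) (nat_lit 462) (nat_lit 318) (nat_lit 240))) (XT.nd (nat_lit 78) (nat_lit 76) (nat_lit 0) (XT.lf (nat_lit 0) (nat_lit 25043415700) (nat_lit 152) (nat_lit 75928232331) (nat_lit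 0) (nat_lit 22970887561) (nat_lit 110) (nat_lit 5) (nat_lit 112) (nat_lit 4) (nat_lit 110) (nat_lit 4) (nat_lit 463) (nat_lit 318) (nat_lit 239)) (XT.lf (nat_lit 0) (nat_lit 8050605375) (nat_lit 76) (nat_lit 61010086267) (nat_lit 76) (nat_lit 58935422005) (nat_lit 109) (nat_lit 4) (nat_lit 110) (nat_lit 5) (nat_lit 110) (nat_lit 4) (nat_lit 464) (nat_lit 318) (nat_lit 238)))) (XT.nd (nat_lit 156) (nat_lit 76) (nat_lit 0) (XT.nd (nat_lit 78) (nat_lit 152) (nat_lit 0) (XT.lf (nat_lit 0) (nat_lit 98693435752) (nat_lit 76) (nat_lit 17787757707) (nat_lit 76) (nat_lit 15711059042) (nat_lit 109) (nat_lit 4) (nat_lit 110) (nat_lit 5) (nat_lit 110) (nat_lit 4) (nat_lit 465) (nat_lit 318) (nat_lit 237)) (XT.lf (nat_lit 0) (nat_lit 30009571858) (nat_lit 152) (nat_lit 78471301983) (nat_lit 0) (nat_lit 28029918343) (nat_lit 107) (nat_lit 5) (nat_lit 109) (nat_lit 4) (nat_lit 107) (nat_lit 4) (nat_lit 466) (nat_lit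 318) (nat_lit 236))) (XT.nd (nat_lit 78) (nat_lit 0) (nat_lit 0) (XT.lf (nat_lit 0) (nat_lit 14025730551) (nat_lit 76) (nat_lit 64468871585) (nat_lit 76) (nat_lit 62487460676) (nat_lit 106) (nat_lit 4) (nat_lit 107) (nat_lit 5) (nat_lit 107) (nat_lit 4) (nat_lit 467) (nat_lit 318) (nat_lit 235)) (XT.lf (nat_lit 0) (nat_lit 113709089118) (nat_lit 76) (nat_lit 16944210835) (nat_lit 76) (nat_lit 14961126218) (nat_lit 106) (nat_lit 4) (nat_lit 107) (nat_lit 5) (nat_lit 107) (nat_lit 4) (nat_lit 468) (nat_lit 318) (nat_lit 234))))) (XT.nd (nat_lit 312) (nat_lit 304) (nat_lit 0) (XT.nd (nat_lit 156) (nat_lit 152) (nat_lit 0) (XT.nd (nat_lit 78) (nat_lit 76) (nat_lit 0) (XT.lf (nat_lit 0) (nat_lit 35369977465) (nat_lit 152) (nat_lit 81524006154) (nat_lit 0) (nat_lit 33479807345) (nat_lit 104) (nat_lit 5) (nat_lit 106) (nat_lit 4) (nat_lit 104) (nat_lit 4) (nat_lit 469) (nat_lit 318) (nat_lit 233)) (XT.lf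 (nat_lit 0) (nat_lit 20368595954) (nat_lit 76) (nat_lit 68414240575) (nat_lit 76) (nat_lit 66522624644) (nat_lit 103) (nat_lit 4) (nat_lit 104) (nat_lit 5) (nat_lit 104) (nat_lit 4) (nat_lit 470) (nat_lit 318) (nat_lit 232))) (XT.nd (nat_lit 78) (nat_lit 152) (nat_lit 0) (XT.lf (nat_lit 0) (nat_lit 130031033843) (nat_lit 76) (nat_lit 16140214234) (nat_lit 76) (nat_lit 14247221338) (nat_lit 103) (nat_lit 4) (nat_lit 104) (nat_lit 5) (nat_lit 104) (nat_lit 4) (nat_lit 471) (nat_lit 318) (nat_lit 231)) (XT.lf (nat_lit 0) (nat_lit 41170603491) (nat_lit 152) (nat_lit 85126821291) (nat_lit 0) (nat_lit 39366504167) (nat_lit 101) (nat_lit 5) (nat_lit 103) (nat_lit 4) (nat_lit 101) (nat_lit 4) (nat_lit 472) (nat_lit 318) (nat_lit 230)))) (XT.nd (nat_lit 156) (nat_lit 228) (nat_lit 0) (XT.nd (nat_lit 78) (nat_lit 0) (nat_lit 0) (XT.lf (nat_lit 0) (nat_lit 27128454728) (nat_lit 76) (nat_lit 72889961325) (nat_lit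 76) (nat_lit 71084672528) (nat_lit 100) (nat_lit 4) (nat_lit 101) (nat_lit 5) (nat_lit 101) (nat_lit 4) (nat_lit 473) (nat_lit 318) (nat_lit 229)) (XT.lf (nat_lit 0) (nat_lit 147804162475) (nat_lit 76) (nat_lit 15373994238) (nat_lit 76) (nat_lit 13567572609) (nat_lit 100) (nat_lit 4) (nat_lit 101) (nat_lit 5) (nat_lit 101) (nat_lit 4) (nat_lit 474) (nat_lit 318) (nat_lit 228))) (XT.nd (nat_lit 78) (nat_lit 76) (nat_lit 0) (XT.lf (nat_lit 0) (nat_lit 47461851377) (nat_lit 152) (nat_lit 89324915948) (nat_lit 0) (nat_lit 45740422315) (nat_lit 98) (nat_lit 5) (nat_lit 100) (nat_lit 4) (nat_lit 98) (nat_lit 4) (nat_lit 475) (nat_lit 318) (nat_lit 227)) (XT.lf (nat_lit 0) (nat_lit 34359074507) (nat_lit 76) (nat_lit 77944546724) (nat_lit 76) (nat_lit 76222139079) (nat_lit 97) (nat_lit 4) (nat_lit 98) (nat_lit 5) (nat_lit 98) (nat_lit 4) (nat_lit 476) (nat_lit 318) (nat_lit 226)))))) (XT.nd (nat_lit 624)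 (nat_lit 532) (nat_lit 0) (XT.nd (nat_lit 312) (nat_lit 380) (nat_lit 0) (XT.nd (nat_lit 156) (nat_lit 76) (nat_lit 0) (XT.nd (nat_lit 78) (nat_lit 152) (nat_lit 0) (XT.lf (nat_lit 0) (nat_lit 167187711065) (nat_lit 76) (nat_lit 14643842196) (nat_lit 76) (nat_lit 12920502568) (nat_lit 97) (nat_lit 4) (nat_lit 98) (nat_lit 5) (nat_lit 98) (nat_lit 4) (nat_lit 477) (nat_lit 318) (nat_lit 225)) (XT.lf (nat_lit 0) (nat_lit 54299023537) (nat_lit 152) (nat_lit 94168608843) (nat_lit 0) (nat_lit 52656902364) (nat_lit 95) (nat_lit 5) (nat_lit 97) (nat_lit 4) (nat_lit 95) (nat_lit 4) (nat_lit 478) (nat_lit 318) (nat_lit 224))) (XT.nd (nat_lit 78) (nat_lit 0) (nat_lit 0) (XT.lf (nat_lit 0) (nat_lit 42119222646) (nat_lit 76) (nat_lit 83631734207) (nat_lit 76) (nat_lit 81988807952) (nat_lit 94) (nat_lit 4) (nat_lit 95) (nat_lit 5) (nat_lit 95) (nat_lit 4) (nat_lit 479) (nat_lit 318) (nat_lit 223)) (XT.lf (nat_lit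 0) (nat_lit 188356750783) (nat_lit 76) (nat_lit 13948114824) (nat_lit 76) (nat_lit 12304421824) (nat_lit 94) (nat_lit 4) (nat_lit 95) (nat_lit 5) (nat_lit 95) (nat_lit 4) (nat_lit 480) (nat_lit 318) (nat_lit 222)))) (XT.nd (nat_lit 156) (nat_lit 152) (nat_lit 0) (XT.nd (nat_lit 78) (nat_lit 76) (nat_lit 0) (XT.lf (nat_lit 0) (nat_lit 61742840782) (nat_lit 152) (nat_lit 99713874407) (nat_lit 0) (nat_lit 60176723417) (nat_lit 92) (nat_lit 5) (nat_lit 94) (nat_lit 4) (nat_lit 92) (nat_lit 4) (nat_lit 481) (nat_lit 318) (nat_lit 221)) (XT.lf (nat_lit 0) (nat_lit 50473200640) (nat_lit 76) (nat_lit 90011013974) (nat_lit 76) (nat_lit 88444234265) (nat_lit 91) (nat_lit 4) (nat_lit 92) (nat_lit 5) (nat_lit 92) (nat_lit 4) (nat_lit 482) (nat_lit 318) (nat_lit 220))) (XT.nd (nat_lit 78) (nat_lit 152) (nat_lit 0) (XT.lf (nat_lit 0) (nat_lit 211503831892) (nat_lit 76) (nat_lit 13285233927) (nat_lit 76) (nat_lit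 11717823415) (nat_lit 91) (nat_lit 4) (nat_lit 92) (nat_lit 5) (nat_lit 92) (nat_lit 4) (nat_lit 483) (nat_lit 318) (nat_lit 219)) (XT.lf (nat_lit 0) (nat_lit 69860011627) (nat_lit 152) (nat_lit 106022900794) (nat_lit 0) (nat_lit 68366667554) (nat_lit 89) (nat_lit 5) (nat_lit 91) (nat_lit 4) (nat_lit 89) (nat_lit 4) (nat_lit 484) (nat_lit 318) (nat_lit 218))))) (XT.nd (nat_lit 312) (nat_lit 228) (nat_lit 0) (XT.nd (nat_lit 156) (nat_lit 228) (nat_lit 0) (XT.nd (nat_lit 78) (nat_lit 0) (nat_lit 0) (XT.lf (nat_lit 0) (nat_lit 59491432707) (nat_lit 76) (nat_lit 97148210858) (nat_lit 76) (nat_lit 95654321873) (nat_lit 88) (nat_lit 4) (nat_lit 89) (nat_lit 5) (nat_lit 89) (nat_lit 4) (nat_lit 485) (nat_lit 318) (nat_lit 217)) (XT.lf (nat_lit 0) (nat_lit 236840795650) (nat_lit 76) (nat_lit 12653685631) (nat_lit 76) (nat_lit 11159277684) (nat_lit 88) (nat_lit 4) (nat_lit 89) (nat_lit 5) (nat_lit 89) (nat_lit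 4) (nat_lit 486) (nat_lit 318) (nat_lit 216))) (XT.nd (nat_lit 78) (nat_lit 76) (nat_lit 0) (XT.lf (nat_lit 0) (nat_lit 78723858937) (nat_lit 152) (nat_lit 113164705762) (nat_lit 0) (nat_lit 77300142557) (nat_lit 86) (nat_lit 5) (nat_lit 88) (nat_lit 4) (nat_lit 86) (nat_lit 4) (nat_lit 487) (nat_lit 318) (nat_lit 215)) (XT.lf (nat_lit 0) (nat_lit 69251114026) (nat_lit 76) (nat_lit 105116125531) (nat_lit 76) (nat_lit 103691960851) (nat_lit 85) (nat_lit 4) (nat_lit 86) (nat_lit 5) (nat_lit 86) (nat_lit 4) (nat_lit 488) (nat_lit 318) (nat_lit 214)))) (XT.nd (nat_lit 156) (nat_lit 76) (nat_lit 0) (XT.nd (nat_lit 78) (nat_lit 152) (nat_lit 0) (XT.lf (nat_lit 0) (nat_lit 264600771288) (nat_lit 76) (nat_lit 12052019248) (nat_lit 76) (nat_lit 10627427616) (nat_lit 85) (nat_lit 4) (nat_lit 86) (nat_lit 5) (nat_lit 86) (nat_lit 4) (nat_lit 489) (nat_lit 318) (nat_lit 213)) (XT.lf (nat_lit 0) (nat_lit 88415009887)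 (nat_lit 152) (nat_lit 121215816387) (nat_lit 0) (nat_lit 87057868694) (nat_lit 83) (nat_lit 5) (nat_lit 85) (nat_lit 4) (nat_lit 83) (nat_lit 4) (nat_lit 490) (nat_lit 318) (nat_lit 212))) (XT.nd (nat_lit 78) (nat_lit 0) (nat_lit 0) (XT.lf (nat_lit 0) (nat_lit 79836924737) (nat_lit 76) (nat_lit 113995241248) (nat_lit 76) (nat_lit 112637731237) (nat_lit 82) (nat_lit 4) (nat_lit 83) (nat_lit 5) (nat_lit 83) (nat_lit 4) (nat_lit 491) (nat_lit 318) (nat_lit 211)) (XT.lf (nat_lit 0) (nat_lit 295040377030) (nat_lit 76) (nat_lit 11478845836) (nat_lit 76) (nat_lit 10120984571) (nat_lit 82) (nat_lit 4) (nat_lit 83) (nat_lit 5) (nat_lit 83) (nat_lit 4) (nat_lit 492) (nat_lit 318) (nat_lit 210))))))) (XT.nd (nat_lit 45474) (nat_lit 0) (nat_lit 6840) (XT.nd (nat_lit 44850) (nat_lit 0) (nat_lit 8284) (XT.nd (nat_lit 44538) (nat_lit 0) (nat_lit 9424) (XT.nd (nat_lit 156) (nat_lit 0) (nat_lit 0) (XT.nd (nat_lit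 78) (nat_lit 76) (nat_lit 0) (XT.lf (nat_lit 0) (nat_lit 99022155843) (nat_lit 152) (nat_lit 130261019177) (nat_lit 0) (nat_lit 97728636039) (nat_lit 80) (nat_lit 5) (nat_lit 82) (nat_lit 4) (nat_lit 80) (nat_lit 4) (nat_lit 493) (nat_lit 318) (nat_lit 209)) (XT.lf (nat_lit 0) (nat_lit 91341816400) (nat_lit 76) (nat_lit 123874502964) (nat_lit 76) (nat_lit 122580679733) (nat_lit 79) (nat_lit 4) (nat_lit 80) (nat_lit 5) (nat_lit 80) (nat_lit 4) (nat_lit 494) (nat_lit 318) (nat_lit 208))) (XT.nd (nat_lit 44304) (nat_lit 0) (nat_lit 9880) (XT.lf (nat_lit 0) (nat_lit 328442146032) (nat_lit 76) (nat_lit 10932836568) (nat_lit 76) (nat_lit 9638724359) (nat_lit 79) (nat_lit 4) (nat_lit 80) (nat_lit 5) (nat_lit 80) (nat_lit 4) (nat_lit 495) (nat_lit 318) (nat_lit 207)) (XT.lf (nat_lit 0) (nat_lit 842360752) (nat_lit 152) (nat_lit 2491304902) (nat_lit 152) (nat_lit 2491304902) (nat_lit 209) (nat_lit 4) (nat_lit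 211) (nat_lit 5) (nat_lit 211) (nat_lit 4) (nat_lit 382) (nat_lit 319) (nat_lit 319)))) (XT.nd (nat_lit 156) (nat_lit 152) (nat_lit 0) (XT.nd (nat_lit 78) (nat_lit 152) (nat_lit 0) (XT.lf (nat_lit 0) (nat_lit 840024036) (nat_lit 152) (nat_lit 10716474576) (nat_lit 0) (nat_lit 359584807) (nat_lit 207) (nat_lit 5) (nat_lit 209) (nat_lit 4) (nat_lit 207) (nat_lit 4) (nat_lit 383) (nat_lit 319) (nat_lit 318)) (XT.lf (nat_lit 0) (nat_lit 549860418) (nat_lit 152) (nat_lit 6288494025) (nat_lit 152) (nat_lit 5350493627) (nat_lit 205) (nat_lit 4) (nat_lit 207) (nat_lit 5) (nat_lit 207) (nat_lit 4) (nat_lit 384) (nat_lit 319) (nat_lit 317))) (XT.nd (nat_lit 78) (nat_lit 76) (nat_lit 0) (XT.lf (nat_lit 0) (nat_lit 615592998) (nat_lit 228) (nat_lit 111807294) (nat_lit 76) (nat_lit 11748563889) (nat_lit 204) (nat_lit 5) (nat_lit 207) (nat_lit 5) (nat_lit 205) (nat_lit 4) (nat_lit 385) (nat_lit 319) (nat_lit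 316)) (XT.lf (nat_lit 0) (nat_lit 6768874324) (nat_lit 152) (nat_lit 935480421) (nat_lit 0) (nat_lit 5065260600) (nat_lit 203) (nat_lit 5) (nat_lit 205) (nat_lit 4) (nat_lit 203) (nat_lit 4) (nat_lit 386) (nat_lit 319) (nat_lit 315))))) (XT.nd (nat_lit 312) (nat_lit 532) (nat_lit 0) (XT.nd (nat_lit 156) (nat_lit 304) (nat_lit 0) (XT.nd (nat_lit 78) (nat_lit 76) (nat_lit 0) (XT.lf (nat_lit 0) (nat_lit 139131782) (nat_lit 228) (nat_lit 1794830276) (nat_lit 76) (nat_lit 11144262355) (nat_lit 200) (nat_lit 5) (nat_lit 203) (nat_lit 5) (nat_lit 201) (nat_lit 4) (nat_lit 387) (nat_lit 319) (nat_lit 314)) (XT.lf (nat_lit 0) (nat_lit 6435349229) (nat_lit 152) (nat_lit 2846535676) (nat_lit 0) (nat_lit 4112909628) (nat_lit 199) (nat_lit 5) (nat_lit 201) (nat_lit 4) (nat_lit 199) (nat_lit 4) (nat_lit 388) (nat_lit 319) (nat_lit 313))) (XT.nd (nat_lit 78) (nat_lit 152) (nat_lit 0) (XT.lf (nat_lit 0) (nat_lit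 9756577816) (nat_lit 152) (nat_lit 3308646396) (nat_lit 152) (nat_lit 661026614) (nat_lit 197) (nat_lit 4) (nat_lit 199) (nat_lit 5) (nat_lit 199) (nat_lit 4) (nat_lit 389) (nat_lit 319) (nat_lit 312)) (XT.lf (nat_lit 0) (nat_lit 5801349637) (nat_lit 152) (nat_lit 5281447313) (nat_lit 0) (nat_lit 2984858977) (nat_lit 195) (nat_lit 5) (nat_lit 197) (nat_lit 4) (nat_lit 195) (nat_lit 4) (nat_lit 390) (nat_lit 319) (nat_lit 311)))) (XT.nd (nat_lit 156) (nat_lit 228) (nat_lit 0) (XT.nd (nat_lit 78) (nat_lit 152) (nat_lit 0) (XT.lf (nat_lit 0) (nat_lit 7705249348) (nat_lit 152) (nat_lit 4907659835) (nat_lit 152) (nat_lit 1810266310) (nat_lit 193) (nat_lit 4) (nat_lit 195) (nat_lit 5) (nat_lit 195) (nat_lit 4) (nat_lit 391) (nat_lit 319) (nat_lit 310)) (XT.lf (nat_lit 0) (nat_lit 4833935595) (nat_lit 152) (nat_lit 8328187686) (nat_lit 0) (nat_lit 1629249818) (nat_lit 191) (nat_lit 5) (nat_lit 193) (nat_lit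 4) (nat_lit 191) (nat_lit 4) (nat_lit 392) (nat_lit 319) (nat_lit 309))) (XT.nd (nat_lit 78) (nat_lit 152) (nat_lit 0) (XT.lf (nat_lit 0) (nat_lit 5042275034) (nat_lit 76) (nat_lit 6788743292) (nat_lit 76) (nat_lit 3341403057) (nat_lit 190) (nat_lit 4) (nat_lit 191) (nat_lit 5) (nat_lit 191) (nat_lit 4) (nat_lit 393) (nat_lit 319) (nat_lit 308)) (XT.lf (nat_lit 0) (nat_lit 3486106581) (nat_lit 76) (nat_lit 8794052) (nat_lit 152) (nat_lit 12074563707) (nat_lit 188) (nat_lit 5) (nat_lit 189) (nat_lit 5) (nat_lit 190) (nat_lit 4) (nat_lit 394) (nat_lit 319) (nat_lit 307)))))) (XT.nd (nat_lit 624) (nat_lit 684) (nat_lit 0) (XT.nd (nat_lit 312) (nat_lit 456) (nat_lit 0) (XT.nd (nat_lit 156) (nat_lit 152) (nat_lit 0) (XT.nd (nat_lit 78) (nat_lit 76) (nat_lit 0) (XT.lf (nat_lit 0) (nat_lit 1669402472) (nat_lit 76) (nat_lit 9010572821) (nat_lit 76) (nat_lit 5297682856) (nat_lit 187) (nat_lit 4) (nat_lit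 188) (nat_lit 5) (nat_lit 188) (nat_lit 4) (nat_lit 395) (nat_lit 319) (nat_lit 306)) (XT.lf (nat_lit 0) (nat_lit 1776129181) (nat_lit 152) (nat_lit 271457566) (nat_lit 76) (nat_lit 14356441872) (nat_lit 186) (nat_lit 5) (nat_lit 188) (nat_lit 5) (nat_lit 187) (nat_lit 4) (nat_lit 396) (nat_lit 319) (nat_lit 305))) (XT.nd (nat_lit 78) (nat_lit 76) (nat_lit 0) (XT.lf (nat_lit 0) (nat_lit 9153703765) (nat_lit 152) (nat_lit 2440846570) (nat_lit 0) (nat_lit 5246419474) (nat_lit 185) (nat_lit 5) (nat_lit 187) (nat_lit 4) (nat_lit 185) (nat_lit 4) (nat_lit 397) (nat_lit 319) (nat_lit 304)) (XT.lf (nat_lit 0) (nat_lit 12526781169) (nat_lit 76) (nat_lit 4425063399) (nat_lit 76) (nat_lit 345329115) (nat_lit 184) (nat_lit 4) (nat_lit 185) (nat_lit 5) (nat_lit 185) (nat_lit 4) (nat_lit 398) (nat_lit 319) (nat_lit 303)))) (XT.nd (nat_lit 156) (nat_lit 228) (nat_lit 0) (XT.nd (nat_lit 78) (nat_lit 76) (nat_lit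 0) (XT.lf (nat_lit 0) (nat_lit 7201755772) (nat_lit 152) (nat_lit 7405119471) (nat_lit 0) (nat_lit 3159877322) (nat_lit 182) (nat_lit 5) (nat_lit 184) (nat_lit 4) (nat_lit 182) (nat_lit 4) (nat_lit 399) (nat_lit 319) (nat_lit 302)) (XT.lf (nat_lit 0) (nat_lit 7979492208) (nat_lit 76) (nat_lit 7232993772) (nat_lit 76) (nat_lit 3042146535) (nat_lit 181) (nat_lit 4) (nat_lit 182) (nat_lit 5) (nat_lit 182) (nat_lit 4) (nat_lit 400) (nat_lit 319) (nat_lit 301))) (XT.nd (nat_lit 78) (nat_lit 76) (nat_lit 0) (XT.lf (nat_lit 0) (nat_lit 4741473008) (nat_lit 152) (nat_lit 13404567352) (nat_lit 0) (nat_lit 615070844) (nat_lit 179) (nat_lit 5) (nat_lit 181) (nat_lit 4) (nat_lit 179) (nat_lit 4) (nat_lit 401) (nat_lit 319) (nat_lit 300)) (XT.lf (nat_lit 0) (nat_lit 2390376360) (nat_lit 76) (nat_lit 10573762909) (nat_lit 76) (nat_lit 6318675905) (nat_lit 178) (nat_lit 4) (nat_lit 179) (nat_lit 5) (nat_lit 179)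 (nat_lit 4) (nat_lit 402) (nat_lit 319) (nat_lit 299))))) (XT.nd (nat_lit 312) (nat_lit 304) (nat_lit 0) (XT.nd (nat_lit 156) (nat_lit 228) (nat_lit 0) (XT.nd (nat_lit 78) (nat_lit 76) (nat_lit 0) (XT.lf (nat_lit 0) (nat_lit 1761049551) (nat_lit 152) (nat_lit 767492414) (nat_lit 76) (nat_lit 17298168687) (nat_lit 177) (nat_lit 5) (nat_lit 179) (nat_lit 5) (nat_lit 178) (nat_lit 4) (nat_lit 403) (nat_lit 319) (nat_lit 298)) (XT.lf (nat_lit 0) (nat_lit 10209731643) (nat_lit 152) (nat_lit 4244639967) (nat_lit 0) (nat_lit 5929384084) (nat_lit 176) (nat_lit 5) (nat_lit 178) (nat_lit 4) (nat_lit 176) (nat_lit 4) (nat_lit 404) (nat_lit 319) (nat_lit 297))) (XT.nd (nat_lit 78) (nat_lit 152) (nat_lit 0) (XT.lf (nat_lit 0) (nat_lit 12982849572) (nat_lit 76) (nat_lit 6183863525) (nat_lit 76) (nat_lit 1797646629) (nat_lit 175) (nat_lit 4) (nat_lit 176) (nat_lit 5) (nat_lit 176) (nat_lit 4) (nat_lit 405) (nat_lit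 319) (nat_lit 296)) (XT.lf (nat_lit 0) (nat_lit 6865474034) (nat_lit 152) (nat_lit 12106364875) (nat_lit 0) (nat_lit 2592098000) (nat_lit 173) (nat_lit 5) (nat_lit 175) (nat_lit 4) (nat_lit 173) (nat_lit 4) (nat_lit 406) (nat_lit 319) (nat_lit 295)))) (XT.nd (nat_lit 156) (nat_lit 76) (nat_lit 0) (XT.nd (nat_lit 78) (nat_lit 152) (nat_lit 0) (XT.lf (nat_lit 0) (nat_lit 5562757216) (nat_lit 76) (nat_lit 10493181093) (nat_lit 76) (nat_lit 6128351146) (nat_lit 172) (nat_lit 4) (nat_lit 173) (nat_lit 5) (nat_lit 173) (nat_lit 4) (nat_lit 407) (nat_lit 319) (nat_lit 294)) (XT.lf (nat_lit 0) (nat_lit 1364381834) (nat_lit 76) (nat_lit 1472842919) (nat_lit 152) (nat_lit 19993252980) (nat_lit 170) (nat_lit 5) (nat_lit 171) (nat_lit 5) (nat_lit 172) (nat_lit 4) (nat_lit 408) (nat_lit 319) (nat_lit 293))) (XT.nd (nat_lit 78) (nat_lit 76) (nat_lit 0) (XT.lf (nat_lit 0) (nat_lit 12285521287) (nat_lit 152) (nat_lit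 3239823506) (nat_lit 0) (nat_lit 7966587661) (nat_lit 170) (nat_lit 5) (nat_lit 172) (nat_lit 4) (nat_lit 170) (nat_lit 4) (nat_lit 409) (nat_lit 319) (nat_lit 292)) (XT.lf (nat_lit 0) (nat_lit 16062363158) (nat_lit 76) (nat_lit 6256323519) (nat_lit 76) (nat_lit 1862150533) (nat_lit 169) (nat_lit 4) (nat_lit 170) (nat_lit 5) (nat_lit 170) (nat_lit 4) (nat_lit 410) (nat_lit 319) (nat_lit 291))))))))
noncomputable def xc69 : XT := (XT.nd (nat_lit 1248) (nat_lit 1368) (nat_lit 0) (XT.nd (nat_lit 624) (nat_lit 608) (nat_lit 0) (XT.nd (nat_lit 312) (nat_lit 380) (nat_lit 0) (XT.nd (nat_lit 156) (nat_lit 152) (nat_lit 0) (XT.nd (nat_lit 78) (nat_lit 76) (nat_lit 0) (XT.lf (nat_lit 0) (nat_lit 7824794813) (nat_lit 152) (nat_lit 13495068005) (nat_lit 0) (nat_lit 3571623842) (nat_lit 167) (nat_lit 5) (nat_lit 169) (nat_lit 4) (nat_lit 167) (nat_lit 4) (nat_lit 411) (nat_lit 319) (nat_lit 290)) (XT.lf (nat_lit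 0) (nat_lit 6278014402) (nat_lit 76) (nat_lit 11833691715) (nat_lit 76) (nat_lit 7515526155) (nat_lit 166) (nat_lit 4) (nat_lit 167) (nat_lit 5) (nat_lit 167) (nat_lit 4) (nat_lit 412) (nat_lit 319) (nat_lit 289))) (XT.nd (nat_lit 78) (nat_lit 0) (nat_lit 0) (XT.lf (nat_lit 0) (nat_lit 775984347) (nat_lit 76) (nat_lit 1739161757) (nat_lit 152) (nat_lit 23878537841) (nat_lit 164) (nat_lit 5) (nat_lit 165) (nat_lit 5) (nat_lit 166) (nat_lit 4) (nat_lit 413) (nat_lit 319) (nat_lit 288)) (XT.lf (nat_lit 0) (nat_lit 13104344498) (nat_lit 152) (nat_lit 5195766171) (nat_lit 0) (nat_lit 8876709092) (nat_lit 164) (nat_lit 5) (nat_lit 166) (nat_lit 4) (nat_lit 164) (nat_lit 4) (nat_lit 414) (nat_lit 319) (nat_lit 287)))) (XT.nd (nat_lit 156) (nat_lit 152) (nat_lit 0) (XT.nd (nat_lit 78) (nat_lit 152) (nat_lit 0) (XT.lf (nat_lit 0) (nat_lit 16434284219) (nat_lit 76) (nat_lit 7919693021) (nat_lit 76) (nat_lit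 3638586406) (nat_lit 163) (nat_lit 4) (nat_lit 164) (nat_lit 5) (nat_lit 164) (nat_lit 4) (nat_lit 415) (nat_lit 319) (nat_lit 286)) (XT.lf (nat_lit 0) (nat_lit 7230464796) (nat_lit 152) (nat_lit 18500814674) (nat_lit 0) (nat_lit 3104720439) (nat_lit 161) (nat_lit 5) (nat_lit 163) (nat_lit 4) (nat_lit 161) (nat_lit 4) (nat_lit 416) (nat_lit 319) (nat_lit 285))) (XT.nd (nat_lit 78) (nat_lit 76) (nat_lit 0) (XT.lf (nat_lit 0) (nat_lit 3625413436) (nat_lit 76) (nat_lit 15126785677) (nat_lit 76) (nat_lit 10954850879) (nat_lit 160) (nat_lit 4) (nat_lit 161) (nat_lit 5) (nat_lit 161) (nat_lit 4) (nat_lit 417) (nat_lit 319) (nat_lit 284)) (XT.lf (nat_lit 0) (nat_lit 385711972) (nat_lit 152) (nat_lit 3425216150) (nat_lit 76) (nat_lit 26802313505) (nat_lit 159) (nat_lit 5) (nat_lit 161) (nat_lit 5) (nat_lit 160) (nat_lit 4) (nat_lit 418) (nat_lit 319) (nat_lit 283))))) (XT.nd (nat_lit 312) (nat_lit 304)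 (nat_lit 0) (XT.nd (nat_lit 156) (nat_lit 152) (nat_lit 0) (XT.nd (nat_lit 78) (nat_lit 76) (nat_lit 0) (XT.lf (nat_lit 0) (nat_lit 12231325610) (nat_lit 152) (nat_lit 11132871731) (nat_lit 0) (nat_lit 8176257243) (nat_lit 158) (nat_lit 5) (nat_lit 160) (nat_lit 4) (nat_lit 158) (nat_lit 4) (nat_lit 419) (nat_lit 319) (nat_lit 282)) (XT.lf (nat_lit 0) (nat_lit 13099532751) (nat_lit 76) (nat_lit 11749292269) (nat_lit 76) (nat_lit 7656222913) (nat_lit 157) (nat_lit 4) (nat_lit 158) (nat_lit 5) (nat_lit 158) (nat_lit 4) (nat_lit 420) (nat_lit 319) (nat_lit 281))) (XT.nd (nat_lit 78) (nat_lit 0) (nat_lit 0) (XT.lf (nat_lit 0) (nat_lit 4569848493) (nat_lit 152) (nat_lit 28300374109) (nat_lit 0) (nat_lit 637219183) (nat_lit 155) (nat_lit 5) (nat_lit 157) (nat_lit 4) (nat_lit 155) (nat_lit 4) (nat_lit 421) (nat_lit 319) (nat_lit 280)) (XT.lf (nat_lit 0) (nat_lit 17530390578) (nat_lit 152) (nat_lit 3439331254)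 (nat_lit 0) (nat_lit 13564934585) (nat_lit 155) (nat_lit 5) (nat_lit 157) (nat_lit 4) (nat_lit 155) (nat_lit 4) (nat_lit 422) (nat_lit 319) (nat_lit 279)))) (XT.nd (nat_lit 156) (nat_lit 76) (nat_lit 0) (XT.nd (nat_lit 78) (nat_lit 152) (nat_lit 0) (XT.lf (nat_lit 0) (nat_lit 23122649510) (nat_lit 76) (nat_lit 8238105993) (nat_lit 76) (nat_lit 4241386491) (nat_lit 154) (nat_lit 4) (nat_lit 155) (nat_lit 5) (nat_lit 155) (nat_lit 4) (nat_lit 423) (nat_lit 319) (nat_lit 278)) (XT.lf (nat_lit 0) (nat_lit 9096961753) (nat_lit 152) (nat_lit 22345159887) (nat_lit 0) (nat_lit 5262205304) (nat_lit 152) (nat_lit 5) (nat_lit 154) (nat_lit 4) (nat_lit 152) (nat_lit 4) (nat_lit 424) (nat_lit 319) (nat_lit 277))) (XT.nd (nat_lit 78) (nat_lit 0) (nat_lit 0) (XT.lf (nat_lit 0) (nat_lit 4784733895) (nat_lit 76) (nat_lit 18460449512) (nat_lit 76) (nat_lit 14598686469) (nat_lit 151) (nat_lit 4) (nat_lit 152) (nat_lit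 5) (nat_lit 152) (nat_lit 4) (nat_lit 425) (nat_lit 319) (nat_lit 276)) (XT.lf (nat_lit 0) (nat_lit 33769123033) (nat_lit 76) (nat_lit 4573334237) (nat_lit 76) (nat_lit 685850627) (nat_lit 151) (nat_lit 4) (nat_lit 152) (nat_lit 5) (nat_lit 152) (nat_lit 4) (nat_lit 426) (nat_lit 319) (nat_lit 275)))))) (XT.nd (nat_lit 624) (nat_lit 684) (nat_lit 0) (XT.nd (nat_lit 312) (nat_lit 304) (nat_lit 0) (XT.nd (nat_lit 156) (nat_lit 152) (nat_lit 0) (XT.nd (nat_lit 78) (nat_lit 76) (nat_lit 0) (XT.lf (nat_lit 0) (nat_lit 13886631676) (nat_lit 152) (nat_lit 16193049778) (nat_lit 0) (nat_lit 10160937022) (nat_lit 149) (nat_lit 5) (nat_lit 151) (nat_lit 4) (nat_lit 149) (nat_lit 4) (nat_lit 427) (nat_lit 319) (nat_lit 274)) (XT.lf (nat_lit 0) (nat_lit 13570830741) (nat_lit 76) (nat_lit 15838906159) (nat_lit 76) (nat_lit 12090993114) (nat_lit 148) (nat_lit 4) (nat_lit 149) (nat_lit 5) (nat_lit 149) (nat_lit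 4) (nat_lit 428) (nat_lit 319) (nat_lit 273))) (XT.nd (nat_lit 78) (nat_lit 0) (nat_lit 0) (XT.lf (nat_lit 0) (nat_lit 2330985646) (nat_lit 76) (nat_lit 644652921) (nat_lit 152) (nat_lit 39836814743) (nat_lit 146) (nat_lit 5) (nat_lit 147) (nat_lit 5) (nat_lit 148) (nat_lit 4) (nat_lit 429) (nat_lit 319) (nat_lit 272)) (XT.lf (nat_lit 0) (nat_lit 18976818232) (nat_lit 152) (nat_lit 9805624818) (nat_lit 0) (nat_lit 15368031418) (nat_lit 146) (nat_lit 5) (nat_lit 148) (nat_lit 4) (nat_lit 146) (nat_lit 4) (nat_lit 430) (nat_lit 319) (nat_lit 271)))) (XT.nd (nat_lit 156) (nat_lit 76) (nat_lit 0) (XT.nd (nat_lit 78) (nat_lit 152) (nat_lit 0) (XT.lf (nat_lit 0) (nat_lit 22869109039) (nat_lit 76) (nat_lit 13150634623) (nat_lit 76) (nat_lit 9523568683) (nat_lit 145) (nat_lit 4) (nat_lit 146) (nat_lit 5) (nat_lit 146) (nat_lit 4) (nat_lit 431) (nat_lit 319) (nat_lit 270)) (XT.lf (nat_lit 0) (nat_lit 6950666513)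 (nat_lit 152) (nat_lit 36556855091) (nat_lit 0) (nat_lit 3479738292) (nat_lit 143) (nat_lit 5) (nat_lit 145) (nat_lit 4) (nat_lit 143) (nat_lit 4) (nat_lit 432) (nat_lit 319) (nat_lit 269))) (XT.nd (nat_lit 78) (nat_lit 76) (nat_lit 0) (XT.lf (nat_lit 0) (nat_lit 24408588412) (nat_lit 152) (nat_lit 3141138748) (nat_lit 0) (nat_lit 20921869996) (nat_lit 143) (nat_lit 5) (nat_lit 145) (nat_lit 4) (nat_lit 143) (nat_lit 4) (nat_lit 433) (nat_lit 319) (nat_lit 268)) (XT.lf (nat_lit 0) (nat_lit 32749385407) (nat_lit 76) (nat_lit 10381474937) (nat_lit 76) (nat_lit 6879718239) (nat_lit 142) (nat_lit 4) (nat_lit 143) (nat_lit 5) (nat_lit 143) (nat_lit 4) (nat_lit 434) (nat_lit 319) (nat_lit 267))))) (XT.nd (nat_lit 312) (nat_lit 304) (nat_lit 0) (XT.nd (nat_lit 156) (nat_lit 152) (nat_lit 0) (XT.nd (nat_lit 78) (nat_lit 76) (nat_lit 0) (XT.lf (nat_lit 0) (nat_lit 11164144947) (nat_lit 152) (nat_lit 32620217378)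 (nat_lit 0) (nat_lit 7815498403) (nat_lit 140) (nat_lit 5) (nat_lit 142) (nat_lit 4) (nat_lit 140) (nat_lit 4) (nat_lit 435) (nat_lit 319) (nat_lit 266)) (XT.lf (nat_lit 0) (nat_lit 3972966138) (nat_lit 76) (nat_lit 26315580723) (nat_lit 76) (nat_lit 22953943545) (nat_lit 139) (nat_lit 4) (nat_lit 140) (nat_lit 5) (nat_lit 140) (nat_lit 4) (nat_lit 436) (nat_lit 319) (nat_lit 265))) (XT.nd (nat_lit 78) (nat_lit 152) (nat_lit 0) (XT.lf (nat_lit 0) (nat_lit 43288016664) (nat_lit 76) (nat_lit 7515756939) (nat_lit 76) (nat_lit 4141747729) (nat_lit 139) (nat_lit 4) (nat_lit 140) (nat_lit 5) (nat_lit 140) (nat_lit 4) (nat_lit 437) (nat_lit 319) (nat_lit 264)) (XT.lf (nat_lit 0) (nat_lit 15638844220) (nat_lit 152) (nat_lit 28642020764) (nat_lit 0) (nat_lit 12414280318) (nat_lit 137) (nat_lit 5) (nat_lit 139) (nat_lit 4) (nat_lit 137) (nat_lit 4) (nat_lit 438) (nat_lit 319) (nat_lit 263)))) (XT.nd (nat_lit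 156) (nat_lit 228) (nat_lit 0) (XT.nd (nat_lit 78) (nat_lit 0) (nat_lit 0) (XT.lf (nat_lit 0) (nat_lit 11575102490) (nat_lit 76) (nat_lit 25084738099) (nat_lit 76) (nat_lit 21849486770) (nat_lit 136) (nat_lit 4) (nat_lit 137) (nat_lit 5) (nat_lit 137) (nat_lit 4) (nat_lit 439) (nat_lit 319) (nat_lit 262)) (XT.lf (nat_lit 0) (nat_lit 54568562534) (nat_lit 76) (nat_lit 4536220501) (nat_lit 76) (nat_lit 1290790671) (nat_lit 136) (nat_lit 4) (nat_lit 137) (nat_lit 5) (nat_lit 137) (nat_lit 4) (nat_lit 440) (nat_lit 319) (nat_lit 261))) (XT.nd (nat_lit 78) (nat_lit 76) (nat_lit 0) (XT.lf (nat_lit 0) (nat_lit 20410365561) (nat_lit 152) (nat_lit 24601469308) (nat_lit 0) (nat_lit 17310247808) (nat_lit 134) (nat_lit 5) (nat_lit 136) (nat_lit 4) (nat_lit 134) (nat_lit 4) (nat_lit 441) (nat_lit 319) (nat_lit 260)) (XT.lf (nat_lit 0) (nat_lit 19617036190) (nat_lit 76) (nat_lit 23908556792) (nat_lit 76) (nat_lit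 20799646467) (nat_lit 133) (nat_lit 4) (nat_lit 134) (nat_lit 5) (nat_lit 134) (nat_lit 4) (nat_lit 442) (nat_lit 319) (nat_lit 259)))))))
noncomputable def xc70 : XT := (XT.nd (nat_lit 1248) (nat_lit 1216) (nat_lit 0) (XT.nd (nat_lit 624) (nat_lit 684) (nat_lit 0) (XT.nd (nat_lit 312) (nat_lit 228) (nat_lit 0) (XT.nd (nat_lit 156) (nat_lit 228) (nat_lit 0) (XT.nd (nat_lit 78) (nat_lit 0) (nat_lit 0) (XT.lf (nat_lit 0) (nat_lit 251058939) (nat_lit 76) (nat_lit 1392035276) (nat_lit 152) (nat_lit 64768449311) (nat_lit 131) (nat_lit 5) (nat_lit 132) (nat_lit 5) (nat_lit 133) (nat_lit 4) (nat_lit 443) (nat_lit 319) (nat_lit 258)) (XT.lf (nat_lit 0) (nat_lit 25517415033) (nat_lit 152) (nat_lit 20476298922) (nat_lit 0) (nat_lit 22540977580) (nat_lit 131) (nat_lit 5) (nat_lit 133) (nat_lit 4) (nat_lit 131) (nat_lit 4) (nat_lit 444) (nat_lit 319) (nat_lit 257))) (XT.nd (nat_lit 78) (nat_lit 152) (nat_lit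 0) (XT.lf (nat_lit 0) (nat_lit 28159443288) (nat_lit 76) (nat_lit 22785134249) (nat_lit 76) (nat_lit 19801463126) (nat_lit 130) (nat_lit 4) (nat_lit 131) (nat_lit 5) (nat_lit 131) (nat_lit 4) (nat_lit 445) (nat_lit 319) (nat_lit 256)) (XT.lf (nat_lit 0) (nat_lit 4816013152) (nat_lit 152) (nat_lit 66261146839) (nat_lit 0) (nat_lit 1967860453) (nat_lit 128) (nat_lit 5) (nat_lit 130) (nat_lit 4) (nat_lit 128) (nat_lit 4) (nat_lit 446) (nat_lit 319) (nat_lit 255)))) (XT.nd (nat_lit 156) (nat_lit 152) (nat_lit 0) (XT.nd (nat_lit 78) (nat_lit 76) (nat_lit 0) (XT.lf (nat_lit 0) (nat_lit 31002169686) (nat_lit 152) (nat_lit 16242617276) (nat_lit 0) (nat_lit 28147768270) (nat_lit 128) (nat_lit 5) (nat_lit 130) (nat_lit 4) (nat_lit 128) (nat_lit 4) (nat_lit 447) (nat_lit 319) (nat_lit 254)) (XT.lf (nat_lit 0) (nat_lit 37268576794) (nat_lit 76) (nat_lit 21712534343) (nat_lit 76) (nat_lit 18852181769) (nat_lit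 127) (nat_lit 4) (nat_lit 128) (nat_lit 5) (nat_lit 128) (nat_lit 4) (nat_lit 448) (nat_lit 319) (nat_lit 253))) (XT.nd (nat_lit 78) (nat_lit 0) (nat_lit 0) (XT.lf (nat_lit 0) (nat_lit 8192007527) (nat_lit 152) (nat_lit 66711182467) (nat_lit 0) (nat_lit 5462464341) (nat_lit 125) (nat_lit 5) (nat_lit 127) (nat_lit 4) (nat_lit 125) (nat_lit 4) (nat_lit 449) (nat_lit 319) (nat_lit 252)) (XT.lf (nat_lit 0) (nat_lit 36910675053) (nat_lit 152) (nat_lit 11874723857) (nat_lit 0) (nat_lit 34175991033) (nat_lit 125) (nat_lit 5) (nat_lit 127) (nat_lit 4) (nat_lit 125) (nat_lit 4) (nat_lit 450) (nat_lit 319) (nat_lit 251))))) (XT.nd (nat_lit 312) (nat_lit 380) (nat_lit 0) (XT.nd (nat_lit 156) (nat_lit 76) (nat_lit 0) (XT.nd (nat_lit 78) (nat_lit 152) (nat_lit 0) (XT.lf (nat_lit 0) (nat_lit 47016851110) (nat_lit 76) (nat_lit 20688810983) (nat_lit 76) (nat_lit 17949230930) (nat_lit 124) (nat_lit 4) (nat_lit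 125) (nat_lit 5) (nat_lit 125) (nat_lit 4) (nat_lit 451) (nat_lit 319) (nat_lit 250)) (XT.lf (nat_lit 0) (nat_lit 11775225350) (nat_lit 152) (nat_lit 67507772913) (nat_lit 0) (nat_lit 9161660644) (nat_lit 122) (nat_lit 5) (nat_lit 124) (nat_lit 4) (nat_lit 122) (nat_lit 4) (nat_lit 452) (nat_lit 319) (nat_lit 249))) (XT.nd (nat_lit 78) (nat_lit 76) (nat_lit 0) (XT.lf (nat_lit 0) (nat_lit 43293278204) (nat_lit 152) (nat_lit 7344908996) (nat_lit 0) (nat_lit 40675484119) (nat_lit 122) (nat_lit 5) (nat_lit 124) (nat_lit 4) (nat_lit 122) (nat_lit 4) (nat_lit 453) (nat_lit 319) (nat_lit 248)) (XT.lf (nat_lit 0) (nat_lit 57483488906) (nat_lit 76) (nat_lit 19712026706) (nat_lit 76) (nat_lit 17090204643) (nat_lit 121) (nat_lit 4) (nat_lit 122) (nat_lit 5) (nat_lit 122) (nat_lit 4) (nat_lit 454) (nat_lit 319) (nat_lit 247)))) (XT.nd (nat_lit 156) (nat_lit 228) (nat_lit 0) (XT.nd (nat_lit 78) (nat_lit 0)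 (nat_lit 0) (XT.lf (nat_lit 0) (nat_lit 15593794084) (nat_lit 152) (nat_lit 68672410810) (nat_lit 0) (nat_lit 13093167196) (nat_lit 119) (nat_lit 5) (nat_lit 121) (nat_lit 4) (nat_lit 119) (nat_lit 4) (nat_lit 455) (nat_lit 319) (nat_lit 246)) (XT.lf (nat_lit 0) (nat_lit 50205100802) (nat_lit 152) (nat_lit 2623230405) (nat_lit 0) (nat_lit 47700994395) (nat_lit 119) (nat_lit 5) (nat_lit 121) (nat_lit 4) (nat_lit 119) (nat_lit 4) (nat_lit 456) (nat_lit 319) (nat_lit 245))) (XT.nd (nat_lit 78) (nat_lit 152) (nat_lit 0) (XT.lf (nat_lit 0) (nat_lit 68755236173) (nat_lit 76) (nat_lit 18780267164) (nat_lit 76) (nat_lit 16272846928) (nat_lit 118) (nat_lit 4) (nat_lit 119) (nat_lit 5) (nat_lit 119) (nat_lit 4) (nat_lit 457) (nat_lit 319) (nat_lit 244)) (XT.lf (nat_lit 0) (nat_lit 19678347228) (nat_lit 152) (nat_lit 70229410777) (nat_lit 0) (nat_lit 17287322216) (nat_lit 116) (nat_lit 5) (nat_lit 118) (nat_lit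 4) (nat_lit 116) (nat_lit 4) (nat_lit 458) (nat_lit 319) (nat_lit 243)))))) (XT.nd (nat_lit 624) (nat_lit 684) (nat_lit 0) (XT.nd (nat_lit 312) (nat_lit 228) (nat_lit 0) (XT.nd (nat_lit 156) (nat_lit 228) (nat_lit 0) (XT.nd (nat_lit 78) (nat_lit 0) (nat_lit 0) (XT.lf (nat_lit 0) (nat_lit 2399534624) (nat_lit 76) (nat_lit 55344485794) (nat_lit 76) (nat_lit 52950598173) (nat_lit 115) (nat_lit 4) (nat_lit 116) (nat_lit 5) (nat_lit 116) (nat_lit 4) (nat_lit 459) (nat_lit 319) (nat_lit 242)) (XT.lf (nat_lit 0) (nat_lit 80927151887) (nat_lit 76) (nat_lit 17891652282) (nat_lit 76) (nat_lit 15495038366) (nat_lit 115) (nat_lit 4) (nat_lit 116) (nat_lit 5) (nat_lit 116) (nat_lit 4) (nat_lit 460) (nat_lit 319) (nat_lit 241))) (XT.nd (nat_lit 78) (nat_lit 76) (nat_lit 0) (XT.lf (nat_lit 0) (nat_lit 24062307844) (nat_lit 152) (nat_lit 72206177890) (nat_lit 0) (nat_lit 21777345571) (nat_lit 113) (nat_lit 5)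 (nat_lit 115) (nat_lit 4) (nat_lit 113) (nat_lit 4) (nat_lit 461) (nat_lit 319) (nat_lit 240)) (XT.lf (nat_lit 0) (nat_lit 7777077798) (nat_lit 76) (nat_lit 58208265193) (nat_lit 76) (nat_lit 55920947844) (nat_lit 112) (nat_lit 4) (nat_lit 113) (nat_lit 5) (nat_lit 113) (nat_lit 4) (nat_lit 462) (nat_lit 319) (nat_lit 239)))) (XT.nd (nat_lit 156) (nat_lit 76) (nat_lit 0) (XT.nd (nat_lit 78) (nat_lit 152) (nat_lit 0) (XT.lf (nat_lit 0) (nat_lit 94103479476) (nat_lit 76) (nat_lit 17044344714) (nat_lit 76) (nat_lit 14754784436) (nat_lit 112) (nat_lit 4) (nat_lit 113) (nat_lit 5) (nat_lit 113) (nat_lit 4) (nat_lit 463) (nat_lit 319) (nat_lit 238)) (XT.lf (nat_lit 0) (nat_lit 28782198325) (nat_lit 152) (nat_lit 74633503131) (nat_lit 0) (nat_lit 26599630324) (nat_lit 110) (nat_lit 5) (nat_lit 112) (nat_lit 4) (nat_lit 110) (nat_lit 4) (nat_lit 464) (nat_lit 319) (nat_lit 237))) (XT.nd (nat_lit 78) (nat_lit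 0) (nat_lit 0) (XT.lf (nat_lit 0) (nat_lit 13462161286) (nat_lit 76) (nat_lit 61497971619) (nat_lit 76) (nat_lit 59313466091) (nat_lit 109) (nat_lit 4) (nat_lit 110) (nat_lit 5) (nat_lit 110) (nat_lit 4) (nat_lit 465) (nat_lit 319) (nat_lit 236)) (XT.lf (nat_lit 0) (nat_lit 108398608151) (nat_lit 76) (nat_lit 16236556105) (nat_lit 76) (nat_lit 14050205314) (nat_lit 109) (nat_lit 4) (nat_lit 110) (nat_lit 5) (nat_lit 110) (nat_lit 4) (nat_lit 466) (nat_lit 319) (nat_lit 235))))) (XT.nd (nat_lit 312) (nat_lit 304) (nat_lit 0) (XT.nd (nat_lit 156) (nat_lit 152) (nat_lit 0) (XT.nd (nat_lit 78) (nat_lit 76) (nat_lit 0) (XT.lf (nat_lit 0) (nat_lit 33877979519) (nat_lit 152) (nat_lit 77545888858) (nat_lit 0) (nat_lit 31794066963) (nat_lit 107) (nat_lit 5) (nat_lit 109) (nat_lit 4) (nat_lit 107) (nat_lit 4) (nat_lit 467) (nat_lit 319) (nat_lit 234)) (XT.lf (nat_lit 0) (nat_lit 19497785977) (nat_lit 76)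 (nat_lit 65251201880) (nat_lit 76) (nat_lit 63165695316) (nat_lit 106) (nat_lit 4) (nat_lit 107) (nat_lit 5) (nat_lit 107) (nat_lit 4) (nat_lit 468) (nat_lit 319) (nat_lit 233))) (XT.nd (nat_lit 78) (nat_lit 152) (nat_lit 0) (XT.lf (nat_lit 0) (nat_lit 123938133000) (nat_lit 76) (nat_lit 15466551582) (nat_lit 76) (nat_lit 13379526915) (nat_lit 106) (nat_lit 4) (nat_lit 107) (nat_lit 5) (nat_lit 107) (nat_lit 4) (nat_lit 469) (nat_lit 319) (nat_lit 232)) (XT.lf (nat_lit 0) (nat_lit 39393422541) (nat_lit 152) (nat_lit 80981907625) (nat_lit 0) (nat_lit 37404403037) (nat_lit 104) (nat_lit 5) (nat_lit 106) (nat_lit 4) (nat_lit 104) (nat_lit 4) (nat_lit 470) (nat_lit 319) (nat_lit 231)))) (XT.nd (nat_lit 156) (nat_lit 228) (nat_lit 0) (XT.nd (nat_lit 78) (nat_lit 0) (nat_lit 0) (XT.lf (nat_lit 0) (nat_lit 25930835898) (nat_lit 76) (nat_lit 69509651881) (nat_lit 76) (nat_lit 67519320982) (nat_lit 103)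 (nat_lit 4) (nat_lit 104) (nat_lit 5) (nat_lit 104) (nat_lit 4) (nat_lit 471) (nat_lit 319) (nat_lit 230)) (XT.lf (nat_lit 0) (nat_lit 140860023770) (nat_lit 76) (nat_lit 14732652828) (nat_lit 76) (nat_lit 12741072982) (nat_lit 103) (nat_lit 4) (nat_lit 104) (nat_lit 5) (nat_lit 104) (nat_lit 4) (nat_lit 472) (nat_lit 319) (nat_lit 229))) (XT.nd (nat_lit 78) (nat_lit 76) (nat_lit 0) (XT.lf (nat_lit 0) (nat_lit 45376516914) (nat_lit 152) (nat_lit 84984597947) (nat_lit 0) (nat_lit 43478641373) (nat_lit 101) (nat_lit 5) (nat_lit 103) (nat_lit 4) (nat_lit 101) (nat_lit 4) (nat_lit 473) (nat_lit 319) (nat_lit 228)) (XT.nd (nat_lit 78) (nat_lit 0) (nat_lit 0) (XT.lf (nat_lit 0) (nat_lit 32812497285) (nat_lit 76) (nat_lit 74319532747) (nat_lit 76) (nat_lit 72420578319) (nat_lit 100) (nat_lit 4) (nat_lit 101) (nat_lit 5) (nat_lit 101) (nat_lit 4) (nat_lit 474) (nat_lit 319) (nat_lit 227)) (XT.lf (nat_lit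 0) (nat_lit 159315913285) (nat_lit 76) (nat_lit 14033240003) (nat_lit 76) (nat_lit 12133258063) (nat_lit 100) (nat_lit 4) (nat_lit 101) (nat_lit 5) (nat_lit 101) (nat_lit 4) (nat_lit 475) (nat_lit 319) (nat_lit 226))))))))
noncomputable def xc71 : XT := (XT.nd (nat_lit 46566) (nat_lit 0) (nat_lit 5700) (XT.nd (nat_lit 1248) (nat_lit 304) (nat_lit 0) (XT.nd (nat_lit 624) (nat_lit 608) (nat_lit 0) (XT.nd (nat_lit 312) (nat_lit 304) (nat_lit 0) (XT.nd (nat_lit 156) (nat_lit 152) (nat_lit 0) (XT.nd (nat_lit 78) (nat_lit 76) (nat_lit 0) (XT.lf (nat_lit 0) (nat_lit 51879919009) (nat_lit 152) (nat_lit 89601900945) (nat_lit 0) (nat_lit 50069480415) (nat_lit 98) (nat_lit 5) (nat_lit 100) (nat_lit 4) (nat_lit 98) (nat_lit 4) (nat_lit 476) (nat_lit 319) (nat_lit 225)) (XT.lf (nat_lit 0) (nat_lit 40198720311) (nat_lit 76) (nat_lit 79732028444) (nat_lit 76) (nat_lit 77920702247) (nat_lit 97) (nat_lit 4) (nat_lit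 98) (nat_lit 5) (nat_lit 98) (nat_lit 4) (nat_lit 477) (nat_lit 319) (nat_lit 224))) (XT.nd (nat_lit 78) (nat_lit 152) (nat_lit 0) (XT.lf (nat_lit 0) (nat_lit 179472517645) (nat_lit 76) (nat_lit 13366752767) (nat_lit 76) (nat_lit 11554581234) (nat_lit 97) (nat_lit 4) (nat_lit 98) (nat_lit 5) (nat_lit 98) (nat_lit 4) (nat_lit 478) (nat_lit 319) (nat_lit 223)) (XT.lf (nat_lit 0) (nat_lit 58961445092) (nat_lit 152) (nat_lit 94887142174) (nat_lit 0) (nat_lit 57234800697) (nat_lit 95) (nat_lit 5) (nat_lit 97) (nat_lit 4) (nat_lit 95) (nat_lit 4) (nat_lit 479) (nat_lit 319) (nat_lit 222)))) (XT.nd (nat_lit 156) (nat_lit 228) (nat_lit 0) (XT.nd (nat_lit 78) (nat_lit 0) (nat_lit 0) (XT.lf (nat_lit 0) (nat_lit 48150727710) (nat_lit 76) (nat_lit 85803799421) (nat_lit 76) (nat_lit 84076424792) (nat_lit 94) (nat_lit 4) (nat_lit 95) (nat_lit 5) (nat_lit 95) (nat_lit 4) (nat_lit 480) (nat_lit 319) (nat_lit 221))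 (XT.lf (nat_lit 0) (nat_lit 201513201590) (nat_lit 76) (nat_lit 12731690569) (nat_lit 76) (nat_lit 11003620480) (nat_lit 94) (nat_lit 4) (nat_lit 95) (nat_lit 5) (nat_lit 95) (nat_lit 4) (nat_lit 481) (nat_lit 319) (nat_lit 220))) (XT.nd (nat_lit 78) (nat_lit 76) (nat_lit 0) (XT.lf (nat_lit 0) (nat_lit 66684613743) (nat_lit 152) (nat_lit 100899563345) (nat_lit 0) (nat_lit 65038201902) (nat_lit 92) (nat_lit 5) (nat_lit 94) (nat_lit 4) (nat_lit 92) (nat_lit 4) (nat_lit 482) (nat_lit 319) (nat_lit 219)) (XT.lf (nat_lit 0) (nat_lit 56735575055) (nat_lit 76) (nat_lit 92597537263) (nat_lit 76) (nat_lit 90950524657) (nat_lit 91) (nat_lit 4) (nat_lit 92) (nat_lit 5) (nat_lit 92) (nat_lit 4) (nat_lit 483) (nat_lit 319) (nat_lit 218))))) (XT.nd (nat_lit 312) (nat_lit 380) (nat_lit 0) (XT.nd (nat_lit 156) (nat_lit 76) (nat_lit 0) (XT.nd (nat_lit 78) (nat_lit 152) (nat_lit 0) (XT.lf (nat_lit 0) (nat_lit 225639703852)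 (nat_lit 76) (nat_lit 12126612375) (nat_lit 76) (nat_lit 10479027613) (nat_lit 91) (nat_lit 4) (nat_lit 92) (nat_lit 5) (nat_lit 92) (nat_lit 4) (nat_lit 484) (nat_lit 319) (nat_lit 217)) (XT.lf (nat_lit 0) (nat_lit 75119242821) (nat_lit 152) (nat_lit 107704909109) (nat_lit 0) (nat_lit 73549595513) (nat_lit 89) (nat_lit 5) (nat_lit 91) (nat_lit 4) (nat_lit 89) (nat_lit 4) (nat_lit 485) (nat_lit 319) (nat_lit 216))) (XT.nd (nat_lit 78) (nat_lit 0) (nat_lit 0) (XT.lf (nat_lit 0) (nat_lit 66026767894) (nat_lit 76) (nat_lit 100182575740) (nat_lit 76) (nat_lit 98612434181) (nat_lit 88) (nat_lit 4) (nat_lit 89) (nat_lit 5) (nat_lit 89) (nat_lit 4) (nat_lit 486) (nat_lit 319) (nat_lit 215)) (XT.lf (nat_lit 0) (nat_lit 252074038815) (nat_lit 76) (nat_lit 11550135951) (nat_lit 76) (nat_lit 9979523677) (nat_lit 88) (nat_lit 4) (nat_lit 89) (nat_lit 5) (nat_lit 89) (nat_lit 4) (nat_lit 487) (nat_lit 319)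 (nat_lit 214)))) (XT.nd (nat_lit 156) (nat_lit 152) (nat_lit 0) (XT.nd (nat_lit 78) (nat_lit 76) (nat_lit 0) (XT.lf (nat_lit 0) (nat_lit 84342106717) (nat_lit 152) (nat_lit 115376074610) (nat_lit 0) (nat_lit 82845858551) (nat_lit 86) (nat_lit 5) (nat_lit 88) (nat_lit 4) (nat_lit 86) (nat_lit 4) (nat_lit 488) (nat_lit 319) (nat_lit 213)) (XT.lf (nat_lit 0) (nat_lit 76104941548) (nat_lit 76) (nat_lit 108635564228) (nat_lit 76) (nat_lit 107138909441) (nat_lit 85) (nat_lit 4) (nat_lit 86) (nat_lit 5) (nat_lit 86) (nat_lit 4) (nat_lit 489) (nat_lit 319) (nat_lit 212))) (XT.nd (nat_lit 78) (nat_lit 152) (nat_lit 0) (XT.lf (nat_lit 0) (nat_lit 281060592539) (nat_lit 76) (nat_lit 11000936801) (nat_lit 76) (nat_lit 9503894756) (nat_lit 85) (nat_lit 4) (nat_lit 86) (nat_lit 5) (nat_lit 86) (nat_lit 4) (nat_lit 490) (nat_lit 319) (nat_lit 211)) (XT.lf (nat_lit 0) (nat_lit 94437660138) (nat_lit 152) (nat_lit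 123993820036) (nat_lit 0) (nat_lit 93011554555) (nat_lit 83) (nat_lit 5) (nat_lit 85) (nat_lit 4) (nat_lit 83) (nat_lit 4) (nat_lit 491) (nat_lit 319) (nat_lit 210)))))) (XT.nd (nat_lit 44694) (nat_lit 0) (nat_lit 8664) (XT.nd (nat_lit 44382) (nat_lit 0) (nat_lit 9728) (XT.nd (nat_lit 156) (nat_lit 228) (nat_lit 0) (XT.nd (nat_lit 78) (nat_lit 0) (nat_lit 0) (XT.lf (nat_lit 0) (nat_lit 87058609964) (nat_lit 76) (nat_lit 118041209974) (nat_lit 76) (nat_lit 116614769862) (nat_lit 82) (nat_lit 4) (nat_lit 83) (nat_lit 5) (nat_lit 83) (nat_lit 4) (nat_lit 492) (nat_lit 319) (nat_lit 209)) (XT.lf (nat_lit 0) (nat_lit 312868433015) (nat_lit 76) (nat_lit 10477746856) (nat_lit 76) (nat_lit 9050988145) (nat_lit 82) (nat_lit 4) (nat_lit 83) (nat_lit 5) (nat_lit 83) (nat_lit 4) (nat_lit 493) (nat_lit 319) (nat_lit 208))) (XT.nd (nat_lit 78) (nat_lit 76) (nat_lit 0) (XT.lf (nat_lit 0) (nat_lit 105498835370)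 (nat_lit 152) (nat_lit 133647559083) (nat_lit 0) (nat_lit 104139728573) (nat_lit 80) (nat_lit 5) (nat_lit 82) (nat_lit 4) (nat_lit 80) (nat_lit 4) (nat_lit 494) (nat_lit 319) (nat_lit 207)) (XT.lf (nat_lit 0) (nat_lit 98984990675) (nat_lit 76) (nat_lit 128493096402) (nat_lit 76) (nat_lit 127133714387) (nat_lit 79) (nat_lit 4) (nat_lit 80) (nat_lit 5) (nat_lit 80) (nat_lit 4) (nat_lit 495) (nat_lit 319) (nat_lit 206)))) (XT.nd (nat_lit 156) (nat_lit 304) (nat_lit 0) (XT.nd (nat_lit 78) (nat_lit 152) (nat_lit 0) (XT.lf (nat_lit 0) (nat_lit 1340903043) (nat_lit 152) (nat_lit 2116169094) (nat_lit 152) (nat_lit 2116169094) (nat_lit 213) (nat_lit 4) (nat_lit 215) (nat_lit 5) (nat_lit 215) (nat_lit 4) (nat_lit 380) (nat_lit 320) (nat_lit 320)) (XT.lf (nat_lit 0) (nat_lit 1345084196) (nat_lit 152) (nat_lit 9236642900) (nat_lit 0) (nat_lit 815399947) (nat_lit 211) (nat_lit 5) (nat_lit 213) (nat_lit 4) (nat_lit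 211) (nat_lit 4) (nat_lit 381) (nat_lit 320) (nat_lit 319))) (XT.nd (nat_lit 78) (nat_lit 152) (nat_lit 0) (XT.lf (nat_lit 0) (nat_lit 1501991263) (nat_lit 152) (nat_lit 5593583661) (nat_lit 152) (nat_lit 4559438222) (nat_lit 209) (nat_lit 4) (nat_lit 211) (nat_lit 5) (nat_lit 211) (nat_lit 4) (nat_lit 382) (nat_lit 320) (nat_lit 318)) (XT.lf (nat_lit 0) (nat_lit 821724310) (nat_lit 76) (nat_lit 317938605) (nat_lit 152) (nat_lit 10786661619) (nat_lit 207) (nat_lit 5) (nat_lit 208) (nat_lit 5) (nat_lit 209) (nat_lit 4) (nat_lit 383) (nat_lit 320) (nat_lit 317))))) (XT.nd (nat_lit 312) (nat_lit 608) (nat_lit 0) (XT.nd (nat_lit 156) (nat_lit 228) (nat_lit 0) (XT.nd (nat_lit 78) (nat_lit 228) (nat_lit 0) (XT.lf (nat_lit 0) (nat_lit 7026982889) (nat_lit 152) (nat_lit 28908060) (nat_lit 0) (nat_lit 5148748758) (nat_lit 207) (nat_lit 5) (nat_lit 209) (nat_lit 4) (nat_lit 207) (nat_lit 4) (nat_lit 384)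 (nat_lit 320) (nat_lit 316)) (XT.lf (nat_lit 0) (nat_lit 685302568) (nat_lit 228) (nat_lit 888385335) (nat_lit 76) (nat_lit 10922812761) (nat_lit 204) (nat_lit 5) (nat_lit 207) (nat_lit 5) (nat_lit 205) (nat_lit 4) (nat_lit 385) (nat_lit 320) (nat_lit 315))) (XT.nd (nat_lit 78) (nat_lit 152) (nat_lit 0) (XT.lf (nat_lit 0) (nat_lit 6716151244) (nat_lit 152) (nat_lit 1924460633) (nat_lit 0) (nat_lit 4155661584) (nat_lit 203) (nat_lit 5) (nat_lit 205) (nat_lit 4) (nat_lit 203) (nat_lit 4) (nat_lit 386) (nat_lit 320) (nat_lit 314)) (XT.lf (nat_lit 0) (nat_lit 10087976327) (nat_lit 152) (nat_lit 2970774478) (nat_lit 152) (nat_lit 51773669) (nat_lit 201) (nat_lit 4) (nat_lit 203) (nat_lit 5) (nat_lit 203) (nat_lit 4) (nat_lit 387) (nat_lit 320) (nat_lit 313)))) (XT.nd (nat_lit 156) (nat_lit 304) (nat_lit 0) (XT.nd (nat_lit 78) (nat_lit 152) (nat_lit 0) (XT.lf (nat_lit 0) (nat_lit 6114138117) (nat_lit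 152) (nat_lit 4310637865) (nat_lit 0) (nat_lit 3008957165) (nat_lit 199) (nat_lit 5) (nat_lit 201) (nat_lit 4) (nat_lit 199) (nat_lit 4) (nat_lit 388) (nat_lit 320) (nat_lit 312)) (XT.lf (nat_lit 0) (nat_lit 8067145366) (nat_lit 152) (nat_lit 4559396986) (nat_lit 152) (nat_lit 1144520624) (nat_lit 197) (nat_lit 4) (nat_lit 199) (nat_lit 5) (nat_lit 199) (nat_lit 4) (nat_lit 389) (nat_lit 320) (nat_lit 311))) (XT.nd (nat_lit 78) (nat_lit 152) (nat_lit 0) (XT.lf (nat_lit 0) (nat_lit 5190449680) (nat_lit 152) (nat_lit 7272256260) (nat_lit 0) (nat_lit 1657283611) (nat_lit 195) (nat_lit 5) (nat_lit 197) (nat_lit 4) (nat_lit 195) (nat_lit 4) (nat_lit 390) (nat_lit 320) (nat_lit 310)) (XT.lf (nat_lit 0) (nat_lit 5470980686) (nat_lit 152) (nat_lit 6405742667) (nat_lit 152) (nat_lit 2605050059) (nat_lit 193) (nat_lit 4) (nat_lit 195) (nat_lit 5) (nat_lit 195) (nat_lit 4) (nat_lit 391) (nat_lit 320) (nat_lit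 309))))))) (XT.nd (nat_lit 1248) (nat_lit 1444) (nat_lit 0) (XT.nd (nat_lit 624) (nat_lit 684) (nat_lit 0) (XT.nd (nat_lit 312) (nat_lit 456) (nat_lit 0) (XT.nd (nat_lit 156) (nat_lit 152) (nat_lit 0) (XT.nd (nat_lit 78) (nat_lit 76) (nat_lit 0) (XT.lf (nat_lit 0) (nat_lit 3909316851) (nat_lit 152) (nat_lit 10902083110) (nat_lit 0) (nat_lit 46955148) (nat_lit 191) (nat_lit 5) (nat_lit 193) (nat_lit 4) (nat_lit 191) (nat_lit 4) (nat_lit 392) (nat_lit 320) (nat_lit 308)) (XT.lf (nat_lit 0) (nat_lit 2205023512) (nat_lit 76) (nat_lit 8567273108) (nat_lit 76) (nat_lit 4473811921) (nat_lit 190) (nat_lit 4) (nat_lit 191) (nat_lit 5) (nat_lit 191) (nat_lit 4) (nat_lit 393) (nat_lit 320) (nat_lit 307))) (XT.nd (nat_lit 78) (nat_lit 0) (nat_lit 0) (XT.lf (nat_lit 0) (nat_lit 318745920) (nat_lit 76) (nat_lit 1940913520) (nat_lit 152) (nat_lit 13391329887) (nat_lit 188) (nat_lit 5) (nat_lit 189) (nat_lit 5)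 (nat_lit 190) (nat_lit 4) (nat_lit 394) (nat_lit 320) (nat_lit 306)) (XT.lf (nat_lit 0) (nat_lit 9299214590) (nat_lit 152) (nat_lit 1775810862) (nat_lit 0) (nat_lit 4991433659) (nat_lit 188) (nat_lit 5) (nat_lit 190) (nat_lit 4) (nat_lit 188) (nat_lit 4) (nat_lit 395) (nat_lit 320) (nat_lit 305)))) (XT.nd (nat_lit 156) (nat_lit 228) (nat_lit 0) (XT.nd (nat_lit 78) (nat_lit 76) (nat_lit 0) (XT.lf (nat_lit 0) (nat_lit 235357193) (nat_lit 152) (nat_lit 4015424801) (nat_lit 76) (nat_lit 12249107060) (nat_lit 186) (nat_lit 5) (nat_lit 188) (nat_lit 5) (nat_lit 187) (nat_lit 4) (nat_lit 396) (nat_lit 320) (nat_lit 304)) (XT.lf (nat_lit 0) (nat_lit 7428313166) (nat_lit 152) (nat_lit 6545605833) (nat_lit 0) (nat_lit 2972142175) (nat_lit 185) (nat_lit 5) (nat_lit 187) (nat_lit 4) (nat_lit 185) (nat_lit 4) (nat_lit 397) (nat_lit 320) (nat_lit 303))) (XT.nd (nat_lit 78) (nat_lit 152) (nat_lit 0) (XT.lf (nat_lit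 0) (nat_lit 8115590743) (nat_lit 76) (nat_lit 6957378802) (nat_lit 76) (nat_lit 2336969723) (nat_lit 184) (nat_lit 4) (nat_lit 185) (nat_lit 5) (nat_lit 185) (nat_lit 4) (nat_lit 398) (nat_lit 320) (nat_lit 302)) (XT.lf (nat_lit 0) (nat_lit 5071701238) (nat_lit 152) (nat_lit 12297136759) (nat_lit 0) (nat_lit 522342852) (nat_lit 182) (nat_lit 5) (nat_lit 184) (nat_lit 4) (nat_lit 182) (nat_lit 4) (nat_lit 399) (nat_lit 320) (nat_lit 301))))) (XT.nd (nat_lit 312) (nat_lit 380) (nat_lit 0) (XT.nd (nat_lit 156) (nat_lit 152) (nat_lit 0) (XT.nd (nat_lit 78) (nat_lit 76) (nat_lit 0) (XT.lf (nat_lit 0) (nat_lit 2754634722) (nat_lit 76) (nat_lit 10161975286) (nat_lit 76) (nat_lit 5470741863) (nat_lit 181) (nat_lit 4) (nat_lit 182) (nat_lit 5) (nat_lit 182) (nat_lit 4) (nat_lit 400) (nat_lit 320) (nat_lit 300)) (XT.lf (nat_lit 0) (nat_lit 2212758091) (nat_lit 152) (nat_lit 290198417) (nat_lit 76) (nat_lit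 16401662402) (nat_lit 180) (nat_lit 5) (nat_lit 182) (nat_lit 5) (nat_lit 181) (nat_lit 4) (nat_lit 401) (nat_lit 320) (nat_lit 299))) (XT.nd (nat_lit 78) (nat_lit 76) (nat_lit 0) (XT.lf (nat_lit 0) (nat_lit 10270338280) (nat_lit 152) (nat_lit 3612983807) (nat_lit 0) (nat_lit 5551255096) (nat_lit 179) (nat_lit 5) (nat_lit 181) (nat_lit 4) (nat_lit 179) (nat_lit 4) (nat_lit 402) (nat_lit 320) (nat_lit 298)) (XT.lf (nat_lit 0) (nat_lit 12802968189) (nat_lit 76) (nat_lit 6009883305) (nat_lit 76) (nat_lit 1174079177) (nat_lit 178) (nat_lit 4) (nat_lit 179) (nat_lit 5) (nat_lit 179) (nat_lit 4) (nat_lit 403) (nat_lit 320) (nat_lit 297)))) (XT.nd (nat_lit 156) (nat_lit 152) (nat_lit 0) (XT.nd (nat_lit 78) (nat_lit 76) (nat_lit 0) (XT.lf (nat_lit 0) (nat_lit 7068982739) (nat_lit 152) (nat_lit 11130483748) (nat_lit 0) (nat_lit 2357585662) (nat_lit 176) (nat_lit 5) (nat_lit 178) (nat_lit 4) (nat_lit 176)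 (nat_lit 4) (nat_lit 404) (nat_lit 320) (nat_lit 296)) (XT.lf (nat_lit 0) (nat_lit 5705806997) (nat_lit 76) (nat_lit 10126869297) (nat_lit 76) (nat_lit 5314644281) (nat_lit 175) (nat_lit 4) (nat_lit 176) (nat_lit 5) (nat_lit 176) (nat_lit 4) (nat_lit 405) (nat_lit 320) (nat_lit 295))) (XT.nd (nat_lit 78) (nat_lit 0) (nat_lit 0) (XT.lf (nat_lit 0) (nat_lit 1687928395) (nat_lit 76) (nat_lit 1529720394) (nat_lit 152) (nat_lit 18544164152) (nat_lit 173) (nat_lit 5) (nat_lit 174) (nat_lit 5) (nat_lit 175) (nat_lit 4) (nat_lit 406) (nat_lit 320) (nat_lit 294)) (XT.lf (nat_lit 0) (nat_lit 12217931809) (nat_lit 152) (nat_lit 2717435255) (nat_lit 0) (nat_lit 7456307487) (nat_lit 173) (nat_lit 5) (nat_lit 175) (nat_lit 4) (nat_lit 173) (nat_lit 4) (nat_lit 407) (nat_lit 320) (nat_lit 293)))))) (XT.nd (nat_lit 624) (nat_lit 684) (nat_lit 0) (XT.nd (nat_lit 312) (nat_lit 304) (nat_lit 0) (XT.nd (nat_lit 156)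 (nat_lit 228) (nat_lit 0) (XT.nd (nat_lit 78) (nat_lit 152) (nat_lit 0) (XT.lf (nat_lit 0) (nat_lit 15673945394) (nat_lit 76) (nat_lit 6108962801) (nat_lit 76) (nat_lit 1264387084) (nat_lit 172) (nat_lit 4) (nat_lit 173) (nat_lit 5) (nat_lit 173) (nat_lit 4) (nat_lit 408) (nat_lit 320) (nat_lit 292)) (XT.lf (nat_lit 0) (nat_lit 7951866934) (nat_lit 152) (nat_lit 12508749700) (nat_lit 0) (nat_lit 3262745938) (nat_lit 170) (nat_lit 5) (nat_lit 172) (nat_lit 4) (nat_lit 170) (nat_lit 4) (nat_lit 409) (nat_lit 320) (nat_lit 291))) (XT.nd (nat_lit 78) (nat_lit 152) (nat_lit 0) (XT.lf (nat_lit 0) (nat_lit 6330816731) (nat_lit 76) (nat_lit 11426799467) (nat_lit 76) (nat_lit 6666021937) (nat_lit 169) (nat_lit 4) (nat_lit 170) (nat_lit 5) (nat_lit 170) (nat_lit 4) (nat_lit 410) (nat_lit 320) (nat_lit 290)) (XT.lf (nat_lit 0) (nat_lit 1074037850) (nat_lit 76) (nat_lit 1805503465) (nat_lit 152) (nat_lit 22273253163)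 (nat_lit 167) (nat_lit 5) (nat_lit 168) (nat_lit 5) (nat_lit 169) (nat_lit 4) (nat_lit 411) (nat_lit 320) (nat_lit 289)))) (XT.nd (nat_lit 156) (nat_lit 228) (nat_lit 0) (XT.nd (nat_lit 78) (nat_lit 76) (nat_lit 0) (XT.lf (nat_lit 0) (nat_lit 12964926787) (nat_lit 152) (nat_lit 4629730842) (nat_lit 0) (nat_lit 8303958753) (nat_lit 167) (nat_lit 5) (nat_lit 169) (nat_lit 4) (nat_lit 167) (nat_lit 4) (nat_lit 412) (nat_lit 320) (nat_lit 288)) (XT.lf (nat_lit 0) (nat_lit 15978133257) (nat_lit 76) (nat_lit 7708457843) (nat_lit 76) (nat_lit 2988537801) (nat_lit 166) (nat_lit 4) (nat_lit 167) (nat_lit 5) (nat_lit 167) (nat_lit 4) (nat_lit 413) (nat_lit 320) (nat_lit 287))) (XT.nd (nat_lit 78) (nat_lit 76) (nat_lit 0) (XT.lf (nat_lit 0) (nat_lit 7352573146) (nat_lit 152) (nat_lit 17321271518) (nat_lit 0) (nat_lit 2803939992) (nat_lit 164) (nat_lit 5) (nat_lit 166) (nat_lit 4) (nat_lit 164) (nat_lit 4)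 (nat_lit 414) (nat_lit 320) (nat_lit 286)) (XT.lf (nat_lit 0) (nat_lit 3758849524) (nat_lit 76) (nat_lit 14573856073) (nat_lit 76) (nat_lit 9974297958) (nat_lit 163) (nat_lit 4) (nat_lit 164) (nat_lit 5) (nat_lit 164) (nat_lit 4) (nat_lit 415) (nat_lit 320) (nat_lit 285))))) (XT.nd (nat_lit 312) (nat_lit 304) (nat_lit 0) (XT.nd (nat_lit 156) (nat_lit 228) (nat_lit 0) (XT.nd (nat_lit 78) (nat_lit 76) (nat_lit 0) (XT.lf (nat_lit 0) (nat_lit 813715841) (nat_lit 152) (nat_lit 2979940602) (nat_lit 76) (nat_lit 25375920273) (nat_lit 162) (nat_lit 5) (nat_lit 164) (nat_lit 5) (nat_lit 163) (nat_lit 4) (nat_lit 416) (nat_lit 320) (nat_lit 284)) (XT.lf (nat_lit 0) (nat_lit 12099278641) (nat_lit 152) (nat_lit 10324590968) (nat_lit 0) (nat_lit 7628565766) (nat_lit 161) (nat_lit 5) (nat_lit 163) (nat_lit 4) (nat_lit 161) (nat_lit 4) (nat_lit 417) (nat_lit 320) (nat_lit 283))) (XT.nd (nat_lit 78) (nat_lit 152)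 (nat_lit 0) (XT.lf (nat_lit 0) (nat_lit 12761153960) (nat_lit 76) (nat_lit 11361117196) (nat_lit 76) (nat_lit 6848508231) (nat_lit 160) (nat_lit 4) (nat_lit 161) (nat_lit 5) (nat_lit 161) (nat_lit 4) (nat_lit 418) (nat_lit 320) (nat_lit 282)) (XT.lf (nat_lit 0) (nat_lit 4784664099) (nat_lit 152) (nat_lit 26691315998) (nat_lit 0) (nat_lit 448940285) (nat_lit 158) (nat_lit 5) (nat_lit 160) (nat_lit 4) (nat_lit 158) (nat_lit 4) (nat_lit 419) (nat_lit 320) (nat_lit 281)))) (XT.nd (nat_lit 156) (nat_lit 228) (nat_lit 0) (XT.nd (nat_lit 78) (nat_lit 76) (nat_lit 0) (XT.lf (nat_lit 0) (nat_lit 17129653222) (nat_lit 152) (nat_lit 3015748035) (nat_lit 0) (nat_lit 12757737989) (nat_lit 158) (nat_lit 5) (nat_lit 160) (nat_lit 4) (nat_lit 158) (nat_lit 4) (nat_lit 420) (nat_lit 320) (nat_lit 280)) (XT.lf (nat_lit 0) (nat_lit 22288377198) (nat_lit 76) (nat_lit 8018756505) (nat_lit 76) (nat_lit 3612373254) (nat_lit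 157) (nat_lit 4) (nat_lit 158) (nat_lit 5) (nat_lit 158) (nat_lit 4) (nat_lit 421) (nat_lit 320) (nat_lit 279))) (XT.nd (nat_lit 78) (nat_lit 76) (nat_lit 0) (XT.lf (nat_lit 0) (nat_lit 9080008729) (nat_lit 152) (nat_lit 21036532011) (nat_lit 0) (nat_lit 4852189743) (nat_lit 155) (nat_lit 5) (nat_lit 157) (nat_lit 4) (nat_lit 155) (nat_lit 4) (nat_lit 422) (nat_lit 320) (nat_lit 278)) (XT.lf (nat_lit 0) (nat_lit 4808175544) (nat_lit 76) (nat_lit 17751582526) (nat_lit 76) (nat_lit 13493988770) (nat_lit 154) (nat_lit 4) (nat_lit 155) (nat_lit 5) (nat_lit 155) (nat_lit 4) (nat_lit 423) (nat_lit 320) (nat_lit 277))))))))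
noncomputable def xc72 : XT := (XT.nd (nat_lit 1248) (nat_lit 1216) (nat_lit 0) (XT.nd (nat_lit 624) (nat_lit 684) (nat_lit 0) (XT.nd (nat_lit 312) (nat_lit 228) (nat_lit 0) (XT.nd (nat_lit 156) (nat_lit 228) (nat_lit 0) (XT.nd (nat_lit 78) (nat_lit 152) (nat_lit 0) (XT.lf (nat_lit 0) (nat_lit 32411047869) (nat_lit 76) (nat_lit 4528311793) (nat_lit 76) (nat_lit 242361113) (nat_lit 154) (nat_lit 4) (nat_lit 155) (nat_lit 5) (nat_lit 155) (nat_lit 4) (nat_lit 424) (nat_lit 320) (nat_lit 276)) (XT.lf (nat_lit 0) (nat_lit 13625398257) (nat_lit 152) (nat_lit 15192645712) (nat_lit 0) (nat_lit 9517819901) (nat_lit 152) (nat_lit 5) (nat_lit 154) (nat_lit 4) (nat_lit 152) (nat_lit 4) (nat_lit 425) (nat_lit 320) (nat_lit 275))) (XT.nd (nat_lit 78) (nat_lit 152) (nat_lit 0) (XT.lf (nat_lit 0) (nat_lit 13160359336) (nat_lit 76) (nat_lit 15253723087) (nat_lit 76) (nat_lit 11121648954) (nat_lit 151) (nat_lit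 4) (nat_lit 152) (nat_lit 5) (nat_lit 152) (nat_lit 4) (nat_lit 426) (nat_lit 320) (nat_lit 274)) (XT.lf (nat_lit 0) (nat_lit 2444518358) (nat_lit 76) (nat_lit 774955691) (nat_lit 152) (nat_lit 37564983010) (nat_lit 149) (nat_lit 5) (nat_lit 150) (nat_lit 5) (nat_lit 151) (nat_lit 4) (nat_lit 427) (nat_lit 320) (nat_lit 273)))) (XT.nd (nat_lit 156) (nat_lit 152) (nat_lit 0) (XT.nd (nat_lit 78) (nat_lit 76) (nat_lit 0) (XT.lf (nat_lit 0) (nat_lit 18457123779) (nat_lit 152) (nat_lit 9123281277) (nat_lit 0) (nat_lit 14478436317) (nat_lit 149) (nat_lit 5) (nat_lit 151) (nat_lit 4) (nat_lit 149) (nat_lit 4) (nat_lit 428) (nat_lit 320) (nat_lit 272)) (XT.lf (nat_lit 0) (nat_lit 22001705833) (nat_lit 76) (nat_lit 12691135013) (nat_lit 76) (nat_lit 8692294815) (nat_lit 148) (nat_lit 4) (nat_lit 149) (nat_lit 5) (nat_lit 149) (nat_lit 4) (nat_lit 429) (nat_lit 320) (nat_lit 271))) (XT.nd (nat_lit 78) (nat_lit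 0) (nat_lit 0) (XT.lf (nat_lit 0) (nat_lit 6987034859) (nat_lit 152) (nat_lit 34612573902) (nat_lit 0) (nat_lit 3160336497) (nat_lit 146) (nat_lit 5) (nat_lit 148) (nat_lit 4) (nat_lit 146) (nat_lit 4) (nat_lit 430) (nat_lit 320) (nat_lit 270)) (XT.lf (nat_lit 0) (nat_lit 23614404328) (nat_lit 152) (nat_lit 2788859330) (nat_lit 0) (nat_lit 19770297274) (nat_lit 146) (nat_lit 5) (nat_lit 148) (nat_lit 4) (nat_lit 146) (nat_lit 4) (nat_lit 431) (nat_lit 320) (nat_lit 269))))) (XT.nd (nat_lit 312) (nat_lit 380) (nat_lit 0) (XT.nd (nat_lit 156) (nat_lit 76) (nat_lit 0) (XT.nd (nat_lit 78) (nat_lit 152) (nat_lit 0) (XT.lf (nat_lit 0) (nat_lit 31398529821) (nat_lit 76) (nat_lit 10050607294) (nat_lit 76) (nat_lit 6189920534) (nat_lit 145) (nat_lit 4) (nat_lit 146) (nat_lit 5) (nat_lit 146) (nat_lit 4) (nat_lit 432) (nat_lit 320) (nat_lit 268)) (XT.lf (nat_lit 0) (nat_lit 10984494952) (nat_lit 152) (nat_lit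 30875201046) (nat_lit 0) (nat_lit 7292612137) (nat_lit 143) (nat_lit 5) (nat_lit 145) (nat_lit 4) (nat_lit 143) (nat_lit 4) (nat_lit 433) (nat_lit 320) (nat_lit 267))) (XT.nd (nat_lit 78) (nat_lit 0) (nat_lit 0) (XT.lf (nat_lit 0) (nat_lit 3981126953) (nat_lit 76) (nat_lit 25220804680) (nat_lit 76) (nat_lit 21514599691) (nat_lit 142) (nat_lit 4) (nat_lit 143) (nat_lit 5) (nat_lit 143) (nat_lit 4) (nat_lit 434) (nat_lit 320) (nat_lit 266)) (XT.lf (nat_lit 0) (nat_lit 41423403138) (nat_lit 76) (nat_lit 7317438800) (nat_lit 76) (nat_lit 3597593646) (nat_lit 142) (nat_lit 4) (nat_lit 143) (nat_lit 5) (nat_lit 143) (nat_lit 4) (nat_lit 435) (nat_lit 320) (nat_lit 265)))) (XT.nd (nat_lit 156) (nat_lit 152) (nat_lit 0) (XT.nd (nat_lit 78) (nat_lit 76) (nat_lit 0) (XT.lf (nat_lit 0) (nat_lit 15231093767) (nat_lit 152) (nat_lit 27097310854) (nat_lit 0) (nat_lit 11676012065) (nat_lit 140) (nat_lit 5) (nat_lit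 142) (nat_lit 4) (nat_lit 140) (nat_lit 4) (nat_lit 436) (nat_lit 320) (nat_lit 264)) (XT.lf (nat_lit 0) (nat_lit 11210146073) (nat_lit 76) (nat_lit 24044377976) (nat_lit 76) (nat_lit 20477513386) (nat_lit 139) (nat_lit 4) (nat_lit 140) (nat_lit 5) (nat_lit 140) (nat_lit 4) (nat_lit 437) (nat_lit 320) (nat_lit 263))) (XT.nd (nat_lit 78) (nat_lit 152) (nat_lit 0) (XT.lf (nat_lit 0) (nat_lit 52155780952) (nat_lit 76) (nat_lit 4475371659) (nat_lit 76) (nat_lit 897285271) (nat_lit 139) (nat_lit 4) (nat_lit 140) (nat_lit 5) (nat_lit 140) (nat_lit 4) (nat_lit 438) (nat_lit 320) (nat_lit 262)) (XT.lf (nat_lit 0) (nat_lit 19760786768) (nat_lit 152) (nat_lit 23259208838) (nat_lit 0) (nat_lit 16342906945) (nat_lit 137) (nat_lit 5) (nat_lit 139) (nat_lit 4) (nat_lit 137) (nat_lit 4) (nat_lit 439) (nat_lit 320) (nat_lit 261)))))) (XT.nd (nat_lit 624) (nat_lit 532) (nat_lit 0) (XT.nd (nat_lit 312) (nat_lit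 380) (nat_lit 0) (XT.nd (nat_lit 156) (nat_lit 76) (nat_lit 0) (XT.nd (nat_lit 78) (nat_lit 152) (nat_lit 0) (XT.lf (nat_lit 0) (nat_lit 18858852628) (nat_lit 76) (nat_lit 22919616455) (nat_lit 76) (nat_lit 19492042822) (nat_lit 136) (nat_lit 4) (nat_lit 137) (nat_lit 5) (nat_lit 137) (nat_lit 4) (nat_lit 440) (nat_lit 320) (nat_lit 260)) (XT.lf (nat_lit 0) (nat_lit 406685674) (nat_lit 76) (nat_lit 1468188232) (nat_lit 152) (nat_lit 61382195258) (nat_lit 134) (nat_lit 5) (nat_lit 135) (nat_lit 5) (nat_lit 136) (nat_lit 4) (nat_lit 441) (nat_lit 320) (nat_lit 259))) (XT.nd (nat_lit 78) (nat_lit 76) (nat_lit 0) (XT.lf (nat_lit 0) (nat_lit 24610472249) (nat_lit 152) (nat_lit 19339785183) (nat_lit 0) (nat_lit 21328949958) (nat_lit 134) (nat_lit 5) (nat_lit 136) (nat_lit 4) (nat_lit 134) (nat_lit 4) (nat_lit 442) (nat_lit 320) (nat_lit 258)) (XT.lf (nat_lit 0) (nat_lit 26984939822) (nat_lit 76) (nat_lit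 21844832026) (nat_lit 76) (nat_lit 18555334612) (nat_lit 133) (nat_lit 4) (nat_lit 134) (nat_lit 5) (nat_lit 134) (nat_lit 4) (nat_lit 443) (nat_lit 320) (nat_lit 257)))) (XT.nd (nat_lit 156) (nat_lit 228) (nat_lit 0) (XT.nd (nat_lit 78) (nat_lit 0) (nat_lit 0) (XT.lf (nat_lit 0) (nat_lit 4880838560) (nat_lit 152) (nat_lit 62952752450) (nat_lit 0) (nat_lit 1740750210) (nat_lit 131) (nat_lit 5) (nat_lit 133) (nat_lit 4) (nat_lit 131) (nat_lit 4) (nat_lit 444) (nat_lit 320) (nat_lit 256)) (XT.lf (nat_lit 0) (nat_lit 29820342818) (nat_lit 152) (nat_lit 15316365186) (nat_lit 0) (nat_lit 26673365257) (nat_lit 131) (nat_lit 5) (nat_lit 133) (nat_lit 4) (nat_lit 131) (nat_lit 4) (nat_lit 445) (nat_lit 320) (nat_lit 255))) (XT.nd (nat_lit 78) (nat_lit 152) (nat_lit 0) (XT.lf (nat_lit 0) (nat_lit 35651426252) (nat_lit 76) (nat_lit 20818280081) (nat_lit 76) (nat_lit 17664741368) (nat_lit 130) (nat_lit 4)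 (nat_lit 131) (nat_lit 5) (nat_lit 131) (nat_lit 4) (nat_lit 446) (nat_lit 320) (nat_lit 254)) (XT.lf (nat_lit 0) (nat_lit 8082901266) (nat_lit 152) (nat_lit 63389485923) (nat_lit 0) (nat_lit 5073579904) (nat_lit 128) (nat_lit 5) (nat_lit 130) (nat_lit 4) (nat_lit 128) (nat_lit 4) (nat_lit 447) (nat_lit 320) (nat_lit 253))))) (XT.nd (nat_lit 312) (nat_lit 304) (nat_lit 0) (XT.nd (nat_lit 156) (nat_lit 152) (nat_lit 0) (XT.nd (nat_lit 78) (nat_lit 76) (nat_lit 0) (XT.lf (nat_lit 0) (nat_lit 35434266224) (nat_lit 152) (nat_lit 11164540275) (nat_lit 0) (nat_lit 32419277092) (nat_lit 128) (nat_lit 5) (nat_lit 130) (nat_lit 4) (nat_lit 128) (nat_lit 4) (nat_lit 448) (nat_lit 320) (nat_lit 252)) (XT.lf (nat_lit 0) (nat_lit 44927210146) (nat_lit 76) (nat_lit 19838186459) (nat_lit 76) (nat_lit 16817799450) (nat_lit 127) (nat_lit 4) (nat_lit 128) (nat_lit 5) (nat_lit 128) (nat_lit 4) (nat_lit 449) (nat_lit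 320) (nat_lit 251))) (XT.nd (nat_lit 78) (nat_lit 0) (nat_lit 0) (XT.lf (nat_lit 0) (nat_lit 11482798284) (nat_lit 152) (nat_lit 64155736053) (nat_lit 0) (nat_lit 8601343195) (nat_lit 125) (nat_lit 5) (nat_lit 127) (nat_lit 4) (nat_lit 125) (nat_lit 4) (nat_lit 450) (nat_lit 320) (nat_lit 250)) (XT.lf (nat_lit 0) (nat_lit 41500199645) (nat_lit 152) (nat_lit 6857978585) (nat_lit 0) (nat_lit 38614081667) (nat_lit 125) (nat_lit 5) (nat_lit 127) (nat_lit 4) (nat_lit 125) (nat_lit 4) (nat_lit 451) (nat_lit 320) (nat_lit 249)))) (XT.nd (nat_lit 156) (nat_lit 76) (nat_lit 0) (XT.nd (nat_lit 78) (nat_lit 152) (nat_lit 0) (XT.lf (nat_lit 0) (nat_lit 54887683493) (nat_lit 76) (nat_lit 18902768825) (nat_lit 76) (nat_lit 16012210000) (nat_lit 124) (nat_lit 4) (nat_lit 125) (nat_lit 5) (nat_lit 125) (nat_lit 4) (nat_lit 452) (nat_lit 320) (nat_lit 248)) (XT.lf (nat_lit 0) (nat_lit 15107321210) (nat_lit 152)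 (nat_lit 65272023847) (nat_lit 0) (nat_lit 12350380065) (nat_lit 122) (nat_lit 5) (nat_lit 124) (nat_lit 4) (nat_lit 122) (nat_lit 4) (nat_lit 453) (nat_lit 320) (nat_lit 247))) (XT.nd (nat_lit 78) (nat_lit 76) (nat_lit 0) (XT.lf (nat_lit 0) (nat_lit 48070641725) (nat_lit 152) (nat_lit 2368213768) (nat_lit 0) (nat_lit 45309864411) (nat_lit 122) (nat_lit 5) (nat_lit 124) (nat_lit 4) (nat_lit 122) (nat_lit 4) (nat_lit 454) (nat_lit 320) (nat_lit 246)) (XT.lf (nat_lit 0) (nat_lit 65615411437) (nat_lit 76) (nat_lit 18010253483) (nat_lit 76) (nat_lit 15245822672) (nat_lit 121) (nat_lit 4) (nat_lit 122) (nat_lit 5) (nat_lit 122) (nat_lit 4) (nat_lit 455) (nat_lit 320) (nat_lit 245)))))))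
noncomputable def xc73 : XT := (XT.nd (nat_lit 1248) (nat_lit 1216) (nat_lit 0) (XT.nd (nat_lit 624) (nat_lit 608) (nat_lit 0) (XT.nd (nat_lit 312) (nat_lit 304) (nat_lit 0) (XT.nd (nat_lit 156) (nat_lit 152) (nat_lit 0) (XT.nd (nat_lit 78) (nat_lit 76) (nat_lit 0) (XT.lf (nat_lit 0) (nat_lit 18985643504) (nat_lit 152) (nat_lit 66761550777) (nat_lit 0) (nat_lit 16349538428) (nat_lit 119) (nat_lit 5) (nat_lit 121) (nat_lit 4) (nat_lit 119) (nat_lit 4) (nat_lit 456) (nat_lit 320) (nat_lit 244)) (XT.lf (nat_lit 0) (nat_lit 2412814712) (nat_lit 76) (nat_lit 52827983087) (nat_lit 76) (nat_lit 50188721985) (nat_lit 118) (nat_lit 4) (nat_lit 119) (nat_lit 5) (nat_lit 119) (nat_lit 4) (nat_lit 457) (nat_lit 320) (nat_lit 243))) (XT.nd (nat_lit 78) (nat_lit 152) (nat_lit 0) (XT.lf (nat_lit 0) (nat_lit 77200883005) (nat_lit 76) (nat_lit 17158888483) (nat_lit 76) (nat_lit 14516621641) (nat_lit 118) (nat_lit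 4) (nat_lit 119) (nat_lit 5) (nat_lit 119) (nat_lit 4) (nat_lit 458) (nat_lit 320) (nat_lit 242)) (XT.lf (nat_lit 0) (nat_lit 23149591573) (nat_lit 152) (nat_lit 68650455643) (nat_lit 0) (nat_lit 20630420667) (nat_lit 116) (nat_lit 5) (nat_lit 118) (nat_lit 4) (nat_lit 116) (nat_lit 4) (nat_lit 459) (nat_lit 320) (nat_lit 241)))) (XT.nd (nat_lit 156) (nat_lit 228) (nat_lit 0) (XT.nd (nat_lit 78) (nat_lit 0) (nat_lit 0) (XT.lf (nat_lit 0) (nat_lit 7527833389) (nat_lit 76) (nat_lit 55550464835) (nat_lit 76) (nat_lit 53028697458) (nat_lit 115) (nat_lit 4) (nat_lit 116) (nat_lit 5) (nat_lit 116) (nat_lit 4) (nat_lit 460) (nat_lit 320) (nat_lit 240)) (XT.lf (nat_lit 0) (nat_lit 89743339989) (nat_lit 76) (nat_lit 16346953707) (nat_lit 76) (nat_lit 13822713501) (nat_lit 115) (nat_lit 4) (nat_lit 116) (nat_lit 5) (nat_lit 116) (nat_lit 4) (nat_lit 461) (nat_lit 320) (nat_lit 239))) (XT.nd (nat_lit 78)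 (nat_lit 76) (nat_lit 0) (XT.lf (nat_lit 0) (nat_lit 27633940654) (nat_lit 152) (nat_lit 70968096911) (nat_lit 0) (nat_lit 25227659433) (nat_lit 113) (nat_lit 5) (nat_lit 115) (nat_lit 4) (nat_lit 113) (nat_lit 4) (nat_lit 462) (nat_lit 320) (nat_lit 238)) (XT.lf (nat_lit 0) (nat_lit 12936121724) (nat_lit 76) (nat_lit 58678695325) (nat_lit 76) (nat_lit 56270277981) (nat_lit 112) (nat_lit 4) (nat_lit 113) (nat_lit 5) (nat_lit 113) (nat_lit 4) (nat_lit 463) (nat_lit 320) (nat_lit 237))))) (XT.nd (nat_lit 312) (nat_lit 380) (nat_lit 0) (XT.nd (nat_lit 156) (nat_lit 76) (nat_lit 0) (XT.nd (nat_lit 78) (nat_lit 152) (nat_lit 0) (XT.lf (nat_lit 0) (nat_lit 103351691580) (nat_lit 76) (nat_lit 15572768495) (nat_lit 76) (nat_lit 13162316749) (nat_lit 112) (nat_lit 4) (nat_lit 113) (nat_lit 5) (nat_lit 113) (nat_lit 4) (nat_lit 464) (nat_lit 320) (nat_lit 236)) (XT.lf (nat_lit 0) (nat_lit 32476738481) (nat_lit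 152) (nat_lit 73747363488) (nat_lit 0) (nat_lit 30179224888) (nat_lit 110) (nat_lit 5) (nat_lit 112) (nat_lit 4) (nat_lit 110) (nat_lit 4) (nat_lit 465) (nat_lit 320) (nat_lit 235))) (XT.nd (nat_lit 78) (nat_lit 0) (nat_lit 0) (XT.lf (nat_lit 0) (nat_lit 18678603265) (nat_lit 76) (nat_lit 62248499259) (nat_lit 76) (nat_lit 59949228272) (nat_lit 109) (nat_lit 4) (nat_lit 110) (nat_lit 5) (nat_lit 110) (nat_lit 4) (nat_lit 466) (nat_lit 320) (nat_lit 234)) (XT.lf (nat_lit 0) (nat_lit 118145523240) (nat_lit 76) (nat_lit 14834697300) (nat_lit 76) (nat_lit 12533752605) (nat_lit 109) (nat_lit 4) (nat_lit 110) (nat_lit 5) (nat_lit 110) (nat_lit 4) (nat_lit 467) (nat_lit 320) (nat_lit 233)))) (XT.nd (nat_lit 156) (nat_lit 152) (nat_lit 0) (XT.nd (nat_lit 78) (nat_lit 76) (nat_lit 0) (XT.lf (nat_lit 0) (nat_lit 37719659963) (nat_lit 152) (nat_lit 77025017112) (nat_lit 0) (nat_lit 35526765959) (nat_lit 107)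 (nat_lit 5) (nat_lit 109) (nat_lit 4) (nat_lit 107) (nat_lit 4) (nat_lit 468) (nat_lit 320) (nat_lit 232)) (XT.lf (nat_lit 0) (nat_lit 24799903301) (nat_lit 76) (nat_lit 66299600265) (nat_lit 76) (nat_lit 64105260450) (nat_lit 106) (nat_lit 4) (nat_lit 107) (nat_lit 5) (nat_lit 107) (nat_lit 4) (nat_lit 469) (nat_lit 320) (nat_lit 231))) (XT.nd (nat_lit 78) (nat_lit 152) (nat_lit 0) (XT.lf (nat_lit 0) (nat_lit 134256209198) (nat_lit 76) (nat_lit 14131153724) (nat_lit 76) (nat_lit 11935436945) (nat_lit 106) (nat_lit 4) (nat_lit 107) (nat_lit 5) (nat_lit 107) (nat_lit 4) (nat_lit 470) (nat_lit 320) (nat_lit 230)) (XT.lf (nat_lit 0) (nat_lit 43408396346) (nat_lit 152) (nat_lit 80842069821) (nat_lit 0) (nat_lit 41315988562) (nat_lit 104) (nat_lit 5) (nat_lit 106) (nat_lit 4) (nat_lit 104) (nat_lit 4) (nat_lit 471) (nat_lit 320) (nat_lit 229)))))) (XT.nd (nat_lit 624) (nat_lit 684) (nat_lit 0) (XT.nd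 (nat_lit 312) (nat_lit 228) (nat_lit 0) (XT.nd (nat_lit 156) (nat_lit 228) (nat_lit 0) (XT.nd (nat_lit 78) (nat_lit 0) (nat_lit 0) (XT.lf (nat_lit 0) (nat_lit 31348747439) (nat_lit 76) (nat_lit 70876018172) (nat_lit 76) (nat_lit 68782420915) (nat_lit 103) (nat_lit 4) (nat_lit 104) (nat_lit 5) (nat_lit 104) (nat_lit 4) (nat_lit 472) (nat_lit 320) (nat_lit 228)) (XT.lf (nat_lit 0) (nat_lit 151828139003) (nat_lit 76) (nat_lit 13460603276) (nat_lit 76) (nat_lit 11365873187) (nat_lit 103) (nat_lit 4) (nat_lit 104) (nat_lit 5) (nat_lit 104) (nat_lit 4) (nat_lit 473) (nat_lit 320) (nat_lit 227))) (XT.nd (nat_lit 78) (nat_lit 76) (nat_lit 0) (XT.lf (nat_lit 0) (nat_lit 49593082668) (nat_lit 152) (nat_lit 85244200263) (nat_lit 0) (nat_lit 47597074119) (nat_lit 101) (nat_lit 5) (nat_lit 103) (nat_lit 4) (nat_lit 101) (nat_lit 4) (nat_lit 474) (nat_lit 320) (nat_lit 226)) (XT.lf (nat_lit 0) (nat_lit 38378400899)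 (nat_lit 76) (nat_lit 76026505626) (nat_lit 76) (nat_lit 74029518494) (nat_lit 100) (nat_lit 4) (nat_lit 101) (nat_lit 5) (nat_lit 101) (nat_lit 4) (nat_lit 475) (nat_lit 320) (nat_lit 225)))) (XT.nd (nat_lit 156) (nat_lit 76) (nat_lit 0) (XT.nd (nat_lit 78) (nat_lit 152) (nat_lit 0) (XT.lf (nat_lit 0) (nat_lit 171020069663) (nat_lit 76) (nat_lit 12821565090) (nat_lit 76) (nat_lit 10823645975) (nat_lit 100) (nat_lit 4) (nat_lit 101) (nat_lit 5) (nat_lit 101) (nat_lit 4) (nat_lit 476) (nat_lit 320) (nat_lit 224)) (XT.lf (nat_lit 0) (nat_lit 56328767624) (nat_lit 152) (nat_lit 90282212953) (nat_lit 0) (nat_lit 54425142178) (nat_lit 98) (nat_lit 5) (nat_lit 100) (nat_lit 4) (nat_lit 98) (nat_lit 4) (nat_lit 477) (nat_lit 320) (nat_lit 223))) (XT.nd (nat_lit 78) (nat_lit 0) (nat_lit 0) (XT.lf (nat_lit 0) (nat_lit 45947152543) (nat_lit 76) (nat_lit 81805028400) (nat_lit 76) (nat_lit 79900597872) (nat_lit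 97) (nat_lit 4) (nat_lit 98) (nat_lit 5) (nat_lit 98) (nat_lit 4) (nat_lit 478) (nat_lit 320) (nat_lit 222)) (XT.lf (nat_lit 0) (nat_lit 192006616114) (nat_lit 76) (nat_lit 12212612819) (nat_lit 76) (nat_lit 10307415545) (nat_lit 97) (nat_lit 4) (nat_lit 98) (nat_lit 5) (nat_lit 98) (nat_lit 4) (nat_lit 479) (nat_lit 320) (nat_lit 221))))) (XT.nd (nat_lit 312) (nat_lit 304) (nat_lit 0) (XT.nd (nat_lit 156) (nat_lit 152) (nat_lit 0) (XT.nd (nat_lit 78) (nat_lit 76) (nat_lit 0) (XT.lf (nat_lit 0) (nat_lit 63675930388) (nat_lit 152) (nat_lit 96012544987) (nat_lit 0) (nat_lit 61860761334) (nat_lit 95) (nat_lit 5) (nat_lit 97) (nat_lit 4) (nat_lit 95) (nat_lit 4) (nat_lit 480) (nat_lit 320) (nat_lit 220)) (XT.lf (nat_lit 0) (nat_lit 54118848161) (nat_lit 76) (nat_lit 88271294158) (nat_lit 76) (nat_lit 86455462760) (nat_lit 94) (nat_lit 4) (nat_lit 95) (nat_lit 5) (nat_lit 95) (nat_lit 4) (nat_lit 481)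 (nat_lit 320) (nat_lit 219))) (XT.nd (nat_lit 78) (nat_lit 152) (nat_lit 0) (XT.lf (nat_lit 0) (nat_lit 214979894113) (nat_lit 76) (nat_lit 11632374874) (nat_lit 76) (nat_lit 9815912673) (nat_lit 94) (nat_lit 4) (nat_lit 95) (nat_lit 5) (nat_lit 95) (nat_lit 4) (nat_lit 482) (nat_lit 320) (nat_lit 218)) (XT.lf (nat_lit 0) (nat_lit 71701049347) (nat_lit 152) (nat_lit 102497825156) (nat_lit 0) (nat_lit 69970513190) (nat_lit 92) (nat_lit 5) (nat_lit 94) (nat_lit 4) (nat_lit 92) (nat_lit 4) (nat_lit 483) (nat_lit 320) (nat_lit 217)))) (XT.nd (nat_lit 156) (nat_lit 228) (nat_lit 0) (XT.nd (nat_lit 78) (nat_lit 0) (nat_lit 0) (XT.lf (nat_lit 0) (nat_lit 62963477965) (nat_lit 76) (nat_lit 95491334842) (nat_lit 76) (nat_lit 93760253773) (nat_lit 91) (nat_lit 4) (nat_lit 92) (nat_lit 5) (nat_lit 92) (nat_lit 4) (nat_lit 484) (nat_lit 320) (nat_lit 216)) (XT.lf (nat_lit 0) (nat_lit 240151331098) (nat_lit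 76) (nat_lit 11079534152) (nat_lit 76) (nat_lit 9347934121) (nat_lit 91) (nat_lit 4) (nat_lit 92) (nat_lit 5) (nat_lit 92) (nat_lit 4) (nat_lit 485) (nat_lit 320) (nat_lit 215))) (XT.nd (nat_lit 78) (nat_lit 76) (nat_lit 0) (XT.lf (nat_lit 0) (nat_lit 80477228194) (nat_lit 152) (nat_lit 109807490869) (nat_lit 0) (nat_lit 78827614591) (nat_lit 89) (nat_lit 5) (nat_lit 91) (nat_lit 4) (nat_lit 89) (nat_lit 4) (nat_lit 486) (nat_lit 320) (nat_lit 214)) (XT.nd (nat_lit 78) (nat_lit 0) (nat_lit 0) (XT.lf (nat_lit 0) (nat_lit 72557823796) (nat_lit 76) (nat_lit 103538148373) (nat_lit 76) (nat_lit 101888086470) (nat_lit 88) (nat_lit 4) (nat_lit 89) (nat_lit 5) (nat_lit 89) (nat_lit 4) (nat_lit 487) (nat_lit 320) (nat_lit 213)) (XT.lf (nat_lit 0) (nat_lit 267753662191) (nat_lit 76) (nat_lit 10552827363) (nat_lit 76) (nat_lit 8902338508) (nat_lit 88) (nat_lit 4) (nat_lit 89) (nat_lit 5) (nat_lit 89) (nat_lit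 4) (nat_lit 488) (nat_lit 320) (nat_lit 212))))))))
noncomputable def xc74 : XT := (XT.nd (nat_lit 46410) (nat_lit 0) (nat_lit 4788) (XT.nd (nat_lit 45162) (nat_lit 0) (nat_lit 7524) (XT.nd (nat_lit 44538) (nat_lit 0) (nat_lit 9348) (XT.nd (nat_lit 312) (nat_lit 228) (nat_lit 0) (XT.nd (nat_lit 156) (nat_lit 152) (nat_lit 0) (XT.nd (nat_lit 78) (nat_lit 76) (nat_lit 0) (XT.lf (nat_lit 0) (nat_lit 90084885370) (nat_lit 152) (nat_lit 118018468870) (nat_lit 0) (nat_lit 88512603965) (nat_lit 86) (nat_lit 5) (nat_lit 88) (nat_lit 4) (nat_lit 86) (nat_lit 4) (nat_lit 489) (nat_lit 320) (nat_lit 211)) (XT.lf (nat_lit 0) (nat_lit 82986172136) (nat_lit 76) (nat_lit 112492405859) (nat_lit 76) (nat_lit 110919755636) (nat_lit 85) (nat_lit 4) (nat_lit 86) (nat_lit 5) (nat_lit 86) (nat_lit 4) (nat_lit 490) (nat_lit 320) (nat_lit 210))) (XT.nd (nat_lit 78) (nat_lit 152) (nat_lit 0) (XT.lf (nat_lit 0) (nat_lit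 298043130271) (nat_lit 76) (nat_lit 10051044041) (nat_lit 76) (nat_lit 8478042563) (nat_lit 85) (nat_lit 4) (nat_lit 86) (nat_lit 5) (nat_lit 86) (nat_lit 4) (nat_lit 491) (nat_lit 320) (nat_lit 209)) (XT.lf (nat_lit 0) (nat_lit 100612513446) (nat_lit 152) (nat_lit 127215926303) (nat_lit 0) (nat_lit 99114098202) (nat_lit 83) (nat_lit 5) (nat_lit 85) (nat_lit 4) (nat_lit 83) (nat_lit 4) (nat_lit 492) (nat_lit 320) (nat_lit 208)))) (XT.nd (nat_lit 156) (nat_lit 152) (nat_lit 0) (XT.nd (nat_lit 78) (nat_lit 0) (nat_lit 0) (XT.lf (nat_lit 0) (nat_lit 94341099637) (nat_lit 76) (nat_lit 122443231165) (nat_lit 76) (nat_lit 120944512494) (nat_lit 82) (nat_lit 4) (nat_lit 83) (nat_lit 5) (nat_lit 83) (nat_lit 4) (nat_lit 493) (nat_lit 320) (nat_lit 207)) (XT.lf (nat_lit 0) (nat_lit 331301911023) (nat_lit 76) (nat_lit 9573025334) (nat_lit 76) (nat_lit 8074017685) (nat_lit 82) (nat_lit 4) (nat_lit 83) (nat_lit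 5) (nat_lit 83) (nat_lit 4) (nat_lit 494) (nat_lit 320) (nat_lit 206))) (XT.nd (nat_lit 43992) (nat_lit 0) (nat_lit 10488) (XT.lf (nat_lit 0) (nat_lit 112157515674) (nat_lit 152) (nat_lit 137494099347) (nat_lit 0) (nat_lit 110729627229) (nat_lit 80) (nat_lit 5) (nat_lit 82) (nat_lit 4) (nat_lit 80) (nat_lit 4) (nat_lit 495) (nat_lit 320) (nat_lit 205)) (XT.lf (nat_lit 0) (nat_lit 1870917334) (nat_lit 152) (nat_lit 1732605415) (nat_lit 152) (nat_lit 1732605415) (nat_lit 218) (nat_lit 4) (nat_lit 220) (nat_lit 5) (nat_lit 220) (nat_lit 4) (nat_lit 378) (nat_lit 321) (nat_lit 321))))) (XT.nd (nat_lit 312) (nat_lit 456) (nat_lit 0) (XT.nd (nat_lit 156) (nat_lit 304) (nat_lit 0) (XT.nd (nat_lit 78) (nat_lit 152) (nat_lit 0) (XT.lf (nat_lit 0) (nat_lit 1881962657) (nat_lit 228) (nat_lit 7727903254) (nat_lit 0) (nat_lit 1297985772) (nat_lit 215) (nat_lit 5) (nat_lit 218) (nat_lit 4) (nat_lit 215) (nat_lit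 4) (nat_lit 379) (nat_lit 321) (nat_lit 320)) (XT.lf (nat_lit 0) (nat_lit 2509059798) (nat_lit 152) (nat_lit 4891229795) (nat_lit 152) (nat_lit 3751084448) (nat_lit 213) (nat_lit 4) (nat_lit 215) (nat_lit 5) (nat_lit 215) (nat_lit 4) (nat_lit 380) (nat_lit 321) (nat_lit 319))) (XT.nd (nat_lit 78) (nat_lit 152) (nat_lit 0) (XT.lf (nat_lit 0) (nat_lit 1699147867) (nat_lit 152) (nat_lit 9599250451) (nat_lit 0) (nat_lit 108833965) (nat_lit 211) (nat_lit 5) (nat_lit 213) (nat_lit 4) (nat_lit 211) (nat_lit 4) (nat_lit 381) (nat_lit 321) (nat_lit 318)) (XT.lf (nat_lit 0) (nat_lit 953365468) (nat_lit 152) (nat_lit 6393814490) (nat_lit 152) (nat_lit 4323061360) (nat_lit 209) (nat_lit 4) (nat_lit 211) (nat_lit 5) (nat_lit 211) (nat_lit 4) (nat_lit 382) (nat_lit 321) (nat_lit 317)))) (XT.nd (nat_lit 156) (nat_lit 304) (nat_lit 0) (XT.nd (nat_lit 78) (nat_lit 0) (nat_lit 0) (XT.lf (nat_lit 0) (nat_lit 60998003)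 (nat_lit 76) (nat_lit 1202081168) (nat_lit 152) (nat_lit 10683558763) (nat_lit 207) (nat_lit 5) (nat_lit 208) (nat_lit 5) (nat_lit 209) (nat_lit 4) (nat_lit 383) (nat_lit 321) (nat_lit 316)) (XT.lf (nat_lit 0) (nat_lit 7043774574) (nat_lit 152) (nat_lit 965675038) (nat_lit 0) (nat_lit 4220834724) (nat_lit 207) (nat_lit 5) (nat_lit 209) (nat_lit 4) (nat_lit 207) (nat_lit 4) (nat_lit 384) (nat_lit 321) (nat_lit 315))) (XT.nd (nat_lit 78) (nat_lit 76) (nat_lit 0) (XT.lf (nat_lit 0) (nat_lit 568879492) (nat_lit 228) (nat_lit 2051995432) (nat_lit 76) (nat_lit 9906669953) (nat_lit 204) (nat_lit 5) (nat_lit 207) (nat_lit 5) (nat_lit 205) (nat_lit 4) (nat_lit 385) (nat_lit 321) (nat_lit 314)) (XT.lf (nat_lit 0) (nat_lit 6472408839) (nat_lit 152) (nat_lit 3312327962) (nat_lit 0) (nat_lit 3048946839) (nat_lit 203) (nat_lit 5) (nat_lit 205) (nat_lit 4) (nat_lit 203) (nat_lit 4) (nat_lit 386) (nat_lit 321)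 (nat_lit 313)))))) (XT.nd (nat_lit 624) (nat_lit 760) (nat_lit 0) (XT.nd (nat_lit 312) (nat_lit 456) (nat_lit 0) (XT.nd (nat_lit 156) (nat_lit 304) (nat_lit 0) (XT.nd (nat_lit 78) (nat_lit 152) (nat_lit 0) (XT.lf (nat_lit 0) (nat_lit 8486511538) (nat_lit 152) (nat_lit 4215975194) (nat_lit 152) (nat_lit 451074005) (nat_lit 201) (nat_lit 4) (nat_lit 203) (nat_lit 5) (nat_lit 203) (nat_lit 4) (nat_lit 387) (nat_lit 321) (nat_lit 312)) (XT.lf (nat_lit 0) (nat_lit 5590123808) (nat_lit 152) (nat_lit 6199023800) (nat_lit 0) (nat_lit 1694808217) (nat_lit 199) (nat_lit 5) (nat_lit 201) (nat_lit 4) (nat_lit 199) (nat_lit 4) (nat_lit 388) (nat_lit 321) (nat_lit 311))) (XT.nd (nat_lit 78) (nat_lit 152) (nat_lit 0) (XT.lf (nat_lit 0) (nat_lit 5947825217) (nat_lit 152) (nat_lit 6034858136) (nat_lit 152) (nat_lit 1844594535) (nat_lit 197) (nat_lit 4) (nat_lit 199) (nat_lit 5) (nat_lit 199) (nat_lit 4) (nat_lit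 389) (nat_lit 321) (nat_lit 310)) (XT.lf (nat_lit 0) (nat_lit 4363679234) (nat_lit 152) (nat_lit 9715101442) (nat_lit 0) (nat_lit 105425456) (nat_lit 195) (nat_lit 5) (nat_lit 197) (nat_lit 4) (nat_lit 195) (nat_lit 4) (nat_lit 390) (nat_lit 321) (nat_lit 309)))) (XT.nd (nat_lit 156) (nat_lit 152) (nat_lit 0) (XT.nd (nat_lit 78) (nat_lit 152) (nat_lit 0) (XT.lf (nat_lit 0) (nat_lit 2778188219) (nat_lit 152) (nat_lit 8143624861) (nat_lit 152) (nat_lit 3630583903) (nat_lit 193) (nat_lit 4) (nat_lit 195) (nat_lit 5) (nat_lit 195) (nat_lit 4) (nat_lit 391) (nat_lit 321) (nat_lit 308)) (XT.lf (nat_lit 0) (nat_lit 949439759) (nat_lit 76) (nat_lit 1833553009) (nat_lit 152) (nat_lit 12153467173) (nat_lit 191) (nat_lit 5) (nat_lit 192) (nat_lit 5) (nat_lit 193) (nat_lit 4) (nat_lit 392) (nat_lit 321) (nat_lit 307))) (XT.nd (nat_lit 78) (nat_lit 152) (nat_lit 0) (XT.lf (nat_lit 0) (nat_lit 9497389980) (nat_lit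 152) (nat_lit 1086191018) (nat_lit 0) (nat_lit 4748061503) (nat_lit 191) (nat_lit 5) (nat_lit 193) (nat_lit 4) (nat_lit 191) (nat_lit 4) (nat_lit 393) (nat_lit 321) (nat_lit 306)) (XT.lf (nat_lit 0) (nat_lit 834621262) (nat_lit 152) (nat_lit 3247968932) (nat_lit 76) (nat_lit 11660402116) (nat_lit 189) (nat_lit 5) (nat_lit 191) (nat_lit 5) (nat_lit 190) (nat_lit 4) (nat_lit 394) (nat_lit 321) (nat_lit 305))))) (XT.nd (nat_lit 312) (nat_lit 380) (nat_lit 0) (XT.nd (nat_lit 156) (nat_lit 228) (nat_lit 0) (XT.nd (nat_lit 78) (nat_lit 76) (nat_lit 0) (XT.lf (nat_lit 0) (nat_lit 7702455672) (nat_lit 152) (nat_lit 5675065303) (nat_lit 0) (nat_lit 2789527155) (nat_lit 188) (nat_lit 5) (nat_lit 190) (nat_lit 4) (nat_lit 188) (nat_lit 4) (nat_lit 395) (nat_lit 321) (nat_lit 304)) (XT.lf (nat_lit 0) (nat_lit 8298106018) (nat_lit 76) (nat_lit 6701941719) (nat_lit 76) (nat_lit 1607940709) (nat_lit 187) (nat_lit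 4) (nat_lit 188) (nat_lit 5) (nat_lit 188) (nat_lit 4) (nat_lit 396) (nat_lit 321) (nat_lit 303))) (XT.nd (nat_lit 78) (nat_lit 76) (nat_lit 0) (XT.lf (nat_lit 0) (nat_lit 5443195612) (nat_lit 152) (nat_lit 11194356376) (nat_lit 0) (nat_lit 427527991) (nat_lit 185) (nat_lit 5) (nat_lit 187) (nat_lit 4) (nat_lit 185) (nat_lit 4) (nat_lit 397) (nat_lit 321) (nat_lit 302)) (XT.lf (nat_lit 0) (nat_lit 3150551243) (nat_lit 76) (nat_lit 9779198398) (nat_lit 76) (nat_lit 4607113550) (nat_lit 184) (nat_lit 4) (nat_lit 185) (nat_lit 5) (nat_lit 185) (nat_lit 4) (nat_lit 398) (nat_lit 321) (nat_lit 301)))) (XT.nd (nat_lit 156) (nat_lit 228) (nat_lit 0) (XT.nd (nat_lit 78) (nat_lit 0) (nat_lit 0) (XT.lf (nat_lit 0) (nat_lit 216472300) (nat_lit 76) (nat_lit 2484759863) (nat_lit 152) (nat_lit 15327293975) (nat_lit 182) (nat_lit 5) (nat_lit 183) (nat_lit 5) (nat_lit 184) (nat_lit 4) (nat_lit 399) (nat_lit 321)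 (nat_lit 300)) (XT.lf (nat_lit 0) (nat_lit 10384104281) (nat_lit 152) (nat_lit 2967379642) (nat_lit 0) (nat_lit 5181315070) (nat_lit 182) (nat_lit 5) (nat_lit 184) (nat_lit 4) (nat_lit 182) (nat_lit 4) (nat_lit 400) (nat_lit 321) (nat_lit 299))) (XT.nd (nat_lit 78) (nat_lit 152) (nat_lit 0) (XT.lf (nat_lit 0) (nat_lit 12676583415) (nat_lit 76) (nat_lit 5856538027) (nat_lit 76) (nat_lit 525063976) (nat_lit 181) (nat_lit 4) (nat_lit 182) (nat_lit 5) (nat_lit 182) (nat_lit 4) (nat_lit 401) (nat_lit 321) (nat_lit 298)) (XT.lf (nat_lit 0) (nat_lit 7317170247) (nat_lit 152) (nat_lit 10160135926) (nat_lit 0) (nat_lit 2122854970) (nat_lit 179) (nat_lit 5) (nat_lit 181) (nat_lit 4) (nat_lit 179) (nat_lit 4) (nat_lit 402) (nat_lit 321) (nat_lit 297))))))) (XT.nd (nat_lit 1248) (nat_lit 1368) (nat_lit 0) (XT.nd (nat_lit 624) (nat_lit 684) (nat_lit 0) (XT.nd (nat_lit 312) (nat_lit 380) (nat_lit 0) (XT.nd (nat_lit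 156) (nat_lit 76) (nat_lit 0) (XT.nd (nat_lit 78) (nat_lit 152) (nat_lit 0) (XT.lf (nat_lit 0) (nat_lit 5883859038) (nat_lit 76) (nat_lit 9791670679) (nat_lit 76) (nat_lit 4486192599) (nat_lit 178) (nat_lit 4) (nat_lit 179) (nat_lit 5) (nat_lit 179) (nat_lit 4) (nat_lit 403) (nat_lit 321) (nat_lit 296)) (XT.lf (nat_lit 0) (nat_lit 2035890983) (nat_lit 76) (nat_lit 1596908235) (nat_lit 152) (nat_lit 17113134066) (nat_lit 176) (nat_lit 5) (nat_lit 177) (nat_lit 5) (nat_lit 178) (nat_lit 4) (nat_lit 404) (nat_lit 321) (nat_lit 295))) (XT.nd (nat_lit 78) (nat_lit 76) (nat_lit 0) (XT.lf (nat_lit 0) (nat_lit 12206598001) (nat_lit 152) (nat_lit 2182191263) (nat_lit 0) (nat_lit 6956907186) (nat_lit 176) (nat_lit 5) (nat_lit 178) (nat_lit 4) (nat_lit 176) (nat_lit 4) (nat_lit 405) (nat_lit 321) (nat_lit 294)) (XT.lf (nat_lit 0) (nat_lit 15342610524) (nat_lit 76) (nat_lit 5984051604) (nat_lit 76) (nat_lit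 642906876) (nat_lit 175) (nat_lit 4) (nat_lit 176) (nat_lit 5) (nat_lit 176) (nat_lit 4) (nat_lit 406) (nat_lit 321) (nat_lit 293)))) (XT.nd (nat_lit 156) (nat_lit 152) (nat_lit 0) (XT.nd (nat_lit 78) (nat_lit 76) (nat_lit 0) (XT.lf (nat_lit 0) (nat_lit 8124105344) (nat_lit 152) (nat_lit 11534170092) (nat_lit 0) (nat_lit 2954349447) (nat_lit 173) (nat_lit 5) (nat_lit 175) (nat_lit 4) (nat_lit 173) (nat_lit 4) (nat_lit 407) (nat_lit 321) (nat_lit 292)) (XT.lf (nat_lit 0) (nat_lit 6417159591) (nat_lit 76) (nat_lit 11055336270) (nat_lit 76) (nat_lit 5806579044) (nat_lit 172) (nat_lit 4) (nat_lit 173) (nat_lit 5) (nat_lit 173) (nat_lit 4) (nat_lit 408) (nat_lit 321) (nat_lit 291))) (XT.nd (nat_lit 78) (nat_lit 0) (nat_lit 0) (XT.lf (nat_lit 0) (nat_lit 1392236356) (nat_lit 76) (nat_lit 1883974835) (nat_lit 152) (nat_lit 20696418939) (nat_lit 170) (nat_lit 5) (nat_lit 171) (nat_lit 5) (nat_lit 172)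 (nat_lit 4) (nat_lit 409) (nat_lit 321) (nat_lit 290)) (XT.lf (nat_lit 0) (nat_lit 12881819381) (nat_lit 152) (nat_lit 4057991241) (nat_lit 0) (nat_lit 7743102123) (nat_lit 170) (nat_lit 5) (nat_lit 172) (nat_lit 4) (nat_lit 170) (nat_lit 4) (nat_lit 410) (nat_lit 321) (nat_lit 289))))) (XT.nd (nat_lit 312) (nat_lit 304) (nat_lit 0) (XT.nd (nat_lit 156) (nat_lit 152) (nat_lit 0) (XT.nd (nat_lit 78) (nat_lit 152) (nat_lit 0) (XT.lf (nat_lit 0) (nat_lit 15577163254) (nat_lit 76) (nat_lit 7524285523) (nat_lit 76) (nat_lit 2320573676) (nat_lit 169) (nat_lit 4) (nat_lit 170) (nat_lit 5) (nat_lit 170) (nat_lit 4) (nat_lit 411) (nat_lit 321) (nat_lit 288)) (XT.lf (nat_lit 0) (nat_lit 7516674472) (nat_lit 152) (nat_lit 16167295506) (nat_lit 0) (nat_lit 2501806420) (nat_lit 167) (nat_lit 5) (nat_lit 169) (nat_lit 4) (nat_lit 167) (nat_lit 4) (nat_lit 412) (nat_lit 321) (nat_lit 287))) (XT.nd (nat_lit 78)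 (nat_lit 76) (nat_lit 0) (XT.lf (nat_lit 0) (nat_lit 3917304182) (nat_lit 76) (nat_lit 14064414287) (nat_lit 76) (nat_lit 8993401465) (nat_lit 166) (nat_lit 4) (nat_lit 167) (nat_lit 5) (nat_lit 167) (nat_lit 4) (nat_lit 413) (nat_lit 321) (nat_lit 286)) (XT.lf (nat_lit 0) (nat_lit 1267091611) (nat_lit 152) (nat_lit 2526946226) (nat_lit 76) (nat_lit 24002066039) (nat_lit 165) (nat_lit 5) (nat_lit 167) (nat_lit 5) (nat_lit 166) (nat_lit 4) (nat_lit 414) (nat_lit 321) (nat_lit 285)))) (XT.nd (nat_lit 156) (nat_lit 152) (nat_lit 0) (XT.nd (nat_lit 78) (nat_lit 76) (nat_lit 0) (XT.lf (nat_lit 0) (nat_lit 12019685326) (nat_lit 152) (nat_lit 9526290003) (nat_lit 0) (nat_lit 7090724382) (nat_lit 164) (nat_lit 5) (nat_lit 166) (nat_lit 4) (nat_lit 164) (nat_lit 4) (nat_lit 415) (nat_lit 321) (nat_lit 284)) (XT.lf (nat_lit 0) (nat_lit 12468142815) (nat_lit 76) (nat_lit 11008986442) (nat_lit 76) (nat_lit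 6033835057) (nat_lit 163) (nat_lit 4) (nat_lit 164) (nat_lit 5) (nat_lit 164) (nat_lit 4) (nat_lit 416) (nat_lit 321) (nat_lit 283))) (XT.nd (nat_lit 78) (nat_lit 0) (nat_lit 0) (XT.lf (nat_lit 0) (nat_lit 5033574203) (nat_lit 152) (nat_lit 25132084024) (nat_lit 0) (nat_lit 253438697) (nat_lit 161) (nat_lit 5) (nat_lit 163) (nat_lit 4) (nat_lit 161) (nat_lit 4) (nat_lit 417) (nat_lit 321) (nat_lit 282)) (XT.lf (nat_lit 0) (nat_lit 16792488019) (nat_lit 152) (nat_lit 2585705378) (nat_lit 0) (nat_lit 11972451475) (nat_lit 161) (nat_lit 5) (nat_lit 163) (nat_lit 4) (nat_lit 161) (nat_lit 4) (nat_lit 418) (nat_lit 321) (nat_lit 281)))))) (XT.nd (nat_lit 624) (nat_lit 684) (nat_lit 0) (XT.nd (nat_lit 312) (nat_lit 304) (nat_lit 0) (XT.nd (nat_lit 156) (nat_lit 152) (nat_lit 0) (XT.nd (nat_lit 78) (nat_lit 152) (nat_lit 0) (XT.lf (nat_lit 0) (nat_lit 21521179778) (nat_lit 76) (nat_lit 7827578712) (nat_lit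 76) (nat_lit 2969541178) (nat_lit 160) (nat_lit 4) (nat_lit 161) (nat_lit 5) (nat_lit 161) (nat_lit 4) (nat_lit 419) (nat_lit 321) (nat_lit 280)) (XT.lf (nat_lit 0) (nat_lit 9106527144) (nat_lit 152) (nat_lit 19765151053) (nat_lit 0) (nat_lit 4445356712) (nat_lit 158) (nat_lit 5) (nat_lit 160) (nat_lit 4) (nat_lit 158) (nat_lit 4) (nat_lit 420) (nat_lit 321) (nat_lit 279))) (XT.nd (nat_lit 78) (nat_lit 76) (nat_lit 0) (XT.lf (nat_lit 0) (nat_lit 4856257753) (nat_lit 76) (nat_lit 17093916818) (nat_lit 76) (nat_lit 12399919703) (nat_lit 157) (nat_lit 4) (nat_lit 158) (nat_lit 5) (nat_lit 158) (nat_lit 4) (nat_lit 421) (nat_lit 321) (nat_lit 278)) (XT.lf (nat_lit 0) (nat_lit 215010698) (nat_lit 152) (nat_lit 4284488692) (nat_lit 76) (nat_lit 30924613718) (nat_lit 156) (nat_lit 5) (nat_lit 158) (nat_lit 5) (nat_lit 157) (nat_lit 4) (nat_lit 422) (nat_lit 321) (nat_lit 277)))) (XT.nd (nat_lit 156) (nat_lit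 152) (nat_lit 0) (XT.nd (nat_lit 78) (nat_lit 76) (nat_lit 0) (XT.lf (nat_lit 0) (nat_lit 13417608087) (nat_lit 152) (nat_lit 14216376024) (nat_lit 0) (nat_lit 8889002950) (nat_lit 155) (nat_lit 5) (nat_lit 157) (nat_lit 4) (nat_lit 155) (nat_lit 4) (nat_lit 423) (nat_lit 321) (nat_lit 276)) (XT.lf (nat_lit 0) (nat_lit 12793599448) (nat_lit 76) (nat_lit 14713733557) (nat_lit 76) (nat_lit 10158121826) (nat_lit 154) (nat_lit 4) (nat_lit 155) (nat_lit 5) (nat_lit 155) (nat_lit 4) (nat_lit 424) (nat_lit 321) (nat_lit 275))) (XT.nd (nat_lit 78) (nat_lit 0) (nat_lit 0) (XT.lf (nat_lit 0) (nat_lit 2575659284) (nat_lit 76) (nat_lit 915556121) (nat_lit 152) (nat_lit 35362912583) (nat_lit 152) (nat_lit 5) (nat_lit 153) (nat_lit 5) (nat_lit 154) (nat_lit 4) (nat_lit 425) (nat_lit 321) (nat_lit 274)) (XT.lf (nat_lit 0) (nat_lit 18001532946) (nat_lit 152) (nat_lit 8451350861) (nat_lit 0) (nat_lit 13615030019)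 (nat_lit 152) (nat_lit 5) (nat_lit 154) (nat_lit 4) (nat_lit 152) (nat_lit 4) (nat_lit 426) (nat_lit 321) (nat_lit 273))))) (XT.nd (nat_lit 312) (nat_lit 380) (nat_lit 0) (XT.nd (nat_lit 156) (nat_lit 76) (nat_lit 0) (XT.nd (nat_lit 78) (nat_lit 152) (nat_lit 0) (XT.lf (nat_lit 0) (nat_lit 21198321745) (nat_lit 76) (nat_lit 12270605249) (nat_lit 76) (nat_lit 7861883930) (nat_lit 151) (nat_lit 4) (nat_lit 152) (nat_lit 5) (nat_lit 152) (nat_lit 4) (nat_lit 427) (nat_lit 321) (nat_lit 272)) (XT.lf (nat_lit 0) (nat_lit 7059325008) (nat_lit 152) (nat_lit 32740020978) (nat_lit 0) (nat_lit 2840390063) (nat_lit 149) (nat_lit 5) (nat_lit 151) (nat_lit 4) (nat_lit 149) (nat_lit 4) (nat_lit 428) (nat_lit 321) (nat_lit 271))) (XT.nd (nat_lit 78) (nat_lit 76) (nat_lit 0) (XT.lf (nat_lit 0) (nat_lit 22895771823) (nat_lit 152) (nat_lit 2432578230) (nat_lit 0) (nat_lit 18657643796) (nat_lit 149) (nat_lit 5) (nat_lit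 151) (nat_lit 4) (nat_lit 149) (nat_lit 4) (nat_lit 429) (nat_lit 321) (nat_lit 270)) (XT.lf (nat_lit 0) (nat_lit 30133386185) (nat_lit 76) (nat_lit 9752252803) (nat_lit 76) (nat_lit 5495845650) (nat_lit 148) (nat_lit 4) (nat_lit 149) (nat_lit 5) (nat_lit 149) (nat_lit 4) (nat_lit 430) (nat_lit 321) (nat_lit 269)))) (XT.nd (nat_lit 156) (nat_lit 152) (nat_lit 0) (XT.nd (nat_lit 78) (nat_lit 76) (nat_lit 0) (XT.lf (nat_lit 0) (nat_lit 10849477254) (nat_lit 152) (nat_lit 29193634283) (nat_lit 0) (nat_lit 6779176450) (nat_lit 146) (nat_lit 5) (nat_lit 148) (nat_lit 4) (nat_lit 146) (nat_lit 4) (nat_lit 431) (nat_lit 321) (nat_lit 268)) (XT.lf (nat_lit 0) (nat_lit 4009127500) (nat_lit 76) (nat_lit 24194391381) (nat_lit 76) (nat_lit 20108300381) (nat_lit 145) (nat_lit 4) (nat_lit 146) (nat_lit 5) (nat_lit 146) (nat_lit 4) (nat_lit 432) (nat_lit 321) (nat_lit 267))) (XT.nd (nat_lit 78) (nat_lit 152)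 (nat_lit 0) (XT.lf (nat_lit 0) (nat_lit 39667744593) (nat_lit 76) (nat_lit 7144920824) (nat_lit 76) (nat_lit 3043791541) (nat_lit 145) (nat_lit 4) (nat_lit 146) (nat_lit 5) (nat_lit 146) (nat_lit 4) (nat_lit 433) (nat_lit 321) (nat_lit 266)) (XT.lf (nat_lit 0) (nat_lit 14877298035) (nat_lit 152) (nat_lit 25607626133) (nat_lit 0) (nat_lit 10957820458) (nat_lit 143) (nat_lit 5) (nat_lit 145) (nat_lit 4) (nat_lit 143) (nat_lit 4) (nat_lit 434) (nat_lit 321) (nat_lit 265))))))))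
noncomputable def xc75 : XT := (XT.nd (nat_lit 1248) (nat_lit 1292) (nat_lit 0) (XT.nd (nat_lit 624) (nat_lit 532) (nat_lit 0) (XT.nd (nat_lit 312) (nat_lit 380) (nat_lit 0) (XT.nd (nat_lit 156) (nat_lit 228) (nat_lit 0) (XT.nd (nat_lit 78) (nat_lit 0) (nat_lit 0) (XT.lf (nat_lit 0) (nat_lit 10881658025) (nat_lit 76) (nat_lit 23069359310) (nat_lit 76) (nat_lit 19136891100) (nat_lit 142) (nat_lit 4) (nat_lit 143) (nat_lit 5) (nat_lit 143) (nat_lit 4) (nat_lit 435) (nat_lit 321) (nat_lit 264)) (XT.lf (nat_lit 0) (nat_lit 49876930175) (nat_lit 76) (nat_lit 4433324450) (nat_lit 76) (nat_lit 488484208) (nat_lit 142) (nat_lit 4) (nat_lit 143) (nat_lit 5) (nat_lit 143) (nat_lit 4) (nat_lit 436) (nat_lit 321) (nat_lit 263))) (XT.nd (nat_lit 78) (nat_lit 76) (nat_lit 0) (XT.lf (nat_lit 0) (nat_lit 19175180494) (nat_lit 152) (nat_lit 21963362435) (nat_lit 0) (nat_lit 15406967990) (nat_lit 140) (nat_lit 5)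 (nat_lit 142) (nat_lit 4) (nat_lit 140) (nat_lit 4) (nat_lit 437) (nat_lit 321) (nat_lit 262)) (XT.lf (nat_lit 0) (nat_lit 18154809049) (nat_lit 76) (nat_lit 21993098658) (nat_lit 76) (nat_lit 18214198727) (nat_lit 139) (nat_lit 4) (nat_lit 140) (nat_lit 5) (nat_lit 140) (nat_lit 4) (nat_lit 438) (nat_lit 321) (nat_lit 261)))) (XT.nd (nat_lit 156) (nat_lit 228) (nat_lit 0) (XT.nd (nat_lit 78) (nat_lit 0) (nat_lit 0) (XT.lf (nat_lit 0) (nat_lit 572078759) (nat_lit 76) (nat_lit 1555314992) (nat_lit 152) (nat_lit 58126232075) (nat_lit 137) (nat_lit 5) (nat_lit 138) (nat_lit 5) (nat_lit 139) (nat_lit 4) (nat_lit 439) (nat_lit 321) (nat_lit 260)) (XT.lf (nat_lit 0) (nat_lit 23778304869) (nat_lit 152) (nat_lit 18240842328) (nat_lit 0) (nat_lit 20160426543) (nat_lit 137) (nat_lit 5) (nat_lit 139) (nat_lit 4) (nat_lit 137) (nat_lit 4) (nat_lit 440) (nat_lit 321) (nat_lit 259))) (XT.nd (nat_lit 78) (nat_lit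 152) (nat_lit 0) (XT.lf (nat_lit 0) (nat_lit 25883423389) (nat_lit 76) (nat_lit 20964138276) (nat_lit 76) (nat_lit 17337467378) (nat_lit 136) (nat_lit 4) (nat_lit 137) (nat_lit 5) (nat_lit 137) (nat_lit 4) (nat_lit 441) (nat_lit 321) (nat_lit 258)) (XT.lf (nat_lit 0) (nat_lit 4972728380) (nat_lit 152) (nat_lit 59786207729) (nat_lit 0) (nat_lit 1510780974) (nat_lit 134) (nat_lit 5) (nat_lit 136) (nat_lit 4) (nat_lit 134) (nat_lit 4) (nat_lit 442) (nat_lit 321) (nat_lit 257))))) (XT.nd (nat_lit 312) (nat_lit 304) (nat_lit 0) (XT.nd (nat_lit 156) (nat_lit 152) (nat_lit 0) (XT.nd (nat_lit 78) (nat_lit 76) (nat_lit 0) (XT.lf (nat_lit 0) (nat_lit 28724976279) (nat_lit 152) (nat_lit 14418558941) (nat_lit 0) (nat_lit 25255433518) (nat_lit 134) (nat_lit 5) (nat_lit 136) (nat_lit 4) (nat_lit 134) (nat_lit 4) (nat_lit 443) (nat_lit 321) (nat_lit 256)) (XT.lf (nat_lit 0) (nat_lit 34127431096) (nat_lit 76)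 (nat_lit 19980926139) (nat_lit 76) (nat_lit 16504149708) (nat_lit 133) (nat_lit 4) (nat_lit 134) (nat_lit 5) (nat_lit 134) (nat_lit 4) (nat_lit 444) (nat_lit 321) (nat_lit 255))) (XT.nd (nat_lit 78) (nat_lit 0) (nat_lit 0) (XT.lf (nat_lit 0) (nat_lit 8007791948) (nat_lit 152) (nat_lit 60211105614) (nat_lit 0) (nat_lit 4690015146) (nat_lit 131) (nat_lit 5) (nat_lit 133) (nat_lit 4) (nat_lit 131) (nat_lit 4) (nat_lit 445) (nat_lit 321) (nat_lit 254)) (XT.lf (nat_lit 0) (nat_lit 34056989920) (nat_lit 152) (nat_lit 10473341104) (nat_lit 0) (nat_lit 30732964402) (nat_lit 131) (nat_lit 5) (nat_lit 133) (nat_lit 4) (nat_lit 131) (nat_lit 4) (nat_lit 446) (nat_lit 321) (nat_lit 253)))) (XT.nd (nat_lit 156) (nat_lit 76) (nat_lit 0) (XT.nd (nat_lit 78) (nat_lit 152) (nat_lit 0) (XT.lf (nat_lit 0) (nat_lit 42952374707) (nat_lit 76) (nat_lit 19041859953) (nat_lit 76) (nat_lit 15711883275) (nat_lit 130) (nat_lit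 4) (nat_lit 131) (nat_lit 5) (nat_lit 131) (nat_lit 4) (nat_lit 447) (nat_lit 321) (nat_lit 252)) (XT.lf (nat_lit 0) (nat_lit 11231796857) (nat_lit 152) (nat_lit 60949238443) (nat_lit 0) (nat_lit 8054992621) (nat_lit 128) (nat_lit 5) (nat_lit 130) (nat_lit 4) (nat_lit 128) (nat_lit 4) (nat_lit 448) (nat_lit 321) (nat_lit 251))) (XT.nd (nat_lit 78) (nat_lit 76) (nat_lit 0) (XT.lf (nat_lit 0) (nat_lit 39820027657) (nat_lit 152) (nat_lit 6380175121) (nat_lit 0) (nat_lit 36638082586) (nat_lit 128) (nat_lit 5) (nat_lit 130) (nat_lit 4) (nat_lit 128) (nat_lit 4) (nat_lit 449) (nat_lit 321) (nat_lit 250)) (XT.lf (nat_lit 0) (nat_lit 52429991980) (nat_lit 76) (nat_lit 18145311564) (nat_lit 76) (nat_lit 14958470460) (nat_lit 127) (nat_lit 4) (nat_lit 128) (nat_lit 5) (nat_lit 128) (nat_lit 4) (nat_lit 450) (nat_lit 321) (nat_lit 249)))))) (XT.nd (nat_lit 624) (nat_lit 608) (nat_lit 0) (XT.nd (nat_lit 312)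 (nat_lit 304) (nat_lit 0) (XT.nd (nat_lit 156) (nat_lit 228) (nat_lit 0) (XT.nd (nat_lit 78) (nat_lit 0) (nat_lit 0) (XT.lf (nat_lit 0) (nat_lit 14670262808) (nat_lit 152) (nat_lit 62020207176) (nat_lit 0) (nat_lit 11630735196) (nat_lit 125) (nat_lit 5) (nat_lit 127) (nat_lit 4) (nat_lit 125) (nat_lit 4) (nat_lit 451) (nat_lit 321) (nat_lit 248)) (XT.lf (nat_lit 0) (nat_lit 46064090207) (nat_lit 152) (nat_lit 2112005438) (nat_lit 0) (nat_lit 43020333218) (nat_lit 125) (nat_lit 5) (nat_lit 127) (nat_lit 4) (nat_lit 125) (nat_lit 4) (nat_lit 452) (nat_lit 321) (nat_lit 247))) (XT.nd (nat_lit 78) (nat_lit 152) (nat_lit 0) (XT.lf (nat_lit 0) (nat_lit 62638861162) (nat_lit 76) (nat_lit 17289646307) (nat_lit 76) (nat_lit 14241861339) (nat_lit 124) (nat_lit 4) (nat_lit 125) (nat_lit 5) (nat_lit 125) (nat_lit 4) (nat_lit 453) (nat_lit 321) (nat_lit 246)) (XT.lf (nat_lit 0) (nat_lit 18350972615) (nat_lit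 152) (nat_lit 63446157727) (nat_lit 0) (nat_lit 15444666769) (nat_lit 122) (nat_lit 5) (nat_lit 124) (nat_lit 4) (nat_lit 122) (nat_lit 4) (nat_lit 454) (nat_lit 321) (nat_lit 245)))) (XT.nd (nat_lit 156) (nat_lit 228) (nat_lit 0) (XT.nd (nat_lit 78) (nat_lit 0) (nat_lit 0) (XT.lf (nat_lit 0) (nat_lit 2438535637) (nat_lit 76) (nat_lit 50443506115) (nat_lit 76) (nat_lit 47533720750) (nat_lit 121) (nat_lit 4) (nat_lit 122) (nat_lit 5) (nat_lit 122) (nat_lit 4) (nat_lit 455) (nat_lit 321) (nat_lit 244)) (XT.lf (nat_lit 0) (nat_lit 73665114513) (nat_lit 76) (nat_lit 16473238212) (nat_lit 76) (nat_lit 13560139019) (nat_lit 121) (nat_lit 4) (nat_lit 122) (nat_lit 5) (nat_lit 122) (nat_lit 4) (nat_lit 456) (nat_lit 321) (nat_lit 243))) (XT.nd (nat_lit 78) (nat_lit 76) (nat_lit 0) (XT.lf (nat_lit 0) (nat_lit 22304231543) (nat_lit 152) (nat_lit 65252026888) (nat_lit 0) (nat_lit 19526845620) (nat_lit 119)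 (nat_lit 5) (nat_lit 121) (nat_lit 4) (nat_lit 119) (nat_lit 4) (nat_lit 457) (nat_lit 321) (nat_lit 242)) (XT.lf (nat_lit 0) (nat_lit 7302869755) (nat_lit 76) (nat_lit 53030913633) (nat_lit 76) (nat_lit 50250665100) (nat_lit 118) (nat_lit 4) (nat_lit 119) (nat_lit 5) (nat_lit 119) (nat_lit 4) (nat_lit 458) (nat_lit 321) (nat_lit 241))))) (XT.nd (nat_lit 312) (nat_lit 380) (nat_lit 0) (XT.nd (nat_lit 156) (nat_lit 76) (nat_lit 0) (XT.nd (nat_lit 78) (nat_lit 152) (nat_lit 0) (XT.lf (nat_lit 0) (nat_lit 85603226496) (nat_lit 76) (nat_lit 15694481851) (nat_lit 76) (nat_lit 12911507024) (nat_lit 118) (nat_lit 4) (nat_lit 119) (nat_lit 5) (nat_lit 119) (nat_lit 4) (nat_lit 459) (nat_lit 321) (nat_lit 240)) (XT.lf (nat_lit 0) (nat_lit 26563150048) (nat_lit 152) (nat_lit 67465812282) (nat_lit 0) (nat_lit 23910225002) (nat_lit 116) (nat_lit 5) (nat_lit 118) (nat_lit 4) (nat_lit 116) (nat_lit 4) (nat_lit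 460) (nat_lit 321) (nat_lit 239))) (XT.nd (nat_lit 78) (nat_lit 0) (nat_lit 0) (XT.lf (nat_lit 0) (nat_lit 12446920780) (nat_lit 76) (nat_lit 56004863134) (nat_lit 76) (nat_lit 53349583013) (nat_lit 115) (nat_lit 4) (nat_lit 116) (nat_lit 5) (nat_lit 116) (nat_lit 4) (nat_lit 461) (nat_lit 321) (nat_lit 238)) (XT.lf (nat_lit 0) (nat_lit 98556883866) (nat_lit 76) (nat_lit 14951801447) (nat_lit 76) (nat_lit 12294278396) (nat_lit 115) (nat_lit 4) (nat_lit 116) (nat_lit 5) (nat_lit 116) (nat_lit 4) (nat_lit 462) (nat_lit 321) (nat_lit 237)))) (XT.nd (nat_lit 156) (nat_lit 152) (nat_lit 0) (XT.nd (nat_lit 78) (nat_lit 76) (nat_lit 0) (XT.lf (nat_lit 0) (nat_lit 31163952806) (nat_lit 152) (nat_lit 70118869218) (nat_lit 0) (nat_lit 28630944069) (nat_lit 113) (nat_lit 5) (nat_lit 115) (nat_lit 4) (nat_lit 113) (nat_lit 4) (nat_lit 463) (nat_lit 321) (nat_lit 236)) (XT.lf (nat_lit 0) (nat_lit 17909630792)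 (nat_lit 76) (nat_lit 59399493468) (nat_lit 76) (nat_lit 56864547205) (nat_lit 112) (nat_lit 4) (nat_lit 113) (nat_lit 5) (nat_lit 113) (nat_lit 4) (nat_lit 464) (nat_lit 321) (nat_lit 235))) (XT.nd (nat_lit 78) (nat_lit 152) (nat_lit 0) (XT.lf (nat_lit 0) (nat_lit 112639945665) (nat_lit 76) (nat_lit 14243657755) (nat_lit 76) (nat_lit 11706866228) (nat_lit 112) (nat_lit 4) (nat_lit 113) (nat_lit 5) (nat_lit 113) (nat_lit 4) (nat_lit 465) (nat_lit 321) (nat_lit 234)) (XT.lf (nat_lit 0) (nat_lit 36146317120) (nat_lit 152) (nat_lit 73246237513) (nat_lit 0) (nat_lit 33728651481) (nat_lit 110) (nat_lit 5) (nat_lit 112) (nat_lit 4) (nat_lit 110) (nat_lit 4) (nat_lit 466) (nat_lit 321) (nat_lit 233)))))))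
noncomputable def xc76 : XT := (XT.nd (nat_lit 1248) (nat_lit 912) (nat_lit 0) (XT.nd (nat_lit 624) (nat_lit 684) (nat_lit 0) (XT.nd (nat_lit 312) (nat_lit 228) (nat_lit 0) (XT.nd (nat_lit 156) (nat_lit 228) (nat_lit 0) (XT.nd (nat_lit 78) (nat_lit 0) (nat_lit 0) (XT.lf (nat_lit 0) (nat_lit 23733471221) (nat_lit 76) (nat_lit 63252651260) (nat_lit 76) (nat_lit 60833391614) (nat_lit 109) (nat_lit 4) (nat_lit 110) (nat_lit 5) (nat_lit 110) (nat_lit 4) (nat_lit 467) (nat_lit 321) (nat_lit 232)) (XT.lf (nat_lit 0) (nat_lit 127977502061) (nat_lit 76) (nat_lit 13568553154) (nat_lit 76) (nat_lit 11147775405) (nat_lit 109) (nat_lit 4) (nat_lit 110) (nat_lit 5) (nat_lit 110) (nat_lit 4) (nat_lit 468) (nat_lit 321) (nat_lit 231))) (XT.nd (nat_lit 78) (nat_lit 76) (nat_lit 0) (XT.lf (nat_lit 0) (nat_lit 41553744065) (nat_lit 152) (nat_lit 76887001582) (nat_lit 0) (nat_lit 39246864483) (nat_lit 107) (nat_lit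 5) (nat_lit 109) (nat_lit 4) (nat_lit 107) (nat_lit 4) (nat_lit 469) (nat_lit 321) (nat_lit 230)) (XT.lf (nat_lit 0) (nat_lit 29964821844) (nat_lit 76) (nat_lit 67606270338) (nat_lit 76) (nat_lit 65298079362) (nat_lit 106) (nat_lit 4) (nat_lit 107) (nat_lit 5) (nat_lit 107) (nat_lit 4) (nat_lit 470) (nat_lit 321) (nat_lit 229)))) (XT.nd (nat_lit 156) (nat_lit 76) (nat_lit 0) (XT.nd (nat_lit 78) (nat_lit 152) (nat_lit 0) (XT.lf (nat_lit 0) (nat_lit 144707041923) (nat_lit 76) (nat_lit 12925035277) (nat_lit 76) (nat_lit 10615595354) (nat_lit 106) (nat_lit 4) (nat_lit 107) (nat_lit 5) (nat_lit 107) (nat_lit 4) (nat_lit 471) (nat_lit 321) (nat_lit 228)) (XT.lf (nat_lit 0) (nat_lit 47433965985) (nat_lit 152) (nat_lit 81084687430) (nat_lit 0) (nat_lit 45233366559) (nat_lit 104) (nat_lit 5) (nat_lit 106) (nat_lit 4) (nat_lit 104) (nat_lit 4) (nat_lit 472) (nat_lit 321) (nat_lit 227))) (XT.nd (nat_lit 78)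 (nat_lit 0) (nat_lit 0) (XT.lf (nat_lit 0) (nat_lit 36654388663) (nat_lit 76) (nat_lit 72506788421) (nat_lit 76) (nat_lit 70305110108) (nat_lit 103) (nat_lit 4) (nat_lit 104) (nat_lit 5) (nat_lit 104) (nat_lit 4) (nat_lit 473) (nat_lit 321) (nat_lit 226)) (XT.lf (nat_lit 0) (nat_lit 162979740098) (nat_lit 76) (nat_lit 12311699479) (nat_lit 76) (nat_lit 10108993654) (nat_lit 103) (nat_lit 4) (nat_lit 104) (nat_lit 5) (nat_lit 104) (nat_lit 4) (nat_lit 474) (nat_lit 321) (nat_lit 225))))) (XT.nd (nat_lit 312) (nat_lit 304) (nat_lit 0) (XT.nd (nat_lit 156) (nat_lit 152) (nat_lit 0) (XT.nd (nat_lit 78) (nat_lit 76) (nat_lit 0) (XT.lf (nat_lit 0) (nat_lit 53839394314) (nat_lit 152) (nat_lit 85887700452) (nat_lit 0) (nat_lit 51740647260) (nat_lit 101) (nat_lit 5) (nat_lit 103) (nat_lit 4) (nat_lit 101) (nat_lit 4) (nat_lit 475) (nat_lit 321) (nat_lit 224)) (XT.lf (nat_lit 0) (nat_lit 43857664480) (nat_lit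 76) (nat_lit 78005605276) (nat_lit 76) (nat_lit 75905970619) (nat_lit 100) (nat_lit 4) (nat_lit 101) (nat_lit 5) (nat_lit 101) (nat_lit 4) (nat_lit 476) (nat_lit 321) (nat_lit 223))) (XT.nd (nat_lit 78) (nat_lit 152) (nat_lit 0) (XT.lf (nat_lit 0) (nat_lit 182961876514) (nat_lit 76) (nat_lit 11727190363) (nat_lit 76) (nat_lit 9626710369) (nat_lit 100) (nat_lit 4) (nat_lit 101) (nat_lit 5) (nat_lit 101) (nat_lit 4) (nat_lit 477) (nat_lit 321) (nat_lit 222)) (XT.lf (nat_lit 0) (nat_lit 60827612050) (nat_lit 152) (nat_lit 91349808372) (nat_lit 0) (nat_lit 58826388168) (nat_lit 98) (nat_lit 5) (nat_lit 100) (nat_lit 4) (nat_lit 98) (nat_lit 4) (nat_lit 478) (nat_lit 321) (nat_lit 221)))) (XT.nd (nat_lit 156) (nat_lit 228) (nat_lit 0) (XT.nd (nat_lit 78) (nat_lit 0) (nat_lit 0) (XT.lf (nat_lit 0) (nat_lit 51635436443) (nat_lit 76) (nat_lit 84159586881) (nat_lit 76) (nat_lit 82157632765) (nat_lit 97)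 (nat_lit 4) (nat_lit 98) (nat_lit 5) (nat_lit 98) (nat_lit 4) (nat_lit 479) (nat_lit 321) (nat_lit 220)) (XT.lf (nat_lit 0) (nat_lit 204836400513) (nat_lit 76) (nat_lit 11170202565) (nat_lit 76) (nat_lit 9167552989) (nat_lit 97) (nat_lit 4) (nat_lit 98) (nat_lit 5) (nat_lit 98) (nat_lit 4) (nat_lit 480) (nat_lit 321) (nat_lit 219))) (XT.nd (nat_lit 78) (nat_lit 76) (nat_lit 0) (XT.lf (nat_lit 0) (nat_lit 68461915607) (nat_lit 152) (nat_lit 97530674009) (nat_lit 0) (nat_lit 66553999494) (nat_lit 95) (nat_lit 5) (nat_lit 97) (nat_lit 4) (nat_lit 95) (nat_lit 4) (nat_lit 481) (nat_lit 321) (nat_lit 218)) (XT.lf (nat_lit 0) (nat_lit 60054345277) (nat_lit 76) (nat_lit 91031620557) (nat_lit 76) (nat_lit 89123103679) (nat_lit 94) (nat_lit 4) (nat_lit 95) (nat_lit 5) (nat_lit 95) (nat_lit 4) (nat_lit 482) (nat_lit 321) (nat_lit 217)))))) (XT.nd (nat_lit 624) (nat_lit 304) (nat_lit 0) (XT.nd (nat_lit 312)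 (nat_lit 380) (nat_lit 0) (XT.nd (nat_lit 156) (nat_lit 76) (nat_lit 0) (XT.nd (nat_lit 78) (nat_lit 152) (nat_lit 0) (XT.lf (nat_lit 0) (nat_lit 228804655207) (nat_lit 76) (nat_lit 10639480943) (nat_lit 76) (nat_lit 8730391908) (nat_lit 94) (nat_lit 4) (nat_lit 95) (nat_lit 5) (nat_lit 95) (nat_lit 4) (nat_lit 483) (nat_lit 321) (nat_lit 216)) (XT.lf (nat_lit 0) (nat_lit 76811911264) (nat_lit 152) (nat_lit 104496443075) (nat_lit 0) (nat_lit 74993212267) (nat_lit 92) (nat_lit 5) (nat_lit 94) (nat_lit 4) (nat_lit 92) (nat_lit 4) (nat_lit 484) (nat_lit 321) (nat_lit 215))) (XT.nd (nat_lit 78) (nat_lit 0) (nat_lit 0) (XT.lf (nat_lit 0) (nat_lit 69187501438) (nat_lit 76) (nat_lit 98691226497) (nat_lit 76) (nat_lit 96872033250) (nat_lit 91) (nat_lit 4) (nat_lit 92) (nat_lit 5) (nat_lit 92) (nat_lit 4) (nat_lit 485) (nat_lit 321) (nat_lit 214)) (XT.lf (nat_lit 0) (nat_lit 255088278201) (nat_lit 76) (nat_lit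 10133820301) (nat_lit 76) (nat_lit 8314156338) (nat_lit 91) (nat_lit 4) (nat_lit 92) (nat_lit 5) (nat_lit 92) (nat_lit 4) (nat_lit 486) (nat_lit 321) (nat_lit 213)))) (XT.nd (nat_lit 156) (nat_lit 152) (nat_lit 0) (XT.nd (nat_lit 78) (nat_lit 76) (nat_lit 0) (XT.lf (nat_lit 0) (nat_lit 85954171900) (nat_lit 152) (nat_lit 112320392673) (nat_lit 0) (nat_lit 84220731650) (nat_lit 89) (nat_lit 5) (nat_lit 91) (nat_lit 4) (nat_lit 89) (nat_lit 4) (nat_lit 487) (nat_lit 321) (nat_lit 212)) (XT.lf (nat_lit 0) (nat_lit 79115163971) (nat_lit 76) (nat_lit 107215231615) (nat_lit 76) (nat_lit 105481384744) (nat_lit 88) (nat_lit 4) (nat_lit 89) (nat_lit 5) (nat_lit 89) (nat_lit 4) (nat_lit 488) (nat_lit 321) (nat_lit 211))) (XT.nd (nat_lit 78) (nat_lit 152) (nat_lit 0) (XT.lf (nat_lit 0) (nat_lit 283931296716) (nat_lit 76) (nat_lit 9652064754) (nat_lit 76) (nat_lit 7917830624) (nat_lit 88) (nat_lit 4) (nat_lit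 89) (nat_lit 5) (nat_lit 89) (nat_lit 4) (nat_lit 489) (nat_lit 321) (nat_lit 210)) (XT.lf (nat_lit 0) (nat_lit 95972960313) (nat_lit 152) (nat_lit 121083646763) (nat_lit 0) (nat_lit 94320957506) (nat_lit 86) (nat_lit 5) (nat_lit 88) (nat_lit 4) (nat_lit 86) (nat_lit 4) (nat_lit 490) (nat_lit 321) (nat_lit 209))))) (XT.nd (nat_lit 312) (nat_lit 0) (nat_lit 0) (XT.nd (nat_lit 156) (nat_lit 228) (nat_lit 0) (XT.nd (nat_lit 78) (nat_lit 0) (nat_lit 0) (XT.lf (nat_lit 0) (nat_lit 89925488462) (nat_lit 76) (nat_lit 116688512247) (nat_lit 76) (nat_lit 115036174912) (nat_lit 85) (nat_lit 4) (nat_lit 86) (nat_lit 5) (nat_lit 86) (nat_lit 4) (nat_lit 491) (nat_lit 321) (nat_lit 208)) (XT.lf (nat_lit 0) (nat_lit 315602436993) (nat_lit 76) (nat_lit 9193106810) (nat_lit 76) (nat_lit 7540450877) (nat_lit 85) (nat_lit 4) (nat_lit 86) (nat_lit 5) (nat_lit 86) (nat_lit 4) (nat_lit 492) (nat_lit 321) (nat_lit 207)))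 (XT.nd (nat_lit 78) (nat_lit 76) (nat_lit 0) (XT.lf (nat_lit 0) (nat_lit 106961026012) (nat_lit 152) (nat_lit 130875965489) (nat_lit 0) (nat_lit 105386779003) (nat_lit 83) (nat_lit 5) (nat_lit 85) (nat_lit 4) (nat_lit 83) (nat_lit 4) (nat_lit 493) (nat_lit 321) (nat_lit 206)) (XT.lf (nat_lit 0) (nat_lit 101715351149) (nat_lit 76) (nat_lit 127204812853) (nat_lit 76) (nat_lit 125630290626) (nat_lit 82) (nat_lit 4) (nat_lit 83) (nat_lit 5) (nat_lit 83) (nat_lit 4) (nat_lit 494) (nat_lit 321) (nat_lit 205)))) (XT.nd (nat_lit 43914) (nat_lit 0) (nat_lit 10108) (XT.nd (nat_lit 43836) (nat_lit 0) (nat_lit 10716) (XT.lf (nat_lit 0) (nat_lit 350397669936) (nat_lit 76) (nat_lit 8755886248) (nat_lit 76) (nat_lit 7181101909) (nat_lit 82) (nat_lit 4) (nat_lit 83) (nat_lit 5) (nat_lit 83) (nat_lit 4) (nat_lit 495) (nat_lit 321) (nat_lit 204)) (XT.lf (nat_lit 0) (nat_lit 2436564197) (nat_lit 152) (nat_lit 1338320316)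 (nat_lit 152) (nat_lit 1338320316) (nat_lit 223) (nat_lit 4) (nat_lit 225) (nat_lit 5) (nat_lit 225) (nat_lit 4) (nat_lit 376) (nat_lit 322) (nat_lit 322))) (XT.nd (nat_lit 78) (nat_lit 380) (nat_lit 0) (XT.lf (nat_lit 0) (nat_lit 2454870811) (nat_lit 228) (nat_lit 6181446154) (nat_lit 0) (nat_lit 1811036295) (nat_lit 220) (nat_lit 5) (nat_lit 223) (nat_lit 4) (nat_lit 220) (nat_lit 4) (nat_lit 377) (nat_lit 322) (nat_lit 321)) (XT.nd (nat_lit 78) (nat_lit 228) (nat_lit 0) (XT.lf (nat_lit 0) (nat_lit 3578728361) (nat_lit 152) (nat_lit 4177632095) (nat_lit 152) (nat_lit 2920621850) (nat_lit 218) (nat_lit 4) (nat_lit 220) (nat_lit 5) (nat_lit 220) (nat_lit 4) (nat_lit 378) (nat_lit 322) (nat_lit 320)) (XT.lf (nat_lit 0) (nat_lit 2300112633) (nat_lit 228) (nat_lit 8070698780) (nat_lit 0) (nat_lit 546791557) (nat_lit 215) (nat_lit 5) (nat_lit 218) (nat_lit 4) (nat_lit 215) (nat_lit 4) (nat_lit 379)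 (nat_lit 322) (nat_lit 319))))))))
noncomputable def xc77 : XT := (XT.nd (nat_lit 2496) (nat_lit 2660) (nat_lit 0) (XT.nd (nat_lit 1248) (nat_lit 1444) (nat_lit 0) (XT.nd (nat_lit 624) (nat_lit 988) (nat_lit 0) (XT.nd (nat_lit 312) (nat_lit 532) (nat_lit 0) (XT.nd (nat_lit 156) (nat_lit 228) (nat_lit 0) (XT.nd (nat_lit 78) (nat_lit 152) (nat_lit 0) (XT.lf (nat_lit 0) (nat_lit 1990409628) (nat_lit 152) (nat_lit 5729328060) (nat_lit 152) (nat_lit 3446322735) (nat_lit 213) (nat_lit 4) (nat_lit 215) (nat_lit 5) (nat_lit 215) (nat_lit 4) (nat_lit 380) (nat_lit 322) (nat_lit 318)) (XT.lf (nat_lit 0) (nat_lit 1088990970) (nat_lit 76) (nat_lit 801963900) (nat_lit 152) (nat_lit 9535885907) (nat_lit 211) (nat_lit 5) (nat_lit 212) (nat_lit 5) (nat_lit 213) (nat_lit 4) (nat_lit 381) (nat_lit 322) (nat_lit 317))) (XT.nd (nat_lit 78) (nat_lit 76) (nat_lit 0) (XT.lf (nat_lit 0) (nat_lit 37537867) (nat_lit 152)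 (nat_lit 7385207602) (nat_lit 152) (nat_lit 4272916417) (nat_lit 209) (nat_lit 4) (nat_lit 211) (nat_lit 5) (nat_lit 211) (nat_lit 4) (nat_lit 382) (nat_lit 322) (nat_lit 316)) (XT.lf (nat_lit 0) (nat_lit 1221602051) (nat_lit 228) (nat_lit 1043779521) (nat_lit 76) (nat_lit 9711138641) (nat_lit 208) (nat_lit 5) (nat_lit 211) (nat_lit 5) (nat_lit 209) (nat_lit 4) (nat_lit 383) (nat_lit 322) (nat_lit 315)))) (XT.nd (nat_lit 156) (nat_lit 228) (nat_lit 0) (XT.nd (nat_lit 78) (nat_lit 228) (nat_lit 0) (XT.lf (nat_lit 0) (nat_lit 6880184616) (nat_lit 152) (nat_lit 2280269880) (nat_lit 0) (nat_lit 3105817761) (nat_lit 207) (nat_lit 5) (nat_lit 209) (nat_lit 4) (nat_lit 207) (nat_lit 4) (nat_lit 384) (nat_lit 322) (nat_lit 314)) (XT.lf (nat_lit 0) (nat_lit 266046573) (nat_lit 228) (nat_lit 3605408086) (nat_lit 76) (nat_lit 8697716077) (nat_lit 204) (nat_lit 5) (nat_lit 207) (nat_lit 5) (nat_lit 205) (nat_lit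 4) (nat_lit 385) (nat_lit 322) (nat_lit 313))) (XT.nd (nat_lit 78) (nat_lit 152) (nat_lit 0) (XT.lf (nat_lit 0) (nat_lit 6037066769) (nat_lit 152) (nat_lit 5102386856) (nat_lit 0) (nat_lit 1742481331) (nat_lit 203) (nat_lit 5) (nat_lit 205) (nat_lit 4) (nat_lit 203) (nat_lit 4) (nat_lit 386) (nat_lit 322) (nat_lit 312)) (XT.lf (nat_lit 0) (nat_lit 6477543026) (nat_lit 152) (nat_lit 5674885234) (nat_lit 152) (nat_lit 1055119614) (nat_lit 201) (nat_lit 4) (nat_lit 203) (nat_lit 5) (nat_lit 203) (nat_lit 4) (nat_lit 387) (nat_lit 322) (nat_lit 311))))) (XT.nd (nat_lit 312) (nat_lit 532) (nat_lit 0) (XT.nd (nat_lit 156) (nat_lit 152) (nat_lit 0) (XT.nd (nat_lit 78) (nat_lit 152) (nat_lit 0) (XT.lf (nat_lit 0) (nat_lit 4862058647) (nat_lit 152) (nat_lit 8516189637) (nat_lit 0) (nat_lit 167333857) (nat_lit 199) (nat_lit 5) (nat_lit 201) (nat_lit 4) (nat_lit 199) (nat_lit 4) (nat_lit 388) (nat_lit 322)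 (nat_lit 310)) (XT.lf (nat_lit 0) (nat_lit 3393571366) (nat_lit 152) (nat_lit 7738542848) (nat_lit 152) (nat_lit 2762915190) (nat_lit 197) (nat_lit 4) (nat_lit 199) (nat_lit 5) (nat_lit 199) (nat_lit 4) (nat_lit 389) (nat_lit 322) (nat_lit 309))) (XT.nd (nat_lit 78) (nat_lit 0) (nat_lit 0) (XT.lf (nat_lit 0) (nat_lit 1616302460) (nat_lit 76) (nat_lit 1729773957) (nat_lit 152) (nat_lit 10913031817) (nat_lit 195) (nat_lit 5) (nat_lit 196) (nat_lit 5) (nat_lit 197) (nat_lit 4) (nat_lit 390) (nat_lit 322) (nat_lit 308)) (XT.lf (nat_lit 0) (nat_lit 9751830447) (nat_lit 152) (nat_lit 367391828) (nat_lit 0) (nat_lit 4515695802) (nat_lit 195) (nat_lit 5) (nat_lit 197) (nat_lit 4) (nat_lit 195) (nat_lit 4) (nat_lit 391) (nat_lit 322) (nat_lit 307)))) (XT.nd (nat_lit 156) (nat_lit 228) (nat_lit 0) (XT.nd (nat_lit 78) (nat_lit 76) (nat_lit 0) (XT.lf (nat_lit 0) (nat_lit 1467922281) (nat_lit 228) (nat_lit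 2457993451) (nat_lit 76) (nat_lit 11099175792) (nat_lit 192) (nat_lit 5) (nat_lit 195) (nat_lit 5) (nat_lit 193) (nat_lit 4) (nat_lit 392) (nat_lit 322) (nat_lit 306)) (XT.lf (nat_lit 0) (nat_lit 8027900623) (nat_lit 152) (nat_lit 4788697471) (nat_lit 0) (nat_lit 2611396933) (nat_lit 191) (nat_lit 5) (nat_lit 193) (nat_lit 4) (nat_lit 191) (nat_lit 4) (nat_lit 393) (nat_lit 322) (nat_lit 305))) (XT.nd (nat_lit 78) (nat_lit 152) (nat_lit 0) (XT.lf (nat_lit 0) (nat_lit 8530249717) (nat_lit 76) (nat_lit 6466444639) (nat_lit 76) (nat_lit 850308526) (nat_lit 190) (nat_lit 4) (nat_lit 191) (nat_lit 5) (nat_lit 191) (nat_lit 4) (nat_lit 394) (nat_lit 322) (nat_lit 304)) (XT.lf (nat_lit 0) (nat_lit 5859832683) (nat_lit 152) (nat_lit 10091076094) (nat_lit 0) (nat_lit 330059130) (nat_lit 188) (nat_lit 5) (nat_lit 190) (nat_lit 4) (nat_lit 188) (nat_lit 4) (nat_lit 395) (nat_lit 322) (nat_lit 303)))))) (XT.nd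 (nat_lit 624) (nat_lit 760) (nat_lit 0) (XT.nd (nat_lit 312) (nat_lit 304) (nat_lit 0) (XT.nd (nat_lit 156) (nat_lit 152) (nat_lit 0) (XT.nd (nat_lit 78) (nat_lit 152) (nat_lit 0) (XT.lf (nat_lit 0) (nat_lit 3581641281) (nat_lit 76) (nat_lit 9425014469) (nat_lit 76) (nat_lit 3722790923) (nat_lit 187) (nat_lit 4) (nat_lit 188) (nat_lit 5) (nat_lit 188) (nat_lit 4) (nat_lit 396) (nat_lit 322) (nat_lit 302)) (XT.lf (nat_lit 0) (nat_lit 759608178) (nat_lit 76) (nat_lit 2472620997) (nat_lit 152) (nat_lit 13964150198) (nat_lit 185) (nat_lit 5) (nat_lit 186) (nat_lit 5) (nat_lit 187) (nat_lit 4) (nat_lit 397) (nat_lit 322) (nat_lit 301))) (XT.nd (nat_lit 78) (nat_lit 152) (nat_lit 0) (XT.lf (nat_lit 0) (nat_lit 10554242901) (nat_lit 152) (nat_lit 2303978906) (nat_lit 0) (nat_lit 4818167795) (nat_lit 185) (nat_lit 5) (nat_lit 187) (nat_lit 4) (nat_lit 185) (nat_lit 4) (nat_lit 398) (nat_lit 322) (nat_lit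 300)) (XT.lf (nat_lit 0) (nat_lit 148915357) (nat_lit 152) (nat_lit 5572673658) (nat_lit 76) (nat_lit 12454315891) (nat_lit 183) (nat_lit 5) (nat_lit 185) (nat_lit 5) (nat_lit 184) (nat_lit 4) (nat_lit 399) (nat_lit 322) (nat_lit 299)))) (XT.nd (nat_lit 156) (nat_lit 152) (nat_lit 0) (XT.nd (nat_lit 78) (nat_lit 76) (nat_lit 0) (XT.lf (nat_lit 0) (nat_lit 7613481890) (nat_lit 152) (nat_lit 9190861852) (nat_lit 0) (nat_lit 1886749297) (nat_lit 182) (nat_lit 5) (nat_lit 184) (nat_lit 4) (nat_lit 182) (nat_lit 4) (nat_lit 400) (nat_lit 322) (nat_lit 298)) (XT.lf (nat_lit 0) (nat_lit 6099532518) (nat_lit 76) (nat_lit 9487504808) (nat_lit 76) (nat_lit 3638215225) (nat_lit 181) (nat_lit 4) (nat_lit 182) (nat_lit 5) (nat_lit 182) (nat_lit 4) (nat_lit 401) (nat_lit 322) (nat_lit 297))) (XT.nd (nat_lit 78) (nat_lit 0) (nat_lit 0) (XT.lf (nat_lit 0) (nat_lit 2411188787) (nat_lit 76) (nat_lit 1675249902)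 (nat_lit 152) (nat_lit 15694080867) (nat_lit 179) (nat_lit 5) (nat_lit 180) (nat_lit 5) (nat_lit 181) (nat_lit 4) (nat_lit 402) (nat_lit 322) (nat_lit 296)) (XT.lf (nat_lit 0) (nat_lit 12254277326) (nat_lit 152) (nat_lit 1630836244) (nat_lit 0) (nat_lit 6466493202) (nat_lit 179) (nat_lit 5) (nat_lit 181) (nat_lit 4) (nat_lit 179) (nat_lit 4) (nat_lit 403) (nat_lit 322) (nat_lit 295))))) (XT.nd (nat_lit 312) (nat_lit 304) (nat_lit 0) (XT.nd (nat_lit 156) (nat_lit 228) (nat_lit 0) (XT.nd (nat_lit 78) (nat_lit 76) (nat_lit 0) (XT.lf (nat_lit 0) (nat_lit 6301004) (nat_lit 152) (nat_lit 5875695002) (nat_lit 76) (nat_lit 15063187746) (nat_lit 177) (nat_lit 5) (nat_lit 179) (nat_lit 5) (nat_lit 178) (nat_lit 4) (nat_lit 404) (nat_lit 322) (nat_lit 294)) (XT.lf (nat_lit 0) (nat_lit 8344609047) (nat_lit 152) (nat_lit 10567159239) (nat_lit 0) (nat_lit 2644953169) (nat_lit 176) (nat_lit 5) (nat_lit 178) (nat_lit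 4) (nat_lit 176) (nat_lit 4) (nat_lit 405) (nat_lit 322) (nat_lit 293))) (XT.nd (nat_lit 78) (nat_lit 152) (nat_lit 0) (XT.lf (nat_lit 0) (nat_lit 6539141446) (nat_lit 76) (nat_lit 10719260484) (nat_lit 76) (nat_lit 4932505642) (nat_lit 175) (nat_lit 4) (nat_lit 176) (nat_lit 5) (nat_lit 176) (nat_lit 4) (nat_lit 406) (nat_lit 322) (nat_lit 292)) (XT.lf (nat_lit 0) (nat_lit 1733140227) (nat_lit 76) (nat_lit 1975565365) (nat_lit 152) (nat_lit 19141761239) (nat_lit 173) (nat_lit 5) (nat_lit 174) (nat_lit 5) (nat_lit 175) (nat_lit 4) (nat_lit 407) (nat_lit 322) (nat_lit 291)))) (XT.nd (nat_lit 156) (nat_lit 228) (nat_lit 0) (XT.nd (nat_lit 78) (nat_lit 76) (nat_lit 0) (XT.lf (nat_lit 0) (nat_lit 12857432152) (nat_lit 152) (nat_lit 3477471523) (nat_lit 0) (nat_lit 7191996375) (nat_lit 173) (nat_lit 5) (nat_lit 175) (nat_lit 4) (nat_lit 173) (nat_lit 4) (nat_lit 408) (nat_lit 322) (nat_lit 290)) (XT.lf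 (nat_lit 0) (nat_lit 15232176143) (nat_lit 76) (nat_lit 7367630265) (nat_lit 76) (nat_lit 1630537954) (nat_lit 172) (nat_lit 4) (nat_lit 173) (nat_lit 5) (nat_lit 173) (nat_lit 4) (nat_lit 409) (nat_lit 322) (nat_lit 289))) (XT.nd (nat_lit 78) (nat_lit 76) (nat_lit 0) (XT.lf (nat_lit 0) (nat_lit 7725669395) (nat_lit 152) (nat_lit 15034532492) (nat_lit 0) (nat_lit 2196777367) (nat_lit 170) (nat_lit 5) (nat_lit 172) (nat_lit 4) (nat_lit 170) (nat_lit 4) (nat_lit 410) (nat_lit 322) (nat_lit 288)) (XT.lf (nat_lit 0) (nat_lit 4102801747) (nat_lit 76) (nat_lit 13598148147) (nat_lit 76) (nat_lit 8007356511) (nat_lit 169) (nat_lit 4) (nat_lit 170) (nat_lit 5) (nat_lit 170) (nat_lit 4) (nat_lit 411) (nat_lit 322) (nat_lit 287))))))) (XT.nd (nat_lit 1248) (nat_lit 1368) (nat_lit 0) (XT.nd (nat_lit 624) (nat_lit 608) (nat_lit 0) (XT.nd (nat_lit 312) (nat_lit 304) (nat_lit 0) (XT.nd (nat_lit 156) (nat_lit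 228) (nat_lit 0) (XT.nd (nat_lit 78) (nat_lit 76) (nat_lit 0) (XT.lf (nat_lit 0) (nat_lit 1749320784) (nat_lit 152) (nat_lit 2063636035) (nat_lit 76) (nat_lit 22676672034) (nat_lit 168) (nat_lit 5) (nat_lit 170) (nat_lit 5) (nat_lit 169) (nat_lit 4) (nat_lit 412) (nat_lit 322) (nat_lit 286)) (XT.lf (nat_lit 0) (nat_lit 11994779858) (nat_lit 152) (nat_lit 8734571359) (nat_lit 0) (nat_lit 6560600417) (nat_lit 167) (nat_lit 5) (nat_lit 169) (nat_lit 4) (nat_lit 167) (nat_lit 4) (nat_lit 413) (nat_lit 322) (nat_lit 285))) (XT.nd (nat_lit 78) (nat_lit 152) (nat_lit 0) (XT.lf (nat_lit 0) (nat_lit 12221337524) (nat_lit 76) (nat_lit 10692983488) (nat_lit 76) (nat_lit 5207879087) (nat_lit 166) (nat_lit 4) (nat_lit 167) (nat_lit 5) (nat_lit 167) (nat_lit 4) (nat_lit 414) (nat_lit 322) (nat_lit 284)) (XT.lf (nat_lit 0) (nat_lit 5319498448) (nat_lit 152) (nat_lit 23617558956) (nat_lit 0) (nat_lit 49399053)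 (nat_lit 164) (nat_lit 5) (nat_lit 166) (nat_lit 4) (nat_lit 164) (nat_lit 4) (nat_lit 415) (nat_lit 322) (nat_lit 283)))) (XT.nd (nat_lit 156) (nat_lit 228) (nat_lit 0) (XT.nd (nat_lit 78) (nat_lit 76) (nat_lit 0) (XT.lf (nat_lit 0) (nat_lit 16520427891) (nat_lit 152) (nat_lit 2146781292) (nat_lit 0) (nat_lit 11206337600) (nat_lit 164) (nat_lit 5) (nat_lit 166) (nat_lit 4) (nat_lit 164) (nat_lit 4) (nat_lit 416) (nat_lit 322) (nat_lit 282)) (XT.lf (nat_lit 0) (nat_lit 20820666341) (nat_lit 76) (nat_lit 7665048068) (nat_lit 76) (nat_lit 2309061686) (nat_lit 163) (nat_lit 4) (nat_lit 164) (nat_lit 5) (nat_lit 164) (nat_lit 4) (nat_lit 417) (nat_lit 322) (nat_lit 281))) (XT.nd (nat_lit 78) (nat_lit 76) (nat_lit 0) (XT.lf (nat_lit 0) (nat_lit 9178820005) (nat_lit 152) (nat_lit 18526673807) (nat_lit 0) (nat_lit 4039879604) (nat_lit 161) (nat_lit 5) (nat_lit 163) (nat_lit 4) (nat_lit 161) (nat_lit 4)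 (nat_lit 418) (nat_lit 322) (nat_lit 280)) (XT.lf (nat_lit 0) (nat_lit 4930447234) (nat_lit 76) (nat_lit 16486802420) (nat_lit 76) (nat_lit 11311670600) (nat_lit 160) (nat_lit 4) (nat_lit 161) (nat_lit 5) (nat_lit 161) (nat_lit 4) (nat_lit 419) (nat_lit 322) (nat_lit 279))))) (XT.nd (nat_lit 312) (nat_lit 228) (nat_lit 0) (XT.nd (nat_lit 156) (nat_lit 228) (nat_lit 0) (XT.nd (nat_lit 78) (nat_lit 76) (nat_lit 0) (XT.lf (nat_lit 0) (nat_lit 688155635) (nat_lit 152) (nat_lit 3798880785) (nat_lit 76) (nat_lit 29264293391) (nat_lit 159) (nat_lit 5) (nat_lit 161) (nat_lit 5) (nat_lit 160) (nat_lit 4) (nat_lit 420) (nat_lit 322) (nat_lit 278)) (XT.lf (nat_lit 0) (nat_lit 13264919115) (nat_lit 152) (nat_lit 13260682306) (nat_lit 0) (nat_lit 8272131952) (nat_lit 158) (nat_lit 5) (nat_lit 160) (nat_lit 4) (nat_lit 158) (nat_lit 4) (nat_lit 421) (nat_lit 322) (nat_lit 277))) (XT.nd (nat_lit 78) (nat_lit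 152) (nat_lit 0) (XT.lf (nat_lit 0) (nat_lit 12470946515) (nat_lit 76) (nat_lit 14218561583) (nat_lit 76) (nat_lit 9195999649) (nat_lit 157) (nat_lit 4) (nat_lit 158) (nat_lit 5) (nat_lit 158) (nat_lit 4) (nat_lit 422) (nat_lit 322) (nat_lit 276)) (XT.lf (nat_lit 0) (nat_lit 2725928926) (nat_lit 76) (nat_lit 1067655358) (nat_lit 152) (nat_lit 33223343327) (nat_lit 155) (nat_lit 5) (nat_lit 156) (nat_lit 5) (nat_lit 157) (nat_lit 4) (nat_lit 423) (nat_lit 322) (nat_lit 275)))) (XT.nd (nat_lit 156) (nat_lit 152) (nat_lit 0) (XT.nd (nat_lit 78) (nat_lit 76) (nat_lit 0) (XT.lf (nat_lit 0) (nat_lit 17611027196) (nat_lit 152) (nat_lit 7787074565) (nat_lit 0) (nat_lit 12774907719) (nat_lit 155) (nat_lit 5) (nat_lit 157) (nat_lit 4) (nat_lit 155) (nat_lit 4) (nat_lit 424) (nat_lit 322) (nat_lit 274)) (XT.lf (nat_lit 0) (nat_lit 20458236451) (nat_lit 76) (nat_lit 11888941237) (nat_lit 76) (nat_lit 7028325982)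 (nat_lit 154) (nat_lit 4) (nat_lit 155) (nat_lit 5) (nat_lit 155) (nat_lit 4) (nat_lit 425) (nat_lit 322) (nat_lit 273))) (XT.nd (nat_lit 78) (nat_lit 0) (nat_lit 0) (XT.lf (nat_lit 0) (nat_lit 7169685893) (nat_lit 152) (nat_lit 30933642892) (nat_lit 0) (nat_lit 2518310116) (nat_lit 152) (nat_lit 5) (nat_lit 154) (nat_lit 4) (nat_lit 152) (nat_lit 4) (nat_lit 426) (nat_lit 322) (nat_lit 272)) (XT.lf (nat_lit 0) (nat_lit 22252960864) (nat_lit 152) (nat_lit 2070356374) (nat_lit 0) (nat_lit 17580424715) (nat_lit 152) (nat_lit 5) (nat_lit 154) (nat_lit 4) (nat_lit 152) (nat_lit 4) (nat_lit 427) (nat_lit 322) (nat_lit 271)))))) (XT.nd (nat_lit 624) (nat_lit 684) (nat_lit 0) (XT.nd (nat_lit 312) (nat_lit 380) (nat_lit 0) (XT.nd (nat_lit 156) (nat_lit 76) (nat_lit 0) (XT.nd (nat_lit 78) (nat_lit 152) (nat_lit 0) (XT.lf (nat_lit 0) (nat_lit 28952064990) (nat_lit 76) (nat_lit 9486580870) (nat_lit 76) (nat_lit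 4793891984) (nat_lit 151) (nat_lit 4) (nat_lit 152) (nat_lit 5) (nat_lit 152) (nat_lit 4) (nat_lit 428) (nat_lit 322) (nat_lit 270)) (XT.lf (nat_lit 0) (nat_lit 10760664453) (nat_lit 152) (nat_lit 27570481922) (nat_lit 0) (nat_lit 6273157817) (nat_lit 149) (nat_lit 5) (nat_lit 151) (nat_lit 4) (nat_lit 149) (nat_lit 4) (nat_lit 429) (nat_lit 322) (nat_lit 269))) (XT.nd (nat_lit 78) (nat_lit 0) (nat_lit 0) (XT.lf (nat_lit 0) (nat_lit 4058096434) (nat_lit 76) (nat_lit 23234749090) (nat_lit 76) (nat_lit 18729833762) (nat_lit 148) (nat_lit 4) (nat_lit 149) (nat_lit 5) (nat_lit 149) (nat_lit 4) (nat_lit 430) (nat_lit 322) (nat_lit 268)) (XT.lf (nat_lit 0) (nat_lit 38017919495) (nat_lit 76) (nat_lit 6998650967) (nat_lit 76) (nat_lit 2477155933) (nat_lit 148) (nat_lit 4) (nat_lit 149) (nat_lit 5) (nat_lit 149) (nat_lit 4) (nat_lit 431) (nat_lit 322) (nat_lit 267)))) (XT.nd (nat_lit 156) (nat_lit 152)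 (nat_lit 0) (XT.nd (nat_lit 78) (nat_lit 76) (nat_lit 0) (XT.lf (nat_lit 0) (nat_lit 14578427899) (nat_lit 152) (nat_lit 24168446779) (nat_lit 0) (nat_lit 10257203870) (nat_lit 146) (nat_lit 5) (nat_lit 148) (nat_lit 4) (nat_lit 146) (nat_lit 4) (nat_lit 432) (nat_lit 322) (nat_lit 266)) (XT.lf (nat_lit 0) (nat_lit 10589858429) (nat_lit 76) (nat_lit 22158190155) (nat_lit 76) (nat_lit 17822643953) (nat_lit 145) (nat_lit 4) (nat_lit 146) (nat_lit 5) (nat_lit 146) (nat_lit 4) (nat_lit 433) (nat_lit 322) (nat_lit 265))) (XT.nd (nat_lit 78) (nat_lit 152) (nat_lit 0) (XT.lf (nat_lit 0) (nat_lit 47727583779) (nat_lit 76) (nat_lit 4410813727) (nat_lit 76) (nat_lit 61627360) (nat_lit 145) (nat_lit 4) (nat_lit 146) (nat_lit 5) (nat_lit 146) (nat_lit 4) (nat_lit 434) (nat_lit 322) (nat_lit 264)) (XT.lf (nat_lit 0) (nat_lit 18653887050) (nat_lit 152) (nat_lit 20709925838) (nat_lit 0) (nat_lit 14499432763)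 (nat_lit 143) (nat_lit 5) (nat_lit 145) (nat_lit 4) (nat_lit 143) (nat_lit 4) (nat_lit 435) (nat_lit 322) (nat_lit 263))))) (XT.nd (nat_lit 312) (nat_lit 380) (nat_lit 0) (XT.nd (nat_lit 156) (nat_lit 76) (nat_lit 0) (XT.nd (nat_lit 78) (nat_lit 152) (nat_lit 0) (XT.lf (nat_lit 0) (nat_lit 17504176050) (nat_lit 76) (nat_lit 21127602238) (nat_lit 76) (nat_lit 16961365064) (nat_lit 142) (nat_lit 4) (nat_lit 143) (nat_lit 5) (nat_lit 143) (nat_lit 4) (nat_lit 436) (nat_lit 322) (nat_lit 262)) (XT.lf (nat_lit 0) (nat_lit 748533787) (nat_lit 76) (nat_lit 1654389509) (nat_lit 152) (nat_lit 54991182103) (nat_lit 140) (nat_lit 5) (nat_lit 141) (nat_lit 5) (nat_lit 142) (nat_lit 4) (nat_lit 437) (nat_lit 322) (nat_lit 261))) (XT.nd (nat_lit 78) (nat_lit 76) (nat_lit 0) (XT.lf (nat_lit 0) (nat_lit 23020589894) (nat_lit 152) (nat_lit 17175985013) (nat_lit 0) (nat_lit 19031879039) (nat_lit 140) (nat_lit 5)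 (nat_lit 142) (nat_lit 4) (nat_lit 140) (nat_lit 4) (nat_lit 438) (nat_lit 322) (nat_lit 260)) (XT.lf (nat_lit 0) (nat_lit 24853166891) (nat_lit 76) (nat_lit 20141734800) (nat_lit 76) (nat_lit 16143330134) (nat_lit 139) (nat_lit 4) (nat_lit 140) (nat_lit 5) (nat_lit 140) (nat_lit 4) (nat_lit 439) (nat_lit 322) (nat_lit 259)))) (XT.nd (nat_lit 156) (nat_lit 228) (nat_lit 0) (XT.nd (nat_lit 78) (nat_lit 0) (nat_lit 0) (XT.lf (nat_lit 0) (nat_lit 5093484341) (nat_lit 152) (nat_lit 56753149405) (nat_lit 0) (nat_lit 1276687326) (nat_lit 137) (nat_lit 5) (nat_lit 139) (nat_lit 4) (nat_lit 137) (nat_lit 4) (nat_lit 440) (nat_lit 322) (nat_lit 258)) (XT.lf (nat_lit 0) (nat_lit 27715046655) (nat_lit 152) (nat_lit 13546238683) (nat_lit 0) (nat_lit 23889875761) (nat_lit 137) (nat_lit 5) (nat_lit 139) (nat_lit 4) (nat_lit 137) (nat_lit 4) (nat_lit 441) (nat_lit 322) (nat_lit 257))) (XT.nd (nat_lit 78) (nat_lit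 152) (nat_lit 0) (XT.lf (nat_lit 0) (nat_lit 32693810549) (nat_lit 76) (nat_lit 19199230450) (nat_lit 76) (nat_lit 15366084434) (nat_lit 136) (nat_lit 4) (nat_lit 137) (nat_lit 5) (nat_lit 137) (nat_lit 4) (nat_lit 442) (nat_lit 322) (nat_lit 256)) (XT.lf (nat_lit 0) (nat_lit 7968012816) (nat_lit 152) (nat_lit 57167693829) (nat_lit 0) (nat_lit 4310163892) (nat_lit 134) (nat_lit 5) (nat_lit 136) (nat_lit 4) (nat_lit 134) (nat_lit 4) (nat_lit 443) (nat_lit 322) (nat_lit 255))))))))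
noncomputable def xc78 : XT := (XT.nd (nat_lit 2496) (nat_lit 1596) (nat_lit 0) (XT.nd (nat_lit 1248) (nat_lit 1140) (nat_lit 0) (XT.nd (nat_lit 624) (nat_lit 684) (nat_lit 0) (XT.nd (nat_lit 312) (nat_lit 304) (nat_lit 0) (XT.nd (nat_lit 156) (nat_lit 152) (nat_lit 0) (XT.nd (nat_lit 78) (nat_lit 76) (nat_lit 0) (XT.lf (nat_lit 0) (nat_lit 32777080347) (nat_lit 152) (nat_lit 9798701853) (nat_lit 0) (nat_lit 29112342213) (nat_lit 134) (nat_lit 5) (nat_lit 136) (nat_lit 4) (nat_lit 134) (nat_lit 4) (nat_lit 444) (nat_lit 322) (nat_lit 254)) (XT.lf (nat_lit 0) (nat_lit 41088445992) (nat_lit 76) (nat_lit 18298659532) (nat_lit 76) (nat_lit 14627360245) (nat_lit 133) (nat_lit 4) (nat_lit 134) (nat_lit 5) (nat_lit 134) (nat_lit 4) (nat_lit 445) (nat_lit 322) (nat_lit 253))) (XT.nd (nat_lit 78) (nat_lit 0) (nat_lit 0) (XT.lf (nat_lit 0) (nat_lit 11023067223) (nat_lit 152) (nat_lit 57879906283) (nat_lit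 0) (nat_lit 7520640553) (nat_lit 131) (nat_lit 5) (nat_lit 133) (nat_lit 4) (nat_lit 131) (nat_lit 4) (nat_lit 446) (nat_lit 322) (nat_lit 252)) (XT.lf (nat_lit 0) (nat_lit 38250206729) (nat_lit 152) (nat_lit 5909622815) (nat_lit 0) (nat_lit 34742112288) (nat_lit 131) (nat_lit 5) (nat_lit 133) (nat_lit 4) (nat_lit 131) (nat_lit 4) (nat_lit 447) (nat_lit 322) (nat_lit 251)))) (XT.nd (nat_lit 156) (nat_lit 76) (nat_lit 0) (XT.nd (nat_lit 78) (nat_lit 152) (nat_lit 0) (XT.lf (nat_lit 0) (nat_lit 50105324185) (nat_lit 76) (nat_lit 17438547841) (nat_lit 76) (nat_lit 13925055524) (nat_lit 130) (nat_lit 4) (nat_lit 131) (nat_lit 5) (nat_lit 131) (nat_lit 4) (nat_lit 448) (nat_lit 322) (nat_lit 250)) (XT.lf (nat_lit 0) (nat_lit 14282956339) (nat_lit 152) (nat_lit 58908517349) (nat_lit 0) (nat_lit 10931877147) (nat_lit 128) (nat_lit 5) (nat_lit 130) (nat_lit 4) (nat_lit 128) (nat_lit 4) (nat_lit 449) (nat_lit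 322) (nat_lit 249))) (XT.nd (nat_lit 78) (nat_lit 76) (nat_lit 0) (XT.lf (nat_lit 0) (nat_lit 44182047744) (nat_lit 152) (nat_lit 1853295290) (nat_lit 0) (nat_lit 40826305663) (nat_lit 128) (nat_lit 5) (nat_lit 130) (nat_lit 4) (nat_lit 128) (nat_lit 4) (nat_lit 450) (nat_lit 322) (nat_lit 248)) (XT.lf (nat_lit 0) (nat_lit 59819220673) (nat_lit 76) (nat_lit 16617398713) (nat_lit 76) (nat_lit 13257215785) (nat_lit 127) (nat_lit 4) (nat_lit 128) (nat_lit 5) (nat_lit 128) (nat_lit 4) (nat_lit 451) (nat_lit 322) (nat_lit 247))))) (XT.nd (nat_lit 312) (nat_lit 304) (nat_lit 0) (XT.nd (nat_lit 156) (nat_lit 152) (nat_lit 0) (XT.nd (nat_lit 78) (nat_lit 76) (nat_lit 0) (XT.lf (nat_lit 0) (nat_lit 17774138405) (nat_lit 152) (nat_lit 60274672700) (nat_lit 0) (nat_lit 14569936210) (nat_lit 125) (nat_lit 5) (nat_lit 127) (nat_lit 4) (nat_lit 125) (nat_lit 4) (nat_lit 452) (nat_lit 322) (nat_lit 246)) (XT.lf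 (nat_lit 0) (nat_lit 2477444986) (nat_lit 76) (nat_lit 48186017645) (nat_lit 76) (nat_lit 44977979280) (nat_lit 124) (nat_lit 4) (nat_lit 125) (nat_lit 5) (nat_lit 125) (nat_lit 4) (nat_lit 453) (nat_lit 322) (nat_lit 245))) (XT.nd (nat_lit 78) (nat_lit 152) (nat_lit 0) (XT.lf (nat_lit 0) (nat_lit 70312113513) (nat_lit 76) (nat_lit 15833710518) (nat_lit 76) (nat_lit 12622018658) (nat_lit 124) (nat_lit 4) (nat_lit 125) (nat_lit 5) (nat_lit 125) (nat_lit 4) (nat_lit 454) (nat_lit 322) (nat_lit 244)) (XT.lf (nat_lit 0) (nat_lit 21525469404) (nat_lit 152) (nat_lit 62002168732) (nat_lit 0) (nat_lit 18463401423) (nat_lit 122) (nat_lit 5) (nat_lit 124) (nat_lit 4) (nat_lit 122) (nat_lit 4) (nat_lit 455) (nat_lit 322) (nat_lit 243)))) (XT.nd (nat_lit 156) (nat_lit 228) (nat_lit 0) (XT.nd (nat_lit 78) (nat_lit 0) (nat_lit 0) (XT.lf (nat_lit 0) (nat_lit 7102302900) (nat_lit 76) (nat_lit 50644226235) (nat_lit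 76) (nat_lit 47579002228) (nat_lit 121) (nat_lit 4) (nat_lit 122) (nat_lit 5) (nat_lit 122) (nat_lit 4) (nat_lit 456) (nat_lit 322) (nat_lit 242)) (XT.lf (nat_lit 0) (nat_lit 81673932601) (nat_lit 76) (nat_lit 15085990422) (nat_lit 76) (nat_lit 12017760675) (nat_lit 121) (nat_lit 4) (nat_lit 122) (nat_lit 5) (nat_lit 122) (nat_lit 4) (nat_lit 457) (nat_lit 322) (nat_lit 241))) (XT.nd (nat_lit 78) (nat_lit 76) (nat_lit 0) (XT.lf (nat_lit 0) (nat_lit 25568473383) (nat_lit 152) (nat_lit 64117710838) (nat_lit 0) (nat_lit 22643623520) (nat_lit 119) (nat_lit 5) (nat_lit 121) (nat_lit 4) (nat_lit 119) (nat_lit 4) (nat_lit 458) (nat_lit 322) (nat_lit 240)) (XT.lf (nat_lit 0) (nat_lit 11994012615) (nat_lit 76) (nat_lit 53470696404) (nat_lit 76) (nat_lit 50543250070) (nat_lit 118) (nat_lit 4) (nat_lit 119) (nat_lit 5) (nat_lit 119) (nat_lit 4) (nat_lit 459) (nat_lit 322) (nat_lit 239)))))) (XT.nd (nat_lit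 624) (nat_lit 532) (nat_lit 0) (XT.nd (nat_lit 312) (nat_lit 380) (nat_lit 0) (XT.nd (nat_lit 156) (nat_lit 76) (nat_lit 0) (XT.nd (nat_lit 78) (nat_lit 152) (nat_lit 0) (XT.lf (nat_lit 0) (nat_lit 94003387223) (nat_lit 76) (nat_lit 14372765077) (nat_lit 76) (nat_lit 11442845914) (nat_lit 118) (nat_lit 4) (nat_lit 119) (nat_lit 5) (nat_lit 119) (nat_lit 4) (nat_lit 460) (nat_lit 322) (nat_lit 238)) (XT.lf (nat_lit 0) (nat_lit 29937637616) (nat_lit 152) (nat_lit 66651197097) (nat_lit 0) (nat_lit 27144995483) (nat_lit 116) (nat_lit 5) (nat_lit 118) (nat_lit 4) (nat_lit 116) (nat_lit 4) (nat_lit 461) (nat_lit 322) (nat_lit 237))) (XT.nd (nat_lit 78) (nat_lit 0) (nat_lit 0) (XT.lf (nat_lit 0) (nat_lit 17189625750) (nat_lit 76) (nat_lit 56697963486) (nat_lit 76) (nat_lit 53903185231) (nat_lit 115) (nat_lit 4) (nat_lit 116) (nat_lit 5) (nat_lit 116) (nat_lit 4) (nat_lit 462) (nat_lit 322) (nat_lit 236))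 (XT.lf (nat_lit 0) (nat_lit 107408879422) (nat_lit 76) (nat_lit 13692588848) (nat_lit 76) (nat_lit 10895776190) (nat_lit 115) (nat_lit 4) (nat_lit 116) (nat_lit 5) (nat_lit 116) (nat_lit 4) (nat_lit 463) (nat_lit 322) (nat_lit 235)))) (XT.nd (nat_lit 156) (nat_lit 152) (nat_lit 0) (XT.nd (nat_lit 78) (nat_lit 76) (nat_lit 0) (XT.lf (nat_lit 0) (nat_lit 34670735588) (nat_lit 152) (nat_lit 69636030332) (nat_lit 0) (nat_lit 32005259221) (nat_lit 113) (nat_lit 5) (nat_lit 115) (nat_lit 4) (nat_lit 113) (nat_lit 4) (nat_lit 464) (nat_lit 322) (nat_lit 234)) (XT.lf (nat_lit 0) (nat_lit 22729559480) (nat_lit 76) (nat_lit 60362087984) (nat_lit 76) (nat_lit 57694854224) (nat_lit 112) (nat_lit 4) (nat_lit 113) (nat_lit 5) (nat_lit 113) (nat_lit 4) (nat_lit 465) (nat_lit 322) (nat_lit 233))) (XT.nd (nat_lit 78) (nat_lit 152) (nat_lit 0) (XT.lf (nat_lit 0) (nat_lit 122009511661) (nat_lit 76) (nat_lit 13044050017)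 (nat_lit 76) (nat_lit 10375142549) (nat_lit 112) (nat_lit 4) (nat_lit 113) (nat_lit 5) (nat_lit 113) (nat_lit 4) (nat_lit 466) (nat_lit 322) (nat_lit 232)) (XT.lf (nat_lit 0) (nat_lit 39809181016) (nat_lit 152) (nat_lit 73109461725) (nat_lit 0) (nat_lit 37265846277) (nat_lit 110) (nat_lit 5) (nat_lit 112) (nat_lit 4) (nat_lit 110) (nat_lit 4) (nat_lit 467) (nat_lit 322) (nat_lit 231))))) (XT.nd (nat_lit 312) (nat_lit 228) (nat_lit 0) (XT.nd (nat_lit 156) (nat_lit 228) (nat_lit 0) (XT.nd (nat_lit 78) (nat_lit 0) (nat_lit 0) (XT.lf (nat_lit 0) (nat_lit 28657956838) (nat_lit 76) (nat_lit 64503018098) (nat_lit 76) (nat_lit 61958237547) (nat_lit 109) (nat_lit 4) (nat_lit 110) (nat_lit 5) (nat_lit 110) (nat_lit 4) (nat_lit 468) (nat_lit 322) (nat_lit 230)) (XT.lf (nat_lit 0) (nat_lit 137936198170) (nat_lit 76) (nat_lit 12425775359) (nat_lit 76) (nat_lit 9879617844) (nat_lit 109) (nat_lit 4) (nat_lit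 110) (nat_lit 5) (nat_lit 110) (nat_lit 4) (nat_lit 469) (nat_lit 322) (nat_lit 229))) (XT.nd (nat_lit 78) (nat_lit 76) (nat_lit 0) (XT.lf (nat_lit 0) (nat_lit 45398416397) (nat_lit 152) (nat_lit 77112969453) (nat_lit 0) (nat_lit 42972255530) (nat_lit 107) (nat_lit 5) (nat_lit 109) (nat_lit 4) (nat_lit 107) (nat_lit 4) (nat_lit 470) (nat_lit 322) (nat_lit 228)) (XT.lf (nat_lit 0) (nat_lit 35023084142) (nat_lit 76) (nat_lit 69164987537) (nat_lit 76) (nat_lit 66737637198) (nat_lit 106) (nat_lit 4) (nat_lit 107) (nat_lit 5) (nat_lit 107) (nat_lit 4) (nat_lit 471) (nat_lit 322) (nat_lit 227)))) (XT.nd (nat_lit 156) (nat_lit 76) (nat_lit 0) (XT.nd (nat_lit 78) (nat_lit 152) (nat_lit 0) (XT.lf (nat_lit 0) (nat_lit 155332890405) (nat_lit 76) (nat_lit 11836433405) (nat_lit 76) (nat_lit 9407950234) (nat_lit 106) (nat_lit 4) (nat_lit 107) (nat_lit 5) (nat_lit 107) (nat_lit 4) (nat_lit 472) (nat_lit 322)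 (nat_lit 226)) (XT.lf (nat_lit 0) (nat_lit 51488339859) (nat_lit 152) (nat_lit 81692676103) (nat_lit 0) (nat_lit 49174471232) (nat_lit 104) (nat_lit 5) (nat_lit 106) (nat_lit 4) (nat_lit 104) (nat_lit 4) (nat_lit 473) (nat_lit 322) (nat_lit 225))) (XT.nd (nat_lit 78) (nat_lit 0) (nat_lit 0) (XT.lf (nat_lit 0) (nat_lit 41877769187) (nat_lit 76) (nat_lit 74396952641) (nat_lit 76) (nat_lit 72082105431) (nat_lit 103) (nat_lit 4) (nat_lit 104) (nat_lit 5) (nat_lit 104) (nat_lit 4) (nat_lit 474) (nat_lit 322) (nat_lit 224)) (XT.lf (nat_lit 0) (nat_lit 174357928141) (nat_lit 76) (nat_lit 11274736641) (nat_lit 76) (nat_lit 8958957448) (nat_lit 103) (nat_lit 4) (nat_lit 104) (nat_lit 5) (nat_lit 104) (nat_lit 4) (nat_lit 475) (nat_lit 322) (nat_lit 223))))))) (XT.nd (nat_lit 1248) (nat_lit 304) (nat_lit 0) (XT.nd (nat_lit 624) (nat_lit 608) (nat_lit 0) (XT.nd (nat_lit 312) (nat_lit 304) (nat_lit 0) (XT.nd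 (nat_lit 156) (nat_lit 152) (nat_lit 0) (XT.nd (nat_lit 78) (nat_lit 76) (nat_lit 0) (XT.lf (nat_lit 0) (nat_lit 58133774473) (nat_lit 152) (nat_lit 86899808991) (nat_lit 0) (nat_lit 55927425143) (nat_lit 101) (nat_lit 5) (nat_lit 103) (nat_lit 4) (nat_lit 101) (nat_lit 4) (nat_lit 476) (nat_lit 322) (nat_lit 222)) (XT.lf (nat_lit 0) (nat_lit 49279884246) (nat_lit 76) (nat_lit 80253073176) (nat_lit 76) (nat_lit 78045918764) (nat_lit 100) (nat_lit 4) (nat_lit 101) (nat_lit 5) (nat_lit 101) (nat_lit 4) (nat_lit 477) (nat_lit 322) (nat_lit 221))) (XT.nd (nat_lit 78) (nat_lit 152) (nat_lit 0) (XT.lf (nat_lit 0) (nat_lit 195185528951) (nat_lit 76) (nat_lit 10739442867) (nat_lit 76) (nat_lit 8531521710) (nat_lit 100) (nat_lit 4) (nat_lit 101) (nat_lit 5) (nat_lit 101) (nat_lit 4) (nat_lit 478) (nat_lit 322) (nat_lit 220)) (XT.lf (nat_lit 0) (nat_lit 65394984530) (nat_lit 152) (nat_lit 92791207881) (nat_lit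 0) (nat_lit 63291507015) (nat_lit 98) (nat_lit 5) (nat_lit 100) (nat_lit 4) (nat_lit 98) (nat_lit 4) (nat_lit 479) (nat_lit 322) (nat_lit 219)))) (XT.nd (nat_lit 156) (nat_lit 228) (nat_lit 0) (XT.nd (nat_lit 78) (nat_lit 0) (nat_lit 0) (XT.lf (nat_lit 0) (nat_lit 57292878354) (nat_lit 76) (nat_lit 86793241563) (nat_lit 76) (nat_lit 84689101705) (nat_lit 97) (nat_lit 4) (nat_lit 98) (nat_lit 5) (nat_lit 98) (nat_lit 4) (nat_lit 480) (nat_lit 322) (nat_lit 218)) (XT.lf (nat_lit 0) (nat_lit 218007430148) (nat_lit 76) (nat_lit 10229355872) (nat_lit 76) (nat_lit 8124585211) (nat_lit 97) (nat_lit 4) (nat_lit 98) (nat_lit 5) (nat_lit 98) (nat_lit 4) (nat_lit 481) (nat_lit 322) (nat_lit 217))) (XT.nd (nat_lit 78) (nat_lit 76) (nat_lit 0) (XT.lf (nat_lit 0) (nat_lit 73338243768) (nat_lit 152) (nat_lit 99429885054) (nat_lit 0) (nat_lit 71333128124) (nat_lit 95) (nat_lit 5) (nat_lit 97) (nat_lit 4) (nat_lit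 95) (nat_lit 4) (nat_lit 482) (nat_lit 322) (nat_lit 216)) (XT.lf (nat_lit 0) (nat_lit 65986363863) (nat_lit 76) (nat_lit 94083665705) (nat_lit 76) (nat_lit 92078005149) (nat_lit 94) (nat_lit 4) (nat_lit 95) (nat_lit 5) (nat_lit 95) (nat_lit 4) (nat_lit 483) (nat_lit 322) (nat_lit 215))))) (XT.nd (nat_lit 312) (nat_lit 380) (nat_lit 0) (XT.nd (nat_lit 156) (nat_lit 76) (nat_lit 0) (XT.nd (nat_lit 78) (nat_lit 152) (nat_lit 0) (XT.lf (nat_lit 0) (nat_lit 243034698750) (nat_lit 76) (nat_lit 9743325580) (nat_lit 76) (nat_lit 7737146061) (nat_lit 94) (nat_lit 4) (nat_lit 95) (nat_lit 5) (nat_lit 95) (nat_lit 4) (nat_lit 484) (nat_lit 322) (nat_lit 214)) (XT.lf (nat_lit 0) (nat_lit 82036460976) (nat_lit 152) (nat_lit 106885643153) (nat_lit 0) (nat_lit 80125343100) (nat_lit 92) (nat_lit 5) (nat_lit 94) (nat_lit 4) (nat_lit 92) (nat_lit 4) (nat_lit 485) (nat_lit 322) (nat_lit 213))) (XT.nd (nat_lit 78)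 (nat_lit 0) (nat_lit 0) (XT.lf (nat_lit 0) (nat_lit 75436762746) (nat_lit 76) (nat_lit 102197511099) (nat_lit 76) (nat_lit 100285944924) (nat_lit 91) (nat_lit 4) (nat_lit 92) (nat_lit 5) (nat_lit 92) (nat_lit 4) (nat_lit 486) (nat_lit 322) (nat_lit 212)) (XT.lf (nat_lit 0) (nat_lit 270499726622) (nat_lit 76) (nat_lit 9280247770) (nat_lit 76) (nat_lit 7368254642) (nat_lit 91) (nat_lit 4) (nat_lit 92) (nat_lit 5) (nat_lit 92) (nat_lit 4) (nat_lit 487) (nat_lit 322) (nat_lit 211)))) (XT.nd (nat_lit 156) (nat_lit 152) (nat_lit 0) (XT.nd (nat_lit 78) (nat_lit 76) (nat_lit 0) (XT.lf (nat_lit 0) (nat_lit 91569868972) (nat_lit 152) (nat_lit 115235756760) (nat_lit 0) (nat_lit 89748535878) (nat_lit 89) (nat_lit 5) (nat_lit 91) (nat_lit 4) (nat_lit 89) (nat_lit 4) (nat_lit 488) (nat_lit 322) (nat_lit 210)) (XT.lf (nat_lit 0) (nat_lit 85728018756) (nat_lit 76) (nat_lit 111215608455) (nat_lit 76) (nat_lit 109393906544)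 (nat_lit 88) (nat_lit 4) (nat_lit 89) (nat_lit 5) (nat_lit 89) (nat_lit 4) (nat_lit 489) (nat_lit 322) (nat_lit 209))) (XT.nd (nat_lit 78) (nat_lit 152) (nat_lit 0) (XT.lf (nat_lit 0) (nat_lit 300658429729) (nat_lit 76) (nat_lit 8839063477) (nat_lit 76) (nat_lit 7017010310) (nat_lit 88) (nat_lit 4) (nat_lit 89) (nat_lit 5) (nat_lit 89) (nat_lit 4) (nat_lit 490) (nat_lit 322) (nat_lit 208)) (XT.lf (nat_lit 0) (nat_lit 102026783543) (nat_lit 152) (nat_lit 124565724293) (nat_lit 0) (nat_lit 100291176214) (nat_lit 86) (nat_lit 5) (nat_lit 88) (nat_lit 4) (nat_lit 86) (nat_lit 4) (nat_lit 491) (nat_lit 322) (nat_lit 207)))))) (XT.nd (nat_lit 44226) (nat_lit 0) (nat_lit 9348) (XT.nd (nat_lit 43914) (nat_lit 0) (nat_lit 10488) (XT.nd (nat_lit 156) (nat_lit 228) (nat_lit 0) (XT.nd (nat_lit 78) (nat_lit 0) (nat_lit 0) (XT.lf (nat_lit 0) (nat_lit 96952382132) (nat_lit 76) (nat_lit 121227233638) (nat_lit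 76) (nat_lit 119491322882) (nat_lit 85) (nat_lit 4) (nat_lit 86) (nat_lit 5) (nat_lit 86) (nat_lit 4) (nat_lit 492) (nat_lit 322) (nat_lit 206)) (XT.lf (nat_lit 0) (nat_lit 333792672411) (nat_lit 76) (nat_lit 8418758130) (nat_lit 76) (nat_lit 6682558396) (nat_lit 85) (nat_lit 4) (nat_lit 86) (nat_lit 5) (nat_lit 86) (nat_lit 4) (nat_lit 493) (nat_lit 322) (nat_lit 205))) (XT.nd (nat_lit 78) (nat_lit 76) (nat_lit 0) (XT.lf (nat_lit 0) (nat_lit 113504439575) (nat_lit 152) (nat_lit 134970097433) (nat_lit 0) (nat_lit 111850653908) (nat_lit 83) (nat_lit 5) (nat_lit 85) (nat_lit 4) (nat_lit 83) (nat_lit 4) (nat_lit 494) (nat_lit 322) (nat_lit 204)) (XT.lf (nat_lit 0) (nat_lit 109211274290) (nat_lit 76) (nat_lit 132330967445) (nat_lit 76) (nat_lit 130676932148) (nat_lit 82) (nat_lit 4) (nat_lit 83) (nat_lit 5) (nat_lit 83) (nat_lit 4) (nat_lit 495) (nat_lit 322) (nat_lit 203)))) (XT.nd (nat_lit 156) (nat_lit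 380) (nat_lit 0) (XT.nd (nat_lit 78) (nat_lit 228) (nat_lit 0) (XT.lf (nat_lit 0) (nat_lit 3042386157) (nat_lit 228) (nat_lit 930853241) (nat_lit 228) (nat_lit 930853241) (nat_lit 228) (nat_lit 4) (nat_lit 231) (nat_lit 5) (nat_lit 231) (nat_lit 4) (nat_lit 374) (nat_lit 323) (nat_lit 323)) (XT.lf (nat_lit 0) (nat_lit 3068406479) (nat_lit 228) (nat_lit 4587837544) (nat_lit 0) (nat_lit 2358578926) (nat_lit 225) (nat_lit 5) (nat_lit 228) (nat_lit 4) (nat_lit 225) (nat_lit 4) (nat_lit 375) (nat_lit 323) (nat_lit 322))) (XT.nd (nat_lit 78) (nat_lit 228) (nat_lit 0) (XT.lf (nat_lit 0) (nat_lit 4719347954) (nat_lit 152) (nat_lit 3448745333) (nat_lit 152) (nat_lit 2062891538) (nat_lit 223) (nat_lit 4) (nat_lit 225) (nat_lit 5) (nat_lit 225) (nat_lit 4) (nat_lit 376) (nat_lit 323) (nat_lit 321)) (XT.lf (nat_lit 0) (nat_lit 2942352379) (nat_lit 228) (nat_lit 6505112222) (nat_lit 0) (nat_lit 1009315892)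 (nat_lit 220) (nat_lit 5) (nat_lit 223) (nat_lit 4) (nat_lit 220) (nat_lit 4) (nat_lit 377) (nat_lit 323) (nat_lit 320))))) (XT.nd (nat_lit 312) (nat_lit 456) (nat_lit 0) (XT.nd (nat_lit 156) (nat_lit 304) (nat_lit 0) (XT.nd (nat_lit 78) (nat_lit 228) (nat_lit 0) (XT.lf (nat_lit 0) (nat_lit 3089021090) (nat_lit 152) (nat_lit 5059581886) (nat_lit 152) (nat_lit 2542568515) (nat_lit 218) (nat_lit 4) (nat_lit 220) (nat_lit 5) (nat_lit 220) (nat_lit 4) (nat_lit 378) (nat_lit 323) (nat_lit 319)) (XT.lf (nat_lit 0) (nat_lit 2173698898) (nat_lit 152) (nat_lit 385755116) (nat_lit 228) (nat_lit 8377373613) (nat_lit 215) (nat_lit 5) (nat_lit 217) (nat_lit 5) (nat_lit 218) (nat_lit 4) (nat_lit 379) (nat_lit 323) (nat_lit 318))) (XT.nd (nat_lit 78) (nat_lit 152) (nat_lit 0) (XT.lf (nat_lit 0) (nat_lit 1124620697) (nat_lit 152) (nat_lit 6748628455) (nat_lit 152) (nat_lit 3317327424) (nat_lit 213) (nat_lit 4)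 (nat_lit 215) (nat_lit 5) (nat_lit 215) (nat_lit 4) (nat_lit 380) (nat_lit 323) (nat_lit 317)) (XT.lf (nat_lit 0) (nat_lit 10075009) (nat_lit 76) (nat_lit 1903005609) (nat_lit 152) (nat_lit 9543312658) (nat_lit 211) (nat_lit 5) (nat_lit 212) (nat_lit 5) (nat_lit 213) (nat_lit 4) (nat_lit 381) (nat_lit 323) (nat_lit 316)))) (XT.nd (nat_lit 156) (nat_lit 228) (nat_lit 0) (XT.nd (nat_lit 78) (nat_lit 228) (nat_lit 0) (XT.lf (nat_lit 0) (nat_lit 7341931035) (nat_lit 152) (nat_lit 1207738782) (nat_lit 0) (nat_lit 3180691578) (nat_lit 211) (nat_lit 5) (nat_lit 213) (nat_lit 4) (nat_lit 211) (nat_lit 4) (nat_lit 382) (nat_lit 323) (nat_lit 315)) (XT.lf (nat_lit 0) (nat_lit 1005162696) (nat_lit 228) (nat_lit 2515677398) (nat_lit 76) (nat_lit 8495700931) (nat_lit 208) (nat_lit 5) (nat_lit 211) (nat_lit 5) (nat_lit 209) (nat_lit 4) (nat_lit 383) (nat_lit 323) (nat_lit 314))) (XT.nd (nat_lit 78) (nat_lit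 152) (nat_lit 0) (XT.lf (nat_lit 0) (nat_lit 6535823515) (nat_lit 152) (nat_lit 3975822572) (nat_lit 0) (nat_lit 1801043069) (nat_lit 207) (nat_lit 5) (nat_lit 209) (nat_lit 4) (nat_lit 207) (nat_lit 4) (nat_lit 384) (nat_lit 323) (nat_lit 313)) (XT.lf (nat_lit 0) (nat_lit 7065363305) (nat_lit 152) (nat_lit 5324612531) (nat_lit 152) (nat_lit 231320935) (nat_lit 205) (nat_lit 4) (nat_lit 207) (nat_lit 5) (nat_lit 207) (nat_lit 4) (nat_lit 385) (nat_lit 323) (nat_lit 312))))))))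
noncomputable def xc79 : XT := (XT.nd (nat_lit 2496) (nat_lit 2508) (nat_lit 0) (XT.nd (nat_lit 1248) (nat_lit 1444) (nat_lit 0) (XT.nd (nat_lit 624) (nat_lit 684) (nat_lit 0) (XT.nd (nat_lit 312) (nat_lit 456) (nat_lit 0) (XT.nd (nat_lit 156) (nat_lit 304) (nat_lit 0) (XT.nd (nat_lit 78) (nat_lit 152) (nat_lit 0) (XT.lf (nat_lit 0) (nat_lit 5409088508) (nat_lit 152) (nat_lit 7298899359) (nat_lit 0) (nat_lit 233154426) (nat_lit 203) (nat_lit 5) (nat_lit 205) (nat_lit 4) (nat_lit 203) (nat_lit 4) (nat_lit 386) (nat_lit 323) (nat_lit 311)) (XT.lf (nat_lit 0) (nat_lit 4056287531) (nat_lit 152) (nat_lit 7350978192) (nat_lit 152) (nat_lit 1865348700) (nat_lit 201) (nat_lit 4) (nat_lit 203) (nat_lit 5) (nat_lit 203) (nat_lit 4) (nat_lit 387) (nat_lit 323) (nat_lit 310))) (XT.nd (nat_lit 78) (nat_lit 152) (nat_lit 0) (XT.lf (nat_lit 0) (nat_lit 2324397392) (nat_lit 76) (nat_lit 1629248897) (nat_lit 152)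 (nat_lit 9663840683) (nat_lit 199) (nat_lit 5) (nat_lit 200) (nat_lit 5) (nat_lit 201) (nat_lit 4) (nat_lit 388) (nat_lit 323) (nat_lit 309)) (XT.lf (nat_lit 0) (nat_lit 398302259) (nat_lit 152) (nat_lit 9674507513) (nat_lit 152) (nat_lit 3901669067) (nat_lit 197) (nat_lit 4) (nat_lit 199) (nat_lit 5) (nat_lit 199) (nat_lit 4) (nat_lit 389) (nat_lit 323) (nat_lit 308)))) (XT.nd (nat_lit 156) (nat_lit 304) (nat_lit 0) (XT.nd (nat_lit 78) (nat_lit 76) (nat_lit 0) (XT.lf (nat_lit 0) (nat_lit 2140053210) (nat_lit 228) (nat_lit 1640516545) (nat_lit 76) (nat_lit 10564062700) (nat_lit 196) (nat_lit 5) (nat_lit 199) (nat_lit 5) (nat_lit 197) (nat_lit 4) (nat_lit 390) (nat_lit 323) (nat_lit 307)) (XT.lf (nat_lit 0) (nat_lit 8408801623) (nat_lit 152) (nat_lit 3881384651) (nat_lit 0) (nat_lit 2437106304) (nat_lit 195) (nat_lit 5) (nat_lit 197) (nat_lit 4) (nat_lit 195) (nat_lit 4) (nat_lit 391) (nat_lit 323)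 (nat_lit 306))) (XT.nd (nat_lit 78) (nat_lit 152) (nat_lit 0) (XT.lf (nat_lit 0) (nat_lit 8815636343) (nat_lit 152) (nat_lit 6250735114) (nat_lit 152) (nat_lit 58945049) (nat_lit 193) (nat_lit 4) (nat_lit 195) (nat_lit 5) (nat_lit 195) (nat_lit 4) (nat_lit 392) (nat_lit 323) (nat_lit 305)) (XT.lf (nat_lit 0) (nat_lit 6325903171) (nat_lit 152) (nat_lit 8981885860) (nat_lit 0) (nat_lit 229327830) (nat_lit 191) (nat_lit 5) (nat_lit 193) (nat_lit 4) (nat_lit 191) (nat_lit 4) (nat_lit 393) (nat_lit 323) (nat_lit 304))))) (XT.nd (nat_lit 312) (nat_lit 304) (nat_lit 0) (XT.nd (nat_lit 156) (nat_lit 152) (nat_lit 0) (XT.nd (nat_lit 78) (nat_lit 152) (nat_lit 0) (XT.lf (nat_lit 0) (nat_lit 4051767640) (nat_lit 76) (nat_lit 9099124389) (nat_lit 76) (nat_lit 2812422930) (nat_lit 190) (nat_lit 4) (nat_lit 191) (nat_lit 5) (nat_lit 191) (nat_lit 4) (nat_lit 394) (nat_lit 323) (nat_lit 303)) (XT.lf (nat_lit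 0) (nat_lit 1333608462) (nat_lit 76) (nat_lit 2471943934) (nat_lit 152) (nat_lit 12601007584) (nat_lit 188) (nat_lit 5) (nat_lit 189) (nat_lit 5) (nat_lit 190) (nat_lit 4) (nat_lit 395) (nat_lit 323) (nat_lit 302))) (XT.nd (nat_lit 78) (nat_lit 152) (nat_lit 0) (XT.lf (nat_lit 0) (nat_lit 10784403208) (nat_lit 152) (nat_lit 1618653745) (nat_lit 0) (nat_lit 4460380405) (nat_lit 188) (nat_lit 5) (nat_lit 190) (nat_lit 4) (nat_lit 188) (nat_lit 4) (nat_lit 396) (nat_lit 323) (nat_lit 301)) (XT.lf (nat_lit 0) (nat_lit 839674914) (nat_lit 152) (nat_lit 4759106455) (nat_lit 76) (nat_lit 11739014345) (nat_lit 186) (nat_lit 5) (nat_lit 188) (nat_lit 5) (nat_lit 187) (nat_lit 4) (nat_lit 397) (nat_lit 323) (nat_lit 300)))) (XT.nd (nat_lit 156) (nat_lit 152) (nat_lit 0) (XT.nd (nat_lit 78) (nat_lit 76) (nat_lit 0) (XT.lf (nat_lit 0) (nat_lit 7961770158) (nat_lit 152) (nat_lit 8217984234) (nat_lit 0) (nat_lit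 1648047474) (nat_lit 185) (nat_lit 5) (nat_lit 187) (nat_lit 4) (nat_lit 185) (nat_lit 4) (nat_lit 398) (nat_lit 323) (nat_lit 299)) (XT.lf (nat_lit 0) (nat_lit 6355761200) (nat_lit 76) (nat_lit 9214438703) (nat_lit 76) (nat_lit 2765596937) (nat_lit 184) (nat_lit 4) (nat_lit 185) (nat_lit 5) (nat_lit 185) (nat_lit 4) (nat_lit 399) (nat_lit 323) (nat_lit 298))) (XT.nd (nat_lit 78) (nat_lit 0) (nat_lit 0) (XT.lf (nat_lit 0) (nat_lit 2817020379) (nat_lit 76) (nat_lit 1765685466) (nat_lit 152) (nat_lit 14280677070) (nat_lit 182) (nat_lit 5) (nat_lit 183) (nat_lit 5) (nat_lit 184) (nat_lit 4) (nat_lit 400) (nat_lit 323) (nat_lit 297)) (XT.lf (nat_lit 0) (nat_lit 12364153161) (nat_lit 152) (nat_lit 1059873507) (nat_lit 0) (nat_lit 5983121165) (nat_lit 182) (nat_lit 5) (nat_lit 184) (nat_lit 4) (nat_lit 182) (nat_lit 4) (nat_lit 401) (nat_lit 323) (nat_lit 296)))))) (XT.nd (nat_lit 624) (nat_lit 684)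 (nat_lit 0) (XT.nd (nat_lit 312) (nat_lit 304) (nat_lit 0) (XT.nd (nat_lit 156) (nat_lit 228) (nat_lit 0) (XT.nd (nat_lit 78) (nat_lit 76) (nat_lit 0) (XT.lf (nat_lit 0) (nat_lit 666394148) (nat_lit 152) (nat_lit 5126086794) (nat_lit 76) (nat_lit 14178803768) (nat_lit 180) (nat_lit 5) (nat_lit 182) (nat_lit 5) (nat_lit 181) (nat_lit 4) (nat_lit 402) (nat_lit 323) (nat_lit 295)) (XT.lf (nat_lit 0) (nat_lit 8616867574) (nat_lit 152) (nat_lit 9603375644) (nat_lit 0) (nat_lit 2332996969) (nat_lit 179) (nat_lit 5) (nat_lit 181) (nat_lit 4) (nat_lit 179) (nat_lit 4) (nat_lit 403) (nat_lit 323) (nat_lit 294))) (XT.nd (nat_lit 78) (nat_lit 152) (nat_lit 0) (XT.lf (nat_lit 0) (nat_lit 6699139630) (nat_lit 76) (nat_lit 10418701108) (nat_lit 76) (nat_lit 4038803895) (nat_lit 178) (nat_lit 4) (nat_lit 179) (nat_lit 5) (nat_lit 179) (nat_lit 4) (nat_lit 404) (nat_lit 323) (nat_lit 293)) (XT.lf (nat_lit 0) (nat_lit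 2099548666) (nat_lit 76) (nat_lit 2081378061) (nat_lit 152) (nat_lit 17602800679) (nat_lit 176) (nat_lit 5) (nat_lit 177) (nat_lit 5) (nat_lit 178) (nat_lit 4) (nat_lit 405) (nat_lit 323) (nat_lit 292)))) (XT.nd (nat_lit 156) (nat_lit 228) (nat_lit 0) (XT.nd (nat_lit 78) (nat_lit 76) (nat_lit 0) (XT.lf (nat_lit 0) (nat_lit 12894582075) (nat_lit 152) (nat_lit 2884899192) (nat_lit 0) (nat_lit 6648439131) (nat_lit 176) (nat_lit 5) (nat_lit 178) (nat_lit 4) (nat_lit 176) (nat_lit 4) (nat_lit 406) (nat_lit 323) (nat_lit 291)) (XT.lf (nat_lit 0) (nat_lit 14944287204) (nat_lit 76) (nat_lit 7239103297) (nat_lit 76) (nat_lit 913959025) (nat_lit 175) (nat_lit 4) (nat_lit 176) (nat_lit 5) (nat_lit 176) (nat_lit 4) (nat_lit 407) (nat_lit 323) (nat_lit 290))) (XT.nd (nat_lit 78) (nat_lit 76) (nat_lit 0) (XT.lf (nat_lit 0) (nat_lit 7982822688) (nat_lit 152) (nat_lit 13918514165) (nat_lit 0) (nat_lit 1887219228)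 (nat_lit 173) (nat_lit 5) (nat_lit 175) (nat_lit 4) (nat_lit 173) (nat_lit 4) (nat_lit 408) (nat_lit 323) (nat_lit 289)) (XT.lf (nat_lit 0) (nat_lit 4317599771) (nat_lit 76) (nat_lit 13174940614) (nat_lit 76) (nat_lit 7011092836) (nat_lit 172) (nat_lit 4) (nat_lit 173) (nat_lit 5) (nat_lit 173) (nat_lit 4) (nat_lit 409) (nat_lit 323) (nat_lit 288))))) (XT.nd (nat_lit 312) (nat_lit 304) (nat_lit 0) (XT.nd (nat_lit 156) (nat_lit 228) (nat_lit 0) (XT.nd (nat_lit 78) (nat_lit 76) (nat_lit 0) (XT.lf (nat_lit 0) (nat_lit 2264199767) (nat_lit 152) (nat_lit 1587232844) (nat_lit 76) (nat_lit 21395692085) (nat_lit 171) (nat_lit 5) (nat_lit 173) (nat_lit 5) (nat_lit 172) (nat_lit 4) (nat_lit 410) (nat_lit 323) (nat_lit 287)) (XT.lf (nat_lit 0) (nat_lit 12027175066) (nat_lit 152) (nat_lit 7945899809) (nat_lit 0) (nat_lit 6035992232) (nat_lit 170) (nat_lit 5) (nat_lit 172) (nat_lit 4) (nat_lit 170) (nat_lit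 4) (nat_lit 411) (nat_lit 323) (nat_lit 286))) (XT.nd (nat_lit 78) (nat_lit 152) (nat_lit 0) (XT.lf (nat_lit 0) (nat_lit 12021843735) (nat_lit 76) (nat_lit 10413372330) (nat_lit 76) (nat_lit 4366044728) (nat_lit 169) (nat_lit 4) (nat_lit 170) (nat_lit 5) (nat_lit 170) (nat_lit 4) (nat_lit 412) (nat_lit 323) (nat_lit 285)) (XT.lf (nat_lit 0) (nat_lit 5478294059) (nat_lit 76) (nat_lit 170043926) (nat_lit 152) (nat_lit 21975194752) (nat_lit 167) (nat_lit 5) (nat_lit 168) (nat_lit 5) (nat_lit 169) (nat_lit 4) (nat_lit 413) (nat_lit 323) (nat_lit 284)))) (XT.nd (nat_lit 156) (nat_lit 228) (nat_lit 0) (XT.nd (nat_lit 78) (nat_lit 76) (nat_lit 0) (XT.lf (nat_lit 0) (nat_lit 16315400178) (nat_lit 152) (nat_lit 1696389340) (nat_lit 0) (nat_lit 10456615632) (nat_lit 167) (nat_lit 5) (nat_lit 169) (nat_lit 4) (nat_lit 167) (nat_lit 4) (nat_lit 414) (nat_lit 323) (nat_lit 283)) (XT.lf (nat_lit 0) (nat_lit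 20186751913) (nat_lit 76) (nat_lit 7531803626) (nat_lit 76) (nat_lit 1626828641) (nat_lit 166) (nat_lit 4) (nat_lit 167) (nat_lit 5) (nat_lit 167) (nat_lit 4) (nat_lit 415) (nat_lit 323) (nat_lit 282))) (XT.nd (nat_lit 78) (nat_lit 76) (nat_lit 0) (XT.lf (nat_lit 0) (nat_lit 9299528892) (nat_lit 152) (nat_lit 17316700512) (nat_lit 0) (nat_lit 3633847100) (nat_lit 164) (nat_lit 5) (nat_lit 166) (nat_lit 4) (nat_lit 164) (nat_lit 4) (nat_lit 416) (nat_lit 323) (nat_lit 281)) (XT.lf (nat_lit 0) (nat_lit 5032411468) (nat_lit 76) (nat_lit 15929803599) (nat_lit 76) (nat_lit 10224220767) (nat_lit 163) (nat_lit 4) (nat_lit 164) (nat_lit 5) (nat_lit 164) (nat_lit 4) (nat_lit 417) (nat_lit 323) (nat_lit 280))))))) (XT.nd (nat_lit 1248) (nat_lit 1216) (nat_lit 0) (XT.nd (nat_lit 624) (nat_lit 684) (nat_lit 0) (XT.nd (nat_lit 312) (nat_lit 228) (nat_lit 0) (XT.nd (nat_lit 156) (nat_lit 228) (nat_lit 0) (XT.nd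 (nat_lit 78) (nat_lit 76) (nat_lit 0) (XT.lf (nat_lit 0) (nat_lit 1188316674) (nat_lit 152) (nat_lit 3307534638) (nat_lit 76) (nat_lit 27663794670) (nat_lit 162) (nat_lit 5) (nat_lit 164) (nat_lit 5) (nat_lit 163) (nat_lit 4) (nat_lit 418) (nat_lit 323) (nat_lit 279)) (XT.lf (nat_lit 0) (nat_lit 13169341133) (nat_lit 152) (nat_lit 12321928661) (nat_lit 0) (nat_lit 7664793286) (nat_lit 161) (nat_lit 5) (nat_lit 163) (nat_lit 4) (nat_lit 161) (nat_lit 4) (nat_lit 419) (nat_lit 323) (nat_lit 278))) (XT.nd (nat_lit 78) (nat_lit 152) (nat_lit 0) (XT.lf (nat_lit 0) (nat_lit 12193031032) (nat_lit 76) (nat_lit 13768031132) (nat_lit 76) (nat_lit 8230656601) (nat_lit 160) (nat_lit 4) (nat_lit 161) (nat_lit 5) (nat_lit 161) (nat_lit 4) (nat_lit 420) (nat_lit 323) (nat_lit 277)) (XT.lf (nat_lit 0) (nat_lit 2897017180) (nat_lit 76) (nat_lit 1232570732) (nat_lit 152) (nat_lit 31138957165) (nat_lit 158) (nat_lit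 5) (nat_lit 159) (nat_lit 5) (nat_lit 160) (nat_lit 4) (nat_lit 421) (nat_lit 323) (nat_lit 276)))) (XT.nd (nat_lit 156) (nat_lit 152) (nat_lit 0) (XT.nd (nat_lit 78) (nat_lit 76) (nat_lit 0) (XT.lf (nat_lit 0) (nat_lit 17286954744) (nat_lit 152) (nat_lit 7127592794) (nat_lit 0) (nat_lit 11955133020) (nat_lit 158) (nat_lit 5) (nat_lit 160) (nat_lit 4) (nat_lit 158) (nat_lit 4) (nat_lit 422) (nat_lit 323) (nat_lit 275)) (XT.lf (nat_lit 0) (nat_lit 19781002571) (nat_lit 76) (nat_lit 11546223379) (nat_lit 76) (nat_lit 6187395062) (nat_lit 157) (nat_lit 4) (nat_lit 158) (nat_lit 5) (nat_lit 158) (nat_lit 4) (nat_lit 423) (nat_lit 323) (nat_lit 274))) (XT.nd (nat_lit 78) (nat_lit 0) (nat_lit 0) (XT.lf (nat_lit 0) (nat_lit 7320559718) (nat_lit 152) (nat_lit 29187931539) (nat_lit 0) (nat_lit 2192417924) (nat_lit 155) (nat_lit 5) (nat_lit 157) (nat_lit 4) (nat_lit 155) (nat_lit 4) (nat_lit 424) (nat_lit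 323) (nat_lit 273)) (XT.lf (nat_lit 0) (nat_lit 21686625000) (nat_lit 152) (nat_lit 1700128737) (nat_lit 0) (nat_lit 16535153895) (nat_lit 155) (nat_lit 5) (nat_lit 157) (nat_lit 4) (nat_lit 155) (nat_lit 4) (nat_lit 425) (nat_lit 323) (nat_lit 272))))) (XT.nd (nat_lit 312) (nat_lit 380) (nat_lit 0) (XT.nd (nat_lit 156) (nat_lit 76) (nat_lit 0) (XT.nd (nat_lit 78) (nat_lit 152) (nat_lit 0) (XT.lf (nat_lit 0) (nat_lit 27852991386) (nat_lit 76) (nat_lit 9253928890) (nat_lit 76) (nat_lit 4080239393) (nat_lit 154) (nat_lit 4) (nat_lit 155) (nat_lit 5) (nat_lit 155) (nat_lit 4) (nat_lit 426) (nat_lit 323) (nat_lit 271)) (XT.lf (nat_lit 0) (nat_lit 10719933303) (nat_lit 152) (nat_lit 26000742151) (nat_lit 0) (nat_lit 5772457236) (nat_lit 152) (nat_lit 5) (nat_lit 154) (nat_lit 4) (nat_lit 152) (nat_lit 4) (nat_lit 427) (nat_lit 323) (nat_lit 270))) (XT.nd (nat_lit 78) (nat_lit 0) (nat_lit 0) (XT.lf (nat_lit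 0) (nat_lit 4129321191) (nat_lit 76) (nat_lit 22340532387) (nat_lit 76) (nat_lit 17373863239) (nat_lit 151) (nat_lit 4) (nat_lit 152) (nat_lit 5) (nat_lit 152) (nat_lit 4) (nat_lit 428) (nat_lit 323) (nat_lit 269)) (XT.lf (nat_lit 0) (nat_lit 36471166795) (nat_lit 76) (nat_lit 6879227699) (nat_lit 76) (nat_lit 1894279425) (nat_lit 151) (nat_lit 4) (nat_lit 152) (nat_lit 5) (nat_lit 152) (nat_lit 4) (nat_lit 429) (nat_lit 323) (nat_lit 268)))) (XT.nd (nat_lit 156) (nat_lit 152) (nat_lit 0) (XT.nd (nat_lit 78) (nat_lit 76) (nat_lit 0) (XT.lf (nat_lit 0) (nat_lit 14335770869) (nat_lit 152) (nat_lit 22775273496) (nat_lit 0) (nat_lit 9571621377) (nat_lit 149) (nat_lit 5) (nat_lit 151) (nat_lit 4) (nat_lit 149) (nat_lit 4) (nat_lit 430) (nat_lit 323) (nat_lit 267)) (XT.lf (nat_lit 0) (nat_lit 10335157447) (nat_lit 76) (nat_lit 21309615614) (nat_lit 76) (nat_lit 16529675926) (nat_lit 148) (nat_lit 4)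 (nat_lit 149) (nat_lit 5) (nat_lit 149) (nat_lit 4) (nat_lit 431) (nat_lit 323) (nat_lit 266))) (XT.nd (nat_lit 78) (nat_lit 76) (nat_lit 0) (XT.lf (nat_lit 0) (nat_lit 373908429) (nat_lit 152) (nat_lit 4028465689) (nat_lit 76) (nat_lit 45323485378) (nat_lit 147) (nat_lit 5) (nat_lit 149) (nat_lit 5) (nat_lit 148) (nat_lit 4) (nat_lit 432) (nat_lit 323) (nat_lit 265)) (XT.lf (nat_lit 0) (nat_lit 18197577667) (nat_lit 152) (nat_lit 19494901573) (nat_lit 0) (nat_lit 13617291817) (nat_lit 146) (nat_lit 5) (nat_lit 148) (nat_lit 4) (nat_lit 146) (nat_lit 4) (nat_lit 433) (nat_lit 323) (nat_lit 264)))))) (XT.nd (nat_lit 624) (nat_lit 532) (nat_lit 0) (XT.nd (nat_lit 312) (nat_lit 380) (nat_lit 0) (XT.nd (nat_lit 156) (nat_lit 76) (nat_lit 0) (XT.nd (nat_lit 78) (nat_lit 152) (nat_lit 0) (XT.lf (nat_lit 0) (nat_lit 16906448451) (nat_lit 76) (nat_lit 20321953817) (nat_lit 76) (nat_lit 15728677333) (nat_lit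 145) (nat_lit 4) (nat_lit 146) (nat_lit 5) (nat_lit 146) (nat_lit 4) (nat_lit 434) (nat_lit 323) (nat_lit 263)) (XT.lf (nat_lit 0) (nat_lit 937465124) (nat_lit 76) (nat_lit 1766492748) (nat_lit 152) (nat_lit 51967788975) (nat_lit 143) (nat_lit 5) (nat_lit 144) (nat_lit 5) (nat_lit 145) (nat_lit 4) (nat_lit 435) (nat_lit 323) (nat_lit 262))) (XT.nd (nat_lit 78) (nat_lit 76) (nat_lit 0) (XT.lf (nat_lit 0) (nat_lit 22337351573) (nat_lit 152) (nat_lit 16141719997) (nat_lit 0) (nat_lit 17939797855) (nat_lit 143) (nat_lit 5) (nat_lit 145) (nat_lit 4) (nat_lit 143) (nat_lit 4) (nat_lit 436) (nat_lit 323) (nat_lit 261)) (XT.lf (nat_lit 0) (nat_lit 23892704693) (nat_lit 76) (nat_lit 19376521998) (nat_lit 76) (nat_lit 14968280854) (nat_lit 142) (nat_lit 4) (nat_lit 143) (nat_lit 5) (nat_lit 143) (nat_lit 4) (nat_lit 437) (nat_lit 323) (nat_lit 260)))) (XT.nd (nat_lit 156) (nat_lit 228) (nat_lit 0) (XT.nd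 (nat_lit 78) (nat_lit 0) (nat_lit 0) (XT.lf (nat_lit 0) (nat_lit 5245139155) (nat_lit 152) (nat_lit 53845447584) (nat_lit 0) (nat_lit 1037120445) (nat_lit 140) (nat_lit 5) (nat_lit 142) (nat_lit 4) (nat_lit 140) (nat_lit 4) (nat_lit 438) (nat_lit 323) (nat_lit 259)) (XT.lf (nat_lit 0) (nat_lit 26789896373) (nat_lit 152) (nat_lit 12696420959) (nat_lit 0) (nat_lit 22572645462) (nat_lit 140) (nat_lit 5) (nat_lit 142) (nat_lit 4) (nat_lit 140) (nat_lit 4) (nat_lit 439) (nat_lit 323) (nat_lit 258))) (XT.nd (nat_lit 78) (nat_lit 152) (nat_lit 0) (XT.lf (nat_lit 0) (nat_lit 31348085907) (nat_lit 76) (nat_lit 18472160505) (nat_lit 76) (nat_lit 14246117023) (nat_lit 139) (nat_lit 4) (nat_lit 140) (nat_lit 5) (nat_lit 140) (nat_lit 4) (nat_lit 440) (nat_lit 323) (nat_lit 257)) (XT.lf (nat_lit 0) (nat_lit 7965136218) (nat_lit 152) (nat_lit 54251144246) (nat_lit 0) (nat_lit 3932357779) (nat_lit 137) (nat_lit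 5) (nat_lit 139) (nat_lit 4) (nat_lit 137) (nat_lit 4) (nat_lit 441) (nat_lit 323) (nat_lit 256))))) (XT.nd (nat_lit 312) (nat_lit 304) (nat_lit 0) (XT.nd (nat_lit 156) (nat_lit 152) (nat_lit 0) (XT.nd (nat_lit 78) (nat_lit 76) (nat_lit 0) (XT.lf (nat_lit 0) (nat_lit 31593158663) (nat_lit 152) (nat_lit 9138157637) (nat_lit 0) (nat_lit 27552784871) (nat_lit 137) (nat_lit 5) (nat_lit 139) (nat_lit 4) (nat_lit 137) (nat_lit 4) (nat_lit 442) (nat_lit 323) (nat_lit 255)) (XT.lf (nat_lit 0) (nat_lit 39331871590) (nat_lit 76) (nat_lit 17607613976) (nat_lit 76) (nat_lit 13560006513) (nat_lit 136) (nat_lit 4) (nat_lit 137) (nat_lit 5) (nat_lit 137) (nat_lit 4) (nat_lit 443) (nat_lit 323) (nat_lit 254))) (XT.nd (nat_lit 78) (nat_lit 0) (nat_lit 0) (XT.lf (nat_lit 0) (nat_lit 10857704175) (nat_lit 152) (nat_lit 54939616582) (nat_lit 0) (nat_lit 6996278771) (nat_lit 134) (nat_lit 5) (nat_lit 136) (nat_lit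 4) (nat_lit 134) (nat_lit 4) (nat_lit 444) (nat_lit 323) (nat_lit 253)) (XT.lf (nat_lit 0) (nat_lit 36788592191) (nat_lit 152) (nat_lit 5444387481) (nat_lit 0) (nat_lit 32920918070) (nat_lit 134) (nat_lit 5) (nat_lit 136) (nat_lit 4) (nat_lit 134) (nat_lit 4) (nat_lit 445) (nat_lit 323) (nat_lit 252)))) (XT.nd (nat_lit 156) (nat_lit 76) (nat_lit 0) (XT.nd (nat_lit 78) (nat_lit 152) (nat_lit 0) (XT.lf (nat_lit 0) (nat_lit 47908984701) (nat_lit 76) (nat_lit 16781562654) (nat_lit 76) (nat_lit 12907937375) (nat_lit 133) (nat_lit 4) (nat_lit 134) (nat_lit 5) (nat_lit 134) (nat_lit 4) (nat_lit 446) (nat_lit 323) (nat_lit 251)) (XT.lf (nat_lit 0) (nat_lit 13945998977) (nat_lit 152) (nat_lit 55928772699) (nat_lit 0) (nat_lit 10251434168) (nat_lit 131) (nat_lit 5) (nat_lit 133) (nat_lit 4) (nat_lit 131) (nat_lit 4) (nat_lit 447) (nat_lit 323) (nat_lit 250))) (XT.nd (nat_lit 78) (nat_lit 76) (nat_lit 0)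 (XT.lf (nat_lit 0) (nat_lit 42421553629) (nat_lit 152) (nat_lit 1590695480) (nat_lit 0) (nat_lit 38721847985) (nat_lit 131) (nat_lit 5) (nat_lit 133) (nat_lit 4) (nat_lit 131) (nat_lit 4) (nat_lit 448) (nat_lit 323) (nat_lit 249)) (XT.lf (nat_lit 0) (nat_lit 57150572926) (nat_lit 76) (nat_lit 15992647470) (nat_lit 76) (nat_lit 12288045793) (nat_lit 130) (nat_lit 4) (nat_lit 131) (nat_lit 5) (nat_lit 131) (nat_lit 4) (nat_lit 449) (nat_lit 323) (nat_lit 248))))))))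
noncomputable def xc80 : XT := (XT.nd (nat_lit 1248) (nat_lit 1216) (nat_lit 0) (XT.nd (nat_lit 624) (nat_lit 608) (nat_lit 0) (XT.nd (nat_lit 312) (nat_lit 304) (nat_lit 0) (XT.nd (nat_lit 156) (nat_lit 152) (nat_lit 0) (XT.nd (nat_lit 78) (nat_lit 76) (nat_lit 0) (XT.lf (nat_lit 0) (nat_lit 17255217208) (nat_lit 152) (nat_lit 57238811228) (nat_lit 0) (nat_lit 13722584288) (nat_lit 128) (nat_lit 5) (nat_lit 130) (nat_lit 4) (nat_lit 128) (nat_lit 4) (nat_lit 450) (nat_lit 323) (nat_lit 247)) (XT.lf (nat_lit 0) (nat_lit 2530392092) (nat_lit 76) (nat_lit 46050848410) (nat_lit 76) (nat_lit 42513986112) (nat_lit 127) (nat_lit 4) (nat_lit 128) (nat_lit 5) (nat_lit 128) (nat_lit 4) (nat_lit 451) (nat_lit 323) (nat_lit 246))) (XT.nd (nat_lit 78) (nat_lit 152) (nat_lit 0) (XT.lf (nat_lit 0) (nat_lit 67134652540) (nat_lit 76) (nat_lit 15239490027) (nat_lit 76) (nat_lit 11698599751) (nat_lit 127) (nat_lit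 4) (nat_lit 128) (nat_lit 5) (nat_lit 128) (nat_lit 4) (nat_lit 452) (nat_lit 323) (nat_lit 245)) (XT.lf (nat_lit 0) (nat_lit 20812833949) (nat_lit 152) (nat_lit 58892447301) (nat_lit 0) (nat_lit 17436904000) (nat_lit 125) (nat_lit 5) (nat_lit 127) (nat_lit 4) (nat_lit 125) (nat_lit 4) (nat_lit 453) (nat_lit 323) (nat_lit 244)))) (XT.nd (nat_lit 156) (nat_lit 228) (nat_lit 0) (XT.nd (nat_lit 78) (nat_lit 0) (nat_lit 0) (XT.lf (nat_lit 0) (nat_lit 6926373703) (nat_lit 76) (nat_lit 48385396524) (nat_lit 76) (nat_lit 45005987056) (nat_lit 124) (nat_lit 4) (nat_lit 125) (nat_lit 5) (nat_lit 125) (nat_lit 4) (nat_lit 454) (nat_lit 323) (nat_lit 243)) (XT.lf (nat_lit 0) (nat_lit 77946820587) (nat_lit 76) (nat_lit 14520708422) (nat_lit 76) (nat_lit 11137985126) (nat_lit 124) (nat_lit 4) (nat_lit 125) (nat_lit 5) (nat_lit 125) (nat_lit 4) (nat_lit 455) (nat_lit 323) (nat_lit 242))) (XT.nd (nat_lit 78)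 (nat_lit 76) (nat_lit 0) (XT.lf (nat_lit 0) (nat_lit 24648861385) (nat_lit 152) (nat_lit 60915159816) (nat_lit 0) (nat_lit 21424214411) (nat_lit 122) (nat_lit 5) (nat_lit 124) (nat_lit 4) (nat_lit 122) (nat_lit 4) (nat_lit 456) (nat_lit 323) (nat_lit 241)) (XT.lf (nat_lit 0) (nat_lit 11577001247) (nat_lit 76) (nat_lit 51070809261) (nat_lit 76) (nat_lit 47843299678) (nat_lit 121) (nat_lit 4) (nat_lit 122) (nat_lit 5) (nat_lit 122) (nat_lit 4) (nat_lit 457) (nat_lit 323) (nat_lit 240))))) (XT.nd (nat_lit 312) (nat_lit 380) (nat_lit 0) (XT.nd (nat_lit 156) (nat_lit 76) (nat_lit 0) (XT.nd (nat_lit 78) (nat_lit 152) (nat_lit 0) (XT.lf (nat_lit 0) (nat_lit 89681041804) (nat_lit 76) (nat_lit 13834929671) (nat_lit 76) (nat_lit 10604693793) (nat_lit 121) (nat_lit 4) (nat_lit 122) (nat_lit 5) (nat_lit 122) (nat_lit 4) (nat_lit 458) (nat_lit 323) (nat_lit 239)) (XT.lf (nat_lit 0) (nat_lit 28796130850) (nat_lit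 152) (nat_lit 63335462689) (nat_lit 0) (nat_lit 25717242899) (nat_lit 119) (nat_lit 5) (nat_lit 121) (nat_lit 4) (nat_lit 119) (nat_lit 4) (nat_lit 459) (nat_lit 323) (nat_lit 238))) (XT.nd (nat_lit 78) (nat_lit 0) (nat_lit 0) (XT.lf (nat_lit 0) (nat_lit 16517522200) (nat_lit 76) (nat_lit 54138097066) (nat_lit 76) (nat_lit 51056854039) (nat_lit 118) (nat_lit 4) (nat_lit 119) (nat_lit 5) (nat_lit 119) (nat_lit 4) (nat_lit 460) (nat_lit 323) (nat_lit 237)) (XT.lf (nat_lit 0) (nat_lit 102440517493) (nat_lit 76) (nat_lit 13180799370) (nat_lit 76) (nat_lit 10097313414) (nat_lit 118) (nat_lit 4) (nat_lit 119) (nat_lit 5) (nat_lit 119) (nat_lit 4) (nat_lit 461) (nat_lit 323) (nat_lit 236)))) (XT.nd (nat_lit 156) (nat_lit 152) (nat_lit 0) (XT.nd (nat_lit 78) (nat_lit 76) (nat_lit 0) (XT.lf (nat_lit 0) (nat_lit 33290601188) (nat_lit 152) (nat_lit 66185202940) (nat_lit 0) (nat_lit 30351913494) (nat_lit 116)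 (nat_lit 5) (nat_lit 118) (nat_lit 4) (nat_lit 116) (nat_lit 4) (nat_lit 462) (nat_lit 323) (nat_lit 235)) (XT.lf (nat_lit 0) (nat_lit 21786394049) (nat_lit 76) (nat_lit 57621621022) (nat_lit 76) (nat_lit 54680995801) (nat_lit 115) (nat_lit 4) (nat_lit 116) (nat_lit 5) (nat_lit 116) (nat_lit 4) (nat_lit 463) (nat_lit 323) (nat_lit 234))) (XT.nd (nat_lit 78) (nat_lit 152) (nat_lit 0) (XT.lf (nat_lit 0) (nat_lit 116338644357) (nat_lit 76) (nat_lit 12556989110) (nat_lit 76) (nat_lit 9614518626) (nat_lit 115) (nat_lit 4) (nat_lit 116) (nat_lit 5) (nat_lit 116) (nat_lit 4) (nat_lit 464) (nat_lit 323) (nat_lit 233)) (XT.lf (nat_lit 0) (nat_lit 38171696532) (nat_lit 152) (nat_lit 69499888676) (nat_lit 0) (nat_lit 35367669981) (nat_lit 113) (nat_lit 5) (nat_lit 115) (nat_lit 4) (nat_lit 113) (nat_lit 4) (nat_lit 465) (nat_lit 323) (nat_lit 232)))))) (XT.nd (nat_lit 624) (nat_lit 684) (nat_lit 0) (XT.nd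 (nat_lit 312) (nat_lit 228) (nat_lit 0) (XT.nd (nat_lit 156) (nat_lit 228) (nat_lit 0) (XT.nd (nat_lit 78) (nat_lit 0) (nat_lit 0) (XT.lf (nat_lit 0) (nat_lit 27425626704) (nat_lit 76) (nat_lit 61559439407) (nat_lit 76) (nat_lit 58753818848) (nat_lit 112) (nat_lit 4) (nat_lit 113) (nat_lit 5) (nat_lit 113) (nat_lit 4) (nat_lit 466) (nat_lit 323) (nat_lit 231)) (XT.lf (nat_lit 0) (nat_lit 131500072244) (nat_lit 76) (nat_lit 11962202064) (nat_lit 76) (nat_lit 9155063403) (nat_lit 112) (nat_lit 4) (nat_lit 113) (nat_lit 5) (nat_lit 113) (nat_lit 4) (nat_lit 467) (nat_lit 323) (nat_lit 230))) (XT.nd (nat_lit 78) (nat_lit 76) (nat_lit 0) (XT.lf (nat_lit 0) (nat_lit 43482676838) (nat_lit 152) (nat_lit 73319050309) (nat_lit 0) (nat_lit 40807834483) (nat_lit 110) (nat_lit 5) (nat_lit 112) (nat_lit 4) (nat_lit 110) (nat_lit 4) (nat_lit 468) (nat_lit 323) (nat_lit 229)) (XT.lf (nat_lit 0) (nat_lit 33481160400)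 (nat_lit 76) (nat_lit 65993687620) (nat_lit 76) (nat_lit 63317533871) (nat_lit 109) (nat_lit 4) (nat_lit 110) (nat_lit 5) (nat_lit 110) (nat_lit 4) (nat_lit 469) (nat_lit 323) (nat_lit 228)))) (XT.nd (nat_lit 156) (nat_lit 76) (nat_lit 0) (XT.nd (nat_lit 78) (nat_lit 152) (nat_lit 0) (XT.lf (nat_lit 0) (nat_lit 148061870669) (nat_lit 76) (nat_lit 11395177096) (nat_lit 76) (nat_lit 8717774399) (nat_lit 109) (nat_lit 4) (nat_lit 110) (nat_lit 5) (nat_lit 110) (nat_lit 4) (nat_lit 470) (nat_lit 323) (nat_lit 227)) (XT.lf (nat_lit 0) (nat_lit 49271044816) (nat_lit 152) (nat_lit 77686638598) (nat_lit 0) (nat_lit 46720004655) (nat_lit 107) (nat_lit 5) (nat_lit 109) (nat_lit 4) (nat_lit 107) (nat_lit 4) (nat_lit 471) (nat_lit 323) (nat_lit 226))) (XT.nd (nat_lit 78) (nat_lit 0) (nat_lit 0) (XT.lf (nat_lit 0) (nat_lit 40003282526) (nat_lit 76) (nat_lit 70970995356) (nat_lit 76) (nat_lit 68418876308) (nat_lit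 106) (nat_lit 4) (nat_lit 107) (nat_lit 5) (nat_lit 107) (nat_lit 4) (nat_lit 472) (nat_lit 323) (nat_lit 225)) (XT.lf (nat_lit 0) (nat_lit 166174815094) (nat_lit 76) (nat_lit 10854691687) (nat_lit 76) (nat_lit 8301545126) (nat_lit 106) (nat_lit 4) (nat_lit 107) (nat_lit 5) (nat_lit 107) (nat_lit 4) (nat_lit 473) (nat_lit 323) (nat_lit 224))))) (XT.nd (nat_lit 312) (nat_lit 304) (nat_lit 0) (XT.nd (nat_lit 156) (nat_lit 152) (nat_lit 0) (XT.nd (nat_lit 78) (nat_lit 76) (nat_lit 0) (XT.lf (nat_lit 0) (nat_lit 55588993202) (nat_lit 152) (nat_lit 82651463470) (nat_lit 0) (nat_lit 53156493065) (nat_lit 104) (nat_lit 5) (nat_lit 106) (nat_lit 4) (nat_lit 104) (nat_lit 4) (nat_lit 474) (nat_lit 323) (nat_lit 223)) (XT.lf (nat_lit 0) (nat_lit 47047087207) (nat_lit 76) (nat_lit 76542945215) (nat_lit 76) (nat_lit 74109557475) (nat_lit 103) (nat_lit 4) (nat_lit 104) (nat_lit 5) (nat_lit 104) (nat_lit 4)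 (nat_lit 475) (nat_lit 323) (nat_lit 222))) (XT.nd (nat_lit 78) (nat_lit 152) (nat_lit 0) (XT.lf (nat_lit 0) (nat_lit 186004805082) (nat_lit 76) (nat_lit 10339563894) (nat_lit 76) (nat_lit 7905330818) (nat_lit 103) (nat_lit 4) (nat_lit 104) (nat_lit 5) (nat_lit 104) (nat_lit 4) (nat_lit 476) (nat_lit 323) (nat_lit 221)) (XT.lf (nat_lit 0) (nat_lit 62493896705) (nat_lit 152) (nat_lit 88267677912) (nat_lit 0) (nat_lit 60174812744) (nat_lit 101) (nat_lit 5) (nat_lit 103) (nat_lit 4) (nat_lit 101) (nat_lit 4) (nat_lit 477) (nat_lit 323) (nat_lit 220)))) (XT.nd (nat_lit 156) (nat_lit 228) (nat_lit 0) (XT.nd (nat_lit 78) (nat_lit 0) (nat_lit 0) (XT.lf (nat_lit 0) (nat_lit 54672981897) (nat_lit 76) (nat_lit 82766577298) (nat_lit 76) (nat_lit 80446763104) (nat_lit 100) (nat_lit 4) (nat_lit 101) (nat_lit 5) (nat_lit 101) (nat_lit 4) (nat_lit 478) (nat_lit 323) (nat_lit 219)) (XT.lf (nat_lit 0) (nat_lit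 207734427721) (nat_lit 76) (nat_lit 9848653548) (nat_lit 76) (nat_lit 7528143893) (nat_lit 100) (nat_lit 4) (nat_lit 101) (nat_lit 5) (nat_lit 101) (nat_lit 4) (nat_lit 479) (nat_lit 323) (nat_lit 218))) (XT.nd (nat_lit 78) (nat_lit 76) (nat_lit 0) (XT.lf (nat_lit 0) (nat_lit 70048853373) (nat_lit 152) (nat_lit 94595311667) (nat_lit 0) (nat_lit 67838213376) (nat_lit 98) (nat_lit 5) (nat_lit 100) (nat_lit 4) (nat_lit 98) (nat_lit 4) (nat_lit 480) (nat_lit 323) (nat_lit 217)) (XT.lf (nat_lit 0) (nat_lit 62947245709) (nat_lit 76) (nat_lit 89704944764) (nat_lit 76) (nat_lit 87493704002) (nat_lit 97) (nat_lit 4) (nat_lit 98) (nat_lit 5) (nat_lit 98) (nat_lit 4) (nat_lit 481) (nat_lit 323) (nat_lit 216)))))))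
noncomputable def xc81 : XT := (XT.nd (nat_lit 44694) (nat_lit 0) (nat_lit 8588) (XT.nd (nat_lit 624) (nat_lit 456) (nat_lit 0) (XT.nd (nat_lit 312) (nat_lit 380) (nat_lit 0) (XT.nd (nat_lit 156) (nat_lit 76) (nat_lit 0) (XT.nd (nat_lit 78) (nat_lit 152) (nat_lit 0) (XT.lf (nat_lit 0) (nat_lit 231564681119) (nat_lit 76) (nat_lit 9380862831) (nat_lit 76) (nat_lit 7169049912) (nat_lit 97) (nat_lit 4) (nat_lit 98) (nat_lit 5) (nat_lit 98) (nat_lit 4) (nat_lit 482) (nat_lit 323) (nat_lit 215)) (XT.lf (nat_lit 0) (nat_lit 78323280565) (nat_lit 152) (nat_lit 101700859892) (nat_lit 0) (nat_lit 76216273107) (nat_lit 95) (nat_lit 5) (nat_lit 97) (nat_lit 4) (nat_lit 95) (nat_lit 4) (nat_lit 483) (nat_lit 323) (nat_lit 214))) (XT.nd (nat_lit 78) (nat_lit 0) (nat_lit 0) (XT.lf (nat_lit 0) (nat_lit 71942644707) (nat_lit 76) (nat_lit 97427725742) (nat_lit 76) (nat_lit 95320224034) (nat_lit 94) (nat_lit 4) (nat_lit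 95) (nat_lit 5) (nat_lit 95) (nat_lit 4) (nat_lit 484) (nat_lit 323) (nat_lit 213)) (XT.lf (nat_lit 0) (nat_lit 257716874307) (nat_lit 76) (nat_lit 8935136385) (nat_lit 76) (nat_lit 6827163962) (nat_lit 94) (nat_lit 4) (nat_lit 95) (nat_lit 5) (nat_lit 95) (nat_lit 4) (nat_lit 485) (nat_lit 323) (nat_lit 212)))) (XT.nd (nat_lit 156) (nat_lit 152) (nat_lit 0) (XT.nd (nat_lit 78) (nat_lit 76) (nat_lit 0) (XT.lf (nat_lit 0) (nat_lit 87393571234) (nat_lit 152) (nat_lit 109657932498) (nat_lit 0) (nat_lit 85385551498) (nat_lit 92) (nat_lit 5) (nat_lit 94) (nat_lit 4) (nat_lit 92) (nat_lit 4) (nat_lit 486) (nat_lit 323) (nat_lit 211)) (XT.lf (nat_lit 0) (nat_lit 81739109941) (nat_lit 76) (nat_lit 106011897563) (nat_lit 76) (nat_lit 104003471205) (nat_lit 91) (nat_lit 4) (nat_lit 92) (nat_lit 5) (nat_lit 92) (nat_lit 4) (nat_lit 487) (nat_lit 323) (nat_lit 210))) (XT.nd (nat_lit 78) (nat_lit 152) (nat_lit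 0) (XT.lf (nat_lit 0) (nat_lit 286434721579) (nat_lit 76) (nat_lit 8510461024) (nat_lit 76) (nat_lit 6501647408) (nat_lit 91) (nat_lit 4) (nat_lit 92) (nat_lit 5) (nat_lit 92) (nat_lit 4) (nat_lit 488) (nat_lit 323) (nat_lit 209)) (XT.lf (nat_lit 0) (nat_lit 97343816822) (nat_lit 152) (nat_lit 118547970406) (nat_lit 0) (nat_lit 95430309742) (nat_lit 89) (nat_lit 5) (nat_lit 91) (nat_lit 4) (nat_lit 89) (nat_lit 4) (nat_lit 489) (nat_lit 323) (nat_lit 208))))) (XT.nd (nat_lit 312) (nat_lit 152) (nat_lit 0) (XT.nd (nat_lit 156) (nat_lit 228) (nat_lit 0) (XT.nd (nat_lit 78) (nat_lit 0) (nat_lit 0) (XT.lf (nat_lit 0) (nat_lit 92424484624) (nat_lit 76) (nat_lit 115542479817) (nat_lit 76) (nat_lit 113628638209) (nat_lit 88) (nat_lit 4) (nat_lit 89) (nat_lit 5) (nat_lit 89) (nat_lit 4) (nat_lit 490) (nat_lit 323) (nat_lit 207)) (XT.lf (nat_lit 0) (nat_lit 317986651149) (nat_lit 76) (nat_lit 8105865163)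 (nat_lit 76) (nat_lit 6191704957) (nat_lit 88) (nat_lit 4) (nat_lit 89) (nat_lit 5) (nat_lit 89) (nat_lit 4) (nat_lit 491) (nat_lit 323) (nat_lit 206))) (XT.nd (nat_lit 78) (nat_lit 76) (nat_lit 0) (XT.lf (nat_lit 0) (nat_lit 108266603640) (nat_lit 152) (nat_lit 128461035625) (nat_lit 0) (nat_lit 106443304942) (nat_lit 86) (nat_lit 5) (nat_lit 88) (nat_lit 4) (nat_lit 86) (nat_lit 4) (nat_lit 492) (nat_lit 323) (nat_lit 205)) (XT.lf (nat_lit 0) (nat_lit 104095347494) (nat_lit 76) (nat_lit 126113353395) (nat_lit 76) (nat_lit 124289779479) (nat_lit 85) (nat_lit 4) (nat_lit 86) (nat_lit 5) (nat_lit 86) (nat_lit 4) (nat_lit 493) (nat_lit 323) (nat_lit 204)))) (XT.nd (nat_lit 43602) (nat_lit 0) (nat_lit 11248) (XT.nd (nat_lit 78) (nat_lit 152) (nat_lit 0) (XT.lf (nat_lit 0) (nat_lit 352668350085) (nat_lit 76) (nat_lit 7720418013) (nat_lit 76) (nat_lit 5896581985) (nat_lit 85) (nat_lit 4) (nat_lit 86)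 (nat_lit 5) (nat_lit 86) (nat_lit 4) (nat_lit 494) (nat_lit 323) (nat_lit 203)) (XT.lf (nat_lit 0) (nat_lit 120263890363) (nat_lit 152) (nat_lit 139496682730) (nat_lit 0) (nat_lit 118526665928) (nat_lit 83) (nat_lit 5) (nat_lit 85) (nat_lit 4) (nat_lit 83) (nat_lit 4) (nat_lit 495) (nat_lit 323) (nat_lit 202))) (XT.nd (nat_lit 78) (nat_lit 228) (nat_lit 0) (XT.lf (nat_lit 0) (nat_lit 3693348957) (nat_lit 228) (nat_lit 507556262) (nat_lit 228) (nat_lit 507556262) (nat_lit 234) (nat_lit 4) (nat_lit 237) (nat_lit 5) (nat_lit 237) (nat_lit 4) (nat_lit 372) (nat_lit 324) (nat_lit 324)) (XT.lf (nat_lit 0) (nat_lit 3727595678) (nat_lit 228) (nat_lit 2936941519) (nat_lit 0) (nat_lit 2945010800) (nat_lit 231) (nat_lit 5) (nat_lit 234) (nat_lit 4) (nat_lit 231) (nat_lit 4) (nat_lit 373) (nat_lit 324) (nat_lit 323)))))) (XT.nd (nat_lit 624) (nat_lit 1216) (nat_lit 0) (XT.nd (nat_lit 312) (nat_lit 608) (nat_lit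 0) (XT.nd (nat_lit 156) (nat_lit 380) (nat_lit 0) (XT.nd (nat_lit 78) (nat_lit 228) (nat_lit 0) (XT.lf (nat_lit 0) (nat_lit 5940033440) (nat_lit 228) (nat_lit 2700247395) (nat_lit 228) (nat_lit 1172343586) (nat_lit 228) (nat_lit 4) (nat_lit 231) (nat_lit 5) (nat_lit 231) (nat_lit 4) (nat_lit 374) (nat_lit 324) (nat_lit 322)) (XT.lf (nat_lit 0) (nat_lit 3631065593) (nat_lit 228) (nat_lit 4892997480) (nat_lit 0) (nat_lit 1499892867) (nat_lit 225) (nat_lit 5) (nat_lit 228) (nat_lit 4) (nat_lit 225) (nat_lit 4) (nat_lit 375) (nat_lit 324) (nat_lit 321))) (XT.nd (nat_lit 78) (nat_lit 228) (nat_lit 0) (XT.lf (nat_lit 0) (nat_lit 4257640491) (nat_lit 152) (nat_lit 4381043982) (nat_lit 152) (nat_lit 1606036740) (nat_lit 223) (nat_lit 4) (nat_lit 225) (nat_lit 5) (nat_lit 225) (nat_lit 4) (nat_lit 376) (nat_lit 324) (nat_lit 320)) (XT.lf (nat_lit 0) (nat_lit 3274641670) (nat_lit 228) (nat_lit 7153214992)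 (nat_lit 0) (nat_lit 47800745) (nat_lit 220) (nat_lit 5) (nat_lit 223) (nat_lit 4) (nat_lit 220) (nat_lit 4) (nat_lit 377) (nat_lit 324) (nat_lit 319)))) (XT.nd (nat_lit 156) (nat_lit 228) (nat_lit 0) (XT.nd (nat_lit 78) (nat_lit 228) (nat_lit 0) (XT.lf (nat_lit 0) (nat_lit 2271546887) (nat_lit 152) (nat_lit 6113160085) (nat_lit 152) (nat_lit 2330150698) (nat_lit 218) (nat_lit 4) (nat_lit 220) (nat_lit 5) (nat_lit 220) (nat_lit 4) (nat_lit 378) (nat_lit 324) (nat_lit 318)) (XT.lf (nat_lit 0) (nat_lit 1152909111) (nat_lit 152) (nat_lit 1513238570) (nat_lit 228) (nat_lit 8299146576) (nat_lit 215) (nat_lit 5) (nat_lit 217) (nat_lit 5) (nat_lit 218) (nat_lit 4) (nat_lit 379) (nat_lit 324) (nat_lit 317))) (XT.nd (nat_lit 78) (nat_lit 228) (nat_lit 0) (XT.lf (nat_lit 0) (nat_lit 7862600391) (nat_lit 228) (nat_lit 87476044) (nat_lit 0) (nat_lit 3274833890) (nat_lit 215) (nat_lit 5) (nat_lit 218) (nat_lit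 4) (nat_lit 215) (nat_lit 4) (nat_lit 380) (nat_lit 324) (nat_lit 316)) (XT.lf (nat_lit 0) (nat_lit 1786140777) (nat_lit 228) (nat_lit 1383739077) (nat_lit 76) (nat_lit 8325052140) (nat_lit 212) (nat_lit 5) (nat_lit 215) (nat_lit 5) (nat_lit 213) (nat_lit 4) (nat_lit 381) (nat_lit 324) (nat_lit 315))))) (XT.nd (nat_lit 312) (nat_lit 684) (nat_lit 0) (XT.nd (nat_lit 156) (nat_lit 228) (nat_lit 0) (XT.nd (nat_lit 78) (nat_lit 228) (nat_lit 0) (XT.lf (nat_lit 0) (nat_lit 7091419141) (nat_lit 152) (nat_lit 2812335875) (nat_lit 0) (nat_lit 1871323699) (nat_lit 211) (nat_lit 5) (nat_lit 213) (nat_lit 4) (nat_lit 211) (nat_lit 4) (nat_lit 382) (nat_lit 324) (nat_lit 314)) (XT.lf (nat_lit 0) (nat_lit 612293425) (nat_lit 228) (nat_lit 4360152462) (nat_lit 76) (nat_lit 7094397388) (nat_lit 208) (nat_lit 5) (nat_lit 211) (nat_lit 5) (nat_lit 209) (nat_lit 4) (nat_lit 383) (nat_lit 324) (nat_lit 313))) (XT.nd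 (nat_lit 78) (nat_lit 152) (nat_lit 0) (XT.lf (nat_lit 0) (nat_lit 6009871364) (nat_lit 152) (nat_lit 6056370146) (nat_lit 0) (nat_lit 303404039) (nat_lit 207) (nat_lit 5) (nat_lit 209) (nat_lit 4) (nat_lit 207) (nat_lit 4) (nat_lit 384) (nat_lit 324) (nat_lit 312)) (XT.lf (nat_lit 0) (nat_lit 4771938050) (nat_lit 152) (nat_lit 6979915079) (nat_lit 152) (nat_lit 932008564) (nat_lit 205) (nat_lit 4) (nat_lit 207) (nat_lit 5) (nat_lit 207) (nat_lit 4) (nat_lit 385) (nat_lit 324) (nat_lit 311)))) (XT.nd (nat_lit 156) (nat_lit 380) (nat_lit 0) (XT.nd (nat_lit 78) (nat_lit 152) (nat_lit 0) (XT.lf (nat_lit 0) (nat_lit 3079242343) (nat_lit 76) (nat_lit 1531649871) (nat_lit 152) (nat_lit 8399358738) (nat_lit 203) (nat_lit 5) (nat_lit 204) (nat_lit 5) (nat_lit 205) (nat_lit 4) (nat_lit 386) (nat_lit 324) (nat_lit 310)) (XT.lf (nat_lit 0) (nat_lit 1216980159) (nat_lit 152) (nat_lit 9248244768) (nat_lit 152)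 (nat_lit 2883690381) (nat_lit 201) (nat_lit 4) (nat_lit 203) (nat_lit 5) (nat_lit 203) (nat_lit 4) (nat_lit 387) (nat_lit 324) (nat_lit 309))) (XT.nd (nat_lit 78) (nat_lit 304) (nat_lit 0) (XT.lf (nat_lit 0) (nat_lit 2856236183) (nat_lit 228) (nat_lit 790173077) (nat_lit 76) (nat_lit 10053756640) (nat_lit 200) (nat_lit 5) (nat_lit 203) (nat_lit 5) (nat_lit 201) (nat_lit 4) (nat_lit 388) (nat_lit 324) (nat_lit 308)) (XT.nd (nat_lit 78) (nat_lit 228) (nat_lit 0) (XT.lf (nat_lit 0) (nat_lit 8849790632) (nat_lit 152) (nat_lit 2947651043) (nat_lit 0) (nat_lit 2265996544) (nat_lit 199) (nat_lit 5) (nat_lit 201) (nat_lit 4) (nat_lit 199) (nat_lit 4) (nat_lit 389) (nat_lit 324) (nat_lit 307)) (XT.lf (nat_lit 0) (nat_lit 746999709) (nat_lit 228) (nat_lit 5295099142) (nat_lit 76) (nat_lit 8398670491) (nat_lit 196) (nat_lit 5) (nat_lit 199) (nat_lit 5) (nat_lit 197) (nat_lit 4) (nat_lit 390) (nat_lit 324)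 (nat_lit 306))))))))
noncomputable def xc82 : XT := (XT.nd (nat_lit 2496) (nat_lit 2508) (nat_lit 0) (XT.nd (nat_lit 1248) (nat_lit 1368) (nat_lit 0) (XT.nd (nat_lit 624) (nat_lit 684) (nat_lit 0) (XT.nd (nat_lit 312) (nat_lit 456) (nat_lit 0) (XT.nd (nat_lit 156) (nat_lit 152) (nat_lit 0) (XT.nd (nat_lit 78) (nat_lit 152) (nat_lit 0) (XT.lf (nat_lit 0) (nat_lit 6846153617) (nat_lit 152) (nat_lit 7861076271) (nat_lit 0) (nat_lit 124679302) (nat_lit 195) (nat_lit 5) (nat_lit 197) (nat_lit 4) (nat_lit 195) (nat_lit 4) (nat_lit 391) (nat_lit 324) (nat_lit 305)) (XT.lf (nat_lit 0) (nat_lit 4565176803) (nat_lit 152) (nat_lit 8801352198) (nat_lit 152) (nat_lit 1870263840) (nat_lit 193) (nat_lit 4) (nat_lit 195) (nat_lit 5) (nat_lit 195) (nat_lit 4) (nat_lit 392) (nat_lit 324) (nat_lit 304))) (XT.nd (nat_lit 78) (nat_lit 0) (nat_lit 0) (XT.lf (nat_lit 0) (nat_lit 1942818039) (nat_lit 76) (nat_lit 2483298458)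 (nat_lit 152) (nat_lit 11231212757) (nat_lit 191) (nat_lit 5) (nat_lit 192) (nat_lit 5) (nat_lit 193) (nat_lit 4) (nat_lit 393) (nat_lit 324) (nat_lit 303)) (XT.lf (nat_lit 0) (nat_lit 11078709689) (nat_lit 152) (nat_lit 906962898) (nat_lit 0) (nat_lit 4106474548) (nat_lit 191) (nat_lit 5) (nat_lit 193) (nat_lit 4) (nat_lit 191) (nat_lit 4) (nat_lit 394) (nat_lit 324) (nat_lit 302)))) (XT.nd (nat_lit 156) (nat_lit 228) (nat_lit 0) (XT.nd (nat_lit 78) (nat_lit 76) (nat_lit 0) (XT.lf (nat_lit 0) (nat_lit 1569070862) (nat_lit 152) (nat_lit 3928089865) (nat_lit 76) (nat_lit 11045245291) (nat_lit 189) (nat_lit 5) (nat_lit 191) (nat_lit 5) (nat_lit 190) (nat_lit 4) (nat_lit 395) (nat_lit 324) (nat_lit 301)) (XT.lf (nat_lit 0) (nat_lit 8366333860) (nat_lit 152) (nat_lit 7236574325) (nat_lit 0) (nat_lit 1405454601) (nat_lit 188) (nat_lit 5) (nat_lit 190) (nat_lit 4) (nat_lit 188) (nat_lit 4) (nat_lit 396)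 (nat_lit 324) (nat_lit 300))) (XT.nd (nat_lit 78) (nat_lit 152) (nat_lit 0) (XT.lf (nat_lit 0) (nat_lit 6655823483) (nat_lit 76) (nat_lit 8972694529) (nat_lit 76) (nat_lit 1862846482) (nat_lit 187) (nat_lit 4) (nat_lit 188) (nat_lit 5) (nat_lit 188) (nat_lit 4) (nat_lit 397) (nat_lit 324) (nat_lit 299)) (XT.lf (nat_lit 0) (nat_lit 3256893293) (nat_lit 76) (nat_lit 1869261036) (nat_lit 152) (nat_lit 12866306388) (nat_lit 185) (nat_lit 5) (nat_lit 186) (nat_lit 5) (nat_lit 187) (nat_lit 4) (nat_lit 398) (nat_lit 324) (nat_lit 298))))) (XT.nd (nat_lit 312) (nat_lit 380) (nat_lit 0) (XT.nd (nat_lit 156) (nat_lit 152) (nat_lit 0) (XT.nd (nat_lit 78) (nat_lit 152) (nat_lit 0) (XT.lf (nat_lit 0) (nat_lit 12539871631) (nat_lit 152) (nat_lit 465535826) (nat_lit 0) (nat_lit 5504783855) (nat_lit 185) (nat_lit 5) (nat_lit 187) (nat_lit 4) (nat_lit 185) (nat_lit 4) (nat_lit 399) (nat_lit 324) (nat_lit 297))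 (XT.lf (nat_lit 0) (nat_lit 1362744586) (nat_lit 152) (nat_lit 4364018362) (nat_lit 76) (nat_lit 13319406657) (nat_lit 183) (nat_lit 5) (nat_lit 185) (nat_lit 5) (nat_lit 184) (nat_lit 4) (nat_lit 400) (nat_lit 324) (nat_lit 296))) (XT.nd (nat_lit 78) (nat_lit 76) (nat_lit 0) (XT.lf (nat_lit 0) (nat_lit 8944797547) (nat_lit 152) (nat_lit 8638276488) (nat_lit 0) (nat_lit 2016830206) (nat_lit 182) (nat_lit 5) (nat_lit 184) (nat_lit 4) (nat_lit 182) (nat_lit 4) (nat_lit 401) (nat_lit 324) (nat_lit 295)) (XT.lf (nat_lit 0) (nat_lit 6899835906) (nat_lit 76) (nat_lit 10153966947) (nat_lit 76) (nat_lit 3120130270) (nat_lit 181) (nat_lit 4) (nat_lit 182) (nat_lit 5) (nat_lit 182) (nat_lit 4) (nat_lit 402) (nat_lit 324) (nat_lit 294)))) (XT.nd (nat_lit 156) (nat_lit 228) (nat_lit 0) (XT.nd (nat_lit 78) (nat_lit 0) (nat_lit 0) (XT.lf (nat_lit 0) (nat_lit 2494525325) (nat_lit 76) (nat_lit 2202640500) (nat_lit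 152) (nat_lit 16072810523) (nat_lit 179) (nat_lit 5) (nat_lit 180) (nat_lit 5) (nat_lit 181) (nat_lit 4) (nat_lit 403) (nat_lit 324) (nat_lit 293)) (XT.lf (nat_lit 0) (nat_lit 12996527336) (nat_lit 152) (nat_lit 2276779300) (nat_lit 0) (nat_lit 6110154740) (nat_lit 179) (nat_lit 5) (nat_lit 181) (nat_lit 4) (nat_lit 179) (nat_lit 4) (nat_lit 404) (nat_lit 324) (nat_lit 292))) (XT.nd (nat_lit 78) (nat_lit 152) (nat_lit 0) (XT.lf (nat_lit 0) (nat_lit 14714946171) (nat_lit 76) (nat_lit 7139483700) (nat_lit 76) (nat_lit 166012139) (nat_lit 178) (nat_lit 4) (nat_lit 179) (nat_lit 5) (nat_lit 179) (nat_lit 4) (nat_lit 405) (nat_lit 324) (nat_lit 291)) (XT.lf (nat_lit 0) (nat_lit 8291797423) (nat_lit 152) (nat_lit 12814630527) (nat_lit 0) (nat_lit 1571394608) (nat_lit 176) (nat_lit 5) (nat_lit 178) (nat_lit 4) (nat_lit 176) (nat_lit 4) (nat_lit 406) (nat_lit 324) (nat_lit 290)))))) (XT.nd (nat_lit 624)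 (nat_lit 684) (nat_lit 0) (XT.nd (nat_lit 312) (nat_lit 380) (nat_lit 0) (XT.nd (nat_lit 156) (nat_lit 152) (nat_lit 0) (XT.nd (nat_lit 78) (nat_lit 76) (nat_lit 0) (XT.lf (nat_lit 0) (nat_lit 4564211696) (nat_lit 76) (nat_lit 12794878962) (nat_lit 76) (nat_lit 5999236787) (nat_lit 175) (nat_lit 4) (nat_lit 176) (nat_lit 5) (nat_lit 176) (nat_lit 4) (nat_lit 407) (nat_lit 324) (nat_lit 289)) (XT.lf (nat_lit 0) (nat_lit 2815874150) (nat_lit 152) (nat_lit 1094756701) (nat_lit 76) (nat_lit 20155094493) (nat_lit 174) (nat_lit 5) (nat_lit 176) (nat_lit 5) (nat_lit 175) (nat_lit 4) (nat_lit 408) (nat_lit 324) (nat_lit 288))) (XT.nd (nat_lit 78) (nat_lit 76) (nat_lit 0) (XT.lf (nat_lit 0) (nat_lit 12119894102) (nat_lit 152) (nat_lit 7156578240) (nat_lit 0) (nat_lit 5514615029) (nat_lit 173) (nat_lit 5) (nat_lit 175) (nat_lit 4) (nat_lit 173) (nat_lit 4) (nat_lit 409) (nat_lit 324) (nat_lit 287)) (XT.lf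 (nat_lit 0) (nat_lit 11871053303) (nat_lit 76) (nat_lit 10170607789) (nat_lit 76) (nat_lit 3503429107) (nat_lit 172) (nat_lit 4) (nat_lit 173) (nat_lit 5) (nat_lit 173) (nat_lit 4) (nat_lit 410) (nat_lit 324) (nat_lit 286)))) (XT.nd (nat_lit 156) (nat_lit 228) (nat_lit 0) (XT.nd (nat_lit 78) (nat_lit 0) (nat_lit 0) (XT.lf (nat_lit 0) (nat_lit 5619021311) (nat_lit 76) (nat_lit 403004054) (nat_lit 152) (nat_lit 20305224784) (nat_lit 170) (nat_lit 5) (nat_lit 171) (nat_lit 5) (nat_lit 172) (nat_lit 4) (nat_lit 411) (nat_lit 324) (nat_lit 285)) (XT.lf (nat_lit 0) (nat_lit 16179755770) (nat_lit 152) (nat_lit 1231757785) (nat_lit 0) (nat_lit 9720445809) (nat_lit 170) (nat_lit 5) (nat_lit 172) (nat_lit 4) (nat_lit 170) (nat_lit 4) (nat_lit 412) (nat_lit 324) (nat_lit 284))) (XT.nd (nat_lit 78) (nat_lit 152) (nat_lit 0) (XT.lf (nat_lit 0) (nat_lit 19619672339) (nat_lit 76) (nat_lit 7428659338) (nat_lit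 76) (nat_lit 918424416) (nat_lit 169) (nat_lit 4) (nat_lit 170) (nat_lit 5) (nat_lit 170) (nat_lit 4) (nat_lit 413) (nat_lit 324) (nat_lit 283)) (XT.lf (nat_lit 0) (nat_lit 9471663781) (nat_lit 152) (nat_lit 16130750543) (nat_lit 0) (nat_lit 3225249605) (nat_lit 167) (nat_lit 5) (nat_lit 169) (nat_lit 4) (nat_lit 167) (nat_lit 4) (nat_lit 414) (nat_lit 324) (nat_lit 282))))) (XT.nd (nat_lit 312) (nat_lit 380) (nat_lit 0) (XT.nd (nat_lit 156) (nat_lit 152) (nat_lit 0) (XT.nd (nat_lit 78) (nat_lit 76) (nat_lit 0) (XT.lf (nat_lit 0) (nat_lit 5164036874) (nat_lit 76) (nat_lit 15422707449) (nat_lit 76) (nat_lit 9132302378) (nat_lit 166) (nat_lit 4) (nat_lit 167) (nat_lit 5) (nat_lit 167) (nat_lit 4) (nat_lit 415) (nat_lit 324) (nat_lit 281)) (XT.lf (nat_lit 0) (nat_lit 1719285882) (nat_lit 152) (nat_lit 2807765104) (nat_lit 76) (nat_lit 26118296677) (nat_lit 165) (nat_lit 5) (nat_lit 167) (nat_lit 5)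 (nat_lit 166) (nat_lit 4) (nat_lit 416) (nat_lit 324) (nat_lit 280))) (XT.nd (nat_lit 78) (nat_lit 76) (nat_lit 0) (XT.lf (nat_lit 0) (nat_lit 13133263179) (nat_lit 152) (nat_lit 11396380080) (nat_lit 0) (nat_lit 7064499177) (nat_lit 164) (nat_lit 5) (nat_lit 166) (nat_lit 4) (nat_lit 164) (nat_lit 4) (nat_lit 417) (nat_lit 324) (nat_lit 279)) (XT.lf (nat_lit 0) (nat_lit 11960733378) (nat_lit 76) (nat_lit 13362175263) (nat_lit 76) (nat_lit 7257219842) (nat_lit 163) (nat_lit 4) (nat_lit 164) (nat_lit 5) (nat_lit 164) (nat_lit 4) (nat_lit 418) (nat_lit 324) (nat_lit 278)))) (XT.nd (nat_lit 156) (nat_lit 228) (nat_lit 0) (XT.nd (nat_lit 78) (nat_lit 0) (nat_lit 0) (XT.lf (nat_lit 0) (nat_lit 3090800049) (nat_lit 76) (nat_lit 1411747993) (nat_lit 152) (nat_lit 29102339463) (nat_lit 161) (nat_lit 5) (nat_lit 162) (nat_lit 5) (nat_lit 163) (nat_lit 4) (nat_lit 419) (nat_lit 324) (nat_lit 277)) (XT.lf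 (nat_lit 0) (nat_lit 17031055472) (nat_lit 152) (nat_lit 6469926376) (nat_lit 0) (nat_lit 11152722022) (nat_lit 161) (nat_lit 5) (nat_lit 163) (nat_lit 4) (nat_lit 161) (nat_lit 4) (nat_lit 420) (nat_lit 324) (nat_lit 276))) (XT.nd (nat_lit 78) (nat_lit 152) (nat_lit 0) (XT.lf (nat_lit 0) (nat_lit 19166457129) (nat_lit 76) (nat_lit 11242726196) (nat_lit 76) (nat_lit 5334617976) (nat_lit 160) (nat_lit 4) (nat_lit 161) (nat_lit 5) (nat_lit 161) (nat_lit 4) (nat_lit 421) (nat_lit 324) (nat_lit 275)) (XT.lf (nat_lit 0) (nat_lit 7514708537) (nat_lit 152) (nat_lit 27497399522) (nat_lit 0) (nat_lit 1860932210) (nat_lit 158) (nat_lit 5) (nat_lit 160) (nat_lit 4) (nat_lit 158) (nat_lit 4) (nat_lit 422) (nat_lit 324) (nat_lit 274))))))) (XT.nd (nat_lit 1248) (nat_lit 1292) (nat_lit 0) (XT.nd (nat_lit 624) (nat_lit 608) (nat_lit 0) (XT.nd (nat_lit 312) (nat_lit 304) (nat_lit 0) (XT.nd (nat_lit 156) (nat_lit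 228) (nat_lit 0) (XT.nd (nat_lit 78) (nat_lit 76) (nat_lit 0) (XT.lf (nat_lit 0) (nat_lit 21197823727) (nat_lit 152) (nat_lit 1319687964) (nat_lit 0) (nat_lit 15518326833) (nat_lit 158) (nat_lit 5) (nat_lit 160) (nat_lit 4) (nat_lit 158) (nat_lit 4) (nat_lit 423) (nat_lit 324) (nat_lit 273)) (XT.lf (nat_lit 0) (nat_lit 26834913226) (nat_lit 76) (nat_lit 9054812297) (nat_lit 76) (nat_lit 3350819626) (nat_lit 157) (nat_lit 4) (nat_lit 158) (nat_lit 5) (nat_lit 158) (nat_lit 4) (nat_lit 424) (nat_lit 324) (nat_lit 272))) (XT.nd (nat_lit 78) (nat_lit 76) (nat_lit 0) (XT.lf (nat_lit 0) (nat_lit 10729489079) (nat_lit 152) (nat_lit 24479423776) (nat_lit 0) (nat_lit 5274896716) (nat_lit 155) (nat_lit 5) (nat_lit 157) (nat_lit 4) (nat_lit 155) (nat_lit 4) (nat_lit 425) (nat_lit 324) (nat_lit 271)) (XT.lf (nat_lit 0) (nat_lit 4224262206) (nat_lit 76) (nat_lit 21510647925) (nat_lit 76) (nat_lit 16034895188)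 (nat_lit 154) (nat_lit 4) (nat_lit 155) (nat_lit 5) (nat_lit 155) (nat_lit 4) (nat_lit 426) (nat_lit 324) (nat_lit 270)))) (XT.nd (nat_lit 156) (nat_lit 152) (nat_lit 0) (XT.nd (nat_lit 78) (nat_lit 152) (nat_lit 0) (XT.lf (nat_lit 0) (nat_lit 35025090490) (nat_lit 76) (nat_lit 6787410451) (nat_lit 76) (nat_lit 1291504978) (nat_lit 154) (nat_lit 4) (nat_lit 155) (nat_lit 5) (nat_lit 155) (nat_lit 4) (nat_lit 427) (nat_lit 324) (nat_lit 269)) (XT.lf (nat_lit 0) (nat_lit 14150953202) (nat_lit 152) (nat_lit 21423606574) (nat_lit 0) (nat_lit 8898478388) (nat_lit 152) (nat_lit 5) (nat_lit 154) (nat_lit 4) (nat_lit 152) (nat_lit 4) (nat_lit 428) (nat_lit 324) (nat_lit 268))) (XT.nd (nat_lit 78) (nat_lit 76) (nat_lit 0) (XT.lf (nat_lit 0) (nat_lit 10118166828) (nat_lit 76) (nat_lit 20522623565) (nat_lit 76) (nat_lit 15252740059) (nat_lit 151) (nat_lit 4) (nat_lit 152) (nat_lit 5) (nat_lit 152) (nat_lit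 4) (nat_lit 429) (nat_lit 324) (nat_lit 267)) (XT.lf (nat_lit 0) (nat_lit 830974953) (nat_lit 152) (nat_lit 3582964556) (nat_lit 76) (nat_lit 42956705387) (nat_lit 150) (nat_lit 5) (nat_lit 152) (nat_lit 5) (nat_lit 151) (nat_lit 4) (nat_lit 430) (nat_lit 324) (nat_lit 266))))) (XT.nd (nat_lit 312) (nat_lit 304) (nat_lit 0) (XT.nd (nat_lit 156) (nat_lit 152) (nat_lit 0) (XT.nd (nat_lit 78) (nat_lit 76) (nat_lit 0) (XT.lf (nat_lit 0) (nat_lit 17807274326) (nat_lit 152) (nat_lit 18314279781) (nat_lit 0) (nat_lit 12757509176) (nat_lit 149) (nat_lit 5) (nat_lit 151) (nat_lit 4) (nat_lit 149) (nat_lit 4) (nat_lit 431) (nat_lit 324) (nat_lit 265)) (XT.lf (nat_lit 0) (nat_lit 16361354041) (nat_lit 76) (nat_lit 19575213465) (nat_lit 76) (nat_lit 14511126141) (nat_lit 148) (nat_lit 4) (nat_lit 149) (nat_lit 5) (nat_lit 149) (nat_lit 4) (nat_lit 432) (nat_lit 324) (nat_lit 264))) (XT.nd (nat_lit 78) (nat_lit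 0) (nat_lit 0) (XT.lf (nat_lit 0) (nat_lit 1140418751) (nat_lit 76) (nat_lit 1892823316) (nat_lit 152) (nat_lit 49046878493) (nat_lit 146) (nat_lit 5) (nat_lit 147) (nat_lit 5) (nat_lit 148) (nat_lit 4) (nat_lit 433) (nat_lit 324) (nat_lit 263)) (XT.lf (nat_lit 0) (nat_lit 21728978885) (nat_lit 152) (nat_lit 15134528697) (nat_lit 0) (nat_lit 16880675912) (nat_lit 146) (nat_lit 5) (nat_lit 148) (nat_lit 4) (nat_lit 146) (nat_lit 4) (nat_lit 434) (nat_lit 324) (nat_lit 262)))) (XT.nd (nat_lit 156) (nat_lit 76) (nat_lit 0) (XT.nd (nat_lit 78) (nat_lit 152) (nat_lit 0) (XT.lf (nat_lit 0) (nat_lit 23000838539) (nat_lit 76) (nat_lit 18667624437) (nat_lit 76) (nat_lit 13807538576) (nat_lit 145) (nat_lit 4) (nat_lit 146) (nat_lit 5) (nat_lit 146) (nat_lit 4) (nat_lit 435) (nat_lit 324) (nat_lit 261)) (XT.lf (nat_lit 0) (nat_lit 5429977984) (nat_lit 152) (nat_lit 51055177738) (nat_lit 0) (nat_lit 790637357)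 (nat_lit 143) (nat_lit 5) (nat_lit 145) (nat_lit 4) (nat_lit 143) (nat_lit 4) (nat_lit 436) (nat_lit 324) (nat_lit 260))) (XT.nd (nat_lit 78) (nat_lit 76) (nat_lit 0) (XT.lf (nat_lit 0) (nat_lit 25949248785) (nat_lit 152) (nat_lit 11866082974) (nat_lit 0) (nat_lit 21299729656) (nat_lit 143) (nat_lit 5) (nat_lit 145) (nat_lit 4) (nat_lit 143) (nat_lit 4) (nat_lit 437) (nat_lit 324) (nat_lit 259)) (XT.lf (nat_lit 0) (nat_lit 30088083547) (nat_lit 76) (nat_lit 17798898799) (nat_lit 76) (nat_lit 13139685860) (nat_lit 142) (nat_lit 4) (nat_lit 143) (nat_lit 5) (nat_lit 143) (nat_lit 4) (nat_lit 438) (nat_lit 324) (nat_lit 258)))))) (XT.nd (nat_lit 624) (nat_lit 684) (nat_lit 0) (XT.nd (nat_lit 312) (nat_lit 228) (nat_lit 0) (XT.nd (nat_lit 156) (nat_lit 228) (nat_lit 0) (XT.nd (nat_lit 78) (nat_lit 0) (nat_lit 0) (XT.lf (nat_lit 0) (nat_lit 8000993241) (nat_lit 152) (nat_lit 51453564435) (nat_lit 0)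 (nat_lit 3554855012) (nat_lit 140) (nat_lit 5) (nat_lit 142) (nat_lit 4) (nat_lit 140) (nat_lit 4) (nat_lit 439) (nat_lit 324) (nat_lit 257)) (XT.lf (nat_lit 0) (nat_lit 30504245599) (nat_lit 152) (nat_lit 8489189122) (nat_lit 0) (nat_lit 26049733492) (nat_lit 140) (nat_lit 5) (nat_lit 142) (nat_lit 4) (nat_lit 140) (nat_lit 4) (nat_lit 440) (nat_lit 324) (nat_lit 256))) (XT.nd (nat_lit 78) (nat_lit 152) (nat_lit 0) (XT.lf (nat_lit 0) (nat_lit 37679445459) (nat_lit 76) (nat_lit 16967958068) (nat_lit 76) (nat_lit 12505470840) (nat_lit 139) (nat_lit 4) (nat_lit 140) (nat_lit 5) (nat_lit 140) (nat_lit 4) (nat_lit 441) (nat_lit 324) (nat_lit 255)) (XT.lf (nat_lit 0) (nat_lit 10737068910) (nat_lit 152) (nat_lit 52120470048) (nat_lit 0) (nat_lit 6479847403) (nat_lit 137) (nat_lit 5) (nat_lit 139) (nat_lit 4) (nat_lit 137) (nat_lit 4) (nat_lit 442) (nat_lit 324) (nat_lit 254)))) (XT.nd (nat_lit 156) (nat_lit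 152) (nat_lit 0) (XT.nd (nat_lit 78) (nat_lit 76) (nat_lit 0) (XT.lf (nat_lit 0) (nat_lit 35433460293) (nat_lit 152) (nat_lit 4982464176) (nat_lit 0) (nat_lit 31169349575) (nat_lit 137) (nat_lit 5) (nat_lit 139) (nat_lit 4) (nat_lit 137) (nat_lit 4) (nat_lit 443) (nat_lit 324) (nat_lit 253)) (XT.lf (nat_lit 0) (nat_lit 45836669716) (nat_lit 76) (nat_lit 16173638216) (nat_lit 76) (nat_lit 11902966346) (nat_lit 136) (nat_lit 4) (nat_lit 137) (nat_lit 5) (nat_lit 137) (nat_lit 4) (nat_lit 444) (nat_lit 324) (nat_lit 252))) (XT.nd (nat_lit 78) (nat_lit 0) (nat_lit 0) (XT.lf (nat_lit 0) (nat_lit 13660263504) (nat_lit 152) (nat_lit 53073026492) (nat_lit 0) (nat_lit 9587005802) (nat_lit 134) (nat_lit 5) (nat_lit 136) (nat_lit 4) (nat_lit 134) (nat_lit 4) (nat_lit 445) (nat_lit 324) (nat_lit 251)) (XT.lf (nat_lit 0) (nat_lit 40780092392) (nat_lit 152) (nat_lit 1322729789) (nat_lit 0) (nat_lit 36701166919)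 (nat_lit 134) (nat_lit 5) (nat_lit 136) (nat_lit 4) (nat_lit 134) (nat_lit 4) (nat_lit 446) (nat_lit 324) (nat_lit 250))))) (XT.nd (nat_lit 312) (nat_lit 380) (nat_lit 0) (XT.nd (nat_lit 156) (nat_lit 76) (nat_lit 0) (XT.nd (nat_lit 78) (nat_lit 152) (nat_lit 0) (XT.lf (nat_lit 0) (nat_lit 54627442017) (nat_lit 76) (nat_lit 15414718017) (nat_lit 76) (nat_lit 11330394668) (nat_lit 133) (nat_lit 4) (nat_lit 134) (nat_lit 5) (nat_lit 134) (nat_lit 4) (nat_lit 447) (nat_lit 324) (nat_lit 249)) (XT.lf (nat_lit 0) (nat_lit 16794571845) (nat_lit 152) (nat_lit 54330536595) (nat_lit 0) (nat_lit 12899844050) (nat_lit 131) (nat_lit 5) (nat_lit 133) (nat_lit 4) (nat_lit 131) (nat_lit 4) (nat_lit 448) (nat_lit 324) (nat_lit 248))) (XT.nd (nat_lit 78) (nat_lit 0) (nat_lit 0) (XT.lf (nat_lit 0) (nat_lit 2598337277) (nat_lit 76) (nat_lit 44033692711) (nat_lit 76) (nat_lit 40134302028) (nat_lit 130) (nat_lit 4)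 (nat_lit 131) (nat_lit 5) (nat_lit 131) (nat_lit 4) (nat_lit 449) (nat_lit 324) (nat_lit 247)) (XT.lf (nat_lit 0) (nat_lit 64125999561) (nat_lit 76) (nat_lit 14689941737) (nat_lit 76) (nat_lit 10786110207) (nat_lit 130) (nat_lit 4) (nat_lit 131) (nat_lit 5) (nat_lit 131) (nat_lit 4) (nat_lit 450) (nat_lit 324) (nat_lit 246)))) (XT.nd (nat_lit 156) (nat_lit 152) (nat_lit 0) (XT.nd (nat_lit 78) (nat_lit 76) (nat_lit 0) (XT.lf (nat_lit 0) (nat_lit 20166153172) (nat_lit 152) (nat_lit 55914691030) (nat_lit 0) (nat_lit 16444190404) (nat_lit 128) (nat_lit 5) (nat_lit 130) (nat_lit 4) (nat_lit 128) (nat_lit 4) (nat_lit 451) (nat_lit 324) (nat_lit 245)) (XT.lf (nat_lit 0) (nat_lit 6775455348) (nat_lit 76) (nat_lit 46249792144) (nat_lit 76) (nat_lit 42523993205) (nat_lit 127) (nat_lit 4) (nat_lit 128) (nat_lit 5) (nat_lit 128) (nat_lit 4) (nat_lit 452) (nat_lit 324) (nat_lit 244))) (XT.nd (nat_lit 78) (nat_lit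 152) (nat_lit 0) (XT.lf (nat_lit 0) (nat_lit 74413807692) (nat_lit 76) (nat_lit 13998037208) (nat_lit 76) (nat_lit 10268584774) (nat_lit 127) (nat_lit 4) (nat_lit 128) (nat_lit 5) (nat_lit 128) (nat_lit 4) (nat_lit 453) (nat_lit 324) (nat_lit 243)) (XT.lf (nat_lit 0) (nat_lit 23803578706) (nat_lit 152) (nat_lit 57849805237) (nat_lit 0) (nat_lit 20248405417) (nat_lit 125) (nat_lit 5) (nat_lit 127) (nat_lit 4) (nat_lit 125) (nat_lit 4) (nat_lit 454) (nat_lit 324) (nat_lit 242))))))))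
noncomputable def xc83 : XT := (XT.nd (nat_lit 1248) (nat_lit 1140) (nat_lit 0) (XT.nd (nat_lit 624) (nat_lit 684) (nat_lit 0) (XT.nd (nat_lit 312) (nat_lit 228) (nat_lit 0) (XT.nd (nat_lit 156) (nat_lit 228) (nat_lit 0) (XT.nd (nat_lit 78) (nat_lit 0) (nat_lit 0) (XT.lf (nat_lit 0) (nat_lit 11195646102) (nat_lit 76) (nat_lit 48800201948) (nat_lit 76) (nat_lit 45241872633) (nat_lit 124) (nat_lit 4) (nat_lit 125) (nat_lit 5) (nat_lit 125) (nat_lit 4) (nat_lit 455) (nat_lit 324) (nat_lit 241)) (XT.lf (nat_lit 0) (nat_lit 85580308010) (nat_lit 76) (nat_lit 13337730127) (nat_lit 76) (nat_lit 9776395072) (nat_lit 124) (nat_lit 4) (nat_lit 125) (nat_lit 5) (nat_lit 125) (nat_lit 4) (nat_lit 456) (nat_lit 324) (nat_lit 240))) (XT.nd (nat_lit 78) (nat_lit 76) (nat_lit 0) (XT.lf (nat_lit 0) (nat_lit 27738101289) (nat_lit 152) (nat_lit 60163078938) (nat_lit 0) (nat_lit 24343627323) (nat_lit 122) (nat_lit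 5) (nat_lit 124) (nat_lit 4) (nat_lit 122) (nat_lit 4) (nat_lit 457) (nat_lit 324) (nat_lit 239)) (XT.lf (nat_lit 0) (nat_lit 15892434712) (nat_lit 76) (nat_lit 51714482798) (nat_lit 76) (nat_lit 48317412361) (nat_lit 121) (nat_lit 4) (nat_lit 122) (nat_lit 5) (nat_lit 122) (nat_lit 4) (nat_lit 458) (nat_lit 324) (nat_lit 238)))) (XT.nd (nat_lit 156) (nat_lit 76) (nat_lit 0) (XT.nd (nat_lit 78) (nat_lit 152) (nat_lit 0) (XT.lf (nat_lit 0) (nat_lit 97723744755) (nat_lit 76) (nat_lit 12707755272) (nat_lit 76) (nat_lit 9308212006) (nat_lit 121) (nat_lit 4) (nat_lit 122) (nat_lit 5) (nat_lit 122) (nat_lit 4) (nat_lit 459) (nat_lit 324) (nat_lit 237)) (XT.lf (nat_lit 0) (nat_lit 32003949908) (nat_lit 152) (nat_lit 62884881002) (nat_lit 0) (nat_lit 28764046725) (nat_lit 119) (nat_lit 5) (nat_lit 121) (nat_lit 4) (nat_lit 119) (nat_lit 4) (nat_lit 460) (nat_lit 324) (nat_lit 236))) (XT.nd (nat_lit 78)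 (nat_lit 0) (nat_lit 0) (XT.lf (nat_lit 0) (nat_lit 20902408699) (nat_lit 76) (nat_lit 55025379099) (nat_lit 76) (nat_lit 51783339793) (nat_lit 118) (nat_lit 4) (nat_lit 119) (nat_lit 5) (nat_lit 119) (nat_lit 4) (nat_lit 461) (nat_lit 324) (nat_lit 235)) (XT.lf (nat_lit 0) (nat_lit 110952077072) (nat_lit 76) (nat_lit 12106865224) (nat_lit 76) (nat_lit 8862791516) (nat_lit 118) (nat_lit 4) (nat_lit 119) (nat_lit 5) (nat_lit 119) (nat_lit 4) (nat_lit 462) (nat_lit 324) (nat_lit 234))))) (XT.nd (nat_lit 312) (nat_lit 304) (nat_lit 0) (XT.nd (nat_lit 156) (nat_lit 152) (nat_lit 0) (XT.nd (nat_lit 78) (nat_lit 76) (nat_lit 0) (XT.lf (nat_lit 0) (nat_lit 36638652056) (nat_lit 152) (nat_lit 66049062622) (nat_lit 0) (nat_lit 33547212784) (nat_lit 116) (nat_lit 5) (nat_lit 118) (nat_lit 4) (nat_lit 116) (nat_lit 4) (nat_lit 463) (nat_lit 324) (nat_lit 233)) (XT.lf (nat_lit 0) (nat_lit 26265543241) (nat_lit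 76) (nat_lit 58769150473) (nat_lit 76) (nat_lit 55675953807) (nat_lit 115) (nat_lit 4) (nat_lit 116) (nat_lit 5) (nat_lit 116) (nat_lit 4) (nat_lit 464) (nat_lit 324) (nat_lit 232))) (XT.nd (nat_lit 78) (nat_lit 152) (nat_lit 0) (XT.lf (nat_lit 0) (nat_lit 125383985613) (nat_lit 76) (nat_lit 11533837042) (nat_lit 76) (nat_lit 8438966668) (nat_lit 115) (nat_lit 4) (nat_lit 116) (nat_lit 5) (nat_lit 116) (nat_lit 4) (nat_lit 465) (nat_lit 324) (nat_lit 231)) (XT.lf (nat_lit 0) (nat_lit 41683387177) (nat_lit 152) (nat_lit 69693302001) (nat_lit 0) (nat_lit 38734373480) (nat_lit 113) (nat_lit 5) (nat_lit 115) (nat_lit 4) (nat_lit 113) (nat_lit 4) (nat_lit 466) (nat_lit 324) (nat_lit 230)))) (XT.nd (nat_lit 156) (nat_lit 228) (nat_lit 0) (XT.nd (nat_lit 78) (nat_lit 0) (nat_lit 0) (XT.lf (nat_lit 0) (nat_lit 32025560421) (nat_lit 76) (nat_lit 62985934754) (nat_lit 76) (nat_lit 60035475245) (nat_lit 112)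 (nat_lit 4) (nat_lit 113) (nat_lit 5) (nat_lit 113) (nat_lit 4) (nat_lit 467) (nat_lit 324) (nat_lit 229)) (XT.lf (nat_lit 0) (nat_lit 141149982886) (nat_lit 76) (nat_lit 10987477288) (nat_lit 76) (nat_lit 8035640815) (nat_lit 112) (nat_lit 4) (nat_lit 113) (nat_lit 5) (nat_lit 113) (nat_lit 4) (nat_lit 468) (nat_lit 324) (nat_lit 228))) (XT.nd (nat_lit 78) (nat_lit 76) (nat_lit 0) (XT.lf (nat_lit 0) (nat_lit 47183374645) (nat_lit 152) (nat_lit 73859484002) (nat_lit 0) (nat_lit 44370852867) (nat_lit 110) (nat_lit 5) (nat_lit 112) (nat_lit 4) (nat_lit 110) (nat_lit 4) (nat_lit 469) (nat_lit 324) (nat_lit 227)) (XT.lf (nat_lit 0) (nat_lit 38230325649) (nat_lit 76) (nat_lit 67720146257) (nat_lit 76) (nat_lit 64906435005) (nat_lit 109) (nat_lit 4) (nat_lit 110) (nat_lit 5) (nat_lit 110) (nat_lit 4) (nat_lit 470) (nat_lit 324) (nat_lit 226)))))) (XT.nd (nat_lit 624) (nat_lit 532) (nat_lit 0) (XT.nd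 (nat_lit 312) (nat_lit 380) (nat_lit 0) (XT.nd (nat_lit 156) (nat_lit 76) (nat_lit 0) (XT.nd (nat_lit 78) (nat_lit 152) (nat_lit 0) (XT.lf (nat_lit 0) (nat_lit 158393637754) (nat_lit 76) (nat_lit 10466625718) (nat_lit 76) (nat_lit 7651781635) (nat_lit 109) (nat_lit 4) (nat_lit 110) (nat_lit 5) (nat_lit 110) (nat_lit 4) (nat_lit 471) (nat_lit 324) (nat_lit 225)) (XT.lf (nat_lit 0) (nat_lit 53188300096) (nat_lit 152) (nat_lit 78594118530) (nat_lit 0) (nat_lit 50506468695) (nat_lit 107) (nat_lit 5) (nat_lit 109) (nat_lit 4) (nat_lit 107) (nat_lit 4) (nat_lit 472) (nat_lit 324) (nat_lit 224))) (XT.nd (nat_lit 78) (nat_lit 0) (nat_lit 0) (XT.lf (nat_lit 0) (nat_lit 44932284908) (nat_lit 76) (nat_lit 73020913326) (nat_lit 76) (nat_lit 70338103343) (nat_lit 106) (nat_lit 4) (nat_lit 107) (nat_lit 5) (nat_lit 107) (nat_lit 4) (nat_lit 473) (nat_lit 324) (nat_lit 223)) (XT.lf (nat_lit 0) (nat_lit 177272925616)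 (nat_lit 76) (nat_lit 9970157892) (nat_lit 76) (nat_lit 7286415925) (nat_lit 106) (nat_lit 4) (nat_lit 107) (nat_lit 5) (nat_lit 107) (nat_lit 4) (nat_lit 474) (nat_lit 324) (nat_lit 222)))) (XT.nd (nat_lit 156) (nat_lit 152) (nat_lit 0) (XT.nd (nat_lit 78) (nat_lit 76) (nat_lit 0) (XT.lf (nat_lit 0) (nat_lit 59752784222) (nat_lit 152) (nat_lit 83948801779) (nat_lit 0) (nat_lit 57195994155) (nat_lit 104) (nat_lit 5) (nat_lit 106) (nat_lit 4) (nat_lit 104) (nat_lit 4) (nat_lit 475) (nat_lit 324) (nat_lit 221)) (XT.lf (nat_lit 0) (nat_lit 52188946837) (nat_lit 76) (nat_lit 78942559543) (nat_lit 76) (nat_lit 76384964394) (nat_lit 103) (nat_lit 4) (nat_lit 104) (nat_lit 5) (nat_lit 104) (nat_lit 4) (nat_lit 476) (nat_lit 324) (nat_lit 220))) (XT.nd (nat_lit 78) (nat_lit 152) (nat_lit 0) (XT.lf (nat_lit 0) (nat_lit 197961717022) (nat_lit 76) (nat_lit 9496986915) (nat_lit 76) (nat_lit 6938625022) (nat_lit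 103) (nat_lit 4) (nat_lit 104) (nat_lit 5) (nat_lit 104) (nat_lit 4) (nat_lit 477) (nat_lit 324) (nat_lit 219)) (XT.lf (nat_lit 0) (nat_lit 66936898577) (nat_lit 152) (nat_lit 89980724821) (nat_lit 0) (nat_lit 64499667979) (nat_lit 101) (nat_lit 5) (nat_lit 103) (nat_lit 4) (nat_lit 101) (nat_lit 4) (nat_lit 478) (nat_lit 324) (nat_lit 218))))) (XT.nd (nat_lit 312) (nat_lit 228) (nat_lit 0) (XT.nd (nat_lit 156) (nat_lit 228) (nat_lit 0) (XT.nd (nat_lit 78) (nat_lit 0) (nat_lit 0) (XT.lf (nat_lit 0) (nat_lit 60063414156) (nat_lit 76) (nat_lit 85545133341) (nat_lit 76) (nat_lit 83107240401) (nat_lit 100) (nat_lit 4) (nat_lit 101) (nat_lit 5) (nat_lit 101) (nat_lit 4) (nat_lit 479) (nat_lit 324) (nat_lit 217)) (XT.lf (nat_lit 0) (nat_lit 220651418787) (nat_lit 76) (nat_lit 9046064489) (nat_lit 76) (nat_lit 6607540746) (nat_lit 100) (nat_lit 4) (nat_lit 101) (nat_lit 5) (nat_lit 101) (nat_lit 4) (nat_lit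 480) (nat_lit 324) (nat_lit 216))) (XT.nd (nat_lit 78) (nat_lit 76) (nat_lit 0) (XT.lf (nat_lit 0) (nat_lit 74806733336) (nat_lit 152) (nat_lit 96753234522) (nat_lit 0) (nat_lit 72483757614) (nat_lit 98) (nat_lit 5) (nat_lit 100) (nat_lit 4) (nat_lit 98) (nat_lit 4) (nat_lit 481) (nat_lit 324) (nat_lit 215)) (XT.lf (nat_lit 0) (nat_lit 68624969388) (nat_lit 76) (nat_lit 92894991207) (nat_lit 76) (nat_lit 90571470574) (nat_lit 97) (nat_lit 4) (nat_lit 98) (nat_lit 5) (nat_lit 98) (nat_lit 4) (nat_lit 482) (nat_lit 324) (nat_lit 214)))) (XT.nd (nat_lit 156) (nat_lit 76) (nat_lit 0) (XT.nd (nat_lit 78) (nat_lit 152) (nat_lit 0) (XT.lf (nat_lit 0) (nat_lit 245552783169) (nat_lit 76) (nat_lit 8616381406) (nat_lit 76) (nat_lit 6292341809) (nat_lit 97) (nat_lit 4) (nat_lit 98) (nat_lit 5) (nat_lit 98) (nat_lit 4) (nat_lit 483) (nat_lit 324) (nat_lit 213)) (XT.lf (nat_lit 0) (nat_lit 83435022469) (nat_lit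 152) (nat_lit 104336452170) (nat_lit 0) (nat_lit 81221180710) (nat_lit 95) (nat_lit 5) (nat_lit 97) (nat_lit 4) (nat_lit 95) (nat_lit 4) (nat_lit 484) (nat_lit 324) (nat_lit 212))) (XT.nd (nat_lit 78) (nat_lit 0) (nat_lit 0) (XT.lf (nat_lit 0) (nat_lit 77949720389) (nat_lit 76) (nat_lit 101065440149) (nat_lit 76) (nat_lit 98851150090) (nat_lit 94) (nat_lit 4) (nat_lit 95) (nat_lit 5) (nat_lit 95) (nat_lit 4) (nat_lit 485) (nat_lit 324) (nat_lit 211)) (XT.lf (nat_lit 0) (nat_lit 272897902258) (nat_lit 76) (nat_lit 8206967604) (nat_lit 76) (nat_lit 5992250592) (nat_lit 94) (nat_lit 4) (nat_lit 95) (nat_lit 5) (nat_lit 95) (nat_lit 4) (nat_lit 486) (nat_lit 324) (nat_lit 210)))))))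
noncomputable def xc84 : XT := (XT.nd (nat_lit 44616) (nat_lit 0) (nat_lit 8056) (XT.nd (nat_lit 43992) (nat_lit 0) (nat_lit 10260) (XT.nd (nat_lit 312) (nat_lit 304) (nat_lit 0) (XT.nd (nat_lit 156) (nat_lit 152) (nat_lit 0) (XT.nd (nat_lit 78) (nat_lit 76) (nat_lit 0) (XT.lf (nat_lit 0) (nat_lit 92901832299) (nat_lit 152) (nat_lit 112807955823) (nat_lit 0) (nat_lit 90792190744) (nat_lit 92) (nat_lit 5) (nat_lit 94) (nat_lit 4) (nat_lit 92) (nat_lit 4) (nat_lit 487) (nat_lit 324) (nat_lit 209)) (XT.lf (nat_lit 0) (nat_lit 88121311749) (nat_lit 76) (nat_lit 110137445646) (nat_lit 76) (nat_lit 108027435273) (nat_lit 91) (nat_lit 4) (nat_lit 92) (nat_lit 5) (nat_lit 92) (nat_lit 4) (nat_lit 488) (nat_lit 324) (nat_lit 208))) (XT.nd (nat_lit 78) (nat_lit 152) (nat_lit 0) (XT.lf (nat_lit 0) (nat_lit 302942406525) (nat_lit 76) (nat_lit 7816891890) (nat_lit 76) (nat_lit 5706530263) (nat_lit 91) (nat_lit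 4) (nat_lit 92) (nat_lit 5) (nat_lit 92) (nat_lit 4) (nat_lit 489) (nat_lit 324) (nat_lit 207)) (XT.lf (nat_lit 0) (nat_lit 103295320045) (nat_lit 152) (nat_lit 122253532925) (nat_lit 0) (nat_lit 101285133230) (nat_lit 89) (nat_lit 5) (nat_lit 91) (nat_lit 4) (nat_lit 89) (nat_lit 4) (nat_lit 490) (nat_lit 324) (nat_lit 206)))) (XT.nd (nat_lit 156) (nat_lit 228) (nat_lit 0) (XT.nd (nat_lit 78) (nat_lit 0) (nat_lit 0) (XT.lf (nat_lit 0) (nat_lit 99231708792) (nat_lit 76) (nat_lit 120200411915) (nat_lit 76) (nat_lit 118189921673) (nat_lit 88) (nat_lit 4) (nat_lit 89) (nat_lit 5) (nat_lit 89) (nat_lit 4) (nat_lit 491) (nat_lit 324) (nat_lit 205)) (XT.lf (nat_lit 0) (nat_lit 335967888408) (nat_lit 76) (nat_lit 7445261381) (nat_lit 76) (nat_lit 5434482160) (nat_lit 88) (nat_lit 4) (nat_lit 89) (nat_lit 5) (nat_lit 89) (nat_lit 4) (nat_lit 492) (nat_lit 324) (nat_lit 204))) (XT.nd (nat_lit 78) (nat_lit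 76) (nat_lit 0) (XT.lf (nat_lit 0) (nat_lit 114712569577) (nat_lit 152) (nat_lit 132768010416) (nat_lit 0) (nat_lit 112797279637) (nat_lit 86) (nat_lit 5) (nat_lit 88) (nat_lit 4) (nat_lit 86) (nat_lit 4) (nat_lit 493) (nat_lit 324) (nat_lit 203)) (XT.lf (nat_lit 0) (nat_lit 111382061586) (nat_lit 76) (nat_lit 131353041995) (nat_lit 76) (nat_lit 129437502424) (nat_lit 85) (nat_lit 4) (nat_lit 86) (nat_lit 5) (nat_lit 86) (nat_lit 4) (nat_lit 494) (nat_lit 324) (nat_lit 202))))) (XT.nd (nat_lit 312) (nat_lit 836) (nat_lit 0) (XT.nd (nat_lit 156) (nat_lit 456) (nat_lit 0) (XT.nd (nat_lit 78) (nat_lit 304) (nat_lit 0) (XT.lf (nat_lit 0) (nat_lit 4394886957) (nat_lit 228) (nat_lit 65571792) (nat_lit 228) (nat_lit 65571792) (nat_lit 241) (nat_lit 4) (nat_lit 244) (nat_lit 5) (nat_lit 244) (nat_lit 4) (nat_lit 370) (nat_lit 325) (nat_lit 325)) (XT.lf (nat_lit 0) (nat_lit 4437938553) (nat_lit 304) (nat_lit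 1217835765) (nat_lit 0) (nat_lit 3575138725) (nat_lit 237) (nat_lit 5) (nat_lit 241) (nat_lit 4) (nat_lit 237) (nat_lit 4) (nat_lit 371) (nat_lit 325) (nat_lit 324))) (XT.nd (nat_lit 78) (nat_lit 228) (nat_lit 0) (XT.lf (nat_lit 0) (nat_lit 7250746221) (nat_lit 228) (nat_lit 1927504339) (nat_lit 228) (nat_lit 242990390) (nat_lit 234) (nat_lit 4) (nat_lit 237) (nat_lit 5) (nat_lit 237) (nat_lit 4) (nat_lit 372) (nat_lit 325) (nat_lit 323)) (XT.lf (nat_lit 0) (nat_lit 4371937527) (nat_lit 228) (nat_lit 3224159488) (nat_lit 0) (nat_lit 2022319596) (nat_lit 231) (nat_lit 5) (nat_lit 234) (nat_lit 4) (nat_lit 231) (nat_lit 4) (nat_lit 373) (nat_lit 325) (nat_lit 322)))) (XT.nd (nat_lit 156) (nat_lit 380) (nat_lit 0) (XT.nd (nat_lit 78) (nat_lit 228) (nat_lit 0) (XT.lf (nat_lit 0) (nat_lit 5505472201) (nat_lit 228) (nat_lit 3689962850) (nat_lit 228) (nat_lit 630517366) (nat_lit 228) (nat_lit 4) (nat_lit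 231) (nat_lit 5) (nat_lit 231) (nat_lit 4) (nat_lit 374) (nat_lit 325) (nat_lit 321)) (XT.lf (nat_lit 0) (nat_lit 4047895932) (nat_lit 228) (nat_lit 5504043923) (nat_lit 0) (nat_lit 490303812) (nat_lit 225) (nat_lit 5) (nat_lit 228) (nat_lit 4) (nat_lit 225) (nat_lit 4) (nat_lit 375) (nat_lit 325) (nat_lit 320))) (XT.nd (nat_lit 78) (nat_lit 228) (nat_lit 0) (XT.lf (nat_lit 0) (nat_lit 3486906700) (nat_lit 152) (nat_lit 5475756339) (nat_lit 152) (nat_lit 1304988490) (nat_lit 223) (nat_lit 4) (nat_lit 225) (nat_lit 5) (nat_lit 225) (nat_lit 4) (nat_lit 376) (nat_lit 325) (nat_lit 319)) (XT.lf (nat_lit 0) (nat_lit 2358512212) (nat_lit 152) (nat_lit 1111369224) (nat_lit 228) (nat_lit 7033279928) (nat_lit 220) (nat_lit 5) (nat_lit 222) (nat_lit 5) (nat_lit 223) (nat_lit 4) (nat_lit 377) (nat_lit 325) (nat_lit 318)))))) (XT.nd (nat_lit 624) (nat_lit 1064) (nat_lit 0) (XT.nd (nat_lit 312) (nat_lit 532)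 (nat_lit 0) (XT.nd (nat_lit 156) (nat_lit 380) (nat_lit 0) (XT.nd (nat_lit 78) (nat_lit 76) (nat_lit 0) (XT.lf (nat_lit 0) (nat_lit 1124359385) (nat_lit 152) (nat_lit 7340875209) (nat_lit 152) (nat_lit 2282862641) (nat_lit 218) (nat_lit 4) (nat_lit 220) (nat_lit 5) (nat_lit 220) (nat_lit 4) (nat_lit 378) (nat_lit 325) (nat_lit 317)) (XT.lf (nat_lit 0) (nat_lit 2614885830) (nat_lit 228) (nat_lit 201957805) (nat_lit 76) (nat_lit 8186505092) (nat_lit 217) (nat_lit 5) (nat_lit 220) (nat_lit 5) (nat_lit 218) (nat_lit 4) (nat_lit 379) (nat_lit 325) (nat_lit 316))) (XT.nd (nat_lit 78) (nat_lit 228) (nat_lit 0) (XT.lf (nat_lit 0) (nat_lit 7709407428) (nat_lit 228) (nat_lit 1604401721) (nat_lit 0) (nat_lit 1954252203) (nat_lit 215) (nat_lit 5) (nat_lit 218) (nat_lit 4) (nat_lit 215) (nat_lit 4) (nat_lit 380) (nat_lit 325) (nat_lit 315)) (XT.lf (nat_lit 0) (nat_lit 1493303178) (nat_lit 228) (nat_lit 3129656251)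 (nat_lit 76) (nat_lit 6920415757) (nat_lit 212) (nat_lit 5) (nat_lit 215) (nat_lit 5) (nat_lit 213) (nat_lit 4) (nat_lit 381) (nat_lit 325) (nat_lit 314)))) (XT.nd (nat_lit 156) (nat_lit 228) (nat_lit 0) (XT.nd (nat_lit 78) (nat_lit 228) (nat_lit 0) (XT.lf (nat_lit 0) (nat_lit 6670027260) (nat_lit 152) (nat_lit 4781275328) (nat_lit 0) (nat_lit 378647034) (nat_lit 211) (nat_lit 5) (nat_lit 213) (nat_lit 4) (nat_lit 211) (nat_lit 4) (nat_lit 382) (nat_lit 325) (nat_lit 313)) (XT.lf (nat_lit 0) (nat_lit 42058834) (nat_lit 228) (nat_lit 6581596321) (nat_lit 76) (nat_lit 5503891576) (nat_lit 208) (nat_lit 5) (nat_lit 211) (nat_lit 5) (nat_lit 209) (nat_lit 4) (nat_lit 383) (nat_lit 325) (nat_lit 312))) (XT.nd (nat_lit 78) (nat_lit 152) (nat_lit 0) (XT.lf (nat_lit 0) (nat_lit 3886859176) (nat_lit 76) (nat_lit 1436646803) (nat_lit 152) (nat_lit 7112649566) (nat_lit 207) (nat_lit 5) (nat_lit 208) (nat_lit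 5) (nat_lit 209) (nat_lit 4) (nat_lit 384) (nat_lit 325) (nat_lit 311)) (XT.lf (nat_lit 0) (nat_lit 2082531977) (nat_lit 152) (nat_lit 8845809127) (nat_lit 152) (nat_lit 1828887915) (nat_lit 205) (nat_lit 4) (nat_lit 207) (nat_lit 5) (nat_lit 207) (nat_lit 4) (nat_lit 385) (nat_lit 325) (nat_lit 310))))) (XT.nd (nat_lit 312) (nat_lit 608) (nat_lit 0) (XT.nd (nat_lit 156) (nat_lit 304) (nat_lit 0) (XT.nd (nat_lit 78) (nat_lit 0) (nat_lit 0) (XT.lf (nat_lit 0) (nat_lit 102098558) (nat_lit 76) (nat_lit 3521664944) (nat_lit 152) (nat_lit 9466502672) (nat_lit 203) (nat_lit 5) (nat_lit 204) (nat_lit 5) (nat_lit 205) (nat_lit 4) (nat_lit 386) (nat_lit 325) (nat_lit 309)) (XT.lf (nat_lit 0) (nat_lit 9356024499) (nat_lit 152) (nat_lit 1981618100) (nat_lit 0) (nat_lit 2097391516) (nat_lit 203) (nat_lit 5) (nat_lit 205) (nat_lit 4) (nat_lit 203) (nat_lit 4) (nat_lit 387) (nat_lit 325) (nat_lit 308))) (XT.nd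 (nat_lit 78) (nat_lit 76) (nat_lit 0) (XT.lf (nat_lit 0) (nat_lit 1594906835) (nat_lit 228) (nat_lit 4256600509) (nat_lit 76) (nat_lit 7940923868) (nat_lit 200) (nat_lit 5) (nat_lit 203) (nat_lit 5) (nat_lit 201) (nat_lit 4) (nat_lit 388) (nat_lit 325) (nat_lit 307)) (XT.lf (nat_lit 0) (nat_lit 7425832334) (nat_lit 152) (nat_lit 6722595742) (nat_lit 0) (nat_lit 15406903) (nat_lit 199) (nat_lit 5) (nat_lit 201) (nat_lit 4) (nat_lit 199) (nat_lit 4) (nat_lit 389) (nat_lit 325) (nat_lit 306)))) (XT.nd (nat_lit 156) (nat_lit 304) (nat_lit 0) (XT.nd (nat_lit 78) (nat_lit 152) (nat_lit 0) (XT.lf (nat_lit 0) (nat_lit 5126538835) (nat_lit 152) (nat_lit 8531650379) (nat_lit 152) (nat_lit 890125464) (nat_lit 197) (nat_lit 4) (nat_lit 199) (nat_lit 5) (nat_lit 199) (nat_lit 4) (nat_lit 390) (nat_lit 325) (nat_lit 305)) (XT.lf (nat_lit 0) (nat_lit 2591970897) (nat_lit 76) (nat_lit 2507341569) (nat_lit 152)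 (nat_lit 9847747204) (nat_lit 195) (nat_lit 5) (nat_lit 196) (nat_lit 5) (nat_lit 197) (nat_lit 4) (nat_lit 391) (nat_lit 325) (nat_lit 304))) (XT.nd (nat_lit 78) (nat_lit 304) (nat_lit 0) (XT.lf (nat_lit 0) (nat_lit 11441806149) (nat_lit 152) (nat_lit 164114352) (nat_lit 0) (nat_lit 3754916906) (nat_lit 195) (nat_lit 5) (nat_lit 197) (nat_lit 4) (nat_lit 195) (nat_lit 4) (nat_lit 392) (nat_lit 325) (nat_lit 303)) (XT.nd (nat_lit 78) (nat_lit 76) (nat_lit 0) (XT.lf (nat_lit 0) (nat_lit 2342595168) (nat_lit 228) (nat_lit 3074695264) (nat_lit 76) (nat_lit 10370699101) (nat_lit 192) (nat_lit 5) (nat_lit 195) (nat_lit 5) (nat_lit 193) (nat_lit 4) (nat_lit 393) (nat_lit 325) (nat_lit 302)) (XT.lf (nat_lit 0) (nat_lit 8831961425) (nat_lit 152) (nat_lit 6241415295) (nat_lit 0) (nat_lit 1157592042) (nat_lit 191) (nat_lit 5) (nat_lit 193) (nat_lit 4) (nat_lit 191) (nat_lit 4) (nat_lit 394) (nat_lit 325)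 (nat_lit 301))))))))
noncomputable def xc85 : XT := (XT.nd (nat_lit 2496) (nat_lit 2508) (nat_lit 0) (XT.nd (nat_lit 1248) (nat_lit 1368) (nat_lit 0) (XT.nd (nat_lit 624) (nat_lit 684) (nat_lit 0) (XT.nd (nat_lit 312) (nat_lit 304) (nat_lit 0) (XT.nd (nat_lit 156) (nat_lit 152) (nat_lit 0) (XT.nd (nat_lit 78) (nat_lit 152) (nat_lit 0) (XT.lf (nat_lit 0) (nat_lit 7003375638) (nat_lit 76) (nat_lit 8762658441) (nat_lit 76) (nat_lit 924050969) (nat_lit 190) (nat_lit 4) (nat_lit 191) (nat_lit 5) (nat_lit 191) (nat_lit 4) (nat_lit 395) (nat_lit 325) (nat_lit 300)) (XT.lf (nat_lit 0) (nat_lit 3734656594) (nat_lit 76) (nat_lit 1987139158) (nat_lit 152) (nat_lit 11444017000) (nat_lit 188) (nat_lit 5) (nat_lit 189) (nat_lit 5) (nat_lit 190) (nat_lit 4) (nat_lit 396) (nat_lit 325) (nat_lit 299))) (XT.nd (nat_lit 78) (nat_lit 76) (nat_lit 0) (XT.lf (nat_lit 0) (nat_lit 161412695) (nat_lit 76) (nat_lit 12626689950)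 (nat_lit 76) (nat_lit 4870505677) (nat_lit 187) (nat_lit 4) (nat_lit 188) (nat_lit 5) (nat_lit 188) (nat_lit 4) (nat_lit 397) (nat_lit 325) (nat_lit 298)) (XT.lf (nat_lit 0) (nat_lit 2100564038) (nat_lit 152) (nat_lit 3585147074) (nat_lit 76) (nat_lit 12482051080) (nat_lit 186) (nat_lit 5) (nat_lit 188) (nat_lit 5) (nat_lit 187) (nat_lit 4) (nat_lit 398) (nat_lit 325) (nat_lit 297)))) (XT.nd (nat_lit 156) (nat_lit 152) (nat_lit 0) (XT.nd (nat_lit 78) (nat_lit 76) (nat_lit 0) (XT.lf (nat_lit 0) (nat_lit 9332783150) (nat_lit 152) (nat_lit 7667085390) (nat_lit 0) (nat_lit 1694699156) (nat_lit 185) (nat_lit 5) (nat_lit 187) (nat_lit 4) (nat_lit 185) (nat_lit 4) (nat_lit 399) (nat_lit 325) (nat_lit 296)) (XT.lf (nat_lit 0) (nat_lit 7144244766) (nat_lit 76) (nat_lit 9925557108) (nat_lit 76) (nat_lit 2170752171) (nat_lit 184) (nat_lit 4) (nat_lit 185) (nat_lit 5) (nat_lit 185) (nat_lit 4) (nat_lit 400)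 (nat_lit 325) (nat_lit 295))) (XT.nd (nat_lit 78) (nat_lit 0) (nat_lit 0) (XT.lf (nat_lit 0) (nat_lit 2921426475) (nat_lit 76) (nat_lit 2340717044) (nat_lit 152) (nat_lit 14544771482) (nat_lit 182) (nat_lit 5) (nat_lit 183) (nat_lit 5) (nat_lit 184) (nat_lit 4) (nat_lit 401) (nat_lit 325) (nat_lit 294)) (XT.lf (nat_lit 0) (nat_lit 13167005291) (nat_lit 152) (nat_lit 1649366265) (nat_lit 0) (nat_lit 5574779504) (nat_lit 182) (nat_lit 5) (nat_lit 184) (nat_lit 4) (nat_lit 182) (nat_lit 4) (nat_lit 402) (nat_lit 325) (nat_lit 293))))) (XT.nd (nat_lit 312) (nat_lit 304) (nat_lit 0) (XT.nd (nat_lit 156) (nat_lit 152) (nat_lit 0) (XT.nd (nat_lit 78) (nat_lit 76) (nat_lit 0) (XT.lf (nat_lit 0) (nat_lit 598725232) (nat_lit 152) (nat_lit 6460865668) (nat_lit 76) (nat_lit 13937096104) (nat_lit 180) (nat_lit 5) (nat_lit 182) (nat_lit 5) (nat_lit 181) (nat_lit 4) (nat_lit 403) (nat_lit 325) (nat_lit 292))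 (XT.lf (nat_lit 0) (nat_lit 8656692764) (nat_lit 152) (nat_lit 11718100308) (nat_lit 0) (nat_lit 1247448660) (nat_lit 179) (nat_lit 5) (nat_lit 181) (nat_lit 4) (nat_lit 179) (nat_lit 4) (nat_lit 404) (nat_lit 325) (nat_lit 291))) (XT.nd (nat_lit 78) (nat_lit 76) (nat_lit 0) (XT.lf (nat_lit 0) (nat_lit 4845431916) (nat_lit 76) (nat_lit 12458265423) (nat_lit 76) (nat_lit 4966069924) (nat_lit 178) (nat_lit 4) (nat_lit 179) (nat_lit 5) (nat_lit 179) (nat_lit 4) (nat_lit 405) (nat_lit 325) (nat_lit 290)) (XT.lf (nat_lit 0) (nat_lit 3408876400) (nat_lit 152) (nat_lit 583000206) (nat_lit 76) (nat_lit 18950843077) (nat_lit 177) (nat_lit 5) (nat_lit 179) (nat_lit 5) (nat_lit 178) (nat_lit 4) (nat_lit 406) (nat_lit 325) (nat_lit 289)))) (XT.nd (nat_lit 156) (nat_lit 152) (nat_lit 0) (XT.nd (nat_lit 78) (nat_lit 76) (nat_lit 0) (XT.lf (nat_lit 0) (nat_lit 12276405717) (nat_lit 152) (nat_lit 6362721510) (nat_lit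 0) (nat_lit 4994085538) (nat_lit 176) (nat_lit 5) (nat_lit 178) (nat_lit 4) (nat_lit 176) (nat_lit 4) (nat_lit 407) (nat_lit 325) (nat_lit 288)) (XT.lf (nat_lit 0) (nat_lit 11770665395) (nat_lit 76) (nat_lit 9965347273) (nat_lit 76) (nat_lit 2614782776) (nat_lit 175) (nat_lit 4) (nat_lit 176) (nat_lit 5) (nat_lit 176) (nat_lit 4) (nat_lit 408) (nat_lit 325) (nat_lit 287))) (XT.nd (nat_lit 78) (nat_lit 0) (nat_lit 0) (XT.lf (nat_lit 0) (nat_lit 5794211101) (nat_lit 76) (nat_lit 649579233) (nat_lit 152) (nat_lit 18650865152) (nat_lit 173) (nat_lit 5) (nat_lit 174) (nat_lit 5) (nat_lit 175) (nat_lit 4) (nat_lit 409) (nat_lit 325) (nat_lit 286)) (XT.lf (nat_lit 0) (nat_lit 16116301760) (nat_lit 152) (nat_lit 749906804) (nat_lit 0) (nat_lit 8994912528) (nat_lit 173) (nat_lit 5) (nat_lit 175) (nat_lit 4) (nat_lit 173) (nat_lit 4) (nat_lit 410) (nat_lit 325) (nat_lit 285)))))) (XT.nd (nat_lit 624) (nat_lit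 684) (nat_lit 0) (XT.nd (nat_lit 312) (nat_lit 304) (nat_lit 0) (XT.nd (nat_lit 156) (nat_lit 152) (nat_lit 0) (XT.nd (nat_lit 78) (nat_lit 152) (nat_lit 0) (XT.lf (nat_lit 0) (nat_lit 19120001472) (nat_lit 76) (nat_lit 7356616767) (nat_lit 76) (nat_lit 179082765) (nat_lit 172) (nat_lit 4) (nat_lit 173) (nat_lit 5) (nat_lit 173) (nat_lit 4) (nat_lit 411) (nat_lit 325) (nat_lit 284)) (XT.lf (nat_lit 0) (nat_lit 9698636155) (nat_lit 152) (nat_lit 14964236501) (nat_lit 0) (nat_lit 2811964526) (nat_lit 170) (nat_lit 5) (nat_lit 172) (nat_lit 4) (nat_lit 170) (nat_lit 4) (nat_lit 412) (nat_lit 325) (nat_lit 283))) (XT.nd (nat_lit 78) (nat_lit 76) (nat_lit 0) (XT.lf (nat_lit 0) (nat_lit 5327448968) (nat_lit 76) (nat_lit 14965533993) (nat_lit 76) (nat_lit 8030362402) (nat_lit 169) (nat_lit 4) (nat_lit 170) (nat_lit 5) (nat_lit 170) (nat_lit 4) (nat_lit 413) (nat_lit 325) (nat_lit 282)) (XT.lf (nat_lit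 0) (nat_lit 2285195303) (nat_lit 152) (nat_lit 2296711660) (nat_lit 76) (nat_lit 24623005948) (nat_lit 168) (nat_lit 5) (nat_lit 170) (nat_lit 5) (nat_lit 169) (nat_lit 4) (nat_lit 414) (nat_lit 325) (nat_lit 281)))) (XT.nd (nat_lit 156) (nat_lit 152) (nat_lit 0) (XT.nd (nat_lit 78) (nat_lit 76) (nat_lit 0) (XT.lf (nat_lit 0) (nat_lit 13159484160) (nat_lit 152) (nat_lit 10480179259) (nat_lit 0) (nat_lit 6468671847) (nat_lit 167) (nat_lit 5) (nat_lit 169) (nat_lit 4) (nat_lit 167) (nat_lit 4) (nat_lit 415) (nat_lit 325) (nat_lit 280)) (XT.lf (nat_lit 0) (nat_lit 11775200612) (nat_lit 76) (nat_lit 13001246742) (nat_lit 76) (nat_lit 6270533391) (nat_lit 166) (nat_lit 4) (nat_lit 167) (nat_lit 5) (nat_lit 167) (nat_lit 4) (nat_lit 416) (nat_lit 325) (nat_lit 279))) (XT.nd (nat_lit 78) (nat_lit 0) (nat_lit 0) (XT.lf (nat_lit 0) (nat_lit 3309358109) (nat_lit 76) (nat_lit 1606774793) (nat_lit 152) (nat_lit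 27105938008) (nat_lit 164) (nat_lit 5) (nat_lit 165) (nat_lit 5) (nat_lit 166) (nat_lit 4) (nat_lit 417) (nat_lit 325) (nat_lit 278)) (XT.lf (nat_lit 0) (nat_lit 16845489008) (nat_lit 152) (nat_lit 5810956039) (nat_lit 0) (nat_lit 10364626378) (nat_lit 164) (nat_lit 5) (nat_lit 166) (nat_lit 4) (nat_lit 164) (nat_lit 4) (nat_lit 418) (nat_lit 325) (nat_lit 277))))) (XT.nd (nat_lit 312) (nat_lit 380) (nat_lit 0) (XT.nd (nat_lit 156) (nat_lit 76) (nat_lit 0) (XT.nd (nat_lit 78) (nat_lit 152) (nat_lit 0) (XT.lf (nat_lit 0) (nat_lit 18614734979) (nat_lit 76) (nat_lit 10978929364) (nat_lit 76) (nat_lit 4465240051) (nat_lit 163) (nat_lit 4) (nat_lit 164) (nat_lit 5) (nat_lit 164) (nat_lit 4) (nat_lit 419) (nat_lit 325) (nat_lit 276)) (XT.lf (nat_lit 0) (nat_lit 7755243732) (nat_lit 152) (nat_lit 25856554402) (nat_lit 0) (nat_lit 1521955331) (nat_lit 161) (nat_lit 5) (nat_lit 163) (nat_lit 4) (nat_lit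 161) (nat_lit 4) (nat_lit 420) (nat_lit 325) (nat_lit 275))) (XT.nd (nat_lit 78) (nat_lit 76) (nat_lit 0) (XT.lf (nat_lit 0) (nat_lit 20788047958) (nat_lit 152) (nat_lit 926666488) (nat_lit 0) (nat_lit 14526402633) (nat_lit 161) (nat_lit 5) (nat_lit 163) (nat_lit 4) (nat_lit 161) (nat_lit 4) (nat_lit 421) (nat_lit 325) (nat_lit 274)) (XT.lf (nat_lit 0) (nat_lit 25896911092) (nat_lit 76) (nat_lit 8889935982) (nat_lit 76) (nat_lit 2601284063) (nat_lit 160) (nat_lit 4) (nat_lit 161) (nat_lit 5) (nat_lit 161) (nat_lit 4) (nat_lit 422) (nat_lit 325) (nat_lit 273)))) (XT.nd (nat_lit 156) (nat_lit 152) (nat_lit 0) (XT.nd (nat_lit 78) (nat_lit 76) (nat_lit 0) (XT.lf (nat_lit 0) (nat_lit 10791892769) (nat_lit 152) (nat_lit 23001522384) (nat_lit 0) (nat_lit 4778204689) (nat_lit 158) (nat_lit 5) (nat_lit 160) (nat_lit 4) (nat_lit 158) (nat_lit 4) (nat_lit 423) (nat_lit 325) (nat_lit 272)) (XT.lf (nat_lit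 0) (nat_lit 4344568694) (nat_lit 76) (nat_lit 20744261687) (nat_lit 76) (nat_lit 14707244295) (nat_lit 157) (nat_lit 4) (nat_lit 158) (nat_lit 5) (nat_lit 158) (nat_lit 4) (nat_lit 424) (nat_lit 325) (nat_lit 271))) (XT.nd (nat_lit 78) (nat_lit 152) (nat_lit 0) (XT.lf (nat_lit 0) (nat_lit 33677666168) (nat_lit 76) (nat_lit 6724131368) (nat_lit 76) (nat_lit 664895584) (nat_lit 157) (nat_lit 4) (nat_lit 158) (nat_lit 5) (nat_lit 158) (nat_lit 4) (nat_lit 425) (nat_lit 325) (nat_lit 270)) (XT.lf (nat_lit 0) (nat_lit 14025964780) (nat_lit 152) (nat_lit 20108923909) (nat_lit 0) (nat_lit 8235111298) (nat_lit 155) (nat_lit 5) (nat_lit 157) (nat_lit 4) (nat_lit 155) (nat_lit 4) (nat_lit 426) (nat_lit 325) (nat_lit 269))))))) (XT.nd (nat_lit 1248) (nat_lit 1292) (nat_lit 0) (XT.nd (nat_lit 624) (nat_lit 532) (nat_lit 0) (XT.nd (nat_lit 312) (nat_lit 380) (nat_lit 0) (XT.nd (nat_lit 156) (nat_lit 152) (nat_lit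 0) (XT.nd (nat_lit 78) (nat_lit 76) (nat_lit 0) (XT.lf (nat_lit 0) (nat_lit 9939712968) (nat_lit 76) (nat_lit 19796451861) (nat_lit 76) (nat_lit 13986405296) (nat_lit 154) (nat_lit 4) (nat_lit 155) (nat_lit 5) (nat_lit 155) (nat_lit 4) (nat_lit 427) (nat_lit 325) (nat_lit 268)) (XT.lf (nat_lit 0) (nat_lit 1314950753) (nat_lit 152) (nat_lit 3132676645) (nat_lit 76) (nat_lit 40681256031) (nat_lit 153) (nat_lit 5) (nat_lit 155) (nat_lit 5) (nat_lit 154) (nat_lit 4) (nat_lit 428) (nat_lit 325) (nat_lit 267))) (XT.nd (nat_lit 78) (nat_lit 76) (nat_lit 0) (XT.lf (nat_lit 0) (nat_lit 17484372276) (nat_lit 152) (nat_lit 17164018027) (nat_lit 0) (nat_lit 11917006198) (nat_lit 152) (nat_lit 5) (nat_lit 154) (nat_lit 4) (nat_lit 152) (nat_lit 4) (nat_lit 429) (nat_lit 325) (nat_lit 266)) (XT.lf (nat_lit 0) (nat_lit 15868863902) (nat_lit 76) (nat_lit 18886681779) (nat_lit 76) (nat_lit 13303525505) (nat_lit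 151) (nat_lit 4) (nat_lit 152) (nat_lit 5) (nat_lit 152) (nat_lit 4) (nat_lit 430) (nat_lit 325) (nat_lit 265)))) (XT.nd (nat_lit 156) (nat_lit 228) (nat_lit 0) (XT.nd (nat_lit 78) (nat_lit 0) (nat_lit 0) (XT.lf (nat_lit 0) (nat_lit 1359086389) (nat_lit 76) (nat_lit 2034709193) (nat_lit 152) (nat_lit 46219317965) (nat_lit 149) (nat_lit 5) (nat_lit 150) (nat_lit 5) (nat_lit 151) (nat_lit 4) (nat_lit 431) (nat_lit 325) (nat_lit 264)) (XT.lf (nat_lit 0) (nat_lit 21196245674) (nat_lit 152) (nat_lit 14150848746) (nat_lit 0) (nat_lit 15850991646) (nat_lit 149) (nat_lit 5) (nat_lit 151) (nat_lit 4) (nat_lit 149) (nat_lit 4) (nat_lit 432) (nat_lit 325) (nat_lit 263))) (XT.nd (nat_lit 78) (nat_lit 152) (nat_lit 0) (XT.lf (nat_lit 0) (nat_lit 22176645074) (nat_lit 76) (nat_lit 18014397784) (nat_lit 76) (nat_lit 12656153122) (nat_lit 148) (nat_lit 4) (nat_lit 149) (nat_lit 5) (nat_lit 149) (nat_lit 4) (nat_lit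 433) (nat_lit 325) (nat_lit 262)) (XT.lf (nat_lit 0) (nat_lit 5650562218) (nat_lit 152) (nat_lit 48374592291) (nat_lit 0) (nat_lit 535689177) (nat_lit 146) (nat_lit 5) (nat_lit 148) (nat_lit 4) (nat_lit 146) (nat_lit 4) (nat_lit 434) (nat_lit 325) (nat_lit 261))))) (XT.nd (nat_lit 312) (nat_lit 304) (nat_lit 0) (XT.nd (nat_lit 156) (nat_lit 152) (nat_lit 0) (XT.nd (nat_lit 78) (nat_lit 76) (nat_lit 0) (XT.lf (nat_lit 0) (nat_lit 25193225865) (nat_lit 152) (nat_lit 11052145876) (nat_lit 0) (nat_lit 20067131026) (nat_lit 146) (nat_lit 5) (nat_lit 148) (nat_lit 4) (nat_lit 146) (nat_lit 4) (nat_lit 435) (nat_lit 325) (nat_lit 260)) (XT.lf (nat_lit 0) (nat_lit 28911939572) (nat_lit 76) (nat_lit 17178849586) (nat_lit 76) (nat_lit 12042067320) (nat_lit 145) (nat_lit 4) (nat_lit 146) (nat_lit 5) (nat_lit 146) (nat_lit 4) (nat_lit 436) (nat_lit 325) (nat_lit 259))) (XT.nd (nat_lit 78) (nat_lit 0) (nat_lit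 0) (XT.lf (nat_lit 0) (nat_lit 8077695582) (nat_lit 152) (nat_lit 48767248032) (nat_lit 0) (nat_lit 3175828185) (nat_lit 143) (nat_lit 5) (nat_lit 145) (nat_lit 4) (nat_lit 143) (nat_lit 4) (nat_lit 437) (nat_lit 325) (nat_lit 258)) (XT.lf (nat_lit 0) (nat_lit 29509776651) (nat_lit 152) (nat_lit 7849207510) (nat_lit 0) (nat_lit 24598677053) (nat_lit 143) (nat_lit 5) (nat_lit 145) (nat_lit 4) (nat_lit 143) (nat_lit 4) (nat_lit 438) (nat_lit 325) (nat_lit 257)))) (XT.nd (nat_lit 156) (nat_lit 76) (nat_lit 0) (XT.nd (nat_lit 78) (nat_lit 152) (nat_lit 0) (XT.lf (nat_lit 0) (nat_lit 36128309601) (nat_lit 76) (nat_lit 16379139160) (nat_lit 76) (nat_lit 11459246990) (nat_lit 142) (nat_lit 4) (nat_lit 143) (nat_lit 5) (nat_lit 143) (nat_lit 4) (nat_lit 439) (nat_lit 325) (nat_lit 256)) (XT.lf (nat_lit 0) (nat_lit 10662809005) (nat_lit 152) (nat_lit 49414763719) (nat_lit 0) (nat_lit 5969222293) (nat_lit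 140) (nat_lit 5) (nat_lit 142) (nat_lit 4) (nat_lit 140) (nat_lit 4) (nat_lit 440) (nat_lit 325) (nat_lit 255))) (XT.nd (nat_lit 78) (nat_lit 76) (nat_lit 0) (XT.lf (nat_lit 0) (nat_lit 34183520833) (nat_lit 152) (nat_lit 4521763876) (nat_lit 0) (nat_lit 29482338767) (nat_lit 140) (nat_lit 5) (nat_lit 142) (nat_lit 4) (nat_lit 140) (nat_lit 4) (nat_lit 441) (nat_lit 325) (nat_lit 254)) (XT.lf (nat_lit 0) (nat_lit 43884465585) (nat_lit 76) (nat_lit 15614260314) (nat_lit 76) (nat_lit 10905844577) (nat_lit 139) (nat_lit 4) (nat_lit 140) (nat_lit 5) (nat_lit 140) (nat_lit 4) (nat_lit 442) (nat_lit 325) (nat_lit 253)))))) (XT.nd (nat_lit 624) (nat_lit 608) (nat_lit 0) (XT.nd (nat_lit 312) (nat_lit 304) (nat_lit 0) (XT.nd (nat_lit 156) (nat_lit 228) (nat_lit 0) (XT.nd (nat_lit 78) (nat_lit 0) (nat_lit 0) (XT.lf (nat_lit 0) (nat_lit 13426916353) (nat_lit 152) (nat_lit 50333539890) (nat_lit 0) (nat_lit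 8936149736) (nat_lit 137) (nat_lit 5) (nat_lit 139) (nat_lit 4) (nat_lit 137) (nat_lit 4) (nat_lit 443) (nat_lit 325) (nat_lit 252)) (XT.lf (nat_lit 0) (nat_lit 39255603781) (nat_lit 152) (nat_lit 1047821994) (nat_lit 0) (nat_lit 34758588448) (nat_lit 137) (nat_lit 5) (nat_lit 139) (nat_lit 4) (nat_lit 137) (nat_lit 4) (nat_lit 444) (nat_lit 325) (nat_lit 251))) (XT.nd (nat_lit 78) (nat_lit 152) (nat_lit 0) (XT.lf (nat_lit 0) (nat_lit 52244788506) (nat_lit 76) (nat_lit 14883130595) (nat_lit 76) (nat_lit 10380164103) (nat_lit 136) (nat_lit 4) (nat_lit 137) (nat_lit 5) (nat_lit 137) (nat_lit 4) (nat_lit 445) (nat_lit 325) (nat_lit 250)) (XT.lf (nat_lit 0) (nat_lit 16392867718) (nat_lit 152) (nat_lit 51542032992) (nat_lit 0) (nat_lit 12098930325) (nat_lit 134) (nat_lit 5) (nat_lit 136) (nat_lit 4) (nat_lit 134) (nat_lit 4) (nat_lit 446) (nat_lit 325) (nat_lit 249)))) (XT.nd (nat_lit 156) (nat_lit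 228) (nat_lit 0) (XT.nd (nat_lit 78) (nat_lit 0) (nat_lit 0) (XT.lf (nat_lit 0) (nat_lit 2682362082) (nat_lit 76) (nat_lit 42130605584) (nat_lit 76) (nat_lit 37831527356) (nat_lit 133) (nat_lit 4) (nat_lit 134) (nat_lit 5) (nat_lit 134) (nat_lit 4) (nat_lit 447) (nat_lit 325) (nat_lit 248)) (XT.lf (nat_lit 0) (nat_lit 61279909883) (nat_lit 76) (nat_lit 14184616938) (nat_lit 76) (nat_lit 9880642677) (nat_lit 133) (nat_lit 4) (nat_lit 134) (nat_lit 5) (nat_lit 134) (nat_lit 4) (nat_lit 448) (nat_lit 325) (nat_lit 247))) (XT.nd (nat_lit 78) (nat_lit 76) (nat_lit 0) (XT.lf (nat_lit 0) (nat_lit 19585568390) (nat_lit 152) (nat_lit 53060963889) (nat_lit 0) (nat_lit 15482104438) (nat_lit 131) (nat_lit 5) (nat_lit 133) (nat_lit 4) (nat_lit 131) (nat_lit 4) (nat_lit 449) (nat_lit 325) (nat_lit 246)) (XT.lf (nat_lit 0) (nat_lit 6650061749) (nat_lit 76) (nat_lit 44233150578) (nat_lit 76) (nat_lit 40125457248)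 (nat_lit 130) (nat_lit 4) (nat_lit 131) (nat_lit 5) (nat_lit 131) (nat_lit 4) (nat_lit 450) (nat_lit 325) (nat_lit 245))))) (XT.nd (nat_lit 312) (nat_lit 380) (nat_lit 0) (XT.nd (nat_lit 156) (nat_lit 76) (nat_lit 0) (XT.nd (nat_lit 78) (nat_lit 152) (nat_lit 0) (XT.lf (nat_lit 0) (nat_lit 71067354403) (nat_lit 76) (nat_lit 13517556187) (nat_lit 76) (nat_lit 9405834879) (nat_lit 130) (nat_lit 4) (nat_lit 131) (nat_lit 5) (nat_lit 131) (nat_lit 4) (nat_lit 451) (nat_lit 325) (nat_lit 244)) (XT.lf (nat_lit 0) (nat_lit 23032216027) (nat_lit 152) (nat_lit 54913545073) (nat_lit 0) (nat_lit 19112637476) (nat_lit 128) (nat_lit 5) (nat_lit 130) (nat_lit 4) (nat_lit 128) (nat_lit 4) (nat_lit 452) (nat_lit 325) (nat_lit 243))) (XT.nd (nat_lit 78) (nat_lit 0) (nat_lit 0) (XT.lf (nat_lit 0) (nat_lit 10849868615) (nat_lit 76) (nat_lit 46654255732) (nat_lit 76) (nat_lit 42731197661) (nat_lit 127) (nat_lit 4)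 (nat_lit 128) (nat_lit 5) (nat_lit 128) (nat_lit 4) (nat_lit 453) (nat_lit 325) (nat_lit 242)) (XT.lf (nat_lit 0) (nat_lit 81692250933) (nat_lit 76) (nat_lit 12880771431) (nat_lit 76) (nat_lit 8954399533) (nat_lit 127) (nat_lit 4) (nat_lit 128) (nat_lit 5) (nat_lit 128) (nat_lit 4) (nat_lit 454) (nat_lit 325) (nat_lit 241)))) (XT.nd (nat_lit 156) (nat_lit 152) (nat_lit 0) (XT.nd (nat_lit 78) (nat_lit 76) (nat_lit 0) (XT.lf (nat_lit 0) (nat_lit 26762558602) (nat_lit 152) (nat_lit 57125729123) (nat_lit 0) (nat_lit 23020151055) (nat_lit 125) (nat_lit 5) (nat_lit 127) (nat_lit 4) (nat_lit 125) (nat_lit 4) (nat_lit 455) (nat_lit 325) (nat_lit 240)) (XT.lf (nat_lit 0) (nat_lit 15313663067) (nat_lit 76) (nat_lit 49422103744) (nat_lit 76) (nat_lit 45676833587) (nat_lit 124) (nat_lit 4) (nat_lit 125) (nat_lit 5) (nat_lit 125) (nat_lit 4) (nat_lit 456) (nat_lit 325) (nat_lit 239))) (XT.nd (nat_lit 78) (nat_lit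 152) (nat_lit 0) (XT.lf (nat_lit 0) (nat_lit 93248118325) (nat_lit 76) (nat_lit 12273084917) (nat_lit 76) (nat_lit 8525088466) (nat_lit 124) (nat_lit 4) (nat_lit 125) (nat_lit 5) (nat_lit 125) (nat_lit 4) (nat_lit 457) (nat_lit 325) (nat_lit 238)) (XT.lf (nat_lit 0) (nat_lit 30809175819) (nat_lit 152) (nat_lit 59726481076) (nat_lit 0) (nat_lit 27237182560) (nat_lit 122) (nat_lit 5) (nat_lit 124) (nat_lit 4) (nat_lit 122) (nat_lit 4) (nat_lit 458) (nat_lit 325) (nat_lit 237))))))))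
noncomputable def xc86 : XT := (XT.nd (nat_lit 1248) (nat_lit 1140) (nat_lit 0) (XT.nd (nat_lit 624) (nat_lit 684) (nat_lit 0) (XT.nd (nat_lit 312) (nat_lit 228) (nat_lit 0) (XT.nd (nat_lit 156) (nat_lit 228) (nat_lit 0) (XT.nd (nat_lit 78) (nat_lit 0) (nat_lit 0) (XT.lf (nat_lit 0) (nat_lit 20076247743) (nat_lit 76) (nat_lit 52567901335) (nat_lit 76) (nat_lit 48993553001) (nat_lit 121) (nat_lit 4) (nat_lit 122) (nat_lit 5) (nat_lit 122) (nat_lit 4) (nat_lit 459) (nat_lit 325) (nat_lit 236)) (XT.lf (nat_lit 0) (nat_lit 105837733226) (nat_lit 76) (nat_lit 11693328176) (nat_lit 76) (nat_lit 8116736913) (nat_lit 121) (nat_lit 4) (nat_lit 122) (nat_lit 5) (nat_lit 122) (nat_lit 4) (nat_lit 460) (nat_lit 325) (nat_lit 235))) (XT.nd (nat_lit 78) (nat_lit 76) (nat_lit 0) (XT.lf (nat_lit 0) (nat_lit 35207786873) (nat_lit 152) (nat_lit 62748077594) (nat_lit 0) (nat_lit 31799475076) (nat_lit 119) (nat_lit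 5) (nat_lit 121) (nat_lit 4) (nat_lit 119) (nat_lit 4) (nat_lit 461) (nat_lit 325) (nat_lit 234)) (XT.lf (nat_lit 0) (nat_lit 25175656472) (nat_lit 76) (nat_lit 56126196517) (nat_lit 76) (nat_lit 52715947193) (nat_lit 118) (nat_lit 4) (nat_lit 119) (nat_lit 5) (nat_lit 119) (nat_lit 4) (nat_lit 462) (nat_lit 325) (nat_lit 233)))) (XT.nd (nat_lit 156) (nat_lit 76) (nat_lit 0) (XT.nd (nat_lit 78) (nat_lit 152) (nat_lit 0) (XT.lf (nat_lit 0) (nat_lit 119574087913) (nat_lit 76) (nat_lit 11140349878) (nat_lit 76) (nat_lit 7728255291) (nat_lit 118) (nat_lit 4) (nat_lit 119) (nat_lit 5) (nat_lit 119) (nat_lit 4) (nat_lit 463) (nat_lit 325) (nat_lit 232)) (XT.lf (nat_lit 0) (nat_lit 39997587660) (nat_lit 152) (nat_lit 66226435966) (nat_lit 0) (nat_lit 36746300059) (nat_lit 116) (nat_lit 5) (nat_lit 118) (nat_lit 4) (nat_lit 116) (nat_lit 4) (nat_lit 464) (nat_lit 325) (nat_lit 231))) (XT.nd (nat_lit 78)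 (nat_lit 0) (nat_lit 0) (XT.lf (nat_lit 0) (nat_lit 30653495678) (nat_lit 76) (nat_lit 60135225592) (nat_lit 76) (nat_lit 56882343984) (nat_lit 115) (nat_lit 4) (nat_lit 116) (nat_lit 5) (nat_lit 116) (nat_lit 4) (nat_lit 465) (nat_lit 325) (nat_lit 230)) (XT.lf (nat_lit 0) (nat_lit 134581447059) (nat_lit 76) (nat_lit 10613021843) (nat_lit 76) (nat_lit 7358622132) (nat_lit 115) (nat_lit 4) (nat_lit 116) (nat_lit 5) (nat_lit 116) (nat_lit 4) (nat_lit 466) (nat_lit 325) (nat_lit 229))))) (XT.nd (nat_lit 312) (nat_lit 304) (nat_lit 0) (XT.nd (nat_lit 156) (nat_lit 152) (nat_lit 0) (XT.nd (nat_lit 78) (nat_lit 76) (nat_lit 0) (XT.lf (nat_lit 0) (nat_lit 45221620770) (nat_lit 152) (nat_lit 70201476300) (nat_lit 0) (nat_lit 42120815509) (nat_lit 113) (nat_lit 5) (nat_lit 115) (nat_lit 4) (nat_lit 113) (nat_lit 4) (nat_lit 467) (nat_lit 325) (nat_lit 228)) (XT.lf (nat_lit 0) (nat_lit 36555321327) (nat_lit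 76) (nat_lit 64637293511) (nat_lit 76) (nat_lit 61535176857) (nat_lit 112) (nat_lit 4) (nat_lit 113) (nat_lit 5) (nat_lit 113) (nat_lit 4) (nat_lit 468) (nat_lit 325) (nat_lit 227))) (XT.nd (nat_lit 78) (nat_lit 152) (nat_lit 0) (XT.lf (nat_lit 0) (nat_lit 150996513350) (nat_lit 76) (nat_lit 10110243552) (nat_lit 76) (nat_lit 7006877950) (nat_lit 112) (nat_lit 4) (nat_lit 113) (nat_lit 5) (nat_lit 113) (nat_lit 4) (nat_lit 469) (nat_lit 325) (nat_lit 226)) (XT.lf (nat_lit 0) (nat_lit 50927181894) (nat_lit 152) (nat_lit 74717520494) (nat_lit 0) (nat_lit 47970462775) (nat_lit 110) (nat_lit 5) (nat_lit 112) (nat_lit 4) (nat_lit 110) (nat_lit 4) (nat_lit 470) (nat_lit 325) (nat_lit 225)))) (XT.nd (nat_lit 156) (nat_lit 228) (nat_lit 0) (XT.nd (nat_lit 78) (nat_lit 0) (nat_lit 0) (XT.lf (nat_lit 0) (nat_lit 42931054837) (nat_lit 76) (nat_lit 69679191443) (nat_lit 76) (nat_lit 66721393437) (nat_lit 109)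 (nat_lit 4) (nat_lit 110) (nat_lit 5) (nat_lit 110) (nat_lit 4) (nat_lit 471) (nat_lit 325) (nat_lit 224)) (XT.lf (nat_lit 0) (nat_lit 168969712885) (nat_lit 76) (nat_lit 9630945455) (nat_lit 76) (nat_lit 6672119937) (nat_lit 109) (nat_lit 4) (nat_lit 110) (nat_lit 5) (nat_lit 110) (nat_lit 4) (nat_lit 472) (nat_lit 325) (nat_lit 223))) (XT.nd (nat_lit 78) (nat_lit 76) (nat_lit 0) (XT.lf (nat_lit 0) (nat_lit 57166266609) (nat_lit 152) (nat_lit 79823731942) (nat_lit 0) (nat_lit 54347405561) (nat_lit 107) (nat_lit 5) (nat_lit 109) (nat_lit 4) (nat_lit 107) (nat_lit 4) (nat_lit 473) (nat_lit 325) (nat_lit 222)) (XT.lf (nat_lit 0) (nat_lit 49835441789) (nat_lit 76) (nat_lit 75312655773) (nat_lit 76) (nat_lit 72492907122) (nat_lit 106) (nat_lit 4) (nat_lit 107) (nat_lit 5) (nat_lit 107) (nat_lit 4) (nat_lit 474) (nat_lit 325) (nat_lit 221)))))) (XT.nd (nat_lit 624) (nat_lit 532) (nat_lit 0) (XT.nd (nat_lit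 312) (nat_lit 380) (nat_lit 0) (XT.nd (nat_lit 156) (nat_lit 76) (nat_lit 0) (XT.nd (nat_lit 78) (nat_lit 152) (nat_lit 0) (XT.lf (nat_lit 0) (nat_lit 188666612502) (nat_lit 76) (nat_lit 9174091292) (nat_lit 76) (nat_lit 6353497305) (nat_lit 106) (nat_lit 4) (nat_lit 107) (nat_lit 5) (nat_lit 107) (nat_lit 4) (nat_lit 475) (nat_lit 325) (nat_lit 220)) (XT.lf (nat_lit 0) (nat_lit 63996061854) (nat_lit 152) (nat_lit 85574600267) (nat_lit 0) (nat_lit 61309015121) (nat_lit 104) (nat_lit 5) (nat_lit 106) (nat_lit 4) (nat_lit 104) (nat_lit 4) (nat_lit 476) (nat_lit 325) (nat_lit 219))) (XT.nd (nat_lit 78) (nat_lit 0) (nat_lit 0) (XT.lf (nat_lit 0) (nat_lit 57328557689) (nat_lit 76) (nat_lit 81594873069) (nat_lit 76) (nat_lit 78907096102) (nat_lit 103) (nat_lit 4) (nat_lit 104) (nat_lit 5) (nat_lit 104) (nat_lit 4) (nat_lit 477) (nat_lit 325) (nat_lit 218)) (XT.lf (nat_lit 0) (nat_lit 210269482407) (nat_lit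 76) (nat_lit 8738679641) (nat_lit 76) (nat_lit 6050207214) (nat_lit 103) (nat_lit 4) (nat_lit 104) (nat_lit 5) (nat_lit 104) (nat_lit 4) (nat_lit 478) (nat_lit 325) (nat_lit 217)))) (XT.nd (nat_lit 156) (nat_lit 152) (nat_lit 0) (XT.nd (nat_lit 78) (nat_lit 76) (nat_lit 0) (XT.lf (nat_lit 0) (nat_lit 71479486850) (nat_lit 152) (nat_lit 92030475814) (nat_lit 0) (nat_lit 68918406116) (nat_lit 101) (nat_lit 5) (nat_lit 103) (nat_lit 4) (nat_lit 101) (nat_lit 4) (nat_lit 479) (nat_lit 325) (nat_lit 216)) (XT.lf (nat_lit 0) (nat_lit 65476365512) (nat_lit 76) (nat_lit 88589035974) (nat_lit 76) (nat_lit 86027354476) (nat_lit 100) (nat_lit 4) (nat_lit 101) (nat_lit 5) (nat_lit 101) (nat_lit 4) (nat_lit 480) (nat_lit 325) (nat_lit 215))) (XT.nd (nat_lit 78) (nat_lit 152) (nat_lit 0) (XT.lf (nat_lit 0) (nat_lit 233979018915) (nat_lit 76) (nat_lit 8323744825) (nat_lit 76) (nat_lit 5761491169) (nat_lit 100)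 (nat_lit 4) (nat_lit 101) (nat_lit 5) (nat_lit 101) (nat_lit 4) (nat_lit 481) (nat_lit 325) (nat_lit 214)) (XT.lf (nat_lit 0) (nat_lit 79685788637) (nat_lit 152) (nat_lit 99258159079) (nat_lit 0) (nat_lit 77245028097) (nat_lit 98) (nat_lit 5) (nat_lit 100) (nat_lit 4) (nat_lit 98) (nat_lit 4) (nat_lit 482) (nat_lit 325) (nat_lit 213))))) (XT.nd (nat_lit 312) (nat_lit 228) (nat_lit 0) (XT.nd (nat_lit 156) (nat_lit 228) (nat_lit 0) (XT.nd (nat_lit 78) (nat_lit 0) (nat_lit 0) (XT.lf (nat_lit 0) (nat_lit 74351330233) (nat_lit 76) (nat_lit 96364955466) (nat_lit 76) (nat_lit 93923700675) (nat_lit 97) (nat_lit 4) (nat_lit 98) (nat_lit 5) (nat_lit 98) (nat_lit 4) (nat_lit 483) (nat_lit 325) (nat_lit 212)) (XT.lf (nat_lit 0) (nat_lit 260016243637) (nat_lit 76) (nat_lit 7928357331) (nat_lit 76) (nat_lit 5486631826) (nat_lit 97) (nat_lit 4) (nat_lit 98) (nat_lit 5) (nat_lit 98) (nat_lit 4) (nat_lit 484) (nat_lit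 325) (nat_lit 211))) (XT.nd (nat_lit 78) (nat_lit 76) (nat_lit 0) (XT.lf (nat_lit 0) (nat_lit 88691197970) (nat_lit 152) (nat_lit 107331550772) (nat_lit 0) (nat_lit 86365318155) (nat_lit 95) (nat_lit 5) (nat_lit 97) (nat_lit 4) (nat_lit 95) (nat_lit 4) (nat_lit 485) (nat_lit 325) (nat_lit 210)) (XT.lf (nat_lit 0) (nat_lit 84033096157) (nat_lit 76) (nat_lit 104999735395) (nat_lit 76) (nat_lit 102673448959) (nat_lit 94) (nat_lit 4) (nat_lit 95) (nat_lit 5) (nat_lit 95) (nat_lit 4) (nat_lit 486) (nat_lit 325) (nat_lit 209)))) (XT.nd (nat_lit 156) (nat_lit 76) (nat_lit 0) (XT.nd (nat_lit 78) (nat_lit 152) (nat_lit 0) (XT.lf (nat_lit 0) (nat_lit 288624597131) (nat_lit 76) (nat_lit 7551623830) (nat_lit 76) (nat_lit 5224950136) (nat_lit 94) (nat_lit 4) (nat_lit 95) (nat_lit 5) (nat_lit 95) (nat_lit 4) (nat_lit 487) (nat_lit 325) (nat_lit 208)) (XT.lf (nat_lit 0) (nat_lit 98579651808) (nat_lit 152) (nat_lit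 116332368762) (nat_lit 0) (nat_lit 96363420844) (nat_lit 92) (nat_lit 5) (nat_lit 94) (nat_lit 4) (nat_lit 92) (nat_lit 4) (nat_lit 488) (nat_lit 325) (nat_lit 207))) (XT.nd (nat_lit 78) (nat_lit 0) (nat_lit 0) (XT.lf (nat_lit 0) (nat_lit 94609233401) (nat_lit 76) (nat_lit 114578515847) (nat_lit 76) (nat_lit 112361950355) (nat_lit 91) (nat_lit 4) (nat_lit 92) (nat_lit 5) (nat_lit 92) (nat_lit 4) (nat_lit 489) (nat_lit 325) (nat_lit 206)) (XT.lf (nat_lit 0) (nat_lit 320072246913) (nat_lit 76) (nat_lit 7192686883) (nat_lit 76) (nat_lit 4975802793) (nat_lit 91) (nat_lit 4) (nat_lit 92) (nat_lit 5) (nat_lit 92) (nat_lit 4) (nat_lit 490) (nat_lit 325) (nat_lit 205)))))))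
noncomputable def xc87 : XT := (XT.nd (nat_lit 44460) (nat_lit 0) (nat_lit 7828) (XT.nd (nat_lit 43836) (nat_lit 0) (nat_lit 9956) (XT.nd (nat_lit 43524) (nat_lit 0) (nat_lit 11476) (XT.nd (nat_lit 156) (nat_lit 152) (nat_lit 0) (XT.nd (nat_lit 78) (nat_lit 76) (nat_lit 0) (XT.lf (nat_lit 0) (nat_lit 109443589341) (nat_lit 152) (nat_lit 126350938822) (nat_lit 0) (nat_lit 107331982182) (nat_lit 89) (nat_lit 5) (nat_lit 91) (nat_lit 4) (nat_lit 89) (nat_lit 4) (nat_lit 491) (nat_lit 325) (nat_lit 204)) (XT.lf (nat_lit 0) (nat_lit 106176060615) (nat_lit 76) (nat_lit 125195292472) (nat_lit 76) (nat_lit 123083410095) (nat_lit 88) (nat_lit 4) (nat_lit 89) (nat_lit 5) (nat_lit 89) (nat_lit 4) (nat_lit 492) (nat_lit 325) (nat_lit 203))) (XT.nd (nat_lit 78) (nat_lit 152) (nat_lit 0) (XT.lf (nat_lit 0) (nat_lit 354654631765) (nat_lit 76) (nat_lit 6850724413) (nat_lit 76) (nat_lit 4738579924) (nat_lit 88)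 (nat_lit 4) (nat_lit 89) (nat_lit 5) (nat_lit 89) (nat_lit 4) (nat_lit 493) (nat_lit 325) (nat_lit 202)) (XT.lf (nat_lit 0) (nat_lit 121384829127) (nat_lit 152) (nat_lit 137487066727) (nat_lit 0) (nat_lit 119373025204) (nat_lit 86) (nat_lit 5) (nat_lit 88) (nat_lit 4) (nat_lit 86) (nat_lit 4) (nat_lit 494) (nat_lit 325) (nat_lit 201)))) (XT.nd (nat_lit 156) (nat_lit 304) (nat_lit 0) (XT.nd (nat_lit 78) (nat_lit 228) (nat_lit 0) (XT.lf (nat_lit 0) (nat_lit 404719582) (nat_lit 304) (nat_lit 3545855768) (nat_lit 0) (nat_lit 404719582) (nat_lit 244) (nat_lit 5) (nat_lit 248) (nat_lit 4) (nat_lit 244) (nat_lit 4) (nat_lit 368) (nat_lit 326) (nat_lit 326)) (XT.lf (nat_lit 0) (nat_lit 600500855) (nat_lit 228) (nat_lit 4614334584) (nat_lit 228) (nat_lit 3663097774) (nat_lit 241) (nat_lit 4) (nat_lit 244) (nat_lit 5) (nat_lit 244) (nat_lit 4) (nat_lit 369) (nat_lit 326) (nat_lit 325))) (XT.nd (nat_lit 78)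 (nat_lit 228) (nat_lit 0) (XT.lf (nat_lit 0) (nat_lit 708227250) (nat_lit 304) (nat_lit 405310766) (nat_lit 76) (nat_lit 7942163766) (nat_lit 240) (nat_lit 5) (nat_lit 244) (nat_lit 5) (nat_lit 241) (nat_lit 4) (nat_lit 370) (nat_lit 326) (nat_lit 324)) (XT.lf (nat_lit 0) (nat_lit 5171192275) (nat_lit 304) (nat_lit 1487616565) (nat_lit 0) (nat_lit 2580738507) (nat_lit 237) (nat_lit 5) (nat_lit 241) (nat_lit 4) (nat_lit 237) (nat_lit 4) (nat_lit 371) (nat_lit 326) (nat_lit 323))))) (XT.nd (nat_lit 312) (nat_lit 608) (nat_lit 0) (XT.nd (nat_lit 156) (nat_lit 456) (nat_lit 0) (XT.nd (nat_lit 78) (nat_lit 152) (nat_lit 0) (XT.lf (nat_lit 0) (nat_lit 378195597) (nat_lit 304) (nat_lit 2597737671) (nat_lit 76) (nat_lit 6457966922) (nat_lit 233) (nat_lit 5) (nat_lit 237) (nat_lit 5) (nat_lit 234) (nat_lit 4) (nat_lit 372) (nat_lit 326) (nat_lit 322)) (XT.lf (nat_lit 0) (nat_lit 4879570494) (nat_lit 228)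 (nat_lit 3799279278) (nat_lit 0) (nat_lit 957325182) (nat_lit 231) (nat_lit 5) (nat_lit 234) (nat_lit 4) (nat_lit 231) (nat_lit 4) (nat_lit 373) (nat_lit 326) (nat_lit 321))) (XT.nd (nat_lit 78) (nat_lit 228) (nat_lit 0) (XT.lf (nat_lit 0) (nat_lit 4780053928) (nat_lit 228) (nat_lit 4833209312) (nat_lit 228) (nat_lit 234937758) (nat_lit 228) (nat_lit 4) (nat_lit 231) (nat_lit 5) (nat_lit 231) (nat_lit 4) (nat_lit 374) (nat_lit 326) (nat_lit 320)) (XT.lf (nat_lit 0) (nat_lit 3635907254) (nat_lit 152) (nat_lit 694830952) (nat_lit 228) (nat_lit 5738449053) (nat_lit 225) (nat_lit 5) (nat_lit 227) (nat_lit 5) (nat_lit 228) (nat_lit 4) (nat_lit 375) (nat_lit 326) (nat_lit 319)))) (XT.nd (nat_lit 156) (nat_lit 228) (nat_lit 0) (XT.nd (nat_lit 78) (nat_lit 228) (nat_lit 0) (XT.lf (nat_lit 0) (nat_lit 2405311501) (nat_lit 152) (nat_lit 6735488861) (nat_lit 152) (nat_lit 1159030006) (nat_lit 223) (nat_lit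 4) (nat_lit 225) (nat_lit 5) (nat_lit 225) (nat_lit 4) (nat_lit 376) (nat_lit 326) (nat_lit 318)) (XT.lf (nat_lit 0) (nat_lit 1072245330) (nat_lit 152) (nat_lit 2442326693) (nat_lit 228) (nat_lit 7025484057) (nat_lit 220) (nat_lit 5) (nat_lit 222) (nat_lit 5) (nat_lit 223) (nat_lit 4) (nat_lit 377) (nat_lit 326) (nat_lit 317))) (XT.nd (nat_lit 78) (nat_lit 228) (nat_lit 0) (XT.lf (nat_lit 0) (nat_lit 8395924379) (nat_lit 228) (nat_lit 343901867) (nat_lit 0) (nat_lit 2050865744) (nat_lit 220) (nat_lit 5) (nat_lit 223) (nat_lit 4) (nat_lit 220) (nat_lit 4) (nat_lit 378) (nat_lit 326) (nat_lit 316)) (XT.lf (nat_lit 0) (nat_lit 2425652161) (nat_lit 228) (nat_lit 1852910933) (nat_lit 76) (nat_lit 6771513263) (nat_lit 217) (nat_lit 5) (nat_lit 220) (nat_lit 5) (nat_lit 218) (nat_lit 4) (nat_lit 379) (nat_lit 326) (nat_lit 315)))))) (XT.nd (nat_lit 624) (nat_lit 1064) (nat_lit 0) (XT.nd (nat_lit 312)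 (nat_lit 456) (nat_lit 0) (XT.nd (nat_lit 156) (nat_lit 228) (nat_lit 0) (XT.nd (nat_lit 78) (nat_lit 228) (nat_lit 0) (XT.lf (nat_lit 0) (nat_lit 7395747035) (nat_lit 228) (nat_lit 3465762945) (nat_lit 0) (nat_lit 459500337) (nat_lit 215) (nat_lit 5) (nat_lit 218) (nat_lit 4) (nat_lit 215) (nat_lit 4) (nat_lit 380) (nat_lit 326) (nat_lit 314)) (XT.lf (nat_lit 0) (nat_lit 1033713291) (nat_lit 228) (nat_lit 5232155920) (nat_lit 76) (nat_lit 5335976847) (nat_lit 212) (nat_lit 5) (nat_lit 215) (nat_lit 5) (nat_lit 213) (nat_lit 4) (nat_lit 381) (nat_lit 326) (nat_lit 313))) (XT.nd (nat_lit 78) (nat_lit 152) (nat_lit 0) (XT.lf (nat_lit 0) (nat_lit 4753828426) (nat_lit 76) (nat_lit 1343905786) (nat_lit 152) (nat_lit 5796321439) (nat_lit 211) (nat_lit 5) (nat_lit 212) (nat_lit 5) (nat_lit 213) (nat_lit 4) (nat_lit 382) (nat_lit 326) (nat_lit 312)) (XT.lf (nat_lit 0) (nat_lit 3001526125) (nat_lit 152)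 (nat_lit 8466427677) (nat_lit 152) (nat_lit 730272041) (nat_lit 209) (nat_lit 4) (nat_lit 211) (nat_lit 5) (nat_lit 211) (nat_lit 4) (nat_lit 383) (nat_lit 326) (nat_lit 311)))) (XT.nd (nat_lit 156) (nat_lit 304) (nat_lit 0) (XT.nd (nat_lit 78) (nat_lit 0) (nat_lit 0) (XT.lf (nat_lit 0) (nat_lit 1066915138) (nat_lit 76) (nat_lit 3393821429) (nat_lit 152) (nat_lit 8052358761) (nat_lit 207) (nat_lit 5) (nat_lit 208) (nat_lit 5) (nat_lit 209) (nat_lit 4) (nat_lit 384) (nat_lit 326) (nat_lit 310)) (XT.lf (nat_lit 0) (nat_lit 9933236369) (nat_lit 152) (nat_lit 976955693) (nat_lit 0) (nat_lit 1930593506) (nat_lit 207) (nat_lit 5) (nat_lit 209) (nat_lit 4) (nat_lit 207) (nat_lit 4) (nat_lit 385) (nat_lit 326) (nat_lit 309))) (XT.nd (nat_lit 78) (nat_lit 76) (nat_lit 0) (XT.lf (nat_lit 0) (nat_lit 2492993982) (nat_lit 228) (nat_lit 3186953208) (nat_lit 76) (nat_lit 7499049185) (nat_lit 204) (nat_lit 5)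 (nat_lit 207) (nat_lit 5) (nat_lit 205) (nat_lit 4) (nat_lit 386) (nat_lit 326) (nat_lit 308)) (XT.lf (nat_lit 0) (nat_lit 7969805291) (nat_lit 76) (nat_lit 102535699) (nat_lit 152) (nat_lit 5459069026) (nat_lit 203) (nat_lit 5) (nat_lit 204) (nat_lit 5) (nat_lit 205) (nat_lit 4) (nat_lit 387) (nat_lit 326) (nat_lit 307))))) (XT.nd (nat_lit 312) (nat_lit 532) (nat_lit 0) (XT.nd (nat_lit 156) (nat_lit 228) (nat_lit 0) (XT.nd (nat_lit 78) (nat_lit 76) (nat_lit 0) (XT.lf (nat_lit 0) (nat_lit 130364723) (nat_lit 228) (nat_lit 8157533534) (nat_lit 76) (nat_lit 5608418846) (nat_lit 200) (nat_lit 5) (nat_lit 203) (nat_lit 5) (nat_lit 201) (nat_lit 4) (nat_lit 388) (nat_lit 326) (nat_lit 306)) (XT.lf (nat_lit 0) (nat_lit 3286232685) (nat_lit 76) (nat_lit 2544825052) (nat_lit 152) (nat_lit 8443174758) (nat_lit 199) (nat_lit 5) (nat_lit 200) (nat_lit 5) (nat_lit 201) (nat_lit 4) (nat_lit 389) (nat_lit 326)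 (nat_lit 305))) (XT.nd (nat_lit 78) (nat_lit 76) (nat_lit 0) (XT.lf (nat_lit 0) (nat_lit 635412764) (nat_lit 152) (nat_lit 11253412153) (nat_lit 152) (nat_lit 2778616762) (nat_lit 197) (nat_lit 4) (nat_lit 199) (nat_lit 5) (nat_lit 199) (nat_lit 4) (nat_lit 390) (nat_lit 326) (nat_lit 304)) (XT.lf (nat_lit 0) (nat_lit 3166229784) (nat_lit 228) (nat_lit 2193638375) (nat_lit 76) (nat_lit 9713044490) (nat_lit 196) (nat_lit 5) (nat_lit 199) (nat_lit 5) (nat_lit 197) (nat_lit 4) (nat_lit 391) (nat_lit 326) (nat_lit 303)))) (XT.nd (nat_lit 156) (nat_lit 228) (nat_lit 0) (XT.nd (nat_lit 78) (nat_lit 228) (nat_lit 0) (XT.lf (nat_lit 0) (nat_lit 9363978751) (nat_lit 152) (nat_lit 5226962364) (nat_lit 0) (nat_lit 902986506) (nat_lit 195) (nat_lit 5) (nat_lit 197) (nat_lit 4) (nat_lit 195) (nat_lit 4) (nat_lit 392) (nat_lit 326) (nat_lit 302)) (XT.lf (nat_lit 0) (nat_lit 55344142) (nat_lit 228) (nat_lit 8528609244)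 (nat_lit 76) (nat_lit 7346207121) (nat_lit 192) (nat_lit 5) (nat_lit 195) (nat_lit 5) (nat_lit 193) (nat_lit 4) (nat_lit 393) (nat_lit 326) (nat_lit 301))) (XT.nd (nat_lit 78) (nat_lit 152) (nat_lit 0) (XT.lf (nat_lit 0) (nat_lit 4254536740) (nat_lit 76) (nat_lit 2120610318) (nat_lit 152) (nat_lit 10006470845) (nat_lit 191) (nat_lit 5) (nat_lit 192) (nat_lit 5) (nat_lit 193) (nat_lit 4) (nat_lit 394) (nat_lit 326) (nat_lit 300)) (XT.nd (nat_lit 78) (nat_lit 76) (nat_lit 0) (XT.lf (nat_lit 0) (nat_lit 836658843) (nat_lit 76) (nat_lit 12282388561) (nat_lit 76) (nat_lit 3731195401) (nat_lit 190) (nat_lit 4) (nat_lit 191) (nat_lit 5) (nat_lit 191) (nat_lit 4) (nat_lit 395) (nat_lit 326) (nat_lit 299)) (XT.lf (nat_lit 0) (nat_lit 2885527216) (nat_lit 152) (nat_lit 2784831153) (nat_lit 76) (nat_lit 11663752021) (nat_lit 189) (nat_lit 5) (nat_lit 191) (nat_lit 5) (nat_lit 190) (nat_lit 4) (nat_lit 396)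 (nat_lit 326) (nat_lit 298))))))))
noncomputable def xc88 : XT := (XT.nd (nat_lit 2496) (nat_lit 2508) (nat_lit 0) (XT.nd (nat_lit 1248) (nat_lit 1292) (nat_lit 0) (XT.nd (nat_lit 624) (nat_lit 684) (nat_lit 0) (XT.nd (nat_lit 312) (nat_lit 380) (nat_lit 0) (XT.nd (nat_lit 156) (nat_lit 152) (nat_lit 0) (XT.nd (nat_lit 78) (nat_lit 76) (nat_lit 0) (XT.lf (nat_lit 0) (nat_lit 9785720904) (nat_lit 152) (nat_lit 6684757417) (nat_lit 0) (nat_lit 1364733300) (nat_lit 188) (nat_lit 5) (nat_lit 190) (nat_lit 4) (nat_lit 188) (nat_lit 4) (nat_lit 397) (nat_lit 326) (nat_lit 297)) (XT.lf (nat_lit 0) (nat_lit 7435744787) (nat_lit 76) (nat_lit 9734172948) (nat_lit 76) (nat_lit 1184500505) (nat_lit 187) (nat_lit 4) (nat_lit 188) (nat_lit 5) (nat_lit 188) (nat_lit 4) (nat_lit 398) (nat_lit 326) (nat_lit 296))) (XT.nd (nat_lit 78) (nat_lit 0) (nat_lit 0) (XT.lf (nat_lit 0) (nat_lit 3383932027) (nat_lit 76) (nat_lit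 2497122343) (nat_lit 152) (nat_lit 13011322825) (nat_lit 185) (nat_lit 5) (nat_lit 186) (nat_lit 5) (nat_lit 187) (nat_lit 4) (nat_lit 399) (nat_lit 326) (nat_lit 295)) (XT.lf (nat_lit 0) (nat_lit 13410274669) (nat_lit 152) (nat_lit 998633056) (nat_lit 0) (nat_lit 5039845739) (nat_lit 185) (nat_lit 5) (nat_lit 187) (nat_lit 4) (nat_lit 185) (nat_lit 4) (nat_lit 400) (nat_lit 326) (nat_lit 294)))) (XT.nd (nat_lit 156) (nat_lit 152) (nat_lit 0) (XT.nd (nat_lit 78) (nat_lit 76) (nat_lit 0) (XT.lf (nat_lit 0) (nat_lit 1399042726) (nat_lit 152) (nat_lit 5608260676) (nat_lit 76) (nat_lit 13016788600) (nat_lit 183) (nat_lit 5) (nat_lit 185) (nat_lit 5) (nat_lit 184) (nat_lit 4) (nat_lit 401) (nat_lit 326) (nat_lit 293)) (XT.lf (nat_lit 0) (nat_lit 9082085777) (nat_lit 152) (nat_lit 10623939068) (nat_lit 0) (nat_lit 913394152) (nat_lit 182) (nat_lit 5) (nat_lit 184) (nat_lit 4) (nat_lit 182) (nat_lit 4)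 (nat_lit 402) (nat_lit 326) (nat_lit 292))) (XT.nd (nat_lit 78) (nat_lit 76) (nat_lit 0) (XT.lf (nat_lit 0) (nat_lit 5164363470) (nat_lit 76) (nat_lit 12165629407) (nat_lit 76) (nat_lit 3905483870) (nat_lit 181) (nat_lit 4) (nat_lit 182) (nat_lit 5) (nat_lit 182) (nat_lit 4) (nat_lit 403) (nat_lit 326) (nat_lit 291)) (XT.lf (nat_lit 0) (nat_lit 4048167326) (nat_lit 152) (nat_lit 48501483) (nat_lit 76) (nat_lit 17778877254) (nat_lit 180) (nat_lit 5) (nat_lit 182) (nat_lit 5) (nat_lit 181) (nat_lit 4) (nat_lit 404) (nat_lit 326) (nat_lit 290))))) (XT.nd (nat_lit 312) (nat_lit 380) (nat_lit 0) (XT.nd (nat_lit 156) (nat_lit 152) (nat_lit 0) (XT.nd (nat_lit 78) (nat_lit 76) (nat_lit 0) (XT.lf (nat_lit 0) (nat_lit 12500663464) (nat_lit 152) (nat_lit 5560228085) (nat_lit 0) (nat_lit 4471905467) (nat_lit 179) (nat_lit 5) (nat_lit 181) (nat_lit 4) (nat_lit 179) (nat_lit 4) (nat_lit 405) (nat_lit 326) (nat_lit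 289)) (XT.lf (nat_lit 0) (nat_lit 11722710150) (nat_lit 76) (nat_lit 9798464116) (nat_lit 76) (nat_lit 1694466758) (nat_lit 178) (nat_lit 4) (nat_lit 179) (nat_lit 5) (nat_lit 179) (nat_lit 4) (nat_lit 406) (nat_lit 326) (nat_lit 288))) (XT.nd (nat_lit 78) (nat_lit 0) (nat_lit 0) (XT.lf (nat_lit 0) (nat_lit 6006441649) (nat_lit 76) (nat_lit 911653736) (nat_lit 152) (nat_lit 17004821524) (nat_lit 176) (nat_lit 5) (nat_lit 177) (nat_lit 5) (nat_lit 178) (nat_lit 4) (nat_lit 407) (nat_lit 326) (nat_lit 287)) (XT.lf (nat_lit 0) (nat_lit 16128337951) (nat_lit 152) (nat_lit 247623533) (nat_lit 0) (nat_lit 8277006322) (nat_lit 176) (nat_lit 5) (nat_lit 178) (nat_lit 4) (nat_lit 176) (nat_lit 4) (nat_lit 408) (nat_lit 326) (nat_lit 286)))) (XT.nd (nat_lit 156) (nat_lit 152) (nat_lit 0) (XT.nd (nat_lit 78) (nat_lit 76) (nat_lit 0) (XT.lf (nat_lit 0) (nat_lit 577264888) (nat_lit 152) (nat_lit 6729838215)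 (nat_lit 76) (nat_lit 18101629729) (nat_lit 174) (nat_lit 5) (nat_lit 176) (nat_lit 5) (nat_lit 175) (nat_lit 4) (nat_lit 409) (nat_lit 326) (nat_lit 285)) (XT.lf (nat_lit 0) (nat_lit 9984295728) (nat_lit 152) (nat_lit 13812436482) (nat_lit 0) (nat_lit 2391740257) (nat_lit 173) (nat_lit 5) (nat_lit 175) (nat_lit 4) (nat_lit 173) (nat_lit 4) (nat_lit 410) (nat_lit 326) (nat_lit 284))) (XT.nd (nat_lit 78) (nat_lit 76) (nat_lit 0) (XT.lf (nat_lit 0) (nat_lit 5525034692) (nat_lit 76) (nat_lit 14558547923) (nat_lit 76) (nat_lit 6912521243) (nat_lit 172) (nat_lit 4) (nat_lit 173) (nat_lit 5) (nat_lit 173) (nat_lit 4) (nat_lit 411) (nat_lit 326) (nat_lit 283)) (XT.lf (nat_lit 0) (nat_lit 2890554124) (nat_lit 152) (nat_lit 1771315685) (nat_lit 76) (nat_lit 23173134401) (nat_lit 171) (nat_lit 5) (nat_lit 173) (nat_lit 5) (nat_lit 172) (nat_lit 4) (nat_lit 412) (nat_lit 326) (nat_lit 282)))))) (XT.nd (nat_lit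 624) (nat_lit 684) (nat_lit 0) (XT.nd (nat_lit 312) (nat_lit 304) (nat_lit 0) (XT.nd (nat_lit 156) (nat_lit 152) (nat_lit 0) (XT.nd (nat_lit 78) (nat_lit 76) (nat_lit 0) (XT.lf (nat_lit 0) (nat_lit 13251247005) (nat_lit 152) (nat_lit 9569321653) (nat_lit 0) (nat_lit 5874626430) (nat_lit 170) (nat_lit 5) (nat_lit 172) (nat_lit 4) (nat_lit 170) (nat_lit 4) (nat_lit 413) (nat_lit 326) (nat_lit 281)) (XT.lf (nat_lit 0) (nat_lit 11637865401) (nat_lit 76) (nat_lit 12685730262) (nat_lit 76) (nat_lit 5265118791) (nat_lit 169) (nat_lit 4) (nat_lit 170) (nat_lit 5) (nat_lit 170) (nat_lit 4) (nat_lit 414) (nat_lit 326) (nat_lit 280))) (XT.nd (nat_lit 78) (nat_lit 0) (nat_lit 0) (XT.lf (nat_lit 0) (nat_lit 3554996892) (nat_lit 76) (nat_lit 1819395524) (nat_lit 152) (nat_lit 25142019273) (nat_lit 167) (nat_lit 5) (nat_lit 168) (nat_lit 5) (nat_lit 169) (nat_lit 4) (nat_lit 415) (nat_lit 326) (nat_lit 279))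 (XT.lf (nat_lit 0) (nat_lit 16732866249) (nat_lit 152) (nat_lit 5147400185) (nat_lit 0) (nat_lit 9587715201) (nat_lit 167) (nat_lit 5) (nat_lit 169) (nat_lit 4) (nat_lit 167) (nat_lit 4) (nat_lit 416) (nat_lit 326) (nat_lit 278)))) (XT.nd (nat_lit 156) (nat_lit 76) (nat_lit 0) (XT.nd (nat_lit 78) (nat_lit 152) (nat_lit 0) (XT.lf (nat_lit 0) (nat_lit 18126284356) (nat_lit 76) (nat_lit 10755530323) (nat_lit 76) (nat_lit 3574187855) (nat_lit 166) (nat_lit 4) (nat_lit 167) (nat_lit 5) (nat_lit 167) (nat_lit 4) (nat_lit 417) (nat_lit 326) (nat_lit 277)) (XT.lf (nat_lit 0) (nat_lit 8045658662) (nat_lit 152) (nat_lit 24259871637) (nat_lit 0) (nat_lit 1173458200) (nat_lit 164) (nat_lit 5) (nat_lit 166) (nat_lit 4) (nat_lit 164) (nat_lit 4) (nat_lit 418) (nat_lit 326) (nat_lit 276))) (XT.nd (nat_lit 78) (nat_lit 76) (nat_lit 0) (XT.lf (nat_lit 0) (nat_lit 20459248872) (nat_lit 152) (nat_lit 518516952) (nat_lit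 0) (nat_lit 13555784901) (nat_lit 164) (nat_lit 5) (nat_lit 166) (nat_lit 4) (nat_lit 164) (nat_lit 4) (nat_lit 419) (nat_lit 326) (nat_lit 275)) (XT.lf (nat_lit 0) (nat_lit 25038410441) (nat_lit 76) (nat_lit 8760207205) (nat_lit 76) (nat_lit 1826968464) (nat_lit 163) (nat_lit 4) (nat_lit 164) (nat_lit 5) (nat_lit 164) (nat_lit 4) (nat_lit 420) (nat_lit 326) (nat_lit 274))))) (XT.nd (nat_lit 312) (nat_lit 304) (nat_lit 0) (XT.nd (nat_lit 156) (nat_lit 152) (nat_lit 0) (XT.nd (nat_lit 78) (nat_lit 76) (nat_lit 0) (XT.lf (nat_lit 0) (nat_lit 10910091359) (nat_lit 152) (nat_lit 21561995259) (nat_lit 0) (nat_lit 4280000250) (nat_lit 161) (nat_lit 5) (nat_lit 163) (nat_lit 4) (nat_lit 161) (nat_lit 4) (nat_lit 421) (nat_lit 326) (nat_lit 273)) (XT.lf (nat_lit 0) (nat_lit 4492096140) (nat_lit 76) (nat_lit 20040807891) (nat_lit 76) (nat_lit 13384996217) (nat_lit 160) (nat_lit 4) (nat_lit 161) (nat_lit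 5) (nat_lit 161) (nat_lit 4) (nat_lit 422) (nat_lit 326) (nat_lit 272))) (XT.nd (nat_lit 78) (nat_lit 152) (nat_lit 0) (XT.lf (nat_lit 0) (nat_lit 32427249714) (nat_lit 76) (nat_lit 6690508496) (nat_lit 76) (nat_lit 10201044) (nat_lit 160) (nat_lit 4) (nat_lit 161) (nat_lit 5) (nat_lit 161) (nat_lit 4) (nat_lit 423) (nat_lit 326) (nat_lit 271)) (XT.lf (nat_lit 0) (nat_lit 13963187004) (nat_lit 152) (nat_lit 18826657811) (nat_lit 0) (nat_lit 7578771040) (nat_lit 158) (nat_lit 5) (nat_lit 160) (nat_lit 4) (nat_lit 158) (nat_lit 4) (nat_lit 424) (nat_lit 326) (nat_lit 270)))) (XT.nd (nat_lit 156) (nat_lit 152) (nat_lit 0) (XT.nd (nat_lit 78) (nat_lit 76) (nat_lit 0) (XT.lf (nat_lit 0) (nat_lit 9800851682) (nat_lit 76) (nat_lit 19130597111) (nat_lit 76) (nat_lit 12725020773) (nat_lit 157) (nat_lit 4) (nat_lit 158) (nat_lit 5) (nat_lit 158) (nat_lit 4) (nat_lit 425) (nat_lit 326) (nat_lit 269)) (XT.lf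 (nat_lit 0) (nat_lit 1829543555) (nat_lit 152) (nat_lit 2675164785) (nat_lit 76) (nat_lit 38490597479) (nat_lit 156) (nat_lit 5) (nat_lit 158) (nat_lit 5) (nat_lit 157) (nat_lit 4) (nat_lit 426) (nat_lit 326) (nat_lit 268))) (XT.nd (nat_lit 78) (nat_lit 76) (nat_lit 0) (XT.lf (nat_lit 0) (nat_lit 17230665511) (nat_lit 152) (nat_lit 16040019940) (nat_lit 0) (nat_lit 11092644410) (nat_lit 155) (nat_lit 5) (nat_lit 157) (nat_lit 4) (nat_lit 155) (nat_lit 4) (nat_lit 427) (nat_lit 326) (nat_lit 267)) (XT.lf (nat_lit 0) (nat_lit 15429204424) (nat_lit 76) (nat_lit 18255908504) (nat_lit 76) (nat_lit 12100478712) (nat_lit 154) (nat_lit 4) (nat_lit 155) (nat_lit 5) (nat_lit 155) (nat_lit 4) (nat_lit 428) (nat_lit 326) (nat_lit 266))))))) (XT.nd (nat_lit 1248) (nat_lit 1216) (nat_lit 0) (XT.nd (nat_lit 624) (nat_lit 684) (nat_lit 0) (XT.nd (nat_lit 312) (nat_lit 228) (nat_lit 0) (XT.nd (nat_lit 156) (nat_lit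 228) (nat_lit 0) (XT.nd (nat_lit 78) (nat_lit 0) (nat_lit 0) (XT.lf (nat_lit 0) (nat_lit 1595321045) (nat_lit 76) (nat_lit 2193620683) (nat_lit 152) (nat_lit 43475973701) (nat_lit 152) (nat_lit 5) (nat_lit 153) (nat_lit 5) (nat_lit 154) (nat_lit 4) (nat_lit 429) (nat_lit 326) (nat_lit 265)) (XT.lf (nat_lit 0) (nat_lit 20740333669) (nat_lit 152) (nat_lit 13187054416) (nat_lit 0) (nat_lit 14847191102) (nat_lit 152) (nat_lit 5) (nat_lit 154) (nat_lit 4) (nat_lit 152) (nat_lit 4) (nat_lit 430) (nat_lit 326) (nat_lit 264))) (XT.nd (nat_lit 78) (nat_lit 152) (nat_lit 0) (XT.lf (nat_lit 0) (nat_lit 21419485085) (nat_lit 76) (nat_lit 17416437217) (nat_lit 76) (nat_lit 11508972477) (nat_lit 151) (nat_lit 4) (nat_lit 152) (nat_lit 5) (nat_lit 152) (nat_lit 4) (nat_lit 431) (nat_lit 326) (nat_lit 263)) (XT.lf (nat_lit 0) (nat_lit 5909755790) (nat_lit 152) (nat_lit 45796091653) (nat_lit 0) (nat_lit 270608261)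 (nat_lit 149) (nat_lit 5) (nat_lit 151) (nat_lit 4) (nat_lit 149) (nat_lit 4) (nat_lit 432) (nat_lit 326) (nat_lit 262)))) (XT.nd (nat_lit 156) (nat_lit 152) (nat_lit 0) (XT.nd (nat_lit 78) (nat_lit 76) (nat_lit 0) (XT.lf (nat_lit 0) (nat_lit 24522368735) (nat_lit 152) (nat_lit 10251456920) (nat_lit 0) (nat_lit 18870849175) (nat_lit 149) (nat_lit 5) (nat_lit 151) (nat_lit 4) (nat_lit 149) (nat_lit 4) (nat_lit 433) (nat_lit 326) (nat_lit 261)) (XT.lf (nat_lit 0) (nat_lit 27818106199) (nat_lit 76) (nat_lit 16611647058) (nat_lit 76) (nat_lit 10948344610) (nat_lit 148) (nat_lit 4) (nat_lit 149) (nat_lit 5) (nat_lit 149) (nat_lit 4) (nat_lit 434) (nat_lit 326) (nat_lit 260))) (XT.nd (nat_lit 78) (nat_lit 0) (nat_lit 0) (XT.lf (nat_lit 0) (nat_lit 8197659887) (nat_lit 152) (nat_lit 46184646424) (nat_lit 0) (nat_lit 2793351082) (nat_lit 146) (nat_lit 5) (nat_lit 148) (nat_lit 4) (nat_lit 146) (nat_lit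 4) (nat_lit 435) (nat_lit 326) (nat_lit 259)) (XT.lf (nat_lit 0) (nat_lit 28609620070) (nat_lit 152) (nat_lit 7215538425) (nat_lit 0) (nat_lit 23195132764) (nat_lit 146) (nat_lit 5) (nat_lit 148) (nat_lit 4) (nat_lit 146) (nat_lit 4) (nat_lit 436) (nat_lit 326) (nat_lit 258))))) (XT.nd (nat_lit 312) (nat_lit 380) (nat_lit 0) (XT.nd (nat_lit 156) (nat_lit 76) (nat_lit 0) (XT.nd (nat_lit 78) (nat_lit 152) (nat_lit 0) (XT.lf (nat_lit 0) (nat_lit 34675957509) (nat_lit 76) (nat_lit 15840825105) (nat_lit 76) (nat_lit 10416643988) (nat_lit 145) (nat_lit 4) (nat_lit 146) (nat_lit 5) (nat_lit 146) (nat_lit 4) (nat_lit 437) (nat_lit 326) (nat_lit 257)) (XT.lf (nat_lit 0) (nat_lit 10636880767) (nat_lit 152) (nat_lit 46814963183) (nat_lit 0) (nat_lit 5462201417) (nat_lit 143) (nat_lit 5) (nat_lit 145) (nat_lit 4) (nat_lit 143) (nat_lit 4) (nat_lit 438) (nat_lit 326) (nat_lit 256))) (XT.nd (nat_lit 78) (nat_lit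 76) (nat_lit 0) (XT.lf (nat_lit 0) (nat_lit 33037932538) (nat_lit 152) (nat_lit 4060099076) (nat_lit 0) (nat_lit 27854879309) (nat_lit 143) (nat_lit 5) (nat_lit 145) (nat_lit 4) (nat_lit 143) (nat_lit 4) (nat_lit 439) (nat_lit 326) (nat_lit 255)) (XT.lf (nat_lit 0) (nat_lit 42048849233) (nat_lit 76) (nat_lit 15103125978) (nat_lit 76) (nat_lit 9912097628) (nat_lit 142) (nat_lit 4) (nat_lit 143) (nat_lit 5) (nat_lit 143) (nat_lit 4) (nat_lit 440) (nat_lit 326) (nat_lit 254)))) (XT.nd (nat_lit 156) (nat_lit 228) (nat_lit 0) (XT.nd (nat_lit 78) (nat_lit 0) (nat_lit 0) (XT.lf (nat_lit 0) (nat_lit 13247437983) (nat_lit 152) (nat_lit 47702754570) (nat_lit 0) (nat_lit 8296367788) (nat_lit 140) (nat_lit 5) (nat_lit 142) (nat_lit 4) (nat_lit 140) (nat_lit 4) (nat_lit 441) (nat_lit 326) (nat_lit 253)) (XT.lf (nat_lit 0) (nat_lit 37846495473) (nat_lit 152) (nat_lit 764283179) (nat_lit 0) (nat_lit 32888536068)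 (nat_lit 140) (nat_lit 5) (nat_lit 142) (nat_lit 4) (nat_lit 140) (nat_lit 4) (nat_lit 442) (nat_lit 326) (nat_lit 252))) (XT.nd (nat_lit 78) (nat_lit 152) (nat_lit 0) (XT.lf (nat_lit 0) (nat_lit 49998006644) (nat_lit 76) (nat_lit 14397607654) (nat_lit 76) (nat_lit 9433087096) (nat_lit 139) (nat_lit 4) (nat_lit 140) (nat_lit 5) (nat_lit 140) (nat_lit 4) (nat_lit 443) (nat_lit 326) (nat_lit 251)) (XT.lf (nat_lit 0) (nat_lit 16051091193) (nat_lit 152) (nat_lit 48865678418) (nat_lit 0) (nat_lit 11317025217) (nat_lit 137) (nat_lit 5) (nat_lit 139) (nat_lit 4) (nat_lit 137) (nat_lit 4) (nat_lit 444) (nat_lit 326) (nat_lit 250)))))) (XT.nd (nat_lit 624) (nat_lit 684) (nat_lit 0) (XT.nd (nat_lit 312) (nat_lit 228) (nat_lit 0) (XT.nd (nat_lit 156) (nat_lit 228) (nat_lit 0) (XT.nd (nat_lit 78) (nat_lit 0) (nat_lit 0) (XT.lf (nat_lit 0) (nat_lit 2783680609) (nat_lit 76) (nat_lit 40338001581) (nat_lit 76)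 (nat_lit 35598267834) (nat_lit 136) (nat_lit 4) (nat_lit 137) (nat_lit 5) (nat_lit 137) (nat_lit 4) (nat_lit 445) (nat_lit 326) (nat_lit 249)) (XT.lf (nat_lit 0) (nat_lit 58590620043) (nat_lit 76) (nat_lit 13723260339) (nat_lit 76) (nat_lit 8978128716) (nat_lit 136) (nat_lit 4) (nat_lit 137) (nat_lit 5) (nat_lit 137) (nat_lit 4) (nat_lit 446) (nat_lit 326) (nat_lit 248))) (XT.nd (nat_lit 78) (nat_lit 76) (nat_lit 0) (XT.lf (nat_lit 0) (nat_lit 19071550596) (nat_lit 152) (nat_lit 50323538429) (nat_lit 0) (nat_lit 14547481588) (nat_lit 134) (nat_lit 5) (nat_lit 136) (nat_lit 4) (nat_lit 134) (nat_lit 4) (nat_lit 447) (nat_lit 326) (nat_lit 247)) (XT.lf (nat_lit 0) (nat_lit 6550857105) (nat_lit 76) (nat_lit 42331576835) (nat_lit 76) (nat_lit 37802844939) (nat_lit 133) (nat_lit 4) (nat_lit 134) (nat_lit 5) (nat_lit 134) (nat_lit 4) (nat_lit 448) (nat_lit 326) (nat_lit 246)))) (XT.nd (nat_lit 156) (nat_lit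 76) (nat_lit 0) (XT.nd (nat_lit 78) (nat_lit 152) (nat_lit 0) (XT.lf (nat_lit 0) (nat_lit 67900454823) (nat_lit 76) (nat_lit 13079029663) (nat_lit 76) (nat_lit 8545856920) (nat_lit 133) (nat_lit 4) (nat_lit 134) (nat_lit 5) (nat_lit 134) (nat_lit 4) (nat_lit 449) (nat_lit 326) (nat_lit 245)) (XT.lf (nat_lit 0) (nat_lit 22334704364) (nat_lit 152) (nat_lit 52098502300) (nat_lit 0) (nat_lit 18013369011) (nat_lit 131) (nat_lit 5) (nat_lit 133) (nat_lit 4) (nat_lit 131) (nat_lit 4) (nat_lit 450) (nat_lit 326) (nat_lit 244))) (XT.nd (nat_lit 78) (nat_lit 0) (nat_lit 0) (XT.lf (nat_lit 0) (nat_lit 10539759946) (nat_lit 76) (nat_lit 44628729405) (nat_lit 76) (nat_lit 40303557882) (nat_lit 130) (nat_lit 4) (nat_lit 131) (nat_lit 5) (nat_lit 131) (nat_lit 4) (nat_lit 451) (nat_lit 326) (nat_lit 243)) (XT.lf (nat_lit 0) (nat_lit 78008526990) (nat_lit 76) (nat_lit 12463835233) (nat_lit 76) (nat_lit 8135010215)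 (nat_lit 130) (nat_lit 4) (nat_lit 131) (nat_lit 5) (nat_lit 131) (nat_lit 4) (nat_lit 452) (nat_lit 326) (nat_lit 242))))) (XT.nd (nat_lit 312) (nat_lit 304) (nat_lit 0) (XT.nd (nat_lit 156) (nat_lit 152) (nat_lit 0) (XT.nd (nat_lit 78) (nat_lit 76) (nat_lit 0) (XT.lf (nat_lit 0) (nat_lit 25868865555) (nat_lit 152) (nat_lit 54215339780) (nat_lit 0) (nat_lit 21742861234) (nat_lit 128) (nat_lit 5) (nat_lit 130) (nat_lit 4) (nat_lit 128) (nat_lit 4) (nat_lit 453) (nat_lit 326) (nat_lit 241)) (XT.lf (nat_lit 0) (nat_lit 14780698100) (nat_lit 76) (nat_lit 47256332673) (nat_lit 76) (nat_lit 43127172325) (nat_lit 127) (nat_lit 4) (nat_lit 128) (nat_lit 5) (nat_lit 128) (nat_lit 4) (nat_lit 454) (nat_lit 326) (nat_lit 240))) (XT.nd (nat_lit 78) (nat_lit 152) (nat_lit 0) (XT.lf (nat_lit 0) (nat_lit 89003850198) (nat_lit 76) (nat_lit 11876585388) (nat_lit 76) (nat_lit 7744419301) (nat_lit 127) (nat_lit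 4) (nat_lit 128) (nat_lit 5) (nat_lit 128) (nat_lit 4) (nat_lit 455) (nat_lit 326) (nat_lit 239)) (XT.lf (nat_lit 0) (nat_lit 29705041145) (nat_lit 152) (nat_lit 56701683265) (nat_lit 0) (nat_lit 25766918577) (nat_lit 125) (nat_lit 5) (nat_lit 127) (nat_lit 4) (nat_lit 125) (nat_lit 4) (nat_lit 456) (nat_lit 326) (nat_lit 238)))) (XT.nd (nat_lit 156) (nat_lit 228) (nat_lit 0) (XT.nd (nat_lit 78) (nat_lit 0) (nat_lit 0) (XT.lf (nat_lit 0) (nat_lit 19306769949) (nat_lit 76) (nat_lit 50244131107) (nat_lit 76) (nat_lit 46303412068) (nat_lit 124) (nat_lit 4) (nat_lit 125) (nat_lit 5) (nat_lit 125) (nat_lit 4) (nat_lit 457) (nat_lit 326) (nat_lit 237)) (XT.lf (nat_lit 0) (nat_lit 100984261125) (nat_lit 76) (nat_lit 11316188854) (nat_lit 76) (nat_lit 7372996986) (nat_lit 124) (nat_lit 4) (nat_lit 125) (nat_lit 5) (nat_lit 125) (nat_lit 4) (nat_lit 458) (nat_lit 326) (nat_lit 236))) (XT.nd (nat_lit 78)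 (nat_lit 76) (nat_lit 0) (XT.lf (nat_lit 0) (nat_lit 33877225961) (nat_lit 152) (nat_lit 59588313694) (nat_lit 0) (nat_lit 30119562205) (nat_lit 122) (nat_lit 5) (nat_lit 124) (nat_lit 4) (nat_lit 122) (nat_lit 4) (nat_lit 459) (nat_lit 326) (nat_lit 235)) (XT.lf (nat_lit 0) (nat_lit 24154156543) (nat_lit 76) (nat_lit 53625044155) (nat_lit 76) (nat_lit 49865244276) (nat_lit 121) (nat_lit 4) (nat_lit 122) (nat_lit 5) (nat_lit 122) (nat_lit 4) (nat_lit 460) (nat_lit 326) (nat_lit 234))))))))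
noncomputable def xc89 : XT := (XT.nd (nat_lit 2496) (nat_lit 76) (nat_lit 0) (XT.nd (nat_lit 1248) (nat_lit 1292) (nat_lit 0) (XT.nd (nat_lit 624) (nat_lit 532) (nat_lit 0) (XT.nd (nat_lit 312) (nat_lit 380) (nat_lit 0) (XT.nd (nat_lit 156) (nat_lit 76) (nat_lit 0) (XT.nd (nat_lit 78) (nat_lit 152) (nat_lit 0) (XT.lf (nat_lit 0) (nat_lit 114057330757) (nat_lit 76) (nat_lit 10781563874) (nat_lit 76) (nat_lit 7019729592) (nat_lit 121) (nat_lit 4) (nat_lit 122) (nat_lit 5) (nat_lit 122) (nat_lit 4) (nat_lit 461) (nat_lit 326) (nat_lit 233)) (XT.lf (nat_lit 0) (nat_lit 38422724488) (nat_lit 152) (nat_lit 62909474710) (nat_lit 0) (nat_lit 34838179908) (nat_lit 119) (nat_lit 5) (nat_lit 121) (nat_lit 4) (nat_lit 119) (nat_lit 4) (nat_lit 462) (nat_lit 326) (nat_lit 232))) (XT.nd (nat_lit 78) (nat_lit 0) (nat_lit 0) (XT.lf (nat_lit 0) (nat_lit 29362445950) (nat_lit 76) (nat_lit 57435498145) (nat_lit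 76) (nat_lit 53849196172) (nat_lit 118) (nat_lit 4) (nat_lit 119) (nat_lit 5) (nat_lit 119) (nat_lit 4) (nat_lit 463) (nat_lit 326) (nat_lit 231)) (XT.lf (nat_lit 0) (nat_lit 128341370075) (nat_lit 76) (nat_lit 10271645280) (nat_lit 76) (nat_lit 6683669598) (nat_lit 118) (nat_lit 4) (nat_lit 119) (nat_lit 5) (nat_lit 119) (nat_lit 4) (nat_lit 464) (nat_lit 326) (nat_lit 230)))) (XT.nd (nat_lit 156) (nat_lit 152) (nat_lit 0) (XT.nd (nat_lit 78) (nat_lit 76) (nat_lit 0) (XT.lf (nat_lit 0) (nat_lit 43382503779) (nat_lit 152) (nat_lit 66703218275) (nat_lit 0) (nat_lit 39963865979) (nat_lit 116) (nat_lit 5) (nat_lit 118) (nat_lit 4) (nat_lit 116) (nat_lit 4) (nat_lit 465) (nat_lit 326) (nat_lit 229)) (XT.lf (nat_lit 0) (nat_lit 34974991572) (nat_lit 76) (nat_lit 61715789680) (nat_lit 76) (nat_lit 58295706069) (nat_lit 115) (nat_lit 4) (nat_lit 116) (nat_lit 5) (nat_lit 116) (nat_lit 4) (nat_lit 466)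 (nat_lit 326) (nat_lit 228))) (XT.nd (nat_lit 78) (nat_lit 152) (nat_lit 0) (XT.lf (nat_lit 0) (nat_lit 143966539517) (nat_lit 76) (nat_lit 9785389895) (nat_lit 76) (nat_lit 6363929320) (nat_lit 115) (nat_lit 4) (nat_lit 116) (nat_lit 5) (nat_lit 116) (nat_lit 4) (nat_lit 467) (nat_lit 326) (nat_lit 227)) (XT.lf (nat_lit 0) (nat_lit 48801580933) (nat_lit 152) (nat_lit 71011785215) (nat_lit 0) (nat_lit 45541798104) (nat_lit 113) (nat_lit 5) (nat_lit 115) (nat_lit 4) (nat_lit 113) (nat_lit 4) (nat_lit 468) (nat_lit 326) (nat_lit 226))))) (XT.nd (nat_lit 312) (nat_lit 228) (nat_lit 0) (XT.nd (nat_lit 156) (nat_lit 228) (nat_lit 0) (XT.nd (nat_lit 78) (nat_lit 0) (nat_lit 0) (XT.lf (nat_lit 0) (nat_lit 41039307698) (nat_lit 76) (nat_lit 66510484282) (nat_lit 76) (nat_lit 63249511980) (nat_lit 112) (nat_lit 4) (nat_lit 113) (nat_lit 5) (nat_lit 113) (nat_lit 4) (nat_lit 469) (nat_lit 326) (nat_lit 225))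 (XT.lf (nat_lit 0) (nat_lit 161076072640) (nat_lit 76) (nat_lit 9321780582) (nat_lit 76) (nat_lit 6059675449) (nat_lit 112) (nat_lit 4) (nat_lit 113) (nat_lit 5) (nat_lit 113) (nat_lit 4) (nat_lit 470) (nat_lit 326) (nat_lit 224))) (XT.nd (nat_lit 78) (nat_lit 76) (nat_lit 0) (XT.lf (nat_lit 0) (nat_lit 54729448941) (nat_lit 152) (nat_lit 75882024448) (nat_lit 0) (nat_lit 51621654635) (nat_lit 110) (nat_lit 5) (nat_lit 112) (nat_lit 4) (nat_lit 110) (nat_lit 4) (nat_lit 471) (nat_lit 326) (nat_lit 223)) (XT.lf (nat_lit 0) (nat_lit 47607505907) (nat_lit 76) (nat_lit 71868854302) (nat_lit 76) (nat_lit 68760081414) (nat_lit 109) (nat_lit 4) (nat_lit 110) (nat_lit 5) (nat_lit 110) (nat_lit 4) (nat_lit 472) (nat_lit 326) (nat_lit 222)))) (XT.nd (nat_lit 156) (nat_lit 76) (nat_lit 0) (XT.nd (nat_lit 78) (nat_lit 152) (nat_lit 0) (XT.lf (nat_lit 0) (nat_lit 179827625508) (nat_lit 76) (nat_lit 8879829191)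 (nat_lit 76) (nat_lit 5770124320) (nat_lit 109) (nat_lit 4) (nat_lit 110) (nat_lit 5) (nat_lit 110) (nat_lit 4) (nat_lit 473) (nat_lit 326) (nat_lit 221)) (XT.lf (nat_lit 0) (nat_lit 61220545027) (nat_lit 152) (nat_lit 81365855034) (nat_lit 0) (nat_lit 58258076003) (nat_lit 107) (nat_lit 5) (nat_lit 109) (nat_lit 4) (nat_lit 107) (nat_lit 4) (nat_lit 474) (nat_lit 326) (nat_lit 220))) (XT.nd (nat_lit 78) (nat_lit 0) (nat_lit 0) (XT.lf (nat_lit 0) (nat_lit 54736776360) (nat_lit 76) (nat_lit 77845360473) (nat_lit 76) (nat_lit 74882086367) (nat_lit 106) (nat_lit 4) (nat_lit 107) (nat_lit 5) (nat_lit 107) (nat_lit 4) (nat_lit 475) (nat_lit 326) (nat_lit 219)) (XT.lf (nat_lit 0) (nat_lit 200394764538) (nat_lit 76) (nat_lit 8458578629) (nat_lit 76) (nat_lit 5494537778) (nat_lit 106) (nat_lit 4) (nat_lit 107) (nat_lit 5) (nat_lit 107) (nat_lit 4) (nat_lit 476) (nat_lit 326) (nat_lit 218)))))) (XT.nd (nat_lit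 624) (nat_lit 608) (nat_lit 0) (XT.nd (nat_lit 312) (nat_lit 304) (nat_lit 0) (XT.nd (nat_lit 156) (nat_lit 152) (nat_lit 0) (XT.nd (nat_lit 78) (nat_lit 76) (nat_lit 0) (XT.lf (nat_lit 0) (nat_lit 68334766010) (nat_lit 152) (nat_lit 87520775540) (nat_lit 0) (nat_lit 65511174501) (nat_lit 104) (nat_lit 5) (nat_lit 106) (nat_lit 4) (nat_lit 104) (nat_lit 4) (nat_lit 477) (nat_lit 326) (nat_lit 217)) (XT.lf (nat_lit 0) (nat_lit 62489918463) (nat_lit 76) (nat_lit 84500181846) (nat_lit 76) (nat_lit 81675927994) (nat_lit 103) (nat_lit 4) (nat_lit 104) (nat_lit 5) (nat_lit 104) (nat_lit 4) (nat_lit 478) (nat_lit 326) (nat_lit 216))) (XT.nd (nat_lit 78) (nat_lit 152) (nat_lit 0) (XT.lf (nat_lit 0) (nat_lit 222968606898) (nat_lit 76) (nat_lit 8057104217) (nat_lit 76) (nat_lit 5232219562) (nat_lit 103) (nat_lit 4) (nat_lit 104) (nat_lit 5) (nat_lit 104) (nat_lit 4) (nat_lit 479) (nat_lit 326) (nat_lit 215))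 (XT.lf (nat_lit 0) (nat_lit 76138035654) (nat_lit 152) (nat_lit 94410425683) (nat_lit 0) (nat_lit 73447097159) (nat_lit 101) (nat_lit 5) (nat_lit 103) (nat_lit 4) (nat_lit 101) (nat_lit 4) (nat_lit 480) (nat_lit 326) (nat_lit 214)))) (XT.nd (nat_lit 156) (nat_lit 228) (nat_lit 0) (XT.nd (nat_lit 78) (nat_lit 0) (nat_lit 0) (XT.lf (nat_lit 0) (nat_lit 70935925871) (nat_lit 76) (nat_lit 91899799307) (nat_lit 76) (nat_lit 89208315900) (nat_lit 100) (nat_lit 4) (nat_lit 101) (nat_lit 5) (nat_lit 101) (nat_lit 4) (nat_lit 481) (nat_lit 326) (nat_lit 213)) (XT.lf (nat_lit 0) (nat_lit 247759628989) (nat_lit 76) (nat_lit 7674514479) (nat_lit 76) (nat_lit 4982512109) (nat_lit 100) (nat_lit 4) (nat_lit 101) (nat_lit 5) (nat_lit 101) (nat_lit 4) (nat_lit 482) (nat_lit 326) (nat_lit 212))) (XT.nd (nat_lit 78) (nat_lit 76) (nat_lit 0) (XT.lf (nat_lit 0) (nat_lit 84702929438) (nat_lit 152) (nat_lit 102105205656)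 (nat_lit 0) (nat_lit 82138646942) (nat_lit 98) (nat_lit 5) (nat_lit 100) (nat_lit 4) (nat_lit 98) (nat_lit 4) (nat_lit 483) (nat_lit 326) (nat_lit 211)) (XT.lf (nat_lit 0) (nat_lit 80150631326) (nat_lit 76) (nat_lit 100117638339) (nat_lit 76) (nat_lit 97552907544) (nat_lit 97) (nat_lit 4) (nat_lit 98) (nat_lit 5) (nat_lit 98) (nat_lit 4) (nat_lit 484) (nat_lit 326) (nat_lit 210))))) (XT.nd (nat_lit 312) (nat_lit 380) (nat_lit 0) (XT.nd (nat_lit 156) (nat_lit 76) (nat_lit 0) (XT.nd (nat_lit 78) (nat_lit 152) (nat_lit 0) (XT.lf (nat_lit 0) (nat_lit 274999660182) (nat_lit 76) (nat_lit 7309951484) (nat_lit 76) (nat_lit 4744793736) (nat_lit 97) (nat_lit 4) (nat_lit 98) (nat_lit 5) (nat_lit 98) (nat_lit 4) (nat_lit 485) (nat_lit 326) (nat_lit 209)) (XT.lf (nat_lit 0) (nat_lit 94109362746) (nat_lit 152) (nat_lit 110682959144) (nat_lit 0) (nat_lit 91665968108) (nat_lit 95) (nat_lit 5) (nat_lit 97) (nat_lit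 4) (nat_lit 95) (nat_lit 4) (nat_lit 486) (nat_lit 326) (nat_lit 208))) (XT.nd (nat_lit 78) (nat_lit 0) (nat_lit 0) (XT.lf (nat_lit 0) (nat_lit 90217417403) (nat_lit 76) (nat_lit 109234777256) (nat_lit 76) (nat_lit 106791013801) (nat_lit 94) (nat_lit 4) (nat_lit 95) (nat_lit 5) (nat_lit 95) (nat_lit 4) (nat_lit 487) (nat_lit 326) (nat_lit 207)) (XT.lf (nat_lit 0) (nat_lit 304944080738) (nat_lit 76) (nat_lit 6962590823) (nat_lit 76) (nat_lit 4518476113) (nat_lit 94) (nat_lit 4) (nat_lit 95) (nat_lit 5) (nat_lit 95) (nat_lit 4) (nat_lit 488) (nat_lit 326) (nat_lit 206)))) (XT.nd (nat_lit 156) (nat_lit 152) (nat_lit 0) (XT.nd (nat_lit 78) (nat_lit 76) (nat_lit 0) (XT.lf (nat_lit 0) (nat_lit 104445349042) (nat_lit 152) (nat_lit 120229726564) (nat_lit 0) (nat_lit 102117302148) (nat_lit 92) (nat_lit 5) (nat_lit 94) (nat_lit 4) (nat_lit 92) (nat_lit 4) (nat_lit 489) (nat_lit 326) (nat_lit 205)) (XT.lf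 (nat_lit 0) (nat_lit 101227999891) (nat_lit 76) (nat_lit 119340727733) (nat_lit 76) (nat_lit 117012377413) (nat_lit 91) (nat_lit 4) (nat_lit 92) (nat_lit 5) (nat_lit 92) (nat_lit 4) (nat_lit 490) (nat_lit 326) (nat_lit 204))) (XT.nd (nat_lit 78) (nat_lit 152) (nat_lit 0) (XT.lf (nat_lit 0) (nat_lit 337874244801) (nat_lit 76) (nat_lit 6631641317) (nat_lit 76) (nat_lit 4303002018) (nat_lit 91) (nat_lit 4) (nat_lit 92) (nat_lit 5) (nat_lit 92) (nat_lit 4) (nat_lit 491) (nat_lit 326) (nat_lit 203)) (XT.lf (nat_lit 0) (nat_lit 115807835289) (nat_lit 152) (nat_lit 130840575786) (nat_lit 0) (nat_lit 113589821464) (nat_lit 89) (nat_lit 5) (nat_lit 91) (nat_lit 4) (nat_lit 89) (nat_lit 4) (nat_lit 492) (nat_lit 326) (nat_lit 202))))))) (XT.nd (nat_lit 44304) (nat_lit 0) (nat_lit 7828) (XT.nd (nat_lit 43680) (nat_lit 0) (nat_lit 9804) (XT.nd (nat_lit 43368) (nat_lit 0) (nat_lit 11324) (XT.nd (nat_lit 43212)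 (nat_lit 0) (nat_lit 12160) (XT.nd (nat_lit 78) (nat_lit 0) (nat_lit 0) (XT.lf (nat_lit 0) (nat_lit 113283291203) (nat_lit 76) (nat_lit 130534295155) (nat_lit 76) (nat_lit 128316031701) (nat_lit 88) (nat_lit 4) (nat_lit 89) (nat_lit 5) (nat_lit 89) (nat_lit 4) (nat_lit 493) (nat_lit 326) (nat_lit 201)) (XT.lf (nat_lit 0) (nat_lit 374100151503) (nat_lit 76) (nat_lit 6316344500) (nat_lit 76) (nat_lit 4097843303) (nat_lit 88) (nat_lit 4) (nat_lit 89) (nat_lit 5) (nat_lit 89) (nat_lit 4) (nat_lit 494) (nat_lit 326) (nat_lit 200))) (XT.nd (nat_lit 78) (nat_lit 304) (nat_lit 0) (XT.lf (nat_lit 0) (nat_lit 901629639) (nat_lit 304) (nat_lit 2393800889) (nat_lit 0) (nat_lit 901629639) (nat_lit 252) (nat_lit 5) (nat_lit 256) (nat_lit 4) (nat_lit 252) (nat_lit 4) (nat_lit 366) (nat_lit 327) (nat_lit 327)) (XT.lf (nat_lit 0) (nat_lit 2554965831) (nat_lit 304) (nat_lit 3521689341) (nat_lit 304) (nat_lit 2472950757)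 (nat_lit 248) (nat_lit 4) (nat_lit 252) (nat_lit 5) (nat_lit 252) (nat_lit 4) (nat_lit 367) (nat_lit 327) (nat_lit 326)))) (XT.nd (nat_lit 156) (nat_lit 304) (nat_lit 0) (XT.nd (nat_lit 78) (nat_lit 228) (nat_lit 0) (XT.lf (nat_lit 0) (nat_lit 1489855318) (nat_lit 228) (nat_lit 235702024) (nat_lit 304) (nat_lit 6989166550) (nat_lit 244) (nat_lit 5) (nat_lit 247) (nat_lit 5) (nat_lit 248) (nat_lit 4) (nat_lit 368) (nat_lit 327) (nat_lit 325)) (XT.lf (nat_lit 0) (nat_lit 339353963) (nat_lit 228) (nat_lit 5701594408) (nat_lit 228) (nat_lit 2845619128) (nat_lit 241) (nat_lit 4) (nat_lit 244) (nat_lit 5) (nat_lit 244) (nat_lit 4) (nat_lit 369) (nat_lit 327) (nat_lit 324))) (XT.nd (nat_lit 78) (nat_lit 228) (nat_lit 0) (XT.lf (nat_lit 0) (nat_lit 1418000646) (nat_lit 304) (nat_lit 811873783) (nat_lit 76) (nat_lit 6837900524) (nat_lit 240) (nat_lit 5) (nat_lit 244) (nat_lit 5) (nat_lit 241) (nat_lit 4)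 (nat_lit 370) (nat_lit 327) (nat_lit 323)) (XT.lf (nat_lit 0) (nat_lit 5776645735) (nat_lit 304) (nat_lit 2027820501) (nat_lit 0) (nat_lit 1452370279) (nat_lit 237) (nat_lit 5) (nat_lit 241) (nat_lit 4) (nat_lit 237) (nat_lit 4) (nat_lit 371) (nat_lit 327) (nat_lit 322))))) (XT.nd (nat_lit 312) (nat_lit 608) (nat_lit 0) (XT.nd (nat_lit 156) (nat_lit 456) (nat_lit 0) (XT.nd (nat_lit 78) (nat_lit 152) (nat_lit 0) (XT.lf (nat_lit 0) (nat_lit 859064245) (nat_lit 304) (nat_lit 3308512684) (nat_lit 76) (nat_lit 5287576820) (nat_lit 233) (nat_lit 5) (nat_lit 237) (nat_lit 5) (nat_lit 234) (nat_lit 4) (nat_lit 372) (nat_lit 327) (nat_lit 321)) (XT.lf (nat_lit 0) (nat_lit 4994918739) (nat_lit 152) (nat_lit 260857202) (nat_lit 228) (nat_lit 4406885731) (nat_lit 231) (nat_lit 5) (nat_lit 233) (nat_lit 5) (nat_lit 234) (nat_lit 4) (nat_lit 373) (nat_lit 327) (nat_lit 320))) (XT.nd (nat_lit 78) (nat_lit 152)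 (nat_lit 0) (XT.lf (nat_lit 0) (nat_lit 14846208) (nat_lit 304) (nat_lit 6117611161) (nat_lit 76) (nat_lit 3746953799) (nat_lit 227) (nat_lit 5) (nat_lit 231) (nat_lit 5) (nat_lit 228) (nat_lit 4) (nat_lit 374) (nat_lit 327) (nat_lit 319)) (XT.lf (nat_lit 0) (nat_lit 2422403720) (nat_lit 152) (nat_lit 2057413517) (nat_lit 228) (nat_lit 5625056062) (nat_lit 225) (nat_lit 5) (nat_lit 227) (nat_lit 5) (nat_lit 228) (nat_lit 4) (nat_lit 375) (nat_lit 327) (nat_lit 318)))) (XT.nd (nat_lit 156) (nat_lit 380) (nat_lit 0) (XT.nd (nat_lit 78) (nat_lit 76) (nat_lit 0) (XT.lf (nat_lit 0) (nat_lit 1010279669) (nat_lit 152) (nat_lit 8163240913) (nat_lit 152) (nat_lit 1167813767) (nat_lit 223) (nat_lit 4) (nat_lit 225) (nat_lit 5) (nat_lit 225) (nat_lit 4) (nat_lit 376) (nat_lit 327) (nat_lit 317)) (XT.lf (nat_lit 0) (nat_lit 3416458085) (nat_lit 228) (nat_lit 521372318) (nat_lit 76) (nat_lit 6648217079) (nat_lit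 222) (nat_lit 5) (nat_lit 225) (nat_lit 5) (nat_lit 223) (nat_lit 4) (nat_lit 377) (nat_lit 327) (nat_lit 316))) (XT.nd (nat_lit 78) (nat_lit 228) (nat_lit 0) (XT.lf (nat_lit 0) (nat_lit 8193851089) (nat_lit 228) (nat_lit 2101391168) (nat_lit 0) (nat_lit 546639104) (nat_lit 220) (nat_lit 5) (nat_lit 223) (nat_lit 4) (nat_lit 220) (nat_lit 4) (nat_lit 378) (nat_lit 327) (nat_lit 315)) (XT.lf (nat_lit 0) (nat_lit 2079995976) (nat_lit 228) (nat_lit 3840781403) (nat_lit 76) (nat_lit 5185711031) (nat_lit 217) (nat_lit 5) (nat_lit 220) (nat_lit 5) (nat_lit 218) (nat_lit 4) (nat_lit 379) (nat_lit 327) (nat_lit 314)))))) (XT.nd (nat_lit 624) (nat_lit 912) (nat_lit 0) (XT.nd (nat_lit 312) (nat_lit 456) (nat_lit 0) (XT.nd (nat_lit 156) (nat_lit 228) (nat_lit 0) (XT.nd (nat_lit 78) (nat_lit 228) (nat_lit 0) (XT.lf (nat_lit 0) (nat_lit 5687349349) (nat_lit 152) (nat_lit 1253087259) (nat_lit 228) (nat_lit 4442468475)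 (nat_lit 215) (nat_lit 5) (nat_lit 217) (nat_lit 5) (nat_lit 218) (nat_lit 4) (nat_lit 380) (nat_lit 327) (nat_lit 313)) (XT.lf (nat_lit 0) (nat_lit 406276855) (nat_lit 228) (nat_lit 7696244035) (nat_lit 76) (nat_lit 3567962937) (nat_lit 212) (nat_lit 5) (nat_lit 215) (nat_lit 5) (nat_lit 213) (nat_lit 4) (nat_lit 381) (nat_lit 327) (nat_lit 312))) (XT.nd (nat_lit 78) (nat_lit 152) (nat_lit 0) (XT.lf (nat_lit 0) (nat_lit 2085180110) (nat_lit 76) (nat_lit 3276150819) (nat_lit 152) (nat_lit 6606810833) (nat_lit 211) (nat_lit 5) (nat_lit 212) (nat_lit 5) (nat_lit 213) (nat_lit 4) (nat_lit 382) (nat_lit 327) (nat_lit 311)) (XT.lf (nat_lit 0) (nat_lit 75590734) (nat_lit 152) (nat_lit 10513381935) (nat_lit 152) (nat_lit 1690468178) (nat_lit 209) (nat_lit 4) (nat_lit 211) (nat_lit 5) (nat_lit 211) (nat_lit 4) (nat_lit 383) (nat_lit 327) (nat_lit 310)))) (XT.nd (nat_lit 156) (nat_lit 304) (nat_lit 0) (XT.nd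 (nat_lit 78) (nat_lit 76) (nat_lit 0) (XT.lf (nat_lit 0) (nat_lit 3448153672) (nat_lit 228) (nat_lit 2079378909) (nat_lit 76) (nat_lit 7071683269) (nat_lit 208) (nat_lit 5) (nat_lit 211) (nat_lit 5) (nat_lit 209) (nat_lit 4) (nat_lit 384) (nat_lit 327) (nat_lit 309)) (XT.lf (nat_lit 0) (nat_lit 8563425919) (nat_lit 76) (nat_lit 227410796) (nat_lit 152) (nat_lit 4142560213) (nat_lit 207) (nat_lit 5) (nat_lit 208) (nat_lit 5) (nat_lit 209) (nat_lit 4) (nat_lit 385) (nat_lit 327) (nat_lit 308))) (XT.nd (nat_lit 78) (nat_lit 76) (nat_lit 0) (XT.lf (nat_lit 0) (nat_lit 1172601673) (nat_lit 228) (nat_lit 6884487863) (nat_lit 76) (nat_lit 5221727767) (nat_lit 204) (nat_lit 5) (nat_lit 207) (nat_lit 5) (nat_lit 205) (nat_lit 4) (nat_lit 386) (nat_lit 327) (nat_lit 307)) (XT.lf (nat_lit 0) (nat_lit 4031247507) (nat_lit 76) (nat_lit 2596603878) (nat_lit 152) (nat_lit 7009584424) (nat_lit 203) (nat_lit 5)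 (nat_lit 204) (nat_lit 5) (nat_lit 205) (nat_lit 4) (nat_lit 387) (nat_lit 327) (nat_lit 306))))) (XT.nd (nat_lit 312) (nat_lit 380) (nat_lit 0) (XT.nd (nat_lit 156) (nat_lit 304) (nat_lit 0) (XT.nd (nat_lit 78) (nat_lit 76) (nat_lit 0) (XT.lf (nat_lit 0) (nat_lit 1483715335) (nat_lit 152) (nat_lit 10935287432) (nat_lit 152) (nat_lit 1591825514) (nat_lit 201) (nat_lit 4) (nat_lit 203) (nat_lit 5) (nat_lit 203) (nat_lit 4) (nat_lit 388) (nat_lit 327) (nat_lit 305)) (XT.lf (nat_lit 0) (nat_lit 4046500348) (nat_lit 228) (nat_lit 1279235686) (nat_lit 76) (nat_lit 9069916056) (nat_lit 200) (nat_lit 5) (nat_lit 203) (nat_lit 5) (nat_lit 201) (nat_lit 4) (nat_lit 389) (nat_lit 327) (nat_lit 304))) (XT.nd (nat_lit 78) (nat_lit 228) (nat_lit 0) (XT.lf (nat_lit 0) (nat_lit 9968302078) (nat_lit 152) (nat_lit 4187299341) (nat_lit 0) (nat_lit 640058128) (nat_lit 199) (nat_lit 5) (nat_lit 201) (nat_lit 4) (nat_lit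 199) (nat_lit 4) (nat_lit 390) (nat_lit 327) (nat_lit 303)) (XT.lf (nat_lit 0) (nat_lit 1052924970) (nat_lit 228) (nat_lit 7369380182) (nat_lit 76) (nat_lit 6786931524) (nat_lit 196) (nat_lit 5) (nat_lit 199) (nat_lit 5) (nat_lit 197) (nat_lit 4) (nat_lit 391) (nat_lit 327) (nat_lit 302)))) (XT.nd (nat_lit 156) (nat_lit 152) (nat_lit 0) (XT.nd (nat_lit 78) (nat_lit 152) (nat_lit 0) (XT.lf (nat_lit 0) (nat_lit 4821177086) (nat_lit 76) (nat_lit 2271105633) (nat_lit 152) (nat_lit 8545888490) (nat_lit 195) (nat_lit 5) (nat_lit 196) (nat_lit 5) (nat_lit 197) (nat_lit 4) (nat_lit 392) (nat_lit 327) (nat_lit 301)) (XT.lf (nat_lit 0) (nat_lit 1549750990) (nat_lit 152) (nat_lit 11980821857) (nat_lit 152) (nat_lit 2553131398) (nat_lit 193) (nat_lit 4) (nat_lit 195) (nat_lit 5) (nat_lit 195) (nat_lit 4) (nat_lit 393) (nat_lit 327) (nat_lit 300))) (XT.nd (nat_lit 78) (nat_lit 76) (nat_lit 0) (XT.lf (nat_lit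 0) (nat_lit 3723822674) (nat_lit 228) (nat_lit 1958092065) (nat_lit 76) (nat_lit 10861468228) (nat_lit 192) (nat_lit 5) (nat_lit 195) (nat_lit 5) (nat_lit 193) (nat_lit 4) (nat_lit 394) (nat_lit 327) (nat_lit 299)) (XT.lf (nat_lit 0) (nat_lit 10309069183) (nat_lit 152) (nat_lit 5685941027) (nat_lit 0) (nat_lit 1024930350) (nat_lit 191) (nat_lit 5) (nat_lit 193) (nat_lit 4) (nat_lit 191) (nat_lit 4) (nat_lit 395) (nat_lit 327) (nat_lit 298))))))))
noncomputable def xc90 : XT := (XT.nd (nat_lit 2496) (nat_lit 2356) (nat_lit 0) (XT.nd (nat_lit 1248) (nat_lit 1368) (nat_lit 0) (XT.nd (nat_lit 624) (nat_lit 684) (nat_lit 0) (XT.nd (nat_lit 312) (nat_lit 304) (nat_lit 0) (XT.nd (nat_lit 156) (nat_lit 152) (nat_lit 0) (XT.nd (nat_lit 78) (nat_lit 152) (nat_lit 0) (XT.lf (nat_lit 0) (nat_lit 7778113325) (nat_lit 76) (nat_lit 9580731615) (nat_lit 76) (nat_lit 154717746) (nat_lit 190) (nat_lit 4) (nat_lit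 191) (nat_lit 5) (nat_lit 191) (nat_lit 4) (nat_lit 396) (nat_lit 327) (nat_lit 297)) (XT.lf (nat_lit 0) (nat_lit 3886079667) (nat_lit 76) (nat_lit 2673536243) (nat_lit 152) (nat_lit 11464709383) (nat_lit 188) (nat_lit 5) (nat_lit 189) (nat_lit 5) (nat_lit 190) (nat_lit 4) (nat_lit 397) (nat_lit 327) (nat_lit 296))) (XT.nd (nat_lit 78) (nat_lit 152) (nat_lit 0) (XT.lf (nat_lit 0) (nat_lit 13731162428) (nat_lit 152) (nat_lit 320237467) (nat_lit 0) (nat_lit 4502764533) (nat_lit 188) (nat_lit 5) (nat_lit 190) (nat_lit 4) (nat_lit 188) (nat_lit 4) (nat_lit 398) (nat_lit 327) (nat_lit 295)) (XT.lf (nat_lit 0) (nat_lit 2246204756) (nat_lit 152) (nat_lit 4740399087) (nat_lit 76) (nat_lit 12114000045) (nat_lit 186) (nat_lit 5) (nat_lit 188) (nat_lit 5) (nat_lit 187) (nat_lit 4) (nat_lit 399) (nat_lit 327) (nat_lit 294)))) (XT.nd (nat_lit 156) (nat_lit 152) (nat_lit 0) (XT.nd (nat_lit 78) (nat_lit 76) (nat_lit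 0) (XT.lf (nat_lit 0) (nat_lit 9573077668) (nat_lit 152) (nat_lit 9526924706) (nat_lit 0) (nat_lit 567095152) (nat_lit 185) (nat_lit 5) (nat_lit 187) (nat_lit 4) (nat_lit 185) (nat_lit 4) (nat_lit 400) (nat_lit 327) (nat_lit 293)) (XT.lf (nat_lit 0) (nat_lit 5524448613) (nat_lit 76) (nat_lit 11917741448) (nat_lit 76) (nat_lit 2810930993) (nat_lit 184) (nat_lit 4) (nat_lit 185) (nat_lit 5) (nat_lit 185) (nat_lit 4) (nat_lit 401) (nat_lit 327) (nat_lit 292))) (XT.nd (nat_lit 78) (nat_lit 0) (nat_lit 0) (XT.lf (nat_lit 0) (nat_lit 529430526) (nat_lit 76) (nat_lit 4218017078) (nat_lit 152) (nat_lit 16113926361) (nat_lit 182) (nat_lit 5) (nat_lit 183) (nat_lit 5) (nat_lit 184) (nat_lit 4) (nat_lit 402) (nat_lit 327) (nat_lit 291)) (XT.lf (nat_lit 0) (nat_lit 12797149241) (nat_lit 152) (nat_lit 4744749197) (nat_lit 0) (nat_lit 3945443549) (nat_lit 182) (nat_lit 5) (nat_lit 184) (nat_lit 4) (nat_lit 182)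 (nat_lit 4) (nat_lit 403) (nat_lit 327) (nat_lit 290))))) (XT.nd (nat_lit 312) (nat_lit 304) (nat_lit 0) (XT.nd (nat_lit 156) (nat_lit 152) (nat_lit 0) (XT.nd (nat_lit 78) (nat_lit 152) (nat_lit 0) (XT.lf (nat_lit 0) (nat_lit 11729575132) (nat_lit 76) (nat_lit 9671062638) (nat_lit 76) (nat_lit 736405551) (nat_lit 181) (nat_lit 4) (nat_lit 182) (nat_lit 5) (nat_lit 182) (nat_lit 4) (nat_lit 404) (nat_lit 327) (nat_lit 289)) (XT.lf (nat_lit 0) (nat_lit 6258600880) (nat_lit 76) (nat_lit 1191281703) (nat_lit 152) (nat_lit 15359475439) (nat_lit 179) (nat_lit 5) (nat_lit 180) (nat_lit 5) (nat_lit 181) (nat_lit 4) (nat_lit 405) (nat_lit 327) (nat_lit 288))) (XT.nd (nat_lit 78) (nat_lit 76) (nat_lit 0) (XT.lf (nat_lit 0) (nat_lit 287775887) (nat_lit 76) (nat_lit 15936414701) (nat_lit 76) (nat_lit 7280321581) (nat_lit 178) (nat_lit 4) (nat_lit 179) (nat_lit 5) (nat_lit 179) (nat_lit 4) (nat_lit 406) (nat_lit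 327) (nat_lit 287)) (XT.lf (nat_lit 0) (nat_lit 1368229172) (nat_lit 152) (nat_lit 5919467635) (nat_lit 76) (nat_lit 16935591472) (nat_lit 177) (nat_lit 5) (nat_lit 179) (nat_lit 5) (nat_lit 178) (nat_lit 4) (nat_lit 407) (nat_lit 327) (nat_lit 286)))) (XT.nd (nat_lit 156) (nat_lit 152) (nat_lit 0) (XT.nd (nat_lit 78) (nat_lit 76) (nat_lit 0) (XT.lf (nat_lit 0) (nat_lit 10332971152) (nat_lit 152) (nat_lit 12670464307) (nat_lit 0) (nat_lit 1962178746) (nat_lit 176) (nat_lit 5) (nat_lit 178) (nat_lit 4) (nat_lit 176) (nat_lit 4) (nat_lit 408) (nat_lit 327) (nat_lit 285)) (XT.lf (nat_lit 0) (nat_lit 5759467133) (nat_lit 76) (nat_lit 14202272129) (nat_lit 76) (nat_lit 5772527714) (nat_lit 175) (nat_lit 4) (nat_lit 176) (nat_lit 5) (nat_lit 176) (nat_lit 4) (nat_lit 409) (nat_lit 327) (nat_lit 284))) (XT.nd (nat_lit 78) (nat_lit 76) (nat_lit 0) (XT.lf (nat_lit 0) (nat_lit 3540289543) (nat_lit 152) (nat_lit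 1228295618) (nat_lit 76) (nat_lit 21763876242) (nat_lit 174) (nat_lit 5) (nat_lit 176) (nat_lit 5) (nat_lit 175) (nat_lit 4) (nat_lit 410) (nat_lit 327) (nat_lit 283)) (XT.lf (nat_lit 0) (nat_lit 13412276697) (nat_lit 152) (nat_lit 8659628570) (nat_lit 0) (nat_lit 5279552514) (nat_lit 173) (nat_lit 5) (nat_lit 175) (nat_lit 4) (nat_lit 173) (nat_lit 4) (nat_lit 411) (nat_lit 327) (nat_lit 282)))))) (XT.nd (nat_lit 624) (nat_lit 684) (nat_lit 0) (XT.nd (nat_lit 312) (nat_lit 380) (nat_lit 0) (XT.nd (nat_lit 156) (nat_lit 76) (nat_lit 0) (XT.nd (nat_lit 78) (nat_lit 152) (nat_lit 0) (XT.lf (nat_lit 0) (nat_lit 11550467296) (nat_lit 76) (nat_lit 12416356402) (nat_lit 76) (nat_lit 4235132256) (nat_lit 172) (nat_lit 4) (nat_lit 173) (nat_lit 5) (nat_lit 173) (nat_lit 4) (nat_lit 412) (nat_lit 327) (nat_lit 281)) (XT.lf (nat_lit 0) (nat_lit 3830269385) (nat_lit 76) (nat_lit 2051527674) (nat_lit 152)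 (nat_lit 23202621600) (nat_lit 170) (nat_lit 5) (nat_lit 171) (nat_lit 5) (nat_lit 172) (nat_lit 4) (nat_lit 413) (nat_lit 327) (nat_lit 280))) (XT.nd (nat_lit 78) (nat_lit 76) (nat_lit 0) (XT.lf (nat_lit 0) (nat_lit 16696284677) (nat_lit 152) (nat_lit 4475790754) (nat_lit 0) (nat_lit 8818755645) (nat_lit 170) (nat_lit 5) (nat_lit 172) (nat_lit 4) (nat_lit 170) (nat_lit 4) (nat_lit 414) (nat_lit 327) (nat_lit 279)) (XT.lf (nat_lit 0) (nat_lit 17701884733) (nat_lit 76) (nat_lit 10573458560) (nat_lit 76) (nat_lit 2656028490) (nat_lit 169) (nat_lit 4) (nat_lit 170) (nat_lit 5) (nat_lit 170) (nat_lit 4) (nat_lit 415) (nat_lit 327) (nat_lit 278)))) (XT.nd (nat_lit 156) (nat_lit 228) (nat_lit 0) (XT.nd (nat_lit 78) (nat_lit 0) (nat_lit 0) (XT.lf (nat_lit 0) (nat_lit 8389864816) (nat_lit 152) (nat_lit 22701766012) (nat_lit 0) (nat_lit 813263806) (nat_lit 167) (nat_lit 5) (nat_lit 169) (nat_lit 4) (nat_lit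 167) (nat_lit 4) (nat_lit 416) (nat_lit 327) (nat_lit 277)) (XT.lf (nat_lit 0) (nat_lit 20213870452) (nat_lit 152) (nat_lit 92490796) (nat_lit 0) (nat_lit 12602801424) (nat_lit 167) (nat_lit 5) (nat_lit 169) (nat_lit 4) (nat_lit 167) (nat_lit 4) (nat_lit 417) (nat_lit 327) (nat_lit 276))) (XT.nd (nat_lit 78) (nat_lit 152) (nat_lit 0) (XT.lf (nat_lit 0) (nat_lit 24259196047) (nat_lit 76) (nat_lit 8666750144) (nat_lit 76) (nat_lit 1022854432) (nat_lit 166) (nat_lit 4) (nat_lit 167) (nat_lit 5) (nat_lit 167) (nat_lit 4) (nat_lit 418) (nat_lit 327) (nat_lit 275)) (XT.lf (nat_lit 0) (nat_lit 11087451514) (nat_lit 152) (nat_lit 20155734849) (nat_lit 0) (nat_lit 3777776066) (nat_lit 164) (nat_lit 5) (nat_lit 166) (nat_lit 4) (nat_lit 164) (nat_lit 4) (nat_lit 419) (nat_lit 327) (nat_lit 274))))) (XT.nd (nat_lit 312) (nat_lit 380) (nat_lit 0) (XT.nd (nat_lit 156) (nat_lit 152) (nat_lit 0) (XT.nd (nat_lit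 78) (nat_lit 76) (nat_lit 0) (XT.lf (nat_lit 0) (nat_lit 4668925665) (nat_lit 76) (nat_lit 19399999635) (nat_lit 76) (nat_lit 12061967263) (nat_lit 163) (nat_lit 4) (nat_lit 164) (nat_lit 5) (nat_lit 164) (nat_lit 4) (nat_lit 420) (nat_lit 327) (nat_lit 273)) (XT.lf (nat_lit 0) (nat_lit 655504492) (nat_lit 152) (nat_lit 6021254754) (nat_lit 76) (nat_lit 30605982521) (nat_lit 162) (nat_lit 5) (nat_lit 164) (nat_lit 5) (nat_lit 163) (nat_lit 4) (nat_lit 421) (nat_lit 327) (nat_lit 272))) (XT.nd (nat_lit 78) (nat_lit 76) (nat_lit 0) (XT.lf (nat_lit 0) (nat_lit 13965423990) (nat_lit 152) (nat_lit 17572170429) (nat_lit 0) (nat_lit 6926605389) (nat_lit 161) (nat_lit 5) (nat_lit 163) (nat_lit 4) (nat_lit 161) (nat_lit 4) (nat_lit 422) (nat_lit 327) (nat_lit 271)) (XT.lf (nat_lit 0) (nat_lit 9702884821) (nat_lit 76) (nat_lit 18524825157) (nat_lit 76) (nat_lit 11462677245) (nat_lit 160) (nat_lit 4) (nat_lit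 161) (nat_lit 5) (nat_lit 161) (nat_lit 4) (nat_lit 423) (nat_lit 327) (nat_lit 270)))) (XT.nd (nat_lit 156) (nat_lit 228) (nat_lit 0) (XT.nd (nat_lit 78) (nat_lit 76) (nat_lit 0) (XT.lf (nat_lit 0) (nat_lit 2378795912) (nat_lit 152) (nat_lit 2207834683) (nat_lit 76) (nat_lit 36378276774) (nat_lit 159) (nat_lit 5) (nat_lit 161) (nat_lit 5) (nat_lit 160) (nat_lit 4) (nat_lit 424) (nat_lit 327) (nat_lit 269)) (XT.lf (nat_lit 0) (nat_lit 17048375467) (nat_lit 152) (nat_lit 14938112522) (nat_lit 0) (nat_lit 10281207203) (nat_lit 158) (nat_lit 5) (nat_lit 160) (nat_lit 4) (nat_lit 158) (nat_lit 4) (nat_lit 425) (nat_lit 327) (nat_lit 268))) (XT.nd (nat_lit 78) (nat_lit 152) (nat_lit 0) (XT.lf (nat_lit 0) (nat_lit 15042871184) (nat_lit 76) (nat_lit 17682702785) (nat_lit 76) (nat_lit 10896341439) (nat_lit 157) (nat_lit 4) (nat_lit 158) (nat_lit 5) (nat_lit 158) (nat_lit 4) (nat_lit 426) (nat_lit 327)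 (nat_lit 267)) (XT.lf (nat_lit 0) (nat_lit 1851154119) (nat_lit 76) (nat_lit 2371184705) (nat_lit 152) (nat_lit 40807666381) (nat_lit 155) (nat_lit 5) (nat_lit 156) (nat_lit 5) (nat_lit 157) (nat_lit 4) (nat_lit 427) (nat_lit 327) (nat_lit 266))))))) (XT.nd (nat_lit 1248) (nat_lit 1140) (nat_lit 0) (XT.nd (nat_lit 624) (nat_lit 684) (nat_lit 0) (XT.nd (nat_lit 312) (nat_lit 304) (nat_lit 0) (XT.nd (nat_lit 156) (nat_lit 152) (nat_lit 0) (XT.nd (nat_lit 78) (nat_lit 76) (nat_lit 0) (XT.lf (nat_lit 0) (nat_lit 20362858644) (nat_lit 152) (nat_lit 12239435754) (nat_lit 0) (nat_lit 13865668964) (nat_lit 155) (nat_lit 5) (nat_lit 157) (nat_lit 4) (nat_lit 155) (nat_lit 4) (nat_lit 428) (nat_lit 327) (nat_lit 265)) (XT.lf (nat_lit 0) (nat_lit 20729014583) (nat_lit 76) (nat_lit 16873587421) (nat_lit 76) (nat_lit 10360607546) (nat_lit 154) (nat_lit 4) (nat_lit 155) (nat_lit 5) (nat_lit 155) (nat_lit 4)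 (nat_lit 429) (nat_lit 327) (nat_lit 264))) (XT.nd (nat_lit 78) (nat_lit 0) (nat_lit 0) (XT.lf (nat_lit 0) (nat_lit 6204239916) (nat_lit 76) (nat_lit 6617680) (nat_lit 152) (nat_lit 43305680165) (nat_lit 152) (nat_lit 5) (nat_lit 153) (nat_lit 5) (nat_lit 154) (nat_lit 4) (nat_lit 430) (nat_lit 327) (nat_lit 263)) (XT.lf (nat_lit 0) (nat_lit 23937661263) (nat_lit 152) (nat_lit 9460770391) (nat_lit 0) (nat_lit 17706860948) (nat_lit 152) (nat_lit 5) (nat_lit 154) (nat_lit 4) (nat_lit 152) (nat_lit 4) (nat_lit 431) (nat_lit 327) (nat_lit 262)))) (XT.nd (nat_lit 156) (nat_lit 76) (nat_lit 0) (XT.nd (nat_lit 78) (nat_lit 152) (nat_lit 0) (XT.lf (nat_lit 0) (nat_lit 26805360009) (nat_lit 76) (nat_lit 16097165062) (nat_lit 76) (nat_lit 9853374114) (nat_lit 151) (nat_lit 4) (nat_lit 152) (nat_lit 5) (nat_lit 152) (nat_lit 4) (nat_lit 432) (nat_lit 327) (nat_lit 261)) (XT.lf (nat_lit 0) (nat_lit 8363634795)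 (nat_lit 152) (nat_lit 43698339795) (nat_lit 0) (nat_lit 2405384338) (nat_lit 149) (nat_lit 5) (nat_lit 151) (nat_lit 4) (nat_lit 149) (nat_lit 4) (nat_lit 433) (nat_lit 327) (nat_lit 260))) (XT.nd (nat_lit 78) (nat_lit 76) (nat_lit 0) (XT.lf (nat_lit 0) (nat_lit 27804097854) (nat_lit 152) (nat_lit 6585404585) (nat_lit 0) (nat_lit 21834625599) (nat_lit 149) (nat_lit 5) (nat_lit 151) (nat_lit 4) (nat_lit 149) (nat_lit 4) (nat_lit 434) (nat_lit 327) (nat_lit 259)) (XT.lf (nat_lit 0) (nat_lit 33320239510) (nat_lit 76) (nat_lit 15352913660) (nat_lit 76) (nat_lit 9372753978) (nat_lit 148) (nat_lit 4) (nat_lit 149) (nat_lit 5) (nat_lit 149) (nat_lit 4) (nat_lit 435) (nat_lit 327) (nat_lit 258))))) (XT.nd (nat_lit 312) (nat_lit 304) (nat_lit 0) (XT.nd (nat_lit 156) (nat_lit 228) (nat_lit 0) (XT.nd (nat_lit 78) (nat_lit 0) (nat_lit 0) (XT.lf (nat_lit 0) (nat_lit 10661574226) (nat_lit 152) (nat_lit 44313674226)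 (nat_lit 0) (nat_lit 4956490243) (nat_lit 146) (nat_lit 5) (nat_lit 148) (nat_lit 4) (nat_lit 146) (nat_lit 4) (nat_lit 436) (nat_lit 327) (nat_lit 257)) (XT.lf (nat_lit 0) (nat_lit 31996321402) (nat_lit 152) (nat_lit 3595168185) (nat_lit 0) (nat_lit 26282005218) (nat_lit 146) (nat_lit 5) (nat_lit 148) (nat_lit 4) (nat_lit 146) (nat_lit 4) (nat_lit 437) (nat_lit 327) (nat_lit 256))) (XT.nd (nat_lit 78) (nat_lit 152) (nat_lit 0) (XT.lf (nat_lit 0) (nat_lit 40326690495) (nat_lit 76) (nat_lit 14640152564) (nat_lit 76) (nat_lit 8917043808) (nat_lit 145) (nat_lit 4) (nat_lit 146) (nat_lit 5) (nat_lit 146) (nat_lit 4) (nat_lit 438) (nat_lit 327) (nat_lit 255)) (XT.lf (nat_lit 0) (nat_lit 13123645810) (nat_lit 152) (nat_lit 45173264857) (nat_lit 0) (nat_lit 7665090919) (nat_lit 143) (nat_lit 5) (nat_lit 145) (nat_lit 4) (nat_lit 143) (nat_lit 4) (nat_lit 439) (nat_lit 327) (nat_lit 254)))) (XT.nd (nat_lit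 156) (nat_lit 228) (nat_lit 0) (XT.nd (nat_lit 78) (nat_lit 76) (nat_lit 0) (XT.lf (nat_lit 0) (nat_lit 36551658692) (nat_lit 152) (nat_lit 470297853) (nat_lit 0) (nat_lit 31085508447) (nat_lit 143) (nat_lit 5) (nat_lit 145) (nat_lit 4) (nat_lit 143) (nat_lit 4) (nat_lit 440) (nat_lit 327) (nat_lit 253)) (XT.lf (nat_lit 0) (nat_lit 47882923578) (nat_lit 76) (nat_lit 13958082604) (nat_lit 76) (nat_lit 8484698689) (nat_lit 142) (nat_lit 4) (nat_lit 143) (nat_lit 5) (nat_lit 143) (nat_lit 4) (nat_lit 441) (nat_lit 327) (nat_lit 252))) (XT.nd (nat_lit 78) (nat_lit 76) (nat_lit 0) (XT.lf (nat_lit 0) (nat_lit 15770570452) (nat_lit 152) (nat_lit 46294017164) (nat_lit 0) (nat_lit 10551262714) (nat_lit 140) (nat_lit 5) (nat_lit 142) (nat_lit 4) (nat_lit 140) (nat_lit 4) (nat_lit 442) (nat_lit 327) (nat_lit 251)) (XT.lf (nat_lit 0) (nat_lit 2903652075) (nat_lit 76) (nat_lit 38652655242) (nat_lit 76) (nat_lit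 33427098786) (nat_lit 139) (nat_lit 4) (nat_lit 140) (nat_lit 5) (nat_lit 140) (nat_lit 4) (nat_lit 443) (nat_lit 327) (nat_lit 250)))))) (XT.nd (nat_lit 624) (nat_lit 532) (nat_lit 0) (XT.nd (nat_lit 312) (nat_lit 380) (nat_lit 0) (XT.nd (nat_lit 156) (nat_lit 76) (nat_lit 0) (XT.nd (nat_lit 78) (nat_lit 152) (nat_lit 0) (XT.lf (nat_lit 0) (nat_lit 56052843738) (nat_lit 76) (nat_lit 13305818490) (nat_lit 76) (nat_lit 8074310876) (nat_lit 139) (nat_lit 4) (nat_lit 140) (nat_lit 5) (nat_lit 140) (nat_lit 4) (nat_lit 444) (nat_lit 327) (nat_lit 249)) (XT.lf (nat_lit 0) (nat_lit 18624919242) (nat_lit 152) (nat_lit 47694868491) (nat_lit 0) (nat_lit 13637133161) (nat_lit 137) (nat_lit 5) (nat_lit 139) (nat_lit 4) (nat_lit 137) (nat_lit 4) (nat_lit 445) (nat_lit 327) (nat_lit 248))) (XT.nd (nat_lit 78) (nat_lit 0) (nat_lit 0) (XT.lf (nat_lit 0) (nat_lit 6478666651) (nat_lit 76) (nat_lit 40541542816)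 (nat_lit 76) (nat_lit 35548615900) (nat_lit 136) (nat_lit 4) (nat_lit 137) (nat_lit 5) (nat_lit 137) (nat_lit 4) (nat_lit 446) (nat_lit 327) (nat_lit 247)) (XT.lf (nat_lit 0) (nat_lit 64906629151) (nat_lit 76) (nat_lit 12682414933) (nat_lit 76) (nat_lit 7684591984) (nat_lit 136) (nat_lit 4) (nat_lit 137) (nat_lit 5) (nat_lit 137) (nat_lit 4) (nat_lit 447) (nat_lit 327) (nat_lit 246)))) (XT.nd (nat_lit 156) (nat_lit 152) (nat_lit 0) (XT.nd (nat_lit 78) (nat_lit 76) (nat_lit 0) (XT.lf (nat_lit 0) (nat_lit 21711331746) (nat_lit 152) (nat_lit 49396997697) (nat_lit 0) (nat_lit 16947059520) (nat_lit 134) (nat_lit 5) (nat_lit 136) (nat_lit 4) (nat_lit 134) (nat_lit 4) (nat_lit 448) (nat_lit 327) (nat_lit 245)) (XT.lf (nat_lit 0) (nat_lit 10265589910) (nat_lit 76) (nat_lit 42719757465) (nat_lit 76) (nat_lit 37951255861) (nat_lit 133) (nat_lit 4) (nat_lit 134) (nat_lit 5) (nat_lit 134) (nat_lit 4) (nat_lit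 449) (nat_lit 327) (nat_lit 244))) (XT.nd (nat_lit 78) (nat_lit 152) (nat_lit 0) (XT.lf (nat_lit 0) (nat_lit 74521372754) (nat_lit 76) (nat_lit 12086887611) (nat_lit 76) (nat_lit 7314358029) (nat_lit 133) (nat_lit 4) (nat_lit 134) (nat_lit 5) (nat_lit 134) (nat_lit 4) (nat_lit 450) (nat_lit 327) (nat_lit 243)) (XT.lf (nat_lit 0) (nat_lit 25056752556) (nat_lit 152) (nat_lit 51424053462) (nat_lit 0) (nat_lit 20507832792) (nat_lit 131) (nat_lit 5) (nat_lit 133) (nat_lit 4) (nat_lit 131) (nat_lit 4) (nat_lit 451) (nat_lit 327) (nat_lit 242))))) (XT.nd (nat_lit 312) (nat_lit 228) (nat_lit 0) (XT.nd (nat_lit 156) (nat_lit 228) (nat_lit 0) (XT.nd (nat_lit 78) (nat_lit 0) (nat_lit 0) (XT.lf (nat_lit 0) (nat_lit 14293228768) (nat_lit 76) (nat_lit 45212928957) (nat_lit 76) (nat_lit 40660529674) (nat_lit 130) (nat_lit 4) (nat_lit 131) (nat_lit 5) (nat_lit 131) (nat_lit 4) (nat_lit 452) (nat_lit 327) (nat_lit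 241)) (XT.lf (nat_lit 0) (nat_lit 84981792220) (nat_lit 76) (nat_lit 11518229930) (nat_lit 76) (nat_lit 6962516819) (nat_lit 130) (nat_lit 4) (nat_lit 131) (nat_lit 5) (nat_lit 131) (nat_lit 4) (nat_lit 453) (nat_lit 327) (nat_lit 240))) (XT.nd (nat_lit 78) (nat_lit 76) (nat_lit 0) (XT.lf (nat_lit 0) (nat_lit 28690688630) (nat_lit 152) (nat_lit 53802403779) (nat_lit 0) (nat_lit 24348908499) (nat_lit 128) (nat_lit 5) (nat_lit 130) (nat_lit 4) (nat_lit 128) (nat_lit 4) (nat_lit 454) (nat_lit 327) (nat_lit 239)) (XT.lf (nat_lit 0) (nat_lit 18593053689) (nat_lit 76) (nat_lit 48049411578) (nat_lit 76) (nat_lit 43704768838) (nat_lit 127) (nat_lit 4) (nat_lit 128) (nat_lit 5) (nat_lit 128) (nat_lit 4) (nat_lit 455) (nat_lit 327) (nat_lit 238)))) (XT.nd (nat_lit 156) (nat_lit 76) (nat_lit 0) (XT.nd (nat_lit 78) (nat_lit 152) (nat_lit 0) (XT.lf (nat_lit 0) (nat_lit 96381014788) (nat_lit 76) (nat_lit 10975426345)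 (nat_lit 76) (nat_lit 6628057310) (nat_lit 127) (nat_lit 4) (nat_lit 128) (nat_lit 5) (nat_lit 128) (nat_lit 4) (nat_lit 456) (nat_lit 327) (nat_lit 237)) (XT.lf (nat_lit 0) (nat_lit 32645490131) (nat_lit 152) (nat_lit 56561409320) (nat_lit 0) (nat_lit 28502665840) (nat_lit 125) (nat_lit 5) (nat_lit 127) (nat_lit 4) (nat_lit 125) (nat_lit 4) (nat_lit 457) (nat_lit 327) (nat_lit 236))) (XT.nd (nat_lit 78) (nat_lit 0) (nat_lit 0) (XT.lf (nat_lit 0) (nat_lit 23199476907) (nat_lit 76) (nat_lit 51260575463) (nat_lit 76) (nat_lit 47115396096) (nat_lit 124) (nat_lit 4) (nat_lit 125) (nat_lit 5) (nat_lit 125) (nat_lit 4) (nat_lit 458) (nat_lit 327) (nat_lit 235)) (XT.lf (nat_lit 0) (nat_lit 108821444144) (nat_lit 76) (nat_lit 10457462869) (nat_lit 76) (nat_lit 6310040573) (nat_lit 124) (nat_lit 4) (nat_lit 125) (nat_lit 5) (nat_lit 125) (nat_lit 4) (nat_lit 459) (nat_lit 327) (nat_lit 234))))))))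
noncomputable def xc91 : XT := (XT.nd (nat_lit 1248) (nat_lit 1216) (nat_lit 0) (XT.nd (nat_lit 624) (nat_lit 608) (nat_lit 0) (XT.nd (nat_lit 312) (nat_lit 304) (nat_lit 0) (XT.nd (nat_lit 156) (nat_lit 152) (nat_lit 0) (XT.nd (nat_lit 78) (nat_lit 76) (nat_lit 0) (XT.lf (nat_lit 0) (nat_lit 36956657646) (nat_lit 152) (nat_lit 59733723541) (nat_lit 0) (nat_lit 33004697247) (nat_lit 122) (nat_lit 5) (nat_lit 124) (nat_lit 4) (nat_lit 122) (nat_lit 4) (nat_lit 460) (nat_lit 327) (nat_lit 233)) (XT.lf (nat_lit 0) (nat_lit 28150160437) (nat_lit 76) (nat_lit 54881124257) (nat_lit 76) (nat_lit 50927226332) (nat_lit 121) (nat_lit 4) (nat_lit 122) (nat_lit 5) (nat_lit 122) (nat_lit 4) (nat_lit 461) (nat_lit 327) (nat_lit 232))) (XT.nd (nat_lit 78) (nat_lit 152) (nat_lit 0) (XT.lf (nat_lit 0) (nat_lit 122415717358) (nat_lit 76) (nat_lit 9963335300) (nat_lit 76) (nat_lit 6007592111) (nat_lit 121) (nat_lit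 4) (nat_lit 122) (nat_lit 5) (nat_lit 122) (nat_lit 4) (nat_lit 462) (nat_lit 327) (nat_lit 231)) (XT.lf (nat_lit 0) (nat_lit 41663178873) (nat_lit 152) (nat_lit 63355622582) (nat_lit 0) (nat_lit 37894130699) (nat_lit 119) (nat_lit 5) (nat_lit 121) (nat_lit 4) (nat_lit 119) (nat_lit 4) (nat_lit 463) (nat_lit 327) (nat_lit 230)))) (XT.nd (nat_lit 156) (nat_lit 228) (nat_lit 0) (XT.nd (nat_lit 78) (nat_lit 0) (nat_lit 0) (XT.lf (nat_lit 0) (nat_lit 33486356597) (nat_lit 76) (nat_lit 58949442488) (nat_lit 76) (nat_lit 55178800306) (nat_lit 118) (nat_lit 4) (nat_lit 119) (nat_lit 5) (nat_lit 119) (nat_lit 4) (nat_lit 464) (nat_lit 327) (nat_lit 229)) (XT.lf (nat_lit 0) (nat_lit 137287760817) (nat_lit 76) (nat_lit 9492055578) (nat_lit 76) (nat_lit 5719895293) (nat_lit 118) (nat_lit 4) (nat_lit 119) (nat_lit 5) (nat_lit 119) (nat_lit 4) (nat_lit 465) (nat_lit 327) (nat_lit 228))) (XT.nd (nat_lit 78)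 (nat_lit 76) (nat_lit 0) (XT.lf (nat_lit 0) (nat_lit 46807898115) (nat_lit 152) (nat_lit 67467368315) (nat_lit 0) (nat_lit 43213987547) (nat_lit 116) (nat_lit 5) (nat_lit 118) (nat_lit 4) (nat_lit 116) (nat_lit 4) (nat_lit 466) (nat_lit 327) (nat_lit 227)) (XT.lf (nat_lit 0) (nat_lit 39253284107) (nat_lit 76) (nat_lit 63507976269) (nat_lit 76) (nat_lit 59912754307) (nat_lit 115) (nat_lit 4) (nat_lit 116) (nat_lit 5) (nat_lit 116) (nat_lit 4) (nat_lit 467) (nat_lit 327) (nat_lit 226))))) (XT.nd (nat_lit 312) (nat_lit 380) (nat_lit 0) (XT.nd (nat_lit 156) (nat_lit 76) (nat_lit 0) (XT.nd (nat_lit 78) (nat_lit 152) (nat_lit 0) (XT.lf (nat_lit 0) (nat_lit 153573955024) (nat_lit 76) (nat_lit 9042656633) (nat_lit 76) (nat_lit 5446185723) (nat_lit 115) (nat_lit 4) (nat_lit 116) (nat_lit 5) (nat_lit 116) (nat_lit 4) (nat_lit 468) (nat_lit 327) (nat_lit 225)) (XT.lf (nat_lit 0) (nat_lit 52437922223) (nat_lit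 152) (nat_lit 72113608127) (nat_lit 0) (nat_lit 49011579001) (nat_lit 113) (nat_lit 5) (nat_lit 115) (nat_lit 4) (nat_lit 113) (nat_lit 4) (nat_lit 469) (nat_lit 327) (nat_lit 224))) (XT.nd (nat_lit 78) (nat_lit 0) (nat_lit 0) (XT.lf (nat_lit 0) (nat_lit 45500543200) (nat_lit 76) (nat_lit 68603651213) (nat_lit 76) (nat_lit 65176229104) (nat_lit 112) (nat_lit 4) (nat_lit 113) (nat_lit 5) (nat_lit 113) (nat_lit 4) (nat_lit 470) (nat_lit 327) (nat_lit 223)) (XT.lf (nat_lit 0) (nat_lit 171424419241) (nat_lit 76) (nat_lit 8614196008) (nat_lit 76) (nat_lit 5185746387) (nat_lit 112) (nat_lit 4) (nat_lit 113) (nat_lit 5) (nat_lit 113) (nat_lit 4) (nat_lit 471) (nat_lit 327) (nat_lit 222)))) (XT.nd (nat_lit 156) (nat_lit 152) (nat_lit 0) (XT.nd (nat_lit 78) (nat_lit 76) (nat_lit 0) (XT.lf (nat_lit 0) (nat_lit 58605066922) (nat_lit 152) (nat_lit 77343815402) (nat_lit 0) (nat_lit 55338944824) (nat_lit 110)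 (nat_lit 5) (nat_lit 112) (nat_lit 4) (nat_lit 110) (nat_lit 4) (nat_lit 472) (nat_lit 327) (nat_lit 221)) (XT.lf (nat_lit 0) (nat_lit 52282573563) (nat_lit 76) (nat_lit 74288331744) (nat_lit 76) (nat_lit 71021322043) (nat_lit 109) (nat_lit 4) (nat_lit 110) (nat_lit 5) (nat_lit 110) (nat_lit 4) (nat_lit 473) (nat_lit 327) (nat_lit 220))) (XT.nd (nat_lit 78) (nat_lit 152) (nat_lit 0) (XT.lf (nat_lit 0) (nat_lit 191004428079) (nat_lit 76) (nat_lit 8205758486) (nat_lit 76) (nat_lit 4937903448) (nat_lit 109) (nat_lit 4) (nat_lit 110) (nat_lit 5) (nat_lit 110) (nat_lit 4) (nat_lit 474) (nat_lit 327) (nat_lit 219)) (XT.lf (nat_lit 0) (nat_lit 65366347867) (nat_lit 152) (nat_lit 83212774991) (nat_lit 0) (nat_lit 62253338229) (nat_lit 107) (nat_lit 5) (nat_lit 109) (nat_lit 4) (nat_lit 107) (nat_lit 4) (nat_lit 475) (nat_lit 327) (nat_lit 218)))))) (XT.nd (nat_lit 624) (nat_lit 684) (nat_lit 0) (XT.nd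 (nat_lit 312) (nat_lit 228) (nat_lit 0) (XT.nd (nat_lit 156) (nat_lit 228) (nat_lit 0) (XT.nd (nat_lit 78) (nat_lit 0) (nat_lit 0) (XT.lf (nat_lit 0) (nat_lit 59659159379) (nat_lit 76) (nat_lit 80619326374) (nat_lit 76) (nat_lit 77505586502) (nat_lit 106) (nat_lit 4) (nat_lit 107) (nat_lit 5) (nat_lit 107) (nat_lit 4) (nat_lit 476) (nat_lit 327) (nat_lit 217)) (XT.lf (nat_lit 0) (nat_lit 212495973433) (nat_lit 76) (nat_lit 7816457920) (nat_lit 76) (nat_lit 4702022588) (nat_lit 106) (nat_lit 4) (nat_lit 107) (nat_lit 5) (nat_lit 107) (nat_lit 4) (nat_lit 477) (nat_lit 327) (nat_lit 216))) (XT.nd (nat_lit 78) (nat_lit 76) (nat_lit 0) (XT.lf (nat_lit 0) (nat_lit 72784521147) (nat_lit 152) (nat_lit 89781118408) (nat_lit 0) (nat_lit 69817761456) (nat_lit 104) (nat_lit 5) (nat_lit 106) (nat_lit 4) (nat_lit 104) (nat_lit 4) (nat_lit 478) (nat_lit 327) (nat_lit 215)) (XT.lf (nat_lit 0) (nat_lit 67695986168)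 (nat_lit 76) (nat_lit 87659943884) (nat_lit 76) (nat_lit 84692583429) (nat_lit 103) (nat_lit 4) (nat_lit 104) (nat_lit 5) (nat_lit 104) (nat_lit 4) (nat_lit 479) (nat_lit 327) (nat_lit 214)))) (XT.nd (nat_lit 156) (nat_lit 76) (nat_lit 0) (XT.nd (nat_lit 78) (nat_lit 152) (nat_lit 0) (XT.lf (nat_lit 0) (nat_lit 236099486559) (nat_lit 76) (nat_lit 7445438424) (nat_lit 76) (nat_lit 4477505812) (nat_lit 103) (nat_lit 4) (nat_lit 104) (nat_lit 5) (nat_lit 104) (nat_lit 4) (nat_lit 480) (nat_lit 327) (nat_lit 213)) (XT.lf (nat_lit 0) (nat_lit 80928678445) (nat_lit 152) (nat_lit 97115913931) (nat_lit 0) (nat_lit 78101556993) (nat_lit 101) (nat_lit 5) (nat_lit 103) (nat_lit 4) (nat_lit 101) (nat_lit 4) (nat_lit 481) (nat_lit 327) (nat_lit 212))) (XT.nd (nat_lit 78) (nat_lit 0) (nat_lit 0) (XT.lf (nat_lit 0) (nat_lit 76465254668) (nat_lit 76) (nat_lit 95480105856) (nat_lit 76) (nat_lit 92652490154) (nat_lit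 100) (nat_lit 4) (nat_lit 101) (nat_lit 5) (nat_lit 101) (nat_lit 4) (nat_lit 482) (nat_lit 327) (nat_lit 211)) (XT.lf (nat_lit 0) (nat_lit 262035736631) (nat_lit 76) (nat_lit 7091875045) (nat_lit 76) (nat_lit 4263788628) (nat_lit 100) (nat_lit 4) (nat_lit 101) (nat_lit 5) (nat_lit 101) (nat_lit 4) (nat_lit 483) (nat_lit 327) (nat_lit 210))))) (XT.nd (nat_lit 312) (nat_lit 304) (nat_lit 0) (XT.nd (nat_lit 156) (nat_lit 152) (nat_lit 0) (XT.nd (nat_lit 78) (nat_lit 76) (nat_lit 0) (XT.lf (nat_lit 0) (nat_lit 89874902548) (nat_lit 152) (nat_lit 105291317298) (nat_lit 0) (nat_lit 87181059961) (nat_lit 98) (nat_lit 5) (nat_lit 100) (nat_lit 4) (nat_lit 98) (nat_lit 4) (nat_lit 484) (nat_lit 327) (nat_lit 209)) (XT.lf (nat_lit 0) (nat_lit 86046357523) (nat_lit 76) (nat_lit 104157021481) (nat_lit 76) (nat_lit 101462772272) (nat_lit 97) (nat_lit 4) (nat_lit 98) (nat_lit 5) (nat_lit 98) (nat_lit 4) (nat_lit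 485) (nat_lit 327) (nat_lit 208))) (XT.nd (nat_lit 78) (nat_lit 152) (nat_lit 0) (XT.lf (nat_lit 0) (nat_lit 290547923792) (nat_lit 76) (nat_lit 6754974034) (nat_lit 76) (nat_lit 4060337567) (nat_lit 97) (nat_lit 4) (nat_lit 98) (nat_lit 5) (nat_lit 98) (nat_lit 4) (nat_lit 486) (nat_lit 327) (nat_lit 207)) (XT.lf (nat_lit 0) (nat_lit 99706989502) (nat_lit 152) (nat_lit 114389289263) (nat_lit 0) (nat_lit 97140317802) (nat_lit 95) (nat_lit 5) (nat_lit 97) (nat_lit 4) (nat_lit 95) (nat_lit 4) (nat_lit 487) (nat_lit 327) (nat_lit 206)))) (XT.nd (nat_lit 156) (nat_lit 228) (nat_lit 0) (XT.nd (nat_lit 78) (nat_lit 0) (nat_lit 0) (XT.lf (nat_lit 0) (nat_lit 96526625178) (nat_lit 76) (nat_lit 113775931167) (nat_lit 76) (nat_lit 111208924939) (nat_lit 94) (nat_lit 4) (nat_lit 95) (nat_lit 5) (nat_lit 95) (nat_lit 4) (nat_lit 488) (nat_lit 327) (nat_lit 205)) (XT.lf (nat_lit 0) (nat_lit 321903986590) (nat_lit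 76) (nat_lit 6433972792) (nat_lit 76) (nat_lit 3866647965) (nat_lit 94) (nat_lit 4) (nat_lit 95) (nat_lit 5) (nat_lit 95) (nat_lit 4) (nat_lit 489) (nat_lit 327) (nat_lit 204))) (XT.nd (nat_lit 78) (nat_lit 76) (nat_lit 0) (XT.lf (nat_lit 0) (nat_lit 110517244288) (nat_lit 152) (nat_lit 124500386917) (nat_lit 0) (nat_lit 108071884046) (nat_lit 92) (nat_lit 5) (nat_lit 94) (nat_lit 4) (nat_lit 92) (nat_lit 4) (nat_lit 490) (nat_lit 327) (nat_lit 203)) (XT.lf (nat_lit 0) (nat_lit 108002148022) (nat_lit 76) (nat_lit 124430926110) (nat_lit 76) (nat_lit 121985290651) (nat_lit 91) (nat_lit 4) (nat_lit 92) (nat_lit 5) (nat_lit 92) (nat_lit 4) (nat_lit 491) (nat_lit 327) (nat_lit 202)))))))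
noncomputable def xc92 : XT := (XT.nd (nat_lit 44148) (nat_lit 0) (nat_lit 8132) (XT.nd (nat_lit 43524) (nat_lit 0) (nat_lit 10412) (XT.nd (nat_lit 43212) (nat_lit 0) (nat_lit 11856) (XT.nd (nat_lit 156) (nat_lit 76) (nat_lit 0) (XT.nd (nat_lit 78) (nat_lit 152) (nat_lit 0) (XT.lf (nat_lit 0) (nat_lit 356399145743) (nat_lit 76) (nat_lit 6128139564) (nat_lit 76) (nat_lit 3682241993) (nat_lit 91) (nat_lit 4) (nat_lit 92) (nat_lit 5) (nat_lit 92) (nat_lit 4) (nat_lit 492) (nat_lit 327) (nat_lit 201)) (XT.lf (nat_lit 0) (nat_lit 122407357647) (nat_lit 152) (nat_lit 135724636342) (nat_lit 0) (nat_lit 120077693646) (nat_lit 89) (nat_lit 5) (nat_lit 91) (nat_lit 4) (nat_lit 89) (nat_lit 4) (nat_lit 493) (nat_lit 327) (nat_lit 200))) (XT.nd (nat_lit 42978) (nat_lit 0) (nat_lit 13072) (XT.lf (nat_lit 0) (nat_lit 120578682574) (nat_lit 76) (nat_lit 136225851691) (nat_lit 76) (nat_lit 133895961268) (nat_lit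 88) (nat_lit 4) (nat_lit 89) (nat_lit 5) (nat_lit 89) (nat_lit 4) (nat_lit 494) (nat_lit 327) (nat_lit 199)) (XT.lf (nat_lit 0) (nat_lit 1427786009) (nat_lit 380) (nat_lit 1195827294) (nat_lit 0) (nat_lit 1427786009) (nat_lit 260) (nat_lit 5) (nat_lit 265) (nat_lit 4) (nat_lit 260) (nat_lit 4) (nat_lit 364) (nat_lit 328) (nat_lit 328)))) (XT.nd (nat_lit 156) (nat_lit 608) (nat_lit 0) (XT.nd (nat_lit 78) (nat_lit 304) (nat_lit 0) (XT.lf (nat_lit 0) (nat_lit 4619624723) (nat_lit 304) (nat_lit 2391601033) (nat_lit 304) (nat_lit 1235366745) (nat_lit 256) (nat_lit 4) (nat_lit 260) (nat_lit 5) (nat_lit 260) (nat_lit 4) (nat_lit 365) (nat_lit 328) (nat_lit 327)) (XT.lf (nat_lit 0) (nat_lit 2819845786) (nat_lit 304) (nat_lit 4908572309) (nat_lit 0) (nat_lit 669931690) (nat_lit 252) (nat_lit 5) (nat_lit 256) (nat_lit 4) (nat_lit 252) (nat_lit 4) (nat_lit 366) (nat_lit 328) (nat_lit 326))) (XT.nd (nat_lit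 78) (nat_lit 304) (nat_lit 0) (XT.lf (nat_lit 0) (nat_lit 2310976078) (nat_lit 304) (nat_lit 4697895282) (nat_lit 304) (nat_lit 1549182536) (nat_lit 248) (nat_lit 4) (nat_lit 252) (nat_lit 5) (nat_lit 252) (nat_lit 4) (nat_lit 367) (nat_lit 328) (nat_lit 325)) (XT.lf (nat_lit 0) (nat_lit 1094346504) (nat_lit 228) (nat_lit 1439456451) (nat_lit 304) (nat_lit 6192945584) (nat_lit 244) (nat_lit 5) (nat_lit 247) (nat_lit 5) (nat_lit 248) (nat_lit 4) (nat_lit 368) (nat_lit 328) (nat_lit 324))))) (XT.nd (nat_lit 312) (nat_lit 608) (nat_lit 0) (XT.nd (nat_lit 156) (nat_lit 532) (nat_lit 0) (XT.nd (nat_lit 78) (nat_lit 304) (nat_lit 0) (XT.lf (nat_lit 0) (nat_lit 6746770272) (nat_lit 304) (nat_lit 177686481) (nat_lit 0) (nat_lit 1979256581) (nat_lit 244) (nat_lit 5) (nat_lit 248) (nat_lit 4) (nat_lit 244) (nat_lit 4) (nat_lit 369) (nat_lit 328) (nat_lit 323)) (XT.lf (nat_lit 0) (nat_lit 2004063952) (nat_lit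 304) (nat_lit 1480896709) (nat_lit 76) (nat_lit 5603451058) (nat_lit 240) (nat_lit 5) (nat_lit 244) (nat_lit 5) (nat_lit 241) (nat_lit 4) (nat_lit 370) (nat_lit 328) (nat_lit 322))) (XT.nd (nat_lit 78) (nat_lit 304) (nat_lit 0) (XT.lf (nat_lit 0) (nat_lit 6255740488) (nat_lit 304) (nat_lit 2839733772) (nat_lit 0) (nat_lit 187347450) (nat_lit 237) (nat_lit 5) (nat_lit 241) (nat_lit 4) (nat_lit 237) (nat_lit 4) (nat_lit 371) (nat_lit 328) (nat_lit 321)) (XT.lf (nat_lit 0) (nat_lit 1208537688) (nat_lit 304) (nat_lit 4300718329) (nat_lit 76) (nat_lit 3975985899) (nat_lit 233) (nat_lit 5) (nat_lit 237) (nat_lit 5) (nat_lit 234) (nat_lit 4) (nat_lit 372) (nat_lit 328) (nat_lit 320)))) (XT.nd (nat_lit 156) (nat_lit 152) (nat_lit 0) (XT.nd (nat_lit 78) (nat_lit 304) (nat_lit 0) (XT.lf (nat_lit 0) (nat_lit 3851893668) (nat_lit 152) (nat_lit 1663296820) (nat_lit 228) (nat_lit 4182062297) (nat_lit 231) (nat_lit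 5) (nat_lit 233) (nat_lit 5) (nat_lit 234) (nat_lit 4) (nat_lit 373) (nat_lit 328) (nat_lit 319)) (XT.lf (nat_lit 0) (nat_lit 117033422) (nat_lit 304) (nat_lit 7472539911) (nat_lit 76) (nat_lit 2330025465) (nat_lit 227) (nat_lit 5) (nat_lit 231) (nat_lit 5) (nat_lit 228) (nat_lit 4) (nat_lit 374) (nat_lit 328) (nat_lit 318))) (XT.nd (nat_lit 78) (nat_lit 0) (nat_lit 0) (XT.lf (nat_lit 0) (nat_lit 903103381) (nat_lit 152) (nat_lit 3584476469) (nat_lit 228) (nat_lit 5662202310) (nat_lit 225) (nat_lit 5) (nat_lit 227) (nat_lit 5) (nat_lit 228) (nat_lit 4) (nat_lit 375) (nat_lit 328) (nat_lit 317)) (XT.lf (nat_lit 0) (nat_lit 9071854142) (nat_lit 228) (nat_lit 679057591) (nat_lit 0) (nat_lit 640802928) (nat_lit 225) (nat_lit 5) (nat_lit 228) (nat_lit 4) (nat_lit 225) (nat_lit 4) (nat_lit 376) (nat_lit 328) (nat_lit 316)))))) (XT.nd (nat_lit 624) (nat_lit 988) (nat_lit 0) (XT.nd (nat_lit 312) (nat_lit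 532) (nat_lit 0) (XT.nd (nat_lit 156) (nat_lit 380) (nat_lit 0) (XT.nd (nat_lit 78) (nat_lit 152) (nat_lit 0) (XT.lf (nat_lit 0) (nat_lit 3188745157) (nat_lit 228) (nat_lit 2398584831) (nat_lit 76) (nat_lit 5053243132) (nat_lit 222) (nat_lit 5) (nat_lit 225) (nat_lit 5) (nat_lit 223) (nat_lit 4) (nat_lit 377) (nat_lit 328) (nat_lit 315)) (XT.lf (nat_lit 0) (nat_lit 6695305999) (nat_lit 152) (nat_lit 1163844064) (nat_lit 228) (nat_lit 3042606339) (nat_lit 220) (nat_lit 5) (nat_lit 222) (nat_lit 5) (nat_lit 223) (nat_lit 4) (nat_lit 378) (nat_lit 328) (nat_lit 314))) (XT.nd (nat_lit 78) (nat_lit 152) (nat_lit 0) (XT.lf (nat_lit 0) (nat_lit 1577094285) (nat_lit 228) (nat_lit 6170302240) (nat_lit 76) (nat_lit 3425322675) (nat_lit 217) (nat_lit 5) (nat_lit 220) (nat_lit 5) (nat_lit 218) (nat_lit 4) (nat_lit 379) (nat_lit 328) (nat_lit 313)) (XT.lf (nat_lit 0) (nat_lit 3164535995) (nat_lit 152) (nat_lit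 3168587414) (nat_lit 228) (nat_lit 5121233039) (nat_lit 215) (nat_lit 5) (nat_lit 217) (nat_lit 5) (nat_lit 218) (nat_lit 4) (nat_lit 380) (nat_lit 328) (nat_lit 312)))) (XT.nd (nat_lit 156) (nat_lit 304) (nat_lit 0) (XT.nd (nat_lit 78) (nat_lit 76) (nat_lit 0) (XT.lf (nat_lit 0) (nat_lit 1215051135) (nat_lit 152) (nat_lit 10130674139) (nat_lit 152) (nat_lit 403411722) (nat_lit 213) (nat_lit 4) (nat_lit 215) (nat_lit 5) (nat_lit 215) (nat_lit 4) (nat_lit 381) (nat_lit 328) (nat_lit 311)) (XT.lf (nat_lit 0) (nat_lit 4467901619) (nat_lit 228) (nat_lit 926575245) (nat_lit 76) (nat_lit 6657465607) (nat_lit 212) (nat_lit 5) (nat_lit 215) (nat_lit 5) (nat_lit 213) (nat_lit 4) (nat_lit 382) (nat_lit 328) (nat_lit 310))) (XT.nd (nat_lit 78) (nat_lit 228) (nat_lit 0) (XT.lf (nat_lit 0) (nat_lit 9228525253) (nat_lit 76) (nat_lit 359639629) (nat_lit 152) (nat_lit 2780445598) (nat_lit 211) (nat_lit 5) (nat_lit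 212) (nat_lit 5) (nat_lit 213) (nat_lit 4) (nat_lit 383) (nat_lit 328) (nat_lit 309)) (XT.lf (nat_lit 0) (nat_lit 2272673882) (nat_lit 228) (nat_lit 5581392766) (nat_lit 76) (nat_lit 4841189138) (nat_lit 208) (nat_lit 5) (nat_lit 211) (nat_lit 5) (nat_lit 209) (nat_lit 4) (nat_lit 384) (nat_lit 328) (nat_lit 308))))) (XT.nd (nat_lit 312) (nat_lit 608) (nat_lit 0) (XT.nd (nat_lit 156) (nat_lit 152) (nat_lit 0) (XT.nd (nat_lit 78) (nat_lit 152) (nat_lit 0) (XT.lf (nat_lit 0) (nat_lit 4833189398) (nat_lit 76) (nat_lit 2663645545) (nat_lit 152) (nat_lit 5538528021) (nat_lit 207) (nat_lit 5) (nat_lit 208) (nat_lit 5) (nat_lit 209) (nat_lit 4) (nat_lit 385) (nat_lit 328) (nat_lit 307)) (XT.lf (nat_lit 0) (nat_lit 2381674979) (nat_lit 152) (nat_lit 10654631092) (nat_lit 152) (nat_lit 353464328) (nat_lit 205) (nat_lit 4) (nat_lit 207) (nat_lit 5) (nat_lit 207) (nat_lit 4) (nat_lit 386) (nat_lit 328) (nat_lit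 306))) (XT.nd (nat_lit 78) (nat_lit 76) (nat_lit 0) (XT.lf (nat_lit 0) (nat_lit 4990535216) (nat_lit 228) (nat_lit 325356751) (nat_lit 76) (nat_lit 8438901028) (nat_lit 204) (nat_lit 5) (nat_lit 207) (nat_lit 5) (nat_lit 205) (nat_lit 4) (nat_lit 387) (nat_lit 328) (nat_lit 305)) (XT.lf (nat_lit 0) (nat_lit 10651496379) (nat_lit 152) (nat_lit 3116091176) (nat_lit 0) (nat_lit 367107424) (nat_lit 203) (nat_lit 5) (nat_lit 205) (nat_lit 4) (nat_lit 203) (nat_lit 4) (nat_lit 388) (nat_lit 328) (nat_lit 304)))) (XT.nd (nat_lit 156) (nat_lit 304) (nat_lit 0) (XT.nd (nat_lit 78) (nat_lit 76) (nat_lit 0) (XT.lf (nat_lit 0) (nat_lit 2105524117) (nat_lit 228) (nat_lit 6188159260) (nat_lit 76) (nat_lit 6232818836) (nat_lit 200) (nat_lit 5) (nat_lit 203) (nat_lit 5) (nat_lit 201) (nat_lit 4) (nat_lit 389) (nat_lit 328) (nat_lit 303)) (XT.lf (nat_lit 0) (nat_lit 5439681384) (nat_lit 76) (nat_lit 2440210873)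 (nat_lit 152) (nat_lit 7053989092) (nat_lit 199) (nat_lit 5) (nat_lit 200) (nat_lit 5) (nat_lit 201) (nat_lit 4) (nat_lit 390) (nat_lit 328) (nat_lit 302))) (XT.nd (nat_lit 78) (nat_lit 152) (nat_lit 0) (XT.lf (nat_lit 0) (nat_lit 2306062005) (nat_lit 152) (nat_lit 11722654639) (nat_lit 152) (nat_lit 1328625907) (nat_lit 197) (nat_lit 4) (nat_lit 199) (nat_lit 5) (nat_lit 199) (nat_lit 4) (nat_lit 391) (nat_lit 328) (nat_lit 301)) (XT.nd (nat_lit 78) (nat_lit 76) (nat_lit 0) (XT.lf (nat_lit 0) (nat_lit 4622208705) (nat_lit 228) (nat_lit 1099573377) (nat_lit 76) (nat_lit 10072084554) (nat_lit 196) (nat_lit 5) (nat_lit 199) (nat_lit 5) (nat_lit 197) (nat_lit 4) (nat_lit 392) (nat_lit 328) (nat_lit 300)) (XT.lf (nat_lit 0) (nat_lit 10908902951) (nat_lit 152) (nat_lit 4664936626) (nat_lit 0) (nat_lit 673139888) (nat_lit 195) (nat_lit 5) (nat_lit 197) (nat_lit 4) (nat_lit 195) (nat_lit 4) (nat_lit 393)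 (nat_lit 328) (nat_lit 299))))))))
noncomputable def xc93 : XT := (XT.nd (nat_lit 2496) (nat_lit 2356) (nat_lit 0) (XT.nd (nat_lit 1248) (nat_lit 1368) (nat_lit 0) (XT.nd (nat_lit 624) (nat_lit 684) (nat_lit 0) (XT.nd (nat_lit 312) (nat_lit 304) (nat_lit 0) (XT.nd (nat_lit 156) (nat_lit 152) (nat_lit 0) (XT.nd (nat_lit 78) (nat_lit 76) (nat_lit 0) (XT.lf (nat_lit 0) (nat_lit 896167630) (nat_lit 228) (nat_lit 8555036647) (nat_lit 76) (nat_lit 7264220228) (nat_lit 192) (nat_lit 5) (nat_lit 195) (nat_lit 5) (nat_lit 193) (nat_lit 4) (nat_lit 394) (nat_lit 328) (nat_lit 298)) (XT.lf (nat_lit 0) (nat_lit 4432302459) (nat_lit 76) (nat_lit 2871820241) (nat_lit 152) (nat_lit 9896723970) (nat_lit 191) (nat_lit 5) (nat_lit 192) (nat_lit 5) (nat_lit 193) (nat_lit 4) (nat_lit 395) (nat_lit 328) (nat_lit 297))) (XT.nd (nat_lit 78) (nat_lit 76) (nat_lit 0) (XT.lf (nat_lit 0) (nat_lit 403427021) (nat_lit 76)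 (nat_lit 13737987331) (nat_lit 76) (nat_lit 3563678651) (nat_lit 190) (nat_lit 4) (nat_lit 191) (nat_lit 5) (nat_lit 191) (nat_lit 4) (nat_lit 396) (nat_lit 328) (nat_lit 296)) (XT.lf (nat_lit 0) (nat_lit 3146688505) (nat_lit 152) (nat_lit 3852282082) (nat_lit 76) (nat_lit 11225199921) (nat_lit 189) (nat_lit 5) (nat_lit 191) (nat_lit 5) (nat_lit 190) (nat_lit 4) (nat_lit 397) (nat_lit 328) (nat_lit 295)))) (XT.nd (nat_lit 156) (nat_lit 152) (nat_lit 0) (XT.nd (nat_lit 78) (nat_lit 76) (nat_lit 0) (XT.lf (nat_lit 0) (nat_lit 10135344890) (nat_lit 152) (nat_lit 8421560092) (nat_lit 0) (nat_lit 206249167) (nat_lit 188) (nat_lit 5) (nat_lit 190) (nat_lit 4) (nat_lit 188) (nat_lit 4) (nat_lit 398) (nat_lit 328) (nat_lit 294)) (XT.lf (nat_lit 0) (nat_lit 5929502585) (nat_lit 76) (nat_lit 11715629019) (nat_lit 76) (nat_lit 1675370493) (nat_lit 187) (nat_lit 4) (nat_lit 188) (nat_lit 5) (nat_lit 188) (nat_lit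 4) (nat_lit 399) (nat_lit 328) (nat_lit 293))) (XT.nd (nat_lit 78) (nat_lit 0) (nat_lit 0) (XT.lf (nat_lit 0) (nat_lit 1140527123) (nat_lit 76) (nat_lit 4365158235) (nat_lit 152) (nat_lit 14392590207) (nat_lit 185) (nat_lit 5) (nat_lit 186) (nat_lit 5) (nat_lit 187) (nat_lit 4) (nat_lit 400) (nat_lit 328) (nat_lit 292)) (XT.lf (nat_lit 0) (nat_lit 13170921584) (nat_lit 152) (nat_lit 3911655259) (nat_lit 0) (nat_lit 3411916058) (nat_lit 185) (nat_lit 5) (nat_lit 187) (nat_lit 4) (nat_lit 185) (nat_lit 4) (nat_lit 401) (nat_lit 328) (nat_lit 291))))) (XT.nd (nat_lit 312) (nat_lit 304) (nat_lit 0) (XT.nd (nat_lit 156) (nat_lit 152) (nat_lit 0) (XT.nd (nat_lit 78) (nat_lit 76) (nat_lit 0) (XT.lf (nat_lit 0) (nat_lit 257451834) (nat_lit 152) (nat_lit 9322683177) (nat_lit 76) (nat_lit 11532222954) (nat_lit 183) (nat_lit 5) (nat_lit 185) (nat_lit 5) (nat_lit 184) (nat_lit 4) (nat_lit 402) (nat_lit 328)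 (nat_lit 290)) (XT.lf (nat_lit 0) (nat_lit 6553916005) (nat_lit 76) (nat_lit 1490705657) (nat_lit 152) (nat_lit 13706830917) (nat_lit 182) (nat_lit 5) (nat_lit 183) (nat_lit 5) (nat_lit 184) (nat_lit 4) (nat_lit 403) (nat_lit 328) (nat_lit 289))) (XT.nd (nat_lit 78) (nat_lit 76) (nat_lit 0) (XT.lf (nat_lit 0) (nat_lit 859946829) (nat_lit 76) (nat_lit 15548272154) (nat_lit 76) (nat_lit 6004929489) (nat_lit 181) (nat_lit 4) (nat_lit 182) (nat_lit 5) (nat_lit 182) (nat_lit 4) (nat_lit 404) (nat_lit 328) (nat_lit 288)) (XT.lf (nat_lit 0) (nat_lit 2205419931) (nat_lit 152) (nat_lit 5097471165) (nat_lit 76) (nat_lit 15793913117) (nat_lit 180) (nat_lit 5) (nat_lit 182) (nat_lit 5) (nat_lit 181) (nat_lit 4) (nat_lit 405) (nat_lit 328) (nat_lit 287)))) (XT.nd (nat_lit 156) (nat_lit 152) (nat_lit 0) (XT.nd (nat_lit 78) (nat_lit 76) (nat_lit 0) (XT.lf (nat_lit 0) (nat_lit 10749515088) (nat_lit 152) (nat_lit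 11533237456) (nat_lit 0) (nat_lit 1520716460) (nat_lit 179) (nat_lit 5) (nat_lit 181) (nat_lit 4) (nat_lit 179) (nat_lit 4) (nat_lit 406) (nat_lit 328) (nat_lit 286)) (XT.lf (nat_lit 0) (nat_lit 6033732881) (nat_lit 76) (nat_lit 13897503158) (nat_lit 76) (nat_lit 4603709942) (nat_lit 178) (nat_lit 4) (nat_lit 179) (nat_lit 5) (nat_lit 179) (nat_lit 4) (nat_lit 407) (nat_lit 328) (nat_lit 285))) (XT.nd (nat_lit 78) (nat_lit 76) (nat_lit 0) (XT.lf (nat_lit 0) (nat_lit 4239791718) (nat_lit 152) (nat_lit 664119801) (nat_lit 76) (nat_lit 20390383619) (nat_lit 177) (nat_lit 5) (nat_lit 179) (nat_lit 5) (nat_lit 178) (nat_lit 4) (nat_lit 408) (nat_lit 328) (nat_lit 284)) (XT.lf (nat_lit 0) (nat_lit 13646822559) (nat_lit 152) (nat_lit 7746718068) (nat_lit 0) (nat_lit 4680494146) (nat_lit 176) (nat_lit 5) (nat_lit 178) (nat_lit 4) (nat_lit 176) (nat_lit 4) (nat_lit 409) (nat_lit 328) (nat_lit 283))))))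 (XT.nd (nat_lit 624) (nat_lit 684) (nat_lit 0) (XT.nd (nat_lit 312) (nat_lit 380) (nat_lit 0) (XT.nd (nat_lit 156) (nat_lit 76) (nat_lit 0) (XT.nd (nat_lit 78) (nat_lit 152) (nat_lit 0) (XT.lf (nat_lit 0) (nat_lit 11515076566) (nat_lit 76) (nat_lit 12194117494) (nat_lit 76) (nat_lit 3174317873) (nat_lit 175) (nat_lit 4) (nat_lit 176) (nat_lit 5) (nat_lit 176) (nat_lit 4) (nat_lit 410) (nat_lit 328) (nat_lit 282)) (XT.lf (nat_lit 0) (nat_lit 4138000864) (nat_lit 76) (nat_lit 2305279840) (nat_lit 152) (nat_lit 21279504935) (nat_lit 173) (nat_lit 5) (nat_lit 174) (nat_lit 5) (nat_lit 175) (nat_lit 4) (nat_lit 411) (nat_lit 328) (nat_lit 281))) (XT.nd (nat_lit 78) (nat_lit 76) (nat_lit 0) (XT.lf (nat_lit 0) (nat_lit 16739367796) (nat_lit 152) (nat_lit 3792446973) (nat_lit 0) (nat_lit 8054392039) (nat_lit 173) (nat_lit 5) (nat_lit 175) (nat_lit 4) (nat_lit 173) (nat_lit 4) (nat_lit 412) (nat_lit 328)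 (nat_lit 280)) (XT.lf (nat_lit 0) (nat_lit 17342667186) (nat_lit 76) (nat_lit 10433891758) (nat_lit 76) (nat_lit 1704925105) (nat_lit 172) (nat_lit 4) (nat_lit 173) (nat_lit 5) (nat_lit 173) (nat_lit 4) (nat_lit 413) (nat_lit 328) (nat_lit 279)))) (XT.nd (nat_lit 156) (nat_lit 152) (nat_lit 0) (XT.nd (nat_lit 78) (nat_lit 76) (nat_lit 0) (XT.lf (nat_lit 0) (nat_lit 8792231808) (nat_lit 152) (nat_lit 21176561345) (nat_lit 0) (nat_lit 439029194) (nat_lit 170) (nat_lit 5) (nat_lit 172) (nat_lit 4) (nat_lit 170) (nat_lit 4) (nat_lit 414) (nat_lit 328) (nat_lit 278)) (XT.lf (nat_lit 0) (nat_lit 366102799) (nat_lit 76) (nat_lit 19694499141) (nat_lit 76) (nat_lit 11303295538) (nat_lit 169) (nat_lit 4) (nat_lit 170) (nat_lit 5) (nat_lit 170) (nat_lit 4) (nat_lit 415) (nat_lit 328) (nat_lit 277))) (XT.nd (nat_lit 78) (nat_lit 152) (nat_lit 0) (XT.lf (nat_lit 0) (nat_lit 23559428913) (nat_lit 76) (nat_lit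 8610922224) (nat_lit 76) (nat_lit 183527202) (nat_lit 169) (nat_lit 4) (nat_lit 170) (nat_lit 5) (nat_lit 170) (nat_lit 4) (nat_lit 416) (nat_lit 328) (nat_lit 276)) (XT.lf (nat_lit 0) (nat_lit 11327797000) (nat_lit 152) (nat_lit 18777540600) (nat_lit 0) (nat_lit 3268879819) (nat_lit 167) (nat_lit 5) (nat_lit 169) (nat_lit 4) (nat_lit 167) (nat_lit 4) (nat_lit 417) (nat_lit 328) (nat_lit 275))))) (XT.nd (nat_lit 312) (nat_lit 380) (nat_lit 0) (XT.nd (nat_lit 156) (nat_lit 152) (nat_lit 0) (XT.nd (nat_lit 78) (nat_lit 76) (nat_lit 0) (XT.lf (nat_lit 0) (nat_lit 4877385470) (nat_lit 76) (nat_lit 18821841439) (nat_lit 76) (nat_lit 10731660750) (nat_lit 166) (nat_lit 4) (nat_lit 167) (nat_lit 5) (nat_lit 167) (nat_lit 4) (nat_lit 418) (nat_lit 328) (nat_lit 274)) (XT.lf (nat_lit 0) (nat_lit 1357351971) (nat_lit 152) (nat_lit 5337383917) (nat_lit 76) (nat_lit 28832494445) (nat_lit 165) (nat_lit 5) (nat_lit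 167) (nat_lit 5) (nat_lit 166) (nat_lit 4) (nat_lit 419) (nat_lit 328) (nat_lit 273))) (XT.nd (nat_lit 78) (nat_lit 76) (nat_lit 0) (XT.lf (nat_lit 0) (nat_lit 14035937394) (nat_lit 152) (nat_lit 16340727604) (nat_lit 0) (nat_lit 6275639887) (nat_lit 164) (nat_lit 5) (nat_lit 166) (nat_lit 4) (nat_lit 164) (nat_lit 4) (nat_lit 420) (nat_lit 328) (nat_lit 272)) (XT.lf (nat_lit 0) (nat_lit 9647378936) (nat_lit 76) (nat_lit 17979183395) (nat_lit 76) (nat_lit 10193165322) (nat_lit 163) (nat_lit 4) (nat_lit 164) (nat_lit 5) (nat_lit 164) (nat_lit 4) (nat_lit 421) (nat_lit 328) (nat_lit 271)))) (XT.nd (nat_lit 156) (nat_lit 228) (nat_lit 0) (XT.nd (nat_lit 78) (nat_lit 76) (nat_lit 0) (XT.lf (nat_lit 0) (nat_lit 2967121677) (nat_lit 152) (nat_lit 1727914412) (nat_lit 76) (nat_lit 34337900670) (nat_lit 162) (nat_lit 5) (nat_lit 164) (nat_lit 5) (nat_lit 163) (nat_lit 4) (nat_lit 422) (nat_lit 328) (nat_lit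 270)) (XT.lf (nat_lit 0) (nat_lit 16940183229) (nat_lit 152) (nat_lit 13854021950) (nat_lit 0) (nat_lit 9479380218) (nat_lit 161) (nat_lit 5) (nat_lit 163) (nat_lit 4) (nat_lit 161) (nat_lit 4) (nat_lit 423) (nat_lit 328) (nat_lit 269))) (XT.nd (nat_lit 78) (nat_lit 152) (nat_lit 0) (XT.lf (nat_lit 0) (nat_lit 14710644820) (nat_lit 76) (nat_lit 17167145210) (nat_lit 76) (nat_lit 9685181826) (nat_lit 160) (nat_lit 4) (nat_lit 161) (nat_lit 5) (nat_lit 161) (nat_lit 4) (nat_lit 424) (nat_lit 328) (nat_lit 268)) (XT.lf (nat_lit 0) (nat_lit 2128814243) (nat_lit 76) (nat_lit 2569200568) (nat_lit 152) (nat_lit 38205123972) (nat_lit 158) (nat_lit 5) (nat_lit 159) (nat_lit 5) (nat_lit 160) (nat_lit 4) (nat_lit 425) (nat_lit 328) (nat_lit 267))))))) (XT.nd (nat_lit 1248) (nat_lit 1140) (nat_lit 0) (XT.nd (nat_lit 624) (nat_lit 684) (nat_lit 0) (XT.nd (nat_lit 312) (nat_lit 304) (nat_lit 0) (XT.nd (nat_lit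 156) (nat_lit 152) (nat_lit 0) (XT.nd (nat_lit 78) (nat_lit 76) (nat_lit 0) (XT.lf (nat_lit 0) (nat_lit 20065900011) (nat_lit 152) (nat_lit 11304176263) (nat_lit 0) (nat_lit 12902748390) (nat_lit 158) (nat_lit 5) (nat_lit 160) (nat_lit 4) (nat_lit 158) (nat_lit 4) (nat_lit 426) (nat_lit 328) (nat_lit 266)) (XT.lf (nat_lit 0) (nat_lit 20105197889) (nat_lit 76) (nat_lit 16385954313) (nat_lit 76) (nat_lit 9205394000) (nat_lit 157) (nat_lit 4) (nat_lit 158) (nat_lit 5) (nat_lit 158) (nat_lit 4) (nat_lit 427) (nat_lit 328) (nat_lit 265))) (XT.nd (nat_lit 78) (nat_lit 0) (nat_lit 0) (XT.lf (nat_lit 0) (nat_lit 6254780147) (nat_lit 76) (nat_lit 307132128) (nat_lit 152) (nat_lit 40613170365) (nat_lit 155) (nat_lit 5) (nat_lit 156) (nat_lit 5) (nat_lit 157) (nat_lit 4) (nat_lit 428) (nat_lit 328) (nat_lit 264)) (XT.lf (nat_lit 0) (nat_lit 23440557002) (nat_lit 152) (nat_lit 8676727104) (nat_lit 0) (nat_lit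 16571099654) (nat_lit 155) (nat_lit 5) (nat_lit 157) (nat_lit 4) (nat_lit 155) (nat_lit 4) (nat_lit 429) (nat_lit 328) (nat_lit 263)))) (XT.nd (nat_lit 156) (nat_lit 76) (nat_lit 0) (XT.nd (nat_lit 78) (nat_lit 152) (nat_lit 0) (XT.lf (nat_lit 0) (nat_lit 25872812195) (nat_lit 76) (nat_lit 15635528463) (nat_lit 76) (nat_lit 8751748942) (nat_lit 154) (nat_lit 4) (nat_lit 155) (nat_lit 5) (nat_lit 155) (nat_lit 4) (nat_lit 430) (nat_lit 328) (nat_lit 262)) (XT.lf (nat_lit 0) (nat_lit 8578730952) (nat_lit 152) (nat_lit 41301007351) (nat_lit 0) (nat_lit 2009759823) (nat_lit 152) (nat_lit 5) (nat_lit 154) (nat_lit 4) (nat_lit 152) (nat_lit 4) (nat_lit 431) (nat_lit 328) (nat_lit 261))) (XT.nd (nat_lit 78) (nat_lit 76) (nat_lit 0) (XT.lf (nat_lit 0) (nat_lit 27094010005) (nat_lit 152) (nat_lit 5955907099) (nat_lit 0) (nat_lit 20512666843) (nat_lit 152) (nat_lit 5) (nat_lit 154) (nat_lit 4) (nat_lit 152)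 (nat_lit 4) (nat_lit 432) (nat_lit 328) (nat_lit 260)) (XT.lf (nat_lit 0) (nat_lit 32059370113) (nat_lit 76) (nat_lit 14915543483) (nat_lit 76) (nat_lit 8322417434) (nat_lit 151) (nat_lit 4) (nat_lit 152) (nat_lit 5) (nat_lit 152) (nat_lit 4) (nat_lit 433) (nat_lit 328) (nat_lit 259))))) (XT.nd (nat_lit 312) (nat_lit 304) (nat_lit 0) (XT.nd (nat_lit 156) (nat_lit 228) (nat_lit 0) (XT.nd (nat_lit 78) (nat_lit 0) (nat_lit 0) (XT.lf (nat_lit 0) (nat_lit 10739540994) (nat_lit 152) (nat_lit 41903613755) (nat_lit 0) (nat_lit 4449685902) (nat_lit 149) (nat_lit 5) (nat_lit 151) (nat_lit 4) (nat_lit 149) (nat_lit 4) (nat_lit 434) (nat_lit 328) (nat_lit 258)) (XT.lf (nat_lit 0) (nat_lit 31058802232) (nat_lit 152) (nat_lit 3124538595) (nat_lit 0) (nat_lit 24758768638) (nat_lit 149) (nat_lit 5) (nat_lit 151) (nat_lit 4) (nat_lit 149) (nat_lit 4) (nat_lit 435) (nat_lit 328) (nat_lit 257))) (XT.nd (nat_lit 78)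 (nat_lit 152) (nat_lit 0) (XT.lf (nat_lit 0) (nat_lit 38715256475) (nat_lit 76) (nat_lit 14225488367) (nat_lit 76) (nat_lit 7915760963) (nat_lit 148) (nat_lit 4) (nat_lit 149) (nat_lit 5) (nat_lit 149) (nat_lit 4) (nat_lit 436) (nat_lit 328) (nat_lit 256)) (XT.lf (nat_lit 0) (nat_lit 13057719917) (nat_lit 152) (nat_lit 42737789213) (nat_lit 0) (nat_lit 7039663151) (nat_lit 146) (nat_lit 5) (nat_lit 148) (nat_lit 4) (nat_lit 146) (nat_lit 4) (nat_lit 437) (nat_lit 328) (nat_lit 255)))) (XT.nd (nat_lit 156) (nat_lit 228) (nat_lit 0) (XT.nd (nat_lit 78) (nat_lit 76) (nat_lit 0) (XT.lf (nat_lit 0) (nat_lit 35370486977) (nat_lit 152) (nat_lit 163908762) (nat_lit 0) (nat_lit 29344056332) (nat_lit 146) (nat_lit 5) (nat_lit 148) (nat_lit 4) (nat_lit 146) (nat_lit 4) (nat_lit 438) (nat_lit 328) (nat_lit 254)) (XT.lf (nat_lit 0) (nat_lit 45895800629) (nat_lit 76) (nat_lit 13564710037) (nat_lit 76) (nat_lit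 7530304271) (nat_lit 145) (nat_lit 4) (nat_lit 146) (nat_lit 5) (nat_lit 146) (nat_lit 4) (nat_lit 439) (nat_lit 328) (nat_lit 253))) (XT.nd (nat_lit 78) (nat_lit 76) (nat_lit 0) (XT.lf (nat_lit 0) (nat_lit 15552999078) (nat_lit 152) (nat_lit 43819731741) (nat_lit 0) (nat_lit 9798712297) (nat_lit 143) (nat_lit 5) (nat_lit 145) (nat_lit 4) (nat_lit 143) (nat_lit 4) (nat_lit 440) (nat_lit 328) (nat_lit 252)) (XT.lf (nat_lit 0) (nat_lit 3043794701) (nat_lit 76) (nat_lit 37071703356) (nat_lit 76) (nat_lit 31310527363) (nat_lit 142) (nat_lit 4) (nat_lit 143) (nat_lit 5) (nat_lit 143) (nat_lit 4) (nat_lit 441) (nat_lit 328) (nat_lit 251)))))) (XT.nd (nat_lit 624) (nat_lit 532) (nat_lit 0) (XT.nd (nat_lit 312) (nat_lit 380) (nat_lit 0) (XT.nd (nat_lit 156) (nat_lit 76) (nat_lit 0) (XT.nd (nat_lit 78) (nat_lit 152) (nat_lit 0) (XT.lf (nat_lit 0) (nat_lit 53661769878) (nat_lit 76) (nat_lit 12932449615)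 (nat_lit 76) (nat_lit 7164712471) (nat_lit 142) (nat_lit 4) (nat_lit 143) (nat_lit 5) (nat_lit 143) (nat_lit 4) (nat_lit 442) (nat_lit 328) (nat_lit 250)) (XT.lf (nat_lit 0) (nat_lit 18246863664) (nat_lit 152) (nat_lit 45167561438) (nat_lit 0) (nat_lit 12747829510) (nat_lit 140) (nat_lit 5) (nat_lit 142) (nat_lit 4) (nat_lit 140) (nat_lit 4) (nat_lit 443) (nat_lit 328) (nat_lit 249))) (XT.nd (nat_lit 78) (nat_lit 0) (nat_lit 0) (XT.lf (nat_lit 0) (nat_lit 6434488737) (nat_lit 76) (nat_lit 38859888435) (nat_lit 76) (nat_lit 33355186511) (nat_lit 139) (nat_lit 4) (nat_lit 140) (nat_lit 5) (nat_lit 140) (nat_lit 4) (nat_lit 444) (nat_lit 328) (nat_lit 248)) (XT.lf (nat_lit 0) (nat_lit 62079918361) (nat_lit 76) (nat_lit 12327871730) (nat_lit 76) (nat_lit 6817771929) (nat_lit 139) (nat_lit 4) (nat_lit 140) (nat_lit 5) (nat_lit 140) (nat_lit 4) (nat_lit 445) (nat_lit 328) (nat_lit 247)))) (XT.nd (nat_lit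 156) (nat_lit 152) (nat_lit 0) (XT.nd (nat_lit 78) (nat_lit 76) (nat_lit 0) (XT.lf (nat_lit 0) (nat_lit 21162762473) (nat_lit 152) (nat_lit 46801522258) (nat_lit 0) (nat_lit 15910152344) (nat_lit 137) (nat_lit 5) (nat_lit 139) (nat_lit 4) (nat_lit 137) (nat_lit 4) (nat_lit 446) (nat_lit 328) (nat_lit 246)) (XT.lf (nat_lit 0) (nat_lit 10027817227) (nat_lit 76) (nat_lit 40923850030) (nat_lit 76) (nat_lit 35666577012) (nat_lit 136) (nat_lit 4) (nat_lit 137) (nat_lit 5) (nat_lit 137) (nat_lit 4) (nat_lit 447) (nat_lit 328) (nat_lit 245))) (XT.nd (nat_lit 78) (nat_lit 152) (nat_lit 0) (XT.lf (nat_lit 0) (nat_lit 71223596079) (nat_lit 76) (nat_lit 11750088131) (nat_lit 76) (nat_lit 6488374266) (nat_lit 136) (nat_lit 4) (nat_lit 137) (nat_lit 5) (nat_lit 137) (nat_lit 4) (nat_lit 448) (nat_lit 328) (nat_lit 244)) (XT.lf (nat_lit 0) (nat_lit 24326334723) (nat_lit 152) (nat_lit 48744201185) (nat_lit 0)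 (nat_lit 19311150683) (nat_lit 134) (nat_lit 5) (nat_lit 136) (nat_lit 4) (nat_lit 134) (nat_lit 4) (nat_lit 449) (nat_lit 328) (nat_lit 243))))) (XT.nd (nat_lit 312) (nat_lit 228) (nat_lit 0) (XT.nd (nat_lit 156) (nat_lit 228) (nat_lit 0) (XT.nd (nat_lit 78) (nat_lit 0) (nat_lit 0) (XT.lf (nat_lit 0) (nat_lit 13851150538) (nat_lit 76) (nat_lit 43288037210) (nat_lit 76) (nat_lit 38269017000) (nat_lit 133) (nat_lit 4) (nat_lit 134) (nat_lit 5) (nat_lit 134) (nat_lit 4) (nat_lit 450) (nat_lit 328) (nat_lit 242)) (XT.lf (nat_lit 0) (nat_lit 81173423424) (nat_lit 76) (nat_lit 11198176631) (nat_lit 76) (nat_lit 6175502926) (nat_lit 133) (nat_lit 4) (nat_lit 134) (nat_lit 5) (nat_lit 134) (nat_lit 4) (nat_lit 451) (nat_lit 328) (nat_lit 241))) (XT.nd (nat_lit 78) (nat_lit 76) (nat_lit 0) (XT.lf (nat_lit 0) (nat_lit 27765656373) (nat_lit 152) (nat_lit 51020767289) (nat_lit 0) (nat_lit 22978843779) (nat_lit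 131) (nat_lit 5) (nat_lit 133) (nat_lit 4) (nat_lit 131) (nat_lit 4) (nat_lit 452) (nat_lit 328) (nat_lit 240)) (XT.lf (nat_lit 0) (nat_lit 17934403426) (nat_lit 76) (nat_lit 45979482963) (nat_lit 76) (nat_lit 41189514342) (nat_lit 130) (nat_lit 4) (nat_lit 131) (nat_lit 5) (nat_lit 131) (nat_lit 4) (nat_lit 453) (nat_lit 328) (nat_lit 239)))) (XT.nd (nat_lit 156) (nat_lit 76) (nat_lit 0) (XT.nd (nat_lit 78) (nat_lit 152) (nat_lit 0) (XT.lf (nat_lit 0) (nat_lit 92018037278) (nat_lit 76) (nat_lit 10671196243) (nat_lit 76) (nat_lit 5878221882) (nat_lit 130) (nat_lit 4) (nat_lit 131) (nat_lit 5) (nat_lit 131) (nat_lit 4) (nat_lit 454) (nat_lit 328) (nat_lit 238)) (XT.lf (nat_lit 0) (nat_lit 31511508592) (nat_lit 152) (nat_lit 53659233273) (nat_lit 0) (nat_lit 26944044811) (nat_lit 128) (nat_lit 5) (nat_lit 130) (nat_lit 4) (nat_lit 128) (nat_lit 4) (nat_lit 455) (nat_lit 328) (nat_lit 237))) (XT.nd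 (nat_lit 78) (nat_lit 0) (nat_lit 0) (XT.lf (nat_lit 0) (nat_lit 22310298831) (nat_lit 76) (nat_lit 49028083764) (nat_lit 76) (nat_lit 44458023512) (nat_lit 127) (nat_lit 4) (nat_lit 128) (nat_lit 5) (nat_lit 128) (nat_lit 4) (nat_lit 456) (nat_lit 328) (nat_lit 236)) (XT.lf (nat_lit 0) (nat_lit 103854915487) (nat_lit 76) (nat_lit 10168199193) (nat_lit 76) (nat_lit 5595666111) (nat_lit 127) (nat_lit 4) (nat_lit 128) (nat_lit 5) (nat_lit 128) (nat_lit 4) (nat_lit 457) (nat_lit 328) (nat_lit 235))))))))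
noncomputable def xc94 : XT := (XT.nd (nat_lit 1248) (nat_lit 1216) (nat_lit 0) (XT.nd (nat_lit 624) (nat_lit 608) (nat_lit 0) (XT.nd (nat_lit 312) (nat_lit 304) (nat_lit 0) (XT.nd (nat_lit 156) (nat_lit 152) (nat_lit 0) (XT.nd (nat_lit 78) (nat_lit 76) (nat_lit 0) (XT.lf (nat_lit 0) (nat_lit 35597671148) (nat_lit 152) (nat_lit 56690742274) (nat_lit 0) (nat_lit 31240634808) (nat_lit 125) (nat_lit 5) (nat_lit 127) (nat_lit 4) (nat_lit 125) (nat_lit 4) (nat_lit 458) (nat_lit 328) (nat_lit 234)) (XT.lf (nat_lit 0) (nat_lit 27014660241) (nat_lit 76) (nat_lit 52466903829) (nat_lit 76) (nat_lit 48107731366) (nat_lit 124) (nat_lit 4) (nat_lit 125) (nat_lit 5) (nat_lit 125) (nat_lit 4) (nat_lit 459) (nat_lit 328) (nat_lit 233))) (XT.nd (nat_lit 78) (nat_lit 152) (nat_lit 0) (XT.lf (nat_lit 0) (nat_lit 116791287292) (nat_lit 76) (nat_lit 9688240387) (nat_lit 76) (nat_lit 5327033521) (nat_lit 124) (nat_lit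 4) (nat_lit 125) (nat_lit 5) (nat_lit 125) (nat_lit 4) (nat_lit 460) (nat_lit 328) (nat_lit 232)) (XT.lf (nat_lit 0) (nat_lit 40061243714) (nat_lit 152) (nat_lit 60149882881) (nat_lit 0) (nat_lit 35905868102) (nat_lit 122) (nat_lit 5) (nat_lit 124) (nat_lit 4) (nat_lit 122) (nat_lit 4) (nat_lit 461) (nat_lit 328) (nat_lit 231)))) (XT.nd (nat_lit 156) (nat_lit 228) (nat_lit 0) (XT.nd (nat_lit 78) (nat_lit 0) (nat_lit 0) (XT.lf (nat_lit 0) (nat_lit 32086735186) (nat_lit 76) (nat_lit 56332507358) (nat_lit 76) (nat_lit 52175374353) (nat_lit 121) (nat_lit 4) (nat_lit 122) (nat_lit 5) (nat_lit 122) (nat_lit 4) (nat_lit 462) (nat_lit 328) (nat_lit 230)) (XT.lf (nat_lit 0) (nat_lit 130945138204) (nat_lit 76) (nat_lit 9230384816) (nat_lit 76) (nat_lit 5071578102) (nat_lit 121) (nat_lit 4) (nat_lit 122) (nat_lit 5) (nat_lit 122) (nat_lit 4) (nat_lit 463) (nat_lit 328) (nat_lit 229))) (XT.nd (nat_lit 78)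 (nat_lit 76) (nat_lit 0) (XT.lf (nat_lit 0) (nat_lit 44942998279) (nat_lit 152) (nat_lit 64075035581) (nat_lit 0) (nat_lit 40980711877) (nat_lit 119) (nat_lit 5) (nat_lit 121) (nat_lit 4) (nat_lit 119) (nat_lit 4) (nat_lit 464) (nat_lit 328) (nat_lit 228)) (XT.lf (nat_lit 0) (nat_lit 37569552748) (nat_lit 76) (nat_lit 60665322264) (nat_lit 76) (nat_lit 56701590050) (nat_lit 118) (nat_lit 4) (nat_lit 119) (nat_lit 5) (nat_lit 119) (nat_lit 4) (nat_lit 465) (nat_lit 328) (nat_lit 227))))) (XT.nd (nat_lit 312) (nat_lit 380) (nat_lit 0) (XT.nd (nat_lit 156) (nat_lit 76) (nat_lit 0) (XT.nd (nat_lit 78) (nat_lit 152) (nat_lit 0) (XT.lf (nat_lit 0) (nat_lit 146446318687) (nat_lit 76) (nat_lit 8793713263) (nat_lit 76) (nat_lit 4828604085) (nat_lit 118) (nat_lit 4) (nat_lit 119) (nat_lit 5) (nat_lit 119) (nat_lit 4) (nat_lit 466) (nat_lit 328) (nat_lit 226)) (XT.lf (nat_lit 0) (nat_lit 50287766171) (nat_lit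 152) (nat_lit 68508754078) (nat_lit 0) (nat_lit 46510222769) (nat_lit 116) (nat_lit 5) (nat_lit 118) (nat_lit 4) (nat_lit 116) (nat_lit 4) (nat_lit 467) (nat_lit 328) (nat_lit 225))) (XT.nd (nat_lit 78) (nat_lit 0) (nat_lit 0) (XT.lf (nat_lit 0) (nat_lit 43510318342) (nat_lit 76) (nat_lit 65510039124) (nat_lit 76) (nat_lit 61731306249) (nat_lit 115) (nat_lit 4) (nat_lit 116) (nat_lit 5) (nat_lit 116) (nat_lit 4) (nat_lit 468) (nat_lit 328) (nat_lit 224)) (XT.lf (nat_lit 0) (nat_lit 163437767088) (nat_lit 76) (nat_lit 8377326647) (nat_lit 76) (nat_lit 4597460940) (nat_lit 115) (nat_lit 4) (nat_lit 116) (nat_lit 5) (nat_lit 116) (nat_lit 4) (nat_lit 469) (nat_lit 328) (nat_lit 223)))) (XT.nd (nat_lit 156) (nat_lit 152) (nat_lit 0) (XT.nd (nat_lit 78) (nat_lit 76) (nat_lit 0) (XT.lf (nat_lit 0) (nat_lit 56144863454) (nat_lit 152) (nat_lit 73498185270) (nat_lit 0) (nat_lit 52543963840) (nat_lit 113)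 (nat_lit 5) (nat_lit 115) (nat_lit 4) (nat_lit 113) (nat_lit 4) (nat_lit 470) (nat_lit 328) (nat_lit 222)) (XT.lf (nat_lit 0) (nat_lit 49960849378) (nat_lit 76) (nat_lit 70916049390) (nat_lit 76) (nat_lit 67314171193) (nat_lit 112) (nat_lit 4) (nat_lit 113) (nat_lit 5) (nat_lit 113) (nat_lit 4) (nat_lit 471) (nat_lit 328) (nat_lit 221))) (XT.nd (nat_lit 78) (nat_lit 152) (nat_lit 0) (XT.lf (nat_lit 0) (nat_lit 182076858316) (nat_lit 76) (nat_lit 7980349252) (nat_lit 76) (nat_lit 4377539073) (nat_lit 112) (nat_lit 4) (nat_lit 113) (nat_lit 5) (nat_lit 113) (nat_lit 4) (nat_lit 472) (nat_lit 328) (nat_lit 220)) (XT.lf (nat_lit 0) (nat_lit 62568558849) (nat_lit 152) (nat_lit 79095532006) (nat_lit 0) (nat_lit 59136465722) (nat_lit 110) (nat_lit 5) (nat_lit 112) (nat_lit 4) (nat_lit 110) (nat_lit 4) (nat_lit 473) (nat_lit 328) (nat_lit 219)))))) (XT.nd (nat_lit 624) (nat_lit 684) (nat_lit 0) (XT.nd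 (nat_lit 312) (nat_lit 228) (nat_lit 0) (XT.nd (nat_lit 156) (nat_lit 228) (nat_lit 0) (XT.nd (nat_lit 78) (nat_lit 0) (nat_lit 0) (XT.lf (nat_lit 0) (nat_lit 56978055856) (nat_lit 76) (nat_lit 76937927223) (nat_lit 76) (nat_lit 73505029014) (nat_lit 109) (nat_lit 4) (nat_lit 110) (nat_lit 5) (nat_lit 110) (nat_lit 4) (nat_lit 474) (nat_lit 328) (nat_lit 218)) (XT.lf (nat_lit 0) (nat_lit 202536891022) (nat_lit 76) (nat_lit 7601931068) (nat_lit 76) (nat_lit 4168266114) (nat_lit 109) (nat_lit 4) (nat_lit 110) (nat_lit 5) (nat_lit 110) (nat_lit 4) (nat_lit 475) (nat_lit 328) (nat_lit 217))) (XT.nd (nat_lit 78) (nat_lit 76) (nat_lit 0) (XT.lf (nat_lit 0) (nat_lit 69618588698) (nat_lit 152) (nat_lit 85358563134) (nat_lit 0) (nat_lit 66347736138) (nat_lit 107) (nat_lit 5) (nat_lit 109) (nat_lit 4) (nat_lit 107) (nat_lit 4) (nat_lit 476) (nat_lit 328) (nat_lit 216)) (XT.lf (nat_lit 0) (nat_lit 64624470364)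 (nat_lit 76) (nat_lit 83635959703) (nat_lit 76) (nat_lit 80364444800) (nat_lit 106) (nat_lit 4) (nat_lit 107) (nat_lit 5) (nat_lit 107) (nat_lit 4) (nat_lit 477) (nat_lit 328) (nat_lit 215)))) (XT.nd (nat_lit 156) (nat_lit 76) (nat_lit 0) (XT.nd (nat_lit 78) (nat_lit 152) (nat_lit 0) (XT.lf (nat_lit 0) (nat_lit 225008727358) (nat_lit 76) (nat_lit 7241249397) (nat_lit 76) (nat_lit 3969103692) (nat_lit 106) (nat_lit 4) (nat_lit 107) (nat_lit 5) (nat_lit 107) (nat_lit 4) (nat_lit 478) (nat_lit 328) (nat_lit 214)) (XT.lf (nat_lit 0) (nat_lit 77360723928) (nat_lit 152) (nat_lit 92351175772) (nat_lit 0) (nat_lit 74243822527) (nat_lit 104) (nat_lit 5) (nat_lit 106) (nat_lit 4) (nat_lit 104) (nat_lit 4) (nat_lit 479) (nat_lit 328) (nat_lit 213))) (XT.nd (nat_lit 78) (nat_lit 0) (nat_lit 0) (XT.lf (nat_lit 0) (nat_lit 72968832444) (nat_lit 76) (nat_lit 91076730599) (nat_lit 76) (nat_lit 87959284288) (nat_lit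 103) (nat_lit 4) (nat_lit 104) (nat_lit 5) (nat_lit 104) (nat_lit 4) (nat_lit 480) (nat_lit 328) (nat_lit 212)) (XT.lf (nat_lit 0) (nat_lit 249702600855) (nat_lit 76) (nat_lit 6897509889) (nat_lit 76) (nat_lit 3779544614) (nat_lit 103) (nat_lit 4) (nat_lit 104) (nat_lit 5) (nat_lit 104) (nat_lit 4) (nat_lit 481) (nat_lit 328) (nat_lit 211))))) (XT.nd (nat_lit 312) (nat_lit 304) (nat_lit 0) (XT.nd (nat_lit 156) (nat_lit 152) (nat_lit 0) (XT.nd (nat_lit 78) (nat_lit 76) (nat_lit 0) (XT.lf (nat_lit 0) (nat_lit 85867394461) (nat_lit 152) (nat_lit 100144015265) (nat_lit 0) (nat_lit 82897433008) (nat_lit 101) (nat_lit 5) (nat_lit 103) (nat_lit 4) (nat_lit 101) (nat_lit 4) (nat_lit 482) (nat_lit 328) (nat_lit 210)) (XT.lf (nat_lit 0) (nat_lit 82086732823) (nat_lit 76) (nat_lit 99333763380) (nat_lit 76) (nat_lit 96363353627) (nat_lit 100) (nat_lit 4) (nat_lit 101) (nat_lit 5) (nat_lit 101) (nat_lit 4)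 (nat_lit 483) (nat_lit 328) (nat_lit 209))) (XT.nd (nat_lit 78) (nat_lit 152) (nat_lit 0) (XT.lf (nat_lit 0) (nat_lit 276850109579) (nat_lit 76) (nat_lit 6569947112) (nat_lit 76) (nat_lit 3599110407) (nat_lit 100) (nat_lit 4) (nat_lit 101) (nat_lit 5) (nat_lit 101) (nat_lit 4) (nat_lit 484) (nat_lit 328) (nat_lit 208)) (XT.lf (nat_lit 0) (nat_lit 95218377053) (nat_lit 152) (nat_lit 108815158771) (nat_lit 0) (nat_lit 92388621504) (nat_lit 98) (nat_lit 5) (nat_lit 100) (nat_lit 4) (nat_lit 98) (nat_lit 4) (nat_lit 485) (nat_lit 328) (nat_lit 207)))) (XT.nd (nat_lit 156) (nat_lit 228) (nat_lit 0) (XT.nd (nat_lit 78) (nat_lit 0) (nat_lit 0) (XT.lf (nat_lit 0) (nat_lit 92061323591) (nat_lit 76) (nat_lit 108488229675) (nat_lit 76) (nat_lit 105658105309) (nat_lit 97) (nat_lit 4) (nat_lit 98) (nat_lit 5) (nat_lit 98) (nat_lit 4) (nat_lit 486) (nat_lit 328) (nat_lit 206)) (XT.lf (nat_lit 0) (nat_lit 306706413497)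 (nat_lit 76) (nat_lit 6257824755) (nat_lit 76) (nat_lit 3427349134) (nat_lit 97) (nat_lit 4) (nat_lit 98) (nat_lit 5) (nat_lit 98) (nat_lit 4) (nat_lit 487) (nat_lit 328) (nat_lit 205))) (XT.nd (nat_lit 78) (nat_lit 76) (nat_lit 0) (XT.lf (nat_lit 0) (nat_lit 105501553144) (nat_lit 152) (nat_lit 118450869066) (nat_lit 0) (nat_lit 102805543478) (nat_lit 95) (nat_lit 5) (nat_lit 97) (nat_lit 4) (nat_lit 95) (nat_lit 4) (nat_lit 488) (nat_lit 328) (nat_lit 204)) (XT.lf (nat_lit 0) (nat_lit 102984101023) (nat_lit 76) (nat_lit 118629730038) (nat_lit 76) (nat_lit 115933416944) (nat_lit 94) (nat_lit 4) (nat_lit 95) (nat_lit 5) (nat_lit 95) (nat_lit 4) (nat_lit 489) (nat_lit 328) (nat_lit 203)))))))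
noncomputable def xc95 : XT := (XT.nd (nat_lit 43992) (nat_lit 0) (nat_lit 8512) (XT.nd (nat_lit 43368) (nat_lit 0) (nat_lit 10944) (XT.nd (nat_lit 312) (nat_lit 152) (nat_lit 0) (XT.nd (nat_lit 156) (nat_lit 76) (nat_lit 0) (XT.nd (nat_lit 78) (nat_lit 152) (nat_lit 0) (XT.lf (nat_lit 0) (nat_lit 339552656953) (nat_lit 76) (nat_lit 5960435538) (nat_lit 76) (nat_lit 3263833466) (nat_lit 94) (nat_lit 4) (nat_lit 95) (nat_lit 5) (nat_lit 95) (nat_lit 4) (nat_lit 490) (nat_lit 328) (nat_lit 202)) (XT.lf (nat_lit 0) (nat_lit 116813743957) (nat_lit 152) (nat_lit 129146425788) (nat_lit 0) (nat_lit 114245289397) (nat_lit 92) (nat_lit 5) (nat_lit 94) (nat_lit 4) (nat_lit 92) (nat_lit 4) (nat_lit 491) (nat_lit 328) (nat_lit 201))) (XT.nd (nat_lit 78) (nat_lit 0) (nat_lit 0) (XT.lf (nat_lit 0) (nat_lit 114955768472) (nat_lit 76) (nat_lit 129857154493) (nat_lit 76) (nat_lit 127288450302) (nat_lit 91) (nat_lit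 4) (nat_lit 92) (nat_lit 5) (nat_lit 92) (nat_lit 4) (nat_lit 492) (nat_lit 328) (nat_lit 200)) (XT.lf (nat_lit 0) (nat_lit 375698639267) (nat_lit 76) (nat_lit 5677100901) (nat_lit 76) (nat_lit 3108158967) (nat_lit 91) (nat_lit 4) (nat_lit 92) (nat_lit 5) (nat_lit 92) (nat_lit 4) (nat_lit 493) (nat_lit 328) (nat_lit 199)))) (XT.nd (nat_lit 42900) (nat_lit 0) (nat_lit 12996) (XT.nd (nat_lit 42822) (nat_lit 0) (nat_lit 13376) (XT.lf (nat_lit 0) (nat_lit 129261630830) (nat_lit 152) (nat_lit 141007042097) (nat_lit 0) (nat_lit 126814803825) (nat_lit 89) (nat_lit 5) (nat_lit 91) (nat_lit 4) (nat_lit 89) (nat_lit 4) (nat_lit 494) (nat_lit 328) (nat_lit 198)) (XT.lf (nat_lit 0) (nat_lit 58066701) (nat_lit 304) (nat_lit 1930059036) (nat_lit 304) (nat_lit 1930059036) (nat_lit 265) (nat_lit 4) (nat_lit 269) (nat_lit 5) (nat_lit 269) (nat_lit 4) (nat_lit 362) (nat_lit 329) (nat_lit 329))) (XT.nd (nat_lit 78)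 (nat_lit 304) (nat_lit 0) (XT.lf (nat_lit 0) (nat_lit 56208204) (nat_lit 380) (nat_lit 1159521483) (nat_lit 76) (nat_lit 6752904610) (nat_lit 264) (nat_lit 5) (nat_lit 269) (nat_lit 5) (nat_lit 265) (nat_lit 4) (nat_lit 363) (nat_lit 329) (nat_lit 328)) (XT.lf (nat_lit 0) (nat_lit 3986476152) (nat_lit 380) (nat_lit 2504283705) (nat_lit 0) (nat_lit 1616195862) (nat_lit 260) (nat_lit 5) (nat_lit 265) (nat_lit 4) (nat_lit 260) (nat_lit 4) (nat_lit 364) (nat_lit 329) (nat_lit 327))))) (XT.nd (nat_lit 312) (nat_lit 836) (nat_lit 0) (XT.nd (nat_lit 156) (nat_lit 608) (nat_lit 0) (XT.nd (nat_lit 78) (nat_lit 304) (nat_lit 0) (XT.lf (nat_lit 0) (nat_lit 4392459062) (nat_lit 304) (nat_lit 3666941403) (nat_lit 304) (nat_lit 195485600) (nat_lit 256) (nat_lit 4) (nat_lit 260) (nat_lit 5) (nat_lit 260) (nat_lit 4) (nat_lit 365) (nat_lit 329) (nat_lit 326)) (XT.lf (nat_lit 0) (nat_lit 3129405684) (nat_lit 228)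 (nat_lit 602106544) (nat_lit 304) (nat_lit 4679065948) (nat_lit 252) (nat_lit 5) (nat_lit 255) (nat_lit 5) (nat_lit 256) (nat_lit 4) (nat_lit 366) (nat_lit 329) (nat_lit 325))) (XT.nd (nat_lit 78) (nat_lit 304) (nat_lit 0) (XT.lf (nat_lit 0) (nat_lit 1822415642) (nat_lit 304) (nat_lit 6004369072) (nat_lit 304) (nat_lit 748185228) (nat_lit 248) (nat_lit 4) (nat_lit 252) (nat_lit 5) (nat_lit 252) (nat_lit 4) (nat_lit 367) (nat_lit 329) (nat_lit 324)) (XT.lf (nat_lit 0) (nat_lit 445118447) (nat_lit 228) (nat_lit 2777926484) (nat_lit 304) (nat_lit 5524300286) (nat_lit 244) (nat_lit 5) (nat_lit 247) (nat_lit 5) (nat_lit 248) (nat_lit 4) (nat_lit 368) (nat_lit 329) (nat_lit 323)))) (XT.nd (nat_lit 156) (nat_lit 532) (nat_lit 0) (XT.nd (nat_lit 78) (nat_lit 304) (nat_lit 0) (XT.lf (nat_lit 0) (nat_lit 7340513581) (nat_lit 304) (nat_lit 938461106) (nat_lit 0) (nat_lit 650110256) (nat_lit 244) (nat_lit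 5) (nat_lit 248) (nat_lit 4) (nat_lit 244) (nat_lit 4) (nat_lit 369) (nat_lit 329) (nat_lit 322)) (XT.lf (nat_lit 0) (nat_lit 2467812558) (nat_lit 304) (nat_lit 2413972458) (nat_lit 76) (nat_lit 4235876203) (nat_lit 240) (nat_lit 5) (nat_lit 244) (nat_lit 5) (nat_lit 241) (nat_lit 4) (nat_lit 370) (nat_lit 329) (nat_lit 321))) (XT.nd (nat_lit 78) (nat_lit 304) (nat_lit 0) (XT.lf (nat_lit 0) (nat_lit 5371659022) (nat_lit 228) (nat_lit 1257592761) (nat_lit 304) (nat_lit 2687331292) (nat_lit 237) (nat_lit 5) (nat_lit 240) (nat_lit 5) (nat_lit 241) (nat_lit 4) (nat_lit 371) (nat_lit 329) (nat_lit 320)) (XT.lf (nat_lit 0) (nat_lit 1427448007) (nat_lit 304) (nat_lit 5576717001) (nat_lit 76) (nat_lit 2520071326) (nat_lit 233) (nat_lit 5) (nat_lit 237) (nat_lit 5) (nat_lit 234) (nat_lit 4) (nat_lit 372) (nat_lit 329) (nat_lit 319)))))) (XT.nd (nat_lit 624) (nat_lit 1064) (nat_lit 0) (XT.nd (nat_lit 312)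 (nat_lit 760) (nat_lit 0) (XT.nd (nat_lit 156) (nat_lit 152) (nat_lit 0) (XT.nd (nat_lit 78) (nat_lit 304) (nat_lit 0) (XT.lf (nat_lit 0) (nat_lit 2421311740) (nat_lit 152) (nat_lit 3221679319) (nat_lit 228) (nat_lit 4097811630) (nat_lit 231) (nat_lit 5) (nat_lit 233) (nat_lit 5) (nat_lit 234) (nat_lit 4) (nat_lit 373) (nat_lit 329) (nat_lit 318)) (XT.lf (nat_lit 0) (nat_lit 79386662) (nat_lit 304) (nat_lit 9132491304) (nat_lit 76) (nat_lit 757165010) (nat_lit 227) (nat_lit 5) (nat_lit 231) (nat_lit 5) (nat_lit 228) (nat_lit 4) (nat_lit 374) (nat_lit 329) (nat_lit 317))) (XT.nd (nat_lit 78) (nat_lit 152) (nat_lit 0) (XT.lf (nat_lit 0) (nat_lit 4368495910) (nat_lit 304) (nat_lit 895985809) (nat_lit 76) (nat_lit 4938816478) (nat_lit 227) (nat_lit 5) (nat_lit 231) (nat_lit 5) (nat_lit 228) (nat_lit 4) (nat_lit 375) (nat_lit 329) (nat_lit 316)) (XT.lf (nat_lit 0) (nat_lit 7786339952) (nat_lit 152)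 (nat_lit 1075819378) (nat_lit 228) (nat_lit 1587601914) (nat_lit 225) (nat_lit 5) (nat_lit 227) (nat_lit 5) (nat_lit 228) (nat_lit 4) (nat_lit 376) (nat_lit 329) (nat_lit 315)))) (XT.nd (nat_lit 156) (nat_lit 380) (nat_lit 0) (XT.nd (nat_lit 78) (nat_lit 152) (nat_lit 0) (XT.lf (nat_lit 0) (nat_lit 2814150309) (nat_lit 228) (nat_lit 4598180307) (nat_lit 76) (nat_lit 3292269237) (nat_lit 222) (nat_lit 5) (nat_lit 225) (nat_lit 5) (nat_lit 223) (nat_lit 4) (nat_lit 377) (nat_lit 329) (nat_lit 314)) (XT.lf (nat_lit 0) (nat_lit 4313305624) (nat_lit 152) (nat_lit 3071111564) (nat_lit 228) (nat_lit 3586372850) (nat_lit 220) (nat_lit 5) (nat_lit 222) (nat_lit 5) (nat_lit 223) (nat_lit 4) (nat_lit 378) (nat_lit 329) (nat_lit 313))) (XT.nd (nat_lit 78) (nat_lit 152) (nat_lit 0) (XT.lf (nat_lit 0) (nat_lit 915749702) (nat_lit 228) (nat_lit 8847019924) (nat_lit 76) (nat_lit 1486156795) (nat_lit 217) (nat_lit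 5) (nat_lit 220) (nat_lit 5) (nat_lit 218) (nat_lit 4) (nat_lit 379) (nat_lit 329) (nat_lit 312)) (XT.lf (nat_lit 0) (nat_lit 288582473) (nat_lit 152) (nat_lit 5276367687) (nat_lit 228) (nat_lit 5970954942) (nat_lit 215) (nat_lit 5) (nat_lit 217) (nat_lit 5) (nat_lit 218) (nat_lit 4) (nat_lit 380) (nat_lit 329) (nat_lit 311))))) (XT.nd (nat_lit 312) (nat_lit 532) (nat_lit 0) (XT.nd (nat_lit 156) (nat_lit 304) (nat_lit 0) (XT.nd (nat_lit 78) (nat_lit 228) (nat_lit 0) (XT.lf (nat_lit 0) (nat_lit 9971923545) (nat_lit 152) (nat_lit 500235288) (nat_lit 228) (nat_lit 1363796475) (nat_lit 215) (nat_lit 5) (nat_lit 217) (nat_lit 5) (nat_lit 218) (nat_lit 4) (nat_lit 381) (nat_lit 329) (nat_lit 310)) (XT.lf (nat_lit 0) (nat_lit 3438842515) (nat_lit 228) (nat_lit 4240385426) (nat_lit 76) (nat_lit 4465253191) (nat_lit 212) (nat_lit 5) (nat_lit 215) (nat_lit 5) (nat_lit 213) (nat_lit 4) (nat_lit 382) (nat_lit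 329) (nat_lit 309))) (XT.nd (nat_lit 78) (nat_lit 228) (nat_lit 0) (XT.lf (nat_lit 0) (nat_lit 5698818950) (nat_lit 76) (nat_lit 2747040422) (nat_lit 152) (nat_lit 4020952089) (nat_lit 211) (nat_lit 5) (nat_lit 212) (nat_lit 5) (nat_lit 213) (nat_lit 4) (nat_lit 383) (nat_lit 329) (nat_lit 308)) (XT.lf (nat_lit 0) (nat_lit 914840903) (nat_lit 228) (nat_lit 9481612506) (nat_lit 76) (nat_lit 2405823271) (nat_lit 208) (nat_lit 5) (nat_lit 211) (nat_lit 5) (nat_lit 209) (nat_lit 4) (nat_lit 384) (nat_lit 329) (nat_lit 307)))) (XT.nd (nat_lit 156) (nat_lit 456) (nat_lit 0) (XT.nd (nat_lit 78) (nat_lit 0) (nat_lit 0) (XT.lf (nat_lit 0) (nat_lit 696934331) (nat_lit 76) (nat_lit 5320077159) (nat_lit 152) (nat_lit 7131471890) (nat_lit 207) (nat_lit 5) (nat_lit 208) (nat_lit 5) (nat_lit 209) (nat_lit 4) (nat_lit 385) (nat_lit 329) (nat_lit 306)) (XT.lf (nat_lit 0) (nat_lit 11420839841) (nat_lit 152) (nat_lit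 2006532095) (nat_lit 0) (nat_lit 82301018) (nat_lit 207) (nat_lit 5) (nat_lit 209) (nat_lit 4) (nat_lit 207) (nat_lit 4) (nat_lit 386) (nat_lit 329) (nat_lit 305))) (XT.nd (nat_lit 78) (nat_lit 228) (nat_lit 0) (XT.lf (nat_lit 0) (nat_lit 3221030183) (nat_lit 228) (nat_lit 4978081403) (nat_lit 76) (nat_lit 5681422607) (nat_lit 204) (nat_lit 5) (nat_lit 207) (nat_lit 5) (nat_lit 205) (nat_lit 4) (nat_lit 387) (nat_lit 329) (nat_lit 304)) (XT.nd (nat_lit 78) (nat_lit 152) (nat_lit 0) (XT.lf (nat_lit 0) (nat_lit 6115661723) (nat_lit 76) (nat_lit 2629681928) (nat_lit 152) (nat_lit 5521924910) (nat_lit 203) (nat_lit 5) (nat_lit 204) (nat_lit 5) (nat_lit 205) (nat_lit 4) (nat_lit 388) (nat_lit 329) (nat_lit 303)) (XT.lf (nat_lit 0) (nat_lit 3111444350) (nat_lit 152) (nat_lit 11508796778) (nat_lit 152) (nat_lit 49380102) (nat_lit 201) (nat_lit 4) (nat_lit 203) (nat_lit 5) (nat_lit 203) (nat_lit 4) (nat_lit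 389) (nat_lit 329) (nat_lit 302))))))))
noncomputable def xc96 : XT := (XT.nd (nat_lit 2496) (nat_lit 2508) (nat_lit 0) (XT.nd (nat_lit 1248) (nat_lit 1292) (nat_lit 0) (XT.nd (nat_lit 624) (nat_lit 684) (nat_lit 0) (XT.nd (nat_lit 312) (nat_lit 380) (nat_lit 0) (XT.nd (nat_lit 156) (nat_lit 304) (nat_lit 0) (XT.nd (nat_lit 78) (nat_lit 76) (nat_lit 0) (XT.lf (nat_lit 0) (nat_lit 5588074819) (nat_lit 228) (nat_lit 203495719) (nat_lit 76) (nat_lit 9292393061) (nat_lit 200) (nat_lit 5) (nat_lit 203) (nat_lit 5) (nat_lit 201) (nat_lit 4) (nat_lit 390) (nat_lit 329) (nat_lit 301)) (XT.lf (nat_lit 0) (nat_lit 11591974244) (nat_lit 152) (nat_lit 3615651338) (nat_lit 0) (nat_lit 307045467) (nat_lit 199) (nat_lit 5) (nat_lit 201) (nat_lit 4) (nat_lit 199) (nat_lit 4) (nat_lit 391) (nat_lit 329) (nat_lit 300))) (XT.nd (nat_lit 78) (nat_lit 76) (nat_lit 0) (XT.lf (nat_lit 0) (nat_lit 1998771897) (nat_lit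 228) (nat_lit 7359896379) (nat_lit 76) (nat_lit 6600171512) (nat_lit 196) (nat_lit 5) (nat_lit 199) (nat_lit 5) (nat_lit 197) (nat_lit 4) (nat_lit 392) (nat_lit 329) (nat_lit 299)) (XT.lf (nat_lit 0) (nat_lit 5027470248) (nat_lit 76) (nat_lit 3094035657) (nat_lit 152) (nat_lit 8298644725) (nat_lit 195) (nat_lit 5) (nat_lit 196) (nat_lit 5) (nat_lit 197) (nat_lit 4) (nat_lit 393) (nat_lit 329) (nat_lit 298)))) (XT.nd (nat_lit 156) (nat_lit 152) (nat_lit 0) (XT.nd (nat_lit 78) (nat_lit 76) (nat_lit 0) (XT.lf (nat_lit 0) (nat_lit 1176361764) (nat_lit 152) (nat_lit 13470264054) (nat_lit 152) (nat_lit 2253088735) (nat_lit 193) (nat_lit 4) (nat_lit 195) (nat_lit 5) (nat_lit 195) (nat_lit 4) (nat_lit 394) (nat_lit 329) (nat_lit 297)) (XT.lf (nat_lit 0) (nat_lit 4107555279) (nat_lit 228) (nat_lit 2938562032) (nat_lit 76) (nat_lit 10346749457) (nat_lit 192) (nat_lit 5) (nat_lit 195) (nat_lit 5) (nat_lit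 193) (nat_lit 4) (nat_lit 395) (nat_lit 329) (nat_lit 296))) (XT.nd (nat_lit 78) (nat_lit 76) (nat_lit 0) (XT.lf (nat_lit 0) (nat_lit 10600656506) (nat_lit 76) (nat_lit 177307368) (nat_lit 152) (nat_lit 7127493378) (nat_lit 191) (nat_lit 5) (nat_lit 192) (nat_lit 5) (nat_lit 193) (nat_lit 4) (nat_lit 396) (nat_lit 329) (nat_lit 295)) (XT.lf (nat_lit 0) (nat_lit 6383750874) (nat_lit 76) (nat_lit 11560594397) (nat_lit 76) (nat_lit 491209371) (nat_lit 190) (nat_lit 4) (nat_lit 191) (nat_lit 5) (nat_lit 191) (nat_lit 4) (nat_lit 397) (nat_lit 329) (nat_lit 294))))) (XT.nd (nat_lit 312) (nat_lit 304) (nat_lit 0) (XT.nd (nat_lit 156) (nat_lit 228) (nat_lit 0) (XT.nd (nat_lit 78) (nat_lit 0) (nat_lit 0) (XT.lf (nat_lit 0) (nat_lit 1787745408) (nat_lit 76) (nat_lit 4540962580) (nat_lit 152) (nat_lit 12655436793) (nat_lit 188) (nat_lit 5) (nat_lit 189) (nat_lit 5) (nat_lit 190) (nat_lit 4) (nat_lit 398)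 (nat_lit 329) (nat_lit 293)) (XT.lf (nat_lit 0) (nat_lit 13627669184) (nat_lit 152) (nat_lit 3055999228) (nat_lit 0) (nat_lit 2868365593) (nat_lit 188) (nat_lit 5) (nat_lit 190) (nat_lit 4) (nat_lit 188) (nat_lit 4) (nat_lit 399) (nat_lit 329) (nat_lit 292))) (XT.nd (nat_lit 78) (nat_lit 76) (nat_lit 0) (XT.lf (nat_lit 0) (nat_lit 1277510645) (nat_lit 152) (nat_lit 8241234708) (nat_lit 76) (nat_lit 10620137792) (nat_lit 186) (nat_lit 5) (nat_lit 188) (nat_lit 5) (nat_lit 187) (nat_lit 4) (nat_lit 400) (nat_lit 329) (nat_lit 291)) (XT.lf (nat_lit 0) (nat_lit 6895986238) (nat_lit 76) (nat_lit 1812376872) (nat_lit 152) (nat_lit 12038456559) (nat_lit 185) (nat_lit 5) (nat_lit 186) (nat_lit 5) (nat_lit 187) (nat_lit 4) (nat_lit 401) (nat_lit 329) (nat_lit 290)))) (XT.nd (nat_lit 156) (nat_lit 152) (nat_lit 0) (XT.nd (nat_lit 78) (nat_lit 76) (nat_lit 0) (XT.lf (nat_lit 0) (nat_lit 1464923679) (nat_lit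 76) (nat_lit 15216612856) (nat_lit 76) (nat_lit 4695077568) (nat_lit 184) (nat_lit 4) (nat_lit 185) (nat_lit 5) (nat_lit 185) (nat_lit 4) (nat_lit 402) (nat_lit 329) (nat_lit 289)) (XT.lf (nat_lit 0) (nat_lit 3095234779) (nat_lit 152) (nat_lit 4259255385) (nat_lit 76) (nat_lit 14672240182) (nat_lit 183) (nat_lit 5) (nat_lit 185) (nat_lit 5) (nat_lit 184) (nat_lit 4) (nat_lit 403) (nat_lit 329) (nat_lit 288))) (XT.nd (nat_lit 78) (nat_lit 76) (nat_lit 0) (XT.lf (nat_lit 0) (nat_lit 11239354091) (nat_lit 152) (nat_lit 10395442446) (nat_lit 0) (nat_lit 1064603604) (nat_lit 182) (nat_lit 5) (nat_lit 184) (nat_lit 4) (nat_lit 182) (nat_lit 4) (nat_lit 404) (nat_lit 329) (nat_lit 287)) (XT.lf (nat_lit 0) (nat_lit 6351162280) (nat_lit 76) (nat_lit 13645328791) (nat_lit 76) (nat_lit 3398921769) (nat_lit 181) (nat_lit 4) (nat_lit 182) (nat_lit 5) (nat_lit 182) (nat_lit 4) (nat_lit 405) (nat_lit 329) (nat_lit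 286)))))) (XT.nd (nat_lit 624) (nat_lit 608) (nat_lit 0) (XT.nd (nat_lit 312) (nat_lit 304) (nat_lit 0) (XT.nd (nat_lit 156) (nat_lit 228) (nat_lit 0) (XT.nd (nat_lit 78) (nat_lit 76) (nat_lit 0) (XT.lf (nat_lit 0) (nat_lit 4994963224) (nat_lit 152) (nat_lit 74976730) (nat_lit 76) (nat_lit 19047740856) (nat_lit 180) (nat_lit 5) (nat_lit 182) (nat_lit 5) (nat_lit 181) (nat_lit 4) (nat_lit 406) (nat_lit 329) (nat_lit 285)) (XT.lf (nat_lit 0) (nat_lit 13959705204) (nat_lit 152) (nat_lit 6825973402) (nat_lit 0) (nat_lit 4074328130) (nat_lit 179) (nat_lit 5) (nat_lit 181) (nat_lit 4) (nat_lit 179) (nat_lit 4) (nat_lit 407) (nat_lit 329) (nat_lit 284))) (XT.nd (nat_lit 78) (nat_lit 152) (nat_lit 0) (XT.lf (nat_lit 0) (nat_lit 11534120841) (nat_lit 76) (nat_lit 12020285547) (nat_lit 76) (nat_lit 2075956465) (nat_lit 178) (nat_lit 4) (nat_lit 179) (nat_lit 5) (nat_lit 179) (nat_lit 4) (nat_lit 408) (nat_lit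 329) (nat_lit 283)) (XT.lf (nat_lit 0) (nat_lit 4481316303) (nat_lit 76) (nat_lit 2582971577) (nat_lit 152) (nat_lit 19364096687) (nat_lit 176) (nat_lit 5) (nat_lit 177) (nat_lit 5) (nat_lit 178) (nat_lit 4) (nat_lit 409) (nat_lit 329) (nat_lit 282)))) (XT.nd (nat_lit 156) (nat_lit 228) (nat_lit 0) (XT.nd (nat_lit 78) (nat_lit 76) (nat_lit 0) (XT.lf (nat_lit 0) (nat_lit 16866309128) (nat_lit 152) (nat_lit 3093446756) (nat_lit 0) (nat_lit 7291123356) (nat_lit 176) (nat_lit 5) (nat_lit 178) (nat_lit 4) (nat_lit 176) (nat_lit 4) (nat_lit 410) (nat_lit 329) (nat_lit 281)) (XT.lf (nat_lit 0) (nat_lit 17050137493) (nat_lit 76) (nat_lit 10338273944) (nat_lit 76) (nat_lit 714588209) (nat_lit 175) (nat_lit 4) (nat_lit 176) (nat_lit 5) (nat_lit 176) (nat_lit 4) (nat_lit 411) (nat_lit 329) (nat_lit 280))) (XT.nd (nat_lit 78) (nat_lit 76) (nat_lit 0) (XT.lf (nat_lit 0) (nat_lit 9257631614) (nat_lit 152) (nat_lit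 19678458232) (nat_lit 0) (nat_lit 48225733) (nat_lit 173) (nat_lit 5) (nat_lit 175) (nat_lit 4) (nat_lit 173) (nat_lit 4) (nat_lit 412) (nat_lit 329) (nat_lit 279)) (XT.lf (nat_lit 0) (nat_lit 852624077) (nat_lit 76) (nat_lit 19146527145) (nat_lit 76) (nat_lit 9895225173) (nat_lit 172) (nat_lit 4) (nat_lit 173) (nat_lit 5) (nat_lit 173) (nat_lit 4) (nat_lit 413) (nat_lit 329) (nat_lit 278))))) (XT.nd (nat_lit 312) (nat_lit 304) (nat_lit 0) (XT.nd (nat_lit 156) (nat_lit 152) (nat_lit 0) (XT.nd (nat_lit 78) (nat_lit 76) (nat_lit 0) (XT.lf (nat_lit 0) (nat_lit 674566390) (nat_lit 152) (nat_lit 7908341911) (nat_lit 76) (nat_lit 22253675375) (nat_lit 171) (nat_lit 5) (nat_lit 173) (nat_lit 5) (nat_lit 172) (nat_lit 4) (nat_lit 414) (nat_lit 329) (nat_lit 277)) (XT.lf (nat_lit 0) (nat_lit 11635450198) (nat_lit 152) (nat_lit 17422088920) (nat_lit 0) (nat_lit 2750494006) (nat_lit 170) (nat_lit 5) (nat_lit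 172) (nat_lit 4) (nat_lit 170) (nat_lit 4) (nat_lit 415) (nat_lit 329) (nat_lit 276))) (XT.nd (nat_lit 78) (nat_lit 76) (nat_lit 0) (XT.lf (nat_lit 0) (nat_lit 5120074552) (nat_lit 76) (nat_lit 18306643846) (nat_lit 76) (nat_lit 9387219636) (nat_lit 169) (nat_lit 4) (nat_lit 170) (nat_lit 5) (nat_lit 170) (nat_lit 4) (nat_lit 416) (nat_lit 329) (nat_lit 275)) (XT.lf (nat_lit 0) (nat_lit 2100916994) (nat_lit 152) (nat_lit 4645371055) (nat_lit 76) (nat_lit 27111061998) (nat_lit 168) (nat_lit 5) (nat_lit 170) (nat_lit 5) (nat_lit 169) (nat_lit 4) (nat_lit 417) (nat_lit 329) (nat_lit 274)))) (XT.nd (nat_lit 156) (nat_lit 152) (nat_lit 0) (XT.nd (nat_lit 78) (nat_lit 76) (nat_lit 0) (XT.lf (nat_lit 0) (nat_lit 14178485211) (nat_lit 152) (nat_lit 15127470951) (nat_lit 0) (nat_lit 5622757209) (nat_lit 167) (nat_lit 5) (nat_lit 169) (nat_lit 4) (nat_lit 167) (nat_lit 4) (nat_lit 418) (nat_lit 329) (nat_lit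 273)) (XT.lf (nat_lit 0) (nat_lit 9636186153) (nat_lit 76) (nat_lit 17494015083) (nat_lit 76) (nat_lit 8909930157) (nat_lit 166) (nat_lit 4) (nat_lit 167) (nat_lit 5) (nat_lit 167) (nat_lit 4) (nat_lit 419) (nat_lit 329) (nat_lit 272))) (XT.nd (nat_lit 78) (nat_lit 76) (nat_lit 0) (XT.lf (nat_lit 0) (nat_lit 3599346109) (nat_lit 152) (nat_lit 1232431995) (nat_lit 76) (nat_lit 32363107419) (nat_lit 165) (nat_lit 5) (nat_lit 167) (nat_lit 5) (nat_lit 166) (nat_lit 4) (nat_lit 420) (nat_lit 329) (nat_lit 271)) (XT.lf (nat_lit 0) (nat_lit 16909265606) (nat_lit 152) (nat_lit 12783347669) (nat_lit 0) (nat_lit 8683730287) (nat_lit 164) (nat_lit 5) (nat_lit 166) (nat_lit 4) (nat_lit 164) (nat_lit 4) (nat_lit 421) (nat_lit 329) (nat_lit 270))))))) (XT.nd (nat_lit 1248) (nat_lit 1292) (nat_lit 0) (XT.nd (nat_lit 624) (nat_lit 532) (nat_lit 0) (XT.nd (nat_lit 312) (nat_lit 380) (nat_lit 0) (XT.nd (nat_lit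 156) (nat_lit 76) (nat_lit 0) (XT.nd (nat_lit 78) (nat_lit 152) (nat_lit 0) (XT.lf (nat_lit 0) (nat_lit 14433609095) (nat_lit 76) (nat_lit 16709601775) (nat_lit 76) (nat_lit 8460737144) (nat_lit 163) (nat_lit 4) (nat_lit 164) (nat_lit 5) (nat_lit 164) (nat_lit 4) (nat_lit 422) (nat_lit 329) (nat_lit 269)) (XT.lf (nat_lit 0) (nat_lit 2430748013) (nat_lit 76) (nat_lit 2789657369) (nat_lit 152) (nat_lit 35658931833) (nat_lit 161) (nat_lit 5) (nat_lit 162) (nat_lit 5) (nat_lit 163) (nat_lit 4) (nat_lit 423) (nat_lit 329) (nat_lit 268))) (XT.nd (nat_lit 78) (nat_lit 76) (nat_lit 0) (XT.lf (nat_lit 0) (nat_lit 19852034149) (nat_lit 152) (nat_lit 10377328942) (nat_lit 0) (nat_lit 11954659486) (nat_lit 161) (nat_lit 5) (nat_lit 163) (nat_lit 4) (nat_lit 161) (nat_lit 4) (nat_lit 424) (nat_lit 329) (nat_lit 267)) (XT.lf (nat_lit 0) (nat_lit 19548322874) (nat_lit 76) (nat_lit 15953918611) (nat_lit 76) (nat_lit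 8037350866) (nat_lit 160) (nat_lit 4) (nat_lit 161) (nat_lit 5) (nat_lit 161) (nat_lit 4) (nat_lit 425) (nat_lit 329) (nat_lit 266)))) (XT.nd (nat_lit 156) (nat_lit 228) (nat_lit 0) (XT.nd (nat_lit 78) (nat_lit 0) (nat_lit 0) (XT.lf (nat_lit 0) (nat_lit 6338376674) (nat_lit 76) (nat_lit 624171396) (nat_lit 152) (nat_lit 37984266026) (nat_lit 158) (nat_lit 5) (nat_lit 159) (nat_lit 5) (nat_lit 160) (nat_lit 4) (nat_lit 426) (nat_lit 329) (nat_lit 265)) (XT.lf (nat_lit 0) (nat_lit 23033009770) (nat_lit 152) (nat_lit 7895832345) (nat_lit 0) (nat_lit 15459433044) (nat_lit 158) (nat_lit 5) (nat_lit 160) (nat_lit 4) (nat_lit 158) (nat_lit 4) (nat_lit 427) (nat_lit 329) (nat_lit 264))) (XT.nd (nat_lit 78) (nat_lit 152) (nat_lit 0) (XT.lf (nat_lit 0) (nat_lit 25019920954) (nat_lit 76) (nat_lit 15227126303) (nat_lit 76) (nat_lit 7637759381) (nat_lit 157) (nat_lit 4) (nat_lit 158) (nat_lit 5) (nat_lit 158)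 (nat_lit 4) (nat_lit 428) (nat_lit 329) (nat_lit 263)) (XT.lf (nat_lit 0) (nat_lit 8846454294) (nat_lit 152) (nat_lit 38985396534) (nat_lit 0) (nat_lit 1604163624) (nat_lit 155) (nat_lit 5) (nat_lit 157) (nat_lit 4) (nat_lit 155) (nat_lit 4) (nat_lit 429) (nat_lit 329) (nat_lit 262))))) (XT.nd (nat_lit 312) (nat_lit 304) (nat_lit 0) (XT.nd (nat_lit 156) (nat_lit 152) (nat_lit 0) (XT.nd (nat_lit 78) (nat_lit 76) (nat_lit 0) (XT.lf (nat_lit 0) (nat_lit 26480662335) (nat_lit 152) (nat_lit 5324005239) (nat_lit 0) (nat_lit 19224731500) (nat_lit 155) (nat_lit 5) (nat_lit 157) (nat_lit 4) (nat_lit 155) (nat_lit 4) (nat_lit 430) (nat_lit 329) (nat_lit 261)) (XT.lf (nat_lit 0) (nat_lit 30891937505) (nat_lit 76) (nat_lit 14529106855) (nat_lit 76) (nat_lit 7260185386) (nat_lit 154) (nat_lit 4) (nat_lit 155) (nat_lit 5) (nat_lit 155) (nat_lit 4) (nat_lit 431) (nat_lit 329) (nat_lit 260))) (XT.nd (nat_lit 78)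 (nat_lit 0) (nat_lit 0) (XT.lf (nat_lit 0) (nat_lit 10873825289) (nat_lit 152) (nat_lit 39577579803) (nat_lit 0) (nat_lit 3939260050) (nat_lit 152) (nat_lit 5) (nat_lit 154) (nat_lit 4) (nat_lit 152) (nat_lit 4) (nat_lit 432) (nat_lit 329) (nat_lit 259)) (XT.lf (nat_lit 0) (nat_lit 30226003637) (nat_lit 152) (nat_lit 2645628250) (nat_lit 0) (nat_lit 23280216601) (nat_lit 152) (nat_lit 5) (nat_lit 154) (nat_lit 4) (nat_lit 152) (nat_lit 4) (nat_lit 433) (nat_lit 329) (nat_lit 258)))) (XT.nd (nat_lit 156) (nat_lit 76) (nat_lit 0) (XT.nd (nat_lit 78) (nat_lit 152) (nat_lit 0) (XT.lf (nat_lit 0) (nat_lit 37212218078) (nat_lit 76) (nat_lit 13859524891) (nat_lit 76) (nat_lit 6903050428) (nat_lit 151) (nat_lit 4) (nat_lit 152) (nat_lit 5) (nat_lit 152) (nat_lit 4) (nat_lit 434) (nat_lit 329) (nat_lit 257)) (XT.lf (nat_lit 0) (nat_lit 13052231839) (nat_lit 152) (nat_lit 40389140901) (nat_lit 0) (nat_lit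 6417324254) (nat_lit 149) (nat_lit 5) (nat_lit 151) (nat_lit 4) (nat_lit 149) (nat_lit 4) (nat_lit 435) (nat_lit 329) (nat_lit 256))) (XT.nd (nat_lit 78) (nat_lit 0) (nat_lit 0) (XT.lf (nat_lit 0) (nat_lit 162190873) (nat_lit 76) (nat_lit 34143239720) (nat_lit 76) (nat_lit 27499099934) (nat_lit 148) (nat_lit 4) (nat_lit 149) (nat_lit 5) (nat_lit 149) (nat_lit 4) (nat_lit 436) (nat_lit 329) (nat_lit 255)) (XT.lf (nat_lit 0) (nat_lit 44033336750) (nat_lit 76) (nat_lit 13217877546) (nat_lit 76) (nat_lit 6564945188) (nat_lit 148) (nat_lit 4) (nat_lit 149) (nat_lit 5) (nat_lit 149) (nat_lit 4) (nat_lit 437) (nat_lit 329) (nat_lit 254)))))) (XT.nd (nat_lit 624) (nat_lit 608) (nat_lit 0) (XT.nd (nat_lit 312) (nat_lit 304) (nat_lit 0) (XT.nd (nat_lit 156) (nat_lit 152) (nat_lit 0) (XT.nd (nat_lit 78) (nat_lit 76) (nat_lit 0) (XT.lf (nat_lit 0) (nat_lit 15400462584) (nat_lit 152) (nat_lit 41435614071) (nat_lit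 0) (nat_lit 9056361407) (nat_lit 146) (nat_lit 5) (nat_lit 148) (nat_lit 4) (nat_lit 146) (nat_lit 4) (nat_lit 438) (nat_lit 329) (nat_lit 253)) (XT.lf (nat_lit 0) (nat_lit 3205801076) (nat_lit 76) (nat_lit 35592649094) (nat_lit 76) (nat_lit 29240952563) (nat_lit 145) (nat_lit 4) (nat_lit 146) (nat_lit 5) (nat_lit 146) (nat_lit 4) (nat_lit 439) (nat_lit 329) (nat_lit 252))) (XT.nd (nat_lit 78) (nat_lit 152) (nat_lit 0) (XT.lf (nat_lit 0) (nat_lit 51413062869) (nat_lit 76) (nat_lit 12603534968) (nat_lit 76) (nat_lit 6244604766) (nat_lit 145) (nat_lit 4) (nat_lit 146) (nat_lit 5) (nat_lit 146) (nat_lit 4) (nat_lit 440) (nat_lit 329) (nat_lit 251)) (XT.lf (nat_lit 0) (nat_lit 17938967380) (nat_lit 152) (nat_lit 42734349749) (nat_lit 0) (nat_lit 11876282226) (nat_lit 143) (nat_lit 5) (nat_lit 145) (nat_lit 4) (nat_lit 143) (nat_lit 4) (nat_lit 441) (nat_lit 329) (nat_lit 250)))) (XT.nd (nat_lit 156)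 (nat_lit 228) (nat_lit 0) (XT.nd (nat_lit 78) (nat_lit 0) (nat_lit 0) (XT.lf (nat_lit 0) (nat_lit 6419508361) (nat_lit 76) (nat_lit 37283824601) (nat_lit 76) (nat_lit 31214890729) (nat_lit 142) (nat_lit 4) (nat_lit 143) (nat_lit 5) (nat_lit 143) (nat_lit 4) (nat_lit 442) (nat_lit 329) (nat_lit 249)) (XT.lf (nat_lit 0) (nat_lit 59414881157) (nat_lit 76) (nat_lit 12015773122) (nat_lit 76) (nat_lit 5940888092) (nat_lit 142) (nat_lit 4) (nat_lit 143) (nat_lit 5) (nat_lit 143) (nat_lit 4) (nat_lit 443) (nat_lit 329) (nat_lit 248))) (XT.nd (nat_lit 78) (nat_lit 76) (nat_lit 0) (XT.lf (nat_lit 0) (nat_lit 20690059173) (nat_lit 152) (nat_lit 44304709048) (nat_lit 0) (nat_lit 14899056506) (nat_lit 140) (nat_lit 5) (nat_lit 142) (nat_lit 4) (nat_lit 140) (nat_lit 4) (nat_lit 444) (nat_lit 329) (nat_lit 247)) (XT.lf (nat_lit 0) (nat_lit 9827101209) (nat_lit 76) (nat_lit 39237894586) (nat_lit 76) (nat_lit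 33441751084) (nat_lit 139) (nat_lit 4) (nat_lit 140) (nat_lit 5) (nat_lit 140) (nat_lit 4) (nat_lit 445) (nat_lit 329) (nat_lit 246))))) (XT.nd (nat_lit 312) (nat_lit 380) (nat_lit 0) (XT.nd (nat_lit 156) (nat_lit 76) (nat_lit 0) (XT.nd (nat_lit 78) (nat_lit 152) (nat_lit 0) (XT.lf (nat_lit 0) (nat_lit 68108569551) (nat_lit 76) (nat_lit 11453800297) (nat_lit 76) (nat_lit 5652760762) (nat_lit 139) (nat_lit 4) (nat_lit 140) (nat_lit 5) (nat_lit 140) (nat_lit 4) (nat_lit 446) (nat_lit 329) (nat_lit 245)) (XT.lf (nat_lit 0) (nat_lit 23678131680) (nat_lit 152) (nat_lit 46168274418) (nat_lit 0) (nat_lit 18148891276) (nat_lit 137) (nat_lit 5) (nat_lit 139) (nat_lit 4) (nat_lit 137) (nat_lit 4) (nat_lit 447) (nat_lit 329) (nat_lit 244))) (XT.nd (nat_lit 78) (nat_lit 0) (nat_lit 0) (XT.lf (nat_lit 0) (nat_lit 13454575203) (nat_lit 76) (nat_lit 41478187723) (nat_lit 76) (nat_lit 35944717941) (nat_lit 136)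 (nat_lit 4) (nat_lit 137) (nat_lit 5) (nat_lit 137) (nat_lit 4) (nat_lit 448) (nat_lit 329) (nat_lit 243)) (XT.lf (nat_lit 0) (nat_lit 77570839802) (nat_lit 76) (nat_lit 10916778434) (nat_lit 76) (nat_lit 5379280674) (nat_lit 136) (nat_lit 4) (nat_lit 137) (nat_lit 5) (nat_lit 137) (nat_lit 4) (nat_lit 449) (nat_lit 329) (nat_lit 242)))) (XT.nd (nat_lit 156) (nat_lit 152) (nat_lit 0) (XT.nd (nat_lit 78) (nat_lit 76) (nat_lit 0) (XT.lf (nat_lit 0) (nat_lit 26929895351) (nat_lit 152) (nat_lit 48349078911) (nat_lit 0) (nat_lit 21652434465) (nat_lit 134) (nat_lit 5) (nat_lit 136) (nat_lit 4) (nat_lit 134) (nat_lit 4) (nat_lit 450) (nat_lit 329) (nat_lit 241)) (XT.lf (nat_lit 0) (nat_lit 17330357619) (nat_lit 76) (nat_lit 44030481584) (nat_lit 76) (nat_lit 38749541179) (nat_lit 133) (nat_lit 4) (nat_lit 134) (nat_lit 5) (nat_lit 134) (nat_lit 4) (nat_lit 451) (nat_lit 329) (nat_lit 240))) (XT.nd (nat_lit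 78) (nat_lit 152) (nat_lit 0) (XT.lf (nat_lit 0) (nat_lit 87886046551) (nat_lit 76) (nat_lit 10403840237) (nat_lit 76) (nat_lit 5119586004) (nat_lit 133) (nat_lit 4) (nat_lit 134) (nat_lit 5) (nat_lit 134) (nat_lit 4) (nat_lit 452) (nat_lit 329) (nat_lit 239)) (XT.lf (nat_lit 0) (nat_lit 30474634149) (nat_lit 152) (nat_lit 50873856587) (nat_lit 0) (nat_lit 25439005330) (nat_lit 131) (nat_lit 5) (nat_lit 133) (nat_lit 4) (nat_lit 131) (nat_lit 4) (nat_lit 453) (nat_lit 329) (nat_lit 238))))))))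
noncomputable def xc97 : XT := (XT.nd (nat_lit 1248) (nat_lit 1140) (nat_lit 0) (XT.nd (nat_lit 624) (nat_lit 684) (nat_lit 0) (XT.nd (nat_lit 312) (nat_lit 228) (nat_lit 0) (XT.nd (nat_lit 156) (nat_lit 228) (nat_lit 0) (XT.nd (nat_lit 78) (nat_lit 0) (nat_lit 0) (XT.lf (nat_lit 0) (nat_lit 21485557357) (nat_lit 76) (nat_lit 46923271222) (nat_lit 76) (nat_lit 41884779795) (nat_lit 130) (nat_lit 4) (nat_lit 131) (nat_lit 5) (nat_lit 131) (nat_lit 4) (nat_lit 454) (nat_lit 329) (nat_lit 237)) (XT.lf (nat_lit 0) (nat_lit 99146971294) (nat_lit 76) (nat_lit 9914102828) (nat_lit 76) (nat_lit 4872885106) (nat_lit 130) (nat_lit 4) (nat_lit 131) (nat_lit 5) (nat_lit 131) (nat_lit 4) (nat_lit 455) (nat_lit 329) (nat_lit 236))) (XT.nd (nat_lit 78) (nat_lit 76) (nat_lit 0) (XT.lf (nat_lit 0) (nat_lit 34344485863) (nat_lit 152) (nat_lit 53772316756) (nat_lit 0) (nat_lit 29540853298) (nat_lit 128) (nat_lit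 5) (nat_lit 130) (nat_lit 4) (nat_lit 128) (nat_lit 4) (nat_lit 456) (nat_lit 329) (nat_lit 235)) (XT.lf (nat_lit 0) (nat_lit 25954242305) (nat_lit 76) (nat_lit 50188060839) (nat_lit 76) (nat_lit 45382073198) (nat_lit 127) (nat_lit 4) (nat_lit 128) (nat_lit 5) (nat_lit 128) (nat_lit 4) (nat_lit 457) (nat_lit 329) (nat_lit 234)))) (XT.nd (nat_lit 156) (nat_lit 76) (nat_lit 0) (XT.nd (nat_lit 78) (nat_lit 152) (nat_lit 0) (XT.lf (nat_lit 0) (nat_lit 111455688435) (nat_lit 76) (nat_lit 9446678568) (nat_lit 76) (nat_lit 4638447998) (nat_lit 127) (nat_lit 4) (nat_lit 128) (nat_lit 5) (nat_lit 128) (nat_lit 4) (nat_lit 458) (nat_lit 329) (nat_lit 233)) (XT.lf (nat_lit 0) (nat_lit 38574748820) (nat_lit 152) (nat_lit 57077444909) (nat_lit 0) (nat_lit 33993447207) (nat_lit 125) (nat_lit 5) (nat_lit 127) (nat_lit 4) (nat_lit 125) (nat_lit 4) (nat_lit 459) (nat_lit 329) (nat_lit 232))) (XT.nd (nat_lit 78)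 (nat_lit 0) (nat_lit 0) (XT.lf (nat_lit 0) (nat_lit 30773746530) (nat_lit 76) (nat_lit 53859681758) (nat_lit 76) (nat_lit 49276442619) (nat_lit 124) (nat_lit 4) (nat_lit 125) (nat_lit 5) (nat_lit 125) (nat_lit 4) (nat_lit 460) (nat_lit 329) (nat_lit 231)) (XT.lf (nat_lit 0) (nat_lit 124924521445) (nat_lit 76) (nat_lit 9000683584) (nat_lit 76) (nat_lit 4415599182) (nat_lit 124) (nat_lit 4) (nat_lit 125) (nat_lit 5) (nat_lit 125) (nat_lit 4) (nat_lit 461) (nat_lit 329) (nat_lit 230))))) (XT.nd (nat_lit 312) (nat_lit 304) (nat_lit 0) (XT.nd (nat_lit 156) (nat_lit 152) (nat_lit 0) (XT.nd (nat_lit 78) (nat_lit 76) (nat_lit 0) (XT.lf (nat_lit 0) (nat_lit 43204218086) (nat_lit 152) (nat_lit 60825833408) (nat_lit 0) (nat_lit 38835797328) (nat_lit 122) (nat_lit 5) (nat_lit 124) (nat_lit 4) (nat_lit 122) (nat_lit 4) (nat_lit 462) (nat_lit 329) (nat_lit 229)) (XT.lf (nat_lit 0) (nat_lit 35985010019) (nat_lit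 76) (nat_lit 57976640108) (nat_lit 76) (nat_lit 53606625342) (nat_lit 121) (nat_lit 4) (nat_lit 122) (nat_lit 5) (nat_lit 122) (nat_lit 4) (nat_lit 463) (nat_lit 329) (nat_lit 228))) (XT.nd (nat_lit 78) (nat_lit 152) (nat_lit 0) (XT.lf (nat_lit 0) (nat_lit 139677098042) (nat_lit 76) (nat_lit 8575244420) (nat_lit 76) (nat_lit 4203711551) (nat_lit 121) (nat_lit 4) (nat_lit 122) (nat_lit 5) (nat_lit 122) (nat_lit 4) (nat_lit 464) (nat_lit 329) (nat_lit 227)) (XT.lf (nat_lit 0) (nat_lit 48275554509) (nat_lit 152) (nat_lit 65058045292) (nat_lit 0) (nat_lit 44110812908) (nat_lit 119) (nat_lit 5) (nat_lit 121) (nat_lit 4) (nat_lit 119) (nat_lit 4) (nat_lit 465) (nat_lit 329) (nat_lit 226)))) (XT.nd (nat_lit 156) (nat_lit 228) (nat_lit 0) (XT.nd (nat_lit 78) (nat_lit 0) (nat_lit 0) (XT.lf (nat_lit 0) (nat_lit 41632954033) (nat_lit 76) (nat_lit 62581497812) (nat_lit 76) (nat_lit 58415444817) (nat_lit 118)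 (nat_lit 4) (nat_lit 119) (nat_lit 5) (nat_lit 119) (nat_lit 4) (nat_lit 466) (nat_lit 329) (nat_lit 225)) (XT.lf (nat_lit 0) (nat_lit 155849514286) (nat_lit 76) (nat_lit 8169503149) (nat_lit 76) (nat_lit 4002201207) (nat_lit 118) (nat_lit 4) (nat_lit 119) (nat_lit 5) (nat_lit 119) (nat_lit 4) (nat_lit 467) (nat_lit 329) (nat_lit 224))) (XT.nd (nat_lit 78) (nat_lit 76) (nat_lit 0) (XT.lf (nat_lit 0) (nat_lit 53835690217) (nat_lit 152) (nat_lit 69819014773) (nat_lit 0) (nat_lit 49865698393) (nat_lit 116) (nat_lit 5) (nat_lit 118) (nat_lit 4) (nat_lit 116) (nat_lit 4) (nat_lit 468) (nat_lit 329) (nat_lit 223)) (XT.lf (nat_lit 0) (nat_lit 47766895510) (nat_lit 76) (nat_lit 67721290777) (nat_lit 76) (nat_lit 63750220066) (nat_lit 115) (nat_lit 4) (nat_lit 116) (nat_lit 5) (nat_lit 116) (nat_lit 4) (nat_lit 469) (nat_lit 329) (nat_lit 222)))))) (XT.nd (nat_lit 624) (nat_lit 532) (nat_lit 0) (XT.nd (nat_lit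 312) (nat_lit 380) (nat_lit 0) (XT.nd (nat_lit 156) (nat_lit 76) (nat_lit 0) (XT.nd (nat_lit 78) (nat_lit 152) (nat_lit 0) (XT.lf (nat_lit 0) (nat_lit 173591618539) (nat_lit 76) (nat_lit 7782621262) (nat_lit 76) (nat_lit 3810523039) (nat_lit 115) (nat_lit 4) (nat_lit 116) (nat_lit 5) (nat_lit 116) (nat_lit 4) (nat_lit 470) (nat_lit 329) (nat_lit 221)) (XT.lf (nat_lit 0) (nat_lit 59936274535) (nat_lit 152) (nat_lit 75158488398) (nat_lit 0) (nat_lit 56152391863) (nat_lit 113) (nat_lit 5) (nat_lit 115) (nat_lit 4) (nat_lit 113) (nat_lit 4) (nat_lit 471) (nat_lit 329) (nat_lit 220))) (XT.nd (nat_lit 78) (nat_lit 0) (nat_lit 0) (XT.lf (nat_lit 0) (nat_lit 54441004334) (nat_lit 76) (nat_lit 73447988472) (nat_lit 76) (nat_lit 69663218197) (nat_lit 112) (nat_lit 4) (nat_lit 113) (nat_lit 5) (nat_lit 113) (nat_lit 4) (nat_lit 472) (nat_lit 329) (nat_lit 219)) (XT.lf (nat_lit 0) (nat_lit 193068427410) (nat_lit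 76) (nat_lit 7413782537) (nat_lit 76) (nat_lit 3628166925) (nat_lit 112) (nat_lit 4) (nat_lit 113) (nat_lit 5) (nat_lit 113) (nat_lit 4) (nat_lit 473) (nat_lit 329) (nat_lit 218)))) (XT.nd (nat_lit 156) (nat_lit 152) (nat_lit 0) (XT.nd (nat_lit 78) (nat_lit 76) (nat_lit 0) (XT.lf (nat_lit 0) (nat_lit 66634164641) (nat_lit 152) (nat_lit 81131511177) (nat_lit 0) (nat_lit 63028049695) (nat_lit 110) (nat_lit 5) (nat_lit 112) (nat_lit 4) (nat_lit 110) (nat_lit 4) (nat_lit 474) (nat_lit 329) (nat_lit 217)) (XT.lf (nat_lit 0) (nat_lit 61714807733) (nat_lit 76) (nat_lit 79818999448) (nat_lit 76) (nat_lit 76212154268) (nat_lit 109) (nat_lit 4) (nat_lit 110) (nat_lit 5) (nat_lit 110) (nat_lit 4) (nat_lit 475) (nat_lit 329) (nat_lit 216))) (XT.nd (nat_lit 78) (nat_lit 152) (nat_lit 0) (XT.lf (nat_lit 0) (nat_lit 214461687081) (nat_lit 76) (nat_lit 7062195112) (nat_lit 76) (nat_lit 3454654472) (nat_lit 109)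 (nat_lit 4) (nat_lit 110) (nat_lit 5) (nat_lit 110) (nat_lit 4) (nat_lit 476) (nat_lit 329) (nat_lit 215)) (XT.lf (nat_lit 0) (nat_lit 73991965694) (nat_lit 152) (nat_lit 87798962395) (nat_lit 0) (nat_lit 70555581900) (nat_lit 107) (nat_lit 5) (nat_lit 109) (nat_lit 4) (nat_lit 107) (nat_lit 4) (nat_lit 477) (nat_lit 329) (nat_lit 214))))) (XT.nd (nat_lit 312) (nat_lit 228) (nat_lit 0) (XT.nd (nat_lit 156) (nat_lit 228) (nat_lit 0) (XT.nd (nat_lit 78) (nat_lit 0) (nat_lit 0) (XT.lf (nat_lit 0) (nat_lit 69653746505) (nat_lit 76) (nat_lit 86897727765) (nat_lit 76) (nat_lit 83460743206) (nat_lit 106) (nat_lit 4) (nat_lit 107) (nat_lit 5) (nat_lit 107) (nat_lit 4) (nat_lit 478) (nat_lit 329) (nat_lit 213)) (XT.lf (nat_lit 0) (nat_lit 237971594795) (nat_lit 76) (nat_lit 6727092892) (nat_lit 76) (nat_lit 3289536177) (nat_lit 106) (nat_lit 4) (nat_lit 107) (nat_lit 5) (nat_lit 107) (nat_lit 4) (nat_lit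 479) (nat_lit 329) (nat_lit 212))) (XT.nd (nat_lit 78) (nat_lit 76) (nat_lit 0) (XT.lf (nat_lit 0) (nat_lit 82078625632) (nat_lit 152) (nat_lit 95228146300) (nat_lit 0) (nat_lit 78804243130) (nat_lit 104) (nat_lit 5) (nat_lit 106) (nat_lit 4) (nat_lit 104) (nat_lit 4) (nat_lit 480) (nat_lit 329) (nat_lit 211)) (XT.lf (nat_lit 0) (nat_lit 78329788322) (nat_lit 76) (nat_lit 94754185742) (nat_lit 76) (nat_lit 91479308990) (nat_lit 103) (nat_lit 4) (nat_lit 104) (nat_lit 5) (nat_lit 104) (nat_lit 4) (nat_lit 481) (nat_lit 329) (nat_lit 210)))) (XT.nd (nat_lit 156) (nat_lit 76) (nat_lit 0) (XT.nd (nat_lit 78) (nat_lit 152) (nat_lit 0) (XT.lf (nat_lit 0) (nat_lit 263818696857) (nat_lit 76) (nat_lit 6407736443) (nat_lit 76) (nat_lit 3132388976) (nat_lit 103) (nat_lit 4) (nat_lit 104) (nat_lit 5) (nat_lit 104) (nat_lit 4) (nat_lit 482) (nat_lit 329) (nat_lit 209)) (XT.lf (nat_lit 0) (nat_lit 90970090346)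 (nat_lit 152) (nat_lit 103493443363) (nat_lit 0) (nat_lit 87850284853) (nat_lit 101) (nat_lit 5) (nat_lit 103) (nat_lit 4) (nat_lit 101) (nat_lit 4) (nat_lit 483) (nat_lit 329) (nat_lit 208))) (XT.nd (nat_lit 78) (nat_lit 0) (nat_lit 0) (XT.lf (nat_lit 0) (nat_lit 87822103861) (nat_lit 76) (nat_lit 103465668991) (nat_lit 76) (nat_lit 100345456877) (nat_lit 100) (nat_lit 4) (nat_lit 101) (nat_lit 5) (nat_lit 101) (nat_lit 4) (nat_lit 484) (nat_lit 329) (nat_lit 207)) (XT.lf (nat_lit 0) (nat_lit 292245981150) (nat_lit 76) (nat_lit 6103413461) (nat_lit 76) (nat_lit 2982814088) (nat_lit 100) (nat_lit 4) (nat_lit 101) (nat_lit 5) (nat_lit 101) (nat_lit 4) (nat_lit 485) (nat_lit 329) (nat_lit 206)))))))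
noncomputable def xc98 : XT := (XT.nd (nat_lit 43836) (nat_lit 0) (nat_lit 9120) (XT.nd (nat_lit 624) (nat_lit 0) (nat_lit 0) (XT.nd (nat_lit 312) (nat_lit 304) (nat_lit 0) (XT.nd (nat_lit 156) (nat_lit 152) (nat_lit 0) (XT.nd (nat_lit 78) (nat_lit 76) (nat_lit 0) (XT.lf (nat_lit 0) (nat_lit 100750025500) (nat_lit 152) (nat_lit 112677028373) (nat_lit 0) (nat_lit 97777674843) (nat_lit 98) (nat_lit 5) (nat_lit 100) (nat_lit 4) (nat_lit 98) (nat_lit 4) (nat_lit 486) (nat_lit 329) (nat_lit 205)) (XT.lf (nat_lit 0) (nat_lit 98217812166) (nat_lit 76) (nat_lit 113117500225) (nat_lit 76) (nat_lit 110144815039) (nat_lit 97) (nat_lit 4) (nat_lit 98) (nat_lit 5) (nat_lit 98) (nat_lit 4) (nat_lit 487) (nat_lit 329) (nat_lit 204))) (XT.nd (nat_lit 78) (nat_lit 152) (nat_lit 0) (XT.lf (nat_lit 0) (nat_lit 323521184073) (nat_lit 76) (nat_lit 5813438912) (nat_lit 76) (nat_lit 2840435128) (nat_lit 97) (nat_lit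 4) (nat_lit 98) (nat_lit 5) (nat_lit 98) (nat_lit 4) (nat_lit 488) (nat_lit 329) (nat_lit 203)) (XT.lf (nat_lit 0) (nat_lit 111510611905) (nat_lit 152) (nat_lit 122869662260) (nat_lit 0) (nat_lit 108678890752) (nat_lit 95) (nat_lit 5) (nat_lit 97) (nat_lit 4) (nat_lit 95) (nat_lit 4) (nat_lit 489) (nat_lit 329) (nat_lit 202)))) (XT.nd (nat_lit 156) (nat_lit 228) (nat_lit 0) (XT.nd (nat_lit 78) (nat_lit 0) (nat_lit 0) (XT.lf (nat_lit 0) (nat_lit 109612802296) (nat_lit 76) (nat_lit 123803849022) (nat_lit 76) (nat_lit 120971852651) (nat_lit 94) (nat_lit 4) (nat_lit 95) (nat_lit 5) (nat_lit 95) (nat_lit 4) (nat_lit 490) (nat_lit 329) (nat_lit 201)) (XT.lf (nat_lit 0) (nat_lit 357939333822) (nat_lit 76) (nat_lit 5537154917) (nat_lit 76) (nat_lit 2704896435) (nat_lit 94) (nat_lit 4) (nat_lit 95) (nat_lit 5) (nat_lit 95) (nat_lit 4) (nat_lit 491) (nat_lit 329) (nat_lit 200))) (XT.nd (nat_lit 78) (nat_lit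 76) (nat_lit 0) (XT.lf (nat_lit 0) (nat_lit 123353422044) (nat_lit 152) (nat_lit 134171565240) (nat_lit 0) (nat_lit 120655795270) (nat_lit 92) (nat_lit 5) (nat_lit 94) (nat_lit 4) (nat_lit 92) (nat_lit 4) (nat_lit 492) (nat_lit 329) (nat_lit 199)) (XT.lf (nat_lit 0) (nat_lit 122112639026) (nat_lit 76) (nat_lit 135628635417) (nat_lit 76) (nat_lit 132930782221) (nat_lit 91) (nat_lit 4) (nat_lit 92) (nat_lit 5) (nat_lit 92) (nat_lit 4) (nat_lit 493) (nat_lit 329) (nat_lit 198))))) (XT.nd (nat_lit 42900) (nat_lit 0) (nat_lit 12236) (XT.nd (nat_lit 42744) (nat_lit 0) (nat_lit 13224) (XT.nd (nat_lit 42666) (nat_lit 0) (nat_lit 13908) (XT.lf (nat_lit 0) (nat_lit 395825554211) (nat_lit 76) (nat_lit 5273930422) (nat_lit 76) (nat_lit 2575861586) (nat_lit 91) (nat_lit 4) (nat_lit 92) (nat_lit 5) (nat_lit 92) (nat_lit 4) (nat_lit 494) (nat_lit 329) (nat_lit 197)) (XT.lf (nat_lit 0) (nat_lit 1416455241) (nat_lit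 380) (nat_lit 1189983072) (nat_lit 380) (nat_lit 1189983072) (nat_lit 274) (nat_lit 4) (nat_lit 279) (nat_lit 5) (nat_lit 279) (nat_lit 4) (nat_lit 360) (nat_lit 330) (nat_lit 330))) (XT.nd (nat_lit 78) (nat_lit 304) (nat_lit 0) (XT.lf (nat_lit 0) (nat_lit 1394693921) (nat_lit 380) (nat_lit 6262579282) (nat_lit 0) (nat_lit 56208204) (nat_lit 269) (nat_lit 5) (nat_lit 274) (nat_lit 4) (nat_lit 269) (nat_lit 4) (nat_lit 361) (nat_lit 330) (nat_lit 329)) (XT.lf (nat_lit 0) (nat_lit 8260424) (nat_lit 304) (nat_lit 5222764382) (nat_lit 304) (nat_lit 2609530362) (nat_lit 265) (nat_lit 4) (nat_lit 269) (nat_lit 5) (nat_lit 269) (nat_lit 4) (nat_lit 362) (nat_lit 330) (nat_lit 328)))) (XT.nd (nat_lit 156) (nat_lit 608) (nat_lit 0) (XT.nd (nat_lit 78) (nat_lit 304) (nat_lit 0) (XT.lf (nat_lit 0) (nat_lit 1185736230) (nat_lit 380) (nat_lit 1396520749) (nat_lit 76) (nat_lit 5393638331) (nat_lit 264) (nat_lit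 5) (nat_lit 269) (nat_lit 5) (nat_lit 265) (nat_lit 4) (nat_lit 363) (nat_lit 330) (nat_lit 327)) (XT.lf (nat_lit 0) (nat_lit 5011600892) (nat_lit 380) (nat_lit 2842439218) (nat_lit 0) (nat_lit 265396787) (nat_lit 260) (nat_lit 5) (nat_lit 265) (nat_lit 4) (nat_lit 260) (nat_lit 4) (nat_lit 364) (nat_lit 330) (nat_lit 326))) (XT.nd (nat_lit 78) (nat_lit 228) (nat_lit 0) (XT.lf (nat_lit 0) (nat_lit 707137159) (nat_lit 380) (nat_lit 4345311510) (nat_lit 76) (nat_lit 3218474000) (nat_lit 255) (nat_lit 5) (nat_lit 260) (nat_lit 5) (nat_lit 256) (nat_lit 4) (nat_lit 365) (nat_lit 330) (nat_lit 325)) (XT.lf (nat_lit 0) (nat_lit 2521020354) (nat_lit 228) (nat_lit 2022765837) (nat_lit 304) (nat_lit 3886880588) (nat_lit 252) (nat_lit 5) (nat_lit 255) (nat_lit 5) (nat_lit 256) (nat_lit 4) (nat_lit 366) (nat_lit 330) (nat_lit 324)))))) (XT.nd (nat_lit 624) (nat_lit 1520) (nat_lit 0) (XT.nd (nat_lit 312) (nat_lit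 684) (nat_lit 0) (XT.nd (nat_lit 156) (nat_lit 532) (nat_lit 0) (XT.nd (nat_lit 78) (nat_lit 76) (nat_lit 0) (XT.lf (nat_lit 0) (nat_lit 1088121286) (nat_lit 304) (nat_lit 7444221363) (nat_lit 304) (nat_lit 68051697) (nat_lit 248) (nat_lit 4) (nat_lit 252) (nat_lit 5) (nat_lit 252) (nat_lit 4) (nat_lit 367) (nat_lit 330) (nat_lit 323)) (XT.lf (nat_lit 0) (nat_lit 3802096446) (nat_lit 380) (nat_lit 444671777) (nat_lit 76) (nat_lit 4529436132) (nat_lit 247) (nat_lit 5) (nat_lit 252) (nat_lit 5) (nat_lit 248) (nat_lit 4) (nat_lit 368) (nat_lit 330) (nat_lit 322))) (XT.nd (nat_lit 78) (nat_lit 304) (nat_lit 0) (XT.lf (nat_lit 0) (nat_lit 6993631455) (nat_lit 228) (nat_lit 837741749) (nat_lit 304) (nat_lit 1130980472) (nat_lit 244) (nat_lit 5) (nat_lit 247) (nat_lit 5) (nat_lit 248) (nat_lit 4) (nat_lit 369) (nat_lit 330) (nat_lit 321)) (XT.lf (nat_lit 0) (nat_lit 2810350626) (nat_lit 304) (nat_lit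 3613322637) (nat_lit 76) (nat_lit 2731919828) (nat_lit 240) (nat_lit 5) (nat_lit 244) (nat_lit 5) (nat_lit 241) (nat_lit 4) (nat_lit 370) (nat_lit 330) (nat_lit 320)))) (XT.nd (nat_lit 156) (nat_lit 152) (nat_lit 0) (XT.nd (nat_lit 78) (nat_lit 304) (nat_lit 0) (XT.lf (nat_lit 0) (nat_lit 4027248824) (nat_lit 228) (nat_lit 2856467175) (nat_lit 304) (nat_lit 2475202640) (nat_lit 237) (nat_lit 5) (nat_lit 240) (nat_lit 5) (nat_lit 241) (nat_lit 4) (nat_lit 371) (nat_lit 330) (nat_lit 319)) (XT.lf (nat_lit 0) (nat_lit 1516316415) (nat_lit 304) (nat_lit 7139546792) (nat_lit 76) (nat_lit 916366635) (nat_lit 233) (nat_lit 5) (nat_lit 237) (nat_lit 5) (nat_lit 234) (nat_lit 4) (nat_lit 372) (nat_lit 330) (nat_lit 318))) (XT.nd (nat_lit 78) (nat_lit 0) (nat_lit 0) (XT.lf (nat_lit 0) (nat_lit 699766807) (nat_lit 152) (nat_lit 4939715134) (nat_lit 228) (nat_lit 4153933133) (nat_lit 231) (nat_lit 5) (nat_lit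 233) (nat_lit 5) (nat_lit 234) (nat_lit 4) (nat_lit 373) (nat_lit 330) (nat_lit 317)) (XT.lf (nat_lit 0) (nat_lit 8969930356) (nat_lit 152) (nat_lit 988644480) (nat_lit 228) (nat_lit 67596276) (nat_lit 231) (nat_lit 5) (nat_lit 233) (nat_lit 5) (nat_lit 234) (nat_lit 4) (nat_lit 374) (nat_lit 330) (nat_lit 316))))) (XT.nd (nat_lit 312) (nat_lit 684) (nat_lit 0) (XT.nd (nat_lit 156) (nat_lit 380) (nat_lit 0) (XT.nd (nat_lit 78) (nat_lit 152) (nat_lit 0) (XT.lf (nat_lit 0) (nat_lit 4126794868) (nat_lit 304) (nat_lit 2969895777) (nat_lit 76) (nat_lit 3168632536) (nat_lit 227) (nat_lit 5) (nat_lit 231) (nat_lit 5) (nat_lit 228) (nat_lit 4) (nat_lit 375) (nat_lit 330) (nat_lit 315)) (XT.lf (nat_lit 0) (nat_lit 5540566774) (nat_lit 152) (nat_lit 2983751870) (nat_lit 228) (nat_lit 1992274566) (nat_lit 225) (nat_lit 5) (nat_lit 227) (nat_lit 5) (nat_lit 228) (nat_lit 4) (nat_lit 376) (nat_lit 330) (nat_lit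 314))) (XT.nd (nat_lit 78) (nat_lit 152) (nat_lit 0) (XT.lf (nat_lit 0) (nat_lit 2291781650) (nat_lit 228) (nat_lit 7125395880) (nat_lit 76) (nat_lit 1361102597) (nat_lit 222) (nat_lit 5) (nat_lit 225) (nat_lit 5) (nat_lit 223) (nat_lit 4) (nat_lit 377) (nat_lit 330) (nat_lit 313)) (XT.lf (nat_lit 0) (nat_lit 1598075236) (nat_lit 152) (nat_lit 5161630150) (nat_lit 228) (nat_lit 4289882083) (nat_lit 220) (nat_lit 5) (nat_lit 222) (nat_lit 5) (nat_lit 223) (nat_lit 4) (nat_lit 378) (nat_lit 330) (nat_lit 312)))) (XT.nd (nat_lit 156) (nat_lit 456) (nat_lit 0) (XT.nd (nat_lit 78) (nat_lit 152) (nat_lit 0) (XT.lf (nat_lit 0) (nat_lit 113282835) (nat_lit 228) (nat_lit 535101019) (nat_lit 76) (nat_lit 10685962901) (nat_lit 219) (nat_lit 5) (nat_lit 222) (nat_lit 5) (nat_lit 220) (nat_lit 5) (nat_lit 379) (nat_lit 330) (nat_lit 311)) (XT.lf (nat_lit 0) (nat_lit 4680104407) (nat_lit 228) (nat_lit 2853024839)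 (nat_lit 76) (nat_lit 4092315135) (nat_lit 217) (nat_lit 5) (nat_lit 220) (nat_lit 5) (nat_lit 218) (nat_lit 4) (nat_lit 380) (nat_lit 330) (nat_lit 310))) (XT.nd (nat_lit 78) (nat_lit 304) (nat_lit 0) (XT.lf (nat_lit 0) (nat_lit 6635545644) (nat_lit 152) (nat_lit 2848013217) (nat_lit 228) (nat_lit 2447123436) (nat_lit 215) (nat_lit 5) (nat_lit 217) (nat_lit 5) (nat_lit 218) (nat_lit 4) (nat_lit 381) (nat_lit 330) (nat_lit 309)) (XT.nd (nat_lit 78) (nat_lit 76) (nat_lit 0) (XT.lf (nat_lit 0) (nat_lit 2239147971) (nat_lit 228) (nat_lit 7930879242) (nat_lit 76) (nat_lit 2077578638) (nat_lit 212) (nat_lit 5) (nat_lit 215) (nat_lit 5) (nat_lit 213) (nat_lit 4) (nat_lit 382) (nat_lit 330) (nat_lit 308)) (XT.lf (nat_lit 0) (nat_lit 1785037322) (nat_lit 76) (nat_lit 5344653076) (nat_lit 152) (nat_lit 5446069504) (nat_lit 211) (nat_lit 5) (nat_lit 212) (nat_lit 5) (nat_lit 213) (nat_lit 4) (nat_lit 383)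 (nat_lit 330) (nat_lit 307))))))))
noncomputable def xc99 : XT := (XT.nd (nat_lit 2496) (nat_lit 2432) (nat_lit 0) (XT.nd (nat_lit 1248) (nat_lit 1292) (nat_lit 0) (XT.nd (nat_lit 624) (nat_lit 836) (nat_lit 0) (XT.nd (nat_lit 312) (nat_lit 380) (nat_lit 0) (XT.nd (nat_lit 156) (nat_lit 304) (nat_lit 0) (XT.nd (nat_lit 78) (nat_lit 228) (nat_lit 0) (XT.lf (nat_lit 0) (nat_lit 12064387162) (nat_lit 76) (nat_lit 223497309) (nat_lit 152) (nat_lit 631280957) (nat_lit 211) (nat_lit 5) (nat_lit 212) (nat_lit 5) (nat_lit 213) (nat_lit 4) (nat_lit 384) (nat_lit 330) (nat_lit 306)) (XT.lf (nat_lit 0) (nat_lit 4408033248) (nat_lit 228) (nat_lit 3731797431) (nat_lit 76) (nat_lit 5130187318) (nat_lit 208) (nat_lit 5) (nat_lit 211) (nat_lit 5) (nat_lit 209) (nat_lit 4) (nat_lit 385) (nat_lit 330) (nat_lit 305))) (XT.nd (nat_lit 78) (nat_lit 228) (nat_lit 0) (XT.lf (nat_lit 0) (nat_lit 6855291333) (nat_lit 76)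 (nat_lit 2841461889) (nat_lit 152) (nat_lit 3940209770) (nat_lit 207) (nat_lit 5) (nat_lit 208) (nat_lit 5) (nat_lit 209) (nat_lit 4) (nat_lit 386) (nat_lit 330) (nat_lit 304)) (XT.lf (nat_lit 0) (nat_lit 1252184109) (nat_lit 228) (nat_lit 10067029461) (nat_lit 76) (nat_lit 2698892171) (nat_lit 204) (nat_lit 5) (nat_lit 207) (nat_lit 5) (nat_lit 205) (nat_lit 4) (nat_lit 387) (nat_lit 330) (nat_lit 303)))) (XT.nd (nat_lit 156) (nat_lit 304) (nat_lit 0) (XT.nd (nat_lit 78) (nat_lit 0) (nat_lit 0) (XT.lf (nat_lit 0) (nat_lit 760741032) (nat_lit 76) (nat_lit 5880645633) (nat_lit 152) (nat_lit 7770208990) (nat_lit 203) (nat_lit 5) (nat_lit 204) (nat_lit 5) (nat_lit 205) (nat_lit 4) (nat_lit 388) (nat_lit 330) (nat_lit 302)) (XT.lf (nat_lit 0) (nat_lit 12288639334) (nat_lit 76) (nat_lit 78363109) (nat_lit 152) (nat_lit 2454409965) (nat_lit 203) (nat_lit 5) (nat_lit 204) (nat_lit 5) (nat_lit 205) (nat_lit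 4) (nat_lit 389) (nat_lit 330) (nat_lit 301))) (XT.nd (nat_lit 78) (nat_lit 76) (nat_lit 0) (XT.lf (nat_lit 0) (nat_lit 3166262288) (nat_lit 228) (nat_lit 6140922401) (nat_lit 76) (nat_lit 5935135483) (nat_lit 200) (nat_lit 5) (nat_lit 203) (nat_lit 5) (nat_lit 201) (nat_lit 4) (nat_lit 390) (nat_lit 330) (nat_lit 300)) (XT.lf (nat_lit 0) (nat_lit 5676935270) (nat_lit 76) (nat_lit 3342463684) (nat_lit 152) (nat_lit 6661166806) (nat_lit 199) (nat_lit 5) (nat_lit 200) (nat_lit 5) (nat_lit 201) (nat_lit 4) (nat_lit 391) (nat_lit 330) (nat_lit 299))))) (XT.nd (nat_lit 312) (nat_lit 304) (nat_lit 0) (XT.nd (nat_lit 156) (nat_lit 304) (nat_lit 0) (XT.nd (nat_lit 78) (nat_lit 76) (nat_lit 0) (XT.lf (nat_lit 0) (nat_lit 1993685010) (nat_lit 152) (nat_lit 13254902331) (nat_lit 152) (nat_lit 887966541) (nat_lit 197) (nat_lit 4) (nat_lit 199) (nat_lit 5) (nat_lit 199) (nat_lit 4) (nat_lit 392) (nat_lit 330)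 (nat_lit 298)) (XT.lf (nat_lit 0) (nat_lit 5136514173) (nat_lit 228) (nat_lit 1993498960) (nat_lit 76) (nat_lit 9474878461) (nat_lit 196) (nat_lit 5) (nat_lit 199) (nat_lit 5) (nat_lit 197) (nat_lit 4) (nat_lit 393) (nat_lit 330) (nat_lit 297))) (XT.nd (nat_lit 78) (nat_lit 228) (nat_lit 0) (XT.lf (nat_lit 0) (nat_lit 10920745801) (nat_lit 76) (nat_lit 588067664) (nat_lit 152) (nat_lit 5583283082) (nat_lit 195) (nat_lit 5) (nat_lit 196) (nat_lit 5) (nat_lit 197) (nat_lit 4) (nat_lit 394) (nat_lit 330) (nat_lit 296)) (XT.lf (nat_lit 0) (nat_lit 725765162) (nat_lit 228) (nat_lit 10716178407) (nat_lit 76) (nat_lit 6153814016) (nat_lit 192) (nat_lit 5) (nat_lit 195) (nat_lit 5) (nat_lit 193) (nat_lit 4) (nat_lit 395) (nat_lit 330) (nat_lit 295)))) (XT.nd (nat_lit 156) (nat_lit 228) (nat_lit 0) (XT.nd (nat_lit 78) (nat_lit 0) (nat_lit 0) (XT.lf (nat_lit 0) (nat_lit 2476050508) (nat_lit 76) (nat_lit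 4747721364) (nat_lit 152) (nat_lit 10893196293) (nat_lit 191) (nat_lit 5) (nat_lit 192) (nat_lit 5) (nat_lit 193) (nat_lit 4) (nat_lit 396) (nat_lit 330) (nat_lit 294)) (XT.lf (nat_lit 0) (nat_lit 14173770169) (nat_lit 152) (nat_lit 2172476581) (nat_lit 0) (nat_lit 2311637959) (nat_lit 191) (nat_lit 5) (nat_lit 193) (nat_lit 4) (nat_lit 191) (nat_lit 4) (nat_lit 397) (nat_lit 330) (nat_lit 293))) (XT.nd (nat_lit 78) (nat_lit 76) (nat_lit 0) (XT.lf (nat_lit 0) (nat_lit 2354807864) (nat_lit 152) (nat_lit 7145938890) (nat_lit 76) (nat_lit 9714284759) (nat_lit 189) (nat_lit 5) (nat_lit 191) (nat_lit 5) (nat_lit 190) (nat_lit 4) (nat_lit 398) (nat_lit 330) (nat_lit 292)) (XT.lf (nat_lit 0) (nat_lit 7288818964) (nat_lit 76) (nat_lit 2158977773) (nat_lit 152) (nat_lit 10345422615) (nat_lit 188) (nat_lit 5) (nat_lit 189) (nat_lit 5) (nat_lit 190) (nat_lit 4) (nat_lit 399) (nat_lit 330) (nat_lit 291))))))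 (XT.nd (nat_lit 624) (nat_lit 608) (nat_lit 0) (XT.nd (nat_lit 312) (nat_lit 380) (nat_lit 0) (XT.nd (nat_lit 156) (nat_lit 152) (nat_lit 0) (XT.nd (nat_lit 78) (nat_lit 76) (nat_lit 0) (XT.lf (nat_lit 0) (nat_lit 2107299593) (nat_lit 76) (nat_lit 14942642156) (nat_lit 76) (nat_lit 3342649501) (nat_lit 187) (nat_lit 4) (nat_lit 188) (nat_lit 5) (nat_lit 188) (nat_lit 4) (nat_lit 400) (nat_lit 330) (nat_lit 290)) (XT.lf (nat_lit 0) (nat_lit 4044648062) (nat_lit 152) (nat_lit 3399918040) (nat_lit 76) (nat_lit 13566098106) (nat_lit 186) (nat_lit 5) (nat_lit 188) (nat_lit 5) (nat_lit 187) (nat_lit 4) (nat_lit 401) (nat_lit 330) (nat_lit 289))) (XT.nd (nat_lit 78) (nat_lit 76) (nat_lit 0) (XT.lf (nat_lit 0) (nat_lit 11808543797) (nat_lit 152) (nat_lit 9251497344) (nat_lit 0) (nat_lit 590881385) (nat_lit 185) (nat_lit 5) (nat_lit 187) (nat_lit 4) (nat_lit 185) (nat_lit 4) (nat_lit 402) (nat_lit 330)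 (nat_lit 288)) (XT.lf (nat_lit 0) (nat_lit 6715462869) (nat_lit 76) (nat_lit 13447147905) (nat_lit 76) (nat_lit 2150484164) (nat_lit 184) (nat_lit 4) (nat_lit 185) (nat_lit 5) (nat_lit 185) (nat_lit 4) (nat_lit 403) (nat_lit 330) (nat_lit 287)))) (XT.nd (nat_lit 156) (nat_lit 228) (nat_lit 0) (XT.nd (nat_lit 78) (nat_lit 0) (nat_lit 0) (XT.lf (nat_lit 0) (nat_lit 561220084) (nat_lit 76) (nat_lit 5259815616) (nat_lit 152) (nat_lit 17178479205) (nat_lit 182) (nat_lit 5) (nat_lit 183) (nat_lit 5) (nat_lit 184) (nat_lit 4) (nat_lit 404) (nat_lit 330) (nat_lit 286)) (XT.lf (nat_lit 0) (nat_lit 14356368638) (nat_lit 152) (nat_lit 5892508754) (nat_lit 0) (nat_lit 3457740414) (nat_lit 182) (nat_lit 5) (nat_lit 184) (nat_lit 4) (nat_lit 182) (nat_lit 4) (nat_lit 405) (nat_lit 330) (nat_lit 285))) (XT.nd (nat_lit 78) (nat_lit 152) (nat_lit 0) (XT.lf (nat_lit 0) (nat_lit 11610414824) (nat_lit 76) (nat_lit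 11896432445) (nat_lit 76) (nat_lit 932809631) (nat_lit 181) (nat_lit 4) (nat_lit 182) (nat_lit 5) (nat_lit 182) (nat_lit 4) (nat_lit 406) (nat_lit 330) (nat_lit 284)) (XT.lf (nat_lit 0) (nat_lit 4863670605) (nat_lit 76) (nat_lit 2887155261) (nat_lit 152) (nat_lit 17447433260) (nat_lit 179) (nat_lit 5) (nat_lit 180) (nat_lit 5) (nat_lit 181) (nat_lit 4) (nat_lit 407) (nat_lit 330) (nat_lit 283))))) (XT.nd (nat_lit 312) (nat_lit 304) (nat_lit 0) (XT.nd (nat_lit 156) (nat_lit 152) (nat_lit 0) (XT.nd (nat_lit 78) (nat_lit 152) (nat_lit 0) (XT.lf (nat_lit 0) (nat_lit 17081921178) (nat_lit 152) (nat_lit 2374595494) (nat_lit 0) (nat_lit 6525278865) (nat_lit 179) (nat_lit 5) (nat_lit 181) (nat_lit 4) (nat_lit 179) (nat_lit 4) (nat_lit 408) (nat_lit 330) (nat_lit 282)) (XT.lf (nat_lit 0) (nat_lit 311478765) (nat_lit 152) (nat_lit 9971582053) (nat_lit 76) (nat_lit 16509448417) (nat_lit 177) (nat_lit 5) (nat_lit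 179) (nat_lit 5) (nat_lit 178) (nat_lit 4) (nat_lit 409) (nat_lit 330) (nat_lit 281))) (XT.nd (nat_lit 78) (nat_lit 76) (nat_lit 0) (XT.lf (nat_lit 0) (nat_lit 9423476299) (nat_lit 76) (nat_lit 373847984) (nat_lit 152) (nat_lit 17833488411) (nat_lit 176) (nat_lit 5) (nat_lit 177) (nat_lit 5) (nat_lit 178) (nat_lit 4) (nat_lit 410) (nat_lit 330) (nat_lit 280)) (XT.lf (nat_lit 0) (nat_lit 1367633037) (nat_lit 76) (nat_lit 18664609837) (nat_lit 76) (nat_lit 8465049413) (nat_lit 175) (nat_lit 4) (nat_lit 176) (nat_lit 5) (nat_lit 176) (nat_lit 4) (nat_lit 411) (nat_lit 330) (nat_lit 279)))) (XT.nd (nat_lit 156) (nat_lit 152) (nat_lit 0) (XT.nd (nat_lit 78) (nat_lit 76) (nat_lit 0) (XT.lf (nat_lit 0) (nat_lit 1572689471) (nat_lit 152) (nat_lit 7019537903) (nat_lit 76) (nat_lit 20801558370) (nat_lit 174) (nat_lit 5) (nat_lit 176) (nat_lit 5) (nat_lit 175) (nat_lit 4) (nat_lit 412) (nat_lit 330) (nat_lit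 278)) (XT.lf (nat_lit 0) (nat_lit 12015278134) (nat_lit 152) (nat_lit 16083901043) (nat_lit 0) (nat_lit 2219613932) (nat_lit 173) (nat_lit 5) (nat_lit 175) (nat_lit 4) (nat_lit 173) (nat_lit 4) (nat_lit 413) (nat_lit 330) (nat_lit 277))) (XT.nd (nat_lit 78) (nat_lit 76) (nat_lit 0) (XT.lf (nat_lit 0) (nat_lit 5399888928) (nat_lit 76) (nat_lit 17855040230) (nat_lit 76) (nat_lit 8021375039) (nat_lit 172) (nat_lit 4) (nat_lit 173) (nat_lit 5) (nat_lit 173) (nat_lit 4) (nat_lit 414) (nat_lit 330) (nat_lit 276)) (XT.lf (nat_lit 0) (nat_lit 2891914744) (nat_lit 152) (nat_lit 3941431384) (nat_lit 76) (nat_lit 25435885730) (nat_lit 171) (nat_lit 5) (nat_lit 173) (nat_lit 5) (nat_lit 172) (nat_lit 4) (nat_lit 415) (nat_lit 330) (nat_lit 275))))))) (XT.nd (nat_lit 1248) (nat_lit 1216) (nat_lit 0) (XT.nd (nat_lit 624) (nat_lit 608) (nat_lit 0) (XT.nd (nat_lit 312) (nat_lit 304) (nat_lit 0) (XT.nd (nat_lit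 156) (nat_lit 152) (nat_lit 0) (XT.nd (nat_lit 78) (nat_lit 76) (nat_lit 0) (XT.lf (nat_lit 0) (nat_lit 14397364930) (nat_lit 152) (nat_lit 13927387932) (nat_lit 0) (nat_lit 4964674808) (nat_lit 170) (nat_lit 5) (nat_lit 172) (nat_lit 4) (nat_lit 170) (nat_lit 4) (nat_lit 416) (nat_lit 330) (nat_lit 274)) (XT.lf (nat_lit 0) (nat_lit 9671467498) (nat_lit 76) (nat_lit 17069975810) (nat_lit 76) (nat_lit 7606022179) (nat_lit 169) (nat_lit 4) (nat_lit 170) (nat_lit 5) (nat_lit 170) (nat_lit 4) (nat_lit 417) (nat_lit 330) (nat_lit 273))) (XT.nd (nat_lit 78) (nat_lit 76) (nat_lit 0) (XT.lf (nat_lit 0) (nat_lit 4280750000) (nat_lit 152) (nat_lit 718190900) (nat_lit 76) (nat_lit 30447537291) (nat_lit 168) (nat_lit 5) (nat_lit 170) (nat_lit 5) (nat_lit 169) (nat_lit 4) (nat_lit 418) (nat_lit 330) (nat_lit 272)) (XT.lf (nat_lit 0) (nat_lit 16959335423) (nat_lit 152) (nat_lit 11721534587) (nat_lit 0) (nat_lit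 7890682733) (nat_lit 167) (nat_lit 5) (nat_lit 169) (nat_lit 4) (nat_lit 167) (nat_lit 4) (nat_lit 419) (nat_lit 330) (nat_lit 271)))) (XT.nd (nat_lit 156) (nat_lit 76) (nat_lit 0) (XT.nd (nat_lit 78) (nat_lit 152) (nat_lit 0) (XT.lf (nat_lit 0) (nat_lit 14213171343) (nat_lit 76) (nat_lit 16310739939) (nat_lit 76) (nat_lit 7216366683) (nat_lit 166) (nat_lit 4) (nat_lit 167) (nat_lit 5) (nat_lit 167) (nat_lit 4) (nat_lit 420) (nat_lit 330) (nat_lit 270)) (XT.lf (nat_lit 0) (nat_lit 2759642837) (nat_lit 76) (nat_lit 3034753196) (nat_lit 152) (nat_lit 33159479635) (nat_lit 164) (nat_lit 5) (nat_lit 165) (nat_lit 5) (nat_lit 166) (nat_lit 4) (nat_lit 421) (nat_lit 330) (nat_lit 269))) (XT.nd (nat_lit 78) (nat_lit 76) (nat_lit 0) (XT.lf (nat_lit 0) (nat_lit 19724371827) (nat_lit 152) (nat_lit 9454790504) (nat_lit 0) (nat_lit 11017516262) (nat_lit 164) (nat_lit 5) (nat_lit 166) (nat_lit 4) (nat_lit 164)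 (nat_lit 4) (nat_lit 422) (nat_lit 330) (nat_lit 268)) (XT.lf (nat_lit 0) (nat_lit 19059018541) (nat_lit 76) (nat_lit 15578151442) (nat_lit 76) (nat_lit 6850135503) (nat_lit 163) (nat_lit 4) (nat_lit 164) (nat_lit 5) (nat_lit 164) (nat_lit 4) (nat_lit 423) (nat_lit 330) (nat_lit 267))))) (XT.nd (nat_lit 312) (nat_lit 228) (nat_lit 0) (XT.nd (nat_lit 156) (nat_lit 228) (nat_lit 0) (XT.nd (nat_lit 78) (nat_lit 0) (nat_lit 0) (XT.lf (nat_lit 0) (nat_lit 6457090342) (nat_lit 76) (nat_lit 960109178) (nat_lit 152) (nat_lit 35409315863) (nat_lit 161) (nat_lit 5) (nat_lit 162) (nat_lit 5) (nat_lit 163) (nat_lit 4) (nat_lit 424) (nat_lit 330) (nat_lit 266)) (XT.lf (nat_lit 0) (nat_lit 22717508200) (nat_lit 152) (nat_lit 7114432029) (nat_lit 0) (nat_lit 14367639860) (nat_lit 161) (nat_lit 5) (nat_lit 163) (nat_lit 4) (nat_lit 161) (nat_lit 4) (nat_lit 425) (nat_lit 330) (nat_lit 265))) (XT.nd (nat_lit 78)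 (nat_lit 152) (nat_lit 0) (XT.lf (nat_lit 0) (nat_lit 24246506195) (nat_lit 76) (nat_lit 14872626914) (nat_lit 76) (nat_lit 6505349883) (nat_lit 160) (nat_lit 4) (nat_lit 161) (nat_lit 5) (nat_lit 161) (nat_lit 4) (nat_lit 426) (nat_lit 330) (nat_lit 264)) (XT.lf (nat_lit 0) (nat_lit 9170742925) (nat_lit 152) (nat_lit 36744291041) (nat_lit 0) (nat_lit 1186117461) (nat_lit 158) (nat_lit 5) (nat_lit 160) (nat_lit 4) (nat_lit 158) (nat_lit 4) (nat_lit 427) (nat_lit 330) (nat_lit 263)))) (XT.nd (nat_lit 156) (nat_lit 152) (nat_lit 0) (XT.nd (nat_lit 78) (nat_lit 76) (nat_lit 0) (XT.lf (nat_lit 0) (nat_lit 25965898134) (nat_lit 152) (nat_lit 4686494501) (nat_lit 0) (nat_lit 17966234388) (nat_lit 158) (nat_lit 5) (nat_lit 160) (nat_lit 4) (nat_lit 158) (nat_lit 4) (nat_lit 428) (nat_lit 330) (nat_lit 262)) (XT.lf (nat_lit 0) (nat_lit 29816915343) (nat_lit 76) (nat_lit 14194264274) (nat_lit 76) (nat_lit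 6180278354) (nat_lit 157) (nat_lit 4) (nat_lit 158) (nat_lit 5) (nat_lit 158) (nat_lit 4) (nat_lit 429) (nat_lit 330) (nat_lit 261))) (XT.nd (nat_lit 78) (nat_lit 0) (nat_lit 0) (XT.lf (nat_lit 0) (nat_lit 11067898422) (nat_lit 152) (nat_lit 37328420437) (nat_lit 0) (nat_lit 3422540246) (nat_lit 155) (nat_lit 5) (nat_lit 157) (nat_lit 4) (nat_lit 155) (nat_lit 4) (nat_lit 430) (nat_lit 330) (nat_lit 260)) (XT.lf (nat_lit 0) (nat_lit 29499096797) (nat_lit 152) (nat_lit 2155685573) (nat_lit 0) (nat_lit 21841366590) (nat_lit 155) (nat_lit 5) (nat_lit 157) (nat_lit 4) (nat_lit 155) (nat_lit 4) (nat_lit 431) (nat_lit 330) (nat_lit 259)))))) (XT.nd (nat_lit 624) (nat_lit 532) (nat_lit 0) (XT.nd (nat_lit 312) (nat_lit 380) (nat_lit 0) (XT.nd (nat_lit 156) (nat_lit 76) (nat_lit 0) (XT.nd (nat_lit 78) (nat_lit 152) (nat_lit 0) (XT.lf (nat_lit 0) (nat_lit 35815658826) (nat_lit 76) (nat_lit 13542910922) (nat_lit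 76) (nat_lit 5873397827) (nat_lit 154) (nat_lit 4) (nat_lit 155) (nat_lit 5) (nat_lit 155) (nat_lit 4) (nat_lit 432) (nat_lit 330) (nat_lit 258)) (XT.lf (nat_lit 0) (nat_lit 13110176680) (nat_lit 152) (nat_lit 38120197646) (nat_lit 0) (nat_lit 5795191067) (nat_lit 152) (nat_lit 5) (nat_lit 154) (nat_lit 4) (nat_lit 152) (nat_lit 4) (nat_lit 433) (nat_lit 330) (nat_lit 257))) (XT.nd (nat_lit 78) (nat_lit 0) (nat_lit 0) (XT.lf (nat_lit 0) (nat_lit 511077678) (nat_lit 76) (nat_lit 32846262758) (nat_lit 76) (nat_lit 25521098645) (nat_lit 151) (nat_lit 4) (nat_lit 152) (nat_lit 5) (nat_lit 152) (nat_lit 4) (nat_lit 434) (nat_lit 330) (nat_lit 256)) (XT.lf (nat_lit 0) (nat_lit 42292674297) (nat_lit 76) (nat_lit 12918219261) (nat_lit 76) (nat_lit 5583361337) (nat_lit 151) (nat_lit 4) (nat_lit 152) (nat_lit 5) (nat_lit 152) (nat_lit 4) (nat_lit 435) (nat_lit 330) (nat_lit 255)))) (XT.nd (nat_lit 156) (nat_lit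 152) (nat_lit 0) (XT.nd (nat_lit 78) (nat_lit 76) (nat_lit 0) (XT.lf (nat_lit 0) (nat_lit 15315468189) (nat_lit 152) (nat_lit 39134535776) (nat_lit 0) (nat_lit 8321096641) (nat_lit 149) (nat_lit 5) (nat_lit 151) (nat_lit 4) (nat_lit 149) (nat_lit 4) (nat_lit 436) (nat_lit 330) (nat_lit 254)) (XT.lf (nat_lit 0) (nat_lit 3391555132) (nat_lit 76) (nat_lit 34213368145) (nat_lit 76) (nat_lit 27210622719) (nat_lit 148) (nat_lit 4) (nat_lit 149) (nat_lit 5) (nat_lit 149) (nat_lit 4) (nat_lit 437) (nat_lit 330) (nat_lit 253))) (XT.nd (nat_lit 78) (nat_lit 152) (nat_lit 0) (XT.lf (nat_lit 0) (nat_lit 49302865221) (nat_lit 76) (nat_lit 12319691842) (nat_lit 76) (nat_lit 5308971294) (nat_lit 148) (nat_lit 4) (nat_lit 149) (nat_lit 5) (nat_lit 149) (nat_lit 4) (nat_lit 438) (nat_lit 330) (nat_lit 252)) (XT.lf (nat_lit 0) (nat_lit 17703235528) (nat_lit 152) (nat_lit 40388061801) (nat_lit 0) (nat_lit 11019125145)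 (nat_lit 146) (nat_lit 5) (nat_lit 148) (nat_lit 4) (nat_lit 146) (nat_lit 4) (nat_lit 439) (nat_lit 330) (nat_lit 251))))) (XT.nd (nat_lit 312) (nat_lit 228) (nat_lit 0) (XT.nd (nat_lit 156) (nat_lit 228) (nat_lit 0) (XT.nd (nat_lit 78) (nat_lit 0) (nat_lit 0) (XT.lf (nat_lit 0) (nat_lit 6435112280) (nat_lit 76) (nat_lit 35810938147) (nat_lit 76) (nat_lit 29119938554) (nat_lit 145) (nat_lit 4) (nat_lit 146) (nat_lit 5) (nat_lit 146) (nat_lit 4) (nat_lit 440) (nat_lit 330) (nat_lit 250)) (XT.lf (nat_lit 0) (nat_lit 56906593299) (nat_lit 76) (nat_lit 11746718000) (nat_lit 76) (nat_lit 5049157254) (nat_lit 145) (nat_lit 4) (nat_lit 146) (nat_lit 5) (nat_lit 146) (nat_lit 4) (nat_lit 441) (nat_lit 330) (nat_lit 249))) (XT.nd (nat_lit 78) (nat_lit 76) (nat_lit 0) (XT.lf (nat_lit 0) (nat_lit 20294707902) (nat_lit 152) (nat_lit 41899304353) (nat_lit 0) (nat_lit 13910127461) (nat_lit 143) (nat_lit 5)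 (nat_lit 145) (nat_lit 4) (nat_lit 143) (nat_lit 4) (nat_lit 442) (nat_lit 330) (nat_lit 248)) (XT.lf (nat_lit 0) (nat_lit 9664315003) (nat_lit 76) (nat_lit 37659159665) (nat_lit 76) (nat_lit 31268911454) (nat_lit 142) (nat_lit 4) (nat_lit 143) (nat_lit 5) (nat_lit 143) (nat_lit 4) (nat_lit 443) (nat_lit 330) (nat_lit 247)))) (XT.nd (nat_lit 156) (nat_lit 76) (nat_lit 0) (XT.nd (nat_lit 78) (nat_lit 152) (nat_lit 0) (XT.lf (nat_lit 0) (nat_lit 65170226381) (nat_lit 76) (nat_lit 11198603526) (nat_lit 76) (nat_lit 4802957438) (nat_lit 142) (nat_lit 4) (nat_lit 143) (nat_lit 5) (nat_lit 143) (nat_lit 4) (nat_lit 444) (nat_lit 330) (nat_lit 246)) (XT.lf (nat_lit 0) (nat_lit 23113090318) (nat_lit 152) (nat_lit 43688896462) (nat_lit 0) (nat_lit 17017102773) (nat_lit 140) (nat_lit 5) (nat_lit 142) (nat_lit 4) (nat_lit 140) (nat_lit 4) (nat_lit 445) (nat_lit 330) (nat_lit 245))) (XT.nd (nat_lit 78) (nat_lit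 0) (nat_lit 0) (XT.lf (nat_lit 0) (nat_lit 13103842243) (nat_lit 76) (nat_lit 39780298820) (nat_lit 76) (nat_lit 33679648386) (nat_lit 139) (nat_lit 4) (nat_lit 140) (nat_lit 5) (nat_lit 140) (nat_lit 4) (nat_lit 446) (nat_lit 330) (nat_lit 244)) (XT.lf (nat_lit 0) (nat_lit 74166746574) (nat_lit 76) (nat_lit 10674594602) (nat_lit 76) (nat_lit 4569503322) (nat_lit 139) (nat_lit 4) (nat_lit 140) (nat_lit 5) (nat_lit 140) (nat_lit 4) (nat_lit 447) (nat_lit 330) (nat_lit 243))))))))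
noncomputable def xc100 : XT := (XT.nd (nat_lit 2496) (nat_lit 1140) (nat_lit 0) (XT.nd (nat_lit 1248) (nat_lit 1216) (nat_lit 0) (XT.nd (nat_lit 624) (nat_lit 608) (nat_lit 0) (XT.nd (nat_lit 312) (nat_lit 304) (nat_lit 0) (XT.nd (nat_lit 156) (nat_lit 152) (nat_lit 0) (XT.nd (nat_lit 78) (nat_lit 76) (nat_lit 0) (XT.lf (nat_lit 0) (nat_lit 26183789814) (nat_lit 152) (nat_lit 45779795665) (nat_lit 0) (nat_lit 20365389187) (nat_lit 137) (nat_lit 5) (nat_lit 139) (nat_lit 4) (nat_lit 137) (nat_lit 4) (nat_lit 448) (nat_lit 330) (nat_lit 242)) (XT.lf (nat_lit 0) (nat_lit 16780698172) (nat_lit 76) (nat_lit 42198940820) (nat_lit 76) (nat_lit 36376704023) (nat_lit 136) (nat_lit 4) (nat_lit 137) (nat_lit 5) (nat_lit 137) (nat_lit 4) (nat_lit 449) (nat_lit 330) (nat_lit 241))) (XT.nd (nat_lit 78) (nat_lit 152) (nat_lit 0) (XT.lf (nat_lit 0) (nat_lit 83976423895) (nat_lit 76) (nat_lit 10173897080) (nat_lit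 76) (nat_lit 4348006788) (nat_lit 136) (nat_lit 4) (nat_lit 137) (nat_lit 5) (nat_lit 137) (nat_lit 4) (nat_lit 450) (nat_lit 330) (nat_lit 240)) (XT.lf (nat_lit 0) (nat_lit 29534661222) (nat_lit 152) (nat_lit 48197523937) (nat_lit 0) (nat_lit 23982880449) (nat_lit 134) (nat_lit 5) (nat_lit 136) (nat_lit 4) (nat_lit 134) (nat_lit 4) (nat_lit 451) (nat_lit 330) (nat_lit 239)))) (XT.nd (nat_lit 156) (nat_lit 228) (nat_lit 0) (XT.nd (nat_lit 78) (nat_lit 0) (nat_lit 0) (XT.lf (nat_lit 0) (nat_lit 20724448791) (nat_lit 76) (nat_lit 44942248306) (nat_lit 76) (nat_lit 39387311507) (nat_lit 133) (nat_lit 4) (nat_lit 134) (nat_lit 5) (nat_lit 134) (nat_lit 4) (nat_lit 452) (nat_lit 330) (nat_lit 238)) (XT.lf (nat_lit 0) (nat_lit 94687561537) (nat_lit 76) (nat_lit 9695691909) (nat_lit 76) (nat_lit 4137749370) (nat_lit 133) (nat_lit 4) (nat_lit 134) (nat_lit 5) (nat_lit 134) (nat_lit 4) (nat_lit 453) (nat_lit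 330) (nat_lit 237))) (XT.nd (nat_lit 78) (nat_lit 76) (nat_lit 0) (XT.lf (nat_lit 0) (nat_lit 33196275114) (nat_lit 152) (nat_lit 50970430081) (nat_lit 0) (nat_lit 27900270211) (nat_lit 131) (nat_lit 5) (nat_lit 133) (nat_lit 4) (nat_lit 131) (nat_lit 4) (nat_lit 454) (nat_lit 330) (nat_lit 236)) (XT.lf (nat_lit 0) (nat_lit 24967484893) (nat_lit 76) (nat_lit 48040241234) (nat_lit 76) (nat_lit 42741639860) (nat_lit 130) (nat_lit 4) (nat_lit 131) (nat_lit 5) (nat_lit 131) (nat_lit 4) (nat_lit 455) (nat_lit 330) (nat_lit 235))))) (XT.nd (nat_lit 312) (nat_lit 380) (nat_lit 0) (XT.nd (nat_lit 156) (nat_lit 76) (nat_lit 0) (XT.nd (nat_lit 78) (nat_lit 152) (nat_lit 0) (XT.lf (nat_lit 0) (nat_lit 106397319543) (nat_lit 76) (nat_lit 9239147446) (nat_lit 76) (nat_lit 3938073243) (nat_lit 130) (nat_lit 4) (nat_lit 131) (nat_lit 5) (nat_lit 131) (nat_lit 4) (nat_lit 456) (nat_lit 330) (nat_lit 234)) (XT.lf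 (nat_lit 0) (nat_lit 37202210693) (nat_lit 152) (nat_lit 54129977328) (nat_lit 0) (nat_lit 32151325666) (nat_lit 128) (nat_lit 5) (nat_lit 130) (nat_lit 4) (nat_lit 128) (nat_lit 4) (nat_lit 457) (nat_lit 330) (nat_lit 233))) (XT.nd (nat_lit 78) (nat_lit 0) (nat_lit 0) (XT.lf (nat_lit 0) (nat_lit 29545313633) (nat_lit 76) (nat_lit 51526101419) (nat_lit 76) (nat_lit 46473080269) (nat_lit 127) (nat_lit 4) (nat_lit 128) (nat_lit 5) (nat_lit 128) (nat_lit 4) (nat_lit 458) (nat_lit 330) (nat_lit 232)) (XT.lf (nat_lit 0) (nat_lit 119212624489) (nat_lit 76) (nat_lit 8803429199) (nat_lit 76) (nat_lit 3748373646) (nat_lit 127) (nat_lit 4) (nat_lit 128) (nat_lit 5) (nat_lit 128) (nat_lit 4) (nat_lit 459) (nat_lit 330) (nat_lit 231)))) (XT.nd (nat_lit 156) (nat_lit 152) (nat_lit 0) (XT.nd (nat_lit 78) (nat_lit 76) (nat_lit 0) (XT.lf (nat_lit 0) (nat_lit 41589376614) (nat_lit 152) (nat_lit 57711059123) (nat_lit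 0) (nat_lit 36773192728) (nat_lit 125) (nat_lit 5) (nat_lit 127) (nat_lit 4) (nat_lit 125) (nat_lit 4) (nat_lit 460) (nat_lit 330) (nat_lit 230)) (XT.lf (nat_lit 0) (nat_lit 34496881274) (nat_lit 76) (nat_lit 55436505063) (nat_lit 76) (nat_lit 50618563784) (nat_lit 124) (nat_lit 4) (nat_lit 125) (nat_lit 5) (nat_lit 125) (nat_lit 4) (nat_lit 461) (nat_lit 330) (nat_lit 229))) (XT.nd (nat_lit 78) (nat_lit 152) (nat_lit 0) (XT.lf (nat_lit 0) (nat_lit 133251173629) (nat_lit 76) (nat_lit 8387707495) (nat_lit 76) (nat_lit 3568092507) (nat_lit 124) (nat_lit 4) (nat_lit 125) (nat_lit 5) (nat_lit 125) (nat_lit 4) (nat_lit 462) (nat_lit 330) (nat_lit 228)) (XT.lf (nat_lit 0) (nat_lit 46398362946) (nat_lit 152) (nat_lit 61752346288) (nat_lit 0) (nat_lit 41806735331) (nat_lit 122) (nat_lit 5) (nat_lit 124) (nat_lit 4) (nat_lit 122) (nat_lit 4) (nat_lit 463) (nat_lit 330) (nat_lit 227)))))) (XT.nd (nat_lit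 624) (nat_lit 684) (nat_lit 0) (XT.nd (nat_lit 312) (nat_lit 228) (nat_lit 0) (XT.nd (nat_lit 156) (nat_lit 228) (nat_lit 0) (XT.nd (nat_lit 78) (nat_lit 0) (nat_lit 0) (XT.lf (nat_lit 0) (nat_lit 39864929975) (nat_lit 76) (nat_lit 59811986745) (nat_lit 76) (nat_lit 55218913318) (nat_lit 121) (nat_lit 4) (nat_lit 122) (nat_lit 5) (nat_lit 122) (nat_lit 4) (nat_lit 464) (nat_lit 330) (nat_lit 226)) (XT.lf (nat_lit 0) (nat_lit 148642542902) (nat_lit 76) (nat_lit 7991163433) (nat_lit 76) (nat_lit 3396713042) (nat_lit 121) (nat_lit 4) (nat_lit 122) (nat_lit 5) (nat_lit 122) (nat_lit 4) (nat_lit 465) (nat_lit 330) (nat_lit 225))) (XT.nd (nat_lit 78) (nat_lit 76) (nat_lit 0) (XT.lf (nat_lit 0) (nat_lit 51673827758) (nat_lit 152) (nat_lit 66296669037) (nat_lit 0) (nat_lit 47296911773) (nat_lit 119) (nat_lit 5) (nat_lit 121) (nat_lit 4) (nat_lit 119) (nat_lit 4) (nat_lit 466) (nat_lit 330) (nat_lit 224))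 (XT.lf (nat_lit 0) (nat_lit 45696391891) (nat_lit 76) (nat_lit 64697338629) (nat_lit 76) (nat_lit 60319233170) (nat_lit 118) (nat_lit 4) (nat_lit 119) (nat_lit 5) (nat_lit 119) (nat_lit 4) (nat_lit 467) (nat_lit 330) (nat_lit 223)))) (XT.nd (nat_lit 156) (nat_lit 76) (nat_lit 0) (XT.nd (nat_lit 78) (nat_lit 152) (nat_lit 0) (XT.lf (nat_lit 0) (nat_lit 165529409197) (nat_lit 76) (nat_lit 7612993475) (nat_lit 76) (nat_lit 3233755184) (nat_lit 118) (nat_lit 4) (nat_lit 119) (nat_lit 5) (nat_lit 119) (nat_lit 4) (nat_lit 468) (nat_lit 330) (nat_lit 222)) (XT.lf (nat_lit 0) (nat_lit 57464922108) (nat_lit 152) (nat_lit 71391437612) (nat_lit 0) (nat_lit 53293191463) (nat_lit 116) (nat_lit 5) (nat_lit 118) (nat_lit 4) (nat_lit 116) (nat_lit 4) (nat_lit 469) (nat_lit 330) (nat_lit 221))) (XT.nd (nat_lit 78) (nat_lit 0) (nat_lit 0) (XT.lf (nat_lit 0) (nat_lit 52042824187) (nat_lit 76) (nat_lit 70142048919)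 (nat_lit 76) (nat_lit 65969339690) (nat_lit 115) (nat_lit 4) (nat_lit 116) (nat_lit 5) (nat_lit 116) (nat_lit 4) (nat_lit 470) (nat_lit 330) (nat_lit 220)) (XT.lf (nat_lit 0) (nat_lit 184068898419) (nat_lit 76) (nat_lit 7252412899) (nat_lit 76) (nat_lit 3078771687) (nat_lit 115) (nat_lit 4) (nat_lit 116) (nat_lit 5) (nat_lit 116) (nat_lit 4) (nat_lit 471) (nat_lit 330) (nat_lit 219))))) (XT.nd (nat_lit 312) (nat_lit 304) (nat_lit 0) (XT.nd (nat_lit 156) (nat_lit 152) (nat_lit 0) (XT.nd (nat_lit 78) (nat_lit 76) (nat_lit 0) (XT.lf (nat_lit 0) (nat_lit 63825757567) (nat_lit 152) (nat_lit 77089105666) (nat_lit 0) (nat_lit 59850015838) (nat_lit 113) (nat_lit 5) (nat_lit 115) (nat_lit 4) (nat_lit 113) (nat_lit 4) (nat_lit 472) (nat_lit 330) (nat_lit 218)) (XT.lf (nat_lit 0) (nat_lit 58960889007) (nat_lit 76) (nat_lit 76200783917) (nat_lit 76) (nat_lit 72224237106) (nat_lit 112) (nat_lit 4) (nat_lit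 113) (nat_lit 5) (nat_lit 113) (nat_lit 4) (nat_lit 473) (nat_lit 330) (nat_lit 217))) (XT.nd (nat_lit 78) (nat_lit 152) (nat_lit 0) (XT.lf (nat_lit 0) (nat_lit 204434072072) (nat_lit 76) (nat_lit 6908658351) (nat_lit 76) (nat_lit 2931344795) (nat_lit 112) (nat_lit 4) (nat_lit 113) (nat_lit 5) (nat_lit 113) (nat_lit 4) (nat_lit 474) (nat_lit 330) (nat_lit 216)) (XT.lf (nat_lit 0) (nat_lit 70815920810) (nat_lit 152) (nat_lit 83447680904) (nat_lit 0) (nat_lit 67027307678) (nat_lit 110) (nat_lit 5) (nat_lit 112) (nat_lit 4) (nat_lit 110) (nat_lit 4) (nat_lit 475) (nat_lit 330) (nat_lit 215)))) (XT.nd (nat_lit 156) (nat_lit 228) (nat_lit 0) (XT.nd (nat_lit 78) (nat_lit 0) (nat_lit 0) (XT.lf (nat_lit 0) (nat_lit 66512882889) (nat_lit 76) (nat_lit 82933918459) (nat_lit 76) (nat_lit 79144642983) (nat_lit 109) (nat_lit 4) (nat_lit 110) (nat_lit 5) (nat_lit 110) (nat_lit 4) (nat_lit 476) (nat_lit 330) (nat_lit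 214)) (XT.lf (nat_lit 0) (nat_lit 226815566454) (nat_lit 76) (nat_lit 6580989666) (nat_lit 76) (nat_lit 2791083387) (nat_lit 109) (nat_lit 4) (nat_lit 110) (nat_lit 5) (nat_lit 110) (nat_lit 4) (nat_lit 477) (nat_lit 330) (nat_lit 213))) (XT.nd (nat_lit 78) (nat_lit 76) (nat_lit 0) (XT.lf (nat_lit 0) (nat_lit 78501040226) (nat_lit 152) (nat_lit 90531287934) (nat_lit 0) (nat_lit 74891033517) (nat_lit 107) (nat_lit 5) (nat_lit 109) (nat_lit 4) (nat_lit 107) (nat_lit 4) (nat_lit 478) (nat_lit 330) (nat_lit 212)) (XT.lf (nat_lit 0) (nat_lit 74767320563) (nat_lit 76) (nat_lit 90408119891) (nat_lit 76) (nat_lit 86797568271) (nat_lit 106) (nat_lit 4) (nat_lit 107) (nat_lit 5) (nat_lit 107) (nat_lit 4) (nat_lit 479) (nat_lit 330) (nat_lit 211))))))) (XT.nd (nat_lit 43680) (nat_lit 0) (nat_lit 10640) (XT.nd (nat_lit 624) (nat_lit 532) (nat_lit 0) (XT.nd (nat_lit 312) (nat_lit 380) (nat_lit 0) (XT.nd (nat_lit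 156) (nat_lit 76) (nat_lit 0) (XT.nd (nat_lit 78) (nat_lit 152) (nat_lit 0) (XT.lf (nat_lit 0) (nat_lit 251423399995) (nat_lit 76) (nat_lit 6268691097) (nat_lit 76) (nat_lit 2657620514) (nat_lit 106) (nat_lit 4) (nat_lit 107) (nat_lit 5) (nat_lit 107) (nat_lit 4) (nat_lit 480) (nat_lit 330) (nat_lit 210)) (XT.lf (nat_lit 0) (nat_lit 86953409983) (nat_lit 152) (nat_lit 98410788753) (nat_lit 0) (nat_lit 83513824427) (nat_lit 104) (nat_lit 5) (nat_lit 106) (nat_lit 4) (nat_lit 104) (nat_lit 4) (nat_lit 481) (nat_lit 330) (nat_lit 209))) (XT.nd (nat_lit 78) (nat_lit 0) (nat_lit 0) (XT.lf (nat_lit 0) (nat_lit 83799578651) (nat_lit 76) (nat_lit 98696991277) (nat_lit 76) (nat_lit 95256957421) (nat_lit 103) (nat_lit 4) (nat_lit 104) (nat_lit 5) (nat_lit 104) (nat_lit 4) (nat_lit 482) (nat_lit 330) (nat_lit 208)) (XT.lf (nat_lit 0) (nat_lit 278488965902) (nat_lit 76) (nat_lit 5971072073) (nat_lit 76) (nat_lit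 2530611264) (nat_lit 103) (nat_lit 4) (nat_lit 104) (nat_lit 5) (nat_lit 104) (nat_lit 4) (nat_lit 483) (nat_lit 330) (nat_lit 207)))) (XT.nd (nat_lit 156) (nat_lit 152) (nat_lit 0) (XT.nd (nat_lit 78) (nat_lit 76) (nat_lit 0) (XT.lf (nat_lit 0) (nat_lit 96252677550) (nat_lit 152) (nat_lit 107164466855) (nat_lit 0) (nat_lit 92975660951) (nat_lit 101) (nat_lit 5) (nat_lit 103) (nat_lit 4) (nat_lit 101) (nat_lit 4) (nat_lit 484) (nat_lit 330) (nat_lit 206)) (XT.lf (nat_lit 0) (nat_lit 93692605332) (nat_lit 76) (nat_lit 107881780053) (nat_lit 76) (nat_lit 104604394636) (nat_lit 100) (nat_lit 4) (nat_lit 101) (nat_lit 5) (nat_lit 101) (nat_lit 4) (nat_lit 485) (nat_lit 330) (nat_lit 205))) (XT.nd (nat_lit 78) (nat_lit 152) (nat_lit 0) (XT.lf (nat_lit 0) (nat_lit 308267229043) (nat_lit 76) (nat_lit 5687467574) (nat_lit 76) (nat_lit 2409730903) (nat_lit 100) (nat_lit 4) (nat_lit 101) (nat_lit 5) (nat_lit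 101) (nat_lit 4) (nat_lit 486) (nat_lit 330) (nat_lit 204)) (XT.lf (nat_lit 0) (nat_lit 106486601236) (nat_lit 152) (nat_lit 116878781527) (nat_lit 0) (nat_lit 103364628665) (nat_lit 98) (nat_lit 5) (nat_lit 100) (nat_lit 4) (nat_lit 98) (nat_lit 4) (nat_lit 487) (nat_lit 330) (nat_lit 203))))) (XT.nd (nat_lit 312) (nat_lit 228) (nat_lit 0) (XT.nd (nat_lit 156) (nat_lit 228) (nat_lit 0) (XT.nd (nat_lit 78) (nat_lit 0) (nat_lit 0) (XT.lf (nat_lit 0) (nat_lit 104537702680) (nat_lit 76) (nat_lit 118052158969) (nat_lit 76) (nat_lit 114929882971) (nat_lit 97) (nat_lit 4) (nat_lit 98) (nat_lit 5) (nat_lit 98) (nat_lit 4) (nat_lit 488) (nat_lit 330) (nat_lit 202)) (XT.lf (nat_lit 0) (nat_lit 341039147949) (nat_lit 76) (nat_lit 5417238223) (nat_lit 76) (nat_lit 2294673246) (nat_lit 97) (nat_lit 4) (nat_lit 98) (nat_lit 5) (nat_lit 98) (nat_lit 4) (nat_lit 489) (nat_lit 330) (nat_lit 201))) (XT.nd (nat_lit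 78) (nat_lit 76) (nat_lit 0) (XT.lf (nat_lit 0) (nat_lit 117751884998) (nat_lit 152) (nat_lit 127649199560) (nat_lit 0) (nat_lit 114777751480) (nat_lit 95) (nat_lit 5) (nat_lit 97) (nat_lit 4) (nat_lit 95) (nat_lit 4) (nat_lit 490) (nat_lit 330) (nat_lit 200)) (XT.lf (nat_lit 0) (nat_lit 116435389098) (nat_lit 76) (nat_lit 129307086809) (nat_lit 76) (nat_lit 126332703660) (nat_lit 94) (nat_lit 4) (nat_lit 95) (nat_lit 5) (nat_lit 95) (nat_lit 4) (nat_lit 491) (nat_lit 330) (nat_lit 199)))) (XT.nd (nat_lit 156) (nat_lit 76) (nat_lit 0) (XT.nd (nat_lit 78) (nat_lit 152) (nat_lit 0) (XT.lf (nat_lit 0) (nat_lit 377114344977) (nat_lit 76) (nat_lit 5159770125) (nat_lit 76) (nat_lit 2185149234) (nat_lit 94) (nat_lit 4) (nat_lit 95) (nat_lit 5) (nat_lit 95) (nat_lit 4) (nat_lit 492) (nat_lit 330) (nat_lit 198)) (XT.lf (nat_lit 0) (nat_lit 130155098488) (nat_lit 152) (nat_lit 139581112357) (nat_lit 0) (nat_lit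 127321910570) (nat_lit 92) (nat_lit 5) (nat_lit 94) (nat_lit 4) (nat_lit 92) (nat_lit 4) (nat_lit 493) (nat_lit 330) (nat_lit 197))) (XT.nd (nat_lit 42510) (nat_lit 0) (nat_lit 14744) (XT.lf (nat_lit 0) (nat_lit 129496350007) (nat_lit 76) (nat_lit 141755757164) (nat_lit 76) (nat_lit 138922363875) (nat_lit 91) (nat_lit 4) (nat_lit 92) (nat_lit 5) (nat_lit 92) (nat_lit 4) (nat_lit 494) (nat_lit 330) (nat_lit 196)) (XT.lf (nat_lit 0) (nat_lit 2849676858) (nat_lit 456) (nat_lit 418711561) (nat_lit 456) (nat_lit 418711561) (nat_lit 285) (nat_lit 4) (nat_lit 291) (nat_lit 5) (nat_lit 291) (nat_lit 4) (nat_lit 358) (nat_lit 331) (nat_lit 331)))))) (XT.nd (nat_lit 624) (nat_lit 1596) (nat_lit 0) (XT.nd (nat_lit 312) (nat_lit 1292) (nat_lit 0) (XT.nd (nat_lit 156) (nat_lit 380) (nat_lit 0) (XT.nd (nat_lit 78) (nat_lit 380) (nat_lit 0) (XT.lf (nat_lit 0) (nat_lit 2846800331) (nat_lit 456) (nat_lit 3263305402)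 (nat_lit 0) (nat_lit 1371119827) (nat_lit 279) (nat_lit 5) (nat_lit 285) (nat_lit 4) (nat_lit 279) (nat_lit 4) (nat_lit 359) (nat_lit 331) (nat_lit 330)) (XT.lf (nat_lit 0) (nat_lit 2733415154) (nat_lit 380) (nat_lit 3872329377) (nat_lit 380) (nat_lit 991238870) (nat_lit 274) (nat_lit 4) (nat_lit 279) (nat_lit 5) (nat_lit 279) (nat_lit 4) (nat_lit 360) (nat_lit 331) (nat_lit 329))) (XT.nd (nat_lit 78) (nat_lit 0) (nat_lit 0) (XT.lf (nat_lit 0) (nat_lit 1221763858) (nat_lit 304) (nat_lit 1432548377) (nat_lit 380) (nat_lit 5066458757) (nat_lit 269) (nat_lit 5) (nat_lit 273) (nat_lit 5) (nat_lit 274) (nat_lit 4) (nat_lit 361) (nat_lit 331) (nat_lit 328)) (XT.lf (nat_lit 0) (nat_lit 6390025973) (nat_lit 380) (nat_lit 305513688) (nat_lit 0) (nat_lit 1157335948) (nat_lit 269) (nat_lit 5) (nat_lit 274) (nat_lit 4) (nat_lit 269) (nat_lit 4) (nat_lit 362) (nat_lit 331) (nat_lit 327)))) (XT.nd (nat_lit 156)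 (nat_lit 608) (nat_lit 0) (XT.nd (nat_lit 78) (nat_lit 304) (nat_lit 0) (XT.lf (nat_lit 0) (nat_lit 2213533240) (nat_lit 380) (nat_lit 1851181171) (nat_lit 76) (nat_lit 3926715335) (nat_lit 264) (nat_lit 5) (nat_lit 269) (nat_lit 5) (nat_lit 265) (nat_lit 4) (nat_lit 363) (nat_lit 331) (nat_lit 326)) (XT.lf (nat_lit 0) (nat_lit 4713022337) (nat_lit 304) (nat_lit 1239720181) (nat_lit 380) (nat_lit 2186561585) (nat_lit 260) (nat_lit 5) (nat_lit 264) (nat_lit 5) (nat_lit 265) (nat_lit 4) (nat_lit 364) (nat_lit 331) (nat_lit 325))) (XT.nd (nat_lit 78) (nat_lit 228) (nat_lit 0) (XT.lf (nat_lit 0) (nat_lit 1495404912) (nat_lit 380) (nat_lit 5066646986) (nat_lit 76) (nat_lit 1733194799) (nat_lit 255) (nat_lit 5) (nat_lit 260) (nat_lit 5) (nat_lit 256) (nat_lit 4) (nat_lit 365) (nat_lit 331) (nat_lit 324)) (XT.lf (nat_lit 0) (nat_lit 1674518567) (nat_lit 228) (nat_lit 3573277742) (nat_lit 304) (nat_lit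 3211407380) (nat_lit 252) (nat_lit 5) (nat_lit 255) (nat_lit 5) (nat_lit 256) (nat_lit 4) (nat_lit 366) (nat_lit 331) (nat_lit 323))))) (XT.nd (nat_lit 312) (nat_lit 684) (nat_lit 0) (XT.nd (nat_lit 156) (nat_lit 532) (nat_lit 0) (XT.nd (nat_lit 78) (nat_lit 0) (nat_lit 0) (XT.lf (nat_lit 0) (nat_lit 91850257) (nat_lit 304) (nat_lit 391322937) (nat_lit 380) (nat_lit 8150524235) (nat_lit 247) (nat_lit 5) (nat_lit 251) (nat_lit 5) (nat_lit 252) (nat_lit 5) (nat_lit 367) (nat_lit 331) (nat_lit 322)) (XT.lf (nat_lit 0) (nat_lit 4276115564) (nat_lit 380) (nat_lit 1569395010) (nat_lit 76) (nat_lit 2967695126) (nat_lit 247) (nat_lit 5) (nat_lit 252) (nat_lit 5) (nat_lit 248) (nat_lit 4) (nat_lit 368) (nat_lit 331) (nat_lit 321))) (XT.nd (nat_lit 78) (nat_lit 304) (nat_lit 0) (XT.lf (nat_lit 0) (nat_lit 5733139572) (nat_lit 228) (nat_lit 2486936704) (nat_lit 304) (nat_lit 783544547) (nat_lit 244) (nat_lit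 5) (nat_lit 247) (nat_lit 5) (nat_lit 248) (nat_lit 4) (nat_lit 369) (nat_lit 331) (nat_lit 320)) (XT.lf (nat_lit 0) (nat_lit 3032493724) (nat_lit 304) (nat_lit 5081802842) (nat_lit 76) (nat_lit 1088001084) (nat_lit 240) (nat_lit 5) (nat_lit 244) (nat_lit 5) (nat_lit 241) (nat_lit 4) (nat_lit 370) (nat_lit 331) (nat_lit 319)))) (XT.nd (nat_lit 156) (nat_lit 152) (nat_lit 0) (XT.nd (nat_lit 78) (nat_lit 304) (nat_lit 0) (XT.lf (nat_lit 0) (nat_lit 2409829188) (nat_lit 228) (nat_lit 4606888083) (nat_lit 304) (nat_lit 2393363019) (nat_lit 237) (nat_lit 5) (nat_lit 240) (nat_lit 5) (nat_lit 241) (nat_lit 4) (nat_lit 371) (nat_lit 331) (nat_lit 318)) (XT.lf (nat_lit 0) (nat_lit 622200024) (nat_lit 228) (nat_lit 866685876) (nat_lit 304) (nat_lit 8139774244) (nat_lit 233) (nat_lit 5) (nat_lit 236) (nat_lit 5) (nat_lit 237) (nat_lit 5) (nat_lit 372) (nat_lit 331) (nat_lit 317))) (XT.nd (nat_lit 78) (nat_lit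 152) (nat_lit 0) (XT.lf (nat_lit 0) (nat_lit 5525214344) (nat_lit 304) (nat_lit 1274692940) (nat_lit 76) (nat_lit 3054279945) (nat_lit 233) (nat_lit 5) (nat_lit 237) (nat_lit 5) (nat_lit 234) (nat_lit 4) (nat_lit 373) (nat_lit 331) (nat_lit 316)) (XT.lf (nat_lit 0) (nat_lit 6856234224) (nat_lit 152) (nat_lit 2906587743) (nat_lit 228) (nat_lit 328195565) (nat_lit 231) (nat_lit 5) (nat_lit 233) (nat_lit 5) (nat_lit 234) (nat_lit 4) (nat_lit 374) (nat_lit 331) (nat_lit 315))))))))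
noncomputable def xc101 : XT := (XT.nd (nat_lit 2496) (nat_lit 2584) (nat_lit 0) (XT.nd (nat_lit 1248) (nat_lit 1368) (nat_lit 0) (XT.nd (nat_lit 624) (nat_lit 912) (nat_lit 0) (XT.nd (nat_lit 312) (nat_lit 760) (nat_lit 0) (XT.nd (nat_lit 156) (nat_lit 228) (nat_lit 0) (XT.nd (nat_lit 78) (nat_lit 152) (nat_lit 0) (XT.lf (nat_lit 0) (nat_lit 3747801272) (nat_lit 304) (nat_lit 5352469352) (nat_lit 76) (nat_lit 1236439167) (nat_lit 227) (nat_lit 5) (nat_lit 231) (nat_lit 5) (nat_lit 228) (nat_lit 4) (nat_lit 375) (nat_lit 331) (nat_lit 314)) (XT.lf (nat_lit 0) (nat_lit 2980842766) (nat_lit 152) (nat_lit 5066349406) (nat_lit 228) (nat_lit 2545694290) (nat_lit 225) (nat_lit 5) (nat_lit 227) (nat_lit 5) (nat_lit 228) (nat_lit 4) (nat_lit 376) (nat_lit 331) (nat_lit 313))) (XT.nd (nat_lit 78) (nat_lit 0) (nat_lit 0) (XT.lf (nat_lit 0) (nat_lit 862926166) (nat_lit 152) (nat_lit 769483065) (nat_lit 228)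 (nat_lit 9228779450) (nat_lit 222) (nat_lit 5) (nat_lit 224) (nat_lit 5) (nat_lit 225) (nat_lit 5) (nat_lit 377) (nat_lit 331) (nat_lit 312)) (XT.lf (nat_lit 0) (nat_lit 6006272759) (nat_lit 228) (nat_lit 1410221701) (nat_lit 76) (nat_lit 3720704572) (nat_lit 222) (nat_lit 5) (nat_lit 225) (nat_lit 5) (nat_lit 223) (nat_lit 4) (nat_lit 378) (nat_lit 331) (nat_lit 311)))) (XT.nd (nat_lit 156) (nat_lit 380) (nat_lit 0) (XT.nd (nat_lit 78) (nat_lit 228) (nat_lit 0) (XT.lf (nat_lit 0) (nat_lit 7651496455) (nat_lit 152) (nat_lit 2967935669) (nat_lit 228) (nat_lit 806547644) (nat_lit 220) (nat_lit 5) (nat_lit 222) (nat_lit 5) (nat_lit 223) (nat_lit 4) (nat_lit 379) (nat_lit 331) (nat_lit 310)) (XT.lf (nat_lit 0) (nat_lit 3640599568) (nat_lit 228) (nat_lit 6341319559) (nat_lit 76) (nat_lit 1743062337) (nat_lit 217) (nat_lit 5) (nat_lit 220) (nat_lit 5) (nat_lit 218) (nat_lit 4) (nat_lit 380) (nat_lit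 331) (nat_lit 309))) (XT.nd (nat_lit 78) (nat_lit 228) (nat_lit 0) (XT.lf (nat_lit 0) (nat_lit 2936258145) (nat_lit 152) (nat_lit 5396544785) (nat_lit 228) (nat_lit 3702979004) (nat_lit 215) (nat_lit 5) (nat_lit 217) (nat_lit 5) (nat_lit 218) (nat_lit 4) (nat_lit 381) (nat_lit 331) (nat_lit 308)) (XT.lf (nat_lit 0) (nat_lit 346060432) (nat_lit 152) (nat_lit 528146993) (nat_lit 228) (nat_lit 11486942445) (nat_lit 212) (nat_lit 5) (nat_lit 214) (nat_lit 5) (nat_lit 215) (nat_lit 5) (nat_lit 382) (nat_lit 331) (nat_lit 307))))) (XT.nd (nat_lit 312) (nat_lit 532) (nat_lit 0) (XT.nd (nat_lit 156) (nat_lit 304) (nat_lit 0) (XT.nd (nat_lit 78) (nat_lit 76) (nat_lit 0) (XT.lf (nat_lit 0) (nat_lit 5675901867) (nat_lit 228) (nat_lit 2441413987) (nat_lit 76) (nat_lit 4576430466) (nat_lit 212) (nat_lit 5) (nat_lit 215) (nat_lit 5) (nat_lit 213) (nat_lit 4) (nat_lit 383) (nat_lit 331) (nat_lit 306)) (XT.lf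 (nat_lit 0) (nat_lit 7665362773) (nat_lit 76) (nat_lit 3077699887) (nat_lit 152) (nat_lit 2298640850) (nat_lit 211) (nat_lit 5) (nat_lit 212) (nat_lit 5) (nat_lit 213) (nat_lit 4) (nat_lit 384) (nat_lit 331) (nat_lit 305))) (XT.nd (nat_lit 78) (nat_lit 76) (nat_lit 0) (XT.lf (nat_lit 0) (nat_lit 2623278887) (nat_lit 228) (nat_lit 8551270871) (nat_lit 76) (nat_lit 2227845949) (nat_lit 208) (nat_lit 5) (nat_lit 211) (nat_lit 5) (nat_lit 209) (nat_lit 4) (nat_lit 385) (nat_lit 331) (nat_lit 304)) (XT.lf (nat_lit 0) (nat_lit 1783967673) (nat_lit 76) (nat_lit 5999259020) (nat_lit 152) (nat_lit 5992552616) (nat_lit 207) (nat_lit 5) (nat_lit 208) (nat_lit 5) (nat_lit 209) (nat_lit 4) (nat_lit 386) (nat_lit 331) (nat_lit 303)))) (XT.nd (nat_lit 156) (nat_lit 304) (nat_lit 0) (XT.nd (nat_lit 78) (nat_lit 228) (nat_lit 0) (XT.lf (nat_lit 0) (nat_lit 12752260240) (nat_lit 76) (nat_lit 494084527) (nat_lit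 152) (nat_lit 919228680) (nat_lit 207) (nat_lit 5) (nat_lit 208) (nat_lit 5) (nat_lit 209) (nat_lit 4) (nat_lit 387) (nat_lit 331) (nat_lit 302)) (XT.lf (nat_lit 0) (nat_lit 4407581574) (nat_lit 228) (nat_lit 4890973275) (nat_lit 76) (nat_lit 5265816766) (nat_lit 204) (nat_lit 5) (nat_lit 207) (nat_lit 5) (nat_lit 205) (nat_lit 4) (nat_lit 388) (nat_lit 331) (nat_lit 301))) (XT.nd (nat_lit 78) (nat_lit 228) (nat_lit 0) (XT.lf (nat_lit 0) (nat_lit 6386582393) (nat_lit 76) (nat_lit 3619627518) (nat_lit 152) (nat_lit 4974327830) (nat_lit 203) (nat_lit 5) (nat_lit 204) (nat_lit 5) (nat_lit 205) (nat_lit 4) (nat_lit 389) (nat_lit 331) (nat_lit 300)) (XT.lf (nat_lit 0) (nat_lit 523759775) (nat_lit 228) (nat_lit 12560839168) (nat_lit 76) (nat_lit 2328975599) (nat_lit 200) (nat_lit 5) (nat_lit 203) (nat_lit 5) (nat_lit 201) (nat_lit 4) (nat_lit 390) (nat_lit 331) (nat_lit 299)))))) (XT.nd (nat_lit 624)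 (nat_lit 608) (nat_lit 0) (XT.nd (nat_lit 312) (nat_lit 380) (nat_lit 0) (XT.nd (nat_lit 156) (nat_lit 304) (nat_lit 0) (XT.nd (nat_lit 78) (nat_lit 76) (nat_lit 0) (XT.lf (nat_lit 0) (nat_lit 6241992093) (nat_lit 228) (nat_lit 1010912908) (nat_lit 76) (nat_lit 8605660345) (nat_lit 200) (nat_lit 5) (nat_lit 203) (nat_lit 5) (nat_lit 201) (nat_lit 4) (nat_lit 391) (nat_lit 331) (nat_lit 298)) (XT.lf (nat_lit 0) (nat_lit 11310143201) (nat_lit 76) (nat_lit 1022236306) (nat_lit 152) (nat_lit 3989114011) (nat_lit 199) (nat_lit 5) (nat_lit 200) (nat_lit 5) (nat_lit 201) (nat_lit 4) (nat_lit 392) (nat_lit 331) (nat_lit 297))) (XT.nd (nat_lit 78) (nat_lit 76) (nat_lit 0) (XT.lf (nat_lit 0) (nat_lit 1990622992) (nat_lit 228) (nat_lit 9374129547) (nat_lit 76) (nat_lit 5434699560) (nat_lit 196) (nat_lit 5) (nat_lit 199) (nat_lit 5) (nat_lit 197) (nat_lit 4) (nat_lit 393) (nat_lit 331) (nat_lit 296)) (XT.lf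 (nat_lit 0) (nat_lit 3210856347) (nat_lit 76) (nat_lit 4987991489) (nat_lit 152) (nat_lit 9096012940) (nat_lit 195) (nat_lit 5) (nat_lit 196) (nat_lit 5) (nat_lit 197) (nat_lit 4) (nat_lit 394) (nat_lit 331) (nat_lit 295)))) (XT.nd (nat_lit 156) (nat_lit 152) (nat_lit 0) (XT.nd (nat_lit 78) (nat_lit 228) (nat_lit 0) (XT.lf (nat_lit 0) (nat_lit 14816357701) (nat_lit 152) (nat_lit 1255381557) (nat_lit 0) (nat_lit 1738356939) (nat_lit 195) (nat_lit 5) (nat_lit 197) (nat_lit 4) (nat_lit 195) (nat_lit 4) (nat_lit 395) (nat_lit 331) (nat_lit 294)) (XT.lf (nat_lit 0) (nat_lit 3497463650) (nat_lit 228) (nat_lit 6030757268) (nat_lit 76) (nat_lit 8810554035) (nat_lit 192) (nat_lit 5) (nat_lit 195) (nat_lit 5) (nat_lit 193) (nat_lit 4) (nat_lit 396) (nat_lit 331) (nat_lit 293))) (XT.nd (nat_lit 78) (nat_lit 76) (nat_lit 0) (XT.lf (nat_lit 0) (nat_lit 7736869704) (nat_lit 76) (nat_lit 2533446587) (nat_lit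 152) (nat_lit 8618232490) (nat_lit 191) (nat_lit 5) (nat_lit 192) (nat_lit 5) (nat_lit 193) (nat_lit 4) (nat_lit 397) (nat_lit 331) (nat_lit 292)) (XT.lf (nat_lit 0) (nat_lit 2792079932) (nat_lit 76) (nat_lit 14727907245) (nat_lit 76) (nat_lit 1938915343) (nat_lit 190) (nat_lit 4) (nat_lit 191) (nat_lit 5) (nat_lit 191) (nat_lit 4) (nat_lit 398) (nat_lit 331) (nat_lit 291))))) (XT.nd (nat_lit 312) (nat_lit 228) (nat_lit 0) (XT.nd (nat_lit 156) (nat_lit 228) (nat_lit 0) (XT.nd (nat_lit 78) (nat_lit 76) (nat_lit 0) (XT.lf (nat_lit 0) (nat_lit 5061273744) (nat_lit 152) (nat_lit 2514208665) (nat_lit 76) (nat_lit 12470864405) (nat_lit 189) (nat_lit 5) (nat_lit 191) (nat_lit 5) (nat_lit 190) (nat_lit 4) (nat_lit 399) (nat_lit 331) (nat_lit 290)) (XT.lf (nat_lit 0) (nat_lit 12463829928) (nat_lit 152) (nat_lit 8095511106) (nat_lit 0) (nat_lit 96357118) (nat_lit 188) (nat_lit 5) (nat_lit 190) (nat_lit 4)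 (nat_lit 188) (nat_lit 4) (nat_lit 400) (nat_lit 331) (nat_lit 289))) (XT.nd (nat_lit 78) (nat_lit 152) (nat_lit 0) (XT.lf (nat_lit 0) (nat_lit 7130756342) (nat_lit 76) (nat_lit 13304692863) (nat_lit 76) (nat_lit 850121088) (nat_lit 187) (nat_lit 4) (nat_lit 188) (nat_lit 5) (nat_lit 188) (nat_lit 4) (nat_lit 401) (nat_lit 331) (nat_lit 288)) (XT.lf (nat_lit 0) (nat_lit 1234569051) (nat_lit 76) (nat_lit 5483524715) (nat_lit 152) (nat_lit 15219542988) (nat_lit 185) (nat_lit 5) (nat_lit 186) (nat_lit 5) (nat_lit 187) (nat_lit 4) (nat_lit 402) (nat_lit 331) (nat_lit 287)))) (XT.nd (nat_lit 156) (nat_lit 76) (nat_lit 0) (XT.nd (nat_lit 78) (nat_lit 152) (nat_lit 0) (XT.lf (nat_lit 0) (nat_lit 14842937996) (nat_lit 152) (nat_lit 4941131928) (nat_lit 0) (nat_lit 2827200378) (nat_lit 185) (nat_lit 5) (nat_lit 187) (nat_lit 4) (nat_lit 185) (nat_lit 4) (nat_lit 403) (nat_lit 331) (nat_lit 286)) (XT.lf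 (nat_lit 0) (nat_lit 254525772) (nat_lit 152) (nat_lit 11565616317) (nat_lit 76) (nat_lit 11488357098) (nat_lit 183) (nat_lit 5) (nat_lit 185) (nat_lit 5) (nat_lit 184) (nat_lit 4) (nat_lit 404) (nat_lit 331) (nat_lit 285))) (XT.nd (nat_lit 78) (nat_lit 0) (nat_lit 0) (XT.lf (nat_lit 0) (nat_lit 5288881967) (nat_lit 76) (nat_lit 3220640196) (nat_lit 152) (nat_lit 15520096752) (nat_lit 182) (nat_lit 5) (nat_lit 183) (nat_lit 5) (nat_lit 184) (nat_lit 4) (nat_lit 405) (nat_lit 331) (nat_lit 284)) (XT.lf (nat_lit 0) (nat_lit 17391689875) (nat_lit 152) (nat_lit 1631391957) (nat_lit 0) (nat_lit 5752991724) (nat_lit 182) (nat_lit 5) (nat_lit 184) (nat_lit 4) (nat_lit 182) (nat_lit 4) (nat_lit 406) (nat_lit 331) (nat_lit 283))))))) (XT.nd (nat_lit 1248) (nat_lit 1216) (nat_lit 0) (XT.nd (nat_lit 624) (nat_lit 684) (nat_lit 0) (XT.nd (nat_lit 312) (nat_lit 304) (nat_lit 0) (XT.nd (nat_lit 156) (nat_lit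 152) (nat_lit 0) (XT.nd (nat_lit 78) (nat_lit 76) (nat_lit 0) (XT.lf (nat_lit 0) (nat_lit 1366354552) (nat_lit 152) (nat_lit 8896623325) (nat_lit 76) (nat_lit 15283703658) (nat_lit 180) (nat_lit 5) (nat_lit 182) (nat_lit 5) (nat_lit 181) (nat_lit 4) (nat_lit 407) (nat_lit 331) (nat_lit 282)) (XT.lf (nat_lit 0) (nat_lit 9592114176) (nat_lit 76) (nat_lit 820524410) (nat_lit 152) (nat_lit 15931819924) (nat_lit 179) (nat_lit 5) (nat_lit 180) (nat_lit 5) (nat_lit 181) (nat_lit 4) (nat_lit 408) (nat_lit 331) (nat_lit 281))) (XT.nd (nat_lit 78) (nat_lit 76) (nat_lit 0) (XT.lf (nat_lit 0) (nat_lit 1915067796) (nat_lit 76) (nat_lit 18249697735) (nat_lit 76) (nat_lit 7004682367) (nat_lit 178) (nat_lit 4) (nat_lit 179) (nat_lit 5) (nat_lit 179) (nat_lit 4) (nat_lit 409) (nat_lit 331) (nat_lit 280)) (XT.lf (nat_lit 0) (nat_lit 2523394929) (nat_lit 152) (nat_lit 6120555725) (nat_lit 76) (nat_lit 19378366931)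 (nat_lit 177) (nat_lit 5) (nat_lit 179) (nat_lit 5) (nat_lit 178) (nat_lit 4) (nat_lit 410) (nat_lit 331) (nat_lit 279)))) (XT.nd (nat_lit 156) (nat_lit 152) (nat_lit 0) (XT.nd (nat_lit 78) (nat_lit 76) (nat_lit 0) (XT.lf (nat_lit 0) (nat_lit 12472743468) (nat_lit 152) (nat_lit 14757308527) (nat_lit 0) (nat_lit 1673023685) (nat_lit 176) (nat_lit 5) (nat_lit 178) (nat_lit 4) (nat_lit 176) (nat_lit 4) (nat_lit 411) (nat_lit 331) (nat_lit 278)) (XT.lf (nat_lit 0) (nat_lit 5720050624) (nat_lit 76) (nat_lit 17468006035) (nat_lit 76) (nat_lit 6626390161) (nat_lit 175) (nat_lit 4) (nat_lit 176) (nat_lit 5) (nat_lit 176) (nat_lit 4) (nat_lit 412) (nat_lit 331) (nat_lit 277))) (XT.nd (nat_lit 78) (nat_lit 76) (nat_lit 0) (XT.lf (nat_lit 0) (nat_lit 3736577679) (nat_lit 152) (nat_lit 3221532669) (nat_lit 76) (nat_lit 23801101997) (nat_lit 174) (nat_lit 5) (nat_lit 176) (nat_lit 5) (nat_lit 175) (nat_lit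 4) (nat_lit 413) (nat_lit 331) (nat_lit 276)) (XT.lf (nat_lit 0) (nat_lit 14697461487) (nat_lit 152) (nat_lit 12735279678) (nat_lit 0) (nat_lit 4297920627) (nat_lit 173) (nat_lit 5) (nat_lit 175) (nat_lit 4) (nat_lit 173) (nat_lit 4) (nat_lit 414) (nat_lit 331) (nat_lit 275))))) (XT.nd (nat_lit 312) (nat_lit 380) (nat_lit 0) (XT.nd (nat_lit 156) (nat_lit 152) (nat_lit 0) (XT.nd (nat_lit 78) (nat_lit 76) (nat_lit 0) (XT.lf (nat_lit 0) (nat_lit 9755718882) (nat_lit 76) (nat_lit 16708052312) (nat_lit 76) (nat_lit 6274043434) (nat_lit 172) (nat_lit 4) (nat_lit 173) (nat_lit 5) (nat_lit 173) (nat_lit 4) (nat_lit 415) (nat_lit 331) (nat_lit 274)) (XT.lf (nat_lit 0) (nat_lit 5017118222) (nat_lit 152) (nat_lit 181743205) (nat_lit 76) (nat_lit 28584801637) (nat_lit 171) (nat_lit 5) (nat_lit 173) (nat_lit 5) (nat_lit 172) (nat_lit 4) (nat_lit 416) (nat_lit 331) (nat_lit 273))) (XT.nd (nat_lit 78) (nat_lit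 76) (nat_lit 0) (XT.lf (nat_lit 0) (nat_lit 17094686439) (nat_lit 152) (nat_lit 10663843102) (nat_lit 0) (nat_lit 7096496849) (nat_lit 170) (nat_lit 5) (nat_lit 172) (nat_lit 4) (nat_lit 170) (nat_lit 4) (nat_lit 417) (nat_lit 331) (nat_lit 272)) (XT.lf (nat_lit 0) (nat_lit 14051085515) (nat_lit 76) (nat_lit 15971546955) (nat_lit 76) (nat_lit 5945000441) (nat_lit 169) (nat_lit 4) (nat_lit 170) (nat_lit 5) (nat_lit 170) (nat_lit 4) (nat_lit 418) (nat_lit 331) (nat_lit 271)))) (XT.nd (nat_lit 156) (nat_lit 228) (nat_lit 0) (XT.nd (nat_lit 78) (nat_lit 0) (nat_lit 0) (XT.lf (nat_lit 0) (nat_lit 3118452088) (nat_lit 76) (nat_lit 3306916300) (nat_lit 152) (nat_lit 30696904668) (nat_lit 167) (nat_lit 5) (nat_lit 168) (nat_lit 5) (nat_lit 169) (nat_lit 4) (nat_lit 419) (nat_lit 331) (nat_lit 270)) (XT.lf (nat_lit 0) (nat_lit 19686600109) (nat_lit 152) (nat_lit 8532273527) (nat_lit 0) (nat_lit 10087291848)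 (nat_lit 167) (nat_lit 5) (nat_lit 169) (nat_lit 4) (nat_lit 167) (nat_lit 4) (nat_lit 420) (nat_lit 331) (nat_lit 269))) (XT.nd (nat_lit 78) (nat_lit 152) (nat_lit 0) (XT.lf (nat_lit 0) (nat_lit 18638275154) (nat_lit 76) (nat_lit 15259632130) (nat_lit 76) (nat_lit 5636994557) (nat_lit 166) (nat_lit 4) (nat_lit 167) (nat_lit 5) (nat_lit 167) (nat_lit 4) (nat_lit 421) (nat_lit 331) (nat_lit 268)) (XT.lf (nat_lit 0) (nat_lit 6613256444) (nat_lit 76) (nat_lit 1317530096) (nat_lit 152) (nat_lit 32878449377) (nat_lit 164) (nat_lit 5) (nat_lit 165) (nat_lit 5) (nat_lit 166) (nat_lit 4) (nat_lit 422) (nat_lit 331) (nat_lit 267)))))) (XT.nd (nat_lit 624) (nat_lit 684) (nat_lit 0) (XT.nd (nat_lit 312) (nat_lit 304) (nat_lit 0) (XT.nd (nat_lit 156) (nat_lit 152) (nat_lit 0) (XT.nd (nat_lit 78) (nat_lit 76) (nat_lit 0) (XT.lf (nat_lit 0) (nat_lit 22497114628) (nat_lit 152) (nat_lit 6328686902) (nat_lit 0)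 (nat_lit 13291384783) (nat_lit 164) (nat_lit 5) (nat_lit 166) (nat_lit 4) (nat_lit 164) (nat_lit 4) (nat_lit 423) (nat_lit 331) (nat_lit 266)) (XT.lf (nat_lit 0) (nat_lit 23552766739) (nat_lit 76) (nat_lit 14572995139) (nat_lit 76) (nat_lit 5348072212) (nat_lit 163) (nat_lit 4) (nat_lit 164) (nat_lit 5) (nat_lit 164) (nat_lit 4) (nat_lit 424) (nat_lit 331) (nat_lit 265))) (XT.nd (nat_lit 78) (nat_lit 0) (nat_lit 0) (XT.lf (nat_lit 0) (nat_lit 9556007948) (nat_lit 152) (nat_lit 34570477408) (nat_lit 0) (nat_lit 752958374) (nat_lit 161) (nat_lit 5) (nat_lit 163) (nat_lit 4) (nat_lit 161) (nat_lit 4) (nat_lit 425) (nat_lit 331) (nat_lit 264)) (XT.lf (nat_lit 0) (nat_lit 25552134035) (nat_lit 152) (nat_lit 4039982782) (nat_lit 0) (nat_lit 16732504755) (nat_lit 161) (nat_lit 5) (nat_lit 163) (nat_lit 4) (nat_lit 161) (nat_lit 4) (nat_lit 426) (nat_lit 331) (nat_lit 263)))) (XT.nd (nat_lit 156) (nat_lit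 76) (nat_lit 0) (XT.nd (nat_lit 78) (nat_lit 152) (nat_lit 0) (XT.lf (nat_lit 0) (nat_lit 28833677017) (nat_lit 76) (nat_lit 13911961092) (nat_lit 76) (nat_lit 5076541616) (nat_lit 160) (nat_lit 4) (nat_lit 161) (nat_lit 5) (nat_lit 161) (nat_lit 4) (nat_lit 427) (nat_lit 331) (nat_lit 262)) (XT.lf (nat_lit 0) (nat_lit 11325697096) (nat_lit 152) (nat_lit 35149001344) (nat_lit 0) (nat_lit 2896689707) (nat_lit 158) (nat_lit 5) (nat_lit 160) (nat_lit 4) (nat_lit 158) (nat_lit 4) (nat_lit 428) (nat_lit 331) (nat_lit 261))) (XT.nd (nat_lit 78) (nat_lit 76) (nat_lit 0) (XT.lf (nat_lit 0) (nat_lit 28879828302) (nat_lit 152) (nat_lit 1651767560) (nat_lit 0) (nat_lit 20437180748) (nat_lit 158) (nat_lit 5) (nat_lit 160) (nat_lit 4) (nat_lit 158) (nat_lit 4) (nat_lit 429) (nat_lit 331) (nat_lit 260)) (XT.lf (nat_lit 0) (nat_lit 34524086136) (nat_lit 76) (nat_lit 13276568558) (nat_lit 76) (nat_lit 4820930371)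 (nat_lit 157) (nat_lit 4) (nat_lit 158) (nat_lit 5) (nat_lit 158) (nat_lit 4) (nat_lit 430) (nat_lit 331) (nat_lit 259))))) (XT.nd (nat_lit 312) (nat_lit 304) (nat_lit 0) (XT.nd (nat_lit 156) (nat_lit 152) (nat_lit 0) (XT.nd (nat_lit 78) (nat_lit 76) (nat_lit 0) (XT.lf (nat_lit 0) (nat_lit 13235008910) (nat_lit 152) (nat_lit 35923870099) (nat_lit 0) (nat_lit 5170237272) (nat_lit 155) (nat_lit 5) (nat_lit 157) (nat_lit 4) (nat_lit 155) (nat_lit 4) (nat_lit 431) (nat_lit 331) (nat_lit 258)) (XT.lf (nat_lit 0) (nat_lit 879903370) (nat_lit 76) (nat_lit 31644757994) (nat_lit 76) (nat_lit 23568764558) (nat_lit 154) (nat_lit 4) (nat_lit 155) (nat_lit 5) (nat_lit 155) (nat_lit 4) (nat_lit 432) (nat_lit 331) (nat_lit 257))) (XT.nd (nat_lit 78) (nat_lit 152) (nat_lit 0) (XT.lf (nat_lit 0) (nat_lit 40671407250) (nat_lit 76) (nat_lit 12666631275) (nat_lit 76) (nat_lit 4579950414) (nat_lit 154) (nat_lit 4)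 (nat_lit 155) (nat_lit 5) (nat_lit 155) (nat_lit 4) (nat_lit 433) (nat_lit 331) (nat_lit 256)) (XT.lf (nat_lit 0) (nat_lit 15300978145) (nat_lit 152) (nat_lit 36909417372) (nat_lit 0) (nat_lit 7589683514) (nat_lit 152) (nat_lit 5) (nat_lit 154) (nat_lit 4) (nat_lit 152) (nat_lit 4) (nat_lit 434) (nat_lit 331) (nat_lit 255)))) (XT.nd (nat_lit 156) (nat_lit 228) (nat_lit 0) (XT.nd (nat_lit 78) (nat_lit 0) (nat_lit 0) (XT.lf (nat_lit 0) (nat_lit 3603150909) (nat_lit 76) (nat_lit 32932116969) (nat_lit 76) (nat_lit 25211590137) (nat_lit 151) (nat_lit 4) (nat_lit 152) (nat_lit 5) (nat_lit 152) (nat_lit 4) (nat_lit 435) (nat_lit 331) (nat_lit 254)) (XT.lf (nat_lit 0) (nat_lit 47327802628) (nat_lit 76) (nat_lit 12081788388) (nat_lit 76) (nat_lit 4352468984) (nat_lit 151) (nat_lit 4) (nat_lit 152) (nat_lit 5) (nat_lit 152) (nat_lit 4) (nat_lit 436) (nat_lit 331) (nat_lit 253))) (XT.nd (nat_lit 78) (nat_lit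 76) (nat_lit 0) (XT.lf (nat_lit 0) (nat_lit 17542125732) (nat_lit 152) (nat_lit 38121591663) (nat_lit 0) (nat_lit 10172894035) (nat_lit 149) (nat_lit 5) (nat_lit 151) (nat_lit 4) (nat_lit 149) (nat_lit 4) (nat_lit 437) (nat_lit 331) (nat_lit 252)) (XT.lf (nat_lit 0) (nat_lit 6482905873) (nat_lit 76) (nat_lit 34439198855) (nat_lit 76) (nat_lit 27062371803) (nat_lit 148) (nat_lit 4) (nat_lit 149) (nat_lit 5) (nat_lit 149) (nat_lit 4) (nat_lit 438) (nat_lit 331) (nat_lit 251))))))))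
noncomputable def xc102 : XT := (XT.nd (nat_lit 1248) (nat_lit 1292) (nat_lit 0) (XT.nd (nat_lit 624) (nat_lit 532) (nat_lit 0) (XT.nd (nat_lit 312) (nat_lit 380) (nat_lit 0) (XT.nd (nat_lit 156) (nat_lit 76) (nat_lit 0) (XT.nd (nat_lit 78) (nat_lit 152) (nat_lit 0) (XT.lf (nat_lit 0) (nat_lit 54550649420) (nat_lit 76) (nat_lit 11521545294) (nat_lit 76) (nat_lit 4137484571) (nat_lit 148) (nat_lit 4) (nat_lit 149) (nat_lit 5) (nat_lit 149) (nat_lit 4) (nat_lit 439) (nat_lit 331) (nat_lit 250)) (XT.lf (nat_lit 0) (nat_lit 19978646569) (nat_lit 152) (nat_lit 39578137932) (nat_lit 0) (nat_lit 12939646633) (nat_lit 146) (nat_lit 5) (nat_lit 148) (nat_lit 4) (nat_lit 146) (nat_lit 4) (nat_lit 440) (nat_lit 331) (nat_lit 249))) (XT.nd (nat_lit 78) (nat_lit 0) (nat_lit 0) (XT.lf (nat_lit 0) (nat_lit 9540560548) (nat_lit 76) (nat_lit 36185300564) (nat_lit 76) (nat_lit 29140051911) (nat_lit 145) (nat_lit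 4) (nat_lit 146) (nat_lit 5) (nat_lit 146) (nat_lit 4) (nat_lit 441) (nat_lit 331) (nat_lit 248)) (XT.lf (nat_lit 0) (nat_lit 62403058825) (nat_lit 76) (nat_lit 10985306766) (nat_lit 76) (nat_lit 3934106954) (nat_lit 145) (nat_lit 4) (nat_lit 146) (nat_lit 5) (nat_lit 146) (nat_lit 4) (nat_lit 442) (nat_lit 331) (nat_lit 247)))) (XT.nd (nat_lit 156) (nat_lit 152) (nat_lit 0) (XT.nd (nat_lit 78) (nat_lit 76) (nat_lit 0) (XT.lf (nat_lit 0) (nat_lit 22632610782) (nat_lit 152) (nat_lit 41298793032) (nat_lit 0) (nat_lit 15911784513) (nat_lit 143) (nat_lit 5) (nat_lit 145) (nat_lit 4) (nat_lit 143) (nat_lit 4) (nat_lit 443) (nat_lit 331) (nat_lit 246)) (XT.lf (nat_lit 0) (nat_lit 12799531864) (nat_lit 76) (nat_lit 38191681217) (nat_lit 76) (nat_lit 31465714114) (nat_lit 142) (nat_lit 4) (nat_lit 143) (nat_lit 5) (nat_lit 143) (nat_lit 4) (nat_lit 444) (nat_lit 331) (nat_lit 245))) (XT.nd (nat_lit 78)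 (nat_lit 152) (nat_lit 0) (XT.lf (nat_lit 0) (nat_lit 70954453044) (nat_lit 76) (nat_lit 10472403767) (nat_lit 76) (nat_lit 3741540631) (nat_lit 142) (nat_lit 4) (nat_lit 143) (nat_lit 5) (nat_lit 143) (nat_lit 4) (nat_lit 445) (nat_lit 331) (nat_lit 244)) (XT.lf (nat_lit 0) (nat_lit 25528180831) (nat_lit 152) (nat_lit 43305497260) (nat_lit 0) (nat_lit 19113394141) (nat_lit 140) (nat_lit 5) (nat_lit 142) (nat_lit 4) (nat_lit 140) (nat_lit 4) (nat_lit 446) (nat_lit 331) (nat_lit 243))))) (XT.nd (nat_lit 312) (nat_lit 228) (nat_lit 0) (XT.nd (nat_lit 156) (nat_lit 228) (nat_lit 0) (XT.nd (nat_lit 78) (nat_lit 0) (nat_lit 0) (XT.lf (nat_lit 0) (nat_lit 16285461541) (nat_lit 76) (nat_lit 40481794038) (nat_lit 76) (nat_lit 34062777970) (nat_lit 139) (nat_lit 4) (nat_lit 140) (nat_lit 5) (nat_lit 140) (nat_lit 4) (nat_lit 447) (nat_lit 331) (nat_lit 242)) (XT.lf (nat_lit 0) (nat_lit 80281205033) (nat_lit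 76) (nat_lit 9982115072) (nat_lit 76) (nat_lit 3559071025) (nat_lit 139) (nat_lit 4) (nat_lit 140) (nat_lit 5) (nat_lit 140) (nat_lit 4) (nat_lit 448) (nat_lit 331) (nat_lit 241))) (XT.nd (nat_lit 78) (nat_lit 76) (nat_lit 0) (XT.lf (nat_lit 0) (nat_lit 28691846923) (nat_lit 152) (nat_lit 45622624474) (nat_lit 0) (nat_lit 22571008621) (nat_lit 137) (nat_lit 5) (nat_lit 139) (nat_lit 4) (nat_lit 137) (nat_lit 4) (nat_lit 449) (nat_lit 331) (nat_lit 240)) (XT.lf (nat_lit 0) (nat_lit 20026439845) (nat_lit 76) (nat_lit 43081535218) (nat_lit 76) (nat_lit 36957217396) (nat_lit 136) (nat_lit 4) (nat_lit 137) (nat_lit 5) (nat_lit 137) (nat_lit 4) (nat_lit 450) (nat_lit 331) (nat_lit 239)))) (XT.nd (nat_lit 156) (nat_lit 76) (nat_lit 0) (XT.nd (nat_lit 78) (nat_lit 152) (nat_lit 0) (XT.lf (nat_lit 0) (nat_lit 90467346771) (nat_lit 76) (nat_lit 9513684655) (nat_lit 76) (nat_lit 3386053006) (nat_lit 136)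 (nat_lit 4) (nat_lit 137) (nat_lit 5) (nat_lit 137) (nat_lit 4) (nat_lit 451) (nat_lit 331) (nat_lit 238)) (XT.lf (nat_lit 0) (nat_lit 32152683265) (nat_lit 152) (nat_lit 48277233314) (nat_lit 0) (nat_lit 26313837860) (nat_lit 134) (nat_lit 5) (nat_lit 136) (nat_lit 4) (nat_lit 134) (nat_lit 4) (nat_lit 452) (nat_lit 331) (nat_lit 237))) (XT.nd (nat_lit 78) (nat_lit 0) (nat_lit 0) (XT.lf (nat_lit 0) (nat_lit 24053254715) (nat_lit 76) (nat_lit 46019512778) (nat_lit 76) (nat_lit 40177804764) (nat_lit 133) (nat_lit 4) (nat_lit 134) (nat_lit 5) (nat_lit 134) (nat_lit 4) (nat_lit 453) (nat_lit 331) (nat_lit 236)) (XT.lf (nat_lit 0) (nat_lit 101605352456) (nat_lit 76) (nat_lit 9066335607) (nat_lit 76) (nat_lit 3221901298) (nat_lit 133) (nat_lit 4) (nat_lit 134) (nat_lit 5) (nat_lit 134) (nat_lit 4) (nat_lit 454) (nat_lit 331) (nat_lit 235)))))) (XT.nd (nat_lit 624) (nat_lit 608) (nat_lit 0) (XT.nd (nat_lit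 312) (nat_lit 304) (nat_lit 0) (XT.nd (nat_lit 156) (nat_lit 152) (nat_lit 0) (XT.nd (nat_lit 78) (nat_lit 76) (nat_lit 0) (XT.lf (nat_lit 0) (nat_lit 35942627879) (nat_lit 152) (nat_lit 51299342211) (nat_lit 0) (nat_lit 30374027136) (nat_lit 131) (nat_lit 5) (nat_lit 133) (nat_lit 4) (nat_lit 131) (nat_lit 4) (nat_lit 455) (nat_lit 331) (nat_lit 234)) (XT.lf (nat_lit 0) (nat_lit 28399668360) (nat_lit 76) (nat_lit 49327338511) (nat_lit 76) (nat_lit 43756382693) (nat_lit 130) (nat_lit 4) (nat_lit 131) (nat_lit 5) (nat_lit 131) (nat_lit 4) (nat_lit 456) (nat_lit 331) (nat_lit 233))) (XT.nd (nat_lit 78) (nat_lit 152) (nat_lit 0) (XT.lf (nat_lit 0) (nat_lit 113797003827) (nat_lit 76) (nat_lit 8639281214) (nat_lit 76) (nat_lit 3066082466) (nat_lit 130) (nat_lit 4) (nat_lit 131) (nat_lit 5) (nat_lit 131) (nat_lit 4) (nat_lit 457) (nat_lit 331) (nat_lit 232)) (XT.lf (nat_lit 0) (nat_lit 40096788835) (nat_lit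 152) (nat_lit 54722231056) (nat_lit 0) (nat_lit 34786946101) (nat_lit 128) (nat_lit 5) (nat_lit 130) (nat_lit 4) (nat_lit 128) (nat_lit 4) (nat_lit 458) (nat_lit 331) (nat_lit 231)))) (XT.nd (nat_lit 156) (nat_lit 228) (nat_lit 0) (XT.nd (nat_lit 78) (nat_lit 0) (nat_lit 0) (XT.lf (nat_lit 0) (nat_lit 33102723726) (nat_lit 76) (nat_lit 53039946208) (nat_lit 76) (nat_lit 47728165947) (nat_lit 127) (nat_lit 4) (nat_lit 128) (nat_lit 5) (nat_lit 128) (nat_lit 4) (nat_lit 459) (nat_lit 331) (nat_lit 230)) (XT.lf (nat_lit 0) (nat_lit 127154345628) (nat_lit 76) (nat_lit 8231733724) (nat_lit 76) (nat_lit 2918108200) (nat_lit 127) (nat_lit 4) (nat_lit 128) (nat_lit 5) (nat_lit 128) (nat_lit 4) (nat_lit 460) (nat_lit 331) (nat_lit 229))) (XT.nd (nat_lit 78) (nat_lit 76) (nat_lit 0) (XT.lf (nat_lit 0) (nat_lit 44653780005) (nat_lit 152) (nat_lit 58582772596) (nat_lit 0) (nat_lit 39591510559) (nat_lit 125)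 (nat_lit 5) (nat_lit 127) (nat_lit 4) (nat_lit 125) (nat_lit 4) (nat_lit 461) (nat_lit 331) (nat_lit 228)) (XT.lf (nat_lit 0) (nat_lit 38203083539) (nat_lit 76) (nat_lit 57195939584) (nat_lit 76) (nat_lit 52132076130) (nat_lit 124) (nat_lit 4) (nat_lit 125) (nat_lit 5) (nat_lit 125) (nat_lit 4) (nat_lit 462) (nat_lit 331) (nat_lit 227))))) (XT.nd (nat_lit 312) (nat_lit 380) (nat_lit 0) (XT.nd (nat_lit 156) (nat_lit 76) (nat_lit 0) (XT.nd (nat_lit 78) (nat_lit 152) (nat_lit 0) (XT.lf (nat_lit 0) (nat_lit 141800740121) (nat_lit 76) (nat_lit 7842911219) (nat_lit 76) (nat_lit 2777529663) (nat_lit 124) (nat_lit 4) (nat_lit 125) (nat_lit 5) (nat_lit 125) (nat_lit 4) (nat_lit 463) (nat_lit 331) (nat_lit 226)) (XT.lf (nat_lit 0) (nat_lit 49656089670) (nat_lit 152) (nat_lit 62921796900) (nat_lit 0) (nat_lit 44830539795) (nat_lit 122) (nat_lit 5) (nat_lit 124) (nat_lit 4) (nat_lit 122) (nat_lit 4) (nat_lit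 464) (nat_lit 331) (nat_lit 225))) (XT.nd (nat_lit 78) (nat_lit 0) (nat_lit 0) (XT.lf (nat_lit 0) (nat_lit 43745405005) (nat_lit 76) (nat_lit 61837973503) (nat_lit 76) (nat_lit 57011112234) (nat_lit 121) (nat_lit 4) (nat_lit 122) (nat_lit 5) (nat_lit 122) (nat_lit 4) (nat_lit 465) (nat_lit 331) (nat_lit 224)) (XT.lf (nat_lit 0) (nat_lit 157872030552) (nat_lit 76) (nat_lit 7472042958) (nat_lit 76) (nat_lit 2643932743) (nat_lit 121) (nat_lit 4) (nat_lit 122) (nat_lit 5) (nat_lit 122) (nat_lit 4) (nat_lit 466) (nat_lit 331) (nat_lit 223)))) (XT.nd (nat_lit 156) (nat_lit 152) (nat_lit 0) (XT.nd (nat_lit 78) (nat_lit 76) (nat_lit 0) (XT.lf (nat_lit 0) (nat_lit 55150485608) (nat_lit 152) (nat_lit 67784492494) (nat_lit 0) (nat_lit 50551152571) (nat_lit 119) (nat_lit 5) (nat_lit 121) (nat_lit 4) (nat_lit 119) (nat_lit 4) (nat_lit 467) (nat_lit 331) (nat_lit 222)) (XT.lf (nat_lit 0) (nat_lit 49778753578)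 (nat_lit 76) (nat_lit 67013172388) (nat_lit 76) (nat_lit 62412760464) (nat_lit 118) (nat_lit 4) (nat_lit 119) (nat_lit 5) (nat_lit 119) (nat_lit 4) (nat_lit 468) (nat_lit 331) (nat_lit 221))) (XT.nd (nat_lit 78) (nat_lit 152) (nat_lit 0) (XT.lf (nat_lit 0) (nat_lit 175517824506) (nat_lit 76) (nat_lit 7118373461) (nat_lit 76) (nat_lit 2516934025) (nat_lit 118) (nat_lit 4) (nat_lit 119) (nat_lit 5) (nat_lit 119) (nat_lit 4) (nat_lit 469) (nat_lit 331) (nat_lit 220)) (XT.lf (nat_lit 0) (nat_lit 61188460622) (nat_lit 152) (nat_lit 73220848133) (nat_lit 0) (nat_lit 56805205367) (nat_lit 116) (nat_lit 5) (nat_lit 118) (nat_lit 4) (nat_lit 116) (nat_lit 4) (nat_lit 470) (nat_lit 331) (nat_lit 219)))))))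
noncomputable def xc103 : XT := (XT.nd (nat_lit 1248) (nat_lit 608) (nat_lit 0) (XT.nd (nat_lit 624) (nat_lit 684) (nat_lit 0) (XT.nd (nat_lit 312) (nat_lit 228) (nat_lit 0) (XT.nd (nat_lit 156) (nat_lit 228) (nat_lit 0) (XT.nd (nat_lit 78) (nat_lit 0) (nat_lit 0) (XT.lf (nat_lit 0) (nat_lit 56357059637) (nat_lit 76) (nat_lit 72773590006) (nat_lit 76) (nat_lit 68389447147) (nat_lit 115) (nat_lit 4) (nat_lit 116) (nat_lit 5) (nat_lit 116) (nat_lit 4) (nat_lit 471) (nat_lit 331) (nat_lit 218)) (XT.lf (nat_lit 0) (nat_lit 194902909284) (nat_lit 76) (nat_lit 6781165584) (nat_lit 76) (nat_lit 2396177388) (nat_lit 115) (nat_lit 4) (nat_lit 116) (nat_lit 5) (nat_lit 116) (nat_lit 4) (nat_lit 472) (nat_lit 331) (nat_lit 217))) (XT.nd (nat_lit 78) (nat_lit 76) (nat_lit 0) (XT.lf (nat_lit 0) (nat_lit 67826722820) (nat_lit 152) (nat_lit 79286139496) (nat_lit 0) (nat_lit 63649776841) (nat_lit 113) (nat_lit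 5) (nat_lit 115) (nat_lit 4) (nat_lit 113) (nat_lit 4) (nat_lit 473) (nat_lit 331) (nat_lit 216)) (XT.lf (nat_lit 0) (nat_lit 63539622307) (nat_lit 76) (nat_lit 79176715195) (nat_lit 76) (nat_lit 74999038983) (nat_lit 112) (nat_lit 4) (nat_lit 113) (nat_lit 5) (nat_lit 113) (nat_lit 4) (nat_lit 474) (nat_lit 331) (nat_lit 215)))) (XT.nd (nat_lit 156) (nat_lit 76) (nat_lit 0) (XT.nd (nat_lit 78) (nat_lit 152) (nat_lit 0) (XT.lf (nat_lit 0) (nat_lit 216208812675) (nat_lit 76) (nat_lit 6459702775) (nat_lit 76) (nat_lit 2281331103) (nat_lit 112) (nat_lit 4) (nat_lit 113) (nat_lit 5) (nat_lit 113) (nat_lit 4) (nat_lit 475) (nat_lit 331) (nat_lit 214)) (XT.lf (nat_lit 0) (nat_lit 75127735388) (nat_lit 152) (nat_lit 86041465556) (nat_lit 0) (nat_lit 71147702992) (nat_lit 110) (nat_lit 5) (nat_lit 112) (nat_lit 4) (nat_lit 110) (nat_lit 4) (nat_lit 476) (nat_lit 331) (nat_lit 213))) (XT.nd (nat_lit 78)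 (nat_lit 0) (nat_lit 0) (XT.lf (nat_lit 0) (nat_lit 71391665147) (nat_lit 76) (nat_lit 86286028476) (nat_lit 76) (nat_lit 82305395315) (nat_lit 109) (nat_lit 4) (nat_lit 110) (nat_lit 5) (nat_lit 110) (nat_lit 4) (nat_lit 477) (nat_lit 331) (nat_lit 212)) (XT.lf (nat_lit 0) (nat_lit 239635523933) (nat_lit 76) (nat_lit 6153290667) (nat_lit 76) (nat_lit 2172085349) (nat_lit 109) (nat_lit 4) (nat_lit 110) (nat_lit 5) (nat_lit 110) (nat_lit 4) (nat_lit 478) (nat_lit 331) (nat_lit 211))))) (XT.nd (nat_lit 312) (nat_lit 304) (nat_lit 0) (XT.nd (nat_lit 156) (nat_lit 152) (nat_lit 0) (XT.nd (nat_lit 78) (nat_lit 76) (nat_lit 0) (XT.lf (nat_lit 0) (nat_lit 83160311055) (nat_lit 152) (nat_lit 93554339786) (nat_lit 0) (nat_lit 79368167979) (nat_lit 107) (nat_lit 5) (nat_lit 109) (nat_lit 4) (nat_lit 107) (nat_lit 4) (nat_lit 479) (nat_lit 331) (nat_lit 210)) (XT.lf (nat_lit 0) (nat_lit 79984948934) (nat_lit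 76) (nat_lit 94171614991) (nat_lit 76) (nat_lit 90378977665) (nat_lit 106) (nat_lit 4) (nat_lit 107) (nat_lit 5) (nat_lit 107) (nat_lit 4) (nat_lit 480) (nat_lit 331) (nat_lit 209))) (XT.nd (nat_lit 78) (nat_lit 152) (nat_lit 0) (XT.lf (nat_lit 0) (nat_lit 265403391273) (nat_lit 76) (nat_lit 5861258134) (nat_lit 76) (nat_lit 2068150092) (nat_lit 106) (nat_lit 4) (nat_lit 107) (nat_lit 5) (nat_lit 107) (nat_lit 4) (nat_lit 481) (nat_lit 331) (nat_lit 208)) (XT.lf (nat_lit 0) (nat_lit 92000266939) (nat_lit 152) (nat_lit 101899341921) (nat_lit 0) (nat_lit 88387356138) (nat_lit 104) (nat_lit 5) (nat_lit 106) (nat_lit 4) (nat_lit 104) (nat_lit 4) (nat_lit 482) (nat_lit 331) (nat_lit 207)))) (XT.nd (nat_lit 156) (nat_lit 228) (nat_lit 0) (XT.nd (nat_lit 78) (nat_lit 0) (nat_lit 0) (XT.lf (nat_lit 0) (nat_lit 89398447300) (nat_lit 76) (nat_lit 102910839705) (nat_lit 76) (nat_lit 99297522282) (nat_lit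 103) (nat_lit 4) (nat_lit 104) (nat_lit 5) (nat_lit 104) (nat_lit 4) (nat_lit 483) (nat_lit 331) (nat_lit 206)) (XT.lf (nat_lit 0) (nat_lit 293755213927) (nat_lit 76) (nat_lit 5582957928) (nat_lit 76) (nat_lit 1969253247) (nat_lit 103) (nat_lit 4) (nat_lit 104) (nat_lit 5) (nat_lit 104) (nat_lit 4) (nat_lit 484) (nat_lit 331) (nat_lit 205))) (XT.nd (nat_lit 78) (nat_lit 76) (nat_lit 0) (XT.lf (nat_lit 0) (nat_lit 101731146064) (nat_lit 152) (nat_lit 111158836524) (nat_lit 0) (nat_lit 98289171304) (nat_lit 101) (nat_lit 5) (nat_lit 103) (nat_lit 4) (nat_lit 101) (nat_lit 4) (nat_lit 485) (nat_lit 331) (nat_lit 204)) (XT.lf (nat_lit 0) (nat_lit 99719091633) (nat_lit 76) (nat_lit 112589091380) (nat_lit 76) (nat_lit 109146782092) (nat_lit 100) (nat_lit 4) (nat_lit 101) (nat_lit 5) (nat_lit 101) (nat_lit 4) (nat_lit 486) (nat_lit 331) (nat_lit 203)))))) (XT.nd (nat_lit 42900) (nat_lit 0) (nat_lit 12768)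 (XT.nd (nat_lit 312) (nat_lit 380) (nat_lit 0) (XT.nd (nat_lit 156) (nat_lit 76) (nat_lit 0) (XT.nd (nat_lit 78) (nat_lit 152) (nat_lit 0) (XT.lf (nat_lit 0) (nat_lit 324958548623) (nat_lit 76) (nat_lit 5317766976) (nat_lit 76) (nat_lit 1875139089) (nat_lit 100) (nat_lit 4) (nat_lit 101) (nat_lit 5) (nat_lit 101) (nat_lit 4) (nat_lit 487) (nat_lit 331) (nat_lit 202)) (XT.lf (nat_lit 0) (nat_lit 112445012442) (nat_lit 152) (nat_lit 121423765261) (nat_lit 0) (nat_lit 109166030239) (nat_lit 98) (nat_lit 5) (nat_lit 100) (nat_lit 4) (nat_lit 98) (nat_lit 4) (nat_lit 488) (nat_lit 331) (nat_lit 201))) (XT.nd (nat_lit 78) (nat_lit 0) (nat_lit 0) (XT.lf (nat_lit 0) (nat_lit 111042592264) (nat_lit 76) (nat_lit 123300602503) (nat_lit 76) (nat_lit 120021345082) (nat_lit 97) (nat_lit 4) (nat_lit 98) (nat_lit 5) (nat_lit 98) (nat_lit 4) (nat_lit 489) (nat_lit 331) (nat_lit 200)) (XT.lf (nat_lit 0) (nat_lit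 359308252441) (nat_lit 76) (nat_lit 5065086406) (nat_lit 76) (nat_lit 1785566873) (nat_lit 97) (nat_lit 4) (nat_lit 98) (nat_lit 5) (nat_lit 98) (nat_lit 4) (nat_lit 490) (nat_lit 331) (nat_lit 199)))) (XT.nd (nat_lit 156) (nat_lit 152) (nat_lit 0) (XT.nd (nat_lit 78) (nat_lit 76) (nat_lit 0) (XT.lf (nat_lit 0) (nat_lit 124243327318) (nat_lit 152) (nat_lit 132794520478) (nat_lit 0) (nat_lit 121119737639) (nat_lit 95) (nat_lit 5) (nat_lit 97) (nat_lit 4) (nat_lit 95) (nat_lit 4) (nat_lit 491) (nat_lit 331) (nat_lit 198)) (XT.lf (nat_lit 0) (nat_lit 123474343757) (nat_lit 76) (nat_lit 135149353018) (nat_lit 76) (nat_lit 132025536917) (nat_lit 94) (nat_lit 4) (nat_lit 95) (nat_lit 5) (nat_lit 95) (nat_lit 4) (nat_lit 492) (nat_lit 331) (nat_lit 197))) (XT.nd (nat_lit 78) (nat_lit 152) (nat_lit 0) (XT.lf (nat_lit 0) (nat_lit 397129286230) (nat_lit 76) (nat_lit 4824341364) (nat_lit 76) (nat_lit 1700309623)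 (nat_lit 94) (nat_lit 4) (nat_lit 95) (nat_lit 5) (nat_lit 95) (nat_lit 4) (nat_lit 493) (nat_lit 331) (nat_lit 196)) (XT.lf (nat_lit 0) (nat_lit 137237914946) (nat_lit 152) (nat_lit 145381908432) (nat_lit 0) (nat_lit 134262451030) (nat_lit 92) (nat_lit 5) (nat_lit 94) (nat_lit 4) (nat_lit 92) (nat_lit 4) (nat_lit 494) (nat_lit 331) (nat_lit 195))))) (XT.nd (nat_lit 312) (nat_lit 1444) (nat_lit 0) (XT.nd (nat_lit 156) (nat_lit 912) (nat_lit 0) (XT.nd (nat_lit 78) (nat_lit 0) (nat_lit 0) (XT.lf (nat_lit 0) (nat_lit 395458172) (nat_lit 836) (nat_lit 2798147421) (nat_lit 0) (nat_lit 395458172) (nat_lit 291) (nat_lit 5) (nat_lit 302) (nat_lit 4) (nat_lit 291) (nat_lit 4) (nat_lit 356) (nat_lit 332) (nat_lit 332)) (XT.lf (nat_lit 0) (nat_lit 4385407157) (nat_lit 836) (nat_lit 129995866) (nat_lit 0) (nat_lit 2758469402) (nat_lit 291) (nat_lit 5) (nat_lit 302) (nat_lit 4) (nat_lit 291) (nat_lit 4) (nat_lit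 357) (nat_lit 332) (nat_lit 331))) (XT.nd (nat_lit 78) (nat_lit 380) (nat_lit 0) (XT.lf (nat_lit 0) (nat_lit 680624486) (nat_lit 532) (nat_lit 1781122087) (nat_lit 76) (nat_lit 4916018098) (nat_lit 284) (nat_lit 5) (nat_lit 291) (nat_lit 5) (nat_lit 285) (nat_lit 4) (nat_lit 358) (nat_lit 332) (nat_lit 330)) (XT.lf (nat_lit 0) (nat_lit 4025410114) (nat_lit 380) (nat_lit 207513252) (nat_lit 456) (nat_lit 3256469268) (nat_lit 279) (nat_lit 5) (nat_lit 284) (nat_lit 5) (nat_lit 285) (nat_lit 4) (nat_lit 359) (nat_lit 332) (nat_lit 329)))) (XT.nd (nat_lit 156) (nat_lit 684) (nat_lit 0) (XT.nd (nat_lit 78) (nat_lit 304) (nat_lit 0) (XT.lf (nat_lit 0) (nat_lit 287647997) (nat_lit 456) (nat_lit 5179362358) (nat_lit 76) (nat_lit 2142172821) (nat_lit 273) (nat_lit 5) (nat_lit 279) (nat_lit 5) (nat_lit 274) (nat_lit 4) (nat_lit 360) (nat_lit 332) (nat_lit 328)) (XT.lf (nat_lit 0) (nat_lit 783703566) (nat_lit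 304) (nat_lit 3034585517) (nat_lit 380) (nat_lit 3918067091) (nat_lit 269) (nat_lit 5) (nat_lit 273) (nat_lit 5) (nat_lit 274) (nat_lit 4) (nat_lit 361) (nat_lit 332) (nat_lit 327))) (XT.nd (nat_lit 78) (nat_lit 684) (nat_lit 0) (XT.lf (nat_lit 0) (nat_lit 7037628456) (nat_lit 304) (nat_lit 423573258) (nat_lit 380) (nat_lit 411899134) (nat_lit 269) (nat_lit 5) (nat_lit 273) (nat_lit 5) (nat_lit 274) (nat_lit 4) (nat_lit 362) (nat_lit 332) (nat_lit 326)) (XT.nd (nat_lit 78) (nat_lit 304) (nat_lit 0) (XT.lf (nat_lit 0) (nat_lit 3142046368) (nat_lit 380) (nat_lit 2524585273) (nat_lit 76) (nat_lit 2348642948) (nat_lit 264) (nat_lit 5) (nat_lit 269) (nat_lit 5) (nat_lit 265) (nat_lit 4) (nat_lit 363) (nat_lit 332) (nat_lit 325)) (XT.lf (nat_lit 0) (nat_lit 3923279674) (nat_lit 304) (nat_lit 2875646465) (nat_lit 380) (nat_lit 1368339282) (nat_lit 260) (nat_lit 5) (nat_lit 264) (nat_lit 5) (nat_lit 265)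 (nat_lit 4) (nat_lit 364) (nat_lit 332) (nat_lit 324))))))))
noncomputable def xc104 : XT := (XT.nd (nat_lit 2496) (nat_lit 2508) (nat_lit 0) (XT.nd (nat_lit 1248) (nat_lit 1824) (nat_lit 0) (XT.nd (nat_lit 624) (nat_lit 1444) (nat_lit 0) (XT.nd (nat_lit 312) (nat_lit 836) (nat_lit 0) (XT.nd (nat_lit 156) (nat_lit 380) (nat_lit 0) (XT.nd (nat_lit 78) (nat_lit 228) (nat_lit 0) (XT.lf (nat_lit 0) (nat_lit 2177451243) (nat_lit 380) (nat_lit 6025098820) (nat_lit 76) (nat_lit 125518603) (nat_lit 255) (nat_lit 5) (nat_lit 260) (nat_lit 5) (nat_lit 256) (nat_lit 4) (nat_lit 365) (nat_lit 332) (nat_lit 323)) (XT.lf (nat_lit 0) (nat_lit 587884842) (nat_lit 228) (nat_lit 5257333953) (nat_lit 304) (nat_lit 2651038055) (nat_lit 252) (nat_lit 5) (nat_lit 255) (nat_lit 5) (nat_lit 256) (nat_lit 4) (nat_lit 366) (nat_lit 332) (nat_lit 322))) (XT.nd (nat_lit 78) (nat_lit 304) (nat_lit 0) (XT.lf (nat_lit 0) (nat_lit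 957221927) (nat_lit 304) (nat_lit 1137635385) (nat_lit 76) (nat_lit 6578875095) (nat_lit 251) (nat_lit 5) (nat_lit 255) (nat_lit 5) (nat_lit 252) (nat_lit 5) (nat_lit 367) (nat_lit 332) (nat_lit 321)) (XT.lf (nat_lit 0) (nat_lit 4639281356) (nat_lit 380) (nat_lit 2945975733) (nat_lit 76) (nat_lit 1273527737) (nat_lit 247) (nat_lit 5) (nat_lit 252) (nat_lit 5) (nat_lit 248) (nat_lit 4) (nat_lit 368) (nat_lit 332) (nat_lit 320)))) (XT.nd (nat_lit 156) (nat_lit 304) (nat_lit 0) (XT.nd (nat_lit 78) (nat_lit 304) (nat_lit 0) (XT.lf (nat_lit 0) (nat_lit 4217156949) (nat_lit 228) (nat_lit 4279905681) (nat_lit 304) (nat_lit 556446290) (nat_lit 244) (nat_lit 5) (nat_lit 247) (nat_lit 5) (nat_lit 248) (nat_lit 4) (nat_lit 369) (nat_lit 332) (nat_lit 319)) (XT.lf (nat_lit 0) (nat_lit 2423125291) (nat_lit 228) (nat_lit 722932473) (nat_lit 304) (nat_lit 6111263984) (nat_lit 240) (nat_lit 5) (nat_lit 243) (nat_lit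 5) (nat_lit 244) (nat_lit 5) (nat_lit 370) (nat_lit 332) (nat_lit 318))) (XT.nd (nat_lit 78) (nat_lit 76) (nat_lit 0) (XT.lf (nat_lit 0) (nat_lit 515549114) (nat_lit 228) (nat_lit 6513023154) (nat_lit 304) (nat_lit 2441617572) (nat_lit 237) (nat_lit 5) (nat_lit 240) (nat_lit 5) (nat_lit 241) (nat_lit 4) (nat_lit 371) (nat_lit 332) (nat_lit 317)) (XT.lf (nat_lit 0) (nat_lit 1372117090) (nat_lit 304) (nat_lit 1444397768) (nat_lit 76) (nat_lit 6875795441) (nat_lit 236) (nat_lit 5) (nat_lit 240) (nat_lit 5) (nat_lit 237) (nat_lit 5) (nat_lit 372) (nat_lit 332) (nat_lit 316))))) (XT.nd (nat_lit 312) (nat_lit 608) (nat_lit 0) (XT.nd (nat_lit 156) (nat_lit 456) (nat_lit 0) (XT.nd (nat_lit 78) (nat_lit 152) (nat_lit 0) (XT.lf (nat_lit 0) (nat_lit 5294914714) (nat_lit 304) (nat_lit 3517021645) (nat_lit 76) (nat_lit 1111577566) (nat_lit 233) (nat_lit 5) (nat_lit 237) (nat_lit 5) (nat_lit 234) (nat_lit 4)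 (nat_lit 373) (nat_lit 332) (nat_lit 315)) (XT.lf (nat_lit 0) (nat_lit 4447298024) (nat_lit 152) (nat_lit 4991033236) (nat_lit 228) (nat_lit 726722521) (nat_lit 231) (nat_lit 5) (nat_lit 233) (nat_lit 5) (nat_lit 234) (nat_lit 4) (nat_lit 374) (nat_lit 332) (nat_lit 314))) (XT.nd (nat_lit 78) (nat_lit 152) (nat_lit 0) (XT.lf (nat_lit 0) (nat_lit 2353644112) (nat_lit 228) (nat_lit 890877741) (nat_lit 304) (nat_lit 7172410684) (nat_lit 227) (nat_lit 5) (nat_lit 230) (nat_lit 5) (nat_lit 231) (nat_lit 5) (nat_lit 375) (nat_lit 332) (nat_lit 313)) (XT.lf (nat_lit 0) (nat_lit 101073347) (nat_lit 152) (nat_lit 7328570552) (nat_lit 228) (nat_lit 3249178753) (nat_lit 225) (nat_lit 5) (nat_lit 227) (nat_lit 5) (nat_lit 228) (nat_lit 4) (nat_lit 376) (nat_lit 332) (nat_lit 312)))) (XT.nd (nat_lit 156) (nat_lit 380) (nat_lit 0) (XT.nd (nat_lit 78) (nat_lit 152) (nat_lit 0) (XT.lf (nat_lit 0) (nat_lit 882926673)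 (nat_lit 228) (nat_lit 2210461132) (nat_lit 76) (nat_lit 7857711933) (nat_lit 224) (nat_lit 5) (nat_lit 227) (nat_lit 5) (nat_lit 225) (nat_lit 5) (nat_lit 377) (nat_lit 332) (nat_lit 311)) (XT.lf (nat_lit 0) (nat_lit 5129893337) (nat_lit 228) (nat_lit 4703233571) (nat_lit 76) (nat_lit 1400328024) (nat_lit 222) (nat_lit 5) (nat_lit 225) (nat_lit 5) (nat_lit 223) (nat_lit 4) (nat_lit 378) (nat_lit 332) (nat_lit 310))) (XT.nd (nat_lit 78) (nat_lit 228) (nat_lit 0) (XT.lf (nat_lit 0) (nat_lit 4159371746) (nat_lit 152) (nat_lit 5477371359) (nat_lit 228) (nat_lit 1890808044) (nat_lit 220) (nat_lit 5) (nat_lit 222) (nat_lit 5) (nat_lit 223) (nat_lit 4) (nat_lit 379) (nat_lit 332) (nat_lit 309)) (XT.lf (nat_lit 0) (nat_lit 1627615094) (nat_lit 152) (nat_lit 824716085) (nat_lit 228) (nat_lit 9382003636) (nat_lit 217) (nat_lit 5) (nat_lit 219) (nat_lit 5) (nat_lit 220) (nat_lit 5) (nat_lit 380) (nat_lit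 332) (nat_lit 308)))))) (XT.nd (nat_lit 624) (nat_lit 836) (nat_lit 0) (XT.nd (nat_lit 312) (nat_lit 532) (nat_lit 0) (XT.nd (nat_lit 156) (nat_lit 304) (nat_lit 0) (XT.nd (nat_lit 78) (nat_lit 152) (nat_lit 0) (XT.lf (nat_lit 0) (nat_lit 7034867723) (nat_lit 228) (nat_lit 1098427795) (nat_lit 76) (nat_lit 4017323110) (nat_lit 217) (nat_lit 5) (nat_lit 220) (nat_lit 5) (nat_lit 218) (nat_lit 4) (nat_lit 381) (nat_lit 332) (nat_lit 307)) (XT.lf (nat_lit 0) (nat_lit 8553352057) (nat_lit 152) (nat_lit 3340771892) (nat_lit 228) (nat_lit 586213040) (nat_lit 215) (nat_lit 5) (nat_lit 217) (nat_lit 5) (nat_lit 218) (nat_lit 4) (nat_lit 382) (nat_lit 332) (nat_lit 306))) (XT.nd (nat_lit 78) (nat_lit 76) (nat_lit 0) (XT.lf (nat_lit 0) (nat_lit 4075732504) (nat_lit 228) (nat_lit 7001462698) (nat_lit 76) (nat_lit 1744121426) (nat_lit 212) (nat_lit 5) (nat_lit 215) (nat_lit 5) (nat_lit 213) (nat_lit 4) (nat_lit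 383) (nat_lit 332) (nat_lit 305)) (XT.lf (nat_lit 0) (nat_lit 2867063108) (nat_lit 76) (nat_lit 6153085174) (nat_lit 152) (nat_lit 4155262787) (nat_lit 211) (nat_lit 5) (nat_lit 212) (nat_lit 5) (nat_lit 213) (nat_lit 4) (nat_lit 384) (nat_lit 332) (nat_lit 304)))) (XT.nd (nat_lit 156) (nat_lit 304) (nat_lit 0) (XT.nd (nat_lit 78) (nat_lit 152) (nat_lit 0) (XT.lf (nat_lit 0) (nat_lit 666197460) (nat_lit 152) (nat_lit 255523781) (nat_lit 76) (nat_lit 12623825529) (nat_lit 210) (nat_lit 5) (nat_lit 212) (nat_lit 5) (nat_lit 211) (nat_lit 5) (nat_lit 385) (nat_lit 332) (nat_lit 303)) (XT.lf (nat_lit 0) (nat_lit 5732480020) (nat_lit 228) (nat_lit 3602399300) (nat_lit 76) (nat_lit 4588734313) (nat_lit 208) (nat_lit 5) (nat_lit 211) (nat_lit 5) (nat_lit 209) (nat_lit 4) (nat_lit 386) (nat_lit 332) (nat_lit 302))) (XT.nd (nat_lit 78) (nat_lit 228) (nat_lit 0) (XT.lf (nat_lit 0) (nat_lit 7162884476) (nat_lit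 76) (nat_lit 3928316774) (nat_lit 152) (nat_lit 3227426363) (nat_lit 207) (nat_lit 5) (nat_lit 208) (nat_lit 5) (nat_lit 209) (nat_lit 4) (nat_lit 387) (nat_lit 332) (nat_lit 301)) (XT.lf (nat_lit 0) (nat_lit 1978787356) (nat_lit 228) (nat_lit 10975573665) (nat_lit 76) (nat_lit 1774590296) (nat_lit 204) (nat_lit 5) (nat_lit 207) (nat_lit 5) (nat_lit 205) (nat_lit 4) (nat_lit 388) (nat_lit 332) (nat_lit 300))))) (XT.nd (nat_lit 312) (nat_lit 456) (nat_lit 0) (XT.nd (nat_lit 156) (nat_lit 304) (nat_lit 0) (XT.nd (nat_lit 78) (nat_lit 0) (nat_lit 0) (XT.lf (nat_lit 0) (nat_lit 16392902) (nat_lit 76) (nat_lit 7417073812) (nat_lit 152) (nat_lit 7718848179) (nat_lit 203) (nat_lit 5) (nat_lit 204) (nat_lit 5) (nat_lit 205) (nat_lit 4) (nat_lit 389) (nat_lit 332) (nat_lit 299)) (XT.lf (nat_lit 0) (nat_lit 11774214741) (nat_lit 76) (nat_lit 1483102866) (nat_lit 152) (nat_lit 2334707161) (nat_lit 203) (nat_lit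 5) (nat_lit 204) (nat_lit 5) (nat_lit 205) (nat_lit 4) (nat_lit 390) (nat_lit 332) (nat_lit 298))) (XT.nd (nat_lit 78) (nat_lit 76) (nat_lit 0) (XT.lf (nat_lit 0) (nat_lit 3328439850) (nat_lit 228) (nat_lit 8010732924) (nat_lit 76) (nat_lit 4706155892) (nat_lit 200) (nat_lit 5) (nat_lit 203) (nat_lit 5) (nat_lit 201) (nat_lit 4) (nat_lit 391) (nat_lit 332) (nat_lit 297)) (XT.lf (nat_lit 0) (nat_lit 3998074515) (nat_lit 76) (nat_lit 5264621269) (nat_lit 152) (nat_lit 7253367625) (nat_lit 199) (nat_lit 5) (nat_lit 200) (nat_lit 5) (nat_lit 201) (nat_lit 4) (nat_lit 392) (nat_lit 332) (nat_lit 296)))) (XT.nd (nat_lit 156) (nat_lit 228) (nat_lit 0) (XT.nd (nat_lit 78) (nat_lit 228) (nat_lit 0) (XT.lf (nat_lit 0) (nat_lit 15563392545) (nat_lit 152) (nat_lit 298559239) (nat_lit 0) (nat_lit 1144896706) (nat_lit 199) (nat_lit 5) (nat_lit 201) (nat_lit 4) (nat_lit 199) (nat_lit 4) (nat_lit 393) (nat_lit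 332) (nat_lit 295)) (XT.lf (nat_lit 0) (nat_lit 4714323178) (nat_lit 228) (nat_lit 4889252405) (nat_lit 76) (nat_lit 7904640670) (nat_lit 196) (nat_lit 5) (nat_lit 199) (nat_lit 5) (nat_lit 197) (nat_lit 4) (nat_lit 394) (nat_lit 332) (nat_lit 294))) (XT.nd (nat_lit 78) (nat_lit 152) (nat_lit 0) (XT.lf (nat_lit 0) (nat_lit 8245086274) (nat_lit 76) (nat_lit 2939004474) (nat_lit 152) (nat_lit 6846748041) (nat_lit 195) (nat_lit 5) (nat_lit 196) (nat_lit 5) (nat_lit 197) (nat_lit 4) (nat_lit 395) (nat_lit 332) (nat_lit 293)) (XT.lf (nat_lit 0) (nat_lit 3524727297) (nat_lit 152) (nat_lit 14574321803) (nat_lit 152) (nat_lit 474458231) (nat_lit 193) (nat_lit 4) (nat_lit 195) (nat_lit 5) (nat_lit 195) (nat_lit 4) (nat_lit 396) (nat_lit 332) (nat_lit 292))))))) (XT.nd (nat_lit 1248) (nat_lit 1216) (nat_lit 0) (XT.nd (nat_lit 624) (nat_lit 684) (nat_lit 0) (XT.nd (nat_lit 312) (nat_lit 228) (nat_lit 0) (XT.nd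 (nat_lit 156) (nat_lit 228) (nat_lit 0) (XT.nd (nat_lit 78) (nat_lit 76) (nat_lit 0) (XT.lf (nat_lit 0) (nat_lit 6153434546) (nat_lit 228) (nat_lit 1596485554) (nat_lit 76) (nat_lit 11381738715) (nat_lit 192) (nat_lit 5) (nat_lit 195) (nat_lit 5) (nat_lit 193) (nat_lit 4) (nat_lit 397) (nat_lit 332) (nat_lit 291)) (XT.lf (nat_lit 0) (nat_lit 12783138742) (nat_lit 76) (nat_lit 436390259) (nat_lit 152) (nat_lit 6491662375) (nat_lit 191) (nat_lit 5) (nat_lit 192) (nat_lit 5) (nat_lit 193) (nat_lit 4) (nat_lit 398) (nat_lit 332) (nat_lit 290))) (XT.nd (nat_lit 78) (nat_lit 76) (nat_lit 0) (XT.lf (nat_lit 0) (nat_lit 494752003) (nat_lit 152) (nat_lit 12716923773) (nat_lit 76) (nat_lit 7098488502) (nat_lit 189) (nat_lit 5) (nat_lit 191) (nat_lit 5) (nat_lit 190) (nat_lit 4) (nat_lit 399) (nat_lit 332) (nat_lit 289)) (XT.lf (nat_lit 0) (nat_lit 1947611338) (nat_lit 76) (nat_lit 5745184092) (nat_lit 152)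 (nat_lit 13236945825) (nat_lit 188) (nat_lit 5) (nat_lit 189) (nat_lit 5) (nat_lit 190) (nat_lit 4) (nat_lit 400) (nat_lit 332) (nat_lit 288)))) (XT.nd (nat_lit 156) (nat_lit 76) (nat_lit 0) (XT.nd (nat_lit 78) (nat_lit 152) (nat_lit 0) (XT.lf (nat_lit 0) (nat_lit 15426283495) (nat_lit 152) (nat_lit 3966303691) (nat_lit 0) (nat_lit 2178932771) (nat_lit 188) (nat_lit 5) (nat_lit 190) (nat_lit 4) (nat_lit 188) (nat_lit 4) (nat_lit 401) (nat_lit 332) (nat_lit 287)) (XT.lf (nat_lit 0) (nat_lit 1471121754) (nat_lit 152) (nat_lit 10310552454) (nat_lit 76) (nat_lit 10452112458) (nat_lit 186) (nat_lit 5) (nat_lit 188) (nat_lit 5) (nat_lit 187) (nat_lit 4) (nat_lit 402) (nat_lit 332) (nat_lit 286))) (XT.nd (nat_lit 78) (nat_lit 0) (nat_lit 0) (XT.lf (nat_lit 0) (nat_lit 5761168678) (nat_lit 76) (nat_lit 3586519170) (nat_lit 152) (nat_lit 13572146273) (nat_lit 185) (nat_lit 5) (nat_lit 186) (nat_lit 5) (nat_lit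 187) (nat_lit 4) (nat_lit 403) (nat_lit 332) (nat_lit 285)) (XT.lf (nat_lit 0) (nat_lit 17801835017) (nat_lit 152) (nat_lit 858990989) (nat_lit 0) (nat_lit 4970170306) (nat_lit 185) (nat_lit 5) (nat_lit 187) (nat_lit 4) (nat_lit 185) (nat_lit 4) (nat_lit 404) (nat_lit 332) (nat_lit 284))))) (XT.nd (nat_lit 312) (nat_lit 304) (nat_lit 0) (XT.nd (nat_lit 156) (nat_lit 152) (nat_lit 0) (XT.nd (nat_lit 78) (nat_lit 76) (nat_lit 0) (XT.lf (nat_lit 0) (nat_lit 2480643240) (nat_lit 152) (nat_lit 7811340656) (nat_lit 76) (nat_lit 14071270692) (nat_lit 183) (nat_lit 5) (nat_lit 185) (nat_lit 5) (nat_lit 184) (nat_lit 4) (nat_lit 405) (nat_lit 332) (nat_lit 283)) (XT.lf (nat_lit 0) (nat_lit 9816002600) (nat_lit 76) (nat_lit 1293539598) (nat_lit 152) (nat_lit 14012830467) (nat_lit 182) (nat_lit 5) (nat_lit 183) (nat_lit 5) (nat_lit 184) (nat_lit 4) (nat_lit 406) (nat_lit 332) (nat_lit 282))) (XT.nd (nat_lit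 78) (nat_lit 76) (nat_lit 0) (XT.lf (nat_lit 0) (nat_lit 2499221648) (nat_lit 76) (nat_lit 17903115934) (nat_lit 76) (nat_lit 5505486491) (nat_lit 181) (nat_lit 4) (nat_lit 182) (nat_lit 5) (nat_lit 182) (nat_lit 4) (nat_lit 407) (nat_lit 332) (nat_lit 281)) (XT.lf (nat_lit 0) (nat_lit 3533952230) (nat_lit 152) (nat_lit 5206498578) (nat_lit 76) (nat_lit 17978600806) (nat_lit 180) (nat_lit 5) (nat_lit 182) (nat_lit 5) (nat_lit 181) (nat_lit 4) (nat_lit 408) (nat_lit 332) (nat_lit 280)))) (XT.nd (nat_lit 156) (nat_lit 152) (nat_lit 0) (XT.nd (nat_lit 78) (nat_lit 76) (nat_lit 0) (XT.lf (nat_lit 0) (nat_lit 13013960935) (nat_lit 152) (nat_lit 13436416106) (nat_lit 0) (nat_lit 1107269875) (nat_lit 179) (nat_lit 5) (nat_lit 181) (nat_lit 4) (nat_lit 179) (nat_lit 4) (nat_lit 409) (nat_lit 332) (nat_lit 279)) (XT.lf (nat_lit 0) (nat_lit 6084139699) (nat_lit 76) (nat_lit 17146880635) (nat_lit 76) (nat_lit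 5193999134) (nat_lit 178) (nat_lit 4) (nat_lit 179) (nat_lit 5) (nat_lit 179) (nat_lit 4) (nat_lit 410) (nat_lit 332) (nat_lit 278))) (XT.nd (nat_lit 78) (nat_lit 76) (nat_lit 0) (XT.lf (nat_lit 0) (nat_lit 4641711819) (nat_lit 152) (nat_lit 2481363165) (nat_lit 76) (nat_lit 22200751122) (nat_lit 177) (nat_lit 5) (nat_lit 179) (nat_lit 5) (nat_lit 178) (nat_lit 4) (nat_lit 411) (nat_lit 332) (nat_lit 277)) (XT.lf (nat_lit 0) (nat_lit 15084300482) (nat_lit 152) (nat_lit 11545726306) (nat_lit 0) (nat_lit 3618806684) (nat_lit 176) (nat_lit 5) (nat_lit 178) (nat_lit 4) (nat_lit 176) (nat_lit 4) (nat_lit 412) (nat_lit 332) (nat_lit 276)))))) (XT.nd (nat_lit 624) (nat_lit 532) (nat_lit 0) (XT.nd (nat_lit 312) (nat_lit 380) (nat_lit 0) (XT.nd (nat_lit 156) (nat_lit 76) (nat_lit 0) (XT.nd (nat_lit 78) (nat_lit 152) (nat_lit 0) (XT.lf (nat_lit 0) (nat_lit 9891800034) (nat_lit 76) (nat_lit 16409583847) (nat_lit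 76) (nat_lit 4906089059) (nat_lit 175) (nat_lit 4) (nat_lit 176) (nat_lit 5) (nat_lit 176) (nat_lit 4) (nat_lit 413) (nat_lit 332) (nat_lit 275)) (XT.lf (nat_lit 0) (nat_lit 393225464) (nat_lit 76) (nat_lit 5427707058) (nat_lit 152) (nat_lit 26381364143) (nat_lit 173) (nat_lit 5) (nat_lit 174) (nat_lit 5) (nat_lit 175) (nat_lit 4) (nat_lit 414) (nat_lit 332) (nat_lit 274))) (XT.nd (nat_lit 78) (nat_lit 76) (nat_lit 0) (XT.lf (nat_lit 0) (nat_lit 17320243357) (nat_lit 152) (nat_lit 9605316753) (nat_lit 0) (nat_lit 6297239333) (nat_lit 173) (nat_lit 5) (nat_lit 175) (nat_lit 4) (nat_lit 173) (nat_lit 4) (nat_lit 415) (nat_lit 332) (nat_lit 273)) (XT.lf (nat_lit 0) (nat_lit 13949478075) (nat_lit 76) (nat_lit 15693350683) (nat_lit 76) (nat_lit 4639083151) (nat_lit 172) (nat_lit 4) (nat_lit 173) (nat_lit 5) (nat_lit 173) (nat_lit 4) (nat_lit 416) (nat_lit 332) (nat_lit 272)))) (XT.nd (nat_lit 156) (nat_lit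 228) (nat_lit 0) (XT.nd (nat_lit 78) (nat_lit 0) (nat_lit 0) (XT.lf (nat_lit 0) (nat_lit 3510422818) (nat_lit 76) (nat_lit 3608828459) (nat_lit 152) (nat_lit 28261031083) (nat_lit 170) (nat_lit 5) (nat_lit 171) (nat_lit 5) (nat_lit 172) (nat_lit 4) (nat_lit 417) (nat_lit 332) (nat_lit 271)) (XT.lf (nat_lit 0) (nat_lit 19743029163) (nat_lit 152) (nat_lit 7605276321) (nat_lit 0) (nat_lit 9159791805) (nat_lit 170) (nat_lit 5) (nat_lit 172) (nat_lit 4) (nat_lit 170) (nat_lit 4) (nat_lit 418) (nat_lit 332) (nat_lit 270))) (XT.nd (nat_lit 78) (nat_lit 152) (nat_lit 0) (XT.lf (nat_lit 0) (nat_lit 18287467131) (nat_lit 76) (nat_lit 14999668389) (nat_lit 76) (nat_lit 4390710466) (nat_lit 169) (nat_lit 4) (nat_lit 170) (nat_lit 5) (nat_lit 170) (nat_lit 4) (nat_lit 419) (nat_lit 332) (nat_lit 269)) (XT.lf (nat_lit 0) (nat_lit 6809509840) (nat_lit 76) (nat_lit 1699252862) (nat_lit 152) (nat_lit 30381517712)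 (nat_lit 167) (nat_lit 5) (nat_lit 168) (nat_lit 5) (nat_lit 169) (nat_lit 4) (nat_lit 420) (nat_lit 332) (nat_lit 268))))) (XT.nd (nat_lit 312) (nat_lit 304) (nat_lit 0) (XT.nd (nat_lit 156) (nat_lit 152) (nat_lit 0) (XT.nd (nat_lit 78) (nat_lit 76) (nat_lit 0) (XT.lf (nat_lit 0) (nat_lit 22375508722) (nat_lit 152) (nat_lit 5534544538) (nat_lit 0) (nat_lit 12226191568) (nat_lit 167) (nat_lit 5) (nat_lit 169) (nat_lit 4) (nat_lit 167) (nat_lit 4) (nat_lit 421) (nat_lit 332) (nat_lit 267)) (XT.lf (nat_lit 0) (nat_lit 22939300244) (nat_lit 76) (nat_lit 14329511871) (nat_lit 76) (nat_lit 4159034344) (nat_lit 166) (nat_lit 4) (nat_lit 167) (nat_lit 5) (nat_lit 167) (nat_lit 4) (nat_lit 422) (nat_lit 332) (nat_lit 266))) (XT.nd (nat_lit 78) (nat_lit 0) (nat_lit 0) (XT.lf (nat_lit 0) (nat_lit 10007178641) (nat_lit 152) (nat_lit 32456709947) (nat_lit 0) (nat_lit 301816485) (nat_lit 164) (nat_lit 5) (nat_lit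 166) (nat_lit 4) (nat_lit 164) (nat_lit 4) (nat_lit 423) (nat_lit 332) (nat_lit 265)) (XT.lf (nat_lit 0) (nat_lit 25242400481) (nat_lit 152) (nat_lit 3380864442) (nat_lit 0) (nat_lit 15518759200) (nat_lit 164) (nat_lit 5) (nat_lit 166) (nat_lit 4) (nat_lit 164) (nat_lit 4) (nat_lit 424) (nat_lit 332) (nat_lit 264)))) (XT.nd (nat_lit 156) (nat_lit 76) (nat_lit 0) (XT.nd (nat_lit 78) (nat_lit 152) (nat_lit 0) (XT.lf (nat_lit 0) (nat_lit 27942012578) (nat_lit 76) (nat_lit 13683446371) (nat_lit 76) (nat_lit 3942396398) (nat_lit 163) (nat_lit 4) (nat_lit 164) (nat_lit 5) (nat_lit 164) (nat_lit 4) (nat_lit 425) (nat_lit 332) (nat_lit 263)) (XT.lf (nat_lit 0) (nat_lit 11651665893) (nat_lit 152) (nat_lit 33032171899) (nat_lit 0) (nat_lit 2358685246) (nat_lit 161) (nat_lit 5) (nat_lit 163) (nat_lit 4) (nat_lit 161) (nat_lit 4) (nat_lit 426) (nat_lit 332) (nat_lit 262))) (XT.nd (nat_lit 78) (nat_lit 76)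 (nat_lit 0) (XT.lf (nat_lit 0) (nat_lit 28370557449) (nat_lit 152) (nat_lit 1130715846) (nat_lit 0) (nat_lit 19062538521) (nat_lit 161) (nat_lit 5) (nat_lit 163) (nat_lit 4) (nat_lit 161) (nat_lit 4) (nat_lit 427) (nat_lit 332) (nat_lit 261)) (XT.lf (nat_lit 0) (nat_lit 33336445232) (nat_lit 76) (nat_lit 13061711375) (nat_lit 76) (nat_lit 3739370273) (nat_lit 160) (nat_lit 4) (nat_lit 161) (nat_lit 5) (nat_lit 161) (nat_lit 4) (nat_lit 428) (nat_lit 332) (nat_lit 260))))))))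
noncomputable def xc105 : XT := (XT.nd (nat_lit 1248) (nat_lit 1216) (nat_lit 0) (XT.nd (nat_lit 624) (nat_lit 608) (nat_lit 0) (XT.nd (nat_lit 312) (nat_lit 304) (nat_lit 0) (XT.nd (nat_lit 156) (nat_lit 152) (nat_lit 0) (XT.nd (nat_lit 78) (nat_lit 76) (nat_lit 0) (XT.lf (nat_lit 0) (nat_lit 13430682200) (nat_lit 152) (nat_lit 33793068873) (nat_lit 0) (nat_lit 4539271470) (nat_lit 158) (nat_lit 5) (nat_lit 160) (nat_lit 4) (nat_lit 158) (nat_lit 4) (nat_lit 429) (nat_lit 332) (nat_lit 259)) (XT.lf (nat_lit 0) (nat_lit 1271465112) (nat_lit 76) (nat_lit 30537634547) (nat_lit 76) (nat_lit 21633851785) (nat_lit 157) (nat_lit 4) (nat_lit 158) (nat_lit 5) (nat_lit 158) (nat_lit 4) (nat_lit 430) (nat_lit 332) (nat_lit 258))) (XT.nd (nat_lit 78) (nat_lit 152) (nat_lit 0) (XT.lf (nat_lit 0) (nat_lit 39167592054) (nat_lit 76) (nat_lit 12464289114) (nat_lit 76) (nat_lit 3548723464) (nat_lit 157) (nat_lit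 4) (nat_lit 158) (nat_lit 5) (nat_lit 158) (nat_lit 4) (nat_lit 431) (nat_lit 332) (nat_lit 257)) (XT.lf (nat_lit 0) (nat_lit 15360446945) (nat_lit 152) (nat_lit 34753196157) (nat_lit 0) (nat_lit 6858744614) (nat_lit 155) (nat_lit 5) (nat_lit 157) (nat_lit 4) (nat_lit 155) (nat_lit 4) (nat_lit 432) (nat_lit 332) (nat_lit 256)))) (XT.nd (nat_lit 156) (nat_lit 228) (nat_lit 0) (XT.nd (nat_lit 78) (nat_lit 0) (nat_lit 0) (XT.lf (nat_lit 0) (nat_lit 3842913284) (nat_lit 76) (nat_lit 31747543328) (nat_lit 76) (nat_lit 23235662496) (nat_lit 154) (nat_lit 4) (nat_lit 155) (nat_lit 5) (nat_lit 155) (nat_lit 4) (nat_lit 433) (nat_lit 332) (nat_lit 255)) (XT.lf (nat_lit 0) (nat_lit 45484991657) (nat_lit 76) (nat_lit 11890960396) (nat_lit 76) (nat_lit 3369385753) (nat_lit 154) (nat_lit 4) (nat_lit 155) (nat_lit 5) (nat_lit 155) (nat_lit 4) (nat_lit 434) (nat_lit 332) (nat_lit 254))) (XT.nd (nat_lit 78) (nat_lit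 76) (nat_lit 0) (XT.lf (nat_lit 0) (nat_lit 17458582727) (nat_lit 152) (nat_lit 35927867691) (nat_lit 0) (nat_lit 9334004781) (nat_lit 152) (nat_lit 5) (nat_lit 154) (nat_lit 4) (nat_lit 152) (nat_lit 4) (nat_lit 435) (nat_lit 332) (nat_lit 253)) (XT.lf (nat_lit 0) (nat_lit 6564731899) (nat_lit 76) (nat_lit 33166968687) (nat_lit 76) (nat_lit 25034016863) (nat_lit 151) (nat_lit 4) (nat_lit 152) (nat_lit 5) (nat_lit 152) (nat_lit 4) (nat_lit 436) (nat_lit 332) (nat_lit 252))))) (XT.nd (nat_lit 312) (nat_lit 380) (nat_lit 0) (XT.nd (nat_lit 156) (nat_lit 76) (nat_lit 0) (XT.nd (nat_lit 78) (nat_lit 152) (nat_lit 0) (XT.lf (nat_lit 0) (nat_lit 52343167468) (nat_lit 76) (nat_lit 11341350065) (nat_lit 76) (nat_lit 3200423119) (nat_lit 151) (nat_lit 4) (nat_lit 152) (nat_lit 5) (nat_lit 152) (nat_lit 4) (nat_lit 437) (nat_lit 332) (nat_lit 251)) (XT.lf (nat_lit 0) (nat_lit 19744296993) (nat_lit 152) (nat_lit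 37334092196) (nat_lit 0) (nat_lit 11983799563) (nat_lit 149) (nat_lit 5) (nat_lit 151) (nat_lit 4) (nat_lit 149) (nat_lit 4) (nat_lit 438) (nat_lit 332) (nat_lit 250))) (XT.nd (nat_lit 78) (nat_lit 0) (nat_lit 0) (XT.lf (nat_lit 0) (nat_lit 9457185392) (nat_lit 76) (nat_lit 34814367236) (nat_lit 76) (nat_lit 27046980596) (nat_lit 148) (nat_lit 4) (nat_lit 149) (nat_lit 5) (nat_lit 149) (nat_lit 4) (nat_lit 439) (nat_lit 332) (nat_lit 249)) (XT.lf (nat_lit 0) (nat_lit 59802119249) (nat_lit 76) (nat_lit 10814963928) (nat_lit 76) (nat_lit 3041016136) (nat_lit 148) (nat_lit 4) (nat_lit 149) (nat_lit 5) (nat_lit 149) (nat_lit 4) (nat_lit 440) (nat_lit 332) (nat_lit 248)))) (XT.nd (nat_lit 156) (nat_lit 152) (nat_lit 0) (XT.nd (nat_lit 78) (nat_lit 76) (nat_lit 0) (XT.lf (nat_lit 0) (nat_lit 22238575964) (nat_lit 152) (nat_lit 38990761872) (nat_lit 0) (nat_lit 14828865002) (nat_lit 146) (nat_lit 5) (nat_lit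 148) (nat_lit 4) (nat_lit 146) (nat_lit 4) (nat_lit 441) (nat_lit 332) (nat_lit 247)) (XT.lf (nat_lit 0) (nat_lit 12542479872) (nat_lit 76) (nat_lit 36710044511) (nat_lit 76) (nat_lit 29294665780) (nat_lit 145) (nat_lit 4) (nat_lit 146) (nat_lit 5) (nat_lit 146) (nat_lit 4) (nat_lit 442) (nat_lit 332) (nat_lit 246))) (XT.nd (nat_lit 78) (nat_lit 152) (nat_lit 0) (XT.lf (nat_lit 0) (nat_lit 67927870143) (nat_lit 76) (nat_lit 10311218695) (nat_lit 76) (nat_lit 2890442087) (nat_lit 145) (nat_lit 4) (nat_lit 146) (nat_lit 5) (nat_lit 146) (nat_lit 4) (nat_lit 443) (nat_lit 332) (nat_lit 245)) (XT.lf (nat_lit 0) (nat_lit 24964393235) (nat_lit 152) (nat_lit 40918856004) (nat_lit 0) (nat_lit 17892090908) (nat_lit 143) (nat_lit 5) (nat_lit 145) (nat_lit 4) (nat_lit 143) (nat_lit 4) (nat_lit 444) (nat_lit 332) (nat_lit 244)))))) (XT.nd (nat_lit 624) (nat_lit 684) (nat_lit 0) (XT.nd (nat_lit 312) (nat_lit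 228) (nat_lit 0) (XT.nd (nat_lit 156) (nat_lit 228) (nat_lit 0) (XT.nd (nat_lit 78) (nat_lit 0) (nat_lit 0) (XT.lf (nat_lit 0) (nat_lit 15844951641) (nat_lit 76) (nat_lit 38876379626) (nat_lit 76) (nat_lit 31799414411) (nat_lit 142) (nat_lit 4) (nat_lit 143) (nat_lit 5) (nat_lit 143) (nat_lit 4) (nat_lit 445) (nat_lit 332) (nat_lit 243)) (XT.lf (nat_lit 0) (nat_lit 76793073967) (nat_lit 76) (nat_lit 9829466192) (nat_lit 76) (nat_lit 2748060130) (nat_lit 142) (nat_lit 4) (nat_lit 143) (nat_lit 5) (nat_lit 143) (nat_lit 4) (nat_lit 446) (nat_lit 332) (nat_lit 242))) (XT.nd (nat_lit 78) (nat_lit 76) (nat_lit 0) (XT.lf (nat_lit 0) (nat_lit 27946935448) (nat_lit 152) (nat_lit 43141661896) (nat_lit 0) (nat_lit 21198711221) (nat_lit 140) (nat_lit 5) (nat_lit 142) (nat_lit 4) (nat_lit 140) (nat_lit 4) (nat_lit 447) (nat_lit 332) (nat_lit 241)) (XT.lf (nat_lit 0) (nat_lit 19391278551) (nat_lit 76) (nat_lit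 41338065397) (nat_lit 76) (nat_lit 34586004999) (nat_lit 139) (nat_lit 4) (nat_lit 140) (nat_lit 5) (nat_lit 140) (nat_lit 4) (nat_lit 448) (nat_lit 332) (nat_lit 240)))) (XT.nd (nat_lit 156) (nat_lit 76) (nat_lit 0) (XT.nd (nat_lit 78) (nat_lit 152) (nat_lit 0) (XT.lf (nat_lit 0) (nat_lit 86477688078) (nat_lit 76) (nat_lit 9369012880) (nat_lit 76) (nat_lit 2613298986) (nat_lit 139) (nat_lit 4) (nat_lit 140) (nat_lit 5) (nat_lit 140) (nat_lit 4) (nat_lit 449) (nat_lit 332) (nat_lit 239)) (XT.lf (nat_lit 0) (nat_lit 31213847540) (nat_lit 152) (nat_lit 45685015585) (nat_lit 0) (nat_lit 24776520481) (nat_lit 137) (nat_lit 5) (nat_lit 139) (nat_lit 4) (nat_lit 137) (nat_lit 4) (nat_lit 450) (nat_lit 332) (nat_lit 238))) (XT.nd (nat_lit 78) (nat_lit 0) (nat_lit 0) (XT.lf (nat_lit 0) (nat_lit 23210715819) (nat_lit 76) (nat_lit 44122366951) (nat_lit 76) (nat_lit 37681883865) (nat_lit 136) (nat_lit 4)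 (nat_lit 137) (nat_lit 5) (nat_lit 137) (nat_lit 4) (nat_lit 451) (nat_lit 332) (nat_lit 237)) (XT.lf (nat_lit 0) (nat_lit 97069717902) (nat_lit 76) (nat_lit 8929135528) (nat_lit 76) (nat_lit 2485646702) (nat_lit 136) (nat_lit 4) (nat_lit 137) (nat_lit 5) (nat_lit 137) (nat_lit 4) (nat_lit 452) (nat_lit 332) (nat_lit 236))))) (XT.nd (nat_lit 312) (nat_lit 304) (nat_lit 0) (XT.nd (nat_lit 156) (nat_lit 152) (nat_lit 0) (XT.nd (nat_lit 78) (nat_lit 76) (nat_lit 0) (XT.lf (nat_lit 0) (nat_lit 34795500179) (nat_lit 152) (nat_lit 48577564984) (nat_lit 0) (nat_lit 28656117860) (nat_lit 134) (nat_lit 5) (nat_lit 136) (nat_lit 4) (nat_lit 134) (nat_lit 4) (nat_lit 453) (nat_lit 332) (nat_lit 235)) (XT.lf (nat_lit 0) (nat_lit 27335358253) (nat_lit 76) (nat_lit 47259401848) (nat_lit 76) (nat_lit 41117423058) (nat_lit 133) (nat_lit 4) (nat_lit 134) (nat_lit 5) (nat_lit 134) (nat_lit 4) (nat_lit 454) (nat_lit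 332) (nat_lit 234))) (XT.nd (nat_lit 78) (nat_lit 152) (nat_lit 0) (XT.lf (nat_lit 0) (nat_lit 108666039890) (nat_lit 76) (nat_lit 8509093749) (nat_lit 76) (nat_lit 2364642130) (nat_lit 133) (nat_lit 4) (nat_lit 134) (nat_lit 5) (nat_lit 134) (nat_lit 4) (nat_lit 455) (nat_lit 332) (nat_lit 233)) (XT.lf (nat_lit 0) (nat_lit 38725282184) (nat_lit 152) (nat_lit 51851058188) (nat_lit 0) (nat_lit 32871180570) (nat_lit 131) (nat_lit 5) (nat_lit 133) (nat_lit 4) (nat_lit 131) (nat_lit 4) (nat_lit 456) (nat_lit 332) (nat_lit 232)))) (XT.nd (nat_lit 156) (nat_lit 228) (nat_lit 0) (XT.nd (nat_lit 78) (nat_lit 0) (nat_lit 0) (XT.lf (nat_lit 0) (nat_lit 31800431119) (nat_lit 76) (nat_lit 50782444861) (nat_lit 76) (nat_lit 44926207124) (nat_lit 130) (nat_lit 4) (nat_lit 131) (nat_lit 5) (nat_lit 131) (nat_lit 4) (nat_lit 457) (nat_lit 332) (nat_lit 231)) (XT.lf (nat_lit 0) (nat_lit 121373310534) (nat_lit 76)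 (nat_lit 8108139965) (nat_lit 76) (nat_lit 2249867824) (nat_lit 130) (nat_lit 4) (nat_lit 131) (nat_lit 5) (nat_lit 131) (nat_lit 4) (nat_lit 458) (nat_lit 332) (nat_lit 230))) (XT.nd (nat_lit 78) (nat_lit 76) (nat_lit 0) (XT.lf (nat_lit 0) (nat_lit 43039920890) (nat_lit 152) (nat_lit 55540659943) (nat_lit 0) (nat_lit 37458768827) (nat_lit 128) (nat_lit 5) (nat_lit 130) (nat_lit 4) (nat_lit 128) (nat_lit 4) (nat_lit 459) (nat_lit 332) (nat_lit 229)) (XT.lf (nat_lit 0) (nat_lit 36644612213) (nat_lit 76) (nat_lit 54728260722) (nat_lit 76) (nat_lit 49145351265) (nat_lit 127) (nat_lit 4) (nat_lit 128) (nat_lit 5) (nat_lit 128) (nat_lit 4) (nat_lit 460) (nat_lit 332) (nat_lit 228)))))))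
noncomputable def xc106 : XT := (XT.nd (nat_lit 1248) (nat_lit 1368) (nat_lit 0) (XT.nd (nat_lit 624) (nat_lit 532) (nat_lit 0) (XT.nd (nat_lit 312) (nat_lit 380) (nat_lit 0) (XT.nd (nat_lit 156) (nat_lit 76) (nat_lit 0) (XT.nd (nat_lit 78) (nat_lit 152) (nat_lit 0) (XT.lf (nat_lit 0) (nat_lit 135308969862) (nat_lit 76) (nat_lit 7725527271) (nat_lit 76) (nat_lit 2140944105) (nat_lit 127) (nat_lit 4) (nat_lit 128) (nat_lit 5) (nat_lit 128) (nat_lit 4) (nat_lit 461) (nat_lit 332) (nat_lit 227)) (XT.lf (nat_lit 0) (nat_lit 47779833686) (nat_lit 152) (nat_lit 59685299450) (nat_lit 0) (nat_lit 42459664949) (nat_lit 125) (nat_lit 5) (nat_lit 127) (nat_lit 4) (nat_lit 125) (nat_lit 4) (nat_lit 462) (nat_lit 332) (nat_lit 226))) (XT.nd (nat_lit 78) (nat_lit 0) (nat_lit 0) (XT.lf (nat_lit 0) (nat_lit 41910388012) (nat_lit 76) (nat_lit 59137468325) (nat_lit 76) (nat_lit 53815853776) (nat_lit 124) (nat_lit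 4) (nat_lit 125) (nat_lit 5) (nat_lit 125) (nat_lit 4) (nat_lit 463) (nat_lit 332) (nat_lit 225)) (XT.lf (nat_lit 0) (nat_lit 150602348838) (nat_lit 76) (nat_lit 7360515601) (nat_lit 76) (nat_lit 2037524088) (nat_lit 124) (nat_lit 4) (nat_lit 125) (nat_lit 5) (nat_lit 125) (nat_lit 4) (nat_lit 464) (nat_lit 332) (nat_lit 224)))) (XT.nd (nat_lit 156) (nat_lit 152) (nat_lit 0) (XT.nd (nat_lit 78) (nat_lit 76) (nat_lit 0) (XT.lf (nat_lit 0) (nat_lit 52989514177) (nat_lit 152) (nat_lit 64328053000) (nat_lit 0) (nat_lit 47918749504) (nat_lit 122) (nat_lit 5) (nat_lit 124) (nat_lit 4) (nat_lit 122) (nat_lit 4) (nat_lit 465) (nat_lit 332) (nat_lit 223)) (XT.lf (nat_lit 0) (nat_lit 47644447165) (nat_lit 76) (nat_lit 64054940134) (nat_lit 76) (nat_lit 58982985987) (nat_lit 121) (nat_lit 4) (nat_lit 122) (nat_lit 5) (nat_lit 122) (nat_lit 4) (nat_lit 466) (nat_lit 332) (nat_lit 222))) (XT.nd (nat_lit 78)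 (nat_lit 152) (nat_lit 0) (XT.lf (nat_lit 0) (nat_lit 167395891041) (nat_lit 76) (nat_lit 7012376492) (nat_lit 76) (nat_lit 1939289514) (nat_lit 121) (nat_lit 4) (nat_lit 122) (nat_lit 5) (nat_lit 122) (nat_lit 4) (nat_lit 467) (nat_lit 332) (nat_lit 221)) (XT.lf (nat_lit 0) (nat_lit 58717956793) (nat_lit 152) (nat_lit 69516565196) (nat_lit 0) (nat_lit 53885417874) (nat_lit 119) (nat_lit 5) (nat_lit 121) (nat_lit 4) (nat_lit 119) (nat_lit 4) (nat_lit 468) (nat_lit 332) (nat_lit 220))))) (XT.nd (nat_lit 312) (nat_lit 228) (nat_lit 0) (XT.nd (nat_lit 156) (nat_lit 228) (nat_lit 0) (XT.nd (nat_lit 78) (nat_lit 0) (nat_lit 0) (XT.lf (nat_lit 0) (nat_lit 53898114923) (nat_lit 76) (nat_lit 69530240828) (nat_lit 76) (nat_lit 64696723326) (nat_lit 118) (nat_lit 4) (nat_lit 119) (nat_lit 5) (nat_lit 119) (nat_lit 4) (nat_lit 469) (nat_lit 332) (nat_lit 219)) (XT.lf (nat_lit 0) (nat_lit 185846500176) (nat_lit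 76) (nat_lit 6680396725) (nat_lit 76) (nat_lit 1845947239) (nat_lit 118) (nat_lit 4) (nat_lit 119) (nat_lit 5) (nat_lit 119) (nat_lit 4) (nat_lit 470) (nat_lit 332) (nat_lit 218))) (XT.nd (nat_lit 78) (nat_lit 76) (nat_lit 0) (XT.lf (nat_lit 0) (nat_lit 65019123934) (nat_lit 152) (nat_lit 75303512888) (nat_lit 0) (nat_lit 60414040992) (nat_lit 116) (nat_lit 5) (nat_lit 118) (nat_lit 4) (nat_lit 116) (nat_lit 4) (nat_lit 471) (nat_lit 332) (nat_lit 217)) (XT.lf (nat_lit 0) (nat_lit 60727832566) (nat_lit 76) (nat_lit 75618109545) (nat_lit 76) (nat_lit 71012221521) (nat_lit 115) (nat_lit 4) (nat_lit 116) (nat_lit 5) (nat_lit 116) (nat_lit 4) (nat_lit 472) (nat_lit 332) (nat_lit 216)))) (XT.nd (nat_lit 156) (nat_lit 76) (nat_lit 0) (XT.nd (nat_lit 78) (nat_lit 152) (nat_lit 0) (XT.lf (nat_lit 0) (nat_lit 206127026126) (nat_lit 76) (nat_lit 6363881042) (nat_lit 76) (nat_lit 1757226273) (nat_lit 115)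 (nat_lit 4) (nat_lit 116) (nat_lit 5) (nat_lit 116) (nat_lit 4) (nat_lit 473) (nat_lit 332) (nat_lit 215)) (XT.lf (nat_lit 0) (nat_lit 71952460207) (nat_lit 152) (nat_lit 81747116354) (nat_lit 0) (nat_lit 67564474490) (nat_lit 113) (nat_lit 5) (nat_lit 115) (nat_lit 4) (nat_lit 113) (nat_lit 4) (nat_lit 474) (nat_lit 332) (nat_lit 214))) (XT.nd (nat_lit 78) (nat_lit 0) (nat_lit 0) (XT.lf (nat_lit 0) (nat_lit 68195686278) (nat_lit 76) (nat_lit 82378990486) (nat_lit 76) (nat_lit 77990342426) (nat_lit 112) (nat_lit 4) (nat_lit 113) (nat_lit 5) (nat_lit 113) (nat_lit 4) (nat_lit 475) (nat_lit 332) (nat_lit 213)) (XT.lf (nat_lit 0) (nat_lit 228427903648) (nat_lit 76) (nat_lit 6062154134) (nat_lit 76) (nat_lit 1672875271) (nat_lit 112) (nat_lit 4) (nat_lit 113) (nat_lit 5) (nat_lit 113) (nat_lit 4) (nat_lit 476) (nat_lit 332) (nat_lit 212)))))) (XT.nd (nat_lit 624) (nat_lit 684) (nat_lit 0) (XT.nd (nat_lit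 312) (nat_lit 304) (nat_lit 0) (XT.nd (nat_lit 156) (nat_lit 152) (nat_lit 0) (XT.nd (nat_lit 78) (nat_lit 76) (nat_lit 0) (XT.lf (nat_lit 0) (nat_lit 79583458699) (nat_lit 152) (nat_lit 88911702649) (nat_lit 0) (nat_lit 75402620958) (nat_lit 110) (nat_lit 5) (nat_lit 112) (nat_lit 4) (nat_lit 110) (nat_lit 4) (nat_lit 477) (nat_lit 332) (nat_lit 211)) (XT.lf (nat_lit 0) (nat_lit 76369990457) (nat_lit 76) (nat_lit 89879617059) (nat_lit 76) (nat_lit 85698234407) (nat_lit 109) (nat_lit 4) (nat_lit 110) (nat_lit 5) (nat_lit 110) (nat_lit 4) (nat_lit 478) (nat_lit 332) (nat_lit 210))) (XT.nd (nat_lit 78) (nat_lit 152) (nat_lit 0) (XT.lf (nat_lit 0) (nat_lit 252958959227) (nat_lit 76) (nat_lit 5774562019) (nat_lit 76) (nat_lit 1592660404) (nat_lit 109) (nat_lit 4) (nat_lit 110) (nat_lit 5) (nat_lit 110) (nat_lit 4) (nat_lit 479) (nat_lit 332) (nat_lit 209)) (XT.lf (nat_lit 0) (nat_lit 87984284719) (nat_lit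 152) (nat_lit 96868326576) (nat_lit 0) (nat_lit 84001050561) (nat_lit 107) (nat_lit 5) (nat_lit 109) (nat_lit 4) (nat_lit 107) (nat_lit 4) (nat_lit 480) (nat_lit 332) (nat_lit 208)))) (XT.nd (nat_lit 156) (nat_lit 228) (nat_lit 0) (XT.nd (nat_lit 78) (nat_lit 0) (nat_lit 0) (XT.lf (nat_lit 0) (nat_lit 85325930931) (nat_lit 76) (nat_lit 98193655246) (nat_lit 76) (nat_lit 94209972788) (nat_lit 106) (nat_lit 4) (nat_lit 107) (nat_lit 5) (nat_lit 107) (nat_lit 4) (nat_lit 481) (nat_lit 332) (nat_lit 207)) (XT.lf (nat_lit 0) (nat_lit 279951403266) (nat_lit 76) (nat_lit 5500472951) (nat_lit 76) (nat_lit 1516363540) (nat_lit 106) (nat_lit 4) (nat_lit 107) (nat_lit 5) (nat_lit 107) (nat_lit 4) (nat_lit 482) (nat_lit 332) (nat_lit 206))) (XT.nd (nat_lit 78) (nat_lit 76) (nat_lit 0) (XT.lf (nat_lit 0) (nat_lit 97234463013) (nat_lit 152) (nat_lit 105695455258) (nat_lit 0) (nat_lit 93439685840) (nat_lit 104)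 (nat_lit 5) (nat_lit 106) (nat_lit 4) (nat_lit 104) (nat_lit 4) (nat_lit 483) (nat_lit 332) (nat_lit 205)) (XT.lf (nat_lit 0) (nat_lit 95146274170) (nat_lit 76) (nat_lit 107402412405) (nat_lit 76) (nat_lit 103607266415) (nat_lit 103) (nat_lit 4) (nat_lit 104) (nat_lit 5) (nat_lit 104) (nat_lit 4) (nat_lit 484) (nat_lit 332) (nat_lit 204))))) (XT.nd (nat_lit 312) (nat_lit 456) (nat_lit 0) (XT.nd (nat_lit 156) (nat_lit 76) (nat_lit 0) (XT.nd (nat_lit 78) (nat_lit 152) (nat_lit 0) (XT.lf (nat_lit 0) (nat_lit 309660026533) (nat_lit 76) (nat_lit 5239277934) (nat_lit 76) (nat_lit 1443780689) (nat_lit 103) (nat_lit 4) (nat_lit 104) (nat_lit 5) (nat_lit 104) (nat_lit 4) (nat_lit 485) (nat_lit 332) (nat_lit 203)) (XT.lf (nat_lit 0) (nat_lit 107421635011) (nat_lit 152) (nat_lit 115479722863) (nat_lit 0) (nat_lit 103806557131) (nat_lit 101) (nat_lit 5) (nat_lit 103) (nat_lit 4) (nat_lit 101) (nat_lit 4) (nat_lit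 486) (nat_lit 332) (nat_lit 202))) (XT.nd (nat_lit 78) (nat_lit 0) (nat_lit 0) (XT.lf (nat_lit 0) (nat_lit 105922149193) (nat_lit 76) (nat_lit 117595618352) (nat_lit 76) (nat_lit 113980237046) (nat_lit 100) (nat_lit 4) (nat_lit 101) (nat_lit 5) (nat_lit 101) (nat_lit 4) (nat_lit 487) (nat_lit 332) (nat_lit 201)) (XT.lf (nat_lit 0) (nat_lit 342365621749) (nat_lit 76) (nat_lit 4990390947) (nat_lit 76) (nat_lit 1374720662) (nat_lit 100) (nat_lit 4) (nat_lit 101) (nat_lit 5) (nat_lit 101) (nat_lit 4) (nat_lit 488) (nat_lit 332) (nat_lit 200)))) (XT.nd (nat_lit 156) (nat_lit 228) (nat_lit 0) (XT.nd (nat_lit 78) (nat_lit 76) (nat_lit 0) (XT.lf (nat_lit 0) (nat_lit 118642393354) (nat_lit 152) (nat_lit 126316762737) (nat_lit 0) (nat_lit 115198635733) (nat_lit 98) (nat_lit 5) (nat_lit 100) (nat_lit 4) (nat_lit 98) (nat_lit 4) (nat_lit 489) (nat_lit 332) (nat_lit 199)) (XT.lf (nat_lit 0) (nat_lit 117753909587)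 (nat_lit 76) (nat_lit 128872286221) (nat_lit 76) (nat_lit 125428278970) (nat_lit 97) (nat_lit 4) (nat_lit 98) (nat_lit 5) (nat_lit 98) (nat_lit 4) (nat_lit 490) (nat_lit 332) (nat_lit 198))) (XT.nd (nat_lit 78) (nat_lit 228) (nat_lit 0) (XT.lf (nat_lit 0) (nat_lit 378377653358) (nat_lit 76) (nat_lit 4753248910) (nat_lit 76) (nat_lit 1309003915) (nat_lit 97) (nat_lit 4) (nat_lit 98) (nat_lit 5) (nat_lit 98) (nat_lit 4) (nat_lit 491) (nat_lit 332) (nat_lit 197)) (XT.nd (nat_lit 78) (nat_lit 76) (nat_lit 0) (XT.lf (nat_lit 0) (nat_lit 131003201684) (nat_lit 152) (nat_lit 138312124906) (nat_lit 0) (nat_lit 127722752717) (nat_lit 95) (nat_lit 5) (nat_lit 97) (nat_lit 4) (nat_lit 95) (nat_lit 4) (nat_lit 492) (nat_lit 332) (nat_lit 196)) (XT.lf (nat_lit 0) (nat_lit 130752083805) (nat_lit 76) (nat_lit 141341661366) (nat_lit 76) (nat_lit 138061007027) (nat_lit 94) (nat_lit 4) (nat_lit 95) (nat_lit 5) (nat_lit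 95) (nat_lit 4) (nat_lit 493) (nat_lit 332) (nat_lit 195))))))))
noncomputable def xc107 : XT := (XT.nd (nat_lit 44616) (nat_lit 0) (nat_lit 6004) (XT.nd (nat_lit 43368) (nat_lit 0) (nat_lit 8968) (XT.nd (nat_lit 42744) (nat_lit 0) (nat_lit 11628) (XT.nd (nat_lit 42432) (nat_lit 0) (nat_lit 13604) (XT.nd (nat_lit 42276) (nat_lit 0) (nat_lit 14972) (XT.nd (nat_lit 42198) (nat_lit 0) (nat_lit 16492) (XT.lf (nat_lit 0) (nat_lit 418037200884) (nat_lit 76) (nat_lit 4527311477) (nat_lit 76) (nat_lit 1246461546) (nat_lit 94) (nat_lit 4) (nat_lit 95) (nat_lit 5) (nat_lit 95) (nat_lit 4) (nat_lit 494) (nat_lit 332) (nat_lit 194)) (XT.lf (nat_lit 0) (nat_lit 1259473935) (nat_lit 684) (nat_lit 983288773) (nat_lit 0) (nat_lit 1259473935) (nat_lit 311) (nat_lit 5) (nat_lit 320) (nat_lit 4) (nat_lit 311) (nat_lit 4) (nat_lit 354) (nat_lit 333) (nat_lit 333))) (XT.nd (nat_lit 78) (nat_lit 836) (nat_lit 0) (XT.lf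 (nat_lit 0) (nat_lit 3263806844) (nat_lit 684) (nat_lit 2809499616) (nat_lit 684) (nat_lit 1015800741) (nat_lit 302) (nat_lit 4) (nat_lit 311) (nat_lit 5) (nat_lit 311) (nat_lit 4) (nat_lit 355) (nat_lit 333) (nat_lit 332)) (XT.lf (nat_lit 0) (nat_lit 1477801882) (nat_lit 760) (nat_lit 951361727) (nat_lit 836) (nat_lit 4752465790) (nat_lit 291) (nat_lit 5) (nat_lit 301) (nat_lit 5) (nat_lit 302) (nat_lit 4) (nat_lit 356) (nat_lit 333) (nat_lit 331)))) (XT.nd (nat_lit 156) (nat_lit 836) (nat_lit 0) (XT.nd (nat_lit 78) (nat_lit 532) (nat_lit 0) (XT.lf (nat_lit 0) (nat_lit 5927952618) (nat_lit 836) (nat_lit 310941075) (nat_lit 0) (nat_lit 1043265691) (nat_lit 291) (nat_lit 5) (nat_lit 302) (nat_lit 4) (nat_lit 291) (nat_lit 4) (nat_lit 357) (nat_lit 333) (nat_lit 330)) (XT.lf (nat_lit 0) (nat_lit 2083172012) (nat_lit 532) (nat_lit 2089864805) (nat_lit 76) (nat_lit 3215947365) (nat_lit 284) (nat_lit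 5) (nat_lit 291) (nat_lit 5) (nat_lit 285) (nat_lit 4) (nat_lit 358) (nat_lit 333) (nat_lit 329))) (XT.nd (nat_lit 78) (nat_lit 456) (nat_lit 0) (XT.lf (nat_lit 0) (nat_lit 3618426591) (nat_lit 380) (nat_lit 1934843665) (nat_lit 456) (nat_lit 1951451922) (nat_lit 279) (nat_lit 5) (nat_lit 284) (nat_lit 5) (nat_lit 285) (nat_lit 4) (nat_lit 359) (nat_lit 333) (nat_lit 328)) (XT.lf (nat_lit 0) (nat_lit 1440660168) (nat_lit 456) (nat_lit 5717373466) (nat_lit 76) (nat_lit 470972160) (nat_lit 273) (nat_lit 5) (nat_lit 279) (nat_lit 5) (nat_lit 274) (nat_lit 4) (nat_lit 360) (nat_lit 333) (nat_lit 327))))) (XT.nd (nat_lit 312) (nat_lit 988) (nat_lit 0) (XT.nd (nat_lit 156) (nat_lit 608) (nat_lit 0) (XT.nd (nat_lit 78) (nat_lit 76) (nat_lit 0) (XT.lf (nat_lit 0) (nat_lit 136630163) (nat_lit 304) (nat_lit 4751859093) (nat_lit 380) (nat_lit 2871830136) (nat_lit 269) (nat_lit 5) (nat_lit 273) (nat_lit 5)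 (nat_lit 274) (nat_lit 4) (nat_lit 361) (nat_lit 333) (nat_lit 326)) (XT.lf (nat_lit 0) (nat_lit 542273413) (nat_lit 380) (nat_lit 1605712443) (nat_lit 76) (nat_lit 5752171102) (nat_lit 268) (nat_lit 5) (nat_lit 273) (nat_lit 5) (nat_lit 269) (nat_lit 5) (nat_lit 362) (nat_lit 333) (nat_lit 325))) (XT.nd (nat_lit 78) (nat_lit 304) (nat_lit 0) (XT.lf (nat_lit 0) (nat_lit 3973486361) (nat_lit 380) (nat_lit 3418336400) (nat_lit 76) (nat_lit 655663854) (nat_lit 264) (nat_lit 5) (nat_lit 269) (nat_lit 5) (nat_lit 265) (nat_lit 4) (nat_lit 363) (nat_lit 333) (nat_lit 324)) (XT.lf (nat_lit 0) (nat_lit 2910383976) (nat_lit 304) (nat_lit 4637501910) (nat_lit 380) (nat_lit 655715573) (nat_lit 260) (nat_lit 5) (nat_lit 264) (nat_lit 5) (nat_lit 265) (nat_lit 4) (nat_lit 364) (nat_lit 333) (nat_lit 323)))) (XT.nd (nat_lit 156) (nat_lit 608) (nat_lit 0) (XT.nd (nat_lit 78) (nat_lit 0) (nat_lit 0) (XT.lf (nat_lit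 0) (nat_lit 1119278953) (nat_lit 304) (nat_lit 1661562773) (nat_lit 380) (nat_lit 5587327917) (nat_lit 255) (nat_lit 5) (nat_lit 259) (nat_lit 5) (nat_lit 260) (nat_lit 5) (nat_lit 365) (nat_lit 333) (nat_lit 322)) (XT.lf (nat_lit 0) (nat_lit 6349052480) (nat_lit 380) (nat_lit 717736435) (nat_lit 76) (nat_lit 1474546751) (nat_lit 255) (nat_lit 5) (nat_lit 260) (nat_lit 5) (nat_lit 256) (nat_lit 4) (nat_lit 366) (nat_lit 333) (nat_lit 321))) (XT.nd (nat_lit 78) (nat_lit 304) (nat_lit 0) (XT.lf (nat_lit 0) (nat_lit 1325764523) (nat_lit 304) (nat_lit 2609247188) (nat_lit 76) (nat_lit 4787217852) (nat_lit 251) (nat_lit 5) (nat_lit 255) (nat_lit 5) (nat_lit 252) (nat_lit 5) (nat_lit 367) (nat_lit 333) (nat_lit 320)) (XT.lf (nat_lit 0) (nat_lit 4325923981) (nat_lit 304) (nat_lit 575520000) (nat_lit 380) (nat_lit 4011156999) (nat_lit 247) (nat_lit 5) (nat_lit 251) (nat_lit 5) (nat_lit 252) (nat_lit 5)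 (nat_lit 368) (nat_lit 333) (nat_lit 319)))))) (XT.nd (nat_lit 624) (nat_lit 1140) (nat_lit 0) (XT.nd (nat_lit 312) (nat_lit 684) (nat_lit 0) (XT.nd (nat_lit 156) (nat_lit 304) (nat_lit 0) (XT.nd (nat_lit 78) (nat_lit 304) (nat_lit 0) (XT.lf (nat_lit 0) (nat_lit 2442074103) (nat_lit 228) (nat_lit 6220917655) (nat_lit 304) (nat_lit 449144992) (nat_lit 244) (nat_lit 5) (nat_lit 247) (nat_lit 5) (nat_lit 248) (nat_lit 4) (nat_lit 369) (nat_lit 333) (nat_lit 318)) (XT.lf (nat_lit 0) (nat_lit 437065585) (nat_lit 228) (nat_lit 2722871327) (nat_lit 304) (nat_lit 6160428294) (nat_lit 240) (nat_lit 5) (nat_lit 243) (nat_lit 5) (nat_lit 244) (nat_lit 5) (nat_lit 370) (nat_lit 333) (nat_lit 317))) (XT.nd (nat_lit 78) (nat_lit 304) (nat_lit 0) (XT.lf (nat_lit 0) (nat_lit 6945228056) (nat_lit 304) (nat_lit 1606967968) (nat_lit 76) (nat_lit 985898442) (nat_lit 240) (nat_lit 5) (nat_lit 244) (nat_lit 5) (nat_lit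 241) (nat_lit 4) (nat_lit 371) (nat_lit 333) (nat_lit 316)) (XT.lf (nat_lit 0) (nat_lit 1141894547) (nat_lit 304) (nat_lit 3775079168) (nat_lit 76) (nat_lit 4847550011) (nat_lit 236) (nat_lit 5) (nat_lit 240) (nat_lit 5) (nat_lit 237) (nat_lit 5) (nat_lit 372) (nat_lit 333) (nat_lit 315)))) (XT.nd (nat_lit 156) (nat_lit 304) (nat_lit 0) (XT.nd (nat_lit 78) (nat_lit 152) (nat_lit 0) (XT.lf (nat_lit 0) (nat_lit 3930385980) (nat_lit 228) (nat_lit 1022690483) (nat_lit 304) (nat_lit 5048231675) (nat_lit 233) (nat_lit 5) (nat_lit 236) (nat_lit 5) (nat_lit 237) (nat_lit 5) (nat_lit 373) (nat_lit 333) (nat_lit 314)) (XT.lf (nat_lit 0) (nat_lit 1737386195) (nat_lit 152) (nat_lit 7246943925) (nat_lit 228) (nat_lit 1264126018) (nat_lit 231) (nat_lit 5) (nat_lit 233) (nat_lit 5) (nat_lit 234) (nat_lit 4) (nat_lit 374) (nat_lit 333) (nat_lit 313))) (XT.nd (nat_lit 78) (nat_lit 228) (nat_lit 0) (XT.lf (nat_lit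 0) (nat_lit 2634078941) (nat_lit 228) (nat_lit 592249089) (nat_lit 76) (nat_lit 7278938367) (nat_lit 230) (nat_lit 5) (nat_lit 233) (nat_lit 5) (nat_lit 231) (nat_lit 5) (nat_lit 375) (nat_lit 333) (nat_lit 312)) (XT.lf (nat_lit 0) (nat_lit 6718690560) (nat_lit 304) (nat_lit 3006199542) (nat_lit 76) (nat_lit 1047291931) (nat_lit 227) (nat_lit 5) (nat_lit 231) (nat_lit 5) (nat_lit 228) (nat_lit 4) (nat_lit 376) (nat_lit 333) (nat_lit 311))))) (XT.nd (nat_lit 312) (nat_lit 532) (nat_lit 0) (XT.nd (nat_lit 156) (nat_lit 228) (nat_lit 0) (XT.nd (nat_lit 78) (nat_lit 152) (nat_lit 0) (XT.lf (nat_lit 0) (nat_lit 2654742) (nat_lit 228) (nat_lit 5586274348) (nat_lit 76) (nat_lit 5461243020) (nat_lit 224) (nat_lit 5) (nat_lit 227) (nat_lit 5) (nat_lit 225) (nat_lit 5) (nat_lit 377) (nat_lit 333) (nat_lit 310)) (XT.lf (nat_lit 0) (nat_lit 2981191802) (nat_lit 152) (nat_lit 1140139032) (nat_lit 228) (nat_lit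 7217611000) (nat_lit 222) (nat_lit 5) (nat_lit 224) (nat_lit 5) (nat_lit 225) (nat_lit 5) (nat_lit 378) (nat_lit 333) (nat_lit 309))) (XT.nd (nat_lit 78) (nat_lit 76) (nat_lit 0) (XT.lf (nat_lit 0) (nat_lit 316475524) (nat_lit 152) (nat_lit 8184584271) (nat_lit 228) (nat_lit 3138334294) (nat_lit 220) (nat_lit 5) (nat_lit 222) (nat_lit 5) (nat_lit 223) (nat_lit 4) (nat_lit 379) (nat_lit 333) (nat_lit 308)) (XT.lf (nat_lit 0) (nat_lit 1170280135) (nat_lit 228) (nat_lit 2443204249) (nat_lit 76) (nat_lit 8337389913) (nat_lit 219) (nat_lit 5) (nat_lit 222) (nat_lit 5) (nat_lit 220) (nat_lit 5) (nat_lit 380) (nat_lit 333) (nat_lit 307)))) (XT.nd (nat_lit 156) (nat_lit 228) (nat_lit 0) (XT.nd (nat_lit 78) (nat_lit 152) (nat_lit 0) (XT.lf (nat_lit 0) (nat_lit 5620702257) (nat_lit 228) (nat_lit 5408337922) (nat_lit 76) (nat_lit 1244723651) (nat_lit 217) (nat_lit 5) (nat_lit 220) (nat_lit 5) (nat_lit 218)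 (nat_lit 4) (nat_lit 381) (nat_lit 333) (nat_lit 306)) (XT.lf (nat_lit 0) (nat_lit 4018307314) (nat_lit 152) (nat_lit 6344635551) (nat_lit 228) (nat_lit 2246390107) (nat_lit 215) (nat_lit 5) (nat_lit 217) (nat_lit 5) (nat_lit 218) (nat_lit 4) (nat_lit 382) (nat_lit 333) (nat_lit 305))) (XT.nd (nat_lit 78) (nat_lit 0) (nat_lit 0) (XT.lf (nat_lit 0) (nat_lit 975046160) (nat_lit 152) (nat_lit 1343431518) (nat_lit 228) (nat_lit 10640641624) (nat_lit 212) (nat_lit 5) (nat_lit 214) (nat_lit 5) (nat_lit 215) (nat_lit 5) (nat_lit 383) (nat_lit 333) (nat_lit 304)) (XT.lf (nat_lit 0) (nat_lit 7151603350) (nat_lit 228) (nat_lit 2266979765) (nat_lit 76) (nat_lit 3900195132) (nat_lit 212) (nat_lit 5) (nat_lit 215) (nat_lit 5) (nat_lit 213) (nat_lit 4) (nat_lit 384) (nat_lit 333) (nat_lit 303))))))) (XT.nd (nat_lit 1248) (nat_lit 1216) (nat_lit 0) (XT.nd (nat_lit 624) (nat_lit 836) (nat_lit 0) (XT.nd (nat_lit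 312) (nat_lit 532) (nat_lit 0) (XT.nd (nat_lit 156) (nat_lit 76) (nat_lit 0) (XT.nd (nat_lit 78) (nat_lit 228) (nat_lit 0) (XT.lf (nat_lit 0) (nat_lit 8012963362) (nat_lit 76) (nat_lit 4271614420) (nat_lit 152) (nat_lit 1408932736) (nat_lit 211) (nat_lit 5) (nat_lit 212) (nat_lit 5) (nat_lit 213) (nat_lit 4) (nat_lit 385) (nat_lit 333) (nat_lit 302)) (XT.lf (nat_lit 0) (nat_lit 3516224682) (nat_lit 228) (nat_lit 9364616139) (nat_lit 76) (nat_lit 1201147419) (nat_lit 208) (nat_lit 5) (nat_lit 211) (nat_lit 5) (nat_lit 209) (nat_lit 4) (nat_lit 386) (nat_lit 333) (nat_lit 301))) (XT.nd (nat_lit 78) (nat_lit 0) (nat_lit 0) (XT.lf (nat_lit 0) (nat_lit 1130240631) (nat_lit 76) (nat_lit 7607677131) (nat_lit 152) (nat_lit 5745935866) (nat_lit 207) (nat_lit 5) (nat_lit 208) (nat_lit 5) (nat_lit 209) (nat_lit 4) (nat_lit 387) (nat_lit 333) (nat_lit 300)) (XT.lf (nat_lit 0) (nat_lit 12318959240) (nat_lit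 76) (nat_lit 1974251709) (nat_lit 152) (nat_lit 608975564) (nat_lit 207) (nat_lit 5) (nat_lit 208) (nat_lit 5) (nat_lit 209) (nat_lit 4) (nat_lit 388) (nat_lit 333) (nat_lit 299)))) (XT.nd (nat_lit 156) (nat_lit 228) (nat_lit 0) (XT.nd (nat_lit 78) (nat_lit 76) (nat_lit 0) (XT.lf (nat_lit 0) (nat_lit 4749393507) (nat_lit 228) (nat_lit 6618266475) (nat_lit 76) (nat_lit 3964155562) (nat_lit 204) (nat_lit 5) (nat_lit 207) (nat_lit 5) (nat_lit 205) (nat_lit 4) (nat_lit 389) (nat_lit 333) (nat_lit 298)) (XT.lf (nat_lit 0) (nat_lit 4844168003) (nat_lit 76) (nat_lit 5580778904) (nat_lit 152) (nat_lit 5353993387) (nat_lit 203) (nat_lit 5) (nat_lit 204) (nat_lit 5) (nat_lit 205) (nat_lit 4) (nat_lit 390) (nat_lit 333) (nat_lit 297))) (XT.nd (nat_lit 78) (nat_lit 0) (nat_lit 0) (XT.lf (nat_lit 0) (nat_lit 183172325) (nat_lit 228) (nat_lit 15520888395) (nat_lit 76) (nat_lit 541671312) (nat_lit 200) (nat_lit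 5) (nat_lit 203) (nat_lit 5) (nat_lit 201) (nat_lit 4) (nat_lit 391) (nat_lit 333) (nat_lit 296)) (XT.lf (nat_lit 0) (nat_lit 6015036070) (nat_lit 228) (nat_lit 3714536506) (nat_lit 76) (nat_lit 6992013811) (nat_lit 200) (nat_lit 5) (nat_lit 203) (nat_lit 5) (nat_lit 201) (nat_lit 4) (nat_lit 392) (nat_lit 333) (nat_lit 295))))) (XT.nd (nat_lit 312) (nat_lit 456) (nat_lit 0) (XT.nd (nat_lit 156) (nat_lit 76) (nat_lit 0) (XT.nd (nat_lit 78) (nat_lit 228) (nat_lit 0) (XT.lf (nat_lit 0) (nat_lit 8818957546) (nat_lit 76) (nat_lit 3379185396) (nat_lit 152) (nat_lit 5020108020) (nat_lit 199) (nat_lit 5) (nat_lit 200) (nat_lit 5) (nat_lit 201) (nat_lit 4) (nat_lit 393) (nat_lit 333) (nat_lit 294)) (XT.lf (nat_lit 0) (nat_lit 1026950313) (nat_lit 228) (nat_lit 13439851446) (nat_lit 76) (nat_lit 3266868843) (nat_lit 196) (nat_lit 5) (nat_lit 199) (nat_lit 5) (nat_lit 197) (nat_lit 4) (nat_lit 394) (nat_lit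 333) (nat_lit 293))) (XT.nd (nat_lit 78) (nat_lit 76) (nat_lit 0) (XT.lf (nat_lit 0) (nat_lit 7330238010) (nat_lit 228) (nat_lit 640668658) (nat_lit 76) (nat_lit 10293710464) (nat_lit 196) (nat_lit 5) (nat_lit 199) (nat_lit 5) (nat_lit 197) (nat_lit 4) (nat_lit 395) (nat_lit 333) (nat_lit 292)) (XT.lf (nat_lit 0) (nat_lit 13077918465) (nat_lit 76) (nat_lit 1001250308) (nat_lit 152) (nat_lit 4736418280) (nat_lit 195) (nat_lit 5) (nat_lit 196) (nat_lit 5) (nat_lit 197) (nat_lit 4) (nat_lit 396) (nat_lit 333) (nat_lit 291)))) (XT.nd (nat_lit 156) (nat_lit 152) (nat_lit 0) (XT.nd (nat_lit 78) (nat_lit 76) (nat_lit 0) (XT.lf (nat_lit 0) (nat_lit 1880713968) (nat_lit 228) (nat_lit 11283146196) (nat_lit 76) (nat_lit 6220563923) (nat_lit 192) (nat_lit 5) (nat_lit 195) (nat_lit 5) (nat_lit 193) (nat_lit 4) (nat_lit 397) (nat_lit 333) (nat_lit 290)) (XT.lf (nat_lit 0) (nat_lit 2705811938) (nat_lit 76) (nat_lit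 6047968408) (nat_lit 152) (nat_lit 11219827706) (nat_lit 191) (nat_lit 5) (nat_lit 192) (nat_lit 5) (nat_lit 193) (nat_lit 4) (nat_lit 398) (nat_lit 333) (nat_lit 289))) (XT.nd (nat_lit 78) (nat_lit 152) (nat_lit 0) (XT.lf (nat_lit 0) (nat_lit 16114091224) (nat_lit 152) (nat_lit 2962093381) (nat_lit 0) (nat_lit 1508887051) (nat_lit 191) (nat_lit 5) (nat_lit 193) (nat_lit 4) (nat_lit 191) (nat_lit 4) (nat_lit 399) (nat_lit 333) (nat_lit 288)) (XT.lf (nat_lit 0) (nat_lit 2755728011) (nat_lit 152) (nat_lit 9043060713) (nat_lit 76) (nat_lit 9415071848) (nat_lit 189) (nat_lit 5) (nat_lit 191) (nat_lit 5) (nat_lit 190) (nat_lit 4) (nat_lit 400) (nat_lit 333) (nat_lit 287)))))) (XT.nd (nat_lit 624) (nat_lit 608) (nat_lit 0) (XT.nd (nat_lit 312) (nat_lit 304) (nat_lit 0) (XT.nd (nat_lit 156) (nat_lit 228) (nat_lit 0) (XT.nd (nat_lit 78) (nat_lit 0) (nat_lit 0) (XT.lf (nat_lit 0) (nat_lit 6285189715) (nat_lit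 76) (nat_lit 3988197722) (nat_lit 152) (nat_lit 11593043269) (nat_lit 188) (nat_lit 5) (nat_lit 189) (nat_lit 5) (nat_lit 190) (nat_lit 4) (nat_lit 401) (nat_lit 333) (nat_lit 286)) (XT.lf (nat_lit 0) (nat_lit 18319377324) (nat_lit 152) (nat_lit 52162667) (nat_lit 0) (nat_lit 4172466980) (nat_lit 188) (nat_lit 5) (nat_lit 190) (nat_lit 4) (nat_lit 188) (nat_lit 4) (nat_lit 402) (nat_lit 333) (nat_lit 285))) (XT.nd (nat_lit 78) (nat_lit 76) (nat_lit 0) (XT.lf (nat_lit 0) (nat_lit 3662754264) (nat_lit 152) (nat_lit 6709920635) (nat_lit 76) (nat_lit 12866897279) (nat_lit 186) (nat_lit 5) (nat_lit 188) (nat_lit 5) (nat_lit 187) (nat_lit 4) (nat_lit 403) (nat_lit 333) (nat_lit 284)) (XT.lf (nat_lit 0) (nat_lit 10098996885) (nat_lit 76) (nat_lit 1796519251) (nat_lit 152) (nat_lit 12066287496) (nat_lit 185) (nat_lit 5) (nat_lit 186) (nat_lit 5) (nat_lit 187) (nat_lit 4) (nat_lit 404) (nat_lit 333) (nat_lit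 283)))) (XT.nd (nat_lit 156) (nat_lit 152) (nat_lit 0) (XT.nd (nat_lit 78) (nat_lit 76) (nat_lit 0) (XT.lf (nat_lit 0) (nat_lit 3124781775) (nat_lit 76) (nat_lit 17626589299) (nat_lit 76) (nat_lit 3958202838) (nat_lit 184) (nat_lit 4) (nat_lit 185) (nat_lit 5) (nat_lit 185) (nat_lit 4) (nat_lit 405) (nat_lit 333) (nat_lit 282)) (XT.lf (nat_lit 0) (nat_lit 4612286449) (nat_lit 152) (nat_lit 4272151247) (nat_lit 76) (nat_lit 16596599069) (nat_lit 183) (nat_lit 5) (nat_lit 185) (nat_lit 5) (nat_lit 184) (nat_lit 4) (nat_lit 406) (nat_lit 333) (nat_lit 281))) (XT.nd (nat_lit 78) (nat_lit 76) (nat_lit 0) (XT.lf (nat_lit 0) (nat_lit 13645759799) (nat_lit 152) (nat_lit 12115061571) (nat_lit 0) (nat_lit 518632905) (nat_lit 182) (nat_lit 5) (nat_lit 184) (nat_lit 4) (nat_lit 182) (nat_lit 4) (nat_lit 407) (nat_lit 333) (nat_lit 280)) (XT.lf (nat_lit 0) (nat_lit 6496129623) (nat_lit 76) (nat_lit 16893392073)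 (nat_lit 76) (nat_lit 3715340218) (nat_lit 181) (nat_lit 4) (nat_lit 182) (nat_lit 5) (nat_lit 182) (nat_lit 4) (nat_lit 408) (nat_lit 333) (nat_lit 279))))) (XT.nd (nat_lit 312) (nat_lit 228) (nat_lit 0) (XT.nd (nat_lit 156) (nat_lit 228) (nat_lit 0) (XT.nd (nat_lit 78) (nat_lit 76) (nat_lit 0) (XT.lf (nat_lit 0) (nat_lit 5614758641) (nat_lit 152) (nat_lit 1716296602) (nat_lit 76) (nat_lit 20628743513) (nat_lit 180) (nat_lit 5) (nat_lit 182) (nat_lit 5) (nat_lit 181) (nat_lit 4) (nat_lit 409) (nat_lit 333) (nat_lit 278)) (XT.lf (nat_lit 0) (nat_lit 15564107179) (nat_lit 152) (nat_lit 10353049405) (nat_lit 0) (nat_lit 2923400267) (nat_lit 179) (nat_lit 5) (nat_lit 181) (nat_lit 4) (nat_lit 179) (nat_lit 4) (nat_lit 410) (nat_lit 333) (nat_lit 277))) (XT.nd (nat_lit 78) (nat_lit 152) (nat_lit 0) (XT.lf (nat_lit 0) (nat_lit 10082966649) (nat_lit 76) (nat_lit 16176286356) (nat_lit 76) (nat_lit 3493683353)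 (nat_lit 178) (nat_lit 4) (nat_lit 179) (nat_lit 5) (nat_lit 179) (nat_lit 4) (nat_lit 411) (nat_lit 333) (nat_lit 276)) (XT.lf (nat_lit 0) (nat_lit 1005171596) (nat_lit 76) (nat_lit 5691255544) (nat_lit 152) (nat_lit 24002458786) (nat_lit 176) (nat_lit 5) (nat_lit 177) (nat_lit 5) (nat_lit 178) (nat_lit 4) (nat_lit 412) (nat_lit 333) (nat_lit 275)))) (XT.nd (nat_lit 156) (nat_lit 152) (nat_lit 0) (XT.nd (nat_lit 78) (nat_lit 76) (nat_lit 0) (XT.lf (nat_lit 0) (nat_lit 17641617403) (nat_lit 152) (nat_lit 8540747181) (nat_lit 0) (nat_lit 5488755467) (nat_lit 176) (nat_lit 5) (nat_lit 178) (nat_lit 4) (nat_lit 176) (nat_lit 4) (nat_lit 413) (nat_lit 333) (nat_lit 274)) (XT.lf (nat_lit 0) (nat_lit 13910877001) (nat_lit 76) (nat_lit 15477843095) (nat_lit 76) (nat_lit 3290513141) (nat_lit 175) (nat_lit 4) (nat_lit 176) (nat_lit 5) (nat_lit 176) (nat_lit 4) (nat_lit 414) (nat_lit 333) (nat_lit 273)))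 (XT.nd (nat_lit 78) (nat_lit 0) (nat_lit 0) (XT.lf (nat_lit 0) (nat_lit 3939126290) (nat_lit 76) (nat_lit 3943450747) (nat_lit 152) (nat_lit 25841304566) (nat_lit 173) (nat_lit 5) (nat_lit 174) (nat_lit 5) (nat_lit 175) (nat_lit 4) (nat_lit 415) (nat_lit 333) (nat_lit 272)) (XT.lf (nat_lit 0) (nat_lit 19898644454) (nat_lit 152) (nat_lit 6669050247) (nat_lit 0) (nat_lit 8230625267) (nat_lit 173) (nat_lit 5) (nat_lit 175) (nat_lit 4) (nat_lit 173) (nat_lit 4) (nat_lit 416) (nat_lit 333) (nat_lit 271))))))))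
noncomputable def xc108 : XT := (XT.nd (nat_lit 1248) (nat_lit 1292) (nat_lit 0) (XT.nd (nat_lit 624) (nat_lit 532) (nat_lit 0) (XT.nd (nat_lit 312) (nat_lit 380) (nat_lit 0) (XT.nd (nat_lit 156) (nat_lit 76) (nat_lit 0) (XT.nd (nat_lit 78) (nat_lit 152) (nat_lit 0) (XT.lf (nat_lit 0) (nat_lit 18008378962) (nat_lit 76) (nat_lit 14799919129) (nat_lit 76) (nat_lit 3103543019) (nat_lit 172) (nat_lit 4) (nat_lit 173) (nat_lit 5) (nat_lit 173) (nat_lit 4) (nat_lit 417) (nat_lit 333) (nat_lit 270)) (XT.lf (nat_lit 0) (nat_lit 7048812800) (nat_lit 76) (nat_lit 2108355738) (nat_lit 152) (nat_lit 27908030205) (nat_lit 170) (nat_lit 5) (nat_lit 171) (nat_lit 5) (nat_lit 172) (nat_lit 4) (nat_lit 418) (nat_lit 333) (nat_lit 269))) (XT.nd (nat_lit 78) (nat_lit 76) (nat_lit 0) (XT.lf (nat_lit 0) (nat_lit 22357036314) (nat_lit 152) (nat_lit 4727708903) (nat_lit 0) (nat_lit 11167414152) (nat_lit 170) (nat_lit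 5) (nat_lit 172) (nat_lit 4) (nat_lit 170) (nat_lit 4) (nat_lit 419) (nat_lit 333) (nat_lit 268)) (XT.lf (nat_lit 0) (nat_lit 22407126056) (nat_lit 76) (nat_lit 14143796105) (nat_lit 76) (nat_lit 2930844631) (nat_lit 169) (nat_lit 4) (nat_lit 170) (nat_lit 5) (nat_lit 170) (nat_lit 4) (nat_lit 420) (nat_lit 333) (nat_lit 267)))) (XT.nd (nat_lit 156) (nat_lit 228) (nat_lit 0) (XT.nd (nat_lit 78) (nat_lit 0) (nat_lit 0) (XT.lf (nat_lit 0) (nat_lit 10356457122) (nat_lit 76) (nat_lit 176043847) (nat_lit 152) (nat_lit 30222378460) (nat_lit 167) (nat_lit 5) (nat_lit 168) (nat_lit 5) (nat_lit 169) (nat_lit 4) (nat_lit 421) (nat_lit 333) (nat_lit 266)) (XT.lf (nat_lit 0) (nat_lit 25040387204) (nat_lit 152) (nat_lit 2705292022) (nat_lit 0) (nat_lit 14320072691) (nat_lit 167) (nat_lit 5) (nat_lit 169) (nat_lit 4) (nat_lit 167) (nat_lit 4) (nat_lit 422) (nat_lit 333) (nat_lit 265))) (XT.nd (nat_lit 78) (nat_lit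 152) (nat_lit 0) (XT.lf (nat_lit 0) (nat_lit 27142148551) (nat_lit 76) (nat_lit 13510294163) (nat_lit 76) (nat_lit 2770786568) (nat_lit 166) (nat_lit 4) (nat_lit 167) (nat_lit 5) (nat_lit 167) (nat_lit 4) (nat_lit 423) (nat_lit 333) (nat_lit 264)) (XT.lf (nat_lit 0) (nat_lit 12050804356) (nat_lit 152) (nat_lit 30970729440) (nat_lit 0) (nat_lit 1805293193) (nat_lit 164) (nat_lit 5) (nat_lit 166) (nat_lit 4) (nat_lit 164) (nat_lit 4) (nat_lit 424) (nat_lit 333) (nat_lit 263))))) (XT.nd (nat_lit 312) (nat_lit 228) (nat_lit 0) (XT.nd (nat_lit 156) (nat_lit 228) (nat_lit 0) (XT.nd (nat_lit 78) (nat_lit 76) (nat_lit 0) (XT.lf (nat_lit 0) (nat_lit 27974298394) (nat_lit 152) (nat_lit 589130516) (nat_lit 0) (nat_lit 17712207525) (nat_lit 164) (nat_lit 5) (nat_lit 166) (nat_lit 4) (nat_lit 164) (nat_lit 4) (nat_lit 425) (nat_lit 333) (nat_lit 262)) (XT.lf (nat_lit 0) (nat_lit 32252135885) (nat_lit 76) (nat_lit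 12899864924) (nat_lit 76) (nat_lit 2621983860) (nat_lit 163) (nat_lit 4) (nat_lit 164) (nat_lit 5) (nat_lit 164) (nat_lit 4) (nat_lit 426) (nat_lit 333) (nat_lit 261))) (XT.nd (nat_lit 78) (nat_lit 76) (nat_lit 0) (XT.lf (nat_lit 0) (nat_lit 13701693675) (nat_lit 152) (nat_lit 31720669946) (nat_lit 0) (nat_lit 3898913345) (nat_lit 161) (nat_lit 5) (nat_lit 163) (nat_lit 4) (nat_lit 161) (nat_lit 4) (nat_lit 427) (nat_lit 333) (nat_lit 260)) (XT.lf (nat_lit 0) (nat_lit 1688810902) (nat_lit 76) (nat_lit 29524207669) (nat_lit 76) (nat_lit 19707787173) (nat_lit 160) (nat_lit 4) (nat_lit 161) (nat_lit 5) (nat_lit 161) (nat_lit 4) (nat_lit 428) (nat_lit 333) (nat_lit 259)))) (XT.nd (nat_lit 156) (nat_lit 76) (nat_lit 0) (XT.nd (nat_lit 78) (nat_lit 152) (nat_lit 0) (XT.lf (nat_lit 0) (nat_lit 37779761249) (nat_lit 76) (nat_lit 12312667446) (nat_lit 76) (nat_lit 2483256317) (nat_lit 160) (nat_lit 4) (nat_lit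 161) (nat_lit 5) (nat_lit 161) (nat_lit 4) (nat_lit 429) (nat_lit 333) (nat_lit 258)) (XT.lf (nat_lit 0) (nat_lit 15497862795) (nat_lit 152) (nat_lit 32658792576) (nat_lit 0) (nat_lit 6124735975) (nat_lit 158) (nat_lit 5) (nat_lit 160) (nat_lit 4) (nat_lit 158) (nat_lit 4) (nat_lit 430) (nat_lit 333) (nat_lit 257))) (XT.nd (nat_lit 78) (nat_lit 0) (nat_lit 0) (XT.lf (nat_lit 0) (nat_lit 4113420854) (nat_lit 76) (nat_lit 30658699253) (nat_lit 76) (nat_lit 21274350636) (nat_lit 157) (nat_lit 4) (nat_lit 158) (nat_lit 5) (nat_lit 158) (nat_lit 4) (nat_lit 431) (nat_lit 333) (nat_lit 256)) (XT.lf (nat_lit 0) (nat_lit 43772050215) (nat_lit 76) (nat_lit 11748630216) (nat_lit 76) (nat_lit 2353594172) (nat_lit 157) (nat_lit 4) (nat_lit 158) (nat_lit 5) (nat_lit 158) (nat_lit 4) (nat_lit 432) (nat_lit 333) (nat_lit 255)))))) (XT.nd (nat_lit 624) (nat_lit 608) (nat_lit 0) (XT.nd (nat_lit 312) (nat_lit 304)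 (nat_lit 0) (XT.nd (nat_lit 156) (nat_lit 152) (nat_lit 0) (XT.nd (nat_lit 78) (nat_lit 76) (nat_lit 0) (XT.lf (nat_lit 0) (nat_lit 17456077083) (nat_lit 152) (nat_lit 33799819732) (nat_lit 0) (nat_lit 8498729897) (nat_lit 155) (nat_lit 5) (nat_lit 157) (nat_lit 4) (nat_lit 155) (nat_lit 4) (nat_lit 433) (nat_lit 333) (nat_lit 254)) (XT.lf (nat_lit 0) (nat_lit 6682691371) (nat_lit 76) (nat_lit 31993013406) (nat_lit 76) (nat_lit 23026434020) (nat_lit 154) (nat_lit 4) (nat_lit 155) (nat_lit 5) (nat_lit 155) (nat_lit 4) (nat_lit 434) (nat_lit 333) (nat_lit 253))) (XT.nd (nat_lit 78) (nat_lit 152) (nat_lit 0) (XT.lf (nat_lit 0) (nat_lit 50280795928) (nat_lit 76) (nat_lit 11207501665) (nat_lit 76) (nat_lit 2232129707) (nat_lit 154) (nat_lit 4) (nat_lit 155) (nat_lit 5) (nat_lit 155) (nat_lit 4) (nat_lit 435) (nat_lit 333) (nat_lit 252)) (XT.lf (nat_lit 0) (nat_lit 19594600911) (nat_lit 152) (nat_lit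 35160070101) (nat_lit 0) (nat_lit 11038652495) (nat_lit 152) (nat_lit 5) (nat_lit 154) (nat_lit 4) (nat_lit 152) (nat_lit 4) (nat_lit 436) (nat_lit 333) (nat_lit 251)))) (XT.nd (nat_lit 156) (nat_lit 228) (nat_lit 0) (XT.nd (nat_lit 78) (nat_lit 0) (nat_lit 0) (XT.lf (nat_lit 0) (nat_lit 9415801550) (nat_lit 76) (nat_lit 33544814510) (nat_lit 76) (nat_lit 24981270740) (nat_lit 151) (nat_lit 4) (nat_lit 152) (nat_lit 5) (nat_lit 152) (nat_lit 4) (nat_lit 437) (nat_lit 333) (nat_lit 250)) (XT.lf (nat_lit 0) (nat_lit 57363023991) (nat_lit 76) (nat_lit 10688891272) (nat_lit 76) (nat_lit 2118113831) (nat_lit 151) (nat_lit 4) (nat_lit 152) (nat_lit 5) (nat_lit 152) (nat_lit 4) (nat_lit 438) (nat_lit 333) (nat_lit 249))) (XT.nd (nat_lit 78) (nat_lit 76) (nat_lit 0) (XT.lf (nat_lit 0) (nat_lit 21933384835) (nat_lit 152) (nat_lit 36757641206) (nat_lit 0) (nat_lit 13764178500) (nat_lit 149) (nat_lit 5) (nat_lit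 151) (nat_lit 4) (nat_lit 149) (nat_lit 4) (nat_lit 439) (nat_lit 333) (nat_lit 248)) (XT.lf (nat_lit 0) (nat_lit 12333794527) (nat_lit 76) (nat_lit 35333505950) (nat_lit 76) (nat_lit 27158050898) (nat_lit 148) (nat_lit 4) (nat_lit 149) (nat_lit 5) (nat_lit 149) (nat_lit 4) (nat_lit 440) (nat_lit 333) (nat_lit 247))))) (XT.nd (nat_lit 312) (nat_lit 380) (nat_lit 0) (XT.nd (nat_lit 156) (nat_lit 76) (nat_lit 0) (XT.nd (nat_lit 78) (nat_lit 152) (nat_lit 0) (XT.lf (nat_lit 0) (nat_lit 65081510797) (nat_lit 76) (nat_lit 10192302936) (nat_lit 76) (nat_lit 2010896725) (nat_lit 148) (nat_lit 4) (nat_lit 149) (nat_lit 5) (nat_lit 149) (nat_lit 4) (nat_lit 441) (nat_lit 333) (nat_lit 246)) (XT.lf (nat_lit 0) (nat_lit 24494266273) (nat_lit 152) (nat_lit 38612605674) (nat_lit 0) (nat_lit 16697052958) (nat_lit 146) (nat_lit 5) (nat_lit 148) (nat_lit 4) (nat_lit 146) (nat_lit 4) (nat_lit 442) (nat_lit 333)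 (nat_lit 245))) (XT.nd (nat_lit 78) (nat_lit 0) (nat_lit 0) (XT.lf (nat_lit 0) (nat_lit 15459754701) (nat_lit 76) (nat_lit 37380448252) (nat_lit 76) (nat_lit 29578094102) (nat_lit 145) (nat_lit 4) (nat_lit 146) (nat_lit 5) (nat_lit 146) (nat_lit 4) (nat_lit 443) (nat_lit 333) (nat_lit 244)) (XT.lf (nat_lit 0) (nat_lit 73505359684) (nat_lit 76) (nat_lit 9717162024) (nat_lit 76) (nat_lit 1909911841) (nat_lit 145) (nat_lit 4) (nat_lit 146) (nat_lit 5) (nat_lit 146) (nat_lit 4) (nat_lit 444) (nat_lit 333) (nat_lit 243)))) (XT.nd (nat_lit 156) (nat_lit 152) (nat_lit 0) (XT.nd (nat_lit 78) (nat_lit 76) (nat_lit 0) (XT.lf (nat_lit 0) (nat_lit 27301186061) (nat_lit 152) (nat_lit 40747223586) (nat_lit 0) (nat_lit 19861268850) (nat_lit 143) (nat_lit 5) (nat_lit 145) (nat_lit 4) (nat_lit 143) (nat_lit 4) (nat_lit 445) (nat_lit 333) (nat_lit 242)) (XT.lf (nat_lit 0) (nat_lit 18819007100) (nat_lit 76) (nat_lit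 39709191213) (nat_lit 76) (nat_lit 32265044625) (nat_lit 142) (nat_lit 4) (nat_lit 143) (nat_lit 5) (nat_lit 143) (nat_lit 4) (nat_lit 446) (nat_lit 333) (nat_lit 241))) (XT.nd (nat_lit 78) (nat_lit 152) (nat_lit 0) (XT.lf (nat_lit 0) (nat_lit 82710639928) (nat_lit 76) (nat_lit 9262837221) (nat_lit 76) (nat_lit 1814662654) (nat_lit 142) (nat_lit 4) (nat_lit 143) (nat_lit 5) (nat_lit 143) (nat_lit 4) (nat_lit 447) (nat_lit 333) (nat_lit 240)) (XT.lf (nat_lit 0) (nat_lit 30380423332) (nat_lit 152) (nat_lit 43186173356) (nat_lit 0) (nat_lit 23283270249) (nat_lit 140) (nat_lit 5) (nat_lit 142) (nat_lit 4) (nat_lit 140) (nat_lit 4) (nat_lit 448) (nat_lit 333) (nat_lit 239)))))))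
noncomputable def xc109 : XT := (XT.nd (nat_lit 1248) (nat_lit 1292) (nat_lit 0) (XT.nd (nat_lit 624) (nat_lit 684) (nat_lit 0) (XT.nd (nat_lit 312) (nat_lit 228) (nat_lit 0) (XT.nd (nat_lit 156) (nat_lit 228) (nat_lit 0) (XT.nd (nat_lit 78) (nat_lit 0) (nat_lit 0) (XT.lf (nat_lit 0) (nat_lit 22439340378) (nat_lit 76) (nat_lit 42345723004) (nat_lit 76) (nat_lit 35245090401) (nat_lit 139) (nat_lit 4) (nat_lit 140) (nat_lit 5) (nat_lit 140) (nat_lit 4) (nat_lit 449) (nat_lit 333) (nat_lit 238)) (XT.lf (nat_lit 0) (nat_lit 92781094290) (nat_lit 76) (nat_lit 8828658130) (nat_lit 76) (nat_lit 1724711700) (nat_lit 139) (nat_lit 4) (nat_lit 140) (nat_lit 5) (nat_lit 140) (nat_lit 4) (nat_lit 450) (nat_lit 333) (nat_lit 237))) (XT.nd (nat_lit 78) (nat_lit 76) (nat_lit 0) (XT.lf (nat_lit 0) (nat_lit 33760851274) (nat_lit 152) (nat_lit 45956803677) (nat_lit 0) (nat_lit 26992182267) (nat_lit 137) (nat_lit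 5) (nat_lit 139) (nat_lit 4) (nat_lit 137) (nat_lit 4) (nat_lit 451) (nat_lit 333) (nat_lit 236)) (XT.lf (nat_lit 0) (nat_lit 26351255222) (nat_lit 76) (nat_lit 45318739241) (nat_lit 76) (nat_lit 38547207625) (nat_lit 136) (nat_lit 4) (nat_lit 137) (nat_lit 5) (nat_lit 137) (nat_lit 4) (nat_lit 452) (nat_lit 333) (nat_lit 235)))) (XT.nd (nat_lit 156) (nat_lit 76) (nat_lit 0) (XT.nd (nat_lit 78) (nat_lit 152) (nat_lit 0) (XT.lf (nat_lit 0) (nat_lit 103808921522) (nat_lit 76) (nat_lit 8413929393) (nat_lit 76) (nat_lit 1639671483) (nat_lit 136) (nat_lit 4) (nat_lit 137) (nat_lit 5) (nat_lit 137) (nat_lit 4) (nat_lit 453) (nat_lit 333) (nat_lit 234)) (XT.lf (nat_lit 0) (nat_lit 37474216459) (nat_lit 152) (nat_lit 49089409224) (nat_lit 0) (nat_lit 31020069429) (nat_lit 134) (nat_lit 5) (nat_lit 136) (nat_lit 4) (nat_lit 134) (nat_lit 4) (nat_lit 454) (nat_lit 333) (nat_lit 233))) (XT.nd (nat_lit 78)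 (nat_lit 0) (nat_lit 0) (XT.lf (nat_lit 0) (nat_lit 30588240272) (nat_lit 76) (nat_lit 48659935142) (nat_lit 76) (nat_lit 42203433037) (nat_lit 133) (nat_lit 4) (nat_lit 134) (nat_lit 5) (nat_lit 134) (nat_lit 4) (nat_lit 455) (nat_lit 333) (nat_lit 232)) (XT.lf (nat_lit 0) (nat_lit 115895641033) (nat_lit 76) (nat_lit 8017941963) (nat_lit 76) (nat_lit 1559196928) (nat_lit 133) (nat_lit 4) (nat_lit 134) (nat_lit 5) (nat_lit 134) (nat_lit 4) (nat_lit 456) (nat_lit 333) (nat_lit 231))))) (XT.nd (nat_lit 312) (nat_lit 304) (nat_lit 0) (XT.nd (nat_lit 156) (nat_lit 152) (nat_lit 0) (XT.nd (nat_lit 78) (nat_lit 76) (nat_lit 0) (XT.lf (nat_lit 0) (nat_lit 41555444625) (nat_lit 152) (nat_lit 52617532973) (nat_lit 0) (nat_lit 35402224475) (nat_lit 131) (nat_lit 5) (nat_lit 133) (nat_lit 4) (nat_lit 131) (nat_lit 4) (nat_lit 457) (nat_lit 333) (nat_lit 230)) (XT.lf (nat_lit 0) (nat_lit 35187077927) (nat_lit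 76) (nat_lit 52404323952) (nat_lit 76) (nat_lit 46249166275) (nat_lit 130) (nat_lit 4) (nat_lit 131) (nat_lit 5) (nat_lit 131) (nat_lit 4) (nat_lit 458) (nat_lit 333) (nat_lit 229))) (XT.nd (nat_lit 78) (nat_lit 152) (nat_lit 0) (XT.lf (nat_lit 0) (nat_lit 129153047729) (nat_lit 76) (nat_lit 7639982056) (nat_lit 76) (nat_lit 1482979116) (nat_lit 130) (nat_lit 4) (nat_lit 131) (nat_lit 5) (nat_lit 131) (nat_lit 4) (nat_lit 459) (nat_lit 333) (nat_lit 228)) (XT.lf (nat_lit 0) (nat_lit 46042975995) (nat_lit 152) (nat_lit 56578298231) (nat_lit 0) (nat_lit 40177489963) (nat_lit 128) (nat_lit 5) (nat_lit 130) (nat_lit 4) (nat_lit 128) (nat_lit 4) (nat_lit 460) (nat_lit 333) (nat_lit 227)))) (XT.nd (nat_lit 156) (nat_lit 228) (nat_lit 0) (XT.nd (nat_lit 78) (nat_lit 0) (nat_lit 0) (XT.lf (nat_lit 0) (nat_lit 40188182778) (nat_lit 76) (nat_lit 56590585054) (nat_lit 76) (nat_lit 50723505014) (nat_lit 127)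 (nat_lit 4) (nat_lit 128) (nat_lit 5) (nat_lit 128) (nat_lit 4) (nat_lit 461) (nat_lit 333) (nat_lit 226)) (XT.lf (nat_lit 0) (nat_lit 143704265932) (nat_lit 76) (nat_lit 7279338202) (nat_lit 76) (nat_lit 1410740060) (nat_lit 127) (nat_lit 4) (nat_lit 128) (nat_lit 5) (nat_lit 128) (nat_lit 4) (nat_lit 462) (nat_lit 333) (nat_lit 225))) (XT.nd (nat_lit 78) (nat_lit 76) (nat_lit 0) (XT.lf (nat_lit 0) (nat_lit 50979133470) (nat_lit 152) (nat_lit 61012773695) (nat_lit 0) (nat_lit 45388615418) (nat_lit 125) (nat_lit 5) (nat_lit 127) (nat_lit 4) (nat_lit 125) (nat_lit 4) (nat_lit 463) (nat_lit 333) (nat_lit 224)) (XT.lf (nat_lit 0) (nat_lit 45635975709) (nat_lit 76) (nat_lit 61261445380) (nat_lit 76) (nat_lit 55669615933) (nat_lit 124) (nat_lit 4) (nat_lit 125) (nat_lit 5) (nat_lit 125) (nat_lit 4) (nat_lit 464) (nat_lit 333) (nat_lit 223)))))) (XT.nd (nat_lit 624) (nat_lit 684) (nat_lit 0) (XT.nd (nat_lit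 312) (nat_lit 380) (nat_lit 0) (XT.nd (nat_lit 156) (nat_lit 76) (nat_lit 0) (XT.nd (nat_lit 78) (nat_lit 152) (nat_lit 0) (XT.lf (nat_lit 0) (nat_lit 159684912276) (nat_lit 76) (nat_lit 6935306752) (nat_lit 76) (nat_lit 1342228358) (nat_lit 124) (nat_lit 4) (nat_lit 125) (nat_lit 5) (nat_lit 125) (nat_lit 4) (nat_lit 465) (nat_lit 333) (nat_lit 222)) (XT.lf (nat_lit 0) (nat_lit 56410527323) (nat_lit 152) (nat_lit 65966375156) (nat_lit 0) (nat_lit 51082653164) (nat_lit 122) (nat_lit 5) (nat_lit 124) (nat_lit 4) (nat_lit 122) (nat_lit 4) (nat_lit 466) (nat_lit 333) (nat_lit 221))) (XT.nd (nat_lit 78) (nat_lit 0) (nat_lit 0) (XT.lf (nat_lit 0) (nat_lit 51579297106) (nat_lit 76) (nat_lit 66464097985) (nat_lit 76) (nat_lit 61135144939) (nat_lit 121) (nat_lit 4) (nat_lit 122) (nat_lit 5) (nat_lit 122) (nat_lit 4) (nat_lit 467) (nat_lit 333) (nat_lit 220)) (XT.lf (nat_lit 0) (nat_lit 177244378529) (nat_lit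 76) (nat_lit 6607196121) (nat_lit 76) (nat_lit 1277215563) (nat_lit 121) (nat_lit 4) (nat_lit 122) (nat_lit 5) (nat_lit 122) (nat_lit 4) (nat_lit 468) (nat_lit 333) (nat_lit 219)))) (XT.nd (nat_lit 156) (nat_lit 152) (nat_lit 0) (XT.nd (nat_lit 78) (nat_lit 76) (nat_lit 0) (XT.lf (nat_lit 0) (nat_lit 62388500351) (nat_lit 152) (nat_lit 71489307811) (nat_lit 0) (nat_lit 57311396408) (nat_lit 119) (nat_lit 5) (nat_lit 121) (nat_lit 4) (nat_lit 119) (nat_lit 4) (nat_lit 469) (nat_lit 333) (nat_lit 218)) (XT.lf (nat_lit 0) (nat_lit 58071862997) (nat_lit 76) (nat_lit 72250662003) (nat_lit 76) (nat_lit 67172670457) (nat_lit 118) (nat_lit 4) (nat_lit 119) (nat_lit 5) (nat_lit 119) (nat_lit 4) (nat_lit 470) (nat_lit 333) (nat_lit 217))) (XT.nd (nat_lit 78) (nat_lit 152) (nat_lit 0) (XT.lf (nat_lit 0) (nat_lit 196547246449) (nat_lit 76) (nat_lit 6294330022) (nat_lit 76) (nat_lit 1215493139) (nat_lit 118)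 (nat_lit 4) (nat_lit 119) (nat_lit 5) (nat_lit 119) (nat_lit 4) (nat_lit 471) (nat_lit 333) (nat_lit 216)) (XT.lf (nat_lit 0) (nat_lit 68969617799) (nat_lit 152) (nat_lit 77637053475) (nat_lit 0) (nat_lit 64131863547) (nat_lit 116) (nat_lit 5) (nat_lit 118) (nat_lit 4) (nat_lit 116) (nat_lit 4) (nat_lit 472) (nat_lit 333) (nat_lit 215))))) (XT.nd (nat_lit 312) (nat_lit 380) (nat_lit 0) (XT.nd (nat_lit 156) (nat_lit 228) (nat_lit 0) (XT.nd (nat_lit 78) (nat_lit 0) (nat_lit 0) (XT.lf (nat_lit 0) (nat_lit 65172768364) (nat_lit 76) (nat_lit 78678688526) (nat_lit 76) (nat_lit 73840204040) (nat_lit 115) (nat_lit 4) (nat_lit 116) (nat_lit 5) (nat_lit 116) (nat_lit 4) (nat_lit 473) (nat_lit 333) (nat_lit 214)) (XT.lf (nat_lit 0) (nat_lit 217774848070) (nat_lit 76) (nat_lit 5996049860) (nat_lit 76) (nat_lit 1156869913) (nat_lit 115) (nat_lit 4) (nat_lit 116) (nat_lit 5) (nat_lit 116) (nat_lit 4) (nat_lit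 474) (nat_lit 333) (nat_lit 213))) (XT.nd (nat_lit 78) (nat_lit 76) (nat_lit 0) (XT.lf (nat_lit 0) (nat_lit 76216206797) (nat_lit 152) (nat_lit 84470907441) (nat_lit 0) (nat_lit 71606833188) (nat_lit 113) (nat_lit 5) (nat_lit 115) (nat_lit 4) (nat_lit 113) (nat_lit 4) (nat_lit 475) (nat_lit 333) (nat_lit 212)) (XT.lf (nat_lit 0) (nat_lit 72947042344) (nat_lit 76) (nat_lit 85811717362) (nat_lit 76) (nat_lit 81201742988) (nat_lit 112) (nat_lit 4) (nat_lit 113) (nat_lit 5) (nat_lit 113) (nat_lit 4) (nat_lit 476) (nat_lit 333) (nat_lit 211)))) (XT.nd (nat_lit 156) (nat_lit 228) (nat_lit 0) (XT.nd (nat_lit 78) (nat_lit 152) (nat_lit 0) (XT.lf (nat_lit 0) (nat_lit 241126986213) (nat_lit 76) (nat_lit 5711716462) (nat_lit 76) (nat_lit 1101169931) (nat_lit 112) (nat_lit 4) (nat_lit 113) (nat_lit 5) (nat_lit 113) (nat_lit 4) (nat_lit 477) (nat_lit 333) (nat_lit 210)) (XT.lf (nat_lit 0) (nat_lit 84196950492)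 (nat_lit 152) (nat_lit 92058570153) (nat_lit 0) (nat_lit 79805434833) (nat_lit 110) (nat_lit 5) (nat_lit 112) (nat_lit 4) (nat_lit 110) (nat_lit 4) (nat_lit 478) (nat_lit 333) (nat_lit 209))) (XT.nd (nat_lit 78) (nat_lit 152) (nat_lit 0) (XT.lf (nat_lit 0) (nat_lit 81466260550) (nat_lit 76) (nat_lit 93719890121) (nat_lit 76) (nat_lit 89327880211) (nat_lit 109) (nat_lit 4) (nat_lit 110) (nat_lit 5) (nat_lit 110) (nat_lit 4) (nat_lit 479) (nat_lit 333) (nat_lit 208)) (XT.nd (nat_lit 78) (nat_lit 152) (nat_lit 0) (XT.lf (nat_lit 0) (nat_lit 266823831541) (nat_lit 76) (nat_lit 5440711271) (nat_lit 76) (nat_lit 1048230646) (nat_lit 109) (nat_lit 4) (nat_lit 110) (nat_lit 5) (nat_lit 110) (nat_lit 4) (nat_lit 480) (nat_lit 333) (nat_lit 207)) (XT.lf (nat_lit 0) (nat_lit 92987542593) (nat_lit 152) (nat_lit 100474799413) (nat_lit 0) (nat_lit 88803800760) (nat_lit 107) (nat_lit 5) (nat_lit 109) (nat_lit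 4) (nat_lit 107) (nat_lit 4) (nat_lit 481) (nat_lit 333) (nat_lit 206))))))))
noncomputable def xc110 : XT := (XT.nd (nat_lit 44460) (nat_lit 0) (nat_lit 7144) (XT.nd (nat_lit 43212) (nat_lit 0) (nat_lit 11324) (XT.nd (nat_lit 624) (nat_lit 456) (nat_lit 0) (XT.nd (nat_lit 312) (nat_lit 228) (nat_lit 0) (XT.nd (nat_lit 156) (nat_lit 228) (nat_lit 0) (XT.nd (nat_lit 78) (nat_lit 0) (nat_lit 0) (XT.lf (nat_lit 0) (nat_lit 90809220268) (nat_lit 76) (nat_lit 102480625542) (nat_lit 76) (nat_lit 98296477088) (nat_lit 106) (nat_lit 4) (nat_lit 107) (nat_lit 5) (nat_lit 107) (nat_lit 4) (nat_lit 482) (nat_lit 333) (nat_lit 205)) (XT.lf (nat_lit 0) (nat_lit 295108014182) (nat_lit 76) (nat_lit 5182437106) (nat_lit 76) (nat_lit 997901394) (nat_lit 106) (nat_lit 4) (nat_lit 107) (nat_lit 5) (nat_lit 107) (nat_lit 4) (nat_lit 483) (nat_lit 333) (nat_lit 204))) (XT.nd (nat_lit 78) (nat_lit 76) (nat_lit 0) (XT.lf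 (nat_lit 0) (nat_lit 102671408592) (nat_lit 152) (nat_lit 109802129373) (nat_lit 0) (nat_lit 98685785230) (nat_lit 104) (nat_lit 5) (nat_lit 106) (nat_lit 4) (nat_lit 104) (nat_lit 4) (nat_lit 484) (nat_lit 333) (nat_lit 203)) (XT.lf (nat_lit 0) (nat_lit 101062684935) (nat_lit 76) (nat_lit 112179363607) (nat_lit 76) (nat_lit 108193405716) (nat_lit 103) (nat_lit 4) (nat_lit 104) (nat_lit 5) (nat_lit 104) (nat_lit 4) (nat_lit 485) (nat_lit 333) (nat_lit 202)))) (XT.nd (nat_lit 156) (nat_lit 76) (nat_lit 0) (XT.nd (nat_lit 78) (nat_lit 152) (nat_lit 0) (XT.lf (nat_lit 0) (nat_lit 326246929818) (nat_lit 76) (nat_lit 4936318575) (nat_lit 76) (nat_lit 950042086) (nat_lit 103) (nat_lit 4) (nat_lit 104) (nat_lit 5) (nat_lit 104) (nat_lit 4) (nat_lit 486) (nat_lit 333) (nat_lit 201)) (XT.lf (nat_lit 0) (nat_lit 113340500564) (nat_lit 152) (nat_lit 120131663213) (nat_lit 0) (nat_lit 109543757787) (nat_lit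 101) (nat_lit 5) (nat_lit 103) (nat_lit 4) (nat_lit 101) (nat_lit 4) (nat_lit 487) (nat_lit 333) (nat_lit 200))) (XT.nd (nat_lit 78) (nat_lit 0) (nat_lit 0) (XT.lf (nat_lit 0) (nat_lit 112322204933) (nat_lit 76) (nat_lit 122910385576) (nat_lit 76) (nat_lit 119113367582) (nat_lit 100) (nat_lit 4) (nat_lit 101) (nat_lit 5) (nat_lit 101) (nat_lit 4) (nat_lit 488) (nat_lit 333) (nat_lit 199)) (XT.lf (nat_lit 0) (nat_lit 360535282151) (nat_lit 76) (nat_lit 4701802214) (nat_lit 76) (nat_lit 904522108) (nat_lit 100) (nat_lit 4) (nat_lit 101) (nat_lit 5) (nat_lit 101) (nat_lit 4) (nat_lit 489) (nat_lit 333) (nat_lit 198))))) (XT.nd (nat_lit 312) (nat_lit 76) (nat_lit 0) (XT.nd (nat_lit 156) (nat_lit 152) (nat_lit 0) (XT.nd (nat_lit 78) (nat_lit 76) (nat_lit 0) (XT.lf (nat_lit 0) (nat_lit 125096173149) (nat_lit 152) (nat_lit 131563947100) (nat_lit 0) (nat_lit 121479478162) (nat_lit 98) (nat_lit 5) (nat_lit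 100) (nat_lit 4) (nat_lit 98) (nat_lit 4) (nat_lit 490) (nat_lit 333) (nat_lit 197)) (XT.lf (nat_lit 0) (nat_lit 124693022489) (nat_lit 76) (nat_lit 134777717849) (nat_lit 76) (nat_lit 131160796440) (nat_lit 97) (nat_lit 4) (nat_lit 98) (nat_lit 5) (nat_lit 98) (nat_lit 4) (nat_lit 491) (nat_lit 333) (nat_lit 196))) (XT.nd (nat_lit 78) (nat_lit 152) (nat_lit 0) (XT.lf (nat_lit 0) (nat_lit 398297885953) (nat_lit 76) (nat_lit 4478356419) (nat_lit 76) (nat_lit 861219370) (nat_lit 97) (nat_lit 4) (nat_lit 98) (nat_lit 5) (nat_lit 98) (nat_lit 4) (nat_lit 492) (nat_lit 333) (nat_lit 195)) (XT.lf (nat_lit 0) (nat_lit 138050149071) (nat_lit 152) (nat_lit 144209933786) (nat_lit 0) (nat_lit 134605061051) (nat_lit 95) (nat_lit 5) (nat_lit 97) (nat_lit 4) (nat_lit 95) (nat_lit 4) (nat_lit 493) (nat_lit 333) (nat_lit 194)))) (XT.nd (nat_lit 42120) (nat_lit 0) (nat_lit 16492) (XT.nd (nat_lit 42042) (nat_lit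 0) (nat_lit 17176) (XT.lf (nat_lit 0) (nat_lit 138291069275) (nat_lit 76) (nat_lit 147896128287) (nat_lit 76) (nat_lit 144450853990) (nat_lit 94) (nat_lit 4) (nat_lit 95) (nat_lit 5) (nat_lit 95) (nat_lit 4) (nat_lit 494) (nat_lit 333) (nat_lit 193)) (XT.lf (nat_lit 0) (nat_lit 947850558) (nat_lit 532) (nat_lit 1239785964) (nat_lit 532) (nat_lit 1239785964) (nat_lit 320) (nat_lit 4) (nat_lit 327) (nat_lit 5) (nat_lit 327) (nat_lit 4) (nat_lit 352) (nat_lit 334) (nat_lit 334))) (XT.nd (nat_lit 78) (nat_lit 608) (nat_lit 0) (XT.lf (nat_lit 0) (nat_lit 917513420) (nat_lit 608) (nat_lit 96650497) (nat_lit 76) (nat_lit 5914691385) (nat_lit 319) (nat_lit 5) (nat_lit 327) (nat_lit 5) (nat_lit 320) (nat_lit 4) (nat_lit 353) (nat_lit 334) (nat_lit 333)) (XT.lf (nat_lit 0) (nat_lit 4317479466) (nat_lit 684) (nat_lit 2050839661) (nat_lit 0) (nat_lit 640396772) (nat_lit 311) (nat_lit 5) (nat_lit 320) (nat_lit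 4) (nat_lit 311) (nat_lit 4) (nat_lit 354) (nat_lit 334) (nat_lit 332)))))) (XT.nd (nat_lit 624) (nat_lit 1900) (nat_lit 0) (XT.nd (nat_lit 312) (nat_lit 1216) (nat_lit 0) (XT.nd (nat_lit 156) (nat_lit 532) (nat_lit 0) (XT.nd (nat_lit 78) (nat_lit 760) (nat_lit 0) (XT.lf (nat_lit 0) (nat_lit 668738421) (nat_lit 760) (nat_lit 4014453572) (nat_lit 76) (nat_lit 2413791766) (nat_lit 301) (nat_lit 5) (nat_lit 311) (nat_lit 5) (nat_lit 302) (nat_lit 4) (nat_lit 355) (nat_lit 334) (nat_lit 331)) (XT.lf (nat_lit 0) (nat_lit 1181729828) (nat_lit 760) (nat_lit 2815360377) (nat_lit 836) (nat_lit 3195827809) (nat_lit 291) (nat_lit 5) (nat_lit 301) (nat_lit 5) (nat_lit 302) (nat_lit 4) (nat_lit 356) (nat_lit 334) (nat_lit 330))) (XT.nd (nat_lit 78) (nat_lit 456) (nat_lit 0) (XT.lf (nat_lit 0) (nat_lit 100641401) (nat_lit 836) (nat_lit 687212786) (nat_lit 76) (nat_lit 6510201322) (nat_lit 290) (nat_lit 5) (nat_lit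 301) (nat_lit 5) (nat_lit 291) (nat_lit 5) (nat_lit 357) (nat_lit 334) (nat_lit 329)) (XT.lf (nat_lit 0) (nat_lit 3400361623) (nat_lit 532) (nat_lit 2588734980) (nat_lit 76) (nat_lit 1419442330) (nat_lit 284) (nat_lit 5) (nat_lit 291) (nat_lit 5) (nat_lit 285) (nat_lit 4) (nat_lit 358) (nat_lit 334) (nat_lit 328)))) (XT.nd (nat_lit 156) (nat_lit 380) (nat_lit 0) (XT.nd (nat_lit 78) (nat_lit 456) (nat_lit 0) (XT.lf (nat_lit 0) (nat_lit 3019221157) (nat_lit 380) (nat_lit 3769648688) (nat_lit 456) (nat_lit 739486585) (nat_lit 279) (nat_lit 5) (nat_lit 284) (nat_lit 5) (nat_lit 285) (nat_lit 4) (nat_lit 359) (nat_lit 334) (nat_lit 327)) (XT.lf (nat_lit 0) (nat_lit 1171707279) (nat_lit 380) (nat_lit 1351664736) (nat_lit 456) (nat_lit 5132845074) (nat_lit 273) (nat_lit 5) (nat_lit 278) (nat_lit 5) (nat_lit 279) (nat_lit 5) (nat_lit 360) (nat_lit 334) (nat_lit 326))) (XT.nd (nat_lit 78) (nat_lit 380)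 (nat_lit 0) (XT.lf (nat_lit 0) (nat_lit 5878717633) (nat_lit 456) (nat_lit 697920596) (nat_lit 76) (nat_lit 1215516632) (nat_lit 273) (nat_lit 5) (nat_lit 279) (nat_lit 5) (nat_lit 274) (nat_lit 4) (nat_lit 361) (nat_lit 334) (nat_lit 325)) (XT.lf (nat_lit 0) (nat_lit 1390206026) (nat_lit 380) (nat_lit 2595563854) (nat_lit 76) (nat_lit 3949463674) (nat_lit 268) (nat_lit 5) (nat_lit 273) (nat_lit 5) (nat_lit 269) (nat_lit 5) (nat_lit 362) (nat_lit 334) (nat_lit 324))))) (XT.nd (nat_lit 312) (nat_lit 912) (nat_lit 0) (XT.nd (nat_lit 156) (nat_lit 380) (nat_lit 0) (XT.nd (nat_lit 78) (nat_lit 304) (nat_lit 0) (XT.lf (nat_lit 0) (nat_lit 3533998288) (nat_lit 304) (nat_lit 1194483789) (nat_lit 380) (nat_lit 3358727979) (nat_lit 264) (nat_lit 5) (nat_lit 268) (nat_lit 5) (nat_lit 269) (nat_lit 5) (nat_lit 363) (nat_lit 334) (nat_lit 323)) (XT.lf (nat_lit 0) (nat_lit 1671923586) (nat_lit 304) (nat_lit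 6529481410) (nat_lit 380) (nat_lit 46993734) (nat_lit 260) (nat_lit 5) (nat_lit 264) (nat_lit 5) (nat_lit 265) (nat_lit 4) (nat_lit 364) (nat_lit 334) (nat_lit 322))) (XT.nd (nat_lit 78) (nat_lit 304) (nat_lit 0) (XT.lf (nat_lit 0) (nat_lit 3289856628) (nat_lit 380) (nat_lit 292644845) (nat_lit 76) (nat_lit 4834001449) (nat_lit 259) (nat_lit 5) (nat_lit 264) (nat_lit 5) (nat_lit 260) (nat_lit 5) (nat_lit 365) (nat_lit 334) (nat_lit 321)) (XT.lf (nat_lit 0) (nat_lit 6344977234) (nat_lit 304) (nat_lit 423545988) (nat_lit 380) (nat_lit 1825622932) (nat_lit 255) (nat_lit 5) (nat_lit 259) (nat_lit 5) (nat_lit 260) (nat_lit 5) (nat_lit 366) (nat_lit 334) (nat_lit 320)))) (XT.nd (nat_lit 156) (nat_lit 304) (nat_lit 0) (XT.nd (nat_lit 78) (nat_lit 304) (nat_lit 0) (XT.lf (nat_lit 0) (nat_lit 1588244426) (nat_lit 304) (nat_lit 4329428768) (nat_lit 76) (nat_lit 2861702874) (nat_lit 251) (nat_lit 5) (nat_lit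 255) (nat_lit 5) (nat_lit 252) (nat_lit 5) (nat_lit 367) (nat_lit 334) (nat_lit 319)) (XT.lf (nat_lit 0) (nat_lit 2464881632) (nat_lit 304) (nat_lit 2612151171) (nat_lit 380) (nat_lit 3897059236) (nat_lit 247) (nat_lit 5) (nat_lit 251) (nat_lit 5) (nat_lit 252) (nat_lit 5) (nat_lit 368) (nat_lit 334) (nat_lit 318))) (XT.nd (nat_lit 78) (nat_lit 76) (nat_lit 0) (XT.lf (nat_lit 0) (nat_lit 403664647) (nat_lit 228) (nat_lit 8314594081) (nat_lit 304) (nat_lit 461385174) (nat_lit 244) (nat_lit 5) (nat_lit 247) (nat_lit 5) (nat_lit 248) (nat_lit 4) (nat_lit 369) (nat_lit 334) (nat_lit 317)) (XT.lf (nat_lit 0) (nat_lit 3085093361) (nat_lit 304) (nat_lit 1765608215) (nat_lit 76) (nat_lit 4540330094) (nat_lit 243) (nat_lit 5) (nat_lit 247) (nat_lit 5) (nat_lit 244) (nat_lit 5) (nat_lit 370) (nat_lit 334) (nat_lit 316))))))) (XT.nd (nat_lit 1248) (nat_lit 1672) (nat_lit 0) (XT.nd (nat_lit 624) (nat_lit 1064)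 (nat_lit 0) (XT.nd (nat_lit 312) (nat_lit 684) (nat_lit 0) (XT.nd (nat_lit 156) (nat_lit 228) (nat_lit 0) (XT.nd (nat_lit 78) (nat_lit 304) (nat_lit 0) (XT.lf (nat_lit 0) (nat_lit 5605148969) (nat_lit 228) (nat_lit 1166085565) (nat_lit 304) (nat_lit 2842483894) (nat_lit 240) (nat_lit 5) (nat_lit 243) (nat_lit 5) (nat_lit 244) (nat_lit 5) (nat_lit 371) (nat_lit 334) (nat_lit 315)) (XT.lf (nat_lit 0) (nat_lit 787955836) (nat_lit 304) (nat_lit 6395307705) (nat_lit 76) (nat_lit 2662694535) (nat_lit 236) (nat_lit 5) (nat_lit 240) (nat_lit 5) (nat_lit 237) (nat_lit 5) (nat_lit 372) (nat_lit 334) (nat_lit 314))) (XT.nd (nat_lit 78) (nat_lit 0) (nat_lit 0) (XT.lf (nat_lit 0) (nat_lit 1140485473) (nat_lit 228) (nat_lit 3362966336) (nat_lit 304) (nat_lit 5584074977) (nat_lit 233) (nat_lit 5) (nat_lit 236) (nat_lit 5) (nat_lit 237) (nat_lit 5) (nat_lit 373) (nat_lit 334) (nat_lit 313)) (XT.lf (nat_lit 0)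 (nat_lit 8419721253) (nat_lit 304) (nat_lit 1238986929) (nat_lit 76) (nat_lit 681715815) (nat_lit 233) (nat_lit 5) (nat_lit 237) (nat_lit 5) (nat_lit 234) (nat_lit 4) (nat_lit 374) (nat_lit 334) (nat_lit 312)))) (XT.nd (nat_lit 156) (nat_lit 228) (nat_lit 0) (XT.nd (nat_lit 78) (nat_lit 228) (nat_lit 0) (XT.lf (nat_lit 0) (nat_lit 1927260077) (nat_lit 228) (nat_lit 3773537232) (nat_lit 76) (nat_lit 4900512331) (nat_lit 230) (nat_lit 5) (nat_lit 233) (nat_lit 5) (nat_lit 231) (nat_lit 5) (nat_lit 375) (nat_lit 334) (nat_lit 311)) (XT.lf (nat_lit 0) (nat_lit 4416998399) (nat_lit 228) (nat_lit 1476898090) (nat_lit 304) (nat_lit 4980227547) (nat_lit 227) (nat_lit 5) (nat_lit 230) (nat_lit 5) (nat_lit 231) (nat_lit 5) (nat_lit 376) (nat_lit 334) (nat_lit 310))) (XT.nd (nat_lit 78) (nat_lit 76) (nat_lit 0) (XT.lf (nat_lit 0) (nat_lit 1841803645) (nat_lit 152) (nat_lit 8258853501) (nat_lit 228) (nat_lit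 1057832386) (nat_lit 225) (nat_lit 5) (nat_lit 227) (nat_lit 5) (nat_lit 228) (nat_lit 4) (nat_lit 377) (nat_lit 334) (nat_lit 309)) (XT.lf (nat_lit 0) (nat_lit 3000609449) (nat_lit 228) (nat_lit 906769746) (nat_lit 76) (nat_lit 7545410422) (nat_lit 224) (nat_lit 5) (nat_lit 227) (nat_lit 5) (nat_lit 225) (nat_lit 5) (nat_lit 378) (nat_lit 334) (nat_lit 308))))) (XT.nd (nat_lit 312) (nat_lit 532) (nat_lit 0) (XT.nd (nat_lit 156) (nat_lit 228) (nat_lit 0) (XT.nd (nat_lit 78) (nat_lit 152) (nat_lit 0) (XT.lf (nat_lit 0) (nat_lit 7270354879) (nat_lit 228) (nat_lit 3761954747) (nat_lit 76) (nat_lit 726431424) (nat_lit 222) (nat_lit 5) (nat_lit 225) (nat_lit 5) (nat_lit 223) (nat_lit 4) (nat_lit 379) (nat_lit 334) (nat_lit 307)) (XT.lf (nat_lit 0) (nat_lit 5246726896) (nat_lit 152) (nat_lit 6576731312) (nat_lit 228) (nat_lit 253038315) (nat_lit 220) (nat_lit 5) (nat_lit 222) (nat_lit 5) (nat_lit 223)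 (nat_lit 4) (nat_lit 380) (nat_lit 334) (nat_lit 306))) (XT.nd (nat_lit 78) (nat_lit 0) (nat_lit 0) (XT.lf (nat_lit 0) (nat_lit 2280774961) (nat_lit 152) (nat_lit 1788240743) (nat_lit 228) (nat_lit 8337391229) (nat_lit 217) (nat_lit 5) (nat_lit 219) (nat_lit 5) (nat_lit 220) (nat_lit 5) (nat_lit 381) (nat_lit 334) (nat_lit 305)) (XT.lf (nat_lit 0) (nat_lit 8676589483) (nat_lit 228) (nat_lit 875854275) (nat_lit 76) (nat_lit 3196265659) (nat_lit 217) (nat_lit 5) (nat_lit 220) (nat_lit 5) (nat_lit 218) (nat_lit 4) (nat_lit 382) (nat_lit 334) (nat_lit 304)))) (XT.nd (nat_lit 156) (nat_lit 152) (nat_lit 0) (XT.nd (nat_lit 78) (nat_lit 152) (nat_lit 0) (XT.lf (nat_lit 0) (nat_lit 477810078) (nat_lit 228) (nat_lit 4167024471) (nat_lit 76) (nat_lit 8458755062) (nat_lit 214) (nat_lit 5) (nat_lit 217) (nat_lit 5) (nat_lit 215) (nat_lit 5) (nat_lit 383) (nat_lit 334) (nat_lit 303)) (XT.lf (nat_lit 0) (nat_lit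 5147696401) (nat_lit 228) (nat_lit 7718818982) (nat_lit 76) (nat_lit 604895142) (nat_lit 212) (nat_lit 5) (nat_lit 215) (nat_lit 5) (nat_lit 213) (nat_lit 4) (nat_lit 384) (nat_lit 334) (nat_lit 302))) (XT.nd (nat_lit 78) (nat_lit 76) (nat_lit 0) (XT.lf (nat_lit 0) (nat_lit 2305297397) (nat_lit 76) (nat_lit 7844943327) (nat_lit 152) (nat_lit 3702423576) (nat_lit 211) (nat_lit 5) (nat_lit 212) (nat_lit 5) (nat_lit 213) (nat_lit 4) (nat_lit 385) (nat_lit 334) (nat_lit 301)) (XT.lf (nat_lit 0) (nat_lit 1161660490) (nat_lit 152) (nat_lit 1318260450) (nat_lit 76) (nat_lit 11769735444) (nat_lit 210) (nat_lit 5) (nat_lit 212) (nat_lit 5) (nat_lit 211) (nat_lit 5) (nat_lit 386) (nat_lit 334) (nat_lit 300)))))) (XT.nd (nat_lit 624) (nat_lit 836) (nat_lit 0) (XT.nd (nat_lit 312) (nat_lit 380) (nat_lit 0) (XT.nd (nat_lit 156) (nat_lit 228) (nat_lit 0) (XT.nd (nat_lit 78) (nat_lit 76) (nat_lit 0) (XT.lf (nat_lit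 0) (nat_lit 6264576410) (nat_lit 228) (nat_lit 5188480148) (nat_lit 76) (nat_lit 3204404071) (nat_lit 208) (nat_lit 5) (nat_lit 211) (nat_lit 5) (nat_lit 209) (nat_lit 4) (nat_lit 387) (nat_lit 334) (nat_lit 299)) (XT.lf (nat_lit 0) (nat_lit 5756210319) (nat_lit 76) (nat_lit 5939983937) (nat_lit 152) (nat_lit 3385783024) (nat_lit 207) (nat_lit 5) (nat_lit 208) (nat_lit 5) (nat_lit 209) (nat_lit 4) (nat_lit 388) (nat_lit 334) (nat_lit 298))) (XT.nd (nat_lit 78) (nat_lit 0) (nat_lit 0) (XT.lf (nat_lit 0) (nat_lit 1787365796) (nat_lit 152) (nat_lit 62261901) (nat_lit 228) (nat_lit 13674737978) (nat_lit 204) (nat_lit 5) (nat_lit 206) (nat_lit 5) (nat_lit 207) (nat_lit 5) (nat_lit 389) (nat_lit 334) (nat_lit 297)) (XT.lf (nat_lit 0) (nat_lit 7410143711) (nat_lit 228) (nat_lit 2499215288) (nat_lit 76) (nat_lit 6067883296) (nat_lit 204) (nat_lit 5) (nat_lit 207) (nat_lit 5) (nat_lit 205) (nat_lit 4) (nat_lit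 390) (nat_lit 334) (nat_lit 296)))) (XT.nd (nat_lit 156) (nat_lit 76) (nat_lit 0) (XT.nd (nat_lit 78) (nat_lit 228) (nat_lit 0) (XT.lf (nat_lit 0) (nat_lit 9464567293) (nat_lit 76) (nat_lit 3857869007) (nat_lit 152) (nat_lit 3126638907) (nat_lit 203) (nat_lit 5) (nat_lit 204) (nat_lit 5) (nat_lit 205) (nat_lit 4) (nat_lit 391) (nat_lit 334) (nat_lit 295)) (XT.lf (nat_lit 0) (nat_lit 2592496872) (nat_lit 228) (nat_lit 11823853707) (nat_lit 76) (nat_lit 2521659759) (nat_lit 200) (nat_lit 5) (nat_lit 203) (nat_lit 5) (nat_lit 201) (nat_lit 4) (nat_lit 392) (nat_lit 334) (nat_lit 294))) (XT.nd (nat_lit 78) (nat_lit 0) (nat_lit 0) (XT.lf (nat_lit 0) (nat_lit 371709019) (nat_lit 76) (nat_lit 8235754589) (nat_lit 152) (nat_lit 8835618312) (nat_lit 199) (nat_lit 5) (nat_lit 200) (nat_lit 5) (nat_lit 201) (nat_lit 4) (nat_lit 393) (nat_lit 334) (nat_lit 293)) (XT.lf (nat_lit 0) (nat_lit 13451269872) (nat_lit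 76) (nat_lit 1599240415) (nat_lit 152) (nat_lit 2916530213) (nat_lit 199) (nat_lit 5) (nat_lit 200) (nat_lit 5) (nat_lit 201) (nat_lit 4) (nat_lit 394) (nat_lit 334) (nat_lit 292))))) (XT.nd (nat_lit 312) (nat_lit 304) (nat_lit 0) (XT.nd (nat_lit 156) (nat_lit 228) (nat_lit 0) (XT.nd (nat_lit 78) (nat_lit 76) (nat_lit 0) (XT.lf (nat_lit 0) (nat_lit 3345153707) (nat_lit 228) (nat_lit 9832752240) (nat_lit 76) (nat_lit 5329105391) (nat_lit 196) (nat_lit 5) (nat_lit 199) (nat_lit 5) (nat_lit 197) (nat_lit 4) (nat_lit 395) (nat_lit 334) (nat_lit 291)) (XT.lf (nat_lit 0) (nat_lit 3515129508) (nat_lit 76) (nat_lit 6395411785) (nat_lit 152) (nat_lit 9156617126) (nat_lit 195) (nat_lit 5) (nat_lit 196) (nat_lit 5) (nat_lit 197) (nat_lit 4) (nat_lit 396) (nat_lit 334) (nat_lit 290))) (XT.nd (nat_lit 78) (nat_lit 228) (nat_lit 0) (XT.lf (nat_lit 0) (nat_lit 16914941451) (nat_lit 152) (nat_lit 1922130393) (nat_lit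 0) (nat_lit 812703851) (nat_lit 195) (nat_lit 5) (nat_lit 197) (nat_lit 4) (nat_lit 195) (nat_lit 4) (nat_lit 397) (nat_lit 334) (nat_lit 289)) (XT.lf (nat_lit 0) (nat_lit 4118015158) (nat_lit 228) (nat_lit 7756333134) (nat_lit 76) (nat_lit 8372133726) (nat_lit 192) (nat_lit 5) (nat_lit 195) (nat_lit 5) (nat_lit 193) (nat_lit 4) (nat_lit 398) (nat_lit 334) (nat_lit 288)))) (XT.nd (nat_lit 156) (nat_lit 152) (nat_lit 0) (XT.nd (nat_lit 78) (nat_lit 76) (nat_lit 0) (XT.lf (nat_lit 0) (nat_lit 6866089515) (nat_lit 76) (nat_lit 4429426405) (nat_lit 152) (nat_lit 9571570207) (nat_lit 191) (nat_lit 5) (nat_lit 192) (nat_lit 5) (nat_lit 193) (nat_lit 4) (nat_lit 399) (nat_lit 334) (nat_lit 287)) (XT.lf (nat_lit 0) (nat_lit 821030572) (nat_lit 76) (nat_lit 18144000771) (nat_lit 76) (nat_lit 2547032117) (nat_lit 190) (nat_lit 4) (nat_lit 191) (nat_lit 5) (nat_lit 191) (nat_lit 4) (nat_lit 400) (nat_lit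 334) (nat_lit 286))) (XT.nd (nat_lit 78) (nat_lit 76) (nat_lit 0) (XT.lf (nat_lit 0) (nat_lit 4921848568) (nat_lit 152) (nat_lit 5586180416) (nat_lit 76) (nat_lit 11665107909) (nat_lit 189) (nat_lit 5) (nat_lit 191) (nat_lit 5) (nat_lit 190) (nat_lit 4) (nat_lit 401) (nat_lit 334) (nat_lit 285)) (XT.lf (nat_lit 0) (nat_lit 10445433608) (nat_lit 76) (nat_lit 2333416611) (nat_lit 152) (nat_lit 10081312351) (nat_lit 188) (nat_lit 5) (nat_lit 189) (nat_lit 5) (nat_lit 190) (nat_lit 4) (nat_lit 402) (nat_lit 334) (nat_lit 284))))))))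
noncomputable def xc111 : XT := (XT.nd (nat_lit 2496) (nat_lit 2356) (nat_lit 0) (XT.nd (nat_lit 1248) (nat_lit 1292) (nat_lit 0) (XT.nd (nat_lit 624) (nat_lit 532) (nat_lit 0) (XT.nd (nat_lit 312) (nat_lit 380) (nat_lit 0) (XT.nd (nat_lit 156) (nat_lit 152) (nat_lit 0) (XT.nd (nat_lit 78) (nat_lit 76) (nat_lit 0) (XT.lf (nat_lit 0) (nat_lit 3796871819) (nat_lit 76) (nat_lit 17422270875) (nat_lit 76) (nat_lit 2352874802) (nat_lit 187) (nat_lit 4) (nat_lit 188) (nat_lit 5) (nat_lit 188) (nat_lit 4) (nat_lit 403) (nat_lit 334) (nat_lit 283)) (XT.lf (nat_lit 0) (nat_lit 5767049730) (nat_lit 152) (nat_lit 3311938715) (nat_lit 76) (nat_lit 15226504455) (nat_lit 186) (nat_lit 5) (nat_lit 188) (nat_lit 5) (nat_lit 187) (nat_lit 4) (nat_lit 404) (nat_lit 334) (nat_lit 282))) (XT.nd (nat_lit 78) (nat_lit 76) (nat_lit 0) (XT.lf (nat_lit 0) (nat_lit 14277207295) (nat_lit 76) (nat_lit 100108590) (nat_lit 152)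 (nat_lit 10688226733) (nat_lit 185) (nat_lit 5) (nat_lit 186) (nat_lit 5) (nat_lit 187) (nat_lit 4) (nat_lit 405) (nat_lit 334) (nat_lit 281)) (XT.lf (nat_lit 0) (nat_lit 6960426344) (nat_lit 76) (nat_lit 16709684925) (nat_lit 76) (nat_lit 2180882756) (nat_lit 184) (nat_lit 4) (nat_lit 185) (nat_lit 5) (nat_lit 185) (nat_lit 4) (nat_lit 406) (nat_lit 334) (nat_lit 280)))) (XT.nd (nat_lit 156) (nat_lit 228) (nat_lit 0) (XT.nd (nat_lit 78) (nat_lit 76) (nat_lit 0) (XT.lf (nat_lit 0) (nat_lit 6663863173) (nat_lit 152) (nat_lit 921353873) (nat_lit 76) (nat_lit 19078823438) (nat_lit 183) (nat_lit 5) (nat_lit 185) (nat_lit 5) (nat_lit 184) (nat_lit 4) (nat_lit 407) (nat_lit 334) (nat_lit 279)) (XT.lf (nat_lit 0) (nat_lit 16143871877) (nat_lit 152) (nat_lit 9151271400) (nat_lit 0) (nat_lit 2207492506) (nat_lit 182) (nat_lit 5) (nat_lit 184) (nat_lit 4) (nat_lit 182) (nat_lit 4) (nat_lit 408) (nat_lit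 334) (nat_lit 278))) (XT.nd (nat_lit 78) (nat_lit 152) (nat_lit 0) (XT.lf (nat_lit 0) (nat_lit 10332906075) (nat_lit 76) (nat_lit 16010279674) (nat_lit 76) (nat_lit 2027709863) (nat_lit 181) (nat_lit 4) (nat_lit 182) (nat_lit 5) (nat_lit 182) (nat_lit 4) (nat_lit 409) (nat_lit 334) (nat_lit 277)) (XT.lf (nat_lit 0) (nat_lit 1652621230) (nat_lit 76) (nat_lit 5995760202) (nat_lit 152) (nat_lit 21621763019) (nat_lit 179) (nat_lit 5) (nat_lit 180) (nat_lit 5) (nat_lit 181) (nat_lit 4) (nat_lit 410) (nat_lit 334) (nat_lit 276))))) (XT.nd (nat_lit 312) (nat_lit 304) (nat_lit 0) (XT.nd (nat_lit 156) (nat_lit 152) (nat_lit 0) (XT.nd (nat_lit 78) (nat_lit 76) (nat_lit 0) (XT.lf (nat_lit 0) (nat_lit 18065168046) (nat_lit 152) (nat_lit 7464636110) (nat_lit 0) (nat_lit 4666637762) (nat_lit 179) (nat_lit 5) (nat_lit 181) (nat_lit 4) (nat_lit 179) (nat_lit 4) (nat_lit 411) (nat_lit 334) (nat_lit 275)) (XT.lf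 (nat_lit 0) (nat_lit 13938244202) (nat_lit 76) (nat_lit 15327106742) (nat_lit 76) (nat_lit 1890575468) (nat_lit 178) (nat_lit 4) (nat_lit 179) (nat_lit 5) (nat_lit 179) (nat_lit 4) (nat_lit 412) (nat_lit 334) (nat_lit 274))) (XT.nd (nat_lit 78) (nat_lit 0) (nat_lit 0) (XT.lf (nat_lit 0) (nat_lit 4408491624) (nat_lit 76) (nat_lit 4314051944) (nat_lit 152) (nat_lit 23426721900) (nat_lit 176) (nat_lit 5) (nat_lit 177) (nat_lit 5) (nat_lit 178) (nat_lit 4) (nat_lit 413) (nat_lit 334) (nat_lit 273)) (XT.lf (nat_lit 0) (nat_lit 20159164846) (nat_lit 152) (nat_lit 5718564186) (nat_lit 0) (nat_lit 7295173693) (nat_lit 176) (nat_lit 5) (nat_lit 178) (nat_lit 4) (nat_lit 176) (nat_lit 4) (nat_lit 414) (nat_lit 334) (nat_lit 272)))) (XT.nd (nat_lit 156) (nat_lit 76) (nat_lit 0) (XT.nd (nat_lit 78) (nat_lit 152) (nat_lit 0) (XT.lf (nat_lit 0) (nat_lit 17803234426) (nat_lit 76) (nat_lit 14662420107) (nat_lit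 76) (nat_lit 1767165445) (nat_lit 175) (nat_lit 4) (nat_lit 176) (nat_lit 5) (nat_lit 176) (nat_lit 4) (nat_lit 415) (nat_lit 334) (nat_lit 271)) (XT.lf (nat_lit 0) (nat_lit 7334485828) (nat_lit 76) (nat_lit 2548204542) (nat_lit 152) (nat_lit 25447086090) (nat_lit 173) (nat_lit 5) (nat_lit 174) (nat_lit 5) (nat_lit 175) (nat_lit 4) (nat_lit 416) (nat_lit 334) (nat_lit 270))) (XT.nd (nat_lit 78) (nat_lit 76) (nat_lit 0) (XT.lf (nat_lit 0) (nat_lit 22446763915) (nat_lit 152) (nat_lit 3903607210) (nat_lit 0) (nat_lit 10110205481) (nat_lit 173) (nat_lit 5) (nat_lit 175) (nat_lit 4) (nat_lit 173) (nat_lit 4) (nat_lit 417) (nat_lit 334) (nat_lit 269)) (XT.lf (nat_lit 0) (nat_lit 21957711274) (nat_lit 76) (nat_lit 14017829745) (nat_lit 76) (nat_lit 1655550745) (nat_lit 172) (nat_lit 4) (nat_lit 173) (nat_lit 5) (nat_lit 173) (nat_lit 4) (nat_lit 418) (nat_lit 334) (nat_lit 268)))))) (XT.nd (nat_lit 624)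 (nat_lit 608) (nat_lit 0) (XT.nd (nat_lit 312) (nat_lit 304) (nat_lit 0) (XT.nd (nat_lit 156) (nat_lit 228) (nat_lit 0) (XT.nd (nat_lit 78) (nat_lit 0) (nat_lit 0) (XT.lf (nat_lit 0) (nat_lit 10451474612) (nat_lit 76) (nat_lit 689134845) (nat_lit 152) (nat_lit 27701570099) (nat_lit 170) (nat_lit 5) (nat_lit 171) (nat_lit 5) (nat_lit 172) (nat_lit 4) (nat_lit 419) (nat_lit 334) (nat_lit 267)) (XT.lf (nat_lit 0) (nat_lit 24950494201) (nat_lit 152) (nat_lit 2009145383) (nat_lit 0) (nat_lit 13131347450) (nat_lit 170) (nat_lit 5) (nat_lit 172) (nat_lit 4) (nat_lit 170) (nat_lit 4) (nat_lit 420) (nat_lit 334) (nat_lit 266))) (XT.nd (nat_lit 78) (nat_lit 152) (nat_lit 0) (XT.lf (nat_lit 0) (nat_lit 26434770857) (nat_lit 76) (nat_lit 13394427448) (nat_lit 76) (nat_lit 1554120325) (nat_lit 169) (nat_lit 4) (nat_lit 170) (nat_lit 5) (nat_lit 170) (nat_lit 4) (nat_lit 421) (nat_lit 334) (nat_lit 265)) (XT.lf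 (nat_lit 0) (nat_lit 12528719144) (nat_lit 152) (nat_lit 28957381513) (nat_lit 0) (nat_lit 1233043087) (nat_lit 167) (nat_lit 5) (nat_lit 169) (nat_lit 4) (nat_lit 167) (nat_lit 4) (nat_lit 422) (nat_lit 334) (nat_lit 264)))) (XT.nd (nat_lit 156) (nat_lit 228) (nat_lit 0) (XT.nd (nat_lit 78) (nat_lit 76) (nat_lit 0) (XT.lf (nat_lit 0) (nat_lit 27694767603) (nat_lit 152) (nat_lit 23341438) (nat_lit 0) (nat_lit 16380812421) (nat_lit 167) (nat_lit 5) (nat_lit 169) (nat_lit 4) (nat_lit 167) (nat_lit 4) (nat_lit 423) (nat_lit 334) (nat_lit 263)) (XT.lf (nat_lit 0) (nat_lit 31271032210) (nat_lit 76) (nat_lit 12792889777) (nat_lit 76) (nat_lit 1461525903) (nat_lit 166) (nat_lit 4) (nat_lit 167) (nat_lit 5) (nat_lit 167) (nat_lit 4) (nat_lit 424) (nat_lit 334) (nat_lit 262))) (XT.nd (nat_lit 78) (nat_lit 76) (nat_lit 0) (XT.lf (nat_lit 0) (nat_lit 14053133038) (nat_lit 152) (nat_lit 29699478152) (nat_lit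 0) (nat_lit 3245567724) (nat_lit 164) (nat_lit 5) (nat_lit 166) (nat_lit 4) (nat_lit 164) (nat_lit 4) (nat_lit 425) (nat_lit 334) (nat_lit 261)) (XT.lf (nat_lit 0) (nat_lit 2135266988) (nat_lit 76) (nat_lit 28604215698) (nat_lit 76) (nat_lit 17781612102) (nat_lit 163) (nat_lit 4) (nat_lit 164) (nat_lit 5) (nat_lit 164) (nat_lit 4) (nat_lit 426) (nat_lit 334) (nat_lit 260))))) (XT.nd (nat_lit 312) (nat_lit 380) (nat_lit 0) (XT.nd (nat_lit 156) (nat_lit 76) (nat_lit 0) (XT.nd (nat_lit 78) (nat_lit 152) (nat_lit 0) (XT.lf (nat_lit 0) (nat_lit 36506940119) (nat_lit 76) (nat_lit 12213562239) (nat_lit 76) (nat_lit 1376636469) (nat_lit 163) (nat_lit 4) (nat_lit 164) (nat_lit 5) (nat_lit 164) (nat_lit 4) (nat_lit 427) (nat_lit 334) (nat_lit 259)) (XT.lf (nat_lit 0) (nat_lit 15717793767) (nat_lit 152) (nat_lit 30619074828) (nat_lit 0) (nat_lit 5383921448) (nat_lit 161) (nat_lit 5) (nat_lit 163) (nat_lit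 4) (nat_lit 161) (nat_lit 4) (nat_lit 428) (nat_lit 334) (nat_lit 258))) (XT.nd (nat_lit 78) (nat_lit 0) (nat_lit 0) (XT.lf (nat_lit 0) (nat_lit 4417531214) (nat_lit 76) (nat_lit 29665056626) (nat_lit 76) (nat_lit 19318812275) (nat_lit 160) (nat_lit 4) (nat_lit 161) (nat_lit 5) (nat_lit 161) (nat_lit 4) (nat_lit 429) (nat_lit 334) (nat_lit 257)) (XT.lf (nat_lit 0) (nat_lit 42187110994) (nat_lit 76) (nat_lit 11656528032) (nat_lit 76) (nat_lit 1298500793) (nat_lit 160) (nat_lit 4) (nat_lit 161) (nat_lit 5) (nat_lit 161) (nat_lit 4) (nat_lit 430) (nat_lit 334) (nat_lit 256)))) (XT.nd (nat_lit 156) (nat_lit 152) (nat_lit 0) (XT.nd (nat_lit 78) (nat_lit 76) (nat_lit 0) (XT.lf (nat_lit 0) (nat_lit 17538648437) (nat_lit 152) (nat_lit 31730344686) (nat_lit 0) (nat_lit 7663173165) (nat_lit 158) (nat_lit 5) (nat_lit 160) (nat_lit 4) (nat_lit 158) (nat_lit 4) (nat_lit 431) (nat_lit 334) (nat_lit 255)) (XT.lf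 (nat_lit 0) (nat_lit 6839166714) (nat_lit 76) (nat_lit 30916516736) (nat_lit 76) (nat_lit 21030862963) (nat_lit 157) (nat_lit 4) (nat_lit 158) (nat_lit 5) (nat_lit 158) (nat_lit 4) (nat_lit 432) (nat_lit 334) (nat_lit 254))) (XT.nd (nat_lit 78) (nat_lit 152) (nat_lit 0) (XT.lf (nat_lit 0) (nat_lit 48360723980) (nat_lit 76) (nat_lit 11121664127) (nat_lit 76) (nat_lit 1226316543) (nat_lit 157) (nat_lit 4) (nat_lit 158) (nat_lit 5) (nat_lit 158) (nat_lit 4) (nat_lit 433) (nat_lit 334) (nat_lit 253)) (XT.lf (nat_lit 0) (nat_lit 19533060339) (nat_lit 152) (nat_lit 33048961528) (nat_lit 0) (nat_lit 10100127211) (nat_lit 155) (nat_lit 5) (nat_lit 157) (nat_lit 4) (nat_lit 155) (nat_lit 4) (nat_lit 434) (nat_lit 334) (nat_lit 252))))))) (XT.nd (nat_lit 1248) (nat_lit 1140) (nat_lit 0) (XT.nd (nat_lit 624) (nat_lit 684) (nat_lit 0) (XT.nd (nat_lit 312) (nat_lit 228) (nat_lit 0) (XT.nd (nat_lit 156) (nat_lit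 228) (nat_lit 0) (XT.nd (nat_lit 78) (nat_lit 0) (nat_lit 0) (XT.lf (nat_lit 0) (nat_lit 9418306595) (nat_lit 76) (nat_lit 32375514790) (nat_lit 76) (nat_lit 22934207784) (nat_lit 154) (nat_lit 4) (nat_lit 155) (nat_lit 5) (nat_lit 155) (nat_lit 4) (nat_lit 435) (nat_lit 334) (nat_lit 251)) (XT.lf (nat_lit 0) (nat_lit 55081960158) (nat_lit 76) (nat_lit 10608686952) (nat_lit 76) (nat_lit 1159404823) (nat_lit 154) (nat_lit 4) (nat_lit 155) (nat_lit 5) (nat_lit 155) (nat_lit 4) (nat_lit 436) (nat_lit 334) (nat_lit 250))) (XT.nd (nat_lit 78) (nat_lit 76) (nat_lit 0) (XT.lf (nat_lit 0) (nat_lit 21719989957) (nat_lit 152) (nat_lit 34592276803) (nat_lit 0) (nat_lit 12713439973) (nat_lit 152) (nat_lit 5) (nat_lit 154) (nat_lit 4) (nat_lit 152) (nat_lit 4) (nat_lit 437) (nat_lit 334) (nat_lit 249)) (XT.lf (nat_lit 0) (nat_lit 12174875579) (nat_lit 76) (nat_lit 34060601619) (nat_lit 76) (nat_lit 25047162425)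 (nat_lit 151) (nat_lit 4) (nat_lit 152) (nat_lit 5) (nat_lit 152) (nat_lit 4) (nat_lit 438) (nat_lit 334) (nat_lit 248)))) (XT.nd (nat_lit 156) (nat_lit 76) (nat_lit 0) (XT.nd (nat_lit 78) (nat_lit 152) (nat_lit 0) (XT.lf (nat_lit 0) (nat_lit 62410493239) (nat_lit 76) (nat_lit 10117189534) (nat_lit 76) (nat_lit 1097189187) (nat_lit 151) (nat_lit 4) (nat_lit 152) (nat_lit 5) (nat_lit 152) (nat_lit 4) (nat_lit 439) (nat_lit 334) (nat_lit 247)) (XT.lf (nat_lit 0) (nat_lit 24120188310) (nat_lit 152) (nat_lit 36379509116) (nat_lit 0) (nat_lit 15523760630) (nat_lit 149) (nat_lit 5) (nat_lit 151) (nat_lit 4) (nat_lit 149) (nat_lit 4) (nat_lit 440) (nat_lit 334) (nat_lit 246))) (XT.nd (nat_lit 78) (nat_lit 0) (nat_lit 0) (XT.lf (nat_lit 0) (nat_lit 15130756240) (nat_lit 76) (nat_lit 35992172496) (nat_lit 76) (nat_lit 27390077046) (nat_lit 148) (nat_lit 4) (nat_lit 149) (nat_lit 5) (nat_lit 149) (nat_lit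 4) (nat_lit 441) (nat_lit 334) (nat_lit 245)) (XT.lf (nat_lit 0) (nat_lit 70412035848) (nat_lit 76) (nat_lit 9646671653) (nat_lit 76) (nat_lit 1039178326) (nat_lit 148) (nat_lit 4) (nat_lit 149) (nat_lit 5) (nat_lit 149) (nat_lit 4) (nat_lit 442) (nat_lit 334) (nat_lit 244))))) (XT.nd (nat_lit 312) (nat_lit 304) (nat_lit 0) (XT.nd (nat_lit 156) (nat_lit 152) (nat_lit 0) (XT.nd (nat_lit 78) (nat_lit 76) (nat_lit 0) (XT.lf (nat_lit 0) (nat_lit 26756404993) (nat_lit 152) (nat_lit 38431948618) (nat_lit 0) (nat_lit 18553896268) (nat_lit 146) (nat_lit 5) (nat_lit 148) (nat_lit 4) (nat_lit 146) (nat_lit 4) (nat_lit 443) (nat_lit 334) (nat_lit 243)) (XT.lf (nat_lit 0) (nat_lit 18309976754) (nat_lit 76) (nat_lit 38192691992) (nat_lit 76) (nat_lit 29985520378) (nat_lit 145) (nat_lit 4) (nat_lit 146) (nat_lit 5) (nat_lit 146) (nat_lit 4) (nat_lit 444) (nat_lit 334) (nat_lit 242))) (XT.nd (nat_lit 78) (nat_lit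 152) (nat_lit 0) (XT.lf (nat_lit 0) (nat_lit 79158946066) (nat_lit 76) (nat_lit 9196564247) (nat_lit 76) (nat_lit 984951787) (nat_lit 145) (nat_lit 4) (nat_lit 146) (nat_lit 5) (nat_lit 146) (nat_lit 4) (nat_lit 445) (nat_lit 334) (nat_lit 241)) (XT.lf (nat_lit 0) (nat_lit 29653613314) (nat_lit 152) (nat_lit 40773178671) (nat_lit 0) (nat_lit 21829002039) (nat_lit 143) (nat_lit 5) (nat_lit 145) (nat_lit 4) (nat_lit 143) (nat_lit 4) (nat_lit 446) (nat_lit 334) (nat_lit 240)))) (XT.nd (nat_lit 156) (nat_lit 228) (nat_lit 0) (XT.nd (nat_lit 78) (nat_lit 0) (nat_lit 0) (XT.lf (nat_lit 0) (nat_lit 21738921516) (nat_lit 76) (nat_lit 40686934317) (nat_lit 76) (nat_lit 32858486873) (nat_lit 142) (nat_lit 4) (nat_lit 143) (nat_lit 5) (nat_lit 143) (nat_lit 4) (nat_lit 447) (nat_lit 334) (nat_lit 239)) (XT.lf (nat_lit 0) (nat_lit 88730899602) (nat_lit 76) (nat_lit 8766249123) (nat_lit 76) (nat_lit 934148184)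 (nat_lit 142) (nat_lit 4) (nat_lit 143) (nat_lit 5) (nat_lit 143) (nat_lit 4) (nat_lit 448) (nat_lit 334) (nat_lit 238))) (XT.nd (nat_lit 78) (nat_lit 76) (nat_lit 0) (XT.lf (nat_lit 0) (nat_lit 32839255031) (nat_lit 152) (nat_lit 43429317276) (nat_lit 0) (nat_lit 25376797451) (nat_lit 140) (nat_lit 5) (nat_lit 142) (nat_lit 4) (nat_lit 140) (nat_lit 4) (nat_lit 449) (nat_lit 334) (nat_lit 237)) (XT.lf (nat_lit 0) (nat_lit 25446566261) (nat_lit 76) (nat_lit 43502242113) (nat_lit 76) (nat_lit 36036628506) (nat_lit 139) (nat_lit 4) (nat_lit 140) (nat_lit 5) (nat_lit 140) (nat_lit 4) (nat_lit 450) (nat_lit 334) (nat_lit 236)))))) (XT.nd (nat_lit 624) (nat_lit 532) (nat_lit 0) (XT.nd (nat_lit 312) (nat_lit 380) (nat_lit 0) (XT.nd (nat_lit 156) (nat_lit 76) (nat_lit 0) (XT.nd (nat_lit 78) (nat_lit 152) (nat_lit 0) (XT.lf (nat_lit 0) (nat_lit 99215633638) (nat_lit 76) (nat_lit 8355074807) (nat_lit 76)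 (nat_lit 886455461) (nat_lit 139) (nat_lit 4) (nat_lit 140) (nat_lit 5) (nat_lit 140) (nat_lit 4) (nat_lit 451) (nat_lit 334) (nat_lit 235)) (XT.lf (nat_lit 0) (nat_lit 36343507313) (nat_lit 152) (nat_lit 46429280880) (nat_lit 0) (nat_lit 29227810213) (nat_lit 137) (nat_lit 5) (nat_lit 139) (nat_lit 4) (nat_lit 137) (nat_lit 4) (nat_lit 452) (nat_lit 334) (nat_lit 234))) (XT.nd (nat_lit 78) (nat_lit 0) (nat_lit 0) (XT.lf (nat_lit 0) (nat_lit 29464739626) (nat_lit 76) (nat_lit 46668806764) (nat_lit 76) (nat_lit 39550513193) (nat_lit 136) (nat_lit 4) (nat_lit 137) (nat_lit 5) (nat_lit 137) (nat_lit 4) (nat_lit 453) (nat_lit 334) (nat_lit 233)) (XT.lf (nat_lit 0) (nat_lit 110709769163) (nat_lit 76) (nat_lit 7962369254) (nat_lit 76) (nat_lit 841602853) (nat_lit 136) (nat_lit 4) (nat_lit 137) (nat_lit 5) (nat_lit 137) (nat_lit 4) (nat_lit 454) (nat_lit 334) (nat_lit 232)))) (XT.nd (nat_lit 156) (nat_lit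 152) (nat_lit 0) (XT.nd (nat_lit 78) (nat_lit 76) (nat_lit 0) (XT.lf (nat_lit 0) (nat_lit 40199574692) (nat_lit 152) (nat_lit 49805073327) (nat_lit 0) (nat_lit 33415649477) (nat_lit 134) (nat_lit 5) (nat_lit 136) (nat_lit 4) (nat_lit 134) (nat_lit 4) (nat_lit 455) (nat_lit 334) (nat_lit 231)) (XT.lf (nat_lit 0) (nat_lit 33828413379) (nat_lit 76) (nat_lit 50219973353) (nat_lit 76) (nat_lit 43433912014) (nat_lit 133) (nat_lit 4) (nat_lit 134) (nat_lit 5) (nat_lit 134) (nat_lit 4) (nat_lit 456) (nat_lit 334) (nat_lit 230))) (XT.nd (nat_lit 78) (nat_lit 152) (nat_lit 0) (XT.lf (nat_lit 0) (nat_lit 123319719365) (nat_lit 76) (nat_lit 7587449969) (nat_lit 76) (nat_lit 799354227) (nat_lit 133) (nat_lit 4) (nat_lit 134) (nat_lit 5) (nat_lit 134) (nat_lit 4) (nat_lit 457) (nat_lit 334) (nat_lit 229)) (XT.lf (nat_lit 0) (nat_lit 44444008994) (nat_lit 152) (nat_lit 53592102932) (nat_lit 0) (nat_lit 37977310643)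 (nat_lit 131) (nat_lit 5) (nat_lit 133) (nat_lit 4) (nat_lit 131) (nat_lit 4) (nat_lit 458) (nat_lit 334) (nat_lit 228))))) (XT.nd (nat_lit 312) (nat_lit 228) (nat_lit 0) (XT.nd (nat_lit 156) (nat_lit 228) (nat_lit 0) (XT.nd (nat_lit 78) (nat_lit 0) (nat_lit 0) (XT.lf (nat_lit 0) (nat_lit 38576023889) (nat_lit 76) (nat_lit 54192573571) (nat_lit 76) (nat_lit 47724117827) (nat_lit 130) (nat_lit 4) (nat_lit 131) (nat_lit 5) (nat_lit 131) (nat_lit 4) (nat_lit 459) (nat_lit 334) (nat_lit 227)) (XT.lf (nat_lit 0) (nat_lit 137162692559) (nat_lit 76) (nat_lit 7229632037) (nat_lit 76) (nat_lit 759502584) (nat_lit 130) (nat_lit 4) (nat_lit 131) (nat_lit 5) (nat_lit 131) (nat_lit 4) (nat_lit 460) (nat_lit 334) (nat_lit 226))) (XT.nd (nat_lit 78) (nat_lit 76) (nat_lit 0) (XT.lf (nat_lit 0) (nat_lit 49117060451) (nat_lit 152) (nat_lit 57829530868) (nat_lit 0) (nat_lit 42953514298) (nat_lit 128) (nat_lit 5)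 (nat_lit 130) (nat_lit 4) (nat_lit 128) (nat_lit 4) (nat_lit 461) (nat_lit 334) (nat_lit 225)) (XT.lf (nat_lit 0) (nat_lit 43749827704) (nat_lit 76) (nat_lit 58627290086) (nat_lit 76) (nat_lit 52462298121) (nat_lit 127) (nat_lit 4) (nat_lit 128) (nat_lit 5) (nat_lit 128) (nat_lit 4) (nat_lit 462) (nat_lit 334) (nat_lit 224)))) (XT.nd (nat_lit 156) (nat_lit 76) (nat_lit 0) (XT.nd (nat_lit 78) (nat_lit 152) (nat_lit 0) (XT.lf (nat_lit 0) (nat_lit 152367799025) (nat_lit 76) (nat_lit 6888234426) (nat_lit 76) (nat_lit 721865497) (nat_lit 127) (nat_lit 4) (nat_lit 128) (nat_lit 5) (nat_lit 128) (nat_lit 4) (nat_lit 463) (nat_lit 334) (nat_lit 223)) (XT.lf (nat_lit 0) (nat_lit 54263063478) (nat_lit 152) (nat_lit 62560654351) (nat_lit 0) (nat_lit 48389082218) (nat_lit 125) (nat_lit 5) (nat_lit 127) (nat_lit 4) (nat_lit 125) (nat_lit 4) (nat_lit 464) (nat_lit 334) (nat_lit 222))) (XT.nd (nat_lit 78) (nat_lit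 0) (nat_lit 0) (XT.lf (nat_lit 0) (nat_lit 49396294490) (nat_lit 76) (nat_lit 63569056097) (nat_lit 76) (nat_lit 57693885364) (nat_lit 124) (nat_lit 4) (nat_lit 125) (nat_lit 5) (nat_lit 125) (nat_lit 4) (nat_lit 465) (nat_lit 334) (nat_lit 221)) (XT.lf (nat_lit 0) (nat_lit 169077272172) (nat_lit 76) (nat_lit 6562584897) (nat_lit 76) (nat_lit 686281332) (nat_lit 124) (nat_lit 4) (nat_lit 125) (nat_lit 5) (nat_lit 125) (nat_lit 4) (nat_lit 466) (nat_lit 334) (nat_lit 220))))))))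
noncomputable def xc112 : XT := (XT.nd (nat_lit 44304) (nat_lit 0) (nat_lit 8892) (XT.nd (nat_lit 1248) (nat_lit 912) (nat_lit 0) (XT.nd (nat_lit 624) (nat_lit 608) (nat_lit 0) (XT.nd (nat_lit 312) (nat_lit 304) (nat_lit 0) (XT.nd (nat_lit 156) (nat_lit 152) (nat_lit 0) (XT.nd (nat_lit 78) (nat_lit 76) (nat_lit 0) (XT.lf (nat_lit 0) (nat_lit 59930860888) (nat_lit 152) (nat_lit 67833328387) (nat_lit 0) (nat_lit 54333353791) (nat_lit 122) (nat_lit 5) (nat_lit 124) (nat_lit 4) (nat_lit 122) (nat_lit 4) (nat_lit 467) (nat_lit 334) (nat_lit 219)) (XT.lf (nat_lit 0) (nat_lit 55566540948) (nat_lit 76) (nat_lit 69067494126) (nat_lit 76) (nat_lit 63469008446) (nat_lit 121) (nat_lit 4) (nat_lit 122) (nat_lit 5) (nat_lit 122) (nat_lit 4) (nat_lit 468) (nat_lit 334) (nat_lit 218))) (XT.nd (nat_lit 78) (nat_lit 152) (nat_lit 0) (XT.lf (nat_lit 0) (nat_lit 187447815538) (nat_lit 76) (nat_lit 6252023776) (nat_lit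 76) (nat_lit 652606113) (nat_lit 121) (nat_lit 4) (nat_lit 122) (nat_lit 5) (nat_lit 122) (nat_lit 4) (nat_lit 469) (nat_lit 334) (nat_lit 217)) (XT.lf (nat_lit 0) (nat_lit 66174270691) (nat_lit 152) (nat_lit 73700430213) (nat_lit 0) (nat_lit 60840646628) (nat_lit 119) (nat_lit 5) (nat_lit 121) (nat_lit 4) (nat_lit 119) (nat_lit 4) (nat_lit 470) (nat_lit 334) (nat_lit 216)))) (XT.nd (nat_lit 156) (nat_lit 228) (nat_lit 0) (XT.nd (nat_lit 78) (nat_lit 0) (nat_lit 0) (XT.lf (nat_lit 0) (nat_lit 62316809732) (nat_lit 76) (nat_lit 75177398400) (nat_lit 76) (nat_lit 69842969254) (nat_lit 118) (nat_lit 4) (nat_lit 119) (nat_lit 5) (nat_lit 119) (nat_lit 4) (nat_lit 471) (nat_lit 334) (nat_lit 215)) (XT.lf (nat_lit 0) (nat_lit 207652088376) (nat_lit 76) (nat_lit 5955906805) (nat_lit 76) (nat_lit 620710915) (nat_lit 118) (nat_lit 4) (nat_lit 119) (nat_lit 5) (nat_lit 119) (nat_lit 4) (nat_lit 472) (nat_lit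 334) (nat_lit 214))) (XT.nd (nat_lit 78) (nat_lit 76) (nat_lit 0) (XT.lf (nat_lit 0) (nat_lit 73052599976) (nat_lit 152) (nat_lit 80220370950) (nat_lit 0) (nat_lit 67970765572) (nat_lit 116) (nat_lit 5) (nat_lit 118) (nat_lit 4) (nat_lit 116) (nat_lit 4) (nat_lit 473) (nat_lit 334) (nat_lit 213)) (XT.lf (nat_lit 0) (nat_lit 69708997865) (nat_lit 76) (nat_lit 81959265586) (nat_lit 76) (nat_lit 76876768839) (nat_lit 115) (nat_lit 4) (nat_lit 116) (nat_lit 5) (nat_lit 116) (nat_lit 4) (nat_lit 474) (nat_lit 334) (nat_lit 212))))) (XT.nd (nat_lit 312) (nat_lit 380) (nat_lit 0) (XT.nd (nat_lit 156) (nat_lit 76) (nat_lit 0) (XT.nd (nat_lit 78) (nat_lit 152) (nat_lit 0) (XT.lf (nat_lit 0) (nat_lit 229880343887) (nat_lit 76) (nat_lit 5673607242) (nat_lit 76) (nat_lit 590479692) (nat_lit 115) (nat_lit 4) (nat_lit 116) (nat_lit 5) (nat_lit 116) (nat_lit 4) (nat_lit 475) (nat_lit 334) (nat_lit 211)) (XT.lf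 (nat_lit 0) (nat_lit 80631210860) (nat_lit 152) (nat_lit 87457659406) (nat_lit 0) (nat_lit 75789564845) (nat_lit 113) (nat_lit 5) (nat_lit 115) (nat_lit 4) (nat_lit 113) (nat_lit 4) (nat_lit 476) (nat_lit 334) (nat_lit 210))) (XT.nd (nat_lit 78) (nat_lit 0) (nat_lit 0) (XT.lf (nat_lit 0) (nat_lit 77811239588) (nat_lit 76) (nat_lit 89479879060) (nat_lit 76) (nat_lit 84637688134) (nat_lit 112) (nat_lit 4) (nat_lit 113) (nat_lit 5) (nat_lit 113) (nat_lit 4) (nat_lit 477) (nat_lit 334) (nat_lit 209)) (XT.lf (nat_lit 0) (nat_lit 254342235644) (nat_lit 76) (nat_lit 5404517360) (nat_lit 76) (nat_lit 561807471) (nat_lit 112) (nat_lit 4) (nat_lit 113) (nat_lit 5) (nat_lit 113) (nat_lit 4) (nat_lit 478) (nat_lit 334) (nat_lit 208)))) (XT.nd (nat_lit 156) (nat_lit 152) (nat_lit 0) (XT.nd (nat_lit 78) (nat_lit 76) (nat_lit 0) (XT.lf (nat_lit 0) (nat_lit 88982143920) (nat_lit 152) (nat_lit 95483523488) (nat_lit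 0) (nat_lit 84369568549) (nat_lit 110) (nat_lit 5) (nat_lit 112) (nat_lit 4) (nat_lit 110) (nat_lit 4) (nat_lit 479) (nat_lit 334) (nat_lit 207)) (XT.lf (nat_lit 0) (nat_lit 86698549151) (nat_lit 76) (nat_lit 97812952390) (nat_lit 76) (nat_lit 93199928719) (nat_lit 109) (nat_lit 4) (nat_lit 110) (nat_lit 5) (nat_lit 110) (nat_lit 4) (nat_lit 480) (nat_lit 334) (nat_lit 206))) (XT.nd (nat_lit 78) (nat_lit 152) (nat_lit 0) (XT.lf (nat_lit 0) (nat_lit 281268809378) (nat_lit 76) (nat_lit 5148049466) (nat_lit 76) (nat_lit 534598843) (nat_lit 109) (nat_lit 4) (nat_lit 110) (nat_lit 5) (nat_lit 110) (nat_lit 4) (nat_lit 481) (nat_lit 334) (nat_lit 205)) (XT.lf (nat_lit 0) (nat_lit 98184805109) (nat_lit 152) (nat_lit 104376595174) (nat_lit 0) (nat_lit 93790655352) (nat_lit 107) (nat_lit 5) (nat_lit 109) (nat_lit 4) (nat_lit 107) (nat_lit 4) (nat_lit 482) (nat_lit 334) (nat_lit 204)))))) (XT.nd (nat_lit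 624) (nat_lit 380) (nat_lit 0) (XT.nd (nat_lit 312) (nat_lit 228) (nat_lit 0) (XT.nd (nat_lit 156) (nat_lit 228) (nat_lit 0) (XT.nd (nat_lit 78) (nat_lit 0) (nat_lit 0) (XT.lf (nat_lit 0) (nat_lit 96453529617) (nat_lit 76) (nat_lit 107039838256) (nat_lit 76) (nat_lit 102645319682) (nat_lit 106) (nat_lit 4) (nat_lit 107) (nat_lit 5) (nat_lit 107) (nat_lit 4) (nat_lit 483) (nat_lit 334) (nat_lit 203)) (XT.lf (nat_lit 0) (nat_lit 310914699020) (nat_lit 76) (nat_lit 4903636520) (nat_lit 76) (nat_lit 508766691) (nat_lit 106) (nat_lit 4) (nat_lit 107) (nat_lit 5) (nat_lit 107) (nat_lit 4) (nat_lit 484) (nat_lit 334) (nat_lit 202))) (XT.nd (nat_lit 78) (nat_lit 76) (nat_lit 0) (XT.lf (nat_lit 0) (nat_lit 108326722721) (nat_lit 152) (nat_lit 114223665640) (nat_lit 0) (nat_lit 104140813809) (nat_lit 104) (nat_lit 5) (nat_lit 106) (nat_lit 4) (nat_lit 104) (nat_lit 4) (nat_lit 485) (nat_lit 334) (nat_lit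 201)) (XT.lf (nat_lit 0) (nat_lit 107167154381) (nat_lit 76) (nat_lit 117250309638) (nat_lit 76) (nat_lit 113064097300) (nat_lit 103) (nat_lit 4) (nat_lit 104) (nat_lit 5) (nat_lit 104) (nat_lit 4) (nat_lit 486) (nat_lit 334) (nat_lit 200)))) (XT.nd (nat_lit 156) (nat_lit 76) (nat_lit 0) (XT.nd (nat_lit 78) (nat_lit 152) (nat_lit 0) (XT.lf (nat_lit 0) (nat_lit 343560547927) (nat_lit 76) (nat_lit 4670732457) (nat_lit 76) (nat_lit 484231140) (nat_lit 103) (nat_lit 4) (nat_lit 104) (nat_lit 5) (nat_lit 104) (nat_lit 4) (nat_lit 487) (nat_lit 334) (nat_lit 199)) (XT.lf (nat_lit 0) (nat_lit 119504381650) (nat_lit 152) (nat_lit 125120517763) (nat_lit 0) (nat_lit 115516975427) (nat_lit 101) (nat_lit 5) (nat_lit 103) (nat_lit 4) (nat_lit 101) (nat_lit 4) (nat_lit 488) (nat_lit 334) (nat_lit 198))) (XT.nd (nat_lit 78) (nat_lit 0) (nat_lit 0) (XT.lf (nat_lit 0) (nat_lit 118939628813) (nat_lit 76) (nat_lit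 128543420779) (nat_lit 76) (nat_lit 124555764926) (nat_lit 100) (nat_lit 4) (nat_lit 101) (nat_lit 5) (nat_lit 101) (nat_lit 4) (nat_lit 489) (nat_lit 334) (nat_lit 197)) (XT.lf (nat_lit 0) (nat_lit 379515678290) (nat_lit 76) (nat_lit 4448812253) (nat_lit 76) (nat_lit 460918657) (nat_lit 100) (nat_lit 4) (nat_lit 101) (nat_lit 5) (nat_lit 101) (nat_lit 4) (nat_lit 490) (nat_lit 334) (nat_lit 196))))) (XT.nd (nat_lit 42120) (nat_lit 0) (nat_lit 17024) (XT.nd (nat_lit 156) (nat_lit 152) (nat_lit 0) (XT.nd (nat_lit 78) (nat_lit 76) (nat_lit 0) (XT.lf (nat_lit 0) (nat_lit 131824142919) (nat_lit 152) (nat_lit 137172843979) (nat_lit 0) (nat_lit 128025933377) (nat_lit 98) (nat_lit 5) (nat_lit 100) (nat_lit 4) (nat_lit 98) (nat_lit 4) (nat_lit 491) (nat_lit 334) (nat_lit 195)) (XT.lf (nat_lit 0) (nat_lit 131881340211) (nat_lit 76) (nat_lit 141028456184) (nat_lit 76) (nat_lit 137230041271) (nat_lit 97)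 (nat_lit 4) (nat_lit 98) (nat_lit 5) (nat_lit 98) (nat_lit 4) (nat_lit 492) (nat_lit 334) (nat_lit 194))) (XT.nd (nat_lit 78) (nat_lit 152) (nat_lit 0) (XT.lf (nat_lit 0) (nat_lit 419121034153) (nat_lit 76) (nat_lit 4237371804) (nat_lit 76) (nat_lit 438761300) (nat_lit 97) (nat_lit 4) (nat_lit 98) (nat_lit 5) (nat_lit 98) (nat_lit 4) (nat_lit 493) (nat_lit 334) (nat_lit 193)) (XT.lf (nat_lit 0) (nat_lit 145403257252) (nat_lit 152) (nat_lit 150497258261) (nat_lit 0) (nat_lit 141785355554) (nat_lit 95) (nat_lit 5) (nat_lit 97) (nat_lit 4) (nat_lit 95) (nat_lit 4) (nat_lit 494) (nat_lit 334) (nat_lit 192)))) (XT.nd (nat_lit 156) (nat_lit 608) (nat_lit 0) (XT.nd (nat_lit 78) (nat_lit 532) (nat_lit 0) (XT.lf (nat_lit 0) (nat_lit 3014310835) (nat_lit 380) (nat_lit 175226623) (nat_lit 380) (nat_lit 175226623) (nat_lit 334) (nat_lit 4) (nat_lit 339) (nat_lit 5) (nat_lit 339) (nat_lit 4) (nat_lit 350) (nat_lit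 335) (nat_lit 335)) (XT.lf (nat_lit 0) (nat_lit 2993944081) (nat_lit 532) (nat_lit 2878314596) (nat_lit 0) (nat_lit 917513420) (nat_lit 327) (nat_lit 5) (nat_lit 334) (nat_lit 4) (nat_lit 327) (nat_lit 4) (nat_lit 351) (nat_lit 335) (nat_lit 334))) (XT.nd (nat_lit 78) (nat_lit 76) (nat_lit 0) (XT.lf (nat_lit 0) (nat_lit 1817358258) (nat_lit 532) (nat_lit 4547896418) (nat_lit 532) (nat_lit 493912747) (nat_lit 320) (nat_lit 4) (nat_lit 327) (nat_lit 5) (nat_lit 327) (nat_lit 4) (nat_lit 352) (nat_lit 335) (nat_lit 333)) (XT.lf (nat_lit 0) (nat_lit 2755936987) (nat_lit 608) (nat_lit 287696665) (nat_lit 76) (nat_lit 3892178123) (nat_lit 319) (nat_lit 5) (nat_lit 327) (nat_lit 5) (nat_lit 320) (nat_lit 4) (nat_lit 353) (nat_lit 335) (nat_lit 332))))))) (XT.nd (nat_lit 1248) (nat_lit 2660) (nat_lit 0) (XT.nd (nat_lit 624) (nat_lit 1976) (nat_lit 0) (XT.nd (nat_lit 312) (nat_lit 1292) (nat_lit 0) (XT.nd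 (nat_lit 156) (nat_lit 836) (nat_lit 0) (XT.nd (nat_lit 78) (nat_lit 760) (nat_lit 0) (XT.lf (nat_lit 0) (nat_lit 4695227547) (nat_lit 608) (nat_lit 1366379238) (nat_lit 684) (nat_lit 958780397) (nat_lit 311) (nat_lit 5) (nat_lit 319) (nat_lit 5) (nat_lit 320) (nat_lit 4) (nat_lit 354) (nat_lit 335) (nat_lit 331)) (XT.lf (nat_lit 0) (nat_lit 2240436901) (nat_lit 760) (nat_lit 4396962454) (nat_lit 76) (nat_lit 475168671) (nat_lit 301) (nat_lit 5) (nat_lit 311) (nat_lit 5) (nat_lit 302) (nat_lit 4) (nat_lit 355) (nat_lit 335) (nat_lit 330))) (XT.nd (nat_lit 78) (nat_lit 76) (nat_lit 0) (XT.lf (nat_lit 0) (nat_lit 706306144) (nat_lit 760) (nat_lit 4779366428) (nat_lit 836) (nat_lit 1726985513) (nat_lit 291) (nat_lit 5) (nat_lit 301) (nat_lit 5) (nat_lit 302) (nat_lit 4) (nat_lit 356) (nat_lit 335) (nat_lit 329)) (XT.lf (nat_lit 0) (nat_lit 1447987730) (nat_lit 836) (nat_lit 1284217135) (nat_lit 76)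 (nat_lit 4588168272) (nat_lit 290) (nat_lit 5) (nat_lit 301) (nat_lit 5) (nat_lit 291) (nat_lit 5) (nat_lit 357) (nat_lit 335) (nat_lit 328)))) (XT.nd (nat_lit 156) (nat_lit 380) (nat_lit 0) (XT.nd (nat_lit 78) (nat_lit 456) (nat_lit 0) (XT.lf (nat_lit 0) (nat_lit 4149463746) (nat_lit 456) (nat_lit 493571778) (nat_lit 532) (nat_lit 2793054658) (nat_lit 284) (nat_lit 5) (nat_lit 290) (nat_lit 5) (nat_lit 291) (nat_lit 5) (nat_lit 358) (nat_lit 335) (nat_lit 327)) (XT.lf (nat_lit 0) (nat_lit 370075990) (nat_lit 456) (nat_lit 5339953500) (nat_lit 76) (nat_lit 1850023726) (nat_lit 278) (nat_lit 5) (nat_lit 284) (nat_lit 5) (nat_lit 279) (nat_lit 5) (nat_lit 359) (nat_lit 335) (nat_lit 326))) (XT.nd (nat_lit 78) (nat_lit 0) (nat_lit 0) (XT.lf (nat_lit 0) (nat_lit 220615264) (nat_lit 380) (nat_lit 3306002050) (nat_lit 456) (nat_lit 4164851742) (nat_lit 273) (nat_lit 5) (nat_lit 278) (nat_lit 5) (nat_lit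 279) (nat_lit 5) (nat_lit 360) (nat_lit 335) (nat_lit 325)) (XT.lf (nat_lit 0) (nat_lit 6086702867) (nat_lit 380) (nat_lit 709881074) (nat_lit 456) (nat_lit 1035091836) (nat_lit 273) (nat_lit 5) (nat_lit 278) (nat_lit 5) (nat_lit 279) (nat_lit 5) (nat_lit 361) (nat_lit 335) (nat_lit 324))))) (XT.nd (nat_lit 312) (nat_lit 912) (nat_lit 0) (XT.nd (nat_lit 156) (nat_lit 380) (nat_lit 0) (XT.nd (nat_lit 78) (nat_lit 304) (nat_lit 0) (XT.lf (nat_lit 0) (nat_lit 2147100936) (nat_lit 380) (nat_lit 3800952513) (nat_lit 76) (nat_lit 2030682246) (nat_lit 268) (nat_lit 5) (nat_lit 273) (nat_lit 5) (nat_lit 269) (nat_lit 5) (nat_lit 362) (nat_lit 335) (nat_lit 323)) (XT.lf (nat_lit 0) (nat_lit 2209063040) (nat_lit 304) (nat_lit 3193637595) (nat_lit 380) (nat_lit 2732145380) (nat_lit 264) (nat_lit 5) (nat_lit 268) (nat_lit 5) (nat_lit 269) (nat_lit 5) (nat_lit 363) (nat_lit 335) (nat_lit 322))) (XT.nd (nat_lit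 78) (nat_lit 0) (nat_lit 0) (XT.lf (nat_lit 0) (nat_lit 193234987) (nat_lit 304) (nat_lit 255327271) (nat_lit 380) (nat_lit 7852643788) (nat_lit 259) (nat_lit 5) (nat_lit 263) (nat_lit 5) (nat_lit 264) (nat_lit 5) (nat_lit 364) (nat_lit 335) (nat_lit 321)) (XT.lf (nat_lit 0) (nat_lit 3720161245) (nat_lit 380) (nat_lit 1900257964) (nat_lit 76) (nat_lit 2852041709) (nat_lit 259) (nat_lit 5) (nat_lit 264) (nat_lit 5) (nat_lit 260) (nat_lit 5) (nat_lit 365) (nat_lit 335) (nat_lit 320)))) (XT.nd (nat_lit 156) (nat_lit 304) (nat_lit 0) (XT.nd (nat_lit 78) (nat_lit 304) (nat_lit 0) (XT.lf (nat_lit 0) (nat_lit 4606119451) (nat_lit 304) (nat_lit 2508644792) (nat_lit 380) (nat_lit 1539543085) (nat_lit 255) (nat_lit 5) (nat_lit 259) (nat_lit 5) (nat_lit 260) (nat_lit 5) (nat_lit 366) (nat_lit 335) (nat_lit 319)) (XT.lf (nat_lit 0) (nat_lit 1745286587) (nat_lit 304) (nat_lit 6302275798) (nat_lit 76) (nat_lit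 797745600) (nat_lit 251) (nat_lit 5) (nat_lit 255) (nat_lit 5) (nat_lit 252) (nat_lit 5) (nat_lit 367) (nat_lit 335) (nat_lit 318))) (XT.nd (nat_lit 78) (nat_lit 0) (nat_lit 0) (XT.lf (nat_lit 0) (nat_lit 346818802) (nat_lit 304) (nat_lit 4799106319) (nat_lit 380) (nat_lit 3898506327) (nat_lit 247) (nat_lit 5) (nat_lit 251) (nat_lit 5) (nat_lit 252) (nat_lit 5) (nat_lit 368) (nat_lit 335) (nat_lit 317)) (XT.lf (nat_lit 0) (nat_lit 7391008572) (nat_lit 304) (nat_lit 1322342010) (nat_lit 380) (nat_lit 540322752) (nat_lit 247) (nat_lit 5) (nat_lit 251) (nat_lit 5) (nat_lit 252) (nat_lit 5) (nat_lit 369) (nat_lit 335) (nat_lit 316)))))) (XT.nd (nat_lit 624) (nat_lit 1140) (nat_lit 0) (XT.nd (nat_lit 312) (nat_lit 684) (nat_lit 0) (XT.nd (nat_lit 156) (nat_lit 304) (nat_lit 0) (XT.nd (nat_lit 78) (nat_lit 228) (nat_lit 0) (XT.lf (nat_lit 0) (nat_lit 2904004835) (nat_lit 304) (nat_lit 4225695925) (nat_lit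 76) (nat_lit 2340655836) (nat_lit 243) (nat_lit 5) (nat_lit 247) (nat_lit 5) (nat_lit 244) (nat_lit 5) (nat_lit 370) (nat_lit 335) (nat_lit 315)) (XT.lf (nat_lit 0) (nat_lit 2985984970) (nat_lit 228) (nat_lit 3512319510) (nat_lit 304) (nat_lit 3199330950) (nat_lit 240) (nat_lit 5) (nat_lit 243) (nat_lit 5) (nat_lit 244) (nat_lit 5) (nat_lit 371) (nat_lit 335) (nat_lit 314))) (XT.nd (nat_lit 78) (nat_lit 0) (nat_lit 0) (XT.lf (nat_lit 0) (nat_lit 309458246) (nat_lit 304) (nat_lit 9311322017) (nat_lit 76) (nat_lit 316026978) (nat_lit 236) (nat_lit 5) (nat_lit 240) (nat_lit 5) (nat_lit 237) (nat_lit 5) (nat_lit 372) (nat_lit 335) (nat_lit 313)) (XT.lf (nat_lit 0) (nat_lit 3957502543) (nat_lit 304) (nat_lit 1888581716) (nat_lit 76) (nat_lit 4335664276) (nat_lit 236) (nat_lit 5) (nat_lit 240) (nat_lit 5) (nat_lit 237) (nat_lit 5) (nat_lit 373) (nat_lit 335) (nat_lit 312)))) (XT.nd (nat_lit 156) (nat_lit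 228) (nat_lit 0) (XT.nd (nat_lit 78) (nat_lit 228) (nat_lit 0) (XT.lf (nat_lit 0) (nat_lit 5946154486) (nat_lit 228) (nat_lit 1837703771) (nat_lit 304) (nat_lit 2655283175) (nat_lit 233) (nat_lit 5) (nat_lit 236) (nat_lit 5) (nat_lit 237) (nat_lit 5) (nat_lit 374) (nat_lit 335) (nat_lit 311)) (XT.lf (nat_lit 0) (nat_lit 1085635379) (nat_lit 228) (nat_lit 7273126123) (nat_lit 76) (nat_lit 2348366788) (nat_lit 230) (nat_lit 5) (nat_lit 233) (nat_lit 5) (nat_lit 231) (nat_lit 5) (nat_lit 375) (nat_lit 335) (nat_lit 310))) (XT.nd (nat_lit 78) (nat_lit 0) (nat_lit 0) (XT.lf (nat_lit 0) (nat_lit 725273875) (nat_lit 228) (nat_lit 4223150743) (nat_lit 304) (nat_lit 6036710428) (nat_lit 227) (nat_lit 5) (nat_lit 230) (nat_lit 5) (nat_lit 231) (nat_lit 5) (nat_lit 376) (nat_lit 335) (nat_lit 309)) (XT.lf (nat_lit 0) (nat_lit 9037976387) (nat_lit 304) (nat_lit 2051614336) (nat_lit 76) (nat_lit 185770262)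 (nat_lit 227) (nat_lit 5) (nat_lit 231) (nat_lit 5) (nat_lit 228) (nat_lit 4) (nat_lit 377) (nat_lit 335) (nat_lit 308))))) (XT.nd (nat_lit 312) (nat_lit 532) (nat_lit 0) (XT.nd (nat_lit 156) (nat_lit 228) (nat_lit 0) (XT.nd (nat_lit 78) (nat_lit 152) (nat_lit 0) (XT.lf (nat_lit 0) (nat_lit 1779894642) (nat_lit 228) (nat_lit 5042494553) (nat_lit 76) (nat_lit 4752138463) (nat_lit 224) (nat_lit 5) (nat_lit 227) (nat_lit 5) (nat_lit 225) (nat_lit 5) (nat_lit 378) (nat_lit 335) (nat_lit 307)) (XT.lf (nat_lit 0) (nat_lit 3662922557) (nat_lit 152) (nat_lit 2264018748) (nat_lit 228) (nat_lit 5959672723) (nat_lit 222) (nat_lit 5) (nat_lit 224) (nat_lit 5) (nat_lit 225) (nat_lit 5) (nat_lit 379) (nat_lit 335) (nat_lit 306))) (XT.nd (nat_lit 78) (nat_lit 76) (nat_lit 0) (XT.lf (nat_lit 0) (nat_lit 599748174) (nat_lit 152) (nat_lit 9729790517) (nat_lit 228) (nat_lit 1882356108) (nat_lit 220) (nat_lit 5) (nat_lit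 222) (nat_lit 5) (nat_lit 223) (nat_lit 4) (nat_lit 380) (nat_lit 335) (nat_lit 305)) (XT.lf (nat_lit 0) (nat_lit 2413872824) (nat_lit 228) (nat_lit 2621261957) (nat_lit 76) (nat_lit 7511841011) (nat_lit 219) (nat_lit 5) (nat_lit 222) (nat_lit 5) (nat_lit 220) (nat_lit 5) (nat_lit 381) (nat_lit 335) (nat_lit 304)))) (XT.nd (nat_lit 156) (nat_lit 228) (nat_lit 0) (XT.nd (nat_lit 78) (nat_lit 152) (nat_lit 0) (XT.lf (nat_lit 0) (nat_lit 6867341563) (nat_lit 152) (nat_lit 18819630) (nat_lit 228) (nat_lit 6009881352) (nat_lit 217) (nat_lit 5) (nat_lit 219) (nat_lit 5) (nat_lit 220) (nat_lit 5) (nat_lit 382) (nat_lit 335) (nat_lit 303)) (XT.lf (nat_lit 0) (nat_lit 3550359048) (nat_lit 152) (nat_lit 8132363627) (nat_lit 228) (nat_lit 1574807026) (nat_lit 215) (nat_lit 5) (nat_lit 217) (nat_lit 5) (nat_lit 218) (nat_lit 4) (nat_lit 383) (nat_lit 335) (nat_lit 302))) (XT.nd (nat_lit 78) (nat_lit 152) (nat_lit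 0) (XT.lf (nat_lit 0) (nat_lit 3006032785) (nat_lit 228) (nat_lit 6462857) (nat_lit 76) (nat_lit 10621056839) (nat_lit 214) (nat_lit 5) (nat_lit 217) (nat_lit 5) (nat_lit 215) (nat_lit 5) (nat_lit 384) (nat_lit 335) (nat_lit 301)) (XT.lf (nat_lit 0) (nat_lit 7886095558) (nat_lit 228) (nat_lit 3712529228) (nat_lit 76) (nat_lit 2422305548) (nat_lit 212) (nat_lit 5) (nat_lit 215) (nat_lit 5) (nat_lit 213) (nat_lit 4) (nat_lit 385) (nat_lit 335) (nat_lit 300))))))))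
noncomputable def xc113 : XT := (XT.nd (nat_lit 1248) (nat_lit 1292) (nat_lit 0) (XT.nd (nat_lit 624) (nat_lit 760) (nat_lit 0) (XT.nd (nat_lit 312) (nat_lit 532) (nat_lit 0) (XT.nd (nat_lit 156) (nat_lit 76) (nat_lit 0) (XT.nd (nat_lit 78) (nat_lit 228) (nat_lit 0) (XT.lf (nat_lit 0) (nat_lit 6741950539) (nat_lit 76) (nat_lit 6346142000) (nat_lit 152) (nat_lit 1335687988) (nat_lit 211) (nat_lit 5) (nat_lit 212) (nat_lit 5) (nat_lit 213) (nat_lit 4) (nat_lit 386) (nat_lit 335) (nat_lit 299)) (XT.lf (nat_lit 0) (nat_lit 2902105971) (nat_lit 152) (nat_lit 715501278) (nat_lit 228) (nat_lit 11224638766) (nat_lit 208) (nat_lit 5) (nat_lit 210) (nat_lit 5) (nat_lit 211) (nat_lit 5) (nat_lit 387) (nat_lit 335) (nat_lit 298))) (XT.nd (nat_lit 78) (nat_lit 76) (nat_lit 0) (XT.lf (nat_lit 0) (nat_lit 8911175292) (nat_lit 228) (nat_lit 1235326560) (nat_lit 76) (nat_lit 5127163304) (nat_lit 208) (nat_lit 5)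 (nat_lit 211) (nat_lit 5) (nat_lit 209) (nat_lit 4) (nat_lit 388) (nat_lit 335) (nat_lit 297)) (XT.lf (nat_lit 0) (nat_lit 10188653630) (nat_lit 76) (nat_lit 4379316874) (nat_lit 152) (nat_lit 1153757313) (nat_lit 207) (nat_lit 5) (nat_lit 208) (nat_lit 5) (nat_lit 209) (nat_lit 4) (nat_lit 389) (nat_lit 335) (nat_lit 296)))) (XT.nd (nat_lit 156) (nat_lit 228) (nat_lit 0) (XT.nd (nat_lit 78) (nat_lit 76) (nat_lit 0) (XT.lf (nat_lit 0) (nat_lit 4248974614) (nat_lit 228) (nat_lit 10184767747) (nat_lit 76) (nat_lit 1751498321) (nat_lit 204) (nat_lit 5) (nat_lit 207) (nat_lit 5) (nat_lit 205) (nat_lit 4) (nat_lit 390) (nat_lit 335) (nat_lit 295)) (XT.lf (nat_lit 0) (nat_lit 1458762444) (nat_lit 76) (nat_lit 8542650696) (nat_lit 152) (nat_lit 6663653157) (nat_lit 203) (nat_lit 5) (nat_lit 204) (nat_lit 5) (nat_lit 205) (nat_lit 4) (nat_lit 391) (nat_lit 335) (nat_lit 294))) (XT.nd (nat_lit 78) (nat_lit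 228) (nat_lit 0) (XT.lf (nat_lit 0) (nat_lit 13908943857) (nat_lit 76) (nat_lit 2234935843) (nat_lit 152) (nat_lit 1019883187) (nat_lit 203) (nat_lit 5) (nat_lit 204) (nat_lit 5) (nat_lit 205) (nat_lit 4) (nat_lit 392) (nat_lit 335) (nat_lit 293)) (XT.lf (nat_lit 0) (nat_lit 4899142969) (nat_lit 228) (nat_lit 8357831781) (nat_lit 76) (nat_lit 4419085042) (nat_lit 200) (nat_lit 5) (nat_lit 203) (nat_lit 5) (nat_lit 201) (nat_lit 4) (nat_lit 393) (nat_lit 335) (nat_lit 292))))) (XT.nd (nat_lit 312) (nat_lit 380) (nat_lit 0) (XT.nd (nat_lit 156) (nat_lit 304) (nat_lit 0) (XT.nd (nat_lit 78) (nat_lit 0) (nat_lit 0) (XT.lf (nat_lit 0) (nat_lit 4382070136) (nat_lit 76) (nat_lit 6791443032) (nat_lit 152) (nat_lit 7034939029) (nat_lit 199) (nat_lit 5) (nat_lit 200) (nat_lit 5) (nat_lit 201) (nat_lit 4) (nat_lit 394) (nat_lit 335) (nat_lit 291)) (XT.lf (nat_lit 0) (nat_lit 17838395213) (nat_lit 152) (nat_lit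 839551082) (nat_lit 0) (nat_lit 85678259) (nat_lit 199) (nat_lit 5) (nat_lit 201) (nat_lit 4) (nat_lit 199) (nat_lit 4) (nat_lit 395) (nat_lit 335) (nat_lit 290))) (XT.nd (nat_lit 78) (nat_lit 76) (nat_lit 0) (XT.lf (nat_lit 0) (nat_lit 5568516498) (nat_lit 228) (nat_lit 6443127468) (nat_lit 76) (nat_lit 7317912684) (nat_lit 196) (nat_lit 5) (nat_lit 199) (nat_lit 5) (nat_lit 197) (nat_lit 4) (nat_lit 396) (nat_lit 335) (nat_lit 289)) (XT.lf (nat_lit 0) (nat_lit 7509547361) (nat_lit 76) (nat_lit 4914336341) (nat_lit 152) (nat_lit 7495741871) (nat_lit 195) (nat_lit 5) (nat_lit 196) (nat_lit 5) (nat_lit 197) (nat_lit 4) (nat_lit 397) (nat_lit 335) (nat_lit 288)))) (XT.nd (nat_lit 156) (nat_lit 152) (nat_lit 0) (XT.nd (nat_lit 78) (nat_lit 76) (nat_lit 0) (XT.lf (nat_lit 0) (nat_lit 1743701856) (nat_lit 152) (nat_lit 17992717024) (nat_lit 152) (nat_lit 797059082) (nat_lit 193) (nat_lit 4) (nat_lit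 195) (nat_lit 5) (nat_lit 195) (nat_lit 4) (nat_lit 398) (nat_lit 335) (nat_lit 287)) (XT.lf (nat_lit 0) (nat_lit 6267920896) (nat_lit 228) (nat_lit 4433519067) (nat_lit 76) (nat_lit 10460165906) (nat_lit 192) (nat_lit 5) (nat_lit 195) (nat_lit 5) (nat_lit 193) (nat_lit 4) (nat_lit 399) (nat_lit 335) (nat_lit 286))) (XT.nd (nat_lit 78) (nat_lit 76) (nat_lit 0) (XT.lf (nat_lit 0) (nat_lit 10860175832) (nat_lit 76) (nat_lit 2908548135) (nat_lit 152) (nat_lit 8046294855) (nat_lit 191) (nat_lit 5) (nat_lit 192) (nat_lit 5) (nat_lit 193) (nat_lit 4) (nat_lit 400) (nat_lit 335) (nat_lit 285)) (XT.lf (nat_lit 0) (nat_lit 4521098715) (nat_lit 76) (nat_lit 17292773805) (nat_lit 76) (nat_lit 678764633) (nat_lit 190) (nat_lit 4) (nat_lit 191) (nat_lit 5) (nat_lit 191) (nat_lit 4) (nat_lit 401) (nat_lit 335) (nat_lit 284)))))) (XT.nd (nat_lit 624) (nat_lit 684) (nat_lit 0) (XT.nd (nat_lit 312) (nat_lit 304)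 (nat_lit 0) (XT.nd (nat_lit 156) (nat_lit 152) (nat_lit 0) (XT.nd (nat_lit 78) (nat_lit 76) (nat_lit 0) (XT.lf (nat_lit 0) (nat_lit 7007699869) (nat_lit 152) (nat_lit 2319880972) (nat_lit 76) (nat_lit 13862224954) (nat_lit 189) (nat_lit 5) (nat_lit 191) (nat_lit 5) (nat_lit 190) (nat_lit 4) (nat_lit 402) (nat_lit 335) (nat_lit 283)) (XT.lf (nat_lit 0) (nat_lit 14456126520) (nat_lit 76) (nat_lit 768281549) (nat_lit 152) (nat_lit 8688431863) (nat_lit 188) (nat_lit 5) (nat_lit 189) (nat_lit 5) (nat_lit 190) (nat_lit 4) (nat_lit 403) (nat_lit 335) (nat_lit 282))) (XT.nd (nat_lit 78) (nat_lit 76) (nat_lit 0) (XT.lf (nat_lit 0) (nat_lit 7481911410) (nat_lit 76) (nat_lit 16598351597) (nat_lit 76) (nat_lit 580347205) (nat_lit 187) (nat_lit 4) (nat_lit 188) (nat_lit 5) (nat_lit 188) (nat_lit 4) (nat_lit 404) (nat_lit 335) (nat_lit 281)) (XT.lf (nat_lit 0) (nat_lit 7797948930) (nat_lit 152) (nat_lit 91161091)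 (nat_lit 76) (nat_lit 17544530187) (nat_lit 186) (nat_lit 5) (nat_lit 188) (nat_lit 5) (nat_lit 187) (nat_lit 4) (nat_lit 405) (nat_lit 335) (nat_lit 280)))) (XT.nd (nat_lit 156) (nat_lit 152) (nat_lit 0) (XT.nd (nat_lit 78) (nat_lit 76) (nat_lit 0) (XT.lf (nat_lit 0) (nat_lit 16831422280) (nat_lit 152) (nat_lit 7934071415) (nat_lit 0) (nat_lit 1466564023) (nat_lit 185) (nat_lit 5) (nat_lit 187) (nat_lit 4) (nat_lit 185) (nat_lit 4) (nat_lit 406) (nat_lit 335) (nat_lit 279)) (XT.lf (nat_lit 0) (nat_lit 10645776895) (nat_lit 76) (nat_lit 15914118071) (nat_lit 76) (nat_lit 498334854) (nat_lit 184) (nat_lit 4) (nat_lit 185) (nat_lit 5) (nat_lit 185) (nat_lit 4) (nat_lit 407) (nat_lit 335) (nat_lit 278))) (XT.nd (nat_lit 78) (nat_lit 0) (nat_lit 0) (XT.lf (nat_lit 0) (nat_lit 2340509710) (nat_lit 76) (nat_lit 6344755114) (nat_lit 152) (nat_lit 19227567259) (nat_lit 182) (nat_lit 5) (nat_lit 183) (nat_lit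 5) (nat_lit 184) (nat_lit 4) (nat_lit 408) (nat_lit 335) (nat_lit 277)) (XT.lf (nat_lit 0) (nat_lit 18598071447) (nat_lit 152) (nat_lit 6371154019) (nat_lit 0) (nat_lit 3826191808) (nat_lit 182) (nat_lit 5) (nat_lit 184) (nat_lit 4) (nat_lit 182) (nat_lit 4) (nat_lit 409) (nat_lit 335) (nat_lit 276))))) (XT.nd (nat_lit 312) (nat_lit 380) (nat_lit 0) (XT.nd (nat_lit 156) (nat_lit 76) (nat_lit 0) (XT.nd (nat_lit 78) (nat_lit 152) (nat_lit 0) (XT.lf (nat_lit 0) (nat_lit 14035011670) (nat_lit 76) (nat_lit 15243644450) (nat_lit 76) (nat_lit 429868720) (nat_lit 181) (nat_lit 4) (nat_lit 182) (nat_lit 5) (nat_lit 182) (nat_lit 4) (nat_lit 410) (nat_lit 335) (nat_lit 275)) (XT.lf (nat_lit 0) (nat_lit 4922842863) (nat_lit 76) (nat_lit 4724239884) (nat_lit 152) (nat_lit 21005754814) (nat_lit 179) (nat_lit 5) (nat_lit 180) (nat_lit 5) (nat_lit 181) (nat_lit 4) (nat_lit 411) (nat_lit 335) (nat_lit 274))) (XT.nd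 (nat_lit 78) (nat_lit 76) (nat_lit 0) (XT.lf (nat_lit 0) (nat_lit 20531107182) (nat_lit 152) (nat_lit 4748465861) (nat_lit 0) (nat_lit 6348556935) (nat_lit 179) (nat_lit 5) (nat_lit 181) (nat_lit 4) (nat_lit 179) (nat_lit 4) (nat_lit 412) (nat_lit 335) (nat_lit 273)) (XT.lf (nat_lit 0) (nat_lit 17674729402) (nat_lit 76) (nat_lit 14589612707) (nat_lit 76) (nat_lit 372594443) (nat_lit 178) (nat_lit 4) (nat_lit 179) (nat_lit 5) (nat_lit 179) (nat_lit 4) (nat_lit 413) (nat_lit 335) (nat_lit 272)))) (XT.nd (nat_lit 156) (nat_lit 228) (nat_lit 0) (XT.nd (nat_lit 78) (nat_lit 0) (nat_lit 0) (XT.lf (nat_lit 0) (nat_lit 7670241782) (nat_lit 76) (nat_lit 3022483451) (nat_lit 152) (nat_lit 22987300784) (nat_lit 176) (nat_lit 5) (nat_lit 177) (nat_lit 5) (nat_lit 178) (nat_lit 4) (nat_lit 414) (nat_lit 335) (nat_lit 271)) (XT.lf (nat_lit 0) (nat_lit 22650539482) (nat_lit 152) (nat_lit 3057353752) (nat_lit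 0) (nat_lit 9049483808) (nat_lit 176) (nat_lit 5) (nat_lit 178) (nat_lit 4) (nat_lit 176) (nat_lit 4) (nat_lit 415) (nat_lit 335) (nat_lit 270))) (XT.nd (nat_lit 78) (nat_lit 152) (nat_lit 0) (XT.lf (nat_lit 0) (nat_lit 21593000296) (nat_lit 76) (nat_lit 13953985427) (nat_lit 76) (nat_lit 324572830) (nat_lit 175) (nat_lit 4) (nat_lit 176) (nat_lit 5) (nat_lit 176) (nat_lit 4) (nat_lit 416) (nat_lit 335) (nat_lit 269)) (XT.lf (nat_lit 0) (nat_lit 10602256126) (nat_lit 76) (nat_lit 1231244028) (nat_lit 152) (nat_lit 25189931365) (nat_lit 173) (nat_lit 5) (nat_lit 174) (nat_lit 5) (nat_lit 175) (nat_lit 4) (nat_lit 417) (nat_lit 335) (nat_lit 268)))))))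
noncomputable def xc114 : XT := (XT.nd (nat_lit 1248) (nat_lit 1292) (nat_lit 0) (XT.nd (nat_lit 624) (nat_lit 684) (nat_lit 0) (XT.nd (nat_lit 312) (nat_lit 228) (nat_lit 0) (XT.nd (nat_lit 156) (nat_lit 228) (nat_lit 0) (XT.nd (nat_lit 78) (nat_lit 76) (nat_lit 0) (XT.lf (nat_lit 0) (nat_lit 24977888721) (nat_lit 152) (nat_lit 1287997956) (nat_lit 0) (nat_lit 11947279429) (nat_lit 173) (nat_lit 5) (nat_lit 175) (nat_lit 4) (nat_lit 173) (nat_lit 4) (nat_lit 418) (nat_lit 335) (nat_lit 267)) (XT.lf (nat_lit 0) (nat_lit 25821051136) (nat_lit 76) (nat_lit 13338144960) (nat_lit 76) (nat_lit 284206356) (nat_lit 172) (nat_lit 4) (nat_lit 173) (nat_lit 5) (nat_lit 173) (nat_lit 4) (nat_lit 419) (nat_lit 335) (nat_lit 266))) (XT.nd (nat_lit 78) (nat_lit 76) (nat_lit 0) (XT.lf (nat_lit 0) (nat_lit 13091681753) (nat_lit 152) (nat_lit 26984705790) (nat_lit 0) (nat_lit 638198900) (nat_lit 170) (nat_lit 5)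 (nat_lit 172) (nat_lit 4) (nat_lit 170) (nat_lit 4) (nat_lit 420) (nat_lit 335) (nat_lit 265)) (XT.lf (nat_lit 0) (nat_lit 589490544) (nat_lit 76) (nat_lit 26956150170) (nat_lit 76) (nat_lit 14482514581) (nat_lit 169) (nat_lit 4) (nat_lit 170) (nat_lit 5) (nat_lit 170) (nat_lit 4) (nat_lit 421) (nat_lit 335) (nat_lit 264)))) (XT.nd (nat_lit 156) (nat_lit 76) (nat_lit 0) (XT.nd (nat_lit 78) (nat_lit 152) (nat_lit 0) (XT.lf (nat_lit 0) (nat_lit 30393505770) (nat_lit 76) (nat_lit 12743007359) (nat_lit 76) (nat_lit 250178688) (nat_lit 169) (nat_lit 4) (nat_lit 170) (nat_lit 5) (nat_lit 170) (nat_lit 4) (nat_lit 422) (nat_lit 335) (nat_lit 263)) (XT.lf (nat_lit 0) (nat_lit 14490737043) (nat_lit 152) (nat_lit 27722188507) (nat_lit 0) (nat_lit 2575396284) (nat_lit 167) (nat_lit 5) (nat_lit 169) (nat_lit 4) (nat_lit 167) (nat_lit 4) (nat_lit 423) (nat_lit 335) (nat_lit 262))) (XT.nd (nat_lit 78) (nat_lit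 0) (nat_lit 0) (XT.lf (nat_lit 0) (nat_lit 2614468014) (nat_lit 76) (nat_lit 27777839943) (nat_lit 76) (nat_lit 15845919478) (nat_lit 166) (nat_lit 4) (nat_lit 167) (nat_lit 5) (nat_lit 167) (nat_lit 4) (nat_lit 424) (nat_lit 335) (nat_lit 261)) (XT.lf (nat_lit 0) (nat_lit 35348666569) (nat_lit 76) (nat_lit 12169115587) (nat_lit 76) (nat_lit 221404925) (nat_lit 166) (nat_lit 4) (nat_lit 167) (nat_lit 5) (nat_lit 167) (nat_lit 4) (nat_lit 425) (nat_lit 335) (nat_lit 260))))) (XT.nd (nat_lit 312) (nat_lit 304) (nat_lit 0) (XT.nd (nat_lit 156) (nat_lit 152) (nat_lit 0) (XT.nd (nat_lit 78) (nat_lit 76) (nat_lit 0) (XT.lf (nat_lit 0) (nat_lit 16025439092) (nat_lit 152) (nat_lit 28626821439) (nat_lit 0) (nat_lit 4632344860) (nat_lit 164) (nat_lit 5) (nat_lit 166) (nat_lit 4) (nat_lit 164) (nat_lit 4) (nat_lit 426) (nat_lit 335) (nat_lit 259)) (XT.lf (nat_lit 0) (nat_lit 4758408852) (nat_lit 76) (nat_lit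 28766525595) (nat_lit 76) (nat_lit 17359791199) (nat_lit 163) (nat_lit 4) (nat_lit 164) (nat_lit 5) (nat_lit 164) (nat_lit 4) (nat_lit 427) (nat_lit 335) (nat_lit 258))) (XT.nd (nat_lit 78) (nat_lit 152) (nat_lit 0) (XT.lf (nat_lit 0) (nat_lit 40728838091) (nat_lit 76) (nat_lit 11616715696) (nat_lit 76) (nat_lit 196990666) (nat_lit 163) (nat_lit 4) (nat_lit 164) (nat_lit 5) (nat_lit 164) (nat_lit 4) (nat_lit 428) (nat_lit 335) (nat_lit 257)) (XT.lf (nat_lit 0) (nat_lit 17710953668) (nat_lit 152) (nat_lit 29712270188) (nat_lit 0) (nat_lit 6823242180) (nat_lit 161) (nat_lit 5) (nat_lit 163) (nat_lit 4) (nat_lit 161) (nat_lit 4) (nat_lit 429) (nat_lit 335) (nat_lit 256)))) (XT.nd (nat_lit 156) (nat_lit 228) (nat_lit 0) (XT.nd (nat_lit 78) (nat_lit 0) (nat_lit 0) (XT.lf (nat_lit 0) (nat_lit 7036847472) (nat_lit 76) (nat_lit 29937097279) (nat_lit 76) (nat_lit 19038163993) (nat_lit 160) (nat_lit 4) (nat_lit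 161) (nat_lit 5) (nat_lit 161) (nat_lit 4) (nat_lit 430) (nat_lit 335) (nat_lit 255)) (XT.lf (nat_lit 0) (nat_lit 46580694827) (nat_lit 76) (nat_lit 11085819025) (nat_lit 76) (nat_lit 176198314) (nat_lit 160) (nat_lit 4) (nat_lit 161) (nat_lit 5) (nat_lit 161) (nat_lit 4) (nat_lit 431) (nat_lit 335) (nat_lit 254))) (XT.nd (nat_lit 78) (nat_lit 76) (nat_lit 0) (XT.lf (nat_lit 0) (nat_lit 19563782676) (nat_lit 152) (nat_lit 30993607934) (nat_lit 0) (nat_lit 9163973902) (nat_lit 158) (nat_lit 5) (nat_lit 160) (nat_lit 4) (nat_lit 158) (nat_lit 4) (nat_lit 432) (nat_lit 335) (nat_lit 253)) (XT.lf (nat_lit 0) (nat_lit 9466907198) (nat_lit 76) (nat_lit 31305773431) (nat_lit 76) (nat_lit 20896732456) (nat_lit 157) (nat_lit 4) (nat_lit 158) (nat_lit 5) (nat_lit 158) (nat_lit 4) (nat_lit 433) (nat_lit 335) (nat_lit 252)))))) (XT.nd (nat_lit 624) (nat_lit 684) (nat_lit 0) (XT.nd (nat_lit 312) (nat_lit 380)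 (nat_lit 0) (XT.nd (nat_lit 156) (nat_lit 76) (nat_lit 0) (XT.nd (nat_lit 78) (nat_lit 152) (nat_lit 0) (XT.lf (nat_lit 0) (nat_lit 52955695558) (nat_lit 76) (nat_lit 10576252912) (nat_lit 76) (nat_lit 158419365) (nat_lit 157) (nat_lit 4) (nat_lit 158) (nat_lit 5) (nat_lit 158) (nat_lit 4) (nat_lit 434) (nat_lit 335) (nat_lit 251)) (XT.lf (nat_lit 0) (nat_lit 21601939571) (nat_lit 152) (nat_lit 32487487436) (nat_lit 0) (nat_lit 11672218214) (nat_lit 155) (nat_lit 5) (nat_lit 157) (nat_lit 4) (nat_lit 155) (nat_lit 4) (nat_lit 435) (nat_lit 335) (nat_lit 250))) (XT.nd (nat_lit 78) (nat_lit 0) (nat_lit 0) (XT.lf (nat_lit 0) (nat_lit 12067435671) (nat_lit 76) (nat_lit 32890300247) (nat_lit 76) (nat_lit 22952983536) (nat_lit 154) (nat_lit 4) (nat_lit 155) (nat_lit 5) (nat_lit 155) (nat_lit 4) (nat_lit 436) (nat_lit 335) (nat_lit 249)) (XT.lf (nat_lit 0) (nat_lit 59910547448) (nat_lit 76) (nat_lit 10087701983)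 (nat_lit 76) (nat_lit 143151601) (nat_lit 154) (nat_lit 4) (nat_lit 155) (nat_lit 5) (nat_lit 155) (nat_lit 4) (nat_lit 437) (nat_lit 335) (nat_lit 248)))) (XT.nd (nat_lit 156) (nat_lit 152) (nat_lit 0) (XT.nd (nat_lit 78) (nat_lit 76) (nat_lit 0) (XT.lf (nat_lit 0) (nat_lit 23845135940) (nat_lit 152) (nat_lit 34212324382) (nat_lit 0) (nat_lit 14367574423) (nat_lit 152) (nat_lit 5) (nat_lit 154) (nat_lit 4) (nat_lit 152) (nat_lit 4) (nat_lit 438) (nat_lit 335) (nat_lit 247)) (XT.lf (nat_lit 0) (nat_lit 14859160356) (nat_lit 76) (nat_lit 34710159033) (nat_lit 76) (nat_lit 25226348799) (nat_lit 151) (nat_lit 4) (nat_lit 152) (nat_lit 5) (nat_lit 152) (nat_lit 4) (nat_lit 439) (nat_lit 335) (nat_lit 246))) (XT.nd (nat_lit 78) (nat_lit 152) (nat_lit 0) (XT.lf (nat_lit 0) (nat_lit 67507723614) (nat_lit 76) (nat_lit 9619741708) (nat_lit 76) (nat_lit 129980316) (nat_lit 151) (nat_lit 4) (nat_lit 152)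 (nat_lit 5) (nat_lit 152) (nat_lit 4) (nat_lit 440) (nat_lit 335) (nat_lit 245)) (XT.lf (nat_lit 0) (nat_lit 26314981611) (nat_lit 152) (nat_lit 36188494413) (nat_lit 0) (nat_lit 17271715741) (nat_lit 149) (nat_lit 5) (nat_lit 151) (nat_lit 4) (nat_lit 149) (nat_lit 4) (nat_lit 441) (nat_lit 335) (nat_lit 244))))) (XT.nd (nat_lit 312) (nat_lit 380) (nat_lit 0) (XT.nd (nat_lit 156) (nat_lit 228) (nat_lit 0) (XT.nd (nat_lit 78) (nat_lit 0) (nat_lit 0) (XT.lf (nat_lit 0) (nat_lit 17864865014) (nat_lit 76) (nat_lit 36786784521) (nat_lit 76) (nat_lit 27738377817) (nat_lit 148) (nat_lit 4) (nat_lit 149) (nat_lit 5) (nat_lit 149) (nat_lit 4) (nat_lit 442) (nat_lit 335) (nat_lit 243)) (XT.lf (nat_lit 0) (nat_lit 75816038557) (nat_lit 76) (nat_lit 9171865617) (nat_lit 76) (nat_lit 118562880) (nat_lit 148) (nat_lit 4) (nat_lit 149) (nat_lit 5) (nat_lit 149) (nat_lit 4) (nat_lit 443) (nat_lit 335) (nat_lit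 242))) (XT.nd (nat_lit 78) (nat_lit 76) (nat_lit 0) (XT.lf (nat_lit 0) (nat_lit 29035200668) (nat_lit 152) (nat_lit 38438546195) (nat_lit 0) (nat_lit 20408566739) (nat_lit 146) (nat_lit 5) (nat_lit 148) (nat_lit 4) (nat_lit 146) (nat_lit 4) (nat_lit 444) (nat_lit 335) (nat_lit 241)) (XT.lf (nat_lit 0) (nat_lit 21109588351) (nat_lit 76) (nat_lit 39143797185) (nat_lit 76) (nat_lit 30512933877) (nat_lit 145) (nat_lit 4) (nat_lit 146) (nat_lit 5) (nat_lit 146) (nat_lit 4) (nat_lit 445) (nat_lit 335) (nat_lit 240)))) (XT.nd (nat_lit 156) (nat_lit 228) (nat_lit 0) (XT.nd (nat_lit 78) (nat_lit 152) (nat_lit 0) (XT.lf (nat_lit 0) (nat_lit 84911286474) (nat_lit 76) (nat_lit 8743507310) (nat_lit 76) (nat_lit 108616024) (nat_lit 145) (nat_lit 4) (nat_lit 146) (nat_lit 5) (nat_lit 146) (nat_lit 4) (nat_lit 446) (nat_lit 335) (nat_lit 239)) (XT.lf (nat_lit 0) (nat_lit 32031865816) (nat_lit 152) (nat_lit 40987432983)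 (nat_lit 0) (nat_lit 23804506334) (nat_lit 143) (nat_lit 5) (nat_lit 145) (nat_lit 4) (nat_lit 143) (nat_lit 4) (nat_lit 447) (nat_lit 335) (nat_lit 238))) (XT.nd (nat_lit 78) (nat_lit 152) (nat_lit 0) (XT.lf (nat_lit 0) (nat_lit 24620846331) (nat_lit 76) (nat_lit 41807252500) (nat_lit 76) (nat_lit 33576413499) (nat_lit 142) (nat_lit 4) (nat_lit 143) (nat_lit 5) (nat_lit 143) (nat_lit 4) (nat_lit 448) (nat_lit 335) (nat_lit 237)) (XT.nd (nat_lit 78) (nat_lit 152) (nat_lit 0) (XT.lf (nat_lit 0) (nat_lit 94876948143) (nat_lit 76) (nat_lit 8334058215) (nat_lit 76) (nat_lit 99905386) (nat_lit 142) (nat_lit 4) (nat_lit 143) (nat_lit 5) (nat_lit 143) (nat_lit 4) (nat_lit 449) (nat_lit 335) (nat_lit 236)) (XT.lf (nat_lit 0) (nat_lit 35333653639) (nat_lit 152) (nat_lit 43862765228) (nat_lit 0) (nat_lit 27488597586) (nat_lit 140) (nat_lit 5) (nat_lit 142) (nat_lit 4) (nat_lit 140) (nat_lit 4) (nat_lit 450)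 (nat_lit 335) (nat_lit 235))))))))
noncomputable def xc115 : XT := (XT.nd (nat_lit 2496) (nat_lit 912) (nat_lit 0) (XT.nd (nat_lit 1248) (nat_lit 1140) (nat_lit 0) (XT.nd (nat_lit 624) (nat_lit 684) (nat_lit 0) (XT.nd (nat_lit 312) (nat_lit 228) (nat_lit 0) (XT.nd (nat_lit 156) (nat_lit 228) (nat_lit 0) (XT.nd (nat_lit 78) (nat_lit 0) (nat_lit 0) (XT.lf (nat_lit 0) (nat_lit 28428879940) (nat_lit 76) (nat_lit 44805910190) (nat_lit 76) (nat_lit 36957991528) (nat_lit 139) (nat_lit 4) (nat_lit 140) (nat_lit 5) (nat_lit 140) (nat_lit 4) (nat_lit 451) (nat_lit 335) (nat_lit 234)) (XT.lf (nat_lit 0) (nat_lit 105804972811) (nat_lit 76) (nat_lit 7942881854) (nat_lit 76) (nat_lit 92236898) (nat_lit 139) (nat_lit 4) (nat_lit 140) (nat_lit 5) (nat_lit 140) (nat_lit 4) (nat_lit 452) (nat_lit 335) (nat_lit 233))) (XT.nd (nat_lit 78) (nat_lit 76) (nat_lit 0) (XT.lf (nat_lit 0) (nat_lit 38972123473) (nat_lit 152)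 (nat_lit 47095086891) (nat_lit 0) (nat_lit 31492845923) (nat_lit 137) (nat_lit 5) (nat_lit 139) (nat_lit 4) (nat_lit 137) (nat_lit 4) (nat_lit 453) (nat_lit 335) (nat_lit 232)) (XT.lf (nat_lit 0) (nat_lit 32566930479) (nat_lit 76) (nat_lit 48171526522) (nat_lit 76) (nat_lit 40689893897) (nat_lit 136) (nat_lit 4) (nat_lit 137) (nat_lit 5) (nat_lit 137) (nat_lit 4) (nat_lit 454) (nat_lit 335) (nat_lit 231)))) (XT.nd (nat_lit 156) (nat_lit 76) (nat_lit 0) (XT.nd (nat_lit 78) (nat_lit 152) (nat_lit 0) (XT.lf (nat_lit 0) (nat_lit 117796642261) (nat_lit 76) (nat_lit 7569325259) (nat_lit 76) (nat_lit 85449704) (nat_lit 136) (nat_lit 4) (nat_lit 137) (nat_lit 5) (nat_lit 137) (nat_lit 4) (nat_lit 455) (nat_lit 335) (nat_lit 230)) (XT.lf (nat_lit 0) (nat_lit 42982022734) (nat_lit 152) (nat_lit 50718178370) (nat_lit 0) (nat_lit 35852487802) (nat_lit 134) (nat_lit 5) (nat_lit 136) (nat_lit 4) (nat_lit 134)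 (nat_lit 4) (nat_lit 456) (nat_lit 335) (nat_lit 229))) (XT.nd (nat_lit 78) (nat_lit 0) (nat_lit 0) (XT.lf (nat_lit 0) (nat_lit 37071544791) (nat_lit 76) (nat_lit 51939172885) (nat_lit 76) (nat_lit 44807700427) (nat_lit 133) (nat_lit 4) (nat_lit 134) (nat_lit 5) (nat_lit 134) (nat_lit 4) (nat_lit 457) (nat_lit 335) (nat_lit 228)) (XT.lf (nat_lit 0) (nat_lit 130963525088) (nat_lit 76) (nat_lit 7212728053) (nat_lit 76) (nat_lit 79410331) (nat_lit 133) (nat_lit 4) (nat_lit 134) (nat_lit 5) (nat_lit 134) (nat_lit 4) (nat_lit 458) (nat_lit 335) (nat_lit 227))))) (XT.nd (nat_lit 312) (nat_lit 304) (nat_lit 0) (XT.nd (nat_lit 156) (nat_lit 152) (nat_lit 0) (XT.nd (nat_lit 78) (nat_lit 76) (nat_lit 0) (XT.lf (nat_lit 0) (nat_lit 47401621813) (nat_lit 152) (nat_lit 54769389086) (nat_lit 0) (nat_lit 40606312180) (nat_lit 131) (nat_lit 5) (nat_lit 133) (nat_lit 4) (nat_lit 131) (nat_lit 4) (nat_lit 459) (nat_lit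 335) (nat_lit 226)) (XT.lf (nat_lit 0) (nat_lit 41982913125) (nat_lit 76) (nat_lit 56147584038) (nat_lit 76) (nat_lit 49350680397) (nat_lit 130) (nat_lit 4) (nat_lit 131) (nat_lit 5) (nat_lit 131) (nat_lit 4) (nat_lit 460) (nat_lit 335) (nat_lit 225))) (XT.nd (nat_lit 78) (nat_lit 152) (nat_lit 0) (XT.lf (nat_lit 0) (nat_lit 145428530083) (nat_lit 76) (nat_lit 6872429628) (nat_lit 76) (nat_lit 74007884) (nat_lit 130) (nat_lit 4) (nat_lit 131) (nat_lit 5) (nat_lit 131) (nat_lit 4) (nat_lit 461) (nat_lit 335) (nat_lit 224)) (XT.lf (nat_lit 0) (nat_lit 52273081869) (nat_lit 152) (nat_lit 59290003080) (nat_lit 0) (nat_lit 45797017529) (nat_lit 128) (nat_lit 5) (nat_lit 130) (nat_lit 4) (nat_lit 128) (nat_lit 4) (nat_lit 462) (nat_lit 335) (nat_lit 223)))) (XT.nd (nat_lit 156) (nat_lit 228) (nat_lit 0) (XT.nd (nat_lit 78) (nat_lit 0) (nat_lit 0) (XT.lf (nat_lit 0) (nat_lit 47345242706) (nat_lit 76)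 (nat_lit 60839539651) (nat_lit 76) (nat_lit 54362163917) (nat_lit 127) (nat_lit 4) (nat_lit 128) (nat_lit 5) (nat_lit 128) (nat_lit 4) (nat_lit 463) (nat_lit 335) (nat_lit 222)) (XT.lf (nat_lit 0) (nat_lit 161327068611) (nat_lit 76) (nat_lit 6547774776) (nat_lit 76) (nat_lit 69150095) (nat_lit 127) (nat_lit 4) (nat_lit 128) (nat_lit 5) (nat_lit 128) (nat_lit 4) (nat_lit 464) (nat_lit 335) (nat_lit 221))) (XT.nd (nat_lit 78) (nat_lit 76) (nat_lit 0) (XT.lf (nat_lit 0) (nat_lit 57642859131) (nat_lit 152) (nat_lit 64325641237) (nat_lit 0) (nat_lit 51471607556) (nat_lit 125) (nat_lit 5) (nat_lit 127) (nat_lit 4) (nat_lit 125) (nat_lit 4) (nat_lit 465) (nat_lit 335) (nat_lit 220)) (XT.lf (nat_lit 0) (nat_lit 53207170436) (nat_lit 76) (nat_lit 66062283004) (nat_lit 76) (nat_lit 59889952542) (nat_lit 124) (nat_lit 4) (nat_lit 125) (nat_lit 5) (nat_lit 125) (nat_lit 4) (nat_lit 466) (nat_lit 335) (nat_lit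 219)))))) (XT.nd (nat_lit 624) (nat_lit 532) (nat_lit 0) (XT.nd (nat_lit 312) (nat_lit 380) (nat_lit 0) (XT.nd (nat_lit 156) (nat_lit 76) (nat_lit 0) (XT.nd (nat_lit 78) (nat_lit 152) (nat_lit 0) (XT.lf (nat_lit 0) (nat_lit 178808336944) (nat_lit 76) (nat_lit 6238118049) (nat_lit 76) (nat_lit 64760075) (nat_lit 124) (nat_lit 4) (nat_lit 125) (nat_lit 5) (nat_lit 125) (nat_lit 4) (nat_lit 467) (nat_lit 335) (nat_lit 218)) (XT.lf (nat_lit 0) (nat_lit 63562149692) (nat_lit 152) (nat_lit 69926704079) (nat_lit 0) (nat_lit 57681829162) (nat_lit 122) (nat_lit 5) (nat_lit 124) (nat_lit 4) (nat_lit 122) (nat_lit 4) (nat_lit 468) (nat_lit 335) (nat_lit 217))) (XT.nd (nat_lit 78) (nat_lit 0) (nat_lit 0) (XT.lf (nat_lit 0) (nat_lit 59622218550) (nat_lit 76) (nat_lit 71867981070) (nat_lit 76) (nat_lit 65986772937) (nat_lit 121) (nat_lit 4) (nat_lit 122) (nat_lit 5) (nat_lit 122) (nat_lit 4) (nat_lit 469) (nat_lit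 335) (nat_lit 216)) (XT.lf (nat_lit 0) (nat_lit 198036730653) (nat_lit 76) (nat_lit 5942827096) (nat_lit 76) (nat_lit 60773627) (nat_lit 121) (nat_lit 4) (nat_lit 122) (nat_lit 5) (nat_lit 122) (nat_lit 4) (nat_lit 470) (nat_lit 335) (nat_lit 215)))) (XT.nd (nat_lit 156) (nat_lit 152) (nat_lit 0) (XT.nd (nat_lit 78) (nat_lit 76) (nat_lit 0) (XT.lf (nat_lit 0) (nat_lit 70087379076) (nat_lit 152) (nat_lit 76148859444) (nat_lit 0) (nat_lit 64484656646) (nat_lit 119) (nat_lit 5) (nat_lit 121) (nat_lit 4) (nat_lit 119) (nat_lit 4) (nat_lit 471) (nat_lit 335) (nat_lit 214)) (XT.lf (nat_lit 0) (nat_lit 66649297461) (nat_lit 76) (nat_lit 78314230494) (nat_lit 76) (nat_lit 72710777830) (nat_lit 118) (nat_lit 4) (nat_lit 119) (nat_lit 5) (nat_lit 119) (nat_lit 4) (nat_lit 472) (nat_lit 335) (nat_lit 213))) (XT.nd (nat_lit 78) (nat_lit 152) (nat_lit 0) (XT.lf (nat_lit 0) (nat_lit 219193404455) (nat_lit 76)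 (nat_lit 5661285168) (nat_lit 76) (nat_lit 57137044) (nat_lit 118) (nat_lit 4) (nat_lit 119) (nat_lit 5) (nat_lit 119) (nat_lit 4) (nat_lit 473) (nat_lit 335) (nat_lit 212)) (XT.lf (nat_lit 0) (nat_lit 77280741346) (nat_lit 152) (nat_lit 83053579792) (nat_lit 0) (nat_lit 71942826615) (nat_lit 116) (nat_lit 5) (nat_lit 118) (nat_lit 4) (nat_lit 116) (nat_lit 4) (nat_lit 474) (nat_lit 335) (nat_lit 211))))) (XT.nd (nat_lit 312) (nat_lit 228) (nat_lit 0) (XT.nd (nat_lit 156) (nat_lit 228) (nat_lit 0) (XT.nd (nat_lit 78) (nat_lit 0) (nat_lit 0) (XT.lf (nat_lit 0) (nat_lit 74353260532) (nat_lit 76) (nat_lit 85464614474) (nat_lit 76) (nat_lit 80126098979) (nat_lit 115) (nat_lit 4) (nat_lit 116) (nat_lit 5) (nat_lit 116) (nat_lit 4) (nat_lit 475) (nat_lit 335) (nat_lit 210)) (XT.lf (nat_lit 0) (nat_lit 242477992294) (nat_lit 76) (nat_lit 5392892946) (nat_lit 76) (nat_lit 53805293) (nat_lit 115) (nat_lit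 4) (nat_lit 116) (nat_lit 5) (nat_lit 116) (nat_lit 4) (nat_lit 476) (nat_lit 335) (nat_lit 209))) (XT.nd (nat_lit 78) (nat_lit 76) (nat_lit 0) (XT.lf (nat_lit 0) (nat_lit 85210792920) (nat_lit 152) (nat_lit 90708734297) (nat_lit 0) (nat_lit 80125428573) (nat_lit 113) (nat_lit 5) (nat_lit 115) (nat_lit 4) (nat_lit 113) (nat_lit 4) (nat_lit 477) (nat_lit 335) (nat_lit 208)) (XT.lf (nat_lit 0) (nat_lit 82805515967) (nat_lit 76) (nat_lit 93389315942) (nat_lit 76) (nat_lit 88303457345) (nat_lit 112) (nat_lit 4) (nat_lit 113) (nat_lit 5) (nat_lit 113) (nat_lit 4) (nat_lit 478) (nat_lit 335) (nat_lit 207)))) (XT.nd (nat_lit 156) (nat_lit 76) (nat_lit 0) (XT.nd (nat_lit 78) (nat_lit 152) (nat_lit 0) (XT.lf (nat_lit 0) (nat_lit 268110503998) (nat_lit 76) (nat_lit 5137069828) (nat_lit 76) (nat_lit 50740515) (nat_lit 112) (nat_lit 4) (nat_lit 113) (nat_lit 5) (nat_lit 113) (nat_lit 4) (nat_lit 479) (nat_lit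 335) (nat_lit 206)) (XT.lf (nat_lit 0) (nat_lit 93953106810) (nat_lit 152) (nat_lit 99189241456) (nat_lit 0) (nat_lit 89108556704) (nat_lit 110) (nat_lit 5) (nat_lit 112) (nat_lit 4) (nat_lit 110) (nat_lit 4) (nat_lit 480) (nat_lit 335) (nat_lit 205))) (XT.nd (nat_lit 78) (nat_lit 0) (nat_lit 0) (XT.lf (nat_lit 0) (nat_lit 92084701618) (nat_lit 76) (nat_lit 102165792991) (nat_lit 76) (nat_lit 97320836263) (nat_lit 109) (nat_lit 4) (nat_lit 110) (nat_lit 5) (nat_lit 110) (nat_lit 4) (nat_lit 481) (nat_lit 335) (nat_lit 204)) (XT.lf (nat_lit 0) (nat_lit 296333416523) (nat_lit 76) (nat_lit 4893254779) (nat_lit 76) (nat_lit 47910793) (nat_lit 109) (nat_lit 4) (nat_lit 110) (nat_lit 5) (nat_lit 110) (nat_lit 4) (nat_lit 482) (nat_lit 335) (nat_lit 203))))))) (XT.nd (nat_lit 42900) (nat_lit 0) (nat_lit 11704) (XT.nd (nat_lit 624) (nat_lit 228) (nat_lit 0) (XT.nd (nat_lit 312) (nat_lit 304) (nat_lit 0)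 (XT.nd (nat_lit 156) (nat_lit 152) (nat_lit 0) (XT.nd (nat_lit 78) (nat_lit 76) (nat_lit 0) (XT.lf (nat_lit 0) (nat_lit 103590993561) (nat_lit 152) (nat_lit 108577788461) (nat_lit 0) (nat_lit 98976028986) (nat_lit 107) (nat_lit 5) (nat_lit 109) (nat_lit 4) (nat_lit 107) (nat_lit 4) (nat_lit 483) (nat_lit 335) (nat_lit 202)) (XT.lf (nat_lit 0) (nat_lit 102277429078) (nat_lit 76) (nat_lit 111879523082) (nat_lit 76) (nat_lit 107264223978) (nat_lit 106) (nat_lit 4) (nat_lit 107) (nat_lit 5) (nat_lit 107) (nat_lit 4) (nat_lit 484) (nat_lit 335) (nat_lit 201))) (XT.nd (nat_lit 78) (nat_lit 152) (nat_lit 0) (XT.lf (nat_lit 0) (nat_lit 327413979667) (nat_lit 76) (nat_lit 4660906835) (nat_lit 76) (nat_lit 45289133) (nat_lit 106) (nat_lit 4) (nat_lit 107) (nat_lit 5) (nat_lit 107) (nat_lit 4) (nat_lit 485) (nat_lit 335) (nat_lit 200)) (XT.lf (nat_lit 0) (nat_lit 114216295773) (nat_lit 152) (nat_lit 118965624249)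 (nat_lit 0) (nat_lit 109820180412) (nat_lit 104) (nat_lit 5) (nat_lit 106) (nat_lit 4) (nat_lit 104) (nat_lit 4) (nat_lit 486) (nat_lit 335) (nat_lit 199)))) (XT.nd (nat_lit 156) (nat_lit 228) (nat_lit 0) (XT.nd (nat_lit 78) (nat_lit 0) (nat_lit 0) (XT.lf (nat_lit 0) (nat_lit 113479104117) (nat_lit 76) (nat_lit 122624823171) (nat_lit 76) (nat_lit 118228432593) (nat_lit 103) (nat_lit 4) (nat_lit 104) (nat_lit 5) (nat_lit 104) (nat_lit 4) (nat_lit 487) (nat_lit 335) (nat_lit 198)) (XT.lf (nat_lit 0) (nat_lit 361646758197) (nat_lit 76) (nat_lit 4439505319) (nat_lit 76) (nat_lit 42852629) (nat_lit 103) (nat_lit 4) (nat_lit 104) (nat_lit 5) (nat_lit 104) (nat_lit 4) (nat_lit 488) (nat_lit 335) (nat_lit 197))) (XT.nd (nat_lit 78) (nat_lit 76) (nat_lit 0) (XT.lf (nat_lit 0) (nat_lit 125930263823) (nat_lit 152) (nat_lit 130453433801) (nat_lit 0) (nat_lit 121742737804) (nat_lit 101) (nat_lit 5) (nat_lit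 103) (nat_lit 4) (nat_lit 101) (nat_lit 4) (nat_lit 489) (nat_lit 335) (nat_lit 196)) (XT.lf (nat_lit 0) (nat_lit 125794831236) (nat_lit 76) (nat_lit 134505753654) (nat_lit 76) (nat_lit 130318001213) (nat_lit 100) (nat_lit 4) (nat_lit 101) (nat_lit 5) (nat_lit 101) (nat_lit 4) (nat_lit 490) (nat_lit 335) (nat_lit 195))))) (XT.nd (nat_lit 41964) (nat_lit 0) (nat_lit 17480) (XT.nd (nat_lit 156) (nat_lit 76) (nat_lit 0) (XT.nd (nat_lit 78) (nat_lit 152) (nat_lit 0) (XT.lf (nat_lit 0) (nat_lit 399356434568) (nat_lit 76) (nat_lit 4228549852) (nat_lit 76) (nat_lit 40581771) (nat_lit 100) (nat_lit 4) (nat_lit 101) (nat_lit 5) (nat_lit 101) (nat_lit 4) (nat_lit 491) (nat_lit 335) (nat_lit 194)) (XT.lf (nat_lit 0) (nat_lit 138844521142) (nat_lit 152) (nat_lit 143152302073) (nat_lit 0) (nat_lit 134855784520) (nat_lit 98) (nat_lit 5) (nat_lit 100) (nat_lit 4) (nat_lit 98) (nat_lit 4) (nat_lit 492) (nat_lit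 335) (nat_lit 193))) (XT.nd (nat_lit 78) (nat_lit 0) (nat_lit 0) (XT.lf (nat_lit 0) (nat_lit 139340410938) (nat_lit 76) (nat_lit 147637114768) (nat_lit 76) (nat_lit 143648191869) (nat_lit 97) (nat_lit 4) (nat_lit 98) (nat_lit 5) (nat_lit 98) (nat_lit 4) (nat_lit 493) (nat_lit 335) (nat_lit 192)) (XT.lf (nat_lit 0) (nat_lit 440900898924) (nat_lit 76) (nat_lit 4027560180) (nat_lit 76) (nat_lit 38459873) (nat_lit 97) (nat_lit 4) (nat_lit 98) (nat_lit 5) (nat_lit 98) (nat_lit 4) (nat_lit 494) (nat_lit 335) (nat_lit 191)))) (XT.nd (nat_lit 156) (nat_lit 532) (nat_lit 0) (XT.nd (nat_lit 78) (nat_lit 380) (nat_lit 0) (XT.lf (nat_lit 0) (nat_lit 957143204) (nat_lit 380) (nat_lit 1398095558) (nat_lit 0) (nat_lit 957143204) (nat_lit 339) (nat_lit 5) (nat_lit 344) (nat_lit 4) (nat_lit 339) (nat_lit 4) (nat_lit 348) (nat_lit 336) (nat_lit 336)) (XT.lf (nat_lit 0) (nat_lit 1496881669) (nat_lit 380) (nat_lit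 3733587715) (nat_lit 380) (nat_lit 1444322912) (nat_lit 334) (nat_lit 4) (nat_lit 339) (nat_lit 5) (nat_lit 339) (nat_lit 4) (nat_lit 349) (nat_lit 336) (nat_lit 335))) (XT.nd (nat_lit 78) (nat_lit 456) (nat_lit 0) (XT.lf (nat_lit 0) (nat_lit 1788208663) (nat_lit 456) (nat_lit 803689236) (nat_lit 76) (nat_lit 4140544192) (nat_lit 333) (nat_lit 5) (nat_lit 339) (nat_lit 5) (nat_lit 334) (nat_lit 4) (nat_lit 350) (nat_lit 336) (nat_lit 334)) (XT.lf (nat_lit 0) (nat_lit 3743819457) (nat_lit 456) (nat_lit 1275579134) (nat_lit 532) (nat_lit 1778113390) (nat_lit 327) (nat_lit 5) (nat_lit 333) (nat_lit 5) (nat_lit 334) (nat_lit 4) (nat_lit 351) (nat_lit 336) (nat_lit 333)))))) (XT.nd (nat_lit 624) (nat_lit 2052) (nat_lit 0) (XT.nd (nat_lit 312) (nat_lit 1748) (nat_lit 0) (XT.nd (nat_lit 156) (nat_lit 1368) (nat_lit 0) (XT.nd (nat_lit 78) (nat_lit 0) (nat_lit 0) (XT.lf (nat_lit 0) (nat_lit 1368558170)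 (nat_lit 608) (nat_lit 5312075433) (nat_lit 76) (nat_lit 190407790) (nat_lit 319) (nat_lit 5) (nat_lit 327) (nat_lit 5) (nat_lit 320) (nat_lit 4) (nat_lit 352) (nat_lit 336) (nat_lit 332)) (XT.lf (nat_lit 0) (nat_lit 4522902356) (nat_lit 608) (nat_lit 639368727) (nat_lit 76) (nat_lit 1789013956) (nat_lit 319) (nat_lit 5) (nat_lit 327) (nat_lit 5) (nat_lit 320) (nat_lit 4) (nat_lit 353) (nat_lit 336) (nat_lit 331))) (XT.nd (nat_lit 78) (nat_lit 684) (nat_lit 0) (XT.lf (nat_lit 0) (nat_lit 683277842) (nat_lit 684) (nat_lit 2791594567) (nat_lit 76) (nat_lit 3564572322) (nat_lit 310) (nat_lit 5) (nat_lit 319) (nat_lit 5) (nat_lit 311) (nat_lit 5) (nat_lit 354) (nat_lit 336) (nat_lit 330)) (XT.lf (nat_lit 0) (nat_lit 2152447745) (nat_lit 684) (nat_lit 1608209718) (nat_lit 760) (nat_lit 3374777185) (nat_lit 301) (nat_lit 5) (nat_lit 310) (nat_lit 5) (nat_lit 311) (nat_lit 5) (nat_lit 355) (nat_lit 336)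 (nat_lit 329)))) (XT.nd (nat_lit 156) (nat_lit 912) (nat_lit 0) (XT.nd (nat_lit 78) (nat_lit 76) (nat_lit 0) (XT.lf (nat_lit 0) (nat_lit 50398870) (nat_lit 760) (nat_lit 6848056088) (nat_lit 836) (nat_lit 342441659) (nat_lit 291) (nat_lit 5) (nat_lit 301) (nat_lit 5) (nat_lit 302) (nat_lit 4) (nat_lit 356) (nat_lit 336) (nat_lit 328)) (XT.lf (nat_lit 0) (nat_lit 2717280543) (nat_lit 836) (nat_lit 2065129882) (nat_lit 76) (nat_lit 2568667262) (nat_lit 290) (nat_lit 5) (nat_lit 301) (nat_lit 5) (nat_lit 291) (nat_lit 5) (nat_lit 357) (nat_lit 336) (nat_lit 327))) (XT.nd (nat_lit 78) (nat_lit 456) (nat_lit 0) (XT.lf (nat_lit 0) (nat_lit 3268792268) (nat_lit 456) (nat_lit 2562227280) (nat_lit 532) (nat_lit 1639840624) (nat_lit 284) (nat_lit 5) (nat_lit 290) (nat_lit 5) (nat_lit 291) (nat_lit 5) (nat_lit 358) (nat_lit 336) (nat_lit 326)) (XT.lf (nat_lit 0) (nat_lit 1212102786) (nat_lit 380) (nat_lit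 161697109) (nat_lit 456) (nat_lit 6225752070) (nat_lit 278) (nat_lit 5) (nat_lit 283) (nat_lit 5) (nat_lit 284) (nat_lit 5) (nat_lit 359) (nat_lit 336) (nat_lit 325))))) (XT.nd (nat_lit 312) (nat_lit 988) (nat_lit 0) (XT.nd (nat_lit 156) (nat_lit 684) (nat_lit 0) (XT.nd (nat_lit 78) (nat_lit 380) (nat_lit 0) (XT.lf (nat_lit 0) (nat_lit 4459800941) (nat_lit 456) (nat_lit 905976408) (nat_lit 76) (nat_lit 2368717470) (nat_lit 278) (nat_lit 5) (nat_lit 284) (nat_lit 5) (nat_lit 279) (nat_lit 5) (nat_lit 360) (nat_lit 336) (nat_lit 324)) (XT.lf (nat_lit 0) (nat_lit 4856798621) (nat_lit 380) (nat_lit 2795714630) (nat_lit 456) (nat_lit 226051004) (nat_lit 273) (nat_lit 5) (nat_lit 278) (nat_lit 5) (nat_lit 279) (nat_lit 5) (nat_lit 361) (nat_lit 336) (nat_lit 323))) (XT.nd (nat_lit 78) (nat_lit 304) (nat_lit 0) (XT.lf (nat_lit 0) (nat_lit 2805870521) (nat_lit 304) (nat_lit 9030749) (nat_lit 380) (nat_lit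 5215858642) (nat_lit 268) (nat_lit 5) (nat_lit 272) (nat_lit 5) (nat_lit 273) (nat_lit 5) (nat_lit 362) (nat_lit 336) (nat_lit 322)) (XT.lf (nat_lit 0) (nat_lit 662293851) (nat_lit 304) (nat_lit 5324878246) (nat_lit 380) (nat_lit 2203864577) (nat_lit 264) (nat_lit 5) (nat_lit 268) (nat_lit 5) (nat_lit 269) (nat_lit 5) (nat_lit 363) (nat_lit 336) (nat_lit 321)))) (XT.nd (nat_lit 156) (nat_lit 608) (nat_lit 0) (XT.nd (nat_lit 78) (nat_lit 304) (nat_lit 0) (XT.lf (nat_lit 0) (nat_lit 898621935) (nat_lit 380) (nat_lit 1498367137) (nat_lit 76) (nat_lit 5963060878) (nat_lit 263) (nat_lit 5) (nat_lit 268) (nat_lit 5) (nat_lit 264) (nat_lit 5) (nat_lit 364) (nat_lit 336) (nat_lit 320)) (XT.lf (nat_lit 0) (nat_lit 4055305031) (nat_lit 380) (nat_lit 3743211968) (nat_lit 76) (nat_lit 738533618) (nat_lit 259) (nat_lit 5) (nat_lit 264) (nat_lit 5) (nat_lit 260) (nat_lit 5) (nat_lit 365) (nat_lit 336) (nat_lit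 319))) (XT.nd (nat_lit 78) (nat_lit 304) (nat_lit 0) (XT.lf (nat_lit 0) (nat_lit 2627857908) (nat_lit 304) (nat_lit 4736959007) (nat_lit 380) (nat_lit 1358334668) (nat_lit 255) (nat_lit 5) (nat_lit 259) (nat_lit 5) (nat_lit 260) (nat_lit 5) (nat_lit 366) (nat_lit 336) (nat_lit 318)) (XT.lf (nat_lit 0) (nat_lit 363825045) (nat_lit 228) (nat_lit 1456174841) (nat_lit 304) (nat_lit 7099045661) (nat_lit 251) (nat_lit 5) (nat_lit 254) (nat_lit 5) (nat_lit 255) (nat_lit 5) (nat_lit 367) (nat_lit 336) (nat_lit 317))))))))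
noncomputable def xc116 : XT := (XT.nd (nat_lit 1248) (nat_lit 1900) (nat_lit 0) (XT.nd (nat_lit 624) (nat_lit 1140) (nat_lit 0) (XT.nd (nat_lit 312) (nat_lit 608) (nat_lit 0) (XT.nd (nat_lit 156) (nat_lit 532) (nat_lit 0) (XT.nd (nat_lit 78) (nat_lit 304) (nat_lit 0) (XT.lf (nat_lit 0) (nat_lit 5140030594) (nat_lit 304) (nat_lit 1968228976) (nat_lit 76) (nat_lit 2013939831) (nat_lit 251) (nat_lit 5) (nat_lit 255) (nat_lit 5) (nat_lit 252) (nat_lit 5) (nat_lit 368) (nat_lit 336) (nat_lit 316)) (XT.lf (nat_lit 0) (nat_lit 4938333893) (nat_lit 304) (nat_lit 3686283807) (nat_lit 380) (nat_lit 710965504) (nat_lit 247) (nat_lit 5) (nat_lit 251) (nat_lit 5) (nat_lit 252) (nat_lit 5) (nat_lit 369) (nat_lit 336) (nat_lit 315))) (XT.nd (nat_lit 78) (nat_lit 228) (nat_lit 0) (XT.lf (nat_lit 0) (nat_lit 2595596170) (nat_lit 228) (nat_lit 14039379) (nat_lit 304) (nat_lit 6949223536) (nat_lit 243) (nat_lit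 5) (nat_lit 246) (nat_lit 5) (nat_lit 247) (nat_lit 5) (nat_lit 370) (nat_lit 336) (nat_lit 314)) (XT.lf (nat_lit 0) (nat_lit 84095064) (nat_lit 228) (nat_lit 6025791409) (nat_lit 304) (nat_lit 3680953883) (nat_lit 240) (nat_lit 5) (nat_lit 243) (nat_lit 5) (nat_lit 244) (nat_lit 5) (nat_lit 371) (nat_lit 336) (nat_lit 313)))) (XT.nd (nat_lit 156) (nat_lit 304) (nat_lit 0) (XT.nd (nat_lit 78) (nat_lit 304) (nat_lit 0) (XT.lf (nat_lit 0) (nat_lit 7580791273) (nat_lit 228) (nat_lit 2225519481) (nat_lit 304) (nat_lit 227051896) (nat_lit 240) (nat_lit 5) (nat_lit 243) (nat_lit 5) (nat_lit 244) (nat_lit 5) (nat_lit 372) (nat_lit 336) (nat_lit 312)) (XT.lf (nat_lit 0) (nat_lit 3306025363) (nat_lit 304) (nat_lit 5180229667) (nat_lit 76) (nat_lit 1798337864) (nat_lit 236) (nat_lit 5) (nat_lit 240) (nat_lit 5) (nat_lit 237) (nat_lit 5) (nat_lit 373) (nat_lit 336) (nat_lit 311))) (XT.nd (nat_lit 78) (nat_lit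 76) (nat_lit 0) (XT.lf (nat_lit 0) (nat_lit 2473940703) (nat_lit 228) (nat_lit 4559199452) (nat_lit 304) (nat_lit 3513807682) (nat_lit 233) (nat_lit 5) (nat_lit 236) (nat_lit 5) (nat_lit 237) (nat_lit 5) (nat_lit 374) (nat_lit 336) (nat_lit 310)) (XT.lf (nat_lit 0) (nat_lit 117804061) (nat_lit 304) (nat_lit 273816240) (nat_lit 76) (nat_lit 10430823841) (nat_lit 232) (nat_lit 5) (nat_lit 236) (nat_lit 5) (nat_lit 233) (nat_lit 5) (nat_lit 375) (nat_lit 336) (nat_lit 309))))) (XT.nd (nat_lit 312) (nat_lit 532) (nat_lit 0) (XT.nd (nat_lit 156) (nat_lit 228) (nat_lit 0) (XT.nd (nat_lit 78) (nat_lit 228) (nat_lit 0) (XT.lf (nat_lit 0) (nat_lit 3914658082) (nat_lit 228) (nat_lit 3194616070) (nat_lit 76) (nat_lit 3994473506) (nat_lit 230) (nat_lit 5) (nat_lit 233) (nat_lit 5) (nat_lit 231) (nat_lit 5) (nat_lit 376) (nat_lit 336) (nat_lit 308)) (XT.lf (nat_lit 0) (nat_lit 5132056083) (nat_lit 228) (nat_lit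 2774636221) (nat_lit 304) (nat_lit 3492157171) (nat_lit 227) (nat_lit 5) (nat_lit 230) (nat_lit 5) (nat_lit 231) (nat_lit 5) (nat_lit 377) (nat_lit 336) (nat_lit 307))) (XT.nd (nat_lit 78) (nat_lit 0) (nat_lit 0) (XT.lf (nat_lit 0) (nat_lit 409735189) (nat_lit 228) (nat_lit 9531246338) (nat_lit 76) (nat_lit 1765791518) (nat_lit 224) (nat_lit 5) (nat_lit 227) (nat_lit 5) (nat_lit 225) (nat_lit 5) (nat_lit 378) (nat_lit 336) (nat_lit 306)) (XT.lf (nat_lit 0) (nat_lit 4458520705) (nat_lit 228) (nat_lit 1011005572) (nat_lit 76) (nat_lit 6554246196) (nat_lit 224) (nat_lit 5) (nat_lit 227) (nat_lit 5) (nat_lit 225) (nat_lit 5) (nat_lit 379) (nat_lit 336) (nat_lit 305)))) (XT.nd (nat_lit 156) (nat_lit 152) (nat_lit 0) (XT.nd (nat_lit 78) (nat_lit 228) (nat_lit 0) (XT.lf (nat_lit 0) (nat_lit 8060591850) (nat_lit 152) (nat_lit 694812592) (nat_lit 228) (nat_lit 3598934485) (nat_lit 222) (nat_lit 5) (nat_lit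 224) (nat_lit 5) (nat_lit 225) (nat_lit 5) (nat_lit 380) (nat_lit 336) (nat_lit 304)) (XT.lf (nat_lit 0) (nat_lit 630651603) (nat_lit 228) (nat_lit 7832516629) (nat_lit 76) (nat_lit 4233670921) (nat_lit 219) (nat_lit 5) (nat_lit 222) (nat_lit 5) (nat_lit 220) (nat_lit 5) (nat_lit 381) (nat_lit 336) (nat_lit 303))) (XT.nd (nat_lit 78) (nat_lit 0) (nat_lit 0) (XT.lf (nat_lit 0) (nat_lit 1416220985) (nat_lit 152) (nat_lit 3563186190) (nat_lit 228) (nat_lit 8072675371) (nat_lit 217) (nat_lit 5) (nat_lit 219) (nat_lit 5) (nat_lit 220) (nat_lit 5) (nat_lit 382) (nat_lit 336) (nat_lit 302)) (XT.lf (nat_lit 0) (nat_lit 9627182320) (nat_lit 228) (nat_lit 2180901441) (nat_lit 76) (nat_lit 1612925258) (nat_lit 217) (nat_lit 5) (nat_lit 220) (nat_lit 5) (nat_lit 218) (nat_lit 4) (nat_lit 383) (nat_lit 336) (nat_lit 301)))))) (XT.nd (nat_lit 624) (nat_lit 912) (nat_lit 0) (XT.nd (nat_lit 312) (nat_lit 456)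 (nat_lit 0) (XT.nd (nat_lit 156) (nat_lit 152) (nat_lit 0) (XT.nd (nat_lit 78) (nat_lit 152) (nat_lit 0) (XT.lf (nat_lit 0) (nat_lit 784454752) (nat_lit 228) (nat_lit 6005843309) (nat_lit 76) (nat_lit 7012145036) (nat_lit 214) (nat_lit 5) (nat_lit 217) (nat_lit 5) (nat_lit 215) (nat_lit 5) (nat_lit 384) (nat_lit 336) (nat_lit 300)) (XT.lf (nat_lit 0) (nat_lit 4086748196) (nat_lit 152) (nat_lit 1404894952) (nat_lit 228) (nat_lit 8706821522) (nat_lit 212) (nat_lit 5) (nat_lit 214) (nat_lit 5) (nat_lit 215) (nat_lit 5) (nat_lit 385) (nat_lit 336) (nat_lit 299))) (XT.nd (nat_lit 78) (nat_lit 76) (nat_lit 0) (XT.lf (nat_lit 0) (nat_lit 88561556) (nat_lit 76) (nat_lit 10443574613) (nat_lit 152) (nat_lit 4077253891) (nat_lit 211) (nat_lit 5) (nat_lit 212) (nat_lit 5) (nat_lit 213) (nat_lit 4) (nat_lit 386) (nat_lit 336) (nat_lit 298)) (XT.lf (nat_lit 0) (nat_lit 882942847) (nat_lit 152) (nat_lit 4050316459)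 (nat_lit 76) (nat_lit 10100778705) (nat_lit 210) (nat_lit 5) (nat_lit 212) (nat_lit 5) (nat_lit 211) (nat_lit 5) (nat_lit 387) (nat_lit 336) (nat_lit 297)))) (XT.nd (nat_lit 156) (nat_lit 228) (nat_lit 0) (XT.nd (nat_lit 78) (nat_lit 76) (nat_lit 0) (XT.lf (nat_lit 0) (nat_lit 6009015285) (nat_lit 228) (nat_lit 8513438856) (nat_lit 76) (nat_lit 951377791) (nat_lit 208) (nat_lit 5) (nat_lit 211) (nat_lit 5) (nat_lit 209) (nat_lit 4) (nat_lit 388) (nat_lit 336) (nat_lit 296)) (XT.lf (nat_lit 0) (nat_lit 2607288690) (nat_lit 76) (nat_lit 8906587880) (nat_lit 152) (nat_lit 4415614719) (nat_lit 207) (nat_lit 5) (nat_lit 208) (nat_lit 5) (nat_lit 209) (nat_lit 4) (nat_lit 389) (nat_lit 336) (nat_lit 295))) (XT.nd (nat_lit 78) (nat_lit 152) (nat_lit 0) (XT.lf (nat_lit 0) (nat_lit 935680368) (nat_lit 152) (nat_lit 1961798090) (nat_lit 76) (nat_lit 13505863865) (nat_lit 206) (nat_lit 5) (nat_lit 208) (nat_lit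 5) (nat_lit 207) (nat_lit 5) (nat_lit 390) (nat_lit 336) (nat_lit 294)) (XT.lf (nat_lit 0) (nat_lit 6554744177) (nat_lit 228) (nat_lit 6849959478) (nat_lit 76) (nat_lit 3485133019) (nat_lit 204) (nat_lit 5) (nat_lit 207) (nat_lit 5) (nat_lit 205) (nat_lit 4) (nat_lit 391) (nat_lit 336) (nat_lit 293))))) (XT.nd (nat_lit 312) (nat_lit 532) (nat_lit 0) (XT.nd (nat_lit 156) (nat_lit 76) (nat_lit 0) (XT.nd (nat_lit 78) (nat_lit 228) (nat_lit 0) (XT.lf (nat_lit 0) (nat_lit 5313746470) (nat_lit 76) (nat_lit 7240424551) (nat_lit 152) (nat_lit 4841514230) (nat_lit 203) (nat_lit 5) (nat_lit 204) (nat_lit 5) (nat_lit 205) (nat_lit 4) (nat_lit 392) (nat_lit 336) (nat_lit 292)) (XT.lf (nat_lit 0) (nat_lit 275628538) (nat_lit 152) (nat_lit 679060624) (nat_lit 228) (nat_lit 16968533253) (nat_lit 200) (nat_lit 5) (nat_lit 202) (nat_lit 5) (nat_lit 203) (nat_lit 5) (nat_lit 393) (nat_lit 336) (nat_lit 291))) (XT.nd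 (nat_lit 78) (nat_lit 76) (nat_lit 0) (XT.lf (nat_lit 0) (nat_lit 7118722569) (nat_lit 228) (nat_lit 5095710118) (nat_lit 76) (nat_lit 6246698973) (nat_lit 200) (nat_lit 5) (nat_lit 203) (nat_lit 5) (nat_lit 201) (nat_lit 4) (nat_lit 394) (nat_lit 336) (nat_lit 290)) (XT.lf (nat_lit 0) (nat_lit 8221831843) (nat_lit 76) (nat_lit 5447478416) (nat_lit 152) (nat_lit 5352708477) (nat_lit 199) (nat_lit 5) (nat_lit 200) (nat_lit 5) (nat_lit 201) (nat_lit 4) (nat_lit 395) (nat_lit 336) (nat_lit 289)))) (XT.nd (nat_lit 156) (nat_lit 304) (nat_lit 0) (XT.nd (nat_lit 78) (nat_lit 0) (nat_lit 0) (XT.lf (nat_lit 0) (nat_lit 1003347012) (nat_lit 228) (nat_lit 16901351503) (nat_lit 76) (nat_lit 1700678449) (nat_lit 196) (nat_lit 5) (nat_lit 199) (nat_lit 5) (nat_lit 197) (nat_lit 4) (nat_lit 396) (nat_lit 336) (nat_lit 288)) (XT.lf (nat_lit 0) (nat_lit 7711890264) (nat_lit 228) (nat_lit 3244864446) (nat_lit 76)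 (nat_lit 9246032375) (nat_lit 196) (nat_lit 5) (nat_lit 199) (nat_lit 5) (nat_lit 197) (nat_lit 4) (nat_lit 397) (nat_lit 336) (nat_lit 287))) (XT.nd (nat_lit 78) (nat_lit 228) (nat_lit 0) (XT.lf (nat_lit 0) (nat_lit 11348663167) (nat_lit 76) (nat_lit 3526632720) (nat_lit 152) (nat_lit 5948800065) (nat_lit 195) (nat_lit 5) (nat_lit 196) (nat_lit 5) (nat_lit 197) (nat_lit 4) (nat_lit 398) (nat_lit 336) (nat_lit 286)) (XT.lf (nat_lit 0) (nat_lit 1041307689) (nat_lit 228) (nat_lit 16182264347) (nat_lit 76) (nat_lit 4244661485) (nat_lit 192) (nat_lit 5) (nat_lit 195) (nat_lit 5) (nat_lit 193) (nat_lit 4) (nat_lit 399) (nat_lit 336) (nat_lit 285)))))))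
noncomputable def xc117 : XT := (XT.nd (nat_lit 1248) (nat_lit 1292) (nat_lit 0) (XT.nd (nat_lit 624) (nat_lit 684) (nat_lit 0) (XT.nd (nat_lit 312) (nat_lit 228) (nat_lit 0) (XT.nd (nat_lit 156) (nat_lit 228) (nat_lit 0) (XT.nd (nat_lit 78) (nat_lit 76) (nat_lit 0) (XT.lf (nat_lit 0) (nat_lit 8344586765) (nat_lit 228) (nat_lit 1289543570) (nat_lit 76) (nat_lit 12497392337) (nat_lit 192) (nat_lit 5) (nat_lit 195) (nat_lit 5) (nat_lit 193) (nat_lit 4) (nat_lit 400) (nat_lit 336) (nat_lit 284)) (XT.lf (nat_lit 0) (nat_lit 14714551372) (nat_lit 76) (nat_lit 1473613102) (nat_lit 152) (nat_lit 6631055073) (nat_lit 191) (nat_lit 5) (nat_lit 192) (nat_lit 5) (nat_lit 193) (nat_lit 4) (nat_lit 401) (nat_lit 336) (nat_lit 283))) (XT.nd (nat_lit 78) (nat_lit 76) (nat_lit 0) (XT.lf (nat_lit 0) (nat_lit 1062259383) (nat_lit 152) (nat_lit 15482218105) (nat_lit 76) (nat_lit 6985740322) (nat_lit 189) (nat_lit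 5) (nat_lit 191) (nat_lit 5) (nat_lit 190) (nat_lit 4) (nat_lit 402) (nat_lit 336) (nat_lit 282)) (XT.lf (nat_lit 0) (nat_lit 805889884) (nat_lit 76) (nat_lit 8233492708) (nat_lit 152) (nat_lit 15225848606) (nat_lit 188) (nat_lit 5) (nat_lit 189) (nat_lit 5) (nat_lit 190) (nat_lit 4) (nat_lit 403) (nat_lit 336) (nat_lit 281)))) (XT.nd (nat_lit 156) (nat_lit 76) (nat_lit 0) (XT.nd (nat_lit 78) (nat_lit 152) (nat_lit 0) (XT.lf (nat_lit 0) (nat_lit 17635503573) (nat_lit 152) (nat_lit 6694737256) (nat_lit 0) (nat_lit 695747345) (nat_lit 188) (nat_lit 5) (nat_lit 190) (nat_lit 4) (nat_lit 188) (nat_lit 4) (nat_lit 404) (nat_lit 336) (nat_lit 280)) (XT.lf (nat_lit 0) (nat_lit 1069707205) (nat_lit 152) (nat_lit 14803001226) (nat_lit 76) (nat_lit 9938429571) (nat_lit 186) (nat_lit 5) (nat_lit 188) (nat_lit 5) (nat_lit 187) (nat_lit 4) (nat_lit 405) (nat_lit 336) (nat_lit 279))) (XT.nd (nat_lit 78) (nat_lit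 0) (nat_lit 0) (XT.lf (nat_lit 0) (nat_lit 3074216531) (nat_lit 76) (nat_lit 6742168218) (nat_lit 152) (nat_lit 16807510552) (nat_lit 185) (nat_lit 5) (nat_lit 186) (nat_lit 5) (nat_lit 187) (nat_lit 4) (nat_lit 406) (nat_lit 336) (nat_lit 278)) (XT.lf (nat_lit 0) (nat_lit 19248396318) (nat_lit 152) (nat_lit 5254095123) (nat_lit 0) (nat_lit 2962399017) (nat_lit 185) (nat_lit 5) (nat_lit 187) (nat_lit 4) (nat_lit 185) (nat_lit 4) (nat_lit 407) (nat_lit 336) (nat_lit 277))))) (XT.nd (nat_lit 312) (nat_lit 304) (nat_lit 0) (XT.nd (nat_lit 156) (nat_lit 152) (nat_lit 0) (XT.nd (nat_lit 78) (nat_lit 76) (nat_lit 0) (XT.lf (nat_lit 0) (nat_lit 1066511509) (nat_lit 152) (nat_lit 14145839148) (nat_lit 76) (nat_lit 13120548336) (nat_lit 183) (nat_lit 5) (nat_lit 185) (nat_lit 5) (nat_lit 184) (nat_lit 4) (nat_lit 408) (nat_lit 336) (nat_lit 276)) (XT.lf (nat_lit 0) (nat_lit 5486939825) (nat_lit 76) (nat_lit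 5177996010) (nat_lit 152) (nat_lit 18566267464) (nat_lit 182) (nat_lit 5) (nat_lit 183) (nat_lit 5) (nat_lit 184) (nat_lit 4) (nat_lit 409) (nat_lit 336) (nat_lit 275))) (XT.nd (nat_lit 78) (nat_lit 152) (nat_lit 0) (XT.lf (nat_lit 0) (nat_lit 21021857991) (nat_lit 152) (nat_lit 3753039656) (nat_lit 0) (nat_lit 5385596343) (nat_lit 182) (nat_lit 5) (nat_lit 184) (nat_lit 4) (nat_lit 182) (nat_lit 4) (nat_lit 410) (nat_lit 336) (nat_lit 274)) (XT.lf (nat_lit 0) (nat_lit 1055003319) (nat_lit 152) (nat_lit 13511505832) (nat_lit 76) (nat_lit 16553198328) (nat_lit 180) (nat_lit 5) (nat_lit 182) (nat_lit 5) (nat_lit 181) (nat_lit 4) (nat_lit 411) (nat_lit 336) (nat_lit 273)))) (XT.nd (nat_lit 156) (nat_lit 228) (nat_lit 0) (XT.nd (nat_lit 78) (nat_lit 0) (nat_lit 0) (XT.lf (nat_lit 0) (nat_lit 8060223620) (nat_lit 76) (nat_lit 3535228904) (nat_lit 152) (nat_lit 20516726133) (nat_lit 179) (nat_lit 5)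 (nat_lit 180) (nat_lit 5) (nat_lit 181) (nat_lit 4) (nat_lit 412) (nat_lit 336) (nat_lit 272)) (XT.lf (nat_lit 0) (nat_lit 22975060031) (nat_lit 152) (nat_lit 2183710420) (nat_lit 0) (nat_lit 7979896151) (nat_lit 179) (nat_lit 5) (nat_lit 181) (nat_lit 4) (nat_lit 179) (nat_lit 4) (nat_lit 413) (nat_lit 336) (nat_lit 271))) (XT.nd (nat_lit 78) (nat_lit 76) (nat_lit 0) (XT.lf (nat_lit 0) (nat_lit 1037079233) (nat_lit 152) (nat_lit 12900414960) (nat_lit 76) (nat_lit 20260805503) (nat_lit 177) (nat_lit 5) (nat_lit 179) (nat_lit 5) (nat_lit 178) (nat_lit 4) (nat_lit 414) (nat_lit 336) (nat_lit 270)) (XT.lf (nat_lit 0) (nat_lit 10812325823) (nat_lit 76) (nat_lit 1806468313) (nat_lit 152) (nat_lit 22675661550) (nat_lit 176) (nat_lit 5) (nat_lit 177) (nat_lit 5) (nat_lit 178) (nat_lit 4) (nat_lit 415) (nat_lit 336) (nat_lit 269)))))) (XT.nd (nat_lit 624) (nat_lit 684) (nat_lit 0) (XT.nd (nat_lit 312)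 (nat_lit 304) (nat_lit 0) (XT.nd (nat_lit 156) (nat_lit 152) (nat_lit 0) (XT.nd (nat_lit 78) (nat_lit 152) (nat_lit 0) (XT.lf (nat_lit 0) (nat_lit 25128568853) (nat_lit 152) (nat_lit 537079813) (nat_lit 0) (nat_lit 10762322108) (nat_lit 176) (nat_lit 5) (nat_lit 178) (nat_lit 4) (nat_lit 176) (nat_lit 4) (nat_lit 416) (nat_lit 336) (nat_lit 268)) (XT.lf (nat_lit 0) (nat_lit 1014279453) (nat_lit 152) (nat_lit 12312694431) (nat_lit 76) (nat_lit 24271219983) (nat_lit 174) (nat_lit 5) (nat_lit 176) (nat_lit 5) (nat_lit 175) (nat_lit 4) (nat_lit 417) (nat_lit 336) (nat_lit 267))) (XT.nd (nat_lit 78) (nat_lit 76) (nat_lit 0) (XT.lf (nat_lit 0) (nat_lit 13746692367) (nat_lit 152) (nat_lit 25045107345) (nat_lit 0) (nat_lit 16727522) (nat_lit 173) (nat_lit 5) (nat_lit 175) (nat_lit 4) (nat_lit 173) (nat_lit 4) (nat_lit 418) (nat_lit 336) (nat_lit 266)) (XT.lf (nat_lit 0) (nat_lit 1236651763) (nat_lit 76)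 (nat_lit 26287249978) (nat_lit 76) (nat_lit 12535066741) (nat_lit 172) (nat_lit 4) (nat_lit 173) (nat_lit 5) (nat_lit 173) (nat_lit 4) (nat_lit 419) (nat_lit 336) (nat_lit 265)))) (XT.nd (nat_lit 156) (nat_lit 152) (nat_lit 0) (XT.nd (nat_lit 78) (nat_lit 76) (nat_lit 0) (XT.lf (nat_lit 0) (nat_lit 987851932) (nat_lit 152) (nat_lit 11748247149) (nat_lit 76) (nat_lit 28615870580) (nat_lit 171) (nat_lit 5) (nat_lit 173) (nat_lit 5) (nat_lit 172) (nat_lit 4) (nat_lit 420) (nat_lit 336) (nat_lit 264)) (XT.lf (nat_lit 0) (nat_lit 15020949845) (nat_lit 152) (nat_lit 25781345062) (nat_lit 0) (nat_lit 1884286658) (nat_lit 170) (nat_lit 5) (nat_lit 172) (nat_lit 4) (nat_lit 170) (nat_lit 4) (nat_lit 421) (nat_lit 336) (nat_lit 263))) (XT.nd (nat_lit 78) (nat_lit 76) (nat_lit 0) (XT.lf (nat_lit 0) (nat_lit 3130390185) (nat_lit 76) (nat_lit 27045727715) (nat_lit 76) (nat_lit 13890785403) (nat_lit 169) (nat_lit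 4) (nat_lit 170) (nat_lit 5) (nat_lit 170) (nat_lit 4) (nat_lit 422) (nat_lit 336) (nat_lit 262)) (XT.lf (nat_lit 0) (nat_lit 958805101) (nat_lit 152) (nat_lit 11206800546) (nat_lit 76) (nat_lit 33329971571) (nat_lit 168) (nat_lit 5) (nat_lit 170) (nat_lit 5) (nat_lit 169) (nat_lit 4) (nat_lit 423) (nat_lit 336) (nat_lit 261))))) (XT.nd (nat_lit 312) (nat_lit 380) (nat_lit 0) (XT.nd (nat_lit 156) (nat_lit 152) (nat_lit 0) (XT.nd (nat_lit 78) (nat_lit 76) (nat_lit 0) (XT.lf (nat_lit 0) (nat_lit 16426686087) (nat_lit 152) (nat_lit 26674681532) (nat_lit 0) (nat_lit 3865799697) (nat_lit 167) (nat_lit 5) (nat_lit 169) (nat_lit 4) (nat_lit 167) (nat_lit 4) (nat_lit 424) (nat_lit 336) (nat_lit 260)) (XT.lf (nat_lit 0) (nat_lit 5139555938) (nat_lit 76) (nat_lit 27963476055) (nat_lit 76) (nat_lit 15387551383) (nat_lit 166) (nat_lit 4) (nat_lit 167) (nat_lit 5) (nat_lit 167) (nat_lit 4) (nat_lit 425) (nat_lit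 336) (nat_lit 259))) (XT.nd (nat_lit 78) (nat_lit 76) (nat_lit 0) (XT.lf (nat_lit 0) (nat_lit 927951207) (nat_lit 152) (nat_lit 10687946869) (nat_lit 76) (nat_lit 38452780552) (nat_lit 165) (nat_lit 5) (nat_lit 167) (nat_lit 5) (nat_lit 166) (nat_lit 4) (nat_lit 426) (nat_lit 336) (nat_lit 258)) (XT.lf (nat_lit 0) (nat_lit 17978320481) (nat_lit 152) (nat_lit 27738316142) (nat_lit 0) (nat_lit 5974618565) (nat_lit 164) (nat_lit 5) (nat_lit 166) (nat_lit 4) (nat_lit 164) (nat_lit 4) (nat_lit 427) (nat_lit 336) (nat_lit 257)))) (XT.nd (nat_lit 156) (nat_lit 228) (nat_lit 0) (XT.nd (nat_lit 78) (nat_lit 76) (nat_lit 0) (XT.lf (nat_lit 0) (nat_lit 7278758786) (nat_lit 76) (nat_lit 29054828395) (nat_lit 76) (nat_lit 17038754447) (nat_lit 163) (nat_lit 4) (nat_lit 164) (nat_lit 5) (nat_lit 164) (nat_lit 4) (nat_lit 428) (nat_lit 336) (nat_lit 256)) (XT.lf (nat_lit 0) (nat_lit 895941924) (nat_lit 152) (nat_lit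 10191175888) (nat_lit 76) (nat_lit 44027907234) (nat_lit 162) (nat_lit 5) (nat_lit 164) (nat_lit 5) (nat_lit 163) (nat_lit 4) (nat_lit 429) (nat_lit 336) (nat_lit 255))) (XT.nd (nat_lit 78) (nat_lit 152) (nat_lit 0) (XT.lf (nat_lit 0) (nat_lit 19691531021) (nat_lit 152) (nat_lit 28986764985) (nat_lit 0) (nat_lit 8225741848) (nat_lit 161) (nat_lit 5) (nat_lit 163) (nat_lit 4) (nat_lit 161) (nat_lit 4) (nat_lit 430) (nat_lit 336) (nat_lit 254)) (XT.nd (nat_lit 78) (nat_lit 76) (nat_lit 0) (XT.lf (nat_lit 0) (nat_lit 9564145354) (nat_lit 76) (nat_lit 30335346992) (nat_lit 76) (nat_lit 18859379317) (nat_lit 160) (nat_lit 4) (nat_lit 161) (nat_lit 5) (nat_lit 161) (nat_lit 4) (nat_lit 431) (nat_lit 336) (nat_lit 253)) (XT.lf (nat_lit 0) (nat_lit 863297610) (nat_lit 152) (nat_lit 9715901384) (nat_lit 76) (nat_lit 50103673984) (nat_lit 159) (nat_lit 5) (nat_lit 161) (nat_lit 5) (nat_lit 160) (nat_lit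 4) (nat_lit 432) (nat_lit 336) (nat_lit 252))))))))
noncomputable def xc118 : XT := (XT.nd (nat_lit 2496) (nat_lit 2204) (nat_lit 0) (XT.nd (nat_lit 1248) (nat_lit 1216) (nat_lit 0) (XT.nd (nat_lit 624) (nat_lit 608) (nat_lit 0) (XT.nd (nat_lit 312) (nat_lit 304) (nat_lit 0) (XT.nd (nat_lit 156) (nat_lit 152) (nat_lit 0) (XT.nd (nat_lit 78) (nat_lit 76) (nat_lit 0) (XT.lf (nat_lit 0) (nat_lit 21583424705) (nat_lit 152) (nat_lit 30436028480) (nat_lit 0) (nat_lit 10635906908) (nat_lit 158) (nat_lit 5) (nat_lit 160) (nat_lit 4) (nat_lit 158) (nat_lit 4) (nat_lit 433) (nat_lit 336) (nat_lit 251)) (XT.lf (nat_lit 0) (nat_lit 12013524347) (nat_lit 76) (nat_lit 31822019796) (nat_lit 76) (nat_lit 20866128121) (nat_lit 157) (nat_lit 4) (nat_lit 158) (nat_lit 5) (nat_lit 158) (nat_lit 4) (nat_lit 434) (nat_lit 336) (nat_lit 250))) (XT.nd (nat_lit 78) (nat_lit 76) (nat_lit 0) (XT.lf (nat_lit 0) (nat_lit 830431338)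 (nat_lit 152) (nat_lit 9261482552) (nat_lit 76) (nat_lit 56733529802) (nat_lit 156) (nat_lit 5) (nat_lit 158) (nat_lit 5) (nat_lit 157) (nat_lit 4) (nat_lit 435) (nat_lit 336) (nat_lit 249)) (XT.lf (nat_lit 0) (nat_lit 23672717924) (nat_lit 152) (nat_lit 32103769138) (nat_lit 0) (nat_lit 13223706351) (nat_lit 155) (nat_lit 5) (nat_lit 157) (nat_lit 4) (nat_lit 155) (nat_lit 4) (nat_lit 436) (nat_lit 336) (nat_lit 248)))) (XT.nd (nat_lit 156) (nat_lit 152) (nat_lit 0) (XT.nd (nat_lit 78) (nat_lit 76) (nat_lit 0) (XT.lf (nat_lit 0) (nat_lit 14646511533) (nat_lit 76) (nat_lit 33533463530) (nat_lit 76) (nat_lit 23077562747) (nat_lit 154) (nat_lit 4) (nat_lit 155) (nat_lit 5) (nat_lit 155) (nat_lit 4) (nat_lit 437) (nat_lit 336) (nat_lit 247)) (XT.lf (nat_lit 0) (nat_lit 797668639) (nat_lit 152) (nat_lit 8827241224) (nat_lit 76) (nat_lit 63976520208) (nat_lit 153) (nat_lit 5) (nat_lit 155) (nat_lit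 5) (nat_lit 154) (nat_lit 4) (nat_lit 438) (nat_lit 336) (nat_lit 246))) (XT.nd (nat_lit 78) (nat_lit 76) (nat_lit 0) (XT.lf (nat_lit 0) (nat_lit 25979929231) (nat_lit 152) (nat_lit 34009501816) (nat_lit 0) (nat_lit 16009728610) (nat_lit 152) (nat_lit 5) (nat_lit 154) (nat_lit 4) (nat_lit 152) (nat_lit 4) (nat_lit 439) (nat_lit 336) (nat_lit 245)) (XT.lf (nat_lit 0) (nat_lit 17484695244) (nat_lit 76) (nat_lit 35490136220) (nat_lit 76) (nat_lit 25514267828) (nat_lit 151) (nat_lit 4) (nat_lit 152) (nat_lit 5) (nat_lit 152) (nat_lit 4) (nat_lit 440) (nat_lit 336) (nat_lit 244))))) (XT.nd (nat_lit 312) (nat_lit 304) (nat_lit 0) (XT.nd (nat_lit 156) (nat_lit 152) (nat_lit 0) (XT.nd (nat_lit 78) (nat_lit 76) (nat_lit 0) (XT.lf (nat_lit 0) (nat_lit 765263699) (nat_lit 152) (nat_lit 8412475684) (nat_lit 76) (nat_lit 71897816336) (nat_lit 150) (nat_lit 5) (nat_lit 152) (nat_lit 5) (nat_lit 151) (nat_lit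 4) (nat_lit 441) (nat_lit 336) (nat_lit 243)) (XT.lf (nat_lit 0) (nat_lit 28527586823) (nat_lit 152) (nat_lit 36174798808) (nat_lit 0) (nat_lit 19016722915) (nat_lit 149) (nat_lit 5) (nat_lit 151) (nat_lit 4) (nat_lit 149) (nat_lit 4) (nat_lit 442) (nat_lit 336) (nat_lit 242))) (XT.nd (nat_lit 78) (nat_lit 76) (nat_lit 0) (XT.lf (nat_lit 0) (nat_lit 20551823424) (nat_lit 76) (nat_lit 37714562206) (nat_lit 76) (nat_lit 28199035410) (nat_lit 148) (nat_lit 4) (nat_lit 149) (nat_lit 5) (nat_lit 149) (nat_lit 4) (nat_lit 443) (nat_lit 336) (nat_lit 241)) (XT.lf (nat_lit 0) (nat_lit 733412658) (nat_lit 152) (nat_lit 8016471692) (nat_lit 76) (nat_lit 80569307279) (nat_lit 147) (nat_lit 5) (nat_lit 149) (nat_lit 5) (nat_lit 148) (nat_lit 4) (nat_lit 444) (nat_lit 336) (nat_lit 240)))) (XT.nd (nat_lit 156) (nat_lit 152) (nat_lit 0) (XT.nd (nat_lit 78) (nat_lit 76) (nat_lit 0) (XT.lf (nat_lit 0) (nat_lit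 31340453151) (nat_lit 152) (nat_lit 38623512185) (nat_lit 0) (nat_lit 22269789323) (nat_lit 146) (nat_lit 5) (nat_lit 148) (nat_lit 4) (nat_lit 146) (nat_lit 4) (nat_lit 445) (nat_lit 336) (nat_lit 239)) (XT.lf (nat_lit 0) (nat_lit 23874013583) (nat_lit 76) (nat_lit 40231572615) (nat_lit 76) (nat_lit 31157072617) (nat_lit 145) (nat_lit 4) (nat_lit 146) (nat_lit 5) (nat_lit 146) (nat_lit 4) (nat_lit 446) (nat_lit 336) (nat_lit 238))) (XT.nd (nat_lit 78) (nat_lit 76) (nat_lit 0) (XT.lf (nat_lit 0) (nat_lit 702264522) (nat_lit 152) (nat_lit 7638511221) (nat_lit 76) (nat_lit 90070260527) (nat_lit 144) (nat_lit 5) (nat_lit 146) (nat_lit 5) (nat_lit 145) (nat_lit 4) (nat_lit 447) (nat_lit 336) (nat_lit 237)) (XT.lf (nat_lit 0) (nat_lit 34445769162) (nat_lit 152) (nat_lit 41382015861) (nat_lit 0) (nat_lit 25796594864) (nat_lit 143) (nat_lit 5) (nat_lit 145) (nat_lit 4) (nat_lit 143) (nat_lit 4) (nat_lit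 448) (nat_lit 336) (nat_lit 236)))))) (XT.nd (nat_lit 624) (nat_lit 608) (nat_lit 0) (XT.nd (nat_lit 312) (nat_lit 304) (nat_lit 0) (XT.nd (nat_lit 156) (nat_lit 152) (nat_lit 0) (XT.nd (nat_lit 78) (nat_lit 76) (nat_lit 0) (XT.lf (nat_lit 0) (nat_lit 27479987278) (nat_lit 76) (nat_lit 43068564302) (nat_lit 76) (nat_lit 34416233977) (nat_lit 142) (nat_lit 4) (nat_lit 143) (nat_lit 5) (nat_lit 143) (nat_lit 4) (nat_lit 449) (nat_lit 336) (nat_lit 235)) (XT.lf (nat_lit 0) (nat_lit 671930107) (nat_lit 152) (nat_lit 7277879344) (nat_lit 76) (nat_lit 100488056106) (nat_lit 141) (nat_lit 5) (nat_lit 143) (nat_lit 5) (nat_lit 142) (nat_lit 4) (nat_lit 450) (nat_lit 336) (nat_lit 234))) (XT.nd (nat_lit 78) (nat_lit 76) (nat_lit 0) (XT.lf (nat_lit 0) (nat_lit 37873520772) (nat_lit 152) (nat_lit 44479470009) (nat_lit 0) (nat_lit 29627617273) (nat_lit 140) (nat_lit 5) (nat_lit 142) (nat_lit 4) (nat_lit 140)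 (nat_lit 4) (nat_lit 451) (nat_lit 336) (nat_lit 233)) (XT.lf (nat_lit 0) (nat_lit 31401331070) (nat_lit 76) (nat_lit 46255780277) (nat_lit 76) (nat_lit 38007280308) (nat_lit 139) (nat_lit 4) (nat_lit 140) (nat_lit 5) (nat_lit 140) (nat_lit 4) (nat_lit 452) (nat_lit 336) (nat_lit 232)))) (XT.nd (nat_lit 156) (nat_lit 152) (nat_lit 0) (XT.nd (nat_lit 78) (nat_lit 76) (nat_lit 0) (XT.lf (nat_lit 0) (nat_lit 642489368) (nat_lit 152) (nat_lit 6933869594) (nat_lit 76) (nat_lit 111919000866) (nat_lit 138) (nat_lit 5) (nat_lit 140) (nat_lit 5) (nat_lit 139) (nat_lit 4) (nat_lit 453) (nat_lit 336) (nat_lit 231)) (XT.lf (nat_lit 0) (nat_lit 41656730367) (nat_lit 152) (nat_lit 47948110593) (nat_lit 0) (nat_lit 33796418105) (nat_lit 137) (nat_lit 5) (nat_lit 139) (nat_lit 4) (nat_lit 137) (nat_lit 4) (nat_lit 454) (nat_lit 336) (nat_lit 230))) (XT.nd (nat_lit 78) (nat_lit 76) (nat_lit 0) (XT.lf (nat_lit 0)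 (nat_lit 35672786183) (nat_lit 76) (nat_lit 49826614794) (nat_lit 76) (nat_lit 41964166409) (nat_lit 136) (nat_lit 4) (nat_lit 137) (nat_lit 5) (nat_lit 137) (nat_lit 4) (nat_lit 455) (nat_lit 336) (nat_lit 229)) (XT.lf (nat_lit 0) (nat_lit 613997408) (nat_lit 152) (nat_lit 6605788099) (nat_lit 76) (nat_lit 124469230222) (nat_lit 135) (nat_lit 5) (nat_lit 137) (nat_lit 5) (nat_lit 136) (nat_lit 4) (nat_lit 456) (nat_lit 336) (nat_lit 228))))) (XT.nd (nat_lit 312) (nat_lit 304) (nat_lit 0) (XT.nd (nat_lit 156) (nat_lit 152) (nat_lit 0) (XT.nd (nat_lit 78) (nat_lit 76) (nat_lit 0) (XT.lf (nat_lit 0) (nat_lit 45831776303) (nat_lit 152) (nat_lit 51823566994) (nat_lit 0) (nat_lit 38339947432) (nat_lit 134) (nat_lit 5) (nat_lit 136) (nat_lit 4) (nat_lit 134) (nat_lit 4) (nat_lit 457) (nat_lit 336) (nat_lit 227)) (XT.lf (nat_lit 0) (nat_lit 40332569417) (nat_lit 76) (nat_lit 53817946372) (nat_lit 76)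 (nat_lit 46324360108) (nat_lit 133) (nat_lit 4) (nat_lit 134) (nat_lit 5) (nat_lit 134) (nat_lit 4) (nat_lit 458) (nat_lit 336) (nat_lit 226))) (XT.nd (nat_lit 78) (nat_lit 76) (nat_lit 0) (XT.lf (nat_lit 0) (nat_lit 586489392) (nat_lit 152) (nat_lit 6292956717) (nat_lit 76) (nat_lit 138255705550) (nat_lit 132) (nat_lit 5) (nat_lit 134) (nat_lit 5) (nat_lit 133) (nat_lit 4) (nat_lit 459) (nat_lit 336) (nat_lit 225)) (XT.lf (nat_lit 0) (nat_lit 50438743602) (nat_lit 152) (nat_lit 56145210927) (nat_lit 0) (nat_lit 43298882668) (nat_lit 131) (nat_lit 5) (nat_lit 133) (nat_lit 4) (nat_lit 131) (nat_lit 4) (nat_lit 460) (nat_lit 336) (nat_lit 224)))) (XT.nd (nat_lit 156) (nat_lit 152) (nat_lit 0) (XT.nd (nat_lit 78) (nat_lit 76) (nat_lit 0) (XT.lf (nat_lit 0) (nat_lit 45422728207) (nat_lit 76) (nat_lit 58270502278) (nat_lit 76) (nat_lit 51129195531) (nat_lit 130) (nat_lit 4) (nat_lit 131) (nat_lit 5)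 (nat_lit 131) (nat_lit 4) (nat_lit 461) (nat_lit 336) (nat_lit 223)) (XT.lf (nat_lit 0) (nat_lit 559984565) (nat_lit 152) (nat_lit 5994715351) (nat_lit 76) (nat_lit 153407316437) (nat_lit 129) (nat_lit 5) (nat_lit 131) (nat_lit 5) (nat_lit 130) (nat_lit 4) (nat_lit 462) (nat_lit 336) (nat_lit 222))) (XT.nd (nat_lit 78) (nat_lit 76) (nat_lit 0) (XT.lf (nat_lit 0) (nat_lit 55521809336) (nat_lit 152) (nat_lit 60956540122) (nat_lit 0) (nat_lit 48718004475) (nat_lit 128) (nat_lit 5) (nat_lit 130) (nat_lit 4) (nat_lit 128) (nat_lit 4) (nat_lit 463) (nat_lit 336) (nat_lit 221)) (XT.lf (nat_lit 0) (nat_lit 50989533064) (nat_lit 76) (nat_lit 63229258184) (nat_lit 76) (nat_lit 56424263850) (nat_lit 127) (nat_lit 4) (nat_lit 128) (nat_lit 5) (nat_lit 128) (nat_lit 4) (nat_lit 464) (nat_lit 336) (nat_lit 220))))))) (XT.nd (nat_lit 1248) (nat_lit 988) (nat_lit 0) (XT.nd (nat_lit 624) (nat_lit 608) (nat_lit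 0) (XT.nd (nat_lit 312) (nat_lit 304) (nat_lit 0) (XT.nd (nat_lit 156) (nat_lit 152) (nat_lit 0) (XT.nd (nat_lit 78) (nat_lit 76) (nat_lit 0) (XT.lf (nat_lit 0) (nat_lit 534489535) (nat_lit 152) (nat_lit 5710423617) (nat_lit 76) (nat_lit 170066098022) (nat_lit 126) (nat_lit 5) (nat_lit 128) (nat_lit 5) (nat_lit 127) (nat_lit 4) (nat_lit 465) (nat_lit 336) (nat_lit 219)) (XT.lf (nat_lit 0) (nat_lit 61129666468) (nat_lit 152) (nat_lit 66305600550) (nat_lit 0) (nat_lit 54646613084) (nat_lit 125) (nat_lit 5) (nat_lit 127) (nat_lit 4) (nat_lit 125) (nat_lit 4) (nat_lit 466) (nat_lit 336) (nat_lit 218))) (XT.nd (nat_lit 78) (nat_lit 76) (nat_lit 0) (XT.lf (nat_lit 0) (nat_lit 57083911018) (nat_lit 76) (nat_lit 68743877066) (nat_lit 76) (nat_lit 62259845099) (nat_lit 124) (nat_lit 4) (nat_lit 125) (nat_lit 5) (nat_lit 125) (nat_lit 4) (nat_lit 467) (nat_lit 336) (nat_lit 217)) (XT.lf (nat_lit 0) (nat_lit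 510000957) (nat_lit 152) (nat_lit 5439461987) (nat_lit 76) (nat_lit 188388574825) (nat_lit 123) (nat_lit 5) (nat_lit 125) (nat_lit 5) (nat_lit 124) (nat_lit 4) (nat_lit 468) (nat_lit 336) (nat_lit 216)))) (XT.nd (nat_lit 156) (nat_lit 152) (nat_lit 0) (XT.nd (nat_lit 78) (nat_lit 76) (nat_lit 0) (XT.lf (nat_lit 0) (nat_lit 67315990291) (nat_lit 152) (nat_lit 72245451321) (nat_lit 0) (nat_lit 61138988811) (nat_lit 122) (nat_lit 5) (nat_lit 124) (nat_lit 4) (nat_lit 122) (nat_lit 4) (nat_lit 469) (nat_lit 336) (nat_lit 215)) (XT.lf (nat_lit 0) (nat_lit 63761924085) (nat_lit 76) (nat_lit 74869191676) (nat_lit 76) (nat_lit 68691385115) (nat_lit 121) (nat_lit 4) (nat_lit 122) (nat_lit 5) (nat_lit 122) (nat_lit 4) (nat_lit 470) (nat_lit 336) (nat_lit 214))) (XT.nd (nat_lit 78) (nat_lit 76) (nat_lit 0) (XT.lf (nat_lit 0) (nat_lit 486507710) (nat_lit 152) (nat_lit 5181232500) (nat_lit 76) (nat_lit 208547243668)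 (nat_lit 120) (nat_lit 5) (nat_lit 122) (nat_lit 5) (nat_lit 121) (nat_lit 4) (nat_lit 471) (nat_lit 336) (nat_lit 213)) (XT.lf (nat_lit 0) (nat_lit 74139951976) (nat_lit 152) (nat_lit 78834676766) (nat_lit 0) (nat_lit 68254900985) (nat_lit 119) (nat_lit 5) (nat_lit 121) (nat_lit 4) (nat_lit 119) (nat_lit 4) (nat_lit 472) (nat_lit 336) (nat_lit 212))))) (XT.nd (nat_lit 312) (nat_lit 304) (nat_lit 0) (XT.nd (nat_lit 156) (nat_lit 152) (nat_lit 0) (XT.nd (nat_lit 78) (nat_lit 76) (nat_lit 0) (XT.lf (nat_lit 0) (nat_lit 71085297249) (nat_lit 76) (nat_lit 81665735373) (nat_lit 76) (nat_lit 75780022039) (nat_lit 118) (nat_lit 4) (nat_lit 119) (nat_lit 5) (nat_lit 119) (nat_lit 4) (nat_lit 473) (nat_lit 336) (nat_lit 211)) (XT.lf (nat_lit 0) (nat_lit 463992678) (nat_lit 152) (nat_lit 4935159145) (nat_lit 76) (nat_lit 230732209691) (nat_lit 117) (nat_lit 5) (nat_lit 119) (nat_lit 5) (nat_lit 118) (nat_lit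 4) (nat_lit 474) (nat_lit 336) (nat_lit 210))) (XT.nd (nat_lit 78) (nat_lit 76) (nat_lit 0) (XT.lf (nat_lit 0) (nat_lit 81666784193) (nat_lit 152) (nat_lit 86137950660) (nat_lit 0) (nat_lit 76060170000) (nat_lit 116) (nat_lit 5) (nat_lit 118) (nat_lit 4) (nat_lit 116) (nat_lit 4) (nat_lit 475) (nat_lit 336) (nat_lit 209)) (XT.lf (nat_lit 0) (nat_lit 79122000905) (nat_lit 76) (nat_lit 89200326476) (nat_lit 76) (nat_lit 83593167372) (nat_lit 115) (nat_lit 4) (nat_lit 116) (nat_lit 5) (nat_lit 116) (nat_lit 4) (nat_lit 476) (nat_lit 336) (nat_lit 208)))) (XT.nd (nat_lit 156) (nat_lit 152) (nat_lit 0) (XT.nd (nat_lit 78) (nat_lit 76) (nat_lit 0) (XT.lf (nat_lit 0) (nat_lit 442434192) (nat_lit 152) (nat_lit 4700687971) (nat_lit 76) (nat_lit 255152990923) (nat_lit 114) (nat_lit 5) (nat_lit 116) (nat_lit 5) (nat_lit 115) (nat_lit 4) (nat_lit 477) (nat_lit 336) (nat_lit 207)) (XT.lf (nat_lit 0) (nat_lit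 89968404237) (nat_lit 152) (nat_lit 94226658015) (nat_lit 0) (nat_lit 84627287744) (nat_lit 113) (nat_lit 5) (nat_lit 115) (nat_lit 4) (nat_lit 113) (nat_lit 4) (nat_lit 478) (nat_lit 336) (nat_lit 206))) (XT.nd (nat_lit 78) (nat_lit 76) (nat_lit 0) (XT.lf (nat_lit 0) (nat_lit 87946893263) (nat_lit 76) (nat_lit 97546711834) (nat_lit 76) (nat_lit 92205147041) (nat_lit 112) (nat_lit 4) (nat_lit 113) (nat_lit 5) (nat_lit 113) (nat_lit 4) (nat_lit 479) (nat_lit 336) (nat_lit 205)) (XT.lf (nat_lit 0) (nat_lit 421807198) (nat_lit 152) (nat_lit 4477286987) (nat_lit 76) (nat_lit 282040508488) (nat_lit 111) (nat_lit 5) (nat_lit 113) (nat_lit 5) (nat_lit 112) (nat_lit 4) (nat_lit 480) (nat_lit 336) (nat_lit 204)))))) (XT.nd (nat_lit 624) (nat_lit 380) (nat_lit 0) (XT.nd (nat_lit 312) (nat_lit 304) (nat_lit 0) (XT.nd (nat_lit 156) (nat_lit 152) (nat_lit 0) (XT.nd (nat_lit 78) (nat_lit 76) (nat_lit 0) (XT.lf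 (nat_lit 0) (nat_lit 99124100650) (nat_lit 152) (nat_lit 103179580438) (nat_lit 0) (nat_lit 94036102205) (nat_lit 110) (nat_lit 5) (nat_lit 112) (nat_lit 4) (nat_lit 110) (nat_lit 4) (nat_lit 481) (nat_lit 336) (nat_lit 203)) (XT.lf (nat_lit 0) (nat_lit 97642428771) (nat_lit 76) (nat_lit 106786275822) (nat_lit 76) (nat_lit 101697908560) (nat_lit 109) (nat_lit 4) (nat_lit 110) (nat_lit 5) (nat_lit 110) (nat_lit 4) (nat_lit 482) (nat_lit 336) (nat_lit 202))) (XT.nd (nat_lit 78) (nat_lit 76) (nat_lit 0) (XT.lf (nat_lit 0) (nat_lit 402084200) (nat_lit 152) (nat_lit 4264445904) (nat_lit 76) (nat_lit 311649281346) (nat_lit 108) (nat_lit 5) (nat_lit 110) (nat_lit 5) (nat_lit 109) (nat_lit 4) (nat_lit 483) (nat_lit 336) (nat_lit 201)) (XT.lf (nat_lit 0) (nat_lit 109221289902) (nat_lit 152) (nat_lit 113083651606) (nat_lit 0) (nat_lit 104374572717) (nat_lit 107) (nat_lit 5) (nat_lit 109) (nat_lit 4) (nat_lit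 107) (nat_lit 4) (nat_lit 484) (nat_lit 336) (nat_lit 200)))) (XT.nd (nat_lit 156) (nat_lit 152) (nat_lit 0) (XT.nd (nat_lit 78) (nat_lit 76) (nat_lit 0) (XT.lf (nat_lit 0) (nat_lit 108299439290) (nat_lit 76) (nat_lit 117008821606) (nat_lit 76) (nat_lit 112161800993) (nat_lit 106) (nat_lit 4) (nat_lit 107) (nat_lit 5) (nat_lit 107) (nat_lit 4) (nat_lit 485) (nat_lit 336) (nat_lit 199)) (XT.lf (nat_lit 0) (nat_lit 383236023) (nat_lit 152) (nat_lit 4061675741) (nat_lit 76) (nat_lit 344259846394) (nat_lit 105) (nat_lit 5) (nat_lit 107) (nat_lit 5) (nat_lit 106) (nat_lit 4) (nat_lit 486) (nat_lit 336) (nat_lit 198))) (XT.nd (nat_lit 78) (nat_lit 76) (nat_lit 0) (XT.lf (nat_lit 0) (nat_lit 120356350394) (nat_lit 152) (nat_lit 124034790112) (nat_lit 0) (nat_lit 115739602958) (nat_lit 104) (nat_lit 5) (nat_lit 106) (nat_lit 4) (nat_lit 104) (nat_lit 4) (nat_lit 487) (nat_lit 336) (nat_lit 197)) (XT.lf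 (nat_lit 0) (nat_lit 120017995393) (nat_lit 76) (nat_lit 128313432177) (nat_lit 76) (nat_lit 123696435110) (nat_lit 103) (nat_lit 4) (nat_lit 104) (nat_lit 5) (nat_lit 104) (nat_lit 4) (nat_lit 488) (nat_lit 336) (nat_lit 196))))) (XT.nd (nat_lit 312) (nat_lit 76) (nat_lit 0) (XT.nd (nat_lit 156) (nat_lit 152) (nat_lit 0) (XT.nd (nat_lit 78) (nat_lit 76) (nat_lit 0) (XT.lf (nat_lit 0) (nat_lit 365232422) (nat_lit 152) (nat_lit 3868508343) (nat_lit 76) (nat_lit 380181426935) (nat_lit 102) (nat_lit 5) (nat_lit 104) (nat_lit 5) (nat_lit 103) (nat_lit 4) (nat_lit 489) (nat_lit 336) (nat_lit 195)) (XT.lf (nat_lit 0) (nat_lit 132635541722) (nat_lit 152) (nat_lit 136138817644) (nat_lit 0) (nat_lit 128237959597) (nat_lit 101) (nat_lit 5) (nat_lit 103) (nat_lit 4) (nat_lit 101) (nat_lit 4) (nat_lit 490) (nat_lit 336) (nat_lit 194))) (XT.nd (nat_lit 78) (nat_lit 76) (nat_lit 0) (XT.lf (nat_lit 0) (nat_lit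 132908356001) (nat_lit 76) (nat_lit 140809419420) (nat_lit 76) (nat_lit 136411631923) (nat_lit 100) (nat_lit 4) (nat_lit 101) (nat_lit 5) (nat_lit 101) (nat_lit 4) (nat_lit 491) (nat_lit 336) (nat_lit 193)) (XT.lf (nat_lit 0) (nat_lit 348042567) (nat_lit 152) (nat_lit 3684495825) (nat_lit 76) (nat_lit 419754874893) (nat_lit 99) (nat_lit 5) (nat_lit 101) (nat_lit 5) (nat_lit 100) (nat_lit 4) (nat_lit 492) (nat_lit 336) (nat_lit 192)))) (XT.nd (nat_lit 41730) (nat_lit 0) (nat_lit 18316) (XT.nd (nat_lit 41652) (nat_lit 0) (nat_lit 18696) (XT.lf (nat_lit 0) (nat_lit 146176018017) (nat_lit 152) (nat_lit 149512471276) (nat_lit 0) (nat_lit 141987285287) (nat_lit 98) (nat_lit 5) (nat_lit 100) (nat_lit 4) (nat_lit 98) (nat_lit 4) (nat_lit 493) (nat_lit 336) (nat_lit 191)) (XT.lf (nat_lit 0) (nat_lit 1068890710) (nat_lit 228) (nat_lit 1101617159) (nat_lit 228) (nat_lit 1101617159) (nat_lit 344) (nat_lit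 4) (nat_lit 347) (nat_lit 5) (nat_lit 347) (nat_lit 4) (nat_lit 346) (nat_lit 337) (nat_lit 337))) (XT.nd (nat_lit 78) (nat_lit 304) (nat_lit 0) (XT.lf (nat_lit 0) (nat_lit 1034679532) (nat_lit 304) (nat_lit 402821404) (nat_lit 76) (nat_lit 5145870210) (nat_lit 343) (nat_lit 5) (nat_lit 347) (nat_lit 5) (nat_lit 344) (nat_lit 4) (nat_lit 347) (nat_lit 337) (nat_lit 336)) (XT.lf (nat_lit 0) (nat_lit 3754483922) (nat_lit 304) (nat_lit 480699692) (nat_lit 380) (nat_lit 2393721861) (nat_lit 339) (nat_lit 5) (nat_lit 343) (nat_lit 5) (nat_lit 344) (nat_lit 4) (nat_lit 348) (nat_lit 337) (nat_lit 335))))))))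
noncomputable def xc119 : XT := (XT.nd (nat_lit 1248) (nat_lit 3116) (nat_lit 0) (XT.nd (nat_lit 624) (nat_lit 2812) (nat_lit 0) (XT.nd (nat_lit 312) (nat_lit 1444) (nat_lit 0) (XT.nd (nat_lit 156) (nat_lit 1064) (nat_lit 0) (XT.nd (nat_lit 78) (nat_lit 0) (nat_lit 0) (XT.lf (nat_lit 0) (nat_lit 747173106) (nat_lit 456) (nat_lit 5341540171) (nat_lit 76) (nat_lit 594406322) (nat_lit 333) (nat_lit 5) (nat_lit 339) (nat_lit 5) (nat_lit 334) (nat_lit 4) (nat_lit 349) (nat_lit 337) (nat_lit 334)) (XT.lf (nat_lit 0) (nat_lit 3849145124) (nat_lit 456) (nat_lit 1058928194) (nat_lit 76) (nat_lit 1835785190) (nat_lit 333) (nat_lit 5) (nat_lit 339) (nat_lit 5) (nat_lit 334) (nat_lit 4) (nat_lit 350) (nat_lit 337) (nat_lit 333))) (XT.nd (nat_lit 78) (nat_lit 532) (nat_lit 0) (XT.lf (nat_lit 0) (nat_lit 175824441) (nat_lit 532) (nat_lit 3403843452) (nat_lit 76) (nat_lit 3233393410) (nat_lit 326) (nat_lit 5)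 (nat_lit 333) (nat_lit 5) (nat_lit 327) (nat_lit 5) (nat_lit 351) (nat_lit 337) (nat_lit 332)) (XT.lf (nat_lit 0) (nat_lit 1102242439) (nat_lit 532) (nat_lit 2074318029) (nat_lit 608) (nat_lit 3713093420) (nat_lit 319) (nat_lit 5) (nat_lit 326) (nat_lit 5) (nat_lit 327) (nat_lit 5) (nat_lit 352) (nat_lit 337) (nat_lit 331)))) (XT.nd (nat_lit 156) (nat_lit 760) (nat_lit 0) (XT.nd (nat_lit 78) (nat_lit 684) (nat_lit 0) (XT.lf (nat_lit 0) (nat_lit 5816036985) (nat_lit 532) (nat_lit 413028128) (nat_lit 608) (nat_lit 745924397) (nat_lit 319) (nat_lit 5) (nat_lit 326) (nat_lit 5) (nat_lit 327) (nat_lit 5) (nat_lit 353) (nat_lit 337) (nat_lit 330)) (XT.lf (nat_lit 0) (nat_lit 2222352068) (nat_lit 684) (nat_lit 3443682352) (nat_lit 76) (nat_lit 1400278133) (nat_lit 310) (nat_lit 5) (nat_lit 319) (nat_lit 5) (nat_lit 311) (nat_lit 5) (nat_lit 354) (nat_lit 337) (nat_lit 329))) (XT.nd (nat_lit 78) (nat_lit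 76) (nat_lit 0) (XT.lf (nat_lit 0) (nat_lit 1408433792) (nat_lit 684) (nat_lit 3808664047) (nat_lit 760) (nat_lit 1949336324) (nat_lit 301) (nat_lit 5) (nat_lit 310) (nat_lit 5) (nat_lit 311) (nat_lit 5) (nat_lit 355) (nat_lit 337) (nat_lit 328)) (XT.lf (nat_lit 0) (nat_lit 971301452) (nat_lit 760) (nat_lit 806018969) (nat_lit 76) (nat_lit 5497582028) (nat_lit 300) (nat_lit 5) (nat_lit 310) (nat_lit 5) (nat_lit 301) (nat_lit 5) (nat_lit 356) (nat_lit 337) (nat_lit 327))))) (XT.nd (nat_lit 312) (nat_lit 1140) (nat_lit 0) (XT.nd (nat_lit 156) (nat_lit 456) (nat_lit 0) (XT.nd (nat_lit 78) (nat_lit 456) (nat_lit 0) (XT.lf (nat_lit 0) (nat_lit 3911541966) (nat_lit 836) (nat_lit 3031810342) (nat_lit 76) (nat_lit 446889958) (nat_lit 290) (nat_lit 5) (nat_lit 301) (nat_lit 5) (nat_lit 291) (nat_lit 5) (nat_lit 357) (nat_lit 337) (nat_lit 326)) (XT.lf (nat_lit 0) (nat_lit 2199731624) (nat_lit 456) (nat_lit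 4744516372) (nat_lit 532) (nat_lit 569828404) (nat_lit 284) (nat_lit 5) (nat_lit 290) (nat_lit 5) (nat_lit 291) (nat_lit 5) (nat_lit 358) (nat_lit 337) (nat_lit 325))) (XT.nd (nat_lit 78) (nat_lit 380) (nat_lit 0) (XT.lf (nat_lit 0) (nat_lit 2327293898) (nat_lit 532) (nat_lit 24833519) (nat_lit 76) (nat_lit 5293919038) (nat_lit 283) (nat_lit 5) (nat_lit 290) (nat_lit 5) (nat_lit 284) (nat_lit 5) (nat_lit 359) (nat_lit 337) (nat_lit 324)) (XT.lf (nat_lit 0) (nat_lit 5317192595) (nat_lit 456) (nat_lit 2227052040) (nat_lit 76) (nat_lit 241549793) (nat_lit 278) (nat_lit 5) (nat_lit 284) (nat_lit 5) (nat_lit 279) (nat_lit 5) (nat_lit 360) (nat_lit 337) (nat_lit 323)))) (XT.nd (nat_lit 156) (nat_lit 380) (nat_lit 0) (XT.nd (nat_lit 78) (nat_lit 304) (nat_lit 0) (XT.lf (nat_lit 0) (nat_lit 479182262) (nat_lit 456) (nat_lit 4519462389) (nat_lit 76) (nat_lit 2934881102) (nat_lit 272) (nat_lit 5) (nat_lit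 278) (nat_lit 5) (nat_lit 273) (nat_lit 5) (nat_lit 361) (nat_lit 337) (nat_lit 322)) (XT.lf (nat_lit 0) (nat_lit 1184297692) (nat_lit 304) (nat_lit 2245535109) (nat_lit 380) (nat_lit 4659865477) (nat_lit 268) (nat_lit 5) (nat_lit 272) (nat_lit 5) (nat_lit 273) (nat_lit 5) (nat_lit 362) (nat_lit 337) (nat_lit 321))) (XT.nd (nat_lit 78) (nat_lit 380) (nat_lit 0) (XT.lf (nat_lit 0) (nat_lit 6500618147) (nat_lit 380) (nat_lit 1074465385) (nat_lit 76) (nat_lit 679965784) (nat_lit 268) (nat_lit 5) (nat_lit 273) (nat_lit 5) (nat_lit 269) (nat_lit 5) (nat_lit 363) (nat_lit 337) (nat_lit 320)) (XT.lf (nat_lit 0) (nat_lit 1260536575) (nat_lit 380) (nat_lit 3412940830) (nat_lit 76) (nat_lit 3753891047) (nat_lit 263) (nat_lit 5) (nat_lit 268) (nat_lit 5) (nat_lit 264) (nat_lit 5) (nat_lit 364) (nat_lit 337) (nat_lit 319)))))) (XT.nd (nat_lit 624) (nat_lit 1368) (nat_lit 0) (XT.nd (nat_lit 312) (nat_lit 836)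 (nat_lit 0) (XT.nd (nat_lit 156) (nat_lit 304) (nat_lit 0) (XT.nd (nat_lit 78) (nat_lit 304) (nat_lit 0) (XT.lf (nat_lit 0) (nat_lit 2758932044) (nat_lit 304) (nat_lit 1561533821) (nat_lit 380) (nat_lit 4288740942) (nat_lit 259) (nat_lit 5) (nat_lit 263) (nat_lit 5) (nat_lit 264) (nat_lit 5) (nat_lit 365) (nat_lit 337) (nat_lit 318)) (XT.lf (nat_lit 0) (nat_lit 405482458) (nat_lit 304) (nat_lit 7113794144) (nat_lit 380) (nat_lit 1281566230) (nat_lit 255) (nat_lit 5) (nat_lit 259) (nat_lit 5) (nat_lit 260) (nat_lit 5) (nat_lit 366) (nat_lit 337) (nat_lit 317))) (XT.nd (nat_lit 78) (nat_lit 228) (nat_lit 0) (XT.lf (nat_lit 0) (nat_lit 1837589032) (nat_lit 380) (nat_lit 2018229403) (nat_lit 76) (nat_lit 5143694543) (nat_lit 254) (nat_lit 5) (nat_lit 259) (nat_lit 5) (nat_lit 255) (nat_lit 5) (nat_lit 367) (nat_lit 337) (nat_lit 316)) (XT.lf (nat_lit 0) (nat_lit 4671261969) (nat_lit 228) (nat_lit 371649325)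 (nat_lit 304) (nat_lit 4165490959) (nat_lit 251) (nat_lit 5) (nat_lit 254) (nat_lit 5) (nat_lit 255) (nat_lit 5) (nat_lit 368) (nat_lit 337) (nat_lit 315)))) (XT.nd (nat_lit 156) (nat_lit 456) (nat_lit 0) (XT.nd (nat_lit 78) (nat_lit 76) (nat_lit 0) (XT.lf (nat_lit 0) (nat_lit 2221383442) (nat_lit 304) (nat_lit 6210312269) (nat_lit 380) (nat_lit 994880481) (nat_lit 247) (nat_lit 5) (nat_lit 251) (nat_lit 5) (nat_lit 252) (nat_lit 5) (nat_lit 369) (nat_lit 337) (nat_lit 314)) (XT.lf (nat_lit 0) (nat_lit 2247180772) (nat_lit 380) (nat_lit 358350764) (nat_lit 76) (nat_lit 7048923515) (nat_lit 246) (nat_lit 5) (nat_lit 251) (nat_lit 5) (nat_lit 247) (nat_lit 5) (nat_lit 370) (nat_lit 337) (nat_lit 313))) (XT.nd (nat_lit 78) (nat_lit 228) (nat_lit 0) (XT.lf (nat_lit 0) (nat_lit 5653571399) (nat_lit 304) (nat_lit 3007972842) (nat_lit 76) (nat_lit 1229585095) (nat_lit 243) (nat_lit 5) (nat_lit 247) (nat_lit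 5) (nat_lit 244) (nat_lit 5) (nat_lit 371) (nat_lit 337) (nat_lit 312)) (XT.lf (nat_lit 0) (nat_lit 4322116060) (nat_lit 228) (nat_lit 4934303831) (nat_lit 304) (nat_lit 881910528) (nat_lit 240) (nat_lit 5) (nat_lit 243) (nat_lit 5) (nat_lit 244) (nat_lit 5) (nat_lit 372) (nat_lit 337) (nat_lit 311))))) (XT.nd (nat_lit 312) (nat_lit 608) (nat_lit 0) (XT.nd (nat_lit 156) (nat_lit 456) (nat_lit 0) (XT.nd (nat_lit 78) (nat_lit 0) (nat_lit 0) (XT.lf (nat_lit 0) (nat_lit 1602964013) (nat_lit 228) (nat_lit 941396788) (nat_lit 304) (nat_lit 7852099346) (nat_lit 236) (nat_lit 5) (nat_lit 239) (nat_lit 5) (nat_lit 240) (nat_lit 5) (nat_lit 373) (nat_lit 337) (nat_lit 310)) (XT.lf (nat_lit 0) (nat_lit 6175266953) (nat_lit 304) (nat_lit 1269936432) (nat_lit 76) (nat_lit 3218422138) (nat_lit 236) (nat_lit 5) (nat_lit 240) (nat_lit 5) (nat_lit 237) (nat_lit 5) (nat_lit 374) (nat_lit 337) (nat_lit 309))) (XT.nd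 (nat_lit 78) (nat_lit 228) (nat_lit 0) (XT.lf (nat_lit 0) (nat_lit 6699695606) (nat_lit 228) (nat_lit 3324327435) (nat_lit 304) (nat_lit 918310895) (nat_lit 233) (nat_lit 5) (nat_lit 236) (nat_lit 5) (nat_lit 237) (nat_lit 5) (nat_lit 375) (nat_lit 337) (nat_lit 308)) (XT.lf (nat_lit 0) (nat_lit 2755171441) (nat_lit 228) (nat_lit 7423680893) (nat_lit 76) (nat_lit 1053140156) (nat_lit 230) (nat_lit 5) (nat_lit 233) (nat_lit 5) (nat_lit 231) (nat_lit 5) (nat_lit 376) (nat_lit 337) (nat_lit 307)))) (XT.nd (nat_lit 156) (nat_lit 380) (nat_lit 0) (XT.nd (nat_lit 78) (nat_lit 0) (nat_lit 0) (XT.lf (nat_lit 0) (nat_lit 697141854) (nat_lit 228) (nat_lit 5940905291) (nat_lit 304) (nat_lit 4894505089) (nat_lit 227) (nat_lit 5) (nat_lit 230) (nat_lit 5) (nat_lit 231) (nat_lit 5) (nat_lit 377) (nat_lit 337) (nat_lit 306)) (XT.lf (nat_lit 0) (nat_lit 9352848015) (nat_lit 228) (nat_lit 1407996550) (nat_lit 304)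 (nat_lit 1085006501) (nat_lit 227) (nat_lit 5) (nat_lit 230) (nat_lit 5) (nat_lit 231) (nat_lit 5) (nat_lit 378) (nat_lit 337) (nat_lit 305))) (XT.nd (nat_lit 78) (nat_lit 152) (nat_lit 0) (XT.lf (nat_lit 0) (nat_lit 2896537502) (nat_lit 228) (nat_lit 5928176552) (nat_lit 76) (nat_lit 3344081866) (nat_lit 224) (nat_lit 5) (nat_lit 227) (nat_lit 5) (nat_lit 225) (nat_lit 5) (nat_lit 379) (nat_lit 337) (nat_lit 304)) (XT.lf (nat_lit 0) (nat_lit 2917175903) (nat_lit 152) (nat_lit 4158688083) (nat_lit 228) (nat_lit 5429376249) (nat_lit 222) (nat_lit 5) (nat_lit 224) (nat_lit 5) (nat_lit 225) (nat_lit 5) (nat_lit 380) (nat_lit 337) (nat_lit 303)))))))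
noncomputable def xc120 : XT := (XT.nd (nat_lit 1248) (nat_lit 1520) (nat_lit 0) (XT.nd (nat_lit 624) (nat_lit 836) (nat_lit 0) (XT.nd (nat_lit 312) (nat_lit 380) (nat_lit 0) (XT.nd (nat_lit 156) (nat_lit 304) (nat_lit 0) (XT.nd (nat_lit 78) (nat_lit 228) (nat_lit 0) (XT.lf (nat_lit 0) (nat_lit 11502313238) (nat_lit 228) (nat_lit 583337141) (nat_lit 76) (nat_lit 770948565) (nat_lit 222) (nat_lit 5) (nat_lit 225) (nat_lit 5) (nat_lit 223) (nat_lit 4) (nat_lit 381) (nat_lit 337) (nat_lit 302)) (XT.lf (nat_lit 0) (nat_lit 2969545642) (nat_lit 228) (nat_lit 4297268056) (nat_lit 76) (nat_lit 5949499340) (nat_lit 219) (nat_lit 5) (nat_lit 222) (nat_lit 5) (nat_lit 220) (nat_lit 5) (nat_lit 382) (nat_lit 337) (nat_lit 301))) (XT.nd (nat_lit 78) (nat_lit 152) (nat_lit 0) (XT.lf (nat_lit 0) (nat_lit 5350569755) (nat_lit 152) (nat_lit 2135615535) (nat_lit 228) (nat_lit 6105610997) (nat_lit 217) (nat_lit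 5) (nat_lit 219) (nat_lit 5) (nat_lit 220) (nat_lit 5) (nat_lit 383) (nat_lit 337) (nat_lit 300)) (XT.lf (nat_lit 0) (nat_lit 1521964092) (nat_lit 152) (nat_lit 10784508706) (nat_lit 228) (nat_lit 1675690104) (nat_lit 215) (nat_lit 5) (nat_lit 217) (nat_lit 5) (nat_lit 218) (nat_lit 4) (nat_lit 384) (nat_lit 337) (nat_lit 299)))) (XT.nd (nat_lit 156) (nat_lit 152) (nat_lit 0) (XT.nd (nat_lit 78) (nat_lit 152) (nat_lit 0) (XT.lf (nat_lit 0) (nat_lit 2987013806) (nat_lit 228) (nat_lit 2532104301) (nat_lit 76) (nat_lit 8865280330) (nat_lit 214) (nat_lit 5) (nat_lit 217) (nat_lit 5) (nat_lit 215) (nat_lit 5) (nat_lit 385) (nat_lit 337) (nat_lit 298)) (XT.lf (nat_lit 0) (nat_lit 7886387707) (nat_lit 228) (nat_lit 6800097211) (nat_lit 76) (nat_lit 115894865) (nat_lit 212) (nat_lit 5) (nat_lit 215) (nat_lit 5) (nat_lit 213) (nat_lit 4) (nat_lit 386) (nat_lit 337) (nat_lit 297))) (XT.nd (nat_lit 78) (nat_lit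 76) (nat_lit 0) (XT.lf (nat_lit 0) (nat_lit 3825967301) (nat_lit 76) (nat_lit 9332194554) (nat_lit 152) (nat_lit 2076726763) (nat_lit 211) (nat_lit 5) (nat_lit 212) (nat_lit 5) (nat_lit 213) (nat_lit 4) (nat_lit 387) (nat_lit 337) (nat_lit 296)) (XT.lf (nat_lit 0) (nat_lit 2959314352) (nat_lit 152) (nat_lit 630420941) (nat_lit 76) (nat_lit 12094393401) (nat_lit 210) (nat_lit 5) (nat_lit 212) (nat_lit 5) (nat_lit 211) (nat_lit 5) (nat_lit 388) (nat_lit 337) (nat_lit 295))))) (XT.nd (nat_lit 312) (nat_lit 380) (nat_lit 0) (XT.nd (nat_lit 156) (nat_lit 228) (nat_lit 0) (XT.nd (nat_lit 78) (nat_lit 76) (nat_lit 0) (XT.lf (nat_lit 0) (nat_lit 8325118840) (nat_lit 228) (nat_lit 5300127886) (nat_lit 76) (nat_lit 2521494164) (nat_lit 208) (nat_lit 5) (nat_lit 211) (nat_lit 5) (nat_lit 209) (nat_lit 4) (nat_lit 389) (nat_lit 337) (nat_lit 294)) (XT.lf (nat_lit 0) (nat_lit 6317942765) (nat_lit 76) (nat_lit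 7747195313) (nat_lit 152) (nat_lit 2562049391) (nat_lit 207) (nat_lit 5) (nat_lit 208) (nat_lit 5) (nat_lit 209) (nat_lit 4) (nat_lit 390) (nat_lit 337) (nat_lit 293))) (XT.nd (nat_lit 78) (nat_lit 0) (nat_lit 0) (XT.lf (nat_lit 0) (nat_lit 1459867027) (nat_lit 152) (nat_lit 1457727151) (nat_lit 228) (nat_lit 14209158772) (nat_lit 204) (nat_lit 5) (nat_lit 206) (nat_lit 5) (nat_lit 207) (nat_lit 5) (nat_lit 391) (nat_lit 337) (nat_lit 292)) (XT.lf (nat_lit 0) (nat_lit 8781185089) (nat_lit 228) (nat_lit 3705793818) (nat_lit 76) (nat_lit 5152414416) (nat_lit 204) (nat_lit 5) (nat_lit 207) (nat_lit 5) (nat_lit 205) (nat_lit 4) (nat_lit 392) (nat_lit 337) (nat_lit 291)))) (XT.nd (nat_lit 156) (nat_lit 76) (nat_lit 0) (XT.nd (nat_lit 78) (nat_lit 228) (nat_lit 0) (XT.lf (nat_lit 0) (nat_lit 9009860918) (nat_lit 76) (nat_lit 6033866477) (nat_lit 152) (nat_lit 3128649728) (nat_lit 203) (nat_lit 5) (nat_lit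 204) (nat_lit 5) (nat_lit 205) (nat_lit 4) (nat_lit 393) (nat_lit 337) (nat_lit 290)) (XT.lf (nat_lit 0) (nat_lit 2871884290) (nat_lit 228) (nat_lit 15014066904) (nat_lit 76) (nat_lit 839959308) (nat_lit 200) (nat_lit 5) (nat_lit 203) (nat_lit 5) (nat_lit 201) (nat_lit 4) (nat_lit 394) (nat_lit 337) (nat_lit 289))) (XT.nd (nat_lit 78) (nat_lit 76) (nat_lit 0) (XT.lf (nat_lit 0) (nat_lit 9265699470) (nat_lit 228) (nat_lit 2012615122) (nat_lit 76) (nat_lit 8016321612) (nat_lit 200) (nat_lit 5) (nat_lit 203) (nat_lit 5) (nat_lit 201) (nat_lit 4) (nat_lit 395) (nat_lit 337) (nat_lit 288)) (XT.lf (nat_lit 0) (nat_lit 11916967154) (nat_lit 76) (nat_lit 4192834860) (nat_lit 152) (nat_lit 3775466346) (nat_lit 199) (nat_lit 5) (nat_lit 200) (nat_lit 5) (nat_lit 201) (nat_lit 4) (nat_lit 396) (nat_lit 337) (nat_lit 287)))))) (XT.nd (nat_lit 624) (nat_lit 684) (nat_lit 0) (XT.nd (nat_lit 312) (nat_lit 304)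 (nat_lit 0) (XT.nd (nat_lit 156) (nat_lit 304) (nat_lit 0) (XT.nd (nat_lit 78) (nat_lit 0) (nat_lit 0) (XT.lf (nat_lit 0) (nat_lit 2829655260) (nat_lit 228) (nat_lit 14393638701) (nat_lit 76) (nat_lit 3273544807) (nat_lit 196) (nat_lit 5) (nat_lit 199) (nat_lit 5) (nat_lit 197) (nat_lit 4) (nat_lit 397) (nat_lit 337) (nat_lit 286)) (XT.lf (nat_lit 0) (nat_lit 9789047536) (nat_lit 228) (nat_lit 213983500) (nat_lit 76) (nat_lit 11125317266) (nat_lit 196) (nat_lit 5) (nat_lit 199) (nat_lit 5) (nat_lit 197) (nat_lit 4) (nat_lit 398) (nat_lit 337) (nat_lit 285))) (XT.nd (nat_lit 78) (nat_lit 228) (nat_lit 0) (XT.lf (nat_lit 0) (nat_lit 15057718491) (nat_lit 76) (nat_lit 2221403867) (nat_lit 152) (nat_lit 4503175307) (nat_lit 195) (nat_lit 5) (nat_lit 196) (nat_lit 5) (nat_lit 197) (nat_lit 4) (nat_lit 399) (nat_lit 337) (nat_lit 284)) (XT.lf (nat_lit 0) (nat_lit 2772677668) (nat_lit 228) (nat_lit 13785995231)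 (nat_lit 76) (nat_lit 5899007069) (nat_lit 192) (nat_lit 5) (nat_lit 195) (nat_lit 5) (nat_lit 193) (nat_lit 4) (nat_lit 400) (nat_lit 337) (nat_lit 283)))) (XT.nd (nat_lit 156) (nat_lit 228) (nat_lit 0) (XT.nd (nat_lit 78) (nat_lit 0) (nat_lit 0) (XT.lf (nat_lit 0) (nat_lit 1754891827) (nat_lit 76) (nat_lit 8633660763) (nat_lit 152) (nat_lit 12768209391) (nat_lit 191) (nat_lit 5) (nat_lit 192) (nat_lit 5) (nat_lit 193) (nat_lit 4) (nat_lit 401) (nat_lit 337) (nat_lit 282)) (XT.lf (nat_lit 0) (nat_lit 18453786196) (nat_lit 76) (nat_lit 113858437) (nat_lit 152) (nat_lit 5314032294) (nat_lit 191) (nat_lit 5) (nat_lit 192) (nat_lit 5) (nat_lit 193) (nat_lit 4) (nat_lit 402) (nat_lit 337) (nat_lit 281))) (XT.nd (nat_lit 78) (nat_lit 76) (nat_lit 0) (XT.lf (nat_lit 0) (nat_lit 2704625239) (nat_lit 152) (nat_lit 13193499109) (nat_lit 76) (nat_lit 8729141709) (nat_lit 189) (nat_lit 5) (nat_lit 191) (nat_lit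 5) (nat_lit 190) (nat_lit 4) (nat_lit 403) (nat_lit 337) (nat_lit 280)) (XT.lf (nat_lit 0) (nat_lit 3859613798) (nat_lit 76) (nat_lit 7192360179) (nat_lit 152) (nat_lit 14348487668) (nat_lit 188) (nat_lit 5) (nat_lit 189) (nat_lit 5) (nat_lit 190) (nat_lit 4) (nat_lit 404) (nat_lit 337) (nat_lit 279))))) (XT.nd (nat_lit 312) (nat_lit 456) (nat_lit 0) (XT.nd (nat_lit 156) (nat_lit 76) (nat_lit 0) (XT.nd (nat_lit 78) (nat_lit 152) (nat_lit 0) (XT.lf (nat_lit 0) (nat_lit 20025187939) (nat_lit 152) (nat_lit 4106828270) (nat_lit 0) (nat_lit 2069875914) (nat_lit 188) (nat_lit 5) (nat_lit 190) (nat_lit 4) (nat_lit 188) (nat_lit 4) (nat_lit 405) (nat_lit 337) (nat_lit 278)) (XT.lf (nat_lit 0) (nat_lit 2628469934) (nat_lit 152) (nat_lit 12617873620) (nat_lit 76) (nat_lit 11780087479) (nat_lit 186) (nat_lit 5) (nat_lit 188) (nat_lit 5) (nat_lit 187) (nat_lit 4) (nat_lit 406) (nat_lit 337) (nat_lit 277)))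 (XT.nd (nat_lit 78) (nat_lit 0) (nat_lit 0) (XT.lf (nat_lit 0) (nat_lit 6106023127) (nat_lit 76) (nat_lit 5679713494) (nat_lit 152) (nat_lit 16095426813) (nat_lit 185) (nat_lit 5) (nat_lit 186) (nat_lit 5) (nat_lit 187) (nat_lit 4) (nat_lit 407) (nat_lit 337) (nat_lit 276)) (XT.lf (nat_lit 0) (nat_lit 21639753027) (nat_lit 152) (nat_lit 2726160548) (nat_lit 0) (nat_lit 4400774561) (nat_lit 185) (nat_lit 5) (nat_lit 187) (nat_lit 4) (nat_lit 185) (nat_lit 4) (nat_lit 408) (nat_lit 337) (nat_lit 275)))) (XT.nd (nat_lit 156) (nat_lit 228) (nat_lit 0) (XT.nd (nat_lit 78) (nat_lit 76) (nat_lit 0) (XT.lf (nat_lit 0) (nat_lit 2546608774) (nat_lit 152) (nat_lit 12060326570) (nat_lit 76) (nat_lit 15071270014) (nat_lit 183) (nat_lit 5) (nat_lit 185) (nat_lit 5) (nat_lit 184) (nat_lit 4) (nat_lit 409) (nat_lit 337) (nat_lit 274)) (XT.lf (nat_lit 0) (nat_lit 8509046117) (nat_lit 76) (nat_lit 4090866913) (nat_lit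 152) (nat_lit 18022763913) (nat_lit 182) (nat_lit 5) (nat_lit 183) (nat_lit 5) (nat_lit 184) (nat_lit 4) (nat_lit 410) (nat_lit 337) (nat_lit 273))) (XT.nd (nat_lit 78) (nat_lit 228) (nat_lit 0) (XT.lf (nat_lit 0) (nat_lit 23427946782) (nat_lit 152) (nat_lit 1277043507) (nat_lit 0) (nat_lit 6895778605) (nat_lit 182) (nat_lit 5) (nat_lit 184) (nat_lit 4) (nat_lit 182) (nat_lit 4) (nat_lit 411) (nat_lit 337) (nat_lit 272)) (XT.nd (nat_lit 78) (nat_lit 76) (nat_lit 0) (XT.lf (nat_lit 0) (nat_lit 2460968059) (nat_lit 152) (nat_lit 11521651674) (nat_lit 76) (nat_lit 18625412392) (nat_lit 180) (nat_lit 5) (nat_lit 182) (nat_lit 5) (nat_lit 181) (nat_lit 4) (nat_lit 412) (nat_lit 337) (nat_lit 271)) (XT.lf (nat_lit 0) (nat_lit 11085673453) (nat_lit 76) (nat_lit 2419271099) (nat_lit 152) (nat_lit 20146357068) (nat_lit 179) (nat_lit 5) (nat_lit 180) (nat_lit 5) (nat_lit 181) (nat_lit 4) (nat_lit 413) (nat_lit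 337) (nat_lit 270))))))))
noncomputable def xc121 : XT := (XT.nd (nat_lit 2496) (nat_lit 2432) (nat_lit 0) (XT.nd (nat_lit 1248) (nat_lit 1216) (nat_lit 0) (XT.nd (nat_lit 624) (nat_lit 608) (nat_lit 0) (XT.nd (nat_lit 312) (nat_lit 304) (nat_lit 0) (XT.nd (nat_lit 156) (nat_lit 152) (nat_lit 0) (XT.nd (nat_lit 78) (nat_lit 76) (nat_lit 0) (XT.lf (nat_lit 0) (nat_lit 256987995) (nat_lit 76) (nat_lit 25156458646) (nat_lit 76) (nat_lit 9317671610) (nat_lit 178) (nat_lit 4) (nat_lit 179) (nat_lit 5) (nat_lit 179) (nat_lit 4) (nat_lit 414) (nat_lit 337) (nat_lit 269)) (XT.lf (nat_lit 0) (nat_lit 2373089006) (nat_lit 152) (nat_lit 11002311496) (nat_lit 76) (nat_lit 22468606388) (nat_lit 177) (nat_lit 5) (nat_lit 179) (nat_lit 5) (nat_lit 178) (nat_lit 4) (nat_lit 415) (nat_lit 337) (nat_lit 268))) (XT.nd (nat_lit 78) (nat_lit 76) (nat_lit 0) (XT.lf (nat_lit 0) (nat_lit 13855048193) (nat_lit 76) (nat_lit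 656756073) (nat_lit 152) (nat_lit 22484270684) (nat_lit 176) (nat_lit 5) (nat_lit 177) (nat_lit 5) (nat_lit 178) (nat_lit 4) (nat_lit 416) (nat_lit 337) (nat_lit 267)) (XT.lf (nat_lit 0) (nat_lit 1922207081) (nat_lit 76) (nat_lit 25713211591) (nat_lit 76) (nat_lit 10551429572) (nat_lit 175) (nat_lit 4) (nat_lit 176) (nat_lit 5) (nat_lit 176) (nat_lit 4) (nat_lit 417) (nat_lit 337) (nat_lit 266)))) (XT.nd (nat_lit 156) (nat_lit 152) (nat_lit 0) (XT.nd (nat_lit 78) (nat_lit 76) (nat_lit 0) (XT.lf (nat_lit 0) (nat_lit 2284198097) (nat_lit 152) (nat_lit 10502505231) (nat_lit 76) (nat_lit 26630439999) (nat_lit 174) (nat_lit 5) (nat_lit 176) (nat_lit 5) (nat_lit 175) (nat_lit 4) (nat_lit 418) (nat_lit 337) (nat_lit 265)) (XT.lf (nat_lit 0) (nat_lit 15650989828) (nat_lit 152) (nat_lit 23869296962) (nat_lit 0) (nat_lit 1167818665) (nat_lit 173) (nat_lit 5) (nat_lit 175) (nat_lit 4) (nat_lit 173) (nat_lit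 4) (nat_lit 419) (nat_lit 337) (nat_lit 264))) (XT.nd (nat_lit 78) (nat_lit 76) (nat_lit 0) (XT.lf (nat_lit 0) (nat_lit 3687387751) (nat_lit 76) (nat_lit 26409018785) (nat_lit 76) (nat_lit 11905694885) (nat_lit 172) (nat_lit 4) (nat_lit 173) (nat_lit 5) (nat_lit 173) (nat_lit 4) (nat_lit 420) (nat_lit 337) (nat_lit 263)) (XT.lf (nat_lit 0) (nat_lit 2195264854) (nat_lit 152) (nat_lit 10022224029) (nat_lit 76) (nat_lit 31144178243) (nat_lit 171) (nat_lit 5) (nat_lit 173) (nat_lit 5) (nat_lit 172) (nat_lit 4) (nat_lit 421) (nat_lit 337) (nat_lit 262))))) (XT.nd (nat_lit 312) (nat_lit 304) (nat_lit 0) (XT.nd (nat_lit 156) (nat_lit 152) (nat_lit 0) (XT.nd (nat_lit 78) (nat_lit 76) (nat_lit 0) (XT.lf (nat_lit 0) (nat_lit 16928173305) (nat_lit 152) (nat_lit 24755132480) (nat_lit 0) (nat_lit 3079796060) (nat_lit 170) (nat_lit 5) (nat_lit 172) (nat_lit 4) (nat_lit 170) (nat_lit 4) (nat_lit 422) (nat_lit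 337) (nat_lit 261)) (XT.lf (nat_lit 0) (nat_lit 5564846306) (nat_lit 76) (nat_lit 27256762433) (nat_lit 76) (nat_lit 13391805482) (nat_lit 169) (nat_lit 4) (nat_lit 170) (nat_lit 5) (nat_lit 170) (nat_lit 4) (nat_lit 423) (nat_lit 337) (nat_lit 260))) (XT.nd (nat_lit 78) (nat_lit 76) (nat_lit 0) (XT.lf (nat_lit 0) (nat_lit 2107049283) (nat_lit 152) (nat_lit 9561296116) (nat_lit 76) (nat_lit 36046995483) (nat_lit 168) (nat_lit 5) (nat_lit 170) (nat_lit 5) (nat_lit 169) (nat_lit 4) (nat_lit 424) (nat_lit 337) (nat_lit 259)) (XT.lf (nat_lit 0) (nat_lit 18346806960) (nat_lit 152) (nat_lit 25801053794) (nat_lit 0) (nat_lit 5112725599) (nat_lit 167) (nat_lit 5) (nat_lit 169) (nat_lit 4) (nat_lit 167) (nat_lit 4) (nat_lit 425) (nat_lit 337) (nat_lit 258)))) (XT.nd (nat_lit 156) (nat_lit 152) (nat_lit 0) (XT.nd (nat_lit 78) (nat_lit 76) (nat_lit 0) (XT.lf (nat_lit 0) (nat_lit 7568292940) (nat_lit 76) (nat_lit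 28270261300) (nat_lit 76) (nat_lit 15022539773) (nat_lit 166) (nat_lit 4) (nat_lit 167) (nat_lit 5) (nat_lit 167) (nat_lit 4) (nat_lit 426) (nat_lit 337) (nat_lit 257)) (XT.lf (nat_lit 0) (nat_lit 2020140807) (nat_lit 152) (nat_lit 9119423505) (nat_lit 76) (nat_lit 41380258647) (nat_lit 165) (nat_lit 5) (nat_lit 167) (nat_lit 5) (nat_lit 166) (nat_lit 4) (nat_lit 427) (nat_lit 337) (nat_lit 256))) (XT.nd (nat_lit 78) (nat_lit 76) (nat_lit 0) (XT.lf (nat_lit 0) (nat_lit 19921780209) (nat_lit 152) (nat_lit 27021062908) (nat_lit 0) (nat_lit 7280747645) (nat_lit 164) (nat_lit 5) (nat_lit 166) (nat_lit 4) (nat_lit 164) (nat_lit 4) (nat_lit 428) (nat_lit 337) (nat_lit 255)) (XT.lf (nat_lit 0) (nat_lit 9712927556) (nat_lit 76) (nat_lit 29464464616) (nat_lit 76) (nat_lit 16812210255) (nat_lit 163) (nat_lit 4) (nat_lit 164) (nat_lit 5) (nat_lit 164) (nat_lit 4) (nat_lit 429) (nat_lit 337) (nat_lit 254))))))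 (XT.nd (nat_lit 624) (nat_lit 608) (nat_lit 0) (XT.nd (nat_lit 312) (nat_lit 304) (nat_lit 0) (XT.nd (nat_lit 156) (nat_lit 152) (nat_lit 0) (XT.nd (nat_lit 78) (nat_lit 76) (nat_lit 0) (XT.lf (nat_lit 0) (nat_lit 1934990219) (nat_lit 152) (nat_lit 8696211837) (nat_lit 76) (nat_lit 47189861682) (nat_lit 162) (nat_lit 5) (nat_lit 164) (nat_lit 5) (nat_lit 163) (nat_lit 4) (nat_lit 430) (nat_lit 337) (nat_lit 253)) (XT.lf (nat_lit 0) (nat_lit 21669331763) (nat_lit 152) (nat_lit 28430553381) (nat_lit 0) (nat_lit 9599693393) (nat_lit 161) (nat_lit 5) (nat_lit 163) (nat_lit 4) (nat_lit 161) (nat_lit 4) (nat_lit 431) (nat_lit 337) (nat_lit 252))) (XT.nd (nat_lit 78) (nat_lit 76) (nat_lit 0) (XT.lf (nat_lit 0) (nat_lit 12015554896) (nat_lit 76) (nat_lit 30855647086) (nat_lit 76) (nat_lit 18776776514) (nat_lit 160) (nat_lit 4) (nat_lit 161) (nat_lit 5) (nat_lit 161) (nat_lit 4) (nat_lit 432) (nat_lit 337)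 (nat_lit 251)) (XT.lf (nat_lit 0) (nat_lit 1851935888) (nat_lit 152) (nat_lit 8291194572) (nat_lit 76) (nat_lit 53526612497) (nat_lit 159) (nat_lit 5) (nat_lit 161) (nat_lit 5) (nat_lit 160) (nat_lit 4) (nat_lit 433) (nat_lit 337) (nat_lit 250)))) (XT.nd (nat_lit 156) (nat_lit 152) (nat_lit 0) (XT.nd (nat_lit 78) (nat_lit 76) (nat_lit 0) (XT.lf (nat_lit 0) (nat_lit 23607224416) (nat_lit 152) (nat_lit 30046483100) (nat_lit 0) (nat_lit 12087189158) (nat_lit 158) (nat_lit 5) (nat_lit 160) (nat_lit 4) (nat_lit 158) (nat_lit 4) (nat_lit 434) (nat_lit 337) (nat_lit 249)) (XT.lf (nat_lit 0) (nat_lit 14494719194) (nat_lit 76) (nat_lit 32461608490) (nat_lit 76) (nat_lit 20933977877) (nat_lit 157) (nat_lit 4) (nat_lit 158) (nat_lit 5) (nat_lit 158) (nat_lit 4) (nat_lit 435) (nat_lit 337) (nat_lit 248))) (XT.nd (nat_lit 78) (nat_lit 76) (nat_lit 0) (XT.lf (nat_lit 0) (nat_lit 1771225234) (nat_lit 152) (nat_lit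 7903852552) (nat_lit 76) (nat_lit 60446674474) (nat_lit 156) (nat_lit 5) (nat_lit 158) (nat_lit 5) (nat_lit 157) (nat_lit 4) (nat_lit 436) (nat_lit 337) (nat_lit 247)) (XT.lf (nat_lit 0) (nat_lit 25754931030) (nat_lit 152) (nat_lit 31887558348) (nat_lit 0) (nat_lit 14762784845) (nat_lit 155) (nat_lit 5) (nat_lit 157) (nat_lit 4) (nat_lit 155) (nat_lit 4) (nat_lit 437) (nat_lit 337) (nat_lit 246))))) (XT.nd (nat_lit 312) (nat_lit 304) (nat_lit 0) (XT.nd (nat_lit 156) (nat_lit 152) (nat_lit 0) (XT.nd (nat_lit 78) (nat_lit 76) (nat_lit 0) (XT.lf (nat_lit 0) (nat_lit 17170858949) (nat_lit 76) (nat_lit 34301881169) (nat_lit 76) (nat_lit 23303486267) (nat_lit 154) (nat_lit 4) (nat_lit 155) (nat_lit 5) (nat_lit 155) (nat_lit 4) (nat_lit 438) (nat_lit 337) (nat_lit 245)) (XT.lf (nat_lit 0) (nat_lit 1693032332) (nat_lit 152) (nat_lit 7533629778) (nat_lit 76) (nat_lit 68012065452) (nat_lit 153) (nat_lit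 5) (nat_lit 155) (nat_lit 5) (nat_lit 154) (nat_lit 4) (nat_lit 439) (nat_lit 337) (nat_lit 244))) (XT.nd (nat_lit 78) (nat_lit 76) (nat_lit 0) (XT.lf (nat_lit 0) (nat_lit 28133834078) (nat_lit 152) (nat_lit 33974431523) (nat_lit 0) (nat_lit 17648106620) (nat_lit 152) (nat_lit 5) (nat_lit 154) (nat_lit 4) (nat_lit 152) (nat_lit 4) (nat_lit 440) (nat_lit 337) (nat_lit 243)) (XT.lf (nat_lit 0) (nat_lit 20066482722) (nat_lit 76) (nat_lit 36397948460) (nat_lit 76) (nat_lit 25907080167) (nat_lit 151) (nat_lit 4) (nat_lit 152) (nat_lit 5) (nat_lit 152) (nat_lit 4) (nat_lit 441) (nat_lit 337) (nat_lit 242)))) (XT.nd (nat_lit 156) (nat_lit 152) (nat_lit 0) (XT.nd (nat_lit 78) (nat_lit 76) (nat_lit 0) (XT.lf (nat_lit 0) (nat_lit 1617472317) (nat_lit 152) (nat_lit 7179946075) (nat_lit 76) (nat_lit 76291217842) (nat_lit 150) (nat_lit 5) (nat_lit 152) (nat_lit 5) (nat_lit 151) (nat_lit 4) (nat_lit 442) (nat_lit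 337) (nat_lit 241)) (XT.lf (nat_lit 0) (nat_lit 30767441113) (nat_lit 152) (nat_lit 36329914871) (nat_lit 0) (nat_lit 20767034242) (nat_lit 149) (nat_lit 5) (nat_lit 151) (nat_lit 4) (nat_lit 149) (nat_lit 4) (nat_lit 443) (nat_lit 337) (nat_lit 240))) (XT.nd (nat_lit 78) (nat_lit 76) (nat_lit 0) (XT.lf (nat_lit 0) (nat_lit 23206367120) (nat_lit 76) (nat_lit 38773477126) (nat_lit 76) (nat_lit 28768840878) (nat_lit 148) (nat_lit 4) (nat_lit 149) (nat_lit 5) (nat_lit 149) (nat_lit 4) (nat_lit 444) (nat_lit 337) (nat_lit 239)) (XT.lf (nat_lit 0) (nat_lit 1544613171) (nat_lit 152) (nat_lit 6842207226) (nat_lit 76) (nat_lit 85359604321) (nat_lit 147) (nat_lit 5) (nat_lit 149) (nat_lit 5) (nat_lit 148) (nat_lit 4) (nat_lit 445) (nat_lit 337) (nat_lit 238))))))) (XT.nd (nat_lit 1248) (nat_lit 1216) (nat_lit 0) (XT.nd (nat_lit 624) (nat_lit 608) (nat_lit 0) (XT.nd (nat_lit 312) (nat_lit 304) (nat_lit 0)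 (XT.nd (nat_lit 156) (nat_lit 152) (nat_lit 0) (XT.nd (nat_lit 78) (nat_lit 76) (nat_lit 0) (XT.lf (nat_lit 0) (nat_lit 33681618620) (nat_lit 152) (nat_lit 38979212675) (nat_lit 0) (nat_lit 24145903956) (nat_lit 146) (nat_lit 5) (nat_lit 148) (nat_lit 4) (nat_lit 146) (nat_lit 4) (nat_lit 446) (nat_lit 337) (nat_lit 237)) (XT.lf (nat_lit 0) (nat_lit 26617778492) (nat_lit 76) (nat_lit 41454566730) (nat_lit 76) (nat_lit 31915372547) (nat_lit 145) (nat_lit 4) (nat_lit 146) (nat_lit 5) (nat_lit 146) (nat_lit 4) (nat_lit 447) (nat_lit 337) (nat_lit 236))) (XT.nd (nat_lit 78) (nat_lit 76) (nat_lit 0) (XT.lf (nat_lit 0) (nat_lit 1474485357) (nat_lit 152) (nat_lit 6519813028) (nat_lit 76) (nat_lit 95300434319) (nat_lit 144) (nat_lit 5) (nat_lit 146) (nat_lit 5) (nat_lit 145) (nat_lit 4) (nat_lit 448) (nat_lit 337) (nat_lit 235)) (XT.lf (nat_lit 0) (nat_lit 36904846786) (nat_lit 152) (nat_lit 41950174458)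 (nat_lit 0) (nat_lit 27813738179) (nat_lit 143) (nat_lit 5) (nat_lit 145) (nat_lit 4) (nat_lit 143) (nat_lit 4) (nat_lit 449) (nat_lit 337) (nat_lit 234)))) (XT.nd (nat_lit 156) (nat_lit 152) (nat_lit 0) (XT.nd (nat_lit 78) (nat_lit 76) (nat_lit 0) (XT.lf (nat_lit 0) (nat_lit 30330720093) (nat_lit 76) (nat_lit 44470018981) (nat_lit 76) (nat_lit 35376047764) (nat_lit 142) (nat_lit 4) (nat_lit 143) (nat_lit 5) (nat_lit 143) (nat_lit 4) (nat_lit 450) (nat_lit 337) (nat_lit 233)) (XT.lf (nat_lit 0) (nat_lit 1407089684) (nat_lit 152) (nat_lit 6212163657) (nat_lit 76) (nat_lit 106205427340) (nat_lit 141) (nat_lit 5) (nat_lit 143) (nat_lit 5) (nat_lit 142) (nat_lit 4) (nat_lit 451) (nat_lit 337) (nat_lit 232))) (XT.nd (nat_lit 78) (nat_lit 76) (nat_lit 0) (XT.lf (nat_lit 0) (nat_lit 40468497899) (nat_lit 152) (nat_lit 45273571872) (nat_lit 0) (nat_lit 31802503630) (nat_lit 140) (nat_lit 5) (nat_lit 142)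 (nat_lit 4) (nat_lit 140) (nat_lit 4) (nat_lit 452) (nat_lit 337) (nat_lit 231)) (XT.lf (nat_lit 0) (nat_lit 34378206816) (nat_lit 76) (nat_lit 47851630133) (nat_lit 76) (nat_lit 39183280788) (nat_lit 139) (nat_lit 4) (nat_lit 140) (nat_lit 5) (nat_lit 140) (nat_lit 4) (nat_lit 453) (nat_lit 337) (nat_lit 230))))) (XT.nd (nat_lit 312) (nat_lit 304) (nat_lit 0) (XT.nd (nat_lit 156) (nat_lit 152) (nat_lit 0) (XT.nd (nat_lit 78) (nat_lit 76) (nat_lit 0) (XT.lf (nat_lit 0) (nat_lit 1342403720) (nat_lit 152) (nat_lit 5918664646) (nat_lit 76) (nat_lit 118175669958) (nat_lit 138) (nat_lit 5) (nat_lit 140) (nat_lit 5) (nat_lit 139) (nat_lit 4) (nat_lit 454) (nat_lit 337) (nat_lit 229)) (XT.lf (nat_lit 0) (nat_lit 44407141235) (nat_lit 152) (nat_lit 48983402161) (nat_lit 0) (nat_lit 36147399905) (nat_lit 137) (nat_lit 5) (nat_lit 139) (nat_lit 4) (nat_lit 137) (nat_lit 4) (nat_lit 455) (nat_lit 337) (nat_lit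 228))) (XT.nd (nat_lit 78) (nat_lit 76) (nat_lit 0) (XT.lf (nat_lit 0) (nat_lit 38796569874) (nat_lit 76) (nat_lit 51634509657) (nat_lit 76) (nat_lit 43372830800) (nat_lit 136) (nat_lit 4) (nat_lit 137) (nat_lit 5) (nat_lit 137) (nat_lit 4) (nat_lit 456) (nat_lit 337) (nat_lit 227)) (XT.lf (nat_lit 0) (nat_lit 1280387010) (nat_lit 152) (nat_lit 5638730749) (nat_lit 76) (nat_lit 131322564271) (nat_lit 135) (nat_lit 5) (nat_lit 137) (nat_lit 5) (nat_lit 136) (nat_lit 4) (nat_lit 457) (nat_lit 337) (nat_lit 226)))) (XT.nd (nat_lit 156) (nat_lit 152) (nat_lit 0) (XT.nd (nat_lit 78) (nat_lit 76) (nat_lit 0) (XT.lf (nat_lit 0) (nat_lit 48758877529) (nat_lit 152) (nat_lit 53117221268) (nat_lit 0) (nat_lit 40887180849) (nat_lit 134) (nat_lit 5) (nat_lit 136) (nat_lit 4) (nat_lit 134) (nat_lit 4) (nat_lit 458) (nat_lit 337) (nat_lit 225)) (XT.lf (nat_lit 0) (nat_lit 43625794156) (nat_lit 76) (nat_lit 55857428583)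 (nat_lit 76) (nat_lit 47984137895) (nat_lit 133) (nat_lit 4) (nat_lit 134) (nat_lit 5) (nat_lit 134) (nat_lit 4) (nat_lit 459) (nat_lit 337) (nat_lit 224))) (XT.nd (nat_lit 78) (nat_lit 76) (nat_lit 0) (XT.lf (nat_lit 0) (nat_lit 1220985321) (nat_lit 152) (nat_lit 5371788882) (nat_lit 76) (nat_lit 145768876468) (nat_lit 132) (nat_lit 5) (nat_lit 134) (nat_lit 5) (nat_lit 133) (nat_lit 4) (nat_lit 460) (nat_lit 337) (nat_lit 223)) (XT.lf (nat_lit 0) (nat_lit 53565706359) (nat_lit 152) (nat_lit 57716509920) (nat_lit 0) (nat_lit 46064511500) (nat_lit 131) (nat_lit 5) (nat_lit 133) (nat_lit 4) (nat_lit 131) (nat_lit 4) (nat_lit 461) (nat_lit 337) (nat_lit 222)))))) (XT.nd (nat_lit 624) (nat_lit 608) (nat_lit 0) (XT.nd (nat_lit 312) (nat_lit 304) (nat_lit 0) (XT.nd (nat_lit 156) (nat_lit 152) (nat_lit 0) (XT.nd (nat_lit 78) (nat_lit 76) (nat_lit 0) (XT.lf (nat_lit 0) (nat_lit 48909891306) (nat_lit 76)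 (nat_lit 60563201121) (nat_lit 76) (nat_lit 53060694868) (nat_lit 130) (nat_lit 4) (nat_lit 131) (nat_lit 5) (nat_lit 131) (nat_lit 4) (nat_lit 462) (nat_lit 337) (nat_lit 221)) (XT.lf (nat_lit 0) (nat_lit 1164134082) (nat_lit 152) (nat_lit 5117280331) (nat_lit 76) (nat_lit 161649895242) (nat_lit 129) (nat_lit 5) (nat_lit 131) (nat_lit 5) (nat_lit 130) (nat_lit 4) (nat_lit 463) (nat_lit 337) (nat_lit 220))) (XT.nd (nat_lit 78) (nat_lit 76) (nat_lit 0) (XT.lf (nat_lit 0) (nat_lit 58873930075) (nat_lit 152) (nat_lit 62827076323) (nat_lit 0) (nat_lit 51726363718) (nat_lit 128) (nat_lit 5) (nat_lit 130) (nat_lit 4) (nat_lit 128) (nat_lit 4) (nat_lit 464) (nat_lit 337) (nat_lit 219)) (XT.lf (nat_lit 0) (nat_lit 54697311961) (nat_lit 76) (nat_lit 65799103453) (nat_lit 76) (nat_lit 58650458209) (nat_lit 127) (nat_lit 4) (nat_lit 128) (nat_lit 5) (nat_lit 128) (nat_lit 4) (nat_lit 465) (nat_lit 337) (nat_lit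 218)))) (XT.nd (nat_lit 156) (nat_lit 152) (nat_lit 0) (XT.nd (nat_lit 78) (nat_lit 76) (nat_lit 0) (XT.lf (nat_lit 0) (nat_lit 1109761169) (nat_lit 152) (nat_lit 4874662358) (nat_lit 76) (nat_lit 179114710849) (nat_lit 126) (nat_lit 5) (nat_lit 128) (nat_lit 5) (nat_lit 127) (nat_lit 4) (nat_lit 466) (nat_lit 337) (nat_lit 217)) (XT.lf (nat_lit 0) (nat_lit 64734598209) (nat_lit 152) (nat_lit 68499499399) (nat_lit 0) (nat_lit 57924454078) (nat_lit 125) (nat_lit 5) (nat_lit 127) (nat_lit 4) (nat_lit 125) (nat_lit 4) (nat_lit 467) (nat_lit 337) (nat_lit 216))) (XT.nd (nat_lit 78) (nat_lit 76) (nat_lit 0) (XT.lf (nat_lit 0) (nat_lit 61041400954) (nat_lit 76) (nat_lit 71617333878) (nat_lit 76) (nat_lit 64806302143) (nat_lit 124) (nat_lit 4) (nat_lit 125) (nat_lit 5) (nat_lit 125) (nat_lit 4) (nat_lit 468) (nat_lit 337) (nat_lit 215)) (XT.lf (nat_lit 0) (nat_lit 1057789144) (nat_lit 152) (nat_lit 4643409324)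 (nat_lit 76) (nat_lit 198327626782) (nat_lit 123) (nat_lit 5) (nat_lit 125) (nat_lit 5) (nat_lit 124) (nat_lit 4) (nat_lit 469) (nat_lit 337) (nat_lit 214))))) (XT.nd (nat_lit 312) (nat_lit 304) (nat_lit 0) (XT.nd (nat_lit 156) (nat_lit 152) (nat_lit 0) (XT.nd (nat_lit 78) (nat_lit 76) (nat_lit 0) (XT.lf (nat_lit 0) (nat_lit 71203996712) (nat_lit 152) (nat_lit 74789616892) (nat_lit 0) (nat_lit 64715727995) (nat_lit 122) (nat_lit 5) (nat_lit 124) (nat_lit 4) (nat_lit 122) (nat_lit 4) (nat_lit 470) (nat_lit 337) (nat_lit 213)) (XT.lf (nat_lit 0) (nat_lit 68000899751) (nat_lit 76) (nat_lit 78075518882) (nat_lit 76) (nat_lit 71586519932) (nat_lit 121) (nat_lit 4) (nat_lit 122) (nat_lit 5) (nat_lit 122) (nat_lit 4) (nat_lit 471) (nat_lit 337) (nat_lit 212))) (XT.nd (nat_lit 78) (nat_lit 76) (nat_lit 0) (XT.lf (nat_lit 0) (nat_lit 1008137065) (nat_lit 152) (nat_lit 4423013427) (nat_lit 76) (nat_lit 219469717382)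 (nat_lit 120) (nat_lit 5) (nat_lit 122) (nat_lit 5) (nat_lit 121) (nat_lit 4) (nat_lit 472) (nat_lit 337) (nat_lit 211)) (XT.lf (nat_lit 0) (nat_lit 78344186714) (nat_lit 152) (nat_lit 81759063076) (nat_lit 0) (nat_lit 72162894567) (nat_lit 119) (nat_lit 5) (nat_lit 121) (nat_lit 4) (nat_lit 119) (nat_lit 4) (nat_lit 473) (nat_lit 337) (nat_lit 210)))) (XT.nd (nat_lit 156) (nat_lit 152) (nat_lit 0) (XT.nd (nat_lit 78) (nat_lit 76) (nat_lit 0) (XT.lf (nat_lit 0) (nat_lit 75640500809) (nat_lit 76) (nat_lit 85237270083) (nat_lit 76) (nat_lit 79055377171) (nat_lit 118) (nat_lit 4) (nat_lit 119) (nat_lit 5) (nat_lit 119) (nat_lit 4) (nat_lit 474) (nat_lit 337) (nat_lit 209)) (XT.lf (nat_lit 0) (nat_lit 960721923) (nat_lit 152) (nat_lit 4212985125) (nat_lit 76) (nat_lit 242740546062) (nat_lit 117) (nat_lit 5) (nat_lit 119) (nat_lit 5) (nat_lit 118) (nat_lit 4) (nat_lit 475) (nat_lit 337) (nat_lit 208)))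 (XT.nd (nat_lit 78) (nat_lit 76) (nat_lit 0) (XT.lf (nat_lit 0) (nat_lit 86223598032) (nat_lit 152) (nat_lit 89475861234) (nat_lit 0) (nat_lit 80335017098) (nat_lit 116) (nat_lit 5) (nat_lit 118) (nat_lit 4) (nat_lit 116) (nat_lit 4) (nat_lit 476) (nat_lit 337) (nat_lit 207)) (XT.lf (nat_lit 0) (nat_lit 84031459087) (nat_lit 76) (nat_lit 93172797474) (nat_lit 76) (nat_lit 87283722290) (nat_lit 115) (nat_lit 4) (nat_lit 116) (nat_lit 5) (nat_lit 116) (nat_lit 4) (nat_lit 477) (nat_lit 337) (nat_lit 206))))))))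
noncomputable def xc122 : XT := (XT.nd (nat_lit 43914) (nat_lit 0) (nat_lit 8208) (XT.nd (nat_lit 42666) (nat_lit 0) (nat_lit 13984) (XT.nd (nat_lit 624) (nat_lit 608) (nat_lit 0) (XT.nd (nat_lit 312) (nat_lit 304) (nat_lit 0) (XT.nd (nat_lit 156) (nat_lit 152) (nat_lit 0) (XT.nd (nat_lit 78) (nat_lit 76) (nat_lit 0) (XT.lf (nat_lit 0) (nat_lit 915459794) (nat_lit 152) (nat_lit 4012853320) (nat_lit 76) (nat_lit 268360060432) (nat_lit 114) (nat_lit 5) (nat_lit 116) (nat_lit 5) (nat_lit 115) (nat_lit 4) (nat_lit 478) (nat_lit 337) (nat_lit 205)) (XT.lf (nat_lit 0) (nat_lit 94917683107) (nat_lit 152) (nat_lit 98015076633) (nat_lit 0) (nat_lit 89308164823) (nat_lit 113) (nat_lit 5) (nat_lit 115) (nat_lit 4) (nat_lit 113) (nat_lit 4) (nat_lit 479) (nat_lit 337) (nat_lit 204))) (XT.nd (nat_lit 78) (nat_lit 76) (nat_lit 0) (XT.lf (nat_lit 0) (nat_lit 93252266494) (nat_lit 76) (nat_lit 101959584926) (nat_lit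 76) (nat_lit 96349660020) (nat_lit 112) (nat_lit 4) (nat_lit 113) (nat_lit 5) (nat_lit 113) (nat_lit 4) (nat_lit 480) (nat_lit 337) (nat_lit 203)) (XT.lf (nat_lit 0) (nat_lit 872266743) (nat_lit 152) (nat_lit 3822165339) (nat_lit 76) (nat_lit 296570682265) (nat_lit 111) (nat_lit 5) (nat_lit 113) (nat_lit 5) (nat_lit 112) (nat_lit 4) (nat_lit 481) (nat_lit 337) (nat_lit 202)))) (XT.nd (nat_lit 156) (nat_lit 152) (nat_lit 0) (XT.nd (nat_lit 78) (nat_lit 76) (nat_lit 0) (XT.lf (nat_lit 0) (nat_lit 104509637653) (nat_lit 152) (nat_lit 107459536249) (nat_lit 0) (nat_lit 99166131956) (nat_lit 110) (nat_lit 5) (nat_lit 112) (nat_lit 4) (nat_lit 110) (nat_lit 4) (nat_lit 482) (nat_lit 337) (nat_lit 201)) (XT.lf (nat_lit 0) (nat_lit 103389395627) (nat_lit 76) (nat_lit 111683134448) (nat_lit 76) (nat_lit 106339294223) (nat_lit 109) (nat_lit 4) (nat_lit 110) (nat_lit 5) (nat_lit 110) (nat_lit 4) (nat_lit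 483) (nat_lit 337) (nat_lit 200))) (XT.nd (nat_lit 78) (nat_lit 76) (nat_lit 0) (XT.lf (nat_lit 0) (nat_lit 831059537) (nat_lit 152) (nat_lit 3640486771) (nat_lit 76) (nat_lit 327639612158) (nat_lit 108) (nat_lit 5) (nat_lit 110) (nat_lit 5) (nat_lit 109) (nat_lit 4) (nat_lit 484) (nat_lit 337) (nat_lit 199)) (XT.lf (nat_lit 0) (nat_lit 115091194908) (nat_lit 152) (nat_lit 117900622143) (nat_lit 0) (nat_lit 110001230860) (nat_lit 107) (nat_lit 5) (nat_lit 109) (nat_lit 4) (nat_lit 107) (nat_lit 4) (nat_lit 485) (nat_lit 337) (nat_lit 198))))) (XT.nd (nat_lit 312) (nat_lit 304) (nat_lit 0) (XT.nd (nat_lit 156) (nat_lit 152) (nat_lit 0) (XT.nd (nat_lit 78) (nat_lit 76) (nat_lit 0) (XT.lf (nat_lit 0) (nat_lit 114538119878) (nat_lit 76) (nat_lit 122437786378) (nat_lit 76) (nat_lit 117347547112) (nat_lit 106) (nat_lit 4) (nat_lit 107) (nat_lit 5) (nat_lit 107) (nat_lit 4) (nat_lit 486) (nat_lit 337)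 (nat_lit 197)) (XT.lf (nat_lit 0) (nat_lit 791756194) (nat_lit 152) (nat_lit 3467401179) (nat_lit 76) (nat_lit 361861370775) (nat_lit 105) (nat_lit 5) (nat_lit 107) (nat_lit 5) (nat_lit 106) (nat_lit 4) (nat_lit 487) (nat_lit 337) (nat_lit 196))) (XT.nd (nat_lit 78) (nat_lit 76) (nat_lit 0) (XT.lf (nat_lit 0) (nat_lit 126763501095) (nat_lit 152) (nat_lit 129439146080) (nat_lit 0) (nat_lit 121915166802) (nat_lit 104) (nat_lit 5) (nat_lit 106) (nat_lit 4) (nat_lit 104) (nat_lit 4) (nat_lit 488) (nat_lit 337) (nat_lit 195)) (XT.lf (nat_lit 0) (nat_lit 126803417675) (nat_lit 76) (nat_lit 134327623374) (nat_lit 76) (nat_lit 129479062660) (nat_lit 103) (nat_lit 4) (nat_lit 104) (nat_lit 5) (nat_lit 104) (nat_lit 4) (nat_lit 489) (nat_lit 337) (nat_lit 194)))) (XT.nd (nat_lit 156) (nat_lit 152) (nat_lit 0) (XT.nd (nat_lit 78) (nat_lit 76) (nat_lit 0) (XT.lf (nat_lit 0) (nat_lit 754276405) (nat_lit 152)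 (nat_lit 3302509724) (nat_lit 76) (nat_lit 399560600838) (nat_lit 102) (nat_lit 5) (nat_lit 104) (nat_lit 5) (nat_lit 103) (nat_lit 4) (nat_lit 490) (nat_lit 337) (nat_lit 193)) (XT.lf (nat_lit 0) (nat_lit 139638080448) (nat_lit 152) (nat_lit 142186313768) (nat_lit 0) (nat_lit 135020002614) (nat_lit 101) (nat_lit 5) (nat_lit 103) (nat_lit 4) (nat_lit 101) (nat_lit 4) (nat_lit 491) (nat_lit 337) (nat_lit 192))) (XT.nd (nat_lit 78) (nat_lit 76) (nat_lit 0) (XT.lf (nat_lit 0) (nat_lit 140300969451) (nat_lit 76) (nat_lit 147467466883) (nat_lit 76) (nat_lit 142849202770) (nat_lit 100) (nat_lit 4) (nat_lit 101) (nat_lit 5) (nat_lit 101) (nat_lit 4) (nat_lit 492) (nat_lit 337) (nat_lit 191)) (XT.lf (nat_lit 0) (nat_lit 718541850) (nat_lit 152) (nat_lit 3145430725) (nat_lit 76) (nat_lit 441095156515) (nat_lit 99) (nat_lit 5) (nat_lit 101) (nat_lit 5) (nat_lit 100) (nat_lit 4) (nat_lit 493) (nat_lit 337)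 (nat_lit 190)))))) (XT.nd (nat_lit 624) (nat_lit 3268) (nat_lit 0) (XT.nd (nat_lit 312) (nat_lit 1292) (nat_lit 0) (XT.nd (nat_lit 156) (nat_lit 304) (nat_lit 0) (XT.nd (nat_lit 78) (nat_lit 0) (nat_lit 0) (XT.lf (nat_lit 0) (nat_lit 238008729) (nat_lit 228) (nat_lit 2767875510) (nat_lit 0) (nat_lit 238008729) (nat_lit 347) (nat_lit 5) (nat_lit 350) (nat_lit 4) (nat_lit 347) (nat_lit 4) (nat_lit 344) (nat_lit 338) (nat_lit 338)) (XT.lf (nat_lit 0) (nat_lit 3684789699) (nat_lit 228) (nat_lit 1794326653) (nat_lit 0) (nat_lit 1034679532) (nat_lit 347) (nat_lit 5) (nat_lit 350) (nat_lit 4) (nat_lit 347) (nat_lit 4) (nat_lit 345) (nat_lit 338) (nat_lit 337))) (XT.nd (nat_lit 78) (nat_lit 0) (nat_lit 0) (XT.lf (nat_lit 0) (nat_lit 338390408) (nat_lit 304) (nat_lit 4480324275) (nat_lit 76) (nat_lit 1729895657) (nat_lit 343) (nat_lit 5) (nat_lit 347) (nat_lit 5) (nat_lit 344) (nat_lit 4) (nat_lit 346)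 (nat_lit 338) (nat_lit 336)) (XT.lf (nat_lit 0) (nat_lit 3416089267) (nat_lit 304) (nat_lit 574769657) (nat_lit 76) (nat_lit 2599637457) (nat_lit 343) (nat_lit 5) (nat_lit 347) (nat_lit 5) (nat_lit 344) (nat_lit 4) (nat_lit 347) (nat_lit 338) (nat_lit 335)))) (XT.nd (nat_lit 156) (nat_lit 532) (nat_lit 0) (XT.nd (nat_lit 78) (nat_lit 456) (nat_lit 0) (XT.lf (nat_lit 0) (nat_lit 3514183651) (nat_lit 304) (nat_lit 3013231524) (nat_lit 380) (nat_lit 113074445) (nat_lit 339) (nat_lit 5) (nat_lit 343) (nat_lit 5) (nat_lit 344) (nat_lit 4) (nat_lit 348) (nat_lit 338) (nat_lit 334)) (XT.lf (nat_lit 0) (nat_lit 990135685) (nat_lit 380) (nat_lit 1865819166) (nat_lit 456) (nat_lit 3841912062) (nat_lit 333) (nat_lit 5) (nat_lit 338) (nat_lit 5) (nat_lit 339) (nat_lit 5) (nat_lit 349) (nat_lit 338) (nat_lit 333))) (XT.nd (nat_lit 78) (nat_lit 532) (nat_lit 0) (XT.lf (nat_lit 0) (nat_lit 5293069149) (nat_lit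 380) (nat_lit 564219721) (nat_lit 456) (nat_lit 906348853) (nat_lit 333) (nat_lit 5) (nat_lit 338) (nat_lit 5) (nat_lit 339) (nat_lit 5) (nat_lit 350) (nat_lit 338) (nat_lit 332)) (XT.lf (nat_lit 0) (nat_lit 2006219009) (nat_lit 532) (nat_lit 3938646450) (nat_lit 76) (nat_lit 891139355) (nat_lit 326) (nat_lit 5) (nat_lit 333) (nat_lit 5) (nat_lit 327) (nat_lit 5) (nat_lit 351) (nat_lit 338) (nat_lit 331))))) (XT.nd (nat_lit 312) (nat_lit 1368) (nat_lit 0) (XT.nd (nat_lit 156) (nat_lit 1292) (nat_lit 0) (XT.nd (nat_lit 78) (nat_lit 76) (nat_lit 0) (XT.lf (nat_lit 0) (nat_lit 483527463) (nat_lit 532) (nat_lit 4438746147) (nat_lit 608) (nat_lit 1994557860) (nat_lit 319) (nat_lit 5) (nat_lit 326) (nat_lit 5) (nat_lit 327) (nat_lit 5) (nat_lit 352) (nat_lit 338) (nat_lit 330)) (XT.lf (nat_lit 0) (nat_lit 867860213) (nat_lit 608) (nat_lit 1885539737) (nat_lit 76) (nat_lit 4251688949) (nat_lit 318) (nat_lit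 5) (nat_lit 326) (nat_lit 5) (nat_lit 319) (nat_lit 5) (nat_lit 353) (nat_lit 338) (nat_lit 329))) (XT.nd (nat_lit 78) (nat_lit 684) (nat_lit 0) (XT.lf (nat_lit 0) (nat_lit 2819249222) (nat_lit 608) (nat_lit 887399271) (nat_lit 684) (nat_lit 3394461849) (nat_lit 310) (nat_lit 5) (nat_lit 318) (nat_lit 5) (nat_lit 319) (nat_lit 5) (nat_lit 354) (nat_lit 338) (nat_lit 328)) (XT.lf (nat_lit 0) (nat_lit 489839463) (nat_lit 684) (nat_lit 6115722267) (nat_lit 760) (nat_lit 600461848) (nat_lit 301) (nat_lit 5) (nat_lit 310) (nat_lit 5) (nat_lit 311) (nat_lit 5) (nat_lit 355) (nat_lit 338) (nat_lit 327)))) (XT.nd (nat_lit 156) (nat_lit 532) (nat_lit 0) (XT.nd (nat_lit 78) (nat_lit 760) (nat_lit 0) (XT.lf (nat_lit 0) (nat_lit 2210519584) (nat_lit 760) (nat_lit 1851283995) (nat_lit 76) (nat_lit 3254959496) (nat_lit 300) (nat_lit 5) (nat_lit 310) (nat_lit 5) (nat_lit 301) (nat_lit 5) (nat_lit 356) (nat_lit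 338) (nat_lit 326)) (XT.lf (nat_lit 0) (nat_lit 3221217306) (nat_lit 760) (nat_lit 1841143584) (nat_lit 836) (nat_lit 2374161964) (nat_lit 290) (nat_lit 5) (nat_lit 300) (nat_lit 5) (nat_lit 301) (nat_lit 5) (nat_lit 357) (nat_lit 338) (nat_lit 325))) (XT.nd (nat_lit 78) (nat_lit 0) (nat_lit 0) (XT.lf (nat_lit 0) (nat_lit 406102081) (nat_lit 532) (nat_lit 6632655364) (nat_lit 76) (nat_lit 526756816) (nat_lit 283) (nat_lit 5) (nat_lit 290) (nat_lit 5) (nat_lit 284) (nat_lit 5) (nat_lit 358) (nat_lit 338) (nat_lit 324)) (XT.lf (nat_lit 0) (nat_lit 3224656009) (nat_lit 532) (nat_lit 1417906140) (nat_lit 76) (nat_lit 3057493851) (nat_lit 283) (nat_lit 5) (nat_lit 290) (nat_lit 5) (nat_lit 284) (nat_lit 5) (nat_lit 359) (nat_lit 338) (nat_lit 323))))))) (XT.nd (nat_lit 1248) (nat_lit 1976) (nat_lit 0) (XT.nd (nat_lit 624) (nat_lit 1596) (nat_lit 0) (XT.nd (nat_lit 312) (nat_lit 1064) (nat_lit 0) (XT.nd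 (nat_lit 156) (nat_lit 304) (nat_lit 0) (XT.nd (nat_lit 78) (nat_lit 456) (nat_lit 0) (XT.lf (nat_lit 0) (nat_lit 4058896188) (nat_lit 380) (nat_lit 2070824447) (nat_lit 456) (nat_lit 1714325041) (nat_lit 278) (nat_lit 5) (nat_lit 283) (nat_lit 5) (nat_lit 284) (nat_lit 5) (nat_lit 360) (nat_lit 338) (nat_lit 322)) (XT.lf (nat_lit 0) (nat_lit 1093694137) (nat_lit 456) (nat_lit 6236064706) (nat_lit 76) (nat_lit 667210507) (nat_lit 272) (nat_lit 5) (nat_lit 278) (nat_lit 5) (nat_lit 273) (nat_lit 5) (nat_lit 361) (nat_lit 338) (nat_lit 321))) (XT.nd (nat_lit 78) (nat_lit 304) (nat_lit 0) (XT.lf (nat_lit 0) (nat_lit 3970855047) (nat_lit 456) (nat_lit 635396524) (nat_lit 76) (nat_lit 3550564785) (nat_lit 272) (nat_lit 5) (nat_lit 278) (nat_lit 5) (nat_lit 273) (nat_lit 5) (nat_lit 362) (nat_lit 338) (nat_lit 320)) (XT.lf (nat_lit 0) (nat_lit 5287260609) (nat_lit 304) (nat_lit 1679782521) (nat_lit 380)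 (nat_lit 1358854127) (nat_lit 268) (nat_lit 5) (nat_lit 272) (nat_lit 5) (nat_lit 273) (nat_lit 5) (nat_lit 363) (nat_lit 338) (nat_lit 319)))) (XT.nd (nat_lit 156) (nat_lit 380) (nat_lit 0) (XT.nd (nat_lit 78) (nat_lit 304) (nat_lit 0) (XT.lf (nat_lit 0) (nat_lit 1532150939) (nat_lit 380) (nat_lit 5561229324) (nat_lit 76) (nat_lit 1410092414) (nat_lit 263) (nat_lit 5) (nat_lit 268) (nat_lit 5) (nat_lit 264) (nat_lit 5) (nat_lit 364) (nat_lit 338) (nat_lit 318)) (XT.lf (nat_lit 0) (nat_lit 473386780) (nat_lit 304) (nat_lit 4032651491) (nat_lit 380) (nat_lit 4183574859) (nat_lit 259) (nat_lit 5) (nat_lit 263) (nat_lit 5) (nat_lit 264) (nat_lit 5) (nat_lit 365) (nat_lit 338) (nat_lit 317))) (XT.nd (nat_lit 78) (nat_lit 380) (nat_lit 0) (XT.lf (nat_lit 0) (nat_lit 6873511266) (nat_lit 304) (nat_lit 748953770) (nat_lit 380) (nat_lit 1262903317) (nat_lit 259) (nat_lit 5) (nat_lit 263) (nat_lit 5) (nat_lit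 264) (nat_lit 5) (nat_lit 366) (nat_lit 338) (nat_lit 316)) (XT.lf (nat_lit 0) (nat_lit 1762368755) (nat_lit 380) (nat_lit 4642156087) (nat_lit 76) (nat_lit 2684163382) (nat_lit 254) (nat_lit 5) (nat_lit 259) (nat_lit 5) (nat_lit 255) (nat_lit 5) (nat_lit 367) (nat_lit 338) (nat_lit 315))))) (XT.nd (nat_lit 312) (nat_lit 760) (nat_lit 0) (XT.nd (nat_lit 156) (nat_lit 608) (nat_lit 0) (XT.nd (nat_lit 78) (nat_lit 0) (nat_lit 0) (XT.lf (nat_lit 0) (nat_lit 1895786636) (nat_lit 228) (nat_lit 2982274930) (nat_lit 304) (nat_lit 4423997406) (nat_lit 251) (nat_lit 5) (nat_lit 254) (nat_lit 5) (nat_lit 255) (nat_lit 5) (nat_lit 368) (nat_lit 338) (nat_lit 314)) (XT.lf (nat_lit 0) (nat_lit 8146089549) (nat_lit 304) (nat_lit 741784949) (nat_lit 76) (nat_lit 638396234) (nat_lit 251) (nat_lit 5) (nat_lit 255) (nat_lit 5) (nat_lit 252) (nat_lit 5) (nat_lit 369) (nat_lit 338) (nat_lit 313))) (XT.nd (nat_lit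 78) (nat_lit 228) (nat_lit 0) (XT.lf (nat_lit 0) (nat_lit 1817192335) (nat_lit 380) (nat_lit 3504280165) (nat_lit 76) (nat_lit 4435828861) (nat_lit 246) (nat_lit 5) (nat_lit 251) (nat_lit 5) (nat_lit 247) (nat_lit 5) (nat_lit 370) (nat_lit 338) (nat_lit 312)) (XT.lf (nat_lit 0) (nat_lit 3590913553) (nat_lit 228) (nat_lit 1518387941) (nat_lit 304) (nat_lit 4890388225) (nat_lit 243) (nat_lit 5) (nat_lit 246) (nat_lit 5) (nat_lit 247) (nat_lit 5) (nat_lit 371) (nat_lit 338) (nat_lit 311)))) (XT.nd (nat_lit 156) (nat_lit 456) (nat_lit 0) (XT.nd (nat_lit 78) (nat_lit 76) (nat_lit 0) (XT.lf (nat_lit 0) (nat_lit 769404435) (nat_lit 228) (nat_lit 7821655577) (nat_lit 304) (nat_lit 1661885290) (nat_lit 240) (nat_lit 5) (nat_lit 243) (nat_lit 5) (nat_lit 244) (nat_lit 5) (nat_lit 372) (nat_lit 338) (nat_lit 310)) (XT.lf (nat_lit 0) (nat_lit 1722782494) (nat_lit 304) (nat_lit 2165770443) (nat_lit 76) (nat_lit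 6626459352) (nat_lit 239) (nat_lit 5) (nat_lit 243) (nat_lit 5) (nat_lit 240) (nat_lit 5) (nat_lit 373) (nat_lit 338) (nat_lit 309))) (XT.nd (nat_lit 78) (nat_lit 228) (nat_lit 0) (XT.lf (nat_lit 0) (nat_lit 5231327367) (nat_lit 304) (nat_lit 5246971809) (nat_lit 76) (nat_lit 309996553) (nat_lit 236) (nat_lit 5) (nat_lit 240) (nat_lit 5) (nat_lit 237) (nat_lit 5) (nat_lit 374) (nat_lit 338) (nat_lit 308)) (XT.lf (nat_lit 0) (nat_lit 2529199199) (nat_lit 228) (nat_lit 6446872569) (nat_lit 304) (nat_lit 2096132958) (nat_lit 233) (nat_lit 5) (nat_lit 236) (nat_lit 5) (nat_lit 237) (nat_lit 5) (nat_lit 375) (nat_lit 338) (nat_lit 307)))))) (XT.nd (nat_lit 624) (nat_lit 912) (nat_lit 0) (XT.nd (nat_lit 312) (nat_lit 380) (nat_lit 0) (XT.nd (nat_lit 156) (nat_lit 456) (nat_lit 0) (XT.nd (nat_lit 78) (nat_lit 152) (nat_lit 0) (XT.lf (nat_lit 0) (nat_lit 1499734035) (nat_lit 304) (nat_lit 638579313) (nat_lit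 76) (nat_lit 9230235038) (nat_lit 232) (nat_lit 5) (nat_lit 236) (nat_lit 5) (nat_lit 233) (nat_lit 5) (nat_lit 376) (nat_lit 338) (nat_lit 306)) (XT.lf (nat_lit 0) (nat_lit 5289855558) (nat_lit 228) (nat_lit 3957554619) (nat_lit 76) (nat_lit 2426335662) (nat_lit 230) (nat_lit 5) (nat_lit 233) (nat_lit 5) (nat_lit 231) (nat_lit 5) (nat_lit 377) (nat_lit 338) (nat_lit 305))) (XT.nd (nat_lit 78) (nat_lit 228) (nat_lit 0) (XT.lf (nat_lit 0) (nat_lit 4507417164) (nat_lit 228) (nat_lit 4804263430) (nat_lit 304) (nat_lit 2680412697) (nat_lit 227) (nat_lit 5) (nat_lit 230) (nat_lit 5) (nat_lit 231) (nat_lit 5) (nat_lit 378) (nat_lit 338) (nat_lit 304)) (XT.lf (nat_lit 0) (nat_lit 1106123049) (nat_lit 152) (nat_lit 75134209) (nat_lit 228) (nat_lit 11143573174) (nat_lit 224) (nat_lit 5) (nat_lit 226) (nat_lit 5) (nat_lit 227) (nat_lit 5) (nat_lit 379) (nat_lit 338) (nat_lit 303)))) (XT.nd (nat_lit 156)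 (nat_lit 228) (nat_lit 0) (XT.nd (nat_lit 78) (nat_lit 152) (nat_lit 0) (XT.lf (nat_lit 0) (nat_lit 5278385287) (nat_lit 228) (nat_lit 2524238800) (nat_lit 76) (nat_lit 4862760582) (nat_lit 224) (nat_lit 5) (nat_lit 227) (nat_lit 5) (nat_lit 225) (nat_lit 5) (nat_lit 380) (nat_lit 338) (nat_lit 302)) (XT.lf (nat_lit 0) (nat_lit 6703698268) (nat_lit 152) (nat_lit 2913295984) (nat_lit 228) (nat_lit 3404141141) (nat_lit 222) (nat_lit 5) (nat_lit 224) (nat_lit 5) (nat_lit 225) (nat_lit 5) (nat_lit 381) (nat_lit 338) (nat_lit 301))) (XT.nd (nat_lit 78) (nat_lit 0) (nat_lit 0) (XT.lf (nat_lit 0) (nat_lit 810958942) (nat_lit 228) (nat_lit 10370435252) (nat_lit 76) (nat_lit 2209772465) (nat_lit 219) (nat_lit 5) (nat_lit 222) (nat_lit 5) (nat_lit 220) (nat_lit 5) (nat_lit 382) (nat_lit 338) (nat_lit 300)) (XT.lf (nat_lit 0) (nat_lit 5210867785) (nat_lit 228) (nat_lit 950340615) (nat_lit 76) (nat_lit 7611278046)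 (nat_lit 219) (nat_lit 5) (nat_lit 222) (nat_lit 5) (nat_lit 220) (nat_lit 5) (nat_lit 383) (nat_lit 338) (nat_lit 299))))) (XT.nd (nat_lit 312) (nat_lit 380) (nat_lit 0) (XT.nd (nat_lit 156) (nat_lit 152) (nat_lit 0) (XT.nd (nat_lit 78) (nat_lit 228) (nat_lit 0) (XT.lf (nat_lit 0) (nat_lit 9122440846) (nat_lit 152) (nat_lit 785951898) (nat_lit 228) (nat_lit 4260598446) (nat_lit 217) (nat_lit 5) (nat_lit 219) (nat_lit 5) (nat_lit 220) (nat_lit 5) (nat_lit 384) (nat_lit 338) (nat_lit 298)) (XT.lf (nat_lit 0) (nat_lit 357159866) (nat_lit 228) (nat_lit 9461423018) (nat_lit 76) (nat_lit 4761045665) (nat_lit 214) (nat_lit 5) (nat_lit 217) (nat_lit 5) (nat_lit 215) (nat_lit 5) (nat_lit 385) (nat_lit 338) (nat_lit 297))) (XT.nd (nat_lit 78) (nat_lit 0) (nat_lit 0) (XT.lf (nat_lit 0) (nat_lit 789724113) (nat_lit 152) (nat_lit 4321179999) (nat_lit 228) (nat_lit 9893987265) (nat_lit 212) (nat_lit 5) (nat_lit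 214) (nat_lit 5) (nat_lit 215) (nat_lit 5) (nat_lit 386) (nat_lit 338) (nat_lit 296)) (XT.lf (nat_lit 0) (nat_lit 10224646745) (nat_lit 228) (nat_lit 3698674386) (nat_lit 76) (nat_lit 1521980658) (nat_lit 212) (nat_lit 5) (nat_lit 215) (nat_lit 5) (nat_lit 213) (nat_lit 4) (nat_lit 387) (nat_lit 338) (nat_lit 295)))) (XT.nd (nat_lit 156) (nat_lit 76) (nat_lit 0) (XT.nd (nat_lit 78) (nat_lit 228) (nat_lit 0) (XT.lf (nat_lit 0) (nat_lit 7403186453) (nat_lit 76) (nat_lit 8317118305) (nat_lit 152) (nat_lit 181116551) (nat_lit 211) (nat_lit 5) (nat_lit 212) (nat_lit 5) (nat_lit 213) (nat_lit 4) (nat_lit 388) (nat_lit 338) (nat_lit 294)) (XT.lf (nat_lit 0) (nat_lit 2710442983) (nat_lit 152) (nat_lit 2282442100) (nat_lit 228) (nat_lit 11381169794) (nat_lit 208) (nat_lit 5) (nat_lit 210) (nat_lit 5) (nat_lit 211) (nat_lit 5) (nat_lit 389) (nat_lit 338) (nat_lit 293))) (XT.nd (nat_lit 78) (nat_lit 76) (nat_lit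 0) (XT.lf (nat_lit 0) (nat_lit 10569631282) (nat_lit 228) (nat_lit 2264469507) (nat_lit 76) (nat_lit 4028564321) (nat_lit 208) (nat_lit 5) (nat_lit 211) (nat_lit 5) (nat_lit 209) (nat_lit 4) (nat_lit 390) (nat_lit 338) (nat_lit 292)) (XT.lf (nat_lit 0) (nat_lit 9881268149) (nat_lit 76) (nat_lit 6679024956) (nat_lit 152) (nat_lit 808658832) (nat_lit 207) (nat_lit 5) (nat_lit 208) (nat_lit 5) (nat_lit 209) (nat_lit 4) (nat_lit 391) (nat_lit 338) (nat_lit 291))))))))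
noncomputable def xc123 : XT := (XT.nd (nat_lit 2496) (nat_lit 2432) (nat_lit 0) (XT.nd (nat_lit 1248) (nat_lit 1216) (nat_lit 0) (XT.nd (nat_lit 624) (nat_lit 684) (nat_lit 0) (XT.nd (nat_lit 312) (nat_lit 380) (nat_lit 0) (XT.nd (nat_lit 156) (nat_lit 304) (nat_lit 0) (XT.nd (nat_lit 78) (nat_lit 0) (nat_lit 0) (XT.lf (nat_lit 0) (nat_lit 4787158993) (nat_lit 152) (nat_lit 61669807) (nat_lit 228) (nat_lit 13044994052) (nat_lit 204) (nat_lit 5) (nat_lit 206) (nat_lit 5) (nat_lit 207) (nat_lit 5) (nat_lit 392) (nat_lit 338) (nat_lit 290)) (XT.lf (nat_lit 0) (nat_lit 10942424573) (nat_lit 228) (nat_lit 728576811) (nat_lit 76) (nat_lit 6764252594) (nat_lit 204) (nat_lit 5) (nat_lit 207) (nat_lit 5) (nat_lit 205) (nat_lit 4) (nat_lit 393) (nat_lit 338) (nat_lit 289))) (XT.nd (nat_lit 78) (nat_lit 228) (nat_lit 0) (XT.lf (nat_lit 0) (nat_lit 12571852489) (nat_lit 76) (nat_lit 4912812135) (nat_lit 152)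 (nat_lit 1511893812) (nat_lit 203) (nat_lit 5) (nat_lit 204) (nat_lit 5) (nat_lit 205) (nat_lit 4) (nat_lit 394) (nat_lit 338) (nat_lit 288)) (XT.lf (nat_lit 0) (nat_lit 4721231621) (nat_lit 228) (nat_lit 12585836439) (nat_lit 76) (nat_lit 2269850312) (nat_lit 200) (nat_lit 5) (nat_lit 203) (nat_lit 5) (nat_lit 201) (nat_lit 4) (nat_lit 395) (nat_lit 338) (nat_lit 287)))) (XT.nd (nat_lit 156) (nat_lit 304) (nat_lit 0) (XT.nd (nat_lit 78) (nat_lit 0) (nat_lit 0) (XT.lf (nat_lit 0) (nat_lit 944541353) (nat_lit 76) (nat_lit 10423716805) (nat_lit 152) (nat_lit 8809146170) (nat_lit 199) (nat_lit 5) (nat_lit 200) (nat_lit 5) (nat_lit 201) (nat_lit 4) (nat_lit 396) (nat_lit 338) (nat_lit 286)) (XT.lf (nat_lit 0) (nat_lit 15491539973) (nat_lit 76) (nat_lit 3017426738) (nat_lit 152) (nat_lit 2290881337) (nat_lit 199) (nat_lit 5) (nat_lit 200) (nat_lit 5) (nat_lit 201) (nat_lit 4) (nat_lit 397) (nat_lit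 338) (nat_lit 285))) (XT.nd (nat_lit 78) (nat_lit 76) (nat_lit 0) (XT.lf (nat_lit 0) (nat_lit 4582150174) (nat_lit 228) (nat_lit 12072250000) (nat_lit 76) (nat_lit 4786729926) (nat_lit 196) (nat_lit 5) (nat_lit 199) (nat_lit 5) (nat_lit 197) (nat_lit 4) (nat_lit 398) (nat_lit 338) (nat_lit 284)) (XT.lf (nat_lit 0) (nat_lit 2759909411) (nat_lit 76) (nat_lit 9095977709) (nat_lit 152) (nat_lit 10250009237) (nat_lit 195) (nat_lit 5) (nat_lit 196) (nat_lit 5) (nat_lit 197) (nat_lit 4) (nat_lit 399) (nat_lit 338) (nat_lit 283))))) (XT.nd (nat_lit 312) (nat_lit 380) (nat_lit 0) (XT.nd (nat_lit 156) (nat_lit 76) (nat_lit 0) (XT.nd (nat_lit 78) (nat_lit 228) (nat_lit 0) (XT.lf (nat_lit 0) (nat_lit 18660148330) (nat_lit 76) (nat_lit 988655024) (nat_lit 152) (nat_lit 3147322951) (nat_lit 195) (nat_lit 5) (nat_lit 196) (nat_lit 5) (nat_lit 197) (nat_lit 4) (nat_lit 400) (nat_lit 338) (nat_lit 282)) (XT.lf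 (nat_lit 0) (nat_lit 4434490321) (nat_lit 228) (nat_lit 11567918727) (nat_lit 76) (nat_lit 7501995980) (nat_lit 192) (nat_lit 5) (nat_lit 195) (nat_lit 5) (nat_lit 193) (nat_lit 4) (nat_lit 401) (nat_lit 338) (nat_lit 281))) (XT.nd (nat_lit 78) (nat_lit 0) (nat_lit 0) (XT.lf (nat_lit 0) (nat_lit 4703119519) (nat_lit 76) (nat_lit 7700167307) (nat_lit 152) (nat_lit 11836547925) (nat_lit 191) (nat_lit 5) (nat_lit 192) (nat_lit 5) (nat_lit 193) (nat_lit 4) (nat_lit 402) (nat_lit 338) (nat_lit 280)) (XT.lf (nat_lit 0) (nat_lit 20938561130) (nat_lit 152) (nat_lit 2922243308) (nat_lit 0) (nat_lit 1142829622) (nat_lit 191) (nat_lit 5) (nat_lit 193) (nat_lit 4) (nat_lit 191) (nat_lit 4) (nat_lit 403) (nat_lit 338) (nat_lit 279)))) (XT.nd (nat_lit 156) (nat_lit 152) (nat_lit 0) (XT.nd (nat_lit 78) (nat_lit 76) (nat_lit 0) (XT.lf (nat_lit 0) (nat_lit 4281355717) (nat_lit 152) (nat_lit 11075097056) (nat_lit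 76) (nat_lit 10430101626) (nat_lit 189) (nat_lit 5) (nat_lit 191) (nat_lit 5) (nat_lit 190) (nat_lit 4) (nat_lit 404) (nat_lit 338) (nat_lit 278)) (XT.lf (nat_lit 0) (nat_lit 6785863802) (nat_lit 76) (nat_lit 6234239264) (nat_lit 152) (nat_lit 13579605141) (nat_lit 188) (nat_lit 5) (nat_lit 189) (nat_lit 5) (nat_lit 190) (nat_lit 4) (nat_lit 405) (nat_lit 338) (nat_lit 277))) (XT.nd (nat_lit 78) (nat_lit 152) (nat_lit 0) (XT.lf (nat_lit 0) (nat_lit 22394165420) (nat_lit 152) (nat_lit 1661243744) (nat_lit 0) (nat_lit 3388191661) (nat_lit 188) (nat_lit 5) (nat_lit 190) (nat_lit 4) (nat_lit 188) (nat_lit 4) (nat_lit 406) (nat_lit 338) (nat_lit 276)) (XT.lf (nat_lit 0) (nat_lit 4125224377) (nat_lit 152) (nat_lit 10595454224) (nat_lit 76) (nat_lit 13588807436) (nat_lit 186) (nat_lit 5) (nat_lit 188) (nat_lit 5) (nat_lit 187) (nat_lit 4) (nat_lit 407) (nat_lit 338) (nat_lit 275)))))) (XT.nd (nat_lit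 624) (nat_lit 608) (nat_lit 0) (XT.nd (nat_lit 312) (nat_lit 304) (nat_lit 0) (XT.nd (nat_lit 156) (nat_lit 228) (nat_lit 0) (XT.nd (nat_lit 78) (nat_lit 0) (nat_lit 0) (XT.lf (nat_lit 0) (nat_lit 9021841988) (nat_lit 76) (nat_lit 4694254149) (nat_lit 152) (nat_lit 15492071835) (nat_lit 185) (nat_lit 5) (nat_lit 186) (nat_lit 5) (nat_lit 187) (nat_lit 4) (nat_lit 408) (nat_lit 338) (nat_lit 274)) (XT.lf (nat_lit 0) (nat_lit 24017828564) (nat_lit 152) (nat_lit 331276438) (nat_lit 0) (nat_lit 5791113148) (nat_lit 185) (nat_lit 5) (nat_lit 187) (nat_lit 4) (nat_lit 185) (nat_lit 4) (nat_lit 409) (nat_lit 338) (nat_lit 273))) (XT.nd (nat_lit 78) (nat_lit 76) (nat_lit 0) (XT.lf (nat_lit 0) (nat_lit 3968063194) (nat_lit 152) (nat_lit 10130186857) (nat_lit 76) (nat_lit 16999159376) (nat_lit 183) (nat_lit 5) (nat_lit 185) (nat_lit 5) (nat_lit 184) (nat_lit 4) (nat_lit 410) (nat_lit 338) (nat_lit 272))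 (XT.lf (nat_lit 0) (nat_lit 11426797109) (nat_lit 76) (nat_lit 3074522370) (nat_lit 152) (nat_lit 17588920772) (nat_lit 182) (nat_lit 5) (nat_lit 183) (nat_lit 5) (nat_lit 184) (nat_lit 4) (nat_lit 411) (nat_lit 338) (nat_lit 271)))) (XT.nd (nat_lit 156) (nat_lit 152) (nat_lit 0) (XT.nd (nat_lit 78) (nat_lit 76) (nat_lit 0) (XT.lf (nat_lit 0) (nat_lit 1110659740) (nat_lit 76) (nat_lit 24735046110) (nat_lit 76) (nat_lit 7272783403) (nat_lit 181) (nat_lit 4) (nat_lit 182) (nat_lit 5) (nat_lit 182) (nat_lit 4) (nat_lit 412) (nat_lit 338) (nat_lit 270)) (XT.lf (nat_lit 0) (nat_lit 3811421971) (nat_lit 152) (nat_lit 9680111174) (nat_lit 76) (nat_lit 20685530310) (nat_lit 180) (nat_lit 5) (nat_lit 182) (nat_lit 5) (nat_lit 181) (nat_lit 4) (nat_lit 413) (nat_lit 338) (nat_lit 269))) (XT.nd (nat_lit 78) (nat_lit 76) (nat_lit 0) (XT.lf (nat_lit 0) (nat_lit 14018586289) (nat_lit 76) (nat_lit 1367700186)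 (nat_lit 152) (nat_lit 19887275492) (nat_lit 179) (nat_lit 5) (nat_lit 180) (nat_lit 5) (nat_lit 181) (nat_lit 4) (nat_lit 414) (nat_lit 338) (nat_lit 268)) (XT.lf (nat_lit 0) (nat_lit 2651422367) (nat_lit 76) (nat_lit 25235976246) (nat_lit 76) (nat_lit 8520111570) (nat_lit 178) (nat_lit 4) (nat_lit 179) (nat_lit 5) (nat_lit 179) (nat_lit 4) (nat_lit 415) (nat_lit 338) (nat_lit 267))))) (XT.nd (nat_lit 312) (nat_lit 304) (nat_lit 0) (XT.nd (nat_lit 156) (nat_lit 152) (nat_lit 0) (XT.nd (nat_lit 78) (nat_lit 76) (nat_lit 0) (XT.lf (nat_lit 0) (nat_lit 3656510632) (nat_lit 152) (nat_lit 9245738444) (nat_lit 76) (nat_lit 24675719799) (nat_lit 177) (nat_lit 5) (nat_lit 179) (nat_lit 5) (nat_lit 178) (nat_lit 4) (nat_lit 416) (nat_lit 338) (nat_lit 266)) (XT.lf (nat_lit 0) (nat_lit 16388923546) (nat_lit 152) (nat_lit 21978151359) (nat_lit 0) (nat_lit 421227339) (nat_lit 176) (nat_lit 5) (nat_lit 178)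 (nat_lit 4) (nat_lit 176) (nat_lit 4) (nat_lit 417) (nat_lit 338) (nat_lit 265))) (XT.nd (nat_lit 78) (nat_lit 76) (nat_lit 0) (XT.lf (nat_lit 0) (nat_lit 4290233159) (nat_lit 76) (nat_lit 25869375571) (nat_lit 76) (nat_lit 9879460971) (nat_lit 175) (nat_lit 4) (nat_lit 176) (nat_lit 5) (nat_lit 176) (nat_lit 4) (nat_lit 418) (nat_lit 338) (nat_lit 264)) (XT.lf (nat_lit 0) (nat_lit 3504262578) (nat_lit 152) (nat_lit 8827336686) (nat_lit 76) (nat_lit 29001108500) (nat_lit 174) (nat_lit 5) (nat_lit 176) (nat_lit 5) (nat_lit 175) (nat_lit 4) (nat_lit 419) (nat_lit 338) (nat_lit 263)))) (XT.nd (nat_lit 156) (nat_lit 152) (nat_lit 0) (XT.nd (nat_lit 78) (nat_lit 76) (nat_lit 0) (XT.lf (nat_lit 0) (nat_lit 17537360492) (nat_lit 152) (nat_lit 22860434599) (nat_lit 0) (nat_lit 2269524579) (nat_lit 173) (nat_lit 5) (nat_lit 175) (nat_lit 4) (nat_lit 173) (nat_lit 4) (nat_lit 420) (nat_lit 338) (nat_lit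 262)) (XT.lf (nat_lit 0) (nat_lit 6038562943) (nat_lit 76) (nat_lit 26647752089) (nat_lit 76) (nat_lit 11361637050) (nat_lit 172) (nat_lit 4) (nat_lit 173) (nat_lit 5) (nat_lit 173) (nat_lit 4) (nat_lit 421) (nat_lit 338) (nat_lit 261))) (XT.nd (nat_lit 78) (nat_lit 76) (nat_lit 0) (XT.lf (nat_lit 0) (nat_lit 3355386669) (nat_lit 152) (nat_lit 8424981057) (nat_lit 76) (nat_lit 33696864828) (nat_lit 171) (nat_lit 5) (nat_lit 173) (nat_lit 5) (nat_lit 172) (nat_lit 4) (nat_lit 422) (nat_lit 338) (nat_lit 260)) (XT.lf (nat_lit 0) (nat_lit 18823267655) (nat_lit 152) (nat_lit 23892862043) (nat_lit 0) (nat_lit 4232692954) (nat_lit 170) (nat_lit 5) (nat_lit 172) (nat_lit 4) (nat_lit 170) (nat_lit 4) (nat_lit 423) (nat_lit 338) (nat_lit 259))))))) (XT.nd (nat_lit 1248) (nat_lit 1216) (nat_lit 0) (XT.nd (nat_lit 624) (nat_lit 608) (nat_lit 0) (XT.nd (nat_lit 312) (nat_lit 304) (nat_lit 0) (XT.nd (nat_lit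 156) (nat_lit 152) (nat_lit 0) (XT.nd (nat_lit 78) (nat_lit 76) (nat_lit 0) (XT.lf (nat_lit 0) (nat_lit 7909244279) (nat_lit 76) (nat_lit 27584451650) (nat_lit 76) (nat_lit 12978838666) (nat_lit 169) (nat_lit 4) (nat_lit 170) (nat_lit 5) (nat_lit 170) (nat_lit 4) (nat_lit 424) (nat_lit 338) (nat_lit 258)) (XT.lf (nat_lit 0) (nat_lit 3210409844) (nat_lit 152) (nat_lit 8038594975) (nat_lit 76) (nat_lit 38802202702) (nat_lit 168) (nat_lit 5) (nat_lit 170) (nat_lit 5) (nat_lit 169) (nat_lit 4) (nat_lit 425) (nat_lit 338) (nat_lit 257))) (XT.nd (nat_lit 78) (nat_lit 76) (nat_lit 0) (XT.lf (nat_lit 0) (nat_lit 20260779117) (nat_lit 152) (nat_lit 25088964248) (nat_lit 0) (nat_lit 6324040715) (nat_lit 167) (nat_lit 5) (nat_lit 169) (nat_lit 4) (nat_lit 167) (nat_lit 4) (nat_lit 426) (nat_lit 338) (nat_lit 256)) (XT.lf (nat_lit 0) (nat_lit 9916557205) (nat_lit 76) (nat_lit 28693852770) (nat_lit 76) (nat_lit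 14744742337) (nat_lit 166) (nat_lit 4) (nat_lit 167) (nat_lit 5) (nat_lit 167) (nat_lit 4) (nat_lit 427) (nat_lit 338) (nat_lit 255)))) (XT.nd (nat_lit 156) (nat_lit 152) (nat_lit 0) (XT.nd (nat_lit 78) (nat_lit 76) (nat_lit 0) (XT.lf (nat_lit 0) (nat_lit 3069712054) (nat_lit 152) (nat_lit 7667983608) (nat_lit 76) (nat_lit 44360690234) (nat_lit 165) (nat_lit 5) (nat_lit 167) (nat_lit 5) (nat_lit 166) (nat_lit 4) (nat_lit 428) (nat_lit 338) (nat_lit 254)) (XT.lf (nat_lit 0) (nat_lit 21865301151) (nat_lit 152) (nat_lit 26463572705) (nat_lit 0) (nat_lit 8558524848) (nat_lit 164) (nat_lit 5) (nat_lit 166) (nat_lit 4) (nat_lit 164) (nat_lit 4) (nat_lit 429) (nat_lit 338) (nat_lit 253))) (XT.nd (nat_lit 78) (nat_lit 76) (nat_lit 0) (XT.lf (nat_lit 0) (nat_lit 12076334325) (nat_lit 76) (nat_lit 29991560684) (nat_lit 76) (nat_lit 16674605879) (nat_lit 163) (nat_lit 4) (nat_lit 164) (nat_lit 5) (nat_lit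 164) (nat_lit 4) (nat_lit 430) (nat_lit 338) (nat_lit 252)) (XT.lf (nat_lit 0) (nat_lit 2933554876) (nat_lit 152) (nat_lit 7312861118) (nat_lit 76) (nat_lit 50420610174) (nat_lit 162) (nat_lit 5) (nat_lit 164) (nat_lit 5) (nat_lit 163) (nat_lit 4) (nat_lit 431) (nat_lit 338) (nat_lit 251))))) (XT.nd (nat_lit 312) (nat_lit 304) (nat_lit 0) (XT.nd (nat_lit 156) (nat_lit 152) (nat_lit 0) (XT.nd (nat_lit 78) (nat_lit 76) (nat_lit 0) (XT.lf (nat_lit 0) (nat_lit 23653681971) (nat_lit 152) (nat_lit 28032988213) (nat_lit 0) (nat_lit 10952843099) (nat_lit 161) (nat_lit 5) (nat_lit 163) (nat_lit 4) (nat_lit 161) (nat_lit 4) (nat_lit 432) (nat_lit 338) (nat_lit 250)) (XT.lf (nat_lit 0) (nat_lit 14406085272) (nat_lit 76) (nat_lit 31494604264) (nat_lit 76) (nat_lit 18785391513) (nat_lit 160) (nat_lit 4) (nat_lit 161) (nat_lit 5) (nat_lit 161) (nat_lit 4) (nat_lit 433) (nat_lit 338) (nat_lit 249))) (XT.nd (nat_lit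 78) (nat_lit 76) (nat_lit 0) (XT.lf (nat_lit 0) (nat_lit 2802104925) (nat_lit 152) (nat_lit 6972872774) (nat_lit 76) (nat_lit 57035373793) (nat_lit 159) (nat_lit 5) (nat_lit 161) (nat_lit 5) (nat_lit 160) (nat_lit 4) (nat_lit 434) (nat_lit 338) (nat_lit 248)) (XT.lf (nat_lit 0) (nat_lit 25644391511) (nat_lit 152) (nat_lit 29815159360) (nat_lit 0) (nat_lit 13525550342) (nat_lit 158) (nat_lit 5) (nat_lit 160) (nat_lit 4) (nat_lit 158) (nat_lit 4) (nat_lit 435) (nat_lit 338) (nat_lit 247)))) (XT.nd (nat_lit 156) (nat_lit 152) (nat_lit 0) (XT.nd (nat_lit 78) (nat_lit 76) (nat_lit 0) (XT.lf (nat_lit 0) (nat_lit 16925140985) (nat_lit 76) (nat_lit 33221639213) (nat_lit 76) (nat_lit 21095908834) (nat_lit 157) (nat_lit 4) (nat_lit 158) (nat_lit 5) (nat_lit 158) (nat_lit 4) (nat_lit 436) (nat_lit 338) (nat_lit 246)) (XT.lf (nat_lit 0) (nat_lit 2675453008) (nat_lit 152) (nat_lit 6647612864) (nat_lit 76) (nat_lit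 64263990676) (nat_lit 156) (nat_lit 5) (nat_lit 158) (nat_lit 5) (nat_lit 157) (nat_lit 4) (nat_lit 437) (nat_lit 338) (nat_lit 245))) (XT.nd (nat_lit 78) (nat_lit 76) (nat_lit 0) (XT.lf (nat_lit 0) (nat_lit 27857713600) (nat_lit 152) (nat_lit 31829873456) (nat_lit 0) (nat_lit 16297199078) (nat_lit 155) (nat_lit 5) (nat_lit 157) (nat_lit 4) (nat_lit 155) (nat_lit 4) (nat_lit 438) (nat_lit 338) (nat_lit 244)) (XT.lf (nat_lit 0) (nat_lit 19654818531) (nat_lit 76) (nat_lit 35193160681) (nat_lit 76) (nat_lit 23626978388) (nat_lit 154) (nat_lit 4) (nat_lit 155) (nat_lit 5) (nat_lit 155) (nat_lit 4) (nat_lit 439) (nat_lit 338) (nat_lit 243)))))) (XT.nd (nat_lit 624) (nat_lit 608) (nat_lit 0) (XT.nd (nat_lit 312) (nat_lit 304) (nat_lit 0) (XT.nd (nat_lit 156) (nat_lit 152) (nat_lit 0) (XT.nd (nat_lit 78) (nat_lit 76) (nat_lit 0) (XT.lf (nat_lit 0) (nat_lit 2553629764) (nat_lit 152) (nat_lit 6336639151)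 (nat_lit 76) (nat_lit 72171597734) (nat_lit 153) (nat_lit 5) (nat_lit 155) (nat_lit 5) (nat_lit 154) (nat_lit 4) (nat_lit 440) (nat_lit 338) (nat_lit 242)) (XT.lf (nat_lit 0) (nat_lit 30315952888) (nat_lit 152) (nat_lit 34098962275) (nat_lit 0) (nat_lit 19290504313) (nat_lit 152) (nat_lit 5) (nat_lit 154) (nat_lit 4) (nat_lit 152) (nat_lit 4) (nat_lit 441) (nat_lit 338) (nat_lit 241))) (XT.nd (nat_lit 78) (nat_lit 76) (nat_lit 0) (XT.lf (nat_lit 0) (nat_lit 22618607508) (nat_lit 76) (nat_lit 37431728359) (nat_lit 76) (nat_lit 26401616895) (nat_lit 151) (nat_lit 4) (nat_lit 152) (nat_lit 5) (nat_lit 152) (nat_lit 4) (nat_lit 442) (nat_lit 338) (nat_lit 240)) (XT.lf (nat_lit 0) (nat_lit 2436618435) (nat_lit 152) (nat_lit 6039484518) (nat_lit 76) (nat_lit 80830051468) (nat_lit 150) (nat_lit 5) (nat_lit 152) (nat_lit 5) (nat_lit 151) (nat_lit 4) (nat_lit 443) (nat_lit 338) (nat_lit 239)))) (XT.nd (nat_lit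 156) (nat_lit 152) (nat_lit 0) (XT.nd (nat_lit 78) (nat_lit 76) (nat_lit 0) (XT.lf (nat_lit 0) (nat_lit 33043658928) (nat_lit 152) (nat_lit 36646525011) (nat_lit 0) (nat_lit 22530533511) (nat_lit 149) (nat_lit 5) (nat_lit 151) (nat_lit 4) (nat_lit 149) (nat_lit 4) (nat_lit 444) (nat_lit 338) (nat_lit 238)) (XT.lf (nat_lit 0) (nat_lit 25842379377) (nat_lit 76) (nat_lit 39962207047) (nat_lit 76) (nat_lit 29445245459) (nat_lit 148) (nat_lit 4) (nat_lit 149) (nat_lit 5) (nat_lit 149) (nat_lit 4) (nat_lit 445) (nat_lit 338) (nat_lit 237))) (XT.nd (nat_lit 78) (nat_lit 76) (nat_lit 0) (XT.lf (nat_lit 0) (nat_lit 2324365262) (nat_lit 152) (nat_lit 5755666293) (nat_lit 76) (nat_lit 90318588326) (nat_lit 147) (nat_lit 5) (nat_lit 149) (nat_lit 5) (nat_lit 148) (nat_lit 4) (nat_lit 446) (nat_lit 338) (nat_lit 236)) (XT.lf (nat_lit 0) (nat_lit 36067869902) (nat_lit 152) (nat_lit 39499170933) (nat_lit 0) (nat_lit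 26044922662) (nat_lit 146) (nat_lit 5) (nat_lit 148) (nat_lit 4) (nat_lit 146) (nat_lit 4) (nat_lit 447) (nat_lit 338) (nat_lit 235))))) (XT.nd (nat_lit 312) (nat_lit 304) (nat_lit 0) (XT.nd (nat_lit 156) (nat_lit 152) (nat_lit 0) (XT.nd (nat_lit 78) (nat_lit 76) (nat_lit 0) (XT.lf (nat_lit 0) (nat_lit 29354621367) (nat_lit 76) (nat_lit 42812025665) (nat_lit 76) (nat_lit 32785922398) (nat_lit 145) (nat_lit 4) (nat_lit 146) (nat_lit 5) (nat_lit 146) (nat_lit 4) (nat_lit 448) (nat_lit 338) (nat_lit 234)) (XT.lf (nat_lit 0) (nat_lit 2216787954) (nat_lit 152) (nat_lit 5484693698) (nat_lit 76) (nat_lit 100724558771) (nat_lit 144) (nat_lit 5) (nat_lit 146) (nat_lit 5) (nat_lit 145) (nat_lit 4) (nat_lit 449) (nat_lit 338) (nat_lit 233))) (XT.nd (nat_lit 78) (nat_lit 76) (nat_lit 0) (XT.lf (nat_lit 0) (nat_lit 39418378619) (nat_lit 152) (nat_lit 42686284363) (nat_lit 0) (nat_lit 29864119938) (nat_lit 143)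 (nat_lit 5) (nat_lit 145) (nat_lit 4) (nat_lit 143) (nat_lit 4) (nat_lit 450) (nat_lit 338) (nat_lit 232)) (XT.lf (nat_lit 0) (nat_lit 33186696870) (nat_lit 76) (nat_lit 46011457766) (nat_lit 76) (nat_lit 36454602614) (nat_lit 142) (nat_lit 4) (nat_lit 143) (nat_lit 5) (nat_lit 143) (nat_lit 4) (nat_lit 451) (nat_lit 338) (nat_lit 231)))) (XT.nd (nat_lit 156) (nat_lit 152) (nat_lit 0) (XT.nd (nat_lit 78) (nat_lit 76) (nat_lit 0) (XT.lf (nat_lit 0) (nat_lit 2113782556) (nat_lit 152) (nat_lit 5226073741) (nat_lit 76) (nat_lit 112144241499) (nat_lit 141) (nat_lit 5) (nat_lit 143) (nat_lit 5) (nat_lit 142) (nat_lit 4) (nat_lit 452) (nat_lit 338) (nat_lit 230)) (XT.lf (nat_lit 0) (nat_lit 43128023555) (nat_lit 152) (nat_lit 46240314740) (nat_lit 0) (nat_lit 34021658739) (nat_lit 140) (nat_lit 5) (nat_lit 142) (nat_lit 4) (nat_lit 140) (nat_lit 4) (nat_lit 453) (nat_lit 338) (nat_lit 229))) (XT.nd (nat_lit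 78) (nat_lit 76) (nat_lit 0) (XT.lf (nat_lit 0) (nat_lit 37373134564) (nat_lit 76) (nat_lit 49593926688) (nat_lit 76) (nat_lit 40485425749) (nat_lit 139) (nat_lit 4) (nat_lit 140) (nat_lit 5) (nat_lit 140) (nat_lit 4) (nat_lit 454) (nat_lit 338) (nat_lit 228)) (XT.lf (nat_lit 0) (nat_lit 2015229016) (nat_lit 152) (nat_lit 4979315858) (nat_lit 76) (nat_lit 124683745111) (nat_lit 138) (nat_lit 5) (nat_lit 140) (nat_lit 5) (nat_lit 139) (nat_lit 4) (nat_lit 455) (nat_lit 338) (nat_lit 227))))))))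
noncomputable def xc124 : XT := (XT.nd (nat_lit 1248) (nat_lit 1216) (nat_lit 0) (XT.nd (nat_lit 624) (nat_lit 608) (nat_lit 0) (XT.nd (nat_lit 312) (nat_lit 304) (nat_lit 0) (XT.nd (nat_lit 156) (nat_lit 152) (nat_lit 0) (XT.nd (nat_lit 78) (nat_lit 76) (nat_lit 0) (XT.lf (nat_lit 0) (nat_lit 47233007911) (nat_lit 152) (nat_lit 50197094753) (nat_lit 0) (nat_lit 38554462321) (nat_lit 137) (nat_lit 5) (nat_lit 139) (nat_lit 4) (nat_lit 137) (nat_lit 4) (nat_lit 456) (nat_lit 338) (nat_lit 226)) (XT.lf (nat_lit 0) (nat_lit 41951948827) (nat_lit 76) (nat_lit 53596338653) (nat_lit 76) (nat_lit 44916035669) (nat_lit 136) (nat_lit 4) (nat_lit 137) (nat_lit 5) (nat_lit 137) (nat_lit 4) (nat_lit 457) (nat_lit 338) (nat_lit 225))) (XT.nd (nat_lit 78) (nat_lit 76) (nat_lit 0) (XT.lf (nat_lit 0) (nat_lit 1920995685) (nat_lit 152) (nat_lit 4743935535) (nat_lit 76) (nat_lit 138460005445) (nat_lit 135) (nat_lit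 5) (nat_lit 137) (nat_lit 5) (nat_lit 136) (nat_lit 4) (nat_lit 458) (nat_lit 338) (nat_lit 224)) (XT.lf (nat_lit 0) (nat_lit 51773249895) (nat_lit 152) (nat_lit 54596189745) (nat_lit 0) (nat_lit 43503182563) (nat_lit 134) (nat_lit 5) (nat_lit 136) (nat_lit 4) (nat_lit 134) (nat_lit 4) (nat_lit 459) (nat_lit 338) (nat_lit 223)))) (XT.nd (nat_lit 156) (nat_lit 152) (nat_lit 0) (XT.nd (nat_lit 78) (nat_lit 76) (nat_lit 0) (XT.lf (nat_lit 0) (nat_lit 46964994311) (nat_lit 76) (nat_lit 58059447306) (nat_lit 76) (nat_lit 49787934161) (nat_lit 133) (nat_lit 4) (nat_lit 134) (nat_lit 5) (nat_lit 134) (nat_lit 4) (nat_lit 460) (nat_lit 338) (nat_lit 222)) (XT.lf (nat_lit 0) (nat_lit 1830942939) (nat_lit 152) (nat_lit 4519457082) (nat_lit 76) (nat_lit 153601887765) (nat_lit 132) (nat_lit 5) (nat_lit 134) (nat_lit 5) (nat_lit 133) (nat_lit 4) (nat_lit 461) (nat_lit 338) (nat_lit 221))) (XT.nd (nat_lit 78)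 (nat_lit 76) (nat_lit 0) (XT.lf (nat_lit 0) (nat_lit 56792767710) (nat_lit 152) (nat_lit 59481281853) (nat_lit 0) (nat_lit 48912575803) (nat_lit 131) (nat_lit 5) (nat_lit 133) (nat_lit 4) (nat_lit 131) (nat_lit 4) (nat_lit 462) (nat_lit 338) (nat_lit 220)) (XT.lf (nat_lit 0) (nat_lit 52458357926) (nat_lit 76) (nat_lit 63028253450) (nat_lit 76) (nat_lit 55146872069) (nat_lit 130) (nat_lit 4) (nat_lit 131) (nat_lit 5) (nat_lit 131) (nat_lit 4) (nat_lit 463) (nat_lit 338) (nat_lit 219))))) (XT.nd (nat_lit 312) (nat_lit 304) (nat_lit 0) (XT.nd (nat_lit 156) (nat_lit 152) (nat_lit 0) (XT.nd (nat_lit 78) (nat_lit 76) (nat_lit 0) (XT.lf (nat_lit 0) (nat_lit 1744926082) (nat_lit 152) (nat_lit 4305415742) (nat_lit 76) (nat_lit 170251404049) (nat_lit 129) (nat_lit 5) (nat_lit 131) (nat_lit 5) (nat_lit 130) (nat_lit 4) (nat_lit 464) (nat_lit 338) (nat_lit 218)) (XT.lf (nat_lit 0) (nat_lit 62340103015) (nat_lit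 152) (nat_lit 64900592675) (nat_lit 0) (nat_lit 54831919110) (nat_lit 128) (nat_lit 5) (nat_lit 130) (nat_lit 4) (nat_lit 128) (nat_lit 4) (nat_lit 465) (nat_lit 338) (nat_lit 217))) (XT.nd (nat_lit 78) (nat_lit 76) (nat_lit 0) (XT.lf (nat_lit 0) (nat_lit 58482791838) (nat_lit 76) (nat_lit 68552443986) (nat_lit 76) (nat_lit 61043281498) (nat_lit 127) (nat_lit 4) (nat_lit 128) (nat_lit 5) (nat_lit 128) (nat_lit 4) (nat_lit 466) (nat_lit 338) (nat_lit 216)) (XT.lf (nat_lit 0) (nat_lit 1662797668) (nat_lit 152) (nat_lit 4101359249) (nat_lit 76) (nat_lit 188565056755) (nat_lit 126) (nat_lit 5) (nat_lit 128) (nat_lit 5) (nat_lit 127) (nat_lit 4) (nat_lit 467) (nat_lit 338) (nat_lit 215)))) (XT.nd (nat_lit 156) (nat_lit 152) (nat_lit 0) (XT.nd (nat_lit 78) (nat_lit 76) (nat_lit 0) (XT.lf (nat_lit 0) (nat_lit 68468787002) (nat_lit 152) (nat_lit 70907348583) (nat_lit 0) (nat_lit 61315470741) (nat_lit 125)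 (nat_lit 5) (nat_lit 127) (nat_lit 4) (nat_lit 125) (nat_lit 4) (nat_lit 468) (nat_lit 338) (nat_lit 214)) (XT.lf (nat_lit 0) (nat_lit 65094191533) (nat_lit 76) (nat_lit 74686874457) (nat_lit 76) (nat_lit 67532753114) (nat_lit 124) (nat_lit 4) (nat_lit 125) (nat_lit 5) (nat_lit 125) (nat_lit 4) (nat_lit 469) (nat_lit 338) (nat_lit 213))) (XT.nd (nat_lit 78) (nat_lit 76) (nat_lit 0) (XT.lf (nat_lit 0) (nat_lit 1584409340) (nat_lit 152) (nat_lit 3906848940) (nat_lit 76) (nat_lit 208715321696) (nat_lit 123) (nat_lit 5) (nat_lit 125) (nat_lit 5) (nat_lit 124) (nat_lit 4) (nat_lit 470) (nat_lit 338) (nat_lit 212)) (XT.lf (nat_lit 0) (nat_lit 75237853606) (nat_lit 152) (nat_lit 77560293206) (nat_lit 0) (nat_lit 68422979014) (nat_lit 122) (nat_lit 5) (nat_lit 124) (nat_lit 4) (nat_lit 122) (nat_lit 4) (nat_lit 471) (nat_lit 338) (nat_lit 211)))))) (XT.nd (nat_lit 624) (nat_lit 608) (nat_lit 0) (XT.nd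 (nat_lit 312) (nat_lit 304) (nat_lit 0) (XT.nd (nat_lit 156) (nat_lit 152) (nat_lit 0) (XT.nd (nat_lit 78) (nat_lit 76) (nat_lit 0) (XT.lf (nat_lit 0) (nat_lit 72354123390) (nat_lit 76) (nat_lit 81492099926) (nat_lit 76) (nat_lit 74676562991) (nat_lit 121) (nat_lit 4) (nat_lit 122) (nat_lit 5) (nat_lit 122) (nat_lit 4) (nat_lit 472) (nat_lit 338) (nat_lit 210)) (XT.lf (nat_lit 0) (nat_lit 1509613278) (nat_lit 152) (nat_lit 3721460517) (nat_lit 76) (nat_lit 230892284004) (nat_lit 120) (nat_lit 5) (nat_lit 122) (nat_lit 5) (nat_lit 121) (nat_lit 4) (nat_lit 473) (nat_lit 338) (nat_lit 209))) (XT.nd (nat_lit 78) (nat_lit 76) (nat_lit 0) (XT.lf (nat_lit 0) (nat_lit 82712404792) (nat_lit 152) (nat_lit 84924252031) (nat_lit 0) (nat_lit 76220244313) (nat_lit 119) (nat_lit 5) (nat_lit 121) (nat_lit 4) (nat_lit 119) (nat_lit 4) (nat_lit 474) (nat_lit 338) (nat_lit 208)) (XT.lf (nat_lit 0) (nat_lit 80330406754)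 (nat_lit 76) (nat_lit 89034959383) (nat_lit 76) (nat_lit 82542253993) (nat_lit 118) (nat_lit 4) (nat_lit 119) (nat_lit 5) (nat_lit 119) (nat_lit 4) (nat_lit 475) (nat_lit 338) (nat_lit 207)))) (XT.nd (nat_lit 156) (nat_lit 152) (nat_lit 0) (XT.nd (nat_lit 78) (nat_lit 76) (nat_lit 0) (XT.lf (nat_lit 0) (nat_lit 1438263335) (nat_lit 152) (nat_lit 3544784515) (nat_lit 76) (nat_lit 255305442649) (nat_lit 117) (nat_lit 5) (nat_lit 119) (nat_lit 5) (nat_lit 118) (nat_lit 4) (nat_lit 476) (nat_lit 338) (nat_lit 206)) (XT.lf (nat_lit 0) (nat_lit 90964233380) (nat_lit 152) (nat_lit 93070754560) (nat_lit 0) (nat_lit 84779739471) (nat_lit 116) (nat_lit 5) (nat_lit 118) (nat_lit 4) (nat_lit 116) (nat_lit 4) (nat_lit 477) (nat_lit 338) (nat_lit 205))) (XT.nd (nat_lit 78) (nat_lit 76) (nat_lit 0) (XT.lf (nat_lit 0) (nat_lit 89097755976) (nat_lit 76) (nat_lit 97389219364) (nat_lit 76) (nat_lit 91204277156) (nat_lit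 115) (nat_lit 4) (nat_lit 116) (nat_lit 5) (nat_lit 116) (nat_lit 4) (nat_lit 478) (nat_lit 338) (nat_lit 204)) (XT.lf (nat_lit 0) (nat_lit 1370215906) (nat_lit 152) (nat_lit 3376426553) (nat_lit 76) (nat_lit 282185700608) (nat_lit 114) (nat_lit 5) (nat_lit 116) (nat_lit 5) (nat_lit 115) (nat_lit 4) (nat_lit 479) (nat_lit 338) (nat_lit 203))))) (XT.nd (nat_lit 312) (nat_lit 304) (nat_lit 0) (XT.nd (nat_lit 156) (nat_lit 152) (nat_lit 0) (XT.nd (nat_lit 78) (nat_lit 76) (nat_lit 0) (XT.lf (nat_lit 0) (nat_lit 100072509357) (nat_lit 152) (nat_lit 102078720004) (nat_lit 0) (nat_lit 94181294326) (nat_lit 113) (nat_lit 5) (nat_lit 115) (nat_lit 4) (nat_lit 113) (nat_lit 4) (nat_lit 480) (nat_lit 338) (nat_lit 202)) (XT.lf (nat_lit 0) (nat_lit 98738488498) (nat_lit 76) (nat_lit 106636282994) (nat_lit 76) (nat_lit 100744699146) (nat_lit 112) (nat_lit 4) (nat_lit 113) (nat_lit 5) (nat_lit 113) (nat_lit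 4) (nat_lit 481) (nat_lit 338) (nat_lit 201))) (XT.nd (nat_lit 78) (nat_lit 76) (nat_lit 0) (XT.lf (nat_lit 0) (nat_lit 1305330588) (nat_lit 152) (nat_lit 3216007396) (nat_lit 76) (nat_lit 311787559556) (nat_lit 111) (nat_lit 5) (nat_lit 113) (nat_lit 5) (nat_lit 112) (nat_lit 4) (nat_lit 482) (nat_lit 338) (nat_lit 200)) (XT.lf (nat_lit 0) (nat_lit 110124536290) (nat_lit 152) (nat_lit 112035213097) (nat_lit 0) (nat_lit 104512850927) (nat_lit 110) (nat_lit 5) (nat_lit 112) (nat_lit 4) (nat_lit 110) (nat_lit 4) (nat_lit 483) (nat_lit 338) (nat_lit 199)))) (XT.nd (nat_lit 156) (nat_lit 152) (nat_lit 0) (XT.nd (nat_lit 78) (nat_lit 76) (nat_lit 0) (XT.lf (nat_lit 0) (nat_lit 109343305696) (nat_lit 76) (nat_lit 116865971294) (nat_lit 76) (nat_lit 111253982503) (nat_lit 109) (nat_lit 4) (nat_lit 110) (nat_lit 5) (nat_lit 110) (nat_lit 4) (nat_lit 484) (nat_lit 338) (nat_lit 198)) (XT.lf (nat_lit 0)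 (nat_lit 1243470679) (nat_lit 152) (nat_lit 3063162876) (nat_lit 76) (nat_lit 344391539927) (nat_lit 108) (nat_lit 5) (nat_lit 110) (nat_lit 5) (nat_lit 109) (nat_lit 4) (nat_lit 485) (nat_lit 338) (nat_lit 197))) (XT.nd (nat_lit 78) (nat_lit 76) (nat_lit 0) (XT.lf (nat_lit 0) (nat_lit 121216585049) (nat_lit 152) (nat_lit 123036277246) (nat_lit 0) (nat_lit 115871296491) (nat_lit 107) (nat_lit 5) (nat_lit 109) (nat_lit 4) (nat_lit 107) (nat_lit 4) (nat_lit 486) (nat_lit 338) (nat_lit 196)) (XT.lf (nat_lit 0) (nat_lit 121012153875) (nat_lit 76) (nat_lit 128177384260) (nat_lit 76) (nat_lit 122831846072) (nat_lit 106) (nat_lit 4) (nat_lit 107) (nat_lit 5) (nat_lit 107) (nat_lit 4) (nat_lit 487) (nat_lit 338) (nat_lit 195)))))))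
noncomputable def xc125 : XT := (XT.nd (nat_lit 42510) (nat_lit 0) (nat_lit 11704) (XT.nd (nat_lit 41886) (nat_lit 0) (nat_lit 17176) (XT.nd (nat_lit 312) (nat_lit 152) (nat_lit 0) (XT.nd (nat_lit 156) (nat_lit 152) (nat_lit 0) (XT.nd (nat_lit 78) (nat_lit 76) (nat_lit 0) (XT.lf (nat_lit 0) (nat_lit 1184503522) (nat_lit 152) (nat_lit 2917543710) (nat_lit 76) (nat_lit 380306849348) (nat_lit 105) (nat_lit 5) (nat_lit 107) (nat_lit 5) (nat_lit 106) (nat_lit 4) (nat_lit 488) (nat_lit 338) (nat_lit 194)) (XT.lf (nat_lit 0) (nat_lit 133454812822) (nat_lit 152) (nat_lit 135187853010) (nat_lit 0) (nat_lit 128363382010) (nat_lit 104) (nat_lit 5) (nat_lit 106) (nat_lit 4) (nat_lit 104) (nat_lit 4) (nat_lit 489) (nat_lit 338) (nat_lit 193))) (XT.nd (nat_lit 78) (nat_lit 76) (nat_lit 0) (XT.lf (nat_lit 0) (nat_lit 133855173604) (nat_lit 76) (nat_lit 140679849975) (nat_lit 76) (nat_lit 135588213792) (nat_lit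 103) (nat_lit 4) (nat_lit 104) (nat_lit 5) (nat_lit 104) (nat_lit 4) (nat_lit 490) (nat_lit 338) (nat_lit 192)) (XT.lf (nat_lit 0) (nat_lit 1128300757) (nat_lit 152) (nat_lit 2778815222) (nat_lit 76) (nat_lit 419874324810) (nat_lit 102) (nat_lit 5) (nat_lit 104) (nat_lit 5) (nat_lit 103) (nat_lit 4) (nat_lit 491) (nat_lit 338) (nat_lit 191)))) (XT.nd (nat_lit 41418) (nat_lit 0) (nat_lit 18924) (XT.nd (nat_lit 78) (nat_lit 76) (nat_lit 0) (XT.lf (nat_lit 0) (nat_lit 146956276208) (nat_lit 152) (nat_lit 148606790672) (nat_lit 0) (nat_lit 142106735204) (nat_lit 101) (nat_lit 5) (nat_lit 103) (nat_lit 4) (nat_lit 101) (nat_lit 4) (nat_lit 492) (nat_lit 338) (nat_lit 190)) (XT.lf (nat_lit 0) (nat_lit 147993746404) (nat_lit 76) (nat_lit 154493970832) (nat_lit 76) (nat_lit 149644260869) (nat_lit 100) (nat_lit 4) (nat_lit 101) (nat_lit 5) (nat_lit 101) (nat_lit 4) (nat_lit 493) (nat_lit 338) (nat_lit 189)))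 (XT.nd (nat_lit 78) (nat_lit 76) (nat_lit 0) (XT.lf (nat_lit 0) (nat_lit 106508261) (nat_lit 76) (nat_lit 1559894516) (nat_lit 76) (nat_lit 1559894516) (nat_lit 350) (nat_lit 4) (nat_lit 351) (nat_lit 5) (nat_lit 351) (nat_lit 4) (nat_lit 342) (nat_lit 339) (nat_lit 339)) (XT.lf (nat_lit 0) (nat_lit 103099332) (nat_lit 152) (nat_lit 2710392829) (nat_lit 76) (nat_lit 3654500414) (nat_lit 349) (nat_lit 5) (nat_lit 351) (nat_lit 5) (nat_lit 350) (nat_lit 4) (nat_lit 343) (nat_lit 339) (nat_lit 338))))) (XT.nd (nat_lit 312) (nat_lit 1292) (nat_lit 0) (XT.nd (nat_lit 156) (nat_lit 304) (nat_lit 0) (XT.nd (nat_lit 78) (nat_lit 0) (nat_lit 0) (XT.lf (nat_lit 0) (nat_lit 853588242) (nat_lit 152) (nat_lit 2345411941) (nat_lit 228) (nat_lit 3291767402) (nat_lit 347) (nat_lit 5) (nat_lit 349) (nat_lit 5) (nat_lit 350) (nat_lit 4) (nat_lit 344) (nat_lit 339) (nat_lit 337)) (XT.lf (nat_lit 0) (nat_lit 4573928227)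 (nat_lit 152) (nat_lit 1732608617) (nat_lit 228) (nat_lit 215302467) (nat_lit 347) (nat_lit 5) (nat_lit 349) (nat_lit 5) (nat_lit 350) (nat_lit 4) (nat_lit 345) (nat_lit 339) (nat_lit 336))) (XT.nd (nat_lit 78) (nat_lit 0) (nat_lit 0) (XT.lf (nat_lit 0) (nat_lit 1820548022) (nat_lit 228) (nat_lit 943353261) (nat_lit 304) (nat_lit 3795939021) (nat_lit 343) (nat_lit 5) (nat_lit 346) (nat_lit 5) (nat_lit 347) (nat_lit 5) (nat_lit 346) (nat_lit 339) (nat_lit 335)) (XT.lf (nat_lit 0) (nat_lit 5726820344) (nat_lit 228) (nat_lit 14856955) (nat_lit 304) (nat_lit 865045189) (nat_lit 343) (nat_lit 5) (nat_lit 346) (nat_lit 5) (nat_lit 347) (nat_lit 5) (nat_lit 347) (nat_lit 339) (nat_lit 334)))) (XT.nd (nat_lit 156) (nat_lit 532) (nat_lit 0) (XT.nd (nat_lit 78) (nat_lit 380) (nat_lit 0) (XT.lf (nat_lit 0) (nat_lit 2037119111) (nat_lit 380) (nat_lit 3554425261) (nat_lit 76) (nat_lit 1067900517) (nat_lit 338)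 (nat_lit 5) (nat_lit 343) (nat_lit 5) (nat_lit 339) (nat_lit 5) (nat_lit 348) (nat_lit 339) (nat_lit 333)) (XT.lf (nat_lit 0) (nat_lit 484596281) (nat_lit 380) (nat_lit 4430383656) (nat_lit 456) (nat_lit 1806131446) (nat_lit 333) (nat_lit 5) (nat_lit 338) (nat_lit 5) (nat_lit 339) (nat_lit 5) (nat_lit 349) (nat_lit 339) (nat_lit 332))) (XT.nd (nat_lit 78) (nat_lit 456) (nat_lit 0) (XT.lf (nat_lit 0) (nat_lit 1015247340) (nat_lit 456) (nat_lit 2078081275) (nat_lit 76) (nat_lit 3696573675) (nat_lit 332) (nat_lit 5) (nat_lit 338) (nat_lit 5) (nat_lit 333) (nat_lit 5) (nat_lit 350) (nat_lit 339) (nat_lit 331)) (XT.lf (nat_lit 0) (nat_lit 2210122073) (nat_lit 456) (nat_lit 1589026206) (nat_lit 532) (nat_lit 3067396474) (nat_lit 326) (nat_lit 5) (nat_lit 332) (nat_lit 5) (nat_lit 333) (nat_lit 5) (nat_lit 351) (nat_lit 339) (nat_lit 330)))))) (XT.nd (nat_lit 624) (nat_lit 2204) (nat_lit 0) (XT.nd (nat_lit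 312) (nat_lit 1976) (nat_lit 0) (XT.nd (nat_lit 156) (nat_lit 684) (nat_lit 0) (XT.nd (nat_lit 78) (nat_lit 608) (nat_lit 0) (XT.lf (nat_lit 0) (nat_lit 6611395415) (nat_lit 532) (nat_lit 285971925) (nat_lit 76) (nat_lit 55194442) (nat_lit 326) (nat_lit 5) (nat_lit 333) (nat_lit 5) (nat_lit 327) (nat_lit 5) (nat_lit 352) (nat_lit 339) (nat_lit 329)) (XT.lf (nat_lit 0) (nat_lit 2393529248) (nat_lit 608) (nat_lit 2788584014) (nat_lit 76) (nat_lit 1861155426) (nat_lit 318) (nat_lit 5) (nat_lit 326) (nat_lit 5) (nat_lit 319) (nat_lit 5) (nat_lit 353) (nat_lit 339) (nat_lit 328))) (XT.nd (nat_lit 78) (nat_lit 76) (nat_lit 0) (XT.lf (nat_lit 0) (nat_lit 1824962544) (nat_lit 608) (nat_lit 3325054678) (nat_lit 684) (nat_lit 1993387923) (nat_lit 310) (nat_lit 5) (nat_lit 318) (nat_lit 5) (nat_lit 319) (nat_lit 5) (nat_lit 354) (nat_lit 339) (nat_lit 327)) (XT.lf (nat_lit 0) (nat_lit 683898801) (nat_lit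 684) (nat_lit 617674538) (nat_lit 76) (nat_lit 5950674487) (nat_lit 309) (nat_lit 5) (nat_lit 318) (nat_lit 5) (nat_lit 310) (nat_lit 5) (nat_lit 355) (nat_lit 339) (nat_lit 326)))) (XT.nd (nat_lit 156) (nat_lit 532) (nat_lit 0) (XT.nd (nat_lit 78) (nat_lit 760) (nat_lit 0) (XT.lf (nat_lit 0) (nat_lit 3381896650) (nat_lit 760) (nat_lit 3077711531) (nat_lit 76) (nat_lit 907598651) (nat_lit 300) (nat_lit 5) (nat_lit 310) (nat_lit 5) (nat_lit 301) (nat_lit 5) (nat_lit 356) (nat_lit 339) (nat_lit 325)) (XT.lf (nat_lit 0) (nat_lit 1892375006) (nat_lit 760) (nat_lit 4260313106) (nat_lit 836) (nat_lit 1338330990) (nat_lit 290) (nat_lit 5) (nat_lit 300) (nat_lit 5) (nat_lit 301) (nat_lit 5) (nat_lit 357) (nat_lit 339) (nat_lit 324))) (XT.nd (nat_lit 78) (nat_lit 456) (nat_lit 0) (XT.lf (nat_lit 0) (nat_lit 1326272324) (nat_lit 836) (nat_lit 548752458) (nat_lit 76) (nat_lit 5748302500) (nat_lit 289) (nat_lit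 5) (nat_lit 300) (nat_lit 5) (nat_lit 290) (nat_lit 5) (nat_lit 358) (nat_lit 339) (nat_lit 323)) (XT.lf (nat_lit 0) (nat_lit 4049098483) (nat_lit 532) (nat_lit 3009226773) (nat_lit 76) (nat_lit 704330153) (nat_lit 283) (nat_lit 5) (nat_lit 290) (nat_lit 5) (nat_lit 284) (nat_lit 5) (nat_lit 359) (nat_lit 339) (nat_lit 322))))) (XT.nd (nat_lit 312) (nat_lit 1064) (nat_lit 0) (XT.nd (nat_lit 156) (nat_lit 684) (nat_lit 0) (XT.nd (nat_lit 78) (nat_lit 76) (nat_lit 0) (XT.lf (nat_lit 0) (nat_lit 2353242099) (nat_lit 380) (nat_lit 4519569603) (nat_lit 456) (nat_lit 1037900954) (nat_lit 278) (nat_lit 5) (nat_lit 283) (nat_lit 5) (nat_lit 284) (nat_lit 5) (nat_lit 360) (nat_lit 339) (nat_lit 321)) (XT.lf (nat_lit 0) (nat_lit 1656135216) (nat_lit 456) (nat_lit 127959928) (nat_lit 76) (nat_lit 6283629803) (nat_lit 277) (nat_lit 5) (nat_lit 283) (nat_lit 5) (nat_lit 278) (nat_lit 5) (nat_lit 361) (nat_lit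 339) (nat_lit 320))) (XT.nd (nat_lit 78) (nat_lit 304) (nat_lit 0) (XT.lf (nat_lit 0) (nat_lit 4450963294) (nat_lit 456) (nat_lit 2633545099) (nat_lit 76) (nat_lit 1147180203) (nat_lit 272) (nat_lit 5) (nat_lit 278) (nat_lit 5) (nat_lit 273) (nat_lit 5) (nat_lit 362) (nat_lit 339) (nat_lit 319)) (XT.lf (nat_lit 0) (nat_lit 3161962719) (nat_lit 304) (nat_lit 4202120704) (nat_lit 380) (nat_lit 1040839471) (nat_lit 268) (nat_lit 5) (nat_lit 272) (nat_lit 5) (nat_lit 273) (nat_lit 5) (nat_lit 363) (nat_lit 339) (nat_lit 318)))) (XT.nd (nat_lit 156) (nat_lit 684) (nat_lit 0) (XT.nd (nat_lit 78) (nat_lit 0) (nat_lit 0) (XT.lf (nat_lit 0) (nat_lit 622008958) (nat_lit 304) (nat_lit 1109423988) (nat_lit 380) (nat_lit 6856244821) (nat_lit 263) (nat_lit 5) (nat_lit 267) (nat_lit 5) (nat_lit 268) (nat_lit 5) (nat_lit 364) (nat_lit 339) (nat_lit 317)) (XT.lf (nat_lit 0) (nat_lit 4632647984) (nat_lit 380) (nat_lit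 1989935249) (nat_lit 76) (nat_lit 2154868602) (nat_lit 263) (nat_lit 5) (nat_lit 268) (nat_lit 5) (nat_lit 264) (nat_lit 5) (nat_lit 365) (nat_lit 339) (nat_lit 316))) (XT.nd (nat_lit 78) (nat_lit 380) (nat_lit 0) (XT.lf (nat_lit 0) (nat_lit 4284325280) (nat_lit 304) (nat_lit 3386039550) (nat_lit 380) (nat_lit 1306777724) (nat_lit 259) (nat_lit 5) (nat_lit 263) (nat_lit 5) (nat_lit 264) (nat_lit 5) (nat_lit 366) (nat_lit 339) (nat_lit 315)) (XT.nd (nat_lit 78) (nat_lit 0) (nat_lit 0) (XT.lf (nat_lit 0) (nat_lit 1588479633) (nat_lit 380) (nat_lit 7525847122) (nat_lit 76) (nat_lit 72740868) (nat_lit 254) (nat_lit 5) (nat_lit 259) (nat_lit 5) (nat_lit 255) (nat_lit 5) (nat_lit 367) (nat_lit 339) (nat_lit 314)) (XT.lf (nat_lit 0) (nat_lit 4630481994) (nat_lit 380) (nat_lit 1108311035) (nat_lit 76) (nat_lit 3665329865) (nat_lit 254) (nat_lit 5) (nat_lit 259) (nat_lit 5) (nat_lit 255) (nat_lit 5) (nat_lit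 368) (nat_lit 339) (nat_lit 313))))))))
noncomputable def xc126 : XT := (XT.nd (nat_lit 2496) (nat_lit 2508) (nat_lit 0) (XT.nd (nat_lit 1248) (nat_lit 1672) (nat_lit 0) (XT.nd (nat_lit 624) (nat_lit 1140) (nat_lit 0) (XT.nd (nat_lit 312) (nat_lit 836) (nat_lit 0) (XT.nd (nat_lit 156) (nat_lit 228) (nat_lit 0) (XT.nd (nat_lit 78) (nat_lit 380) (nat_lit 0) (XT.lf (nat_lit 0) (nat_lit 5695787648) (nat_lit 228) (nat_lit 2131639831) (nat_lit 304) (nat_lit 1804461300) (nat_lit 251) (nat_lit 5) (nat_lit 254) (nat_lit 5) (nat_lit 255) (nat_lit 5) (nat_lit 369) (nat_lit 339) (nat_lit 312)) (XT.lf (nat_lit 0) (nat_lit 1278121925) (nat_lit 380) (nat_lit 6932757629) (nat_lit 76) (nat_lit 1658789559) (nat_lit 246) (nat_lit 5) (nat_lit 251) (nat_lit 5) (nat_lit 247) (nat_lit 5) (nat_lit 370) (nat_lit 339) (nat_lit 311))) (XT.nd (nat_lit 78) (nat_lit 228) (nat_lit 0) (XT.lf (nat_lit 0) (nat_lit 4473478104) (nat_lit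 380) (nat_lit 10684462) (nat_lit 76) (nat_lit 5632732555) (nat_lit 246) (nat_lit 5) (nat_lit 251) (nat_lit 5) (nat_lit 247) (nat_lit 5) (nat_lit 371) (nat_lit 339) (nat_lit 310)) (XT.lf (nat_lit 0) (nat_lit 7380094592) (nat_lit 228) (nat_lit 484291503) (nat_lit 304) (nat_lit 2510307134) (nat_lit 243) (nat_lit 5) (nat_lit 246) (nat_lit 5) (nat_lit 247) (nat_lit 5) (nat_lit 372) (nat_lit 339) (nat_lit 309)))) (XT.nd (nat_lit 156) (nat_lit 304) (nat_lit 0) (XT.nd (nat_lit 78) (nat_lit 228) (nat_lit 0) (XT.lf (nat_lit 0) (nat_lit 805299805) (nat_lit 304) (nat_lit 6190667142) (nat_lit 76) (nat_lit 3646266365) (nat_lit 239) (nat_lit 5) (nat_lit 243) (nat_lit 5) (nat_lit 240) (nat_lit 5) (nat_lit 373) (nat_lit 339) (nat_lit 308)) (XT.lf (nat_lit 0) (nat_lit 1330237658) (nat_lit 228) (nat_lit 2875099476) (nat_lit 304) (nat_lit 6715604995) (nat_lit 236) (nat_lit 5) (nat_lit 239) (nat_lit 5) (nat_lit 240)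 (nat_lit 5) (nat_lit 374) (nat_lit 339) (nat_lit 307))) (XT.nd (nat_lit 78) (nat_lit 304) (nat_lit 0) (XT.lf (nat_lit 0) (nat_lit 7828659049) (nat_lit 304) (nat_lit 1907718224) (nat_lit 76) (nat_lit 1474544976) (nat_lit 236) (nat_lit 5) (nat_lit 240) (nat_lit 5) (nat_lit 237) (nat_lit 5) (nat_lit 375) (nat_lit 339) (nat_lit 306)) (XT.lf (nat_lit 0) (nat_lit 186741546) (nat_lit 304) (nat_lit 5315662819) (nat_lit 76) (nat_lit 6009266871) (nat_lit 232) (nat_lit 5) (nat_lit 236) (nat_lit 5) (nat_lit 233) (nat_lit 5) (nat_lit 376) (nat_lit 339) (nat_lit 305))))) (XT.nd (nat_lit 312) (nat_lit 532) (nat_lit 0) (XT.nd (nat_lit 156) (nat_lit 456) (nat_lit 0) (XT.nd (nat_lit 78) (nat_lit 0) (nat_lit 0) (XT.lf (nat_lit 0) (nat_lit 2869062642) (nat_lit 152) (nat_lit 957344908) (nat_lit 228) (nat_lit 7997983915) (nat_lit 230) (nat_lit 5) (nat_lit 232) (nat_lit 5) (nat_lit 233) (nat_lit 5) (nat_lit 377) (nat_lit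 339) (nat_lit 304)) (XT.lf (nat_lit 0) (nat_lit 7728430462) (nat_lit 228) (nat_lit 674878772) (nat_lit 76) (nat_lit 3745419790) (nat_lit 230) (nat_lit 5) (nat_lit 233) (nat_lit 5) (nat_lit 231) (nat_lit 5) (nat_lit 378) (nat_lit 339) (nat_lit 303))) (XT.nd (nat_lit 78) (nat_lit 228) (nat_lit 0) (XT.lf (nat_lit 0) (nat_lit 8157203639) (nat_lit 228) (nat_lit 3744080115) (nat_lit 304) (nat_lit 584213244) (nat_lit 227) (nat_lit 5) (nat_lit 230) (nat_lit 5) (nat_lit 231) (nat_lit 5) (nat_lit 379) (nat_lit 339) (nat_lit 302)) (XT.lf (nat_lit 0) (nat_lit 3369584518) (nat_lit 228) (nat_lit 8254271445) (nat_lit 76) (nat_lit 1210752770) (nat_lit 224) (nat_lit 5) (nat_lit 227) (nat_lit 5) (nat_lit 225) (nat_lit 5) (nat_lit 380) (nat_lit 339) (nat_lit 301)))) (XT.nd (nat_lit 156) (nat_lit 380) (nat_lit 0) (XT.nd (nat_lit 78) (nat_lit 0) (nat_lit 0) (XT.lf (nat_lit 0) (nat_lit 729212025) (nat_lit 152) (nat_lit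 6853521479) (nat_lit 228) (nat_lit 5613898952) (nat_lit 222) (nat_lit 5) (nat_lit 224) (nat_lit 5) (nat_lit 225) (nat_lit 5) (nat_lit 381) (nat_lit 339) (nat_lit 300)) (XT.lf (nat_lit 0) (nat_lit 10341072360) (nat_lit 152) (nat_lit 1740750803) (nat_lit 228) (nat_lit 1491170040) (nat_lit 222) (nat_lit 5) (nat_lit 224) (nat_lit 5) (nat_lit 225) (nat_lit 5) (nat_lit 382) (nat_lit 339) (nat_lit 299))) (XT.nd (nat_lit 78) (nat_lit 152) (nat_lit 0) (XT.lf (nat_lit 0) (nat_lit 2844692471) (nat_lit 228) (nat_lit 7496775259) (nat_lit 76) (nat_lit 3619597983) (nat_lit 219) (nat_lit 5) (nat_lit 222) (nat_lit 5) (nat_lit 220) (nat_lit 5) (nat_lit 383) (nat_lit 339) (nat_lit 298)) (XT.lf (nat_lit 0) (nat_lit 2306617819) (nat_lit 152) (nat_lit 5099078106) (nat_lit 228) (nat_lit 6958700607) (nat_lit 217) (nat_lit 5) (nat_lit 219) (nat_lit 5) (nat_lit 220) (nat_lit 5) (nat_lit 384) (nat_lit 339) (nat_lit 297))))))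 (XT.nd (nat_lit 624) (nat_lit 836) (nat_lit 0) (XT.nd (nat_lit 312) (nat_lit 456) (nat_lit 0) (XT.nd (nat_lit 156) (nat_lit 152) (nat_lit 0) (XT.nd (nat_lit 78) (nat_lit 228) (nat_lit 0) (XT.lf (nat_lit 0) (nat_lit 12269057058) (nat_lit 228) (nat_lit 2035201265) (nat_lit 76) (nat_lit 479920193) (nat_lit 217) (nat_lit 5) (nat_lit 220) (nat_lit 5) (nat_lit 218) (nat_lit 4) (nat_lit 385) (nat_lit 339) (nat_lit 296)) (XT.lf (nat_lit 0) (nat_lit 2243789107) (nat_lit 228) (nat_lit 6674344143) (nat_lit 76) (nat_lit 6297038163) (nat_lit 214) (nat_lit 5) (nat_lit 217) (nat_lit 5) (nat_lit 215) (nat_lit 5) (nat_lit 386) (nat_lit 339) (nat_lit 295))) (XT.nd (nat_lit 78) (nat_lit 0) (nat_lit 0) (XT.lf (nat_lit 0) (nat_lit 4036777280) (nat_lit 152) (nat_lit 3159533288) (nat_lit 228) (nat_lit 8467332316) (nat_lit 212) (nat_lit 5) (nat_lit 214) (nat_lit 5) (nat_lit 215) (nat_lit 5) (nat_lit 387) (nat_lit 339)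 (nat_lit 294)) (XT.lf (nat_lit 0) (nat_lit 12499089651) (nat_lit 228) (nat_lit 762131747) (nat_lit 76) (nat_lit 2868184952) (nat_lit 212) (nat_lit 5) (nat_lit 215) (nat_lit 5) (nat_lit 213) (nat_lit 4) (nat_lit 388) (nat_lit 339) (nat_lit 293)))) (XT.nd (nat_lit 156) (nat_lit 152) (nat_lit 0) (XT.nd (nat_lit 78) (nat_lit 152) (nat_lit 0) (XT.lf (nat_lit 0) (nat_lit 1571426137) (nat_lit 152) (nat_lit 5791002362) (nat_lit 76) (nat_lit 9246436741) (nat_lit 210) (nat_lit 5) (nat_lit 212) (nat_lit 5) (nat_lit 211) (nat_lit 5) (nat_lit 389) (nat_lit 339) (nat_lit 292)) (XT.lf (nat_lit 0) (nat_lit 5924669680) (nat_lit 152) (nat_lit 1037842876) (nat_lit 228) (nat_lit 10144245905) (nat_lit 208) (nat_lit 5) (nat_lit 210) (nat_lit 5) (nat_lit 211) (nat_lit 5) (nat_lit 390) (nat_lit 339) (nat_lit 291))) (XT.nd (nat_lit 78) (nat_lit 76) (nat_lit 0) (XT.lf (nat_lit 0) (nat_lit 636478554) (nat_lit 76) (nat_lit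 12129854045) (nat_lit 152) (nat_lit 4856054779) (nat_lit 207) (nat_lit 5) (nat_lit 208) (nat_lit 5) (nat_lit 209) (nat_lit 4) (nat_lit 391) (nat_lit 339) (nat_lit 290)) (XT.lf (nat_lit 0) (nat_lit 830033218) (nat_lit 152) (nat_lit 4848677242) (nat_lit 76) (nat_lit 12476754471) (nat_lit 206) (nat_lit 5) (nat_lit 208) (nat_lit 5) (nat_lit 207) (nat_lit 5) (nat_lit 392) (nat_lit 339) (nat_lit 289))))) (XT.nd (nat_lit 312) (nat_lit 380) (nat_lit 0) (XT.nd (nat_lit 156) (nat_lit 228) (nat_lit 0) (XT.nd (nat_lit 78) (nat_lit 76) (nat_lit 0) (XT.lf (nat_lit 0) (nat_lit 6730430908) (nat_lit 228) (nat_lit 10749074931) (nat_lit 76) (nat_lit 1227050123) (nat_lit 204) (nat_lit 5) (nat_lit 207) (nat_lit 5) (nat_lit 205) (nat_lit 4) (nat_lit 393) (nat_lit 339) (nat_lit 288)) (XT.lf (nat_lit 0) (nat_lit 2173031734) (nat_lit 76) (nat_lit 10912509418) (nat_lit 152) (nat_lit 6191675757) (nat_lit 203) (nat_lit 5)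 (nat_lit 204) (nat_lit 5) (nat_lit 205) (nat_lit 4) (nat_lit 394) (nat_lit 339) (nat_lit 287))) (XT.nd (nat_lit 78) (nat_lit 152) (nat_lit 0) (XT.lf (nat_lit 0) (nat_lit 20178457) (nat_lit 152) (nat_lit 3847458479) (nat_lit 76) (nat_lit 16002145809) (nat_lit 202) (nat_lit 5) (nat_lit 204) (nat_lit 5) (nat_lit 203) (nat_lit 5) (nat_lit 395) (nat_lit 339) (nat_lit 286)) (XT.lf (nat_lit 0) (nat_lit 6504461562) (nat_lit 228) (nat_lit 10331741584) (nat_lit 76) (nat_lit 3642202726) (nat_lit 200) (nat_lit 5) (nat_lit 203) (nat_lit 5) (nat_lit 201) (nat_lit 4) (nat_lit 396) (nat_lit 339) (nat_lit 285)))) (XT.nd (nat_lit 156) (nat_lit 304) (nat_lit 0) (XT.nd (nat_lit 78) (nat_lit 0) (nat_lit 0) (XT.lf (nat_lit 0) (nat_lit 3828648860) (nat_lit 76) (nat_lit 9625807536) (nat_lit 152) (nat_lit 7655928882) (nat_lit 199) (nat_lit 5) (nat_lit 200) (nat_lit 5) (nat_lit 201) (nat_lit 4) (nat_lit 397) (nat_lit 339)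 (nat_lit 284)) (XT.lf (nat_lit 0) (nat_lit 18967907866) (nat_lit 76) (nat_lit 1912017018) (nat_lit 152) (nat_lit 887640074) (nat_lit 199) (nat_lit 5) (nat_lit 200) (nat_lit 5) (nat_lit 201) (nat_lit 4) (nat_lit 398) (nat_lit 339) (nat_lit 283))) (XT.nd (nat_lit 78) (nat_lit 76) (nat_lit 0) (XT.lf (nat_lit 0) (nat_lit 6272493194) (nat_lit 228) (nat_lit 9917521786) (nat_lit 76) (nat_lit 6250109849) (nat_lit 196) (nat_lit 5) (nat_lit 199) (nat_lit 5) (nat_lit 197) (nat_lit 4) (nat_lit 399) (nat_lit 339) (nat_lit 282)) (XT.lf (nat_lit 0) (nat_lit 5611756229) (nat_lit 76) (nat_lit 8270948940) (nat_lit 152) (nat_lit 9256784821) (nat_lit 195) (nat_lit 5) (nat_lit 196) (nat_lit 5) (nat_lit 197) (nat_lit 4) (nat_lit 400) (nat_lit 339) (nat_lit 281))))))) (XT.nd (nat_lit 1248) (nat_lit 1216) (nat_lit 0) (XT.nd (nat_lit 624) (nat_lit 608) (nat_lit 0) (XT.nd (nat_lit 312) (nat_lit 380) (nat_lit 0) (XT.nd (nat_lit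 156) (nat_lit 76) (nat_lit 0) (XT.nd (nat_lit 78) (nat_lit 228) (nat_lit 0) (XT.lf (nat_lit 0) (nat_lit 21999803100) (nat_lit 152) (nat_lit 1692692428) (nat_lit 0) (nat_lit 175009113) (nat_lit 195) (nat_lit 5) (nat_lit 197) (nat_lit 4) (nat_lit 195) (nat_lit 4) (nat_lit 401) (nat_lit 339) (nat_lit 280)) (XT.lf (nat_lit 0) (nat_lit 6037782882) (nat_lit 228) (nat_lit 9509238685) (nat_lit 76) (nat_lit 9063525309) (nat_lit 192) (nat_lit 5) (nat_lit 195) (nat_lit 5) (nat_lit 193) (nat_lit 4) (nat_lit 402) (nat_lit 339) (nat_lit 279))) (XT.nd (nat_lit 78) (nat_lit 0) (nat_lit 0) (XT.lf (nat_lit 0) (nat_lit 7532817990) (nat_lit 76) (nat_lit 6846920348) (nat_lit 152) (nat_lit 11004273792) (nat_lit 191) (nat_lit 5) (nat_lit 192) (nat_lit 5) (nat_lit 193) (nat_lit 4) (nat_lit 403) (nat_lit 339) (nat_lit 278)) (XT.lf (nat_lit 0) (nat_lit 23295603288) (nat_lit 152) (nat_lit 551189552) (nat_lit 0) (nat_lit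 2341517219) (nat_lit 191) (nat_lit 5) (nat_lit 193) (nat_lit 4) (nat_lit 191) (nat_lit 4) (nat_lit 404) (nat_lit 339) (nat_lit 277)))) (XT.nd (nat_lit 156) (nat_lit 152) (nat_lit 0) (XT.nd (nat_lit 78) (nat_lit 76) (nat_lit 0) (XT.lf (nat_lit 0) (nat_lit 5802905785) (nat_lit 152) (nat_lit 9109054169) (nat_lit 76) (nat_lit 12098548051) (nat_lit 189) (nat_lit 5) (nat_lit 191) (nat_lit 5) (nat_lit 190) (nat_lit 4) (nat_lit 405) (nat_lit 339) (nat_lit 276)) (XT.lf (nat_lit 0) (nat_lit 9604312833) (nat_lit 76) (nat_lit 5350723179) (nat_lit 152) (nat_lit 12910461217) (nat_lit 188) (nat_lit 5) (nat_lit 189) (nat_lit 5) (nat_lit 190) (nat_lit 4) (nat_lit 406) (nat_lit 339) (nat_lit 275))) (XT.nd (nat_lit 78) (nat_lit 76) (nat_lit 0) (XT.lf (nat_lit 0) (nat_lit 681989978) (nat_lit 76) (nat_lit 24083092108) (nat_lit 76) (nat_lit 3988138362) (nat_lit 187) (nat_lit 4) (nat_lit 188) (nat_lit 5) (nat_lit 188)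 (nat_lit 4) (nat_lit 407) (nat_lit 339) (nat_lit 274)) (XT.lf (nat_lit 0) (nat_lit 5569881013) (nat_lit 152) (nat_lit 8718593759) (nat_lit 76) (nat_lit 15374565797) (nat_lit 186) (nat_lit 5) (nat_lit 188) (nat_lit 5) (nat_lit 187) (nat_lit 4) (nat_lit 408) (nat_lit 339) (nat_lit 273))))) (XT.nd (nat_lit 312) (nat_lit 304) (nat_lit 0) (XT.nd (nat_lit 156) (nat_lit 152) (nat_lit 0) (XT.nd (nat_lit 78) (nat_lit 76) (nat_lit 0) (XT.lf (nat_lit 0) (nat_lit 11840750599) (nat_lit 76) (nat_lit 3777542803) (nat_lit 152) (nat_lit 14989463346) (nat_lit 185) (nat_lit 5) (nat_lit 186) (nat_lit 5) (nat_lit 187) (nat_lit 4) (nat_lit 409) (nat_lit 339) (nat_lit 272)) (XT.lf (nat_lit 0) (nat_lit 2012436148) (nat_lit 76) (nat_lit 24413293529) (nat_lit 76) (nat_lit 5161148895) (nat_lit 184) (nat_lit 4) (nat_lit 185) (nat_lit 5) (nat_lit 185) (nat_lit 4) (nat_lit 410) (nat_lit 339) (nat_lit 271))) (XT.nd (nat_lit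 78) (nat_lit 76) (nat_lit 0) (XT.lf (nat_lit 0) (nat_lit 5340274953) (nat_lit 152) (nat_lit 8339048997) (nat_lit 76) (nat_lit 18914265518) (nat_lit 183) (nat_lit 5) (nat_lit 185) (nat_lit 5) (nat_lit 184) (nat_lit 4) (nat_lit 411) (nat_lit 339) (nat_lit 270)) (XT.lf (nat_lit 0) (nat_lit 14258725341) (nat_lit 76) (nat_lit 2120867184) (nat_lit 152) (nat_lit 17257499385) (nat_lit 182) (nat_lit 5) (nat_lit 183) (nat_lit 5) (nat_lit 184) (nat_lit 4) (nat_lit 412) (nat_lit 339) (nat_lit 269)))) (XT.nd (nat_lit 156) (nat_lit 152) (nat_lit 0) (XT.nd (nat_lit 78) (nat_lit 76) (nat_lit 0) (XT.lf (nat_lit 0) (nat_lit 3430039883) (nat_lit 76) (nat_lit 24858054732) (nat_lit 76) (nat_lit 6428813927) (nat_lit 181) (nat_lit 4) (nat_lit 182) (nat_lit 5) (nat_lit 182) (nat_lit 4) (nat_lit 413) (nat_lit 339) (nat_lit 268)) (XT.lf (nat_lit 0) (nat_lit 5115286048) (nat_lit 152) (nat_lit 7971261328) (nat_lit 76) (nat_lit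 22743704603) (nat_lit 180) (nat_lit 5) (nat_lit 182) (nat_lit 5) (nat_lit 181) (nat_lit 4) (nat_lit 414) (nat_lit 339) (nat_lit 267))) (XT.nd (nat_lit 78) (nat_lit 76) (nat_lit 0) (XT.lf (nat_lit 0) (nat_lit 16877002372) (nat_lit 76) (nat_lit 372561868) (nat_lit 152) (nat_lit 19732977652) (nat_lit 179) (nat_lit 5) (nat_lit 180) (nat_lit 5) (nat_lit 181) (nat_lit 4) (nat_lit 415) (nat_lit 339) (nat_lit 266)) (XT.lf (nat_lit 0) (nat_lit 4944161260) (nat_lit 76) (nat_lit 25429017386) (nat_lit 76) (nat_lit 7800136540) (nat_lit 178) (nat_lit 4) (nat_lit 179) (nat_lit 5) (nat_lit 179) (nat_lit 4) (nat_lit 416) (nat_lit 339) (nat_lit 265)))))) (XT.nd (nat_lit 624) (nat_lit 608) (nat_lit 0) (XT.nd (nat_lit 312) (nat_lit 304) (nat_lit 0) (XT.nd (nat_lit 156) (nat_lit 152) (nat_lit 0) (XT.nd (nat_lit 78) (nat_lit 76) (nat_lit 0) (XT.lf (nat_lit 0) (nat_lit 4895814327) (nat_lit 152) (nat_lit 7615790785) (nat_lit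 76) (nat_lit 26892438299) (nat_lit 177) (nat_lit 5) (nat_lit 179) (nat_lit 5) (nat_lit 178) (nat_lit 4) (nat_lit 417) (nat_lit 339) (nat_lit 264)) (XT.lf (nat_lit 0) (nat_lit 18262606059) (nat_lit 152) (nat_lit 20982582516) (nat_lit 0) (nat_lit 1429816965) (nat_lit 176) (nat_lit 5) (nat_lit 178) (nat_lit 4) (nat_lit 176) (nat_lit 4) (nat_lit 418) (nat_lit 339) (nat_lit 263))) (XT.nd (nat_lit 78) (nat_lit 76) (nat_lit 0) (XT.lf (nat_lit 0) (nat_lit 6565439350) (nat_lit 76) (nat_lit 26138357637) (nat_lit 76) (nat_lit 9285415807) (nat_lit 175) (nat_lit 4) (nat_lit 176) (nat_lit 5) (nat_lit 176) (nat_lit 4) (nat_lit 419) (nat_lit 339) (nat_lit 262)) (XT.lf (nat_lit 0) (nat_lit 4682518407) (nat_lit 152) (nat_lit 7272972176) (nat_lit 76) (nat_lit 31393700434) (nat_lit 174) (nat_lit 5) (nat_lit 176) (nat_lit 5) (nat_lit 175) (nat_lit 4) (nat_lit 420) (nat_lit 339) (nat_lit 261)))) (XT.nd (nat_lit 156)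 (nat_lit 152) (nat_lit 0) (XT.nd (nat_lit 78) (nat_lit 76) (nat_lit 0) (XT.lf (nat_lit 0) (nat_lit 19415426858) (nat_lit 152) (nat_lit 22005880627) (nat_lit 0) (nat_lit 3329318250) (nat_lit 173) (nat_lit 5) (nat_lit 175) (nat_lit 4) (nat_lit 173) (nat_lit 4) (nat_lit 421) (nat_lit 339) (nat_lit 260)) (XT.lf (nat_lit 0) (nat_lit 8305847829) (nat_lit 76) (nat_lit 26998989912) (nat_lit 76) (nat_lit 10896301598) (nat_lit 172) (nat_lit 4) (nat_lit 173) (nat_lit 5) (nat_lit 173) (nat_lit 4) (nat_lit 422) (nat_lit 339) (nat_lit 259))) (XT.nd (nat_lit 78) (nat_lit 76) (nat_lit 0) (XT.lf (nat_lit 0) (nat_lit 4475862191) (nat_lit 152) (nat_lit 6942961018) (nat_lit 76) (nat_lit 36284635664) (nat_lit 171) (nat_lit 5) (nat_lit 173) (nat_lit 5) (nat_lit 172) (nat_lit 4) (nat_lit 423) (nat_lit 339) (nat_lit 258)) (XT.lf (nat_lit 0) (nat_lit 20715619868) (nat_lit 152) (nat_lit 23182718696) (nat_lit 0) (nat_lit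 5350365780) (nat_lit 170) (nat_lit 5) (nat_lit 172) (nat_lit 4) (nat_lit 170) (nat_lit 4) (nat_lit 424) (nat_lit 339) (nat_lit 257))))) (XT.nd (nat_lit 312) (nat_lit 304) (nat_lit 0) (XT.nd (nat_lit 156) (nat_lit 152) (nat_lit 0) (XT.nd (nat_lit 78) (nat_lit 76) (nat_lit 0) (XT.lf (nat_lit 0) (nat_lit 10178770580) (nat_lit 76) (nat_lit 28024763661) (nat_lit 76) (nat_lit 12645869408) (nat_lit 169) (nat_lit 4) (nat_lit 170) (nat_lit 5) (nat_lit 170) (nat_lit 4) (nat_lit 425) (nat_lit 339) (nat_lit 256)) (XT.lf (nat_lit 0) (nat_lit 4276153100) (nat_lit 152) (nat_lit 6625771031) (nat_lit 76) (nat_lit 41606582629) (nat_lit 168) (nat_lit 5) (nat_lit 170) (nat_lit 5) (nat_lit 169) (nat_lit 4) (nat_lit 426) (nat_lit 339) (nat_lit 255))) (XT.nd (nat_lit 78) (nat_lit 76) (nat_lit 0) (XT.lf (nat_lit 0) (nat_lit 22177792502) (nat_lit 152) (nat_lit 24527410433) (nat_lit 0) (nat_lit 7507071628) (nat_lit 167)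 (nat_lit 5) (nat_lit 169) (nat_lit 4) (nat_lit 167) (nat_lit 4) (nat_lit 427) (nat_lit 339) (nat_lit 254)) (XT.lf (nat_lit 0) (nat_lit 12199096738) (nat_lit 76) (nat_lit 29230657341) (nat_lit 76) (nat_lit 14548714669) (nat_lit 166) (nat_lit 4) (nat_lit 167) (nat_lit 5) (nat_lit 167) (nat_lit 4) (nat_lit 428) (nat_lit 339) (nat_lit 253)))) (XT.nd (nat_lit 156) (nat_lit 152) (nat_lit 0) (XT.nd (nat_lit 78) (nat_lit 76) (nat_lit 0) (XT.lf (nat_lit 0) (nat_lit 4083573356) (nat_lit 152) (nat_lit 6321304718) (nat_lit 76) (nat_lit 47405408332) (nat_lit 165) (nat_lit 5) (nat_lit 167) (nat_lit 5) (nat_lit 166) (nat_lit 4) (nat_lit 429) (nat_lit 339) (nat_lit 252)) (XT.lf (nat_lit 0) (nat_lit 23817914900) (nat_lit 152) (nat_lit 26055646262) (nat_lit 0) (nat_lit 9815240043) (nat_lit 164) (nat_lit 5) (nat_lit 166) (nat_lit 4) (nat_lit 164) (nat_lit 4) (nat_lit 430) (nat_lit 339) (nat_lit 251))) (XT.nd (nat_lit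 78) (nat_lit 76) (nat_lit 0) (XT.lf (nat_lit 0) (nat_lit 14383335070) (nat_lit 76) (nat_lit 30632973490) (nat_lit 76) (nat_lit 16621066432) (nat_lit 163) (nat_lit 4) (nat_lit 164) (nat_lit 5) (nat_lit 164) (nat_lit 4) (nat_lit 431) (nat_lit 339) (nat_lit 250)) (XT.lf (nat_lit 0) (nat_lit 3898205542) (nat_lit 152) (nat_lit 6029378268) (nat_lit 76) (nat_lit 53731895021) (nat_lit 162) (nat_lit 5) (nat_lit 164) (nat_lit 5) (nat_lit 163) (nat_lit 4) (nat_lit 432) (nat_lit 339) (nat_lit 249))))))))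
noncomputable def xc127 : XT := (XT.nd (nat_lit 1248) (nat_lit 1216) (nat_lit 0) (XT.nd (nat_lit 624) (nat_lit 608) (nat_lit 0) (XT.nd (nat_lit 312) (nat_lit 304) (nat_lit 0) (XT.nd (nat_lit 156) (nat_lit 152) (nat_lit 0) (XT.nd (nat_lit 78) (nat_lit 76) (nat_lit 0) (XT.lf (nat_lit 0) (nat_lit 25653494070) (nat_lit 152) (nat_lit 27784666796) (nat_lit 0) (nat_lit 12292471681) (nat_lit 161) (nat_lit 5) (nat_lit 163) (nat_lit 4) (nat_lit 161) (nat_lit 4) (nat_lit 433) (nat_lit 339) (nat_lit 248)) (XT.lf (nat_lit 0) (nat_lit 16749747930) (nat_lit 76) (nat_lit 32249538399) (nat_lit 76) (nat_lit 18880920656) (nat_lit 160) (nat_lit 4) (nat_lit 161) (nat_lit 5) (nat_lit 161) (nat_lit 4) (nat_lit 434) (nat_lit 339) (nat_lit 247))) (XT.nd (nat_lit 78) (nat_lit 76) (nat_lit 0) (XT.lf (nat_lit 0) (nat_lit 3720053476) (nat_lit 152) (nat_lit 5749741787) (nat_lit 76) (nat_lit 60642181639) (nat_lit 159) (nat_lit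 5) (nat_lit 161) (nat_lit 5) (nat_lit 160) (nat_lit 4) (nat_lit 435) (nat_lit 339) (nat_lit 246)) (XT.lf (nat_lit 0) (nat_lit 27703759272) (nat_lit 152) (nat_lit 29733447583) (nat_lit 0) (nat_lit 14958292011) (nat_lit 158) (nat_lit 5) (nat_lit 160) (nat_lit 4) (nat_lit 158) (nat_lit 4) (nat_lit 436) (nat_lit 339) (nat_lit 245)))) (XT.nd (nat_lit 156) (nat_lit 152) (nat_lit 0) (XT.nd (nat_lit 78) (nat_lit 76) (nat_lit 0) (XT.lf (nat_lit 0) (nat_lit 19318505365) (nat_lit 76) (nat_lit 34099909653) (nat_lit 76) (nat_lit 21348193676) (nat_lit 157) (nat_lit 4) (nat_lit 158) (nat_lit 5) (nat_lit 158) (nat_lit 4) (nat_lit 437) (nat_lit 339) (nat_lit 244)) (XT.lf (nat_lit 0) (nat_lit 3549059229) (nat_lit 152) (nat_lit 5482095716) (nat_lit 76) (nat_lit 68198262752) (nat_lit 156) (nat_lit 5) (nat_lit 158) (nat_lit 5) (nat_lit 157) (nat_lit 4) (nat_lit 438) (nat_lit 339) (nat_lit 243))) (XT.nd (nat_lit 78)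 (nat_lit 76) (nat_lit 0) (XT.lf (nat_lit 0) (nat_lit 29989860975) (nat_lit 152) (nat_lit 31922897461) (nat_lit 0) (nat_lit 17834303920) (nat_lit 155) (nat_lit 5) (nat_lit 157) (nat_lit 4) (nat_lit 155) (nat_lit 4) (nat_lit 439) (nat_lit 339) (nat_lit 242)) (XT.lf (nat_lit 0) (nat_lit 22111860261) (nat_lit 76) (nat_lit 36205594636) (nat_lit 76) (nat_lit 24044896747) (nat_lit 154) (nat_lit 4) (nat_lit 155) (nat_lit 5) (nat_lit 155) (nat_lit 4) (nat_lit 440) (nat_lit 339) (nat_lit 241))))) (XT.nd (nat_lit 312) (nat_lit 304) (nat_lit 0) (XT.nd (nat_lit 156) (nat_lit 152) (nat_lit 0) (XT.nd (nat_lit 78) (nat_lit 76) (nat_lit 0) (XT.lf (nat_lit 0) (nat_lit 3385116981) (nat_lit 152) (nat_lit 5226104111) (nat_lit 76) (nat_lit 76468548604) (nat_lit 153) (nat_lit 5) (nat_lit 155) (nat_lit 5) (nat_lit 154) (nat_lit 4) (nat_lit 441) (nat_lit 339) (nat_lit 240)) (XT.lf (nat_lit 0) (nat_lit 32535085777) (nat_lit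 152) (nat_lit 34376072907) (nat_lit 0) (nat_lit 20944365005) (nat_lit 152) (nat_lit 5) (nat_lit 154) (nat_lit 4) (nat_lit 152) (nat_lit 4) (nat_lit 442) (nat_lit 339) (nat_lit 239))) (XT.nd (nat_lit 78) (nat_lit 76) (nat_lit 0) (XT.lf (nat_lit 0) (nat_lit 25154345728) (nat_lit 76) (nat_lit 38590283008) (nat_lit 76) (nat_lit 26995332858) (nat_lit 151) (nat_lit 4) (nat_lit 152) (nat_lit 5) (nat_lit 152) (nat_lit 4) (nat_lit 443) (nat_lit 339) (nat_lit 238)) (XT.lf (nat_lit 0) (nat_lit 3228084279) (nat_lit 152) (nat_lit 4981405355) (nat_lit 76) (nat_lit 85528490761) (nat_lit 150) (nat_lit 5) (nat_lit 152) (nat_lit 5) (nat_lit 151) (nat_lit 4) (nat_lit 444) (nat_lit 339) (nat_lit 237)))) (XT.nd (nat_lit 156) (nat_lit 152) (nat_lit 0) (XT.nd (nat_lit 78) (nat_lit 76) (nat_lit 0) (XT.lf (nat_lit 0) (nat_lit 35365089729) (nat_lit 152) (nat_lit 37118410805) (nat_lit 0) (nat_lit 24314790397) (nat_lit 149)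 (nat_lit 5) (nat_lit 151) (nat_lit 4) (nat_lit 149) (nat_lit 4) (nat_lit 445) (nat_lit 339) (nat_lit 236)) (XT.lf (nat_lit 0) (nat_lit 28472996214) (nat_lit 76) (nat_lit 41280096142) (nat_lit 76) (nat_lit 30226317290) (nat_lit 148) (nat_lit 4) (nat_lit 149) (nat_lit 5) (nat_lit 149) (nat_lit 4) (nat_lit 446) (nat_lit 339) (nat_lit 235))) (XT.nd (nat_lit 78) (nat_lit 76) (nat_lit 0) (XT.lf (nat_lit 0) (nat_lit 3077791174) (nat_lit 152) (nat_lit 4747620771) (nat_lit 76) (nat_lit 95461278548) (nat_lit 147) (nat_lit 5) (nat_lit 149) (nat_lit 5) (nat_lit 148) (nat_lit 4) (nat_lit 447) (nat_lit 339) (nat_lit 234)) (XT.lf (nat_lit 0) (nat_lit 38508152604) (nat_lit 152) (nat_lit 40177982200) (nat_lit 0) (nat_lit 27974582408) (nat_lit 146) (nat_lit 5) (nat_lit 148) (nat_lit 4) (nat_lit 146) (nat_lit 4) (nat_lit 448) (nat_lit 339) (nat_lit 233)))))) (XT.nd (nat_lit 624) (nat_lit 608) (nat_lit 0) (XT.nd (nat_lit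 312) (nat_lit 304) (nat_lit 0) (XT.nd (nat_lit 156) (nat_lit 152) (nat_lit 0) (XT.nd (nat_lit 78) (nat_lit 76) (nat_lit 0) (XT.lf (nat_lit 0) (nat_lit 32097594114) (nat_lit 76) (nat_lit 44303856516) (nat_lit 76) (nat_lit 33767423710) (nat_lit 145) (nat_lit 4) (nat_lit 146) (nat_lit 5) (nat_lit 146) (nat_lit 4) (nat_lit 449) (nat_lit 339) (nat_lit 232)) (XT.lf (nat_lit 0) (nat_lit 2934047606) (nat_lit 152) (nat_lit 4524361507) (nat_lit 76) (nat_lit 106358612319) (nat_lit 144) (nat_lit 5) (nat_lit 146) (nat_lit 5) (nat_lit 145) (nat_lit 4) (nat_lit 450) (nat_lit 339) (nat_lit 231))) (XT.nd (nat_lit 78) (nat_lit 76) (nat_lit 0) (XT.lf (nat_lit 0) (nat_lit 41995455820) (nat_lit 152) (nat_lit 43585769722) (nat_lit 0) (nat_lit 31955688610) (nat_lit 143) (nat_lit 5) (nat_lit 145) (nat_lit 4) (nat_lit 143) (nat_lit 4) (nat_lit 451) (nat_lit 339) (nat_lit 230)) (XT.lf (nat_lit 0) (nat_lit 36060943979) (nat_lit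 76) (nat_lit 47693380165) (nat_lit 76) (nat_lit 37651257880) (nat_lit 142) (nat_lit 4) (nat_lit 143) (nat_lit 5) (nat_lit 143) (nat_lit 4) (nat_lit 452) (nat_lit 339) (nat_lit 229)))) (XT.nd (nat_lit 156) (nat_lit 152) (nat_lit 0) (XT.nd (nat_lit 78) (nat_lit 76) (nat_lit 0) (XT.lf (nat_lit 0) (nat_lit 2796649359) (nat_lit 152) (nat_lit 4311234027) (nat_lit 76) (nat_lit 118321560415) (nat_lit 141) (nat_lit 5) (nat_lit 143) (nat_lit 5) (nat_lit 142) (nat_lit 4) (nat_lit 453) (nat_lit 339) (nat_lit 228)) (XT.lf (nat_lit 0) (nat_lit 45861386874) (nat_lit 152) (nat_lit 47375971542) (nat_lit 0) (nat_lit 36293290362) (nat_lit 140) (nat_lit 5) (nat_lit 142) (nat_lit 4) (nat_lit 140) (nat_lit 4) (nat_lit 454) (nat_lit 339) (nat_lit 227))) (XT.nd (nat_lit 78) (nat_lit 76) (nat_lit 0) (XT.lf (nat_lit 0) (nat_lit 40399176696) (nat_lit 76) (nat_lit 51483795402) (nat_lit 76) (nat_lit 41913761363) (nat_lit 139)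 (nat_lit 4) (nat_lit 140) (nat_lit 5) (nat_lit 140) (nat_lit 4) (nat_lit 455) (nat_lit 339) (nat_lit 226)) (XT.lf (nat_lit 0) (nat_lit 2665382856) (nat_lit 152) (nat_lit 4107844445) (nat_lit 76) (nat_lit 131461507564) (nat_lit 138) (nat_lit 5) (nat_lit 140) (nat_lit 5) (nat_lit 139) (nat_lit 4) (nat_lit 456) (nat_lit 339) (nat_lit 225))))) (XT.nd (nat_lit 312) (nat_lit 304) (nat_lit 0) (XT.nd (nat_lit 156) (nat_lit 152) (nat_lit 0) (XT.nd (nat_lit 78) (nat_lit 76) (nat_lit 0) (XT.lf (nat_lit 0) (nat_lit 50143873376) (nat_lit 152) (nat_lit 51586334964) (nat_lit 0) (nat_lit 41026124141) (nat_lit 137) (nat_lit 5) (nat_lit 139) (nat_lit 4) (nat_lit 137) (nat_lit 4) (nat_lit 457) (nat_lit 339) (nat_lit 224)) (XT.lf (nat_lit 0) (nat_lit 45152086367) (nat_lit 76) (nat_lit 55713891198) (nat_lit 76) (nat_lit 46594547956) (nat_lit 136) (nat_lit 4) (nat_lit 137) (nat_lit 5) (nat_lit 137) (nat_lit 4) (nat_lit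 458) (nat_lit 339) (nat_lit 223))) (XT.nd (nat_lit 78) (nat_lit 76) (nat_lit 0) (XT.lf (nat_lit 0) (nat_lit 2540028984) (nat_lit 152) (nat_lit 3913801926) (nat_lit 76) (nat_lit 145901203413) (nat_lit 135) (nat_lit 5) (nat_lit 137) (nat_lit 5) (nat_lit 136) (nat_lit 4) (nat_lit 459) (nat_lit 339) (nat_lit 222)) (XT.lf (nat_lit 0) (nat_lit 54884750023) (nat_lit 152) (nat_lit 56258522964) (nat_lit 0) (nat_lit 46196838445) (nat_lit 134) (nat_lit 5) (nat_lit 136) (nat_lit 4) (nat_lit 134) (nat_lit 4) (nat_lit 460) (nat_lit 339) (nat_lit 221)))) (XT.nd (nat_lit 156) (nat_lit 152) (nat_lit 0) (XT.nd (nat_lit 78) (nat_lit 76) (nat_lit 0) (XT.lf (nat_lit 0) (nat_lit 50363502936) (nat_lit 76) (nat_lit 60426498850) (nat_lit 76) (nat_lit 51737275878) (nat_lit 133) (nat_lit 4) (nat_lit 134) (nat_lit 5) (nat_lit 134) (nat_lit 4) (nat_lit 461) (nat_lit 339) (nat_lit 220)) (XT.lf (nat_lit 0) (nat_lit 2420366143)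 (nat_lit 152) (nat_lit 3728721325) (nat_lit 76) (nat_lit 161775920904) (nat_lit 132) (nat_lit 5) (nat_lit 134) (nat_lit 5) (nat_lit 133) (nat_lit 4) (nat_lit 462) (nat_lit 339) (nat_lit 219))) (XT.nd (nat_lit 78) (nat_lit 76) (nat_lit 0) (XT.lf (nat_lit 0) (nat_lit 60130162135) (nat_lit 152) (nat_lit 61438517318) (nat_lit 0) (nat_lit 51852389380) (nat_lit 131) (nat_lit 5) (nat_lit 133) (nat_lit 4) (nat_lit 131) (nat_lit 4) (nat_lit 463) (nat_lit 339) (nat_lit 218)) (XT.lf (nat_lit 0) (nat_lit 56081703989) (nat_lit 76) (nat_lit 65668910813) (nat_lit 76) (nat_lit 57390059171) (nat_lit 130) (nat_lit 4) (nat_lit 131) (nat_lit 5) (nat_lit 131) (nat_lit 4) (nat_lit 464) (nat_lit 339) (nat_lit 217)))))))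
noncomputable def xc128 : XT := (XT.nd (nat_lit 1248) (nat_lit 988) (nat_lit 0) (XT.nd (nat_lit 624) (nat_lit 608) (nat_lit 0) (XT.nd (nat_lit 312) (nat_lit 304) (nat_lit 0) (XT.nd (nat_lit 156) (nat_lit 152) (nat_lit 0) (XT.nd (nat_lit 78) (nat_lit 76) (nat_lit 0) (XT.lf (nat_lit 0) (nat_lit 2306172655) (nat_lit 152) (nat_lit 3552225210) (nat_lit 76) (nat_lit 179234735289) (nat_lit 129) (nat_lit 5) (nat_lit 131) (nat_lit 5) (nat_lit 130) (nat_lit 4) (nat_lit 465) (nat_lit 339) (nat_lit 216)) (XT.lf (nat_lit 0) (nat_lit 65931009696) (nat_lit 152) (nat_lit 67177062250) (nat_lit 0) (nat_lit 58044478518) (nat_lit 128) (nat_lit 5) (nat_lit 130) (nat_lit 4) (nat_lit 128) (nat_lit 4) (nat_lit 466) (nat_lit 339) (nat_lit 215))) (XT.nd (nat_lit 78) (nat_lit 76) (nat_lit 0) (XT.lf (nat_lit 0) (nat_lit 62359869552) (nat_lit 76) (nat_lit 71493340888) (nat_lit 76) (nat_lit 63605922107) (nat_lit 127) (nat_lit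 4) (nat_lit 128) (nat_lit 5) (nat_lit 128) (nat_lit 4) (nat_lit 467) (nat_lit 339) (nat_lit 214)) (XT.lf (nat_lit 0) (nat_lit 2197228655) (nat_lit 152) (nat_lit 3383945373) (nat_lit 76) (nat_lit 198441935773) (nat_lit 126) (nat_lit 5) (nat_lit 128) (nat_lit 5) (nat_lit 127) (nat_lit 4) (nat_lit 468) (nat_lit 339) (nat_lit 213)))) (XT.nd (nat_lit 156) (nat_lit 152) (nat_lit 0) (XT.nd (nat_lit 78) (nat_lit 76) (nat_lit 0) (XT.lf (nat_lit 0) (nat_lit 72343436223) (nat_lit 152) (nat_lit 73530152941) (nat_lit 0) (nat_lit 64830036985) (nat_lit 125) (nat_lit 5) (nat_lit 127) (nat_lit 4) (nat_lit 125) (nat_lit 4) (nat_lit 469) (nat_lit 339) (nat_lit 212)) (XT.lf (nat_lit 0) (nat_lit 69256584131) (nat_lit 76) (nat_lit 77957430320) (nat_lit 76) (nat_lit 70443300849) (nat_lit 124) (nat_lit 4) (nat_lit 125) (nat_lit 5) (nat_lit 125) (nat_lit 4) (nat_lit 470) (nat_lit 339) (nat_lit 211))) (XT.nd (nat_lit 78)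 (nat_lit 76) (nat_lit 0) (XT.lf (nat_lit 0) (nat_lit 2093317551) (nat_lit 152) (nat_lit 3223523950) (nat_lit 76) (nat_lit 219578583087) (nat_lit 123) (nat_lit 5) (nat_lit 125) (nat_lit 5) (nat_lit 124) (nat_lit 4) (nat_lit 471) (nat_lit 339) (nat_lit 210)) (XT.lf (nat_lit 0) (nat_lit 79429367200) (nat_lit 152) (nat_lit 80559573599) (nat_lit 0) (nat_lit 72271760272) (nat_lit 122) (nat_lit 5) (nat_lit 124) (nat_lit 4) (nat_lit 122) (nat_lit 4) (nat_lit 472) (nat_lit 339) (nat_lit 209))))) (XT.nd (nat_lit 312) (nat_lit 304) (nat_lit 0) (XT.nd (nat_lit 156) (nat_lit 152) (nat_lit 0) (XT.nd (nat_lit 78) (nat_lit 76) (nat_lit 0) (XT.lf (nat_lit 0) (nat_lit 76836390694) (nat_lit 76) (nat_lit 85124804785) (nat_lit 76) (nat_lit 77966597092) (nat_lit 121) (nat_lit 4) (nat_lit 122) (nat_lit 5) (nat_lit 122) (nat_lit 4) (nat_lit 473) (nat_lit 339) (nat_lit 208)) (XT.lf (nat_lit 0) (nat_lit 1994227148) (nat_lit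 152) (nat_lit 3070614195) (nat_lit 76) (nat_lit 242844227686) (nat_lit 120) (nat_lit 5) (nat_lit 122) (nat_lit 5) (nat_lit 121) (nat_lit 4) (nat_lit 474) (nat_lit 339) (nat_lit 207))) (XT.nd (nat_lit 78) (nat_lit 76) (nat_lit 0) (XT.lf (nat_lit 0) (nat_lit 87257103257) (nat_lit 152) (nat_lit 88333490303) (nat_lit 0) (nat_lit 80438698723) (nat_lit 119) (nat_lit 5) (nat_lit 121) (nat_lit 4) (nat_lit 119) (nat_lit 4) (nat_lit 475) (nat_lit 339) (nat_lit 206)) (XT.lf (nat_lit 0) (nat_lit 85170401835) (nat_lit 76) (nat_lit 93065687667) (nat_lit 76) (nat_lit 86246788882) (nat_lit 118) (nat_lit 4) (nat_lit 119) (nat_lit 5) (nat_lit 119) (nat_lit 4) (nat_lit 476) (nat_lit 339) (nat_lit 205)))) (XT.nd (nat_lit 156) (nat_lit 152) (nat_lit 0) (XT.nd (nat_lit 78) (nat_lit 76) (nat_lit 0) (XT.lf (nat_lit 0) (nat_lit 1899750485) (nat_lit 152) (nat_lit 2924881005) (nat_lit 76) (nat_lit 268458804836) (nat_lit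 117) (nat_lit 5) (nat_lit 119) (nat_lit 5) (nat_lit 118) (nat_lit 4) (nat_lit 477) (nat_lit 339) (nat_lit 204)) (XT.lf (nat_lit 0) (nat_lit 95901973798) (nat_lit 152) (nat_lit 96927104319) (nat_lit 0) (nat_lit 89406909227) (nat_lit 116) (nat_lit 5) (nat_lit 118) (nat_lit 4) (nat_lit 116) (nat_lit 4) (nat_lit 478) (nat_lit 339) (nat_lit 203))) (XT.nd (nat_lit 78) (nat_lit 76) (nat_lit 0) (XT.lf (nat_lit 0) (nat_lit 94336973873) (nat_lit 76) (nat_lit 101857575586) (nat_lit 76) (nat_lit 95362104393) (nat_lit 115) (nat_lit 4) (nat_lit 116) (nat_lit 5) (nat_lit 116) (nat_lit 4) (nat_lit 479) (nat_lit 339) (nat_lit 202)) (XT.lf (nat_lit 0) (nat_lit 1809686449) (nat_lit 152) (nat_lit 2786001230) (nat_lit 76) (nat_lit 296664724554) (nat_lit 114) (nat_lit 5) (nat_lit 116) (nat_lit 5) (nat_lit 115) (nat_lit 4) (nat_lit 480) (nat_lit 339) (nat_lit 201)))))) (XT.nd (nat_lit 624) (nat_lit 380) (nat_lit 0) (XT.nd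 (nat_lit 312) (nat_lit 304) (nat_lit 0) (XT.nd (nat_lit 156) (nat_lit 152) (nat_lit 0) (XT.nd (nat_lit 78) (nat_lit 76) (nat_lit 0) (XT.lf (nat_lit 0) (nat_lit 105447057359) (nat_lit 152) (nat_lit 106423372140) (nat_lit 0) (nat_lit 99260174246) (nat_lit 113) (nat_lit 5) (nat_lit 115) (nat_lit 4) (nat_lit 113) (nat_lit 4) (nat_lit 481) (nat_lit 339) (nat_lit 200)) (XT.lf (nat_lit 0) (nat_lit 104422450274) (nat_lit 76) (nat_lit 111585982696) (nat_lit 76) (nat_lit 105398765055) (nat_lit 112) (nat_lit 4) (nat_lit 113) (nat_lit 5) (nat_lit 113) (nat_lit 4) (nat_lit 482) (nat_lit 339) (nat_lit 199))) (XT.nd (nat_lit 78) (nat_lit 76) (nat_lit 0) (XT.lf (nat_lit 0) (nat_lit 1723840209) (nat_lit 152) (nat_lit 2653663810) (nat_lit 76) (nat_lit 327729176243) (nat_lit 111) (nat_lit 5) (nat_lit 113) (nat_lit 5) (nat_lit 112) (nat_lit 4) (nat_lit 483) (nat_lit 339) (nat_lit 198)) (XT.lf (nat_lit 0) (nat_lit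 115983975580) (nat_lit 152) (nat_lit 116913799181) (nat_lit 0) (nat_lit 110090794945) (nat_lit 110) (nat_lit 5) (nat_lit 112) (nat_lit 4) (nat_lit 110) (nat_lit 4) (nat_lit 484) (nat_lit 339) (nat_lit 197)))) (XT.nd (nat_lit 156) (nat_lit 152) (nat_lit 0) (XT.nd (nat_lit 78) (nat_lit 76) (nat_lit 0) (XT.lf (nat_lit 0) (nat_lit 115521981446) (nat_lit 76) (nat_lit 122345260899) (nat_lit 76) (nat_lit 116451805047) (nat_lit 109) (nat_lit 4) (nat_lit 110) (nat_lit 5) (nat_lit 110) (nat_lit 4) (nat_lit 485) (nat_lit 339) (nat_lit 196)) (XT.lf (nat_lit 0) (nat_lit 1642023500) (nat_lit 152) (nat_lit 2527569787) (nat_lit 76) (nat_lit 361946669904) (nat_lit 108) (nat_lit 5) (nat_lit 110) (nat_lit 5) (nat_lit 109) (nat_lit 4) (nat_lit 486) (nat_lit 339) (nat_lit 195))) (XT.nd (nat_lit 78) (nat_lit 76) (nat_lit 0) (XT.lf (nat_lit 0) (nat_lit 127613768402) (nat_lit 152) (nat_lit 128499314689) (nat_lit 0) (nat_lit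 122000465931) (nat_lit 107) (nat_lit 5) (nat_lit 109) (nat_lit 4) (nat_lit 107) (nat_lit 4) (nat_lit 487) (nat_lit 339) (nat_lit 194)) (XT.lf (nat_lit 0) (nat_lit 127740428692) (nat_lit 76) (nat_lit 134239503871) (nat_lit 76) (nat_lit 128625974979) (nat_lit 106) (nat_lit 4) (nat_lit 107) (nat_lit 5) (nat_lit 107) (nat_lit 4) (nat_lit 488) (nat_lit 339) (nat_lit 193))))) (XT.nd (nat_lit 312) (nat_lit 76) (nat_lit 0) (XT.nd (nat_lit 156) (nat_lit 152) (nat_lit 0) (XT.nd (nat_lit 78) (nat_lit 76) (nat_lit 0) (XT.lf (nat_lit 0) (nat_lit 1564054792) (nat_lit 152) (nat_lit 2407432208) (nat_lit 76) (nat_lit 399641838104) (nat_lit 105) (nat_lit 5) (nat_lit 107) (nat_lit 5) (nat_lit 106) (nat_lit 4) (nat_lit 489) (nat_lit 339) (nat_lit 192)) (XT.lf (nat_lit 0) (nat_lit 140447858836) (nat_lit 152) (nat_lit 141291236252) (nat_lit 0) (nat_lit 135101239879) (nat_lit 104) (nat_lit 5) (nat_lit 106) (nat_lit 4)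 (nat_lit 104) (nat_lit 4) (nat_lit 490) (nat_lit 339) (nat_lit 191))) (XT.nd (nat_lit 78) (nat_lit 76) (nat_lit 0) (XT.lf (nat_lit 0) (nat_lit 141193360896) (nat_lit 76) (nat_lit 147383543546) (nat_lit 76) (nat_lit 142036738312) (nat_lit 103) (nat_lit 4) (nat_lit 104) (nat_lit 5) (nat_lit 104) (nat_lit 4) (nat_lit 491) (nat_lit 339) (nat_lit 190)) (XT.lf (nat_lit 0) (nat_lit 1489759362) (nat_lit 152) (nat_lit 2292975948) (nat_lit 76) (nat_lit 441172525340) (nat_lit 102) (nat_lit 5) (nat_lit 104) (nat_lit 5) (nat_lit 103) (nat_lit 4) (nat_lit 492) (nat_lit 339) (nat_lit 189)))) (XT.nd (nat_lit 41262) (nat_lit 0) (nat_lit 18848) (XT.nd (nat_lit 41184) (nat_lit 0) (nat_lit 19076) (XT.lf (nat_lit 0) (nat_lit 154609116537) (nat_lit 152) (nat_lit 155412333124) (nat_lit 0) (nat_lit 149516591202) (nat_lit 101) (nat_lit 5) (nat_lit 103) (nat_lit 4) (nat_lit 101) (nat_lit 4) (nat_lit 493) (nat_lit 339) (nat_lit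 188)) (XT.lf (nat_lit 0) (nat_lit 1073741823) (nat_lit 0) (nat_lit 0) (nat_lit 0) (nat_lit 0) (nat_lit 352) (nat_lit 0) (nat_lit 1) (nat_lit 0) (nat_lit 1) (nat_lit 0) (nat_lit 340) (nat_lit 340) (nat_lit 340))) (XT.nd (nat_lit 78) (nat_lit 152) (nat_lit 0) (XT.lf (nat_lit 0) (nat_lit 3170933114) (nat_lit 76) (nat_lit 3170933114) (nat_lit 0) (nat_lit 103099332) (nat_lit 351) (nat_lit 5) (nat_lit 352) (nat_lit 0) (nat_lit 351) (nat_lit 4) (nat_lit 341) (nat_lit 340) (nat_lit 339)) (XT.nd (nat_lit 78) (nat_lit 76) (nat_lit 0) (XT.lf (nat_lit 0) (nat_lit 155989451) (nat_lit 76) (nat_lit 6145569694) (nat_lit 76) (nat_lit 155989451) (nat_lit 350) (nat_lit 4) (nat_lit 351) (nat_lit 5) (nat_lit 351) (nat_lit 4) (nat_lit 342) (nat_lit 340) (nat_lit 338)) (XT.lf (nat_lit 0) (nat_lit 2876129809) (nat_lit 152) (nat_lit 2876129809) (nat_lit 76) (nat_lit 723168756) (nat_lit 349) (nat_lit 5) (nat_lit 351) (nat_lit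 5) (nat_lit 350) (nat_lit 4) (nat_lit 343) (nat_lit 340) (nat_lit 337))))))))
noncomputable def xc129 : XT := (XT.nd (nat_lit 2496) (nat_lit 3648) (nat_lit 0) (XT.nd (nat_lit 1248) (nat_lit 3572) (nat_lit 0) (XT.nd (nat_lit 624) (nat_lit 3268) (nat_lit 0) (XT.nd (nat_lit 312) (nat_lit 1216) (nat_lit 0) (XT.nd (nat_lit 156) (nat_lit 304) (nat_lit 0) (XT.nd (nat_lit 78) (nat_lit 76) (nat_lit 0) (XT.lf (nat_lit 0) (nat_lit 625815708) (nat_lit 152) (nat_lit 5251316874) (nat_lit 228) (nat_lit 625815708) (nat_lit 347) (nat_lit 5) (nat_lit 349) (nat_lit 5) (nat_lit 350) (nat_lit 4) (nat_lit 344) (nat_lit 340) (nat_lit 336)) (XT.lf (nat_lit 0) (nat_lit 2282940018) (nat_lit 228) (nat_lit 2282940018) (nat_lit 76) (nat_lit 1970690559) (nat_lit 346) (nat_lit 5) (nat_lit 349) (nat_lit 5) (nat_lit 347) (nat_lit 5) (nat_lit 345) (nat_lit 340) (nat_lit 335))) (XT.nd (nat_lit 78) (nat_lit 76) (nat_lit 0) (XT.lf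 (nat_lit 0) (nat_lit 1415071063) (nat_lit 228) (nat_lit 3748829023) (nat_lit 304) (nat_lit 1415071063) (nat_lit 343) (nat_lit 5) (nat_lit 346) (nat_lit 5) (nat_lit 347) (nat_lit 5) (nat_lit 346) (nat_lit 340) (nat_lit 334)) (XT.lf (nat_lit 0) (nat_lit 1384161391) (nat_lit 304) (nat_lit 1384161391) (nat_lit 76) (nat_lit 3860504517) (nat_lit 342) (nat_lit 5) (nat_lit 346) (nat_lit 5) (nat_lit 343) (nat_lit 5) (nat_lit 347) (nat_lit 340) (nat_lit 333)))) (XT.nd (nat_lit 156) (nat_lit 836) (nat_lit 0) (XT.nd (nat_lit 78) (nat_lit 76) (nat_lit 0) (XT.lf (nat_lit 0) (nat_lit 2533138149) (nat_lit 304) (nat_lit 1619879188) (nat_lit 380) (nat_lit 2533138149) (nat_lit 338) (nat_lit 5) (nat_lit 342) (nat_lit 5) (nat_lit 343) (nat_lit 5) (nat_lit 348) (nat_lit 340) (nat_lit 332)) (XT.lf (nat_lit 0) (nat_lit 168900087) (nat_lit 380) (nat_lit 168900087) (nat_lit 76) (nat_lit 6415055665) (nat_lit 337) (nat_lit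 5) (nat_lit 342) (nat_lit 5) (nat_lit 338) (nat_lit 5) (nat_lit 349) (nat_lit 340) (nat_lit 331))) (XT.nd (nat_lit 78) (nat_lit 456) (nat_lit 0) (XT.lf (nat_lit 0) (nat_lit 2850108953) (nat_lit 456) (nat_lit 2850108953) (nat_lit 76) (nat_lit 1124137024) (nat_lit 332) (nat_lit 5) (nat_lit 338) (nat_lit 5) (nat_lit 333) (nat_lit 5) (nat_lit 350) (nat_lit 340) (nat_lit 330)) (XT.lf (nat_lit 0) (nat_lit 1355320221) (nat_lit 456) (nat_lit 4194563273) (nat_lit 532) (nat_lit 1355320221) (nat_lit 326) (nat_lit 5) (nat_lit 332) (nat_lit 5) (nat_lit 333) (nat_lit 5) (nat_lit 351) (nat_lit 340) (nat_lit 329))))) (XT.nd (nat_lit 312) (nat_lit 1976) (nat_lit 0) (XT.nd (nat_lit 156) (nat_lit 684) (nat_lit 0) (XT.nd (nat_lit 78) (nat_lit 532) (nat_lit 0) (XT.lf (nat_lit 0) (nat_lit 1256747067) (nat_lit 532) (nat_lit 1256747067) (nat_lit 76) (nat_lit 4480170680) (nat_lit 325) (nat_lit 5) (nat_lit 332) (nat_lit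 5) (nat_lit 326) (nat_lit 5) (nat_lit 352) (nat_lit 340) (nat_lit 328)) (XT.lf (nat_lit 0) (nat_lit 3220994431) (nat_lit 532) (nat_lit 647707590) (nat_lit 608) (nat_lit 3220994431) (nat_lit 318) (nat_lit 5) (nat_lit 325) (nat_lit 5) (nat_lit 326) (nat_lit 5) (nat_lit 353) (nat_lit 340) (nat_lit 327))) (XT.nd (nat_lit 78) (nat_lit 76) (nat_lit 0) (XT.lf (nat_lit 0) (nat_lit 661117207) (nat_lit 608) (nat_lit 5872192508) (nat_lit 684) (nat_lit 661117207) (nat_lit 310) (nat_lit 5) (nat_lit 318) (nat_lit 5) (nat_lit 319) (nat_lit 5) (nat_lit 354) (nat_lit 340) (nat_lit 326)) (XT.lf (nat_lit 0) (nat_lit 1911083648) (nat_lit 684) (nat_lit 1911083648) (nat_lit 76) (nat_lit 3483184528) (nat_lit 309) (nat_lit 5) (nat_lit 318) (nat_lit 5) (nat_lit 310) (nat_lit 5) (nat_lit 355) (nat_lit 340) (nat_lit 325)))) (XT.nd (nat_lit 156) (nat_lit 532) (nat_lit 0) (XT.nd (nat_lit 78) (nat_lit 760) (nat_lit 0) (XT.lf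 (nat_lit 0) (nat_lit 2911880666) (nat_lit 684) (nat_lit 1601342419) (nat_lit 760) (nat_lit 2911880666) (nat_lit 300) (nat_lit 5) (nat_lit 309) (nat_lit 5) (nat_lit 310) (nat_lit 5) (nat_lit 356) (nat_lit 340) (nat_lit 324)) (XT.lf (nat_lit 0) (nat_lit 376309413) (nat_lit 760) (nat_lit 6801602335) (nat_lit 836) (nat_lit 376309413) (nat_lit 290) (nat_lit 5) (nat_lit 300) (nat_lit 5) (nat_lit 301) (nat_lit 5) (nat_lit 357) (nat_lit 340) (nat_lit 323))) (XT.nd (nat_lit 78) (nat_lit 456) (nat_lit 0) (XT.lf (nat_lit 0) (nat_lit 2201019611) (nat_lit 836) (nat_lit 2201019611) (nat_lit 76) (nat_lit 3286563305) (nat_lit 289) (nat_lit 5) (nat_lit 300) (nat_lit 5) (nat_lit 290) (nat_lit 5) (nat_lit 358) (nat_lit 340) (nat_lit 322)) (XT.lf (nat_lit 0) (nat_lit 3001413748) (nat_lit 456) (nat_lit 1829737866) (nat_lit 532) (nat_lit 3001413748) (nat_lit 283) (nat_lit 5) (nat_lit 289) (nat_lit 5) (nat_lit 290) (nat_lit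 5) (nat_lit 359) (nat_lit 340) (nat_lit 321)))))) (XT.nd (nat_lit 624) (nat_lit 1672) (nat_lit 0) (XT.nd (nat_lit 312) (nat_lit 760) (nat_lit 0) (XT.nd (nat_lit 156) (nat_lit 684) (nat_lit 0) (XT.nd (nat_lit 78) (nat_lit 76) (nat_lit 0) (XT.lf (nat_lit 0) (nat_lit 441809801) (nat_lit 380) (nat_lit 7102529294) (nat_lit 456) (nat_lit 441809801) (nat_lit 278) (nat_lit 5) (nat_lit 283) (nat_lit 5) (nat_lit 284) (nat_lit 5) (nat_lit 360) (nat_lit 340) (nat_lit 320)) (XT.lf (nat_lit 0) (nat_lit 2181811844) (nat_lit 456) (nat_lit 2181811844) (nat_lit 76) (nat_lit 3781638960) (nat_lit 277) (nat_lit 5) (nat_lit 283) (nat_lit 5) (nat_lit 278) (nat_lit 5) (nat_lit 361) (nat_lit 340) (nat_lit 319))) (XT.nd (nat_lit 78) (nat_lit 304) (nat_lit 0) (XT.lf (nat_lit 0) (nat_lit 3439063558) (nat_lit 380) (nat_lit 1436169522) (nat_lit 456) (nat_lit 3439063558) (nat_lit 272) (nat_lit 5) (nat_lit 277) (nat_lit 5) (nat_lit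 278) (nat_lit 5) (nat_lit 362) (nat_lit 340) (nat_lit 318)) (XT.lf (nat_lit 0) (nat_lit 811145575) (nat_lit 304) (nat_lit 6870571589) (nat_lit 380) (nat_lit 811145575) (nat_lit 268) (nat_lit 5) (nat_lit 272) (nat_lit 5) (nat_lit 273) (nat_lit 5) (nat_lit 363) (nat_lit 340) (nat_lit 317)))) (XT.nd (nat_lit 156) (nat_lit 380) (nat_lit 0) (XT.nd (nat_lit 78) (nat_lit 304) (nat_lit 0) (XT.lf (nat_lit 0) (nat_lit 1897194793) (nat_lit 380) (nat_lit 1897194793) (nat_lit 76) (nat_lit 4883877738) (nat_lit 267) (nat_lit 5) (nat_lit 272) (nat_lit 5) (nat_lit 268) (nat_lit 5) (nat_lit 364) (nat_lit 340) (nat_lit 316)) (XT.lf (nat_lit 0) (nat_lit 4186042912) (nat_lit 304) (nat_lit 501498968) (nat_lit 380) (nat_lit 4186042912) (nat_lit 263) (nat_lit 5) (nat_lit 267) (nat_lit 5) (nat_lit 268) (nat_lit 5) (nat_lit 365) (nat_lit 340) (nat_lit 315))) (XT.nd (nat_lit 78) (nat_lit 76) (nat_lit 0) (XT.lf (nat_lit 0)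 (nat_lit 1448404940) (nat_lit 304) (nat_lit 6181246018) (nat_lit 380) (nat_lit 1448404940) (nat_lit 259) (nat_lit 5) (nat_lit 263) (nat_lit 5) (nat_lit 264) (nat_lit 5) (nat_lit 366) (nat_lit 340) (nat_lit 314)) (XT.lf (nat_lit 0) (nat_lit 1381283025) (nat_lit 380) (nat_lit 1381283025) (nat_lit 76) (nat_lit 6529030594) (nat_lit 258) (nat_lit 5) (nat_lit 263) (nat_lit 5) (nat_lit 259) (nat_lit 5) (nat_lit 367) (nat_lit 340) (nat_lit 313))))) (XT.nd (nat_lit 312) (nat_lit 760) (nat_lit 0) (XT.nd (nat_lit 156) (nat_lit 380) (nat_lit 0) (XT.nd (nat_lit 78) (nat_lit 228) (nat_lit 0) (XT.lf (nat_lit 0) (nat_lit 4315517711) (nat_lit 380) (nat_lit 4315517711) (nat_lit 76) (nat_lit 883004878) (nat_lit 254) (nat_lit 5) (nat_lit 259) (nat_lit 5) (nat_lit 255) (nat_lit 5) (nat_lit 368) (nat_lit 340) (nat_lit 312)) (XT.lf (nat_lit 0) (nat_lit 2326568385) (nat_lit 228) (nat_lit 5093299196) (nat_lit 304) (nat_lit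 2326568385) (nat_lit 251) (nat_lit 5) (nat_lit 254) (nat_lit 5) (nat_lit 255) (nat_lit 5) (nat_lit 369) (nat_lit 340) (nat_lit 311))) (XT.nd (nat_lit 78) (nat_lit 304) (nat_lit 0) (XT.lf (nat_lit 0) (nat_lit 660120345) (nat_lit 304) (nat_lit 660120345) (nat_lit 76) (nat_lit 8670013446) (nat_lit 250) (nat_lit 5) (nat_lit 254) (nat_lit 5) (nat_lit 251) (nat_lit 5) (nat_lit 370) (nat_lit 340) (nat_lit 310)) (XT.lf (nat_lit 0) (nat_lit 3785291024) (nat_lit 380) (nat_lit 3785291024) (nat_lit 76) (nat_lit 2670407371) (nat_lit 246) (nat_lit 5) (nat_lit 251) (nat_lit 5) (nat_lit 247) (nat_lit 5) (nat_lit 371) (nat_lit 340) (nat_lit 309)))) (XT.nd (nat_lit 156) (nat_lit 304) (nat_lit 0) (XT.nd (nat_lit 78) (nat_lit 228) (nat_lit 0) (XT.lf (nat_lit 0) (nat_lit 3426158336) (nat_lit 228) (nat_lit 3651402751) (nat_lit 304) (nat_lit 3426158336) (nat_lit 243) (nat_lit 5) (nat_lit 246) (nat_lit 5) (nat_lit 247)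 (nat_lit 5) (nat_lit 372) (nat_lit 340) (nat_lit 308)) (XT.lf (nat_lit 0) (nat_lit 243078538) (nat_lit 228) (nat_lit 10293330626) (nat_lit 304) (nat_lit 243078538) (nat_lit 240) (nat_lit 5) (nat_lit 243) (nat_lit 5) (nat_lit 244) (nat_lit 5) (nat_lit 373) (nat_lit 340) (nat_lit 307))) (XT.nd (nat_lit 78) (nat_lit 228) (nat_lit 0) (XT.lf (nat_lit 0) (nat_lit 3108085535) (nat_lit 304) (nat_lit 3108085535) (nat_lit 76) (nat_lit 4845047869) (nat_lit 239) (nat_lit 5) (nat_lit 243) (nat_lit 5) (nat_lit 240) (nat_lit 5) (nat_lit 374) (nat_lit 340) (nat_lit 306)) (XT.lf (nat_lit 0) (nat_lit 4734152972) (nat_lit 228) (nat_lit 1888338896) (nat_lit 304) (nat_lit 4734152972) (nat_lit 236) (nat_lit 5) (nat_lit 239) (nat_lit 5) (nat_lit 240) (nat_lit 5) (nat_lit 375) (nat_lit 340) (nat_lit 305))))))) (XT.nd (nat_lit 1248) (nat_lit 1520) (nat_lit 0) (XT.nd (nat_lit 624) (nat_lit 988) (nat_lit 0) (XT.nd (nat_lit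 312) (nat_lit 456) (nat_lit 0) (XT.nd (nat_lit 156) (nat_lit 380) (nat_lit 0) (XT.nd (nat_lit 78) (nat_lit 76) (nat_lit 0) (XT.lf (nat_lit 0) (nat_lit 1305437354) (nat_lit 228) (nat_lit 9053644177) (nat_lit 304) (nat_lit 1305437354) (nat_lit 233) (nat_lit 5) (nat_lit 236) (nat_lit 5) (nat_lit 237) (nat_lit 5) (nat_lit 376) (nat_lit 340) (nat_lit 304)) (XT.lf (nat_lit 0) (nat_lit 2297881200) (nat_lit 304) (nat_lit 2297881200) (nat_lit 76) (nat_lit 7386402271) (nat_lit 232) (nat_lit 5) (nat_lit 236) (nat_lit 5) (nat_lit 233) (nat_lit 5) (nat_lit 377) (nat_lit 340) (nat_lit 303))) (XT.nd (nat_lit 78) (nat_lit 228) (nat_lit 0) (XT.lf (nat_lit 0) (nat_lit 6072588155) (nat_lit 228) (nat_lit 6072588155) (nat_lit 76) (nat_lit 167691717) (nat_lit 230) (nat_lit 5) (nat_lit 233) (nat_lit 5) (nat_lit 231) (nat_lit 5) (nat_lit 378) (nat_lit 340) (nat_lit 302)) (XT.lf (nat_lit 0) (nat_lit 2529295228) (nat_lit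 228) (nat_lit 7597002721) (nat_lit 304) (nat_lit 2529295228) (nat_lit 227) (nat_lit 5) (nat_lit 230) (nat_lit 5) (nat_lit 231) (nat_lit 5) (nat_lit 379) (nat_lit 340) (nat_lit 301)))) (XT.nd (nat_lit 156) (nat_lit 228) (nat_lit 0) (XT.nd (nat_lit 78) (nat_lit 152) (nat_lit 0) (XT.lf (nat_lit 0) (nat_lit 1364340206) (nat_lit 304) (nat_lit 1364340206) (nat_lit 76) (nat_lit 10283663763) (nat_lit 226) (nat_lit 5) (nat_lit 230) (nat_lit 5) (nat_lit 227) (nat_lit 5) (nat_lit 380) (nat_lit 340) (nat_lit 300)) (XT.lf (nat_lit 0) (nat_lit 5470486515) (nat_lit 228) (nat_lit 5470486515) (nat_lit 76) (nat_lit 2438745002) (nat_lit 224) (nat_lit 5) (nat_lit 227) (nat_lit 5) (nat_lit 225) (nat_lit 5) (nat_lit 381) (nat_lit 340) (nat_lit 299))) (XT.nd (nat_lit 78) (nat_lit 76) (nat_lit 0) (XT.lf (nat_lit 0) (nat_lit 3910614701) (nat_lit 152) (nat_lit 5940759476) (nat_lit 228) (nat_lit 3910614701) (nat_lit 222)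 (nat_lit 5) (nat_lit 224) (nat_lit 5) (nat_lit 225) (nat_lit 5) (nat_lit 382) (nat_lit 340) (nat_lit 298)) (XT.lf (nat_lit 0) (nat_lit 313412619) (nat_lit 228) (nat_lit 313412619) (nat_lit 76) (nat_lit 13534588493) (nat_lit 221) (nat_lit 5) (nat_lit 224) (nat_lit 5) (nat_lit 222) (nat_lit 5) (nat_lit 383) (nat_lit 340) (nat_lit 297))))) (XT.nd (nat_lit 312) (nat_lit 456) (nat_lit 0) (XT.nd (nat_lit 156) (nat_lit 228) (nat_lit 0) (XT.nd (nat_lit 78) (nat_lit 152) (nat_lit 0) (XT.lf (nat_lit 0) (nat_lit 4794805174) (nat_lit 228) (nat_lit 4794805174) (nat_lit 76) (nat_lit 4979114747) (nat_lit 219) (nat_lit 5) (nat_lit 222) (nat_lit 5) (nat_lit 220) (nat_lit 5) (nat_lit 384) (nat_lit 340) (nat_lit 296)) (XT.lf (nat_lit 0) (nat_lit 5449131609) (nat_lit 152) (nat_lit 4095900568) (nat_lit 228) (nat_lit 5449131609) (nat_lit 217) (nat_lit 5) (nat_lit 219) (nat_lit 5) (nat_lit 220) (nat_lit 5) (nat_lit 385)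 (nat_lit 340) (nat_lit 295))) (XT.nd (nat_lit 78) (nat_lit 76) (nat_lit 0) (XT.lf (nat_lit 0) (nat_lit 838438229) (nat_lit 152) (nat_lit 13760680540) (nat_lit 228) (nat_lit 838438229) (nat_lit 215) (nat_lit 5) (nat_lit 217) (nat_lit 5) (nat_lit 218) (nat_lit 4) (nat_lit 386) (nat_lit 340) (nat_lit 294)) (XT.lf (nat_lit 0) (nat_lit 4051009173) (nat_lit 228) (nat_lit 4051009173) (nat_lit 76) (nat_lit 7789160108) (nat_lit 214) (nat_lit 5) (nat_lit 217) (nat_lit 5) (nat_lit 215) (nat_lit 5) (nat_lit 387) (nat_lit 340) (nat_lit 293)))) (XT.nd (nat_lit 156) (nat_lit 228) (nat_lit 0) (XT.nd (nat_lit 78) (nat_lit 76) (nat_lit 0) (XT.lf (nat_lit 0) (nat_lit 7147973931) (nat_lit 152) (nat_lit 2067890261) (nat_lit 228) (nat_lit 7147973931) (nat_lit 212) (nat_lit 5) (nat_lit 214) (nat_lit 5) (nat_lit 215) (nat_lit 5) (nat_lit 388) (nat_lit 340) (nat_lit 292)) (XT.lf (nat_lit 0) (nat_lit 2098187852) (nat_lit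 76) (nat_lit 12657898836) (nat_lit 152) (nat_lit 2098187852) (nat_lit 211) (nat_lit 5) (nat_lit 212) (nat_lit 5) (nat_lit 213) (nat_lit 4) (nat_lit 389) (nat_lit 340) (nat_lit 291))) (XT.nd (nat_lit 78) (nat_lit 152) (nat_lit 0) (XT.lf (nat_lit 0) (nat_lit 3242298408) (nat_lit 152) (nat_lit 3242298408) (nat_lit 76) (nat_lit 10875096637) (nat_lit 210) (nat_lit 5) (nat_lit 212) (nat_lit 5) (nat_lit 211) (nat_lit 5) (nat_lit 390) (nat_lit 340) (nat_lit 290)) (XT.lf (nat_lit 0) (nat_lit 8872941071) (nat_lit 228) (nat_lit 8872941071) (nat_lit 76) (nat_lit 138099098) (nat_lit 208) (nat_lit 5) (nat_lit 211) (nat_lit 5) (nat_lit 209) (nat_lit 4) (nat_lit 391) (nat_lit 340) (nat_lit 289)))))) (XT.nd (nat_lit 624) (nat_lit 760) (nat_lit 0) (XT.nd (nat_lit 312) (nat_lit 380) (nat_lit 0) (XT.nd (nat_lit 156) (nat_lit 228) (nat_lit 0) (XT.nd (nat_lit 78) (nat_lit 76) (nat_lit 0) (XT.lf (nat_lit 0) (nat_lit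 3473553099) (nat_lit 76) (nat_lit 11479005101) (nat_lit 152) (nat_lit 3473553099) (nat_lit 207) (nat_lit 5) (nat_lit 208) (nat_lit 5) (nat_lit 209) (nat_lit 4) (nat_lit 392) (nat_lit 340) (nat_lit 288)) (XT.lf (nat_lit 0) (nat_lit 2369901096) (nat_lit 152) (nat_lit 2369901096) (nat_lit 76) (nat_lit 14248517675) (nat_lit 206) (nat_lit 5) (nat_lit 208) (nat_lit 5) (nat_lit 207) (nat_lit 5) (nat_lit 393) (nat_lit 340) (nat_lit 287))) (XT.nd (nat_lit 78) (nat_lit 76) (nat_lit 0) (XT.lf (nat_lit 0) (nat_lit 8554636487) (nat_lit 228) (nat_lit 8554636487) (nat_lit 76) (nat_lit 2458226584) (nat_lit 204) (nat_lit 5) (nat_lit 207) (nat_lit 5) (nat_lit 205) (nat_lit 4) (nat_lit 394) (nat_lit 340) (nat_lit 286)) (XT.lf (nat_lit 0) (nat_lit 4969512734) (nat_lit 76) (nat_lit 10229111962) (nat_lit 152) (nat_lit 4969512734) (nat_lit 203) (nat_lit 5) (nat_lit 204) (nat_lit 5) (nat_lit 205) (nat_lit 4) (nat_lit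 395) (nat_lit 340) (nat_lit 285)))) (XT.nd (nat_lit 156) (nat_lit 152) (nat_lit 0) (XT.nd (nat_lit 78) (nat_lit 152) (nat_lit 0) (XT.lf (nat_lit 0) (nat_lit 1433302948) (nat_lit 152) (nat_lit 1433302948) (nat_lit 76) (nat_lit 17926060207) (nat_lit 202) (nat_lit 5) (nat_lit 204) (nat_lit 5) (nat_lit 203) (nat_lit 5) (nat_lit 396) (nat_lit 340) (nat_lit 284)) (XT.lf (nat_lit 0) (nat_lit 8233011950) (nat_lit 228) (nat_lit 8233011950) (nat_lit 76) (nat_lit 4966135900) (nat_lit 200) (nat_lit 5) (nat_lit 203) (nat_lit 5) (nat_lit 201) (nat_lit 4) (nat_lit 397) (nat_lit 340) (nat_lit 283))) (XT.nd (nat_lit 78) (nat_lit 76) (nat_lit 0) (XT.lf (nat_lit 0) (nat_lit 6593215488) (nat_lit 76) (nat_lit 8910639763) (nat_lit 152) (nat_lit 6593215488) (nat_lit 199) (nat_lit 5) (nat_lit 200) (nat_lit 5) (nat_lit 201) (nat_lit 4) (nat_lit 398) (nat_lit 340) (nat_lit 282)) (XT.lf (nat_lit 0) (nat_lit 430422254) (nat_lit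 152) (nat_lit 430422254) (nat_lit 76) (nat_lit 21929195583) (nat_lit 198) (nat_lit 5) (nat_lit 200) (nat_lit 5) (nat_lit 199) (nat_lit 5) (nat_lit 399) (nat_lit 340) (nat_lit 281))))) (XT.nd (nat_lit 312) (nat_lit 304) (nat_lit 0) (XT.nd (nat_lit 156) (nat_lit 228) (nat_lit 0) (XT.nd (nat_lit 78) (nat_lit 76) (nat_lit 0) (XT.lf (nat_lit 0) (nat_lit 7911501537) (nat_lit 228) (nat_lit 7911501537) (nat_lit 76) (nat_lit 7672858812) (nat_lit 196) (nat_lit 5) (nat_lit 199) (nat_lit 5) (nat_lit 197) (nat_lit 4) (nat_lit 400) (nat_lit 340) (nat_lit 280)) (XT.lf (nat_lit 0) (nat_lit 8353887212) (nat_lit 76) (nat_lit 7523654977) (nat_lit 152) (nat_lit 8353887212) (nat_lit 195) (nat_lit 5) (nat_lit 196) (nat_lit 5) (nat_lit 197) (nat_lit 4) (nat_lit 401) (nat_lit 340) (nat_lit 279))) (XT.nd (nat_lit 78) (nat_lit 76) (nat_lit 0) (XT.lf (nat_lit 0) (nat_lit 631901823) (nat_lit 152) (nat_lit 23733781714) (nat_lit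 152) (nat_lit 631901823) (nat_lit 193) (nat_lit 4) (nat_lit 195) (nat_lit 5) (nat_lit 195) (nat_lit 4) (nat_lit 402) (nat_lit 340) (nat_lit 278)) (XT.lf (nat_lit 0) (nat_lit 7592794970) (nat_lit 228) (nat_lit 7592794970) (nat_lit 76) (nat_lit 10592828133) (nat_lit 192) (nat_lit 5) (nat_lit 195) (nat_lit 5) (nat_lit 193) (nat_lit 4) (nat_lit 403) (nat_lit 340) (nat_lit 277)))) (XT.nd (nat_lit 156) (nat_lit 152) (nat_lit 0) (XT.nd (nat_lit 78) (nat_lit 76) (nat_lit 0) (XT.lf (nat_lit 0) (nat_lit 10262785415) (nat_lit 76) (nat_lit 6066132284) (nat_lit 152) (nat_lit 10262785415) (nat_lit 191) (nat_lit 5) (nat_lit 192) (nat_lit 5) (nat_lit 193) (nat_lit 4) (nat_lit 404) (nat_lit 340) (nat_lit 276)) (XT.lf (nat_lit 0) (nat_lit 1760749646) (nat_lit 76) (nat_lit 23915436151) (nat_lit 76) (nat_lit 1760749646) (nat_lit 190) (nat_lit 4) (nat_lit 191) (nat_lit 5) (nat_lit 191) (nat_lit 4) (nat_lit 405) (nat_lit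 340) (nat_lit 275))) (XT.nd (nat_lit 78) (nat_lit 76) (nat_lit 0) (XT.lf (nat_lit 0) (nat_lit 7278976047) (nat_lit 152) (nat_lit 7278976047) (nat_lit 76) (nat_lit 13743785062) (nat_lit 189) (nat_lit 5) (nat_lit 191) (nat_lit 5) (nat_lit 190) (nat_lit 4) (nat_lit 406) (nat_lit 340) (nat_lit 274)) (XT.lf (nat_lit 0) (nat_lit 12333195905) (nat_lit 76) (nat_lit 4534152263) (nat_lit 152) (nat_lit 12333195905) (nat_lit 188) (nat_lit 5) (nat_lit 189) (nat_lit 5) (nat_lit 190) (nat_lit 4) (nat_lit 407) (nat_lit 340) (nat_lit 273))))))))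
noncomputable def xc130 : XT := (XT.nd (nat_lit 1248) (nat_lit 1216) (nat_lit 0) (XT.nd (nat_lit 624) (nat_lit 608) (nat_lit 0) (XT.nd (nat_lit 312) (nat_lit 304) (nat_lit 0) (XT.nd (nat_lit 156) (nat_lit 152) (nat_lit 0) (XT.nd (nat_lit 78) (nat_lit 76) (nat_lit 0) (XT.lf (nat_lit 0) (nat_lit 2969123983) (nat_lit 76) (nat_lit 24194613443) (nat_lit 76) (nat_lit 2969123983) (nat_lit 187) (nat_lit 4) (nat_lit 188) (nat_lit 5) (nat_lit 188) (nat_lit 4) (nat_lit 408) (nat_lit 340) (nat_lit 272)) (XT.lf (nat_lit 0) (nat_lit 6971636213) (nat_lit 152) (nat_lit 6971636213) (nat_lit 76) (nat_lit 17146757115) (nat_lit 186) (nat_lit 5) (nat_lit 188) (nat_lit 5) (nat_lit 187) (nat_lit 4) (nat_lit 409) (nat_lit 340) (nat_lit 271))) (XT.nd (nat_lit 78) (nat_lit 76) (nat_lit 0) (XT.lf (nat_lit 0) (nat_lit 14580467505) (nat_lit 76) (nat_lit 2922044384) (nat_lit 152) (nat_lit 14580467505) (nat_lit 185) (nat_lit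 5) (nat_lit 186) (nat_lit 5) (nat_lit 187) (nat_lit 4) (nat_lit 410) (nat_lit 340) (nat_lit 270)) (XT.lf (nat_lit 0) (nat_lit 4264330136) (nat_lit 76) (nat_lit 24582568124) (nat_lit 76) (nat_lit 4264330136) (nat_lit 184) (nat_lit 4) (nat_lit 185) (nat_lit 5) (nat_lit 185) (nat_lit 4) (nat_lit 411) (nat_lit 340) (nat_lit 269)))) (XT.nd (nat_lit 156) (nat_lit 152) (nat_lit 0) (XT.nd (nat_lit 78) (nat_lit 76) (nat_lit 0) (XT.lf (nat_lit 0) (nat_lit 6671967703) (nat_lit 152) (nat_lit 6671967703) (nat_lit 76) (nat_lit 20826099586) (nat_lit 183) (nat_lit 5) (nat_lit 185) (nat_lit 5) (nat_lit 184) (nat_lit 4) (nat_lit 412) (nat_lit 340) (nat_lit 268)) (XT.lf (nat_lit 0) (nat_lit 17022081905) (nat_lit 76) (nat_lit 1222483056) (nat_lit 152) (nat_lit 17022081905) (nat_lit 182) (nat_lit 5) (nat_lit 183) (nat_lit 5) (nat_lit 184) (nat_lit 4) (nat_lit 413) (nat_lit 340) (nat_lit 267))) (XT.nd (nat_lit 78) (nat_lit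 76) (nat_lit 0) (XT.lf (nat_lit 0) (nat_lit 5654917983) (nat_lit 76) (nat_lit 25090759115) (nat_lit 76) (nat_lit 5654917983) (nat_lit 181) (nat_lit 4) (nat_lit 182) (nat_lit 5) (nat_lit 182) (nat_lit 4) (nat_lit 414) (nat_lit 340) (nat_lit 266)) (XT.lf (nat_lit 0) (nat_lit 6380839901) (nat_lit 152) (nat_lit 6380839901) (nat_lit 76) (nat_lit 24809595300) (nat_lit 180) (nat_lit 5) (nat_lit 182) (nat_lit 5) (nat_lit 181) (nat_lit 4) (nat_lit 415) (nat_lit 340) (nat_lit 265))))) (XT.nd (nat_lit 312) (nat_lit 304) (nat_lit 0) (XT.nd (nat_lit 156) (nat_lit 152) (nat_lit 0) (XT.nd (nat_lit 78) (nat_lit 76) (nat_lit 0) (XT.lf (nat_lit 0) (nat_lit 19113252815) (nat_lit 152) (nat_lit 19113252815) (nat_lit 0) (nat_lit 555102839) (nat_lit 179) (nat_lit 5) (nat_lit 181) (nat_lit 4) (nat_lit 179) (nat_lit 4) (nat_lit 416) (nat_lit 340) (nat_lit 264)) (XT.lf (nat_lit 0) (nat_lit 7150705174) (nat_lit 76) (nat_lit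 25731073542) (nat_lit 76) (nat_lit 7150705174) (nat_lit 178) (nat_lit 4) (nat_lit 179) (nat_lit 5) (nat_lit 179) (nat_lit 4) (nat_lit 417) (nat_lit 340) (nat_lit 263))) (XT.nd (nat_lit 78) (nat_lit 76) (nat_lit 0) (XT.lf (nat_lit 0) (nat_lit 6098861882) (nat_lit 152) (nat_lit 6098861882) (nat_lit 76) (nat_lit 29128608976) (nat_lit 177) (nat_lit 5) (nat_lit 179) (nat_lit 5) (nat_lit 178) (nat_lit 4) (nat_lit 418) (nat_lit 340) (nat_lit 262)) (XT.lf (nat_lit 0) (nat_lit 20131959795) (nat_lit 152) (nat_lit 20131959795) (nat_lit 0) (nat_lit 2397025055) (nat_lit 176) (nat_lit 5) (nat_lit 178) (nat_lit 4) (nat_lit 176) (nat_lit 4) (nat_lit 419) (nat_lit 340) (nat_lit 261)))) (XT.nd (nat_lit 156) (nat_lit 152) (nat_lit 0) (XT.nd (nat_lit 78) (nat_lit 76) (nat_lit 0) (XT.lf (nat_lit 0) (nat_lit 8762822005) (nat_lit 76) (nat_lit 26516035872) (nat_lit 76) (nat_lit 8762822005) (nat_lit 175) (nat_lit 4) (nat_lit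 176) (nat_lit 5) (nat_lit 176) (nat_lit 4) (nat_lit 420) (nat_lit 340) (nat_lit 260)) (XT.lf (nat_lit 0) (nat_lit 5826433625) (nat_lit 152) (nat_lit 5826433625) (nat_lit 76) (nat_lit 33818293853) (nat_lit 174) (nat_lit 5) (nat_lit 176) (nat_lit 5) (nat_lit 175) (nat_lit 4) (nat_lit 421) (nat_lit 340) (nat_lit 259))) (XT.nd (nat_lit 78) (nat_lit 76) (nat_lit 0) (XT.lf (nat_lit 0) (nat_lit 21294314611) (nat_lit 152) (nat_lit 21294314611) (nat_lit 0) (nat_lit 4354121979) (nat_lit 173) (nat_lit 5) (nat_lit 175) (nat_lit 4) (nat_lit 173) (nat_lit 4) (nat_lit 422) (nat_lit 340) (nat_lit 258)) (XT.lf (nat_lit 0) (nat_lit 10503776719) (nat_lit 76) (nat_lit 27459007633) (nat_lit 76) (nat_lit 10503776719) (nat_lit 172) (nat_lit 4) (nat_lit 173) (nat_lit 5) (nat_lit 173) (nat_lit 4) (nat_lit 423) (nat_lit 340) (nat_lit 257)))))) (XT.nd (nat_lit 624) (nat_lit 608) (nat_lit 0) (XT.nd (nat_lit 312) (nat_lit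 304) (nat_lit 0) (XT.nd (nat_lit 156) (nat_lit 152) (nat_lit 0) (XT.nd (nat_lit 78) (nat_lit 76) (nat_lit 0) (XT.lf (nat_lit 0) (nat_lit 5563787897) (nat_lit 152) (nat_lit 5563787897) (nat_lit 76) (nat_lit 38917849393) (nat_lit 171) (nat_lit 5) (nat_lit 173) (nat_lit 5) (nat_lit 172) (nat_lit 4) (nat_lit 424) (nat_lit 340) (nat_lit 256)) (XT.lf (nat_lit 0) (nat_lit 22614157170) (nat_lit 152) (nat_lit 22614157170) (nat_lit 0) (nat_lit 6439687406) (nat_lit 170) (nat_lit 5) (nat_lit 172) (nat_lit 4) (nat_lit 170) (nat_lit 4) (nat_lit 425) (nat_lit 340) (nat_lit 255))) (XT.nd (nat_lit 78) (nat_lit 76) (nat_lit 0) (XT.lf (nat_lit 0) (nat_lit 12387540482) (nat_lit 76) (nat_lit 28574382278) (nat_lit 76) (nat_lit 12387540482) (nat_lit 169) (nat_lit 4) (nat_lit 170) (nat_lit 5) (nat_lit 170) (nat_lit 4) (nat_lit 426) (nat_lit 340) (nat_lit 254)) (XT.lf (nat_lit 0) (nat_lit 5311024486) (nat_lit 152) (nat_lit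 5311024486) (nat_lit 76) (nat_lit 44470829939) (nat_lit 168) (nat_lit 5) (nat_lit 170) (nat_lit 5) (nat_lit 169) (nat_lit 4) (nat_lit 427) (nat_lit 340) (nat_lit 253)))) (XT.nd (nat_lit 156) (nat_lit 152) (nat_lit 0) (XT.nd (nat_lit 78) (nat_lit 76) (nat_lit 0) (XT.lf (nat_lit 0) (nat_lit 24106613583) (nat_lit 152) (nat_lit 24106613583) (nat_lit 0) (nat_lit 8668664553) (nat_lit 167) (nat_lit 5) (nat_lit 169) (nat_lit 4) (nat_lit 167) (nat_lit 4) (nat_lit 428) (nat_lit 340) (nat_lit 252)) (XT.lf (nat_lit 0) (nat_lit 14429651731) (nat_lit 76) (nat_lit 29877779262) (nat_lit 76) (nat_lit 14429651731) (nat_lit 166) (nat_lit 4) (nat_lit 167) (nat_lit 5) (nat_lit 167) (nat_lit 4) (nat_lit 429) (nat_lit 340) (nat_lit 251))) (XT.nd (nat_lit 78) (nat_lit 76) (nat_lit 0) (XT.lf (nat_lit 0) (nat_lit 5068138144) (nat_lit 152) (nat_lit 5068138144) (nat_lit 76) (nat_lit 50525505131) (nat_lit 165) (nat_lit 5)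 (nat_lit 167) (nat_lit 5) (nat_lit 166) (nat_lit 4) (nat_lit 430) (nat_lit 340) (nat_lit 250)) (XT.lf (nat_lit 0) (nat_lit 25788265240) (nat_lit 152) (nat_lit 25788265240) (nat_lit 0) (nat_lit 11057738056) (nat_lit 164) (nat_lit 5) (nat_lit 166) (nat_lit 4) (nat_lit 164) (nat_lit 4) (nat_lit 431) (nat_lit 340) (nat_lit 249))))) (XT.nd (nat_lit 312) (nat_lit 304) (nat_lit 0) (XT.nd (nat_lit 156) (nat_lit 152) (nat_lit 0) (XT.nd (nat_lit 78) (nat_lit 76) (nat_lit 0) (XT.lf (nat_lit 0) (nat_lit 16647339944) (nat_lit 76) (nat_lit 31386241005) (nat_lit 76) (nat_lit 16647339944) (nat_lit 163) (nat_lit 4) (nat_lit 164) (nat_lit 5) (nat_lit 164) (nat_lit 4) (nat_lit 432) (nat_lit 340) (nat_lit 248)) (XT.lf (nat_lit 0) (nat_lit 4835041371) (nat_lit 152) (nat_lit 4835041371) (nat_lit 76) (nat_lit 57135273752) (nat_lit 162) (nat_lit 5) (nat_lit 164) (nat_lit 5) (nat_lit 163) (nat_lit 4) (nat_lit 433) (nat_lit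 340) (nat_lit 247))) (XT.nd (nat_lit 78) (nat_lit 76) (nat_lit 0) (XT.lf (nat_lit 0) (nat_lit 27677327957) (nat_lit 152) (nat_lit 27677327957) (nat_lit 0) (nat_lit 13625450302) (nat_lit 161) (nat_lit 5) (nat_lit 163) (nat_lit 4) (nat_lit 161) (nat_lit 4) (nat_lit 434) (nat_lit 340) (nat_lit 246)) (XT.lf (nat_lit 0) (nat_lit 19059669244) (nat_lit 76) (nat_lit 33118436110) (nat_lit 76) (nat_lit 19059669244) (nat_lit 160) (nat_lit 4) (nat_lit 161) (nat_lit 5) (nat_lit 161) (nat_lit 4) (nat_lit 435) (nat_lit 340) (nat_lit 245)))) (XT.nd (nat_lit 156) (nat_lit 152) (nat_lit 0) (XT.nd (nat_lit 78) (nat_lit 76) (nat_lit 0) (XT.lf (nat_lit 0) (nat_lit 4611582956) (nat_lit 152) (nat_lit 4611582956) (nat_lit 76) (nat_lit 64359133494) (nat_lit 159) (nat_lit 5) (nat_lit 161) (nat_lit 5) (nat_lit 160) (nat_lit 4) (nat_lit 436) (nat_lit 340) (nat_lit 244)) (XT.lf (nat_lit 0) (nat_lit 29793843548) (nat_lit 152)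 (nat_lit 29793843548) (nat_lit 0) (nat_lit 16392341896) (nat_lit 158) (nat_lit 5) (nat_lit 160) (nat_lit 4) (nat_lit 158) (nat_lit 4) (nat_lit 437) (nat_lit 340) (nat_lit 243))) (XT.nd (nat_lit 78) (nat_lit 76) (nat_lit 0) (XT.lf (nat_lit 0) (nat_lit 21687702588) (nat_lit 76) (nat_lit 35094872011) (nat_lit 76) (nat_lit 21687702588) (nat_lit 157) (nat_lit 4) (nat_lit 158) (nat_lit 5) (nat_lit 158) (nat_lit 4) (nat_lit 438) (nat_lit 340) (nat_lit 242)) (XT.lf (nat_lit 0) (nat_lit 4397563048) (nat_lit 152) (nat_lit 4397563048) (nat_lit 76) (nat_lit 72262209942) (nat_lit 156) (nat_lit 5) (nat_lit 158) (nat_lit 5) (nat_lit 157) (nat_lit 4) (nat_lit 439) (nat_lit 340) (nat_lit 241)))))))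
noncomputable def xc131 : XT := (XT.nd (nat_lit 1248) (nat_lit 1292) (nat_lit 0) (XT.nd (nat_lit 624) (nat_lit 608) (nat_lit 0) (XT.nd (nat_lit 312) (nat_lit 304) (nat_lit 0) (XT.nd (nat_lit 156) (nat_lit 152) (nat_lit 0) (XT.nd (nat_lit 78) (nat_lit 76) (nat_lit 0) (XT.lf (nat_lit 0) (nat_lit 32159886173) (nat_lit 152) (nat_lit 32159886173) (nat_lit 0) (nat_lit 19381116521) (nat_lit 155) (nat_lit 5) (nat_lit 157) (nat_lit 4) (nat_lit 155) (nat_lit 4) (nat_lit 440) (nat_lit 340) (nat_lit 240)) (XT.lf (nat_lit 0) (nat_lit 24554687562) (nat_lit 76) (nat_lit 37338120102) (nat_lit 76) (nat_lit 24554687562) (nat_lit 154) (nat_lit 4) (nat_lit 155) (nat_lit 5) (nat_lit 155) (nat_lit 4) (nat_lit 441) (nat_lit 340) (nat_lit 239))) (XT.nd (nat_lit 78) (nat_lit 76) (nat_lit 0) (XT.lf (nat_lit 0) (nat_lit 4192745372) (nat_lit 152) (nat_lit 4192745372) (nat_lit 76) (nat_lit 80916348809) (nat_lit 153) (nat_lit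 5) (nat_lit 155) (nat_lit 5) (nat_lit 154) (nat_lit 4) (nat_lit 442) (nat_lit 340) (nat_lit 238)) (XT.lf (nat_lit 0) (nat_lit 34799785865) (nat_lit 152) (nat_lit 34799785865) (nat_lit 0) (nat_lit 22616830852) (nat_lit 152) (nat_lit 5) (nat_lit 154) (nat_lit 4) (nat_lit 152) (nat_lit 4) (nat_lit 443) (nat_lit 340) (nat_lit 237)))) (XT.nd (nat_lit 156) (nat_lit 152) (nat_lit 0) (XT.nd (nat_lit 78) (nat_lit 76) (nat_lit 0) (XT.lf (nat_lit 0) (nat_lit 27686265142) (nat_lit 76) (nat_lit 39873056326) (nat_lit 76) (nat_lit 27686265142) (nat_lit 151) (nat_lit 4) (nat_lit 152) (nat_lit 5) (nat_lit 152) (nat_lit 4) (nat_lit 444) (nat_lit 340) (nat_lit 236)) (XT.lf (nat_lit 0) (nat_lit 3996867107) (nat_lit 152) (nat_lit 3996867107) (nat_lit 76) (nat_lit 90400776269) (nat_lit 150) (nat_lit 5) (nat_lit 152) (nat_lit 5) (nat_lit 151) (nat_lit 4) (nat_lit 445) (nat_lit 340) (nat_lit 235))) (XT.nd (nat_lit 78)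 (nat_lit 76) (nat_lit 0) (XT.lf (nat_lit 0) (nat_lit 37740371747) (nat_lit 152) (nat_lit 37740371747) (nat_lit 0) (nat_lit 26127110606) (nat_lit 149) (nat_lit 5) (nat_lit 151) (nat_lit 4) (nat_lit 149) (nat_lit 4) (nat_lit 446) (nat_lit 340) (nat_lit 234)) (XT.lf (nat_lit 0) (nat_lit 31110703049) (nat_lit 76) (nat_lit 42727120216) (nat_lit 76) (nat_lit 31110703049) (nat_lit 148) (nat_lit 4) (nat_lit 149) (nat_lit 5) (nat_lit 149) (nat_lit 4) (nat_lit 447) (nat_lit 340) (nat_lit 233))))) (XT.nd (nat_lit 312) (nat_lit 304) (nat_lit 0) (XT.nd (nat_lit 156) (nat_lit 152) (nat_lit 0) (XT.nd (nat_lit 78) (nat_lit 76) (nat_lit 0) (XT.lf (nat_lit 0) (nat_lit 3809646854) (nat_lit 152) (nat_lit 3809646854) (nat_lit 76) (nat_lit 100802833003) (nat_lit 147) (nat_lit 5) (nat_lit 149) (nat_lit 5) (nat_lit 148) (nat_lit 4) (nat_lit 448) (nat_lit 340) (nat_lit 232)) (XT.lf (nat_lit 0) (nat_lit 41011237519) (nat_lit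 152) (nat_lit 41011237519) (nat_lit 0) (nat_lit 29942394170) (nat_lit 146) (nat_lit 5) (nat_lit 148) (nat_lit 4) (nat_lit 146) (nat_lit 4) (nat_lit 449) (nat_lit 340) (nat_lit 231))) (XT.nd (nat_lit 78) (nat_lit 76) (nat_lit 0) (XT.lf (nat_lit 0) (nat_lit 34859155614) (nat_lit 76) (nat_lit 45930595434) (nat_lit 76) (nat_lit 34859155614) (nat_lit 145) (nat_lit 4) (nat_lit 146) (nat_lit 5) (nat_lit 146) (nat_lit 4) (nat_lit 450) (nat_lit 340) (nat_lit 230)) (XT.lf (nat_lit 0) (nat_lit 3630791032) (nat_lit 152) (nat_lit 3630791032) (nat_lit 76) (nat_lit 112218788387) (nat_lit 144) (nat_lit 5) (nat_lit 146) (nat_lit 5) (nat_lit 145) (nat_lit 4) (nat_lit 451) (nat_lit 340) (nat_lit 229)))) (XT.nd (nat_lit 156) (nat_lit 152) (nat_lit 0) (XT.nd (nat_lit 78) (nat_lit 76) (nat_lit 0) (XT.lf (nat_lit 0) (nat_lit 44645032031) (nat_lit 152) (nat_lit 44645032031) (nat_lit 0) (nat_lit 34096205626) (nat_lit 143)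 (nat_lit 5) (nat_lit 145) (nat_lit 4) (nat_lit 143) (nat_lit 4) (nat_lit 452) (nat_lit 340) (nat_lit 228)) (XT.lf (nat_lit 0) (nat_lit 38965952416) (nat_lit 76) (nat_lit 49516914943) (nat_lit 76) (nat_lit 38965952416) (nat_lit 142) (nat_lit 4) (nat_lit 143) (nat_lit 5) (nat_lit 143) (nat_lit 4) (nat_lit 453) (nat_lit 340) (nat_lit 227))) (XT.nd (nat_lit 78) (nat_lit 76) (nat_lit 0) (XT.lf (nat_lit 0) (nat_lit 3459998993) (nat_lit 152) (nat_lit 3459998993) (nat_lit 76) (nat_lit 124754742147) (nat_lit 141) (nat_lit 5) (nat_lit 143) (nat_lit 5) (nat_lit 142) (nat_lit 4) (nat_lit 454) (nat_lit 340) (nat_lit 226)) (XT.lf (nat_lit 0) (nat_lit 48677777888) (nat_lit 152) (nat_lit 48677777888) (nat_lit 0) (nat_lit 38625459357) (nat_lit 140) (nat_lit 5) (nat_lit 142) (nat_lit 4) (nat_lit 140) (nat_lit 4) (nat_lit 455) (nat_lit 340) (nat_lit 225)))))) (XT.nd (nat_lit 624) (nat_lit 684) (nat_lit 0) (XT.nd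 (nat_lit 312) (nat_lit 304) (nat_lit 0) (XT.nd (nat_lit 156) (nat_lit 152) (nat_lit 0) (XT.nd (nat_lit 78) (nat_lit 76) (nat_lit 0) (XT.lf (nat_lit 0) (nat_lit 43468918209) (nat_lit 76) (nat_lit 53522994134) (nat_lit 76) (nat_lit 43468918209) (nat_lit 139) (nat_lit 4) (nat_lit 140) (nat_lit 5) (nat_lit 140) (nat_lit 4) (nat_lit 456) (nat_lit 340) (nat_lit 224)) (XT.lf (nat_lit 0) (nat_lit 3296967092) (nat_lit 152) (nat_lit 3296967092) (nat_lit 76) (nat_lit 138527621669) (nat_lit 138) (nat_lit 5) (nat_lit 140) (nat_lit 5) (nat_lit 139) (nat_lit 4) (nat_lit 457) (nat_lit 340) (nat_lit 223))) (XT.nd (nat_lit 78) (nat_lit 76) (nat_lit 0) (XT.lf (nat_lit 0) (nat_lit 53149221302) (nat_lit 152) (nat_lit 53149221302) (nat_lit 0) (nat_lit 43570798787) (nat_lit 137) (nat_lit 5) (nat_lit 139) (nat_lit 4) (nat_lit 137) (nat_lit 4) (nat_lit 458) (nat_lit 340) (nat_lit 222)) (XT.lf (nat_lit 0) (nat_lit 48409727057)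 (nat_lit 76) (nat_lit 57989595384) (nat_lit 76) (nat_lit 48409727057) (nat_lit 136) (nat_lit 4) (nat_lit 137) (nat_lit 5) (nat_lit 137) (nat_lit 4) (nat_lit 459) (nat_lit 340) (nat_lit 221)))) (XT.nd (nat_lit 156) (nat_lit 152) (nat_lit 0) (XT.nd (nat_lit 78) (nat_lit 76) (nat_lit 0) (XT.lf (nat_lit 0) (nat_lit 3141391898) (nat_lit 152) (nat_lit 3141391898) (nat_lit 76) (nat_lit 153666284169) (nat_lit 135) (nat_lit 5) (nat_lit 137) (nat_lit 5) (nat_lit 136) (nat_lit 4) (nat_lit 460) (nat_lit 340) (nat_lit 220)) (XT.lf (nat_lit 0) (nat_lit 58103216670) (nat_lit 152) (nat_lit 58103216670) (nat_lit 0) (nat_lit 48976972207) (nat_lit 134) (nat_lit 5) (nat_lit 136) (nat_lit 4) (nat_lit 134) (nat_lit 4) (nat_lit 461) (nat_lit 340) (nat_lit 219))) (XT.nd (nat_lit 78) (nat_lit 76) (nat_lit 0) (XT.lf (nat_lit 0) (nat_lit 53834293874) (nat_lit 76) (nat_lit 62961727809) (nat_lit 76) (nat_lit 53834293874) (nat_lit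 133) (nat_lit 4) (nat_lit 134) (nat_lit 5) (nat_lit 134) (nat_lit 4) (nat_lit 462) (nat_lit 340) (nat_lit 218)) (XT.lf (nat_lit 0) (nat_lit 2992972710) (nat_lit 152) (nat_lit 2992972710) (nat_lit 76) (nat_lit 170312733958) (nat_lit 132) (nat_lit 5) (nat_lit 134) (nat_lit 5) (nat_lit 133) (nat_lit 4) (nat_lit 463) (nat_lit 340) (nat_lit 217))))) (XT.nd (nat_lit 312) (nat_lit 380) (nat_lit 0) (XT.nd (nat_lit 156) (nat_lit 152) (nat_lit 0) (XT.nd (nat_lit 78) (nat_lit 76) (nat_lit 0) (XT.lf (nat_lit 0) (nat_lit 63588149643) (nat_lit 152) (nat_lit 63588149643) (nat_lit 0) (nat_lit 54893249020) (nat_lit 131) (nat_lit 5) (nat_lit 133) (nat_lit 4) (nat_lit 131) (nat_lit 4) (nat_lit 464) (nat_lit 340) (nat_lit 216)) (XT.lf (nat_lit 0) (nat_lit 59793207027) (nat_lit 76) (nat_lit 68489086233) (nat_lit 76) (nat_lit 59793207027) (nat_lit 130) (nat_lit 4) (nat_lit 131) (nat_lit 5) (nat_lit 131) (nat_lit 4)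 (nat_lit 465) (nat_lit 340) (nat_lit 215))) (XT.nd (nat_lit 78) (nat_lit 76) (nat_lit 0) (XT.lf (nat_lit 0) (nat_lit 2851413504) (nat_lit 152) (nat_lit 2851413504) (nat_lit 76) (nat_lit 188623466192) (nat_lit 129) (nat_lit 5) (nat_lit 131) (nat_lit 5) (nat_lit 130) (nat_lit 4) (nat_lit 466) (nat_lit 340) (nat_lit 214)) (XT.lf (nat_lit 0) (nat_lit 69657402838) (nat_lit 152) (nat_lit 69657402838) (nat_lit 0) (nat_lit 61373880178) (nat_lit 128) (nat_lit 5) (nat_lit 130) (nat_lit 4) (nat_lit 128) (nat_lit 4) (nat_lit 467) (nat_lit 340) (nat_lit 213)))) (XT.nd (nat_lit 156) (nat_lit 228) (nat_lit 0) (XT.nd (nat_lit 78) (nat_lit 76) (nat_lit 0) (XT.lf (nat_lit 0) (nat_lit 66342205998) (nat_lit 76) (nat_lit 74626533740) (nat_lit 76) (nat_lit 66342205998) (nat_lit 127) (nat_lit 4) (nat_lit 128) (nat_lit 5) (nat_lit 128) (nat_lit 4) (nat_lit 468) (nat_lit 340) (nat_lit 212)) (XT.lf (nat_lit 0) (nat_lit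 2716424421) (nat_lit 152) (nat_lit 2716424421) (nat_lit 76) (nat_lit 208770949732) (nat_lit 126) (nat_lit 5) (nat_lit 128) (nat_lit 5) (nat_lit 127) (nat_lit 4) (nat_lit 469) (nat_lit 340) (nat_lit 211))) (XT.nd (nat_lit 78) (nat_lit 152) (nat_lit 0) (XT.lf (nat_lit 0) (nat_lit 76369868687) (nat_lit 152) (nat_lit 76369868687) (nat_lit 0) (nat_lit 68478607049) (nat_lit 125) (nat_lit 5) (nat_lit 127) (nat_lit 4) (nat_lit 125) (nat_lit 4) (nat_lit 470) (nat_lit 340) (nat_lit 210)) (XT.nd (nat_lit 78) (nat_lit 76) (nat_lit 0) (XT.lf (nat_lit 0) (nat_lit 73542708595) (nat_lit 76) (nat_lit 81434632576) (nat_lit 76) (nat_lit 73542708595) (nat_lit 124) (nat_lit 4) (nat_lit 125) (nat_lit 5) (nat_lit 125) (nat_lit 4) (nat_lit 471) (nat_lit 340) (nat_lit 209)) (XT.lf (nat_lit 0) (nat_lit 2587722880) (nat_lit 152) (nat_lit 2587722880) (nat_lit 76) (nat_lit 230945263086) (nat_lit 123) (nat_lit 5) (nat_lit 125)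 (nat_lit 5) (nat_lit 124) (nat_lit 4) (nat_lit 472) (nat_lit 340) (nat_lit 208))))))))
noncomputable def xc132 : XT := (XT.nd (nat_lit 43680) (nat_lit 0) (nat_lit 9120) (XT.nd (nat_lit 1248) (nat_lit 380) (nat_lit 0) (XT.nd (nat_lit 624) (nat_lit 608) (nat_lit 0) (XT.nd (nat_lit 312) (nat_lit 304) (nat_lit 0) (XT.nd (nat_lit 156) (nat_lit 152) (nat_lit 0) (XT.nd (nat_lit 78) (nat_lit 76) (nat_lit 0) (XT.lf (nat_lit 0) (nat_lit 83790514394) (nat_lit 152) (nat_lit 83790514394) (nat_lit 0) (nat_lit 76273223395) (nat_lit 122) (nat_lit 5) (nat_lit 124) (nat_lit 4) (nat_lit 122) (nat_lit 4) (nat_lit 473) (nat_lit 340) (nat_lit 207)) (XT.lf (nat_lit 0) (nat_lit 81462392663) (nat_lit 76) (nat_lit 88980228574) (nat_lit 76) (nat_lit 81462392663) (nat_lit 121) (nat_lit 4) (nat_lit 122) (nat_lit 5) (nat_lit 122) (nat_lit 4) (nat_lit 474) (nat_lit 340) (nat_lit 206))) (XT.nd (nat_lit 78) (nat_lit 76) (nat_lit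 0) (XT.lf (nat_lit 0) (nat_lit 2465034384) (nat_lit 152) (nat_lit 2465034384) (nat_lit 76) (nat_lit 255355898917) (nat_lit 120) (nat_lit 5) (nat_lit 122) (nat_lit 5) (nat_lit 121) (nat_lit 4) (nat_lit 475) (nat_lit 340) (nat_lit 205)) (XT.lf (nat_lit 0) (nat_lit 91991004429) (nat_lit 152) (nat_lit 91991004429) (nat_lit 0) (nat_lit 84830195739) (nat_lit 119) (nat_lit 5) (nat_lit 121) (nat_lit 4) (nat_lit 119) (nat_lit 4) (nat_lit 476) (nat_lit 340) (nat_lit 204)))) (XT.nd (nat_lit 156) (nat_lit 152) (nat_lit 0) (XT.nd (nat_lit 78) (nat_lit 76) (nat_lit 0) (XT.lf (nat_lit 0) (nat_lit 90175837794) (nat_lit 76) (nat_lit 97337094784) (nat_lit 76) (nat_lit 90175837794) (nat_lit 118) (nat_lit 4) (nat_lit 119) (nat_lit 5) (nat_lit 119) (nat_lit 4) (nat_lit 477) (nat_lit 340) (nat_lit 203)) (XT.lf (nat_lit 0) (nat_lit 2348093095) (nat_lit 152) (nat_lit 2348093095) (nat_lit 76) (nat_lit 282233754197) (nat_lit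 117) (nat_lit 5) (nat_lit 119) (nat_lit 5) (nat_lit 118) (nat_lit 4) (nat_lit 478) (nat_lit 340) (nat_lit 202))) (XT.nd (nat_lit 78) (nat_lit 76) (nat_lit 0) (XT.lf (nat_lit 0) (nat_lit 101050386547) (nat_lit 152) (nat_lit 101050386547) (nat_lit 0) (nat_lit 94229347914) (nat_lit 116) (nat_lit 5) (nat_lit 118) (nat_lit 4) (nat_lit 116) (nat_lit 4) (nat_lit 479) (nat_lit 340) (nat_lit 201)) (XT.lf (nat_lit 0) (nat_lit 99765233087) (nat_lit 76) (nat_lit 106586640537) (nat_lit 76) (nat_lit 99765233087) (nat_lit 115) (nat_lit 4) (nat_lit 116) (nat_lit 5) (nat_lit 116) (nat_lit 4) (nat_lit 480) (nat_lit 340) (nat_lit 200))))) (XT.nd (nat_lit 312) (nat_lit 304) (nat_lit 0) (XT.nd (nat_lit 156) (nat_lit 152) (nat_lit 0) (XT.nd (nat_lit 78) (nat_lit 76) (nat_lit 0) (XT.lf (nat_lit 0) (nat_lit 2236642198) (nat_lit 152) (nat_lit 2236642198) (nat_lit 76) (nat_lit 311833324878) (nat_lit 114) (nat_lit 5) (nat_lit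 116) (nat_lit 5) (nat_lit 115) (nat_lit 4) (nat_lit 481) (nat_lit 340) (nat_lit 199)) (XT.lf (nat_lit 0) (nat_lit 111055847900) (nat_lit 152) (nat_lit 111055847900) (nat_lit 0) (nat_lit 104558616249) (nat_lit 113) (nat_lit 5) (nat_lit 115) (nat_lit 4) (nat_lit 113) (nat_lit 4) (nat_lit 482) (nat_lit 340) (nat_lit 198))) (XT.nd (nat_lit 78) (nat_lit 76) (nat_lit 0) (XT.lf (nat_lit 0) (nat_lit 110321157686) (nat_lit 76) (nat_lit 116818692763) (nat_lit 76) (nat_lit 110321157686) (nat_lit 112) (nat_lit 4) (nat_lit 113) (nat_lit 5) (nat_lit 113) (nat_lit 4) (nat_lit 483) (nat_lit 340) (nat_lit 197)) (XT.lf (nat_lit 0) (nat_lit 2130434116) (nat_lit 152) (nat_lit 2130434116) (nat_lit 76) (nat_lit 344435125948) (nat_lit 111) (nat_lit 5) (nat_lit 113) (nat_lit 5) (nat_lit 112) (nat_lit 4) (nat_lit 484) (nat_lit 340) (nat_lit 196)))) (XT.nd (nat_lit 156) (nat_lit 152) (nat_lit 0) (XT.nd (nat_lit 78) (nat_lit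 76) (nat_lit 0) (XT.lf (nat_lit 0) (nat_lit 122103548487) (nat_lit 152) (nat_lit 122103548487) (nat_lit 0) (nat_lit 115914882513) (nat_lit 110) (nat_lit 5) (nat_lit 112) (nat_lit 4) (nat_lit 110) (nat_lit 4) (nat_lit 485) (nat_lit 340) (nat_lit 195)) (XT.lf (nat_lit 0) (nat_lit 121943441484) (nat_lit 76) (nat_lit 128132357088) (nat_lit 76) (nat_lit 121943441484) (nat_lit 109) (nat_lit 4) (nat_lit 110) (nat_lit 5) (nat_lit 110) (nat_lit 4) (nat_lit 486) (nat_lit 340) (nat_lit 194))) (XT.nd (nat_lit 78) (nat_lit 76) (nat_lit 0) (XT.lf (nat_lit 0) (nat_lit 2029230605) (nat_lit 152) (nat_lit 2029230605) (nat_lit 76) (nat_lit 380348359844) (nat_lit 108) (nat_lit 5) (nat_lit 110) (nat_lit 5) (nat_lit 109) (nat_lit 4) (nat_lit 487) (nat_lit 340) (nat_lit 193)) (XT.lf (nat_lit 0) (nat_lit 134299539906) (nat_lit 152) (nat_lit 134299539906) (nat_lit 0) (nat_lit 128404892507) (nat_lit 107) (nat_lit 5) (nat_lit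 109) (nat_lit 4) (nat_lit 107) (nat_lit 4) (nat_lit 488) (nat_lit 340) (nat_lit 192)))))) (XT.nd (nat_lit 41808) (nat_lit 0) (nat_lit 16948) (XT.nd (nat_lit 312) (nat_lit 76) (nat_lit 0) (XT.nd (nat_lit 156) (nat_lit 152) (nat_lit 0) (XT.nd (nat_lit 78) (nat_lit 76) (nat_lit 0) (XT.lf (nat_lit 0) (nat_lit 134742114184) (nat_lit 76) (nat_lit 140636966954) (nat_lit 76) (nat_lit 134742114184) (nat_lit 106) (nat_lit 4) (nat_lit 107) (nat_lit 5) (nat_lit 107) (nat_lit 4) (nat_lit 489) (nat_lit 340) (nat_lit 191)) (XT.lf (nat_lit 0) (nat_lit 1932802741) (nat_lit 152) (nat_lit 1932802741) (nat_lit 76) (nat_lit 419913858616) (nat_lit 105) (nat_lit 5) (nat_lit 107) (nat_lit 5) (nat_lit 106) (nat_lit 4) (nat_lit 490) (nat_lit 340) (nat_lit 190))) (XT.nd (nat_lit 78) (nat_lit 76) (nat_lit 0) (XT.lf (nat_lit 0) (nat_lit 147760778192) (nat_lit 152) (nat_lit 147760778192) (nat_lit 0) (nat_lit 142146269011) (nat_lit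 104) (nat_lit 5) (nat_lit 106) (nat_lit 4) (nat_lit 104) (nat_lit 4) (nat_lit 491) (nat_lit 340) (nat_lit 189)) (XT.lf (nat_lit 0) (nat_lit 148838451719) (nat_lit 76) (nat_lit 154453129859) (nat_lit 76) (nat_lit 148838451719) (nat_lit 103) (nat_lit 4) (nat_lit 104) (nat_lit 5) (nat_lit 104) (nat_lit 4) (nat_lit 492) (nat_lit 340) (nat_lit 188)))) (XT.nd (nat_lit 41340) (nat_lit 0) (nat_lit 18696) (XT.nd (nat_lit 41262) (nat_lit 0) (nat_lit 18924) (XT.lf (nat_lit 0) (nat_lit 1840930837) (nat_lit 152) (nat_lit 1840930837) (nat_lit 76) (nat_lit 463507327833) (nat_lit 102) (nat_lit 5) (nat_lit 104) (nat_lit 5) (nat_lit 103) (nat_lit 4) (nat_lit 493) (nat_lit 340) (nat_lit 187)) (XT.lf (nat_lit 0) (nat_lit 1559894516) (nat_lit 0) (nat_lit 1559894516) (nat_lit 76) (nat_lit 106508261) (nat_lit 351) (nat_lit 5) (nat_lit 351) (nat_lit 3) (nat_lit 352) (nat_lit 0) (nat_lit 341) (nat_lit 341) (nat_lit 338)))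 (XT.nd (nat_lit 78) (nat_lit 0) (nat_lit 0) (XT.lf (nat_lit 0) (nat_lit 2710392829) (nat_lit 228) (nat_lit 103099332) (nat_lit 228) (nat_lit 3654500414) (nat_lit 348) (nat_lit 3) (nat_lit 351) (nat_lit 3) (nat_lit 351) (nat_lit 5) (nat_lit 342) (nat_lit 341) (nat_lit 337)) (XT.lf (nat_lit 76) (nat_lit 3291767402) (nat_lit 0) (nat_lit 2345411941) (nat_lit 228) (nat_lit 853588242) (nat_lit 349) (nat_lit 5) (nat_lit 348) (nat_lit 3) (nat_lit 351) (nat_lit 5) (nat_lit 343) (nat_lit 341) (nat_lit 336))))) (XT.nd (nat_lit 312) (nat_lit 1216) (nat_lit 0) (XT.nd (nat_lit 156) (nat_lit 304) (nat_lit 0) (XT.nd (nat_lit 78) (nat_lit 0) (nat_lit 0) (XT.lf (nat_lit 76) (nat_lit 215302467) (nat_lit 0) (nat_lit 1732608617) (nat_lit 304) (nat_lit 4573928227) (nat_lit 346) (nat_lit 5) (nat_lit 345) (nat_lit 5) (nat_lit 349) (nat_lit 5) (nat_lit 344) (nat_lit 341) (nat_lit 335)) (XT.lf (nat_lit 76) (nat_lit 3795939021)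 (nat_lit 0) (nat_lit 943353261) (nat_lit 304) (nat_lit 1820548022) (nat_lit 346) (nat_lit 5) (nat_lit 345) (nat_lit 5) (nat_lit 349) (nat_lit 5) (nat_lit 345) (nat_lit 341) (nat_lit 334))) (XT.nd (nat_lit 78) (nat_lit 0) (nat_lit 76) (XT.lf (nat_lit 76) (nat_lit 865045189) (nat_lit 0) (nat_lit 14856955) (nat_lit 380) (nat_lit 5726820344) (nat_lit 342) (nat_lit 5) (nat_lit 341) (nat_lit 5) (nat_lit 346) (nat_lit 5) (nat_lit 346) (nat_lit 341) (nat_lit 333)) (XT.lf (nat_lit 0) (nat_lit 3554425261) (nat_lit 304) (nat_lit 2037119111) (nat_lit 76) (nat_lit 1067900517) (nat_lit 342) (nat_lit 5) (nat_lit 346) (nat_lit 5) (nat_lit 343) (nat_lit 5) (nat_lit 347) (nat_lit 341) (nat_lit 332)))) (XT.nd (nat_lit 156) (nat_lit 912) (nat_lit 0) (XT.nd (nat_lit 78) (nat_lit 76) (nat_lit 0) (XT.lf (nat_lit 0) (nat_lit 1806131446) (nat_lit 304) (nat_lit 4430383656) (nat_lit 380) (nat_lit 484596281) (nat_lit 338)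 (nat_lit 5) (nat_lit 342) (nat_lit 5) (nat_lit 343) (nat_lit 5) (nat_lit 348) (nat_lit 341) (nat_lit 331)) (XT.lf (nat_lit 0) (nat_lit 2078081275) (nat_lit 380) (nat_lit 1015247340) (nat_lit 76) (nat_lit 3696573675) (nat_lit 337) (nat_lit 5) (nat_lit 342) (nat_lit 5) (nat_lit 338) (nat_lit 5) (nat_lit 349) (nat_lit 341) (nat_lit 330))) (XT.nd (nat_lit 78) (nat_lit 532) (nat_lit 0) (XT.lf (nat_lit 0) (nat_lit 3067396474) (nat_lit 380) (nat_lit 1589026206) (nat_lit 456) (nat_lit 2210122073) (nat_lit 332) (nat_lit 5) (nat_lit 337) (nat_lit 5) (nat_lit 338) (nat_lit 5) (nat_lit 350) (nat_lit 341) (nat_lit 329)) (XT.lf (nat_lit 0) (nat_lit 285971925) (nat_lit 532) (nat_lit 6611395415) (nat_lit 76) (nat_lit 55194442) (nat_lit 325) (nat_lit 5) (nat_lit 332) (nat_lit 5) (nat_lit 326) (nat_lit 5) (nat_lit 351) (nat_lit 341) (nat_lit 328))))))) (XT.nd (nat_lit 1248) (nat_lit 2736) (nat_lit 0) (XT.nd (nat_lit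 624) (nat_lit 1900) (nat_lit 0) (XT.nd (nat_lit 312) (nat_lit 1976) (nat_lit 0) (XT.nd (nat_lit 156) (nat_lit 684) (nat_lit 0) (XT.nd (nat_lit 78) (nat_lit 532) (nat_lit 0) (XT.lf (nat_lit 0) (nat_lit 2788584014) (nat_lit 532) (nat_lit 2393529248) (nat_lit 76) (nat_lit 1861155426) (nat_lit 325) (nat_lit 5) (nat_lit 332) (nat_lit 5) (nat_lit 326) (nat_lit 5) (nat_lit 352) (nat_lit 341) (nat_lit 327)) (XT.lf (nat_lit 0) (nat_lit 1993387923) (nat_lit 532) (nat_lit 3325054678) (nat_lit 608) (nat_lit 1824962544) (nat_lit 318) (nat_lit 5) (nat_lit 325) (nat_lit 5) (nat_lit 326) (nat_lit 5) (nat_lit 353) (nat_lit 341) (nat_lit 326))) (XT.nd (nat_lit 78) (nat_lit 608) (nat_lit 0) (XT.lf (nat_lit 0) (nat_lit 617674538) (nat_lit 608) (nat_lit 683898801) (nat_lit 76) (nat_lit 5950674487) (nat_lit 317) (nat_lit 5) (nat_lit 325) (nat_lit 5) (nat_lit 318) (nat_lit 5) (nat_lit 354) (nat_lit 341) (nat_lit 325))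 (XT.lf (nat_lit 0) (nat_lit 3077711531) (nat_lit 684) (nat_lit 3381896650) (nat_lit 76) (nat_lit 907598651) (nat_lit 309) (nat_lit 5) (nat_lit 318) (nat_lit 5) (nat_lit 310) (nat_lit 5) (nat_lit 355) (nat_lit 341) (nat_lit 324)))) (XT.nd (nat_lit 156) (nat_lit 1216) (nat_lit 0) (XT.nd (nat_lit 78) (nat_lit 76) (nat_lit 0) (XT.lf (nat_lit 0) (nat_lit 1338330990) (nat_lit 684) (nat_lit 4260313106) (nat_lit 760) (nat_lit 1892375006) (nat_lit 300) (nat_lit 5) (nat_lit 309) (nat_lit 5) (nat_lit 310) (nat_lit 5) (nat_lit 356) (nat_lit 341) (nat_lit 323)) (XT.lf (nat_lit 0) (nat_lit 548752458) (nat_lit 760) (nat_lit 1326272324) (nat_lit 76) (nat_lit 5748302500) (nat_lit 299) (nat_lit 5) (nat_lit 309) (nat_lit 5) (nat_lit 300) (nat_lit 5) (nat_lit 357) (nat_lit 341) (nat_lit 322))) (XT.nd (nat_lit 78) (nat_lit 456) (nat_lit 0) (XT.lf (nat_lit 0) (nat_lit 3009226773) (nat_lit 836) (nat_lit 4049098483) (nat_lit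 76) (nat_lit 704330153) (nat_lit 289) (nat_lit 5) (nat_lit 300) (nat_lit 5) (nat_lit 290) (nat_lit 5) (nat_lit 358) (nat_lit 341) (nat_lit 321)) (XT.lf (nat_lit 0) (nat_lit 1037900954) (nat_lit 456) (nat_lit 4519569603) (nat_lit 532) (nat_lit 2353242099) (nat_lit 283) (nat_lit 5) (nat_lit 289) (nat_lit 5) (nat_lit 290) (nat_lit 5) (nat_lit 359) (nat_lit 341) (nat_lit 320))))) (XT.nd (nat_lit 312) (nat_lit 1064) (nat_lit 0) (XT.nd (nat_lit 156) (nat_lit 380) (nat_lit 0) (XT.nd (nat_lit 78) (nat_lit 380) (nat_lit 0) (XT.lf (nat_lit 0) (nat_lit 127959928) (nat_lit 532) (nat_lit 1656135216) (nat_lit 76) (nat_lit 6283629803) (nat_lit 282) (nat_lit 5) (nat_lit 289) (nat_lit 5) (nat_lit 283) (nat_lit 5) (nat_lit 360) (nat_lit 341) (nat_lit 319)) (XT.lf (nat_lit 0) (nat_lit 2633545099) (nat_lit 456) (nat_lit 4450963294) (nat_lit 76) (nat_lit 1147180203) (nat_lit 277) (nat_lit 5) (nat_lit 283) (nat_lit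 5) (nat_lit 278) (nat_lit 5) (nat_lit 361) (nat_lit 341) (nat_lit 318))) (XT.nd (nat_lit 78) (nat_lit 0) (nat_lit 0) (XT.lf (nat_lit 0) (nat_lit 1040839471) (nat_lit 380) (nat_lit 4202120704) (nat_lit 456) (nat_lit 3161962719) (nat_lit 272) (nat_lit 5) (nat_lit 277) (nat_lit 5) (nat_lit 278) (nat_lit 5) (nat_lit 362) (nat_lit 341) (nat_lit 317)) (XT.lf (nat_lit 0) (nat_lit 6856244821) (nat_lit 380) (nat_lit 1109423988) (nat_lit 456) (nat_lit 622008958) (nat_lit 272) (nat_lit 5) (nat_lit 277) (nat_lit 5) (nat_lit 278) (nat_lit 5) (nat_lit 363) (nat_lit 341) (nat_lit 316)))) (XT.nd (nat_lit 156) (nat_lit 380) (nat_lit 0) (XT.nd (nat_lit 78) (nat_lit 304) (nat_lit 0) (XT.lf (nat_lit 0) (nat_lit 1989935249) (nat_lit 380) (nat_lit 4632647984) (nat_lit 76) (nat_lit 2154868602) (nat_lit 267) (nat_lit 5) (nat_lit 272) (nat_lit 5) (nat_lit 268) (nat_lit 5) (nat_lit 364) (nat_lit 341) (nat_lit 315)) (XT.lf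 (nat_lit 0) (nat_lit 1306777724) (nat_lit 304) (nat_lit 3386039550) (nat_lit 380) (nat_lit 4284325280) (nat_lit 263) (nat_lit 5) (nat_lit 267) (nat_lit 5) (nat_lit 268) (nat_lit 5) (nat_lit 365) (nat_lit 341) (nat_lit 314))) (XT.nd (nat_lit 78) (nat_lit 380) (nat_lit 0) (XT.lf (nat_lit 0) (nat_lit 7525847122) (nat_lit 380) (nat_lit 1588479633) (nat_lit 76) (nat_lit 72740868) (nat_lit 263) (nat_lit 5) (nat_lit 268) (nat_lit 5) (nat_lit 264) (nat_lit 5) (nat_lit 366) (nat_lit 341) (nat_lit 313)) (XT.lf (nat_lit 0) (nat_lit 1108311035) (nat_lit 380) (nat_lit 4630481994) (nat_lit 76) (nat_lit 3665329865) (nat_lit 258) (nat_lit 5) (nat_lit 263) (nat_lit 5) (nat_lit 259) (nat_lit 5) (nat_lit 367) (nat_lit 341) (nat_lit 312)))))) (XT.nd (nat_lit 624) (nat_lit 1292) (nat_lit 0) (XT.nd (nat_lit 312) (nat_lit 532) (nat_lit 0) (XT.nd (nat_lit 156) (nat_lit 608) (nat_lit 0) (XT.nd (nat_lit 78) (nat_lit 0)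 (nat_lit 0) (XT.lf (nat_lit 0) (nat_lit 1804461300) (nat_lit 304) (nat_lit 2131639831) (nat_lit 380) (nat_lit 5695787648) (nat_lit 254) (nat_lit 5) (nat_lit 258) (nat_lit 5) (nat_lit 259) (nat_lit 5) (nat_lit 368) (nat_lit 341) (nat_lit 311)) (XT.lf (nat_lit 0) (nat_lit 6932757629) (nat_lit 380) (nat_lit 1278121925) (nat_lit 76) (nat_lit 1658789559) (nat_lit 254) (nat_lit 5) (nat_lit 259) (nat_lit 5) (nat_lit 255) (nat_lit 5) (nat_lit 369) (nat_lit 341) (nat_lit 310))) (XT.nd (nat_lit 78) (nat_lit 304) (nat_lit 0) (XT.lf (nat_lit 0) (nat_lit 10684462) (nat_lit 304) (nat_lit 4473478104) (nat_lit 76) (nat_lit 5632732555) (nat_lit 250) (nat_lit 5) (nat_lit 254) (nat_lit 5) (nat_lit 251) (nat_lit 5) (nat_lit 370) (nat_lit 341) (nat_lit 309)) (XT.lf (nat_lit 0) (nat_lit 2510307134) (nat_lit 304) (nat_lit 484291503) (nat_lit 380) (nat_lit 7380094592) (nat_lit 246) (nat_lit 5) (nat_lit 250) (nat_lit 5)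 (nat_lit 251) (nat_lit 5) (nat_lit 371) (nat_lit 341) (nat_lit 308)))) (XT.nd (nat_lit 156) (nat_lit 304) (nat_lit 0) (XT.nd (nat_lit 78) (nat_lit 228) (nat_lit 0) (XT.lf (nat_lit 0) (nat_lit 6190667142) (nat_lit 380) (nat_lit 805299805) (nat_lit 76) (nat_lit 3646266365) (nat_lit 246) (nat_lit 5) (nat_lit 251) (nat_lit 5) (nat_lit 247) (nat_lit 5) (nat_lit 372) (nat_lit 341) (nat_lit 307)) (XT.lf (nat_lit 0) (nat_lit 6715604995) (nat_lit 228) (nat_lit 2875099476) (nat_lit 304) (nat_lit 1330237658) (nat_lit 243) (nat_lit 5) (nat_lit 246) (nat_lit 5) (nat_lit 247) (nat_lit 5) (nat_lit 373) (nat_lit 341) (nat_lit 306))) (XT.nd (nat_lit 78) (nat_lit 0) (nat_lit 0) (XT.lf (nat_lit 0) (nat_lit 1907718224) (nat_lit 304) (nat_lit 7828659049) (nat_lit 76) (nat_lit 1474544976) (nat_lit 239) (nat_lit 5) (nat_lit 243) (nat_lit 5) (nat_lit 240) (nat_lit 5) (nat_lit 374) (nat_lit 341) (nat_lit 305)) (XT.lf (nat_lit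 0) (nat_lit 5315662819) (nat_lit 304) (nat_lit 186741546) (nat_lit 76) (nat_lit 6009266871) (nat_lit 239) (nat_lit 5) (nat_lit 243) (nat_lit 5) (nat_lit 240) (nat_lit 5) (nat_lit 375) (nat_lit 341) (nat_lit 304))))) (XT.nd (nat_lit 312) (nat_lit 608) (nat_lit 0) (XT.nd (nat_lit 156) (nat_lit 152) (nat_lit 0) (XT.nd (nat_lit 78) (nat_lit 304) (nat_lit 0) (XT.lf (nat_lit 0) (nat_lit 7997983915) (nat_lit 228) (nat_lit 957344908) (nat_lit 304) (nat_lit 2869062642) (nat_lit 236) (nat_lit 5) (nat_lit 239) (nat_lit 5) (nat_lit 240) (nat_lit 5) (nat_lit 376) (nat_lit 341) (nat_lit 303)) (XT.lf (nat_lit 0) (nat_lit 674878772) (nat_lit 304) (nat_lit 7728430462) (nat_lit 76) (nat_lit 3745419790) (nat_lit 232) (nat_lit 5) (nat_lit 236) (nat_lit 5) (nat_lit 233) (nat_lit 5) (nat_lit 377) (nat_lit 341) (nat_lit 302))) (XT.nd (nat_lit 78) (nat_lit 0) (nat_lit 0) (XT.lf (nat_lit 0) (nat_lit 584213244) (nat_lit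 152) (nat_lit 3744080115) (nat_lit 228) (nat_lit 8157203639) (nat_lit 230) (nat_lit 5) (nat_lit 232) (nat_lit 5) (nat_lit 233) (nat_lit 5) (nat_lit 378) (nat_lit 341) (nat_lit 301)) (XT.lf (nat_lit 0) (nat_lit 8254271445) (nat_lit 228) (nat_lit 3369584518) (nat_lit 76) (nat_lit 1210752770) (nat_lit 230) (nat_lit 5) (nat_lit 233) (nat_lit 5) (nat_lit 231) (nat_lit 5) (nat_lit 379) (nat_lit 341) (nat_lit 300)))) (XT.nd (nat_lit 156) (nat_lit 152) (nat_lit 0) (XT.nd (nat_lit 78) (nat_lit 228) (nat_lit 0) (XT.lf (nat_lit 0) (nat_lit 5613898952) (nat_lit 228) (nat_lit 6853521479) (nat_lit 304) (nat_lit 729212025) (nat_lit 227) (nat_lit 5) (nat_lit 230) (nat_lit 5) (nat_lit 231) (nat_lit 5) (nat_lit 380) (nat_lit 341) (nat_lit 299)) (XT.lf (nat_lit 0) (nat_lit 1491170040) (nat_lit 152) (nat_lit 1740750803) (nat_lit 228) (nat_lit 10341072360) (nat_lit 224) (nat_lit 5) (nat_lit 226) (nat_lit 5) (nat_lit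 227) (nat_lit 5) (nat_lit 381) (nat_lit 341) (nat_lit 298))) (XT.nd (nat_lit 78) (nat_lit 152) (nat_lit 0) (XT.lf (nat_lit 0) (nat_lit 7496775259) (nat_lit 228) (nat_lit 2844692471) (nat_lit 76) (nat_lit 3619597983) (nat_lit 224) (nat_lit 5) (nat_lit 227) (nat_lit 5) (nat_lit 225) (nat_lit 5) (nat_lit 382) (nat_lit 341) (nat_lit 297)) (XT.lf (nat_lit 0) (nat_lit 6958700607) (nat_lit 152) (nat_lit 5099078106) (nat_lit 228) (nat_lit 2306617819) (nat_lit 222) (nat_lit 5) (nat_lit 224) (nat_lit 5) (nat_lit 225) (nat_lit 5) (nat_lit 383) (nat_lit 341) (nat_lit 296))))))))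
noncomputable def xc133 : XT := (XT.nd (nat_lit 2496) (nat_lit 2432) (nat_lit 0) (XT.nd (nat_lit 1248) (nat_lit 1368) (nat_lit 0) (XT.nd (nat_lit 624) (nat_lit 836) (nat_lit 0) (XT.nd (nat_lit 312) (nat_lit 304) (nat_lit 0) (XT.nd (nat_lit 156) (nat_lit 380) (nat_lit 0) (XT.nd (nat_lit 78) (nat_lit 0) (nat_lit 0) (XT.lf (nat_lit 0) (nat_lit 2035201265) (nat_lit 228) (nat_lit 12269057058) (nat_lit 76) (nat_lit 479920193) (nat_lit 219) (nat_lit 5) (nat_lit 222) (nat_lit 5) (nat_lit 220) (nat_lit 5) (nat_lit 384) (nat_lit 341) (nat_lit 295)) (XT.lf (nat_lit 0) (nat_lit 6674344143) (nat_lit 228) (nat_lit 2243789107) (nat_lit 76) (nat_lit 6297038163) (nat_lit 219) (nat_lit 5) (nat_lit 222) (nat_lit 5) (nat_lit 220) (nat_lit 5) (nat_lit 385) (nat_lit 341) (nat_lit 294))) (XT.nd (nat_lit 78) (nat_lit 228) (nat_lit 0) (XT.lf (nat_lit 0) (nat_lit 8467332316) (nat_lit 152) (nat_lit 3159533288) (nat_lit 228)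 (nat_lit 4036777280) (nat_lit 217) (nat_lit 5) (nat_lit 219) (nat_lit 5) (nat_lit 220) (nat_lit 5) (nat_lit 386) (nat_lit 341) (nat_lit 293)) (XT.lf (nat_lit 0) (nat_lit 762131747) (nat_lit 228) (nat_lit 12499089651) (nat_lit 76) (nat_lit 2868184952) (nat_lit 214) (nat_lit 5) (nat_lit 217) (nat_lit 5) (nat_lit 215) (nat_lit 5) (nat_lit 387) (nat_lit 341) (nat_lit 292)))) (XT.nd (nat_lit 156) (nat_lit 152) (nat_lit 0) (XT.nd (nat_lit 78) (nat_lit 152) (nat_lit 0) (XT.lf (nat_lit 0) (nat_lit 5791002362) (nat_lit 228) (nat_lit 1571426137) (nat_lit 76) (nat_lit 9246436741) (nat_lit 214) (nat_lit 5) (nat_lit 217) (nat_lit 5) (nat_lit 215) (nat_lit 5) (nat_lit 388) (nat_lit 341) (nat_lit 291)) (XT.lf (nat_lit 0) (nat_lit 10144245905) (nat_lit 152) (nat_lit 1037842876) (nat_lit 228) (nat_lit 5924669680) (nat_lit 212) (nat_lit 5) (nat_lit 214) (nat_lit 5) (nat_lit 215) (nat_lit 5) (nat_lit 389) (nat_lit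 341) (nat_lit 290))) (XT.nd (nat_lit 78) (nat_lit 76) (nat_lit 0) (XT.lf (nat_lit 0) (nat_lit 4856054779) (nat_lit 76) (nat_lit 12129854045) (nat_lit 152) (nat_lit 636478554) (nat_lit 211) (nat_lit 5) (nat_lit 212) (nat_lit 5) (nat_lit 213) (nat_lit 4) (nat_lit 390) (nat_lit 341) (nat_lit 289)) (XT.lf (nat_lit 0) (nat_lit 4848677242) (nat_lit 152) (nat_lit 830033218) (nat_lit 76) (nat_lit 12476754471) (nat_lit 210) (nat_lit 5) (nat_lit 212) (nat_lit 5) (nat_lit 211) (nat_lit 5) (nat_lit 391) (nat_lit 341) (nat_lit 288))))) (XT.nd (nat_lit 312) (nat_lit 380) (nat_lit 0) (XT.nd (nat_lit 156) (nat_lit 228) (nat_lit 0) (XT.nd (nat_lit 78) (nat_lit 76) (nat_lit 0) (XT.lf (nat_lit 0) (nat_lit 10749074931) (nat_lit 228) (nat_lit 6730430908) (nat_lit 76) (nat_lit 1227050123) (nat_lit 208) (nat_lit 5) (nat_lit 211) (nat_lit 5) (nat_lit 209) (nat_lit 4) (nat_lit 392) (nat_lit 341) (nat_lit 287)) (XT.lf (nat_lit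 0) (nat_lit 6191675757) (nat_lit 76) (nat_lit 10912509418) (nat_lit 152) (nat_lit 2173031734) (nat_lit 207) (nat_lit 5) (nat_lit 208) (nat_lit 5) (nat_lit 209) (nat_lit 4) (nat_lit 393) (nat_lit 341) (nat_lit 286))) (XT.nd (nat_lit 78) (nat_lit 152) (nat_lit 0) (XT.lf (nat_lit 0) (nat_lit 3847458479) (nat_lit 152) (nat_lit 20178457) (nat_lit 76) (nat_lit 16002145809) (nat_lit 206) (nat_lit 5) (nat_lit 208) (nat_lit 5) (nat_lit 207) (nat_lit 5) (nat_lit 394) (nat_lit 341) (nat_lit 285)) (XT.lf (nat_lit 0) (nat_lit 10331741584) (nat_lit 228) (nat_lit 6504461562) (nat_lit 76) (nat_lit 3642202726) (nat_lit 204) (nat_lit 5) (nat_lit 207) (nat_lit 5) (nat_lit 205) (nat_lit 4) (nat_lit 395) (nat_lit 341) (nat_lit 284)))) (XT.nd (nat_lit 156) (nat_lit 76) (nat_lit 0) (XT.nd (nat_lit 78) (nat_lit 228) (nat_lit 0) (XT.lf (nat_lit 0) (nat_lit 7655928882) (nat_lit 76) (nat_lit 9625807536) (nat_lit 152) (nat_lit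 3828648860) (nat_lit 203) (nat_lit 5) (nat_lit 204) (nat_lit 5) (nat_lit 205) (nat_lit 4) (nat_lit 396) (nat_lit 341) (nat_lit 283)) (XT.lf (nat_lit 0) (nat_lit 887640074) (nat_lit 152) (nat_lit 1912017018) (nat_lit 228) (nat_lit 18967907866) (nat_lit 200) (nat_lit 5) (nat_lit 202) (nat_lit 5) (nat_lit 203) (nat_lit 5) (nat_lit 397) (nat_lit 341) (nat_lit 282))) (XT.nd (nat_lit 78) (nat_lit 76) (nat_lit 0) (XT.lf (nat_lit 0) (nat_lit 9917521786) (nat_lit 228) (nat_lit 6272493194) (nat_lit 76) (nat_lit 6250109849) (nat_lit 200) (nat_lit 5) (nat_lit 203) (nat_lit 5) (nat_lit 201) (nat_lit 4) (nat_lit 398) (nat_lit 341) (nat_lit 281)) (XT.lf (nat_lit 0) (nat_lit 9256784821) (nat_lit 76) (nat_lit 8270948940) (nat_lit 152) (nat_lit 5611756229) (nat_lit 199) (nat_lit 5) (nat_lit 200) (nat_lit 5) (nat_lit 201) (nat_lit 4) (nat_lit 399) (nat_lit 341) (nat_lit 280)))))) (XT.nd (nat_lit 624) (nat_lit 608)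 (nat_lit 0) (XT.nd (nat_lit 312) (nat_lit 228) (nat_lit 0) (XT.nd (nat_lit 156) (nat_lit 304) (nat_lit 0) (XT.nd (nat_lit 78) (nat_lit 0) (nat_lit 0) (XT.lf (nat_lit 0) (nat_lit 1692692428) (nat_lit 228) (nat_lit 21999803100) (nat_lit 76) (nat_lit 175009113) (nat_lit 196) (nat_lit 5) (nat_lit 199) (nat_lit 5) (nat_lit 197) (nat_lit 4) (nat_lit 400) (nat_lit 341) (nat_lit 279)) (XT.lf (nat_lit 0) (nat_lit 9509238685) (nat_lit 228) (nat_lit 6037782882) (nat_lit 76) (nat_lit 9063525309) (nat_lit 196) (nat_lit 5) (nat_lit 199) (nat_lit 5) (nat_lit 197) (nat_lit 4) (nat_lit 401) (nat_lit 341) (nat_lit 278))) (XT.nd (nat_lit 78) (nat_lit 228) (nat_lit 0) (XT.lf (nat_lit 0) (nat_lit 11004273792) (nat_lit 76) (nat_lit 6846920348) (nat_lit 152) (nat_lit 7532817990) (nat_lit 195) (nat_lit 5) (nat_lit 196) (nat_lit 5) (nat_lit 197) (nat_lit 4) (nat_lit 402) (nat_lit 341) (nat_lit 277)) (XT.lf (nat_lit 0)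 (nat_lit 551189552) (nat_lit 228) (nat_lit 23295603288) (nat_lit 76) (nat_lit 2341517219) (nat_lit 192) (nat_lit 5) (nat_lit 195) (nat_lit 5) (nat_lit 193) (nat_lit 4) (nat_lit 403) (nat_lit 341) (nat_lit 276)))) (XT.nd (nat_lit 156) (nat_lit 152) (nat_lit 0) (XT.nd (nat_lit 78) (nat_lit 76) (nat_lit 0) (XT.lf (nat_lit 0) (nat_lit 9109054169) (nat_lit 228) (nat_lit 5802905785) (nat_lit 76) (nat_lit 12098548051) (nat_lit 192) (nat_lit 5) (nat_lit 195) (nat_lit 5) (nat_lit 193) (nat_lit 4) (nat_lit 404) (nat_lit 341) (nat_lit 275)) (XT.lf (nat_lit 0) (nat_lit 12910461217) (nat_lit 76) (nat_lit 5350723179) (nat_lit 152) (nat_lit 9604312833) (nat_lit 191) (nat_lit 5) (nat_lit 192) (nat_lit 5) (nat_lit 193) (nat_lit 4) (nat_lit 405) (nat_lit 341) (nat_lit 274))) (XT.nd (nat_lit 78) (nat_lit 76) (nat_lit 0) (XT.lf (nat_lit 0) (nat_lit 3988138362) (nat_lit 76) (nat_lit 24083092108) (nat_lit 76) (nat_lit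 681989978) (nat_lit 190) (nat_lit 4) (nat_lit 191) (nat_lit 5) (nat_lit 191) (nat_lit 4) (nat_lit 406) (nat_lit 341) (nat_lit 273)) (XT.lf (nat_lit 0) (nat_lit 8718593759) (nat_lit 152) (nat_lit 5569881013) (nat_lit 76) (nat_lit 15374565797) (nat_lit 189) (nat_lit 5) (nat_lit 191) (nat_lit 5) (nat_lit 190) (nat_lit 4) (nat_lit 407) (nat_lit 341) (nat_lit 272))))) (XT.nd (nat_lit 312) (nat_lit 304) (nat_lit 0) (XT.nd (nat_lit 156) (nat_lit 152) (nat_lit 0) (XT.nd (nat_lit 78) (nat_lit 76) (nat_lit 0) (XT.lf (nat_lit 0) (nat_lit 14989463346) (nat_lit 76) (nat_lit 3777542803) (nat_lit 152) (nat_lit 11840750599) (nat_lit 188) (nat_lit 5) (nat_lit 189) (nat_lit 5) (nat_lit 190) (nat_lit 4) (nat_lit 408) (nat_lit 341) (nat_lit 271)) (XT.lf (nat_lit 0) (nat_lit 5161148895) (nat_lit 76) (nat_lit 24413293529) (nat_lit 76) (nat_lit 2012436148) (nat_lit 187) (nat_lit 4) (nat_lit 188) (nat_lit 5) (nat_lit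 188) (nat_lit 4) (nat_lit 409) (nat_lit 341) (nat_lit 270))) (XT.nd (nat_lit 78) (nat_lit 76) (nat_lit 0) (XT.lf (nat_lit 0) (nat_lit 8339048997) (nat_lit 152) (nat_lit 5340274953) (nat_lit 76) (nat_lit 18914265518) (nat_lit 186) (nat_lit 5) (nat_lit 188) (nat_lit 5) (nat_lit 187) (nat_lit 4) (nat_lit 410) (nat_lit 341) (nat_lit 269)) (XT.lf (nat_lit 0) (nat_lit 17257499385) (nat_lit 76) (nat_lit 2120867184) (nat_lit 152) (nat_lit 14258725341) (nat_lit 185) (nat_lit 5) (nat_lit 186) (nat_lit 5) (nat_lit 187) (nat_lit 4) (nat_lit 411) (nat_lit 341) (nat_lit 268)))) (XT.nd (nat_lit 156) (nat_lit 152) (nat_lit 0) (XT.nd (nat_lit 78) (nat_lit 76) (nat_lit 0) (XT.lf (nat_lit 0) (nat_lit 6428813927) (nat_lit 76) (nat_lit 24858054732) (nat_lit 76) (nat_lit 3430039883) (nat_lit 184) (nat_lit 4) (nat_lit 185) (nat_lit 5) (nat_lit 185) (nat_lit 4) (nat_lit 412) (nat_lit 341) (nat_lit 267)) (XT.lf (nat_lit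 0) (nat_lit 7971261328) (nat_lit 152) (nat_lit 5115286048) (nat_lit 76) (nat_lit 22743704603) (nat_lit 183) (nat_lit 5) (nat_lit 185) (nat_lit 5) (nat_lit 184) (nat_lit 4) (nat_lit 413) (nat_lit 341) (nat_lit 266))) (XT.nd (nat_lit 78) (nat_lit 76) (nat_lit 0) (XT.lf (nat_lit 0) (nat_lit 19732977652) (nat_lit 76) (nat_lit 372561868) (nat_lit 152) (nat_lit 16877002372) (nat_lit 182) (nat_lit 5) (nat_lit 183) (nat_lit 5) (nat_lit 184) (nat_lit 4) (nat_lit 414) (nat_lit 341) (nat_lit 265)) (XT.lf (nat_lit 0) (nat_lit 7800136540) (nat_lit 76) (nat_lit 25429017386) (nat_lit 76) (nat_lit 4944161260) (nat_lit 181) (nat_lit 4) (nat_lit 182) (nat_lit 5) (nat_lit 182) (nat_lit 4) (nat_lit 415) (nat_lit 341) (nat_lit 264))))))) (XT.nd (nat_lit 1248) (nat_lit 1216) (nat_lit 0) (XT.nd (nat_lit 624) (nat_lit 608) (nat_lit 0) (XT.nd (nat_lit 312) (nat_lit 304) (nat_lit 0) (XT.nd (nat_lit 156) (nat_lit 152) (nat_lit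 0) (XT.nd (nat_lit 78) (nat_lit 76) (nat_lit 0) (XT.lf (nat_lit 0) (nat_lit 7615790785) (nat_lit 152) (nat_lit 4895814327) (nat_lit 76) (nat_lit 26892438299) (nat_lit 180) (nat_lit 5) (nat_lit 182) (nat_lit 5) (nat_lit 181) (nat_lit 4) (nat_lit 416) (nat_lit 341) (nat_lit 263)) (XT.lf (nat_lit 0) (nat_lit 20982582516) (nat_lit 152) (nat_lit 18262606059) (nat_lit 0) (nat_lit 1429816965) (nat_lit 179) (nat_lit 5) (nat_lit 181) (nat_lit 4) (nat_lit 179) (nat_lit 4) (nat_lit 417) (nat_lit 341) (nat_lit 262))) (XT.nd (nat_lit 78) (nat_lit 76) (nat_lit 0) (XT.lf (nat_lit 0) (nat_lit 9285415807) (nat_lit 76) (nat_lit 26138357637) (nat_lit 76) (nat_lit 6565439350) (nat_lit 178) (nat_lit 4) (nat_lit 179) (nat_lit 5) (nat_lit 179) (nat_lit 4) (nat_lit 418) (nat_lit 341) (nat_lit 261)) (XT.lf (nat_lit 0) (nat_lit 7272972176) (nat_lit 152) (nat_lit 4682518407) (nat_lit 76) (nat_lit 31393700434) (nat_lit 177)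 (nat_lit 5) (nat_lit 179) (nat_lit 5) (nat_lit 178) (nat_lit 4) (nat_lit 419) (nat_lit 341) (nat_lit 260)))) (XT.nd (nat_lit 156) (nat_lit 152) (nat_lit 0) (XT.nd (nat_lit 78) (nat_lit 76) (nat_lit 0) (XT.lf (nat_lit 0) (nat_lit 22005880627) (nat_lit 152) (nat_lit 19415426858) (nat_lit 0) (nat_lit 3329318250) (nat_lit 176) (nat_lit 5) (nat_lit 178) (nat_lit 4) (nat_lit 176) (nat_lit 4) (nat_lit 420) (nat_lit 341) (nat_lit 259)) (XT.lf (nat_lit 0) (nat_lit 10896301598) (nat_lit 76) (nat_lit 26998989912) (nat_lit 76) (nat_lit 8305847829) (nat_lit 175) (nat_lit 4) (nat_lit 176) (nat_lit 5) (nat_lit 176) (nat_lit 4) (nat_lit 421) (nat_lit 341) (nat_lit 258))) (XT.nd (nat_lit 78) (nat_lit 76) (nat_lit 0) (XT.lf (nat_lit 0) (nat_lit 6942961018) (nat_lit 152) (nat_lit 4475862191) (nat_lit 76) (nat_lit 36284635664) (nat_lit 174) (nat_lit 5) (nat_lit 176) (nat_lit 5) (nat_lit 175) (nat_lit 4) (nat_lit 422)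 (nat_lit 341) (nat_lit 257)) (XT.lf (nat_lit 0) (nat_lit 23182718696) (nat_lit 152) (nat_lit 20715619868) (nat_lit 0) (nat_lit 5350365780) (nat_lit 173) (nat_lit 5) (nat_lit 175) (nat_lit 4) (nat_lit 173) (nat_lit 4) (nat_lit 423) (nat_lit 341) (nat_lit 256))))) (XT.nd (nat_lit 312) (nat_lit 304) (nat_lit 0) (XT.nd (nat_lit 156) (nat_lit 152) (nat_lit 0) (XT.nd (nat_lit 78) (nat_lit 76) (nat_lit 0) (XT.lf (nat_lit 0) (nat_lit 12645869408) (nat_lit 76) (nat_lit 28024763661) (nat_lit 76) (nat_lit 10178770580) (nat_lit 172) (nat_lit 4) (nat_lit 173) (nat_lit 5) (nat_lit 173) (nat_lit 4) (nat_lit 424) (nat_lit 341) (nat_lit 255)) (XT.lf (nat_lit 0) (nat_lit 6625771031) (nat_lit 152) (nat_lit 4276153100) (nat_lit 76) (nat_lit 41606582629) (nat_lit 171) (nat_lit 5) (nat_lit 173) (nat_lit 5) (nat_lit 172) (nat_lit 4) (nat_lit 425) (nat_lit 341) (nat_lit 254))) (XT.nd (nat_lit 78) (nat_lit 76) (nat_lit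 0) (XT.lf (nat_lit 0) (nat_lit 24527410433) (nat_lit 152) (nat_lit 22177792502) (nat_lit 0) (nat_lit 7507071628) (nat_lit 170) (nat_lit 5) (nat_lit 172) (nat_lit 4) (nat_lit 170) (nat_lit 4) (nat_lit 426) (nat_lit 341) (nat_lit 253)) (XT.lf (nat_lit 0) (nat_lit 14548714669) (nat_lit 76) (nat_lit 29230657341) (nat_lit 76) (nat_lit 12199096738) (nat_lit 169) (nat_lit 4) (nat_lit 170) (nat_lit 5) (nat_lit 170) (nat_lit 4) (nat_lit 427) (nat_lit 341) (nat_lit 252)))) (XT.nd (nat_lit 156) (nat_lit 152) (nat_lit 0) (XT.nd (nat_lit 78) (nat_lit 76) (nat_lit 0) (XT.lf (nat_lit 0) (nat_lit 6321304718) (nat_lit 152) (nat_lit 4083573356) (nat_lit 76) (nat_lit 47405408332) (nat_lit 168) (nat_lit 5) (nat_lit 170) (nat_lit 5) (nat_lit 169) (nat_lit 4) (nat_lit 428) (nat_lit 341) (nat_lit 251)) (XT.lf (nat_lit 0) (nat_lit 26055646262) (nat_lit 152) (nat_lit 23817914900) (nat_lit 0) (nat_lit 9815240043) (nat_lit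 167) (nat_lit 5) (nat_lit 169) (nat_lit 4) (nat_lit 167) (nat_lit 4) (nat_lit 429) (nat_lit 341) (nat_lit 250))) (XT.nd (nat_lit 78) (nat_lit 76) (nat_lit 0) (XT.lf (nat_lit 0) (nat_lit 16621066432) (nat_lit 76) (nat_lit 30632973490) (nat_lit 76) (nat_lit 14383335070) (nat_lit 166) (nat_lit 4) (nat_lit 167) (nat_lit 5) (nat_lit 167) (nat_lit 4) (nat_lit 430) (nat_lit 341) (nat_lit 249)) (XT.lf (nat_lit 0) (nat_lit 6029378268) (nat_lit 152) (nat_lit 3898205542) (nat_lit 76) (nat_lit 53731895021) (nat_lit 165) (nat_lit 5) (nat_lit 167) (nat_lit 5) (nat_lit 166) (nat_lit 4) (nat_lit 431) (nat_lit 341) (nat_lit 248)))))) (XT.nd (nat_lit 624) (nat_lit 608) (nat_lit 0) (XT.nd (nat_lit 312) (nat_lit 304) (nat_lit 0) (XT.nd (nat_lit 156) (nat_lit 152) (nat_lit 0) (XT.nd (nat_lit 78) (nat_lit 76) (nat_lit 0) (XT.lf (nat_lit 0) (nat_lit 27784666796) (nat_lit 152) (nat_lit 25653494070) (nat_lit 0) (nat_lit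 12292471681) (nat_lit 164) (nat_lit 5) (nat_lit 166) (nat_lit 4) (nat_lit 164) (nat_lit 4) (nat_lit 432) (nat_lit 341) (nat_lit 247)) (XT.lf (nat_lit 0) (nat_lit 18880920656) (nat_lit 76) (nat_lit 32249538399) (nat_lit 76) (nat_lit 16749747930) (nat_lit 163) (nat_lit 4) (nat_lit 164) (nat_lit 5) (nat_lit 164) (nat_lit 4) (nat_lit 433) (nat_lit 341) (nat_lit 246))) (XT.nd (nat_lit 78) (nat_lit 76) (nat_lit 0) (XT.lf (nat_lit 0) (nat_lit 5749741787) (nat_lit 152) (nat_lit 3720053476) (nat_lit 76) (nat_lit 60642181639) (nat_lit 162) (nat_lit 5) (nat_lit 164) (nat_lit 5) (nat_lit 163) (nat_lit 4) (nat_lit 434) (nat_lit 341) (nat_lit 245)) (XT.lf (nat_lit 0) (nat_lit 29733447583) (nat_lit 152) (nat_lit 27703759272) (nat_lit 0) (nat_lit 14958292011) (nat_lit 161) (nat_lit 5) (nat_lit 163) (nat_lit 4) (nat_lit 161) (nat_lit 4) (nat_lit 435) (nat_lit 341) (nat_lit 244)))) (XT.nd (nat_lit 156) (nat_lit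 152) (nat_lit 0) (XT.nd (nat_lit 78) (nat_lit 76) (nat_lit 0) (XT.lf (nat_lit 0) (nat_lit 21348193676) (nat_lit 76) (nat_lit 34099909653) (nat_lit 76) (nat_lit 19318505365) (nat_lit 160) (nat_lit 4) (nat_lit 161) (nat_lit 5) (nat_lit 161) (nat_lit 4) (nat_lit 436) (nat_lit 341) (nat_lit 243)) (XT.lf (nat_lit 0) (nat_lit 5482095716) (nat_lit 152) (nat_lit 3549059229) (nat_lit 76) (nat_lit 68198262752) (nat_lit 159) (nat_lit 5) (nat_lit 161) (nat_lit 5) (nat_lit 160) (nat_lit 4) (nat_lit 437) (nat_lit 341) (nat_lit 242))) (XT.nd (nat_lit 78) (nat_lit 76) (nat_lit 0) (XT.lf (nat_lit 0) (nat_lit 31922897461) (nat_lit 152) (nat_lit 29989860975) (nat_lit 0) (nat_lit 17834303920) (nat_lit 158) (nat_lit 5) (nat_lit 160) (nat_lit 4) (nat_lit 158) (nat_lit 4) (nat_lit 438) (nat_lit 341) (nat_lit 241)) (XT.lf (nat_lit 0) (nat_lit 24044896747) (nat_lit 76) (nat_lit 36205594636) (nat_lit 76) (nat_lit 22111860261)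 (nat_lit 157) (nat_lit 4) (nat_lit 158) (nat_lit 5) (nat_lit 158) (nat_lit 4) (nat_lit 439) (nat_lit 341) (nat_lit 240))))) (XT.nd (nat_lit 312) (nat_lit 304) (nat_lit 0) (XT.nd (nat_lit 156) (nat_lit 152) (nat_lit 0) (XT.nd (nat_lit 78) (nat_lit 76) (nat_lit 0) (XT.lf (nat_lit 0) (nat_lit 5226104111) (nat_lit 152) (nat_lit 3385116981) (nat_lit 76) (nat_lit 76468548604) (nat_lit 156) (nat_lit 5) (nat_lit 158) (nat_lit 5) (nat_lit 157) (nat_lit 4) (nat_lit 440) (nat_lit 341) (nat_lit 239)) (XT.lf (nat_lit 0) (nat_lit 34376072907) (nat_lit 152) (nat_lit 32535085777) (nat_lit 0) (nat_lit 20944365005) (nat_lit 155) (nat_lit 5) (nat_lit 157) (nat_lit 4) (nat_lit 155) (nat_lit 4) (nat_lit 441) (nat_lit 341) (nat_lit 238))) (XT.nd (nat_lit 78) (nat_lit 76) (nat_lit 0) (XT.lf (nat_lit 0) (nat_lit 26995332858) (nat_lit 76) (nat_lit 38590283008) (nat_lit 76) (nat_lit 25154345728) (nat_lit 154) (nat_lit 4)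 (nat_lit 155) (nat_lit 5) (nat_lit 155) (nat_lit 4) (nat_lit 442) (nat_lit 341) (nat_lit 237)) (XT.lf (nat_lit 0) (nat_lit 4981405355) (nat_lit 152) (nat_lit 3228084279) (nat_lit 76) (nat_lit 85528490761) (nat_lit 153) (nat_lit 5) (nat_lit 155) (nat_lit 5) (nat_lit 154) (nat_lit 4) (nat_lit 443) (nat_lit 341) (nat_lit 236)))) (XT.nd (nat_lit 156) (nat_lit 152) (nat_lit 0) (XT.nd (nat_lit 78) (nat_lit 76) (nat_lit 0) (XT.lf (nat_lit 0) (nat_lit 37118410805) (nat_lit 152) (nat_lit 35365089729) (nat_lit 0) (nat_lit 24314790397) (nat_lit 152) (nat_lit 5) (nat_lit 154) (nat_lit 4) (nat_lit 152) (nat_lit 4) (nat_lit 444) (nat_lit 341) (nat_lit 235)) (XT.lf (nat_lit 0) (nat_lit 30226317290) (nat_lit 76) (nat_lit 41280096142) (nat_lit 76) (nat_lit 28472996214) (nat_lit 151) (nat_lit 4) (nat_lit 152) (nat_lit 5) (nat_lit 152) (nat_lit 4) (nat_lit 445) (nat_lit 341) (nat_lit 234))) (XT.nd (nat_lit 78) (nat_lit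 76) (nat_lit 0) (XT.lf (nat_lit 0) (nat_lit 4747620771) (nat_lit 152) (nat_lit 3077791174) (nat_lit 76) (nat_lit 95461278548) (nat_lit 150) (nat_lit 5) (nat_lit 152) (nat_lit 5) (nat_lit 151) (nat_lit 4) (nat_lit 446) (nat_lit 341) (nat_lit 233)) (XT.lf (nat_lit 0) (nat_lit 40177982200) (nat_lit 152) (nat_lit 38508152604) (nat_lit 0) (nat_lit 27974582408) (nat_lit 149) (nat_lit 5) (nat_lit 151) (nat_lit 4) (nat_lit 149) (nat_lit 4) (nat_lit 447) (nat_lit 341) (nat_lit 232))))))))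
noncomputable def xc134 : XT := (XT.nd (nat_lit 2496) (nat_lit 1064) (nat_lit 0) (XT.nd (nat_lit 1248) (nat_lit 1216) (nat_lit 0) (XT.nd (nat_lit 624) (nat_lit 608) (nat_lit 0) (XT.nd (nat_lit 312) (nat_lit 304) (nat_lit 0) (XT.nd (nat_lit 156) (nat_lit 152) (nat_lit 0) (XT.nd (nat_lit 78) (nat_lit 76) (nat_lit 0) (XT.lf (nat_lit 0) (nat_lit 33767423710) (nat_lit 76) (nat_lit 44303856516) (nat_lit 76) (nat_lit 32097594114) (nat_lit 148) (nat_lit 4) (nat_lit 149) (nat_lit 5) (nat_lit 149) (nat_lit 4) (nat_lit 448) (nat_lit 341) (nat_lit 231)) (XT.lf (nat_lit 0) (nat_lit 4524361507) (nat_lit 152) (nat_lit 2934047606) (nat_lit 76) (nat_lit 106358612319) (nat_lit 147) (nat_lit 5) (nat_lit 149) (nat_lit 5) (nat_lit 148) (nat_lit 4) (nat_lit 449) (nat_lit 341) (nat_lit 230))) (XT.nd (nat_lit 78) (nat_lit 76) (nat_lit 0) (XT.lf (nat_lit 0) (nat_lit 43585769722) (nat_lit 152) (nat_lit 41995455820) (nat_lit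 0) (nat_lit 31955688610) (nat_lit 146) (nat_lit 5) (nat_lit 148) (nat_lit 4) (nat_lit 146) (nat_lit 4) (nat_lit 450) (nat_lit 341) (nat_lit 229)) (XT.lf (nat_lit 0) (nat_lit 37651257880) (nat_lit 76) (nat_lit 47693380165) (nat_lit 76) (nat_lit 36060943979) (nat_lit 145) (nat_lit 4) (nat_lit 146) (nat_lit 5) (nat_lit 146) (nat_lit 4) (nat_lit 451) (nat_lit 341) (nat_lit 228)))) (XT.nd (nat_lit 156) (nat_lit 152) (nat_lit 0) (XT.nd (nat_lit 78) (nat_lit 76) (nat_lit 0) (XT.lf (nat_lit 0) (nat_lit 4311234027) (nat_lit 152) (nat_lit 2796649359) (nat_lit 76) (nat_lit 118321560415) (nat_lit 144) (nat_lit 5) (nat_lit 146) (nat_lit 5) (nat_lit 145) (nat_lit 4) (nat_lit 452) (nat_lit 341) (nat_lit 227)) (XT.lf (nat_lit 0) (nat_lit 47375971542) (nat_lit 152) (nat_lit 45861386874) (nat_lit 0) (nat_lit 36293290362) (nat_lit 143) (nat_lit 5) (nat_lit 145) (nat_lit 4) (nat_lit 143) (nat_lit 4) (nat_lit 453)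 (nat_lit 341) (nat_lit 226))) (XT.nd (nat_lit 78) (nat_lit 76) (nat_lit 0) (XT.lf (nat_lit 0) (nat_lit 41913761363) (nat_lit 76) (nat_lit 51483795402) (nat_lit 76) (nat_lit 40399176696) (nat_lit 142) (nat_lit 4) (nat_lit 143) (nat_lit 5) (nat_lit 143) (nat_lit 4) (nat_lit 454) (nat_lit 341) (nat_lit 225)) (XT.lf (nat_lit 0) (nat_lit 4107844445) (nat_lit 152) (nat_lit 2665382856) (nat_lit 76) (nat_lit 131461507564) (nat_lit 141) (nat_lit 5) (nat_lit 143) (nat_lit 5) (nat_lit 142) (nat_lit 4) (nat_lit 455) (nat_lit 341) (nat_lit 224))))) (XT.nd (nat_lit 312) (nat_lit 304) (nat_lit 0) (XT.nd (nat_lit 156) (nat_lit 152) (nat_lit 0) (XT.nd (nat_lit 78) (nat_lit 76) (nat_lit 0) (XT.lf (nat_lit 0) (nat_lit 51586334964) (nat_lit 152) (nat_lit 50143873376) (nat_lit 0) (nat_lit 41026124141) (nat_lit 140) (nat_lit 5) (nat_lit 142) (nat_lit 4) (nat_lit 140) (nat_lit 4) (nat_lit 456) (nat_lit 341) (nat_lit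 223)) (XT.lf (nat_lit 0) (nat_lit 46594547956) (nat_lit 76) (nat_lit 55713891198) (nat_lit 76) (nat_lit 45152086367) (nat_lit 139) (nat_lit 4) (nat_lit 140) (nat_lit 5) (nat_lit 140) (nat_lit 4) (nat_lit 457) (nat_lit 341) (nat_lit 222))) (XT.nd (nat_lit 78) (nat_lit 76) (nat_lit 0) (XT.lf (nat_lit 0) (nat_lit 3913801926) (nat_lit 152) (nat_lit 2540028984) (nat_lit 76) (nat_lit 145901203413) (nat_lit 138) (nat_lit 5) (nat_lit 140) (nat_lit 5) (nat_lit 139) (nat_lit 4) (nat_lit 458) (nat_lit 341) (nat_lit 221)) (XT.lf (nat_lit 0) (nat_lit 56258522964) (nat_lit 152) (nat_lit 54884750023) (nat_lit 0) (nat_lit 46196838445) (nat_lit 137) (nat_lit 5) (nat_lit 139) (nat_lit 4) (nat_lit 137) (nat_lit 4) (nat_lit 459) (nat_lit 341) (nat_lit 220)))) (XT.nd (nat_lit 156) (nat_lit 152) (nat_lit 0) (XT.nd (nat_lit 78) (nat_lit 76) (nat_lit 0) (XT.lf (nat_lit 0) (nat_lit 51737275878) (nat_lit 76) (nat_lit 60426498850)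 (nat_lit 76) (nat_lit 50363502936) (nat_lit 136) (nat_lit 4) (nat_lit 137) (nat_lit 5) (nat_lit 137) (nat_lit 4) (nat_lit 460) (nat_lit 341) (nat_lit 219)) (XT.lf (nat_lit 0) (nat_lit 3728721325) (nat_lit 152) (nat_lit 2420366143) (nat_lit 76) (nat_lit 161775920904) (nat_lit 135) (nat_lit 5) (nat_lit 137) (nat_lit 5) (nat_lit 136) (nat_lit 4) (nat_lit 461) (nat_lit 341) (nat_lit 218))) (XT.nd (nat_lit 78) (nat_lit 76) (nat_lit 0) (XT.lf (nat_lit 0) (nat_lit 61438517318) (nat_lit 152) (nat_lit 60130162135) (nat_lit 0) (nat_lit 51852389380) (nat_lit 134) (nat_lit 5) (nat_lit 136) (nat_lit 4) (nat_lit 134) (nat_lit 4) (nat_lit 462) (nat_lit 341) (nat_lit 217)) (XT.lf (nat_lit 0) (nat_lit 57390059171) (nat_lit 76) (nat_lit 65668910813) (nat_lit 76) (nat_lit 56081703989) (nat_lit 133) (nat_lit 4) (nat_lit 134) (nat_lit 5) (nat_lit 134) (nat_lit 4) (nat_lit 463) (nat_lit 341) (nat_lit 216)))))) (XT.nd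 (nat_lit 624) (nat_lit 608) (nat_lit 0) (XT.nd (nat_lit 312) (nat_lit 304) (nat_lit 0) (XT.nd (nat_lit 156) (nat_lit 152) (nat_lit 0) (XT.nd (nat_lit 78) (nat_lit 76) (nat_lit 0) (XT.lf (nat_lit 0) (nat_lit 3552225210) (nat_lit 152) (nat_lit 2306172655) (nat_lit 76) (nat_lit 179234735289) (nat_lit 132) (nat_lit 5) (nat_lit 134) (nat_lit 5) (nat_lit 133) (nat_lit 4) (nat_lit 464) (nat_lit 341) (nat_lit 215)) (XT.lf (nat_lit 0) (nat_lit 67177062250) (nat_lit 152) (nat_lit 65931009696) (nat_lit 0) (nat_lit 58044478518) (nat_lit 131) (nat_lit 5) (nat_lit 133) (nat_lit 4) (nat_lit 131) (nat_lit 4) (nat_lit 465) (nat_lit 341) (nat_lit 214))) (XT.nd (nat_lit 78) (nat_lit 76) (nat_lit 0) (XT.lf (nat_lit 0) (nat_lit 63605922107) (nat_lit 76) (nat_lit 71493340888) (nat_lit 76) (nat_lit 62359869552) (nat_lit 130) (nat_lit 4) (nat_lit 131) (nat_lit 5) (nat_lit 131) (nat_lit 4) (nat_lit 466) (nat_lit 341) (nat_lit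 213)) (XT.lf (nat_lit 0) (nat_lit 3383945373) (nat_lit 152) (nat_lit 2197228655) (nat_lit 76) (nat_lit 198441935773) (nat_lit 129) (nat_lit 5) (nat_lit 131) (nat_lit 5) (nat_lit 130) (nat_lit 4) (nat_lit 467) (nat_lit 341) (nat_lit 212)))) (XT.nd (nat_lit 156) (nat_lit 152) (nat_lit 0) (XT.nd (nat_lit 78) (nat_lit 76) (nat_lit 0) (XT.lf (nat_lit 0) (nat_lit 73530152941) (nat_lit 152) (nat_lit 72343436223) (nat_lit 0) (nat_lit 64830036985) (nat_lit 128) (nat_lit 5) (nat_lit 130) (nat_lit 4) (nat_lit 128) (nat_lit 4) (nat_lit 468) (nat_lit 341) (nat_lit 211)) (XT.lf (nat_lit 0) (nat_lit 70443300849) (nat_lit 76) (nat_lit 77957430320) (nat_lit 76) (nat_lit 69256584131) (nat_lit 127) (nat_lit 4) (nat_lit 128) (nat_lit 5) (nat_lit 128) (nat_lit 4) (nat_lit 469) (nat_lit 341) (nat_lit 210))) (XT.nd (nat_lit 78) (nat_lit 76) (nat_lit 0) (XT.lf (nat_lit 0) (nat_lit 3223523950) (nat_lit 152) (nat_lit 2093317551)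 (nat_lit 76) (nat_lit 219578583087) (nat_lit 126) (nat_lit 5) (nat_lit 128) (nat_lit 5) (nat_lit 127) (nat_lit 4) (nat_lit 470) (nat_lit 341) (nat_lit 209)) (XT.lf (nat_lit 0) (nat_lit 80559573599) (nat_lit 152) (nat_lit 79429367200) (nat_lit 0) (nat_lit 72271760272) (nat_lit 125) (nat_lit 5) (nat_lit 127) (nat_lit 4) (nat_lit 125) (nat_lit 4) (nat_lit 471) (nat_lit 341) (nat_lit 208))))) (XT.nd (nat_lit 312) (nat_lit 304) (nat_lit 0) (XT.nd (nat_lit 156) (nat_lit 152) (nat_lit 0) (XT.nd (nat_lit 78) (nat_lit 76) (nat_lit 0) (XT.lf (nat_lit 0) (nat_lit 77966597092) (nat_lit 76) (nat_lit 85124804785) (nat_lit 76) (nat_lit 76836390694) (nat_lit 124) (nat_lit 4) (nat_lit 125) (nat_lit 5) (nat_lit 125) (nat_lit 4) (nat_lit 472) (nat_lit 341) (nat_lit 207)) (XT.lf (nat_lit 0) (nat_lit 3070614195) (nat_lit 152) (nat_lit 1994227148) (nat_lit 76) (nat_lit 242844227686) (nat_lit 123) (nat_lit 5) (nat_lit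 125) (nat_lit 5) (nat_lit 124) (nat_lit 4) (nat_lit 473) (nat_lit 341) (nat_lit 206))) (XT.nd (nat_lit 78) (nat_lit 76) (nat_lit 0) (XT.lf (nat_lit 0) (nat_lit 88333490303) (nat_lit 152) (nat_lit 87257103257) (nat_lit 0) (nat_lit 80438698723) (nat_lit 122) (nat_lit 5) (nat_lit 124) (nat_lit 4) (nat_lit 122) (nat_lit 4) (nat_lit 474) (nat_lit 341) (nat_lit 205)) (XT.lf (nat_lit 0) (nat_lit 86246788882) (nat_lit 76) (nat_lit 93065687667) (nat_lit 76) (nat_lit 85170401835) (nat_lit 121) (nat_lit 4) (nat_lit 122) (nat_lit 5) (nat_lit 122) (nat_lit 4) (nat_lit 475) (nat_lit 341) (nat_lit 204)))) (XT.nd (nat_lit 156) (nat_lit 152) (nat_lit 0) (XT.nd (nat_lit 78) (nat_lit 76) (nat_lit 0) (XT.lf (nat_lit 0) (nat_lit 2924881005) (nat_lit 152) (nat_lit 1899750485) (nat_lit 76) (nat_lit 268458804836) (nat_lit 120) (nat_lit 5) (nat_lit 122) (nat_lit 5) (nat_lit 121) (nat_lit 4) (nat_lit 476) (nat_lit 341)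 (nat_lit 203)) (XT.lf (nat_lit 0) (nat_lit 96927104319) (nat_lit 152) (nat_lit 95901973798) (nat_lit 0) (nat_lit 89406909227) (nat_lit 119) (nat_lit 5) (nat_lit 121) (nat_lit 4) (nat_lit 119) (nat_lit 4) (nat_lit 477) (nat_lit 341) (nat_lit 202))) (XT.nd (nat_lit 78) (nat_lit 76) (nat_lit 0) (XT.lf (nat_lit 0) (nat_lit 95362104393) (nat_lit 76) (nat_lit 101857575586) (nat_lit 76) (nat_lit 94336973873) (nat_lit 118) (nat_lit 4) (nat_lit 119) (nat_lit 5) (nat_lit 119) (nat_lit 4) (nat_lit 478) (nat_lit 341) (nat_lit 201)) (XT.lf (nat_lit 0) (nat_lit 2786001230) (nat_lit 152) (nat_lit 1809686449) (nat_lit 76) (nat_lit 296664724554) (nat_lit 117) (nat_lit 5) (nat_lit 119) (nat_lit 5) (nat_lit 118) (nat_lit 4) (nat_lit 479) (nat_lit 341) (nat_lit 200))))))) (XT.nd (nat_lit 42510) (nat_lit 0) (nat_lit 14136) (XT.nd (nat_lit 624) (nat_lit 456) (nat_lit 0) (XT.nd (nat_lit 312) (nat_lit 304) (nat_lit 0)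 (XT.nd (nat_lit 156) (nat_lit 152) (nat_lit 0) (XT.nd (nat_lit 78) (nat_lit 76) (nat_lit 0) (XT.lf (nat_lit 0) (nat_lit 106423372140) (nat_lit 152) (nat_lit 105447057359) (nat_lit 0) (nat_lit 99260174246) (nat_lit 116) (nat_lit 5) (nat_lit 118) (nat_lit 4) (nat_lit 116) (nat_lit 4) (nat_lit 480) (nat_lit 341) (nat_lit 199)) (XT.lf (nat_lit 0) (nat_lit 105398765055) (nat_lit 76) (nat_lit 111585982696) (nat_lit 76) (nat_lit 104422450274) (nat_lit 115) (nat_lit 4) (nat_lit 116) (nat_lit 5) (nat_lit 116) (nat_lit 4) (nat_lit 481) (nat_lit 341) (nat_lit 198))) (XT.nd (nat_lit 78) (nat_lit 76) (nat_lit 0) (XT.lf (nat_lit 0) (nat_lit 2653663810) (nat_lit 152) (nat_lit 1723840209) (nat_lit 76) (nat_lit 327729176243) (nat_lit 114) (nat_lit 5) (nat_lit 116) (nat_lit 5) (nat_lit 115) (nat_lit 4) (nat_lit 482) (nat_lit 341) (nat_lit 197)) (XT.lf (nat_lit 0) (nat_lit 116913799181) (nat_lit 152) (nat_lit 115983975580)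 (nat_lit 0) (nat_lit 110090794945) (nat_lit 113) (nat_lit 5) (nat_lit 115) (nat_lit 4) (nat_lit 113) (nat_lit 4) (nat_lit 483) (nat_lit 341) (nat_lit 196)))) (XT.nd (nat_lit 156) (nat_lit 152) (nat_lit 0) (XT.nd (nat_lit 78) (nat_lit 76) (nat_lit 0) (XT.lf (nat_lit 0) (nat_lit 116451805047) (nat_lit 76) (nat_lit 122345260899) (nat_lit 76) (nat_lit 115521981446) (nat_lit 112) (nat_lit 4) (nat_lit 113) (nat_lit 5) (nat_lit 113) (nat_lit 4) (nat_lit 484) (nat_lit 341) (nat_lit 195)) (XT.lf (nat_lit 0) (nat_lit 2527569787) (nat_lit 152) (nat_lit 1642023500) (nat_lit 76) (nat_lit 361946669904) (nat_lit 111) (nat_lit 5) (nat_lit 113) (nat_lit 5) (nat_lit 112) (nat_lit 4) (nat_lit 485) (nat_lit 341) (nat_lit 194))) (XT.nd (nat_lit 78) (nat_lit 76) (nat_lit 0) (XT.lf (nat_lit 0) (nat_lit 128499314689) (nat_lit 152) (nat_lit 127613768402) (nat_lit 0) (nat_lit 122000465931) (nat_lit 110) (nat_lit 5) (nat_lit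 112) (nat_lit 4) (nat_lit 110) (nat_lit 4) (nat_lit 486) (nat_lit 341) (nat_lit 193)) (XT.lf (nat_lit 0) (nat_lit 128625974979) (nat_lit 76) (nat_lit 134239503871) (nat_lit 76) (nat_lit 127740428692) (nat_lit 109) (nat_lit 4) (nat_lit 110) (nat_lit 5) (nat_lit 110) (nat_lit 4) (nat_lit 487) (nat_lit 341) (nat_lit 192))))) (XT.nd (nat_lit 312) (nat_lit 152) (nat_lit 0) (XT.nd (nat_lit 156) (nat_lit 152) (nat_lit 0) (XT.nd (nat_lit 78) (nat_lit 76) (nat_lit 0) (XT.lf (nat_lit 0) (nat_lit 2407432208) (nat_lit 152) (nat_lit 1564054792) (nat_lit 76) (nat_lit 399641838104) (nat_lit 108) (nat_lit 5) (nat_lit 110) (nat_lit 5) (nat_lit 109) (nat_lit 4) (nat_lit 488) (nat_lit 341) (nat_lit 191)) (XT.lf (nat_lit 0) (nat_lit 141291236252) (nat_lit 152) (nat_lit 140447858836) (nat_lit 0) (nat_lit 135101239879) (nat_lit 107) (nat_lit 5) (nat_lit 109) (nat_lit 4) (nat_lit 107) (nat_lit 4) (nat_lit 489) (nat_lit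 341) (nat_lit 190))) (XT.nd (nat_lit 78) (nat_lit 76) (nat_lit 0) (XT.lf (nat_lit 0) (nat_lit 142036738312) (nat_lit 76) (nat_lit 147383543546) (nat_lit 76) (nat_lit 141193360896) (nat_lit 106) (nat_lit 4) (nat_lit 107) (nat_lit 5) (nat_lit 107) (nat_lit 4) (nat_lit 490) (nat_lit 341) (nat_lit 189)) (XT.lf (nat_lit 0) (nat_lit 2292975948) (nat_lit 152) (nat_lit 1489759362) (nat_lit 76) (nat_lit 441172525340) (nat_lit 105) (nat_lit 5) (nat_lit 107) (nat_lit 5) (nat_lit 106) (nat_lit 4) (nat_lit 491) (nat_lit 341) (nat_lit 188)))) (XT.nd (nat_lit 41418) (nat_lit 0) (nat_lit 18392) (XT.nd (nat_lit 78) (nat_lit 76) (nat_lit 0) (XT.lf (nat_lit 0) (nat_lit 155412333124) (nat_lit 152) (nat_lit 154609116537) (nat_lit 0) (nat_lit 149516591202) (nat_lit 104) (nat_lit 5) (nat_lit 106) (nat_lit 4) (nat_lit 104) (nat_lit 4) (nat_lit 492) (nat_lit 341) (nat_lit 187)) (XT.lf (nat_lit 0) (nat_lit 156811370021)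 (nat_lit 76) (nat_lit 161904048607) (nat_lit 76) (nat_lit 156008153435) (nat_lit 103) (nat_lit 4) (nat_lit 104) (nat_lit 5) (nat_lit 104) (nat_lit 4) (nat_lit 493) (nat_lit 341) (nat_lit 186))) (XT.nd (nat_lit 78) (nat_lit 228) (nat_lit 0) (XT.lf (nat_lit 0) (nat_lit 2767875510) (nat_lit 228) (nat_lit 238008729) (nat_lit 228) (nat_lit 238008729) (nat_lit 348) (nat_lit 3) (nat_lit 351) (nat_lit 3) (nat_lit 351) (nat_lit 5) (nat_lit 342) (nat_lit 342) (nat_lit 336)) (XT.lf (nat_lit 0) (nat_lit 1794326653) (nat_lit 228) (nat_lit 3684789699) (nat_lit 304) (nat_lit 1034679532) (nat_lit 345) (nat_lit 5) (nat_lit 348) (nat_lit 3) (nat_lit 349) (nat_lit 5) (nat_lit 343) (nat_lit 342) (nat_lit 335)))))) (XT.nd (nat_lit 624) (nat_lit 3192) (nat_lit 0) (XT.nd (nat_lit 312) (nat_lit 760) (nat_lit 0) (XT.nd (nat_lit 156) (nat_lit 0) (nat_lit 0) (XT.nd (nat_lit 78) (nat_lit 304) (nat_lit 0) (XT.lf (nat_lit 0)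 (nat_lit 4480324275) (nat_lit 228) (nat_lit 338390408) (nat_lit 304) (nat_lit 1729895657) (nat_lit 345) (nat_lit 5) (nat_lit 348) (nat_lit 3) (nat_lit 349) (nat_lit 5) (nat_lit 344) (nat_lit 342) (nat_lit 334)) (XT.lf (nat_lit 0) (nat_lit 574769657) (nat_lit 304) (nat_lit 3416089267) (nat_lit 380) (nat_lit 2599637457) (nat_lit 341) (nat_lit 5) (nat_lit 345) (nat_lit 5) (nat_lit 346) (nat_lit 5) (nat_lit 345) (nat_lit 342) (nat_lit 333))) (XT.nd (nat_lit 78) (nat_lit 0) (nat_lit 0) (XT.lf (nat_lit 76) (nat_lit 113074445) (nat_lit 0) (nat_lit 3013231524) (nat_lit 380) (nat_lit 3514183651) (nat_lit 342) (nat_lit 5) (nat_lit 341) (nat_lit 5) (nat_lit 346) (nat_lit 5) (nat_lit 346) (nat_lit 342) (nat_lit 332)) (XT.lf (nat_lit 76) (nat_lit 3841912062) (nat_lit 0) (nat_lit 1865819166) (nat_lit 380) (nat_lit 990135685) (nat_lit 342) (nat_lit 5) (nat_lit 341) (nat_lit 5) (nat_lit 346) (nat_lit 5) (nat_lit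 347) (nat_lit 342) (nat_lit 331)))) (XT.nd (nat_lit 156) (nat_lit 380) (nat_lit 0) (XT.nd (nat_lit 78) (nat_lit 0) (nat_lit 76) (XT.lf (nat_lit 76) (nat_lit 906348853) (nat_lit 0) (nat_lit 564219721) (nat_lit 456) (nat_lit 5293069149) (nat_lit 337) (nat_lit 5) (nat_lit 336) (nat_lit 5) (nat_lit 342) (nat_lit 5) (nat_lit 348) (nat_lit 342) (nat_lit 330)) (XT.lf (nat_lit 0) (nat_lit 3938646450) (nat_lit 380) (nat_lit 2006219009) (nat_lit 76) (nat_lit 891139355) (nat_lit 337) (nat_lit 5) (nat_lit 342) (nat_lit 5) (nat_lit 338) (nat_lit 5) (nat_lit 349) (nat_lit 342) (nat_lit 329))) (XT.nd (nat_lit 78) (nat_lit 76) (nat_lit 0) (XT.lf (nat_lit 0) (nat_lit 1994557860) (nat_lit 380) (nat_lit 4438746147) (nat_lit 456) (nat_lit 483527463) (nat_lit 332) (nat_lit 5) (nat_lit 337) (nat_lit 5) (nat_lit 338) (nat_lit 5) (nat_lit 350) (nat_lit 342) (nat_lit 328)) (XT.lf (nat_lit 0) (nat_lit 1885539737) (nat_lit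 456) (nat_lit 867860213) (nat_lit 76) (nat_lit 4251688949) (nat_lit 331) (nat_lit 5) (nat_lit 337) (nat_lit 5) (nat_lit 332) (nat_lit 5) (nat_lit 351) (nat_lit 342) (nat_lit 327))))) (XT.nd (nat_lit 312) (nat_lit 1520) (nat_lit 0) (XT.nd (nat_lit 156) (nat_lit 684) (nat_lit 0) (XT.nd (nat_lit 78) (nat_lit 532) (nat_lit 0) (XT.lf (nat_lit 0) (nat_lit 3394461849) (nat_lit 456) (nat_lit 887399271) (nat_lit 532) (nat_lit 2819249222) (nat_lit 325) (nat_lit 5) (nat_lit 331) (nat_lit 5) (nat_lit 332) (nat_lit 5) (nat_lit 352) (nat_lit 342) (nat_lit 326)) (XT.lf (nat_lit 0) (nat_lit 600461848) (nat_lit 532) (nat_lit 6115722267) (nat_lit 608) (nat_lit 489839463) (nat_lit 318) (nat_lit 5) (nat_lit 325) (nat_lit 5) (nat_lit 326) (nat_lit 5) (nat_lit 353) (nat_lit 342) (nat_lit 325))) (XT.nd (nat_lit 78) (nat_lit 608) (nat_lit 0) (XT.lf (nat_lit 0) (nat_lit 1851283995) (nat_lit 608) (nat_lit 2210519584) (nat_lit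 76) (nat_lit 3254959496) (nat_lit 317) (nat_lit 5) (nat_lit 325) (nat_lit 5) (nat_lit 318) (nat_lit 5) (nat_lit 354) (nat_lit 342) (nat_lit 324)) (XT.lf (nat_lit 0) (nat_lit 2374161964) (nat_lit 608) (nat_lit 1841143584) (nat_lit 684) (nat_lit 3221217306) (nat_lit 309) (nat_lit 5) (nat_lit 317) (nat_lit 5) (nat_lit 318) (nat_lit 5) (nat_lit 355) (nat_lit 342) (nat_lit 323)))) (XT.nd (nat_lit 156) (nat_lit 760) (nat_lit 0) (XT.nd (nat_lit 78) (nat_lit 760) (nat_lit 0) (XT.lf (nat_lit 0) (nat_lit 6632655364) (nat_lit 684) (nat_lit 406102081) (nat_lit 76) (nat_lit 526756816) (nat_lit 309) (nat_lit 5) (nat_lit 318) (nat_lit 5) (nat_lit 310) (nat_lit 5) (nat_lit 356) (nat_lit 342) (nat_lit 322)) (XT.lf (nat_lit 0) (nat_lit 1417906140) (nat_lit 760) (nat_lit 3224656009) (nat_lit 76) (nat_lit 3057493851) (nat_lit 299) (nat_lit 5) (nat_lit 309) (nat_lit 5) (nat_lit 300) (nat_lit 5) (nat_lit 357) (nat_lit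 342) (nat_lit 321))) (XT.nd (nat_lit 78) (nat_lit 0) (nat_lit 0) (XT.lf (nat_lit 0) (nat_lit 1714325041) (nat_lit 760) (nat_lit 2070824447) (nat_lit 836) (nat_lit 4058896188) (nat_lit 289) (nat_lit 5) (nat_lit 299) (nat_lit 5) (nat_lit 300) (nat_lit 5) (nat_lit 358) (nat_lit 342) (nat_lit 320)) (XT.lf (nat_lit 0) (nat_lit 6236064706) (nat_lit 836) (nat_lit 1093694137) (nat_lit 76) (nat_lit 667210507) (nat_lit 289) (nat_lit 5) (nat_lit 300) (nat_lit 5) (nat_lit 290) (nat_lit 5) (nat_lit 359) (nat_lit 342) (nat_lit 319))))))))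
noncomputable def xc135 : XT := (XT.nd (nat_lit 1248) (nat_lit 2204) (nat_lit 0) (XT.nd (nat_lit 624) (nat_lit 1444) (nat_lit 0) (XT.nd (nat_lit 312) (nat_lit 1064) (nat_lit 0) (XT.nd (nat_lit 156) (nat_lit 380) (nat_lit 0) (XT.nd (nat_lit 78) (nat_lit 380) (nat_lit 0) (XT.lf (nat_lit 0) (nat_lit 635396524) (nat_lit 532) (nat_lit 3970855047) (nat_lit 76) (nat_lit 3550564785) (nat_lit 282) (nat_lit 5) (nat_lit 289) (nat_lit 5) (nat_lit 283) (nat_lit 5) (nat_lit 360) (nat_lit 342) (nat_lit 318)) (XT.lf (nat_lit 0) (nat_lit 1358854127) (nat_lit 380) (nat_lit 1679782521) (nat_lit 456) (nat_lit 5287260609) (nat_lit 277) (nat_lit 5) (nat_lit 282) (nat_lit 5) (nat_lit 283) (nat_lit 5) (nat_lit 361) (nat_lit 342) (nat_lit 317))) (XT.nd (nat_lit 78) (nat_lit 380) (nat_lit 0) (XT.lf (nat_lit 0) (nat_lit 5561229324) (nat_lit 456) (nat_lit 1532150939) (nat_lit 76) (nat_lit 1410092414) (nat_lit 277) (nat_lit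 5) (nat_lit 283) (nat_lit 5) (nat_lit 278) (nat_lit 5) (nat_lit 362) (nat_lit 342) (nat_lit 316)) (XT.lf (nat_lit 0) (nat_lit 4183574859) (nat_lit 380) (nat_lit 4032651491) (nat_lit 456) (nat_lit 473386780) (nat_lit 272) (nat_lit 5) (nat_lit 277) (nat_lit 5) (nat_lit 278) (nat_lit 5) (nat_lit 363) (nat_lit 342) (nat_lit 315)))) (XT.nd (nat_lit 156) (nat_lit 684) (nat_lit 0) (XT.nd (nat_lit 78) (nat_lit 0) (nat_lit 0) (XT.lf (nat_lit 0) (nat_lit 1262903317) (nat_lit 304) (nat_lit 748953770) (nat_lit 380) (nat_lit 6873511266) (nat_lit 267) (nat_lit 5) (nat_lit 271) (nat_lit 5) (nat_lit 272) (nat_lit 5) (nat_lit 364) (nat_lit 342) (nat_lit 314)) (XT.lf (nat_lit 0) (nat_lit 4642156087) (nat_lit 380) (nat_lit 1762368755) (nat_lit 76) (nat_lit 2684163382) (nat_lit 267) (nat_lit 5) (nat_lit 272) (nat_lit 5) (nat_lit 268) (nat_lit 5) (nat_lit 365) (nat_lit 342) (nat_lit 313))) (XT.nd (nat_lit 78) (nat_lit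 380) (nat_lit 0) (XT.lf (nat_lit 0) (nat_lit 4423997406) (nat_lit 304) (nat_lit 2982274930) (nat_lit 380) (nat_lit 1895786636) (nat_lit 263) (nat_lit 5) (nat_lit 267) (nat_lit 5) (nat_lit 268) (nat_lit 5) (nat_lit 366) (nat_lit 342) (nat_lit 312)) (XT.lf (nat_lit 0) (nat_lit 741784949) (nat_lit 380) (nat_lit 8146089549) (nat_lit 76) (nat_lit 638396234) (nat_lit 258) (nat_lit 5) (nat_lit 263) (nat_lit 5) (nat_lit 259) (nat_lit 5) (nat_lit 367) (nat_lit 342) (nat_lit 311))))) (XT.nd (nat_lit 312) (nat_lit 836) (nat_lit 0) (XT.nd (nat_lit 156) (nat_lit 304) (nat_lit 0) (XT.nd (nat_lit 78) (nat_lit 304) (nat_lit 0) (XT.lf (nat_lit 0) (nat_lit 3504280165) (nat_lit 380) (nat_lit 1817192335) (nat_lit 76) (nat_lit 4435828861) (nat_lit 258) (nat_lit 5) (nat_lit 263) (nat_lit 5) (nat_lit 259) (nat_lit 5) (nat_lit 368) (nat_lit 342) (nat_lit 310)) (XT.lf (nat_lit 0) (nat_lit 4890388225) (nat_lit 304) (nat_lit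 1518387941) (nat_lit 380) (nat_lit 3590913553) (nat_lit 254) (nat_lit 5) (nat_lit 258) (nat_lit 5) (nat_lit 259) (nat_lit 5) (nat_lit 369) (nat_lit 342) (nat_lit 309))) (XT.nd (nat_lit 78) (nat_lit 76) (nat_lit 0) (XT.lf (nat_lit 0) (nat_lit 1661885290) (nat_lit 228) (nat_lit 7821655577) (nat_lit 304) (nat_lit 769404435) (nat_lit 251) (nat_lit 5) (nat_lit 254) (nat_lit 5) (nat_lit 255) (nat_lit 5) (nat_lit 370) (nat_lit 342) (nat_lit 308)) (XT.lf (nat_lit 0) (nat_lit 2165770443) (nat_lit 304) (nat_lit 1722782494) (nat_lit 76) (nat_lit 6626459352) (nat_lit 250) (nat_lit 5) (nat_lit 254) (nat_lit 5) (nat_lit 251) (nat_lit 5) (nat_lit 371) (nat_lit 342) (nat_lit 307)))) (XT.nd (nat_lit 156) (nat_lit 304) (nat_lit 0) (XT.nd (nat_lit 78) (nat_lit 228) (nat_lit 0) (XT.lf (nat_lit 0) (nat_lit 5246971809) (nat_lit 380) (nat_lit 5231327367) (nat_lit 76) (nat_lit 309996553) (nat_lit 246) (nat_lit 5) (nat_lit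 251) (nat_lit 5) (nat_lit 247) (nat_lit 5) (nat_lit 372) (nat_lit 342) (nat_lit 306)) (XT.lf (nat_lit 0) (nat_lit 2096132958) (nat_lit 228) (nat_lit 6446872569) (nat_lit 304) (nat_lit 2529199199) (nat_lit 243) (nat_lit 5) (nat_lit 246) (nat_lit 5) (nat_lit 247) (nat_lit 5) (nat_lit 373) (nat_lit 342) (nat_lit 305))) (XT.nd (nat_lit 78) (nat_lit 228) (nat_lit 0) (XT.lf (nat_lit 0) (nat_lit 638579313) (nat_lit 304) (nat_lit 1499734035) (nat_lit 76) (nat_lit 9230235038) (nat_lit 242) (nat_lit 5) (nat_lit 246) (nat_lit 5) (nat_lit 243) (nat_lit 5) (nat_lit 374) (nat_lit 342) (nat_lit 304)) (XT.lf (nat_lit 0) (nat_lit 3957554619) (nat_lit 304) (nat_lit 5289855558) (nat_lit 76) (nat_lit 2426335662) (nat_lit 239) (nat_lit 5) (nat_lit 243) (nat_lit 5) (nat_lit 240) (nat_lit 5) (nat_lit 375) (nat_lit 342) (nat_lit 303)))))) (XT.nd (nat_lit 624) (nat_lit 1064) (nat_lit 0) (XT.nd (nat_lit 312) (nat_lit 456)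 (nat_lit 0) (XT.nd (nat_lit 156) (nat_lit 456) (nat_lit 0) (XT.nd (nat_lit 78) (nat_lit 0) (nat_lit 0) (XT.lf (nat_lit 0) (nat_lit 2680412697) (nat_lit 228) (nat_lit 4804263430) (nat_lit 304) (nat_lit 4507417164) (nat_lit 236) (nat_lit 5) (nat_lit 239) (nat_lit 5) (nat_lit 240) (nat_lit 5) (nat_lit 376) (nat_lit 342) (nat_lit 302)) (XT.lf (nat_lit 0) (nat_lit 11143573174) (nat_lit 228) (nat_lit 75134209) (nat_lit 304) (nat_lit 1106123049) (nat_lit 236) (nat_lit 5) (nat_lit 239) (nat_lit 5) (nat_lit 240) (nat_lit 5) (nat_lit 377) (nat_lit 342) (nat_lit 301))) (XT.nd (nat_lit 78) (nat_lit 152) (nat_lit 0) (XT.lf (nat_lit 0) (nat_lit 2524238800) (nat_lit 304) (nat_lit 5278385287) (nat_lit 76) (nat_lit 4862760582) (nat_lit 232) (nat_lit 5) (nat_lit 236) (nat_lit 5) (nat_lit 233) (nat_lit 5) (nat_lit 378) (nat_lit 342) (nat_lit 300)) (XT.lf (nat_lit 0) (nat_lit 3404141141) (nat_lit 152) (nat_lit 2913295984)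 (nat_lit 228) (nat_lit 6703698268) (nat_lit 230) (nat_lit 5) (nat_lit 232) (nat_lit 5) (nat_lit 233) (nat_lit 5) (nat_lit 379) (nat_lit 342) (nat_lit 299)))) (XT.nd (nat_lit 156) (nat_lit 152) (nat_lit 0) (XT.nd (nat_lit 78) (nat_lit 304) (nat_lit 0) (XT.lf (nat_lit 0) (nat_lit 10370435252) (nat_lit 228) (nat_lit 810958942) (nat_lit 76) (nat_lit 2209772465) (nat_lit 230) (nat_lit 5) (nat_lit 233) (nat_lit 5) (nat_lit 231) (nat_lit 5) (nat_lit 380) (nat_lit 342) (nat_lit 298)) (XT.lf (nat_lit 0) (nat_lit 950340615) (nat_lit 304) (nat_lit 5210867785) (nat_lit 76) (nat_lit 7611278046) (nat_lit 226) (nat_lit 5) (nat_lit 230) (nat_lit 5) (nat_lit 227) (nat_lit 5) (nat_lit 381) (nat_lit 342) (nat_lit 297))) (XT.nd (nat_lit 78) (nat_lit 0) (nat_lit 0) (XT.lf (nat_lit 0) (nat_lit 4260598446) (nat_lit 152) (nat_lit 785951898) (nat_lit 228) (nat_lit 9122440846) (nat_lit 224) (nat_lit 5) (nat_lit 226) (nat_lit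 5) (nat_lit 227) (nat_lit 5) (nat_lit 382) (nat_lit 342) (nat_lit 296)) (XT.lf (nat_lit 0) (nat_lit 9461423018) (nat_lit 228) (nat_lit 357159866) (nat_lit 76) (nat_lit 4761045665) (nat_lit 224) (nat_lit 5) (nat_lit 227) (nat_lit 5) (nat_lit 225) (nat_lit 5) (nat_lit 383) (nat_lit 342) (nat_lit 295))))) (XT.nd (nat_lit 312) (nat_lit 532) (nat_lit 0) (XT.nd (nat_lit 156) (nat_lit 152) (nat_lit 0) (XT.nd (nat_lit 78) (nat_lit 228) (nat_lit 0) (XT.lf (nat_lit 0) (nat_lit 9893987265) (nat_lit 152) (nat_lit 4321179999) (nat_lit 228) (nat_lit 789724113) (nat_lit 222) (nat_lit 5) (nat_lit 224) (nat_lit 5) (nat_lit 225) (nat_lit 5) (nat_lit 384) (nat_lit 342) (nat_lit 294)) (XT.lf (nat_lit 0) (nat_lit 3698674386) (nat_lit 228) (nat_lit 10224646745) (nat_lit 76) (nat_lit 1521980658) (nat_lit 219) (nat_lit 5) (nat_lit 222) (nat_lit 5) (nat_lit 220) (nat_lit 5) (nat_lit 385) (nat_lit 342) (nat_lit 293))) (XT.nd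 (nat_lit 78) (nat_lit 0) (nat_lit 0) (XT.lf (nat_lit 0) (nat_lit 181116551) (nat_lit 152) (nat_lit 8317118305) (nat_lit 228) (nat_lit 7403186453) (nat_lit 217) (nat_lit 5) (nat_lit 219) (nat_lit 5) (nat_lit 220) (nat_lit 5) (nat_lit 386) (nat_lit 342) (nat_lit 292)) (XT.lf (nat_lit 0) (nat_lit 11381169794) (nat_lit 152) (nat_lit 2282442100) (nat_lit 228) (nat_lit 2710442983) (nat_lit 217) (nat_lit 5) (nat_lit 219) (nat_lit 5) (nat_lit 220) (nat_lit 5) (nat_lit 387) (nat_lit 342) (nat_lit 291)))) (XT.nd (nat_lit 156) (nat_lit 152) (nat_lit 0) (XT.nd (nat_lit 78) (nat_lit 152) (nat_lit 0) (XT.lf (nat_lit 0) (nat_lit 2264469507) (nat_lit 228) (nat_lit 10569631282) (nat_lit 76) (nat_lit 4028564321) (nat_lit 214) (nat_lit 5) (nat_lit 217) (nat_lit 5) (nat_lit 215) (nat_lit 5) (nat_lit 388) (nat_lit 342) (nat_lit 290)) (XT.lf (nat_lit 0) (nat_lit 808658832) (nat_lit 152) (nat_lit 6679024956) (nat_lit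 228) (nat_lit 9881268149) (nat_lit 212) (nat_lit 5) (nat_lit 214) (nat_lit 5) (nat_lit 215) (nat_lit 5) (nat_lit 389) (nat_lit 342) (nat_lit 289))) (XT.nd (nat_lit 78) (nat_lit 152) (nat_lit 0) (XT.lf (nat_lit 0) (nat_lit 13044994052) (nat_lit 152) (nat_lit 61669807) (nat_lit 228) (nat_lit 4787158993) (nat_lit 212) (nat_lit 5) (nat_lit 214) (nat_lit 5) (nat_lit 215) (nat_lit 5) (nat_lit 390) (nat_lit 342) (nat_lit 288)) (XT.lf (nat_lit 0) (nat_lit 728576811) (nat_lit 152) (nat_lit 10942424573) (nat_lit 76) (nat_lit 6764252594) (nat_lit 210) (nat_lit 5) (nat_lit 212) (nat_lit 5) (nat_lit 211) (nat_lit 5) (nat_lit 391) (nat_lit 342) (nat_lit 287)))))))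
noncomputable def xc136 : XT := (XT.nd (nat_lit 1248) (nat_lit 1216) (nat_lit 0) (XT.nd (nat_lit 624) (nat_lit 836) (nat_lit 0) (XT.nd (nat_lit 312) (nat_lit 304) (nat_lit 0) (XT.nd (nat_lit 156) (nat_lit 304) (nat_lit 0) (XT.nd (nat_lit 78) (nat_lit 0) (nat_lit 0) (XT.lf (nat_lit 0) (nat_lit 1511893812) (nat_lit 152) (nat_lit 4912812135) (nat_lit 228) (nat_lit 12571852489) (nat_lit 208) (nat_lit 5) (nat_lit 210) (nat_lit 5) (nat_lit 211) (nat_lit 5) (nat_lit 392) (nat_lit 342) (nat_lit 286)) (XT.lf (nat_lit 0) (nat_lit 12585836439) (nat_lit 228) (nat_lit 4721231621) (nat_lit 76) (nat_lit 2269850312) (nat_lit 208) (nat_lit 5) (nat_lit 211) (nat_lit 5) (nat_lit 209) (nat_lit 4) (nat_lit 393) (nat_lit 342) (nat_lit 285))) (XT.nd (nat_lit 78) (nat_lit 228) (nat_lit 0) (XT.lf (nat_lit 0) (nat_lit 8809146170) (nat_lit 76) (nat_lit 10423716805) (nat_lit 152) (nat_lit 944541353) (nat_lit 207) (nat_lit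 5) (nat_lit 208) (nat_lit 5) (nat_lit 209) (nat_lit 4) (nat_lit 394) (nat_lit 342) (nat_lit 284)) (XT.lf (nat_lit 0) (nat_lit 2290881337) (nat_lit 152) (nat_lit 3017426738) (nat_lit 228) (nat_lit 15491539973) (nat_lit 204) (nat_lit 5) (nat_lit 206) (nat_lit 5) (nat_lit 207) (nat_lit 5) (nat_lit 395) (nat_lit 342) (nat_lit 283)))) (XT.nd (nat_lit 156) (nat_lit 228) (nat_lit 0) (XT.nd (nat_lit 78) (nat_lit 76) (nat_lit 0) (XT.lf (nat_lit 0) (nat_lit 12072250000) (nat_lit 228) (nat_lit 4582150174) (nat_lit 76) (nat_lit 4786729926) (nat_lit 204) (nat_lit 5) (nat_lit 207) (nat_lit 5) (nat_lit 205) (nat_lit 4) (nat_lit 396) (nat_lit 342) (nat_lit 282)) (XT.lf (nat_lit 0) (nat_lit 10250009237) (nat_lit 76) (nat_lit 9095977709) (nat_lit 152) (nat_lit 2759909411) (nat_lit 203) (nat_lit 5) (nat_lit 204) (nat_lit 5) (nat_lit 205) (nat_lit 4) (nat_lit 397) (nat_lit 342) (nat_lit 281))) (XT.nd (nat_lit 78)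 (nat_lit 0) (nat_lit 0) (XT.lf (nat_lit 0) (nat_lit 3147322951) (nat_lit 152) (nat_lit 988655024) (nat_lit 228) (nat_lit 18660148330) (nat_lit 200) (nat_lit 5) (nat_lit 202) (nat_lit 5) (nat_lit 203) (nat_lit 5) (nat_lit 398) (nat_lit 342) (nat_lit 280)) (XT.lf (nat_lit 0) (nat_lit 11567918727) (nat_lit 228) (nat_lit 4434490321) (nat_lit 76) (nat_lit 7501995980) (nat_lit 200) (nat_lit 5) (nat_lit 203) (nat_lit 5) (nat_lit 201) (nat_lit 4) (nat_lit 399) (nat_lit 342) (nat_lit 279))))) (XT.nd (nat_lit 312) (nat_lit 456) (nat_lit 0) (XT.nd (nat_lit 156) (nat_lit 76) (nat_lit 0) (XT.nd (nat_lit 78) (nat_lit 228) (nat_lit 0) (XT.lf (nat_lit 0) (nat_lit 11836547925) (nat_lit 76) (nat_lit 7700167307) (nat_lit 152) (nat_lit 4703119519) (nat_lit 199) (nat_lit 5) (nat_lit 200) (nat_lit 5) (nat_lit 201) (nat_lit 4) (nat_lit 400) (nat_lit 342) (nat_lit 278)) (XT.lf (nat_lit 0) (nat_lit 2922243308) (nat_lit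 228) (nat_lit 20938561130) (nat_lit 76) (nat_lit 1142829622) (nat_lit 196) (nat_lit 5) (nat_lit 199) (nat_lit 5) (nat_lit 197) (nat_lit 4) (nat_lit 401) (nat_lit 342) (nat_lit 277))) (XT.nd (nat_lit 78) (nat_lit 76) (nat_lit 0) (XT.lf (nat_lit 0) (nat_lit 11075097056) (nat_lit 228) (nat_lit 4281355717) (nat_lit 76) (nat_lit 10430101626) (nat_lit 196) (nat_lit 5) (nat_lit 199) (nat_lit 5) (nat_lit 197) (nat_lit 4) (nat_lit 402) (nat_lit 342) (nat_lit 276)) (XT.lf (nat_lit 0) (nat_lit 13579605141) (nat_lit 76) (nat_lit 6234239264) (nat_lit 152) (nat_lit 6785863802) (nat_lit 195) (nat_lit 5) (nat_lit 196) (nat_lit 5) (nat_lit 197) (nat_lit 4) (nat_lit 403) (nat_lit 342) (nat_lit 275)))) (XT.nd (nat_lit 156) (nat_lit 228) (nat_lit 0) (XT.nd (nat_lit 78) (nat_lit 0) (nat_lit 0) (XT.lf (nat_lit 0) (nat_lit 1661243744) (nat_lit 228) (nat_lit 22394165420) (nat_lit 76) (nat_lit 3388191661) (nat_lit 192)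 (nat_lit 5) (nat_lit 195) (nat_lit 5) (nat_lit 193) (nat_lit 4) (nat_lit 404) (nat_lit 342) (nat_lit 274)) (XT.lf (nat_lit 0) (nat_lit 10595454224) (nat_lit 228) (nat_lit 4125224377) (nat_lit 76) (nat_lit 13588807436) (nat_lit 192) (nat_lit 5) (nat_lit 195) (nat_lit 5) (nat_lit 193) (nat_lit 4) (nat_lit 405) (nat_lit 342) (nat_lit 273))) (XT.nd (nat_lit 78) (nat_lit 152) (nat_lit 0) (XT.lf (nat_lit 0) (nat_lit 15492071835) (nat_lit 76) (nat_lit 4694254149) (nat_lit 152) (nat_lit 9021841988) (nat_lit 191) (nat_lit 5) (nat_lit 192) (nat_lit 5) (nat_lit 193) (nat_lit 4) (nat_lit 406) (nat_lit 342) (nat_lit 272)) (XT.lf (nat_lit 0) (nat_lit 331276438) (nat_lit 152) (nat_lit 24017828564) (nat_lit 76) (nat_lit 5791113148) (nat_lit 189) (nat_lit 5) (nat_lit 191) (nat_lit 5) (nat_lit 190) (nat_lit 4) (nat_lit 407) (nat_lit 342) (nat_lit 271)))))) (XT.nd (nat_lit 624) (nat_lit 684) (nat_lit 0) (XT.nd (nat_lit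 312) (nat_lit 304) (nat_lit 0) (XT.nd (nat_lit 156) (nat_lit 152) (nat_lit 0) (XT.nd (nat_lit 78) (nat_lit 76) (nat_lit 0) (XT.lf (nat_lit 0) (nat_lit 10130186857) (nat_lit 152) (nat_lit 3968063194) (nat_lit 76) (nat_lit 16999159376) (nat_lit 189) (nat_lit 5) (nat_lit 191) (nat_lit 5) (nat_lit 190) (nat_lit 4) (nat_lit 408) (nat_lit 342) (nat_lit 270)) (XT.lf (nat_lit 0) (nat_lit 17588920772) (nat_lit 76) (nat_lit 3074522370) (nat_lit 152) (nat_lit 11426797109) (nat_lit 188) (nat_lit 5) (nat_lit 189) (nat_lit 5) (nat_lit 190) (nat_lit 4) (nat_lit 409) (nat_lit 342) (nat_lit 269))) (XT.nd (nat_lit 78) (nat_lit 76) (nat_lit 0) (XT.lf (nat_lit 0) (nat_lit 7272783403) (nat_lit 76) (nat_lit 24735046110) (nat_lit 76) (nat_lit 1110659740) (nat_lit 187) (nat_lit 4) (nat_lit 188) (nat_lit 5) (nat_lit 188) (nat_lit 4) (nat_lit 410) (nat_lit 342) (nat_lit 268)) (XT.lf (nat_lit 0) (nat_lit 9680111174) (nat_lit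 152) (nat_lit 3811421971) (nat_lit 76) (nat_lit 20685530310) (nat_lit 186) (nat_lit 5) (nat_lit 188) (nat_lit 5) (nat_lit 187) (nat_lit 4) (nat_lit 411) (nat_lit 342) (nat_lit 267)))) (XT.nd (nat_lit 156) (nat_lit 152) (nat_lit 0) (XT.nd (nat_lit 78) (nat_lit 76) (nat_lit 0) (XT.lf (nat_lit 0) (nat_lit 19887275492) (nat_lit 76) (nat_lit 1367700186) (nat_lit 152) (nat_lit 14018586289) (nat_lit 185) (nat_lit 5) (nat_lit 186) (nat_lit 5) (nat_lit 187) (nat_lit 4) (nat_lit 412) (nat_lit 342) (nat_lit 266)) (XT.lf (nat_lit 0) (nat_lit 8520111570) (nat_lit 76) (nat_lit 25235976246) (nat_lit 76) (nat_lit 2651422367) (nat_lit 184) (nat_lit 4) (nat_lit 185) (nat_lit 5) (nat_lit 185) (nat_lit 4) (nat_lit 413) (nat_lit 342) (nat_lit 265))) (XT.nd (nat_lit 78) (nat_lit 76) (nat_lit 0) (XT.lf (nat_lit 0) (nat_lit 9245738444) (nat_lit 152) (nat_lit 3656510632) (nat_lit 76) (nat_lit 24675719799) (nat_lit 183)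 (nat_lit 5) (nat_lit 185) (nat_lit 5) (nat_lit 184) (nat_lit 4) (nat_lit 414) (nat_lit 342) (nat_lit 264)) (XT.lf (nat_lit 0) (nat_lit 21978151359) (nat_lit 152) (nat_lit 16388923546) (nat_lit 0) (nat_lit 421227339) (nat_lit 182) (nat_lit 5) (nat_lit 184) (nat_lit 4) (nat_lit 182) (nat_lit 4) (nat_lit 415) (nat_lit 342) (nat_lit 263))))) (XT.nd (nat_lit 312) (nat_lit 380) (nat_lit 0) (XT.nd (nat_lit 156) (nat_lit 152) (nat_lit 0) (XT.nd (nat_lit 78) (nat_lit 76) (nat_lit 0) (XT.lf (nat_lit 0) (nat_lit 9879460971) (nat_lit 76) (nat_lit 25869375571) (nat_lit 76) (nat_lit 4290233159) (nat_lit 181) (nat_lit 4) (nat_lit 182) (nat_lit 5) (nat_lit 182) (nat_lit 4) (nat_lit 416) (nat_lit 342) (nat_lit 262)) (XT.lf (nat_lit 0) (nat_lit 8827336686) (nat_lit 152) (nat_lit 3504262578) (nat_lit 76) (nat_lit 29001108500) (nat_lit 180) (nat_lit 5) (nat_lit 182) (nat_lit 5) (nat_lit 181) (nat_lit 4) (nat_lit 417)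 (nat_lit 342) (nat_lit 261))) (XT.nd (nat_lit 78) (nat_lit 76) (nat_lit 0) (XT.lf (nat_lit 0) (nat_lit 22860434599) (nat_lit 152) (nat_lit 17537360492) (nat_lit 0) (nat_lit 2269524579) (nat_lit 179) (nat_lit 5) (nat_lit 181) (nat_lit 4) (nat_lit 179) (nat_lit 4) (nat_lit 418) (nat_lit 342) (nat_lit 260)) (XT.lf (nat_lit 0) (nat_lit 11361637050) (nat_lit 76) (nat_lit 26647752089) (nat_lit 76) (nat_lit 6038562943) (nat_lit 178) (nat_lit 4) (nat_lit 179) (nat_lit 5) (nat_lit 179) (nat_lit 4) (nat_lit 419) (nat_lit 342) (nat_lit 259)))) (XT.nd (nat_lit 156) (nat_lit 228) (nat_lit 0) (XT.nd (nat_lit 78) (nat_lit 76) (nat_lit 0) (XT.lf (nat_lit 0) (nat_lit 8424981057) (nat_lit 152) (nat_lit 3355386669) (nat_lit 76) (nat_lit 33696864828) (nat_lit 177) (nat_lit 5) (nat_lit 179) (nat_lit 5) (nat_lit 178) (nat_lit 4) (nat_lit 420) (nat_lit 342) (nat_lit 258)) (XT.lf (nat_lit 0) (nat_lit 23892862043) (nat_lit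 152) (nat_lit 18823267655) (nat_lit 0) (nat_lit 4232692954) (nat_lit 176) (nat_lit 5) (nat_lit 178) (nat_lit 4) (nat_lit 176) (nat_lit 4) (nat_lit 421) (nat_lit 342) (nat_lit 257))) (XT.nd (nat_lit 78) (nat_lit 152) (nat_lit 0) (XT.lf (nat_lit 0) (nat_lit 12978838666) (nat_lit 76) (nat_lit 27584451650) (nat_lit 76) (nat_lit 7909244279) (nat_lit 175) (nat_lit 4) (nat_lit 176) (nat_lit 5) (nat_lit 176) (nat_lit 4) (nat_lit 422) (nat_lit 342) (nat_lit 256)) (XT.nd (nat_lit 78) (nat_lit 76) (nat_lit 0) (XT.lf (nat_lit 0) (nat_lit 8038594975) (nat_lit 152) (nat_lit 3210409844) (nat_lit 76) (nat_lit 38802202702) (nat_lit 174) (nat_lit 5) (nat_lit 176) (nat_lit 5) (nat_lit 175) (nat_lit 4) (nat_lit 423) (nat_lit 342) (nat_lit 255)) (XT.lf (nat_lit 0) (nat_lit 25088964248) (nat_lit 152) (nat_lit 20260779117) (nat_lit 0) (nat_lit 6324040715) (nat_lit 173) (nat_lit 5) (nat_lit 175) (nat_lit 4) (nat_lit 173)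 (nat_lit 4) (nat_lit 424) (nat_lit 342) (nat_lit 254))))))))
noncomputable def xc137 : XT := (XT.nd (nat_lit 2496) (nat_lit 2432) (nat_lit 0) (XT.nd (nat_lit 1248) (nat_lit 1216) (nat_lit 0) (XT.nd (nat_lit 624) (nat_lit 608) (nat_lit 0) (XT.nd (nat_lit 312) (nat_lit 304) (nat_lit 0) (XT.nd (nat_lit 156) (nat_lit 152) (nat_lit 0) (XT.nd (nat_lit 78) (nat_lit 76) (nat_lit 0) (XT.lf (nat_lit 0) (nat_lit 14744742337) (nat_lit 76) (nat_lit 28693852770) (nat_lit 76) (nat_lit 9916557205) (nat_lit 172) (nat_lit 4) (nat_lit 173) (nat_lit 5) (nat_lit 173) (nat_lit 4) (nat_lit 425) (nat_lit 342) (nat_lit 253)) (XT.lf (nat_lit 0) (nat_lit 7667983608) (nat_lit 152) (nat_lit 3069712054) (nat_lit 76) (nat_lit 44360690234) (nat_lit 171) (nat_lit 5) (nat_lit 173) (nat_lit 5) (nat_lit 172) (nat_lit 4) (nat_lit 426) (nat_lit 342) (nat_lit 252))) (XT.nd (nat_lit 78) (nat_lit 76) (nat_lit 0) (XT.lf (nat_lit 0) (nat_lit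 26463572705) (nat_lit 152) (nat_lit 21865301151) (nat_lit 0) (nat_lit 8558524848) (nat_lit 170) (nat_lit 5) (nat_lit 172) (nat_lit 4) (nat_lit 170) (nat_lit 4) (nat_lit 427) (nat_lit 342) (nat_lit 251)) (XT.lf (nat_lit 0) (nat_lit 16674605879) (nat_lit 76) (nat_lit 29991560684) (nat_lit 76) (nat_lit 12076334325) (nat_lit 169) (nat_lit 4) (nat_lit 170) (nat_lit 5) (nat_lit 170) (nat_lit 4) (nat_lit 428) (nat_lit 342) (nat_lit 250)))) (XT.nd (nat_lit 156) (nat_lit 152) (nat_lit 0) (XT.nd (nat_lit 78) (nat_lit 76) (nat_lit 0) (XT.lf (nat_lit 0) (nat_lit 7312861118) (nat_lit 152) (nat_lit 2933554876) (nat_lit 76) (nat_lit 50420610174) (nat_lit 168) (nat_lit 5) (nat_lit 170) (nat_lit 5) (nat_lit 169) (nat_lit 4) (nat_lit 429) (nat_lit 342) (nat_lit 249)) (XT.lf (nat_lit 0) (nat_lit 28032988213) (nat_lit 152) (nat_lit 23653681971) (nat_lit 0) (nat_lit 10952843099) (nat_lit 167) (nat_lit 5) (nat_lit 169)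 (nat_lit 4) (nat_lit 167) (nat_lit 4) (nat_lit 430) (nat_lit 342) (nat_lit 248))) (XT.nd (nat_lit 78) (nat_lit 76) (nat_lit 0) (XT.lf (nat_lit 0) (nat_lit 18785391513) (nat_lit 76) (nat_lit 31494604264) (nat_lit 76) (nat_lit 14406085272) (nat_lit 166) (nat_lit 4) (nat_lit 167) (nat_lit 5) (nat_lit 167) (nat_lit 4) (nat_lit 431) (nat_lit 342) (nat_lit 247)) (XT.lf (nat_lit 0) (nat_lit 6972872774) (nat_lit 152) (nat_lit 2802104925) (nat_lit 76) (nat_lit 57035373793) (nat_lit 165) (nat_lit 5) (nat_lit 167) (nat_lit 5) (nat_lit 166) (nat_lit 4) (nat_lit 432) (nat_lit 342) (nat_lit 246))))) (XT.nd (nat_lit 312) (nat_lit 304) (nat_lit 0) (XT.nd (nat_lit 156) (nat_lit 152) (nat_lit 0) (XT.nd (nat_lit 78) (nat_lit 76) (nat_lit 0) (XT.lf (nat_lit 0) (nat_lit 29815159360) (nat_lit 152) (nat_lit 25644391511) (nat_lit 0) (nat_lit 13525550342) (nat_lit 164) (nat_lit 5) (nat_lit 166) (nat_lit 4) (nat_lit 164)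 (nat_lit 4) (nat_lit 433) (nat_lit 342) (nat_lit 245)) (XT.lf (nat_lit 0) (nat_lit 21095908834) (nat_lit 76) (nat_lit 33221639213) (nat_lit 76) (nat_lit 16925140985) (nat_lit 163) (nat_lit 4) (nat_lit 164) (nat_lit 5) (nat_lit 164) (nat_lit 4) (nat_lit 434) (nat_lit 342) (nat_lit 244))) (XT.nd (nat_lit 78) (nat_lit 76) (nat_lit 0) (XT.lf (nat_lit 0) (nat_lit 6647612864) (nat_lit 152) (nat_lit 2675453008) (nat_lit 76) (nat_lit 64263990676) (nat_lit 162) (nat_lit 5) (nat_lit 164) (nat_lit 5) (nat_lit 163) (nat_lit 4) (nat_lit 435) (nat_lit 342) (nat_lit 243)) (XT.lf (nat_lit 0) (nat_lit 31829873456) (nat_lit 152) (nat_lit 27857713600) (nat_lit 0) (nat_lit 16297199078) (nat_lit 161) (nat_lit 5) (nat_lit 163) (nat_lit 4) (nat_lit 161) (nat_lit 4) (nat_lit 436) (nat_lit 342) (nat_lit 242)))) (XT.nd (nat_lit 156) (nat_lit 152) (nat_lit 0) (XT.nd (nat_lit 78) (nat_lit 76) (nat_lit 0) (XT.lf (nat_lit 0)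 (nat_lit 23626978388) (nat_lit 76) (nat_lit 35193160681) (nat_lit 76) (nat_lit 19654818531) (nat_lit 160) (nat_lit 4) (nat_lit 161) (nat_lit 5) (nat_lit 161) (nat_lit 4) (nat_lit 437) (nat_lit 342) (nat_lit 241)) (XT.lf (nat_lit 0) (nat_lit 6336639151) (nat_lit 152) (nat_lit 2553629764) (nat_lit 76) (nat_lit 72171597734) (nat_lit 159) (nat_lit 5) (nat_lit 161) (nat_lit 5) (nat_lit 160) (nat_lit 4) (nat_lit 438) (nat_lit 342) (nat_lit 240))) (XT.nd (nat_lit 78) (nat_lit 76) (nat_lit 0) (XT.lf (nat_lit 0) (nat_lit 34098962275) (nat_lit 152) (nat_lit 30315952888) (nat_lit 0) (nat_lit 19290504313) (nat_lit 158) (nat_lit 5) (nat_lit 160) (nat_lit 4) (nat_lit 158) (nat_lit 4) (nat_lit 439) (nat_lit 342) (nat_lit 239)) (XT.lf (nat_lit 0) (nat_lit 26401616895) (nat_lit 76) (nat_lit 37431728359) (nat_lit 76) (nat_lit 22618607508) (nat_lit 157) (nat_lit 4) (nat_lit 158) (nat_lit 5) (nat_lit 158) (nat_lit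 4) (nat_lit 440) (nat_lit 342) (nat_lit 238)))))) (XT.nd (nat_lit 624) (nat_lit 608) (nat_lit 0) (XT.nd (nat_lit 312) (nat_lit 304) (nat_lit 0) (XT.nd (nat_lit 156) (nat_lit 152) (nat_lit 0) (XT.nd (nat_lit 78) (nat_lit 76) (nat_lit 0) (XT.lf (nat_lit 0) (nat_lit 6039484518) (nat_lit 152) (nat_lit 2436618435) (nat_lit 76) (nat_lit 80830051468) (nat_lit 156) (nat_lit 5) (nat_lit 158) (nat_lit 5) (nat_lit 157) (nat_lit 4) (nat_lit 441) (nat_lit 342) (nat_lit 237)) (XT.lf (nat_lit 0) (nat_lit 36646525011) (nat_lit 152) (nat_lit 33043658928) (nat_lit 0) (nat_lit 22530533511) (nat_lit 155) (nat_lit 5) (nat_lit 157) (nat_lit 4) (nat_lit 155) (nat_lit 4) (nat_lit 442) (nat_lit 342) (nat_lit 236))) (XT.nd (nat_lit 78) (nat_lit 76) (nat_lit 0) (XT.lf (nat_lit 0) (nat_lit 29445245459) (nat_lit 76) (nat_lit 39962207047) (nat_lit 76) (nat_lit 25842379377) (nat_lit 154) (nat_lit 4) (nat_lit 155) (nat_lit 5)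 (nat_lit 155) (nat_lit 4) (nat_lit 443) (nat_lit 342) (nat_lit 235)) (XT.lf (nat_lit 0) (nat_lit 5755666293) (nat_lit 152) (nat_lit 2324365262) (nat_lit 76) (nat_lit 90318588326) (nat_lit 153) (nat_lit 5) (nat_lit 155) (nat_lit 5) (nat_lit 154) (nat_lit 4) (nat_lit 444) (nat_lit 342) (nat_lit 234)))) (XT.nd (nat_lit 156) (nat_lit 152) (nat_lit 0) (XT.nd (nat_lit 78) (nat_lit 76) (nat_lit 0) (XT.lf (nat_lit 0) (nat_lit 39499170933) (nat_lit 152) (nat_lit 36067869902) (nat_lit 0) (nat_lit 26044922662) (nat_lit 152) (nat_lit 5) (nat_lit 154) (nat_lit 4) (nat_lit 152) (nat_lit 4) (nat_lit 445) (nat_lit 342) (nat_lit 233)) (XT.lf (nat_lit 0) (nat_lit 32785922398) (nat_lit 76) (nat_lit 42812025665) (nat_lit 76) (nat_lit 29354621367) (nat_lit 151) (nat_lit 4) (nat_lit 152) (nat_lit 5) (nat_lit 152) (nat_lit 4) (nat_lit 446) (nat_lit 342) (nat_lit 232))) (XT.nd (nat_lit 78) (nat_lit 76) (nat_lit 0) (XT.lf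 (nat_lit 0) (nat_lit 5484693698) (nat_lit 152) (nat_lit 2216787954) (nat_lit 76) (nat_lit 100724558771) (nat_lit 150) (nat_lit 5) (nat_lit 152) (nat_lit 5) (nat_lit 151) (nat_lit 4) (nat_lit 447) (nat_lit 342) (nat_lit 231)) (XT.lf (nat_lit 0) (nat_lit 42686284363) (nat_lit 152) (nat_lit 39418378619) (nat_lit 0) (nat_lit 29864119938) (nat_lit 149) (nat_lit 5) (nat_lit 151) (nat_lit 4) (nat_lit 149) (nat_lit 4) (nat_lit 448) (nat_lit 342) (nat_lit 230))))) (XT.nd (nat_lit 312) (nat_lit 304) (nat_lit 0) (XT.nd (nat_lit 156) (nat_lit 152) (nat_lit 0) (XT.nd (nat_lit 78) (nat_lit 76) (nat_lit 0) (XT.lf (nat_lit 0) (nat_lit 36454602614) (nat_lit 76) (nat_lit 46011457766) (nat_lit 76) (nat_lit 33186696870) (nat_lit 148) (nat_lit 4) (nat_lit 149) (nat_lit 5) (nat_lit 149) (nat_lit 4) (nat_lit 449) (nat_lit 342) (nat_lit 229)) (XT.lf (nat_lit 0) (nat_lit 5226073741) (nat_lit 152) (nat_lit 2113782556) (nat_lit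 76) (nat_lit 112144241499) (nat_lit 147) (nat_lit 5) (nat_lit 149) (nat_lit 5) (nat_lit 148) (nat_lit 4) (nat_lit 450) (nat_lit 342) (nat_lit 228))) (XT.nd (nat_lit 78) (nat_lit 76) (nat_lit 0) (XT.lf (nat_lit 0) (nat_lit 46240314740) (nat_lit 152) (nat_lit 43128023555) (nat_lit 0) (nat_lit 34021658739) (nat_lit 146) (nat_lit 5) (nat_lit 148) (nat_lit 4) (nat_lit 146) (nat_lit 4) (nat_lit 451) (nat_lit 342) (nat_lit 227)) (XT.lf (nat_lit 0) (nat_lit 40485425749) (nat_lit 76) (nat_lit 49593926688) (nat_lit 76) (nat_lit 37373134564) (nat_lit 145) (nat_lit 4) (nat_lit 146) (nat_lit 5) (nat_lit 146) (nat_lit 4) (nat_lit 452) (nat_lit 342) (nat_lit 226)))) (XT.nd (nat_lit 156) (nat_lit 152) (nat_lit 0) (XT.nd (nat_lit 78) (nat_lit 76) (nat_lit 0) (XT.lf (nat_lit 0) (nat_lit 4979315858) (nat_lit 152) (nat_lit 2015229016) (nat_lit 76) (nat_lit 124683745111) (nat_lit 144) (nat_lit 5) (nat_lit 146) (nat_lit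 5) (nat_lit 145) (nat_lit 4) (nat_lit 453) (nat_lit 342) (nat_lit 225)) (XT.lf (nat_lit 0) (nat_lit 50197094753) (nat_lit 152) (nat_lit 47233007911) (nat_lit 0) (nat_lit 38554462321) (nat_lit 143) (nat_lit 5) (nat_lit 145) (nat_lit 4) (nat_lit 143) (nat_lit 4) (nat_lit 454) (nat_lit 342) (nat_lit 224))) (XT.nd (nat_lit 78) (nat_lit 76) (nat_lit 0) (XT.lf (nat_lit 0) (nat_lit 44916035669) (nat_lit 76) (nat_lit 53596338653) (nat_lit 76) (nat_lit 41951948827) (nat_lit 142) (nat_lit 4) (nat_lit 143) (nat_lit 5) (nat_lit 143) (nat_lit 4) (nat_lit 455) (nat_lit 342) (nat_lit 223)) (XT.lf (nat_lit 0) (nat_lit 4743935535) (nat_lit 152) (nat_lit 1920995685) (nat_lit 76) (nat_lit 138460005445) (nat_lit 141) (nat_lit 5) (nat_lit 143) (nat_lit 5) (nat_lit 142) (nat_lit 4) (nat_lit 456) (nat_lit 342) (nat_lit 222))))))) (XT.nd (nat_lit 1248) (nat_lit 1216) (nat_lit 0) (XT.nd (nat_lit 624) (nat_lit 608) (nat_lit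 0) (XT.nd (nat_lit 312) (nat_lit 304) (nat_lit 0) (XT.nd (nat_lit 156) (nat_lit 152) (nat_lit 0) (XT.nd (nat_lit 78) (nat_lit 76) (nat_lit 0) (XT.lf (nat_lit 0) (nat_lit 54596189745) (nat_lit 152) (nat_lit 51773249895) (nat_lit 0) (nat_lit 43503182563) (nat_lit 140) (nat_lit 5) (nat_lit 142) (nat_lit 4) (nat_lit 140) (nat_lit 4) (nat_lit 457) (nat_lit 342) (nat_lit 221)) (XT.lf (nat_lit 0) (nat_lit 49787934161) (nat_lit 76) (nat_lit 58059447306) (nat_lit 76) (nat_lit 46964994311) (nat_lit 139) (nat_lit 4) (nat_lit 140) (nat_lit 5) (nat_lit 140) (nat_lit 4) (nat_lit 458) (nat_lit 342) (nat_lit 220))) (XT.nd (nat_lit 78) (nat_lit 76) (nat_lit 0) (XT.lf (nat_lit 0) (nat_lit 4519457082) (nat_lit 152) (nat_lit 1830942939) (nat_lit 76) (nat_lit 153601887765) (nat_lit 138) (nat_lit 5) (nat_lit 140) (nat_lit 5) (nat_lit 139) (nat_lit 4) (nat_lit 459) (nat_lit 342) (nat_lit 219)) (XT.lf (nat_lit 0) (nat_lit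 59481281853) (nat_lit 152) (nat_lit 56792767710) (nat_lit 0) (nat_lit 48912575803) (nat_lit 137) (nat_lit 5) (nat_lit 139) (nat_lit 4) (nat_lit 137) (nat_lit 4) (nat_lit 460) (nat_lit 342) (nat_lit 218)))) (XT.nd (nat_lit 156) (nat_lit 152) (nat_lit 0) (XT.nd (nat_lit 78) (nat_lit 76) (nat_lit 0) (XT.lf (nat_lit 0) (nat_lit 55146872069) (nat_lit 76) (nat_lit 63028253450) (nat_lit 76) (nat_lit 52458357926) (nat_lit 136) (nat_lit 4) (nat_lit 137) (nat_lit 5) (nat_lit 137) (nat_lit 4) (nat_lit 461) (nat_lit 342) (nat_lit 217)) (XT.lf (nat_lit 0) (nat_lit 4305415742) (nat_lit 152) (nat_lit 1744926082) (nat_lit 76) (nat_lit 170251404049) (nat_lit 135) (nat_lit 5) (nat_lit 137) (nat_lit 5) (nat_lit 136) (nat_lit 4) (nat_lit 462) (nat_lit 342) (nat_lit 216))) (XT.nd (nat_lit 78) (nat_lit 76) (nat_lit 0) (XT.lf (nat_lit 0) (nat_lit 64900592675) (nat_lit 152) (nat_lit 62340103015) (nat_lit 0) (nat_lit 54831919110)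 (nat_lit 134) (nat_lit 5) (nat_lit 136) (nat_lit 4) (nat_lit 134) (nat_lit 4) (nat_lit 463) (nat_lit 342) (nat_lit 215)) (XT.lf (nat_lit 0) (nat_lit 61043281498) (nat_lit 76) (nat_lit 68552443986) (nat_lit 76) (nat_lit 58482791838) (nat_lit 133) (nat_lit 4) (nat_lit 134) (nat_lit 5) (nat_lit 134) (nat_lit 4) (nat_lit 464) (nat_lit 342) (nat_lit 214))))) (XT.nd (nat_lit 312) (nat_lit 304) (nat_lit 0) (XT.nd (nat_lit 156) (nat_lit 152) (nat_lit 0) (XT.nd (nat_lit 78) (nat_lit 76) (nat_lit 0) (XT.lf (nat_lit 0) (nat_lit 4101359249) (nat_lit 152) (nat_lit 1662797668) (nat_lit 76) (nat_lit 188565056755) (nat_lit 132) (nat_lit 5) (nat_lit 134) (nat_lit 5) (nat_lit 133) (nat_lit 4) (nat_lit 465) (nat_lit 342) (nat_lit 213)) (XT.lf (nat_lit 0) (nat_lit 70907348583) (nat_lit 152) (nat_lit 68468787002) (nat_lit 0) (nat_lit 61315470741) (nat_lit 131) (nat_lit 5) (nat_lit 133) (nat_lit 4) (nat_lit 131) (nat_lit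 4) (nat_lit 466) (nat_lit 342) (nat_lit 212))) (XT.nd (nat_lit 78) (nat_lit 76) (nat_lit 0) (XT.lf (nat_lit 0) (nat_lit 67532753114) (nat_lit 76) (nat_lit 74686874457) (nat_lit 76) (nat_lit 65094191533) (nat_lit 130) (nat_lit 4) (nat_lit 131) (nat_lit 5) (nat_lit 131) (nat_lit 4) (nat_lit 467) (nat_lit 342) (nat_lit 211)) (XT.lf (nat_lit 0) (nat_lit 3906848940) (nat_lit 152) (nat_lit 1584409340) (nat_lit 76) (nat_lit 208715321696) (nat_lit 129) (nat_lit 5) (nat_lit 131) (nat_lit 5) (nat_lit 130) (nat_lit 4) (nat_lit 468) (nat_lit 342) (nat_lit 210)))) (XT.nd (nat_lit 156) (nat_lit 152) (nat_lit 0) (XT.nd (nat_lit 78) (nat_lit 76) (nat_lit 0) (XT.lf (nat_lit 0) (nat_lit 77560293206) (nat_lit 152) (nat_lit 75237853606) (nat_lit 0) (nat_lit 68422979014) (nat_lit 128) (nat_lit 5) (nat_lit 130) (nat_lit 4) (nat_lit 128) (nat_lit 4) (nat_lit 469) (nat_lit 342) (nat_lit 209)) (XT.lf (nat_lit 0) (nat_lit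 74676562991) (nat_lit 76) (nat_lit 81492099926) (nat_lit 76) (nat_lit 72354123390) (nat_lit 127) (nat_lit 4) (nat_lit 128) (nat_lit 5) (nat_lit 128) (nat_lit 4) (nat_lit 470) (nat_lit 342) (nat_lit 208))) (XT.nd (nat_lit 78) (nat_lit 76) (nat_lit 0) (XT.lf (nat_lit 0) (nat_lit 3721460517) (nat_lit 152) (nat_lit 1509613278) (nat_lit 76) (nat_lit 230892284004) (nat_lit 126) (nat_lit 5) (nat_lit 128) (nat_lit 5) (nat_lit 127) (nat_lit 4) (nat_lit 471) (nat_lit 342) (nat_lit 207)) (XT.lf (nat_lit 0) (nat_lit 84924252031) (nat_lit 152) (nat_lit 82712404792) (nat_lit 0) (nat_lit 76220244313) (nat_lit 125) (nat_lit 5) (nat_lit 127) (nat_lit 4) (nat_lit 125) (nat_lit 4) (nat_lit 472) (nat_lit 342) (nat_lit 206)))))) (XT.nd (nat_lit 624) (nat_lit 608) (nat_lit 0) (XT.nd (nat_lit 312) (nat_lit 304) (nat_lit 0) (XT.nd (nat_lit 156) (nat_lit 152) (nat_lit 0) (XT.nd (nat_lit 78) (nat_lit 76) (nat_lit 0) (XT.lf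 (nat_lit 0) (nat_lit 82542253993) (nat_lit 76) (nat_lit 89034959383) (nat_lit 76) (nat_lit 80330406754) (nat_lit 124) (nat_lit 4) (nat_lit 125) (nat_lit 5) (nat_lit 125) (nat_lit 4) (nat_lit 473) (nat_lit 342) (nat_lit 205)) (XT.lf (nat_lit 0) (nat_lit 3544784515) (nat_lit 152) (nat_lit 1438263335) (nat_lit 76) (nat_lit 255305442649) (nat_lit 123) (nat_lit 5) (nat_lit 125) (nat_lit 5) (nat_lit 124) (nat_lit 4) (nat_lit 474) (nat_lit 342) (nat_lit 204))) (XT.nd (nat_lit 78) (nat_lit 76) (nat_lit 0) (XT.lf (nat_lit 0) (nat_lit 93070754560) (nat_lit 152) (nat_lit 90964233380) (nat_lit 0) (nat_lit 84779739471) (nat_lit 122) (nat_lit 5) (nat_lit 124) (nat_lit 4) (nat_lit 122) (nat_lit 4) (nat_lit 475) (nat_lit 342) (nat_lit 203)) (XT.lf (nat_lit 0) (nat_lit 91204277156) (nat_lit 76) (nat_lit 97389219364) (nat_lit 76) (nat_lit 89097755976) (nat_lit 121) (nat_lit 4) (nat_lit 122) (nat_lit 5) (nat_lit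 122) (nat_lit 4) (nat_lit 476) (nat_lit 342) (nat_lit 202)))) (XT.nd (nat_lit 156) (nat_lit 152) (nat_lit 0) (XT.nd (nat_lit 78) (nat_lit 76) (nat_lit 0) (XT.lf (nat_lit 0) (nat_lit 3376426553) (nat_lit 152) (nat_lit 1370215906) (nat_lit 76) (nat_lit 282185700608) (nat_lit 120) (nat_lit 5) (nat_lit 122) (nat_lit 5) (nat_lit 121) (nat_lit 4) (nat_lit 477) (nat_lit 342) (nat_lit 201)) (XT.lf (nat_lit 0) (nat_lit 102078720004) (nat_lit 152) (nat_lit 100072509357) (nat_lit 0) (nat_lit 94181294326) (nat_lit 119) (nat_lit 5) (nat_lit 121) (nat_lit 4) (nat_lit 119) (nat_lit 4) (nat_lit 478) (nat_lit 342) (nat_lit 200))) (XT.nd (nat_lit 78) (nat_lit 76) (nat_lit 0) (XT.lf (nat_lit 0) (nat_lit 100744699146) (nat_lit 76) (nat_lit 106636282994) (nat_lit 76) (nat_lit 98738488498) (nat_lit 118) (nat_lit 4) (nat_lit 119) (nat_lit 5) (nat_lit 119) (nat_lit 4) (nat_lit 479) (nat_lit 342) (nat_lit 199)) (XT.lf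 (nat_lit 0) (nat_lit 3216007396) (nat_lit 152) (nat_lit 1305330588) (nat_lit 76) (nat_lit 311787559556) (nat_lit 117) (nat_lit 5) (nat_lit 119) (nat_lit 5) (nat_lit 118) (nat_lit 4) (nat_lit 480) (nat_lit 342) (nat_lit 198))))) (XT.nd (nat_lit 312) (nat_lit 304) (nat_lit 0) (XT.nd (nat_lit 156) (nat_lit 152) (nat_lit 0) (XT.nd (nat_lit 78) (nat_lit 76) (nat_lit 0) (XT.lf (nat_lit 0) (nat_lit 112035213097) (nat_lit 152) (nat_lit 110124536290) (nat_lit 0) (nat_lit 104512850927) (nat_lit 116) (nat_lit 5) (nat_lit 118) (nat_lit 4) (nat_lit 116) (nat_lit 4) (nat_lit 481) (nat_lit 342) (nat_lit 197)) (XT.lf (nat_lit 0) (nat_lit 111253982503) (nat_lit 76) (nat_lit 116865971294) (nat_lit 76) (nat_lit 109343305696) (nat_lit 115) (nat_lit 4) (nat_lit 116) (nat_lit 5) (nat_lit 116) (nat_lit 4) (nat_lit 482) (nat_lit 342) (nat_lit 196))) (XT.nd (nat_lit 78) (nat_lit 76) (nat_lit 0) (XT.lf (nat_lit 0) (nat_lit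 3063162876) (nat_lit 152) (nat_lit 1243470679) (nat_lit 76) (nat_lit 344391539927) (nat_lit 114) (nat_lit 5) (nat_lit 116) (nat_lit 5) (nat_lit 115) (nat_lit 4) (nat_lit 483) (nat_lit 342) (nat_lit 195)) (XT.lf (nat_lit 0) (nat_lit 123036277246) (nat_lit 152) (nat_lit 121216585049) (nat_lit 0) (nat_lit 115871296491) (nat_lit 113) (nat_lit 5) (nat_lit 115) (nat_lit 4) (nat_lit 113) (nat_lit 4) (nat_lit 484) (nat_lit 342) (nat_lit 194)))) (XT.nd (nat_lit 156) (nat_lit 152) (nat_lit 0) (XT.nd (nat_lit 78) (nat_lit 76) (nat_lit 0) (XT.lf (nat_lit 0) (nat_lit 122831846072) (nat_lit 76) (nat_lit 128177384260) (nat_lit 76) (nat_lit 121012153875) (nat_lit 112) (nat_lit 4) (nat_lit 113) (nat_lit 5) (nat_lit 113) (nat_lit 4) (nat_lit 485) (nat_lit 342) (nat_lit 193)) (XT.lf (nat_lit 0) (nat_lit 2917543710) (nat_lit 152) (nat_lit 1184503522) (nat_lit 76) (nat_lit 380306849348) (nat_lit 111) (nat_lit 5) (nat_lit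 113) (nat_lit 5) (nat_lit 112) (nat_lit 4) (nat_lit 486) (nat_lit 342) (nat_lit 192))) (XT.nd (nat_lit 78) (nat_lit 76) (nat_lit 0) (XT.lf (nat_lit 0) (nat_lit 135187853010) (nat_lit 152) (nat_lit 133454812822) (nat_lit 0) (nat_lit 128363382010) (nat_lit 110) (nat_lit 5) (nat_lit 112) (nat_lit 4) (nat_lit 110) (nat_lit 4) (nat_lit 487) (nat_lit 342) (nat_lit 191)) (XT.lf (nat_lit 0) (nat_lit 135588213792) (nat_lit 76) (nat_lit 140679849975) (nat_lit 76) (nat_lit 133855173604) (nat_lit 109) (nat_lit 4) (nat_lit 110) (nat_lit 5) (nat_lit 110) (nat_lit 4) (nat_lit 488) (nat_lit 342) (nat_lit 190))))))))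
noncomputable def xc138 : XT := (XT.nd (nat_lit 42588) (nat_lit 0) (nat_lit 11400) (XT.nd (nat_lit 41964) (nat_lit 0) (nat_lit 16720) (XT.nd (nat_lit 312) (nat_lit 76) (nat_lit 0) (XT.nd (nat_lit 156) (nat_lit 152) (nat_lit 0) (XT.nd (nat_lit 78) (nat_lit 76) (nat_lit 0) (XT.lf (nat_lit 0) (nat_lit 2778815222) (nat_lit 152) (nat_lit 1128300757) (nat_lit 76) (nat_lit 419874324810) (nat_lit 108) (nat_lit 5) (nat_lit 110) (nat_lit 5) (nat_lit 109) (nat_lit 4) (nat_lit 489) (nat_lit 342) (nat_lit 189)) (XT.lf (nat_lit 0) (nat_lit 148606790672) (nat_lit 152) (nat_lit 146956276208) (nat_lit 0) (nat_lit 142106735204) (nat_lit 107) (nat_lit 5) (nat_lit 109) (nat_lit 4) (nat_lit 107) (nat_lit 4) (nat_lit 490) (nat_lit 342) (nat_lit 188))) (XT.nd (nat_lit 78) (nat_lit 76) (nat_lit 0) (XT.lf (nat_lit 0) (nat_lit 149644260869) (nat_lit 76) (nat_lit 154493970832) (nat_lit 76) (nat_lit 147993746404) (nat_lit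 106) (nat_lit 4) (nat_lit 107) (nat_lit 5) (nat_lit 107) (nat_lit 4) (nat_lit 491) (nat_lit 342) (nat_lit 187)) (XT.lf (nat_lit 0) (nat_lit 2646657009) (nat_lit 152) (nat_lit 1074738471) (nat_lit 76) (nat_lit 463469676589) (nat_lit 105) (nat_lit 5) (nat_lit 107) (nat_lit 5) (nat_lit 106) (nat_lit 4) (nat_lit 492) (nat_lit 342) (nat_lit 186)))) (XT.nd (nat_lit 41496) (nat_lit 0) (nat_lit 17936) (XT.nd (nat_lit 41418) (nat_lit 0) (nat_lit 18316) (XT.lf (nat_lit 0) (nat_lit 163421966580) (nat_lit 152) (nat_lit 161850048042) (nat_lit 0) (nat_lit 157230977444) (nat_lit 104) (nat_lit 5) (nat_lit 106) (nat_lit 4) (nat_lit 104) (nat_lit 4) (nat_lit 493) (nat_lit 342) (nat_lit 185)) (XT.lf (nat_lit 0) (nat_lit 1101617159) (nat_lit 0) (nat_lit 1101617159) (nat_lit 228) (nat_lit 1068890710) (nat_lit 345) (nat_lit 5) (nat_lit 345) (nat_lit 3) (nat_lit 348) (nat_lit 3) (nat_lit 343) (nat_lit 343) (nat_lit 334)))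 (XT.nd (nat_lit 78) (nat_lit 0) (nat_lit 0) (XT.lf (nat_lit 0) (nat_lit 402821404) (nat_lit 380) (nat_lit 1034679532) (nat_lit 380) (nat_lit 5145870210) (nat_lit 340) (nat_lit 3) (nat_lit 345) (nat_lit 3) (nat_lit 345) (nat_lit 5) (nat_lit 344) (nat_lit 343) (nat_lit 333)) (XT.lf (nat_lit 76) (nat_lit 2393721861) (nat_lit 0) (nat_lit 480699692) (nat_lit 380) (nat_lit 3754483922) (nat_lit 341) (nat_lit 5) (nat_lit 340) (nat_lit 3) (nat_lit 345) (nat_lit 5) (nat_lit 345) (nat_lit 343) (nat_lit 332))))) (XT.nd (nat_lit 312) (nat_lit 912) (nat_lit 0) (XT.nd (nat_lit 156) (nat_lit 0) (nat_lit 0) (XT.nd (nat_lit 78) (nat_lit 380) (nat_lit 0) (XT.lf (nat_lit 0) (nat_lit 5341540171) (nat_lit 304) (nat_lit 747173106) (nat_lit 380) (nat_lit 594406322) (nat_lit 341) (nat_lit 5) (nat_lit 345) (nat_lit 5) (nat_lit 346) (nat_lit 5) (nat_lit 346) (nat_lit 343) (nat_lit 331)) (XT.lf (nat_lit 0) (nat_lit 1058928194)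 (nat_lit 380) (nat_lit 3849145124) (nat_lit 456) (nat_lit 1835785190) (nat_lit 336) (nat_lit 5) (nat_lit 341) (nat_lit 5) (nat_lit 342) (nat_lit 5) (nat_lit 347) (nat_lit 343) (nat_lit 330))) (XT.nd (nat_lit 78) (nat_lit 0) (nat_lit 0) (XT.lf (nat_lit 0) (nat_lit 3403843452) (nat_lit 380) (nat_lit 175824441) (nat_lit 456) (nat_lit 3233393410) (nat_lit 336) (nat_lit 5) (nat_lit 341) (nat_lit 5) (nat_lit 342) (nat_lit 5) (nat_lit 348) (nat_lit 343) (nat_lit 329)) (XT.lf (nat_lit 76) (nat_lit 3713093420) (nat_lit 0) (nat_lit 2074318029) (nat_lit 456) (nat_lit 1102242439) (nat_lit 337) (nat_lit 5) (nat_lit 336) (nat_lit 5) (nat_lit 342) (nat_lit 5) (nat_lit 349) (nat_lit 343) (nat_lit 328)))) (XT.nd (nat_lit 156) (nat_lit 456) (nat_lit 0) (XT.nd (nat_lit 78) (nat_lit 0) (nat_lit 76) (XT.lf (nat_lit 76) (nat_lit 745924397) (nat_lit 0) (nat_lit 413028128) (nat_lit 532) (nat_lit 5816036985) (nat_lit 331)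 (nat_lit 5) (nat_lit 330) (nat_lit 5) (nat_lit 337) (nat_lit 5) (nat_lit 350) (nat_lit 343) (nat_lit 327)) (XT.lf (nat_lit 0) (nat_lit 3443682352) (nat_lit 456) (nat_lit 2222352068) (nat_lit 76) (nat_lit 1400278133) (nat_lit 331) (nat_lit 5) (nat_lit 337) (nat_lit 5) (nat_lit 332) (nat_lit 5) (nat_lit 351) (nat_lit 343) (nat_lit 326))) (XT.nd (nat_lit 78) (nat_lit 76) (nat_lit 0) (XT.lf (nat_lit 0) (nat_lit 1949336324) (nat_lit 456) (nat_lit 3808664047) (nat_lit 532) (nat_lit 1408433792) (nat_lit 325) (nat_lit 5) (nat_lit 331) (nat_lit 5) (nat_lit 332) (nat_lit 5) (nat_lit 352) (nat_lit 343) (nat_lit 325)) (XT.lf (nat_lit 0) (nat_lit 806018969) (nat_lit 532) (nat_lit 971301452) (nat_lit 76) (nat_lit 5497582028) (nat_lit 324) (nat_lit 5) (nat_lit 331) (nat_lit 5) (nat_lit 325) (nat_lit 5) (nat_lit 353) (nat_lit 343) (nat_lit 324)))))) (XT.nd (nat_lit 624) (nat_lit 2128) (nat_lit 0) (XT.nd (nat_lit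 312) (nat_lit 1292) (nat_lit 0) (XT.nd (nat_lit 156) (nat_lit 760) (nat_lit 0) (XT.nd (nat_lit 78) (nat_lit 608) (nat_lit 0) (XT.lf (nat_lit 0) (nat_lit 3031810342) (nat_lit 608) (nat_lit 3911541966) (nat_lit 76) (nat_lit 446889958) (nat_lit 317) (nat_lit 5) (nat_lit 325) (nat_lit 5) (nat_lit 318) (nat_lit 5) (nat_lit 354) (nat_lit 343) (nat_lit 323)) (XT.lf (nat_lit 0) (nat_lit 569828404) (nat_lit 608) (nat_lit 4744516372) (nat_lit 684) (nat_lit 2199731624) (nat_lit 309) (nat_lit 5) (nat_lit 317) (nat_lit 5) (nat_lit 318) (nat_lit 5) (nat_lit 355) (nat_lit 343) (nat_lit 322))) (XT.nd (nat_lit 78) (nat_lit 684) (nat_lit 0) (XT.lf (nat_lit 0) (nat_lit 24833519) (nat_lit 684) (nat_lit 2327293898) (nat_lit 76) (nat_lit 5293919038) (nat_lit 308) (nat_lit 5) (nat_lit 317) (nat_lit 5) (nat_lit 309) (nat_lit 5) (nat_lit 356) (nat_lit 343) (nat_lit 321)) (XT.lf (nat_lit 0) (nat_lit 2227052040) (nat_lit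 760) (nat_lit 5317192595) (nat_lit 76) (nat_lit 241549793) (nat_lit 299) (nat_lit 5) (nat_lit 309) (nat_lit 5) (nat_lit 300) (nat_lit 5) (nat_lit 357) (nat_lit 343) (nat_lit 320)))) (XT.nd (nat_lit 156) (nat_lit 532) (nat_lit 0) (XT.nd (nat_lit 78) (nat_lit 760) (nat_lit 0) (XT.lf (nat_lit 0) (nat_lit 4519462389) (nat_lit 760) (nat_lit 479182262) (nat_lit 76) (nat_lit 2934881102) (nat_lit 299) (nat_lit 5) (nat_lit 309) (nat_lit 5) (nat_lit 300) (nat_lit 5) (nat_lit 358) (nat_lit 343) (nat_lit 319)) (XT.lf (nat_lit 0) (nat_lit 4659865477) (nat_lit 760) (nat_lit 2245535109) (nat_lit 836) (nat_lit 1184297692) (nat_lit 289) (nat_lit 5) (nat_lit 299) (nat_lit 5) (nat_lit 300) (nat_lit 5) (nat_lit 359) (nat_lit 343) (nat_lit 318))) (XT.nd (nat_lit 78) (nat_lit 0) (nat_lit 0) (XT.lf (nat_lit 0) (nat_lit 1074465385) (nat_lit 532) (nat_lit 6500618147) (nat_lit 76) (nat_lit 679965784) (nat_lit 282) (nat_lit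 5) (nat_lit 289) (nat_lit 5) (nat_lit 283) (nat_lit 5) (nat_lit 360) (nat_lit 343) (nat_lit 317)) (XT.lf (nat_lit 0) (nat_lit 3412940830) (nat_lit 532) (nat_lit 1260536575) (nat_lit 76) (nat_lit 3753891047) (nat_lit 282) (nat_lit 5) (nat_lit 289) (nat_lit 5) (nat_lit 283) (nat_lit 5) (nat_lit 361) (nat_lit 343) (nat_lit 316))))) (XT.nd (nat_lit 312) (nat_lit 988) (nat_lit 0) (XT.nd (nat_lit 156) (nat_lit 380) (nat_lit 0) (XT.nd (nat_lit 78) (nat_lit 380) (nat_lit 0) (XT.lf (nat_lit 0) (nat_lit 4288740942) (nat_lit 380) (nat_lit 1561533821) (nat_lit 456) (nat_lit 2758932044) (nat_lit 277) (nat_lit 5) (nat_lit 282) (nat_lit 5) (nat_lit 283) (nat_lit 5) (nat_lit 362) (nat_lit 343) (nat_lit 315)) (XT.lf (nat_lit 0) (nat_lit 1281566230) (nat_lit 380) (nat_lit 7113794144) (nat_lit 456) (nat_lit 405482458) (nat_lit 272) (nat_lit 5) (nat_lit 277) (nat_lit 5) (nat_lit 278) (nat_lit 5) (nat_lit 363) (nat_lit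 343) (nat_lit 314))) (XT.nd (nat_lit 78) (nat_lit 304) (nat_lit 0) (XT.lf (nat_lit 0) (nat_lit 2018229403) (nat_lit 456) (nat_lit 1837589032) (nat_lit 76) (nat_lit 5143694543) (nat_lit 271) (nat_lit 5) (nat_lit 277) (nat_lit 5) (nat_lit 272) (nat_lit 5) (nat_lit 364) (nat_lit 343) (nat_lit 313)) (XT.lf (nat_lit 0) (nat_lit 4165490959) (nat_lit 304) (nat_lit 371649325) (nat_lit 380) (nat_lit 4671261969) (nat_lit 267) (nat_lit 5) (nat_lit 271) (nat_lit 5) (nat_lit 272) (nat_lit 5) (nat_lit 365) (nat_lit 343) (nat_lit 312)))) (XT.nd (nat_lit 156) (nat_lit 608) (nat_lit 0) (XT.nd (nat_lit 78) (nat_lit 76) (nat_lit 0) (XT.lf (nat_lit 0) (nat_lit 994880481) (nat_lit 304) (nat_lit 6210312269) (nat_lit 380) (nat_lit 2221383442) (nat_lit 263) (nat_lit 5) (nat_lit 267) (nat_lit 5) (nat_lit 268) (nat_lit 5) (nat_lit 366) (nat_lit 343) (nat_lit 311)) (XT.lf (nat_lit 0) (nat_lit 358350764) (nat_lit 380) (nat_lit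 2247180772) (nat_lit 76) (nat_lit 7048923515) (nat_lit 262) (nat_lit 5) (nat_lit 267) (nat_lit 5) (nat_lit 263) (nat_lit 5) (nat_lit 367) (nat_lit 343) (nat_lit 310))) (XT.nd (nat_lit 78) (nat_lit 304) (nat_lit 0) (XT.lf (nat_lit 0) (nat_lit 3007972842) (nat_lit 380) (nat_lit 5653571399) (nat_lit 76) (nat_lit 1229585095) (nat_lit 258) (nat_lit 5) (nat_lit 263) (nat_lit 5) (nat_lit 259) (nat_lit 5) (nat_lit 368) (nat_lit 343) (nat_lit 309)) (XT.lf (nat_lit 0) (nat_lit 881910528) (nat_lit 304) (nat_lit 4934303831) (nat_lit 380) (nat_lit 4322116060) (nat_lit 254) (nat_lit 5) (nat_lit 258) (nat_lit 5) (nat_lit 259) (nat_lit 5) (nat_lit 369) (nat_lit 343) (nat_lit 308)))))))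
noncomputable def xc139 : XT := (XT.nd (nat_lit 1248) (nat_lit 1900) (nat_lit 0) (XT.nd (nat_lit 624) (nat_lit 1140) (nat_lit 0) (XT.nd (nat_lit 312) (nat_lit 760) (nat_lit 0) (XT.nd (nat_lit 156) (nat_lit 304) (nat_lit 0) (XT.nd (nat_lit 78) (nat_lit 304) (nat_lit 0) (XT.lf (nat_lit 0) (nat_lit 7852099346) (nat_lit 304) (nat_lit 941396788) (nat_lit 380) (nat_lit 1602964013) (nat_lit 254) (nat_lit 5) (nat_lit 258) (nat_lit 5) (nat_lit 259) (nat_lit 5) (nat_lit 370) (nat_lit 343) (nat_lit 307)) (XT.lf (nat_lit 0) (nat_lit 1269936432) (nat_lit 304) (nat_lit 6175266953) (nat_lit 76) (nat_lit 3218422138) (nat_lit 250) (nat_lit 5) (nat_lit 254) (nat_lit 5) (nat_lit 251) (nat_lit 5) (nat_lit 371) (nat_lit 343) (nat_lit 306))) (XT.nd (nat_lit 78) (nat_lit 0) (nat_lit 0) (XT.lf (nat_lit 0) (nat_lit 918310895) (nat_lit 304) (nat_lit 3324327435) (nat_lit 380) (nat_lit 6699695606) (nat_lit 246) (nat_lit 5)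 (nat_lit 250) (nat_lit 5) (nat_lit 251) (nat_lit 5) (nat_lit 372) (nat_lit 343) (nat_lit 305)) (XT.lf (nat_lit 0) (nat_lit 7423680893) (nat_lit 380) (nat_lit 2755171441) (nat_lit 76) (nat_lit 1053140156) (nat_lit 246) (nat_lit 5) (nat_lit 251) (nat_lit 5) (nat_lit 247) (nat_lit 5) (nat_lit 373) (nat_lit 343) (nat_lit 304)))) (XT.nd (nat_lit 156) (nat_lit 228) (nat_lit 0) (XT.nd (nat_lit 78) (nat_lit 304) (nat_lit 0) (XT.lf (nat_lit 0) (nat_lit 4894505089) (nat_lit 228) (nat_lit 5940905291) (nat_lit 304) (nat_lit 697141854) (nat_lit 243) (nat_lit 5) (nat_lit 246) (nat_lit 5) (nat_lit 247) (nat_lit 5) (nat_lit 374) (nat_lit 343) (nat_lit 303)) (XT.lf (nat_lit 0) (nat_lit 1085006501) (nat_lit 228) (nat_lit 1407996550) (nat_lit 304) (nat_lit 9352848015) (nat_lit 239) (nat_lit 5) (nat_lit 242) (nat_lit 5) (nat_lit 243) (nat_lit 5) (nat_lit 375) (nat_lit 343) (nat_lit 302))) (XT.nd (nat_lit 78) (nat_lit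 228) (nat_lit 0) (XT.lf (nat_lit 0) (nat_lit 5928176552) (nat_lit 304) (nat_lit 2896537502) (nat_lit 76) (nat_lit 3344081866) (nat_lit 239) (nat_lit 5) (nat_lit 243) (nat_lit 5) (nat_lit 240) (nat_lit 5) (nat_lit 376) (nat_lit 343) (nat_lit 301)) (XT.lf (nat_lit 0) (nat_lit 5429376249) (nat_lit 228) (nat_lit 4158688083) (nat_lit 304) (nat_lit 2917175903) (nat_lit 236) (nat_lit 5) (nat_lit 239) (nat_lit 5) (nat_lit 240) (nat_lit 5) (nat_lit 377) (nat_lit 343) (nat_lit 300))))) (XT.nd (nat_lit 312) (nat_lit 456) (nat_lit 0) (XT.nd (nat_lit 156) (nat_lit 380) (nat_lit 0) (XT.nd (nat_lit 78) (nat_lit 0) (nat_lit 0) (XT.lf (nat_lit 0) (nat_lit 583337141) (nat_lit 304) (nat_lit 11502313238) (nat_lit 76) (nat_lit 770948565) (nat_lit 232) (nat_lit 5) (nat_lit 236) (nat_lit 5) (nat_lit 233) (nat_lit 5) (nat_lit 378) (nat_lit 343) (nat_lit 299)) (XT.lf (nat_lit 0) (nat_lit 4297268056) (nat_lit 304) (nat_lit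 2969545642) (nat_lit 76) (nat_lit 5949499340) (nat_lit 232) (nat_lit 5) (nat_lit 236) (nat_lit 5) (nat_lit 233) (nat_lit 5) (nat_lit 379) (nat_lit 343) (nat_lit 298))) (XT.nd (nat_lit 78) (nat_lit 228) (nat_lit 0) (XT.lf (nat_lit 0) (nat_lit 6105610997) (nat_lit 152) (nat_lit 2135615535) (nat_lit 228) (nat_lit 5350569755) (nat_lit 230) (nat_lit 5) (nat_lit 232) (nat_lit 5) (nat_lit 233) (nat_lit 5) (nat_lit 380) (nat_lit 343) (nat_lit 297)) (XT.lf (nat_lit 0) (nat_lit 1675690104) (nat_lit 228) (nat_lit 10784508706) (nat_lit 304) (nat_lit 1521964092) (nat_lit 227) (nat_lit 5) (nat_lit 230) (nat_lit 5) (nat_lit 231) (nat_lit 5) (nat_lit 381) (nat_lit 343) (nat_lit 296)))) (XT.nd (nat_lit 156) (nat_lit 228) (nat_lit 0) (XT.nd (nat_lit 78) (nat_lit 152) (nat_lit 0) (XT.lf (nat_lit 0) (nat_lit 2532104301) (nat_lit 304) (nat_lit 2987013806) (nat_lit 76) (nat_lit 8865280330) (nat_lit 226) (nat_lit 5)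 (nat_lit 230) (nat_lit 5) (nat_lit 227) (nat_lit 5) (nat_lit 382) (nat_lit 343) (nat_lit 295)) (XT.lf (nat_lit 0) (nat_lit 6800097211) (nat_lit 228) (nat_lit 7886387707) (nat_lit 76) (nat_lit 115894865) (nat_lit 224) (nat_lit 5) (nat_lit 227) (nat_lit 5) (nat_lit 225) (nat_lit 5) (nat_lit 383) (nat_lit 343) (nat_lit 294))) (XT.nd (nat_lit 78) (nat_lit 76) (nat_lit 0) (XT.lf (nat_lit 0) (nat_lit 2076726763) (nat_lit 152) (nat_lit 9332194554) (nat_lit 228) (nat_lit 3825967301) (nat_lit 222) (nat_lit 5) (nat_lit 224) (nat_lit 5) (nat_lit 225) (nat_lit 5) (nat_lit 384) (nat_lit 343) (nat_lit 293)) (XT.lf (nat_lit 0) (nat_lit 630420941) (nat_lit 228) (nat_lit 2959314352) (nat_lit 76) (nat_lit 12094393401) (nat_lit 221) (nat_lit 5) (nat_lit 224) (nat_lit 5) (nat_lit 222) (nat_lit 5) (nat_lit 385) (nat_lit 343) (nat_lit 292)))))) (XT.nd (nat_lit 624) (nat_lit 912) (nat_lit 0) (XT.nd (nat_lit 312) (nat_lit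 456) (nat_lit 0) (XT.nd (nat_lit 156) (nat_lit 228) (nat_lit 0) (XT.nd (nat_lit 78) (nat_lit 152) (nat_lit 0) (XT.lf (nat_lit 0) (nat_lit 5300127886) (nat_lit 228) (nat_lit 8325118840) (nat_lit 76) (nat_lit 2521494164) (nat_lit 219) (nat_lit 5) (nat_lit 222) (nat_lit 5) (nat_lit 220) (nat_lit 5) (nat_lit 386) (nat_lit 343) (nat_lit 291)) (XT.lf (nat_lit 0) (nat_lit 2562049391) (nat_lit 152) (nat_lit 7747195313) (nat_lit 228) (nat_lit 6317942765) (nat_lit 217) (nat_lit 5) (nat_lit 219) (nat_lit 5) (nat_lit 220) (nat_lit 5) (nat_lit 387) (nat_lit 343) (nat_lit 290))) (XT.nd (nat_lit 78) (nat_lit 228) (nat_lit 0) (XT.lf (nat_lit 0) (nat_lit 14209158772) (nat_lit 152) (nat_lit 1457727151) (nat_lit 228) (nat_lit 1459867027) (nat_lit 217) (nat_lit 5) (nat_lit 219) (nat_lit 5) (nat_lit 220) (nat_lit 5) (nat_lit 388) (nat_lit 343) (nat_lit 289)) (XT.lf (nat_lit 0) (nat_lit 3705793818) (nat_lit 228) (nat_lit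 8781185089) (nat_lit 76) (nat_lit 5152414416) (nat_lit 214) (nat_lit 5) (nat_lit 217) (nat_lit 5) (nat_lit 215) (nat_lit 5) (nat_lit 389) (nat_lit 343) (nat_lit 288)))) (XT.nd (nat_lit 156) (nat_lit 304) (nat_lit 0) (XT.nd (nat_lit 78) (nat_lit 0) (nat_lit 0) (XT.lf (nat_lit 0) (nat_lit 3128649728) (nat_lit 152) (nat_lit 6033866477) (nat_lit 228) (nat_lit 9009860918) (nat_lit 212) (nat_lit 5) (nat_lit 214) (nat_lit 5) (nat_lit 215) (nat_lit 5) (nat_lit 390) (nat_lit 343) (nat_lit 287)) (XT.lf (nat_lit 0) (nat_lit 15014066904) (nat_lit 228) (nat_lit 2871884290) (nat_lit 76) (nat_lit 839959308) (nat_lit 212) (nat_lit 5) (nat_lit 215) (nat_lit 5) (nat_lit 213) (nat_lit 4) (nat_lit 391) (nat_lit 343) (nat_lit 286))) (XT.nd (nat_lit 78) (nat_lit 152) (nat_lit 0) (XT.lf (nat_lit 0) (nat_lit 2012615122) (nat_lit 152) (nat_lit 9265699470) (nat_lit 76) (nat_lit 8016321612) (nat_lit 210) (nat_lit 5) (nat_lit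 212) (nat_lit 5) (nat_lit 211) (nat_lit 5) (nat_lit 392) (nat_lit 343) (nat_lit 285)) (XT.lf (nat_lit 0) (nat_lit 3775466346) (nat_lit 152) (nat_lit 4192834860) (nat_lit 228) (nat_lit 11916967154) (nat_lit 208) (nat_lit 5) (nat_lit 210) (nat_lit 5) (nat_lit 211) (nat_lit 5) (nat_lit 393) (nat_lit 343) (nat_lit 284))))) (XT.nd (nat_lit 312) (nat_lit 608) (nat_lit 0) (XT.nd (nat_lit 156) (nat_lit 152) (nat_lit 0) (XT.nd (nat_lit 78) (nat_lit 152) (nat_lit 0) (XT.lf (nat_lit 0) (nat_lit 14393638701) (nat_lit 228) (nat_lit 2829655260) (nat_lit 76) (nat_lit 3273544807) (nat_lit 208) (nat_lit 5) (nat_lit 211) (nat_lit 5) (nat_lit 209) (nat_lit 4) (nat_lit 394) (nat_lit 343) (nat_lit 283)) (XT.lf (nat_lit 0) (nat_lit 213983500) (nat_lit 152) (nat_lit 9789047536) (nat_lit 76) (nat_lit 11125317266) (nat_lit 206) (nat_lit 5) (nat_lit 208) (nat_lit 5) (nat_lit 207) (nat_lit 5) (nat_lit 395) (nat_lit 343)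 (nat_lit 282))) (XT.nd (nat_lit 78) (nat_lit 0) (nat_lit 0) (XT.lf (nat_lit 0) (nat_lit 4503175307) (nat_lit 152) (nat_lit 2221403867) (nat_lit 228) (nat_lit 15057718491) (nat_lit 204) (nat_lit 5) (nat_lit 206) (nat_lit 5) (nat_lit 207) (nat_lit 5) (nat_lit 396) (nat_lit 343) (nat_lit 281)) (XT.lf (nat_lit 0) (nat_lit 13785995231) (nat_lit 228) (nat_lit 2772677668) (nat_lit 76) (nat_lit 5899007069) (nat_lit 204) (nat_lit 5) (nat_lit 207) (nat_lit 5) (nat_lit 205) (nat_lit 4) (nat_lit 397) (nat_lit 343) (nat_lit 280)))) (XT.nd (nat_lit 156) (nat_lit 304) (nat_lit 0) (XT.nd (nat_lit 78) (nat_lit 228) (nat_lit 0) (XT.lf (nat_lit 0) (nat_lit 12768209391) (nat_lit 76) (nat_lit 8633660763) (nat_lit 152) (nat_lit 1754891827) (nat_lit 203) (nat_lit 5) (nat_lit 204) (nat_lit 5) (nat_lit 205) (nat_lit 4) (nat_lit 398) (nat_lit 343) (nat_lit 279)) (XT.lf (nat_lit 0) (nat_lit 5314032294) (nat_lit 152) (nat_lit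 113858437) (nat_lit 228) (nat_lit 18453786196) (nat_lit 200) (nat_lit 5) (nat_lit 202) (nat_lit 5) (nat_lit 203) (nat_lit 5) (nat_lit 399) (nat_lit 343) (nat_lit 278))) (XT.nd (nat_lit 78) (nat_lit 304) (nat_lit 0) (XT.lf (nat_lit 0) (nat_lit 13193499109) (nat_lit 228) (nat_lit 2704625239) (nat_lit 76) (nat_lit 8729141709) (nat_lit 200) (nat_lit 5) (nat_lit 203) (nat_lit 5) (nat_lit 201) (nat_lit 4) (nat_lit 400) (nat_lit 343) (nat_lit 277)) (XT.nd (nat_lit 78) (nat_lit 228) (nat_lit 0) (XT.lf (nat_lit 0) (nat_lit 14348487668) (nat_lit 76) (nat_lit 7192360179) (nat_lit 152) (nat_lit 3859613798) (nat_lit 199) (nat_lit 5) (nat_lit 200) (nat_lit 5) (nat_lit 201) (nat_lit 4) (nat_lit 401) (nat_lit 343) (nat_lit 276)) (XT.lf (nat_lit 0) (nat_lit 4106828270) (nat_lit 228) (nat_lit 20025187939) (nat_lit 76) (nat_lit 2069875914) (nat_lit 196) (nat_lit 5) (nat_lit 199) (nat_lit 5) (nat_lit 197) (nat_lit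 4) (nat_lit 402) (nat_lit 343) (nat_lit 275))))))))
noncomputable def xc140 : XT := (XT.nd (nat_lit 2496) (nat_lit 2432) (nat_lit 0) (XT.nd (nat_lit 1248) (nat_lit 1216) (nat_lit 0) (XT.nd (nat_lit 624) (nat_lit 608) (nat_lit 0) (XT.nd (nat_lit 312) (nat_lit 304) (nat_lit 0) (XT.nd (nat_lit 156) (nat_lit 228) (nat_lit 0) (XT.nd (nat_lit 78) (nat_lit 76) (nat_lit 0) (XT.lf (nat_lit 0) (nat_lit 12617873620) (nat_lit 228) (nat_lit 2628469934) (nat_lit 76) (nat_lit 11780087479) (nat_lit 196) (nat_lit 5) (nat_lit 199) (nat_lit 5) (nat_lit 197) (nat_lit 4) (nat_lit 403) (nat_lit 343) (nat_lit 274)) (XT.lf (nat_lit 0) (nat_lit 16095426813) (nat_lit 76) (nat_lit 5679713494) (nat_lit 152) (nat_lit 6106023127) (nat_lit 195) (nat_lit 5) (nat_lit 196) (nat_lit 5) (nat_lit 197) (nat_lit 4) (nat_lit 404) (nat_lit 343) (nat_lit 273))) (XT.nd (nat_lit 78) (nat_lit 0) (nat_lit 0) (XT.lf (nat_lit 0) (nat_lit 2726160548)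 (nat_lit 228) (nat_lit 21639753027) (nat_lit 76) (nat_lit 4400774561) (nat_lit 192) (nat_lit 5) (nat_lit 195) (nat_lit 5) (nat_lit 193) (nat_lit 4) (nat_lit 405) (nat_lit 343) (nat_lit 272)) (XT.lf (nat_lit 0) (nat_lit 12060326570) (nat_lit 228) (nat_lit 2546608774) (nat_lit 76) (nat_lit 15071270014) (nat_lit 192) (nat_lit 5) (nat_lit 195) (nat_lit 5) (nat_lit 193) (nat_lit 4) (nat_lit 406) (nat_lit 343) (nat_lit 271)))) (XT.nd (nat_lit 156) (nat_lit 76) (nat_lit 0) (XT.nd (nat_lit 78) (nat_lit 152) (nat_lit 0) (XT.lf (nat_lit 0) (nat_lit 18022763913) (nat_lit 76) (nat_lit 4090866913) (nat_lit 152) (nat_lit 8509046117) (nat_lit 191) (nat_lit 5) (nat_lit 192) (nat_lit 5) (nat_lit 193) (nat_lit 4) (nat_lit 407) (nat_lit 343) (nat_lit 270)) (XT.lf (nat_lit 0) (nat_lit 1277043507) (nat_lit 152) (nat_lit 23427946782) (nat_lit 76) (nat_lit 6895778605) (nat_lit 189) (nat_lit 5) (nat_lit 191) (nat_lit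 5) (nat_lit 190) (nat_lit 4) (nat_lit 408) (nat_lit 343) (nat_lit 269))) (XT.nd (nat_lit 78) (nat_lit 76) (nat_lit 0) (XT.lf (nat_lit 0) (nat_lit 11521651674) (nat_lit 152) (nat_lit 2460968059) (nat_lit 76) (nat_lit 18625412392) (nat_lit 189) (nat_lit 5) (nat_lit 191) (nat_lit 5) (nat_lit 190) (nat_lit 4) (nat_lit 409) (nat_lit 343) (nat_lit 268)) (XT.lf (nat_lit 0) (nat_lit 20146357068) (nat_lit 76) (nat_lit 2419271099) (nat_lit 152) (nat_lit 11085673453) (nat_lit 188) (nat_lit 5) (nat_lit 189) (nat_lit 5) (nat_lit 190) (nat_lit 4) (nat_lit 410) (nat_lit 343) (nat_lit 267))))) (XT.nd (nat_lit 312) (nat_lit 304) (nat_lit 0) (XT.nd (nat_lit 156) (nat_lit 152) (nat_lit 0) (XT.nd (nat_lit 78) (nat_lit 76) (nat_lit 0) (XT.lf (nat_lit 0) (nat_lit 9317671610) (nat_lit 76) (nat_lit 25156458646) (nat_lit 76) (nat_lit 256987995) (nat_lit 187) (nat_lit 4) (nat_lit 188) (nat_lit 5) (nat_lit 188) (nat_lit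 4) (nat_lit 411) (nat_lit 343) (nat_lit 266)) (XT.lf (nat_lit 0) (nat_lit 11002311496) (nat_lit 152) (nat_lit 2373089006) (nat_lit 76) (nat_lit 22468606388) (nat_lit 186) (nat_lit 5) (nat_lit 188) (nat_lit 5) (nat_lit 187) (nat_lit 4) (nat_lit 412) (nat_lit 343) (nat_lit 265))) (XT.nd (nat_lit 78) (nat_lit 76) (nat_lit 0) (XT.lf (nat_lit 0) (nat_lit 22484270684) (nat_lit 76) (nat_lit 656756073) (nat_lit 152) (nat_lit 13855048193) (nat_lit 185) (nat_lit 5) (nat_lit 186) (nat_lit 5) (nat_lit 187) (nat_lit 4) (nat_lit 413) (nat_lit 343) (nat_lit 264)) (XT.lf (nat_lit 0) (nat_lit 10551429572) (nat_lit 76) (nat_lit 25713211591) (nat_lit 76) (nat_lit 1922207081) (nat_lit 184) (nat_lit 4) (nat_lit 185) (nat_lit 5) (nat_lit 185) (nat_lit 4) (nat_lit 414) (nat_lit 343) (nat_lit 263)))) (XT.nd (nat_lit 156) (nat_lit 152) (nat_lit 0) (XT.nd (nat_lit 78) (nat_lit 76) (nat_lit 0) (XT.lf (nat_lit 0) (nat_lit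 10502505231) (nat_lit 152) (nat_lit 2284198097) (nat_lit 76) (nat_lit 26630439999) (nat_lit 183) (nat_lit 5) (nat_lit 185) (nat_lit 5) (nat_lit 184) (nat_lit 4) (nat_lit 415) (nat_lit 343) (nat_lit 262)) (XT.lf (nat_lit 0) (nat_lit 23869296962) (nat_lit 152) (nat_lit 15650989828) (nat_lit 0) (nat_lit 1167818665) (nat_lit 182) (nat_lit 5) (nat_lit 184) (nat_lit 4) (nat_lit 182) (nat_lit 4) (nat_lit 416) (nat_lit 343) (nat_lit 261))) (XT.nd (nat_lit 78) (nat_lit 76) (nat_lit 0) (XT.lf (nat_lit 0) (nat_lit 11905694885) (nat_lit 76) (nat_lit 26409018785) (nat_lit 76) (nat_lit 3687387751) (nat_lit 181) (nat_lit 4) (nat_lit 182) (nat_lit 5) (nat_lit 182) (nat_lit 4) (nat_lit 417) (nat_lit 343) (nat_lit 260)) (XT.lf (nat_lit 0) (nat_lit 10022224029) (nat_lit 152) (nat_lit 2195264854) (nat_lit 76) (nat_lit 31144178243) (nat_lit 180) (nat_lit 5) (nat_lit 182) (nat_lit 5) (nat_lit 181) (nat_lit 4) (nat_lit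 418) (nat_lit 343) (nat_lit 259)))))) (XT.nd (nat_lit 624) (nat_lit 608) (nat_lit 0) (XT.nd (nat_lit 312) (nat_lit 304) (nat_lit 0) (XT.nd (nat_lit 156) (nat_lit 152) (nat_lit 0) (XT.nd (nat_lit 78) (nat_lit 76) (nat_lit 0) (XT.lf (nat_lit 0) (nat_lit 24755132480) (nat_lit 152) (nat_lit 16928173305) (nat_lit 0) (nat_lit 3079796060) (nat_lit 179) (nat_lit 5) (nat_lit 181) (nat_lit 4) (nat_lit 179) (nat_lit 4) (nat_lit 419) (nat_lit 343) (nat_lit 258)) (XT.lf (nat_lit 0) (nat_lit 13391805482) (nat_lit 76) (nat_lit 27256762433) (nat_lit 76) (nat_lit 5564846306) (nat_lit 178) (nat_lit 4) (nat_lit 179) (nat_lit 5) (nat_lit 179) (nat_lit 4) (nat_lit 420) (nat_lit 343) (nat_lit 257))) (XT.nd (nat_lit 78) (nat_lit 76) (nat_lit 0) (XT.lf (nat_lit 0) (nat_lit 9561296116) (nat_lit 152) (nat_lit 2107049283) (nat_lit 76) (nat_lit 36046995483) (nat_lit 177) (nat_lit 5) (nat_lit 179) (nat_lit 5) (nat_lit 178)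 (nat_lit 4) (nat_lit 421) (nat_lit 343) (nat_lit 256)) (XT.lf (nat_lit 0) (nat_lit 25801053794) (nat_lit 152) (nat_lit 18346806960) (nat_lit 0) (nat_lit 5112725599) (nat_lit 176) (nat_lit 5) (nat_lit 178) (nat_lit 4) (nat_lit 176) (nat_lit 4) (nat_lit 422) (nat_lit 343) (nat_lit 255)))) (XT.nd (nat_lit 156) (nat_lit 152) (nat_lit 0) (XT.nd (nat_lit 78) (nat_lit 76) (nat_lit 0) (XT.lf (nat_lit 0) (nat_lit 15022539773) (nat_lit 76) (nat_lit 28270261300) (nat_lit 76) (nat_lit 7568292940) (nat_lit 175) (nat_lit 4) (nat_lit 176) (nat_lit 5) (nat_lit 176) (nat_lit 4) (nat_lit 423) (nat_lit 343) (nat_lit 254)) (XT.lf (nat_lit 0) (nat_lit 9119423505) (nat_lit 152) (nat_lit 2020140807) (nat_lit 76) (nat_lit 41380258647) (nat_lit 174) (nat_lit 5) (nat_lit 176) (nat_lit 5) (nat_lit 175) (nat_lit 4) (nat_lit 424) (nat_lit 343) (nat_lit 253))) (XT.nd (nat_lit 78) (nat_lit 76) (nat_lit 0) (XT.lf (nat_lit 0)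 (nat_lit 27021062908) (nat_lit 152) (nat_lit 19921780209) (nat_lit 0) (nat_lit 7280747645) (nat_lit 173) (nat_lit 5) (nat_lit 175) (nat_lit 4) (nat_lit 173) (nat_lit 4) (nat_lit 425) (nat_lit 343) (nat_lit 252)) (XT.lf (nat_lit 0) (nat_lit 16812210255) (nat_lit 76) (nat_lit 29464464616) (nat_lit 76) (nat_lit 9712927556) (nat_lit 172) (nat_lit 4) (nat_lit 173) (nat_lit 5) (nat_lit 173) (nat_lit 4) (nat_lit 426) (nat_lit 343) (nat_lit 251))))) (XT.nd (nat_lit 312) (nat_lit 304) (nat_lit 0) (XT.nd (nat_lit 156) (nat_lit 152) (nat_lit 0) (XT.nd (nat_lit 78) (nat_lit 76) (nat_lit 0) (XT.lf (nat_lit 0) (nat_lit 8696211837) (nat_lit 152) (nat_lit 1934990219) (nat_lit 76) (nat_lit 47189861682) (nat_lit 171) (nat_lit 5) (nat_lit 173) (nat_lit 5) (nat_lit 172) (nat_lit 4) (nat_lit 427) (nat_lit 343) (nat_lit 250)) (XT.lf (nat_lit 0) (nat_lit 28430553381) (nat_lit 152) (nat_lit 21669331763) (nat_lit 0) (nat_lit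 9599693393) (nat_lit 170) (nat_lit 5) (nat_lit 172) (nat_lit 4) (nat_lit 170) (nat_lit 4) (nat_lit 428) (nat_lit 343) (nat_lit 249))) (XT.nd (nat_lit 78) (nat_lit 76) (nat_lit 0) (XT.lf (nat_lit 0) (nat_lit 18776776514) (nat_lit 76) (nat_lit 30855647086) (nat_lit 76) (nat_lit 12015554896) (nat_lit 169) (nat_lit 4) (nat_lit 170) (nat_lit 5) (nat_lit 170) (nat_lit 4) (nat_lit 429) (nat_lit 343) (nat_lit 248)) (XT.lf (nat_lit 0) (nat_lit 8291194572) (nat_lit 152) (nat_lit 1851935888) (nat_lit 76) (nat_lit 53526612497) (nat_lit 168) (nat_lit 5) (nat_lit 170) (nat_lit 5) (nat_lit 169) (nat_lit 4) (nat_lit 430) (nat_lit 343) (nat_lit 247)))) (XT.nd (nat_lit 156) (nat_lit 152) (nat_lit 0) (XT.nd (nat_lit 78) (nat_lit 76) (nat_lit 0) (XT.lf (nat_lit 0) (nat_lit 30046483100) (nat_lit 152) (nat_lit 23607224416) (nat_lit 0) (nat_lit 12087189158) (nat_lit 167) (nat_lit 5) (nat_lit 169) (nat_lit 4) (nat_lit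 167) (nat_lit 4) (nat_lit 431) (nat_lit 343) (nat_lit 246)) (XT.lf (nat_lit 0) (nat_lit 20933977877) (nat_lit 76) (nat_lit 32461608490) (nat_lit 76) (nat_lit 14494719194) (nat_lit 166) (nat_lit 4) (nat_lit 167) (nat_lit 5) (nat_lit 167) (nat_lit 4) (nat_lit 432) (nat_lit 343) (nat_lit 245))) (XT.nd (nat_lit 78) (nat_lit 76) (nat_lit 0) (XT.lf (nat_lit 0) (nat_lit 7903852552) (nat_lit 152) (nat_lit 1771225234) (nat_lit 76) (nat_lit 60446674474) (nat_lit 165) (nat_lit 5) (nat_lit 167) (nat_lit 5) (nat_lit 166) (nat_lit 4) (nat_lit 433) (nat_lit 343) (nat_lit 244)) (XT.lf (nat_lit 0) (nat_lit 31887558348) (nat_lit 152) (nat_lit 25754931030) (nat_lit 0) (nat_lit 14762784845) (nat_lit 164) (nat_lit 5) (nat_lit 166) (nat_lit 4) (nat_lit 164) (nat_lit 4) (nat_lit 434) (nat_lit 343) (nat_lit 243))))))) (XT.nd (nat_lit 1248) (nat_lit 1216) (nat_lit 0) (XT.nd (nat_lit 624) (nat_lit 608) (nat_lit 0) (XT.nd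 (nat_lit 312) (nat_lit 304) (nat_lit 0) (XT.nd (nat_lit 156) (nat_lit 152) (nat_lit 0) (XT.nd (nat_lit 78) (nat_lit 76) (nat_lit 0) (XT.lf (nat_lit 0) (nat_lit 23303486267) (nat_lit 76) (nat_lit 34301881169) (nat_lit 76) (nat_lit 17170858949) (nat_lit 163) (nat_lit 4) (nat_lit 164) (nat_lit 5) (nat_lit 164) (nat_lit 4) (nat_lit 435) (nat_lit 343) (nat_lit 242)) (XT.lf (nat_lit 0) (nat_lit 7533629778) (nat_lit 152) (nat_lit 1693032332) (nat_lit 76) (nat_lit 68012065452) (nat_lit 162) (nat_lit 5) (nat_lit 164) (nat_lit 5) (nat_lit 163) (nat_lit 4) (nat_lit 436) (nat_lit 343) (nat_lit 241))) (XT.nd (nat_lit 78) (nat_lit 76) (nat_lit 0) (XT.lf (nat_lit 0) (nat_lit 33974431523) (nat_lit 152) (nat_lit 28133834078) (nat_lit 0) (nat_lit 17648106620) (nat_lit 161) (nat_lit 5) (nat_lit 163) (nat_lit 4) (nat_lit 161) (nat_lit 4) (nat_lit 437) (nat_lit 343) (nat_lit 240)) (XT.lf (nat_lit 0) (nat_lit 25907080167)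 (nat_lit 76) (nat_lit 36397948460) (nat_lit 76) (nat_lit 20066482722) (nat_lit 160) (nat_lit 4) (nat_lit 161) (nat_lit 5) (nat_lit 161) (nat_lit 4) (nat_lit 438) (nat_lit 343) (nat_lit 239)))) (XT.nd (nat_lit 156) (nat_lit 152) (nat_lit 0) (XT.nd (nat_lit 78) (nat_lit 76) (nat_lit 0) (XT.lf (nat_lit 0) (nat_lit 7179946075) (nat_lit 152) (nat_lit 1617472317) (nat_lit 76) (nat_lit 76291217842) (nat_lit 159) (nat_lit 5) (nat_lit 161) (nat_lit 5) (nat_lit 160) (nat_lit 4) (nat_lit 439) (nat_lit 343) (nat_lit 238)) (XT.lf (nat_lit 0) (nat_lit 36329914871) (nat_lit 152) (nat_lit 30767441113) (nat_lit 0) (nat_lit 20767034242) (nat_lit 158) (nat_lit 5) (nat_lit 160) (nat_lit 4) (nat_lit 158) (nat_lit 4) (nat_lit 440) (nat_lit 343) (nat_lit 237))) (XT.nd (nat_lit 78) (nat_lit 76) (nat_lit 0) (XT.lf (nat_lit 0) (nat_lit 28768840878) (nat_lit 76) (nat_lit 38773477126) (nat_lit 76) (nat_lit 23206367120) (nat_lit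 157) (nat_lit 4) (nat_lit 158) (nat_lit 5) (nat_lit 158) (nat_lit 4) (nat_lit 441) (nat_lit 343) (nat_lit 236)) (XT.lf (nat_lit 0) (nat_lit 6842207226) (nat_lit 152) (nat_lit 1544613171) (nat_lit 76) (nat_lit 85359604321) (nat_lit 156) (nat_lit 5) (nat_lit 158) (nat_lit 5) (nat_lit 157) (nat_lit 4) (nat_lit 442) (nat_lit 343) (nat_lit 235))))) (XT.nd (nat_lit 312) (nat_lit 304) (nat_lit 0) (XT.nd (nat_lit 156) (nat_lit 152) (nat_lit 0) (XT.nd (nat_lit 78) (nat_lit 76) (nat_lit 0) (XT.lf (nat_lit 0) (nat_lit 38979212675) (nat_lit 152) (nat_lit 33681618620) (nat_lit 0) (nat_lit 24145903956) (nat_lit 155) (nat_lit 5) (nat_lit 157) (nat_lit 4) (nat_lit 155) (nat_lit 4) (nat_lit 443) (nat_lit 343) (nat_lit 234)) (XT.lf (nat_lit 0) (nat_lit 31915372547) (nat_lit 76) (nat_lit 41454566730) (nat_lit 76) (nat_lit 26617778492) (nat_lit 154) (nat_lit 4) (nat_lit 155) (nat_lit 5) (nat_lit 155) (nat_lit 4) (nat_lit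 444) (nat_lit 343) (nat_lit 233))) (XT.nd (nat_lit 78) (nat_lit 76) (nat_lit 0) (XT.lf (nat_lit 0) (nat_lit 6519813028) (nat_lit 152) (nat_lit 1474485357) (nat_lit 76) (nat_lit 95300434319) (nat_lit 153) (nat_lit 5) (nat_lit 155) (nat_lit 5) (nat_lit 154) (nat_lit 4) (nat_lit 445) (nat_lit 343) (nat_lit 232)) (XT.lf (nat_lit 0) (nat_lit 41950174458) (nat_lit 152) (nat_lit 36904846786) (nat_lit 0) (nat_lit 27813738179) (nat_lit 152) (nat_lit 5) (nat_lit 154) (nat_lit 4) (nat_lit 152) (nat_lit 4) (nat_lit 446) (nat_lit 343) (nat_lit 231)))) (XT.nd (nat_lit 156) (nat_lit 152) (nat_lit 0) (XT.nd (nat_lit 78) (nat_lit 76) (nat_lit 0) (XT.lf (nat_lit 0) (nat_lit 35376047764) (nat_lit 76) (nat_lit 44470018981) (nat_lit 76) (nat_lit 30330720093) (nat_lit 151) (nat_lit 4) (nat_lit 152) (nat_lit 5) (nat_lit 152) (nat_lit 4) (nat_lit 447) (nat_lit 343) (nat_lit 230)) (XT.lf (nat_lit 0) (nat_lit 6212163657)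 (nat_lit 152) (nat_lit 1407089684) (nat_lit 76) (nat_lit 106205427340) (nat_lit 150) (nat_lit 5) (nat_lit 152) (nat_lit 5) (nat_lit 151) (nat_lit 4) (nat_lit 448) (nat_lit 343) (nat_lit 229))) (XT.nd (nat_lit 78) (nat_lit 76) (nat_lit 0) (XT.lf (nat_lit 0) (nat_lit 45273571872) (nat_lit 152) (nat_lit 40468497899) (nat_lit 0) (nat_lit 31802503630) (nat_lit 149) (nat_lit 5) (nat_lit 151) (nat_lit 4) (nat_lit 149) (nat_lit 4) (nat_lit 449) (nat_lit 343) (nat_lit 228)) (XT.lf (nat_lit 0) (nat_lit 39183280788) (nat_lit 76) (nat_lit 47851630133) (nat_lit 76) (nat_lit 34378206816) (nat_lit 148) (nat_lit 4) (nat_lit 149) (nat_lit 5) (nat_lit 149) (nat_lit 4) (nat_lit 450) (nat_lit 343) (nat_lit 227)))))) (XT.nd (nat_lit 624) (nat_lit 608) (nat_lit 0) (XT.nd (nat_lit 312) (nat_lit 304) (nat_lit 0) (XT.nd (nat_lit 156) (nat_lit 152) (nat_lit 0) (XT.nd (nat_lit 78) (nat_lit 76) (nat_lit 0) (XT.lf (nat_lit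 0) (nat_lit 5918664646) (nat_lit 152) (nat_lit 1342403720) (nat_lit 76) (nat_lit 118175669958) (nat_lit 147) (nat_lit 5) (nat_lit 149) (nat_lit 5) (nat_lit 148) (nat_lit 4) (nat_lit 451) (nat_lit 343) (nat_lit 226)) (XT.lf (nat_lit 0) (nat_lit 48983402161) (nat_lit 152) (nat_lit 44407141235) (nat_lit 0) (nat_lit 36147399905) (nat_lit 146) (nat_lit 5) (nat_lit 148) (nat_lit 4) (nat_lit 146) (nat_lit 4) (nat_lit 452) (nat_lit 343) (nat_lit 225))) (XT.nd (nat_lit 78) (nat_lit 76) (nat_lit 0) (XT.lf (nat_lit 0) (nat_lit 43372830800) (nat_lit 76) (nat_lit 51634509657) (nat_lit 76) (nat_lit 38796569874) (nat_lit 145) (nat_lit 4) (nat_lit 146) (nat_lit 5) (nat_lit 146) (nat_lit 4) (nat_lit 453) (nat_lit 343) (nat_lit 224)) (XT.lf (nat_lit 0) (nat_lit 5638730749) (nat_lit 152) (nat_lit 1280387010) (nat_lit 76) (nat_lit 131322564271) (nat_lit 144) (nat_lit 5) (nat_lit 146) (nat_lit 5) (nat_lit 145) (nat_lit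 4) (nat_lit 454) (nat_lit 343) (nat_lit 223)))) (XT.nd (nat_lit 156) (nat_lit 152) (nat_lit 0) (XT.nd (nat_lit 78) (nat_lit 76) (nat_lit 0) (XT.lf (nat_lit 0) (nat_lit 53117221268) (nat_lit 152) (nat_lit 48758877529) (nat_lit 0) (nat_lit 40887180849) (nat_lit 143) (nat_lit 5) (nat_lit 145) (nat_lit 4) (nat_lit 143) (nat_lit 4) (nat_lit 455) (nat_lit 343) (nat_lit 222)) (XT.lf (nat_lit 0) (nat_lit 47984137895) (nat_lit 76) (nat_lit 55857428583) (nat_lit 76) (nat_lit 43625794156) (nat_lit 142) (nat_lit 4) (nat_lit 143) (nat_lit 5) (nat_lit 143) (nat_lit 4) (nat_lit 456) (nat_lit 343) (nat_lit 221))) (XT.nd (nat_lit 78) (nat_lit 76) (nat_lit 0) (XT.lf (nat_lit 0) (nat_lit 5371788882) (nat_lit 152) (nat_lit 1220985321) (nat_lit 76) (nat_lit 145768876468) (nat_lit 141) (nat_lit 5) (nat_lit 143) (nat_lit 5) (nat_lit 142) (nat_lit 4) (nat_lit 457) (nat_lit 343) (nat_lit 220)) (XT.lf (nat_lit 0) (nat_lit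 57716509920) (nat_lit 152) (nat_lit 53565706359) (nat_lit 0) (nat_lit 46064511500) (nat_lit 140) (nat_lit 5) (nat_lit 142) (nat_lit 4) (nat_lit 140) (nat_lit 4) (nat_lit 458) (nat_lit 343) (nat_lit 219))))) (XT.nd (nat_lit 312) (nat_lit 304) (nat_lit 0) (XT.nd (nat_lit 156) (nat_lit 152) (nat_lit 0) (XT.nd (nat_lit 78) (nat_lit 76) (nat_lit 0) (XT.lf (nat_lit 0) (nat_lit 53060694868) (nat_lit 76) (nat_lit 60563201121) (nat_lit 76) (nat_lit 48909891306) (nat_lit 139) (nat_lit 4) (nat_lit 140) (nat_lit 5) (nat_lit 140) (nat_lit 4) (nat_lit 459) (nat_lit 343) (nat_lit 218)) (XT.lf (nat_lit 0) (nat_lit 5117280331) (nat_lit 152) (nat_lit 1164134082) (nat_lit 76) (nat_lit 161649895242) (nat_lit 138) (nat_lit 5) (nat_lit 140) (nat_lit 5) (nat_lit 139) (nat_lit 4) (nat_lit 460) (nat_lit 343) (nat_lit 217))) (XT.nd (nat_lit 78) (nat_lit 76) (nat_lit 0) (XT.lf (nat_lit 0) (nat_lit 62827076323) (nat_lit 152)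 (nat_lit 58873930075) (nat_lit 0) (nat_lit 51726363718) (nat_lit 137) (nat_lit 5) (nat_lit 139) (nat_lit 4) (nat_lit 137) (nat_lit 4) (nat_lit 461) (nat_lit 343) (nat_lit 216)) (XT.lf (nat_lit 0) (nat_lit 58650458209) (nat_lit 76) (nat_lit 65799103453) (nat_lit 76) (nat_lit 54697311961) (nat_lit 136) (nat_lit 4) (nat_lit 137) (nat_lit 5) (nat_lit 137) (nat_lit 4) (nat_lit 462) (nat_lit 343) (nat_lit 215)))) (XT.nd (nat_lit 156) (nat_lit 152) (nat_lit 0) (XT.nd (nat_lit 78) (nat_lit 76) (nat_lit 0) (XT.lf (nat_lit 0) (nat_lit 4874662358) (nat_lit 152) (nat_lit 1109761169) (nat_lit 76) (nat_lit 179114710849) (nat_lit 135) (nat_lit 5) (nat_lit 137) (nat_lit 5) (nat_lit 136) (nat_lit 4) (nat_lit 463) (nat_lit 343) (nat_lit 214)) (XT.lf (nat_lit 0) (nat_lit 68499499399) (nat_lit 152) (nat_lit 64734598209) (nat_lit 0) (nat_lit 57924454078) (nat_lit 134) (nat_lit 5) (nat_lit 136) (nat_lit 4) (nat_lit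 134) (nat_lit 4) (nat_lit 464) (nat_lit 343) (nat_lit 213))) (XT.nd (nat_lit 78) (nat_lit 76) (nat_lit 0) (XT.lf (nat_lit 0) (nat_lit 64806302143) (nat_lit 76) (nat_lit 71617333878) (nat_lit 76) (nat_lit 61041400954) (nat_lit 133) (nat_lit 4) (nat_lit 134) (nat_lit 5) (nat_lit 134) (nat_lit 4) (nat_lit 465) (nat_lit 343) (nat_lit 212)) (XT.lf (nat_lit 0) (nat_lit 4643409324) (nat_lit 152) (nat_lit 1057789144) (nat_lit 76) (nat_lit 198327626782) (nat_lit 132) (nat_lit 5) (nat_lit 134) (nat_lit 5) (nat_lit 133) (nat_lit 4) (nat_lit 466) (nat_lit 343) (nat_lit 211))))))))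
noncomputable def xc141 : XT := (XT.nd (nat_lit 1248) (nat_lit 836) (nat_lit 0) (XT.nd (nat_lit 624) (nat_lit 608) (nat_lit 0) (XT.nd (nat_lit 312) (nat_lit 304) (nat_lit 0) (XT.nd (nat_lit 156) (nat_lit 152) (nat_lit 0) (XT.nd (nat_lit 78) (nat_lit 76) (nat_lit 0) (XT.lf (nat_lit 0) (nat_lit 74789616892) (nat_lit 152) (nat_lit 71203996712) (nat_lit 0) (nat_lit 64715727995) (nat_lit 131) (nat_lit 5) (nat_lit 133) (nat_lit 4) (nat_lit 131) (nat_lit 4) (nat_lit 467) (nat_lit 343) (nat_lit 210)) (XT.lf (nat_lit 0) (nat_lit 71586519932) (nat_lit 76) (nat_lit 78075518882) (nat_lit 76) (nat_lit 68000899751) (nat_lit 130) (nat_lit 4) (nat_lit 131) (nat_lit 5) (nat_lit 131) (nat_lit 4) (nat_lit 468) (nat_lit 343) (nat_lit 209))) (XT.nd (nat_lit 78) (nat_lit 76) (nat_lit 0) (XT.lf (nat_lit 0) (nat_lit 4423013427) (nat_lit 152) (nat_lit 1008137065) (nat_lit 76) (nat_lit 219469717382) (nat_lit 129) (nat_lit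 5) (nat_lit 131) (nat_lit 5) (nat_lit 130) (nat_lit 4) (nat_lit 469) (nat_lit 343) (nat_lit 208)) (XT.lf (nat_lit 0) (nat_lit 81759063076) (nat_lit 152) (nat_lit 78344186714) (nat_lit 0) (nat_lit 72162894567) (nat_lit 128) (nat_lit 5) (nat_lit 130) (nat_lit 4) (nat_lit 128) (nat_lit 4) (nat_lit 470) (nat_lit 343) (nat_lit 207)))) (XT.nd (nat_lit 156) (nat_lit 152) (nat_lit 0) (XT.nd (nat_lit 78) (nat_lit 76) (nat_lit 0) (XT.lf (nat_lit 0) (nat_lit 79055377171) (nat_lit 76) (nat_lit 85237270083) (nat_lit 76) (nat_lit 75640500809) (nat_lit 127) (nat_lit 4) (nat_lit 128) (nat_lit 5) (nat_lit 128) (nat_lit 4) (nat_lit 471) (nat_lit 343) (nat_lit 206)) (XT.lf (nat_lit 0) (nat_lit 4212985125) (nat_lit 152) (nat_lit 960721923) (nat_lit 76) (nat_lit 242740546062) (nat_lit 126) (nat_lit 5) (nat_lit 128) (nat_lit 5) (nat_lit 127) (nat_lit 4) (nat_lit 472) (nat_lit 343) (nat_lit 205))) (XT.nd (nat_lit 78)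 (nat_lit 76) (nat_lit 0) (XT.lf (nat_lit 0) (nat_lit 89475861234) (nat_lit 152) (nat_lit 86223598032) (nat_lit 0) (nat_lit 80335017098) (nat_lit 125) (nat_lit 5) (nat_lit 127) (nat_lit 4) (nat_lit 125) (nat_lit 4) (nat_lit 473) (nat_lit 343) (nat_lit 204)) (XT.lf (nat_lit 0) (nat_lit 87283722290) (nat_lit 76) (nat_lit 93172797474) (nat_lit 76) (nat_lit 84031459087) (nat_lit 124) (nat_lit 4) (nat_lit 125) (nat_lit 5) (nat_lit 125) (nat_lit 4) (nat_lit 474) (nat_lit 343) (nat_lit 203))))) (XT.nd (nat_lit 312) (nat_lit 304) (nat_lit 0) (XT.nd (nat_lit 156) (nat_lit 152) (nat_lit 0) (XT.nd (nat_lit 78) (nat_lit 76) (nat_lit 0) (XT.lf (nat_lit 0) (nat_lit 4012853320) (nat_lit 152) (nat_lit 915459794) (nat_lit 76) (nat_lit 268360060432) (nat_lit 123) (nat_lit 5) (nat_lit 125) (nat_lit 5) (nat_lit 124) (nat_lit 4) (nat_lit 475) (nat_lit 343) (nat_lit 202)) (XT.lf (nat_lit 0) (nat_lit 98015076633) (nat_lit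 152) (nat_lit 94917683107) (nat_lit 0) (nat_lit 89308164823) (nat_lit 122) (nat_lit 5) (nat_lit 124) (nat_lit 4) (nat_lit 122) (nat_lit 4) (nat_lit 476) (nat_lit 343) (nat_lit 201))) (XT.nd (nat_lit 78) (nat_lit 76) (nat_lit 0) (XT.lf (nat_lit 0) (nat_lit 96349660020) (nat_lit 76) (nat_lit 101959584926) (nat_lit 76) (nat_lit 93252266494) (nat_lit 121) (nat_lit 4) (nat_lit 122) (nat_lit 5) (nat_lit 122) (nat_lit 4) (nat_lit 477) (nat_lit 343) (nat_lit 200)) (XT.lf (nat_lit 0) (nat_lit 3822165339) (nat_lit 152) (nat_lit 872266743) (nat_lit 76) (nat_lit 296570682265) (nat_lit 120) (nat_lit 5) (nat_lit 122) (nat_lit 5) (nat_lit 121) (nat_lit 4) (nat_lit 478) (nat_lit 343) (nat_lit 199)))) (XT.nd (nat_lit 156) (nat_lit 152) (nat_lit 0) (XT.nd (nat_lit 78) (nat_lit 76) (nat_lit 0) (XT.lf (nat_lit 0) (nat_lit 107459536249) (nat_lit 152) (nat_lit 104509637653) (nat_lit 0) (nat_lit 99166131956) (nat_lit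 119) (nat_lit 5) (nat_lit 121) (nat_lit 4) (nat_lit 119) (nat_lit 4) (nat_lit 479) (nat_lit 343) (nat_lit 198)) (XT.lf (nat_lit 0) (nat_lit 106339294223) (nat_lit 76) (nat_lit 111683134448) (nat_lit 76) (nat_lit 103389395627) (nat_lit 118) (nat_lit 4) (nat_lit 119) (nat_lit 5) (nat_lit 119) (nat_lit 4) (nat_lit 480) (nat_lit 343) (nat_lit 197))) (XT.nd (nat_lit 78) (nat_lit 76) (nat_lit 0) (XT.lf (nat_lit 0) (nat_lit 3640486771) (nat_lit 152) (nat_lit 831059537) (nat_lit 76) (nat_lit 327639612158) (nat_lit 117) (nat_lit 5) (nat_lit 119) (nat_lit 5) (nat_lit 118) (nat_lit 4) (nat_lit 481) (nat_lit 343) (nat_lit 196)) (XT.lf (nat_lit 0) (nat_lit 117900622143) (nat_lit 152) (nat_lit 115091194908) (nat_lit 0) (nat_lit 110001230860) (nat_lit 116) (nat_lit 5) (nat_lit 118) (nat_lit 4) (nat_lit 116) (nat_lit 4) (nat_lit 482) (nat_lit 343) (nat_lit 195)))))) (XT.nd (nat_lit 624) (nat_lit 228) (nat_lit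 0) (XT.nd (nat_lit 312) (nat_lit 304) (nat_lit 0) (XT.nd (nat_lit 156) (nat_lit 152) (nat_lit 0) (XT.nd (nat_lit 78) (nat_lit 76) (nat_lit 0) (XT.lf (nat_lit 0) (nat_lit 117347547112) (nat_lit 76) (nat_lit 122437786378) (nat_lit 76) (nat_lit 114538119878) (nat_lit 115) (nat_lit 4) (nat_lit 116) (nat_lit 5) (nat_lit 116) (nat_lit 4) (nat_lit 483) (nat_lit 343) (nat_lit 194)) (XT.lf (nat_lit 0) (nat_lit 3467401179) (nat_lit 152) (nat_lit 791756194) (nat_lit 76) (nat_lit 361861370775) (nat_lit 114) (nat_lit 5) (nat_lit 116) (nat_lit 5) (nat_lit 115) (nat_lit 4) (nat_lit 484) (nat_lit 343) (nat_lit 193))) (XT.nd (nat_lit 78) (nat_lit 76) (nat_lit 0) (XT.lf (nat_lit 0) (nat_lit 129439146080) (nat_lit 152) (nat_lit 126763501095) (nat_lit 0) (nat_lit 121915166802) (nat_lit 113) (nat_lit 5) (nat_lit 115) (nat_lit 4) (nat_lit 113) (nat_lit 4) (nat_lit 485) (nat_lit 343) (nat_lit 192)) (XT.lf (nat_lit 0)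 (nat_lit 129479062660) (nat_lit 76) (nat_lit 134327623374) (nat_lit 76) (nat_lit 126803417675) (nat_lit 112) (nat_lit 4) (nat_lit 113) (nat_lit 5) (nat_lit 113) (nat_lit 4) (nat_lit 486) (nat_lit 343) (nat_lit 191)))) (XT.nd (nat_lit 156) (nat_lit 152) (nat_lit 0) (XT.nd (nat_lit 78) (nat_lit 76) (nat_lit 0) (XT.lf (nat_lit 0) (nat_lit 3302509724) (nat_lit 152) (nat_lit 754276405) (nat_lit 76) (nat_lit 399560600838) (nat_lit 111) (nat_lit 5) (nat_lit 113) (nat_lit 5) (nat_lit 112) (nat_lit 4) (nat_lit 487) (nat_lit 343) (nat_lit 190)) (XT.lf (nat_lit 0) (nat_lit 142186313768) (nat_lit 152) (nat_lit 139638080448) (nat_lit 0) (nat_lit 135020002614) (nat_lit 110) (nat_lit 5) (nat_lit 112) (nat_lit 4) (nat_lit 110) (nat_lit 4) (nat_lit 488) (nat_lit 343) (nat_lit 189))) (XT.nd (nat_lit 78) (nat_lit 76) (nat_lit 0) (XT.lf (nat_lit 0) (nat_lit 142849202770) (nat_lit 76) (nat_lit 147467466883) (nat_lit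 76) (nat_lit 140300969451) (nat_lit 109) (nat_lit 4) (nat_lit 110) (nat_lit 5) (nat_lit 110) (nat_lit 4) (nat_lit 489) (nat_lit 343) (nat_lit 188)) (XT.lf (nat_lit 0) (nat_lit 3145430725) (nat_lit 152) (nat_lit 718541850) (nat_lit 76) (nat_lit 441095156515) (nat_lit 108) (nat_lit 5) (nat_lit 110) (nat_lit 5) (nat_lit 109) (nat_lit 4) (nat_lit 490) (nat_lit 343) (nat_lit 187))))) (XT.nd (nat_lit 41730) (nat_lit 0) (nat_lit 17480) (XT.nd (nat_lit 156) (nat_lit 76) (nat_lit 0) (XT.nd (nat_lit 78) (nat_lit 76) (nat_lit 0) (XT.lf (nat_lit 0) (nat_lit 156264787901) (nat_lit 152) (nat_lit 153837899025) (nat_lit 0) (nat_lit 149439222378) (nat_lit 107) (nat_lit 5) (nat_lit 109) (nat_lit 4) (nat_lit 107) (nat_lit 4) (nat_lit 491) (nat_lit 343) (nat_lit 186)) (XT.lf (nat_lit 0) (nat_lit 157585145696) (nat_lit 76) (nat_lit 161983975594) (nat_lit 76) (nat_lit 155158256820) (nat_lit 106) (nat_lit 4) (nat_lit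 107) (nat_lit 5) (nat_lit 107) (nat_lit 4) (nat_lit 492) (nat_lit 343) (nat_lit 185))) (XT.nd (nat_lit 41496) (nat_lit 0) (nat_lit 17860) (XT.lf (nat_lit 0) (nat_lit 2995799169) (nat_lit 152) (nat_lit 684476430) (nat_lit 76) (nat_lit 486859509609) (nat_lit 105) (nat_lit 5) (nat_lit 107) (nat_lit 5) (nat_lit 106) (nat_lit 4) (nat_lit 493) (nat_lit 343) (nat_lit 184)) (XT.lf (nat_lit 0) (nat_lit 1398095558) (nat_lit 380) (nat_lit 957143204) (nat_lit 380) (nat_lit 957143204) (nat_lit 340) (nat_lit 3) (nat_lit 345) (nat_lit 3) (nat_lit 345) (nat_lit 5) (nat_lit 344) (nat_lit 344) (nat_lit 332)))) (XT.nd (nat_lit 156) (nat_lit 0) (nat_lit 0) (XT.nd (nat_lit 78) (nat_lit 380) (nat_lit 0) (XT.lf (nat_lit 76) (nat_lit 1444322912) (nat_lit 0) (nat_lit 3733587715) (nat_lit 380) (nat_lit 1496881669) (nat_lit 341) (nat_lit 5) (nat_lit 340) (nat_lit 3) (nat_lit 345) (nat_lit 5) (nat_lit 345) (nat_lit 344) (nat_lit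 331)) (XT.lf (nat_lit 0) (nat_lit 803689236) (nat_lit 380) (nat_lit 1788208663) (nat_lit 456) (nat_lit 4140544192) (nat_lit 335) (nat_lit 5) (nat_lit 340) (nat_lit 3) (nat_lit 341) (nat_lit 5) (nat_lit 346) (nat_lit 344) (nat_lit 330))) (XT.nd (nat_lit 78) (nat_lit 0) (nat_lit 76) (XT.lf (nat_lit 76) (nat_lit 1778113390) (nat_lit 0) (nat_lit 1275579134) (nat_lit 456) (nat_lit 3743819457) (nat_lit 336) (nat_lit 5) (nat_lit 335) (nat_lit 5) (nat_lit 341) (nat_lit 5) (nat_lit 347) (nat_lit 344) (nat_lit 329)) (XT.lf (nat_lit 0) (nat_lit 5312075433) (nat_lit 380) (nat_lit 1368558170) (nat_lit 456) (nat_lit 190407790) (nat_lit 336) (nat_lit 5) (nat_lit 341) (nat_lit 5) (nat_lit 342) (nat_lit 5) (nat_lit 348) (nat_lit 344) (nat_lit 328)))))))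
noncomputable def xc142 : XT := (XT.nd (nat_lit 1248) (nat_lit 3116) (nat_lit 0) (XT.nd (nat_lit 624) (nat_lit 2812) (nat_lit 0) (XT.nd (nat_lit 312) (nat_lit 1292) (nat_lit 0) (XT.nd (nat_lit 156) (nat_lit 380) (nat_lit 0) (XT.nd (nat_lit 78) (nat_lit 0) (nat_lit 0) (XT.lf (nat_lit 0) (nat_lit 639368727) (nat_lit 456) (nat_lit 4522902356) (nat_lit 532) (nat_lit 1789013956) (nat_lit 330) (nat_lit 5) (nat_lit 336) (nat_lit 5) (nat_lit 337) (nat_lit 5) (nat_lit 349) (nat_lit 344) (nat_lit 327)) (XT.lf (nat_lit 0) (nat_lit 2791594567) (nat_lit 456) (nat_lit 683277842) (nat_lit 532) (nat_lit 3564572322) (nat_lit 330) (nat_lit 5) (nat_lit 336) (nat_lit 5) (nat_lit 337) (nat_lit 5) (nat_lit 350) (nat_lit 344) (nat_lit 326))) (XT.nd (nat_lit 78) (nat_lit 380) (nat_lit 0) (XT.lf (nat_lit 76) (nat_lit 3374777185) (nat_lit 0) (nat_lit 1608209718) (nat_lit 532) (nat_lit 2152447745) (nat_lit 331) (nat_lit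 5) (nat_lit 330) (nat_lit 5) (nat_lit 337) (nat_lit 5) (nat_lit 351) (nat_lit 344) (nat_lit 325)) (XT.lf (nat_lit 0) (nat_lit 342441659) (nat_lit 456) (nat_lit 6848056088) (nat_lit 532) (nat_lit 50398870) (nat_lit 325) (nat_lit 5) (nat_lit 331) (nat_lit 5) (nat_lit 332) (nat_lit 5) (nat_lit 352) (nat_lit 344) (nat_lit 324)))) (XT.nd (nat_lit 156) (nat_lit 684) (nat_lit 0) (XT.nd (nat_lit 78) (nat_lit 532) (nat_lit 0) (XT.lf (nat_lit 0) (nat_lit 2065129882) (nat_lit 532) (nat_lit 2717280543) (nat_lit 76) (nat_lit 2568667262) (nat_lit 324) (nat_lit 5) (nat_lit 331) (nat_lit 5) (nat_lit 325) (nat_lit 5) (nat_lit 353) (nat_lit 344) (nat_lit 323)) (XT.lf (nat_lit 0) (nat_lit 1639840624) (nat_lit 532) (nat_lit 2562227280) (nat_lit 608) (nat_lit 3268792268) (nat_lit 317) (nat_lit 5) (nat_lit 324) (nat_lit 5) (nat_lit 325) (nat_lit 5) (nat_lit 354) (nat_lit 344) (nat_lit 322))) (XT.nd (nat_lit 78) (nat_lit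 684) (nat_lit 0) (XT.lf (nat_lit 0) (nat_lit 6225752070) (nat_lit 532) (nat_lit 161697109) (nat_lit 608) (nat_lit 1212102786) (nat_lit 317) (nat_lit 5) (nat_lit 324) (nat_lit 5) (nat_lit 325) (nat_lit 5) (nat_lit 355) (nat_lit 344) (nat_lit 321)) (XT.lf (nat_lit 0) (nat_lit 905976408) (nat_lit 684) (nat_lit 4459800941) (nat_lit 76) (nat_lit 2368717470) (nat_lit 308) (nat_lit 5) (nat_lit 317) (nat_lit 5) (nat_lit 309) (nat_lit 5) (nat_lit 356) (nat_lit 344) (nat_lit 320))))) (XT.nd (nat_lit 312) (nat_lit 1292) (nat_lit 0) (XT.nd (nat_lit 156) (nat_lit 836) (nat_lit 0) (XT.nd (nat_lit 78) (nat_lit 0) (nat_lit 0) (XT.lf (nat_lit 0) (nat_lit 226051004) (nat_lit 684) (nat_lit 2795714630) (nat_lit 760) (nat_lit 4856798621) (nat_lit 299) (nat_lit 5) (nat_lit 308) (nat_lit 5) (nat_lit 309) (nat_lit 5) (nat_lit 357) (nat_lit 344) (nat_lit 319)) (XT.lf (nat_lit 0) (nat_lit 5215858642) (nat_lit 684) (nat_lit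 9030749) (nat_lit 760) (nat_lit 2805870521) (nat_lit 299) (nat_lit 5) (nat_lit 308) (nat_lit 5) (nat_lit 309) (nat_lit 5) (nat_lit 358) (nat_lit 344) (nat_lit 318))) (XT.nd (nat_lit 78) (nat_lit 76) (nat_lit 0) (XT.lf (nat_lit 0) (nat_lit 2203864577) (nat_lit 760) (nat_lit 5324878246) (nat_lit 836) (nat_lit 662293851) (nat_lit 289) (nat_lit 5) (nat_lit 299) (nat_lit 5) (nat_lit 300) (nat_lit 5) (nat_lit 359) (nat_lit 344) (nat_lit 317)) (XT.lf (nat_lit 0) (nat_lit 1498367137) (nat_lit 836) (nat_lit 898621935) (nat_lit 76) (nat_lit 5963060878) (nat_lit 288) (nat_lit 5) (nat_lit 299) (nat_lit 5) (nat_lit 289) (nat_lit 5) (nat_lit 360) (nat_lit 344) (nat_lit 316)))) (XT.nd (nat_lit 156) (nat_lit 456) (nat_lit 0) (XT.nd (nat_lit 78) (nat_lit 380) (nat_lit 0) (XT.lf (nat_lit 0) (nat_lit 3743211968) (nat_lit 532) (nat_lit 4055305031) (nat_lit 76) (nat_lit 738533618) (nat_lit 282) (nat_lit 5) (nat_lit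 289) (nat_lit 5) (nat_lit 283) (nat_lit 5) (nat_lit 361) (nat_lit 344) (nat_lit 315)) (XT.lf (nat_lit 0) (nat_lit 1358334668) (nat_lit 380) (nat_lit 4736959007) (nat_lit 456) (nat_lit 2627857908) (nat_lit 277) (nat_lit 5) (nat_lit 282) (nat_lit 5) (nat_lit 283) (nat_lit 5) (nat_lit 362) (nat_lit 344) (nat_lit 314))) (XT.nd (nat_lit 78) (nat_lit 456) (nat_lit 0) (XT.lf (nat_lit 0) (nat_lit 7099045661) (nat_lit 380) (nat_lit 1456174841) (nat_lit 456) (nat_lit 363825045) (nat_lit 277) (nat_lit 5) (nat_lit 282) (nat_lit 5) (nat_lit 283) (nat_lit 5) (nat_lit 363) (nat_lit 344) (nat_lit 313)) (XT.lf (nat_lit 0) (nat_lit 1968228976) (nat_lit 456) (nat_lit 5140030594) (nat_lit 76) (nat_lit 2013939831) (nat_lit 271) (nat_lit 5) (nat_lit 277) (nat_lit 5) (nat_lit 272) (nat_lit 5) (nat_lit 364) (nat_lit 344) (nat_lit 312)))))) (XT.nd (nat_lit 624) (nat_lit 1520) (nat_lit 0) (XT.nd (nat_lit 312) (nat_lit 608)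 (nat_lit 0) (XT.nd (nat_lit 156) (nat_lit 684) (nat_lit 0) (XT.nd (nat_lit 78) (nat_lit 0) (nat_lit 0) (XT.lf (nat_lit 0) (nat_lit 710965504) (nat_lit 304) (nat_lit 3686283807) (nat_lit 380) (nat_lit 4938333893) (nat_lit 267) (nat_lit 5) (nat_lit 271) (nat_lit 5) (nat_lit 272) (nat_lit 5) (nat_lit 365) (nat_lit 344) (nat_lit 311)) (XT.lf (nat_lit 0) (nat_lit 6949223536) (nat_lit 304) (nat_lit 14039379) (nat_lit 380) (nat_lit 2595596170) (nat_lit 267) (nat_lit 5) (nat_lit 271) (nat_lit 5) (nat_lit 272) (nat_lit 5) (nat_lit 366) (nat_lit 344) (nat_lit 310))) (XT.nd (nat_lit 78) (nat_lit 380) (nat_lit 0) (XT.lf (nat_lit 0) (nat_lit 3680953883) (nat_lit 304) (nat_lit 6025791409) (nat_lit 380) (nat_lit 84095064) (nat_lit 263) (nat_lit 5) (nat_lit 267) (nat_lit 5) (nat_lit 268) (nat_lit 5) (nat_lit 367) (nat_lit 344) (nat_lit 309)) (XT.lf (nat_lit 0) (nat_lit 227051896) (nat_lit 304) (nat_lit 2225519481)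 (nat_lit 380) (nat_lit 7580791273) (nat_lit 258) (nat_lit 5) (nat_lit 262) (nat_lit 5) (nat_lit 263) (nat_lit 5) (nat_lit 368) (nat_lit 344) (nat_lit 308)))) (XT.nd (nat_lit 156) (nat_lit 304) (nat_lit 0) (XT.nd (nat_lit 78) (nat_lit 304) (nat_lit 0) (XT.lf (nat_lit 0) (nat_lit 5180229667) (nat_lit 380) (nat_lit 3306025363) (nat_lit 76) (nat_lit 1798337864) (nat_lit 258) (nat_lit 5) (nat_lit 263) (nat_lit 5) (nat_lit 259) (nat_lit 5) (nat_lit 369) (nat_lit 344) (nat_lit 307)) (XT.lf (nat_lit 0) (nat_lit 3513807682) (nat_lit 304) (nat_lit 4559199452) (nat_lit 380) (nat_lit 2473940703) (nat_lit 254) (nat_lit 5) (nat_lit 258) (nat_lit 5) (nat_lit 259) (nat_lit 5) (nat_lit 370) (nat_lit 344) (nat_lit 306))) (XT.nd (nat_lit 78) (nat_lit 228) (nat_lit 0) (XT.lf (nat_lit 0) (nat_lit 273816240) (nat_lit 380) (nat_lit 117804061) (nat_lit 76) (nat_lit 10430823841) (nat_lit 253) (nat_lit 5) (nat_lit 258)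 (nat_lit 5) (nat_lit 254) (nat_lit 5) (nat_lit 371) (nat_lit 344) (nat_lit 305)) (XT.lf (nat_lit 0) (nat_lit 3194616070) (nat_lit 304) (nat_lit 3914658082) (nat_lit 76) (nat_lit 3994473506) (nat_lit 250) (nat_lit 5) (nat_lit 254) (nat_lit 5) (nat_lit 251) (nat_lit 5) (nat_lit 372) (nat_lit 344) (nat_lit 304))))) (XT.nd (nat_lit 312) (nat_lit 684) (nat_lit 0) (XT.nd (nat_lit 156) (nat_lit 532) (nat_lit 0) (XT.nd (nat_lit 78) (nat_lit 0) (nat_lit 0) (XT.lf (nat_lit 0) (nat_lit 3492157171) (nat_lit 304) (nat_lit 2774636221) (nat_lit 380) (nat_lit 5132056083) (nat_lit 246) (nat_lit 5) (nat_lit 250) (nat_lit 5) (nat_lit 251) (nat_lit 5) (nat_lit 373) (nat_lit 344) (nat_lit 303)) (XT.lf (nat_lit 0) (nat_lit 9531246338) (nat_lit 380) (nat_lit 409735189) (nat_lit 76) (nat_lit 1765791518) (nat_lit 246) (nat_lit 5) (nat_lit 251) (nat_lit 5) (nat_lit 247) (nat_lit 5) (nat_lit 374) (nat_lit 344) (nat_lit 302)))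 (XT.nd (nat_lit 78) (nat_lit 228) (nat_lit 0) (XT.lf (nat_lit 0) (nat_lit 1011005572) (nat_lit 304) (nat_lit 4458520705) (nat_lit 76) (nat_lit 6554246196) (nat_lit 242) (nat_lit 5) (nat_lit 246) (nat_lit 5) (nat_lit 243) (nat_lit 5) (nat_lit 375) (nat_lit 344) (nat_lit 301)) (XT.lf (nat_lit 0) (nat_lit 3598934485) (nat_lit 228) (nat_lit 694812592) (nat_lit 304) (nat_lit 8060591850) (nat_lit 239) (nat_lit 5) (nat_lit 242) (nat_lit 5) (nat_lit 243) (nat_lit 5) (nat_lit 376) (nat_lit 344) (nat_lit 300)))) (XT.nd (nat_lit 156) (nat_lit 456) (nat_lit 0) (XT.nd (nat_lit 78) (nat_lit 228) (nat_lit 0) (XT.lf (nat_lit 0) (nat_lit 7832516629) (nat_lit 304) (nat_lit 630651603) (nat_lit 76) (nat_lit 4233670921) (nat_lit 239) (nat_lit 5) (nat_lit 243) (nat_lit 5) (nat_lit 240) (nat_lit 5) (nat_lit 377) (nat_lit 344) (nat_lit 299)) (XT.lf (nat_lit 0) (nat_lit 8072675371) (nat_lit 228) (nat_lit 3563186190) (nat_lit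 304) (nat_lit 1416220985) (nat_lit 236) (nat_lit 5) (nat_lit 239) (nat_lit 5) (nat_lit 240) (nat_lit 5) (nat_lit 378) (nat_lit 344) (nat_lit 298))) (XT.nd (nat_lit 78) (nat_lit 152) (nat_lit 0) (XT.lf (nat_lit 0) (nat_lit 2180901441) (nat_lit 304) (nat_lit 9627182320) (nat_lit 76) (nat_lit 1612925258) (nat_lit 232) (nat_lit 5) (nat_lit 236) (nat_lit 5) (nat_lit 233) (nat_lit 5) (nat_lit 379) (nat_lit 344) (nat_lit 297)) (XT.nd (nat_lit 78) (nat_lit 152) (nat_lit 0) (XT.lf (nat_lit 0) (nat_lit 6005843309) (nat_lit 304) (nat_lit 784454752) (nat_lit 76) (nat_lit 7012145036) (nat_lit 232) (nat_lit 5) (nat_lit 236) (nat_lit 5) (nat_lit 233) (nat_lit 5) (nat_lit 380) (nat_lit 344) (nat_lit 296)) (XT.lf (nat_lit 0) (nat_lit 8706821522) (nat_lit 152) (nat_lit 1404894952) (nat_lit 228) (nat_lit 4086748196) (nat_lit 230) (nat_lit 5) (nat_lit 232) (nat_lit 5) (nat_lit 233) (nat_lit 5) (nat_lit 381) (nat_lit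 344) (nat_lit 295))))))))
noncomputable def xc143 : XT := (XT.nd (nat_lit 2496) (nat_lit 2432) (nat_lit 0) (XT.nd (nat_lit 1248) (nat_lit 1368) (nat_lit 0) (XT.nd (nat_lit 624) (nat_lit 988) (nat_lit 0) (XT.nd (nat_lit 312) (nat_lit 380) (nat_lit 0) (XT.nd (nat_lit 156) (nat_lit 304) (nat_lit 0) (XT.nd (nat_lit 78) (nat_lit 76) (nat_lit 0) (XT.lf (nat_lit 0) (nat_lit 4077253891) (nat_lit 228) (nat_lit 10443574613) (nat_lit 304) (nat_lit 88561556) (nat_lit 227) (nat_lit 5) (nat_lit 230) (nat_lit 5) (nat_lit 231) (nat_lit 5) (nat_lit 382) (nat_lit 344) (nat_lit 294)) (XT.lf (nat_lit 0) (nat_lit 4050316459) (nat_lit 304) (nat_lit 882942847) (nat_lit 76) (nat_lit 10100778705) (nat_lit 226) (nat_lit 5) (nat_lit 230) (nat_lit 5) (nat_lit 227) (nat_lit 5) (nat_lit 383) (nat_lit 344) (nat_lit 293))) (XT.nd (nat_lit 78) (nat_lit 152) (nat_lit 0) (XT.lf (nat_lit 0) (nat_lit 8513438856) (nat_lit 228) (nat_lit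 6009015285) (nat_lit 76) (nat_lit 951377791) (nat_lit 224) (nat_lit 5) (nat_lit 227) (nat_lit 5) (nat_lit 225) (nat_lit 5) (nat_lit 384) (nat_lit 344) (nat_lit 292)) (XT.lf (nat_lit 0) (nat_lit 4415614719) (nat_lit 152) (nat_lit 8906587880) (nat_lit 228) (nat_lit 2607288690) (nat_lit 222) (nat_lit 5) (nat_lit 224) (nat_lit 5) (nat_lit 225) (nat_lit 5) (nat_lit 385) (nat_lit 344) (nat_lit 291)))) (XT.nd (nat_lit 156) (nat_lit 152) (nat_lit 0) (XT.nd (nat_lit 78) (nat_lit 152) (nat_lit 0) (XT.lf (nat_lit 0) (nat_lit 1961798090) (nat_lit 228) (nat_lit 935680368) (nat_lit 76) (nat_lit 13505863865) (nat_lit 221) (nat_lit 5) (nat_lit 224) (nat_lit 5) (nat_lit 222) (nat_lit 5) (nat_lit 386) (nat_lit 344) (nat_lit 290)) (XT.lf (nat_lit 0) (nat_lit 6849959478) (nat_lit 228) (nat_lit 6554744177) (nat_lit 76) (nat_lit 3485133019) (nat_lit 219) (nat_lit 5) (nat_lit 222) (nat_lit 5) (nat_lit 220) (nat_lit 5)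 (nat_lit 387) (nat_lit 344) (nat_lit 289))) (XT.nd (nat_lit 78) (nat_lit 0) (nat_lit 0) (XT.lf (nat_lit 0) (nat_lit 4841514230) (nat_lit 152) (nat_lit 7240424551) (nat_lit 228) (nat_lit 5313746470) (nat_lit 217) (nat_lit 5) (nat_lit 219) (nat_lit 5) (nat_lit 220) (nat_lit 5) (nat_lit 388) (nat_lit 344) (nat_lit 288)) (XT.lf (nat_lit 0) (nat_lit 16968533253) (nat_lit 152) (nat_lit 679060624) (nat_lit 228) (nat_lit 275628538) (nat_lit 217) (nat_lit 5) (nat_lit 219) (nat_lit 5) (nat_lit 220) (nat_lit 5) (nat_lit 389) (nat_lit 344) (nat_lit 287))))) (XT.nd (nat_lit 312) (nat_lit 456) (nat_lit 0) (XT.nd (nat_lit 156) (nat_lit 152) (nat_lit 0) (XT.nd (nat_lit 78) (nat_lit 152) (nat_lit 0) (XT.lf (nat_lit 0) (nat_lit 5095710118) (nat_lit 228) (nat_lit 7118722569) (nat_lit 76) (nat_lit 6246698973) (nat_lit 214) (nat_lit 5) (nat_lit 217) (nat_lit 5) (nat_lit 215) (nat_lit 5) (nat_lit 390) (nat_lit 344)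 (nat_lit 286)) (XT.lf (nat_lit 0) (nat_lit 5352708477) (nat_lit 152) (nat_lit 5447478416) (nat_lit 228) (nat_lit 8221831843) (nat_lit 212) (nat_lit 5) (nat_lit 214) (nat_lit 5) (nat_lit 215) (nat_lit 5) (nat_lit 391) (nat_lit 344) (nat_lit 285))) (XT.nd (nat_lit 78) (nat_lit 152) (nat_lit 0) (XT.lf (nat_lit 0) (nat_lit 16901351503) (nat_lit 228) (nat_lit 1003347012) (nat_lit 76) (nat_lit 1700678449) (nat_lit 212) (nat_lit 5) (nat_lit 215) (nat_lit 5) (nat_lit 213) (nat_lit 4) (nat_lit 392) (nat_lit 344) (nat_lit 284)) (XT.lf (nat_lit 0) (nat_lit 3244864446) (nat_lit 152) (nat_lit 7711890264) (nat_lit 76) (nat_lit 9246032375) (nat_lit 210) (nat_lit 5) (nat_lit 212) (nat_lit 5) (nat_lit 211) (nat_lit 5) (nat_lit 393) (nat_lit 344) (nat_lit 283)))) (XT.nd (nat_lit 156) (nat_lit 304) (nat_lit 0) (XT.nd (nat_lit 78) (nat_lit 0) (nat_lit 0) (XT.lf (nat_lit 0) (nat_lit 5948800065) (nat_lit 152) (nat_lit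 3526632720) (nat_lit 228) (nat_lit 11348663167) (nat_lit 208) (nat_lit 5) (nat_lit 210) (nat_lit 5) (nat_lit 211) (nat_lit 5) (nat_lit 394) (nat_lit 344) (nat_lit 282)) (XT.lf (nat_lit 0) (nat_lit 16182264347) (nat_lit 228) (nat_lit 1041307689) (nat_lit 76) (nat_lit 4244661485) (nat_lit 208) (nat_lit 5) (nat_lit 211) (nat_lit 5) (nat_lit 209) (nat_lit 4) (nat_lit 395) (nat_lit 344) (nat_lit 281))) (XT.nd (nat_lit 78) (nat_lit 152) (nat_lit 0) (XT.lf (nat_lit 0) (nat_lit 1289543570) (nat_lit 152) (nat_lit 8344586765) (nat_lit 76) (nat_lit 12497392337) (nat_lit 206) (nat_lit 5) (nat_lit 208) (nat_lit 5) (nat_lit 207) (nat_lit 5) (nat_lit 396) (nat_lit 344) (nat_lit 280)) (XT.lf (nat_lit 0) (nat_lit 6631055073) (nat_lit 152) (nat_lit 1473613102) (nat_lit 228) (nat_lit 14714551372) (nat_lit 204) (nat_lit 5) (nat_lit 206) (nat_lit 5) (nat_lit 207) (nat_lit 5) (nat_lit 397) (nat_lit 344) (nat_lit 279))))))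 (XT.nd (nat_lit 624) (nat_lit 684) (nat_lit 0) (XT.nd (nat_lit 312) (nat_lit 380) (nat_lit 0) (XT.nd (nat_lit 156) (nat_lit 228) (nat_lit 0) (XT.nd (nat_lit 78) (nat_lit 76) (nat_lit 0) (XT.lf (nat_lit 0) (nat_lit 15482218105) (nat_lit 228) (nat_lit 1062259383) (nat_lit 76) (nat_lit 6985740322) (nat_lit 204) (nat_lit 5) (nat_lit 207) (nat_lit 5) (nat_lit 205) (nat_lit 4) (nat_lit 398) (nat_lit 344) (nat_lit 278)) (XT.lf (nat_lit 0) (nat_lit 15225848606) (nat_lit 76) (nat_lit 8233492708) (nat_lit 152) (nat_lit 805889884) (nat_lit 203) (nat_lit 5) (nat_lit 204) (nat_lit 5) (nat_lit 205) (nat_lit 4) (nat_lit 399) (nat_lit 344) (nat_lit 277))) (XT.nd (nat_lit 78) (nat_lit 0) (nat_lit 0) (XT.lf (nat_lit 0) (nat_lit 6694737256) (nat_lit 228) (nat_lit 17635503573) (nat_lit 76) (nat_lit 695747345) (nat_lit 200) (nat_lit 5) (nat_lit 203) (nat_lit 5) (nat_lit 201) (nat_lit 4) (nat_lit 400) (nat_lit 344)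 (nat_lit 276)) (XT.lf (nat_lit 0) (nat_lit 14803001226) (nat_lit 228) (nat_lit 1069707205) (nat_lit 76) (nat_lit 9938429571) (nat_lit 200) (nat_lit 5) (nat_lit 203) (nat_lit 5) (nat_lit 201) (nat_lit 4) (nat_lit 401) (nat_lit 344) (nat_lit 275)))) (XT.nd (nat_lit 156) (nat_lit 76) (nat_lit 0) (XT.nd (nat_lit 78) (nat_lit 228) (nat_lit 0) (XT.lf (nat_lit 0) (nat_lit 16807510552) (nat_lit 76) (nat_lit 6742168218) (nat_lit 152) (nat_lit 3074216531) (nat_lit 199) (nat_lit 5) (nat_lit 200) (nat_lit 5) (nat_lit 201) (nat_lit 4) (nat_lit 402) (nat_lit 344) (nat_lit 274)) (XT.lf (nat_lit 0) (nat_lit 5254095123) (nat_lit 228) (nat_lit 19248396318) (nat_lit 76) (nat_lit 2962399017) (nat_lit 196) (nat_lit 5) (nat_lit 199) (nat_lit 5) (nat_lit 197) (nat_lit 4) (nat_lit 403) (nat_lit 344) (nat_lit 273))) (XT.nd (nat_lit 78) (nat_lit 76) (nat_lit 0) (XT.lf (nat_lit 0) (nat_lit 14145839148) (nat_lit 228) (nat_lit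 1066511509) (nat_lit 76) (nat_lit 13120548336) (nat_lit 196) (nat_lit 5) (nat_lit 199) (nat_lit 5) (nat_lit 197) (nat_lit 4) (nat_lit 404) (nat_lit 344) (nat_lit 272)) (XT.lf (nat_lit 0) (nat_lit 18566267464) (nat_lit 76) (nat_lit 5177996010) (nat_lit 152) (nat_lit 5486939825) (nat_lit 195) (nat_lit 5) (nat_lit 196) (nat_lit 5) (nat_lit 197) (nat_lit 4) (nat_lit 405) (nat_lit 344) (nat_lit 271))))) (XT.nd (nat_lit 312) (nat_lit 228) (nat_lit 0) (XT.nd (nat_lit 156) (nat_lit 228) (nat_lit 0) (XT.nd (nat_lit 78) (nat_lit 0) (nat_lit 0) (XT.lf (nat_lit 0) (nat_lit 3753039656) (nat_lit 228) (nat_lit 21021857991) (nat_lit 76) (nat_lit 5385596343) (nat_lit 192) (nat_lit 5) (nat_lit 195) (nat_lit 5) (nat_lit 193) (nat_lit 4) (nat_lit 406) (nat_lit 344) (nat_lit 270)) (XT.lf (nat_lit 0) (nat_lit 13511505832) (nat_lit 228) (nat_lit 1055003319) (nat_lit 76) (nat_lit 16553198328) (nat_lit 192) (nat_lit 5)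 (nat_lit 195) (nat_lit 5) (nat_lit 193) (nat_lit 4) (nat_lit 407) (nat_lit 344) (nat_lit 269))) (XT.nd (nat_lit 78) (nat_lit 152) (nat_lit 0) (XT.lf (nat_lit 0) (nat_lit 20516726133) (nat_lit 76) (nat_lit 3535228904) (nat_lit 152) (nat_lit 8060223620) (nat_lit 191) (nat_lit 5) (nat_lit 192) (nat_lit 5) (nat_lit 193) (nat_lit 4) (nat_lit 408) (nat_lit 344) (nat_lit 268)) (XT.lf (nat_lit 0) (nat_lit 2183710420) (nat_lit 152) (nat_lit 22975060031) (nat_lit 76) (nat_lit 7979896151) (nat_lit 189) (nat_lit 5) (nat_lit 191) (nat_lit 5) (nat_lit 190) (nat_lit 4) (nat_lit 409) (nat_lit 344) (nat_lit 267)))) (XT.nd (nat_lit 156) (nat_lit 152) (nat_lit 0) (XT.nd (nat_lit 78) (nat_lit 76) (nat_lit 0) (XT.lf (nat_lit 0) (nat_lit 12900414960) (nat_lit 152) (nat_lit 1037079233) (nat_lit 76) (nat_lit 20260805503) (nat_lit 189) (nat_lit 5) (nat_lit 191) (nat_lit 5) (nat_lit 190) (nat_lit 4) (nat_lit 410) (nat_lit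 344) (nat_lit 266)) (XT.lf (nat_lit 0) (nat_lit 22675661550) (nat_lit 76) (nat_lit 1806468313) (nat_lit 152) (nat_lit 10812325823) (nat_lit 188) (nat_lit 5) (nat_lit 189) (nat_lit 5) (nat_lit 190) (nat_lit 4) (nat_lit 411) (nat_lit 344) (nat_lit 265))) (XT.nd (nat_lit 78) (nat_lit 0) (nat_lit 0) (XT.lf (nat_lit 0) (nat_lit 537079813) (nat_lit 152) (nat_lit 25128568853) (nat_lit 76) (nat_lit 10762322108) (nat_lit 186) (nat_lit 5) (nat_lit 188) (nat_lit 5) (nat_lit 187) (nat_lit 4) (nat_lit 412) (nat_lit 344) (nat_lit 264)) (XT.lf (nat_lit 0) (nat_lit 12312694431) (nat_lit 152) (nat_lit 1014279453) (nat_lit 76) (nat_lit 24271219983) (nat_lit 186) (nat_lit 5) (nat_lit 188) (nat_lit 5) (nat_lit 187) (nat_lit 4) (nat_lit 413) (nat_lit 344) (nat_lit 263))))))) (XT.nd (nat_lit 1248) (nat_lit 1216) (nat_lit 0) (XT.nd (nat_lit 624) (nat_lit 608) (nat_lit 0) (XT.nd (nat_lit 312) (nat_lit 304) (nat_lit 0)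 (XT.nd (nat_lit 156) (nat_lit 152) (nat_lit 0) (XT.nd (nat_lit 78) (nat_lit 76) (nat_lit 0) (XT.lf (nat_lit 0) (nat_lit 25045107345) (nat_lit 152) (nat_lit 13746692367) (nat_lit 0) (nat_lit 16727522) (nat_lit 185) (nat_lit 5) (nat_lit 187) (nat_lit 4) (nat_lit 185) (nat_lit 4) (nat_lit 414) (nat_lit 344) (nat_lit 262)) (XT.lf (nat_lit 0) (nat_lit 12535066741) (nat_lit 76) (nat_lit 26287249978) (nat_lit 76) (nat_lit 1236651763) (nat_lit 184) (nat_lit 4) (nat_lit 185) (nat_lit 5) (nat_lit 185) (nat_lit 4) (nat_lit 415) (nat_lit 344) (nat_lit 261))) (XT.nd (nat_lit 78) (nat_lit 76) (nat_lit 0) (XT.lf (nat_lit 0) (nat_lit 11748247149) (nat_lit 152) (nat_lit 987851932) (nat_lit 76) (nat_lit 28615870580) (nat_lit 183) (nat_lit 5) (nat_lit 185) (nat_lit 5) (nat_lit 184) (nat_lit 4) (nat_lit 416) (nat_lit 344) (nat_lit 260)) (XT.lf (nat_lit 0) (nat_lit 25781345062) (nat_lit 152) (nat_lit 15020949845) (nat_lit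 0) (nat_lit 1884286658) (nat_lit 182) (nat_lit 5) (nat_lit 184) (nat_lit 4) (nat_lit 182) (nat_lit 4) (nat_lit 417) (nat_lit 344) (nat_lit 259)))) (XT.nd (nat_lit 156) (nat_lit 152) (nat_lit 0) (XT.nd (nat_lit 78) (nat_lit 76) (nat_lit 0) (XT.lf (nat_lit 0) (nat_lit 13890785403) (nat_lit 76) (nat_lit 27045727715) (nat_lit 76) (nat_lit 3130390185) (nat_lit 181) (nat_lit 4) (nat_lit 182) (nat_lit 5) (nat_lit 182) (nat_lit 4) (nat_lit 418) (nat_lit 344) (nat_lit 258)) (XT.lf (nat_lit 0) (nat_lit 11206800546) (nat_lit 152) (nat_lit 958805101) (nat_lit 76) (nat_lit 33329971571) (nat_lit 180) (nat_lit 5) (nat_lit 182) (nat_lit 5) (nat_lit 181) (nat_lit 4) (nat_lit 419) (nat_lit 344) (nat_lit 257))) (XT.nd (nat_lit 78) (nat_lit 76) (nat_lit 0) (XT.lf (nat_lit 0) (nat_lit 26674681532) (nat_lit 152) (nat_lit 16426686087) (nat_lit 0) (nat_lit 3865799697) (nat_lit 179) (nat_lit 5) (nat_lit 181) (nat_lit 4)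 (nat_lit 179) (nat_lit 4) (nat_lit 420) (nat_lit 344) (nat_lit 256)) (XT.lf (nat_lit 0) (nat_lit 15387551383) (nat_lit 76) (nat_lit 27963476055) (nat_lit 76) (nat_lit 5139555938) (nat_lit 178) (nat_lit 4) (nat_lit 179) (nat_lit 5) (nat_lit 179) (nat_lit 4) (nat_lit 421) (nat_lit 344) (nat_lit 255))))) (XT.nd (nat_lit 312) (nat_lit 304) (nat_lit 0) (XT.nd (nat_lit 156) (nat_lit 152) (nat_lit 0) (XT.nd (nat_lit 78) (nat_lit 76) (nat_lit 0) (XT.lf (nat_lit 0) (nat_lit 10687946869) (nat_lit 152) (nat_lit 927951207) (nat_lit 76) (nat_lit 38452780552) (nat_lit 177) (nat_lit 5) (nat_lit 179) (nat_lit 5) (nat_lit 178) (nat_lit 4) (nat_lit 422) (nat_lit 344) (nat_lit 254)) (XT.lf (nat_lit 0) (nat_lit 27738316142) (nat_lit 152) (nat_lit 17978320481) (nat_lit 0) (nat_lit 5974618565) (nat_lit 176) (nat_lit 5) (nat_lit 178) (nat_lit 4) (nat_lit 176) (nat_lit 4) (nat_lit 423) (nat_lit 344) (nat_lit 253))) (XT.nd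 (nat_lit 78) (nat_lit 76) (nat_lit 0) (XT.lf (nat_lit 0) (nat_lit 17038754447) (nat_lit 76) (nat_lit 29054828395) (nat_lit 76) (nat_lit 7278758786) (nat_lit 175) (nat_lit 4) (nat_lit 176) (nat_lit 5) (nat_lit 176) (nat_lit 4) (nat_lit 424) (nat_lit 344) (nat_lit 252)) (XT.lf (nat_lit 0) (nat_lit 10191175888) (nat_lit 152) (nat_lit 895941924) (nat_lit 76) (nat_lit 44027907234) (nat_lit 174) (nat_lit 5) (nat_lit 176) (nat_lit 5) (nat_lit 175) (nat_lit 4) (nat_lit 425) (nat_lit 344) (nat_lit 251)))) (XT.nd (nat_lit 156) (nat_lit 152) (nat_lit 0) (XT.nd (nat_lit 78) (nat_lit 76) (nat_lit 0) (XT.lf (nat_lit 0) (nat_lit 28986764985) (nat_lit 152) (nat_lit 19691531021) (nat_lit 0) (nat_lit 8225741848) (nat_lit 173) (nat_lit 5) (nat_lit 175) (nat_lit 4) (nat_lit 173) (nat_lit 4) (nat_lit 426) (nat_lit 344) (nat_lit 250)) (XT.lf (nat_lit 0) (nat_lit 18859379317) (nat_lit 76) (nat_lit 30335346992) (nat_lit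 76) (nat_lit 9564145354) (nat_lit 172) (nat_lit 4) (nat_lit 173) (nat_lit 5) (nat_lit 173) (nat_lit 4) (nat_lit 427) (nat_lit 344) (nat_lit 249))) (XT.nd (nat_lit 78) (nat_lit 76) (nat_lit 0) (XT.lf (nat_lit 0) (nat_lit 9715901384) (nat_lit 152) (nat_lit 863297610) (nat_lit 76) (nat_lit 50103673984) (nat_lit 171) (nat_lit 5) (nat_lit 173) (nat_lit 5) (nat_lit 172) (nat_lit 4) (nat_lit 428) (nat_lit 344) (nat_lit 248)) (XT.lf (nat_lit 0) (nat_lit 30436028480) (nat_lit 152) (nat_lit 21583424705) (nat_lit 0) (nat_lit 10635906908) (nat_lit 170) (nat_lit 5) (nat_lit 172) (nat_lit 4) (nat_lit 170) (nat_lit 4) (nat_lit 429) (nat_lit 344) (nat_lit 247)))))) (XT.nd (nat_lit 624) (nat_lit 608) (nat_lit 0) (XT.nd (nat_lit 312) (nat_lit 304) (nat_lit 0) (XT.nd (nat_lit 156) (nat_lit 152) (nat_lit 0) (XT.nd (nat_lit 78) (nat_lit 76) (nat_lit 0) (XT.lf (nat_lit 0) (nat_lit 20866128121) (nat_lit 76) (nat_lit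 31822019796) (nat_lit 76) (nat_lit 12013524347) (nat_lit 169) (nat_lit 4) (nat_lit 170) (nat_lit 5) (nat_lit 170) (nat_lit 4) (nat_lit 430) (nat_lit 344) (nat_lit 246)) (XT.lf (nat_lit 0) (nat_lit 9261482552) (nat_lit 152) (nat_lit 830431338) (nat_lit 76) (nat_lit 56733529802) (nat_lit 168) (nat_lit 5) (nat_lit 170) (nat_lit 5) (nat_lit 169) (nat_lit 4) (nat_lit 431) (nat_lit 344) (nat_lit 245))) (XT.nd (nat_lit 78) (nat_lit 76) (nat_lit 0) (XT.lf (nat_lit 0) (nat_lit 32103769138) (nat_lit 152) (nat_lit 23672717924) (nat_lit 0) (nat_lit 13223706351) (nat_lit 167) (nat_lit 5) (nat_lit 169) (nat_lit 4) (nat_lit 167) (nat_lit 4) (nat_lit 432) (nat_lit 344) (nat_lit 244)) (XT.lf (nat_lit 0) (nat_lit 23077562747) (nat_lit 76) (nat_lit 33533463530) (nat_lit 76) (nat_lit 14646511533) (nat_lit 166) (nat_lit 4) (nat_lit 167) (nat_lit 5) (nat_lit 167) (nat_lit 4) (nat_lit 433) (nat_lit 344) (nat_lit 243))))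 (XT.nd (nat_lit 156) (nat_lit 152) (nat_lit 0) (XT.nd (nat_lit 78) (nat_lit 76) (nat_lit 0) (XT.lf (nat_lit 0) (nat_lit 8827241224) (nat_lit 152) (nat_lit 797668639) (nat_lit 76) (nat_lit 63976520208) (nat_lit 165) (nat_lit 5) (nat_lit 167) (nat_lit 5) (nat_lit 166) (nat_lit 4) (nat_lit 434) (nat_lit 344) (nat_lit 242)) (XT.lf (nat_lit 0) (nat_lit 34009501816) (nat_lit 152) (nat_lit 25979929231) (nat_lit 0) (nat_lit 16009728610) (nat_lit 164) (nat_lit 5) (nat_lit 166) (nat_lit 4) (nat_lit 164) (nat_lit 4) (nat_lit 435) (nat_lit 344) (nat_lit 241))) (XT.nd (nat_lit 78) (nat_lit 76) (nat_lit 0) (XT.lf (nat_lit 0) (nat_lit 25514267828) (nat_lit 76) (nat_lit 35490136220) (nat_lit 76) (nat_lit 17484695244) (nat_lit 163) (nat_lit 4) (nat_lit 164) (nat_lit 5) (nat_lit 164) (nat_lit 4) (nat_lit 436) (nat_lit 344) (nat_lit 240)) (XT.lf (nat_lit 0) (nat_lit 8412475684) (nat_lit 152) (nat_lit 765263699) (nat_lit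 76) (nat_lit 71897816336) (nat_lit 162) (nat_lit 5) (nat_lit 164) (nat_lit 5) (nat_lit 163) (nat_lit 4) (nat_lit 437) (nat_lit 344) (nat_lit 239))))) (XT.nd (nat_lit 312) (nat_lit 304) (nat_lit 0) (XT.nd (nat_lit 156) (nat_lit 152) (nat_lit 0) (XT.nd (nat_lit 78) (nat_lit 76) (nat_lit 0) (XT.lf (nat_lit 0) (nat_lit 36174798808) (nat_lit 152) (nat_lit 28527586823) (nat_lit 0) (nat_lit 19016722915) (nat_lit 161) (nat_lit 5) (nat_lit 163) (nat_lit 4) (nat_lit 161) (nat_lit 4) (nat_lit 438) (nat_lit 344) (nat_lit 238)) (XT.lf (nat_lit 0) (nat_lit 28199035410) (nat_lit 76) (nat_lit 37714562206) (nat_lit 76) (nat_lit 20551823424) (nat_lit 160) (nat_lit 4) (nat_lit 161) (nat_lit 5) (nat_lit 161) (nat_lit 4) (nat_lit 439) (nat_lit 344) (nat_lit 237))) (XT.nd (nat_lit 78) (nat_lit 76) (nat_lit 0) (XT.lf (nat_lit 0) (nat_lit 8016471692) (nat_lit 152) (nat_lit 733412658) (nat_lit 76) (nat_lit 80569307279)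 (nat_lit 159) (nat_lit 5) (nat_lit 161) (nat_lit 5) (nat_lit 160) (nat_lit 4) (nat_lit 440) (nat_lit 344) (nat_lit 236)) (XT.lf (nat_lit 0) (nat_lit 38623512185) (nat_lit 152) (nat_lit 31340453151) (nat_lit 0) (nat_lit 22269789323) (nat_lit 158) (nat_lit 5) (nat_lit 160) (nat_lit 4) (nat_lit 158) (nat_lit 4) (nat_lit 441) (nat_lit 344) (nat_lit 235)))) (XT.nd (nat_lit 156) (nat_lit 152) (nat_lit 0) (XT.nd (nat_lit 78) (nat_lit 76) (nat_lit 0) (XT.lf (nat_lit 0) (nat_lit 31157072617) (nat_lit 76) (nat_lit 40231572615) (nat_lit 76) (nat_lit 23874013583) (nat_lit 157) (nat_lit 4) (nat_lit 158) (nat_lit 5) (nat_lit 158) (nat_lit 4) (nat_lit 442) (nat_lit 344) (nat_lit 234)) (XT.lf (nat_lit 0) (nat_lit 7638511221) (nat_lit 152) (nat_lit 702264522) (nat_lit 76) (nat_lit 90070260527) (nat_lit 156) (nat_lit 5) (nat_lit 158) (nat_lit 5) (nat_lit 157) (nat_lit 4) (nat_lit 443) (nat_lit 344) (nat_lit 233)))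 (XT.nd (nat_lit 78) (nat_lit 76) (nat_lit 0) (XT.lf (nat_lit 0) (nat_lit 41382015861) (nat_lit 152) (nat_lit 34445769162) (nat_lit 0) (nat_lit 25796594864) (nat_lit 155) (nat_lit 5) (nat_lit 157) (nat_lit 4) (nat_lit 155) (nat_lit 4) (nat_lit 444) (nat_lit 344) (nat_lit 232)) (XT.lf (nat_lit 0) (nat_lit 34416233977) (nat_lit 76) (nat_lit 43068564302) (nat_lit 76) (nat_lit 27479987278) (nat_lit 154) (nat_lit 4) (nat_lit 155) (nat_lit 5) (nat_lit 155) (nat_lit 4) (nat_lit 445) (nat_lit 344) (nat_lit 231))))))))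
noncomputable def xc144 : XT := (XT.nd (nat_lit 2496) (nat_lit 1216) (nat_lit 0) (XT.nd (nat_lit 1248) (nat_lit 1216) (nat_lit 0) (XT.nd (nat_lit 624) (nat_lit 608) (nat_lit 0) (XT.nd (nat_lit 312) (nat_lit 304) (nat_lit 0) (XT.nd (nat_lit 156) (nat_lit 152) (nat_lit 0) (XT.nd (nat_lit 78) (nat_lit 76) (nat_lit 0) (XT.lf (nat_lit 0) (nat_lit 7277879344) (nat_lit 152) (nat_lit 671930107) (nat_lit 76) (nat_lit 100488056106) (nat_lit 153) (nat_lit 5) (nat_lit 155) (nat_lit 5) (nat_lit 154) (nat_lit 4) (nat_lit 446) (nat_lit 344) (nat_lit 230)) (XT.lf (nat_lit 0) (nat_lit 44479470009) (nat_lit 152) (nat_lit 37873520772) (nat_lit 0) (nat_lit 29627617273) (nat_lit 152) (nat_lit 5) (nat_lit 154) (nat_lit 4) (nat_lit 152) (nat_lit 4) (nat_lit 447) (nat_lit 344) (nat_lit 229))) (XT.nd (nat_lit 78) (nat_lit 76) (nat_lit 0) (XT.lf (nat_lit 0) (nat_lit 38007280307) (nat_lit 76) (nat_lit 46255780277) (nat_lit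 76) (nat_lit 31401331070) (nat_lit 151) (nat_lit 4) (nat_lit 152) (nat_lit 5) (nat_lit 152) (nat_lit 4) (nat_lit 448) (nat_lit 344) (nat_lit 228)) (XT.lf (nat_lit 0) (nat_lit 6933869594) (nat_lit 152) (nat_lit 642489368) (nat_lit 76) (nat_lit 111919000866) (nat_lit 150) (nat_lit 5) (nat_lit 152) (nat_lit 5) (nat_lit 151) (nat_lit 4) (nat_lit 449) (nat_lit 344) (nat_lit 227)))) (XT.nd (nat_lit 156) (nat_lit 152) (nat_lit 0) (XT.nd (nat_lit 78) (nat_lit 76) (nat_lit 0) (XT.lf (nat_lit 0) (nat_lit 47948110593) (nat_lit 152) (nat_lit 41656730367) (nat_lit 0) (nat_lit 33796418105) (nat_lit 149) (nat_lit 5) (nat_lit 151) (nat_lit 4) (nat_lit 149) (nat_lit 4) (nat_lit 450) (nat_lit 344) (nat_lit 226)) (XT.lf (nat_lit 0) (nat_lit 41964166409) (nat_lit 76) (nat_lit 49826614794) (nat_lit 76) (nat_lit 35672786183) (nat_lit 148) (nat_lit 4) (nat_lit 149) (nat_lit 5) (nat_lit 149) (nat_lit 4) (nat_lit 451)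 (nat_lit 344) (nat_lit 225))) (XT.nd (nat_lit 78) (nat_lit 76) (nat_lit 0) (XT.lf (nat_lit 0) (nat_lit 6605788099) (nat_lit 152) (nat_lit 613997408) (nat_lit 76) (nat_lit 124469230222) (nat_lit 147) (nat_lit 5) (nat_lit 149) (nat_lit 5) (nat_lit 148) (nat_lit 4) (nat_lit 452) (nat_lit 344) (nat_lit 224)) (XT.lf (nat_lit 0) (nat_lit 51823566994) (nat_lit 152) (nat_lit 45831776303) (nat_lit 0) (nat_lit 38339947432) (nat_lit 146) (nat_lit 5) (nat_lit 148) (nat_lit 4) (nat_lit 146) (nat_lit 4) (nat_lit 453) (nat_lit 344) (nat_lit 223))))) (XT.nd (nat_lit 312) (nat_lit 304) (nat_lit 0) (XT.nd (nat_lit 156) (nat_lit 152) (nat_lit 0) (XT.nd (nat_lit 78) (nat_lit 76) (nat_lit 0) (XT.lf (nat_lit 0) (nat_lit 46324360108) (nat_lit 76) (nat_lit 53817946372) (nat_lit 76) (nat_lit 40332569417) (nat_lit 145) (nat_lit 4) (nat_lit 146) (nat_lit 5) (nat_lit 146) (nat_lit 4) (nat_lit 454) (nat_lit 344) (nat_lit 222))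 (XT.lf (nat_lit 0) (nat_lit 6292956717) (nat_lit 152) (nat_lit 586489392) (nat_lit 76) (nat_lit 138255705550) (nat_lit 144) (nat_lit 5) (nat_lit 146) (nat_lit 5) (nat_lit 145) (nat_lit 4) (nat_lit 455) (nat_lit 344) (nat_lit 221))) (XT.nd (nat_lit 78) (nat_lit 76) (nat_lit 0) (XT.lf (nat_lit 0) (nat_lit 56145210927) (nat_lit 152) (nat_lit 50438743602) (nat_lit 0) (nat_lit 43298882668) (nat_lit 143) (nat_lit 5) (nat_lit 145) (nat_lit 4) (nat_lit 143) (nat_lit 4) (nat_lit 456) (nat_lit 344) (nat_lit 220)) (XT.lf (nat_lit 0) (nat_lit 51129195531) (nat_lit 76) (nat_lit 58270502278) (nat_lit 76) (nat_lit 45422728207) (nat_lit 142) (nat_lit 4) (nat_lit 143) (nat_lit 5) (nat_lit 143) (nat_lit 4) (nat_lit 457) (nat_lit 344) (nat_lit 219)))) (XT.nd (nat_lit 156) (nat_lit 152) (nat_lit 0) (XT.nd (nat_lit 78) (nat_lit 76) (nat_lit 0) (XT.lf (nat_lit 0) (nat_lit 5994715351) (nat_lit 152) (nat_lit 559984565)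 (nat_lit 76) (nat_lit 153407316437) (nat_lit 141) (nat_lit 5) (nat_lit 143) (nat_lit 5) (nat_lit 142) (nat_lit 4) (nat_lit 458) (nat_lit 344) (nat_lit 218)) (XT.lf (nat_lit 0) (nat_lit 60956540122) (nat_lit 152) (nat_lit 55521809336) (nat_lit 0) (nat_lit 48718004475) (nat_lit 140) (nat_lit 5) (nat_lit 142) (nat_lit 4) (nat_lit 140) (nat_lit 4) (nat_lit 459) (nat_lit 344) (nat_lit 217))) (XT.nd (nat_lit 78) (nat_lit 76) (nat_lit 0) (XT.lf (nat_lit 0) (nat_lit 56424263850) (nat_lit 76) (nat_lit 63229258184) (nat_lit 76) (nat_lit 50989533064) (nat_lit 139) (nat_lit 4) (nat_lit 140) (nat_lit 5) (nat_lit 140) (nat_lit 4) (nat_lit 460) (nat_lit 344) (nat_lit 216)) (XT.lf (nat_lit 0) (nat_lit 5710423617) (nat_lit 152) (nat_lit 534489535) (nat_lit 76) (nat_lit 170066098022) (nat_lit 138) (nat_lit 5) (nat_lit 140) (nat_lit 5) (nat_lit 139) (nat_lit 4) (nat_lit 461) (nat_lit 344) (nat_lit 215)))))) (XT.nd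 (nat_lit 624) (nat_lit 608) (nat_lit 0) (XT.nd (nat_lit 312) (nat_lit 304) (nat_lit 0) (XT.nd (nat_lit 156) (nat_lit 152) (nat_lit 0) (XT.nd (nat_lit 78) (nat_lit 76) (nat_lit 0) (XT.lf (nat_lit 0) (nat_lit 66305600550) (nat_lit 152) (nat_lit 61129666468) (nat_lit 0) (nat_lit 54646613084) (nat_lit 137) (nat_lit 5) (nat_lit 139) (nat_lit 4) (nat_lit 137) (nat_lit 4) (nat_lit 462) (nat_lit 344) (nat_lit 214)) (XT.lf (nat_lit 0) (nat_lit 62259845099) (nat_lit 76) (nat_lit 68743877066) (nat_lit 76) (nat_lit 57083911018) (nat_lit 136) (nat_lit 4) (nat_lit 137) (nat_lit 5) (nat_lit 137) (nat_lit 4) (nat_lit 463) (nat_lit 344) (nat_lit 213))) (XT.nd (nat_lit 78) (nat_lit 76) (nat_lit 0) (XT.lf (nat_lit 0) (nat_lit 5439461987) (nat_lit 152) (nat_lit 510000957) (nat_lit 76) (nat_lit 188388574825) (nat_lit 135) (nat_lit 5) (nat_lit 137) (nat_lit 5) (nat_lit 136) (nat_lit 4) (nat_lit 464) (nat_lit 344) (nat_lit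 212)) (XT.lf (nat_lit 0) (nat_lit 72245451321) (nat_lit 152) (nat_lit 67315990291) (nat_lit 0) (nat_lit 61138988811) (nat_lit 134) (nat_lit 5) (nat_lit 136) (nat_lit 4) (nat_lit 134) (nat_lit 4) (nat_lit 465) (nat_lit 344) (nat_lit 211)))) (XT.nd (nat_lit 156) (nat_lit 152) (nat_lit 0) (XT.nd (nat_lit 78) (nat_lit 76) (nat_lit 0) (XT.lf (nat_lit 0) (nat_lit 68691385115) (nat_lit 76) (nat_lit 74869191676) (nat_lit 76) (nat_lit 63761924085) (nat_lit 133) (nat_lit 4) (nat_lit 134) (nat_lit 5) (nat_lit 134) (nat_lit 4) (nat_lit 466) (nat_lit 344) (nat_lit 210)) (XT.lf (nat_lit 0) (nat_lit 5181232500) (nat_lit 152) (nat_lit 486507710) (nat_lit 76) (nat_lit 208547243668) (nat_lit 132) (nat_lit 5) (nat_lit 134) (nat_lit 5) (nat_lit 133) (nat_lit 4) (nat_lit 467) (nat_lit 344) (nat_lit 209))) (XT.nd (nat_lit 78) (nat_lit 76) (nat_lit 0) (XT.lf (nat_lit 0) (nat_lit 78834676766) (nat_lit 152) (nat_lit 74139951976)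 (nat_lit 0) (nat_lit 68254900985) (nat_lit 131) (nat_lit 5) (nat_lit 133) (nat_lit 4) (nat_lit 131) (nat_lit 4) (nat_lit 468) (nat_lit 344) (nat_lit 208)) (XT.lf (nat_lit 0) (nat_lit 75780022039) (nat_lit 76) (nat_lit 81665735373) (nat_lit 76) (nat_lit 71085297249) (nat_lit 130) (nat_lit 4) (nat_lit 131) (nat_lit 5) (nat_lit 131) (nat_lit 4) (nat_lit 469) (nat_lit 344) (nat_lit 207))))) (XT.nd (nat_lit 312) (nat_lit 304) (nat_lit 0) (XT.nd (nat_lit 156) (nat_lit 152) (nat_lit 0) (XT.nd (nat_lit 78) (nat_lit 76) (nat_lit 0) (XT.lf (nat_lit 0) (nat_lit 4935159145) (nat_lit 152) (nat_lit 463992678) (nat_lit 76) (nat_lit 230732209691) (nat_lit 129) (nat_lit 5) (nat_lit 131) (nat_lit 5) (nat_lit 130) (nat_lit 4) (nat_lit 470) (nat_lit 344) (nat_lit 206)) (XT.lf (nat_lit 0) (nat_lit 86137950660) (nat_lit 152) (nat_lit 81666784193) (nat_lit 0) (nat_lit 76060170000) (nat_lit 128) (nat_lit 5) (nat_lit 130)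 (nat_lit 4) (nat_lit 128) (nat_lit 4) (nat_lit 471) (nat_lit 344) (nat_lit 205))) (XT.nd (nat_lit 78) (nat_lit 76) (nat_lit 0) (XT.lf (nat_lit 0) (nat_lit 83593167372) (nat_lit 76) (nat_lit 89200326476) (nat_lit 76) (nat_lit 79122000905) (nat_lit 127) (nat_lit 4) (nat_lit 128) (nat_lit 5) (nat_lit 128) (nat_lit 4) (nat_lit 472) (nat_lit 344) (nat_lit 204)) (XT.lf (nat_lit 0) (nat_lit 4700687971) (nat_lit 152) (nat_lit 442434192) (nat_lit 76) (nat_lit 255152990923) (nat_lit 126) (nat_lit 5) (nat_lit 128) (nat_lit 5) (nat_lit 127) (nat_lit 4) (nat_lit 473) (nat_lit 344) (nat_lit 203)))) (XT.nd (nat_lit 156) (nat_lit 152) (nat_lit 0) (XT.nd (nat_lit 78) (nat_lit 76) (nat_lit 0) (XT.lf (nat_lit 0) (nat_lit 94226658015) (nat_lit 152) (nat_lit 89968404237) (nat_lit 0) (nat_lit 84627287744) (nat_lit 125) (nat_lit 5) (nat_lit 127) (nat_lit 4) (nat_lit 125) (nat_lit 4) (nat_lit 474) (nat_lit 344) (nat_lit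 202)) (XT.lf (nat_lit 0) (nat_lit 92205147041) (nat_lit 76) (nat_lit 97546711834) (nat_lit 76) (nat_lit 87946893263) (nat_lit 124) (nat_lit 4) (nat_lit 125) (nat_lit 5) (nat_lit 125) (nat_lit 4) (nat_lit 475) (nat_lit 344) (nat_lit 201))) (XT.nd (nat_lit 78) (nat_lit 76) (nat_lit 0) (XT.lf (nat_lit 0) (nat_lit 4477286987) (nat_lit 152) (nat_lit 421807198) (nat_lit 76) (nat_lit 282040508488) (nat_lit 123) (nat_lit 5) (nat_lit 125) (nat_lit 5) (nat_lit 124) (nat_lit 4) (nat_lit 476) (nat_lit 344) (nat_lit 200)) (XT.lf (nat_lit 0) (nat_lit 103179580438) (nat_lit 152) (nat_lit 99124100650) (nat_lit 0) (nat_lit 94036102205) (nat_lit 122) (nat_lit 5) (nat_lit 124) (nat_lit 4) (nat_lit 122) (nat_lit 4) (nat_lit 477) (nat_lit 344) (nat_lit 199))))))) (XT.nd (nat_lit 42744) (nat_lit 0) (nat_lit 13832) (XT.nd (nat_lit 624) (nat_lit 608) (nat_lit 0) (XT.nd (nat_lit 312) (nat_lit 304) (nat_lit 0) (XT.nd (nat_lit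 156) (nat_lit 152) (nat_lit 0) (XT.nd (nat_lit 78) (nat_lit 76) (nat_lit 0) (XT.lf (nat_lit 0) (nat_lit 101697908560) (nat_lit 76) (nat_lit 106786275822) (nat_lit 76) (nat_lit 97642428771) (nat_lit 121) (nat_lit 4) (nat_lit 122) (nat_lit 5) (nat_lit 122) (nat_lit 4) (nat_lit 478) (nat_lit 344) (nat_lit 198)) (XT.lf (nat_lit 0) (nat_lit 4264445904) (nat_lit 152) (nat_lit 402084200) (nat_lit 76) (nat_lit 311649281346) (nat_lit 120) (nat_lit 5) (nat_lit 122) (nat_lit 5) (nat_lit 121) (nat_lit 4) (nat_lit 479) (nat_lit 344) (nat_lit 197))) (XT.nd (nat_lit 78) (nat_lit 76) (nat_lit 0) (XT.lf (nat_lit 0) (nat_lit 113083651606) (nat_lit 152) (nat_lit 109221289902) (nat_lit 0) (nat_lit 104374572717) (nat_lit 119) (nat_lit 5) (nat_lit 121) (nat_lit 4) (nat_lit 119) (nat_lit 4) (nat_lit 480) (nat_lit 344) (nat_lit 196)) (XT.lf (nat_lit 0) (nat_lit 112161800993) (nat_lit 76) (nat_lit 117008821606) (nat_lit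 76) (nat_lit 108299439290) (nat_lit 118) (nat_lit 4) (nat_lit 119) (nat_lit 5) (nat_lit 119) (nat_lit 4) (nat_lit 481) (nat_lit 344) (nat_lit 195)))) (XT.nd (nat_lit 156) (nat_lit 152) (nat_lit 0) (XT.nd (nat_lit 78) (nat_lit 76) (nat_lit 0) (XT.lf (nat_lit 0) (nat_lit 4061675741) (nat_lit 152) (nat_lit 383236023) (nat_lit 76) (nat_lit 344259846394) (nat_lit 117) (nat_lit 5) (nat_lit 119) (nat_lit 5) (nat_lit 118) (nat_lit 4) (nat_lit 482) (nat_lit 344) (nat_lit 194)) (XT.lf (nat_lit 0) (nat_lit 124034790112) (nat_lit 152) (nat_lit 120356350394) (nat_lit 0) (nat_lit 115739602958) (nat_lit 116) (nat_lit 5) (nat_lit 118) (nat_lit 4) (nat_lit 116) (nat_lit 4) (nat_lit 483) (nat_lit 344) (nat_lit 193))) (XT.nd (nat_lit 78) (nat_lit 76) (nat_lit 0) (XT.lf (nat_lit 0) (nat_lit 123696435110) (nat_lit 76) (nat_lit 128313432177) (nat_lit 76) (nat_lit 120017995393) (nat_lit 115) (nat_lit 4) (nat_lit 116)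 (nat_lit 5) (nat_lit 116) (nat_lit 4) (nat_lit 484) (nat_lit 344) (nat_lit 192)) (XT.lf (nat_lit 0) (nat_lit 3868508343) (nat_lit 152) (nat_lit 365232422) (nat_lit 76) (nat_lit 380181426935) (nat_lit 114) (nat_lit 5) (nat_lit 116) (nat_lit 5) (nat_lit 115) (nat_lit 4) (nat_lit 485) (nat_lit 344) (nat_lit 191))))) (XT.nd (nat_lit 312) (nat_lit 304) (nat_lit 0) (XT.nd (nat_lit 156) (nat_lit 152) (nat_lit 0) (XT.nd (nat_lit 78) (nat_lit 76) (nat_lit 0) (XT.lf (nat_lit 0) (nat_lit 136138817644) (nat_lit 152) (nat_lit 132635541722) (nat_lit 0) (nat_lit 128237959597) (nat_lit 113) (nat_lit 5) (nat_lit 115) (nat_lit 4) (nat_lit 113) (nat_lit 4) (nat_lit 486) (nat_lit 344) (nat_lit 190)) (XT.lf (nat_lit 0) (nat_lit 136411631923) (nat_lit 76) (nat_lit 140809419420) (nat_lit 76) (nat_lit 132908356001) (nat_lit 112) (nat_lit 4) (nat_lit 113) (nat_lit 5) (nat_lit 113) (nat_lit 4) (nat_lit 487) (nat_lit 344)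 (nat_lit 189))) (XT.nd (nat_lit 78) (nat_lit 76) (nat_lit 0) (XT.lf (nat_lit 0) (nat_lit 3684495825) (nat_lit 152) (nat_lit 348042567) (nat_lit 76) (nat_lit 419754874893) (nat_lit 111) (nat_lit 5) (nat_lit 113) (nat_lit 5) (nat_lit 112) (nat_lit 4) (nat_lit 488) (nat_lit 344) (nat_lit 188)) (XT.lf (nat_lit 0) (nat_lit 149512471276) (nat_lit 152) (nat_lit 146176018017) (nat_lit 0) (nat_lit 141987285287) (nat_lit 110) (nat_lit 5) (nat_lit 112) (nat_lit 4) (nat_lit 110) (nat_lit 4) (nat_lit 489) (nat_lit 344) (nat_lit 187)))) (XT.nd (nat_lit 156) (nat_lit 152) (nat_lit 0) (XT.nd (nat_lit 78) (nat_lit 76) (nat_lit 0) (XT.lf (nat_lit 0) (nat_lit 150428468613) (nat_lit 76) (nat_lit 154617370303) (nat_lit 76) (nat_lit 147092015355) (nat_lit 109) (nat_lit 4) (nat_lit 110) (nat_lit 5) (nat_lit 110) (nat_lit 4) (nat_lit 490) (nat_lit 344) (nat_lit 186)) (XT.lf (nat_lit 0) (nat_lit 3509209965) (nat_lit 152)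 (nat_lit 331635433) (nat_lit 76) (nat_lit 463355914763) (nat_lit 108) (nat_lit 5) (nat_lit 110) (nat_lit 5) (nat_lit 109) (nat_lit 4) (nat_lit 491) (nat_lit 344) (nat_lit 185))) (XT.nd (nat_lit 78) (nat_lit 76) (nat_lit 0) (XT.lf (nat_lit 0) (nat_lit 164284519536) (nat_lit 152) (nat_lit 161106945003) (nat_lit 0) (nat_lit 157117215618) (nat_lit 107) (nat_lit 5) (nat_lit 109) (nat_lit 4) (nat_lit 107) (nat_lit 4) (nat_lit 492) (nat_lit 344) (nat_lit 184)) (XT.lf (nat_lit 0) (nat_lit 165880431809) (nat_lit 76) (nat_lit 169870300197) (nat_lit 76) (nat_lit 162702857277) (nat_lit 106) (nat_lit 4) (nat_lit 107) (nat_lit 5) (nat_lit 107) (nat_lit 4) (nat_lit 493) (nat_lit 344) (nat_lit 183)))))) (XT.nd (nat_lit 624) (nat_lit 2660) (nat_lit 0) (XT.nd (nat_lit 312) (nat_lit 456) (nat_lit 0) (XT.nd (nat_lit 156) (nat_lit 456) (nat_lit 0) (XT.nd (nat_lit 78) (nat_lit 0) (nat_lit 0) (XT.lf (nat_lit 0) (nat_lit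 175226623) (nat_lit 0) (nat_lit 175226623) (nat_lit 380) (nat_lit 3014310835) (nat_lit 335) (nat_lit 5) (nat_lit 335) (nat_lit 3) (nat_lit 340) (nat_lit 3) (nat_lit 345) (nat_lit 345) (nat_lit 330)) (XT.lf (nat_lit 0) (nat_lit 2878314596) (nat_lit 380) (nat_lit 2993944081) (nat_lit 456) (nat_lit 917513420) (nat_lit 335) (nat_lit 5) (nat_lit 340) (nat_lit 3) (nat_lit 341) (nat_lit 5) (nat_lit 346) (nat_lit 345) (nat_lit 329))) (XT.nd (nat_lit 78) (nat_lit 456) (nat_lit 0) (XT.lf (nat_lit 76) (nat_lit 493912747) (nat_lit 0) (nat_lit 4547896418) (nat_lit 456) (nat_lit 1817358258) (nat_lit 336) (nat_lit 5) (nat_lit 335) (nat_lit 5) (nat_lit 341) (nat_lit 5) (nat_lit 347) (nat_lit 345) (nat_lit 328)) (XT.lf (nat_lit 0) (nat_lit 287696665) (nat_lit 456) (nat_lit 2755936987) (nat_lit 532) (nat_lit 3892178123) (nat_lit 329) (nat_lit 5) (nat_lit 335) (nat_lit 5) (nat_lit 336) (nat_lit 5) (nat_lit 348) (nat_lit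 345) (nat_lit 327)))) (XT.nd (nat_lit 156) (nat_lit 456) (nat_lit 0) (XT.nd (nat_lit 78) (nat_lit 0) (nat_lit 76) (XT.lf (nat_lit 76) (nat_lit 958780397) (nat_lit 0) (nat_lit 1366379238) (nat_lit 532) (nat_lit 4695227547) (nat_lit 330) (nat_lit 5) (nat_lit 329) (nat_lit 5) (nat_lit 336) (nat_lit 5) (nat_lit 349) (nat_lit 345) (nat_lit 326)) (XT.lf (nat_lit 0) (nat_lit 4396962454) (nat_lit 456) (nat_lit 2240436901) (nat_lit 532) (nat_lit 475168671) (nat_lit 330) (nat_lit 5) (nat_lit 336) (nat_lit 5) (nat_lit 337) (nat_lit 5) (nat_lit 350) (nat_lit 345) (nat_lit 325))) (XT.nd (nat_lit 78) (nat_lit 532) (nat_lit 0) (XT.lf (nat_lit 76) (nat_lit 1726985513) (nat_lit 0) (nat_lit 4779366428) (nat_lit 532) (nat_lit 706306144) (nat_lit 331) (nat_lit 5) (nat_lit 330) (nat_lit 5) (nat_lit 337) (nat_lit 5) (nat_lit 351) (nat_lit 345) (nat_lit 324)) (XT.lf (nat_lit 0) (nat_lit 1284217135) (nat_lit 532) (nat_lit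 1447987730) (nat_lit 608) (nat_lit 4588168272) (nat_lit 323) (nat_lit 5) (nat_lit 330) (nat_lit 5) (nat_lit 331) (nat_lit 5) (nat_lit 352) (nat_lit 345) (nat_lit 323))))) (XT.nd (nat_lit 312) (nat_lit 1520) (nat_lit 0) (XT.nd (nat_lit 156) (nat_lit 1140) (nat_lit 0) (XT.nd (nat_lit 78) (nat_lit 0) (nat_lit 76) (XT.lf (nat_lit 76) (nat_lit 2793054658) (nat_lit 0) (nat_lit 493571778) (nat_lit 608) (nat_lit 4149463746) (nat_lit 324) (nat_lit 5) (nat_lit 323) (nat_lit 5) (nat_lit 331) (nat_lit 5) (nat_lit 353) (nat_lit 345) (nat_lit 322)) (XT.lf (nat_lit 0) (nat_lit 5339953500) (nat_lit 532) (nat_lit 370075990) (nat_lit 76) (nat_lit 1850023726) (nat_lit 324) (nat_lit 5) (nat_lit 331) (nat_lit 5) (nat_lit 325) (nat_lit 5) (nat_lit 354) (nat_lit 345) (nat_lit 321))) (XT.nd (nat_lit 78) (nat_lit 684) (nat_lit 0) (XT.lf (nat_lit 0) (nat_lit 4164851742) (nat_lit 532) (nat_lit 3306002050) (nat_lit 608) (nat_lit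 220615264) (nat_lit 317) (nat_lit 5) (nat_lit 324) (nat_lit 5) (nat_lit 325) (nat_lit 5) (nat_lit 355) (nat_lit 345) (nat_lit 320)) (XT.lf (nat_lit 0) (nat_lit 1035091836) (nat_lit 608) (nat_lit 709881074) (nat_lit 684) (nat_lit 6086702867) (nat_lit 308) (nat_lit 5) (nat_lit 316) (nat_lit 5) (nat_lit 317) (nat_lit 5) (nat_lit 356) (nat_lit 345) (nat_lit 319)))) (XT.nd (nat_lit 156) (nat_lit 836) (nat_lit 0) (XT.nd (nat_lit 78) (nat_lit 684) (nat_lit 0) (XT.lf (nat_lit 0) (nat_lit 3800952513) (nat_lit 684) (nat_lit 2147100936) (nat_lit 76) (nat_lit 2030682246) (nat_lit 308) (nat_lit 5) (nat_lit 317) (nat_lit 5) (nat_lit 309) (nat_lit 5) (nat_lit 357) (nat_lit 345) (nat_lit 318)) (XT.lf (nat_lit 0) (nat_lit 2732145380) (nat_lit 684) (nat_lit 3193637595) (nat_lit 760) (nat_lit 2209063040) (nat_lit 299) (nat_lit 5) (nat_lit 308) (nat_lit 5) (nat_lit 309) (nat_lit 5) (nat_lit 358) (nat_lit 345) (nat_lit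 317))) (XT.nd (nat_lit 78) (nat_lit 836) (nat_lit 0) (XT.lf (nat_lit 0) (nat_lit 7852643788) (nat_lit 684) (nat_lit 255327271) (nat_lit 760) (nat_lit 193234987) (nat_lit 299) (nat_lit 5) (nat_lit 308) (nat_lit 5) (nat_lit 309) (nat_lit 5) (nat_lit 359) (nat_lit 345) (nat_lit 316)) (XT.lf (nat_lit 0) (nat_lit 1900257964) (nat_lit 836) (nat_lit 3720161245) (nat_lit 76) (nat_lit 2852041709) (nat_lit 288) (nat_lit 5) (nat_lit 299) (nat_lit 5) (nat_lit 289) (nat_lit 5) (nat_lit 360) (nat_lit 345) (nat_lit 315))))))))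
noncomputable def xc145 : XT := (XT.nd (nat_lit 2496) (nat_lit 2736) (nat_lit 0) (XT.nd (nat_lit 1248) (nat_lit 2280) (nat_lit 0) (XT.nd (nat_lit 624) (nat_lit 1520) (nat_lit 0) (XT.nd (nat_lit 312) (nat_lit 684) (nat_lit 0) (XT.nd (nat_lit 156) (nat_lit 836) (nat_lit 0) (XT.nd (nat_lit 78) (nat_lit 0) (nat_lit 0) (XT.lf (nat_lit 0) (nat_lit 1539543085) (nat_lit 456) (nat_lit 2508644792) (nat_lit 532) (nat_lit 4606119451) (nat_lit 282) (nat_lit 5) (nat_lit 288) (nat_lit 5) (nat_lit 289) (nat_lit 5) (nat_lit 361) (nat_lit 345) (nat_lit 314)) (XT.lf (nat_lit 0) (nat_lit 6302275798) (nat_lit 532) (nat_lit 1745286587) (nat_lit 76) (nat_lit 797745600) (nat_lit 282) (nat_lit 5) (nat_lit 289) (nat_lit 5) (nat_lit 283) (nat_lit 5) (nat_lit 362) (nat_lit 345) (nat_lit 313))) (XT.nd (nat_lit 78) (nat_lit 456) (nat_lit 0) (XT.lf (nat_lit 0) (nat_lit 3898506327) (nat_lit 380) (nat_lit 4799106319) (nat_lit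 456) (nat_lit 346818802) (nat_lit 277) (nat_lit 5) (nat_lit 282) (nat_lit 5) (nat_lit 283) (nat_lit 5) (nat_lit 363) (nat_lit 345) (nat_lit 312)) (XT.lf (nat_lit 0) (nat_lit 540322752) (nat_lit 380) (nat_lit 1322342010) (nat_lit 456) (nat_lit 7391008572) (nat_lit 271) (nat_lit 5) (nat_lit 276) (nat_lit 5) (nat_lit 277) (nat_lit 5) (nat_lit 364) (nat_lit 345) (nat_lit 311)))) (XT.nd (nat_lit 156) (nat_lit 380) (nat_lit 0) (XT.nd (nat_lit 78) (nat_lit 304) (nat_lit 0) (XT.lf (nat_lit 0) (nat_lit 4225695925) (nat_lit 456) (nat_lit 2904004835) (nat_lit 76) (nat_lit 2340655836) (nat_lit 271) (nat_lit 5) (nat_lit 277) (nat_lit 5) (nat_lit 272) (nat_lit 5) (nat_lit 365) (nat_lit 345) (nat_lit 310)) (XT.lf (nat_lit 0) (nat_lit 3199330950) (nat_lit 304) (nat_lit 3512319510) (nat_lit 380) (nat_lit 2985984970) (nat_lit 267) (nat_lit 5) (nat_lit 271) (nat_lit 5) (nat_lit 272) (nat_lit 5) (nat_lit 366) (nat_lit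 345) (nat_lit 309))) (XT.nd (nat_lit 78) (nat_lit 380) (nat_lit 0) (XT.lf (nat_lit 0) (nat_lit 9311322017) (nat_lit 380) (nat_lit 309458246) (nat_lit 76) (nat_lit 316026978) (nat_lit 267) (nat_lit 5) (nat_lit 272) (nat_lit 5) (nat_lit 268) (nat_lit 5) (nat_lit 367) (nat_lit 345) (nat_lit 308)) (XT.lf (nat_lit 0) (nat_lit 1888581716) (nat_lit 380) (nat_lit 3957502543) (nat_lit 76) (nat_lit 4335664276) (nat_lit 262) (nat_lit 5) (nat_lit 267) (nat_lit 5) (nat_lit 263) (nat_lit 5) (nat_lit 368) (nat_lit 345) (nat_lit 307))))) (XT.nd (nat_lit 312) (nat_lit 608) (nat_lit 0) (XT.nd (nat_lit 156) (nat_lit 608) (nat_lit 0) (XT.nd (nat_lit 78) (nat_lit 0) (nat_lit 0) (XT.lf (nat_lit 0) (nat_lit 2655283175) (nat_lit 304) (nat_lit 1837703771) (nat_lit 380) (nat_lit 5946154486) (nat_lit 258) (nat_lit 5) (nat_lit 262) (nat_lit 5) (nat_lit 263) (nat_lit 5) (nat_lit 369) (nat_lit 345) (nat_lit 306)) (XT.lf (nat_lit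 0) (nat_lit 7273126123) (nat_lit 380) (nat_lit 1085635379) (nat_lit 76) (nat_lit 2348366788) (nat_lit 258) (nat_lit 5) (nat_lit 263) (nat_lit 5) (nat_lit 259) (nat_lit 5) (nat_lit 370) (nat_lit 345) (nat_lit 305))) (XT.nd (nat_lit 78) (nat_lit 304) (nat_lit 0) (XT.lf (nat_lit 0) (nat_lit 6036710428) (nat_lit 304) (nat_lit 4223150743) (nat_lit 380) (nat_lit 725273875) (nat_lit 254) (nat_lit 5) (nat_lit 258) (nat_lit 5) (nat_lit 259) (nat_lit 5) (nat_lit 371) (nat_lit 345) (nat_lit 304)) (XT.lf (nat_lit 0) (nat_lit 2051614336) (nat_lit 304) (nat_lit 9037976387) (nat_lit 76) (nat_lit 185770262) (nat_lit 250) (nat_lit 5) (nat_lit 254) (nat_lit 5) (nat_lit 251) (nat_lit 5) (nat_lit 372) (nat_lit 345) (nat_lit 303)))) (XT.nd (nat_lit 156) (nat_lit 304) (nat_lit 0) (XT.nd (nat_lit 78) (nat_lit 304) (nat_lit 0) (XT.lf (nat_lit 0) (nat_lit 5042494553) (nat_lit 304) (nat_lit 1779894642) (nat_lit 76) (nat_lit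 4752138463) (nat_lit 250) (nat_lit 5) (nat_lit 254) (nat_lit 5) (nat_lit 251) (nat_lit 5) (nat_lit 373) (nat_lit 345) (nat_lit 302)) (XT.lf (nat_lit 0) (nat_lit 5959672723) (nat_lit 304) (nat_lit 2264018748) (nat_lit 380) (nat_lit 3662922557) (nat_lit 246) (nat_lit 5) (nat_lit 250) (nat_lit 5) (nat_lit 251) (nat_lit 5) (nat_lit 374) (nat_lit 345) (nat_lit 301))) (XT.nd (nat_lit 78) (nat_lit 76) (nat_lit 0) (XT.lf (nat_lit 0) (nat_lit 1882356108) (nat_lit 228) (nat_lit 9729790517) (nat_lit 304) (nat_lit 599748174) (nat_lit 243) (nat_lit 5) (nat_lit 246) (nat_lit 5) (nat_lit 247) (nat_lit 5) (nat_lit 375) (nat_lit 345) (nat_lit 300)) (XT.lf (nat_lit 0) (nat_lit 2621261957) (nat_lit 304) (nat_lit 2413872824) (nat_lit 76) (nat_lit 7511841011) (nat_lit 242) (nat_lit 5) (nat_lit 246) (nat_lit 5) (nat_lit 243) (nat_lit 5) (nat_lit 376) (nat_lit 345) (nat_lit 299)))))) (XT.nd (nat_lit 624) (nat_lit 912)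 (nat_lit 0) (XT.nd (nat_lit 312) (nat_lit 608) (nat_lit 0) (XT.nd (nat_lit 156) (nat_lit 304) (nat_lit 0) (XT.nd (nat_lit 78) (nat_lit 228) (nat_lit 0) (XT.lf (nat_lit 0) (nat_lit 6009881352) (nat_lit 228) (nat_lit 18819630) (nat_lit 304) (nat_lit 6867341563) (nat_lit 239) (nat_lit 5) (nat_lit 242) (nat_lit 5) (nat_lit 243) (nat_lit 5) (nat_lit 377) (nat_lit 345) (nat_lit 298)) (XT.lf (nat_lit 0) (nat_lit 1574807026) (nat_lit 228) (nat_lit 8132363627) (nat_lit 304) (nat_lit 3550359048) (nat_lit 236) (nat_lit 5) (nat_lit 239) (nat_lit 5) (nat_lit 240) (nat_lit 5) (nat_lit 378) (nat_lit 345) (nat_lit 297))) (XT.nd (nat_lit 78) (nat_lit 228) (nat_lit 0) (XT.lf (nat_lit 0) (nat_lit 6462857) (nat_lit 304) (nat_lit 3006032785) (nat_lit 76) (nat_lit 10621056839) (nat_lit 235) (nat_lit 5) (nat_lit 239) (nat_lit 5) (nat_lit 236) (nat_lit 5) (nat_lit 379) (nat_lit 345) (nat_lit 296)) (XT.lf (nat_lit 0) (nat_lit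 3712529228) (nat_lit 304) (nat_lit 7886095558) (nat_lit 76) (nat_lit 2422305548) (nat_lit 232) (nat_lit 5) (nat_lit 236) (nat_lit 5) (nat_lit 233) (nat_lit 5) (nat_lit 380) (nat_lit 345) (nat_lit 295)))) (XT.nd (nat_lit 156) (nat_lit 456) (nat_lit 0) (XT.nd (nat_lit 78) (nat_lit 0) (nat_lit 0) (XT.lf (nat_lit 0) (nat_lit 1335687988) (nat_lit 152) (nat_lit 6346142000) (nat_lit 228) (nat_lit 6741950539) (nat_lit 230) (nat_lit 5) (nat_lit 232) (nat_lit 5) (nat_lit 233) (nat_lit 5) (nat_lit 381) (nat_lit 345) (nat_lit 294)) (XT.lf (nat_lit 0) (nat_lit 11224638766) (nat_lit 152) (nat_lit 715501278) (nat_lit 228) (nat_lit 2902105971) (nat_lit 230) (nat_lit 5) (nat_lit 232) (nat_lit 5) (nat_lit 233) (nat_lit 5) (nat_lit 382) (nat_lit 345) (nat_lit 293))) (XT.nd (nat_lit 78) (nat_lit 152) (nat_lit 0) (XT.lf (nat_lit 0) (nat_lit 1235326560) (nat_lit 304) (nat_lit 8911175292) (nat_lit 76) (nat_lit 5127163304)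 (nat_lit 226) (nat_lit 5) (nat_lit 230) (nat_lit 5) (nat_lit 227) (nat_lit 5) (nat_lit 383) (nat_lit 345) (nat_lit 292)) (XT.lf (nat_lit 0) (nat_lit 1153757313) (nat_lit 152) (nat_lit 4379316874) (nat_lit 228) (nat_lit 10188653630) (nat_lit 224) (nat_lit 5) (nat_lit 226) (nat_lit 5) (nat_lit 227) (nat_lit 5) (nat_lit 384) (nat_lit 345) (nat_lit 291))))) (XT.nd (nat_lit 312) (nat_lit 532) (nat_lit 0) (XT.nd (nat_lit 156) (nat_lit 228) (nat_lit 0) (XT.nd (nat_lit 78) (nat_lit 152) (nat_lit 0) (XT.lf (nat_lit 0) (nat_lit 10184767747) (nat_lit 228) (nat_lit 4248974614) (nat_lit 76) (nat_lit 1751498321) (nat_lit 224) (nat_lit 5) (nat_lit 227) (nat_lit 5) (nat_lit 225) (nat_lit 5) (nat_lit 385) (nat_lit 345) (nat_lit 290)) (XT.lf (nat_lit 0) (nat_lit 6663653157) (nat_lit 152) (nat_lit 8542650696) (nat_lit 228) (nat_lit 1458762444) (nat_lit 222) (nat_lit 5) (nat_lit 224) (nat_lit 5) (nat_lit 225) (nat_lit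 5) (nat_lit 386) (nat_lit 345) (nat_lit 289))) (XT.nd (nat_lit 78) (nat_lit 0) (nat_lit 0) (XT.lf (nat_lit 0) (nat_lit 1019883187) (nat_lit 152) (nat_lit 2234935843) (nat_lit 228) (nat_lit 13908943857) (nat_lit 219) (nat_lit 5) (nat_lit 221) (nat_lit 5) (nat_lit 222) (nat_lit 5) (nat_lit 387) (nat_lit 345) (nat_lit 288)) (XT.lf (nat_lit 0) (nat_lit 8357831781) (nat_lit 228) (nat_lit 4899142969) (nat_lit 76) (nat_lit 4419085042) (nat_lit 219) (nat_lit 5) (nat_lit 222) (nat_lit 5) (nat_lit 220) (nat_lit 5) (nat_lit 388) (nat_lit 345) (nat_lit 287)))) (XT.nd (nat_lit 156) (nat_lit 152) (nat_lit 0) (XT.nd (nat_lit 78) (nat_lit 228) (nat_lit 0) (XT.lf (nat_lit 0) (nat_lit 7034939029) (nat_lit 152) (nat_lit 6791443032) (nat_lit 228) (nat_lit 4382070136) (nat_lit 217) (nat_lit 5) (nat_lit 219) (nat_lit 5) (nat_lit 220) (nat_lit 5) (nat_lit 389) (nat_lit 345) (nat_lit 286)) (XT.lf (nat_lit 0) (nat_lit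 839551082) (nat_lit 228) (nat_lit 17838395213) (nat_lit 76) (nat_lit 85678259) (nat_lit 214) (nat_lit 5) (nat_lit 217) (nat_lit 5) (nat_lit 215) (nat_lit 5) (nat_lit 390) (nat_lit 345) (nat_lit 285))) (XT.nd (nat_lit 78) (nat_lit 152) (nat_lit 0) (XT.lf (nat_lit 0) (nat_lit 6443127468) (nat_lit 228) (nat_lit 5568516498) (nat_lit 76) (nat_lit 7317912684) (nat_lit 214) (nat_lit 5) (nat_lit 217) (nat_lit 5) (nat_lit 215) (nat_lit 5) (nat_lit 391) (nat_lit 345) (nat_lit 284)) (XT.lf (nat_lit 0) (nat_lit 7495741871) (nat_lit 152) (nat_lit 4914336341) (nat_lit 228) (nat_lit 7509547361) (nat_lit 212) (nat_lit 5) (nat_lit 214) (nat_lit 5) (nat_lit 215) (nat_lit 5) (nat_lit 392) (nat_lit 345) (nat_lit 283))))))) (XT.nd (nat_lit 1248) (nat_lit 1140) (nat_lit 0) (XT.nd (nat_lit 624) (nat_lit 836) (nat_lit 0) (XT.nd (nat_lit 312) (nat_lit 380) (nat_lit 0) (XT.nd (nat_lit 156) (nat_lit 228) (nat_lit 0) (XT.nd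 (nat_lit 78) (nat_lit 76) (nat_lit 0) (XT.lf (nat_lit 0) (nat_lit 797059082) (nat_lit 76) (nat_lit 17992717024) (nat_lit 152) (nat_lit 1743701856) (nat_lit 211) (nat_lit 5) (nat_lit 212) (nat_lit 5) (nat_lit 213) (nat_lit 4) (nat_lit 393) (nat_lit 345) (nat_lit 282)) (XT.lf (nat_lit 0) (nat_lit 4433519067) (nat_lit 152) (nat_lit 6267920896) (nat_lit 76) (nat_lit 10460165906) (nat_lit 210) (nat_lit 5) (nat_lit 212) (nat_lit 5) (nat_lit 211) (nat_lit 5) (nat_lit 394) (nat_lit 345) (nat_lit 281))) (XT.nd (nat_lit 78) (nat_lit 76) (nat_lit 0) (XT.lf (nat_lit 0) (nat_lit 8046294855) (nat_lit 152) (nat_lit 2908548135) (nat_lit 228) (nat_lit 10860175832) (nat_lit 208) (nat_lit 5) (nat_lit 210) (nat_lit 5) (nat_lit 211) (nat_lit 5) (nat_lit 395) (nat_lit 345) (nat_lit 280)) (XT.lf (nat_lit 0) (nat_lit 678764633) (nat_lit 76) (nat_lit 17292773805) (nat_lit 152) (nat_lit 4521098715) (nat_lit 207) (nat_lit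 5) (nat_lit 208) (nat_lit 5) (nat_lit 209) (nat_lit 4) (nat_lit 396) (nat_lit 345) (nat_lit 279)))) (XT.nd (nat_lit 156) (nat_lit 152) (nat_lit 0) (XT.nd (nat_lit 78) (nat_lit 152) (nat_lit 0) (XT.lf (nat_lit 0) (nat_lit 2319880972) (nat_lit 152) (nat_lit 7007699869) (nat_lit 76) (nat_lit 13862224954) (nat_lit 206) (nat_lit 5) (nat_lit 208) (nat_lit 5) (nat_lit 207) (nat_lit 5) (nat_lit 397) (nat_lit 345) (nat_lit 278)) (XT.lf (nat_lit 0) (nat_lit 8688431863) (nat_lit 152) (nat_lit 768281549) (nat_lit 228) (nat_lit 14456126520) (nat_lit 204) (nat_lit 5) (nat_lit 206) (nat_lit 5) (nat_lit 207) (nat_lit 5) (nat_lit 398) (nat_lit 345) (nat_lit 277))) (XT.nd (nat_lit 78) (nat_lit 76) (nat_lit 0) (XT.lf (nat_lit 0) (nat_lit 580347205) (nat_lit 76) (nat_lit 16598351597) (nat_lit 152) (nat_lit 7481911410) (nat_lit 203) (nat_lit 5) (nat_lit 204) (nat_lit 5) (nat_lit 205) (nat_lit 4) (nat_lit 399) (nat_lit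 345) (nat_lit 276)) (XT.lf (nat_lit 0) (nat_lit 91161091) (nat_lit 152) (nat_lit 7797948930) (nat_lit 76) (nat_lit 17544530187) (nat_lit 202) (nat_lit 5) (nat_lit 204) (nat_lit 5) (nat_lit 203) (nat_lit 5) (nat_lit 400) (nat_lit 345) (nat_lit 275))))) (XT.nd (nat_lit 312) (nat_lit 380) (nat_lit 0) (XT.nd (nat_lit 156) (nat_lit 228) (nat_lit 0) (XT.nd (nat_lit 78) (nat_lit 76) (nat_lit 0) (XT.lf (nat_lit 0) (nat_lit 7934071415) (nat_lit 228) (nat_lit 16831422280) (nat_lit 76) (nat_lit 1466564023) (nat_lit 200) (nat_lit 5) (nat_lit 203) (nat_lit 5) (nat_lit 201) (nat_lit 4) (nat_lit 401) (nat_lit 345) (nat_lit 274)) (XT.lf (nat_lit 0) (nat_lit 498334854) (nat_lit 76) (nat_lit 15914118071) (nat_lit 152) (nat_lit 10645776895) (nat_lit 199) (nat_lit 5) (nat_lit 200) (nat_lit 5) (nat_lit 201) (nat_lit 4) (nat_lit 402) (nat_lit 345) (nat_lit 273))) (XT.nd (nat_lit 78) (nat_lit 228) (nat_lit 0) (XT.lf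 (nat_lit 0) (nat_lit 19227567259) (nat_lit 76) (nat_lit 6344755114) (nat_lit 152) (nat_lit 2340509710) (nat_lit 199) (nat_lit 5) (nat_lit 200) (nat_lit 5) (nat_lit 201) (nat_lit 4) (nat_lit 403) (nat_lit 345) (nat_lit 272)) (XT.lf (nat_lit 0) (nat_lit 6371154019) (nat_lit 228) (nat_lit 18598071447) (nat_lit 76) (nat_lit 3826191808) (nat_lit 196) (nat_lit 5) (nat_lit 199) (nat_lit 5) (nat_lit 197) (nat_lit 4) (nat_lit 404) (nat_lit 345) (nat_lit 271)))) (XT.nd (nat_lit 156) (nat_lit 304) (nat_lit 0) (XT.nd (nat_lit 78) (nat_lit 0) (nat_lit 0) (XT.lf (nat_lit 0) (nat_lit 429868720) (nat_lit 76) (nat_lit 15243644450) (nat_lit 152) (nat_lit 14035011670) (nat_lit 195) (nat_lit 5) (nat_lit 196) (nat_lit 5) (nat_lit 197) (nat_lit 4) (nat_lit 405) (nat_lit 345) (nat_lit 270)) (XT.lf (nat_lit 0) (nat_lit 21005754814) (nat_lit 76) (nat_lit 4724239884) (nat_lit 152) (nat_lit 4922842863) (nat_lit 195) (nat_lit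 5) (nat_lit 196) (nat_lit 5) (nat_lit 197) (nat_lit 4) (nat_lit 406) (nat_lit 345) (nat_lit 269))) (XT.nd (nat_lit 78) (nat_lit 76) (nat_lit 0) (XT.lf (nat_lit 0) (nat_lit 4748465861) (nat_lit 228) (nat_lit 20531107182) (nat_lit 76) (nat_lit 6348556935) (nat_lit 192) (nat_lit 5) (nat_lit 195) (nat_lit 5) (nat_lit 193) (nat_lit 4) (nat_lit 407) (nat_lit 345) (nat_lit 268)) (XT.lf (nat_lit 0) (nat_lit 372594443) (nat_lit 76) (nat_lit 14589612707) (nat_lit 152) (nat_lit 17674729402) (nat_lit 191) (nat_lit 5) (nat_lit 192) (nat_lit 5) (nat_lit 193) (nat_lit 4) (nat_lit 408) (nat_lit 345) (nat_lit 267)))))) (XT.nd (nat_lit 624) (nat_lit 608) (nat_lit 0) (XT.nd (nat_lit 312) (nat_lit 304) (nat_lit 0) (XT.nd (nat_lit 156) (nat_lit 76) (nat_lit 0) (XT.nd (nat_lit 78) (nat_lit 152) (nat_lit 0) (XT.lf (nat_lit 0) (nat_lit 22987300784) (nat_lit 76) (nat_lit 3022483451) (nat_lit 152) (nat_lit 7670241782) (nat_lit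 191) (nat_lit 5) (nat_lit 192) (nat_lit 5) (nat_lit 193) (nat_lit 4) (nat_lit 409) (nat_lit 345) (nat_lit 266)) (XT.lf (nat_lit 0) (nat_lit 3057353752) (nat_lit 152) (nat_lit 22650539482) (nat_lit 76) (nat_lit 9049483808) (nat_lit 189) (nat_lit 5) (nat_lit 191) (nat_lit 5) (nat_lit 190) (nat_lit 4) (nat_lit 410) (nat_lit 345) (nat_lit 265))) (XT.nd (nat_lit 78) (nat_lit 0) (nat_lit 0) (XT.lf (nat_lit 0) (nat_lit 324572830) (nat_lit 76) (nat_lit 13953985427) (nat_lit 152) (nat_lit 21593000296) (nat_lit 188) (nat_lit 5) (nat_lit 189) (nat_lit 5) (nat_lit 190) (nat_lit 4) (nat_lit 411) (nat_lit 345) (nat_lit 264)) (XT.lf (nat_lit 0) (nat_lit 25189931365) (nat_lit 76) (nat_lit 1231244028) (nat_lit 152) (nat_lit 10602256126) (nat_lit 188) (nat_lit 5) (nat_lit 189) (nat_lit 5) (nat_lit 190) (nat_lit 4) (nat_lit 412) (nat_lit 345) (nat_lit 263)))) (XT.nd (nat_lit 156) (nat_lit 76) (nat_lit 0) (XT.nd (nat_lit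 78) (nat_lit 76) (nat_lit 0) (XT.lf (nat_lit 0) (nat_lit 1287997956) (nat_lit 152) (nat_lit 24977888721) (nat_lit 76) (nat_lit 11947279429) (nat_lit 186) (nat_lit 5) (nat_lit 188) (nat_lit 5) (nat_lit 187) (nat_lit 4) (nat_lit 413) (nat_lit 345) (nat_lit 262)) (XT.lf (nat_lit 0) (nat_lit 284206356) (nat_lit 76) (nat_lit 13338144960) (nat_lit 152) (nat_lit 25821051136) (nat_lit 185) (nat_lit 5) (nat_lit 186) (nat_lit 5) (nat_lit 187) (nat_lit 4) (nat_lit 414) (nat_lit 345) (nat_lit 261))) (XT.nd (nat_lit 78) (nat_lit 76) (nat_lit 0) (XT.lf (nat_lit 0) (nat_lit 26984705790) (nat_lit 152) (nat_lit 13091681753) (nat_lit 0) (nat_lit 638198900) (nat_lit 185) (nat_lit 5) (nat_lit 187) (nat_lit 4) (nat_lit 185) (nat_lit 4) (nat_lit 415) (nat_lit 345) (nat_lit 260)) (XT.lf (nat_lit 0) (nat_lit 14482514581) (nat_lit 76) (nat_lit 26956150170) (nat_lit 76) (nat_lit 589490544) (nat_lit 184) (nat_lit 4) (nat_lit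 185) (nat_lit 5) (nat_lit 185) (nat_lit 4) (nat_lit 416) (nat_lit 345) (nat_lit 259))))) (XT.nd (nat_lit 312) (nat_lit 228) (nat_lit 0) (XT.nd (nat_lit 156) (nat_lit 228) (nat_lit 0) (XT.nd (nat_lit 78) (nat_lit 0) (nat_lit 0) (XT.lf (nat_lit 0) (nat_lit 250178688) (nat_lit 76) (nat_lit 12743007359) (nat_lit 152) (nat_lit 30393505770) (nat_lit 182) (nat_lit 5) (nat_lit 183) (nat_lit 5) (nat_lit 184) (nat_lit 4) (nat_lit 417) (nat_lit 345) (nat_lit 258)) (XT.lf (nat_lit 0) (nat_lit 27722188507) (nat_lit 152) (nat_lit 14490737043) (nat_lit 0) (nat_lit 2575396284) (nat_lit 182) (nat_lit 5) (nat_lit 184) (nat_lit 4) (nat_lit 182) (nat_lit 4) (nat_lit 418) (nat_lit 345) (nat_lit 257))) (XT.nd (nat_lit 78) (nat_lit 152) (nat_lit 0) (XT.lf (nat_lit 0) (nat_lit 15845919478) (nat_lit 76) (nat_lit 27777839943) (nat_lit 76) (nat_lit 2614468014) (nat_lit 181) (nat_lit 4) (nat_lit 182) (nat_lit 5) (nat_lit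 182) (nat_lit 4) (nat_lit 419) (nat_lit 345) (nat_lit 256)) (XT.lf (nat_lit 0) (nat_lit 221404925) (nat_lit 76) (nat_lit 12169115587) (nat_lit 152) (nat_lit 35348666569) (nat_lit 179) (nat_lit 5) (nat_lit 180) (nat_lit 5) (nat_lit 181) (nat_lit 4) (nat_lit 420) (nat_lit 345) (nat_lit 255)))) (XT.nd (nat_lit 156) (nat_lit 152) (nat_lit 0) (XT.nd (nat_lit 78) (nat_lit 76) (nat_lit 0) (XT.lf (nat_lit 0) (nat_lit 28626821439) (nat_lit 152) (nat_lit 16025439092) (nat_lit 0) (nat_lit 4632344860) (nat_lit 179) (nat_lit 5) (nat_lit 181) (nat_lit 4) (nat_lit 179) (nat_lit 4) (nat_lit 421) (nat_lit 345) (nat_lit 254)) (XT.lf (nat_lit 0) (nat_lit 17359791199) (nat_lit 76) (nat_lit 28766525595) (nat_lit 76) (nat_lit 4758408852) (nat_lit 178) (nat_lit 4) (nat_lit 179) (nat_lit 5) (nat_lit 179) (nat_lit 4) (nat_lit 422) (nat_lit 345) (nat_lit 253))) (XT.nd (nat_lit 78) (nat_lit 0) (nat_lit 0) (XT.lf (nat_lit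 0) (nat_lit 196990666) (nat_lit 76) (nat_lit 11616715696) (nat_lit 152) (nat_lit 40728838091) (nat_lit 176) (nat_lit 5) (nat_lit 177) (nat_lit 5) (nat_lit 178) (nat_lit 4) (nat_lit 423) (nat_lit 345) (nat_lit 252)) (XT.lf (nat_lit 0) (nat_lit 29712270188) (nat_lit 152) (nat_lit 17710953668) (nat_lit 0) (nat_lit 6823242180) (nat_lit 176) (nat_lit 5) (nat_lit 178) (nat_lit 4) (nat_lit 176) (nat_lit 4) (nat_lit 424) (nat_lit 345) (nat_lit 251))))))))
noncomputable def xc146 : XT := (XT.nd (nat_lit 1248) (nat_lit 1292) (nat_lit 0) (XT.nd (nat_lit 624) (nat_lit 532) (nat_lit 0) (XT.nd (nat_lit 312) (nat_lit 380) (nat_lit 0) (XT.nd (nat_lit 156) (nat_lit 76) (nat_lit 0) (XT.nd (nat_lit 78) (nat_lit 152) (nat_lit 0) (XT.lf (nat_lit 0) (nat_lit 19038163993) (nat_lit 76) (nat_lit 29937097279) (nat_lit 76) (nat_lit 7036847472) (nat_lit 175) (nat_lit 4) (nat_lit 176) (nat_lit 5) (nat_lit 176) (nat_lit 4)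 (nat_lit 425) (nat_lit 345) (nat_lit 250)) (XT.lf (nat_lit 0) (nat_lit 176198314) (nat_lit 76) (nat_lit 11085819025) (nat_lit 152) (nat_lit 46580694827) (nat_lit 173) (nat_lit 5) (nat_lit 174) (nat_lit 5) (nat_lit 175) (nat_lit 4) (nat_lit 426) (nat_lit 345) (nat_lit 249))) (XT.nd (nat_lit 78) (nat_lit 76) (nat_lit 0) (XT.lf (nat_lit 0) (nat_lit 30993607934) (nat_lit 152) (nat_lit 19563782676) (nat_lit 0) (nat_lit 9163973902) (nat_lit 173) (nat_lit 5) (nat_lit 175) (nat_lit 4) (nat_lit 173) (nat_lit 4) (nat_lit 427) (nat_lit 345) (nat_lit 248)) (XT.lf (nat_lit 0) (nat_lit 20896732456) (nat_lit 76) (nat_lit 31305773431) (nat_lit 76) (nat_lit 9466907198) (nat_lit 172) (nat_lit 4) (nat_lit 173) (nat_lit 5) (nat_lit 173) (nat_lit 4) (nat_lit 428) (nat_lit 345) (nat_lit 247)))) (XT.nd (nat_lit 156) (nat_lit 228) (nat_lit 0) (XT.nd (nat_lit 78) (nat_lit 0) (nat_lit 0) (XT.lf (nat_lit 0) (nat_lit 158419365)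 (nat_lit 76) (nat_lit 10576252912) (nat_lit 152) (nat_lit 52955695558) (nat_lit 170) (nat_lit 5) (nat_lit 171) (nat_lit 5) (nat_lit 172) (nat_lit 4) (nat_lit 429) (nat_lit 345) (nat_lit 246)) (XT.lf (nat_lit 0) (nat_lit 32487487436) (nat_lit 152) (nat_lit 21601939571) (nat_lit 0) (nat_lit 11672218214) (nat_lit 170) (nat_lit 5) (nat_lit 172) (nat_lit 4) (nat_lit 170) (nat_lit 4) (nat_lit 430) (nat_lit 345) (nat_lit 245))) (XT.nd (nat_lit 78) (nat_lit 152) (nat_lit 0) (XT.lf (nat_lit 0) (nat_lit 22952983536) (nat_lit 76) (nat_lit 32890300247) (nat_lit 76) (nat_lit 12067435671) (nat_lit 169) (nat_lit 4) (nat_lit 170) (nat_lit 5) (nat_lit 170) (nat_lit 4) (nat_lit 431) (nat_lit 345) (nat_lit 244)) (XT.lf (nat_lit 0) (nat_lit 143151601) (nat_lit 76) (nat_lit 10087701983) (nat_lit 152) (nat_lit 59910547448) (nat_lit 167) (nat_lit 5) (nat_lit 168) (nat_lit 5) (nat_lit 169) (nat_lit 4) (nat_lit 432) (nat_lit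 345) (nat_lit 243))))) (XT.nd (nat_lit 312) (nat_lit 304) (nat_lit 0) (XT.nd (nat_lit 156) (nat_lit 152) (nat_lit 0) (XT.nd (nat_lit 78) (nat_lit 76) (nat_lit 0) (XT.lf (nat_lit 0) (nat_lit 34212324382) (nat_lit 152) (nat_lit 23845135940) (nat_lit 0) (nat_lit 14367574423) (nat_lit 167) (nat_lit 5) (nat_lit 169) (nat_lit 4) (nat_lit 167) (nat_lit 4) (nat_lit 433) (nat_lit 345) (nat_lit 242)) (XT.lf (nat_lit 0) (nat_lit 25226348799) (nat_lit 76) (nat_lit 34710159033) (nat_lit 76) (nat_lit 14859160356) (nat_lit 166) (nat_lit 4) (nat_lit 167) (nat_lit 5) (nat_lit 167) (nat_lit 4) (nat_lit 434) (nat_lit 345) (nat_lit 241))) (XT.nd (nat_lit 78) (nat_lit 0) (nat_lit 0) (XT.lf (nat_lit 0) (nat_lit 129980316) (nat_lit 76) (nat_lit 9619741708) (nat_lit 152) (nat_lit 67507723614) (nat_lit 164) (nat_lit 5) (nat_lit 165) (nat_lit 5) (nat_lit 166) (nat_lit 4) (nat_lit 435) (nat_lit 345) (nat_lit 240)) (XT.lf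 (nat_lit 0) (nat_lit 36188494413) (nat_lit 152) (nat_lit 26314981611) (nat_lit 0) (nat_lit 17271715741) (nat_lit 164) (nat_lit 5) (nat_lit 166) (nat_lit 4) (nat_lit 164) (nat_lit 4) (nat_lit 436) (nat_lit 345) (nat_lit 239)))) (XT.nd (nat_lit 156) (nat_lit 76) (nat_lit 0) (XT.nd (nat_lit 78) (nat_lit 152) (nat_lit 0) (XT.lf (nat_lit 0) (nat_lit 27738377817) (nat_lit 76) (nat_lit 36786784521) (nat_lit 76) (nat_lit 17864865014) (nat_lit 163) (nat_lit 4) (nat_lit 164) (nat_lit 5) (nat_lit 164) (nat_lit 4) (nat_lit 437) (nat_lit 345) (nat_lit 238)) (XT.lf (nat_lit 0) (nat_lit 118562880) (nat_lit 76) (nat_lit 9171865617) (nat_lit 152) (nat_lit 75816038557) (nat_lit 161) (nat_lit 5) (nat_lit 162) (nat_lit 5) (nat_lit 163) (nat_lit 4) (nat_lit 438) (nat_lit 345) (nat_lit 237))) (XT.nd (nat_lit 78) (nat_lit 76) (nat_lit 0) (XT.lf (nat_lit 0) (nat_lit 38438546195) (nat_lit 152) (nat_lit 29035200668) (nat_lit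 0) (nat_lit 20408566739) (nat_lit 161) (nat_lit 5) (nat_lit 163) (nat_lit 4) (nat_lit 161) (nat_lit 4) (nat_lit 439) (nat_lit 345) (nat_lit 236)) (XT.lf (nat_lit 0) (nat_lit 30512933877) (nat_lit 76) (nat_lit 39143797185) (nat_lit 76) (nat_lit 21109588351) (nat_lit 160) (nat_lit 4) (nat_lit 161) (nat_lit 5) (nat_lit 161) (nat_lit 4) (nat_lit 440) (nat_lit 345) (nat_lit 235)))))) (XT.nd (nat_lit 624) (nat_lit 684) (nat_lit 0) (XT.nd (nat_lit 312) (nat_lit 228) (nat_lit 0) (XT.nd (nat_lit 156) (nat_lit 228) (nat_lit 0) (XT.nd (nat_lit 78) (nat_lit 0) (nat_lit 0) (XT.lf (nat_lit 0) (nat_lit 108616024) (nat_lit 76) (nat_lit 8743507310) (nat_lit 152) (nat_lit 84911286474) (nat_lit 158) (nat_lit 5) (nat_lit 159) (nat_lit 5) (nat_lit 160) (nat_lit 4) (nat_lit 441) (nat_lit 345) (nat_lit 234)) (XT.lf (nat_lit 0) (nat_lit 40987432983) (nat_lit 152) (nat_lit 32031865816) (nat_lit 0) (nat_lit 23804506334)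 (nat_lit 158) (nat_lit 5) (nat_lit 160) (nat_lit 4) (nat_lit 158) (nat_lit 4) (nat_lit 442) (nat_lit 345) (nat_lit 233))) (XT.nd (nat_lit 78) (nat_lit 152) (nat_lit 0) (XT.lf (nat_lit 0) (nat_lit 33576413499) (nat_lit 76) (nat_lit 41807252500) (nat_lit 76) (nat_lit 24620846331) (nat_lit 157) (nat_lit 4) (nat_lit 158) (nat_lit 5) (nat_lit 158) (nat_lit 4) (nat_lit 443) (nat_lit 345) (nat_lit 232)) (XT.lf (nat_lit 0) (nat_lit 99905386) (nat_lit 76) (nat_lit 8334058215) (nat_lit 152) (nat_lit 94876948143) (nat_lit 155) (nat_lit 5) (nat_lit 156) (nat_lit 5) (nat_lit 157) (nat_lit 4) (nat_lit 444) (nat_lit 345) (nat_lit 231)))) (XT.nd (nat_lit 156) (nat_lit 152) (nat_lit 0) (XT.nd (nat_lit 78) (nat_lit 76) (nat_lit 0) (XT.lf (nat_lit 0) (nat_lit 43862765228) (nat_lit 152) (nat_lit 35333653639) (nat_lit 0) (nat_lit 27488597586) (nat_lit 155) (nat_lit 5) (nat_lit 157) (nat_lit 4) (nat_lit 155) (nat_lit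 4) (nat_lit 445) (nat_lit 345) (nat_lit 230)) (XT.lf (nat_lit 0) (nat_lit 36957991528) (nat_lit 76) (nat_lit 44805910190) (nat_lit 76) (nat_lit 28428879940) (nat_lit 154) (nat_lit 4) (nat_lit 155) (nat_lit 5) (nat_lit 155) (nat_lit 4) (nat_lit 446) (nat_lit 345) (nat_lit 229))) (XT.nd (nat_lit 78) (nat_lit 0) (nat_lit 0) (XT.lf (nat_lit 0) (nat_lit 92236898) (nat_lit 76) (nat_lit 7942881854) (nat_lit 152) (nat_lit 105804972811) (nat_lit 152) (nat_lit 5) (nat_lit 153) (nat_lit 5) (nat_lit 154) (nat_lit 4) (nat_lit 447) (nat_lit 345) (nat_lit 228)) (XT.lf (nat_lit 0) (nat_lit 47095086891) (nat_lit 152) (nat_lit 38972123473) (nat_lit 0) (nat_lit 31492845923) (nat_lit 152) (nat_lit 5) (nat_lit 154) (nat_lit 4) (nat_lit 152) (nat_lit 4) (nat_lit 448) (nat_lit 345) (nat_lit 227))))) (XT.nd (nat_lit 312) (nat_lit 380) (nat_lit 0) (XT.nd (nat_lit 156) (nat_lit 76) (nat_lit 0) (XT.nd (nat_lit 78) (nat_lit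 152) (nat_lit 0) (XT.lf (nat_lit 0) (nat_lit 40689893897) (nat_lit 76) (nat_lit 48171526522) (nat_lit 76) (nat_lit 32566930479) (nat_lit 151) (nat_lit 4) (nat_lit 152) (nat_lit 5) (nat_lit 152) (nat_lit 4) (nat_lit 449) (nat_lit 345) (nat_lit 226)) (XT.lf (nat_lit 0) (nat_lit 85449704) (nat_lit 76) (nat_lit 7569325259) (nat_lit 152) (nat_lit 117796642261) (nat_lit 149) (nat_lit 5) (nat_lit 150) (nat_lit 5) (nat_lit 151) (nat_lit 4) (nat_lit 450) (nat_lit 345) (nat_lit 225))) (XT.nd (nat_lit 78) (nat_lit 76) (nat_lit 0) (XT.lf (nat_lit 0) (nat_lit 50718178370) (nat_lit 152) (nat_lit 42982022734) (nat_lit 0) (nat_lit 35852487802) (nat_lit 149) (nat_lit 5) (nat_lit 151) (nat_lit 4) (nat_lit 149) (nat_lit 4) (nat_lit 451) (nat_lit 345) (nat_lit 224)) (XT.lf (nat_lit 0) (nat_lit 44807700427) (nat_lit 76) (nat_lit 51939172885) (nat_lit 76) (nat_lit 37071544791) (nat_lit 148) (nat_lit 4) (nat_lit 149)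 (nat_lit 5) (nat_lit 149) (nat_lit 4) (nat_lit 452) (nat_lit 345) (nat_lit 223)))) (XT.nd (nat_lit 156) (nat_lit 228) (nat_lit 0) (XT.nd (nat_lit 78) (nat_lit 0) (nat_lit 0) (XT.lf (nat_lit 0) (nat_lit 79410331) (nat_lit 76) (nat_lit 7212728053) (nat_lit 152) (nat_lit 130963525088) (nat_lit 146) (nat_lit 5) (nat_lit 147) (nat_lit 5) (nat_lit 148) (nat_lit 4) (nat_lit 453) (nat_lit 345) (nat_lit 222)) (XT.lf (nat_lit 0) (nat_lit 54769389086) (nat_lit 152) (nat_lit 47401621813) (nat_lit 0) (nat_lit 40606312180) (nat_lit 146) (nat_lit 5) (nat_lit 148) (nat_lit 4) (nat_lit 146) (nat_lit 4) (nat_lit 454) (nat_lit 345) (nat_lit 221))) (XT.nd (nat_lit 78) (nat_lit 152) (nat_lit 0) (XT.lf (nat_lit 0) (nat_lit 49350680397) (nat_lit 76) (nat_lit 56147584038) (nat_lit 76) (nat_lit 41982913125) (nat_lit 145) (nat_lit 4) (nat_lit 146) (nat_lit 5) (nat_lit 146) (nat_lit 4) (nat_lit 455) (nat_lit 345) (nat_lit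 220)) (XT.lf (nat_lit 0) (nat_lit 74007884) (nat_lit 76) (nat_lit 6872429628) (nat_lit 152) (nat_lit 145428530083) (nat_lit 143) (nat_lit 5) (nat_lit 144) (nat_lit 5) (nat_lit 145) (nat_lit 4) (nat_lit 456) (nat_lit 345) (nat_lit 219)))))))
noncomputable def xc147 : XT := (XT.nd (nat_lit 1248) (nat_lit 1368) (nat_lit 0) (XT.nd (nat_lit 624) (nat_lit 608) (nat_lit 0) (XT.nd (nat_lit 312) (nat_lit 304) (nat_lit 0) (XT.nd (nat_lit 156) (nat_lit 152) (nat_lit 0) (XT.nd (nat_lit 78) (nat_lit 76) (nat_lit 0) (XT.lf (nat_lit 0) (nat_lit 59290003080) (nat_lit 152) (nat_lit 52273081869) (nat_lit 0) (nat_lit 45797017529) (nat_lit 143) (nat_lit 5) (nat_lit 145) (nat_lit 4) (nat_lit 143) (nat_lit 4) (nat_lit 457) (nat_lit 345) (nat_lit 218)) (XT.lf (nat_lit 0) (nat_lit 54362163917) (nat_lit 76) (nat_lit 60839539651) (nat_lit 76) (nat_lit 47345242706) (nat_lit 142) (nat_lit 4) (nat_lit 143) (nat_lit 5) (nat_lit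 143) (nat_lit 4) (nat_lit 458) (nat_lit 345) (nat_lit 217))) (XT.nd (nat_lit 78) (nat_lit 0) (nat_lit 0) (XT.lf (nat_lit 0) (nat_lit 69150095) (nat_lit 76) (nat_lit 6547774776) (nat_lit 152) (nat_lit 161327068611) (nat_lit 140) (nat_lit 5) (nat_lit 141) (nat_lit 5) (nat_lit 142) (nat_lit 4) (nat_lit 459) (nat_lit 345) (nat_lit 216)) (XT.lf (nat_lit 0) (nat_lit 64325641237) (nat_lit 152) (nat_lit 57642859131) (nat_lit 0) (nat_lit 51471607556) (nat_lit 140) (nat_lit 5) (nat_lit 142) (nat_lit 4) (nat_lit 140) (nat_lit 4) (nat_lit 460) (nat_lit 345) (nat_lit 215)))) (XT.nd (nat_lit 156) (nat_lit 76) (nat_lit 0) (XT.nd (nat_lit 78) (nat_lit 152) (nat_lit 0) (XT.lf (nat_lit 0) (nat_lit 59889952542) (nat_lit 76) (nat_lit 66062283004) (nat_lit 76) (nat_lit 53207170436) (nat_lit 139) (nat_lit 4) (nat_lit 140) (nat_lit 5) (nat_lit 140) (nat_lit 4) (nat_lit 461) (nat_lit 345) (nat_lit 214)) (XT.lf (nat_lit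 0) (nat_lit 64760075) (nat_lit 76) (nat_lit 6238118049) (nat_lit 152) (nat_lit 178808336944) (nat_lit 137) (nat_lit 5) (nat_lit 138) (nat_lit 5) (nat_lit 139) (nat_lit 4) (nat_lit 462) (nat_lit 345) (nat_lit 213))) (XT.nd (nat_lit 78) (nat_lit 76) (nat_lit 0) (XT.lf (nat_lit 0) (nat_lit 69926704079) (nat_lit 152) (nat_lit 63562149692) (nat_lit 0) (nat_lit 57681829162) (nat_lit 137) (nat_lit 5) (nat_lit 139) (nat_lit 4) (nat_lit 137) (nat_lit 4) (nat_lit 463) (nat_lit 345) (nat_lit 212)) (XT.lf (nat_lit 0) (nat_lit 65986772937) (nat_lit 76) (nat_lit 71867981070) (nat_lit 76) (nat_lit 59622218550) (nat_lit 136) (nat_lit 4) (nat_lit 137) (nat_lit 5) (nat_lit 137) (nat_lit 4) (nat_lit 464) (nat_lit 345) (nat_lit 211))))) (XT.nd (nat_lit 312) (nat_lit 228) (nat_lit 0) (XT.nd (nat_lit 156) (nat_lit 228) (nat_lit 0) (XT.nd (nat_lit 78) (nat_lit 0) (nat_lit 0) (XT.lf (nat_lit 0) (nat_lit 60773627) (nat_lit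 76) (nat_lit 5942827096) (nat_lit 152) (nat_lit 198036730653) (nat_lit 134) (nat_lit 5) (nat_lit 135) (nat_lit 5) (nat_lit 136) (nat_lit 4) (nat_lit 465) (nat_lit 345) (nat_lit 210)) (XT.lf (nat_lit 0) (nat_lit 76148859444) (nat_lit 152) (nat_lit 70087379076) (nat_lit 0) (nat_lit 64484656646) (nat_lit 134) (nat_lit 5) (nat_lit 136) (nat_lit 4) (nat_lit 134) (nat_lit 4) (nat_lit 466) (nat_lit 345) (nat_lit 209))) (XT.nd (nat_lit 78) (nat_lit 152) (nat_lit 0) (XT.lf (nat_lit 0) (nat_lit 72710777830) (nat_lit 76) (nat_lit 78314230494) (nat_lit 76) (nat_lit 66649297461) (nat_lit 133) (nat_lit 4) (nat_lit 134) (nat_lit 5) (nat_lit 134) (nat_lit 4) (nat_lit 467) (nat_lit 345) (nat_lit 208)) (XT.lf (nat_lit 0) (nat_lit 57137044) (nat_lit 76) (nat_lit 5661285168) (nat_lit 152) (nat_lit 219193404455) (nat_lit 131) (nat_lit 5) (nat_lit 132) (nat_lit 5) (nat_lit 133) (nat_lit 4) (nat_lit 468) (nat_lit 345)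 (nat_lit 207)))) (XT.nd (nat_lit 156) (nat_lit 152) (nat_lit 0) (XT.nd (nat_lit 78) (nat_lit 76) (nat_lit 0) (XT.lf (nat_lit 0) (nat_lit 83053579792) (nat_lit 152) (nat_lit 77280741346) (nat_lit 0) (nat_lit 71942826615) (nat_lit 131) (nat_lit 5) (nat_lit 133) (nat_lit 4) (nat_lit 131) (nat_lit 4) (nat_lit 469) (nat_lit 345) (nat_lit 206)) (XT.lf (nat_lit 0) (nat_lit 80126098979) (nat_lit 76) (nat_lit 85464614474) (nat_lit 76) (nat_lit 74353260532) (nat_lit 130) (nat_lit 4) (nat_lit 131) (nat_lit 5) (nat_lit 131) (nat_lit 4) (nat_lit 470) (nat_lit 345) (nat_lit 205))) (XT.nd (nat_lit 78) (nat_lit 0) (nat_lit 0) (XT.lf (nat_lit 0) (nat_lit 53805293) (nat_lit 76) (nat_lit 5392892946) (nat_lit 152) (nat_lit 242477992294) (nat_lit 128) (nat_lit 5) (nat_lit 129) (nat_lit 5) (nat_lit 130) (nat_lit 4) (nat_lit 471) (nat_lit 345) (nat_lit 204)) (XT.lf (nat_lit 0) (nat_lit 90708734297) (nat_lit 152) (nat_lit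 85210792920) (nat_lit 0) (nat_lit 80125428573) (nat_lit 128) (nat_lit 5) (nat_lit 130) (nat_lit 4) (nat_lit 128) (nat_lit 4) (nat_lit 472) (nat_lit 345) (nat_lit 203)))))) (XT.nd (nat_lit 624) (nat_lit 684) (nat_lit 0) (XT.nd (nat_lit 312) (nat_lit 380) (nat_lit 0) (XT.nd (nat_lit 156) (nat_lit 76) (nat_lit 0) (XT.nd (nat_lit 78) (nat_lit 152) (nat_lit 0) (XT.lf (nat_lit 0) (nat_lit 88303457345) (nat_lit 76) (nat_lit 93389315942) (nat_lit 76) (nat_lit 82805515967) (nat_lit 127) (nat_lit 4) (nat_lit 128) (nat_lit 5) (nat_lit 128) (nat_lit 4) (nat_lit 473) (nat_lit 345) (nat_lit 202)) (XT.lf (nat_lit 0) (nat_lit 50740515) (nat_lit 76) (nat_lit 5137069828) (nat_lit 152) (nat_lit 268110503998) (nat_lit 125) (nat_lit 5) (nat_lit 126) (nat_lit 5) (nat_lit 127) (nat_lit 4) (nat_lit 474) (nat_lit 345) (nat_lit 201))) (XT.nd (nat_lit 78) (nat_lit 76) (nat_lit 0) (XT.lf (nat_lit 0) (nat_lit 99189241456)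 (nat_lit 152) (nat_lit 93953106810) (nat_lit 0) (nat_lit 89108556704) (nat_lit 125) (nat_lit 5) (nat_lit 127) (nat_lit 4) (nat_lit 125) (nat_lit 4) (nat_lit 475) (nat_lit 345) (nat_lit 200)) (XT.lf (nat_lit 0) (nat_lit 97320836263) (nat_lit 76) (nat_lit 102165792991) (nat_lit 76) (nat_lit 92084701618) (nat_lit 124) (nat_lit 4) (nat_lit 125) (nat_lit 5) (nat_lit 125) (nat_lit 4) (nat_lit 476) (nat_lit 345) (nat_lit 199)))) (XT.nd (nat_lit 156) (nat_lit 228) (nat_lit 0) (XT.nd (nat_lit 78) (nat_lit 0) (nat_lit 0) (XT.lf (nat_lit 0) (nat_lit 47910793) (nat_lit 76) (nat_lit 4893254779) (nat_lit 152) (nat_lit 296333416523) (nat_lit 122) (nat_lit 5) (nat_lit 123) (nat_lit 5) (nat_lit 124) (nat_lit 4) (nat_lit 477) (nat_lit 345) (nat_lit 198)) (XT.lf (nat_lit 0) (nat_lit 108577788461) (nat_lit 152) (nat_lit 103590993561) (nat_lit 0) (nat_lit 98976028986) (nat_lit 122) (nat_lit 5) (nat_lit 124) (nat_lit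 4) (nat_lit 122) (nat_lit 4) (nat_lit 478) (nat_lit 345) (nat_lit 197))) (XT.nd (nat_lit 78) (nat_lit 152) (nat_lit 0) (XT.lf (nat_lit 0) (nat_lit 107264223978) (nat_lit 76) (nat_lit 111879523082) (nat_lit 76) (nat_lit 102277429078) (nat_lit 121) (nat_lit 4) (nat_lit 122) (nat_lit 5) (nat_lit 122) (nat_lit 4) (nat_lit 479) (nat_lit 345) (nat_lit 196)) (XT.lf (nat_lit 0) (nat_lit 45289133) (nat_lit 76) (nat_lit 4660906835) (nat_lit 152) (nat_lit 327413979667) (nat_lit 119) (nat_lit 5) (nat_lit 120) (nat_lit 5) (nat_lit 121) (nat_lit 4) (nat_lit 480) (nat_lit 345) (nat_lit 195))))) (XT.nd (nat_lit 312) (nat_lit 456) (nat_lit 0) (XT.nd (nat_lit 156) (nat_lit 152) (nat_lit 0) (XT.nd (nat_lit 78) (nat_lit 76) (nat_lit 0) (XT.lf (nat_lit 0) (nat_lit 118965624249) (nat_lit 152) (nat_lit 114216295773) (nat_lit 0) (nat_lit 109820180412) (nat_lit 119) (nat_lit 5) (nat_lit 121) (nat_lit 4) (nat_lit 119) (nat_lit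 4) (nat_lit 481) (nat_lit 345) (nat_lit 194)) (XT.lf (nat_lit 0) (nat_lit 118228432593) (nat_lit 76) (nat_lit 122624823171) (nat_lit 76) (nat_lit 113479104117) (nat_lit 118) (nat_lit 4) (nat_lit 119) (nat_lit 5) (nat_lit 119) (nat_lit 4) (nat_lit 482) (nat_lit 345) (nat_lit 193))) (XT.nd (nat_lit 78) (nat_lit 0) (nat_lit 0) (XT.lf (nat_lit 0) (nat_lit 42852629) (nat_lit 76) (nat_lit 4439505319) (nat_lit 152) (nat_lit 361646758197) (nat_lit 116) (nat_lit 5) (nat_lit 117) (nat_lit 5) (nat_lit 118) (nat_lit 4) (nat_lit 483) (nat_lit 345) (nat_lit 192)) (XT.lf (nat_lit 0) (nat_lit 130453433801) (nat_lit 152) (nat_lit 125930263823) (nat_lit 0) (nat_lit 121742737804) (nat_lit 116) (nat_lit 5) (nat_lit 118) (nat_lit 4) (nat_lit 116) (nat_lit 4) (nat_lit 484) (nat_lit 345) (nat_lit 191)))) (XT.nd (nat_lit 156) (nat_lit 228) (nat_lit 0) (XT.nd (nat_lit 78) (nat_lit 152) (nat_lit 0) (XT.lf (nat_lit 0) (nat_lit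 130318001213) (nat_lit 76) (nat_lit 134505753654) (nat_lit 76) (nat_lit 125794831236) (nat_lit 115) (nat_lit 4) (nat_lit 116) (nat_lit 5) (nat_lit 116) (nat_lit 4) (nat_lit 485) (nat_lit 345) (nat_lit 190)) (XT.lf (nat_lit 0) (nat_lit 40581771) (nat_lit 76) (nat_lit 4228549852) (nat_lit 152) (nat_lit 399356434568) (nat_lit 113) (nat_lit 5) (nat_lit 114) (nat_lit 5) (nat_lit 115) (nat_lit 4) (nat_lit 486) (nat_lit 345) (nat_lit 189))) (XT.nd (nat_lit 78) (nat_lit 228) (nat_lit 0) (XT.lf (nat_lit 0) (nat_lit 143152302073) (nat_lit 152) (nat_lit 138844521142) (nat_lit 0) (nat_lit 134855784520) (nat_lit 113) (nat_lit 5) (nat_lit 115) (nat_lit 4) (nat_lit 113) (nat_lit 4) (nat_lit 487) (nat_lit 345) (nat_lit 188)) (XT.nd (nat_lit 78) (nat_lit 152) (nat_lit 0) (XT.lf (nat_lit 0) (nat_lit 143648191869) (nat_lit 76) (nat_lit 147637114768) (nat_lit 76) (nat_lit 139340410938) (nat_lit 112) (nat_lit 4) (nat_lit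 113) (nat_lit 5) (nat_lit 113) (nat_lit 4) (nat_lit 488) (nat_lit 345) (nat_lit 187)) (XT.lf (nat_lit 0) (nat_lit 38459873) (nat_lit 76) (nat_lit 4027560180) (nat_lit 152) (nat_lit 440900898924) (nat_lit 110) (nat_lit 5) (nat_lit 111) (nat_lit 5) (nat_lit 112) (nat_lit 4) (nat_lit 489) (nat_lit 345) (nat_lit 186))))))))
noncomputable def xc148 : XT := (XT.nd (nat_lit 44070) (nat_lit 0) (nat_lit 6764) (XT.nd (nat_lit 42822) (nat_lit 0) (nat_lit 10868) (XT.nd (nat_lit 42198) (nat_lit 0) (nat_lit 15276) (XT.nd (nat_lit 41886) (nat_lit 0) (nat_lit 16796) (XT.nd (nat_lit 156) (nat_lit 152) (nat_lit 0) (XT.nd (nat_lit 78) (nat_lit 76) (nat_lit 0) (XT.lf (nat_lit 0) (nat_lit 157184776763) (nat_lit 152) (nat_lit 153082128257) (nat_lit 0) (nat_lit 149282824194) (nat_lit 110) (nat_lit 5) (nat_lit 112) (nat_lit 4) (nat_lit 110) (nat_lit 4) (nat_lit 490) (nat_lit 345) (nat_lit 185)) (XT.lf (nat_lit 0) (nat_lit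 158346087694) (nat_lit 76) (nat_lit 162145545009) (nat_lit 76) (nat_lit 154243439189) (nat_lit 109) (nat_lit 4) (nat_lit 110) (nat_lit 5) (nat_lit 110) (nat_lit 4) (nat_lit 491) (nat_lit 345) (nat_lit 184))) (XT.nd (nat_lit 78) (nat_lit 0) (nat_lit 0) (XT.lf (nat_lit 0) (nat_lit 36472604) (nat_lit 76) (nat_lit 3836075872) (nat_lit 152) (nat_lit 486674655792) (nat_lit 107) (nat_lit 5) (nat_lit 108) (nat_lit 5) (nat_lit 109) (nat_lit 4) (nat_lit 492) (nat_lit 345) (nat_lit 183)) (XT.lf (nat_lit 0) (nat_lit 172686040061) (nat_lit 152) (nat_lit 168778755770) (nat_lit 0) (nat_lit 165159953607) (nat_lit 107) (nat_lit 5) (nat_lit 109) (nat_lit 4) (nat_lit 107) (nat_lit 4) (nat_lit 493) (nat_lit 345) (nat_lit 182)))) (XT.nd (nat_lit 156) (nat_lit 0) (nat_lit 76) (XT.nd (nat_lit 78) (nat_lit 532) (nat_lit 0) (XT.lf (nat_lit 0) (nat_lit 1239785964) (nat_lit 0) (nat_lit 1239785964) (nat_lit 380) (nat_lit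 947850558) (nat_lit 335) (nat_lit 5) (nat_lit 335) (nat_lit 3) (nat_lit 340) (nat_lit 3) (nat_lit 346) (nat_lit 346) (nat_lit 328)) (XT.lf (nat_lit 0) (nat_lit 96650497) (nat_lit 532) (nat_lit 917513420) (nat_lit 532) (nat_lit 5914691385) (nat_lit 328) (nat_lit 3) (nat_lit 335) (nat_lit 3) (nat_lit 335) (nat_lit 5) (nat_lit 347) (nat_lit 346) (nat_lit 327))) (XT.nd (nat_lit 78) (nat_lit 0) (nat_lit 0) (XT.lf (nat_lit 0) (nat_lit 2050839661) (nat_lit 456) (nat_lit 4317479466) (nat_lit 532) (nat_lit 640396772) (nat_lit 329) (nat_lit 5) (nat_lit 335) (nat_lit 5) (nat_lit 336) (nat_lit 5) (nat_lit 348) (nat_lit 346) (nat_lit 326)) (XT.lf (nat_lit 0) (nat_lit 4014453572) (nat_lit 456) (nat_lit 668738421) (nat_lit 532) (nat_lit 2413791766) (nat_lit 329) (nat_lit 5) (nat_lit 335) (nat_lit 5) (nat_lit 336) (nat_lit 5) (nat_lit 349) (nat_lit 346) (nat_lit 325))))) (XT.nd (nat_lit 312) (nat_lit 1064) (nat_lit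 0) (XT.nd (nat_lit 156) (nat_lit 0) (nat_lit 76) (XT.nd (nat_lit 78) (nat_lit 532) (nat_lit 0) (XT.lf (nat_lit 76) (nat_lit 3195827809) (nat_lit 0) (nat_lit 2815360377) (nat_lit 532) (nat_lit 1181729828) (nat_lit 330) (nat_lit 5) (nat_lit 329) (nat_lit 5) (nat_lit 336) (nat_lit 5) (nat_lit 350) (nat_lit 346) (nat_lit 324)) (XT.lf (nat_lit 0) (nat_lit 687212786) (nat_lit 532) (nat_lit 100641401) (nat_lit 608) (nat_lit 6510201322) (nat_lit 322) (nat_lit 5) (nat_lit 329) (nat_lit 5) (nat_lit 330) (nat_lit 5) (nat_lit 351) (nat_lit 346) (nat_lit 323))) (XT.nd (nat_lit 78) (nat_lit 0) (nat_lit 0) (XT.lf (nat_lit 0) (nat_lit 2588734980) (nat_lit 532) (nat_lit 3400361623) (nat_lit 608) (nat_lit 1419442330) (nat_lit 323) (nat_lit 5) (nat_lit 330) (nat_lit 5) (nat_lit 331) (nat_lit 5) (nat_lit 352) (nat_lit 346) (nat_lit 322)) (XT.lf (nat_lit 76) (nat_lit 739486585) (nat_lit 0) (nat_lit 3769648688) (nat_lit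 608) (nat_lit 3019221157) (nat_lit 324) (nat_lit 5) (nat_lit 323) (nat_lit 5) (nat_lit 331) (nat_lit 5) (nat_lit 353) (nat_lit 346) (nat_lit 321)))) (XT.nd (nat_lit 156) (nat_lit 608) (nat_lit 0) (XT.nd (nat_lit 78) (nat_lit 532) (nat_lit 0) (XT.lf (nat_lit 76) (nat_lit 5132845074) (nat_lit 0) (nat_lit 1351664736) (nat_lit 608) (nat_lit 1171707279) (nat_lit 324) (nat_lit 5) (nat_lit 323) (nat_lit 5) (nat_lit 331) (nat_lit 5) (nat_lit 354) (nat_lit 346) (nat_lit 320)) (XT.lf (nat_lit 0) (nat_lit 697920596) (nat_lit 608) (nat_lit 5878717633) (nat_lit 76) (nat_lit 1215516632) (nat_lit 316) (nat_lit 5) (nat_lit 324) (nat_lit 5) (nat_lit 317) (nat_lit 5) (nat_lit 355) (nat_lit 346) (nat_lit 319))) (XT.nd (nat_lit 78) (nat_lit 608) (nat_lit 0) (XT.lf (nat_lit 0) (nat_lit 2595563854) (nat_lit 608) (nat_lit 1390206026) (nat_lit 76) (nat_lit 3949463674) (nat_lit 316) (nat_lit 5) (nat_lit 324) (nat_lit 5)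 (nat_lit 317) (nat_lit 5) (nat_lit 356) (nat_lit 346) (nat_lit 318)) (XT.lf (nat_lit 0) (nat_lit 3358727979) (nat_lit 608) (nat_lit 1194483789) (nat_lit 684) (nat_lit 3533998288) (nat_lit 308) (nat_lit 5) (nat_lit 316) (nat_lit 5) (nat_lit 317) (nat_lit 5) (nat_lit 357) (nat_lit 346) (nat_lit 317)))))) (XT.nd (nat_lit 624) (nat_lit 1596) (nat_lit 0) (XT.nd (nat_lit 312) (nat_lit 1292) (nat_lit 0) (XT.nd (nat_lit 156) (nat_lit 760) (nat_lit 0) (XT.nd (nat_lit 78) (nat_lit 76) (nat_lit 0) (XT.lf (nat_lit 0) (nat_lit 46993734) (nat_lit 684) (nat_lit 6529481410) (nat_lit 760) (nat_lit 1671923586) (nat_lit 299) (nat_lit 5) (nat_lit 308) (nat_lit 5) (nat_lit 309) (nat_lit 5) (nat_lit 358) (nat_lit 346) (nat_lit 316)) (XT.lf (nat_lit 0) (nat_lit 292644845) (nat_lit 760) (nat_lit 3289856628) (nat_lit 76) (nat_lit 4834001449) (nat_lit 298) (nat_lit 5) (nat_lit 308) (nat_lit 5) (nat_lit 299) (nat_lit 5)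 (nat_lit 359) (nat_lit 346) (nat_lit 315))) (XT.nd (nat_lit 78) (nat_lit 0) (nat_lit 0) (XT.lf (nat_lit 0) (nat_lit 1825622932) (nat_lit 760) (nat_lit 423545988) (nat_lit 836) (nat_lit 6344977234) (nat_lit 288) (nat_lit 5) (nat_lit 298) (nat_lit 5) (nat_lit 299) (nat_lit 5) (nat_lit 360) (nat_lit 346) (nat_lit 314)) (XT.lf (nat_lit 0) (nat_lit 4329428768) (nat_lit 836) (nat_lit 1588244426) (nat_lit 76) (nat_lit 2861702874) (nat_lit 288) (nat_lit 5) (nat_lit 299) (nat_lit 5) (nat_lit 289) (nat_lit 5) (nat_lit 361) (nat_lit 346) (nat_lit 313)))) (XT.nd (nat_lit 156) (nat_lit 456) (nat_lit 0) (XT.nd (nat_lit 78) (nat_lit 380) (nat_lit 0) (XT.lf (nat_lit 0) (nat_lit 3897059236) (nat_lit 456) (nat_lit 2612151171) (nat_lit 532) (nat_lit 2464881632) (nat_lit 282) (nat_lit 5) (nat_lit 288) (nat_lit 5) (nat_lit 289) (nat_lit 5) (nat_lit 362) (nat_lit 346) (nat_lit 312)) (XT.lf (nat_lit 0) (nat_lit 461385174)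 (nat_lit 380) (nat_lit 8314594081) (nat_lit 456) (nat_lit 403664647) (nat_lit 277) (nat_lit 5) (nat_lit 282) (nat_lit 5) (nat_lit 283) (nat_lit 5) (nat_lit 363) (nat_lit 346) (nat_lit 311))) (XT.nd (nat_lit 78) (nat_lit 380) (nat_lit 0) (XT.lf (nat_lit 0) (nat_lit 1765608215) (nat_lit 456) (nat_lit 3085093361) (nat_lit 76) (nat_lit 4540330094) (nat_lit 276) (nat_lit 5) (nat_lit 282) (nat_lit 5) (nat_lit 277) (nat_lit 5) (nat_lit 364) (nat_lit 346) (nat_lit 310)) (XT.lf (nat_lit 0) (nat_lit 2842483894) (nat_lit 380) (nat_lit 1166085565) (nat_lit 456) (nat_lit 5605148969) (nat_lit 271) (nat_lit 5) (nat_lit 276) (nat_lit 5) (nat_lit 277) (nat_lit 5) (nat_lit 365) (nat_lit 346) (nat_lit 309))))) (XT.nd (nat_lit 312) (nat_lit 912) (nat_lit 0) (XT.nd (nat_lit 156) (nat_lit 380) (nat_lit 0) (XT.nd (nat_lit 78) (nat_lit 304) (nat_lit 0) (XT.lf (nat_lit 0) (nat_lit 6395307705) (nat_lit 456) (nat_lit 787955836)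 (nat_lit 76) (nat_lit 2662694535) (nat_lit 271) (nat_lit 5) (nat_lit 277) (nat_lit 5) (nat_lit 272) (nat_lit 5) (nat_lit 366) (nat_lit 346) (nat_lit 308)) (XT.lf (nat_lit 0) (nat_lit 5584074977) (nat_lit 304) (nat_lit 3362966336) (nat_lit 380) (nat_lit 1140485473) (nat_lit 267) (nat_lit 5) (nat_lit 271) (nat_lit 5) (nat_lit 272) (nat_lit 5) (nat_lit 367) (nat_lit 346) (nat_lit 307))) (XT.nd (nat_lit 78) (nat_lit 0) (nat_lit 0) (XT.lf (nat_lit 0) (nat_lit 1238986929) (nat_lit 380) (nat_lit 8419721253) (nat_lit 76) (nat_lit 681715815) (nat_lit 262) (nat_lit 5) (nat_lit 267) (nat_lit 5) (nat_lit 263) (nat_lit 5) (nat_lit 368) (nat_lit 346) (nat_lit 306)) (XT.lf (nat_lit 0) (nat_lit 3773537232) (nat_lit 380) (nat_lit 1927260077) (nat_lit 76) (nat_lit 4900512331) (nat_lit 262) (nat_lit 5) (nat_lit 267) (nat_lit 5) (nat_lit 263) (nat_lit 5) (nat_lit 369) (nat_lit 346) (nat_lit 305)))) (XT.nd (nat_lit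 156) (nat_lit 304) (nat_lit 0) (XT.nd (nat_lit 78) (nat_lit 304) (nat_lit 0) (XT.lf (nat_lit 0) (nat_lit 4980227547) (nat_lit 304) (nat_lit 1476898090) (nat_lit 380) (nat_lit 4416998399) (nat_lit 258) (nat_lit 5) (nat_lit 262) (nat_lit 5) (nat_lit 263) (nat_lit 5) (nat_lit 370) (nat_lit 346) (nat_lit 304)) (XT.lf (nat_lit 0) (nat_lit 1057832386) (nat_lit 304) (nat_lit 8258853501) (nat_lit 380) (nat_lit 1841803645) (nat_lit 254) (nat_lit 5) (nat_lit 258) (nat_lit 5) (nat_lit 259) (nat_lit 5) (nat_lit 371) (nat_lit 346) (nat_lit 303))) (XT.nd (nat_lit 78) (nat_lit 228) (nat_lit 0) (XT.lf (nat_lit 0) (nat_lit 906769746) (nat_lit 380) (nat_lit 3000609449) (nat_lit 76) (nat_lit 7545410422) (nat_lit 253) (nat_lit 5) (nat_lit 258) (nat_lit 5) (nat_lit 254) (nat_lit 5) (nat_lit 372) (nat_lit 346) (nat_lit 302)) (XT.lf (nat_lit 0) (nat_lit 3761954747) (nat_lit 304) (nat_lit 7270354879) (nat_lit 76) (nat_lit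 726431424) (nat_lit 250) (nat_lit 5) (nat_lit 254) (nat_lit 5) (nat_lit 251) (nat_lit 5) (nat_lit 373) (nat_lit 346) (nat_lit 301))))))) (XT.nd (nat_lit 1248) (nat_lit 1748) (nat_lit 0) (XT.nd (nat_lit 624) (nat_lit 988) (nat_lit 0) (XT.nd (nat_lit 312) (nat_lit 760) (nat_lit 0) (XT.nd (nat_lit 156) (nat_lit 304) (nat_lit 0) (XT.nd (nat_lit 78) (nat_lit 0) (nat_lit 0) (XT.lf (nat_lit 0) (nat_lit 253038315) (nat_lit 304) (nat_lit 6576731312) (nat_lit 380) (nat_lit 5246726896) (nat_lit 246) (nat_lit 5) (nat_lit 250) (nat_lit 5) (nat_lit 251) (nat_lit 5) (nat_lit 374) (nat_lit 346) (nat_lit 300)) (XT.lf (nat_lit 0) (nat_lit 8337391229) (nat_lit 304) (nat_lit 1788240743) (nat_lit 380) (nat_lit 2280774961) (nat_lit 246) (nat_lit 5) (nat_lit 250) (nat_lit 5) (nat_lit 251) (nat_lit 5) (nat_lit 375) (nat_lit 346) (nat_lit 299))) (XT.nd (nat_lit 78) (nat_lit 0) (nat_lit 0) (XT.lf (nat_lit 0) (nat_lit 875854275)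 (nat_lit 304) (nat_lit 8676589483) (nat_lit 76) (nat_lit 3196265659) (nat_lit 242) (nat_lit 5) (nat_lit 246) (nat_lit 5) (nat_lit 243) (nat_lit 5) (nat_lit 376) (nat_lit 346) (nat_lit 298)) (XT.lf (nat_lit 0) (nat_lit 4167024471) (nat_lit 304) (nat_lit 477810078) (nat_lit 76) (nat_lit 8458755062) (nat_lit 242) (nat_lit 5) (nat_lit 246) (nat_lit 5) (nat_lit 243) (nat_lit 5) (nat_lit 377) (nat_lit 346) (nat_lit 297)))) (XT.nd (nat_lit 156) (nat_lit 304) (nat_lit 0) (XT.nd (nat_lit 78) (nat_lit 228) (nat_lit 0) (XT.lf (nat_lit 0) (nat_lit 7718818982) (nat_lit 304) (nat_lit 5147696401) (nat_lit 76) (nat_lit 604895142) (nat_lit 239) (nat_lit 5) (nat_lit 243) (nat_lit 5) (nat_lit 240) (nat_lit 5) (nat_lit 378) (nat_lit 346) (nat_lit 296)) (XT.lf (nat_lit 0) (nat_lit 3702423576) (nat_lit 228) (nat_lit 7844943327) (nat_lit 304) (nat_lit 2305297397) (nat_lit 236) (nat_lit 5) (nat_lit 239) (nat_lit 5) (nat_lit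 240) (nat_lit 5) (nat_lit 379) (nat_lit 346) (nat_lit 295))) (XT.nd (nat_lit 78) (nat_lit 228) (nat_lit 0) (XT.lf (nat_lit 0) (nat_lit 1318260450) (nat_lit 304) (nat_lit 1161660490) (nat_lit 76) (nat_lit 11769735444) (nat_lit 235) (nat_lit 5) (nat_lit 239) (nat_lit 5) (nat_lit 236) (nat_lit 5) (nat_lit 380) (nat_lit 346) (nat_lit 294)) (XT.lf (nat_lit 0) (nat_lit 5188480148) (nat_lit 304) (nat_lit 6264576410) (nat_lit 76) (nat_lit 3204404071) (nat_lit 232) (nat_lit 5) (nat_lit 236) (nat_lit 5) (nat_lit 233) (nat_lit 5) (nat_lit 381) (nat_lit 346) (nat_lit 293))))) (XT.nd (nat_lit 312) (nat_lit 380) (nat_lit 0) (XT.nd (nat_lit 156) (nat_lit 456) (nat_lit 0) (XT.nd (nat_lit 78) (nat_lit 0) (nat_lit 0) (XT.lf (nat_lit 0) (nat_lit 3385783024) (nat_lit 152) (nat_lit 5939983937) (nat_lit 228) (nat_lit 5756210319) (nat_lit 230) (nat_lit 5) (nat_lit 232) (nat_lit 5) (nat_lit 233) (nat_lit 5) (nat_lit 382)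 (nat_lit 346) (nat_lit 292)) (XT.lf (nat_lit 0) (nat_lit 13674737978) (nat_lit 152) (nat_lit 62261901) (nat_lit 228) (nat_lit 1787365796) (nat_lit 230) (nat_lit 5) (nat_lit 232) (nat_lit 5) (nat_lit 233) (nat_lit 5) (nat_lit 383) (nat_lit 346) (nat_lit 291))) (XT.nd (nat_lit 78) (nat_lit 152) (nat_lit 0) (XT.lf (nat_lit 0) (nat_lit 2499215288) (nat_lit 304) (nat_lit 7410143711) (nat_lit 76) (nat_lit 6067883296) (nat_lit 226) (nat_lit 5) (nat_lit 230) (nat_lit 5) (nat_lit 227) (nat_lit 5) (nat_lit 384) (nat_lit 346) (nat_lit 290)) (XT.lf (nat_lit 0) (nat_lit 3126638907) (nat_lit 152) (nat_lit 3857869007) (nat_lit 228) (nat_lit 9464567293) (nat_lit 224) (nat_lit 5) (nat_lit 226) (nat_lit 5) (nat_lit 227) (nat_lit 5) (nat_lit 385) (nat_lit 346) (nat_lit 289)))) (XT.nd (nat_lit 156) (nat_lit 228) (nat_lit 0) (XT.nd (nat_lit 78) (nat_lit 152) (nat_lit 0) (XT.lf (nat_lit 0) (nat_lit 11823853707) (nat_lit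 228) (nat_lit 2592496872) (nat_lit 76) (nat_lit 2521659759) (nat_lit 224) (nat_lit 5) (nat_lit 227) (nat_lit 5) (nat_lit 225) (nat_lit 5) (nat_lit 386) (nat_lit 346) (nat_lit 288)) (XT.lf (nat_lit 0) (nat_lit 8835618312) (nat_lit 152) (nat_lit 8235754589) (nat_lit 228) (nat_lit 371709019) (nat_lit 222) (nat_lit 5) (nat_lit 224) (nat_lit 5) (nat_lit 225) (nat_lit 5) (nat_lit 387) (nat_lit 346) (nat_lit 287))) (XT.nd (nat_lit 78) (nat_lit 0) (nat_lit 0) (XT.lf (nat_lit 0) (nat_lit 2916530213) (nat_lit 152) (nat_lit 1599240415) (nat_lit 228) (nat_lit 13451269872) (nat_lit 219) (nat_lit 5) (nat_lit 221) (nat_lit 5) (nat_lit 222) (nat_lit 5) (nat_lit 388) (nat_lit 346) (nat_lit 286)) (XT.lf (nat_lit 0) (nat_lit 9832752240) (nat_lit 228) (nat_lit 3345153707) (nat_lit 76) (nat_lit 5329105391) (nat_lit 219) (nat_lit 5) (nat_lit 222) (nat_lit 5) (nat_lit 220) (nat_lit 5) (nat_lit 389) (nat_lit 346) (nat_lit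 285)))))) (XT.nd (nat_lit 624) (nat_lit 836) (nat_lit 0) (XT.nd (nat_lit 312) (nat_lit 380) (nat_lit 0) (XT.nd (nat_lit 156) (nat_lit 152) (nat_lit 0) (XT.nd (nat_lit 78) (nat_lit 228) (nat_lit 0) (XT.lf (nat_lit 0) (nat_lit 9156617126) (nat_lit 152) (nat_lit 6395411785) (nat_lit 228) (nat_lit 3515129508) (nat_lit 217) (nat_lit 5) (nat_lit 219) (nat_lit 5) (nat_lit 220) (nat_lit 5) (nat_lit 390) (nat_lit 346) (nat_lit 284)) (XT.lf (nat_lit 0) (nat_lit 1922130393) (nat_lit 228) (nat_lit 16914941451) (nat_lit 76) (nat_lit 812703851) (nat_lit 214) (nat_lit 5) (nat_lit 217) (nat_lit 5) (nat_lit 215) (nat_lit 5) (nat_lit 391) (nat_lit 346) (nat_lit 283))) (XT.nd (nat_lit 78) (nat_lit 152) (nat_lit 0) (XT.lf (nat_lit 0) (nat_lit 7756333134) (nat_lit 228) (nat_lit 4118015158) (nat_lit 76) (nat_lit 8372133726) (nat_lit 214) (nat_lit 5) (nat_lit 217) (nat_lit 5) (nat_lit 215) (nat_lit 5) (nat_lit 392) (nat_lit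 346) (nat_lit 282)) (XT.lf (nat_lit 0) (nat_lit 9571570207) (nat_lit 152) (nat_lit 4429426405) (nat_lit 228) (nat_lit 6866089515) (nat_lit 212) (nat_lit 5) (nat_lit 214) (nat_lit 5) (nat_lit 215) (nat_lit 5) (nat_lit 393) (nat_lit 346) (nat_lit 281)))) (XT.nd (nat_lit 156) (nat_lit 228) (nat_lit 0) (XT.nd (nat_lit 78) (nat_lit 76) (nat_lit 0) (XT.lf (nat_lit 0) (nat_lit 2547032117) (nat_lit 76) (nat_lit 18144000771) (nat_lit 152) (nat_lit 821030572) (nat_lit 211) (nat_lit 5) (nat_lit 212) (nat_lit 5) (nat_lit 213) (nat_lit 4) (nat_lit 394) (nat_lit 346) (nat_lit 280)) (XT.lf (nat_lit 0) (nat_lit 5586180416) (nat_lit 152) (nat_lit 4921848568) (nat_lit 76) (nat_lit 11665107909) (nat_lit 210) (nat_lit 5) (nat_lit 212) (nat_lit 5) (nat_lit 211) (nat_lit 5) (nat_lit 395) (nat_lit 346) (nat_lit 279))) (XT.nd (nat_lit 78) (nat_lit 76) (nat_lit 0) (XT.lf (nat_lit 0) (nat_lit 10081312351) (nat_lit 152)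 (nat_lit 2333416611) (nat_lit 228) (nat_lit 10445433608) (nat_lit 208) (nat_lit 5) (nat_lit 210) (nat_lit 5) (nat_lit 211) (nat_lit 5) (nat_lit 396) (nat_lit 346) (nat_lit 278)) (XT.lf (nat_lit 0) (nat_lit 2352874802) (nat_lit 76) (nat_lit 17422270875) (nat_lit 152) (nat_lit 3796871819) (nat_lit 207) (nat_lit 5) (nat_lit 208) (nat_lit 5) (nat_lit 209) (nat_lit 4) (nat_lit 397) (nat_lit 346) (nat_lit 277))))) (XT.nd (nat_lit 312) (nat_lit 456) (nat_lit 0) (XT.nd (nat_lit 156) (nat_lit 152) (nat_lit 0) (XT.nd (nat_lit 78) (nat_lit 152) (nat_lit 0) (XT.lf (nat_lit 0) (nat_lit 3311938715) (nat_lit 152) (nat_lit 5767049730) (nat_lit 76) (nat_lit 15226504455) (nat_lit 206) (nat_lit 5) (nat_lit 208) (nat_lit 5) (nat_lit 207) (nat_lit 5) (nat_lit 398) (nat_lit 346) (nat_lit 276)) (XT.lf (nat_lit 0) (nat_lit 10688226733) (nat_lit 152) (nat_lit 100108590) (nat_lit 228) (nat_lit 14277207295) (nat_lit 204)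 (nat_lit 5) (nat_lit 206) (nat_lit 5) (nat_lit 207) (nat_lit 5) (nat_lit 399) (nat_lit 346) (nat_lit 275))) (XT.nd (nat_lit 78) (nat_lit 76) (nat_lit 0) (XT.lf (nat_lit 0) (nat_lit 2180882756) (nat_lit 76) (nat_lit 16709684925) (nat_lit 152) (nat_lit 6960426344) (nat_lit 203) (nat_lit 5) (nat_lit 204) (nat_lit 5) (nat_lit 205) (nat_lit 4) (nat_lit 400) (nat_lit 346) (nat_lit 274)) (XT.lf (nat_lit 0) (nat_lit 921353873) (nat_lit 152) (nat_lit 6663863173) (nat_lit 76) (nat_lit 19078823438) (nat_lit 202) (nat_lit 5) (nat_lit 204) (nat_lit 5) (nat_lit 203) (nat_lit 5) (nat_lit 401) (nat_lit 346) (nat_lit 273)))) (XT.nd (nat_lit 156) (nat_lit 228) (nat_lit 0) (XT.nd (nat_lit 78) (nat_lit 76) (nat_lit 0) (XT.lf (nat_lit 0) (nat_lit 9151271400) (nat_lit 228) (nat_lit 16143871877) (nat_lit 76) (nat_lit 2207492506) (nat_lit 200) (nat_lit 5) (nat_lit 203) (nat_lit 5) (nat_lit 201) (nat_lit 4) (nat_lit 402)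 (nat_lit 346) (nat_lit 272)) (XT.lf (nat_lit 0) (nat_lit 2027709863) (nat_lit 76) (nat_lit 16010279674) (nat_lit 152) (nat_lit 10332906075) (nat_lit 199) (nat_lit 5) (nat_lit 200) (nat_lit 5) (nat_lit 201) (nat_lit 4) (nat_lit 403) (nat_lit 346) (nat_lit 271))) (XT.nd (nat_lit 78) (nat_lit 228) (nat_lit 0) (XT.lf (nat_lit 0) (nat_lit 21621763019) (nat_lit 76) (nat_lit 5995760202) (nat_lit 152) (nat_lit 1652621230) (nat_lit 199) (nat_lit 5) (nat_lit 200) (nat_lit 5) (nat_lit 201) (nat_lit 4) (nat_lit 404) (nat_lit 346) (nat_lit 270)) (XT.lf (nat_lit 0) (nat_lit 7464636110) (nat_lit 228) (nat_lit 18065168046) (nat_lit 76) (nat_lit 4666637762) (nat_lit 196) (nat_lit 5) (nat_lit 199) (nat_lit 5) (nat_lit 197) (nat_lit 4) (nat_lit 405) (nat_lit 346) (nat_lit 269))))))))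
noncomputable def xc149 : XT := (XT.nd (nat_lit 1248) (nat_lit 1140) (nat_lit 0) (XT.nd (nat_lit 624) (nat_lit 684) (nat_lit 0) (XT.nd (nat_lit 312) (nat_lit 228) (nat_lit 0) (XT.nd (nat_lit 156) (nat_lit 304) (nat_lit 0) (XT.nd (nat_lit 78) (nat_lit 0) (nat_lit 0) (XT.lf (nat_lit 0) (nat_lit 1890575468) (nat_lit 76) (nat_lit 15327106742) (nat_lit 152) (nat_lit 13938244202) (nat_lit 195) (nat_lit 5) (nat_lit 196) (nat_lit 5) (nat_lit 197) (nat_lit 4) (nat_lit 406) (nat_lit 346) (nat_lit 268)) (XT.lf (nat_lit 0) (nat_lit 23426721900) (nat_lit 76) (nat_lit 4314051944) (nat_lit 152) (nat_lit 4408491624) (nat_lit 195) (nat_lit 5) (nat_lit 196) (nat_lit 5) (nat_lit 197) (nat_lit 4) (nat_lit 407) (nat_lit 346) (nat_lit 267))) (XT.nd (nat_lit 78) (nat_lit 76) (nat_lit 0) (XT.lf (nat_lit 0) (nat_lit 5718564186) (nat_lit 228) (nat_lit 20159164846) (nat_lit 76) (nat_lit 7295173693) (nat_lit 192) (nat_lit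 5) (nat_lit 195) (nat_lit 5) (nat_lit 193) (nat_lit 4) (nat_lit 408) (nat_lit 346) (nat_lit 266)) (XT.lf (nat_lit 0) (nat_lit 1767165445) (nat_lit 76) (nat_lit 14662420107) (nat_lit 152) (nat_lit 17803234426) (nat_lit 191) (nat_lit 5) (nat_lit 192) (nat_lit 5) (nat_lit 193) (nat_lit 4) (nat_lit 409) (nat_lit 346) (nat_lit 265)))) (XT.nd (nat_lit 156) (nat_lit 76) (nat_lit 0) (XT.nd (nat_lit 78) (nat_lit 152) (nat_lit 0) (XT.lf (nat_lit 0) (nat_lit 25447086090) (nat_lit 76) (nat_lit 2548204542) (nat_lit 152) (nat_lit 7334485828) (nat_lit 191) (nat_lit 5) (nat_lit 192) (nat_lit 5) (nat_lit 193) (nat_lit 4) (nat_lit 410) (nat_lit 346) (nat_lit 264)) (XT.lf (nat_lit 0) (nat_lit 3903607210) (nat_lit 152) (nat_lit 22446763915) (nat_lit 76) (nat_lit 10110205481) (nat_lit 189) (nat_lit 5) (nat_lit 191) (nat_lit 5) (nat_lit 190) (nat_lit 4) (nat_lit 411) (nat_lit 346) (nat_lit 263))) (XT.nd (nat_lit 78)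 (nat_lit 0) (nat_lit 0) (XT.lf (nat_lit 0) (nat_lit 1655550745) (nat_lit 76) (nat_lit 14017829745) (nat_lit 152) (nat_lit 21957711274) (nat_lit 188) (nat_lit 5) (nat_lit 189) (nat_lit 5) (nat_lit 190) (nat_lit 4) (nat_lit 412) (nat_lit 346) (nat_lit 262)) (XT.lf (nat_lit 0) (nat_lit 27701570099) (nat_lit 76) (nat_lit 689134845) (nat_lit 152) (nat_lit 10451474612) (nat_lit 188) (nat_lit 5) (nat_lit 189) (nat_lit 5) (nat_lit 190) (nat_lit 4) (nat_lit 413) (nat_lit 346) (nat_lit 261))))) (XT.nd (nat_lit 312) (nat_lit 304) (nat_lit 0) (XT.nd (nat_lit 156) (nat_lit 152) (nat_lit 0) (XT.nd (nat_lit 78) (nat_lit 76) (nat_lit 0) (XT.lf (nat_lit 0) (nat_lit 2009145383) (nat_lit 152) (nat_lit 24950494201) (nat_lit 76) (nat_lit 13131347450) (nat_lit 186) (nat_lit 5) (nat_lit 188) (nat_lit 5) (nat_lit 187) (nat_lit 4) (nat_lit 414) (nat_lit 346) (nat_lit 260)) (XT.lf (nat_lit 0) (nat_lit 1554120325) (nat_lit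 76) (nat_lit 13394427448) (nat_lit 152) (nat_lit 26434770857) (nat_lit 185) (nat_lit 5) (nat_lit 186) (nat_lit 5) (nat_lit 187) (nat_lit 4) (nat_lit 415) (nat_lit 346) (nat_lit 259))) (XT.nd (nat_lit 78) (nat_lit 152) (nat_lit 0) (XT.lf (nat_lit 0) (nat_lit 28957381513) (nat_lit 152) (nat_lit 12528719144) (nat_lit 0) (nat_lit 1233043087) (nat_lit 185) (nat_lit 5) (nat_lit 187) (nat_lit 4) (nat_lit 185) (nat_lit 4) (nat_lit 416) (nat_lit 346) (nat_lit 258)) (XT.lf (nat_lit 0) (nat_lit 23341438) (nat_lit 152) (nat_lit 27694767603) (nat_lit 76) (nat_lit 16380812421) (nat_lit 183) (nat_lit 5) (nat_lit 185) (nat_lit 5) (nat_lit 184) (nat_lit 4) (nat_lit 417) (nat_lit 346) (nat_lit 257)))) (XT.nd (nat_lit 156) (nat_lit 228) (nat_lit 0) (XT.nd (nat_lit 78) (nat_lit 0) (nat_lit 0) (XT.lf (nat_lit 0) (nat_lit 1461525903) (nat_lit 76) (nat_lit 12792889777) (nat_lit 152) (nat_lit 31271032210) (nat_lit 182)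 (nat_lit 5) (nat_lit 183) (nat_lit 5) (nat_lit 184) (nat_lit 4) (nat_lit 418) (nat_lit 346) (nat_lit 256)) (XT.lf (nat_lit 0) (nat_lit 29699478152) (nat_lit 152) (nat_lit 14053133038) (nat_lit 0) (nat_lit 3245567724) (nat_lit 182) (nat_lit 5) (nat_lit 184) (nat_lit 4) (nat_lit 182) (nat_lit 4) (nat_lit 419) (nat_lit 346) (nat_lit 255))) (XT.nd (nat_lit 78) (nat_lit 152) (nat_lit 0) (XT.lf (nat_lit 0) (nat_lit 17781612102) (nat_lit 76) (nat_lit 28604215698) (nat_lit 76) (nat_lit 2135266988) (nat_lit 181) (nat_lit 4) (nat_lit 182) (nat_lit 5) (nat_lit 182) (nat_lit 4) (nat_lit 420) (nat_lit 346) (nat_lit 254)) (XT.lf (nat_lit 0) (nat_lit 1376636469) (nat_lit 76) (nat_lit 12213562239) (nat_lit 152) (nat_lit 36506940119) (nat_lit 179) (nat_lit 5) (nat_lit 180) (nat_lit 5) (nat_lit 181) (nat_lit 4) (nat_lit 421) (nat_lit 346) (nat_lit 253)))))) (XT.nd (nat_lit 624) (nat_lit 608) (nat_lit 0) (XT.nd (nat_lit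 312) (nat_lit 304) (nat_lit 0) (XT.nd (nat_lit 156) (nat_lit 152) (nat_lit 0) (XT.nd (nat_lit 78) (nat_lit 76) (nat_lit 0) (XT.lf (nat_lit 0) (nat_lit 30619074828) (nat_lit 152) (nat_lit 15717793767) (nat_lit 0) (nat_lit 5383921448) (nat_lit 179) (nat_lit 5) (nat_lit 181) (nat_lit 4) (nat_lit 179) (nat_lit 4) (nat_lit 422) (nat_lit 346) (nat_lit 252)) (XT.lf (nat_lit 0) (nat_lit 19318812275) (nat_lit 76) (nat_lit 29665056626) (nat_lit 76) (nat_lit 4417531214) (nat_lit 178) (nat_lit 4) (nat_lit 179) (nat_lit 5) (nat_lit 179) (nat_lit 4) (nat_lit 423) (nat_lit 346) (nat_lit 251))) (XT.nd (nat_lit 78) (nat_lit 0) (nat_lit 0) (XT.lf (nat_lit 0) (nat_lit 1298500793) (nat_lit 76) (nat_lit 11656528032) (nat_lit 152) (nat_lit 42187110994) (nat_lit 176) (nat_lit 5) (nat_lit 177) (nat_lit 5) (nat_lit 178) (nat_lit 4) (nat_lit 424) (nat_lit 346) (nat_lit 250)) (XT.lf (nat_lit 0) (nat_lit 31730344686) (nat_lit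 152) (nat_lit 17538648437) (nat_lit 0) (nat_lit 7663173165) (nat_lit 176) (nat_lit 5) (nat_lit 178) (nat_lit 4) (nat_lit 176) (nat_lit 4) (nat_lit 425) (nat_lit 346) (nat_lit 249)))) (XT.nd (nat_lit 156) (nat_lit 76) (nat_lit 0) (XT.nd (nat_lit 78) (nat_lit 152) (nat_lit 0) (XT.lf (nat_lit 0) (nat_lit 21030862963) (nat_lit 76) (nat_lit 30916516736) (nat_lit 76) (nat_lit 6839166714) (nat_lit 175) (nat_lit 4) (nat_lit 176) (nat_lit 5) (nat_lit 176) (nat_lit 4) (nat_lit 426) (nat_lit 346) (nat_lit 248)) (XT.lf (nat_lit 0) (nat_lit 1226316543) (nat_lit 76) (nat_lit 11121664127) (nat_lit 152) (nat_lit 48360723980) (nat_lit 173) (nat_lit 5) (nat_lit 174) (nat_lit 5) (nat_lit 175) (nat_lit 4) (nat_lit 427) (nat_lit 346) (nat_lit 247))) (XT.nd (nat_lit 78) (nat_lit 76) (nat_lit 0) (XT.lf (nat_lit 0) (nat_lit 33048961528) (nat_lit 152) (nat_lit 19533060339) (nat_lit 0) (nat_lit 10100127211) (nat_lit 173)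 (nat_lit 5) (nat_lit 175) (nat_lit 4) (nat_lit 173) (nat_lit 4) (nat_lit 428) (nat_lit 346) (nat_lit 246)) (XT.lf (nat_lit 0) (nat_lit 22934207784) (nat_lit 76) (nat_lit 32375514790) (nat_lit 76) (nat_lit 9418306595) (nat_lit 172) (nat_lit 4) (nat_lit 173) (nat_lit 5) (nat_lit 173) (nat_lit 4) (nat_lit 429) (nat_lit 346) (nat_lit 245))))) (XT.nd (nat_lit 312) (nat_lit 228) (nat_lit 0) (XT.nd (nat_lit 156) (nat_lit 228) (nat_lit 0) (XT.nd (nat_lit 78) (nat_lit 0) (nat_lit 0) (XT.lf (nat_lit 0) (nat_lit 1159404823) (nat_lit 76) (nat_lit 10608686952) (nat_lit 152) (nat_lit 55081960158) (nat_lit 170) (nat_lit 5) (nat_lit 171) (nat_lit 5) (nat_lit 172) (nat_lit 4) (nat_lit 430) (nat_lit 346) (nat_lit 244)) (XT.lf (nat_lit 0) (nat_lit 34592276803) (nat_lit 152) (nat_lit 21719989957) (nat_lit 0) (nat_lit 12713439973) (nat_lit 170) (nat_lit 5) (nat_lit 172) (nat_lit 4) (nat_lit 170) (nat_lit 4) (nat_lit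 431) (nat_lit 346) (nat_lit 243))) (XT.nd (nat_lit 78) (nat_lit 152) (nat_lit 0) (XT.lf (nat_lit 0) (nat_lit 25047162425) (nat_lit 76) (nat_lit 34060601619) (nat_lit 76) (nat_lit 12174875579) (nat_lit 169) (nat_lit 4) (nat_lit 170) (nat_lit 5) (nat_lit 170) (nat_lit 4) (nat_lit 432) (nat_lit 346) (nat_lit 242)) (XT.lf (nat_lit 0) (nat_lit 1097189187) (nat_lit 76) (nat_lit 10117189534) (nat_lit 152) (nat_lit 62410493239) (nat_lit 167) (nat_lit 5) (nat_lit 168) (nat_lit 5) (nat_lit 169) (nat_lit 4) (nat_lit 433) (nat_lit 346) (nat_lit 241)))) (XT.nd (nat_lit 156) (nat_lit 152) (nat_lit 0) (XT.nd (nat_lit 78) (nat_lit 76) (nat_lit 0) (XT.lf (nat_lit 0) (nat_lit 36379509116) (nat_lit 152) (nat_lit 24120188310) (nat_lit 0) (nat_lit 15523760630) (nat_lit 167) (nat_lit 5) (nat_lit 169) (nat_lit 4) (nat_lit 167) (nat_lit 4) (nat_lit 434) (nat_lit 346) (nat_lit 240)) (XT.lf (nat_lit 0) (nat_lit 27390077046)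 (nat_lit 76) (nat_lit 35992172496) (nat_lit 76) (nat_lit 15130756240) (nat_lit 166) (nat_lit 4) (nat_lit 167) (nat_lit 5) (nat_lit 167) (nat_lit 4) (nat_lit 435) (nat_lit 346) (nat_lit 239))) (XT.nd (nat_lit 78) (nat_lit 0) (nat_lit 0) (XT.lf (nat_lit 0) (nat_lit 1039178326) (nat_lit 76) (nat_lit 9646671653) (nat_lit 152) (nat_lit 70412035848) (nat_lit 164) (nat_lit 5) (nat_lit 165) (nat_lit 5) (nat_lit 166) (nat_lit 4) (nat_lit 436) (nat_lit 346) (nat_lit 238)) (XT.lf (nat_lit 0) (nat_lit 38431948618) (nat_lit 152) (nat_lit 26756404993) (nat_lit 0) (nat_lit 18553896268) (nat_lit 164) (nat_lit 5) (nat_lit 166) (nat_lit 4) (nat_lit 164) (nat_lit 4) (nat_lit 437) (nat_lit 346) (nat_lit 237)))))))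
noncomputable def xc150 : XT := (XT.nd (nat_lit 1248) (nat_lit 1292) (nat_lit 0) (XT.nd (nat_lit 624) (nat_lit 532) (nat_lit 0) (XT.nd (nat_lit 312) (nat_lit 380) (nat_lit 0) (XT.nd (nat_lit 156) (nat_lit 76) (nat_lit 0) (XT.nd (nat_lit 78) (nat_lit 152) (nat_lit 0) (XT.lf (nat_lit 0) (nat_lit 29985520378) (nat_lit 76) (nat_lit 38192691992) (nat_lit 76) (nat_lit 18309976754) (nat_lit 163) (nat_lit 4) (nat_lit 164) (nat_lit 5) (nat_lit 164) (nat_lit 4) (nat_lit 438) (nat_lit 346) (nat_lit 236)) (XT.lf (nat_lit 0) (nat_lit 984951787) (nat_lit 76) (nat_lit 9196564247) (nat_lit 152) (nat_lit 79158946066) (nat_lit 161) (nat_lit 5) (nat_lit 162) (nat_lit 5) (nat_lit 163) (nat_lit 4) (nat_lit 439) (nat_lit 346) (nat_lit 235))) (XT.nd (nat_lit 78) (nat_lit 76) (nat_lit 0) (XT.lf (nat_lit 0) (nat_lit 40773178671) (nat_lit 152) (nat_lit 29653613314) (nat_lit 0) (nat_lit 21829002039) (nat_lit 161) (nat_lit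 5) (nat_lit 163) (nat_lit 4) (nat_lit 161) (nat_lit 4) (nat_lit 440) (nat_lit 346) (nat_lit 234)) (XT.lf (nat_lit 0) (nat_lit 32858486873) (nat_lit 76) (nat_lit 40686934317) (nat_lit 76) (nat_lit 21738921516) (nat_lit 160) (nat_lit 4) (nat_lit 161) (nat_lit 5) (nat_lit 161) (nat_lit 4) (nat_lit 441) (nat_lit 346) (nat_lit 233)))) (XT.nd (nat_lit 156) (nat_lit 228) (nat_lit 0) (XT.nd (nat_lit 78) (nat_lit 0) (nat_lit 0) (XT.lf (nat_lit 0) (nat_lit 934148184) (nat_lit 76) (nat_lit 8766249123) (nat_lit 152) (nat_lit 88730899602) (nat_lit 158) (nat_lit 5) (nat_lit 159) (nat_lit 5) (nat_lit 160) (nat_lit 4) (nat_lit 442) (nat_lit 346) (nat_lit 232)) (XT.lf (nat_lit 0) (nat_lit 43429317276) (nat_lit 152) (nat_lit 32839255031) (nat_lit 0) (nat_lit 25376797451) (nat_lit 158) (nat_lit 5) (nat_lit 160) (nat_lit 4) (nat_lit 158) (nat_lit 4) (nat_lit 443) (nat_lit 346) (nat_lit 231))) (XT.nd (nat_lit 78) (nat_lit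 152) (nat_lit 0) (XT.lf (nat_lit 0) (nat_lit 36036628506) (nat_lit 76) (nat_lit 43502242113) (nat_lit 76) (nat_lit 25446566261) (nat_lit 157) (nat_lit 4) (nat_lit 158) (nat_lit 5) (nat_lit 158) (nat_lit 4) (nat_lit 444) (nat_lit 346) (nat_lit 230)) (XT.lf (nat_lit 0) (nat_lit 886455461) (nat_lit 76) (nat_lit 8355074807) (nat_lit 152) (nat_lit 99215633638) (nat_lit 155) (nat_lit 5) (nat_lit 156) (nat_lit 5) (nat_lit 157) (nat_lit 4) (nat_lit 445) (nat_lit 346) (nat_lit 229))))) (XT.nd (nat_lit 312) (nat_lit 304) (nat_lit 0) (XT.nd (nat_lit 156) (nat_lit 152) (nat_lit 0) (XT.nd (nat_lit 78) (nat_lit 76) (nat_lit 0) (XT.lf (nat_lit 0) (nat_lit 46429280880) (nat_lit 152) (nat_lit 36343507313) (nat_lit 0) (nat_lit 29227810213) (nat_lit 155) (nat_lit 5) (nat_lit 157) (nat_lit 4) (nat_lit 155) (nat_lit 4) (nat_lit 446) (nat_lit 346) (nat_lit 228)) (XT.lf (nat_lit 0) (nat_lit 39550513193) (nat_lit 76)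 (nat_lit 46668806764) (nat_lit 76) (nat_lit 29464739626) (nat_lit 154) (nat_lit 4) (nat_lit 155) (nat_lit 5) (nat_lit 155) (nat_lit 4) (nat_lit 447) (nat_lit 346) (nat_lit 227))) (XT.nd (nat_lit 78) (nat_lit 0) (nat_lit 0) (XT.lf (nat_lit 0) (nat_lit 841602853) (nat_lit 76) (nat_lit 7962369254) (nat_lit 152) (nat_lit 110709769163) (nat_lit 152) (nat_lit 5) (nat_lit 153) (nat_lit 5) (nat_lit 154) (nat_lit 4) (nat_lit 448) (nat_lit 346) (nat_lit 226)) (XT.lf (nat_lit 0) (nat_lit 49805073327) (nat_lit 152) (nat_lit 40199574692) (nat_lit 0) (nat_lit 33415649477) (nat_lit 152) (nat_lit 5) (nat_lit 154) (nat_lit 4) (nat_lit 152) (nat_lit 4) (nat_lit 449) (nat_lit 346) (nat_lit 225)))) (XT.nd (nat_lit 156) (nat_lit 76) (nat_lit 0) (XT.nd (nat_lit 78) (nat_lit 152) (nat_lit 0) (XT.lf (nat_lit 0) (nat_lit 43433912014) (nat_lit 76) (nat_lit 50219973353) (nat_lit 76) (nat_lit 33828413379) (nat_lit 151) (nat_lit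 4) (nat_lit 152) (nat_lit 5) (nat_lit 152) (nat_lit 4) (nat_lit 450) (nat_lit 346) (nat_lit 224)) (XT.lf (nat_lit 0) (nat_lit 799354227) (nat_lit 76) (nat_lit 7587449969) (nat_lit 152) (nat_lit 123319719365) (nat_lit 149) (nat_lit 5) (nat_lit 150) (nat_lit 5) (nat_lit 151) (nat_lit 4) (nat_lit 451) (nat_lit 346) (nat_lit 223))) (XT.nd (nat_lit 78) (nat_lit 76) (nat_lit 0) (XT.lf (nat_lit 0) (nat_lit 53592102932) (nat_lit 152) (nat_lit 44444008994) (nat_lit 0) (nat_lit 37977310643) (nat_lit 149) (nat_lit 5) (nat_lit 151) (nat_lit 4) (nat_lit 149) (nat_lit 4) (nat_lit 452) (nat_lit 346) (nat_lit 222)) (XT.lf (nat_lit 0) (nat_lit 47724117827) (nat_lit 76) (nat_lit 54192573571) (nat_lit 76) (nat_lit 38576023889) (nat_lit 148) (nat_lit 4) (nat_lit 149) (nat_lit 5) (nat_lit 149) (nat_lit 4) (nat_lit 453) (nat_lit 346) (nat_lit 221)))))) (XT.nd (nat_lit 624) (nat_lit 684) (nat_lit 0) (XT.nd (nat_lit 312)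 (nat_lit 228) (nat_lit 0) (XT.nd (nat_lit 156) (nat_lit 228) (nat_lit 0) (XT.nd (nat_lit 78) (nat_lit 0) (nat_lit 0) (XT.lf (nat_lit 0) (nat_lit 759502584) (nat_lit 76) (nat_lit 7229632037) (nat_lit 152) (nat_lit 137162692559) (nat_lit 146) (nat_lit 5) (nat_lit 147) (nat_lit 5) (nat_lit 148) (nat_lit 4) (nat_lit 454) (nat_lit 346) (nat_lit 220)) (XT.lf (nat_lit 0) (nat_lit 57829530868) (nat_lit 152) (nat_lit 49117060451) (nat_lit 0) (nat_lit 42953514298) (nat_lit 146) (nat_lit 5) (nat_lit 148) (nat_lit 4) (nat_lit 146) (nat_lit 4) (nat_lit 455) (nat_lit 346) (nat_lit 219))) (XT.nd (nat_lit 78) (nat_lit 152) (nat_lit 0) (XT.lf (nat_lit 0) (nat_lit 52462298121) (nat_lit 76) (nat_lit 58627290086) (nat_lit 76) (nat_lit 43749827704) (nat_lit 145) (nat_lit 4) (nat_lit 146) (nat_lit 5) (nat_lit 146) (nat_lit 4) (nat_lit 456) (nat_lit 346) (nat_lit 218)) (XT.lf (nat_lit 0) (nat_lit 721865497) (nat_lit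 76) (nat_lit 6888234426) (nat_lit 152) (nat_lit 152367799025) (nat_lit 143) (nat_lit 5) (nat_lit 144) (nat_lit 5) (nat_lit 145) (nat_lit 4) (nat_lit 457) (nat_lit 346) (nat_lit 217)))) (XT.nd (nat_lit 156) (nat_lit 152) (nat_lit 0) (XT.nd (nat_lit 78) (nat_lit 76) (nat_lit 0) (XT.lf (nat_lit 0) (nat_lit 62560654351) (nat_lit 152) (nat_lit 54263063478) (nat_lit 0) (nat_lit 48389082218) (nat_lit 143) (nat_lit 5) (nat_lit 145) (nat_lit 4) (nat_lit 143) (nat_lit 4) (nat_lit 458) (nat_lit 346) (nat_lit 216)) (XT.lf (nat_lit 0) (nat_lit 57693885364) (nat_lit 76) (nat_lit 63569056097) (nat_lit 76) (nat_lit 49396294490) (nat_lit 142) (nat_lit 4) (nat_lit 143) (nat_lit 5) (nat_lit 143) (nat_lit 4) (nat_lit 459) (nat_lit 346) (nat_lit 215))) (XT.nd (nat_lit 78) (nat_lit 0) (nat_lit 0) (XT.lf (nat_lit 0) (nat_lit 686281332) (nat_lit 76) (nat_lit 6562584897) (nat_lit 152) (nat_lit 169077272172) (nat_lit 140)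 (nat_lit 5) (nat_lit 141) (nat_lit 5) (nat_lit 142) (nat_lit 4) (nat_lit 460) (nat_lit 346) (nat_lit 214)) (XT.lf (nat_lit 0) (nat_lit 67833328387) (nat_lit 152) (nat_lit 59930860888) (nat_lit 0) (nat_lit 54333353791) (nat_lit 140) (nat_lit 5) (nat_lit 142) (nat_lit 4) (nat_lit 140) (nat_lit 4) (nat_lit 461) (nat_lit 346) (nat_lit 213))))) (XT.nd (nat_lit 312) (nat_lit 380) (nat_lit 0) (XT.nd (nat_lit 156) (nat_lit 76) (nat_lit 0) (XT.nd (nat_lit 78) (nat_lit 152) (nat_lit 0) (XT.lf (nat_lit 0) (nat_lit 63469008446) (nat_lit 76) (nat_lit 69067494126) (nat_lit 76) (nat_lit 55566540948) (nat_lit 139) (nat_lit 4) (nat_lit 140) (nat_lit 5) (nat_lit 140) (nat_lit 4) (nat_lit 462) (nat_lit 346) (nat_lit 212)) (XT.lf (nat_lit 0) (nat_lit 652606113) (nat_lit 76) (nat_lit 6252023776) (nat_lit 152) (nat_lit 187447815538) (nat_lit 137) (nat_lit 5) (nat_lit 138) (nat_lit 5) (nat_lit 139) (nat_lit 4) (nat_lit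 463) (nat_lit 346) (nat_lit 211))) (XT.nd (nat_lit 78) (nat_lit 76) (nat_lit 0) (XT.lf (nat_lit 0) (nat_lit 73700430213) (nat_lit 152) (nat_lit 66174270691) (nat_lit 0) (nat_lit 60840646628) (nat_lit 137) (nat_lit 5) (nat_lit 139) (nat_lit 4) (nat_lit 137) (nat_lit 4) (nat_lit 464) (nat_lit 346) (nat_lit 210)) (XT.lf (nat_lit 0) (nat_lit 69842969254) (nat_lit 76) (nat_lit 75177398400) (nat_lit 76) (nat_lit 62316809732) (nat_lit 136) (nat_lit 4) (nat_lit 137) (nat_lit 5) (nat_lit 137) (nat_lit 4) (nat_lit 465) (nat_lit 346) (nat_lit 209)))) (XT.nd (nat_lit 156) (nat_lit 228) (nat_lit 0) (XT.nd (nat_lit 78) (nat_lit 0) (nat_lit 0) (XT.lf (nat_lit 0) (nat_lit 620710915) (nat_lit 76) (nat_lit 5955906805) (nat_lit 152) (nat_lit 207652088376) (nat_lit 134) (nat_lit 5) (nat_lit 135) (nat_lit 5) (nat_lit 136) (nat_lit 4) (nat_lit 466) (nat_lit 346) (nat_lit 208)) (XT.lf (nat_lit 0) (nat_lit 80220370950)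 (nat_lit 152) (nat_lit 73052599976) (nat_lit 0) (nat_lit 67970765572) (nat_lit 134) (nat_lit 5) (nat_lit 136) (nat_lit 4) (nat_lit 134) (nat_lit 4) (nat_lit 467) (nat_lit 346) (nat_lit 207))) (XT.nd (nat_lit 78) (nat_lit 152) (nat_lit 0) (XT.lf (nat_lit 0) (nat_lit 76876768839) (nat_lit 76) (nat_lit 81959265586) (nat_lit 76) (nat_lit 69708997865) (nat_lit 133) (nat_lit 4) (nat_lit 134) (nat_lit 5) (nat_lit 134) (nat_lit 4) (nat_lit 468) (nat_lit 346) (nat_lit 206)) (XT.nd (nat_lit 78) (nat_lit 0) (nat_lit 0) (XT.lf (nat_lit 0) (nat_lit 590479692) (nat_lit 76) (nat_lit 5673607242) (nat_lit 152) (nat_lit 229880343887) (nat_lit 131) (nat_lit 5) (nat_lit 132) (nat_lit 5) (nat_lit 133) (nat_lit 4) (nat_lit 469) (nat_lit 346) (nat_lit 205)) (XT.lf (nat_lit 0) (nat_lit 87457659406) (nat_lit 152) (nat_lit 80631210860) (nat_lit 0) (nat_lit 75789564845) (nat_lit 131) (nat_lit 5) (nat_lit 133) (nat_lit 4)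 (nat_lit 131) (nat_lit 4) (nat_lit 470) (nat_lit 346) (nat_lit 204))))))))
noncomputable def xc151 : XT := (XT.nd (nat_lit 44226) (nat_lit 0) (nat_lit 8512) (XT.nd (nat_lit 1248) (nat_lit 456) (nat_lit 0) (XT.nd (nat_lit 624) (nat_lit 532) (nat_lit 0) (XT.nd (nat_lit 312) (nat_lit 380) (nat_lit 0) (XT.nd (nat_lit 156) (nat_lit 76) (nat_lit 0) (XT.nd (nat_lit 78) (nat_lit 152) (nat_lit 0) (XT.lf (nat_lit 0) (nat_lit 84637688134) (nat_lit 76) (nat_lit 89479879060) (nat_lit 76) (nat_lit 77811239588) (nat_lit 130) (nat_lit 4) (nat_lit 131) (nat_lit 5) (nat_lit 131) (nat_lit 4) (nat_lit 471) (nat_lit 346) (nat_lit 203)) (XT.lf (nat_lit 0) (nat_lit 561807471) (nat_lit 76) (nat_lit 5404517360) (nat_lit 152) (nat_lit 254342235644) (nat_lit 128) (nat_lit 5) (nat_lit 129) (nat_lit 5) (nat_lit 130) (nat_lit 4) (nat_lit 472) (nat_lit 346) (nat_lit 202))) (XT.nd (nat_lit 78) (nat_lit 76) (nat_lit 0) (XT.lf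 (nat_lit 0) (nat_lit 95483523488) (nat_lit 152) (nat_lit 88982143920) (nat_lit 0) (nat_lit 84369568549) (nat_lit 128) (nat_lit 5) (nat_lit 130) (nat_lit 4) (nat_lit 128) (nat_lit 4) (nat_lit 473) (nat_lit 346) (nat_lit 201)) (XT.lf (nat_lit 0) (nat_lit 93199928719) (nat_lit 76) (nat_lit 97812952390) (nat_lit 76) (nat_lit 86698549151) (nat_lit 127) (nat_lit 4) (nat_lit 128) (nat_lit 5) (nat_lit 128) (nat_lit 4) (nat_lit 474) (nat_lit 346) (nat_lit 200)))) (XT.nd (nat_lit 156) (nat_lit 228) (nat_lit 0) (XT.nd (nat_lit 78) (nat_lit 0) (nat_lit 0) (XT.lf (nat_lit 0) (nat_lit 534598843) (nat_lit 76) (nat_lit 5148049466) (nat_lit 152) (nat_lit 281268809378) (nat_lit 125) (nat_lit 5) (nat_lit 126) (nat_lit 5) (nat_lit 127) (nat_lit 4) (nat_lit 475) (nat_lit 346) (nat_lit 199)) (XT.lf (nat_lit 0) (nat_lit 104376595174) (nat_lit 152) (nat_lit 98184805109) (nat_lit 0) (nat_lit 93790655352) (nat_lit 125)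 (nat_lit 5) (nat_lit 127) (nat_lit 4) (nat_lit 125) (nat_lit 4) (nat_lit 476) (nat_lit 346) (nat_lit 198))) (XT.nd (nat_lit 78) (nat_lit 152) (nat_lit 0) (XT.lf (nat_lit 0) (nat_lit 102645319682) (nat_lit 76) (nat_lit 107039838256) (nat_lit 76) (nat_lit 96453529617) (nat_lit 124) (nat_lit 4) (nat_lit 125) (nat_lit 5) (nat_lit 125) (nat_lit 4) (nat_lit 477) (nat_lit 346) (nat_lit 197)) (XT.lf (nat_lit 0) (nat_lit 508766691) (nat_lit 76) (nat_lit 4903636520) (nat_lit 152) (nat_lit 310914699020) (nat_lit 122) (nat_lit 5) (nat_lit 123) (nat_lit 5) (nat_lit 124) (nat_lit 4) (nat_lit 478) (nat_lit 346) (nat_lit 196))))) (XT.nd (nat_lit 312) (nat_lit 304) (nat_lit 0) (XT.nd (nat_lit 156) (nat_lit 152) (nat_lit 0) (XT.nd (nat_lit 78) (nat_lit 76) (nat_lit 0) (XT.lf (nat_lit 0) (nat_lit 114223665640) (nat_lit 152) (nat_lit 108326722721) (nat_lit 0) (nat_lit 104140813809) (nat_lit 122) (nat_lit 5) (nat_lit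 124) (nat_lit 4) (nat_lit 122) (nat_lit 4) (nat_lit 479) (nat_lit 346) (nat_lit 195)) (XT.lf (nat_lit 0) (nat_lit 113064097300) (nat_lit 76) (nat_lit 117250309638) (nat_lit 76) (nat_lit 107167154381) (nat_lit 121) (nat_lit 4) (nat_lit 122) (nat_lit 5) (nat_lit 122) (nat_lit 4) (nat_lit 480) (nat_lit 346) (nat_lit 194))) (XT.nd (nat_lit 78) (nat_lit 0) (nat_lit 0) (XT.lf (nat_lit 0) (nat_lit 484231140) (nat_lit 76) (nat_lit 4670732457) (nat_lit 152) (nat_lit 343560547927) (nat_lit 119) (nat_lit 5) (nat_lit 120) (nat_lit 5) (nat_lit 121) (nat_lit 4) (nat_lit 481) (nat_lit 346) (nat_lit 193)) (XT.lf (nat_lit 0) (nat_lit 125120517763) (nat_lit 152) (nat_lit 119504381650) (nat_lit 0) (nat_lit 115516975427) (nat_lit 119) (nat_lit 5) (nat_lit 121) (nat_lit 4) (nat_lit 119) (nat_lit 4) (nat_lit 482) (nat_lit 346) (nat_lit 192)))) (XT.nd (nat_lit 156) (nat_lit 76) (nat_lit 0) (XT.nd (nat_lit 78) (nat_lit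 152) (nat_lit 0) (XT.lf (nat_lit 0) (nat_lit 124555764926) (nat_lit 76) (nat_lit 128543420779) (nat_lit 76) (nat_lit 118939628813) (nat_lit 118) (nat_lit 4) (nat_lit 119) (nat_lit 5) (nat_lit 119) (nat_lit 4) (nat_lit 483) (nat_lit 346) (nat_lit 191)) (XT.lf (nat_lit 0) (nat_lit 460918657) (nat_lit 76) (nat_lit 4448812253) (nat_lit 152) (nat_lit 379515678290) (nat_lit 116) (nat_lit 5) (nat_lit 117) (nat_lit 5) (nat_lit 118) (nat_lit 4) (nat_lit 484) (nat_lit 346) (nat_lit 190))) (XT.nd (nat_lit 78) (nat_lit 76) (nat_lit 0) (XT.lf (nat_lit 0) (nat_lit 137172843979) (nat_lit 152) (nat_lit 131824142919) (nat_lit 0) (nat_lit 128025933377) (nat_lit 116) (nat_lit 5) (nat_lit 118) (nat_lit 4) (nat_lit 116) (nat_lit 4) (nat_lit 485) (nat_lit 346) (nat_lit 189)) (XT.lf (nat_lit 0) (nat_lit 137230041271) (nat_lit 76) (nat_lit 141028456184) (nat_lit 76) (nat_lit 131881340211) (nat_lit 115) (nat_lit 4) (nat_lit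 116) (nat_lit 5) (nat_lit 116) (nat_lit 4) (nat_lit 486) (nat_lit 346) (nat_lit 188)))))) (XT.nd (nat_lit 42354) (nat_lit 0) (nat_lit 15656) (XT.nd (nat_lit 312) (nat_lit 76) (nat_lit 0) (XT.nd (nat_lit 156) (nat_lit 228) (nat_lit 0) (XT.nd (nat_lit 78) (nat_lit 0) (nat_lit 0) (XT.lf (nat_lit 0) (nat_lit 438761300) (nat_lit 76) (nat_lit 4237371804) (nat_lit 152) (nat_lit 419121034153) (nat_lit 113) (nat_lit 5) (nat_lit 114) (nat_lit 5) (nat_lit 115) (nat_lit 4) (nat_lit 487) (nat_lit 346) (nat_lit 187)) (XT.lf (nat_lit 0) (nat_lit 150497258261) (nat_lit 152) (nat_lit 145403257252) (nat_lit 0) (nat_lit 141785355554) (nat_lit 113) (nat_lit 5) (nat_lit 115) (nat_lit 4) (nat_lit 113) (nat_lit 4) (nat_lit 488) (nat_lit 346) (nat_lit 186))) (XT.nd (nat_lit 78) (nat_lit 152) (nat_lit 0) (XT.lf (nat_lit 0) (nat_lit 151207906088) (nat_lit 76) (nat_lit 154825976745) (nat_lit 76) (nat_lit 146113905078) (nat_lit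 112) (nat_lit 4) (nat_lit 113) (nat_lit 5) (nat_lit 113) (nat_lit 4) (nat_lit 489) (nat_lit 346) (nat_lit 185)) (XT.lf (nat_lit 0) (nat_lit 417696083) (nat_lit 76) (nat_lit 4035927654) (nat_lit 152) (nat_lit 462752426054) (nat_lit 110) (nat_lit 5) (nat_lit 111) (nat_lit 5) (nat_lit 112) (nat_lit 4) (nat_lit 490) (nat_lit 346) (nat_lit 184)))) (XT.nd (nat_lit 41886) (nat_lit 0) (nat_lit 16644) (XT.nd (nat_lit 78) (nat_lit 76) (nat_lit 0) (XT.lf (nat_lit 0) (nat_lit 165222411903) (nat_lit 152) (nat_lit 160370982370) (nat_lit 0) (nat_lit 156924901587) (nat_lit 110) (nat_lit 5) (nat_lit 112) (nat_lit 4) (nat_lit 110) (nat_lit 4) (nat_lit 491) (nat_lit 346) (nat_lit 183)) (XT.lf (nat_lit 0) (nat_lit 166622753213) (nat_lit 76) (nat_lit 170068973000) (nat_lit 76) (nat_lit 161771323680) (nat_lit 109) (nat_lit 4) (nat_lit 110) (nat_lit 5) (nat_lit 110) (nat_lit 4) (nat_lit 492) (nat_lit 346) (nat_lit 182)))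 (XT.nd (nat_lit 78) (nat_lit 0) (nat_lit 0) (XT.lf (nat_lit 0) (nat_lit 983288773) (nat_lit 532) (nat_lit 1259473935) (nat_lit 532) (nat_lit 1259473935) (nat_lit 328) (nat_lit 3) (nat_lit 335) (nat_lit 3) (nat_lit 335) (nat_lit 5) (nat_lit 347) (nat_lit 347) (nat_lit 326)) (XT.lf (nat_lit 76) (nat_lit 1015800741) (nat_lit 0) (nat_lit 2809499616) (nat_lit 532) (nat_lit 3263806844) (nat_lit 329) (nat_lit 5) (nat_lit 328) (nat_lit 3) (nat_lit 335) (nat_lit 5) (nat_lit 348) (nat_lit 347) (nat_lit 325))))) (XT.nd (nat_lit 312) (nat_lit 532) (nat_lit 0) (XT.nd (nat_lit 156) (nat_lit 0) (nat_lit 0) (XT.nd (nat_lit 78) (nat_lit 456) (nat_lit 0) (XT.lf (nat_lit 76) (nat_lit 4752465790) (nat_lit 0) (nat_lit 951361727) (nat_lit 532) (nat_lit 1477801882) (nat_lit 329) (nat_lit 5) (nat_lit 328) (nat_lit 3) (nat_lit 335) (nat_lit 5) (nat_lit 349) (nat_lit 347) (nat_lit 324)) (XT.lf (nat_lit 0) (nat_lit 310941075)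 (nat_lit 532) (nat_lit 5927952618) (nat_lit 608) (nat_lit 1043265691) (nat_lit 322) (nat_lit 5) (nat_lit 329) (nat_lit 5) (nat_lit 330) (nat_lit 5) (nat_lit 350) (nat_lit 347) (nat_lit 323))) (XT.nd (nat_lit 78) (nat_lit 0) (nat_lit 0) (XT.lf (nat_lit 0) (nat_lit 2089864805) (nat_lit 532) (nat_lit 2083172012) (nat_lit 608) (nat_lit 3215947365) (nat_lit 322) (nat_lit 5) (nat_lit 329) (nat_lit 5) (nat_lit 330) (nat_lit 5) (nat_lit 351) (nat_lit 347) (nat_lit 322)) (XT.lf (nat_lit 76) (nat_lit 1951451922) (nat_lit 0) (nat_lit 1934843665) (nat_lit 608) (nat_lit 3618426591) (nat_lit 323) (nat_lit 5) (nat_lit 322) (nat_lit 5) (nat_lit 330) (nat_lit 5) (nat_lit 352) (nat_lit 347) (nat_lit 321)))) (XT.nd (nat_lit 156) (nat_lit 608) (nat_lit 0) (XT.nd (nat_lit 78) (nat_lit 0) (nat_lit 0) (XT.lf (nat_lit 0) (nat_lit 5717373466) (nat_lit 532) (nat_lit 1440660168) (nat_lit 608) (nat_lit 470972160) (nat_lit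 323) (nat_lit 5) (nat_lit 330) (nat_lit 5) (nat_lit 331) (nat_lit 5) (nat_lit 353) (nat_lit 347) (nat_lit 320)) (XT.lf (nat_lit 76) (nat_lit 2871830136) (nat_lit 0) (nat_lit 4751859093) (nat_lit 608) (nat_lit 136630163) (nat_lit 324) (nat_lit 5) (nat_lit 323) (nat_lit 5) (nat_lit 331) (nat_lit 5) (nat_lit 354) (nat_lit 347) (nat_lit 319))) (XT.nd (nat_lit 78) (nat_lit 0) (nat_lit 76) (XT.lf (nat_lit 0) (nat_lit 1605712443) (nat_lit 608) (nat_lit 542273413) (nat_lit 684) (nat_lit 5752171102) (nat_lit 315) (nat_lit 5) (nat_lit 323) (nat_lit 5) (nat_lit 324) (nat_lit 5) (nat_lit 355) (nat_lit 347) (nat_lit 318)) (XT.lf (nat_lit 0) (nat_lit 3418336400) (nat_lit 608) (nat_lit 3973486361) (nat_lit 76) (nat_lit 655663854) (nat_lit 316) (nat_lit 5) (nat_lit 324) (nat_lit 5) (nat_lit 317) (nat_lit 5) (nat_lit 356) (nat_lit 347) (nat_lit 317))))))) (XT.nd (nat_lit 1248) (nat_lit 2508) (nat_lit 0) (XT.nd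 (nat_lit 624) (nat_lit 1672) (nat_lit 0) (XT.nd (nat_lit 312) (nat_lit 1672) (nat_lit 0) (XT.nd (nat_lit 156) (nat_lit 760) (nat_lit 0) (XT.nd (nat_lit 78) (nat_lit 0) (nat_lit 0) (XT.lf (nat_lit 0) (nat_lit 655715573) (nat_lit 608) (nat_lit 4637501910) (nat_lit 684) (nat_lit 2910383976) (nat_lit 308) (nat_lit 5) (nat_lit 316) (nat_lit 5) (nat_lit 317) (nat_lit 5) (nat_lit 357) (nat_lit 347) (nat_lit 316)) (XT.lf (nat_lit 0) (nat_lit 5587327917) (nat_lit 608) (nat_lit 1661562773) (nat_lit 684) (nat_lit 1119278953) (nat_lit 308) (nat_lit 5) (nat_lit 316) (nat_lit 5) (nat_lit 317) (nat_lit 5) (nat_lit 358) (nat_lit 347) (nat_lit 315))) (XT.nd (nat_lit 78) (nat_lit 0) (nat_lit 0) (XT.lf (nat_lit 0) (nat_lit 717736435) (nat_lit 760) (nat_lit 6349052480) (nat_lit 76) (nat_lit 1474546751) (nat_lit 298) (nat_lit 5) (nat_lit 308) (nat_lit 5) (nat_lit 299) (nat_lit 5) (nat_lit 359) (nat_lit 347) (nat_lit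 314)) (XT.lf (nat_lit 0) (nat_lit 2609247188) (nat_lit 760) (nat_lit 1325764523) (nat_lit 76) (nat_lit 4787217852) (nat_lit 298) (nat_lit 5) (nat_lit 308) (nat_lit 5) (nat_lit 299) (nat_lit 5) (nat_lit 360) (nat_lit 347) (nat_lit 313)))) (XT.nd (nat_lit 156) (nat_lit 456) (nat_lit 0) (XT.nd (nat_lit 78) (nat_lit 456) (nat_lit 0) (XT.lf (nat_lit 0) (nat_lit 4011156999) (nat_lit 760) (nat_lit 575520000) (nat_lit 836) (nat_lit 4325923981) (nat_lit 288) (nat_lit 5) (nat_lit 298) (nat_lit 5) (nat_lit 299) (nat_lit 5) (nat_lit 361) (nat_lit 347) (nat_lit 312)) (XT.lf (nat_lit 0) (nat_lit 449144992) (nat_lit 456) (nat_lit 6220917655) (nat_lit 532) (nat_lit 2442074103) (nat_lit 282) (nat_lit 5) (nat_lit 288) (nat_lit 5) (nat_lit 289) (nat_lit 5) (nat_lit 362) (nat_lit 347) (nat_lit 311))) (XT.nd (nat_lit 78) (nat_lit 456) (nat_lit 0) (XT.lf (nat_lit 0) (nat_lit 6160428294) (nat_lit 456) (nat_lit 2722871327)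 (nat_lit 532) (nat_lit 437065585) (nat_lit 282) (nat_lit 5) (nat_lit 288) (nat_lit 5) (nat_lit 289) (nat_lit 5) (nat_lit 363) (nat_lit 347) (nat_lit 310)) (XT.lf (nat_lit 0) (nat_lit 1606967968) (nat_lit 456) (nat_lit 6945228056) (nat_lit 76) (nat_lit 985898442) (nat_lit 276) (nat_lit 5) (nat_lit 282) (nat_lit 5) (nat_lit 277) (nat_lit 5) (nat_lit 364) (nat_lit 347) (nat_lit 309))))) (XT.nd (nat_lit 312) (nat_lit 912) (nat_lit 0) (XT.nd (nat_lit 156) (nat_lit 380) (nat_lit 0) (XT.nd (nat_lit 78) (nat_lit 380) (nat_lit 0) (XT.lf (nat_lit 0) (nat_lit 3775079168) (nat_lit 456) (nat_lit 1141894547) (nat_lit 76) (nat_lit 4847550011) (nat_lit 276) (nat_lit 5) (nat_lit 282) (nat_lit 5) (nat_lit 277) (nat_lit 5) (nat_lit 365) (nat_lit 347) (nat_lit 308)) (XT.lf (nat_lit 0) (nat_lit 5048231675) (nat_lit 380) (nat_lit 1022690483) (nat_lit 456) (nat_lit 3930385980) (nat_lit 271) (nat_lit 5) (nat_lit 276)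 (nat_lit 5) (nat_lit 277) (nat_lit 5) (nat_lit 366) (nat_lit 347) (nat_lit 307))) (XT.nd (nat_lit 78) (nat_lit 76) (nat_lit 0) (XT.lf (nat_lit 0) (nat_lit 1264126018) (nat_lit 304) (nat_lit 7246943925) (nat_lit 380) (nat_lit 1737386195) (nat_lit 267) (nat_lit 5) (nat_lit 271) (nat_lit 5) (nat_lit 272) (nat_lit 5) (nat_lit 367) (nat_lit 347) (nat_lit 306)) (XT.lf (nat_lit 0) (nat_lit 592249089) (nat_lit 380) (nat_lit 2634078941) (nat_lit 76) (nat_lit 7278938367) (nat_lit 266) (nat_lit 5) (nat_lit 271) (nat_lit 5) (nat_lit 267) (nat_lit 5) (nat_lit 368) (nat_lit 347) (nat_lit 305)))) (XT.nd (nat_lit 156) (nat_lit 608) (nat_lit 0) (XT.nd (nat_lit 78) (nat_lit 0) (nat_lit 0) (XT.lf (nat_lit 0) (nat_lit 3006199542) (nat_lit 380) (nat_lit 6718690560) (nat_lit 76) (nat_lit 1047291931) (nat_lit 262) (nat_lit 5) (nat_lit 267) (nat_lit 5) (nat_lit 263) (nat_lit 5) (nat_lit 369) (nat_lit 347) (nat_lit 304))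 (XT.lf (nat_lit 0) (nat_lit 5586274348) (nat_lit 380) (nat_lit 2654742) (nat_lit 76) (nat_lit 5461243020) (nat_lit 262) (nat_lit 5) (nat_lit 267) (nat_lit 5) (nat_lit 263) (nat_lit 5) (nat_lit 370) (nat_lit 347) (nat_lit 303))) (XT.nd (nat_lit 78) (nat_lit 304) (nat_lit 0) (XT.lf (nat_lit 0) (nat_lit 7217611000) (nat_lit 304) (nat_lit 1140139032) (nat_lit 380) (nat_lit 2981191802) (nat_lit 258) (nat_lit 5) (nat_lit 262) (nat_lit 5) (nat_lit 263) (nat_lit 5) (nat_lit 371) (nat_lit 347) (nat_lit 302)) (XT.lf (nat_lit 0) (nat_lit 3138334294) (nat_lit 304) (nat_lit 8184584271) (nat_lit 380) (nat_lit 316475524) (nat_lit 254) (nat_lit 5) (nat_lit 258) (nat_lit 5) (nat_lit 259) (nat_lit 5) (nat_lit 372) (nat_lit 347) (nat_lit 301)))))) (XT.nd (nat_lit 624) (nat_lit 1140) (nat_lit 0) (XT.nd (nat_lit 312) (nat_lit 760) (nat_lit 0) (XT.nd (nat_lit 156) (nat_lit 304) (nat_lit 0) (XT.nd (nat_lit 78) (nat_lit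 228) (nat_lit 0) (XT.lf (nat_lit 0) (nat_lit 2443204249) (nat_lit 380) (nat_lit 1170280135) (nat_lit 76) (nat_lit 8337389913) (nat_lit 253) (nat_lit 5) (nat_lit 258) (nat_lit 5) (nat_lit 254) (nat_lit 5) (nat_lit 373) (nat_lit 347) (nat_lit 300)) (XT.lf (nat_lit 0) (nat_lit 5408337922) (nat_lit 304) (nat_lit 5620702257) (nat_lit 76) (nat_lit 1244723651) (nat_lit 250) (nat_lit 5) (nat_lit 254) (nat_lit 5) (nat_lit 251) (nat_lit 5) (nat_lit 374) (nat_lit 347) (nat_lit 299))) (XT.nd (nat_lit 78) (nat_lit 0) (nat_lit 0) (XT.lf (nat_lit 0) (nat_lit 2246390107) (nat_lit 304) (nat_lit 6344635551) (nat_lit 380) (nat_lit 4018307314) (nat_lit 246) (nat_lit 5) (nat_lit 250) (nat_lit 5) (nat_lit 251) (nat_lit 5) (nat_lit 375) (nat_lit 347) (nat_lit 298)) (XT.lf (nat_lit 0) (nat_lit 10640641624) (nat_lit 304) (nat_lit 1343431518) (nat_lit 380) (nat_lit 975046160) (nat_lit 246) (nat_lit 5) (nat_lit 250) (nat_lit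 5) (nat_lit 251) (nat_lit 5) (nat_lit 376) (nat_lit 347) (nat_lit 297)))) (XT.nd (nat_lit 156) (nat_lit 228) (nat_lit 0) (XT.nd (nat_lit 78) (nat_lit 228) (nat_lit 0) (XT.lf (nat_lit 0) (nat_lit 2266979765) (nat_lit 304) (nat_lit 7151603350) (nat_lit 76) (nat_lit 3900195132) (nat_lit 242) (nat_lit 5) (nat_lit 246) (nat_lit 5) (nat_lit 243) (nat_lit 5) (nat_lit 377) (nat_lit 347) (nat_lit 296)) (XT.lf (nat_lit 0) (nat_lit 1408932736) (nat_lit 228) (nat_lit 4271614420) (nat_lit 304) (nat_lit 8012963362) (nat_lit 239) (nat_lit 5) (nat_lit 242) (nat_lit 5) (nat_lit 243) (nat_lit 5) (nat_lit 378) (nat_lit 347) (nat_lit 295))) (XT.nd (nat_lit 78) (nat_lit 228) (nat_lit 0) (XT.lf (nat_lit 0) (nat_lit 9364616139) (nat_lit 304) (nat_lit 3516224682) (nat_lit 76) (nat_lit 1201147419) (nat_lit 239) (nat_lit 5) (nat_lit 243) (nat_lit 5) (nat_lit 240) (nat_lit 5) (nat_lit 379) (nat_lit 347) (nat_lit 294)) (XT.lf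 (nat_lit 0) (nat_lit 5745935866) (nat_lit 228) (nat_lit 7607677131) (nat_lit 304) (nat_lit 1130240631) (nat_lit 236) (nat_lit 5) (nat_lit 239) (nat_lit 5) (nat_lit 240) (nat_lit 5) (nat_lit 380) (nat_lit 347) (nat_lit 293))))) (XT.nd (nat_lit 312) (nat_lit 684) (nat_lit 0) (XT.nd (nat_lit 156) (nat_lit 152) (nat_lit 0) (XT.nd (nat_lit 78) (nat_lit 0) (nat_lit 0) (XT.lf (nat_lit 0) (nat_lit 608975564) (nat_lit 228) (nat_lit 1974251709) (nat_lit 304) (nat_lit 12318959240) (nat_lit 232) (nat_lit 5) (nat_lit 235) (nat_lit 5) (nat_lit 236) (nat_lit 5) (nat_lit 381) (nat_lit 347) (nat_lit 292)) (XT.lf (nat_lit 0) (nat_lit 6618266475) (nat_lit 304) (nat_lit 4749393507) (nat_lit 76) (nat_lit 3964155562) (nat_lit 232) (nat_lit 5) (nat_lit 236) (nat_lit 5) (nat_lit 233) (nat_lit 5) (nat_lit 382) (nat_lit 347) (nat_lit 291))) (XT.nd (nat_lit 78) (nat_lit 0) (nat_lit 0) (XT.lf (nat_lit 0) (nat_lit 5353993387)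 (nat_lit 152) (nat_lit 5580778904) (nat_lit 228) (nat_lit 4844168003) (nat_lit 230) (nat_lit 5) (nat_lit 232) (nat_lit 5) (nat_lit 233) (nat_lit 5) (nat_lit 383) (nat_lit 347) (nat_lit 290)) (XT.lf (nat_lit 0) (nat_lit 15520888395) (nat_lit 228) (nat_lit 183172325) (nat_lit 76) (nat_lit 541671312) (nat_lit 230) (nat_lit 5) (nat_lit 233) (nat_lit 5) (nat_lit 231) (nat_lit 5) (nat_lit 384) (nat_lit 347) (nat_lit 289)))) (XT.nd (nat_lit 156) (nat_lit 228) (nat_lit 0) (XT.nd (nat_lit 78) (nat_lit 152) (nat_lit 0) (XT.lf (nat_lit 0) (nat_lit 3714536506) (nat_lit 304) (nat_lit 6015036070) (nat_lit 76) (nat_lit 6992013811) (nat_lit 226) (nat_lit 5) (nat_lit 230) (nat_lit 5) (nat_lit 227) (nat_lit 5) (nat_lit 385) (nat_lit 347) (nat_lit 288)) (XT.lf (nat_lit 0) (nat_lit 5020108020) (nat_lit 152) (nat_lit 3379185396) (nat_lit 228) (nat_lit 8818957546) (nat_lit 224) (nat_lit 5) (nat_lit 226) (nat_lit 5)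 (nat_lit 227) (nat_lit 5) (nat_lit 386) (nat_lit 347) (nat_lit 287))) (XT.nd (nat_lit 78) (nat_lit 228) (nat_lit 0) (XT.lf (nat_lit 0) (nat_lit 13439851446) (nat_lit 228) (nat_lit 1026950313) (nat_lit 76) (nat_lit 3266868843) (nat_lit 224) (nat_lit 5) (nat_lit 227) (nat_lit 5) (nat_lit 225) (nat_lit 5) (nat_lit 387) (nat_lit 347) (nat_lit 286)) (XT.lf (nat_lit 0) (nat_lit 640668658) (nat_lit 228) (nat_lit 7330238010) (nat_lit 76) (nat_lit 10293710464) (nat_lit 221) (nat_lit 5) (nat_lit 224) (nat_lit 5) (nat_lit 222) (nat_lit 5) (nat_lit 388) (nat_lit 347) (nat_lit 285))))))))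
noncomputable def xc152 : XT := (XT.nd (nat_lit 1248) (nat_lit 1292) (nat_lit 0) (XT.nd (nat_lit 624) (nat_lit 836) (nat_lit 0) (XT.nd (nat_lit 312) (nat_lit 304) (nat_lit 0) (XT.nd (nat_lit 156) (nat_lit 380) (nat_lit 0) (XT.nd (nat_lit 78) (nat_lit 0) (nat_lit 0) (XT.lf (nat_lit 0) (nat_lit 4736418280) (nat_lit 152) (nat_lit 1001250308) (nat_lit 228) (nat_lit 13077918465) (nat_lit 219) (nat_lit 5) (nat_lit 221) (nat_lit 5) (nat_lit 222) (nat_lit 5) (nat_lit 389) (nat_lit 347) (nat_lit 284)) (XT.lf (nat_lit 0) (nat_lit 11283146196) (nat_lit 228) (nat_lit 1880713968) (nat_lit 76) (nat_lit 6220563923) (nat_lit 219) (nat_lit 5) (nat_lit 222) (nat_lit 5) (nat_lit 220) (nat_lit 5) (nat_lit 390) (nat_lit 347) (nat_lit 283))) (XT.nd (nat_lit 78) (nat_lit 228) (nat_lit 0) (XT.lf (nat_lit 0) (nat_lit 11219827706) (nat_lit 152) (nat_lit 6047968408) (nat_lit 228) (nat_lit 2705811938) (nat_lit 217) (nat_lit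 5) (nat_lit 219) (nat_lit 5) (nat_lit 220) (nat_lit 5) (nat_lit 391) (nat_lit 347) (nat_lit 282)) (XT.lf (nat_lit 0) (nat_lit 2962093381) (nat_lit 228) (nat_lit 16114091224) (nat_lit 76) (nat_lit 1508887051) (nat_lit 214) (nat_lit 5) (nat_lit 217) (nat_lit 5) (nat_lit 215) (nat_lit 5) (nat_lit 392) (nat_lit 347) (nat_lit 281)))) (XT.nd (nat_lit 156) (nat_lit 152) (nat_lit 0) (XT.nd (nat_lit 78) (nat_lit 152) (nat_lit 0) (XT.lf (nat_lit 0) (nat_lit 9043060713) (nat_lit 228) (nat_lit 2755728011) (nat_lit 76) (nat_lit 9415071848) (nat_lit 214) (nat_lit 5) (nat_lit 217) (nat_lit 5) (nat_lit 215) (nat_lit 5) (nat_lit 393) (nat_lit 347) (nat_lit 280)) (XT.lf (nat_lit 0) (nat_lit 11593043269) (nat_lit 152) (nat_lit 3988197722) (nat_lit 228) (nat_lit 6285189715) (nat_lit 212) (nat_lit 5) (nat_lit 214) (nat_lit 5) (nat_lit 215) (nat_lit 5) (nat_lit 394) (nat_lit 347) (nat_lit 279))) (XT.nd (nat_lit 78)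 (nat_lit 0) (nat_lit 0) (XT.lf (nat_lit 0) (nat_lit 52162667) (nat_lit 152) (nat_lit 18319377324) (nat_lit 76) (nat_lit 4172466980) (nat_lit 210) (nat_lit 5) (nat_lit 212) (nat_lit 5) (nat_lit 211) (nat_lit 5) (nat_lit 395) (nat_lit 347) (nat_lit 278)) (XT.lf (nat_lit 0) (nat_lit 6709920635) (nat_lit 152) (nat_lit 3662754264) (nat_lit 76) (nat_lit 12866897279) (nat_lit 210) (nat_lit 5) (nat_lit 212) (nat_lit 5) (nat_lit 211) (nat_lit 5) (nat_lit 396) (nat_lit 347) (nat_lit 277))))) (XT.nd (nat_lit 312) (nat_lit 380) (nat_lit 0) (XT.nd (nat_lit 156) (nat_lit 228) (nat_lit 0) (XT.nd (nat_lit 78) (nat_lit 76) (nat_lit 0) (XT.lf (nat_lit 0) (nat_lit 12066287496) (nat_lit 152) (nat_lit 1796519251) (nat_lit 228) (nat_lit 10098996885) (nat_lit 208) (nat_lit 5) (nat_lit 210) (nat_lit 5) (nat_lit 211) (nat_lit 5) (nat_lit 397) (nat_lit 347) (nat_lit 276)) (XT.lf (nat_lit 0) (nat_lit 3958202838) (nat_lit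 76) (nat_lit 17626589299) (nat_lit 152) (nat_lit 3124781775) (nat_lit 207) (nat_lit 5) (nat_lit 208) (nat_lit 5) (nat_lit 209) (nat_lit 4) (nat_lit 398) (nat_lit 347) (nat_lit 275))) (XT.nd (nat_lit 78) (nat_lit 152) (nat_lit 0) (XT.lf (nat_lit 0) (nat_lit 4272151247) (nat_lit 152) (nat_lit 4612286449) (nat_lit 76) (nat_lit 16596599069) (nat_lit 206) (nat_lit 5) (nat_lit 208) (nat_lit 5) (nat_lit 207) (nat_lit 5) (nat_lit 399) (nat_lit 347) (nat_lit 274)) (XT.lf (nat_lit 0) (nat_lit 12115061571) (nat_lit 228) (nat_lit 13645759799) (nat_lit 76) (nat_lit 518632905) (nat_lit 204) (nat_lit 5) (nat_lit 207) (nat_lit 5) (nat_lit 205) (nat_lit 4) (nat_lit 400) (nat_lit 347) (nat_lit 273)))) (XT.nd (nat_lit 156) (nat_lit 228) (nat_lit 0) (XT.nd (nat_lit 78) (nat_lit 76) (nat_lit 0) (XT.lf (nat_lit 0) (nat_lit 3715340218) (nat_lit 76) (nat_lit 16893392073) (nat_lit 152) (nat_lit 6496129623) (nat_lit 203)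 (nat_lit 5) (nat_lit 204) (nat_lit 5) (nat_lit 205) (nat_lit 4) (nat_lit 401) (nat_lit 347) (nat_lit 272)) (XT.lf (nat_lit 0) (nat_lit 1716296602) (nat_lit 152) (nat_lit 5614758641) (nat_lit 76) (nat_lit 20628743513) (nat_lit 202) (nat_lit 5) (nat_lit 204) (nat_lit 5) (nat_lit 203) (nat_lit 5) (nat_lit 402) (nat_lit 347) (nat_lit 271))) (XT.nd (nat_lit 78) (nat_lit 76) (nat_lit 0) (XT.lf (nat_lit 0) (nat_lit 10353049405) (nat_lit 228) (nat_lit 15564107179) (nat_lit 76) (nat_lit 2923400267) (nat_lit 200) (nat_lit 5) (nat_lit 203) (nat_lit 5) (nat_lit 201) (nat_lit 4) (nat_lit 403) (nat_lit 347) (nat_lit 270)) (XT.lf (nat_lit 0) (nat_lit 3493683353) (nat_lit 76) (nat_lit 16176286356) (nat_lit 152) (nat_lit 10082966649) (nat_lit 199) (nat_lit 5) (nat_lit 200) (nat_lit 5) (nat_lit 201) (nat_lit 4) (nat_lit 404) (nat_lit 347) (nat_lit 269)))))) (XT.nd (nat_lit 624) (nat_lit 532) (nat_lit 0) (XT.nd (nat_lit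 312) (nat_lit 456) (nat_lit 0) (XT.nd (nat_lit 156) (nat_lit 76) (nat_lit 0) (XT.nd (nat_lit 78) (nat_lit 228) (nat_lit 0) (XT.lf (nat_lit 0) (nat_lit 24002458786) (nat_lit 76) (nat_lit 5691255544) (nat_lit 152) (nat_lit 1005171596) (nat_lit 199) (nat_lit 5) (nat_lit 200) (nat_lit 5) (nat_lit 201) (nat_lit 4) (nat_lit 405) (nat_lit 347) (nat_lit 268)) (XT.lf (nat_lit 0) (nat_lit 8540747181) (nat_lit 228) (nat_lit 17641617403) (nat_lit 76) (nat_lit 5488755467) (nat_lit 196) (nat_lit 5) (nat_lit 199) (nat_lit 5) (nat_lit 197) (nat_lit 4) (nat_lit 406) (nat_lit 347) (nat_lit 267))) (XT.nd (nat_lit 78) (nat_lit 0) (nat_lit 0) (XT.lf (nat_lit 0) (nat_lit 3290513141) (nat_lit 76) (nat_lit 15477843095) (nat_lit 152) (nat_lit 13910877001) (nat_lit 195) (nat_lit 5) (nat_lit 196) (nat_lit 5) (nat_lit 197) (nat_lit 4) (nat_lit 407) (nat_lit 347) (nat_lit 266)) (XT.lf (nat_lit 0) (nat_lit 25841304566) (nat_lit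 76) (nat_lit 3943450747) (nat_lit 152) (nat_lit 3939126290) (nat_lit 195) (nat_lit 5) (nat_lit 196) (nat_lit 5) (nat_lit 197) (nat_lit 4) (nat_lit 408) (nat_lit 347) (nat_lit 265)))) (XT.nd (nat_lit 156) (nat_lit 152) (nat_lit 0) (XT.nd (nat_lit 78) (nat_lit 76) (nat_lit 0) (XT.lf (nat_lit 0) (nat_lit 6669050247) (nat_lit 228) (nat_lit 19898644454) (nat_lit 76) (nat_lit 8230625267) (nat_lit 192) (nat_lit 5) (nat_lit 195) (nat_lit 5) (nat_lit 193) (nat_lit 4) (nat_lit 409) (nat_lit 347) (nat_lit 264)) (XT.lf (nat_lit 0) (nat_lit 3103543019) (nat_lit 76) (nat_lit 14799919129) (nat_lit 152) (nat_lit 18008378962) (nat_lit 191) (nat_lit 5) (nat_lit 192) (nat_lit 5) (nat_lit 193) (nat_lit 4) (nat_lit 410) (nat_lit 347) (nat_lit 263))) (XT.nd (nat_lit 78) (nat_lit 152) (nat_lit 0) (XT.lf (nat_lit 0) (nat_lit 27908030205) (nat_lit 76) (nat_lit 2108355738) (nat_lit 152) (nat_lit 7048812800) (nat_lit 191)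 (nat_lit 5) (nat_lit 192) (nat_lit 5) (nat_lit 193) (nat_lit 4) (nat_lit 411) (nat_lit 347) (nat_lit 262)) (XT.lf (nat_lit 0) (nat_lit 4727708903) (nat_lit 152) (nat_lit 22357036314) (nat_lit 76) (nat_lit 11167414152) (nat_lit 189) (nat_lit 5) (nat_lit 191) (nat_lit 5) (nat_lit 190) (nat_lit 4) (nat_lit 412) (nat_lit 347) (nat_lit 261))))) (XT.nd (nat_lit 312) (nat_lit 228) (nat_lit 0) (XT.nd (nat_lit 156) (nat_lit 228) (nat_lit 0) (XT.nd (nat_lit 78) (nat_lit 0) (nat_lit 0) (XT.lf (nat_lit 0) (nat_lit 2930844631) (nat_lit 76) (nat_lit 14143796105) (nat_lit 152) (nat_lit 22407126056) (nat_lit 188) (nat_lit 5) (nat_lit 189) (nat_lit 5) (nat_lit 190) (nat_lit 4) (nat_lit 413) (nat_lit 347) (nat_lit 260)) (XT.lf (nat_lit 0) (nat_lit 30222378460) (nat_lit 76) (nat_lit 176043847) (nat_lit 152) (nat_lit 10356457122) (nat_lit 188) (nat_lit 5) (nat_lit 189) (nat_lit 5) (nat_lit 190) (nat_lit 4) (nat_lit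 414) (nat_lit 347) (nat_lit 259))) (XT.nd (nat_lit 78) (nat_lit 76) (nat_lit 0) (XT.lf (nat_lit 0) (nat_lit 2705292022) (nat_lit 152) (nat_lit 25040387204) (nat_lit 76) (nat_lit 14320072691) (nat_lit 186) (nat_lit 5) (nat_lit 188) (nat_lit 5) (nat_lit 187) (nat_lit 4) (nat_lit 415) (nat_lit 347) (nat_lit 258)) (XT.lf (nat_lit 0) (nat_lit 2770786568) (nat_lit 76) (nat_lit 13510294163) (nat_lit 152) (nat_lit 27142148551) (nat_lit 185) (nat_lit 5) (nat_lit 186) (nat_lit 5) (nat_lit 187) (nat_lit 4) (nat_lit 416) (nat_lit 347) (nat_lit 257)))) (XT.nd (nat_lit 156) (nat_lit 76) (nat_lit 0) (XT.nd (nat_lit 78) (nat_lit 152) (nat_lit 0) (XT.lf (nat_lit 0) (nat_lit 30970729440) (nat_lit 152) (nat_lit 12050804356) (nat_lit 0) (nat_lit 1805293193) (nat_lit 185) (nat_lit 5) (nat_lit 187) (nat_lit 4) (nat_lit 185) (nat_lit 4) (nat_lit 417) (nat_lit 347) (nat_lit 256)) (XT.lf (nat_lit 0) (nat_lit 589130516)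 (nat_lit 152) (nat_lit 27974298394) (nat_lit 76) (nat_lit 17712207525) (nat_lit 183) (nat_lit 5) (nat_lit 185) (nat_lit 5) (nat_lit 184) (nat_lit 4) (nat_lit 418) (nat_lit 347) (nat_lit 255))) (XT.nd (nat_lit 78) (nat_lit 0) (nat_lit 0) (XT.lf (nat_lit 0) (nat_lit 2621983860) (nat_lit 76) (nat_lit 12899864924) (nat_lit 152) (nat_lit 32252135885) (nat_lit 182) (nat_lit 5) (nat_lit 183) (nat_lit 5) (nat_lit 184) (nat_lit 4) (nat_lit 419) (nat_lit 347) (nat_lit 254)) (XT.lf (nat_lit 0) (nat_lit 31720669946) (nat_lit 152) (nat_lit 13701693675) (nat_lit 0) (nat_lit 3898913345) (nat_lit 182) (nat_lit 5) (nat_lit 184) (nat_lit 4) (nat_lit 182) (nat_lit 4) (nat_lit 420) (nat_lit 347) (nat_lit 253)))))))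
noncomputable def xc153 : XT := (XT.nd (nat_lit 1248) (nat_lit 1292) (nat_lit 0) (XT.nd (nat_lit 624) (nat_lit 532) (nat_lit 0) (XT.nd (nat_lit 312) (nat_lit 380) (nat_lit 0) (XT.nd (nat_lit 156) (nat_lit 76) (nat_lit 0) (XT.nd (nat_lit 78) (nat_lit 152) (nat_lit 0) (XT.lf (nat_lit 0) (nat_lit 19707787173) (nat_lit 76) (nat_lit 29524207669) (nat_lit 76) (nat_lit 1688810902) (nat_lit 181) (nat_lit 4) (nat_lit 182) (nat_lit 5) (nat_lit 182) (nat_lit 4) (nat_lit 421) (nat_lit 347) (nat_lit 252)) (XT.lf (nat_lit 0) (nat_lit 2483256317) (nat_lit 76) (nat_lit 12312667446) (nat_lit 152) (nat_lit 37779761249) (nat_lit 179) (nat_lit 5) (nat_lit 180) (nat_lit 5) (nat_lit 181) (nat_lit 4) (nat_lit 422) (nat_lit 347) (nat_lit 251))) (XT.nd (nat_lit 78) (nat_lit 76) (nat_lit 0) (XT.lf (nat_lit 0) (nat_lit 32658792576) (nat_lit 152) (nat_lit 15497862795) (nat_lit 0) (nat_lit 6124735975) (nat_lit 179) (nat_lit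 5) (nat_lit 181) (nat_lit 4) (nat_lit 179) (nat_lit 4) (nat_lit 423) (nat_lit 347) (nat_lit 250)) (XT.lf (nat_lit 0) (nat_lit 21274350636) (nat_lit 76) (nat_lit 30658699253) (nat_lit 76) (nat_lit 4113420854) (nat_lit 178) (nat_lit 4) (nat_lit 179) (nat_lit 5) (nat_lit 179) (nat_lit 4) (nat_lit 424) (nat_lit 347) (nat_lit 249)))) (XT.nd (nat_lit 156) (nat_lit 228) (nat_lit 0) (XT.nd (nat_lit 78) (nat_lit 0) (nat_lit 0) (XT.lf (nat_lit 0) (nat_lit 2353594172) (nat_lit 76) (nat_lit 11748630216) (nat_lit 152) (nat_lit 43772050215) (nat_lit 176) (nat_lit 5) (nat_lit 177) (nat_lit 5) (nat_lit 178) (nat_lit 4) (nat_lit 425) (nat_lit 347) (nat_lit 248)) (XT.lf (nat_lit 0) (nat_lit 33799819732) (nat_lit 152) (nat_lit 17456077083) (nat_lit 0) (nat_lit 8498729897) (nat_lit 176) (nat_lit 5) (nat_lit 178) (nat_lit 4) (nat_lit 176) (nat_lit 4) (nat_lit 426) (nat_lit 347) (nat_lit 247))) (XT.nd (nat_lit 78) (nat_lit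 152) (nat_lit 0) (XT.lf (nat_lit 0) (nat_lit 23026434020) (nat_lit 76) (nat_lit 31993013406) (nat_lit 76) (nat_lit 6682691371) (nat_lit 175) (nat_lit 4) (nat_lit 176) (nat_lit 5) (nat_lit 176) (nat_lit 4) (nat_lit 427) (nat_lit 347) (nat_lit 246)) (XT.lf (nat_lit 0) (nat_lit 2232129707) (nat_lit 76) (nat_lit 11207501665) (nat_lit 152) (nat_lit 50280795928) (nat_lit 173) (nat_lit 5) (nat_lit 174) (nat_lit 5) (nat_lit 175) (nat_lit 4) (nat_lit 428) (nat_lit 347) (nat_lit 245))))) (XT.nd (nat_lit 312) (nat_lit 304) (nat_lit 0) (XT.nd (nat_lit 156) (nat_lit 152) (nat_lit 0) (XT.nd (nat_lit 78) (nat_lit 76) (nat_lit 0) (XT.lf (nat_lit 0) (nat_lit 35160070101) (nat_lit 152) (nat_lit 19594600911) (nat_lit 0) (nat_lit 11038652495) (nat_lit 173) (nat_lit 5) (nat_lit 175) (nat_lit 4) (nat_lit 173) (nat_lit 4) (nat_lit 429) (nat_lit 347) (nat_lit 244)) (XT.lf (nat_lit 0) (nat_lit 24981270740) (nat_lit 76)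 (nat_lit 33544814510) (nat_lit 76) (nat_lit 9415801550) (nat_lit 172) (nat_lit 4) (nat_lit 173) (nat_lit 5) (nat_lit 173) (nat_lit 4) (nat_lit 430) (nat_lit 347) (nat_lit 243))) (XT.nd (nat_lit 78) (nat_lit 0) (nat_lit 0) (XT.lf (nat_lit 0) (nat_lit 2118113831) (nat_lit 76) (nat_lit 10688891272) (nat_lit 152) (nat_lit 57363023991) (nat_lit 170) (nat_lit 5) (nat_lit 171) (nat_lit 5) (nat_lit 172) (nat_lit 4) (nat_lit 431) (nat_lit 347) (nat_lit 242)) (XT.lf (nat_lit 0) (nat_lit 36757641206) (nat_lit 152) (nat_lit 21933384835) (nat_lit 0) (nat_lit 13764178500) (nat_lit 170) (nat_lit 5) (nat_lit 172) (nat_lit 4) (nat_lit 170) (nat_lit 4) (nat_lit 432) (nat_lit 347) (nat_lit 241)))) (XT.nd (nat_lit 156) (nat_lit 76) (nat_lit 0) (XT.nd (nat_lit 78) (nat_lit 152) (nat_lit 0) (XT.lf (nat_lit 0) (nat_lit 27158050898) (nat_lit 76) (nat_lit 35333505950) (nat_lit 76) (nat_lit 12333794527) (nat_lit 169) (nat_lit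 4) (nat_lit 170) (nat_lit 5) (nat_lit 170) (nat_lit 4) (nat_lit 433) (nat_lit 347) (nat_lit 240)) (XT.lf (nat_lit 0) (nat_lit 2010896725) (nat_lit 76) (nat_lit 10192302936) (nat_lit 152) (nat_lit 65081510797) (nat_lit 167) (nat_lit 5) (nat_lit 168) (nat_lit 5) (nat_lit 169) (nat_lit 4) (nat_lit 434) (nat_lit 347) (nat_lit 239))) (XT.nd (nat_lit 78) (nat_lit 76) (nat_lit 0) (XT.lf (nat_lit 0) (nat_lit 38612605674) (nat_lit 152) (nat_lit 24494266273) (nat_lit 0) (nat_lit 16697052958) (nat_lit 167) (nat_lit 5) (nat_lit 169) (nat_lit 4) (nat_lit 167) (nat_lit 4) (nat_lit 435) (nat_lit 347) (nat_lit 238)) (XT.lf (nat_lit 0) (nat_lit 29578094102) (nat_lit 76) (nat_lit 37380448252) (nat_lit 76) (nat_lit 15459754701) (nat_lit 166) (nat_lit 4) (nat_lit 167) (nat_lit 5) (nat_lit 167) (nat_lit 4) (nat_lit 436) (nat_lit 347) (nat_lit 237)))))) (XT.nd (nat_lit 624) (nat_lit 684) (nat_lit 0) (XT.nd (nat_lit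 312) (nat_lit 228) (nat_lit 0) (XT.nd (nat_lit 156) (nat_lit 228) (nat_lit 0) (XT.nd (nat_lit 78) (nat_lit 0) (nat_lit 0) (XT.lf (nat_lit 0) (nat_lit 1909911841) (nat_lit 76) (nat_lit 9717162024) (nat_lit 152) (nat_lit 73505359684) (nat_lit 164) (nat_lit 5) (nat_lit 165) (nat_lit 5) (nat_lit 166) (nat_lit 4) (nat_lit 437) (nat_lit 347) (nat_lit 236)) (XT.lf (nat_lit 0) (nat_lit 40747223586) (nat_lit 152) (nat_lit 27301186061) (nat_lit 0) (nat_lit 19861268850) (nat_lit 164) (nat_lit 5) (nat_lit 166) (nat_lit 4) (nat_lit 164) (nat_lit 4) (nat_lit 438) (nat_lit 347) (nat_lit 235))) (XT.nd (nat_lit 78) (nat_lit 152) (nat_lit 0) (XT.lf (nat_lit 0) (nat_lit 32265044625) (nat_lit 76) (nat_lit 39709191213) (nat_lit 76) (nat_lit 18819007100) (nat_lit 163) (nat_lit 4) (nat_lit 164) (nat_lit 5) (nat_lit 164) (nat_lit 4) (nat_lit 439) (nat_lit 347) (nat_lit 234)) (XT.lf (nat_lit 0) (nat_lit 1814662654) (nat_lit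 76) (nat_lit 9262837221) (nat_lit 152) (nat_lit 82710639928) (nat_lit 161) (nat_lit 5) (nat_lit 162) (nat_lit 5) (nat_lit 163) (nat_lit 4) (nat_lit 440) (nat_lit 347) (nat_lit 233)))) (XT.nd (nat_lit 156) (nat_lit 152) (nat_lit 0) (XT.nd (nat_lit 78) (nat_lit 76) (nat_lit 0) (XT.lf (nat_lit 0) (nat_lit 43186173356) (nat_lit 152) (nat_lit 30380423332) (nat_lit 0) (nat_lit 23283270249) (nat_lit 161) (nat_lit 5) (nat_lit 163) (nat_lit 4) (nat_lit 161) (nat_lit 4) (nat_lit 441) (nat_lit 347) (nat_lit 232)) (XT.lf (nat_lit 0) (nat_lit 35245090401) (nat_lit 76) (nat_lit 42345723004) (nat_lit 76) (nat_lit 22439340378) (nat_lit 160) (nat_lit 4) (nat_lit 161) (nat_lit 5) (nat_lit 161) (nat_lit 4) (nat_lit 442) (nat_lit 347) (nat_lit 231))) (XT.nd (nat_lit 78) (nat_lit 0) (nat_lit 0) (XT.lf (nat_lit 0) (nat_lit 1724711700) (nat_lit 76) (nat_lit 8828658130) (nat_lit 152) (nat_lit 92781094290) (nat_lit 158)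 (nat_lit 5) (nat_lit 159) (nat_lit 5) (nat_lit 160) (nat_lit 4) (nat_lit 443) (nat_lit 347) (nat_lit 230)) (XT.lf (nat_lit 0) (nat_lit 45956803677) (nat_lit 152) (nat_lit 33760851274) (nat_lit 0) (nat_lit 26992182267) (nat_lit 158) (nat_lit 5) (nat_lit 160) (nat_lit 4) (nat_lit 158) (nat_lit 4) (nat_lit 444) (nat_lit 347) (nat_lit 229))))) (XT.nd (nat_lit 312) (nat_lit 380) (nat_lit 0) (XT.nd (nat_lit 156) (nat_lit 76) (nat_lit 0) (XT.nd (nat_lit 78) (nat_lit 152) (nat_lit 0) (XT.lf (nat_lit 0) (nat_lit 38547207625) (nat_lit 76) (nat_lit 45318739241) (nat_lit 76) (nat_lit 26351255222) (nat_lit 157) (nat_lit 4) (nat_lit 158) (nat_lit 5) (nat_lit 158) (nat_lit 4) (nat_lit 445) (nat_lit 347) (nat_lit 228)) (XT.lf (nat_lit 0) (nat_lit 1639671483) (nat_lit 76) (nat_lit 8413929393) (nat_lit 152) (nat_lit 103808921522) (nat_lit 155) (nat_lit 5) (nat_lit 156) (nat_lit 5) (nat_lit 157) (nat_lit 4) (nat_lit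 446) (nat_lit 347) (nat_lit 227))) (XT.nd (nat_lit 78) (nat_lit 76) (nat_lit 0) (XT.lf (nat_lit 0) (nat_lit 49089409224) (nat_lit 152) (nat_lit 37474216459) (nat_lit 0) (nat_lit 31020069429) (nat_lit 155) (nat_lit 5) (nat_lit 157) (nat_lit 4) (nat_lit 155) (nat_lit 4) (nat_lit 447) (nat_lit 347) (nat_lit 226)) (XT.lf (nat_lit 0) (nat_lit 42203433037) (nat_lit 76) (nat_lit 48659935142) (nat_lit 76) (nat_lit 30588240272) (nat_lit 154) (nat_lit 4) (nat_lit 155) (nat_lit 5) (nat_lit 155) (nat_lit 4) (nat_lit 448) (nat_lit 347) (nat_lit 225)))) (XT.nd (nat_lit 156) (nat_lit 228) (nat_lit 0) (XT.nd (nat_lit 78) (nat_lit 0) (nat_lit 0) (XT.lf (nat_lit 0) (nat_lit 1559196928) (nat_lit 76) (nat_lit 8017941963) (nat_lit 152) (nat_lit 115895641033) (nat_lit 152) (nat_lit 5) (nat_lit 153) (nat_lit 5) (nat_lit 154) (nat_lit 4) (nat_lit 449) (nat_lit 347) (nat_lit 224)) (XT.lf (nat_lit 0) (nat_lit 52617532973)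 (nat_lit 152) (nat_lit 41555444625) (nat_lit 0) (nat_lit 35402224475) (nat_lit 152) (nat_lit 5) (nat_lit 154) (nat_lit 4) (nat_lit 152) (nat_lit 4) (nat_lit 450) (nat_lit 347) (nat_lit 223))) (XT.nd (nat_lit 78) (nat_lit 152) (nat_lit 0) (XT.lf (nat_lit 0) (nat_lit 46249166275) (nat_lit 76) (nat_lit 52404323952) (nat_lit 76) (nat_lit 35187077927) (nat_lit 151) (nat_lit 4) (nat_lit 152) (nat_lit 5) (nat_lit 152) (nat_lit 4) (nat_lit 451) (nat_lit 347) (nat_lit 222)) (XT.nd (nat_lit 78) (nat_lit 0) (nat_lit 0) (XT.lf (nat_lit 0) (nat_lit 1482979116) (nat_lit 76) (nat_lit 7639982056) (nat_lit 152) (nat_lit 129153047729) (nat_lit 149) (nat_lit 5) (nat_lit 150) (nat_lit 5) (nat_lit 151) (nat_lit 4) (nat_lit 452) (nat_lit 347) (nat_lit 221)) (XT.lf (nat_lit 0) (nat_lit 56578298231) (nat_lit 152) (nat_lit 46042975995) (nat_lit 0) (nat_lit 40177489963) (nat_lit 149) (nat_lit 5) (nat_lit 151) (nat_lit 4)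 (nat_lit 149) (nat_lit 4) (nat_lit 453) (nat_lit 347) (nat_lit 220))))))))
noncomputable def xc154 : XT := (XT.nd (nat_lit 2496) (nat_lit 456) (nat_lit 0) (XT.nd (nat_lit 1248) (nat_lit 1292) (nat_lit 0) (XT.nd (nat_lit 624) (nat_lit 532) (nat_lit 0) (XT.nd (nat_lit 312) (nat_lit 380) (nat_lit 0) (XT.nd (nat_lit 156) (nat_lit 76) (nat_lit 0) (XT.nd (nat_lit 78) (nat_lit 152) (nat_lit 0) (XT.lf (nat_lit 0) (nat_lit 50723505014) (nat_lit 76) (nat_lit 56590585054) (nat_lit 76) (nat_lit 40188182778) (nat_lit 148) (nat_lit 4) (nat_lit 149) (nat_lit 5) (nat_lit 149) (nat_lit 4) (nat_lit 454) (nat_lit 347) (nat_lit 219)) (XT.lf (nat_lit 0) (nat_lit 1410740060) (nat_lit 76) (nat_lit 7279338202) (nat_lit 152) (nat_lit 143704265932) (nat_lit 146) (nat_lit 5) (nat_lit 147) (nat_lit 5) (nat_lit 148) (nat_lit 4) (nat_lit 455) (nat_lit 347) (nat_lit 218))) (XT.nd (nat_lit 78) (nat_lit 76) (nat_lit 0) (XT.lf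 (nat_lit 0) (nat_lit 61012773695) (nat_lit 152) (nat_lit 50979133470) (nat_lit 0) (nat_lit 45388615418) (nat_lit 146) (nat_lit 5) (nat_lit 148) (nat_lit 4) (nat_lit 146) (nat_lit 4) (nat_lit 456) (nat_lit 347) (nat_lit 217)) (XT.lf (nat_lit 0) (nat_lit 55669615933) (nat_lit 76) (nat_lit 61261445380) (nat_lit 76) (nat_lit 45635975709) (nat_lit 145) (nat_lit 4) (nat_lit 146) (nat_lit 5) (nat_lit 146) (nat_lit 4) (nat_lit 457) (nat_lit 347) (nat_lit 216)))) (XT.nd (nat_lit 156) (nat_lit 228) (nat_lit 0) (XT.nd (nat_lit 78) (nat_lit 0) (nat_lit 0) (XT.lf (nat_lit 0) (nat_lit 1342228358) (nat_lit 76) (nat_lit 6935306752) (nat_lit 152) (nat_lit 159684912276) (nat_lit 143) (nat_lit 5) (nat_lit 144) (nat_lit 5) (nat_lit 145) (nat_lit 4) (nat_lit 458) (nat_lit 347) (nat_lit 215)) (XT.lf (nat_lit 0) (nat_lit 65966375156) (nat_lit 152) (nat_lit 56410527323) (nat_lit 0) (nat_lit 51082653164) (nat_lit 143)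 (nat_lit 5) (nat_lit 145) (nat_lit 4) (nat_lit 143) (nat_lit 4) (nat_lit 459) (nat_lit 347) (nat_lit 214))) (XT.nd (nat_lit 78) (nat_lit 152) (nat_lit 0) (XT.lf (nat_lit 0) (nat_lit 61135144939) (nat_lit 76) (nat_lit 66464097985) (nat_lit 76) (nat_lit 51579297106) (nat_lit 142) (nat_lit 4) (nat_lit 143) (nat_lit 5) (nat_lit 143) (nat_lit 4) (nat_lit 460) (nat_lit 347) (nat_lit 213)) (XT.lf (nat_lit 0) (nat_lit 1277215563) (nat_lit 76) (nat_lit 6607196121) (nat_lit 152) (nat_lit 177244378529) (nat_lit 140) (nat_lit 5) (nat_lit 141) (nat_lit 5) (nat_lit 142) (nat_lit 4) (nat_lit 461) (nat_lit 347) (nat_lit 212))))) (XT.nd (nat_lit 312) (nat_lit 304) (nat_lit 0) (XT.nd (nat_lit 156) (nat_lit 152) (nat_lit 0) (XT.nd (nat_lit 78) (nat_lit 76) (nat_lit 0) (XT.lf (nat_lit 0) (nat_lit 71489307811) (nat_lit 152) (nat_lit 62388500351) (nat_lit 0) (nat_lit 57311396408) (nat_lit 140) (nat_lit 5) (nat_lit 142)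 (nat_lit 4) (nat_lit 140) (nat_lit 4) (nat_lit 462) (nat_lit 347) (nat_lit 211)) (XT.lf (nat_lit 0) (nat_lit 67172670457) (nat_lit 76) (nat_lit 72250662003) (nat_lit 76) (nat_lit 58071862997) (nat_lit 139) (nat_lit 4) (nat_lit 140) (nat_lit 5) (nat_lit 140) (nat_lit 4) (nat_lit 463) (nat_lit 347) (nat_lit 210))) (XT.nd (nat_lit 78) (nat_lit 0) (nat_lit 0) (XT.lf (nat_lit 0) (nat_lit 1215493139) (nat_lit 76) (nat_lit 6294330022) (nat_lit 152) (nat_lit 196547246449) (nat_lit 137) (nat_lit 5) (nat_lit 138) (nat_lit 5) (nat_lit 139) (nat_lit 4) (nat_lit 464) (nat_lit 347) (nat_lit 209)) (XT.lf (nat_lit 0) (nat_lit 77637053475) (nat_lit 152) (nat_lit 68969617799) (nat_lit 0) (nat_lit 64131863547) (nat_lit 137) (nat_lit 5) (nat_lit 139) (nat_lit 4) (nat_lit 137) (nat_lit 4) (nat_lit 465) (nat_lit 347) (nat_lit 208)))) (XT.nd (nat_lit 156) (nat_lit 76) (nat_lit 0) (XT.nd (nat_lit 78) (nat_lit 152) (nat_lit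 0) (XT.lf (nat_lit 0) (nat_lit 73840204040) (nat_lit 76) (nat_lit 78678688526) (nat_lit 76) (nat_lit 65172768364) (nat_lit 136) (nat_lit 4) (nat_lit 137) (nat_lit 5) (nat_lit 137) (nat_lit 4) (nat_lit 466) (nat_lit 347) (nat_lit 207)) (XT.lf (nat_lit 0) (nat_lit 1156869913) (nat_lit 76) (nat_lit 5996049860) (nat_lit 152) (nat_lit 217774848070) (nat_lit 134) (nat_lit 5) (nat_lit 135) (nat_lit 5) (nat_lit 136) (nat_lit 4) (nat_lit 467) (nat_lit 347) (nat_lit 206))) (XT.nd (nat_lit 78) (nat_lit 76) (nat_lit 0) (XT.lf (nat_lit 0) (nat_lit 84470907441) (nat_lit 152) (nat_lit 76216206797) (nat_lit 0) (nat_lit 71606833188) (nat_lit 134) (nat_lit 5) (nat_lit 136) (nat_lit 4) (nat_lit 134) (nat_lit 4) (nat_lit 468) (nat_lit 347) (nat_lit 205)) (XT.lf (nat_lit 0) (nat_lit 81201742988) (nat_lit 76) (nat_lit 85811717362) (nat_lit 76) (nat_lit 72947042344) (nat_lit 133) (nat_lit 4) (nat_lit 134) (nat_lit 5)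 (nat_lit 134) (nat_lit 4) (nat_lit 469) (nat_lit 347) (nat_lit 204)))))) (XT.nd (nat_lit 624) (nat_lit 684) (nat_lit 0) (XT.nd (nat_lit 312) (nat_lit 228) (nat_lit 0) (XT.nd (nat_lit 156) (nat_lit 228) (nat_lit 0) (XT.nd (nat_lit 78) (nat_lit 0) (nat_lit 0) (XT.lf (nat_lit 0) (nat_lit 1101169931) (nat_lit 76) (nat_lit 5711716462) (nat_lit 152) (nat_lit 241126986213) (nat_lit 131) (nat_lit 5) (nat_lit 132) (nat_lit 5) (nat_lit 133) (nat_lit 4) (nat_lit 470) (nat_lit 347) (nat_lit 203)) (XT.lf (nat_lit 0) (nat_lit 92058570153) (nat_lit 152) (nat_lit 84196950492) (nat_lit 0) (nat_lit 79805434833) (nat_lit 131) (nat_lit 5) (nat_lit 133) (nat_lit 4) (nat_lit 131) (nat_lit 4) (nat_lit 471) (nat_lit 347) (nat_lit 202))) (XT.nd (nat_lit 78) (nat_lit 152) (nat_lit 0) (XT.lf (nat_lit 0) (nat_lit 89327880211) (nat_lit 76) (nat_lit 93719890121) (nat_lit 76) (nat_lit 81466260550) (nat_lit 130) (nat_lit 4) (nat_lit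 131) (nat_lit 5) (nat_lit 131) (nat_lit 4) (nat_lit 472) (nat_lit 347) (nat_lit 201)) (XT.lf (nat_lit 0) (nat_lit 1048230646) (nat_lit 76) (nat_lit 5440711271) (nat_lit 152) (nat_lit 266823831541) (nat_lit 128) (nat_lit 5) (nat_lit 129) (nat_lit 5) (nat_lit 130) (nat_lit 4) (nat_lit 473) (nat_lit 347) (nat_lit 200)))) (XT.nd (nat_lit 156) (nat_lit 152) (nat_lit 0) (XT.nd (nat_lit 78) (nat_lit 76) (nat_lit 0) (XT.lf (nat_lit 0) (nat_lit 100474799413) (nat_lit 152) (nat_lit 92987542593) (nat_lit 0) (nat_lit 88803800760) (nat_lit 128) (nat_lit 5) (nat_lit 130) (nat_lit 4) (nat_lit 128) (nat_lit 4) (nat_lit 474) (nat_lit 347) (nat_lit 199)) (XT.lf (nat_lit 0) (nat_lit 98296477088) (nat_lit 76) (nat_lit 102480625542) (nat_lit 76) (nat_lit 90809220268) (nat_lit 127) (nat_lit 4) (nat_lit 128) (nat_lit 5) (nat_lit 128) (nat_lit 4) (nat_lit 475) (nat_lit 347) (nat_lit 198))) (XT.nd (nat_lit 78) (nat_lit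 0) (nat_lit 0) (XT.lf (nat_lit 0) (nat_lit 997901394) (nat_lit 76) (nat_lit 5182437106) (nat_lit 152) (nat_lit 295108014182) (nat_lit 125) (nat_lit 5) (nat_lit 126) (nat_lit 5) (nat_lit 127) (nat_lit 4) (nat_lit 476) (nat_lit 347) (nat_lit 197)) (XT.lf (nat_lit 0) (nat_lit 109802129373) (nat_lit 152) (nat_lit 102671408592) (nat_lit 0) (nat_lit 98685785230) (nat_lit 125) (nat_lit 5) (nat_lit 127) (nat_lit 4) (nat_lit 125) (nat_lit 4) (nat_lit 477) (nat_lit 347) (nat_lit 196))))) (XT.nd (nat_lit 312) (nat_lit 380) (nat_lit 0) (XT.nd (nat_lit 156) (nat_lit 76) (nat_lit 0) (XT.nd (nat_lit 78) (nat_lit 152) (nat_lit 0) (XT.lf (nat_lit 0) (nat_lit 108193405716) (nat_lit 76) (nat_lit 112179363607) (nat_lit 76) (nat_lit 101062684935) (nat_lit 124) (nat_lit 4) (nat_lit 125) (nat_lit 5) (nat_lit 125) (nat_lit 4) (nat_lit 478) (nat_lit 347) (nat_lit 195)) (XT.lf (nat_lit 0) (nat_lit 950042086) (nat_lit 76)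 (nat_lit 4936318575) (nat_lit 152) (nat_lit 326246929818) (nat_lit 122) (nat_lit 5) (nat_lit 123) (nat_lit 5) (nat_lit 124) (nat_lit 4) (nat_lit 479) (nat_lit 347) (nat_lit 194))) (XT.nd (nat_lit 78) (nat_lit 76) (nat_lit 0) (XT.lf (nat_lit 0) (nat_lit 120131663213) (nat_lit 152) (nat_lit 113340500564) (nat_lit 0) (nat_lit 109543757787) (nat_lit 122) (nat_lit 5) (nat_lit 124) (nat_lit 4) (nat_lit 122) (nat_lit 4) (nat_lit 480) (nat_lit 347) (nat_lit 193)) (XT.lf (nat_lit 0) (nat_lit 119113367582) (nat_lit 76) (nat_lit 122910385576) (nat_lit 76) (nat_lit 112322204933) (nat_lit 121) (nat_lit 4) (nat_lit 122) (nat_lit 5) (nat_lit 122) (nat_lit 4) (nat_lit 481) (nat_lit 347) (nat_lit 192)))) (XT.nd (nat_lit 156) (nat_lit 228) (nat_lit 0) (XT.nd (nat_lit 78) (nat_lit 0) (nat_lit 0) (XT.lf (nat_lit 0) (nat_lit 904522108) (nat_lit 76) (nat_lit 4701802214) (nat_lit 152) (nat_lit 360535282151) (nat_lit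 119) (nat_lit 5) (nat_lit 120) (nat_lit 5) (nat_lit 121) (nat_lit 4) (nat_lit 482) (nat_lit 347) (nat_lit 191)) (XT.lf (nat_lit 0) (nat_lit 131563947100) (nat_lit 152) (nat_lit 125096173149) (nat_lit 0) (nat_lit 121479478162) (nat_lit 119) (nat_lit 5) (nat_lit 121) (nat_lit 4) (nat_lit 119) (nat_lit 4) (nat_lit 483) (nat_lit 347) (nat_lit 190))) (XT.nd (nat_lit 78) (nat_lit 152) (nat_lit 0) (XT.lf (nat_lit 0) (nat_lit 131160796440) (nat_lit 76) (nat_lit 134777717849) (nat_lit 76) (nat_lit 124693022489) (nat_lit 118) (nat_lit 4) (nat_lit 119) (nat_lit 5) (nat_lit 119) (nat_lit 4) (nat_lit 484) (nat_lit 347) (nat_lit 189)) (XT.lf (nat_lit 0) (nat_lit 861219370) (nat_lit 76) (nat_lit 4478356419) (nat_lit 152) (nat_lit 398297885953) (nat_lit 116) (nat_lit 5) (nat_lit 117) (nat_lit 5) (nat_lit 118) (nat_lit 4) (nat_lit 485) (nat_lit 347) (nat_lit 188))))))) (XT.nd (nat_lit 43056) (nat_lit 0) (nat_lit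 11248) (XT.nd (nat_lit 42432) (nat_lit 0) (nat_lit 15504) (XT.nd (nat_lit 312) (nat_lit 228) (nat_lit 0) (XT.nd (nat_lit 156) (nat_lit 152) (nat_lit 0) (XT.nd (nat_lit 78) (nat_lit 76) (nat_lit 0) (XT.lf (nat_lit 0) (nat_lit 144209933786) (nat_lit 152) (nat_lit 138050149071) (nat_lit 0) (nat_lit 134605061051) (nat_lit 116) (nat_lit 5) (nat_lit 118) (nat_lit 4) (nat_lit 116) (nat_lit 4) (nat_lit 486) (nat_lit 347) (nat_lit 187)) (XT.lf (nat_lit 0) (nat_lit 144450853990) (nat_lit 76) (nat_lit 147896128287) (nat_lit 76) (nat_lit 138291069275) (nat_lit 115) (nat_lit 4) (nat_lit 116) (nat_lit 5) (nat_lit 116) (nat_lit 4) (nat_lit 487) (nat_lit 347) (nat_lit 186))) (XT.nd (nat_lit 78) (nat_lit 0) (nat_lit 0) (XT.lf (nat_lit 0) (nat_lit 820019492) (nat_lit 76) (nat_lit 4265471196) (nat_lit 152) (nat_lit 439892757385) (nat_lit 113) (nat_lit 5) (nat_lit 114) (nat_lit 5) (nat_lit 115) (nat_lit 4) (nat_lit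 488) (nat_lit 347) (nat_lit 185)) (XT.lf (nat_lit 0) (nat_lit 158192045061) (nat_lit 152) (nat_lit 152325583427) (nat_lit 0) (nat_lit 149044039938) (nat_lit 113) (nat_lit 5) (nat_lit 115) (nat_lit 4) (nat_lit 113) (nat_lit 4) (nat_lit 489) (nat_lit 347) (nat_lit 184)))) (XT.nd (nat_lit 156) (nat_lit 0) (nat_lit 0) (XT.nd (nat_lit 78) (nat_lit 152) (nat_lit 0) (XT.lf (nat_lit 0) (nat_lit 159110527810) (nat_lit 76) (nat_lit 162392224551) (nat_lit 76) (nat_lit 153244066176) (nat_lit 112) (nat_lit 4) (nat_lit 113) (nat_lit 5) (nat_lit 113) (nat_lit 4) (nat_lit 490) (nat_lit 347) (nat_lit 183)) (XT.lf (nat_lit 0) (nat_lit 780815098) (nat_lit 76) (nat_lit 4062657792) (nat_lit 152) (nat_lit 485714520993) (nat_lit 110) (nat_lit 5) (nat_lit 111) (nat_lit 5) (nat_lit 112) (nat_lit 4) (nat_lit 491) (nat_lit 347) (nat_lit 182))) (XT.nd (nat_lit 41886) (nat_lit 0) (nat_lit 16568) (XT.lf (nat_lit 0) (nat_lit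 173645343202) (nat_lit 152) (nat_lit 168058236885) (nat_lit 0) (nat_lit 164932540030) (nat_lit 110) (nat_lit 5) (nat_lit 112) (nat_lit 4) (nat_lit 110) (nat_lit 4) (nat_lit 492) (nat_lit 347) (nat_lit 181)) (XT.lf (nat_lit 0) (nat_lit 2798147421) (nat_lit 532) (nat_lit 395458172) (nat_lit 532) (nat_lit 395458172) (nat_lit 328) (nat_lit 3) (nat_lit 335) (nat_lit 3) (nat_lit 335) (nat_lit 5) (nat_lit 348) (nat_lit 348) (nat_lit 324))))) (XT.nd (nat_lit 312) (nat_lit 532) (nat_lit 0) (XT.nd (nat_lit 156) (nat_lit 0) (nat_lit 0) (XT.nd (nat_lit 78) (nat_lit 0) (nat_lit 0) (XT.lf (nat_lit 0) (nat_lit 129995866) (nat_lit 532) (nat_lit 4385407157) (nat_lit 608) (nat_lit 2758469402) (nat_lit 321) (nat_lit 5) (nat_lit 328) (nat_lit 3) (nat_lit 329) (nat_lit 5) (nat_lit 349) (nat_lit 348) (nat_lit 323)) (XT.lf (nat_lit 0) (nat_lit 1781122087) (nat_lit 532) (nat_lit 680624486) (nat_lit 608) (nat_lit 4916018098)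 (nat_lit 321) (nat_lit 5) (nat_lit 328) (nat_lit 3) (nat_lit 329) (nat_lit 5) (nat_lit 350) (nat_lit 348) (nat_lit 322))) (XT.nd (nat_lit 78) (nat_lit 0) (nat_lit 76) (XT.lf (nat_lit 76) (nat_lit 3256469268) (nat_lit 0) (nat_lit 207513252) (nat_lit 608) (nat_lit 4025410114) (nat_lit 322) (nat_lit 5) (nat_lit 321) (nat_lit 5) (nat_lit 329) (nat_lit 5) (nat_lit 351) (nat_lit 348) (nat_lit 321)) (XT.lf (nat_lit 0) (nat_lit 5179362358) (nat_lit 532) (nat_lit 287647997) (nat_lit 608) (nat_lit 2142172821) (nat_lit 322) (nat_lit 5) (nat_lit 329) (nat_lit 5) (nat_lit 330) (nat_lit 5) (nat_lit 352) (nat_lit 348) (nat_lit 320)))) (XT.nd (nat_lit 156) (nat_lit 0) (nat_lit 76) (XT.nd (nat_lit 78) (nat_lit 608) (nat_lit 0) (XT.lf (nat_lit 76) (nat_lit 3918067091) (nat_lit 0) (nat_lit 3034585517) (nat_lit 608) (nat_lit 783703566) (nat_lit 323) (nat_lit 5) (nat_lit 322) (nat_lit 5) (nat_lit 330) (nat_lit 5) (nat_lit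 353) (nat_lit 348) (nat_lit 319)) (XT.lf (nat_lit 76) (nat_lit 411899134) (nat_lit 0) (nat_lit 423573258) (nat_lit 684) (nat_lit 7037628456) (nat_lit 315) (nat_lit 5) (nat_lit 314) (nat_lit 5) (nat_lit 323) (nat_lit 5) (nat_lit 354) (nat_lit 348) (nat_lit 318))) (XT.nd (nat_lit 78) (nat_lit 0) (nat_lit 0) (XT.lf (nat_lit 0) (nat_lit 2524585273) (nat_lit 608) (nat_lit 3142046368) (nat_lit 684) (nat_lit 2348642948) (nat_lit 315) (nat_lit 5) (nat_lit 323) (nat_lit 5) (nat_lit 324) (nat_lit 5) (nat_lit 355) (nat_lit 348) (nat_lit 317)) (XT.lf (nat_lit 76) (nat_lit 1368339282) (nat_lit 0) (nat_lit 2875646465) (nat_lit 684) (nat_lit 3923279674) (nat_lit 316) (nat_lit 5) (nat_lit 315) (nat_lit 5) (nat_lit 324) (nat_lit 5) (nat_lit 356) (nat_lit 348) (nat_lit 316)))))) (XT.nd (nat_lit 624) (nat_lit 1748) (nat_lit 0) (XT.nd (nat_lit 312) (nat_lit 1292) (nat_lit 0) (XT.nd (nat_lit 156) (nat_lit 760) (nat_lit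 0) (XT.nd (nat_lit 78) (nat_lit 608) (nat_lit 0) (XT.lf (nat_lit 0) (nat_lit 6025098820) (nat_lit 608) (nat_lit 2177451243) (nat_lit 76) (nat_lit 125518603) (nat_lit 316) (nat_lit 5) (nat_lit 324) (nat_lit 5) (nat_lit 317) (nat_lit 5) (nat_lit 357) (nat_lit 348) (nat_lit 315)) (XT.lf (nat_lit 0) (nat_lit 2651038055) (nat_lit 608) (nat_lit 5257333953) (nat_lit 684) (nat_lit 587884842) (nat_lit 308) (nat_lit 5) (nat_lit 316) (nat_lit 5) (nat_lit 317) (nat_lit 5) (nat_lit 358) (nat_lit 348) (nat_lit 314))) (XT.nd (nat_lit 78) (nat_lit 684) (nat_lit 0) (XT.lf (nat_lit 0) (nat_lit 1137635385) (nat_lit 684) (nat_lit 957221927) (nat_lit 76) (nat_lit 6578875095) (nat_lit 307) (nat_lit 5) (nat_lit 316) (nat_lit 5) (nat_lit 308) (nat_lit 5) (nat_lit 359) (nat_lit 348) (nat_lit 313)) (XT.lf (nat_lit 0) (nat_lit 2945975733) (nat_lit 760) (nat_lit 4639281356) (nat_lit 76) (nat_lit 1273527737) (nat_lit 298)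 (nat_lit 5) (nat_lit 308) (nat_lit 5) (nat_lit 299) (nat_lit 5) (nat_lit 360) (nat_lit 348) (nat_lit 312)))) (XT.nd (nat_lit 156) (nat_lit 532) (nat_lit 0) (XT.nd (nat_lit 78) (nat_lit 0) (nat_lit 0) (XT.lf (nat_lit 0) (nat_lit 556446290) (nat_lit 760) (nat_lit 4279905681) (nat_lit 836) (nat_lit 4217156949) (nat_lit 288) (nat_lit 5) (nat_lit 298) (nat_lit 5) (nat_lit 299) (nat_lit 5) (nat_lit 361) (nat_lit 348) (nat_lit 311)) (XT.lf (nat_lit 0) (nat_lit 6111263984) (nat_lit 760) (nat_lit 722932473) (nat_lit 836) (nat_lit 2423125291) (nat_lit 288) (nat_lit 5) (nat_lit 298) (nat_lit 5) (nat_lit 299) (nat_lit 5) (nat_lit 362) (nat_lit 348) (nat_lit 310))) (XT.nd (nat_lit 78) (nat_lit 76) (nat_lit 0) (XT.lf (nat_lit 0) (nat_lit 2441617572) (nat_lit 456) (nat_lit 6513023154) (nat_lit 532) (nat_lit 515549114) (nat_lit 282) (nat_lit 5) (nat_lit 288) (nat_lit 5) (nat_lit 289) (nat_lit 5) (nat_lit 363)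 (nat_lit 348) (nat_lit 309)) (XT.lf (nat_lit 0) (nat_lit 1444397768) (nat_lit 532) (nat_lit 1372117090) (nat_lit 76) (nat_lit 6875795441) (nat_lit 281) (nat_lit 5) (nat_lit 288) (nat_lit 5) (nat_lit 282) (nat_lit 5) (nat_lit 364) (nat_lit 348) (nat_lit 308))))) (XT.nd (nat_lit 312) (nat_lit 684) (nat_lit 0) (XT.nd (nat_lit 156) (nat_lit 304) (nat_lit 0) (XT.nd (nat_lit 78) (nat_lit 380) (nat_lit 0) (XT.lf (nat_lit 0) (nat_lit 3517021645) (nat_lit 456) (nat_lit 5294914714) (nat_lit 76) (nat_lit 1111577566) (nat_lit 276) (nat_lit 5) (nat_lit 282) (nat_lit 5) (nat_lit 277) (nat_lit 5) (nat_lit 365) (nat_lit 348) (nat_lit 307)) (XT.lf (nat_lit 0) (nat_lit 726722521) (nat_lit 380) (nat_lit 4991033236) (nat_lit 456) (nat_lit 4447298024) (nat_lit 271) (nat_lit 5) (nat_lit 276) (nat_lit 5) (nat_lit 277) (nat_lit 5) (nat_lit 366) (nat_lit 348) (nat_lit 306))) (XT.nd (nat_lit 78) (nat_lit 304) (nat_lit 0)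 (XT.lf (nat_lit 0) (nat_lit 7172410684) (nat_lit 380) (nat_lit 890877741) (nat_lit 456) (nat_lit 2353644112) (nat_lit 271) (nat_lit 5) (nat_lit 276) (nat_lit 5) (nat_lit 277) (nat_lit 5) (nat_lit 367) (nat_lit 348) (nat_lit 305)) (XT.lf (nat_lit 0) (nat_lit 3249178753) (nat_lit 304) (nat_lit 7328570552) (nat_lit 380) (nat_lit 101073347) (nat_lit 267) (nat_lit 5) (nat_lit 271) (nat_lit 5) (nat_lit 272) (nat_lit 5) (nat_lit 368) (nat_lit 348) (nat_lit 304)))) (XT.nd (nat_lit 156) (nat_lit 304) (nat_lit 0) (XT.nd (nat_lit 78) (nat_lit 304) (nat_lit 0) (XT.lf (nat_lit 0) (nat_lit 2210461132) (nat_lit 380) (nat_lit 882926673) (nat_lit 76) (nat_lit 7857711933) (nat_lit 266) (nat_lit 5) (nat_lit 271) (nat_lit 5) (nat_lit 267) (nat_lit 5) (nat_lit 369) (nat_lit 348) (nat_lit 303)) (XT.lf (nat_lit 0) (nat_lit 4703233571) (nat_lit 380) (nat_lit 5129893337) (nat_lit 76) (nat_lit 1400328024) (nat_lit 262)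 (nat_lit 5) (nat_lit 267) (nat_lit 5) (nat_lit 263) (nat_lit 5) (nat_lit 370) (nat_lit 348) (nat_lit 302))) (XT.nd (nat_lit 78) (nat_lit 0) (nat_lit 0) (XT.lf (nat_lit 0) (nat_lit 1890808044) (nat_lit 304) (nat_lit 5477371359) (nat_lit 380) (nat_lit 4159371746) (nat_lit 258) (nat_lit 5) (nat_lit 262) (nat_lit 5) (nat_lit 263) (nat_lit 5) (nat_lit 371) (nat_lit 348) (nat_lit 301)) (XT.lf (nat_lit 0) (nat_lit 9382003636) (nat_lit 304) (nat_lit 824716085) (nat_lit 380) (nat_lit 1627615094) (nat_lit 258) (nat_lit 5) (nat_lit 262) (nat_lit 5) (nat_lit 263) (nat_lit 5) (nat_lit 372) (nat_lit 348) (nat_lit 300))))))))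
noncomputable def xc155 : XT := (XT.nd (nat_lit 2496) (nat_lit 2508) (nat_lit 0) (XT.nd (nat_lit 1248) (nat_lit 1672) (nat_lit 0) (XT.nd (nat_lit 624) (nat_lit 1292) (nat_lit 0) (XT.nd (nat_lit 312) (nat_lit 532) (nat_lit 0) (XT.nd (nat_lit 156) (nat_lit 304) (nat_lit 0) (XT.nd (nat_lit 78) (nat_lit 228) (nat_lit 0) (XT.lf (nat_lit 0) (nat_lit 1098427795) (nat_lit 380) (nat_lit 7034867723) (nat_lit 76) (nat_lit 4017323110) (nat_lit 253) (nat_lit 5) (nat_lit 258) (nat_lit 5) (nat_lit 254) (nat_lit 5) (nat_lit 373) (nat_lit 348) (nat_lit 299)) (XT.lf (nat_lit 0) (nat_lit 586213040) (nat_lit 228) (nat_lit 3340771892) (nat_lit 304) (nat_lit 8553352057) (nat_lit 250) (nat_lit 5) (nat_lit 253) (nat_lit 5) (nat_lit 254) (nat_lit 5) (nat_lit 374) (nat_lit 348) (nat_lit 298))) (XT.nd (nat_lit 78) (nat_lit 304) (nat_lit 0) (XT.lf (nat_lit 0) (nat_lit 7001462698) (nat_lit 304) (nat_lit 4075732504) (nat_lit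 76) (nat_lit 1744121426) (nat_lit 250) (nat_lit 5) (nat_lit 254) (nat_lit 5) (nat_lit 251) (nat_lit 5) (nat_lit 375) (nat_lit 348) (nat_lit 297)) (XT.lf (nat_lit 0) (nat_lit 4155262787) (nat_lit 304) (nat_lit 6153085174) (nat_lit 380) (nat_lit 2867063108) (nat_lit 246) (nat_lit 5) (nat_lit 250) (nat_lit 5) (nat_lit 251) (nat_lit 5) (nat_lit 376) (nat_lit 348) (nat_lit 296)))) (XT.nd (nat_lit 156) (nat_lit 228) (nat_lit 0) (XT.nd (nat_lit 78) (nat_lit 228) (nat_lit 0) (XT.lf (nat_lit 0) (nat_lit 255523781) (nat_lit 380) (nat_lit 666197460) (nat_lit 76) (nat_lit 12623825529) (nat_lit 245) (nat_lit 5) (nat_lit 250) (nat_lit 5) (nat_lit 246) (nat_lit 5) (nat_lit 377) (nat_lit 348) (nat_lit 295)) (XT.lf (nat_lit 0) (nat_lit 3602399300) (nat_lit 304) (nat_lit 5732480020) (nat_lit 76) (nat_lit 4588734313) (nat_lit 242) (nat_lit 5) (nat_lit 246) (nat_lit 5) (nat_lit 243) (nat_lit 5) (nat_lit 378) (nat_lit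 348) (nat_lit 294))) (XT.nd (nat_lit 78) (nat_lit 0) (nat_lit 0) (XT.lf (nat_lit 0) (nat_lit 3227426363) (nat_lit 228) (nat_lit 3928316774) (nat_lit 304) (nat_lit 7162884476) (nat_lit 239) (nat_lit 5) (nat_lit 242) (nat_lit 5) (nat_lit 243) (nat_lit 5) (nat_lit 379) (nat_lit 348) (nat_lit 293)) (XT.lf (nat_lit 0) (nat_lit 10975573665) (nat_lit 304) (nat_lit 1978787356) (nat_lit 76) (nat_lit 1774590296) (nat_lit 239) (nat_lit 5) (nat_lit 243) (nat_lit 5) (nat_lit 240) (nat_lit 5) (nat_lit 380) (nat_lit 348) (nat_lit 292))))) (XT.nd (nat_lit 312) (nat_lit 608) (nat_lit 0) (XT.nd (nat_lit 156) (nat_lit 152) (nat_lit 0) (XT.nd (nat_lit 78) (nat_lit 304) (nat_lit 0) (XT.lf (nat_lit 0) (nat_lit 7718848179) (nat_lit 228) (nat_lit 7417073812) (nat_lit 304) (nat_lit 16392902) (nat_lit 236) (nat_lit 5) (nat_lit 239) (nat_lit 5) (nat_lit 240) (nat_lit 5) (nat_lit 381) (nat_lit 348) (nat_lit 291)) (XT.lf (nat_lit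 0) (nat_lit 2334707161) (nat_lit 228) (nat_lit 1483102866) (nat_lit 304) (nat_lit 11774214741) (nat_lit 232) (nat_lit 5) (nat_lit 235) (nat_lit 5) (nat_lit 236) (nat_lit 5) (nat_lit 382) (nat_lit 348) (nat_lit 290))) (XT.nd (nat_lit 78) (nat_lit 152) (nat_lit 0) (XT.lf (nat_lit 0) (nat_lit 8010732924) (nat_lit 304) (nat_lit 3328439850) (nat_lit 76) (nat_lit 4706155892) (nat_lit 232) (nat_lit 5) (nat_lit 236) (nat_lit 5) (nat_lit 233) (nat_lit 5) (nat_lit 383) (nat_lit 348) (nat_lit 289)) (XT.lf (nat_lit 0) (nat_lit 7253367625) (nat_lit 152) (nat_lit 5264621269) (nat_lit 228) (nat_lit 3998074515) (nat_lit 230) (nat_lit 5) (nat_lit 232) (nat_lit 5) (nat_lit 233) (nat_lit 5) (nat_lit 384) (nat_lit 348) (nat_lit 288)))) (XT.nd (nat_lit 156) (nat_lit 304) (nat_lit 0) (XT.nd (nat_lit 78) (nat_lit 0) (nat_lit 0) (XT.lf (nat_lit 0) (nat_lit 298559239) (nat_lit 304) (nat_lit 15563392545) (nat_lit 76) (nat_lit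 1144896706) (nat_lit 226) (nat_lit 5) (nat_lit 230) (nat_lit 5) (nat_lit 227) (nat_lit 5) (nat_lit 385) (nat_lit 348) (nat_lit 287)) (XT.lf (nat_lit 0) (nat_lit 4889252405) (nat_lit 304) (nat_lit 4714323178) (nat_lit 76) (nat_lit 7904640670) (nat_lit 226) (nat_lit 5) (nat_lit 230) (nat_lit 5) (nat_lit 227) (nat_lit 5) (nat_lit 386) (nat_lit 348) (nat_lit 286))) (XT.nd (nat_lit 78) (nat_lit 152) (nat_lit 0) (XT.lf (nat_lit 0) (nat_lit 6846748041) (nat_lit 152) (nat_lit 2939004474) (nat_lit 228) (nat_lit 8245086274) (nat_lit 224) (nat_lit 5) (nat_lit 226) (nat_lit 5) (nat_lit 227) (nat_lit 5) (nat_lit 387) (nat_lit 348) (nat_lit 285)) (XT.lf (nat_lit 0) (nat_lit 474458231) (nat_lit 152) (nat_lit 14574321803) (nat_lit 228) (nat_lit 3524727297) (nat_lit 222) (nat_lit 5) (nat_lit 224) (nat_lit 5) (nat_lit 225) (nat_lit 5) (nat_lit 388) (nat_lit 348) (nat_lit 284)))))) (XT.nd (nat_lit 624) (nat_lit 760)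 (nat_lit 0) (XT.nd (nat_lit 312) (nat_lit 532) (nat_lit 0) (XT.nd (nat_lit 156) (nat_lit 152) (nat_lit 0) (XT.nd (nat_lit 78) (nat_lit 152) (nat_lit 0) (XT.lf (nat_lit 0) (nat_lit 1596485554) (nat_lit 228) (nat_lit 6153434546) (nat_lit 76) (nat_lit 11381738715) (nat_lit 221) (nat_lit 5) (nat_lit 224) (nat_lit 5) (nat_lit 222) (nat_lit 5) (nat_lit 389) (nat_lit 348) (nat_lit 283)) (XT.lf (nat_lit 0) (nat_lit 6491662375) (nat_lit 152) (nat_lit 436390259) (nat_lit 228) (nat_lit 12783138742) (nat_lit 219) (nat_lit 5) (nat_lit 221) (nat_lit 5) (nat_lit 222) (nat_lit 5) (nat_lit 390) (nat_lit 348) (nat_lit 282))) (XT.nd (nat_lit 78) (nat_lit 152) (nat_lit 0) (XT.lf (nat_lit 0) (nat_lit 12716923773) (nat_lit 228) (nat_lit 494752003) (nat_lit 76) (nat_lit 7098488502) (nat_lit 219) (nat_lit 5) (nat_lit 222) (nat_lit 5) (nat_lit 220) (nat_lit 5) (nat_lit 391) (nat_lit 348) (nat_lit 281)) (XT.lf (nat_lit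 0) (nat_lit 13236945825) (nat_lit 152) (nat_lit 5745184092) (nat_lit 228) (nat_lit 1947611338) (nat_lit 217) (nat_lit 5) (nat_lit 219) (nat_lit 5) (nat_lit 220) (nat_lit 5) (nat_lit 392) (nat_lit 348) (nat_lit 280)))) (XT.nd (nat_lit 156) (nat_lit 304) (nat_lit 0) (XT.nd (nat_lit 78) (nat_lit 0) (nat_lit 0) (XT.lf (nat_lit 0) (nat_lit 3966303691) (nat_lit 228) (nat_lit 15426283495) (nat_lit 76) (nat_lit 2178932771) (nat_lit 214) (nat_lit 5) (nat_lit 217) (nat_lit 5) (nat_lit 215) (nat_lit 5) (nat_lit 393) (nat_lit 348) (nat_lit 279)) (XT.lf (nat_lit 0) (nat_lit 10310552454) (nat_lit 228) (nat_lit 1471121754) (nat_lit 76) (nat_lit 10452112458) (nat_lit 214) (nat_lit 5) (nat_lit 217) (nat_lit 5) (nat_lit 215) (nat_lit 5) (nat_lit 394) (nat_lit 348) (nat_lit 278))) (XT.nd (nat_lit 78) (nat_lit 152) (nat_lit 0) (XT.lf (nat_lit 0) (nat_lit 13572146273) (nat_lit 152) (nat_lit 3586519170) (nat_lit 228)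 (nat_lit 5761168678) (nat_lit 212) (nat_lit 5) (nat_lit 214) (nat_lit 5) (nat_lit 215) (nat_lit 5) (nat_lit 395) (nat_lit 348) (nat_lit 277)) (XT.lf (nat_lit 0) (nat_lit 858990989) (nat_lit 152) (nat_lit 17801835017) (nat_lit 76) (nat_lit 4970170306) (nat_lit 210) (nat_lit 5) (nat_lit 212) (nat_lit 5) (nat_lit 211) (nat_lit 5) (nat_lit 396) (nat_lit 348) (nat_lit 276))))) (XT.nd (nat_lit 312) (nat_lit 456) (nat_lit 0) (XT.nd (nat_lit 156) (nat_lit 152) (nat_lit 0) (XT.nd (nat_lit 78) (nat_lit 152) (nat_lit 0) (XT.lf (nat_lit 0) (nat_lit 7811340656) (nat_lit 152) (nat_lit 2480643240) (nat_lit 76) (nat_lit 14071270692) (nat_lit 210) (nat_lit 5) (nat_lit 212) (nat_lit 5) (nat_lit 211) (nat_lit 5) (nat_lit 397) (nat_lit 348) (nat_lit 275)) (XT.lf (nat_lit 0) (nat_lit 14012830467) (nat_lit 152) (nat_lit 1293539598) (nat_lit 228) (nat_lit 9816002600) (nat_lit 208) (nat_lit 5) (nat_lit 210) (nat_lit 5)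 (nat_lit 211) (nat_lit 5) (nat_lit 398) (nat_lit 348) (nat_lit 274))) (XT.nd (nat_lit 78) (nat_lit 76) (nat_lit 0) (XT.lf (nat_lit 0) (nat_lit 5505486491) (nat_lit 76) (nat_lit 17903115934) (nat_lit 152) (nat_lit 2499221648) (nat_lit 207) (nat_lit 5) (nat_lit 208) (nat_lit 5) (nat_lit 209) (nat_lit 4) (nat_lit 399) (nat_lit 348) (nat_lit 273)) (XT.lf (nat_lit 0) (nat_lit 5206498578) (nat_lit 152) (nat_lit 3533952230) (nat_lit 76) (nat_lit 17978600806) (nat_lit 206) (nat_lit 5) (nat_lit 208) (nat_lit 5) (nat_lit 207) (nat_lit 5) (nat_lit 400) (nat_lit 348) (nat_lit 272)))) (XT.nd (nat_lit 156) (nat_lit 228) (nat_lit 0) (XT.nd (nat_lit 78) (nat_lit 76) (nat_lit 0) (XT.lf (nat_lit 0) (nat_lit 13436416106) (nat_lit 228) (nat_lit 13013960935) (nat_lit 76) (nat_lit 1107269875) (nat_lit 204) (nat_lit 5) (nat_lit 207) (nat_lit 5) (nat_lit 205) (nat_lit 4) (nat_lit 401) (nat_lit 348) (nat_lit 271)) (XT.lf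 (nat_lit 0) (nat_lit 5193999134) (nat_lit 76) (nat_lit 17146880635) (nat_lit 152) (nat_lit 6084139699) (nat_lit 203) (nat_lit 5) (nat_lit 204) (nat_lit 5) (nat_lit 205) (nat_lit 4) (nat_lit 402) (nat_lit 348) (nat_lit 270))) (XT.nd (nat_lit 78) (nat_lit 152) (nat_lit 0) (XT.lf (nat_lit 0) (nat_lit 2481363165) (nat_lit 152) (nat_lit 4641711819) (nat_lit 76) (nat_lit 22200751122) (nat_lit 202) (nat_lit 5) (nat_lit 204) (nat_lit 5) (nat_lit 203) (nat_lit 5) (nat_lit 403) (nat_lit 348) (nat_lit 269)) (XT.lf (nat_lit 0) (nat_lit 11545726306) (nat_lit 228) (nat_lit 15084300482) (nat_lit 76) (nat_lit 3618806684) (nat_lit 200) (nat_lit 5) (nat_lit 203) (nat_lit 5) (nat_lit 201) (nat_lit 4) (nat_lit 404) (nat_lit 348) (nat_lit 268))))))) (XT.nd (nat_lit 1248) (nat_lit 1140) (nat_lit 0) (XT.nd (nat_lit 624) (nat_lit 684) (nat_lit 0) (XT.nd (nat_lit 312) (nat_lit 304) (nat_lit 0) (XT.nd (nat_lit 156) (nat_lit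 304) (nat_lit 0) (XT.nd (nat_lit 78) (nat_lit 0) (nat_lit 0) (XT.lf (nat_lit 0) (nat_lit 4906089059) (nat_lit 76) (nat_lit 16409583847) (nat_lit 152) (nat_lit 9891800034) (nat_lit 199) (nat_lit 5) (nat_lit 200) (nat_lit 5) (nat_lit 201) (nat_lit 4) (nat_lit 405) (nat_lit 348) (nat_lit 267)) (XT.lf (nat_lit 0) (nat_lit 26381364143) (nat_lit 76) (nat_lit 5427707058) (nat_lit 152) (nat_lit 393225464) (nat_lit 199) (nat_lit 5) (nat_lit 200) (nat_lit 5) (nat_lit 201) (nat_lit 4) (nat_lit 406) (nat_lit 348) (nat_lit 266))) (XT.nd (nat_lit 78) (nat_lit 76) (nat_lit 0) (XT.lf (nat_lit 0) (nat_lit 9605316753) (nat_lit 228) (nat_lit 17320243357) (nat_lit 76) (nat_lit 6297239333) (nat_lit 196) (nat_lit 5) (nat_lit 199) (nat_lit 5) (nat_lit 197) (nat_lit 4) (nat_lit 407) (nat_lit 348) (nat_lit 265)) (XT.lf (nat_lit 0) (nat_lit 4639083151) (nat_lit 76) (nat_lit 15693350683) (nat_lit 152) (nat_lit 13949478075)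 (nat_lit 195) (nat_lit 5) (nat_lit 196) (nat_lit 5) (nat_lit 197) (nat_lit 4) (nat_lit 408) (nat_lit 348) (nat_lit 264)))) (XT.nd (nat_lit 156) (nat_lit 76) (nat_lit 0) (XT.nd (nat_lit 78) (nat_lit 228) (nat_lit 0) (XT.lf (nat_lit 0) (nat_lit 28261031083) (nat_lit 76) (nat_lit 3608828459) (nat_lit 152) (nat_lit 3510422818) (nat_lit 195) (nat_lit 5) (nat_lit 196) (nat_lit 5) (nat_lit 197) (nat_lit 4) (nat_lit 409) (nat_lit 348) (nat_lit 263)) (XT.lf (nat_lit 0) (nat_lit 7605276321) (nat_lit 228) (nat_lit 19743029163) (nat_lit 76) (nat_lit 9159791805) (nat_lit 192) (nat_lit 5) (nat_lit 195) (nat_lit 5) (nat_lit 193) (nat_lit 4) (nat_lit 410) (nat_lit 348) (nat_lit 262))) (XT.nd (nat_lit 78) (nat_lit 0) (nat_lit 0) (XT.lf (nat_lit 0) (nat_lit 4390710466) (nat_lit 76) (nat_lit 14999668389) (nat_lit 152) (nat_lit 18287467131) (nat_lit 191) (nat_lit 5) (nat_lit 192) (nat_lit 5) (nat_lit 193) (nat_lit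 4) (nat_lit 411) (nat_lit 348) (nat_lit 261)) (XT.lf (nat_lit 0) (nat_lit 30381517712) (nat_lit 76) (nat_lit 1699252862) (nat_lit 152) (nat_lit 6809509840) (nat_lit 191) (nat_lit 5) (nat_lit 192) (nat_lit 5) (nat_lit 193) (nat_lit 4) (nat_lit 412) (nat_lit 348) (nat_lit 260))))) (XT.nd (nat_lit 312) (nat_lit 304) (nat_lit 0) (XT.nd (nat_lit 156) (nat_lit 152) (nat_lit 0) (XT.nd (nat_lit 78) (nat_lit 76) (nat_lit 0) (XT.lf (nat_lit 0) (nat_lit 5534544538) (nat_lit 152) (nat_lit 22375508722) (nat_lit 76) (nat_lit 12226191568) (nat_lit 189) (nat_lit 5) (nat_lit 191) (nat_lit 5) (nat_lit 190) (nat_lit 4) (nat_lit 413) (nat_lit 348) (nat_lit 259)) (XT.lf (nat_lit 0) (nat_lit 4159034344) (nat_lit 76) (nat_lit 14329511871) (nat_lit 152) (nat_lit 22939300244) (nat_lit 188) (nat_lit 5) (nat_lit 189) (nat_lit 5) (nat_lit 190) (nat_lit 4) (nat_lit 414) (nat_lit 348) (nat_lit 258))) (XT.nd (nat_lit 78) (nat_lit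 152) (nat_lit 0) (XT.lf (nat_lit 0) (nat_lit 32456709947) (nat_lit 152) (nat_lit 10007178641) (nat_lit 0) (nat_lit 301816485) (nat_lit 188) (nat_lit 5) (nat_lit 190) (nat_lit 4) (nat_lit 188) (nat_lit 4) (nat_lit 415) (nat_lit 348) (nat_lit 257)) (XT.lf (nat_lit 0) (nat_lit 3380864442) (nat_lit 152) (nat_lit 25242400481) (nat_lit 76) (nat_lit 15518759200) (nat_lit 186) (nat_lit 5) (nat_lit 188) (nat_lit 5) (nat_lit 187) (nat_lit 4) (nat_lit 416) (nat_lit 348) (nat_lit 256)))) (XT.nd (nat_lit 156) (nat_lit 228) (nat_lit 0) (XT.nd (nat_lit 78) (nat_lit 0) (nat_lit 0) (XT.lf (nat_lit 0) (nat_lit 3942396398) (nat_lit 76) (nat_lit 13683446371) (nat_lit 152) (nat_lit 27942012578) (nat_lit 185) (nat_lit 5) (nat_lit 186) (nat_lit 5) (nat_lit 187) (nat_lit 4) (nat_lit 417) (nat_lit 348) (nat_lit 255)) (XT.lf (nat_lit 0) (nat_lit 33032171899) (nat_lit 152) (nat_lit 11651665893) (nat_lit 0) (nat_lit 2358685246)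 (nat_lit 185) (nat_lit 5) (nat_lit 187) (nat_lit 4) (nat_lit 185) (nat_lit 4) (nat_lit 418) (nat_lit 348) (nat_lit 254))) (XT.nd (nat_lit 78) (nat_lit 76) (nat_lit 0) (XT.lf (nat_lit 0) (nat_lit 1130715846) (nat_lit 152) (nat_lit 28370557449) (nat_lit 76) (nat_lit 19062538521) (nat_lit 183) (nat_lit 5) (nat_lit 185) (nat_lit 5) (nat_lit 184) (nat_lit 4) (nat_lit 419) (nat_lit 348) (nat_lit 253)) (XT.lf (nat_lit 0) (nat_lit 3739370273) (nat_lit 76) (nat_lit 13061711375) (nat_lit 152) (nat_lit 33336445232) (nat_lit 182) (nat_lit 5) (nat_lit 183) (nat_lit 5) (nat_lit 184) (nat_lit 4) (nat_lit 420) (nat_lit 348) (nat_lit 252)))))) (XT.nd (nat_lit 624) (nat_lit 608) (nat_lit 0) (XT.nd (nat_lit 312) (nat_lit 304) (nat_lit 0) (XT.nd (nat_lit 156) (nat_lit 152) (nat_lit 0) (XT.nd (nat_lit 78) (nat_lit 76) (nat_lit 0) (XT.lf (nat_lit 0) (nat_lit 33793068873) (nat_lit 152) (nat_lit 13430682200) (nat_lit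 0) (nat_lit 4539271470) (nat_lit 182) (nat_lit 5) (nat_lit 184) (nat_lit 4) (nat_lit 182) (nat_lit 4) (nat_lit 421) (nat_lit 348) (nat_lit 251)) (XT.lf (nat_lit 0) (nat_lit 21633851785) (nat_lit 76) (nat_lit 30537634547) (nat_lit 76) (nat_lit 1271465112) (nat_lit 181) (nat_lit 4) (nat_lit 182) (nat_lit 5) (nat_lit 182) (nat_lit 4) (nat_lit 422) (nat_lit 348) (nat_lit 250))) (XT.nd (nat_lit 78) (nat_lit 0) (nat_lit 0) (XT.lf (nat_lit 0) (nat_lit 3548723464) (nat_lit 76) (nat_lit 12464289114) (nat_lit 152) (nat_lit 39167592054) (nat_lit 179) (nat_lit 5) (nat_lit 180) (nat_lit 5) (nat_lit 181) (nat_lit 4) (nat_lit 423) (nat_lit 348) (nat_lit 249)) (XT.lf (nat_lit 0) (nat_lit 34753196157) (nat_lit 152) (nat_lit 15360446945) (nat_lit 0) (nat_lit 6858744614) (nat_lit 179) (nat_lit 5) (nat_lit 181) (nat_lit 4) (nat_lit 179) (nat_lit 4) (nat_lit 424) (nat_lit 348) (nat_lit 248)))) (XT.nd (nat_lit 156)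 (nat_lit 76) (nat_lit 0) (XT.nd (nat_lit 78) (nat_lit 152) (nat_lit 0) (XT.lf (nat_lit 0) (nat_lit 23235662496) (nat_lit 76) (nat_lit 31747543328) (nat_lit 76) (nat_lit 3842913284) (nat_lit 178) (nat_lit 4) (nat_lit 179) (nat_lit 5) (nat_lit 179) (nat_lit 4) (nat_lit 425) (nat_lit 348) (nat_lit 247)) (XT.lf (nat_lit 0) (nat_lit 3369385753) (nat_lit 76) (nat_lit 11890960396) (nat_lit 152) (nat_lit 45484991657) (nat_lit 176) (nat_lit 5) (nat_lit 177) (nat_lit 5) (nat_lit 178) (nat_lit 4) (nat_lit 426) (nat_lit 348) (nat_lit 246))) (XT.nd (nat_lit 78) (nat_lit 76) (nat_lit 0) (XT.lf (nat_lit 0) (nat_lit 35927867691) (nat_lit 152) (nat_lit 17458582727) (nat_lit 0) (nat_lit 9334004781) (nat_lit 176) (nat_lit 5) (nat_lit 178) (nat_lit 4) (nat_lit 176) (nat_lit 4) (nat_lit 427) (nat_lit 348) (nat_lit 245)) (XT.lf (nat_lit 0) (nat_lit 25034016863) (nat_lit 76) (nat_lit 33166968687) (nat_lit 76) (nat_lit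 6564731899) (nat_lit 175) (nat_lit 4) (nat_lit 176) (nat_lit 5) (nat_lit 176) (nat_lit 4) (nat_lit 428) (nat_lit 348) (nat_lit 244))))) (XT.nd (nat_lit 312) (nat_lit 228) (nat_lit 0) (XT.nd (nat_lit 156) (nat_lit 228) (nat_lit 0) (XT.nd (nat_lit 78) (nat_lit 0) (nat_lit 0) (XT.lf (nat_lit 0) (nat_lit 3200423119) (nat_lit 76) (nat_lit 11341350065) (nat_lit 152) (nat_lit 52343167468) (nat_lit 173) (nat_lit 5) (nat_lit 174) (nat_lit 5) (nat_lit 175) (nat_lit 4) (nat_lit 429) (nat_lit 348) (nat_lit 243)) (XT.lf (nat_lit 0) (nat_lit 37334092196) (nat_lit 152) (nat_lit 19744296993) (nat_lit 0) (nat_lit 11983799563) (nat_lit 173) (nat_lit 5) (nat_lit 175) (nat_lit 4) (nat_lit 173) (nat_lit 4) (nat_lit 430) (nat_lit 348) (nat_lit 242))) (XT.nd (nat_lit 78) (nat_lit 152) (nat_lit 0) (XT.lf (nat_lit 0) (nat_lit 27046980596) (nat_lit 76) (nat_lit 34814367236) (nat_lit 76) (nat_lit 9457185392) (nat_lit 172)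 (nat_lit 4) (nat_lit 173) (nat_lit 5) (nat_lit 173) (nat_lit 4) (nat_lit 431) (nat_lit 348) (nat_lit 241)) (XT.lf (nat_lit 0) (nat_lit 3041016136) (nat_lit 76) (nat_lit 10814963928) (nat_lit 152) (nat_lit 59802119249) (nat_lit 170) (nat_lit 5) (nat_lit 171) (nat_lit 5) (nat_lit 172) (nat_lit 4) (nat_lit 432) (nat_lit 348) (nat_lit 240)))) (XT.nd (nat_lit 156) (nat_lit 152) (nat_lit 0) (XT.nd (nat_lit 78) (nat_lit 76) (nat_lit 0) (XT.lf (nat_lit 0) (nat_lit 38990761872) (nat_lit 152) (nat_lit 22238575964) (nat_lit 0) (nat_lit 14828865002) (nat_lit 170) (nat_lit 5) (nat_lit 172) (nat_lit 4) (nat_lit 170) (nat_lit 4) (nat_lit 433) (nat_lit 348) (nat_lit 239)) (XT.lf (nat_lit 0) (nat_lit 29294665780) (nat_lit 76) (nat_lit 36710044511) (nat_lit 76) (nat_lit 12542479872) (nat_lit 169) (nat_lit 4) (nat_lit 170) (nat_lit 5) (nat_lit 170) (nat_lit 4) (nat_lit 434) (nat_lit 348) (nat_lit 238))) (XT.nd (nat_lit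 78) (nat_lit 0) (nat_lit 0) (XT.lf (nat_lit 0) (nat_lit 2890442087) (nat_lit 76) (nat_lit 10311218695) (nat_lit 152) (nat_lit 67927870143) (nat_lit 167) (nat_lit 5) (nat_lit 168) (nat_lit 5) (nat_lit 169) (nat_lit 4) (nat_lit 435) (nat_lit 348) (nat_lit 237)) (XT.lf (nat_lit 0) (nat_lit 40918856004) (nat_lit 152) (nat_lit 24964393235) (nat_lit 0) (nat_lit 17892090908) (nat_lit 167) (nat_lit 5) (nat_lit 169) (nat_lit 4) (nat_lit 167) (nat_lit 4) (nat_lit 436) (nat_lit 348) (nat_lit 236))))))))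
noncomputable def xc156 : XT := (XT.nd (nat_lit 2496) (nat_lit 1824) (nat_lit 0) (XT.nd (nat_lit 1248) (nat_lit 1292) (nat_lit 0) (XT.nd (nat_lit 624) (nat_lit 532) (nat_lit 0) (XT.nd (nat_lit 312) (nat_lit 380) (nat_lit 0) (XT.nd (nat_lit 156) (nat_lit 76) (nat_lit 0) (XT.nd (nat_lit 78) (nat_lit 152) (nat_lit 0) (XT.lf (nat_lit 0) (nat_lit 31799414411) (nat_lit 76) (nat_lit 38876379626) (nat_lit 76) (nat_lit 15844951641) (nat_lit 166) (nat_lit 4) (nat_lit 167) (nat_lit 5) (nat_lit 167) (nat_lit 4) (nat_lit 437) (nat_lit 348) (nat_lit 235)) (XT.lf (nat_lit 0) (nat_lit 2748060130) (nat_lit 76) (nat_lit 9829466192) (nat_lit 152) (nat_lit 76793073967) (nat_lit 164) (nat_lit 5) (nat_lit 165) (nat_lit 5) (nat_lit 166) (nat_lit 4) (nat_lit 438) (nat_lit 348) (nat_lit 234))) (XT.nd (nat_lit 78) (nat_lit 76) (nat_lit 0) (XT.lf (nat_lit 0) (nat_lit 43141661896) (nat_lit 152) (nat_lit 27946935448) (nat_lit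 0) (nat_lit 21198711221) (nat_lit 164) (nat_lit 5) (nat_lit 166) (nat_lit 4) (nat_lit 164) (nat_lit 4) (nat_lit 439) (nat_lit 348) (nat_lit 233)) (XT.lf (nat_lit 0) (nat_lit 34586004999) (nat_lit 76) (nat_lit 41338065397) (nat_lit 76) (nat_lit 19391278551) (nat_lit 163) (nat_lit 4) (nat_lit 164) (nat_lit 5) (nat_lit 164) (nat_lit 4) (nat_lit 440) (nat_lit 348) (nat_lit 232)))) (XT.nd (nat_lit 156) (nat_lit 228) (nat_lit 0) (XT.nd (nat_lit 78) (nat_lit 0) (nat_lit 0) (XT.lf (nat_lit 0) (nat_lit 2613298986) (nat_lit 76) (nat_lit 9369012880) (nat_lit 152) (nat_lit 86477688078) (nat_lit 161) (nat_lit 5) (nat_lit 162) (nat_lit 5) (nat_lit 163) (nat_lit 4) (nat_lit 441) (nat_lit 348) (nat_lit 231)) (XT.lf (nat_lit 0) (nat_lit 45685015585) (nat_lit 152) (nat_lit 31213847540) (nat_lit 0) (nat_lit 24776520481) (nat_lit 161) (nat_lit 5) (nat_lit 163) (nat_lit 4) (nat_lit 161) (nat_lit 4) (nat_lit 442) (nat_lit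 348) (nat_lit 230))) (XT.nd (nat_lit 78) (nat_lit 152) (nat_lit 0) (XT.lf (nat_lit 0) (nat_lit 37681883865) (nat_lit 76) (nat_lit 44122366951) (nat_lit 76) (nat_lit 23210715819) (nat_lit 160) (nat_lit 4) (nat_lit 161) (nat_lit 5) (nat_lit 161) (nat_lit 4) (nat_lit 443) (nat_lit 348) (nat_lit 229)) (XT.lf (nat_lit 0) (nat_lit 2485646702) (nat_lit 76) (nat_lit 8929135528) (nat_lit 152) (nat_lit 97069717902) (nat_lit 158) (nat_lit 5) (nat_lit 159) (nat_lit 5) (nat_lit 160) (nat_lit 4) (nat_lit 444) (nat_lit 348) (nat_lit 228))))) (XT.nd (nat_lit 312) (nat_lit 304) (nat_lit 0) (XT.nd (nat_lit 156) (nat_lit 152) (nat_lit 0) (XT.nd (nat_lit 78) (nat_lit 76) (nat_lit 0) (XT.lf (nat_lit 0) (nat_lit 48577564984) (nat_lit 152) (nat_lit 34795500179) (nat_lit 0) (nat_lit 28656117860) (nat_lit 158) (nat_lit 5) (nat_lit 160) (nat_lit 4) (nat_lit 158) (nat_lit 4) (nat_lit 445) (nat_lit 348) (nat_lit 227)) (XT.lf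 (nat_lit 0) (nat_lit 41117423058) (nat_lit 76) (nat_lit 47259401848) (nat_lit 76) (nat_lit 27335358253) (nat_lit 157) (nat_lit 4) (nat_lit 158) (nat_lit 5) (nat_lit 158) (nat_lit 4) (nat_lit 446) (nat_lit 348) (nat_lit 226))) (XT.nd (nat_lit 78) (nat_lit 0) (nat_lit 0) (XT.lf (nat_lit 0) (nat_lit 2364642130) (nat_lit 76) (nat_lit 8509093749) (nat_lit 152) (nat_lit 108666039890) (nat_lit 155) (nat_lit 5) (nat_lit 156) (nat_lit 5) (nat_lit 157) (nat_lit 4) (nat_lit 447) (nat_lit 348) (nat_lit 225)) (XT.lf (nat_lit 0) (nat_lit 51851058188) (nat_lit 152) (nat_lit 38725282184) (nat_lit 0) (nat_lit 32871180570) (nat_lit 155) (nat_lit 5) (nat_lit 157) (nat_lit 4) (nat_lit 155) (nat_lit 4) (nat_lit 448) (nat_lit 348) (nat_lit 224)))) (XT.nd (nat_lit 156) (nat_lit 76) (nat_lit 0) (XT.nd (nat_lit 78) (nat_lit 152) (nat_lit 0) (XT.lf (nat_lit 0) (nat_lit 44926207124) (nat_lit 76) (nat_lit 50782444861) (nat_lit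 76) (nat_lit 31800431119) (nat_lit 154) (nat_lit 4) (nat_lit 155) (nat_lit 5) (nat_lit 155) (nat_lit 4) (nat_lit 449) (nat_lit 348) (nat_lit 223)) (XT.lf (nat_lit 0) (nat_lit 2249867824) (nat_lit 76) (nat_lit 8108139965) (nat_lit 152) (nat_lit 121373310534) (nat_lit 152) (nat_lit 5) (nat_lit 153) (nat_lit 5) (nat_lit 154) (nat_lit 4) (nat_lit 450) (nat_lit 348) (nat_lit 222))) (XT.nd (nat_lit 78) (nat_lit 76) (nat_lit 0) (XT.lf (nat_lit 0) (nat_lit 55540659943) (nat_lit 152) (nat_lit 43039920890) (nat_lit 0) (nat_lit 37458768827) (nat_lit 152) (nat_lit 5) (nat_lit 154) (nat_lit 4) (nat_lit 152) (nat_lit 4) (nat_lit 451) (nat_lit 348) (nat_lit 221)) (XT.lf (nat_lit 0) (nat_lit 49145351265) (nat_lit 76) (nat_lit 54728260722) (nat_lit 76) (nat_lit 36644612213) (nat_lit 151) (nat_lit 4) (nat_lit 152) (nat_lit 5) (nat_lit 152) (nat_lit 4) (nat_lit 452) (nat_lit 348) (nat_lit 220)))))) (XT.nd (nat_lit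 624) (nat_lit 684) (nat_lit 0) (XT.nd (nat_lit 312) (nat_lit 228) (nat_lit 0) (XT.nd (nat_lit 156) (nat_lit 228) (nat_lit 0) (XT.nd (nat_lit 78) (nat_lit 0) (nat_lit 0) (XT.lf (nat_lit 0) (nat_lit 2140944105) (nat_lit 76) (nat_lit 7725527271) (nat_lit 152) (nat_lit 135308969862) (nat_lit 149) (nat_lit 5) (nat_lit 150) (nat_lit 5) (nat_lit 151) (nat_lit 4) (nat_lit 453) (nat_lit 348) (nat_lit 219)) (XT.lf (nat_lit 0) (nat_lit 59685299450) (nat_lit 152) (nat_lit 47779833686) (nat_lit 0) (nat_lit 42459664949) (nat_lit 149) (nat_lit 5) (nat_lit 151) (nat_lit 4) (nat_lit 149) (nat_lit 4) (nat_lit 454) (nat_lit 348) (nat_lit 218))) (XT.nd (nat_lit 78) (nat_lit 152) (nat_lit 0) (XT.lf (nat_lit 0) (nat_lit 53815853776) (nat_lit 76) (nat_lit 59137468325) (nat_lit 76) (nat_lit 41910388012) (nat_lit 148) (nat_lit 4) (nat_lit 149) (nat_lit 5) (nat_lit 149) (nat_lit 4) (nat_lit 455) (nat_lit 348) (nat_lit 217))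 (XT.lf (nat_lit 0) (nat_lit 2037524088) (nat_lit 76) (nat_lit 7360515601) (nat_lit 152) (nat_lit 150602348838) (nat_lit 146) (nat_lit 5) (nat_lit 147) (nat_lit 5) (nat_lit 148) (nat_lit 4) (nat_lit 456) (nat_lit 348) (nat_lit 216)))) (XT.nd (nat_lit 156) (nat_lit 152) (nat_lit 0) (XT.nd (nat_lit 78) (nat_lit 76) (nat_lit 0) (XT.lf (nat_lit 0) (nat_lit 64328053000) (nat_lit 152) (nat_lit 52989514177) (nat_lit 0) (nat_lit 47918749504) (nat_lit 146) (nat_lit 5) (nat_lit 148) (nat_lit 4) (nat_lit 146) (nat_lit 4) (nat_lit 457) (nat_lit 348) (nat_lit 215)) (XT.lf (nat_lit 0) (nat_lit 58982985987) (nat_lit 76) (nat_lit 64054940134) (nat_lit 76) (nat_lit 47644447165) (nat_lit 145) (nat_lit 4) (nat_lit 146) (nat_lit 5) (nat_lit 146) (nat_lit 4) (nat_lit 458) (nat_lit 348) (nat_lit 214))) (XT.nd (nat_lit 78) (nat_lit 0) (nat_lit 0) (XT.lf (nat_lit 0) (nat_lit 1939289514) (nat_lit 76) (nat_lit 7012376492)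 (nat_lit 152) (nat_lit 167395891041) (nat_lit 143) (nat_lit 5) (nat_lit 144) (nat_lit 5) (nat_lit 145) (nat_lit 4) (nat_lit 459) (nat_lit 348) (nat_lit 213)) (XT.lf (nat_lit 0) (nat_lit 69516565196) (nat_lit 152) (nat_lit 58717956793) (nat_lit 0) (nat_lit 53885417874) (nat_lit 143) (nat_lit 5) (nat_lit 145) (nat_lit 4) (nat_lit 143) (nat_lit 4) (nat_lit 460) (nat_lit 348) (nat_lit 212))))) (XT.nd (nat_lit 312) (nat_lit 380) (nat_lit 0) (XT.nd (nat_lit 156) (nat_lit 76) (nat_lit 0) (XT.nd (nat_lit 78) (nat_lit 152) (nat_lit 0) (XT.lf (nat_lit 0) (nat_lit 64696723326) (nat_lit 76) (nat_lit 69530240828) (nat_lit 76) (nat_lit 53898114923) (nat_lit 142) (nat_lit 4) (nat_lit 143) (nat_lit 5) (nat_lit 143) (nat_lit 4) (nat_lit 461) (nat_lit 348) (nat_lit 211)) (XT.lf (nat_lit 0) (nat_lit 1845947239) (nat_lit 76) (nat_lit 6680396725) (nat_lit 152) (nat_lit 185846500176) (nat_lit 140) (nat_lit 5) (nat_lit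 141) (nat_lit 5) (nat_lit 142) (nat_lit 4) (nat_lit 462) (nat_lit 348) (nat_lit 210))) (XT.nd (nat_lit 78) (nat_lit 76) (nat_lit 0) (XT.lf (nat_lit 0) (nat_lit 75303512888) (nat_lit 152) (nat_lit 65019123934) (nat_lit 0) (nat_lit 60414040992) (nat_lit 140) (nat_lit 5) (nat_lit 142) (nat_lit 4) (nat_lit 140) (nat_lit 4) (nat_lit 463) (nat_lit 348) (nat_lit 209)) (XT.lf (nat_lit 0) (nat_lit 71012221521) (nat_lit 76) (nat_lit 75618109545) (nat_lit 76) (nat_lit 60727832566) (nat_lit 139) (nat_lit 4) (nat_lit 140) (nat_lit 5) (nat_lit 140) (nat_lit 4) (nat_lit 464) (nat_lit 348) (nat_lit 208)))) (XT.nd (nat_lit 156) (nat_lit 228) (nat_lit 0) (XT.nd (nat_lit 78) (nat_lit 0) (nat_lit 0) (XT.lf (nat_lit 0) (nat_lit 1757226273) (nat_lit 76) (nat_lit 6363881042) (nat_lit 152) (nat_lit 206127026126) (nat_lit 137) (nat_lit 5) (nat_lit 138) (nat_lit 5) (nat_lit 139) (nat_lit 4) (nat_lit 465) (nat_lit 348) (nat_lit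 207)) (XT.lf (nat_lit 0) (nat_lit 81747116354) (nat_lit 152) (nat_lit 71952460207) (nat_lit 0) (nat_lit 67564474490) (nat_lit 137) (nat_lit 5) (nat_lit 139) (nat_lit 4) (nat_lit 137) (nat_lit 4) (nat_lit 466) (nat_lit 348) (nat_lit 206))) (XT.nd (nat_lit 78) (nat_lit 152) (nat_lit 0) (XT.lf (nat_lit 0) (nat_lit 77990342426) (nat_lit 76) (nat_lit 82378990486) (nat_lit 76) (nat_lit 68195686278) (nat_lit 136) (nat_lit 4) (nat_lit 137) (nat_lit 5) (nat_lit 137) (nat_lit 4) (nat_lit 467) (nat_lit 348) (nat_lit 205)) (XT.lf (nat_lit 0) (nat_lit 1672875271) (nat_lit 76) (nat_lit 6062154134) (nat_lit 152) (nat_lit 228427903648) (nat_lit 134) (nat_lit 5) (nat_lit 135) (nat_lit 5) (nat_lit 136) (nat_lit 4) (nat_lit 468) (nat_lit 348) (nat_lit 204))))))) (XT.nd (nat_lit 1248) (nat_lit 684) (nat_lit 0) (XT.nd (nat_lit 624) (nat_lit 608) (nat_lit 0) (XT.nd (nat_lit 312) (nat_lit 304) (nat_lit 0) (XT.nd (nat_lit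 156) (nat_lit 152) (nat_lit 0) (XT.nd (nat_lit 78) (nat_lit 76) (nat_lit 0) (XT.lf (nat_lit 0) (nat_lit 88911702649) (nat_lit 152) (nat_lit 79583458699) (nat_lit 0) (nat_lit 75402620958) (nat_lit 134) (nat_lit 5) (nat_lit 136) (nat_lit 4) (nat_lit 134) (nat_lit 4) (nat_lit 469) (nat_lit 348) (nat_lit 203)) (XT.lf (nat_lit 0) (nat_lit 85698234407) (nat_lit 76) (nat_lit 89879617059) (nat_lit 76) (nat_lit 76369990457) (nat_lit 133) (nat_lit 4) (nat_lit 134) (nat_lit 5) (nat_lit 134) (nat_lit 4) (nat_lit 470) (nat_lit 348) (nat_lit 202))) (XT.nd (nat_lit 78) (nat_lit 0) (nat_lit 0) (XT.lf (nat_lit 0) (nat_lit 1592660404) (nat_lit 76) (nat_lit 5774562019) (nat_lit 152) (nat_lit 252958959227) (nat_lit 131) (nat_lit 5) (nat_lit 132) (nat_lit 5) (nat_lit 133) (nat_lit 4) (nat_lit 471) (nat_lit 348) (nat_lit 201)) (XT.lf (nat_lit 0) (nat_lit 96868326576) (nat_lit 152) (nat_lit 87984284719) (nat_lit 0) (nat_lit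 84001050561) (nat_lit 131) (nat_lit 5) (nat_lit 133) (nat_lit 4) (nat_lit 131) (nat_lit 4) (nat_lit 472) (nat_lit 348) (nat_lit 200)))) (XT.nd (nat_lit 156) (nat_lit 76) (nat_lit 0) (XT.nd (nat_lit 78) (nat_lit 152) (nat_lit 0) (XT.lf (nat_lit 0) (nat_lit 94209972788) (nat_lit 76) (nat_lit 98193655246) (nat_lit 76) (nat_lit 85325930931) (nat_lit 130) (nat_lit 4) (nat_lit 131) (nat_lit 5) (nat_lit 131) (nat_lit 4) (nat_lit 473) (nat_lit 348) (nat_lit 199)) (XT.lf (nat_lit 0) (nat_lit 1516363540) (nat_lit 76) (nat_lit 5500472951) (nat_lit 152) (nat_lit 279951403266) (nat_lit 128) (nat_lit 5) (nat_lit 129) (nat_lit 5) (nat_lit 130) (nat_lit 4) (nat_lit 474) (nat_lit 348) (nat_lit 198))) (XT.nd (nat_lit 78) (nat_lit 76) (nat_lit 0) (XT.lf (nat_lit 0) (nat_lit 105695455258) (nat_lit 152) (nat_lit 97234463013) (nat_lit 0) (nat_lit 93439685840) (nat_lit 128) (nat_lit 5) (nat_lit 130) (nat_lit 4) (nat_lit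 128) (nat_lit 4) (nat_lit 475) (nat_lit 348) (nat_lit 197)) (XT.lf (nat_lit 0) (nat_lit 103607266415) (nat_lit 76) (nat_lit 107402412405) (nat_lit 76) (nat_lit 95146274170) (nat_lit 127) (nat_lit 4) (nat_lit 128) (nat_lit 5) (nat_lit 128) (nat_lit 4) (nat_lit 476) (nat_lit 348) (nat_lit 196))))) (XT.nd (nat_lit 312) (nat_lit 228) (nat_lit 0) (XT.nd (nat_lit 156) (nat_lit 228) (nat_lit 0) (XT.nd (nat_lit 78) (nat_lit 0) (nat_lit 0) (XT.lf (nat_lit 0) (nat_lit 1443780689) (nat_lit 76) (nat_lit 5239277934) (nat_lit 152) (nat_lit 309660026533) (nat_lit 125) (nat_lit 5) (nat_lit 126) (nat_lit 5) (nat_lit 127) (nat_lit 4) (nat_lit 477) (nat_lit 348) (nat_lit 195)) (XT.lf (nat_lit 0) (nat_lit 115479722863) (nat_lit 152) (nat_lit 107421635011) (nat_lit 0) (nat_lit 103806557131) (nat_lit 125) (nat_lit 5) (nat_lit 127) (nat_lit 4) (nat_lit 125) (nat_lit 4) (nat_lit 478) (nat_lit 348) (nat_lit 194))) (XT.nd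 (nat_lit 78) (nat_lit 152) (nat_lit 0) (XT.lf (nat_lit 0) (nat_lit 113980237046) (nat_lit 76) (nat_lit 117595618352) (nat_lit 76) (nat_lit 105922149193) (nat_lit 124) (nat_lit 4) (nat_lit 125) (nat_lit 5) (nat_lit 125) (nat_lit 4) (nat_lit 479) (nat_lit 348) (nat_lit 193)) (XT.lf (nat_lit 0) (nat_lit 1374720662) (nat_lit 76) (nat_lit 4990390947) (nat_lit 152) (nat_lit 342365621749) (nat_lit 122) (nat_lit 5) (nat_lit 123) (nat_lit 5) (nat_lit 124) (nat_lit 4) (nat_lit 480) (nat_lit 348) (nat_lit 192)))) (XT.nd (nat_lit 156) (nat_lit 152) (nat_lit 0) (XT.nd (nat_lit 78) (nat_lit 76) (nat_lit 0) (XT.lf (nat_lit 0) (nat_lit 126316762737) (nat_lit 152) (nat_lit 118642393354) (nat_lit 0) (nat_lit 115198635733) (nat_lit 122) (nat_lit 5) (nat_lit 124) (nat_lit 4) (nat_lit 122) (nat_lit 4) (nat_lit 481) (nat_lit 348) (nat_lit 191)) (XT.lf (nat_lit 0) (nat_lit 125428278970) (nat_lit 76) (nat_lit 128872286221)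 (nat_lit 76) (nat_lit 117753909587) (nat_lit 121) (nat_lit 4) (nat_lit 122) (nat_lit 5) (nat_lit 122) (nat_lit 4) (nat_lit 482) (nat_lit 348) (nat_lit 190))) (XT.nd (nat_lit 78) (nat_lit 0) (nat_lit 0) (XT.lf (nat_lit 0) (nat_lit 1309003915) (nat_lit 76) (nat_lit 4753248910) (nat_lit 152) (nat_lit 378377653358) (nat_lit 119) (nat_lit 5) (nat_lit 120) (nat_lit 5) (nat_lit 121) (nat_lit 4) (nat_lit 483) (nat_lit 348) (nat_lit 189)) (XT.lf (nat_lit 0) (nat_lit 138312124906) (nat_lit 152) (nat_lit 131003201684) (nat_lit 0) (nat_lit 127722752717) (nat_lit 119) (nat_lit 5) (nat_lit 121) (nat_lit 4) (nat_lit 119) (nat_lit 4) (nat_lit 484) (nat_lit 348) (nat_lit 188)))))) (XT.nd (nat_lit 42510) (nat_lit 0) (nat_lit 15504) (XT.nd (nat_lit 312) (nat_lit 380) (nat_lit 0) (XT.nd (nat_lit 156) (nat_lit 76) (nat_lit 0) (XT.nd (nat_lit 78) (nat_lit 152) (nat_lit 0) (XT.lf (nat_lit 0) (nat_lit 138061007027) (nat_lit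 76) (nat_lit 141341661366) (nat_lit 76) (nat_lit 130752083805) (nat_lit 118) (nat_lit 4) (nat_lit 119) (nat_lit 5) (nat_lit 119) (nat_lit 4) (nat_lit 485) (nat_lit 348) (nat_lit 187)) (XT.lf (nat_lit 0) (nat_lit 1246461546) (nat_lit 76) (nat_lit 4527311477) (nat_lit 152) (nat_lit 418037200884) (nat_lit 116) (nat_lit 5) (nat_lit 117) (nat_lit 5) (nat_lit 118) (nat_lit 4) (nat_lit 486) (nat_lit 348) (nat_lit 186))) (XT.nd (nat_lit 78) (nat_lit 76) (nat_lit 0) (XT.lf (nat_lit 0) (nat_lit 151582287716) (nat_lit 152) (nat_lit 144621408457) (nat_lit 0) (nat_lit 141496612068) (nat_lit 116) (nat_lit 5) (nat_lit 118) (nat_lit 4) (nat_lit 116) (nat_lit 4) (nat_lit 487) (nat_lit 348) (nat_lit 185)) (XT.lf (nat_lit 0) (nat_lit 151999302046) (nat_lit 76) (nat_lit 155124267395) (nat_lit 76) (nat_lit 145038422787) (nat_lit 115) (nat_lit 4) (nat_lit 116) (nat_lit 5) (nat_lit 116) (nat_lit 4) (nat_lit 488) (nat_lit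 348) (nat_lit 184)))) (XT.nd (nat_lit 156) (nat_lit 228) (nat_lit 0) (XT.nd (nat_lit 78) (nat_lit 0) (nat_lit 0) (XT.lf (nat_lit 0) (nat_lit 1186934413) (nat_lit 76) (nat_lit 4312060676) (nat_lit 152) (nat_lit 461720203894) (nat_lit 113) (nat_lit 5) (nat_lit 114) (nat_lit 5) (nat_lit 115) (nat_lit 4) (nat_lit 489) (nat_lit 348) (nat_lit 183)) (XT.lf (nat_lit 0) (nat_lit 166255773288) (nat_lit 152) (nat_lit 159626364470) (nat_lit 0) (nat_lit 156649907790) (nat_lit 113) (nat_lit 5) (nat_lit 115) (nat_lit 4) (nat_lit 113) (nat_lit 4) (nat_lit 490) (nat_lit 348) (nat_lit 182))) (XT.nd (nat_lit 78) (nat_lit 152) (nat_lit 0) (XT.lf (nat_lit 0) (nat_lit 167376463649) (nat_lit 76) (nat_lit 170353059333) (nat_lit 76) (nat_lit 160747054831) (nat_lit 112) (nat_lit 4) (nat_lit 113) (nat_lit 5) (nat_lit 113) (nat_lit 4) (nat_lit 491) (nat_lit 348) (nat_lit 181)) (XT.lf (nat_lit 0) (nat_lit 1130272370) (nat_lit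 76) (nat_lit 4107000437) (nat_lit 152) (nat_lit 509841039457) (nat_lit 110) (nat_lit 5) (nat_lit 111) (nat_lit 5) (nat_lit 112) (nat_lit 4) (nat_lit 492) (nat_lit 348) (nat_lit 180))))) (XT.nd (nat_lit 312) (nat_lit 532) (nat_lit 0) (XT.nd (nat_lit 156) (nat_lit 0) (nat_lit 0) (XT.nd (nat_lit 78) (nat_lit 0) (nat_lit 0) (XT.lf (nat_lit 0) (nat_lit 418711561) (nat_lit 0) (nat_lit 418711561) (nat_lit 532) (nat_lit 2849676858) (nat_lit 321) (nat_lit 5) (nat_lit 321) (nat_lit 3) (nat_lit 328) (nat_lit 3) (nat_lit 349) (nat_lit 349) (nat_lit 322)) (XT.lf (nat_lit 0) (nat_lit 3263305402) (nat_lit 532) (nat_lit 2846800331) (nat_lit 608) (nat_lit 1371119827) (nat_lit 321) (nat_lit 5) (nat_lit 328) (nat_lit 3) (nat_lit 329) (nat_lit 5) (nat_lit 350) (nat_lit 349) (nat_lit 321))) (XT.nd (nat_lit 78) (nat_lit 0) (nat_lit 0) (XT.lf (nat_lit 76) (nat_lit 991238870) (nat_lit 0) (nat_lit 3872329377) (nat_lit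 608) (nat_lit 2733415154) (nat_lit 322) (nat_lit 5) (nat_lit 321) (nat_lit 5) (nat_lit 329) (nat_lit 5) (nat_lit 351) (nat_lit 349) (nat_lit 320)) (XT.lf (nat_lit 76) (nat_lit 5066458757) (nat_lit 0) (nat_lit 1432548377) (nat_lit 608) (nat_lit 1221763858) (nat_lit 322) (nat_lit 5) (nat_lit 321) (nat_lit 5) (nat_lit 329) (nat_lit 5) (nat_lit 352) (nat_lit 349) (nat_lit 319)))) (XT.nd (nat_lit 156) (nat_lit 0) (nat_lit 0) (XT.nd (nat_lit 78) (nat_lit 0) (nat_lit 0) (XT.lf (nat_lit 0) (nat_lit 305513688) (nat_lit 608) (nat_lit 6390025973) (nat_lit 684) (nat_lit 1157335948) (nat_lit 314) (nat_lit 5) (nat_lit 322) (nat_lit 5) (nat_lit 323) (nat_lit 5) (nat_lit 353) (nat_lit 349) (nat_lit 318)) (XT.lf (nat_lit 0) (nat_lit 1851181171) (nat_lit 608) (nat_lit 2213533240) (nat_lit 684) (nat_lit 3926715335) (nat_lit 314) (nat_lit 5) (nat_lit 322) (nat_lit 5) (nat_lit 323) (nat_lit 5) (nat_lit 354) (nat_lit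 349) (nat_lit 317))) (XT.nd (nat_lit 78) (nat_lit 0) (nat_lit 76) (XT.lf (nat_lit 76) (nat_lit 2186561585) (nat_lit 0) (nat_lit 1239720181) (nat_lit 684) (nat_lit 4713022337) (nat_lit 315) (nat_lit 5) (nat_lit 314) (nat_lit 5) (nat_lit 323) (nat_lit 5) (nat_lit 355) (nat_lit 349) (nat_lit 316)) (XT.lf (nat_lit 0) (nat_lit 5066646986) (nat_lit 608) (nat_lit 1495404912) (nat_lit 684) (nat_lit 1733194799) (nat_lit 315) (nat_lit 5) (nat_lit 323) (nat_lit 5) (nat_lit 324) (nat_lit 5) (nat_lit 356) (nat_lit 349) (nat_lit 315))))))))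
noncomputable def xc157 : XT := (XT.nd (nat_lit 1248) (nat_lit 2584) (nat_lit 0) (XT.nd (nat_lit 624) (nat_lit 1748) (nat_lit 0) (XT.nd (nat_lit 312) (nat_lit 1292) (nat_lit 0) (XT.nd (nat_lit 156) (nat_lit 1292) (nat_lit 0) (XT.nd (nat_lit 78) (nat_lit 0) (nat_lit 0) (XT.lf (nat_lit 76) (nat_lit 3211407380) (nat_lit 0) (nat_lit 3573277742) (nat_lit 684) (nat_lit 1674518567) (nat_lit 316) (nat_lit 5) (nat_lit 315) (nat_lit 5) (nat_lit 324) (nat_lit 5) (nat_lit 357) (nat_lit 349) (nat_lit 314)) (XT.lf (nat_lit 76) (nat_lit 8150524235) (nat_lit 0) (nat_lit 391322937) (nat_lit 684) (nat_lit 91850257) (nat_lit 316) (nat_lit 5) (nat_lit 315) (nat_lit 5) (nat_lit 324) (nat_lit 5) (nat_lit 358) (nat_lit 349) (nat_lit 313))) (XT.nd (nat_lit 78) (nat_lit 684) (nat_lit 0) (XT.lf (nat_lit 0) (nat_lit 1569395010) (nat_lit 684) (nat_lit 4276115564) (nat_lit 76) (nat_lit 2967695126) (nat_lit 307) (nat_lit 5)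 (nat_lit 316) (nat_lit 5) (nat_lit 308) (nat_lit 5) (nat_lit 359) (nat_lit 349) (nat_lit 312)) (XT.lf (nat_lit 0) (nat_lit 783544547) (nat_lit 684) (nat_lit 2486936704) (nat_lit 760) (nat_lit 5733139572) (nat_lit 298) (nat_lit 5) (nat_lit 307) (nat_lit 5) (nat_lit 308) (nat_lit 5) (nat_lit 360) (nat_lit 349) (nat_lit 311)))) (XT.nd (nat_lit 156) (nat_lit 532) (nat_lit 0) (XT.nd (nat_lit 78) (nat_lit 760) (nat_lit 0) (XT.lf (nat_lit 0) (nat_lit 5081802842) (nat_lit 760) (nat_lit 3032493724) (nat_lit 76) (nat_lit 1088001084) (nat_lit 298) (nat_lit 5) (nat_lit 308) (nat_lit 5) (nat_lit 299) (nat_lit 5) (nat_lit 361) (nat_lit 349) (nat_lit 310)) (XT.lf (nat_lit 0) (nat_lit 2393363019) (nat_lit 760) (nat_lit 4606888083) (nat_lit 836) (nat_lit 2409829188) (nat_lit 288) (nat_lit 5) (nat_lit 298) (nat_lit 5) (nat_lit 299) (nat_lit 5) (nat_lit 362) (nat_lit 349) (nat_lit 309))) (XT.nd (nat_lit 78) (nat_lit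 532) (nat_lit 0) (XT.lf (nat_lit 0) (nat_lit 8139774244) (nat_lit 760) (nat_lit 866685876) (nat_lit 836) (nat_lit 622200024) (nat_lit 288) (nat_lit 5) (nat_lit 298) (nat_lit 5) (nat_lit 299) (nat_lit 5) (nat_lit 363) (nat_lit 349) (nat_lit 308)) (XT.lf (nat_lit 0) (nat_lit 1274692940) (nat_lit 532) (nat_lit 5525214344) (nat_lit 76) (nat_lit 3054279945) (nat_lit 281) (nat_lit 5) (nat_lit 288) (nat_lit 5) (nat_lit 282) (nat_lit 5) (nat_lit 364) (nat_lit 349) (nat_lit 307))))) (XT.nd (nat_lit 312) (nat_lit 988) (nat_lit 0) (XT.nd (nat_lit 156) (nat_lit 380) (nat_lit 0) (XT.nd (nat_lit 78) (nat_lit 0) (nat_lit 0) (XT.lf (nat_lit 0) (nat_lit 328195565) (nat_lit 380) (nat_lit 2906587743) (nat_lit 456) (nat_lit 6856234224) (nat_lit 276) (nat_lit 5) (nat_lit 281) (nat_lit 5) (nat_lit 282) (nat_lit 5) (nat_lit 365) (nat_lit 349) (nat_lit 306)) (XT.lf (nat_lit 0) (nat_lit 5352469352) (nat_lit 456) (nat_lit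 3747801272) (nat_lit 76) (nat_lit 1236439167) (nat_lit 276) (nat_lit 5) (nat_lit 282) (nat_lit 5) (nat_lit 277) (nat_lit 5) (nat_lit 366) (nat_lit 349) (nat_lit 305))) (XT.nd (nat_lit 78) (nat_lit 0) (nat_lit 0) (XT.lf (nat_lit 0) (nat_lit 2545694290) (nat_lit 380) (nat_lit 5066349406) (nat_lit 456) (nat_lit 2980842766) (nat_lit 271) (nat_lit 5) (nat_lit 276) (nat_lit 5) (nat_lit 277) (nat_lit 5) (nat_lit 367) (nat_lit 349) (nat_lit 304)) (XT.lf (nat_lit 0) (nat_lit 9228779450) (nat_lit 380) (nat_lit 769483065) (nat_lit 456) (nat_lit 862926166) (nat_lit 271) (nat_lit 5) (nat_lit 276) (nat_lit 5) (nat_lit 277) (nat_lit 5) (nat_lit 368) (nat_lit 349) (nat_lit 303)))) (XT.nd (nat_lit 156) (nat_lit 304) (nat_lit 0) (XT.nd (nat_lit 78) (nat_lit 304) (nat_lit 0) (XT.lf (nat_lit 0) (nat_lit 1410221701) (nat_lit 380) (nat_lit 6006272759) (nat_lit 76) (nat_lit 3720704572) (nat_lit 266) (nat_lit 5) (nat_lit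 271) (nat_lit 5) (nat_lit 267) (nat_lit 5) (nat_lit 369) (nat_lit 349) (nat_lit 302)) (XT.lf (nat_lit 0) (nat_lit 806547644) (nat_lit 304) (nat_lit 2967935669) (nat_lit 380) (nat_lit 7651496455) (nat_lit 262) (nat_lit 5) (nat_lit 266) (nat_lit 5) (nat_lit 267) (nat_lit 5) (nat_lit 370) (nat_lit 349) (nat_lit 301))) (XT.nd (nat_lit 78) (nat_lit 304) (nat_lit 0) (XT.lf (nat_lit 0) (nat_lit 6341319559) (nat_lit 380) (nat_lit 3640599568) (nat_lit 76) (nat_lit 1743062337) (nat_lit 262) (nat_lit 5) (nat_lit 267) (nat_lit 5) (nat_lit 263) (nat_lit 5) (nat_lit 371) (nat_lit 349) (nat_lit 300)) (XT.lf (nat_lit 0) (nat_lit 3702979004) (nat_lit 304) (nat_lit 5396544785) (nat_lit 380) (nat_lit 2936258145) (nat_lit 258) (nat_lit 5) (nat_lit 262) (nat_lit 5) (nat_lit 263) (nat_lit 5) (nat_lit 372) (nat_lit 349) (nat_lit 299)))))) (XT.nd (nat_lit 624) (nat_lit 1140) (nat_lit 0) (XT.nd (nat_lit 312) (nat_lit 836)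 (nat_lit 0) (XT.nd (nat_lit 156) (nat_lit 228) (nat_lit 0) (XT.nd (nat_lit 78) (nat_lit 380) (nat_lit 0) (XT.lf (nat_lit 0) (nat_lit 11486942445) (nat_lit 304) (nat_lit 528146993) (nat_lit 380) (nat_lit 346060432) (nat_lit 258) (nat_lit 5) (nat_lit 262) (nat_lit 5) (nat_lit 263) (nat_lit 5) (nat_lit 373) (nat_lit 349) (nat_lit 298)) (XT.lf (nat_lit 0) (nat_lit 2441413987) (nat_lit 380) (nat_lit 5675901867) (nat_lit 76) (nat_lit 4576430466) (nat_lit 253) (nat_lit 5) (nat_lit 258) (nat_lit 5) (nat_lit 254) (nat_lit 5) (nat_lit 374) (nat_lit 349) (nat_lit 297))) (XT.nd (nat_lit 78) (nat_lit 0) (nat_lit 0) (XT.lf (nat_lit 0) (nat_lit 2298640850) (nat_lit 228) (nat_lit 3077699887) (nat_lit 304) (nat_lit 7665362773) (nat_lit 250) (nat_lit 5) (nat_lit 253) (nat_lit 5) (nat_lit 254) (nat_lit 5) (nat_lit 375) (nat_lit 349) (nat_lit 296)) (XT.lf (nat_lit 0) (nat_lit 8551270871) (nat_lit 304) (nat_lit 2623278887)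 (nat_lit 76) (nat_lit 2227845949) (nat_lit 250) (nat_lit 5) (nat_lit 254) (nat_lit 5) (nat_lit 251) (nat_lit 5) (nat_lit 376) (nat_lit 349) (nat_lit 295)))) (XT.nd (nat_lit 156) (nat_lit 228) (nat_lit 0) (XT.nd (nat_lit 78) (nat_lit 304) (nat_lit 0) (XT.lf (nat_lit 0) (nat_lit 5992552616) (nat_lit 304) (nat_lit 5999259020) (nat_lit 380) (nat_lit 1783967673) (nat_lit 246) (nat_lit 5) (nat_lit 250) (nat_lit 5) (nat_lit 251) (nat_lit 5) (nat_lit 377) (nat_lit 349) (nat_lit 294)) (XT.lf (nat_lit 0) (nat_lit 919228680) (nat_lit 228) (nat_lit 494084527) (nat_lit 304) (nat_lit 12752260240) (nat_lit 242) (nat_lit 5) (nat_lit 245) (nat_lit 5) (nat_lit 246) (nat_lit 5) (nat_lit 378) (nat_lit 349) (nat_lit 293))) (XT.nd (nat_lit 78) (nat_lit 228) (nat_lit 0) (XT.lf (nat_lit 0) (nat_lit 4890973275) (nat_lit 304) (nat_lit 4407581574) (nat_lit 76) (nat_lit 5265816766) (nat_lit 242) (nat_lit 5) (nat_lit 246)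 (nat_lit 5) (nat_lit 243) (nat_lit 5) (nat_lit 379) (nat_lit 349) (nat_lit 292)) (XT.lf (nat_lit 0) (nat_lit 4974327830) (nat_lit 228) (nat_lit 3619627518) (nat_lit 304) (nat_lit 6386582393) (nat_lit 239) (nat_lit 5) (nat_lit 242) (nat_lit 5) (nat_lit 243) (nat_lit 5) (nat_lit 380) (nat_lit 349) (nat_lit 291))))) (XT.nd (nat_lit 312) (nat_lit 608) (nat_lit 0) (XT.nd (nat_lit 156) (nat_lit 228) (nat_lit 0) (XT.nd (nat_lit 78) (nat_lit 304) (nat_lit 0) (XT.lf (nat_lit 0) (nat_lit 12560839168) (nat_lit 304) (nat_lit 523759775) (nat_lit 76) (nat_lit 2328975599) (nat_lit 239) (nat_lit 5) (nat_lit 243) (nat_lit 5) (nat_lit 240) (nat_lit 5) (nat_lit 381) (nat_lit 349) (nat_lit 290)) (XT.lf (nat_lit 0) (nat_lit 1010912908) (nat_lit 304) (nat_lit 6241992093) (nat_lit 76) (nat_lit 8605660345) (nat_lit 235) (nat_lit 5) (nat_lit 239) (nat_lit 5) (nat_lit 236) (nat_lit 5) (nat_lit 382) (nat_lit 349) (nat_lit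 289))) (XT.nd (nat_lit 78) (nat_lit 0) (nat_lit 0) (XT.lf (nat_lit 0) (nat_lit 3989114011) (nat_lit 228) (nat_lit 1022236306) (nat_lit 304) (nat_lit 11310143201) (nat_lit 232) (nat_lit 5) (nat_lit 235) (nat_lit 5) (nat_lit 236) (nat_lit 5) (nat_lit 383) (nat_lit 349) (nat_lit 288)) (XT.lf (nat_lit 0) (nat_lit 9374129547) (nat_lit 304) (nat_lit 1990622992) (nat_lit 76) (nat_lit 5434699560) (nat_lit 232) (nat_lit 5) (nat_lit 236) (nat_lit 5) (nat_lit 233) (nat_lit 5) (nat_lit 384) (nat_lit 349) (nat_lit 287)))) (XT.nd (nat_lit 156) (nat_lit 152) (nat_lit 0) (XT.nd (nat_lit 78) (nat_lit 304) (nat_lit 0) (XT.lf (nat_lit 0) (nat_lit 9096012940) (nat_lit 152) (nat_lit 4987991489) (nat_lit 228) (nat_lit 3210856347) (nat_lit 230) (nat_lit 5) (nat_lit 232) (nat_lit 5) (nat_lit 233) (nat_lit 5) (nat_lit 385) (nat_lit 349) (nat_lit 286)) (XT.lf (nat_lit 0) (nat_lit 1255381557) (nat_lit 304) (nat_lit 14816357701)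 (nat_lit 76) (nat_lit 1738356939) (nat_lit 226) (nat_lit 5) (nat_lit 230) (nat_lit 5) (nat_lit 227) (nat_lit 5) (nat_lit 386) (nat_lit 349) (nat_lit 285))) (XT.nd (nat_lit 78) (nat_lit 152) (nat_lit 0) (XT.lf (nat_lit 0) (nat_lit 6030757268) (nat_lit 304) (nat_lit 3497463650) (nat_lit 76) (nat_lit 8810554035) (nat_lit 226) (nat_lit 5) (nat_lit 230) (nat_lit 5) (nat_lit 227) (nat_lit 5) (nat_lit 387) (nat_lit 349) (nat_lit 284)) (XT.lf (nat_lit 0) (nat_lit 8618232490) (nat_lit 152) (nat_lit 2533446587) (nat_lit 228) (nat_lit 7736869704) (nat_lit 224) (nat_lit 5) (nat_lit 226) (nat_lit 5) (nat_lit 227) (nat_lit 5) (nat_lit 388) (nat_lit 349) (nat_lit 283)))))))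
noncomputable def xc158 : XT := (XT.nd (nat_lit 1248) (nat_lit 1520) (nat_lit 0) (XT.nd (nat_lit 624) (nat_lit 760) (nat_lit 0) (XT.nd (nat_lit 312) (nat_lit 380) (nat_lit 0) (XT.nd (nat_lit 156) (nat_lit 304) (nat_lit 0) (XT.nd (nat_lit 78) (nat_lit 76) (nat_lit 0) (XT.lf (nat_lit 0) (nat_lit 1938915343) (nat_lit 152) (nat_lit 14727907245) (nat_lit 228) (nat_lit 2792079932) (nat_lit 222) (nat_lit 5) (nat_lit 224) (nat_lit 5) (nat_lit 225) (nat_lit 5) (nat_lit 389) (nat_lit 349) (nat_lit 282)) (XT.lf (nat_lit 0) (nat_lit 2514208665) (nat_lit 228) (nat_lit 5061273744) (nat_lit 76) (nat_lit 12470864405) (nat_lit 221) (nat_lit 5) (nat_lit 224) (nat_lit 5) (nat_lit 222) (nat_lit 5) (nat_lit 390) (nat_lit 349) (nat_lit 281))) (XT.nd (nat_lit 78) (nat_lit 152) (nat_lit 0) (XT.lf (nat_lit 0) (nat_lit 8095511106) (nat_lit 228) (nat_lit 12463829928) (nat_lit 76) (nat_lit 96357118) (nat_lit 219) (nat_lit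 5) (nat_lit 222) (nat_lit 5) (nat_lit 220) (nat_lit 5) (nat_lit 391) (nat_lit 349) (nat_lit 280)) (XT.lf (nat_lit 0) (nat_lit 850121088) (nat_lit 152) (nat_lit 13304692863) (nat_lit 228) (nat_lit 7130756342) (nat_lit 217) (nat_lit 5) (nat_lit 219) (nat_lit 5) (nat_lit 220) (nat_lit 5) (nat_lit 392) (nat_lit 349) (nat_lit 279)))) (XT.nd (nat_lit 156) (nat_lit 152) (nat_lit 0) (XT.nd (nat_lit 78) (nat_lit 228) (nat_lit 0) (XT.lf (nat_lit 0) (nat_lit 15219542988) (nat_lit 152) (nat_lit 5483524715) (nat_lit 228) (nat_lit 1234569051) (nat_lit 217) (nat_lit 5) (nat_lit 219) (nat_lit 5) (nat_lit 220) (nat_lit 5) (nat_lit 393) (nat_lit 349) (nat_lit 278)) (XT.lf (nat_lit 0) (nat_lit 4941131928) (nat_lit 228) (nat_lit 14842937996) (nat_lit 76) (nat_lit 2827200378) (nat_lit 214) (nat_lit 5) (nat_lit 217) (nat_lit 5) (nat_lit 215) (nat_lit 5) (nat_lit 394) (nat_lit 349) (nat_lit 277))) (XT.nd (nat_lit 78)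 (nat_lit 152) (nat_lit 0) (XT.lf (nat_lit 0) (nat_lit 11565616317) (nat_lit 228) (nat_lit 254525772) (nat_lit 76) (nat_lit 11488357098) (nat_lit 214) (nat_lit 5) (nat_lit 217) (nat_lit 5) (nat_lit 215) (nat_lit 5) (nat_lit 395) (nat_lit 349) (nat_lit 276)) (XT.lf (nat_lit 0) (nat_lit 15520096752) (nat_lit 152) (nat_lit 3220640196) (nat_lit 228) (nat_lit 5288881967) (nat_lit 212) (nat_lit 5) (nat_lit 214) (nat_lit 5) (nat_lit 215) (nat_lit 5) (nat_lit 396) (nat_lit 349) (nat_lit 275))))) (XT.nd (nat_lit 312) (nat_lit 380) (nat_lit 0) (XT.nd (nat_lit 156) (nat_lit 228) (nat_lit 0) (XT.nd (nat_lit 78) (nat_lit 0) (nat_lit 0) (XT.lf (nat_lit 0) (nat_lit 1631391957) (nat_lit 152) (nat_lit 17391689875) (nat_lit 76) (nat_lit 5752991724) (nat_lit 210) (nat_lit 5) (nat_lit 212) (nat_lit 5) (nat_lit 211) (nat_lit 5) (nat_lit 397) (nat_lit 349) (nat_lit 274)) (XT.lf (nat_lit 0) (nat_lit 8896623325) (nat_lit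 152) (nat_lit 1366354552) (nat_lit 76) (nat_lit 15283703658) (nat_lit 210) (nat_lit 5) (nat_lit 212) (nat_lit 5) (nat_lit 211) (nat_lit 5) (nat_lit 398) (nat_lit 349) (nat_lit 273))) (XT.nd (nat_lit 78) (nat_lit 76) (nat_lit 0) (XT.lf (nat_lit 0) (nat_lit 15931819924) (nat_lit 152) (nat_lit 820524410) (nat_lit 228) (nat_lit 9592114176) (nat_lit 208) (nat_lit 5) (nat_lit 210) (nat_lit 5) (nat_lit 211) (nat_lit 5) (nat_lit 399) (nat_lit 349) (nat_lit 272)) (XT.lf (nat_lit 0) (nat_lit 7004682367) (nat_lit 76) (nat_lit 18249697735) (nat_lit 152) (nat_lit 1915067796) (nat_lit 207) (nat_lit 5) (nat_lit 208) (nat_lit 5) (nat_lit 209) (nat_lit 4) (nat_lit 400) (nat_lit 349) (nat_lit 271)))) (XT.nd (nat_lit 156) (nat_lit 152) (nat_lit 0) (XT.nd (nat_lit 78) (nat_lit 152) (nat_lit 0) (XT.lf (nat_lit 0) (nat_lit 6120555725) (nat_lit 152) (nat_lit 2523394929) (nat_lit 76) (nat_lit 19378366931) (nat_lit 206)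 (nat_lit 5) (nat_lit 208) (nat_lit 5) (nat_lit 207) (nat_lit 5) (nat_lit 401) (nat_lit 349) (nat_lit 270)) (XT.lf (nat_lit 0) (nat_lit 14757308527) (nat_lit 228) (nat_lit 12472743468) (nat_lit 76) (nat_lit 1673023685) (nat_lit 204) (nat_lit 5) (nat_lit 207) (nat_lit 5) (nat_lit 205) (nat_lit 4) (nat_lit 402) (nat_lit 349) (nat_lit 269))) (XT.nd (nat_lit 78) (nat_lit 76) (nat_lit 0) (XT.lf (nat_lit 0) (nat_lit 6626390161) (nat_lit 76) (nat_lit 17468006035) (nat_lit 152) (nat_lit 5720050624) (nat_lit 203) (nat_lit 5) (nat_lit 204) (nat_lit 5) (nat_lit 205) (nat_lit 4) (nat_lit 403) (nat_lit 349) (nat_lit 268)) (XT.lf (nat_lit 0) (nat_lit 3221532669) (nat_lit 152) (nat_lit 3736577679) (nat_lit 76) (nat_lit 23801101997) (nat_lit 202) (nat_lit 5) (nat_lit 204) (nat_lit 5) (nat_lit 203) (nat_lit 5) (nat_lit 404) (nat_lit 349) (nat_lit 267)))))) (XT.nd (nat_lit 624) (nat_lit 684) (nat_lit 0) (XT.nd (nat_lit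 312) (nat_lit 380) (nat_lit 0) (XT.nd (nat_lit 156) (nat_lit 228) (nat_lit 0) (XT.nd (nat_lit 78) (nat_lit 76) (nat_lit 0) (XT.lf (nat_lit 0) (nat_lit 12735279678) (nat_lit 228) (nat_lit 14697461487) (nat_lit 76) (nat_lit 4297920627) (nat_lit 200) (nat_lit 5) (nat_lit 203) (nat_lit 5) (nat_lit 201) (nat_lit 4) (nat_lit 405) (nat_lit 349) (nat_lit 266)) (XT.lf (nat_lit 0) (nat_lit 6274043434) (nat_lit 76) (nat_lit 16708052312) (nat_lit 152) (nat_lit 9755718882) (nat_lit 199) (nat_lit 5) (nat_lit 200) (nat_lit 5) (nat_lit 201) (nat_lit 4) (nat_lit 406) (nat_lit 349) (nat_lit 265))) (XT.nd (nat_lit 78) (nat_lit 152) (nat_lit 0) (XT.lf (nat_lit 0) (nat_lit 181743205) (nat_lit 152) (nat_lit 5017118222) (nat_lit 76) (nat_lit 28584801637) (nat_lit 198) (nat_lit 5) (nat_lit 200) (nat_lit 5) (nat_lit 199) (nat_lit 5) (nat_lit 407) (nat_lit 349) (nat_lit 264)) (XT.lf (nat_lit 0) (nat_lit 10663843102) (nat_lit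 228) (nat_lit 17094686439) (nat_lit 76) (nat_lit 7096496849) (nat_lit 196) (nat_lit 5) (nat_lit 199) (nat_lit 5) (nat_lit 197) (nat_lit 4) (nat_lit 408) (nat_lit 349) (nat_lit 263)))) (XT.nd (nat_lit 156) (nat_lit 304) (nat_lit 0) (XT.nd (nat_lit 78) (nat_lit 0) (nat_lit 0) (XT.lf (nat_lit 0) (nat_lit 5945000441) (nat_lit 76) (nat_lit 15971546955) (nat_lit 152) (nat_lit 14051085515) (nat_lit 195) (nat_lit 5) (nat_lit 196) (nat_lit 5) (nat_lit 197) (nat_lit 4) (nat_lit 409) (nat_lit 349) (nat_lit 262)) (XT.lf (nat_lit 0) (nat_lit 30696904668) (nat_lit 76) (nat_lit 3306916300) (nat_lit 152) (nat_lit 3118452088) (nat_lit 195) (nat_lit 5) (nat_lit 196) (nat_lit 5) (nat_lit 197) (nat_lit 4) (nat_lit 410) (nat_lit 349) (nat_lit 261))) (XT.nd (nat_lit 78) (nat_lit 76) (nat_lit 0) (XT.lf (nat_lit 0) (nat_lit 8532273527) (nat_lit 228) (nat_lit 19686600109) (nat_lit 76) (nat_lit 10087291848) (nat_lit 192)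 (nat_lit 5) (nat_lit 195) (nat_lit 5) (nat_lit 193) (nat_lit 4) (nat_lit 411) (nat_lit 349) (nat_lit 260)) (XT.lf (nat_lit 0) (nat_lit 5636994557) (nat_lit 76) (nat_lit 15259632130) (nat_lit 152) (nat_lit 18638275154) (nat_lit 191) (nat_lit 5) (nat_lit 192) (nat_lit 5) (nat_lit 193) (nat_lit 4) (nat_lit 412) (nat_lit 349) (nat_lit 259))))) (XT.nd (nat_lit 312) (nat_lit 456) (nat_lit 0) (XT.nd (nat_lit 156) (nat_lit 76) (nat_lit 0) (XT.nd (nat_lit 78) (nat_lit 152) (nat_lit 0) (XT.lf (nat_lit 0) (nat_lit 32878449377) (nat_lit 76) (nat_lit 1317530096) (nat_lit 152) (nat_lit 6613256444) (nat_lit 191) (nat_lit 5) (nat_lit 192) (nat_lit 5) (nat_lit 193) (nat_lit 4) (nat_lit 413) (nat_lit 349) (nat_lit 258)) (XT.lf (nat_lit 0) (nat_lit 6328686902) (nat_lit 152) (nat_lit 22497114628) (nat_lit 76) (nat_lit 13291384783) (nat_lit 189) (nat_lit 5) (nat_lit 191) (nat_lit 5) (nat_lit 190) (nat_lit 4) (nat_lit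 414) (nat_lit 349) (nat_lit 257))) (XT.nd (nat_lit 78) (nat_lit 0) (nat_lit 0) (XT.lf (nat_lit 0) (nat_lit 5348072212) (nat_lit 76) (nat_lit 14572995139) (nat_lit 152) (nat_lit 23552766739) (nat_lit 188) (nat_lit 5) (nat_lit 189) (nat_lit 5) (nat_lit 190) (nat_lit 4) (nat_lit 415) (nat_lit 349) (nat_lit 256)) (XT.lf (nat_lit 0) (nat_lit 34570477408) (nat_lit 152) (nat_lit 9556007948) (nat_lit 0) (nat_lit 752958374) (nat_lit 188) (nat_lit 5) (nat_lit 190) (nat_lit 4) (nat_lit 188) (nat_lit 4) (nat_lit 416) (nat_lit 349) (nat_lit 255)))) (XT.nd (nat_lit 156) (nat_lit 228) (nat_lit 0) (XT.nd (nat_lit 78) (nat_lit 76) (nat_lit 0) (XT.lf (nat_lit 0) (nat_lit 4039982782) (nat_lit 152) (nat_lit 25552134035) (nat_lit 76) (nat_lit 16732504755) (nat_lit 186) (nat_lit 5) (nat_lit 188) (nat_lit 5) (nat_lit 187) (nat_lit 4) (nat_lit 417) (nat_lit 349) (nat_lit 254)) (XT.lf (nat_lit 0) (nat_lit 5076541616) (nat_lit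 76) (nat_lit 13911961092) (nat_lit 152) (nat_lit 28833677017) (nat_lit 185) (nat_lit 5) (nat_lit 186) (nat_lit 5) (nat_lit 187) (nat_lit 4) (nat_lit 418) (nat_lit 349) (nat_lit 253))) (XT.nd (nat_lit 78) (nat_lit 228) (nat_lit 0) (XT.lf (nat_lit 0) (nat_lit 35149001344) (nat_lit 152) (nat_lit 11325697096) (nat_lit 0) (nat_lit 2896689707) (nat_lit 185) (nat_lit 5) (nat_lit 187) (nat_lit 4) (nat_lit 185) (nat_lit 4) (nat_lit 419) (nat_lit 349) (nat_lit 252)) (XT.nd (nat_lit 78) (nat_lit 76) (nat_lit 0) (XT.lf (nat_lit 0) (nat_lit 1651767560) (nat_lit 152) (nat_lit 28879828302) (nat_lit 76) (nat_lit 20437180748) (nat_lit 183) (nat_lit 5) (nat_lit 185) (nat_lit 5) (nat_lit 184) (nat_lit 4) (nat_lit 420) (nat_lit 349) (nat_lit 251)) (XT.lf (nat_lit 0) (nat_lit 4820930371) (nat_lit 76) (nat_lit 13276568558) (nat_lit 152) (nat_lit 34524086136) (nat_lit 182) (nat_lit 5) (nat_lit 183) (nat_lit 5) (nat_lit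 184) (nat_lit 4) (nat_lit 421) (nat_lit 349) (nat_lit 250))))))))
noncomputable def xc159 : XT := (XT.nd (nat_lit 2496) (nat_lit 2432) (nat_lit 0) (XT.nd (nat_lit 1248) (nat_lit 1216) (nat_lit 0) (XT.nd (nat_lit 624) (nat_lit 608) (nat_lit 0) (XT.nd (nat_lit 312) (nat_lit 304) (nat_lit 0) (XT.nd (nat_lit 156) (nat_lit 152) (nat_lit 0) (XT.nd (nat_lit 78) (nat_lit 76) (nat_lit 0) (XT.lf (nat_lit 0) (nat_lit 35923870099) (nat_lit 152) (nat_lit 13235008910) (nat_lit 0) (nat_lit 5170237272) (nat_lit 182) (nat_lit 5) (nat_lit 184) (nat_lit 4) (nat_lit 182) (nat_lit 4) (nat_lit 422) (nat_lit 349) (nat_lit 249)) (XT.lf (nat_lit 0) (nat_lit 23568764558) (nat_lit 76) (nat_lit 31644757994) (nat_lit 76) (nat_lit 879903370) (nat_lit 181) (nat_lit 4) (nat_lit 182) (nat_lit 5) (nat_lit 182) (nat_lit 4) (nat_lit 423) (nat_lit 349) (nat_lit 248))) (XT.nd (nat_lit 78) (nat_lit 0) (nat_lit 0) (XT.lf (nat_lit 0)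 (nat_lit 4579950414) (nat_lit 76) (nat_lit 12666631275) (nat_lit 152) (nat_lit 40671407250) (nat_lit 179) (nat_lit 5) (nat_lit 180) (nat_lit 5) (nat_lit 181) (nat_lit 4) (nat_lit 424) (nat_lit 349) (nat_lit 247)) (XT.lf (nat_lit 0) (nat_lit 36909417372) (nat_lit 152) (nat_lit 15300978145) (nat_lit 0) (nat_lit 7589683514) (nat_lit 179) (nat_lit 5) (nat_lit 181) (nat_lit 4) (nat_lit 179) (nat_lit 4) (nat_lit 425) (nat_lit 349) (nat_lit 246)))) (XT.nd (nat_lit 156) (nat_lit 76) (nat_lit 0) (XT.nd (nat_lit 78) (nat_lit 152) (nat_lit 0) (XT.lf (nat_lit 0) (nat_lit 25211590137) (nat_lit 76) (nat_lit 32932116969) (nat_lit 76) (nat_lit 3603150909) (nat_lit 178) (nat_lit 4) (nat_lit 179) (nat_lit 5) (nat_lit 179) (nat_lit 4) (nat_lit 426) (nat_lit 349) (nat_lit 245)) (XT.lf (nat_lit 0) (nat_lit 4352468984) (nat_lit 76) (nat_lit 12081788388) (nat_lit 152) (nat_lit 47327802628) (nat_lit 176) (nat_lit 5) (nat_lit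 177) (nat_lit 5) (nat_lit 178) (nat_lit 4) (nat_lit 427) (nat_lit 349) (nat_lit 244))) (XT.nd (nat_lit 78) (nat_lit 76) (nat_lit 0) (XT.lf (nat_lit 0) (nat_lit 38121591663) (nat_lit 152) (nat_lit 17542125732) (nat_lit 0) (nat_lit 10172894035) (nat_lit 176) (nat_lit 5) (nat_lit 178) (nat_lit 4) (nat_lit 176) (nat_lit 4) (nat_lit 428) (nat_lit 349) (nat_lit 243)) (XT.lf (nat_lit 0) (nat_lit 27062371803) (nat_lit 76) (nat_lit 34439198855) (nat_lit 76) (nat_lit 6482905873) (nat_lit 175) (nat_lit 4) (nat_lit 176) (nat_lit 5) (nat_lit 176) (nat_lit 4) (nat_lit 429) (nat_lit 349) (nat_lit 242))))) (XT.nd (nat_lit 312) (nat_lit 228) (nat_lit 0) (XT.nd (nat_lit 156) (nat_lit 228) (nat_lit 0) (XT.nd (nat_lit 78) (nat_lit 0) (nat_lit 0) (XT.lf (nat_lit 0) (nat_lit 4137484571) (nat_lit 76) (nat_lit 11521545294) (nat_lit 152) (nat_lit 54550649420) (nat_lit 173) (nat_lit 5) (nat_lit 174) (nat_lit 5) (nat_lit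 175) (nat_lit 4) (nat_lit 430) (nat_lit 349) (nat_lit 241)) (XT.lf (nat_lit 0) (nat_lit 39578137932) (nat_lit 152) (nat_lit 19978646569) (nat_lit 0) (nat_lit 12939646633) (nat_lit 173) (nat_lit 5) (nat_lit 175) (nat_lit 4) (nat_lit 173) (nat_lit 4) (nat_lit 431) (nat_lit 349) (nat_lit 240))) (XT.nd (nat_lit 78) (nat_lit 152) (nat_lit 0) (XT.lf (nat_lit 0) (nat_lit 29140051911) (nat_lit 76) (nat_lit 36185300564) (nat_lit 76) (nat_lit 9540560548) (nat_lit 172) (nat_lit 4) (nat_lit 173) (nat_lit 5) (nat_lit 173) (nat_lit 4) (nat_lit 432) (nat_lit 349) (nat_lit 239)) (XT.lf (nat_lit 0) (nat_lit 3934106954) (nat_lit 76) (nat_lit 10985306766) (nat_lit 152) (nat_lit 62403058825) (nat_lit 170) (nat_lit 5) (nat_lit 171) (nat_lit 5) (nat_lit 172) (nat_lit 4) (nat_lit 433) (nat_lit 349) (nat_lit 238)))) (XT.nd (nat_lit 156) (nat_lit 152) (nat_lit 0) (XT.nd (nat_lit 78) (nat_lit 76) (nat_lit 0) (XT.lf (nat_lit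 0) (nat_lit 41298793032) (nat_lit 152) (nat_lit 22632610782) (nat_lit 0) (nat_lit 15911784513) (nat_lit 170) (nat_lit 5) (nat_lit 172) (nat_lit 4) (nat_lit 170) (nat_lit 4) (nat_lit 434) (nat_lit 349) (nat_lit 237)) (XT.lf (nat_lit 0) (nat_lit 31465714114) (nat_lit 76) (nat_lit 38191681217) (nat_lit 76) (nat_lit 12799531864) (nat_lit 169) (nat_lit 4) (nat_lit 170) (nat_lit 5) (nat_lit 170) (nat_lit 4) (nat_lit 435) (nat_lit 349) (nat_lit 236))) (XT.nd (nat_lit 78) (nat_lit 0) (nat_lit 0) (XT.lf (nat_lit 0) (nat_lit 3741540631) (nat_lit 76) (nat_lit 10472403767) (nat_lit 152) (nat_lit 70954453044) (nat_lit 167) (nat_lit 5) (nat_lit 168) (nat_lit 5) (nat_lit 169) (nat_lit 4) (nat_lit 436) (nat_lit 349) (nat_lit 235)) (XT.lf (nat_lit 0) (nat_lit 43305497260) (nat_lit 152) (nat_lit 25528180831) (nat_lit 0) (nat_lit 19113394141) (nat_lit 167) (nat_lit 5) (nat_lit 169) (nat_lit 4) (nat_lit 167) (nat_lit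 4) (nat_lit 437) (nat_lit 349) (nat_lit 234)))))) (XT.nd (nat_lit 624) (nat_lit 532) (nat_lit 0) (XT.nd (nat_lit 312) (nat_lit 380) (nat_lit 0) (XT.nd (nat_lit 156) (nat_lit 76) (nat_lit 0) (XT.nd (nat_lit 78) (nat_lit 152) (nat_lit 0) (XT.lf (nat_lit 0) (nat_lit 34062777970) (nat_lit 76) (nat_lit 40481794038) (nat_lit 76) (nat_lit 16285461541) (nat_lit 166) (nat_lit 4) (nat_lit 167) (nat_lit 5) (nat_lit 167) (nat_lit 4) (nat_lit 438) (nat_lit 349) (nat_lit 233)) (XT.lf (nat_lit 0) (nat_lit 3559071025) (nat_lit 76) (nat_lit 9982115072) (nat_lit 152) (nat_lit 80281205033) (nat_lit 164) (nat_lit 5) (nat_lit 165) (nat_lit 5) (nat_lit 166) (nat_lit 4) (nat_lit 439) (nat_lit 349) (nat_lit 232))) (XT.nd (nat_lit 78) (nat_lit 76) (nat_lit 0) (XT.lf (nat_lit 0) (nat_lit 45622624474) (nat_lit 152) (nat_lit 28691846923) (nat_lit 0) (nat_lit 22571008621) (nat_lit 164) (nat_lit 5) (nat_lit 166) (nat_lit 4)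 (nat_lit 164) (nat_lit 4) (nat_lit 440) (nat_lit 349) (nat_lit 231)) (XT.lf (nat_lit 0) (nat_lit 36957217396) (nat_lit 76) (nat_lit 43081535218) (nat_lit 76) (nat_lit 20026439845) (nat_lit 163) (nat_lit 4) (nat_lit 164) (nat_lit 5) (nat_lit 164) (nat_lit 4) (nat_lit 441) (nat_lit 349) (nat_lit 230)))) (XT.nd (nat_lit 156) (nat_lit 228) (nat_lit 0) (XT.nd (nat_lit 78) (nat_lit 0) (nat_lit 0) (XT.lf (nat_lit 0) (nat_lit 3386053006) (nat_lit 76) (nat_lit 9513684655) (nat_lit 152) (nat_lit 90467346771) (nat_lit 161) (nat_lit 5) (nat_lit 162) (nat_lit 5) (nat_lit 163) (nat_lit 4) (nat_lit 442) (nat_lit 349) (nat_lit 229)) (XT.lf (nat_lit 0) (nat_lit 48277233314) (nat_lit 152) (nat_lit 32152683265) (nat_lit 0) (nat_lit 26313837860) (nat_lit 161) (nat_lit 5) (nat_lit 163) (nat_lit 4) (nat_lit 161) (nat_lit 4) (nat_lit 443) (nat_lit 349) (nat_lit 228))) (XT.nd (nat_lit 78) (nat_lit 152) (nat_lit 0) (XT.lf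 (nat_lit 0) (nat_lit 40177804764) (nat_lit 76) (nat_lit 46019512778) (nat_lit 76) (nat_lit 24053254715) (nat_lit 160) (nat_lit 4) (nat_lit 161) (nat_lit 5) (nat_lit 161) (nat_lit 4) (nat_lit 444) (nat_lit 349) (nat_lit 227)) (XT.lf (nat_lit 0) (nat_lit 3221901298) (nat_lit 76) (nat_lit 9066335607) (nat_lit 152) (nat_lit 101605352456) (nat_lit 158) (nat_lit 5) (nat_lit 159) (nat_lit 5) (nat_lit 160) (nat_lit 4) (nat_lit 445) (nat_lit 349) (nat_lit 226))))) (XT.nd (nat_lit 312) (nat_lit 304) (nat_lit 0) (XT.nd (nat_lit 156) (nat_lit 152) (nat_lit 0) (XT.nd (nat_lit 78) (nat_lit 76) (nat_lit 0) (XT.lf (nat_lit 0) (nat_lit 51299342211) (nat_lit 152) (nat_lit 35942627879) (nat_lit 0) (nat_lit 30374027136) (nat_lit 158) (nat_lit 5) (nat_lit 160) (nat_lit 4) (nat_lit 158) (nat_lit 4) (nat_lit 446) (nat_lit 349) (nat_lit 225)) (XT.lf (nat_lit 0) (nat_lit 43756382693) (nat_lit 76) (nat_lit 49327338511)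 (nat_lit 76) (nat_lit 28399668360) (nat_lit 157) (nat_lit 4) (nat_lit 158) (nat_lit 5) (nat_lit 158) (nat_lit 4) (nat_lit 447) (nat_lit 349) (nat_lit 224))) (XT.nd (nat_lit 78) (nat_lit 0) (nat_lit 0) (XT.lf (nat_lit 0) (nat_lit 3066082466) (nat_lit 76) (nat_lit 8639281214) (nat_lit 152) (nat_lit 113797003827) (nat_lit 155) (nat_lit 5) (nat_lit 156) (nat_lit 5) (nat_lit 157) (nat_lit 4) (nat_lit 448) (nat_lit 349) (nat_lit 223)) (XT.lf (nat_lit 0) (nat_lit 54722231056) (nat_lit 152) (nat_lit 40096788835) (nat_lit 0) (nat_lit 34786946101) (nat_lit 155) (nat_lit 5) (nat_lit 157) (nat_lit 4) (nat_lit 155) (nat_lit 4) (nat_lit 449) (nat_lit 349) (nat_lit 222)))) (XT.nd (nat_lit 156) (nat_lit 76) (nat_lit 0) (XT.nd (nat_lit 78) (nat_lit 152) (nat_lit 0) (XT.lf (nat_lit 0) (nat_lit 47728165947) (nat_lit 76) (nat_lit 53039946208) (nat_lit 76) (nat_lit 33102723726) (nat_lit 154) (nat_lit 4) (nat_lit 155)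 (nat_lit 5) (nat_lit 155) (nat_lit 4) (nat_lit 450) (nat_lit 349) (nat_lit 221)) (XT.lf (nat_lit 0) (nat_lit 2918108200) (nat_lit 76) (nat_lit 8231733724) (nat_lit 152) (nat_lit 127154345628) (nat_lit 152) (nat_lit 5) (nat_lit 153) (nat_lit 5) (nat_lit 154) (nat_lit 4) (nat_lit 451) (nat_lit 349) (nat_lit 220))) (XT.nd (nat_lit 78) (nat_lit 76) (nat_lit 0) (XT.lf (nat_lit 0) (nat_lit 58582772596) (nat_lit 152) (nat_lit 44653780005) (nat_lit 0) (nat_lit 39591510559) (nat_lit 152) (nat_lit 5) (nat_lit 154) (nat_lit 4) (nat_lit 152) (nat_lit 4) (nat_lit 452) (nat_lit 349) (nat_lit 219)) (XT.lf (nat_lit 0) (nat_lit 52132076130) (nat_lit 76) (nat_lit 57195939584) (nat_lit 76) (nat_lit 38203083539) (nat_lit 151) (nat_lit 4) (nat_lit 152) (nat_lit 5) (nat_lit 152) (nat_lit 4) (nat_lit 453) (nat_lit 349) (nat_lit 218))))))) (XT.nd (nat_lit 1248) (nat_lit 1140) (nat_lit 0) (XT.nd (nat_lit 624) (nat_lit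 684) (nat_lit 0) (XT.nd (nat_lit 312) (nat_lit 228) (nat_lit 0) (XT.nd (nat_lit 156) (nat_lit 228) (nat_lit 0) (XT.nd (nat_lit 78) (nat_lit 0) (nat_lit 0) (XT.lf (nat_lit 0) (nat_lit 2777529663) (nat_lit 76) (nat_lit 7842911219) (nat_lit 152) (nat_lit 141800740121) (nat_lit 149) (nat_lit 5) (nat_lit 150) (nat_lit 5) (nat_lit 151) (nat_lit 4) (nat_lit 454) (nat_lit 349) (nat_lit 217)) (XT.lf (nat_lit 0) (nat_lit 62921796900) (nat_lit 152) (nat_lit 49656089670) (nat_lit 0) (nat_lit 44830539795) (nat_lit 149) (nat_lit 5) (nat_lit 151) (nat_lit 4) (nat_lit 149) (nat_lit 4) (nat_lit 455) (nat_lit 349) (nat_lit 216))) (XT.nd (nat_lit 78) (nat_lit 152) (nat_lit 0) (XT.lf (nat_lit 0) (nat_lit 57011112234) (nat_lit 76) (nat_lit 61837973503) (nat_lit 76) (nat_lit 43745405005) (nat_lit 148) (nat_lit 4) (nat_lit 149) (nat_lit 5) (nat_lit 149) (nat_lit 4) (nat_lit 456) (nat_lit 349) (nat_lit 215)) (XT.lf (nat_lit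 0) (nat_lit 2643932743) (nat_lit 76) (nat_lit 7472042958) (nat_lit 152) (nat_lit 157872030552) (nat_lit 146) (nat_lit 5) (nat_lit 147) (nat_lit 5) (nat_lit 148) (nat_lit 4) (nat_lit 457) (nat_lit 349) (nat_lit 214)))) (XT.nd (nat_lit 156) (nat_lit 152) (nat_lit 0) (XT.nd (nat_lit 78) (nat_lit 76) (nat_lit 0) (XT.lf (nat_lit 0) (nat_lit 67784492494) (nat_lit 152) (nat_lit 55150485608) (nat_lit 0) (nat_lit 50551152571) (nat_lit 146) (nat_lit 5) (nat_lit 148) (nat_lit 4) (nat_lit 146) (nat_lit 4) (nat_lit 458) (nat_lit 349) (nat_lit 213)) (XT.lf (nat_lit 0) (nat_lit 62412760464) (nat_lit 76) (nat_lit 67013172388) (nat_lit 76) (nat_lit 49778753578) (nat_lit 145) (nat_lit 4) (nat_lit 146) (nat_lit 5) (nat_lit 146) (nat_lit 4) (nat_lit 459) (nat_lit 349) (nat_lit 212))) (XT.nd (nat_lit 78) (nat_lit 0) (nat_lit 0) (XT.lf (nat_lit 0) (nat_lit 2516934025) (nat_lit 76) (nat_lit 7118373461) (nat_lit 152)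 (nat_lit 175517824506) (nat_lit 143) (nat_lit 5) (nat_lit 144) (nat_lit 5) (nat_lit 145) (nat_lit 4) (nat_lit 460) (nat_lit 349) (nat_lit 211)) (XT.lf (nat_lit 0) (nat_lit 73220848133) (nat_lit 152) (nat_lit 61188460622) (nat_lit 0) (nat_lit 56805205367) (nat_lit 143) (nat_lit 5) (nat_lit 145) (nat_lit 4) (nat_lit 143) (nat_lit 4) (nat_lit 461) (nat_lit 349) (nat_lit 210))))) (XT.nd (nat_lit 312) (nat_lit 380) (nat_lit 0) (XT.nd (nat_lit 156) (nat_lit 76) (nat_lit 0) (XT.nd (nat_lit 78) (nat_lit 152) (nat_lit 0) (XT.lf (nat_lit 0) (nat_lit 68389447147) (nat_lit 76) (nat_lit 72773590006) (nat_lit 76) (nat_lit 56357059637) (nat_lit 142) (nat_lit 4) (nat_lit 143) (nat_lit 5) (nat_lit 143) (nat_lit 4) (nat_lit 462) (nat_lit 349) (nat_lit 209)) (XT.lf (nat_lit 0) (nat_lit 2396177388) (nat_lit 76) (nat_lit 6781165584) (nat_lit 152) (nat_lit 194902909284) (nat_lit 140) (nat_lit 5) (nat_lit 141) (nat_lit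 5) (nat_lit 142) (nat_lit 4) (nat_lit 463) (nat_lit 349) (nat_lit 208))) (XT.nd (nat_lit 78) (nat_lit 76) (nat_lit 0) (XT.lf (nat_lit 0) (nat_lit 79286139496) (nat_lit 152) (nat_lit 67826722820) (nat_lit 0) (nat_lit 63649776841) (nat_lit 140) (nat_lit 5) (nat_lit 142) (nat_lit 4) (nat_lit 140) (nat_lit 4) (nat_lit 464) (nat_lit 349) (nat_lit 207)) (XT.lf (nat_lit 0) (nat_lit 74999038983) (nat_lit 76) (nat_lit 79176715195) (nat_lit 76) (nat_lit 63539622307) (nat_lit 139) (nat_lit 4) (nat_lit 140) (nat_lit 5) (nat_lit 140) (nat_lit 4) (nat_lit 465) (nat_lit 349) (nat_lit 206)))) (XT.nd (nat_lit 156) (nat_lit 228) (nat_lit 0) (XT.nd (nat_lit 78) (nat_lit 0) (nat_lit 0) (XT.lf (nat_lit 0) (nat_lit 2281331103) (nat_lit 76) (nat_lit 6459702775) (nat_lit 152) (nat_lit 216208812675) (nat_lit 137) (nat_lit 5) (nat_lit 138) (nat_lit 5) (nat_lit 139) (nat_lit 4) (nat_lit 466) (nat_lit 349) (nat_lit 205))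 (XT.lf (nat_lit 0) (nat_lit 86041465556) (nat_lit 152) (nat_lit 75127735388) (nat_lit 0) (nat_lit 71147702992) (nat_lit 137) (nat_lit 5) (nat_lit 139) (nat_lit 4) (nat_lit 137) (nat_lit 4) (nat_lit 467) (nat_lit 349) (nat_lit 204))) (XT.nd (nat_lit 78) (nat_lit 152) (nat_lit 0) (XT.lf (nat_lit 0) (nat_lit 82305395315) (nat_lit 76) (nat_lit 86286028476) (nat_lit 76) (nat_lit 71391665147) (nat_lit 136) (nat_lit 4) (nat_lit 137) (nat_lit 5) (nat_lit 137) (nat_lit 4) (nat_lit 468) (nat_lit 349) (nat_lit 203)) (XT.lf (nat_lit 0) (nat_lit 2172085349) (nat_lit 76) (nat_lit 6153290667) (nat_lit 152) (nat_lit 239635523933) (nat_lit 134) (nat_lit 5) (nat_lit 135) (nat_lit 5) (nat_lit 136) (nat_lit 4) (nat_lit 469) (nat_lit 349) (nat_lit 202)))))) (XT.nd (nat_lit 624) (nat_lit 608) (nat_lit 0) (XT.nd (nat_lit 312) (nat_lit 304) (nat_lit 0) (XT.nd (nat_lit 156) (nat_lit 152) (nat_lit 0) (XT.nd (nat_lit 78)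 (nat_lit 76) (nat_lit 0) (XT.lf (nat_lit 0) (nat_lit 93554339786) (nat_lit 152) (nat_lit 83160311055) (nat_lit 0) (nat_lit 79368167979) (nat_lit 134) (nat_lit 5) (nat_lit 136) (nat_lit 4) (nat_lit 134) (nat_lit 4) (nat_lit 470) (nat_lit 349) (nat_lit 201)) (XT.lf (nat_lit 0) (nat_lit 90378977665) (nat_lit 76) (nat_lit 94171614991) (nat_lit 76) (nat_lit 79984948934) (nat_lit 133) (nat_lit 4) (nat_lit 134) (nat_lit 5) (nat_lit 134) (nat_lit 4) (nat_lit 471) (nat_lit 349) (nat_lit 200))) (XT.nd (nat_lit 78) (nat_lit 0) (nat_lit 0) (XT.lf (nat_lit 0) (nat_lit 2068150092) (nat_lit 76) (nat_lit 5861258134) (nat_lit 152) (nat_lit 265403391273) (nat_lit 131) (nat_lit 5) (nat_lit 132) (nat_lit 5) (nat_lit 133) (nat_lit 4) (nat_lit 472) (nat_lit 349) (nat_lit 199)) (XT.lf (nat_lit 0) (nat_lit 101899341921) (nat_lit 152) (nat_lit 92000266939) (nat_lit 0) (nat_lit 88387356138) (nat_lit 131) (nat_lit 5) (nat_lit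 133) (nat_lit 4) (nat_lit 131) (nat_lit 4) (nat_lit 473) (nat_lit 349) (nat_lit 198)))) (XT.nd (nat_lit 156) (nat_lit 76) (nat_lit 0) (XT.nd (nat_lit 78) (nat_lit 152) (nat_lit 0) (XT.lf (nat_lit 0) (nat_lit 99297522282) (nat_lit 76) (nat_lit 102910839705) (nat_lit 76) (nat_lit 89398447300) (nat_lit 130) (nat_lit 4) (nat_lit 131) (nat_lit 5) (nat_lit 131) (nat_lit 4) (nat_lit 474) (nat_lit 349) (nat_lit 197)) (XT.lf (nat_lit 0) (nat_lit 1969253247) (nat_lit 76) (nat_lit 5582957928) (nat_lit 152) (nat_lit 293755213927) (nat_lit 128) (nat_lit 5) (nat_lit 129) (nat_lit 5) (nat_lit 130) (nat_lit 4) (nat_lit 475) (nat_lit 349) (nat_lit 196))) (XT.nd (nat_lit 78) (nat_lit 76) (nat_lit 0) (XT.lf (nat_lit 0) (nat_lit 111158836524) (nat_lit 152) (nat_lit 101731146064) (nat_lit 0) (nat_lit 98289171304) (nat_lit 128) (nat_lit 5) (nat_lit 130) (nat_lit 4) (nat_lit 128) (nat_lit 4) (nat_lit 476) (nat_lit 349)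 (nat_lit 195)) (XT.lf (nat_lit 0) (nat_lit 109146782092) (nat_lit 76) (nat_lit 112589091380) (nat_lit 76) (nat_lit 99719091633) (nat_lit 127) (nat_lit 4) (nat_lit 128) (nat_lit 5) (nat_lit 128) (nat_lit 4) (nat_lit 477) (nat_lit 349) (nat_lit 194))))) (XT.nd (nat_lit 312) (nat_lit 228) (nat_lit 0) (XT.nd (nat_lit 156) (nat_lit 228) (nat_lit 0) (XT.nd (nat_lit 78) (nat_lit 0) (nat_lit 0) (XT.lf (nat_lit 0) (nat_lit 1875139089) (nat_lit 76) (nat_lit 5317766976) (nat_lit 152) (nat_lit 324958548623) (nat_lit 125) (nat_lit 5) (nat_lit 126) (nat_lit 5) (nat_lit 127) (nat_lit 4) (nat_lit 478) (nat_lit 349) (nat_lit 193)) (XT.lf (nat_lit 0) (nat_lit 121423765261) (nat_lit 152) (nat_lit 112445012442) (nat_lit 0) (nat_lit 109166030239) (nat_lit 125) (nat_lit 5) (nat_lit 127) (nat_lit 4) (nat_lit 125) (nat_lit 4) (nat_lit 479) (nat_lit 349) (nat_lit 192))) (XT.nd (nat_lit 78) (nat_lit 152) (nat_lit 0) (XT.lf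 (nat_lit 0) (nat_lit 120021345082) (nat_lit 76) (nat_lit 123300602503) (nat_lit 76) (nat_lit 111042592264) (nat_lit 124) (nat_lit 4) (nat_lit 125) (nat_lit 5) (nat_lit 125) (nat_lit 4) (nat_lit 480) (nat_lit 349) (nat_lit 191)) (XT.lf (nat_lit 0) (nat_lit 1785566873) (nat_lit 76) (nat_lit 5065086406) (nat_lit 152) (nat_lit 359308252441) (nat_lit 122) (nat_lit 5) (nat_lit 123) (nat_lit 5) (nat_lit 124) (nat_lit 4) (nat_lit 481) (nat_lit 349) (nat_lit 190)))) (XT.nd (nat_lit 156) (nat_lit 152) (nat_lit 0) (XT.nd (nat_lit 78) (nat_lit 76) (nat_lit 0) (XT.lf (nat_lit 0) (nat_lit 132794520478) (nat_lit 152) (nat_lit 124243327318) (nat_lit 0) (nat_lit 121119737639) (nat_lit 122) (nat_lit 5) (nat_lit 124) (nat_lit 4) (nat_lit 122) (nat_lit 4) (nat_lit 482) (nat_lit 349) (nat_lit 189)) (XT.lf (nat_lit 0) (nat_lit 132025536917) (nat_lit 76) (nat_lit 135149353018) (nat_lit 76) (nat_lit 123474343757) (nat_lit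 121) (nat_lit 4) (nat_lit 122) (nat_lit 5) (nat_lit 122) (nat_lit 4) (nat_lit 483) (nat_lit 349) (nat_lit 188))) (XT.nd (nat_lit 78) (nat_lit 0) (nat_lit 0) (XT.lf (nat_lit 0) (nat_lit 1700309623) (nat_lit 76) (nat_lit 4824341364) (nat_lit 152) (nat_lit 397129286230) (nat_lit 119) (nat_lit 5) (nat_lit 120) (nat_lit 5) (nat_lit 121) (nat_lit 4) (nat_lit 484) (nat_lit 349) (nat_lit 187)) (XT.lf (nat_lit 0) (nat_lit 145381908432) (nat_lit 152) (nat_lit 137237914946) (nat_lit 0) (nat_lit 134262451030) (nat_lit 119) (nat_lit 5) (nat_lit 121) (nat_lit 4) (nat_lit 119) (nat_lit 4) (nat_lit 485) (nat_lit 349) (nat_lit 186))))))))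
noncomputable def xc160 : XT := (XT.nd (nat_lit 43212) (nat_lit 0) (nat_lit 10716) (XT.nd (nat_lit 42588) (nat_lit 0) (nat_lit 14744) (XT.nd (nat_lit 312) (nat_lit 228) (nat_lit 0) (XT.nd (nat_lit 156) (nat_lit 76) (nat_lit 0) (XT.nd (nat_lit 78) (nat_lit 152) (nat_lit 0) (XT.lf (nat_lit 0) (nat_lit 145274416349) (nat_lit 76) (nat_lit 148250066543) (nat_lit 76) (nat_lit 137130422863) (nat_lit 118) (nat_lit 4) (nat_lit 119) (nat_lit 5) (nat_lit 119) (nat_lit 4) (nat_lit 486) (nat_lit 349) (nat_lit 185)) (XT.lf (nat_lit 0) (nat_lit 1619153065) (nat_lit 76) (nat_lit 4594980667) (nat_lit 152) (nat_lit 438779805268) (nat_lit 116) (nat_lit 5) (nat_lit 117) (nat_lit 5) (nat_lit 118) (nat_lit 4) (nat_lit 487) (nat_lit 349) (nat_lit 184))) (XT.nd (nat_lit 78) (nat_lit 76) (nat_lit 0) (XT.lf (nat_lit 0) (nat_lit 159308211391) (nat_lit 152) (nat_lit 151552027119) (nat_lit 0) (nat_lit 148717744679) (nat_lit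 116) (nat_lit 5) (nat_lit 118) (nat_lit 4) (nat_lit 116) (nat_lit 4) (nat_lit 488) (nat_lit 349) (nat_lit 183)) (XT.lf (nat_lit 0) (nat_lit 159894872913) (nat_lit 76) (nat_lit 162729308604) (nat_lit 76) (nat_lit 152138688641) (nat_lit 115) (nat_lit 4) (nat_lit 116) (nat_lit 5) (nat_lit 116) (nat_lit 4) (nat_lit 489) (nat_lit 349) (nat_lit 182)))) (XT.nd (nat_lit 156) (nat_lit 76) (nat_lit 0) (XT.nd (nat_lit 78) (nat_lit 0) (nat_lit 0) (XT.lf (nat_lit 0) (nat_lit 1541894692) (nat_lit 76) (nat_lit 4376476336) (nat_lit 152) (nat_lit 484654566596) (nat_lit 113) (nat_lit 5) (nat_lit 114) (nat_lit 5) (nat_lit 115) (nat_lit 4) (nat_lit 490) (nat_lit 349) (nat_lit 181)) (XT.lf (nat_lit 0) (nat_lit 174708358755) (nat_lit 152) (nat_lit 167321516591) (nat_lit 0) (nat_lit 164621782641) (nat_lit 113) (nat_lit 5) (nat_lit 115) (nat_lit 4) (nat_lit 113) (nat_lit 4) (nat_lit 491) (nat_lit 349) (nat_lit 180)))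 (XT.nd (nat_lit 42042) (nat_lit 0) (nat_lit 15884) (XT.lf (nat_lit 0) (nat_lit 176026837353) (nat_lit 76) (nat_lit 178726697383) (nat_lit 76) (nat_lit 168639995188) (nat_lit 112) (nat_lit 4) (nat_lit 113) (nat_lit 5) (nat_lit 113) (nat_lit 4) (nat_lit 492) (nat_lit 349) (nat_lit 179)) (XT.lf (nat_lit 0) (nat_lit 1189983072) (nat_lit 0) (nat_lit 1189983072) (nat_lit 532) (nat_lit 1416455241) (nat_lit 321) (nat_lit 5) (nat_lit 321) (nat_lit 3) (nat_lit 328) (nat_lit 3) (nat_lit 350) (nat_lit 350) (nat_lit 320))))) (XT.nd (nat_lit 312) (nat_lit 532) (nat_lit 0) (XT.nd (nat_lit 156) (nat_lit 608) (nat_lit 0) (XT.nd (nat_lit 78) (nat_lit 0) (nat_lit 0) (XT.lf (nat_lit 0) (nat_lit 6262579282) (nat_lit 532) (nat_lit 1394693921) (nat_lit 608) (nat_lit 56208204) (nat_lit 321) (nat_lit 5) (nat_lit 328) (nat_lit 3) (nat_lit 329) (nat_lit 5) (nat_lit 351) (nat_lit 350) (nat_lit 319)) (XT.lf (nat_lit 76) (nat_lit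 2609530362) (nat_lit 0) (nat_lit 5222764382) (nat_lit 608) (nat_lit 8260424) (nat_lit 322) (nat_lit 5) (nat_lit 321) (nat_lit 5) (nat_lit 329) (nat_lit 5) (nat_lit 352) (nat_lit 350) (nat_lit 318))) (XT.nd (nat_lit 78) (nat_lit 0) (nat_lit 76) (XT.lf (nat_lit 0) (nat_lit 1396520749) (nat_lit 608) (nat_lit 1185736230) (nat_lit 684) (nat_lit 5393638331) (nat_lit 313) (nat_lit 5) (nat_lit 321) (nat_lit 5) (nat_lit 322) (nat_lit 5) (nat_lit 353) (nat_lit 350) (nat_lit 317)) (XT.lf (nat_lit 0) (nat_lit 2842439218) (nat_lit 608) (nat_lit 5011600892) (nat_lit 684) (nat_lit 265396787) (nat_lit 314) (nat_lit 5) (nat_lit 322) (nat_lit 5) (nat_lit 323) (nat_lit 5) (nat_lit 354) (nat_lit 350) (nat_lit 316)))) (XT.nd (nat_lit 156) (nat_lit 608) (nat_lit 0) (XT.nd (nat_lit 78) (nat_lit 0) (nat_lit 0) (XT.lf (nat_lit 0) (nat_lit 4345311510) (nat_lit 608) (nat_lit 707137159) (nat_lit 684) (nat_lit 3218474000)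 (nat_lit 314) (nat_lit 5) (nat_lit 322) (nat_lit 5) (nat_lit 323) (nat_lit 5) (nat_lit 355) (nat_lit 350) (nat_lit 315)) (XT.lf (nat_lit 76) (nat_lit 3886880588) (nat_lit 0) (nat_lit 2022765837) (nat_lit 684) (nat_lit 2521020354) (nat_lit 315) (nat_lit 5) (nat_lit 314) (nat_lit 5) (nat_lit 323) (nat_lit 5) (nat_lit 356) (nat_lit 350) (nat_lit 314))) (XT.nd (nat_lit 78) (nat_lit 684) (nat_lit 0) (XT.lf (nat_lit 76) (nat_lit 68051697) (nat_lit 0) (nat_lit 7444221363) (nat_lit 684) (nat_lit 1088121286) (nat_lit 316) (nat_lit 5) (nat_lit 315) (nat_lit 5) (nat_lit 324) (nat_lit 5) (nat_lit 357) (nat_lit 350) (nat_lit 313)) (XT.lf (nat_lit 0) (nat_lit 444671777) (nat_lit 684) (nat_lit 3802096446) (nat_lit 760) (nat_lit 4529436132) (nat_lit 306) (nat_lit 5) (nat_lit 315) (nat_lit 5) (nat_lit 316) (nat_lit 5) (nat_lit 358) (nat_lit 350) (nat_lit 312)))))) (XT.nd (nat_lit 624) (nat_lit 1748) (nat_lit 0)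 (XT.nd (nat_lit 312) (nat_lit 1672) (nat_lit 0) (XT.nd (nat_lit 156) (nat_lit 608) (nat_lit 0) (XT.nd (nat_lit 78) (nat_lit 0) (nat_lit 76) (XT.lf (nat_lit 76) (nat_lit 1130980472) (nat_lit 0) (nat_lit 837741749) (nat_lit 760) (nat_lit 6993631455) (nat_lit 307) (nat_lit 5) (nat_lit 306) (nat_lit 5) (nat_lit 316) (nat_lit 5) (nat_lit 359) (nat_lit 350) (nat_lit 311)) (XT.lf (nat_lit 0) (nat_lit 3613322637) (nat_lit 684) (nat_lit 2810350626) (nat_lit 76) (nat_lit 2731919828) (nat_lit 307) (nat_lit 5) (nat_lit 316) (nat_lit 5) (nat_lit 308) (nat_lit 5) (nat_lit 360) (nat_lit 350) (nat_lit 310))) (XT.nd (nat_lit 78) (nat_lit 0) (nat_lit 0) (XT.lf (nat_lit 0) (nat_lit 2475202640) (nat_lit 684) (nat_lit 2856467175) (nat_lit 760) (nat_lit 4027248824) (nat_lit 298) (nat_lit 5) (nat_lit 307) (nat_lit 5) (nat_lit 308) (nat_lit 5) (nat_lit 361) (nat_lit 350) (nat_lit 309)) (XT.lf (nat_lit 0) (nat_lit 7139546792)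 (nat_lit 760) (nat_lit 1516316415) (nat_lit 76) (nat_lit 916366635) (nat_lit 298) (nat_lit 5) (nat_lit 308) (nat_lit 5) (nat_lit 299) (nat_lit 5) (nat_lit 362) (nat_lit 350) (nat_lit 308)))) (XT.nd (nat_lit 156) (nat_lit 380) (nat_lit 0) (XT.nd (nat_lit 78) (nat_lit 532) (nat_lit 0) (XT.lf (nat_lit 0) (nat_lit 4153933133) (nat_lit 760) (nat_lit 4939715134) (nat_lit 836) (nat_lit 699766807) (nat_lit 288) (nat_lit 5) (nat_lit 298) (nat_lit 5) (nat_lit 299) (nat_lit 5) (nat_lit 363) (nat_lit 350) (nat_lit 307)) (XT.lf (nat_lit 0) (nat_lit 67596276) (nat_lit 456) (nat_lit 988644480) (nat_lit 532) (nat_lit 8969930356) (nat_lit 281) (nat_lit 5) (nat_lit 287) (nat_lit 5) (nat_lit 288) (nat_lit 5) (nat_lit 364) (nat_lit 350) (nat_lit 306))) (XT.nd (nat_lit 78) (nat_lit 380) (nat_lit 0) (XT.lf (nat_lit 0) (nat_lit 2969895777) (nat_lit 532) (nat_lit 4126794868) (nat_lit 76) (nat_lit 3168632536) (nat_lit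 281) (nat_lit 5) (nat_lit 288) (nat_lit 5) (nat_lit 282) (nat_lit 5) (nat_lit 365) (nat_lit 350) (nat_lit 305)) (XT.lf (nat_lit 0) (nat_lit 1992274566) (nat_lit 380) (nat_lit 2983751870) (nat_lit 456) (nat_lit 5540566774) (nat_lit 276) (nat_lit 5) (nat_lit 281) (nat_lit 5) (nat_lit 282) (nat_lit 5) (nat_lit 366) (nat_lit 350) (nat_lit 304))))) (XT.nd (nat_lit 312) (nat_lit 988) (nat_lit 0) (XT.nd (nat_lit 156) (nat_lit 380) (nat_lit 0) (XT.nd (nat_lit 78) (nat_lit 380) (nat_lit 0) (XT.lf (nat_lit 0) (nat_lit 7125395880) (nat_lit 456) (nat_lit 2291781650) (nat_lit 76) (nat_lit 1361102597) (nat_lit 276) (nat_lit 5) (nat_lit 282) (nat_lit 5) (nat_lit 277) (nat_lit 5) (nat_lit 367) (nat_lit 350) (nat_lit 303)) (XT.lf (nat_lit 0) (nat_lit 4289882083) (nat_lit 380) (nat_lit 5161630150) (nat_lit 456) (nat_lit 1598075236) (nat_lit 271) (nat_lit 5) (nat_lit 276) (nat_lit 5) (nat_lit 277) (nat_lit 5) (nat_lit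 368) (nat_lit 350) (nat_lit 302))) (XT.nd (nat_lit 78) (nat_lit 304) (nat_lit 0) (XT.lf (nat_lit 0) (nat_lit 535101019) (nat_lit 456) (nat_lit 113282835) (nat_lit 76) (nat_lit 10685962901) (nat_lit 270) (nat_lit 5) (nat_lit 276) (nat_lit 5) (nat_lit 271) (nat_lit 5) (nat_lit 369) (nat_lit 350) (nat_lit 301)) (XT.lf (nat_lit 0) (nat_lit 2853024839) (nat_lit 380) (nat_lit 4680104407) (nat_lit 76) (nat_lit 4092315135) (nat_lit 266) (nat_lit 5) (nat_lit 271) (nat_lit 5) (nat_lit 267) (nat_lit 5) (nat_lit 370) (nat_lit 350) (nat_lit 300)))) (XT.nd (nat_lit 156) (nat_lit 684) (nat_lit 0) (XT.nd (nat_lit 78) (nat_lit 0) (nat_lit 0) (XT.lf (nat_lit 0) (nat_lit 2447123436) (nat_lit 304) (nat_lit 2848013217) (nat_lit 380) (nat_lit 6635545644) (nat_lit 262) (nat_lit 5) (nat_lit 266) (nat_lit 5) (nat_lit 267) (nat_lit 5) (nat_lit 371) (nat_lit 350) (nat_lit 299)) (XT.lf (nat_lit 0) (nat_lit 7930879242) (nat_lit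 380) (nat_lit 2239147971) (nat_lit 76) (nat_lit 2077578638) (nat_lit 262) (nat_lit 5) (nat_lit 267) (nat_lit 5) (nat_lit 263) (nat_lit 5) (nat_lit 372) (nat_lit 350) (nat_lit 298))) (XT.nd (nat_lit 78) (nat_lit 380) (nat_lit 0) (XT.lf (nat_lit 0) (nat_lit 5446069504) (nat_lit 304) (nat_lit 5344653076) (nat_lit 380) (nat_lit 1785037322) (nat_lit 258) (nat_lit 5) (nat_lit 262) (nat_lit 5) (nat_lit 263) (nat_lit 5) (nat_lit 373) (nat_lit 350) (nat_lit 297)) (XT.lf (nat_lit 0) (nat_lit 631280957) (nat_lit 304) (nat_lit 223497309) (nat_lit 380) (nat_lit 12064387162) (nat_lit 253) (nat_lit 5) (nat_lit 257) (nat_lit 5) (nat_lit 258) (nat_lit 5) (nat_lit 374) (nat_lit 350) (nat_lit 296)))))))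
noncomputable def xc161 : XT := (XT.nd (nat_lit 1248) (nat_lit 1748) (nat_lit 0) (XT.nd (nat_lit 624) (nat_lit 1064) (nat_lit 0) (XT.nd (nat_lit 312) (nat_lit 760) (nat_lit 0) (XT.nd (nat_lit 156) (nat_lit 304) (nat_lit 0) (XT.nd (nat_lit 78) (nat_lit 228) (nat_lit 0) (XT.lf (nat_lit 0) (nat_lit 3731797431) (nat_lit 380) (nat_lit 4408033248) (nat_lit 76) (nat_lit 5130187318) (nat_lit 253) (nat_lit 5) (nat_lit 258) (nat_lit 5) (nat_lit 254) (nat_lit 5) (nat_lit 375) (nat_lit 350) (nat_lit 295)) (XT.lf (nat_lit 0) (nat_lit 3940209770) (nat_lit 228) (nat_lit 2841461889) (nat_lit 304) (nat_lit 6855291333) (nat_lit 250) (nat_lit 5) (nat_lit 253) (nat_lit 5) (nat_lit 254) (nat_lit 5) (nat_lit 376) (nat_lit 350) (nat_lit 294))) (XT.nd (nat_lit 78) (nat_lit 304) (nat_lit 0) (XT.lf (nat_lit 0) (nat_lit 10067029461) (nat_lit 304) (nat_lit 1252184109) (nat_lit 76) (nat_lit 2698892171) (nat_lit 250) (nat_lit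 5) (nat_lit 254) (nat_lit 5) (nat_lit 251) (nat_lit 5) (nat_lit 377) (nat_lit 350) (nat_lit 293)) (XT.lf (nat_lit 0) (nat_lit 7770208990) (nat_lit 304) (nat_lit 5880645633) (nat_lit 380) (nat_lit 760741032) (nat_lit 246) (nat_lit 5) (nat_lit 250) (nat_lit 5) (nat_lit 251) (nat_lit 5) (nat_lit 378) (nat_lit 350) (nat_lit 292)))) (XT.nd (nat_lit 156) (nat_lit 456) (nat_lit 0) (XT.nd (nat_lit 78) (nat_lit 0) (nat_lit 0) (XT.lf (nat_lit 0) (nat_lit 2454409965) (nat_lit 228) (nat_lit 78363109) (nat_lit 304) (nat_lit 12288639334) (nat_lit 242) (nat_lit 5) (nat_lit 245) (nat_lit 5) (nat_lit 246) (nat_lit 5) (nat_lit 379) (nat_lit 350) (nat_lit 291)) (XT.lf (nat_lit 0) (nat_lit 6140922401) (nat_lit 304) (nat_lit 3166262288) (nat_lit 76) (nat_lit 5935135483) (nat_lit 242) (nat_lit 5) (nat_lit 246) (nat_lit 5) (nat_lit 243) (nat_lit 5) (nat_lit 380) (nat_lit 350) (nat_lit 290))) (XT.nd (nat_lit 78) (nat_lit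 228) (nat_lit 0) (XT.lf (nat_lit 0) (nat_lit 6661166806) (nat_lit 228) (nat_lit 3342463684) (nat_lit 304) (nat_lit 5676935270) (nat_lit 239) (nat_lit 5) (nat_lit 242) (nat_lit 5) (nat_lit 243) (nat_lit 5) (nat_lit 381) (nat_lit 350) (nat_lit 289)) (XT.lf (nat_lit 0) (nat_lit 887966541) (nat_lit 228) (nat_lit 13254902331) (nat_lit 304) (nat_lit 1993685010) (nat_lit 236) (nat_lit 5) (nat_lit 239) (nat_lit 5) (nat_lit 240) (nat_lit 5) (nat_lit 382) (nat_lit 350) (nat_lit 288))))) (XT.nd (nat_lit 312) (nat_lit 608) (nat_lit 0) (XT.nd (nat_lit 156) (nat_lit 152) (nat_lit 0) (XT.nd (nat_lit 78) (nat_lit 228) (nat_lit 0) (XT.lf (nat_lit 0) (nat_lit 1993498960) (nat_lit 304) (nat_lit 5136514173) (nat_lit 76) (nat_lit 9474878461) (nat_lit 235) (nat_lit 5) (nat_lit 239) (nat_lit 5) (nat_lit 236) (nat_lit 5) (nat_lit 383) (nat_lit 350) (nat_lit 287)) (XT.lf (nat_lit 0) (nat_lit 5583283082) (nat_lit 228) (nat_lit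 588067664) (nat_lit 304) (nat_lit 10920745801) (nat_lit 232) (nat_lit 5) (nat_lit 235) (nat_lit 5) (nat_lit 236) (nat_lit 5) (nat_lit 384) (nat_lit 350) (nat_lit 286))) (XT.nd (nat_lit 78) (nat_lit 152) (nat_lit 0) (XT.lf (nat_lit 0) (nat_lit 10716178407) (nat_lit 304) (nat_lit 725765162) (nat_lit 76) (nat_lit 6153814016) (nat_lit 232) (nat_lit 5) (nat_lit 236) (nat_lit 5) (nat_lit 233) (nat_lit 5) (nat_lit 385) (nat_lit 350) (nat_lit 285)) (XT.lf (nat_lit 0) (nat_lit 10893196293) (nat_lit 152) (nat_lit 4747721364) (nat_lit 228) (nat_lit 2476050508) (nat_lit 230) (nat_lit 5) (nat_lit 232) (nat_lit 5) (nat_lit 233) (nat_lit 5) (nat_lit 386) (nat_lit 350) (nat_lit 284)))) (XT.nd (nat_lit 156) (nat_lit 304) (nat_lit 0) (XT.nd (nat_lit 78) (nat_lit 0) (nat_lit 0) (XT.lf (nat_lit 0) (nat_lit 2172476581) (nat_lit 304) (nat_lit 14173770169) (nat_lit 76) (nat_lit 2311637959) (nat_lit 226) (nat_lit 5) (nat_lit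 230) (nat_lit 5) (nat_lit 227) (nat_lit 5) (nat_lit 387) (nat_lit 350) (nat_lit 283)) (XT.lf (nat_lit 0) (nat_lit 7145938890) (nat_lit 304) (nat_lit 2354807864) (nat_lit 76) (nat_lit 9714284759) (nat_lit 226) (nat_lit 5) (nat_lit 230) (nat_lit 5) (nat_lit 227) (nat_lit 5) (nat_lit 388) (nat_lit 350) (nat_lit 282))) (XT.nd (nat_lit 78) (nat_lit 152) (nat_lit 0) (XT.lf (nat_lit 0) (nat_lit 10345422615) (nat_lit 152) (nat_lit 2158977773) (nat_lit 228) (nat_lit 7288818964) (nat_lit 224) (nat_lit 5) (nat_lit 226) (nat_lit 5) (nat_lit 227) (nat_lit 5) (nat_lit 389) (nat_lit 350) (nat_lit 281)) (XT.lf (nat_lit 0) (nat_lit 3342649501) (nat_lit 152) (nat_lit 14942642156) (nat_lit 228) (nat_lit 2107299593) (nat_lit 222) (nat_lit 5) (nat_lit 224) (nat_lit 5) (nat_lit 225) (nat_lit 5) (nat_lit 390) (nat_lit 350) (nat_lit 280)))))) (XT.nd (nat_lit 624) (nat_lit 836) (nat_lit 0) (XT.nd (nat_lit 312) (nat_lit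 532) (nat_lit 0) (XT.nd (nat_lit 156) (nat_lit 152) (nat_lit 0) (XT.nd (nat_lit 78) (nat_lit 152) (nat_lit 0) (XT.lf (nat_lit 0) (nat_lit 3399918040) (nat_lit 228) (nat_lit 4044648062) (nat_lit 76) (nat_lit 13566098106) (nat_lit 221) (nat_lit 5) (nat_lit 224) (nat_lit 5) (nat_lit 222) (nat_lit 5) (nat_lit 391) (nat_lit 350) (nat_lit 279)) (XT.lf (nat_lit 0) (nat_lit 9251497344) (nat_lit 228) (nat_lit 11808543797) (nat_lit 76) (nat_lit 590881385) (nat_lit 219) (nat_lit 5) (nat_lit 222) (nat_lit 5) (nat_lit 220) (nat_lit 5) (nat_lit 392) (nat_lit 350) (nat_lit 278))) (XT.nd (nat_lit 78) (nat_lit 0) (nat_lit 0) (XT.lf (nat_lit 0) (nat_lit 2150484164) (nat_lit 152) (nat_lit 13447147905) (nat_lit 228) (nat_lit 6715462869) (nat_lit 217) (nat_lit 5) (nat_lit 219) (nat_lit 5) (nat_lit 220) (nat_lit 5) (nat_lit 393) (nat_lit 350) (nat_lit 277)) (XT.lf (nat_lit 0) (nat_lit 17178479205) (nat_lit 152) (nat_lit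 5259815616) (nat_lit 228) (nat_lit 561220084) (nat_lit 217) (nat_lit 5) (nat_lit 219) (nat_lit 5) (nat_lit 220) (nat_lit 5) (nat_lit 394) (nat_lit 350) (nat_lit 276)))) (XT.nd (nat_lit 156) (nat_lit 152) (nat_lit 0) (XT.nd (nat_lit 78) (nat_lit 152) (nat_lit 0) (XT.lf (nat_lit 0) (nat_lit 5892508754) (nat_lit 228) (nat_lit 14356368638) (nat_lit 76) (nat_lit 3457740414) (nat_lit 214) (nat_lit 5) (nat_lit 217) (nat_lit 5) (nat_lit 215) (nat_lit 5) (nat_lit 395) (nat_lit 350) (nat_lit 275)) (XT.lf (nat_lit 0) (nat_lit 932809631) (nat_lit 152) (nat_lit 11896432445) (nat_lit 228) (nat_lit 11610414824) (nat_lit 212) (nat_lit 5) (nat_lit 214) (nat_lit 5) (nat_lit 215) (nat_lit 5) (nat_lit 396) (nat_lit 350) (nat_lit 274))) (XT.nd (nat_lit 78) (nat_lit 152) (nat_lit 0) (XT.lf (nat_lit 0) (nat_lit 17447433260) (nat_lit 152) (nat_lit 2887155261) (nat_lit 228) (nat_lit 4863670605) (nat_lit 212) (nat_lit 5)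 (nat_lit 214) (nat_lit 5) (nat_lit 215) (nat_lit 5) (nat_lit 397) (nat_lit 350) (nat_lit 273)) (XT.lf (nat_lit 0) (nat_lit 2374595494) (nat_lit 152) (nat_lit 17081921178) (nat_lit 76) (nat_lit 6525278865) (nat_lit 210) (nat_lit 5) (nat_lit 212) (nat_lit 5) (nat_lit 211) (nat_lit 5) (nat_lit 398) (nat_lit 350) (nat_lit 272))))) (XT.nd (nat_lit 312) (nat_lit 532) (nat_lit 0) (XT.nd (nat_lit 156) (nat_lit 152) (nat_lit 0) (XT.nd (nat_lit 78) (nat_lit 152) (nat_lit 0) (XT.lf (nat_lit 0) (nat_lit 9971582053) (nat_lit 152) (nat_lit 311478765) (nat_lit 76) (nat_lit 16509448417) (nat_lit 210) (nat_lit 5) (nat_lit 212) (nat_lit 5) (nat_lit 211) (nat_lit 5) (nat_lit 399) (nat_lit 350) (nat_lit 271)) (XT.lf (nat_lit 0) (nat_lit 17833488411) (nat_lit 152) (nat_lit 373847984) (nat_lit 228) (nat_lit 9423476299) (nat_lit 208) (nat_lit 5) (nat_lit 210) (nat_lit 5) (nat_lit 211) (nat_lit 5) (nat_lit 400) (nat_lit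 350) (nat_lit 270))) (XT.nd (nat_lit 78) (nat_lit 76) (nat_lit 0) (XT.lf (nat_lit 0) (nat_lit 8465049413) (nat_lit 76) (nat_lit 18664609837) (nat_lit 152) (nat_lit 1367633037) (nat_lit 207) (nat_lit 5) (nat_lit 208) (nat_lit 5) (nat_lit 209) (nat_lit 4) (nat_lit 401) (nat_lit 350) (nat_lit 269)) (XT.lf (nat_lit 0) (nat_lit 7019537903) (nat_lit 152) (nat_lit 1572689471) (nat_lit 76) (nat_lit 20801558370) (nat_lit 206) (nat_lit 5) (nat_lit 208) (nat_lit 5) (nat_lit 207) (nat_lit 5) (nat_lit 402) (nat_lit 350) (nat_lit 268)))) (XT.nd (nat_lit 156) (nat_lit 304) (nat_lit 0) (XT.nd (nat_lit 78) (nat_lit 76) (nat_lit 0) (XT.lf (nat_lit 0) (nat_lit 16083901043) (nat_lit 228) (nat_lit 12015278134) (nat_lit 76) (nat_lit 2219613932) (nat_lit 204) (nat_lit 5) (nat_lit 207) (nat_lit 5) (nat_lit 205) (nat_lit 4) (nat_lit 403) (nat_lit 350) (nat_lit 267)) (XT.lf (nat_lit 0) (nat_lit 8021375039) (nat_lit 76)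 (nat_lit 17855040230) (nat_lit 152) (nat_lit 5399888928) (nat_lit 203) (nat_lit 5) (nat_lit 204) (nat_lit 5) (nat_lit 205) (nat_lit 4) (nat_lit 404) (nat_lit 350) (nat_lit 266))) (XT.nd (nat_lit 78) (nat_lit 228) (nat_lit 0) (XT.lf (nat_lit 0) (nat_lit 3941431384) (nat_lit 152) (nat_lit 2891914744) (nat_lit 76) (nat_lit 25435885730) (nat_lit 202) (nat_lit 5) (nat_lit 204) (nat_lit 5) (nat_lit 203) (nat_lit 5) (nat_lit 405) (nat_lit 350) (nat_lit 265)) (XT.nd (nat_lit 78) (nat_lit 76) (nat_lit 0) (XT.lf (nat_lit 0) (nat_lit 13927387932) (nat_lit 228) (nat_lit 14397364930) (nat_lit 76) (nat_lit 4964674808) (nat_lit 200) (nat_lit 5) (nat_lit 203) (nat_lit 5) (nat_lit 201) (nat_lit 4) (nat_lit 406) (nat_lit 350) (nat_lit 264)) (XT.lf (nat_lit 0) (nat_lit 7606022179) (nat_lit 76) (nat_lit 17069975810) (nat_lit 152) (nat_lit 9671467498) (nat_lit 199) (nat_lit 5) (nat_lit 200) (nat_lit 5) (nat_lit 201)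 (nat_lit 4) (nat_lit 407) (nat_lit 350) (nat_lit 263))))))))
noncomputable def xc162 : XT := (XT.nd (nat_lit 2496) (nat_lit 2432) (nat_lit 0) (XT.nd (nat_lit 1248) (nat_lit 1216) (nat_lit 0) (XT.nd (nat_lit 624) (nat_lit 532) (nat_lit 0) (XT.nd (nat_lit 312) (nat_lit 456) (nat_lit 0) (XT.nd (nat_lit 156) (nat_lit 76) (nat_lit 0) (XT.nd (nat_lit 78) (nat_lit 152) (nat_lit 0) (XT.lf (nat_lit 0) (nat_lit 718190900) (nat_lit 152) (nat_lit 4280750000) (nat_lit 76) (nat_lit 30447537291) (nat_lit 198) (nat_lit 5) (nat_lit 200) (nat_lit 5) (nat_lit 199) (nat_lit 5) (nat_lit 408) (nat_lit 350) (nat_lit 262)) (XT.lf (nat_lit 0) (nat_lit 11721534587) (nat_lit 228) (nat_lit 16959335423) (nat_lit 76) (nat_lit 7890682733) (nat_lit 196) (nat_lit 5) (nat_lit 199) (nat_lit 5) (nat_lit 197) (nat_lit 4) (nat_lit 409) (nat_lit 350) (nat_lit 261))) (XT.nd (nat_lit 78) (nat_lit 0) (nat_lit 0) (XT.lf (nat_lit 0) (nat_lit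 7216366683) (nat_lit 76) (nat_lit 16310739939) (nat_lit 152) (nat_lit 14213171343) (nat_lit 195) (nat_lit 5) (nat_lit 196) (nat_lit 5) (nat_lit 197) (nat_lit 4) (nat_lit 410) (nat_lit 350) (nat_lit 260)) (XT.lf (nat_lit 0) (nat_lit 33159479635) (nat_lit 76) (nat_lit 3034753196) (nat_lit 152) (nat_lit 2759642837) (nat_lit 195) (nat_lit 5) (nat_lit 196) (nat_lit 5) (nat_lit 197) (nat_lit 4) (nat_lit 411) (nat_lit 350) (nat_lit 259)))) (XT.nd (nat_lit 156) (nat_lit 152) (nat_lit 0) (XT.nd (nat_lit 78) (nat_lit 76) (nat_lit 0) (XT.lf (nat_lit 0) (nat_lit 9454790504) (nat_lit 228) (nat_lit 19724371827) (nat_lit 76) (nat_lit 11017516262) (nat_lit 192) (nat_lit 5) (nat_lit 195) (nat_lit 5) (nat_lit 193) (nat_lit 4) (nat_lit 412) (nat_lit 350) (nat_lit 258)) (XT.lf (nat_lit 0) (nat_lit 6850135503) (nat_lit 76) (nat_lit 15578151442) (nat_lit 152) (nat_lit 19059018541) (nat_lit 191) (nat_lit 5) (nat_lit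 192) (nat_lit 5) (nat_lit 193) (nat_lit 4) (nat_lit 413) (nat_lit 350) (nat_lit 257))) (XT.nd (nat_lit 78) (nat_lit 152) (nat_lit 0) (XT.lf (nat_lit 0) (nat_lit 35409315863) (nat_lit 76) (nat_lit 960109178) (nat_lit 152) (nat_lit 6457090342) (nat_lit 191) (nat_lit 5) (nat_lit 192) (nat_lit 5) (nat_lit 193) (nat_lit 4) (nat_lit 414) (nat_lit 350) (nat_lit 256)) (XT.lf (nat_lit 0) (nat_lit 7114432029) (nat_lit 152) (nat_lit 22717508200) (nat_lit 76) (nat_lit 14367639860) (nat_lit 189) (nat_lit 5) (nat_lit 191) (nat_lit 5) (nat_lit 190) (nat_lit 4) (nat_lit 415) (nat_lit 350) (nat_lit 255))))) (XT.nd (nat_lit 312) (nat_lit 228) (nat_lit 0) (XT.nd (nat_lit 156) (nat_lit 228) (nat_lit 0) (XT.nd (nat_lit 78) (nat_lit 0) (nat_lit 0) (XT.lf (nat_lit 0) (nat_lit 6505349883) (nat_lit 76) (nat_lit 14872626914) (nat_lit 152) (nat_lit 24246506195) (nat_lit 188) (nat_lit 5) (nat_lit 189) (nat_lit 5) (nat_lit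 190) (nat_lit 4) (nat_lit 416) (nat_lit 350) (nat_lit 254)) (XT.lf (nat_lit 0) (nat_lit 36744291041) (nat_lit 152) (nat_lit 9170742925) (nat_lit 0) (nat_lit 1186117461) (nat_lit 188) (nat_lit 5) (nat_lit 190) (nat_lit 4) (nat_lit 188) (nat_lit 4) (nat_lit 417) (nat_lit 350) (nat_lit 253))) (XT.nd (nat_lit 78) (nat_lit 76) (nat_lit 0) (XT.lf (nat_lit 0) (nat_lit 4686494501) (nat_lit 152) (nat_lit 25965898134) (nat_lit 76) (nat_lit 17966234388) (nat_lit 186) (nat_lit 5) (nat_lit 188) (nat_lit 5) (nat_lit 187) (nat_lit 4) (nat_lit 418) (nat_lit 350) (nat_lit 252)) (XT.lf (nat_lit 0) (nat_lit 6180278354) (nat_lit 76) (nat_lit 14194264274) (nat_lit 152) (nat_lit 29816915343) (nat_lit 185) (nat_lit 5) (nat_lit 186) (nat_lit 5) (nat_lit 187) (nat_lit 4) (nat_lit 419) (nat_lit 350) (nat_lit 251)))) (XT.nd (nat_lit 156) (nat_lit 76) (nat_lit 0) (XT.nd (nat_lit 78) (nat_lit 152) (nat_lit 0) (XT.lf (nat_lit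 0) (nat_lit 37328420437) (nat_lit 152) (nat_lit 11067898422) (nat_lit 0) (nat_lit 3422540246) (nat_lit 185) (nat_lit 5) (nat_lit 187) (nat_lit 4) (nat_lit 185) (nat_lit 4) (nat_lit 420) (nat_lit 350) (nat_lit 250)) (XT.lf (nat_lit 0) (nat_lit 2155685573) (nat_lit 152) (nat_lit 29499096797) (nat_lit 76) (nat_lit 21841366590) (nat_lit 183) (nat_lit 5) (nat_lit 185) (nat_lit 5) (nat_lit 184) (nat_lit 4) (nat_lit 421) (nat_lit 350) (nat_lit 249))) (XT.nd (nat_lit 78) (nat_lit 0) (nat_lit 0) (XT.lf (nat_lit 0) (nat_lit 5873397827) (nat_lit 76) (nat_lit 13542910922) (nat_lit 152) (nat_lit 35815658826) (nat_lit 182) (nat_lit 5) (nat_lit 183) (nat_lit 5) (nat_lit 184) (nat_lit 4) (nat_lit 422) (nat_lit 350) (nat_lit 248)) (XT.lf (nat_lit 0) (nat_lit 38120197646) (nat_lit 152) (nat_lit 13110176680) (nat_lit 0) (nat_lit 5795191067) (nat_lit 182) (nat_lit 5) (nat_lit 184) (nat_lit 4) (nat_lit 182) (nat_lit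 4) (nat_lit 423) (nat_lit 350) (nat_lit 247)))))) (XT.nd (nat_lit 624) (nat_lit 532) (nat_lit 0) (XT.nd (nat_lit 312) (nat_lit 380) (nat_lit 0) (XT.nd (nat_lit 156) (nat_lit 76) (nat_lit 0) (XT.nd (nat_lit 78) (nat_lit 152) (nat_lit 0) (XT.lf (nat_lit 0) (nat_lit 25521098645) (nat_lit 76) (nat_lit 32846262758) (nat_lit 76) (nat_lit 511077678) (nat_lit 181) (nat_lit 4) (nat_lit 182) (nat_lit 5) (nat_lit 182) (nat_lit 4) (nat_lit 424) (nat_lit 350) (nat_lit 246)) (XT.lf (nat_lit 0) (nat_lit 5583361337) (nat_lit 76) (nat_lit 12918219261) (nat_lit 152) (nat_lit 42292674297) (nat_lit 179) (nat_lit 5) (nat_lit 180) (nat_lit 5) (nat_lit 181) (nat_lit 4) (nat_lit 425) (nat_lit 350) (nat_lit 245))) (XT.nd (nat_lit 78) (nat_lit 76) (nat_lit 0) (XT.lf (nat_lit 0) (nat_lit 39134535776) (nat_lit 152) (nat_lit 15315468189) (nat_lit 0) (nat_lit 8321096641) (nat_lit 179) (nat_lit 5) (nat_lit 181) (nat_lit 4) (nat_lit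 179) (nat_lit 4) (nat_lit 426) (nat_lit 350) (nat_lit 244)) (XT.lf (nat_lit 0) (nat_lit 27210622719) (nat_lit 76) (nat_lit 34213368145) (nat_lit 76) (nat_lit 3391555132) (nat_lit 178) (nat_lit 4) (nat_lit 179) (nat_lit 5) (nat_lit 179) (nat_lit 4) (nat_lit 427) (nat_lit 350) (nat_lit 243)))) (XT.nd (nat_lit 156) (nat_lit 228) (nat_lit 0) (XT.nd (nat_lit 78) (nat_lit 0) (nat_lit 0) (XT.lf (nat_lit 0) (nat_lit 5308971294) (nat_lit 76) (nat_lit 12319691842) (nat_lit 152) (nat_lit 49302865221) (nat_lit 176) (nat_lit 5) (nat_lit 177) (nat_lit 5) (nat_lit 178) (nat_lit 4) (nat_lit 428) (nat_lit 350) (nat_lit 242)) (XT.lf (nat_lit 0) (nat_lit 40388061801) (nat_lit 152) (nat_lit 17703235528) (nat_lit 0) (nat_lit 11019125145) (nat_lit 176) (nat_lit 5) (nat_lit 178) (nat_lit 4) (nat_lit 176) (nat_lit 4) (nat_lit 429) (nat_lit 350) (nat_lit 241))) (XT.nd (nat_lit 78) (nat_lit 152) (nat_lit 0) (XT.lf (nat_lit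 0) (nat_lit 29119938554) (nat_lit 76) (nat_lit 35810938147) (nat_lit 76) (nat_lit 6435112280) (nat_lit 175) (nat_lit 4) (nat_lit 176) (nat_lit 5) (nat_lit 176) (nat_lit 4) (nat_lit 430) (nat_lit 350) (nat_lit 240)) (XT.lf (nat_lit 0) (nat_lit 5049157254) (nat_lit 76) (nat_lit 11746718000) (nat_lit 152) (nat_lit 56906593299) (nat_lit 173) (nat_lit 5) (nat_lit 174) (nat_lit 5) (nat_lit 175) (nat_lit 4) (nat_lit 431) (nat_lit 350) (nat_lit 239))))) (XT.nd (nat_lit 312) (nat_lit 304) (nat_lit 0) (XT.nd (nat_lit 156) (nat_lit 152) (nat_lit 0) (XT.nd (nat_lit 78) (nat_lit 76) (nat_lit 0) (XT.lf (nat_lit 0) (nat_lit 41899304353) (nat_lit 152) (nat_lit 20294707902) (nat_lit 0) (nat_lit 13910127461) (nat_lit 173) (nat_lit 5) (nat_lit 175) (nat_lit 4) (nat_lit 173) (nat_lit 4) (nat_lit 432) (nat_lit 350) (nat_lit 238)) (XT.lf (nat_lit 0) (nat_lit 31268911454) (nat_lit 76) (nat_lit 37659159665) (nat_lit 76)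 (nat_lit 9664315003) (nat_lit 172) (nat_lit 4) (nat_lit 173) (nat_lit 5) (nat_lit 173) (nat_lit 4) (nat_lit 433) (nat_lit 350) (nat_lit 237))) (XT.nd (nat_lit 78) (nat_lit 0) (nat_lit 0) (XT.lf (nat_lit 0) (nat_lit 4802957438) (nat_lit 76) (nat_lit 11198603526) (nat_lit 152) (nat_lit 65170226381) (nat_lit 170) (nat_lit 5) (nat_lit 171) (nat_lit 5) (nat_lit 172) (nat_lit 4) (nat_lit 434) (nat_lit 350) (nat_lit 236)) (XT.lf (nat_lit 0) (nat_lit 43688896462) (nat_lit 152) (nat_lit 23113090318) (nat_lit 0) (nat_lit 17017102773) (nat_lit 170) (nat_lit 5) (nat_lit 172) (nat_lit 4) (nat_lit 170) (nat_lit 4) (nat_lit 435) (nat_lit 350) (nat_lit 235)))) (XT.nd (nat_lit 156) (nat_lit 76) (nat_lit 0) (XT.nd (nat_lit 78) (nat_lit 152) (nat_lit 0) (XT.lf (nat_lit 0) (nat_lit 33679648386) (nat_lit 76) (nat_lit 39780298820) (nat_lit 76) (nat_lit 13103842243) (nat_lit 169) (nat_lit 4) (nat_lit 170) (nat_lit 5)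 (nat_lit 170) (nat_lit 4) (nat_lit 436) (nat_lit 350) (nat_lit 234)) (XT.lf (nat_lit 0) (nat_lit 4569503322) (nat_lit 76) (nat_lit 10674594602) (nat_lit 152) (nat_lit 74166746574) (nat_lit 167) (nat_lit 5) (nat_lit 168) (nat_lit 5) (nat_lit 169) (nat_lit 4) (nat_lit 437) (nat_lit 350) (nat_lit 233))) (XT.nd (nat_lit 78) (nat_lit 76) (nat_lit 0) (XT.lf (nat_lit 0) (nat_lit 45779795665) (nat_lit 152) (nat_lit 26183789814) (nat_lit 0) (nat_lit 20365389187) (nat_lit 167) (nat_lit 5) (nat_lit 169) (nat_lit 4) (nat_lit 167) (nat_lit 4) (nat_lit 438) (nat_lit 350) (nat_lit 232)) (XT.lf (nat_lit 0) (nat_lit 36376704023) (nat_lit 76) (nat_lit 42198940820) (nat_lit 76) (nat_lit 16780698172) (nat_lit 166) (nat_lit 4) (nat_lit 167) (nat_lit 5) (nat_lit 167) (nat_lit 4) (nat_lit 439) (nat_lit 350) (nat_lit 231))))))) (XT.nd (nat_lit 1248) (nat_lit 1140) (nat_lit 0) (XT.nd (nat_lit 624) (nat_lit 684) (nat_lit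 0) (XT.nd (nat_lit 312) (nat_lit 228) (nat_lit 0) (XT.nd (nat_lit 156) (nat_lit 228) (nat_lit 0) (XT.nd (nat_lit 78) (nat_lit 0) (nat_lit 0) (XT.lf (nat_lit 0) (nat_lit 4348006788) (nat_lit 76) (nat_lit 10173897080) (nat_lit 152) (nat_lit 83976423895) (nat_lit 164) (nat_lit 5) (nat_lit 165) (nat_lit 5) (nat_lit 166) (nat_lit 4) (nat_lit 440) (nat_lit 350) (nat_lit 230)) (XT.lf (nat_lit 0) (nat_lit 48197523937) (nat_lit 152) (nat_lit 29534661222) (nat_lit 0) (nat_lit 23982880449) (nat_lit 164) (nat_lit 5) (nat_lit 166) (nat_lit 4) (nat_lit 164) (nat_lit 4) (nat_lit 441) (nat_lit 350) (nat_lit 229))) (XT.nd (nat_lit 78) (nat_lit 152) (nat_lit 0) (XT.lf (nat_lit 0) (nat_lit 39387311507) (nat_lit 76) (nat_lit 44942248306) (nat_lit 76) (nat_lit 20724448791) (nat_lit 163) (nat_lit 4) (nat_lit 164) (nat_lit 5) (nat_lit 164) (nat_lit 4) (nat_lit 442) (nat_lit 350) (nat_lit 228)) (XT.lf (nat_lit 0) (nat_lit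 4137749370) (nat_lit 76) (nat_lit 9695691909) (nat_lit 152) (nat_lit 94687561537) (nat_lit 161) (nat_lit 5) (nat_lit 162) (nat_lit 5) (nat_lit 163) (nat_lit 4) (nat_lit 443) (nat_lit 350) (nat_lit 227)))) (XT.nd (nat_lit 156) (nat_lit 152) (nat_lit 0) (XT.nd (nat_lit 78) (nat_lit 76) (nat_lit 0) (XT.lf (nat_lit 0) (nat_lit 50970430081) (nat_lit 152) (nat_lit 33196275114) (nat_lit 0) (nat_lit 27900270211) (nat_lit 161) (nat_lit 5) (nat_lit 163) (nat_lit 4) (nat_lit 161) (nat_lit 4) (nat_lit 444) (nat_lit 350) (nat_lit 226)) (XT.lf (nat_lit 0) (nat_lit 42741639860) (nat_lit 76) (nat_lit 48040241234) (nat_lit 76) (nat_lit 24967484893) (nat_lit 160) (nat_lit 4) (nat_lit 161) (nat_lit 5) (nat_lit 161) (nat_lit 4) (nat_lit 445) (nat_lit 350) (nat_lit 225))) (XT.nd (nat_lit 78) (nat_lit 0) (nat_lit 0) (XT.lf (nat_lit 0) (nat_lit 3938073243) (nat_lit 76) (nat_lit 9239147446) (nat_lit 152) (nat_lit 106397319543)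 (nat_lit 158) (nat_lit 5) (nat_lit 159) (nat_lit 5) (nat_lit 160) (nat_lit 4) (nat_lit 446) (nat_lit 350) (nat_lit 224)) (XT.lf (nat_lit 0) (nat_lit 54129977328) (nat_lit 152) (nat_lit 37202210693) (nat_lit 0) (nat_lit 32151325666) (nat_lit 158) (nat_lit 5) (nat_lit 160) (nat_lit 4) (nat_lit 158) (nat_lit 4) (nat_lit 447) (nat_lit 350) (nat_lit 223))))) (XT.nd (nat_lit 312) (nat_lit 380) (nat_lit 0) (XT.nd (nat_lit 156) (nat_lit 76) (nat_lit 0) (XT.nd (nat_lit 78) (nat_lit 152) (nat_lit 0) (XT.lf (nat_lit 0) (nat_lit 46473080269) (nat_lit 76) (nat_lit 51526101419) (nat_lit 76) (nat_lit 29545313633) (nat_lit 157) (nat_lit 4) (nat_lit 158) (nat_lit 5) (nat_lit 158) (nat_lit 4) (nat_lit 448) (nat_lit 350) (nat_lit 222)) (XT.lf (nat_lit 0) (nat_lit 3748373646) (nat_lit 76) (nat_lit 8803429199) (nat_lit 152) (nat_lit 119212624489) (nat_lit 155) (nat_lit 5) (nat_lit 156) (nat_lit 5) (nat_lit 157) (nat_lit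 4) (nat_lit 449) (nat_lit 350) (nat_lit 221))) (XT.nd (nat_lit 78) (nat_lit 76) (nat_lit 0) (XT.lf (nat_lit 0) (nat_lit 57711059123) (nat_lit 152) (nat_lit 41589376614) (nat_lit 0) (nat_lit 36773192728) (nat_lit 155) (nat_lit 5) (nat_lit 157) (nat_lit 4) (nat_lit 155) (nat_lit 4) (nat_lit 450) (nat_lit 350) (nat_lit 220)) (XT.lf (nat_lit 0) (nat_lit 50618563784) (nat_lit 76) (nat_lit 55436505063) (nat_lit 76) (nat_lit 34496881274) (nat_lit 154) (nat_lit 4) (nat_lit 155) (nat_lit 5) (nat_lit 155) (nat_lit 4) (nat_lit 451) (nat_lit 350) (nat_lit 219)))) (XT.nd (nat_lit 156) (nat_lit 228) (nat_lit 0) (XT.nd (nat_lit 78) (nat_lit 0) (nat_lit 0) (XT.lf (nat_lit 0) (nat_lit 3568092507) (nat_lit 76) (nat_lit 8387707495) (nat_lit 152) (nat_lit 133251173629) (nat_lit 152) (nat_lit 5) (nat_lit 153) (nat_lit 5) (nat_lit 154) (nat_lit 4) (nat_lit 452) (nat_lit 350) (nat_lit 218)) (XT.lf (nat_lit 0) (nat_lit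 61752346288) (nat_lit 152) (nat_lit 46398362946) (nat_lit 0) (nat_lit 41806735331) (nat_lit 152) (nat_lit 5) (nat_lit 154) (nat_lit 4) (nat_lit 152) (nat_lit 4) (nat_lit 453) (nat_lit 350) (nat_lit 217))) (XT.nd (nat_lit 78) (nat_lit 152) (nat_lit 0) (XT.lf (nat_lit 0) (nat_lit 55218913318) (nat_lit 76) (nat_lit 59811986745) (nat_lit 76) (nat_lit 39864929975) (nat_lit 151) (nat_lit 4) (nat_lit 152) (nat_lit 5) (nat_lit 152) (nat_lit 4) (nat_lit 454) (nat_lit 350) (nat_lit 216)) (XT.lf (nat_lit 0) (nat_lit 3396713042) (nat_lit 76) (nat_lit 7991163433) (nat_lit 152) (nat_lit 148642542902) (nat_lit 149) (nat_lit 5) (nat_lit 150) (nat_lit 5) (nat_lit 151) (nat_lit 4) (nat_lit 455) (nat_lit 350) (nat_lit 215)))))) (XT.nd (nat_lit 624) (nat_lit 608) (nat_lit 0) (XT.nd (nat_lit 312) (nat_lit 304) (nat_lit 0) (XT.nd (nat_lit 156) (nat_lit 152) (nat_lit 0) (XT.nd (nat_lit 78) (nat_lit 76) (nat_lit 0) (XT.lf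 (nat_lit 0) (nat_lit 66296669037) (nat_lit 152) (nat_lit 51673827758) (nat_lit 0) (nat_lit 47296911773) (nat_lit 149) (nat_lit 5) (nat_lit 151) (nat_lit 4) (nat_lit 149) (nat_lit 4) (nat_lit 456) (nat_lit 350) (nat_lit 214)) (XT.lf (nat_lit 0) (nat_lit 60319233170) (nat_lit 76) (nat_lit 64697338629) (nat_lit 76) (nat_lit 45696391891) (nat_lit 148) (nat_lit 4) (nat_lit 149) (nat_lit 5) (nat_lit 149) (nat_lit 4) (nat_lit 457) (nat_lit 350) (nat_lit 213))) (XT.nd (nat_lit 78) (nat_lit 0) (nat_lit 0) (XT.lf (nat_lit 0) (nat_lit 3233755184) (nat_lit 76) (nat_lit 7612993475) (nat_lit 152) (nat_lit 165529409197) (nat_lit 146) (nat_lit 5) (nat_lit 147) (nat_lit 5) (nat_lit 148) (nat_lit 4) (nat_lit 458) (nat_lit 350) (nat_lit 212)) (XT.lf (nat_lit 0) (nat_lit 71391437612) (nat_lit 152) (nat_lit 57464922108) (nat_lit 0) (nat_lit 53293191463) (nat_lit 146) (nat_lit 5) (nat_lit 148) (nat_lit 4) (nat_lit 146)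 (nat_lit 4) (nat_lit 459) (nat_lit 350) (nat_lit 211)))) (XT.nd (nat_lit 156) (nat_lit 76) (nat_lit 0) (XT.nd (nat_lit 78) (nat_lit 152) (nat_lit 0) (XT.lf (nat_lit 0) (nat_lit 65969339690) (nat_lit 76) (nat_lit 70142048919) (nat_lit 76) (nat_lit 52042824187) (nat_lit 145) (nat_lit 4) (nat_lit 146) (nat_lit 5) (nat_lit 146) (nat_lit 4) (nat_lit 460) (nat_lit 350) (nat_lit 210)) (XT.lf (nat_lit 0) (nat_lit 3078771687) (nat_lit 76) (nat_lit 7252412899) (nat_lit 152) (nat_lit 184068898419) (nat_lit 143) (nat_lit 5) (nat_lit 144) (nat_lit 5) (nat_lit 145) (nat_lit 4) (nat_lit 461) (nat_lit 350) (nat_lit 209))) (XT.nd (nat_lit 78) (nat_lit 76) (nat_lit 0) (XT.lf (nat_lit 0) (nat_lit 77089105666) (nat_lit 152) (nat_lit 63825757567) (nat_lit 0) (nat_lit 59850015838) (nat_lit 143) (nat_lit 5) (nat_lit 145) (nat_lit 4) (nat_lit 143) (nat_lit 4) (nat_lit 462) (nat_lit 350) (nat_lit 208)) (XT.lf (nat_lit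 0) (nat_lit 72224237106) (nat_lit 76) (nat_lit 76200783917) (nat_lit 76) (nat_lit 58960889007) (nat_lit 142) (nat_lit 4) (nat_lit 143) (nat_lit 5) (nat_lit 143) (nat_lit 4) (nat_lit 463) (nat_lit 350) (nat_lit 207))))) (XT.nd (nat_lit 312) (nat_lit 228) (nat_lit 0) (XT.nd (nat_lit 156) (nat_lit 228) (nat_lit 0) (XT.nd (nat_lit 78) (nat_lit 0) (nat_lit 0) (XT.lf (nat_lit 0) (nat_lit 2931344795) (nat_lit 76) (nat_lit 6908658351) (nat_lit 152) (nat_lit 204434072072) (nat_lit 140) (nat_lit 5) (nat_lit 141) (nat_lit 5) (nat_lit 142) (nat_lit 4) (nat_lit 464) (nat_lit 350) (nat_lit 206)) (XT.lf (nat_lit 0) (nat_lit 83447680904) (nat_lit 152) (nat_lit 70815920810) (nat_lit 0) (nat_lit 67027307678) (nat_lit 140) (nat_lit 5) (nat_lit 142) (nat_lit 4) (nat_lit 140) (nat_lit 4) (nat_lit 465) (nat_lit 350) (nat_lit 205))) (XT.nd (nat_lit 78) (nat_lit 152) (nat_lit 0) (XT.lf (nat_lit 0) (nat_lit 79144642983)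 (nat_lit 76) (nat_lit 82933918459) (nat_lit 76) (nat_lit 66512882889) (nat_lit 139) (nat_lit 4) (nat_lit 140) (nat_lit 5) (nat_lit 140) (nat_lit 4) (nat_lit 466) (nat_lit 350) (nat_lit 204)) (XT.lf (nat_lit 0) (nat_lit 2791083387) (nat_lit 76) (nat_lit 6580989666) (nat_lit 152) (nat_lit 226815566454) (nat_lit 137) (nat_lit 5) (nat_lit 138) (nat_lit 5) (nat_lit 139) (nat_lit 4) (nat_lit 467) (nat_lit 350) (nat_lit 203)))) (XT.nd (nat_lit 156) (nat_lit 152) (nat_lit 0) (XT.nd (nat_lit 78) (nat_lit 76) (nat_lit 0) (XT.lf (nat_lit 0) (nat_lit 90531287934) (nat_lit 152) (nat_lit 78501040226) (nat_lit 0) (nat_lit 74891033517) (nat_lit 137) (nat_lit 5) (nat_lit 139) (nat_lit 4) (nat_lit 137) (nat_lit 4) (nat_lit 468) (nat_lit 350) (nat_lit 202)) (XT.lf (nat_lit 0) (nat_lit 86797568271) (nat_lit 76) (nat_lit 90408119891) (nat_lit 76) (nat_lit 74767320563) (nat_lit 136) (nat_lit 4) (nat_lit 137) (nat_lit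 5) (nat_lit 137) (nat_lit 4) (nat_lit 469) (nat_lit 350) (nat_lit 201))) (XT.nd (nat_lit 78) (nat_lit 0) (nat_lit 0) (XT.lf (nat_lit 0) (nat_lit 2657620514) (nat_lit 76) (nat_lit 6268691097) (nat_lit 152) (nat_lit 251423399995) (nat_lit 134) (nat_lit 5) (nat_lit 135) (nat_lit 5) (nat_lit 136) (nat_lit 4) (nat_lit 470) (nat_lit 350) (nat_lit 200)) (XT.lf (nat_lit 0) (nat_lit 98410788753) (nat_lit 152) (nat_lit 86953409983) (nat_lit 0) (nat_lit 83513824427) (nat_lit 134) (nat_lit 5) (nat_lit 136) (nat_lit 4) (nat_lit 134) (nat_lit 4) (nat_lit 471) (nat_lit 350) (nat_lit 199))))))))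
noncomputable def xc163 : XT := (XT.nd (nat_lit 1248) (nat_lit 380) (nat_lit 0) (XT.nd (nat_lit 624) (nat_lit 532) (nat_lit 0) (XT.nd (nat_lit 312) (nat_lit 380) (nat_lit 0) (XT.nd (nat_lit 156) (nat_lit 76) (nat_lit 0) (XT.nd (nat_lit 78) (nat_lit 152) (nat_lit 0) (XT.lf (nat_lit 0) (nat_lit 95256957421) (nat_lit 76) (nat_lit 98696991277) (nat_lit 76) (nat_lit 83799578651) (nat_lit 133) (nat_lit 4) (nat_lit 134) (nat_lit 5) (nat_lit 134) (nat_lit 4) (nat_lit 472) (nat_lit 350) (nat_lit 198)) (XT.lf (nat_lit 0) (nat_lit 2530611264) (nat_lit 76) (nat_lit 5971072073) (nat_lit 152) (nat_lit 278488965902) (nat_lit 131) (nat_lit 5) (nat_lit 132) (nat_lit 5) (nat_lit 133) (nat_lit 4) (nat_lit 473) (nat_lit 350) (nat_lit 197))) (XT.nd (nat_lit 78) (nat_lit 76) (nat_lit 0) (XT.lf (nat_lit 0) (nat_lit 107164466855) (nat_lit 152) (nat_lit 96252677550) (nat_lit 0) (nat_lit 92975660951) (nat_lit 131) (nat_lit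 5) (nat_lit 133) (nat_lit 4) (nat_lit 131) (nat_lit 4) (nat_lit 474) (nat_lit 350) (nat_lit 196)) (XT.lf (nat_lit 0) (nat_lit 104604394636) (nat_lit 76) (nat_lit 107881780053) (nat_lit 76) (nat_lit 93692605332) (nat_lit 130) (nat_lit 4) (nat_lit 131) (nat_lit 5) (nat_lit 131) (nat_lit 4) (nat_lit 475) (nat_lit 350) (nat_lit 195)))) (XT.nd (nat_lit 156) (nat_lit 228) (nat_lit 0) (XT.nd (nat_lit 78) (nat_lit 0) (nat_lit 0) (XT.lf (nat_lit 0) (nat_lit 2409730903) (nat_lit 76) (nat_lit 5687467574) (nat_lit 152) (nat_lit 308267229043) (nat_lit 128) (nat_lit 5) (nat_lit 129) (nat_lit 5) (nat_lit 130) (nat_lit 4) (nat_lit 476) (nat_lit 350) (nat_lit 194)) (XT.lf (nat_lit 0) (nat_lit 116878781527) (nat_lit 152) (nat_lit 106486601236) (nat_lit 0) (nat_lit 103364628665) (nat_lit 128) (nat_lit 5) (nat_lit 130) (nat_lit 4) (nat_lit 128) (nat_lit 4) (nat_lit 477) (nat_lit 350) (nat_lit 193))) (XT.nd (nat_lit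 78) (nat_lit 152) (nat_lit 0) (XT.lf (nat_lit 0) (nat_lit 114929882971) (nat_lit 76) (nat_lit 118052158969) (nat_lit 76) (nat_lit 104537702680) (nat_lit 127) (nat_lit 4) (nat_lit 128) (nat_lit 5) (nat_lit 128) (nat_lit 4) (nat_lit 478) (nat_lit 350) (nat_lit 192)) (XT.lf (nat_lit 0) (nat_lit 2294673246) (nat_lit 76) (nat_lit 5417238223) (nat_lit 152) (nat_lit 341039147949) (nat_lit 125) (nat_lit 5) (nat_lit 126) (nat_lit 5) (nat_lit 127) (nat_lit 4) (nat_lit 479) (nat_lit 350) (nat_lit 191))))) (XT.nd (nat_lit 312) (nat_lit 304) (nat_lit 0) (XT.nd (nat_lit 156) (nat_lit 152) (nat_lit 0) (XT.nd (nat_lit 78) (nat_lit 76) (nat_lit 0) (XT.lf (nat_lit 0) (nat_lit 127649199560) (nat_lit 152) (nat_lit 117751884998) (nat_lit 0) (nat_lit 114777751480) (nat_lit 125) (nat_lit 5) (nat_lit 127) (nat_lit 4) (nat_lit 125) (nat_lit 4) (nat_lit 480) (nat_lit 350) (nat_lit 190)) (XT.lf (nat_lit 0) (nat_lit 126332703660)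 (nat_lit 76) (nat_lit 129307086809) (nat_lit 76) (nat_lit 116435389098) (nat_lit 124) (nat_lit 4) (nat_lit 125) (nat_lit 5) (nat_lit 125) (nat_lit 4) (nat_lit 481) (nat_lit 350) (nat_lit 189))) (XT.nd (nat_lit 78) (nat_lit 0) (nat_lit 0) (XT.lf (nat_lit 0) (nat_lit 2185149234) (nat_lit 76) (nat_lit 5159770125) (nat_lit 152) (nat_lit 377114344977) (nat_lit 122) (nat_lit 5) (nat_lit 123) (nat_lit 5) (nat_lit 124) (nat_lit 4) (nat_lit 482) (nat_lit 350) (nat_lit 188)) (XT.lf (nat_lit 0) (nat_lit 139581112357) (nat_lit 152) (nat_lit 130155098488) (nat_lit 0) (nat_lit 127321910570) (nat_lit 122) (nat_lit 5) (nat_lit 124) (nat_lit 4) (nat_lit 122) (nat_lit 4) (nat_lit 483) (nat_lit 350) (nat_lit 187)))) (XT.nd (nat_lit 156) (nat_lit 76) (nat_lit 0) (XT.nd (nat_lit 78) (nat_lit 152) (nat_lit 0) (XT.lf (nat_lit 0) (nat_lit 138922363875) (nat_lit 76) (nat_lit 141755757164) (nat_lit 76) (nat_lit 129496350007)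 (nat_lit 121) (nat_lit 4) (nat_lit 122) (nat_lit 5) (nat_lit 122) (nat_lit 4) (nat_lit 484) (nat_lit 350) (nat_lit 186)) (XT.lf (nat_lit 0) (nat_lit 2080885659) (nat_lit 76) (nat_lit 4914474539) (nat_lit 152) (nat_lit 416834050045) (nat_lit 119) (nat_lit 5) (nat_lit 120) (nat_lit 5) (nat_lit 121) (nat_lit 4) (nat_lit 485) (nat_lit 350) (nat_lit 185))) (XT.nd (nat_lit 78) (nat_lit 76) (nat_lit 0) (XT.lf (nat_lit 0) (nat_lit 152790847193) (nat_lit 152) (nat_lit 143813691127) (nat_lit 0) (nat_lit 141114857643) (nat_lit 119) (nat_lit 5) (nat_lit 121) (nat_lit 4) (nat_lit 119) (nat_lit 4) (nat_lit 486) (nat_lit 350) (nat_lit 184)) (XT.lf (nat_lit 0) (nat_lit 152819641901) (nat_lit 76) (nat_lit 155518644345) (nat_lit 76) (nat_lit 143842485836) (nat_lit 118) (nat_lit 4) (nat_lit 119) (nat_lit 5) (nat_lit 119) (nat_lit 4) (nat_lit 487) (nat_lit 350) (nat_lit 183)))))) (XT.nd (nat_lit 42666) (nat_lit 0)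 (nat_lit 14668) (XT.nd (nat_lit 312) (nat_lit 0) (nat_lit 0) (XT.nd (nat_lit 156) (nat_lit 228) (nat_lit 0) (XT.nd (nat_lit 78) (nat_lit 0) (nat_lit 0) (XT.lf (nat_lit 0) (nat_lit 1981624045) (nat_lit 76) (nat_lit 4680787402) (nat_lit 152) (nat_lit 460574345952) (nat_lit 116) (nat_lit 5) (nat_lit 117) (nat_lit 5) (nat_lit 118) (nat_lit 4) (nat_lit 488) (nat_lit 350) (nat_lit 182)) (XT.lf (nat_lit 0) (nat_lit 167406782313) (nat_lit 152) (nat_lit 158857109870) (nat_lit 0) (nat_lit 156286332147) (nat_lit 116) (nat_lit 5) (nat_lit 118) (nat_lit 4) (nat_lit 116) (nat_lit 4) (nat_lit 489) (nat_lit 350) (nat_lit 181))) (XT.nd (nat_lit 78) (nat_lit 152) (nat_lit 0) (XT.lf (nat_lit 0) (nat_lit 168157739702) (nat_lit 76) (nat_lit 170728656428) (nat_lit 76) (nat_lit 159608067259) (nat_lit 115) (nat_lit 4) (nat_lit 116) (nat_lit 5) (nat_lit 116) (nat_lit 4) (nat_lit 490) (nat_lit 350) (nat_lit 180)) (XT.lf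 (nat_lit 0) (nat_lit 1887119637) (nat_lit 76) (nat_lit 4458168748) (nat_lit 152) (nat_lit 508749746179) (nat_lit 113) (nat_lit 5) (nat_lit 114) (nat_lit 5) (nat_lit 115) (nat_lit 4) (nat_lit 491) (nat_lit 350) (nat_lit 179)))) (XT.nd (nat_lit 42198) (nat_lit 0) (nat_lit 15124) (XT.nd (nat_lit 42120) (nat_lit 0) (nat_lit 15808) (XT.lf (nat_lit 0) (nat_lit 183570576513) (nat_lit 152) (nat_lit 175428031329) (nat_lit 0) (nat_lit 172979293052) (nat_lit 113) (nat_lit 5) (nat_lit 115) (nat_lit 4) (nat_lit 113) (nat_lit 4) (nat_lit 492) (nat_lit 350) (nat_lit 178)) (XT.lf (nat_lit 0) (nat_lit 1930059036) (nat_lit 0) (nat_lit 1930059036) (nat_lit 532) (nat_lit 58066701) (nat_lit 321) (nat_lit 5) (nat_lit 321) (nat_lit 3) (nat_lit 328) (nat_lit 3) (nat_lit 351) (nat_lit 351) (nat_lit 318))) (XT.nd (nat_lit 78) (nat_lit 0) (nat_lit 76) (XT.lf (nat_lit 0) (nat_lit 1159521483) (nat_lit 684) (nat_lit 56208204)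 (nat_lit 684) (nat_lit 6752904610) (nat_lit 312) (nat_lit 3) (nat_lit 321) (nat_lit 3) (nat_lit 321) (nat_lit 5) (nat_lit 352) (nat_lit 351) (nat_lit 317)) (XT.lf (nat_lit 0) (nat_lit 2504283705) (nat_lit 608) (nat_lit 3986476152) (nat_lit 684) (nat_lit 1616195862) (nat_lit 313) (nat_lit 5) (nat_lit 321) (nat_lit 5) (nat_lit 322) (nat_lit 5) (nat_lit 353) (nat_lit 351) (nat_lit 316))))) (XT.nd (nat_lit 312) (nat_lit 532) (nat_lit 0) (XT.nd (nat_lit 156) (nat_lit 0) (nat_lit 76) (XT.nd (nat_lit 78) (nat_lit 0) (nat_lit 0) (XT.lf (nat_lit 76) (nat_lit 195485600) (nat_lit 0) (nat_lit 3666941403) (nat_lit 684) (nat_lit 4392459062) (nat_lit 314) (nat_lit 5) (nat_lit 313) (nat_lit 5) (nat_lit 322) (nat_lit 5) (nat_lit 354) (nat_lit 351) (nat_lit 315)) (XT.lf (nat_lit 76) (nat_lit 4679065948) (nat_lit 0) (nat_lit 602106544) (nat_lit 684) (nat_lit 3129405684) (nat_lit 314) (nat_lit 5) (nat_lit 313) (nat_lit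 5) (nat_lit 322) (nat_lit 5) (nat_lit 355) (nat_lit 351) (nat_lit 314))) (XT.nd (nat_lit 78) (nat_lit 0) (nat_lit 0) (XT.lf (nat_lit 76) (nat_lit 748185228) (nat_lit 0) (nat_lit 6004369072) (nat_lit 684) (nat_lit 1822415642) (nat_lit 315) (nat_lit 5) (nat_lit 314) (nat_lit 5) (nat_lit 323) (nat_lit 5) (nat_lit 356) (nat_lit 351) (nat_lit 313)) (XT.lf (nat_lit 76) (nat_lit 5524300286) (nat_lit 0) (nat_lit 2777926484) (nat_lit 684) (nat_lit 445118447) (nat_lit 315) (nat_lit 5) (nat_lit 314) (nat_lit 5) (nat_lit 323) (nat_lit 5) (nat_lit 357) (nat_lit 351) (nat_lit 312)))) (XT.nd (nat_lit 156) (nat_lit 0) (nat_lit 0) (XT.nd (nat_lit 78) (nat_lit 0) (nat_lit 0) (XT.lf (nat_lit 0) (nat_lit 938461106) (nat_lit 684) (nat_lit 7340513581) (nat_lit 760) (nat_lit 650110256) (nat_lit 306) (nat_lit 5) (nat_lit 315) (nat_lit 5) (nat_lit 316) (nat_lit 5) (nat_lit 358) (nat_lit 351) (nat_lit 311)) (XT.lf (nat_lit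 0) (nat_lit 2413972458) (nat_lit 684) (nat_lit 2467812558) (nat_lit 760) (nat_lit 4235876203) (nat_lit 306) (nat_lit 5) (nat_lit 315) (nat_lit 5) (nat_lit 316) (nat_lit 5) (nat_lit 359) (nat_lit 351) (nat_lit 310))) (XT.nd (nat_lit 78) (nat_lit 0) (nat_lit 76) (XT.lf (nat_lit 76) (nat_lit 2687331292) (nat_lit 0) (nat_lit 1257592761) (nat_lit 760) (nat_lit 5371659022) (nat_lit 307) (nat_lit 5) (nat_lit 306) (nat_lit 5) (nat_lit 316) (nat_lit 5) (nat_lit 360) (nat_lit 351) (nat_lit 309)) (XT.lf (nat_lit 0) (nat_lit 5576717001) (nat_lit 684) (nat_lit 1427448007) (nat_lit 76) (nat_lit 2520071326) (nat_lit 307) (nat_lit 5) (nat_lit 316) (nat_lit 5) (nat_lit 308) (nat_lit 5) (nat_lit 361) (nat_lit 351) (nat_lit 308)))))))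
noncomputable def xc164 : XT := (XT.nd (nat_lit 1248) (nat_lit 2508) (nat_lit 0) (XT.nd (nat_lit 624) (nat_lit 1596) (nat_lit 0) (XT.nd (nat_lit 312) (nat_lit 760) (nat_lit 0) (XT.nd (nat_lit 156) (nat_lit 1292) (nat_lit 0) (XT.nd (nat_lit 78) (nat_lit 0) (nat_lit 0) (XT.lf (nat_lit 0) (nat_lit 4097811630) (nat_lit 684) (nat_lit 3221679319) (nat_lit 760) (nat_lit 2421311740) (nat_lit 298) (nat_lit 5) (nat_lit 307) (nat_lit 5) (nat_lit 308) (nat_lit 5) (nat_lit 362) (nat_lit 351) (nat_lit 307)) (XT.lf (nat_lit 0) (nat_lit 9132491304) (nat_lit 760) (nat_lit 79386662) (nat_lit 76) (nat_lit 757165010) (nat_lit 298) (nat_lit 5) (nat_lit 308) (nat_lit 5) (nat_lit 299) (nat_lit 5) (nat_lit 363) (nat_lit 351) (nat_lit 306))) (XT.nd (nat_lit 78) (nat_lit 456) (nat_lit 0) (XT.lf (nat_lit 0) (nat_lit 895985809) (nat_lit 836) (nat_lit 4368495910) (nat_lit 76) (nat_lit 4938816478) (nat_lit 287) (nat_lit 5)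 (nat_lit 298) (nat_lit 5) (nat_lit 288) (nat_lit 5) (nat_lit 364) (nat_lit 351) (nat_lit 305)) (XT.lf (nat_lit 0) (nat_lit 1587601914) (nat_lit 456) (nat_lit 1075819378) (nat_lit 532) (nat_lit 7786339952) (nat_lit 281) (nat_lit 5) (nat_lit 287) (nat_lit 5) (nat_lit 288) (nat_lit 5) (nat_lit 365) (nat_lit 351) (nat_lit 304)))) (XT.nd (nat_lit 156) (nat_lit 380) (nat_lit 0) (XT.nd (nat_lit 78) (nat_lit 380) (nat_lit 0) (XT.lf (nat_lit 0) (nat_lit 4598180307) (nat_lit 532) (nat_lit 2814150309) (nat_lit 76) (nat_lit 3292269237) (nat_lit 281) (nat_lit 5) (nat_lit 288) (nat_lit 5) (nat_lit 282) (nat_lit 5) (nat_lit 366) (nat_lit 351) (nat_lit 303)) (XT.lf (nat_lit 0) (nat_lit 3586372850) (nat_lit 380) (nat_lit 3071111564) (nat_lit 456) (nat_lit 4313305624) (nat_lit 276) (nat_lit 5) (nat_lit 281) (nat_lit 5) (nat_lit 282) (nat_lit 5) (nat_lit 367) (nat_lit 351) (nat_lit 302))) (XT.nd (nat_lit 78) (nat_lit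 380) (nat_lit 0) (XT.lf (nat_lit 0) (nat_lit 8847019924) (nat_lit 456) (nat_lit 915749702) (nat_lit 76) (nat_lit 1486156795) (nat_lit 276) (nat_lit 5) (nat_lit 282) (nat_lit 5) (nat_lit 277) (nat_lit 5) (nat_lit 368) (nat_lit 351) (nat_lit 301)) (XT.lf (nat_lit 0) (nat_lit 5970954942) (nat_lit 380) (nat_lit 5276367687) (nat_lit 456) (nat_lit 288582473) (nat_lit 271) (nat_lit 5) (nat_lit 276) (nat_lit 5) (nat_lit 277) (nat_lit 5) (nat_lit 369) (nat_lit 351) (nat_lit 300))))) (XT.nd (nat_lit 312) (nat_lit 912) (nat_lit 0) (XT.nd (nat_lit 156) (nat_lit 304) (nat_lit 0) (XT.nd (nat_lit 78) (nat_lit 0) (nat_lit 0) (XT.lf (nat_lit 0) (nat_lit 1363796475) (nat_lit 304) (nat_lit 500235288) (nat_lit 380) (nat_lit 9971923545) (nat_lit 266) (nat_lit 5) (nat_lit 270) (nat_lit 5) (nat_lit 271) (nat_lit 5) (nat_lit 370) (nat_lit 351) (nat_lit 299)) (XT.lf (nat_lit 0) (nat_lit 4240385426) (nat_lit 380) (nat_lit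 3438842515) (nat_lit 76) (nat_lit 4465253191) (nat_lit 266) (nat_lit 5) (nat_lit 271) (nat_lit 5) (nat_lit 267) (nat_lit 5) (nat_lit 371) (nat_lit 351) (nat_lit 298))) (XT.nd (nat_lit 78) (nat_lit 0) (nat_lit 0) (XT.lf (nat_lit 0) (nat_lit 4020952089) (nat_lit 304) (nat_lit 2747040422) (nat_lit 380) (nat_lit 5698818950) (nat_lit 262) (nat_lit 5) (nat_lit 266) (nat_lit 5) (nat_lit 267) (nat_lit 5) (nat_lit 372) (nat_lit 351) (nat_lit 297)) (XT.lf (nat_lit 0) (nat_lit 9481612506) (nat_lit 380) (nat_lit 914840903) (nat_lit 76) (nat_lit 2405823271) (nat_lit 262) (nat_lit 5) (nat_lit 267) (nat_lit 5) (nat_lit 263) (nat_lit 5) (nat_lit 373) (nat_lit 351) (nat_lit 296)))) (XT.nd (nat_lit 156) (nat_lit 228) (nat_lit 0) (XT.nd (nat_lit 78) (nat_lit 380) (nat_lit 0) (XT.lf (nat_lit 0) (nat_lit 7131471890) (nat_lit 304) (nat_lit 5320077159) (nat_lit 380) (nat_lit 696934331) (nat_lit 258) (nat_lit 5) (nat_lit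 262) (nat_lit 5) (nat_lit 263) (nat_lit 5) (nat_lit 374) (nat_lit 351) (nat_lit 295)) (XT.lf (nat_lit 0) (nat_lit 2006532095) (nat_lit 380) (nat_lit 11420839841) (nat_lit 76) (nat_lit 82301018) (nat_lit 253) (nat_lit 5) (nat_lit 258) (nat_lit 5) (nat_lit 254) (nat_lit 5) (nat_lit 375) (nat_lit 351) (nat_lit 294))) (XT.nd (nat_lit 78) (nat_lit 228) (nat_lit 0) (XT.lf (nat_lit 0) (nat_lit 4978081403) (nat_lit 380) (nat_lit 3221030183) (nat_lit 76) (nat_lit 5681422607) (nat_lit 253) (nat_lit 5) (nat_lit 258) (nat_lit 5) (nat_lit 254) (nat_lit 5) (nat_lit 376) (nat_lit 351) (nat_lit 293)) (XT.lf (nat_lit 0) (nat_lit 5521924910) (nat_lit 228) (nat_lit 2629681928) (nat_lit 304) (nat_lit 6115661723) (nat_lit 250) (nat_lit 5) (nat_lit 253) (nat_lit 5) (nat_lit 254) (nat_lit 5) (nat_lit 377) (nat_lit 351) (nat_lit 292)))))) (XT.nd (nat_lit 624) (nat_lit 1140) (nat_lit 0) (XT.nd (nat_lit 312) (nat_lit 760)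 (nat_lit 0) (XT.nd (nat_lit 156) (nat_lit 228) (nat_lit 0) (XT.nd (nat_lit 78) (nat_lit 76) (nat_lit 0) (XT.lf (nat_lit 0) (nat_lit 49380102) (nat_lit 304) (nat_lit 11508796778) (nat_lit 380) (nat_lit 3111444350) (nat_lit 246) (nat_lit 5) (nat_lit 250) (nat_lit 5) (nat_lit 251) (nat_lit 5) (nat_lit 378) (nat_lit 351) (nat_lit 291)) (XT.lf (nat_lit 0) (nat_lit 203495719) (nat_lit 380) (nat_lit 5588074819) (nat_lit 76) (nat_lit 9292393061) (nat_lit 245) (nat_lit 5) (nat_lit 250) (nat_lit 5) (nat_lit 246) (nat_lit 5) (nat_lit 379) (nat_lit 351) (nat_lit 290))) (XT.nd (nat_lit 78) (nat_lit 0) (nat_lit 0) (XT.lf (nat_lit 0) (nat_lit 3615651338) (nat_lit 304) (nat_lit 11591974244) (nat_lit 76) (nat_lit 307045467) (nat_lit 242) (nat_lit 5) (nat_lit 246) (nat_lit 5) (nat_lit 243) (nat_lit 5) (nat_lit 380) (nat_lit 351) (nat_lit 289)) (XT.lf (nat_lit 0) (nat_lit 7359896379) (nat_lit 304) (nat_lit 1998771897)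 (nat_lit 76) (nat_lit 6600171512) (nat_lit 242) (nat_lit 5) (nat_lit 246) (nat_lit 5) (nat_lit 243) (nat_lit 5) (nat_lit 381) (nat_lit 351) (nat_lit 288)))) (XT.nd (nat_lit 156) (nat_lit 304) (nat_lit 0) (XT.nd (nat_lit 78) (nat_lit 228) (nat_lit 0) (XT.lf (nat_lit 0) (nat_lit 8298644725) (nat_lit 228) (nat_lit 3094035657) (nat_lit 304) (nat_lit 5027470248) (nat_lit 239) (nat_lit 5) (nat_lit 242) (nat_lit 5) (nat_lit 243) (nat_lit 5) (nat_lit 382) (nat_lit 351) (nat_lit 287)) (XT.lf (nat_lit 0) (nat_lit 2253088735) (nat_lit 228) (nat_lit 13470264054) (nat_lit 304) (nat_lit 1176361764) (nat_lit 236) (nat_lit 5) (nat_lit 239) (nat_lit 5) (nat_lit 240) (nat_lit 5) (nat_lit 383) (nat_lit 351) (nat_lit 286))) (XT.nd (nat_lit 78) (nat_lit 228) (nat_lit 0) (XT.lf (nat_lit 0) (nat_lit 2938562032) (nat_lit 304) (nat_lit 4107555279) (nat_lit 76) (nat_lit 10346749457) (nat_lit 235) (nat_lit 5) (nat_lit 239)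 (nat_lit 5) (nat_lit 236) (nat_lit 5) (nat_lit 384) (nat_lit 351) (nat_lit 285)) (XT.lf (nat_lit 0) (nat_lit 7127493378) (nat_lit 228) (nat_lit 177307368) (nat_lit 304) (nat_lit 10600656506) (nat_lit 232) (nat_lit 5) (nat_lit 235) (nat_lit 5) (nat_lit 236) (nat_lit 5) (nat_lit 385) (nat_lit 351) (nat_lit 284))))) (XT.nd (nat_lit 312) (nat_lit 684) (nat_lit 0) (XT.nd (nat_lit 156) (nat_lit 304) (nat_lit 0) (XT.nd (nat_lit 78) (nat_lit 0) (nat_lit 0) (XT.lf (nat_lit 0) (nat_lit 491209371) (nat_lit 152) (nat_lit 11560594397) (nat_lit 228) (nat_lit 6383750874) (nat_lit 230) (nat_lit 5) (nat_lit 232) (nat_lit 5) (nat_lit 233) (nat_lit 5) (nat_lit 386) (nat_lit 351) (nat_lit 283)) (XT.lf (nat_lit 0) (nat_lit 12655436793) (nat_lit 152) (nat_lit 4540962580) (nat_lit 228) (nat_lit 1787745408) (nat_lit 230) (nat_lit 5) (nat_lit 232) (nat_lit 5) (nat_lit 233) (nat_lit 5) (nat_lit 387) (nat_lit 351) (nat_lit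 282))) (XT.nd (nat_lit 78) (nat_lit 0) (nat_lit 0) (XT.lf (nat_lit 0) (nat_lit 3055999228) (nat_lit 304) (nat_lit 13627669184) (nat_lit 76) (nat_lit 2868365593) (nat_lit 226) (nat_lit 5) (nat_lit 230) (nat_lit 5) (nat_lit 227) (nat_lit 5) (nat_lit 388) (nat_lit 351) (nat_lit 281)) (XT.lf (nat_lit 0) (nat_lit 8241234708) (nat_lit 304) (nat_lit 1277510645) (nat_lit 76) (nat_lit 10620137792) (nat_lit 226) (nat_lit 5) (nat_lit 230) (nat_lit 5) (nat_lit 227) (nat_lit 5) (nat_lit 389) (nat_lit 351) (nat_lit 280)))) (XT.nd (nat_lit 156) (nat_lit 380) (nat_lit 0) (XT.nd (nat_lit 78) (nat_lit 152) (nat_lit 0) (XT.lf (nat_lit 0) (nat_lit 12038456559) (nat_lit 152) (nat_lit 1812376872) (nat_lit 228) (nat_lit 6895986238) (nat_lit 224) (nat_lit 5) (nat_lit 226) (nat_lit 5) (nat_lit 227) (nat_lit 5) (nat_lit 390) (nat_lit 351) (nat_lit 279)) (XT.lf (nat_lit 0) (nat_lit 4695077568) (nat_lit 152) (nat_lit 15216612856)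 (nat_lit 228) (nat_lit 1464923679) (nat_lit 222) (nat_lit 5) (nat_lit 224) (nat_lit 5) (nat_lit 225) (nat_lit 5) (nat_lit 391) (nat_lit 351) (nat_lit 278))) (XT.nd (nat_lit 78) (nat_lit 304) (nat_lit 0) (XT.lf (nat_lit 0) (nat_lit 4259255385) (nat_lit 228) (nat_lit 3095234779) (nat_lit 76) (nat_lit 14672240182) (nat_lit 221) (nat_lit 5) (nat_lit 224) (nat_lit 5) (nat_lit 222) (nat_lit 5) (nat_lit 392) (nat_lit 351) (nat_lit 277)) (XT.nd (nat_lit 78) (nat_lit 152) (nat_lit 0) (XT.lf (nat_lit 0) (nat_lit 10395442446) (nat_lit 228) (nat_lit 11239354091) (nat_lit 76) (nat_lit 1064603604) (nat_lit 219) (nat_lit 5) (nat_lit 222) (nat_lit 5) (nat_lit 220) (nat_lit 5) (nat_lit 393) (nat_lit 351) (nat_lit 276)) (XT.lf (nat_lit 0) (nat_lit 3398921769) (nat_lit 152) (nat_lit 13645328791) (nat_lit 228) (nat_lit 6351162280) (nat_lit 217) (nat_lit 5) (nat_lit 219) (nat_lit 5) (nat_lit 220) (nat_lit 5) (nat_lit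 394) (nat_lit 351) (nat_lit 275))))))))
noncomputable def xc165 : XT := (XT.nd (nat_lit 2496) (nat_lit 2356) (nat_lit 0) (XT.nd (nat_lit 1248) (nat_lit 1292) (nat_lit 0) (XT.nd (nat_lit 624) (nat_lit 836) (nat_lit 0) (XT.nd (nat_lit 312) (nat_lit 380) (nat_lit 0) (XT.nd (nat_lit 156) (nat_lit 152) (nat_lit 0) (XT.nd (nat_lit 78) (nat_lit 152) (nat_lit 0) (XT.lf (nat_lit 0) (nat_lit 74976730) (nat_lit 228) (nat_lit 4994963224) (nat_lit 76) (nat_lit 19047740856) (nat_lit 216) (nat_lit 5) (nat_lit 219) (nat_lit 5) (nat_lit 217) (nat_lit 5) (nat_lit 395) (nat_lit 351) (nat_lit 274)) (XT.lf (nat_lit 0) (nat_lit 6825973402) (nat_lit 228) (nat_lit 13959705204) (nat_lit 76) (nat_lit 4074328130) (nat_lit 214) (nat_lit 5) (nat_lit 217) (nat_lit 5) (nat_lit 215) (nat_lit 5) (nat_lit 396) (nat_lit 351) (nat_lit 273))) (XT.nd (nat_lit 78) (nat_lit 0) (nat_lit 0) (XT.lf (nat_lit 0) (nat_lit 2075956465) (nat_lit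 152) (nat_lit 12020285547) (nat_lit 228) (nat_lit 11534120841) (nat_lit 212) (nat_lit 5) (nat_lit 214) (nat_lit 5) (nat_lit 215) (nat_lit 5) (nat_lit 397) (nat_lit 351) (nat_lit 272)) (XT.lf (nat_lit 0) (nat_lit 19364096687) (nat_lit 152) (nat_lit 2582971577) (nat_lit 228) (nat_lit 4481316303) (nat_lit 212) (nat_lit 5) (nat_lit 214) (nat_lit 5) (nat_lit 215) (nat_lit 5) (nat_lit 398) (nat_lit 351) (nat_lit 271)))) (XT.nd (nat_lit 156) (nat_lit 76) (nat_lit 0) (XT.nd (nat_lit 78) (nat_lit 152) (nat_lit 0) (XT.lf (nat_lit 0) (nat_lit 3093446756) (nat_lit 152) (nat_lit 16866309128) (nat_lit 76) (nat_lit 7291123356) (nat_lit 210) (nat_lit 5) (nat_lit 212) (nat_lit 5) (nat_lit 211) (nat_lit 5) (nat_lit 399) (nat_lit 351) (nat_lit 270)) (XT.lf (nat_lit 0) (nat_lit 714588209) (nat_lit 152) (nat_lit 10338273944) (nat_lit 228) (nat_lit 17050137493) (nat_lit 208) (nat_lit 5) (nat_lit 210) (nat_lit 5) (nat_lit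 211) (nat_lit 5) (nat_lit 400) (nat_lit 351) (nat_lit 269))) (XT.nd (nat_lit 78) (nat_lit 76) (nat_lit 0) (XT.lf (nat_lit 0) (nat_lit 19678458232) (nat_lit 228) (nat_lit 9257631614) (nat_lit 76) (nat_lit 48225733) (nat_lit 208) (nat_lit 5) (nat_lit 211) (nat_lit 5) (nat_lit 209) (nat_lit 4) (nat_lit 401) (nat_lit 351) (nat_lit 268)) (XT.lf (nat_lit 0) (nat_lit 9895225173) (nat_lit 76) (nat_lit 19146527145) (nat_lit 152) (nat_lit 852624077) (nat_lit 207) (nat_lit 5) (nat_lit 208) (nat_lit 5) (nat_lit 209) (nat_lit 4) (nat_lit 402) (nat_lit 351) (nat_lit 267))))) (XT.nd (nat_lit 312) (nat_lit 456) (nat_lit 0) (XT.nd (nat_lit 156) (nat_lit 152) (nat_lit 0) (XT.nd (nat_lit 78) (nat_lit 152) (nat_lit 0) (XT.lf (nat_lit 0) (nat_lit 7908341911) (nat_lit 152) (nat_lit 674566390) (nat_lit 76) (nat_lit 22253675375) (nat_lit 206) (nat_lit 5) (nat_lit 208) (nat_lit 5) (nat_lit 207) (nat_lit 5) (nat_lit 403)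 (nat_lit 351) (nat_lit 266)) (XT.lf (nat_lit 0) (nat_lit 17422088920) (nat_lit 228) (nat_lit 11635450198) (nat_lit 76) (nat_lit 2750494006) (nat_lit 204) (nat_lit 5) (nat_lit 207) (nat_lit 5) (nat_lit 205) (nat_lit 4) (nat_lit 404) (nat_lit 351) (nat_lit 265))) (XT.nd (nat_lit 78) (nat_lit 76) (nat_lit 0) (XT.lf (nat_lit 0) (nat_lit 9387219636) (nat_lit 76) (nat_lit 18306643846) (nat_lit 152) (nat_lit 5120074552) (nat_lit 203) (nat_lit 5) (nat_lit 204) (nat_lit 5) (nat_lit 205) (nat_lit 4) (nat_lit 405) (nat_lit 351) (nat_lit 264)) (XT.lf (nat_lit 0) (nat_lit 4645371055) (nat_lit 152) (nat_lit 2100916994) (nat_lit 76) (nat_lit 27111061998) (nat_lit 202) (nat_lit 5) (nat_lit 204) (nat_lit 5) (nat_lit 203) (nat_lit 5) (nat_lit 406) (nat_lit 351) (nat_lit 263)))) (XT.nd (nat_lit 156) (nat_lit 228) (nat_lit 0) (XT.nd (nat_lit 78) (nat_lit 76) (nat_lit 0) (XT.lf (nat_lit 0) (nat_lit 15127470951) (nat_lit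 228) (nat_lit 14178485211) (nat_lit 76) (nat_lit 5622757209) (nat_lit 200) (nat_lit 5) (nat_lit 203) (nat_lit 5) (nat_lit 201) (nat_lit 4) (nat_lit 407) (nat_lit 351) (nat_lit 262)) (XT.lf (nat_lit 0) (nat_lit 8909930157) (nat_lit 76) (nat_lit 17494015083) (nat_lit 152) (nat_lit 9636186153) (nat_lit 199) (nat_lit 5) (nat_lit 200) (nat_lit 5) (nat_lit 201) (nat_lit 4) (nat_lit 408) (nat_lit 351) (nat_lit 261))) (XT.nd (nat_lit 78) (nat_lit 152) (nat_lit 0) (XT.lf (nat_lit 0) (nat_lit 1232431995) (nat_lit 152) (nat_lit 3599346109) (nat_lit 76) (nat_lit 32363107419) (nat_lit 198) (nat_lit 5) (nat_lit 200) (nat_lit 5) (nat_lit 199) (nat_lit 5) (nat_lit 409) (nat_lit 351) (nat_lit 260)) (XT.lf (nat_lit 0) (nat_lit 12783347669) (nat_lit 228) (nat_lit 16909265606) (nat_lit 76) (nat_lit 8683730287) (nat_lit 196) (nat_lit 5) (nat_lit 199) (nat_lit 5) (nat_lit 197) (nat_lit 4) (nat_lit 410) (nat_lit 351)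 (nat_lit 259)))))) (XT.nd (nat_lit 624) (nat_lit 684) (nat_lit 0) (XT.nd (nat_lit 312) (nat_lit 228) (nat_lit 0) (XT.nd (nat_lit 156) (nat_lit 304) (nat_lit 0) (XT.nd (nat_lit 78) (nat_lit 0) (nat_lit 0) (XT.lf (nat_lit 0) (nat_lit 8460737144) (nat_lit 76) (nat_lit 16709601775) (nat_lit 152) (nat_lit 14433609095) (nat_lit 195) (nat_lit 5) (nat_lit 196) (nat_lit 5) (nat_lit 197) (nat_lit 4) (nat_lit 411) (nat_lit 351) (nat_lit 258)) (XT.lf (nat_lit 0) (nat_lit 35658931833) (nat_lit 76) (nat_lit 2789657369) (nat_lit 152) (nat_lit 2430748013) (nat_lit 195) (nat_lit 5) (nat_lit 196) (nat_lit 5) (nat_lit 197) (nat_lit 4) (nat_lit 412) (nat_lit 351) (nat_lit 257))) (XT.nd (nat_lit 78) (nat_lit 76) (nat_lit 0) (XT.lf (nat_lit 0) (nat_lit 10377328942) (nat_lit 228) (nat_lit 19852034149) (nat_lit 76) (nat_lit 11954659486) (nat_lit 192) (nat_lit 5) (nat_lit 195) (nat_lit 5) (nat_lit 193) (nat_lit 4) (nat_lit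 413) (nat_lit 351) (nat_lit 256)) (XT.lf (nat_lit 0) (nat_lit 8037350866) (nat_lit 76) (nat_lit 15953918611) (nat_lit 152) (nat_lit 19548322874) (nat_lit 191) (nat_lit 5) (nat_lit 192) (nat_lit 5) (nat_lit 193) (nat_lit 4) (nat_lit 414) (nat_lit 351) (nat_lit 255)))) (XT.nd (nat_lit 156) (nat_lit 76) (nat_lit 0) (XT.nd (nat_lit 78) (nat_lit 152) (nat_lit 0) (XT.lf (nat_lit 0) (nat_lit 37984266026) (nat_lit 76) (nat_lit 624171396) (nat_lit 152) (nat_lit 6338376674) (nat_lit 191) (nat_lit 5) (nat_lit 192) (nat_lit 5) (nat_lit 193) (nat_lit 4) (nat_lit 415) (nat_lit 351) (nat_lit 254)) (XT.lf (nat_lit 0) (nat_lit 7895832345) (nat_lit 152) (nat_lit 23033009770) (nat_lit 76) (nat_lit 15459433044) (nat_lit 189) (nat_lit 5) (nat_lit 191) (nat_lit 5) (nat_lit 190) (nat_lit 4) (nat_lit 416) (nat_lit 351) (nat_lit 253))) (XT.nd (nat_lit 78) (nat_lit 0) (nat_lit 0) (XT.lf (nat_lit 0) (nat_lit 7637759381)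 (nat_lit 76) (nat_lit 15227126303) (nat_lit 152) (nat_lit 25019920954) (nat_lit 188) (nat_lit 5) (nat_lit 189) (nat_lit 5) (nat_lit 190) (nat_lit 4) (nat_lit 417) (nat_lit 351) (nat_lit 252)) (XT.lf (nat_lit 0) (nat_lit 38985396534) (nat_lit 152) (nat_lit 8846454294) (nat_lit 0) (nat_lit 1604163624) (nat_lit 188) (nat_lit 5) (nat_lit 190) (nat_lit 4) (nat_lit 188) (nat_lit 4) (nat_lit 418) (nat_lit 351) (nat_lit 251))))) (XT.nd (nat_lit 312) (nat_lit 304) (nat_lit 0) (XT.nd (nat_lit 156) (nat_lit 152) (nat_lit 0) (XT.nd (nat_lit 78) (nat_lit 76) (nat_lit 0) (XT.lf (nat_lit 0) (nat_lit 5324005239) (nat_lit 152) (nat_lit 26480662335) (nat_lit 76) (nat_lit 19224731500) (nat_lit 186) (nat_lit 5) (nat_lit 188) (nat_lit 5) (nat_lit 187) (nat_lit 4) (nat_lit 419) (nat_lit 351) (nat_lit 250)) (XT.lf (nat_lit 0) (nat_lit 7260185386) (nat_lit 76) (nat_lit 14529106855) (nat_lit 152) (nat_lit 30891937505)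 (nat_lit 185) (nat_lit 5) (nat_lit 186) (nat_lit 5) (nat_lit 187) (nat_lit 4) (nat_lit 420) (nat_lit 351) (nat_lit 249))) (XT.nd (nat_lit 78) (nat_lit 152) (nat_lit 0) (XT.lf (nat_lit 0) (nat_lit 39577579803) (nat_lit 152) (nat_lit 10873825289) (nat_lit 0) (nat_lit 3939260050) (nat_lit 185) (nat_lit 5) (nat_lit 187) (nat_lit 4) (nat_lit 185) (nat_lit 4) (nat_lit 421) (nat_lit 351) (nat_lit 248)) (XT.lf (nat_lit 0) (nat_lit 2645628250) (nat_lit 152) (nat_lit 30226003637) (nat_lit 76) (nat_lit 23280216601) (nat_lit 183) (nat_lit 5) (nat_lit 185) (nat_lit 5) (nat_lit 184) (nat_lit 4) (nat_lit 422) (nat_lit 351) (nat_lit 247)))) (XT.nd (nat_lit 156) (nat_lit 228) (nat_lit 0) (XT.nd (nat_lit 78) (nat_lit 0) (nat_lit 0) (XT.lf (nat_lit 0) (nat_lit 6903050428) (nat_lit 76) (nat_lit 13859524891) (nat_lit 152) (nat_lit 37212218078) (nat_lit 182) (nat_lit 5) (nat_lit 183) (nat_lit 5) (nat_lit 184) (nat_lit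 4) (nat_lit 423) (nat_lit 351) (nat_lit 246)) (XT.lf (nat_lit 0) (nat_lit 40389140901) (nat_lit 152) (nat_lit 13052231839) (nat_lit 0) (nat_lit 6417324254) (nat_lit 182) (nat_lit 5) (nat_lit 184) (nat_lit 4) (nat_lit 182) (nat_lit 4) (nat_lit 424) (nat_lit 351) (nat_lit 245))) (XT.nd (nat_lit 78) (nat_lit 152) (nat_lit 0) (XT.lf (nat_lit 0) (nat_lit 27499099934) (nat_lit 76) (nat_lit 34143239720) (nat_lit 76) (nat_lit 162190873) (nat_lit 181) (nat_lit 4) (nat_lit 182) (nat_lit 5) (nat_lit 182) (nat_lit 4) (nat_lit 425) (nat_lit 351) (nat_lit 244)) (XT.lf (nat_lit 0) (nat_lit 6564945188) (nat_lit 76) (nat_lit 13217877546) (nat_lit 152) (nat_lit 44033336750) (nat_lit 179) (nat_lit 5) (nat_lit 180) (nat_lit 5) (nat_lit 181) (nat_lit 4) (nat_lit 426) (nat_lit 351) (nat_lit 243))))))) (XT.nd (nat_lit 1248) (nat_lit 1216) (nat_lit 0) (XT.nd (nat_lit 624) (nat_lit 608) (nat_lit 0) (XT.nd (nat_lit 312)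 (nat_lit 304) (nat_lit 0) (XT.nd (nat_lit 156) (nat_lit 152) (nat_lit 0) (XT.nd (nat_lit 78) (nat_lit 76) (nat_lit 0) (XT.lf (nat_lit 0) (nat_lit 41435614071) (nat_lit 152) (nat_lit 15400462584) (nat_lit 0) (nat_lit 9056361407) (nat_lit 179) (nat_lit 5) (nat_lit 181) (nat_lit 4) (nat_lit 179) (nat_lit 4) (nat_lit 427) (nat_lit 351) (nat_lit 242)) (XT.lf (nat_lit 0) (nat_lit 29240952563) (nat_lit 76) (nat_lit 35592649094) (nat_lit 76) (nat_lit 3205801076) (nat_lit 178) (nat_lit 4) (nat_lit 179) (nat_lit 5) (nat_lit 179) (nat_lit 4) (nat_lit 428) (nat_lit 351) (nat_lit 241))) (XT.nd (nat_lit 78) (nat_lit 0) (nat_lit 0) (XT.lf (nat_lit 0) (nat_lit 6244604766) (nat_lit 76) (nat_lit 12603534968) (nat_lit 152) (nat_lit 51413062869) (nat_lit 176) (nat_lit 5) (nat_lit 177) (nat_lit 5) (nat_lit 178) (nat_lit 4) (nat_lit 429) (nat_lit 351) (nat_lit 240)) (XT.lf (nat_lit 0) (nat_lit 42734349749) (nat_lit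 152) (nat_lit 17938967380) (nat_lit 0) (nat_lit 11876282226) (nat_lit 176) (nat_lit 5) (nat_lit 178) (nat_lit 4) (nat_lit 176) (nat_lit 4) (nat_lit 430) (nat_lit 351) (nat_lit 239)))) (XT.nd (nat_lit 156) (nat_lit 76) (nat_lit 0) (XT.nd (nat_lit 78) (nat_lit 152) (nat_lit 0) (XT.lf (nat_lit 0) (nat_lit 31214890729) (nat_lit 76) (nat_lit 37283824601) (nat_lit 76) (nat_lit 6419508361) (nat_lit 175) (nat_lit 4) (nat_lit 176) (nat_lit 5) (nat_lit 176) (nat_lit 4) (nat_lit 431) (nat_lit 351) (nat_lit 238)) (XT.lf (nat_lit 0) (nat_lit 5940888092) (nat_lit 76) (nat_lit 12015773122) (nat_lit 152) (nat_lit 59414881157) (nat_lit 173) (nat_lit 5) (nat_lit 174) (nat_lit 5) (nat_lit 175) (nat_lit 4) (nat_lit 432) (nat_lit 351) (nat_lit 237))) (XT.nd (nat_lit 78) (nat_lit 76) (nat_lit 0) (XT.lf (nat_lit 0) (nat_lit 44304709048) (nat_lit 152) (nat_lit 20690059173) (nat_lit 0) (nat_lit 14899056506) (nat_lit 173)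 (nat_lit 5) (nat_lit 175) (nat_lit 4) (nat_lit 173) (nat_lit 4) (nat_lit 433) (nat_lit 351) (nat_lit 236)) (XT.lf (nat_lit 0) (nat_lit 33441751084) (nat_lit 76) (nat_lit 39237894586) (nat_lit 76) (nat_lit 9827101209) (nat_lit 172) (nat_lit 4) (nat_lit 173) (nat_lit 5) (nat_lit 173) (nat_lit 4) (nat_lit 434) (nat_lit 351) (nat_lit 235))))) (XT.nd (nat_lit 312) (nat_lit 228) (nat_lit 0) (XT.nd (nat_lit 156) (nat_lit 228) (nat_lit 0) (XT.nd (nat_lit 78) (nat_lit 0) (nat_lit 0) (XT.lf (nat_lit 0) (nat_lit 5652760762) (nat_lit 76) (nat_lit 11453800297) (nat_lit 152) (nat_lit 68108569551) (nat_lit 170) (nat_lit 5) (nat_lit 171) (nat_lit 5) (nat_lit 172) (nat_lit 4) (nat_lit 435) (nat_lit 351) (nat_lit 234)) (XT.lf (nat_lit 0) (nat_lit 46168274418) (nat_lit 152) (nat_lit 23678131680) (nat_lit 0) (nat_lit 18148891276) (nat_lit 170) (nat_lit 5) (nat_lit 172) (nat_lit 4) (nat_lit 170) (nat_lit 4) (nat_lit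 436) (nat_lit 351) (nat_lit 233))) (XT.nd (nat_lit 78) (nat_lit 152) (nat_lit 0) (XT.lf (nat_lit 0) (nat_lit 35944717941) (nat_lit 76) (nat_lit 41478187723) (nat_lit 76) (nat_lit 13454575203) (nat_lit 169) (nat_lit 4) (nat_lit 170) (nat_lit 5) (nat_lit 170) (nat_lit 4) (nat_lit 437) (nat_lit 351) (nat_lit 232)) (XT.lf (nat_lit 0) (nat_lit 5379280674) (nat_lit 76) (nat_lit 10916778434) (nat_lit 152) (nat_lit 77570839802) (nat_lit 167) (nat_lit 5) (nat_lit 168) (nat_lit 5) (nat_lit 169) (nat_lit 4) (nat_lit 438) (nat_lit 351) (nat_lit 231)))) (XT.nd (nat_lit 156) (nat_lit 152) (nat_lit 0) (XT.nd (nat_lit 78) (nat_lit 76) (nat_lit 0) (XT.lf (nat_lit 0) (nat_lit 48349078911) (nat_lit 152) (nat_lit 26929895351) (nat_lit 0) (nat_lit 21652434465) (nat_lit 167) (nat_lit 5) (nat_lit 169) (nat_lit 4) (nat_lit 167) (nat_lit 4) (nat_lit 439) (nat_lit 351) (nat_lit 230)) (XT.lf (nat_lit 0) (nat_lit 38749541179)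 (nat_lit 76) (nat_lit 44030481584) (nat_lit 76) (nat_lit 17330357619) (nat_lit 166) (nat_lit 4) (nat_lit 167) (nat_lit 5) (nat_lit 167) (nat_lit 4) (nat_lit 440) (nat_lit 351) (nat_lit 229))) (XT.nd (nat_lit 78) (nat_lit 0) (nat_lit 0) (XT.lf (nat_lit 0) (nat_lit 5119586004) (nat_lit 76) (nat_lit 10403840237) (nat_lit 152) (nat_lit 87886046551) (nat_lit 164) (nat_lit 5) (nat_lit 165) (nat_lit 5) (nat_lit 166) (nat_lit 4) (nat_lit 441) (nat_lit 351) (nat_lit 228)) (XT.lf (nat_lit 0) (nat_lit 50873856587) (nat_lit 152) (nat_lit 30474634149) (nat_lit 0) (nat_lit 25439005330) (nat_lit 164) (nat_lit 5) (nat_lit 166) (nat_lit 4) (nat_lit 164) (nat_lit 4) (nat_lit 442) (nat_lit 351) (nat_lit 227)))))) (XT.nd (nat_lit 624) (nat_lit 532) (nat_lit 0) (XT.nd (nat_lit 312) (nat_lit 380) (nat_lit 0) (XT.nd (nat_lit 156) (nat_lit 76) (nat_lit 0) (XT.nd (nat_lit 78) (nat_lit 152) (nat_lit 0) (XT.lf (nat_lit 0)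 (nat_lit 41884779795) (nat_lit 76) (nat_lit 46923271222) (nat_lit 76) (nat_lit 21485557357) (nat_lit 163) (nat_lit 4) (nat_lit 164) (nat_lit 5) (nat_lit 164) (nat_lit 4) (nat_lit 443) (nat_lit 351) (nat_lit 226)) (XT.lf (nat_lit 0) (nat_lit 4872885106) (nat_lit 76) (nat_lit 9914102828) (nat_lit 152) (nat_lit 99146971294) (nat_lit 161) (nat_lit 5) (nat_lit 162) (nat_lit 5) (nat_lit 163) (nat_lit 4) (nat_lit 444) (nat_lit 351) (nat_lit 225))) (XT.nd (nat_lit 78) (nat_lit 76) (nat_lit 0) (XT.lf (nat_lit 0) (nat_lit 53772316756) (nat_lit 152) (nat_lit 34344485863) (nat_lit 0) (nat_lit 29540853298) (nat_lit 161) (nat_lit 5) (nat_lit 163) (nat_lit 4) (nat_lit 161) (nat_lit 4) (nat_lit 445) (nat_lit 351) (nat_lit 224)) (XT.lf (nat_lit 0) (nat_lit 45382073198) (nat_lit 76) (nat_lit 50188060839) (nat_lit 76) (nat_lit 25954242305) (nat_lit 160) (nat_lit 4) (nat_lit 161) (nat_lit 5) (nat_lit 161) (nat_lit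 4) (nat_lit 446) (nat_lit 351) (nat_lit 223)))) (XT.nd (nat_lit 156) (nat_lit 228) (nat_lit 0) (XT.nd (nat_lit 78) (nat_lit 0) (nat_lit 0) (XT.lf (nat_lit 0) (nat_lit 4638447998) (nat_lit 76) (nat_lit 9446678568) (nat_lit 152) (nat_lit 111455688435) (nat_lit 158) (nat_lit 5) (nat_lit 159) (nat_lit 5) (nat_lit 160) (nat_lit 4) (nat_lit 447) (nat_lit 351) (nat_lit 222)) (XT.lf (nat_lit 0) (nat_lit 57077444909) (nat_lit 152) (nat_lit 38574748820) (nat_lit 0) (nat_lit 33993447207) (nat_lit 158) (nat_lit 5) (nat_lit 160) (nat_lit 4) (nat_lit 158) (nat_lit 4) (nat_lit 448) (nat_lit 351) (nat_lit 221))) (XT.nd (nat_lit 78) (nat_lit 152) (nat_lit 0) (XT.lf (nat_lit 0) (nat_lit 49276442619) (nat_lit 76) (nat_lit 53859681758) (nat_lit 76) (nat_lit 30773746530) (nat_lit 157) (nat_lit 4) (nat_lit 158) (nat_lit 5) (nat_lit 158) (nat_lit 4) (nat_lit 449) (nat_lit 351) (nat_lit 220)) (XT.lf (nat_lit 0) (nat_lit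 4415599182) (nat_lit 76) (nat_lit 9000683584) (nat_lit 152) (nat_lit 124924521445) (nat_lit 155) (nat_lit 5) (nat_lit 156) (nat_lit 5) (nat_lit 157) (nat_lit 4) (nat_lit 450) (nat_lit 351) (nat_lit 219))))) (XT.nd (nat_lit 312) (nat_lit 304) (nat_lit 0) (XT.nd (nat_lit 156) (nat_lit 152) (nat_lit 0) (XT.nd (nat_lit 78) (nat_lit 76) (nat_lit 0) (XT.lf (nat_lit 0) (nat_lit 60825833408) (nat_lit 152) (nat_lit 43204218086) (nat_lit 0) (nat_lit 38835797328) (nat_lit 155) (nat_lit 5) (nat_lit 157) (nat_lit 4) (nat_lit 155) (nat_lit 4) (nat_lit 451) (nat_lit 351) (nat_lit 218)) (XT.lf (nat_lit 0) (nat_lit 53606625342) (nat_lit 76) (nat_lit 57976640108) (nat_lit 76) (nat_lit 35985010019) (nat_lit 154) (nat_lit 4) (nat_lit 155) (nat_lit 5) (nat_lit 155) (nat_lit 4) (nat_lit 452) (nat_lit 351) (nat_lit 217))) (XT.nd (nat_lit 78) (nat_lit 0) (nat_lit 0) (XT.lf (nat_lit 0) (nat_lit 4203711551) (nat_lit 76)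 (nat_lit 8575244420) (nat_lit 152) (nat_lit 139677098042) (nat_lit 152) (nat_lit 5) (nat_lit 153) (nat_lit 5) (nat_lit 154) (nat_lit 4) (nat_lit 453) (nat_lit 351) (nat_lit 216)) (XT.lf (nat_lit 0) (nat_lit 65058045292) (nat_lit 152) (nat_lit 48275554509) (nat_lit 0) (nat_lit 44110812908) (nat_lit 152) (nat_lit 5) (nat_lit 154) (nat_lit 4) (nat_lit 152) (nat_lit 4) (nat_lit 454) (nat_lit 351) (nat_lit 215)))) (XT.nd (nat_lit 156) (nat_lit 76) (nat_lit 0) (XT.nd (nat_lit 78) (nat_lit 152) (nat_lit 0) (XT.lf (nat_lit 0) (nat_lit 58415444817) (nat_lit 76) (nat_lit 62581497812) (nat_lit 76) (nat_lit 41632954033) (nat_lit 151) (nat_lit 4) (nat_lit 152) (nat_lit 5) (nat_lit 152) (nat_lit 4) (nat_lit 455) (nat_lit 351) (nat_lit 214)) (XT.lf (nat_lit 0) (nat_lit 4002201207) (nat_lit 76) (nat_lit 8169503149) (nat_lit 152) (nat_lit 155849514286) (nat_lit 149) (nat_lit 5) (nat_lit 150) (nat_lit 5) (nat_lit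 151) (nat_lit 4) (nat_lit 456) (nat_lit 351) (nat_lit 213))) (XT.nd (nat_lit 78) (nat_lit 76) (nat_lit 0) (XT.lf (nat_lit 0) (nat_lit 69819014773) (nat_lit 152) (nat_lit 53835690217) (nat_lit 0) (nat_lit 49865698393) (nat_lit 149) (nat_lit 5) (nat_lit 151) (nat_lit 4) (nat_lit 149) (nat_lit 4) (nat_lit 457) (nat_lit 351) (nat_lit 212)) (XT.lf (nat_lit 0) (nat_lit 63750220066) (nat_lit 76) (nat_lit 67721290777) (nat_lit 76) (nat_lit 47766895510) (nat_lit 148) (nat_lit 4) (nat_lit 149) (nat_lit 5) (nat_lit 149) (nat_lit 4) (nat_lit 458) (nat_lit 351) (nat_lit 211))))))))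
noncomputable def xc166 : XT := (XT.nd (nat_lit 2496) (nat_lit 228) (nat_lit 0) (XT.nd (nat_lit 1248) (nat_lit 1140) (nat_lit 0) (XT.nd (nat_lit 624) (nat_lit 684) (nat_lit 0) (XT.nd (nat_lit 312) (nat_lit 228) (nat_lit 0) (XT.nd (nat_lit 156) (nat_lit 228) (nat_lit 0) (XT.nd (nat_lit 78) (nat_lit 0) (nat_lit 0) (XT.lf (nat_lit 0) (nat_lit 3810523039) (nat_lit 76) (nat_lit 7782621262) (nat_lit 152) (nat_lit 173591618539) (nat_lit 146) (nat_lit 5) (nat_lit 147) (nat_lit 5) (nat_lit 148) (nat_lit 4) (nat_lit 459) (nat_lit 351) (nat_lit 210)) (XT.lf (nat_lit 0) (nat_lit 75158488398) (nat_lit 152) (nat_lit 59936274535) (nat_lit 0) (nat_lit 56152391863) (nat_lit 146) (nat_lit 5) (nat_lit 148) (nat_lit 4) (nat_lit 146) (nat_lit 4) (nat_lit 460) (nat_lit 351) (nat_lit 209))) (XT.nd (nat_lit 78) (nat_lit 152) (nat_lit 0) (XT.lf (nat_lit 0) (nat_lit 69663218197) (nat_lit 76) (nat_lit 73447988472) (nat_lit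 76) (nat_lit 54441004334) (nat_lit 145) (nat_lit 4) (nat_lit 146) (nat_lit 5) (nat_lit 146) (nat_lit 4) (nat_lit 461) (nat_lit 351) (nat_lit 208)) (XT.lf (nat_lit 0) (nat_lit 3628166925) (nat_lit 76) (nat_lit 7413782537) (nat_lit 152) (nat_lit 193068427410) (nat_lit 143) (nat_lit 5) (nat_lit 144) (nat_lit 5) (nat_lit 145) (nat_lit 4) (nat_lit 462) (nat_lit 351) (nat_lit 207)))) (XT.nd (nat_lit 156) (nat_lit 152) (nat_lit 0) (XT.nd (nat_lit 78) (nat_lit 76) (nat_lit 0) (XT.lf (nat_lit 0) (nat_lit 81131511177) (nat_lit 152) (nat_lit 66634164641) (nat_lit 0) (nat_lit 63028049695) (nat_lit 143) (nat_lit 5) (nat_lit 145) (nat_lit 4) (nat_lit 143) (nat_lit 4) (nat_lit 463) (nat_lit 351) (nat_lit 206)) (XT.lf (nat_lit 0) (nat_lit 76212154268) (nat_lit 76) (nat_lit 79818999448) (nat_lit 76) (nat_lit 61714807733) (nat_lit 142) (nat_lit 4) (nat_lit 143) (nat_lit 5) (nat_lit 143) (nat_lit 4) (nat_lit 464)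 (nat_lit 351) (nat_lit 205))) (XT.nd (nat_lit 78) (nat_lit 0) (nat_lit 0) (XT.lf (nat_lit 0) (nat_lit 3454654472) (nat_lit 76) (nat_lit 7062195112) (nat_lit 152) (nat_lit 214461687081) (nat_lit 140) (nat_lit 5) (nat_lit 141) (nat_lit 5) (nat_lit 142) (nat_lit 4) (nat_lit 465) (nat_lit 351) (nat_lit 204)) (XT.lf (nat_lit 0) (nat_lit 87798962395) (nat_lit 152) (nat_lit 73991965694) (nat_lit 0) (nat_lit 70555581900) (nat_lit 140) (nat_lit 5) (nat_lit 142) (nat_lit 4) (nat_lit 140) (nat_lit 4) (nat_lit 466) (nat_lit 351) (nat_lit 203))))) (XT.nd (nat_lit 312) (nat_lit 380) (nat_lit 0) (XT.nd (nat_lit 156) (nat_lit 76) (nat_lit 0) (XT.nd (nat_lit 78) (nat_lit 152) (nat_lit 0) (XT.lf (nat_lit 0) (nat_lit 83460743206) (nat_lit 76) (nat_lit 86897727764) (nat_lit 76) (nat_lit 69653746505) (nat_lit 139) (nat_lit 4) (nat_lit 140) (nat_lit 5) (nat_lit 140) (nat_lit 4) (nat_lit 467) (nat_lit 351) (nat_lit 202))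 (XT.lf (nat_lit 0) (nat_lit 3289536177) (nat_lit 76) (nat_lit 6727092892) (nat_lit 152) (nat_lit 237971594795) (nat_lit 137) (nat_lit 5) (nat_lit 138) (nat_lit 5) (nat_lit 139) (nat_lit 4) (nat_lit 468) (nat_lit 351) (nat_lit 201))) (XT.nd (nat_lit 78) (nat_lit 76) (nat_lit 0) (XT.lf (nat_lit 0) (nat_lit 95228146300) (nat_lit 152) (nat_lit 82078625632) (nat_lit 0) (nat_lit 78804243130) (nat_lit 137) (nat_lit 5) (nat_lit 139) (nat_lit 4) (nat_lit 137) (nat_lit 4) (nat_lit 469) (nat_lit 351) (nat_lit 200)) (XT.lf (nat_lit 0) (nat_lit 91479308990) (nat_lit 76) (nat_lit 94754185742) (nat_lit 76) (nat_lit 78329788322) (nat_lit 136) (nat_lit 4) (nat_lit 137) (nat_lit 5) (nat_lit 137) (nat_lit 4) (nat_lit 470) (nat_lit 351) (nat_lit 199)))) (XT.nd (nat_lit 156) (nat_lit 228) (nat_lit 0) (XT.nd (nat_lit 78) (nat_lit 0) (nat_lit 0) (XT.lf (nat_lit 0) (nat_lit 3132388976) (nat_lit 76) (nat_lit 6407736443)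 (nat_lit 152) (nat_lit 263818696857) (nat_lit 134) (nat_lit 5) (nat_lit 135) (nat_lit 5) (nat_lit 136) (nat_lit 4) (nat_lit 471) (nat_lit 351) (nat_lit 198)) (XT.lf (nat_lit 0) (nat_lit 103493443363) (nat_lit 152) (nat_lit 90970090346) (nat_lit 0) (nat_lit 87850284853) (nat_lit 134) (nat_lit 5) (nat_lit 136) (nat_lit 4) (nat_lit 134) (nat_lit 4) (nat_lit 472) (nat_lit 351) (nat_lit 197))) (XT.nd (nat_lit 78) (nat_lit 152) (nat_lit 0) (XT.lf (nat_lit 0) (nat_lit 100345456877) (nat_lit 76) (nat_lit 103465668991) (nat_lit 76) (nat_lit 87822103861) (nat_lit 133) (nat_lit 4) (nat_lit 134) (nat_lit 5) (nat_lit 134) (nat_lit 4) (nat_lit 473) (nat_lit 351) (nat_lit 196)) (XT.lf (nat_lit 0) (nat_lit 2982814088) (nat_lit 76) (nat_lit 6103413461) (nat_lit 152) (nat_lit 292245981150) (nat_lit 131) (nat_lit 5) (nat_lit 132) (nat_lit 5) (nat_lit 133) (nat_lit 4) (nat_lit 474) (nat_lit 351) (nat_lit 195))))))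 (XT.nd (nat_lit 624) (nat_lit 608) (nat_lit 0) (XT.nd (nat_lit 312) (nat_lit 304) (nat_lit 0) (XT.nd (nat_lit 156) (nat_lit 152) (nat_lit 0) (XT.nd (nat_lit 78) (nat_lit 76) (nat_lit 0) (XT.lf (nat_lit 0) (nat_lit 112677028373) (nat_lit 152) (nat_lit 100750025500) (nat_lit 0) (nat_lit 97777674843) (nat_lit 131) (nat_lit 5) (nat_lit 133) (nat_lit 4) (nat_lit 131) (nat_lit 4) (nat_lit 475) (nat_lit 351) (nat_lit 194)) (XT.lf (nat_lit 0) (nat_lit 110144815039) (nat_lit 76) (nat_lit 113117500225) (nat_lit 76) (nat_lit 98217812166) (nat_lit 130) (nat_lit 4) (nat_lit 131) (nat_lit 5) (nat_lit 131) (nat_lit 4) (nat_lit 476) (nat_lit 351) (nat_lit 193))) (XT.nd (nat_lit 78) (nat_lit 0) (nat_lit 0) (XT.lf (nat_lit 0) (nat_lit 2840435128) (nat_lit 76) (nat_lit 5813438912) (nat_lit 152) (nat_lit 323521184073) (nat_lit 128) (nat_lit 5) (nat_lit 129) (nat_lit 5) (nat_lit 130) (nat_lit 4) (nat_lit 477) (nat_lit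 351) (nat_lit 192)) (XT.lf (nat_lit 0) (nat_lit 122869662260) (nat_lit 152) (nat_lit 111510611905) (nat_lit 0) (nat_lit 108678890752) (nat_lit 128) (nat_lit 5) (nat_lit 130) (nat_lit 4) (nat_lit 128) (nat_lit 4) (nat_lit 478) (nat_lit 351) (nat_lit 191)))) (XT.nd (nat_lit 156) (nat_lit 76) (nat_lit 0) (XT.nd (nat_lit 78) (nat_lit 152) (nat_lit 0) (XT.lf (nat_lit 0) (nat_lit 120971852651) (nat_lit 76) (nat_lit 123803849022) (nat_lit 76) (nat_lit 109612802296) (nat_lit 127) (nat_lit 4) (nat_lit 128) (nat_lit 5) (nat_lit 128) (nat_lit 4) (nat_lit 479) (nat_lit 351) (nat_lit 190)) (XT.lf (nat_lit 0) (nat_lit 2704896435) (nat_lit 76) (nat_lit 5537154917) (nat_lit 152) (nat_lit 357939333822) (nat_lit 125) (nat_lit 5) (nat_lit 126) (nat_lit 5) (nat_lit 127) (nat_lit 4) (nat_lit 480) (nat_lit 351) (nat_lit 189))) (XT.nd (nat_lit 78) (nat_lit 76) (nat_lit 0) (XT.lf (nat_lit 0) (nat_lit 134171565240) (nat_lit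 152) (nat_lit 123353422044) (nat_lit 0) (nat_lit 120655795270) (nat_lit 125) (nat_lit 5) (nat_lit 127) (nat_lit 4) (nat_lit 125) (nat_lit 4) (nat_lit 481) (nat_lit 351) (nat_lit 188)) (XT.lf (nat_lit 0) (nat_lit 132930782221) (nat_lit 76) (nat_lit 135628635417) (nat_lit 76) (nat_lit 122112639026) (nat_lit 124) (nat_lit 4) (nat_lit 125) (nat_lit 5) (nat_lit 125) (nat_lit 4) (nat_lit 482) (nat_lit 351) (nat_lit 187))))) (XT.nd (nat_lit 312) (nat_lit 228) (nat_lit 0) (XT.nd (nat_lit 156) (nat_lit 228) (nat_lit 0) (XT.nd (nat_lit 78) (nat_lit 0) (nat_lit 0) (XT.lf (nat_lit 0) (nat_lit 2575861586) (nat_lit 76) (nat_lit 5273930422) (nat_lit 152) (nat_lit 395825554211) (nat_lit 122) (nat_lit 5) (nat_lit 123) (nat_lit 5) (nat_lit 124) (nat_lit 4) (nat_lit 483) (nat_lit 351) (nat_lit 186)) (XT.lf (nat_lit 0) (nat_lit 146693379634) (nat_lit 152) (nat_lit 136390386114) (nat_lit 0) (nat_lit 133820601155) (nat_lit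 122) (nat_lit 5) (nat_lit 124) (nat_lit 4) (nat_lit 122) (nat_lit 4) (nat_lit 484) (nat_lit 351) (nat_lit 185))) (XT.nd (nat_lit 78) (nat_lit 152) (nat_lit 0) (XT.lf (nat_lit 0) (nat_lit 146136554733) (nat_lit 76) (nat_lit 148706525970) (nat_lit 76) (nat_lit 135833561214) (nat_lit 121) (nat_lit 4) (nat_lit 122) (nat_lit 5) (nat_lit 122) (nat_lit 4) (nat_lit 485) (nat_lit 351) (nat_lit 184)) (XT.lf (nat_lit 0) (nat_lit 2453012078) (nat_lit 76) (nat_lit 5023160722) (nat_lit 152) (nat_lit 437538155726) (nat_lit 119) (nat_lit 5) (nat_lit 120) (nat_lit 5) (nat_lit 121) (nat_lit 4) (nat_lit 486) (nat_lit 351) (nat_lit 183)))) (XT.nd (nat_lit 156) (nat_lit 152) (nat_lit 0) (XT.nd (nat_lit 78) (nat_lit 76) (nat_lit 0) (XT.lf (nat_lit 0) (nat_lit 160557231583) (nat_lit 152) (nat_lit 150744856802) (nat_lit 0) (nat_lit 148296935275) (nat_lit 119) (nat_lit 5) (nat_lit 121) (nat_lit 4) (nat_lit 119) (nat_lit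 4) (nat_lit 487) (nat_lit 351) (nat_lit 182)) (XT.lf (nat_lit 0) (nat_lit 160715957089) (nat_lit 76) (nat_lit 163164031868) (nat_lit 76) (nat_lit 150903582309) (nat_lit 118) (nat_lit 4) (nat_lit 119) (nat_lit 5) (nat_lit 119) (nat_lit 4) (nat_lit 488) (nat_lit 351) (nat_lit 181))) (XT.nd (nat_lit 78) (nat_lit 0) (nat_lit 0) (XT.lf (nat_lit 0) (nat_lit 2336046132) (nat_lit 76) (nat_lit 4784266865) (nat_lit 152) (nat_lit 483472043223) (nat_lit 116) (nat_lit 5) (nat_lit 117) (nat_lit 5) (nat_lit 118) (nat_lit 4) (nat_lit 489) (nat_lit 351) (nat_lit 180)) (XT.lf (nat_lit 0) (nat_lit 175897901794) (nat_lit 152) (nat_lit 166552782956) (nat_lit 0) (nat_lit 164221011779) (nat_lit 116) (nat_lit 5) (nat_lit 118) (nat_lit 4) (nat_lit 116) (nat_lit 4) (nat_lit 490) (nat_lit 351) (nat_lit 179))))))) (XT.nd (nat_lit 43368) (nat_lit 0) (nat_lit 9804) (XT.nd (nat_lit 42744) (nat_lit 0) (nat_lit 13224) (XT.nd (nat_lit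 42432) (nat_lit 0) (nat_lit 14592) (XT.nd (nat_lit 42276) (nat_lit 0) (nat_lit 15124) (XT.nd (nat_lit 78) (nat_lit 152) (nat_lit 0) (XT.lf (nat_lit 0) (nat_lit 176808822282) (nat_lit 76) (nat_lit 179140719539) (nat_lit 76) (nat_lit 167463703444) (nat_lit 115) (nat_lit 4) (nat_lit 116) (nat_lit 5) (nat_lit 116) (nat_lit 4) (nat_lit 491) (nat_lit 351) (nat_lit 178)) (XT.lf (nat_lit 0) (nat_lit 2224677625) (nat_lit 76) (nat_lit 4556694958) (nat_lit 152) (nat_lit 534062472721) (nat_lit 113) (nat_lit 5) (nat_lit 114) (nat_lit 5) (nat_lit 115) (nat_lit 4) (nat_lit 492) (nat_lit 351) (nat_lit 177))) (XT.nd (nat_lit 78) (nat_lit 0) (nat_lit 0) (XT.lf (nat_lit 0) (nat_lit 1195827294) (nat_lit 684) (nat_lit 1427786009) (nat_lit 684) (nat_lit 1427786009) (nat_lit 312) (nat_lit 3) (nat_lit 321) (nat_lit 3) (nat_lit 321) (nat_lit 5) (nat_lit 352) (nat_lit 352) (nat_lit 316)) (XT.lf (nat_lit 76) (nat_lit 1235366745)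 (nat_lit 0) (nat_lit 2391601033) (nat_lit 684) (nat_lit 4619624723) (nat_lit 313) (nat_lit 5) (nat_lit 312) (nat_lit 3) (nat_lit 321) (nat_lit 5) (nat_lit 353) (nat_lit 352) (nat_lit 315)))) (XT.nd (nat_lit 156) (nat_lit 608) (nat_lit 0) (XT.nd (nat_lit 78) (nat_lit 0) (nat_lit 0) (XT.lf (nat_lit 0) (nat_lit 4908572309) (nat_lit 608) (nat_lit 2819845786) (nat_lit 684) (nat_lit 669931690) (nat_lit 313) (nat_lit 5) (nat_lit 321) (nat_lit 5) (nat_lit 322) (nat_lit 5) (nat_lit 354) (nat_lit 352) (nat_lit 314)) (XT.lf (nat_lit 76) (nat_lit 1549182536) (nat_lit 0) (nat_lit 4697895282) (nat_lit 684) (nat_lit 2310976078) (nat_lit 314) (nat_lit 5) (nat_lit 313) (nat_lit 5) (nat_lit 322) (nat_lit 5) (nat_lit 355) (nat_lit 352) (nat_lit 313))) (XT.nd (nat_lit 78) (nat_lit 608) (nat_lit 0) (XT.lf (nat_lit 76) (nat_lit 6192945584) (nat_lit 0) (nat_lit 1439456451) (nat_lit 684) (nat_lit 1094346504) (nat_lit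 314) (nat_lit 5) (nat_lit 313) (nat_lit 5) (nat_lit 322) (nat_lit 5) (nat_lit 356) (nat_lit 352) (nat_lit 312)) (XT.lf (nat_lit 0) (nat_lit 177686481) (nat_lit 684) (nat_lit 6746770272) (nat_lit 760) (nat_lit 1979256581) (nat_lit 305) (nat_lit 5) (nat_lit 314) (nat_lit 5) (nat_lit 315) (nat_lit 5) (nat_lit 357) (nat_lit 352) (nat_lit 311))))) (XT.nd (nat_lit 312) (nat_lit 1368) (nat_lit 0) (XT.nd (nat_lit 156) (nat_lit 0) (nat_lit 76) (XT.nd (nat_lit 78) (nat_lit 0) (nat_lit 76) (XT.lf (nat_lit 0) (nat_lit 1480896709) (nat_lit 684) (nat_lit 2004063952) (nat_lit 760) (nat_lit 5603451058) (nat_lit 305) (nat_lit 5) (nat_lit 314) (nat_lit 5) (nat_lit 315) (nat_lit 5) (nat_lit 358) (nat_lit 352) (nat_lit 310)) (XT.lf (nat_lit 0) (nat_lit 2839733772) (nat_lit 684) (nat_lit 6255740488) (nat_lit 760) (nat_lit 187347450) (nat_lit 306) (nat_lit 5) (nat_lit 315) (nat_lit 5) (nat_lit 316) (nat_lit 5) (nat_lit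 359) (nat_lit 352) (nat_lit 309))) (XT.nd (nat_lit 78) (nat_lit 0) (nat_lit 0) (XT.lf (nat_lit 0) (nat_lit 4300718329) (nat_lit 684) (nat_lit 1208537688) (nat_lit 760) (nat_lit 3975985899) (nat_lit 306) (nat_lit 5) (nat_lit 315) (nat_lit 5) (nat_lit 316) (nat_lit 5) (nat_lit 360) (nat_lit 352) (nat_lit 308)) (XT.lf (nat_lit 76) (nat_lit 4182062297) (nat_lit 0) (nat_lit 1663296820) (nat_lit 760) (nat_lit 3851893668) (nat_lit 307) (nat_lit 5) (nat_lit 306) (nat_lit 5) (nat_lit 316) (nat_lit 5) (nat_lit 361) (nat_lit 352) (nat_lit 307)))) (XT.nd (nat_lit 156) (nat_lit 836) (nat_lit 0) (XT.nd (nat_lit 78) (nat_lit 684) (nat_lit 0) (XT.lf (nat_lit 0) (nat_lit 7472539911) (nat_lit 684) (nat_lit 117033422) (nat_lit 76) (nat_lit 2330025465) (nat_lit 307) (nat_lit 5) (nat_lit 316) (nat_lit 5) (nat_lit 308) (nat_lit 5) (nat_lit 362) (nat_lit 352) (nat_lit 306)) (XT.lf (nat_lit 0) (nat_lit 5662202310) (nat_lit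 684) (nat_lit 3584476469) (nat_lit 760) (nat_lit 903103381) (nat_lit 298) (nat_lit 5) (nat_lit 307) (nat_lit 5) (nat_lit 308) (nat_lit 5) (nat_lit 363) (nat_lit 352) (nat_lit 305))) (XT.nd (nat_lit 78) (nat_lit 0) (nat_lit 0) (XT.lf (nat_lit 0) (nat_lit 679057591) (nat_lit 836) (nat_lit 9071854142) (nat_lit 76) (nat_lit 640802928) (nat_lit 287) (nat_lit 5) (nat_lit 298) (nat_lit 5) (nat_lit 288) (nat_lit 5) (nat_lit 364) (nat_lit 352) (nat_lit 304)) (XT.lf (nat_lit 0) (nat_lit 2398584831) (nat_lit 836) (nat_lit 3188745157) (nat_lit 76) (nat_lit 5053243132) (nat_lit 287) (nat_lit 5) (nat_lit 298) (nat_lit 5) (nat_lit 288) (nat_lit 5) (nat_lit 365) (nat_lit 352) (nat_lit 303)))))) (XT.nd (nat_lit 624) (nat_lit 1520) (nat_lit 0) (XT.nd (nat_lit 312) (nat_lit 684) (nat_lit 0) (XT.nd (nat_lit 156) (nat_lit 760) (nat_lit 0) (XT.nd (nat_lit 78) (nat_lit 0) (nat_lit 0) (XT.lf (nat_lit 0) (nat_lit 3042606339)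 (nat_lit 456) (nat_lit 1163844064) (nat_lit 532) (nat_lit 6695305999) (nat_lit 281) (nat_lit 5) (nat_lit 287) (nat_lit 5) (nat_lit 288) (nat_lit 5) (nat_lit 366) (nat_lit 352) (nat_lit 302)) (XT.lf (nat_lit 0) (nat_lit 6170302240) (nat_lit 532) (nat_lit 1577094285) (nat_lit 76) (nat_lit 3425322675) (nat_lit 281) (nat_lit 5) (nat_lit 288) (nat_lit 5) (nat_lit 282) (nat_lit 5) (nat_lit 367) (nat_lit 352) (nat_lit 301))) (XT.nd (nat_lit 78) (nat_lit 380) (nat_lit 0) (XT.lf (nat_lit 0) (nat_lit 5121233039) (nat_lit 380) (nat_lit 3168587414) (nat_lit 456) (nat_lit 3164535995) (nat_lit 276) (nat_lit 5) (nat_lit 281) (nat_lit 5) (nat_lit 282) (nat_lit 5) (nat_lit 368) (nat_lit 352) (nat_lit 300)) (XT.lf (nat_lit 0) (nat_lit 403411722) (nat_lit 380) (nat_lit 10130674139) (nat_lit 456) (nat_lit 1215051135) (nat_lit 271) (nat_lit 5) (nat_lit 276) (nat_lit 5) (nat_lit 277) (nat_lit 5) (nat_lit 369) (nat_lit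 352) (nat_lit 299)))) (XT.nd (nat_lit 156) (nat_lit 304) (nat_lit 0) (XT.nd (nat_lit 78) (nat_lit 304) (nat_lit 0) (XT.lf (nat_lit 0) (nat_lit 926575245) (nat_lit 456) (nat_lit 4467901619) (nat_lit 76) (nat_lit 6657465607) (nat_lit 270) (nat_lit 5) (nat_lit 276) (nat_lit 5) (nat_lit 271) (nat_lit 5) (nat_lit 370) (nat_lit 352) (nat_lit 298)) (XT.lf (nat_lit 0) (nat_lit 2780445598) (nat_lit 304) (nat_lit 359639629) (nat_lit 380) (nat_lit 9228525253) (nat_lit 266) (nat_lit 5) (nat_lit 270) (nat_lit 5) (nat_lit 271) (nat_lit 5) (nat_lit 371) (nat_lit 352) (nat_lit 297))) (XT.nd (nat_lit 78) (nat_lit 304) (nat_lit 0) (XT.lf (nat_lit 0) (nat_lit 5581392766) (nat_lit 380) (nat_lit 2272673882) (nat_lit 76) (nat_lit 4841189138) (nat_lit 266) (nat_lit 5) (nat_lit 271) (nat_lit 5) (nat_lit 267) (nat_lit 5) (nat_lit 372) (nat_lit 352) (nat_lit 296)) (XT.lf (nat_lit 0) (nat_lit 5538528021) (nat_lit 304) (nat_lit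 2663645545) (nat_lit 380) (nat_lit 4833189398) (nat_lit 262) (nat_lit 5) (nat_lit 266) (nat_lit 5) (nat_lit 267) (nat_lit 5) (nat_lit 373) (nat_lit 352) (nat_lit 295))))) (XT.nd (nat_lit 312) (nat_lit 836) (nat_lit 0) (XT.nd (nat_lit 156) (nat_lit 304) (nat_lit 0) (XT.nd (nat_lit 78) (nat_lit 76) (nat_lit 0) (XT.lf (nat_lit 0) (nat_lit 353464328) (nat_lit 304) (nat_lit 10654631092) (nat_lit 380) (nat_lit 2381674979) (nat_lit 258) (nat_lit 5) (nat_lit 262) (nat_lit 5) (nat_lit 263) (nat_lit 5) (nat_lit 374) (nat_lit 352) (nat_lit 294)) (XT.lf (nat_lit 0) (nat_lit 325356751) (nat_lit 380) (nat_lit 4990535216) (nat_lit 76) (nat_lit 8438901028) (nat_lit 257) (nat_lit 5) (nat_lit 262) (nat_lit 5) (nat_lit 258) (nat_lit 5) (nat_lit 375) (nat_lit 352) (nat_lit 293))) (XT.nd (nat_lit 78) (nat_lit 0) (nat_lit 0) (XT.lf (nat_lit 0) (nat_lit 3116091176) (nat_lit 380) (nat_lit 10651496379) (nat_lit 76) (nat_lit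 367107424) (nat_lit 253) (nat_lit 5) (nat_lit 258) (nat_lit 5) (nat_lit 254) (nat_lit 5) (nat_lit 376) (nat_lit 352) (nat_lit 292)) (XT.lf (nat_lit 0) (nat_lit 6188159260) (nat_lit 380) (nat_lit 2105524117) (nat_lit 76) (nat_lit 6232818836) (nat_lit 253) (nat_lit 5) (nat_lit 258) (nat_lit 5) (nat_lit 254) (nat_lit 5) (nat_lit 377) (nat_lit 352) (nat_lit 291)))) (XT.nd (nat_lit 156) (nat_lit 304) (nat_lit 0) (XT.nd (nat_lit 78) (nat_lit 304) (nat_lit 0) (XT.lf (nat_lit 0) (nat_lit 7053989092) (nat_lit 228) (nat_lit 2440210873) (nat_lit 304) (nat_lit 5439681384) (nat_lit 250) (nat_lit 5) (nat_lit 253) (nat_lit 5) (nat_lit 254) (nat_lit 5) (nat_lit 378) (nat_lit 352) (nat_lit 290)) (XT.lf (nat_lit 0) (nat_lit 1328625907) (nat_lit 304) (nat_lit 11722654639) (nat_lit 380) (nat_lit 2306062005) (nat_lit 246) (nat_lit 5) (nat_lit 250) (nat_lit 5) (nat_lit 251) (nat_lit 5) (nat_lit 379) (nat_lit 352) (nat_lit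 289))) (XT.nd (nat_lit 78) (nat_lit 228) (nat_lit 0) (XT.lf (nat_lit 0) (nat_lit 1099573377) (nat_lit 380) (nat_lit 4622208705) (nat_lit 76) (nat_lit 10072084554) (nat_lit 245) (nat_lit 5) (nat_lit 250) (nat_lit 5) (nat_lit 246) (nat_lit 5) (nat_lit 380) (nat_lit 352) (nat_lit 288)) (XT.lf (nat_lit 0) (nat_lit 4664936626) (nat_lit 304) (nat_lit 10908902951) (nat_lit 76) (nat_lit 673139888) (nat_lit 242) (nat_lit 5) (nat_lit 246) (nat_lit 5) (nat_lit 243) (nat_lit 5) (nat_lit 381) (nat_lit 352) (nat_lit 287))))))))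
noncomputable def xc167 : XT := (XT.nd (nat_lit 2496) (nat_lit 2584) (nat_lit 0) (XT.nd (nat_lit 1248) (nat_lit 1444) (nat_lit 0) (XT.nd (nat_lit 624) (nat_lit 912) (nat_lit 0) (XT.nd (nat_lit 312) (nat_lit 684) (nat_lit 0) (XT.nd (nat_lit 156) (nat_lit 304) (nat_lit 0) (XT.nd (nat_lit 78) (nat_lit 228) (nat_lit 0) (XT.lf (nat_lit 0) (nat_lit 8555036647) (nat_lit 304) (nat_lit 896167630) (nat_lit 76) (nat_lit 7264220228) (nat_lit 242) (nat_lit 5) (nat_lit 246) (nat_lit 5) (nat_lit 243) (nat_lit 5) (nat_lit 382) (nat_lit 352) (nat_lit 286)) (XT.lf (nat_lit 0) (nat_lit 9896723970) (nat_lit 228) (nat_lit 2871820241) (nat_lit 304) (nat_lit 4432302459) (nat_lit 239) (nat_lit 5) (nat_lit 242) (nat_lit 5) (nat_lit 243) (nat_lit 5) (nat_lit 383) (nat_lit 352) (nat_lit 285))) (XT.nd (nat_lit 78) (nat_lit 76) (nat_lit 0) (XT.lf (nat_lit 0) (nat_lit 3563678651) (nat_lit 228) (nat_lit 13737987331) (nat_lit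 304) (nat_lit 403427021) (nat_lit 236) (nat_lit 5) (nat_lit 239) (nat_lit 5) (nat_lit 240) (nat_lit 5) (nat_lit 384) (nat_lit 352) (nat_lit 284)) (XT.lf (nat_lit 0) (nat_lit 3852282082) (nat_lit 304) (nat_lit 3146688505) (nat_lit 76) (nat_lit 11225199921) (nat_lit 235) (nat_lit 5) (nat_lit 239) (nat_lit 5) (nat_lit 236) (nat_lit 5) (nat_lit 385) (nat_lit 352) (nat_lit 283)))) (XT.nd (nat_lit 156) (nat_lit 304) (nat_lit 0) (XT.nd (nat_lit 78) (nat_lit 152) (nat_lit 0) (XT.lf (nat_lit 0) (nat_lit 8421560092) (nat_lit 304) (nat_lit 10135344890) (nat_lit 76) (nat_lit 206249167) (nat_lit 232) (nat_lit 5) (nat_lit 236) (nat_lit 5) (nat_lit 233) (nat_lit 5) (nat_lit 386) (nat_lit 352) (nat_lit 282)) (XT.lf (nat_lit 0) (nat_lit 1675370493) (nat_lit 152) (nat_lit 11715629019) (nat_lit 228) (nat_lit 5929502585) (nat_lit 230) (nat_lit 5) (nat_lit 232) (nat_lit 5) (nat_lit 233) (nat_lit 5) (nat_lit 387) (nat_lit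 352) (nat_lit 281))) (XT.nd (nat_lit 78) (nat_lit 304) (nat_lit 0) (XT.lf (nat_lit 0) (nat_lit 14392590207) (nat_lit 152) (nat_lit 4365158235) (nat_lit 228) (nat_lit 1140527123) (nat_lit 230) (nat_lit 5) (nat_lit 232) (nat_lit 5) (nat_lit 233) (nat_lit 5) (nat_lit 388) (nat_lit 352) (nat_lit 280)) (XT.lf (nat_lit 0) (nat_lit 3911655259) (nat_lit 304) (nat_lit 13170921584) (nat_lit 76) (nat_lit 3411916058) (nat_lit 226) (nat_lit 5) (nat_lit 230) (nat_lit 5) (nat_lit 227) (nat_lit 5) (nat_lit 389) (nat_lit 352) (nat_lit 279))))) (XT.nd (nat_lit 312) (nat_lit 532) (nat_lit 0) (XT.nd (nat_lit 156) (nat_lit 228) (nat_lit 0) (XT.nd (nat_lit 78) (nat_lit 152) (nat_lit 0) (XT.lf (nat_lit 0) (nat_lit 9322683177) (nat_lit 304) (nat_lit 257451834) (nat_lit 76) (nat_lit 11532222954) (nat_lit 226) (nat_lit 5) (nat_lit 230) (nat_lit 5) (nat_lit 227) (nat_lit 5) (nat_lit 390) (nat_lit 352) (nat_lit 278)) (XT.lf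 (nat_lit 0) (nat_lit 13706830917) (nat_lit 152) (nat_lit 1490705657) (nat_lit 228) (nat_lit 6553916005) (nat_lit 224) (nat_lit 5) (nat_lit 226) (nat_lit 5) (nat_lit 227) (nat_lit 5) (nat_lit 391) (nat_lit 352) (nat_lit 277))) (XT.nd (nat_lit 78) (nat_lit 76) (nat_lit 0) (XT.lf (nat_lit 0) (nat_lit 6004929489) (nat_lit 152) (nat_lit 15548272154) (nat_lit 228) (nat_lit 859946829) (nat_lit 222) (nat_lit 5) (nat_lit 224) (nat_lit 5) (nat_lit 225) (nat_lit 5) (nat_lit 392) (nat_lit 352) (nat_lit 276)) (XT.lf (nat_lit 0) (nat_lit 5097471165) (nat_lit 228) (nat_lit 2205419931) (nat_lit 76) (nat_lit 15793913117) (nat_lit 221) (nat_lit 5) (nat_lit 224) (nat_lit 5) (nat_lit 222) (nat_lit 5) (nat_lit 393) (nat_lit 352) (nat_lit 275)))) (XT.nd (nat_lit 156) (nat_lit 228) (nat_lit 0) (XT.nd (nat_lit 78) (nat_lit 152) (nat_lit 0) (XT.lf (nat_lit 0) (nat_lit 11533237456) (nat_lit 228) (nat_lit 10749515088) (nat_lit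 76) (nat_lit 1520716460) (nat_lit 219) (nat_lit 5) (nat_lit 222) (nat_lit 5) (nat_lit 220) (nat_lit 5) (nat_lit 394) (nat_lit 352) (nat_lit 274)) (XT.lf (nat_lit 0) (nat_lit 4603709942) (nat_lit 152) (nat_lit 13897503158) (nat_lit 228) (nat_lit 6033732881) (nat_lit 217) (nat_lit 5) (nat_lit 219) (nat_lit 5) (nat_lit 220) (nat_lit 5) (nat_lit 395) (nat_lit 352) (nat_lit 273))) (XT.nd (nat_lit 78) (nat_lit 152) (nat_lit 0) (XT.lf (nat_lit 0) (nat_lit 664119801) (nat_lit 228) (nat_lit 4239791718) (nat_lit 76) (nat_lit 20390383619) (nat_lit 216) (nat_lit 5) (nat_lit 219) (nat_lit 5) (nat_lit 217) (nat_lit 5) (nat_lit 396) (nat_lit 352) (nat_lit 272)) (XT.lf (nat_lit 0) (nat_lit 7746718068) (nat_lit 228) (nat_lit 13646822559) (nat_lit 76) (nat_lit 4680494146) (nat_lit 214) (nat_lit 5) (nat_lit 217) (nat_lit 5) (nat_lit 215) (nat_lit 5) (nat_lit 397) (nat_lit 352) (nat_lit 271)))))) (XT.nd (nat_lit 624)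 (nat_lit 684) (nat_lit 0) (XT.nd (nat_lit 312) (nat_lit 304) (nat_lit 0) (XT.nd (nat_lit 156) (nat_lit 304) (nat_lit 0) (XT.nd (nat_lit 78) (nat_lit 0) (nat_lit 0) (XT.lf (nat_lit 0) (nat_lit 3174317873) (nat_lit 152) (nat_lit 12194117494) (nat_lit 228) (nat_lit 11515076566) (nat_lit 212) (nat_lit 5) (nat_lit 214) (nat_lit 5) (nat_lit 215) (nat_lit 5) (nat_lit 398) (nat_lit 352) (nat_lit 270)) (XT.lf (nat_lit 0) (nat_lit 21279504935) (nat_lit 152) (nat_lit 2305279840) (nat_lit 228) (nat_lit 4138000864) (nat_lit 212) (nat_lit 5) (nat_lit 214) (nat_lit 5) (nat_lit 215) (nat_lit 5) (nat_lit 399) (nat_lit 352) (nat_lit 269))) (XT.nd (nat_lit 78) (nat_lit 152) (nat_lit 0) (XT.lf (nat_lit 0) (nat_lit 3792446973) (nat_lit 152) (nat_lit 16739367796) (nat_lit 76) (nat_lit 8054392039) (nat_lit 210) (nat_lit 5) (nat_lit 212) (nat_lit 5) (nat_lit 211) (nat_lit 5) (nat_lit 400) (nat_lit 352) (nat_lit 268))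 (XT.lf (nat_lit 0) (nat_lit 1704925105) (nat_lit 152) (nat_lit 10433891758) (nat_lit 228) (nat_lit 17342667186) (nat_lit 208) (nat_lit 5) (nat_lit 210) (nat_lit 5) (nat_lit 211) (nat_lit 5) (nat_lit 401) (nat_lit 352) (nat_lit 267)))) (XT.nd (nat_lit 156) (nat_lit 228) (nat_lit 0) (XT.nd (nat_lit 78) (nat_lit 76) (nat_lit 0) (XT.lf (nat_lit 0) (nat_lit 21176561345) (nat_lit 228) (nat_lit 8792231808) (nat_lit 76) (nat_lit 439029194) (nat_lit 208) (nat_lit 5) (nat_lit 211) (nat_lit 5) (nat_lit 209) (nat_lit 4) (nat_lit 402) (nat_lit 352) (nat_lit 266)) (XT.lf (nat_lit 0) (nat_lit 11303295538) (nat_lit 76) (nat_lit 19694499141) (nat_lit 152) (nat_lit 366102799) (nat_lit 207) (nat_lit 5) (nat_lit 208) (nat_lit 5) (nat_lit 209) (nat_lit 4) (nat_lit 403) (nat_lit 352) (nat_lit 265))) (XT.nd (nat_lit 78) (nat_lit 0) (nat_lit 0) (XT.lf (nat_lit 0) (nat_lit 183527202) (nat_lit 152) (nat_lit 8610922224)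 (nat_lit 228) (nat_lit 23559428913) (nat_lit 204) (nat_lit 5) (nat_lit 206) (nat_lit 5) (nat_lit 207) (nat_lit 5) (nat_lit 404) (nat_lit 352) (nat_lit 264)) (XT.lf (nat_lit 0) (nat_lit 18777540600) (nat_lit 228) (nat_lit 11327797000) (nat_lit 76) (nat_lit 3268879819) (nat_lit 204) (nat_lit 5) (nat_lit 207) (nat_lit 5) (nat_lit 205) (nat_lit 4) (nat_lit 405) (nat_lit 352) (nat_lit 263))))) (XT.nd (nat_lit 312) (nat_lit 304) (nat_lit 0) (XT.nd (nat_lit 156) (nat_lit 228) (nat_lit 0) (XT.nd (nat_lit 78) (nat_lit 76) (nat_lit 0) (XT.lf (nat_lit 0) (nat_lit 10731660750) (nat_lit 76) (nat_lit 18821841439) (nat_lit 152) (nat_lit 4877385470) (nat_lit 203) (nat_lit 5) (nat_lit 204) (nat_lit 5) (nat_lit 205) (nat_lit 4) (nat_lit 406) (nat_lit 352) (nat_lit 262)) (XT.lf (nat_lit 0) (nat_lit 5337383917) (nat_lit 152) (nat_lit 1357351971) (nat_lit 76) (nat_lit 28832494445) (nat_lit 202) (nat_lit 5) (nat_lit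 204) (nat_lit 5) (nat_lit 203) (nat_lit 5) (nat_lit 407) (nat_lit 352) (nat_lit 261))) (XT.nd (nat_lit 78) (nat_lit 76) (nat_lit 0) (XT.lf (nat_lit 0) (nat_lit 16340727604) (nat_lit 228) (nat_lit 14035937394) (nat_lit 76) (nat_lit 6275639887) (nat_lit 200) (nat_lit 5) (nat_lit 203) (nat_lit 5) (nat_lit 201) (nat_lit 4) (nat_lit 408) (nat_lit 352) (nat_lit 260)) (XT.lf (nat_lit 0) (nat_lit 10193165322) (nat_lit 76) (nat_lit 17979183395) (nat_lit 152) (nat_lit 9647378936) (nat_lit 199) (nat_lit 5) (nat_lit 200) (nat_lit 5) (nat_lit 201) (nat_lit 4) (nat_lit 409) (nat_lit 352) (nat_lit 259)))) (XT.nd (nat_lit 156) (nat_lit 76) (nat_lit 0) (XT.nd (nat_lit 78) (nat_lit 152) (nat_lit 0) (XT.lf (nat_lit 0) (nat_lit 1727914412) (nat_lit 152) (nat_lit 2967121677) (nat_lit 76) (nat_lit 34337900670) (nat_lit 198) (nat_lit 5) (nat_lit 200) (nat_lit 5) (nat_lit 199) (nat_lit 5) (nat_lit 410) (nat_lit 352) (nat_lit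 258)) (XT.lf (nat_lit 0) (nat_lit 13854021950) (nat_lit 228) (nat_lit 16940183229) (nat_lit 76) (nat_lit 9479380218) (nat_lit 196) (nat_lit 5) (nat_lit 199) (nat_lit 5) (nat_lit 197) (nat_lit 4) (nat_lit 411) (nat_lit 352) (nat_lit 257))) (XT.nd (nat_lit 78) (nat_lit 0) (nat_lit 0) (XT.lf (nat_lit 0) (nat_lit 9685181826) (nat_lit 76) (nat_lit 17167145210) (nat_lit 152) (nat_lit 14710644820) (nat_lit 195) (nat_lit 5) (nat_lit 196) (nat_lit 5) (nat_lit 197) (nat_lit 4) (nat_lit 412) (nat_lit 352) (nat_lit 256)) (XT.lf (nat_lit 0) (nat_lit 38205123972) (nat_lit 76) (nat_lit 2569200568) (nat_lit 152) (nat_lit 2128814243) (nat_lit 195) (nat_lit 5) (nat_lit 196) (nat_lit 5) (nat_lit 197) (nat_lit 4) (nat_lit 413) (nat_lit 352) (nat_lit 255))))))) (XT.nd (nat_lit 1248) (nat_lit 1292) (nat_lit 0) (XT.nd (nat_lit 624) (nat_lit 532) (nat_lit 0) (XT.nd (nat_lit 312) (nat_lit 304) (nat_lit 0) (XT.nd (nat_lit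 156) (nat_lit 152) (nat_lit 0) (XT.nd (nat_lit 78) (nat_lit 76) (nat_lit 0) (XT.lf (nat_lit 0) (nat_lit 11304176263) (nat_lit 228) (nat_lit 20065900011) (nat_lit 76) (nat_lit 12902748390) (nat_lit 192) (nat_lit 5) (nat_lit 195) (nat_lit 5) (nat_lit 193) (nat_lit 4) (nat_lit 414) (nat_lit 352) (nat_lit 254)) (XT.lf (nat_lit 0) (nat_lit 9205394000) (nat_lit 76) (nat_lit 16385954313) (nat_lit 152) (nat_lit 20105197889) (nat_lit 191) (nat_lit 5) (nat_lit 192) (nat_lit 5) (nat_lit 193) (nat_lit 4) (nat_lit 415) (nat_lit 352) (nat_lit 253))) (XT.nd (nat_lit 78) (nat_lit 152) (nat_lit 0) (XT.lf (nat_lit 0) (nat_lit 40613170365) (nat_lit 76) (nat_lit 307132128) (nat_lit 152) (nat_lit 6254780147) (nat_lit 191) (nat_lit 5) (nat_lit 192) (nat_lit 5) (nat_lit 193) (nat_lit 4) (nat_lit 416) (nat_lit 352) (nat_lit 252)) (XT.lf (nat_lit 0) (nat_lit 8676727104) (nat_lit 152) (nat_lit 23440557002) (nat_lit 76)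 (nat_lit 16571099654) (nat_lit 189) (nat_lit 5) (nat_lit 191) (nat_lit 5) (nat_lit 190) (nat_lit 4) (nat_lit 417) (nat_lit 352) (nat_lit 251)))) (XT.nd (nat_lit 156) (nat_lit 228) (nat_lit 0) (XT.nd (nat_lit 78) (nat_lit 0) (nat_lit 0) (XT.lf (nat_lit 0) (nat_lit 8751748942) (nat_lit 76) (nat_lit 15635528463) (nat_lit 152) (nat_lit 25872812195) (nat_lit 188) (nat_lit 5) (nat_lit 189) (nat_lit 5) (nat_lit 190) (nat_lit 4) (nat_lit 418) (nat_lit 352) (nat_lit 250)) (XT.lf (nat_lit 0) (nat_lit 41301007351) (nat_lit 152) (nat_lit 8578730952) (nat_lit 0) (nat_lit 2009759823) (nat_lit 188) (nat_lit 5) (nat_lit 190) (nat_lit 4) (nat_lit 188) (nat_lit 4) (nat_lit 419) (nat_lit 352) (nat_lit 249))) (XT.nd (nat_lit 78) (nat_lit 76) (nat_lit 0) (XT.lf (nat_lit 0) (nat_lit 5955907099) (nat_lit 152) (nat_lit 27094010005) (nat_lit 76) (nat_lit 20512666843) (nat_lit 186) (nat_lit 5) (nat_lit 188) (nat_lit 5)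 (nat_lit 187) (nat_lit 4) (nat_lit 420) (nat_lit 352) (nat_lit 248)) (XT.lf (nat_lit 0) (nat_lit 8322417434) (nat_lit 76) (nat_lit 14915543483) (nat_lit 152) (nat_lit 32059370113) (nat_lit 185) (nat_lit 5) (nat_lit 186) (nat_lit 5) (nat_lit 187) (nat_lit 4) (nat_lit 421) (nat_lit 352) (nat_lit 247))))) (XT.nd (nat_lit 312) (nat_lit 304) (nat_lit 0) (XT.nd (nat_lit 156) (nat_lit 76) (nat_lit 0) (XT.nd (nat_lit 78) (nat_lit 152) (nat_lit 0) (XT.lf (nat_lit 0) (nat_lit 41903613755) (nat_lit 152) (nat_lit 10739540994) (nat_lit 0) (nat_lit 4449685902) (nat_lit 185) (nat_lit 5) (nat_lit 187) (nat_lit 4) (nat_lit 185) (nat_lit 4) (nat_lit 422) (nat_lit 352) (nat_lit 246)) (XT.lf (nat_lit 0) (nat_lit 3124538595) (nat_lit 152) (nat_lit 31058802232) (nat_lit 76) (nat_lit 24758768638) (nat_lit 183) (nat_lit 5) (nat_lit 185) (nat_lit 5) (nat_lit 184) (nat_lit 4) (nat_lit 423) (nat_lit 352) (nat_lit 245)))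 (XT.nd (nat_lit 78) (nat_lit 0) (nat_lit 0) (XT.lf (nat_lit 0) (nat_lit 7915760963) (nat_lit 76) (nat_lit 14225488367) (nat_lit 152) (nat_lit 38715256475) (nat_lit 182) (nat_lit 5) (nat_lit 183) (nat_lit 5) (nat_lit 184) (nat_lit 4) (nat_lit 424) (nat_lit 352) (nat_lit 244)) (XT.lf (nat_lit 0) (nat_lit 42737789213) (nat_lit 152) (nat_lit 13057719917) (nat_lit 0) (nat_lit 7039663151) (nat_lit 182) (nat_lit 5) (nat_lit 184) (nat_lit 4) (nat_lit 182) (nat_lit 4) (nat_lit 425) (nat_lit 352) (nat_lit 243)))) (XT.nd (nat_lit 156) (nat_lit 76) (nat_lit 0) (XT.nd (nat_lit 78) (nat_lit 76) (nat_lit 0) (XT.lf (nat_lit 0) (nat_lit 163908762) (nat_lit 152) (nat_lit 35370486977) (nat_lit 76) (nat_lit 29344056332) (nat_lit 180) (nat_lit 5) (nat_lit 182) (nat_lit 5) (nat_lit 181) (nat_lit 4) (nat_lit 426) (nat_lit 352) (nat_lit 242)) (XT.lf (nat_lit 0) (nat_lit 7530304271) (nat_lit 76) (nat_lit 13564710037) (nat_lit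 152) (nat_lit 45895800629) (nat_lit 179) (nat_lit 5) (nat_lit 180) (nat_lit 5) (nat_lit 181) (nat_lit 4) (nat_lit 427) (nat_lit 352) (nat_lit 241))) (XT.nd (nat_lit 78) (nat_lit 76) (nat_lit 0) (XT.lf (nat_lit 0) (nat_lit 43819731741) (nat_lit 152) (nat_lit 15552999078) (nat_lit 0) (nat_lit 9798712297) (nat_lit 179) (nat_lit 5) (nat_lit 181) (nat_lit 4) (nat_lit 179) (nat_lit 4) (nat_lit 428) (nat_lit 352) (nat_lit 240)) (XT.lf (nat_lit 0) (nat_lit 31310527363) (nat_lit 76) (nat_lit 37071703356) (nat_lit 76) (nat_lit 3043794701) (nat_lit 178) (nat_lit 4) (nat_lit 179) (nat_lit 5) (nat_lit 179) (nat_lit 4) (nat_lit 429) (nat_lit 352) (nat_lit 239)))))) (XT.nd (nat_lit 624) (nat_lit 684) (nat_lit 0) (XT.nd (nat_lit 312) (nat_lit 228) (nat_lit 0) (XT.nd (nat_lit 156) (nat_lit 228) (nat_lit 0) (XT.nd (nat_lit 78) (nat_lit 0) (nat_lit 0) (XT.lf (nat_lit 0) (nat_lit 7164712471) (nat_lit 76) (nat_lit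 12932449615) (nat_lit 152) (nat_lit 53661769878) (nat_lit 176) (nat_lit 5) (nat_lit 177) (nat_lit 5) (nat_lit 178) (nat_lit 4) (nat_lit 430) (nat_lit 352) (nat_lit 238)) (XT.lf (nat_lit 0) (nat_lit 45167561438) (nat_lit 152) (nat_lit 18246863664) (nat_lit 0) (nat_lit 12747829510) (nat_lit 176) (nat_lit 5) (nat_lit 178) (nat_lit 4) (nat_lit 176) (nat_lit 4) (nat_lit 431) (nat_lit 352) (nat_lit 237))) (XT.nd (nat_lit 78) (nat_lit 152) (nat_lit 0) (XT.lf (nat_lit 0) (nat_lit 33355186511) (nat_lit 76) (nat_lit 38859888435) (nat_lit 76) (nat_lit 6434488737) (nat_lit 175) (nat_lit 4) (nat_lit 176) (nat_lit 5) (nat_lit 176) (nat_lit 4) (nat_lit 432) (nat_lit 352) (nat_lit 236)) (XT.lf (nat_lit 0) (nat_lit 6817771929) (nat_lit 76) (nat_lit 12327871730) (nat_lit 152) (nat_lit 62079918361) (nat_lit 173) (nat_lit 5) (nat_lit 174) (nat_lit 5) (nat_lit 175) (nat_lit 4) (nat_lit 433) (nat_lit 352) (nat_lit 235))))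 (XT.nd (nat_lit 156) (nat_lit 152) (nat_lit 0) (XT.nd (nat_lit 78) (nat_lit 76) (nat_lit 0) (XT.lf (nat_lit 0) (nat_lit 46801522258) (nat_lit 152) (nat_lit 21162762473) (nat_lit 0) (nat_lit 15910152344) (nat_lit 173) (nat_lit 5) (nat_lit 175) (nat_lit 4) (nat_lit 173) (nat_lit 4) (nat_lit 434) (nat_lit 352) (nat_lit 234)) (XT.lf (nat_lit 0) (nat_lit 35666577012) (nat_lit 76) (nat_lit 40923850030) (nat_lit 76) (nat_lit 10027817227) (nat_lit 172) (nat_lit 4) (nat_lit 173) (nat_lit 5) (nat_lit 173) (nat_lit 4) (nat_lit 435) (nat_lit 352) (nat_lit 233))) (XT.nd (nat_lit 78) (nat_lit 0) (nat_lit 0) (XT.lf (nat_lit 0) (nat_lit 6488374266) (nat_lit 76) (nat_lit 11750088131) (nat_lit 152) (nat_lit 71223596079) (nat_lit 170) (nat_lit 5) (nat_lit 171) (nat_lit 5) (nat_lit 172) (nat_lit 4) (nat_lit 436) (nat_lit 352) (nat_lit 232)) (XT.lf (nat_lit 0) (nat_lit 48744201185) (nat_lit 152) (nat_lit 24326334723)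 (nat_lit 0) (nat_lit 19311150683) (nat_lit 170) (nat_lit 5) (nat_lit 172) (nat_lit 4) (nat_lit 170) (nat_lit 4) (nat_lit 437) (nat_lit 352) (nat_lit 231))))) (XT.nd (nat_lit 312) (nat_lit 380) (nat_lit 0) (XT.nd (nat_lit 156) (nat_lit 76) (nat_lit 0) (XT.nd (nat_lit 78) (nat_lit 152) (nat_lit 0) (XT.lf (nat_lit 0) (nat_lit 38269017000) (nat_lit 76) (nat_lit 43288037210) (nat_lit 76) (nat_lit 13851150538) (nat_lit 169) (nat_lit 4) (nat_lit 170) (nat_lit 5) (nat_lit 170) (nat_lit 4) (nat_lit 438) (nat_lit 352) (nat_lit 230)) (XT.lf (nat_lit 0) (nat_lit 6175502926) (nat_lit 76) (nat_lit 11198176631) (nat_lit 152) (nat_lit 81173423424) (nat_lit 167) (nat_lit 5) (nat_lit 168) (nat_lit 5) (nat_lit 169) (nat_lit 4) (nat_lit 439) (nat_lit 352) (nat_lit 229))) (XT.nd (nat_lit 78) (nat_lit 76) (nat_lit 0) (XT.lf (nat_lit 0) (nat_lit 51020767289) (nat_lit 152) (nat_lit 27765656373) (nat_lit 0) (nat_lit 22978843779)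 (nat_lit 167) (nat_lit 5) (nat_lit 169) (nat_lit 4) (nat_lit 167) (nat_lit 4) (nat_lit 440) (nat_lit 352) (nat_lit 228)) (XT.lf (nat_lit 0) (nat_lit 41189514342) (nat_lit 76) (nat_lit 45979482963) (nat_lit 76) (nat_lit 17934403426) (nat_lit 166) (nat_lit 4) (nat_lit 167) (nat_lit 5) (nat_lit 167) (nat_lit 4) (nat_lit 441) (nat_lit 352) (nat_lit 227)))) (XT.nd (nat_lit 156) (nat_lit 228) (nat_lit 0) (XT.nd (nat_lit 78) (nat_lit 0) (nat_lit 0) (XT.lf (nat_lit 0) (nat_lit 5878221882) (nat_lit 76) (nat_lit 10671196243) (nat_lit 152) (nat_lit 92018037278) (nat_lit 164) (nat_lit 5) (nat_lit 165) (nat_lit 5) (nat_lit 166) (nat_lit 4) (nat_lit 442) (nat_lit 352) (nat_lit 226)) (XT.lf (nat_lit 0) (nat_lit 53659233273) (nat_lit 152) (nat_lit 31511508592) (nat_lit 0) (nat_lit 26944044811) (nat_lit 164) (nat_lit 5) (nat_lit 166) (nat_lit 4) (nat_lit 164) (nat_lit 4) (nat_lit 443) (nat_lit 352) (nat_lit 225)))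 (XT.nd (nat_lit 78) (nat_lit 152) (nat_lit 0) (XT.lf (nat_lit 0) (nat_lit 44458023512) (nat_lit 76) (nat_lit 49028083764) (nat_lit 76) (nat_lit 22310298831) (nat_lit 163) (nat_lit 4) (nat_lit 164) (nat_lit 5) (nat_lit 164) (nat_lit 4) (nat_lit 444) (nat_lit 352) (nat_lit 224)) (XT.lf (nat_lit 0) (nat_lit 5595666111) (nat_lit 76) (nat_lit 10168199193) (nat_lit 152) (nat_lit 103854915487) (nat_lit 161) (nat_lit 5) (nat_lit 162) (nat_lit 5) (nat_lit 163) (nat_lit 4) (nat_lit 445) (nat_lit 352) (nat_lit 223))))))))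
noncomputable def xc168 : XT := (XT.nd (nat_lit 1248) (nat_lit 1216) (nat_lit 0) (XT.nd (nat_lit 624) (nat_lit 608) (nat_lit 0) (XT.nd (nat_lit 312) (nat_lit 304) (nat_lit 0) (XT.nd (nat_lit 156) (nat_lit 152) (nat_lit 0) (XT.nd (nat_lit 78) (nat_lit 76) (nat_lit 0) (XT.lf (nat_lit 0) (nat_lit 56690742274) (nat_lit 152) (nat_lit 35597671148) (nat_lit 0) (nat_lit 31240634808) (nat_lit 161) (nat_lit 5) (nat_lit 163) (nat_lit 4) (nat_lit 161) (nat_lit 4) (nat_lit 446) (nat_lit 352) (nat_lit 222)) (XT.lf (nat_lit 0) (nat_lit 48107731366) (nat_lit 76) (nat_lit 52466903829) (nat_lit 76) (nat_lit 27014660241) (nat_lit 160) (nat_lit 4) (nat_lit 161) (nat_lit 5) (nat_lit 161) (nat_lit 4) (nat_lit 447) (nat_lit 352) (nat_lit 221))) (XT.nd (nat_lit 78) (nat_lit 0) (nat_lit 0) (XT.lf (nat_lit 0) (nat_lit 5327033521) (nat_lit 76) (nat_lit 9688240387) (nat_lit 152) (nat_lit 116791287292) (nat_lit 158) (nat_lit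 5) (nat_lit 159) (nat_lit 5) (nat_lit 160) (nat_lit 4) (nat_lit 448) (nat_lit 352) (nat_lit 220)) (XT.lf (nat_lit 0) (nat_lit 60149882881) (nat_lit 152) (nat_lit 40061243714) (nat_lit 0) (nat_lit 35905868102) (nat_lit 158) (nat_lit 5) (nat_lit 160) (nat_lit 4) (nat_lit 158) (nat_lit 4) (nat_lit 449) (nat_lit 352) (nat_lit 219)))) (XT.nd (nat_lit 156) (nat_lit 76) (nat_lit 0) (XT.nd (nat_lit 78) (nat_lit 152) (nat_lit 0) (XT.lf (nat_lit 0) (nat_lit 52175374353) (nat_lit 76) (nat_lit 56332507358) (nat_lit 76) (nat_lit 32086735186) (nat_lit 157) (nat_lit 4) (nat_lit 158) (nat_lit 5) (nat_lit 158) (nat_lit 4) (nat_lit 450) (nat_lit 352) (nat_lit 218)) (XT.lf (nat_lit 0) (nat_lit 5071578102) (nat_lit 76) (nat_lit 9230384816) (nat_lit 152) (nat_lit 130945138204) (nat_lit 155) (nat_lit 5) (nat_lit 156) (nat_lit 5) (nat_lit 157) (nat_lit 4) (nat_lit 451) (nat_lit 352) (nat_lit 217))) (XT.nd (nat_lit 78)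 (nat_lit 76) (nat_lit 0) (XT.lf (nat_lit 0) (nat_lit 64075035581) (nat_lit 152) (nat_lit 44942998279) (nat_lit 0) (nat_lit 40980711877) (nat_lit 155) (nat_lit 5) (nat_lit 157) (nat_lit 4) (nat_lit 155) (nat_lit 4) (nat_lit 452) (nat_lit 352) (nat_lit 216)) (XT.lf (nat_lit 0) (nat_lit 56701590050) (nat_lit 76) (nat_lit 60665322264) (nat_lit 76) (nat_lit 37569552748) (nat_lit 154) (nat_lit 4) (nat_lit 155) (nat_lit 5) (nat_lit 155) (nat_lit 4) (nat_lit 453) (nat_lit 352) (nat_lit 215))))) (XT.nd (nat_lit 312) (nat_lit 228) (nat_lit 0) (XT.nd (nat_lit 156) (nat_lit 228) (nat_lit 0) (XT.nd (nat_lit 78) (nat_lit 0) (nat_lit 0) (XT.lf (nat_lit 0) (nat_lit 4828604085) (nat_lit 76) (nat_lit 8793713263) (nat_lit 152) (nat_lit 146446318687) (nat_lit 152) (nat_lit 5) (nat_lit 153) (nat_lit 5) (nat_lit 154) (nat_lit 4) (nat_lit 454) (nat_lit 352) (nat_lit 214)) (XT.lf (nat_lit 0) (nat_lit 68508754078) (nat_lit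 152) (nat_lit 50287766171) (nat_lit 0) (nat_lit 46510222769) (nat_lit 152) (nat_lit 5) (nat_lit 154) (nat_lit 4) (nat_lit 152) (nat_lit 4) (nat_lit 455) (nat_lit 352) (nat_lit 213))) (XT.nd (nat_lit 78) (nat_lit 152) (nat_lit 0) (XT.lf (nat_lit 0) (nat_lit 61731306249) (nat_lit 76) (nat_lit 65510039124) (nat_lit 76) (nat_lit 43510318342) (nat_lit 151) (nat_lit 4) (nat_lit 152) (nat_lit 5) (nat_lit 152) (nat_lit 4) (nat_lit 456) (nat_lit 352) (nat_lit 212)) (XT.lf (nat_lit 0) (nat_lit 4597460940) (nat_lit 76) (nat_lit 8377326647) (nat_lit 152) (nat_lit 163437767088) (nat_lit 149) (nat_lit 5) (nat_lit 150) (nat_lit 5) (nat_lit 151) (nat_lit 4) (nat_lit 457) (nat_lit 352) (nat_lit 211)))) (XT.nd (nat_lit 156) (nat_lit 152) (nat_lit 0) (XT.nd (nat_lit 78) (nat_lit 76) (nat_lit 0) (XT.lf (nat_lit 0) (nat_lit 73498185270) (nat_lit 152) (nat_lit 56144863454) (nat_lit 0) (nat_lit 52543963840) (nat_lit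 149) (nat_lit 5) (nat_lit 151) (nat_lit 4) (nat_lit 149) (nat_lit 4) (nat_lit 458) (nat_lit 352) (nat_lit 210)) (XT.lf (nat_lit 0) (nat_lit 67314171193) (nat_lit 76) (nat_lit 70916049390) (nat_lit 76) (nat_lit 49960849378) (nat_lit 148) (nat_lit 4) (nat_lit 149) (nat_lit 5) (nat_lit 149) (nat_lit 4) (nat_lit 459) (nat_lit 352) (nat_lit 209))) (XT.nd (nat_lit 78) (nat_lit 0) (nat_lit 0) (XT.lf (nat_lit 0) (nat_lit 4377539073) (nat_lit 76) (nat_lit 7980349252) (nat_lit 152) (nat_lit 182076858316) (nat_lit 146) (nat_lit 5) (nat_lit 147) (nat_lit 5) (nat_lit 148) (nat_lit 4) (nat_lit 460) (nat_lit 352) (nat_lit 208)) (XT.lf (nat_lit 0) (nat_lit 79095532006) (nat_lit 152) (nat_lit 62568558849) (nat_lit 0) (nat_lit 59136465722) (nat_lit 146) (nat_lit 5) (nat_lit 148) (nat_lit 4) (nat_lit 146) (nat_lit 4) (nat_lit 461) (nat_lit 352) (nat_lit 207)))))) (XT.nd (nat_lit 624) (nat_lit 532) (nat_lit 0) (XT.nd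 (nat_lit 312) (nat_lit 380) (nat_lit 0) (XT.nd (nat_lit 156) (nat_lit 76) (nat_lit 0) (XT.nd (nat_lit 78) (nat_lit 152) (nat_lit 0) (XT.lf (nat_lit 0) (nat_lit 73505029014) (nat_lit 76) (nat_lit 76937927223) (nat_lit 76) (nat_lit 56978055856) (nat_lit 145) (nat_lit 4) (nat_lit 146) (nat_lit 5) (nat_lit 146) (nat_lit 4) (nat_lit 462) (nat_lit 352) (nat_lit 206)) (XT.lf (nat_lit 0) (nat_lit 4168266114) (nat_lit 76) (nat_lit 7601931068) (nat_lit 152) (nat_lit 202536891022) (nat_lit 143) (nat_lit 5) (nat_lit 144) (nat_lit 5) (nat_lit 145) (nat_lit 4) (nat_lit 463) (nat_lit 352) (nat_lit 205))) (XT.nd (nat_lit 78) (nat_lit 76) (nat_lit 0) (XT.lf (nat_lit 0) (nat_lit 85358563134) (nat_lit 152) (nat_lit 69618588698) (nat_lit 0) (nat_lit 66347736138) (nat_lit 143) (nat_lit 5) (nat_lit 145) (nat_lit 4) (nat_lit 143) (nat_lit 4) (nat_lit 464) (nat_lit 352) (nat_lit 204)) (XT.lf (nat_lit 0) (nat_lit 80364444800)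 (nat_lit 76) (nat_lit 83635959703) (nat_lit 76) (nat_lit 64624470364) (nat_lit 142) (nat_lit 4) (nat_lit 143) (nat_lit 5) (nat_lit 143) (nat_lit 4) (nat_lit 465) (nat_lit 352) (nat_lit 203)))) (XT.nd (nat_lit 156) (nat_lit 228) (nat_lit 0) (XT.nd (nat_lit 78) (nat_lit 0) (nat_lit 0) (XT.lf (nat_lit 0) (nat_lit 3969103692) (nat_lit 76) (nat_lit 7241249397) (nat_lit 152) (nat_lit 225008727358) (nat_lit 140) (nat_lit 5) (nat_lit 141) (nat_lit 5) (nat_lit 142) (nat_lit 4) (nat_lit 466) (nat_lit 352) (nat_lit 202)) (XT.lf (nat_lit 0) (nat_lit 92351175772) (nat_lit 152) (nat_lit 77360723928) (nat_lit 0) (nat_lit 74243822527) (nat_lit 140) (nat_lit 5) (nat_lit 142) (nat_lit 4) (nat_lit 140) (nat_lit 4) (nat_lit 467) (nat_lit 352) (nat_lit 201))) (XT.nd (nat_lit 78) (nat_lit 152) (nat_lit 0) (XT.lf (nat_lit 0) (nat_lit 87959284288) (nat_lit 76) (nat_lit 91076730599) (nat_lit 76) (nat_lit 72968832444) (nat_lit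 139) (nat_lit 4) (nat_lit 140) (nat_lit 5) (nat_lit 140) (nat_lit 4) (nat_lit 468) (nat_lit 352) (nat_lit 200)) (XT.lf (nat_lit 0) (nat_lit 3779544614) (nat_lit 76) (nat_lit 6897509889) (nat_lit 152) (nat_lit 249702600855) (nat_lit 137) (nat_lit 5) (nat_lit 138) (nat_lit 5) (nat_lit 139) (nat_lit 4) (nat_lit 469) (nat_lit 352) (nat_lit 199))))) (XT.nd (nat_lit 312) (nat_lit 304) (nat_lit 0) (XT.nd (nat_lit 156) (nat_lit 152) (nat_lit 0) (XT.nd (nat_lit 78) (nat_lit 76) (nat_lit 0) (XT.lf (nat_lit 0) (nat_lit 100144015265) (nat_lit 152) (nat_lit 85867394461) (nat_lit 0) (nat_lit 82897433008) (nat_lit 137) (nat_lit 5) (nat_lit 139) (nat_lit 4) (nat_lit 137) (nat_lit 4) (nat_lit 470) (nat_lit 352) (nat_lit 198)) (XT.lf (nat_lit 0) (nat_lit 96363353627) (nat_lit 76) (nat_lit 99333763380) (nat_lit 76) (nat_lit 82086732823) (nat_lit 136) (nat_lit 4) (nat_lit 137) (nat_lit 5) (nat_lit 137) (nat_lit 4)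 (nat_lit 471) (nat_lit 352) (nat_lit 197))) (XT.nd (nat_lit 78) (nat_lit 0) (nat_lit 0) (XT.lf (nat_lit 0) (nat_lit 3599110407) (nat_lit 76) (nat_lit 6569947112) (nat_lit 152) (nat_lit 276850109579) (nat_lit 134) (nat_lit 5) (nat_lit 135) (nat_lit 5) (nat_lit 136) (nat_lit 4) (nat_lit 472) (nat_lit 352) (nat_lit 196)) (XT.lf (nat_lit 0) (nat_lit 108815158771) (nat_lit 152) (nat_lit 95218377053) (nat_lit 0) (nat_lit 92388621504) (nat_lit 134) (nat_lit 5) (nat_lit 136) (nat_lit 4) (nat_lit 134) (nat_lit 4) (nat_lit 473) (nat_lit 352) (nat_lit 195)))) (XT.nd (nat_lit 156) (nat_lit 76) (nat_lit 0) (XT.nd (nat_lit 78) (nat_lit 152) (nat_lit 0) (XT.lf (nat_lit 0) (nat_lit 105658105309) (nat_lit 76) (nat_lit 108488229675) (nat_lit 76) (nat_lit 92061323591) (nat_lit 133) (nat_lit 4) (nat_lit 134) (nat_lit 5) (nat_lit 134) (nat_lit 4) (nat_lit 474) (nat_lit 352) (nat_lit 194)) (XT.lf (nat_lit 0) (nat_lit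 3427349134) (nat_lit 76) (nat_lit 6257824755) (nat_lit 152) (nat_lit 306706413497) (nat_lit 131) (nat_lit 5) (nat_lit 132) (nat_lit 5) (nat_lit 133) (nat_lit 4) (nat_lit 475) (nat_lit 352) (nat_lit 193))) (XT.nd (nat_lit 78) (nat_lit 76) (nat_lit 0) (XT.lf (nat_lit 0) (nat_lit 118450869066) (nat_lit 152) (nat_lit 105501553144) (nat_lit 0) (nat_lit 102805543478) (nat_lit 131) (nat_lit 5) (nat_lit 133) (nat_lit 4) (nat_lit 131) (nat_lit 4) (nat_lit 476) (nat_lit 352) (nat_lit 192)) (XT.lf (nat_lit 0) (nat_lit 115933416944) (nat_lit 76) (nat_lit 118629730038) (nat_lit 76) (nat_lit 102984101023) (nat_lit 130) (nat_lit 4) (nat_lit 131) (nat_lit 5) (nat_lit 131) (nat_lit 4) (nat_lit 477) (nat_lit 352) (nat_lit 191)))))))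
noncomputable def xc169 : XT := (XT.nd (nat_lit 43446) (nat_lit 0) (nat_lit 11856) (XT.nd (nat_lit 624) (nat_lit 532) (nat_lit 0) (XT.nd (nat_lit 312) (nat_lit 228) (nat_lit 0) (XT.nd (nat_lit 156) (nat_lit 228) (nat_lit 0) (XT.nd (nat_lit 78) (nat_lit 0) (nat_lit 0) (XT.lf (nat_lit 0) (nat_lit 3263833466) (nat_lit 76) (nat_lit 5960435538) (nat_lit 152) (nat_lit 339552656953) (nat_lit 128) (nat_lit 5) (nat_lit 129) (nat_lit 5) (nat_lit 130) (nat_lit 4) (nat_lit 478) (nat_lit 352) (nat_lit 190)) (XT.lf (nat_lit 0) (nat_lit 129146425788) (nat_lit 152) (nat_lit 116813743957) (nat_lit 0) (nat_lit 114245289397) (nat_lit 128) (nat_lit 5) (nat_lit 130) (nat_lit 4) (nat_lit 128) (nat_lit 4) (nat_lit 479) (nat_lit 352) (nat_lit 189))) (XT.nd (nat_lit 78) (nat_lit 152) (nat_lit 0) (XT.lf (nat_lit 0) (nat_lit 127288450302) (nat_lit 76) (nat_lit 129857154493) (nat_lit 76) (nat_lit 114955768472) (nat_lit 127)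 (nat_lit 4) (nat_lit 128) (nat_lit 5) (nat_lit 128) (nat_lit 4) (nat_lit 480) (nat_lit 352) (nat_lit 188)) (XT.lf (nat_lit 0) (nat_lit 3108158967) (nat_lit 76) (nat_lit 5677100901) (nat_lit 152) (nat_lit 375698639267) (nat_lit 125) (nat_lit 5) (nat_lit 126) (nat_lit 5) (nat_lit 127) (nat_lit 4) (nat_lit 481) (nat_lit 352) (nat_lit 187)))) (XT.nd (nat_lit 156) (nat_lit 152) (nat_lit 0) (XT.nd (nat_lit 78) (nat_lit 76) (nat_lit 0) (XT.lf (nat_lit 0) (nat_lit 141007042097) (nat_lit 152) (nat_lit 129261630830) (nat_lit 0) (nat_lit 126814803825) (nat_lit 125) (nat_lit 5) (nat_lit 127) (nat_lit 4) (nat_lit 125) (nat_lit 4) (nat_lit 482) (nat_lit 352) (nat_lit 186)) (XT.lf (nat_lit 0) (nat_lit 139832598772) (nat_lit 76) (nat_lit 142279631149) (nat_lit 76) (nat_lit 128087187505) (nat_lit 124) (nat_lit 4) (nat_lit 125) (nat_lit 5) (nat_lit 125) (nat_lit 4) (nat_lit 483) (nat_lit 352) (nat_lit 185))) (XT.nd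 (nat_lit 78) (nat_lit 0) (nat_lit 0) (XT.lf (nat_lit 0) (nat_lit 2959942548) (nat_lit 76) (nat_lit 5407170517) (nat_lit 152) (nat_lit 415485758893) (nat_lit 122) (nat_lit 5) (nat_lit 123) (nat_lit 5) (nat_lit 124) (nat_lit 4) (nat_lit 484) (nat_lit 352) (nat_lit 184)) (XT.lf (nat_lit 0) (nat_lit 154148875517) (nat_lit 152) (nat_lit 142962769549) (nat_lit 0) (nat_lit 140631898837) (nat_lit 122) (nat_lit 5) (nat_lit 124) (nat_lit 4) (nat_lit 122) (nat_lit 4) (nat_lit 485) (nat_lit 352) (nat_lit 183))))) (XT.nd (nat_lit 312) (nat_lit 228) (nat_lit 0) (XT.nd (nat_lit 156) (nat_lit 76) (nat_lit 0) (XT.nd (nat_lit 78) (nat_lit 152) (nat_lit 0) (XT.lf (nat_lit 0) (nat_lit 153686532279) (nat_lit 76) (nat_lit 156017571950) (nat_lit 76) (nat_lit 142500426311) (nat_lit 121) (nat_lit 4) (nat_lit 122) (nat_lit 5) (nat_lit 122) (nat_lit 4) (nat_lit 486) (nat_lit 352) (nat_lit 182)) (XT.lf (nat_lit 0) (nat_lit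 2818821082) (nat_lit 76) (nat_lit 5150021666) (nat_lit 152) (nat_lit 459290259140) (nat_lit 119) (nat_lit 5) (nat_lit 120) (nat_lit 5) (nat_lit 121) (nat_lit 4) (nat_lit 487) (nat_lit 352) (nat_lit 181))) (XT.nd (nat_lit 78) (nat_lit 76) (nat_lit 0) (XT.lf (nat_lit 0) (nat_lit 168700142622) (nat_lit 152) (nat_lit 158046708367) (nat_lit 0) (nat_lit 155826371380) (nat_lit 119) (nat_lit 5) (nat_lit 121) (nat_lit 4) (nat_lit 119) (nat_lit 4) (nat_lit 488) (nat_lit 352) (nat_lit 180)) (XT.lf (nat_lit 0) (nat_lit 168983349586) (nat_lit 76) (nat_lit 171203825576) (nat_lit 76) (nat_lit 158329915330) (nat_lit 118) (nat_lit 4) (nat_lit 119) (nat_lit 5) (nat_lit 119) (nat_lit 4) (nat_lit 489) (nat_lit 352) (nat_lit 179)))) (XT.nd (nat_lit 156) (nat_lit 76) (nat_lit 0) (XT.nd (nat_lit 78) (nat_lit 0) (nat_lit 0) (XT.lf (nat_lit 0) (nat_lit 2684450149) (nat_lit 76) (nat_lit 4905058523) (nat_lit 152) (nat_lit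 507526806358) (nat_lit 116) (nat_lit 5) (nat_lit 117) (nat_lit 5) (nat_lit 118) (nat_lit 4) (nat_lit 490) (nat_lit 352) (nat_lit 178)) (XT.lf (nat_lit 0) (nat_lit 184802348236) (nat_lit 152) (nat_lit 174656220373) (nat_lit 0) (nat_lit 172541235179) (nat_lit 116) (nat_lit 5) (nat_lit 118) (nat_lit 4) (nat_lit 116) (nat_lit 4) (nat_lit 491) (nat_lit 352) (nat_lit 177))) (XT.nd (nat_lit 42276) (nat_lit 0) (nat_lit 14972) (XT.lf (nat_lit 0) (nat_lit 185869848970) (nat_lit 76) (nat_lit 187984948523) (nat_lit 76) (nat_lit 175723721107) (nat_lit 115) (nat_lit 4) (nat_lit 116) (nat_lit 5) (nat_lit 116) (nat_lit 4) (nat_lit 492) (nat_lit 352) (nat_lit 176)) (XT.lf (nat_lit 0) (nat_lit 2393800889) (nat_lit 684) (nat_lit 901629639) (nat_lit 684) (nat_lit 901629639) (nat_lit 312) (nat_lit 3) (nat_lit 321) (nat_lit 3) (nat_lit 321) (nat_lit 5) (nat_lit 353) (nat_lit 353) (nat_lit 314)))))) (XT.nd (nat_lit 624)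 (nat_lit 2508) (nat_lit 0) (XT.nd (nat_lit 312) (nat_lit 0) (nat_lit 76) (XT.nd (nat_lit 156) (nat_lit 608) (nat_lit 0) (XT.nd (nat_lit 78) (nat_lit 0) (nat_lit 0) (XT.lf (nat_lit 76) (nat_lit 2472950757) (nat_lit 0) (nat_lit 3521689341) (nat_lit 684) (nat_lit 2554965831) (nat_lit 313) (nat_lit 5) (nat_lit 312) (nat_lit 3) (nat_lit 321) (nat_lit 5) (nat_lit 354) (nat_lit 353) (nat_lit 313)) (XT.lf (nat_lit 76) (nat_lit 6989166550) (nat_lit 0) (nat_lit 235702024) (nat_lit 684) (nat_lit 1489855318) (nat_lit 313) (nat_lit 5) (nat_lit 312) (nat_lit 3) (nat_lit 321) (nat_lit 5) (nat_lit 355) (nat_lit 353) (nat_lit 312))) (XT.nd (nat_lit 78) (nat_lit 684) (nat_lit 0) (XT.lf (nat_lit 76) (nat_lit 2845619128) (nat_lit 0) (nat_lit 5701594408) (nat_lit 684) (nat_lit 339353963) (nat_lit 314) (nat_lit 5) (nat_lit 313) (nat_lit 5) (nat_lit 322) (nat_lit 5) (nat_lit 356) (nat_lit 353) (nat_lit 311)) (XT.lf (nat_lit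 0) (nat_lit 811873783) (nat_lit 684) (nat_lit 1418000646) (nat_lit 760) (nat_lit 6837900524) (nat_lit 304) (nat_lit 5) (nat_lit 313) (nat_lit 5) (nat_lit 314) (nat_lit 5) (nat_lit 357) (nat_lit 353) (nat_lit 310)))) (XT.nd (nat_lit 156) (nat_lit 0) (nat_lit 0) (XT.nd (nat_lit 78) (nat_lit 0) (nat_lit 0) (XT.lf (nat_lit 0) (nat_lit 2027820501) (nat_lit 684) (nat_lit 5776645735) (nat_lit 760) (nat_lit 1452370279) (nat_lit 305) (nat_lit 5) (nat_lit 314) (nat_lit 5) (nat_lit 315) (nat_lit 5) (nat_lit 358) (nat_lit 353) (nat_lit 309)) (XT.lf (nat_lit 0) (nat_lit 3308512684) (nat_lit 684) (nat_lit 859064245) (nat_lit 760) (nat_lit 5287576820) (nat_lit 305) (nat_lit 5) (nat_lit 314) (nat_lit 5) (nat_lit 315) (nat_lit 5) (nat_lit 359) (nat_lit 353) (nat_lit 308))) (XT.nd (nat_lit 78) (nat_lit 0) (nat_lit 76) (XT.lf (nat_lit 76) (nat_lit 4406885731) (nat_lit 0) (nat_lit 260857202) (nat_lit 760) (nat_lit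 4994918739) (nat_lit 306) (nat_lit 5) (nat_lit 305) (nat_lit 5) (nat_lit 315) (nat_lit 5) (nat_lit 360) (nat_lit 353) (nat_lit 307)) (XT.lf (nat_lit 0) (nat_lit 6117611161) (nat_lit 684) (nat_lit 14846208) (nat_lit 760) (nat_lit 3746953799) (nat_lit 306) (nat_lit 5) (nat_lit 315) (nat_lit 5) (nat_lit 316) (nat_lit 5) (nat_lit 361) (nat_lit 353) (nat_lit 306))))) (XT.nd (nat_lit 312) (nat_lit 1216) (nat_lit 0) (XT.nd (nat_lit 156) (nat_lit 836) (nat_lit 0) (XT.nd (nat_lit 78) (nat_lit 608) (nat_lit 0) (XT.lf (nat_lit 76) (nat_lit 5625056062) (nat_lit 0) (nat_lit 2057413517) (nat_lit 760) (nat_lit 2422403720) (nat_lit 307) (nat_lit 5) (nat_lit 306) (nat_lit 5) (nat_lit 316) (nat_lit 5) (nat_lit 362) (nat_lit 353) (nat_lit 305)) (XT.lf (nat_lit 0) (nat_lit 1167813767) (nat_lit 684) (nat_lit 8163240913) (nat_lit 760) (nat_lit 1010279669) (nat_lit 298) (nat_lit 5) (nat_lit 307) (nat_lit 5) (nat_lit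 308) (nat_lit 5) (nat_lit 363) (nat_lit 353) (nat_lit 304))) (XT.nd (nat_lit 78) (nat_lit 760) (nat_lit 0) (XT.lf (nat_lit 0) (nat_lit 521372318) (nat_lit 760) (nat_lit 3416458085) (nat_lit 76) (nat_lit 6648217079) (nat_lit 297) (nat_lit 5) (nat_lit 307) (nat_lit 5) (nat_lit 298) (nat_lit 5) (nat_lit 364) (nat_lit 353) (nat_lit 303)) (XT.lf (nat_lit 0) (nat_lit 2101391168) (nat_lit 836) (nat_lit 8193851089) (nat_lit 76) (nat_lit 546639104) (nat_lit 287) (nat_lit 5) (nat_lit 298) (nat_lit 5) (nat_lit 288) (nat_lit 5) (nat_lit 365) (nat_lit 353) (nat_lit 302)))) (XT.nd (nat_lit 156) (nat_lit 760) (nat_lit 0) (XT.nd (nat_lit 78) (nat_lit 456) (nat_lit 0) (XT.lf (nat_lit 0) (nat_lit 3840781403) (nat_lit 836) (nat_lit 2079995976) (nat_lit 76) (nat_lit 5185711031) (nat_lit 287) (nat_lit 5) (nat_lit 298) (nat_lit 5) (nat_lit 288) (nat_lit 5) (nat_lit 366) (nat_lit 353) (nat_lit 301)) (XT.lf (nat_lit 0)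 (nat_lit 4442468475) (nat_lit 456) (nat_lit 1253087259) (nat_lit 532) (nat_lit 5687349349) (nat_lit 281) (nat_lit 5) (nat_lit 287) (nat_lit 5) (nat_lit 288) (nat_lit 5) (nat_lit 367) (nat_lit 353) (nat_lit 300))) (XT.nd (nat_lit 78) (nat_lit 760) (nat_lit 0) (XT.lf (nat_lit 0) (nat_lit 7696244035) (nat_lit 532) (nat_lit 406276855) (nat_lit 76) (nat_lit 3567962937) (nat_lit 281) (nat_lit 5) (nat_lit 288) (nat_lit 5) (nat_lit 282) (nat_lit 5) (nat_lit 368) (nat_lit 353) (nat_lit 299)) (XT.nd (nat_lit 78) (nat_lit 380) (nat_lit 0) (XT.lf (nat_lit 0) (nat_lit 6606810833) (nat_lit 380) (nat_lit 3276150819) (nat_lit 456) (nat_lit 2085180110) (nat_lit 276) (nat_lit 5) (nat_lit 281) (nat_lit 5) (nat_lit 282) (nat_lit 5) (nat_lit 369) (nat_lit 353) (nat_lit 298)) (XT.lf (nat_lit 0) (nat_lit 1690468178) (nat_lit 380) (nat_lit 10513381935) (nat_lit 456) (nat_lit 75590734) (nat_lit 271) (nat_lit 5) (nat_lit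 276) (nat_lit 5) (nat_lit 277) (nat_lit 5) (nat_lit 370) (nat_lit 353) (nat_lit 297))))))))
noncomputable def xc170 : XT := (XT.nd (nat_lit 2496) (nat_lit 2660) (nat_lit 0) (XT.nd (nat_lit 1248) (nat_lit 2052) (nat_lit 0) (XT.nd (nat_lit 624) (nat_lit 1368) (nat_lit 0) (XT.nd (nat_lit 312) (nat_lit 684) (nat_lit 0) (XT.nd (nat_lit 156) (nat_lit 304) (nat_lit 0) (XT.nd (nat_lit 78) (nat_lit 304) (nat_lit 0) (XT.lf (nat_lit 0) (nat_lit 2079378909) (nat_lit 456) (nat_lit 3448153672) (nat_lit 76) (nat_lit 7071683269) (nat_lit 270) (nat_lit 5) (nat_lit 276) (nat_lit 5) (nat_lit 271) (nat_lit 5) (nat_lit 371) (nat_lit 353) (nat_lit 296)) (XT.lf (nat_lit 0) (nat_lit 4142560213) (nat_lit 304) (nat_lit 227410796) (nat_lit 380) (nat_lit 8563425919) (nat_lit 266) (nat_lit 5) (nat_lit 270) (nat_lit 5) (nat_lit 271) (nat_lit 5) (nat_lit 372) (nat_lit 353) (nat_lit 295))) (XT.nd (nat_lit 78) (nat_lit 304) (nat_lit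 0) (XT.lf (nat_lit 0) (nat_lit 6884487863) (nat_lit 380) (nat_lit 1172601673) (nat_lit 76) (nat_lit 5221727767) (nat_lit 266) (nat_lit 5) (nat_lit 271) (nat_lit 5) (nat_lit 267) (nat_lit 5) (nat_lit 373) (nat_lit 353) (nat_lit 294)) (XT.lf (nat_lit 0) (nat_lit 7009584424) (nat_lit 304) (nat_lit 2596603878) (nat_lit 380) (nat_lit 4031247507) (nat_lit 262) (nat_lit 5) (nat_lit 266) (nat_lit 5) (nat_lit 267) (nat_lit 5) (nat_lit 374) (nat_lit 353) (nat_lit 293)))) (XT.nd (nat_lit 156) (nat_lit 304) (nat_lit 0) (XT.nd (nat_lit 78) (nat_lit 76) (nat_lit 0) (XT.lf (nat_lit 0) (nat_lit 1591825514) (nat_lit 304) (nat_lit 10935287432) (nat_lit 380) (nat_lit 1483715335) (nat_lit 258) (nat_lit 5) (nat_lit 262) (nat_lit 5) (nat_lit 263) (nat_lit 5) (nat_lit 375) (nat_lit 353) (nat_lit 292)) (XT.lf (nat_lit 0) (nat_lit 1279235686) (nat_lit 380) (nat_lit 4046500348) (nat_lit 76) (nat_lit 9069916056) (nat_lit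 257) (nat_lit 5) (nat_lit 262) (nat_lit 5) (nat_lit 258) (nat_lit 5) (nat_lit 376) (nat_lit 353) (nat_lit 291))) (XT.nd (nat_lit 78) (nat_lit 0) (nat_lit 0) (XT.lf (nat_lit 0) (nat_lit 4187299341) (nat_lit 380) (nat_lit 9968302078) (nat_lit 76) (nat_lit 640058128) (nat_lit 253) (nat_lit 5) (nat_lit 258) (nat_lit 5) (nat_lit 254) (nat_lit 5) (nat_lit 377) (nat_lit 353) (nat_lit 290)) (XT.lf (nat_lit 0) (nat_lit 7369380182) (nat_lit 380) (nat_lit 1052924970) (nat_lit 76) (nat_lit 6786931524) (nat_lit 253) (nat_lit 5) (nat_lit 258) (nat_lit 5) (nat_lit 254) (nat_lit 5) (nat_lit 378) (nat_lit 353) (nat_lit 289))))) (XT.nd (nat_lit 312) (nat_lit 532) (nat_lit 0) (XT.nd (nat_lit 156) (nat_lit 304) (nat_lit 0) (XT.nd (nat_lit 78) (nat_lit 304) (nat_lit 0) (XT.lf (nat_lit 0) (nat_lit 8545888490) (nat_lit 228) (nat_lit 2271105633) (nat_lit 304) (nat_lit 4821177086) (nat_lit 250) (nat_lit 5) (nat_lit 253)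 (nat_lit 5) (nat_lit 254) (nat_lit 5) (nat_lit 379) (nat_lit 353) (nat_lit 288)) (XT.lf (nat_lit 0) (nat_lit 2553131398) (nat_lit 304) (nat_lit 11980821857) (nat_lit 380) (nat_lit 1549750990) (nat_lit 246) (nat_lit 5) (nat_lit 250) (nat_lit 5) (nat_lit 251) (nat_lit 5) (nat_lit 380) (nat_lit 353) (nat_lit 287))) (XT.nd (nat_lit 78) (nat_lit 228) (nat_lit 0) (XT.lf (nat_lit 0) (nat_lit 1958092065) (nat_lit 380) (nat_lit 3723822674) (nat_lit 76) (nat_lit 10861468228) (nat_lit 245) (nat_lit 5) (nat_lit 250) (nat_lit 5) (nat_lit 246) (nat_lit 5) (nat_lit 381) (nat_lit 353) (nat_lit 286)) (XT.lf (nat_lit 0) (nat_lit 5685941027) (nat_lit 304) (nat_lit 10309069183) (nat_lit 76) (nat_lit 1024930350) (nat_lit 242) (nat_lit 5) (nat_lit 246) (nat_lit 5) (nat_lit 243) (nat_lit 5) (nat_lit 382) (nat_lit 353) (nat_lit 285)))) (XT.nd (nat_lit 156) (nat_lit 304) (nat_lit 0) (XT.nd (nat_lit 78) (nat_lit 0) (nat_lit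 0) (XT.lf (nat_lit 0) (nat_lit 154717746) (nat_lit 228) (nat_lit 9580731615) (nat_lit 304) (nat_lit 7778113325) (nat_lit 239) (nat_lit 5) (nat_lit 242) (nat_lit 5) (nat_lit 243) (nat_lit 5) (nat_lit 383) (nat_lit 353) (nat_lit 284)) (XT.lf (nat_lit 0) (nat_lit 11464709383) (nat_lit 228) (nat_lit 2673536243) (nat_lit 304) (nat_lit 3886079667) (nat_lit 239) (nat_lit 5) (nat_lit 242) (nat_lit 5) (nat_lit 243) (nat_lit 5) (nat_lit 384) (nat_lit 353) (nat_lit 283))) (XT.nd (nat_lit 78) (nat_lit 0) (nat_lit 0) (XT.lf (nat_lit 0) (nat_lit 320237467) (nat_lit 304) (nat_lit 13731162428) (nat_lit 76) (nat_lit 4502764533) (nat_lit 235) (nat_lit 5) (nat_lit 239) (nat_lit 5) (nat_lit 236) (nat_lit 5) (nat_lit 385) (nat_lit 353) (nat_lit 282)) (XT.lf (nat_lit 0) (nat_lit 4740399087) (nat_lit 304) (nat_lit 2246204756) (nat_lit 76) (nat_lit 12114000045) (nat_lit 235) (nat_lit 5) (nat_lit 239) (nat_lit 5) (nat_lit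 236) (nat_lit 5) (nat_lit 386) (nat_lit 353) (nat_lit 281)))))) (XT.nd (nat_lit 624) (nat_lit 988) (nat_lit 0) (XT.nd (nat_lit 312) (nat_lit 380) (nat_lit 0) (XT.nd (nat_lit 156) (nat_lit 304) (nat_lit 0) (XT.nd (nat_lit 78) (nat_lit 152) (nat_lit 0) (XT.lf (nat_lit 0) (nat_lit 9526924706) (nat_lit 304) (nat_lit 9573077668) (nat_lit 76) (nat_lit 567095152) (nat_lit 232) (nat_lit 5) (nat_lit 236) (nat_lit 5) (nat_lit 233) (nat_lit 5) (nat_lit 387) (nat_lit 353) (nat_lit 280)) (XT.lf (nat_lit 0) (nat_lit 2810930993) (nat_lit 152) (nat_lit 11917741448) (nat_lit 228) (nat_lit 5524448613) (nat_lit 230) (nat_lit 5) (nat_lit 232) (nat_lit 5) (nat_lit 233) (nat_lit 5) (nat_lit 388) (nat_lit 353) (nat_lit 279))) (XT.nd (nat_lit 78) (nat_lit 304) (nat_lit 0) (XT.lf (nat_lit 0) (nat_lit 16113926361) (nat_lit 152) (nat_lit 4218017078) (nat_lit 228) (nat_lit 529430526) (nat_lit 230) (nat_lit 5) (nat_lit 232)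 (nat_lit 5) (nat_lit 233) (nat_lit 5) (nat_lit 389) (nat_lit 353) (nat_lit 278)) (XT.lf (nat_lit 0) (nat_lit 4744749197) (nat_lit 304) (nat_lit 12797149241) (nat_lit 76) (nat_lit 3945443549) (nat_lit 226) (nat_lit 5) (nat_lit 230) (nat_lit 5) (nat_lit 227) (nat_lit 5) (nat_lit 390) (nat_lit 353) (nat_lit 277)))) (XT.nd (nat_lit 156) (nat_lit 228) (nat_lit 0) (XT.nd (nat_lit 78) (nat_lit 0) (nat_lit 0) (XT.lf (nat_lit 0) (nat_lit 736405551) (nat_lit 152) (nat_lit 9671062638) (nat_lit 228) (nat_lit 11729575132) (nat_lit 224) (nat_lit 5) (nat_lit 226) (nat_lit 5) (nat_lit 227) (nat_lit 5) (nat_lit 391) (nat_lit 353) (nat_lit 276)) (XT.lf (nat_lit 0) (nat_lit 15359475439) (nat_lit 152) (nat_lit 1191281703) (nat_lit 228) (nat_lit 6258600880) (nat_lit 224) (nat_lit 5) (nat_lit 226) (nat_lit 5) (nat_lit 227) (nat_lit 5) (nat_lit 392) (nat_lit 353) (nat_lit 275))) (XT.nd (nat_lit 78) (nat_lit 76) (nat_lit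 0) (XT.lf (nat_lit 0) (nat_lit 7280321581) (nat_lit 152) (nat_lit 15936414701) (nat_lit 228) (nat_lit 287775887) (nat_lit 222) (nat_lit 5) (nat_lit 224) (nat_lit 5) (nat_lit 225) (nat_lit 5) (nat_lit 393) (nat_lit 353) (nat_lit 274)) (XT.lf (nat_lit 0) (nat_lit 5919467635) (nat_lit 228) (nat_lit 1368229172) (nat_lit 76) (nat_lit 16935591472) (nat_lit 221) (nat_lit 5) (nat_lit 224) (nat_lit 5) (nat_lit 222) (nat_lit 5) (nat_lit 394) (nat_lit 353) (nat_lit 273))))) (XT.nd (nat_lit 312) (nat_lit 456) (nat_lit 0) (XT.nd (nat_lit 156) (nat_lit 228) (nat_lit 0) (XT.nd (nat_lit 78) (nat_lit 152) (nat_lit 0) (XT.lf (nat_lit 0) (nat_lit 12670464307) (nat_lit 228) (nat_lit 10332971152) (nat_lit 76) (nat_lit 1962178746) (nat_lit 219) (nat_lit 5) (nat_lit 222) (nat_lit 5) (nat_lit 220) (nat_lit 5) (nat_lit 395) (nat_lit 353) (nat_lit 272)) (XT.lf (nat_lit 0) (nat_lit 5772527714) (nat_lit 152) (nat_lit 14202272129)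 (nat_lit 228) (nat_lit 5759467133) (nat_lit 217) (nat_lit 5) (nat_lit 219) (nat_lit 5) (nat_lit 220) (nat_lit 5) (nat_lit 396) (nat_lit 353) (nat_lit 271))) (XT.nd (nat_lit 78) (nat_lit 152) (nat_lit 0) (XT.lf (nat_lit 0) (nat_lit 1228295618) (nat_lit 228) (nat_lit 3540289543) (nat_lit 76) (nat_lit 21763876242) (nat_lit 216) (nat_lit 5) (nat_lit 219) (nat_lit 5) (nat_lit 217) (nat_lit 5) (nat_lit 397) (nat_lit 353) (nat_lit 270)) (XT.lf (nat_lit 0) (nat_lit 8659628570) (nat_lit 228) (nat_lit 13412276697) (nat_lit 76) (nat_lit 5279552514) (nat_lit 214) (nat_lit 5) (nat_lit 217) (nat_lit 5) (nat_lit 215) (nat_lit 5) (nat_lit 398) (nat_lit 353) (nat_lit 269)))) (XT.nd (nat_lit 156) (nat_lit 304) (nat_lit 0) (XT.nd (nat_lit 78) (nat_lit 0) (nat_lit 0) (XT.lf (nat_lit 0) (nat_lit 4235132256) (nat_lit 152) (nat_lit 12416356402) (nat_lit 228) (nat_lit 11550467296) (nat_lit 212) (nat_lit 5) (nat_lit 214)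 (nat_lit 5) (nat_lit 215) (nat_lit 5) (nat_lit 399) (nat_lit 353) (nat_lit 268)) (XT.lf (nat_lit 0) (nat_lit 23202621600) (nat_lit 152) (nat_lit 2051527674) (nat_lit 228) (nat_lit 3830269385) (nat_lit 212) (nat_lit 5) (nat_lit 214) (nat_lit 5) (nat_lit 215) (nat_lit 5) (nat_lit 400) (nat_lit 353) (nat_lit 267))) (XT.nd (nat_lit 78) (nat_lit 152) (nat_lit 0) (XT.lf (nat_lit 0) (nat_lit 4475790754) (nat_lit 152) (nat_lit 16696284677) (nat_lit 76) (nat_lit 8818755645) (nat_lit 210) (nat_lit 5) (nat_lit 212) (nat_lit 5) (nat_lit 211) (nat_lit 5) (nat_lit 401) (nat_lit 353) (nat_lit 266)) (XT.lf (nat_lit 0) (nat_lit 2656028490) (nat_lit 152) (nat_lit 10573458560) (nat_lit 228) (nat_lit 17701884733) (nat_lit 208) (nat_lit 5) (nat_lit 210) (nat_lit 5) (nat_lit 211) (nat_lit 5) (nat_lit 402) (nat_lit 353) (nat_lit 265))))))) (XT.nd (nat_lit 1248) (nat_lit 1216) (nat_lit 0) (XT.nd (nat_lit 624) (nat_lit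 760) (nat_lit 0) (XT.nd (nat_lit 312) (nat_lit 380) (nat_lit 0) (XT.nd (nat_lit 156) (nat_lit 152) (nat_lit 0) (XT.nd (nat_lit 78) (nat_lit 152) (nat_lit 0) (XT.lf (nat_lit 0) (nat_lit 22701766012) (nat_lit 228) (nat_lit 8389864816) (nat_lit 76) (nat_lit 813263806) (nat_lit 208) (nat_lit 5) (nat_lit 211) (nat_lit 5) (nat_lit 209) (nat_lit 4) (nat_lit 403) (nat_lit 353) (nat_lit 264)) (XT.lf (nat_lit 0) (nat_lit 92490796) (nat_lit 152) (nat_lit 20213870452) (nat_lit 76) (nat_lit 12602801424) (nat_lit 206) (nat_lit 5) (nat_lit 208) (nat_lit 5) (nat_lit 207) (nat_lit 5) (nat_lit 404) (nat_lit 353) (nat_lit 263))) (XT.nd (nat_lit 78) (nat_lit 0) (nat_lit 0) (XT.lf (nat_lit 0) (nat_lit 1022854432) (nat_lit 152) (nat_lit 8666750144) (nat_lit 228) (nat_lit 24259196047) (nat_lit 204) (nat_lit 5) (nat_lit 206) (nat_lit 5) (nat_lit 207) (nat_lit 5) (nat_lit 405) (nat_lit 353) (nat_lit 262)) (XT.lf (nat_lit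 0) (nat_lit 20155734849) (nat_lit 228) (nat_lit 11087451514) (nat_lit 76) (nat_lit 3777776066) (nat_lit 204) (nat_lit 5) (nat_lit 207) (nat_lit 5) (nat_lit 205) (nat_lit 4) (nat_lit 406) (nat_lit 353) (nat_lit 261)))) (XT.nd (nat_lit 156) (nat_lit 228) (nat_lit 0) (XT.nd (nat_lit 78) (nat_lit 76) (nat_lit 0) (XT.lf (nat_lit 0) (nat_lit 12061967263) (nat_lit 76) (nat_lit 19399999635) (nat_lit 152) (nat_lit 4668925665) (nat_lit 203) (nat_lit 5) (nat_lit 204) (nat_lit 5) (nat_lit 205) (nat_lit 4) (nat_lit 407) (nat_lit 353) (nat_lit 260)) (XT.lf (nat_lit 0) (nat_lit 6021254754) (nat_lit 152) (nat_lit 655504492) (nat_lit 76) (nat_lit 30605982521) (nat_lit 202) (nat_lit 5) (nat_lit 204) (nat_lit 5) (nat_lit 203) (nat_lit 5) (nat_lit 408) (nat_lit 353) (nat_lit 259))) (XT.nd (nat_lit 78) (nat_lit 76) (nat_lit 0) (XT.lf (nat_lit 0) (nat_lit 17572170429) (nat_lit 228) (nat_lit 13965423990) (nat_lit 76)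 (nat_lit 6926605389) (nat_lit 200) (nat_lit 5) (nat_lit 203) (nat_lit 5) (nat_lit 201) (nat_lit 4) (nat_lit 409) (nat_lit 353) (nat_lit 258)) (XT.lf (nat_lit 0) (nat_lit 11462677245) (nat_lit 76) (nat_lit 18524825157) (nat_lit 152) (nat_lit 9702884821) (nat_lit 199) (nat_lit 5) (nat_lit 200) (nat_lit 5) (nat_lit 201) (nat_lit 4) (nat_lit 410) (nat_lit 353) (nat_lit 257))))) (XT.nd (nat_lit 312) (nat_lit 456) (nat_lit 0) (XT.nd (nat_lit 156) (nat_lit 76) (nat_lit 0) (XT.nd (nat_lit 78) (nat_lit 152) (nat_lit 0) (XT.lf (nat_lit 0) (nat_lit 2207834683) (nat_lit 152) (nat_lit 2378795912) (nat_lit 76) (nat_lit 36378276774) (nat_lit 198) (nat_lit 5) (nat_lit 200) (nat_lit 5) (nat_lit 199) (nat_lit 5) (nat_lit 411) (nat_lit 353) (nat_lit 256)) (XT.lf (nat_lit 0) (nat_lit 14938112522) (nat_lit 228) (nat_lit 17048375467) (nat_lit 76) (nat_lit 10281207203) (nat_lit 196) (nat_lit 5) (nat_lit 199) (nat_lit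 5) (nat_lit 197) (nat_lit 4) (nat_lit 412) (nat_lit 353) (nat_lit 255))) (XT.nd (nat_lit 78) (nat_lit 0) (nat_lit 0) (XT.lf (nat_lit 0) (nat_lit 10896341439) (nat_lit 76) (nat_lit 17682702785) (nat_lit 152) (nat_lit 15042871184) (nat_lit 195) (nat_lit 5) (nat_lit 196) (nat_lit 5) (nat_lit 197) (nat_lit 4) (nat_lit 413) (nat_lit 353) (nat_lit 254)) (XT.lf (nat_lit 0) (nat_lit 40807666381) (nat_lit 76) (nat_lit 2371184705) (nat_lit 152) (nat_lit 1851154119) (nat_lit 195) (nat_lit 5) (nat_lit 196) (nat_lit 5) (nat_lit 197) (nat_lit 4) (nat_lit 414) (nat_lit 353) (nat_lit 253)))) (XT.nd (nat_lit 156) (nat_lit 152) (nat_lit 0) (XT.nd (nat_lit 78) (nat_lit 76) (nat_lit 0) (XT.lf (nat_lit 0) (nat_lit 12239435754) (nat_lit 228) (nat_lit 20362858644) (nat_lit 76) (nat_lit 13865668964) (nat_lit 192) (nat_lit 5) (nat_lit 195) (nat_lit 5) (nat_lit 193) (nat_lit 4) (nat_lit 415) (nat_lit 353) (nat_lit 252))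 (XT.lf (nat_lit 0) (nat_lit 10360607546) (nat_lit 76) (nat_lit 16873587421) (nat_lit 152) (nat_lit 20729014583) (nat_lit 191) (nat_lit 5) (nat_lit 192) (nat_lit 5) (nat_lit 193) (nat_lit 4) (nat_lit 416) (nat_lit 353) (nat_lit 251))) (XT.nd (nat_lit 78) (nat_lit 152) (nat_lit 0) (XT.lf (nat_lit 0) (nat_lit 43305680165) (nat_lit 76) (nat_lit 6617680) (nat_lit 152) (nat_lit 6204239916) (nat_lit 191) (nat_lit 5) (nat_lit 192) (nat_lit 5) (nat_lit 193) (nat_lit 4) (nat_lit 417) (nat_lit 353) (nat_lit 250)) (XT.lf (nat_lit 0) (nat_lit 9460770391) (nat_lit 152) (nat_lit 23937661263) (nat_lit 76) (nat_lit 17706860948) (nat_lit 189) (nat_lit 5) (nat_lit 191) (nat_lit 5) (nat_lit 190) (nat_lit 4) (nat_lit 418) (nat_lit 353) (nat_lit 249)))))) (XT.nd (nat_lit 624) (nat_lit 684) (nat_lit 0) (XT.nd (nat_lit 312) (nat_lit 228) (nat_lit 0) (XT.nd (nat_lit 156) (nat_lit 228) (nat_lit 0) (XT.nd (nat_lit 78) (nat_lit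 0) (nat_lit 0) (XT.lf (nat_lit 0) (nat_lit 9853374114) (nat_lit 76) (nat_lit 16097165062) (nat_lit 152) (nat_lit 26805360009) (nat_lit 188) (nat_lit 5) (nat_lit 189) (nat_lit 5) (nat_lit 190) (nat_lit 4) (nat_lit 419) (nat_lit 353) (nat_lit 248)) (XT.lf (nat_lit 0) (nat_lit 43698339795) (nat_lit 152) (nat_lit 8363634795) (nat_lit 0) (nat_lit 2405384338) (nat_lit 188) (nat_lit 5) (nat_lit 190) (nat_lit 4) (nat_lit 188) (nat_lit 4) (nat_lit 420) (nat_lit 353) (nat_lit 247))) (XT.nd (nat_lit 78) (nat_lit 76) (nat_lit 0) (XT.lf (nat_lit 0) (nat_lit 6585404585) (nat_lit 152) (nat_lit 27804097854) (nat_lit 76) (nat_lit 21834625599) (nat_lit 186) (nat_lit 5) (nat_lit 188) (nat_lit 5) (nat_lit 187) (nat_lit 4) (nat_lit 421) (nat_lit 353) (nat_lit 246)) (XT.lf (nat_lit 0) (nat_lit 9372753978) (nat_lit 76) (nat_lit 15352913660) (nat_lit 152) (nat_lit 33320239510) (nat_lit 185) (nat_lit 5) (nat_lit 186) (nat_lit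 5) (nat_lit 187) (nat_lit 4) (nat_lit 422) (nat_lit 353) (nat_lit 245)))) (XT.nd (nat_lit 156) (nat_lit 76) (nat_lit 0) (XT.nd (nat_lit 78) (nat_lit 152) (nat_lit 0) (XT.lf (nat_lit 0) (nat_lit 44313674226) (nat_lit 152) (nat_lit 10661574226) (nat_lit 0) (nat_lit 4956490243) (nat_lit 185) (nat_lit 5) (nat_lit 187) (nat_lit 4) (nat_lit 185) (nat_lit 4) (nat_lit 423) (nat_lit 353) (nat_lit 244)) (XT.lf (nat_lit 0) (nat_lit 3595168185) (nat_lit 152) (nat_lit 31996321402) (nat_lit 76) (nat_lit 26282005218) (nat_lit 183) (nat_lit 5) (nat_lit 185) (nat_lit 5) (nat_lit 184) (nat_lit 4) (nat_lit 424) (nat_lit 353) (nat_lit 243))) (XT.nd (nat_lit 78) (nat_lit 0) (nat_lit 0) (XT.lf (nat_lit 0) (nat_lit 8917043808) (nat_lit 76) (nat_lit 14640152564) (nat_lit 152) (nat_lit 40326690495) (nat_lit 182) (nat_lit 5) (nat_lit 183) (nat_lit 5) (nat_lit 184) (nat_lit 4) (nat_lit 425) (nat_lit 353) (nat_lit 242)) (XT.lf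 (nat_lit 0) (nat_lit 45173264857) (nat_lit 152) (nat_lit 13123645810) (nat_lit 0) (nat_lit 7665090919) (nat_lit 182) (nat_lit 5) (nat_lit 184) (nat_lit 4) (nat_lit 182) (nat_lit 4) (nat_lit 426) (nat_lit 353) (nat_lit 241))))) (XT.nd (nat_lit 312) (nat_lit 380) (nat_lit 0) (XT.nd (nat_lit 156) (nat_lit 76) (nat_lit 0) (XT.nd (nat_lit 78) (nat_lit 76) (nat_lit 0) (XT.lf (nat_lit 0) (nat_lit 470297853) (nat_lit 152) (nat_lit 36551658692) (nat_lit 76) (nat_lit 31085508447) (nat_lit 180) (nat_lit 5) (nat_lit 182) (nat_lit 5) (nat_lit 181) (nat_lit 4) (nat_lit 427) (nat_lit 353) (nat_lit 240)) (XT.lf (nat_lit 0) (nat_lit 8484698689) (nat_lit 76) (nat_lit 13958082604) (nat_lit 152) (nat_lit 47882923578) (nat_lit 179) (nat_lit 5) (nat_lit 180) (nat_lit 5) (nat_lit 181) (nat_lit 4) (nat_lit 428) (nat_lit 353) (nat_lit 239))) (XT.nd (nat_lit 78) (nat_lit 76) (nat_lit 0) (XT.lf (nat_lit 0) (nat_lit 46294017164)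 (nat_lit 152) (nat_lit 15770570452) (nat_lit 0) (nat_lit 10551262714) (nat_lit 179) (nat_lit 5) (nat_lit 181) (nat_lit 4) (nat_lit 179) (nat_lit 4) (nat_lit 429) (nat_lit 353) (nat_lit 238)) (XT.lf (nat_lit 0) (nat_lit 33427098786) (nat_lit 76) (nat_lit 38652655242) (nat_lit 76) (nat_lit 2903652075) (nat_lit 178) (nat_lit 4) (nat_lit 179) (nat_lit 5) (nat_lit 179) (nat_lit 4) (nat_lit 430) (nat_lit 353) (nat_lit 237)))) (XT.nd (nat_lit 156) (nat_lit 228) (nat_lit 0) (XT.nd (nat_lit 78) (nat_lit 0) (nat_lit 0) (XT.lf (nat_lit 0) (nat_lit 8074310876) (nat_lit 76) (nat_lit 13305818490) (nat_lit 152) (nat_lit 56052843738) (nat_lit 176) (nat_lit 5) (nat_lit 177) (nat_lit 5) (nat_lit 178) (nat_lit 4) (nat_lit 431) (nat_lit 353) (nat_lit 236)) (XT.lf (nat_lit 0) (nat_lit 47694868491) (nat_lit 152) (nat_lit 18624919242) (nat_lit 0) (nat_lit 13637133161) (nat_lit 176) (nat_lit 5) (nat_lit 178) (nat_lit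 4) (nat_lit 176) (nat_lit 4) (nat_lit 432) (nat_lit 353) (nat_lit 235))) (XT.nd (nat_lit 78) (nat_lit 152) (nat_lit 0) (XT.lf (nat_lit 0) (nat_lit 35548615900) (nat_lit 76) (nat_lit 40541542816) (nat_lit 76) (nat_lit 6478666651) (nat_lit 175) (nat_lit 4) (nat_lit 176) (nat_lit 5) (nat_lit 176) (nat_lit 4) (nat_lit 433) (nat_lit 353) (nat_lit 234)) (XT.lf (nat_lit 0) (nat_lit 7684591984) (nat_lit 76) (nat_lit 12682414933) (nat_lit 152) (nat_lit 64906629151) (nat_lit 173) (nat_lit 5) (nat_lit 174) (nat_lit 5) (nat_lit 175) (nat_lit 4) (nat_lit 434) (nat_lit 353) (nat_lit 233))))))))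
noncomputable def xc171 : XT := (XT.nd (nat_lit 1248) (nat_lit 1216) (nat_lit 0) (XT.nd (nat_lit 624) (nat_lit 608) (nat_lit 0) (XT.nd (nat_lit 312) (nat_lit 304) (nat_lit 0) (XT.nd (nat_lit 156) (nat_lit 152) (nat_lit 0) (XT.nd (nat_lit 78) (nat_lit 76) (nat_lit 0) (XT.lf (nat_lit 0) (nat_lit 49396997697) (nat_lit 152) (nat_lit 21711331746) (nat_lit 0) (nat_lit 16947059520) (nat_lit 173) (nat_lit 5) (nat_lit 175) (nat_lit 4) (nat_lit 173) (nat_lit 4) (nat_lit 435) (nat_lit 353) (nat_lit 232)) (XT.lf (nat_lit 0) (nat_lit 37951255861) (nat_lit 76) (nat_lit 42719757465) (nat_lit 76) (nat_lit 10265589910) (nat_lit 172) (nat_lit 4) (nat_lit 173) (nat_lit 5) (nat_lit 173) (nat_lit 4) (nat_lit 436) (nat_lit 353) (nat_lit 231))) (XT.nd (nat_lit 78) (nat_lit 0) (nat_lit 0) (XT.lf (nat_lit 0) (nat_lit 7314358029) (nat_lit 76) (nat_lit 12086887611) (nat_lit 152) (nat_lit 74521372754) (nat_lit 170) (nat_lit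 5) (nat_lit 171) (nat_lit 5) (nat_lit 172) (nat_lit 4) (nat_lit 437) (nat_lit 353) (nat_lit 230)) (XT.lf (nat_lit 0) (nat_lit 51424053462) (nat_lit 152) (nat_lit 25056752556) (nat_lit 0) (nat_lit 20507832792) (nat_lit 170) (nat_lit 5) (nat_lit 172) (nat_lit 4) (nat_lit 170) (nat_lit 4) (nat_lit 438) (nat_lit 353) (nat_lit 229)))) (XT.nd (nat_lit 156) (nat_lit 76) (nat_lit 0) (XT.nd (nat_lit 78) (nat_lit 152) (nat_lit 0) (XT.lf (nat_lit 0) (nat_lit 40660529674) (nat_lit 76) (nat_lit 45212928957) (nat_lit 76) (nat_lit 14293228768) (nat_lit 169) (nat_lit 4) (nat_lit 170) (nat_lit 5) (nat_lit 170) (nat_lit 4) (nat_lit 439) (nat_lit 353) (nat_lit 228)) (XT.lf (nat_lit 0) (nat_lit 6962516819) (nat_lit 76) (nat_lit 11518229930) (nat_lit 152) (nat_lit 84981792220) (nat_lit 167) (nat_lit 5) (nat_lit 168) (nat_lit 5) (nat_lit 169) (nat_lit 4) (nat_lit 440) (nat_lit 353) (nat_lit 227))) (XT.nd (nat_lit 78)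 (nat_lit 76) (nat_lit 0) (XT.lf (nat_lit 0) (nat_lit 53802403779) (nat_lit 152) (nat_lit 28690688630) (nat_lit 0) (nat_lit 24348908499) (nat_lit 167) (nat_lit 5) (nat_lit 169) (nat_lit 4) (nat_lit 167) (nat_lit 4) (nat_lit 441) (nat_lit 353) (nat_lit 226)) (XT.lf (nat_lit 0) (nat_lit 43704768838) (nat_lit 76) (nat_lit 48049411578) (nat_lit 76) (nat_lit 18593053689) (nat_lit 166) (nat_lit 4) (nat_lit 167) (nat_lit 5) (nat_lit 167) (nat_lit 4) (nat_lit 442) (nat_lit 353) (nat_lit 225))))) (XT.nd (nat_lit 312) (nat_lit 228) (nat_lit 0) (XT.nd (nat_lit 156) (nat_lit 228) (nat_lit 0) (XT.nd (nat_lit 78) (nat_lit 0) (nat_lit 0) (XT.lf (nat_lit 0) (nat_lit 6628057310) (nat_lit 76) (nat_lit 10975426345) (nat_lit 152) (nat_lit 96381014788) (nat_lit 164) (nat_lit 5) (nat_lit 165) (nat_lit 5) (nat_lit 166) (nat_lit 4) (nat_lit 443) (nat_lit 353) (nat_lit 224)) (XT.lf (nat_lit 0) (nat_lit 56561409320) (nat_lit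 152) (nat_lit 32645490131) (nat_lit 0) (nat_lit 28502665840) (nat_lit 164) (nat_lit 5) (nat_lit 166) (nat_lit 4) (nat_lit 164) (nat_lit 4) (nat_lit 444) (nat_lit 353) (nat_lit 223))) (XT.nd (nat_lit 78) (nat_lit 152) (nat_lit 0) (XT.lf (nat_lit 0) (nat_lit 47115396096) (nat_lit 76) (nat_lit 51260575463) (nat_lit 76) (nat_lit 23199476907) (nat_lit 163) (nat_lit 4) (nat_lit 164) (nat_lit 5) (nat_lit 164) (nat_lit 4) (nat_lit 445) (nat_lit 353) (nat_lit 222)) (XT.lf (nat_lit 0) (nat_lit 6310040573) (nat_lit 76) (nat_lit 10457462869) (nat_lit 152) (nat_lit 108821444144) (nat_lit 161) (nat_lit 5) (nat_lit 162) (nat_lit 5) (nat_lit 163) (nat_lit 4) (nat_lit 446) (nat_lit 353) (nat_lit 221)))) (XT.nd (nat_lit 156) (nat_lit 152) (nat_lit 0) (XT.nd (nat_lit 78) (nat_lit 76) (nat_lit 0) (XT.lf (nat_lit 0) (nat_lit 59733723541) (nat_lit 152) (nat_lit 36956657646) (nat_lit 0) (nat_lit 33004697247) (nat_lit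 161) (nat_lit 5) (nat_lit 163) (nat_lit 4) (nat_lit 161) (nat_lit 4) (nat_lit 447) (nat_lit 353) (nat_lit 220)) (XT.lf (nat_lit 0) (nat_lit 50927226332) (nat_lit 76) (nat_lit 54881124257) (nat_lit 76) (nat_lit 28150160437) (nat_lit 160) (nat_lit 4) (nat_lit 161) (nat_lit 5) (nat_lit 161) (nat_lit 4) (nat_lit 448) (nat_lit 353) (nat_lit 219))) (XT.nd (nat_lit 78) (nat_lit 0) (nat_lit 0) (XT.lf (nat_lit 0) (nat_lit 6007592111) (nat_lit 76) (nat_lit 9963335300) (nat_lit 152) (nat_lit 122415717358) (nat_lit 158) (nat_lit 5) (nat_lit 159) (nat_lit 5) (nat_lit 160) (nat_lit 4) (nat_lit 449) (nat_lit 353) (nat_lit 218)) (XT.lf (nat_lit 0) (nat_lit 63355622582) (nat_lit 152) (nat_lit 41663178873) (nat_lit 0) (nat_lit 37894130699) (nat_lit 158) (nat_lit 5) (nat_lit 160) (nat_lit 4) (nat_lit 158) (nat_lit 4) (nat_lit 450) (nat_lit 353) (nat_lit 217)))))) (XT.nd (nat_lit 624) (nat_lit 532) (nat_lit 0) (XT.nd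 (nat_lit 312) (nat_lit 380) (nat_lit 0) (XT.nd (nat_lit 156) (nat_lit 76) (nat_lit 0) (XT.nd (nat_lit 78) (nat_lit 152) (nat_lit 0) (XT.lf (nat_lit 0) (nat_lit 55178800306) (nat_lit 76) (nat_lit 58949442488) (nat_lit 76) (nat_lit 33486356597) (nat_lit 157) (nat_lit 4) (nat_lit 158) (nat_lit 5) (nat_lit 158) (nat_lit 4) (nat_lit 451) (nat_lit 353) (nat_lit 216)) (XT.lf (nat_lit 0) (nat_lit 5719895293) (nat_lit 76) (nat_lit 9492055578) (nat_lit 152) (nat_lit 137287760817) (nat_lit 155) (nat_lit 5) (nat_lit 156) (nat_lit 5) (nat_lit 157) (nat_lit 4) (nat_lit 452) (nat_lit 353) (nat_lit 215))) (XT.nd (nat_lit 78) (nat_lit 76) (nat_lit 0) (XT.lf (nat_lit 0) (nat_lit 67467368315) (nat_lit 152) (nat_lit 46807898115) (nat_lit 0) (nat_lit 43213987547) (nat_lit 155) (nat_lit 5) (nat_lit 157) (nat_lit 4) (nat_lit 155) (nat_lit 4) (nat_lit 453) (nat_lit 353) (nat_lit 214)) (XT.lf (nat_lit 0) (nat_lit 59912754307)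 (nat_lit 76) (nat_lit 63507976269) (nat_lit 76) (nat_lit 39253284107) (nat_lit 154) (nat_lit 4) (nat_lit 155) (nat_lit 5) (nat_lit 155) (nat_lit 4) (nat_lit 454) (nat_lit 353) (nat_lit 213)))) (XT.nd (nat_lit 156) (nat_lit 228) (nat_lit 0) (XT.nd (nat_lit 78) (nat_lit 0) (nat_lit 0) (XT.lf (nat_lit 0) (nat_lit 5446185723) (nat_lit 76) (nat_lit 9042656633) (nat_lit 152) (nat_lit 153573955024) (nat_lit 152) (nat_lit 5) (nat_lit 153) (nat_lit 5) (nat_lit 154) (nat_lit 4) (nat_lit 455) (nat_lit 353) (nat_lit 212)) (XT.lf (nat_lit 0) (nat_lit 72113608127) (nat_lit 152) (nat_lit 52437922223) (nat_lit 0) (nat_lit 49011579001) (nat_lit 152) (nat_lit 5) (nat_lit 154) (nat_lit 4) (nat_lit 152) (nat_lit 4) (nat_lit 456) (nat_lit 353) (nat_lit 211))) (XT.nd (nat_lit 78) (nat_lit 152) (nat_lit 0) (XT.lf (nat_lit 0) (nat_lit 65176229104) (nat_lit 76) (nat_lit 68603651213) (nat_lit 76) (nat_lit 45500543200) (nat_lit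 151) (nat_lit 4) (nat_lit 152) (nat_lit 5) (nat_lit 152) (nat_lit 4) (nat_lit 457) (nat_lit 353) (nat_lit 210)) (XT.lf (nat_lit 0) (nat_lit 5185746387) (nat_lit 76) (nat_lit 8614196008) (nat_lit 152) (nat_lit 171424419241) (nat_lit 149) (nat_lit 5) (nat_lit 150) (nat_lit 5) (nat_lit 151) (nat_lit 4) (nat_lit 458) (nat_lit 353) (nat_lit 209))))) (XT.nd (nat_lit 312) (nat_lit 304) (nat_lit 0) (XT.nd (nat_lit 156) (nat_lit 152) (nat_lit 0) (XT.nd (nat_lit 78) (nat_lit 76) (nat_lit 0) (XT.lf (nat_lit 0) (nat_lit 77343815402) (nat_lit 152) (nat_lit 58605066922) (nat_lit 0) (nat_lit 55338944824) (nat_lit 149) (nat_lit 5) (nat_lit 151) (nat_lit 4) (nat_lit 149) (nat_lit 4) (nat_lit 459) (nat_lit 353) (nat_lit 208)) (XT.lf (nat_lit 0) (nat_lit 71021322043) (nat_lit 76) (nat_lit 74288331744) (nat_lit 76) (nat_lit 52282573563) (nat_lit 148) (nat_lit 4) (nat_lit 149) (nat_lit 5) (nat_lit 149) (nat_lit 4)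 (nat_lit 460) (nat_lit 353) (nat_lit 207))) (XT.nd (nat_lit 78) (nat_lit 0) (nat_lit 0) (XT.lf (nat_lit 0) (nat_lit 4937903448) (nat_lit 76) (nat_lit 8205758486) (nat_lit 152) (nat_lit 191004428079) (nat_lit 146) (nat_lit 5) (nat_lit 147) (nat_lit 5) (nat_lit 148) (nat_lit 4) (nat_lit 461) (nat_lit 353) (nat_lit 206)) (XT.lf (nat_lit 0) (nat_lit 83212774991) (nat_lit 152) (nat_lit 65366347867) (nat_lit 0) (nat_lit 62253338229) (nat_lit 146) (nat_lit 5) (nat_lit 148) (nat_lit 4) (nat_lit 146) (nat_lit 4) (nat_lit 462) (nat_lit 353) (nat_lit 205)))) (XT.nd (nat_lit 156) (nat_lit 76) (nat_lit 0) (XT.nd (nat_lit 78) (nat_lit 152) (nat_lit 0) (XT.lf (nat_lit 0) (nat_lit 77505586502) (nat_lit 76) (nat_lit 80619326374) (nat_lit 76) (nat_lit 59659159379) (nat_lit 145) (nat_lit 4) (nat_lit 146) (nat_lit 5) (nat_lit 146) (nat_lit 4) (nat_lit 463) (nat_lit 353) (nat_lit 204)) (XT.lf (nat_lit 0) (nat_lit 4702022588)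 (nat_lit 76) (nat_lit 7816457920) (nat_lit 152) (nat_lit 212495973433) (nat_lit 143) (nat_lit 5) (nat_lit 144) (nat_lit 5) (nat_lit 145) (nat_lit 4) (nat_lit 464) (nat_lit 353) (nat_lit 203))) (XT.nd (nat_lit 78) (nat_lit 76) (nat_lit 0) (XT.lf (nat_lit 0) (nat_lit 89781118408) (nat_lit 152) (nat_lit 72784521147) (nat_lit 0) (nat_lit 69817761456) (nat_lit 143) (nat_lit 5) (nat_lit 145) (nat_lit 4) (nat_lit 143) (nat_lit 4) (nat_lit 465) (nat_lit 353) (nat_lit 202)) (XT.lf (nat_lit 0) (nat_lit 84692583429) (nat_lit 76) (nat_lit 87659943884) (nat_lit 76) (nat_lit 67695986168) (nat_lit 142) (nat_lit 4) (nat_lit 143) (nat_lit 5) (nat_lit 143) (nat_lit 4) (nat_lit 466) (nat_lit 353) (nat_lit 201)))))))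
noncomputable def xc172 : XT := (XT.nd (nat_lit 1248) (nat_lit 684) (nat_lit 0) (XT.nd (nat_lit 624) (nat_lit 684) (nat_lit 0) (XT.nd (nat_lit 312) (nat_lit 228) (nat_lit 0) (XT.nd (nat_lit 156) (nat_lit 228) (nat_lit 0) (XT.nd (nat_lit 78) (nat_lit 0) (nat_lit 0) (XT.lf (nat_lit 0) (nat_lit 4477505812) (nat_lit 76) (nat_lit 7445438424) (nat_lit 152) (nat_lit 236099486559) (nat_lit 140) (nat_lit 5) (nat_lit 141) (nat_lit 5) (nat_lit 142) (nat_lit 4) (nat_lit 467) (nat_lit 353) (nat_lit 200)) (XT.lf (nat_lit 0) (nat_lit 97115913931) (nat_lit 152) (nat_lit 80928678445) (nat_lit 0) (nat_lit 78101556993) (nat_lit 140) (nat_lit 5) (nat_lit 142) (nat_lit 4) (nat_lit 140) (nat_lit 4) (nat_lit 468) (nat_lit 353) (nat_lit 199))) (XT.nd (nat_lit 78) (nat_lit 152) (nat_lit 0) (XT.lf (nat_lit 0) (nat_lit 92652490154) (nat_lit 76) (nat_lit 95480105856) (nat_lit 76) (nat_lit 76465254668) (nat_lit 139) (nat_lit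 4) (nat_lit 140) (nat_lit 5) (nat_lit 140) (nat_lit 4) (nat_lit 469) (nat_lit 353) (nat_lit 198)) (XT.lf (nat_lit 0) (nat_lit 4263788628) (nat_lit 76) (nat_lit 7091875045) (nat_lit 152) (nat_lit 262035736631) (nat_lit 137) (nat_lit 5) (nat_lit 138) (nat_lit 5) (nat_lit 139) (nat_lit 4) (nat_lit 470) (nat_lit 353) (nat_lit 197)))) (XT.nd (nat_lit 156) (nat_lit 152) (nat_lit 0) (XT.nd (nat_lit 78) (nat_lit 76) (nat_lit 0) (XT.lf (nat_lit 0) (nat_lit 105291317298) (nat_lit 152) (nat_lit 89874902548) (nat_lit 0) (nat_lit 87181059961) (nat_lit 137) (nat_lit 5) (nat_lit 139) (nat_lit 4) (nat_lit 137) (nat_lit 4) (nat_lit 471) (nat_lit 353) (nat_lit 196)) (XT.lf (nat_lit 0) (nat_lit 101462772272) (nat_lit 76) (nat_lit 104157021481) (nat_lit 76) (nat_lit 86046357523) (nat_lit 136) (nat_lit 4) (nat_lit 137) (nat_lit 5) (nat_lit 137) (nat_lit 4) (nat_lit 472) (nat_lit 353) (nat_lit 195))) (XT.nd (nat_lit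 78) (nat_lit 0) (nat_lit 0) (XT.lf (nat_lit 0) (nat_lit 4060337567) (nat_lit 76) (nat_lit 6754974034) (nat_lit 152) (nat_lit 290547923792) (nat_lit 134) (nat_lit 5) (nat_lit 135) (nat_lit 5) (nat_lit 136) (nat_lit 4) (nat_lit 473) (nat_lit 353) (nat_lit 194)) (XT.lf (nat_lit 0) (nat_lit 114389289263) (nat_lit 152) (nat_lit 99706989502) (nat_lit 0) (nat_lit 97140317802) (nat_lit 134) (nat_lit 5) (nat_lit 136) (nat_lit 4) (nat_lit 134) (nat_lit 4) (nat_lit 474) (nat_lit 353) (nat_lit 193))))) (XT.nd (nat_lit 312) (nat_lit 380) (nat_lit 0) (XT.nd (nat_lit 156) (nat_lit 76) (nat_lit 0) (XT.nd (nat_lit 78) (nat_lit 152) (nat_lit 0) (XT.lf (nat_lit 0) (nat_lit 111208924939) (nat_lit 76) (nat_lit 113775931167) (nat_lit 76) (nat_lit 96526625178) (nat_lit 133) (nat_lit 4) (nat_lit 134) (nat_lit 5) (nat_lit 134) (nat_lit 4) (nat_lit 475) (nat_lit 353) (nat_lit 192)) (XT.lf (nat_lit 0) (nat_lit 3866647965)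 (nat_lit 76) (nat_lit 6433972792) (nat_lit 152) (nat_lit 321903986590) (nat_lit 131) (nat_lit 5) (nat_lit 132) (nat_lit 5) (nat_lit 133) (nat_lit 4) (nat_lit 476) (nat_lit 353) (nat_lit 191))) (XT.nd (nat_lit 78) (nat_lit 76) (nat_lit 0) (XT.lf (nat_lit 0) (nat_lit 124500386917) (nat_lit 152) (nat_lit 110517244288) (nat_lit 0) (nat_lit 108071884046) (nat_lit 131) (nat_lit 5) (nat_lit 133) (nat_lit 4) (nat_lit 131) (nat_lit 4) (nat_lit 477) (nat_lit 353) (nat_lit 190)) (XT.lf (nat_lit 0) (nat_lit 121985290651) (nat_lit 76) (nat_lit 124430926110) (nat_lit 76) (nat_lit 108002148022) (nat_lit 130) (nat_lit 4) (nat_lit 131) (nat_lit 5) (nat_lit 131) (nat_lit 4) (nat_lit 478) (nat_lit 353) (nat_lit 189)))) (XT.nd (nat_lit 156) (nat_lit 228) (nat_lit 0) (XT.nd (nat_lit 78) (nat_lit 0) (nat_lit 0) (XT.lf (nat_lit 0) (nat_lit 3682241993) (nat_lit 76) (nat_lit 6128139564) (nat_lit 152) (nat_lit 356399145743)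 (nat_lit 128) (nat_lit 5) (nat_lit 129) (nat_lit 5) (nat_lit 130) (nat_lit 4) (nat_lit 479) (nat_lit 353) (nat_lit 188)) (XT.lf (nat_lit 0) (nat_lit 135724636342) (nat_lit 152) (nat_lit 122407357647) (nat_lit 0) (nat_lit 120077693646) (nat_lit 128) (nat_lit 5) (nat_lit 130) (nat_lit 4) (nat_lit 128) (nat_lit 4) (nat_lit 480) (nat_lit 353) (nat_lit 187))) (XT.nd (nat_lit 78) (nat_lit 152) (nat_lit 0) (XT.lf (nat_lit 0) (nat_lit 133895961268) (nat_lit 76) (nat_lit 136225851691) (nat_lit 76) (nat_lit 120578682574) (nat_lit 127) (nat_lit 4) (nat_lit 128) (nat_lit 5) (nat_lit 128) (nat_lit 4) (nat_lit 481) (nat_lit 353) (nat_lit 186)) (XT.lf (nat_lit 0) (nat_lit 3506666880) (nat_lit 76) (nat_lit 5836772942) (nat_lit 152) (nat_lit 394358708421) (nat_lit 125) (nat_lit 5) (nat_lit 126) (nat_lit 5) (nat_lit 127) (nat_lit 4) (nat_lit 482) (nat_lit 353) (nat_lit 185)))))) (XT.nd (nat_lit 624) (nat_lit 152)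 (nat_lit 0) (XT.nd (nat_lit 312) (nat_lit 304) (nat_lit 0) (XT.nd (nat_lit 156) (nat_lit 152) (nat_lit 0) (XT.nd (nat_lit 78) (nat_lit 76) (nat_lit 0) (XT.lf (nat_lit 0) (nat_lit 148172494969) (nat_lit 152) (nat_lit 135489372403) (nat_lit 0) (nat_lit 133270028180) (nat_lit 125) (nat_lit 5) (nat_lit 127) (nat_lit 4) (nat_lit 125) (nat_lit 4) (nat_lit 483) (nat_lit 353) (nat_lit 184)) (XT.lf (nat_lit 0) (nat_lit 147055772874) (nat_lit 76) (nat_lit 149275303375) (nat_lit 76) (nat_lit 134372650307) (nat_lit 124) (nat_lit 4) (nat_lit 125) (nat_lit 5) (nat_lit 125) (nat_lit 4) (nat_lit 484) (nat_lit 353) (nat_lit 183))) (XT.nd (nat_lit 78) (nat_lit 0) (nat_lit 0) (XT.lf (nat_lit 0) (nat_lit 3339493310) (nat_lit 76) (nat_lit 5559201218) (nat_lit 152) (nat_lit 436141159736) (nat_lit 122) (nat_lit 5) (nat_lit 123) (nat_lit 5) (nat_lit 124) (nat_lit 4) (nat_lit 485) (nat_lit 353) (nat_lit 182)) (XT.lf (nat_lit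 0) (nat_lit 161965912855) (nat_lit 152) (nat_lit 149886748506) (nat_lit 0) (nat_lit 147772580060) (nat_lit 122) (nat_lit 5) (nat_lit 124) (nat_lit 4) (nat_lit 122) (nat_lit 4) (nat_lit 486) (nat_lit 353) (nat_lit 181)))) (XT.nd (nat_lit 156) (nat_lit 76) (nat_lit 0) (XT.nd (nat_lit 78) (nat_lit 152) (nat_lit 0) (XT.lf (nat_lit 0) (nat_lit 161591402937) (nat_lit 76) (nat_lit 163705724634) (nat_lit 76) (nat_lit 149512238588) (nat_lit 121) (nat_lit 4) (nat_lit 122) (nat_lit 5) (nat_lit 122) (nat_lit 4) (nat_lit 487) (nat_lit 353) (nat_lit 180)) (XT.lf (nat_lit 0) (nat_lit 3180313972) (nat_lit 76) (nat_lit 5294781623) (nat_lit 152) (nat_lit 482141570851) (nat_lit 119) (nat_lit 5) (nat_lit 120) (nat_lit 5) (nat_lit 121) (nat_lit 4) (nat_lit 488) (nat_lit 353) (nat_lit 179))) (XT.nd (nat_lit 78) (nat_lit 76) (nat_lit 0) (XT.lf (nat_lit 0) (nat_lit 177239503006) (nat_lit 152) (nat_lit 165735536959) (nat_lit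 0) (nat_lit 163721625860) (nat_lit 119) (nat_lit 5) (nat_lit 121) (nat_lit 4) (nat_lit 119) (nat_lit 4) (nat_lit 489) (nat_lit 353) (nat_lit 178)) (XT.lf (nat_lit 0) (nat_lit 177642580233) (nat_lit 76) (nat_lit 179656617412) (nat_lit 76) (nat_lit 166138614186) (nat_lit 118) (nat_lit 4) (nat_lit 119) (nat_lit 5) (nat_lit 119) (nat_lit 4) (nat_lit 490) (nat_lit 353) (nat_lit 177))))) (XT.nd (nat_lit 42588) (nat_lit 0) (nat_lit 14212) (XT.nd (nat_lit 42432) (nat_lit 0) (nat_lit 14896) (XT.nd (nat_lit 78) (nat_lit 0) (nat_lit 0) (XT.lf (nat_lit 0) (nat_lit 3028742234) (nat_lit 76) (nat_lit 5042899490) (nat_lit 152) (nat_lit 532795356176) (nat_lit 116) (nat_lit 5) (nat_lit 117) (nat_lit 5) (nat_lit 118) (nat_lit 4) (nat_lit 491) (nat_lit 353) (nat_lit 176)) (XT.lf (nat_lit 0) (nat_lit 194141831953) (nat_lit 152) (nat_lit 183185673814) (nat_lit 0) (nat_lit 181267319896) (nat_lit 116) (nat_lit 5) (nat_lit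 118) (nat_lit 4) (nat_lit 116) (nat_lit 4) (nat_lit 492) (nat_lit 353) (nat_lit 175))) (XT.nd (nat_lit 78) (nat_lit 0) (nat_lit 0) (XT.lf (nat_lit 0) (nat_lit 3545855768) (nat_lit 684) (nat_lit 404719582) (nat_lit 684) (nat_lit 404719582) (nat_lit 312) (nat_lit 3) (nat_lit 321) (nat_lit 3) (nat_lit 321) (nat_lit 5) (nat_lit 354) (nat_lit 354) (nat_lit 312)) (XT.lf (nat_lit 76) (nat_lit 3663097774) (nat_lit 0) (nat_lit 4614334584) (nat_lit 684) (nat_lit 600500855) (nat_lit 313) (nat_lit 5) (nat_lit 312) (nat_lit 3) (nat_lit 321) (nat_lit 5) (nat_lit 355) (nat_lit 354) (nat_lit 311)))) (XT.nd (nat_lit 156) (nat_lit 0) (nat_lit 76) (XT.nd (nat_lit 78) (nat_lit 0) (nat_lit 76) (XT.lf (nat_lit 0) (nat_lit 405310766) (nat_lit 684) (nat_lit 708227250) (nat_lit 760) (nat_lit 7942163766) (nat_lit 303) (nat_lit 5) (nat_lit 312) (nat_lit 3) (nat_lit 313) (nat_lit 5) (nat_lit 356) (nat_lit 354) (nat_lit 310))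 (XT.lf (nat_lit 0) (nat_lit 1487616565) (nat_lit 684) (nat_lit 5171192275) (nat_lit 760) (nat_lit 2580738507) (nat_lit 304) (nat_lit 5) (nat_lit 313) (nat_lit 5) (nat_lit 314) (nat_lit 5) (nat_lit 357) (nat_lit 354) (nat_lit 309))) (XT.nd (nat_lit 78) (nat_lit 0) (nat_lit 76) (XT.lf (nat_lit 0) (nat_lit 2597737671) (nat_lit 684) (nat_lit 378195597) (nat_lit 760) (nat_lit 6457966922) (nat_lit 304) (nat_lit 5) (nat_lit 313) (nat_lit 5) (nat_lit 314) (nat_lit 5) (nat_lit 358) (nat_lit 354) (nat_lit 308)) (XT.nd (nat_lit 78) (nat_lit 0) (nat_lit 0) (XT.lf (nat_lit 0) (nat_lit 3799279278) (nat_lit 684) (nat_lit 4879570494) (nat_lit 760) (nat_lit 957325182) (nat_lit 305) (nat_lit 5) (nat_lit 314) (nat_lit 5) (nat_lit 315) (nat_lit 5) (nat_lit 359) (nat_lit 354) (nat_lit 307)) (XT.lf (nat_lit 76) (nat_lit 234937758) (nat_lit 0) (nat_lit 4833209312) (nat_lit 760) (nat_lit 4780053928) (nat_lit 306) (nat_lit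 5) (nat_lit 305) (nat_lit 5) (nat_lit 315) (nat_lit 5) (nat_lit 360) (nat_lit 354) (nat_lit 306))))))))
noncomputable def xc173 : XT := (XT.nd (nat_lit 2496) (nat_lit 2964) (nat_lit 0) (XT.nd (nat_lit 1248) (nat_lit 2584) (nat_lit 0) (XT.nd (nat_lit 624) (nat_lit 1748) (nat_lit 0) (XT.nd (nat_lit 312) (nat_lit 1216) (nat_lit 0) (XT.nd (nat_lit 156) (nat_lit 608) (nat_lit 0) (XT.nd (nat_lit 78) (nat_lit 0) (nat_lit 76) (XT.lf (nat_lit 76) (nat_lit 5738449053) (nat_lit 0) (nat_lit 694830952) (nat_lit 760) (nat_lit 3635907254) (nat_lit 306) (nat_lit 5) (nat_lit 305) (nat_lit 5) (nat_lit 315) (nat_lit 5) (nat_lit 361) (nat_lit 354) (nat_lit 305)) (XT.lf (nat_lit 76) (nat_lit 1159030006) (nat_lit 0) (nat_lit 6735488861) (nat_lit 760) (nat_lit 2405311501) (nat_lit 307) (nat_lit 5) (nat_lit 306) (nat_lit 5) (nat_lit 316) (nat_lit 5) (nat_lit 362) (nat_lit 354) (nat_lit 304))) (XT.nd (nat_lit 78) (nat_lit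 684) (nat_lit 0) (XT.lf (nat_lit 76) (nat_lit 7025484057) (nat_lit 0) (nat_lit 2442326693) (nat_lit 760) (nat_lit 1072245330) (nat_lit 307) (nat_lit 5) (nat_lit 306) (nat_lit 5) (nat_lit 316) (nat_lit 5) (nat_lit 363) (nat_lit 354) (nat_lit 303)) (XT.lf (nat_lit 0) (nat_lit 343901867) (nat_lit 760) (nat_lit 8395924379) (nat_lit 76) (nat_lit 2050865744) (nat_lit 297) (nat_lit 5) (nat_lit 307) (nat_lit 5) (nat_lit 298) (nat_lit 5) (nat_lit 364) (nat_lit 354) (nat_lit 302)))) (XT.nd (nat_lit 156) (nat_lit 456) (nat_lit 0) (XT.nd (nat_lit 78) (nat_lit 760) (nat_lit 0) (XT.lf (nat_lit 0) (nat_lit 1852910933) (nat_lit 760) (nat_lit 2425652161) (nat_lit 76) (nat_lit 6771513263) (nat_lit 297) (nat_lit 5) (nat_lit 307) (nat_lit 5) (nat_lit 298) (nat_lit 5) (nat_lit 365) (nat_lit 354) (nat_lit 301)) (XT.lf (nat_lit 0) (nat_lit 3465762945) (nat_lit 836) (nat_lit 7395747035) (nat_lit 76) (nat_lit 459500337)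 (nat_lit 287) (nat_lit 5) (nat_lit 298) (nat_lit 5) (nat_lit 288) (nat_lit 5) (nat_lit 366) (nat_lit 354) (nat_lit 300))) (XT.nd (nat_lit 78) (nat_lit 456) (nat_lit 0) (XT.lf (nat_lit 0) (nat_lit 5232155920) (nat_lit 836) (nat_lit 1033713291) (nat_lit 76) (nat_lit 5335976847) (nat_lit 287) (nat_lit 5) (nat_lit 298) (nat_lit 5) (nat_lit 288) (nat_lit 5) (nat_lit 367) (nat_lit 354) (nat_lit 299)) (XT.lf (nat_lit 0) (nat_lit 5796321439) (nat_lit 456) (nat_lit 1343905786) (nat_lit 532) (nat_lit 4753828426) (nat_lit 281) (nat_lit 5) (nat_lit 287) (nat_lit 5) (nat_lit 288) (nat_lit 5) (nat_lit 368) (nat_lit 354) (nat_lit 298))))) (XT.nd (nat_lit 312) (nat_lit 912) (nat_lit 0) (XT.nd (nat_lit 156) (nat_lit 456) (nat_lit 0) (XT.nd (nat_lit 78) (nat_lit 0) (nat_lit 0) (XT.lf (nat_lit 0) (nat_lit 730272041) (nat_lit 380) (nat_lit 8466427677) (nat_lit 456) (nat_lit 3001526125) (nat_lit 276) (nat_lit 5) (nat_lit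 281) (nat_lit 5) (nat_lit 282) (nat_lit 5) (nat_lit 369) (nat_lit 354) (nat_lit 297)) (XT.lf (nat_lit 0) (nat_lit 8052358761) (nat_lit 380) (nat_lit 3393821429) (nat_lit 456) (nat_lit 1066915138) (nat_lit 276) (nat_lit 5) (nat_lit 281) (nat_lit 5) (nat_lit 282) (nat_lit 5) (nat_lit 370) (nat_lit 354) (nat_lit 296))) (XT.nd (nat_lit 78) (nat_lit 0) (nat_lit 0) (XT.lf (nat_lit 0) (nat_lit 976955693) (nat_lit 456) (nat_lit 9933236369) (nat_lit 76) (nat_lit 1930593506) (nat_lit 270) (nat_lit 5) (nat_lit 276) (nat_lit 5) (nat_lit 271) (nat_lit 5) (nat_lit 371) (nat_lit 354) (nat_lit 295)) (XT.lf (nat_lit 0) (nat_lit 3186953208) (nat_lit 456) (nat_lit 2492993982) (nat_lit 76) (nat_lit 7499049185) (nat_lit 270) (nat_lit 5) (nat_lit 276) (nat_lit 5) (nat_lit 271) (nat_lit 5) (nat_lit 372) (nat_lit 354) (nat_lit 294)))) (XT.nd (nat_lit 156) (nat_lit 608) (nat_lit 0) (XT.nd (nat_lit 78) (nat_lit 0) (nat_lit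 0) (XT.lf (nat_lit 0) (nat_lit 5459069026) (nat_lit 304) (nat_lit 102535699) (nat_lit 380) (nat_lit 7969805291) (nat_lit 266) (nat_lit 5) (nat_lit 270) (nat_lit 5) (nat_lit 271) (nat_lit 5) (nat_lit 373) (nat_lit 354) (nat_lit 293)) (XT.lf (nat_lit 0) (nat_lit 8157533534) (nat_lit 380) (nat_lit 130364723) (nat_lit 76) (nat_lit 5608418846) (nat_lit 266) (nat_lit 5) (nat_lit 271) (nat_lit 5) (nat_lit 267) (nat_lit 5) (nat_lit 374) (nat_lit 354) (nat_lit 292))) (XT.nd (nat_lit 78) (nat_lit 304) (nat_lit 0) (XT.lf (nat_lit 0) (nat_lit 8443174758) (nat_lit 304) (nat_lit 2544825052) (nat_lit 380) (nat_lit 3286232685) (nat_lit 262) (nat_lit 5) (nat_lit 266) (nat_lit 5) (nat_lit 267) (nat_lit 5) (nat_lit 375) (nat_lit 354) (nat_lit 291)) (XT.lf (nat_lit 0) (nat_lit 2778616762) (nat_lit 304) (nat_lit 11253412153) (nat_lit 380) (nat_lit 635412764) (nat_lit 258) (nat_lit 5) (nat_lit 262) (nat_lit 5) (nat_lit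 263) (nat_lit 5) (nat_lit 376) (nat_lit 354) (nat_lit 290)))))) (XT.nd (nat_lit 624) (nat_lit 1140) (nat_lit 0) (XT.nd (nat_lit 312) (nat_lit 836) (nat_lit 0) (XT.nd (nat_lit 156) (nat_lit 228) (nat_lit 0) (XT.nd (nat_lit 78) (nat_lit 304) (nat_lit 0) (XT.lf (nat_lit 0) (nat_lit 2193638375) (nat_lit 380) (nat_lit 3166229784) (nat_lit 76) (nat_lit 9713044490) (nat_lit 257) (nat_lit 5) (nat_lit 262) (nat_lit 5) (nat_lit 258) (nat_lit 5) (nat_lit 377) (nat_lit 354) (nat_lit 289)) (XT.lf (nat_lit 0) (nat_lit 5226962364) (nat_lit 380) (nat_lit 9363978751) (nat_lit 76) (nat_lit 902986506) (nat_lit 253) (nat_lit 5) (nat_lit 258) (nat_lit 5) (nat_lit 254) (nat_lit 5) (nat_lit 378) (nat_lit 354) (nat_lit 288))) (XT.nd (nat_lit 78) (nat_lit 228) (nat_lit 0) (XT.lf (nat_lit 0) (nat_lit 8528609244) (nat_lit 380) (nat_lit 55344142) (nat_lit 76) (nat_lit 7346207121) (nat_lit 253) (nat_lit 5) (nat_lit 258) (nat_lit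 5) (nat_lit 254) (nat_lit 5) (nat_lit 379) (nat_lit 354) (nat_lit 287)) (XT.lf (nat_lit 0) (nat_lit 10006470845) (nat_lit 228) (nat_lit 2120610318) (nat_lit 304) (nat_lit 4254536740) (nat_lit 250) (nat_lit 5) (nat_lit 253) (nat_lit 5) (nat_lit 254) (nat_lit 5) (nat_lit 380) (nat_lit 354) (nat_lit 286)))) (XT.nd (nat_lit 156) (nat_lit 456) (nat_lit 0) (XT.nd (nat_lit 78) (nat_lit 76) (nat_lit 0) (XT.lf (nat_lit 0) (nat_lit 3731195401) (nat_lit 304) (nat_lit 12282388561) (nat_lit 380) (nat_lit 836658843) (nat_lit 246) (nat_lit 5) (nat_lit 250) (nat_lit 5) (nat_lit 251) (nat_lit 5) (nat_lit 381) (nat_lit 354) (nat_lit 285)) (XT.lf (nat_lit 0) (nat_lit 2784831153) (nat_lit 380) (nat_lit 2885527216) (nat_lit 76) (nat_lit 11663752021) (nat_lit 245) (nat_lit 5) (nat_lit 250) (nat_lit 5) (nat_lit 246) (nat_lit 5) (nat_lit 382) (nat_lit 354) (nat_lit 284))) (XT.nd (nat_lit 78) (nat_lit 228) (nat_lit 0)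 (XT.lf (nat_lit 0) (nat_lit 6684757417) (nat_lit 304) (nat_lit 9785720904) (nat_lit 76) (nat_lit 1364733300) (nat_lit 242) (nat_lit 5) (nat_lit 246) (nat_lit 5) (nat_lit 243) (nat_lit 5) (nat_lit 383) (nat_lit 354) (nat_lit 283)) (XT.lf (nat_lit 0) (nat_lit 1184500505) (nat_lit 228) (nat_lit 9734172948) (nat_lit 304) (nat_lit 7435744787) (nat_lit 239) (nat_lit 5) (nat_lit 242) (nat_lit 5) (nat_lit 243) (nat_lit 5) (nat_lit 384) (nat_lit 354) (nat_lit 282))))) (XT.nd (nat_lit 312) (nat_lit 608) (nat_lit 0) (XT.nd (nat_lit 156) (nat_lit 228) (nat_lit 0) (XT.nd (nat_lit 78) (nat_lit 304) (nat_lit 0) (XT.lf (nat_lit 0) (nat_lit 13011322825) (nat_lit 228) (nat_lit 2497122343) (nat_lit 304) (nat_lit 3383932027) (nat_lit 239) (nat_lit 5) (nat_lit 242) (nat_lit 5) (nat_lit 243) (nat_lit 5) (nat_lit 385) (nat_lit 354) (nat_lit 281)) (XT.lf (nat_lit 0) (nat_lit 998633056) (nat_lit 304) (nat_lit 13410274669)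 (nat_lit 76) (nat_lit 5039845739) (nat_lit 235) (nat_lit 5) (nat_lit 239) (nat_lit 5) (nat_lit 236) (nat_lit 5) (nat_lit 386) (nat_lit 354) (nat_lit 280))) (XT.nd (nat_lit 78) (nat_lit 228) (nat_lit 0) (XT.lf (nat_lit 0) (nat_lit 5608260676) (nat_lit 304) (nat_lit 1399042726) (nat_lit 76) (nat_lit 13016788600) (nat_lit 235) (nat_lit 5) (nat_lit 239) (nat_lit 5) (nat_lit 236) (nat_lit 5) (nat_lit 387) (nat_lit 354) (nat_lit 279)) (XT.lf (nat_lit 0) (nat_lit 10623939068) (nat_lit 304) (nat_lit 9082085777) (nat_lit 76) (nat_lit 913394152) (nat_lit 232) (nat_lit 5) (nat_lit 236) (nat_lit 5) (nat_lit 233) (nat_lit 5) (nat_lit 388) (nat_lit 354) (nat_lit 278)))) (XT.nd (nat_lit 156) (nat_lit 380) (nat_lit 0) (XT.nd (nat_lit 78) (nat_lit 76) (nat_lit 0) (XT.lf (nat_lit 0) (nat_lit 3905483870) (nat_lit 152) (nat_lit 12165629407) (nat_lit 228) (nat_lit 5164363470) (nat_lit 230) (nat_lit 5) (nat_lit 232)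 (nat_lit 5) (nat_lit 233) (nat_lit 5) (nat_lit 389) (nat_lit 354) (nat_lit 277)) (XT.lf (nat_lit 0) (nat_lit 48501483) (nat_lit 228) (nat_lit 4048167326) (nat_lit 76) (nat_lit 17778877254) (nat_lit 229) (nat_lit 5) (nat_lit 232) (nat_lit 5) (nat_lit 230) (nat_lit 5) (nat_lit 390) (nat_lit 354) (nat_lit 276))) (XT.nd (nat_lit 78) (nat_lit 152) (nat_lit 0) (XT.lf (nat_lit 0) (nat_lit 5560228085) (nat_lit 304) (nat_lit 12500663464) (nat_lit 76) (nat_lit 4471905467) (nat_lit 226) (nat_lit 5) (nat_lit 230) (nat_lit 5) (nat_lit 227) (nat_lit 5) (nat_lit 391) (nat_lit 354) (nat_lit 275)) (XT.lf (nat_lit 0) (nat_lit 1694466758) (nat_lit 152) (nat_lit 9798464116) (nat_lit 228) (nat_lit 11722710150) (nat_lit 224) (nat_lit 5) (nat_lit 226) (nat_lit 5) (nat_lit 227) (nat_lit 5) (nat_lit 392) (nat_lit 354) (nat_lit 274))))))) (XT.nd (nat_lit 1248) (nat_lit 1368) (nat_lit 0) (XT.nd (nat_lit 624) (nat_lit 684)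 (nat_lit 0) (XT.nd (nat_lit 312) (nat_lit 532) (nat_lit 0) (XT.nd (nat_lit 156) (nat_lit 152) (nat_lit 0) (XT.nd (nat_lit 78) (nat_lit 228) (nat_lit 0) (XT.lf (nat_lit 0) (nat_lit 17004821524) (nat_lit 152) (nat_lit 911653736) (nat_lit 228) (nat_lit 6006441649) (nat_lit 224) (nat_lit 5) (nat_lit 226) (nat_lit 5) (nat_lit 227) (nat_lit 5) (nat_lit 393) (nat_lit 354) (nat_lit 273)) (XT.lf (nat_lit 0) (nat_lit 247623533) (nat_lit 228) (nat_lit 16128337951) (nat_lit 76) (nat_lit 8277006322) (nat_lit 221) (nat_lit 5) (nat_lit 224) (nat_lit 5) (nat_lit 222) (nat_lit 5) (nat_lit 394) (nat_lit 354) (nat_lit 272))) (XT.nd (nat_lit 78) (nat_lit 152) (nat_lit 0) (XT.lf (nat_lit 0) (nat_lit 6729838215) (nat_lit 228) (nat_lit 577264888) (nat_lit 76) (nat_lit 18101629729) (nat_lit 221) (nat_lit 5) (nat_lit 224) (nat_lit 5) (nat_lit 222) (nat_lit 5) (nat_lit 395) (nat_lit 354) (nat_lit 271)) (XT.lf (nat_lit 0)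 (nat_lit 13812436482) (nat_lit 228) (nat_lit 9984295728) (nat_lit 76) (nat_lit 2391740257) (nat_lit 219) (nat_lit 5) (nat_lit 222) (nat_lit 5) (nat_lit 220) (nat_lit 5) (nat_lit 396) (nat_lit 354) (nat_lit 270)))) (XT.nd (nat_lit 156) (nat_lit 304) (nat_lit 0) (XT.nd (nat_lit 78) (nat_lit 76) (nat_lit 0) (XT.lf (nat_lit 0) (nat_lit 6912521243) (nat_lit 152) (nat_lit 14558547923) (nat_lit 228) (nat_lit 5525034692) (nat_lit 217) (nat_lit 5) (nat_lit 219) (nat_lit 5) (nat_lit 220) (nat_lit 5) (nat_lit 397) (nat_lit 354) (nat_lit 269)) (XT.lf (nat_lit 0) (nat_lit 1771315685) (nat_lit 228) (nat_lit 2890554124) (nat_lit 76) (nat_lit 23173134401) (nat_lit 216) (nat_lit 5) (nat_lit 219) (nat_lit 5) (nat_lit 217) (nat_lit 5) (nat_lit 398) (nat_lit 354) (nat_lit 268))) (XT.nd (nat_lit 78) (nat_lit 152) (nat_lit 0) (XT.lf (nat_lit 0) (nat_lit 9569321653) (nat_lit 228) (nat_lit 13251247005) (nat_lit 76) (nat_lit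 5874626430) (nat_lit 214) (nat_lit 5) (nat_lit 217) (nat_lit 5) (nat_lit 215) (nat_lit 5) (nat_lit 399) (nat_lit 354) (nat_lit 267)) (XT.lf (nat_lit 0) (nat_lit 5265118791) (nat_lit 152) (nat_lit 12685730262) (nat_lit 228) (nat_lit 11637865401) (nat_lit 212) (nat_lit 5) (nat_lit 214) (nat_lit 5) (nat_lit 215) (nat_lit 5) (nat_lit 400) (nat_lit 354) (nat_lit 266))))) (XT.nd (nat_lit 312) (nat_lit 380) (nat_lit 0) (XT.nd (nat_lit 156) (nat_lit 152) (nat_lit 0) (XT.nd (nat_lit 78) (nat_lit 152) (nat_lit 0) (XT.lf (nat_lit 0) (nat_lit 25142019273) (nat_lit 152) (nat_lit 1819395524) (nat_lit 228) (nat_lit 3554996892) (nat_lit 212) (nat_lit 5) (nat_lit 214) (nat_lit 5) (nat_lit 215) (nat_lit 5) (nat_lit 401) (nat_lit 354) (nat_lit 265)) (XT.lf (nat_lit 0) (nat_lit 5147400185) (nat_lit 152) (nat_lit 16732866249) (nat_lit 76) (nat_lit 9587715201) (nat_lit 210) (nat_lit 5) (nat_lit 212) (nat_lit 5) (nat_lit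 211) (nat_lit 5) (nat_lit 402) (nat_lit 354) (nat_lit 264))) (XT.nd (nat_lit 78) (nat_lit 0) (nat_lit 0) (XT.lf (nat_lit 0) (nat_lit 3574187855) (nat_lit 152) (nat_lit 10755530323) (nat_lit 228) (nat_lit 18126284356) (nat_lit 208) (nat_lit 5) (nat_lit 210) (nat_lit 5) (nat_lit 211) (nat_lit 5) (nat_lit 403) (nat_lit 354) (nat_lit 263)) (XT.lf (nat_lit 0) (nat_lit 24259871637) (nat_lit 228) (nat_lit 8045658662) (nat_lit 76) (nat_lit 1173458200) (nat_lit 208) (nat_lit 5) (nat_lit 211) (nat_lit 5) (nat_lit 209) (nat_lit 4) (nat_lit 404) (nat_lit 354) (nat_lit 262)))) (XT.nd (nat_lit 156) (nat_lit 76) (nat_lit 0) (XT.nd (nat_lit 78) (nat_lit 152) (nat_lit 0) (XT.lf (nat_lit 0) (nat_lit 518516952) (nat_lit 152) (nat_lit 20459248872) (nat_lit 76) (nat_lit 13555784901) (nat_lit 206) (nat_lit 5) (nat_lit 208) (nat_lit 5) (nat_lit 207) (nat_lit 5) (nat_lit 405) (nat_lit 354) (nat_lit 261)) (XT.lf (nat_lit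 0) (nat_lit 1826968464) (nat_lit 152) (nat_lit 8760207205) (nat_lit 228) (nat_lit 25038410441) (nat_lit 204) (nat_lit 5) (nat_lit 206) (nat_lit 5) (nat_lit 207) (nat_lit 5) (nat_lit 406) (nat_lit 354) (nat_lit 260))) (XT.nd (nat_lit 78) (nat_lit 76) (nat_lit 0) (XT.lf (nat_lit 0) (nat_lit 21561995259) (nat_lit 228) (nat_lit 10910091359) (nat_lit 76) (nat_lit 4280000250) (nat_lit 204) (nat_lit 5) (nat_lit 207) (nat_lit 5) (nat_lit 205) (nat_lit 4) (nat_lit 407) (nat_lit 354) (nat_lit 259)) (XT.lf (nat_lit 0) (nat_lit 13384996217) (nat_lit 76) (nat_lit 20040807891) (nat_lit 152) (nat_lit 4492096140) (nat_lit 203) (nat_lit 5) (nat_lit 204) (nat_lit 5) (nat_lit 205) (nat_lit 4) (nat_lit 408) (nat_lit 354) (nat_lit 258)))))) (XT.nd (nat_lit 624) (nat_lit 532) (nat_lit 0) (XT.nd (nat_lit 312) (nat_lit 456) (nat_lit 0) (XT.nd (nat_lit 156) (nat_lit 152) (nat_lit 0) (XT.nd (nat_lit 78) (nat_lit 0) (nat_lit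 0) (XT.lf (nat_lit 0) (nat_lit 10201044) (nat_lit 152) (nat_lit 6690508496) (nat_lit 228) (nat_lit 32427249714) (nat_lit 200) (nat_lit 5) (nat_lit 202) (nat_lit 5) (nat_lit 203) (nat_lit 5) (nat_lit 409) (nat_lit 354) (nat_lit 257)) (XT.lf (nat_lit 0) (nat_lit 18826657811) (nat_lit 228) (nat_lit 13963187004) (nat_lit 76) (nat_lit 7578771040) (nat_lit 200) (nat_lit 5) (nat_lit 203) (nat_lit 5) (nat_lit 201) (nat_lit 4) (nat_lit 410) (nat_lit 354) (nat_lit 256))) (XT.nd (nat_lit 78) (nat_lit 76) (nat_lit 0) (XT.lf (nat_lit 0) (nat_lit 12725020773) (nat_lit 76) (nat_lit 19130597111) (nat_lit 152) (nat_lit 9800851682) (nat_lit 199) (nat_lit 5) (nat_lit 200) (nat_lit 5) (nat_lit 201) (nat_lit 4) (nat_lit 411) (nat_lit 354) (nat_lit 255)) (XT.lf (nat_lit 0) (nat_lit 2675164785) (nat_lit 152) (nat_lit 1829543555) (nat_lit 76) (nat_lit 38490597479) (nat_lit 198) (nat_lit 5) (nat_lit 200) (nat_lit 5) (nat_lit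 199) (nat_lit 5) (nat_lit 412) (nat_lit 354) (nat_lit 254)))) (XT.nd (nat_lit 156) (nat_lit 228) (nat_lit 0) (XT.nd (nat_lit 78) (nat_lit 76) (nat_lit 0) (XT.lf (nat_lit 0) (nat_lit 16040019940) (nat_lit 228) (nat_lit 17230665511) (nat_lit 76) (nat_lit 11092644410) (nat_lit 196) (nat_lit 5) (nat_lit 199) (nat_lit 5) (nat_lit 197) (nat_lit 4) (nat_lit 413) (nat_lit 354) (nat_lit 253)) (XT.lf (nat_lit 0) (nat_lit 12100478712) (nat_lit 76) (nat_lit 18255908504) (nat_lit 152) (nat_lit 15429204424) (nat_lit 195) (nat_lit 5) (nat_lit 196) (nat_lit 5) (nat_lit 197) (nat_lit 4) (nat_lit 414) (nat_lit 354) (nat_lit 252))) (XT.nd (nat_lit 78) (nat_lit 228) (nat_lit 0) (XT.lf (nat_lit 0) (nat_lit 43475973701) (nat_lit 76) (nat_lit 2193620683) (nat_lit 152) (nat_lit 1595321045) (nat_lit 195) (nat_lit 5) (nat_lit 196) (nat_lit 5) (nat_lit 197) (nat_lit 4) (nat_lit 415) (nat_lit 354) (nat_lit 251)) (XT.lf (nat_lit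 0) (nat_lit 13187054416) (nat_lit 228) (nat_lit 20740333669) (nat_lit 76) (nat_lit 14847191102) (nat_lit 192) (nat_lit 5) (nat_lit 195) (nat_lit 5) (nat_lit 193) (nat_lit 4) (nat_lit 416) (nat_lit 354) (nat_lit 250))))) (XT.nd (nat_lit 312) (nat_lit 228) (nat_lit 0) (XT.nd (nat_lit 156) (nat_lit 228) (nat_lit 0) (XT.nd (nat_lit 78) (nat_lit 0) (nat_lit 0) (XT.lf (nat_lit 0) (nat_lit 11508972477) (nat_lit 76) (nat_lit 17416437217) (nat_lit 152) (nat_lit 21419485085) (nat_lit 191) (nat_lit 5) (nat_lit 192) (nat_lit 5) (nat_lit 193) (nat_lit 4) (nat_lit 417) (nat_lit 354) (nat_lit 249)) (XT.lf (nat_lit 0) (nat_lit 45796091653) (nat_lit 152) (nat_lit 5909755790) (nat_lit 0) (nat_lit 270608261) (nat_lit 191) (nat_lit 5) (nat_lit 193) (nat_lit 4) (nat_lit 191) (nat_lit 4) (nat_lit 418) (nat_lit 354) (nat_lit 248))) (XT.nd (nat_lit 78) (nat_lit 76) (nat_lit 0) (XT.lf (nat_lit 0) (nat_lit 10251456920)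 (nat_lit 152) (nat_lit 24522368735) (nat_lit 76) (nat_lit 18870849175) (nat_lit 189) (nat_lit 5) (nat_lit 191) (nat_lit 5) (nat_lit 190) (nat_lit 4) (nat_lit 419) (nat_lit 354) (nat_lit 247)) (XT.lf (nat_lit 0) (nat_lit 10948344610) (nat_lit 76) (nat_lit 16611647058) (nat_lit 152) (nat_lit 27818106199) (nat_lit 188) (nat_lit 5) (nat_lit 189) (nat_lit 5) (nat_lit 190) (nat_lit 4) (nat_lit 420) (nat_lit 354) (nat_lit 246)))) (XT.nd (nat_lit 156) (nat_lit 76) (nat_lit 0) (XT.nd (nat_lit 78) (nat_lit 152) (nat_lit 0) (XT.lf (nat_lit 0) (nat_lit 46184646424) (nat_lit 152) (nat_lit 8197659887) (nat_lit 0) (nat_lit 2793351082) (nat_lit 188) (nat_lit 5) (nat_lit 190) (nat_lit 4) (nat_lit 188) (nat_lit 4) (nat_lit 421) (nat_lit 354) (nat_lit 245)) (XT.lf (nat_lit 0) (nat_lit 7215538425) (nat_lit 152) (nat_lit 28609620070) (nat_lit 76) (nat_lit 23195132764) (nat_lit 186) (nat_lit 5) (nat_lit 188) (nat_lit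 5) (nat_lit 187) (nat_lit 4) (nat_lit 422) (nat_lit 354) (nat_lit 244))) (XT.nd (nat_lit 78) (nat_lit 0) (nat_lit 0) (XT.lf (nat_lit 0) (nat_lit 10416643988) (nat_lit 76) (nat_lit 15840825105) (nat_lit 152) (nat_lit 34675957509) (nat_lit 185) (nat_lit 5) (nat_lit 186) (nat_lit 5) (nat_lit 187) (nat_lit 4) (nat_lit 423) (nat_lit 354) (nat_lit 243)) (XT.lf (nat_lit 0) (nat_lit 46814963183) (nat_lit 152) (nat_lit 10636880767) (nat_lit 0) (nat_lit 5462201417) (nat_lit 185) (nat_lit 5) (nat_lit 187) (nat_lit 4) (nat_lit 185) (nat_lit 4) (nat_lit 424) (nat_lit 354) (nat_lit 242))))))))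
noncomputable def xc174 : XT := (XT.nd (nat_lit 1248) (nat_lit 1292) (nat_lit 0) (XT.nd (nat_lit 624) (nat_lit 532) (nat_lit 0) (XT.nd (nat_lit 312) (nat_lit 304) (nat_lit 0) (XT.nd (nat_lit 156) (nat_lit 152) (nat_lit 0) (XT.nd (nat_lit 78) (nat_lit 76) (nat_lit 0) (XT.lf (nat_lit 0) (nat_lit 4060099076) (nat_lit 152) (nat_lit 33037932538) (nat_lit 76) (nat_lit 27854879309) (nat_lit 183) (nat_lit 5) (nat_lit 185) (nat_lit 5) (nat_lit 184) (nat_lit 4) (nat_lit 425) (nat_lit 354) (nat_lit 241)) (XT.lf (nat_lit 0) (nat_lit 9912097628) (nat_lit 76) (nat_lit 15103125978) (nat_lit 152) (nat_lit 42048849233) (nat_lit 182) (nat_lit 5) (nat_lit 183) (nat_lit 5) (nat_lit 184) (nat_lit 4) (nat_lit 426) (nat_lit 354) (nat_lit 240))) (XT.nd (nat_lit 78) (nat_lit 152) (nat_lit 0) (XT.lf (nat_lit 0) (nat_lit 47702754570) (nat_lit 152) (nat_lit 13247437983) (nat_lit 0) (nat_lit 8296367788) (nat_lit 182) (nat_lit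 5) (nat_lit 184) (nat_lit 4) (nat_lit 182) (nat_lit 4) (nat_lit 427) (nat_lit 354) (nat_lit 239)) (XT.lf (nat_lit 0) (nat_lit 764283179) (nat_lit 152) (nat_lit 37846495473) (nat_lit 76) (nat_lit 32888536068) (nat_lit 180) (nat_lit 5) (nat_lit 182) (nat_lit 5) (nat_lit 181) (nat_lit 4) (nat_lit 428) (nat_lit 354) (nat_lit 238)))) (XT.nd (nat_lit 156) (nat_lit 228) (nat_lit 0) (XT.nd (nat_lit 78) (nat_lit 0) (nat_lit 0) (XT.lf (nat_lit 0) (nat_lit 9433087096) (nat_lit 76) (nat_lit 14397607654) (nat_lit 152) (nat_lit 49998006644) (nat_lit 179) (nat_lit 5) (nat_lit 180) (nat_lit 5) (nat_lit 181) (nat_lit 4) (nat_lit 429) (nat_lit 354) (nat_lit 237)) (XT.lf (nat_lit 0) (nat_lit 48865678418) (nat_lit 152) (nat_lit 16051091193) (nat_lit 0) (nat_lit 11317025217) (nat_lit 179) (nat_lit 5) (nat_lit 181) (nat_lit 4) (nat_lit 179) (nat_lit 4) (nat_lit 430) (nat_lit 354) (nat_lit 236))) (XT.nd (nat_lit 78)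 (nat_lit 152) (nat_lit 0) (XT.lf (nat_lit 0) (nat_lit 35598267834) (nat_lit 76) (nat_lit 40338001581) (nat_lit 76) (nat_lit 2783680609) (nat_lit 178) (nat_lit 4) (nat_lit 179) (nat_lit 5) (nat_lit 179) (nat_lit 4) (nat_lit 431) (nat_lit 354) (nat_lit 235)) (XT.lf (nat_lit 0) (nat_lit 8978128716) (nat_lit 76) (nat_lit 13723260339) (nat_lit 152) (nat_lit 58590620043) (nat_lit 176) (nat_lit 5) (nat_lit 177) (nat_lit 5) (nat_lit 178) (nat_lit 4) (nat_lit 432) (nat_lit 354) (nat_lit 234))))) (XT.nd (nat_lit 312) (nat_lit 304) (nat_lit 0) (XT.nd (nat_lit 156) (nat_lit 152) (nat_lit 0) (XT.nd (nat_lit 78) (nat_lit 76) (nat_lit 0) (XT.lf (nat_lit 0) (nat_lit 50323538429) (nat_lit 152) (nat_lit 19071550596) (nat_lit 0) (nat_lit 14547481588) (nat_lit 176) (nat_lit 5) (nat_lit 178) (nat_lit 4) (nat_lit 176) (nat_lit 4) (nat_lit 433) (nat_lit 354) (nat_lit 233)) (XT.lf (nat_lit 0) (nat_lit 37802844939) (nat_lit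 76) (nat_lit 42331576835) (nat_lit 76) (nat_lit 6550857105) (nat_lit 175) (nat_lit 4) (nat_lit 176) (nat_lit 5) (nat_lit 176) (nat_lit 4) (nat_lit 434) (nat_lit 354) (nat_lit 232))) (XT.nd (nat_lit 78) (nat_lit 0) (nat_lit 0) (XT.lf (nat_lit 0) (nat_lit 8545856920) (nat_lit 76) (nat_lit 13079029663) (nat_lit 152) (nat_lit 67900454823) (nat_lit 173) (nat_lit 5) (nat_lit 174) (nat_lit 5) (nat_lit 175) (nat_lit 4) (nat_lit 435) (nat_lit 354) (nat_lit 231)) (XT.lf (nat_lit 0) (nat_lit 52098502300) (nat_lit 152) (nat_lit 22334704364) (nat_lit 0) (nat_lit 18013369011) (nat_lit 173) (nat_lit 5) (nat_lit 175) (nat_lit 4) (nat_lit 173) (nat_lit 4) (nat_lit 436) (nat_lit 354) (nat_lit 230)))) (XT.nd (nat_lit 156) (nat_lit 76) (nat_lit 0) (XT.nd (nat_lit 78) (nat_lit 152) (nat_lit 0) (XT.lf (nat_lit 0) (nat_lit 40303557882) (nat_lit 76) (nat_lit 44628729405) (nat_lit 76) (nat_lit 10539759946) (nat_lit 172)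 (nat_lit 4) (nat_lit 173) (nat_lit 5) (nat_lit 173) (nat_lit 4) (nat_lit 437) (nat_lit 354) (nat_lit 229)) (XT.lf (nat_lit 0) (nat_lit 8135010215) (nat_lit 76) (nat_lit 12463835233) (nat_lit 152) (nat_lit 78008526990) (nat_lit 170) (nat_lit 5) (nat_lit 171) (nat_lit 5) (nat_lit 172) (nat_lit 4) (nat_lit 438) (nat_lit 354) (nat_lit 228))) (XT.nd (nat_lit 78) (nat_lit 76) (nat_lit 0) (XT.lf (nat_lit 0) (nat_lit 54215339780) (nat_lit 152) (nat_lit 25868865555) (nat_lit 0) (nat_lit 21742861234) (nat_lit 170) (nat_lit 5) (nat_lit 172) (nat_lit 4) (nat_lit 170) (nat_lit 4) (nat_lit 439) (nat_lit 354) (nat_lit 227)) (XT.lf (nat_lit 0) (nat_lit 43127172325) (nat_lit 76) (nat_lit 47256332673) (nat_lit 76) (nat_lit 14780698100) (nat_lit 169) (nat_lit 4) (nat_lit 170) (nat_lit 5) (nat_lit 170) (nat_lit 4) (nat_lit 440) (nat_lit 354) (nat_lit 226)))))) (XT.nd (nat_lit 624) (nat_lit 684) (nat_lit 0) (XT.nd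 (nat_lit 312) (nat_lit 228) (nat_lit 0) (XT.nd (nat_lit 156) (nat_lit 228) (nat_lit 0) (XT.nd (nat_lit 78) (nat_lit 0) (nat_lit 0) (XT.lf (nat_lit 0) (nat_lit 7744419301) (nat_lit 76) (nat_lit 11876585388) (nat_lit 152) (nat_lit 89003850198) (nat_lit 167) (nat_lit 5) (nat_lit 168) (nat_lit 5) (nat_lit 169) (nat_lit 4) (nat_lit 441) (nat_lit 354) (nat_lit 225)) (XT.lf (nat_lit 0) (nat_lit 56701683265) (nat_lit 152) (nat_lit 29705041145) (nat_lit 0) (nat_lit 25766918577) (nat_lit 167) (nat_lit 5) (nat_lit 169) (nat_lit 4) (nat_lit 167) (nat_lit 4) (nat_lit 442) (nat_lit 354) (nat_lit 224))) (XT.nd (nat_lit 78) (nat_lit 152) (nat_lit 0) (XT.lf (nat_lit 0) (nat_lit 46303412068) (nat_lit 76) (nat_lit 50244131107) (nat_lit 76) (nat_lit 19306769949) (nat_lit 166) (nat_lit 4) (nat_lit 167) (nat_lit 5) (nat_lit 167) (nat_lit 4) (nat_lit 443) (nat_lit 354) (nat_lit 223)) (XT.lf (nat_lit 0) (nat_lit 7372996986)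 (nat_lit 76) (nat_lit 11316188854) (nat_lit 152) (nat_lit 100984261125) (nat_lit 164) (nat_lit 5) (nat_lit 165) (nat_lit 5) (nat_lit 166) (nat_lit 4) (nat_lit 444) (nat_lit 354) (nat_lit 222)))) (XT.nd (nat_lit 156) (nat_lit 152) (nat_lit 0) (XT.nd (nat_lit 78) (nat_lit 76) (nat_lit 0) (XT.lf (nat_lit 0) (nat_lit 59588313694) (nat_lit 152) (nat_lit 33877225961) (nat_lit 0) (nat_lit 30119562205) (nat_lit 164) (nat_lit 5) (nat_lit 166) (nat_lit 4) (nat_lit 164) (nat_lit 4) (nat_lit 445) (nat_lit 354) (nat_lit 221)) (XT.lf (nat_lit 0) (nat_lit 49865244276) (nat_lit 76) (nat_lit 53625044155) (nat_lit 76) (nat_lit 24154156543) (nat_lit 163) (nat_lit 4) (nat_lit 164) (nat_lit 5) (nat_lit 164) (nat_lit 4) (nat_lit 446) (nat_lit 354) (nat_lit 220))) (XT.nd (nat_lit 78) (nat_lit 0) (nat_lit 0) (XT.lf (nat_lit 0) (nat_lit 7019729592) (nat_lit 76) (nat_lit 10781563874) (nat_lit 152) (nat_lit 114057330757)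 (nat_lit 161) (nat_lit 5) (nat_lit 162) (nat_lit 5) (nat_lit 163) (nat_lit 4) (nat_lit 447) (nat_lit 354) (nat_lit 219)) (XT.lf (nat_lit 0) (nat_lit 62909474710) (nat_lit 152) (nat_lit 38422724488) (nat_lit 0) (nat_lit 34838179908) (nat_lit 161) (nat_lit 5) (nat_lit 163) (nat_lit 4) (nat_lit 161) (nat_lit 4) (nat_lit 448) (nat_lit 354) (nat_lit 218))))) (XT.nd (nat_lit 312) (nat_lit 380) (nat_lit 0) (XT.nd (nat_lit 156) (nat_lit 76) (nat_lit 0) (XT.nd (nat_lit 78) (nat_lit 152) (nat_lit 0) (XT.lf (nat_lit 0) (nat_lit 53849196172) (nat_lit 76) (nat_lit 57435498145) (nat_lit 76) (nat_lit 29362445950) (nat_lit 160) (nat_lit 4) (nat_lit 161) (nat_lit 5) (nat_lit 161) (nat_lit 4) (nat_lit 449) (nat_lit 354) (nat_lit 217)) (XT.lf (nat_lit 0) (nat_lit 6683669598) (nat_lit 76) (nat_lit 10271645280) (nat_lit 152) (nat_lit 128341370075) (nat_lit 158) (nat_lit 5) (nat_lit 159) (nat_lit 5) (nat_lit 160) (nat_lit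 4) (nat_lit 450) (nat_lit 354) (nat_lit 216))) (XT.nd (nat_lit 78) (nat_lit 76) (nat_lit 0) (XT.lf (nat_lit 0) (nat_lit 66703218275) (nat_lit 152) (nat_lit 43382503779) (nat_lit 0) (nat_lit 39963865979) (nat_lit 158) (nat_lit 5) (nat_lit 160) (nat_lit 4) (nat_lit 158) (nat_lit 4) (nat_lit 451) (nat_lit 354) (nat_lit 215)) (XT.lf (nat_lit 0) (nat_lit 58295706069) (nat_lit 76) (nat_lit 61715789680) (nat_lit 76) (nat_lit 34974991572) (nat_lit 157) (nat_lit 4) (nat_lit 158) (nat_lit 5) (nat_lit 158) (nat_lit 4) (nat_lit 452) (nat_lit 354) (nat_lit 214)))) (XT.nd (nat_lit 156) (nat_lit 228) (nat_lit 0) (XT.nd (nat_lit 78) (nat_lit 0) (nat_lit 0) (XT.lf (nat_lit 0) (nat_lit 6363929320) (nat_lit 76) (nat_lit 9785389895) (nat_lit 152) (nat_lit 143966539517) (nat_lit 155) (nat_lit 5) (nat_lit 156) (nat_lit 5) (nat_lit 157) (nat_lit 4) (nat_lit 453) (nat_lit 354) (nat_lit 213)) (XT.lf (nat_lit 0) (nat_lit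 71011785215) (nat_lit 152) (nat_lit 48801580933) (nat_lit 0) (nat_lit 45541798104) (nat_lit 155) (nat_lit 5) (nat_lit 157) (nat_lit 4) (nat_lit 155) (nat_lit 4) (nat_lit 454) (nat_lit 354) (nat_lit 212))) (XT.nd (nat_lit 78) (nat_lit 152) (nat_lit 0) (XT.lf (nat_lit 0) (nat_lit 63249511980) (nat_lit 76) (nat_lit 66510484282) (nat_lit 76) (nat_lit 41039307698) (nat_lit 154) (nat_lit 4) (nat_lit 155) (nat_lit 5) (nat_lit 155) (nat_lit 4) (nat_lit 455) (nat_lit 354) (nat_lit 211)) (XT.lf (nat_lit 0) (nat_lit 6059675449) (nat_lit 76) (nat_lit 9321780582) (nat_lit 152) (nat_lit 161076072640) (nat_lit 152) (nat_lit 5) (nat_lit 153) (nat_lit 5) (nat_lit 154) (nat_lit 4) (nat_lit 456) (nat_lit 354) (nat_lit 210)))))))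
noncomputable def xc175 : XT := (XT.nd (nat_lit 1248) (nat_lit 1368) (nat_lit 0) (XT.nd (nat_lit 624) (nat_lit 608) (nat_lit 0) (XT.nd (nat_lit 312) (nat_lit 304) (nat_lit 0) (XT.nd (nat_lit 156) (nat_lit 152) (nat_lit 0) (XT.nd (nat_lit 78) (nat_lit 76) (nat_lit 0) (XT.lf (nat_lit 0) (nat_lit 75882024448) (nat_lit 152) (nat_lit 54729448941) (nat_lit 0) (nat_lit 51621654635) (nat_lit 152) (nat_lit 5) (nat_lit 154) (nat_lit 4) (nat_lit 152) (nat_lit 4) (nat_lit 457) (nat_lit 354) (nat_lit 209)) (XT.lf (nat_lit 0) (nat_lit 68760081414) (nat_lit 76) (nat_lit 71868854302) (nat_lit 76) (nat_lit 47607505907) (nat_lit 151) (nat_lit 4) (nat_lit 152) (nat_lit 5) (nat_lit 152) (nat_lit 4) (nat_lit 458) (nat_lit 354) (nat_lit 208))) (XT.nd (nat_lit 78) (nat_lit 0) (nat_lit 0) (XT.lf (nat_lit 0) (nat_lit 5770124320) (nat_lit 76) (nat_lit 8879829191) (nat_lit 152) (nat_lit 179827625508) (nat_lit 149) (nat_lit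 5) (nat_lit 150) (nat_lit 5) (nat_lit 151) (nat_lit 4) (nat_lit 459) (nat_lit 354) (nat_lit 207)) (XT.lf (nat_lit 0) (nat_lit 81365855034) (nat_lit 152) (nat_lit 61220545027) (nat_lit 0) (nat_lit 58258076003) (nat_lit 149) (nat_lit 5) (nat_lit 151) (nat_lit 4) (nat_lit 149) (nat_lit 4) (nat_lit 460) (nat_lit 354) (nat_lit 206)))) (XT.nd (nat_lit 156) (nat_lit 76) (nat_lit 0) (XT.nd (nat_lit 78) (nat_lit 152) (nat_lit 0) (XT.lf (nat_lit 0) (nat_lit 74882086367) (nat_lit 76) (nat_lit 77845360473) (nat_lit 76) (nat_lit 54736776360) (nat_lit 148) (nat_lit 4) (nat_lit 149) (nat_lit 5) (nat_lit 149) (nat_lit 4) (nat_lit 461) (nat_lit 354) (nat_lit 205)) (XT.lf (nat_lit 0) (nat_lit 5494537778) (nat_lit 76) (nat_lit 8458578629) (nat_lit 152) (nat_lit 200394764538) (nat_lit 146) (nat_lit 5) (nat_lit 147) (nat_lit 5) (nat_lit 148) (nat_lit 4) (nat_lit 462) (nat_lit 354) (nat_lit 204))) (XT.nd (nat_lit 78)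 (nat_lit 76) (nat_lit 0) (XT.lf (nat_lit 0) (nat_lit 87520775540) (nat_lit 152) (nat_lit 68334766010) (nat_lit 0) (nat_lit 65511174501) (nat_lit 146) (nat_lit 5) (nat_lit 148) (nat_lit 4) (nat_lit 146) (nat_lit 4) (nat_lit 463) (nat_lit 354) (nat_lit 203)) (XT.lf (nat_lit 0) (nat_lit 81675927994) (nat_lit 76) (nat_lit 84500181846) (nat_lit 76) (nat_lit 62489918463) (nat_lit 145) (nat_lit 4) (nat_lit 146) (nat_lit 5) (nat_lit 146) (nat_lit 4) (nat_lit 464) (nat_lit 354) (nat_lit 202))))) (XT.nd (nat_lit 312) (nat_lit 228) (nat_lit 0) (XT.nd (nat_lit 156) (nat_lit 228) (nat_lit 0) (XT.nd (nat_lit 78) (nat_lit 0) (nat_lit 0) (XT.lf (nat_lit 0) (nat_lit 5232219562) (nat_lit 76) (nat_lit 8057104217) (nat_lit 152) (nat_lit 222968606898) (nat_lit 143) (nat_lit 5) (nat_lit 144) (nat_lit 5) (nat_lit 145) (nat_lit 4) (nat_lit 465) (nat_lit 354) (nat_lit 201)) (XT.lf (nat_lit 0) (nat_lit 94410425683) (nat_lit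 152) (nat_lit 76138035654) (nat_lit 0) (nat_lit 73447097159) (nat_lit 143) (nat_lit 5) (nat_lit 145) (nat_lit 4) (nat_lit 143) (nat_lit 4) (nat_lit 466) (nat_lit 354) (nat_lit 200))) (XT.nd (nat_lit 78) (nat_lit 152) (nat_lit 0) (XT.lf (nat_lit 0) (nat_lit 89208315900) (nat_lit 76) (nat_lit 91899799307) (nat_lit 76) (nat_lit 70935925871) (nat_lit 142) (nat_lit 4) (nat_lit 143) (nat_lit 5) (nat_lit 143) (nat_lit 4) (nat_lit 467) (nat_lit 354) (nat_lit 199)) (XT.lf (nat_lit 0) (nat_lit 4982512109) (nat_lit 76) (nat_lit 7674514479) (nat_lit 152) (nat_lit 247759628989) (nat_lit 140) (nat_lit 5) (nat_lit 141) (nat_lit 5) (nat_lit 142) (nat_lit 4) (nat_lit 468) (nat_lit 354) (nat_lit 198)))) (XT.nd (nat_lit 156) (nat_lit 152) (nat_lit 0) (XT.nd (nat_lit 78) (nat_lit 76) (nat_lit 0) (XT.lf (nat_lit 0) (nat_lit 102105205656) (nat_lit 152) (nat_lit 84702929438) (nat_lit 0) (nat_lit 82138646942) (nat_lit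 140) (nat_lit 5) (nat_lit 142) (nat_lit 4) (nat_lit 140) (nat_lit 4) (nat_lit 469) (nat_lit 354) (nat_lit 197)) (XT.lf (nat_lit 0) (nat_lit 97552907544) (nat_lit 76) (nat_lit 100117638339) (nat_lit 76) (nat_lit 80150631326) (nat_lit 139) (nat_lit 4) (nat_lit 140) (nat_lit 5) (nat_lit 140) (nat_lit 4) (nat_lit 470) (nat_lit 354) (nat_lit 196))) (XT.nd (nat_lit 78) (nat_lit 0) (nat_lit 0) (XT.lf (nat_lit 0) (nat_lit 4744793736) (nat_lit 76) (nat_lit 7309951484) (nat_lit 152) (nat_lit 274999660182) (nat_lit 137) (nat_lit 5) (nat_lit 138) (nat_lit 5) (nat_lit 139) (nat_lit 4) (nat_lit 471) (nat_lit 354) (nat_lit 195)) (XT.lf (nat_lit 0) (nat_lit 110682959144) (nat_lit 152) (nat_lit 94109362746) (nat_lit 0) (nat_lit 91665968108) (nat_lit 137) (nat_lit 5) (nat_lit 139) (nat_lit 4) (nat_lit 137) (nat_lit 4) (nat_lit 472) (nat_lit 354) (nat_lit 194)))))) (XT.nd (nat_lit 624) (nat_lit 684) (nat_lit 0) (XT.nd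 (nat_lit 312) (nat_lit 380) (nat_lit 0) (XT.nd (nat_lit 156) (nat_lit 76) (nat_lit 0) (XT.nd (nat_lit 78) (nat_lit 152) (nat_lit 0) (XT.lf (nat_lit 0) (nat_lit 106791013801) (nat_lit 76) (nat_lit 109234777256) (nat_lit 76) (nat_lit 90217417403) (nat_lit 136) (nat_lit 4) (nat_lit 137) (nat_lit 5) (nat_lit 137) (nat_lit 4) (nat_lit 473) (nat_lit 354) (nat_lit 193)) (XT.lf (nat_lit 0) (nat_lit 4518476113) (nat_lit 76) (nat_lit 6962590823) (nat_lit 152) (nat_lit 304944080738) (nat_lit 134) (nat_lit 5) (nat_lit 135) (nat_lit 5) (nat_lit 136) (nat_lit 4) (nat_lit 474) (nat_lit 354) (nat_lit 192))) (XT.nd (nat_lit 78) (nat_lit 76) (nat_lit 0) (XT.lf (nat_lit 0) (nat_lit 120229726564) (nat_lit 152) (nat_lit 104445349042) (nat_lit 0) (nat_lit 102117302148) (nat_lit 134) (nat_lit 5) (nat_lit 136) (nat_lit 4) (nat_lit 134) (nat_lit 4) (nat_lit 475) (nat_lit 354) (nat_lit 191)) (XT.lf (nat_lit 0) (nat_lit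 117012377413) (nat_lit 76) (nat_lit 119340727733) (nat_lit 76) (nat_lit 101227999891) (nat_lit 133) (nat_lit 4) (nat_lit 134) (nat_lit 5) (nat_lit 134) (nat_lit 4) (nat_lit 476) (nat_lit 354) (nat_lit 190)))) (XT.nd (nat_lit 156) (nat_lit 228) (nat_lit 0) (XT.nd (nat_lit 78) (nat_lit 0) (nat_lit 0) (XT.lf (nat_lit 0) (nat_lit 4303002018) (nat_lit 76) (nat_lit 6631641317) (nat_lit 152) (nat_lit 337874244801) (nat_lit 131) (nat_lit 5) (nat_lit 132) (nat_lit 5) (nat_lit 133) (nat_lit 4) (nat_lit 477) (nat_lit 354) (nat_lit 189)) (XT.lf (nat_lit 0) (nat_lit 130840575786) (nat_lit 152) (nat_lit 115807835289) (nat_lit 0) (nat_lit 113589821464) (nat_lit 131) (nat_lit 5) (nat_lit 133) (nat_lit 4) (nat_lit 131) (nat_lit 4) (nat_lit 478) (nat_lit 354) (nat_lit 188))) (XT.nd (nat_lit 78) (nat_lit 152) (nat_lit 0) (XT.lf (nat_lit 0) (nat_lit 128316031701) (nat_lit 76) (nat_lit 130534295155) (nat_lit 76) (nat_lit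 113283291203) (nat_lit 130) (nat_lit 4) (nat_lit 131) (nat_lit 5) (nat_lit 131) (nat_lit 4) (nat_lit 479) (nat_lit 354) (nat_lit 187)) (XT.lf (nat_lit 0) (nat_lit 4097843303) (nat_lit 76) (nat_lit 6316344500) (nat_lit 152) (nat_lit 374100151503) (nat_lit 128) (nat_lit 5) (nat_lit 129) (nat_lit 5) (nat_lit 130) (nat_lit 4) (nat_lit 480) (nat_lit 354) (nat_lit 186))))) (XT.nd (nat_lit 312) (nat_lit 456) (nat_lit 0) (XT.nd (nat_lit 156) (nat_lit 152) (nat_lit 0) (XT.nd (nat_lit 78) (nat_lit 76) (nat_lit 0) (XT.lf (nat_lit 0) (nat_lit 142620518286) (nat_lit 152) (nat_lit 128303622574) (nat_lit 0) (nat_lit 126190548651) (nat_lit 128) (nat_lit 5) (nat_lit 130) (nat_lit 4) (nat_lit 128) (nat_lit 4) (nat_lit 481) (nat_lit 354) (nat_lit 185)) (XT.lf (nat_lit 0) (nat_lit 140811247723) (nat_lit 76) (nat_lit 142924527018) (nat_lit 76) (nat_lit 126494352012) (nat_lit 127) (nat_lit 4) (nat_lit 128) (nat_lit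 5) (nat_lit 128) (nat_lit 4) (nat_lit 482) (nat_lit 354) (nat_lit 184))) (XT.nd (nat_lit 78) (nat_lit 0) (nat_lit 0) (XT.lf (nat_lit 0) (nat_lit 3902499058) (nat_lit 76) (nat_lit 6015973944) (nat_lit 152) (nat_lit 413963389594) (nat_lit 125) (nat_lit 5) (nat_lit 126) (nat_lit 5) (nat_lit 127) (nat_lit 4) (nat_lit 483) (nat_lit 354) (nat_lit 183)) (XT.lf (nat_lit 0) (nat_lit 155685519506) (nat_lit 152) (nat_lit 142050380733) (nat_lit 0) (nat_lit 140037370100) (nat_lit 125) (nat_lit 5) (nat_lit 127) (nat_lit 4) (nat_lit 125) (nat_lit 4) (nat_lit 484) (nat_lit 354) (nat_lit 182)))) (XT.nd (nat_lit 156) (nat_lit 228) (nat_lit 0) (XT.nd (nat_lit 78) (nat_lit 152) (nat_lit 0) (XT.lf (nat_lit 0) (nat_lit 154618578899) (nat_lit 76) (nat_lit 156631758492) (nat_lit 76) (nat_lit 140983440126) (nat_lit 124) (nat_lit 4) (nat_lit 125) (nat_lit 5) (nat_lit 125) (nat_lit 4) (nat_lit 485) (nat_lit 354) (nat_lit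 181)) (XT.lf (nat_lit 0) (nat_lit 3716493948) (nat_lit 76) (nat_lit 5729834455) (nat_lit 152) (nat_lit 457840383617) (nat_lit 122) (nat_lit 5) (nat_lit 123) (nat_lit 5) (nat_lit 124) (nat_lit 4) (nat_lit 486) (nat_lit 354) (nat_lit 180))) (XT.nd (nat_lit 78) (nat_lit 228) (nat_lit 0) (XT.lf (nat_lit 0) (nat_lit 170163613088) (nat_lit 152) (nat_lit 157177766638) (nat_lit 0) (nat_lit 155260153535) (nat_lit 122) (nat_lit 5) (nat_lit 124) (nat_lit 4) (nat_lit 122) (nat_lit 4) (nat_lit 487) (nat_lit 354) (nat_lit 179)) (XT.nd (nat_lit 78) (nat_lit 152) (nat_lit 0) (XT.lf (nat_lit 0) (nat_lit 169871013034) (nat_lit 76) (nat_lit 171788765140) (nat_lit 76) (nat_lit 156885166583) (nat_lit 121) (nat_lit 4) (nat_lit 122) (nat_lit 5) (nat_lit 122) (nat_lit 4) (nat_lit 488) (nat_lit 354) (nat_lit 178)) (XT.lf (nat_lit 0) (nat_lit 3539376688) (nat_lit 76) (nat_lit 5457261179) (nat_lit 152) (nat_lit 506145972527)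 (nat_lit 119) (nat_lit 5) (nat_lit 120) (nat_lit 5) (nat_lit 121) (nat_lit 4) (nat_lit 489) (nat_lit 354) (nat_lit 177))))))))
noncomputable def xc176 : XT := (XT.nd (nat_lit 44850) (nat_lit 0) (nat_lit 6004) (XT.nd (nat_lit 43602) (nat_lit 0) (nat_lit 9804) (XT.nd (nat_lit 42978) (nat_lit 0) (nat_lit 12996) (XT.nd (nat_lit 42666) (nat_lit 0) (nat_lit 14212) (XT.nd (nat_lit 156) (nat_lit 152) (nat_lit 0) (XT.nd (nat_lit 78) (nat_lit 76) (nat_lit 0) (XT.lf (nat_lit 0) (nat_lit 186196129632) (nat_lit 152) (nat_lit 173828656822) (nat_lit 0) (nat_lit 172001980089) (nat_lit 119) (nat_lit 5) (nat_lit 121) (nat_lit 4) (nat_lit 119) (nat_lit 4) (nat_lit 490) (nat_lit 354) (nat_lit 176)) (XT.lf (nat_lit 0) (nat_lit 186715242729) (nat_lit 76) (nat_lit 188542033822) (nat_lit 76) (nat_lit 174347769919) (nat_lit 118) (nat_lit 4) (nat_lit 119) (nat_lit 5) (nat_lit 119) (nat_lit 4) (nat_lit 491) (nat_lit 354)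 (nat_lit 175))) (XT.nd (nat_lit 42432) (nat_lit 0) (nat_lit 14212) (XT.lf (nat_lit 0) (nat_lit 3370718646) (nat_lit 76) (nat_lit 5197618651) (nat_lit 152) (nat_lit 559337354824) (nat_lit 116) (nat_lit 5) (nat_lit 117) (nat_lit 5) (nat_lit 118) (nat_lit 4) (nat_lit 492) (nat_lit 354) (nat_lit 174)) (XT.lf (nat_lit 0) (nat_lit 65571792) (nat_lit 0) (nat_lit 65571792) (nat_lit 684) (nat_lit 4394886957) (nat_lit 303) (nat_lit 5) (nat_lit 303) (nat_lit 3) (nat_lit 312) (nat_lit 3) (nat_lit 355) (nat_lit 355) (nat_lit 310)))) (XT.nd (nat_lit 156) (nat_lit 0) (nat_lit 76) (XT.nd (nat_lit 78) (nat_lit 0) (nat_lit 0) (XT.lf (nat_lit 0) (nat_lit 1217835765) (nat_lit 684) (nat_lit 4437938553) (nat_lit 760) (nat_lit 3575138725) (nat_lit 303) (nat_lit 5) (nat_lit 312) (nat_lit 3) (nat_lit 313) (nat_lit 5) (nat_lit 356) (nat_lit 355) (nat_lit 309)) (XT.lf (nat_lit 76) (nat_lit 242990390) (nat_lit 0) (nat_lit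 1927504339) (nat_lit 760) (nat_lit 7250746221) (nat_lit 304) (nat_lit 5) (nat_lit 303) (nat_lit 5) (nat_lit 313) (nat_lit 5) (nat_lit 357) (nat_lit 355) (nat_lit 308))) (XT.nd (nat_lit 78) (nat_lit 0) (nat_lit 0) (XT.lf (nat_lit 0) (nat_lit 3224159488) (nat_lit 684) (nat_lit 4371937527) (nat_lit 760) (nat_lit 2022319596) (nat_lit 304) (nat_lit 5) (nat_lit 313) (nat_lit 5) (nat_lit 314) (nat_lit 5) (nat_lit 358) (nat_lit 355) (nat_lit 307)) (XT.lf (nat_lit 76) (nat_lit 630517366) (nat_lit 0) (nat_lit 3689962850) (nat_lit 760) (nat_lit 5505472201) (nat_lit 305) (nat_lit 5) (nat_lit 304) (nat_lit 5) (nat_lit 314) (nat_lit 5) (nat_lit 359) (nat_lit 355) (nat_lit 306))))) (XT.nd (nat_lit 312) (nat_lit 1368) (nat_lit 0) (XT.nd (nat_lit 156) (nat_lit 0) (nat_lit 0) (XT.nd (nat_lit 78) (nat_lit 0) (nat_lit 0) (XT.lf (nat_lit 0) (nat_lit 5504043923) (nat_lit 684) (nat_lit 4047895932) (nat_lit 760) (nat_lit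 490303812) (nat_lit 305) (nat_lit 5) (nat_lit 314) (nat_lit 5) (nat_lit 315) (nat_lit 5) (nat_lit 360) (nat_lit 355) (nat_lit 305)) (XT.lf (nat_lit 76) (nat_lit 1304988490) (nat_lit 0) (nat_lit 5475756339) (nat_lit 760) (nat_lit 3486906700) (nat_lit 306) (nat_lit 5) (nat_lit 305) (nat_lit 5) (nat_lit 315) (nat_lit 5) (nat_lit 361) (nat_lit 355) (nat_lit 304))) (XT.nd (nat_lit 78) (nat_lit 0) (nat_lit 76) (XT.lf (nat_lit 76) (nat_lit 7033279928) (nat_lit 0) (nat_lit 1111369224) (nat_lit 760) (nat_lit 2358512212) (nat_lit 306) (nat_lit 5) (nat_lit 305) (nat_lit 5) (nat_lit 315) (nat_lit 5) (nat_lit 362) (nat_lit 355) (nat_lit 303)) (XT.lf (nat_lit 76) (nat_lit 2282862641) (nat_lit 0) (nat_lit 7340875209) (nat_lit 760) (nat_lit 1124359385) (nat_lit 307) (nat_lit 5) (nat_lit 306) (nat_lit 5) (nat_lit 316) (nat_lit 5) (nat_lit 363) (nat_lit 355) (nat_lit 302)))) (XT.nd (nat_lit 156) (nat_lit 684) (nat_lit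 0) (XT.nd (nat_lit 78) (nat_lit 0) (nat_lit 76) (XT.lf (nat_lit 0) (nat_lit 201957805) (nat_lit 760) (nat_lit 2614885830) (nat_lit 836) (nat_lit 8186505092) (nat_lit 296) (nat_lit 5) (nat_lit 306) (nat_lit 5) (nat_lit 307) (nat_lit 5) (nat_lit 364) (nat_lit 355) (nat_lit 301)) (XT.lf (nat_lit 0) (nat_lit 1604401721) (nat_lit 760) (nat_lit 7709407428) (nat_lit 76) (nat_lit 1954252203) (nat_lit 297) (nat_lit 5) (nat_lit 307) (nat_lit 5) (nat_lit 298) (nat_lit 5) (nat_lit 365) (nat_lit 355) (nat_lit 300))) (XT.nd (nat_lit 78) (nat_lit 760) (nat_lit 0) (XT.lf (nat_lit 0) (nat_lit 3129656251) (nat_lit 760) (nat_lit 1493303178) (nat_lit 76) (nat_lit 6920415757) (nat_lit 297) (nat_lit 5) (nat_lit 307) (nat_lit 5) (nat_lit 298) (nat_lit 5) (nat_lit 366) (nat_lit 355) (nat_lit 299)) (XT.lf (nat_lit 0) (nat_lit 4781275328) (nat_lit 836) (nat_lit 6670027260) (nat_lit 76) (nat_lit 378647034) (nat_lit 287)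 (nat_lit 5) (nat_lit 298) (nat_lit 5) (nat_lit 288) (nat_lit 5) (nat_lit 367) (nat_lit 355) (nat_lit 298)))))) (XT.nd (nat_lit 624) (nat_lit 1292) (nat_lit 0) (XT.nd (nat_lit 312) (nat_lit 1064) (nat_lit 0) (XT.nd (nat_lit 156) (nat_lit 380) (nat_lit 0) (XT.nd (nat_lit 78) (nat_lit 456) (nat_lit 0) (XT.lf (nat_lit 0) (nat_lit 6581596321) (nat_lit 836) (nat_lit 42058834) (nat_lit 76) (nat_lit 5503891576) (nat_lit 287) (nat_lit 5) (nat_lit 298) (nat_lit 5) (nat_lit 288) (nat_lit 5) (nat_lit 368) (nat_lit 355) (nat_lit 297)) (XT.lf (nat_lit 0) (nat_lit 7112649566) (nat_lit 456) (nat_lit 1436646803) (nat_lit 532) (nat_lit 3886859176) (nat_lit 281) (nat_lit 5) (nat_lit 287) (nat_lit 5) (nat_lit 288) (nat_lit 5) (nat_lit 369) (nat_lit 355) (nat_lit 296))) (XT.nd (nat_lit 78) (nat_lit 0) (nat_lit 0) (XT.lf (nat_lit 0) (nat_lit 1828887915) (nat_lit 380) (nat_lit 8845809127) (nat_lit 456) (nat_lit 2082531977)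 (nat_lit 276) (nat_lit 5) (nat_lit 281) (nat_lit 5) (nat_lit 282) (nat_lit 5) (nat_lit 370) (nat_lit 355) (nat_lit 295)) (XT.lf (nat_lit 0) (nat_lit 9466502672) (nat_lit 380) (nat_lit 3521664944) (nat_lit 456) (nat_lit 102098558) (nat_lit 276) (nat_lit 5) (nat_lit 281) (nat_lit 5) (nat_lit 282) (nat_lit 5) (nat_lit 371) (nat_lit 355) (nat_lit 294)))) (XT.nd (nat_lit 156) (nat_lit 608) (nat_lit 0) (XT.nd (nat_lit 78) (nat_lit 0) (nat_lit 0) (XT.lf (nat_lit 0) (nat_lit 1981618100) (nat_lit 456) (nat_lit 9356024499) (nat_lit 76) (nat_lit 2097391516) (nat_lit 270) (nat_lit 5) (nat_lit 276) (nat_lit 5) (nat_lit 271) (nat_lit 5) (nat_lit 372) (nat_lit 355) (nat_lit 293)) (XT.lf (nat_lit 0) (nat_lit 4256600509) (nat_lit 456) (nat_lit 1594906835) (nat_lit 76) (nat_lit 7940923868) (nat_lit 270) (nat_lit 5) (nat_lit 276) (nat_lit 5) (nat_lit 271) (nat_lit 5) (nat_lit 373) (nat_lit 355) (nat_lit 292))) (XT.nd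 (nat_lit 78) (nat_lit 304) (nat_lit 0) (XT.lf (nat_lit 0) (nat_lit 6722595742) (nat_lit 380) (nat_lit 7425832334) (nat_lit 76) (nat_lit 15406903) (nat_lit 266) (nat_lit 5) (nat_lit 271) (nat_lit 5) (nat_lit 267) (nat_lit 5) (nat_lit 374) (nat_lit 355) (nat_lit 291)) (XT.lf (nat_lit 0) (nat_lit 890125464) (nat_lit 304) (nat_lit 8531650379) (nat_lit 380) (nat_lit 5126538835) (nat_lit 262) (nat_lit 5) (nat_lit 266) (nat_lit 5) (nat_lit 267) (nat_lit 5) (nat_lit 375) (nat_lit 355) (nat_lit 290))))) (XT.nd (nat_lit 312) (nat_lit 608) (nat_lit 0) (XT.nd (nat_lit 156) (nat_lit 304) (nat_lit 0) (XT.nd (nat_lit 78) (nat_lit 380) (nat_lit 0) (XT.lf (nat_lit 0) (nat_lit 9847747204) (nat_lit 304) (nat_lit 2507341569) (nat_lit 380) (nat_lit 2591970897) (nat_lit 262) (nat_lit 5) (nat_lit 266) (nat_lit 5) (nat_lit 267) (nat_lit 5) (nat_lit 376) (nat_lit 355) (nat_lit 289)) (XT.lf (nat_lit 0) (nat_lit 164114352)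 (nat_lit 380) (nat_lit 11441806149) (nat_lit 76) (nat_lit 3754916906) (nat_lit 257) (nat_lit 5) (nat_lit 262) (nat_lit 5) (nat_lit 258) (nat_lit 5) (nat_lit 377) (nat_lit 355) (nat_lit 288))) (XT.nd (nat_lit 78) (nat_lit 304) (nat_lit 0) (XT.lf (nat_lit 0) (nat_lit 3074695264) (nat_lit 380) (nat_lit 2342595168) (nat_lit 76) (nat_lit 10370699101) (nat_lit 257) (nat_lit 5) (nat_lit 262) (nat_lit 5) (nat_lit 258) (nat_lit 5) (nat_lit 378) (nat_lit 355) (nat_lit 287)) (XT.lf (nat_lit 0) (nat_lit 6241415295) (nat_lit 380) (nat_lit 8831961425) (nat_lit 76) (nat_lit 1157592042) (nat_lit 253) (nat_lit 5) (nat_lit 258) (nat_lit 5) (nat_lit 254) (nat_lit 5) (nat_lit 379) (nat_lit 355) (nat_lit 286)))) (XT.nd (nat_lit 156) (nat_lit 380) (nat_lit 0) (XT.nd (nat_lit 78) (nat_lit 0) (nat_lit 0) (XT.lf (nat_lit 0) (nat_lit 924050969) (nat_lit 228) (nat_lit 8762658441) (nat_lit 304) (nat_lit 7003375638) (nat_lit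 250) (nat_lit 5) (nat_lit 253) (nat_lit 5) (nat_lit 254) (nat_lit 5) (nat_lit 380) (nat_lit 355) (nat_lit 285)) (XT.lf (nat_lit 0) (nat_lit 11444017000) (nat_lit 228) (nat_lit 1987139158) (nat_lit 304) (nat_lit 3734656594) (nat_lit 250) (nat_lit 5) (nat_lit 253) (nat_lit 5) (nat_lit 254) (nat_lit 5) (nat_lit 381) (nat_lit 355) (nat_lit 284))) (XT.nd (nat_lit 78) (nat_lit 76) (nat_lit 0) (XT.lf (nat_lit 0) (nat_lit 4870505677) (nat_lit 304) (nat_lit 12626689950) (nat_lit 380) (nat_lit 161412695) (nat_lit 246) (nat_lit 5) (nat_lit 250) (nat_lit 5) (nat_lit 251) (nat_lit 5) (nat_lit 382) (nat_lit 355) (nat_lit 283)) (XT.lf (nat_lit 0) (nat_lit 3585147074) (nat_lit 380) (nat_lit 2100564038) (nat_lit 76) (nat_lit 12482051080) (nat_lit 245) (nat_lit 5) (nat_lit 250) (nat_lit 5) (nat_lit 246) (nat_lit 5) (nat_lit 383) (nat_lit 355) (nat_lit 282))))))) (XT.nd (nat_lit 1248) (nat_lit 1596) (nat_lit 0) (XT.nd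 (nat_lit 624) (nat_lit 988) (nat_lit 0) (XT.nd (nat_lit 312) (nat_lit 456) (nat_lit 0) (XT.nd (nat_lit 156) (nat_lit 304) (nat_lit 0) (XT.nd (nat_lit 78) (nat_lit 228) (nat_lit 0) (XT.lf (nat_lit 0) (nat_lit 7667085390) (nat_lit 304) (nat_lit 9332783150) (nat_lit 76) (nat_lit 1694699156) (nat_lit 242) (nat_lit 5) (nat_lit 246) (nat_lit 5) (nat_lit 243) (nat_lit 5) (nat_lit 384) (nat_lit 355) (nat_lit 281)) (XT.lf (nat_lit 0) (nat_lit 2170752171) (nat_lit 228) (nat_lit 9925557108) (nat_lit 304) (nat_lit 7144244766) (nat_lit 239) (nat_lit 5) (nat_lit 242) (nat_lit 5) (nat_lit 243) (nat_lit 5) (nat_lit 385) (nat_lit 355) (nat_lit 280))) (XT.nd (nat_lit 78) (nat_lit 304) (nat_lit 0) (XT.lf (nat_lit 0) (nat_lit 14544771482) (nat_lit 228) (nat_lit 2340717044) (nat_lit 304) (nat_lit 2921426475) (nat_lit 239) (nat_lit 5) (nat_lit 242) (nat_lit 5) (nat_lit 243) (nat_lit 5) (nat_lit 386) (nat_lit 355) (nat_lit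 279)) (XT.lf (nat_lit 0) (nat_lit 1649366265) (nat_lit 304) (nat_lit 13167005291) (nat_lit 76) (nat_lit 5574779504) (nat_lit 235) (nat_lit 5) (nat_lit 239) (nat_lit 5) (nat_lit 236) (nat_lit 5) (nat_lit 387) (nat_lit 355) (nat_lit 278)))) (XT.nd (nat_lit 156) (nat_lit 228) (nat_lit 0) (XT.nd (nat_lit 78) (nat_lit 228) (nat_lit 0) (XT.lf (nat_lit 0) (nat_lit 6460865668) (nat_lit 304) (nat_lit 598725232) (nat_lit 76) (nat_lit 13937096104) (nat_lit 235) (nat_lit 5) (nat_lit 239) (nat_lit 5) (nat_lit 236) (nat_lit 5) (nat_lit 388) (nat_lit 355) (nat_lit 277)) (XT.lf (nat_lit 0) (nat_lit 11718100308) (nat_lit 304) (nat_lit 8656692764) (nat_lit 76) (nat_lit 1247448660) (nat_lit 232) (nat_lit 5) (nat_lit 236) (nat_lit 5) (nat_lit 233) (nat_lit 5) (nat_lit 389) (nat_lit 355) (nat_lit 276))) (XT.nd (nat_lit 78) (nat_lit 76) (nat_lit 0) (XT.lf (nat_lit 0) (nat_lit 4966069924) (nat_lit 152) (nat_lit 12458265423)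 (nat_lit 228) (nat_lit 4845431916) (nat_lit 230) (nat_lit 5) (nat_lit 232) (nat_lit 5) (nat_lit 233) (nat_lit 5) (nat_lit 390) (nat_lit 355) (nat_lit 275)) (XT.lf (nat_lit 0) (nat_lit 583000206) (nat_lit 228) (nat_lit 3408876400) (nat_lit 76) (nat_lit 18950843077) (nat_lit 229) (nat_lit 5) (nat_lit 232) (nat_lit 5) (nat_lit 230) (nat_lit 5) (nat_lit 391) (nat_lit 355) (nat_lit 274))))) (XT.nd (nat_lit 312) (nat_lit 380) (nat_lit 0) (XT.nd (nat_lit 156) (nat_lit 228) (nat_lit 0) (XT.nd (nat_lit 78) (nat_lit 152) (nat_lit 0) (XT.lf (nat_lit 0) (nat_lit 6362721510) (nat_lit 304) (nat_lit 12276405717) (nat_lit 76) (nat_lit 4994085538) (nat_lit 226) (nat_lit 5) (nat_lit 230) (nat_lit 5) (nat_lit 227) (nat_lit 5) (nat_lit 392) (nat_lit 355) (nat_lit 273)) (XT.lf (nat_lit 0) (nat_lit 2614782776) (nat_lit 152) (nat_lit 9965347273) (nat_lit 228) (nat_lit 11770665395) (nat_lit 224) (nat_lit 5) (nat_lit 226)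 (nat_lit 5) (nat_lit 227) (nat_lit 5) (nat_lit 393) (nat_lit 355) (nat_lit 272))) (XT.nd (nat_lit 78) (nat_lit 228) (nat_lit 0) (XT.lf (nat_lit 0) (nat_lit 18650865152) (nat_lit 152) (nat_lit 649579233) (nat_lit 228) (nat_lit 5794211101) (nat_lit 224) (nat_lit 5) (nat_lit 226) (nat_lit 5) (nat_lit 227) (nat_lit 5) (nat_lit 394) (nat_lit 355) (nat_lit 271)) (XT.lf (nat_lit 0) (nat_lit 749906804) (nat_lit 228) (nat_lit 16116301760) (nat_lit 76) (nat_lit 8994912528) (nat_lit 221) (nat_lit 5) (nat_lit 224) (nat_lit 5) (nat_lit 222) (nat_lit 5) (nat_lit 395) (nat_lit 355) (nat_lit 270)))) (XT.nd (nat_lit 156) (nat_lit 228) (nat_lit 0) (XT.nd (nat_lit 78) (nat_lit 0) (nat_lit 0) (XT.lf (nat_lit 0) (nat_lit 179082765) (nat_lit 152) (nat_lit 7356616767) (nat_lit 228) (nat_lit 19120001472) (nat_lit 219) (nat_lit 5) (nat_lit 221) (nat_lit 5) (nat_lit 222) (nat_lit 5) (nat_lit 396) (nat_lit 355) (nat_lit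 269)) (XT.lf (nat_lit 0) (nat_lit 14964236501) (nat_lit 228) (nat_lit 9698636155) (nat_lit 76) (nat_lit 2811964526) (nat_lit 219) (nat_lit 5) (nat_lit 222) (nat_lit 5) (nat_lit 220) (nat_lit 5) (nat_lit 397) (nat_lit 355) (nat_lit 268))) (XT.nd (nat_lit 78) (nat_lit 76) (nat_lit 0) (XT.lf (nat_lit 0) (nat_lit 8030362402) (nat_lit 152) (nat_lit 14965533993) (nat_lit 228) (nat_lit 5327448968) (nat_lit 217) (nat_lit 5) (nat_lit 219) (nat_lit 5) (nat_lit 220) (nat_lit 5) (nat_lit 398) (nat_lit 355) (nat_lit 267)) (XT.lf (nat_lit 0) (nat_lit 2296711660) (nat_lit 228) (nat_lit 2285195303) (nat_lit 76) (nat_lit 24623005948) (nat_lit 216) (nat_lit 5) (nat_lit 219) (nat_lit 5) (nat_lit 217) (nat_lit 5) (nat_lit 399) (nat_lit 355) (nat_lit 266)))))) (XT.nd (nat_lit 624) (nat_lit 684) (nat_lit 0) (XT.nd (nat_lit 312) (nat_lit 456) (nat_lit 0) (XT.nd (nat_lit 156) (nat_lit 152) (nat_lit 0) (XT.nd (nat_lit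 78) (nat_lit 152) (nat_lit 0) (XT.lf (nat_lit 0) (nat_lit 10480179259) (nat_lit 228) (nat_lit 13159484160) (nat_lit 76) (nat_lit 6468671847) (nat_lit 214) (nat_lit 5) (nat_lit 217) (nat_lit 5) (nat_lit 215) (nat_lit 5) (nat_lit 400) (nat_lit 355) (nat_lit 265)) (XT.lf (nat_lit 0) (nat_lit 6270533391) (nat_lit 152) (nat_lit 13001246742) (nat_lit 228) (nat_lit 11775200612) (nat_lit 212) (nat_lit 5) (nat_lit 214) (nat_lit 5) (nat_lit 215) (nat_lit 5) (nat_lit 401) (nat_lit 355) (nat_lit 264))) (XT.nd (nat_lit 78) (nat_lit 152) (nat_lit 0) (XT.lf (nat_lit 0) (nat_lit 27105938008) (nat_lit 152) (nat_lit 1606774793) (nat_lit 228) (nat_lit 3309358109) (nat_lit 212) (nat_lit 5) (nat_lit 214) (nat_lit 5) (nat_lit 215) (nat_lit 5) (nat_lit 402) (nat_lit 355) (nat_lit 263)) (XT.lf (nat_lit 0) (nat_lit 5810956039) (nat_lit 152) (nat_lit 16845489008) (nat_lit 76) (nat_lit 10364626378) (nat_lit 210) (nat_lit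 5) (nat_lit 212) (nat_lit 5) (nat_lit 211) (nat_lit 5) (nat_lit 403) (nat_lit 355) (nat_lit 262)))) (XT.nd (nat_lit 156) (nat_lit 304) (nat_lit 0) (XT.nd (nat_lit 78) (nat_lit 0) (nat_lit 0) (XT.lf (nat_lit 0) (nat_lit 4465240051) (nat_lit 152) (nat_lit 10978929364) (nat_lit 228) (nat_lit 18614734979) (nat_lit 208) (nat_lit 5) (nat_lit 210) (nat_lit 5) (nat_lit 211) (nat_lit 5) (nat_lit 404) (nat_lit 355) (nat_lit 261)) (XT.lf (nat_lit 0) (nat_lit 25856554402) (nat_lit 228) (nat_lit 7755243732) (nat_lit 76) (nat_lit 1521955331) (nat_lit 208) (nat_lit 5) (nat_lit 211) (nat_lit 5) (nat_lit 209) (nat_lit 4) (nat_lit 405) (nat_lit 355) (nat_lit 260))) (XT.nd (nat_lit 78) (nat_lit 152) (nat_lit 0) (XT.lf (nat_lit 0) (nat_lit 926666488) (nat_lit 152) (nat_lit 20788047958) (nat_lit 76) (nat_lit 14526402633) (nat_lit 206) (nat_lit 5) (nat_lit 208) (nat_lit 5) (nat_lit 207) (nat_lit 5) (nat_lit 406) (nat_lit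 355) (nat_lit 259)) (XT.lf (nat_lit 0) (nat_lit 2601284063) (nat_lit 152) (nat_lit 8889935982) (nat_lit 228) (nat_lit 25896911092) (nat_lit 204) (nat_lit 5) (nat_lit 206) (nat_lit 5) (nat_lit 207) (nat_lit 5) (nat_lit 407) (nat_lit 355) (nat_lit 258))))) (XT.nd (nat_lit 312) (nat_lit 380) (nat_lit 0) (XT.nd (nat_lit 156) (nat_lit 228) (nat_lit 0) (XT.nd (nat_lit 78) (nat_lit 76) (nat_lit 0) (XT.lf (nat_lit 0) (nat_lit 23001522384) (nat_lit 228) (nat_lit 10791892769) (nat_lit 76) (nat_lit 4778204689) (nat_lit 204) (nat_lit 5) (nat_lit 207) (nat_lit 5) (nat_lit 205) (nat_lit 4) (nat_lit 408) (nat_lit 355) (nat_lit 257)) (XT.lf (nat_lit 0) (nat_lit 14707244295) (nat_lit 76) (nat_lit 20744261687) (nat_lit 152) (nat_lit 4344568694) (nat_lit 203) (nat_lit 5) (nat_lit 204) (nat_lit 5) (nat_lit 205) (nat_lit 4) (nat_lit 409) (nat_lit 355) (nat_lit 256))) (XT.nd (nat_lit 78) (nat_lit 0) (nat_lit 0) (XT.lf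 (nat_lit 0) (nat_lit 664895584) (nat_lit 152) (nat_lit 6724131368) (nat_lit 228) (nat_lit 33677666168) (nat_lit 200) (nat_lit 5) (nat_lit 202) (nat_lit 5) (nat_lit 203) (nat_lit 5) (nat_lit 410) (nat_lit 355) (nat_lit 255)) (XT.lf (nat_lit 0) (nat_lit 20108923909) (nat_lit 228) (nat_lit 14025964780) (nat_lit 76) (nat_lit 8235111298) (nat_lit 200) (nat_lit 5) (nat_lit 203) (nat_lit 5) (nat_lit 201) (nat_lit 4) (nat_lit 411) (nat_lit 355) (nat_lit 254)))) (XT.nd (nat_lit 156) (nat_lit 228) (nat_lit 0) (XT.nd (nat_lit 78) (nat_lit 76) (nat_lit 0) (XT.lf (nat_lit 0) (nat_lit 13986405296) (nat_lit 76) (nat_lit 19796451861) (nat_lit 152) (nat_lit 9939712968) (nat_lit 199) (nat_lit 5) (nat_lit 200) (nat_lit 5) (nat_lit 201) (nat_lit 4) (nat_lit 412) (nat_lit 355) (nat_lit 253)) (XT.lf (nat_lit 0) (nat_lit 3132676645) (nat_lit 152) (nat_lit 1314950753) (nat_lit 76) (nat_lit 40681256031) (nat_lit 198) (nat_lit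 5) (nat_lit 200) (nat_lit 5) (nat_lit 199) (nat_lit 5) (nat_lit 413) (nat_lit 355) (nat_lit 252))) (XT.nd (nat_lit 78) (nat_lit 76) (nat_lit 0) (XT.lf (nat_lit 0) (nat_lit 17164018027) (nat_lit 228) (nat_lit 17484372276) (nat_lit 76) (nat_lit 11917006198) (nat_lit 196) (nat_lit 5) (nat_lit 199) (nat_lit 5) (nat_lit 197) (nat_lit 4) (nat_lit 414) (nat_lit 355) (nat_lit 251)) (XT.lf (nat_lit 0) (nat_lit 13303525505) (nat_lit 76) (nat_lit 18886681779) (nat_lit 152) (nat_lit 15868863902) (nat_lit 195) (nat_lit 5) (nat_lit 196) (nat_lit 5) (nat_lit 197) (nat_lit 4) (nat_lit 415) (nat_lit 355) (nat_lit 250))))))))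
noncomputable def xc177 : XT := (XT.nd (nat_lit 2496) (nat_lit 2432) (nat_lit 0) (XT.nd (nat_lit 1248) (nat_lit 1216) (nat_lit 0) (XT.nd (nat_lit 624) (nat_lit 532) (nat_lit 0) (XT.nd (nat_lit 312) (nat_lit 380) (nat_lit 0) (XT.nd (nat_lit 156) (nat_lit 76) (nat_lit 0) (XT.nd (nat_lit 78) (nat_lit 228) (nat_lit 0) (XT.lf (nat_lit 0) (nat_lit 46219317965) (nat_lit 76) (nat_lit 2034709193) (nat_lit 152) (nat_lit 1359086389) (nat_lit 195) (nat_lit 5) (nat_lit 196) (nat_lit 5) (nat_lit 197) (nat_lit 4) (nat_lit 416) (nat_lit 355) (nat_lit 249)) (XT.lf (nat_lit 0) (nat_lit 14150848746) (nat_lit 228) (nat_lit 21196245674) (nat_lit 76) (nat_lit 15850991646) (nat_lit 192) (nat_lit 5) (nat_lit 195) (nat_lit 5) (nat_lit 193) (nat_lit 4) (nat_lit 417) (nat_lit 355) (nat_lit 248))) (XT.nd (nat_lit 78) (nat_lit 0) (nat_lit 0) (XT.lf (nat_lit 0) (nat_lit 12656153122) (nat_lit 76) (nat_lit 18014397784) (nat_lit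 152) (nat_lit 22176645074) (nat_lit 191) (nat_lit 5) (nat_lit 192) (nat_lit 5) (nat_lit 193) (nat_lit 4) (nat_lit 418) (nat_lit 355) (nat_lit 247)) (XT.lf (nat_lit 0) (nat_lit 48374592291) (nat_lit 152) (nat_lit 5650562218) (nat_lit 0) (nat_lit 535689177) (nat_lit 191) (nat_lit 5) (nat_lit 193) (nat_lit 4) (nat_lit 191) (nat_lit 4) (nat_lit 419) (nat_lit 355) (nat_lit 246)))) (XT.nd (nat_lit 156) (nat_lit 152) (nat_lit 0) (XT.nd (nat_lit 78) (nat_lit 76) (nat_lit 0) (XT.lf (nat_lit 0) (nat_lit 11052145876) (nat_lit 152) (nat_lit 25193225865) (nat_lit 76) (nat_lit 20067131026) (nat_lit 189) (nat_lit 5) (nat_lit 191) (nat_lit 5) (nat_lit 190) (nat_lit 4) (nat_lit 420) (nat_lit 355) (nat_lit 245)) (XT.lf (nat_lit 0) (nat_lit 12042067320) (nat_lit 76) (nat_lit 17178849586) (nat_lit 152) (nat_lit 28911939572) (nat_lit 188) (nat_lit 5) (nat_lit 189) (nat_lit 5) (nat_lit 190) (nat_lit 4) (nat_lit 421)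 (nat_lit 355) (nat_lit 244))) (XT.nd (nat_lit 78) (nat_lit 152) (nat_lit 0) (XT.lf (nat_lit 0) (nat_lit 48767248032) (nat_lit 152) (nat_lit 8077695582) (nat_lit 0) (nat_lit 3175828185) (nat_lit 188) (nat_lit 5) (nat_lit 190) (nat_lit 4) (nat_lit 188) (nat_lit 4) (nat_lit 422) (nat_lit 355) (nat_lit 243)) (XT.lf (nat_lit 0) (nat_lit 7849207510) (nat_lit 152) (nat_lit 29509776651) (nat_lit 76) (nat_lit 24598677053) (nat_lit 186) (nat_lit 5) (nat_lit 188) (nat_lit 5) (nat_lit 187) (nat_lit 4) (nat_lit 423) (nat_lit 355) (nat_lit 242))))) (XT.nd (nat_lit 312) (nat_lit 228) (nat_lit 0) (XT.nd (nat_lit 156) (nat_lit 228) (nat_lit 0) (XT.nd (nat_lit 78) (nat_lit 0) (nat_lit 0) (XT.lf (nat_lit 0) (nat_lit 11459246990) (nat_lit 76) (nat_lit 16379139160) (nat_lit 152) (nat_lit 36128309601) (nat_lit 185) (nat_lit 5) (nat_lit 186) (nat_lit 5) (nat_lit 187) (nat_lit 4) (nat_lit 424) (nat_lit 355) (nat_lit 241))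 (XT.lf (nat_lit 0) (nat_lit 49414763719) (nat_lit 152) (nat_lit 10662809005) (nat_lit 0) (nat_lit 5969222293) (nat_lit 185) (nat_lit 5) (nat_lit 187) (nat_lit 4) (nat_lit 185) (nat_lit 4) (nat_lit 425) (nat_lit 355) (nat_lit 240))) (XT.nd (nat_lit 78) (nat_lit 76) (nat_lit 0) (XT.lf (nat_lit 0) (nat_lit 4521763876) (nat_lit 152) (nat_lit 34183520833) (nat_lit 76) (nat_lit 29482338767) (nat_lit 183) (nat_lit 5) (nat_lit 185) (nat_lit 5) (nat_lit 184) (nat_lit 4) (nat_lit 426) (nat_lit 355) (nat_lit 239)) (XT.lf (nat_lit 0) (nat_lit 10905844577) (nat_lit 76) (nat_lit 15614260314) (nat_lit 152) (nat_lit 43884465585) (nat_lit 182) (nat_lit 5) (nat_lit 183) (nat_lit 5) (nat_lit 184) (nat_lit 4) (nat_lit 427) (nat_lit 355) (nat_lit 238)))) (XT.nd (nat_lit 156) (nat_lit 76) (nat_lit 0) (XT.nd (nat_lit 78) (nat_lit 152) (nat_lit 0) (XT.lf (nat_lit 0) (nat_lit 50333539890) (nat_lit 152) (nat_lit 13426916353)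 (nat_lit 0) (nat_lit 8936149736) (nat_lit 182) (nat_lit 5) (nat_lit 184) (nat_lit 4) (nat_lit 182) (nat_lit 4) (nat_lit 428) (nat_lit 355) (nat_lit 237)) (XT.lf (nat_lit 0) (nat_lit 1047821994) (nat_lit 152) (nat_lit 39255603781) (nat_lit 76) (nat_lit 34758588448) (nat_lit 180) (nat_lit 5) (nat_lit 182) (nat_lit 5) (nat_lit 181) (nat_lit 4) (nat_lit 429) (nat_lit 355) (nat_lit 236))) (XT.nd (nat_lit 78) (nat_lit 0) (nat_lit 0) (XT.lf (nat_lit 0) (nat_lit 10380164103) (nat_lit 76) (nat_lit 14883130595) (nat_lit 152) (nat_lit 52244788506) (nat_lit 179) (nat_lit 5) (nat_lit 180) (nat_lit 5) (nat_lit 181) (nat_lit 4) (nat_lit 430) (nat_lit 355) (nat_lit 235)) (XT.lf (nat_lit 0) (nat_lit 51542032992) (nat_lit 152) (nat_lit 16392867718) (nat_lit 0) (nat_lit 12098930325) (nat_lit 179) (nat_lit 5) (nat_lit 181) (nat_lit 4) (nat_lit 179) (nat_lit 4) (nat_lit 431) (nat_lit 355) (nat_lit 234)))))) (XT.nd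 (nat_lit 624) (nat_lit 532) (nat_lit 0) (XT.nd (nat_lit 312) (nat_lit 380) (nat_lit 0) (XT.nd (nat_lit 156) (nat_lit 76) (nat_lit 0) (XT.nd (nat_lit 78) (nat_lit 152) (nat_lit 0) (XT.lf (nat_lit 0) (nat_lit 37831527356) (nat_lit 76) (nat_lit 42130605584) (nat_lit 76) (nat_lit 2682362082) (nat_lit 178) (nat_lit 4) (nat_lit 179) (nat_lit 5) (nat_lit 179) (nat_lit 4) (nat_lit 432) (nat_lit 355) (nat_lit 233)) (XT.lf (nat_lit 0) (nat_lit 9880642677) (nat_lit 76) (nat_lit 14184616938) (nat_lit 152) (nat_lit 61279909883) (nat_lit 176) (nat_lit 5) (nat_lit 177) (nat_lit 5) (nat_lit 178) (nat_lit 4) (nat_lit 433) (nat_lit 355) (nat_lit 232))) (XT.nd (nat_lit 78) (nat_lit 76) (nat_lit 0) (XT.lf (nat_lit 0) (nat_lit 53060963889) (nat_lit 152) (nat_lit 19585568390) (nat_lit 0) (nat_lit 15482104438) (nat_lit 176) (nat_lit 5) (nat_lit 178) (nat_lit 4) (nat_lit 176) (nat_lit 4) (nat_lit 434) (nat_lit 355) (nat_lit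 231)) (XT.lf (nat_lit 0) (nat_lit 40125457248) (nat_lit 76) (nat_lit 44233150578) (nat_lit 76) (nat_lit 6650061749) (nat_lit 175) (nat_lit 4) (nat_lit 176) (nat_lit 5) (nat_lit 176) (nat_lit 4) (nat_lit 435) (nat_lit 355) (nat_lit 230)))) (XT.nd (nat_lit 156) (nat_lit 228) (nat_lit 0) (XT.nd (nat_lit 78) (nat_lit 0) (nat_lit 0) (XT.lf (nat_lit 0) (nat_lit 9405834879) (nat_lit 76) (nat_lit 13517556187) (nat_lit 152) (nat_lit 71067354403) (nat_lit 173) (nat_lit 5) (nat_lit 174) (nat_lit 5) (nat_lit 175) (nat_lit 4) (nat_lit 436) (nat_lit 355) (nat_lit 229)) (XT.lf (nat_lit 0) (nat_lit 54913545073) (nat_lit 152) (nat_lit 23032216027) (nat_lit 0) (nat_lit 19112637476) (nat_lit 173) (nat_lit 5) (nat_lit 175) (nat_lit 4) (nat_lit 173) (nat_lit 4) (nat_lit 437) (nat_lit 355) (nat_lit 228))) (XT.nd (nat_lit 78) (nat_lit 152) (nat_lit 0) (XT.lf (nat_lit 0) (nat_lit 42731197661) (nat_lit 76) (nat_lit 46654255732)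 (nat_lit 76) (nat_lit 10849868615) (nat_lit 172) (nat_lit 4) (nat_lit 173) (nat_lit 5) (nat_lit 173) (nat_lit 4) (nat_lit 438) (nat_lit 355) (nat_lit 227)) (XT.lf (nat_lit 0) (nat_lit 8954399533) (nat_lit 76) (nat_lit 12880771431) (nat_lit 152) (nat_lit 81692250933) (nat_lit 170) (nat_lit 5) (nat_lit 171) (nat_lit 5) (nat_lit 172) (nat_lit 4) (nat_lit 439) (nat_lit 355) (nat_lit 226))))) (XT.nd (nat_lit 312) (nat_lit 304) (nat_lit 0) (XT.nd (nat_lit 156) (nat_lit 152) (nat_lit 0) (XT.nd (nat_lit 78) (nat_lit 76) (nat_lit 0) (XT.lf (nat_lit 0) (nat_lit 57125729123) (nat_lit 152) (nat_lit 26762558602) (nat_lit 0) (nat_lit 23020151055) (nat_lit 170) (nat_lit 5) (nat_lit 172) (nat_lit 4) (nat_lit 170) (nat_lit 4) (nat_lit 440) (nat_lit 355) (nat_lit 225)) (XT.lf (nat_lit 0) (nat_lit 45676833587) (nat_lit 76) (nat_lit 49422103744) (nat_lit 76) (nat_lit 15313663067) (nat_lit 169) (nat_lit 4) (nat_lit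 170) (nat_lit 5) (nat_lit 170) (nat_lit 4) (nat_lit 441) (nat_lit 355) (nat_lit 224))) (XT.nd (nat_lit 78) (nat_lit 0) (nat_lit 0) (XT.lf (nat_lit 0) (nat_lit 8525088466) (nat_lit 76) (nat_lit 12273084917) (nat_lit 152) (nat_lit 93248118325) (nat_lit 167) (nat_lit 5) (nat_lit 168) (nat_lit 5) (nat_lit 169) (nat_lit 4) (nat_lit 442) (nat_lit 355) (nat_lit 223)) (XT.lf (nat_lit 0) (nat_lit 59726481076) (nat_lit 152) (nat_lit 30809175819) (nat_lit 0) (nat_lit 27237182560) (nat_lit 167) (nat_lit 5) (nat_lit 169) (nat_lit 4) (nat_lit 167) (nat_lit 4) (nat_lit 443) (nat_lit 355) (nat_lit 222)))) (XT.nd (nat_lit 156) (nat_lit 76) (nat_lit 0) (XT.nd (nat_lit 78) (nat_lit 152) (nat_lit 0) (XT.lf (nat_lit 0) (nat_lit 48993553001) (nat_lit 76) (nat_lit 52567901335) (nat_lit 76) (nat_lit 20076247743) (nat_lit 166) (nat_lit 4) (nat_lit 167) (nat_lit 5) (nat_lit 167) (nat_lit 4) (nat_lit 444) (nat_lit 355) (nat_lit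 221)) (XT.lf (nat_lit 0) (nat_lit 8116736913) (nat_lit 76) (nat_lit 11693328176) (nat_lit 152) (nat_lit 105837733226) (nat_lit 164) (nat_lit 5) (nat_lit 165) (nat_lit 5) (nat_lit 166) (nat_lit 4) (nat_lit 445) (nat_lit 355) (nat_lit 220))) (XT.nd (nat_lit 78) (nat_lit 76) (nat_lit 0) (XT.lf (nat_lit 0) (nat_lit 62748077594) (nat_lit 152) (nat_lit 35207786873) (nat_lit 0) (nat_lit 31799475076) (nat_lit 164) (nat_lit 5) (nat_lit 166) (nat_lit 4) (nat_lit 164) (nat_lit 4) (nat_lit 446) (nat_lit 355) (nat_lit 219)) (XT.lf (nat_lit 0) (nat_lit 52715947193) (nat_lit 76) (nat_lit 56126196517) (nat_lit 76) (nat_lit 25175656472) (nat_lit 163) (nat_lit 4) (nat_lit 164) (nat_lit 5) (nat_lit 164) (nat_lit 4) (nat_lit 447) (nat_lit 355) (nat_lit 218))))))) (XT.nd (nat_lit 1248) (nat_lit 1140) (nat_lit 0) (XT.nd (nat_lit 624) (nat_lit 684) (nat_lit 0) (XT.nd (nat_lit 312) (nat_lit 228) (nat_lit 0) (XT.nd (nat_lit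 156) (nat_lit 228) (nat_lit 0) (XT.nd (nat_lit 78) (nat_lit 0) (nat_lit 0) (XT.lf (nat_lit 0) (nat_lit 7728255291) (nat_lit 76) (nat_lit 11140349878) (nat_lit 152) (nat_lit 119574087913) (nat_lit 161) (nat_lit 5) (nat_lit 162) (nat_lit 5) (nat_lit 163) (nat_lit 4) (nat_lit 448) (nat_lit 355) (nat_lit 217)) (XT.lf (nat_lit 0) (nat_lit 66226435966) (nat_lit 152) (nat_lit 39997587660) (nat_lit 0) (nat_lit 36746300059) (nat_lit 161) (nat_lit 5) (nat_lit 163) (nat_lit 4) (nat_lit 161) (nat_lit 4) (nat_lit 449) (nat_lit 355) (nat_lit 216))) (XT.nd (nat_lit 78) (nat_lit 152) (nat_lit 0) (XT.lf (nat_lit 0) (nat_lit 56882343984) (nat_lit 76) (nat_lit 60135225592) (nat_lit 76) (nat_lit 30653495678) (nat_lit 160) (nat_lit 4) (nat_lit 161) (nat_lit 5) (nat_lit 161) (nat_lit 4) (nat_lit 450) (nat_lit 355) (nat_lit 215)) (XT.lf (nat_lit 0) (nat_lit 7358622132) (nat_lit 76) (nat_lit 10613021843) (nat_lit 152)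 (nat_lit 134581447059) (nat_lit 158) (nat_lit 5) (nat_lit 159) (nat_lit 5) (nat_lit 160) (nat_lit 4) (nat_lit 451) (nat_lit 355) (nat_lit 214)))) (XT.nd (nat_lit 156) (nat_lit 152) (nat_lit 0) (XT.nd (nat_lit 78) (nat_lit 76) (nat_lit 0) (XT.lf (nat_lit 0) (nat_lit 70201476300) (nat_lit 152) (nat_lit 45221620770) (nat_lit 0) (nat_lit 42120815509) (nat_lit 158) (nat_lit 5) (nat_lit 160) (nat_lit 4) (nat_lit 158) (nat_lit 4) (nat_lit 452) (nat_lit 355) (nat_lit 213)) (XT.lf (nat_lit 0) (nat_lit 61535176857) (nat_lit 76) (nat_lit 64637293511) (nat_lit 76) (nat_lit 36555321327) (nat_lit 157) (nat_lit 4) (nat_lit 158) (nat_lit 5) (nat_lit 158) (nat_lit 4) (nat_lit 453) (nat_lit 355) (nat_lit 212))) (XT.nd (nat_lit 78) (nat_lit 0) (nat_lit 0) (XT.lf (nat_lit 0) (nat_lit 7006877950) (nat_lit 76) (nat_lit 10110243552) (nat_lit 152) (nat_lit 150996513350) (nat_lit 155) (nat_lit 5) (nat_lit 156) (nat_lit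 5) (nat_lit 157) (nat_lit 4) (nat_lit 454) (nat_lit 355) (nat_lit 211)) (XT.lf (nat_lit 0) (nat_lit 74717520494) (nat_lit 152) (nat_lit 50927181894) (nat_lit 0) (nat_lit 47970462775) (nat_lit 155) (nat_lit 5) (nat_lit 157) (nat_lit 4) (nat_lit 155) (nat_lit 4) (nat_lit 455) (nat_lit 355) (nat_lit 210))))) (XT.nd (nat_lit 312) (nat_lit 380) (nat_lit 0) (XT.nd (nat_lit 156) (nat_lit 76) (nat_lit 0) (XT.nd (nat_lit 78) (nat_lit 152) (nat_lit 0) (XT.lf (nat_lit 0) (nat_lit 66721393437) (nat_lit 76) (nat_lit 69679191443) (nat_lit 76) (nat_lit 42931054837) (nat_lit 154) (nat_lit 4) (nat_lit 155) (nat_lit 5) (nat_lit 155) (nat_lit 4) (nat_lit 456) (nat_lit 355) (nat_lit 209)) (XT.lf (nat_lit 0) (nat_lit 6672119937) (nat_lit 76) (nat_lit 9630945455) (nat_lit 152) (nat_lit 168969712885) (nat_lit 152) (nat_lit 5) (nat_lit 153) (nat_lit 5) (nat_lit 154) (nat_lit 4) (nat_lit 457) (nat_lit 355) (nat_lit 208)))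 (XT.nd (nat_lit 78) (nat_lit 76) (nat_lit 0) (XT.lf (nat_lit 0) (nat_lit 79823731942) (nat_lit 152) (nat_lit 57166266609) (nat_lit 0) (nat_lit 54347405561) (nat_lit 152) (nat_lit 5) (nat_lit 154) (nat_lit 4) (nat_lit 152) (nat_lit 4) (nat_lit 458) (nat_lit 355) (nat_lit 207)) (XT.lf (nat_lit 0) (nat_lit 72492907122) (nat_lit 76) (nat_lit 75312655773) (nat_lit 76) (nat_lit 49835441789) (nat_lit 151) (nat_lit 4) (nat_lit 152) (nat_lit 5) (nat_lit 152) (nat_lit 4) (nat_lit 459) (nat_lit 355) (nat_lit 206)))) (XT.nd (nat_lit 156) (nat_lit 228) (nat_lit 0) (XT.nd (nat_lit 78) (nat_lit 0) (nat_lit 0) (XT.lf (nat_lit 0) (nat_lit 6353497305) (nat_lit 76) (nat_lit 9174091292) (nat_lit 152) (nat_lit 188666612502) (nat_lit 149) (nat_lit 5) (nat_lit 150) (nat_lit 5) (nat_lit 151) (nat_lit 4) (nat_lit 460) (nat_lit 355) (nat_lit 205)) (XT.lf (nat_lit 0) (nat_lit 85574600267) (nat_lit 152) (nat_lit 63996061854)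 (nat_lit 0) (nat_lit 61309015121) (nat_lit 149) (nat_lit 5) (nat_lit 151) (nat_lit 4) (nat_lit 149) (nat_lit 4) (nat_lit 461) (nat_lit 355) (nat_lit 204))) (XT.nd (nat_lit 78) (nat_lit 152) (nat_lit 0) (XT.lf (nat_lit 0) (nat_lit 78907096102) (nat_lit 76) (nat_lit 81594873069) (nat_lit 76) (nat_lit 57328557689) (nat_lit 148) (nat_lit 4) (nat_lit 149) (nat_lit 5) (nat_lit 149) (nat_lit 4) (nat_lit 462) (nat_lit 355) (nat_lit 203)) (XT.lf (nat_lit 0) (nat_lit 6050207214) (nat_lit 76) (nat_lit 8738679641) (nat_lit 152) (nat_lit 210269482407) (nat_lit 146) (nat_lit 5) (nat_lit 147) (nat_lit 5) (nat_lit 148) (nat_lit 4) (nat_lit 463) (nat_lit 355) (nat_lit 202)))))) (XT.nd (nat_lit 624) (nat_lit 608) (nat_lit 0) (XT.nd (nat_lit 312) (nat_lit 304) (nat_lit 0) (XT.nd (nat_lit 156) (nat_lit 152) (nat_lit 0) (XT.nd (nat_lit 78) (nat_lit 76) (nat_lit 0) (XT.lf (nat_lit 0) (nat_lit 92030475814) (nat_lit 152)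 (nat_lit 71479486850) (nat_lit 0) (nat_lit 68918406116) (nat_lit 146) (nat_lit 5) (nat_lit 148) (nat_lit 4) (nat_lit 146) (nat_lit 4) (nat_lit 464) (nat_lit 355) (nat_lit 201)) (XT.lf (nat_lit 0) (nat_lit 86027354476) (nat_lit 76) (nat_lit 88589035974) (nat_lit 76) (nat_lit 65476365512) (nat_lit 145) (nat_lit 4) (nat_lit 146) (nat_lit 5) (nat_lit 146) (nat_lit 4) (nat_lit 465) (nat_lit 355) (nat_lit 200))) (XT.nd (nat_lit 78) (nat_lit 0) (nat_lit 0) (XT.lf (nat_lit 0) (nat_lit 5761491169) (nat_lit 76) (nat_lit 8323744825) (nat_lit 152) (nat_lit 233979018915) (nat_lit 143) (nat_lit 5) (nat_lit 144) (nat_lit 5) (nat_lit 145) (nat_lit 4) (nat_lit 466) (nat_lit 355) (nat_lit 199)) (XT.lf (nat_lit 0) (nat_lit 99258159079) (nat_lit 152) (nat_lit 79685788637) (nat_lit 0) (nat_lit 77245028097) (nat_lit 143) (nat_lit 5) (nat_lit 145) (nat_lit 4) (nat_lit 143) (nat_lit 4) (nat_lit 467) (nat_lit 355) (nat_lit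 198)))) (XT.nd (nat_lit 156) (nat_lit 76) (nat_lit 0) (XT.nd (nat_lit 78) (nat_lit 152) (nat_lit 0) (XT.lf (nat_lit 0) (nat_lit 93923700675) (nat_lit 76) (nat_lit 96364955466) (nat_lit 76) (nat_lit 74351330233) (nat_lit 142) (nat_lit 4) (nat_lit 143) (nat_lit 5) (nat_lit 143) (nat_lit 4) (nat_lit 468) (nat_lit 355) (nat_lit 197)) (XT.lf (nat_lit 0) (nat_lit 5486631826) (nat_lit 76) (nat_lit 7928357331) (nat_lit 152) (nat_lit 260016243637) (nat_lit 140) (nat_lit 5) (nat_lit 141) (nat_lit 5) (nat_lit 142) (nat_lit 4) (nat_lit 469) (nat_lit 355) (nat_lit 196))) (XT.nd (nat_lit 78) (nat_lit 76) (nat_lit 0) (XT.lf (nat_lit 0) (nat_lit 107331550772) (nat_lit 152) (nat_lit 88691197970) (nat_lit 0) (nat_lit 86365318155) (nat_lit 140) (nat_lit 5) (nat_lit 142) (nat_lit 4) (nat_lit 140) (nat_lit 4) (nat_lit 470) (nat_lit 355) (nat_lit 195)) (XT.lf (nat_lit 0) (nat_lit 102673448959) (nat_lit 76) (nat_lit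 104999735395) (nat_lit 76) (nat_lit 84033096157) (nat_lit 139) (nat_lit 4) (nat_lit 140) (nat_lit 5) (nat_lit 140) (nat_lit 4) (nat_lit 471) (nat_lit 355) (nat_lit 194))))) (XT.nd (nat_lit 312) (nat_lit 228) (nat_lit 0) (XT.nd (nat_lit 156) (nat_lit 228) (nat_lit 0) (XT.nd (nat_lit 78) (nat_lit 0) (nat_lit 0) (XT.lf (nat_lit 0) (nat_lit 5224950136) (nat_lit 76) (nat_lit 7551623830) (nat_lit 152) (nat_lit 288624597131) (nat_lit 137) (nat_lit 5) (nat_lit 138) (nat_lit 5) (nat_lit 139) (nat_lit 4) (nat_lit 472) (nat_lit 355) (nat_lit 193)) (XT.lf (nat_lit 0) (nat_lit 116332368762) (nat_lit 152) (nat_lit 98579651808) (nat_lit 0) (nat_lit 96363420844) (nat_lit 137) (nat_lit 5) (nat_lit 139) (nat_lit 4) (nat_lit 137) (nat_lit 4) (nat_lit 473) (nat_lit 355) (nat_lit 192))) (XT.nd (nat_lit 78) (nat_lit 152) (nat_lit 0) (XT.lf (nat_lit 0) (nat_lit 112361950355) (nat_lit 76) (nat_lit 114578515847) (nat_lit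 76) (nat_lit 94609233401) (nat_lit 136) (nat_lit 4) (nat_lit 137) (nat_lit 5) (nat_lit 137) (nat_lit 4) (nat_lit 474) (nat_lit 355) (nat_lit 191)) (XT.lf (nat_lit 0) (nat_lit 4975802793) (nat_lit 76) (nat_lit 7192686883) (nat_lit 152) (nat_lit 320072246913) (nat_lit 134) (nat_lit 5) (nat_lit 135) (nat_lit 5) (nat_lit 136) (nat_lit 4) (nat_lit 475) (nat_lit 355) (nat_lit 190)))) (XT.nd (nat_lit 156) (nat_lit 152) (nat_lit 0) (XT.nd (nat_lit 78) (nat_lit 76) (nat_lit 0) (XT.lf (nat_lit 0) (nat_lit 126350938822) (nat_lit 152) (nat_lit 109443589341) (nat_lit 0) (nat_lit 107331982182) (nat_lit 134) (nat_lit 5) (nat_lit 136) (nat_lit 4) (nat_lit 134) (nat_lit 4) (nat_lit 476) (nat_lit 355) (nat_lit 189)) (XT.lf (nat_lit 0) (nat_lit 123083410095) (nat_lit 76) (nat_lit 125195292472) (nat_lit 76) (nat_lit 106176060615) (nat_lit 133) (nat_lit 4) (nat_lit 134) (nat_lit 5) (nat_lit 134) (nat_lit 4) (nat_lit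 477) (nat_lit 355) (nat_lit 188))) (XT.nd (nat_lit 78) (nat_lit 0) (nat_lit 0) (XT.lf (nat_lit 0) (nat_lit 4738579924) (nat_lit 76) (nat_lit 6850724413) (nat_lit 152) (nat_lit 354654631765) (nat_lit 131) (nat_lit 5) (nat_lit 132) (nat_lit 5) (nat_lit 133) (nat_lit 4) (nat_lit 478) (nat_lit 355) (nat_lit 187)) (XT.lf (nat_lit 0) (nat_lit 137487066727) (nat_lit 152) (nat_lit 121384829127) (nat_lit 0) (nat_lit 119373025204) (nat_lit 131) (nat_lit 5) (nat_lit 133) (nat_lit 4) (nat_lit 131) (nat_lit 4) (nat_lit 479) (nat_lit 355) (nat_lit 186))))))))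
noncomputable def xc178 : XT := (XT.nd (nat_lit 44928) (nat_lit 0) (nat_lit 6840) (XT.nd (nat_lit 43680) (nat_lit 0) (nat_lit 11552) (XT.nd (nat_lit 624) (nat_lit 304) (nat_lit 0) (XT.nd (nat_lit 312) (nat_lit 380) (nat_lit 0) (XT.nd (nat_lit 156) (nat_lit 76) (nat_lit 0) (XT.nd (nat_lit 78) (nat_lit 152) (nat_lit 0) (XT.lf (nat_lit 0) (nat_lit 134941789310) (nat_lit 76) (nat_lit 136953819655) (nat_lit 76) (nat_lit 118839551710) (nat_lit 130) (nat_lit 4) (nat_lit 131) (nat_lit 5) (nat_lit 131) (nat_lit 4) (nat_lit 480) (nat_lit 355) (nat_lit 185)) (XT.lf (nat_lit 0) (nat_lit 4512703005) (nat_lit 76) (nat_lit 6524948989) (nat_lit 152) (nat_lit 392697266537) (nat_lit 128) (nat_lit 5) (nat_lit 129) (nat_lit 5) (nat_lit 130) (nat_lit 4) (nat_lit 481) (nat_lit 355) (nat_lit 184))) (XT.nd (nat_lit 78) (nat_lit 76) (nat_lit 0) (XT.lf (nat_lit 0) (nat_lit 149851000098) (nat_lit 152) (nat_lit 134515535716)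 (nat_lit 0) (nat_lit 132598915378) (nat_lit 128) (nat_lit 5) (nat_lit 130) (nat_lit 4) (nat_lit 128) (nat_lit 4) (nat_lit 482) (nat_lit 355) (nat_lit 183)) (XT.lf (nat_lit 0) (nat_lit 148051799580) (nat_lit 76) (nat_lit 149968606197) (nat_lit 76) (nat_lit 132716335199) (nat_lit 127) (nat_lit 4) (nat_lit 128) (nat_lit 5) (nat_lit 128) (nat_lit 4) (nat_lit 483) (nat_lit 355) (nat_lit 182)))) (XT.nd (nat_lit 156) (nat_lit 228) (nat_lit 0) (XT.nd (nat_lit 78) (nat_lit 0) (nat_lit 0) (XT.lf (nat_lit 0) (nat_lit 4297622953) (nat_lit 76) (nat_lit 6214606977) (nat_lit 152) (nat_lit 434558834132) (nat_lit 125) (nat_lit 5) (nat_lit 126) (nat_lit 5) (nat_lit 127) (nat_lit 4) (nat_lit 484) (nat_lit 355) (nat_lit 181)) (XT.lf (nat_lit 0) (nat_lit 163564489167) (nat_lit 152) (nat_lit 148959284995) (nat_lit 0) (nat_lit 147133425010) (nat_lit 125) (nat_lit 5) (nat_lit 127) (nat_lit 4) (nat_lit 125) (nat_lit 4)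 (nat_lit 485) (nat_lit 355) (nat_lit 180))) (XT.nd (nat_lit 78) (nat_lit 152) (nat_lit 0) (XT.lf (nat_lit 0) (nat_lit 162539999800) (nat_lit 76) (nat_lit 164366013036) (nat_lit 76) (nat_lit 147934795628) (nat_lit 124) (nat_lit 4) (nat_lit 125) (nat_lit 5) (nat_lit 125) (nat_lit 4) (nat_lit 486) (nat_lit 355) (nat_lit 179)) (XT.lf (nat_lit 0) (nat_lit 4092818394) (nat_lit 76) (nat_lit 5918977584) (nat_lit 152) (nat_lit 480634594086) (nat_lit 122) (nat_lit 5) (nat_lit 123) (nat_lit 5) (nat_lit 124) (nat_lit 4) (nat_lit 487) (nat_lit 355) (nat_lit 178))))) (XT.nd (nat_lit 312) (nat_lit 76) (nat_lit 0) (XT.nd (nat_lit 156) (nat_lit 152) (nat_lit 0) (XT.nd (nat_lit 78) (nat_lit 76) (nat_lit 0) (XT.lf (nat_lit 0) (nat_lit 178761956637) (nat_lit 152) (nat_lit 164852238378) (nat_lit 0) (nat_lit 163112906765) (nat_lit 122) (nat_lit 5) (nat_lit 124) (nat_lit 4) (nat_lit 122) (nat_lit 4) (nat_lit 488) (nat_lit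 355) (nat_lit 177)) (XT.lf (nat_lit 0) (nat_lit 178546005817) (nat_lit 76) (nat_lit 180285463509) (nat_lit 76) (nat_lit 164636287557) (nat_lit 121) (nat_lit 4) (nat_lit 122) (nat_lit 5) (nat_lit 122) (nat_lit 4) (nat_lit 489) (nat_lit 355) (nat_lit 176))) (XT.nd (nat_lit 78) (nat_lit 0) (nat_lit 0) (XT.lf (nat_lit 0) (nat_lit 3897794065) (nat_lit 76) (nat_lit 5637371834) (nat_lit 152) (nat_lit 531360140209) (nat_lit 119) (nat_lit 5) (nat_lit 120) (nat_lit 5) (nat_lit 121) (nat_lit 4) (nat_lit 490) (nat_lit 355) (nat_lit 175)) (XT.lf (nat_lit 0) (nat_lit 195591787793) (nat_lit 152) (nat_lit 182344437069) (nat_lit 0) (nat_lit 180687587424) (nat_lit 119) (nat_lit 5) (nat_lit 121) (nat_lit 4) (nat_lit 119) (nat_lit 4) (nat_lit 491) (nat_lit 355) (nat_lit 174)))) (XT.nd (nat_lit 42588) (nat_lit 0) (nat_lit 14060) (XT.nd (nat_lit 42510) (nat_lit 0) (nat_lit 14060) (XT.lf (nat_lit 0) (nat_lit 196223824354)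 (nat_lit 76) (nat_lit 197880777725) (nat_lit 76) (nat_lit 182976473630) (nat_lit 118) (nat_lit 4) (nat_lit 119) (nat_lit 5) (nat_lit 119) (nat_lit 4) (nat_lit 492) (nat_lit 355) (nat_lit 173)) (XT.lf (nat_lit 0) (nat_lit 507556262) (nat_lit 0) (nat_lit 507556262) (nat_lit 684) (nat_lit 3693348957) (nat_lit 303) (nat_lit 5) (nat_lit 303) (nat_lit 3) (nat_lit 312) (nat_lit 3) (nat_lit 356) (nat_lit 356) (nat_lit 308))) (XT.nd (nat_lit 78) (nat_lit 0) (nat_lit 0) (XT.lf (nat_lit 0) (nat_lit 2936941519) (nat_lit 684) (nat_lit 3727595678) (nat_lit 760) (nat_lit 2945010800) (nat_lit 303) (nat_lit 5) (nat_lit 312) (nat_lit 3) (nat_lit 313) (nat_lit 5) (nat_lit 357) (nat_lit 356) (nat_lit 307)) (XT.lf (nat_lit 76) (nat_lit 1172343586) (nat_lit 0) (nat_lit 2700247395) (nat_lit 760) (nat_lit 5940033440) (nat_lit 304) (nat_lit 5) (nat_lit 303) (nat_lit 5) (nat_lit 313) (nat_lit 5) (nat_lit 358) (nat_lit 356)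 (nat_lit 306)))))) (XT.nd (nat_lit 624) (nat_lit 1976) (nat_lit 0) (XT.nd (nat_lit 312) (nat_lit 608) (nat_lit 0) (XT.nd (nat_lit 156) (nat_lit 0) (nat_lit 76) (XT.nd (nat_lit 78) (nat_lit 0) (nat_lit 0) (XT.lf (nat_lit 0) (nat_lit 4892997480) (nat_lit 684) (nat_lit 3631065593) (nat_lit 760) (nat_lit 1499892867) (nat_lit 304) (nat_lit 5) (nat_lit 313) (nat_lit 5) (nat_lit 314) (nat_lit 5) (nat_lit 359) (nat_lit 356) (nat_lit 305)) (XT.lf (nat_lit 76) (nat_lit 1606036740) (nat_lit 0) (nat_lit 4381043982) (nat_lit 760) (nat_lit 4257640491) (nat_lit 305) (nat_lit 5) (nat_lit 304) (nat_lit 5) (nat_lit 314) (nat_lit 5) (nat_lit 360) (nat_lit 356) (nat_lit 304))) (XT.nd (nat_lit 78) (nat_lit 0) (nat_lit 0) (XT.lf (nat_lit 0) (nat_lit 7153214992) (nat_lit 684) (nat_lit 3274641670) (nat_lit 760) (nat_lit 47800745) (nat_lit 305) (nat_lit 5) (nat_lit 314) (nat_lit 5) (nat_lit 315) (nat_lit 5) (nat_lit 361)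 (nat_lit 356) (nat_lit 303)) (XT.lf (nat_lit 76) (nat_lit 2330150698) (nat_lit 0) (nat_lit 6113160085) (nat_lit 760) (nat_lit 2271546887) (nat_lit 306) (nat_lit 5) (nat_lit 305) (nat_lit 5) (nat_lit 315) (nat_lit 5) (nat_lit 362) (nat_lit 356) (nat_lit 302)))) (XT.nd (nat_lit 156) (nat_lit 0) (nat_lit 0) (XT.nd (nat_lit 78) (nat_lit 684) (nat_lit 0) (XT.lf (nat_lit 76) (nat_lit 8299146576) (nat_lit 0) (nat_lit 1513238570) (nat_lit 760) (nat_lit 1152909111) (nat_lit 306) (nat_lit 5) (nat_lit 305) (nat_lit 5) (nat_lit 315) (nat_lit 5) (nat_lit 363) (nat_lit 356) (nat_lit 301)) (XT.lf (nat_lit 0) (nat_lit 87476044) (nat_lit 760) (nat_lit 7862600391) (nat_lit 836) (nat_lit 3274833890) (nat_lit 296) (nat_lit 5) (nat_lit 306) (nat_lit 5) (nat_lit 307) (nat_lit 5) (nat_lit 364) (nat_lit 356) (nat_lit 300))) (XT.nd (nat_lit 78) (nat_lit 0) (nat_lit 76) (XT.lf (nat_lit 0) (nat_lit 1383739077) (nat_lit 760)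 (nat_lit 1786140777) (nat_lit 836) (nat_lit 8325052140) (nat_lit 296) (nat_lit 5) (nat_lit 306) (nat_lit 5) (nat_lit 307) (nat_lit 5) (nat_lit 365) (nat_lit 356) (nat_lit 299)) (XT.lf (nat_lit 0) (nat_lit 2812335875) (nat_lit 760) (nat_lit 7091419141) (nat_lit 76) (nat_lit 1871323699) (nat_lit 297) (nat_lit 5) (nat_lit 307) (nat_lit 5) (nat_lit 298) (nat_lit 5) (nat_lit 366) (nat_lit 356) (nat_lit 298))))) (XT.nd (nat_lit 312) (nat_lit 836) (nat_lit 0) (XT.nd (nat_lit 156) (nat_lit 456) (nat_lit 0) (XT.nd (nat_lit 78) (nat_lit 760) (nat_lit 0) (XT.lf (nat_lit 0) (nat_lit 4360152462) (nat_lit 760) (nat_lit 612293425) (nat_lit 76) (nat_lit 7094397388) (nat_lit 297) (nat_lit 5) (nat_lit 307) (nat_lit 5) (nat_lit 298) (nat_lit 5) (nat_lit 367) (nat_lit 356) (nat_lit 297)) (XT.lf (nat_lit 0) (nat_lit 6056370146) (nat_lit 836) (nat_lit 6009871364) (nat_lit 76) (nat_lit 303404039) (nat_lit 287) (nat_lit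 5) (nat_lit 298) (nat_lit 5) (nat_lit 288) (nat_lit 5) (nat_lit 368) (nat_lit 356) (nat_lit 296))) (XT.nd (nat_lit 78) (nat_lit 0) (nat_lit 0) (XT.lf (nat_lit 0) (nat_lit 932008564) (nat_lit 456) (nat_lit 6979915079) (nat_lit 532) (nat_lit 4771938050) (nat_lit 281) (nat_lit 5) (nat_lit 287) (nat_lit 5) (nat_lit 288) (nat_lit 5) (nat_lit 369) (nat_lit 356) (nat_lit 295)) (XT.lf (nat_lit 0) (nat_lit 8399358738) (nat_lit 456) (nat_lit 1531649871) (nat_lit 532) (nat_lit 3079242343) (nat_lit 281) (nat_lit 5) (nat_lit 287) (nat_lit 5) (nat_lit 288) (nat_lit 5) (nat_lit 370) (nat_lit 356) (nat_lit 294)))) (XT.nd (nat_lit 156) (nat_lit 380) (nat_lit 0) (XT.nd (nat_lit 78) (nat_lit 76) (nat_lit 0) (XT.lf (nat_lit 0) (nat_lit 2883690381) (nat_lit 380) (nat_lit 9248244768) (nat_lit 456) (nat_lit 1216980159) (nat_lit 276) (nat_lit 5) (nat_lit 281) (nat_lit 5) (nat_lit 282) (nat_lit 5) (nat_lit 371) (nat_lit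 356) (nat_lit 293)) (XT.lf (nat_lit 0) (nat_lit 790173077) (nat_lit 456) (nat_lit 2856236183) (nat_lit 76) (nat_lit 10053756640) (nat_lit 275) (nat_lit 5) (nat_lit 281) (nat_lit 5) (nat_lit 276) (nat_lit 5) (nat_lit 372) (nat_lit 356) (nat_lit 292))) (XT.nd (nat_lit 78) (nat_lit 0) (nat_lit 0) (XT.lf (nat_lit 0) (nat_lit 2947651043) (nat_lit 456) (nat_lit 8849790632) (nat_lit 76) (nat_lit 2265996544) (nat_lit 270) (nat_lit 5) (nat_lit 276) (nat_lit 5) (nat_lit 271) (nat_lit 5) (nat_lit 373) (nat_lit 356) (nat_lit 291)) (XT.lf (nat_lit 0) (nat_lit 5295099142) (nat_lit 456) (nat_lit 746999709) (nat_lit 76) (nat_lit 8398670491) (nat_lit 270) (nat_lit 5) (nat_lit 276) (nat_lit 5) (nat_lit 271) (nat_lit 5) (nat_lit 374) (nat_lit 356) (nat_lit 290))))))) (XT.nd (nat_lit 1248) (nat_lit 1824) (nat_lit 0) (XT.nd (nat_lit 624) (nat_lit 1368) (nat_lit 0) (XT.nd (nat_lit 312) (nat_lit 532) (nat_lit 0) (XT.nd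 (nat_lit 156) (nat_lit 380) (nat_lit 0) (XT.nd (nat_lit 78) (nat_lit 304) (nat_lit 0) (XT.lf (nat_lit 0) (nat_lit 7861076271) (nat_lit 380) (nat_lit 6846153617) (nat_lit 76) (nat_lit 124679302) (nat_lit 266) (nat_lit 5) (nat_lit 271) (nat_lit 5) (nat_lit 267) (nat_lit 5) (nat_lit 375) (nat_lit 356) (nat_lit 289)) (XT.lf (nat_lit 0) (nat_lit 1870263840) (nat_lit 304) (nat_lit 8801352198) (nat_lit 380) (nat_lit 4565176803) (nat_lit 262) (nat_lit 5) (nat_lit 266) (nat_lit 5) (nat_lit 267) (nat_lit 5) (nat_lit 376) (nat_lit 356) (nat_lit 288))) (XT.nd (nat_lit 78) (nat_lit 380) (nat_lit 0) (XT.lf (nat_lit 0) (nat_lit 11231212757) (nat_lit 304) (nat_lit 2483298458) (nat_lit 380) (nat_lit 1942818039) (nat_lit 262) (nat_lit 5) (nat_lit 266) (nat_lit 5) (nat_lit 267) (nat_lit 5) (nat_lit 377) (nat_lit 356) (nat_lit 287)) (XT.lf (nat_lit 0) (nat_lit 906962898) (nat_lit 380) (nat_lit 11078709689) (nat_lit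 76) (nat_lit 4106474548) (nat_lit 257) (nat_lit 5) (nat_lit 262) (nat_lit 5) (nat_lit 258) (nat_lit 5) (nat_lit 378) (nat_lit 356) (nat_lit 286)))) (XT.nd (nat_lit 156) (nat_lit 228) (nat_lit 0) (XT.nd (nat_lit 78) (nat_lit 304) (nat_lit 0) (XT.lf (nat_lit 0) (nat_lit 3928089865) (nat_lit 380) (nat_lit 1569070862) (nat_lit 76) (nat_lit 11045245291) (nat_lit 257) (nat_lit 5) (nat_lit 262) (nat_lit 5) (nat_lit 258) (nat_lit 5) (nat_lit 379) (nat_lit 356) (nat_lit 285)) (XT.lf (nat_lit 0) (nat_lit 7236574325) (nat_lit 380) (nat_lit 8366333860) (nat_lit 76) (nat_lit 1405454601) (nat_lit 253) (nat_lit 5) (nat_lit 258) (nat_lit 5) (nat_lit 254) (nat_lit 5) (nat_lit 380) (nat_lit 356) (nat_lit 284))) (XT.nd (nat_lit 78) (nat_lit 0) (nat_lit 0) (XT.lf (nat_lit 0) (nat_lit 1862846482) (nat_lit 228) (nat_lit 8972694529) (nat_lit 304) (nat_lit 6655823483) (nat_lit 250) (nat_lit 5) (nat_lit 253) (nat_lit 5)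 (nat_lit 254) (nat_lit 5) (nat_lit 381) (nat_lit 356) (nat_lit 283)) (XT.lf (nat_lit 0) (nat_lit 12866306388) (nat_lit 228) (nat_lit 1869261036) (nat_lit 304) (nat_lit 3256893293) (nat_lit 250) (nat_lit 5) (nat_lit 253) (nat_lit 5) (nat_lit 254) (nat_lit 5) (nat_lit 382) (nat_lit 356) (nat_lit 282))))) (XT.nd (nat_lit 312) (nat_lit 532) (nat_lit 0) (XT.nd (nat_lit 156) (nat_lit 456) (nat_lit 0) (XT.nd (nat_lit 78) (nat_lit 0) (nat_lit 0) (XT.lf (nat_lit 0) (nat_lit 465535826) (nat_lit 380) (nat_lit 12539871631) (nat_lit 76) (nat_lit 5504783855) (nat_lit 245) (nat_lit 5) (nat_lit 250) (nat_lit 5) (nat_lit 246) (nat_lit 5) (nat_lit 383) (nat_lit 356) (nat_lit 281)) (XT.lf (nat_lit 0) (nat_lit 4364018362) (nat_lit 380) (nat_lit 1362744586) (nat_lit 76) (nat_lit 13319406657) (nat_lit 245) (nat_lit 5) (nat_lit 250) (nat_lit 5) (nat_lit 246) (nat_lit 5) (nat_lit 384) (nat_lit 356) (nat_lit 280))) (XT.nd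 (nat_lit 78) (nat_lit 228) (nat_lit 0) (XT.lf (nat_lit 0) (nat_lit 8638276488) (nat_lit 304) (nat_lit 8944797547) (nat_lit 76) (nat_lit 2016830206) (nat_lit 242) (nat_lit 5) (nat_lit 246) (nat_lit 5) (nat_lit 243) (nat_lit 5) (nat_lit 385) (nat_lit 356) (nat_lit 279)) (XT.lf (nat_lit 0) (nat_lit 3120130270) (nat_lit 228) (nat_lit 10153966947) (nat_lit 304) (nat_lit 6899835906) (nat_lit 239) (nat_lit 5) (nat_lit 242) (nat_lit 5) (nat_lit 243) (nat_lit 5) (nat_lit 386) (nat_lit 356) (nat_lit 278)))) (XT.nd (nat_lit 156) (nat_lit 228) (nat_lit 0) (XT.nd (nat_lit 78) (nat_lit 304) (nat_lit 0) (XT.lf (nat_lit 0) (nat_lit 16072810523) (nat_lit 228) (nat_lit 2202640500) (nat_lit 304) (nat_lit 2494525325) (nat_lit 239) (nat_lit 5) (nat_lit 242) (nat_lit 5) (nat_lit 243) (nat_lit 5) (nat_lit 387) (nat_lit 356) (nat_lit 277)) (XT.lf (nat_lit 0) (nat_lit 2276779300) (nat_lit 304) (nat_lit 12996527336) (nat_lit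 76) (nat_lit 6110154740) (nat_lit 235) (nat_lit 5) (nat_lit 239) (nat_lit 5) (nat_lit 236) (nat_lit 5) (nat_lit 388) (nat_lit 356) (nat_lit 276))) (XT.nd (nat_lit 78) (nat_lit 0) (nat_lit 0) (XT.lf (nat_lit 0) (nat_lit 166012139) (nat_lit 228) (nat_lit 7139483700) (nat_lit 304) (nat_lit 14714946171) (nat_lit 232) (nat_lit 5) (nat_lit 235) (nat_lit 5) (nat_lit 236) (nat_lit 5) (nat_lit 389) (nat_lit 356) (nat_lit 275)) (XT.lf (nat_lit 0) (nat_lit 12814630527) (nat_lit 304) (nat_lit 8291797423) (nat_lit 76) (nat_lit 1571394608) (nat_lit 232) (nat_lit 5) (nat_lit 236) (nat_lit 5) (nat_lit 233) (nat_lit 5) (nat_lit 390) (nat_lit 356) (nat_lit 274)))))) (XT.nd (nat_lit 624) (nat_lit 836) (nat_lit 0) (XT.nd (nat_lit 312) (nat_lit 380) (nat_lit 0) (XT.nd (nat_lit 156) (nat_lit 380) (nat_lit 0) (XT.nd (nat_lit 78) (nat_lit 76) (nat_lit 0) (XT.lf (nat_lit 0) (nat_lit 5999236787) (nat_lit 152) (nat_lit 12794878962)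 (nat_lit 228) (nat_lit 4564211696) (nat_lit 230) (nat_lit 5) (nat_lit 232) (nat_lit 5) (nat_lit 233) (nat_lit 5) (nat_lit 391) (nat_lit 356) (nat_lit 273)) (XT.lf (nat_lit 0) (nat_lit 1094756701) (nat_lit 228) (nat_lit 2815874150) (nat_lit 76) (nat_lit 20155094493) (nat_lit 229) (nat_lit 5) (nat_lit 232) (nat_lit 5) (nat_lit 230) (nat_lit 5) (nat_lit 392) (nat_lit 356) (nat_lit 272))) (XT.nd (nat_lit 78) (nat_lit 152) (nat_lit 0) (XT.lf (nat_lit 0) (nat_lit 7156578240) (nat_lit 304) (nat_lit 12119894102) (nat_lit 76) (nat_lit 5514615029) (nat_lit 226) (nat_lit 5) (nat_lit 230) (nat_lit 5) (nat_lit 227) (nat_lit 5) (nat_lit 393) (nat_lit 356) (nat_lit 271)) (XT.lf (nat_lit 0) (nat_lit 3503429107) (nat_lit 152) (nat_lit 10170607789) (nat_lit 228) (nat_lit 11871053303) (nat_lit 224) (nat_lit 5) (nat_lit 226) (nat_lit 5) (nat_lit 227) (nat_lit 5) (nat_lit 394) (nat_lit 356) (nat_lit 270)))) (XT.nd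 (nat_lit 156) (nat_lit 152) (nat_lit 0) (XT.nd (nat_lit 78) (nat_lit 228) (nat_lit 0) (XT.lf (nat_lit 0) (nat_lit 20305224784) (nat_lit 152) (nat_lit 403004054) (nat_lit 228) (nat_lit 5619021311) (nat_lit 224) (nat_lit 5) (nat_lit 226) (nat_lit 5) (nat_lit 227) (nat_lit 5) (nat_lit 395) (nat_lit 356) (nat_lit 269)) (XT.lf (nat_lit 0) (nat_lit 1231757785) (nat_lit 228) (nat_lit 16179755770) (nat_lit 76) (nat_lit 9720445809) (nat_lit 221) (nat_lit 5) (nat_lit 224) (nat_lit 5) (nat_lit 222) (nat_lit 5) (nat_lit 396) (nat_lit 356) (nat_lit 268))) (XT.nd (nat_lit 78) (nat_lit 0) (nat_lit 0) (XT.lf (nat_lit 0) (nat_lit 918424416) (nat_lit 152) (nat_lit 7428659338) (nat_lit 228) (nat_lit 19619672339) (nat_lit 219) (nat_lit 5) (nat_lit 221) (nat_lit 5) (nat_lit 222) (nat_lit 5) (nat_lit 397) (nat_lit 356) (nat_lit 267)) (XT.lf (nat_lit 0) (nat_lit 16130750543) (nat_lit 228) (nat_lit 9471663781) (nat_lit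 76) (nat_lit 3225249605) (nat_lit 219) (nat_lit 5) (nat_lit 222) (nat_lit 5) (nat_lit 220) (nat_lit 5) (nat_lit 398) (nat_lit 356) (nat_lit 266))))) (XT.nd (nat_lit 312) (nat_lit 304) (nat_lit 0) (XT.nd (nat_lit 156) (nat_lit 304) (nat_lit 0) (XT.nd (nat_lit 78) (nat_lit 76) (nat_lit 0) (XT.lf (nat_lit 0) (nat_lit 9132302378) (nat_lit 152) (nat_lit 15422707449) (nat_lit 228) (nat_lit 5164036874) (nat_lit 217) (nat_lit 5) (nat_lit 219) (nat_lit 5) (nat_lit 220) (nat_lit 5) (nat_lit 399) (nat_lit 356) (nat_lit 265)) (XT.lf (nat_lit 0) (nat_lit 2807765104) (nat_lit 228) (nat_lit 1719285882) (nat_lit 76) (nat_lit 26118296677) (nat_lit 216) (nat_lit 5) (nat_lit 219) (nat_lit 5) (nat_lit 217) (nat_lit 5) (nat_lit 400) (nat_lit 356) (nat_lit 264))) (XT.nd (nat_lit 78) (nat_lit 152) (nat_lit 0) (XT.lf (nat_lit 0) (nat_lit 11396380080) (nat_lit 228) (nat_lit 13133263179) (nat_lit 76) (nat_lit 7064499177)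 (nat_lit 214) (nat_lit 5) (nat_lit 217) (nat_lit 5) (nat_lit 215) (nat_lit 5) (nat_lit 401) (nat_lit 356) (nat_lit 263)) (XT.lf (nat_lit 0) (nat_lit 7257219842) (nat_lit 152) (nat_lit 13362175263) (nat_lit 228) (nat_lit 11960733378) (nat_lit 212) (nat_lit 5) (nat_lit 214) (nat_lit 5) (nat_lit 215) (nat_lit 5) (nat_lit 402) (nat_lit 356) (nat_lit 262)))) (XT.nd (nat_lit 156) (nat_lit 152) (nat_lit 0) (XT.nd (nat_lit 78) (nat_lit 152) (nat_lit 0) (XT.lf (nat_lit 0) (nat_lit 29102339463) (nat_lit 152) (nat_lit 1411747993) (nat_lit 228) (nat_lit 3090800049) (nat_lit 212) (nat_lit 5) (nat_lit 214) (nat_lit 5) (nat_lit 215) (nat_lit 5) (nat_lit 403) (nat_lit 356) (nat_lit 261)) (XT.lf (nat_lit 0) (nat_lit 6469926376) (nat_lit 152) (nat_lit 17031055472) (nat_lit 76) (nat_lit 11152722022) (nat_lit 210) (nat_lit 5) (nat_lit 212) (nat_lit 5) (nat_lit 211) (nat_lit 5) (nat_lit 404) (nat_lit 356) (nat_lit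 260))) (XT.nd (nat_lit 78) (nat_lit 0) (nat_lit 0) (XT.lf (nat_lit 0) (nat_lit 5334617976) (nat_lit 152) (nat_lit 11242726196) (nat_lit 228) (nat_lit 19166457129) (nat_lit 208) (nat_lit 5) (nat_lit 210) (nat_lit 5) (nat_lit 211) (nat_lit 5) (nat_lit 405) (nat_lit 356) (nat_lit 259)) (XT.lf (nat_lit 0) (nat_lit 27497399522) (nat_lit 228) (nat_lit 7514708537) (nat_lit 76) (nat_lit 1860932210) (nat_lit 208) (nat_lit 5) (nat_lit 211) (nat_lit 5) (nat_lit 209) (nat_lit 4) (nat_lit 406) (nat_lit 356) (nat_lit 258))))))))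
noncomputable def xc179 : XT := (XT.nd (nat_lit 1248) (nat_lit 1140) (nat_lit 0) (XT.nd (nat_lit 624) (nat_lit 760) (nat_lit 0) (XT.nd (nat_lit 312) (nat_lit 380) (nat_lit 0) (XT.nd (nat_lit 156) (nat_lit 76) (nat_lit 0) (XT.nd (nat_lit 78) (nat_lit 152) (nat_lit 0) (XT.lf (nat_lit 0) (nat_lit 1319687964) (nat_lit 152) (nat_lit 21197823727) (nat_lit 76) (nat_lit 15518326833) (nat_lit 206) (nat_lit 5) (nat_lit 208) (nat_lit 5) (nat_lit 207) (nat_lit 5) (nat_lit 407) (nat_lit 356) (nat_lit 257)) (XT.lf (nat_lit 0) (nat_lit 3350819626) (nat_lit 152) (nat_lit 9054812297) (nat_lit 228) (nat_lit 26834913226) (nat_lit 204) (nat_lit 5) (nat_lit 206) (nat_lit 5) (nat_lit 207) (nat_lit 5) (nat_lit 408) (nat_lit 356) (nat_lit 256))) (XT.nd (nat_lit 78) (nat_lit 76) (nat_lit 0) (XT.lf (nat_lit 0) (nat_lit 24479423776) (nat_lit 228) (nat_lit 10729489079) (nat_lit 76) (nat_lit 5274896716) (nat_lit 204) (nat_lit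 5) (nat_lit 207) (nat_lit 5) (nat_lit 205) (nat_lit 4) (nat_lit 409) (nat_lit 356) (nat_lit 255)) (XT.lf (nat_lit 0) (nat_lit 16034895188) (nat_lit 76) (nat_lit 21510647925) (nat_lit 152) (nat_lit 4224262206) (nat_lit 203) (nat_lit 5) (nat_lit 204) (nat_lit 5) (nat_lit 205) (nat_lit 4) (nat_lit 410) (nat_lit 356) (nat_lit 254)))) (XT.nd (nat_lit 156) (nat_lit 152) (nat_lit 0) (XT.nd (nat_lit 78) (nat_lit 0) (nat_lit 0) (XT.lf (nat_lit 0) (nat_lit 1291504978) (nat_lit 152) (nat_lit 6787410451) (nat_lit 228) (nat_lit 35025090490) (nat_lit 200) (nat_lit 5) (nat_lit 202) (nat_lit 5) (nat_lit 203) (nat_lit 5) (nat_lit 411) (nat_lit 356) (nat_lit 253)) (XT.lf (nat_lit 0) (nat_lit 21423606574) (nat_lit 228) (nat_lit 14150953202) (nat_lit 76) (nat_lit 8898478388) (nat_lit 200) (nat_lit 5) (nat_lit 203) (nat_lit 5) (nat_lit 201) (nat_lit 4) (nat_lit 412) (nat_lit 356) (nat_lit 252))) (XT.nd (nat_lit 78)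 (nat_lit 76) (nat_lit 0) (XT.lf (nat_lit 0) (nat_lit 15252740059) (nat_lit 76) (nat_lit 20522623565) (nat_lit 152) (nat_lit 10118166828) (nat_lit 199) (nat_lit 5) (nat_lit 200) (nat_lit 5) (nat_lit 201) (nat_lit 4) (nat_lit 413) (nat_lit 356) (nat_lit 251)) (XT.lf (nat_lit 0) (nat_lit 3582964556) (nat_lit 152) (nat_lit 830974953) (nat_lit 76) (nat_lit 42956705387) (nat_lit 198) (nat_lit 5) (nat_lit 200) (nat_lit 5) (nat_lit 199) (nat_lit 5) (nat_lit 414) (nat_lit 356) (nat_lit 250))))) (XT.nd (nat_lit 312) (nat_lit 304) (nat_lit 0) (XT.nd (nat_lit 156) (nat_lit 228) (nat_lit 0) (XT.nd (nat_lit 78) (nat_lit 76) (nat_lit 0) (XT.lf (nat_lit 0) (nat_lit 18314279781) (nat_lit 228) (nat_lit 17807274326) (nat_lit 76) (nat_lit 12757509176) (nat_lit 196) (nat_lit 5) (nat_lit 199) (nat_lit 5) (nat_lit 197) (nat_lit 4) (nat_lit 415) (nat_lit 356) (nat_lit 249)) (XT.lf (nat_lit 0) (nat_lit 14511126141) (nat_lit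 76) (nat_lit 19575213465) (nat_lit 152) (nat_lit 16361354041) (nat_lit 195) (nat_lit 5) (nat_lit 196) (nat_lit 5) (nat_lit 197) (nat_lit 4) (nat_lit 416) (nat_lit 356) (nat_lit 248))) (XT.nd (nat_lit 78) (nat_lit 228) (nat_lit 0) (XT.lf (nat_lit 0) (nat_lit 49046878493) (nat_lit 76) (nat_lit 1892823316) (nat_lit 152) (nat_lit 1140418751) (nat_lit 195) (nat_lit 5) (nat_lit 196) (nat_lit 5) (nat_lit 197) (nat_lit 4) (nat_lit 417) (nat_lit 356) (nat_lit 247)) (XT.lf (nat_lit 0) (nat_lit 15134528697) (nat_lit 228) (nat_lit 21728978885) (nat_lit 76) (nat_lit 16880675912) (nat_lit 192) (nat_lit 5) (nat_lit 195) (nat_lit 5) (nat_lit 193) (nat_lit 4) (nat_lit 418) (nat_lit 356) (nat_lit 246)))) (XT.nd (nat_lit 156) (nat_lit 228) (nat_lit 0) (XT.nd (nat_lit 78) (nat_lit 0) (nat_lit 0) (XT.lf (nat_lit 0) (nat_lit 13807538576) (nat_lit 76) (nat_lit 18667624437) (nat_lit 152) (nat_lit 23000838539) (nat_lit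 191) (nat_lit 5) (nat_lit 192) (nat_lit 5) (nat_lit 193) (nat_lit 4) (nat_lit 419) (nat_lit 356) (nat_lit 245)) (XT.lf (nat_lit 0) (nat_lit 51055177738) (nat_lit 152) (nat_lit 5429977984) (nat_lit 0) (nat_lit 790637357) (nat_lit 191) (nat_lit 5) (nat_lit 193) (nat_lit 4) (nat_lit 191) (nat_lit 4) (nat_lit 420) (nat_lit 356) (nat_lit 244))) (XT.nd (nat_lit 78) (nat_lit 76) (nat_lit 0) (XT.lf (nat_lit 0) (nat_lit 11866082974) (nat_lit 152) (nat_lit 25949248785) (nat_lit 76) (nat_lit 21299729656) (nat_lit 189) (nat_lit 5) (nat_lit 191) (nat_lit 5) (nat_lit 190) (nat_lit 4) (nat_lit 421) (nat_lit 356) (nat_lit 243)) (XT.lf (nat_lit 0) (nat_lit 13139685860) (nat_lit 76) (nat_lit 17798898799) (nat_lit 152) (nat_lit 30088083547) (nat_lit 188) (nat_lit 5) (nat_lit 189) (nat_lit 5) (nat_lit 190) (nat_lit 4) (nat_lit 422) (nat_lit 356) (nat_lit 242)))))) (XT.nd (nat_lit 624) (nat_lit 532) (nat_lit 0) (XT.nd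 (nat_lit 312) (nat_lit 380) (nat_lit 0) (XT.nd (nat_lit 156) (nat_lit 76) (nat_lit 0) (XT.nd (nat_lit 78) (nat_lit 152) (nat_lit 0) (XT.lf (nat_lit 0) (nat_lit 51453564435) (nat_lit 152) (nat_lit 8000993241) (nat_lit 0) (nat_lit 3554855012) (nat_lit 188) (nat_lit 5) (nat_lit 190) (nat_lit 4) (nat_lit 188) (nat_lit 4) (nat_lit 423) (nat_lit 356) (nat_lit 241)) (XT.lf (nat_lit 0) (nat_lit 8489189122) (nat_lit 152) (nat_lit 30504245599) (nat_lit 76) (nat_lit 26049733492) (nat_lit 186) (nat_lit 5) (nat_lit 188) (nat_lit 5) (nat_lit 187) (nat_lit 4) (nat_lit 424) (nat_lit 356) (nat_lit 240))) (XT.nd (nat_lit 78) (nat_lit 0) (nat_lit 0) (XT.lf (nat_lit 0) (nat_lit 12505470840) (nat_lit 76) (nat_lit 16967958068) (nat_lit 152) (nat_lit 37679445459) (nat_lit 185) (nat_lit 5) (nat_lit 186) (nat_lit 5) (nat_lit 187) (nat_lit 4) (nat_lit 425) (nat_lit 356) (nat_lit 239)) (XT.lf (nat_lit 0) (nat_lit 52120470048)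 (nat_lit 152) (nat_lit 10737068910) (nat_lit 0) (nat_lit 6479847403) (nat_lit 185) (nat_lit 5) (nat_lit 187) (nat_lit 4) (nat_lit 185) (nat_lit 4) (nat_lit 426) (nat_lit 356) (nat_lit 238)))) (XT.nd (nat_lit 156) (nat_lit 152) (nat_lit 0) (XT.nd (nat_lit 78) (nat_lit 76) (nat_lit 0) (XT.lf (nat_lit 0) (nat_lit 4982464176) (nat_lit 152) (nat_lit 35433460293) (nat_lit 76) (nat_lit 31169349575) (nat_lit 183) (nat_lit 5) (nat_lit 185) (nat_lit 5) (nat_lit 184) (nat_lit 4) (nat_lit 427) (nat_lit 356) (nat_lit 237)) (XT.lf (nat_lit 0) (nat_lit 11902966346) (nat_lit 76) (nat_lit 16173638216) (nat_lit 152) (nat_lit 45836669716) (nat_lit 182) (nat_lit 5) (nat_lit 183) (nat_lit 5) (nat_lit 184) (nat_lit 4) (nat_lit 428) (nat_lit 356) (nat_lit 236))) (XT.nd (nat_lit 78) (nat_lit 152) (nat_lit 0) (XT.lf (nat_lit 0) (nat_lit 53073026492) (nat_lit 152) (nat_lit 13660263504) (nat_lit 0) (nat_lit 9587005802) (nat_lit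 182) (nat_lit 5) (nat_lit 184) (nat_lit 4) (nat_lit 182) (nat_lit 4) (nat_lit 429) (nat_lit 356) (nat_lit 235)) (XT.lf (nat_lit 0) (nat_lit 1322729789) (nat_lit 152) (nat_lit 40780092392) (nat_lit 76) (nat_lit 36701166919) (nat_lit 180) (nat_lit 5) (nat_lit 182) (nat_lit 5) (nat_lit 181) (nat_lit 4) (nat_lit 430) (nat_lit 356) (nat_lit 234))))) (XT.nd (nat_lit 312) (nat_lit 228) (nat_lit 0) (XT.nd (nat_lit 156) (nat_lit 228) (nat_lit 0) (XT.nd (nat_lit 78) (nat_lit 0) (nat_lit 0) (XT.lf (nat_lit 0) (nat_lit 11330394668) (nat_lit 76) (nat_lit 15414718017) (nat_lit 152) (nat_lit 54627442017) (nat_lit 179) (nat_lit 5) (nat_lit 180) (nat_lit 5) (nat_lit 181) (nat_lit 4) (nat_lit 431) (nat_lit 356) (nat_lit 233)) (XT.lf (nat_lit 0) (nat_lit 54330536595) (nat_lit 152) (nat_lit 16794571845) (nat_lit 0) (nat_lit 12899844050) (nat_lit 179) (nat_lit 5) (nat_lit 181) (nat_lit 4) (nat_lit 179) (nat_lit 4)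 (nat_lit 432) (nat_lit 356) (nat_lit 232))) (XT.nd (nat_lit 78) (nat_lit 152) (nat_lit 0) (XT.lf (nat_lit 0) (nat_lit 40134302028) (nat_lit 76) (nat_lit 44033692711) (nat_lit 76) (nat_lit 2598337277) (nat_lit 178) (nat_lit 4) (nat_lit 179) (nat_lit 5) (nat_lit 179) (nat_lit 4) (nat_lit 433) (nat_lit 356) (nat_lit 231)) (XT.lf (nat_lit 0) (nat_lit 10786110207) (nat_lit 76) (nat_lit 14689941737) (nat_lit 152) (nat_lit 64125999561) (nat_lit 176) (nat_lit 5) (nat_lit 177) (nat_lit 5) (nat_lit 178) (nat_lit 4) (nat_lit 434) (nat_lit 356) (nat_lit 230)))) (XT.nd (nat_lit 156) (nat_lit 152) (nat_lit 0) (XT.nd (nat_lit 78) (nat_lit 76) (nat_lit 0) (XT.lf (nat_lit 0) (nat_lit 55914691030) (nat_lit 152) (nat_lit 20166153172) (nat_lit 0) (nat_lit 16444190404) (nat_lit 176) (nat_lit 5) (nat_lit 178) (nat_lit 4) (nat_lit 176) (nat_lit 4) (nat_lit 435) (nat_lit 356) (nat_lit 229)) (XT.lf (nat_lit 0) (nat_lit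 42523993205) (nat_lit 76) (nat_lit 46249792144) (nat_lit 76) (nat_lit 6775455348) (nat_lit 175) (nat_lit 4) (nat_lit 176) (nat_lit 5) (nat_lit 176) (nat_lit 4) (nat_lit 436) (nat_lit 356) (nat_lit 228))) (XT.nd (nat_lit 78) (nat_lit 0) (nat_lit 0) (XT.lf (nat_lit 0) (nat_lit 10268584774) (nat_lit 76) (nat_lit 13998037208) (nat_lit 152) (nat_lit 74413807692) (nat_lit 173) (nat_lit 5) (nat_lit 174) (nat_lit 5) (nat_lit 175) (nat_lit 4) (nat_lit 437) (nat_lit 356) (nat_lit 227)) (XT.lf (nat_lit 0) (nat_lit 57849805237) (nat_lit 152) (nat_lit 23803578706) (nat_lit 0) (nat_lit 20248405417) (nat_lit 173) (nat_lit 5) (nat_lit 175) (nat_lit 4) (nat_lit 173) (nat_lit 4) (nat_lit 438) (nat_lit 356) (nat_lit 226)))))))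
noncomputable def xc180 : XT := (XT.nd (nat_lit 1248) (nat_lit 1292) (nat_lit 0) (XT.nd (nat_lit 624) (nat_lit 532) (nat_lit 0) (XT.nd (nat_lit 312) (nat_lit 380) (nat_lit 0) (XT.nd (nat_lit 156) (nat_lit 76) (nat_lit 0) (XT.nd (nat_lit 78) (nat_lit 152) (nat_lit 0) (XT.lf (nat_lit 0) (nat_lit 45241872633) (nat_lit 76) (nat_lit 48800201948) (nat_lit 76) (nat_lit 11195646102) (nat_lit 172) (nat_lit 4) (nat_lit 173) (nat_lit 5) (nat_lit 173) (nat_lit 4) (nat_lit 439) (nat_lit 356) (nat_lit 225)) (XT.lf (nat_lit 0) (nat_lit 9776395072) (nat_lit 76) (nat_lit 13337730127) (nat_lit 152) (nat_lit 85580308010) (nat_lit 170) (nat_lit 5) (nat_lit 171) (nat_lit 5) (nat_lit 172) (nat_lit 4) (nat_lit 440) (nat_lit 356) (nat_lit 224))) (XT.nd (nat_lit 78) (nat_lit 76) (nat_lit 0) (XT.lf (nat_lit 0) (nat_lit 60163078938) (nat_lit 152) (nat_lit 27738101289) (nat_lit 0) (nat_lit 24343627323) (nat_lit 170) (nat_lit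 5) (nat_lit 172) (nat_lit 4) (nat_lit 170) (nat_lit 4) (nat_lit 441) (nat_lit 356) (nat_lit 223)) (XT.lf (nat_lit 0) (nat_lit 48317412361) (nat_lit 76) (nat_lit 51714482798) (nat_lit 76) (nat_lit 15892434712) (nat_lit 169) (nat_lit 4) (nat_lit 170) (nat_lit 5) (nat_lit 170) (nat_lit 4) (nat_lit 442) (nat_lit 356) (nat_lit 222)))) (XT.nd (nat_lit 156) (nat_lit 228) (nat_lit 0) (XT.nd (nat_lit 78) (nat_lit 0) (nat_lit 0) (XT.lf (nat_lit 0) (nat_lit 9308212006) (nat_lit 76) (nat_lit 12707755272) (nat_lit 152) (nat_lit 97723744755) (nat_lit 167) (nat_lit 5) (nat_lit 168) (nat_lit 5) (nat_lit 169) (nat_lit 4) (nat_lit 443) (nat_lit 356) (nat_lit 221)) (XT.lf (nat_lit 0) (nat_lit 62884881002) (nat_lit 152) (nat_lit 32003949908) (nat_lit 0) (nat_lit 28764046725) (nat_lit 167) (nat_lit 5) (nat_lit 169) (nat_lit 4) (nat_lit 167) (nat_lit 4) (nat_lit 444) (nat_lit 356) (nat_lit 220))) (XT.nd (nat_lit 78)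 (nat_lit 152) (nat_lit 0) (XT.lf (nat_lit 0) (nat_lit 51783339793) (nat_lit 76) (nat_lit 55025379099) (nat_lit 76) (nat_lit 20902408699) (nat_lit 166) (nat_lit 4) (nat_lit 167) (nat_lit 5) (nat_lit 167) (nat_lit 4) (nat_lit 445) (nat_lit 356) (nat_lit 219)) (XT.lf (nat_lit 0) (nat_lit 8862791516) (nat_lit 76) (nat_lit 12106865224) (nat_lit 152) (nat_lit 110952077072) (nat_lit 164) (nat_lit 5) (nat_lit 165) (nat_lit 5) (nat_lit 166) (nat_lit 4) (nat_lit 446) (nat_lit 356) (nat_lit 218))))) (XT.nd (nat_lit 312) (nat_lit 304) (nat_lit 0) (XT.nd (nat_lit 156) (nat_lit 152) (nat_lit 0) (XT.nd (nat_lit 78) (nat_lit 76) (nat_lit 0) (XT.lf (nat_lit 0) (nat_lit 66049062622) (nat_lit 152) (nat_lit 36638652056) (nat_lit 0) (nat_lit 33547212784) (nat_lit 164) (nat_lit 5) (nat_lit 166) (nat_lit 4) (nat_lit 164) (nat_lit 4) (nat_lit 447) (nat_lit 356) (nat_lit 217)) (XT.lf (nat_lit 0) (nat_lit 55675953807) (nat_lit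 76) (nat_lit 58769150473) (nat_lit 76) (nat_lit 26265543241) (nat_lit 163) (nat_lit 4) (nat_lit 164) (nat_lit 5) (nat_lit 164) (nat_lit 4) (nat_lit 448) (nat_lit 356) (nat_lit 216))) (XT.nd (nat_lit 78) (nat_lit 0) (nat_lit 0) (XT.lf (nat_lit 0) (nat_lit 8438966668) (nat_lit 76) (nat_lit 11533837042) (nat_lit 152) (nat_lit 125383985613) (nat_lit 161) (nat_lit 5) (nat_lit 162) (nat_lit 5) (nat_lit 163) (nat_lit 4) (nat_lit 449) (nat_lit 356) (nat_lit 215)) (XT.lf (nat_lit 0) (nat_lit 69693302001) (nat_lit 152) (nat_lit 41683387177) (nat_lit 0) (nat_lit 38734373480) (nat_lit 161) (nat_lit 5) (nat_lit 163) (nat_lit 4) (nat_lit 161) (nat_lit 4) (nat_lit 450) (nat_lit 356) (nat_lit 214)))) (XT.nd (nat_lit 156) (nat_lit 76) (nat_lit 0) (XT.nd (nat_lit 78) (nat_lit 152) (nat_lit 0) (XT.lf (nat_lit 0) (nat_lit 60035475245) (nat_lit 76) (nat_lit 62985934754) (nat_lit 76) (nat_lit 32025560421) (nat_lit 160)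 (nat_lit 4) (nat_lit 161) (nat_lit 5) (nat_lit 161) (nat_lit 4) (nat_lit 451) (nat_lit 356) (nat_lit 213)) (XT.lf (nat_lit 0) (nat_lit 8035640815) (nat_lit 76) (nat_lit 10987477288) (nat_lit 152) (nat_lit 141149982886) (nat_lit 158) (nat_lit 5) (nat_lit 159) (nat_lit 5) (nat_lit 160) (nat_lit 4) (nat_lit 452) (nat_lit 356) (nat_lit 212))) (XT.nd (nat_lit 78) (nat_lit 76) (nat_lit 0) (XT.lf (nat_lit 0) (nat_lit 73859484002) (nat_lit 152) (nat_lit 47183374645) (nat_lit 0) (nat_lit 44370852867) (nat_lit 158) (nat_lit 5) (nat_lit 160) (nat_lit 4) (nat_lit 158) (nat_lit 4) (nat_lit 453) (nat_lit 356) (nat_lit 211)) (XT.lf (nat_lit 0) (nat_lit 64906435005) (nat_lit 76) (nat_lit 67720146257) (nat_lit 76) (nat_lit 38230325649) (nat_lit 157) (nat_lit 4) (nat_lit 158) (nat_lit 5) (nat_lit 158) (nat_lit 4) (nat_lit 454) (nat_lit 356) (nat_lit 210)))))) (XT.nd (nat_lit 624) (nat_lit 684) (nat_lit 0) (XT.nd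 (nat_lit 312) (nat_lit 228) (nat_lit 0) (XT.nd (nat_lit 156) (nat_lit 228) (nat_lit 0) (XT.nd (nat_lit 78) (nat_lit 0) (nat_lit 0) (XT.lf (nat_lit 0) (nat_lit 7651781635) (nat_lit 76) (nat_lit 10466625718) (nat_lit 152) (nat_lit 158393637754) (nat_lit 155) (nat_lit 5) (nat_lit 156) (nat_lit 5) (nat_lit 157) (nat_lit 4) (nat_lit 455) (nat_lit 356) (nat_lit 209)) (XT.lf (nat_lit 0) (nat_lit 78594118530) (nat_lit 152) (nat_lit 53188300096) (nat_lit 0) (nat_lit 50506468695) (nat_lit 155) (nat_lit 5) (nat_lit 157) (nat_lit 4) (nat_lit 155) (nat_lit 4) (nat_lit 456) (nat_lit 356) (nat_lit 208))) (XT.nd (nat_lit 78) (nat_lit 152) (nat_lit 0) (XT.lf (nat_lit 0) (nat_lit 70338103343) (nat_lit 76) (nat_lit 73020913326) (nat_lit 76) (nat_lit 44932284908) (nat_lit 154) (nat_lit 4) (nat_lit 155) (nat_lit 5) (nat_lit 155) (nat_lit 4) (nat_lit 457) (nat_lit 356) (nat_lit 207)) (XT.lf (nat_lit 0) (nat_lit 7286415925)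 (nat_lit 76) (nat_lit 9970157892) (nat_lit 152) (nat_lit 177272925616) (nat_lit 152) (nat_lit 5) (nat_lit 153) (nat_lit 5) (nat_lit 154) (nat_lit 4) (nat_lit 458) (nat_lit 356) (nat_lit 206)))) (XT.nd (nat_lit 156) (nat_lit 152) (nat_lit 0) (XT.nd (nat_lit 78) (nat_lit 76) (nat_lit 0) (XT.lf (nat_lit 0) (nat_lit 83948801779) (nat_lit 152) (nat_lit 59752784222) (nat_lit 0) (nat_lit 57195994155) (nat_lit 152) (nat_lit 5) (nat_lit 154) (nat_lit 4) (nat_lit 152) (nat_lit 4) (nat_lit 459) (nat_lit 356) (nat_lit 205)) (XT.lf (nat_lit 0) (nat_lit 76384964394) (nat_lit 76) (nat_lit 78942559543) (nat_lit 76) (nat_lit 52188946837) (nat_lit 151) (nat_lit 4) (nat_lit 152) (nat_lit 5) (nat_lit 152) (nat_lit 4) (nat_lit 460) (nat_lit 356) (nat_lit 204))) (XT.nd (nat_lit 78) (nat_lit 0) (nat_lit 0) (XT.lf (nat_lit 0) (nat_lit 6938625022) (nat_lit 76) (nat_lit 9496986915) (nat_lit 152) (nat_lit 197961717022) (nat_lit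 149) (nat_lit 5) (nat_lit 150) (nat_lit 5) (nat_lit 151) (nat_lit 4) (nat_lit 461) (nat_lit 356) (nat_lit 203)) (XT.lf (nat_lit 0) (nat_lit 89980724821) (nat_lit 152) (nat_lit 66936898577) (nat_lit 0) (nat_lit 64499667979) (nat_lit 149) (nat_lit 5) (nat_lit 151) (nat_lit 4) (nat_lit 149) (nat_lit 4) (nat_lit 462) (nat_lit 356) (nat_lit 202))))) (XT.nd (nat_lit 312) (nat_lit 380) (nat_lit 0) (XT.nd (nat_lit 156) (nat_lit 76) (nat_lit 0) (XT.nd (nat_lit 78) (nat_lit 152) (nat_lit 0) (XT.lf (nat_lit 0) (nat_lit 83107240401) (nat_lit 76) (nat_lit 85545133341) (nat_lit 76) (nat_lit 60063414156) (nat_lit 148) (nat_lit 4) (nat_lit 149) (nat_lit 5) (nat_lit 149) (nat_lit 4) (nat_lit 463) (nat_lit 356) (nat_lit 201)) (XT.lf (nat_lit 0) (nat_lit 6607540746) (nat_lit 76) (nat_lit 9046064489) (nat_lit 152) (nat_lit 220651418787) (nat_lit 146) (nat_lit 5) (nat_lit 147) (nat_lit 5) (nat_lit 148) (nat_lit 4)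 (nat_lit 464) (nat_lit 356) (nat_lit 200))) (XT.nd (nat_lit 78) (nat_lit 76) (nat_lit 0) (XT.lf (nat_lit 0) (nat_lit 96753234522) (nat_lit 152) (nat_lit 74806733336) (nat_lit 0) (nat_lit 72483757614) (nat_lit 146) (nat_lit 5) (nat_lit 148) (nat_lit 4) (nat_lit 146) (nat_lit 4) (nat_lit 465) (nat_lit 356) (nat_lit 199)) (XT.lf (nat_lit 0) (nat_lit 90571470574) (nat_lit 76) (nat_lit 92894991207) (nat_lit 76) (nat_lit 68624969388) (nat_lit 145) (nat_lit 4) (nat_lit 146) (nat_lit 5) (nat_lit 146) (nat_lit 4) (nat_lit 466) (nat_lit 356) (nat_lit 198)))) (XT.nd (nat_lit 156) (nat_lit 228) (nat_lit 0) (XT.nd (nat_lit 78) (nat_lit 0) (nat_lit 0) (XT.lf (nat_lit 0) (nat_lit 6292341809) (nat_lit 76) (nat_lit 8616381406) (nat_lit 152) (nat_lit 245552783169) (nat_lit 143) (nat_lit 5) (nat_lit 144) (nat_lit 5) (nat_lit 145) (nat_lit 4) (nat_lit 467) (nat_lit 356) (nat_lit 197)) (XT.lf (nat_lit 0) (nat_lit 104336452170)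 (nat_lit 152) (nat_lit 83435022469) (nat_lit 0) (nat_lit 81221180710) (nat_lit 143) (nat_lit 5) (nat_lit 145) (nat_lit 4) (nat_lit 143) (nat_lit 4) (nat_lit 468) (nat_lit 356) (nat_lit 196))) (XT.nd (nat_lit 78) (nat_lit 152) (nat_lit 0) (XT.lf (nat_lit 0) (nat_lit 98851150090) (nat_lit 76) (nat_lit 101065440149) (nat_lit 76) (nat_lit 77949720389) (nat_lit 142) (nat_lit 4) (nat_lit 143) (nat_lit 5) (nat_lit 143) (nat_lit 4) (nat_lit 469) (nat_lit 356) (nat_lit 195)) (XT.nd (nat_lit 78) (nat_lit 0) (nat_lit 0) (XT.lf (nat_lit 0) (nat_lit 5992250592) (nat_lit 76) (nat_lit 8206967604) (nat_lit 152) (nat_lit 272897902258) (nat_lit 140) (nat_lit 5) (nat_lit 141) (nat_lit 5) (nat_lit 142) (nat_lit 4) (nat_lit 470) (nat_lit 356) (nat_lit 194)) (XT.lf (nat_lit 0) (nat_lit 112807955823) (nat_lit 152) (nat_lit 92901832299) (nat_lit 0) (nat_lit 90792190744) (nat_lit 140) (nat_lit 5) (nat_lit 142) (nat_lit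 4) (nat_lit 140) (nat_lit 4) (nat_lit 471) (nat_lit 356) (nat_lit 193))))))))
noncomputable def xc181 : XT := (XT.nd (nat_lit 45006) (nat_lit 0) (nat_lit 7600) (XT.nd (nat_lit 1248) (nat_lit 380) (nat_lit 0) (XT.nd (nat_lit 624) (nat_lit 532) (nat_lit 0) (XT.nd (nat_lit 312) (nat_lit 380) (nat_lit 0) (XT.nd (nat_lit 156) (nat_lit 76) (nat_lit 0) (XT.nd (nat_lit 78) (nat_lit 152) (nat_lit 0) (XT.lf (nat_lit 0) (nat_lit 108027435273) (nat_lit 76) (nat_lit 110137445646) (nat_lit 76) (nat_lit 88121311749) (nat_lit 139) (nat_lit 4) (nat_lit 140) (nat_lit 5) (nat_lit 140) (nat_lit 4) (nat_lit 472) (nat_lit 356) (nat_lit 192)) (XT.lf (nat_lit 0) (nat_lit 5706530263) (nat_lit 76) (nat_lit 7816891890) (nat_lit 152) (nat_lit 302942406525) (nat_lit 137) (nat_lit 5) (nat_lit 138) (nat_lit 5) (nat_lit 139) (nat_lit 4) (nat_lit 473) (nat_lit 356) (nat_lit 191))) (XT.nd (nat_lit 78) (nat_lit 76) (nat_lit 0) (XT.lf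 (nat_lit 0) (nat_lit 122253532925) (nat_lit 152) (nat_lit 103295320045) (nat_lit 0) (nat_lit 101285133230) (nat_lit 137) (nat_lit 5) (nat_lit 139) (nat_lit 4) (nat_lit 137) (nat_lit 4) (nat_lit 474) (nat_lit 356) (nat_lit 190)) (XT.lf (nat_lit 0) (nat_lit 118189921673) (nat_lit 76) (nat_lit 120200411915) (nat_lit 76) (nat_lit 99231708792) (nat_lit 136) (nat_lit 4) (nat_lit 137) (nat_lit 5) (nat_lit 137) (nat_lit 4) (nat_lit 475) (nat_lit 356) (nat_lit 189)))) (XT.nd (nat_lit 156) (nat_lit 228) (nat_lit 0) (XT.nd (nat_lit 78) (nat_lit 0) (nat_lit 0) (XT.lf (nat_lit 0) (nat_lit 5434482160) (nat_lit 76) (nat_lit 7445261381) (nat_lit 152) (nat_lit 335967888408) (nat_lit 134) (nat_lit 5) (nat_lit 135) (nat_lit 5) (nat_lit 136) (nat_lit 4) (nat_lit 476) (nat_lit 356) (nat_lit 188)) (XT.lf (nat_lit 0) (nat_lit 132768010416) (nat_lit 152) (nat_lit 114712569577) (nat_lit 0) (nat_lit 112797279637) (nat_lit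 134) (nat_lit 5) (nat_lit 136) (nat_lit 4) (nat_lit 134) (nat_lit 4) (nat_lit 477) (nat_lit 356) (nat_lit 187))) (XT.nd (nat_lit 78) (nat_lit 152) (nat_lit 0) (XT.lf (nat_lit 0) (nat_lit 129437502424) (nat_lit 76) (nat_lit 131353041995) (nat_lit 76) (nat_lit 111382061586) (nat_lit 133) (nat_lit 4) (nat_lit 134) (nat_lit 5) (nat_lit 134) (nat_lit 4) (nat_lit 478) (nat_lit 356) (nat_lit 186)) (XT.lf (nat_lit 0) (nat_lit 5175443438) (nat_lit 76) (nat_lit 7091220752) (nat_lit 152) (nat_lit 372284573986) (nat_lit 131) (nat_lit 5) (nat_lit 132) (nat_lit 5) (nat_lit 133) (nat_lit 4) (nat_lit 479) (nat_lit 356) (nat_lit 185))))) (XT.nd (nat_lit 312) (nat_lit 304) (nat_lit 0) (XT.nd (nat_lit 156) (nat_lit 152) (nat_lit 0) (XT.nd (nat_lit 78) (nat_lit 76) (nat_lit 0) (XT.lf (nat_lit 0) (nat_lit 144456170314) (nat_lit 152) (nat_lit 127260512373) (nat_lit 0) (nat_lit 125435746911) (nat_lit 131) (nat_lit 5)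 (nat_lit 133) (nat_lit 4) (nat_lit 131) (nat_lit 4) (nat_lit 480) (nat_lit 356) (nat_lit 184)) (XT.lf (nat_lit 0) (nat_lit 141879315079) (nat_lit 76) (nat_lit 143704285913) (nat_lit 76) (nat_lit 124683657138) (nat_lit 130) (nat_lit 4) (nat_lit 131) (nat_lit 5) (nat_lit 131) (nat_lit 4) (nat_lit 481) (nat_lit 356) (nat_lit 183))) (XT.nd (nat_lit 78) (nat_lit 0) (nat_lit 0) (XT.lf (nat_lit 0) (nat_lit 4928784901) (nat_lit 76) (nat_lit 6753951327) (nat_lit 152) (nat_lit 412234268149) (nat_lit 128) (nat_lit 5) (nat_lit 129) (nat_lit 5) (nat_lit 130) (nat_lit 4) (nat_lit 482) (nat_lit 356) (nat_lit 182)) (XT.lf (nat_lit 0) (nat_lit 157433759533) (nat_lit 152) (nat_lit 141056942446) (nat_lit 0) (nat_lit 139318511300) (nat_lit 128) (nat_lit 5) (nat_lit 130) (nat_lit 4) (nat_lit 128) (nat_lit 4) (nat_lit 483) (nat_lit 356) (nat_lit 181)))) (XT.nd (nat_lit 156) (nat_lit 76) (nat_lit 0) (XT.nd (nat_lit 78)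 (nat_lit 152) (nat_lit 0) (XT.lf (nat_lit 0) (nat_lit 155635785905) (nat_lit 76) (nat_lit 157374386010) (nat_lit 76) (nat_lit 139258968818) (nat_lit 127) (nat_lit 4) (nat_lit 128) (nat_lit 5) (nat_lit 128) (nat_lit 4) (nat_lit 484) (nat_lit 356) (nat_lit 180)) (XT.lf (nat_lit 0) (nat_lit 4693909037) (nat_lit 76) (nat_lit 6432670057) (nat_lit 152) (nat_lit 456193601289) (nat_lit 125) (nat_lit 5) (nat_lit 126) (nat_lit 5) (nat_lit 127) (nat_lit 4) (nat_lit 485) (nat_lit 356) (nat_lit 179))) (XT.nd (nat_lit 78) (nat_lit 76) (nat_lit 0) (XT.lf (nat_lit 0) (nat_lit 171828603590) (nat_lit 152) (nat_lit 156231634936) (nat_lit 0) (nat_lit 154575526107) (nat_lit 125) (nat_lit 5) (nat_lit 127) (nat_lit 4) (nat_lit 125) (nat_lit 4) (nat_lit 486) (nat_lit 356) (nat_lit 178)) (XT.lf (nat_lit 0) (nat_lit 170839781610) (nat_lit 76) (nat_lit 172496029443) (nat_lit 76) (nat_lit 155242812956) (nat_lit 124) (nat_lit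 4) (nat_lit 125) (nat_lit 5) (nat_lit 125) (nat_lit 4) (nat_lit 487) (nat_lit 356) (nat_lit 177)))))) (XT.nd (nat_lit 43134) (nat_lit 0) (nat_lit 13452) (XT.nd (nat_lit 312) (nat_lit 0) (nat_lit 0) (XT.nd (nat_lit 156) (nat_lit 228) (nat_lit 0) (XT.nd (nat_lit 78) (nat_lit 0) (nat_lit 0) (XT.lf (nat_lit 0) (nat_lit 4470248201) (nat_lit 76) (nat_lit 6126628419) (nat_lit 152) (nat_lit 504577608405) (nat_lit 122) (nat_lit 5) (nat_lit 123) (nat_lit 5) (nat_lit 124) (nat_lit 4) (nat_lit 488) (nat_lit 356) (nat_lit 176)) (XT.lf (nat_lit 0) (nat_lit 187781834872) (nat_lit 152) (nat_lit 172927579011) (nat_lit 0) (nat_lit 171349953966) (nat_lit 122) (nat_lit 5) (nat_lit 124) (nat_lit 4) (nat_lit 122) (nat_lit 4) (nat_lit 489) (nat_lit 356) (nat_lit 175))) (XT.nd (nat_lit 78) (nat_lit 152) (nat_lit 0) (XT.lf (nat_lit 0) (nat_lit 187637879469) (nat_lit 76) (nat_lit 189215618872) (nat_lit 76) (nat_lit 172783623608)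 (nat_lit 121) (nat_lit 4) (nat_lit 122) (nat_lit 5) (nat_lit 122) (nat_lit 4) (nat_lit 490) (nat_lit 356) (nat_lit 174)) (XT.lf (nat_lit 0) (nat_lit 4257262944) (nat_lit 76) (nat_lit 5835111261) (nat_lit 152) (nat_lit 557843674707) (nat_lit 119) (nat_lit 5) (nat_lit 120) (nat_lit 5) (nat_lit 121) (nat_lit 4) (nat_lit 491) (nat_lit 356) (nat_lit 173)))) (XT.nd (nat_lit 42666) (nat_lit 0) (nat_lit 13984) (XT.nd (nat_lit 42588) (nat_lit 0) (nat_lit 13984) (XT.lf (nat_lit 0) (nat_lit 205449247186) (nat_lit 152) (nat_lit 191302336842) (nat_lit 0) (nat_lit 189799525372) (nat_lit 119) (nat_lit 5) (nat_lit 121) (nat_lit 4) (nat_lit 119) (nat_lit 4) (nat_lit 492) (nat_lit 356) (nat_lit 172)) (XT.lf (nat_lit 0) (nat_lit 930853241) (nat_lit 0) (nat_lit 930853241) (nat_lit 684) (nat_lit 3042386157) (nat_lit 303) (nat_lit 5) (nat_lit 303) (nat_lit 3) (nat_lit 312) (nat_lit 3) (nat_lit 357) (nat_lit 357) (nat_lit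 306))) (XT.nd (nat_lit 78) (nat_lit 0) (nat_lit 0) (XT.lf (nat_lit 0) (nat_lit 4587837544) (nat_lit 684) (nat_lit 3068406479) (nat_lit 760) (nat_lit 2358578926) (nat_lit 303) (nat_lit 5) (nat_lit 312) (nat_lit 3) (nat_lit 313) (nat_lit 5) (nat_lit 358) (nat_lit 357) (nat_lit 305)) (XT.lf (nat_lit 76) (nat_lit 2062891538) (nat_lit 0) (nat_lit 3448745333) (nat_lit 760) (nat_lit 4719347954) (nat_lit 304) (nat_lit 5) (nat_lit 303) (nat_lit 5) (nat_lit 313) (nat_lit 5) (nat_lit 359) (nat_lit 357) (nat_lit 304))))) (XT.nd (nat_lit 312) (nat_lit 608) (nat_lit 0) (XT.nd (nat_lit 156) (nat_lit 0) (nat_lit 0) (XT.nd (nat_lit 78) (nat_lit 0) (nat_lit 0) (XT.lf (nat_lit 0) (nat_lit 6505112222) (nat_lit 684) (nat_lit 2942352379) (nat_lit 760) (nat_lit 1009315892) (nat_lit 304) (nat_lit 5) (nat_lit 313) (nat_lit 5) (nat_lit 314) (nat_lit 5) (nat_lit 360) (nat_lit 357) (nat_lit 303)) (XT.lf (nat_lit 76) (nat_lit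 2542568515) (nat_lit 0) (nat_lit 5059581886) (nat_lit 760) (nat_lit 3089021090) (nat_lit 305) (nat_lit 5) (nat_lit 304) (nat_lit 5) (nat_lit 314) (nat_lit 5) (nat_lit 361) (nat_lit 357) (nat_lit 302))) (XT.nd (nat_lit 78) (nat_lit 0) (nat_lit 76) (XT.lf (nat_lit 76) (nat_lit 8377373613) (nat_lit 0) (nat_lit 385755116) (nat_lit 760) (nat_lit 2173698898) (nat_lit 305) (nat_lit 5) (nat_lit 304) (nat_lit 5) (nat_lit 314) (nat_lit 5) (nat_lit 362) (nat_lit 357) (nat_lit 301)) (XT.lf (nat_lit 76) (nat_lit 3317327424) (nat_lit 0) (nat_lit 6748628455) (nat_lit 760) (nat_lit 1124620697) (nat_lit 306) (nat_lit 5) (nat_lit 305) (nat_lit 5) (nat_lit 315) (nat_lit 5) (nat_lit 363) (nat_lit 357) (nat_lit 300)))) (XT.nd (nat_lit 156) (nat_lit 0) (nat_lit 0) (XT.nd (nat_lit 78) (nat_lit 684) (nat_lit 0) (XT.lf (nat_lit 76) (nat_lit 9543312658) (nat_lit 0) (nat_lit 1903005609) (nat_lit 760) (nat_lit 10075009) (nat_lit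 306) (nat_lit 5) (nat_lit 305) (nat_lit 5) (nat_lit 315) (nat_lit 5) (nat_lit 364) (nat_lit 357) (nat_lit 299)) (XT.lf (nat_lit 0) (nat_lit 1207738782) (nat_lit 760) (nat_lit 7341931035) (nat_lit 836) (nat_lit 3180691578) (nat_lit 296) (nat_lit 5) (nat_lit 306) (nat_lit 5) (nat_lit 307) (nat_lit 5) (nat_lit 365) (nat_lit 357) (nat_lit 298))) (XT.nd (nat_lit 78) (nat_lit 0) (nat_lit 76) (XT.lf (nat_lit 0) (nat_lit 2515677398) (nat_lit 760) (nat_lit 1005162696) (nat_lit 836) (nat_lit 8495700931) (nat_lit 296) (nat_lit 5) (nat_lit 306) (nat_lit 5) (nat_lit 307) (nat_lit 5) (nat_lit 366) (nat_lit 357) (nat_lit 297)) (XT.lf (nat_lit 0) (nat_lit 3975822572) (nat_lit 760) (nat_lit 6535823515) (nat_lit 76) (nat_lit 1801043069) (nat_lit 297) (nat_lit 5) (nat_lit 307) (nat_lit 5) (nat_lit 298) (nat_lit 5) (nat_lit 367) (nat_lit 357) (nat_lit 296))))))) (XT.nd (nat_lit 1248) (nat_lit 2356) (nat_lit 0) (XT.nd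 (nat_lit 624) (nat_lit 1216) (nat_lit 0) (XT.nd (nat_lit 312) (nat_lit 1140) (nat_lit 0) (XT.nd (nat_lit 156) (nat_lit 456) (nat_lit 0) (XT.nd (nat_lit 78) (nat_lit 0) (nat_lit 0) (XT.lf (nat_lit 0) (nat_lit 231320935) (nat_lit 760) (nat_lit 5324612531) (nat_lit 836) (nat_lit 7065363305) (nat_lit 287) (nat_lit 5) (nat_lit 297) (nat_lit 5) (nat_lit 298) (nat_lit 5) (nat_lit 368) (nat_lit 357) (nat_lit 295)) (XT.lf (nat_lit 0) (nat_lit 7298899359) (nat_lit 836) (nat_lit 5409088508) (nat_lit 76) (nat_lit 233154426) (nat_lit 287) (nat_lit 5) (nat_lit 298) (nat_lit 5) (nat_lit 288) (nat_lit 5) (nat_lit 369) (nat_lit 357) (nat_lit 294))) (XT.nd (nat_lit 78) (nat_lit 0) (nat_lit 0) (XT.lf (nat_lit 0) (nat_lit 1865348700) (nat_lit 456) (nat_lit 7350978192) (nat_lit 532) (nat_lit 4056287531) (nat_lit 281) (nat_lit 5) (nat_lit 287) (nat_lit 5) (nat_lit 288) (nat_lit 5) (nat_lit 370) (nat_lit 357) (nat_lit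 293)) (XT.lf (nat_lit 0) (nat_lit 9663840683) (nat_lit 456) (nat_lit 1629248897) (nat_lit 532) (nat_lit 2324397392) (nat_lit 281) (nat_lit 5) (nat_lit 287) (nat_lit 5) (nat_lit 288) (nat_lit 5) (nat_lit 371) (nat_lit 357) (nat_lit 292)))) (XT.nd (nat_lit 156) (nat_lit 684) (nat_lit 0) (XT.nd (nat_lit 78) (nat_lit 76) (nat_lit 0) (XT.lf (nat_lit 0) (nat_lit 3901669067) (nat_lit 380) (nat_lit 9674507513) (nat_lit 456) (nat_lit 398302259) (nat_lit 276) (nat_lit 5) (nat_lit 281) (nat_lit 5) (nat_lit 282) (nat_lit 5) (nat_lit 372) (nat_lit 357) (nat_lit 291)) (XT.lf (nat_lit 0) (nat_lit 1640516545) (nat_lit 456) (nat_lit 2140053210) (nat_lit 76) (nat_lit 10564062700) (nat_lit 275) (nat_lit 5) (nat_lit 281) (nat_lit 5) (nat_lit 276) (nat_lit 5) (nat_lit 373) (nat_lit 357) (nat_lit 290))) (XT.nd (nat_lit 78) (nat_lit 304) (nat_lit 0) (XT.lf (nat_lit 0) (nat_lit 3881384651) (nat_lit 456) (nat_lit 8408801623)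 (nat_lit 76) (nat_lit 2437106304) (nat_lit 270) (nat_lit 5) (nat_lit 276) (nat_lit 5) (nat_lit 271) (nat_lit 5) (nat_lit 374) (nat_lit 357) (nat_lit 289)) (XT.lf (nat_lit 0) (nat_lit 58945049) (nat_lit 304) (nat_lit 6250735114) (nat_lit 380) (nat_lit 8815636343) (nat_lit 266) (nat_lit 5) (nat_lit 270) (nat_lit 5) (nat_lit 271) (nat_lit 5) (nat_lit 375) (nat_lit 357) (nat_lit 288))))) (XT.nd (nat_lit 312) (nat_lit 532) (nat_lit 0) (XT.nd (nat_lit 156) (nat_lit 380) (nat_lit 0) (XT.nd (nat_lit 78) (nat_lit 304) (nat_lit 0) (XT.lf (nat_lit 0) (nat_lit 8981885860) (nat_lit 380) (nat_lit 6325903171) (nat_lit 76) (nat_lit 229327830) (nat_lit 266) (nat_lit 5) (nat_lit 271) (nat_lit 5) (nat_lit 267) (nat_lit 5) (nat_lit 376) (nat_lit 357) (nat_lit 287)) (XT.lf (nat_lit 0) (nat_lit 2812422930) (nat_lit 304) (nat_lit 9099124389) (nat_lit 380) (nat_lit 4051767640) (nat_lit 262) (nat_lit 5) (nat_lit 266) (nat_lit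 5) (nat_lit 267) (nat_lit 5) (nat_lit 377) (nat_lit 357) (nat_lit 286))) (XT.nd (nat_lit 78) (nat_lit 380) (nat_lit 0) (XT.lf (nat_lit 0) (nat_lit 12601007584) (nat_lit 304) (nat_lit 2471943934) (nat_lit 380) (nat_lit 1333608462) (nat_lit 262) (nat_lit 5) (nat_lit 266) (nat_lit 5) (nat_lit 267) (nat_lit 5) (nat_lit 378) (nat_lit 357) (nat_lit 285)) (XT.lf (nat_lit 0) (nat_lit 1618653745) (nat_lit 380) (nat_lit 10784403208) (nat_lit 76) (nat_lit 4460380405) (nat_lit 257) (nat_lit 5) (nat_lit 262) (nat_lit 5) (nat_lit 258) (nat_lit 5) (nat_lit 379) (nat_lit 357) (nat_lit 284)))) (XT.nd (nat_lit 156) (nat_lit 228) (nat_lit 0) (XT.nd (nat_lit 78) (nat_lit 304) (nat_lit 0) (XT.lf (nat_lit 0) (nat_lit 4759106455) (nat_lit 380) (nat_lit 839674914) (nat_lit 76) (nat_lit 11739014345) (nat_lit 257) (nat_lit 5) (nat_lit 262) (nat_lit 5) (nat_lit 258) (nat_lit 5) (nat_lit 380) (nat_lit 357) (nat_lit 283))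 (XT.lf (nat_lit 0) (nat_lit 8217984234) (nat_lit 380) (nat_lit 7961770158) (nat_lit 76) (nat_lit 1648047474) (nat_lit 253) (nat_lit 5) (nat_lit 258) (nat_lit 5) (nat_lit 254) (nat_lit 5) (nat_lit 381) (nat_lit 357) (nat_lit 282))) (XT.nd (nat_lit 78) (nat_lit 0) (nat_lit 0) (XT.lf (nat_lit 0) (nat_lit 2765596937) (nat_lit 228) (nat_lit 9214438703) (nat_lit 304) (nat_lit 6355761200) (nat_lit 250) (nat_lit 5) (nat_lit 253) (nat_lit 5) (nat_lit 254) (nat_lit 5) (nat_lit 382) (nat_lit 357) (nat_lit 281)) (XT.lf (nat_lit 0) (nat_lit 14280677070) (nat_lit 228) (nat_lit 1765685466) (nat_lit 304) (nat_lit 2817020379) (nat_lit 250) (nat_lit 5) (nat_lit 253) (nat_lit 5) (nat_lit 254) (nat_lit 5) (nat_lit 383) (nat_lit 357) (nat_lit 280)))))) (XT.nd (nat_lit 624) (nat_lit 988) (nat_lit 0) (XT.nd (nat_lit 312) (nat_lit 532) (nat_lit 0) (XT.nd (nat_lit 156) (nat_lit 456) (nat_lit 0) (XT.nd (nat_lit 78) (nat_lit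 0) (nat_lit 0) (XT.lf (nat_lit 0) (nat_lit 1059873507) (nat_lit 380) (nat_lit 12364153161) (nat_lit 76) (nat_lit 5983121165) (nat_lit 245) (nat_lit 5) (nat_lit 250) (nat_lit 5) (nat_lit 246) (nat_lit 5) (nat_lit 384) (nat_lit 357) (nat_lit 279)) (XT.lf (nat_lit 0) (nat_lit 5126086794) (nat_lit 380) (nat_lit 666394148) (nat_lit 76) (nat_lit 14178803768) (nat_lit 245) (nat_lit 5) (nat_lit 250) (nat_lit 5) (nat_lit 246) (nat_lit 5) (nat_lit 385) (nat_lit 357) (nat_lit 278))) (XT.nd (nat_lit 78) (nat_lit 228) (nat_lit 0) (XT.lf (nat_lit 0) (nat_lit 9603375644) (nat_lit 304) (nat_lit 8616867574) (nat_lit 76) (nat_lit 2332996969) (nat_lit 242) (nat_lit 5) (nat_lit 246) (nat_lit 5) (nat_lit 243) (nat_lit 5) (nat_lit 386) (nat_lit 357) (nat_lit 277)) (XT.lf (nat_lit 0) (nat_lit 4038803895) (nat_lit 228) (nat_lit 10418701108) (nat_lit 304) (nat_lit 6699139630) (nat_lit 239) (nat_lit 5) (nat_lit 242) (nat_lit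 5) (nat_lit 243) (nat_lit 5) (nat_lit 387) (nat_lit 357) (nat_lit 276)))) (XT.nd (nat_lit 156) (nat_lit 228) (nat_lit 0) (XT.nd (nat_lit 78) (nat_lit 304) (nat_lit 0) (XT.lf (nat_lit 0) (nat_lit 17602800679) (nat_lit 228) (nat_lit 2081378061) (nat_lit 304) (nat_lit 2099548666) (nat_lit 239) (nat_lit 5) (nat_lit 242) (nat_lit 5) (nat_lit 243) (nat_lit 5) (nat_lit 388) (nat_lit 357) (nat_lit 275)) (XT.lf (nat_lit 0) (nat_lit 2884899192) (nat_lit 304) (nat_lit 12894582075) (nat_lit 76) (nat_lit 6648439131) (nat_lit 235) (nat_lit 5) (nat_lit 239) (nat_lit 5) (nat_lit 236) (nat_lit 5) (nat_lit 389) (nat_lit 357) (nat_lit 274))) (XT.nd (nat_lit 78) (nat_lit 0) (nat_lit 0) (XT.lf (nat_lit 0) (nat_lit 913959025) (nat_lit 228) (nat_lit 7239103297) (nat_lit 304) (nat_lit 14944287204) (nat_lit 232) (nat_lit 5) (nat_lit 235) (nat_lit 5) (nat_lit 236) (nat_lit 5) (nat_lit 390) (nat_lit 357) (nat_lit 273)) (XT.lf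 (nat_lit 0) (nat_lit 13918514165) (nat_lit 304) (nat_lit 7982822688) (nat_lit 76) (nat_lit 1887219228) (nat_lit 232) (nat_lit 5) (nat_lit 236) (nat_lit 5) (nat_lit 233) (nat_lit 5) (nat_lit 391) (nat_lit 357) (nat_lit 272))))) (XT.nd (nat_lit 312) (nat_lit 380) (nat_lit 0) (XT.nd (nat_lit 156) (nat_lit 380) (nat_lit 0) (XT.nd (nat_lit 78) (nat_lit 76) (nat_lit 0) (XT.lf (nat_lit 0) (nat_lit 7011092836) (nat_lit 152) (nat_lit 13174940614) (nat_lit 228) (nat_lit 4317599771) (nat_lit 230) (nat_lit 5) (nat_lit 232) (nat_lit 5) (nat_lit 233) (nat_lit 5) (nat_lit 392) (nat_lit 357) (nat_lit 271)) (XT.lf (nat_lit 0) (nat_lit 1587232844) (nat_lit 228) (nat_lit 2264199767) (nat_lit 76) (nat_lit 21395692085) (nat_lit 229) (nat_lit 5) (nat_lit 232) (nat_lit 5) (nat_lit 230) (nat_lit 5) (nat_lit 393) (nat_lit 357) (nat_lit 270))) (XT.nd (nat_lit 78) (nat_lit 152) (nat_lit 0) (XT.lf (nat_lit 0) (nat_lit 7945899809)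 (nat_lit 304) (nat_lit 12027175066) (nat_lit 76) (nat_lit 6035992232) (nat_lit 226) (nat_lit 5) (nat_lit 230) (nat_lit 5) (nat_lit 227) (nat_lit 5) (nat_lit 394) (nat_lit 357) (nat_lit 269)) (XT.lf (nat_lit 0) (nat_lit 4366044728) (nat_lit 152) (nat_lit 10413372330) (nat_lit 228) (nat_lit 12021843735) (nat_lit 224) (nat_lit 5) (nat_lit 226) (nat_lit 5) (nat_lit 227) (nat_lit 5) (nat_lit 395) (nat_lit 357) (nat_lit 268)))) (XT.nd (nat_lit 156) (nat_lit 152) (nat_lit 0) (XT.nd (nat_lit 78) (nat_lit 228) (nat_lit 0) (XT.lf (nat_lit 0) (nat_lit 21975194752) (nat_lit 152) (nat_lit 170043926) (nat_lit 228) (nat_lit 5478294059) (nat_lit 224) (nat_lit 5) (nat_lit 226) (nat_lit 5) (nat_lit 227) (nat_lit 5) (nat_lit 396) (nat_lit 357) (nat_lit 267)) (XT.lf (nat_lit 0) (nat_lit 1696389340) (nat_lit 228) (nat_lit 16315400178) (nat_lit 76) (nat_lit 10456615632) (nat_lit 221) (nat_lit 5) (nat_lit 224) (nat_lit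 5) (nat_lit 222) (nat_lit 5) (nat_lit 397) (nat_lit 357) (nat_lit 266))) (XT.nd (nat_lit 78) (nat_lit 0) (nat_lit 0) (XT.lf (nat_lit 0) (nat_lit 1626828641) (nat_lit 152) (nat_lit 7531803626) (nat_lit 228) (nat_lit 20186751913) (nat_lit 219) (nat_lit 5) (nat_lit 221) (nat_lit 5) (nat_lit 222) (nat_lit 5) (nat_lit 398) (nat_lit 357) (nat_lit 265)) (XT.lf (nat_lit 0) (nat_lit 17316700512) (nat_lit 228) (nat_lit 9299528892) (nat_lit 76) (nat_lit 3633847100) (nat_lit 219) (nat_lit 5) (nat_lit 222) (nat_lit 5) (nat_lit 220) (nat_lit 5) (nat_lit 399) (nat_lit 357) (nat_lit 264))))))))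
noncomputable def xc182 : XT := (XT.nd (nat_lit 1248) (nat_lit 1368) (nat_lit 0) (XT.nd (nat_lit 624) (nat_lit 760) (nat_lit 0) (XT.nd (nat_lit 312) (nat_lit 304) (nat_lit 0) (XT.nd (nat_lit 156) (nat_lit 304) (nat_lit 0) (XT.nd (nat_lit 78) (nat_lit 76) (nat_lit 0) (XT.lf (nat_lit 0) (nat_lit 10224220767) (nat_lit 152) (nat_lit 15929803599) (nat_lit 228) (nat_lit 5032411468) (nat_lit 217) (nat_lit 5) (nat_lit 219) (nat_lit 5) (nat_lit 220) (nat_lit 5) (nat_lit 400) (nat_lit 357) (nat_lit 263)) (XT.lf (nat_lit 0) (nat_lit 3307534638) (nat_lit 228) (nat_lit 1188316674) (nat_lit 76) (nat_lit 27663794670) (nat_lit 216) (nat_lit 5) (nat_lit 219) (nat_lit 5) (nat_lit 217) (nat_lit 5) (nat_lit 401) (nat_lit 357) (nat_lit 262))) (XT.nd (nat_lit 78) (nat_lit 152) (nat_lit 0) (XT.lf (nat_lit 0) (nat_lit 12321928661) (nat_lit 228) (nat_lit 13169341133) (nat_lit 76) (nat_lit 7664793286) (nat_lit 214) (nat_lit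 5) (nat_lit 217) (nat_lit 5) (nat_lit 215) (nat_lit 5) (nat_lit 402) (nat_lit 357) (nat_lit 261)) (XT.lf (nat_lit 0) (nat_lit 8230656601) (nat_lit 152) (nat_lit 13768031132) (nat_lit 228) (nat_lit 12193031032) (nat_lit 212) (nat_lit 5) (nat_lit 214) (nat_lit 5) (nat_lit 215) (nat_lit 5) (nat_lit 403) (nat_lit 357) (nat_lit 260)))) (XT.nd (nat_lit 156) (nat_lit 152) (nat_lit 0) (XT.nd (nat_lit 78) (nat_lit 152) (nat_lit 0) (XT.lf (nat_lit 0) (nat_lit 31138957165) (nat_lit 152) (nat_lit 1232570732) (nat_lit 228) (nat_lit 2897017180) (nat_lit 212) (nat_lit 5) (nat_lit 214) (nat_lit 5) (nat_lit 215) (nat_lit 5) (nat_lit 404) (nat_lit 357) (nat_lit 259)) (XT.lf (nat_lit 0) (nat_lit 7127592794) (nat_lit 152) (nat_lit 17286954744) (nat_lit 76) (nat_lit 11955133020) (nat_lit 210) (nat_lit 5) (nat_lit 212) (nat_lit 5) (nat_lit 211) (nat_lit 5) (nat_lit 405) (nat_lit 357) (nat_lit 258))) (XT.nd (nat_lit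 78) (nat_lit 0) (nat_lit 0) (XT.lf (nat_lit 0) (nat_lit 6187395062) (nat_lit 152) (nat_lit 11546223379) (nat_lit 228) (nat_lit 19781002571) (nat_lit 208) (nat_lit 5) (nat_lit 210) (nat_lit 5) (nat_lit 211) (nat_lit 5) (nat_lit 406) (nat_lit 357) (nat_lit 257)) (XT.lf (nat_lit 0) (nat_lit 29187931539) (nat_lit 228) (nat_lit 7320559718) (nat_lit 76) (nat_lit 2192417924) (nat_lit 208) (nat_lit 5) (nat_lit 211) (nat_lit 5) (nat_lit 209) (nat_lit 4) (nat_lit 407) (nat_lit 357) (nat_lit 256))))) (XT.nd (nat_lit 312) (nat_lit 380) (nat_lit 0) (XT.nd (nat_lit 156) (nat_lit 76) (nat_lit 0) (XT.nd (nat_lit 78) (nat_lit 152) (nat_lit 0) (XT.lf (nat_lit 0) (nat_lit 1700128737) (nat_lit 152) (nat_lit 21686625000) (nat_lit 76) (nat_lit 16535153895) (nat_lit 206) (nat_lit 5) (nat_lit 208) (nat_lit 5) (nat_lit 207) (nat_lit 5) (nat_lit 408) (nat_lit 357) (nat_lit 255)) (XT.lf (nat_lit 0) (nat_lit 4080239393) (nat_lit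 152) (nat_lit 9253928890) (nat_lit 228) (nat_lit 27852991386) (nat_lit 204) (nat_lit 5) (nat_lit 206) (nat_lit 5) (nat_lit 207) (nat_lit 5) (nat_lit 409) (nat_lit 357) (nat_lit 254))) (XT.nd (nat_lit 78) (nat_lit 76) (nat_lit 0) (XT.lf (nat_lit 0) (nat_lit 26000742151) (nat_lit 228) (nat_lit 10719933303) (nat_lit 76) (nat_lit 5772457236) (nat_lit 204) (nat_lit 5) (nat_lit 207) (nat_lit 5) (nat_lit 205) (nat_lit 4) (nat_lit 410) (nat_lit 357) (nat_lit 253)) (XT.lf (nat_lit 0) (nat_lit 17373863239) (nat_lit 76) (nat_lit 22340532387) (nat_lit 152) (nat_lit 4129321191) (nat_lit 203) (nat_lit 5) (nat_lit 204) (nat_lit 5) (nat_lit 205) (nat_lit 4) (nat_lit 411) (nat_lit 357) (nat_lit 252)))) (XT.nd (nat_lit 156) (nat_lit 152) (nat_lit 0) (XT.nd (nat_lit 78) (nat_lit 0) (nat_lit 0) (XT.lf (nat_lit 0) (nat_lit 1894279425) (nat_lit 152) (nat_lit 6879227699) (nat_lit 228) (nat_lit 36471166795) (nat_lit 200)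 (nat_lit 5) (nat_lit 202) (nat_lit 5) (nat_lit 203) (nat_lit 5) (nat_lit 412) (nat_lit 357) (nat_lit 251)) (XT.lf (nat_lit 0) (nat_lit 22775273496) (nat_lit 228) (nat_lit 14335770869) (nat_lit 76) (nat_lit 9571621377) (nat_lit 200) (nat_lit 5) (nat_lit 203) (nat_lit 5) (nat_lit 201) (nat_lit 4) (nat_lit 413) (nat_lit 357) (nat_lit 250))) (XT.nd (nat_lit 78) (nat_lit 76) (nat_lit 0) (XT.lf (nat_lit 0) (nat_lit 16529675926) (nat_lit 76) (nat_lit 21309615614) (nat_lit 152) (nat_lit 10335157447) (nat_lit 199) (nat_lit 5) (nat_lit 200) (nat_lit 5) (nat_lit 201) (nat_lit 4) (nat_lit 414) (nat_lit 357) (nat_lit 249)) (XT.lf (nat_lit 0) (nat_lit 4028465689) (nat_lit 152) (nat_lit 373908429) (nat_lit 76) (nat_lit 45323485378) (nat_lit 198) (nat_lit 5) (nat_lit 200) (nat_lit 5) (nat_lit 199) (nat_lit 5) (nat_lit 415) (nat_lit 357) (nat_lit 248)))))) (XT.nd (nat_lit 624) (nat_lit 608) (nat_lit 0) (XT.nd (nat_lit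 312) (nat_lit 304) (nat_lit 0) (XT.nd (nat_lit 156) (nat_lit 228) (nat_lit 0) (XT.nd (nat_lit 78) (nat_lit 76) (nat_lit 0) (XT.lf (nat_lit 0) (nat_lit 19494901573) (nat_lit 228) (nat_lit 18197577667) (nat_lit 76) (nat_lit 13617291817) (nat_lit 196) (nat_lit 5) (nat_lit 199) (nat_lit 5) (nat_lit 197) (nat_lit 4) (nat_lit 416) (nat_lit 357) (nat_lit 247)) (XT.lf (nat_lit 0) (nat_lit 15728677333) (nat_lit 76) (nat_lit 20321953817) (nat_lit 152) (nat_lit 16906448451) (nat_lit 195) (nat_lit 5) (nat_lit 196) (nat_lit 5) (nat_lit 197) (nat_lit 4) (nat_lit 417) (nat_lit 357) (nat_lit 246))) (XT.nd (nat_lit 78) (nat_lit 228) (nat_lit 0) (XT.lf (nat_lit 0) (nat_lit 51967788975) (nat_lit 76) (nat_lit 1766492748) (nat_lit 152) (nat_lit 937465124) (nat_lit 195) (nat_lit 5) (nat_lit 196) (nat_lit 5) (nat_lit 197) (nat_lit 4) (nat_lit 418) (nat_lit 357) (nat_lit 245)) (XT.lf (nat_lit 0) (nat_lit 16141719997)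 (nat_lit 228) (nat_lit 22337351573) (nat_lit 76) (nat_lit 17939797855) (nat_lit 192) (nat_lit 5) (nat_lit 195) (nat_lit 5) (nat_lit 193) (nat_lit 4) (nat_lit 419) (nat_lit 357) (nat_lit 244)))) (XT.nd (nat_lit 156) (nat_lit 228) (nat_lit 0) (XT.nd (nat_lit 78) (nat_lit 0) (nat_lit 0) (XT.lf (nat_lit 0) (nat_lit 14968280854) (nat_lit 76) (nat_lit 19376521998) (nat_lit 152) (nat_lit 23892704693) (nat_lit 191) (nat_lit 5) (nat_lit 192) (nat_lit 5) (nat_lit 193) (nat_lit 4) (nat_lit 420) (nat_lit 357) (nat_lit 243)) (XT.lf (nat_lit 0) (nat_lit 53845447584) (nat_lit 152) (nat_lit 5245139155) (nat_lit 0) (nat_lit 1037120445) (nat_lit 191) (nat_lit 5) (nat_lit 193) (nat_lit 4) (nat_lit 191) (nat_lit 4) (nat_lit 421) (nat_lit 357) (nat_lit 242))) (XT.nd (nat_lit 78) (nat_lit 76) (nat_lit 0) (XT.lf (nat_lit 0) (nat_lit 12696420959) (nat_lit 152) (nat_lit 26789896373) (nat_lit 76) (nat_lit 22572645462) (nat_lit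 189) (nat_lit 5) (nat_lit 191) (nat_lit 5) (nat_lit 190) (nat_lit 4) (nat_lit 422) (nat_lit 357) (nat_lit 241)) (XT.lf (nat_lit 0) (nat_lit 14246117023) (nat_lit 76) (nat_lit 18472160505) (nat_lit 152) (nat_lit 31348085907) (nat_lit 188) (nat_lit 5) (nat_lit 189) (nat_lit 5) (nat_lit 190) (nat_lit 4) (nat_lit 423) (nat_lit 357) (nat_lit 240))))) (XT.nd (nat_lit 312) (nat_lit 380) (nat_lit 0) (XT.nd (nat_lit 156) (nat_lit 76) (nat_lit 0) (XT.nd (nat_lit 78) (nat_lit 152) (nat_lit 0) (XT.lf (nat_lit 0) (nat_lit 54251144246) (nat_lit 152) (nat_lit 7965136218) (nat_lit 0) (nat_lit 3932357779) (nat_lit 188) (nat_lit 5) (nat_lit 190) (nat_lit 4) (nat_lit 188) (nat_lit 4) (nat_lit 424) (nat_lit 357) (nat_lit 239)) (XT.lf (nat_lit 0) (nat_lit 9138157637) (nat_lit 152) (nat_lit 31593158663) (nat_lit 76) (nat_lit 27552784871) (nat_lit 186) (nat_lit 5) (nat_lit 188) (nat_lit 5) (nat_lit 187) (nat_lit 4) (nat_lit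 425) (nat_lit 357) (nat_lit 238))) (XT.nd (nat_lit 78) (nat_lit 0) (nat_lit 0) (XT.lf (nat_lit 0) (nat_lit 13560006513) (nat_lit 76) (nat_lit 17607613976) (nat_lit 152) (nat_lit 39331871590) (nat_lit 185) (nat_lit 5) (nat_lit 186) (nat_lit 5) (nat_lit 187) (nat_lit 4) (nat_lit 426) (nat_lit 357) (nat_lit 237)) (XT.lf (nat_lit 0) (nat_lit 54939616582) (nat_lit 152) (nat_lit 10857704175) (nat_lit 0) (nat_lit 6996278771) (nat_lit 185) (nat_lit 5) (nat_lit 187) (nat_lit 4) (nat_lit 185) (nat_lit 4) (nat_lit 427) (nat_lit 357) (nat_lit 236)))) (XT.nd (nat_lit 156) (nat_lit 152) (nat_lit 0) (XT.nd (nat_lit 78) (nat_lit 76) (nat_lit 0) (XT.lf (nat_lit 0) (nat_lit 5444387481) (nat_lit 152) (nat_lit 36788592191) (nat_lit 76) (nat_lit 32920918070) (nat_lit 183) (nat_lit 5) (nat_lit 185) (nat_lit 5) (nat_lit 184) (nat_lit 4) (nat_lit 428) (nat_lit 357) (nat_lit 235)) (XT.lf (nat_lit 0) (nat_lit 12907937375)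 (nat_lit 76) (nat_lit 16781562654) (nat_lit 152) (nat_lit 47908984701) (nat_lit 182) (nat_lit 5) (nat_lit 183) (nat_lit 5) (nat_lit 184) (nat_lit 4) (nat_lit 429) (nat_lit 357) (nat_lit 234))) (XT.nd (nat_lit 78) (nat_lit 152) (nat_lit 0) (XT.lf (nat_lit 0) (nat_lit 55928772699) (nat_lit 152) (nat_lit 13945998977) (nat_lit 0) (nat_lit 10251434168) (nat_lit 182) (nat_lit 5) (nat_lit 184) (nat_lit 4) (nat_lit 182) (nat_lit 4) (nat_lit 430) (nat_lit 357) (nat_lit 233)) (XT.lf (nat_lit 0) (nat_lit 1590695480) (nat_lit 152) (nat_lit 42421553629) (nat_lit 76) (nat_lit 38721847985) (nat_lit 180) (nat_lit 5) (nat_lit 182) (nat_lit 5) (nat_lit 181) (nat_lit 4) (nat_lit 431) (nat_lit 357) (nat_lit 232)))))))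
noncomputable def xc183 : XT := (XT.nd (nat_lit 1248) (nat_lit 1216) (nat_lit 0) (XT.nd (nat_lit 624) (nat_lit 684) (nat_lit 0) (XT.nd (nat_lit 312) (nat_lit 228) (nat_lit 0) (XT.nd (nat_lit 156) (nat_lit 228) (nat_lit 0) (XT.nd (nat_lit 78) (nat_lit 0) (nat_lit 0) (XT.lf (nat_lit 0) (nat_lit 12288045793) (nat_lit 76) (nat_lit 15992647470) (nat_lit 152) (nat_lit 57150572926) (nat_lit 179) (nat_lit 5) (nat_lit 180) (nat_lit 5) (nat_lit 181) (nat_lit 4) (nat_lit 432) (nat_lit 357) (nat_lit 231)) (XT.lf (nat_lit 0) (nat_lit 57238811228) (nat_lit 152) (nat_lit 17255217208) (nat_lit 0) (nat_lit 13722584288) (nat_lit 179) (nat_lit 5) (nat_lit 181) (nat_lit 4) (nat_lit 179) (nat_lit 4) (nat_lit 433) (nat_lit 357) (nat_lit 230))) (XT.nd (nat_lit 78) (nat_lit 152) (nat_lit 0) (XT.lf (nat_lit 0) (nat_lit 42513986112) (nat_lit 76) (nat_lit 46050848410) (nat_lit 76) (nat_lit 2530392092) (nat_lit 178) (nat_lit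 4) (nat_lit 179) (nat_lit 5) (nat_lit 179) (nat_lit 4) (nat_lit 434) (nat_lit 357) (nat_lit 229)) (XT.lf (nat_lit 0) (nat_lit 11698599751) (nat_lit 76) (nat_lit 15239490027) (nat_lit 152) (nat_lit 67134652540) (nat_lit 176) (nat_lit 5) (nat_lit 177) (nat_lit 5) (nat_lit 178) (nat_lit 4) (nat_lit 435) (nat_lit 357) (nat_lit 228)))) (XT.nd (nat_lit 156) (nat_lit 152) (nat_lit 0) (XT.nd (nat_lit 78) (nat_lit 76) (nat_lit 0) (XT.lf (nat_lit 0) (nat_lit 58892447301) (nat_lit 152) (nat_lit 20812833949) (nat_lit 0) (nat_lit 17436904000) (nat_lit 176) (nat_lit 5) (nat_lit 178) (nat_lit 4) (nat_lit 176) (nat_lit 4) (nat_lit 436) (nat_lit 357) (nat_lit 227)) (XT.lf (nat_lit 0) (nat_lit 45005987056) (nat_lit 76) (nat_lit 48385396524) (nat_lit 76) (nat_lit 6926373703) (nat_lit 175) (nat_lit 4) (nat_lit 176) (nat_lit 5) (nat_lit 176) (nat_lit 4) (nat_lit 437) (nat_lit 357) (nat_lit 226))) (XT.nd (nat_lit 78)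 (nat_lit 0) (nat_lit 0) (XT.lf (nat_lit 0) (nat_lit 11137985126) (nat_lit 76) (nat_lit 14520708422) (nat_lit 152) (nat_lit 77946820587) (nat_lit 173) (nat_lit 5) (nat_lit 174) (nat_lit 5) (nat_lit 175) (nat_lit 4) (nat_lit 438) (nat_lit 357) (nat_lit 225)) (XT.lf (nat_lit 0) (nat_lit 60915159816) (nat_lit 152) (nat_lit 24648861385) (nat_lit 0) (nat_lit 21424214411) (nat_lit 173) (nat_lit 5) (nat_lit 175) (nat_lit 4) (nat_lit 173) (nat_lit 4) (nat_lit 439) (nat_lit 357) (nat_lit 224))))) (XT.nd (nat_lit 312) (nat_lit 380) (nat_lit 0) (XT.nd (nat_lit 156) (nat_lit 76) (nat_lit 0) (XT.nd (nat_lit 78) (nat_lit 152) (nat_lit 0) (XT.lf (nat_lit 0) (nat_lit 47843299678) (nat_lit 76) (nat_lit 51070809261) (nat_lit 76) (nat_lit 11577001247) (nat_lit 172) (nat_lit 4) (nat_lit 173) (nat_lit 5) (nat_lit 173) (nat_lit 4) (nat_lit 440) (nat_lit 357) (nat_lit 223)) (XT.lf (nat_lit 0) (nat_lit 10604693793) (nat_lit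 76) (nat_lit 13834929671) (nat_lit 152) (nat_lit 89681041804) (nat_lit 170) (nat_lit 5) (nat_lit 171) (nat_lit 5) (nat_lit 172) (nat_lit 4) (nat_lit 441) (nat_lit 357) (nat_lit 222))) (XT.nd (nat_lit 78) (nat_lit 76) (nat_lit 0) (XT.lf (nat_lit 0) (nat_lit 63335462689) (nat_lit 152) (nat_lit 28796130850) (nat_lit 0) (nat_lit 25717242899) (nat_lit 170) (nat_lit 5) (nat_lit 172) (nat_lit 4) (nat_lit 170) (nat_lit 4) (nat_lit 442) (nat_lit 357) (nat_lit 221)) (XT.lf (nat_lit 0) (nat_lit 51056854039) (nat_lit 76) (nat_lit 54138097066) (nat_lit 76) (nat_lit 16517522200) (nat_lit 169) (nat_lit 4) (nat_lit 170) (nat_lit 5) (nat_lit 170) (nat_lit 4) (nat_lit 443) (nat_lit 357) (nat_lit 220)))) (XT.nd (nat_lit 156) (nat_lit 228) (nat_lit 0) (XT.nd (nat_lit 78) (nat_lit 0) (nat_lit 0) (XT.lf (nat_lit 0) (nat_lit 10097313414) (nat_lit 76) (nat_lit 13180799370) (nat_lit 152) (nat_lit 102440517493) (nat_lit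 167) (nat_lit 5) (nat_lit 168) (nat_lit 5) (nat_lit 169) (nat_lit 4) (nat_lit 444) (nat_lit 357) (nat_lit 219)) (XT.lf (nat_lit 0) (nat_lit 66185202940) (nat_lit 152) (nat_lit 33290601188) (nat_lit 0) (nat_lit 30351913494) (nat_lit 167) (nat_lit 5) (nat_lit 169) (nat_lit 4) (nat_lit 167) (nat_lit 4) (nat_lit 445) (nat_lit 357) (nat_lit 218))) (XT.nd (nat_lit 78) (nat_lit 152) (nat_lit 0) (XT.lf (nat_lit 0) (nat_lit 54680995801) (nat_lit 76) (nat_lit 57621621022) (nat_lit 76) (nat_lit 21786394049) (nat_lit 166) (nat_lit 4) (nat_lit 167) (nat_lit 5) (nat_lit 167) (nat_lit 4) (nat_lit 446) (nat_lit 357) (nat_lit 217)) (XT.lf (nat_lit 0) (nat_lit 9614518626) (nat_lit 76) (nat_lit 12556989110) (nat_lit 152) (nat_lit 116338644357) (nat_lit 164) (nat_lit 5) (nat_lit 165) (nat_lit 5) (nat_lit 166) (nat_lit 4) (nat_lit 447) (nat_lit 357) (nat_lit 216)))))) (XT.nd (nat_lit 624) (nat_lit 684) (nat_lit 0)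 (XT.nd (nat_lit 312) (nat_lit 304) (nat_lit 0) (XT.nd (nat_lit 156) (nat_lit 152) (nat_lit 0) (XT.nd (nat_lit 78) (nat_lit 76) (nat_lit 0) (XT.lf (nat_lit 0) (nat_lit 69499888676) (nat_lit 152) (nat_lit 38171696532) (nat_lit 0) (nat_lit 35367669981) (nat_lit 164) (nat_lit 5) (nat_lit 166) (nat_lit 4) (nat_lit 164) (nat_lit 4) (nat_lit 448) (nat_lit 357) (nat_lit 215)) (XT.lf (nat_lit 0) (nat_lit 58753818848) (nat_lit 76) (nat_lit 61559439407) (nat_lit 76) (nat_lit 27425626704) (nat_lit 163) (nat_lit 4) (nat_lit 164) (nat_lit 5) (nat_lit 164) (nat_lit 4) (nat_lit 449) (nat_lit 357) (nat_lit 214))) (XT.nd (nat_lit 78) (nat_lit 0) (nat_lit 0) (XT.lf (nat_lit 0) (nat_lit 9155063403) (nat_lit 76) (nat_lit 11962202064) (nat_lit 152) (nat_lit 131500072244) (nat_lit 161) (nat_lit 5) (nat_lit 162) (nat_lit 5) (nat_lit 163) (nat_lit 4) (nat_lit 450) (nat_lit 357) (nat_lit 213)) (XT.lf (nat_lit 0) (nat_lit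 73319050309) (nat_lit 152) (nat_lit 43482676838) (nat_lit 0) (nat_lit 40807834483) (nat_lit 161) (nat_lit 5) (nat_lit 163) (nat_lit 4) (nat_lit 161) (nat_lit 4) (nat_lit 451) (nat_lit 357) (nat_lit 212)))) (XT.nd (nat_lit 156) (nat_lit 76) (nat_lit 0) (XT.nd (nat_lit 78) (nat_lit 152) (nat_lit 0) (XT.lf (nat_lit 0) (nat_lit 63317533871) (nat_lit 76) (nat_lit 65993687620) (nat_lit 76) (nat_lit 33481160400) (nat_lit 160) (nat_lit 4) (nat_lit 161) (nat_lit 5) (nat_lit 161) (nat_lit 4) (nat_lit 452) (nat_lit 357) (nat_lit 211)) (XT.lf (nat_lit 0) (nat_lit 8717774399) (nat_lit 76) (nat_lit 11395177096) (nat_lit 152) (nat_lit 148061870669) (nat_lit 158) (nat_lit 5) (nat_lit 159) (nat_lit 5) (nat_lit 160) (nat_lit 4) (nat_lit 453) (nat_lit 357) (nat_lit 210))) (XT.nd (nat_lit 78) (nat_lit 76) (nat_lit 0) (XT.lf (nat_lit 0) (nat_lit 77686638598) (nat_lit 152) (nat_lit 49271044816) (nat_lit 0) (nat_lit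 46720004655) (nat_lit 158) (nat_lit 5) (nat_lit 160) (nat_lit 4) (nat_lit 158) (nat_lit 4) (nat_lit 454) (nat_lit 357) (nat_lit 209)) (XT.lf (nat_lit 0) (nat_lit 68418876308) (nat_lit 76) (nat_lit 70970995356) (nat_lit 76) (nat_lit 40003282526) (nat_lit 157) (nat_lit 4) (nat_lit 158) (nat_lit 5) (nat_lit 158) (nat_lit 4) (nat_lit 455) (nat_lit 357) (nat_lit 208))))) (XT.nd (nat_lit 312) (nat_lit 304) (nat_lit 0) (XT.nd (nat_lit 156) (nat_lit 228) (nat_lit 0) (XT.nd (nat_lit 78) (nat_lit 0) (nat_lit 0) (XT.lf (nat_lit 0) (nat_lit 8301545126) (nat_lit 76) (nat_lit 10854691687) (nat_lit 152) (nat_lit 166174815094) (nat_lit 155) (nat_lit 5) (nat_lit 156) (nat_lit 5) (nat_lit 157) (nat_lit 4) (nat_lit 456) (nat_lit 357) (nat_lit 207)) (XT.lf (nat_lit 0) (nat_lit 82651463470) (nat_lit 152) (nat_lit 55588993202) (nat_lit 0) (nat_lit 53156493065) (nat_lit 155) (nat_lit 5) (nat_lit 157) (nat_lit 4) (nat_lit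 155) (nat_lit 4) (nat_lit 457) (nat_lit 357) (nat_lit 206))) (XT.nd (nat_lit 78) (nat_lit 152) (nat_lit 0) (XT.lf (nat_lit 0) (nat_lit 74109557475) (nat_lit 76) (nat_lit 76542945215) (nat_lit 76) (nat_lit 47047087207) (nat_lit 154) (nat_lit 4) (nat_lit 155) (nat_lit 5) (nat_lit 155) (nat_lit 4) (nat_lit 458) (nat_lit 357) (nat_lit 205)) (XT.lf (nat_lit 0) (nat_lit 7905330818) (nat_lit 76) (nat_lit 10339563894) (nat_lit 152) (nat_lit 186004805082) (nat_lit 152) (nat_lit 5) (nat_lit 153) (nat_lit 5) (nat_lit 154) (nat_lit 4) (nat_lit 459) (nat_lit 357) (nat_lit 204)))) (XT.nd (nat_lit 156) (nat_lit 228) (nat_lit 0) (XT.nd (nat_lit 78) (nat_lit 76) (nat_lit 0) (XT.lf (nat_lit 0) (nat_lit 88267677912) (nat_lit 152) (nat_lit 62493896705) (nat_lit 0) (nat_lit 60174812744) (nat_lit 152) (nat_lit 5) (nat_lit 154) (nat_lit 4) (nat_lit 152) (nat_lit 4) (nat_lit 460) (nat_lit 357) (nat_lit 203)) (XT.lf (nat_lit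 0) (nat_lit 80446763104) (nat_lit 76) (nat_lit 82766577298) (nat_lit 76) (nat_lit 54672981897) (nat_lit 151) (nat_lit 4) (nat_lit 152) (nat_lit 5) (nat_lit 152) (nat_lit 4) (nat_lit 461) (nat_lit 357) (nat_lit 202))) (XT.nd (nat_lit 78) (nat_lit 76) (nat_lit 0) (XT.lf (nat_lit 0) (nat_lit 7528143893) (nat_lit 76) (nat_lit 9848653548) (nat_lit 152) (nat_lit 207734427721) (nat_lit 149) (nat_lit 5) (nat_lit 150) (nat_lit 5) (nat_lit 151) (nat_lit 4) (nat_lit 462) (nat_lit 357) (nat_lit 201)) (XT.nd (nat_lit 78) (nat_lit 76) (nat_lit 0) (XT.lf (nat_lit 0) (nat_lit 94595311667) (nat_lit 152) (nat_lit 70048853373) (nat_lit 0) (nat_lit 67838213376) (nat_lit 149) (nat_lit 5) (nat_lit 151) (nat_lit 4) (nat_lit 149) (nat_lit 4) (nat_lit 463) (nat_lit 357) (nat_lit 200)) (XT.lf (nat_lit 0) (nat_lit 87493704002) (nat_lit 76) (nat_lit 89704944764) (nat_lit 76) (nat_lit 62947245709) (nat_lit 148) (nat_lit 4)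 (nat_lit 149) (nat_lit 5) (nat_lit 149) (nat_lit 4) (nat_lit 464) (nat_lit 357) (nat_lit 199))))))))
noncomputable def xc184 : XT := (XT.nd (nat_lit 45162) (nat_lit 0) (nat_lit 8208) (XT.nd (nat_lit 1248) (nat_lit 760) (nat_lit 0) (XT.nd (nat_lit 624) (nat_lit 684) (nat_lit 0) (XT.nd (nat_lit 312) (nat_lit 228) (nat_lit 0) (XT.nd (nat_lit 156) (nat_lit 228) (nat_lit 0) (XT.nd (nat_lit 78) (nat_lit 0) (nat_lit 0) (XT.lf (nat_lit 0) (nat_lit 7169049912) (nat_lit 76) (nat_lit 9380862831) (nat_lit 152) (nat_lit 231564681119) (nat_lit 146) (nat_lit 5) (nat_lit 147) (nat_lit 5) (nat_lit 148) (nat_lit 4) (nat_lit 465) (nat_lit 357) (nat_lit 198)) (XT.lf (nat_lit 0) (nat_lit 101700859892) (nat_lit 152) (nat_lit 78323280565) (nat_lit 0) (nat_lit 76216273107) (nat_lit 146) (nat_lit 5) (nat_lit 148) (nat_lit 4) (nat_lit 146) (nat_lit 4) (nat_lit 466) (nat_lit 357) (nat_lit 197))) (XT.nd (nat_lit 78) (nat_lit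 152) (nat_lit 0) (XT.lf (nat_lit 0) (nat_lit 95320224034) (nat_lit 76) (nat_lit 97427725742) (nat_lit 76) (nat_lit 71942644707) (nat_lit 145) (nat_lit 4) (nat_lit 146) (nat_lit 5) (nat_lit 146) (nat_lit 4) (nat_lit 467) (nat_lit 357) (nat_lit 196)) (XT.lf (nat_lit 0) (nat_lit 6827163962) (nat_lit 76) (nat_lit 8935136385) (nat_lit 152) (nat_lit 257716874307) (nat_lit 143) (nat_lit 5) (nat_lit 144) (nat_lit 5) (nat_lit 145) (nat_lit 4) (nat_lit 468) (nat_lit 357) (nat_lit 195)))) (XT.nd (nat_lit 156) (nat_lit 152) (nat_lit 0) (XT.nd (nat_lit 78) (nat_lit 76) (nat_lit 0) (XT.lf (nat_lit 0) (nat_lit 109657932498) (nat_lit 152) (nat_lit 87393571234) (nat_lit 0) (nat_lit 85385551498) (nat_lit 143) (nat_lit 5) (nat_lit 145) (nat_lit 4) (nat_lit 143) (nat_lit 4) (nat_lit 469) (nat_lit 357) (nat_lit 194)) (XT.lf (nat_lit 0) (nat_lit 104003471205) (nat_lit 76) (nat_lit 106011897563) (nat_lit 76) (nat_lit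 81739109941) (nat_lit 142) (nat_lit 4) (nat_lit 143) (nat_lit 5) (nat_lit 143) (nat_lit 4) (nat_lit 470) (nat_lit 357) (nat_lit 193))) (XT.nd (nat_lit 78) (nat_lit 0) (nat_lit 0) (XT.lf (nat_lit 0) (nat_lit 6501647408) (nat_lit 76) (nat_lit 8510461024) (nat_lit 152) (nat_lit 286434721579) (nat_lit 140) (nat_lit 5) (nat_lit 141) (nat_lit 5) (nat_lit 142) (nat_lit 4) (nat_lit 471) (nat_lit 357) (nat_lit 192)) (XT.lf (nat_lit 0) (nat_lit 118547970406) (nat_lit 152) (nat_lit 97343816822) (nat_lit 0) (nat_lit 95430309742) (nat_lit 140) (nat_lit 5) (nat_lit 142) (nat_lit 4) (nat_lit 140) (nat_lit 4) (nat_lit 472) (nat_lit 357) (nat_lit 191))))) (XT.nd (nat_lit 312) (nat_lit 380) (nat_lit 0) (XT.nd (nat_lit 156) (nat_lit 76) (nat_lit 0) (XT.nd (nat_lit 78) (nat_lit 152) (nat_lit 0) (XT.lf (nat_lit 0) (nat_lit 113628638209) (nat_lit 76) (nat_lit 115542479817) (nat_lit 76) (nat_lit 92424484624) (nat_lit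 139) (nat_lit 4) (nat_lit 140) (nat_lit 5) (nat_lit 140) (nat_lit 4) (nat_lit 473) (nat_lit 357) (nat_lit 190)) (XT.lf (nat_lit 0) (nat_lit 6191704957) (nat_lit 76) (nat_lit 8105865163) (nat_lit 152) (nat_lit 317986651149) (nat_lit 137) (nat_lit 5) (nat_lit 138) (nat_lit 5) (nat_lit 139) (nat_lit 4) (nat_lit 474) (nat_lit 357) (nat_lit 189))) (XT.nd (nat_lit 78) (nat_lit 76) (nat_lit 0) (XT.lf (nat_lit 0) (nat_lit 128461035625) (nat_lit 152) (nat_lit 108266603640) (nat_lit 0) (nat_lit 106443304942) (nat_lit 137) (nat_lit 5) (nat_lit 139) (nat_lit 4) (nat_lit 137) (nat_lit 4) (nat_lit 475) (nat_lit 357) (nat_lit 188)) (XT.lf (nat_lit 0) (nat_lit 124289779479) (nat_lit 76) (nat_lit 126113353395) (nat_lit 76) (nat_lit 104095347494) (nat_lit 136) (nat_lit 4) (nat_lit 137) (nat_lit 5) (nat_lit 137) (nat_lit 4) (nat_lit 476) (nat_lit 357) (nat_lit 187)))) (XT.nd (nat_lit 156) (nat_lit 228) (nat_lit 0)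 (XT.nd (nat_lit 78) (nat_lit 0) (nat_lit 0) (XT.lf (nat_lit 0) (nat_lit 5896581985) (nat_lit 76) (nat_lit 7720418013) (nat_lit 152) (nat_lit 352668350085) (nat_lit 134) (nat_lit 5) (nat_lit 135) (nat_lit 5) (nat_lit 136) (nat_lit 4) (nat_lit 477) (nat_lit 357) (nat_lit 186)) (XT.lf (nat_lit 0) (nat_lit 139496682730) (nat_lit 152) (nat_lit 120263890363) (nat_lit 0) (nat_lit 118526665928) (nat_lit 134) (nat_lit 5) (nat_lit 136) (nat_lit 4) (nat_lit 134) (nat_lit 4) (nat_lit 478) (nat_lit 357) (nat_lit 185))) (XT.nd (nat_lit 78) (nat_lit 152) (nat_lit 0) (XT.lf (nat_lit 0) (nat_lit 136090712533) (nat_lit 76) (nat_lit 137828163391) (nat_lit 76) (nat_lit 116857920166) (nat_lit 133) (nat_lit 4) (nat_lit 134) (nat_lit 5) (nat_lit 134) (nat_lit 4) (nat_lit 479) (nat_lit 357) (nat_lit 184)) (XT.lf (nat_lit 0) (nat_lit 5615562111) (nat_lit 76) (nat_lit 7353228608) (nat_lit 152) (nat_lit 390805569699) (nat_lit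 131) (nat_lit 5) (nat_lit 132) (nat_lit 5) (nat_lit 133) (nat_lit 4) (nat_lit 480) (nat_lit 357) (nat_lit 183)))))) (XT.nd (nat_lit 624) (nat_lit 228) (nat_lit 0) (XT.nd (nat_lit 312) (nat_lit 304) (nat_lit 0) (XT.nd (nat_lit 156) (nat_lit 152) (nat_lit 0) (XT.nd (nat_lit 78) (nat_lit 76) (nat_lit 0) (XT.lf (nat_lit 0) (nat_lit 151764920101) (nat_lit 152) (nat_lit 133447974990) (nat_lit 0) (nat_lit 131792858924) (nat_lit 131) (nat_lit 5) (nat_lit 133) (nat_lit 4) (nat_lit 131) (nat_lit 4) (nat_lit 481) (nat_lit 357) (nat_lit 182)) (XT.lf (nat_lit 0) (nat_lit 149146012174) (nat_lit 76) (nat_lit 150801314517) (nat_lit 76) (nat_lit 130829067062) (nat_lit 130) (nat_lit 4) (nat_lit 131) (nat_lit 5) (nat_lit 131) (nat_lit 4) (nat_lit 482) (nat_lit 357) (nat_lit 181))) (XT.nd (nat_lit 78) (nat_lit 0) (nat_lit 0) (XT.lf (nat_lit 0) (nat_lit 5347964958) (nat_lit 76) (nat_lit 7003444710) (nat_lit 152) (nat_lit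 432757218096) (nat_lit 128) (nat_lit 5) (nat_lit 129) (nat_lit 5) (nat_lit 130) (nat_lit 4) (nat_lit 483) (nat_lit 357) (nat_lit 180)) (XT.lf (nat_lit 0) (nat_lit 165387270123) (nat_lit 152) (nat_lit 147942560493) (nat_lit 0) (nat_lit 146365752197) (nat_lit 128) (nat_lit 5) (nat_lit 130) (nat_lit 4) (nat_lit 128) (nat_lit 4) (nat_lit 484) (nat_lit 357) (nat_lit 179)))) (XT.nd (nat_lit 156) (nat_lit 76) (nat_lit 0) (XT.nd (nat_lit 78) (nat_lit 152) (nat_lit 0) (XT.lf (nat_lit 0) (nat_lit 163582107032) (nat_lit 76) (nat_lit 165159068580) (nat_lit 76) (nat_lit 146137397402) (nat_lit 127) (nat_lit 4) (nat_lit 128) (nat_lit 5) (nat_lit 128) (nat_lit 4) (nat_lit 485) (nat_lit 357) (nat_lit 178)) (XT.lf (nat_lit 0) (nat_lit 5093144114) (nat_lit 76) (nat_lit 6670251615) (nat_lit 152) (nat_lit 478918769289) (nat_lit 125) (nat_lit 5) (nat_lit 126) (nat_lit 5) (nat_lit 127) (nat_lit 4) (nat_lit 486) (nat_lit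 357) (nat_lit 177))) (XT.nd (nat_lit 78) (nat_lit 76) (nat_lit 0) (XT.lf (nat_lit 0) (nat_lit 180497938500) (nat_lit 152) (nat_lit 163883929328) (nat_lit 0) (nat_lit 162381789800) (nat_lit 125) (nat_lit 5) (nat_lit 127) (nat_lit 4) (nat_lit 125) (nat_lit 4) (nat_lit 487) (nat_lit 357) (nat_lit 176)) (XT.lf (nat_lit 0) (nat_lit 179538488894) (nat_lit 76) (nat_lit 181040754503) (nat_lit 76) (nat_lit 162924479723) (nat_lit 124) (nat_lit 4) (nat_lit 125) (nat_lit 5) (nat_lit 125) (nat_lit 4) (nat_lit 488) (nat_lit 357) (nat_lit 175))))) (XT.nd (nat_lit 42978) (nat_lit 0) (nat_lit 13832) (XT.nd (nat_lit 156) (nat_lit 76) (nat_lit 0) (XT.nd (nat_lit 78) (nat_lit 0) (nat_lit 0) (XT.lf (nat_lit 0) (nat_lit 4850485226) (nat_lit 76) (nat_lit 6352870911) (nat_lit 152) (nat_lit 529726021355) (nat_lit 122) (nat_lit 5) (nat_lit 123) (nat_lit 5) (nat_lit 124) (nat_lit 4) (nat_lit 489) (nat_lit 357) (nat_lit 174))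 (XT.lf (nat_lit 0) (nat_lit 197245103852) (nat_lit 152) (nat_lit 181422237975) (nat_lit 0) (nat_lit 179991285553) (nat_lit 122) (nat_lit 5) (nat_lit 124) (nat_lit 4) (nat_lit 122) (nat_lit 4) (nat_lit 490) (nat_lit 357) (nat_lit 173))) (XT.nd (nat_lit 42744) (nat_lit 0) (nat_lit 13832) (XT.lf (nat_lit 0) (nat_lit 197169046333) (nat_lit 76) (nat_lit 198600102481) (nat_lit 76) (nat_lit 181346180455) (nat_lit 121) (nat_lit 4) (nat_lit 122) (nat_lit 5) (nat_lit 122) (nat_lit 4) (nat_lit 491) (nat_lit 357) (nat_lit 172)) (XT.lf (nat_lit 0) (nat_lit 1338320316) (nat_lit 0) (nat_lit 1338320316) (nat_lit 684) (nat_lit 2436564197) (nat_lit 303) (nat_lit 5) (nat_lit 303) (nat_lit 3) (nat_lit 312) (nat_lit 3) (nat_lit 358) (nat_lit 358) (nat_lit 304)))) (XT.nd (nat_lit 156) (nat_lit 0) (nat_lit 76) (XT.nd (nat_lit 78) (nat_lit 0) (nat_lit 0) (XT.lf (nat_lit 0) (nat_lit 6181446154) (nat_lit 684) (nat_lit 2454870811)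 (nat_lit 760) (nat_lit 1811036295) (nat_lit 303) (nat_lit 5) (nat_lit 312) (nat_lit 3) (nat_lit 313) (nat_lit 5) (nat_lit 359) (nat_lit 358) (nat_lit 303)) (XT.lf (nat_lit 76) (nat_lit 2920621850) (nat_lit 0) (nat_lit 4177632095) (nat_lit 760) (nat_lit 3578728361) (nat_lit 304) (nat_lit 5) (nat_lit 303) (nat_lit 5) (nat_lit 313) (nat_lit 5) (nat_lit 360) (nat_lit 358) (nat_lit 302))) (XT.nd (nat_lit 78) (nat_lit 0) (nat_lit 0) (XT.lf (nat_lit 0) (nat_lit 8070698780) (nat_lit 684) (nat_lit 2300112633) (nat_lit 760) (nat_lit 546791557) (nat_lit 304) (nat_lit 5) (nat_lit 313) (nat_lit 5) (nat_lit 314) (nat_lit 5) (nat_lit 361) (nat_lit 358) (nat_lit 301)) (XT.lf (nat_lit 76) (nat_lit 3446322735) (nat_lit 0) (nat_lit 5729328060) (nat_lit 760) (nat_lit 1990409628) (nat_lit 305) (nat_lit 5) (nat_lit 304) (nat_lit 5) (nat_lit 314) (nat_lit 5) (nat_lit 362) (nat_lit 358) (nat_lit 300))))))) (XT.nd (nat_lit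 1248) (nat_lit 2508) (nat_lit 0) (XT.nd (nat_lit 624) (nat_lit 1900) (nat_lit 0) (XT.nd (nat_lit 312) (nat_lit 608) (nat_lit 0) (XT.nd (nat_lit 156) (nat_lit 684) (nat_lit 0) (XT.nd (nat_lit 78) (nat_lit 0) (nat_lit 76) (XT.lf (nat_lit 76) (nat_lit 9535885907) (nat_lit 0) (nat_lit 801963900) (nat_lit 760) (nat_lit 1088990970) (nat_lit 305) (nat_lit 5) (nat_lit 304) (nat_lit 5) (nat_lit 314) (nat_lit 5) (nat_lit 363) (nat_lit 358) (nat_lit 299)) (XT.lf (nat_lit 76) (nat_lit 4272916417) (nat_lit 0) (nat_lit 7385207602) (nat_lit 760) (nat_lit 37537867) (nat_lit 306) (nat_lit 5) (nat_lit 305) (nat_lit 5) (nat_lit 315) (nat_lit 5) (nat_lit 364) (nat_lit 358) (nat_lit 298))) (XT.nd (nat_lit 78) (nat_lit 0) (nat_lit 76) (XT.lf (nat_lit 0) (nat_lit 1043779521) (nat_lit 760) (nat_lit 1221602051) (nat_lit 836) (nat_lit 9711138641) (nat_lit 295) (nat_lit 5) (nat_lit 305) (nat_lit 5) (nat_lit 306) (nat_lit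 5) (nat_lit 365) (nat_lit 358) (nat_lit 297)) (XT.lf (nat_lit 0) (nat_lit 2280269880) (nat_lit 760) (nat_lit 6880184616) (nat_lit 836) (nat_lit 3105817761) (nat_lit 296) (nat_lit 5) (nat_lit 306) (nat_lit 5) (nat_lit 307) (nat_lit 5) (nat_lit 366) (nat_lit 358) (nat_lit 296)))) (XT.nd (nat_lit 156) (nat_lit 684) (nat_lit 0) (XT.nd (nat_lit 78) (nat_lit 0) (nat_lit 76) (XT.lf (nat_lit 0) (nat_lit 3605408086) (nat_lit 760) (nat_lit 266046573) (nat_lit 836) (nat_lit 8697716077) (nat_lit 296) (nat_lit 5) (nat_lit 306) (nat_lit 5) (nat_lit 307) (nat_lit 5) (nat_lit 367) (nat_lit 358) (nat_lit 295)) (XT.lf (nat_lit 0) (nat_lit 5102386856) (nat_lit 760) (nat_lit 6037066769) (nat_lit 76) (nat_lit 1742481331) (nat_lit 297) (nat_lit 5) (nat_lit 307) (nat_lit 5) (nat_lit 298) (nat_lit 5) (nat_lit 368) (nat_lit 358) (nat_lit 294))) (XT.nd (nat_lit 78) (nat_lit 0) (nat_lit 0) (XT.lf (nat_lit 0) (nat_lit 1055119614)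 (nat_lit 760) (nat_lit 5674885234) (nat_lit 836) (nat_lit 6477543026) (nat_lit 287) (nat_lit 5) (nat_lit 297) (nat_lit 5) (nat_lit 298) (nat_lit 5) (nat_lit 369) (nat_lit 358) (nat_lit 293)) (XT.lf (nat_lit 0) (nat_lit 8516189637) (nat_lit 836) (nat_lit 4862058647) (nat_lit 76) (nat_lit 167333857) (nat_lit 287) (nat_lit 5) (nat_lit 298) (nat_lit 5) (nat_lit 288) (nat_lit 5) (nat_lit 370) (nat_lit 358) (nat_lit 292))))) (XT.nd (nat_lit 312) (nat_lit 988) (nat_lit 0) (XT.nd (nat_lit 156) (nat_lit 456) (nat_lit 0) (XT.nd (nat_lit 78) (nat_lit 0) (nat_lit 0) (XT.lf (nat_lit 0) (nat_lit 2762915190) (nat_lit 456) (nat_lit 7738542848) (nat_lit 532) (nat_lit 3393571366) (nat_lit 281) (nat_lit 5) (nat_lit 287) (nat_lit 5) (nat_lit 288) (nat_lit 5) (nat_lit 371) (nat_lit 358) (nat_lit 291)) (XT.lf (nat_lit 0) (nat_lit 10913031817) (nat_lit 456) (nat_lit 1729773957) (nat_lit 532) (nat_lit 1616302460) (nat_lit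 281) (nat_lit 5) (nat_lit 287) (nat_lit 5) (nat_lit 288) (nat_lit 5) (nat_lit 372) (nat_lit 358) (nat_lit 290))) (XT.nd (nat_lit 78) (nat_lit 0) (nat_lit 0) (XT.lf (nat_lit 0) (nat_lit 367391828) (nat_lit 456) (nat_lit 9751830447) (nat_lit 76) (nat_lit 4515695802) (nat_lit 275) (nat_lit 5) (nat_lit 281) (nat_lit 5) (nat_lit 276) (nat_lit 5) (nat_lit 373) (nat_lit 358) (nat_lit 289)) (XT.lf (nat_lit 0) (nat_lit 2457993451) (nat_lit 456) (nat_lit 1467922281) (nat_lit 76) (nat_lit 11099175792) (nat_lit 275) (nat_lit 5) (nat_lit 281) (nat_lit 5) (nat_lit 276) (nat_lit 5) (nat_lit 374) (nat_lit 358) (nat_lit 288)))) (XT.nd (nat_lit 156) (nat_lit 304) (nat_lit 0) (XT.nd (nat_lit 78) (nat_lit 304) (nat_lit 0) (XT.lf (nat_lit 0) (nat_lit 4788697471) (nat_lit 456) (nat_lit 8027900623) (nat_lit 76) (nat_lit 2611396933) (nat_lit 270) (nat_lit 5) (nat_lit 276) (nat_lit 5) (nat_lit 271) (nat_lit 5) (nat_lit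 375) (nat_lit 358) (nat_lit 287)) (XT.lf (nat_lit 0) (nat_lit 850308526) (nat_lit 304) (nat_lit 6466444639) (nat_lit 380) (nat_lit 8530249717) (nat_lit 266) (nat_lit 5) (nat_lit 270) (nat_lit 5) (nat_lit 271) (nat_lit 5) (nat_lit 376) (nat_lit 358) (nat_lit 286))) (XT.nd (nat_lit 78) (nat_lit 304) (nat_lit 0) (XT.lf (nat_lit 0) (nat_lit 10091076094) (nat_lit 380) (nat_lit 5859832683) (nat_lit 76) (nat_lit 330059130) (nat_lit 266) (nat_lit 5) (nat_lit 271) (nat_lit 5) (nat_lit 267) (nat_lit 5) (nat_lit 377) (nat_lit 358) (nat_lit 285)) (XT.lf (nat_lit 0) (nat_lit 3722790923) (nat_lit 304) (nat_lit 9425014469) (nat_lit 380) (nat_lit 3581641281) (nat_lit 262) (nat_lit 5) (nat_lit 266) (nat_lit 5) (nat_lit 267) (nat_lit 5) (nat_lit 378) (nat_lit 358) (nat_lit 284)))))) (XT.nd (nat_lit 624) (nat_lit 1216) (nat_lit 0) (XT.nd (nat_lit 312) (nat_lit 608) (nat_lit 0) (XT.nd (nat_lit 156) (nat_lit 304) (nat_lit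 0) (XT.nd (nat_lit 78) (nat_lit 380) (nat_lit 0) (XT.lf (nat_lit 0) (nat_lit 13964150198) (nat_lit 304) (nat_lit 2472620997) (nat_lit 380) (nat_lit 759608178) (nat_lit 262) (nat_lit 5) (nat_lit 266) (nat_lit 5) (nat_lit 267) (nat_lit 5) (nat_lit 379) (nat_lit 358) (nat_lit 283)) (XT.lf (nat_lit 0) (nat_lit 2303978906) (nat_lit 380) (nat_lit 10554242901) (nat_lit 76) (nat_lit 4818167795) (nat_lit 257) (nat_lit 5) (nat_lit 262) (nat_lit 5) (nat_lit 258) (nat_lit 5) (nat_lit 380) (nat_lit 358) (nat_lit 282))) (XT.nd (nat_lit 78) (nat_lit 304) (nat_lit 0) (XT.lf (nat_lit 0) (nat_lit 5572673658) (nat_lit 380) (nat_lit 148915357) (nat_lit 76) (nat_lit 12454315891) (nat_lit 257) (nat_lit 5) (nat_lit 262) (nat_lit 5) (nat_lit 258) (nat_lit 5) (nat_lit 381) (nat_lit 358) (nat_lit 281)) (XT.lf (nat_lit 0) (nat_lit 9190861852) (nat_lit 380) (nat_lit 7613481890) (nat_lit 76) (nat_lit 1886749297) (nat_lit 253)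 (nat_lit 5) (nat_lit 258) (nat_lit 5) (nat_lit 254) (nat_lit 5) (nat_lit 382) (nat_lit 358) (nat_lit 280)))) (XT.nd (nat_lit 156) (nat_lit 380) (nat_lit 0) (XT.nd (nat_lit 78) (nat_lit 0) (nat_lit 0) (XT.lf (nat_lit 0) (nat_lit 3638215225) (nat_lit 228) (nat_lit 9487504808) (nat_lit 304) (nat_lit 6099532518) (nat_lit 250) (nat_lit 5) (nat_lit 253) (nat_lit 5) (nat_lit 254) (nat_lit 5) (nat_lit 383) (nat_lit 358) (nat_lit 279)) (XT.lf (nat_lit 0) (nat_lit 15694080867) (nat_lit 228) (nat_lit 1675249902) (nat_lit 304) (nat_lit 2411188787) (nat_lit 250) (nat_lit 5) (nat_lit 253) (nat_lit 5) (nat_lit 254) (nat_lit 5) (nat_lit 384) (nat_lit 358) (nat_lit 278))) (XT.nd (nat_lit 78) (nat_lit 0) (nat_lit 0) (XT.lf (nat_lit 0) (nat_lit 1630836244) (nat_lit 380) (nat_lit 12254277326) (nat_lit 76) (nat_lit 6466493202) (nat_lit 245) (nat_lit 5) (nat_lit 250) (nat_lit 5) (nat_lit 246) (nat_lit 5) (nat_lit 385)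 (nat_lit 358) (nat_lit 277)) (XT.lf (nat_lit 0) (nat_lit 5875695002) (nat_lit 380) (nat_lit 6301004) (nat_lit 76) (nat_lit 15063187746) (nat_lit 245) (nat_lit 5) (nat_lit 250) (nat_lit 5) (nat_lit 246) (nat_lit 5) (nat_lit 386) (nat_lit 358) (nat_lit 276))))) (XT.nd (nat_lit 312) (nat_lit 456) (nat_lit 0) (XT.nd (nat_lit 156) (nat_lit 304) (nat_lit 0) (XT.nd (nat_lit 78) (nat_lit 228) (nat_lit 0) (XT.lf (nat_lit 0) (nat_lit 10567159239) (nat_lit 304) (nat_lit 8344609047) (nat_lit 76) (nat_lit 2644953169) (nat_lit 242) (nat_lit 5) (nat_lit 246) (nat_lit 5) (nat_lit 243) (nat_lit 5) (nat_lit 387) (nat_lit 358) (nat_lit 275)) (XT.lf (nat_lit 0) (nat_lit 4932505642) (nat_lit 228) (nat_lit 10719260484) (nat_lit 304) (nat_lit 6539141446) (nat_lit 239) (nat_lit 5) (nat_lit 242) (nat_lit 5) (nat_lit 243) (nat_lit 5) (nat_lit 388) (nat_lit 358) (nat_lit 274))) (XT.nd (nat_lit 78) (nat_lit 304) (nat_lit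 0) (XT.lf (nat_lit 0) (nat_lit 19141761239) (nat_lit 228) (nat_lit 1975565365) (nat_lit 304) (nat_lit 1733140227) (nat_lit 239) (nat_lit 5) (nat_lit 242) (nat_lit 5) (nat_lit 243) (nat_lit 5) (nat_lit 389) (nat_lit 358) (nat_lit 273)) (XT.lf (nat_lit 0) (nat_lit 3477471523) (nat_lit 304) (nat_lit 12857432152) (nat_lit 76) (nat_lit 7191996375) (nat_lit 235) (nat_lit 5) (nat_lit 239) (nat_lit 5) (nat_lit 236) (nat_lit 5) (nat_lit 390) (nat_lit 358) (nat_lit 272)))) (XT.nd (nat_lit 156) (nat_lit 228) (nat_lit 0) (XT.nd (nat_lit 78) (nat_lit 0) (nat_lit 0) (XT.lf (nat_lit 0) (nat_lit 1630537954) (nat_lit 228) (nat_lit 7367630265) (nat_lit 304) (nat_lit 15232176143) (nat_lit 232) (nat_lit 5) (nat_lit 235) (nat_lit 5) (nat_lit 236) (nat_lit 5) (nat_lit 391) (nat_lit 358) (nat_lit 271)) (XT.lf (nat_lit 0) (nat_lit 15034532492) (nat_lit 304) (nat_lit 7725669395) (nat_lit 76) (nat_lit 2196777367) (nat_lit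 232) (nat_lit 5) (nat_lit 236) (nat_lit 5) (nat_lit 233) (nat_lit 5) (nat_lit 392) (nat_lit 358) (nat_lit 270))) (XT.nd (nat_lit 78) (nat_lit 76) (nat_lit 0) (XT.lf (nat_lit 0) (nat_lit 8007356511) (nat_lit 152) (nat_lit 13598148147) (nat_lit 228) (nat_lit 4102801747) (nat_lit 230) (nat_lit 5) (nat_lit 232) (nat_lit 5) (nat_lit 233) (nat_lit 5) (nat_lit 393) (nat_lit 358) (nat_lit 269)) (XT.lf (nat_lit 0) (nat_lit 2063636035) (nat_lit 228) (nat_lit 1749320784) (nat_lit 76) (nat_lit 22676672034) (nat_lit 229) (nat_lit 5) (nat_lit 232) (nat_lit 5) (nat_lit 230) (nat_lit 5) (nat_lit 394) (nat_lit 358) (nat_lit 268))))))))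
noncomputable def xc185 : XT := (XT.nd (nat_lit 1248) (nat_lit 1368) (nat_lit 0) (XT.nd (nat_lit 624) (nat_lit 912) (nat_lit 0) (XT.nd (nat_lit 312) (nat_lit 380) (nat_lit 0) (XT.nd (nat_lit 156) (nat_lit 228) (nat_lit 0) (XT.nd (nat_lit 78) (nat_lit 152) (nat_lit 0) (XT.lf (nat_lit 0) (nat_lit 8734571359) (nat_lit 304) (nat_lit 11994779858) (nat_lit 76) (nat_lit 6560600417) (nat_lit 226) (nat_lit 5) (nat_lit 230) (nat_lit 5) (nat_lit 227) (nat_lit 5) (nat_lit 395) (nat_lit 358) (nat_lit 267)) (XT.lf (nat_lit 0) (nat_lit 5207879087) (nat_lit 152) (nat_lit 10692983488) (nat_lit 228) (nat_lit 12221337524) (nat_lit 224) (nat_lit 5) (nat_lit 226) (nat_lit 5) (nat_lit 227) (nat_lit 5) (nat_lit 396) (nat_lit 358) (nat_lit 266))) (XT.nd (nat_lit 78) (nat_lit 228) (nat_lit 0) (XT.lf (nat_lit 0) (nat_lit 23617558956) (nat_lit 228) (nat_lit 5319498448) (nat_lit 76) (nat_lit 49399053) (nat_lit 224) (nat_lit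 5) (nat_lit 227) (nat_lit 5) (nat_lit 225) (nat_lit 5) (nat_lit 397) (nat_lit 358) (nat_lit 265)) (XT.lf (nat_lit 0) (nat_lit 2146781292) (nat_lit 228) (nat_lit 16520427891) (nat_lit 76) (nat_lit 11206337600) (nat_lit 221) (nat_lit 5) (nat_lit 224) (nat_lit 5) (nat_lit 222) (nat_lit 5) (nat_lit 398) (nat_lit 358) (nat_lit 264)))) (XT.nd (nat_lit 156) (nat_lit 228) (nat_lit 0) (XT.nd (nat_lit 78) (nat_lit 0) (nat_lit 0) (XT.lf (nat_lit 0) (nat_lit 2309061686) (nat_lit 152) (nat_lit 7665048068) (nat_lit 228) (nat_lit 20820666341) (nat_lit 219) (nat_lit 5) (nat_lit 221) (nat_lit 5) (nat_lit 222) (nat_lit 5) (nat_lit 399) (nat_lit 358) (nat_lit 263)) (XT.lf (nat_lit 0) (nat_lit 18526673807) (nat_lit 228) (nat_lit 9178820005) (nat_lit 76) (nat_lit 4039879604) (nat_lit 219) (nat_lit 5) (nat_lit 222) (nat_lit 5) (nat_lit 220) (nat_lit 5) (nat_lit 400) (nat_lit 358) (nat_lit 262))) (XT.nd (nat_lit 78)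 (nat_lit 76) (nat_lit 0) (XT.lf (nat_lit 0) (nat_lit 11311670600) (nat_lit 152) (nat_lit 16486802420) (nat_lit 228) (nat_lit 4930447234) (nat_lit 217) (nat_lit 5) (nat_lit 219) (nat_lit 5) (nat_lit 220) (nat_lit 5) (nat_lit 401) (nat_lit 358) (nat_lit 261)) (XT.lf (nat_lit 0) (nat_lit 3798880785) (nat_lit 228) (nat_lit 688155635) (nat_lit 76) (nat_lit 29264293391) (nat_lit 216) (nat_lit 5) (nat_lit 219) (nat_lit 5) (nat_lit 217) (nat_lit 5) (nat_lit 402) (nat_lit 358) (nat_lit 260))))) (XT.nd (nat_lit 312) (nat_lit 456) (nat_lit 0) (XT.nd (nat_lit 156) (nat_lit 152) (nat_lit 0) (XT.nd (nat_lit 78) (nat_lit 152) (nat_lit 0) (XT.lf (nat_lit 0) (nat_lit 13260682306) (nat_lit 228) (nat_lit 13264919115) (nat_lit 76) (nat_lit 8272131952) (nat_lit 214) (nat_lit 5) (nat_lit 217) (nat_lit 5) (nat_lit 215) (nat_lit 5) (nat_lit 403) (nat_lit 358) (nat_lit 259)) (XT.lf (nat_lit 0) (nat_lit 9195999649) (nat_lit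 152) (nat_lit 14218561583) (nat_lit 228) (nat_lit 12470946515) (nat_lit 212) (nat_lit 5) (nat_lit 214) (nat_lit 5) (nat_lit 215) (nat_lit 5) (nat_lit 404) (nat_lit 358) (nat_lit 258))) (XT.nd (nat_lit 78) (nat_lit 152) (nat_lit 0) (XT.lf (nat_lit 0) (nat_lit 33223343327) (nat_lit 152) (nat_lit 1067655358) (nat_lit 228) (nat_lit 2725928926) (nat_lit 212) (nat_lit 5) (nat_lit 214) (nat_lit 5) (nat_lit 215) (nat_lit 5) (nat_lit 405) (nat_lit 358) (nat_lit 257)) (XT.lf (nat_lit 0) (nat_lit 7787074565) (nat_lit 152) (nat_lit 17611027196) (nat_lit 76) (nat_lit 12774907719) (nat_lit 210) (nat_lit 5) (nat_lit 212) (nat_lit 5) (nat_lit 211) (nat_lit 5) (nat_lit 406) (nat_lit 358) (nat_lit 256)))) (XT.nd (nat_lit 156) (nat_lit 304) (nat_lit 0) (XT.nd (nat_lit 78) (nat_lit 0) (nat_lit 0) (XT.lf (nat_lit 0) (nat_lit 7028325982) (nat_lit 152) (nat_lit 11888941237) (nat_lit 228) (nat_lit 20458236451) (nat_lit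 208) (nat_lit 5) (nat_lit 210) (nat_lit 5) (nat_lit 211) (nat_lit 5) (nat_lit 407) (nat_lit 358) (nat_lit 255)) (XT.lf (nat_lit 0) (nat_lit 30933642892) (nat_lit 228) (nat_lit 7169685893) (nat_lit 76) (nat_lit 2518310116) (nat_lit 208) (nat_lit 5) (nat_lit 211) (nat_lit 5) (nat_lit 209) (nat_lit 4) (nat_lit 408) (nat_lit 358) (nat_lit 254))) (XT.nd (nat_lit 78) (nat_lit 152) (nat_lit 0) (XT.lf (nat_lit 0) (nat_lit 2070356374) (nat_lit 152) (nat_lit 22252960864) (nat_lit 76) (nat_lit 17580424715) (nat_lit 206) (nat_lit 5) (nat_lit 208) (nat_lit 5) (nat_lit 207) (nat_lit 5) (nat_lit 409) (nat_lit 358) (nat_lit 253)) (XT.lf (nat_lit 0) (nat_lit 4793891984) (nat_lit 152) (nat_lit 9486580870) (nat_lit 228) (nat_lit 28952064990) (nat_lit 204) (nat_lit 5) (nat_lit 206) (nat_lit 5) (nat_lit 207) (nat_lit 5) (nat_lit 410) (nat_lit 358) (nat_lit 252)))))) (XT.nd (nat_lit 624) (nat_lit 684) (nat_lit 0) (XT.nd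 (nat_lit 312) (nat_lit 380) (nat_lit 0) (XT.nd (nat_lit 156) (nat_lit 228) (nat_lit 0) (XT.nd (nat_lit 78) (nat_lit 76) (nat_lit 0) (XT.lf (nat_lit 0) (nat_lit 27570481922) (nat_lit 228) (nat_lit 10760664453) (nat_lit 76) (nat_lit 6273157817) (nat_lit 204) (nat_lit 5) (nat_lit 207) (nat_lit 5) (nat_lit 205) (nat_lit 4) (nat_lit 411) (nat_lit 358) (nat_lit 251)) (XT.lf (nat_lit 0) (nat_lit 18729833762) (nat_lit 76) (nat_lit 23234749090) (nat_lit 152) (nat_lit 4058096434) (nat_lit 203) (nat_lit 5) (nat_lit 204) (nat_lit 5) (nat_lit 205) (nat_lit 4) (nat_lit 412) (nat_lit 358) (nat_lit 250))) (XT.nd (nat_lit 78) (nat_lit 0) (nat_lit 0) (XT.lf (nat_lit 0) (nat_lit 2477155933) (nat_lit 152) (nat_lit 6998650967) (nat_lit 228) (nat_lit 38017919495) (nat_lit 200) (nat_lit 5) (nat_lit 202) (nat_lit 5) (nat_lit 203) (nat_lit 5) (nat_lit 413) (nat_lit 358) (nat_lit 249)) (XT.lf (nat_lit 0) (nat_lit 24168446779)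 (nat_lit 228) (nat_lit 14578427899) (nat_lit 76) (nat_lit 10257203870) (nat_lit 200) (nat_lit 5) (nat_lit 203) (nat_lit 5) (nat_lit 201) (nat_lit 4) (nat_lit 414) (nat_lit 358) (nat_lit 248)))) (XT.nd (nat_lit 156) (nat_lit 76) (nat_lit 0) (XT.nd (nat_lit 78) (nat_lit 228) (nat_lit 0) (XT.lf (nat_lit 0) (nat_lit 17822643953) (nat_lit 76) (nat_lit 22158190155) (nat_lit 152) (nat_lit 10589858429) (nat_lit 199) (nat_lit 5) (nat_lit 200) (nat_lit 5) (nat_lit 201) (nat_lit 4) (nat_lit 415) (nat_lit 358) (nat_lit 247)) (XT.lf (nat_lit 0) (nat_lit 61627360) (nat_lit 152) (nat_lit 4410813727) (nat_lit 228) (nat_lit 47727583779) (nat_lit 196) (nat_lit 5) (nat_lit 198) (nat_lit 5) (nat_lit 199) (nat_lit 5) (nat_lit 416) (nat_lit 358) (nat_lit 246))) (XT.nd (nat_lit 78) (nat_lit 76) (nat_lit 0) (XT.lf (nat_lit 0) (nat_lit 20709925838) (nat_lit 228) (nat_lit 18653887050) (nat_lit 76) (nat_lit 14499432763)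 (nat_lit 196) (nat_lit 5) (nat_lit 199) (nat_lit 5) (nat_lit 197) (nat_lit 4) (nat_lit 417) (nat_lit 358) (nat_lit 245)) (XT.lf (nat_lit 0) (nat_lit 16961365064) (nat_lit 76) (nat_lit 21127602238) (nat_lit 152) (nat_lit 17504176050) (nat_lit 195) (nat_lit 5) (nat_lit 196) (nat_lit 5) (nat_lit 197) (nat_lit 4) (nat_lit 418) (nat_lit 358) (nat_lit 244))))) (XT.nd (nat_lit 312) (nat_lit 380) (nat_lit 0) (XT.nd (nat_lit 156) (nat_lit 76) (nat_lit 0) (XT.nd (nat_lit 78) (nat_lit 228) (nat_lit 0) (XT.lf (nat_lit 0) (nat_lit 54991182103) (nat_lit 76) (nat_lit 1654389509) (nat_lit 152) (nat_lit 748533787) (nat_lit 195) (nat_lit 5) (nat_lit 196) (nat_lit 5) (nat_lit 197) (nat_lit 4) (nat_lit 419) (nat_lit 358) (nat_lit 243)) (XT.lf (nat_lit 0) (nat_lit 17175985013) (nat_lit 228) (nat_lit 23020589894) (nat_lit 76) (nat_lit 19031879039) (nat_lit 192) (nat_lit 5) (nat_lit 195) (nat_lit 5) (nat_lit 193) (nat_lit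 4) (nat_lit 420) (nat_lit 358) (nat_lit 242))) (XT.nd (nat_lit 78) (nat_lit 0) (nat_lit 0) (XT.lf (nat_lit 0) (nat_lit 16143330134) (nat_lit 76) (nat_lit 20141734800) (nat_lit 152) (nat_lit 24853166891) (nat_lit 191) (nat_lit 5) (nat_lit 192) (nat_lit 5) (nat_lit 193) (nat_lit 4) (nat_lit 421) (nat_lit 358) (nat_lit 241)) (XT.lf (nat_lit 0) (nat_lit 56753149405) (nat_lit 152) (nat_lit 5093484341) (nat_lit 0) (nat_lit 1276687326) (nat_lit 191) (nat_lit 5) (nat_lit 193) (nat_lit 4) (nat_lit 191) (nat_lit 4) (nat_lit 422) (nat_lit 358) (nat_lit 240)))) (XT.nd (nat_lit 156) (nat_lit 152) (nat_lit 0) (XT.nd (nat_lit 78) (nat_lit 76) (nat_lit 0) (XT.lf (nat_lit 0) (nat_lit 13546238683) (nat_lit 152) (nat_lit 27715046655) (nat_lit 76) (nat_lit 23889875761) (nat_lit 189) (nat_lit 5) (nat_lit 191) (nat_lit 5) (nat_lit 190) (nat_lit 4) (nat_lit 423) (nat_lit 358) (nat_lit 239)) (XT.lf (nat_lit 0) (nat_lit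 15366084434) (nat_lit 76) (nat_lit 19199230450) (nat_lit 152) (nat_lit 32693810549) (nat_lit 188) (nat_lit 5) (nat_lit 189) (nat_lit 5) (nat_lit 190) (nat_lit 4) (nat_lit 424) (nat_lit 358) (nat_lit 238))) (XT.nd (nat_lit 78) (nat_lit 152) (nat_lit 0) (XT.lf (nat_lit 0) (nat_lit 57167693829) (nat_lit 152) (nat_lit 7968012816) (nat_lit 0) (nat_lit 4310163892) (nat_lit 188) (nat_lit 5) (nat_lit 190) (nat_lit 4) (nat_lit 188) (nat_lit 4) (nat_lit 425) (nat_lit 358) (nat_lit 237)) (XT.lf (nat_lit 0) (nat_lit 9798701853) (nat_lit 152) (nat_lit 32777080347) (nat_lit 76) (nat_lit 29112342213) (nat_lit 186) (nat_lit 5) (nat_lit 188) (nat_lit 5) (nat_lit 187) (nat_lit 4) (nat_lit 426) (nat_lit 358) (nat_lit 236)))))))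
noncomputable def xc186 : XT := (XT.nd (nat_lit 1248) (nat_lit 1216) (nat_lit 0) (XT.nd (nat_lit 624) (nat_lit 684) (nat_lit 0) (XT.nd (nat_lit 312) (nat_lit 228) (nat_lit 0) (XT.nd (nat_lit 156) (nat_lit 228) (nat_lit 0) (XT.nd (nat_lit 78) (nat_lit 0) (nat_lit 0) (XT.lf (nat_lit 0) (nat_lit 14627360245) (nat_lit 76) (nat_lit 18298659532) (nat_lit 152) (nat_lit 41088445992) (nat_lit 185) (nat_lit 5) (nat_lit 186) (nat_lit 5) (nat_lit 187) (nat_lit 4) (nat_lit 427) (nat_lit 358) (nat_lit 235)) (XT.lf (nat_lit 0) (nat_lit 57879906283) (nat_lit 152) (nat_lit 11023067223) (nat_lit 0) (nat_lit 7520640553) (nat_lit 185) (nat_lit 5) (nat_lit 187) (nat_lit 4) (nat_lit 185) (nat_lit 4) (nat_lit 428) (nat_lit 358) (nat_lit 234))) (XT.nd (nat_lit 78) (nat_lit 76) (nat_lit 0) (XT.lf (nat_lit 0) (nat_lit 5909622815) (nat_lit 152) (nat_lit 38250206729) (nat_lit 76) (nat_lit 34742112288) (nat_lit 183) (nat_lit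 5) (nat_lit 185) (nat_lit 5) (nat_lit 184) (nat_lit 4) (nat_lit 429) (nat_lit 358) (nat_lit 233)) (XT.lf (nat_lit 0) (nat_lit 13925055524) (nat_lit 76) (nat_lit 17438547841) (nat_lit 152) (nat_lit 50105324185) (nat_lit 182) (nat_lit 5) (nat_lit 183) (nat_lit 5) (nat_lit 184) (nat_lit 4) (nat_lit 430) (nat_lit 358) (nat_lit 232)))) (XT.nd (nat_lit 156) (nat_lit 76) (nat_lit 0) (XT.nd (nat_lit 78) (nat_lit 152) (nat_lit 0) (XT.lf (nat_lit 0) (nat_lit 58908517349) (nat_lit 152) (nat_lit 14282956339) (nat_lit 0) (nat_lit 10931877147) (nat_lit 182) (nat_lit 5) (nat_lit 184) (nat_lit 4) (nat_lit 182) (nat_lit 4) (nat_lit 431) (nat_lit 358) (nat_lit 231)) (XT.lf (nat_lit 0) (nat_lit 1853295290) (nat_lit 152) (nat_lit 44182047744) (nat_lit 76) (nat_lit 40826305663) (nat_lit 180) (nat_lit 5) (nat_lit 182) (nat_lit 5) (nat_lit 181) (nat_lit 4) (nat_lit 432) (nat_lit 358) (nat_lit 230))) (XT.nd (nat_lit 78)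 (nat_lit 0) (nat_lit 0) (XT.lf (nat_lit 0) (nat_lit 13257215785) (nat_lit 76) (nat_lit 16617398713) (nat_lit 152) (nat_lit 59819220673) (nat_lit 179) (nat_lit 5) (nat_lit 180) (nat_lit 5) (nat_lit 181) (nat_lit 4) (nat_lit 433) (nat_lit 358) (nat_lit 229)) (XT.lf (nat_lit 0) (nat_lit 60274672700) (nat_lit 152) (nat_lit 17774138405) (nat_lit 0) (nat_lit 14569936210) (nat_lit 179) (nat_lit 5) (nat_lit 181) (nat_lit 4) (nat_lit 179) (nat_lit 4) (nat_lit 434) (nat_lit 358) (nat_lit 228))))) (XT.nd (nat_lit 312) (nat_lit 380) (nat_lit 0) (XT.nd (nat_lit 156) (nat_lit 76) (nat_lit 0) (XT.nd (nat_lit 78) (nat_lit 152) (nat_lit 0) (XT.lf (nat_lit 0) (nat_lit 44977979280) (nat_lit 76) (nat_lit 48186017645) (nat_lit 76) (nat_lit 2477444986) (nat_lit 178) (nat_lit 4) (nat_lit 179) (nat_lit 5) (nat_lit 179) (nat_lit 4) (nat_lit 435) (nat_lit 358) (nat_lit 227)) (XT.lf (nat_lit 0) (nat_lit 12622018658) (nat_lit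 76) (nat_lit 15833710518) (nat_lit 152) (nat_lit 70312113513) (nat_lit 176) (nat_lit 5) (nat_lit 177) (nat_lit 5) (nat_lit 178) (nat_lit 4) (nat_lit 436) (nat_lit 358) (nat_lit 226))) (XT.nd (nat_lit 78) (nat_lit 76) (nat_lit 0) (XT.lf (nat_lit 0) (nat_lit 62002168732) (nat_lit 152) (nat_lit 21525469404) (nat_lit 0) (nat_lit 18463401423) (nat_lit 176) (nat_lit 5) (nat_lit 178) (nat_lit 4) (nat_lit 176) (nat_lit 4) (nat_lit 437) (nat_lit 358) (nat_lit 225)) (XT.lf (nat_lit 0) (nat_lit 47579002228) (nat_lit 76) (nat_lit 50644226235) (nat_lit 76) (nat_lit 7102302900) (nat_lit 175) (nat_lit 4) (nat_lit 176) (nat_lit 5) (nat_lit 176) (nat_lit 4) (nat_lit 438) (nat_lit 358) (nat_lit 224)))) (XT.nd (nat_lit 156) (nat_lit 228) (nat_lit 0) (XT.nd (nat_lit 78) (nat_lit 0) (nat_lit 0) (XT.lf (nat_lit 0) (nat_lit 12017760675) (nat_lit 76) (nat_lit 15085990422) (nat_lit 152) (nat_lit 81673932601) (nat_lit 173)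 (nat_lit 5) (nat_lit 174) (nat_lit 5) (nat_lit 175) (nat_lit 4) (nat_lit 439) (nat_lit 358) (nat_lit 223)) (XT.lf (nat_lit 0) (nat_lit 64117710838) (nat_lit 152) (nat_lit 25568473383) (nat_lit 0) (nat_lit 22643623520) (nat_lit 173) (nat_lit 5) (nat_lit 175) (nat_lit 4) (nat_lit 173) (nat_lit 4) (nat_lit 440) (nat_lit 358) (nat_lit 222))) (XT.nd (nat_lit 78) (nat_lit 152) (nat_lit 0) (XT.lf (nat_lit 0) (nat_lit 50543250070) (nat_lit 76) (nat_lit 53470696404) (nat_lit 76) (nat_lit 11994012615) (nat_lit 172) (nat_lit 4) (nat_lit 173) (nat_lit 5) (nat_lit 173) (nat_lit 4) (nat_lit 441) (nat_lit 358) (nat_lit 221)) (XT.lf (nat_lit 0) (nat_lit 11442845914) (nat_lit 76) (nat_lit 14372765077) (nat_lit 152) (nat_lit 94003387223) (nat_lit 170) (nat_lit 5) (nat_lit 171) (nat_lit 5) (nat_lit 172) (nat_lit 4) (nat_lit 442) (nat_lit 358) (nat_lit 220)))))) (XT.nd (nat_lit 624) (nat_lit 684) (nat_lit 0) (XT.nd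 (nat_lit 312) (nat_lit 304) (nat_lit 0) (XT.nd (nat_lit 156) (nat_lit 152) (nat_lit 0) (XT.nd (nat_lit 78) (nat_lit 76) (nat_lit 0) (XT.lf (nat_lit 0) (nat_lit 66651197097) (nat_lit 152) (nat_lit 29937637616) (nat_lit 0) (nat_lit 27144995483) (nat_lit 170) (nat_lit 5) (nat_lit 172) (nat_lit 4) (nat_lit 170) (nat_lit 4) (nat_lit 443) (nat_lit 358) (nat_lit 219)) (XT.lf (nat_lit 0) (nat_lit 53903185231) (nat_lit 76) (nat_lit 56697963486) (nat_lit 76) (nat_lit 17189625750) (nat_lit 169) (nat_lit 4) (nat_lit 170) (nat_lit 5) (nat_lit 170) (nat_lit 4) (nat_lit 444) (nat_lit 358) (nat_lit 218))) (XT.nd (nat_lit 78) (nat_lit 0) (nat_lit 0) (XT.lf (nat_lit 0) (nat_lit 10895776190) (nat_lit 76) (nat_lit 13692588848) (nat_lit 152) (nat_lit 107408879422) (nat_lit 167) (nat_lit 5) (nat_lit 168) (nat_lit 5) (nat_lit 169) (nat_lit 4) (nat_lit 445) (nat_lit 358) (nat_lit 217)) (XT.lf (nat_lit 0) (nat_lit 69636030332)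 (nat_lit 152) (nat_lit 34670735588) (nat_lit 0) (nat_lit 32005259221) (nat_lit 167) (nat_lit 5) (nat_lit 169) (nat_lit 4) (nat_lit 167) (nat_lit 4) (nat_lit 446) (nat_lit 358) (nat_lit 216)))) (XT.nd (nat_lit 156) (nat_lit 76) (nat_lit 0) (XT.nd (nat_lit 78) (nat_lit 152) (nat_lit 0) (XT.lf (nat_lit 0) (nat_lit 57694854224) (nat_lit 76) (nat_lit 60362087984) (nat_lit 76) (nat_lit 22729559480) (nat_lit 166) (nat_lit 4) (nat_lit 167) (nat_lit 5) (nat_lit 167) (nat_lit 4) (nat_lit 447) (nat_lit 358) (nat_lit 215)) (XT.lf (nat_lit 0) (nat_lit 10375142549) (nat_lit 76) (nat_lit 13044050017) (nat_lit 152) (nat_lit 122009511661) (nat_lit 164) (nat_lit 5) (nat_lit 165) (nat_lit 5) (nat_lit 166) (nat_lit 4) (nat_lit 448) (nat_lit 358) (nat_lit 214))) (XT.nd (nat_lit 78) (nat_lit 76) (nat_lit 0) (XT.lf (nat_lit 0) (nat_lit 73109461725) (nat_lit 152) (nat_lit 39809181016) (nat_lit 0) (nat_lit 37265846277)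 (nat_lit 164) (nat_lit 5) (nat_lit 166) (nat_lit 4) (nat_lit 164) (nat_lit 4) (nat_lit 449) (nat_lit 358) (nat_lit 213)) (XT.lf (nat_lit 0) (nat_lit 61958237547) (nat_lit 76) (nat_lit 64503018098) (nat_lit 76) (nat_lit 28657956838) (nat_lit 163) (nat_lit 4) (nat_lit 164) (nat_lit 5) (nat_lit 164) (nat_lit 4) (nat_lit 450) (nat_lit 358) (nat_lit 212))))) (XT.nd (nat_lit 312) (nat_lit 304) (nat_lit 0) (XT.nd (nat_lit 156) (nat_lit 228) (nat_lit 0) (XT.nd (nat_lit 78) (nat_lit 0) (nat_lit 0) (XT.lf (nat_lit 0) (nat_lit 9879617844) (nat_lit 76) (nat_lit 12425775359) (nat_lit 152) (nat_lit 137936198170) (nat_lit 161) (nat_lit 5) (nat_lit 162) (nat_lit 5) (nat_lit 163) (nat_lit 4) (nat_lit 451) (nat_lit 358) (nat_lit 211)) (XT.lf (nat_lit 0) (nat_lit 77112969453) (nat_lit 152) (nat_lit 45398416397) (nat_lit 0) (nat_lit 42972255530) (nat_lit 161) (nat_lit 5) (nat_lit 163) (nat_lit 4) (nat_lit 161) (nat_lit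 4) (nat_lit 452) (nat_lit 358) (nat_lit 210))) (XT.nd (nat_lit 78) (nat_lit 152) (nat_lit 0) (XT.lf (nat_lit 0) (nat_lit 66737637198) (nat_lit 76) (nat_lit 69164987537) (nat_lit 76) (nat_lit 35023084142) (nat_lit 160) (nat_lit 4) (nat_lit 161) (nat_lit 5) (nat_lit 161) (nat_lit 4) (nat_lit 453) (nat_lit 358) (nat_lit 209)) (XT.lf (nat_lit 0) (nat_lit 9407950234) (nat_lit 76) (nat_lit 11836433405) (nat_lit 152) (nat_lit 155332890405) (nat_lit 158) (nat_lit 5) (nat_lit 159) (nat_lit 5) (nat_lit 160) (nat_lit 4) (nat_lit 454) (nat_lit 358) (nat_lit 208)))) (XT.nd (nat_lit 156) (nat_lit 228) (nat_lit 0) (XT.nd (nat_lit 78) (nat_lit 76) (nat_lit 0) (XT.lf (nat_lit 0) (nat_lit 81692676103) (nat_lit 152) (nat_lit 51488339859) (nat_lit 0) (nat_lit 49174471232) (nat_lit 158) (nat_lit 5) (nat_lit 160) (nat_lit 4) (nat_lit 158) (nat_lit 4) (nat_lit 455) (nat_lit 358) (nat_lit 207)) (XT.lf (nat_lit 0) (nat_lit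 72082105431) (nat_lit 76) (nat_lit 74396952641) (nat_lit 76) (nat_lit 41877769187) (nat_lit 157) (nat_lit 4) (nat_lit 158) (nat_lit 5) (nat_lit 158) (nat_lit 4) (nat_lit 456) (nat_lit 358) (nat_lit 206))) (XT.nd (nat_lit 78) (nat_lit 76) (nat_lit 0) (XT.lf (nat_lit 0) (nat_lit 8958957448) (nat_lit 76) (nat_lit 11274736641) (nat_lit 152) (nat_lit 174357928141) (nat_lit 155) (nat_lit 5) (nat_lit 156) (nat_lit 5) (nat_lit 157) (nat_lit 4) (nat_lit 457) (nat_lit 358) (nat_lit 205)) (XT.nd (nat_lit 78) (nat_lit 76) (nat_lit 0) (XT.lf (nat_lit 0) (nat_lit 86899808991) (nat_lit 152) (nat_lit 58133774473) (nat_lit 0) (nat_lit 55927425143) (nat_lit 155) (nat_lit 5) (nat_lit 157) (nat_lit 4) (nat_lit 155) (nat_lit 4) (nat_lit 458) (nat_lit 358) (nat_lit 204)) (XT.lf (nat_lit 0) (nat_lit 78045918764) (nat_lit 76) (nat_lit 80253073176) (nat_lit 76) (nat_lit 49279884246) (nat_lit 154) (nat_lit 4) (nat_lit 155)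 (nat_lit 5) (nat_lit 155) (nat_lit 4) (nat_lit 459) (nat_lit 358) (nat_lit 203))))))))
noncomputable def xc187 : XT := (XT.nd (nat_lit 45240) (nat_lit 0) (nat_lit 8892) (XT.nd (nat_lit 1248) (nat_lit 1140) (nat_lit 0) (XT.nd (nat_lit 624) (nat_lit 684) (nat_lit 0) (XT.nd (nat_lit 312) (nat_lit 228) (nat_lit 0) (XT.nd (nat_lit 156) (nat_lit 228) (nat_lit 0) (XT.nd (nat_lit 78) (nat_lit 0) (nat_lit 0) (XT.lf (nat_lit 0) (nat_lit 8531521710) (nat_lit 76) (nat_lit 10739442867) (nat_lit 152) (nat_lit 195185528951) (nat_lit 152) (nat_lit 5) (nat_lit 153) (nat_lit 5) (nat_lit 154) (nat_lit 4) (nat_lit 460) (nat_lit 358) (nat_lit 202)) (XT.lf (nat_lit 0) (nat_lit 92791207881) (nat_lit 152) (nat_lit 65394984530) (nat_lit 0) (nat_lit 63291507015) (nat_lit 152) (nat_lit 5) (nat_lit 154) (nat_lit 4) (nat_lit 152) (nat_lit 4) (nat_lit 461) (nat_lit 358) (nat_lit 201))) (XT.nd (nat_lit 78) (nat_lit 152) (nat_lit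 0) (XT.lf (nat_lit 0) (nat_lit 84689101705) (nat_lit 76) (nat_lit 86793241563) (nat_lit 76) (nat_lit 57292878354) (nat_lit 151) (nat_lit 4) (nat_lit 152) (nat_lit 5) (nat_lit 152) (nat_lit 4) (nat_lit 462) (nat_lit 358) (nat_lit 200)) (XT.lf (nat_lit 0) (nat_lit 8124585211) (nat_lit 76) (nat_lit 10229355872) (nat_lit 152) (nat_lit 218007430148) (nat_lit 149) (nat_lit 5) (nat_lit 150) (nat_lit 5) (nat_lit 151) (nat_lit 4) (nat_lit 463) (nat_lit 358) (nat_lit 199)))) (XT.nd (nat_lit 156) (nat_lit 152) (nat_lit 0) (XT.nd (nat_lit 78) (nat_lit 76) (nat_lit 0) (XT.lf (nat_lit 0) (nat_lit 99429885054) (nat_lit 152) (nat_lit 73338243768) (nat_lit 0) (nat_lit 71333128124) (nat_lit 149) (nat_lit 5) (nat_lit 151) (nat_lit 4) (nat_lit 149) (nat_lit 4) (nat_lit 464) (nat_lit 358) (nat_lit 198)) (XT.lf (nat_lit 0) (nat_lit 92078005149) (nat_lit 76) (nat_lit 94083665705) (nat_lit 76) (nat_lit 65986363863) (nat_lit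 148) (nat_lit 4) (nat_lit 149) (nat_lit 5) (nat_lit 149) (nat_lit 4) (nat_lit 465) (nat_lit 358) (nat_lit 197))) (XT.nd (nat_lit 78) (nat_lit 0) (nat_lit 0) (XT.lf (nat_lit 0) (nat_lit 7737146061) (nat_lit 76) (nat_lit 9743325580) (nat_lit 152) (nat_lit 243034698750) (nat_lit 146) (nat_lit 5) (nat_lit 147) (nat_lit 5) (nat_lit 148) (nat_lit 4) (nat_lit 466) (nat_lit 358) (nat_lit 196)) (XT.lf (nat_lit 0) (nat_lit 106885643153) (nat_lit 152) (nat_lit 82036460976) (nat_lit 0) (nat_lit 80125343100) (nat_lit 146) (nat_lit 5) (nat_lit 148) (nat_lit 4) (nat_lit 146) (nat_lit 4) (nat_lit 467) (nat_lit 358) (nat_lit 195))))) (XT.nd (nat_lit 312) (nat_lit 380) (nat_lit 0) (XT.nd (nat_lit 156) (nat_lit 76) (nat_lit 0) (XT.nd (nat_lit 78) (nat_lit 152) (nat_lit 0) (XT.lf (nat_lit 0) (nat_lit 100285944924) (nat_lit 76) (nat_lit 102197511099) (nat_lit 76) (nat_lit 75436762746) (nat_lit 145) (nat_lit 4) (nat_lit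 146) (nat_lit 5) (nat_lit 146) (nat_lit 4) (nat_lit 468) (nat_lit 358) (nat_lit 194)) (XT.lf (nat_lit 0) (nat_lit 7368254642) (nat_lit 76) (nat_lit 9280247770) (nat_lit 152) (nat_lit 270499726622) (nat_lit 143) (nat_lit 5) (nat_lit 144) (nat_lit 5) (nat_lit 145) (nat_lit 4) (nat_lit 469) (nat_lit 358) (nat_lit 193))) (XT.nd (nat_lit 78) (nat_lit 76) (nat_lit 0) (XT.lf (nat_lit 0) (nat_lit 115235756760) (nat_lit 152) (nat_lit 91569868972) (nat_lit 0) (nat_lit 89748535878) (nat_lit 143) (nat_lit 5) (nat_lit 145) (nat_lit 4) (nat_lit 143) (nat_lit 4) (nat_lit 470) (nat_lit 358) (nat_lit 192)) (XT.lf (nat_lit 0) (nat_lit 109393906544) (nat_lit 76) (nat_lit 111215608455) (nat_lit 76) (nat_lit 85728018756) (nat_lit 142) (nat_lit 4) (nat_lit 143) (nat_lit 5) (nat_lit 143) (nat_lit 4) (nat_lit 471) (nat_lit 358) (nat_lit 191)))) (XT.nd (nat_lit 156) (nat_lit 228) (nat_lit 0) (XT.nd (nat_lit 78) (nat_lit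 0) (nat_lit 0) (XT.lf (nat_lit 0) (nat_lit 7017010310) (nat_lit 76) (nat_lit 8839063477) (nat_lit 152) (nat_lit 300658429729) (nat_lit 140) (nat_lit 5) (nat_lit 141) (nat_lit 5) (nat_lit 142) (nat_lit 4) (nat_lit 472) (nat_lit 358) (nat_lit 190)) (XT.lf (nat_lit 0) (nat_lit 124565724293) (nat_lit 152) (nat_lit 102026783543) (nat_lit 0) (nat_lit 100291176214) (nat_lit 140) (nat_lit 5) (nat_lit 142) (nat_lit 4) (nat_lit 140) (nat_lit 4) (nat_lit 473) (nat_lit 358) (nat_lit 189))) (XT.nd (nat_lit 78) (nat_lit 152) (nat_lit 0) (XT.lf (nat_lit 0) (nat_lit 119491322882) (nat_lit 76) (nat_lit 121227233638) (nat_lit 76) (nat_lit 96952382132) (nat_lit 139) (nat_lit 4) (nat_lit 140) (nat_lit 5) (nat_lit 140) (nat_lit 4) (nat_lit 474) (nat_lit 358) (nat_lit 188)) (XT.lf (nat_lit 0) (nat_lit 6682558396) (nat_lit 76) (nat_lit 8418758130) (nat_lit 152) (nat_lit 333792672411) (nat_lit 137) (nat_lit 5) (nat_lit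 138) (nat_lit 5) (nat_lit 139) (nat_lit 4) (nat_lit 475) (nat_lit 358) (nat_lit 187)))))) (XT.nd (nat_lit 624) (nat_lit 608) (nat_lit 0) (XT.nd (nat_lit 312) (nat_lit 304) (nat_lit 0) (XT.nd (nat_lit 156) (nat_lit 152) (nat_lit 0) (XT.nd (nat_lit 78) (nat_lit 76) (nat_lit 0) (XT.lf (nat_lit 0) (nat_lit 134970097433) (nat_lit 152) (nat_lit 113504439575) (nat_lit 0) (nat_lit 111850653908) (nat_lit 137) (nat_lit 5) (nat_lit 139) (nat_lit 4) (nat_lit 137) (nat_lit 4) (nat_lit 476) (nat_lit 358) (nat_lit 186)) (XT.lf (nat_lit 0) (nat_lit 130676932148) (nat_lit 76) (nat_lit 132330967445) (nat_lit 76) (nat_lit 109211274290) (nat_lit 136) (nat_lit 4) (nat_lit 137) (nat_lit 5) (nat_lit 137) (nat_lit 4) (nat_lit 477) (nat_lit 358) (nat_lit 185))) (XT.nd (nat_lit 78) (nat_lit 0) (nat_lit 0) (XT.lf (nat_lit 0) (nat_lit 6364087472) (nat_lit 76) (nat_lit 8018360513) (nat_lit 152) (nat_lit 370212939703) (nat_lit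 134) (nat_lit 5) (nat_lit 135) (nat_lit 5) (nat_lit 136) (nat_lit 4) (nat_lit 478) (nat_lit 358) (nat_lit 184)) (XT.lf (nat_lit 0) (nat_lit 146553396045) (nat_lit 152) (nat_lit 126109912371) (nat_lit 0) (nat_lit 124534198597) (nat_lit 134) (nat_lit 5) (nat_lit 136) (nat_lit 4) (nat_lit 134) (nat_lit 4) (nat_lit 479) (nat_lit 358) (nat_lit 183)))) (XT.nd (nat_lit 156) (nat_lit 76) (nat_lit 0) (XT.nd (nat_lit 78) (nat_lit 152) (nat_lit 0) (XT.lf (nat_lit 0) (nat_lit 143059724339) (nat_lit 76) (nat_lit 144635643485) (nat_lit 76) (nat_lit 122616240666) (nat_lit 133) (nat_lit 4) (nat_lit 134) (nat_lit 5) (nat_lit 134) (nat_lit 4) (nat_lit 480) (nat_lit 358) (nat_lit 182)) (XT.lf (nat_lit 0) (nat_lit 6060826838) (nat_lit 76) (nat_lit 7636941575) (nat_lit 152) (nat_lit 410261283118) (nat_lit 131) (nat_lit 5) (nat_lit 132) (nat_lit 5) (nat_lit 133) (nat_lit 4) (nat_lit 481) (nat_lit 358) (nat_lit 181)))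 (XT.nd (nat_lit 78) (nat_lit 76) (nat_lit 0) (XT.lf (nat_lit 0) (nat_lit 159431117372) (nat_lit 152) (nat_lit 139961132921) (nat_lit 0) (nat_lit 138459893859) (nat_lit 131) (nat_lit 5) (nat_lit 133) (nat_lit 4) (nat_lit 131) (nat_lit 4) (nat_lit 482) (nat_lit 358) (nat_lit 180)) (XT.lf (nat_lit 0) (nat_lit 156759985200) (nat_lit 76) (nat_lit 158261393222) (nat_lit 76) (nat_lit 137290000749) (nat_lit 130) (nat_lit 4) (nat_lit 131) (nat_lit 5) (nat_lit 131) (nat_lit 4) (nat_lit 483) (nat_lit 358) (nat_lit 179))))) (XT.nd (nat_lit 312) (nat_lit 228) (nat_lit 0) (XT.nd (nat_lit 156) (nat_lit 228) (nat_lit 0) (XT.nd (nat_lit 78) (nat_lit 0) (nat_lit 0) (XT.lf (nat_lit 0) (nat_lit 5772044215) (nat_lit 76) (nat_lit 7273613151) (nat_lit 152) (nat_lit 454314567926) (nat_lit 128) (nat_lit 5) (nat_lit 129) (nat_lit 5) (nat_lit 130) (nat_lit 4) (nat_lit 484) (nat_lit 358) (nat_lit 178)) (XT.lf (nat_lit 0)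 (nat_lit 173730849151) (nat_lit 152) (nat_lit 155188006817) (nat_lit 0) (nat_lit 153757795210) (nat_lit 128) (nat_lit 5) (nat_lit 130) (nat_lit 4) (nat_lit 128) (nat_lit 4) (nat_lit 485) (nat_lit 358) (nat_lit 177))) (XT.nd (nat_lit 78) (nat_lit 152) (nat_lit 0) (XT.lf (nat_lit 0) (nat_lit 171910447606) (nat_lit 76) (nat_lit 173340798216) (nat_lit 76) (nat_lit 153367605272) (nat_lit 127) (nat_lit 4) (nat_lit 128) (nat_lit 5) (nat_lit 128) (nat_lit 4) (nat_lit 486) (nat_lit 358) (nat_lit 176)) (XT.lf (nat_lit 0) (nat_lit 5497043609) (nat_lit 76) (nat_lit 6927526603) (nat_lit 152) (nat_lit 502788052821) (nat_lit 125) (nat_lit 5) (nat_lit 126) (nat_lit 5) (nat_lit 127) (nat_lit 4) (nat_lit 487) (nat_lit 358) (nat_lit 175)))) (XT.nd (nat_lit 156) (nat_lit 152) (nat_lit 0) (XT.nd (nat_lit 78) (nat_lit 76) (nat_lit 0) (XT.lf (nat_lit 0) (nat_lit 189593497311) (nat_lit 152) (nat_lit 171933647469) (nat_lit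 0) (nat_lit 170571162636) (nat_lit 125) (nat_lit 5) (nat_lit 127) (nat_lit 4) (nat_lit 125) (nat_lit 4) (nat_lit 488) (nat_lit 358) (nat_lit 174)) (XT.lf (nat_lit 0) (nat_lit 188657561370) (nat_lit 76) (nat_lit 190020160561) (nat_lit 76) (nat_lit 170997711527) (nat_lit 124) (nat_lit 4) (nat_lit 125) (nat_lit 5) (nat_lit 125) (nat_lit 4) (nat_lit 489) (nat_lit 358) (nat_lit 173))) (XT.nd (nat_lit 78) (nat_lit 0) (nat_lit 0) (XT.lf (nat_lit 0) (nat_lit 5235163333) (nat_lit 76) (nat_lit 6597871437) (nat_lit 152) (nat_lit 556139336056) (nat_lit 122) (nat_lit 5) (nat_lit 123) (nat_lit 5) (nat_lit 124) (nat_lit 4) (nat_lit 490) (nat_lit 358) (nat_lit 172)) (XT.lf (nat_lit 0) (nat_lit 207174639985) (nat_lit 152) (nat_lit 190355735373) (nat_lit 0) (nat_lit 189057819344) (nat_lit 122) (nat_lit 5) (nat_lit 124) (nat_lit 4) (nat_lit 122) (nat_lit 4) (nat_lit 491) (nat_lit 358) (nat_lit 171))))))) (XT.nd (nat_lit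 1248) (nat_lit 2736) (nat_lit 0) (XT.nd (nat_lit 624) (nat_lit 1520) (nat_lit 0) (XT.nd (nat_lit 312) (nat_lit 608) (nat_lit 0) (XT.nd (nat_lit 156) (nat_lit 0) (nat_lit 0) (XT.nd (nat_lit 78) (nat_lit 0) (nat_lit 0) (XT.lf (nat_lit 0) (nat_lit 1732605415) (nat_lit 0) (nat_lit 1732605415) (nat_lit 684) (nat_lit 1870917334) (nat_lit 303) (nat_lit 5) (nat_lit 303) (nat_lit 3) (nat_lit 312) (nat_lit 3) (nat_lit 359) (nat_lit 359) (nat_lit 302)) (XT.lf (nat_lit 0) (nat_lit 7727903254) (nat_lit 684) (nat_lit 1881962657) (nat_lit 760) (nat_lit 1297985772) (nat_lit 303) (nat_lit 5) (nat_lit 312) (nat_lit 3) (nat_lit 313) (nat_lit 5) (nat_lit 360) (nat_lit 359) (nat_lit 301))) (XT.nd (nat_lit 78) (nat_lit 0) (nat_lit 76) (XT.lf (nat_lit 76) (nat_lit 3751084448) (nat_lit 0) (nat_lit 4891229795) (nat_lit 760) (nat_lit 2509059798) (nat_lit 304) (nat_lit 5) (nat_lit 303) (nat_lit 5) (nat_lit 313) (nat_lit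 5) (nat_lit 361) (nat_lit 359) (nat_lit 300)) (XT.lf (nat_lit 0) (nat_lit 9599250451) (nat_lit 684) (nat_lit 1699147867) (nat_lit 760) (nat_lit 108833965) (nat_lit 304) (nat_lit 5) (nat_lit 313) (nat_lit 5) (nat_lit 314) (nat_lit 5) (nat_lit 362) (nat_lit 359) (nat_lit 299)))) (XT.nd (nat_lit 156) (nat_lit 684) (nat_lit 0) (XT.nd (nat_lit 78) (nat_lit 0) (nat_lit 0) (XT.lf (nat_lit 76) (nat_lit 4323061360) (nat_lit 0) (nat_lit 6393814490) (nat_lit 760) (nat_lit 953365468) (nat_lit 305) (nat_lit 5) (nat_lit 304) (nat_lit 5) (nat_lit 314) (nat_lit 5) (nat_lit 363) (nat_lit 359) (nat_lit 298)) (XT.lf (nat_lit 76) (nat_lit 10683558763) (nat_lit 0) (nat_lit 1202081168) (nat_lit 760) (nat_lit 60998003) (nat_lit 305) (nat_lit 5) (nat_lit 304) (nat_lit 5) (nat_lit 314) (nat_lit 5) (nat_lit 364) (nat_lit 359) (nat_lit 297))) (XT.nd (nat_lit 78) (nat_lit 0) (nat_lit 0) (XT.lf (nat_lit 0) (nat_lit 965675038)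 (nat_lit 760) (nat_lit 7043774574) (nat_lit 836) (nat_lit 4220834724) (nat_lit 295) (nat_lit 5) (nat_lit 305) (nat_lit 5) (nat_lit 306) (nat_lit 5) (nat_lit 365) (nat_lit 359) (nat_lit 296)) (XT.lf (nat_lit 0) (nat_lit 2051995432) (nat_lit 760) (nat_lit 568879492) (nat_lit 836) (nat_lit 9906669953) (nat_lit 295) (nat_lit 5) (nat_lit 305) (nat_lit 5) (nat_lit 306) (nat_lit 5) (nat_lit 366) (nat_lit 359) (nat_lit 295))))) (XT.nd (nat_lit 312) (nat_lit 912) (nat_lit 0) (XT.nd (nat_lit 156) (nat_lit 684) (nat_lit 0) (XT.nd (nat_lit 78) (nat_lit 0) (nat_lit 0) (XT.lf (nat_lit 0) (nat_lit 3312327962) (nat_lit 760) (nat_lit 6472408839) (nat_lit 836) (nat_lit 3048946839) (nat_lit 296) (nat_lit 5) (nat_lit 306) (nat_lit 5) (nat_lit 307) (nat_lit 5) (nat_lit 367) (nat_lit 359) (nat_lit 294)) (XT.lf (nat_lit 76) (nat_lit 451074005) (nat_lit 0) (nat_lit 4215975194) (nat_lit 836) (nat_lit 8486511538) (nat_lit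 297) (nat_lit 5) (nat_lit 296) (nat_lit 5) (nat_lit 307) (nat_lit 5) (nat_lit 368) (nat_lit 359) (nat_lit 293))) (XT.nd (nat_lit 78) (nat_lit 760) (nat_lit 0) (XT.lf (nat_lit 0) (nat_lit 6199023800) (nat_lit 760) (nat_lit 5590123808) (nat_lit 76) (nat_lit 1694808217) (nat_lit 297) (nat_lit 5) (nat_lit 307) (nat_lit 5) (nat_lit 298) (nat_lit 5) (nat_lit 369) (nat_lit 359) (nat_lit 292)) (XT.lf (nat_lit 0) (nat_lit 1844594535) (nat_lit 760) (nat_lit 6034858136) (nat_lit 836) (nat_lit 5947825217) (nat_lit 287) (nat_lit 5) (nat_lit 297) (nat_lit 5) (nat_lit 298) (nat_lit 5) (nat_lit 370) (nat_lit 359) (nat_lit 291)))) (XT.nd (nat_lit 156) (nat_lit 456) (nat_lit 0) (XT.nd (nat_lit 78) (nat_lit 456) (nat_lit 0) (XT.lf (nat_lit 0) (nat_lit 9715101442) (nat_lit 836) (nat_lit 4363679234) (nat_lit 76) (nat_lit 105425456) (nat_lit 287) (nat_lit 5) (nat_lit 298) (nat_lit 5) (nat_lit 288) (nat_lit 5) (nat_lit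 371) (nat_lit 359) (nat_lit 290)) (XT.lf (nat_lit 0) (nat_lit 3630583903) (nat_lit 456) (nat_lit 8143624861) (nat_lit 532) (nat_lit 2778188219) (nat_lit 281) (nat_lit 5) (nat_lit 287) (nat_lit 5) (nat_lit 288) (nat_lit 5) (nat_lit 372) (nat_lit 359) (nat_lit 289))) (XT.nd (nat_lit 78) (nat_lit 456) (nat_lit 0) (XT.lf (nat_lit 0) (nat_lit 12153467173) (nat_lit 456) (nat_lit 1833553009) (nat_lit 532) (nat_lit 949439759) (nat_lit 281) (nat_lit 5) (nat_lit 287) (nat_lit 5) (nat_lit 288) (nat_lit 5) (nat_lit 373) (nat_lit 359) (nat_lit 288)) (XT.lf (nat_lit 0) (nat_lit 1086191018) (nat_lit 456) (nat_lit 9497389980) (nat_lit 76) (nat_lit 4748061503) (nat_lit 275) (nat_lit 5) (nat_lit 281) (nat_lit 5) (nat_lit 276) (nat_lit 5) (nat_lit 374) (nat_lit 359) (nat_lit 287)))))) (XT.nd (nat_lit 624) (nat_lit 1064) (nat_lit 0) (XT.nd (nat_lit 312) (nat_lit 988) (nat_lit 0) (XT.nd (nat_lit 156) (nat_lit 304)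 (nat_lit 0) (XT.nd (nat_lit 78) (nat_lit 380) (nat_lit 0) (XT.lf (nat_lit 0) (nat_lit 3247968932) (nat_lit 456) (nat_lit 834621262) (nat_lit 76) (nat_lit 11660402116) (nat_lit 275) (nat_lit 5) (nat_lit 281) (nat_lit 5) (nat_lit 276) (nat_lit 5) (nat_lit 375) (nat_lit 359) (nat_lit 286)) (XT.lf (nat_lit 0) (nat_lit 5675065303) (nat_lit 456) (nat_lit 7702455672) (nat_lit 76) (nat_lit 2789527155) (nat_lit 270) (nat_lit 5) (nat_lit 276) (nat_lit 5) (nat_lit 271) (nat_lit 5) (nat_lit 376) (nat_lit 359) (nat_lit 285))) (XT.nd (nat_lit 78) (nat_lit 0) (nat_lit 0) (XT.lf (nat_lit 0) (nat_lit 1607940709) (nat_lit 304) (nat_lit 6701941719) (nat_lit 380) (nat_lit 8298106018) (nat_lit 266) (nat_lit 5) (nat_lit 270) (nat_lit 5) (nat_lit 271) (nat_lit 5) (nat_lit 377) (nat_lit 359) (nat_lit 284)) (XT.lf (nat_lit 0) (nat_lit 11194356376) (nat_lit 380) (nat_lit 5443195612) (nat_lit 76) (nat_lit 427527991) (nat_lit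 266) (nat_lit 5) (nat_lit 271) (nat_lit 5) (nat_lit 267) (nat_lit 5) (nat_lit 378) (nat_lit 359) (nat_lit 283)))) (XT.nd (nat_lit 156) (nat_lit 684) (nat_lit 0) (XT.nd (nat_lit 78) (nat_lit 0) (nat_lit 0) (XT.lf (nat_lit 0) (nat_lit 4607113550) (nat_lit 304) (nat_lit 9779198398) (nat_lit 380) (nat_lit 3150551243) (nat_lit 262) (nat_lit 5) (nat_lit 266) (nat_lit 5) (nat_lit 267) (nat_lit 5) (nat_lit 379) (nat_lit 359) (nat_lit 282)) (XT.lf (nat_lit 0) (nat_lit 15327293975) (nat_lit 304) (nat_lit 2484759863) (nat_lit 380) (nat_lit 216472300) (nat_lit 262) (nat_lit 5) (nat_lit 266) (nat_lit 5) (nat_lit 267) (nat_lit 5) (nat_lit 380) (nat_lit 359) (nat_lit 281))) (XT.nd (nat_lit 78) (nat_lit 304) (nat_lit 0) (XT.lf (nat_lit 0) (nat_lit 2967379642) (nat_lit 380) (nat_lit 10384104281) (nat_lit 76) (nat_lit 5181315070) (nat_lit 257) (nat_lit 5) (nat_lit 262) (nat_lit 5) (nat_lit 258) (nat_lit 5) (nat_lit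 381) (nat_lit 359) (nat_lit 280)) (XT.lf (nat_lit 0) (nat_lit 525063976) (nat_lit 304) (nat_lit 5856538027) (nat_lit 380) (nat_lit 12676583415) (nat_lit 253) (nat_lit 5) (nat_lit 257) (nat_lit 5) (nat_lit 258) (nat_lit 5) (nat_lit 382) (nat_lit 359) (nat_lit 279))))) (XT.nd (nat_lit 312) (nat_lit 456) (nat_lit 0) (XT.nd (nat_lit 156) (nat_lit 380) (nat_lit 0) (XT.nd (nat_lit 78) (nat_lit 228) (nat_lit 0) (XT.lf (nat_lit 0) (nat_lit 10160135926) (nat_lit 380) (nat_lit 7317170247) (nat_lit 76) (nat_lit 2122854970) (nat_lit 253) (nat_lit 5) (nat_lit 258) (nat_lit 5) (nat_lit 254) (nat_lit 5) (nat_lit 383) (nat_lit 359) (nat_lit 278)) (XT.lf (nat_lit 0) (nat_lit 4486192599) (nat_lit 228) (nat_lit 9791670679) (nat_lit 304) (nat_lit 5883859038) (nat_lit 250) (nat_lit 5) (nat_lit 253) (nat_lit 5) (nat_lit 254) (nat_lit 5) (nat_lit 384) (nat_lit 359) (nat_lit 277))) (XT.nd (nat_lit 78) (nat_lit 380) (nat_lit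 0) (XT.lf (nat_lit 0) (nat_lit 17113134066) (nat_lit 228) (nat_lit 1596908235) (nat_lit 304) (nat_lit 2035890983) (nat_lit 250) (nat_lit 5) (nat_lit 253) (nat_lit 5) (nat_lit 254) (nat_lit 5) (nat_lit 385) (nat_lit 359) (nat_lit 276)) (XT.lf (nat_lit 0) (nat_lit 2182191263) (nat_lit 380) (nat_lit 12206598001) (nat_lit 76) (nat_lit 6956907186) (nat_lit 245) (nat_lit 5) (nat_lit 250) (nat_lit 5) (nat_lit 246) (nat_lit 5) (nat_lit 386) (nat_lit 359) (nat_lit 275)))) (XT.nd (nat_lit 156) (nat_lit 228) (nat_lit 0) (XT.nd (nat_lit 78) (nat_lit 0) (nat_lit 0) (XT.lf (nat_lit 0) (nat_lit 642906876) (nat_lit 228) (nat_lit 5984051604) (nat_lit 304) (nat_lit 15342610524) (nat_lit 242) (nat_lit 5) (nat_lit 245) (nat_lit 5) (nat_lit 246) (nat_lit 5) (nat_lit 387) (nat_lit 359) (nat_lit 274)) (XT.lf (nat_lit 0) (nat_lit 11534170092) (nat_lit 304) (nat_lit 8124105344) (nat_lit 76) (nat_lit 2954349447) (nat_lit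 242) (nat_lit 5) (nat_lit 246) (nat_lit 5) (nat_lit 243) (nat_lit 5) (nat_lit 388) (nat_lit 359) (nat_lit 273))) (XT.nd (nat_lit 78) (nat_lit 0) (nat_lit 0) (XT.lf (nat_lit 0) (nat_lit 5806579044) (nat_lit 228) (nat_lit 11055336270) (nat_lit 304) (nat_lit 6417159591) (nat_lit 239) (nat_lit 5) (nat_lit 242) (nat_lit 5) (nat_lit 243) (nat_lit 5) (nat_lit 389) (nat_lit 359) (nat_lit 272)) (XT.lf (nat_lit 0) (nat_lit 20696418939) (nat_lit 228) (nat_lit 1883974835) (nat_lit 304) (nat_lit 1392236356) (nat_lit 239) (nat_lit 5) (nat_lit 242) (nat_lit 5) (nat_lit 243) (nat_lit 5) (nat_lit 390) (nat_lit 359) (nat_lit 271))))))))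
noncomputable def xc188 : XT := (XT.nd (nat_lit 2496) (nat_lit 2356) (nat_lit 0) (XT.nd (nat_lit 1248) (nat_lit 1596) (nat_lit 0) (XT.nd (nat_lit 624) (nat_lit 912) (nat_lit 0) (XT.nd (nat_lit 312) (nat_lit 456) (nat_lit 0) (XT.nd (nat_lit 156) (nat_lit 152) (nat_lit 0) (XT.nd (nat_lit 78) (nat_lit 228) (nat_lit 0) (XT.lf (nat_lit 0) (nat_lit 4057991241) (nat_lit 304) (nat_lit 12881819381) (nat_lit 76) (nat_lit 7743102123) (nat_lit 235) (nat_lit 5) (nat_lit 239) (nat_lit 5) (nat_lit 236) (nat_lit 5) (nat_lit 391) (nat_lit 359) (nat_lit 270)) (XT.lf (nat_lit 0) (nat_lit 2320573676) (nat_lit 228) (nat_lit 7524285523) (nat_lit 304) (nat_lit 15577163254) (nat_lit 232) (nat_lit 5) (nat_lit 235) (nat_lit 5) (nat_lit 236) (nat_lit 5) (nat_lit 392) (nat_lit 359) (nat_lit 269))) (XT.nd (nat_lit 78) (nat_lit 152) (nat_lit 0) (XT.lf (nat_lit 0) (nat_lit 16167295506) (nat_lit 304) (nat_lit 7516674472) (nat_lit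 76) (nat_lit 2501806420) (nat_lit 232) (nat_lit 5) (nat_lit 236) (nat_lit 5) (nat_lit 233) (nat_lit 5) (nat_lit 393) (nat_lit 359) (nat_lit 268)) (XT.lf (nat_lit 0) (nat_lit 8993401465) (nat_lit 152) (nat_lit 14064414287) (nat_lit 228) (nat_lit 3917304182) (nat_lit 230) (nat_lit 5) (nat_lit 232) (nat_lit 5) (nat_lit 233) (nat_lit 5) (nat_lit 394) (nat_lit 359) (nat_lit 267)))) (XT.nd (nat_lit 156) (nat_lit 152) (nat_lit 0) (XT.nd (nat_lit 78) (nat_lit 228) (nat_lit 0) (XT.lf (nat_lit 0) (nat_lit 2526946226) (nat_lit 228) (nat_lit 1267091611) (nat_lit 76) (nat_lit 24002066039) (nat_lit 229) (nat_lit 5) (nat_lit 232) (nat_lit 5) (nat_lit 230) (nat_lit 5) (nat_lit 395) (nat_lit 359) (nat_lit 266)) (XT.lf (nat_lit 0) (nat_lit 9526290003) (nat_lit 304) (nat_lit 12019685326) (nat_lit 76) (nat_lit 7090724382) (nat_lit 226) (nat_lit 5) (nat_lit 230) (nat_lit 5) (nat_lit 227) (nat_lit 5) (nat_lit 396) (nat_lit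 359) (nat_lit 265))) (XT.nd (nat_lit 78) (nat_lit 0) (nat_lit 0) (XT.lf (nat_lit 0) (nat_lit 6033835057) (nat_lit 152) (nat_lit 11008986442) (nat_lit 228) (nat_lit 12468142815) (nat_lit 224) (nat_lit 5) (nat_lit 226) (nat_lit 5) (nat_lit 227) (nat_lit 5) (nat_lit 397) (nat_lit 359) (nat_lit 264)) (XT.lf (nat_lit 0) (nat_lit 25132084024) (nat_lit 228) (nat_lit 5033574203) (nat_lit 76) (nat_lit 253438697) (nat_lit 224) (nat_lit 5) (nat_lit 227) (nat_lit 5) (nat_lit 225) (nat_lit 5) (nat_lit 398) (nat_lit 359) (nat_lit 263))))) (XT.nd (nat_lit 312) (nat_lit 380) (nat_lit 0) (XT.nd (nat_lit 156) (nat_lit 152) (nat_lit 0) (XT.nd (nat_lit 78) (nat_lit 152) (nat_lit 0) (XT.lf (nat_lit 0) (nat_lit 2585705378) (nat_lit 228) (nat_lit 16792488019) (nat_lit 76) (nat_lit 11972451475) (nat_lit 221) (nat_lit 5) (nat_lit 224) (nat_lit 5) (nat_lit 222) (nat_lit 5) (nat_lit 399) (nat_lit 359) (nat_lit 262)) (XT.lf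 (nat_lit 0) (nat_lit 2969541178) (nat_lit 152) (nat_lit 7827578712) (nat_lit 228) (nat_lit 21521179778) (nat_lit 219) (nat_lit 5) (nat_lit 221) (nat_lit 5) (nat_lit 222) (nat_lit 5) (nat_lit 400) (nat_lit 359) (nat_lit 261))) (XT.nd (nat_lit 78) (nat_lit 152) (nat_lit 0) (XT.lf (nat_lit 0) (nat_lit 19765151053) (nat_lit 228) (nat_lit 9106527144) (nat_lit 76) (nat_lit 4445356712) (nat_lit 219) (nat_lit 5) (nat_lit 222) (nat_lit 5) (nat_lit 220) (nat_lit 5) (nat_lit 401) (nat_lit 359) (nat_lit 260)) (XT.lf (nat_lit 0) (nat_lit 12399919703) (nat_lit 152) (nat_lit 17093916818) (nat_lit 228) (nat_lit 4856257753) (nat_lit 217) (nat_lit 5) (nat_lit 219) (nat_lit 5) (nat_lit 220) (nat_lit 5) (nat_lit 402) (nat_lit 359) (nat_lit 259)))) (XT.nd (nat_lit 156) (nat_lit 152) (nat_lit 0) (XT.nd (nat_lit 78) (nat_lit 152) (nat_lit 0) (XT.lf (nat_lit 0) (nat_lit 4284488692) (nat_lit 228) (nat_lit 215010698) (nat_lit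 76) (nat_lit 30924613718) (nat_lit 216) (nat_lit 5) (nat_lit 219) (nat_lit 5) (nat_lit 217) (nat_lit 5) (nat_lit 403) (nat_lit 359) (nat_lit 258)) (XT.lf (nat_lit 0) (nat_lit 14216376024) (nat_lit 228) (nat_lit 13417608087) (nat_lit 76) (nat_lit 8889002950) (nat_lit 214) (nat_lit 5) (nat_lit 217) (nat_lit 5) (nat_lit 215) (nat_lit 5) (nat_lit 404) (nat_lit 359) (nat_lit 257))) (XT.nd (nat_lit 78) (nat_lit 0) (nat_lit 0) (XT.lf (nat_lit 0) (nat_lit 10158121826) (nat_lit 152) (nat_lit 14713733557) (nat_lit 228) (nat_lit 12793599448) (nat_lit 212) (nat_lit 5) (nat_lit 214) (nat_lit 5) (nat_lit 215) (nat_lit 5) (nat_lit 405) (nat_lit 359) (nat_lit 256)) (XT.lf (nat_lit 0) (nat_lit 35362912583) (nat_lit 152) (nat_lit 915556121) (nat_lit 228) (nat_lit 2575659284) (nat_lit 212) (nat_lit 5) (nat_lit 214) (nat_lit 5) (nat_lit 215) (nat_lit 5) (nat_lit 406) (nat_lit 359) (nat_lit 255)))))) (XT.nd (nat_lit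 624) (nat_lit 684) (nat_lit 0) (XT.nd (nat_lit 312) (nat_lit 456) (nat_lit 0) (XT.nd (nat_lit 156) (nat_lit 152) (nat_lit 0) (XT.nd (nat_lit 78) (nat_lit 152) (nat_lit 0) (XT.lf (nat_lit 0) (nat_lit 8451350861) (nat_lit 152) (nat_lit 18001532946) (nat_lit 76) (nat_lit 13615030019) (nat_lit 210) (nat_lit 5) (nat_lit 212) (nat_lit 5) (nat_lit 211) (nat_lit 5) (nat_lit 407) (nat_lit 359) (nat_lit 254)) (XT.lf (nat_lit 0) (nat_lit 7861883930) (nat_lit 152) (nat_lit 12270605249) (nat_lit 228) (nat_lit 21198321745) (nat_lit 208) (nat_lit 5) (nat_lit 210) (nat_lit 5) (nat_lit 211) (nat_lit 5) (nat_lit 408) (nat_lit 359) (nat_lit 253))) (XT.nd (nat_lit 78) (nat_lit 152) (nat_lit 0) (XT.lf (nat_lit 0) (nat_lit 32740020978) (nat_lit 228) (nat_lit 7059325008) (nat_lit 76) (nat_lit 2840390063) (nat_lit 208) (nat_lit 5) (nat_lit 211) (nat_lit 5) (nat_lit 209) (nat_lit 4) (nat_lit 409) (nat_lit 359) (nat_lit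 252)) (XT.lf (nat_lit 0) (nat_lit 2432578230) (nat_lit 152) (nat_lit 22895771823) (nat_lit 76) (nat_lit 18657643796) (nat_lit 206) (nat_lit 5) (nat_lit 208) (nat_lit 5) (nat_lit 207) (nat_lit 5) (nat_lit 410) (nat_lit 359) (nat_lit 251)))) (XT.nd (nat_lit 156) (nat_lit 304) (nat_lit 0) (XT.nd (nat_lit 78) (nat_lit 0) (nat_lit 0) (XT.lf (nat_lit 0) (nat_lit 5495845650) (nat_lit 152) (nat_lit 9752252803) (nat_lit 228) (nat_lit 30133386185) (nat_lit 204) (nat_lit 5) (nat_lit 206) (nat_lit 5) (nat_lit 207) (nat_lit 5) (nat_lit 411) (nat_lit 359) (nat_lit 250)) (XT.lf (nat_lit 0) (nat_lit 29193634283) (nat_lit 228) (nat_lit 10849477254) (nat_lit 76) (nat_lit 6779176450) (nat_lit 204) (nat_lit 5) (nat_lit 207) (nat_lit 5) (nat_lit 205) (nat_lit 4) (nat_lit 412) (nat_lit 359) (nat_lit 249))) (XT.nd (nat_lit 78) (nat_lit 228) (nat_lit 0) (XT.lf (nat_lit 0) (nat_lit 20108300381) (nat_lit 76) (nat_lit 24194391381)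 (nat_lit 152) (nat_lit 4009127500) (nat_lit 203) (nat_lit 5) (nat_lit 204) (nat_lit 5) (nat_lit 205) (nat_lit 4) (nat_lit 413) (nat_lit 359) (nat_lit 248)) (XT.lf (nat_lit 0) (nat_lit 3043791541) (nat_lit 152) (nat_lit 7144920824) (nat_lit 228) (nat_lit 39667744593) (nat_lit 200) (nat_lit 5) (nat_lit 202) (nat_lit 5) (nat_lit 203) (nat_lit 5) (nat_lit 414) (nat_lit 359) (nat_lit 247))))) (XT.nd (nat_lit 312) (nat_lit 380) (nat_lit 0) (XT.nd (nat_lit 156) (nat_lit 228) (nat_lit 0) (XT.nd (nat_lit 78) (nat_lit 76) (nat_lit 0) (XT.lf (nat_lit 0) (nat_lit 25607626133) (nat_lit 228) (nat_lit 14877298035) (nat_lit 76) (nat_lit 10957820458) (nat_lit 200) (nat_lit 5) (nat_lit 203) (nat_lit 5) (nat_lit 201) (nat_lit 4) (nat_lit 415) (nat_lit 359) (nat_lit 246)) (XT.lf (nat_lit 0) (nat_lit 19136891100) (nat_lit 76) (nat_lit 23069359310) (nat_lit 152) (nat_lit 10881658025) (nat_lit 199) (nat_lit 5) (nat_lit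 200) (nat_lit 5) (nat_lit 201) (nat_lit 4) (nat_lit 416) (nat_lit 359) (nat_lit 245))) (XT.nd (nat_lit 78) (nat_lit 0) (nat_lit 0) (XT.lf (nat_lit 0) (nat_lit 488484208) (nat_lit 152) (nat_lit 4433324450) (nat_lit 228) (nat_lit 49876930175) (nat_lit 196) (nat_lit 5) (nat_lit 198) (nat_lit 5) (nat_lit 199) (nat_lit 5) (nat_lit 417) (nat_lit 359) (nat_lit 244)) (XT.lf (nat_lit 0) (nat_lit 21963362435) (nat_lit 228) (nat_lit 19175180494) (nat_lit 76) (nat_lit 15406967990) (nat_lit 196) (nat_lit 5) (nat_lit 199) (nat_lit 5) (nat_lit 197) (nat_lit 4) (nat_lit 418) (nat_lit 359) (nat_lit 243)))) (XT.nd (nat_lit 156) (nat_lit 304) (nat_lit 0) (XT.nd (nat_lit 78) (nat_lit 0) (nat_lit 0) (XT.lf (nat_lit 0) (nat_lit 18214198727) (nat_lit 76) (nat_lit 21993098658) (nat_lit 152) (nat_lit 18154809049) (nat_lit 195) (nat_lit 5) (nat_lit 196) (nat_lit 5) (nat_lit 197) (nat_lit 4) (nat_lit 419) (nat_lit 359) (nat_lit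 242)) (XT.lf (nat_lit 0) (nat_lit 58126232075) (nat_lit 76) (nat_lit 1555314992) (nat_lit 152) (nat_lit 572078759) (nat_lit 195) (nat_lit 5) (nat_lit 196) (nat_lit 5) (nat_lit 197) (nat_lit 4) (nat_lit 420) (nat_lit 359) (nat_lit 241))) (XT.nd (nat_lit 78) (nat_lit 76) (nat_lit 0) (XT.lf (nat_lit 0) (nat_lit 18240842328) (nat_lit 228) (nat_lit 23778304869) (nat_lit 76) (nat_lit 20160426543) (nat_lit 192) (nat_lit 5) (nat_lit 195) (nat_lit 5) (nat_lit 193) (nat_lit 4) (nat_lit 421) (nat_lit 359) (nat_lit 240)) (XT.lf (nat_lit 0) (nat_lit 17337467378) (nat_lit 76) (nat_lit 20964138276) (nat_lit 152) (nat_lit 25883423389) (nat_lit 191) (nat_lit 5) (nat_lit 192) (nat_lit 5) (nat_lit 193) (nat_lit 4) (nat_lit 422) (nat_lit 359) (nat_lit 239))))))) (XT.nd (nat_lit 1248) (nat_lit 1216) (nat_lit 0) (XT.nd (nat_lit 624) (nat_lit 532) (nat_lit 0) (XT.nd (nat_lit 312) (nat_lit 380) (nat_lit 0) (XT.nd (nat_lit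 156) (nat_lit 76) (nat_lit 0) (XT.nd (nat_lit 78) (nat_lit 152) (nat_lit 0) (XT.lf (nat_lit 0) (nat_lit 59786207729) (nat_lit 152) (nat_lit 4972728380) (nat_lit 0) (nat_lit 1510780974) (nat_lit 191) (nat_lit 5) (nat_lit 193) (nat_lit 4) (nat_lit 191) (nat_lit 4) (nat_lit 423) (nat_lit 359) (nat_lit 238)) (XT.lf (nat_lit 0) (nat_lit 14418558941) (nat_lit 152) (nat_lit 28724976279) (nat_lit 76) (nat_lit 25255433518) (nat_lit 189) (nat_lit 5) (nat_lit 191) (nat_lit 5) (nat_lit 190) (nat_lit 4) (nat_lit 424) (nat_lit 359) (nat_lit 237))) (XT.nd (nat_lit 78) (nat_lit 0) (nat_lit 0) (XT.lf (nat_lit 0) (nat_lit 16504149708) (nat_lit 76) (nat_lit 19980926139) (nat_lit 152) (nat_lit 34127431096) (nat_lit 188) (nat_lit 5) (nat_lit 189) (nat_lit 5) (nat_lit 190) (nat_lit 4) (nat_lit 425) (nat_lit 359) (nat_lit 236)) (XT.lf (nat_lit 0) (nat_lit 60211105614) (nat_lit 152) (nat_lit 8007791948) (nat_lit 0) (nat_lit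 4690015146) (nat_lit 188) (nat_lit 5) (nat_lit 190) (nat_lit 4) (nat_lit 188) (nat_lit 4) (nat_lit 426) (nat_lit 359) (nat_lit 235)))) (XT.nd (nat_lit 156) (nat_lit 152) (nat_lit 0) (XT.nd (nat_lit 78) (nat_lit 76) (nat_lit 0) (XT.lf (nat_lit 0) (nat_lit 10473341104) (nat_lit 152) (nat_lit 34056989920) (nat_lit 76) (nat_lit 30732964402) (nat_lit 186) (nat_lit 5) (nat_lit 188) (nat_lit 5) (nat_lit 187) (nat_lit 4) (nat_lit 427) (nat_lit 359) (nat_lit 234)) (XT.lf (nat_lit 0) (nat_lit 15711883275) (nat_lit 76) (nat_lit 19041859953) (nat_lit 152) (nat_lit 42952374707) (nat_lit 185) (nat_lit 5) (nat_lit 186) (nat_lit 5) (nat_lit 187) (nat_lit 4) (nat_lit 428) (nat_lit 359) (nat_lit 233))) (XT.nd (nat_lit 78) (nat_lit 152) (nat_lit 0) (XT.lf (nat_lit 0) (nat_lit 60949238443) (nat_lit 152) (nat_lit 11231796857) (nat_lit 0) (nat_lit 8054992621) (nat_lit 185) (nat_lit 5) (nat_lit 187) (nat_lit 4) (nat_lit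 185) (nat_lit 4) (nat_lit 429) (nat_lit 359) (nat_lit 232)) (XT.lf (nat_lit 0) (nat_lit 6380175121) (nat_lit 152) (nat_lit 39820027657) (nat_lit 76) (nat_lit 36638082586) (nat_lit 183) (nat_lit 5) (nat_lit 185) (nat_lit 5) (nat_lit 184) (nat_lit 4) (nat_lit 430) (nat_lit 359) (nat_lit 231))))) (XT.nd (nat_lit 312) (nat_lit 228) (nat_lit 0) (XT.nd (nat_lit 156) (nat_lit 228) (nat_lit 0) (XT.nd (nat_lit 78) (nat_lit 0) (nat_lit 0) (XT.lf (nat_lit 0) (nat_lit 14958470460) (nat_lit 76) (nat_lit 18145311564) (nat_lit 152) (nat_lit 52429991980) (nat_lit 182) (nat_lit 5) (nat_lit 183) (nat_lit 5) (nat_lit 184) (nat_lit 4) (nat_lit 431) (nat_lit 359) (nat_lit 230)) (XT.lf (nat_lit 0) (nat_lit 62020207176) (nat_lit 152) (nat_lit 14670262808) (nat_lit 0) (nat_lit 11630735196) (nat_lit 182) (nat_lit 5) (nat_lit 184) (nat_lit 4) (nat_lit 182) (nat_lit 4) (nat_lit 432) (nat_lit 359) (nat_lit 229))) (XT.nd (nat_lit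 78) (nat_lit 76) (nat_lit 0) (XT.lf (nat_lit 0) (nat_lit 2112005438) (nat_lit 152) (nat_lit 46064090207) (nat_lit 76) (nat_lit 43020333218) (nat_lit 180) (nat_lit 5) (nat_lit 182) (nat_lit 5) (nat_lit 181) (nat_lit 4) (nat_lit 433) (nat_lit 359) (nat_lit 228)) (XT.lf (nat_lit 0) (nat_lit 14241861339) (nat_lit 76) (nat_lit 17289646307) (nat_lit 152) (nat_lit 62638861162) (nat_lit 179) (nat_lit 5) (nat_lit 180) (nat_lit 5) (nat_lit 181) (nat_lit 4) (nat_lit 434) (nat_lit 359) (nat_lit 227)))) (XT.nd (nat_lit 156) (nat_lit 152) (nat_lit 0) (XT.nd (nat_lit 78) (nat_lit 76) (nat_lit 0) (XT.lf (nat_lit 0) (nat_lit 63446157727) (nat_lit 152) (nat_lit 18350972615) (nat_lit 0) (nat_lit 15444666769) (nat_lit 179) (nat_lit 5) (nat_lit 181) (nat_lit 4) (nat_lit 179) (nat_lit 4) (nat_lit 435) (nat_lit 359) (nat_lit 226)) (XT.lf (nat_lit 0) (nat_lit 47533720750) (nat_lit 76) (nat_lit 50443506115) (nat_lit 76)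 (nat_lit 2438535637) (nat_lit 178) (nat_lit 4) (nat_lit 179) (nat_lit 5) (nat_lit 179) (nat_lit 4) (nat_lit 436) (nat_lit 359) (nat_lit 225))) (XT.nd (nat_lit 78) (nat_lit 0) (nat_lit 0) (XT.lf (nat_lit 0) (nat_lit 13560139019) (nat_lit 76) (nat_lit 16473238212) (nat_lit 152) (nat_lit 73665114513) (nat_lit 176) (nat_lit 5) (nat_lit 177) (nat_lit 5) (nat_lit 178) (nat_lit 4) (nat_lit 437) (nat_lit 359) (nat_lit 224)) (XT.lf (nat_lit 0) (nat_lit 65252026888) (nat_lit 152) (nat_lit 22304231543) (nat_lit 0) (nat_lit 19526845620) (nat_lit 176) (nat_lit 5) (nat_lit 178) (nat_lit 4) (nat_lit 176) (nat_lit 4) (nat_lit 438) (nat_lit 359) (nat_lit 223)))))) (XT.nd (nat_lit 624) (nat_lit 532) (nat_lit 0) (XT.nd (nat_lit 312) (nat_lit 380) (nat_lit 0) (XT.nd (nat_lit 156) (nat_lit 76) (nat_lit 0) (XT.nd (nat_lit 78) (nat_lit 152) (nat_lit 0) (XT.lf (nat_lit 0) (nat_lit 50250665100) (nat_lit 76) (nat_lit 53030913633)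 (nat_lit 76) (nat_lit 7302869755) (nat_lit 175) (nat_lit 4) (nat_lit 176) (nat_lit 5) (nat_lit 176) (nat_lit 4) (nat_lit 439) (nat_lit 359) (nat_lit 222)) (XT.lf (nat_lit 0) (nat_lit 12911507024) (nat_lit 76) (nat_lit 15694481851) (nat_lit 152) (nat_lit 85603226496) (nat_lit 173) (nat_lit 5) (nat_lit 174) (nat_lit 5) (nat_lit 175) (nat_lit 4) (nat_lit 440) (nat_lit 359) (nat_lit 221))) (XT.nd (nat_lit 78) (nat_lit 76) (nat_lit 0) (XT.lf (nat_lit 0) (nat_lit 67465812282) (nat_lit 152) (nat_lit 26563150048) (nat_lit 0) (nat_lit 23910225002) (nat_lit 173) (nat_lit 5) (nat_lit 175) (nat_lit 4) (nat_lit 173) (nat_lit 4) (nat_lit 441) (nat_lit 359) (nat_lit 220)) (XT.lf (nat_lit 0) (nat_lit 53349583013) (nat_lit 76) (nat_lit 56004863134) (nat_lit 76) (nat_lit 12446920780) (nat_lit 172) (nat_lit 4) (nat_lit 173) (nat_lit 5) (nat_lit 173) (nat_lit 4) (nat_lit 442) (nat_lit 359) (nat_lit 219)))) (XT.nd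 (nat_lit 156) (nat_lit 228) (nat_lit 0) (XT.nd (nat_lit 78) (nat_lit 0) (nat_lit 0) (XT.lf (nat_lit 0) (nat_lit 12294278396) (nat_lit 76) (nat_lit 14951801447) (nat_lit 152) (nat_lit 98556883866) (nat_lit 170) (nat_lit 5) (nat_lit 171) (nat_lit 5) (nat_lit 172) (nat_lit 4) (nat_lit 443) (nat_lit 359) (nat_lit 218)) (XT.lf (nat_lit 0) (nat_lit 70118869218) (nat_lit 152) (nat_lit 31163952806) (nat_lit 0) (nat_lit 28630944069) (nat_lit 170) (nat_lit 5) (nat_lit 172) (nat_lit 4) (nat_lit 170) (nat_lit 4) (nat_lit 444) (nat_lit 359) (nat_lit 217))) (XT.nd (nat_lit 78) (nat_lit 152) (nat_lit 0) (XT.lf (nat_lit 0) (nat_lit 56864547205) (nat_lit 76) (nat_lit 59399493468) (nat_lit 76) (nat_lit 17909630792) (nat_lit 169) (nat_lit 4) (nat_lit 170) (nat_lit 5) (nat_lit 170) (nat_lit 4) (nat_lit 445) (nat_lit 359) (nat_lit 216)) (XT.lf (nat_lit 0) (nat_lit 11706866228) (nat_lit 76) (nat_lit 14243657755) (nat_lit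 152) (nat_lit 112639945665) (nat_lit 167) (nat_lit 5) (nat_lit 168) (nat_lit 5) (nat_lit 169) (nat_lit 4) (nat_lit 446) (nat_lit 359) (nat_lit 215))))) (XT.nd (nat_lit 312) (nat_lit 304) (nat_lit 0) (XT.nd (nat_lit 156) (nat_lit 152) (nat_lit 0) (XT.nd (nat_lit 78) (nat_lit 76) (nat_lit 0) (XT.lf (nat_lit 0) (nat_lit 73246237513) (nat_lit 152) (nat_lit 36146317120) (nat_lit 0) (nat_lit 33728651481) (nat_lit 167) (nat_lit 5) (nat_lit 169) (nat_lit 4) (nat_lit 167) (nat_lit 4) (nat_lit 447) (nat_lit 359) (nat_lit 214)) (XT.lf (nat_lit 0) (nat_lit 60833391614) (nat_lit 76) (nat_lit 63252651260) (nat_lit 76) (nat_lit 23733471221) (nat_lit 166) (nat_lit 4) (nat_lit 167) (nat_lit 5) (nat_lit 167) (nat_lit 4) (nat_lit 448) (nat_lit 359) (nat_lit 213))) (XT.nd (nat_lit 78) (nat_lit 0) (nat_lit 0) (XT.lf (nat_lit 0) (nat_lit 11147775405) (nat_lit 76) (nat_lit 13568553154) (nat_lit 152) (nat_lit 127977502061)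 (nat_lit 164) (nat_lit 5) (nat_lit 165) (nat_lit 5) (nat_lit 166) (nat_lit 4) (nat_lit 449) (nat_lit 359) (nat_lit 212)) (XT.lf (nat_lit 0) (nat_lit 76887001582) (nat_lit 152) (nat_lit 41553744065) (nat_lit 0) (nat_lit 39246864483) (nat_lit 164) (nat_lit 5) (nat_lit 166) (nat_lit 4) (nat_lit 164) (nat_lit 4) (nat_lit 450) (nat_lit 359) (nat_lit 211)))) (XT.nd (nat_lit 156) (nat_lit 76) (nat_lit 0) (XT.nd (nat_lit 78) (nat_lit 152) (nat_lit 0) (XT.lf (nat_lit 0) (nat_lit 65298079362) (nat_lit 76) (nat_lit 67606270338) (nat_lit 76) (nat_lit 29964821844) (nat_lit 163) (nat_lit 4) (nat_lit 164) (nat_lit 5) (nat_lit 164) (nat_lit 4) (nat_lit 451) (nat_lit 359) (nat_lit 210)) (XT.lf (nat_lit 0) (nat_lit 10615595354) (nat_lit 76) (nat_lit 12925035277) (nat_lit 152) (nat_lit 144707041923) (nat_lit 161) (nat_lit 5) (nat_lit 162) (nat_lit 5) (nat_lit 163) (nat_lit 4) (nat_lit 452) (nat_lit 359) (nat_lit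 209))) (XT.nd (nat_lit 78) (nat_lit 76) (nat_lit 0) (XT.lf (nat_lit 0) (nat_lit 81084687430) (nat_lit 152) (nat_lit 47433965985) (nat_lit 0) (nat_lit 45233366559) (nat_lit 161) (nat_lit 5) (nat_lit 163) (nat_lit 4) (nat_lit 161) (nat_lit 4) (nat_lit 453) (nat_lit 359) (nat_lit 208)) (XT.lf (nat_lit 0) (nat_lit 70305110108) (nat_lit 76) (nat_lit 72506788421) (nat_lit 76) (nat_lit 36654388663) (nat_lit 160) (nat_lit 4) (nat_lit 161) (nat_lit 5) (nat_lit 161) (nat_lit 4) (nat_lit 454) (nat_lit 359) (nat_lit 207))))))))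
noncomputable def xc189 : XT := (XT.nd (nat_lit 2496) (nat_lit 456) (nat_lit 0) (XT.nd (nat_lit 1248) (nat_lit 1140) (nat_lit 0) (XT.nd (nat_lit 624) (nat_lit 684) (nat_lit 0) (XT.nd (nat_lit 312) (nat_lit 228) (nat_lit 0) (XT.nd (nat_lit 156) (nat_lit 228) (nat_lit 0) (XT.nd (nat_lit 78) (nat_lit 0) (nat_lit 0) (XT.lf (nat_lit 0) (nat_lit 10108993654) (nat_lit 76) (nat_lit 12311699479) (nat_lit 152) (nat_lit 162979740098) (nat_lit 158) (nat_lit 5) (nat_lit 159) (nat_lit 5) (nat_lit 160) (nat_lit 4) (nat_lit 455) (nat_lit 359) (nat_lit 206)) (XT.lf (nat_lit 0) (nat_lit 85887700452) (nat_lit 152) (nat_lit 53839394314) (nat_lit 0) (nat_lit 51740647260) (nat_lit 158) (nat_lit 5) (nat_lit 160) (nat_lit 4) (nat_lit 158) (nat_lit 4) (nat_lit 456) (nat_lit 359) (nat_lit 205))) (XT.nd (nat_lit 78) (nat_lit 152) (nat_lit 0) (XT.lf (nat_lit 0) (nat_lit 75905970619) (nat_lit 76) (nat_lit 78005605276) (nat_lit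 76) (nat_lit 43857664480) (nat_lit 157) (nat_lit 4) (nat_lit 158) (nat_lit 5) (nat_lit 158) (nat_lit 4) (nat_lit 457) (nat_lit 359) (nat_lit 204)) (XT.lf (nat_lit 0) (nat_lit 9626710369) (nat_lit 76) (nat_lit 11727190363) (nat_lit 152) (nat_lit 182961876514) (nat_lit 155) (nat_lit 5) (nat_lit 156) (nat_lit 5) (nat_lit 157) (nat_lit 4) (nat_lit 458) (nat_lit 359) (nat_lit 203)))) (XT.nd (nat_lit 156) (nat_lit 152) (nat_lit 0) (XT.nd (nat_lit 78) (nat_lit 76) (nat_lit 0) (XT.lf (nat_lit 0) (nat_lit 91349808372) (nat_lit 152) (nat_lit 60827612050) (nat_lit 0) (nat_lit 58826388168) (nat_lit 155) (nat_lit 5) (nat_lit 157) (nat_lit 4) (nat_lit 155) (nat_lit 4) (nat_lit 459) (nat_lit 359) (nat_lit 202)) (XT.lf (nat_lit 0) (nat_lit 82157632765) (nat_lit 76) (nat_lit 84159586881) (nat_lit 76) (nat_lit 51635436443) (nat_lit 154) (nat_lit 4) (nat_lit 155) (nat_lit 5) (nat_lit 155) (nat_lit 4) (nat_lit 460)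 (nat_lit 359) (nat_lit 201))) (XT.nd (nat_lit 78) (nat_lit 0) (nat_lit 0) (XT.lf (nat_lit 0) (nat_lit 9167552989) (nat_lit 76) (nat_lit 11170202565) (nat_lit 152) (nat_lit 204836400513) (nat_lit 152) (nat_lit 5) (nat_lit 153) (nat_lit 5) (nat_lit 154) (nat_lit 4) (nat_lit 461) (nat_lit 359) (nat_lit 200)) (XT.lf (nat_lit 0) (nat_lit 97530674009) (nat_lit 152) (nat_lit 68461915607) (nat_lit 0) (nat_lit 66553999494) (nat_lit 152) (nat_lit 5) (nat_lit 154) (nat_lit 4) (nat_lit 152) (nat_lit 4) (nat_lit 462) (nat_lit 359) (nat_lit 199))))) (XT.nd (nat_lit 312) (nat_lit 380) (nat_lit 0) (XT.nd (nat_lit 156) (nat_lit 76) (nat_lit 0) (XT.nd (nat_lit 78) (nat_lit 152) (nat_lit 0) (XT.lf (nat_lit 0) (nat_lit 89123103679) (nat_lit 76) (nat_lit 91031620557) (nat_lit 76) (nat_lit 60054345277) (nat_lit 151) (nat_lit 4) (nat_lit 152) (nat_lit 5) (nat_lit 152) (nat_lit 4) (nat_lit 463) (nat_lit 359) (nat_lit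 198)) (XT.lf (nat_lit 0) (nat_lit 8730391908) (nat_lit 76) (nat_lit 10639480943) (nat_lit 152) (nat_lit 228804655207) (nat_lit 149) (nat_lit 5) (nat_lit 150) (nat_lit 5) (nat_lit 151) (nat_lit 4) (nat_lit 464) (nat_lit 359) (nat_lit 197))) (XT.nd (nat_lit 78) (nat_lit 76) (nat_lit 0) (XT.lf (nat_lit 0) (nat_lit 104496443075) (nat_lit 152) (nat_lit 76811911264) (nat_lit 0) (nat_lit 74993212267) (nat_lit 149) (nat_lit 5) (nat_lit 151) (nat_lit 4) (nat_lit 149) (nat_lit 4) (nat_lit 465) (nat_lit 359) (nat_lit 196)) (XT.lf (nat_lit 0) (nat_lit 96872033250) (nat_lit 76) (nat_lit 98691226497) (nat_lit 76) (nat_lit 69187501438) (nat_lit 148) (nat_lit 4) (nat_lit 149) (nat_lit 5) (nat_lit 149) (nat_lit 4) (nat_lit 466) (nat_lit 359) (nat_lit 195)))) (XT.nd (nat_lit 156) (nat_lit 228) (nat_lit 0) (XT.nd (nat_lit 78) (nat_lit 0) (nat_lit 0) (XT.lf (nat_lit 0) (nat_lit 8314156338) (nat_lit 76) (nat_lit 10133820301)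 (nat_lit 152) (nat_lit 255088278201) (nat_lit 146) (nat_lit 5) (nat_lit 147) (nat_lit 5) (nat_lit 148) (nat_lit 4) (nat_lit 467) (nat_lit 359) (nat_lit 194)) (XT.lf (nat_lit 0) (nat_lit 112320392673) (nat_lit 152) (nat_lit 85954171900) (nat_lit 0) (nat_lit 84220731650) (nat_lit 146) (nat_lit 5) (nat_lit 148) (nat_lit 4) (nat_lit 146) (nat_lit 4) (nat_lit 468) (nat_lit 359) (nat_lit 193))) (XT.nd (nat_lit 78) (nat_lit 152) (nat_lit 0) (XT.lf (nat_lit 0) (nat_lit 105481384744) (nat_lit 76) (nat_lit 107215231615) (nat_lit 76) (nat_lit 79115163971) (nat_lit 145) (nat_lit 4) (nat_lit 146) (nat_lit 5) (nat_lit 146) (nat_lit 4) (nat_lit 469) (nat_lit 359) (nat_lit 192)) (XT.lf (nat_lit 0) (nat_lit 7917830624) (nat_lit 76) (nat_lit 9652064754) (nat_lit 152) (nat_lit 283931296716) (nat_lit 143) (nat_lit 5) (nat_lit 144) (nat_lit 5) (nat_lit 145) (nat_lit 4) (nat_lit 470) (nat_lit 359) (nat_lit 191))))))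 (XT.nd (nat_lit 624) (nat_lit 608) (nat_lit 0) (XT.nd (nat_lit 312) (nat_lit 304) (nat_lit 0) (XT.nd (nat_lit 156) (nat_lit 152) (nat_lit 0) (XT.nd (nat_lit 78) (nat_lit 76) (nat_lit 0) (XT.lf (nat_lit 0) (nat_lit 121083646763) (nat_lit 152) (nat_lit 95972960313) (nat_lit 0) (nat_lit 94320957506) (nat_lit 143) (nat_lit 5) (nat_lit 145) (nat_lit 4) (nat_lit 143) (nat_lit 4) (nat_lit 471) (nat_lit 359) (nat_lit 190)) (XT.lf (nat_lit 0) (nat_lit 115036174912) (nat_lit 76) (nat_lit 116688512247) (nat_lit 76) (nat_lit 89925488462) (nat_lit 142) (nat_lit 4) (nat_lit 143) (nat_lit 5) (nat_lit 143) (nat_lit 4) (nat_lit 472) (nat_lit 359) (nat_lit 189))) (XT.nd (nat_lit 78) (nat_lit 0) (nat_lit 0) (XT.lf (nat_lit 0) (nat_lit 7540450877) (nat_lit 76) (nat_lit 9193106810) (nat_lit 152) (nat_lit 315602436993) (nat_lit 140) (nat_lit 5) (nat_lit 141) (nat_lit 5) (nat_lit 142) (nat_lit 4) (nat_lit 473) (nat_lit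 359) (nat_lit 188)) (XT.lf (nat_lit 0) (nat_lit 130875965489) (nat_lit 152) (nat_lit 106961026012) (nat_lit 0) (nat_lit 105386779003) (nat_lit 140) (nat_lit 5) (nat_lit 142) (nat_lit 4) (nat_lit 140) (nat_lit 4) (nat_lit 474) (nat_lit 359) (nat_lit 187)))) (XT.nd (nat_lit 156) (nat_lit 76) (nat_lit 0) (XT.nd (nat_lit 78) (nat_lit 152) (nat_lit 0) (XT.lf (nat_lit 0) (nat_lit 125630290626) (nat_lit 76) (nat_lit 127204812853) (nat_lit 76) (nat_lit 101715351149) (nat_lit 139) (nat_lit 4) (nat_lit 140) (nat_lit 5) (nat_lit 140) (nat_lit 4) (nat_lit 475) (nat_lit 359) (nat_lit 186)) (XT.lf (nat_lit 0) (nat_lit 7181101909) (nat_lit 76) (nat_lit 8755886248) (nat_lit 152) (nat_lit 350397669936) (nat_lit 137) (nat_lit 5) (nat_lit 138) (nat_lit 5) (nat_lit 139) (nat_lit 4) (nat_lit 476) (nat_lit 359) (nat_lit 185))) (XT.nd (nat_lit 78) (nat_lit 76) (nat_lit 0) (XT.lf (nat_lit 0) (nat_lit 141796615934) (nat_lit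 152) (nat_lit 119020483099) (nat_lit 0) (nat_lit 117520450748) (nat_lit 137) (nat_lit 5) (nat_lit 139) (nat_lit 4) (nat_lit 137) (nat_lit 4) (nat_lit 477) (nat_lit 359) (nat_lit 184)) (XT.lf (nat_lit 0) (nat_lit 137367389816) (nat_lit 76) (nat_lit 138867648589) (nat_lit 76) (nat_lit 114591256981) (nat_lit 136) (nat_lit 4) (nat_lit 137) (nat_lit 5) (nat_lit 137) (nat_lit 4) (nat_lit 478) (nat_lit 359) (nat_lit 183))))) (XT.nd (nat_lit 312) (nat_lit 228) (nat_lit 0) (XT.nd (nat_lit 156) (nat_lit 228) (nat_lit 0) (XT.nd (nat_lit 78) (nat_lit 0) (nat_lit 0) (XT.lf (nat_lit 0) (nat_lit 6838914419) (nat_lit 76) (nat_lit 8339388832) (nat_lit 152) (nat_lit 388643017177) (nat_lit 134) (nat_lit 5) (nat_lit 135) (nat_lit 5) (nat_lit 136) (nat_lit 4) (nat_lit 479) (nat_lit 359) (nat_lit 182)) (XT.lf (nat_lit 0) (nat_lit 153955332676) (nat_lit 152) (nat_lit 132263777595) (nat_lit 0) (nat_lit 130834558752) (nat_lit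 134) (nat_lit 5) (nat_lit 136) (nat_lit 4) (nat_lit 134) (nat_lit 4) (nat_lit 480) (nat_lit 359) (nat_lit 181))) (XT.nd (nat_lit 78) (nat_lit 152) (nat_lit 0) (XT.lf (nat_lit 0) (nat_lit 150361895300) (nat_lit 76) (nat_lit 151791300420) (nat_lit 76) (nat_lit 128670340219) (nat_lit 133) (nat_lit 4) (nat_lit 134) (nat_lit 5) (nat_lit 134) (nat_lit 4) (nat_lit 481) (nat_lit 359) (nat_lit 180)) (XT.lf (nat_lit 0) (nat_lit 6513062395) (nat_lit 76) (nat_lit 7942644923) (nat_lit 152) (nat_lit 430697644266) (nat_lit 131) (nat_lit 5) (nat_lit 132) (nat_lit 5) (nat_lit 133) (nat_lit 4) (nat_lit 482) (nat_lit 359) (nat_lit 179)))) (XT.nd (nat_lit 156) (nat_lit 152) (nat_lit 0) (XT.nd (nat_lit 78) (nat_lit 76) (nat_lit 0) (XT.lf (nat_lit 0) (nat_lit 167473377337) (nat_lit 152) (nat_lit 146814753451) (nat_lit 0) (nat_lit 145453085367) (nat_lit 131) (nat_lit 5) (nat_lit 133) (nat_lit 4) (nat_lit 131) (nat_lit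 4) (nat_lit 483) (nat_lit 359) (nat_lit 178)) (XT.lf (nat_lit 0) (nat_lit 164740090962) (nat_lit 76) (nat_lit 166101912297) (nat_lit 76) (nat_lit 144081467076) (nat_lit 130) (nat_lit 4) (nat_lit 131) (nat_lit 5) (nat_lit 131) (nat_lit 4) (nat_lit 484) (nat_lit 359) (nat_lit 177))) (XT.nd (nat_lit 78) (nat_lit 0) (nat_lit 0) (XT.lf (nat_lit 0) (nat_lit 6202760720) (nat_lit 76) (nat_lit 7564728008) (nat_lit 152) (nat_lit 476957270403) (nat_lit 128) (nat_lit 5) (nat_lit 129) (nat_lit 5) (nat_lit 130) (nat_lit 4) (nat_lit 485) (nat_lit 359) (nat_lit 176)) (XT.lf (nat_lit 0) (nat_lit 182484707275) (nat_lit 152) (nat_lit 162809827383) (nat_lit 0) (nat_lit 161512583296) (nat_lit 128) (nat_lit 5) (nat_lit 130) (nat_lit 4) (nat_lit 128) (nat_lit 4) (nat_lit 486) (nat_lit 359) (nat_lit 175))))))) (XT.nd (nat_lit 44070) (nat_lit 0) (nat_lit 9728) (XT.nd (nat_lit 43446) (nat_lit 0) (nat_lit 13072) (XT.nd (nat_lit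 312) (nat_lit 152) (nat_lit 0) (XT.nd (nat_lit 156) (nat_lit 76) (nat_lit 0) (XT.nd (nat_lit 78) (nat_lit 152) (nat_lit 0) (XT.lf (nat_lit 0) (nat_lit 180641330732) (nat_lit 76) (nat_lit 181938700900) (nat_lit 76) (nat_lit 160966450840) (nat_lit 127) (nat_lit 4) (nat_lit 128) (nat_lit 5) (nat_lit 128) (nat_lit 4) (nat_lit 487) (nat_lit 359) (nat_lit 174)) (XT.lf (nat_lit 0) (nat_lit 5907262946) (nat_lit 76) (nat_lit 7204753190) (nat_lit 152) (nat_lit 527857927178) (nat_lit 125) (nat_lit 5) (nat_lit 126) (nat_lit 5) (nat_lit 127) (nat_lit 4) (nat_lit 488) (nat_lit 359) (nat_lit 173))) (XT.nd (nat_lit 78) (nat_lit 76) (nat_lit 0) (XT.lf (nat_lit 0) (nat_lit 199137264590) (nat_lit 152) (nat_lit 180399283741) (nat_lit 0) (nat_lit 179163469834) (nat_lit 125) (nat_lit 5) (nat_lit 127) (nat_lit 4) (nat_lit 125) (nat_lit 4) (nat_lit 489) (nat_lit 359) (nat_lit 172)) (XT.lf (nat_lit 0) (nat_lit 198219371892)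 (nat_lit 76) (nat_lit 199455289526) (nat_lit 76) (nat_lit 179481391043) (nat_lit 124) (nat_lit 4) (nat_lit 125) (nat_lit 5) (nat_lit 125) (nat_lit 4) (nat_lit 490) (nat_lit 359) (nat_lit 171)))) (XT.nd (nat_lit 42978) (nat_lit 0) (nat_lit 13756) (XT.nd (nat_lit 42900) (nat_lit 0) (nat_lit 13756) (XT.lf (nat_lit 0) (nat_lit 5625859228) (nat_lit 76) (nat_lit 6861875648) (nat_lit 152) (nat_lit 583880102072) (nat_lit 122) (nat_lit 5) (nat_lit 123) (nat_lit 5) (nat_lit 124) (nat_lit 4) (nat_lit 491) (nat_lit 359) (nat_lit 170)) (XT.lf (nat_lit 0) (nat_lit 2116169094) (nat_lit 0) (nat_lit 2116169094) (nat_lit 684) (nat_lit 1340903043) (nat_lit 303) (nat_lit 5) (nat_lit 303) (nat_lit 3) (nat_lit 312) (nat_lit 3) (nat_lit 360) (nat_lit 360) (nat_lit 300))) (XT.nd (nat_lit 78) (nat_lit 0) (nat_lit 0) (XT.lf (nat_lit 0) (nat_lit 9236642900) (nat_lit 684) (nat_lit 1345084196) (nat_lit 760) (nat_lit 815399947)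 (nat_lit 303) (nat_lit 5) (nat_lit 312) (nat_lit 3) (nat_lit 313) (nat_lit 5) (nat_lit 361) (nat_lit 360) (nat_lit 299)) (XT.lf (nat_lit 76) (nat_lit 4559438222) (nat_lit 0) (nat_lit 5593583661) (nat_lit 760) (nat_lit 1501991263) (nat_lit 304) (nat_lit 5) (nat_lit 303) (nat_lit 5) (nat_lit 313) (nat_lit 5) (nat_lit 362) (nat_lit 360) (nat_lit 298))))) (XT.nd (nat_lit 312) (nat_lit 0) (nat_lit 76) (XT.nd (nat_lit 156) (nat_lit 0) (nat_lit 0) (XT.nd (nat_lit 78) (nat_lit 684) (nat_lit 0) (XT.lf (nat_lit 76) (nat_lit 10786661619) (nat_lit 0) (nat_lit 317938605) (nat_lit 760) (nat_lit 821724310) (nat_lit 304) (nat_lit 5) (nat_lit 303) (nat_lit 5) (nat_lit 313) (nat_lit 5) (nat_lit 363) (nat_lit 360) (nat_lit 297)) (XT.lf (nat_lit 0) (nat_lit 28908060) (nat_lit 760) (nat_lit 7026982889) (nat_lit 836) (nat_lit 5148748758) (nat_lit 294) (nat_lit 5) (nat_lit 304) (nat_lit 5) (nat_lit 305) (nat_lit 5) (nat_lit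 364) (nat_lit 360) (nat_lit 296))) (XT.nd (nat_lit 78) (nat_lit 0) (nat_lit 76) (XT.lf (nat_lit 0) (nat_lit 888385335) (nat_lit 760) (nat_lit 685302568) (nat_lit 836) (nat_lit 10922812761) (nat_lit 294) (nat_lit 5) (nat_lit 304) (nat_lit 5) (nat_lit 305) (nat_lit 5) (nat_lit 365) (nat_lit 360) (nat_lit 295)) (XT.lf (nat_lit 0) (nat_lit 1924460633) (nat_lit 760) (nat_lit 6716151244) (nat_lit 836) (nat_lit 4155661584) (nat_lit 295) (nat_lit 5) (nat_lit 305) (nat_lit 5) (nat_lit 306) (nat_lit 5) (nat_lit 366) (nat_lit 360) (nat_lit 294)))) (XT.nd (nat_lit 156) (nat_lit 0) (nat_lit 76) (XT.nd (nat_lit 78) (nat_lit 0) (nat_lit 76) (XT.lf (nat_lit 76) (nat_lit 51773669) (nat_lit 0) (nat_lit 2970774478) (nat_lit 836) (nat_lit 10087976327) (nat_lit 296) (nat_lit 5) (nat_lit 295) (nat_lit 5) (nat_lit 306) (nat_lit 5) (nat_lit 367) (nat_lit 360) (nat_lit 293)) (XT.lf (nat_lit 0) (nat_lit 4310637865) (nat_lit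 760) (nat_lit 6114138117) (nat_lit 836) (nat_lit 3008957165) (nat_lit 296) (nat_lit 5) (nat_lit 306) (nat_lit 5) (nat_lit 307) (nat_lit 5) (nat_lit 368) (nat_lit 360) (nat_lit 292))) (XT.nd (nat_lit 78) (nat_lit 0) (nat_lit 76) (XT.lf (nat_lit 76) (nat_lit 1144520624) (nat_lit 0) (nat_lit 4559396986) (nat_lit 836) (nat_lit 8067145366) (nat_lit 297) (nat_lit 5) (nat_lit 296) (nat_lit 5) (nat_lit 307) (nat_lit 5) (nat_lit 369) (nat_lit 360) (nat_lit 291)) (XT.lf (nat_lit 0) (nat_lit 7272256260) (nat_lit 760) (nat_lit 5190449680) (nat_lit 76) (nat_lit 1657283611) (nat_lit 297) (nat_lit 5) (nat_lit 307) (nat_lit 5) (nat_lit 298) (nat_lit 5) (nat_lit 370) (nat_lit 360) (nat_lit 290)))))) (XT.nd (nat_lit 624) (nat_lit 1216) (nat_lit 0) (XT.nd (nat_lit 312) (nat_lit 1140) (nat_lit 0) (XT.nd (nat_lit 156) (nat_lit 456) (nat_lit 0) (XT.nd (nat_lit 78) (nat_lit 0) (nat_lit 0) (XT.lf (nat_lit 0) (nat_lit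 2605050059) (nat_lit 760) (nat_lit 6405742667) (nat_lit 836) (nat_lit 5470980686) (nat_lit 287) (nat_lit 5) (nat_lit 297) (nat_lit 5) (nat_lit 298) (nat_lit 5) (nat_lit 371) (nat_lit 360) (nat_lit 289)) (XT.lf (nat_lit 0) (nat_lit 10902083110) (nat_lit 836) (nat_lit 3909316851) (nat_lit 76) (nat_lit 46955148) (nat_lit 287) (nat_lit 5) (nat_lit 298) (nat_lit 5) (nat_lit 288) (nat_lit 5) (nat_lit 372) (nat_lit 360) (nat_lit 288))) (XT.nd (nat_lit 78) (nat_lit 0) (nat_lit 0) (XT.lf (nat_lit 0) (nat_lit 4473811921) (nat_lit 456) (nat_lit 8567273108) (nat_lit 532) (nat_lit 2205023512) (nat_lit 281) (nat_lit 5) (nat_lit 287) (nat_lit 5) (nat_lit 288) (nat_lit 5) (nat_lit 373) (nat_lit 360) (nat_lit 287)) (XT.lf (nat_lit 0) (nat_lit 13391329887) (nat_lit 456) (nat_lit 1940913520) (nat_lit 532) (nat_lit 318745920) (nat_lit 281) (nat_lit 5) (nat_lit 287) (nat_lit 5) (nat_lit 288) (nat_lit 5) (nat_lit 374)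 (nat_lit 360) (nat_lit 286)))) (XT.nd (nat_lit 156) (nat_lit 684) (nat_lit 0) (XT.nd (nat_lit 78) (nat_lit 0) (nat_lit 0) (XT.lf (nat_lit 0) (nat_lit 1775810862) (nat_lit 456) (nat_lit 9299214590) (nat_lit 76) (nat_lit 4991433659) (nat_lit 275) (nat_lit 5) (nat_lit 281) (nat_lit 5) (nat_lit 276) (nat_lit 5) (nat_lit 375) (nat_lit 360) (nat_lit 285)) (XT.lf (nat_lit 0) (nat_lit 4015424801) (nat_lit 456) (nat_lit 235357193) (nat_lit 76) (nat_lit 12249107060) (nat_lit 275) (nat_lit 5) (nat_lit 281) (nat_lit 5) (nat_lit 276) (nat_lit 5) (nat_lit 376) (nat_lit 360) (nat_lit 284))) (XT.nd (nat_lit 78) (nat_lit 304) (nat_lit 0) (XT.lf (nat_lit 0) (nat_lit 6545605833) (nat_lit 456) (nat_lit 7428313166) (nat_lit 76) (nat_lit 2972142175) (nat_lit 270) (nat_lit 5) (nat_lit 276) (nat_lit 5) (nat_lit 271) (nat_lit 5) (nat_lit 377) (nat_lit 360) (nat_lit 283)) (XT.lf (nat_lit 0) (nat_lit 2336969723) (nat_lit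 304) (nat_lit 6957378802) (nat_lit 380) (nat_lit 8115590743) (nat_lit 266) (nat_lit 5) (nat_lit 270) (nat_lit 5) (nat_lit 271) (nat_lit 5) (nat_lit 378) (nat_lit 360) (nat_lit 282))))) (XT.nd (nat_lit 312) (nat_lit 532) (nat_lit 0) (XT.nd (nat_lit 156) (nat_lit 380) (nat_lit 0) (XT.nd (nat_lit 78) (nat_lit 304) (nat_lit 0) (XT.lf (nat_lit 0) (nat_lit 12297136759) (nat_lit 380) (nat_lit 5071701238) (nat_lit 76) (nat_lit 522342852) (nat_lit 266) (nat_lit 5) (nat_lit 271) (nat_lit 5) (nat_lit 267) (nat_lit 5) (nat_lit 379) (nat_lit 360) (nat_lit 281)) (XT.lf (nat_lit 0) (nat_lit 5470741863) (nat_lit 304) (nat_lit 10161975286) (nat_lit 380) (nat_lit 2754634722) (nat_lit 262) (nat_lit 5) (nat_lit 266) (nat_lit 5) (nat_lit 267) (nat_lit 5) (nat_lit 380) (nat_lit 360) (nat_lit 280))) (XT.nd (nat_lit 78) (nat_lit 304) (nat_lit 0) (XT.lf (nat_lit 0) (nat_lit 290198417) (nat_lit 380) (nat_lit 2212758091)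 (nat_lit 76) (nat_lit 16401662402) (nat_lit 261) (nat_lit 5) (nat_lit 266) (nat_lit 5) (nat_lit 262) (nat_lit 5) (nat_lit 381) (nat_lit 360) (nat_lit 279)) (XT.lf (nat_lit 0) (nat_lit 3612983807) (nat_lit 380) (nat_lit 10270338280) (nat_lit 76) (nat_lit 5551255096) (nat_lit 257) (nat_lit 5) (nat_lit 262) (nat_lit 5) (nat_lit 258) (nat_lit 5) (nat_lit 382) (nat_lit 360) (nat_lit 278)))) (XT.nd (nat_lit 156) (nat_lit 228) (nat_lit 0) (XT.nd (nat_lit 78) (nat_lit 0) (nat_lit 0) (XT.lf (nat_lit 0) (nat_lit 1174079177) (nat_lit 304) (nat_lit 6009883305) (nat_lit 380) (nat_lit 12802968189) (nat_lit 253) (nat_lit 5) (nat_lit 257) (nat_lit 5) (nat_lit 258) (nat_lit 5) (nat_lit 383) (nat_lit 360) (nat_lit 277)) (XT.lf (nat_lit 0) (nat_lit 11130483748) (nat_lit 380) (nat_lit 7068982739) (nat_lit 76) (nat_lit 2357585662) (nat_lit 253) (nat_lit 5) (nat_lit 258) (nat_lit 5) (nat_lit 254) (nat_lit 5) (nat_lit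 384) (nat_lit 360) (nat_lit 276))) (XT.nd (nat_lit 78) (nat_lit 0) (nat_lit 0) (XT.lf (nat_lit 0) (nat_lit 5314644281) (nat_lit 228) (nat_lit 10126869297) (nat_lit 304) (nat_lit 5705806997) (nat_lit 250) (nat_lit 5) (nat_lit 253) (nat_lit 5) (nat_lit 254) (nat_lit 5) (nat_lit 385) (nat_lit 360) (nat_lit 275)) (XT.lf (nat_lit 0) (nat_lit 18544164152) (nat_lit 228) (nat_lit 1529720394) (nat_lit 304) (nat_lit 1687928395) (nat_lit 250) (nat_lit 5) (nat_lit 253) (nat_lit 5) (nat_lit 254) (nat_lit 5) (nat_lit 386) (nat_lit 360) (nat_lit 274))))))))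
noncomputable def xc190 : XT := (XT.nd (nat_lit 1248) (nat_lit 1748) (nat_lit 0) (XT.nd (nat_lit 624) (nat_lit 988) (nat_lit 0) (XT.nd (nat_lit 312) (nat_lit 532) (nat_lit 0) (XT.nd (nat_lit 156) (nat_lit 228) (nat_lit 0) (XT.nd (nat_lit 78) (nat_lit 228) (nat_lit 0) (XT.lf (nat_lit 0) (nat_lit 2717435255) (nat_lit 380) (nat_lit 12217931809) (nat_lit 76) (nat_lit 7456307487) (nat_lit 245) (nat_lit 5) (nat_lit 250) (nat_lit 5) (nat_lit 246) (nat_lit 5) (nat_lit 387) (nat_lit 360) (nat_lit 273)) (XT.lf (nat_lit 0) (nat_lit 1264387084) (nat_lit 228) (nat_lit 6108962801) (nat_lit 304) (nat_lit 15673945394) (nat_lit 242) (nat_lit 5) (nat_lit 245) (nat_lit 5) (nat_lit 246) (nat_lit 5) (nat_lit 388) (nat_lit 360) (nat_lit 272))) (XT.nd (nat_lit 78) (nat_lit 228) (nat_lit 0) (XT.lf (nat_lit 0) (nat_lit 12508749700) (nat_lit 304) (nat_lit 7951866934) (nat_lit 76) (nat_lit 3262745938) (nat_lit 242) (nat_lit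 5) (nat_lit 246) (nat_lit 5) (nat_lit 243) (nat_lit 5) (nat_lit 389) (nat_lit 360) (nat_lit 271)) (XT.lf (nat_lit 0) (nat_lit 6666021937) (nat_lit 228) (nat_lit 11426799467) (nat_lit 304) (nat_lit 6330816731) (nat_lit 239) (nat_lit 5) (nat_lit 242) (nat_lit 5) (nat_lit 243) (nat_lit 5) (nat_lit 390) (nat_lit 360) (nat_lit 270)))) (XT.nd (nat_lit 156) (nat_lit 228) (nat_lit 0) (XT.nd (nat_lit 78) (nat_lit 304) (nat_lit 0) (XT.lf (nat_lit 0) (nat_lit 22273253163) (nat_lit 228) (nat_lit 1805503465) (nat_lit 304) (nat_lit 1074037850) (nat_lit 239) (nat_lit 5) (nat_lit 242) (nat_lit 5) (nat_lit 243) (nat_lit 5) (nat_lit 391) (nat_lit 360) (nat_lit 269)) (XT.lf (nat_lit 0) (nat_lit 4629730842) (nat_lit 304) (nat_lit 12964926787) (nat_lit 76) (nat_lit 8303958753) (nat_lit 235) (nat_lit 5) (nat_lit 239) (nat_lit 5) (nat_lit 236) (nat_lit 5) (nat_lit 392) (nat_lit 360) (nat_lit 268))) (XT.nd (nat_lit 78)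 (nat_lit 0) (nat_lit 0) (XT.lf (nat_lit 0) (nat_lit 2988537801) (nat_lit 228) (nat_lit 7708457843) (nat_lit 304) (nat_lit 15978133257) (nat_lit 232) (nat_lit 5) (nat_lit 235) (nat_lit 5) (nat_lit 236) (nat_lit 5) (nat_lit 393) (nat_lit 360) (nat_lit 267)) (XT.lf (nat_lit 0) (nat_lit 17321271518) (nat_lit 304) (nat_lit 7352573146) (nat_lit 76) (nat_lit 2803939992) (nat_lit 232) (nat_lit 5) (nat_lit 236) (nat_lit 5) (nat_lit 233) (nat_lit 5) (nat_lit 394) (nat_lit 360) (nat_lit 266))))) (XT.nd (nat_lit 312) (nat_lit 380) (nat_lit 0) (XT.nd (nat_lit 156) (nat_lit 380) (nat_lit 0) (XT.nd (nat_lit 78) (nat_lit 76) (nat_lit 0) (XT.lf (nat_lit 0) (nat_lit 9974297958) (nat_lit 152) (nat_lit 14573856073) (nat_lit 228) (nat_lit 3758849524) (nat_lit 230) (nat_lit 5) (nat_lit 232) (nat_lit 5) (nat_lit 233) (nat_lit 5) (nat_lit 395) (nat_lit 360) (nat_lit 265)) (XT.lf (nat_lit 0) (nat_lit 2979940602) (nat_lit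 228) (nat_lit 813715841) (nat_lit 76) (nat_lit 25375920273) (nat_lit 229) (nat_lit 5) (nat_lit 232) (nat_lit 5) (nat_lit 230) (nat_lit 5) (nat_lit 396) (nat_lit 360) (nat_lit 264))) (XT.nd (nat_lit 78) (nat_lit 152) (nat_lit 0) (XT.lf (nat_lit 0) (nat_lit 10324590968) (nat_lit 304) (nat_lit 12099278641) (nat_lit 76) (nat_lit 7628565766) (nat_lit 226) (nat_lit 5) (nat_lit 230) (nat_lit 5) (nat_lit 227) (nat_lit 5) (nat_lit 397) (nat_lit 360) (nat_lit 263)) (XT.lf (nat_lit 0) (nat_lit 6848508231) (nat_lit 152) (nat_lit 11361117196) (nat_lit 228) (nat_lit 12761153960) (nat_lit 224) (nat_lit 5) (nat_lit 226) (nat_lit 5) (nat_lit 227) (nat_lit 5) (nat_lit 398) (nat_lit 360) (nat_lit 262)))) (XT.nd (nat_lit 156) (nat_lit 152) (nat_lit 0) (XT.nd (nat_lit 78) (nat_lit 228) (nat_lit 0) (XT.lf (nat_lit 0) (nat_lit 26691315998) (nat_lit 228) (nat_lit 4784664099) (nat_lit 76) (nat_lit 448940285) (nat_lit 224)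 (nat_lit 5) (nat_lit 227) (nat_lit 5) (nat_lit 225) (nat_lit 5) (nat_lit 399) (nat_lit 360) (nat_lit 261)) (XT.lf (nat_lit 0) (nat_lit 3015748035) (nat_lit 228) (nat_lit 17129653222) (nat_lit 76) (nat_lit 12757737989) (nat_lit 221) (nat_lit 5) (nat_lit 224) (nat_lit 5) (nat_lit 222) (nat_lit 5) (nat_lit 400) (nat_lit 360) (nat_lit 260))) (XT.nd (nat_lit 78) (nat_lit 0) (nat_lit 0) (XT.lf (nat_lit 0) (nat_lit 3612373254) (nat_lit 152) (nat_lit 8018756505) (nat_lit 228) (nat_lit 22288377198) (nat_lit 219) (nat_lit 5) (nat_lit 221) (nat_lit 5) (nat_lit 222) (nat_lit 5) (nat_lit 401) (nat_lit 360) (nat_lit 259)) (XT.lf (nat_lit 0) (nat_lit 21036532011) (nat_lit 228) (nat_lit 9080008729) (nat_lit 76) (nat_lit 4852189743) (nat_lit 219) (nat_lit 5) (nat_lit 222) (nat_lit 5) (nat_lit 220) (nat_lit 5) (nat_lit 402) (nat_lit 360) (nat_lit 258)))))) (XT.nd (nat_lit 624) (nat_lit 912) (nat_lit 0) (XT.nd (nat_lit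 312) (nat_lit 304) (nat_lit 0) (XT.nd (nat_lit 156) (nat_lit 152) (nat_lit 0) (XT.nd (nat_lit 78) (nat_lit 228) (nat_lit 0) (XT.lf (nat_lit 0) (nat_lit 13493988770) (nat_lit 152) (nat_lit 17751582526) (nat_lit 228) (nat_lit 4808175544) (nat_lit 217) (nat_lit 5) (nat_lit 219) (nat_lit 5) (nat_lit 220) (nat_lit 5) (nat_lit 403) (nat_lit 360) (nat_lit 257)) (XT.lf (nat_lit 0) (nat_lit 242361113) (nat_lit 152) (nat_lit 4528311793) (nat_lit 228) (nat_lit 32411047869) (nat_lit 214) (nat_lit 5) (nat_lit 216) (nat_lit 5) (nat_lit 217) (nat_lit 5) (nat_lit 404) (nat_lit 360) (nat_lit 256))) (XT.nd (nat_lit 78) (nat_lit 152) (nat_lit 0) (XT.lf (nat_lit 0) (nat_lit 15192645712) (nat_lit 228) (nat_lit 13625398257) (nat_lit 76) (nat_lit 9517819901) (nat_lit 214) (nat_lit 5) (nat_lit 217) (nat_lit 5) (nat_lit 215) (nat_lit 5) (nat_lit 405) (nat_lit 360) (nat_lit 255)) (XT.lf (nat_lit 0) (nat_lit 11121648954)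 (nat_lit 152) (nat_lit 15253723087) (nat_lit 228) (nat_lit 13160359336) (nat_lit 212) (nat_lit 5) (nat_lit 214) (nat_lit 5) (nat_lit 215) (nat_lit 5) (nat_lit 406) (nat_lit 360) (nat_lit 254)))) (XT.nd (nat_lit 156) (nat_lit 152) (nat_lit 0) (XT.nd (nat_lit 78) (nat_lit 152) (nat_lit 0) (XT.lf (nat_lit 0) (nat_lit 37564983010) (nat_lit 152) (nat_lit 774955691) (nat_lit 228) (nat_lit 2444518358) (nat_lit 212) (nat_lit 5) (nat_lit 214) (nat_lit 5) (nat_lit 215) (nat_lit 5) (nat_lit 407) (nat_lit 360) (nat_lit 253)) (XT.lf (nat_lit 0) (nat_lit 9123281277) (nat_lit 152) (nat_lit 18457123779) (nat_lit 76) (nat_lit 14478436317) (nat_lit 210) (nat_lit 5) (nat_lit 212) (nat_lit 5) (nat_lit 211) (nat_lit 5) (nat_lit 408) (nat_lit 360) (nat_lit 252))) (XT.nd (nat_lit 78) (nat_lit 0) (nat_lit 0) (XT.lf (nat_lit 0) (nat_lit 8692294815) (nat_lit 152) (nat_lit 12691135013) (nat_lit 228) (nat_lit 22001705833)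 (nat_lit 208) (nat_lit 5) (nat_lit 210) (nat_lit 5) (nat_lit 211) (nat_lit 5) (nat_lit 409) (nat_lit 360) (nat_lit 251)) (XT.lf (nat_lit 0) (nat_lit 34612573902) (nat_lit 228) (nat_lit 6987034859) (nat_lit 76) (nat_lit 3160336497) (nat_lit 208) (nat_lit 5) (nat_lit 211) (nat_lit 5) (nat_lit 209) (nat_lit 4) (nat_lit 410) (nat_lit 360) (nat_lit 250))))) (XT.nd (nat_lit 312) (nat_lit 532) (nat_lit 0) (XT.nd (nat_lit 156) (nat_lit 76) (nat_lit 0) (XT.nd (nat_lit 78) (nat_lit 152) (nat_lit 0) (XT.lf (nat_lit 0) (nat_lit 2788859330) (nat_lit 152) (nat_lit 23614404328) (nat_lit 76) (nat_lit 19770297274) (nat_lit 206) (nat_lit 5) (nat_lit 208) (nat_lit 5) (nat_lit 207) (nat_lit 5) (nat_lit 411) (nat_lit 360) (nat_lit 249)) (XT.lf (nat_lit 0) (nat_lit 6189920534) (nat_lit 152) (nat_lit 10050607294) (nat_lit 228) (nat_lit 31398529821) (nat_lit 204) (nat_lit 5) (nat_lit 206) (nat_lit 5) (nat_lit 207) (nat_lit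 5) (nat_lit 412) (nat_lit 360) (nat_lit 248))) (XT.nd (nat_lit 78) (nat_lit 76) (nat_lit 0) (XT.lf (nat_lit 0) (nat_lit 30875201046) (nat_lit 228) (nat_lit 10984494952) (nat_lit 76) (nat_lit 7292612137) (nat_lit 204) (nat_lit 5) (nat_lit 207) (nat_lit 5) (nat_lit 205) (nat_lit 4) (nat_lit 413) (nat_lit 360) (nat_lit 247)) (XT.lf (nat_lit 0) (nat_lit 21514599691) (nat_lit 76) (nat_lit 25220804680) (nat_lit 152) (nat_lit 3981126953) (nat_lit 203) (nat_lit 5) (nat_lit 204) (nat_lit 5) (nat_lit 205) (nat_lit 4) (nat_lit 414) (nat_lit 360) (nat_lit 246)))) (XT.nd (nat_lit 156) (nat_lit 304) (nat_lit 0) (XT.nd (nat_lit 78) (nat_lit 0) (nat_lit 0) (XT.lf (nat_lit 0) (nat_lit 3597593646) (nat_lit 152) (nat_lit 7317438800) (nat_lit 228) (nat_lit 41423403138) (nat_lit 200) (nat_lit 5) (nat_lit 202) (nat_lit 5) (nat_lit 203) (nat_lit 5) (nat_lit 415) (nat_lit 360) (nat_lit 245)) (XT.lf (nat_lit 0) (nat_lit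 27097310854) (nat_lit 228) (nat_lit 15231093767) (nat_lit 76) (nat_lit 11676012065) (nat_lit 200) (nat_lit 5) (nat_lit 203) (nat_lit 5) (nat_lit 201) (nat_lit 4) (nat_lit 416) (nat_lit 360) (nat_lit 244))) (XT.nd (nat_lit 78) (nat_lit 228) (nat_lit 0) (XT.lf (nat_lit 0) (nat_lit 20477513386) (nat_lit 76) (nat_lit 24044377976) (nat_lit 152) (nat_lit 11210146073) (nat_lit 199) (nat_lit 5) (nat_lit 200) (nat_lit 5) (nat_lit 201) (nat_lit 4) (nat_lit 417) (nat_lit 360) (nat_lit 243)) (XT.lf (nat_lit 0) (nat_lit 897285271) (nat_lit 152) (nat_lit 4475371659) (nat_lit 228) (nat_lit 52155780952) (nat_lit 196) (nat_lit 5) (nat_lit 198) (nat_lit 5) (nat_lit 199) (nat_lit 5) (nat_lit 418) (nat_lit 360) (nat_lit 242)))))))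
noncomputable def xc191 : XT := (XT.nd (nat_lit 1248) (nat_lit 1216) (nat_lit 0) (XT.nd (nat_lit 624) (nat_lit 608) (nat_lit 0) (XT.nd (nat_lit 312) (nat_lit 304) (nat_lit 0) (XT.nd (nat_lit 156) (nat_lit 228) (nat_lit 0) (XT.nd (nat_lit 78) (nat_lit 76) (nat_lit 0) (XT.lf (nat_lit 0) (nat_lit 23259208838) (nat_lit 228) (nat_lit 19760786768) (nat_lit 76) (nat_lit 16342906945) (nat_lit 196) (nat_lit 5) (nat_lit 199) (nat_lit 5) (nat_lit 197) (nat_lit 4) (nat_lit 419) (nat_lit 360) (nat_lit 241)) (XT.lf (nat_lit 0) (nat_lit 19492042822) (nat_lit 76) (nat_lit 22919616455) (nat_lit 152) (nat_lit 18858852628) (nat_lit 195) (nat_lit 5) (nat_lit 196) (nat_lit 5) (nat_lit 197) (nat_lit 4) (nat_lit 420) (nat_lit 360) (nat_lit 240))) (XT.nd (nat_lit 78) (nat_lit 228) (nat_lit 0) (XT.lf (nat_lit 0) (nat_lit 61382195258) (nat_lit 76) (nat_lit 1468188232) (nat_lit 152) (nat_lit 406685674) (nat_lit 195) (nat_lit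 5) (nat_lit 196) (nat_lit 5) (nat_lit 197) (nat_lit 4) (nat_lit 421) (nat_lit 360) (nat_lit 239)) (XT.lf (nat_lit 0) (nat_lit 19339785183) (nat_lit 228) (nat_lit 24610472249) (nat_lit 76) (nat_lit 21328949958) (nat_lit 192) (nat_lit 5) (nat_lit 195) (nat_lit 5) (nat_lit 193) (nat_lit 4) (nat_lit 422) (nat_lit 360) (nat_lit 238)))) (XT.nd (nat_lit 156) (nat_lit 228) (nat_lit 0) (XT.nd (nat_lit 78) (nat_lit 0) (nat_lit 0) (XT.lf (nat_lit 0) (nat_lit 18555334612) (nat_lit 76) (nat_lit 21844832026) (nat_lit 152) (nat_lit 26984939822) (nat_lit 191) (nat_lit 5) (nat_lit 192) (nat_lit 5) (nat_lit 193) (nat_lit 4) (nat_lit 423) (nat_lit 360) (nat_lit 237)) (XT.lf (nat_lit 0) (nat_lit 62952752450) (nat_lit 152) (nat_lit 4880838560) (nat_lit 0) (nat_lit 1740750210) (nat_lit 191) (nat_lit 5) (nat_lit 193) (nat_lit 4) (nat_lit 191) (nat_lit 4) (nat_lit 424) (nat_lit 360) (nat_lit 236))) (XT.nd (nat_lit 78)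 (nat_lit 76) (nat_lit 0) (XT.lf (nat_lit 0) (nat_lit 15316365186) (nat_lit 152) (nat_lit 29820342818) (nat_lit 76) (nat_lit 26673365257) (nat_lit 189) (nat_lit 5) (nat_lit 191) (nat_lit 5) (nat_lit 190) (nat_lit 4) (nat_lit 425) (nat_lit 360) (nat_lit 235)) (XT.lf (nat_lit 0) (nat_lit 17664741368) (nat_lit 76) (nat_lit 20818280081) (nat_lit 152) (nat_lit 35651426252) (nat_lit 188) (nat_lit 5) (nat_lit 189) (nat_lit 5) (nat_lit 190) (nat_lit 4) (nat_lit 426) (nat_lit 360) (nat_lit 234))))) (XT.nd (nat_lit 312) (nat_lit 380) (nat_lit 0) (XT.nd (nat_lit 156) (nat_lit 76) (nat_lit 0) (XT.nd (nat_lit 78) (nat_lit 152) (nat_lit 0) (XT.lf (nat_lit 0) (nat_lit 63389485923) (nat_lit 152) (nat_lit 8082901266) (nat_lit 0) (nat_lit 5073579904) (nat_lit 188) (nat_lit 5) (nat_lit 190) (nat_lit 4) (nat_lit 188) (nat_lit 4) (nat_lit 427) (nat_lit 360) (nat_lit 233)) (XT.lf (nat_lit 0) (nat_lit 11164540275) (nat_lit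 152) (nat_lit 35434266224) (nat_lit 76) (nat_lit 32419277092) (nat_lit 186) (nat_lit 5) (nat_lit 188) (nat_lit 5) (nat_lit 187) (nat_lit 4) (nat_lit 428) (nat_lit 360) (nat_lit 232))) (XT.nd (nat_lit 78) (nat_lit 0) (nat_lit 0) (XT.lf (nat_lit 0) (nat_lit 16817799450) (nat_lit 76) (nat_lit 19838186459) (nat_lit 152) (nat_lit 44927210146) (nat_lit 185) (nat_lit 5) (nat_lit 186) (nat_lit 5) (nat_lit 187) (nat_lit 4) (nat_lit 429) (nat_lit 360) (nat_lit 231)) (XT.lf (nat_lit 0) (nat_lit 64155736053) (nat_lit 152) (nat_lit 11482798284) (nat_lit 0) (nat_lit 8601343195) (nat_lit 185) (nat_lit 5) (nat_lit 187) (nat_lit 4) (nat_lit 185) (nat_lit 4) (nat_lit 430) (nat_lit 360) (nat_lit 230)))) (XT.nd (nat_lit 156) (nat_lit 152) (nat_lit 0) (XT.nd (nat_lit 78) (nat_lit 76) (nat_lit 0) (XT.lf (nat_lit 0) (nat_lit 6857978585) (nat_lit 152) (nat_lit 41500199645) (nat_lit 76) (nat_lit 38614081667) (nat_lit 183)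 (nat_lit 5) (nat_lit 185) (nat_lit 5) (nat_lit 184) (nat_lit 4) (nat_lit 431) (nat_lit 360) (nat_lit 229)) (XT.lf (nat_lit 0) (nat_lit 16012210000) (nat_lit 76) (nat_lit 18902768825) (nat_lit 152) (nat_lit 54887683493) (nat_lit 182) (nat_lit 5) (nat_lit 183) (nat_lit 5) (nat_lit 184) (nat_lit 4) (nat_lit 432) (nat_lit 360) (nat_lit 228))) (XT.nd (nat_lit 78) (nat_lit 152) (nat_lit 0) (XT.lf (nat_lit 0) (nat_lit 65272023847) (nat_lit 152) (nat_lit 15107321210) (nat_lit 0) (nat_lit 12350380065) (nat_lit 182) (nat_lit 5) (nat_lit 184) (nat_lit 4) (nat_lit 182) (nat_lit 4) (nat_lit 433) (nat_lit 360) (nat_lit 227)) (XT.lf (nat_lit 0) (nat_lit 2368213768) (nat_lit 152) (nat_lit 48070641725) (nat_lit 76) (nat_lit 45309864411) (nat_lit 180) (nat_lit 5) (nat_lit 182) (nat_lit 5) (nat_lit 181) (nat_lit 4) (nat_lit 434) (nat_lit 360) (nat_lit 226)))))) (XT.nd (nat_lit 624) (nat_lit 684) (nat_lit 0) (XT.nd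 (nat_lit 312) (nat_lit 228) (nat_lit 0) (XT.nd (nat_lit 156) (nat_lit 228) (nat_lit 0) (XT.nd (nat_lit 78) (nat_lit 0) (nat_lit 0) (XT.lf (nat_lit 0) (nat_lit 15245822672) (nat_lit 76) (nat_lit 18010253483) (nat_lit 152) (nat_lit 65615411437) (nat_lit 179) (nat_lit 5) (nat_lit 180) (nat_lit 5) (nat_lit 181) (nat_lit 4) (nat_lit 435) (nat_lit 360) (nat_lit 225)) (XT.lf (nat_lit 0) (nat_lit 66761550777) (nat_lit 152) (nat_lit 18985643504) (nat_lit 0) (nat_lit 16349538428) (nat_lit 179) (nat_lit 5) (nat_lit 181) (nat_lit 4) (nat_lit 179) (nat_lit 4) (nat_lit 436) (nat_lit 360) (nat_lit 224))) (XT.nd (nat_lit 78) (nat_lit 152) (nat_lit 0) (XT.lf (nat_lit 0) (nat_lit 50188721985) (nat_lit 76) (nat_lit 52827983087) (nat_lit 76) (nat_lit 2412814712) (nat_lit 178) (nat_lit 4) (nat_lit 179) (nat_lit 5) (nat_lit 179) (nat_lit 4) (nat_lit 437) (nat_lit 360) (nat_lit 223)) (XT.lf (nat_lit 0) (nat_lit 14516621641)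 (nat_lit 76) (nat_lit 17158888483) (nat_lit 152) (nat_lit 77200883005) (nat_lit 176) (nat_lit 5) (nat_lit 177) (nat_lit 5) (nat_lit 178) (nat_lit 4) (nat_lit 438) (nat_lit 360) (nat_lit 222)))) (XT.nd (nat_lit 156) (nat_lit 152) (nat_lit 0) (XT.nd (nat_lit 78) (nat_lit 76) (nat_lit 0) (XT.lf (nat_lit 0) (nat_lit 68650455643) (nat_lit 152) (nat_lit 23149591573) (nat_lit 0) (nat_lit 20630420667) (nat_lit 176) (nat_lit 5) (nat_lit 178) (nat_lit 4) (nat_lit 176) (nat_lit 4) (nat_lit 439) (nat_lit 360) (nat_lit 221)) (XT.lf (nat_lit 0) (nat_lit 53028697458) (nat_lit 76) (nat_lit 55550464835) (nat_lit 76) (nat_lit 7527833389) (nat_lit 175) (nat_lit 4) (nat_lit 176) (nat_lit 5) (nat_lit 176) (nat_lit 4) (nat_lit 440) (nat_lit 360) (nat_lit 220))) (XT.nd (nat_lit 78) (nat_lit 0) (nat_lit 0) (XT.lf (nat_lit 0) (nat_lit 13822713501) (nat_lit 76) (nat_lit 16346953707) (nat_lit 152) (nat_lit 89743339989) (nat_lit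 173) (nat_lit 5) (nat_lit 174) (nat_lit 5) (nat_lit 175) (nat_lit 4) (nat_lit 441) (nat_lit 360) (nat_lit 219)) (XT.lf (nat_lit 0) (nat_lit 70968096911) (nat_lit 152) (nat_lit 27633940654) (nat_lit 0) (nat_lit 25227659433) (nat_lit 173) (nat_lit 5) (nat_lit 175) (nat_lit 4) (nat_lit 173) (nat_lit 4) (nat_lit 442) (nat_lit 360) (nat_lit 218))))) (XT.nd (nat_lit 312) (nat_lit 380) (nat_lit 0) (XT.nd (nat_lit 156) (nat_lit 76) (nat_lit 0) (XT.nd (nat_lit 78) (nat_lit 152) (nat_lit 0) (XT.lf (nat_lit 0) (nat_lit 56270277981) (nat_lit 76) (nat_lit 58678695325) (nat_lit 76) (nat_lit 12936121724) (nat_lit 172) (nat_lit 4) (nat_lit 173) (nat_lit 5) (nat_lit 173) (nat_lit 4) (nat_lit 443) (nat_lit 360) (nat_lit 217)) (XT.lf (nat_lit 0) (nat_lit 13162316749) (nat_lit 76) (nat_lit 15572768495) (nat_lit 152) (nat_lit 103351691580) (nat_lit 170) (nat_lit 5) (nat_lit 171) (nat_lit 5) (nat_lit 172) (nat_lit 4)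 (nat_lit 444) (nat_lit 360) (nat_lit 216))) (XT.nd (nat_lit 78) (nat_lit 76) (nat_lit 0) (XT.lf (nat_lit 0) (nat_lit 73747363488) (nat_lit 152) (nat_lit 32476738481) (nat_lit 0) (nat_lit 30179224888) (nat_lit 170) (nat_lit 5) (nat_lit 172) (nat_lit 4) (nat_lit 170) (nat_lit 4) (nat_lit 445) (nat_lit 360) (nat_lit 215)) (XT.lf (nat_lit 0) (nat_lit 59949228272) (nat_lit 76) (nat_lit 62248499259) (nat_lit 76) (nat_lit 18678603265) (nat_lit 169) (nat_lit 4) (nat_lit 170) (nat_lit 5) (nat_lit 170) (nat_lit 4) (nat_lit 446) (nat_lit 360) (nat_lit 214)))) (XT.nd (nat_lit 156) (nat_lit 228) (nat_lit 0) (XT.nd (nat_lit 78) (nat_lit 0) (nat_lit 0) (XT.lf (nat_lit 0) (nat_lit 12533752605) (nat_lit 76) (nat_lit 14834697300) (nat_lit 152) (nat_lit 118145523240) (nat_lit 167) (nat_lit 5) (nat_lit 168) (nat_lit 5) (nat_lit 169) (nat_lit 4) (nat_lit 447) (nat_lit 360) (nat_lit 213)) (XT.lf (nat_lit 0) (nat_lit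 77025017112) (nat_lit 152) (nat_lit 37719659963) (nat_lit 0) (nat_lit 35526765959) (nat_lit 167) (nat_lit 5) (nat_lit 169) (nat_lit 4) (nat_lit 167) (nat_lit 4) (nat_lit 448) (nat_lit 360) (nat_lit 212))) (XT.nd (nat_lit 78) (nat_lit 152) (nat_lit 0) (XT.lf (nat_lit 0) (nat_lit 64105260450) (nat_lit 76) (nat_lit 66299600265) (nat_lit 76) (nat_lit 24799903301) (nat_lit 166) (nat_lit 4) (nat_lit 167) (nat_lit 5) (nat_lit 167) (nat_lit 4) (nat_lit 449) (nat_lit 360) (nat_lit 211)) (XT.nd (nat_lit 78) (nat_lit 0) (nat_lit 0) (XT.lf (nat_lit 0) (nat_lit 11935436945) (nat_lit 76) (nat_lit 14131153724) (nat_lit 152) (nat_lit 134256209198) (nat_lit 164) (nat_lit 5) (nat_lit 165) (nat_lit 5) (nat_lit 166) (nat_lit 4) (nat_lit 450) (nat_lit 360) (nat_lit 210)) (XT.lf (nat_lit 0) (nat_lit 80842069821) (nat_lit 152) (nat_lit 43408396346) (nat_lit 0) (nat_lit 41315988562) (nat_lit 164) (nat_lit 5) (nat_lit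 166) (nat_lit 4) (nat_lit 164) (nat_lit 4) (nat_lit 451) (nat_lit 360) (nat_lit 209))))))))
noncomputable def xc192 : XT := (XT.nd (nat_lit 2496) (nat_lit 532) (nat_lit 0) (XT.nd (nat_lit 1248) (nat_lit 1292) (nat_lit 0) (XT.nd (nat_lit 624) (nat_lit 532) (nat_lit 0) (XT.nd (nat_lit 312) (nat_lit 380) (nat_lit 0) (XT.nd (nat_lit 156) (nat_lit 76) (nat_lit 0) (XT.nd (nat_lit 78) (nat_lit 152) (nat_lit 0) (XT.lf (nat_lit 0) (nat_lit 68782420915) (nat_lit 76) (nat_lit 70876018172) (nat_lit 76) (nat_lit 31348747439) (nat_lit 163) (nat_lit 4) (nat_lit 164) (nat_lit 5) (nat_lit 164) (nat_lit 4) (nat_lit 452) (nat_lit 360) (nat_lit 208)) (XT.lf (nat_lit 0) (nat_lit 11365873187) (nat_lit 76) (nat_lit 13460603276) (nat_lit 152) (nat_lit 151828139003) (nat_lit 161) (nat_lit 5) (nat_lit 162) (nat_lit 5) (nat_lit 163) (nat_lit 4) (nat_lit 453) (nat_lit 360) (nat_lit 207))) (XT.nd (nat_lit 78) (nat_lit 76)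 (nat_lit 0) (XT.lf (nat_lit 0) (nat_lit 85244200263) (nat_lit 152) (nat_lit 49593082668) (nat_lit 0) (nat_lit 47597074119) (nat_lit 161) (nat_lit 5) (nat_lit 163) (nat_lit 4) (nat_lit 161) (nat_lit 4) (nat_lit 454) (nat_lit 360) (nat_lit 206)) (XT.lf (nat_lit 0) (nat_lit 74029518494) (nat_lit 76) (nat_lit 76026505626) (nat_lit 76) (nat_lit 38378400899) (nat_lit 160) (nat_lit 4) (nat_lit 161) (nat_lit 5) (nat_lit 161) (nat_lit 4) (nat_lit 455) (nat_lit 360) (nat_lit 205)))) (XT.nd (nat_lit 156) (nat_lit 228) (nat_lit 0) (XT.nd (nat_lit 78) (nat_lit 0) (nat_lit 0) (XT.lf (nat_lit 0) (nat_lit 10823645975) (nat_lit 76) (nat_lit 12821565090) (nat_lit 152) (nat_lit 171020069663) (nat_lit 158) (nat_lit 5) (nat_lit 159) (nat_lit 5) (nat_lit 160) (nat_lit 4) (nat_lit 456) (nat_lit 360) (nat_lit 204)) (XT.lf (nat_lit 0) (nat_lit 90282212953) (nat_lit 152) (nat_lit 56328767624) (nat_lit 0) (nat_lit 54425142178)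 (nat_lit 158) (nat_lit 5) (nat_lit 160) (nat_lit 4) (nat_lit 158) (nat_lit 4) (nat_lit 457) (nat_lit 360) (nat_lit 203))) (XT.nd (nat_lit 78) (nat_lit 152) (nat_lit 0) (XT.lf (nat_lit 0) (nat_lit 79900597872) (nat_lit 76) (nat_lit 81805028400) (nat_lit 76) (nat_lit 45947152543) (nat_lit 157) (nat_lit 4) (nat_lit 158) (nat_lit 5) (nat_lit 158) (nat_lit 4) (nat_lit 458) (nat_lit 360) (nat_lit 202)) (XT.lf (nat_lit 0) (nat_lit 10307415545) (nat_lit 76) (nat_lit 12212612819) (nat_lit 152) (nat_lit 192006616114) (nat_lit 155) (nat_lit 5) (nat_lit 156) (nat_lit 5) (nat_lit 157) (nat_lit 4) (nat_lit 459) (nat_lit 360) (nat_lit 201))))) (XT.nd (nat_lit 312) (nat_lit 304) (nat_lit 0) (XT.nd (nat_lit 156) (nat_lit 152) (nat_lit 0) (XT.nd (nat_lit 78) (nat_lit 76) (nat_lit 0) (XT.lf (nat_lit 0) (nat_lit 96012544987) (nat_lit 152) (nat_lit 63675930388) (nat_lit 0) (nat_lit 61860761334) (nat_lit 155) (nat_lit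 5) (nat_lit 157) (nat_lit 4) (nat_lit 155) (nat_lit 4) (nat_lit 460) (nat_lit 360) (nat_lit 200)) (XT.lf (nat_lit 0) (nat_lit 86455462760) (nat_lit 76) (nat_lit 88271294158) (nat_lit 76) (nat_lit 54118848161) (nat_lit 154) (nat_lit 4) (nat_lit 155) (nat_lit 5) (nat_lit 155) (nat_lit 4) (nat_lit 461) (nat_lit 360) (nat_lit 199))) (XT.nd (nat_lit 78) (nat_lit 0) (nat_lit 0) (XT.lf (nat_lit 0) (nat_lit 9815912673) (nat_lit 76) (nat_lit 11632374874) (nat_lit 152) (nat_lit 214979894113) (nat_lit 152) (nat_lit 5) (nat_lit 153) (nat_lit 5) (nat_lit 154) (nat_lit 4) (nat_lit 462) (nat_lit 360) (nat_lit 198)) (XT.lf (nat_lit 0) (nat_lit 102497825156) (nat_lit 152) (nat_lit 71701049347) (nat_lit 0) (nat_lit 69970513190) (nat_lit 152) (nat_lit 5) (nat_lit 154) (nat_lit 4) (nat_lit 152) (nat_lit 4) (nat_lit 463) (nat_lit 360) (nat_lit 197)))) (XT.nd (nat_lit 156) (nat_lit 76) (nat_lit 0) (XT.nd (nat_lit 78)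 (nat_lit 152) (nat_lit 0) (XT.lf (nat_lit 0) (nat_lit 93760253773) (nat_lit 76) (nat_lit 95491334842) (nat_lit 76) (nat_lit 62963477965) (nat_lit 151) (nat_lit 4) (nat_lit 152) (nat_lit 5) (nat_lit 152) (nat_lit 4) (nat_lit 464) (nat_lit 360) (nat_lit 196)) (XT.lf (nat_lit 0) (nat_lit 9347934121) (nat_lit 76) (nat_lit 11079534152) (nat_lit 152) (nat_lit 240151331098) (nat_lit 149) (nat_lit 5) (nat_lit 150) (nat_lit 5) (nat_lit 151) (nat_lit 4) (nat_lit 465) (nat_lit 360) (nat_lit 195))) (XT.nd (nat_lit 78) (nat_lit 76) (nat_lit 0) (XT.lf (nat_lit 0) (nat_lit 109807490869) (nat_lit 152) (nat_lit 80477228194) (nat_lit 0) (nat_lit 78827614591) (nat_lit 149) (nat_lit 5) (nat_lit 151) (nat_lit 4) (nat_lit 149) (nat_lit 4) (nat_lit 466) (nat_lit 360) (nat_lit 194)) (XT.lf (nat_lit 0) (nat_lit 101888086470) (nat_lit 76) (nat_lit 103538148373) (nat_lit 76) (nat_lit 72557823796) (nat_lit 148) (nat_lit 4)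 (nat_lit 149) (nat_lit 5) (nat_lit 149) (nat_lit 4) (nat_lit 467) (nat_lit 360) (nat_lit 193)))))) (XT.nd (nat_lit 624) (nat_lit 684) (nat_lit 0) (XT.nd (nat_lit 312) (nat_lit 228) (nat_lit 0) (XT.nd (nat_lit 156) (nat_lit 228) (nat_lit 0) (XT.nd (nat_lit 78) (nat_lit 0) (nat_lit 0) (XT.lf (nat_lit 0) (nat_lit 8902338508) (nat_lit 76) (nat_lit 10552827363) (nat_lit 152) (nat_lit 267753662191) (nat_lit 146) (nat_lit 5) (nat_lit 147) (nat_lit 5) (nat_lit 148) (nat_lit 4) (nat_lit 468) (nat_lit 360) (nat_lit 192)) (XT.lf (nat_lit 0) (nat_lit 118018468870) (nat_lit 152) (nat_lit 90084885370) (nat_lit 0) (nat_lit 88512603965) (nat_lit 146) (nat_lit 5) (nat_lit 148) (nat_lit 4) (nat_lit 146) (nat_lit 4) (nat_lit 469) (nat_lit 360) (nat_lit 191))) (XT.nd (nat_lit 78) (nat_lit 152) (nat_lit 0) (XT.lf (nat_lit 0) (nat_lit 110919755636) (nat_lit 76) (nat_lit 112492405859) (nat_lit 76) (nat_lit 82986172136)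 (nat_lit 145) (nat_lit 4) (nat_lit 146) (nat_lit 5) (nat_lit 146) (nat_lit 4) (nat_lit 470) (nat_lit 360) (nat_lit 190)) (XT.lf (nat_lit 0) (nat_lit 8478042563) (nat_lit 76) (nat_lit 10051044041) (nat_lit 152) (nat_lit 298043130271) (nat_lit 143) (nat_lit 5) (nat_lit 144) (nat_lit 5) (nat_lit 145) (nat_lit 4) (nat_lit 471) (nat_lit 360) (nat_lit 189)))) (XT.nd (nat_lit 156) (nat_lit 152) (nat_lit 0) (XT.nd (nat_lit 78) (nat_lit 76) (nat_lit 0) (XT.lf (nat_lit 0) (nat_lit 127215926303) (nat_lit 152) (nat_lit 100612513446) (nat_lit 0) (nat_lit 99114098202) (nat_lit 143) (nat_lit 5) (nat_lit 145) (nat_lit 4) (nat_lit 143) (nat_lit 4) (nat_lit 472) (nat_lit 360) (nat_lit 188)) (XT.lf (nat_lit 0) (nat_lit 120944512494) (nat_lit 76) (nat_lit 122443231165) (nat_lit 76) (nat_lit 94341099637) (nat_lit 142) (nat_lit 4) (nat_lit 143) (nat_lit 5) (nat_lit 143) (nat_lit 4) (nat_lit 473) (nat_lit 360) (nat_lit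 187))) (XT.nd (nat_lit 78) (nat_lit 0) (nat_lit 0) (XT.lf (nat_lit 0) (nat_lit 8074017685) (nat_lit 76) (nat_lit 9573025334) (nat_lit 152) (nat_lit 331301911023) (nat_lit 140) (nat_lit 5) (nat_lit 141) (nat_lit 5) (nat_lit 142) (nat_lit 4) (nat_lit 474) (nat_lit 360) (nat_lit 186)) (XT.lf (nat_lit 0) (nat_lit 137494099347) (nat_lit 152) (nat_lit 112157515674) (nat_lit 0) (nat_lit 110729627229) (nat_lit 140) (nat_lit 5) (nat_lit 142) (nat_lit 4) (nat_lit 140) (nat_lit 4) (nat_lit 475) (nat_lit 360) (nat_lit 185))))) (XT.nd (nat_lit 312) (nat_lit 380) (nat_lit 0) (XT.nd (nat_lit 156) (nat_lit 76) (nat_lit 0) (XT.nd (nat_lit 78) (nat_lit 152) (nat_lit 0) (XT.lf (nat_lit 0) (nat_lit 132060922254) (nat_lit 76) (nat_lit 133489060329) (nat_lit 76) (nat_lit 106724338581) (nat_lit 139) (nat_lit 4) (nat_lit 140) (nat_lit 5) (nat_lit 140) (nat_lit 4) (nat_lit 476) (nat_lit 360) (nat_lit 184)) (XT.lf (nat_lit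 0) (nat_lit 7689286795) (nat_lit 76) (nat_lit 9117662612) (nat_lit 152) (nat_lit 367840786000) (nat_lit 137) (nat_lit 5) (nat_lit 138) (nat_lit 5) (nat_lit 139) (nat_lit 4) (nat_lit 477) (nat_lit 360) (nat_lit 183))) (XT.nd (nat_lit 78) (nat_lit 76) (nat_lit 0) (XT.lf (nat_lit 0) (nat_lit 148957207392) (nat_lit 152) (nat_lit 124827127703) (nat_lit 0) (nat_lit 123466554141) (nat_lit 137) (nat_lit 5) (nat_lit 139) (nat_lit 4) (nat_lit 137) (nat_lit 4) (nat_lit 478) (nat_lit 360) (nat_lit 182)) (XT.lf (nat_lit 0) (nat_lit 144377810155) (nat_lit 76) (nat_lit 145738589088) (nat_lit 76) (nat_lit 120247730466) (nat_lit 136) (nat_lit 4) (nat_lit 137) (nat_lit 5) (nat_lit 137) (nat_lit 4) (nat_lit 479) (nat_lit 360) (nat_lit 181)))) (XT.nd (nat_lit 156) (nat_lit 228) (nat_lit 0) (XT.nd (nat_lit 78) (nat_lit 0) (nat_lit 0) (XT.lf (nat_lit 0) (nat_lit 7322921431) (nat_lit 76) (nat_lit 8683895956) (nat_lit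 152) (nat_lit 408002089115) (nat_lit 134) (nat_lit 5) (nat_lit 135) (nat_lit 5) (nat_lit 136) (nat_lit 4) (nat_lit 480) (nat_lit 360) (nat_lit 180)) (XT.lf (nat_lit 0) (nat_lit 161720461512) (nat_lit 152) (nat_lit 138739433237) (nat_lit 0) (nat_lit 137443089615) (nat_lit 134) (nat_lit 5) (nat_lit 136) (nat_lit 4) (nat_lit 134) (nat_lit 4) (nat_lit 481) (nat_lit 360) (nat_lit 179))) (XT.nd (nat_lit 78) (nat_lit 152) (nat_lit 0) (XT.lf (nat_lit 0) (nat_lit 158015305025) (nat_lit 76) (nat_lit 159311817606) (nat_lit 76) (nat_lit 135034276750) (nat_lit 133) (nat_lit 4) (nat_lit 134) (nat_lit 5) (nat_lit 134) (nat_lit 4) (nat_lit 482) (nat_lit 360) (nat_lit 178)) (XT.lf (nat_lit 0) (nat_lit 6974039066) (nat_lit 76) (nat_lit 8270712561) (nat_lit 152) (nat_lit 452162954589) (nat_lit 131) (nat_lit 5) (nat_lit 132) (nat_lit 5) (nat_lit 133) (nat_lit 4) (nat_lit 483) (nat_lit 360) (nat_lit 177))))))) (XT.nd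 (nat_lit 44148) (nat_lit 0) (nat_lit 9804) (XT.nd (nat_lit 43524) (nat_lit 0) (nat_lit 12844) (XT.nd (nat_lit 312) (nat_lit 304) (nat_lit 0) (XT.nd (nat_lit 156) (nat_lit 152) (nat_lit 0) (XT.nd (nat_lit 78) (nat_lit 76) (nat_lit 0) (XT.lf (nat_lit 0) (nat_lit 175911176903) (nat_lit 152) (nat_lit 154024483308) (nat_lit 0) (nat_lit 152789410216) (nat_lit 131) (nat_lit 5) (nat_lit 133) (nat_lit 4) (nat_lit 131) (nat_lit 4) (nat_lit 484) (nat_lit 360) (nat_lit 176)) (XT.lf (nat_lit 0) (nat_lit 173105990296) (nat_lit 76) (nat_lit 174341202391) (nat_lit 76) (nat_lit 151219296701) (nat_lit 130) (nat_lit 4) (nat_lit 131) (nat_lit 5) (nat_lit 131) (nat_lit 4) (nat_lit 485) (nat_lit 360) (nat_lit 175))) (XT.nd (nat_lit 78) (nat_lit 0) (nat_lit 0) (XT.lf (nat_lit 0) (nat_lit 6641800610) (nat_lit 76) (nat_lit 7877145089) (nat_lit 152) (nat_lit 500738897262) (nat_lit 128) (nat_lit 5) (nat_lit 129) (nat_lit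 5) (nat_lit 130) (nat_lit 4) (nat_lit 486) (nat_lit 360) (nat_lit 174)) (XT.lf (nat_lit 0) (nat_lit 191669999932) (nat_lit 152) (nat_lit 170825529841) (nat_lit 0) (nat_lit 169648891213) (nat_lit 128) (nat_lit 5) (nat_lit 130) (nat_lit 4) (nat_lit 128) (nat_lit 4) (nat_lit 487) (nat_lit 360) (nat_lit 173)))) (XT.nd (nat_lit 156) (nat_lit 76) (nat_lit 0) (XT.nd (nat_lit 78) (nat_lit 152) (nat_lit 0) (XT.lf (nat_lit 0) (nat_lit 189796173455) (nat_lit 76) (nat_lit 190972926442) (nat_lit 76) (nat_lit 168951703365) (nat_lit 127) (nat_lit 4) (nat_lit 128) (nat_lit 5) (nat_lit 128) (nat_lit 4) (nat_lit 488) (nat_lit 360) (nat_lit 172)) (XT.lf (nat_lit 0) (nat_lit 6325408095) (nat_lit 76) (nat_lit 7502269994) (nat_lit 152) (nat_lit 554187759334) (nat_lit 125) (nat_lit 5) (nat_lit 126) (nat_lit 5) (nat_lit 127) (nat_lit 4) (nat_lit 489) (nat_lit 360) (nat_lit 171))) (XT.nd (nat_lit 78) (nat_lit 76) (nat_lit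 0) (XT.lf (nat_lit 0) (nat_lit 209152261529) (nat_lit 152) (nat_lit 189300385252) (nat_lit 0) (nat_lit 188179465608) (nat_lit 125) (nat_lit 5) (nat_lit 127) (nat_lit 4) (nat_lit 125) (nat_lit 4) (nat_lit 490) (nat_lit 360) (nat_lit 170)) (XT.lf (nat_lit 0) (nat_lit 208247286024) (nat_lit 76) (nat_lit 209368299750) (nat_lit 76) (nat_lit 188395409747) (nat_lit 124) (nat_lit 4) (nat_lit 125) (nat_lit 5) (nat_lit 125) (nat_lit 4) (nat_lit 491) (nat_lit 360) (nat_lit 169))))) (XT.nd (nat_lit 312) (nat_lit 0) (nat_lit 76) (XT.nd (nat_lit 156) (nat_lit 760) (nat_lit 0) (XT.nd (nat_lit 78) (nat_lit 0) (nat_lit 0) (XT.lf (nat_lit 0) (nat_lit 2491304902) (nat_lit 0) (nat_lit 2491304902) (nat_lit 684) (nat_lit 842360752) (nat_lit 303) (nat_lit 5) (nat_lit 303) (nat_lit 3) (nat_lit 312) (nat_lit 3) (nat_lit 361) (nat_lit 361) (nat_lit 298)) (XT.lf (nat_lit 0) (nat_lit 10716474576) (nat_lit 684) (nat_lit 840024036)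 (nat_lit 760) (nat_lit 359584807) (nat_lit 303) (nat_lit 5) (nat_lit 312) (nat_lit 3) (nat_lit 313) (nat_lit 5) (nat_lit 362) (nat_lit 361) (nat_lit 297))) (XT.nd (nat_lit 78) (nat_lit 760) (nat_lit 0) (XT.lf (nat_lit 76) (nat_lit 5350493627) (nat_lit 0) (nat_lit 6288494025) (nat_lit 760) (nat_lit 549860418) (nat_lit 304) (nat_lit 5) (nat_lit 303) (nat_lit 5) (nat_lit 313) (nat_lit 5) (nat_lit 363) (nat_lit 361) (nat_lit 296)) (XT.lf (nat_lit 0) (nat_lit 111807294) (nat_lit 760) (nat_lit 615592998) (nat_lit 836) (nat_lit 11748563889) (nat_lit 293) (nat_lit 5) (nat_lit 303) (nat_lit 5) (nat_lit 304) (nat_lit 5) (nat_lit 364) (nat_lit 361) (nat_lit 295)))) (XT.nd (nat_lit 156) (nat_lit 0) (nat_lit 76) (XT.nd (nat_lit 78) (nat_lit 0) (nat_lit 0) (XT.lf (nat_lit 0) (nat_lit 935480421) (nat_lit 760) (nat_lit 6768874324) (nat_lit 836) (nat_lit 5065260600) (nat_lit 294) (nat_lit 5) (nat_lit 304) (nat_lit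 5) (nat_lit 305) (nat_lit 5) (nat_lit 365) (nat_lit 361) (nat_lit 294)) (XT.lf (nat_lit 0) (nat_lit 1794830276) (nat_lit 760) (nat_lit 139131782) (nat_lit 836) (nat_lit 11144262355) (nat_lit 294) (nat_lit 5) (nat_lit 304) (nat_lit 5) (nat_lit 305) (nat_lit 5) (nat_lit 366) (nat_lit 361) (nat_lit 293))) (XT.nd (nat_lit 78) (nat_lit 0) (nat_lit 0) (XT.lf (nat_lit 0) (nat_lit 2846535676) (nat_lit 760) (nat_lit 6435349229) (nat_lit 836) (nat_lit 4112909628) (nat_lit 295) (nat_lit 5) (nat_lit 305) (nat_lit 5) (nat_lit 306) (nat_lit 5) (nat_lit 367) (nat_lit 361) (nat_lit 292)) (XT.lf (nat_lit 76) (nat_lit 661026614) (nat_lit 0) (nat_lit 3308646396) (nat_lit 836) (nat_lit 9756577816) (nat_lit 296) (nat_lit 5) (nat_lit 295) (nat_lit 5) (nat_lit 306) (nat_lit 5) (nat_lit 368) (nat_lit 361) (nat_lit 291)))))) (XT.nd (nat_lit 624) (nat_lit 1672) (nat_lit 0) (XT.nd (nat_lit 312) (nat_lit 912) (nat_lit 0)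 (XT.nd (nat_lit 156) (nat_lit 684) (nat_lit 0) (XT.nd (nat_lit 78) (nat_lit 0) (nat_lit 0) (XT.lf (nat_lit 0) (nat_lit 5281447313) (nat_lit 760) (nat_lit 5801349637) (nat_lit 836) (nat_lit 2984858977) (nat_lit 296) (nat_lit 5) (nat_lit 306) (nat_lit 5) (nat_lit 307) (nat_lit 5) (nat_lit 369) (nat_lit 361) (nat_lit 290)) (XT.lf (nat_lit 76) (nat_lit 1810266310) (nat_lit 0) (nat_lit 4907659835) (nat_lit 836) (nat_lit 7705249348) (nat_lit 297) (nat_lit 5) (nat_lit 296) (nat_lit 5) (nat_lit 307) (nat_lit 5) (nat_lit 370) (nat_lit 361) (nat_lit 289))) (XT.nd (nat_lit 78) (nat_lit 760) (nat_lit 0) (XT.lf (nat_lit 0) (nat_lit 8328187686) (nat_lit 760) (nat_lit 4833935595) (nat_lit 76) (nat_lit 1629249818) (nat_lit 297) (nat_lit 5) (nat_lit 307) (nat_lit 5) (nat_lit 298) (nat_lit 5) (nat_lit 371) (nat_lit 361) (nat_lit 288)) (XT.lf (nat_lit 0) (nat_lit 3341403057) (nat_lit 760) (nat_lit 6788743292) (nat_lit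 836) (nat_lit 5042275034) (nat_lit 287) (nat_lit 5) (nat_lit 297) (nat_lit 5) (nat_lit 298) (nat_lit 5) (nat_lit 372) (nat_lit 361) (nat_lit 287)))) (XT.nd (nat_lit 156) (nat_lit 456) (nat_lit 0) (XT.nd (nat_lit 78) (nat_lit 456) (nat_lit 0) (XT.lf (nat_lit 0) (nat_lit 12074563707) (nat_lit 760) (nat_lit 8794052) (nat_lit 836) (nat_lit 3486106581) (nat_lit 287) (nat_lit 5) (nat_lit 297) (nat_lit 5) (nat_lit 298) (nat_lit 5) (nat_lit 373) (nat_lit 361) (nat_lit 286)) (XT.lf (nat_lit 0) (nat_lit 5297682856) (nat_lit 456) (nat_lit 9010572821) (nat_lit 532) (nat_lit 1669402472) (nat_lit 281) (nat_lit 5) (nat_lit 287) (nat_lit 5) (nat_lit 288) (nat_lit 5) (nat_lit 374) (nat_lit 361) (nat_lit 285))) (XT.nd (nat_lit 78) (nat_lit 380) (nat_lit 0) (XT.lf (nat_lit 0) (nat_lit 271457566) (nat_lit 532) (nat_lit 1776129181) (nat_lit 76) (nat_lit 14356441872) (nat_lit 280) (nat_lit 5) (nat_lit 287) (nat_lit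 5) (nat_lit 281) (nat_lit 5) (nat_lit 375) (nat_lit 361) (nat_lit 284)) (XT.lf (nat_lit 0) (nat_lit 2440846570) (nat_lit 456) (nat_lit 9153703765) (nat_lit 76) (nat_lit 5246419474) (nat_lit 275) (nat_lit 5) (nat_lit 281) (nat_lit 5) (nat_lit 276) (nat_lit 5) (nat_lit 376) (nat_lit 361) (nat_lit 283))))) (XT.nd (nat_lit 312) (nat_lit 988) (nat_lit 0) (XT.nd (nat_lit 156) (nat_lit 304) (nat_lit 0) (XT.nd (nat_lit 78) (nat_lit 0) (nat_lit 0) (XT.lf (nat_lit 0) (nat_lit 345329115) (nat_lit 380) (nat_lit 4425063399) (nat_lit 456) (nat_lit 12526781169) (nat_lit 270) (nat_lit 5) (nat_lit 275) (nat_lit 5) (nat_lit 276) (nat_lit 5) (nat_lit 377) (nat_lit 361) (nat_lit 282)) (XT.lf (nat_lit 0) (nat_lit 7405119471) (nat_lit 456) (nat_lit 7201755772) (nat_lit 76) (nat_lit 3159877322) (nat_lit 270) (nat_lit 5) (nat_lit 276) (nat_lit 5) (nat_lit 271) (nat_lit 5) (nat_lit 378) (nat_lit 361) (nat_lit 281))) (XT.nd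 (nat_lit 78) (nat_lit 0) (nat_lit 0) (XT.lf (nat_lit 0) (nat_lit 3042146535) (nat_lit 304) (nat_lit 7232993772) (nat_lit 380) (nat_lit 7979492208) (nat_lit 266) (nat_lit 5) (nat_lit 270) (nat_lit 5) (nat_lit 271) (nat_lit 5) (nat_lit 379) (nat_lit 361) (nat_lit 280)) (XT.lf (nat_lit 0) (nat_lit 13404567352) (nat_lit 380) (nat_lit 4741473008) (nat_lit 76) (nat_lit 615070844) (nat_lit 266) (nat_lit 5) (nat_lit 271) (nat_lit 5) (nat_lit 267) (nat_lit 5) (nat_lit 380) (nat_lit 361) (nat_lit 279)))) (XT.nd (nat_lit 156) (nat_lit 608) (nat_lit 0) (XT.nd (nat_lit 78) (nat_lit 76) (nat_lit 0) (XT.lf (nat_lit 0) (nat_lit 6318675905) (nat_lit 304) (nat_lit 10573762909) (nat_lit 380) (nat_lit 2390376360) (nat_lit 262) (nat_lit 5) (nat_lit 266) (nat_lit 5) (nat_lit 267) (nat_lit 5) (nat_lit 381) (nat_lit 361) (nat_lit 278)) (XT.lf (nat_lit 0) (nat_lit 767492414) (nat_lit 380) (nat_lit 1761049551) (nat_lit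 76) (nat_lit 17298168687) (nat_lit 261) (nat_lit 5) (nat_lit 266) (nat_lit 5) (nat_lit 262) (nat_lit 5) (nat_lit 382) (nat_lit 361) (nat_lit 277))) (XT.nd (nat_lit 78) (nat_lit 304) (nat_lit 0) (XT.lf (nat_lit 0) (nat_lit 4244639967) (nat_lit 380) (nat_lit 10209731643) (nat_lit 76) (nat_lit 5929384084) (nat_lit 257) (nat_lit 5) (nat_lit 262) (nat_lit 5) (nat_lit 258) (nat_lit 5) (nat_lit 383) (nat_lit 361) (nat_lit 276)) (XT.lf (nat_lit 0) (nat_lit 1797646629) (nat_lit 304) (nat_lit 6183863525) (nat_lit 380) (nat_lit 12982849572) (nat_lit 253) (nat_lit 5) (nat_lit 257) (nat_lit 5) (nat_lit 258) (nat_lit 5) (nat_lit 384) (nat_lit 361) (nat_lit 275))))))))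
noncomputable def xc193 : XT := (XT.nd (nat_lit 1248) (nat_lit 1824) (nat_lit 0) (XT.nd (nat_lit 624) (nat_lit 1140) (nat_lit 0) (XT.nd (nat_lit 312) (nat_lit 456) (nat_lit 0) (XT.nd (nat_lit 156) (nat_lit 380) (nat_lit 0) (XT.nd (nat_lit 78) (nat_lit 228) (nat_lit 0) (XT.lf (nat_lit 0) (nat_lit 12106364875) (nat_lit 380) (nat_lit 6865474034) (nat_lit 76) (nat_lit 2592098000) (nat_lit 253) (nat_lit 5) (nat_lit 258) (nat_lit 5) (nat_lit 254) (nat_lit 5) (nat_lit 385) (nat_lit 361) (nat_lit 274)) (XT.lf (nat_lit 0) (nat_lit 6128351146) (nat_lit 228) (nat_lit 10493181093) (nat_lit 304) (nat_lit 5562757216) (nat_lit 250) (nat_lit 5) (nat_lit 253) (nat_lit 5) (nat_lit 254) (nat_lit 5) (nat_lit 386) (nat_lit 361) (nat_lit 273))) (XT.nd (nat_lit 78) (nat_lit 380) (nat_lit 0) (XT.lf (nat_lit 0) (nat_lit 19993252980) (nat_lit 228) (nat_lit 1472842919) (nat_lit 304) (nat_lit 1364381834) (nat_lit 250) (nat_lit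 5) (nat_lit 253) (nat_lit 5) (nat_lit 254) (nat_lit 5) (nat_lit 387) (nat_lit 361) (nat_lit 272)) (XT.lf (nat_lit 0) (nat_lit 3239823506) (nat_lit 380) (nat_lit 12285521287) (nat_lit 76) (nat_lit 7966587661) (nat_lit 245) (nat_lit 5) (nat_lit 250) (nat_lit 5) (nat_lit 246) (nat_lit 5) (nat_lit 388) (nat_lit 361) (nat_lit 271)))) (XT.nd (nat_lit 156) (nat_lit 228) (nat_lit 0) (XT.nd (nat_lit 78) (nat_lit 0) (nat_lit 0) (XT.lf (nat_lit 0) (nat_lit 1862150533) (nat_lit 228) (nat_lit 6256323519) (nat_lit 304) (nat_lit 16062363158) (nat_lit 242) (nat_lit 5) (nat_lit 245) (nat_lit 5) (nat_lit 246) (nat_lit 5) (nat_lit 389) (nat_lit 361) (nat_lit 270)) (XT.lf (nat_lit 0) (nat_lit 13495068005) (nat_lit 304) (nat_lit 7824794813) (nat_lit 76) (nat_lit 3571623842) (nat_lit 242) (nat_lit 5) (nat_lit 246) (nat_lit 5) (nat_lit 243) (nat_lit 5) (nat_lit 390) (nat_lit 361) (nat_lit 269))) (XT.nd (nat_lit 78) (nat_lit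 0) (nat_lit 0) (XT.lf (nat_lit 0) (nat_lit 7515526155) (nat_lit 228) (nat_lit 11833691715) (nat_lit 304) (nat_lit 6278014402) (nat_lit 239) (nat_lit 5) (nat_lit 242) (nat_lit 5) (nat_lit 243) (nat_lit 5) (nat_lit 391) (nat_lit 361) (nat_lit 268)) (XT.lf (nat_lit 0) (nat_lit 23878537841) (nat_lit 228) (nat_lit 1739161757) (nat_lit 304) (nat_lit 775984347) (nat_lit 239) (nat_lit 5) (nat_lit 242) (nat_lit 5) (nat_lit 243) (nat_lit 5) (nat_lit 392) (nat_lit 361) (nat_lit 267))))) (XT.nd (nat_lit 312) (nat_lit 456) (nat_lit 0) (XT.nd (nat_lit 156) (nat_lit 152) (nat_lit 0) (XT.nd (nat_lit 78) (nat_lit 228) (nat_lit 0) (XT.lf (nat_lit 0) (nat_lit 5195766171) (nat_lit 304) (nat_lit 13104344498) (nat_lit 76) (nat_lit 8876709092) (nat_lit 235) (nat_lit 5) (nat_lit 239) (nat_lit 5) (nat_lit 236) (nat_lit 5) (nat_lit 393) (nat_lit 361) (nat_lit 266)) (XT.lf (nat_lit 0) (nat_lit 3638586406) (nat_lit 228) (nat_lit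 7919693021) (nat_lit 304) (nat_lit 16434284219) (nat_lit 232) (nat_lit 5) (nat_lit 235) (nat_lit 5) (nat_lit 236) (nat_lit 5) (nat_lit 394) (nat_lit 361) (nat_lit 265))) (XT.nd (nat_lit 78) (nat_lit 152) (nat_lit 0) (XT.lf (nat_lit 0) (nat_lit 18500814674) (nat_lit 304) (nat_lit 7230464796) (nat_lit 76) (nat_lit 3104720439) (nat_lit 232) (nat_lit 5) (nat_lit 236) (nat_lit 5) (nat_lit 233) (nat_lit 5) (nat_lit 395) (nat_lit 361) (nat_lit 264)) (XT.lf (nat_lit 0) (nat_lit 10954850879) (nat_lit 152) (nat_lit 15126785677) (nat_lit 228) (nat_lit 3625413436) (nat_lit 230) (nat_lit 5) (nat_lit 232) (nat_lit 5) (nat_lit 233) (nat_lit 5) (nat_lit 396) (nat_lit 361) (nat_lit 263)))) (XT.nd (nat_lit 156) (nat_lit 152) (nat_lit 0) (XT.nd (nat_lit 78) (nat_lit 228) (nat_lit 0) (XT.lf (nat_lit 0) (nat_lit 3425216150) (nat_lit 228) (nat_lit 385711972) (nat_lit 76) (nat_lit 26802313505) (nat_lit 229) (nat_lit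 5) (nat_lit 232) (nat_lit 5) (nat_lit 230) (nat_lit 5) (nat_lit 397) (nat_lit 361) (nat_lit 262)) (XT.lf (nat_lit 0) (nat_lit 11132871731) (nat_lit 304) (nat_lit 12231325610) (nat_lit 76) (nat_lit 8176257243) (nat_lit 226) (nat_lit 5) (nat_lit 230) (nat_lit 5) (nat_lit 227) (nat_lit 5) (nat_lit 398) (nat_lit 361) (nat_lit 261))) (XT.nd (nat_lit 78) (nat_lit 0) (nat_lit 0) (XT.lf (nat_lit 0) (nat_lit 7656222913) (nat_lit 152) (nat_lit 11749292269) (nat_lit 228) (nat_lit 13099532751) (nat_lit 224) (nat_lit 5) (nat_lit 226) (nat_lit 5) (nat_lit 227) (nat_lit 5) (nat_lit 399) (nat_lit 361) (nat_lit 260)) (XT.lf (nat_lit 0) (nat_lit 28300374109) (nat_lit 228) (nat_lit 4569848493) (nat_lit 76) (nat_lit 637219183) (nat_lit 224) (nat_lit 5) (nat_lit 227) (nat_lit 5) (nat_lit 225) (nat_lit 5) (nat_lit 400) (nat_lit 361) (nat_lit 259)))))) (XT.nd (nat_lit 624) (nat_lit 912) (nat_lit 0) (XT.nd (nat_lit 312)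 (nat_lit 380) (nat_lit 0) (XT.nd (nat_lit 156) (nat_lit 152) (nat_lit 0) (XT.nd (nat_lit 78) (nat_lit 152) (nat_lit 0) (XT.lf (nat_lit 0) (nat_lit 3439331254) (nat_lit 228) (nat_lit 17530390578) (nat_lit 76) (nat_lit 13564934585) (nat_lit 221) (nat_lit 5) (nat_lit 224) (nat_lit 5) (nat_lit 222) (nat_lit 5) (nat_lit 401) (nat_lit 361) (nat_lit 258)) (XT.lf (nat_lit 0) (nat_lit 4241386491) (nat_lit 152) (nat_lit 8238105993) (nat_lit 228) (nat_lit 23122649510) (nat_lit 219) (nat_lit 5) (nat_lit 221) (nat_lit 5) (nat_lit 222) (nat_lit 5) (nat_lit 402) (nat_lit 361) (nat_lit 257))) (XT.nd (nat_lit 78) (nat_lit 152) (nat_lit 0) (XT.lf (nat_lit 0) (nat_lit 22345159887) (nat_lit 228) (nat_lit 9096961753) (nat_lit 76) (nat_lit 5262205304) (nat_lit 219) (nat_lit 5) (nat_lit 222) (nat_lit 5) (nat_lit 220) (nat_lit 5) (nat_lit 403) (nat_lit 361) (nat_lit 256)) (XT.lf (nat_lit 0) (nat_lit 14598686469) (nat_lit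 152) (nat_lit 18460449512) (nat_lit 228) (nat_lit 4784733895) (nat_lit 217) (nat_lit 5) (nat_lit 219) (nat_lit 5) (nat_lit 220) (nat_lit 5) (nat_lit 404) (nat_lit 361) (nat_lit 255)))) (XT.nd (nat_lit 156) (nat_lit 152) (nat_lit 0) (XT.nd (nat_lit 78) (nat_lit 0) (nat_lit 0) (XT.lf (nat_lit 0) (nat_lit 685850627) (nat_lit 152) (nat_lit 4573334237) (nat_lit 228) (nat_lit 33769123033) (nat_lit 214) (nat_lit 5) (nat_lit 216) (nat_lit 5) (nat_lit 217) (nat_lit 5) (nat_lit 405) (nat_lit 361) (nat_lit 254)) (XT.lf (nat_lit 0) (nat_lit 16193049778) (nat_lit 228) (nat_lit 13886631676) (nat_lit 76) (nat_lit 10160937022) (nat_lit 214) (nat_lit 5) (nat_lit 217) (nat_lit 5) (nat_lit 215) (nat_lit 5) (nat_lit 406) (nat_lit 361) (nat_lit 253))) (XT.nd (nat_lit 78) (nat_lit 0) (nat_lit 0) (XT.lf (nat_lit 0) (nat_lit 12090993114) (nat_lit 152) (nat_lit 15838906159) (nat_lit 228) (nat_lit 13570830741) (nat_lit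 212) (nat_lit 5) (nat_lit 214) (nat_lit 5) (nat_lit 215) (nat_lit 5) (nat_lit 407) (nat_lit 361) (nat_lit 252)) (XT.lf (nat_lit 0) (nat_lit 39836814743) (nat_lit 152) (nat_lit 644652921) (nat_lit 228) (nat_lit 2330985646) (nat_lit 212) (nat_lit 5) (nat_lit 214) (nat_lit 5) (nat_lit 215) (nat_lit 5) (nat_lit 408) (nat_lit 361) (nat_lit 251))))) (XT.nd (nat_lit 312) (nat_lit 456) (nat_lit 0) (XT.nd (nat_lit 156) (nat_lit 152) (nat_lit 0) (XT.nd (nat_lit 78) (nat_lit 152) (nat_lit 0) (XT.lf (nat_lit 0) (nat_lit 9805624818) (nat_lit 152) (nat_lit 18976818232) (nat_lit 76) (nat_lit 15368031418) (nat_lit 210) (nat_lit 5) (nat_lit 212) (nat_lit 5) (nat_lit 211) (nat_lit 5) (nat_lit 409) (nat_lit 361) (nat_lit 250)) (XT.lf (nat_lit 0) (nat_lit 9523568683) (nat_lit 152) (nat_lit 13150634623) (nat_lit 228) (nat_lit 22869109039) (nat_lit 208) (nat_lit 5) (nat_lit 210) (nat_lit 5) (nat_lit 211) (nat_lit 5)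 (nat_lit 410) (nat_lit 361) (nat_lit 249))) (XT.nd (nat_lit 78) (nat_lit 152) (nat_lit 0) (XT.lf (nat_lit 0) (nat_lit 36556855091) (nat_lit 228) (nat_lit 6950666513) (nat_lit 76) (nat_lit 3479738292) (nat_lit 208) (nat_lit 5) (nat_lit 211) (nat_lit 5) (nat_lit 209) (nat_lit 4) (nat_lit 411) (nat_lit 361) (nat_lit 248)) (XT.lf (nat_lit 0) (nat_lit 3141138748) (nat_lit 152) (nat_lit 24408588412) (nat_lit 76) (nat_lit 20921869996) (nat_lit 206) (nat_lit 5) (nat_lit 208) (nat_lit 5) (nat_lit 207) (nat_lit 5) (nat_lit 412) (nat_lit 361) (nat_lit 247)))) (XT.nd (nat_lit 156) (nat_lit 304) (nat_lit 0) (XT.nd (nat_lit 78) (nat_lit 0) (nat_lit 0) (XT.lf (nat_lit 0) (nat_lit 6879718239) (nat_lit 152) (nat_lit 10381474937) (nat_lit 228) (nat_lit 32749385407) (nat_lit 204) (nat_lit 5) (nat_lit 206) (nat_lit 5) (nat_lit 207) (nat_lit 5) (nat_lit 413) (nat_lit 361) (nat_lit 246)) (XT.lf (nat_lit 0) (nat_lit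 32620217378) (nat_lit 228) (nat_lit 11164144947) (nat_lit 76) (nat_lit 7815498403) (nat_lit 204) (nat_lit 5) (nat_lit 207) (nat_lit 5) (nat_lit 205) (nat_lit 4) (nat_lit 414) (nat_lit 361) (nat_lit 245))) (XT.nd (nat_lit 78) (nat_lit 228) (nat_lit 0) (XT.lf (nat_lit 0) (nat_lit 22953943545) (nat_lit 76) (nat_lit 26315580723) (nat_lit 152) (nat_lit 3972966138) (nat_lit 203) (nat_lit 5) (nat_lit 204) (nat_lit 5) (nat_lit 205) (nat_lit 4) (nat_lit 415) (nat_lit 361) (nat_lit 244)) (XT.lf (nat_lit 0) (nat_lit 4141747729) (nat_lit 152) (nat_lit 7515756939) (nat_lit 228) (nat_lit 43288016664) (nat_lit 200) (nat_lit 5) (nat_lit 202) (nat_lit 5) (nat_lit 203) (nat_lit 5) (nat_lit 416) (nat_lit 361) (nat_lit 243)))))))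
noncomputable def xc194 : XT := (XT.nd (nat_lit 1248) (nat_lit 1216) (nat_lit 0) (XT.nd (nat_lit 624) (nat_lit 608) (nat_lit 0) (XT.nd (nat_lit 312) (nat_lit 380) (nat_lit 0) (XT.nd (nat_lit 156) (nat_lit 228) (nat_lit 0) (XT.nd (nat_lit 78) (nat_lit 76) (nat_lit 0) (XT.lf (nat_lit 0) (nat_lit 28642020764) (nat_lit 228) (nat_lit 15638844220) (nat_lit 76) (nat_lit 12414280318) (nat_lit 200) (nat_lit 5) (nat_lit 203) (nat_lit 5) (nat_lit 201) (nat_lit 4) (nat_lit 417) (nat_lit 361) (nat_lit 242)) (XT.lf (nat_lit 0) (nat_lit 21849486770) (nat_lit 76) (nat_lit 25084738099) (nat_lit 152) (nat_lit 11575102490) (nat_lit 199) (nat_lit 5) (nat_lit 200) (nat_lit 5) (nat_lit 201) (nat_lit 4) (nat_lit 418) (nat_lit 361) (nat_lit 241))) (XT.nd (nat_lit 78) (nat_lit 0) (nat_lit 0) (XT.lf (nat_lit 0) (nat_lit 1290790671) (nat_lit 152) (nat_lit 4536220501) (nat_lit 228) (nat_lit 54568562534) (nat_lit 196) (nat_lit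 5) (nat_lit 198) (nat_lit 5) (nat_lit 199) (nat_lit 5) (nat_lit 419) (nat_lit 361) (nat_lit 240)) (XT.lf (nat_lit 0) (nat_lit 24601469308) (nat_lit 228) (nat_lit 20410365561) (nat_lit 76) (nat_lit 17310247808) (nat_lit 196) (nat_lit 5) (nat_lit 199) (nat_lit 5) (nat_lit 197) (nat_lit 4) (nat_lit 420) (nat_lit 361) (nat_lit 239)))) (XT.nd (nat_lit 156) (nat_lit 304) (nat_lit 0) (XT.nd (nat_lit 78) (nat_lit 0) (nat_lit 0) (XT.lf (nat_lit 0) (nat_lit 20799646467) (nat_lit 76) (nat_lit 23908556792) (nat_lit 152) (nat_lit 19617036190) (nat_lit 195) (nat_lit 5) (nat_lit 196) (nat_lit 5) (nat_lit 197) (nat_lit 4) (nat_lit 421) (nat_lit 361) (nat_lit 238)) (XT.lf (nat_lit 0) (nat_lit 64768449311) (nat_lit 76) (nat_lit 1392035276) (nat_lit 152) (nat_lit 251058939) (nat_lit 195) (nat_lit 5) (nat_lit 196) (nat_lit 5) (nat_lit 197) (nat_lit 4) (nat_lit 422) (nat_lit 361) (nat_lit 237))) (XT.nd (nat_lit 78)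 (nat_lit 76) (nat_lit 0) (XT.lf (nat_lit 0) (nat_lit 20476298922) (nat_lit 228) (nat_lit 25517415033) (nat_lit 76) (nat_lit 22540977580) (nat_lit 192) (nat_lit 5) (nat_lit 195) (nat_lit 5) (nat_lit 193) (nat_lit 4) (nat_lit 423) (nat_lit 361) (nat_lit 236)) (XT.lf (nat_lit 0) (nat_lit 19801463126) (nat_lit 76) (nat_lit 22785134249) (nat_lit 152) (nat_lit 28159443288) (nat_lit 191) (nat_lit 5) (nat_lit 192) (nat_lit 5) (nat_lit 193) (nat_lit 4) (nat_lit 424) (nat_lit 361) (nat_lit 235))))) (XT.nd (nat_lit 312) (nat_lit 380) (nat_lit 0) (XT.nd (nat_lit 156) (nat_lit 76) (nat_lit 0) (XT.nd (nat_lit 78) (nat_lit 152) (nat_lit 0) (XT.lf (nat_lit 0) (nat_lit 66261146839) (nat_lit 152) (nat_lit 4816013152) (nat_lit 0) (nat_lit 1967860453) (nat_lit 191) (nat_lit 5) (nat_lit 193) (nat_lit 4) (nat_lit 191) (nat_lit 4) (nat_lit 425) (nat_lit 361) (nat_lit 234)) (XT.lf (nat_lit 0) (nat_lit 16242617276) (nat_lit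 152) (nat_lit 31002169686) (nat_lit 76) (nat_lit 28147768270) (nat_lit 189) (nat_lit 5) (nat_lit 191) (nat_lit 5) (nat_lit 190) (nat_lit 4) (nat_lit 426) (nat_lit 361) (nat_lit 233))) (XT.nd (nat_lit 78) (nat_lit 0) (nat_lit 0) (XT.lf (nat_lit 0) (nat_lit 18852181769) (nat_lit 76) (nat_lit 21712534343) (nat_lit 152) (nat_lit 37268576794) (nat_lit 188) (nat_lit 5) (nat_lit 189) (nat_lit 5) (nat_lit 190) (nat_lit 4) (nat_lit 427) (nat_lit 361) (nat_lit 232)) (XT.lf (nat_lit 0) (nat_lit 66711182467) (nat_lit 152) (nat_lit 8192007527) (nat_lit 0) (nat_lit 5462464341) (nat_lit 188) (nat_lit 5) (nat_lit 190) (nat_lit 4) (nat_lit 188) (nat_lit 4) (nat_lit 428) (nat_lit 361) (nat_lit 231)))) (XT.nd (nat_lit 156) (nat_lit 152) (nat_lit 0) (XT.nd (nat_lit 78) (nat_lit 76) (nat_lit 0) (XT.lf (nat_lit 0) (nat_lit 11874723857) (nat_lit 152) (nat_lit 36910675053) (nat_lit 76) (nat_lit 34175991033) (nat_lit 186)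 (nat_lit 5) (nat_lit 188) (nat_lit 5) (nat_lit 187) (nat_lit 4) (nat_lit 429) (nat_lit 361) (nat_lit 230)) (XT.lf (nat_lit 0) (nat_lit 17949230930) (nat_lit 76) (nat_lit 20688810983) (nat_lit 152) (nat_lit 47016851110) (nat_lit 185) (nat_lit 5) (nat_lit 186) (nat_lit 5) (nat_lit 187) (nat_lit 4) (nat_lit 430) (nat_lit 361) (nat_lit 229))) (XT.nd (nat_lit 78) (nat_lit 152) (nat_lit 0) (XT.lf (nat_lit 0) (nat_lit 67507772913) (nat_lit 152) (nat_lit 11775225350) (nat_lit 0) (nat_lit 9161660644) (nat_lit 185) (nat_lit 5) (nat_lit 187) (nat_lit 4) (nat_lit 185) (nat_lit 4) (nat_lit 431) (nat_lit 361) (nat_lit 228)) (XT.lf (nat_lit 0) (nat_lit 7344908996) (nat_lit 152) (nat_lit 43293278204) (nat_lit 76) (nat_lit 40675484119) (nat_lit 183) (nat_lit 5) (nat_lit 185) (nat_lit 5) (nat_lit 184) (nat_lit 4) (nat_lit 432) (nat_lit 361) (nat_lit 227)))))) (XT.nd (nat_lit 624) (nat_lit 684) (nat_lit 0) (XT.nd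 (nat_lit 312) (nat_lit 228) (nat_lit 0) (XT.nd (nat_lit 156) (nat_lit 228) (nat_lit 0) (XT.nd (nat_lit 78) (nat_lit 0) (nat_lit 0) (XT.lf (nat_lit 0) (nat_lit 17090204643) (nat_lit 76) (nat_lit 19712026706) (nat_lit 152) (nat_lit 57483488906) (nat_lit 182) (nat_lit 5) (nat_lit 183) (nat_lit 5) (nat_lit 184) (nat_lit 4) (nat_lit 433) (nat_lit 361) (nat_lit 226)) (XT.lf (nat_lit 0) (nat_lit 68672410810) (nat_lit 152) (nat_lit 15593794084) (nat_lit 0) (nat_lit 13093167196) (nat_lit 182) (nat_lit 5) (nat_lit 184) (nat_lit 4) (nat_lit 182) (nat_lit 4) (nat_lit 434) (nat_lit 361) (nat_lit 225))) (XT.nd (nat_lit 78) (nat_lit 76) (nat_lit 0) (XT.lf (nat_lit 0) (nat_lit 2623230405) (nat_lit 152) (nat_lit 50205100802) (nat_lit 76) (nat_lit 47700994395) (nat_lit 180) (nat_lit 5) (nat_lit 182) (nat_lit 5) (nat_lit 181) (nat_lit 4) (nat_lit 435) (nat_lit 361) (nat_lit 224)) (XT.lf (nat_lit 0) (nat_lit 16272846928)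 (nat_lit 76) (nat_lit 18780267164) (nat_lit 152) (nat_lit 68755236173) (nat_lit 179) (nat_lit 5) (nat_lit 180) (nat_lit 5) (nat_lit 181) (nat_lit 4) (nat_lit 436) (nat_lit 361) (nat_lit 223)))) (XT.nd (nat_lit 156) (nat_lit 152) (nat_lit 0) (XT.nd (nat_lit 78) (nat_lit 76) (nat_lit 0) (XT.lf (nat_lit 0) (nat_lit 70229410777) (nat_lit 152) (nat_lit 19678347228) (nat_lit 0) (nat_lit 17287322216) (nat_lit 179) (nat_lit 5) (nat_lit 181) (nat_lit 4) (nat_lit 179) (nat_lit 4) (nat_lit 437) (nat_lit 361) (nat_lit 222)) (XT.lf (nat_lit 0) (nat_lit 52950598173) (nat_lit 76) (nat_lit 55344485794) (nat_lit 76) (nat_lit 2399534624) (nat_lit 178) (nat_lit 4) (nat_lit 179) (nat_lit 5) (nat_lit 179) (nat_lit 4) (nat_lit 438) (nat_lit 361) (nat_lit 221))) (XT.nd (nat_lit 78) (nat_lit 0) (nat_lit 0) (XT.lf (nat_lit 0) (nat_lit 15495038366) (nat_lit 76) (nat_lit 17891652282) (nat_lit 152) (nat_lit 80927151887) (nat_lit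 176) (nat_lit 5) (nat_lit 177) (nat_lit 5) (nat_lit 178) (nat_lit 4) (nat_lit 439) (nat_lit 361) (nat_lit 220)) (XT.lf (nat_lit 0) (nat_lit 72206177890) (nat_lit 152) (nat_lit 24062307844) (nat_lit 0) (nat_lit 21777345571) (nat_lit 176) (nat_lit 5) (nat_lit 178) (nat_lit 4) (nat_lit 176) (nat_lit 4) (nat_lit 440) (nat_lit 361) (nat_lit 219))))) (XT.nd (nat_lit 312) (nat_lit 380) (nat_lit 0) (XT.nd (nat_lit 156) (nat_lit 76) (nat_lit 0) (XT.nd (nat_lit 78) (nat_lit 152) (nat_lit 0) (XT.lf (nat_lit 0) (nat_lit 55920947844) (nat_lit 76) (nat_lit 58208265193) (nat_lit 76) (nat_lit 7777077798) (nat_lit 175) (nat_lit 4) (nat_lit 176) (nat_lit 5) (nat_lit 176) (nat_lit 4) (nat_lit 441) (nat_lit 361) (nat_lit 218)) (XT.lf (nat_lit 0) (nat_lit 14754784436) (nat_lit 76) (nat_lit 17044344714) (nat_lit 152) (nat_lit 94103479476) (nat_lit 173) (nat_lit 5) (nat_lit 174) (nat_lit 5) (nat_lit 175) (nat_lit 4)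 (nat_lit 442) (nat_lit 361) (nat_lit 217))) (XT.nd (nat_lit 78) (nat_lit 76) (nat_lit 0) (XT.lf (nat_lit 0) (nat_lit 74633503131) (nat_lit 152) (nat_lit 28782198325) (nat_lit 0) (nat_lit 26599630324) (nat_lit 173) (nat_lit 5) (nat_lit 175) (nat_lit 4) (nat_lit 173) (nat_lit 4) (nat_lit 443) (nat_lit 361) (nat_lit 216)) (XT.lf (nat_lit 0) (nat_lit 59313466091) (nat_lit 76) (nat_lit 61497971619) (nat_lit 76) (nat_lit 13462161286) (nat_lit 172) (nat_lit 4) (nat_lit 173) (nat_lit 5) (nat_lit 173) (nat_lit 4) (nat_lit 444) (nat_lit 361) (nat_lit 215)))) (XT.nd (nat_lit 156) (nat_lit 228) (nat_lit 0) (XT.nd (nat_lit 78) (nat_lit 0) (nat_lit 0) (XT.lf (nat_lit 0) (nat_lit 14050205314) (nat_lit 76) (nat_lit 16236556105) (nat_lit 152) (nat_lit 108398608151) (nat_lit 170) (nat_lit 5) (nat_lit 171) (nat_lit 5) (nat_lit 172) (nat_lit 4) (nat_lit 445) (nat_lit 361) (nat_lit 214)) (XT.lf (nat_lit 0) (nat_lit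 77545888858) (nat_lit 152) (nat_lit 33877979519) (nat_lit 0) (nat_lit 31794066963) (nat_lit 170) (nat_lit 5) (nat_lit 172) (nat_lit 4) (nat_lit 170) (nat_lit 4) (nat_lit 446) (nat_lit 361) (nat_lit 213))) (XT.nd (nat_lit 78) (nat_lit 152) (nat_lit 0) (XT.lf (nat_lit 0) (nat_lit 63165695316) (nat_lit 76) (nat_lit 65251201880) (nat_lit 76) (nat_lit 19497785977) (nat_lit 169) (nat_lit 4) (nat_lit 170) (nat_lit 5) (nat_lit 170) (nat_lit 4) (nat_lit 447) (nat_lit 361) (nat_lit 212)) (XT.nd (nat_lit 78) (nat_lit 0) (nat_lit 0) (XT.lf (nat_lit 0) (nat_lit 13379526915) (nat_lit 76) (nat_lit 15466551582) (nat_lit 152) (nat_lit 123938133000) (nat_lit 167) (nat_lit 5) (nat_lit 168) (nat_lit 5) (nat_lit 169) (nat_lit 4) (nat_lit 448) (nat_lit 361) (nat_lit 211)) (XT.lf (nat_lit 0) (nat_lit 80981907625) (nat_lit 152) (nat_lit 39393422541) (nat_lit 0) (nat_lit 37404403037) (nat_lit 167) (nat_lit 5) (nat_lit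 169) (nat_lit 4) (nat_lit 167) (nat_lit 4) (nat_lit 449) (nat_lit 361) (nat_lit 210))))))))
noncomputable def xc195 : XT := (XT.nd (nat_lit 2496) (nat_lit 684) (nat_lit 0) (XT.nd (nat_lit 1248) (nat_lit 1292) (nat_lit 0) (XT.nd (nat_lit 624) (nat_lit 532) (nat_lit 0) (XT.nd (nat_lit 312) (nat_lit 380) (nat_lit 0) (XT.nd (nat_lit 156) (nat_lit 76) (nat_lit 0) (XT.nd (nat_lit 78) (nat_lit 152) (nat_lit 0) (XT.lf (nat_lit 0) (nat_lit 67519320982) (nat_lit 76) (nat_lit 69509651881) (nat_lit 76) (nat_lit 25930835898) (nat_lit 166) (nat_lit 4) (nat_lit 167) (nat_lit 5) (nat_lit 167) (nat_lit 4) (nat_lit 450) (nat_lit 361) (nat_lit 209)) (XT.lf (nat_lit 0) (nat_lit 12741072982) (nat_lit 76) (nat_lit 14732652828) (nat_lit 152) (nat_lit 140860023770) (nat_lit 164) (nat_lit 5) (nat_lit 165) (nat_lit 5) (nat_lit 166) (nat_lit 4) (nat_lit 451) (nat_lit 361) (nat_lit 208))) (XT.nd (nat_lit 78) (nat_lit 76)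 (nat_lit 0) (XT.lf (nat_lit 0) (nat_lit 84984597947) (nat_lit 152) (nat_lit 45376516914) (nat_lit 0) (nat_lit 43478641373) (nat_lit 164) (nat_lit 5) (nat_lit 166) (nat_lit 4) (nat_lit 164) (nat_lit 4) (nat_lit 452) (nat_lit 361) (nat_lit 207)) (XT.lf (nat_lit 0) (nat_lit 72420578319) (nat_lit 76) (nat_lit 74319532747) (nat_lit 76) (nat_lit 32812497285) (nat_lit 163) (nat_lit 4) (nat_lit 164) (nat_lit 5) (nat_lit 164) (nat_lit 4) (nat_lit 453) (nat_lit 361) (nat_lit 206)))) (XT.nd (nat_lit 156) (nat_lit 228) (nat_lit 0) (XT.nd (nat_lit 78) (nat_lit 0) (nat_lit 0) (XT.lf (nat_lit 0) (nat_lit 12133258063) (nat_lit 76) (nat_lit 14033240003) (nat_lit 152) (nat_lit 159315913285) (nat_lit 161) (nat_lit 5) (nat_lit 162) (nat_lit 5) (nat_lit 163) (nat_lit 4) (nat_lit 454) (nat_lit 361) (nat_lit 205)) (XT.lf (nat_lit 0) (nat_lit 89601900945) (nat_lit 152) (nat_lit 51879919009) (nat_lit 0) (nat_lit 50069480415)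 (nat_lit 161) (nat_lit 5) (nat_lit 163) (nat_lit 4) (nat_lit 161) (nat_lit 4) (nat_lit 455) (nat_lit 361) (nat_lit 204))) (XT.nd (nat_lit 78) (nat_lit 152) (nat_lit 0) (XT.lf (nat_lit 0) (nat_lit 77920702247) (nat_lit 76) (nat_lit 79732028444) (nat_lit 76) (nat_lit 40198720311) (nat_lit 160) (nat_lit 4) (nat_lit 161) (nat_lit 5) (nat_lit 161) (nat_lit 4) (nat_lit 456) (nat_lit 361) (nat_lit 203)) (XT.lf (nat_lit 0) (nat_lit 11554581234) (nat_lit 76) (nat_lit 13366752767) (nat_lit 152) (nat_lit 179472517645) (nat_lit 158) (nat_lit 5) (nat_lit 159) (nat_lit 5) (nat_lit 160) (nat_lit 4) (nat_lit 457) (nat_lit 361) (nat_lit 202))))) (XT.nd (nat_lit 312) (nat_lit 304) (nat_lit 0) (XT.nd (nat_lit 156) (nat_lit 152) (nat_lit 0) (XT.nd (nat_lit 78) (nat_lit 76) (nat_lit 0) (XT.lf (nat_lit 0) (nat_lit 94887142174) (nat_lit 152) (nat_lit 58961445092) (nat_lit 0) (nat_lit 57234800697) (nat_lit 158) (nat_lit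 5) (nat_lit 160) (nat_lit 4) (nat_lit 158) (nat_lit 4) (nat_lit 458) (nat_lit 361) (nat_lit 201)) (XT.lf (nat_lit 0) (nat_lit 84076424792) (nat_lit 76) (nat_lit 85803799421) (nat_lit 76) (nat_lit 48150727710) (nat_lit 157) (nat_lit 4) (nat_lit 158) (nat_lit 5) (nat_lit 158) (nat_lit 4) (nat_lit 459) (nat_lit 361) (nat_lit 200))) (XT.nd (nat_lit 78) (nat_lit 0) (nat_lit 0) (XT.lf (nat_lit 0) (nat_lit 11003620480) (nat_lit 76) (nat_lit 12731690569) (nat_lit 152) (nat_lit 201513201590) (nat_lit 155) (nat_lit 5) (nat_lit 156) (nat_lit 5) (nat_lit 157) (nat_lit 4) (nat_lit 460) (nat_lit 361) (nat_lit 199)) (XT.lf (nat_lit 0) (nat_lit 100899563345) (nat_lit 152) (nat_lit 66684613743) (nat_lit 0) (nat_lit 65038201902) (nat_lit 155) (nat_lit 5) (nat_lit 157) (nat_lit 4) (nat_lit 155) (nat_lit 4) (nat_lit 461) (nat_lit 361) (nat_lit 198)))) (XT.nd (nat_lit 156) (nat_lit 76) (nat_lit 0) (XT.nd (nat_lit 78)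 (nat_lit 152) (nat_lit 0) (XT.lf (nat_lit 0) (nat_lit 90950524657) (nat_lit 76) (nat_lit 92597537263) (nat_lit 76) (nat_lit 56735575055) (nat_lit 154) (nat_lit 4) (nat_lit 155) (nat_lit 5) (nat_lit 155) (nat_lit 4) (nat_lit 462) (nat_lit 361) (nat_lit 197)) (XT.lf (nat_lit 0) (nat_lit 10479027613) (nat_lit 76) (nat_lit 12126612375) (nat_lit 152) (nat_lit 225639703852) (nat_lit 152) (nat_lit 5) (nat_lit 153) (nat_lit 5) (nat_lit 154) (nat_lit 4) (nat_lit 463) (nat_lit 361) (nat_lit 196))) (XT.nd (nat_lit 78) (nat_lit 76) (nat_lit 0) (XT.lf (nat_lit 0) (nat_lit 107704909109) (nat_lit 152) (nat_lit 75119242821) (nat_lit 0) (nat_lit 73549595513) (nat_lit 152) (nat_lit 5) (nat_lit 154) (nat_lit 4) (nat_lit 152) (nat_lit 4) (nat_lit 464) (nat_lit 361) (nat_lit 195)) (XT.lf (nat_lit 0) (nat_lit 98612434181) (nat_lit 76) (nat_lit 100182575740) (nat_lit 76) (nat_lit 66026767894) (nat_lit 151) (nat_lit 4)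 (nat_lit 152) (nat_lit 5) (nat_lit 152) (nat_lit 4) (nat_lit 465) (nat_lit 361) (nat_lit 194)))))) (XT.nd (nat_lit 624) (nat_lit 684) (nat_lit 0) (XT.nd (nat_lit 312) (nat_lit 228) (nat_lit 0) (XT.nd (nat_lit 156) (nat_lit 228) (nat_lit 0) (XT.nd (nat_lit 78) (nat_lit 0) (nat_lit 0) (XT.lf (nat_lit 0) (nat_lit 9979523677) (nat_lit 76) (nat_lit 11550135951) (nat_lit 152) (nat_lit 252074038815) (nat_lit 149) (nat_lit 5) (nat_lit 150) (nat_lit 5) (nat_lit 151) (nat_lit 4) (nat_lit 466) (nat_lit 361) (nat_lit 193)) (XT.lf (nat_lit 0) (nat_lit 115376074610) (nat_lit 152) (nat_lit 84342106717) (nat_lit 0) (nat_lit 82845858551) (nat_lit 149) (nat_lit 5) (nat_lit 151) (nat_lit 4) (nat_lit 149) (nat_lit 4) (nat_lit 467) (nat_lit 361) (nat_lit 192))) (XT.nd (nat_lit 78) (nat_lit 152) (nat_lit 0) (XT.lf (nat_lit 0) (nat_lit 107138909441) (nat_lit 76) (nat_lit 108635564228) (nat_lit 76) (nat_lit 76104941548)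 (nat_lit 148) (nat_lit 4) (nat_lit 149) (nat_lit 5) (nat_lit 149) (nat_lit 4) (nat_lit 468) (nat_lit 361) (nat_lit 191)) (XT.lf (nat_lit 0) (nat_lit 9503894756) (nat_lit 76) (nat_lit 11000936801) (nat_lit 152) (nat_lit 281060592539) (nat_lit 146) (nat_lit 5) (nat_lit 147) (nat_lit 5) (nat_lit 148) (nat_lit 4) (nat_lit 469) (nat_lit 361) (nat_lit 190)))) (XT.nd (nat_lit 156) (nat_lit 152) (nat_lit 0) (XT.nd (nat_lit 78) (nat_lit 76) (nat_lit 0) (XT.lf (nat_lit 0) (nat_lit 123993820036) (nat_lit 152) (nat_lit 94437660138) (nat_lit 0) (nat_lit 93011554555) (nat_lit 146) (nat_lit 5) (nat_lit 148) (nat_lit 4) (nat_lit 146) (nat_lit 4) (nat_lit 470) (nat_lit 361) (nat_lit 189)) (XT.lf (nat_lit 0) (nat_lit 116614769862) (nat_lit 76) (nat_lit 118041209974) (nat_lit 76) (nat_lit 87058609964) (nat_lit 145) (nat_lit 4) (nat_lit 146) (nat_lit 5) (nat_lit 146) (nat_lit 4) (nat_lit 471) (nat_lit 361) (nat_lit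 188))) (XT.nd (nat_lit 78) (nat_lit 0) (nat_lit 0) (XT.lf (nat_lit 0) (nat_lit 9050988145) (nat_lit 76) (nat_lit 10477746856) (nat_lit 152) (nat_lit 312868433015) (nat_lit 143) (nat_lit 5) (nat_lit 144) (nat_lit 5) (nat_lit 145) (nat_lit 4) (nat_lit 472) (nat_lit 361) (nat_lit 187)) (XT.lf (nat_lit 0) (nat_lit 133647559083) (nat_lit 152) (nat_lit 105498835370) (nat_lit 0) (nat_lit 104139728573) (nat_lit 143) (nat_lit 5) (nat_lit 145) (nat_lit 4) (nat_lit 143) (nat_lit 4) (nat_lit 473) (nat_lit 361) (nat_lit 186))))) (XT.nd (nat_lit 312) (nat_lit 380) (nat_lit 0) (XT.nd (nat_lit 156) (nat_lit 76) (nat_lit 0) (XT.nd (nat_lit 78) (nat_lit 152) (nat_lit 0) (XT.lf (nat_lit 0) (nat_lit 127133714387) (nat_lit 76) (nat_lit 128493096402) (nat_lit 76) (nat_lit 98984990675) (nat_lit 142) (nat_lit 4) (nat_lit 143) (nat_lit 5) (nat_lit 143) (nat_lit 4) (nat_lit 474) (nat_lit 361) (nat_lit 185)) (XT.lf (nat_lit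 0) (nat_lit 8619708832) (nat_lit 76) (nat_lit 9979352958) (nat_lit 152) (nat_lit 347793856624) (nat_lit 140) (nat_lit 5) (nat_lit 141) (nat_lit 5) (nat_lit 142) (nat_lit 4) (nat_lit 475) (nat_lit 361) (nat_lit 184))) (XT.nd (nat_lit 78) (nat_lit 76) (nat_lit 0) (XT.lf (nat_lit 0) (nat_lit 144436228880) (nat_lit 152) (nat_lit 117627920583) (nat_lit 0) (nat_lit 116332783672) (nat_lit 140) (nat_lit 5) (nat_lit 142) (nat_lit 4) (nat_lit 140) (nat_lit 4) (nat_lit 476) (nat_lit 361) (nat_lit 183)) (XT.lf (nat_lit 0) (nat_lit 138799221969) (nat_lit 76) (nat_lit 140094585302) (nat_lit 76) (nat_lit 111990913672) (nat_lit 139) (nat_lit 4) (nat_lit 140) (nat_lit 5) (nat_lit 140) (nat_lit 4) (nat_lit 477) (nat_lit 361) (nat_lit 182)))) (XT.nd (nat_lit 156) (nat_lit 228) (nat_lit 0) (XT.nd (nat_lit 78) (nat_lit 0) (nat_lit 0) (XT.lf (nat_lit 0) (nat_lit 8209016250) (nat_lit 76) (nat_lit 9504595223) (nat_lit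 152) (nat_lit 386163194975) (nat_lit 137) (nat_lit 5) (nat_lit 138) (nat_lit 5) (nat_lit 139) (nat_lit 4) (nat_lit 478) (nat_lit 361) (nat_lit 181)) (XT.lf (nat_lit 0) (nat_lit 156469249767) (nat_lit 152) (nat_lit 130937527579) (nat_lit 0) (nat_lit 129703447251) (nat_lit 137) (nat_lit 5) (nat_lit 139) (nat_lit 4) (nat_lit 137) (nat_lit 4) (nat_lit 479) (nat_lit 361) (nat_lit 180))) (XT.nd (nat_lit 78) (nat_lit 152) (nat_lit 0) (XT.lf (nat_lit 0) (nat_lit 151725544970) (nat_lit 76) (nat_lit 152959811576) (nat_lit 76) (nat_lit 126193822782) (nat_lit 136) (nat_lit 4) (nat_lit 137) (nat_lit 5) (nat_lit 137) (nat_lit 4) (nat_lit 480) (nat_lit 361) (nat_lit 179)) (XT.lf (nat_lit 0) (nat_lit 7817921282) (nat_lit 76) (nat_lit 9052365295) (nat_lit 152) (nat_lit 428335908835) (nat_lit 134) (nat_lit 5) (nat_lit 135) (nat_lit 5) (nat_lit 136) (nat_lit 4) (nat_lit 481) (nat_lit 361) (nat_lit 178))))))) (XT.nd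 (nat_lit 44226) (nat_lit 0) (nat_lit 10336) (XT.nd (nat_lit 624) (nat_lit 152) (nat_lit 0) (XT.nd (nat_lit 312) (nat_lit 304) (nat_lit 0) (XT.nd (nat_lit 156) (nat_lit 152) (nat_lit 0) (XT.nd (nat_lit 78) (nat_lit 76) (nat_lit 0) (XT.lf (nat_lit 0) (nat_lit 169867584091) (nat_lit 152) (nat_lit 145551658198) (nat_lit 0) (nat_lit 144375836319) (nat_lit 134) (nat_lit 5) (nat_lit 136) (nat_lit 4) (nat_lit 134) (nat_lit 4) (nat_lit 482) (nat_lit 361) (nat_lit 177)) (XT.lf (nat_lit 0) (nat_lit 166038804934) (nat_lit 76) (nat_lit 167214780064) (nat_lit 76) (nat_lit 141722879040) (nat_lit 133) (nat_lit 4) (nat_lit 134) (nat_lit 5) (nat_lit 134) (nat_lit 4) (nat_lit 483) (nat_lit 361) (nat_lit 176))) (XT.nd (nat_lit 78) (nat_lit 0) (nat_lit 0) (XT.lf (nat_lit 0) (nat_lit 7445483469) (nat_lit 76) (nat_lit 8621604553) (nat_lit 152) (nat_lit 474707998564) (nat_lit 131) (nat_lit 5) (nat_lit 132) (nat_lit 5)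 (nat_lit 133) (nat_lit 4) (nat_lit 484) (nat_lit 361) (nat_lit 175)) (XT.lf (nat_lit 0) (nat_lit 184764904183) (nat_lit 152) (nat_lit 161606879523) (nat_lit 0) (nat_lit 160486631821) (nat_lit 131) (nat_lit 5) (nat_lit 133) (nat_lit 4) (nat_lit 131) (nat_lit 4) (nat_lit 485) (nat_lit 361) (nat_lit 174)))) (XT.nd (nat_lit 156) (nat_lit 76) (nat_lit 0) (XT.nd (nat_lit 78) (nat_lit 152) (nat_lit 0) (XT.lf (nat_lit 0) (nat_lit 181878201181) (nat_lit 76) (nat_lit 182998574964) (nat_lit 76) (nat_lit 158720176521) (nat_lit 130) (nat_lit 4) (nat_lit 131) (nat_lit 5) (nat_lit 131) (nat_lit 4) (nat_lit 486) (nat_lit 361) (nat_lit 173)) (XT.lf (nat_lit 0) (nat_lit 7090808422) (nat_lit 76) (nat_lit 8211302280) (nat_lit 152) (nat_lit 525715763522) (nat_lit 128) (nat_lit 5) (nat_lit 129) (nat_lit 5) (nat_lit 130) (nat_lit 4) (nat_lit 487) (nat_lit 361) (nat_lit 172))) (XT.nd (nat_lit 78) (nat_lit 76) (nat_lit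 0) (XT.lf (nat_lit 0) (nat_lit 201308880694) (nat_lit 152) (nat_lit 179253619112) (nat_lit 0) (nat_lit 178186373191) (nat_lit 128) (nat_lit 5) (nat_lit 130) (nat_lit 4) (nat_lit 128) (nat_lit 4) (nat_lit 488) (nat_lit 361) (nat_lit 171)) (XT.lf (nat_lit 0) (nat_lit 199397343749) (nat_lit 76) (nat_lit 200464693396) (nat_lit 76) (nat_lit 177342082167) (nat_lit 127) (nat_lit 4) (nat_lit 128) (nat_lit 5) (nat_lit 128) (nat_lit 4) (nat_lit 489) (nat_lit 361) (nat_lit 170))))) (XT.nd (nat_lit 43290) (nat_lit 0) (nat_lit 12768) (XT.nd (nat_lit 43134) (nat_lit 0) (nat_lit 13528) (XT.nd (nat_lit 78) (nat_lit 0) (nat_lit 0) (XT.lf (nat_lit 0) (nat_lit 6753045395) (nat_lit 76) (nat_lit 7820493829) (nat_lit 152) (nat_lit 581839946209) (nat_lit 125) (nat_lit 5) (nat_lit 126) (nat_lit 5) (nat_lit 127) (nat_lit 4) (nat_lit 490) (nat_lit 361) (nat_lit 169)) (XT.lf (nat_lit 0) (nat_lit 219662603593) (nat_lit 152)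 (nat_lit 198657592563) (nat_lit 0) (nat_lit 197640885403) (nat_lit 125) (nat_lit 5) (nat_lit 127) (nat_lit 4) (nat_lit 125) (nat_lit 4) (nat_lit 491) (nat_lit 361) (nat_lit 168))) (XT.nd (nat_lit 78) (nat_lit 0) (nat_lit 0) (XT.lf (nat_lit 0) (nat_lit 2860157997) (nat_lit 0) (nat_lit 2860157997) (nat_lit 684) (nat_lit 371474305) (nat_lit 303) (nat_lit 5) (nat_lit 303) (nat_lit 3) (nat_lit 312) (nat_lit 3) (nat_lit 362) (nat_lit 362) (nat_lit 296)) (XT.lf (nat_lit 0) (nat_lit 12101566772) (nat_lit 0) (nat_lit 75262168) (nat_lit 684) (nat_lit 288832117) (nat_lit 303) (nat_lit 5) (nat_lit 303) (nat_lit 3) (nat_lit 312) (nat_lit 3) (nat_lit 363) (nat_lit 362) (nat_lit 295)))) (XT.nd (nat_lit 156) (nat_lit 0) (nat_lit 76) (XT.nd (nat_lit 78) (nat_lit 0) (nat_lit 0) (XT.lf (nat_lit 0) (nat_lit 343032613) (nat_lit 760) (nat_lit 6630703611) (nat_lit 836) (nat_lit 5779909598) (nat_lit 293) (nat_lit 5) (nat_lit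 303) (nat_lit 5) (nat_lit 304) (nat_lit 5) (nat_lit 364) (nat_lit 362) (nat_lit 294)) (XT.lf (nat_lit 0) (nat_lit 976356837) (nat_lit 760) (nat_lit 131558886) (nat_lit 836) (nat_lit 11948898708) (nat_lit 293) (nat_lit 5) (nat_lit 303) (nat_lit 5) (nat_lit 304) (nat_lit 5) (nat_lit 365) (nat_lit 362) (nat_lit 293))) (XT.nd (nat_lit 78) (nat_lit 0) (nat_lit 0) (XT.lf (nat_lit 0) (nat_lit 1803231275) (nat_lit 760) (nat_lit 6554521932) (nat_lit 836) (nat_lit 5009294064) (nat_lit 294) (nat_lit 5) (nat_lit 304) (nat_lit 5) (nat_lit 305) (nat_lit 5) (nat_lit 366) (nat_lit 362) (nat_lit 292)) (XT.lf (nat_lit 76) (nat_lit 392961328) (nat_lit 0) (nat_lit 2279628386) (nat_lit 836) (nat_lit 11020145023) (nat_lit 295) (nat_lit 5) (nat_lit 294) (nat_lit 5) (nat_lit 305) (nat_lit 5) (nat_lit 367) (nat_lit 362) (nat_lit 291)))))) (XT.nd (nat_lit 624) (nat_lit 1520) (nat_lit 0) (XT.nd (nat_lit 312) (nat_lit 1064)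 (nat_lit 0) (XT.nd (nat_lit 156) (nat_lit 0) (nat_lit 76) (XT.nd (nat_lit 78) (nat_lit 0) (nat_lit 0) (XT.lf (nat_lit 0) (nat_lit 3737934579) (nat_lit 760) (nat_lit 6197833627) (nat_lit 836) (nat_lit 4091312447) (nat_lit 295) (nat_lit 5) (nat_lit 305) (nat_lit 5) (nat_lit 306) (nat_lit 5) (nat_lit 368) (nat_lit 362) (nat_lit 290)) (XT.lf (nat_lit 76) (nat_lit 1244340313) (nat_lit 0) (nat_lit 3645809503) (nat_lit 836) (nat_lit 9486313893) (nat_lit 296) (nat_lit 5) (nat_lit 295) (nat_lit 5) (nat_lit 306) (nat_lit 5) (nat_lit 369) (nat_lit 362) (nat_lit 289))) (XT.nd (nat_lit 78) (nat_lit 0) (nat_lit 0) (XT.lf (nat_lit 0) (nat_lit 6230578685) (nat_lit 760) (nat_lit 5530423571) (nat_lit 836) (nat_lit 2975783517) (nat_lit 296) (nat_lit 5) (nat_lit 306) (nat_lit 5) (nat_lit 307) (nat_lit 5) (nat_lit 370) (nat_lit 362) (nat_lit 288)) (XT.lf (nat_lit 76) (nat_lit 2452724890) (nat_lit 0) (nat_lit 5262152124)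 (nat_lit 836) (nat_lit 7396404525) (nat_lit 297) (nat_lit 5) (nat_lit 296) (nat_lit 5) (nat_lit 307) (nat_lit 5) (nat_lit 371) (nat_lit 362) (nat_lit 287)))) (XT.nd (nat_lit 156) (nat_lit 456) (nat_lit 0) (XT.nd (nat_lit 78) (nat_lit 760) (nat_lit 0) (XT.lf (nat_lit 0) (nat_lit 9372550461) (nat_lit 760) (nat_lit 4516869046) (nat_lit 76) (nat_lit 1610124578) (nat_lit 297) (nat_lit 5) (nat_lit 307) (nat_lit 5) (nat_lit 298) (nat_lit 5) (nat_lit 372) (nat_lit 362) (nat_lit 286)) (XT.lf (nat_lit 0) (nat_lit 4058224227) (nat_lit 760) (nat_lit 7185063442) (nat_lit 836) (nat_lit 4657423083) (nat_lit 287) (nat_lit 5) (nat_lit 297) (nat_lit 5) (nat_lit 298) (nat_lit 5) (nat_lit 373) (nat_lit 362) (nat_lit 285))) (XT.nd (nat_lit 78) (nat_lit 456) (nat_lit 0) (XT.lf (nat_lit 0) (nat_lit 13201864290) (nat_lit 760) (nat_lit 63408026) (nat_lit 836) (nat_lit 3053777908) (nat_lit 287) (nat_lit 5) (nat_lit 297)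 (nat_lit 5) (nat_lit 298) (nat_lit 5) (nat_lit 374) (nat_lit 362) (nat_lit 284)) (XT.lf (nat_lit 0) (nat_lit 6106948258) (nat_lit 456) (nat_lit 9474648907) (nat_lit 532) (nat_lit 1167047456) (nat_lit 281) (nat_lit 5) (nat_lit 287) (nat_lit 5) (nat_lit 288) (nat_lit 5) (nat_lit 375) (nat_lit 362) (nat_lit 283))))) (XT.nd (nat_lit 312) (nat_lit 684) (nat_lit 0) (XT.nd (nat_lit 156) (nat_lit 380) (nat_lit 0) (XT.nd (nat_lit 78) (nat_lit 380) (nat_lit 0) (XT.lf (nat_lit 0) (nat_lit 825101945) (nat_lit 532) (nat_lit 1328620095) (nat_lit 76) (nat_lit 15043504435) (nat_lit 280) (nat_lit 5) (nat_lit 287) (nat_lit 5) (nat_lit 281) (nat_lit 5) (nat_lit 376) (nat_lit 362) (nat_lit 282)) (XT.lf (nat_lit 0) (nat_lit 3085560249) (nat_lit 456) (nat_lit 9057673258) (nat_lit 76) (nat_lit 5513651225) (nat_lit 275) (nat_lit 5) (nat_lit 281) (nat_lit 5) (nat_lit 276) (nat_lit 5) (nat_lit 377) (nat_lit 362) (nat_lit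 281))) (XT.nd (nat_lit 78) (nat_lit 0) (nat_lit 0) (XT.lf (nat_lit 0) (nat_lit 907380368) (nat_lit 380) (nat_lit 4607819628) (nat_lit 456) (nat_lit 12621517979) (nat_lit 270) (nat_lit 5) (nat_lit 275) (nat_lit 5) (nat_lit 276) (nat_lit 5) (nat_lit 378) (nat_lit 362) (nat_lit 280)) (XT.lf (nat_lit 0) (nat_lit 8258126779) (nat_lit 456) (nat_lit 7019464375) (nat_lit 76) (nat_lit 3353361473) (nat_lit 270) (nat_lit 5) (nat_lit 276) (nat_lit 5) (nat_lit 271) (nat_lit 5) (nat_lit 379) (nat_lit 362) (nat_lit 279)))) (XT.nd (nat_lit 156) (nat_lit 380) (nat_lit 0) (XT.nd (nat_lit 78) (nat_lit 0) (nat_lit 0) (XT.lf (nat_lit 0) (nat_lit 3727884996) (nat_lit 304) (nat_lit 7529106980) (nat_lit 380) (nat_lit 7886967432) (nat_lit 266) (nat_lit 5) (nat_lit 270) (nat_lit 5) (nat_lit 271) (nat_lit 5) (nat_lit 380) (nat_lit 362) (nat_lit 278)) (XT.lf (nat_lit 0) (nat_lit 14521574635) (nat_lit 380) (nat_lit 4449010793)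 (nat_lit 76) (nat_lit 706242390) (nat_lit 266) (nat_lit 5) (nat_lit 271) (nat_lit 5) (nat_lit 267) (nat_lit 5) (nat_lit 381) (nat_lit 362) (nat_lit 277))) (XT.nd (nat_lit 78) (nat_lit 76) (nat_lit 0) (XT.lf (nat_lit 0) (nat_lit 7155604665) (nat_lit 304) (nat_lit 11015094011) (nat_lit 380) (nat_lit 2054575361) (nat_lit 262) (nat_lit 5) (nat_lit 266) (nat_lit 5) (nat_lit 267) (nat_lit 5) (nat_lit 382) (nat_lit 362) (nat_lit 276)) (XT.lf (nat_lit 0) (nat_lit 1225625833) (nat_lit 380) (nat_lit 1339037227) (nat_lit 76) (nat_lit 18232395184) (nat_lit 261) (nat_lit 5) (nat_lit 266) (nat_lit 5) (nat_lit 262) (nat_lit 5) (nat_lit 383) (nat_lit 362) (nat_lit 275))))))))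
noncomputable def xc196 : XT := (XT.nd (nat_lit 1248) (nat_lit 1672) (nat_lit 0) (XT.nd (nat_lit 624) (nat_lit 1216) (nat_lit 0) (XT.nd (nat_lit 312) (nat_lit 608) (nat_lit 0) (XT.nd (nat_lit 156) (nat_lit 228) (nat_lit 0) (XT.nd (nat_lit 78) (nat_lit 304) (nat_lit 0) (XT.lf (nat_lit 0) (nat_lit 4865948582) (nat_lit 380) (nat_lit 10199471241) (nat_lit 76) (nat_lit 6317069826) (nat_lit 257) (nat_lit 5) (nat_lit 262) (nat_lit 5) (nat_lit 258) (nat_lit 5) (nat_lit 384) (nat_lit 362) (nat_lit 274)) (XT.lf (nat_lit 0) (nat_lit 2399876801) (nat_lit 304) (nat_lit 6378304825) (nat_lit 380) (nat_lit 13214516289) (nat_lit 253) (nat_lit 5) (nat_lit 257) (nat_lit 5) (nat_lit 258) (nat_lit 5) (nat_lit 385) (nat_lit 362) (nat_lit 273))) (XT.nd (nat_lit 78) (nat_lit 228) (nat_lit 0) (XT.lf (nat_lit 0) (nat_lit 13092052225) (nat_lit 380) (nat_lit 6703570555) (nat_lit 76) (nat_lit 2827492520) (nat_lit 253) (nat_lit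 5) (nat_lit 258) (nat_lit 5) (nat_lit 254) (nat_lit 5) (nat_lit 386) (nat_lit 362) (nat_lit 272)) (XT.lf (nat_lit 0) (nat_lit 6931797866) (nat_lit 228) (nat_lit 10890827295) (nat_lit 304) (nat_lit 5452377952) (nat_lit 250) (nat_lit 5) (nat_lit 253) (nat_lit 5) (nat_lit 254) (nat_lit 5) (nat_lit 387) (nat_lit 362) (nat_lit 271)))) (XT.nd (nat_lit 156) (nat_lit 228) (nat_lit 0) (XT.nd (nat_lit 78) (nat_lit 380) (nat_lit 0) (XT.lf (nat_lit 0) (nat_lit 21466276735) (nat_lit 228) (nat_lit 1425520444) (nat_lit 304) (nat_lit 1062584616) (nat_lit 250) (nat_lit 5) (nat_lit 253) (nat_lit 5) (nat_lit 254) (nat_lit 5) (nat_lit 388) (nat_lit 362) (nat_lit 270)) (XT.lf (nat_lit 0) (nat_lit 3752396530) (nat_lit 380) (nat_lit 12407001784) (nat_lit 76) (nat_lit 8489601670) (nat_lit 245) (nat_lit 5) (nat_lit 250) (nat_lit 5) (nat_lit 246) (nat_lit 5) (nat_lit 389) (nat_lit 362) (nat_lit 269))) (XT.nd (nat_lit 78)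 (nat_lit 0) (nat_lit 0) (XT.lf (nat_lit 0) (nat_lit 2440105312) (nat_lit 228) (nat_lit 6425749743) (nat_lit 304) (nat_lit 16506951151) (nat_lit 242) (nat_lit 5) (nat_lit 245) (nat_lit 5) (nat_lit 246) (nat_lit 5) (nat_lit 390) (nat_lit 362) (nat_lit 268)) (XT.lf (nat_lit 0) (nat_lit 14497150947) (nat_lit 304) (nat_lit 7740147508) (nat_lit 76) (nat_lit 3882396061) (nat_lit 242) (nat_lit 5) (nat_lit 246) (nat_lit 5) (nat_lit 243) (nat_lit 5) (nat_lit 391) (nat_lit 362) (nat_lit 267))))) (XT.nd (nat_lit 312) (nat_lit 456) (nat_lit 0) (XT.nd (nat_lit 156) (nat_lit 532) (nat_lit 0) (XT.nd (nat_lit 78) (nat_lit 0) (nat_lit 0) (XT.lf (nat_lit 0) (nat_lit 8359513911) (nat_lit 228) (nat_lit 12276217366) (nat_lit 304) (nat_lit 6256909983) (nat_lit 239) (nat_lit 5) (nat_lit 242) (nat_lit 5) (nat_lit 243) (nat_lit 5) (nat_lit 392) (nat_lit 362) (nat_lit 266)) (XT.lf (nat_lit 0) (nat_lit 25518380398) (nat_lit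 228) (nat_lit 1684063717) (nat_lit 304) (nat_lit 495731051) (nat_lit 239) (nat_lit 5) (nat_lit 242) (nat_lit 5) (nat_lit 243) (nat_lit 5) (nat_lit 393) (nat_lit 362) (nat_lit 265))) (XT.nd (nat_lit 78) (nat_lit 228) (nat_lit 0) (XT.lf (nat_lit 0) (nat_lit 5759000092) (nat_lit 304) (nat_lit 13298039157) (nat_lit 76) (nat_lit 9463449220) (nat_lit 235) (nat_lit 5) (nat_lit 239) (nat_lit 5) (nat_lit 236) (nat_lit 5) (nat_lit 394) (nat_lit 362) (nat_lit 264)) (XT.lf (nat_lit 0) (nat_lit 4274594380) (nat_lit 228) (nat_lit 8157684280) (nat_lit 304) (nat_lit 16945108906) (nat_lit 232) (nat_lit 5) (nat_lit 235) (nat_lit 5) (nat_lit 236) (nat_lit 5) (nat_lit 395) (nat_lit 362) (nat_lit 263)))) (XT.nd (nat_lit 156) (nat_lit 304) (nat_lit 0) (XT.nd (nat_lit 78) (nat_lit 152) (nat_lit 0) (XT.lf (nat_lit 0) (nat_lit 19710190628) (nat_lit 304) (nat_lit 7147782134) (nat_lit 76) (nat_lit 3405610382) (nat_lit 232)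 (nat_lit 5) (nat_lit 236) (nat_lit 5) (nat_lit 233) (nat_lit 5) (nat_lit 396) (nat_lit 362) (nat_lit 262)) (XT.lf (nat_lit 0) (nat_lit 11939634713) (nat_lit 152) (nat_lit 15723702557) (nat_lit 228) (nat_lit 3515184277) (nat_lit 230) (nat_lit 5) (nat_lit 232) (nat_lit 5) (nat_lit 233) (nat_lit 5) (nat_lit 397) (nat_lit 362) (nat_lit 261))) (XT.nd (nat_lit 78) (nat_lit 0) (nat_lit 0) (XT.lf (nat_lit 0) (nat_lit 20782951) (nat_lit 228) (nat_lit 3844751834) (nat_lit 304) (nat_lit 28264916031) (nat_lit 226) (nat_lit 5) (nat_lit 229) (nat_lit 5) (nat_lit 230) (nat_lit 5) (nat_lit 398) (nat_lit 362) (nat_lit 260)) (XT.lf (nat_lit 0) (nat_lit 11954414378) (nat_lit 304) (nat_lit 12413942263) (nat_lit 76) (nat_lit 8735875718) (nat_lit 226) (nat_lit 5) (nat_lit 230) (nat_lit 5) (nat_lit 227) (nat_lit 5) (nat_lit 399) (nat_lit 362) (nat_lit 259)))))) (XT.nd (nat_lit 624) (nat_lit 760) (nat_lit 0) (XT.nd (nat_lit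 312) (nat_lit 380) (nat_lit 0) (XT.nd (nat_lit 156) (nat_lit 380) (nat_lit 0) (XT.nd (nat_lit 78) (nat_lit 0) (nat_lit 0) (XT.lf (nat_lit 0) (nat_lit 8461065142) (nat_lit 152) (nat_lit 12173599706) (nat_lit 228) (nat_lit 13482691785) (nat_lit 224) (nat_lit 5) (nat_lit 226) (nat_lit 5) (nat_lit 227) (nat_lit 5) (nat_lit 400) (nat_lit 362) (nat_lit 258)) (XT.lf (nat_lit 0) (nat_lit 29964365432) (nat_lit 228) (nat_lit 4386505262) (nat_lit 76) (nat_lit 819494550) (nat_lit 224) (nat_lit 5) (nat_lit 227) (nat_lit 5) (nat_lit 225) (nat_lit 5) (nat_lit 401) (nat_lit 362) (nat_lit 257))) (XT.nd (nat_lit 78) (nat_lit 152) (nat_lit 0) (XT.lf (nat_lit 0) (nat_lit 3858731664) (nat_lit 228) (nat_lit 17993535681) (nat_lit 76) (nat_lit 14396750200) (nat_lit 221) (nat_lit 5) (nat_lit 224) (nat_lit 5) (nat_lit 222) (nat_lit 5) (nat_lit 402) (nat_lit 362) (nat_lit 256)) (XT.lf (nat_lit 0) (nat_lit 4860162912) (nat_lit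 152) (nat_lit 8485305317) (nat_lit 228) (nat_lit 24024680809) (nat_lit 219) (nat_lit 5) (nat_lit 221) (nat_lit 5) (nat_lit 222) (nat_lit 5) (nat_lit 403) (nat_lit 362) (nat_lit 255)))) (XT.nd (nat_lit 156) (nat_lit 228) (nat_lit 0) (XT.nd (nat_lit 78) (nat_lit 152) (nat_lit 0) (XT.lf (nat_lit 0) (nat_lit 23695344208) (nat_lit 228) (nat_lit 9155394955) (nat_lit 76) (nat_lit 5677157812) (nat_lit 219) (nat_lit 5) (nat_lit 222) (nat_lit 5) (nat_lit 220) (nat_lit 5) (nat_lit 404) (nat_lit 362) (nat_lit 254)) (XT.lf (nat_lit 0) (nat_lit 15718641890) (nat_lit 152) (nat_lit 19221374809) (nat_lit 228) (nat_lit 4784650474) (nat_lit 217) (nat_lit 5) (nat_lit 219) (nat_lit 5) (nat_lit 220) (nat_lit 5) (nat_lit 405) (nat_lit 362) (nat_lit 253))) (XT.nd (nat_lit 78) (nat_lit 0) (nat_lit 0) (XT.lf (nat_lit 0) (nat_lit 1111409788) (nat_lit 152) (nat_lit 4637472019) (nat_lit 228) (nat_lit 35219504601) (nat_lit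 214) (nat_lit 5) (nat_lit 216) (nat_lit 5) (nat_lit 217) (nat_lit 5) (nat_lit 406) (nat_lit 362) (nat_lit 252)) (XT.lf (nat_lit 0) (nat_lit 17221089368) (nat_lit 228) (nat_lit 14199977777) (nat_lit 76) (nat_lit 10820662899) (nat_lit 214) (nat_lit 5) (nat_lit 217) (nat_lit 5) (nat_lit 215) (nat_lit 5) (nat_lit 407) (nat_lit 362) (nat_lit 251))))) (XT.nd (nat_lit 312) (nat_lit 304) (nat_lit 0) (XT.nd (nat_lit 156) (nat_lit 304) (nat_lit 0) (XT.nd (nat_lit 78) (nat_lit 0) (nat_lit 0) (XT.lf (nat_lit 0) (nat_lit 13070383325) (nat_lit 152) (nat_lit 16469850940) (nat_lit 228) (nat_lit 14024840250) (nat_lit 212) (nat_lit 5) (nat_lit 214) (nat_lit 5) (nat_lit 215) (nat_lit 5) (nat_lit 408) (nat_lit 362) (nat_lit 250)) (XT.lf (nat_lit 0) (nat_lit 42185646485) (nat_lit 152) (nat_lit 523551731) (nat_lit 228) (nat_lit 2233694901) (nat_lit 212) (nat_lit 5) (nat_lit 214) (nat_lit 5) (nat_lit 215) (nat_lit 5)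 (nat_lit 409) (nat_lit 362) (nat_lit 249))) (XT.nd (nat_lit 78) (nat_lit 152) (nat_lit 0) (XT.lf (nat_lit 0) (nat_lit 10501057512) (nat_lit 152) (nat_lit 19559979564) (nat_lit 76) (nat_lit 16286703543) (nat_lit 210) (nat_lit 5) (nat_lit 212) (nat_lit 5) (nat_lit 211) (nat_lit 5) (nat_lit 410) (nat_lit 362) (nat_lit 248)) (XT.lf (nat_lit 0) (nat_lit 10359528639) (nat_lit 152) (nat_lit 13649384366) (nat_lit 228) (nat_lit 23801514980) (nat_lit 208) (nat_lit 5) (nat_lit 210) (nat_lit 5) (nat_lit 211) (nat_lit 5) (nat_lit 411) (nat_lit 362) (nat_lit 247)))) (XT.nd (nat_lit 156) (nat_lit 152) (nat_lit 0) (XT.nd (nat_lit 78) (nat_lit 152) (nat_lit 0) (XT.lf (nat_lit 0) (nat_lit 38578486956) (nat_lit 228) (nat_lit 6948340346) (nat_lit 76) (nat_lit 3800106133) (nat_lit 208) (nat_lit 5) (nat_lit 211) (nat_lit 5) (nat_lit 209) (nat_lit 4) (nat_lit 412) (nat_lit 362) (nat_lit 246)) (XT.lf (nat_lit 0) (nat_lit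 3491244621) (nat_lit 152) (nat_lit 25278418167) (nat_lit 76) (nat_lit 22115861780) (nat_lit 206) (nat_lit 5) (nat_lit 208) (nat_lit 5) (nat_lit 207) (nat_lit 5) (nat_lit 413) (nat_lit 362) (nat_lit 245))) (XT.nd (nat_lit 78) (nat_lit 0) (nat_lit 0) (XT.lf (nat_lit 0) (nat_lit 7568648984) (nat_lit 152) (nat_lit 10744845536) (nat_lit 228) (nat_lit 34188150908) (nat_lit 204) (nat_lit 5) (nat_lit 206) (nat_lit 5) (nat_lit 207) (nat_lit 5) (nat_lit 414) (nat_lit 362) (nat_lit 244)) (XT.lf (nat_lit 0) (nat_lit 34433773625) (nat_lit 228) (nat_lit 11387137000) (nat_lit 76) (nat_lit 8349815871) (nat_lit 204) (nat_lit 5) (nat_lit 207) (nat_lit 5) (nat_lit 205) (nat_lit 4) (nat_lit 415) (nat_lit 362) (nat_lit 243)))))))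
noncomputable def xc197 : XT := (XT.nd (nat_lit 1248) (nat_lit 1216) (nat_lit 0) (XT.nd (nat_lit 624) (nat_lit 760) (nat_lit 0) (XT.nd (nat_lit 312) (nat_lit 304) (nat_lit 0) (XT.nd (nat_lit 156) (nat_lit 76) (nat_lit 0) (XT.nd (nat_lit 78) (nat_lit 228) (nat_lit 0) (XT.lf (nat_lit 0) (nat_lit 24431449221) (nat_lit 76) (nat_lit 27480553237) (nat_lit 152) (nat_lit 3983662370) (nat_lit 203) (nat_lit 5) (nat_lit 204) (nat_lit 5) (nat_lit 205) (nat_lit 4) (nat_lit 416) (nat_lit 362) (nat_lit 242)) (XT.lf (nat_lit 0) (nat_lit 4679242736) (nat_lit 152) (nat_lit 7739568550) (nat_lit 228) (nat_lit 45265064543) (nat_lit 200) (nat_lit 5) (nat_lit 202) (nat_lit 5) (nat_lit 203) (nat_lit 5) (nat_lit 417) (nat_lit 362) (nat_lit 241))) (XT.nd (nat_lit 78) (nat_lit 76) (nat_lit 0) (XT.lf (nat_lit 0) (nat_lit 30246316239) (nat_lit 228) (nat_lit 16099875560) (nat_lit 76) (nat_lit 13175101046) (nat_lit 200) (nat_lit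 5) (nat_lit 203) (nat_lit 5) (nat_lit 201) (nat_lit 4) (nat_lit 418) (nat_lit 362) (nat_lit 240)) (XT.lf (nat_lit 0) (nat_lit 23257695998) (nat_lit 76) (nat_lit 26192164323) (nat_lit 152) (nat_lit 11976487196) (nat_lit 199) (nat_lit 5) (nat_lit 200) (nat_lit 5) (nat_lit 201) (nat_lit 4) (nat_lit 419) (nat_lit 362) (nat_lit 239)))) (XT.nd (nat_lit 156) (nat_lit 76) (nat_lit 0) (XT.nd (nat_lit 78) (nat_lit 0) (nat_lit 0) (XT.lf (nat_lit 0) (nat_lit 1671557993) (nat_lit 152) (nat_lit 4615258519) (nat_lit 228) (nat_lit 57120113141) (nat_lit 196) (nat_lit 5) (nat_lit 198) (nat_lit 5) (nat_lit 199) (nat_lit 5) (nat_lit 420) (nat_lit 362) (nat_lit 238)) (XT.lf (nat_lit 0) (nat_lit 25994173184) (nat_lit 228) (nat_lit 21123890147) (nat_lit 76) (nat_lit 18311991958) (nat_lit 196) (nat_lit 5) (nat_lit 199) (nat_lit 5) (nat_lit 197) (nat_lit 4) (nat_lit 421) (nat_lit 362) (nat_lit 237))) (XT.nd (nat_lit 78)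 (nat_lit 0) (nat_lit 0) (XT.lf (nat_lit 0) (nat_lit 22141670971) (nat_lit 76) (nat_lit 24961544282) (nat_lit 152) (nat_lit 20430306077) (nat_lit 195) (nat_lit 5) (nat_lit 196) (nat_lit 5) (nat_lit 197) (nat_lit 4) (nat_lit 422) (nat_lit 362) (nat_lit 236)) (XT.lf (nat_lit 0) (nat_lit 68294530996) (nat_lit 76) (nat_lit 1325979564) (nat_lit 152) (nat_lit 104010055) (nat_lit 195) (nat_lit 5) (nat_lit 196) (nat_lit 5) (nat_lit 197) (nat_lit 4) (nat_lit 423) (nat_lit 362) (nat_lit 235))))) (XT.nd (nat_lit 312) (nat_lit 304) (nat_lit 0) (XT.nd (nat_lit 156) (nat_lit 152) (nat_lit 0) (XT.nd (nat_lit 78) (nat_lit 76) (nat_lit 0) (XT.lf (nat_lit 0) (nat_lit 21653877568) (nat_lit 228) (nat_lit 26499788435) (nat_lit 76) (nat_lit 23800071924) (nat_lit 192) (nat_lit 5) (nat_lit 195) (nat_lit 5) (nat_lit 193) (nat_lit 4) (nat_lit 424) (nat_lit 362) (nat_lit 234)) (XT.lf (nat_lit 0) (nat_lit 21080299804) (nat_lit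 76) (nat_lit 23786577467) (nat_lit 152) (nat_lit 29408917924) (nat_lit 191) (nat_lit 5) (nat_lit 192) (nat_lit 5) (nat_lit 193) (nat_lit 4) (nat_lit 425) (nat_lit 362) (nat_lit 233))) (XT.nd (nat_lit 78) (nat_lit 152) (nat_lit 0) (XT.lf (nat_lit 0) (nat_lit 69720015307) (nat_lit 152) (nat_lit 4776662030) (nat_lit 0) (nat_lit 2193303573) (nat_lit 191) (nat_lit 5) (nat_lit 193) (nat_lit 4) (nat_lit 191) (nat_lit 4) (nat_lit 426) (nat_lit 362) (nat_lit 232)) (XT.lf (nat_lit 0) (nat_lit 17200266353) (nat_lit 152) (nat_lit 32271833479) (nat_lit 76) (nat_lit 29682807251) (nat_lit 189) (nat_lit 5) (nat_lit 191) (nat_lit 5) (nat_lit 190) (nat_lit 4) (nat_lit 427) (nat_lit 362) (nat_lit 231)))) (XT.nd (nat_lit 156) (nat_lit 228) (nat_lit 0) (XT.nd (nat_lit 78) (nat_lit 0) (nat_lit 0) (XT.lf (nat_lit 0) (nat_lit 20070712247) (nat_lit 76) (nat_lit 22665136351) (nat_lit 152) (nat_lit 38981964119) (nat_lit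 188) (nat_lit 5) (nat_lit 189) (nat_lit 5) (nat_lit 190) (nat_lit 4) (nat_lit 428) (nat_lit 362) (nat_lit 230)) (XT.lf (nat_lit 0) (nat_lit 70184811657) (nat_lit 152) (nat_lit 8333999012) (nat_lit 0) (nat_lit 5858222880) (nat_lit 188) (nat_lit 5) (nat_lit 190) (nat_lit 4) (nat_lit 188) (nat_lit 4) (nat_lit 429) (nat_lit 362) (nat_lit 229))) (XT.nd (nat_lit 78) (nat_lit 76) (nat_lit 0) (XT.lf (nat_lit 0) (nat_lit 12606289136) (nat_lit 152) (nat_lit 38488358935) (nat_lit 76) (nat_lit 36007919914) (nat_lit 186) (nat_lit 5) (nat_lit 188) (nat_lit 5) (nat_lit 187) (nat_lit 4) (nat_lit 430) (nat_lit 362) (nat_lit 228)) (XT.lf (nat_lit 0) (nat_lit 19110222188) (nat_lit 76) (nat_lit 21595102055) (nat_lit 152) (nat_lit 49225544420) (nat_lit 185) (nat_lit 5) (nat_lit 186) (nat_lit 5) (nat_lit 187) (nat_lit 4) (nat_lit 431) (nat_lit 362) (nat_lit 227)))))) (XT.nd (nat_lit 624) (nat_lit 684) (nat_lit 0) (XT.nd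 (nat_lit 312) (nat_lit 304) (nat_lit 0) (XT.nd (nat_lit 156) (nat_lit 76) (nat_lit 0) (XT.nd (nat_lit 78) (nat_lit 152) (nat_lit 0) (XT.lf (nat_lit 0) (nat_lit 71014000612) (nat_lit 152) (nat_lit 12108464760) (nat_lit 0) (nat_lit 9737884527) (nat_lit 185) (nat_lit 5) (nat_lit 187) (nat_lit 4) (nat_lit 185) (nat_lit 4) (nat_lit 432) (nat_lit 362) (nat_lit 226)) (XT.lf (nat_lit 0) (nat_lit 7842795245) (nat_lit 152) (nat_lit 45202222001) (nat_lit 76) (nat_lit 42827805598) (nat_lit 183) (nat_lit 5) (nat_lit 185) (nat_lit 5) (nat_lit 184) (nat_lit 4) (nat_lit 433) (nat_lit 362) (nat_lit 225))) (XT.nd (nat_lit 78) (nat_lit 0) (nat_lit 0) (XT.lf (nat_lit 0) (nat_lit 18196310470) (nat_lit 76) (nat_lit 20574380368) (nat_lit 152) (nat_lit 60222898034) (nat_lit 182) (nat_lit 5) (nat_lit 183) (nat_lit 5) (nat_lit 184) (nat_lit 4) (nat_lit 434) (nat_lit 362) (nat_lit 224)) (XT.lf (nat_lit 0) (nat_lit 72230100077)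 (nat_lit 152) (nat_lit 16129589742) (nat_lit 0) (nat_lit 13861447439) (nat_lit 182) (nat_lit 5) (nat_lit 184) (nat_lit 4) (nat_lit 182) (nat_lit 4) (nat_lit 435) (nat_lit 362) (nat_lit 223)))) (XT.nd (nat_lit 156) (nat_lit 76) (nat_lit 0) (XT.nd (nat_lit 78) (nat_lit 76) (nat_lit 0) (XT.lf (nat_lit 0) (nat_lit 2878297547) (nat_lit 152) (nat_lit 52471298692) (nat_lit 76) (nat_lit 50200000362) (nat_lit 180) (nat_lit 5) (nat_lit 182) (nat_lit 5) (nat_lit 181) (nat_lit 4) (nat_lit 436) (nat_lit 362) (nat_lit 222)) (XT.lf (nat_lit 0) (nat_lit 17326610020) (nat_lit 76) (nat_lit 19600914089) (nat_lit 152) (nat_lit 72065155955) (nat_lit 179) (nat_lit 5) (nat_lit 180) (nat_lit 5) (nat_lit 181) (nat_lit 4) (nat_lit 437) (nat_lit 362) (nat_lit 221))) (XT.nd (nat_lit 78) (nat_lit 76) (nat_lit 0) (XT.lf (nat_lit 0) (nat_lit 73858597833) (nat_lit 152) (nat_lit 20429540371) (nat_lit 0) (nat_lit 18260810202) (nat_lit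 179) (nat_lit 5) (nat_lit 181) (nat_lit 4) (nat_lit 179) (nat_lit 4) (nat_lit 438) (nat_lit 362) (nat_lit 220)) (XT.lf (nat_lit 0) (nat_lit 55827098684) (nat_lit 76) (nat_lit 57998425324) (nat_lit 76) (nat_lit 2398041221) (nat_lit 178) (nat_lit 4) (nat_lit 179) (nat_lit 5) (nat_lit 179) (nat_lit 4) (nat_lit 439) (nat_lit 362) (nat_lit 219))))) (XT.nd (nat_lit 312) (nat_lit 304) (nat_lit 0) (XT.nd (nat_lit 156) (nat_lit 228) (nat_lit 0) (XT.nd (nat_lit 78) (nat_lit 0) (nat_lit 0) (XT.lf (nat_lit 0) (nat_lit 16498892909) (nat_lit 76) (nat_lit 18672692379) (nat_lit 152) (nat_lit 84852171369) (nat_lit 176) (nat_lit 5) (nat_lit 177) (nat_lit 5) (nat_lit 178) (nat_lit 4) (nat_lit 440) (nat_lit 362) (nat_lit 218)) (XT.lf (nat_lit 0) (nat_lit 75928232331) (nat_lit 152) (nat_lit 25043415700) (nat_lit 0) (nat_lit 22970887561) (nat_lit 176) (nat_lit 5) (nat_lit 178) (nat_lit 4) (nat_lit 176) (nat_lit 4) (nat_lit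 441) (nat_lit 362) (nat_lit 217))) (XT.nd (nat_lit 78) (nat_lit 152) (nat_lit 0) (XT.lf (nat_lit 0) (nat_lit 58935422005) (nat_lit 76) (nat_lit 61010086267) (nat_lit 76) (nat_lit 8050605375) (nat_lit 175) (nat_lit 4) (nat_lit 176) (nat_lit 5) (nat_lit 176) (nat_lit 4) (nat_lit 442) (nat_lit 362) (nat_lit 216)) (XT.lf (nat_lit 0) (nat_lit 15711059042) (nat_lit 76) (nat_lit 17787757707) (nat_lit 152) (nat_lit 98693435752) (nat_lit 173) (nat_lit 5) (nat_lit 174) (nat_lit 5) (nat_lit 175) (nat_lit 4) (nat_lit 443) (nat_lit 362) (nat_lit 215)))) (XT.nd (nat_lit 156) (nat_lit 228) (nat_lit 0) (XT.nd (nat_lit 78) (nat_lit 76) (nat_lit 0) (XT.lf (nat_lit 0) (nat_lit 78471301983) (nat_lit 152) (nat_lit 30009571858) (nat_lit 0) (nat_lit 28029918343) (nat_lit 173) (nat_lit 5) (nat_lit 175) (nat_lit 4) (nat_lit 173) (nat_lit 4) (nat_lit 444) (nat_lit 362) (nat_lit 214)) (XT.lf (nat_lit 0) (nat_lit 62487460676)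 (nat_lit 76) (nat_lit 64468871585) (nat_lit 76) (nat_lit 14025730551) (nat_lit 172) (nat_lit 4) (nat_lit 173) (nat_lit 5) (nat_lit 173) (nat_lit 4) (nat_lit 445) (nat_lit 362) (nat_lit 213))) (XT.nd (nat_lit 78) (nat_lit 76) (nat_lit 0) (XT.lf (nat_lit 0) (nat_lit 14961126218) (nat_lit 76) (nat_lit 16944210835) (nat_lit 152) (nat_lit 113709089118) (nat_lit 170) (nat_lit 5) (nat_lit 171) (nat_lit 5) (nat_lit 172) (nat_lit 4) (nat_lit 446) (nat_lit 362) (nat_lit 212)) (XT.nd (nat_lit 78) (nat_lit 76) (nat_lit 0) (XT.lf (nat_lit 0) (nat_lit 81524006154) (nat_lit 152) (nat_lit 35369977465) (nat_lit 0) (nat_lit 33479807345) (nat_lit 170) (nat_lit 5) (nat_lit 172) (nat_lit 4) (nat_lit 170) (nat_lit 4) (nat_lit 447) (nat_lit 362) (nat_lit 211)) (XT.lf (nat_lit 0) (nat_lit 66522624644) (nat_lit 76) (nat_lit 68414240575) (nat_lit 76) (nat_lit 20368595954) (nat_lit 169) (nat_lit 4) (nat_lit 170) (nat_lit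 5) (nat_lit 170) (nat_lit 4) (nat_lit 448) (nat_lit 362) (nat_lit 210))))))))
noncomputable def xc198 : XT := (XT.nd (nat_lit 2496) (nat_lit 912) (nat_lit 0) (XT.nd (nat_lit 1248) (nat_lit 1140) (nat_lit 0) (XT.nd (nat_lit 624) (nat_lit 684) (nat_lit 0) (XT.nd (nat_lit 312) (nat_lit 228) (nat_lit 0) (XT.nd (nat_lit 156) (nat_lit 228) (nat_lit 0) (XT.nd (nat_lit 78) (nat_lit 0) (nat_lit 0) (XT.lf (nat_lit 0) (nat_lit 14247221338) (nat_lit 76) (nat_lit 16140214234) (nat_lit 152) (nat_lit 130031033843) (nat_lit 167) (nat_lit 5) (nat_lit 168) (nat_lit 5) (nat_lit 169) (nat_lit 4) (nat_lit 449) (nat_lit 362) (nat_lit 209)) (XT.lf (nat_lit 0) (nat_lit 85126821291) (nat_lit 152) (nat_lit 41170603491) (nat_lit 0) (nat_lit 39366504167) (nat_lit 167) (nat_lit 5) (nat_lit 169) (nat_lit 4) (nat_lit 167) (nat_lit 4) (nat_lit 450) (nat_lit 362) (nat_lit 208))) (XT.nd (nat_lit 78) (nat_lit 152) (nat_lit 0) (XT.lf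 (nat_lit 0) (nat_lit 71084672528) (nat_lit 76) (nat_lit 72889961325) (nat_lit 76) (nat_lit 27128454728) (nat_lit 166) (nat_lit 4) (nat_lit 167) (nat_lit 5) (nat_lit 167) (nat_lit 4) (nat_lit 451) (nat_lit 362) (nat_lit 207)) (XT.lf (nat_lit 0) (nat_lit 13567572609) (nat_lit 76) (nat_lit 15373994238) (nat_lit 152) (nat_lit 147804162475) (nat_lit 164) (nat_lit 5) (nat_lit 165) (nat_lit 5) (nat_lit 166) (nat_lit 4) (nat_lit 452) (nat_lit 362) (nat_lit 206)))) (XT.nd (nat_lit 156) (nat_lit 152) (nat_lit 0) (XT.nd (nat_lit 78) (nat_lit 76) (nat_lit 0) (XT.lf (nat_lit 0) (nat_lit 89324915948) (nat_lit 152) (nat_lit 47461851377) (nat_lit 0) (nat_lit 45740422315) (nat_lit 164) (nat_lit 5) (nat_lit 166) (nat_lit 4) (nat_lit 164) (nat_lit 4) (nat_lit 453) (nat_lit 362) (nat_lit 205)) (XT.lf (nat_lit 0) (nat_lit 76222139079) (nat_lit 76) (nat_lit 77944546724) (nat_lit 76) (nat_lit 34359074507) (nat_lit 163)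 (nat_lit 4) (nat_lit 164) (nat_lit 5) (nat_lit 164) (nat_lit 4) (nat_lit 454) (nat_lit 362) (nat_lit 204))) (XT.nd (nat_lit 78) (nat_lit 0) (nat_lit 0) (XT.lf (nat_lit 0) (nat_lit 12920502568) (nat_lit 76) (nat_lit 14643842196) (nat_lit 152) (nat_lit 167187711065) (nat_lit 161) (nat_lit 5) (nat_lit 162) (nat_lit 5) (nat_lit 163) (nat_lit 4) (nat_lit 455) (nat_lit 362) (nat_lit 203)) (XT.lf (nat_lit 0) (nat_lit 94168608843) (nat_lit 152) (nat_lit 54299023537) (nat_lit 0) (nat_lit 52656902364) (nat_lit 161) (nat_lit 5) (nat_lit 163) (nat_lit 4) (nat_lit 161) (nat_lit 4) (nat_lit 456) (nat_lit 362) (nat_lit 202))))) (XT.nd (nat_lit 312) (nat_lit 380) (nat_lit 0) (XT.nd (nat_lit 156) (nat_lit 76) (nat_lit 0) (XT.nd (nat_lit 78) (nat_lit 152) (nat_lit 0) (XT.lf (nat_lit 0) (nat_lit 81988807952) (nat_lit 76) (nat_lit 83631734207) (nat_lit 76) (nat_lit 42119222646) (nat_lit 160) (nat_lit 4) (nat_lit 161)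 (nat_lit 5) (nat_lit 161) (nat_lit 4) (nat_lit 457) (nat_lit 362) (nat_lit 201)) (XT.lf (nat_lit 0) (nat_lit 12304421824) (nat_lit 76) (nat_lit 13948114824) (nat_lit 152) (nat_lit 188356750783) (nat_lit 158) (nat_lit 5) (nat_lit 159) (nat_lit 5) (nat_lit 160) (nat_lit 4) (nat_lit 458) (nat_lit 362) (nat_lit 200))) (XT.nd (nat_lit 78) (nat_lit 76) (nat_lit 0) (XT.lf (nat_lit 0) (nat_lit 99713874407) (nat_lit 152) (nat_lit 61742840782) (nat_lit 0) (nat_lit 60176723417) (nat_lit 158) (nat_lit 5) (nat_lit 160) (nat_lit 4) (nat_lit 158) (nat_lit 4) (nat_lit 459) (nat_lit 362) (nat_lit 199)) (XT.lf (nat_lit 0) (nat_lit 88444234265) (nat_lit 76) (nat_lit 90011013974) (nat_lit 76) (nat_lit 50473200640) (nat_lit 157) (nat_lit 4) (nat_lit 158) (nat_lit 5) (nat_lit 158) (nat_lit 4) (nat_lit 460) (nat_lit 362) (nat_lit 198)))) (XT.nd (nat_lit 156) (nat_lit 228) (nat_lit 0) (XT.nd (nat_lit 78) (nat_lit 0) (nat_lit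 0) (XT.lf (nat_lit 0) (nat_lit 11717823415) (nat_lit 76) (nat_lit 13285233927) (nat_lit 152) (nat_lit 211503831892) (nat_lit 155) (nat_lit 5) (nat_lit 156) (nat_lit 5) (nat_lit 157) (nat_lit 4) (nat_lit 461) (nat_lit 362) (nat_lit 197)) (XT.lf (nat_lit 0) (nat_lit 106022900794) (nat_lit 152) (nat_lit 69860011627) (nat_lit 0) (nat_lit 68366667554) (nat_lit 155) (nat_lit 5) (nat_lit 157) (nat_lit 4) (nat_lit 155) (nat_lit 4) (nat_lit 462) (nat_lit 362) (nat_lit 196))) (XT.nd (nat_lit 78) (nat_lit 152) (nat_lit 0) (XT.lf (nat_lit 0) (nat_lit 95654321873) (nat_lit 76) (nat_lit 97148210858) (nat_lit 76) (nat_lit 59491432707) (nat_lit 154) (nat_lit 4) (nat_lit 155) (nat_lit 5) (nat_lit 155) (nat_lit 4) (nat_lit 463) (nat_lit 362) (nat_lit 195)) (XT.lf (nat_lit 0) (nat_lit 11159277684) (nat_lit 76) (nat_lit 12653685631) (nat_lit 152) (nat_lit 236840795650) (nat_lit 152) (nat_lit 5) (nat_lit 153) (nat_lit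 5) (nat_lit 154) (nat_lit 4) (nat_lit 464) (nat_lit 362) (nat_lit 194)))))) (XT.nd (nat_lit 624) (nat_lit 608) (nat_lit 0) (XT.nd (nat_lit 312) (nat_lit 304) (nat_lit 0) (XT.nd (nat_lit 156) (nat_lit 152) (nat_lit 0) (XT.nd (nat_lit 78) (nat_lit 76) (nat_lit 0) (XT.lf (nat_lit 0) (nat_lit 113164705762) (nat_lit 152) (nat_lit 78723858937) (nat_lit 0) (nat_lit 77300142557) (nat_lit 152) (nat_lit 5) (nat_lit 154) (nat_lit 4) (nat_lit 152) (nat_lit 4) (nat_lit 465) (nat_lit 362) (nat_lit 193)) (XT.lf (nat_lit 0) (nat_lit 103691960851) (nat_lit 76) (nat_lit 105116125531) (nat_lit 76) (nat_lit 69251114026) (nat_lit 151) (nat_lit 4) (nat_lit 152) (nat_lit 5) (nat_lit 152) (nat_lit 4) (nat_lit 466) (nat_lit 362) (nat_lit 192))) (XT.nd (nat_lit 78) (nat_lit 0) (nat_lit 0) (XT.lf (nat_lit 0) (nat_lit 10627427616) (nat_lit 76) (nat_lit 12052019248) (nat_lit 152) (nat_lit 264600771288) (nat_lit 149) (nat_lit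 5) (nat_lit 150) (nat_lit 5) (nat_lit 151) (nat_lit 4) (nat_lit 467) (nat_lit 362) (nat_lit 191)) (XT.lf (nat_lit 0) (nat_lit 121215816387) (nat_lit 152) (nat_lit 88415009887) (nat_lit 0) (nat_lit 87057868694) (nat_lit 149) (nat_lit 5) (nat_lit 151) (nat_lit 4) (nat_lit 149) (nat_lit 4) (nat_lit 468) (nat_lit 362) (nat_lit 190)))) (XT.nd (nat_lit 156) (nat_lit 76) (nat_lit 0) (XT.nd (nat_lit 78) (nat_lit 152) (nat_lit 0) (XT.lf (nat_lit 0) (nat_lit 112637731237) (nat_lit 76) (nat_lit 113995241248) (nat_lit 76) (nat_lit 79836924737) (nat_lit 148) (nat_lit 4) (nat_lit 149) (nat_lit 5) (nat_lit 149) (nat_lit 4) (nat_lit 469) (nat_lit 362) (nat_lit 189)) (XT.lf (nat_lit 0) (nat_lit 10120984571) (nat_lit 76) (nat_lit 11478845836) (nat_lit 152) (nat_lit 295040377030) (nat_lit 146) (nat_lit 5) (nat_lit 147) (nat_lit 5) (nat_lit 148) (nat_lit 4) (nat_lit 470) (nat_lit 362) (nat_lit 188))) (XT.nd (nat_lit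 78) (nat_lit 76) (nat_lit 0) (XT.lf (nat_lit 0) (nat_lit 130261019177) (nat_lit 152) (nat_lit 99022155843) (nat_lit 0) (nat_lit 97728636039) (nat_lit 146) (nat_lit 5) (nat_lit 148) (nat_lit 4) (nat_lit 146) (nat_lit 4) (nat_lit 471) (nat_lit 362) (nat_lit 187)) (XT.lf (nat_lit 0) (nat_lit 122580679733) (nat_lit 76) (nat_lit 123874502964) (nat_lit 76) (nat_lit 91341816400) (nat_lit 145) (nat_lit 4) (nat_lit 146) (nat_lit 5) (nat_lit 146) (nat_lit 4) (nat_lit 472) (nat_lit 362) (nat_lit 186))))) (XT.nd (nat_lit 312) (nat_lit 228) (nat_lit 0) (XT.nd (nat_lit 156) (nat_lit 228) (nat_lit 0) (XT.nd (nat_lit 78) (nat_lit 0) (nat_lit 0) (XT.lf (nat_lit 0) (nat_lit 9638724359) (nat_lit 76) (nat_lit 10932836568) (nat_lit 152) (nat_lit 328442146032) (nat_lit 143) (nat_lit 5) (nat_lit 144) (nat_lit 5) (nat_lit 145) (nat_lit 4) (nat_lit 473) (nat_lit 362) (nat_lit 185)) (XT.lf (nat_lit 0) (nat_lit 140394187798)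 (nat_lit 152) (nat_lit 110642889385) (nat_lit 0) (nat_lit 109410139455) (nat_lit 143) (nat_lit 5) (nat_lit 145) (nat_lit 4) (nat_lit 143) (nat_lit 4) (nat_lit 474) (nat_lit 362) (nat_lit 184))) (XT.nd (nat_lit 78) (nat_lit 152) (nat_lit 0) (XT.lf (nat_lit 0) (nat_lit 133619176767) (nat_lit 76) (nat_lit 134852176327) (nat_lit 76) (nat_lit 103867878354) (nat_lit 142) (nat_lit 4) (nat_lit 143) (nat_lit 5) (nat_lit 143) (nat_lit 4) (nat_lit 475) (nat_lit 362) (nat_lit 183)) (XT.lf (nat_lit 0) (nat_lit 9179483627) (nat_lit 76) (nat_lit 10412720930) (nat_lit 152) (nat_lit 365117200294) (nat_lit 140) (nat_lit 5) (nat_lit 141) (nat_lit 5) (nat_lit 142) (nat_lit 4) (nat_lit 476) (nat_lit 362) (nat_lit 182)))) (XT.nd (nat_lit 156) (nat_lit 152) (nat_lit 0) (XT.nd (nat_lit 78) (nat_lit 76) (nat_lit 0) (XT.lf (nat_lit 0) (nat_lit 151719196393) (nat_lit 152) (nat_lit 123384626476) (nat_lit 0) (nat_lit 122209899119)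 (nat_lit 140) (nat_lit 5) (nat_lit 142) (nat_lit 4) (nat_lit 140) (nat_lit 4) (nat_lit 477) (nat_lit 362) (nat_lit 181)) (XT.lf (nat_lit 0) (nat_lit 145861862072) (nat_lit 76) (nat_lit 147036794801) (nat_lit 76) (nat_lit 117527292155) (nat_lit 139) (nat_lit 4) (nat_lit 140) (nat_lit 5) (nat_lit 140) (nat_lit 4) (nat_lit 478) (nat_lit 362) (nat_lit 180))) (XT.nd (nat_lit 78) (nat_lit 0) (nat_lit 0) (XT.lf (nat_lit 0) (nat_lit 8742156509) (nat_lit 76) (nat_lit 9917284830) (nat_lit 152) (nat_lit 405408197966) (nat_lit 137) (nat_lit 5) (nat_lit 138) (nat_lit 5) (nat_lit 139) (nat_lit 4) (nat_lit 479) (nat_lit 362) (nat_lit 179)) (XT.lf (nat_lit 0) (nat_lit 164350927227) (nat_lit 152) (nat_lit 137365622544) (nat_lit 0) (nat_lit 136246275308) (nat_lit 137) (nat_lit 5) (nat_lit 139) (nat_lit 4) (nat_lit 137) (nat_lit 4) (nat_lit 480) (nat_lit 362) (nat_lit 178))))))) (XT.nd (nat_lit 44304) (nat_lit 0)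 (nat_lit 10412) (XT.nd (nat_lit 624) (nat_lit 228) (nat_lit 0) (XT.nd (nat_lit 312) (nat_lit 380) (nat_lit 0) (XT.nd (nat_lit 156) (nat_lit 76) (nat_lit 0) (XT.nd (nat_lit 78) (nat_lit 152) (nat_lit 0) (XT.lf (nat_lit 0) (nat_lit 159428687803) (nat_lit 76) (nat_lit 160548203999) (nat_lit 76) (nat_lit 132443383120) (nat_lit 136) (nat_lit 4) (nat_lit 137) (nat_lit 5) (nat_lit 137) (nat_lit 4) (nat_lit 481) (nat_lit 362) (nat_lit 177)) (XT.lf (nat_lit 0) (nat_lit 8325691521) (nat_lit 76) (nat_lit 9445368631) (nat_lit 152) (nat_lit 449692582067) (nat_lit 134) (nat_lit 5) (nat_lit 135) (nat_lit 5) (nat_lit 136) (nat_lit 4) (nat_lit 482) (nat_lit 362) (nat_lit 176))) (XT.nd (nat_lit 78) (nat_lit 76) (nat_lit 0) (XT.lf (nat_lit 0) (nat_lit 178416382346) (nat_lit 152) (nat_lit 152716092172) (nat_lit 0) (nat_lit 151649587067) (nat_lit 134) (nat_lit 5) (nat_lit 136) (nat_lit 4) (nat_lit 134) (nat_lit 4)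 (nat_lit 483) (nat_lit 362) (nat_lit 175)) (XT.lf (nat_lit 0) (nat_lit 174452069133) (nat_lit 76) (nat_lit 175518713242) (nat_lit 76) (nat_lit 148751778959) (nat_lit 133) (nat_lit 4) (nat_lit 134) (nat_lit 5) (nat_lit 134) (nat_lit 4) (nat_lit 484) (nat_lit 362) (nat_lit 174)))) (XT.nd (nat_lit 156) (nat_lit 228) (nat_lit 0) (XT.nd (nat_lit 78) (nat_lit 0) (nat_lit 0) (XT.lf (nat_lit 0) (nat_lit 7929088663) (nat_lit 76) (nat_lit 8995865156) (nat_lit 152) (nat_lit 498386161527) (nat_lit 131) (nat_lit 5) (nat_lit 132) (nat_lit 5) (nat_lit 133) (nat_lit 4) (nat_lit 485) (nat_lit 362) (nat_lit 173)) (XT.lf (nat_lit 0) (nat_lit 194055909878) (nat_lit 152) (nat_lit 169579443045) (nat_lit 0) (nat_lit 168563345356) (nat_lit 131) (nat_lit 5) (nat_lit 133) (nat_lit 4) (nat_lit 131) (nat_lit 4) (nat_lit 486) (nat_lit 362) (nat_lit 172))) (XT.nd (nat_lit 78) (nat_lit 152) (nat_lit 0) (XT.lf (nat_lit 0) (nat_lit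 191078153300) (nat_lit 76) (nat_lit 192094365347) (nat_lit 76) (nat_lit 166601686467) (nat_lit 130) (nat_lit 4) (nat_lit 131) (nat_lit 5) (nat_lit 131) (nat_lit 4) (nat_lit 487) (nat_lit 362) (nat_lit 171)) (XT.lf (nat_lit 0) (nat_lit 7551396717) (nat_lit 76) (nat_lit 8567717677) (nat_lit 152) (nat_lit 551947058633) (nat_lit 128) (nat_lit 5) (nat_lit 129) (nat_lit 5) (nat_lit 130) (nat_lit 4) (nat_lit 488) (nat_lit 362) (nat_lit 170))))) (XT.nd (nat_lit 43368) (nat_lit 0) (nat_lit 12692) (XT.nd (nat_lit 156) (nat_lit 152) (nat_lit 0) (XT.nd (nat_lit 78) (nat_lit 76) (nat_lit 0) (XT.lf (nat_lit 0) (nat_lit 211424556715) (nat_lit 152) (nat_lit 188113635922) (nat_lit 0) (nat_lit 187145612411) (nat_lit 128) (nat_lit 5) (nat_lit 130) (nat_lit 4) (nat_lit 128) (nat_lit 4) (nat_lit 489) (nat_lit 362) (nat_lit 169)) (XT.lf (nat_lit 0) (nat_lit 209468219209) (nat_lit 76) (nat_lit 210436336803) (nat_lit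 76) (nat_lit 186157298416) (nat_lit 127) (nat_lit 4) (nat_lit 128) (nat_lit 5) (nat_lit 128) (nat_lit 4) (nat_lit 490) (nat_lit 362) (nat_lit 168))) (XT.nd (nat_lit 43134) (nat_lit 0) (nat_lit 12692) (XT.lf (nat_lit 0) (nat_lit 7191710721) (nat_lit 76) (nat_lit 8159917918) (nat_lit 152) (nat_lit 610880060443) (nat_lit 125) (nat_lit 5) (nat_lit 126) (nat_lit 5) (nat_lit 127) (nat_lit 4) (nat_lit 491) (nat_lit 362) (nat_lit 167)) (XT.lf (nat_lit 0) (nat_lit 72853309) (nat_lit 836) (nat_lit 3150655062) (nat_lit 836) (nat_lit 3150655062) (nat_lit 292) (nat_lit 3) (nat_lit 303) (nat_lit 3) (nat_lit 303) (nat_lit 5) (nat_lit 363) (nat_lit 363) (nat_lit 294)))) (XT.nd (nat_lit 156) (nat_lit 0) (nat_lit 76) (XT.nd (nat_lit 78) (nat_lit 0) (nat_lit 76) (XT.lf (nat_lit 76) (nat_lit 75262168) (nat_lit 0) (nat_lit 490283638) (nat_lit 836) (nat_lit 12480679409) (nat_lit 293) (nat_lit 5) (nat_lit 292) (nat_lit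 3) (nat_lit 303) (nat_lit 5) (nat_lit 364) (nat_lit 363) (nat_lit 293)) (XT.lf (nat_lit 0) (nat_lit 1178240605) (nat_lit 760) (nat_lit 6471939970) (nat_lit 836) (nat_lit 5700244721) (nat_lit 293) (nat_lit 5) (nat_lit 303) (nat_lit 5) (nat_lit 304) (nat_lit 5) (nat_lit 365) (nat_lit 363) (nat_lit 292))) (XT.nd (nat_lit 78) (nat_lit 0) (nat_lit 76) (XT.lf (nat_lit 76) (nat_lit 339686517) (nat_lit 0) (nat_lit 1469892916) (nat_lit 836) (nat_lit 11860855482) (nat_lit 294) (nat_lit 5) (nat_lit 293) (nat_lit 5) (nat_lit 304) (nat_lit 5) (nat_lit 366) (nat_lit 363) (nat_lit 291)) (XT.lf (nat_lit 0) (nat_lit 2638043028) (nat_lit 760) (nat_lit 6380845662) (nat_lit 836) (nat_lit 4979278435) (nat_lit 294) (nat_lit 5) (nat_lit 304) (nat_lit 5) (nat_lit 305) (nat_lit 5) (nat_lit 367) (nat_lit 363) (nat_lit 290)))))) (XT.nd (nat_lit 624) (nat_lit 1900) (nat_lit 0) (XT.nd (nat_lit 312) (nat_lit 532) (nat_lit 0)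 (XT.nd (nat_lit 156) (nat_lit 0) (nat_lit 76) (XT.nd (nat_lit 78) (nat_lit 0) (nat_lit 76) (XT.lf (nat_lit 76) (nat_lit 905924626) (nat_lit 0) (nat_lit 2617187264) (nat_lit 836) (nat_lit 10818414951) (nat_lit 295) (nat_lit 5) (nat_lit 294) (nat_lit 5) (nat_lit 305) (nat_lit 5) (nat_lit 368) (nat_lit 363) (nat_lit 289)) (XT.lf (nat_lit 0) (nat_lit 4604261801) (nat_lit 760) (nat_lit 6000439084) (nat_lit 836) (nat_lit 4089762277) (nat_lit 295) (nat_lit 5) (nat_lit 305) (nat_lit 5) (nat_lit 306) (nat_lit 5) (nat_lit 369) (nat_lit 363) (nat_lit 288))) (XT.nd (nat_lit 78) (nat_lit 0) (nat_lit 76) (XT.lf (nat_lit 76) (nat_lit 1805661518) (nat_lit 0) (nat_lit 3983864865) (nat_lit 836) (nat_lit 9273017058) (nat_lit 296) (nat_lit 5) (nat_lit 295) (nat_lit 5) (nat_lit 306) (nat_lit 5) (nat_lit 370) (nat_lit 363) (nat_lit 287)) (XT.lf (nat_lit 0) (nat_lit 7163476333) (nat_lit 760) (nat_lit 5298107064) (nat_lit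 836) (nat_lit 2980973228) (nat_lit 296) (nat_lit 5) (nat_lit 306) (nat_lit 5) (nat_lit 307) (nat_lit 5) (nat_lit 371) (nat_lit 363) (nat_lit 286)))) (XT.nd (nat_lit 156) (nat_lit 684) (nat_lit 0) (XT.nd (nat_lit 78) (nat_lit 0) (nat_lit 76) (XT.lf (nat_lit 76) (nat_lit 3075991760) (nat_lit 0) (nat_lit 5624225079) (nat_lit 836) (nat_lit 7136648979) (nat_lit 297) (nat_lit 5) (nat_lit 296) (nat_lit 5) (nat_lit 307) (nat_lit 5) (nat_lit 372) (nat_lit 363) (nat_lit 285)) (XT.lf (nat_lit 0) (nat_lit 10410750220) (nat_lit 760) (nat_lit 4235897688) (nat_lit 76) (nat_lit 1599394769) (nat_lit 297) (nat_lit 5) (nat_lit 307) (nat_lit 5) (nat_lit 298) (nat_lit 5) (nat_lit 373) (nat_lit 363) (nat_lit 284))) (XT.nd (nat_lit 78) (nat_lit 0) (nat_lit 0) (XT.lf (nat_lit 0) (nat_lit 4759775816) (nat_lit 760) (nat_lit 7595911158) (nat_lit 836) (nat_lit 4312547569) (nat_lit 287) (nat_lit 5) (nat_lit 297) (nat_lit 5)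 (nat_lit 298) (nat_lit 5) (nat_lit 374) (nat_lit 363) (nat_lit 283)) (XT.lf (nat_lit 0) (nat_lit 14336853102) (nat_lit 760) (nat_lit 115716089) (nat_lit 836) (nat_lit 2656231881) (nat_lit 287) (nat_lit 5) (nat_lit 297) (nat_lit 5) (nat_lit 298) (nat_lit 5) (nat_lit 375) (nat_lit 363) (nat_lit 282))))) (XT.nd (nat_lit 312) (nat_lit 608) (nat_lit 0) (XT.nd (nat_lit 156) (nat_lit 760) (nat_lit 0) (XT.nd (nat_lit 78) (nat_lit 76) (nat_lit 0) (XT.lf (nat_lit 0) (nat_lit 6906065521) (nat_lit 456) (nat_lit 9960669284) (nat_lit 532) (nat_lit 694039159) (nat_lit 281) (nat_lit 5) (nat_lit 287) (nat_lit 5) (nat_lit 288) (nat_lit 5) (nat_lit 376) (nat_lit 363) (nat_lit 281)) (XT.lf (nat_lit 0) (nat_lit 1356217815) (nat_lit 532) (nat_lit 908597091) (nat_lit 76) (nat_lit 15767779855) (nat_lit 280) (nat_lit 5) (nat_lit 287) (nat_lit 5) (nat_lit 281) (nat_lit 5) (nat_lit 377) (nat_lit 363) (nat_lit 280))) (XT.nd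 (nat_lit 78) (nat_lit 380) (nat_lit 0) (XT.lf (nat_lit 0) (nat_lit 3713916584) (nat_lit 456) (nat_lit 9008320462) (nat_lit 76) (nat_lit 5793788006) (nat_lit 275) (nat_lit 5) (nat_lit 281) (nat_lit 5) (nat_lit 276) (nat_lit 5) (nat_lit 378) (nat_lit 363) (nat_lit 279)) (XT.lf (nat_lit 0) (nat_lit 1446885257) (nat_lit 380) (nat_lit 4803292749) (nat_lit 456) (nat_lit 12770414967) (nat_lit 270) (nat_lit 5) (nat_lit 275) (nat_lit 5) (nat_lit 276) (nat_lit 5) (nat_lit 379) (nat_lit 363) (nat_lit 278)))) (XT.nd (nat_lit 156) (nat_lit 304) (nat_lit 0) (XT.nd (nat_lit 78) (nat_lit 304) (nat_lit 0) (XT.lf (nat_lit 0) (nat_lit 9108902810) (nat_lit 456) (nat_lit 6878483684) (nat_lit 76) (nat_lit 3553220280) (nat_lit 270) (nat_lit 5) (nat_lit 276) (nat_lit 5) (nat_lit 271) (nat_lit 5) (nat_lit 380) (nat_lit 363) (nat_lit 277)) (XT.lf (nat_lit 0) (nat_lit 4398298416) (nat_lit 304) (nat_lit 7846118809) (nat_lit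 380) (nat_lit 7835511372) (nat_lit 266) (nat_lit 5) (nat_lit 270) (nat_lit 5) (nat_lit 271) (nat_lit 5) (nat_lit 381) (nat_lit 363) (nat_lit 276))) (XT.nd (nat_lit 78) (nat_lit 304) (nat_lit 0) (XT.lf (nat_lit 0) (nat_lit 15652895014) (nat_lit 380) (nat_lit 4191156693) (nat_lit 76) (nat_lit 796355420) (nat_lit 266) (nat_lit 5) (nat_lit 271) (nat_lit 5) (nat_lit 267) (nat_lit 5) (nat_lit 382) (nat_lit 363) (nat_lit 275)) (XT.lf (nat_lit 0) (nat_lit 7985942689) (nat_lit 304) (nat_lit 11486613298) (nat_lit 380) (nat_lit 1744315634) (nat_lit 262) (nat_lit 5) (nat_lit 266) (nat_lit 5) (nat_lit 267) (nat_lit 5) (nat_lit 383) (nat_lit 363) (nat_lit 274))))))))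
noncomputable def xc199 : XT := (XT.nd (nat_lit 2496) (nat_lit 2584) (nat_lit 0) (XT.nd (nat_lit 1248) (nat_lit 1672) (nat_lit 0) (XT.nd (nat_lit 624) (nat_lit 1216) (nat_lit 0) (XT.nd (nat_lit 312) (nat_lit 836) (nat_lit 0) (XT.nd (nat_lit 156) (nat_lit 304) (nat_lit 0) (XT.nd (nat_lit 78) (nat_lit 304) (nat_lit 0) (XT.lf (nat_lit 0) (nat_lit 1667640730) (nat_lit 380) (nat_lit 943345277) (nat_lit 76) (nat_lit 19206888470) (nat_lit 261) (nat_lit 5) (nat_lit 266) (nat_lit 5) (nat_lit 262) (nat_lit 5) (nat_lit 384) (nat_lit 363) (nat_lit 273)) (XT.lf (nat_lit 0) (nat_lit 5480290561) (nat_lit 380) (nat_lit 10237111936) (nat_lit 76) (nat_lit 6715659406) (nat_lit 257) (nat_lit 5) (nat_lit 262) (nat_lit 5) (nat_lit 258) (nat_lit 5) (nat_lit 385) (nat_lit 363) (nat_lit 272))) (XT.nd (nat_lit 78) (nat_lit 0) (nat_lit 0) (XT.lf (nat_lit 0) (nat_lit 2984585235) (nat_lit 304) (nat_lit 6593136731) (nat_lit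 380) (nat_lit 13496579282) (nat_lit 253) (nat_lit 5) (nat_lit 257) (nat_lit 5) (nat_lit 258) (nat_lit 5) (nat_lit 386) (nat_lit 363) (nat_lit 271)) (XT.lf (nat_lit 0) (nat_lit 14091660828) (nat_lit 380) (nat_lit 6580538488) (nat_lit 76) (nat_lit 3064821449) (nat_lit 253) (nat_lit 5) (nat_lit 258) (nat_lit 5) (nat_lit 254) (nat_lit 5) (nat_lit 387) (nat_lit 363) (nat_lit 270)))) (XT.nd (nat_lit 156) (nat_lit 608) (nat_lit 0) (XT.nd (nat_lit 78) (nat_lit 0) (nat_lit 0) (XT.lf (nat_lit 0) (nat_lit 7729207860) (nat_lit 228) (nat_lit 11320164259) (nat_lit 304) (nat_lit 5372600364) (nat_lit 250) (nat_lit 5) (nat_lit 253) (nat_lit 5) (nat_lit 254) (nat_lit 5) (nat_lit 388) (nat_lit 363) (nat_lit 269)) (XT.lf (nat_lit 0) (nat_lit 22968943049) (nat_lit 228) (nat_lit 1387077989) (nat_lit 304) (nat_lit 780098146) (nat_lit 250) (nat_lit 5) (nat_lit 253) (nat_lit 5) (nat_lit 254) (nat_lit 5) (nat_lit 389) (nat_lit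 363) (nat_lit 268))) (XT.nd (nat_lit 78) (nat_lit 228) (nat_lit 0) (XT.lf (nat_lit 0) (nat_lit 4258004429) (nat_lit 380) (nat_lit 12580371767) (nat_lit 76) (nat_lit 9027174385) (nat_lit 245) (nat_lit 5) (nat_lit 250) (nat_lit 5) (nat_lit 246) (nat_lit 5) (nat_lit 390) (nat_lit 363) (nat_lit 267)) (XT.lf (nat_lit 0) (nat_lit 3001881327) (nat_lit 228) (nat_lit 6616978317) (nat_lit 304) (nat_lit 17007101280) (nat_lit 242) (nat_lit 5) (nat_lit 245) (nat_lit 5) (nat_lit 246) (nat_lit 5) (nat_lit 391) (nat_lit 363) (nat_lit 266))))) (XT.nd (nat_lit 312) (nat_lit 684) (nat_lit 0) (XT.nd (nat_lit 156) (nat_lit 304) (nat_lit 0) (XT.nd (nat_lit 78) (nat_lit 228) (nat_lit 0) (XT.lf (nat_lit 0) (nat_lit 15518906037) (nat_lit 304) (nat_lit 7695511305) (nat_lit 76) (nat_lit 4196417022) (nat_lit 242) (nat_lit 5) (nat_lit 246) (nat_lit 5) (nat_lit 243) (nat_lit 5) (nat_lit 392) (nat_lit 363) (nat_lit 265)) (XT.lf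 (nat_lit 0) (nat_lit 9202171191) (nat_lit 228) (nat_lit 12754736684) (nat_lit 304) (nat_lit 6265895945) (nat_lit 239) (nat_lit 5) (nat_lit 242) (nat_lit 5) (nat_lit 243) (nat_lit 5) (nat_lit 393) (nat_lit 363) (nat_lit 264))) (XT.nd (nat_lit 78) (nat_lit 304) (nat_lit 0) (XT.lf (nat_lit 0) (nat_lit 27198758070) (nat_lit 228) (nat_lit 1639417807) (nat_lit 304) (nat_lit 231127568) (nat_lit 239) (nat_lit 5) (nat_lit 242) (nat_lit 5) (nat_lit 243) (nat_lit 5) (nat_lit 394) (nat_lit 363) (nat_lit 263)) (XT.lf (nat_lit 0) (nat_lit 6322184212) (nat_lit 304) (nat_lit 13544326543) (nat_lit 76) (nat_lit 10066240432) (nat_lit 235) (nat_lit 5) (nat_lit 239) (nat_lit 5) (nat_lit 236) (nat_lit 5) (nat_lit 395) (nat_lit 363) (nat_lit 262)))) (XT.nd (nat_lit 156) (nat_lit 456) (nat_lit 0) (XT.nd (nat_lit 78) (nat_lit 0) (nat_lit 0) (XT.lf (nat_lit 0) (nat_lit 4900186823) (nat_lit 228) (nat_lit 8422263830) (nat_lit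 304) (nat_lit 17510378388) (nat_lit 232) (nat_lit 5) (nat_lit 235) (nat_lit 5) (nat_lit 236) (nat_lit 5) (nat_lit 396) (nat_lit 363) (nat_lit 261)) (XT.lf (nat_lit 0) (nat_lit 20953600586) (nat_lit 304) (nat_lit 7102263394) (nat_lit 76) (nat_lit 3708003301) (nat_lit 232) (nat_lit 5) (nat_lit 236) (nat_lit 5) (nat_lit 233) (nat_lit 5) (nat_lit 397) (nat_lit 363) (nat_lit 260))) (XT.nd (nat_lit 78) (nat_lit 304) (nat_lit 0) (XT.lf (nat_lit 0) (nat_lit 12933025783) (nat_lit 152) (nat_lit 16365286866) (nat_lit 228) (nat_lit 3426544550) (nat_lit 230) (nat_lit 5) (nat_lit 232) (nat_lit 5) (nat_lit 233) (nat_lit 5) (nat_lit 398) (nat_lit 363) (nat_lit 259)) (XT.lf (nat_lit 0) (nat_lit 420163660) (nat_lit 228) (nat_lit 3888616162) (nat_lit 304) (nat_lit 29415695120) (nat_lit 226) (nat_lit 5) (nat_lit 229) (nat_lit 5) (nat_lit 230) (nat_lit 5) (nat_lit 399) (nat_lit 363) (nat_lit 258)))))) (XT.nd (nat_lit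 624) (nat_lit 760) (nat_lit 0) (XT.nd (nat_lit 312) (nat_lit 532) (nat_lit 0) (XT.nd (nat_lit 156) (nat_lit 228) (nat_lit 0) (XT.nd (nat_lit 78) (nat_lit 152) (nat_lit 0) (XT.lf (nat_lit 0) (nat_lit 12792406354) (nat_lit 304) (nat_lit 12645569421) (nat_lit 76) (nat_lit 9309454640) (nat_lit 226) (nat_lit 5) (nat_lit 230) (nat_lit 5) (nat_lit 227) (nat_lit 5) (nat_lit 400) (nat_lit 363) (nat_lit 257)) (XT.lf (nat_lit 0) (nat_lit 9266913034) (nat_lit 152) (nat_lit 12634291323) (nat_lit 228) (nat_lit 13910279796) (nat_lit 224) (nat_lit 5) (nat_lit 226) (nat_lit 5) (nat_lit 227) (nat_lit 5) (nat_lit 401) (nat_lit 363) (nat_lit 256))) (XT.nd (nat_lit 78) (nat_lit 228) (nat_lit 0) (XT.lf (nat_lit 0) (nat_lit 31688409207) (nat_lit 228) (nat_lit 4232283445) (nat_lit 76) (nat_lit 996899579) (nat_lit 224) (nat_lit 5) (nat_lit 227) (nat_lit 5) (nat_lit 225) (nat_lit 5) (nat_lit 402) (nat_lit 363) (nat_lit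 255)) (XT.lf (nat_lit 0) (nat_lit 4276098042) (nat_lit 228) (nat_lit 18518269676) (nat_lit 76) (nat_lit 15255879216) (nat_lit 221) (nat_lit 5) (nat_lit 224) (nat_lit 5) (nat_lit 222) (nat_lit 5) (nat_lit 403) (nat_lit 363) (nat_lit 254)))) (XT.nd (nat_lit 156) (nat_lit 380) (nat_lit 0) (XT.nd (nat_lit 78) (nat_lit 0) (nat_lit 0) (XT.lf (nat_lit 0) (nat_lit 5472066383) (nat_lit 152) (nat_lit 8760177408) (nat_lit 228) (nat_lit 24995437591) (nat_lit 219) (nat_lit 5) (nat_lit 221) (nat_lit 5) (nat_lit 222) (nat_lit 5) (nat_lit 404) (nat_lit 363) (nat_lit 253)) (XT.lf (nat_lit 0) (nat_lit 25091382463) (nat_lit 228) (nat_lit 9253604715) (nat_lit 76) (nat_lit 6098741094) (nat_lit 219) (nat_lit 5) (nat_lit 222) (nat_lit 5) (nat_lit 220) (nat_lit 5) (nat_lit 405) (nat_lit 363) (nat_lit 252))) (XT.nd (nat_lit 78) (nat_lit 228) (nat_lit 0) (XT.lf (nat_lit 0) (nat_lit 16858334618) (nat_lit 152) (nat_lit 20035416631)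 (nat_lit 228) (nat_lit 4806812599) (nat_lit 217) (nat_lit 5) (nat_lit 219) (nat_lit 5) (nat_lit 220) (nat_lit 5) (nat_lit 406) (nat_lit 363) (nat_lit 251)) (XT.lf (nat_lit 0) (nat_lit 1521870644) (nat_lit 152) (nat_lit 4720113030) (nat_lit 228) (nat_lit 36764539165) (nat_lit 214) (nat_lit 5) (nat_lit 216) (nat_lit 5) (nat_lit 217) (nat_lit 5) (nat_lit 407) (nat_lit 363) (nat_lit 250))))) (XT.nd (nat_lit 312) (nat_lit 456) (nat_lit 0) (XT.nd (nat_lit 156) (nat_lit 152) (nat_lit 0) (XT.nd (nat_lit 78) (nat_lit 152) (nat_lit 0) (XT.lf (nat_lit 0) (nat_lit 18280227376) (nat_lit 228) (nat_lit 14564411603) (nat_lit 76) (nat_lit 11499273391) (nat_lit 214) (nat_lit 5) (nat_lit 217) (nat_lit 5) (nat_lit 215) (nat_lit 5) (nat_lit 408) (nat_lit 363) (nat_lit 249)) (XT.lf (nat_lit 0) (nat_lit 14063893924) (nat_lit 152) (nat_lit 17147311262) (nat_lit 228) (nat_lit 14522425093) (nat_lit 212) (nat_lit 5) (nat_lit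 214) (nat_lit 5) (nat_lit 215) (nat_lit 5) (nat_lit 409) (nat_lit 363) (nat_lit 248))) (XT.nd (nat_lit 78) (nat_lit 152) (nat_lit 0) (XT.lf (nat_lit 0) (nat_lit 44618730174) (nat_lit 152) (nat_lit 410651009) (nat_lit 228) (nat_lit 2151420438) (nat_lit 212) (nat_lit 5) (nat_lit 214) (nat_lit 5) (nat_lit 215) (nat_lit 5) (nat_lit 410) (nat_lit 363) (nat_lit 247)) (XT.lf (nat_lit 0) (nat_lit 11212188803) (nat_lit 152) (nat_lit 20206296385) (nat_lit 76) (nat_lit 17237338542) (nat_lit 210) (nat_lit 5) (nat_lit 212) (nat_lit 5) (nat_lit 211) (nat_lit 5) (nat_lit 411) (nat_lit 363) (nat_lit 246)))) (XT.nd (nat_lit 156) (nat_lit 304) (nat_lit 0) (XT.nd (nat_lit 78) (nat_lit 0) (nat_lit 0) (XT.lf (nat_lit 0) (nat_lit 11203837516) (nat_lit 152) (nat_lit 14187833641) (nat_lit 228) (nat_lit 24800162601) (nat_lit 208) (nat_lit 5) (nat_lit 210) (nat_lit 5) (nat_lit 211) (nat_lit 5) (nat_lit 412) (nat_lit 363)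 (nat_lit 245)) (XT.lf (nat_lit 0) (nat_lit 40683183739) (nat_lit 228) (nat_lit 6978424491) (nat_lit 76) (nat_lit 4122883255) (nat_lit 208) (nat_lit 5) (nat_lit 211) (nat_lit 5) (nat_lit 209) (nat_lit 4) (nat_lit 413) (nat_lit 363) (nat_lit 244))) (XT.nd (nat_lit 78) (nat_lit 152) (nat_lit 0) (XT.lf (nat_lit 0) (nat_lit 3840907927) (nat_lit 152) (nat_lit 26224334842) (nat_lit 76) (nat_lit 23355802972) (nat_lit 206) (nat_lit 5) (nat_lit 208) (nat_lit 5) (nat_lit 207) (nat_lit 5) (nat_lit 414) (nat_lit 363) (nat_lit 243)) (XT.lf (nat_lit 0) (nat_lit 8259956565) (nat_lit 152) (nat_lit 11140860467) (nat_lit 228) (nat_lit 35717328278) (nat_lit 204) (nat_lit 5) (nat_lit 206) (nat_lit 5) (nat_lit 207) (nat_lit 5) (nat_lit 415) (nat_lit 363) (nat_lit 242))))))) (XT.nd (nat_lit 1248) (nat_lit 1216) (nat_lit 0) (XT.nd (nat_lit 624) (nat_lit 684) (nat_lit 0) (XT.nd (nat_lit 312) (nat_lit 380) (nat_lit 0) (XT.nd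 (nat_lit 156) (nat_lit 228) (nat_lit 0) (XT.nd (nat_lit 78) (nat_lit 76) (nat_lit 0) (XT.lf (nat_lit 0) (nat_lit 36321036346) (nat_lit 228) (nat_lit 11652443786) (nat_lit 76) (nat_lit 8897503987) (nat_lit 204) (nat_lit 5) (nat_lit 207) (nat_lit 5) (nat_lit 205) (nat_lit 4) (nat_lit 416) (nat_lit 363) (nat_lit 241)) (XT.lf (nat_lit 0) (nat_lit 25952167712) (nat_lit 76) (nat_lit 28717794938) (nat_lit 152) (nat_lit 4012367416) (nat_lit 203) (nat_lit 5) (nat_lit 204) (nat_lit 5) (nat_lit 205) (nat_lit 4) (nat_lit 417) (nat_lit 363) (nat_lit 240))) (XT.nd (nat_lit 78) (nat_lit 0) (nat_lit 0) (XT.lf (nat_lit 0) (nat_lit 5212894324) (nat_lit 152) (nat_lit 7988700051) (nat_lit 228) (nat_lit 47358383119) (nat_lit 200) (nat_lit 5) (nat_lit 202) (nat_lit 5) (nat_lit 203) (nat_lit 5) (nat_lit 418) (nat_lit 363) (nat_lit 239)) (XT.lf (nat_lit 0) (nat_lit 31914817481) (nat_lit 228) (nat_lit 16613793719) (nat_lit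 76) (nat_lit 13960937016) (nat_lit 200) (nat_lit 5) (nat_lit 203) (nat_lit 5) (nat_lit 201) (nat_lit 4) (nat_lit 419) (nat_lit 363) (nat_lit 238)))) (XT.nd (nat_lit 156) (nat_lit 76) (nat_lit 0) (XT.nd (nat_lit 78) (nat_lit 228) (nat_lit 0) (XT.lf (nat_lit 0) (nat_lit 24706961650) (nat_lit 76) (nat_lit 27368610924) (nat_lit 152) (nat_lit 12414431357) (nat_lit 199) (nat_lit 5) (nat_lit 200) (nat_lit 5) (nat_lit 201) (nat_lit 4) (nat_lit 420) (nat_lit 363) (nat_lit 237)) (XT.lf (nat_lit 0) (nat_lit 2041963819) (nat_lit 152) (nat_lit 4711986971) (nat_lit 228) (nat_lit 59815685674) (nat_lit 196) (nat_lit 5) (nat_lit 198) (nat_lit 5) (nat_lit 199) (nat_lit 5) (nat_lit 421) (nat_lit 363) (nat_lit 236))) (XT.nd (nat_lit 78) (nat_lit 76) (nat_lit 0) (XT.lf (nat_lit 0) (nat_lit 27441392420) (nat_lit 228) (nat_lit 21901632326) (nat_lit 76) (nat_lit 19351157779) (nat_lit 196) (nat_lit 5) (nat_lit 199) (nat_lit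 5) (nat_lit 197) (nat_lit 4) (nat_lit 422) (nat_lit 363) (nat_lit 235)) (XT.lf (nat_lit 0) (nat_lit 23522715681) (nat_lit 76) (nat_lit 26080423899) (nat_lit 152) (nat_lit 21299819637) (nat_lit 195) (nat_lit 5) (nat_lit 196) (nat_lit 5) (nat_lit 197) (nat_lit 4) (nat_lit 423) (nat_lit 363) (nat_lit 234))))) (XT.nd (nat_lit 312) (nat_lit 380) (nat_lit 0) (XT.nd (nat_lit 156) (nat_lit 76) (nat_lit 0) (XT.nd (nat_lit 78) (nat_lit 152) (nat_lit 0) (XT.lf (nat_lit 0) (nat_lit 34415088) (nat_lit 152) (nat_lit 1234235287) (nat_lit 76) (nat_lit 71935175013) (nat_lit 194) (nat_lit 5) (nat_lit 196) (nat_lit 5) (nat_lit 195) (nat_lit 5) (nat_lit 424) (nat_lit 363) (nat_lit 233)) (XT.lf (nat_lit 0) (nat_lit 22876039655) (nat_lit 228) (nat_lit 27558567108) (nat_lit 76) (nat_lit 25109844650) (nat_lit 192) (nat_lit 5) (nat_lit 195) (nat_lit 5) (nat_lit 193) (nat_lit 4) (nat_lit 425) (nat_lit 363) (nat_lit 232)))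 (XT.nd (nat_lit 78) (nat_lit 0) (nat_lit 0) (XT.lf (nat_lit 0) (nat_lit 22396231821) (nat_lit 76) (nat_lit 24850905438) (nat_lit 152) (nat_lit 30735601889) (nat_lit 191) (nat_lit 5) (nat_lit 192) (nat_lit 5) (nat_lit 193) (nat_lit 4) (nat_lit 426) (nat_lit 363) (nat_lit 231)) (XT.lf (nat_lit 0) (nat_lit 73338271061) (nat_lit 152) (nat_lit 4761389209) (nat_lit 0) (nat_lit 2418206935) (nat_lit 191) (nat_lit 5) (nat_lit 193) (nat_lit 4) (nat_lit 191) (nat_lit 4) (nat_lit 427) (nat_lit 363) (nat_lit 230)))) (XT.nd (nat_lit 156) (nat_lit 152) (nat_lit 0) (XT.nd (nat_lit 78) (nat_lit 76) (nat_lit 0) (XT.lf (nat_lit 0) (nat_lit 18192268980) (nat_lit 152) (nat_lit 33631053550) (nat_lit 76) (nat_lit 31282730442) (nat_lit 189) (nat_lit 5) (nat_lit 191) (nat_lit 5) (nat_lit 190) (nat_lit 4) (nat_lit 428) (nat_lit 363) (nat_lit 229)) (XT.lf (nat_lit 0) (nat_lit 21324516694) (nat_lit 76) (nat_lit 23677735836)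 (nat_lit 152) (nat_lit 40794970248) (nat_lit 188) (nat_lit 5) (nat_lit 189) (nat_lit 5) (nat_lit 190) (nat_lit 4) (nat_lit 429) (nat_lit 363) (nat_lit 228))) (XT.nd (nat_lit 78) (nat_lit 152) (nat_lit 0) (XT.lf (nat_lit 0) (nat_lit 73819285859) (nat_lit 152) (nat_lit 8507969810) (nat_lit 0) (nat_lit 6262367876) (nat_lit 188) (nat_lit 5) (nat_lit 190) (nat_lit 4) (nat_lit 188) (nat_lit 4) (nat_lit 430) (nat_lit 363) (nat_lit 227)) (XT.lf (nat_lit 0) (nat_lit 13361618637) (nat_lit 152) (nat_lit 40169829153) (nat_lit 76) (nat_lit 37919997842) (nat_lit 186) (nat_lit 5) (nat_lit 188) (nat_lit 5) (nat_lit 187) (nat_lit 4) (nat_lit 431) (nat_lit 363) (nat_lit 226)))))) (XT.nd (nat_lit 624) (nat_lit 684) (nat_lit 0) (XT.nd (nat_lit 312) (nat_lit 228) (nat_lit 0) (XT.nd (nat_lit 156) (nat_lit 228) (nat_lit 0) (XT.nd (nat_lit 78) (nat_lit 0) (nat_lit 0) (XT.lf (nat_lit 0) (nat_lit 20304762514) (nat_lit 76)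 (nat_lit 22558621804) (nat_lit 152) (nat_lit 51557888085) (nat_lit 185) (nat_lit 5) (nat_lit 186) (nat_lit 5) (nat_lit 187) (nat_lit 4) (nat_lit 432) (nat_lit 363) (nat_lit 225)) (XT.lf (nat_lit 0) (nat_lit 74683375521) (nat_lit 152) (nat_lit 12482122141) (nat_lit 0) (nat_lit 10331935988) (nat_lit 185) (nat_lit 5) (nat_lit 187) (nat_lit 4) (nat_lit 185) (nat_lit 4) (nat_lit 433) (nat_lit 363) (nat_lit 224))) (XT.nd (nat_lit 78) (nat_lit 76) (nat_lit 0) (XT.lf (nat_lit 0) (nat_lit 8353430063) (nat_lit 152) (nat_lit 47230387421) (nat_lit 76) (nat_lit 45076721750) (nat_lit 183) (nat_lit 5) (nat_lit 185) (nat_lit 5) (nat_lit 184) (nat_lit 4) (nat_lit 434) (nat_lit 363) (nat_lit 223)) (XT.lf (nat_lit 0) (nat_lit 19334330614) (nat_lit 76) (nat_lit 21491310114) (nat_lit 152) (nat_lit 63111806820) (nat_lit 182) (nat_lit 5) (nat_lit 183) (nat_lit 5) (nat_lit 184) (nat_lit 4) (nat_lit 435) (nat_lit 363)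 (nat_lit 222)))) (XT.nd (nat_lit 156) (nat_lit 76) (nat_lit 0) (XT.nd (nat_lit 78) (nat_lit 152) (nat_lit 0) (XT.lf (nat_lit 0) (nat_lit 75954139073) (nat_lit 152) (nat_lit 16714850139) (nat_lit 0) (nat_lit 14657578209) (nat_lit 182) (nat_lit 5) (nat_lit 184) (nat_lit 4) (nat_lit 182) (nat_lit 4) (nat_lit 436) (nat_lit 363) (nat_lit 221)) (XT.lf (nat_lit 0) (nat_lit 3134598476) (nat_lit 152) (nat_lit 54873496596) (nat_lit 76) (nat_lit 52813362057) (nat_lit 180) (nat_lit 5) (nat_lit 182) (nat_lit 5) (nat_lit 181) (nat_lit 4) (nat_lit 437) (nat_lit 363) (nat_lit 220))) (XT.nd (nat_lit 78) (nat_lit 0) (nat_lit 0) (XT.lf (nat_lit 0) (nat_lit 18410737115) (nat_lit 76) (nat_lit 20473597949) (nat_lit 152) (nat_lit 75552457265) (nat_lit 179) (nat_lit 5) (nat_lit 180) (nat_lit 5) (nat_lit 181) (nat_lit 4) (nat_lit 438) (nat_lit 363) (nat_lit 219)) (XT.lf (nat_lit 0) (nat_lit 77658300077) (nat_lit 152) (nat_lit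 21239929663) (nat_lit 0) (nat_lit 19272827469) (nat_lit 179) (nat_lit 5) (nat_lit 181) (nat_lit 4) (nat_lit 179) (nat_lit 4) (nat_lit 439) (nat_lit 363) (nat_lit 218))))) (XT.nd (nat_lit 312) (nat_lit 380) (nat_lit 0) (XT.nd (nat_lit 156) (nat_lit 76) (nat_lit 0) (XT.nd (nat_lit 78) (nat_lit 152) (nat_lit 0) (XT.lf (nat_lit 0) (nat_lit 58826136703) (nat_lit 76) (nat_lit 60795593974) (nat_lit 76) (nat_lit 2407766290) (nat_lit 178) (nat_lit 4) (nat_lit 179) (nat_lit 5) (nat_lit 179) (nat_lit 4) (nat_lit 440) (nat_lit 363) (nat_lit 217)) (XT.lf (nat_lit 0) (nat_lit 17531640388) (nat_lit 76) (nat_lit 19503340587) (nat_lit 152) (nat_lit 88984722693) (nat_lit 176) (nat_lit 5) (nat_lit 177) (nat_lit 5) (nat_lit 178) (nat_lit 4) (nat_lit 441) (nat_lit 363) (nat_lit 216))) (XT.nd (nat_lit 78) (nat_lit 76) (nat_lit 0) (XT.lf (nat_lit 0) (nat_lit 79826000452) (nat_lit 152) (nat_lit 26094219106) (nat_lit 0)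 (nat_lit 24214374989) (nat_lit 176) (nat_lit 5) (nat_lit 178) (nat_lit 4) (nat_lit 176) (nat_lit 4) (nat_lit 442) (nat_lit 363) (nat_lit 215)) (XT.lf (nat_lit 0) (nat_lit 62080312624) (nat_lit 76) (nat_lit 63962094267) (nat_lit 76) (nat_lit 8348531278) (nat_lit 175) (nat_lit 4) (nat_lit 176) (nat_lit 5) (nat_lit 176) (nat_lit 4) (nat_lit 443) (nat_lit 363) (nat_lit 214)))) (XT.nd (nat_lit 156) (nat_lit 228) (nat_lit 0) (XT.nd (nat_lit 78) (nat_lit 0) (nat_lit 0) (XT.lf (nat_lit 0) (nat_lit 16694830030) (nat_lit 76) (nat_lit 18578456936) (nat_lit 152) (nat_lit 103523601691) (nat_lit 173) (nat_lit 5) (nat_lit 174) (nat_lit 5) (nat_lit 175) (nat_lit 4) (nat_lit 444) (nat_lit 363) (nat_lit 213)) (XT.lf (nat_lit 0) (nat_lit 82491124402) (nat_lit 152) (nat_lit 31317999310) (nat_lit 0) (nat_lit 29522395215) (nat_lit 173) (nat_lit 5) (nat_lit 175) (nat_lit 4) (nat_lit 173) (nat_lit 4) (nat_lit 445) (nat_lit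 363) (nat_lit 212))) (XT.nd (nat_lit 78) (nat_lit 152) (nat_lit 0) (XT.lf (nat_lit 0) (nat_lit 65800787251) (nat_lit 76) (nat_lit 67597985355) (nat_lit 76) (nat_lit 14627662160) (nat_lit 172) (nat_lit 4) (nat_lit 173) (nat_lit 5) (nat_lit 173) (nat_lit 4) (nat_lit 446) (nat_lit 363) (nat_lit 211)) (XT.lf (nat_lit 0) (nat_lit 15898217120) (nat_lit 76) (nat_lit 17696933327) (nat_lit 152) (nat_lit 119295269705) (nat_lit 170) (nat_lit 5) (nat_lit 171) (nat_lit 5) (nat_lit 172) (nat_lit 4) (nat_lit 447) (nat_lit 363) (nat_lit 210))))))))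
noncomputable def xc200 : XT := (XT.nd (nat_lit 2496) (nat_lit 912) (nat_lit 0) (XT.nd (nat_lit 1248) (nat_lit 1216) (nat_lit 0) (XT.nd (nat_lit 624) (nat_lit 608) (nat_lit 0) (XT.nd (nat_lit 312) (nat_lit 304) (nat_lit 0) (XT.nd (nat_lit 156) (nat_lit 152) (nat_lit 0) (XT.nd (nat_lit 78) (nat_lit 76) (nat_lit 0) (XT.lf (nat_lit 0) (nat_lit 85691655762) (nat_lit 152) (nat_lit 36955346151) (nat_lit 0) (nat_lit 35240906134) (nat_lit 170) (nat_lit 5) (nat_lit 172) (nat_lit 4) (nat_lit 170) (nat_lit 4) (nat_lit 448) (nat_lit 363) (nat_lit 209)) (XT.lf (nat_lit 0) (nat_lit 70028932350) (nat_lit 76) (nat_lit 71744683761) (nat_lit 76) (nat_lit 21292622739) (nat_lit 169) (nat_lit 4) (nat_lit 170) (nat_lit 5) (nat_lit 170) (nat_lit 4) (nat_lit 449) (nat_lit 363) (nat_lit 208))) (XT.nd (nat_lit 78) (nat_lit 0) (nat_lit 0) (XT.lf (nat_lit 0) (nat_lit 15139825559) (nat_lit 76) (nat_lit 16856825918) (nat_lit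 152) (nat_lit 136438249203) (nat_lit 167) (nat_lit 5) (nat_lit 168) (nat_lit 5) (nat_lit 169) (nat_lit 4) (nat_lit 450) (nat_lit 363) (nat_lit 207)) (XT.lf (nat_lit 0) (nat_lit 89470072363) (nat_lit 152) (nat_lit 43054539400) (nat_lit 0) (nat_lit 41418168132) (nat_lit 167) (nat_lit 5) (nat_lit 169) (nat_lit 4) (nat_lit 167) (nat_lit 4) (nat_lit 451) (nat_lit 363) (nat_lit 206)))) (XT.nd (nat_lit 156) (nat_lit 76) (nat_lit 0) (XT.nd (nat_lit 78) (nat_lit 152) (nat_lit 0) (XT.lf (nat_lit 0) (nat_lit 74810684383) (nat_lit 76) (nat_lit 76448134539) (nat_lit 76) (nat_lit 28395151420) (nat_lit 166) (nat_lit 4) (nat_lit 167) (nat_lit 5) (nat_lit 167) (nat_lit 4) (nat_lit 452) (nat_lit 363) (nat_lit 205)) (XT.lf (nat_lit 0) (nat_lit 14417784326) (nat_lit 76) (nat_lit 16056261993) (nat_lit 152) (nat_lit 155104699412) (nat_lit 164) (nat_lit 5) (nat_lit 165) (nat_lit 5) (nat_lit 166) (nat_lit 4) (nat_lit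 453) (nat_lit 363) (nat_lit 204))) (XT.nd (nat_lit 78) (nat_lit 76) (nat_lit 0) (XT.lf (nat_lit 0) (nat_lit 93873781341) (nat_lit 152) (nat_lit 49668511853) (nat_lit 0) (nat_lit 48107124948) (nat_lit 164) (nat_lit 5) (nat_lit 166) (nat_lit 4) (nat_lit 164) (nat_lit 4) (nat_lit 454) (nat_lit 363) (nat_lit 203)) (XT.lf (nat_lit 0) (nat_lit 80196993737) (nat_lit 76) (nat_lit 81759268245) (nat_lit 76) (nat_lit 35991724249) (nat_lit 163) (nat_lit 4) (nat_lit 164) (nat_lit 5) (nat_lit 164) (nat_lit 4) (nat_lit 455) (nat_lit 363) (nat_lit 202))))) (XT.nd (nat_lit 312) (nat_lit 228) (nat_lit 0) (XT.nd (nat_lit 156) (nat_lit 228) (nat_lit 0) (XT.nd (nat_lit 78) (nat_lit 0) (nat_lit 0) (XT.lf (nat_lit 0) (nat_lit 13730320532) (nat_lit 76) (nat_lit 15293440377) (nat_lit 152) (nat_lit 175461837766) (nat_lit 161) (nat_lit 5) (nat_lit 162) (nat_lit 5) (nat_lit 163) (nat_lit 4) (nat_lit 456) (nat_lit 363) (nat_lit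 201)) (XT.lf (nat_lit 0) (nat_lit 98955599695) (nat_lit 152) (nat_lit 56855343039) (nat_lit 0) (nat_lit 55365890728) (nat_lit 161) (nat_lit 5) (nat_lit 163) (nat_lit 4) (nat_lit 161) (nat_lit 4) (nat_lit 457) (nat_lit 363) (nat_lit 200))) (XT.nd (nat_lit 78) (nat_lit 152) (nat_lit 0) (XT.lf (nat_lit 0) (nat_lit 86244321449) (nat_lit 76) (nat_lit 87734503994) (nat_lit 76) (nat_lit 44144064794) (nat_lit 160) (nat_lit 4) (nat_lit 161) (nat_lit 5) (nat_lit 161) (nat_lit 4) (nat_lit 458) (nat_lit 363) (nat_lit 199)) (XT.lf (nat_lit 0) (nat_lit 13075753145) (nat_lit 76) (nat_lit 14566631150) (nat_lit 152) (nat_lit 197693506467) (nat_lit 158) (nat_lit 5) (nat_lit 159) (nat_lit 5) (nat_lit 160) (nat_lit 4) (nat_lit 459) (nat_lit 363) (nat_lit 198)))) (XT.nd (nat_lit 156) (nat_lit 152) (nat_lit 0) (XT.nd (nat_lit 78) (nat_lit 76) (nat_lit 0) (XT.lf (nat_lit 0) (nat_lit 104774284793) (nat_lit 152) (nat_lit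 64678802264) (nat_lit 0) (nat_lit 63258287646) (nat_lit 158) (nat_lit 5) (nat_lit 160) (nat_lit 4) (nat_lit 158) (nat_lit 4) (nat_lit 460) (nat_lit 363) (nat_lit 197)) (XT.lf (nat_lit 0) (nat_lit 93015188140) (nat_lit 76) (nat_lit 94436303522) (nat_lit 76) (nat_lit 52919705611) (nat_lit 157) (nat_lit 4) (nat_lit 158) (nat_lit 5) (nat_lit 158) (nat_lit 4) (nat_lit 461) (nat_lit 363) (nat_lit 196))) (XT.nd (nat_lit 78) (nat_lit 0) (nat_lit 0) (XT.lf (nat_lit 0) (nat_lit 12452487294) (nat_lit 76) (nat_lit 13874174833) (nat_lit 152) (nat_lit 222001898972) (nat_lit 155) (nat_lit 5) (nat_lit 156) (nat_lit 5) (nat_lit 157) (nat_lit 4) (nat_lit 462) (nat_lit 363) (nat_lit 195)) (XT.lf (nat_lit 0) (nat_lit 111395120012) (nat_lit 152) (nat_lit 73208946175) (nat_lit 0) (nat_lit 71854439079) (nat_lit 155) (nat_lit 5) (nat_lit 157) (nat_lit 4) (nat_lit 155) (nat_lit 4) (nat_lit 463) (nat_lit 363) (nat_lit 194))))))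 (XT.nd (nat_lit 624) (nat_lit 532) (nat_lit 0) (XT.nd (nat_lit 312) (nat_lit 380) (nat_lit 0) (XT.nd (nat_lit 156) (nat_lit 76) (nat_lit 0) (XT.nd (nat_lit 78) (nat_lit 152) (nat_lit 0) (XT.lf (nat_lit 0) (nat_lit 100578780356) (nat_lit 76) (nat_lit 101933781702) (nat_lit 76) (nat_lit 62392606518) (nat_lit 154) (nat_lit 4) (nat_lit 155) (nat_lit 5) (nat_lit 155) (nat_lit 4) (nat_lit 464) (nat_lit 363) (nat_lit 193)) (XT.lf (nat_lit 0) (nat_lit 11859009088) (nat_lit 76) (nat_lit 13214481149) (nat_lit 152) (nat_lit 248609462740) (nat_lit 152) (nat_lit 5) (nat_lit 153) (nat_lit 5) (nat_lit 154) (nat_lit 4) (nat_lit 465) (nat_lit 363) (nat_lit 192))) (XT.nd (nat_lit 78) (nat_lit 76) (nat_lit 0) (XT.lf (nat_lit 0) (nat_lit 118890561184) (nat_lit 152) (nat_lit 82522776577) (nat_lit 0) (nat_lit 81231423852) (nat_lit 152) (nat_lit 5) (nat_lit 154) (nat_lit 4) (nat_lit 152) (nat_lit 4) (nat_lit 466) (nat_lit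 363) (nat_lit 191)) (XT.lf (nat_lit 0) (nat_lit 109011620083) (nat_lit 76) (nat_lit 110303379429) (nat_lit 76) (nat_lit 72643835476) (nat_lit 151) (nat_lit 4) (nat_lit 152) (nat_lit 5) (nat_lit 152) (nat_lit 4) (nat_lit 467) (nat_lit 363) (nat_lit 190)))) (XT.nd (nat_lit 156) (nat_lit 228) (nat_lit 0) (XT.nd (nat_lit 78) (nat_lit 0) (nat_lit 0) (XT.lf (nat_lit 0) (nat_lit 11293880861) (nat_lit 76) (nat_lit 12586027466) (nat_lit 152) (nat_lit 277760996276) (nat_lit 149) (nat_lit 5) (nat_lit 150) (nat_lit 5) (nat_lit 151) (nat_lit 4) (nat_lit 468) (nat_lit 363) (nat_lit 189)) (XT.lf (nat_lit 0) (nat_lit 127340950107) (nat_lit 152) (nat_lit 92704964767) (nat_lit 0) (nat_lit 91473997698) (nat_lit 149) (nat_lit 5) (nat_lit 151) (nat_lit 4) (nat_lit 149) (nat_lit 4) (nat_lit 469) (nat_lit 363) (nat_lit 188))) (XT.nd (nat_lit 78) (nat_lit 152) (nat_lit 0) (XT.lf (nat_lit 0) (nat_lit 118398303807) (nat_lit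 76) (nat_lit 119629605404) (nat_lit 76) (nat_lit 83762318467) (nat_lit 148) (nat_lit 4) (nat_lit 149) (nat_lit 5) (nat_lit 149) (nat_lit 4) (nat_lit 470) (nat_lit 363) (nat_lit 187)) (XT.lf (nat_lit 0) (nat_lit 10755736817) (nat_lit 76) (nat_lit 11987357013) (nat_lit 152) (nat_lit 309725960384) (nat_lit 146) (nat_lit 5) (nat_lit 147) (nat_lit 5) (nat_lit 148) (nat_lit 4) (nat_lit 471) (nat_lit 363) (nat_lit 186))))) (XT.nd (nat_lit 312) (nat_lit 304) (nat_lit 0) (XT.nd (nat_lit 156) (nat_lit 152) (nat_lit 0) (XT.nd (nat_lit 78) (nat_lit 76) (nat_lit 0) (XT.lf (nat_lit 0) (nat_lit 136835302007) (nat_lit 152) (nat_lit 103848649302) (nat_lit 0) (nat_lit 102675388709) (nat_lit 146) (nat_lit 5) (nat_lit 148) (nat_lit 4) (nat_lit 146) (nat_lit 4) (nat_lit 472) (nat_lit 363) (nat_lit 185)) (XT.lf (nat_lit 0) (nat_lit 128832318144) (nat_lit 76) (nat_lit 130005853954) (nat_lit 76) (nat_lit 95845665439)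 (nat_lit 145) (nat_lit 4) (nat_lit 146) (nat_lit 5) (nat_lit 146) (nat_lit 4) (nat_lit 473) (nat_lit 363) (nat_lit 184))) (XT.nd (nat_lit 78) (nat_lit 0) (nat_lit 0) (XT.lf (nat_lit 0) (nat_lit 10243278995) (nat_lit 76) (nat_lit 11417076917) (nat_lit 152) (nat_lit 344801025547) (nat_lit 143) (nat_lit 5) (nat_lit 144) (nat_lit 5) (nat_lit 145) (nat_lit 4) (nat_lit 474) (nat_lit 363) (nat_lit 183)) (XT.lf (nat_lit 0) (nat_lit 147472174522) (nat_lit 152) (nat_lit 116056314804) (nat_lit 0) (nat_lit 114938174278) (nat_lit 143) (nat_lit 5) (nat_lit 145) (nat_lit 4) (nat_lit 143) (nat_lit 4) (nat_lit 475) (nat_lit 363) (nat_lit 182)))) (XT.nd (nat_lit 156) (nat_lit 76) (nat_lit 0) (XT.nd (nat_lit 78) (nat_lit 152) (nat_lit 0) (XT.lf (nat_lit 0) (nat_lit 140416939833) (nat_lit 76) (nat_lit 141535306781) (nat_lit 76) (nat_lit 109001080114) (nat_lit 142) (nat_lit 4) (nat_lit 143) (nat_lit 5) (nat_lit 143)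 (nat_lit 4) (nat_lit 476) (nat_lit 363) (nat_lit 181)) (XT.lf (nat_lit 0) (nat_lit 9755273548) (nat_lit 76) (nat_lit 10873856136) (nat_lit 152) (nat_lit 383312879664) (nat_lit 140) (nat_lit 5) (nat_lit 141) (nat_lit 5) (nat_lit 142) (nat_lit 4) (nat_lit 477) (nat_lit 363) (nat_lit 180))) (XT.nd (nat_lit 78) (nat_lit 76) (nat_lit 0) (XT.lf (nat_lit 0) (nat_lit 159360626570) (nat_lit 152) (nat_lit 129440760171) (nat_lit 0) (nat_lit 128375247829) (nat_lit 140) (nat_lit 5) (nat_lit 142) (nat_lit 4) (nat_lit 140) (nat_lit 4) (nat_lit 478) (nat_lit 363) (nat_lit 179)) (XT.lf (nat_lit 0) (nat_lit 153266228650) (nat_lit 76) (nat_lit 154331927270) (nat_lit 76) (nat_lit 123346362251) (nat_lit 139) (nat_lit 4) (nat_lit 140) (nat_lit 5) (nat_lit 140) (nat_lit 4) (nat_lit 479) (nat_lit 363) (nat_lit 178))))))) (XT.nd (nat_lit 44382) (nat_lit 0) (nat_lit 10564) (XT.nd (nat_lit 624) (nat_lit 304) (nat_lit 0)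 (XT.nd (nat_lit 312) (nat_lit 228) (nat_lit 0) (XT.nd (nat_lit 156) (nat_lit 228) (nat_lit 0) (XT.nd (nat_lit 78) (nat_lit 0) (nat_lit 0) (XT.lf (nat_lit 0) (nat_lit 9290547280) (nat_lit 76) (nat_lit 10356423308) (nat_lit 152) (nat_lit 425621322824) (nat_lit 137) (nat_lit 5) (nat_lit 138) (nat_lit 5) (nat_lit 139) (nat_lit 4) (nat_lit 480) (nat_lit 363) (nat_lit 177)) (XT.lf (nat_lit 0) (nat_lit 172621276284) (nat_lit 152) (nat_lit 144126165427) (nat_lit 0) (nat_lit 143110884488) (nat_lit 137) (nat_lit 5) (nat_lit 139) (nat_lit 4) (nat_lit 137) (nat_lit 4) (nat_lit 481) (nat_lit 363) (nat_lit 176))) (XT.nd (nat_lit 78) (nat_lit 152) (nat_lit 0) (XT.lf (nat_lit 0) (nat_lit 167506122724) (nat_lit 76) (nat_lit 168521556915) (nat_lit 76) (nat_lit 139011011868) (nat_lit 136) (nat_lit 4) (nat_lit 137) (nat_lit 5) (nat_lit 137) (nat_lit 4) (nat_lit 482) (nat_lit 363) (nat_lit 175)) (XT.lf (nat_lit 0)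 (nat_lit 8847984420) (nat_lit 76) (nat_lit 9863564565) (nat_lit 152) (nat_lit 472122678554) (nat_lit 134) (nat_lit 5) (nat_lit 135) (nat_lit 5) (nat_lit 136) (nat_lit 4) (nat_lit 483) (nat_lit 363) (nat_lit 174)))) (XT.nd (nat_lit 156) (nat_lit 152) (nat_lit 0) (XT.nd (nat_lit 78) (nat_lit 76) (nat_lit 0) (XT.lf (nat_lit 0) (nat_lit 187387468176) (nat_lit 152) (nat_lit 160249267361) (nat_lit 0) (nat_lit 159281915791) (nat_lit 134) (nat_lit 5) (nat_lit 136) (nat_lit 4) (nat_lit 134) (nat_lit 4) (nat_lit 484) (nat_lit 363) (nat_lit 173)) (XT.lf (nat_lit 0) (nat_lit 183275646696) (nat_lit 76) (nat_lit 184243124346) (nat_lit 76) (nat_lit 156137445881) (nat_lit 133) (nat_lit 4) (nat_lit 134) (nat_lit 5) (nat_lit 134) (nat_lit 4) (nat_lit 485) (nat_lit 363) (nat_lit 172))) (XT.nd (nat_lit 78) (nat_lit 0) (nat_lit 0) (XT.lf (nat_lit 0) (nat_lit 8426523613) (nat_lit 76) (nat_lit 9394121340) (nat_lit 152)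 (nat_lit 523253553988) (nat_lit 131) (nat_lit 5) (nat_lit 132) (nat_lit 5) (nat_lit 133) (nat_lit 4) (nat_lit 486) (nat_lit 363) (nat_lit 171)) (XT.lf (nat_lit 0) (nat_lit 203806560687) (nat_lit 152) (nat_lit 177960655149) (nat_lit 0) (nat_lit 177039024592) (nat_lit 131) (nat_lit 5) (nat_lit 133) (nat_lit 4) (nat_lit 131) (nat_lit 4) (nat_lit 487) (nat_lit 363) (nat_lit 170))))) (XT.nd (nat_lit 43446) (nat_lit 0) (nat_lit 12540) (XT.nd (nat_lit 156) (nat_lit 76) (nat_lit 0) (XT.nd (nat_lit 78) (nat_lit 152) (nat_lit 0) (XT.lf (nat_lit 0) (nat_lit 200728244239) (nat_lit 76) (nat_lit 201649978522) (nat_lit 76) (nat_lit 174882338700) (nat_lit 130) (nat_lit 4) (nat_lit 131) (nat_lit 5) (nat_lit 131) (nat_lit 4) (nat_lit 488) (nat_lit 363) (nat_lit 169)) (XT.lf (nat_lit 0) (nat_lit 8025155101) (nat_lit 76) (nat_lit 8946988171) (nat_lit 152) (nat_lit 579494984748) (nat_lit 128) (nat_lit 5) (nat_lit 129)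 (nat_lit 5) (nat_lit 130) (nat_lit 4) (nat_lit 489) (nat_lit 363) (nat_lit 168))) (XT.nd (nat_lit 78) (nat_lit 76) (nat_lit 0) (XT.lf (nat_lit 0) (nat_lit 222041346443) (nat_lit 152) (nat_lit 197426198312) (nat_lit 0) (nat_lit 196548172451) (nat_lit 128) (nat_lit 5) (nat_lit 130) (nat_lit 4) (nat_lit 128) (nat_lit 4) (nat_lit 490) (nat_lit 363) (nat_lit 167)) (XT.lf (nat_lit 0) (nat_lit 220033247650) (nat_lit 76) (nat_lit 220911358847) (nat_lit 76) (nat_lit 195418099518) (nat_lit 127) (nat_lit 4) (nat_lit 128) (nat_lit 5) (nat_lit 128) (nat_lit 4) (nat_lit 491) (nat_lit 363) (nat_lit 166)))) (XT.nd (nat_lit 156) (nat_lit 0) (nat_lit 76) (XT.nd (nat_lit 78) (nat_lit 0) (nat_lit 0) (XT.lf (nat_lit 0) (nat_lit 485037796) (nat_lit 836) (nat_lit 3093703359) (nat_lit 836) (nat_lit 3093703359) (nat_lit 292) (nat_lit 3) (nat_lit 303) (nat_lit 3) (nat_lit 303) (nat_lit 5) (nat_lit 364) (nat_lit 364) (nat_lit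 292)) (XT.lf (nat_lit 76) (nat_lit 501075336) (nat_lit 0) (nat_lit 877512043) (nat_lit 836) (nat_lit 12280710883) (nat_lit 293) (nat_lit 5) (nat_lit 292) (nat_lit 3) (nat_lit 303) (nat_lit 5) (nat_lit 365) (nat_lit 364) (nat_lit 291))) (XT.nd (nat_lit 78) (nat_lit 0) (nat_lit 0) (XT.lf (nat_lit 0) (nat_lit 1979153870) (nat_lit 760) (nat_lit 6350821484) (nat_lit 836) (nat_lit 5650871145) (nat_lit 293) (nat_lit 5) (nat_lit 303) (nat_lit 5) (nat_lit 304) (nat_lit 5) (nat_lit 366) (nat_lit 364) (nat_lit 290)) (XT.lf (nat_lit 76) (nat_lit 794213497) (nat_lit 0) (nat_lit 1819344017) (nat_lit 836) (nat_lit 11704724191) (nat_lit 294) (nat_lit 5) (nat_lit 293) (nat_lit 5) (nat_lit 304) (nat_lit 5) (nat_lit 367) (nat_lit 364) (nat_lit 289)))))) (XT.nd (nat_lit 624) (nat_lit 1596) (nat_lit 0) (XT.nd (nat_lit 312) (nat_lit 532) (nat_lit 0) (XT.nd (nat_lit 156) (nat_lit 0) (nat_lit 76) (XT.nd (nat_lit 78) (nat_lit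 0) (nat_lit 0) (XT.lf (nat_lit 0) (nat_lit 3445364851) (nat_lit 760) (nat_lit 6245101219) (nat_lit 836) (nat_lit 4973838428) (nat_lit 294) (nat_lit 5) (nat_lit 304) (nat_lit 5) (nat_lit 305) (nat_lit 5) (nat_lit 368) (nat_lit 364) (nat_lit 288)) (XT.lf (nat_lit 76) (nat_lit 1398672314) (nat_lit 0) (nat_lit 2950837972) (nat_lit 836) (nat_lit 10676580757) (nat_lit 295) (nat_lit 5) (nat_lit 294) (nat_lit 5) (nat_lit 305) (nat_lit 5) (nat_lit 369) (nat_lit 364) (nat_lit 287))) (XT.nd (nat_lit 78) (nat_lit 0) (nat_lit 0) (XT.lf (nat_lit 0) (nat_lit 5450738378) (nat_lit 760) (nat_lit 5840337478) (nat_lit 836) (nat_lit 4107297290) (nat_lit 295) (nat_lit 5) (nat_lit 305) (nat_lit 5) (nat_lit 306) (nat_lit 5) (nat_lit 370) (nat_lit 364) (nat_lit 286)) (XT.lf (nat_lit 76) (nat_lit 2348646806) (nat_lit 0) (nat_lit 4324341452) (nat_lit 836) (nat_lit 9112983077) (nat_lit 296) (nat_lit 5) (nat_lit 295) (nat_lit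 5) (nat_lit 306) (nat_lit 5) (nat_lit 371) (nat_lit 364) (nat_lit 285)))) (XT.nd (nat_lit 156) (nat_lit 684) (nat_lit 0) (XT.nd (nat_lit 78) (nat_lit 0) (nat_lit 0) (XT.lf (nat_lit 0) (nat_lit 8085249890) (nat_lit 760) (nat_lit 5101481637) (nat_lit 836) (nat_lit 2999772943) (nat_lit 296) (nat_lit 5) (nat_lit 306) (nat_lit 5) (nat_lit 307) (nat_lit 5) (nat_lit 372) (nat_lit 364) (nat_lit 284)) (XT.lf (nat_lit 76) (nat_lit 3683878083) (nat_lit 0) (nat_lit 5995200822) (nat_lit 836) (nat_lit 6922437643) (nat_lit 297) (nat_lit 5) (nat_lit 296) (nat_lit 5) (nat_lit 307) (nat_lit 5) (nat_lit 373) (nat_lit 364) (nat_lit 283))) (XT.nd (nat_lit 78) (nat_lit 760) (nat_lit 0) (XT.lf (nat_lit 0) (nat_lit 11447906539) (nat_lit 760) (nat_lit 3987996600) (nat_lit 76) (nat_lit 1596610732) (nat_lit 297) (nat_lit 5) (nat_lit 307) (nat_lit 5) (nat_lit 298) (nat_lit 5) (nat_lit 374) (nat_lit 364) (nat_lit 282)) (XT.lf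 (nat_lit 0) (nat_lit 5450046129) (nat_lit 760) (nat_lit 8022504489) (nat_lit 836) (nat_lit 4004141688) (nat_lit 287) (nat_lit 5) (nat_lit 297) (nat_lit 5) (nat_lit 298) (nat_lit 5) (nat_lit 375) (nat_lit 364) (nat_lit 281))))) (XT.nd (nat_lit 312) (nat_lit 684) (nat_lit 0) (XT.nd (nat_lit 156) (nat_lit 456) (nat_lit 0) (XT.nd (nat_lit 78) (nat_lit 456) (nat_lit 0) (XT.lf (nat_lit 0) (nat_lit 15484440064) (nat_lit 760) (nat_lit 166071201) (nat_lit 836) (nat_lit 2289964180) (nat_lit 287) (nat_lit 5) (nat_lit 297) (nat_lit 5) (nat_lit 298) (nat_lit 5) (nat_lit 376) (nat_lit 364) (nat_lit 280)) (XT.lf (nat_lit 0) (nat_lit 7699232606) (nat_lit 456) (nat_lit 10469848264) (nat_lit 532) (nat_lit 246781325) (nat_lit 281) (nat_lit 5) (nat_lit 287) (nat_lit 5) (nat_lit 288) (nat_lit 5) (nat_lit 377) (nat_lit 364) (nat_lit 279))) (XT.nd (nat_lit 78) (nat_lit 380) (nat_lit 0) (XT.lf (nat_lit 0) (nat_lit 1868346866)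 (nat_lit 532) (nat_lit 512798819) (nat_lit 76) (nat_lit 16530862906) (nat_lit 280) (nat_lit 5) (nat_lit 287) (nat_lit 5) (nat_lit 281) (nat_lit 5) (nat_lit 378) (nat_lit 364) (nat_lit 278)) (XT.lf (nat_lit 0) (nat_lit 4329615427) (nat_lit 456) (nat_lit 9003193212) (nat_lit 76) (nat_lit 6087517515) (nat_lit 275) (nat_lit 5) (nat_lit 281) (nat_lit 5) (nat_lit 276) (nat_lit 5) (nat_lit 379) (nat_lit 364) (nat_lit 277)))) (XT.nd (nat_lit 156) (nat_lit 304) (nat_lit 0) (XT.nd (nat_lit 78) (nat_lit 0) (nat_lit 0) (XT.lf (nat_lit 0) (nat_lit 1967425321) (nat_lit 380) (nat_lit 5011785858) (nat_lit 456) (nat_lit 12971585229) (nat_lit 270) (nat_lit 5) (nat_lit 275) (nat_lit 5) (nat_lit 276) (nat_lit 5) (nat_lit 380) (nat_lit 364) (nat_lit 276)) (XT.lf (nat_lit 0) (nat_lit 9961508668) (nat_lit 456) (nat_lit 6776191170) (nat_lit 76) (nat_lit 3760079239) (nat_lit 270) (nat_lit 5) (nat_lit 276) (nat_lit 5) (nat_lit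 271) (nat_lit 5) (nat_lit 381) (nat_lit 364) (nat_lit 275))) (XT.nd (nat_lit 78) (nat_lit 0) (nat_lit 0) (XT.lf (nat_lit 0) (nat_lit 5057232991) (nat_lit 304) (nat_lit 8184507724) (nat_lit 380) (nat_lit 7822929179) (nat_lit 266) (nat_lit 5) (nat_lit 270) (nat_lit 5) (nat_lit 271) (nat_lit 5) (nat_lit 382) (nat_lit 364) (nat_lit 274)) (XT.lf (nat_lit 0) (nat_lit 16803105884) (nat_lit 380) (nat_lit 3965064061) (nat_lit 76) (nat_lit 885879233) (nat_lit 266) (nat_lit 5) (nat_lit 271) (nat_lit 5) (nat_lit 267) (nat_lit 5) (nat_lit 383) (nat_lit 364) (nat_lit 273))))))))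
noncomputable def xc201 : XT := (XT.nd (nat_lit 1248) (nat_lit 1824) (nat_lit 0) (XT.nd (nat_lit 624) (nat_lit 1140) (nat_lit 0) (XT.nd (nat_lit 312) (nat_lit 608) (nat_lit 0) (XT.nd (nat_lit 156) (nat_lit 608) (nat_lit 0) (XT.nd (nat_lit 78) (nat_lit 76) (nat_lit 0) (XT.lf (nat_lit 0) (nat_lit 8813863670) (nat_lit 304) (nat_lit 11989075107) (nat_lit 380) (nat_lit 1456938675) (nat_lit 262) (nat_lit 5) (nat_lit 266) (nat_lit 5) (nat_lit 267) (nat_lit 5) (nat_lit 384) (nat_lit 364) (nat_lit 272)) (XT.lf (nat_lit 0) (nat_lit 2096359369) (nat_lit 380) (nat_lit 570880965) (nat_lit 76) (nat_lit 20224261035) (nat_lit 261) (nat_lit 5) (nat_lit 266) (nat_lit 5) (nat_lit 262) (nat_lit 5) (nat_lit 385) (nat_lit 364) (nat_lit 271))) (XT.nd (nat_lit 78) (nat_lit 304) (nat_lit 0) (XT.lf (nat_lit 0) (nat_lit 6090853433) (nat_lit 380) (nat_lit 10320547700) (nat_lit 76) (nat_lit 7126486448) (nat_lit 257) (nat_lit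 5) (nat_lit 262) (nat_lit 5) (nat_lit 258) (nat_lit 5) (nat_lit 386) (nat_lit 364) (nat_lit 270)) (XT.lf (nat_lit 0) (nat_lit 3555324333) (nat_lit 304) (nat_lit 6828386914) (nat_lit 380) (nat_lit 13827949904) (nat_lit 253) (nat_lit 5) (nat_lit 257) (nat_lit 5) (nat_lit 258) (nat_lit 5) (nat_lit 387) (nat_lit 364) (nat_lit 269)))) (XT.nd (nat_lit 156) (nat_lit 380) (nat_lit 0) (XT.nd (nat_lit 78) (nat_lit 228) (nat_lit 0) (XT.lf (nat_lit 0) (nat_lit 15109174474) (nat_lit 380) (nat_lit 6493954895) (nat_lit 76) (nat_lit 3305095903) (nat_lit 253) (nat_lit 5) (nat_lit 258) (nat_lit 5) (nat_lit 254) (nat_lit 5) (nat_lit 388) (nat_lit 364) (nat_lit 268)) (XT.lf (nat_lit 0) (nat_lit 8524575375) (nat_lit 228) (nat_lit 11781678684) (nat_lit 304) (nat_lit 5321596382) (nat_lit 250) (nat_lit 5) (nat_lit 253) (nat_lit 5) (nat_lit 254) (nat_lit 5) (nat_lit 389) (nat_lit 364) (nat_lit 267))) (XT.nd (nat_lit 78)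 (nat_lit 380) (nat_lit 0) (XT.lf (nat_lit 0) (nat_lit 24506825556) (nat_lit 228) (nat_lit 1356913996) (nat_lit 304) (nat_lit 514689720) (nat_lit 250) (nat_lit 5) (nat_lit 253) (nat_lit 5) (nat_lit 254) (nat_lit 5) (nat_lit 390) (nat_lit 364) (nat_lit 266)) (XT.lf (nat_lit 0) (nat_lit 4759329205) (nat_lit 380) (nat_lit 12803966222) (nat_lit 76) (nat_lit 9581111454) (nat_lit 245) (nat_lit 5) (nat_lit 250) (nat_lit 5) (nat_lit 246) (nat_lit 5) (nat_lit 391) (nat_lit 364) (nat_lit 265))))) (XT.nd (nat_lit 312) (nat_lit 608) (nat_lit 0) (XT.nd (nat_lit 156) (nat_lit 304) (nat_lit 0) (XT.nd (nat_lit 78) (nat_lit 0) (nat_lit 0) (XT.lf (nat_lit 0) (nat_lit 3550860427) (nat_lit 228) (nat_lit 6829859964) (nat_lit 304) (nat_lit 17562492691) (nat_lit 242) (nat_lit 5) (nat_lit 245) (nat_lit 5) (nat_lit 246) (nat_lit 5) (nat_lit 392) (nat_lit 364) (nat_lit 264)) (XT.lf (nat_lit 0) (nat_lit 16564146163) (nat_lit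 304) (nat_lit 7688773421) (nat_lit 76) (nat_lit 4514991758) (nat_lit 242) (nat_lit 5) (nat_lit 246) (nat_lit 5) (nat_lit 243) (nat_lit 5) (nat_lit 393) (nat_lit 364) (nat_lit 263))) (XT.nd (nat_lit 78) (nat_lit 76) (nat_lit 0) (XT.lf (nat_lit 0) (nat_lit 10047478468) (nat_lit 228) (nat_lit 13269760094) (nat_lit 304) (nat_lit 6303581186) (nat_lit 239) (nat_lit 5) (nat_lit 242) (nat_lit 5) (nat_lit 243) (nat_lit 5) (nat_lit 394) (nat_lit 364) (nat_lit 262)) (XT.lf (nat_lit 0) (nat_lit 19167578) (nat_lit 304) (nat_lit 1585026579) (nat_lit 76) (nat_lit 28906059704) (nat_lit 238) (nat_lit 5) (nat_lit 242) (nat_lit 5) (nat_lit 239) (nat_lit 5) (nat_lit 395) (nat_lit 364) (nat_lit 261)))) (XT.nd (nat_lit 156) (nat_lit 152) (nat_lit 0) (XT.nd (nat_lit 78) (nat_lit 228) (nat_lit 0) (XT.lf (nat_lit 0) (nat_lit 6887938878) (nat_lit 304) (nat_lit 13841847113) (nat_lit 76) (nat_lit 10687120482) (nat_lit 235)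 (nat_lit 5) (nat_lit 239) (nat_lit 5) (nat_lit 236) (nat_lit 5) (nat_lit 396) (nat_lit 364) (nat_lit 260)) (XT.lf (nat_lit 0) (nat_lit 5518767796) (nat_lit 228) (nat_lit 8713395467) (nat_lit 304) (nat_lit 18130127726) (nat_lit 232) (nat_lit 5) (nat_lit 235) (nat_lit 5) (nat_lit 236) (nat_lit 5) (nat_lit 397) (nat_lit 364) (nat_lit 259))) (XT.nd (nat_lit 78) (nat_lit 152) (nat_lit 0) (XT.lf (nat_lit 0) (nat_lit 22235203904) (nat_lit 304) (nat_lit 7091927269) (nat_lit 76) (nat_lit 4013233307) (nat_lit 232) (nat_lit 5) (nat_lit 236) (nat_lit 5) (nat_lit 233) (nat_lit 5) (nat_lit 398) (nat_lit 364) (nat_lit 258)) (XT.lf (nat_lit 0) (nat_lit 13939232023) (nat_lit 152) (nat_lit 17052394003) (nat_lit 228) (nat_lit 3358054145) (nat_lit 230) (nat_lit 5) (nat_lit 232) (nat_lit 5) (nat_lit 233) (nat_lit 5) (nat_lit 399) (nat_lit 364) (nat_lit 257)))))) (XT.nd (nat_lit 624) (nat_lit 836) (nat_lit 0) (XT.nd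 (nat_lit 312) (nat_lit 532) (nat_lit 0) (XT.nd (nat_lit 156) (nat_lit 152) (nat_lit 0) (XT.nd (nat_lit 78) (nat_lit 0) (nat_lit 0) (XT.lf (nat_lit 0) (nat_lit 802479382) (nat_lit 228) (nat_lit 3948468046) (nat_lit 304) (nat_lit 30648414831) (nat_lit 226) (nat_lit 5) (nat_lit 229) (nat_lit 5) (nat_lit 230) (nat_lit 5) (nat_lit 400) (nat_lit 364) (nat_lit 256)) (XT.lf (nat_lit 0) (nat_lit 13649959785) (nat_lit 304) (nat_lit 12924949972) (nat_lit 76) (nat_lit 9898995523) (nat_lit 226) (nat_lit 5) (nat_lit 230) (nat_lit 5) (nat_lit 227) (nat_lit 5) (nat_lit 401) (nat_lit 364) (nat_lit 255))) (XT.nd (nat_lit 78) (nat_lit 0) (nat_lit 0) (XT.lf (nat_lit 0) (nat_lit 10077464703) (nat_lit 152) (nat_lit 13131776076) (nat_lit 228) (nat_lit 14382168771) (nat_lit 224) (nat_lit 5) (nat_lit 226) (nat_lit 5) (nat_lit 227) (nat_lit 5) (nat_lit 402) (nat_lit 364) (nat_lit 254)) (XT.lf (nat_lit 0) (nat_lit 33477660056)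 (nat_lit 228) (nat_lit 4105079403) (nat_lit 76) (nat_lit 1170490863) (nat_lit 224) (nat_lit 5) (nat_lit 227) (nat_lit 5) (nat_lit 225) (nat_lit 5) (nat_lit 403) (nat_lit 364) (nat_lit 253)))) (XT.nd (nat_lit 156) (nat_lit 152) (nat_lit 0) (XT.nd (nat_lit 78) (nat_lit 152) (nat_lit 0) (XT.lf (nat_lit 0) (nat_lit 4693467383) (nat_lit 228) (nat_lit 19104098996) (nat_lit 76) (nat_lit 16145014679) (nat_lit 221) (nat_lit 5) (nat_lit 224) (nat_lit 5) (nat_lit 222) (nat_lit 5) (nat_lit 404) (nat_lit 364) (nat_lit 252)) (XT.lf (nat_lit 0) (nat_lit 6080268637) (nat_lit 152) (nat_lit 9062682265) (nat_lit 228) (nat_lit 26036159803) (nat_lit 219) (nat_lit 5) (nat_lit 221) (nat_lit 5) (nat_lit 222) (nat_lit 5) (nat_lit 405) (nat_lit 364) (nat_lit 251))) (XT.nd (nat_lit 78) (nat_lit 152) (nat_lit 0) (XT.lf (nat_lit 0) (nat_lit 26537580652) (nat_lit 228) (nat_lit 9390153443) (nat_lit 76) (nat_lit 6528599138) (nat_lit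 219) (nat_lit 5) (nat_lit 222) (nat_lit 5) (nat_lit 220) (nat_lit 5) (nat_lit 406) (nat_lit 364) (nat_lit 250)) (XT.lf (nat_lit 0) (nat_lit 18022122671) (nat_lit 152) (nat_lit 20903829712) (nat_lit 228) (nat_lit 4850263978) (nat_lit 217) (nat_lit 5) (nat_lit 219) (nat_lit 5) (nat_lit 220) (nat_lit 5) (nat_lit 407) (nat_lit 364) (nat_lit 249))))) (XT.nd (nat_lit 312) (nat_lit 456) (nat_lit 0) (XT.nd (nat_lit 156) (nat_lit 152) (nat_lit 0) (XT.nd (nat_lit 78) (nat_lit 0) (nat_lit 0) (XT.lf (nat_lit 0) (nat_lit 1919860200) (nat_lit 152) (nat_lit 4820760324) (nat_lit 228) (nat_lit 38406901574) (nat_lit 214) (nat_lit 5) (nat_lit 216) (nat_lit 5) (nat_lit 217) (nat_lit 5) (nat_lit 408) (nat_lit 364) (nat_lit 248)) (XT.lf (nat_lit 0) (nat_lit 19373906353) (nat_lit 228) (nat_lit 14979194484) (nat_lit 76) (nat_lit 12199023770) (nat_lit 214) (nat_lit 5) (nat_lit 217) (nat_lit 5) (nat_lit 215) (nat_lit 5)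 (nat_lit 409) (nat_lit 364) (nat_lit 247))) (XT.nd (nat_lit 78) (nat_lit 0) (nat_lit 0) (XT.lf (nat_lit 0) (nat_lit 15075470873) (nat_lit 152) (nat_lit 17872221293) (nat_lit 228) (nat_lit 15063823292) (nat_lit 212) (nat_lit 5) (nat_lit 214) (nat_lit 5) (nat_lit 215) (nat_lit 5) (nat_lit 410) (nat_lit 364) (nat_lit 246)) (XT.lf (nat_lit 0) (nat_lit 47143364066) (nat_lit 152) (nat_lit 305035433) (nat_lit 228) (nat_lit 2083064740) (nat_lit 212) (nat_lit 5) (nat_lit 214) (nat_lit 5) (nat_lit 215) (nat_lit 5) (nat_lit 411) (nat_lit 364) (nat_lit 245)))) (XT.nd (nat_lit 156) (nat_lit 152) (nat_lit 0) (XT.nd (nat_lit 78) (nat_lit 152) (nat_lit 0) (XT.lf (nat_lit 0) (nat_lit 11941576851) (nat_lit 152) (nat_lit 20915765709) (nat_lit 76) (nat_lit 18222833425) (nat_lit 210) (nat_lit 5) (nat_lit 212) (nat_lit 5) (nat_lit 211) (nat_lit 5) (nat_lit 412) (nat_lit 364) (nat_lit 244)) (XT.lf (nat_lit 0) (nat_lit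 12060022540) (nat_lit 152) (nat_lit 14766594989) (nat_lit 228) (nat_lit 25866539777) (nat_lit 208) (nat_lit 5) (nat_lit 210) (nat_lit 5) (nat_lit 211) (nat_lit 5) (nat_lit 413) (nat_lit 364) (nat_lit 243))) (XT.nd (nat_lit 78) (nat_lit 152) (nat_lit 0) (XT.lf (nat_lit 0) (nat_lit 42876773707) (nat_lit 228) (nat_lit 7039515446) (nat_lit 76) (nat_lit 4449455368) (nat_lit 208) (nat_lit 5) (nat_lit 211) (nat_lit 5) (nat_lit 209) (nat_lit 4) (nat_lit 414) (nat_lit 364) (nat_lit 242)) (XT.lf (nat_lit 0) (nat_lit 4191775161) (nat_lit 152) (nat_lit 27247112371) (nat_lit 76) (nat_lit 24645269405) (nat_lit 206) (nat_lit 5) (nat_lit 208) (nat_lit 5) (nat_lit 207) (nat_lit 5) (nat_lit 415) (nat_lit 364) (nat_lit 241)))))))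
noncomputable def xc202 : XT := (XT.nd (nat_lit 1248) (nat_lit 1368) (nat_lit 0) (XT.nd (nat_lit 624) (nat_lit 608) (nat_lit 0) (XT.nd (nat_lit 312) (nat_lit 304) (nat_lit 0) (XT.nd (nat_lit 156) (nat_lit 304) (nat_lit 0) (XT.nd (nat_lit 78) (nat_lit 0) (nat_lit 0) (XT.lf (nat_lit 0) (nat_lit 8956741361) (nat_lit 152) (nat_lit 11569806125) (nat_lit 228) (nat_lit 37339720609) (nat_lit 204) (nat_lit 5) (nat_lit 206) (nat_lit 5) (nat_lit 207) (nat_lit 5) (nat_lit 416) (nat_lit 364) (nat_lit 240)) (XT.lf (nat_lit 0) (nat_lit 38287268698) (nat_lit 228) (nat_lit 11959283605) (nat_lit 76) (nat_lit 9460471995) (nat_lit 204) (nat_lit 5) (nat_lit 207) (nat_lit 5) (nat_lit 205) (nat_lit 4) (nat_lit 417) (nat_lit 364) (nat_lit 239))) (XT.nd (nat_lit 78) (nat_lit 228) (nat_lit 0) (XT.lf (nat_lit 0) (nat_lit 27521110366) (nat_lit 76) (nat_lit 30029615786) (nat_lit 152) (nat_lit 4058357149) (nat_lit 203) (nat_lit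 5) (nat_lit 204) (nat_lit 5) (nat_lit 205) (nat_lit 4) (nat_lit 418) (nat_lit 364) (nat_lit 238)) (XT.lf (nat_lit 0) (nat_lit 5745366208) (nat_lit 152) (nat_lit 8263103828) (nat_lit 228) (nat_lit 49572166537) (nat_lit 200) (nat_lit 5) (nat_lit 202) (nat_lit 5) (nat_lit 203) (nat_lit 5) (nat_lit 419) (nat_lit 364) (nat_lit 237)))) (XT.nd (nat_lit 156) (nat_lit 228) (nat_lit 0) (XT.nd (nat_lit 78) (nat_lit 76) (nat_lit 0) (XT.lf (nat_lit 0) (nat_lit 33652223145) (nat_lit 228) (nat_lit 17180469237) (nat_lit 76) (nat_lit 14774250006) (nat_lit 200) (nat_lit 5) (nat_lit 203) (nat_lit 5) (nat_lit 201) (nat_lit 4) (nat_lit 420) (nat_lit 364) (nat_lit 236)) (XT.lf (nat_lit 0) (nat_lit 26202065607) (nat_lit 76) (nat_lit 28616259960) (nat_lit 152) (nat_lit 12889229842) (nat_lit 199) (nat_lit 5) (nat_lit 200) (nat_lit 5) (nat_lit 201) (nat_lit 4) (nat_lit 421) (nat_lit 364) (nat_lit 235))) (XT.nd (nat_lit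 78) (nat_lit 0) (nat_lit 0) (XT.lf (nat_lit 0) (nat_lit 2404223393) (nat_lit 152) (nat_lit 4826013101) (nat_lit 228) (nat_lit 62660952384) (nat_lit 196) (nat_lit 5) (nat_lit 198) (nat_lit 5) (nat_lit 199) (nat_lit 5) (nat_lit 422) (nat_lit 364) (nat_lit 234)) (XT.lf (nat_lit 0) (nat_lit 28947258483) (nat_lit 228) (nat_lit 22744149473) (nat_lit 76) (nat_lit 20430793874) (nat_lit 196) (nat_lit 5) (nat_lit 199) (nat_lit 5) (nat_lit 197) (nat_lit 4) (nat_lit 423) (nat_lit 364) (nat_lit 233))))) (XT.nd (nat_lit 312) (nat_lit 228) (nat_lit 0) (XT.nd (nat_lit 156) (nat_lit 228) (nat_lit 0) (XT.nd (nat_lit 78) (nat_lit 76) (nat_lit 0) (XT.lf (nat_lit 0) (nat_lit 24947342315) (nat_lit 76) (nat_lit 27267259066) (nat_lit 152) (nat_lit 22226940557) (nat_lit 195) (nat_lit 5) (nat_lit 196) (nat_lit 5) (nat_lit 197) (nat_lit 4) (nat_lit 424) (nat_lit 364) (nat_lit 232)) (XT.lf (nat_lit 0) (nat_lit 163238089)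 (nat_lit 152) (nat_lit 1055086526) (nat_lit 76) (nat_lit 75639336931) (nat_lit 194) (nat_lit 5) (nat_lit 196) (nat_lit 5) (nat_lit 195) (nat_lit 5) (nat_lit 425) (nat_lit 364) (nat_lit 231))) (XT.nd (nat_lit 78) (nat_lit 76) (nat_lit 0) (XT.lf (nat_lit 0) (nat_lit 24146343415) (nat_lit 228) (nat_lit 28695034467) (nat_lit 76) (nat_lit 26473971013) (nat_lit 192) (nat_lit 5) (nat_lit 195) (nat_lit 5) (nat_lit 193) (nat_lit 4) (nat_lit 426) (nat_lit 364) (nat_lit 230)) (XT.lf (nat_lit 0) (nat_lit 23753609876) (nat_lit 76) (nat_lit 25980071207) (nat_lit 152) (nat_lit 32141985675) (nat_lit 191) (nat_lit 5) (nat_lit 192) (nat_lit 5) (nat_lit 193) (nat_lit 4) (nat_lit 427) (nat_lit 364) (nat_lit 229)))) (XT.nd (nat_lit 156) (nat_lit 76) (nat_lit 0) (XT.nd (nat_lit 78) (nat_lit 152) (nat_lit 0) (XT.lf (nat_lit 0) (nat_lit 77125143788) (nat_lit 152) (nat_lit 4768977107) (nat_lit 0) (nat_lit 2643641711) (nat_lit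 191) (nat_lit 5) (nat_lit 193) (nat_lit 4) (nat_lit 191) (nat_lit 4) (nat_lit 428) (nat_lit 364) (nat_lit 228)) (XT.lf (nat_lit 0) (nat_lit 19221600624) (nat_lit 152) (nat_lit 35081883686) (nat_lit 76) (nat_lit 32951885401) (nat_lit 189) (nat_lit 5) (nat_lit 191) (nat_lit 5) (nat_lit 190) (nat_lit 4) (nat_lit 429) (nat_lit 364) (nat_lit 227))) (XT.nd (nat_lit 78) (nat_lit 0) (nat_lit 0) (XT.lf (nat_lit 0) (nat_lit 22617743739) (nat_lit 76) (nat_lit 24752182870) (nat_lit 152) (nat_lit 42711279235) (nat_lit 188) (nat_lit 5) (nat_lit 189) (nat_lit 5) (nat_lit 190) (nat_lit 4) (nat_lit 430) (nat_lit 364) (nat_lit 226)) (XT.lf (nat_lit 0) (nat_lit 77623840738) (nat_lit 152) (nat_lit 8713205803) (nat_lit 0) (nat_lit 6676378652) (nat_lit 188) (nat_lit 5) (nat_lit 190) (nat_lit 4) (nat_lit 188) (nat_lit 4) (nat_lit 431) (nat_lit 364) (nat_lit 225)))))) (XT.nd (nat_lit 624) (nat_lit 684) (nat_lit 0) (XT.nd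 (nat_lit 312) (nat_lit 304) (nat_lit 0) (XT.nd (nat_lit 156) (nat_lit 152) (nat_lit 0) (XT.nd (nat_lit 78) (nat_lit 76) (nat_lit 0) (XT.lf (nat_lit 0) (nat_lit 14143091900) (nat_lit 152) (nat_lit 41957959859) (nat_lit 76) (nat_lit 39917296538) (nat_lit 186) (nat_lit 5) (nat_lit 188) (nat_lit 5) (nat_lit 187) (nat_lit 4) (nat_lit 432) (nat_lit 364) (nat_lit 224)) (XT.lf (nat_lit 0) (nat_lit 21536807186) (nat_lit 76) (nat_lit 23581124002) (nat_lit 152) (nat_lit 54018835953) (nat_lit 185) (nat_lit 5) (nat_lit 186) (nat_lit 5) (nat_lit 187) (nat_lit 4) (nat_lit 433) (nat_lit 364) (nat_lit 223))) (XT.nd (nat_lit 78) (nat_lit 152) (nat_lit 0) (XT.lf (nat_lit 0) (nat_lit 78525185911) (nat_lit 152) (nat_lit 12896009783) (nat_lit 0) (nat_lit 10945727558) (nat_lit 185) (nat_lit 5) (nat_lit 187) (nat_lit 4) (nat_lit 185) (nat_lit 4) (nat_lit 434) (nat_lit 364) (nat_lit 222)) (XT.lf (nat_lit 0) (nat_lit 8878580075)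 (nat_lit 152) (nat_lit 49381525223) (nat_lit 76) (nat_lit 47428086972) (nat_lit 183) (nat_lit 5) (nat_lit 185) (nat_lit 5) (nat_lit 184) (nat_lit 4) (nat_lit 435) (nat_lit 364) (nat_lit 221)))) (XT.nd (nat_lit 156) (nat_lit 228) (nat_lit 0) (XT.nd (nat_lit 78) (nat_lit 0) (nat_lit 0) (XT.lf (nat_lit 0) (nat_lit 20508035463) (nat_lit 76) (nat_lit 22464479454) (nat_lit 152) (nat_lit 66156525401) (nat_lit 182) (nat_lit 5) (nat_lit 183) (nat_lit 5) (nat_lit 184) (nat_lit 4) (nat_lit 436) (nat_lit 364) (nat_lit 220)) (XT.lf (nat_lit 0) (nat_lit 79853917675) (nat_lit 152) (nat_lit 17349940410) (nat_lit 0) (nat_lit 15483934125) (nat_lit 182) (nat_lit 5) (nat_lit 184) (nat_lit 4) (nat_lit 182) (nat_lit 4) (nat_lit 437) (nat_lit 364) (nat_lit 219))) (XT.nd (nat_lit 78) (nat_lit 76) (nat_lit 0) (XT.lf (nat_lit 0) (nat_lit 3393265862) (nat_lit 152) (nat_lit 57416385003) (nat_lit 76) (nat_lit 55547782247)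 (nat_lit 180) (nat_lit 5) (nat_lit 182) (nat_lit 5) (nat_lit 181) (nat_lit 4) (nat_lit 438) (nat_lit 364) (nat_lit 218)) (XT.lf (nat_lit 0) (nat_lit 19528821903) (nat_lit 76) (nat_lit 21399897488) (nat_lit 152) (nat_lit 79224904175) (nat_lit 179) (nat_lit 5) (nat_lit 180) (nat_lit 5) (nat_lit 181) (nat_lit 4) (nat_lit 439) (nat_lit 364) (nat_lit 217))))) (XT.nd (nat_lit 312) (nat_lit 456) (nat_lit 0) (XT.nd (nat_lit 156) (nat_lit 152) (nat_lit 0) (XT.nd (nat_lit 78) (nat_lit 76) (nat_lit 0) (XT.lf (nat_lit 0) (nat_lit 81638060751) (nat_lit 152) (nat_lit 22110463356) (nat_lit 0) (nat_lit 20326243679) (nat_lit 179) (nat_lit 5) (nat_lit 181) (nat_lit 4) (nat_lit 179) (nat_lit 4) (nat_lit 440) (nat_lit 364) (nat_lit 216)) (XT.lf (nat_lit 0) (nat_lit 61955818219) (nat_lit 76) (nat_lit 63742174020) (nat_lit 76) (nat_lit 2428220824) (nat_lit 178) (nat_lit 4) (nat_lit 179) (nat_lit 5) (nat_lit 179) (nat_lit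 4) (nat_lit 441) (nat_lit 364) (nat_lit 215))) (XT.nd (nat_lit 78) (nat_lit 0) (nat_lit 0) (XT.lf (nat_lit 0) (nat_lit 18596705703) (nat_lit 76) (nat_lit 20385095907) (nat_lit 152) (nat_lit 93334133663) (nat_lit 176) (nat_lit 5) (nat_lit 177) (nat_lit 5) (nat_lit 178) (nat_lit 4) (nat_lit 442) (nat_lit 364) (nat_lit 214)) (XT.lf (nat_lit 0) (nat_lit 83909233812) (nat_lit 152) (nat_lit 27216283912) (nat_lit 0) (nat_lit 25511209883) (nat_lit 176) (nat_lit 5) (nat_lit 178) (nat_lit 4) (nat_lit 176) (nat_lit 4) (nat_lit 443) (nat_lit 364) (nat_lit 213)))) (XT.nd (nat_lit 156) (nat_lit 228) (nat_lit 0) (XT.nd (nat_lit 78) (nat_lit 152) (nat_lit 0) (XT.lf (nat_lit 0) (nat_lit 65364028499) (nat_lit 76) (nat_lit 67070859921) (nat_lit 76) (nat_lit 8671078599) (nat_lit 175) (nat_lit 4) (nat_lit 176) (nat_lit 5) (nat_lit 176) (nat_lit 4) (nat_lit 444) (nat_lit 364) (nat_lit 212)) (XT.lf (nat_lit 0) (nat_lit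 17709361133) (nat_lit 76) (nat_lit 19417866263) (nat_lit 152) (nat_lit 108604991890) (nat_lit 173) (nat_lit 5) (nat_lit 174) (nat_lit 5) (nat_lit 175) (nat_lit 4) (nat_lit 445) (nat_lit 364) (nat_lit 211))) (XT.nd (nat_lit 78) (nat_lit 228) (nat_lit 0) (XT.lf (nat_lit 0) (nat_lit 86702988849) (nat_lit 152) (nat_lit 32709703230) (nat_lit 0) (nat_lit 31081037384) (nat_lit 173) (nat_lit 5) (nat_lit 175) (nat_lit 4) (nat_lit 173) (nat_lit 4) (nat_lit 446) (nat_lit 364) (nat_lit 210)) (XT.nd (nat_lit 78) (nat_lit 152) (nat_lit 0) (XT.lf (nat_lit 0) (nat_lit 69262213047) (nat_lit 76) (nat_lit 70892324705) (nat_lit 76) (nat_lit 15268927427) (nat_lit 172) (nat_lit 4) (nat_lit 173) (nat_lit 5) (nat_lit 173) (nat_lit 4) (nat_lit 447) (nat_lit 364) (nat_lit 209)) (XT.lf (nat_lit 0) (nat_lit 16864587924) (nat_lit 76) (nat_lit 18496076546) (nat_lit 152) (nat_lit 125169988864) (nat_lit 170) (nat_lit 5) (nat_lit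 171) (nat_lit 5) (nat_lit 172) (nat_lit 4) (nat_lit 448) (nat_lit 364) (nat_lit 208))))))))
noncomputable def xc203 : XT := (XT.nd (nat_lit 2496) (nat_lit 836) (nat_lit 0) (XT.nd (nat_lit 1248) (nat_lit 1216) (nat_lit 0) (XT.nd (nat_lit 624) (nat_lit 608) (nat_lit 0) (XT.nd (nat_lit 312) (nat_lit 304) (nat_lit 0) (XT.nd (nat_lit 156) (nat_lit 152) (nat_lit 0) (XT.nd (nat_lit 78) (nat_lit 76) (nat_lit 0) (XT.lf (nat_lit 0) (nat_lit 90059185762) (nat_lit 152) (nat_lit 38637008981) (nat_lit 0) (nat_lit 37081961347) (nat_lit 170) (nat_lit 5) (nat_lit 172) (nat_lit 4) (nat_lit 170) (nat_lit 4) (nat_lit 449) (nat_lit 364) (nat_lit 207)) (XT.lf (nat_lit 0) (nat_lit 73693804340) (nat_lit 76) (nat_lit 75250041448) (nat_lit 76) (nat_lit 22271627560) (nat_lit 169) (nat_lit 4) (nat_lit 170) (nat_lit 5) (nat_lit 170) (nat_lit 4) (nat_lit 450) (nat_lit 364) (nat_lit 206))) (XT.nd (nat_lit 78) (nat_lit 0) (nat_lit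 0) (XT.lf (nat_lit 0) (nat_lit 16060302691) (nat_lit 76) (nat_lit 17617672631) (nat_lit 152) (nat_lit 143174595828) (nat_lit 167) (nat_lit 5) (nat_lit 168) (nat_lit 5) (nat_lit 169) (nat_lit 4) (nat_lit 451) (nat_lit 364) (nat_lit 205)) (XT.lf (nat_lit 0) (nat_lit 94022405921) (nat_lit 152) (nat_lit 45048904225) (nat_lit 0) (nat_lit 43564667247) (nat_lit 167) (nat_lit 5) (nat_lit 169) (nat_lit 4) (nat_lit 167) (nat_lit 4) (nat_lit 452) (nat_lit 364) (nat_lit 204)))) (XT.nd (nat_lit 156) (nat_lit 76) (nat_lit 0) (XT.nd (nat_lit 78) (nat_lit 152) (nat_lit 0) (XT.lf (nat_lit 0) (nat_lit 78707026519) (nat_lit 76) (nat_lit 80192242080) (nat_lit 76) (nat_lit 29733524823) (nat_lit 166) (nat_lit 4) (nat_lit 167) (nat_lit 5) (nat_lit 167) (nat_lit 4) (nat_lit 453) (nat_lit 364) (nat_lit 203)) (XT.lf (nat_lit 0) (nat_lit 15294531217) (nat_lit 76) (nat_lit 16780678761) (nat_lit 152) (nat_lit 162778599973)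 (nat_lit 164) (nat_lit 5) (nat_lit 165) (nat_lit 5) (nat_lit 166) (nat_lit 4) (nat_lit 454) (nat_lit 364) (nat_lit 202))) (XT.nd (nat_lit 78) (nat_lit 76) (nat_lit 0) (XT.lf (nat_lit 0) (nat_lit 98642408817) (nat_lit 152) (nat_lit 52000978631) (nat_lit 0) (nat_lit 50584754681) (nat_lit 164) (nat_lit 5) (nat_lit 166) (nat_lit 4) (nat_lit 164) (nat_lit 4) (nat_lit 455) (nat_lit 364) (nat_lit 201)) (XT.lf (nat_lit 0) (nat_lit 84355367419) (nat_lit 76) (nat_lit 85772396451) (nat_lit 76) (nat_lit 37713937233) (nat_lit 163) (nat_lit 4) (nat_lit 164) (nat_lit 5) (nat_lit 164) (nat_lit 4) (nat_lit 456) (nat_lit 364) (nat_lit 200))))) (XT.nd (nat_lit 312) (nat_lit 228) (nat_lit 0) (XT.nd (nat_lit 156) (nat_lit 228) (nat_lit 0) (XT.nd (nat_lit 78) (nat_lit 0) (nat_lit 0) (XT.lf (nat_lit 0) (nat_lit 14565401490) (nat_lit 76) (nat_lit 15983197267) (nat_lit 152) (nat_lit 184157597362) (nat_lit 161) (nat_lit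 5) (nat_lit 162) (nat_lit 5) (nat_lit 163) (nat_lit 4) (nat_lit 457) (nat_lit 364) (nat_lit 199)) (XT.lf (nat_lit 0) (nat_lit 103974636287) (nat_lit 152) (nat_lit 59554226586) (nat_lit 0) (nat_lit 58203249433) (nat_lit 161) (nat_lit 5) (nat_lit 163) (nat_lit 4) (nat_lit 161) (nat_lit 4) (nat_lit 458) (nat_lit 364) (nat_lit 198))) (XT.nd (nat_lit 78) (nat_lit 152) (nat_lit 0) (XT.lf (nat_lit 0) (nat_lit 90698100424) (nat_lit 76) (nat_lit 92049739920) (nat_lit 76) (nat_lit 46277690723) (nat_lit 160) (nat_lit 4) (nat_lit 161) (nat_lit 5) (nat_lit 161) (nat_lit 4) (nat_lit 459) (nat_lit 364) (nat_lit 197)) (XT.lf (nat_lit 0) (nat_lit 13871137382) (nat_lit 76) (nat_lit 15223407682) (nat_lit 152) (nat_lit 207504638158) (nat_lit 158) (nat_lit 5) (nat_lit 159) (nat_lit 5) (nat_lit 160) (nat_lit 4) (nat_lit 460) (nat_lit 364) (nat_lit 196)))) (XT.nd (nat_lit 156) (nat_lit 152) (nat_lit 0) (XT.nd (nat_lit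 78) (nat_lit 76) (nat_lit 0) (XT.lf (nat_lit 0) (nat_lit 110080769251) (nat_lit 152) (nat_lit 67775617154) (nat_lit 0) (nat_lit 66487168522) (nat_lit 158) (nat_lit 5) (nat_lit 160) (nat_lit 4) (nat_lit 158) (nat_lit 4) (nat_lit 461) (nat_lit 364) (nat_lit 195)) (XT.lf (nat_lit 0) (nat_lit 97800861072) (nat_lit 76) (nat_lit 99089854616) (nat_lit 76) (nat_lit 55495708976) (nat_lit 157) (nat_lit 4) (nat_lit 158) (nat_lit 5) (nat_lit 158) (nat_lit 4) (nat_lit 462) (nat_lit 364) (nat_lit 194))) (XT.nd (nat_lit 78) (nat_lit 0) (nat_lit 0) (XT.lf (nat_lit 0) (nat_lit 13210052891) (nat_lit 76) (nat_lit 14499565398) (nat_lit 152) (nat_lit 233032039713) (nat_lit 155) (nat_lit 5) (nat_lit 156) (nat_lit 5) (nat_lit 157) (nat_lit 4) (nat_lit 463) (nat_lit 364) (nat_lit 193)) (XT.lf (nat_lit 0) (nat_lit 117029342387) (nat_lit 152) (nat_lit 76738721343) (nat_lit 0) (nat_lit 75510143479) (nat_lit 155) (nat_lit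 5) (nat_lit 157) (nat_lit 4) (nat_lit 155) (nat_lit 4) (nat_lit 464) (nat_lit 364) (nat_lit 192)))))) (XT.nd (nat_lit 624) (nat_lit 532) (nat_lit 0) (XT.nd (nat_lit 312) (nat_lit 380) (nat_lit 0) (XT.nd (nat_lit 156) (nat_lit 76) (nat_lit 0) (XT.nd (nat_lit 78) (nat_lit 152) (nat_lit 0) (XT.lf (nat_lit 0) (nat_lit 105736283898) (nat_lit 76) (nat_lit 106965310063) (nat_lit 76) (nat_lit 65445662854) (nat_lit 154) (nat_lit 4) (nat_lit 155) (nat_lit 5) (nat_lit 155) (nat_lit 4) (nat_lit 465) (nat_lit 364) (nat_lit 191)) (XT.lf (nat_lit 0) (nat_lit 12580546861) (nat_lit 76) (nat_lit 13809999978) (nat_lit 152) (nat_lit 260973384681) (nat_lit 152) (nat_lit 5) (nat_lit 153) (nat_lit 5) (nat_lit 154) (nat_lit 4) (nat_lit 466) (nat_lit 364) (nat_lit 190))) (XT.nd (nat_lit 78) (nat_lit 76) (nat_lit 0) (XT.lf (nat_lit 0) (nat_lit 124896422698) (nat_lit 152) (nat_lit 86524402656) (nat_lit 0) (nat_lit 85353107667)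 (nat_lit 152) (nat_lit 5) (nat_lit 154) (nat_lit 4) (nat_lit 152) (nat_lit 4) (nat_lit 467) (nat_lit 364) (nat_lit 189)) (XT.lf (nat_lit 0) (nat_lit 114584705567) (nat_lit 76) (nat_lit 115756369373) (nat_lit 76) (nat_lit 76212685525) (nat_lit 151) (nat_lit 4) (nat_lit 152) (nat_lit 5) (nat_lit 152) (nat_lit 4) (nat_lit 468) (nat_lit 364) (nat_lit 188)))) (XT.nd (nat_lit 156) (nat_lit 228) (nat_lit 0) (XT.nd (nat_lit 78) (nat_lit 0) (nat_lit 0) (XT.lf (nat_lit 0) (nat_lit 11981098138) (nat_lit 76) (nat_lit 13153113198) (nat_lit 152) (nat_lit 291585723119) (nat_lit 149) (nat_lit 5) (nat_lit 150) (nat_lit 5) (nat_lit 151) (nat_lit 4) (nat_lit 469) (nat_lit 364) (nat_lit 187)) (XT.lf (nat_lit 0) (nat_lit 133766358519) (nat_lit 152) (nat_lit 97221577527) (nat_lit 0) (nat_lit 96105054109) (nat_lit 149) (nat_lit 5) (nat_lit 151) (nat_lit 4) (nat_lit 149) (nat_lit 4) (nat_lit 470) (nat_lit 364) (nat_lit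 186))) (XT.nd (nat_lit 78) (nat_lit 152) (nat_lit 0) (XT.lf (nat_lit 0) (nat_lit 124434941000) (nat_lit 76) (nat_lit 125551767845) (nat_lit 76) (nat_lit 87890160008) (nat_lit 148) (nat_lit 4) (nat_lit 149) (nat_lit 5) (nat_lit 149) (nat_lit 4) (nat_lit 471) (nat_lit 364) (nat_lit 185)) (XT.lf (nat_lit 0) (nat_lit 11410261089) (nat_lit 76) (nat_lit 12527376913) (nat_lit 152) (nat_lit 325151999449) (nat_lit 146) (nat_lit 5) (nat_lit 147) (nat_lit 5) (nat_lit 148) (nat_lit 4) (nat_lit 472) (nat_lit 364) (nat_lit 184))))) (XT.nd (nat_lit 312) (nat_lit 304) (nat_lit 0) (XT.nd (nat_lit 156) (nat_lit 152) (nat_lit 0) (XT.nd (nat_lit 78) (nat_lit 76) (nat_lit 0) (XT.lf (nat_lit 0) (nat_lit 143732606220) (nat_lit 152) (nat_lit 108928052894) (nat_lit 0) (nat_lit 107863870950) (nat_lit 146) (nat_lit 5) (nat_lit 148) (nat_lit 4) (nat_lit 146) (nat_lit 4) (nat_lit 473) (nat_lit 364) (nat_lit 183)) (XT.lf (nat_lit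 0) (nat_lit 135385139878) (nat_lit 76) (nat_lit 136449571452) (nat_lit 76) (nat_lit 100580586553) (nat_lit 145) (nat_lit 4) (nat_lit 146) (nat_lit 5) (nat_lit 146) (nat_lit 4) (nat_lit 474) (nat_lit 364) (nat_lit 182))) (XT.nd (nat_lit 78) (nat_lit 0) (nat_lit 0) (XT.lf (nat_lit 0) (nat_lit 10866661465) (nat_lit 76) (nat_lit 11931330782) (nat_lit 152) (nat_lit 361983727358) (nat_lit 143) (nat_lit 5) (nat_lit 144) (nat_lit 5) (nat_lit 145) (nat_lit 4) (nat_lit 475) (nat_lit 364) (nat_lit 181)) (XT.lf (nat_lit 0) (nat_lit 154898642509) (nat_lit 152) (nat_lit 121751448865) (nat_lit 0) (nat_lit 120737262447) (nat_lit 143) (nat_lit 5) (nat_lit 145) (nat_lit 4) (nat_lit 143) (nat_lit 4) (nat_lit 476) (nat_lit 364) (nat_lit 180)))) (XT.nd (nat_lit 156) (nat_lit 76) (nat_lit 0) (XT.nd (nat_lit 78) (nat_lit 152) (nat_lit 0) (XT.lf (nat_lit 0) (nat_lit 147543731702) (nat_lit 76) (nat_lit 148558123491) (nat_lit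 76) (nat_lit 114396538058) (nat_lit 142) (nat_lit 4) (nat_lit 143) (nat_lit 5) (nat_lit 143) (nat_lit 4) (nat_lit 477) (nat_lit 364) (nat_lit 179)) (XT.lf (nat_lit 0) (nat_lit 10348992546) (nat_lit 76) (nat_lit 11363579927) (nat_lit 152) (nat_lit 402423938028) (nat_lit 140) (nat_lit 5) (nat_lit 141) (nat_lit 5) (nat_lit 142) (nat_lit 4) (nat_lit 478) (nat_lit 364) (nat_lit 178))) (XT.nd (nat_lit 78) (nat_lit 76) (nat_lit 0) (XT.lf (nat_lit 0) (nat_lit 167378971147) (nat_lit 152) (nat_lit 135810215296) (nat_lit 0) (nat_lit 134843764192) (nat_lit 140) (nat_lit 5) (nat_lit 142) (nat_lit 4) (nat_lit 140) (nat_lit 4) (nat_lit 479) (nat_lit 364) (nat_lit 177)) (XT.lf (nat_lit 0) (nat_lit 161030468403) (nat_lit 76) (nat_lit 161997088466) (nat_lit 76) (nat_lit 129461712552) (nat_lit 139) (nat_lit 4) (nat_lit 140) (nat_lit 5) (nat_lit 140) (nat_lit 4) (nat_lit 480) (nat_lit 364) (nat_lit 176))))))) (XT.nd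 (nat_lit 44460) (nat_lit 0) (nat_lit 10184) (XT.nd (nat_lit 624) (nat_lit 228) (nat_lit 0) (XT.nd (nat_lit 312) (nat_lit 228) (nat_lit 0) (XT.nd (nat_lit 156) (nat_lit 228) (nat_lit 0) (XT.nd (nat_lit 78) (nat_lit 0) (nat_lit 0) (XT.lf (nat_lit 0) (nat_lit 9856011556) (nat_lit 76) (nat_lit 10822792533) (nat_lit 152) (nat_lit 446850429744) (nat_lit 137) (nat_lit 5) (nat_lit 138) (nat_lit 5) (nat_lit 139) (nat_lit 4) (nat_lit 481) (nat_lit 364) (nat_lit 175)) (XT.lf (nat_lit 0) (nat_lit 181300233699) (nat_lit 152) (nat_lit 151234751936) (nat_lit 0) (nat_lit 150313862194) (nat_lit 137) (nat_lit 5) (nat_lit 139) (nat_lit 4) (nat_lit 137) (nat_lit 4) (nat_lit 482) (nat_lit 364) (nat_lit 174))) (XT.nd (nat_lit 78) (nat_lit 152) (nat_lit 0) (XT.lf (nat_lit 0) (nat_lit 175977574466) (nat_lit 76) (nat_lit 176898603211) (nat_lit 76) (nat_lit 145912092703) (nat_lit 136) (nat_lit 4) (nat_lit 137) (nat_lit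 5) (nat_lit 137) (nat_lit 4) (nat_lit 483) (nat_lit 364) (nat_lit 173)) (XT.lf (nat_lit 0) (nat_lit 9386536315) (nat_lit 76) (nat_lit 10307697444) (nat_lit 152) (nat_lit 495679349791) (nat_lit 134) (nat_lit 5) (nat_lit 135) (nat_lit 5) (nat_lit 136) (nat_lit 4) (nat_lit 484) (nat_lit 364) (nat_lit 172)))) (XT.nd (nat_lit 156) (nat_lit 152) (nat_lit 0) (XT.nd (nat_lit 78) (nat_lit 76) (nat_lit 0) (XT.lf (nat_lit 0) (nat_lit 196802434975) (nat_lit 152) (nat_lit 168168642820) (nat_lit 0) (nat_lit 167291226430) (nat_lit 134) (nat_lit 5) (nat_lit 136) (nat_lit 4) (nat_lit 134) (nat_lit 4) (nat_lit 485) (nat_lit 364) (nat_lit 171)) (XT.lf (nat_lit 0) (nat_lit 192531015522) (nat_lit 76) (nat_lit 193408546270) (nat_lit 76) (nat_lit 163897223367) (nat_lit 133) (nat_lit 4) (nat_lit 134) (nat_lit 5) (nat_lit 134) (nat_lit 4) (nat_lit 486) (nat_lit 364) (nat_lit 170))) (XT.nd (nat_lit 78) (nat_lit 0) (nat_lit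 0) (XT.lf (nat_lit 0) (nat_lit 8939442100) (nat_lit 76) (nat_lit 9817081761) (nat_lit 152) (nat_lit 549369142694) (nat_lit 131) (nat_lit 5) (nat_lit 132) (nat_lit 5) (nat_lit 133) (nat_lit 4) (nat_lit 487) (nat_lit 364) (nat_lit 169)) (XT.lf (nat_lit 0) (nat_lit 214040294903) (nat_lit 152) (nat_lit 186770016660) (nat_lit 0) (nat_lit 185934070577) (nat_lit 131) (nat_lit 5) (nat_lit 133) (nat_lit 4) (nat_lit 131) (nat_lit 4) (nat_lit 488) (nat_lit 364) (nat_lit 168))))) (XT.nd (nat_lit 43524) (nat_lit 0) (nat_lit 12464) (XT.nd (nat_lit 156) (nat_lit 0) (nat_lit 0) (XT.nd (nat_lit 78) (nat_lit 152) (nat_lit 0) (XT.lf (nat_lit 0) (nat_lit 210851897515) (nat_lit 76) (nat_lit 211687937682) (nat_lit 76) (nat_lit 183581619272) (nat_lit 130) (nat_lit 4) (nat_lit 131) (nat_lit 5) (nat_lit 131) (nat_lit 4) (nat_lit 489) (nat_lit 364) (nat_lit 167)) (XT.lf (nat_lit 0) (nat_lit 8513658704) (nat_lit 76) (nat_lit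 9349788474) (nat_lit 152) (nat_lit 608424902406) (nat_lit 128) (nat_lit 5) (nat_lit 129) (nat_lit 5) (nat_lit 130) (nat_lit 4) (nat_lit 490) (nat_lit 364) (nat_lit 166))) (XT.nd (nat_lit 43290) (nat_lit 0) (nat_lit 12464) (XT.lf (nat_lit 0) (nat_lit 233184739745) (nat_lit 152) (nat_lit 207213046180) (nat_lit 0) (nat_lit 206416650842) (nat_lit 128) (nat_lit 5) (nat_lit 130) (nat_lit 4) (nat_lit 128) (nat_lit 4) (nat_lit 491) (nat_lit 364) (nat_lit 165)) (XT.lf (nat_lit 0) (nat_lit 879849160) (nat_lit 836) (nat_lit 3053844803) (nat_lit 836) (nat_lit 3053844803) (nat_lit 292) (nat_lit 3) (nat_lit 303) (nat_lit 3) (nat_lit 303) (nat_lit 5) (nat_lit 365) (nat_lit 365) (nat_lit 290)))) (XT.nd (nat_lit 156) (nat_lit 0) (nat_lit 76) (XT.nd (nat_lit 78) (nat_lit 0) (nat_lit 76) (XT.lf (nat_lit 76) (nat_lit 908940947) (nat_lit 0) (nat_lit 1250380137) (nat_lit 836) (nat_lit 12147351873) (nat_lit 293) (nat_lit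 5) (nat_lit 292) (nat_lit 3) (nat_lit 303) (nat_lit 5) (nat_lit 366) (nat_lit 365) (nat_lit 289)) (XT.lf (nat_lit 0) (nat_lit 2751128556) (nat_lit 760) (nat_lit 6264992505) (nat_lit 836) (nat_lit 5630116913) (nat_lit 293) (nat_lit 5) (nat_lit 303) (nat_lit 5) (nat_lit 304) (nat_lit 5) (nat_lit 367) (nat_lit 365) (nat_lit 288))) (XT.nd (nat_lit 78) (nat_lit 0) (nat_lit 76) (XT.lf (nat_lit 76) (nat_lit 1230788257) (nat_lit 0) (nat_lit 2160611858) (nat_lit 836) (nat_lit 11610437439) (nat_lit 294) (nat_lit 5) (nat_lit 293) (nat_lit 5) (nat_lit 304) (nat_lit 5) (nat_lit 368) (nat_lit 365) (nat_lit 287)) (XT.lf (nat_lit 0) (nat_lit 4230258647) (nat_lit 760) (nat_lit 6144851312) (nat_lit 836) (nat_lit 4991778486) (nat_lit 294) (nat_lit 5) (nat_lit 304) (nat_lit 5) (nat_lit 305) (nat_lit 5) (nat_lit 369) (nat_lit 365) (nat_lit 286)))))) (XT.nd (nat_lit 624) (nat_lit 1900) (nat_lit 0) (XT.nd (nat_lit 312)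 (nat_lit 532) (nat_lit 0) (XT.nd (nat_lit 156) (nat_lit 0) (nat_lit 76) (XT.nd (nat_lit 78) (nat_lit 0) (nat_lit 76) (XT.lf (nat_lit 76) (nat_lit 1874457591) (nat_lit 0) (nat_lit 3282317598) (nat_lit 836) (nat_lit 10591130936) (nat_lit 295) (nat_lit 5) (nat_lit 294) (nat_lit 5) (nat_lit 305) (nat_lit 5) (nat_lit 370) (nat_lit 365) (nat_lit 285)) (XT.lf (nat_lit 0) (nat_lit 6282244445) (nat_lit 760) (nat_lit 5715008719) (nat_lit 836) (nat_lit 4143090181) (nat_lit 295) (nat_lit 5) (nat_lit 305) (nat_lit 5) (nat_lit 306) (nat_lit 5) (nat_lit 371) (nat_lit 365) (nat_lit 284))) (XT.nd (nat_lit 78) (nat_lit 0) (nat_lit 76) (XT.lf (nat_lit 76) (nat_lit 2876693398) (nat_lit 0) (nat_lit 4668706682) (nat_lit 836) (nat_lit 9002931701) (nat_lit 296) (nat_lit 5) (nat_lit 295) (nat_lit 5) (nat_lit 306) (nat_lit 5) (nat_lit 372) (nat_lit 365) (nat_lit 283)) (XT.lf (nat_lit 0) (nat_lit 9000713963) (nat_lit 760)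 (nat_lit 4937933696) (nat_lit 836) (nat_lit 3031621955) (nat_lit 296) (nat_lit 5) (nat_lit 306) (nat_lit 5) (nat_lit 307) (nat_lit 5) (nat_lit 373) (nat_lit 365) (nat_lit 282)))) (XT.nd (nat_lit 156) (nat_lit 684) (nat_lit 0) (XT.nd (nat_lit 78) (nat_lit 0) (nat_lit 76) (XT.lf (nat_lit 76) (nat_lit 4279942042) (nat_lit 0) (nat_lit 6376379900) (nat_lit 836) (nat_lit 6750605978) (nat_lit 297) (nat_lit 5) (nat_lit 296) (nat_lit 5) (nat_lit 307) (nat_lit 5) (nat_lit 374) (nat_lit 365) (nat_lit 281)) (XT.lf (nat_lit 0) (nat_lit 12488890354) (nat_lit 760) (nat_lit 3770438631) (nat_lit 76) (nat_lit 1601381154) (nat_lit 297) (nat_lit 5) (nat_lit 307) (nat_lit 5) (nat_lit 298) (nat_lit 5) (nat_lit 375) (nat_lit 365) (nat_lit 280))) (XT.nd (nat_lit 78) (nat_lit 0) (nat_lit 0) (XT.lf (nat_lit 0) (nat_lit 6132781108) (nat_lit 760) (nat_lit 8466076673) (nat_lit 836) (nat_lit 3729035158) (nat_lit 287) (nat_lit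 5) (nat_lit 297) (nat_lit 5) (nat_lit 298) (nat_lit 5) (nat_lit 376) (nat_lit 365) (nat_lit 279)) (XT.lf (nat_lit 0) (nat_lit 16649359851) (nat_lit 760) (nat_lit 214800437) (nat_lit 836) (nat_lit 1951782757) (nat_lit 287) (nat_lit 5) (nat_lit 297) (nat_lit 5) (nat_lit 298) (nat_lit 5) (nat_lit 377) (nat_lit 365) (nat_lit 278))))) (XT.nd (nat_lit 312) (nat_lit 608) (nat_lit 0) (XT.nd (nat_lit 156) (nat_lit 760) (nat_lit 0) (XT.nd (nat_lit 78) (nat_lit 0) (nat_lit 0) (XT.lf (nat_lit 0) (nat_lit 172333232) (nat_lit 532) (nat_lit 10828198210) (nat_lit 76) (nat_lit 8315168135) (nat_lit 280) (nat_lit 5) (nat_lit 287) (nat_lit 5) (nat_lit 281) (nat_lit 5) (nat_lit 378) (nat_lit 365) (nat_lit 277)) (XT.lf (nat_lit 0) (nat_lit 2364773879) (nat_lit 532) (nat_lit 138231843) (nat_lit 76) (nat_lit 17334452815) (nat_lit 280) (nat_lit 5) (nat_lit 287) (nat_lit 5) (nat_lit 281) (nat_lit 5) (nat_lit 379) (nat_lit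 365) (nat_lit 276))) (XT.nd (nat_lit 78) (nat_lit 380) (nat_lit 0) (XT.lf (nat_lit 0) (nat_lit 4936121608) (nat_lit 456) (nat_lit 9040161695) (nat_lit 76) (nat_lit 6395557888) (nat_lit 275) (nat_lit 5) (nat_lit 281) (nat_lit 5) (nat_lit 276) (nat_lit 5) (nat_lit 380) (nat_lit 365) (nat_lit 275)) (XT.lf (nat_lit 0) (nat_lit 2472323390) (nat_lit 380) (nat_lit 5233648140) (nat_lit 456) (nat_lit 13223474708) (nat_lit 270) (nat_lit 5) (nat_lit 275) (nat_lit 5) (nat_lit 276) (nat_lit 5) (nat_lit 381) (nat_lit 365) (nat_lit 274)))) (XT.nd (nat_lit 156) (nat_lit 304) (nat_lit 0) (XT.nd (nat_lit 78) (nat_lit 304) (nat_lit 0) (XT.lf (nat_lit 0) (nat_lit 10819820580) (nat_lit 456) (nat_lit 6710269029) (nat_lit 76) (nat_lit 3974566598) (nat_lit 270) (nat_lit 5) (nat_lit 276) (nat_lit 5) (nat_lit 271) (nat_lit 5) (nat_lit 382) (nat_lit 365) (nat_lit 273)) (XT.lf (nat_lit 0) (nat_lit 5708298409) (nat_lit 304)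 (nat_lit 8544828780) (nat_lit 380) (nat_lit 7847311229) (nat_lit 266) (nat_lit 5) (nat_lit 270) (nat_lit 5) (nat_lit 271) (nat_lit 5) (nat_lit 383) (nat_lit 365) (nat_lit 272))) (XT.nd (nat_lit 78) (nat_lit 304) (nat_lit 0) (XT.lf (nat_lit 0) (nat_lit 17976654484) (nat_lit 380) (nat_lit 3768169448) (nat_lit 76) (nat_lit 975258039) (nat_lit 266) (nat_lit 5) (nat_lit 271) (nat_lit 5) (nat_lit 267) (nat_lit 5) (nat_lit 384) (nat_lit 365) (nat_lit 271)) (XT.lf (nat_lit 0) (nat_lit 9643331317) (nat_lit 304) (nat_lit 12523341691) (nat_lit 380) (nat_lit 1190018951) (nat_lit 262) (nat_lit 5) (nat_lit 266) (nat_lit 5) (nat_lit 267) (nat_lit 5) (nat_lit 385) (nat_lit 365) (nat_lit 270))))))))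
noncomputable def xc204 : XT := (XT.nd (nat_lit 1248) (nat_lit 1672) (nat_lit 0) (XT.nd (nat_lit 624) (nat_lit 1216) (nat_lit 0) (XT.nd (nat_lit 312) (nat_lit 836) (nat_lit 0) (XT.nd (nat_lit 156) (nat_lit 304) (nat_lit 0) (XT.nd (nat_lit 78) (nat_lit 304) (nat_lit 0) (XT.lf (nat_lit 0) (nat_lit 2514407817) (nat_lit 380) (nat_lit 218806805) (nat_lit 76) (nat_lit 21287200293) (nat_lit 261) (nat_lit 5) (nat_lit 266) (nat_lit 5) (nat_lit 262) (nat_lit 5) (nat_lit 386) (nat_lit 365) (nat_lit 269)) (XT.lf (nat_lit 0) (nat_lit 6700655374) (nat_lit 380) (nat_lit 10447985667) (nat_lit 76) (nat_lit 7550877955) (nat_lit 257) (nat_lit 5) (nat_lit 262) (nat_lit 5) (nat_lit 258) (nat_lit 5) (nat_lit 387) (nat_lit 365) (nat_lit 268))) (XT.nd (nat_lit 78) (nat_lit 0) (nat_lit 0) (XT.lf (nat_lit 0) (nat_lit 4115412396) (nat_lit 304) (nat_lit 7084176642) (nat_lit 380) (nat_lit 14207820558) (nat_lit 253) (nat_lit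 5) (nat_lit 257) (nat_lit 5) (nat_lit 258) (nat_lit 5) (nat_lit 388) (nat_lit 365) (nat_lit 267)) (XT.lf (nat_lit 0) (nat_lit 16148470481) (nat_lit 380) (nat_lit 6441681650) (nat_lit 76) (nat_lit 3549292541) (nat_lit 253) (nat_lit 5) (nat_lit 258) (nat_lit 5) (nat_lit 254) (nat_lit 5) (nat_lit 389) (nat_lit 365) (nat_lit 266)))) (XT.nd (nat_lit 156) (nat_lit 608) (nat_lit 0) (XT.nd (nat_lit 78) (nat_lit 0) (nat_lit 0) (XT.lf (nat_lit 0) (nat_lit 9321694956) (nat_lit 228) (nat_lit 12275983673) (nat_lit 304) (nat_lit 5297758740) (nat_lit 250) (nat_lit 5) (nat_lit 253) (nat_lit 5) (nat_lit 254) (nat_lit 5) (nat_lit 390) (nat_lit 365) (nat_lit 265)) (XT.lf (nat_lit 0) (nat_lit 26085396179) (nat_lit 228) (nat_lit 1334494033) (nat_lit 304) (nat_lit 264312339) (nat_lit 250) (nat_lit 5) (nat_lit 253) (nat_lit 5) (nat_lit 254) (nat_lit 5) (nat_lit 391) (nat_lit 365) (nat_lit 264))) (XT.nd (nat_lit 78) (nat_lit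 228) (nat_lit 0) (XT.lf (nat_lit 0) (nat_lit 5258905238) (nat_lit 380) (nat_lit 13076432894) (nat_lit 76) (nat_lit 10153208614) (nat_lit 245) (nat_lit 5) (nat_lit 250) (nat_lit 5) (nat_lit 246) (nat_lit 5) (nat_lit 392) (nat_lit 365) (nat_lit 263)) (XT.lf (nat_lit 0) (nat_lit 4090203932) (nat_lit 228) (nat_lit 7064353173) (nat_lit 304) (nat_lit 18173076596) (nat_lit 242) (nat_lit 5) (nat_lit 245) (nat_lit 5) (nat_lit 246) (nat_lit 5) (nat_lit 393) (nat_lit 365) (nat_lit 262))))) (XT.nd (nat_lit 312) (nat_lit 684) (nat_lit 0) (XT.nd (nat_lit 156) (nat_lit 304) (nat_lit 0) (XT.nd (nat_lit 78) (nat_lit 228) (nat_lit 0) (XT.lf (nat_lit 0) (nat_lit 17636611815) (nat_lit 304) (nat_lit 7718097852) (nat_lit 76) (nat_lit 4839384325) (nat_lit 242) (nat_lit 5) (nat_lit 246) (nat_lit 5) (nat_lit 243) (nat_lit 5) (nat_lit 394) (nat_lit 365) (nat_lit 261)) (XT.lf (nat_lit 0) (nat_lit 10899238982) (nat_lit 228)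 (nat_lit 13821943405) (nat_lit 304) (nat_lit 6368774253) (nat_lit 239) (nat_lit 5) (nat_lit 242) (nat_lit 5) (nat_lit 243) (nat_lit 5) (nat_lit 395) (nat_lit 365) (nat_lit 260))) (XT.nd (nat_lit 78) (nat_lit 228) (nat_lit 0) (XT.lf (nat_lit 0) (nat_lit 250587747) (nat_lit 304) (nat_lit 1323908666) (nat_lit 76) (nat_lit 30449747052) (nat_lit 238) (nat_lit 5) (nat_lit 242) (nat_lit 5) (nat_lit 239) (nat_lit 5) (nat_lit 396) (nat_lit 365) (nat_lit 259)) (XT.lf (nat_lit 0) (nat_lit 7458771610) (nat_lit 304) (nat_lit 14189544224) (nat_lit 76) (nat_lit 11328114173) (nat_lit 235) (nat_lit 5) (nat_lit 239) (nat_lit 5) (nat_lit 236) (nat_lit 5) (nat_lit 397) (nat_lit 365) (nat_lit 258)))) (XT.nd (nat_lit 156) (nat_lit 456) (nat_lit 0) (XT.nd (nat_lit 78) (nat_lit 0) (nat_lit 0) (XT.lf (nat_lit 0) (nat_lit 6133546669) (nat_lit 228) (nat_lit 9031168138) (nat_lit 304) (nat_lit 18804643563) (nat_lit 232) (nat_lit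 5) (nat_lit 235) (nat_lit 5) (nat_lit 236) (nat_lit 5) (nat_lit 398) (nat_lit 365) (nat_lit 257)) (XT.lf (nat_lit 0) (nat_lit 23559139418) (nat_lit 304) (nat_lit 7115050349) (nat_lit 76) (nat_lit 4322584170) (nat_lit 232) (nat_lit 5) (nat_lit 236) (nat_lit 5) (nat_lit 233) (nat_lit 5) (nat_lit 399) (nat_lit 365) (nat_lit 256))) (XT.nd (nat_lit 78) (nat_lit 304) (nat_lit 0) (XT.lf (nat_lit 0) (nat_lit 14962320564) (nat_lit 152) (nat_lit 17786050251) (nat_lit 228) (nat_lit 3308435190) (nat_lit 230) (nat_lit 5) (nat_lit 232) (nat_lit 5) (nat_lit 233) (nat_lit 5) (nat_lit 400) (nat_lit 365) (nat_lit 255)) (XT.lf (nat_lit 0) (nat_lit 1170319940) (nat_lit 228) (nat_lit 4023824397) (nat_lit 304) (nat_lit 31964903559) (nat_lit 226) (nat_lit 5) (nat_lit 229) (nat_lit 5) (nat_lit 230) (nat_lit 5) (nat_lit 401) (nat_lit 365) (nat_lit 254)))))) (XT.nd (nat_lit 624) (nat_lit 760) (nat_lit 0) (XT.nd (nat_lit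 312) (nat_lit 532) (nat_lit 0) (XT.nd (nat_lit 156) (nat_lit 228) (nat_lit 0) (XT.nd (nat_lit 78) (nat_lit 152) (nat_lit 0) (XT.lf (nat_lit 0) (nat_lit 14530129531) (nat_lit 304) (nat_lit 13251108655) (nat_lit 76) (nat_lit 10506478769) (nat_lit 226) (nat_lit 5) (nat_lit 230) (nat_lit 5) (nat_lit 227) (nat_lit 5) (nat_lit 402) (nat_lit 365) (nat_lit 253)) (XT.lf (nat_lit 0) (nat_lit 10896264031) (nat_lit 152) (nat_lit 13666614483) (nat_lit 228) (nat_lit 14898442729) (nat_lit 224) (nat_lit 5) (nat_lit 226) (nat_lit 5) (nat_lit 227) (nat_lit 5) (nat_lit 403) (nat_lit 365) (nat_lit 252))) (XT.nd (nat_lit 78) (nat_lit 228) (nat_lit 0) (XT.lf (nat_lit 0) (nat_lit 35337330260) (nat_lit 228) (nat_lit 4003015266) (nat_lit 76) (nat_lit 1341256953) (nat_lit 224) (nat_lit 5) (nat_lit 227) (nat_lit 5) (nat_lit 225) (nat_lit 5) (nat_lit 404) (nat_lit 365) (nat_lit 251)) (XT.lf (nat_lit 0) (nat_lit 5112779699)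 (nat_lit 228) (nat_lit 19750837585) (nat_lit 76) (nat_lit 17066860880) (nat_lit 221) (nat_lit 5) (nat_lit 224) (nat_lit 5) (nat_lit 222) (nat_lit 5) (nat_lit 405) (nat_lit 365) (nat_lit 250)))) (XT.nd (nat_lit 156) (nat_lit 380) (nat_lit 0) (XT.nd (nat_lit 78) (nat_lit 0) (nat_lit 0) (XT.lf (nat_lit 0) (nat_lit 6687773166) (nat_lit 152) (nat_lit 9392910244) (nat_lit 228) (nat_lit 27148353582) (nat_lit 219) (nat_lit 5) (nat_lit 221) (nat_lit 5) (nat_lit 222) (nat_lit 5) (nat_lit 406) (nat_lit 365) (nat_lit 249)) (XT.lf (nat_lit 0) (nat_lit 28038272896) (nat_lit 228) (nat_lit 9563850223) (nat_lit 76) (nat_lit 6968336114) (nat_lit 219) (nat_lit 5) (nat_lit 222) (nat_lit 5) (nat_lit 220) (nat_lit 5) (nat_lit 407) (nat_lit 365) (nat_lit 248))) (XT.nd (nat_lit 78) (nat_lit 228) (nat_lit 0) (XT.lf (nat_lit 0) (nat_lit 19214268553) (nat_lit 152) (nat_lit 21828061787) (nat_lit 228) (nat_lit 4914192822)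 (nat_lit 217) (nat_lit 5) (nat_lit 219) (nat_lit 5) (nat_lit 220) (nat_lit 5) (nat_lit 408) (nat_lit 365) (nat_lit 247)) (XT.lf (nat_lit 0) (nat_lit 2307822393) (nat_lit 152) (nat_lit 4939024319) (nat_lit 228) (nat_lit 40149591733) (nat_lit 214) (nat_lit 5) (nat_lit 216) (nat_lit 5) (nat_lit 217) (nat_lit 5) (nat_lit 409) (nat_lit 365) (nat_lit 246))))) (XT.nd (nat_lit 312) (nat_lit 456) (nat_lit 0) (XT.nd (nat_lit 156) (nat_lit 152) (nat_lit 0) (XT.nd (nat_lit 78) (nat_lit 152) (nat_lit 0) (XT.lf (nat_lit 0) (nat_lit 20505565489) (nat_lit 228) (nat_lit 15443856975) (nat_lit 76) (nat_lit 12922160183) (nat_lit 214) (nat_lit 5) (nat_lit 217) (nat_lit 5) (nat_lit 215) (nat_lit 5) (nat_lit 410) (nat_lit 365) (nat_lit 245)) (XT.lf (nat_lit 0) (nat_lit 16108956210) (nat_lit 152) (nat_lit 18645691285) (nat_lit 228) (nat_lit 15649465200) (nat_lit 212) (nat_lit 5) (nat_lit 214) (nat_lit 5) (nat_lit 215)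 (nat_lit 5) (nat_lit 411) (nat_lit 365) (nat_lit 244))) (XT.nd (nat_lit 78) (nat_lit 152) (nat_lit 0) (XT.lf (nat_lit 0) (nat_lit 49766924454) (nat_lit 152) (nat_lit 205867135) (nat_lit 228) (nat_lit 2027647256) (nat_lit 212) (nat_lit 5) (nat_lit 214) (nat_lit 5) (nat_lit 215) (nat_lit 5) (nat_lit 412) (nat_lit 365) (nat_lit 243)) (XT.lf (nat_lit 0) (nat_lit 12691742866) (nat_lit 152) (nat_lit 21688678262) (nat_lit 76) (nat_lit 19246109297) (nat_lit 210) (nat_lit 5) (nat_lit 212) (nat_lit 5) (nat_lit 211) (nat_lit 5) (nat_lit 413) (nat_lit 365) (nat_lit 242)))) (XT.nd (nat_lit 156) (nat_lit 304) (nat_lit 0) (XT.nd (nat_lit 78) (nat_lit 0) (nat_lit 0) (XT.lf (nat_lit 0) (nat_lit 12931498178) (nat_lit 152) (nat_lit 15386439175) (nat_lit 228) (nat_lit 27002378371) (nat_lit 208) (nat_lit 5) (nat_lit 210) (nat_lit 5) (nat_lit 211) (nat_lit 5) (nat_lit 414) (nat_lit 365) (nat_lit 241)) (XT.lf (nat_lit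 0) (nat_lit 45165220810) (nat_lit 228) (nat_lit 7130420679) (nat_lit 76) (nat_lit 4781159837) (nat_lit 208) (nat_lit 5) (nat_lit 211) (nat_lit 5) (nat_lit 209) (nat_lit 4) (nat_lit 415) (nat_lit 365) (nat_lit 240))) (XT.nd (nat_lit 78) (nat_lit 152) (nat_lit 0) (XT.lf (nat_lit 0) (nat_lit 4545420007) (nat_lit 152) (nat_lit 28347845121) (nat_lit 76) (nat_lit 25987896852) (nat_lit 206) (nat_lit 5) (nat_lit 208) (nat_lit 5) (nat_lit 207) (nat_lit 5) (nat_lit 416) (nat_lit 365) (nat_lit 239)) (XT.lf (nat_lit 0) (nat_lit 9661981575) (nat_lit 152) (nat_lit 12032108345) (nat_lit 228) (nat_lit 39058430828) (nat_lit 204) (nat_lit 5) (nat_lit 206) (nat_lit 5) (nat_lit 207) (nat_lit 5) (nat_lit 417) (nat_lit 365) (nat_lit 238)))))))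
noncomputable def xc205 : XT := (XT.nd (nat_lit 1248) (nat_lit 1216) (nat_lit 0) (XT.nd (nat_lit 624) (nat_lit 684) (nat_lit 0) (XT.nd (nat_lit 312) (nat_lit 380) (nat_lit 0) (XT.nd (nat_lit 156) (nat_lit 228) (nat_lit 0) (XT.nd (nat_lit 78) (nat_lit 76) (nat_lit 0) (XT.lf (nat_lit 0) (nat_lit 40337850304) (nat_lit 228) (nat_lit 12307105045) (nat_lit 76) (nat_lit 10040609254) (nat_lit 204) (nat_lit 5) (nat_lit 207) (nat_lit 5) (nat_lit 205) (nat_lit 4) (nat_lit 418) (nat_lit 365) (nat_lit 237)) (XT.lf (nat_lit 0) (nat_lit 29143274064) (nat_lit 76) (nat_lit 31418562427) (nat_lit 152) (nat_lit 4121022274) (nat_lit 203) (nat_lit 5) (nat_lit 204) (nat_lit 5) (nat_lit 205) (nat_lit 4) (nat_lit 419) (nat_lit 365) (nat_lit 236))) (XT.nd (nat_lit 78) (nat_lit 0) (nat_lit 0) (XT.lf (nat_lit 0) (nat_lit 6279189771) (nat_lit 152) (nat_lit 8562852013) (nat_lit 228) (nat_lit 51910969206) (nat_lit 200) (nat_lit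 5) (nat_lit 202) (nat_lit 5) (nat_lit 203) (nat_lit 5) (nat_lit 420) (nat_lit 365) (nat_lit 235)) (XT.lf (nat_lit 0) (nat_lit 35463328442) (nat_lit 228) (nat_lit 17800024066) (nat_lit 76) (nat_lit 15617512291) (nat_lit 200) (nat_lit 5) (nat_lit 203) (nat_lit 5) (nat_lit 201) (nat_lit 4) (nat_lit 421) (nat_lit 365) (nat_lit 234)))) (XT.nd (nat_lit 156) (nat_lit 76) (nat_lit 0) (XT.nd (nat_lit 78) (nat_lit 228) (nat_lit 0) (XT.lf (nat_lit 0) (nat_lit 27747775123) (nat_lit 76) (nat_lit 29937520568) (nat_lit 152) (nat_lit 13401334797) (nat_lit 199) (nat_lit 5) (nat_lit 200) (nat_lit 5) (nat_lit 201) (nat_lit 4) (nat_lit 422) (nat_lit 365) (nat_lit 233)) (XT.lf (nat_lit 0) (nat_lit 2760408607) (nat_lit 152) (nat_lit 4957043263) (nat_lit 228) (nat_lit 65662011275) (nat_lit 196) (nat_lit 5) (nat_lit 198) (nat_lit 5) (nat_lit 199) (nat_lit 5) (nat_lit 423) (nat_lit 365) (nat_lit 232))) (XT.nd (nat_lit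 78) (nat_lit 76) (nat_lit 0) (XT.lf (nat_lit 0) (nat_lit 30515978724) (nat_lit 228) (nat_lit 23652273527) (nat_lit 76) (nat_lit 21553991805) (nat_lit 196) (nat_lit 5) (nat_lit 199) (nat_lit 5) (nat_lit 197) (nat_lit 4) (nat_lit 424) (nat_lit 365) (nat_lit 231)) (XT.lf (nat_lit 0) (nat_lit 26420097956) (nat_lit 76) (nat_lit 28524330837) (nat_lit 152) (nat_lit 23213235374) (nat_lit 195) (nat_lit 5) (nat_lit 196) (nat_lit 5) (nat_lit 197) (nat_lit 4) (nat_lit 425) (nat_lit 365) (nat_lit 230))))) (XT.nd (nat_lit 312) (nat_lit 380) (nat_lit 0) (XT.nd (nat_lit 156) (nat_lit 76) (nat_lit 0) (XT.nd (nat_lit 78) (nat_lit 152) (nat_lit 0) (XT.lf (nat_lit 0) (nat_lit 286685478) (nat_lit 152) (nat_lit 889373254) (nat_lit 76) (nat_lit 79518721616) (nat_lit 194) (nat_lit 5) (nat_lit 196) (nat_lit 5) (nat_lit 195) (nat_lit 5) (nat_lit 426) (nat_lit 365) (nat_lit 229)) (XT.lf (nat_lit 0) (nat_lit 25468401426)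 (nat_lit 228) (nat_lit 29910773949) (nat_lit 76) (nat_lit 27896203922) (nat_lit 192) (nat_lit 5) (nat_lit 195) (nat_lit 5) (nat_lit 193) (nat_lit 4) (nat_lit 427) (nat_lit 365) (nat_lit 228))) (XT.nd (nat_lit 78) (nat_lit 0) (nat_lit 0) (XT.lf (nat_lit 0) (nat_lit 25156770156) (nat_lit 76) (nat_lit 27176236216) (nat_lit 152) (nat_lit 33630811663) (nat_lit 191) (nat_lit 5) (nat_lit 192) (nat_lit 5) (nat_lit 193) (nat_lit 4) (nat_lit 428) (nat_lit 365) (nat_lit 227)) (XT.lf (nat_lit 0) (nat_lit 81090207485) (nat_lit 152) (nat_lit 4798372391) (nat_lit 0) (nat_lit 2870630536) (nat_lit 191) (nat_lit 5) (nat_lit 193) (nat_lit 4) (nat_lit 191) (nat_lit 4) (nat_lit 429) (nat_lit 365) (nat_lit 226)))) (XT.nd (nat_lit 156) (nat_lit 152) (nat_lit 0) (XT.nd (nat_lit 78) (nat_lit 76) (nat_lit 0) (XT.lf (nat_lit 0) (nat_lit 20291268586) (nat_lit 152) (nat_lit 36626705723) (nat_lit 76) (nat_lit 34694734490) (nat_lit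 189) (nat_lit 5) (nat_lit 191) (nat_lit 5) (nat_lit 190) (nat_lit 4) (nat_lit 430) (nat_lit 365) (nat_lit 225)) (XT.lf (nat_lit 0) (nat_lit 23954527716) (nat_lit 76) (nat_lit 25890526928) (nat_lit 152) (nat_lit 44734879908) (nat_lit 188) (nat_lit 5) (nat_lit 189) (nat_lit 5) (nat_lit 190) (nat_lit 4) (nat_lit 431) (nat_lit 365) (nat_lit 224))) (XT.nd (nat_lit 78) (nat_lit 152) (nat_lit 0) (XT.lf (nat_lit 0) (nat_lit 81608062784) (nat_lit 152) (nat_lit 8949172218) (nat_lit 0) (nat_lit 7101709950) (nat_lit 188) (nat_lit 5) (nat_lit 190) (nat_lit 4) (nat_lit 188) (nat_lit 4) (nat_lit 432) (nat_lit 365) (nat_lit 223)) (XT.lf (nat_lit 0) (nat_lit 14953096681) (nat_lit 152) (nat_lit 43855984155) (nat_lit 76) (nat_lit 42005042367) (nat_lit 186) (nat_lit 5) (nat_lit 188) (nat_lit 5) (nat_lit 187) (nat_lit 4) (nat_lit 433) (nat_lit 365) (nat_lit 222)))))) (XT.nd (nat_lit 624) (nat_lit 684) (nat_lit 0) (XT.nd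 (nat_lit 312) (nat_lit 228) (nat_lit 0) (XT.nd (nat_lit 156) (nat_lit 228) (nat_lit 0) (XT.nd (nat_lit 78) (nat_lit 0) (nat_lit 0) (XT.lf (nat_lit 0) (nat_lit 22810297473) (nat_lit 76) (nat_lit 24664553089) (nat_lit 152) (nat_lit 56613703795) (nat_lit 185) (nat_lit 5) (nat_lit 186) (nat_lit 5) (nat_lit 187) (nat_lit 4) (nat_lit 434) (nat_lit 365) (nat_lit 221)) (XT.lf (nat_lit 0) (nat_lit 82549079323) (nat_lit 152) (nat_lit 13350135927) (nat_lit 0) (nat_lit 11581172459) (nat_lit 185) (nat_lit 5) (nat_lit 187) (nat_lit 4) (nat_lit 185) (nat_lit 4) (nat_lit 435) (nat_lit 365) (nat_lit 220))) (XT.nd (nat_lit 78) (nat_lit 76) (nat_lit 0) (XT.lf (nat_lit 0) (nat_lit 9419995255) (nat_lit 152) (nat_lit 51659779199) (nat_lit 76) (nat_lit 49887953121) (nat_lit 183) (nat_lit 5) (nat_lit 185) (nat_lit 5) (nat_lit 184) (nat_lit 4) (nat_lit 436) (nat_lit 365) (nat_lit 219)) (XT.lf (nat_lit 0) (nat_lit 21721181743)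 (nat_lit 76) (nat_lit 23495734115) (nat_lit 152) (nat_lit 69363787717) (nat_lit 182) (nat_lit 5) (nat_lit 183) (nat_lit 5) (nat_lit 184) (nat_lit 4) (nat_lit 437) (nat_lit 365) (nat_lit 218)))) (XT.nd (nat_lit 156) (nat_lit 76) (nat_lit 0) (XT.nd (nat_lit 78) (nat_lit 152) (nat_lit 0) (XT.lf (nat_lit 0) (nat_lit 83939195553) (nat_lit 152) (nat_lit 18035439938) (nat_lit 0) (nat_lit 16342917230) (nat_lit 182) (nat_lit 5) (nat_lit 184) (nat_lit 4) (nat_lit 182) (nat_lit 4) (nat_lit 438) (nat_lit 365) (nat_lit 217)) (XT.lf (nat_lit 0) (nat_lit 3655389438) (nat_lit 152) (nat_lit 60105085050) (nat_lit 76) (nat_lit 58410207266) (nat_lit 180) (nat_lit 5) (nat_lit 182) (nat_lit 5) (nat_lit 181) (nat_lit 4) (nat_lit 439) (nat_lit 365) (nat_lit 216))) (XT.nd (nat_lit 78) (nat_lit 0) (nat_lit 0) (XT.lf (nat_lit 0) (nat_lit 20684444795) (nat_lit 76) (nat_lit 22381565508) (nat_lit 152) (nat_lit 83090751695)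 (nat_lit 179) (nat_lit 5) (nat_lit 180) (nat_lit 5) (nat_lit 181) (nat_lit 4) (nat_lit 440) (nat_lit 365) (nat_lit 215)) (XT.lf (nat_lit 0) (nat_lit 85807805667) (nat_lit 152) (nat_lit 23042324129) (nat_lit 0) (nat_lit 21423984286) (nat_lit 179) (nat_lit 5) (nat_lit 181) (nat_lit 4) (nat_lit 179) (nat_lit 4) (nat_lit 441) (nat_lit 365) (nat_lit 214))))) (XT.nd (nat_lit 312) (nat_lit 380) (nat_lit 0) (XT.nd (nat_lit 156) (nat_lit 76) (nat_lit 0) (XT.nd (nat_lit 78) (nat_lit 152) (nat_lit 0) (XT.lf (nat_lit 0) (nat_lit 65224470519) (nat_lit 76) (nat_lit 66844747889) (nat_lit 76) (nat_lit 2458988981) (nat_lit 178) (nat_lit 4) (nat_lit 179) (nat_lit 5) (nat_lit 179) (nat_lit 4) (nat_lit 442) (nat_lit 365) (nat_lit 213)) (XT.lf (nat_lit 0) (nat_lit 19697500894) (nat_lit 76) (nat_lit 21319623527) (nat_lit 152) (nat_lit 97910295978) (nat_lit 176) (nat_lit 5) (nat_lit 177) (nat_lit 5) (nat_lit 178) (nat_lit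 4) (nat_lit 443) (nat_lit 365) (nat_lit 212))) (XT.nd (nat_lit 78) (nat_lit 76) (nat_lit 0) (XT.lf (nat_lit 0) (nat_lit 88188081750) (nat_lit 152) (nat_lit 28411432666) (nat_lit 0) (nat_lit 26864880259) (nat_lit 176) (nat_lit 5) (nat_lit 178) (nat_lit 4) (nat_lit 176) (nat_lit 4) (nat_lit 444) (nat_lit 365) (nat_lit 211)) (XT.lf (nat_lit 0) (nat_lit 68795223342) (nat_lit 76) (nat_lit 70343369757) (nat_lit 76) (nat_lit 9018574258) (nat_lit 175) (nat_lit 4) (nat_lit 176) (nat_lit 5) (nat_lit 176) (nat_lit 4) (nat_lit 445) (nat_lit 365) (nat_lit 210)))) (XT.nd (nat_lit 156) (nat_lit 228) (nat_lit 0) (XT.nd (nat_lit 78) (nat_lit 0) (nat_lit 0) (XT.lf (nat_lit 0) (nat_lit 18757903658) (nat_lit 76) (nat_lit 20307568175) (nat_lit 152) (nat_lit 113949264264) (nat_lit 173) (nat_lit 5) (nat_lit 174) (nat_lit 5) (nat_lit 175) (nat_lit 4) (nat_lit 446) (nat_lit 365) (nat_lit 209)) (XT.lf (nat_lit 0) (nat_lit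 91117329427) (nat_lit 152) (nat_lit 34187187443) (nat_lit 0) (nat_lit 32709939509) (nat_lit 173) (nat_lit 5) (nat_lit 175) (nat_lit 4) (nat_lit 173) (nat_lit 4) (nat_lit 447) (nat_lit 365) (nat_lit 208))) (XT.nd (nat_lit 78) (nat_lit 152) (nat_lit 0) (XT.lf (nat_lit 0) (nat_lit 72880776245) (nat_lit 76) (nat_lit 74359335573) (nat_lit 76) (nat_lit 15950634261) (nat_lit 172) (nat_lit 4) (nat_lit 173) (nat_lit 5) (nat_lit 173) (nat_lit 4) (nat_lit 448) (nat_lit 365) (nat_lit 207)) (XT.nd (nat_lit 78) (nat_lit 0) (nat_lit 0) (XT.lf (nat_lit 0) (nat_lit 17863336547) (nat_lit 76) (nat_lit 19343144821) (nat_lit 152) (nat_lit 131346815450) (nat_lit 170) (nat_lit 5) (nat_lit 171) (nat_lit 5) (nat_lit 172) (nat_lit 4) (nat_lit 449) (nat_lit 365) (nat_lit 206)) (XT.lf (nat_lit 0) (nat_lit 94637380615) (nat_lit 152) (nat_lit 40418197773) (nat_lit 0) (nat_lit 39007723728) (nat_lit 170) (nat_lit 5) (nat_lit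 172) (nat_lit 4) (nat_lit 170) (nat_lit 4) (nat_lit 450) (nat_lit 365) (nat_lit 205))))))))
noncomputable def xc206 : XT := (XT.nd (nat_lit 2496) (nat_lit 684) (nat_lit 0) (XT.nd (nat_lit 1248) (nat_lit 1292) (nat_lit 0) (XT.nd (nat_lit 624) (nat_lit 532) (nat_lit 0) (XT.nd (nat_lit 312) (nat_lit 380) (nat_lit 0) (XT.nd (nat_lit 156) (nat_lit 76) (nat_lit 0) (XT.nd (nat_lit 78) (nat_lit 152) (nat_lit 0) (XT.lf (nat_lit 0) (nat_lit 77526726188) (nat_lit 76) (nat_lit 78938279121) (nat_lit 76) (nat_lit 23307543346) (nat_lit 169) (nat_lit 4) (nat_lit 170) (nat_lit 5) (nat_lit 170) (nat_lit 4) (nat_lit 451) (nat_lit 365) (nat_lit 204)) (XT.lf (nat_lit 0) (nat_lit 17011604314) (nat_lit 76) (nat_lit 18424184759) (nat_lit 152) (nat_lit 150255714885) (nat_lit 167) (nat_lit 5) (nat_lit 168) (nat_lit 5) (nat_lit 169) (nat_lit 4) (nat_lit 452) (nat_lit 365) (nat_lit 203))) (XT.nd (nat_lit 78) (nat_lit 76)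 (nat_lit 0) (XT.lf (nat_lit 0) (nat_lit 98795027296) (nat_lit 152) (nat_lit 47157710303) (nat_lit 0) (nat_lit 45811463611) (nat_lit 167) (nat_lit 5) (nat_lit 169) (nat_lit 4) (nat_lit 167) (nat_lit 4) (nat_lit 453) (nat_lit 365) (nat_lit 202)) (XT.lf (nat_lit 0) (nat_lit 82783700218) (nat_lit 76) (nat_lit 84130834514) (nat_lit 76) (nat_lit 31146383226) (nat_lit 166) (nat_lit 4) (nat_lit 167) (nat_lit 5) (nat_lit 167) (nat_lit 4) (nat_lit 454) (nat_lit 365) (nat_lit 201)))) (XT.nd (nat_lit 156) (nat_lit 228) (nat_lit 0) (XT.nd (nat_lit 78) (nat_lit 0) (nat_lit 0) (XT.lf (nat_lit 0) (nat_lit 16200625283) (nat_lit 76) (nat_lit 17548604915) (nat_lit 152) (nat_lit 170843757264) (nat_lit 164) (nat_lit 5) (nat_lit 165) (nat_lit 5) (nat_lit 166) (nat_lit 4) (nat_lit 455) (nat_lit 365) (nat_lit 200)) (XT.lf (nat_lit 0) (nat_lit 103642500604) (nat_lit 152) (nat_lit 54464103468) (nat_lit 0) (nat_lit 53179546597)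 (nat_lit 164) (nat_lit 5) (nat_lit 166) (nat_lit 4) (nat_lit 164) (nat_lit 4) (nat_lit 456) (nat_lit 365) (nat_lit 199))) (XT.nd (nat_lit 78) (nat_lit 152) (nat_lit 0) (XT.lf (nat_lit 0) (nat_lit 88707851432) (nat_lit 76) (nat_lit 89993138536) (nat_lit 76) (nat_lit 39529454296) (nat_lit 163) (nat_lit 4) (nat_lit 164) (nat_lit 5) (nat_lit 164) (nat_lit 4) (nat_lit 457) (nat_lit 365) (nat_lit 198)) (XT.lf (nat_lit 0) (nat_lit 15428424336) (nat_lit 76) (nat_lit 16714406900) (nat_lit 152) (nat_lit 193295334561) (nat_lit 161) (nat_lit 5) (nat_lit 162) (nat_lit 5) (nat_lit 163) (nat_lit 4) (nat_lit 458) (nat_lit 365) (nat_lit 197))))) (XT.nd (nat_lit 312) (nat_lit 304) (nat_lit 0) (XT.nd (nat_lit 156) (nat_lit 152) (nat_lit 0) (XT.nd (nat_lit 78) (nat_lit 76) (nat_lit 0) (XT.lf (nat_lit 0) (nat_lit 109237999944) (nat_lit 152) (nat_lit 62401431243) (nat_lit 0) (nat_lit 61176055141) (nat_lit 161) (nat_lit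 5) (nat_lit 163) (nat_lit 4) (nat_lit 161) (nat_lit 4) (nat_lit 459) (nat_lit 365) (nat_lit 196)) (XT.lf (nat_lit 0) (nat_lit 95361407171) (nat_lit 76) (nat_lit 96587384038) (nat_lit 76) (nat_lit 48524838470) (nat_lit 160) (nat_lit 4) (nat_lit 161) (nat_lit 5) (nat_lit 161) (nat_lit 4) (nat_lit 460) (nat_lit 365) (nat_lit 195))) (XT.nd (nat_lit 78) (nat_lit 0) (nat_lit 0) (XT.lf (nat_lit 0) (nat_lit 14693126524) (nat_lit 76) (nat_lit 15919675548) (nat_lit 152) (nat_lit 217813163824) (nat_lit 158) (nat_lit 5) (nat_lit 159) (nat_lit 5) (nat_lit 160) (nat_lit 4) (nat_lit 461) (nat_lit 365) (nat_lit 194)) (XT.lf (nat_lit 0) (nat_lit 115646277299) (nat_lit 152) (nat_lit 71040021393) (nat_lit 0) (nat_lit 69871360502) (nat_lit 158) (nat_lit 5) (nat_lit 160) (nat_lit 4) (nat_lit 158) (nat_lit 4) (nat_lit 462) (nat_lit 365) (nat_lit 193)))) (XT.nd (nat_lit 156) (nat_lit 76) (nat_lit 0) (XT.nd (nat_lit 78)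 (nat_lit 152) (nat_lit 0) (XT.lf (nat_lit 0) (nat_lit 102813274670) (nat_lit 76) (nat_lit 103982429812) (nat_lit 76) (nat_lit 58207018765) (nat_lit 157) (nat_lit 4) (nat_lit 158) (nat_lit 5) (nat_lit 158) (nat_lit 4) (nat_lit 463) (nat_lit 365) (nat_lit 192)) (XT.lf (nat_lit 0) (nat_lit 13992951211) (nat_lit 76) (nat_lit 15162577068) (nat_lit 152) (nat_lit 244620191169) (nat_lit 155) (nat_lit 5) (nat_lit 156) (nat_lit 5) (nat_lit 157) (nat_lit 4) (nat_lit 464) (nat_lit 365) (nat_lit 191))) (XT.nd (nat_lit 78) (nat_lit 76) (nat_lit 0) (XT.lf (nat_lit 0) (nat_lit 122939282409) (nat_lit 152) (nat_lit 80457133928) (nat_lit 0) (nat_lit 79342777588) (nat_lit 155) (nat_lit 5) (nat_lit 157) (nat_lit 4) (nat_lit 155) (nat_lit 4) (nat_lit 465) (nat_lit 365) (nat_lit 190)) (XT.lf (nat_lit 0) (nat_lit 111139709907) (nat_lit 76) (nat_lit 112254472868) (nat_lit 76) (nat_lit 68657561425) (nat_lit 154) (nat_lit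 4) (nat_lit 155) (nat_lit 5) (nat_lit 155) (nat_lit 4) (nat_lit 466) (nat_lit 365) (nat_lit 189)))))) (XT.nd (nat_lit 624) (nat_lit 684) (nat_lit 0) (XT.nd (nat_lit 312) (nat_lit 228) (nat_lit 0) (XT.nd (nat_lit 156) (nat_lit 228) (nat_lit 0) (XT.nd (nat_lit 78) (nat_lit 0) (nat_lit 0) (XT.lf (nat_lit 0) (nat_lit 13326206693) (nat_lit 76) (nat_lit 14441356913) (nat_lit 152) (nat_lit 273961690019) (nat_lit 152) (nat_lit 5) (nat_lit 153) (nat_lit 5) (nat_lit 154) (nat_lit 4) (nat_lit 467) (nat_lit 365) (nat_lit 188)) (XT.lf (nat_lit 0) (nat_lit 131196875084) (nat_lit 152) (nat_lit 90737686054) (nat_lit 0) (nat_lit 89675286971) (nat_lit 152) (nat_lit 5) (nat_lit 154) (nat_lit 4) (nat_lit 152) (nat_lit 4) (nat_lit 468) (nat_lit 365) (nat_lit 187))) (XT.nd (nat_lit 78) (nat_lit 152) (nat_lit 0) (XT.lf (nat_lit 0) (nat_lit 120425056020) (nat_lit 76) (nat_lit 121487789631) (nat_lit 76) (nat_lit 79965866990)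 (nat_lit 151) (nat_lit 4) (nat_lit 152) (nat_lit 5) (nat_lit 152) (nat_lit 4) (nat_lit 469) (nat_lit 365) (nat_lit 186)) (XT.lf (nat_lit 0) (nat_lit 12691285229) (nat_lit 76) (nat_lit 13754337438) (nat_lit 152) (nat_lit 306107573473) (nat_lit 149) (nat_lit 5) (nat_lit 150) (nat_lit 5) (nat_lit 151) (nat_lit 4) (nat_lit 470) (nat_lit 365) (nat_lit 185)))) (XT.nd (nat_lit 156) (nat_lit 152) (nat_lit 0) (XT.nd (nat_lit 78) (nat_lit 76) (nat_lit 0) (XT.lf (nat_lit 0) (nat_lit 140507611509) (nat_lit 152) (nat_lit 101975050528) (nat_lit 0) (nat_lit 100962330874) (nat_lit 149) (nat_lit 5) (nat_lit 151) (nat_lit 4) (nat_lit 149) (nat_lit 4) (nat_lit 471) (nat_lit 365) (nat_lit 184)) (XT.lf (nat_lit 0) (nat_lit 130762558347) (nat_lit 76) (nat_lit 131775553218) (nat_lit 76) (nat_lit 92229997366) (nat_lit 148) (nat_lit 4) (nat_lit 149) (nat_lit 5) (nat_lit 149) (nat_lit 4) (nat_lit 472) (nat_lit 365) (nat_lit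 183))) (XT.nd (nat_lit 78) (nat_lit 0) (nat_lit 0) (XT.lf (nat_lit 0) (nat_lit 12086658435) (nat_lit 76) (nat_lit 13099915417) (nat_lit 152) (nat_lit 341354942774) (nat_lit 146) (nat_lit 5) (nat_lit 147) (nat_lit 5) (nat_lit 148) (nat_lit 4) (nat_lit 473) (nat_lit 365) (nat_lit 182)) (XT.lf (nat_lit 0) (nat_lit 150969612143) (nat_lit 152) (nat_lit 114271935018) (nat_lit 0) (nat_lit 113306690625) (nat_lit 146) (nat_lit 5) (nat_lit 148) (nat_lit 4) (nat_lit 146) (nat_lit 4) (nat_lit 474) (nat_lit 365) (nat_lit 181))))) (XT.nd (nat_lit 312) (nat_lit 380) (nat_lit 0) (XT.nd (nat_lit 156) (nat_lit 76) (nat_lit 0) (XT.nd (nat_lit 78) (nat_lit 152) (nat_lit 0) (XT.lf (nat_lit 0) (nat_lit 142255263836) (nat_lit 76) (nat_lit 143220734651) (nat_lit 76) (nat_lit 105557586711) (nat_lit 145) (nat_lit 4) (nat_lit 146) (nat_lit 5) (nat_lit 146) (nat_lit 4) (nat_lit 475) (nat_lit 365) (nat_lit 180)) (XT.lf (nat_lit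 0) (nat_lit 11510873015) (nat_lit 76) (nat_lit 12476559470) (nat_lit 152) (nat_lit 380030896070) (nat_lit 143) (nat_lit 5) (nat_lit 144) (nat_lit 5) (nat_lit 145) (nat_lit 4) (nat_lit 476) (nat_lit 365) (nat_lit 179))) (XT.nd (nat_lit 78) (nat_lit 76) (nat_lit 0) (XT.lf (nat_lit 0) (nat_lit 162691519542) (nat_lit 152) (nat_lit 127741350851) (nat_lit 0) (nat_lit 126821453874) (nat_lit 143) (nat_lit 5) (nat_lit 145) (nat_lit 4) (nat_lit 143) (nat_lit 4) (nat_lit 477) (nat_lit 365) (nat_lit 178)) (XT.lf (nat_lit 0) (nat_lit 155017013414) (nat_lit 76) (nat_lit 155937096670) (nat_lit 76) (nat_lit 120066844724) (nat_lit 142) (nat_lit 4) (nat_lit 143) (nat_lit 5) (nat_lit 143) (nat_lit 4) (nat_lit 478) (nat_lit 365) (nat_lit 177)))) (XT.nd (nat_lit 156) (nat_lit 228) (nat_lit 0) (XT.nd (nat_lit 78) (nat_lit 0) (nat_lit 0) (XT.lf (nat_lit 0) (nat_lit 10962546772) (nat_lit 76) (nat_lit 11882807435) (nat_lit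 152) (nat_lit 422495624163) (nat_lit 140) (nat_lit 5) (nat_lit 141) (nat_lit 5) (nat_lit 142) (nat_lit 4) (nat_lit 479) (nat_lit 365) (nat_lit 176)) (XT.lf (nat_lit 0) (nat_lit 175793555305) (nat_lit 152) (nat_lit 142507680362) (nat_lit 0) (nat_lit 141631080721) (nat_lit 140) (nat_lit 5) (nat_lit 142) (nat_lit 4) (nat_lit 140) (nat_lit 4) (nat_lit 480) (nat_lit 365) (nat_lit 175))) (XT.nd (nat_lit 78) (nat_lit 152) (nat_lit 0) (XT.lf (nat_lit 0) (nat_lit 169173536785) (nat_lit 76) (nat_lit 170050289677) (nat_lit 76) (nat_lit 135887661842) (nat_lit 139) (nat_lit 4) (nat_lit 140) (nat_lit 5) (nat_lit 140) (nat_lit 4) (nat_lit 481) (nat_lit 365) (nat_lit 174)) (XT.lf (nat_lit 0) (nat_lit 10440364888) (nat_lit 76) (nat_lit 11317263734) (nat_lit 152) (nat_lit 469145822687) (nat_lit 137) (nat_lit 5) (nat_lit 138) (nat_lit 5) (nat_lit 139) (nat_lit 4) (nat_lit 482) (nat_lit 365) (nat_lit 173))))))) (XT.nd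 (nat_lit 44538) (nat_lit 0) (nat_lit 9804) (XT.nd (nat_lit 624) (nat_lit 152) (nat_lit 0) (XT.nd (nat_lit 312) (nat_lit 304) (nat_lit 0) (XT.nd (nat_lit 156) (nat_lit 152) (nat_lit 0) (XT.nd (nat_lit 78) (nat_lit 76) (nat_lit 0) (XT.lf (nat_lit 0) (nat_lit 190408686292) (nat_lit 152) (nat_lit 158707853013) (nat_lit 0) (nat_lit 157872578871) (nat_lit 137) (nat_lit 5) (nat_lit 139) (nat_lit 4) (nat_lit 137) (nat_lit 4) (nat_lit 483) (nat_lit 365) (nat_lit 172)) (XT.lf (nat_lit 0) (nat_lit 184863660088) (nat_lit 76) (nat_lit 185699060310) (nat_lit 76) (nat_lit 153162826809) (nat_lit 136) (nat_lit 4) (nat_lit 137) (nat_lit 5) (nat_lit 137) (nat_lit 4) (nat_lit 484) (nat_lit 365) (nat_lit 171))) (XT.nd (nat_lit 78) (nat_lit 0) (nat_lit 0) (XT.lf (nat_lit 0) (nat_lit 9943076440) (nat_lit 76) (nat_lit 10778596738) (nat_lit 152) (nat_lit 520418453162) (nat_lit 134) (nat_lit 5) (nat_lit 135) (nat_lit 5)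 (nat_lit 136) (nat_lit 4) (nat_lit 485) (nat_lit 365) (nat_lit 170)) (XT.lf (nat_lit 0) (nat_lit 206683911273) (nat_lit 152) (nat_lit 176492641483) (nat_lit 0) (nat_lit 175696798953) (nat_lit 134) (nat_lit 5) (nat_lit 136) (nat_lit 4) (nat_lit 134) (nat_lit 4) (nat_lit 486) (nat_lit 365) (nat_lit 169)))) (XT.nd (nat_lit 156) (nat_lit 76) (nat_lit 0) (XT.nd (nat_lit 78) (nat_lit 152) (nat_lit 0) (XT.lf (nat_lit 0) (nat_lit 202240637945) (nat_lit 76) (nat_lit 203036584202) (nat_lit 76) (nat_lit 172049368156) (nat_lit 133) (nat_lit 4) (nat_lit 134) (nat_lit 5) (nat_lit 134) (nat_lit 4) (nat_lit 487) (nat_lit 365) (nat_lit 168)) (XT.lf (nat_lit 0) (nat_lit 9469491126) (nat_lit 76) (nat_lit 10265536170) (nat_lit 152) (nat_lit 576794888724) (nat_lit 131) (nat_lit 5) (nat_lit 132) (nat_lit 5) (nat_lit 133) (nat_lit 4) (nat_lit 488) (nat_lit 365) (nat_lit 167))) (XT.nd (nat_lit 78) (nat_lit 76) (nat_lit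 0) (XT.lf (nat_lit 0) (nat_lit 224781680335) (nat_lit 152) (nat_lit 196028090059) (nat_lit 0) (nat_lit 195269862319) (nat_lit 131) (nat_lit 5) (nat_lit 133) (nat_lit 4) (nat_lit 131) (nat_lit 4) (nat_lit 489) (nat_lit 365) (nat_lit 166)) (XT.lf (nat_lit 0) (nat_lit 221473622609) (nat_lit 76) (nat_lit 222231935685) (nat_lit 76) (nat_lit 192720032333) (nat_lit 130) (nat_lit 4) (nat_lit 131) (nat_lit 5) (nat_lit 131) (nat_lit 4) (nat_lit 490) (nat_lit 365) (nat_lit 165))))) (XT.nd (nat_lit 43602) (nat_lit 0) (nat_lit 12540) (XT.nd (nat_lit 43446) (nat_lit 0) (nat_lit 12464) (XT.nd (nat_lit 43368) (nat_lit 0) (nat_lit 12464) (XT.lf (nat_lit 0) (nat_lit 9018476196) (nat_lit 76) (nat_lit 9776870545) (nat_lit 152) (nat_lit 638805483963) (nat_lit 128) (nat_lit 5) (nat_lit 129) (nat_lit 5) (nat_lit 130) (nat_lit 4) (nat_lit 491) (nat_lit 365) (nat_lit 164)) (XT.lf (nat_lit 0) (nat_lit 1259949986) (nat_lit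 836) (nat_lit 3030080150) (nat_lit 836) (nat_lit 3030080150) (nat_lit 292) (nat_lit 3) (nat_lit 303) (nat_lit 3) (nat_lit 303) (nat_lit 5) (nat_lit 366) (nat_lit 366) (nat_lit 288))) (XT.nd (nat_lit 78) (nat_lit 0) (nat_lit 76) (XT.lf (nat_lit 76) (nat_lit 1301609623) (nat_lit 0) (nat_lit 1611305033) (nat_lit 836) (nat_lit 12076810575) (nat_lit 293) (nat_lit 5) (nat_lit 292) (nat_lit 3) (nat_lit 303) (nat_lit 5) (nat_lit 367) (nat_lit 366) (nat_lit 287)) (XT.lf (nat_lit 0) (nat_lit 3499131236) (nat_lit 760) (nat_lit 6212373600) (nat_lit 836) (nat_lit 5636522724) (nat_lit 293) (nat_lit 5) (nat_lit 303) (nat_lit 5) (nat_lit 304) (nat_lit 5) (nat_lit 368) (nat_lit 366) (nat_lit 286)))) (XT.nd (nat_lit 156) (nat_lit 0) (nat_lit 76) (XT.nd (nat_lit 78) (nat_lit 0) (nat_lit 76) (XT.lf (nat_lit 76) (nat_lit 1652295094) (nat_lit 0) (nat_lit 2495672510) (nat_lit 836) (nat_lit 11574611954) (nat_lit 294)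 (nat_lit 5) (nat_lit 293) (nat_lit 5) (nat_lit 304) (nat_lit 5) (nat_lit 369) (nat_lit 366) (nat_lit 285)) (XT.lf (nat_lit 0) (nat_lit 4997441015) (nat_lit 760) (nat_lit 6077939713) (nat_lit 836) (nat_lit 5032068668) (nat_lit 294) (nat_lit 5) (nat_lit 304) (nat_lit 5) (nat_lit 305) (nat_lit 5) (nat_lit 370) (nat_lit 366) (nat_lit 284))) (XT.nd (nat_lit 78) (nat_lit 0) (nat_lit 76) (XT.lf (nat_lit 76) (nat_lit 2336299892) (nat_lit 0) (nat_lit 3613270420) (nat_lit 836) (nat_lit 10558983302) (nat_lit 295) (nat_lit 5) (nat_lit 294) (nat_lit 5) (nat_lit 305) (nat_lit 5) (nat_lit 371) (nat_lit 366) (nat_lit 283)) (XT.lf (nat_lit 0) (nat_lit 7103358163) (nat_lit 760) (nat_lit 5622214363) (nat_lit 836) (nat_lit 4196437912) (nat_lit 295) (nat_lit 5) (nat_lit 305) (nat_lit 5) (nat_lit 306) (nat_lit 5) (nat_lit 372) (nat_lit 366) (nat_lit 282)))))) (XT.nd (nat_lit 624) (nat_lit 1368) (nat_lit 0) (XT.nd (nat_lit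 312) (nat_lit 1520) (nat_lit 0) (XT.nd (nat_lit 156) (nat_lit 0) (nat_lit 76) (XT.nd (nat_lit 78) (nat_lit 0) (nat_lit 76) (XT.lf (nat_lit 76) (nat_lit 3392967298) (nat_lit 0) (nat_lit 5018376173) (nat_lit 836) (nat_lit 8939971230) (nat_lit 296) (nat_lit 5) (nat_lit 295) (nat_lit 5) (nat_lit 306) (nat_lit 5) (nat_lit 373) (nat_lit 366) (nat_lit 281)) (XT.lf (nat_lit 0) (nat_lit 9914424563) (nat_lit 760) (nat_lit 4805127866) (nat_lit 836) (nat_lit 3076046922) (nat_lit 296) (nat_lit 5) (nat_lit 306) (nat_lit 5) (nat_lit 307) (nat_lit 5) (nat_lit 374) (nat_lit 366) (nat_lit 280))) (XT.nd (nat_lit 78) (nat_lit 0) (nat_lit 76) (XT.lf (nat_lit 76) (nat_lit 4867517425) (nat_lit 0) (nat_lit 6769048362) (nat_lit 836) (nat_lit 6618337142) (nat_lit 297) (nat_lit 5) (nat_lit 296) (nat_lit 5) (nat_lit 307) (nat_lit 5) (nat_lit 375) (nat_lit 366) (nat_lit 279)) (XT.lf (nat_lit 0) (nat_lit 13538358444) (nat_lit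 760) (nat_lit 3580767548) (nat_lit 76) (nat_lit 1613368476) (nat_lit 297) (nat_lit 5) (nat_lit 307) (nat_lit 5) (nat_lit 298) (nat_lit 5) (nat_lit 376) (nat_lit 366) (nat_lit 278)))) (XT.nd (nat_lit 156) (nat_lit 912) (nat_lit 0) (XT.nd (nat_lit 78) (nat_lit 0) (nat_lit 0) (XT.lf (nat_lit 0) (nat_lit 6811513291) (nat_lit 760) (nat_lit 8927881150) (nat_lit 836) (nat_lit 3484363457) (nat_lit 287) (nat_lit 5) (nat_lit 297) (nat_lit 5) (nat_lit 298) (nat_lit 5) (nat_lit 377) (nat_lit 366) (nat_lit 277)) (XT.lf (nat_lit 0) (nat_lit 17836202250) (nat_lit 760) (nat_lit 262207738) (nat_lit 836) (nat_lit 1638778124) (nat_lit 287) (nat_lit 5) (nat_lit 297) (nat_lit 5) (nat_lit 298) (nat_lit 5) (nat_lit 378) (nat_lit 366) (nat_lit 276))) (XT.nd (nat_lit 78) (nat_lit 380) (nat_lit 0) (XT.lf (nat_lit 0) (nat_lit 564768626) (nat_lit 532) (nat_lit 10988458676) (nat_lit 76) (nat_lit 8709066317) (nat_lit 280) (nat_lit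 5) (nat_lit 287) (nat_lit 5) (nat_lit 281) (nat_lit 5) (nat_lit 379) (nat_lit 366) (nat_lit 275)) (XT.lf (nat_lit 0) (nat_lit 225059340) (nat_lit 380) (nat_lit 2627008689) (nat_lit 456) (nat_lit 17958810661) (nat_lit 275) (nat_lit 5) (nat_lit 280) (nat_lit 5) (nat_lit 281) (nat_lit 5) (nat_lit 380) (nat_lit 366) (nat_lit 274))))) (XT.nd (nat_lit 312) (nat_lit 684) (nat_lit 0) (XT.nd (nat_lit 156) (nat_lit 304) (nat_lit 0) (XT.nd (nat_lit 78) (nat_lit 380) (nat_lit 0) (XT.lf (nat_lit 0) (nat_lit 5536692232) (nat_lit 456) (nat_lit 9117393202) (nat_lit 76) (nat_lit 6718659590) (nat_lit 275) (nat_lit 5) (nat_lit 281) (nat_lit 5) (nat_lit 276) (nat_lit 5) (nat_lit 381) (nat_lit 366) (nat_lit 273)) (XT.lf (nat_lit 0) (nat_lit 2964671355) (nat_lit 380) (nat_lit 5469274302) (nat_lit 456) (nat_lit 13524839116) (nat_lit 270) (nat_lit 5) (nat_lit 275) (nat_lit 5) (nat_lit 276) (nat_lit 5) (nat_lit 382) (nat_lit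 366) (nat_lit 272))) (XT.nd (nat_lit 78) (nat_lit 304) (nat_lit 0) (XT.lf (nat_lit 0) (nat_lit 11687556714) (nat_lit 456) (nat_lit 6678678898) (nat_lit 76) (nat_lit 4197316149) (nat_lit 270) (nat_lit 5) (nat_lit 276) (nat_lit 5) (nat_lit 271) (nat_lit 5) (nat_lit 383) (nat_lit 366) (nat_lit 271)) (XT.lf (nat_lit 0) (nat_lit 6354895886) (nat_lit 304) (nat_lit 8927712549) (nat_lit 380) (nat_lit 7907010659) (nat_lit 266) (nat_lit 5) (nat_lit 270) (nat_lit 5) (nat_lit 271) (nat_lit 5) (nat_lit 384) (nat_lit 366) (nat_lit 270)))) (XT.nd (nat_lit 156) (nat_lit 380) (nat_lit 0) (XT.nd (nat_lit 78) (nat_lit 304) (nat_lit 0) (XT.lf (nat_lit 0) (nat_lit 19177884765) (nat_lit 380) (nat_lit 3598167203) (nat_lit 76) (nat_lit 1064914224) (nat_lit 266) (nat_lit 5) (nat_lit 271) (nat_lit 5) (nat_lit 267) (nat_lit 5) (nat_lit 385) (nat_lit 366) (nat_lit 269)) (XT.lf (nat_lit 0) (nat_lit 10478127783) (nat_lit 304)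 (nat_lit 13090382090) (nat_lit 380) (nat_lit 941341525) (nat_lit 262) (nat_lit 5) (nat_lit 266) (nat_lit 5) (nat_lit 267) (nat_lit 5) (nat_lit 386) (nat_lit 366) (nat_lit 268))) (XT.nd (nat_lit 78) (nat_lit 0) (nat_lit 0) (XT.lf (nat_lit 0) (nat_lit 119303237) (nat_lit 304) (nat_lit 2806796905) (nat_lit 380) (nat_lit 22281036921) (nat_lit 257) (nat_lit 5) (nat_lit 261) (nat_lit 5) (nat_lit 262) (nat_lit 5) (nat_lit 387) (nat_lit 366) (nat_lit 267)) (XT.lf (nat_lit 0) (nat_lit 7312567299) (nat_lit 380) (nat_lit 10617922893) (nat_lit 76) (nat_lit 7990160797) (nat_lit 257) (nat_lit 5) (nat_lit 262) (nat_lit 5) (nat_lit 258) (nat_lit 5) (nat_lit 388) (nat_lit 366) (nat_lit 266))))))))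
noncomputable def xc207 : XT := (XT.nd (nat_lit 1248) (nat_lit 1596) (nat_lit 0) (XT.nd (nat_lit 624) (nat_lit 1140) (nat_lit 0) (XT.nd (nat_lit 312) (nat_lit 836) (nat_lit 0) (XT.nd (nat_lit 156) (nat_lit 228) (nat_lit 0) (XT.nd (nat_lit 78) (nat_lit 0) (nat_lit 0) (XT.lf (nat_lit 0) (nat_lit 4667960202) (nat_lit 304) (nat_lit 7360716887) (nat_lit 380) (nat_lit 14635647559) (nat_lit 253) (nat_lit 5) (nat_lit 257) (nat_lit 5) (nat_lit 258) (nat_lit 5) (nat_lit 389) (nat_lit 366) (nat_lit 265)) (XT.lf (nat_lit 0) (nat_lit 17213342788) (nat_lit 380) (nat_lit 6421841931) (nat_lit 76) (nat_lit 3798359747) (nat_lit 253) (nat_lit 5) (nat_lit 258) (nat_lit 5) (nat_lit 254) (nat_lit 5) (nat_lit 390) (nat_lit 366) (nat_lit 264))) (XT.nd (nat_lit 78) (nat_lit 0) (nat_lit 0) (XT.lf (nat_lit 0) (nat_lit 10124188605) (nat_lit 228) (nat_lit 12803815559) (nat_lit 304) (nat_lit 5299682994) (nat_lit 250) (nat_lit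 5) (nat_lit 253) (nat_lit 5) (nat_lit 254) (nat_lit 5) (nat_lit 391) (nat_lit 366) (nat_lit 263)) (XT.lf (nat_lit 0) (nat_lit 27710055418) (nat_lit 228) (nat_lit 1319345117) (nat_lit 304) (nat_lit 27086353) (nat_lit 250) (nat_lit 5) (nat_lit 253) (nat_lit 5) (nat_lit 254) (nat_lit 5) (nat_lit 392) (nat_lit 366) (nat_lit 262)))) (XT.nd (nat_lit 156) (nat_lit 228) (nat_lit 0) (XT.nd (nat_lit 78) (nat_lit 228) (nat_lit 0) (XT.lf (nat_lit 0) (nat_lit 5759138095) (nat_lit 380) (nat_lit 13396711101) (nat_lit 76) (nat_lit 10745260508) (nat_lit 245) (nat_lit 5) (nat_lit 250) (nat_lit 5) (nat_lit 246) (nat_lit 5) (nat_lit 393) (nat_lit 366) (nat_lit 261)) (XT.lf (nat_lit 0) (nat_lit 4622877834) (nat_lit 228) (nat_lit 7320518868) (nat_lit 304) (nat_lit 18839063098) (nat_lit 242) (nat_lit 5) (nat_lit 245) (nat_lit 5) (nat_lit 246) (nat_lit 5) (nat_lit 394) (nat_lit 366) (nat_lit 260))) (XT.nd (nat_lit 78)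 (nat_lit 228) (nat_lit 0) (XT.lf (nat_lit 0) (nat_lit 18739991924) (nat_lit 304) (nat_lit 7781903660) (nat_lit 76) (nat_lit 5170825631) (nat_lit 242) (nat_lit 5) (nat_lit 246) (nat_lit 5) (nat_lit 243) (nat_lit 5) (nat_lit 395) (nat_lit 366) (nat_lit 259)) (XT.lf (nat_lit 0) (nat_lit 11761104869) (nat_lit 228) (nat_lit 14412083937) (nat_lit 304) (nat_lit 6460468301) (nat_lit 239) (nat_lit 5) (nat_lit 242) (nat_lit 5) (nat_lit 243) (nat_lit 5) (nat_lit 396) (nat_lit 366) (nat_lit 258))))) (XT.nd (nat_lit 312) (nat_lit 608) (nat_lit 0) (XT.nd (nat_lit 156) (nat_lit 228) (nat_lit 0) (XT.nd (nat_lit 78) (nat_lit 228) (nat_lit 0) (XT.lf (nat_lit 0) (nat_lit 472152772) (nat_lit 304) (nat_lit 1081379163) (nat_lit 76) (nat_lit 32061471921) (nat_lit 238) (nat_lit 5) (nat_lit 242) (nat_lit 5) (nat_lit 239) (nat_lit 5) (nat_lit 397) (nat_lit 366) (nat_lit 257)) (XT.lf (nat_lit 0) (nat_lit 8037094125) (nat_lit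 304) (nat_lit 14586644796) (nat_lit 76) (nat_lit 11991243390) (nat_lit 235) (nat_lit 5) (nat_lit 239) (nat_lit 5) (nat_lit 236) (nat_lit 5) (nat_lit 398) (nat_lit 366) (nat_lit 256))) (XT.nd (nat_lit 78) (nat_lit 0) (nat_lit 0) (XT.lf (nat_lit 0) (nat_lit 6747562308) (nat_lit 228) (nat_lit 9375790399) (nat_lit 304) (nat_lit 19534453473) (nat_lit 232) (nat_lit 5) (nat_lit 235) (nat_lit 5) (nat_lit 236) (nat_lit 5) (nat_lit 399) (nat_lit 366) (nat_lit 255)) (XT.lf (nat_lit 0) (nat_lit 24929545658) (nat_lit 304) (nat_lit 7170146827) (nat_lit 76) (nat_lit 4637297686) (nat_lit 232) (nat_lit 5) (nat_lit 236) (nat_lit 5) (nat_lit 233) (nat_lit 5) (nat_lit 400) (nat_lit 366) (nat_lit 254)))) (XT.nd (nat_lit 156) (nat_lit 152) (nat_lit 0) (XT.nd (nat_lit 78) (nat_lit 304) (nat_lit 0) (XT.lf (nat_lit 0) (nat_lit 16006243341) (nat_lit 152) (nat_lit 18567449406) (nat_lit 228) (nat_lit 3276558390) (nat_lit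 230) (nat_lit 5) (nat_lit 232) (nat_lit 5) (nat_lit 233) (nat_lit 5) (nat_lit 401) (nat_lit 366) (nat_lit 253)) (XT.lf (nat_lit 0) (nat_lit 1526084543) (nat_lit 228) (nat_lit 4114297202) (nat_lit 304) (nat_lit 33367292035) (nat_lit 226) (nat_lit 5) (nat_lit 229) (nat_lit 5) (nat_lit 230) (nat_lit 5) (nat_lit 402) (nat_lit 366) (nat_lit 252))) (XT.nd (nat_lit 78) (nat_lit 152) (nat_lit 0) (XT.lf (nat_lit 0) (nat_lit 15435930119) (nat_lit 304) (nat_lit 13623334096) (nat_lit 76) (nat_lit 11133873882) (nat_lit 226) (nat_lit 5) (nat_lit 230) (nat_lit 5) (nat_lit 227) (nat_lit 5) (nat_lit 403) (nat_lit 366) (nat_lit 251)) (XT.lf (nat_lit 0) (nat_lit 11726724482) (nat_lit 152) (nat_lit 14239514008) (nat_lit 228) (nat_lit 15459388012) (nat_lit 224) (nat_lit 5) (nat_lit 226) (nat_lit 5) (nat_lit 227) (nat_lit 5) (nat_lit 404) (nat_lit 366) (nat_lit 250)))))) (XT.nd (nat_lit 624) (nat_lit 684) (nat_lit 0)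 (XT.nd (nat_lit 312) (nat_lit 532) (nat_lit 0) (XT.nd (nat_lit 156) (nat_lit 152) (nat_lit 0) (XT.nd (nat_lit 78) (nat_lit 228) (nat_lit 0) (XT.lf (nat_lit 0) (nat_lit 37272711240) (nat_lit 228) (nat_lit 3924419447) (nat_lit 76) (nat_lit 1510126192) (nat_lit 224) (nat_lit 5) (nat_lit 227) (nat_lit 5) (nat_lit 225) (nat_lit 5) (nat_lit 405) (nat_lit 366) (nat_lit 249)) (XT.lf (nat_lit 0) (nat_lit 5535891651) (nat_lit 228) (nat_lit 20458591382) (nat_lit 76) (nat_lit 18024145391) (nat_lit 221) (nat_lit 5) (nat_lit 224) (nat_lit 5) (nat_lit 222) (nat_lit 5) (nat_lit 406) (nat_lit 366) (nat_lit 248))) (XT.nd (nat_lit 78) (nat_lit 0) (nat_lit 0) (XT.lf (nat_lit 0) (nat_lit 7297437196) (nat_lit 152) (nat_lit 9751076269) (nat_lit 228) (nat_lit 28333785583) (nat_lit 219) (nat_lit 5) (nat_lit 221) (nat_lit 5) (nat_lit 222) (nat_lit 5) (nat_lit 407) (nat_lit 366) (nat_lit 247)) (XT.lf (nat_lit 0) (nat_lit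 29597840247) (nat_lit 228) (nat_lit 9773733536) (nat_lit 76) (nat_lit 7419525727) (nat_lit 219) (nat_lit 5) (nat_lit 222) (nat_lit 5) (nat_lit 220) (nat_lit 5) (nat_lit 408) (nat_lit 366) (nat_lit 246)))) (XT.nd (nat_lit 156) (nat_lit 152) (nat_lit 0) (XT.nd (nat_lit 78) (nat_lit 228) (nat_lit 0) (XT.lf (nat_lit 0) (nat_lit 20438963611) (nat_lit 152) (nat_lit 22809751126) (nat_lit 228) (nat_lit 4997921189) (nat_lit 217) (nat_lit 5) (nat_lit 219) (nat_lit 5) (nat_lit 220) (nat_lit 5) (nat_lit 409) (nat_lit 366) (nat_lit 245)) (XT.lf (nat_lit 0) (nat_lit 2688038168) (nat_lit 152) (nat_lit 5074615879) (nat_lit 228) (nat_lit 41995933070) (nat_lit 214) (nat_lit 5) (nat_lit 216) (nat_lit 5) (nat_lit 217) (nat_lit 5) (nat_lit 410) (nat_lit 366) (nat_lit 244))) (XT.nd (nat_lit 78) (nat_lit 152) (nat_lit 0) (XT.lf (nat_lit 0) (nat_lit 21678656750) (nat_lit 228) (nat_lit 15958183853) (nat_lit 76) (nat_lit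 13670930527) (nat_lit 214) (nat_lit 5) (nat_lit 217) (nat_lit 5) (nat_lit 215) (nat_lit 5) (nat_lit 411) (nat_lit 366) (nat_lit 243)) (XT.lf (nat_lit 0) (nat_lit 17168110863) (nat_lit 152) (nat_lit 19469004354) (nat_lit 228) (nat_lit 16279966345) (nat_lit 212) (nat_lit 5) (nat_lit 214) (nat_lit 5) (nat_lit 215) (nat_lit 5) (nat_lit 412) (nat_lit 366) (nat_lit 242))))) (XT.nd (nat_lit 312) (nat_lit 380) (nat_lit 0) (XT.nd (nat_lit 156) (nat_lit 152) (nat_lit 0) (XT.nd (nat_lit 78) (nat_lit 152) (nat_lit 0) (XT.lf (nat_lit 0) (nat_lit 52496896240) (nat_lit 152) (nat_lit 112378117) (nat_lit 228) (nat_lit 1984294271) (nat_lit 212) (nat_lit 5) (nat_lit 214) (nat_lit 5) (nat_lit 215) (nat_lit 5) (nat_lit 413) (nat_lit 366) (nat_lit 241)) (XT.lf (nat_lit 0) (nat_lit 13465184588) (nat_lit 152) (nat_lit 22525605842) (nat_lit 76) (nat_lit 20310123788) (nat_lit 210) (nat_lit 5) (nat_lit 212) (nat_lit 5) (nat_lit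 211) (nat_lit 5) (nat_lit 414) (nat_lit 366) (nat_lit 240))) (XT.nd (nat_lit 78) (nat_lit 0) (nat_lit 0) (XT.lf (nat_lit 0) (nat_lit 13821587383) (nat_lit 152) (nat_lit 16048291235) (nat_lit 228) (nat_lit 28209650674) (nat_lit 208) (nat_lit 5) (nat_lit 210) (nat_lit 5) (nat_lit 211) (nat_lit 5) (nat_lit 415) (nat_lit 366) (nat_lit 239)) (XT.lf (nat_lit 0) (nat_lit 47554645948) (nat_lit 228) (nat_lit 7250143038) (nat_lit 76) (nat_lit 5119294201) (nat_lit 208) (nat_lit 5) (nat_lit 211) (nat_lit 5) (nat_lit 209) (nat_lit 4) (nat_lit 416) (nat_lit 366) (nat_lit 238)))) (XT.nd (nat_lit 156) (nat_lit 76) (nat_lit 0) (XT.nd (nat_lit 78) (nat_lit 152) (nat_lit 0) (XT.lf (nat_lit 0) (nat_lit 4903354126) (nat_lit 152) (nat_lit 29527937722) (nat_lit 76) (nat_lit 27387395075) (nat_lit 206) (nat_lit 5) (nat_lit 208) (nat_lit 5) (nat_lit 207) (nat_lit 5) (nat_lit 417) (nat_lit 366) (nat_lit 237)) (XT.lf (nat_lit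 0) (nat_lit 10378552895) (nat_lit 152) (nat_lit 12528327742) (nat_lit 228) (nat_lit 40876861837) (nat_lit 204) (nat_lit 5) (nat_lit 206) (nat_lit 5) (nat_lit 207) (nat_lit 5) (nat_lit 418) (nat_lit 366) (nat_lit 236))) (XT.nd (nat_lit 78) (nat_lit 76) (nat_lit 0) (XT.lf (nat_lit 0) (nat_lit 42478296717) (nat_lit 228) (nat_lit 12695573459) (nat_lit 76) (nat_lit 10639794964) (nat_lit 204) (nat_lit 5) (nat_lit 207) (nat_lit 5) (nat_lit 205) (nat_lit 4) (nat_lit 419) (nat_lit 366) (nat_lit 235)) (XT.lf (nat_lit 0) (nat_lit 30823665141) (nat_lit 76) (nat_lit 32887418758) (nat_lit 152) (nat_lit 4199860026) (nat_lit 203) (nat_lit 5) (nat_lit 204) (nat_lit 5) (nat_lit 205) (nat_lit 4) (nat_lit 420) (nat_lit 366) (nat_lit 234)))))))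
noncomputable def xc208 : XT := (XT.nd (nat_lit 1248) (nat_lit 1368) (nat_lit 0) (XT.nd (nat_lit 624) (nat_lit 532) (nat_lit 0) (XT.nd (nat_lit 312) (nat_lit 304) (nat_lit 0) (XT.nd (nat_lit 156) (nat_lit 304) (nat_lit 0) (XT.nd (nat_lit 78) (nat_lit 0) (nat_lit 0) (XT.lf (nat_lit 0) (nat_lit 6816782143) (nat_lit 152) (nat_lit 8888131114) (nat_lit 228) (nat_lit 54379709812) (nat_lit 200) (nat_lit 5) (nat_lit 202) (nat_lit 5) (nat_lit 203) (nat_lit 5) (nat_lit 421) (nat_lit 366) (nat_lit 233)) (XT.lf (nat_lit 0) (nat_lit 37353042838) (nat_lit 228) (nat_lit 18472820160) (nat_lit 76) (nat_lit 16493217644) (nat_lit 200) (nat_lit 5) (nat_lit 203) (nat_lit 5) (nat_lit 201) (nat_lit 4) (nat_lit 422) (nat_lit 366) (nat_lit 232))) (XT.nd (nat_lit 78) (nat_lit 228) (nat_lit 0) (XT.lf (nat_lit 0) (nat_lit 29348865680) (nat_lit 76) (nat_lit 31335029349) (nat_lit 152) (nat_lit 13951350256) (nat_lit 199) (nat_lit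 5) (nat_lit 200) (nat_lit 5) (nat_lit 201) (nat_lit 4) (nat_lit 423) (nat_lit 366) (nat_lit 231)) (XT.lf (nat_lit 0) (nat_lit 3112464452) (nat_lit 152) (nat_lit 5104876838) (nat_lit 228) (nat_lit 68825394171) (nat_lit 196) (nat_lit 5) (nat_lit 198) (nat_lit 5) (nat_lit 199) (nat_lit 5) (nat_lit 424) (nat_lit 366) (nat_lit 230)))) (XT.nd (nat_lit 156) (nat_lit 228) (nat_lit 0) (XT.nd (nat_lit 78) (nat_lit 76) (nat_lit 0) (XT.lf (nat_lit 0) (nat_lit 32151852324) (nat_lit 228) (nat_lit 24627101789) (nat_lit 76) (nat_lit 22723898413) (nat_lit 196) (nat_lit 5) (nat_lit 199) (nat_lit 5) (nat_lit 197) (nat_lit 4) (nat_lit 425) (nat_lit 366) (nat_lit 229)) (XT.lf (nat_lit 0) (nat_lit 27945536891) (nat_lit 76) (nat_lit 29854138143) (nat_lit 152) (nat_lit 24260471102) (nat_lit 195) (nat_lit 5) (nat_lit 196) (nat_lit 5) (nat_lit 197) (nat_lit 4) (nat_lit 426) (nat_lit 366) (nat_lit 228))) (XT.nd (nat_lit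 78) (nat_lit 152) (nat_lit 0) (XT.lf (nat_lit 0) (nat_lit 405587085) (nat_lit 152) (nat_lit 735685366) (nat_lit 76) (nat_lit 83583018548) (nat_lit 194) (nat_lit 5) (nat_lit 196) (nat_lit 5) (nat_lit 195) (nat_lit 5) (nat_lit 427) (nat_lit 366) (nat_lit 227)) (XT.lf (nat_lit 0) (nat_lit 26845894823) (nat_lit 228) (nat_lit 31207662087) (nat_lit 76) (nat_lit 29380387687) (nat_lit 192) (nat_lit 5) (nat_lit 195) (nat_lit 5) (nat_lit 193) (nat_lit 4) (nat_lit 428) (nat_lit 366) (nat_lit 226))))) (XT.nd (nat_lit 312) (nat_lit 228) (nat_lit 0) (XT.nd (nat_lit 156) (nat_lit 228) (nat_lit 0) (XT.nd (nat_lit 78) (nat_lit 0) (nat_lit 0) (XT.lf (nat_lit 0) (nat_lit 26610055182) (nat_lit 76) (nat_lit 28441770429) (nat_lit 152) (nat_lit 35205074880) (nat_lit 191) (nat_lit 5) (nat_lit 192) (nat_lit 5) (nat_lit 193) (nat_lit 4) (nat_lit 429) (nat_lit 366) (nat_lit 225)) (XT.lf (nat_lit 0) (nat_lit 85243408568)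 (nat_lit 152) (nat_lit 4848673259) (nat_lit 0) (nat_lit 3100154569) (nat_lit 191) (nat_lit 5) (nat_lit 193) (nat_lit 4) (nat_lit 191) (nat_lit 4) (nat_lit 430) (nat_lit 366) (nat_lit 224))) (XT.nd (nat_lit 78) (nat_lit 76) (nat_lit 0) (XT.lf (nat_lit 0) (nat_lit 21404324470) (nat_lit 152) (nat_lit 38268225004) (nat_lit 76) (nat_lit 36515870144) (nat_lit 189) (nat_lit 5) (nat_lit 191) (nat_lit 5) (nat_lit 190) (nat_lit 4) (nat_lit 431) (nat_lit 366) (nat_lit 223)) (XT.lf (nat_lit 0) (nat_lit 25339008560) (nat_lit 76) (nat_lit 27095016915) (nat_lit 152) (nat_lit 46870069900) (nat_lit 188) (nat_lit 5) (nat_lit 189) (nat_lit 5) (nat_lit 190) (nat_lit 4) (nat_lit 432) (nat_lit 366) (nat_lit 222)))) (XT.nd (nat_lit 156) (nat_lit 76) (nat_lit 0) (XT.nd (nat_lit 78) (nat_lit 152) (nat_lit 0) (XT.lf (nat_lit 0) (nat_lit 85781917178) (nat_lit 152) (nat_lit 9215502598) (nat_lit 0) (nat_lit 7539799861) (nat_lit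 188) (nat_lit 5) (nat_lit 190) (nat_lit 4) (nat_lit 188) (nat_lit 4) (nat_lit 433) (nat_lit 366) (nat_lit 221)) (XT.lf (nat_lit 0) (nat_lit 15794039666) (nat_lit 152) (nat_lit 45867492027) (nat_lit 76) (nat_lit 44188633263) (nat_lit 186) (nat_lit 5) (nat_lit 188) (nat_lit 5) (nat_lit 187) (nat_lit 4) (nat_lit 434) (nat_lit 366) (nat_lit 220))) (XT.nd (nat_lit 78) (nat_lit 0) (nat_lit 0) (XT.lf (nat_lit 0) (nat_lit 24129179629) (nat_lit 76) (nat_lit 25811044133) (nat_lit 152) (nat_lit 59348176780) (nat_lit 185) (nat_lit 5) (nat_lit 186) (nat_lit 5) (nat_lit 187) (nat_lit 4) (nat_lit 435) (nat_lit 366) (nat_lit 219)) (XT.lf (nat_lit 0) (nat_lit 86765090311) (nat_lit 152) (nat_lit 13844695473) (nat_lit 0) (nat_lit 12240193460) (nat_lit 185) (nat_lit 5) (nat_lit 187) (nat_lit 4) (nat_lit 185) (nat_lit 4) (nat_lit 436) (nat_lit 366) (nat_lit 218)))))) (XT.nd (nat_lit 624) (nat_lit 684) (nat_lit 0) (XT.nd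 (nat_lit 312) (nat_lit 304) (nat_lit 0) (XT.nd (nat_lit 156) (nat_lit 152) (nat_lit 0) (XT.nd (nat_lit 78) (nat_lit 76) (nat_lit 0) (XT.lf (nat_lit 0) (nat_lit 9979417853) (nat_lit 152) (nat_lit 54069686721) (nat_lit 76) (nat_lit 52462588238) (nat_lit 183) (nat_lit 5) (nat_lit 185) (nat_lit 5) (nat_lit 184) (nat_lit 4) (nat_lit 437) (nat_lit 366) (nat_lit 217)) (XT.lf (nat_lit 0) (nat_lit 22977530632) (nat_lit 76) (nat_lit 24587101945) (nat_lit 152) (nat_lit 72740762631) (nat_lit 182) (nat_lit 5) (nat_lit 183) (nat_lit 5) (nat_lit 184) (nat_lit 4) (nat_lit 438) (nat_lit 366) (nat_lit 216))) (XT.nd (nat_lit 78) (nat_lit 152) (nat_lit 0) (XT.lf (nat_lit 0) (nat_lit 88220129928) (nat_lit 152) (nat_lit 18772134844) (nat_lit 0) (nat_lit 17236966855) (nat_lit 182) (nat_lit 5) (nat_lit 184) (nat_lit 4) (nat_lit 182) (nat_lit 4) (nat_lit 439) (nat_lit 366) (nat_lit 215)) (XT.lf (nat_lit 0) (nat_lit 3922023112)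 (nat_lit 152) (nat_lit 62945151816) (nat_lit 76) (nat_lit 61407847704) (nat_lit 180) (nat_lit 5) (nat_lit 182) (nat_lit 5) (nat_lit 181) (nat_lit 4) (nat_lit 440) (nat_lit 366) (nat_lit 214)))) (XT.nd (nat_lit 156) (nat_lit 228) (nat_lit 0) (XT.nd (nat_lit 78) (nat_lit 0) (nat_lit 0) (XT.lf (nat_lit 0) (nat_lit 21881190207) (nat_lit 76) (nat_lit 23420528722) (nat_lit 152) (nat_lit 87158760763) (nat_lit 179) (nat_lit 5) (nat_lit 180) (nat_lit 5) (nat_lit 181) (nat_lit 4) (nat_lit 441) (nat_lit 366) (nat_lit 213)) (XT.lf (nat_lit 0) (nat_lit 90177871123) (nat_lit 152) (nat_lit 24036923424) (nat_lit 0) (nat_lit 22569041480) (nat_lit 179) (nat_lit 5) (nat_lit 181) (nat_lit 4) (nat_lit 179) (nat_lit 4) (nat_lit 442) (nat_lit 366) (nat_lit 212))) (XT.nd (nat_lit 78) (nat_lit 152) (nat_lit 0) (XT.lf (nat_lit 0) (nat_lit 68640670361) (nat_lit 76) (nat_lit 70110309699) (nat_lit 76) (nat_lit 2499722662)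 (nat_lit 178) (nat_lit 4) (nat_lit 179) (nat_lit 5) (nat_lit 179) (nat_lit 4) (nat_lit 443) (nat_lit 366) (nat_lit 211)) (XT.lf (nat_lit 0) (nat_lit 20837441613) (nat_lit 76) (nat_lit 22308754659) (nat_lit 152) (nat_lit 102723684367) (nat_lit 176) (nat_lit 5) (nat_lit 177) (nat_lit 5) (nat_lit 178) (nat_lit 4) (nat_lit 444) (nat_lit 366) (nat_lit 210))))) (XT.nd (nat_lit 312) (nat_lit 456) (nat_lit 0) (XT.nd (nat_lit 156) (nat_lit 152) (nat_lit 0) (XT.nd (nat_lit 78) (nat_lit 76) (nat_lit 0) (XT.lf (nat_lit 0) (nat_lit 92673119622) (nat_lit 152) (nat_lit 29681740861) (nat_lit 0) (nat_lit 28278972238) (nat_lit 176) (nat_lit 5) (nat_lit 178) (nat_lit 4) (nat_lit 176) (nat_lit 4) (nat_lit 445) (nat_lit 366) (nat_lit 209)) (XT.lf (nat_lit 0) (nat_lit 72382824344) (nat_lit 76) (nat_lit 73787038779) (nat_lit 76) (nat_lit 9391445583) (nat_lit 175) (nat_lit 4) (nat_lit 176) (nat_lit 5) (nat_lit 176) (nat_lit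 4) (nat_lit 446) (nat_lit 366) (nat_lit 208))) (XT.nd (nat_lit 78) (nat_lit 0) (nat_lit 0) (XT.lf (nat_lit 0) (nat_lit 19843712190) (nat_lit 76) (nat_lit 21249303590) (nat_lit 152) (nat_lit 119568743604) (nat_lit 173) (nat_lit 5) (nat_lit 174) (nat_lit 5) (nat_lit 175) (nat_lit 4) (nat_lit 447) (nat_lit 366) (nat_lit 207)) (XT.lf (nat_lit 0) (nat_lit 95745024593) (nat_lit 152) (nat_lit 35753235296) (nat_lit 0) (nat_lit 34413327874) (nat_lit 173) (nat_lit 5) (nat_lit 175) (nat_lit 4) (nat_lit 173) (nat_lit 4) (nat_lit 448) (nat_lit 366) (nat_lit 206)))) (XT.nd (nat_lit 156) (nat_lit 228) (nat_lit 0) (XT.nd (nat_lit 78) (nat_lit 152) (nat_lit 0) (XT.lf (nat_lit 0) (nat_lit 76665815100) (nat_lit 76) (nat_lit 78006911995) (nat_lit 76) (nat_lit 16674025804) (nat_lit 172) (nat_lit 4) (nat_lit 173) (nat_lit 5) (nat_lit 173) (nat_lit 4) (nat_lit 449) (nat_lit 366) (nat_lit 205)) (XT.lf (nat_lit 0) (nat_lit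 18897563897) (nat_lit 76) (nat_lit 20239793624) (nat_lit 152) (nat_lit 137840076533) (nat_lit 170) (nat_lit 5) (nat_lit 171) (nat_lit 5) (nat_lit 172) (nat_lit 4) (nat_lit 450) (nat_lit 366) (nat_lit 204))) (XT.nd (nat_lit 78) (nat_lit 228) (nat_lit 0) (XT.lf (nat_lit 0) (nat_lit 99437490522) (nat_lit 152) (nat_lit 42302453097) (nat_lit 0) (nat_lit 41023111559) (nat_lit 170) (nat_lit 5) (nat_lit 172) (nat_lit 4) (nat_lit 170) (nat_lit 4) (nat_lit 451) (nat_lit 366) (nat_lit 203)) (XT.nd (nat_lit 78) (nat_lit 152) (nat_lit 0) (XT.lf (nat_lit 0) (nat_lit 81537512956) (nat_lit 76) (nat_lit 82817833077) (nat_lit 76) (nat_lit 24402475532) (nat_lit 169) (nat_lit 4) (nat_lit 170) (nat_lit 5) (nat_lit 170) (nat_lit 4) (nat_lit 452) (nat_lit 366) (nat_lit 202)) (XT.lf (nat_lit 0) (nat_lit 17996684747) (nat_lit 76) (nat_lit 19277936850) (nat_lit 152) (nat_lit 157698105406) (nat_lit 167) (nat_lit 5) (nat_lit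 168) (nat_lit 5) (nat_lit 169) (nat_lit 4) (nat_lit 453) (nat_lit 366) (nat_lit 201))))))))
noncomputable def xc209 : XT := (XT.nd (nat_lit 2496) (nat_lit 456) (nat_lit 0) (XT.nd (nat_lit 1248) (nat_lit 1216) (nat_lit 0) (XT.nd (nat_lit 624) (nat_lit 608) (nat_lit 0) (XT.nd (nat_lit 312) (nat_lit 304) (nat_lit 0) (XT.nd (nat_lit 156) (nat_lit 152) (nat_lit 0) (XT.nd (nat_lit 78) (nat_lit 76) (nat_lit 0) (XT.lf (nat_lit 0) (nat_lit 103799632247) (nat_lit 152) (nat_lit 49385310890) (nat_lit 0) (nat_lit 48164225454) (nat_lit 167) (nat_lit 5) (nat_lit 169) (nat_lit 4) (nat_lit 167) (nat_lit 4) (nat_lit 454) (nat_lit 366) (nat_lit 200)) (XT.lf (nat_lit 0) (nat_lit 87051068788) (nat_lit 76) (nat_lit 88272959306) (nat_lit 76) (nat_lit 32636747431) (nat_lit 166) (nat_lit 4) (nat_lit 167) (nat_lit 5) (nat_lit 167) (nat_lit 4) (nat_lit 455) (nat_lit 366) (nat_lit 199))) (XT.nd (nat_lit 78) (nat_lit 0) (nat_lit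 0) (XT.lf (nat_lit 0) (nat_lit 17138881042) (nat_lit 76) (nat_lit 18361538304) (nat_lit 152) (nat_lit 179319031107) (nat_lit 164) (nat_lit 5) (nat_lit 165) (nat_lit 5) (nat_lit 166) (nat_lit 4) (nat_lit 456) (nat_lit 366) (nat_lit 198)) (XT.lf (nat_lit 0) (nat_lit 108886277648) (nat_lit 152) (nat_lit 57063114451) (nat_lit 0) (nat_lit 55897983502) (nat_lit 164) (nat_lit 5) (nat_lit 166) (nat_lit 4) (nat_lit 164) (nat_lit 4) (nat_lit 457) (nat_lit 366) (nat_lit 197)))) (XT.nd (nat_lit 156) (nat_lit 76) (nat_lit 0) (XT.nd (nat_lit 78) (nat_lit 152) (nat_lit 0) (XT.lf (nat_lit 0) (nat_lit 93265435061) (nat_lit 76) (nat_lit 94431228353) (nat_lit 76) (nat_lit 41442271864) (nat_lit 163) (nat_lit 4) (nat_lit 164) (nat_lit 5) (nat_lit 164) (nat_lit 4) (nat_lit 458) (nat_lit 366) (nat_lit 196)) (XT.lf (nat_lit 0) (nat_lit 16322070289) (nat_lit 76) (nat_lit 17488494384) (nat_lit 152) (nat_lit 202896479821)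 (nat_lit 161) (nat_lit 5) (nat_lit 162) (nat_lit 5) (nat_lit 163) (nat_lit 4) (nat_lit 459) (nat_lit 366) (nat_lit 195))) (XT.nd (nat_lit 78) (nat_lit 76) (nat_lit 0) (XT.lf (nat_lit 0) (nat_lit 114758522928) (nat_lit 152) (nat_lit 65403129407) (nat_lit 0) (nat_lit 64291677160) (nat_lit 161) (nat_lit 5) (nat_lit 163) (nat_lit 4) (nat_lit 161) (nat_lit 4) (nat_lit 460) (nat_lit 366) (nat_lit 194)) (XT.lf (nat_lit 0) (nat_lit 100245941679) (nat_lit 76) (nat_lit 101357938838) (nat_lit 76) (nat_lit 50890548158) (nat_lit 160) (nat_lit 4) (nat_lit 161) (nat_lit 5) (nat_lit 161) (nat_lit 4) (nat_lit 461) (nat_lit 366) (nat_lit 193))))) (XT.nd (nat_lit 312) (nat_lit 228) (nat_lit 0) (XT.nd (nat_lit 156) (nat_lit 228) (nat_lit 0) (XT.nd (nat_lit 78) (nat_lit 0) (nat_lit 0) (XT.lf (nat_lit 0) (nat_lit 15544274707) (nat_lit 76) (nat_lit 16656790829) (nat_lit 152) (nat_lit 228643317487) (nat_lit 158) (nat_lit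 5) (nat_lit 159) (nat_lit 5) (nat_lit 160) (nat_lit 4) (nat_lit 462) (nat_lit 366) (nat_lit 192)) (XT.lf (nat_lit 0) (nat_lit 121484345890) (nat_lit 152) (nat_lit 74479209203) (nat_lit 0) (nat_lit 73419199325) (nat_lit 158) (nat_lit 5) (nat_lit 160) (nat_lit 4) (nat_lit 158) (nat_lit 4) (nat_lit 463) (nat_lit 366) (nat_lit 191))) (XT.nd (nat_lit 78) (nat_lit 152) (nat_lit 0) (XT.lf (nat_lit 0) (nat_lit 108064932095) (nat_lit 76) (nat_lit 109125390274) (nat_lit 76) (nat_lit 61059795408) (nat_lit 157) (nat_lit 4) (nat_lit 158) (nat_lit 5) (nat_lit 158) (nat_lit 4) (nat_lit 464) (nat_lit 366) (nat_lit 190)) (XT.lf (nat_lit 0) (nat_lit 14803615257) (nat_lit 76) (nat_lit 15864500388) (nat_lit 152) (nat_lit 256793649228) (nat_lit 155) (nat_lit 5) (nat_lit 156) (nat_lit 5) (nat_lit 157) (nat_lit 4) (nat_lit 465) (nat_lit 366) (nat_lit 189)))) (XT.nd (nat_lit 156) (nat_lit 152) (nat_lit 0) (XT.nd (nat_lit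 78) (nat_lit 76) (nat_lit 0) (XT.lf (nat_lit 0) (nat_lit 129139283176) (nat_lit 152) (nat_lit 84372486331) (nat_lit 0) (nat_lit 83361732282) (nat_lit 155) (nat_lit 5) (nat_lit 157) (nat_lit 4) (nat_lit 155) (nat_lit 4) (nat_lit 466) (nat_lit 366) (nat_lit 188)) (XT.lf (nat_lit 0) (nat_lit 116802465755) (nat_lit 76) (nat_lit 117813588622) (nat_lit 76) (nat_lit 72035668910) (nat_lit 154) (nat_lit 4) (nat_lit 155) (nat_lit 5) (nat_lit 155) (nat_lit 4) (nat_lit 467) (nat_lit 366) (nat_lit 187))) (XT.nd (nat_lit 78) (nat_lit 0) (nat_lit 0) (XT.lf (nat_lit 0) (nat_lit 14098306134) (nat_lit 76) (nat_lit 15109780256) (nat_lit 152) (nat_lit 287605022687) (nat_lit 152) (nat_lit 5) (nat_lit 153) (nat_lit 5) (nat_lit 154) (nat_lit 4) (nat_lit 468) (nat_lit 366) (nat_lit 186)) (XT.lf (nat_lit 0) (nat_lit 137807178023) (nat_lit 152) (nat_lit 95172133409) (nat_lit 0) (nat_lit 94208506123) (nat_lit 152) (nat_lit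 5) (nat_lit 154) (nat_lit 4) (nat_lit 152) (nat_lit 4) (nat_lit 469) (nat_lit 366) (nat_lit 185)))))) (XT.nd (nat_lit 624) (nat_lit 532) (nat_lit 0) (XT.nd (nat_lit 312) (nat_lit 380) (nat_lit 0) (XT.nd (nat_lit 156) (nat_lit 76) (nat_lit 0) (XT.nd (nat_lit 78) (nat_lit 152) (nat_lit 0) (XT.lf (nat_lit 0) (nat_lit 126547093560) (nat_lit 76) (nat_lit 127511024272) (nat_lit 76) (nat_lit 83912048946) (nat_lit 151) (nat_lit 4) (nat_lit 152) (nat_lit 5) (nat_lit 152) (nat_lit 4) (nat_lit 470) (nat_lit 366) (nat_lit 184)) (XT.lf (nat_lit 0) (nat_lit 13426649657) (nat_lit 76) (nat_lit 14390869348) (nat_lit 152) (nat_lit 321360856181) (nat_lit 149) (nat_lit 5) (nat_lit 150) (nat_lit 5) (nat_lit 151) (nat_lit 4) (nat_lit 471) (nat_lit 366) (nat_lit 183))) (XT.nd (nat_lit 78) (nat_lit 76) (nat_lit 0) (XT.lf (nat_lit 0) (nat_lit 147581005747) (nat_lit 152) (nat_lit 106976201353) (nat_lit 0) (nat_lit 106057634773)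 (nat_lit 149) (nat_lit 5) (nat_lit 151) (nat_lit 4) (nat_lit 149) (nat_lit 4) (nat_lit 472) (nat_lit 366) (nat_lit 182)) (XT.lf (nat_lit 0) (nat_lit 137396713745) (nat_lit 76) (nat_lit 138315529955) (nat_lit 76) (nat_lit 96791909351) (nat_lit 148) (nat_lit 4) (nat_lit 149) (nat_lit 5) (nat_lit 149) (nat_lit 4) (nat_lit 473) (nat_lit 366) (nat_lit 181)))) (XT.nd (nat_lit 156) (nat_lit 228) (nat_lit 0) (XT.nd (nat_lit 78) (nat_lit 0) (nat_lit 0) (XT.lf (nat_lit 0) (nat_lit 12787031530) (nat_lit 76) (nat_lit 13706085482) (nat_lit 152) (nat_lit 358373114722) (nat_lit 146) (nat_lit 5) (nat_lit 147) (nat_lit 5) (nat_lit 148) (nat_lit 4) (nat_lit 474) (nat_lit 366) (nat_lit 180)) (XT.lf (nat_lit 0) (nat_lit 158563784916) (nat_lit 152) (nat_lit 119892542635) (nat_lit 0) (nat_lit 119017037517) (nat_lit 146) (nat_lit 5) (nat_lit 148) (nat_lit 4) (nat_lit 146) (nat_lit 4) (nat_lit 475) (nat_lit 366) (nat_lit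 179))) (XT.nd (nat_lit 78) (nat_lit 152) (nat_lit 0) (XT.lf (nat_lit 0) (nat_lit 149459516337) (nat_lit 76) (nat_lit 150335226827) (nat_lit 76) (nat_lit 110788274057) (nat_lit 145) (nat_lit 4) (nat_lit 146) (nat_lit 5) (nat_lit 146) (nat_lit 4) (nat_lit 476) (nat_lit 366) (nat_lit 178)) (XT.lf (nat_lit 0) (nat_lit 12177916417) (nat_lit 76) (nat_lit 13053822499) (nat_lit 152) (nat_lit 398985259326) (nat_lit 143) (nat_lit 5) (nat_lit 144) (nat_lit 5) (nat_lit 145) (nat_lit 4) (nat_lit 477) (nat_lit 366) (nat_lit 177))))) (XT.nd (nat_lit 312) (nat_lit 304) (nat_lit 0) (XT.nd (nat_lit 156) (nat_lit 152) (nat_lit 0) (XT.nd (nat_lit 78) (nat_lit 76) (nat_lit 0) (XT.lf (nat_lit 0) (nat_lit 170869582963) (nat_lit 152) (nat_lit 134039828410) (nat_lit 0) (nat_lit 133205454735) (nat_lit 143) (nat_lit 5) (nat_lit 145) (nat_lit 4) (nat_lit 143) (nat_lit 4) (nat_lit 478) (nat_lit 366) (nat_lit 176)) (XT.lf (nat_lit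 0) (nat_lit 162855025198) (nat_lit 76) (nat_lit 163689567833) (nat_lit 76) (nat_lit 126025270645) (nat_lit 142) (nat_lit 4) (nat_lit 143) (nat_lit 5) (nat_lit 143) (nat_lit 4) (nat_lit 479) (nat_lit 366) (nat_lit 175))) (XT.nd (nat_lit 78) (nat_lit 0) (nat_lit 0) (XT.lf (nat_lit 0) (nat_lit 11597843814) (nat_lit 76) (nat_lit 12432547364) (nat_lit 152) (nat_lit 443575497648) (nat_lit 140) (nat_lit 5) (nat_lit 141) (nat_lit 5) (nat_lit 142) (nat_lit 4) (nat_lit 480) (nat_lit 366) (nat_lit 174)) (XT.lf (nat_lit 0) (nat_lit 184624625904) (nat_lit 152) (nat_lit 149548669188) (nat_lit 0) (nat_lit 148753567473) (nat_lit 140) (nat_lit 5) (nat_lit 142) (nat_lit 4) (nat_lit 140) (nat_lit 4) (nat_lit 481) (nat_lit 366) (nat_lit 173)))) (XT.nd (nat_lit 156) (nat_lit 76) (nat_lit 0) (XT.nd (nat_lit 78) (nat_lit 152) (nat_lit 0) (XT.lf (nat_lit 0) (nat_lit 177715247604) (nat_lit 76) (nat_lit 178510488322) (nat_lit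 76) (nat_lit 142639290887) (nat_lit 139) (nat_lit 4) (nat_lit 140) (nat_lit 5) (nat_lit 140) (nat_lit 4) (nat_lit 482) (nat_lit 366) (nat_lit 172)) (XT.lf (nat_lit 0) (nat_lit 11045424180) (nat_lit 76) (nat_lit 11840797282) (nat_lit 152) (nat_lit 492560366842) (nat_lit 137) (nat_lit 5) (nat_lit 138) (nat_lit 5) (nat_lit 139) (nat_lit 4) (nat_lit 483) (nat_lit 366) (nat_lit 171))) (XT.nd (nat_lit 78) (nat_lit 76) (nat_lit 0) (XT.lf (nat_lit 0) (nat_lit 199968522790) (nat_lit 152) (nat_lit 166562849727) (nat_lit 0) (nat_lit 165805231457) (nat_lit 137) (nat_lit 5) (nat_lit 139) (nat_lit 4) (nat_lit 137) (nat_lit 4) (nat_lit 484) (nat_lit 366) (nat_lit 170)) (XT.lf (nat_lit 0) (nat_lit 194185942320) (nat_lit 76) (nat_lit 194943674948) (nat_lit 76) (nat_lit 160780269256) (nat_lit 136) (nat_lit 4) (nat_lit 137) (nat_lit 5) (nat_lit 137) (nat_lit 4) (nat_lit 485) (nat_lit 366) (nat_lit 169))))))) (XT.nd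 (nat_lit 44616) (nat_lit 0) (nat_lit 9120) (XT.nd (nat_lit 43992) (nat_lit 0) (nat_lit 12388) (XT.nd (nat_lit 312) (nat_lit 76) (nat_lit 0) (XT.nd (nat_lit 156) (nat_lit 228) (nat_lit 0) (XT.nd (nat_lit 78) (nat_lit 0) (nat_lit 0) (XT.lf (nat_lit 0) (nat_lit 10519335305) (nat_lit 76) (nat_lit 11277176845) (nat_lit 152) (nat_lit 546398682742) (nat_lit 134) (nat_lit 5) (nat_lit 135) (nat_lit 5) (nat_lit 136) (nat_lit 4) (nat_lit 486) (nat_lit 366) (nat_lit 168)) (XT.lf (nat_lit 0) (nat_lit 217055616632) (nat_lit 152) (nat_lit 185240689905) (nat_lit 0) (nat_lit 184518837269) (nat_lit 134) (nat_lit 5) (nat_lit 136) (nat_lit 4) (nat_lit 134) (nat_lit 4) (nat_lit 487) (nat_lit 366) (nat_lit 167))) (XT.nd (nat_lit 78) (nat_lit 152) (nat_lit 0) (XT.lf (nat_lit 0) (nat_lit 212428018276) (nat_lit 76) (nat_lit 213149964994) (nat_lit 76) (nat_lit 180613091548) (nat_lit 133) (nat_lit 4) (nat_lit 134) (nat_lit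 5) (nat_lit 134) (nat_lit 4) (nat_lit 488) (nat_lit 366) (nat_lit 166)) (XT.lf (nat_lit 0) (nat_lit 10018318900) (nat_lit 76) (nat_lit 10740355221) (nat_lit 152) (nat_lit 605595892929) (nat_lit 131) (nat_lit 5) (nat_lit 132) (nat_lit 5) (nat_lit 133) (nat_lit 4) (nat_lit 489) (nat_lit 366) (nat_lit 165)))) (XT.nd (nat_lit 43524) (nat_lit 0) (nat_lit 12312) (XT.nd (nat_lit 78) (nat_lit 76) (nat_lit 0) (XT.lf (nat_lit 0) (nat_lit 236056474725) (nat_lit 152) (nat_lit 205756544508) (nat_lit 0) (nat_lit 205068809597) (nat_lit 131) (nat_lit 5) (nat_lit 133) (nat_lit 4) (nat_lit 131) (nat_lit 4) (nat_lit 490) (nat_lit 366) (nat_lit 164)) (XT.lf (nat_lit 0) (nat_lit 232619077179) (nat_lit 76) (nat_lit 233306889493) (nat_lit 76) (nat_lit 202319146963) (nat_lit 130) (nat_lit 4) (nat_lit 131) (nat_lit 5) (nat_lit 131) (nat_lit 4) (nat_lit 491) (nat_lit 366) (nat_lit 163))) (XT.nd (nat_lit 78) (nat_lit 0)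 (nat_lit 0) (XT.lf (nat_lit 0) (nat_lit 1627807682) (nat_lit 836) (nat_lit 3021532554) (nat_lit 836) (nat_lit 3021532554) (nat_lit 292) (nat_lit 3) (nat_lit 303) (nat_lit 3) (nat_lit 303) (nat_lit 5) (nat_lit 367) (nat_lit 367) (nat_lit 286)) (XT.lf (nat_lit 76) (nat_lit 1681630356) (nat_lit 0) (nat_lit 1962533222) (nat_lit 836) (nat_lit 12065767754) (nat_lit 293) (nat_lit 5) (nat_lit 292) (nat_lit 3) (nat_lit 303) (nat_lit 5) (nat_lit 368) (nat_lit 367) (nat_lit 285))))) (XT.nd (nat_lit 312) (nat_lit 0) (nat_lit 152) (XT.nd (nat_lit 156) (nat_lit 0) (nat_lit 76) (XT.nd (nat_lit 78) (nat_lit 0) (nat_lit 0) (XT.lf (nat_lit 0) (nat_lit 4227780543) (nat_lit 760) (nat_lit 6191138739) (nat_lit 836) (nat_lit 5668825019) (nat_lit 293) (nat_lit 5) (nat_lit 303) (nat_lit 5) (nat_lit 304) (nat_lit 5) (nat_lit 369) (nat_lit 367) (nat_lit 284)) (XT.lf (nat_lit 76) (nat_lit 2061410914) (nat_lit 0) (nat_lit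 2826379092) (nat_lit 836) (nat_lit 11594297330) (nat_lit 294) (nat_lit 5) (nat_lit 293) (nat_lit 5) (nat_lit 304) (nat_lit 5) (nat_lit 370) (nat_lit 367) (nat_lit 283))) (XT.nd (nat_lit 78) (nat_lit 0) (nat_lit 0) (XT.lf (nat_lit 0) (nat_lit 5751321624) (nat_lit 760) (nat_lit 6042467841) (nat_lit 836) (nat_lit 5093831973) (nat_lit 294) (nat_lit 5) (nat_lit 304) (nat_lit 5) (nat_lit 305) (nat_lit 5) (nat_lit 371) (nat_lit 367) (nat_lit 282)) (XT.lf (nat_lit 76) (nat_lit 2787010053) (nat_lit 0) (nat_lit 3945259965) (nat_lit 836) (nat_lit 10577450217) (nat_lit 295) (nat_lit 5) (nat_lit 294) (nat_lit 5) (nat_lit 305) (nat_lit 5) (nat_lit 372) (nat_lit 367) (nat_lit 281)))) (XT.nd (nat_lit 156) (nat_lit 0) (nat_lit 76) (XT.nd (nat_lit 78) (nat_lit 0) (nat_lit 0) (XT.lf (nat_lit 0) (nat_lit 7918391373) (nat_lit 760) (nat_lit 5559973797) (nat_lit 836) (nat_lit 4266752525) (nat_lit 295) (nat_lit 5) (nat_lit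 305) (nat_lit 5) (nat_lit 306) (nat_lit 5) (nat_lit 373) (nat_lit 367) (nat_lit 280)) (XT.lf (nat_lit 76) (nat_lit 3900429024) (nat_lit 0) (nat_lit 5374722788) (nat_lit 836) (nat_lit 8921566566) (nat_lit 296) (nat_lit 5) (nat_lit 295) (nat_lit 5) (nat_lit 306) (nat_lit 5) (nat_lit 374) (nat_lit 367) (nat_lit 279))) (XT.nd (nat_lit 78) (nat_lit 0) (nat_lit 0) (XT.lf (nat_lit 0) (nat_lit 10830712594) (nat_lit 760) (nat_lit 4700982885) (nat_lit 836) (nat_lit 3132655498) (nat_lit 296) (nat_lit 5) (nat_lit 306) (nat_lit 5) (nat_lit 307) (nat_lit 5) (nat_lit 375) (nat_lit 367) (nat_lit 278)) (XT.lf (nat_lit 76) (nat_lit 5449739810) (nat_lit 0) (nat_lit 7174484424) (nat_lit 836) (nat_lit 6523132334) (nat_lit 297) (nat_lit 5) (nat_lit 296) (nat_lit 5) (nat_lit 307) (nat_lit 5) (nat_lit 376) (nat_lit 367) (nat_lit 277)))))) (XT.nd (nat_lit 624) (nat_lit 1520) (nat_lit 0) (XT.nd (nat_lit 312) (nat_lit 760)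 (nat_lit 0) (XT.nd (nat_lit 156) (nat_lit 532) (nat_lit 0) (XT.nd (nat_lit 78) (nat_lit 760) (nat_lit 0) (XT.lf (nat_lit 0) (nat_lit 14600785275) (nat_lit 760) (nat_lit 3416773712) (nat_lit 76) (nat_lit 1632284758) (nat_lit 297) (nat_lit 5) (nat_lit 307) (nat_lit 5) (nat_lit 298) (nat_lit 5) (nat_lit 377) (nat_lit 367) (nat_lit 276)) (XT.lf (nat_lit 0) (nat_lit 7489588391) (nat_lit 760) (nat_lit 9409196426) (nat_lit 836) (nat_lit 3267539943) (nat_lit 287) (nat_lit 5) (nat_lit 297) (nat_lit 5) (nat_lit 298) (nat_lit 5) (nat_lit 378) (nat_lit 367) (nat_lit 275))) (XT.nd (nat_lit 78) (nat_lit 532) (nat_lit 0) (XT.lf (nat_lit 0) (nat_lit 19049440396) (nat_lit 760) (nat_lit 308576428) (nat_lit 836) (nat_lit 1348296377) (nat_lit 287) (nat_lit 5) (nat_lit 297) (nat_lit 5) (nat_lit 298) (nat_lit 5) (nat_lit 379) (nat_lit 367) (nat_lit 274)) (XT.lf (nat_lit 0) (nat_lit 941141963) (nat_lit 532) (nat_lit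 11192167827) (nat_lit 76) (nat_lit 9124691765) (nat_lit 280) (nat_lit 5) (nat_lit 287) (nat_lit 5) (nat_lit 281) (nat_lit 5) (nat_lit 380) (nat_lit 367) (nat_lit 273)))) (XT.nd (nat_lit 156) (nat_lit 380) (nat_lit 0) (XT.nd (nat_lit 78) (nat_lit 0) (nat_lit 0) (XT.lf (nat_lit 0) (nat_lit 576450061) (nat_lit 380) (nat_lit 2755088926) (nat_lit 456) (nat_lit 18503040260) (nat_lit 275) (nat_lit 5) (nat_lit 280) (nat_lit 5) (nat_lit 281) (nat_lit 5) (nat_lit 381) (nat_lit 367) (nat_lit 272)) (XT.lf (nat_lit 0) (nat_lit 6134401713) (nat_lit 456) (nat_lit 9233329458) (nat_lit 76) (nat_lit 7057607361) (nat_lit 275) (nat_lit 5) (nat_lit 281) (nat_lit 5) (nat_lit 276) (nat_lit 5) (nat_lit 382) (nat_lit 367) (nat_lit 271))) (XT.nd (nat_lit 78) (nat_lit 0) (nat_lit 0) (XT.lf (nat_lit 0) (nat_lit 3447355530) (nat_lit 380) (nat_lit 5719104235) (nat_lit 456) (nat_lit 13874723405) (nat_lit 270) (nat_lit 5) (nat_lit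 275) (nat_lit 5) (nat_lit 276) (nat_lit 5) (nat_lit 383) (nat_lit 367) (nat_lit 270)) (XT.lf (nat_lit 0) (nat_lit 12568301993) (nat_lit 456) (nat_lit 6679639073) (nat_lit 76) (nat_lit 4428969912) (nat_lit 270) (nat_lit 5) (nat_lit 276) (nat_lit 5) (nat_lit 271) (nat_lit 5) (nat_lit 384) (nat_lit 367) (nat_lit 269))))) (XT.nd (nat_lit 312) (nat_lit 532) (nat_lit 0) (XT.nd (nat_lit 156) (nat_lit 684) (nat_lit 0) (XT.nd (nat_lit 78) (nat_lit 0) (nat_lit 0) (XT.lf (nat_lit 0) (nat_lit 7000243906) (nat_lit 304) (nat_lit 9333864462) (nat_lit 380) (nat_lit 8000623205) (nat_lit 266) (nat_lit 5) (nat_lit 270) (nat_lit 5) (nat_lit 271) (nat_lit 5) (nat_lit 385) (nat_lit 367) (nat_lit 268)) (XT.lf (nat_lit 0) (nat_lit 20411062501) (nat_lit 380) (nat_lit 3452986477) (nat_lit 76) (nat_lit 1155251349) (nat_lit 266) (nat_lit 5) (nat_lit 271) (nat_lit 5) (nat_lit 267) (nat_lit 5) (nat_lit 386) (nat_lit 367) (nat_lit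 267))) (XT.nd (nat_lit 78) (nat_lit 380) (nat_lit 0) (XT.lf (nat_lit 0) (nat_lit 11321879886) (nat_lit 304) (nat_lit 13691271547) (nat_lit 380) (nat_lit 708881731) (nat_lit 262) (nat_lit 5) (nat_lit 266) (nat_lit 5) (nat_lit 267) (nat_lit 5) (nat_lit 387) (nat_lit 367) (nat_lit 266)) (XT.lf (nat_lit 0) (nat_lit 448757617) (nat_lit 304) (nat_lit 2886393596) (nat_lit 380) (nat_lit 23119205400) (nat_lit 257) (nat_lit 5) (nat_lit 261) (nat_lit 5) (nat_lit 262) (nat_lit 5) (nat_lit 388) (nat_lit 367) (nat_lit 265)))) (XT.nd (nat_lit 156) (nat_lit 228) (nat_lit 0) (XT.nd (nat_lit 78) (nat_lit 304) (nat_lit 0) (XT.lf (nat_lit 0) (nat_lit 7929333220) (nat_lit 380) (nat_lit 10829125562) (nat_lit 76) (nat_lit 8445667878) (nat_lit 257) (nat_lit 5) (nat_lit 262) (nat_lit 5) (nat_lit 258) (nat_lit 5) (nat_lit 389) (nat_lit 367) (nat_lit 264)) (XT.lf (nat_lit 0) (nat_lit 5215895341) (nat_lit 304) (nat_lit 7658305033)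 (nat_lit 380) (nat_lit 15111136034) (nat_lit 253) (nat_lit 5) (nat_lit 257) (nat_lit 5) (nat_lit 258) (nat_lit 5) (nat_lit 390) (nat_lit 367) (nat_lit 263))) (XT.nd (nat_lit 78) (nat_lit 228) (nat_lit 0) (XT.lf (nat_lit 0) (nat_lit 18307523563) (nat_lit 380) (nat_lit 6432799061) (nat_lit 76) (nat_lit 4053223384) (nat_lit 253) (nat_lit 5) (nat_lit 258) (nat_lit 5) (nat_lit 254) (nat_lit 5) (nat_lit 391) (nat_lit 367) (nat_lit 262)) (XT.lf (nat_lit 0) (nat_lit 10935530825) (nat_lit 228) (nat_lit 13366031463) (nat_lit 304) (nat_lit 5326151332) (nat_lit 250) (nat_lit 5) (nat_lit 253) (nat_lit 5) (nat_lit 254) (nat_lit 5) (nat_lit 392) (nat_lit 367) (nat_lit 261))))))))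
noncomputable def xc210 : XT := (XT.nd (nat_lit 2496) (nat_lit 2508) (nat_lit 0) (XT.nd (nat_lit 1248) (nat_lit 1520) (nat_lit 0) (XT.nd (nat_lit 624) (nat_lit 988) (nat_lit 0) (XT.nd (nat_lit 312) (nat_lit 760) (nat_lit 0) (XT.nd (nat_lit 156) (nat_lit 228) (nat_lit 0) (XT.nd (nat_lit 78) (nat_lit 304) (nat_lit 0) (XT.lf (nat_lit 0) (nat_lit 192357052) (nat_lit 304) (nat_lit 1115435877) (nat_lit 76) (nat_lit 29190546133) (nat_lit 249) (nat_lit 5) (nat_lit 253) (nat_lit 5) (nat_lit 250) (nat_lit 5) (nat_lit 393) (nat_lit 367) (nat_lit 260)) (XT.lf (nat_lit 0) (nat_lit 6262321844) (nat_lit 380) (nat_lit 13764012927) (nat_lit 76) (nat_lit 11359069077) (nat_lit 245) (nat_lit 5) (nat_lit 250) (nat_lit 5) (nat_lit 246) (nat_lit 5) (nat_lit 394) (nat_lit 367) (nat_lit 259))) (XT.nd (nat_lit 78) (nat_lit 0) (nat_lit 0) (XT.lf (nat_lit 0) (nat_lit 5151675879) (nat_lit 228) (nat_lit 7598515819) (nat_lit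 304) (nat_lit 19560909833) (nat_lit 242) (nat_lit 5) (nat_lit 245) (nat_lit 5) (nat_lit 246) (nat_lit 5) (nat_lit 395) (nat_lit 367) (nat_lit 258)) (XT.lf (nat_lit 0) (nat_lit 19877943464) (nat_lit 304) (nat_lit 7878845479) (nat_lit 76) (nat_lit 5510520736) (nat_lit 242) (nat_lit 5) (nat_lit 246) (nat_lit 5) (nat_lit 243) (nat_lit 5) (nat_lit 396) (nat_lit 367) (nat_lit 257)))) (XT.nd (nat_lit 156) (nat_lit 456) (nat_lit 0) (XT.nd (nat_lit 78) (nat_lit 76) (nat_lit 0) (XT.lf (nat_lit 0) (nat_lit 12636601326) (nat_lit 228) (nat_lit 15041117487) (nat_lit 304) (nat_lit 6577827621) (nat_lit 239) (nat_lit 5) (nat_lit 242) (nat_lit 5) (nat_lit 243) (nat_lit 5) (nat_lit 397) (nat_lit 367) (nat_lit 256)) (XT.lf (nat_lit 0) (nat_lit 685361895) (nat_lit 304) (nat_lit 855425504) (nat_lit 76) (nat_lit 33745486576) (nat_lit 238) (nat_lit 5) (nat_lit 242) (nat_lit 5) (nat_lit 239) (nat_lit 5) (nat_lit 398) (nat_lit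 367) (nat_lit 255))) (XT.nd (nat_lit 78) (nat_lit 228) (nat_lit 0) (XT.lf (nat_lit 0) (nat_lit 8625238114) (nat_lit 304) (nat_lit 15032642216) (nat_lit 76) (nat_lit 12678536632) (nat_lit 235) (nat_lit 5) (nat_lit 239) (nat_lit 5) (nat_lit 236) (nat_lit 5) (nat_lit 399) (nat_lit 367) (nat_lit 254)) (XT.lf (nat_lit 0) (nat_lit 7363705327) (nat_lit 228) (nat_lit 9747585681) (nat_lit 304) (nat_lit 20320316948) (nat_lit 232) (nat_lit 5) (nat_lit 235) (nat_lit 5) (nat_lit 236) (nat_lit 5) (nat_lit 400) (nat_lit 367) (nat_lit 253))))) (XT.nd (nat_lit 312) (nat_lit 532) (nat_lit 0) (XT.nd (nat_lit 156) (nat_lit 304) (nat_lit 0) (XT.nd (nat_lit 78) (nat_lit 152) (nat_lit 0) (XT.lf (nat_lit 0) (nat_lit 26350580101) (nat_lit 304) (nat_lit 7255950278) (nat_lit 76) (nat_lit 4958581442) (nat_lit 232) (nat_lit 5) (nat_lit 236) (nat_lit 5) (nat_lit 233) (nat_lit 5) (nat_lit 401) (nat_lit 367) (nat_lit 252)) (XT.lf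 (nat_lit 0) (nat_lit 17074860948) (nat_lit 152) (nat_lit 19397950350) (nat_lit 228) (nat_lit 3261430700) (nat_lit 230) (nat_lit 5) (nat_lit 232) (nat_lit 5) (nat_lit 233) (nat_lit 5) (nat_lit 402) (nat_lit 367) (nat_lit 251))) (XT.nd (nat_lit 78) (nat_lit 0) (nat_lit 0) (XT.lf (nat_lit 0) (nat_lit 1872002018) (nat_lit 228) (nat_lit 4219587197) (nat_lit 304) (nat_lit 34858008835) (nat_lit 226) (nat_lit 5) (nat_lit 229) (nat_lit 5) (nat_lit 230) (nat_lit 5) (nat_lit 403) (nat_lit 367) (nat_lit 250)) (XT.lf (nat_lit 0) (nat_lit 16370351670) (nat_lit 304) (nat_lit 14041162940) (nat_lit 76) (nat_lit 11783149140) (nat_lit 226) (nat_lit 5) (nat_lit 230) (nat_lit 5) (nat_lit 227) (nat_lit 5) (nat_lit 404) (nat_lit 367) (nat_lit 249)))) (XT.nd (nat_lit 156) (nat_lit 380) (nat_lit 0) (XT.nd (nat_lit 78) (nat_lit 0) (nat_lit 0) (XT.lf (nat_lit 0) (nat_lit 12572151183) (nat_lit 152) (nat_lit 14851325355) (nat_lit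 228) (nat_lit 16065484983) (nat_lit 224) (nat_lit 5) (nat_lit 226) (nat_lit 5) (nat_lit 227) (nat_lit 5) (nat_lit 405) (nat_lit 367) (nat_lit 248)) (XT.lf (nat_lit 0) (nat_lit 39289194392) (nat_lit 228) (nat_lit 3867809052) (nat_lit 76) (nat_lit 1677973900) (nat_lit 224) (nat_lit 5) (nat_lit 227) (nat_lit 5) (nat_lit 225) (nat_lit 5) (nat_lit 406) (nat_lit 367) (nat_lit 247))) (XT.nd (nat_lit 78) (nat_lit 152) (nat_lit 0) (XT.lf (nat_lit 0) (nat_lit 5964589153) (nat_lit 228) (nat_lit 21227744912) (nat_lit 76) (nat_lit 19019630634) (nat_lit 221) (nat_lit 5) (nat_lit 224) (nat_lit 5) (nat_lit 222) (nat_lit 5) (nat_lit 407) (nat_lit 367) (nat_lit 246)) (XT.lf (nat_lit 0) (nat_lit 7911991933) (nat_lit 152) (nat_lit 10137514901) (nat_lit 228) (nat_lit 29594478782) (nat_lit 219) (nat_lit 5) (nat_lit 221) (nat_lit 5) (nat_lit 222) (nat_lit 5) (nat_lit 408) (nat_lit 367) (nat_lit 245)))))) (XT.nd (nat_lit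 624) (nat_lit 684) (nat_lit 0) (XT.nd (nat_lit 312) (nat_lit 456) (nat_lit 0) (XT.nd (nat_lit 156) (nat_lit 228) (nat_lit 0) (XT.nd (nat_lit 78) (nat_lit 152) (nat_lit 0) (XT.lf (nat_lit 0) (nat_lit 31220728818) (nat_lit 228) (nat_lit 10019055860) (nat_lit 76) (nat_lit 7883719979) (nat_lit 219) (nat_lit 5) (nat_lit 222) (nat_lit 5) (nat_lit 220) (nat_lit 5) (nat_lit 409) (nat_lit 367) (nat_lit 244)) (XT.lf (nat_lit 0) (nat_lit 21700350913) (nat_lit 152) (nat_lit 23850725076) (nat_lit 228) (nat_lit 5100895458) (nat_lit 217) (nat_lit 5) (nat_lit 219) (nat_lit 5) (nat_lit 220) (nat_lit 5) (nat_lit 410) (nat_lit 367) (nat_lit 243))) (XT.nd (nat_lit 78) (nat_lit 0) (nat_lit 0) (XT.lf (nat_lit 0) (nat_lit 3062643846) (nat_lit 152) (nat_lit 5227340182) (nat_lit 228) (nat_lit 43949572581) (nat_lit 214) (nat_lit 5) (nat_lit 216) (nat_lit 5) (nat_lit 217) (nat_lit 5) (nat_lit 411) (nat_lit 367) (nat_lit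 242)) (XT.lf (nat_lit 0) (nat_lit 22896660323) (nat_lit 228) (nat_lit 16522201009) (nat_lit 76) (nat_lit 14447594817) (nat_lit 214) (nat_lit 5) (nat_lit 217) (nat_lit 5) (nat_lit 215) (nat_lit 5) (nat_lit 412) (nat_lit 367) (nat_lit 241)))) (XT.nd (nat_lit 156) (nat_lit 304) (nat_lit 0) (XT.nd (nat_lit 78) (nat_lit 0) (nat_lit 0) (XT.lf (nat_lit 0) (nat_lit 18256635991) (nat_lit 152) (nat_lit 20343614214) (nat_lit 228) (nat_lit 16956121474) (nat_lit 212) (nat_lit 5) (nat_lit 214) (nat_lit 5) (nat_lit 215) (nat_lit 5) (nat_lit 413) (nat_lit 367) (nat_lit 240)) (XT.lf (nat_lit 0) (nat_lit 55340902562) (nat_lit 152) (nat_lit 23863348) (nat_lit 228) (nat_lit 1952229758) (nat_lit 212) (nat_lit 5) (nat_lit 214) (nat_lit 5) (nat_lit 215) (nat_lit 5) (nat_lit 414) (nat_lit 367) (nat_lit 239))) (XT.nd (nat_lit 78) (nat_lit 152) (nat_lit 0) (XT.lf (nat_lit 0) (nat_lit 14264389014) (nat_lit 152) (nat_lit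 23427390594) (nat_lit 76) (nat_lit 21417883062) (nat_lit 210) (nat_lit 5) (nat_lit 212) (nat_lit 5) (nat_lit 211) (nat_lit 5) (nat_lit 415) (nat_lit 367) (nat_lit 238)) (XT.lf (nat_lit 0) (nat_lit 14733541396) (nat_lit 152) (nat_lit 16753227430) (nat_lit 228) (nat_lit 29490567116) (nat_lit 208) (nat_lit 5) (nat_lit 210) (nat_lit 5) (nat_lit 211) (nat_lit 5) (nat_lit 416) (nat_lit 367) (nat_lit 237))))) (XT.nd (nat_lit 312) (nat_lit 380) (nat_lit 0) (XT.nd (nat_lit 156) (nat_lit 152) (nat_lit 0) (XT.nd (nat_lit 78) (nat_lit 152) (nat_lit 0) (XT.lf (nat_lit 0) (nat_lit 50051347949) (nat_lit 228) (nat_lit 7397866811) (nat_lit 76) (nat_lit 5465124102) (nat_lit 208) (nat_lit 5) (nat_lit 211) (nat_lit 5) (nat_lit 209) (nat_lit 4) (nat_lit 417) (nat_lit 367) (nat_lit 236)) (XT.lf (nat_lit 0) (nat_lit 5267037132) (nat_lit 152) (nat_lit 30789096826) (nat_lit 76) (nat_lit 28847561546) (nat_lit 206) (nat_lit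 5) (nat_lit 208) (nat_lit 5) (nat_lit 207) (nat_lit 5) (nat_lit 418) (nat_lit 367) (nat_lit 235))) (XT.nd (nat_lit 78) (nat_lit 0) (nat_lit 0) (XT.lf (nat_lit 0) (nat_lit 11109246744) (nat_lit 152) (nat_lit 13059155903) (nat_lit 228) (nat_lit 42798718051) (nat_lit 204) (nat_lit 5) (nat_lit 206) (nat_lit 5) (nat_lit 207) (nat_lit 5) (nat_lit 419) (nat_lit 367) (nat_lit 234)) (XT.lf (nat_lit 0) (nat_lit 44714278580) (nat_lit 228) (nat_lit 13124559081) (nat_lit 76) (nat_lit 11259907384) (nat_lit 204) (nat_lit 5) (nat_lit 207) (nat_lit 5) (nat_lit 205) (nat_lit 4) (nat_lit 420) (nat_lit 367) (nat_lit 233)))) (XT.nd (nat_lit 156) (nat_lit 76) (nat_lit 0) (XT.nd (nat_lit 78) (nat_lit 228) (nat_lit 0) (XT.lf (nat_lit 0) (nat_lit 32567322206) (nat_lit 76) (nat_lit 34439207573) (nat_lit 152) (nat_lit 4294466757) (nat_lit 203) (nat_lit 5) (nat_lit 204) (nat_lit 5) (nat_lit 205) (nat_lit 4) (nat_lit 421)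 (nat_lit 367) (nat_lit 232)) (XT.lf (nat_lit 0) (nat_lit 7360462867) (nat_lit 152) (nat_lit 9239237445) (nat_lit 228) (nat_lit 56983676842) (nat_lit 200) (nat_lit 5) (nat_lit 202) (nat_lit 5) (nat_lit 203) (nat_lit 5) (nat_lit 422) (nat_lit 367) (nat_lit 231))) (XT.nd (nat_lit 78) (nat_lit 76) (nat_lit 0) (XT.lf (nat_lit 0) (nat_lit 39326407427) (nat_lit 228) (nat_lit 19199449731) (nat_lit 76) (nat_lit 17403891893) (nat_lit 200) (nat_lit 5) (nat_lit 203) (nat_lit 5) (nat_lit 201) (nat_lit 4) (nat_lit 423) (nat_lit 367) (nat_lit 230)) (XT.lf (nat_lit 0) (nat_lit 31010142797) (nat_lit 76) (nat_lit 32811651794) (nat_lit 152) (nat_lit 14540027717) (nat_lit 199) (nat_lit 5) (nat_lit 200) (nat_lit 5) (nat_lit 201) (nat_lit 4) (nat_lit 424) (nat_lit 367) (nat_lit 229))))))) (XT.nd (nat_lit 1248) (nat_lit 1216) (nat_lit 0) (XT.nd (nat_lit 624) (nat_lit 532) (nat_lit 0) (XT.nd (nat_lit 312) (nat_lit 380)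 (nat_lit 0) (XT.nd (nat_lit 156) (nat_lit 152) (nat_lit 0) (XT.nd (nat_lit 78) (nat_lit 0) (nat_lit 0) (XT.lf (nat_lit 0) (nat_lit 3462224105) (nat_lit 152) (nat_lit 5269400872) (nat_lit 228) (nat_lit 72158076425) (nat_lit 196) (nat_lit 5) (nat_lit 198) (nat_lit 5) (nat_lit 199) (nat_lit 5) (nat_lit 425) (nat_lit 367) (nat_lit 228)) (XT.lf (nat_lit 0) (nat_lit 33859285905) (nat_lit 228) (nat_lit 25669989382) (nat_lit 76) (nat_lit 23943727816) (nat_lit 196) (nat_lit 5) (nat_lit 199) (nat_lit 5) (nat_lit 197) (nat_lit 4) (nat_lit 426) (nat_lit 367) (nat_lit 227))) (XT.nd (nat_lit 78) (nat_lit 76) (nat_lit 0) (XT.lf (nat_lit 0) (nat_lit 29528241433) (nat_lit 76) (nat_lit 31259399032) (nat_lit 152) (nat_lit 25370613894) (nat_lit 195) (nat_lit 5) (nat_lit 196) (nat_lit 5) (nat_lit 197) (nat_lit 4) (nat_lit 427) (nat_lit 367) (nat_lit 226)) (XT.lf (nat_lit 0) (nat_lit 520712093) (nat_lit 152) (nat_lit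 592735801) (nat_lit 76) (nat_lit 87842315373) (nat_lit 194) (nat_lit 5) (nat_lit 196) (nat_lit 5) (nat_lit 195) (nat_lit 5) (nat_lit 428) (nat_lit 367) (nat_lit 225)))) (XT.nd (nat_lit 156) (nat_lit 152) (nat_lit 0) (XT.nd (nat_lit 78) (nat_lit 76) (nat_lit 0) (XT.lf (nat_lit 0) (nat_lit 28282587137) (nat_lit 228) (nat_lit 32587863279) (nat_lit 76) (nat_lit 30930471532) (nat_lit 192) (nat_lit 5) (nat_lit 195) (nat_lit 5) (nat_lit 193) (nat_lit 4) (nat_lit 429) (nat_lit 367) (nat_lit 224)) (XT.lf (nat_lit 0) (nat_lit 28117833694) (nat_lit 76) (nat_lit 29779253419) (nat_lit 152) (nat_lit 36868024890) (nat_lit 191) (nat_lit 5) (nat_lit 192) (nat_lit 5) (nat_lit 193) (nat_lit 4) (nat_lit 430) (nat_lit 367) (nat_lit 223))) (XT.nd (nat_lit 78) (nat_lit 152) (nat_lit 0) (XT.lf (nat_lit 0) (nat_lit 89595094379) (nat_lit 152) (nat_lit 4919118032) (nat_lit 0) (nat_lit 3333160037) (nat_lit 191) (nat_lit 5)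 (nat_lit 193) (nat_lit 4) (nat_lit 191) (nat_lit 4) (nat_lit 431) (nat_lit 367) (nat_lit 222)) (XT.lf (nat_lit 0) (nat_lit 22563876254) (nat_lit 152) (nat_lit 40009467541) (nat_lit 76) (nat_lit 38420030026) (nat_lit 189) (nat_lit 5) (nat_lit 191) (nat_lit 5) (nat_lit 190) (nat_lit 4) (nat_lit 432) (nat_lit 367) (nat_lit 221))))) (XT.nd (nat_lit 312) (nat_lit 228) (nat_lit 0) (XT.nd (nat_lit 156) (nat_lit 228) (nat_lit 0) (XT.nd (nat_lit 78) (nat_lit 0) (nat_lit 0) (XT.lf (nat_lit 0) (nat_lit 26775350786) (nat_lit 76) (nat_lit 28368102129) (nat_lit 152) (nat_lit 49121460921) (nat_lit 188) (nat_lit 5) (nat_lit 189) (nat_lit 5) (nat_lit 190) (nat_lit 4) (nat_lit 433) (nat_lit 367) (nat_lit 220)) (XT.lf (nat_lit 0) (nat_lit 90155776081) (nat_lit 152) (nat_lit 9511989083) (nat_lit 0) (nat_lit 7992077303) (nat_lit 188) (nat_lit 5) (nat_lit 190) (nat_lit 4) (nat_lit 188) (nat_lit 4) (nat_lit 434) (nat_lit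 367) (nat_lit 219))) (XT.nd (nat_lit 78) (nat_lit 76) (nat_lit 0) (XT.lf (nat_lit 0) (nat_lit 16668356753) (nat_lit 152) (nat_lit 47996430043) (nat_lit 76) (nat_lit 46473655653) (nat_lit 186) (nat_lit 5) (nat_lit 188) (nat_lit 5) (nat_lit 187) (nat_lit 4) (nat_lit 435) (nat_lit 367) (nat_lit 218)) (XT.lf (nat_lit 0) (nat_lit 25497422993) (nat_lit 76) (nat_lit 27022923677) (nat_lit 152) (nat_lit 62228318313) (nat_lit 185) (nat_lit 5) (nat_lit 186) (nat_lit 5) (nat_lit 187) (nat_lit 4) (nat_lit 436) (nat_lit 367) (nat_lit 217)))) (XT.nd (nat_lit 156) (nat_lit 76) (nat_lit 0) (XT.nd (nat_lit 78) (nat_lit 152) (nat_lit 0) (XT.lf (nat_lit 0) (nat_lit 91183668656) (nat_lit 152) (nat_lit 14380061991) (nat_lit 0) (nat_lit 12924731368) (nat_lit 185) (nat_lit 5) (nat_lit 187) (nat_lit 4) (nat_lit 185) (nat_lit 4) (nat_lit 437) (nat_lit 367) (nat_lit 216)) (XT.lf (nat_lit 0) (nat_lit 10558590864) (nat_lit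 152) (nat_lit 56616181091) (nat_lit 76) (nat_lit 55158495392) (nat_lit 183) (nat_lit 5) (nat_lit 185) (nat_lit 5) (nat_lit 184) (nat_lit 4) (nat_lit 438) (nat_lit 367) (nat_lit 215))) (XT.nd (nat_lit 78) (nat_lit 0) (nat_lit 0) (XT.lf (nat_lit 0) (nat_lit 24280865033) (nat_lit 76) (nat_lit 25740793662) (nat_lit 152) (nat_lit 76295066548) (nat_lit 182) (nat_lit 5) (nat_lit 183) (nat_lit 5) (nat_lit 184) (nat_lit 4) (nat_lit 439) (nat_lit 367) (nat_lit 214)) (XT.lf (nat_lit 0) (nat_lit 92707303860) (nat_lit 152) (nat_lit 19561011799) (nat_lit 0) (nat_lit 18168569178) (nat_lit 182) (nat_lit 5) (nat_lit 184) (nat_lit 4) (nat_lit 182) (nat_lit 4) (nat_lit 440) (nat_lit 367) (nat_lit 213)))))) (XT.nd (nat_lit 624) (nat_lit 532) (nat_lit 0) (XT.nd (nat_lit 312) (nat_lit 380) (nat_lit 0) (XT.nd (nat_lit 156) (nat_lit 76) (nat_lit 0) (XT.nd (nat_lit 78) (nat_lit 76) (nat_lit 0) (XT.lf (nat_lit 0) (nat_lit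 4194191571) (nat_lit 152) (nat_lit 65942579487) (nat_lit 76) (nat_lit 64548199340) (nat_lit 180) (nat_lit 5) (nat_lit 182) (nat_lit 5) (nat_lit 181) (nat_lit 4) (nat_lit 441) (nat_lit 367) (nat_lit 212)) (XT.lf (nat_lit 0) (nat_lit 23122663025) (nat_lit 76) (nat_lit 24518888436) (nat_lit 152) (nat_lit 91438214886) (nat_lit 179) (nat_lit 5) (nat_lit 180) (nat_lit 5) (nat_lit 181) (nat_lit 4) (nat_lit 442) (nat_lit 367) (nat_lit 211))) (XT.nd (nat_lit 78) (nat_lit 76) (nat_lit 0) (XT.lf (nat_lit 0) (nat_lit 94759032410) (nat_lit 152) (nat_lit 25095897113) (nat_lit 0) (nat_lit 23764484919) (nat_lit 179) (nat_lit 5) (nat_lit 181) (nat_lit 4) (nat_lit 179) (nat_lit 4) (nat_lit 443) (nat_lit 367) (nat_lit 210)) (XT.lf (nat_lit 0) (nat_lit 72213271966) (nat_lit 76) (nat_lit 73546278169) (nat_lit 76) (nat_lit 2550136670) (nat_lit 178) (nat_lit 4) (nat_lit 179) (nat_lit 5) (nat_lit 179) (nat_lit 4) (nat_lit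 444) (nat_lit 367) (nat_lit 209)))) (XT.nd (nat_lit 156) (nat_lit 228) (nat_lit 0) (XT.nd (nat_lit 78) (nat_lit 0) (nat_lit 0) (XT.lf (nat_lit 0) (nat_lit 22019962831) (nat_lit 76) (nat_lit 23354487136) (nat_lit 152) (nat_lit 107785377510) (nat_lit 176) (nat_lit 5) (nat_lit 177) (nat_lit 5) (nat_lit 178) (nat_lit 4) (nat_lit 445) (nat_lit 367) (nat_lit 208)) (XT.lf (nat_lit 0) (nat_lit 97375377675) (nat_lit 152) (nat_lit 31029534535) (nat_lit 0) (nat_lit 29757182042) (nat_lit 176) (nat_lit 5) (nat_lit 178) (nat_lit 4) (nat_lit 176) (nat_lit 4) (nat_lit 446) (nat_lit 367) (nat_lit 207))) (XT.nd (nat_lit 78) (nat_lit 152) (nat_lit 0) (XT.lf (nat_lit 0) (nat_lit 76136060650) (nat_lit 76) (nat_lit 77409724537) (nat_lit 76) (nat_lit 9790217510) (nat_lit 175) (nat_lit 4) (nat_lit 176) (nat_lit 5) (nat_lit 176) (nat_lit 4) (nat_lit 447) (nat_lit 367) (nat_lit 206)) (XT.lf (nat_lit 0) (nat_lit 20970059569)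 (nat_lit 76) (nat_lit 22244972402) (nat_lit 152) (nat_lit 125476447113) (nat_lit 173) (nat_lit 5) (nat_lit 174) (nat_lit 5) (nat_lit 175) (nat_lit 4) (nat_lit 448) (nat_lit 367) (nat_lit 205))))) (XT.nd (nat_lit 312) (nat_lit 304) (nat_lit 0) (XT.nd (nat_lit 156) (nat_lit 152) (nat_lit 0) (XT.nd (nat_lit 78) (nat_lit 76) (nat_lit 0) (XT.lf (nat_lit 0) (nat_lit 100597426565) (nat_lit 152) (nat_lit 37410909290) (nat_lit 0) (nat_lit 36195573759) (nat_lit 173) (nat_lit 5) (nat_lit 175) (nat_lit 4) (nat_lit 173) (nat_lit 4) (nat_lit 449) (nat_lit 367) (nat_lit 204)) (XT.lf (nat_lit 0) (nat_lit 80626997049) (nat_lit 76) (nat_lit 81843411467) (nat_lit 76) (nat_lit 17440479774) (nat_lit 172) (nat_lit 4) (nat_lit 173) (nat_lit 5) (nat_lit 173) (nat_lit 4) (nat_lit 450) (nat_lit 367) (nat_lit 203))) (XT.nd (nat_lit 78) (nat_lit 0) (nat_lit 0) (XT.lf (nat_lit 0) (nat_lit 19970388145) (nat_lit 76) (nat_lit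 21187830074) (nat_lit 152) (nat_lit 144664887897) (nat_lit 170) (nat_lit 5) (nat_lit 171) (nat_lit 5) (nat_lit 172) (nat_lit 4) (nat_lit 451) (nat_lit 367) (nat_lit 202)) (XT.lf (nat_lit 0) (nat_lit 104471261534) (nat_lit 152) (nat_lit 44293626033) (nat_lit 0) (nat_lit 43133225546) (nat_lit 170) (nat_lit 5) (nat_lit 172) (nat_lit 4) (nat_lit 170) (nat_lit 4) (nat_lit 452) (nat_lit 367) (nat_lit 201)))) (XT.nd (nat_lit 156) (nat_lit 76) (nat_lit 0) (XT.nd (nat_lit 78) (nat_lit 152) (nat_lit 0) (XT.lf (nat_lit 0) (nat_lit 85736339134) (nat_lit 76) (nat_lit 86897627225) (nat_lit 76) (nat_lit 25558703633) (nat_lit 169) (nat_lit 4) (nat_lit 170) (nat_lit 5) (nat_lit 170) (nat_lit 4) (nat_lit 453) (nat_lit 367) (nat_lit 200)) (XT.lf (nat_lit 0) (nat_lit 19018514645) (nat_lit 76) (nat_lit 20180648073) (nat_lit 152) (nat_lit 165519160133) (nat_lit 167) (nat_lit 5) (nat_lit 168) (nat_lit 5) (nat_lit 169)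 (nat_lit 4) (nat_lit 454) (nat_lit 367) (nat_lit 199))) (XT.nd (nat_lit 78) (nat_lit 76) (nat_lit 0) (XT.lf (nat_lit 0) (nat_lit 109048437973) (nat_lit 152) (nat_lit 51736404163) (nat_lit 0) (nat_lit 50628843678) (nat_lit 167) (nat_lit 5) (nat_lit 169) (nat_lit 4) (nat_lit 167) (nat_lit 4) (nat_lit 455) (nat_lit 367) (nat_lit 198)) (XT.lf (nat_lit 0) (nat_lit 91519888494) (nat_lit 76) (nat_lit 92628179213) (nat_lit 76) (nat_lit 34207854684) (nat_lit 166) (nat_lit 4) (nat_lit 167) (nat_lit 5) (nat_lit 167) (nat_lit 4) (nat_lit 456) (nat_lit 367) (nat_lit 197))))))))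
noncomputable def xc211 : XT := (XT.nd (nat_lit 2496) (nat_lit 228) (nat_lit 0) (XT.nd (nat_lit 1248) (nat_lit 1140) (nat_lit 0) (XT.nd (nat_lit 624) (nat_lit 684) (nat_lit 0) (XT.nd (nat_lit 312) (nat_lit 228) (nat_lit 0) (XT.nd (nat_lit 156) (nat_lit 228) (nat_lit 0) (XT.nd (nat_lit 78) (nat_lit 0) (nat_lit 0) (XT.lf (nat_lit 0) (nat_lit 18112128491) (nat_lit 76) (nat_lit 19221114670) (nat_lit 152) (nat_lit 188224289674) (nat_lit 164) (nat_lit 5) (nat_lit 165) (nat_lit 5) (nat_lit 166) (nat_lit 4) (nat_lit 457) (nat_lit 367) (nat_lit 196)) (XT.lf (nat_lit 0) (nat_lit 114386511725) (nat_lit 152) (nat_lit 59803622382) (nat_lit 0) (nat_lit 58746814265) (nat_lit 164) (nat_lit 5) (nat_lit 166) (nat_lit 4) (nat_lit 164) (nat_lit 4) (nat_lit 458) (nat_lit 367) (nat_lit 195))) (XT.nd (nat_lit 78) (nat_lit 152) (nat_lit 0) (XT.lf (nat_lit 0) (nat_lit 98039537706) (nat_lit 76) (nat_lit 99096946588) (nat_lit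 76) (nat_lit 43456648363) (nat_lit 163) (nat_lit 4) (nat_lit 164) (nat_lit 5) (nat_lit 164) (nat_lit 4) (nat_lit 459) (nat_lit 367) (nat_lit 194)) (XT.lf (nat_lit 0) (nat_lit 17249035242) (nat_lit 76) (nat_lit 18307016281) (nat_lit 152) (nat_lit 212983597265) (nat_lit 161) (nat_lit 5) (nat_lit 162) (nat_lit 5) (nat_lit 163) (nat_lit 4) (nat_lit 460) (nat_lit 367) (nat_lit 193)))) (XT.nd (nat_lit 156) (nat_lit 152) (nat_lit 0) (XT.nd (nat_lit 78) (nat_lit 76) (nat_lit 0) (XT.lf (nat_lit 0) (nat_lit 120549621852) (nat_lit 152) (nat_lit 68565917716) (nat_lit 0) (nat_lit 67557797764) (nat_lit 161) (nat_lit 5) (nat_lit 163) (nat_lit 4) (nat_lit 161) (nat_lit 4) (nat_lit 461) (nat_lit 367) (nat_lit 192)) (XT.lf (nat_lit 0) (nat_lit 105363875181) (nat_lit 76) (nat_lit 106372489383) (nat_lit 76) (nat_lit 53380171044) (nat_lit 160) (nat_lit 4) (nat_lit 161) (nat_lit 5) (nat_lit 161) (nat_lit 4) (nat_lit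 462) (nat_lit 367) (nat_lit 191))) (XT.nd (nat_lit 78) (nat_lit 0) (nat_lit 0) (XT.lf (nat_lit 0) (nat_lit 16427149991) (nat_lit 76) (nat_lit 17436234908) (nat_lit 152) (nat_lit 240020603970) (nat_lit 158) (nat_lit 5) (nat_lit 159) (nat_lit 5) (nat_lit 160) (nat_lit 4) (nat_lit 463) (nat_lit 367) (nat_lit 190)) (XT.lf (nat_lit 0) (nat_lit 127609134365) (nat_lit 152) (nat_lit 78100844711) (nat_lit 0) (nat_lit 77139384504) (nat_lit 158) (nat_lit 5) (nat_lit 160) (nat_lit 4) (nat_lit 158) (nat_lit 4) (nat_lit 464) (nat_lit 367) (nat_lit 189))))) (XT.nd (nat_lit 312) (nat_lit 380) (nat_lit 0) (XT.nd (nat_lit 156) (nat_lit 76) (nat_lit 0) (XT.nd (nat_lit 78) (nat_lit 152) (nat_lit 0) (XT.lf (nat_lit 0) (nat_lit 113568853250) (nat_lit 76) (nat_lit 114530720078) (nat_lit 76) (nat_lit 64060563596) (nat_lit 157) (nat_lit 4) (nat_lit 158) (nat_lit 5) (nat_lit 158) (nat_lit 4) (nat_lit 465) (nat_lit 367)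 (nat_lit 188)) (XT.lf (nat_lit 0) (nat_lit 15644491245) (nat_lit 76) (nat_lit 16606745332) (nat_lit 152) (nat_lit 269581130782) (nat_lit 155) (nat_lit 5) (nat_lit 156) (nat_lit 5) (nat_lit 157) (nat_lit 4) (nat_lit 466) (nat_lit 367) (nat_lit 187))) (XT.nd (nat_lit 78) (nat_lit 76) (nat_lit 0) (XT.lf (nat_lit 0) (nat_lit 135644353136) (nat_lit 152) (nat_lit 88493601085) (nat_lit 0) (nat_lit 87576817367) (nat_lit 155) (nat_lit 5) (nat_lit 157) (nat_lit 4) (nat_lit 155) (nat_lit 4) (nat_lit 467) (nat_lit 367) (nat_lit 186)) (XT.lf (nat_lit 0) (nat_lit 122738525870) (nat_lit 76) (nat_lit 123655644117) (nat_lit 76) (nat_lit 75587773819) (nat_lit 154) (nat_lit 4) (nat_lit 155) (nat_lit 5) (nat_lit 155) (nat_lit 4) (nat_lit 468) (nat_lit 367) (nat_lit 185)))) (XT.nd (nat_lit 156) (nat_lit 228) (nat_lit 0) (XT.nd (nat_lit 78) (nat_lit 0) (nat_lit 0) (XT.lf (nat_lit 0) (nat_lit 14899175278) (nat_lit 76)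 (nat_lit 15816612123) (nat_lit 152) (nat_lit 301935612294) (nat_lit 152) (nat_lit 5) (nat_lit 153) (nat_lit 5) (nat_lit 154) (nat_lit 4) (nat_lit 469) (nat_lit 367) (nat_lit 184)) (XT.lf (nat_lit 0) (nat_lit 144743304892) (nat_lit 152) (nat_lit 99837826748) (nat_lit 0) (nat_lit 98963788394) (nat_lit 152) (nat_lit 5) (nat_lit 154) (nat_lit 4) (nat_lit 152) (nat_lit 4) (nat_lit 470) (nat_lit 367) (nat_lit 183))) (XT.nd (nat_lit 78) (nat_lit 152) (nat_lit 0) (XT.lf (nat_lit 0) (nat_lit 132965862966) (nat_lit 76) (nat_lit 133840176538) (nat_lit 76) (nat_lit 88060384823) (nat_lit 151) (nat_lit 4) (nat_lit 152) (nat_lit 5) (nat_lit 152) (nat_lit 4) (nat_lit 471) (nat_lit 367) (nat_lit 182)) (XT.lf (nat_lit 0) (nat_lit 14189410863) (nat_lit 76) (nat_lit 15063986546) (nat_lit 152) (nat_lit 337381646414) (nat_lit 149) (nat_lit 5) (nat_lit 150) (nat_lit 5) (nat_lit 151) (nat_lit 4) (nat_lit 472) (nat_lit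 367) (nat_lit 181)))))) (XT.nd (nat_lit 624) (nat_lit 608) (nat_lit 0) (XT.nd (nat_lit 312) (nat_lit 304) (nat_lit 0) (XT.nd (nat_lit 156) (nat_lit 152) (nat_lit 0) (XT.nd (nat_lit 78) (nat_lit 76) (nat_lit 0) (XT.lf (nat_lit 0) (nat_lit 155003605842) (nat_lit 152) (nat_lit 112236483800) (nat_lit 0) (nat_lit 111403316834) (nat_lit 149) (nat_lit 5) (nat_lit 151) (nat_lit 4) (nat_lit 149) (nat_lit 4) (nat_lit 473) (nat_lit 367) (nat_lit 180)) (XT.lf (nat_lit 0) (nat_lit 144353649188) (nat_lit 76) (nat_lit 145187042575) (nat_lit 76) (nat_lit 101586527146) (nat_lit 148) (nat_lit 4) (nat_lit 149) (nat_lit 5) (nat_lit 149) (nat_lit 4) (nat_lit 474) (nat_lit 367) (nat_lit 179))) (XT.nd (nat_lit 78) (nat_lit 0) (nat_lit 0) (XT.lf (nat_lit 0) (nat_lit 13513494375) (nat_lit 76) (nat_lit 14347103402) (nat_lit 152) (nat_lit 376246804298) (nat_lit 146) (nat_lit 5) (nat_lit 147) (nat_lit 5) (nat_lit 148) (nat_lit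 4) (nat_lit 475) (nat_lit 367) (nat_lit 178)) (XT.lf (nat_lit 0) (nat_lit 166533418302) (nat_lit 152) (nat_lit 125802825882) (nat_lit 0) (nat_lit 125008716930) (nat_lit 146) (nat_lit 5) (nat_lit 148) (nat_lit 4) (nat_lit 146) (nat_lit 4) (nat_lit 476) (nat_lit 367) (nat_lit 177)))) (XT.nd (nat_lit 156) (nat_lit 76) (nat_lit 0) (XT.nd (nat_lit 78) (nat_lit 152) (nat_lit 0) (XT.lf (nat_lit 0) (nat_lit 157015475654) (nat_lit 76) (nat_lit 157809770883) (nat_lit 76) (nat_lit 116284883233) (nat_lit 145) (nat_lit 4) (nat_lit 146) (nat_lit 5) (nat_lit 146) (nat_lit 4) (nat_lit 477) (nat_lit 367) (nat_lit 176)) (XT.lf (nat_lit 0) (nat_lit 12869805210) (nat_lit 76) (nat_lit 13664277846) (nat_lit 152) (nat_lit 418891727238) (nat_lit 143) (nat_lit 5) (nat_lit 144) (nat_lit 5) (nat_lit 145) (nat_lit 4) (nat_lit 478) (nat_lit 367) (nat_lit 175))) (XT.nd (nat_lit 78) (nat_lit 76) (nat_lit 0) (XT.lf (nat_lit 0)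 (nat_lit 179452506505) (nat_lit 152) (nat_lit 140661466104) (nat_lit 0) (nat_lit 139904664584) (nat_lit 143) (nat_lit 5) (nat_lit 145) (nat_lit 4) (nat_lit 143) (nat_lit 4) (nat_lit 479) (nat_lit 367) (nat_lit 174)) (XT.lf (nat_lit 0) (nat_lit 171076834157) (nat_lit 76) (nat_lit 171833788928) (nat_lit 76) (nat_lit 132285793756) (nat_lit 142) (nat_lit 4) (nat_lit 143) (nat_lit 5) (nat_lit 143) (nat_lit 4) (nat_lit 480) (nat_lit 367) (nat_lit 173))))) (XT.nd (nat_lit 312) (nat_lit 228) (nat_lit 0) (XT.nd (nat_lit 156) (nat_lit 228) (nat_lit 0) (XT.nd (nat_lit 78) (nat_lit 0) (nat_lit 0) (XT.lf (nat_lit 0) (nat_lit 12256801496) (nat_lit 76) (nat_lit 13013902221) (nat_lit 152) (nat_lit 465713539901) (nat_lit 140) (nat_lit 5) (nat_lit 141) (nat_lit 5) (nat_lit 142) (nat_lit 4) (nat_lit 481) (nat_lit 367) (nat_lit 172)) (XT.lf (nat_lit 0) (nat_lit 193893401721) (nat_lit 152) (nat_lit 156949553720) (nat_lit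 0) (nat_lit 156228373026) (nat_lit 140) (nat_lit 5) (nat_lit 142) (nat_lit 4) (nat_lit 140) (nat_lit 4) (nat_lit 482) (nat_lit 367) (nat_lit 171))) (XT.nd (nat_lit 78) (nat_lit 152) (nat_lit 0) (XT.lf (nat_lit 0) (nat_lit 186676324251) (nat_lit 76) (nat_lit 187397631025) (nat_lit 76) (nat_lit 149732476250) (nat_lit 139) (nat_lit 4) (nat_lit 140) (nat_lit 5) (nat_lit 140) (nat_lit 4) (nat_lit 483) (nat_lit 367) (nat_lit 170)) (XT.lf (nat_lit 0) (nat_lit 11673016067) (nat_lit 76) (nat_lit 12394442917) (nat_lit 152) (nat_lit 517149612413) (nat_lit 137) (nat_lit 5) (nat_lit 138) (nat_lit 5) (nat_lit 139) (nat_lit 4) (nat_lit 484) (nat_lit 367) (nat_lit 169)))) (XT.nd (nat_lit 156) (nat_lit 152) (nat_lit 0) (XT.nd (nat_lit 78) (nat_lit 76) (nat_lit 0) (XT.lf (nat_lit 0) (nat_lit 210002687872) (nat_lit 152) (nat_lit 174818070729) (nat_lit 0) (nat_lit 174130888625) (nat_lit 137) (nat_lit 5) (nat_lit 139)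 (nat_lit 4) (nat_lit 137) (nat_lit 4) (nat_lit 485) (nat_lit 367) (nat_lit 168)) (XT.lf (nat_lit 0) (nat_lit 203966984767) (nat_lit 76) (nat_lit 204654270597) (nat_lit 76) (nat_lit 168782367624) (nat_lit 136) (nat_lit 4) (nat_lit 137) (nat_lit 5) (nat_lit 137) (nat_lit 4) (nat_lit 486) (nat_lit 367) (nat_lit 167))) (XT.nd (nat_lit 78) (nat_lit 0) (nat_lit 0) (XT.lf (nat_lit 0) (nat_lit 11117052675) (nat_lit 76) (nat_lit 11804437293) (nat_lit 152) (nat_lit 573681707058) (nat_lit 134) (nat_lit 5) (nat_lit 135) (nat_lit 5) (nat_lit 136) (nat_lit 4) (nat_lit 487) (nat_lit 367) (nat_lit 166)) (XT.lf (nat_lit 0) (nat_lit 227942419953) (nat_lit 152) (nat_lit 194433260769) (nat_lit 0) (nat_lit 193778519150) (nat_lit 134) (nat_lit 5) (nat_lit 136) (nat_lit 4) (nat_lit 134) (nat_lit 4) (nat_lit 488) (nat_lit 367) (nat_lit 165))))))) (XT.nd (nat_lit 44772) (nat_lit 0) (nat_lit 8436) (XT.nd (nat_lit 44148)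 (nat_lit 0) (nat_lit 11324) (XT.nd (nat_lit 43836) (nat_lit 0) (nat_lit 12312) (XT.nd (nat_lit 43680) (nat_lit 0) (nat_lit 12236) (XT.nd (nat_lit 78) (nat_lit 152) (nat_lit 0) (XT.lf (nat_lit 0) (nat_lit 223117762439) (nat_lit 76) (nat_lit 223772589395) (nat_lit 76) (nat_lit 189608603255) (nat_lit 133) (nat_lit 4) (nat_lit 134) (nat_lit 5) (nat_lit 134) (nat_lit 4) (nat_lit 489) (nat_lit 367) (nat_lit 164)) (XT.lf (nat_lit 0) (nat_lit 10587582433) (nat_lit 76) (nat_lit 11242490661) (nat_lit 152) (nat_lit 635840549043) (nat_lit 131) (nat_lit 5) (nat_lit 132) (nat_lit 5) (nat_lit 133) (nat_lit 4) (nat_lit 490) (nat_lit 367) (nat_lit 163))) (XT.nd (nat_lit 78) (nat_lit 0) (nat_lit 0) (XT.lf (nat_lit 0) (nat_lit 1985715252) (nat_lit 836) (nat_lit 3027437660) (nat_lit 836) (nat_lit 3027437660) (nat_lit 292) (nat_lit 3) (nat_lit 303) (nat_lit 3) (nat_lit 303) (nat_lit 5) (nat_lit 368) (nat_lit 368) (nat_lit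 284)) (XT.lf (nat_lit 76) (nat_lit 2051371966) (nat_lit 0) (nat_lit 2306159147) (nat_lit 836) (nat_lit 12111338818) (nat_lit 293) (nat_lit 5) (nat_lit 292) (nat_lit 3) (nat_lit 303) (nat_lit 5) (nat_lit 369) (nat_lit 368) (nat_lit 283)))) (XT.nd (nat_lit 156) (nat_lit 0) (nat_lit 76) (XT.nd (nat_lit 78) (nat_lit 0) (nat_lit 0) (XT.lf (nat_lit 0) (nat_lit 4941385212) (nat_lit 760) (nat_lit 6199694731) (nat_lit 836) (nat_lit 5725940790) (nat_lit 293) (nat_lit 5) (nat_lit 303) (nat_lit 5) (nat_lit 304) (nat_lit 5) (nat_lit 370) (nat_lit 368) (nat_lit 282)) (XT.lf (nat_lit 76) (nat_lit 2460627550) (nat_lit 0) (nat_lit 3154476237) (nat_lit 836) (nat_lit 11666941701) (nat_lit 294) (nat_lit 5) (nat_lit 293) (nat_lit 5) (nat_lit 304) (nat_lit 5) (nat_lit 371) (nat_lit 368) (nat_lit 281))) (XT.nd (nat_lit 78) (nat_lit 0) (nat_lit 0) (XT.lf (nat_lit 0) (nat_lit 6496038325) (nat_lit 760) (nat_lit 6036773675)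 (nat_lit 836) (nat_lit 5176332978) (nat_lit 294) (nat_lit 5) (nat_lit 304) (nat_lit 5) (nat_lit 305) (nat_lit 5) (nat_lit 372) (nat_lit 368) (nat_lit 280)) (XT.lf (nat_lit 76) (nat_lit 3229213314) (nat_lit 0) (nat_lit 4279780127) (nat_lit 836) (nat_lit 10644207309) (nat_lit 295) (nat_lit 5) (nat_lit 294) (nat_lit 5) (nat_lit 305) (nat_lit 5) (nat_lit 373) (nat_lit 368) (nat_lit 279))))) (XT.nd (nat_lit 312) (nat_lit 1140) (nat_lit 0) (XT.nd (nat_lit 156) (nat_lit 0) (nat_lit 76) (XT.nd (nat_lit 78) (nat_lit 0) (nat_lit 0) (XT.lf (nat_lit 0) (nat_lit 8731422326) (nat_lit 760) (nat_lit 5526542750) (nat_lit 836) (nat_lit 4353552935) (nat_lit 295) (nat_lit 5) (nat_lit 305) (nat_lit 5) (nat_lit 306) (nat_lit 5) (nat_lit 374) (nat_lit 368) (nat_lit 278)) (XT.lf (nat_lit 76) (nat_lit 4401857152) (nat_lit 0) (nat_lit 5739085056) (nat_lit 836) (nat_lit 8945510449) (nat_lit 296) (nat_lit 5) (nat_lit 295)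 (nat_lit 5) (nat_lit 306) (nat_lit 5) (nat_lit 375) (nat_lit 368) (nat_lit 277))) (XT.nd (nat_lit 78) (nat_lit 0) (nat_lit 0) (XT.lf (nat_lit 0) (nat_lit 11753714713) (nat_lit 760) (nat_lit 4623649831) (nat_lit 836) (nat_lit 3201130659) (nat_lit 296) (nat_lit 5) (nat_lit 306) (nat_lit 5) (nat_lit 307) (nat_lit 5) (nat_lit 376) (nat_lit 368) (nat_lit 276)) (XT.lf (nat_lit 76) (nat_lit 6029570576) (nat_lit 0) (nat_lit 7593964784) (nat_lit 836) (nat_lit 6462784040) (nat_lit 297) (nat_lit 5) (nat_lit 296) (nat_lit 5) (nat_lit 307) (nat_lit 5) (nat_lit 377) (nat_lit 368) (nat_lit 275)))) (XT.nd (nat_lit 156) (nat_lit 532) (nat_lit 0) (XT.nd (nat_lit 78) (nat_lit 760) (nat_lit 0) (XT.lf (nat_lit 0) (nat_lit 15680492483) (nat_lit 760) (nat_lit 3276472069) (nat_lit 76) (nat_lit 1657887984) (nat_lit 297) (nat_lit 5) (nat_lit 307) (nat_lit 5) (nat_lit 298) (nat_lit 5) (nat_lit 378) (nat_lit 368) (nat_lit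 274)) (XT.lf (nat_lit 0) (nat_lit 8170189747) (nat_lit 760) (nat_lit 9911330822) (nat_lit 836) (nat_lit 3076230603) (nat_lit 287) (nat_lit 5) (nat_lit 297) (nat_lit 5) (nat_lit 298) (nat_lit 5) (nat_lit 379) (nat_lit 368) (nat_lit 273))) (XT.nd (nat_lit 78) (nat_lit 532) (nat_lit 0) (XT.lf (nat_lit 0) (nat_lit 20293457118) (nat_lit 760) (nat_lit 354171512) (nat_lit 836) (nat_lit 1077914684) (nat_lit 287) (nat_lit 5) (nat_lit 297) (nat_lit 5) (nat_lit 298) (nat_lit 5) (nat_lit 380) (nat_lit 368) (nat_lit 272)) (XT.lf (nat_lit 0) (nat_lit 1303967682) (nat_lit 532) (nat_lit 11438203627) (nat_lit 76) (nat_lit 9562941892) (nat_lit 280) (nat_lit 5) (nat_lit 287) (nat_lit 5) (nat_lit 281) (nat_lit 5) (nat_lit 381) (nat_lit 368) (nat_lit 271)))))) (XT.nd (nat_lit 624) (nat_lit 1140) (nat_lit 0) (XT.nd (nat_lit 312) (nat_lit 988) (nat_lit 0) (XT.nd (nat_lit 156) (nat_lit 380) (nat_lit 0) (XT.nd (nat_lit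 78) (nat_lit 0) (nat_lit 0) (XT.lf (nat_lit 0) (nat_lit 913787533) (nat_lit 380) (nat_lit 2889877207) (nat_lit 456) (nat_lit 19107366029) (nat_lit 275) (nat_lit 5) (nat_lit 280) (nat_lit 5) (nat_lit 281) (nat_lit 5) (nat_lit 382) (nat_lit 368) (nat_lit 270)) (XT.lf (nat_lit 0) (nat_lit 6732164764) (nat_lit 456) (nat_lit 9386666312) (nat_lit 76) (nat_lit 7413222234) (nat_lit 275) (nat_lit 5) (nat_lit 281) (nat_lit 5) (nat_lit 276) (nat_lit 5) (nat_lit 383) (nat_lit 368) (nat_lit 269))) (XT.nd (nat_lit 78) (nat_lit 0) (nat_lit 0) (XT.lf (nat_lit 0) (nat_lit 3923079866) (nat_lit 380) (nat_lit 5983622910) (nat_lit 456) (nat_lit 14272443552) (nat_lit 270) (nat_lit 5) (nat_lit 275) (nat_lit 5) (nat_lit 276) (nat_lit 5) (nat_lit 384) (nat_lit 368) (nat_lit 268)) (XT.lf (nat_lit 0) (nat_lit 13465531099) (nat_lit 456) (nat_lit 6711604001) (nat_lit 76) (nat_lit 4670180726) (nat_lit 270) (nat_lit 5) (nat_lit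 276) (nat_lit 5) (nat_lit 271) (nat_lit 5) (nat_lit 385) (nat_lit 368) (nat_lit 267)))) (XT.nd (nat_lit 156) (nat_lit 684) (nat_lit 0) (XT.nd (nat_lit 78) (nat_lit 0) (nat_lit 0) (XT.lf (nat_lit 0) (nat_lit 7647401885) (nat_lit 304) (nat_lit 9764064520) (nat_lit 380) (nat_lit 8126969116) (nat_lit 266) (nat_lit 5) (nat_lit 270) (nat_lit 5) (nat_lit 271) (nat_lit 5) (nat_lit 386) (nat_lit 368) (nat_lit 266)) (XT.lf (nat_lit 0) (nat_lit 21680398844) (nat_lit 380) (nat_lit 3330770417) (nat_lit 76) (nat_lit 1246656922) (nat_lit 266) (nat_lit 5) (nat_lit 271) (nat_lit 5) (nat_lit 267) (nat_lit 5) (nat_lit 387) (nat_lit 368) (nat_lit 265))) (XT.nd (nat_lit 78) (nat_lit 380) (nat_lit 0) (XT.lf (nat_lit 0) (nat_lit 12178083371) (nat_lit 304) (nat_lit 14327191454) (nat_lit 380) (nat_lit 490786706) (nat_lit 262) (nat_lit 5) (nat_lit 266) (nat_lit 5) (nat_lit 267) (nat_lit 5) (nat_lit 388) (nat_lit 368) (nat_lit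 264)) (XT.lf (nat_lit 0) (nat_lit 764609754) (nat_lit 304) (nat_lit 2975617445) (nat_lit 380) (nat_lit 24024931324) (nat_lit 257) (nat_lit 5) (nat_lit 261) (nat_lit 5) (nat_lit 262) (nat_lit 5) (nat_lit 389) (nat_lit 368) (nat_lit 263))))) (XT.nd (nat_lit 312) (nat_lit 608) (nat_lit 0) (XT.nd (nat_lit 156) (nat_lit 228) (nat_lit 0) (XT.nd (nat_lit 78) (nat_lit 304) (nat_lit 0) (XT.lf (nat_lit 0) (nat_lit 8553589048) (nat_lit 380) (nat_lit 11080610434) (nat_lit 76) (nat_lit 8918744053) (nat_lit 257) (nat_lit 5) (nat_lit 262) (nat_lit 5) (nat_lit 258) (nat_lit 5) (nat_lit 390) (nat_lit 368) (nat_lit 262)) (XT.lf (nat_lit 0) (nat_lit 5761984557) (nat_lit 304) (nat_lit 7977322146) (nat_lit 380) (nat_lit 15634226710) (nat_lit 253) (nat_lit 5) (nat_lit 257) (nat_lit 5) (nat_lit 258) (nat_lit 5) (nat_lit 391) (nat_lit 368) (nat_lit 261))) (XT.nd (nat_lit 78) (nat_lit 228) (nat_lit 0) (XT.lf (nat_lit 0)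 (nat_lit 19434703492) (nat_lit 380) (nat_lit 6473137457) (nat_lit 76) (nat_lit 4314792172) (nat_lit 253) (nat_lit 5) (nat_lit 258) (nat_lit 5) (nat_lit 254) (nat_lit 5) (nat_lit 392) (nat_lit 368) (nat_lit 260)) (XT.lf (nat_lit 0) (nat_lit 11759071802) (nat_lit 228) (nat_lit 13963607528) (nat_lit 304) (nat_lit 5376118025) (nat_lit 250) (nat_lit 5) (nat_lit 253) (nat_lit 5) (nat_lit 254) (nat_lit 5) (nat_lit 393) (nat_lit 368) (nat_lit 259)))) (XT.nd (nat_lit 156) (nat_lit 228) (nat_lit 0) (XT.nd (nat_lit 78) (nat_lit 304) (nat_lit 0) (XT.lf (nat_lit 0) (nat_lit 401419299) (nat_lit 304) (nat_lit 901027962) (nat_lit 76) (nat_lit 30710836534) (nat_lit 249) (nat_lit 5) (nat_lit 253) (nat_lit 5) (nat_lit 250) (nat_lit 5) (nat_lit 394) (nat_lit 368) (nat_lit 258)) (XT.lf (nat_lit 0) (nat_lit 6770655028) (nat_lit 380) (nat_lit 14177806562) (nat_lit 76) (nat_lit 11996451596) (nat_lit 245) (nat_lit 5) (nat_lit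 250) (nat_lit 5) (nat_lit 246) (nat_lit 5) (nat_lit 395) (nat_lit 368) (nat_lit 257))) (XT.nd (nat_lit 78) (nat_lit 0) (nat_lit 0) (XT.lf (nat_lit 0) (nat_lit 5679240765) (nat_lit 228) (nat_lit 7898596720) (nat_lit 304) (nat_lit 20339312314) (nat_lit 242) (nat_lit 5) (nat_lit 245) (nat_lit 5) (nat_lit 246) (nat_lit 5) (nat_lit 396) (nat_lit 368) (nat_lit 256)) (XT.lf (nat_lit 0) (nat_lit 21054109974) (nat_lit 304) (nat_lit 8007796039) (nat_lit 76) (nat_lit 5859655683) (nat_lit 242) (nat_lit 5) (nat_lit 246) (nat_lit 5) (nat_lit 243) (nat_lit 5) (nat_lit 397) (nat_lit 368) (nat_lit 255))))))))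
noncomputable def xc212 : XT := (XT.nd (nat_lit 1248) (nat_lit 1520) (nat_lit 0) (XT.nd (nat_lit 624) (nat_lit 912) (nat_lit 0) (XT.nd (nat_lit 312) (nat_lit 456) (nat_lit 0) (XT.nd (nat_lit 156) (nat_lit 456) (nat_lit 0) (XT.nd (nat_lit 78) (nat_lit 76) (nat_lit 0) (XT.lf (nat_lit 0) (nat_lit 13529149046) (nat_lit 228) (nat_lit 15710116086) (nat_lit 304) (nat_lit 6720175605) (nat_lit 239) (nat_lit 5) (nat_lit 242) (nat_lit 5) (nat_lit 243) (nat_lit 5) (nat_lit 398) (nat_lit 368) (nat_lit 254)) (XT.lf (nat_lit 0) (nat_lit 891604126) (nat_lit 304) (nat_lit 644208010) (nat_lit 76) (nat_lit 35506176830) (nat_lit 238) (nat_lit 5) (nat_lit 242) (nat_lit 5) (nat_lit 239) (nat_lit 5) (nat_lit 399) (nat_lit 368) (nat_lit 253))) (XT.nd (nat_lit 78) (nat_lit 228) (nat_lit 0) (XT.lf (nat_lit 0) (nat_lit 9225469891) (nat_lit 304) (nat_lit 15527281293) (nat_lit 76) (nat_lit 13392038133) (nat_lit 235) (nat_lit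 5) (nat_lit 239) (nat_lit 5) (nat_lit 236) (nat_lit 5) (nat_lit 400) (nat_lit 368) (nat_lit 252)) (XT.lf (nat_lit 0) (nat_lit 7984738579) (nat_lit 228) (nat_lit 10146988333) (nat_lit 304) (nat_lit 21163217875) (nat_lit 232) (nat_lit 5) (nat_lit 235) (nat_lit 5) (nat_lit 236) (nat_lit 5) (nat_lit 401) (nat_lit 368) (nat_lit 251)))) (XT.nd (nat_lit 156) (nat_lit 304) (nat_lit 0) (XT.nd (nat_lit 78) (nat_lit 152) (nat_lit 0) (XT.lf (nat_lit 0) (nat_lit 27826437596) (nat_lit 304) (nat_lit 7371397325) (nat_lit 76) (nat_lit 5287616068) (nat_lit 232) (nat_lit 5) (nat_lit 236) (nat_lit 5) (nat_lit 233) (nat_lit 5) (nat_lit 402) (nat_lit 368) (nat_lit 250)) (XT.lf (nat_lit 0) (nat_lit 18171964940) (nat_lit 152) (nat_lit 20279075508) (nat_lit 228) (nat_lit 3262184221) (nat_lit 230) (nat_lit 5) (nat_lit 232) (nat_lit 5) (nat_lit 233) (nat_lit 5) (nat_lit 403) (nat_lit 368) (nat_lit 249))) (XT.nd (nat_lit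 78) (nat_lit 0) (nat_lit 0) (XT.lf (nat_lit 0) (nat_lit 2210149283) (nat_lit 228) (nat_lit 4339478244) (nat_lit 304) (nat_lit 36439777483) (nat_lit 226) (nat_lit 5) (nat_lit 229) (nat_lit 5) (nat_lit 230) (nat_lit 5) (nat_lit 404) (nat_lit 368) (nat_lit 248)) (XT.lf (nat_lit 0) (nat_lit 17336374962) (nat_lit 304) (nat_lit 14504365885) (nat_lit 76) (nat_lit 12456280806) (nat_lit 226) (nat_lit 5) (nat_lit 230) (nat_lit 5) (nat_lit 227) (nat_lit 5) (nat_lit 405) (nat_lit 368) (nat_lit 247))))) (XT.nd (nat_lit 312) (nat_lit 380) (nat_lit 0) (XT.nd (nat_lit 156) (nat_lit 380) (nat_lit 0) (XT.nd (nat_lit 78) (nat_lit 0) (nat_lit 0) (XT.lf (nat_lit 0) (nat_lit 13435761441) (nat_lit 152) (nat_lit 15503039602) (nat_lit 228) (nat_lit 16717401020) (nat_lit 224) (nat_lit 5) (nat_lit 226) (nat_lit 5) (nat_lit 227) (nat_lit 5) (nat_lit 406) (nat_lit 368) (nat_lit 246)) (XT.lf (nat_lit 0) (nat_lit 41392291381)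 (nat_lit 228) (nat_lit 3831874001) (nat_lit 76) (nat_lit 1845628965) (nat_lit 224) (nat_lit 5) (nat_lit 227) (nat_lit 5) (nat_lit 225) (nat_lit 5) (nat_lit 407) (nat_lit 368) (nat_lit 245))) (XT.nd (nat_lit 78) (nat_lit 152) (nat_lit 0) (XT.lf (nat_lit 0) (nat_lit 6400599035) (nat_lit 228) (nat_lit 22058949809) (nat_lit 76) (nat_lit 20056125068) (nat_lit 221) (nat_lit 5) (nat_lit 224) (nat_lit 5) (nat_lit 222) (nat_lit 5) (nat_lit 408) (nat_lit 368) (nat_lit 244)) (XT.lf (nat_lit 0) (nat_lit 8534061259) (nat_lit 152) (nat_lit 10552676196) (nat_lit 228) (nat_lit 30932709677) (nat_lit 219) (nat_lit 5) (nat_lit 221) (nat_lit 5) (nat_lit 222) (nat_lit 5) (nat_lit 409) (nat_lit 368) (nat_lit 243)))) (XT.nd (nat_lit 156) (nat_lit 228) (nat_lit 0) (XT.nd (nat_lit 78) (nat_lit 152) (nat_lit 0) (XT.lf (nat_lit 0) (nat_lit 32911467354) (nat_lit 228) (nat_lit 10299270011) (nat_lit 76) (nat_lit 8362457421)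 (nat_lit 219) (nat_lit 5) (nat_lit 222) (nat_lit 5) (nat_lit 220) (nat_lit 5) (nat_lit 410) (nat_lit 368) (nat_lit 242)) (XT.lf (nat_lit 0) (nat_lit 23002546800) (nat_lit 152) (nat_lit 24952999555) (nat_lit 228) (nat_lit 5222677835) (nat_lit 217) (nat_lit 5) (nat_lit 219) (nat_lit 5) (nat_lit 220) (nat_lit 5) (nat_lit 411) (nat_lit 368) (nat_lit 241))) (XT.nd (nat_lit 78) (nat_lit 0) (nat_lit 0) (XT.lf (nat_lit 0) (nat_lit 3433647938) (nat_lit 152) (nat_lit 5397091327) (nat_lit 228) (nat_lit 46014482374) (nat_lit 214) (nat_lit 5) (nat_lit 216) (nat_lit 5) (nat_lit 217) (nat_lit 5) (nat_lit 412) (nat_lit 368) (nat_lit 240)) (XT.lf (nat_lit 0) (nat_lit 24163099449) (nat_lit 228) (nat_lit 17136164087) (nat_lit 76) (nat_lit 15254435115) (nat_lit 214) (nat_lit 5) (nat_lit 217) (nat_lit 5) (nat_lit 215) (nat_lit 5) (nat_lit 413) (nat_lit 368) (nat_lit 239)))))) (XT.nd (nat_lit 624) (nat_lit 760) (nat_lit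 0) (XT.nd (nat_lit 312) (nat_lit 304) (nat_lit 0) (XT.nd (nat_lit 156) (nat_lit 304) (nat_lit 0) (XT.nd (nat_lit 78) (nat_lit 0) (nat_lit 0) (XT.lf (nat_lit 0) (nat_lit 19378193037) (nat_lit 152) (nat_lit 21271143807) (nat_lit 228) (nat_lit 17678899712) (nat_lit 212) (nat_lit 5) (nat_lit 214) (nat_lit 5) (nat_lit 215) (nat_lit 5) (nat_lit 414) (nat_lit 368) (nat_lit 238)) (XT.lf (nat_lit 0) (nat_lit 58247349989) (nat_lit 228) (nat_lit 1871383466) (nat_lit 76) (nat_lit 58394708) (nat_lit 212) (nat_lit 5) (nat_lit 215) (nat_lit 5) (nat_lit 213) (nat_lit 4) (nat_lit 415) (nat_lit 368) (nat_lit 237))) (XT.nd (nat_lit 78) (nat_lit 152) (nat_lit 0) (XT.lf (nat_lit 0) (nat_lit 15091844470) (nat_lit 152) (nat_lit 24395136051) (nat_lit 76) (nat_lit 22572453482) (nat_lit 210) (nat_lit 5) (nat_lit 212) (nat_lit 5) (nat_lit 211) (nat_lit 5) (nat_lit 416) (nat_lit 368) (nat_lit 236)) (XT.lf (nat_lit 0) (nat_lit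 15670558280) (nat_lit 152) (nat_lit 17502473049) (nat_lit 228) (nat_lit 30847575207) (nat_lit 208) (nat_lit 5) (nat_lit 210) (nat_lit 5) (nat_lit 211) (nat_lit 5) (nat_lit 417) (nat_lit 368) (nat_lit 235)))) (XT.nd (nat_lit 156) (nat_lit 152) (nat_lit 0) (XT.nd (nat_lit 78) (nat_lit 152) (nat_lit 0) (XT.lf (nat_lit 0) (nat_lit 52661824374) (nat_lit 228) (nat_lit 7572945295) (nat_lit 76) (nat_lit 5819890684) (nat_lit 208) (nat_lit 5) (nat_lit 211) (nat_lit 5) (nat_lit 209) (nat_lit 4) (nat_lit 418) (nat_lit 368) (nat_lit 234)) (XT.lf (nat_lit 0) (nat_lit 5637885860) (nat_lit 152) (nat_lit 32133324655) (nat_lit 76) (nat_lit 30372294921) (nat_lit 206) (nat_lit 5) (nat_lit 208) (nat_lit 5) (nat_lit 207) (nat_lit 5) (nat_lit 419) (nat_lit 368) (nat_lit 233))) (XT.nd (nat_lit 78) (nat_lit 0) (nat_lit 0) (XT.lf (nat_lit 0) (nat_lit 11856787272) (nat_lit 152) (nat_lit 13625412359) (nat_lit 228) (nat_lit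 44828008260) (nat_lit 204) (nat_lit 5) (nat_lit 206) (nat_lit 5) (nat_lit 207) (nat_lit 5) (nat_lit 420) (nat_lit 368) (nat_lit 232)) (XT.lf (nat_lit 0) (nat_lit 47051640606) (nat_lit 228) (nat_lit 13594126671) (nat_lit 76) (nat_lit 11902832615) (nat_lit 204) (nat_lit 5) (nat_lit 207) (nat_lit 5) (nat_lit 205) (nat_lit 4) (nat_lit 421) (nat_lit 368) (nat_lit 231))))) (XT.nd (nat_lit 312) (nat_lit 380) (nat_lit 0) (XT.nd (nat_lit 156) (nat_lit 76) (nat_lit 0) (XT.nd (nat_lit 78) (nat_lit 228) (nat_lit 0) (XT.lf (nat_lit 0) (nat_lit 34379338029) (nat_lit 76) (nat_lit 36077193237) (nat_lit 152) (nat_lit 4404531347) (nat_lit 203) (nat_lit 5) (nat_lit 204) (nat_lit 5) (nat_lit 205) (nat_lit 4) (nat_lit 422) (nat_lit 368) (nat_lit 230)) (XT.lf (nat_lit 0) (nat_lit 7912469337) (nat_lit 152) (nat_lit 9616573262) (nat_lit 228) (nat_lit 59728535549) (nat_lit 200) (nat_lit 5) (nat_lit 202) (nat_lit 5) (nat_lit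 203) (nat_lit 5) (nat_lit 423) (nat_lit 368) (nat_lit 229))) (XT.nd (nat_lit 78) (nat_lit 76) (nat_lit 0) (XT.lf (nat_lit 0) (nat_lit 41388612104) (nat_lit 228) (nat_lit 19980727037) (nat_lit 76) (nat_lit 18352103148) (nat_lit 200) (nat_lit 5) (nat_lit 203) (nat_lit 5) (nat_lit 201) (nat_lit 4) (nat_lit 424) (nat_lit 368) (nat_lit 228)) (XT.lf (nat_lit 0) (nat_lit 32736462937) (nat_lit 76) (nat_lit 34370484703) (nat_lit 152) (nat_lit 15168262617) (nat_lit 199) (nat_lit 5) (nat_lit 200) (nat_lit 5) (nat_lit 201) (nat_lit 4) (nat_lit 425) (nat_lit 368) (nat_lit 227)))) (XT.nd (nat_lit 156) (nat_lit 152) (nat_lit 0) (XT.nd (nat_lit 78) (nat_lit 0) (nat_lit 0) (XT.lf (nat_lit 0) (nat_lit 3811422776) (nat_lit 152) (nat_lit 5450585376) (nat_lit 228) (nat_lit 75667488225) (nat_lit 196) (nat_lit 5) (nat_lit 198) (nat_lit 5) (nat_lit 199) (nat_lit 5) (nat_lit 426) (nat_lit 368) (nat_lit 226)) (XT.lf (nat_lit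 0) (nat_lit 35642808899) (nat_lit 228) (nat_lit 26782543276) (nat_lit 76) (nat_lit 25216773149) (nat_lit 196) (nat_lit 5) (nat_lit 199) (nat_lit 5) (nat_lit 197) (nat_lit 4) (nat_lit 427) (nat_lit 368) (nat_lit 225))) (XT.nd (nat_lit 78) (nat_lit 76) (nat_lit 0) (XT.lf (nat_lit 0) (nat_lit 31172841893) (nat_lit 76) (nat_lit 32743052867) (nat_lit 152) (nat_lit 26545828704) (nat_lit 195) (nat_lit 5) (nat_lit 196) (nat_lit 5) (nat_lit 197) (nat_lit 4) (nat_lit 428) (nat_lit 368) (nat_lit 224)) (XT.lf (nat_lit 0) (nat_lit 632775501) (nat_lit 152) (nat_lit 459348707) (nat_lit 76) (nat_lit 92307125832) (nat_lit 194) (nat_lit 5) (nat_lit 196) (nat_lit 5) (nat_lit 195) (nat_lit 5) (nat_lit 429) (nat_lit 368) (nat_lit 223)))))))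
noncomputable def xc213 : XT := (XT.nd (nat_lit 1248) (nat_lit 1292) (nat_lit 0) (XT.nd (nat_lit 624) (nat_lit 532) (nat_lit 0) (XT.nd (nat_lit 312) (nat_lit 304) (nat_lit 0) (XT.nd (nat_lit 156) (nat_lit 152) (nat_lit 0) (XT.nd (nat_lit 78) (nat_lit 76) (nat_lit 0) (XT.lf (nat_lit 0) (nat_lit 29782337876) (nat_lit 228) (nat_lit 34053826136) (nat_lit 76) (nat_lit 32550522964) (nat_lit 192) (nat_lit 5) (nat_lit 195) (nat_lit 5) (nat_lit 193) (nat_lit 4) (nat_lit 430) (nat_lit 368) (nat_lit 222)) (XT.lf (nat_lit 0) (nat_lit 29684519713) (nat_lit 76) (nat_lit 31191476380) (nat_lit 152) (nat_lit 38623168780) (nat_lit 191) (nat_lit 5) (nat_lit 192) (nat_lit 5) (nat_lit 193) (nat_lit 4) (nat_lit 431) (nat_lit 368) (nat_lit 221))) (XT.nd (nat_lit 78) (nat_lit 152) (nat_lit 0) (XT.lf (nat_lit 0) (nat_lit 94156042189) (nat_lit 152) (nat_lit 5009074940) (nat_lit 0) (nat_lit 3570564287) (nat_lit 191) (nat_lit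 5) (nat_lit 193) (nat_lit 4) (nat_lit 191) (nat_lit 4) (nat_lit 432) (nat_lit 368) (nat_lit 220)) (XT.lf (nat_lit 0) (nat_lit 23773100053) (nat_lit 152) (nat_lit 41853778820) (nat_lit 76) (nat_lit 40412112140) (nat_lit 189) (nat_lit 5) (nat_lit 191) (nat_lit 5) (nat_lit 190) (nat_lit 4) (nat_lit 433) (nat_lit 368) (nat_lit 219)))) (XT.nd (nat_lit 156) (nat_lit 228) (nat_lit 0) (XT.nd (nat_lit 78) (nat_lit 0) (nat_lit 0) (XT.lf (nat_lit 0) (nat_lit 28267761680) (nat_lit 76) (nat_lit 29712434099) (nat_lit 152) (nat_lit 51493985237) (nat_lit 188) (nat_lit 5) (nat_lit 189) (nat_lit 5) (nat_lit 190) (nat_lit 4) (nat_lit 434) (nat_lit 368) (nat_lit 218)) (XT.lf (nat_lit 0) (nat_lit 94740447464) (nat_lit 152) (nat_lit 9838573893) (nat_lit 0) (nat_lit 8459969104) (nat_lit 188) (nat_lit 5) (nat_lit 190) (nat_lit 4) (nat_lit 188) (nat_lit 4) (nat_lit 435) (nat_lit 368) (nat_lit 217))) (XT.nd (nat_lit 78)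 (nat_lit 76) (nat_lit 0) (XT.lf (nat_lit 0) (nat_lit 17578522983) (nat_lit 152) (nat_lit 50247102714) (nat_lit 76) (nat_lit 48865901454) (nat_lit 186) (nat_lit 5) (nat_lit 188) (nat_lit 5) (nat_lit 187) (nat_lit 4) (nat_lit 436) (nat_lit 368) (nat_lit 216)) (XT.lf (nat_lit 0) (nat_lit 26919037347) (nat_lit 76) (nat_lit 28302711436) (nat_lit 152) (nat_lit 65260580209) (nat_lit 185) (nat_lit 5) (nat_lit 186) (nat_lit 5) (nat_lit 187) (nat_lit 4) (nat_lit 437) (nat_lit 368) (nat_lit 215))))) (XT.nd (nat_lit 312) (nat_lit 304) (nat_lit 0) (XT.nd (nat_lit 156) (nat_lit 76) (nat_lit 0) (XT.nd (nat_lit 78) (nat_lit 152) (nat_lit 0) (XT.lf (nat_lit 0) (nat_lit 95815708169) (nat_lit 152) (nat_lit 14956780959) (nat_lit 0) (nat_lit 13636753183) (nat_lit 185) (nat_lit 5) (nat_lit 187) (nat_lit 4) (nat_lit 185) (nat_lit 4) (nat_lit 438) (nat_lit 368) (nat_lit 214)) (XT.lf (nat_lit 0) (nat_lit 11159266092) (nat_lit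 152) (nat_lit 59304595619) (nat_lit 76) (nat_lit 57982431719) (nat_lit 183) (nat_lit 5) (nat_lit 185) (nat_lit 5) (nat_lit 184) (nat_lit 4) (nat_lit 439) (nat_lit 368) (nat_lit 213))) (XT.nd (nat_lit 78) (nat_lit 0) (nat_lit 0) (XT.lf (nat_lit 0) (nat_lit 25635006126) (nat_lit 76) (nat_lit 26959204429) (nat_lit 152) (nat_lit 80034777504) (nat_lit 182) (nat_lit 5) (nat_lit 183) (nat_lit 5) (nat_lit 184) (nat_lit 4) (nat_lit 440) (nat_lit 368) (nat_lit 212)) (XT.lf (nat_lit 0) (nat_lit 97411755162) (nat_lit 152) (nat_lit 20403253057) (nat_lit 0) (nat_lit 19140266554) (nat_lit 182) (nat_lit 5) (nat_lit 184) (nat_lit 4) (nat_lit 182) (nat_lit 4) (nat_lit 441) (nat_lit 368) (nat_lit 211)))) (XT.nd (nat_lit 156) (nat_lit 76) (nat_lit 0) (XT.nd (nat_lit 78) (nat_lit 76) (nat_lit 0) (XT.lf (nat_lit 0) (nat_lit 4472896436) (nat_lit 152) (nat_lit 69103808307) (nat_lit 76) (nat_lit 67839064410) (nat_lit 180)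 (nat_lit 5) (nat_lit 182) (nat_lit 5) (nat_lit 181) (nat_lit 4) (nat_lit 442) (nat_lit 368) (nat_lit 210)) (XT.lf (nat_lit 0) (nat_lit 24412504393) (nat_lit 76) (nat_lit 25678921999) (nat_lit 152) (nat_lit 95938938406) (nat_lit 179) (nat_lit 5) (nat_lit 180) (nat_lit 5) (nat_lit 181) (nat_lit 4) (nat_lit 443) (nat_lit 368) (nat_lit 209))) (XT.nd (nat_lit 78) (nat_lit 76) (nat_lit 0) (XT.lf (nat_lit 0) (nat_lit 99562532992) (nat_lit 152) (nat_lit 26221102416) (nat_lit 0) (nat_lit 25013472308) (nat_lit 179) (nat_lit 5) (nat_lit 181) (nat_lit 4) (nat_lit 179) (nat_lit 4) (nat_lit 444) (nat_lit 368) (nat_lit 208)) (XT.lf (nat_lit 0) (nat_lit 75951434964) (nat_lit 76) (nat_lit 77160510884) (nat_lit 76) (nat_lit 2610004387) (nat_lit 178) (nat_lit 4) (nat_lit 179) (nat_lit 5) (nat_lit 179) (nat_lit 4) (nat_lit 445) (nat_lit 368) (nat_lit 207)))))) (XT.nd (nat_lit 624) (nat_lit 684) (nat_lit 0) (XT.nd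 (nat_lit 312) (nat_lit 228) (nat_lit 0) (XT.nd (nat_lit 156) (nat_lit 228) (nat_lit 0) (XT.nd (nat_lit 78) (nat_lit 0) (nat_lit 0) (XT.lf (nat_lit 0) (nat_lit 23248533886) (nat_lit 76) (nat_lit 24458986770) (nat_lit 152) (nat_lit 113107080784) (nat_lit 176) (nat_lit 5) (nat_lit 177) (nat_lit 5) (nat_lit 178) (nat_lit 4) (nat_lit 446) (nat_lit 368) (nat_lit 206)) (XT.lf (nat_lit 0) (nat_lit 102306370660) (nat_lit 152) (nat_lit 32457389159) (nat_lit 0) (nat_lit 31303327941) (nat_lit 176) (nat_lit 5) (nat_lit 178) (nat_lit 4) (nat_lit 176) (nat_lit 4) (nat_lit 447) (nat_lit 368) (nat_lit 205))) (XT.nd (nat_lit 78) (nat_lit 152) (nat_lit 0) (XT.lf (nat_lit 0) (nat_lit 80064491880) (nat_lit 76) (nat_lit 81219742571) (nat_lit 76) (nat_lit 10215510379) (nat_lit 175) (nat_lit 4) (nat_lit 176) (nat_lit 5) (nat_lit 176) (nat_lit 4) (nat_lit 448) (nat_lit 368) (nat_lit 204)) (XT.lf (nat_lit 0) (nat_lit 22140251226)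 (nat_lit 76) (nat_lit 23296634749) (nat_lit 152) (nat_lit 131686111943) (nat_lit 173) (nat_lit 5) (nat_lit 174) (nat_lit 5) (nat_lit 175) (nat_lit 4) (nat_lit 449) (nat_lit 368) (nat_lit 203)))) (XT.nd (nat_lit 156) (nat_lit 152) (nat_lit 0) (XT.nd (nat_lit 78) (nat_lit 76) (nat_lit 0) (XT.lf (nat_lit 0) (nat_lit 105686391538) (nat_lit 152) (nat_lit 39163552013) (nat_lit 0) (nat_lit 38061206861) (nat_lit 173) (nat_lit 5) (nat_lit 175) (nat_lit 4) (nat_lit 173) (nat_lit 4) (nat_lit 450) (nat_lit 368) (nat_lit 202)) (XT.lf (nat_lit 0) (nat_lit 84774347986) (nat_lit 76) (nat_lit 85877671720) (nat_lit 76) (nat_lit 18251508461) (nat_lit 172) (nat_lit 4) (nat_lit 173) (nat_lit 5) (nat_lit 173) (nat_lit 4) (nat_lit 451) (nat_lit 368) (nat_lit 201))) (XT.nd (nat_lit 78) (nat_lit 0) (nat_lit 0) (XT.lf (nat_lit 0) (nat_lit 21084958393) (nat_lit 76) (nat_lit 22189214112) (nat_lit 152) (nat_lit 151837186748)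 (nat_lit 170) (nat_lit 5) (nat_lit 171) (nat_lit 5) (nat_lit 172) (nat_lit 4) (nat_lit 452) (nat_lit 368) (nat_lit 200)) (XT.lf (nat_lit 0) (nat_lit 109750966548) (nat_lit 152) (nat_lit 46395881286) (nat_lit 0) (nat_lit 45343363837) (nat_lit 170) (nat_lit 5) (nat_lit 172) (nat_lit 4) (nat_lit 170) (nat_lit 4) (nat_lit 453) (nat_lit 368) (nat_lit 199))))) (XT.nd (nat_lit 312) (nat_lit 380) (nat_lit 0) (XT.nd (nat_lit 156) (nat_lit 76) (nat_lit 0) (XT.nd (nat_lit 78) (nat_lit 152) (nat_lit 0) (XT.lf (nat_lit 0) (nat_lit 90133768816) (nat_lit 76) (nat_lit 91187091347) (nat_lit 76) (nat_lit 26778683554) (nat_lit 169) (nat_lit 4) (nat_lit 170) (nat_lit 5) (nat_lit 170) (nat_lit 4) (nat_lit 454) (nat_lit 368) (nat_lit 198)) (XT.lf (nat_lit 0) (nat_lit 20080094039) (nat_lit 76) (nat_lit 21134183315) (nat_lit 152) (nat_lit 173737203815) (nat_lit 167) (nat_lit 5) (nat_lit 168) (nat_lit 5) (nat_lit 169)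 (nat_lit 4) (nat_lit 455) (nat_lit 368) (nat_lit 197))) (XT.nd (nat_lit 78) (nat_lit 76) (nat_lit 0) (XT.lf (nat_lit 0) (nat_lit 114554215078) (nat_lit 152) (nat_lit 54216038638) (nat_lit 0) (nat_lit 53211448629) (nat_lit 167) (nat_lit 5) (nat_lit 169) (nat_lit 4) (nat_lit 167) (nat_lit 4) (nat_lit 456) (nat_lit 368) (nat_lit 196)) (XT.lf (nat_lit 0) (nat_lit 96201339850) (nat_lit 76) (nat_lit 97206592202) (nat_lit 76) (nat_lit 35863163410) (nat_lit 166) (nat_lit 4) (nat_lit 167) (nat_lit 5) (nat_lit 167) (nat_lit 4) (nat_lit 457) (nat_lit 368) (nat_lit 195)))) (XT.nd (nat_lit 156) (nat_lit 228) (nat_lit 0) (XT.nd (nat_lit 78) (nat_lit 0) (nat_lit 0) (XT.lf (nat_lit 0) (nat_lit 19123225524) (nat_lit 76) (nat_lit 20129108680) (nat_lit 152) (nat_lit 197580453828) (nat_lit 164) (nat_lit 5) (nat_lit 165) (nat_lit 5) (nat_lit 166) (nat_lit 4) (nat_lit 458) (nat_lit 368) (nat_lit 194)) (XT.lf (nat_lit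 0) (nat_lit 120156558576) (nat_lit 152) (nat_lit 62691628633) (nat_lit 0) (nat_lit 61733072518) (nat_lit 164) (nat_lit 5) (nat_lit 166) (nat_lit 4) (nat_lit 164) (nat_lit 4) (nat_lit 459) (nat_lit 368) (nat_lit 193))) (XT.nd (nat_lit 78) (nat_lit 152) (nat_lit 0) (XT.lf (nat_lit 0) (nat_lit 103042041478) (nat_lit 76) (nat_lit 104001142504) (nat_lit 76) (nat_lit 45577111535) (nat_lit 163) (nat_lit 4) (nat_lit 164) (nat_lit 5) (nat_lit 164) (nat_lit 4) (nat_lit 460) (nat_lit 368) (nat_lit 192)) (XT.nd (nat_lit 78) (nat_lit 0) (nat_lit 0) (XT.lf (nat_lit 0) (nat_lit 18212041598) (nat_lit 76) (nat_lit 19171661587) (nat_lit 152) (nat_lit 223580435588) (nat_lit 161) (nat_lit 5) (nat_lit 162) (nat_lit 5) (nat_lit 163) (nat_lit 4) (nat_lit 461) (nat_lit 368) (nat_lit 191)) (XT.lf (nat_lit 0) (nat_lit 126625332221) (nat_lit 152) (nat_lit 71896827514) (nat_lit 0) (nat_lit 70982432999) (nat_lit 161) (nat_lit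 5) (nat_lit 163) (nat_lit 4) (nat_lit 161) (nat_lit 4) (nat_lit 462) (nat_lit 368) (nat_lit 190))))))))
noncomputable def xc214 : XT := (XT.nd (nat_lit 46098) (nat_lit 0) (nat_lit 7372) (XT.nd (nat_lit 1248) (nat_lit 912) (nat_lit 0) (XT.nd (nat_lit 624) (nat_lit 532) (nat_lit 0) (XT.nd (nat_lit 312) (nat_lit 380) (nat_lit 0) (XT.nd (nat_lit 156) (nat_lit 76) (nat_lit 0) (XT.nd (nat_lit 78) (nat_lit 152) (nat_lit 0) (XT.lf (nat_lit 0) (nat_lit 110727884284) (nat_lit 76) (nat_lit 111642727098) (nat_lit 76) (nat_lit 55999379577) (nat_lit 160) (nat_lit 4) (nat_lit 161) (nat_lit 5) (nat_lit 161) (nat_lit 4) (nat_lit 463) (nat_lit 368) (nat_lit 189)) (XT.lf (nat_lit 0) (nat_lit 17344345629) (nat_lit 76) (nat_lit 18259615396) (nat_lit 152) (nat_lit 251971856944) (nat_lit 158) (nat_lit 5) (nat_lit 159) (nat_lit 5) (nat_lit 160) (nat_lit 4) (nat_lit 464) (nat_lit 368) (nat_lit 188))) (XT.nd (nat_lit 78)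 (nat_lit 76) (nat_lit 0) (XT.lf (nat_lit 0) (nat_lit 134035460634) (nat_lit 152) (nat_lit 81913075199) (nat_lit 0) (nat_lit 81041002448) (nat_lit 158) (nat_lit 5) (nat_lit 160) (nat_lit 4) (nat_lit 158) (nat_lit 4) (nat_lit 465) (nat_lit 368) (nat_lit 187)) (XT.lf (nat_lit 0) (nat_lit 119338610697) (nat_lit 76) (nat_lit 120211052264) (nat_lit 76) (nat_lit 67216225261) (nat_lit 157) (nat_lit 4) (nat_lit 158) (nat_lit 5) (nat_lit 158) (nat_lit 4) (nat_lit 466) (nat_lit 368) (nat_lit 186)))) (XT.nd (nat_lit 156) (nat_lit 228) (nat_lit 0) (XT.nd (nat_lit 78) (nat_lit 0) (nat_lit 0) (XT.lf (nat_lit 0) (nat_lit 16518049345) (nat_lit 76) (nat_lit 17390842168) (nat_lit 152) (nat_lit 283012839559) (nat_lit 155) (nat_lit 5) (nat_lit 156) (nat_lit 5) (nat_lit 157) (nat_lit 4) (nat_lit 467) (nat_lit 368) (nat_lit 185)) (XT.lf (nat_lit 0) (nat_lit 142470204173) (nat_lit 152) (nat_lit 92829837092) (nat_lit 0)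 (nat_lit 91998287234) (nat_lit 155) (nat_lit 5) (nat_lit 157) (nat_lit 4) (nat_lit 155) (nat_lit 4) (nat_lit 468) (nat_lit 368) (nat_lit 184))) (XT.nd (nat_lit 78) (nat_lit 152) (nat_lit 0) (XT.lf (nat_lit 0) (nat_lit 128962469695) (nat_lit 76) (nat_lit 129794322980) (nat_lit 76) (nat_lit 79322102613) (nat_lit 154) (nat_lit 4) (nat_lit 155) (nat_lit 5) (nat_lit 155) (nat_lit 4) (nat_lit 469) (nat_lit 368) (nat_lit 183)) (XT.lf (nat_lit 0) (nat_lit 15731167001) (nat_lit 76) (nat_lit 16563309264) (nat_lit 152) (nat_lit 316987348440) (nat_lit 152) (nat_lit 5) (nat_lit 153) (nat_lit 5) (nat_lit 154) (nat_lit 4) (nat_lit 470) (nat_lit 368) (nat_lit 182))))) (XT.nd (nat_lit 312) (nat_lit 304) (nat_lit 0) (XT.nd (nat_lit 156) (nat_lit 152) (nat_lit 0) (XT.nd (nat_lit 78) (nat_lit 76) (nat_lit 0) (XT.lf (nat_lit 0) (nat_lit 152021983033) (nat_lit 152) (nat_lit 104745442956) (nat_lit 0) (nat_lit 103952664403)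 (nat_lit 152) (nat_lit 5) (nat_lit 154) (nat_lit 4) (nat_lit 152) (nat_lit 4) (nat_lit 471) (nat_lit 368) (nat_lit 181)) (XT.lf (nat_lit 0) (nat_lit 139697071969) (nat_lit 76) (nat_lit 140490100152) (nat_lit 76) (nat_lit 92420531891) (nat_lit 151) (nat_lit 4) (nat_lit 152) (nat_lit 5) (nat_lit 152) (nat_lit 4) (nat_lit 472) (nat_lit 368) (nat_lit 180))) (XT.nd (nat_lit 78) (nat_lit 0) (nat_lit 0) (XT.lf (nat_lit 0) (nat_lit 14981809953) (nat_lit 76) (nat_lit 15775075879) (nat_lit 152) (nat_lit 354207869255) (nat_lit 149) (nat_lit 5) (nat_lit 150) (nat_lit 5) (nat_lit 151) (nat_lit 4) (nat_lit 473) (nat_lit 368) (nat_lit 179)) (XT.lf (nat_lit 0) (nat_lit 162793287093) (nat_lit 152) (nat_lit 117768010829) (nat_lit 0) (nat_lit 117012303830) (nat_lit 149) (nat_lit 5) (nat_lit 151) (nat_lit 4) (nat_lit 149) (nat_lit 4) (nat_lit 474) (nat_lit 368) (nat_lit 178)))) (XT.nd (nat_lit 156) (nat_lit 76) (nat_lit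 0) (XT.nd (nat_lit 78) (nat_lit 152) (nat_lit 0) (XT.lf (nat_lit 0) (nat_lit 151650333693) (nat_lit 76) (nat_lit 152406246062) (nat_lit 76) (nat_lit 106625057429) (nat_lit 148) (nat_lit 4) (nat_lit 149) (nat_lit 5) (nat_lit 149) (nat_lit 4) (nat_lit 475) (nat_lit 368) (nat_lit 177)) (XT.lf (nat_lit 0) (nat_lit 14268181582) (nat_lit 76) (nat_lit 15024289543) (nat_lit 152) (nat_lit 395018358881) (nat_lit 146) (nat_lit 5) (nat_lit 147) (nat_lit 5) (nat_lit 148) (nat_lit 4) (nat_lit 476) (nat_lit 368) (nat_lit 176))) (XT.nd (nat_lit 78) (nat_lit 76) (nat_lit 0) (XT.lf (nat_lit 0) (nat_lit 174897680275) (nat_lit 152) (nat_lit 132016464785) (nat_lit 0) (nat_lit 131296184557) (nat_lit 146) (nat_lit 5) (nat_lit 148) (nat_lit 4) (nat_lit 146) (nat_lit 4) (nat_lit 477) (nat_lit 368) (nat_lit 175)) (XT.lf (nat_lit 0) (nat_lit 164941517918) (nat_lit 76) (nat_lit 165661967105) (nat_lit 76) (nat_lit 122060302428)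 (nat_lit 145) (nat_lit 4) (nat_lit 146) (nat_lit 5) (nat_lit 146) (nat_lit 4) (nat_lit 478) (nat_lit 368) (nat_lit 174)))))) (XT.nd (nat_lit 624) (nat_lit 304) (nat_lit 0) (XT.nd (nat_lit 312) (nat_lit 228) (nat_lit 0) (XT.nd (nat_lit 156) (nat_lit 228) (nat_lit 0) (XT.nd (nat_lit 78) (nat_lit 0) (nat_lit 0) (XT.lf (nat_lit 0) (nat_lit 13588572543) (nat_lit 76) (nat_lit 14309182644) (nat_lit 152) (nat_lit 439797497224) (nat_lit 143) (nat_lit 5) (nat_lit 144) (nat_lit 5) (nat_lit 145) (nat_lit 4) (nat_lit 479) (nat_lit 368) (nat_lit 173)) (XT.lf (nat_lit 0) (nat_lit 188460909058) (nat_lit 152) (nat_lit 147621656211) (nat_lit 0) (nat_lit 146935214923) (nat_lit 143) (nat_lit 5) (nat_lit 145) (nat_lit 4) (nat_lit 143) (nat_lit 4) (nat_lit 480) (nat_lit 368) (nat_lit 172))) (XT.nd (nat_lit 78) (nat_lit 152) (nat_lit 0) (XT.lf (nat_lit 0) (nat_lit 179702383528) (nat_lit 76) (nat_lit 180388963819) (nat_lit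 76) (nat_lit 138863130680) (nat_lit 142) (nat_lit 4) (nat_lit 143) (nat_lit 5) (nat_lit 143) (nat_lit 4) (nat_lit 481) (nat_lit 368) (nat_lit 171)) (XT.lf (nat_lit 0) (nat_lit 12941356302) (nat_lit 76) (nat_lit 13628068978) (nat_lit 152) (nat_lit 488962271200) (nat_lit 140) (nat_lit 5) (nat_lit 141) (nat_lit 5) (nat_lit 142) (nat_lit 4) (nat_lit 482) (nat_lit 368) (nat_lit 170)))) (XT.nd (nat_lit 156) (nat_lit 152) (nat_lit 0) (XT.nd (nat_lit 78) (nat_lit 76) (nat_lit 0) (XT.lf (nat_lit 0) (nat_lit 203622125794) (nat_lit 152) (nat_lit 164727599273) (nat_lit 0) (nat_lit 164073467124) (nat_lit 140) (nat_lit 5) (nat_lit 142) (nat_lit 4) (nat_lit 140) (nat_lit 4) (nat_lit 483) (nat_lit 368) (nat_lit 169)) (XT.lf (nat_lit 0) (nat_lit 196078452724) (nat_lit 76) (nat_lit 196732699231) (nat_lit 76) (nat_lit 157183926202) (nat_lit 139) (nat_lit 4) (nat_lit 140) (nat_lit 5) (nat_lit 140) (nat_lit 4) (nat_lit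 484) (nat_lit 368) (nat_lit 168))) (XT.nd (nat_lit 78) (nat_lit 0) (nat_lit 0) (XT.lf (nat_lit 0) (nat_lit 12324984945) (nat_lit 76) (nat_lit 12979340365) (nat_lit 152) (nat_lit 542971924988) (nat_lit 137) (nat_lit 5) (nat_lit 138) (nat_lit 5) (nat_lit 139) (nat_lit 4) (nat_lit 485) (nat_lit 368) (nat_lit 167)) (XT.lf (nat_lit 0) (nat_lit 220535238540) (nat_lit 152) (nat_lit 183492832329) (nat_lit 0) (nat_lit 182869537904) (nat_lit 137) (nat_lit 5) (nat_lit 139) (nat_lit 4) (nat_lit 137) (nat_lit 4) (nat_lit 486) (nat_lit 368) (nat_lit 166))))) (XT.nd (nat_lit 43914) (nat_lit 0) (nat_lit 12084) (XT.nd (nat_lit 156) (nat_lit 76) (nat_lit 0) (XT.nd (nat_lit 78) (nat_lit 152) (nat_lit 0) (XT.lf (nat_lit 0) (nat_lit 214230409136) (nat_lit 76) (nat_lit 214853797644) (nat_lit 76) (nat_lit 177188002925) (nat_lit 136) (nat_lit 4) (nat_lit 137) (nat_lit 5) (nat_lit 137) (nat_lit 4) (nat_lit 487) (nat_lit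 368) (nat_lit 165)) (XT.lf (nat_lit 0) (nat_lit 11737985224) (nat_lit 76) (nat_lit 12361463334) (nat_lit 152) (nat_lit 602332314115) (nat_lit 134) (nat_lit 5) (nat_lit 135) (nat_lit 5) (nat_lit 136) (nat_lit 4) (nat_lit 488) (nat_lit 368) (nat_lit 164))) (XT.nd (nat_lit 78) (nat_lit 76) (nat_lit 0) (XT.lf (nat_lit 0) (nat_lit 239370400352) (nat_lit 152) (nat_lit 204091918246) (nat_lit 0) (nat_lit 203498048297) (nat_lit 134) (nat_lit 5) (nat_lit 136) (nat_lit 4) (nat_lit 134) (nat_lit 4) (nat_lit 489) (nat_lit 368) (nat_lit 163)) (XT.lf (nat_lit 0) (nat_lit 234335639903) (nat_lit 76) (nat_lit 234929587255) (nat_lit 76) (nat_lit 199057157798) (nat_lit 133) (nat_lit 4) (nat_lit 134) (nat_lit 5) (nat_lit 134) (nat_lit 4) (nat_lit 490) (nat_lit 368) (nat_lit 162)))) (XT.nd (nat_lit 156) (nat_lit 0) (nat_lit 76) (XT.nd (nat_lit 78) (nat_lit 0) (nat_lit 0) (XT.lf (nat_lit 0) (nat_lit 2335810253) (nat_lit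 836) (nat_lit 3047134693) (nat_lit 836) (nat_lit 3047134693) (nat_lit 292) (nat_lit 3) (nat_lit 303) (nat_lit 3) (nat_lit 303) (nat_lit 5) (nat_lit 369) (nat_lit 369) (nat_lit 282)) (XT.lf (nat_lit 76) (nat_lit 2413042689) (nat_lit 0) (nat_lit 2644142173) (nat_lit 836) (nat_lit 12211039706) (nat_lit 293) (nat_lit 5) (nat_lit 292) (nat_lit 3) (nat_lit 303) (nat_lit 5) (nat_lit 370) (nat_lit 369) (nat_lit 281))) (XT.nd (nat_lit 78) (nat_lit 0) (nat_lit 0) (XT.lf (nat_lit 0) (nat_lit 5643978865) (nat_lit 760) (nat_lit 6236662738) (nat_lit 836) (nat_lit 5806953948) (nat_lit 293) (nat_lit 5) (nat_lit 303) (nat_lit 5) (nat_lit 304) (nat_lit 5) (nat_lit 371) (nat_lit 369) (nat_lit 280)) (XT.lf (nat_lit 76) (nat_lit 2852272162) (nat_lit 0) (nat_lit 3481613375) (nat_lit 836) (nat_lit 11790360898) (nat_lit 294) (nat_lit 5) (nat_lit 293) (nat_lit 5) (nat_lit 304) (nat_lit 5) (nat_lit 372) (nat_lit 369) (nat_lit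 279))))))) (XT.nd (nat_lit 1248) (nat_lit 2736) (nat_lit 0) (XT.nd (nat_lit 624) (nat_lit 1596) (nat_lit 0) (XT.nd (nat_lit 312) (nat_lit 532) (nat_lit 0) (XT.nd (nat_lit 156) (nat_lit 0) (nat_lit 76) (XT.nd (nat_lit 78) (nat_lit 0) (nat_lit 0) (XT.lf (nat_lit 0) (nat_lit 7235489330) (nat_lit 760) (nat_lit 6059412760) (nat_lit 836) (nat_lit 5278967683) (nat_lit 294) (nat_lit 5) (nat_lit 304) (nat_lit 5) (nat_lit 305) (nat_lit 5) (nat_lit 373) (nat_lit 369) (nat_lit 278)) (XT.lf (nat_lit 76) (nat_lit 3665370359) (nat_lit 0) (nat_lit 4618265428) (nat_lit 836) (nat_lit 10757265367) (nat_lit 295) (nat_lit 5) (nat_lit 294) (nat_lit 5) (nat_lit 305) (nat_lit 5) (nat_lit 374) (nat_lit 369) (nat_lit 277))) (XT.nd (nat_lit 78) (nat_lit 0) (nat_lit 0) (XT.lf (nat_lit 0) (nat_lit 9546325765) (nat_lit 760) (nat_lit 5520393935) (nat_lit 836) (nat_lit 4456457595) (nat_lit 295) (nat_lit 5) (nat_lit 305) (nat_lit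 5) (nat_lit 306) (nat_lit 5) (nat_lit 375) (nat_lit 369) (nat_lit 276)) (XT.lf (nat_lit 76) (nat_lit 4899869898) (nat_lit 0) (nat_lit 6112775026) (nat_lit 836) (nat_lit 9009897586) (nat_lit 296) (nat_lit 5) (nat_lit 295) (nat_lit 5) (nat_lit 306) (nat_lit 5) (nat_lit 376) (nat_lit 369) (nat_lit 275)))) (XT.nd (nat_lit 156) (nat_lit 684) (nat_lit 0) (XT.nd (nat_lit 78) (nat_lit 0) (nat_lit 0) (XT.lf (nat_lit 0) (nat_lit 12687401799) (nat_lit 760) (nat_lit 4571492460) (nat_lit 836) (nat_lit 3281225637) (nat_lit 296) (nat_lit 5) (nat_lit 306) (nat_lit 5) (nat_lit 307) (nat_lit 5) (nat_lit 377) (nat_lit 369) (nat_lit 274)) (XT.lf (nat_lit 76) (nat_lit 6609818970) (nat_lit 0) (nat_lit 8028770633) (nat_lit 836) (nat_lit 6435351894) (nat_lit 297) (nat_lit 5) (nat_lit 296) (nat_lit 5) (nat_lit 307) (nat_lit 5) (nat_lit 378) (nat_lit 369) (nat_lit 273))) (XT.nd (nat_lit 78) (nat_lit 760) (nat_lit 0) (XT.lf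 (nat_lit 0) (nat_lit 16781676241) (nat_lit 760) (nat_lit 3158082222) (nat_lit 76) (nat_lit 1689978743) (nat_lit 297) (nat_lit 5) (nat_lit 307) (nat_lit 5) (nat_lit 298) (nat_lit 5) (nat_lit 379) (nat_lit 369) (nat_lit 272)) (XT.lf (nat_lit 0) (nat_lit 8856360855) (nat_lit 760) (nat_lit 10435627137) (nat_lit 836) (nat_lit 2908331170) (nat_lit 287) (nat_lit 5) (nat_lit 297) (nat_lit 5) (nat_lit 298) (nat_lit 5) (nat_lit 380) (nat_lit 369) (nat_lit 271))))) (XT.nd (nat_lit 312) (nat_lit 684) (nat_lit 0) (XT.nd (nat_lit 156) (nat_lit 380) (nat_lit 0) (XT.nd (nat_lit 78) (nat_lit 532) (nat_lit 0) (XT.lf (nat_lit 0) (nat_lit 21572569612) (nat_lit 760) (nat_lit 399241776) (nat_lit 836) (nat_lit 825419025) (nat_lit 287) (nat_lit 5) (nat_lit 297) (nat_lit 5) (nat_lit 298) (nat_lit 5) (nat_lit 381) (nat_lit 369) (nat_lit 270)) (XT.lf (nat_lit 0) (nat_lit 1655577514) (nat_lit 532) (nat_lit 11725694224) (nat_lit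 76) (nat_lit 10024776551) (nat_lit 280) (nat_lit 5) (nat_lit 287) (nat_lit 5) (nat_lit 281) (nat_lit 5) (nat_lit 382) (nat_lit 369) (nat_lit 269))) (XT.nd (nat_lit 78) (nat_lit 0) (nat_lit 0) (XT.lf (nat_lit 0) (nat_lit 1239309081) (nat_lit 380) (nat_lit 3031680668) (nat_lit 456) (nat_lit 19771735470) (nat_lit 275) (nat_lit 5) (nat_lit 280) (nat_lit 5) (nat_lit 281) (nat_lit 5) (nat_lit 383) (nat_lit 369) (nat_lit 268)) (XT.lf (nat_lit 0) (nat_lit 7332757551) (nat_lit 456) (nat_lit 9576335575) (nat_lit 76) (nat_lit 7786363622) (nat_lit 275) (nat_lit 5) (nat_lit 281) (nat_lit 5) (nat_lit 276) (nat_lit 5) (nat_lit 384) (nat_lit 369) (nat_lit 267)))) (XT.nd (nat_lit 156) (nat_lit 304) (nat_lit 0) (XT.nd (nat_lit 78) (nat_lit 0) (nat_lit 0) (XT.lf (nat_lit 0) (nat_lit 4394387202) (nat_lit 380) (nat_lit 6263360484) (nat_lit 456) (nat_lit 14717570470) (nat_lit 270) (nat_lit 5) (nat_lit 275) (nat_lit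 5) (nat_lit 276) (nat_lit 5) (nat_lit 385) (nat_lit 369) (nat_lit 266)) (XT.lf (nat_lit 0) (nat_lit 14382629883) (nat_lit 456) (nat_lit 6773245856) (nat_lit 76) (nat_lit 4921614768) (nat_lit 270) (nat_lit 5) (nat_lit 276) (nat_lit 5) (nat_lit 271) (nat_lit 5) (nat_lit 386) (nat_lit 369) (nat_lit 265))) (XT.nd (nat_lit 78) (nat_lit 0) (nat_lit 0) (XT.lf (nat_lit 0) (nat_lit 8299291964) (nat_lit 304) (nat_lit 10219167370) (nat_lit 380) (nat_lit 8285076983) (nat_lit 266) (nat_lit 5) (nat_lit 270) (nat_lit 5) (nat_lit 271) (nat_lit 5) (nat_lit 387) (nat_lit 369) (nat_lit 264)) (XT.lf (nat_lit 0) (nat_lit 22990072499) (nat_lit 380) (nat_lit 3229857342) (nat_lit 76) (nat_lit 1339504966) (nat_lit 266) (nat_lit 5) (nat_lit 271) (nat_lit 5) (nat_lit 267) (nat_lit 5) (nat_lit 388) (nat_lit 369) (nat_lit 263)))))) (XT.nd (nat_lit 624) (nat_lit 1140) (nat_lit 0) (XT.nd (nat_lit 312) (nat_lit 608) (nat_lit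 0) (XT.nd (nat_lit 156) (nat_lit 304) (nat_lit 0) (XT.nd (nat_lit 78) (nat_lit 380) (nat_lit 0) (XT.lf (nat_lit 0) (nat_lit 13050125400) (nat_lit 304) (nat_lit 14999429784) (nat_lit 380) (nat_lit 285358594) (nat_lit 262) (nat_lit 5) (nat_lit 266) (nat_lit 5) (nat_lit 267) (nat_lit 5) (nat_lit 389) (nat_lit 369) (nat_lit 262)) (XT.lf (nat_lit 0) (nat_lit 1068975621) (nat_lit 304) (nat_lit 3074424774) (nat_lit 380) (nat_lit 24999207962) (nat_lit 257) (nat_lit 5) (nat_lit 261) (nat_lit 5) (nat_lit 262) (nat_lit 5) (nat_lit 390) (nat_lit 369) (nat_lit 261))) (XT.nd (nat_lit 78) (nat_lit 304) (nat_lit 0) (XT.lf (nat_lit 0) (nat_lit 9187879990) (nat_lit 380) (nat_lit 11371628342) (nat_lit 76) (nat_lit 9410751806) (nat_lit 257) (nat_lit 5) (nat_lit 262) (nat_lit 5) (nat_lit 258) (nat_lit 5) (nat_lit 391) (nat_lit 369) (nat_lit 260)) (XT.lf (nat_lit 0) (nat_lit 6308854259) (nat_lit 304) (nat_lit 8318230757)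 (nat_lit 380) (nat_lit 16205084418) (nat_lit 253) (nat_lit 5) (nat_lit 257) (nat_lit 5) (nat_lit 258) (nat_lit 5) (nat_lit 392) (nat_lit 369) (nat_lit 259)))) (XT.nd (nat_lit 156) (nat_lit 380) (nat_lit 0) (XT.nd (nat_lit 78) (nat_lit 228) (nat_lit 0) (XT.lf (nat_lit 0) (nat_lit 20598550913) (nat_lit 380) (nat_lit 6541645526) (nat_lit 76) (nat_lit 4583962727) (nat_lit 253) (nat_lit 5) (nat_lit 258) (nat_lit 5) (nat_lit 254) (nat_lit 5) (nat_lit 393) (nat_lit 369) (nat_lit 258)) (XT.lf (nat_lit 0) (nat_lit 12598058893) (nat_lit 228) (nat_lit 14597637783) (nat_lit 304) (nat_lit 5448696378) (nat_lit 250) (nat_lit 5) (nat_lit 253) (nat_lit 5) (nat_lit 254) (nat_lit 5) (nat_lit 394) (nat_lit 369) (nat_lit 257))) (XT.nd (nat_lit 78) (nat_lit 304) (nat_lit 0) (XT.lf (nat_lit 0) (nat_lit 602392209) (nat_lit 304) (nat_lit 701018399) (nat_lit 76) (nat_lit 32301492279) (nat_lit 249) (nat_lit 5) (nat_lit 253)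 (nat_lit 5) (nat_lit 250) (nat_lit 5) (nat_lit 395) (nat_lit 369) (nat_lit 256)) (XT.lf (nat_lit 0) (nat_lit 7286255436) (nat_lit 380) (nat_lit 14637801641) (nat_lit 76) (nat_lit 12659248385) (nat_lit 245) (nat_lit 5) (nat_lit 250) (nat_lit 5) (nat_lit 246) (nat_lit 5) (nat_lit 396) (nat_lit 369) (nat_lit 255))))) (XT.nd (nat_lit 312) (nat_lit 608) (nat_lit 0) (XT.nd (nat_lit 156) (nat_lit 304) (nat_lit 0) (XT.nd (nat_lit 78) (nat_lit 0) (nat_lit 0) (XT.lf (nat_lit 0) (nat_lit 6208083612) (nat_lit 228) (nat_lit 8221104886) (nat_lit 304) (nat_lit 21175195833) (nat_lit 242) (nat_lit 5) (nat_lit 245) (nat_lit 5) (nat_lit 246) (nat_lit 5) (nat_lit 397) (nat_lit 369) (nat_lit 254)) (XT.lf (nat_lit 0) (nat_lit 22272139134) (nat_lit 304) (nat_lit 8167830546) (nat_lit 76) (nat_lit 6219403919) (nat_lit 242) (nat_lit 5) (nat_lit 246) (nat_lit 5) (nat_lit 243) (nat_lit 5) (nat_lit 398) (nat_lit 369) (nat_lit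 253))) (XT.nd (nat_lit 78) (nat_lit 76) (nat_lit 0) (XT.lf (nat_lit 0) (nat_lit 14442085096) (nat_lit 228) (nat_lit 16420286492) (nat_lit 304) (nat_lit 6886984026) (nat_lit 239) (nat_lit 5) (nat_lit 242) (nat_lit 5) (nat_lit 243) (nat_lit 5) (nat_lit 399) (nat_lit 369) (nat_lit 252)) (XT.lf (nat_lit 0) (nat_lit 1092169944) (nat_lit 304) (nat_lit 446043110) (nat_lit 76) (nat_lit 37348076081) (nat_lit 238) (nat_lit 5) (nat_lit 242) (nat_lit 5) (nat_lit 239) (nat_lit 5) (nat_lit 400) (nat_lit 369) (nat_lit 251)))) (XT.nd (nat_lit 156) (nat_lit 152) (nat_lit 0) (XT.nd (nat_lit 78) (nat_lit 228) (nat_lit 0) (XT.lf (nat_lit 0) (nat_lit 9840004040) (nat_lit 304) (nat_lit 16070545100) (nat_lit 76) (nat_lit 14133816610) (nat_lit 235) (nat_lit 5) (nat_lit 239) (nat_lit 5) (nat_lit 236) (nat_lit 5) (nat_lit 401) (nat_lit 369) (nat_lit 250)) (XT.lf (nat_lit 0) (nat_lit 8613316084) (nat_lit 228) (nat_lit 10574540350)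 (nat_lit 304) (nat_lit 22064358433) (nat_lit 232) (nat_lit 5) (nat_lit 235) (nat_lit 5) (nat_lit 236) (nat_lit 5) (nat_lit 402) (nat_lit 369) (nat_lit 249))) (XT.nd (nat_lit 78) (nat_lit 152) (nat_lit 0) (XT.lf (nat_lit 0) (nat_lit 29361368083) (nat_lit 304) (nat_lit 7515613026) (nat_lit 76) (nat_lit 5625561999) (nat_lit 232) (nat_lit 5) (nat_lit 236) (nat_lit 5) (nat_lit 233) (nat_lit 5) (nat_lit 403) (nat_lit 369) (nat_lit 248)) (XT.lf (nat_lit 0) (nat_lit 19301298737) (nat_lit 152) (nat_lit 21212510137) (nat_lit 228) (nat_lit 3278066209) (nat_lit 230) (nat_lit 5) (nat_lit 232) (nat_lit 5) (nat_lit 233) (nat_lit 5) (nat_lit 404) (nat_lit 369) (nat_lit 247))))))))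
noncomputable def xc215 : XT := (XT.nd (nat_lit 1248) (nat_lit 1368) (nat_lit 0) (XT.nd (nat_lit 624) (nat_lit 836) (nat_lit 0) (XT.nd (nat_lit 312) (nat_lit 532) (nat_lit 0) (XT.nd (nat_lit 156) (nat_lit 152) (nat_lit 0) (XT.nd (nat_lit 78) (nat_lit 0) (nat_lit 0) (XT.lf (nat_lit 0) (nat_lit 2542468234) (nat_lit 228) (nat_lit 4473832370) (nat_lit 304) (nat_lit 38115615071) (nat_lit 226) (nat_lit 5) (nat_lit 229) (nat_lit 5) (nat_lit 230) (nat_lit 5) (nat_lit 405) (nat_lit 369) (nat_lit 246)) (XT.lf (nat_lit 0) (nat_lit 18336985737) (nat_lit 304) (nat_lit 15012935469) (nat_lit 76) (nat_lit 13155261928) (nat_lit 226) (nat_lit 5) (nat_lit 230) (nat_lit 5) (nat_lit 227) (nat_lit 5) (nat_lit 406) (nat_lit 369) (nat_lit 245))) (XT.nd (nat_lit 78) (nat_lit 0) (nat_lit 0) (XT.lf (nat_lit 0) (nat_lit 14320703889) (nat_lit 152) (nat_lit 16195786121) (nat_lit 228) (nat_lit 17415984711) (nat_lit 224) (nat_lit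 5) (nat_lit 226) (nat_lit 5) (nat_lit 227) (nat_lit 5) (nat_lit 407) (nat_lit 369) (nat_lit 244)) (XT.lf (nat_lit 0) (nat_lit 43587654041) (nat_lit 228) (nat_lit 3815462709) (nat_lit 76) (nat_lit 2013879911) (nat_lit 224) (nat_lit 5) (nat_lit 227) (nat_lit 5) (nat_lit 225) (nat_lit 5) (nat_lit 408) (nat_lit 369) (nat_lit 243)))) (XT.nd (nat_lit 156) (nat_lit 152) (nat_lit 0) (XT.nd (nat_lit 78) (nat_lit 152) (nat_lit 0) (XT.lf (nat_lit 0) (nat_lit 6845599894) (nat_lit 228) (nat_lit 22953115125) (nat_lit 76) (nat_lit 21136494044) (nat_lit 221) (nat_lit 5) (nat_lit 224) (nat_lit 5) (nat_lit 222) (nat_lit 5) (nat_lit 409) (nat_lit 369) (nat_lit 242)) (XT.lf (nat_lit 0) (nat_lit 9166179042) (nat_lit 152) (nat_lit 10997122297) (nat_lit 228) (nat_lit 32351006800) (nat_lit 219) (nat_lit 5) (nat_lit 221) (nat_lit 5) (nat_lit 222) (nat_lit 5) (nat_lit 410) (nat_lit 369) (nat_lit 241))) (XT.nd (nat_lit 78)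 (nat_lit 152) (nat_lit 0) (XT.lf (nat_lit 0) (nat_lit 34674684344) (nat_lit 228) (nat_lit 10614017056) (nat_lit 76) (nat_lit 8857270943) (nat_lit 219) (nat_lit 5) (nat_lit 222) (nat_lit 5) (nat_lit 220) (nat_lit 5) (nat_lit 411) (nat_lit 369) (nat_lit 240)) (XT.lf (nat_lit 0) (nat_lit 24349661297) (nat_lit 152) (nat_lit 26118779443) (nat_lit 228) (nat_lit 5362938807) (nat_lit 217) (nat_lit 5) (nat_lit 219) (nat_lit 5) (nat_lit 220) (nat_lit 5) (nat_lit 412) (nat_lit 369) (nat_lit 239))))) (XT.nd (nat_lit 312) (nat_lit 456) (nat_lit 0) (XT.nd (nat_lit 156) (nat_lit 152) (nat_lit 0) (XT.nd (nat_lit 78) (nat_lit 0) (nat_lit 0) (XT.lf (nat_lit 0) (nat_lit 3802946570) (nat_lit 152) (nat_lit 5583847603) (nat_lit 228) (nat_lit 48194962649) (nat_lit 214) (nat_lit 5) (nat_lit 216) (nat_lit 5) (nat_lit 217) (nat_lit 5) (nat_lit 413) (nat_lit 369) (nat_lit 238)) (XT.lf (nat_lit 0) (nat_lit 25481554748) (nat_lit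 228) (nat_lit 17800548734) (nat_lit 76) (nat_lit 16093765086) (nat_lit 214) (nat_lit 5) (nat_lit 217) (nat_lit 5) (nat_lit 215) (nat_lit 5) (nat_lit 414) (nat_lit 369) (nat_lit 237))) (XT.nd (nat_lit 78) (nat_lit 0) (nat_lit 0) (XT.lf (nat_lit 0) (nat_lit 20536422641) (nat_lit 152) (nat_lit 22253384790) (nat_lit 228) (nat_lit 18449440766) (nat_lit 212) (nat_lit 5) (nat_lit 214) (nat_lit 5) (nat_lit 215) (nat_lit 5) (nat_lit 415) (nat_lit 369) (nat_lit 236)) (XT.lf (nat_lit 0) (nat_lit 61263787315) (nat_lit 228) (nat_lit 1780714006) (nat_lit 76) (nat_lit 136279758) (nat_lit 212) (nat_lit 5) (nat_lit 215) (nat_lit 5) (nat_lit 213) (nat_lit 4) (nat_lit 416) (nat_lit 369) (nat_lit 235)))) (XT.nd (nat_lit 156) (nat_lit 152) (nat_lit 0) (XT.nd (nat_lit 78) (nat_lit 152) (nat_lit 0) (XT.lf (nat_lit 0) (nat_lit 15950052118) (nat_lit 152) (nat_lit 25430199817) (nat_lit 76) (nat_lit 23776972997) (nat_lit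 210) (nat_lit 5) (nat_lit 212) (nat_lit 5) (nat_lit 211) (nat_lit 5) (nat_lit 417) (nat_lit 369) (nat_lit 234)) (XT.lf (nat_lit 0) (nat_lit 16635800310) (nat_lit 152) (nat_lit 18297401008) (nat_lit 228) (nat_lit 32283359623) (nat_lit 208) (nat_lit 5) (nat_lit 210) (nat_lit 5) (nat_lit 211) (nat_lit 5) (nat_lit 418) (nat_lit 369) (nat_lit 233))) (XT.nd (nat_lit 78) (nat_lit 152) (nat_lit 0) (XT.lf (nat_lit 0) (nat_lit 55392792262) (nat_lit 228) (nat_lit 7774889743) (nat_lit 76) (nat_lit 6184817533) (nat_lit 208) (nat_lit 5) (nat_lit 211) (nat_lit 5) (nat_lit 209) (nat_lit 4) (nat_lit 419) (nat_lit 369) (nat_lit 232)) (XT.lf (nat_lit 0) (nat_lit 6017282984) (nat_lit 152) (nat_lit 33562914232) (nat_lit 76) (nat_lit 31965608351) (nat_lit 206) (nat_lit 5) (nat_lit 208) (nat_lit 5) (nat_lit 207) (nat_lit 5) (nat_lit 420) (nat_lit 369) (nat_lit 231)))))) (XT.nd (nat_lit 624) (nat_lit 608) (nat_lit 0)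 (XT.nd (nat_lit 312) (nat_lit 304) (nat_lit 0) (XT.nd (nat_lit 156) (nat_lit 304) (nat_lit 0) (XT.nd (nat_lit 78) (nat_lit 0) (nat_lit 0) (XT.lf (nat_lit 0) (nat_lit 12623847216) (nat_lit 152) (nat_lit 14228042307) (nat_lit 228) (nat_lit 46969049767) (nat_lit 204) (nat_lit 5) (nat_lit 206) (nat_lit 5) (nat_lit 207) (nat_lit 5) (nat_lit 421) (nat_lit 369) (nat_lit 230)) (XT.lf (nat_lit 0) (nat_lit 49496420457) (nat_lit 228) (nat_lit 14104526552) (nat_lit 76) (nat_lit 12570472987) (nat_lit 204) (nat_lit 5) (nat_lit 207) (nat_lit 5) (nat_lit 205) (nat_lit 4) (nat_lit 422) (nat_lit 369) (nat_lit 229))) (XT.nd (nat_lit 78) (nat_lit 228) (nat_lit 0) (XT.lf (nat_lit 0) (nat_lit 36264880634) (nat_lit 76) (nat_lit 37804885358) (nat_lit 152) (nat_lit 4529829344) (nat_lit 203) (nat_lit 5) (nat_lit 204) (nat_lit 5) (nat_lit 205) (nat_lit 4) (nat_lit 423) (nat_lit 369) (nat_lit 228)) (XT.lf (nat_lit 0) (nat_lit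 8474971104) (nat_lit 152) (nat_lit 10020643598) (nat_lit 228) (nat_lit 62620336354) (nat_lit 200) (nat_lit 5) (nat_lit 202) (nat_lit 5) (nat_lit 203) (nat_lit 5) (nat_lit 424) (nat_lit 369) (nat_lit 227)))) (XT.nd (nat_lit 156) (nat_lit 228) (nat_lit 0) (XT.nd (nat_lit 78) (nat_lit 76) (nat_lit 0) (XT.lf (nat_lit 0) (nat_lit 43545012601) (nat_lit 228) (nat_lit 20817681592) (nat_lit 76) (nat_lit 19340471715) (nat_lit 200) (nat_lit 5) (nat_lit 203) (nat_lit 5) (nat_lit 201) (nat_lit 4) (nat_lit 425) (nat_lit 369) (nat_lit 226)) (XT.lf (nat_lit 0) (nat_lit 34532753658) (nat_lit 76) (nat_lit 36014859569) (nat_lit 152) (nat_lit 15837091634) (nat_lit 199) (nat_lit 5) (nat_lit 200) (nat_lit 5) (nat_lit 201) (nat_lit 4) (nat_lit 426) (nat_lit 369) (nat_lit 225))) (XT.nd (nat_lit 78) (nat_lit 0) (nat_lit 0) (XT.lf (nat_lit 0) (nat_lit 4161710436) (nat_lit 152) (nat_lit 5648479235) (nat_lit 228) (nat_lit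 79361527470) (nat_lit 196) (nat_lit 5) (nat_lit 198) (nat_lit 5) (nat_lit 199) (nat_lit 5) (nat_lit 427) (nat_lit 369) (nat_lit 224)) (XT.lf (nat_lit 0) (nat_lit 37507088752) (nat_lit 228) (nat_lit 27966617765) (nat_lit 76) (nat_lit 26546418102) (nat_lit 196) (nat_lit 5) (nat_lit 199) (nat_lit 5) (nat_lit 197) (nat_lit 4) (nat_lit 428) (nat_lit 369) (nat_lit 223))))) (XT.nd (nat_lit 312) (nat_lit 228) (nat_lit 0) (XT.nd (nat_lit 156) (nat_lit 228) (nat_lit 0) (XT.nd (nat_lit 78) (nat_lit 76) (nat_lit 0) (XT.lf (nat_lit 0) (nat_lit 32884035814) (nat_lit 76) (nat_lit 34308263454) (nat_lit 152) (nat_lit 27788479880) (nat_lit 195) (nat_lit 5) (nat_lit 196) (nat_lit 5) (nat_lit 197) (nat_lit 4) (nat_lit 429) (nat_lit 369) (nat_lit 222)) (XT.lf (nat_lit 0) (nat_lit 742444030) (nat_lit 152) (nat_lit 334448673) (nat_lit 76) (nat_lit 96988418352) (nat_lit 194) (nat_lit 5) (nat_lit 196) (nat_lit 5) (nat_lit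 195) (nat_lit 5) (nat_lit 430) (nat_lit 369) (nat_lit 221))) (XT.nd (nat_lit 78) (nat_lit 76) (nat_lit 0) (XT.lf (nat_lit 0) (nat_lit 31349115887) (nat_lit 228) (nat_lit 35608281337) (nat_lit 76) (nat_lit 34244741045) (nat_lit 192) (nat_lit 5) (nat_lit 195) (nat_lit 5) (nat_lit 193) (nat_lit 4) (nat_lit 431) (nat_lit 369) (nat_lit 220)) (XT.lf (nat_lit 0) (nat_lit 31314590900) (nat_lit 76) (nat_lit 32681445019) (nat_lit 152) (nat_lit 40474275197) (nat_lit 191) (nat_lit 5) (nat_lit 192) (nat_lit 5) (nat_lit 193) (nat_lit 4) (nat_lit 432) (nat_lit 369) (nat_lit 219)))) (XT.nd (nat_lit 156) (nat_lit 76) (nat_lit 0) (XT.nd (nat_lit 78) (nat_lit 152) (nat_lit 0) (XT.lf (nat_lit 0) (nat_lit 98937488826) (nat_lit 152) (nat_lit 5118033001) (nat_lit 0) (nat_lit 3813261434) (nat_lit 191) (nat_lit 5) (nat_lit 193) (nat_lit 4) (nat_lit 191) (nat_lit 4) (nat_lit 433) (nat_lit 369) (nat_lit 218)) (XT.lf (nat_lit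 0) (nat_lit 25035251642) (nat_lit 152) (nat_lit 43804824134) (nat_lit 76) (nat_lit 42497189957) (nat_lit 189) (nat_lit 5) (nat_lit 191) (nat_lit 5) (nat_lit 190) (nat_lit 4) (nat_lit 434) (nat_lit 369) (nat_lit 217))) (XT.nd (nat_lit 78) (nat_lit 0) (nat_lit 0) (XT.lf (nat_lit 0) (nat_lit 29820508815) (nat_lit 76) (nat_lit 31130869287) (nat_lit 152) (nat_lit 53992903338) (nat_lit 188) (nat_lit 5) (nat_lit 189) (nat_lit 5) (nat_lit 190) (nat_lit 4) (nat_lit 435) (nat_lit 369) (nat_lit 216)) (XT.lf (nat_lit 0) (nat_lit 99547204603) (nat_lit 152) (nat_lit 10195341913) (nat_lit 0) (nat_lit 8944906730) (nat_lit 188) (nat_lit 5) (nat_lit 190) (nat_lit 4) (nat_lit 188) (nat_lit 4) (nat_lit 436) (nat_lit 369) (nat_lit 215)))))))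
noncomputable def xc216 : XT := (XT.nd (nat_lit 1248) (nat_lit 1292) (nat_lit 0) (XT.nd (nat_lit 624) (nat_lit 532) (nat_lit 0) (XT.nd (nat_lit 312) (nat_lit 304) (nat_lit 0) (XT.nd (nat_lit 156) (nat_lit 152) (nat_lit 0) (XT.nd (nat_lit 78) (nat_lit 76) (nat_lit 0) (XT.lf (nat_lit 0) (nat_lit 18527062187) (nat_lit 152) (nat_lit 52624175464) (nat_lit 76) (nat_lit 51371385205) (nat_lit 186) (nat_lit 5) (nat_lit 188) (nat_lit 5) (nat_lit 187) (nat_lit 4) (nat_lit 437) (nat_lit 369) (nat_lit 214)) (XT.lf (nat_lit 0) (nat_lit 28398089626) (nat_lit 76) (nat_lit 29653122814) (nat_lit 152) (nat_lit 68451814191) (nat_lit 185) (nat_lit 5) (nat_lit 186) (nat_lit 5) (nat_lit 187) (nat_lit 4) (nat_lit 438) (nat_lit 369) (nat_lit 213))) (XT.nd (nat_lit 78) (nat_lit 152) (nat_lit 0) (XT.lf (nat_lit 0) (nat_lit 100672576191) (nat_lit 152) (nat_lit 15575564105) (nat_lit 0) (nat_lit 14378260000) (nat_lit 185) (nat_lit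 5) (nat_lit 187) (nat_lit 4) (nat_lit 185) (nat_lit 4) (nat_lit 439) (nat_lit 369) (nat_lit 212)) (XT.lf (nat_lit 0) (nat_lit 11783211878) (nat_lit 152) (nat_lit 62140669366) (nat_lit 76) (nat_lit 60941427734) (nat_lit 183) (nat_lit 5) (nat_lit 185) (nat_lit 5) (nat_lit 184) (nat_lit 4) (nat_lit 440) (nat_lit 369) (nat_lit 211)))) (XT.nd (nat_lit 156) (nat_lit 228) (nat_lit 0) (XT.nd (nat_lit 78) (nat_lit 0) (nat_lit 0) (XT.lf (nat_lit 0) (nat_lit 27043829304) (nat_lit 76) (nat_lit 28244916200) (nat_lit 152) (nat_lit 83968450737) (nat_lit 182) (nat_lit 5) (nat_lit 183) (nat_lit 5) (nat_lit 184) (nat_lit 4) (nat_lit 441) (nat_lit 369) (nat_lit 210)) (XT.lf (nat_lit 0) (nat_lit 102345006058) (nat_lit 152) (nat_lit 21300232644) (nat_lit 0) (nat_lit 20154666654) (nat_lit 182) (nat_lit 5) (nat_lit 184) (nat_lit 4) (nat_lit 182) (nat_lit 4) (nat_lit 442) (nat_lit 369) (nat_lit 209))) (XT.nd (nat_lit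 78) (nat_lit 76) (nat_lit 0) (XT.lf (nat_lit 0) (nat_lit 4759122017) (nat_lit 152) (nat_lit 72435733277) (nat_lit 76) (nat_lit 71288573279) (nat_lit 180) (nat_lit 5) (nat_lit 182) (nat_lit 5) (nat_lit 181) (nat_lit 4) (nat_lit 443) (nat_lit 369) (nat_lit 208)) (XT.lf (nat_lit 0) (nat_lit 25754406906) (nat_lit 76) (nat_lit 26903085006) (nat_lit 152) (nat_lit 100671316415) (nat_lit 179) (nat_lit 5) (nat_lit 180) (nat_lit 5) (nat_lit 181) (nat_lit 4) (nat_lit 444) (nat_lit 369) (nat_lit 207))))) (XT.nd (nat_lit 312) (nat_lit 304) (nat_lit 0) (XT.nd (nat_lit 156) (nat_lit 152) (nat_lit 0) (XT.nd (nat_lit 78) (nat_lit 76) (nat_lit 0) (XT.lf (nat_lit 0) (nat_lit 104600114483) (nat_lit 152) (nat_lit 27414615992) (nat_lit 0) (nat_lit 26319259885) (nat_lit 179) (nat_lit 5) (nat_lit 181) (nat_lit 4) (nat_lit 179) (nat_lit 4) (nat_lit 445) (nat_lit 369) (nat_lit 206)) (XT.lf (nat_lit 0) (nat_lit 79864652425)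 (nat_lit 76) (nat_lit 80961319927) (nat_lit 76) (nat_lit 2679153935) (nat_lit 178) (nat_lit 4) (nat_lit 179) (nat_lit 5) (nat_lit 179) (nat_lit 4) (nat_lit 446) (nat_lit 369) (nat_lit 205))) (XT.nd (nat_lit 78) (nat_lit 0) (nat_lit 0) (XT.lf (nat_lit 0) (nat_lit 24526672973) (nat_lit 76) (nat_lit 25624589422) (nat_lit 152) (nat_lit 118701150832) (nat_lit 176) (nat_lit 5) (nat_lit 177) (nat_lit 5) (nat_lit 178) (nat_lit 4) (nat_lit 447) (nat_lit 369) (nat_lit 204)) (XT.lf (nat_lit 0) (nat_lit 107478128287) (nat_lit 152) (nat_lit 33968129725) (nat_lit 0) (nat_lit 32921362181) (nat_lit 176) (nat_lit 5) (nat_lit 178) (nat_lit 4) (nat_lit 176) (nat_lit 4) (nat_lit 448) (nat_lit 369) (nat_lit 203)))) (XT.nd (nat_lit 156) (nat_lit 76) (nat_lit 0) (XT.nd (nat_lit 78) (nat_lit 152) (nat_lit 0) (XT.lf (nat_lit 0) (nat_lit 84178036835) (nat_lit 76) (nat_lit 85225883267) (nat_lit 76) (nat_lit 10668038273)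 (nat_lit 175) (nat_lit 4) (nat_lit 176) (nat_lit 5) (nat_lit 176) (nat_lit 4) (nat_lit 449) (nat_lit 369) (nat_lit 202)) (XT.lf (nat_lit 0) (nat_lit 23357639006) (nat_lit 76) (nat_lit 24406512950) (nat_lit 152) (nat_lit 138212224773) (nat_lit 173) (nat_lit 5) (nat_lit 174) (nat_lit 5) (nat_lit 175) (nat_lit 4) (nat_lit 450) (nat_lit 369) (nat_lit 201))) (XT.nd (nat_lit 78) (nat_lit 76) (nat_lit 0) (XT.lf (nat_lit 0) (nat_lit 111024310793) (nat_lit 152) (nat_lit 41014788353) (nat_lit 0) (nat_lit 40014928804) (nat_lit 173) (nat_lit 5) (nat_lit 175) (nat_lit 4) (nat_lit 173) (nat_lit 4) (nat_lit 451) (nat_lit 369) (nat_lit 200)) (XT.lf (nat_lit 0) (nat_lit 89118281787) (nat_lit 76) (nat_lit 90119028939) (nat_lit 76) (nat_lit 19108759347) (nat_lit 172) (nat_lit 4) (nat_lit 173) (nat_lit 5) (nat_lit 173) (nat_lit 4) (nat_lit 452) (nat_lit 369) (nat_lit 199)))))) (XT.nd (nat_lit 624) (nat_lit 684) (nat_lit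 0) (XT.nd (nat_lit 312) (nat_lit 228) (nat_lit 0) (XT.nd (nat_lit 156) (nat_lit 228) (nat_lit 0) (XT.nd (nat_lit 78) (nat_lit 0) (nat_lit 0) (XT.lf (nat_lit 0) (nat_lit 22244467847) (nat_lit 76) (nat_lit 23246060335) (nat_lit 152) (nat_lit 159373766681) (nat_lit 170) (nat_lit 5) (nat_lit 171) (nat_lit 5) (nat_lit 172) (nat_lit 4) (nat_lit 453) (nat_lit 369) (nat_lit 198)) (XT.lf (nat_lit 0) (nat_lit 115289437268) (nat_lit 152) (nat_lit 48613701610) (nat_lit 0) (nat_lit 47659037257) (nat_lit 170) (nat_lit 5) (nat_lit 172) (nat_lit 4) (nat_lit 170) (nat_lit 4) (nat_lit 454) (nat_lit 369) (nat_lit 197))) (XT.nd (nat_lit 78) (nat_lit 152) (nat_lit 0) (XT.lf (nat_lit 0) (nat_lit 94740786259) (nat_lit 76) (nat_lit 95696180845) (nat_lit 76) (nat_lit 28065050602) (nat_lit 169) (nat_lit 4) (nat_lit 170) (nat_lit 5) (nat_lit 170) (nat_lit 4) (nat_lit 455) (nat_lit 369) (nat_lit 196)) (XT.lf (nat_lit 0) (nat_lit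 21184464873) (nat_lit 76) (nat_lit 22140554920) (nat_lit 152) (nat_lit 182371534005) (nat_lit 167) (nat_lit 5) (nat_lit 168) (nat_lit 5) (nat_lit 169) (nat_lit 4) (nat_lit 456) (nat_lit 369) (nat_lit 195)))) (XT.nd (nat_lit 156) (nat_lit 152) (nat_lit 0) (XT.nd (nat_lit 78) (nat_lit 76) (nat_lit 0) (XT.lf (nat_lit 0) (nat_lit 120330320576) (nat_lit 152) (nat_lit 56829619950) (nat_lit 0) (nat_lit 55918427198) (nat_lit 167) (nat_lit 5) (nat_lit 169) (nat_lit 4) (nat_lit 167) (nat_lit 4) (nat_lit 457) (nat_lit 369) (nat_lit 194)) (XT.lf (nat_lit 0) (nat_lit 101107059387) (nat_lit 76) (nat_lit 102018852905) (nat_lit 76) (nat_lit 37606358761) (nat_lit 166) (nat_lit 4) (nat_lit 167) (nat_lit 5) (nat_lit 167) (nat_lit 4) (nat_lit 458) (nat_lit 369) (nat_lit 193))) (XT.nd (nat_lit 78) (nat_lit 0) (nat_lit 0) (XT.lf (nat_lit 0) (nat_lit 20175069892) (nat_lit 76) (nat_lit 21087435567) (nat_lit 152) (nat_lit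 207409544247) (nat_lit 164) (nat_lit 5) (nat_lit 165) (nat_lit 5) (nat_lit 166) (nat_lit 4) (nat_lit 459) (nat_lit 369) (nat_lit 192)) (XT.lf (nat_lit 0) (nat_lit 126210392187) (nat_lit 152) (nat_lit 65733534448) (nat_lit 0) (nat_lit 64864095795) (nat_lit 164) (nat_lit 5) (nat_lit 166) (nat_lit 4) (nat_lit 164) (nat_lit 4) (nat_lit 460) (nat_lit 369) (nat_lit 191))))) (XT.nd (nat_lit 312) (nat_lit 380) (nat_lit 0) (XT.nd (nat_lit 156) (nat_lit 76) (nat_lit 0) (XT.nd (nat_lit 78) (nat_lit 152) (nat_lit 0) (XT.lf (nat_lit 0) (nat_lit 108285324401) (nat_lit 76) (nat_lit 109155257304) (nat_lit 76) (nat_lit 47808466662) (nat_lit 163) (nat_lit 4) (nat_lit 164) (nat_lit 5) (nat_lit 164) (nat_lit 4) (nat_lit 461) (nat_lit 369) (nat_lit 190)) (XT.lf (nat_lit 0) (nat_lit 19213849657) (nat_lit 76) (nat_lit 20084253276) (nat_lit 152) (nat_lit 234711982049) (nat_lit 161) (nat_lit 5) (nat_lit 162) (nat_lit 5)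 (nat_lit 163) (nat_lit 4) (nat_lit 462) (nat_lit 369) (nat_lit 189))) (XT.nd (nat_lit 78) (nat_lit 76) (nat_lit 0) (XT.lf (nat_lit 0) (nat_lit 133000344207) (nat_lit 152) (nat_lit 75403336837) (nat_lit 0) (nat_lit 74573954057) (nat_lit 161) (nat_lit 5) (nat_lit 163) (nat_lit 4) (nat_lit 161) (nat_lit 4) (nat_lit 463) (nat_lit 369) (nat_lit 188)) (XT.lf (nat_lit 0) (nat_lit 116351185840) (nat_lit 76) (nat_lit 117180975241) (nat_lit 76) (nat_lit 58754178470) (nat_lit 160) (nat_lit 4) (nat_lit 161) (nat_lit 5) (nat_lit 161) (nat_lit 4) (nat_lit 464) (nat_lit 369) (nat_lit 187)))) (XT.nd (nat_lit 156) (nat_lit 228) (nat_lit 0) (XT.nd (nat_lit 78) (nat_lit 0) (nat_lit 0) (XT.lf (nat_lit 0) (nat_lit 18298490928) (nat_lit 76) (nat_lit 19128667587) (nat_lit 152) (nat_lit 264525300380) (nat_lit 158) (nat_lit 5) (nat_lit 159) (nat_lit 5) (nat_lit 160) (nat_lit 4) (nat_lit 465) (nat_lit 369) (nat_lit 186))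 (XT.lf (nat_lit 0) (nat_lit 140778838701) (nat_lit 152) (nat_lit 85924545967) (nat_lit 0) (nat_lit 85133550275) (nat_lit 158) (nat_lit 5) (nat_lit 160) (nat_lit 4) (nat_lit 158) (nat_lit 4) (nat_lit 466) (nat_lit 369) (nat_lit 185))) (XT.nd (nat_lit 78) (nat_lit 152) (nat_lit 0) (XT.lf (nat_lit 0) (nat_lit 125388366433) (nat_lit 76) (nat_lit 126179696653) (nat_lit 76) (nat_lit 70534073699) (nat_lit 157) (nat_lit 4) (nat_lit 158) (nat_lit 5) (nat_lit 158) (nat_lit 4) (nat_lit 467) (nat_lit 369) (nat_lit 184)) (XT.nd (nat_lit 78) (nat_lit 0) (nat_lit 0) (XT.lf (nat_lit 0) (nat_lit 17426794023) (nat_lit 76) (nat_lit 18218442842) (nat_lit 152) (nat_lit 297120535721) (nat_lit 155) (nat_lit 5) (nat_lit 156) (nat_lit 5) (nat_lit 157) (nat_lit 4) (nat_lit 468) (nat_lit 369) (nat_lit 183)) (XT.lf (nat_lit 0) (nat_lit 149633291144) (nat_lit 152) (nat_lit 97391107588) (nat_lit 0) (nat_lit 96636867354) (nat_lit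 155) (nat_lit 5) (nat_lit 157) (nat_lit 4) (nat_lit 155) (nat_lit 4) (nat_lit 469) (nat_lit 369) (nat_lit 182))))))))
noncomputable def xc217 : XT := (XT.nd (nat_lit 46176) (nat_lit 0) (nat_lit 6460) (XT.nd (nat_lit 1248) (nat_lit 380) (nat_lit 0) (XT.nd (nat_lit 624) (nat_lit 532) (nat_lit 0) (XT.nd (nat_lit 312) (nat_lit 380) (nat_lit 0) (XT.nd (nat_lit 156) (nat_lit 76) (nat_lit 0) (XT.nd (nat_lit 78) (nat_lit 152) (nat_lit 0) (XT.lf (nat_lit 0) (nat_lit 135489520645) (nat_lit 76) (nat_lit 136244036096) (nat_lit 76) (nat_lit 83247337089) (nat_lit 154) (nat_lit 4) (nat_lit 155) (nat_lit 5) (nat_lit 155) (nat_lit 4) (nat_lit 470) (nat_lit 369) (nat_lit 181)) (XT.lf (nat_lit 0) (nat_lit 16596666811) (nat_lit 76) (nat_lit 17351444374) (nat_lit 152) (nat_lit 332795859201) (nat_lit 152) (nat_lit 5) (nat_lit 153) (nat_lit 5) (nat_lit 154) (nat_lit 4) (nat_lit 471) (nat_lit 369) (nat_lit 180))) (XT.nd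 (nat_lit 78) (nat_lit 76) (nat_lit 0) (XT.lf (nat_lit 0) (nat_lit 159660735605) (nat_lit 152) (nat_lit 109906275076) (nat_lit 0) (nat_lit 109187201559) (nat_lit 152) (nat_lit 5) (nat_lit 154) (nat_lit 4) (nat_lit 152) (nat_lit 4) (nat_lit 472) (nat_lit 369) (nat_lit 179)) (XT.lf (nat_lit 0) (nat_lit 146757132691) (nat_lit 76) (nat_lit 147476432630) (nat_lit 76) (nat_lit 97002672161) (nat_lit 151) (nat_lit 4) (nat_lit 152) (nat_lit 5) (nat_lit 152) (nat_lit 4) (nat_lit 473) (nat_lit 369) (nat_lit 178)))) (XT.nd (nat_lit 156) (nat_lit 228) (nat_lit 0) (XT.nd (nat_lit 78) (nat_lit 0) (nat_lit 0) (XT.lf (nat_lit 0) (nat_lit 15806119087) (nat_lit 76) (nat_lit 16525634666) (nat_lit 152) (nat_lit 371879387906) (nat_lit 149) (nat_lit 5) (nat_lit 150) (nat_lit 5) (nat_lit 151) (nat_lit 4) (nat_lit 474) (nat_lit 369) (nat_lit 177)) (XT.lf (nat_lit 0) (nat_lit 170968779982) (nat_lit 152) (nat_lit 123583579478)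 (nat_lit 0) (nat_lit 122898130953) (nat_lit 149) (nat_lit 5) (nat_lit 151) (nat_lit 4) (nat_lit 149) (nat_lit 4) (nat_lit 475) (nat_lit 369) (nat_lit 176))) (XT.nd (nat_lit 78) (nat_lit 152) (nat_lit 0) (XT.lf (nat_lit 0) (nat_lit 159304507562) (nat_lit 76) (nat_lit 159990142364) (nat_lit 76) (nat_lit 111919307058) (nat_lit 148) (nat_lit 4) (nat_lit 149) (nat_lit 5) (nat_lit 149) (nat_lit 4) (nat_lit 476) (nat_lit 369) (nat_lit 175)) (XT.lf (nat_lit 0) (nat_lit 15053257317) (nat_lit 76) (nat_lit 15739069527) (nat_lit 152) (nat_lit 414732283055) (nat_lit 146) (nat_lit 5) (nat_lit 147) (nat_lit 5) (nat_lit 148) (nat_lit 4) (nat_lit 477) (nat_lit 369) (nat_lit 174))))) (XT.nd (nat_lit 312) (nat_lit 304) (nat_lit 0) (XT.nd (nat_lit 156) (nat_lit 152) (nat_lit 0) (XT.nd (nat_lit 78) (nat_lit 76) (nat_lit 0) (XT.lf (nat_lit 0) (nat_lit 183676660486) (nat_lit 152) (nat_lit 138547898101) (nat_lit 0) (nat_lit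 137894582701) (nat_lit 146) (nat_lit 5) (nat_lit 148) (nat_lit 4) (nat_lit 146) (nat_lit 4) (nat_lit 478) (nat_lit 369) (nat_lit 173)) (XT.lf (nat_lit 0) (nat_lit 173256864545) (nat_lit 76) (nat_lit 173910333196) (nat_lit 76) (nat_lit 128128102160) (nat_lit 145) (nat_lit 4) (nat_lit 146) (nat_lit 5) (nat_lit 146) (nat_lit 4) (nat_lit 479) (nat_lit 369) (nat_lit 172))) (XT.nd (nat_lit 78) (nat_lit 0) (nat_lit 0) (XT.lf (nat_lit 0) (nat_lit 14336279693) (nat_lit 76) (nat_lit 14989894297) (nat_lit 152) (nat_lit 461752164488) (nat_lit 143) (nat_lit 5) (nat_lit 144) (nat_lit 5) (nat_lit 145) (nat_lit 4) (nat_lit 480) (nat_lit 369) (nat_lit 171)) (XT.lf (nat_lit 0) (nat_lit 197916405512) (nat_lit 152) (nat_lit 154936631812) (nat_lit 0) (nat_lit 154314009328) (nat_lit 143) (nat_lit 5) (nat_lit 145) (nat_lit 4) (nat_lit 143) (nat_lit 4) (nat_lit 481) (nat_lit 369) (nat_lit 170)))) (XT.nd (nat_lit 156)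 (nat_lit 76) (nat_lit 0) (XT.nd (nat_lit 78) (nat_lit 152) (nat_lit 0) (XT.lf (nat_lit 0) (nat_lit 188752543669) (nat_lit 76) (nat_lit 189375292232) (nat_lit 76) (nat_lit 145772769968) (nat_lit 142) (nat_lit 4) (nat_lit 143) (nat_lit 5) (nat_lit 143) (nat_lit 4) (nat_lit 482) (nat_lit 369) (nat_lit 169)) (XT.lf (nat_lit 0) (nat_lit 13653471492) (nat_lit 76) (nat_lit 14276340132) (nat_lit 152) (nat_lit 513376873925) (nat_lit 140) (nat_lit 5) (nat_lit 141) (nat_lit 5) (nat_lit 142) (nat_lit 4) (nat_lit 483) (nat_lit 369) (nat_lit 168))) (XT.nd (nat_lit 78) (nat_lit 76) (nat_lit 0) (XT.lf (nat_lit 0) (nat_lit 213834120054) (nat_lit 152) (nat_lit 172901002245) (nat_lit 0) (nat_lit 172307685103) (nat_lit 140) (nat_lit 5) (nat_lit 142) (nat_lit 4) (nat_lit 140) (nat_lit 4) (nat_lit 484) (nat_lit 369) (nat_lit 167)) (XT.lf (nat_lit 0) (nat_lit 205944336594) (nat_lit 76) (nat_lit 206537757462) (nat_lit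 76) (nat_lit 165011218784) (nat_lit 139) (nat_lit 4) (nat_lit 140) (nat_lit 5) (nat_lit 140) (nat_lit 4) (nat_lit 485) (nat_lit 369) (nat_lit 166)))))) (XT.nd (nat_lit 44304) (nat_lit 0) (nat_lit 12084) (XT.nd (nat_lit 312) (nat_lit 0) (nat_lit 0) (XT.nd (nat_lit 156) (nat_lit 228) (nat_lit 0) (XT.nd (nat_lit 78) (nat_lit 0) (nat_lit 0) (XT.lf (nat_lit 0) (nat_lit 13003200700) (nat_lit 76) (nat_lit 13596720355) (nat_lit 152) (nat_lit 570088622784) (nat_lit 137) (nat_lit 5) (nat_lit 138) (nat_lit 5) (nat_lit 139) (nat_lit 4) (nat_lit 486) (nat_lit 369) (nat_lit 165)) (XT.lf (nat_lit 0) (nat_lit 231591402984) (nat_lit 152) (nat_lit 192607481260) (nat_lit 0) (nat_lit 192042134843) (nat_lit 137) (nat_lit 5) (nat_lit 139) (nat_lit 4) (nat_lit 137) (nat_lit 4) (nat_lit 487) (nat_lit 369) (nat_lit 164))) (XT.nd (nat_lit 78) (nat_lit 152) (nat_lit 0) (XT.lf (nat_lit 0) (nat_lit 225000954655) (nat_lit 76)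 (nat_lit 225566386408) (nat_lit 76) (nat_lit 186017032931) (nat_lit 136) (nat_lit 4) (nat_lit 137) (nat_lit 5) (nat_lit 137) (nat_lit 4) (nat_lit 488) (nat_lit 369) (nat_lit 163)) (XT.lf (nat_lit 0) (nat_lit 12383913885) (nat_lit 76) (nat_lit 12949426911) (nat_lit 152) (nat_lit 632418564020) (nat_lit 134) (nat_lit 5) (nat_lit 135) (nat_lit 5) (nat_lit 136) (nat_lit 4) (nat_lit 489) (nat_lit 369) (nat_lit 162)))) (XT.nd (nat_lit 43836) (nat_lit 0) (nat_lit 12008) (XT.nd (nat_lit 43758) (nat_lit 0) (nat_lit 12008) (XT.lf (nat_lit 0) (nat_lit 251366910756) (nat_lit 152) (nat_lit 214239366257) (nat_lit 0) (nat_lit 213700708707) (nat_lit 134) (nat_lit 5) (nat_lit 136) (nat_lit 4) (nat_lit 134) (nat_lit 4) (nat_lit 490) (nat_lit 369) (nat_lit 161)) (XT.lf (nat_lit 0) (nat_lit 2680092139) (nat_lit 836) (nat_lit 3080058456) (nat_lit 836) (nat_lit 3080058456) (nat_lit 292) (nat_lit 3) (nat_lit 303) (nat_lit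 3) (nat_lit 303) (nat_lit 5) (nat_lit 370) (nat_lit 370) (nat_lit 280))) (XT.nd (nat_lit 78) (nat_lit 0) (nat_lit 76) (XT.lf (nat_lit 76) (nat_lit 2768708089) (nat_lit 0) (nat_lit 2978322133) (nat_lit 836) (nat_lit 12362756269) (nat_lit 293) (nat_lit 5) (nat_lit 292) (nat_lit 3) (nat_lit 303) (nat_lit 5) (nat_lit 371) (nat_lit 370) (nat_lit 279)) (XT.lf (nat_lit 0) (nat_lit 6339351860) (nat_lit 760) (nat_lit 6300861653) (nat_lit 836) (nat_lit 5911103113) (nat_lit 293) (nat_lit 5) (nat_lit 303) (nat_lit 5) (nat_lit 304) (nat_lit 5) (nat_lit 372) (nat_lit 370) (nat_lit 278))))) (XT.nd (nat_lit 312) (nat_lit 0) (nat_lit 152) (XT.nd (nat_lit 156) (nat_lit 0) (nat_lit 76) (XT.nd (nat_lit 78) (nat_lit 0) (nat_lit 76) (XT.lf (nat_lit 76) (nat_lit 3238525892) (nat_lit 0) (nat_lit 3809356924) (nat_lit 836) (nat_lit 11962710791) (nat_lit 294) (nat_lit 5) (nat_lit 293) (nat_lit 5) (nat_lit 304) (nat_lit 5)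 (nat_lit 373) (nat_lit 370) (nat_lit 277)) (XT.lf (nat_lit 0) (nat_lit 7973362743) (nat_lit 760) (nat_lit 6109141131) (nat_lit 836) (nat_lit 5401254440) (nat_lit 294) (nat_lit 5) (nat_lit 304) (nat_lit 5) (nat_lit 305) (nat_lit 5) (nat_lit 374) (nat_lit 370) (nat_lit 276))) (XT.nd (nat_lit 78) (nat_lit 0) (nat_lit 76) (XT.lf (nat_lit 76) (nat_lit 4097796591) (nat_lit 0) (nat_lit 4962100509) (nat_lit 836) (nat_lit 10914945136) (nat_lit 295) (nat_lit 5) (nat_lit 294) (nat_lit 5) (nat_lit 305) (nat_lit 5) (nat_lit 375) (nat_lit 370) (nat_lit 275)) (XT.lf (nat_lit 0) (nat_lit 10366800621) (nat_lit 760) (nat_lit 5540199617) (nat_lit 836) (nat_lit 4575177993) (nat_lit 295) (nat_lit 5) (nat_lit 305) (nat_lit 5) (nat_lit 306) (nat_lit 5) (nat_lit 376) (nat_lit 370) (nat_lit 274)))) (XT.nd (nat_lit 156) (nat_lit 0) (nat_lit 76) (XT.nd (nat_lit 78) (nat_lit 0) (nat_lit 76) (XT.lf (nat_lit 76) (nat_lit 5396944924)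 (nat_lit 0) (nat_lit 6497085629) (nat_lit 836) (nat_lit 9113101412) (nat_lit 296) (nat_lit 5) (nat_lit 295) (nat_lit 5) (nat_lit 306) (nat_lit 5) (nat_lit 377) (nat_lit 370) (nat_lit 273)) (XT.lf (nat_lit 0) (nat_lit 13635605313) (nat_lit 760) (nat_lit 4543069475) (nat_lit 836) (nat_lit 3372759431) (nat_lit 296) (nat_lit 5) (nat_lit 306) (nat_lit 5) (nat_lit 307) (nat_lit 5) (nat_lit 378) (nat_lit 370) (nat_lit 272))) (XT.nd (nat_lit 78) (nat_lit 0) (nat_lit 76) (XT.lf (nat_lit 76) (nat_lit 7193162404) (nat_lit 0) (nat_lit 8480193390) (nat_lit 836) (nat_lit 6439140942) (nat_lit 297) (nat_lit 5) (nat_lit 296) (nat_lit 5) (nat_lit 307) (nat_lit 5) (nat_lit 379) (nat_lit 370) (nat_lit 271)) (XT.lf (nat_lit 0) (nat_lit 17908432737) (nat_lit 760) (nat_lit 3060010414) (nat_lit 76) (nat_lit 1728397282) (nat_lit 297) (nat_lit 5) (nat_lit 307) (nat_lit 5) (nat_lit 298) (nat_lit 5) (nat_lit 380) (nat_lit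 370) (nat_lit 270))))))) (XT.nd (nat_lit 1248) (nat_lit 2280) (nat_lit 0) (XT.nd (nat_lit 624) (nat_lit 1292) (nat_lit 0) (XT.nd (nat_lit 312) (nat_lit 684) (nat_lit 0) (XT.nd (nat_lit 156) (nat_lit 912) (nat_lit 0) (XT.nd (nat_lit 78) (nat_lit 0) (nat_lit 0) (XT.lf (nat_lit 0) (nat_lit 9551026173) (nat_lit 760) (nat_lit 10983467244) (nat_lit 836) (nat_lit 2761946402) (nat_lit 287) (nat_lit 5) (nat_lit 297) (nat_lit 5) (nat_lit 298) (nat_lit 5) (nat_lit 381) (nat_lit 370) (nat_lit 269)) (XT.lf (nat_lit 0) (nat_lit 22891052640) (nat_lit 760) (nat_lit 444021723) (nat_lit 836) (nat_lit 588783950) (nat_lit 287) (nat_lit 5) (nat_lit 297) (nat_lit 5) (nat_lit 298) (nat_lit 5) (nat_lit 382) (nat_lit 370) (nat_lit 268))) (XT.nd (nat_lit 78) (nat_lit 380) (nat_lit 0) (XT.lf (nat_lit 0) (nat_lit 1998140016) (nat_lit 532) (nat_lit 12054001988) (nat_lit 76) (nat_lit 10511219518) (nat_lit 280) (nat_lit 5) (nat_lit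 287) (nat_lit 5) (nat_lit 281) (nat_lit 5) (nat_lit 383) (nat_lit 370) (nat_lit 267)) (XT.lf (nat_lit 0) (nat_lit 1555090564) (nat_lit 380) (nat_lit 3180824429) (nat_lit 456) (nat_lit 20496377699) (nat_lit 275) (nat_lit 5) (nat_lit 280) (nat_lit 5) (nat_lit 281) (nat_lit 5) (nat_lit 384) (nat_lit 370) (nat_lit 266)))) (XT.nd (nat_lit 156) (nat_lit 304) (nat_lit 0) (XT.nd (nat_lit 78) (nat_lit 380) (nat_lit 0) (XT.lf (nat_lit 0) (nat_lit 7938837197) (nat_lit 456) (nat_lit 9801488814) (nat_lit 76) (nat_lit 8177931486) (nat_lit 275) (nat_lit 5) (nat_lit 281) (nat_lit 5) (nat_lit 276) (nat_lit 5) (nat_lit 385) (nat_lit 370) (nat_lit 265)) (XT.lf (nat_lit 0) (nat_lit 4863678755) (nat_lit 380) (nat_lit 6558892616) (nat_lit 456) (nat_lit 15209915878) (nat_lit 270) (nat_lit 5) (nat_lit 275) (nat_lit 5) (nat_lit 276) (nat_lit 5) (nat_lit 386) (nat_lit 370) (nat_lit 264))) (XT.nd (nat_lit 78) (nat_lit 304)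 (nat_lit 0) (XT.lf (nat_lit 0) (nat_lit 15322915325) (nat_lit 456) (nat_lit 6863437995) (nat_lit 76) (nat_lit 5183954014) (nat_lit 270) (nat_lit 5) (nat_lit 276) (nat_lit 5) (nat_lit 271) (nat_lit 5) (nat_lit 387) (nat_lit 370) (nat_lit 263)) (XT.lf (nat_lit 0) (nat_lit 8958719133) (nat_lit 304) (nat_lit 10700102722) (nat_lit 380) (nat_lit 8474169301) (nat_lit 266) (nat_lit 5) (nat_lit 270) (nat_lit 5) (nat_lit 271) (nat_lit 5) (nat_lit 388) (nat_lit 370) (nat_lit 262))))) (XT.nd (nat_lit 312) (nat_lit 608) (nat_lit 0) (XT.nd (nat_lit 156) (nat_lit 380) (nat_lit 0) (XT.nd (nat_lit 78) (nat_lit 304) (nat_lit 0) (XT.lf (nat_lit 0) (nat_lit 24344250693) (nat_lit 380) (nat_lit 3148763728) (nat_lit 76) (nat_lit 1434158398) (nat_lit 266) (nat_lit 5) (nat_lit 271) (nat_lit 5) (nat_lit 267) (nat_lit 5) (nat_lit 389) (nat_lit 370) (nat_lit 261)) (XT.lf (nat_lit 0) (nat_lit 13941305466) (nat_lit 304) (nat_lit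 15709382004) (nat_lit 380) (nat_lit 91039269) (nat_lit 262) (nat_lit 5) (nat_lit 266) (nat_lit 5) (nat_lit 267) (nat_lit 5) (nat_lit 390) (nat_lit 370) (nat_lit 260))) (XT.nd (nat_lit 78) (nat_lit 0) (nat_lit 0) (XT.lf (nat_lit 0) (nat_lit 1363817037) (nat_lit 304) (nat_lit 3182818536) (nat_lit 380) (nat_lit 26043299944) (nat_lit 257) (nat_lit 5) (nat_lit 261) (nat_lit 5) (nat_lit 262) (nat_lit 5) (nat_lit 391) (nat_lit 370) (nat_lit 259)) (XT.lf (nat_lit 0) (nat_lit 9834676701) (nat_lit 380) (nat_lit 11701649565) (nat_lit 76) (nat_lit 9923076744) (nat_lit 257) (nat_lit 5) (nat_lit 262) (nat_lit 5) (nat_lit 258) (nat_lit 5) (nat_lit 392) (nat_lit 370) (nat_lit 258)))) (XT.nd (nat_lit 156) (nat_lit 304) (nat_lit 0) (XT.nd (nat_lit 78) (nat_lit 0) (nat_lit 0) (XT.lf (nat_lit 0) (nat_lit 6859009421) (nat_lit 304) (nat_lit 8681573138) (nat_lit 380) (nat_lit 16824088182) (nat_lit 253) (nat_lit 5) (nat_lit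 257) (nat_lit 5) (nat_lit 258) (nat_lit 5) (nat_lit 393) (nat_lit 370) (nat_lit 257)) (XT.lf (nat_lit 0) (nat_lit 21802729929) (nat_lit 380) (nat_lit 6637300315) (nat_lit 76) (nat_lit 4861624307) (nat_lit 253) (nat_lit 5) (nat_lit 258) (nat_lit 5) (nat_lit 254) (nat_lit 5) (nat_lit 394) (nat_lit 370) (nat_lit 256))) (XT.nd (nat_lit 78) (nat_lit 76) (nat_lit 0) (XT.lf (nat_lit 0) (nat_lit 13455656624) (nat_lit 228) (nat_lit 15269333621) (nat_lit 304) (nat_lit 5543147025) (nat_lit 250) (nat_lit 5) (nat_lit 253) (nat_lit 5) (nat_lit 254) (nat_lit 5) (nat_lit 395) (nat_lit 370) (nat_lit 255)) (XT.lf (nat_lit 0) (nat_lit 796595216) (nat_lit 304) (nat_lit 513791804) (nat_lit 76) (nat_lit 33966556842) (nat_lit 249) (nat_lit 5) (nat_lit 253) (nat_lit 5) (nat_lit 250) (nat_lit 5) (nat_lit 396) (nat_lit 370) (nat_lit 254)))))) (XT.nd (nat_lit 624) (nat_lit 988) (nat_lit 0) (XT.nd (nat_lit 312) (nat_lit 532)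 (nat_lit 0) (XT.nd (nat_lit 156) (nat_lit 228) (nat_lit 0) (XT.nd (nat_lit 78) (nat_lit 228) (nat_lit 0) (XT.lf (nat_lit 0) (nat_lit 7811173792) (nat_lit 380) (nat_lit 15143936396) (nat_lit 76) (nat_lit 13349330268) (nat_lit 245) (nat_lit 5) (nat_lit 250) (nat_lit 5) (nat_lit 246) (nat_lit 5) (nat_lit 397) (nat_lit 370) (nat_lit 253)) (XT.lf (nat_lit 0) (nat_lit 6740601905) (nat_lit 228) (nat_lit 8566471541) (nat_lit 304) (nat_lit 22069708826) (nat_lit 242) (nat_lit 5) (nat_lit 245) (nat_lit 5) (nat_lit 246) (nat_lit 5) (nat_lit 398) (nat_lit 370) (nat_lit 252))) (XT.nd (nat_lit 78) (nat_lit 228) (nat_lit 0) (XT.lf (nat_lit 0) (nat_lit 23535699525) (nat_lit 304) (nat_lit 8358212734) (nat_lit 76) (nat_lit 6590932347) (nat_lit 242) (nat_lit 5) (nat_lit 246) (nat_lit 5) (nat_lit 243) (nat_lit 5) (nat_lit 399) (nat_lit 370) (nat_lit 251)) (XT.lf (nat_lit 0) (nat_lit 15378682409) (nat_lit 228) (nat_lit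 17172969391) (nat_lit 304) (nat_lit 7077863513) (nat_lit 239) (nat_lit 5) (nat_lit 242) (nat_lit 5) (nat_lit 243) (nat_lit 5) (nat_lit 400) (nat_lit 370) (nat_lit 250)))) (XT.nd (nat_lit 156) (nat_lit 228) (nat_lit 0) (XT.nd (nat_lit 78) (nat_lit 228) (nat_lit 0) (XT.lf (nat_lit 0) (nat_lit 1288261988) (nat_lit 304) (nat_lit 259388077) (nat_lit 76) (nat_lit 39275879349) (nat_lit 238) (nat_lit 5) (nat_lit 242) (nat_lit 5) (nat_lit 239) (nat_lit 5) (nat_lit 401) (nat_lit 370) (nat_lit 249)) (XT.lf (nat_lit 0) (nat_lit 10471016173) (nat_lit 304) (nat_lit 16662643550) (nat_lit 76) (nat_lit 14905973718) (nat_lit 235) (nat_lit 5) (nat_lit 239) (nat_lit 5) (nat_lit 236) (nat_lit 5) (nat_lit 402) (nat_lit 370) (nat_lit 248))) (XT.nd (nat_lit 78) (nat_lit 0) (nat_lit 0) (XT.lf (nat_lit 0) (nat_lit 9252000551) (nat_lit 228) (nat_lit 11030888775) (nat_lit 304) (nat_lit 23025154281) (nat_lit 232) (nat_lit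 5) (nat_lit 235) (nat_lit 5) (nat_lit 236) (nat_lit 5) (nat_lit 403) (nat_lit 370) (nat_lit 247)) (XT.lf (nat_lit 0) (nat_lit 30959693728) (nat_lit 304) (nat_lit 7687897835) (nat_lit 76) (nat_lit 5973565838) (nat_lit 232) (nat_lit 5) (nat_lit 236) (nat_lit 5) (nat_lit 233) (nat_lit 5) (nat_lit 404) (nat_lit 370) (nat_lit 246))))) (XT.nd (nat_lit 312) (nat_lit 380) (nat_lit 0) (XT.nd (nat_lit 156) (nat_lit 152) (nat_lit 0) (XT.nd (nat_lit 78) (nat_lit 304) (nat_lit 0) (XT.lf (nat_lit 0) (nat_lit 20466577324) (nat_lit 152) (nat_lit 22200102404) (nat_lit 228) (nat_lit 3308430088) (nat_lit 230) (nat_lit 5) (nat_lit 232) (nat_lit 5) (nat_lit 233) (nat_lit 5) (nat_lit 405) (nat_lit 370) (nat_lit 245)) (XT.lf (nat_lit 0) (nat_lit 2870781203) (nat_lit 228) (nat_lit 4622585408) (nat_lit 304) (nat_lit 39888832300) (nat_lit 226) (nat_lit 5) (nat_lit 229) (nat_lit 5) (nat_lit 230) (nat_lit 5) (nat_lit 406)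 (nat_lit 370) (nat_lit 244))) (XT.nd (nat_lit 78) (nat_lit 152) (nat_lit 0) (XT.lf (nat_lit 0) (nat_lit 19375188336) (nat_lit 304) (nat_lit 15567075476) (nat_lit 76) (nat_lit 13882110813) (nat_lit 226) (nat_lit 5) (nat_lit 230) (nat_lit 5) (nat_lit 227) (nat_lit 5) (nat_lit 407) (nat_lit 370) (nat_lit 243)) (XT.lf (nat_lit 0) (nat_lit 15230076386) (nat_lit 152) (nat_lit 16930831245) (nat_lit 228) (nat_lit 18162261171) (nat_lit 224) (nat_lit 5) (nat_lit 226) (nat_lit 5) (nat_lit 227) (nat_lit 5) (nat_lit 408) (nat_lit 370) (nat_lit 242)))) (XT.nd (nat_lit 156) (nat_lit 152) (nat_lit 0) (XT.nd (nat_lit 78) (nat_lit 228) (nat_lit 0) (XT.lf (nat_lit 0) (nat_lit 45881093968) (nat_lit 228) (nat_lit 3817569186) (nat_lit 76) (nat_lit 2183480479) (nat_lit 224) (nat_lit 5) (nat_lit 227) (nat_lit 5) (nat_lit 225) (nat_lit 5) (nat_lit 409) (nat_lit 370) (nat_lit 241)) (XT.lf (nat_lit 0) (nat_lit 7301232185)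 (nat_lit 228) (nat_lit 23911399294) (nat_lit 76) (nat_lit 22263670422) (nat_lit 221) (nat_lit 5) (nat_lit 224) (nat_lit 5) (nat_lit 222) (nat_lit 5) (nat_lit 410) (nat_lit 370) (nat_lit 240))) (XT.nd (nat_lit 78) (nat_lit 0) (nat_lit 0) (XT.lf (nat_lit 0) (nat_lit 9810805202) (nat_lit 152) (nat_lit 11471524706) (nat_lit 228) (nat_lit 33852150463) (nat_lit 219) (nat_lit 5) (nat_lit 221) (nat_lit 5) (nat_lit 222) (nat_lit 5) (nat_lit 411) (nat_lit 370) (nat_lit 239)) (XT.lf (nat_lit 0) (nat_lit 36515124796) (nat_lit 228) (nat_lit 10963115682) (nat_lit 76) (nat_lit 9369695171) (nat_lit 219) (nat_lit 5) (nat_lit 222) (nat_lit 5) (nat_lit 220) (nat_lit 5) (nat_lit 412) (nat_lit 370) (nat_lit 238))))))))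
noncomputable def xc218 : XT := (XT.nd (nat_lit 1248) (nat_lit 1216) (nat_lit 0) (XT.nd (nat_lit 624) (nat_lit 912) (nat_lit 0) (XT.nd (nat_lit 312) (nat_lit 304) (nat_lit 0) (XT.nd (nat_lit 156) (nat_lit 152) (nat_lit 0) (XT.nd (nat_lit 78) (nat_lit 228) (nat_lit 0) (XT.lf (nat_lit 0) (nat_lit 25745817521) (nat_lit 152) (nat_lit 27350459830) (nat_lit 228) (nat_lit 5521450445) (nat_lit 217) (nat_lit 5) (nat_lit 219) (nat_lit 5) (nat_lit 220) (nat_lit 5) (nat_lit 413) (nat_lit 370) (nat_lit 237)) (XT.lf (nat_lit 0) (nat_lit 4172337650) (nat_lit 152) (nat_lit 5787667385) (nat_lit 228) (nat_lit 50495646072) (nat_lit 214) (nat_lit 5) (nat_lit 216) (nat_lit 5) (nat_lit 217) (nat_lit 5) (nat_lit 414) (nat_lit 370) (nat_lit 236))) (XT.nd (nat_lit 78) (nat_lit 152) (nat_lit 0) (XT.lf (nat_lit 0) (nat_lit 26855678133) (nat_lit 228) (nat_lit 18516042332) (nat_lit 76) (nat_lit 16967939249) (nat_lit 214) (nat_lit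 5) (nat_lit 217) (nat_lit 5) (nat_lit 215) (nat_lit 5) (nat_lit 415) (nat_lit 370) (nat_lit 235)) (XT.lf (nat_lit 0) (nat_lit 21734962550) (nat_lit 152) (nat_lit 23292297833) (nat_lit 228) (nat_lit 19269052095) (nat_lit 212) (nat_lit 5) (nat_lit 214) (nat_lit 5) (nat_lit 215) (nat_lit 5) (nat_lit 416) (nat_lit 370) (nat_lit 234)))) (XT.nd (nat_lit 156) (nat_lit 152) (nat_lit 0) (XT.nd (nat_lit 78) (nat_lit 152) (nat_lit 0) (XT.lf (nat_lit 0) (nat_lit 64421371082) (nat_lit 228) (nat_lit 1702639834) (nat_lit 76) (nat_lit 211089496) (nat_lit 212) (nat_lit 5) (nat_lit 215) (nat_lit 5) (nat_lit 213) (nat_lit 4) (nat_lit 417) (nat_lit 370) (nat_lit 233)) (XT.lf (nat_lit 0) (nat_lit 16841536968) (nat_lit 152) (nat_lit 26534187779) (nat_lit 76) (nat_lit 25034662319) (nat_lit 210) (nat_lit 5) (nat_lit 212) (nat_lit 5) (nat_lit 211) (nat_lit 5) (nat_lit 418) (nat_lit 370) (nat_lit 232))) (XT.nd (nat_lit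 78) (nat_lit 0) (nat_lit 0) (XT.lf (nat_lit 0) (nat_lit 17632410386) (nat_lit 152) (nat_lit 19139531201) (nat_lit 228) (nat_lit 33800843392) (nat_lit 208) (nat_lit 5) (nat_lit 210) (nat_lit 5) (nat_lit 211) (nat_lit 5) (nat_lit 419) (nat_lit 370) (nat_lit 231)) (XT.lf (nat_lit 0) (nat_lit 58251208900) (nat_lit 228) (nat_lit 8003359565) (nat_lit 76) (nat_lit 6561117198) (nat_lit 208) (nat_lit 5) (nat_lit 211) (nat_lit 5) (nat_lit 209) (nat_lit 4) (nat_lit 420) (nat_lit 370) (nat_lit 230))))) (XT.nd (nat_lit 312) (nat_lit 532) (nat_lit 0) (XT.nd (nat_lit 156) (nat_lit 76) (nat_lit 0) (XT.nd (nat_lit 78) (nat_lit 152) (nat_lit 0) (XT.lf (nat_lit 0) (nat_lit 6406585075) (nat_lit 152) (nat_lit 35080446196) (nat_lit 76) (nat_lit 33631642677) (nat_lit 206) (nat_lit 5) (nat_lit 208) (nat_lit 5) (nat_lit 207) (nat_lit 5) (nat_lit 421) (nat_lit 370) (nat_lit 229)) (XT.lf (nat_lit 0) (nat_lit 13413062779)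 (nat_lit 152) (nat_lit 14868115016) (nat_lit 228) (nat_lit 49226473770) (nat_lit 204) (nat_lit 5) (nat_lit 206) (nat_lit 5) (nat_lit 207) (nat_lit 5) (nat_lit 422) (nat_lit 370) (nat_lit 228))) (XT.nd (nat_lit 78) (nat_lit 76) (nat_lit 0) (XT.lf (nat_lit 0) (nat_lit 52054867621) (nat_lit 228) (nat_lit 14656186936) (nat_lit 76) (nat_lit 13264755131) (nat_lit 204) (nat_lit 5) (nat_lit 207) (nat_lit 5) (nat_lit 205) (nat_lit 4) (nat_lit 423) (nat_lit 370) (nat_lit 227)) (XT.lf (nat_lit 0) (nat_lit 38229213738) (nat_lit 76) (nat_lit 39626043420) (nat_lit 152) (nat_lit 4670217800) (nat_lit 203) (nat_lit 5) (nat_lit 204) (nat_lit 5) (nat_lit 205) (nat_lit 4) (nat_lit 424) (nat_lit 370) (nat_lit 226)))) (XT.nd (nat_lit 156) (nat_lit 304) (nat_lit 0) (XT.nd (nat_lit 78) (nat_lit 0) (nat_lit 0) (XT.lf (nat_lit 0) (nat_lit 9050083197) (nat_lit 152) (nat_lit 10452053713) (nat_lit 228) (nat_lit 65665524626)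 (nat_lit 200) (nat_lit 5) (nat_lit 202) (nat_lit 5) (nat_lit 203) (nat_lit 5) (nat_lit 425) (nat_lit 370) (nat_lit 225)) (XT.lf (nat_lit 0) (nat_lit 45801147487) (nat_lit 228) (nat_lit 21711552704) (nat_lit 76) (nat_lit 20371679800) (nat_lit 200) (nat_lit 5) (nat_lit 203) (nat_lit 5) (nat_lit 201) (nat_lit 4) (nat_lit 426) (nat_lit 370) (nat_lit 224))) (XT.nd (nat_lit 78) (nat_lit 228) (nat_lit 0) (XT.lf (nat_lit 0) (nat_lit 36404033132) (nat_lit 76) (nat_lit 37748346883) (nat_lit 152) (nat_lit 16547690783) (nat_lit 199) (nat_lit 5) (nat_lit 200) (nat_lit 5) (nat_lit 201) (nat_lit 4) (nat_lit 427) (nat_lit 370) (nat_lit 223)) (XT.lf (nat_lit 0) (nat_lit 4514663551) (nat_lit 152) (nat_lit 5863206679) (nat_lit 228) (nat_lit 83248574213) (nat_lit 196) (nat_lit 5) (nat_lit 198) (nat_lit 5) (nat_lit 199) (nat_lit 5) (nat_lit 428) (nat_lit 370) (nat_lit 222)))))) (XT.nd (nat_lit 624) (nat_lit 608) (nat_lit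 0) (XT.nd (nat_lit 312) (nat_lit 304) (nat_lit 0) (XT.nd (nat_lit 156) (nat_lit 228) (nat_lit 0) (XT.nd (nat_lit 78) (nat_lit 76) (nat_lit 0) (XT.lf (nat_lit 0) (nat_lit 39456946055) (nat_lit 228) (nat_lit 29224311305) (nat_lit 76) (nat_lit 27936148347) (nat_lit 196) (nat_lit 5) (nat_lit 199) (nat_lit 5) (nat_lit 197) (nat_lit 4) (nat_lit 429) (nat_lit 370) (nat_lit 221)) (XT.lf (nat_lit 0) (nat_lit 34666606607) (nat_lit 76) (nat_lit 35958423062) (nat_lit 152) (nat_lit 29101132665) (nat_lit 195) (nat_lit 5) (nat_lit 196) (nat_lit 5) (nat_lit 197) (nat_lit 4) (nat_lit 430) (nat_lit 370) (nat_lit 220))) (XT.nd (nat_lit 78) (nat_lit 152) (nat_lit 0) (XT.lf (nat_lit 0) (nat_lit 850341519) (nat_lit 152) (nat_lit 217050953) (nat_lit 76) (nat_lit 101897645372) (nat_lit 194) (nat_lit 5) (nat_lit 196) (nat_lit 5) (nat_lit 195) (nat_lit 5) (nat_lit 431) (nat_lit 370) (nat_lit 219)) (XT.lf (nat_lit 0) (nat_lit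 32987012604) (nat_lit 228) (nat_lit 37254240886) (nat_lit 76) (nat_lit 36017469646) (nat_lit 192) (nat_lit 5) (nat_lit 195) (nat_lit 5) (nat_lit 193) (nat_lit 4) (nat_lit 432) (nat_lit 370) (nat_lit 218)))) (XT.nd (nat_lit 156) (nat_lit 228) (nat_lit 0) (XT.nd (nat_lit 78) (nat_lit 0) (nat_lit 0) (XT.lf (nat_lit 0) (nat_lit 33012606341) (nat_lit 76) (nat_lit 34252383320) (nat_lit 152) (nat_lit 42425379413) (nat_lit 191) (nat_lit 5) (nat_lit 192) (nat_lit 5) (nat_lit 193) (nat_lit 4) (nat_lit 433) (nat_lit 370) (nat_lit 217)) (XT.lf (nat_lit 0) (nat_lit 103951161024) (nat_lit 152) (nat_lit 5245593893) (nat_lit 0) (nat_lit 4062127619) (nat_lit 191) (nat_lit 5) (nat_lit 193) (nat_lit 4) (nat_lit 191) (nat_lit 4) (nat_lit 434) (nat_lit 370) (nat_lit 216))) (XT.nd (nat_lit 78) (nat_lit 76) (nat_lit 0) (XT.lf (nat_lit 0) (nat_lit 26353677794) (nat_lit 152) (nat_lit 45866590397) (nat_lit 76) (nat_lit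 44680527651) (nat_lit 189) (nat_lit 5) (nat_lit 191) (nat_lit 5) (nat_lit 190) (nat_lit 4) (nat_lit 435) (nat_lit 370) (nat_lit 215)) (XT.lf (nat_lit 0) (nat_lit 31437937024) (nat_lit 76) (nat_lit 32626472599) (nat_lit 152) (nat_lit 56623812758) (nat_lit 188) (nat_lit 5) (nat_lit 189) (nat_lit 5) (nat_lit 190) (nat_lit 4) (nat_lit 436) (nat_lit 370) (nat_lit 214))))) (XT.nd (nat_lit 312) (nat_lit 380) (nat_lit 0) (XT.nd (nat_lit 156) (nat_lit 76) (nat_lit 0) (XT.nd (nat_lit 78) (nat_lit 152) (nat_lit 0) (XT.lf (nat_lit 0) (nat_lit 104587816321) (nat_lit 152) (nat_lit 10582514292) (nat_lit 0) (nat_lit 9448332720) (nat_lit 188) (nat_lit 5) (nat_lit 190) (nat_lit 4) (nat_lit 188) (nat_lit 4) (nat_lit 437) (nat_lit 370) (nat_lit 213)) (XT.lf (nat_lit 0) (nat_lit 19516556389) (nat_lit 152) (nat_lit 55132679125) (nat_lit 76) (nat_lit 53996361430) (nat_lit 186) (nat_lit 5) (nat_lit 188) (nat_lit 5) (nat_lit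 187) (nat_lit 4) (nat_lit 438) (nat_lit 370) (nat_lit 212))) (XT.nd (nat_lit 78) (nat_lit 0) (nat_lit 0) (XT.lf (nat_lit 0) (nat_lit 29938720105) (nat_lit 76) (nat_lit 31077072203) (nat_lit 152) (nat_lit 71809284694) (nat_lit 185) (nat_lit 5) (nat_lit 186) (nat_lit 5) (nat_lit 187) (nat_lit 4) (nat_lit 439) (nat_lit 370) (nat_lit 211)) (XT.lf (nat_lit 0) (nat_lit 105766143879) (nat_lit 152) (nat_lit 16237284803) (nat_lit 0) (nat_lit 15151294685) (nat_lit 185) (nat_lit 5) (nat_lit 187) (nat_lit 4) (nat_lit 185) (nat_lit 4) (nat_lit 440) (nat_lit 370) (nat_lit 210)))) (XT.nd (nat_lit 156) (nat_lit 152) (nat_lit 0) (XT.nd (nat_lit 78) (nat_lit 76) (nat_lit 0) (XT.lf (nat_lit 0) (nat_lit 12432220528) (nat_lit 152) (nat_lit 65130554504) (nat_lit 76) (nat_lit 64042806992) (nat_lit 183) (nat_lit 5) (nat_lit 185) (nat_lit 5) (nat_lit 184) (nat_lit 4) (nat_lit 441) (nat_lit 370) (nat_lit 209)) (XT.lf (nat_lit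 0) (nat_lit 28511279610) (nat_lit 76) (nat_lit 29600700831) (nat_lit 152) (nat_lit 88105135729) (nat_lit 182) (nat_lit 5) (nat_lit 183) (nat_lit 5) (nat_lit 184) (nat_lit 4) (nat_lit 442) (nat_lit 370) (nat_lit 208))) (XT.nd (nat_lit 78) (nat_lit 152) (nat_lit 0) (XT.lf (nat_lit 0) (nat_lit 107519093674) (nat_lit 152) (nat_lit 22253513603) (nat_lit 0) (nat_lit 21214451480) (nat_lit 182) (nat_lit 5) (nat_lit 184) (nat_lit 4) (nat_lit 182) (nat_lit 4) (nat_lit 443) (nat_lit 370) (nat_lit 207)) (XT.lf (nat_lit 0) (nat_lit 5053840710) (nat_lit 152) (nat_lit 75945714548) (nat_lit 76) (nat_lit 74905206613) (nat_lit 180) (nat_lit 5) (nat_lit 182) (nat_lit 5) (nat_lit 181) (nat_lit 4) (nat_lit 444) (nat_lit 370) (nat_lit 206)))))))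
noncomputable def xc219 : XT := (XT.nd (nat_lit 1248) (nat_lit 1216) (nat_lit 0) (XT.nd (nat_lit 624) (nat_lit 684) (nat_lit 0) (XT.nd (nat_lit 312) (nat_lit 228) (nat_lit 0) (XT.nd (nat_lit 156) (nat_lit 228) (nat_lit 0) (XT.nd (nat_lit 78) (nat_lit 0) (nat_lit 0) (XT.lf (nat_lit 0) (nat_lit 27152129331) (nat_lit 76) (nat_lit 28194014230) (nat_lit 152) (nat_lit 105646316330) (nat_lit 179) (nat_lit 5) (nat_lit 180) (nat_lit 5) (nat_lit 181) (nat_lit 4) (nat_lit 445) (nat_lit 370) (nat_lit 205)) (XT.lf (nat_lit 0) (nat_lit 109884047500) (nat_lit 152) (nat_lit 28678733146) (nat_lit 0) (nat_lit 27685212867) (nat_lit 179) (nat_lit 5) (nat_lit 181) (nat_lit 4) (nat_lit 179) (nat_lit 4) (nat_lit 446) (nat_lit 370) (nat_lit 204))) (XT.nd (nat_lit 78) (nat_lit 152) (nat_lit 0) (XT.lf (nat_lit 0) (nat_lit 83962779117) (nat_lit 76) (nat_lit 84957488869) (nat_lit 76) (nat_lit 2757464763) (nat_lit 178) (nat_lit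 4) (nat_lit 179) (nat_lit 5) (nat_lit 179) (nat_lit 4) (nat_lit 447) (nat_lit 370) (nat_lit 203)) (XT.lf (nat_lit 0) (nat_lit 25857961174) (nat_lit 76) (nat_lit 26853803758) (nat_lit 152) (nat_lit 124580621986) (nat_lit 176) (nat_lit 5) (nat_lit 177) (nat_lit 5) (nat_lit 178) (nat_lit 4) (nat_lit 448) (nat_lit 370) (nat_lit 202)))) (XT.nd (nat_lit 156) (nat_lit 152) (nat_lit 0) (XT.nd (nat_lit 78) (nat_lit 76) (nat_lit 0) (XT.lf (nat_lit 0) (nat_lit 112903226624) (nat_lit 152) (nat_lit 35564832001) (nat_lit 0) (nat_lit 34615382981) (nat_lit 176) (nat_lit 5) (nat_lit 178) (nat_lit 4) (nat_lit 176) (nat_lit 4) (nat_lit 449) (nat_lit 370) (nat_lit 201)) (XT.lf (nat_lit 0) (nat_lit 88487002497) (nat_lit 76) (nat_lit 89437430099) (nat_lit 76) (nat_lit 11148607874) (nat_lit 175) (nat_lit 4) (nat_lit 176) (nat_lit 5) (nat_lit 176) (nat_lit 4) (nat_lit 450) (nat_lit 370) (nat_lit 200))) (XT.nd (nat_lit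 78) (nat_lit 0) (nat_lit 0) (XT.lf (nat_lit 0) (nat_lit 24625634534) (nat_lit 76) (nat_lit 25576994120) (nat_lit 152) (nat_lit 145070053456) (nat_lit 173) (nat_lit 5) (nat_lit 174) (nat_lit 5) (nat_lit 175) (nat_lit 4) (nat_lit 451) (nat_lit 370) (nat_lit 199)) (XT.lf (nat_lit 0) (nat_lit 116624142820) (nat_lit 152) (nat_lit 42968528894) (nat_lit 0) (nat_lit 42061626809) (nat_lit 173) (nat_lit 5) (nat_lit 175) (nat_lit 4) (nat_lit 173) (nat_lit 4) (nat_lit 452) (nat_lit 370) (nat_lit 198))))) (XT.nd (nat_lit 312) (nat_lit 380) (nat_lit 0) (XT.nd (nat_lit 156) (nat_lit 76) (nat_lit 0) (XT.nd (nat_lit 78) (nat_lit 152) (nat_lit 0) (XT.lf (nat_lit 0) (nat_lit 93669630255) (nat_lit 76) (nat_lit 94577337422) (nat_lit 76) (nat_lit 20014016329) (nat_lit 172) (nat_lit 4) (nat_lit 173) (nat_lit 5) (nat_lit 173) (nat_lit 4) (nat_lit 453) (nat_lit 370) (nat_lit 197)) (XT.lf (nat_lit 0) (nat_lit 23452166554)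 (nat_lit 76) (nat_lit 24360640466) (nat_lit 152) (nat_lit 167292314965) (nat_lit 170) (nat_lit 5) (nat_lit 171) (nat_lit 5) (nat_lit 172) (nat_lit 4) (nat_lit 454) (nat_lit 370) (nat_lit 196))) (XT.nd (nat_lit 78) (nat_lit 76) (nat_lit 0) (XT.lf (nat_lit 0) (nat_lit 121100097242) (nat_lit 152) (nat_lit 50951893503) (nat_lit 0) (nat_lit 50085984792) (nat_lit 170) (nat_lit 5) (nat_lit 172) (nat_lit 4) (nat_lit 170) (nat_lit 4) (nat_lit 455) (nat_lit 370) (nat_lit 195)) (XT.lf (nat_lit 0) (nat_lit 99568826935) (nat_lit 76) (nat_lit 100435397988) (nat_lit 76) (nat_lit 29420623195) (nat_lit 169) (nat_lit 4) (nat_lit 170) (nat_lit 5) (nat_lit 170) (nat_lit 4) (nat_lit 456) (nat_lit 370) (nat_lit 194)))) (XT.nd (nat_lit 156) (nat_lit 228) (nat_lit 0) (XT.nd (nat_lit 78) (nat_lit 0) (nat_lit 0) (XT.lf (nat_lit 0) (nat_lit 22334723158) (nat_lit 76) (nat_lit 23201925014) (nat_lit 152) (nat_lit 191442464447)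 (nat_lit 167) (nat_lit 5) (nat_lit 168) (nat_lit 5) (nat_lit 169) (nat_lit 4) (nat_lit 457) (nat_lit 370) (nat_lit 193)) (XT.lf (nat_lit 0) (nat_lit 126390732065) (nat_lit 152) (nat_lit 59582918980) (nat_lit 0) (nat_lit 58756440293) (nat_lit 167) (nat_lit 5) (nat_lit 169) (nat_lit 4) (nat_lit 167) (nat_lit 4) (nat_lit 458) (nat_lit 370) (nat_lit 192))) (XT.nd (nat_lit 78) (nat_lit 152) (nat_lit 0) (XT.lf (nat_lit 0) (nat_lit 106249172035) (nat_lit 76) (nat_lit 107076195633) (nat_lit 76) (nat_lit 39441358950) (nat_lit 166) (nat_lit 4) (nat_lit 167) (nat_lit 5) (nat_lit 167) (nat_lit 4) (nat_lit 459) (nat_lit 370) (nat_lit 191)) (XT.lf (nat_lit 0) (nat_lit 21270610772) (nat_lit 76) (nat_lit 22098153334) (nat_lit 152) (nat_lit 217734731417) (nat_lit 164) (nat_lit 5) (nat_lit 165) (nat_lit 5) (nat_lit 166) (nat_lit 4) (nat_lit 460) (nat_lit 370) (nat_lit 190)))))) (XT.nd (nat_lit 624) (nat_lit 684)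 (nat_lit 0) (XT.nd (nat_lit 312) (nat_lit 304) (nat_lit 0) (XT.nd (nat_lit 156) (nat_lit 152) (nat_lit 0) (XT.nd (nat_lit 78) (nat_lit 76) (nat_lit 0) (XT.lf (nat_lit 0) (nat_lit 132562640306) (nat_lit 152) (nat_lit 68936151654) (nat_lit 0) (nat_lit 68147545166) (nat_lit 164) (nat_lit 5) (nat_lit 166) (nat_lit 4) (nat_lit 164) (nat_lit 4) (nat_lit 461) (nat_lit 370) (nat_lit 189)) (XT.lf (nat_lit 0) (nat_lit 113782294339) (nat_lit 76) (nat_lit 114571349126) (nat_lit 76) (nat_lit 50155805686) (nat_lit 163) (nat_lit 4) (nat_lit 164) (nat_lit 5) (nat_lit 164) (nat_lit 4) (nat_lit 462) (nat_lit 370) (nat_lit 188))) (XT.nd (nat_lit 78) (nat_lit 0) (nat_lit 0) (XT.lf (nat_lit 0) (nat_lit 20257268653) (nat_lit 76) (nat_lit 21046750393) (nat_lit 152) (nat_lit 246404519637) (nat_lit 161) (nat_lit 5) (nat_lit 162) (nat_lit 5) (nat_lit 163) (nat_lit 4) (nat_lit 463) (nat_lit 370) (nat_lit 187)) (XT.lf (nat_lit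 0) (nat_lit 139690039763) (nat_lit 152) (nat_lit 79093383903) (nat_lit 0) (nat_lit 78341109273) (nat_lit 161) (nat_lit 5) (nat_lit 163) (nat_lit 4) (nat_lit 161) (nat_lit 4) (nat_lit 464) (nat_lit 370) (nat_lit 186)))) (XT.nd (nat_lit 156) (nat_lit 76) (nat_lit 0) (XT.nd (nat_lit 78) (nat_lit 152) (nat_lit 0) (XT.lf (nat_lit 0) (nat_lit 122247572653) (nat_lit 76) (nat_lit 123000216101) (nat_lit 76) (nat_lit 61650916794) (nat_lit 160) (nat_lit 4) (nat_lit 161) (nat_lit 5) (nat_lit 161) (nat_lit 4) (nat_lit 465) (nat_lit 370) (nat_lit 185)) (XT.lf (nat_lit 0) (nat_lit 19292261749) (nat_lit 76) (nat_lit 20045256451) (nat_lit 152) (nat_lit 277710613553) (nat_lit 158) (nat_lit 5) (nat_lit 159) (nat_lit 5) (nat_lit 160) (nat_lit 4) (nat_lit 466) (nat_lit 370) (nat_lit 184))) (XT.nd (nat_lit 78) (nat_lit 76) (nat_lit 0) (XT.lf (nat_lit 0) (nat_lit 147855517629) (nat_lit 152) (nat_lit 90144416811) (nat_lit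 0) (nat_lit 89426960401) (nat_lit 158) (nat_lit 5) (nat_lit 160) (nat_lit 4) (nat_lit 158) (nat_lit 4) (nat_lit 467) (nat_lit 370) (nat_lit 183)) (XT.lf (nat_lit 0) (nat_lit 131732909653) (nat_lit 76) (nat_lit 132450669490) (nat_lit 76) (nat_lit 74021808835) (nat_lit 157) (nat_lit 4) (nat_lit 158) (nat_lit 5) (nat_lit 158) (nat_lit 4) (nat_lit 468) (nat_lit 370) (nat_lit 182))))) (XT.nd (nat_lit 312) (nat_lit 304) (nat_lit 0) (XT.nd (nat_lit 156) (nat_lit 228) (nat_lit 0) (XT.nd (nat_lit 78) (nat_lit 0) (nat_lit 0) (XT.lf (nat_lit 0) (nat_lit 18373274052) (nat_lit 76) (nat_lit 19091322867) (nat_lit 152) (nat_lit 311937609387) (nat_lit 155) (nat_lit 5) (nat_lit 156) (nat_lit 5) (nat_lit 157) (nat_lit 4) (nat_lit 469) (nat_lit 370) (nat_lit 181)) (XT.lf (nat_lit 0) (nat_lit 157150852991) (nat_lit 152) (nat_lit 102187899831) (nat_lit 0) (nat_lit 101503781704) (nat_lit 155) (nat_lit 5) (nat_lit 157)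 (nat_lit 4) (nat_lit 155) (nat_lit 4) (nat_lit 470) (nat_lit 370) (nat_lit 180))) (XT.nd (nat_lit 78) (nat_lit 152) (nat_lit 0) (XT.lf (nat_lit 0) (nat_lit 142335586215) (nat_lit 76) (nat_lit 143019953972) (nat_lit 76) (nat_lit 87372633055) (nat_lit 154) (nat_lit 4) (nat_lit 155) (nat_lit 5) (nat_lit 155) (nat_lit 4) (nat_lit 471) (nat_lit 370) (nat_lit 179)) (XT.lf (nat_lit 0) (nat_lit 17498102382) (nat_lit 76) (nat_lit 18182707882) (nat_lit 152) (nat_lit 349398593965) (nat_lit 152) (nat_lit 5) (nat_lit 153) (nat_lit 5) (nat_lit 154) (nat_lit 4) (nat_lit 472) (nat_lit 370) (nat_lit 178)))) (XT.nd (nat_lit 156) (nat_lit 228) (nat_lit 0) (XT.nd (nat_lit 78) (nat_lit 76) (nat_lit 0) (XT.lf (nat_lit 0) (nat_lit 167677925148) (nat_lit 152) (nat_lit 115332255471) (nat_lit 0) (nat_lit 114680034594) (nat_lit 152) (nat_lit 5) (nat_lit 154) (nat_lit 4) (nat_lit 152) (nat_lit 4) (nat_lit 473) (nat_lit 370)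 (nat_lit 177)) (XT.lf (nat_lit 0) (nat_lit 154163204404) (nat_lit 76) (nat_lit 154815630653) (nat_lit 76) (nat_lit 101817534727) (nat_lit 151) (nat_lit 4) (nat_lit 152) (nat_lit 5) (nat_lit 152) (nat_lit 4) (nat_lit 474) (nat_lit 370) (nat_lit 176))) (XT.nd (nat_lit 78) (nat_lit 76) (nat_lit 0) (XT.lf (nat_lit 0) (nat_lit 16664650562) (nat_lit 76) (nat_lit 17317272403) (nat_lit 152) (nat_lit 390438096701) (nat_lit 149) (nat_lit 5) (nat_lit 150) (nat_lit 5) (nat_lit 151) (nat_lit 4) (nat_lit 475) (nat_lit 370) (nat_lit 175)) (XT.nd (nat_lit 78) (nat_lit 76) (nat_lit 0) (XT.lf (nat_lit 0) (nat_lit 179549716518) (nat_lit 152) (nat_lit 129696697778) (nat_lit 0) (nat_lit 129074975761) (nat_lit 149) (nat_lit 5) (nat_lit 151) (nat_lit 4) (nat_lit 149) (nat_lit 4) (nat_lit 476) (nat_lit 370) (nat_lit 174)) (XT.lf (nat_lit 0) (nat_lit 167334728119) (nat_lit 76) (nat_lit 167956619096) (nat_lit 76) (nat_lit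 117481709379) (nat_lit 148) (nat_lit 4) (nat_lit 149) (nat_lit 5) (nat_lit 149) (nat_lit 4) (nat_lit 477) (nat_lit 370) (nat_lit 173))))))))
noncomputable def xc220 : XT := (XT.nd (nat_lit 46254) (nat_lit 0) (nat_lit 5624) (XT.nd (nat_lit 45006) (nat_lit 0) (nat_lit 10032) (XT.nd (nat_lit 624) (nat_lit 456) (nat_lit 0) (XT.nd (nat_lit 312) (nat_lit 228) (nat_lit 0) (XT.nd (nat_lit 156) (nat_lit 228) (nat_lit 0) (XT.nd (nat_lit 78) (nat_lit 0) (nat_lit 0) (XT.lf (nat_lit 0) (nat_lit 15870923952) (nat_lit 76) (nat_lit 16492975843) (nat_lit 152) (nat_lit 435435342767) (nat_lit 146) (nat_lit 5) (nat_lit 147) (nat_lit 5) (nat_lit 148) (nat_lit 4) (nat_lit 478) (nat_lit 370) (nat_lit 172)) (XT.lf (nat_lit 0) (nat_lit 192891419766) (nat_lit 152) (nat_lit 145412354300) (nat_lit 0) (nat_lit 144819777974) (nat_lit 146) (nat_lit 5) (nat_lit 148) (nat_lit 4) (nat_lit 146) (nat_lit 4) (nat_lit 479) (nat_lit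 370) (nat_lit 171))) (XT.nd (nat_lit 78) (nat_lit 152) (nat_lit 0) (XT.lf (nat_lit 0) (nat_lit 181981631338) (nat_lit 76) (nat_lit 182574346667) (nat_lit 76) (nat_lit 134502565872) (nat_lit 145) (nat_lit 4) (nat_lit 146) (nat_lit 5) (nat_lit 146) (nat_lit 4) (nat_lit 480) (nat_lit 370) (nat_lit 170)) (XT.lf (nat_lit 0) (nat_lit 15115024311) (nat_lit 76) (nat_lit 15707872025) (nat_lit 152) (nat_lit 484807838384) (nat_lit 143) (nat_lit 5) (nat_lit 144) (nat_lit 5) (nat_lit 145) (nat_lit 4) (nat_lit 481) (nat_lit 370) (nat_lit 169)))) (XT.nd (nat_lit 156) (nat_lit 152) (nat_lit 0) (XT.nd (nat_lit 78) (nat_lit 76) (nat_lit 0) (XT.lf (nat_lit 0) (nat_lit 207841659802) (nat_lit 152) (nat_lit 162623502214) (nat_lit 0) (nat_lit 162058765268) (nat_lit 143) (nat_lit 5) (nat_lit 145) (nat_lit 4) (nat_lit 143) (nat_lit 4) (nat_lit 482) (nat_lit 370) (nat_lit 168)) (XT.lf (nat_lit 0) (nat_lit 198249164924)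 (nat_lit 76) (nat_lit 198814016229) (nat_lit 76) (nat_lit 153031007337) (nat_lit 142) (nat_lit 4) (nat_lit 143) (nat_lit 5) (nat_lit 143) (nat_lit 4) (nat_lit 483) (nat_lit 370) (nat_lit 167))) (XT.nd (nat_lit 78) (nat_lit 0) (nat_lit 0) (XT.lf (nat_lit 0) (nat_lit 14395144954) (nat_lit 76) (nat_lit 14960105172) (nat_lit 152) (nat_lit 539015322306) (nat_lit 140) (nat_lit 5) (nat_lit 141) (nat_lit 5) (nat_lit 142) (nat_lit 4) (nat_lit 484) (nat_lit 370) (nat_lit 166)) (XT.lf (nat_lit 0) (nat_lit 224553842357) (nat_lit 152) (nat_lit 181488930369) (nat_lit 0) (nat_lit 180950774232) (nat_lit 140) (nat_lit 5) (nat_lit 142) (nat_lit 4) (nat_lit 140) (nat_lit 4) (nat_lit 485) (nat_lit 370) (nat_lit 165))))) (XT.nd (nat_lit 312) (nat_lit 152) (nat_lit 0) (XT.nd (nat_lit 156) (nat_lit 76) (nat_lit 0) (XT.nd (nat_lit 78) (nat_lit 152) (nat_lit 0) (XT.lf (nat_lit 0) (nat_lit 216297754089) (nat_lit 76) (nat_lit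 216836004309) (nat_lit 76) (nat_lit 173232842101) (nat_lit 139) (nat_lit 4) (nat_lit 140) (nat_lit 5) (nat_lit 140) (nat_lit 4) (nat_lit 486) (nat_lit 370) (nat_lit 164)) (XT.lf (nat_lit 0) (nat_lit 13709566184) (nat_lit 76) (nat_lit 14247906008) (nat_lit 152) (nat_lit 598564121085) (nat_lit 137) (nat_lit 5) (nat_lit 138) (nat_lit 5) (nat_lit 139) (nat_lit 4) (nat_lit 487) (nat_lit 370) (nat_lit 163))) (XT.nd (nat_lit 78) (nat_lit 76) (nat_lit 0) (XT.lf (nat_lit 0) (nat_lit 243197642082) (nat_lit 152) (nat_lit 202183440189) (nat_lit 0) (nat_lit 201670654323) (nat_lit 137) (nat_lit 5) (nat_lit 139) (nat_lit 4) (nat_lit 137) (nat_lit 4) (nat_lit 488) (nat_lit 370) (nat_lit 162)) (XT.lf (nat_lit 0) (nat_lit 236304539858) (nat_lit 76) (nat_lit 236817403127) (nat_lit 76) (nat_lit 195290337965) (nat_lit 136) (nat_lit 4) (nat_lit 137) (nat_lit 5) (nat_lit 137) (nat_lit 4) (nat_lit 489) (nat_lit 370) (nat_lit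 161)))) (XT.nd (nat_lit 43914) (nat_lit 0) (nat_lit 12008) (XT.nd (nat_lit 43836) (nat_lit 0) (nat_lit 12008) (XT.lf (nat_lit 0) (nat_lit 13056650986) (nat_lit 76) (nat_lit 13569587971) (nat_lit 152) (nat_lit 664011949544) (nat_lit 134) (nat_lit 5) (nat_lit 135) (nat_lit 5) (nat_lit 136) (nat_lit 4) (nat_lit 490) (nat_lit 370) (nat_lit 160)) (XT.lf (nat_lit 0) (nat_lit 3020438127) (nat_lit 836) (nat_lit 3125732154) (nat_lit 836) (nat_lit 3125732154) (nat_lit 292) (nat_lit 3) (nat_lit 303) (nat_lit 3) (nat_lit 303) (nat_lit 5) (nat_lit 371) (nat_lit 371) (nat_lit 278))) (XT.nd (nat_lit 78) (nat_lit 0) (nat_lit 76) (XT.lf (nat_lit 76) (nat_lit 3120307452) (nat_lit 0) (nat_lit 3310433569) (nat_lit 836) (nat_lit 12564716829) (nat_lit 293) (nat_lit 5) (nat_lit 292) (nat_lit 3) (nat_lit 303) (nat_lit 5) (nat_lit 372) (nat_lit 371) (nat_lit 277)) (XT.lf (nat_lit 0) (nat_lit 7031080497) (nat_lit 760) (nat_lit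 6391293197) (nat_lit 836) (nat_lit 6037770711) (nat_lit 293) (nat_lit 5) (nat_lit 303) (nat_lit 5) (nat_lit 304) (nat_lit 5) (nat_lit 373) (nat_lit 371) (nat_lit 276)))))) (XT.nd (nat_lit 624) (nat_lit 2052) (nat_lit 0) (XT.nd (nat_lit 312) (nat_lit 0) (nat_lit 152) (XT.nd (nat_lit 156) (nat_lit 0) (nat_lit 76) (XT.nd (nat_lit 78) (nat_lit 0) (nat_lit 76) (XT.lf (nat_lit 76) (nat_lit 3621440959) (nat_lit 0) (nat_lit 4139201532) (nat_lit 836) (nat_lit 12182462519) (nat_lit 294) (nat_lit 5) (nat_lit 293) (nat_lit 5) (nat_lit 304) (nat_lit 5) (nat_lit 374) (nat_lit 371) (nat_lit 275)) (XT.lf (nat_lit 0) (nat_lit 8713163711) (nat_lit 760) (nat_lit 6184899986) (nat_lit 836) (nat_lit 5542825891) (nat_lit 294) (nat_lit 5) (nat_lit 304) (nat_lit 5) (nat_lit 305) (nat_lit 5) (nat_lit 375) (nat_lit 371) (nat_lit 274))) (XT.nd (nat_lit 78) (nat_lit 0) (nat_lit 76) (XT.lf (nat_lit 76) (nat_lit 4528679812)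 (nat_lit 0) (nat_lit 5312628944) (nat_lit 836) (nat_lit 11115854752) (nat_lit 295) (nat_lit 5) (nat_lit 294) (nat_lit 5) (nat_lit 305) (nat_lit 5) (nat_lit 376) (nat_lit 371) (nat_lit 273)) (XT.lf (nat_lit 0) (nat_lit 11196395590) (nat_lit 760) (nat_lit 5584815933) (nat_lit 836) (nat_lit 4709512873) (nat_lit 295) (nat_lit 5) (nat_lit 305) (nat_lit 5) (nat_lit 306) (nat_lit 5) (nat_lit 377) (nat_lit 371) (nat_lit 272)))) (XT.nd (nat_lit 156) (nat_lit 0) (nat_lit 76) (XT.nd (nat_lit 78) (nat_lit 0) (nat_lit 76) (XT.lf (nat_lit 76) (nat_lit 5895437550) (nat_lit 0) (nat_lit 6893297600) (nat_lit 836) (nat_lit 9253753260) (nat_lit 296) (nat_lit 5) (nat_lit 295) (nat_lit 5) (nat_lit 306) (nat_lit 5) (nat_lit 378) (nat_lit 371) (nat_lit 271)) (XT.lf (nat_lit 0) (nat_lit 14602041746) (nat_lit 760) (nat_lit 4537118542) (nat_lit 836) (nat_lit 3475612834) (nat_lit 296) (nat_lit 5) (nat_lit 306) (nat_lit 5)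 (nat_lit 307) (nat_lit 5) (nat_lit 379) (nat_lit 371) (nat_lit 270))) (XT.nd (nat_lit 78) (nat_lit 0) (nat_lit 76) (XT.lf (nat_lit 76) (nat_lit 7782165182) (nat_lit 0) (nat_lit 8949540226) (nat_lit 836) (nat_lit 6472682073) (nat_lit 297) (nat_lit 5) (nat_lit 296) (nat_lit 5) (nat_lit 307) (nat_lit 5) (nat_lit 380) (nat_lit 371) (nat_lit 269)) (XT.lf (nat_lit 0) (nat_lit 19064781977) (nat_lit 760) (nat_lit 2980833231) (nat_lit 76) (nat_lit 1773020866) (nat_lit 297) (nat_lit 5) (nat_lit 307) (nat_lit 5) (nat_lit 298) (nat_lit 5) (nat_lit 381) (nat_lit 371) (nat_lit 268))))) (XT.nd (nat_lit 312) (nat_lit 684) (nat_lit 0) (XT.nd (nat_lit 156) (nat_lit 912) (nat_lit 0) (XT.nd (nat_lit 78) (nat_lit 0) (nat_lit 0) (XT.lf (nat_lit 0) (nat_lit 10257010384) (nat_lit 760) (nat_lit 11556276662) (nat_lit 836) (nat_lit 2635371316) (nat_lit 287) (nat_lit 5) (nat_lit 297) (nat_lit 5) (nat_lit 298) (nat_lit 5)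 (nat_lit 382) (nat_lit 371) (nat_lit 267)) (XT.lf (nat_lit 0) (nat_lit 24253160418) (nat_lit 760) (nat_lit 488733338) (nat_lit 836) (nat_lit 366154190) (nat_lit 287) (nat_lit 5) (nat_lit 297) (nat_lit 5) (nat_lit 298) (nat_lit 5) (nat_lit 383) (nat_lit 371) (nat_lit 266))) (XT.nd (nat_lit 78) (nat_lit 380) (nat_lit 0) (XT.lf (nat_lit 0) (nat_lit 2333678424) (nat_lit 532) (nat_lit 12422709392) (nat_lit 76) (nat_lit 11023360213) (nat_lit 280) (nat_lit 5) (nat_lit 287) (nat_lit 5) (nat_lit 281) (nat_lit 5) (nat_lit 384) (nat_lit 371) (nat_lit 265)) (XT.lf (nat_lit 0) (nat_lit 1863063713) (nat_lit 380) (nat_lit 3337652252) (nat_lit 456) (nat_lit 21281791101) (nat_lit 275) (nat_lit 5) (nat_lit 280) (nat_lit 5) (nat_lit 281) (nat_lit 5) (nat_lit 385) (nat_lit 371) (nat_lit 264)))) (XT.nd (nat_lit 156) (nat_lit 304) (nat_lit 0) (XT.nd (nat_lit 78) (nat_lit 380) (nat_lit 0) (XT.lf (nat_lit 0) (nat_lit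 8552959799) (nat_lit 456) (nat_lit 10061482946) (nat_lit 76) (nat_lit 8588868590) (nat_lit 275) (nat_lit 5) (nat_lit 281) (nat_lit 5) (nat_lit 276) (nat_lit 5) (nat_lit 386) (nat_lit 371) (nat_lit 263)) (XT.lf (nat_lit 0) (nat_lit 5333232028) (nat_lit 380) (nat_lit 6870840973) (nat_lit 456) (nat_lit 15749519957) (nat_lit 270) (nat_lit 5) (nat_lit 275) (nat_lit 5) (nat_lit 276) (nat_lit 5) (nat_lit 387) (nat_lit 371) (nat_lit 262))) (XT.nd (nat_lit 78) (nat_lit 304) (nat_lit 0) (XT.lf (nat_lit 0) (nat_lit 16289654242) (nat_lit 456) (nat_lit 6981240140) (nat_lit 76) (nat_lit 5457898661) (nat_lit 270) (nat_lit 5) (nat_lit 276) (nat_lit 5) (nat_lit 271) (nat_lit 5) (nat_lit 388) (nat_lit 371) (nat_lit 261)) (XT.lf (nat_lit 0) (nat_lit 9628389848) (nat_lit 304) (nat_lit 11207876096) (nat_lit 380) (nat_lit 8693649619) (nat_lit 266) (nat_lit 5) (nat_lit 270) (nat_lit 5) (nat_lit 271) (nat_lit 5) (nat_lit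 389) (nat_lit 371) (nat_lit 260))))))) (XT.nd (nat_lit 1248) (nat_lit 1824) (nat_lit 0) (XT.nd (nat_lit 624) (nat_lit 1292) (nat_lit 0) (XT.nd (nat_lit 312) (nat_lit 608) (nat_lit 0) (XT.nd (nat_lit 156) (nat_lit 304) (nat_lit 0) (XT.nd (nat_lit 78) (nat_lit 380) (nat_lit 0) (XT.lf (nat_lit 0) (nat_lit 25747109095) (nat_lit 380) (nat_lit 3086168824) (nat_lit 76) (nat_lit 1530971246) (nat_lit 266) (nat_lit 5) (nat_lit 271) (nat_lit 5) (nat_lit 267) (nat_lit 5) (nat_lit 390) (nat_lit 371) (nat_lit 259)) (XT.lf (nat_lit 0) (nat_lit 90607657) (nat_lit 380) (nat_lit 16366410307) (nat_lit 76) (nat_lit 14762712766) (nat_lit 261) (nat_lit 5) (nat_lit 266) (nat_lit 5) (nat_lit 262) (nat_lit 5) (nat_lit 391) (nat_lit 371) (nat_lit 258))) (XT.nd (nat_lit 78) (nat_lit 0) (nat_lit 0) (XT.lf (nat_lit 0) (nat_lit 1650958124) (nat_lit 304) (nat_lit 3300846105) (nat_lit 380) (nat_lit 27158736220) (nat_lit 257)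 (nat_lit 5) (nat_lit 261) (nat_lit 5) (nat_lit 262) (nat_lit 5) (nat_lit 392) (nat_lit 371) (nat_lit 257)) (XT.lf (nat_lit 0) (nat_lit 10496390319) (nat_lit 380) (nat_lit 12070350915) (nat_lit 76) (nat_lit 10457132937) (nat_lit 257) (nat_lit 5) (nat_lit 262) (nat_lit 5) (nat_lit 258) (nat_lit 5) (nat_lit 393) (nat_lit 371) (nat_lit 256)))) (XT.nd (nat_lit 156) (nat_lit 304) (nat_lit 0) (XT.nd (nat_lit 78) (nat_lit 0) (nat_lit 0) (XT.lf (nat_lit 0) (nat_lit 7414851002) (nat_lit 304) (nat_lit 9067970020) (nat_lit 380) (nat_lit 17491822790) (nat_lit 253) (nat_lit 5) (nat_lit 257) (nat_lit 5) (nat_lit 258) (nat_lit 5) (nat_lit 394) (nat_lit 371) (nat_lit 255)) (XT.lf (nat_lit 0) (nat_lit 23050917645) (nat_lit 380) (nat_lit 6759253777) (nat_lit 76) (nat_lit 5148663294) (nat_lit 253) (nat_lit 5) (nat_lit 258) (nat_lit 5) (nat_lit 254) (nat_lit 5) (nat_lit 395) (nat_lit 371) (nat_lit 254))) (XT.nd (nat_lit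 78) (nat_lit 76) (nat_lit 0) (XT.lf (nat_lit 0) (nat_lit 14334965337) (nat_lit 228) (nat_lit 15980023839) (nat_lit 304) (nat_lit 5658867486) (nat_lit 250) (nat_lit 5) (nat_lit 253) (nat_lit 5) (nat_lit 254) (nat_lit 5) (nat_lit 396) (nat_lit 371) (nat_lit 253)) (XT.lf (nat_lit 0) (nat_lit 985253455) (nat_lit 304) (nat_lit 337869136) (nat_lit 76) (nat_lit 35710227041) (nat_lit 249) (nat_lit 5) (nat_lit 253) (nat_lit 5) (nat_lit 250) (nat_lit 5) (nat_lit 397) (nat_lit 371) (nat_lit 252))))) (XT.nd (nat_lit 312) (nat_lit 532) (nat_lit 0) (XT.nd (nat_lit 156) (nat_lit 228) (nat_lit 0) (XT.nd (nat_lit 78) (nat_lit 228) (nat_lit 0) (XT.lf (nat_lit 0) (nat_lit 8347406481) (nat_lit 380) (nat_lit 15696366479) (nat_lit 76) (nat_lit 14068605819) (nat_lit 245) (nat_lit 5) (nat_lit 250) (nat_lit 5) (nat_lit 246) (nat_lit 5) (nat_lit 398) (nat_lit 371) (nat_lit 251)) (XT.lf (nat_lit 0) (nat_lit 7279096047) (nat_lit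 228) (nat_lit 8935213632) (nat_lit 304) (nat_lit 23024217578) (nat_lit 242) (nat_lit 5) (nat_lit 245) (nat_lit 5) (nat_lit 246) (nat_lit 5) (nat_lit 399) (nat_lit 371) (nat_lit 250))) (XT.nd (nat_lit 78) (nat_lit 228) (nat_lit 0) (XT.lf (nat_lit 0) (nat_lit 24848496687) (nat_lit 304) (nat_lit 8578382474) (nat_lit 76) (nat_lit 6975407066) (nat_lit 242) (nat_lit 5) (nat_lit 246) (nat_lit 5) (nat_lit 243) (nat_lit 5) (nat_lit 400) (nat_lit 371) (nat_lit 249)) (XT.lf (nat_lit 0) (nat_lit 16342168057) (nat_lit 228) (nat_lit 17969639242) (nat_lit 304) (nat_lit 7292555134) (nat_lit 239) (nat_lit 5) (nat_lit 242) (nat_lit 5) (nat_lit 243) (nat_lit 5) (nat_lit 401) (nat_lit 371) (nat_lit 248)))) (XT.nd (nat_lit 156) (nat_lit 228) (nat_lit 0) (XT.nd (nat_lit 78) (nat_lit 228) (nat_lit 0) (XT.lf (nat_lit 0) (nat_lit 1481004836) (nat_lit 304) (nat_lit 82827150) (nat_lit 76) (nat_lit 41294457411) (nat_lit 238)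 (nat_lit 5) (nat_lit 242) (nat_lit 5) (nat_lit 239) (nat_lit 5) (nat_lit 402) (nat_lit 371) (nat_lit 247)) (XT.lf (nat_lit 0) (nat_lit 11120654901) (nat_lit 304) (nat_lit 17304003569) (nat_lit 76) (nat_lit 15710652247) (nat_lit 235) (nat_lit 5) (nat_lit 239) (nat_lit 5) (nat_lit 236) (nat_lit 5) (nat_lit 403) (nat_lit 371) (nat_lit 246))) (XT.nd (nat_lit 78) (nat_lit 0) (nat_lit 0) (XT.lf (nat_lit 0) (nat_lit 9903279638) (nat_lit 228) (nat_lit 11516783696) (nat_lit 304) (nat_lit 24047230977) (nat_lit 232) (nat_lit 5) (nat_lit 235) (nat_lit 5) (nat_lit 236) (nat_lit 5) (nat_lit 404) (nat_lit 371) (nat_lit 245)) (XT.lf (nat_lit 0) (nat_lit 32625825571) (nat_lit 304) (nat_lit 7887716000) (nat_lit 76) (nat_lit 6332766343) (nat_lit 232) (nat_lit 5) (nat_lit 236) (nat_lit 5) (nat_lit 233) (nat_lit 5) (nat_lit 405) (nat_lit 371) (nat_lit 244)))))) (XT.nd (nat_lit 624) (nat_lit 836) (nat_lit 0) (XT.nd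 (nat_lit 312) (nat_lit 380) (nat_lit 0) (XT.nd (nat_lit 156) (nat_lit 152) (nat_lit 0) (XT.nd (nat_lit 78) (nat_lit 304) (nat_lit 0) (XT.lf (nat_lit 0) (nat_lit 21671505874) (nat_lit 152) (nat_lit 23243864222) (nat_lit 228) (nat_lit 3352727392) (nat_lit 230) (nat_lit 5) (nat_lit 232) (nat_lit 5) (nat_lit 233) (nat_lit 5) (nat_lit 406) (nat_lit 371) (nat_lit 243)) (XT.lf (nat_lit 0) (nat_lit 3196805122) (nat_lit 228) (nat_lit 4785743177) (nat_lit 304) (nat_lit 41763034890) (nat_lit 226) (nat_lit 5) (nat_lit 229) (nat_lit 5) (nat_lit 230) (nat_lit 5) (nat_lit 407) (nat_lit 371) (nat_lit 242))) (XT.nd (nat_lit 78) (nat_lit 152) (nat_lit 0) (XT.lf (nat_lit 0) (nat_lit 20454018784) (nat_lit 304) (nat_lit 16167191821) (nat_lit 76) (nat_lit 14638879201) (nat_lit 226) (nat_lit 5) (nat_lit 230) (nat_lit 5) (nat_lit 227) (nat_lit 5) (nat_lit 408) (nat_lit 371) (nat_lit 241)) (XT.lf (nat_lit 0) (nat_lit 16166942837)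 (nat_lit 152) (nat_lit 17709577631) (nat_lit 228) (nat_lit 18957428401) (nat_lit 224) (nat_lit 5) (nat_lit 226) (nat_lit 5) (nat_lit 227) (nat_lit 5) (nat_lit 409) (nat_lit 371) (nat_lit 240)))) (XT.nd (nat_lit 156) (nat_lit 152) (nat_lit 0) (XT.nd (nat_lit 78) (nat_lit 228) (nat_lit 0) (XT.lf (nat_lit 0) (nat_lit 48278601931) (nat_lit 228) (nat_lit 3837321423) (nat_lit 76) (nat_lit 2355154796) (nat_lit 224) (nat_lit 5) (nat_lit 227) (nat_lit 5) (nat_lit 225) (nat_lit 5) (nat_lit 410) (nat_lit 371) (nat_lit 239)) (XT.lf (nat_lit 0) (nat_lit 7769107669) (nat_lit 228) (nat_lit 24935203646) (nat_lit 76) (nat_lit 23440664987) (nat_lit 221) (nat_lit 5) (nat_lit 224) (nat_lit 5) (nat_lit 222) (nat_lit 5) (nat_lit 411) (nat_lit 371) (nat_lit 238))) (XT.nd (nat_lit 78) (nat_lit 0) (nat_lit 0) (XT.lf (nat_lit 0) (nat_lit 10470340661) (nat_lit 152) (nat_lit 11976662207) (nat_lit 228) (nat_lit 35439173698)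 (nat_lit 219) (nat_lit 5) (nat_lit 221) (nat_lit 5) (nat_lit 222) (nat_lit 5) (nat_lit 412) (nat_lit 371) (nat_lit 237)) (XT.lf (nat_lit 0) (nat_lit 38437666735) (nat_lit 228) (nat_lit 11346552893) (nat_lit 76) (nat_lit 9901273518) (nat_lit 219) (nat_lit 5) (nat_lit 222) (nat_lit 5) (nat_lit 220) (nat_lit 5) (nat_lit 413) (nat_lit 371) (nat_lit 236))))) (XT.nd (nat_lit 312) (nat_lit 304) (nat_lit 0) (XT.nd (nat_lit 156) (nat_lit 152) (nat_lit 0) (XT.nd (nat_lit 78) (nat_lit 228) (nat_lit 0) (XT.lf (nat_lit 0) (nat_lit 27195170219) (nat_lit 152) (nat_lit 28650628096) (nat_lit 228) (nat_lit 5698080516) (nat_lit 217) (nat_lit 5) (nat_lit 219) (nat_lit 5) (nat_lit 220) (nat_lit 5) (nat_lit 414) (nat_lit 371) (nat_lit 235)) (XT.lf (nat_lit 0) (nat_lit 4543533898) (nat_lit 152) (nat_lit 6008685585) (nat_lit 228) (nat_lit 52921503469) (nat_lit 214) (nat_lit 5) (nat_lit 216) (nat_lit 5) (nat_lit 217) (nat_lit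 5) (nat_lit 415) (nat_lit 371) (nat_lit 234))) (XT.nd (nat_lit 78) (nat_lit 152) (nat_lit 0) (XT.lf (nat_lit 0) (nat_lit 28289206391) (nat_lit 228) (nat_lit 19283537111) (nat_lit 76) (nat_lit 17879361980) (nat_lit 214) (nat_lit 5) (nat_lit 217) (nat_lit 5) (nat_lit 215) (nat_lit 5) (nat_lit 416) (nat_lit 371) (nat_lit 233)) (XT.lf (nat_lit 0) (nat_lit 22977464671) (nat_lit 152) (nat_lit 24390013680) (nat_lit 228) (nat_lit 20139207004) (nat_lit 212) (nat_lit 5) (nat_lit 214) (nat_lit 5) (nat_lit 215) (nat_lit 5) (nat_lit 417) (nat_lit 371) (nat_lit 232)))) (XT.nd (nat_lit 156) (nat_lit 152) (nat_lit 0) (XT.nd (nat_lit 78) (nat_lit 152) (nat_lit 0) (XT.lf (nat_lit 0) (nat_lit 67728058141) (nat_lit 228) (nat_lit 1636198246) (nat_lit 76) (nat_lit 283318121) (nat_lit 212) (nat_lit 5) (nat_lit 215) (nat_lit 5) (nat_lit 213) (nat_lit 4) (nat_lit 418) (nat_lit 371) (nat_lit 231)) (XT.lf (nat_lit 0) (nat_lit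 17768858482) (nat_lit 152) (nat_lit 27708949750) (nat_lit 76) (nat_lit 26348835954) (nat_lit 210) (nat_lit 5) (nat_lit 212) (nat_lit 5) (nat_lit 211) (nat_lit 5) (nat_lit 419) (nat_lit 371) (nat_lit 230))) (XT.nd (nat_lit 78) (nat_lit 0) (nat_lit 0) (XT.lf (nat_lit 0) (nat_lit 18663527559) (nat_lit 152) (nat_lit 20030530565) (nat_lit 228) (nat_lit 35403190130) (nat_lit 208) (nat_lit 5) (nat_lit 210) (nat_lit 5) (nat_lit 211) (nat_lit 5) (nat_lit 420) (nat_lit 371) (nat_lit 229)) (XT.lf (nat_lit 0) (nat_lit 61244292723) (nat_lit 228) (nat_lit 8258153699) (nat_lit 76) (nat_lit 6949997357) (nat_lit 208) (nat_lit 5) (nat_lit 211) (nat_lit 5) (nat_lit 209) (nat_lit 4) (nat_lit 421) (nat_lit 371) (nat_lit 228))))))))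
noncomputable def xc221 : XT := (XT.nd (nat_lit 2496) (nat_lit 2508) (nat_lit 0) (XT.nd (nat_lit 1248) (nat_lit 1140) (nat_lit 0) (XT.nd (nat_lit 624) (nat_lit 608) (nat_lit 0) (XT.nd (nat_lit 312) (nat_lit 532) (nat_lit 0) (XT.nd (nat_lit 156) (nat_lit 76) (nat_lit 0) (XT.nd (nat_lit 78) (nat_lit 152) (nat_lit 0) (XT.lf (nat_lit 0) (nat_lit 6807130149) (nat_lit 152) (nat_lit 36688787103) (nat_lit 76) (nat_lit 35374679602) (nat_lit 206) (nat_lit 5) (nat_lit 208) (nat_lit 5) (nat_lit 207) (nat_lit 5) (nat_lit 422) (nat_lit 371) (nat_lit 227)) (XT.lf (nat_lit 0) (nat_lit 14227047621) (nat_lit 152) (nat_lit 15546822892) (nat_lit 228) (nat_lit 51605231938) (nat_lit 204) (nat_lit 5) (nat_lit 206) (nat_lit 5) (nat_lit 207) (nat_lit 5) (nat_lit 423) (nat_lit 371) (nat_lit 226))) (XT.nd (nat_lit 78) (nat_lit 76) (nat_lit 0) (XT.lf (nat_lit 0) (nat_lit 54733462378) (nat_lit 228) (nat_lit 15249707446) (nat_lit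 76) (nat_lit 13987637781) (nat_lit 204) (nat_lit 5) (nat_lit 207) (nat_lit 5) (nat_lit 205) (nat_lit 4) (nat_lit 424) (nat_lit 371) (nat_lit 225)) (XT.lf (nat_lit 0) (nat_lit 40277716669) (nat_lit 76) (nat_lit 41544682366) (nat_lit 152) (nat_lit 4825630721) (nat_lit 203) (nat_lit 5) (nat_lit 204) (nat_lit 5) (nat_lit 205) (nat_lit 4) (nat_lit 425) (nat_lit 371) (nat_lit 224)))) (XT.nd (nat_lit 156) (nat_lit 304) (nat_lit 0) (XT.nd (nat_lit 78) (nat_lit 0) (nat_lit 0) (XT.lf (nat_lit 0) (nat_lit 9639878548) (nat_lit 152) (nat_lit 10911507134) (nat_lit 228) (nat_lit 68870951835) (nat_lit 200) (nat_lit 5) (nat_lit 202) (nat_lit 5) (nat_lit 203) (nat_lit 5) (nat_lit 426) (nat_lit 371) (nat_lit 223)) (XT.lf (nat_lit 0) (nat_lit 48162755206) (nat_lit 228) (nat_lit 22663785244) (nat_lit 76) (nat_lit 21448481023) (nat_lit 200) (nat_lit 5) (nat_lit 203) (nat_lit 5) (nat_lit 201) (nat_lit 4) (nat_lit 427)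 (nat_lit 371) (nat_lit 222))) (XT.nd (nat_lit 78) (nat_lit 228) (nat_lit 0) (XT.lf (nat_lit 0) (nat_lit 38355429157) (nat_lit 76) (nat_lit 39574761357) (nat_lit 152) (nat_lit 17301374249) (nat_lit 199) (nat_lit 5) (nat_lit 200) (nat_lit 5) (nat_lit 201) (nat_lit 4) (nat_lit 428) (nat_lit 371) (nat_lit 221)) (XT.lf (nat_lit 0) (nat_lit 4871795906) (nat_lit 152) (nat_lit 6094964277) (nat_lit 228) (nat_lit 87337506661) (nat_lit 196) (nat_lit 5) (nat_lit 198) (nat_lit 5) (nat_lit 199) (nat_lit 5) (nat_lit 429) (nat_lit 371) (nat_lit 220))))) (XT.nd (nat_lit 312) (nat_lit 304) (nat_lit 0) (XT.nd (nat_lit 156) (nat_lit 228) (nat_lit 0) (XT.nd (nat_lit 78) (nat_lit 76) (nat_lit 0) (XT.lf (nat_lit 0) (nat_lit 41497369653) (nat_lit 228) (nat_lit 30557964651) (nat_lit 76) (nat_lit 29389562874) (nat_lit 196) (nat_lit 5) (nat_lit 199) (nat_lit 5) (nat_lit 197) (nat_lit 4) (nat_lit 430) (nat_lit 371) (nat_lit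 219)) (XT.lf (nat_lit 0) (nat_lit 36525441702) (nat_lit 76) (nat_lit 37697157307) (nat_lit 152) (nat_lit 30486555548) (nat_lit 195) (nat_lit 5) (nat_lit 196) (nat_lit 5) (nat_lit 197) (nat_lit 4) (nat_lit 431) (nat_lit 371) (nat_lit 218))) (XT.nd (nat_lit 78) (nat_lit 152) (nat_lit 0) (XT.lf (nat_lit 0) (nat_lit 957053866) (nat_lit 152) (nat_lit 106252567) (nat_lit 76) (nat_lit 107046773538) (nat_lit 194) (nat_lit 5) (nat_lit 196) (nat_lit 5) (nat_lit 195) (nat_lit 5) (nat_lit 432) (nat_lit 371) (nat_lit 217)) (XT.lf (nat_lit 0) (nat_lit 34700255228) (nat_lit 228) (nat_lit 38994998719) (nat_lit 76) (nat_lit 37873210747) (nat_lit 192) (nat_lit 5) (nat_lit 195) (nat_lit 5) (nat_lit 193) (nat_lit 4) (nat_lit 433) (nat_lit 371) (nat_lit 216)))) (XT.nd (nat_lit 156) (nat_lit 228) (nat_lit 0) (XT.nd (nat_lit 78) (nat_lit 0) (nat_lit 0) (XT.lf (nat_lit 0) (nat_lit 34783223866) (nat_lit 76) (nat_lit 35907738133)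 (nat_lit 152) (nat_lit 44480789387) (nat_lit 191) (nat_lit 5) (nat_lit 192) (nat_lit 5) (nat_lit 193) (nat_lit 4) (nat_lit 434) (nat_lit 371) (nat_lit 215)) (XT.lf (nat_lit 0) (nat_lit 109209306609) (nat_lit 152) (nat_lit 5391464737) (nat_lit 0) (nat_lit 4318025939) (nat_lit 191) (nat_lit 5) (nat_lit 193) (nat_lit 4) (nat_lit 191) (nat_lit 4) (nat_lit 435) (nat_lit 371) (nat_lit 214))) (XT.nd (nat_lit 78) (nat_lit 76) (nat_lit 0) (XT.lf (nat_lit 0) (nat_lit 27731827507) (nat_lit 152) (nat_lit 48043389354) (nat_lit 76) (nat_lit 46967595481) (nat_lit 189) (nat_lit 5) (nat_lit 191) (nat_lit 5) (nat_lit 190) (nat_lit 4) (nat_lit 436) (nat_lit 371) (nat_lit 213)) (XT.lf (nat_lit 0) (nat_lit 33124484912) (nat_lit 76) (nat_lit 34202521715) (nat_lit 152) (nat_lit 59392658047) (nat_lit 188) (nat_lit 5) (nat_lit 189) (nat_lit 5) (nat_lit 190) (nat_lit 4) (nat_lit 437) (nat_lit 371) (nat_lit 212)))))) (XT.nd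 (nat_lit 624) (nat_lit 532) (nat_lit 0) (XT.nd (nat_lit 312) (nat_lit 380) (nat_lit 0) (XT.nd (nat_lit 156) (nat_lit 76) (nat_lit 0) (XT.nd (nat_lit 78) (nat_lit 152) (nat_lit 0) (XT.lf (nat_lit 0) (nat_lit 109874578102) (nat_lit 152) (nat_lit 11000442985) (nat_lit 0) (nat_lit 9971706866) (nat_lit 188) (nat_lit 5) (nat_lit 190) (nat_lit 4) (nat_lit 188) (nat_lit 4) (nat_lit 438) (nat_lit 371) (nat_lit 211)) (XT.lf (nat_lit 0) (nat_lit 20549655040) (nat_lit 152) (nat_lit 57778015928) (nat_lit 76) (nat_lit 56747342282) (nat_lit 186) (nat_lit 5) (nat_lit 188) (nat_lit 5) (nat_lit 187) (nat_lit 4) (nat_lit 439) (nat_lit 371) (nat_lit 210))) (XT.nd (nat_lit 78) (nat_lit 0) (nat_lit 0) (XT.lf (nat_lit 0) (nat_lit 31545158148) (nat_lit 76) (nat_lit 32577677058) (nat_lit 152) (nat_lit 75340682981) (nat_lit 185) (nat_lit 5) (nat_lit 186) (nat_lit 5) (nat_lit 187) (nat_lit 4) (nat_lit 440) (nat_lit 371)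 (nat_lit 209)) (XT.lf (nat_lit 0) (nat_lit 111108817402) (nat_lit 152) (nat_lit 16942974434) (nat_lit 0) (nat_lit 15957949383) (nat_lit 185) (nat_lit 5) (nat_lit 187) (nat_lit 4) (nat_lit 185) (nat_lit 4) (nat_lit 441) (nat_lit 371) (nat_lit 208)))) (XT.nd (nat_lit 156) (nat_lit 152) (nat_lit 0) (XT.nd (nat_lit 78) (nat_lit 76) (nat_lit 0) (XT.lf (nat_lit 0) (nat_lit 13108115504) (nat_lit 152) (nat_lit 68280825241) (nat_lit 76) (nat_lit 67294206182) (nat_lit 183) (nat_lit 5) (nat_lit 185) (nat_lit 5) (nat_lit 184) (nat_lit 4) (nat_lit 442) (nat_lit 371) (nat_lit 207)) (XT.lf (nat_lit 0) (nat_lit 30041386757) (nat_lit 76) (nat_lit 31029523919) (nat_lit 152) (nat_lit 92454394743) (nat_lit 182) (nat_lit 5) (nat_lit 183) (nat_lit 5) (nat_lit 184) (nat_lit 4) (nat_lit 443) (nat_lit 371) (nat_lit 206))) (XT.nd (nat_lit 78) (nat_lit 152) (nat_lit 0) (XT.lf (nat_lit 0) (nat_lit 112946601477) (nat_lit 152)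 (nat_lit 23264846269) (nat_lit 0) (nat_lit 22322386294) (nat_lit 182) (nat_lit 5) (nat_lit 184) (nat_lit 4) (nat_lit 182) (nat_lit 4) (nat_lit 444) (nat_lit 371) (nat_lit 205)) (XT.lf (nat_lit 0) (nat_lit 5358018091) (nat_lit 152) (nat_lit 79641589488) (nat_lit 76) (nat_lit 78697818119) (nat_lit 180) (nat_lit 5) (nat_lit 182) (nat_lit 5) (nat_lit 181) (nat_lit 4) (nat_lit 445) (nat_lit 371) (nat_lit 204))))) (XT.nd (nat_lit 312) (nat_lit 228) (nat_lit 0) (XT.nd (nat_lit 156) (nat_lit 228) (nat_lit 0) (XT.nd (nat_lit 78) (nat_lit 0) (nat_lit 0) (XT.lf (nat_lit 0) (nat_lit 28609510927) (nat_lit 76) (nat_lit 29554531243) (nat_lit 152) (nat_lit 110875511144) (nat_lit 179) (nat_lit 5) (nat_lit 180) (nat_lit 5) (nat_lit 181) (nat_lit 4) (nat_lit 446) (nat_lit 371) (nat_lit 203)) (XT.lf (nat_lit 0) (nat_lit 115427163520) (nat_lit 152) (nat_lit 30015968084) (nat_lit 0) (nat_lit 29114815904) (nat_lit 179)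 (nat_lit 5) (nat_lit 181) (nat_lit 4) (nat_lit 179) (nat_lit 4) (nat_lit 447) (nat_lit 371) (nat_lit 202))) (XT.nd (nat_lit 78) (nat_lit 152) (nat_lit 0) (XT.lf (nat_lit 0) (nat_lit 88256060088) (nat_lit 76) (nat_lit 89158291155) (nat_lit 76) (nat_lit 2844864652) (nat_lit 178) (nat_lit 4) (nat_lit 179) (nat_lit 5) (nat_lit 179) (nat_lit 4) (nat_lit 448) (nat_lit 371) (nat_lit 201)) (XT.lf (nat_lit 0) (nat_lit 27246056105) (nat_lit 76) (nat_lit 28149314684) (nat_lit 152) (nat_lit 130759234594) (nat_lit 176) (nat_lit 5) (nat_lit 177) (nat_lit 5) (nat_lit 178) (nat_lit 4) (nat_lit 449) (nat_lit 371) (nat_lit 200)))) (XT.nd (nat_lit 156) (nat_lit 152) (nat_lit 0) (XT.nd (nat_lit 78) (nat_lit 76) (nat_lit 0) (XT.lf (nat_lit 0) (nat_lit 118594820538) (nat_lit 152) (nat_lit 37250824885) (nat_lit 0) (nat_lit 36389646635) (nat_lit 176) (nat_lit 5) (nat_lit 178) (nat_lit 4) (nat_lit 176) (nat_lit 4) (nat_lit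 450) (nat_lit 371) (nat_lit 199)) (XT.lf (nat_lit 0) (nat_lit 93002113456) (nat_lit 76) (nat_lit 93864179308) (nat_lit 76) (nat_lit 11658117803) (nat_lit 175) (nat_lit 4) (nat_lit 176) (nat_lit 5) (nat_lit 176) (nat_lit 4) (nat_lit 451) (nat_lit 371) (nat_lit 198))) (XT.nd (nat_lit 78) (nat_lit 0) (nat_lit 0) (XT.lf (nat_lit 0) (nat_lit 25947722227) (nat_lit 76) (nat_lit 26810633416) (nat_lit 152) (nat_lit 152275680796) (nat_lit 173) (nat_lit 5) (nat_lit 174) (nat_lit 5) (nat_lit 175) (nat_lit 4) (nat_lit 452) (nat_lit 371) (nat_lit 197)) (XT.lf (nat_lit 0) (nat_lit 122499446549) (nat_lit 152) (nat_lit 45028974498) (nat_lit 0) (nat_lit 44206387573) (nat_lit 173) (nat_lit 5) (nat_lit 175) (nat_lit 4) (nat_lit 173) (nat_lit 4) (nat_lit 453) (nat_lit 371) (nat_lit 196))))))) (XT.nd (nat_lit 1248) (nat_lit 1292) (nat_lit 0) (XT.nd (nat_lit 624) (nat_lit 532) (nat_lit 0) (XT.nd (nat_lit 312) (nat_lit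 380) (nat_lit 0) (XT.nd (nat_lit 156) (nat_lit 76) (nat_lit 0) (XT.nd (nat_lit 78) (nat_lit 152) (nat_lit 0) (XT.lf (nat_lit 0) (nat_lit 98439673563) (nat_lit 76) (nat_lit 99262990721) (nat_lit 76) (nat_lit 20969201512) (nat_lit 172) (nat_lit 4) (nat_lit 173) (nat_lit 5) (nat_lit 173) (nat_lit 4) (nat_lit 454) (nat_lit 371) (nat_lit 195)) (XT.lf (nat_lit 0) (nat_lit 24711373806) (nat_lit 76) (nat_lit 25535386425) (nat_lit 152) (nat_lit 175611452210) (nat_lit 170) (nat_lit 5) (nat_lit 171) (nat_lit 5) (nat_lit 172) (nat_lit 4) (nat_lit 455) (nat_lit 371) (nat_lit 194))) (XT.nd (nat_lit 78) (nat_lit 76) (nat_lit 0) (XT.lf (nat_lit 0) (nat_lit 127196996082) (nat_lit 152) (nat_lit 53415594129) (nat_lit 0) (nat_lit 52630189403) (nat_lit 170) (nat_lit 5) (nat_lit 172) (nat_lit 4) (nat_lit 170) (nat_lit 4) (nat_lit 456) (nat_lit 371) (nat_lit 193)) (XT.lf (nat_lit 0) (nat_lit 104629809200) (nat_lit 76)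 (nat_lit 105415814691) (nat_lit 76) (nat_lit 30848407247) (nat_lit 169) (nat_lit 4) (nat_lit 170) (nat_lit 5) (nat_lit 170) (nat_lit 4) (nat_lit 457) (nat_lit 371) (nat_lit 192)))) (XT.nd (nat_lit 156) (nat_lit 228) (nat_lit 0) (XT.nd (nat_lit 78) (nat_lit 0) (nat_lit 0) (XT.lf (nat_lit 0) (nat_lit 23534030781) (nat_lit 76) (nat_lit 24320608429) (nat_lit 152) (nat_lit 200971371109) (nat_lit 167) (nat_lit 5) (nat_lit 168) (nat_lit 5) (nat_lit 169) (nat_lit 4) (nat_lit 458) (nat_lit 371) (nat_lit 191)) (XT.lf (nat_lit 0) (nat_lit 132750083145) (nat_lit 152) (nat_lit 62482081285) (nat_lit 0) (nat_lit 61732440752) (nat_lit 167) (nat_lit 5) (nat_lit 169) (nat_lit 4) (nat_lit 167) (nat_lit 4) (nat_lit 459) (nat_lit 371) (nat_lit 190))) (XT.nd (nat_lit 78) (nat_lit 152) (nat_lit 0) (XT.lf (nat_lit 0) (nat_lit 111640324222) (nat_lit 76) (nat_lit 112390459005) (nat_lit 76) (nat_lit 41372322362) (nat_lit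 166) (nat_lit 4) (nat_lit 167) (nat_lit 5) (nat_lit 167) (nat_lit 4) (nat_lit 460) (nat_lit 371) (nat_lit 189)) (XT.lf (nat_lit 0) (nat_lit 22412860028) (nat_lit 76) (nat_lit 23163465526) (nat_lit 152) (nat_lit 228580388584) (nat_lit 164) (nat_lit 5) (nat_lit 165) (nat_lit 5) (nat_lit 166) (nat_lit 4) (nat_lit 461) (nat_lit 371) (nat_lit 188))))) (XT.nd (nat_lit 312) (nat_lit 304) (nat_lit 0) (XT.nd (nat_lit 156) (nat_lit 152) (nat_lit 0) (XT.nd (nat_lit 78) (nat_lit 76) (nat_lit 0) (XT.lf (nat_lit 0) (nat_lit 139228621310) (nat_lit 152) (nat_lit 72306714777) (nat_lit 0) (nat_lit 71591425445) (nat_lit 164) (nat_lit 5) (nat_lit 166) (nat_lit 4) (nat_lit 164) (nat_lit 4) (nat_lit 462) (nat_lit 371) (nat_lit 187)) (XT.lf (nat_lit 0) (nat_lit 119546423766) (nat_lit 76) (nat_lit 120262119718) (nat_lit 76) (nat_lit 52624517232) (nat_lit 163) (nat_lit 4) (nat_lit 164) (nat_lit 5) (nat_lit 164) (nat_lit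 4) (nat_lit 463) (nat_lit 371) (nat_lit 186))) (XT.nd (nat_lit 78) (nat_lit 0) (nat_lit 0) (XT.lf (nat_lit 0) (nat_lit 21345167471) (nat_lit 76) (nat_lit 22061250682) (nat_lit 152) (nat_lit 258685687556) (nat_lit 161) (nat_lit 5) (nat_lit 162) (nat_lit 5) (nat_lit 163) (nat_lit 4) (nat_lit 464) (nat_lit 371) (nat_lit 185)) (XT.lf (nat_lit 0) (nat_lit 146710531180) (nat_lit 152) (nat_lit 82975382100) (nat_lit 0) (nat_lit 82293046835) (nat_lit 161) (nat_lit 5) (nat_lit 163) (nat_lit 4) (nat_lit 161) (nat_lit 4) (nat_lit 465) (nat_lit 371) (nat_lit 184)))) (XT.nd (nat_lit 156) (nat_lit 76) (nat_lit 0) (XT.nd (nat_lit 78) (nat_lit 152) (nat_lit 0) (XT.lf (nat_lit 0) (nat_lit 128431450171) (nat_lit 76) (nat_lit 129114119965) (nat_lit 76) (nat_lit 64696301092) (nat_lit 160) (nat_lit 4) (nat_lit 161) (nat_lit 5) (nat_lit 161) (nat_lit 4) (nat_lit 466) (nat_lit 371) (nat_lit 183)) (XT.lf (nat_lit 0) (nat_lit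 20328390731) (nat_lit 76) (nat_lit 21011379123) (nat_lit 152) (nat_lit 291558999699) (nat_lit 158) (nat_lit 5) (nat_lit 159) (nat_lit 5) (nat_lit 160) (nat_lit 4) (nat_lit 467) (nat_lit 371) (nat_lit 182))) (XT.nd (nat_lit 78) (nat_lit 76) (nat_lit 0) (XT.lf (nat_lit 0) (nat_lit 155282522076) (nat_lit 152) (nat_lit 94582380096) (nat_lit 0) (nat_lit 93931625983) (nat_lit 158) (nat_lit 5) (nat_lit 160) (nat_lit 4) (nat_lit 158) (nat_lit 4) (nat_lit 468) (nat_lit 371) (nat_lit 181)) (XT.lf (nat_lit 0) (nat_lit 138387695634) (nat_lit 76) (nat_lit 139038724965) (nat_lit 76) (nat_lit 77687553654) (nat_lit 157) (nat_lit 4) (nat_lit 158) (nat_lit 5) (nat_lit 158) (nat_lit 4) (nat_lit 469) (nat_lit 371) (nat_lit 180)))))) (XT.nd (nat_lit 624) (nat_lit 684) (nat_lit 0) (XT.nd (nat_lit 312) (nat_lit 228) (nat_lit 0) (XT.nd (nat_lit 156) (nat_lit 228) (nat_lit 0) (XT.nd (nat_lit 78) (nat_lit 0) (nat_lit 0)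 (XT.lf (nat_lit 0) (nat_lit 19360092247) (nat_lit 76) (nat_lit 20011383689) (nat_lit 152) (nat_lit 327499158227) (nat_lit 155) (nat_lit 5) (nat_lit 156) (nat_lit 5) (nat_lit 157) (nat_lit 4) (nat_lit 470) (nat_lit 371) (nat_lit 179)) (XT.lf (nat_lit 0) (nat_lit 165040955541) (nat_lit 152) (nat_lit 107231296512) (nat_lit 0) (nat_lit 106610781205) (nat_lit 155) (nat_lit 5) (nat_lit 157) (nat_lit 4) (nat_lit 155) (nat_lit 4) (nat_lit 471) (nat_lit 371) (nat_lit 178))) (XT.nd (nat_lit 78) (nat_lit 152) (nat_lit 0) (XT.lf (nat_lit 0) (nat_lit 149517299347) (nat_lit 76) (nat_lit 150138041076) (nat_lit 76) (nat_lit 91707640318) (nat_lit 154) (nat_lit 4) (nat_lit 155) (nat_lit 5) (nat_lit 155) (nat_lit 4) (nat_lit 472) (nat_lit 371) (nat_lit 177)) (XT.lf (nat_lit 0) (nat_lit 18437952835) (nat_lit 76) (nat_lit 19058910204) (nat_lit 152) (nat_lit 366834910788) (nat_lit 152) (nat_lit 5) (nat_lit 153) (nat_lit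 5) (nat_lit 154) (nat_lit 4) (nat_lit 473) (nat_lit 371) (nat_lit 176)))) (XT.nd (nat_lit 156) (nat_lit 152) (nat_lit 0) (XT.nd (nat_lit 78) (nat_lit 76) (nat_lit 0) (XT.lf (nat_lit 0) (nat_lit 176092798968) (nat_lit 152) (nat_lit 121035980845) (nat_lit 0) (nat_lit 120444397283) (nat_lit 152) (nat_lit 5) (nat_lit 154) (nat_lit 4) (nat_lit 152) (nat_lit 4) (nat_lit 474) (nat_lit 371) (nat_lit 175)) (XT.lf (nat_lit 0) (nat_lit 161933237711) (nat_lit 76) (nat_lit 162525007551) (nat_lit 76) (nat_lit 106876419588) (nat_lit 151) (nat_lit 4) (nat_lit 152) (nat_lit 5) (nat_lit 152) (nat_lit 4) (nat_lit 475) (nat_lit 371) (nat_lit 174))) (XT.nd (nat_lit 78) (nat_lit 0) (nat_lit 0) (XT.lf (nat_lit 0) (nat_lit 17559765649) (nat_lit 76) (nat_lit 18151712896) (nat_lit 152) (nat_lit 409928019133) (nat_lit 149) (nat_lit 5) (nat_lit 150) (nat_lit 5) (nat_lit 151) (nat_lit 4) (nat_lit 476) (nat_lit 371) (nat_lit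 173)) (XT.lf (nat_lit 0) (nat_lit 188556678568) (nat_lit 152) (nat_lit 136121613689) (nat_lit 0) (nat_lit 135557693492) (nat_lit 149) (nat_lit 5) (nat_lit 151) (nat_lit 4) (nat_lit 149) (nat_lit 4) (nat_lit 477) (nat_lit 371) (nat_lit 172))))) (XT.nd (nat_lit 312) (nat_lit 380) (nat_lit 0) (XT.nd (nat_lit 156) (nat_lit 76) (nat_lit 0) (XT.nd (nat_lit 78) (nat_lit 152) (nat_lit 0) (XT.lf (nat_lit 0) (nat_lit 175760417068) (nat_lit 76) (nat_lit 176324490516) (nat_lit 76) (nat_lit 123325352189) (nat_lit 148) (nat_lit 4) (nat_lit 149) (nat_lit 5) (nat_lit 149) (nat_lit 4) (nat_lit 478) (nat_lit 371) (nat_lit 171)) (XT.lf (nat_lit 0) (nat_lit 16723430485) (nat_lit 76) (nat_lit 17287649888) (nat_lit 152) (nat_lit 457176675038) (nat_lit 146) (nat_lit 5) (nat_lit 147) (nat_lit 5) (nat_lit 148) (nat_lit 4) (nat_lit 479) (nat_lit 371) (nat_lit 170))) (XT.nd (nat_lit 78) (nat_lit 76) (nat_lit 0) (XT.lf (nat_lit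 0) (nat_lit 202564041780) (nat_lit 152) (nat_lit 152625884753) (nat_lit 0) (nat_lit 152088400557) (nat_lit 146) (nat_lit 5) (nat_lit 148) (nat_lit 4) (nat_lit 146) (nat_lit 4) (nat_lit 480) (nat_lit 371) (nat_lit 169)) (XT.lf (nat_lit 0) (nat_lit 191136879404) (nat_lit 76) (nat_lit 191674489681) (nat_lit 76) (nat_lit 141198722377) (nat_lit 145) (nat_lit 4) (nat_lit 146) (nat_lit 5) (nat_lit 146) (nat_lit 4) (nat_lit 481) (nat_lit 371) (nat_lit 168)))) (XT.nd (nat_lit 156) (nat_lit 228) (nat_lit 0) (XT.nd (nat_lit 78) (nat_lit 0) (nat_lit 0) (XT.lf (nat_lit 0) (nat_lit 15926948437) (nat_lit 76) (nat_lit 16464678790) (nat_lit 152) (nat_lit 509019264926) (nat_lit 143) (nat_lit 5) (nat_lit 144) (nat_lit 5) (nat_lit 145) (nat_lit 4) (nat_lit 482) (nat_lit 371) (nat_lit 167)) (XT.lf (nat_lit 0) (nat_lit 218260440310) (nat_lit 152) (nat_lit 170700290760) (nat_lit 0) (nat_lit 170188057702) (nat_lit 143)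 (nat_lit 5) (nat_lit 145) (nat_lit 4) (nat_lit 143) (nat_lit 4) (nat_lit 483) (nat_lit 371) (nat_lit 166))) (XT.nd (nat_lit 78) (nat_lit 152) (nat_lit 0) (XT.lf (nat_lit 0) (nat_lit 208215132533) (nat_lit 76) (nat_lit 208727469317) (nat_lit 76) (nat_lit 160654982983) (nat_lit 142) (nat_lit 4) (nat_lit 143) (nat_lit 5) (nat_lit 143) (nat_lit 4) (nat_lit 484) (nat_lit 371) (nat_lit 165)) (XT.lf (nat_lit 0) (nat_lit 15168416838) (nat_lit 76) (nat_lit 15680852410) (nat_lit 152) (nat_lit 565938518975) (nat_lit 140) (nat_lit 5) (nat_lit 141) (nat_lit 5) (nat_lit 142) (nat_lit 4) (nat_lit 485) (nat_lit 371) (nat_lit 164))))))))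
noncomputable def xc222 : XT := (XT.nd (nat_lit 46332) (nat_lit 0) (nat_lit 4560) (XT.nd (nat_lit 45084) (nat_lit 0) (nat_lit 8588) (XT.nd (nat_lit 44460) (nat_lit 0) (nat_lit 11932) (XT.nd (nat_lit 312) (nat_lit 76) (nat_lit 0) (XT.nd (nat_lit 156) (nat_lit 152) (nat_lit 0) (XT.nd (nat_lit 78) (nat_lit 76) (nat_lit 0) (XT.lf (nat_lit 0) (nat_lit 235806946084) (nat_lit 152) (nat_lit 190511565561) (nat_lit 0) (nat_lit 190023442080) (nat_lit 140) (nat_lit 5) (nat_lit 142) (nat_lit 4) (nat_lit 140) (nat_lit 4) (nat_lit 486) (nat_lit 371) (nat_lit 163)) (XT.lf (nat_lit 0) (nat_lit 227163617454) (nat_lit 76) (nat_lit 227651826270) (nat_lit 76) (nat_lit 181868236930) (nat_lit 139) (nat_lit 4) (nat_lit 140) (nat_lit 5) (nat_lit 140) (nat_lit 4) (nat_lit 487) (nat_lit 371) (nat_lit 162))) (XT.nd (nat_lit 78) (nat_lit 0) (nat_lit 0) (XT.lf (nat_lit 0) (nat_lit 14446024493) (nat_lit 76) (nat_lit 14934314582)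 (nat_lit 152) (nat_lit 628466084202) (nat_lit 137) (nat_lit 5) (nat_lit 138) (nat_lit 5) (nat_lit 139) (nat_lit 4) (nat_lit 488) (nat_lit 371) (nat_lit 161)) (XT.lf (nat_lit 0) (nat_lit 255381713709) (nat_lit 152) (nat_lit 212243256067) (nat_lit 0) (nat_lit 211778144171) (nat_lit 137) (nat_lit 5) (nat_lit 139) (nat_lit 4) (nat_lit 137) (nat_lit 4) (nat_lit 489) (nat_lit 371) (nat_lit 160)))) (XT.nd (nat_lit 43992) (nat_lit 0) (nat_lit 11856) (XT.nd (nat_lit 43914) (nat_lit 0) (nat_lit 11856) (XT.lf (nat_lit 0) (nat_lit 248168326916) (nat_lit 76) (nat_lit 248633509018) (nat_lit 76) (nat_lit 205029869274) (nat_lit 136) (nat_lit 4) (nat_lit 137) (nat_lit 5) (nat_lit 137) (nat_lit 4) (nat_lit 490) (nat_lit 371) (nat_lit 159)) (XT.lf (nat_lit 0) (nat_lit 3358617749) (nat_lit 836) (nat_lit 3183760961) (nat_lit 836) (nat_lit 3183760961) (nat_lit 292) (nat_lit 3) (nat_lit 303) (nat_lit 3) (nat_lit 303)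 (nat_lit 5) (nat_lit 372) (nat_lit 372) (nat_lit 276))) (XT.nd (nat_lit 78) (nat_lit 0) (nat_lit 76) (XT.lf (nat_lit 76) (nat_lit 3469668820) (nat_lit 0) (nat_lit 3642118813) (nat_lit 836) (nat_lit 12815467633) (nat_lit 293) (nat_lit 5) (nat_lit 292) (nat_lit 3) (nat_lit 303) (nat_lit 5) (nat_lit 373) (nat_lit 372) (nat_lit 275)) (XT.lf (nat_lit 0) (nat_lit 7722553837) (nat_lit 760) (nat_lit 6507128569) (nat_lit 836) (nat_lit 6186473254) (nat_lit 293) (nat_lit 5) (nat_lit 303) (nat_lit 5) (nat_lit 304) (nat_lit 5) (nat_lit 374) (nat_lit 372) (nat_lit 274))))) (XT.nd (nat_lit 312) (nat_lit 0) (nat_lit 152) (XT.nd (nat_lit 156) (nat_lit 0) (nat_lit 76) (XT.nd (nat_lit 78) (nat_lit 0) (nat_lit 76) (XT.lf (nat_lit 76) (nat_lit 4002956338) (nat_lit 0) (nat_lit 4472580441) (nat_lit 836) (nat_lit 12448380374) (nat_lit 294) (nat_lit 5) (nat_lit 293) (nat_lit 5) (nat_lit 304) (nat_lit 5) (nat_lit 375) (nat_lit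 372) (nat_lit 273)) (XT.lf (nat_lit 0) (nat_lit 9458239431) (nat_lit 760) (nat_lit 6285801946) (nat_lit 836) (nat_lit 5703421814) (nat_lit 294) (nat_lit 5) (nat_lit 304) (nat_lit 5) (nat_lit 305) (nat_lit 5) (nat_lit 376) (nat_lit 372) (nat_lit 272))) (XT.nd (nat_lit 78) (nat_lit 0) (nat_lit 76) (XT.lf (nat_lit 76) (nat_lit 4960096471) (nat_lit 0) (nat_lit 5671161443) (nat_lit 836) (nat_lit 11358869584) (nat_lit 295) (nat_lit 5) (nat_lit 294) (nat_lit 5) (nat_lit 305) (nat_lit 5) (nat_lit 377) (nat_lit 372) (nat_lit 271)) (XT.lf (nat_lit 0) (nat_lit 12038532773) (nat_lit 760) (nat_lit 5653268825) (nat_lit 836) (nat_lit 4859343147) (nat_lit 295) (nat_lit 5) (nat_lit 305) (nat_lit 5) (nat_lit 306) (nat_lit 5) (nat_lit 378) (nat_lit 372) (nat_lit 270)))) (XT.nd (nat_lit 156) (nat_lit 0) (nat_lit 76) (XT.nd (nat_lit 78) (nat_lit 0) (nat_lit 76) (XT.lf (nat_lit 76) (nat_lit 6397597527) (nat_lit 0) (nat_lit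 7302686008) (nat_lit 836) (nat_lit 9430723715) (nat_lit 296) (nat_lit 5) (nat_lit 295) (nat_lit 5) (nat_lit 306) (nat_lit 5) (nat_lit 379) (nat_lit 372) (nat_lit 269)) (XT.lf (nat_lit 0) (nat_lit 15590335368) (nat_lit 760) (nat_lit 4552541901) (nat_lit 836) (nat_lit 3589724932) (nat_lit 296) (nat_lit 5) (nat_lit 306) (nat_lit 5) (nat_lit 307) (nat_lit 5) (nat_lit 380) (nat_lit 372) (nat_lit 268))) (XT.nd (nat_lit 78) (nat_lit 0) (nat_lit 76) (XT.lf (nat_lit 76) (nat_lit 8379295807) (nat_lit 0) (nat_lit 9438139384) (nat_lit 836) (nat_lit 6534714439) (nat_lit 297) (nat_lit 5) (nat_lit 296) (nat_lit 5) (nat_lit 307) (nat_lit 5) (nat_lit 381) (nat_lit 372) (nat_lit 267)) (XT.lf (nat_lit 0) (nat_lit 20254690105) (nat_lit 760) (nat_lit 2919282871) (nat_lit 76) (nat_lit 1823761451) (nat_lit 297) (nat_lit 5) (nat_lit 307) (nat_lit 5) (nat_lit 298) (nat_lit 5) (nat_lit 382) (nat_lit 372) (nat_lit 266))))))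 (XT.nd (nat_lit 624) (nat_lit 1292) (nat_lit 0) (XT.nd (nat_lit 312) (nat_lit 684) (nat_lit 0) (XT.nd (nat_lit 156) (nat_lit 912) (nat_lit 0) (XT.nd (nat_lit 78) (nat_lit 0) (nat_lit 0) (XT.lf (nat_lit 0) (nat_lit 10977056279) (nat_lit 760) (nat_lit 12155529094) (nat_lit 836) (nat_lit 2527074208) (nat_lit 287) (nat_lit 5) (nat_lit 297) (nat_lit 5) (nat_lit 298) (nat_lit 5) (nat_lit 383) (nat_lit 372) (nat_lit 265)) (XT.lf (nat_lit 0) (nat_lit 25663147368) (nat_lit 760) (nat_lit 533587718) (nat_lit 836) (nat_lit 155827924) (nat_lit 287) (nat_lit 5) (nat_lit 297) (nat_lit 5) (nat_lit 298) (nat_lit 5) (nat_lit 384) (nat_lit 372) (nat_lit 264))) (XT.nd (nat_lit 78) (nat_lit 380) (nat_lit 0) (XT.lf (nat_lit 0) (nat_lit 2664086978) (nat_lit 532) (nat_lit 12831606589) (nat_lit 76) (nat_lit 11562355632) (nat_lit 280) (nat_lit 5) (nat_lit 287) (nat_lit 5) (nat_lit 281) (nat_lit 5) (nat_lit 385) (nat_lit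 372) (nat_lit 263)) (XT.lf (nat_lit 0) (nat_lit 2165031973) (nat_lit 380) (nat_lit 3502527247) (nat_lit 456) (nat_lit 22128732826) (nat_lit 275) (nat_lit 5) (nat_lit 280) (nat_lit 5) (nat_lit 281) (nat_lit 5) (nat_lit 386) (nat_lit 372) (nat_lit 262)))) (XT.nd (nat_lit 156) (nat_lit 304) (nat_lit 0) (XT.nd (nat_lit 78) (nat_lit 380) (nat_lit 0) (XT.lf (nat_lit 0) (nat_lit 9177597124) (nat_lit 456) (nat_lit 10355867471) (nat_lit 76) (nat_lit 9020162840) (nat_lit 275) (nat_lit 5) (nat_lit 281) (nat_lit 5) (nat_lit 276) (nat_lit 5) (nat_lit 387) (nat_lit 372) (nat_lit 261)) (XT.lf (nat_lit 0) (nat_lit 5805217290) (nat_lit 380) (nat_lit 7199873929) (nat_lit 456) (nat_lit 16336640658) (nat_lit 270) (nat_lit 5) (nat_lit 275) (nat_lit 5) (nat_lit 276) (nat_lit 5) (nat_lit 388) (nat_lit 372) (nat_lit 260))) (XT.nd (nat_lit 78) (nat_lit 304) (nat_lit 0) (XT.lf (nat_lit 0) (nat_lit 17286080855) (nat_lit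 456) (nat_lit 7125885136) (nat_lit 76) (nat_lit 5744169509) (nat_lit 270) (nat_lit 5) (nat_lit 276) (nat_lit 5) (nat_lit 271) (nat_lit 5) (nat_lit 389) (nat_lit 372) (nat_lit 259)) (XT.lf (nat_lit 0) (nat_lit 10310929303) (nat_lit 304) (nat_lit 11743569891) (nat_lit 380) (nat_lit 8943091150) (nat_lit 266) (nat_lit 5) (nat_lit 270) (nat_lit 5) (nat_lit 271) (nat_lit 5) (nat_lit 390) (nat_lit 372) (nat_lit 258))))) (XT.nd (nat_lit 312) (nat_lit 608) (nat_lit 0) (XT.nd (nat_lit 156) (nat_lit 304) (nat_lit 0) (XT.nd (nat_lit 78) (nat_lit 380) (nat_lit 0) (XT.lf (nat_lit 0) (nat_lit 27202850824) (nat_lit 380) (nat_lit 3040900767) (nat_lit 76) (nat_lit 1630290719) (nat_lit 266) (nat_lit 5) (nat_lit 271) (nat_lit 5) (nat_lit 267) (nat_lit 5) (nat_lit 391) (nat_lit 372) (nat_lit 257)) (XT.lf (nat_lit 0) (nat_lit 261250850) (nat_lit 380) (nat_lit 16982880860) (nat_lit 76) (nat_lit 15528279916) (nat_lit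 261) (nat_lit 5) (nat_lit 266) (nat_lit 5) (nat_lit 262) (nat_lit 5) (nat_lit 392) (nat_lit 372) (nat_lit 256))) (XT.nd (nat_lit 78) (nat_lit 0) (nat_lit 0) (XT.lf (nat_lit 0) (nat_lit 1932100348) (nat_lit 304) (nat_lit 3428597383) (nat_lit 380) (nat_lit 28347304576) (nat_lit 257) (nat_lit 5) (nat_lit 261) (nat_lit 5) (nat_lit 262) (nat_lit 5) (nat_lit 393) (nat_lit 372) (nat_lit 255)) (XT.lf (nat_lit 0) (nat_lit 11175386509) (nat_lit 380) (nat_lit 12477604399) (nat_lit 76) (nat_lit 11014368137) (nat_lit 257) (nat_lit 5) (nat_lit 262) (nat_lit 5) (nat_lit 258) (nat_lit 5) (nat_lit 394) (nat_lit 372) (nat_lit 254)))) (XT.nd (nat_lit 156) (nat_lit 304) (nat_lit 0) (XT.nd (nat_lit 78) (nat_lit 0) (nat_lit 0) (XT.lf (nat_lit 0) (nat_lit 7978692065) (nat_lit 304) (nat_lit 9478119745) (nat_lit 380) (nat_lit 18209071706) (nat_lit 253) (nat_lit 5) (nat_lit 257) (nat_lit 5) (nat_lit 258) (nat_lit 5) (nat_lit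 395) (nat_lit 372) (nat_lit 253)) (XT.lf (nat_lit 0) (nat_lit 24346820643) (nat_lit 380) (nat_lit 6906820500) (nat_lit 76) (nat_lit 5445967454) (nat_lit 253) (nat_lit 5) (nat_lit 258) (nat_lit 5) (nat_lit 254) (nat_lit 5) (nat_lit 396) (nat_lit 372) (nat_lit 252))) (XT.nd (nat_lit 78) (nat_lit 76) (nat_lit 0) (XT.lf (nat_lit 0) (nat_lit 15239038668) (nat_lit 228) (nat_lit 16731155223) (nat_lit 304) (nat_lit 5795382842) (nat_lit 250) (nat_lit 5) (nat_lit 253) (nat_lit 5) (nat_lit 254) (nat_lit 5) (nat_lit 397) (nat_lit 372) (nat_lit 251)) (XT.lf (nat_lit 0) (nat_lit 1169507944) (nat_lit 304) (nat_lit 171894331) (nat_lit 76) (nat_lit 37536865247) (nat_lit 249) (nat_lit 5) (nat_lit 253) (nat_lit 5) (nat_lit 250) (nat_lit 5) (nat_lit 398) (nat_lit 372) (nat_lit 250))))))) (XT.nd (nat_lit 1248) (nat_lit 1748) (nat_lit 0) (XT.nd (nat_lit 624) (nat_lit 988) (nat_lit 0) (XT.nd (nat_lit 312) (nat_lit 532)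 (nat_lit 0) (XT.nd (nat_lit 156) (nat_lit 228) (nat_lit 0) (XT.nd (nat_lit 78) (nat_lit 228) (nat_lit 0) (XT.lf (nat_lit 0) (nat_lit 8896907417) (nat_lit 380) (nat_lit 16295455337) (nat_lit 76) (nat_lit 14819028434) (nat_lit 245) (nat_lit 5) (nat_lit 250) (nat_lit 5) (nat_lit 246) (nat_lit 5) (nat_lit 399) (nat_lit 372) (nat_lit 249)) (XT.lf (nat_lit 0) (nat_lit 7825784680) (nat_lit 228) (nat_lit 9327932148) (nat_lit 304) (nat_lit 24040302209) (nat_lit 242) (nat_lit 5) (nat_lit 245) (nat_lit 5) (nat_lit 246) (nat_lit 5) (nat_lit 400) (nat_lit 372) (nat_lit 248))) (XT.nd (nat_lit 78) (nat_lit 228) (nat_lit 0) (XT.lf (nat_lit 0) (nat_lit 26214288583) (nat_lit 304) (nat_lit 8827944776) (nat_lit 76) (nat_lit 7373998827) (nat_lit 242) (nat_lit 5) (nat_lit 246) (nat_lit 5) (nat_lit 243) (nat_lit 5) (nat_lit 401) (nat_lit 372) (nat_lit 247)) (XT.lf (nat_lit 0) (nat_lit 17335740431) (nat_lit 228) (nat_lit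 18811904770) (nat_lit 304) (nat_lit 7530922977) (nat_lit 239) (nat_lit 5) (nat_lit 242) (nat_lit 5) (nat_lit 243) (nat_lit 5) (nat_lit 402) (nat_lit 372) (nat_lit 246)))) (XT.nd (nat_lit 156) (nat_lit 228) (nat_lit 0) (XT.nd (nat_lit 78) (nat_lit 0) (nat_lit 0) (XT.lf (nat_lit 0) (nat_lit 87749623) (nat_lit 228) (nat_lit 1585074336) (nat_lit 304) (nat_lit 43322491464) (nat_lit 235) (nat_lit 5) (nat_lit 238) (nat_lit 5) (nat_lit 239) (nat_lit 5) (nat_lit 403) (nat_lit 372) (nat_lit 245)) (XT.lf (nat_lit 0) (nat_lit 11791053106) (nat_lit 304) (nat_lit 17995260746) (nat_lit 76) (nat_lit 16550044128) (nat_lit 235) (nat_lit 5) (nat_lit 239) (nat_lit 5) (nat_lit 236) (nat_lit 5) (nat_lit 404) (nat_lit 372) (nat_lit 244))) (XT.nd (nat_lit 78) (nat_lit 0) (nat_lit 0) (XT.lf (nat_lit 0) (nat_lit 10569581088) (nat_lit 228) (nat_lit 12033076833) (nat_lit 304) (nat_lit 25132421533) (nat_lit 232) (nat_lit 5)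 (nat_lit 235) (nat_lit 5) (nat_lit 236) (nat_lit 5) (nat_lit 405) (nat_lit 372) (nat_lit 243)) (XT.lf (nat_lit 0) (nat_lit 34364279804) (nat_lit 304) (nat_lit 8114685267) (nat_lit 76) (nat_lit 6704300091) (nat_lit 232) (nat_lit 5) (nat_lit 236) (nat_lit 5) (nat_lit 233) (nat_lit 5) (nat_lit 406) (nat_lit 372) (nat_lit 242))))) (XT.nd (nat_lit 312) (nat_lit 380) (nat_lit 0) (XT.nd (nat_lit 156) (nat_lit 152) (nat_lit 0) (XT.nd (nat_lit 78) (nat_lit 304) (nat_lit 0) (XT.lf (nat_lit 0) (nat_lit 22919797433) (nat_lit 152) (nat_lit 24345972806) (nat_lit 228) (nat_lit 3410500541) (nat_lit 230) (nat_lit 5) (nat_lit 232) (nat_lit 5) (nat_lit 233) (nat_lit 5) (nat_lit 407) (nat_lit 372) (nat_lit 241)) (XT.lf (nat_lit 0) (nat_lit 3522164525) (nat_lit 228) (nat_lit 4963378180) (nat_lit 304) (nat_lit 43742126294) (nat_lit 226) (nat_lit 5) (nat_lit 229) (nat_lit 5) (nat_lit 230) (nat_lit 5) (nat_lit 408) (nat_lit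 372) (nat_lit 240))) (XT.nd (nat_lit 78) (nat_lit 152) (nat_lit 0) (XT.lf (nat_lit 0) (nat_lit 21576557393) (nat_lit 304) (nat_lit 16813884809) (nat_lit 76) (nat_lit 15427660210) (nat_lit 226) (nat_lit 5) (nat_lit 230) (nat_lit 5) (nat_lit 227) (nat_lit 5) (nat_lit 409) (nat_lit 372) (nat_lit 239)) (XT.lf (nat_lit 0) (nat_lit 17134349056) (nat_lit 152) (nat_lit 18533564288) (nat_lit 228) (nat_lit 19802854625) (nat_lit 224) (nat_lit 5) (nat_lit 226) (nat_lit 5) (nat_lit 227) (nat_lit 5) (nat_lit 410) (nat_lit 372) (nat_lit 238)))) (XT.nd (nat_lit 156) (nat_lit 152) (nat_lit 0) (XT.nd (nat_lit 78) (nat_lit 228) (nat_lit 0) (XT.lf (nat_lit 0) (nat_lit 50786367189) (nat_lit 228) (nat_lit 3873970967) (nat_lit 76) (nat_lit 2529602144) (nat_lit 224) (nat_lit 5) (nat_lit 227) (nat_lit 5) (nat_lit 225) (nat_lit 5) (nat_lit 411) (nat_lit 372) (nat_lit 237)) (XT.lf (nat_lit 0) (nat_lit 8250818267) (nat_lit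 228) (nat_lit 26026167355) (nat_lit 76) (nat_lit 24670576735) (nat_lit 221) (nat_lit 5) (nat_lit 224) (nat_lit 5) (nat_lit 222) (nat_lit 5) (nat_lit 412) (nat_lit 372) (nat_lit 236))) (XT.nd (nat_lit 78) (nat_lit 0) (nat_lit 0) (XT.lf (nat_lit 0) (nat_lit 11147141321) (nat_lit 152) (nat_lit 12513419368) (nat_lit 228) (nat_lit 37115364322) (nat_lit 219) (nat_lit 5) (nat_lit 221) (nat_lit 5) (nat_lit 222) (nat_lit 5) (nat_lit 413) (nat_lit 372) (nat_lit 235)) (XT.lf (nat_lit 0) (nat_lit 40447337555) (nat_lit 228) (nat_lit 11764475936) (nat_lit 76) (nat_lit 10453564938) (nat_lit 219) (nat_lit 5) (nat_lit 222) (nat_lit 5) (nat_lit 220) (nat_lit 5) (nat_lit 414) (nat_lit 372) (nat_lit 234)))))) (XT.nd (nat_lit 624) (nat_lit 912) (nat_lit 0) (XT.nd (nat_lit 312) (nat_lit 304) (nat_lit 0) (XT.nd (nat_lit 156) (nat_lit 152) (nat_lit 0) (XT.nd (nat_lit 78) (nat_lit 228) (nat_lit 0) (XT.lf (nat_lit 0) (nat_lit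 28701923580) (nat_lit 152) (nat_lit 30022066779) (nat_lit 228) (nat_lit 5892787307) (nat_lit 217) (nat_lit 5) (nat_lit 219) (nat_lit 5) (nat_lit 220) (nat_lit 5) (nat_lit 415) (nat_lit 372) (nat_lit 233)) (XT.lf (nat_lit 0) (nat_lit 4918174871) (nat_lit 152) (nat_lit 6247110641) (nat_lit 228) (nat_lit 55477850835) (nat_lit 214) (nat_lit 5) (nat_lit 216) (nat_lit 5) (nat_lit 217) (nat_lit 5) (nat_lit 416) (nat_lit 372) (nat_lit 232))) (XT.nd (nat_lit 78) (nat_lit 152) (nat_lit 0) (XT.lf (nat_lit 0) (nat_lit 29785974513) (nat_lit 228) (nat_lit 20104124546) (nat_lit 76) (nat_lit 18830496309) (nat_lit 214) (nat_lit 5) (nat_lit 217) (nat_lit 5) (nat_lit 215) (nat_lit 5) (nat_lit 417) (nat_lit 372) (nat_lit 231)) (XT.lf (nat_lit 0) (nat_lit 24267611367) (nat_lit 152) (nat_lit 25548834958) (nat_lit 228) (nat_lit 21061543594) (nat_lit 212) (nat_lit 5) (nat_lit 214) (nat_lit 5) (nat_lit 215) (nat_lit 5)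 (nat_lit 418) (nat_lit 372) (nat_lit 230)))) (XT.nd (nat_lit 156) (nat_lit 152) (nat_lit 0) (XT.nd (nat_lit 78) (nat_lit 152) (nat_lit 0) (XT.lf (nat_lit 0) (nat_lit 71192119556) (nat_lit 228) (nat_lit 1580526454) (nat_lit 76) (nat_lit 353424299) (nat_lit 212) (nat_lit 5) (nat_lit 215) (nat_lit 5) (nat_lit 213) (nat_lit 4) (nat_lit 419) (nat_lit 372) (nat_lit 229)) (XT.lf (nat_lit 0) (nat_lit 18734620832) (nat_lit 152) (nat_lit 28956576450) (nat_lit 76) (nat_lit 27722913143) (nat_lit 210) (nat_lit 5) (nat_lit 212) (nat_lit 5) (nat_lit 211) (nat_lit 5) (nat_lit 420) (nat_lit 372) (nat_lit 228))) (XT.nd (nat_lit 78) (nat_lit 0) (nat_lit 0) (XT.lf (nat_lit 0) (nat_lit 19732301809) (nat_lit 152) (nat_lit 20972213833) (nat_lit 228) (nat_lit 37093807296) (nat_lit 208) (nat_lit 5) (nat_lit 210) (nat_lit 5) (nat_lit 211) (nat_lit 5) (nat_lit 421) (nat_lit 372) (nat_lit 227)) (XT.lf (nat_lit 0) (nat_lit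 64379544437) (nat_lit 228) (nat_lit 8539203021) (nat_lit 76) (nat_lit 7352666656) (nat_lit 208) (nat_lit 5) (nat_lit 211) (nat_lit 5) (nat_lit 209) (nat_lit 4) (nat_lit 422) (nat_lit 372) (nat_lit 226))))) (XT.nd (nat_lit 312) (nat_lit 532) (nat_lit 0) (XT.nd (nat_lit 156) (nat_lit 76) (nat_lit 0) (XT.nd (nat_lit 78) (nat_lit 152) (nat_lit 0) (XT.lf (nat_lit 0) (nat_lit 7220244770) (nat_lit 152) (nat_lit 38391089131) (nat_lit 76) (nat_lit 37199154890) (nat_lit 206) (nat_lit 5) (nat_lit 208) (nat_lit 5) (nat_lit 207) (nat_lit 5) (nat_lit 423) (nat_lit 372) (nat_lit 225)) (XT.lf (nat_lit 0) (nat_lit 15068406082) (nat_lit 152) (nat_lit 16265481158) (nat_lit 228) (nat_lit 54110604174) (nat_lit 204) (nat_lit 5) (nat_lit 206) (nat_lit 5) (nat_lit 207) (nat_lit 5) (nat_lit 424) (nat_lit 372) (nat_lit 224))) (XT.nd (nat_lit 78) (nat_lit 76) (nat_lit 0) (XT.lf (nat_lit 0) (nat_lit 57538934930) (nat_lit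 228) (nat_lit 15885853737) (nat_lit 76) (nat_lit 14741119347) (nat_lit 204) (nat_lit 5) (nat_lit 207) (nat_lit 5) (nat_lit 205) (nat_lit 4) (nat_lit 425) (nat_lit 372) (nat_lit 223)) (XT.lf (nat_lit 0) (nat_lit 42415903857) (nat_lit 76) (nat_lit 43565079093) (nat_lit 152) (nat_lit 4996075097) (nat_lit 203) (nat_lit 5) (nat_lit 204) (nat_lit 5) (nat_lit 205) (nat_lit 4) (nat_lit 426) (nat_lit 372) (nat_lit 222)))) (XT.nd (nat_lit 156) (nat_lit 304) (nat_lit 0) (XT.nd (nat_lit 78) (nat_lit 0) (nat_lit 0) (XT.lf (nat_lit 0) (nat_lit 10246399632) (nat_lit 152) (nat_lit 11399804246) (nat_lit 228) (nat_lit 72243888069) (nat_lit 200) (nat_lit 5) (nat_lit 202) (nat_lit 5) (nat_lit 203) (nat_lit 5) (nat_lit 427) (nat_lit 372) (nat_lit 221)) (XT.lf (nat_lit 0) (nat_lit 50635791239) (nat_lit 228) (nat_lit 23676026574) (nat_lit 76) (nat_lit 22573709820) (nat_lit 200) (nat_lit 5) (nat_lit 203) (nat_lit 5) (nat_lit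 201) (nat_lit 4) (nat_lit 428) (nat_lit 372) (nat_lit 220))) (XT.nd (nat_lit 78) (nat_lit 228) (nat_lit 0) (XT.lf (nat_lit 0) (nat_lit 40392197774) (nat_lit 76) (nat_lit 41498168023) (nat_lit 152) (nat_lit 18099593916) (nat_lit 199) (nat_lit 5) (nat_lit 200) (nat_lit 5) (nat_lit 201) (nat_lit 4) (nat_lit 429) (nat_lit 372) (nat_lit 219)) (XT.lf (nat_lit 0) (nat_lit 5234568629) (nat_lit 152) (nat_lit 6344018398) (nat_lit 228) (nat_lit 91637718717) (nat_lit 196) (nat_lit 5) (nat_lit 198) (nat_lit 5) (nat_lit 199) (nat_lit 5) (nat_lit 430) (nat_lit 372) (nat_lit 218))))))))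
noncomputable def xc223 : XT := (XT.nd (nat_lit 1248) (nat_lit 1216) (nat_lit 0) (XT.nd (nat_lit 624) (nat_lit 608) (nat_lit 0) (XT.nd (nat_lit 312) (nat_lit 304) (nat_lit 0) (XT.nd (nat_lit 156) (nat_lit 228) (nat_lit 0) (XT.nd (nat_lit 78) (nat_lit 76) (nat_lit 0) (XT.lf (nat_lit 0) (nat_lit 43633531827) (nat_lit 228) (nat_lit 31970160190) (nat_lit 76) (nat_lit 30910385335) (nat_lit 196) (nat_lit 5) (nat_lit 199) (nat_lit 5) (nat_lit 197) (nat_lit 4) (nat_lit 431) (nat_lit 372) (nat_lit 217)) (XT.lf (nat_lit 0) (nat_lit 38465550309) (nat_lit 76) (nat_lit 39528330903) (nat_lit 152) (nat_lit 31947723462) (nat_lit 195) (nat_lit 5) (nat_lit 196) (nat_lit 5) (nat_lit 197) (nat_lit 4) (nat_lit 432) (nat_lit 372) (nat_lit 216))) (XT.nd (nat_lit 78) (nat_lit 152) (nat_lit 0) (XT.lf (nat_lit 0) (nat_lit 1063133564) (nat_lit 152) (nat_lit 1224214) (nat_lit 76) (nat_lit 112448314843) (nat_lit 194) (nat_lit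 5) (nat_lit 196) (nat_lit 5) (nat_lit 195) (nat_lit 5) (nat_lit 433) (nat_lit 372) (nat_lit 215)) (XT.lf (nat_lit 0) (nat_lit 36493219911) (nat_lit 228) (nat_lit 40834132591) (nat_lit 76) (nat_lit 39816637831) (nat_lit 192) (nat_lit 5) (nat_lit 195) (nat_lit 5) (nat_lit 193) (nat_lit 4) (nat_lit 434) (nat_lit 372) (nat_lit 214)))) (XT.nd (nat_lit 156) (nat_lit 228) (nat_lit 0) (XT.nd (nat_lit 78) (nat_lit 0) (nat_lit 0) (XT.lf (nat_lit 0) (nat_lit 36631216994) (nat_lit 76) (nat_lit 37651184582) (nat_lit 152) (nat_lit 46645092804) (nat_lit 191) (nat_lit 5) (nat_lit 192) (nat_lit 5) (nat_lit 193) (nat_lit 4) (nat_lit 435) (nat_lit 372) (nat_lit 213)) (XT.lf (nat_lit 0) (nat_lit 114724726619) (nat_lit 152) (nat_lit 5555451715) (nat_lit 0) (nat_lit 4581811082) (nat_lit 191) (nat_lit 5) (nat_lit 193) (nat_lit 4) (nat_lit 191) (nat_lit 4) (nat_lit 436) (nat_lit 372) (nat_lit 212))) (XT.nd (nat_lit 78)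 (nat_lit 76) (nat_lit 0) (XT.lf (nat_lit 0) (nat_lit 29173263167) (nat_lit 152) (nat_lit 50339862167) (nat_lit 76) (nat_lit 49364085411) (nat_lit 189) (nat_lit 5) (nat_lit 191) (nat_lit 5) (nat_lit 190) (nat_lit 4) (nat_lit 437) (nat_lit 372) (nat_lit 211)) (XT.lf (nat_lit 0) (nat_lit 34884701028) (nat_lit 76) (nat_lit 35862512187) (nat_lit 152) (nat_lit 62305741881) (nat_lit 188) (nat_lit 5) (nat_lit 189) (nat_lit 5) (nat_lit 190) (nat_lit 4) (nat_lit 438) (nat_lit 372) (nat_lit 210))))) (XT.nd (nat_lit 312) (nat_lit 380) (nat_lit 0) (XT.nd (nat_lit 156) (nat_lit 76) (nat_lit 0) (XT.nd (nat_lit 78) (nat_lit 152) (nat_lit 0) (XT.lf (nat_lit 0) (nat_lit 115420344163) (nat_lit 152) (nat_lit 11449606158) (nat_lit 0) (nat_lit 10516512172) (nat_lit 188) (nat_lit 5) (nat_lit 190) (nat_lit 4) (nat_lit 188) (nat_lit 4) (nat_lit 439) (nat_lit 372) (nat_lit 209)) (XT.lf (nat_lit 0) (nat_lit 21629084126)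 (nat_lit 152) (nat_lit 60565966925) (nat_lit 76) (nat_lit 59631115545) (nat_lit 186) (nat_lit 5) (nat_lit 188) (nat_lit 5) (nat_lit 187) (nat_lit 4) (nat_lit 440) (nat_lit 372) (nat_lit 208))) (XT.nd (nat_lit 78) (nat_lit 0) (nat_lit 0) (XT.lf (nat_lit 0) (nat_lit 33221737632) (nat_lit 76) (nat_lit 34158262721) (nat_lit 152) (nat_lit 79054142574) (nat_lit 185) (nat_lit 5) (nat_lit 186) (nat_lit 5) (nat_lit 187) (nat_lit 4) (nat_lit 441) (nat_lit 372) (nat_lit 207)) (XT.lf (nat_lit 0) (nat_lit 116713570135) (nat_lit 152) (nat_lit 17693819655) (nat_lit 0) (nat_lit 16800372897) (nat_lit 185) (nat_lit 5) (nat_lit 187) (nat_lit 4) (nat_lit 185) (nat_lit 4) (nat_lit 442) (nat_lit 372) (nat_lit 206)))) (XT.nd (nat_lit 156) (nat_lit 152) (nat_lit 0) (XT.nd (nat_lit 78) (nat_lit 76) (nat_lit 0) (XT.lf (nat_lit 0) (nat_lit 13812758423) (nat_lit 152) (nat_lit 71598488282) (nat_lit 76) (nat_lit 70703595712)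 (nat_lit 183) (nat_lit 5) (nat_lit 185) (nat_lit 5) (nat_lit 184) (nat_lit 4) (nat_lit 443) (nat_lit 372) (nat_lit 205)) (XT.lf (nat_lit 0) (nat_lit 31638279828) (nat_lit 76) (nat_lit 32534549363) (nat_lit 152) (nat_lit 97026322849) (nat_lit 182) (nat_lit 5) (nat_lit 183) (nat_lit 5) (nat_lit 184) (nat_lit 4) (nat_lit 444) (nat_lit 372) (nat_lit 204))) (XT.nd (nat_lit 78) (nat_lit 152) (nat_lit 0) (XT.lf (nat_lit 0) (nat_lit 118640691749) (nat_lit 152) (nat_lit 24336167481) (nat_lit 0) (nat_lit 23481328502) (nat_lit 182) (nat_lit 5) (nat_lit 184) (nat_lit 4) (nat_lit 182) (nat_lit 4) (nat_lit 445) (nat_lit 372) (nat_lit 203)) (XT.lf (nat_lit 0) (nat_lit 5672617722) (nat_lit 152) (nat_lit 83531686389) (nat_lit 76) (nat_lit 82675657936) (nat_lit 180) (nat_lit 5) (nat_lit 182) (nat_lit 5) (nat_lit 181) (nat_lit 4) (nat_lit 446) (nat_lit 372) (nat_lit 202)))))) (XT.nd (nat_lit 624) (nat_lit 684) (nat_lit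 0) (XT.nd (nat_lit 312) (nat_lit 228) (nat_lit 0) (XT.nd (nat_lit 156) (nat_lit 228) (nat_lit 0) (XT.nd (nat_lit 78) (nat_lit 0) (nat_lit 0) (XT.lf (nat_lit 0) (nat_lit 30130485457) (nat_lit 76) (nat_lit 30987646741) (nat_lit 152) (nat_lit 116371104385) (nat_lit 179) (nat_lit 5) (nat_lit 180) (nat_lit 5) (nat_lit 181) (nat_lit 4) (nat_lit 447) (nat_lit 372) (nat_lit 201)) (XT.lf (nat_lit 0) (nat_lit 121242887813) (nat_lit 152) (nat_lit 31429055178) (nat_lit 0) (nat_lit 30611683586) (nat_lit 179) (nat_lit 5) (nat_lit 181) (nat_lit 4) (nat_lit 179) (nat_lit 4) (nat_lit 448) (nat_lit 372) (nat_lit 200))) (XT.nd (nat_lit 78) (nat_lit 152) (nat_lit 0) (XT.lf (nat_lit 0) (nat_lit 92755159704) (nat_lit 76) (nat_lit 93573509878) (nat_lit 76) (nat_lit 2941327068) (nat_lit 178) (nat_lit 4) (nat_lit 179) (nat_lit 5) (nat_lit 179) (nat_lit 4) (nat_lit 449) (nat_lit 372) (nat_lit 199)) (XT.lf (nat_lit 0) (nat_lit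 28694705280) (nat_lit 76) (nat_lit 29513987438) (nat_lit 152) (nat_lit 137251465265) (nat_lit 176) (nat_lit 5) (nat_lit 177) (nat_lit 5) (nat_lit 178) (nat_lit 4) (nat_lit 450) (nat_lit 372) (nat_lit 198)))) (XT.nd (nat_lit 156) (nat_lit 152) (nat_lit 0) (XT.nd (nat_lit 78) (nat_lit 76) (nat_lit 0) (XT.lf (nat_lit 0) (nat_lit 124566677286) (nat_lit 152) (nat_lit 39029693824) (nat_lit 0) (nat_lit 38248579765) (nat_lit 176) (nat_lit 5) (nat_lit 178) (nat_lit 4) (nat_lit 176) (nat_lit 4) (nat_lit 451) (nat_lit 372) (nat_lit 197)) (XT.lf (nat_lit 0) (nat_lit 97734541881) (nat_lit 76) (nat_lit 98516461021) (nat_lit 76) (nat_lit 12197558418) (nat_lit 175) (nat_lit 4) (nat_lit 176) (nat_lit 5) (nat_lit 176) (nat_lit 4) (nat_lit 452) (nat_lit 372) (nat_lit 196))) (XT.nd (nat_lit 78) (nat_lit 0) (nat_lit 0) (XT.lf (nat_lit 0) (nat_lit 27327472026) (nat_lit 76) (nat_lit 28110157912) (nat_lit 152) (nat_lit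 159846040497) (nat_lit 173) (nat_lit 5) (nat_lit 174) (nat_lit 5) (nat_lit 175) (nat_lit 4) (nat_lit 453) (nat_lit 372) (nat_lit 195)) (XT.lf (nat_lit 0) (nat_lit 128664415781) (nat_lit 152) (nat_lit 47200622007) (nat_lit 0) (nat_lit 46454511418) (nat_lit 173) (nat_lit 5) (nat_lit 175) (nat_lit 4) (nat_lit 173) (nat_lit 4) (nat_lit 454) (nat_lit 372) (nat_lit 194))))) (XT.nd (nat_lit 312) (nat_lit 380) (nat_lit 0) (XT.nd (nat_lit 156) (nat_lit 76) (nat_lit 0) (XT.nd (nat_lit 78) (nat_lit 152) (nat_lit 0) (XT.lf (nat_lit 0) (nat_lit 103440171340) (nat_lit 76) (nat_lit 104186944273) (nat_lit 76) (nat_lit 21976377567) (nat_lit 172) (nat_lit 4) (nat_lit 173) (nat_lit 5) (nat_lit 173) (nat_lit 4) (nat_lit 455) (nat_lit 372) (nat_lit 193)) (XT.lf (nat_lit 0) (nat_lit 26025490274) (nat_lit 76) (nat_lit 26772894010) (nat_lit 152) (nat_lit 184350774478) (nat_lit 170) (nat_lit 5) (nat_lit 171) (nat_lit 5)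 (nat_lit 172) (nat_lit 4) (nat_lit 456) (nat_lit 372) (nat_lit 192))) (XT.nd (nat_lit 78) (nat_lit 76) (nat_lit 0) (XT.lf (nat_lit 0) (nat_lit 133594844959) (nat_lit 152) (nat_lit 56010279461) (nat_lit 0) (nat_lit 55297894222) (nat_lit 170) (nat_lit 5) (nat_lit 172) (nat_lit 4) (nat_lit 170) (nat_lit 4) (nat_lit 457) (nat_lit 372) (nat_lit 191)) (XT.lf (nat_lit 0) (nat_lit 109936166707) (nat_lit 76) (nat_lit 110649096857) (nat_lit 76) (nat_lit 32351601208) (nat_lit 169) (nat_lit 4) (nat_lit 170) (nat_lit 5) (nat_lit 170) (nat_lit 4) (nat_lit 458) (nat_lit 372) (nat_lit 190)))) (XT.nd (nat_lit 156) (nat_lit 228) (nat_lit 0) (XT.nd (nat_lit 78) (nat_lit 0) (nat_lit 0) (XT.lf (nat_lit 0) (nat_lit 24785627074) (nat_lit 76) (nat_lit 25499076187) (nat_lit 152) (nat_lit 210980740969) (nat_lit 167) (nat_lit 5) (nat_lit 168) (nat_lit 5) (nat_lit 169) (nat_lit 4) (nat_lit 459) (nat_lit 372) (nat_lit 189))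 (XT.lf (nat_lit 0) (nat_lit 139423700205) (nat_lit 152) (nat_lit 65533637826) (nat_lit 0) (nat_lit 64853691765) (nat_lit 167) (nat_lit 5) (nat_lit 169) (nat_lit 4) (nat_lit 167) (nat_lit 4) (nat_lit 460) (nat_lit 372) (nat_lit 188))) (XT.nd (nat_lit 78) (nat_lit 152) (nat_lit 0) (XT.lf (nat_lit 0) (nat_lit 117293717835) (nat_lit 76) (nat_lit 117974112196) (nat_lit 76) (nat_lit 43403655456) (nat_lit 166) (nat_lit 4) (nat_lit 167) (nat_lit 5) (nat_lit 167) (nat_lit 4) (nat_lit 461) (nat_lit 372) (nat_lit 187)) (XT.lf (nat_lit 0) (nat_lit 23604903226) (nat_lit 76) (nat_lit 24285724539) (nat_lit 152) (nat_lit 239972147783) (nat_lit 164) (nat_lit 5) (nat_lit 165) (nat_lit 5) (nat_lit 166) (nat_lit 4) (nat_lit 462) (nat_lit 372) (nat_lit 186)))))))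
noncomputable def xc224 : XT := (XT.nd (nat_lit 1248) (nat_lit 912) (nat_lit 0) (XT.nd (nat_lit 624) (nat_lit 608) (nat_lit 0) (XT.nd (nat_lit 312) (nat_lit 304) (nat_lit 0) (XT.nd (nat_lit 156) (nat_lit 152) (nat_lit 0) (XT.nd (nat_lit 78) (nat_lit 76) (nat_lit 0) (XT.lf (nat_lit 0) (nat_lit 146224382524) (nat_lit 152) (nat_lit 75852894543) (nat_lit 0) (nat_lit 75204106034) (nat_lit 164) (nat_lit 5) (nat_lit 166) (nat_lit 4) (nat_lit 164) (nat_lit 4) (nat_lit 463) (nat_lit 372) (nat_lit 185)) (XT.lf (nat_lit 0) (nat_lit 125591785507) (nat_lit 76) (nat_lit 126240942834) (nat_lit 76) (nat_lit 55220297527) (nat_lit 163) (nat_lit 4) (nat_lit 164) (nat_lit 5) (nat_lit 164) (nat_lit 4) (nat_lit 464) (nat_lit 372) (nat_lit 184))) (XT.nd (nat_lit 78) (nat_lit 0) (nat_lit 0) (XT.lf (nat_lit 0) (nat_lit 22480485151) (nat_lit 76) (nat_lit 23129993733) (nat_lit 152) (nat_lit 271584545120) (nat_lit 161) (nat_lit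 5) (nat_lit 162) (nat_lit 5) (nat_lit 163) (nat_lit 4) (nat_lit 465) (nat_lit 372) (nat_lit 183)) (XT.lf (nat_lit 0) (nat_lit 154078701211) (nat_lit 152) (nat_lit 87058236468) (nat_lit 0) (nat_lit 86439338268) (nat_lit 161) (nat_lit 5) (nat_lit 163) (nat_lit 4) (nat_lit 161) (nat_lit 4) (nat_lit 466) (nat_lit 372) (nat_lit 182)))) (XT.nd (nat_lit 156) (nat_lit 76) (nat_lit 0) (XT.nd (nat_lit 78) (nat_lit 152) (nat_lit 0) (XT.lf (nat_lit 0) (nat_lit 134917874276) (nat_lit 76) (nat_lit 135537075903) (nat_lit 76) (nat_lit 67897409533) (nat_lit 160) (nat_lit 4) (nat_lit 161) (nat_lit 5) (nat_lit 161) (nat_lit 4) (nat_lit 467) (nat_lit 372) (nat_lit 181)) (XT.lf (nat_lit 0) (nat_lit 21409677292) (nat_lit 76) (nat_lit 22029167897) (nat_lit 152) (nat_lit 306103258498) (nat_lit 158) (nat_lit 5) (nat_lit 159) (nat_lit 5) (nat_lit 160) (nat_lit 4) (nat_lit 468) (nat_lit 372) (nat_lit 180))) (XT.nd (nat_lit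 78) (nat_lit 76) (nat_lit 0) (XT.lf (nat_lit 0) (nat_lit 163077694498) (nat_lit 152) (nat_lit 99248680456) (nat_lit 0) (nat_lit 98658427292) (nat_lit 158) (nat_lit 5) (nat_lit 160) (nat_lit 4) (nat_lit 158) (nat_lit 4) (nat_lit 469) (nat_lit 372) (nat_lit 179)) (XT.lf (nat_lit 0) (nat_lit 145368885856) (nat_lit 76) (nat_lit 145959388650) (nat_lit 76) (nat_lit 81539871815) (nat_lit 157) (nat_lit 4) (nat_lit 158) (nat_lit 5) (nat_lit 158) (nat_lit 4) (nat_lit 470) (nat_lit 372) (nat_lit 178))))) (XT.nd (nat_lit 312) (nat_lit 228) (nat_lit 0) (XT.nd (nat_lit 156) (nat_lit 228) (nat_lit 0) (XT.nd (nat_lit 78) (nat_lit 0) (nat_lit 0) (XT.lf (nat_lit 0) (nat_lit 20389914992) (nat_lit 76) (nat_lit 20980655529) (nat_lit 152) (nat_lit 343842069310) (nat_lit 155) (nat_lit 5) (nat_lit 156) (nat_lit 5) (nat_lit 157) (nat_lit 4) (nat_lit 471) (nat_lit 372) (nat_lit 177)) (XT.lf (nat_lit 0) (nat_lit 173322536107)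 (nat_lit 152) (nat_lit 112532998925) (nat_lit 0) (nat_lit 111970173249) (nat_lit 155) (nat_lit 5) (nat_lit 157) (nat_lit 4) (nat_lit 155) (nat_lit 4) (nat_lit 472) (nat_lit 372) (nat_lit 176))) (XT.nd (nat_lit 78) (nat_lit 152) (nat_lit 0) (XT.lf (nat_lit 0) (nat_lit 157052061205) (nat_lit 76) (nat_lit 157615092252) (nat_lit 76) (nat_lit 96262524022) (nat_lit 154) (nat_lit 4) (nat_lit 155) (nat_lit 5) (nat_lit 155) (nat_lit 4) (nat_lit 473) (nat_lit 372) (nat_lit 175)) (XT.lf (nat_lit 0) (nat_lit 19418757810) (nat_lit 76) (nat_lit 19981984448) (nat_lit 152) (nat_lit 385146168458) (nat_lit 152) (nat_lit 5) (nat_lit 153) (nat_lit 5) (nat_lit 154) (nat_lit 4) (nat_lit 474) (nat_lit 372) (nat_lit 174)))) (XT.nd (nat_lit 156) (nat_lit 152) (nat_lit 0) (XT.nd (nat_lit 78) (nat_lit 76) (nat_lit 0) (XT.lf (nat_lit 0) (nat_lit 184925536479) (nat_lit 152) (nat_lit 127030739162) (nat_lit 0) (nat_lit 126494155432)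 (nat_lit 152) (nat_lit 5) (nat_lit 154) (nat_lit 4) (nat_lit 152) (nat_lit 4) (nat_lit 475) (nat_lit 372) (nat_lit 173)) (XT.lf (nat_lit 0) (nat_lit 170086020310) (nat_lit 76) (nat_lit 170622773000) (nat_lit 76) (nat_lit 112191222994) (nat_lit 151) (nat_lit 4) (nat_lit 152) (nat_lit 5) (nat_lit 152) (nat_lit 4) (nat_lit 476) (nat_lit 372) (nat_lit 172))) (XT.nd (nat_lit 78) (nat_lit 0) (nat_lit 0) (XT.lf (nat_lit 0) (nat_lit 18493883236) (nat_lit 76) (nat_lit 19030796839) (nat_lit 152) (nat_lit 430395411106) (nat_lit 149) (nat_lit 5) (nat_lit 150) (nat_lit 5) (nat_lit 151) (nat_lit 4) (nat_lit 477) (nat_lit 372) (nat_lit 171)) (XT.lf (nat_lit 0) (nat_lit 198011248300) (nat_lit 152) (nat_lit 142873346094) (nat_lit 0) (nat_lit 142361853852) (nat_lit 149) (nat_lit 5) (nat_lit 151) (nat_lit 4) (nat_lit 149) (nat_lit 4) (nat_lit 478) (nat_lit 372) (nat_lit 170)))))) (XT.nd (nat_lit 624) (nat_lit 228)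 (nat_lit 0) (XT.nd (nat_lit 312) (nat_lit 380) (nat_lit 0) (XT.nd (nat_lit 156) (nat_lit 76) (nat_lit 0) (XT.nd (nat_lit 78) (nat_lit 152) (nat_lit 0) (XT.lf (nat_lit 0) (nat_lit 184601909615) (nat_lit 76) (nat_lit 185113540861) (nat_lit 76) (nat_lit 129464007409) (nat_lit 148) (nat_lit 4) (nat_lit 149) (nat_lit 5) (nat_lit 149) (nat_lit 4) (nat_lit 479) (nat_lit 372) (nat_lit 169)) (XT.lf (nat_lit 0) (nat_lit 17613080772) (nat_lit 76) (nat_lit 18124844402) (nat_lit 152) (nat_lit 480007903469) (nat_lit 146) (nat_lit 5) (nat_lit 147) (nat_lit 5) (nat_lit 148) (nat_lit 4) (nat_lit 480) (nat_lit 372) (nat_lit 168))) (XT.nd (nat_lit 78) (nat_lit 76) (nat_lit 0) (XT.lf (nat_lit 0) (nat_lit 212717686977) (nat_lit 152) (nat_lit 160205399161) (nat_lit 0) (nat_lit 159717885152) (nat_lit 146) (nat_lit 5) (nat_lit 148) (nat_lit 4) (nat_lit 146) (nat_lit 4) (nat_lit 481) (nat_lit 372) (nat_lit 167)) (XT.lf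 (nat_lit 0) (nat_lit 200744668045) (nat_lit 76) (nat_lit 201232296414) (nat_lit 76) (nat_lit 148232380230) (nat_lit 145) (nat_lit 4) (nat_lit 146) (nat_lit 5) (nat_lit 146) (nat_lit 4) (nat_lit 482) (nat_lit 372) (nat_lit 166)))) (XT.nd (nat_lit 156) (nat_lit 228) (nat_lit 0) (XT.nd (nat_lit 78) (nat_lit 0) (nat_lit 0) (XT.lf (nat_lit 0) (nat_lit 16774246345) (nat_lit 76) (nat_lit 17261983626) (nat_lit 152) (nat_lit 534443955721) (nat_lit 143) (nat_lit 5) (nat_lit 144) (nat_lit 5) (nat_lit 145) (nat_lit 4) (nat_lit 483) (nat_lit 372) (nat_lit 165)) (XT.lf (nat_lit 0) (nat_lit 229197677762) (nat_lit 152) (nat_lit 179185975080) (nat_lit 0) (nat_lit 178721364597) (nat_lit 143) (nat_lit 5) (nat_lit 145) (nat_lit 4) (nat_lit 143) (nat_lit 4) (nat_lit 484) (nat_lit 372) (nat_lit 164))) (XT.nd (nat_lit 78) (nat_lit 152) (nat_lit 0) (XT.lf (nat_lit 0) (nat_lit 218674423728) (nat_lit 76) (nat_lit 219139128295)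 (nat_lit 76) (nat_lit 168662721047) (nat_lit 142) (nat_lit 4) (nat_lit 143) (nat_lit 5) (nat_lit 143) (nat_lit 4) (nat_lit 485) (nat_lit 372) (nat_lit 163)) (XT.lf (nat_lit 0) (nat_lit 15975377033) (nat_lit 76) (nat_lit 16440171202) (nat_lit 152) (nat_lit 594210438622) (nat_lit 140) (nat_lit 5) (nat_lit 141) (nat_lit 5) (nat_lit 142) (nat_lit 4) (nat_lit 486) (nat_lit 372) (nat_lit 162))))) (XT.nd (nat_lit 44226) (nat_lit 0) (nat_lit 11780) (XT.nd (nat_lit 156) (nat_lit 152) (nat_lit 0) (XT.nd (nat_lit 78) (nat_lit 76) (nat_lit 0) (XT.lf (nat_lit 0) (nat_lit 247620342468) (nat_lit 152) (nat_lit 199990149438) (nat_lit 0) (nat_lit 199547407052) (nat_lit 140) (nat_lit 5) (nat_lit 142) (nat_lit 4) (nat_lit 140) (nat_lit 4) (nat_lit 487) (nat_lit 372) (nat_lit 161)) (XT.lf (nat_lit 0) (nat_lit 238568034753) (nat_lit 76) (nat_lit 239010854541) (nat_lit 76) (nat_lit 190937841723) (nat_lit 139) (nat_lit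 4) (nat_lit 140) (nat_lit 5) (nat_lit 140) (nat_lit 4) (nat_lit 488) (nat_lit 372) (nat_lit 160))) (XT.nd (nat_lit 78) (nat_lit 0) (nat_lit 0) (XT.lf (nat_lit 0) (nat_lit 15214566080) (nat_lit 76) (nat_lit 15657459585) (nat_lit 152) (nat_lit 659865585294) (nat_lit 137) (nat_lit 5) (nat_lit 138) (nat_lit 5) (nat_lit 139) (nat_lit 4) (nat_lit 489) (nat_lit 372) (nat_lit 159)) (XT.lf (nat_lit 0) (nat_lit 268172740005) (nat_lit 152) (nat_lit 222810651405) (nat_lit 0) (nat_lit 222388781204) (nat_lit 137) (nat_lit 5) (nat_lit 139) (nat_lit 4) (nat_lit 137) (nat_lit 4) (nat_lit 490) (nat_lit 372) (nat_lit 158)))) (XT.nd (nat_lit 156) (nat_lit 0) (nat_lit 76) (XT.nd (nat_lit 78) (nat_lit 0) (nat_lit 0) (XT.lf (nat_lit 0) (nat_lit 3696306202) (nat_lit 836) (nat_lit 3253826288) (nat_lit 836) (nat_lit 3253826288) (nat_lit 292) (nat_lit 3) (nat_lit 303) (nat_lit 3) (nat_lit 303) (nat_lit 5) (nat_lit 373) (nat_lit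 373) (nat_lit 274)) (XT.lf (nat_lit 76) (nat_lit 3818522778) (nat_lit 0) (nat_lit 3974940005) (nat_lit 836) (nat_lit 13113850958) (nat_lit 293) (nat_lit 5) (nat_lit 292) (nat_lit 3) (nat_lit 303) (nat_lit 5) (nat_lit 374) (nat_lit 373) (nat_lit 273))) (XT.nd (nat_lit 78) (nat_lit 0) (nat_lit 0) (XT.lf (nat_lit 0) (nat_lit 8416998368) (nat_lit 760) (nat_lit 6647696528) (nat_lit 836) (nat_lit 6356852705) (nat_lit 293) (nat_lit 5) (nat_lit 303) (nat_lit 5) (nat_lit 304) (nat_lit 5) (nat_lit 375) (nat_lit 373) (nat_lit 272)) (XT.nd (nat_lit 78) (nat_lit 0) (nat_lit 76) (XT.lf (nat_lit 76) (nat_lit 4384912165) (nat_lit 0) (nat_lit 4810875070) (nat_lit 836) (nat_lit 12759502095) (nat_lit 294) (nat_lit 5) (nat_lit 293) (nat_lit 5) (nat_lit 304) (nat_lit 5) (nat_lit 376) (nat_lit 373) (nat_lit 271)) (XT.lf (nat_lit 0) (nat_lit 10211802227) (nat_lit 760) (nat_lit 6411118765) (nat_lit 836) (nat_lit 5882882818)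 (nat_lit 294) (nat_lit 5) (nat_lit 304) (nat_lit 5) (nat_lit 305) (nat_lit 5) (nat_lit 377) (nat_lit 373) (nat_lit 270))))))))
noncomputable def xc225 : XT := (XT.nd (nat_lit 2496) (nat_lit 3040) (nat_lit 0) (XT.nd (nat_lit 1248) (nat_lit 2660) (nat_lit 0) (XT.nd (nat_lit 624) (nat_lit 1900) (nat_lit 0) (XT.nd (nat_lit 312) (nat_lit 608) (nat_lit 0) (XT.nd (nat_lit 156) (nat_lit 0) (nat_lit 76) (XT.nd (nat_lit 78) (nat_lit 0) (nat_lit 76) (XT.lf (nat_lit 76) (nat_lit 5394026617) (nat_lit 0) (nat_lit 6038983507) (nat_lit 836) (nat_lit 11643114283) (nat_lit 295) (nat_lit 5) (nat_lit 294) (nat_lit 5) (nat_lit 305) (nat_lit 5) (nat_lit 378) (nat_lit 373) (nat_lit 269)) (XT.lf (nat_lit 0) (nat_lit 12896529619) (nat_lit 760) (nat_lit 5744741424) (nat_lit 836) (nat_lit 5024627430) (nat_lit 295) (nat_lit 5) (nat_lit 305) (nat_lit 5) (nat_lit 306) (nat_lit 5) (nat_lit 379) (nat_lit 373) (nat_lit 268)))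 (XT.nd (nat_lit 78) (nat_lit 0) (nat_lit 76) (XT.lf (nat_lit 76) (nat_lit 6905584523) (nat_lit 0) (nat_lit 7726526456) (nat_lit 836) (nat_lit 9643105970) (nat_lit 296) (nat_lit 5) (nat_lit 295) (nat_lit 5) (nat_lit 306) (nat_lit 5) (nat_lit 380) (nat_lit 373) (nat_lit 267)) (XT.lf (nat_lit 0) (nat_lit 16604039469) (nat_lit 760) (nat_lit 4588393424) (nat_lit 836) (nat_lit 3715090051) (nat_lit 296) (nat_lit 5) (nat_lit 306) (nat_lit 5) (nat_lit 307) (nat_lit 5) (nat_lit 381) (nat_lit 373) (nat_lit 266)))) (XT.nd (nat_lit 156) (nat_lit 760) (nat_lit 0) (XT.nd (nat_lit 78) (nat_lit 0) (nat_lit 76) (XT.lf (nat_lit 76) (nat_lit 8986943015) (nat_lit 0) (nat_lit 9947345353) (nat_lit 836) (nat_lit 6624169674) (nat_lit 297) (nat_lit 5) (nat_lit 296) (nat_lit 5) (nat_lit 307) (nat_lit 5) (nat_lit 382) (nat_lit 373) (nat_lit 265)) (XT.lf (nat_lit 0) (nat_lit 21482090396) (nat_lit 760) (nat_lit 2874233842)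 (nat_lit 76) (nat_lit 1880563620) (nat_lit 297) (nat_lit 5) (nat_lit 307) (nat_lit 5) (nat_lit 298) (nat_lit 5) (nat_lit 383) (nat_lit 373) (nat_lit 264))) (XT.nd (nat_lit 78) (nat_lit 76) (nat_lit 0) (XT.lf (nat_lit 0) (nat_lit 11713841408) (nat_lit 760) (nat_lit 12782750990) (nat_lit 836) (nat_lit 2435681275) (nat_lit 287) (nat_lit 5) (nat_lit 297) (nat_lit 5) (nat_lit 298) (nat_lit 5) (nat_lit 384) (nat_lit 373) (nat_lit 263)) (XT.lf (nat_lit 0) (nat_lit 42357891) (nat_lit 836) (nat_lit 535711329) (nat_lit 76) (nat_lit 27082212650) (nat_lit 286) (nat_lit 5) (nat_lit 297) (nat_lit 5) (nat_lit 287) (nat_lit 5) (nat_lit 385) (nat_lit 373) (nat_lit 262))))) (XT.nd (nat_lit 312) (nat_lit 684) (nat_lit 0) (XT.nd (nat_lit 156) (nat_lit 380) (nat_lit 0) (XT.nd (nat_lit 78) (nat_lit 380) (nat_lit 0) (XT.lf (nat_lit 0) (nat_lit 2991145868) (nat_lit 532) (nat_lit 13280680548) (nat_lit 76) (nat_lit 12129432515)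 (nat_lit 280) (nat_lit 5) (nat_lit 287) (nat_lit 5) (nat_lit 281) (nat_lit 5) (nat_lit 386) (nat_lit 373) (nat_lit 261)) (XT.lf (nat_lit 0) (nat_lit 2462685000) (nat_lit 380) (nat_lit 3675832641) (nat_lit 456) (nat_lit 23038209984) (nat_lit 275) (nat_lit 5) (nat_lit 280) (nat_lit 5) (nat_lit 281) (nat_lit 5) (nat_lit 387) (nat_lit 373) (nat_lit 260))) (XT.nd (nat_lit 78) (nat_lit 380) (nat_lit 0) (XT.lf (nat_lit 0) (nat_lit 9815152114) (nat_lit 456) (nat_lit 10684373205) (nat_lit 76) (nat_lit 9472849730) (nat_lit 275) (nat_lit 5) (nat_lit 281) (nat_lit 5) (nat_lit 276) (nat_lit 5) (nat_lit 388) (nat_lit 373) (nat_lit 259)) (XT.lf (nat_lit 0) (nat_lit 6281712768) (nat_lit 380) (nat_lit 7546707451) (nat_lit 456) (nat_lit 16971744531) (nat_lit 270) (nat_lit 5) (nat_lit 275) (nat_lit 5) (nat_lit 276) (nat_lit 5) (nat_lit 389) (nat_lit 373) (nat_lit 258)))) (XT.nd (nat_lit 156) (nat_lit 380) (nat_lit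 0) (XT.nd (nat_lit 78) (nat_lit 304) (nat_lit 0) (XT.lf (nat_lit 0) (nat_lit 18315413380) (nat_lit 456) (nat_lit 7296767138) (nat_lit 76) (nat_lit 6043510334) (nat_lit 270) (nat_lit 5) (nat_lit 276) (nat_lit 5) (nat_lit 271) (nat_lit 5) (nat_lit 390) (nat_lit 373) (nat_lit 257)) (XT.lf (nat_lit 0) (nat_lit 11008897502) (nat_lit 304) (nat_lit 12308344748) (nat_lit 380) (nat_lit 9222226706) (nat_lit 266) (nat_lit 5) (nat_lit 270) (nat_lit 5) (nat_lit 271) (nat_lit 5) (nat_lit 391) (nat_lit 373) (nat_lit 256))) (XT.nd (nat_lit 78) (nat_lit 380) (nat_lit 0) (XT.lf (nat_lit 0) (nat_lit 28715724680) (nat_lit 380) (nat_lit 3011924038) (nat_lit 76) (nat_lit 1732459142) (nat_lit 266) (nat_lit 5) (nat_lit 271) (nat_lit 5) (nat_lit 267) (nat_lit 5) (nat_lit 392) (nat_lit 373) (nat_lit 255)) (XT.lf (nat_lit 0) (nat_lit 424982608) (nat_lit 380) (nat_lit 17648941037) (nat_lit 76) (nat_lit 16329575101) (nat_lit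 261) (nat_lit 5) (nat_lit 266) (nat_lit 5) (nat_lit 262) (nat_lit 5) (nat_lit 393) (nat_lit 373) (nat_lit 254)))))) (XT.nd (nat_lit 624) (nat_lit 1216) (nat_lit 0) (XT.nd (nat_lit 312) (nat_lit 836) (nat_lit 0) (XT.nd (nat_lit 156) (nat_lit 304) (nat_lit 0) (XT.nd (nat_lit 78) (nat_lit 0) (nat_lit 0) (XT.lf (nat_lit 0) (nat_lit 2208836266) (nat_lit 304) (nat_lit 3566203192) (nat_lit 380) (nat_lit 29611047623) (nat_lit 257) (nat_lit 5) (nat_lit 261) (nat_lit 5) (nat_lit 262) (nat_lit 5) (nat_lit 394) (nat_lit 373) (nat_lit 253)) (XT.lf (nat_lit 0) (nat_lit 11873998623) (nat_lit 380) (nat_lit 12923467329) (nat_lit 76) (nat_lit 11596268906) (nat_lit 257) (nat_lit 5) (nat_lit 262) (nat_lit 5) (nat_lit 258) (nat_lit 5) (nat_lit 395) (nat_lit 373) (nat_lit 252))) (XT.nd (nat_lit 78) (nat_lit 0) (nat_lit 0) (XT.lf (nat_lit 0) (nat_lit 8552772711) (nat_lit 304) (nat_lit 9912797818) (nat_lit 380) (nat_lit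 18976811256) (nat_lit 253) (nat_lit 5) (nat_lit 257) (nat_lit 5) (nat_lit 258) (nat_lit 5) (nat_lit 396) (nat_lit 373) (nat_lit 251)) (XT.lf (nat_lit 0) (nat_lit 25694190805) (nat_lit 380) (nat_lit 7079466771) (nat_lit 76) (nat_lit 5754429994) (nat_lit 253) (nat_lit 5) (nat_lit 258) (nat_lit 5) (nat_lit 254) (nat_lit 5) (nat_lit 397) (nat_lit 373) (nat_lit 250)))) (XT.nd (nat_lit 156) (nat_lit 532) (nat_lit 0) (XT.nd (nat_lit 78) (nat_lit 76) (nat_lit 0) (XT.lf (nat_lit 0) (nat_lit 16170899956) (nat_lit 228) (nat_lit 17524293657) (nat_lit 304) (nat_lit 5952337455) (nat_lit 250) (nat_lit 5) (nat_lit 253) (nat_lit 5) (nat_lit 254) (nat_lit 5) (nat_lit 398) (nat_lit 373) (nat_lit 249)) (XT.lf (nat_lit 0) (nat_lit 1350424898) (nat_lit 304) (nat_lit 14622144) (nat_lit 76) (nat_lit 39451011779) (nat_lit 249) (nat_lit 5) (nat_lit 253) (nat_lit 5) (nat_lit 250) (nat_lit 5) (nat_lit 399) (nat_lit 373) (nat_lit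 248))) (XT.nd (nat_lit 78) (nat_lit 228) (nat_lit 0) (XT.lf (nat_lit 0) (nat_lit 9461599148) (nat_lit 380) (nat_lit 16941766003) (nat_lit 76) (nat_lit 15602603279) (nat_lit 245) (nat_lit 5) (nat_lit 250) (nat_lit 5) (nat_lit 246) (nat_lit 5) (nat_lit 400) (nat_lit 373) (nat_lit 247)) (XT.lf (nat_lit 0) (nat_lit 8382818884) (nat_lit 228) (nat_lit 9745310919) (nat_lit 304) (nat_lit 25119753829) (nat_lit 242) (nat_lit 5) (nat_lit 245) (nat_lit 5) (nat_lit 246) (nat_lit 5) (nat_lit 401) (nat_lit 373) (nat_lit 246))))) (XT.nd (nat_lit 312) (nat_lit 684) (nat_lit 0) (XT.nd (nat_lit 156) (nat_lit 304) (nat_lit 0) (XT.nd (nat_lit 78) (nat_lit 228) (nat_lit 0) (XT.lf (nat_lit 0) (nat_lit 27636900573) (nat_lit 304) (nat_lit 9106660089) (nat_lit 76) (nat_lit 7787888254) (nat_lit 242) (nat_lit 5) (nat_lit 246) (nat_lit 5) (nat_lit 243) (nat_lit 5) (nat_lit 402) (nat_lit 373) (nat_lit 245)) (XT.lf (nat_lit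 0) (nat_lit 18362585475) (nat_lit 228) (nat_lit 19701510047) (nat_lit 304) (nat_lit 7792947662) (nat_lit 239) (nat_lit 5) (nat_lit 242) (nat_lit 5) (nat_lit 243) (nat_lit 5) (nat_lit 403) (nat_lit 373) (nat_lit 244))) (XT.nd (nat_lit 78) (nat_lit 0) (nat_lit 0) (XT.lf (nat_lit 0) (nat_lit 253219829) (nat_lit 228) (nat_lit 1611337483) (nat_lit 304) (nat_lit 45375119275) (nat_lit 235) (nat_lit 5) (nat_lit 238) (nat_lit 5) (nat_lit 239) (nat_lit 5) (nat_lit 404) (nat_lit 373) (nat_lit 243)) (XT.lf (nat_lit 0) (nat_lit 12484338605) (nat_lit 304) (nat_lit 18737252354) (nat_lit 76) (nat_lit 17426398278) (nat_lit 235) (nat_lit 5) (nat_lit 239) (nat_lit 5) (nat_lit 236) (nat_lit 5) (nat_lit 405) (nat_lit 373) (nat_lit 242)))) (XT.nd (nat_lit 156) (nat_lit 456) (nat_lit 0) (XT.nd (nat_lit 78) (nat_lit 0) (nat_lit 0) (XT.lf (nat_lit 0) (nat_lit 11253286872) (nat_lit 228) (nat_lit 12580720654) (nat_lit 304)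 (nat_lit 26282765066) (nat_lit 232) (nat_lit 5) (nat_lit 235) (nat_lit 5) (nat_lit 236) (nat_lit 5) (nat_lit 406) (nat_lit 373) (nat_lit 241)) (XT.lf (nat_lit 0) (nat_lit 36179693752) (nat_lit 304) (nat_lit 8368567800) (nat_lit 76) (nat_lit 7089306869) (nat_lit 232) (nat_lit 5) (nat_lit 236) (nat_lit 5) (nat_lit 233) (nat_lit 5) (nat_lit 407) (nat_lit 373) (nat_lit 240))) (XT.nd (nat_lit 78) (nat_lit 304) (nat_lit 0) (XT.lf (nat_lit 0) (nat_lit 24215189814) (nat_lit 152) (nat_lit 25508772918) (nat_lit 228) (nat_lit 3481376388) (nat_lit 230) (nat_lit 5) (nat_lit 232) (nat_lit 5) (nat_lit 233) (nat_lit 5) (nat_lit 408) (nat_lit 373) (nat_lit 239)) (XT.lf (nat_lit 0) (nat_lit 3848403496) (nat_lit 228) (nat_lit 5155626766) (nat_lit 304) (nat_lit 45830311665) (nat_lit 226) (nat_lit 5) (nat_lit 229) (nat_lit 5) (nat_lit 230) (nat_lit 5) (nat_lit 409) (nat_lit 373) (nat_lit 238))))))) (XT.nd (nat_lit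 1248) (nat_lit 1368) (nat_lit 0) (XT.nd (nat_lit 624) (nat_lit 760) (nat_lit 0) (XT.nd (nat_lit 312) (nat_lit 532) (nat_lit 0) (XT.nd (nat_lit 156) (nat_lit 228) (nat_lit 0) (XT.nd (nat_lit 78) (nat_lit 152) (nat_lit 0) (XT.lf (nat_lit 0) (nat_lit 22745940972) (nat_lit 304) (nat_lit 17507942675) (nat_lit 76) (nat_lit 16250596100) (nat_lit 226) (nat_lit 5) (nat_lit 230) (nat_lit 5) (nat_lit 227) (nat_lit 5) (nat_lit 410) (nat_lit 373) (nat_lit 237)) (XT.lf (nat_lit 0) (nat_lit 18135337781) (nat_lit 152) (nat_lit 19404467243) (nat_lit 228) (nat_lit 20700076543) (nat_lit 224) (nat_lit 5) (nat_lit 226) (nat_lit 5) (nat_lit 227) (nat_lit 5) (nat_lit 411) (nat_lit 373) (nat_lit 236))) (XT.nd (nat_lit 78) (nat_lit 228) (nat_lit 0) (XT.lf (nat_lit 0) (nat_lit 53410796806) (nat_lit 228) (nat_lit 3926883550) (nat_lit 76) (nat_lit 2707501398) (nat_lit 224) (nat_lit 5) (nat_lit 227) (nat_lit 5) (nat_lit 225)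 (nat_lit 5) (nat_lit 412) (nat_lit 373) (nat_lit 235)) (XT.lf (nat_lit 0) (nat_lit 8747944410) (nat_lit 228) (nat_lit 27186163729) (nat_lit 76) (nat_lit 25956603075) (nat_lit 221) (nat_lit 5) (nat_lit 224) (nat_lit 5) (nat_lit 222) (nat_lit 5) (nat_lit 413) (nat_lit 373) (nat_lit 234)))) (XT.nd (nat_lit 156) (nat_lit 380) (nat_lit 0) (XT.nd (nat_lit 78) (nat_lit 0) (nat_lit 0) (XT.lf (nat_lit 0) (nat_lit 11843531156) (nat_lit 152) (nat_lit 13082785620) (nat_lit 228) (nat_lit 38884268083) (nat_lit 219) (nat_lit 5) (nat_lit 221) (nat_lit 5) (nat_lit 222) (nat_lit 5) (nat_lit 414) (nat_lit 373) (nat_lit 233)) (XT.lf (nat_lit 0) (nat_lit 42549330268) (nat_lit 228) (nat_lit 12217185355) (nat_lit 76) (nat_lit 11028150437) (nat_lit 219) (nat_lit 5) (nat_lit 222) (nat_lit 5) (nat_lit 220) (nat_lit 5) (nat_lit 415) (nat_lit 373) (nat_lit 232))) (XT.nd (nat_lit 78) (nat_lit 228) (nat_lit 0) (XT.lf (nat_lit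 0) (nat_lit 30270348421) (nat_lit 152) (nat_lit 31467757218) (nat_lit 228) (nat_lit 6105615122) (nat_lit 217) (nat_lit 5) (nat_lit 219) (nat_lit 5) (nat_lit 220) (nat_lit 5) (nat_lit 416) (nat_lit 373) (nat_lit 231)) (XT.lf (nat_lit 0) (nat_lit 5297838061) (nat_lit 152) (nat_lit 6503221980) (nat_lit 228) (nat_lit 58170357611) (nat_lit 214) (nat_lit 5) (nat_lit 216) (nat_lit 5) (nat_lit 217) (nat_lit 5) (nat_lit 417) (nat_lit 373) (nat_lit 230))))) (XT.nd (nat_lit 312) (nat_lit 456) (nat_lit 0) (XT.nd (nat_lit 156) (nat_lit 152) (nat_lit 0) (XT.nd (nat_lit 78) (nat_lit 152) (nat_lit 0) (XT.lf (nat_lit 0) (nat_lit 31349928841) (nat_lit 228) (nat_lit 20979090935) (nat_lit 76) (nat_lit 19823872579) (nat_lit 214) (nat_lit 5) (nat_lit 217) (nat_lit 5) (nat_lit 215) (nat_lit 5) (nat_lit 418) (nat_lit 373) (nat_lit 229)) (XT.lf (nat_lit 0) (nat_lit 25609131131) (nat_lit 152) (nat_lit 26771238697) (nat_lit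 228) (nat_lit 22037864529) (nat_lit 212) (nat_lit 5) (nat_lit 214) (nat_lit 5) (nat_lit 215) (nat_lit 5) (nat_lit 419) (nat_lit 373) (nat_lit 228))) (XT.nd (nat_lit 78) (nat_lit 152) (nat_lit 0) (XT.lf (nat_lit 0) (nat_lit 74822164089) (nat_lit 228) (nat_lit 1534852817) (nat_lit 76) (nat_lit 421834990) (nat_lit 212) (nat_lit 5) (nat_lit 215) (nat_lit 5) (nat_lit 213) (nat_lit 4) (nat_lit 420) (nat_lit 373) (nat_lit 227)) (XT.lf (nat_lit 0) (nat_lit 19741482871) (nat_lit 152) (nat_lit 30279397755) (nat_lit 76) (nat_lit 29160428769) (nat_lit 210) (nat_lit 5) (nat_lit 212) (nat_lit 5) (nat_lit 211) (nat_lit 5) (nat_lit 421) (nat_lit 373) (nat_lit 226)))) (XT.nd (nat_lit 156) (nat_lit 304) (nat_lit 0) (XT.nd (nat_lit 78) (nat_lit 0) (nat_lit 0) (XT.lf (nat_lit 0) (nat_lit 20841908166) (nat_lit 152) (nat_lit 21966544922) (nat_lit 228) (nat_lit 38876350413) (nat_lit 208) (nat_lit 5) (nat_lit 210) (nat_lit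 5) (nat_lit 211) (nat_lit 5) (nat_lit 422) (nat_lit 373) (nat_lit 225)) (XT.lf (nat_lit 0) (nat_lit 67664768441) (nat_lit 228) (nat_lit 8846563749) (nat_lit 76) (nat_lit 7770340289) (nat_lit 208) (nat_lit 5) (nat_lit 211) (nat_lit 5) (nat_lit 209) (nat_lit 4) (nat_lit 423) (nat_lit 373) (nat_lit 224))) (XT.nd (nat_lit 78) (nat_lit 152) (nat_lit 0) (XT.lf (nat_lit 0) (nat_lit 7647250762) (nat_lit 152) (nat_lit 40190791137) (nat_lit 76) (nat_lit 39109671644) (nat_lit 206) (nat_lit 5) (nat_lit 208) (nat_lit 5) (nat_lit 207) (nat_lit 5) (nat_lit 424) (nat_lit 373) (nat_lit 223)) (XT.lf (nat_lit 0) (nat_lit 15939745733) (nat_lit 152) (nat_lit 17025528115) (nat_lit 228) (nat_lit 56748207525) (nat_lit 204) (nat_lit 5) (nat_lit 206) (nat_lit 5) (nat_lit 207) (nat_lit 5) (nat_lit 425) (nat_lit 373) (nat_lit 222)))))) (XT.nd (nat_lit 624) (nat_lit 684) (nat_lit 0) (XT.nd (nat_lit 312) (nat_lit 380) (nat_lit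 0) (XT.nd (nat_lit 156) (nat_lit 228) (nat_lit 0) (XT.nd (nat_lit 78) (nat_lit 76) (nat_lit 0) (XT.lf (nat_lit 0) (nat_lit 60478284790) (nat_lit 228) (nat_lit 16565553152) (nat_lit 76) (nat_lit 15527245316) (nat_lit 204) (nat_lit 5) (nat_lit 207) (nat_lit 5) (nat_lit 205) (nat_lit 4) (nat_lit 426) (nat_lit 373) (nat_lit 221)) (XT.lf (nat_lit 0) (nat_lit 44649444042) (nat_lit 76) (nat_lit 45691779857) (nat_lit 152) (nat_lit 5181627459) (nat_lit 203) (nat_lit 5) (nat_lit 204) (nat_lit 5) (nat_lit 205) (nat_lit 4) (nat_lit 427) (nat_lit 373) (nat_lit 220))) (XT.nd (nat_lit 78) (nat_lit 0) (nat_lit 0) (XT.lf (nat_lit 0) (nat_lit 10871669416) (nat_lit 152) (nat_lit 11917841401) (nat_lit 228) (nat_lit 75792035890) (nat_lit 200) (nat_lit 5) (nat_lit 202) (nat_lit 5) (nat_lit 203) (nat_lit 5) (nat_lit 428) (nat_lit 373) (nat_lit 219)) (XT.lf (nat_lit 0) (nat_lit 53226445447) (nat_lit 228) (nat_lit 24750124563)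 (nat_lit 76) (nat_lit 23750290773) (nat_lit 200) (nat_lit 5) (nat_lit 203) (nat_lit 5) (nat_lit 201) (nat_lit 4) (nat_lit 429) (nat_lit 373) (nat_lit 218)))) (XT.nd (nat_lit 156) (nat_lit 76) (nat_lit 0) (XT.nd (nat_lit 78) (nat_lit 228) (nat_lit 0) (XT.lf (nat_lit 0) (nat_lit 42519741593) (nat_lit 76) (nat_lit 43522889212) (nat_lit 152) (nat_lit 18943939557) (nat_lit 199) (nat_lit 5) (nat_lit 200) (nat_lit 5) (nat_lit 201) (nat_lit 4) (nat_lit 430) (nat_lit 373) (nat_lit 217)) (XT.lf (nat_lit 0) (nat_lit 5604399489) (nat_lit 152) (nat_lit 6610703135) (nat_lit 228) (nat_lit 96159139096) (nat_lit 196) (nat_lit 5) (nat_lit 198) (nat_lit 5) (nat_lit 199) (nat_lit 5) (nat_lit 431) (nat_lit 373) (nat_lit 216))) (XT.nd (nat_lit 78) (nat_lit 76) (nat_lit 0) (XT.lf (nat_lit 0) (nat_lit 45870803603) (nat_lit 228) (nat_lit 33463722445) (nat_lit 76) (nat_lit 32502475412) (nat_lit 196) (nat_lit 5) (nat_lit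 199) (nat_lit 5) (nat_lit 197) (nat_lit 4) (nat_lit 432) (nat_lit 373) (nat_lit 215)) (XT.lf (nat_lit 0) (nat_lit 40492080905) (nat_lit 76) (nat_lit 41456054233) (nat_lit 152) (nat_lit 33487821776) (nat_lit 195) (nat_lit 5) (nat_lit 196) (nat_lit 5) (nat_lit 197) (nat_lit 4) (nat_lit 433) (nat_lit 373) (nat_lit 214))))) (XT.nd (nat_lit 312) (nat_lit 380) (nat_lit 0) (XT.nd (nat_lit 156) (nat_lit 76) (nat_lit 0) (XT.nd (nat_lit 78) (nat_lit 0) (nat_lit 0) (XT.lf (nat_lit 0) (nat_lit 102063777) (nat_lit 152) (nat_lit 1068633575) (nat_lit 228) (nat_lit 118014888544) (nat_lit 192) (nat_lit 5) (nat_lit 194) (nat_lit 5) (nat_lit 195) (nat_lit 5) (nat_lit 434) (nat_lit 373) (nat_lit 213)) (XT.lf (nat_lit 0) (nat_lit 38370445008) (nat_lit 228) (nat_lit 42775507189) (nat_lit 76) (nat_lit 41852609448) (nat_lit 192) (nat_lit 5) (nat_lit 195) (nat_lit 5) (nat_lit 193) (nat_lit 4) (nat_lit 435) (nat_lit 373)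 (nat_lit 212))) (XT.nd (nat_lit 78) (nat_lit 0) (nat_lit 0) (XT.lf (nat_lit 0) (nat_lit 38561491616) (nat_lit 76) (nat_lit 39486632286) (nat_lit 152) (nat_lit 48923165085) (nat_lit 191) (nat_lit 5) (nat_lit 192) (nat_lit 5) (nat_lit 193) (nat_lit 4) (nat_lit 436) (nat_lit 373) (nat_lit 211)) (XT.lf (nat_lit 0) (nat_lit 120510808465) (nat_lit 152) (nat_lit 5737454451) (nat_lit 0) (nat_lit 4854333695) (nat_lit 191) (nat_lit 5) (nat_lit 193) (nat_lit 4) (nat_lit 191) (nat_lit 4) (nat_lit 437) (nat_lit 373) (nat_lit 210)))) (XT.nd (nat_lit 156) (nat_lit 152) (nat_lit 0) (XT.nd (nat_lit 78) (nat_lit 76) (nat_lit 0) (XT.lf (nat_lit 0) (nat_lit 30681671708) (nat_lit 152) (nat_lit 52760985294) (nat_lit 76) (nat_lit 51875927012) (nat_lit 189) (nat_lit 5) (nat_lit 191) (nat_lit 5) (nat_lit 190) (nat_lit 4) (nat_lit 438) (nat_lit 373) (nat_lit 209)) (XT.lf (nat_lit 0) (nat_lit 36723259771) (nat_lit 76) (nat_lit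 37610163316) (nat_lit 152) (nat_lit 65369737302) (nat_lit 188) (nat_lit 5) (nat_lit 189) (nat_lit 5) (nat_lit 190) (nat_lit 4) (nat_lit 439) (nat_lit 373) (nat_lit 208))) (XT.nd (nat_lit 78) (nat_lit 152) (nat_lit 0) (XT.lf (nat_lit 0) (nat_lit 121238560605) (nat_lit 152) (nat_lit 11930604401) (nat_lit 0) (nat_lit 11084260650) (nat_lit 188) (nat_lit 5) (nat_lit 190) (nat_lit 4) (nat_lit 188) (nat_lit 4) (nat_lit 440) (nat_lit 373) (nat_lit 207)) (XT.lf (nat_lit 0) (nat_lit 22757655187) (nat_lit 152) (nat_lit 63502700828) (nat_lit 76) (nat_lit 62654763068) (nat_lit 186) (nat_lit 5) (nat_lit 188) (nat_lit 5) (nat_lit 187) (nat_lit 4) (nat_lit 441) (nat_lit 373) (nat_lit 206))))))))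
noncomputable def xc226 : XT := (XT.nd (nat_lit 1248) (nat_lit 1140) (nat_lit 0) (XT.nd (nat_lit 624) (nat_lit 684) (nat_lit 0) (XT.nd (nat_lit 312) (nat_lit 228) (nat_lit 0) (XT.nd (nat_lit 156) (nat_lit 228) (nat_lit 0) (XT.nd (nat_lit 78) (nat_lit 0) (nat_lit 0) (XT.lf (nat_lit 0) (nat_lit 34972912112) (nat_lit 76) (nat_lit 35822367974) (nat_lit 152) (nat_lit 82958256001) (nat_lit 185) (nat_lit 5) (nat_lit 186) (nat_lit 5) (nat_lit 187) (nat_lit 4) (nat_lit 442) (nat_lit 373) (nat_lit 205)) (XT.lf (nat_lit 0) (nat_lit 122593975956) (nat_lit 152) (nat_lit 18491160523) (nat_lit 0) (nat_lit 17680777976) (nat_lit 185) (nat_lit 5) (nat_lit 187) (nat_lit 4) (nat_lit 185) (nat_lit 4) (nat_lit 443) (nat_lit 373) (nat_lit 204))) (XT.nd (nat_lit 78) (nat_lit 76) (nat_lit 0) (XT.lf (nat_lit 0) (nat_lit 14548055885) (nat_lit 152) (nat_lit 75090994809) (nat_lit 76) (nat_lit 74279300868) (nat_lit 183) (nat_lit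 5) (nat_lit 185) (nat_lit 5) (nat_lit 184) (nat_lit 4) (nat_lit 444) (nat_lit 373) (nat_lit 203)) (XT.lf (nat_lit 0) (nat_lit 33306201741) (nat_lit 76) (nat_lit 34119144630) (nat_lit 152) (nat_lit 101831569485) (nat_lit 182) (nat_lit 5) (nat_lit 183) (nat_lit 5) (nat_lit 184) (nat_lit 4) (nat_lit 445) (nat_lit 373) (nat_lit 202)))) (XT.nd (nat_lit 156) (nat_lit 76) (nat_lit 0) (XT.nd (nat_lit 78) (nat_lit 152) (nat_lit 0) (XT.lf (nat_lit 0) (nat_lit 124615139214) (nat_lit 152) (nat_lit 25469600707) (nat_lit 0) (nat_lit 24694236553) (nat_lit 182) (nat_lit 5) (nat_lit 184) (nat_lit 4) (nat_lit 182) (nat_lit 4) (nat_lit 446) (nat_lit 373) (nat_lit 201)) (XT.lf (nat_lit 0) (nat_lit 5998605729) (nat_lit 152) (nat_lit 87624839803) (nat_lit 76) (nat_lit 86848396762) (nat_lit 180) (nat_lit 5) (nat_lit 182) (nat_lit 5) (nat_lit 181) (nat_lit 4) (nat_lit 447) (nat_lit 373) (nat_lit 200))) (XT.nd (nat_lit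 78) (nat_lit 0) (nat_lit 0) (XT.lf (nat_lit 0) (nat_lit 31719094976) (nat_lit 76) (nat_lit 32496565529) (nat_lit 152) (nat_lit 122145956824) (nat_lit 179) (nat_lit 5) (nat_lit 180) (nat_lit 5) (nat_lit 181) (nat_lit 4) (nat_lit 448) (nat_lit 373) (nat_lit 199)) (XT.lf (nat_lit 0) (nat_lit 127345273580) (nat_lit 152) (nat_lit 32920951193) (nat_lit 0) (nat_lit 32179571064) (nat_lit 179) (nat_lit 5) (nat_lit 181) (nat_lit 4) (nat_lit 179) (nat_lit 4) (nat_lit 449) (nat_lit 373) (nat_lit 198))))) (XT.nd (nat_lit 312) (nat_lit 380) (nat_lit 0) (XT.nd (nat_lit 156) (nat_lit 76) (nat_lit 0) (XT.nd (nat_lit 78) (nat_lit 152) (nat_lit 0) (XT.lf (nat_lit 0) (nat_lit 97471191260) (nat_lit 76) (nat_lit 98213458992) (nat_lit 76) (nat_lit 3046868872) (nat_lit 178) (nat_lit 4) (nat_lit 179) (nat_lit 5) (nat_lit 179) (nat_lit 4) (nat_lit 450) (nat_lit 373) (nat_lit 197)) (XT.lf (nat_lit 0) (nat_lit 30207759246)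 (nat_lit 76) (nat_lit 30950872315) (nat_lit 152) (nat_lit 144072559110) (nat_lit 176) (nat_lit 5) (nat_lit 177) (nat_lit 5) (nat_lit 178) (nat_lit 4) (nat_lit 451) (nat_lit 373) (nat_lit 196))) (XT.nd (nat_lit 78) (nat_lit 76) (nat_lit 0) (XT.lf (nat_lit 0) (nat_lit 130833211351) (nat_lit 152) (nat_lit 40905285267) (nat_lit 0) (nat_lit 40196791790) (nat_lit 176) (nat_lit 5) (nat_lit 178) (nat_lit 4) (nat_lit 176) (nat_lit 4) (nat_lit 452) (nat_lit 373) (nat_lit 195)) (XT.lf (nat_lit 0) (nat_lit 102695938138) (nat_lit 76) (nat_lit 103405161848) (nat_lit 76) (nat_lit 12768012054) (nat_lit 175) (nat_lit 4) (nat_lit 176) (nat_lit 5) (nat_lit 176) (nat_lit 4) (nat_lit 453) (nat_lit 373) (nat_lit 194)))) (XT.nd (nat_lit 156) (nat_lit 228) (nat_lit 0) (XT.nd (nat_lit 78) (nat_lit 0) (nat_lit 0) (XT.lf (nat_lit 0) (nat_lit 28768551920) (nat_lit 76) (nat_lit 29478471091) (nat_lit 152) (nat_lit 167798955367)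 (nat_lit 173) (nat_lit 5) (nat_lit 174) (nat_lit 5) (nat_lit 175) (nat_lit 4) (nat_lit 454) (nat_lit 373) (nat_lit 193)) (XT.lf (nat_lit 0) (nat_lit 135133914941) (nat_lit 152) (nat_lit 49488271052) (nat_lit 0) (nat_lit 48811526753) (nat_lit 173) (nat_lit 5) (nat_lit 175) (nat_lit 4) (nat_lit 173) (nat_lit 4) (nat_lit 455) (nat_lit 373) (nat_lit 192))) (XT.nd (nat_lit 78) (nat_lit 152) (nat_lit 0) (XT.lf (nat_lit 0) (nat_lit 108683394510) (nat_lit 76) (nat_lit 109360739574) (nat_lit 76) (nat_lit 23037750621) (nat_lit 172) (nat_lit 4) (nat_lit 173) (nat_lit 5) (nat_lit 173) (nat_lit 4) (nat_lit 456) (nat_lit 373) (nat_lit 191)) (XT.lf (nat_lit 0) (nat_lit 27398009937) (nat_lit 76) (nat_lit 28075927158) (nat_lit 152) (nat_lit 193530897924) (nat_lit 170) (nat_lit 5) (nat_lit 171) (nat_lit 5) (nat_lit 172) (nat_lit 4) (nat_lit 457) (nat_lit 373) (nat_lit 190)))))) (XT.nd (nat_lit 624) (nat_lit 608)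 (nat_lit 0) (XT.nd (nat_lit 312) (nat_lit 304) (nat_lit 0) (XT.nd (nat_lit 156) (nat_lit 152) (nat_lit 0) (XT.nd (nat_lit 78) (nat_lit 76) (nat_lit 0) (XT.lf (nat_lit 0) (nat_lit 140309053487) (nat_lit 152) (nat_lit 58741773592) (nat_lit 0) (nat_lit 58095619181) (nat_lit 170) (nat_lit 5) (nat_lit 172) (nat_lit 4) (nat_lit 170) (nat_lit 4) (nat_lit 458) (nat_lit 373) (nat_lit 189)) (XT.lf (nat_lit 0) (nat_lit 115500881660) (nat_lit 76) (nat_lit 116147530322) (nat_lit 76) (nat_lit 33933601766) (nat_lit 169) (nat_lit 4) (nat_lit 170) (nat_lit 5) (nat_lit 170) (nat_lit 4) (nat_lit 459) (nat_lit 373) (nat_lit 188))) (XT.nd (nat_lit 78) (nat_lit 0) (nat_lit 0) (XT.lf (nat_lit 0) (nat_lit 26092840176) (nat_lit 76) (nat_lit 26739959554) (nat_lit 152) (nat_lit 221494223646) (nat_lit 167) (nat_lit 5) (nat_lit 168) (nat_lit 5) (nat_lit 169) (nat_lit 4) (nat_lit 460) (nat_lit 373) (nat_lit 187)) (XT.lf (nat_lit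 0) (nat_lit 146427640684) (nat_lit 152) (nat_lit 68744516975) (nat_lit 0) (nat_lit 68127785854) (nat_lit 167) (nat_lit 5) (nat_lit 169) (nat_lit 4) (nat_lit 167) (nat_lit 4) (nat_lit 461) (nat_lit 373) (nat_lit 186)))) (XT.nd (nat_lit 156) (nat_lit 76) (nat_lit 0) (XT.nd (nat_lit 78) (nat_lit 152) (nat_lit 0) (XT.lf (nat_lit 0) (nat_lit 123223145135) (nat_lit 76) (nat_lit 123840282877) (nat_lit 76) (nat_lit 45540021426) (nat_lit 166) (nat_lit 4) (nat_lit 167) (nat_lit 5) (nat_lit 167) (nat_lit 4) (nat_lit 462) (nat_lit 373) (nat_lit 185)) (XT.lf (nat_lit 0) (nat_lit 24849910470) (nat_lit 76) (nat_lit 25467435471) (nat_lit 152) (nat_lit 251936959045) (nat_lit 164) (nat_lit 5) (nat_lit 165) (nat_lit 5) (nat_lit 166) (nat_lit 4) (nat_lit 463) (nat_lit 373) (nat_lit 184))) (XT.nd (nat_lit 78) (nat_lit 76) (nat_lit 0) (XT.lf (nat_lit 0) (nat_lit 153566740107) (nat_lit 152) (nat_lit 79582812765) (nat_lit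 0) (nat_lit 78994342462) (nat_lit 164) (nat_lit 5) (nat_lit 166) (nat_lit 4) (nat_lit 164) (nat_lit 4) (nat_lit 464) (nat_lit 373) (nat_lit 183)) (XT.lf (nat_lit 0) (nat_lit 131933089570) (nat_lit 76) (nat_lit 132521894402) (nat_lit 76) (nat_lit 57949162229) (nat_lit 163) (nat_lit 4) (nat_lit 164) (nat_lit 5) (nat_lit 164) (nat_lit 4) (nat_lit 465) (nat_lit 373) (nat_lit 182))))) (XT.nd (nat_lit 312) (nat_lit 228) (nat_lit 0) (XT.nd (nat_lit 156) (nat_lit 228) (nat_lit 0) (XT.nd (nat_lit 78) (nat_lit 0) (nat_lit 0) (XT.lf (nat_lit 0) (nat_lit 23666241206) (nat_lit 76) (nat_lit 24255364636) (nat_lit 152) (nat_lit 285131639211) (nat_lit 161) (nat_lit 5) (nat_lit 162) (nat_lit 5) (nat_lit 163) (nat_lit 4) (nat_lit 466) (nat_lit 373) (nat_lit 181)) (XT.lf (nat_lit 0) (nat_lit 161812244864) (nat_lit 152) (nat_lit 91351361681) (nat_lit 0) (nat_lit 90790002770) (nat_lit 161) (nat_lit 5) (nat_lit 163)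 (nat_lit 4) (nat_lit 161) (nat_lit 4) (nat_lit 467) (nat_lit 373) (nat_lit 180))) (XT.nd (nat_lit 78) (nat_lit 152) (nat_lit 0) (XT.lf (nat_lit 0) (nat_lit 141722590300) (nat_lit 76) (nat_lit 142284224429) (nat_lit 76) (nat_lit 71261707117) (nat_lit 160) (nat_lit 4) (nat_lit 161) (nat_lit 5) (nat_lit 161) (nat_lit 4) (nat_lit 468) (nat_lit 373) (nat_lit 179)) (XT.lf (nat_lit 0) (nat_lit 22538997461) (nat_lit 76) (nat_lit 23100893701) (nat_lit 152) (nat_lit 321377862525) (nat_lit 158) (nat_lit 5) (nat_lit 159) (nat_lit 5) (nat_lit 160) (nat_lit 4) (nat_lit 469) (nat_lit 373) (nat_lit 178)))) (XT.nd (nat_lit 156) (nat_lit 152) (nat_lit 0) (XT.nd (nat_lit 78) (nat_lit 76) (nat_lit 0) (XT.lf (nat_lit 0) (nat_lit 171259739148) (nat_lit 152) (nat_lit 104154136117) (nat_lit 0) (nat_lit 103618759098) (nat_lit 158) (nat_lit 5) (nat_lit 160) (nat_lit 4) (nat_lit 158) (nat_lit 4) (nat_lit 470) (nat_lit 373)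 (nat_lit 177)) (XT.lf (nat_lit 0) (nat_lit 152693389505) (nat_lit 76) (nat_lit 153228992947) (nat_lit 76) (nat_lit 85587786474) (nat_lit 157) (nat_lit 4) (nat_lit 158) (nat_lit 5) (nat_lit 158) (nat_lit 4) (nat_lit 471) (nat_lit 373) (nat_lit 176))) (XT.nd (nat_lit 78) (nat_lit 0) (nat_lit 0) (XT.lf (nat_lit 0) (nat_lit 21465481611) (nat_lit 76) (nat_lit 22001300692) (nat_lit 152) (nat_lit 361005105357) (nat_lit 155) (nat_lit 5) (nat_lit 156) (nat_lit 5) (nat_lit 157) (nat_lit 4) (nat_lit 472) (nat_lit 373) (nat_lit 175)) (XT.lf (nat_lit 0) (nat_lit 182015450023) (nat_lit 152) (nat_lit 118105351898) (nat_lit 0) (nat_lit 117594852419) (nat_lit 155) (nat_lit 5) (nat_lit 157) (nat_lit 4) (nat_lit 155) (nat_lit 4) (nat_lit 473) (nat_lit 373) (nat_lit 174)))))))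
noncomputable def xc227 : XT := (XT.nd (nat_lit 1248) (nat_lit 152) (nat_lit 0) (XT.nd (nat_lit 624) (nat_lit 532) (nat_lit 0) (XT.nd (nat_lit 312) (nat_lit 380) (nat_lit 0) (XT.nd (nat_lit 156) (nat_lit 76) (nat_lit 0) (XT.nd (nat_lit 78) (nat_lit 152) (nat_lit 0) (XT.lf (nat_lit 0) (nat_lit 164958085480) (nat_lit 76) (nat_lit 165468771237) (nat_lit 76) (nat_lit 101047987356) (nat_lit 154) (nat_lit 4) (nat_lit 155) (nat_lit 5) (nat_lit 155) (nat_lit 4) (nat_lit 474) (nat_lit 373) (nat_lit 173)) (XT.lf (nat_lit 0) (nat_lit 20443126387) (nat_lit 76) (nat_lit 20953989552) (nat_lit 152) (nat_lit 404375823484) (nat_lit 152) (nat_lit 5) (nat_lit 153) (nat_lit 5) (nat_lit 154) (nat_lit 4) (nat_lit 475) (nat_lit 373) (nat_lit 172))) (XT.nd (nat_lit 78) (nat_lit 76) (nat_lit 0) (XT.lf (nat_lit 0) (nat_lit 194197298620) (nat_lit 152) (nat_lit 133330538501) (nat_lit 0) (nat_lit 132843841240) (nat_lit 152)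 (nat_lit 5) (nat_lit 154) (nat_lit 4) (nat_lit 152) (nat_lit 4) (nat_lit 476) (nat_lit 373) (nat_lit 171)) (XT.lf (nat_lit 0) (nat_lit 178641224467) (nat_lit 76) (nat_lit 179128074979) (nat_lit 76) (nat_lit 117774464348) (nat_lit 151) (nat_lit 4) (nat_lit 152) (nat_lit 5) (nat_lit 152) (nat_lit 4) (nat_lit 477) (nat_lit 373) (nat_lit 170)))) (XT.nd (nat_lit 156) (nat_lit 228) (nat_lit 0) (XT.nd (nat_lit 78) (nat_lit 0) (nat_lit 0) (XT.lf (nat_lit 0) (nat_lit 19469488332) (nat_lit 76) (nat_lit 19956484797) (nat_lit 152) (nat_lit 451888869659) (nat_lit 149) (nat_lit 5) (nat_lit 150) (nat_lit 5) (nat_lit 151) (nat_lit 4) (nat_lit 478) (nat_lit 373) (nat_lit 169)) (XT.lf (nat_lit 0) (nat_lit 207936060878) (nat_lit 152) (nat_lit 149967717907) (nat_lit 0) (nat_lit 149503779365) (nat_lit 149) (nat_lit 5) (nat_lit 151) (nat_lit 4) (nat_lit 149) (nat_lit 4) (nat_lit 479) (nat_lit 373) (nat_lit 168))) (XT.nd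 (nat_lit 78) (nat_lit 152) (nat_lit 0) (XT.lf (nat_lit 0) (nat_lit 193880505499) (nat_lit 76) (nat_lit 194344570121) (nat_lit 76) (nat_lit 135912162529) (nat_lit 148) (nat_lit 4) (nat_lit 149) (nat_lit 5) (nat_lit 149) (nat_lit 4) (nat_lit 480) (nat_lit 373) (nat_lit 167)) (XT.lf (nat_lit 0) (nat_lit 18542241624) (nat_lit 76) (nat_lit 19006426323) (nat_lit 152) (nat_lit 503983259802) (nat_lit 146) (nat_lit 5) (nat_lit 147) (nat_lit 5) (nat_lit 148) (nat_lit 4) (nat_lit 481) (nat_lit 373) (nat_lit 166))))) (XT.nd (nat_lit 312) (nat_lit 304) (nat_lit 0) (XT.nd (nat_lit 156) (nat_lit 152) (nat_lit 0) (XT.nd (nat_lit 78) (nat_lit 76) (nat_lit 0) (XT.lf (nat_lit 0) (nat_lit 223376648974) (nat_lit 152) (nat_lit 168168703288) (nat_lit 0) (nat_lit 167726513710) (nat_lit 146) (nat_lit 5) (nat_lit 148) (nat_lit 4) (nat_lit 146) (nat_lit 4) (nat_lit 482) (nat_lit 373) (nat_lit 165)) (XT.lf (nat_lit 0) (nat_lit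 210828109766) (nat_lit 76) (nat_lit 211270403070) (nat_lit 76) (nat_lit 155620164080) (nat_lit 145) (nat_lit 4) (nat_lit 146) (nat_lit 5) (nat_lit 146) (nat_lit 4) (nat_lit 483) (nat_lit 373) (nat_lit 164))) (XT.nd (nat_lit 78) (nat_lit 0) (nat_lit 0) (XT.lf (nat_lit 0) (nat_lit 17659172254) (nat_lit 76) (nat_lit 18101564346) (nat_lit 152) (nat_lit 561142323619) (nat_lit 143) (nat_lit 5) (nat_lit 144) (nat_lit 5) (nat_lit 145) (nat_lit 4) (nat_lit 484) (nat_lit 373) (nat_lit 163)) (XT.lf (nat_lit 0) (nat_lit 240679525764) (nat_lit 152) (nat_lit 188100529873) (nat_lit 0) (nat_lit 187679114468) (nat_lit 143) (nat_lit 5) (nat_lit 145) (nat_lit 4) (nat_lit 143) (nat_lit 4) (nat_lit 485) (nat_lit 373) (nat_lit 162)))) (XT.nd (nat_lit 156) (nat_lit 76) (nat_lit 0) (XT.nd (nat_lit 78) (nat_lit 152) (nat_lit 0) (XT.lf (nat_lit 0) (nat_lit 229652167200) (nat_lit 76) (nat_lit 230073667940) (nat_lit 76) (nat_lit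 177073171308) (nat_lit 142) (nat_lit 4) (nat_lit 143) (nat_lit 5) (nat_lit 143) (nat_lit 4) (nat_lit 486) (nat_lit 373) (nat_lit 161)) (XT.lf (nat_lit 0) (nat_lit 16818172508) (nat_lit 76) (nat_lit 17239754521) (nat_lit 152) (nat_lit 623898279101) (nat_lit 140) (nat_lit 5) (nat_lit 141) (nat_lit 5) (nat_lit 142) (nat_lit 4) (nat_lit 487) (nat_lit 373) (nat_lit 160))) (XT.nd (nat_lit 78) (nat_lit 76) (nat_lit 0) (XT.lf (nat_lit 0) (nat_lit 260022265785) (nat_lit 152) (nat_lit 209947031603) (nat_lit 0) (nat_lit 209545451207) (nat_lit 140) (nat_lit 5) (nat_lit 142) (nat_lit 4) (nat_lit 140) (nat_lit 4) (nat_lit 488) (nat_lit 373) (nat_lit 159)) (XT.lf (nat_lit 0) (nat_lit 250538374293) (nat_lit 76) (nat_lit 250940024894) (nat_lit 76) (nat_lit 200463140110) (nat_lit 139) (nat_lit 4) (nat_lit 140) (nat_lit 5) (nat_lit 140) (nat_lit 4) (nat_lit 489) (nat_lit 373) (nat_lit 158)))))) (XT.nd (nat_lit 44616)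 (nat_lit 0) (nat_lit 10488) (XT.nd (nat_lit 44304) (nat_lit 0) (nat_lit 11856) (XT.nd (nat_lit 44148) (nat_lit 0) (nat_lit 11780) (XT.nd (nat_lit 44070) (nat_lit 0) (nat_lit 11780) (XT.lf (nat_lit 0) (nat_lit 16017235756) (nat_lit 76) (nat_lit 16418953220) (nat_lit 152) (nat_lit 692837274429) (nat_lit 137) (nat_lit 5) (nat_lit 138) (nat_lit 5) (nat_lit 139) (nat_lit 4) (nat_lit 490) (nat_lit 373) (nat_lit 157)) (XT.lf (nat_lit 0) (nat_lit 4035096627) (nat_lit 836) (nat_lit 3335680666) (nat_lit 836) (nat_lit 3335680666) (nat_lit 292) (nat_lit 3) (nat_lit 303) (nat_lit 3) (nat_lit 303) (nat_lit 5) (nat_lit 374) (nat_lit 374) (nat_lit 272))) (XT.nd (nat_lit 78) (nat_lit 0) (nat_lit 76) (XT.lf (nat_lit 76) (nat_lit 4168515145) (nat_lit 0) (nat_lit 4310390181) (nat_lit 836) (nat_lit 13458985632) (nat_lit 293) (nat_lit 5) (nat_lit 292) (nat_lit 3) (nat_lit 303) (nat_lit 5) (nat_lit 375) (nat_lit 374)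 (nat_lit 271)) (XT.lf (nat_lit 0) (nat_lit 9117500748) (nat_lit 760) (nat_lit 6812472766) (nat_lit 836) (nat_lit 6548668844) (nat_lit 293) (nat_lit 5) (nat_lit 303) (nat_lit 5) (nat_lit 304) (nat_lit 5) (nat_lit 376) (nat_lit 374) (nat_lit 270)))) (XT.nd (nat_lit 156) (nat_lit 0) (nat_lit 76) (XT.nd (nat_lit 78) (nat_lit 0) (nat_lit 76) (XT.lf (nat_lit 76) (nat_lit 4769062997) (nat_lit 0) (nat_lit 5155423909) (nat_lit 836) (nat_lit 13115121374) (nat_lit 294) (nat_lit 5) (nat_lit 293) (nat_lit 5) (nat_lit 304) (nat_lit 5) (nat_lit 377) (nat_lit 374) (nat_lit 269)) (XT.lf (nat_lit 0) (nat_lit 10976950909) (nat_lit 760) (nat_lit 6560270369) (nat_lit 836) (nat_lit 6081144793) (nat_lit 294) (nat_lit 5) (nat_lit 304) (nat_lit 5) (nat_lit 305) (nat_lit 5) (nat_lit 378) (nat_lit 374) (nat_lit 268))) (XT.nd (nat_lit 78) (nat_lit 0) (nat_lit 76) (XT.lf (nat_lit 76) (nat_lit 5832367696) (nat_lit 0) (nat_lit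 6417362608) (nat_lit 836) (nat_lit 11967946840) (nat_lit 295) (nat_lit 5) (nat_lit 294) (nat_lit 5) (nat_lit 305) (nat_lit 5) (nat_lit 379) (nat_lit 374) (nat_lit 267)) (XT.lf (nat_lit 0) (nat_lit 13773619327) (nat_lit 760) (nat_lit 5858562764) (nat_lit 836) (nat_lit 5205398144) (nat_lit 295) (nat_lit 5) (nat_lit 305) (nat_lit 5) (nat_lit 306) (nat_lit 5) (nat_lit 380) (nat_lit 374) (nat_lit 266))))) (XT.nd (nat_lit 312) (nat_lit 1520) (nat_lit 0) (XT.nd (nat_lit 156) (nat_lit 0) (nat_lit 76) (XT.nd (nat_lit 78) (nat_lit 0) (nat_lit 76) (XT.lf (nat_lit 76) (nat_lit 7421482452) (nat_lit 0) (nat_lit 8166100985) (nat_lit 836) (nat_lit 9890201014) (nat_lit 296) (nat_lit 5) (nat_lit 295) (nat_lit 5) (nat_lit 306) (nat_lit 5) (nat_lit 381) (nat_lit 374) (nat_lit 265)) (XT.lf (nat_lit 0) (nat_lit 17646656257) (nat_lit 760) (nat_lit 4643866998) (nat_lit 836) (nat_lit 3851755095) (nat_lit 296) (nat_lit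 5) (nat_lit 306) (nat_lit 5) (nat_lit 307) (nat_lit 5) (nat_lit 382) (nat_lit 374) (nat_lit 264))) (XT.nd (nat_lit 78) (nat_lit 0) (nat_lit 76) (XT.lf (nat_lit 76) (nat_lit 9607430680) (nat_lit 0) (nat_lit 10478543912) (nat_lit 836) (nat_lit 6740157761) (nat_lit 297) (nat_lit 5) (nat_lit 296) (nat_lit 5) (nat_lit 307) (nat_lit 5) (nat_lit 383) (nat_lit 374) (nat_lit 263)) (XT.lf (nat_lit 0) (nat_lit 22750903111) (nat_lit 760) (nat_lit 2844690957) (nat_lit 76) (nat_lit 1943402774) (nat_lit 297) (nat_lit 5) (nat_lit 307) (nat_lit 5) (nat_lit 298) (nat_lit 5) (nat_lit 384) (nat_lit 374) (nat_lit 262)))) (XT.nd (nat_lit 156) (nat_lit 836) (nat_lit 0) (XT.nd (nat_lit 78) (nat_lit 76) (nat_lit 0) (XT.lf (nat_lit 0) (nat_lit 12469993627) (nat_lit 760) (nat_lit 13439526128) (nat_lit 836) (nat_lit 2359962715) (nat_lit 287) (nat_lit 5) (nat_lit 297) (nat_lit 5) (nat_lit 298) (nat_lit 5) (nat_lit 385) (nat_lit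 374) (nat_lit 261)) (XT.lf (nat_lit 0) (nat_lit 226553220) (nat_lit 836) (nat_lit 394133594) (nat_lit 76) (nat_lit 28413505277) (nat_lit 286) (nat_lit 5) (nat_lit 297) (nat_lit 5) (nat_lit 287) (nat_lit 5) (nat_lit 386) (nat_lit 374) (nat_lit 260))) (XT.nd (nat_lit 78) (nat_lit 380) (nat_lit 0) (XT.lf (nat_lit 0) (nat_lit 3316534946) (nat_lit 532) (nat_lit 13770105623) (nat_lit 76) (nat_lit 12725889720) (nat_lit 280) (nat_lit 5) (nat_lit 287) (nat_lit 5) (nat_lit 281) (nat_lit 5) (nat_lit 387) (nat_lit 374) (nat_lit 259)) (XT.nd (nat_lit 78) (nat_lit 0) (nat_lit 0) (XT.lf (nat_lit 0) (nat_lit 2757611929) (nat_lit 380) (nat_lit 3857972601) (nat_lit 456) (nat_lit 24011472426) (nat_lit 275) (nat_lit 5) (nat_lit 280) (nat_lit 5) (nat_lit 281) (nat_lit 5) (nat_lit 388) (nat_lit 374) (nat_lit 258)) (XT.lf (nat_lit 0) (nat_lit 10467973333) (nat_lit 456) (nat_lit 11046902397) (nat_lit 76) (nat_lit 9948014891)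 (nat_lit 275) (nat_lit 5) (nat_lit 281) (nat_lit 5) (nat_lit 276) (nat_lit 5) (nat_lit 389) (nat_lit 374) (nat_lit 257))))))))
noncomputable def xc228 : XT := (XT.nd (nat_lit 2496) (nat_lit 2736) (nat_lit 0) (XT.nd (nat_lit 1248) (nat_lit 1748) (nat_lit 0) (XT.nd (nat_lit 624) (nat_lit 1368) (nat_lit 0) (XT.nd (nat_lit 312) (nat_lit 988) (nat_lit 0) (XT.nd (nat_lit 156) (nat_lit 304) (nat_lit 0) (XT.nd (nat_lit 78) (nat_lit 0) (nat_lit 0) (XT.lf (nat_lit 0) (nat_lit 6764718690) (nat_lit 380) (nat_lit 7912106158) (nat_lit 456) (nat_lit 17655498959) (nat_lit 270) (nat_lit 5) (nat_lit 275) (nat_lit 5) (nat_lit 276) (nat_lit 5) (nat_lit 390) (nat_lit 374) (nat_lit 256)) (XT.lf (nat_lit 0) (nat_lit 19380869746) (nat_lit 456) (nat_lit 7493431114) (nat_lit 76) (nat_lit 6356690249) (nat_lit 270) (nat_lit 5) (nat_lit 276) (nat_lit 5) (nat_lit 271) (nat_lit 5) (nat_lit 391) (nat_lit 374) (nat_lit 255)))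 (XT.nd (nat_lit 78) (nat_lit 0) (nat_lit 0) (XT.lf (nat_lit 0) (nat_lit 11724804268) (nat_lit 304) (nat_lit 12903441225) (nat_lit 380) (nat_lit 9530939854) (nat_lit 266) (nat_lit 5) (nat_lit 270) (nat_lit 5) (nat_lit 271) (nat_lit 5) (nat_lit 392) (nat_lit 374) (nat_lit 254)) (XT.lf (nat_lit 0) (nat_lit 30290042719) (nat_lit 380) (nat_lit 2998328161) (nat_lit 76) (nat_lit 1837815783) (nat_lit 266) (nat_lit 5) (nat_lit 271) (nat_lit 5) (nat_lit 267) (nat_lit 5) (nat_lit 393) (nat_lit 374) (nat_lit 253)))) (XT.nd (nat_lit 156) (nat_lit 304) (nat_lit 0) (XT.nd (nat_lit 78) (nat_lit 304) (nat_lit 0) (XT.lf (nat_lit 0) (nat_lit 582893159) (nat_lit 380) (nat_lit 18365325625) (nat_lit 76) (nat_lit 17168621829) (nat_lit 261) (nat_lit 5) (nat_lit 266) (nat_lit 5) (nat_lit 262) (nat_lit 5) (nat_lit 394) (nat_lit 374) (nat_lit 252)) (XT.lf (nat_lit 0) (nat_lit 2482662116) (nat_lit 304) (nat_lit 3713833931)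 (nat_lit 380) (nat_lit 30952260157) (nat_lit 257) (nat_lit 5) (nat_lit 261) (nat_lit 5) (nat_lit 262) (nat_lit 5) (nat_lit 395) (nat_lit 374) (nat_lit 251))) (XT.nd (nat_lit 78) (nat_lit 304) (nat_lit 0) (XT.lf (nat_lit 0) (nat_lit 12594540086) (nat_lit 380) (nat_lit 13408173766) (nat_lit 76) (nat_lit 12204365672) (nat_lit 257) (nat_lit 5) (nat_lit 262) (nat_lit 5) (nat_lit 258) (nat_lit 5) (nat_lit 396) (nat_lit 374) (nat_lit 250)) (XT.lf (nat_lit 0) (nat_lit 9139273971) (nat_lit 304) (nat_lit 10372856834) (nat_lit 380) (nat_lit 19796205982) (nat_lit 253) (nat_lit 5) (nat_lit 257) (nat_lit 5) (nat_lit 258) (nat_lit 5) (nat_lit 397) (nat_lit 374) (nat_lit 249))))) (XT.nd (nat_lit 312) (nat_lit 760) (nat_lit 0) (XT.nd (nat_lit 156) (nat_lit 380) (nat_lit 0) (XT.nd (nat_lit 78) (nat_lit 228) (nat_lit 0) (XT.lf (nat_lit 0) (nat_lit 27096840599) (nat_lit 380) (nat_lit 7276800877) (nat_lit 76) (nat_lit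 6074953460) (nat_lit 253) (nat_lit 5) (nat_lit 258) (nat_lit 5) (nat_lit 254) (nat_lit 5) (nat_lit 398) (nat_lit 374) (nat_lit 248)) (XT.lf (nat_lit 0) (nat_lit 17133557748) (nat_lit 228) (nat_lit 18361125730) (nat_lit 304) (nat_lit 6129487635) (nat_lit 250) (nat_lit 5) (nat_lit 253) (nat_lit 5) (nat_lit 254) (nat_lit 5) (nat_lit 399) (nat_lit 374) (nat_lit 247))) (XT.nd (nat_lit 78) (nat_lit 0) (nat_lit 0) (XT.lf (nat_lit 0) (nat_lit 139559702) (nat_lit 304) (nat_lit 1391623461) (nat_lit 380) (nat_lit 41320016749) (nat_lit 245) (nat_lit 5) (nat_lit 249) (nat_lit 5) (nat_lit 250) (nat_lit 5) (nat_lit 400) (nat_lit 374) (nat_lit 246)) (XT.lf (nat_lit 0) (nat_lit 10043383286) (nat_lit 380) (nat_lit 17636054211) (nat_lit 76) (nat_lit 16421394144) (nat_lit 245) (nat_lit 5) (nat_lit 250) (nat_lit 5) (nat_lit 246) (nat_lit 5) (nat_lit 401) (nat_lit 374) (nat_lit 245)))) (XT.nd (nat_lit 156) (nat_lit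 532) (nat_lit 0) (XT.nd (nat_lit 78) (nat_lit 0) (nat_lit 0) (XT.lf (nat_lit 0) (nat_lit 8952295402) (nat_lit 228) (nat_lit 10188115842) (nat_lit 304) (nat_lit 26264572822) (nat_lit 242) (nat_lit 5) (nat_lit 245) (nat_lit 5) (nat_lit 246) (nat_lit 5) (nat_lit 402) (nat_lit 374) (nat_lit 244)) (XT.lf (nat_lit 0) (nat_lit 29120239989) (nat_lit 304) (nat_lit 9414435792) (nat_lit 76) (nat_lit 8218270862) (nat_lit 242) (nat_lit 5) (nat_lit 246) (nat_lit 5) (nat_lit 243) (nat_lit 5) (nat_lit 403) (nat_lit 374) (nat_lit 243))) (XT.nd (nat_lit 78) (nat_lit 304) (nat_lit 0) (XT.lf (nat_lit 0) (nat_lit 19425892094) (nat_lit 228) (nat_lit 20640336150) (nat_lit 304) (nat_lit 8078720702) (nat_lit 239) (nat_lit 5) (nat_lit 242) (nat_lit 5) (nat_lit 243) (nat_lit 5) (nat_lit 404) (nat_lit 374) (nat_lit 242)) (XT.lf (nat_lit 0) (nat_lit 411987600) (nat_lit 228) (nat_lit 1643840347) (nat_lit 304) (nat_lit 47540930330)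 (nat_lit 235) (nat_lit 5) (nat_lit 238) (nat_lit 5) (nat_lit 239) (nat_lit 5) (nat_lit 405) (nat_lit 374) (nat_lit 241)))))) (XT.nd (nat_lit 624) (nat_lit 912) (nat_lit 0) (XT.nd (nat_lit 312) (nat_lit 456) (nat_lit 0) (XT.nd (nat_lit 156) (nat_lit 152) (nat_lit 0) (XT.nd (nat_lit 78) (nat_lit 228) (nat_lit 0) (XT.lf (nat_lit 0) (nat_lit 13202644282) (nat_lit 304) (nat_lit 19531011634) (nat_lit 76) (nat_lit 18342028346) (nat_lit 235) (nat_lit 5) (nat_lit 239) (nat_lit 5) (nat_lit 236) (nat_lit 5) (nat_lit 406) (nat_lit 374) (nat_lit 240)) (XT.lf (nat_lit 0) (nat_lit 11956746435) (nat_lit 228) (nat_lit 13160768005) (nat_lit 304) (nat_lit 27500506454) (nat_lit 232) (nat_lit 5) (nat_lit 235) (nat_lit 5) (nat_lit 236) (nat_lit 5) (nat_lit 407) (nat_lit 374) (nat_lit 239))) (XT.nd (nat_lit 78) (nat_lit 152) (nat_lit 0) (XT.lf (nat_lit 0) (nat_lit 38076841667) (nat_lit 304) (nat_lit 8649262195) (nat_lit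 76) (nat_lit 7488934819) (nat_lit 232) (nat_lit 5) (nat_lit 236) (nat_lit 5) (nat_lit 233) (nat_lit 5) (nat_lit 408) (nat_lit 374) (nat_lit 238)) (XT.lf (nat_lit 0) (nat_lit 25561461784) (nat_lit 152) (nat_lit 26734779793) (nat_lit 228) (nat_lit 3565060464) (nat_lit 230) (nat_lit 5) (nat_lit 232) (nat_lit 5) (nat_lit 233) (nat_lit 5) (nat_lit 409) (nat_lit 374) (nat_lit 237)))) (XT.nd (nat_lit 156) (nat_lit 152) (nat_lit 0) (XT.nd (nat_lit 78) (nat_lit 0) (nat_lit 0) (XT.lf (nat_lit 0) (nat_lit 4176996682) (nat_lit 228) (nat_lit 5362686723) (nat_lit 304) (nat_lit 48032103037) (nat_lit 226) (nat_lit 5) (nat_lit 229) (nat_lit 5) (nat_lit 230) (nat_lit 5) (nat_lit 410) (nat_lit 374) (nat_lit 236)) (XT.lf (nat_lit 0) (nat_lit 23965374719) (nat_lit 304) (nat_lit 18250336294) (nat_lit 76) (nat_lit 17109885886) (nat_lit 226) (nat_lit 5) (nat_lit 230) (nat_lit 5) (nat_lit 227) (nat_lit 5) (nat_lit 411)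 (nat_lit 374) (nat_lit 235))) (XT.nd (nat_lit 78) (nat_lit 0) (nat_lit 0) (XT.lf (nat_lit 0) (nat_lit 19172962966) (nat_lit 152) (nat_lit 20324100800) (nat_lit 228) (nat_lit 21650798454) (nat_lit 224) (nat_lit 5) (nat_lit 226) (nat_lit 5) (nat_lit 227) (nat_lit 5) (nat_lit 412) (nat_lit 374) (nat_lit 234)) (XT.lf (nat_lit 0) (nat_lit 56158535065) (nat_lit 228) (nat_lit 3995530706) (nat_lit 76) (nat_lit 2889515148) (nat_lit 224) (nat_lit 5) (nat_lit 227) (nat_lit 5) (nat_lit 225) (nat_lit 5) (nat_lit 413) (nat_lit 374) (nat_lit 233))))) (XT.nd (nat_lit 312) (nat_lit 380) (nat_lit 0) (XT.nd (nat_lit 156) (nat_lit 152) (nat_lit 0) (XT.nd (nat_lit 78) (nat_lit 152) (nat_lit 0) (XT.lf (nat_lit 0) (nat_lit 9262062926) (nat_lit 228) (nat_lit 28417297771) (nat_lit 76) (nat_lit 27302050012) (nat_lit 221) (nat_lit 5) (nat_lit 224) (nat_lit 5) (nat_lit 222) (nat_lit 5) (nat_lit 414) (nat_lit 374) (nat_lit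 232)) (XT.lf (nat_lit 0) (nat_lit 12561814533) (nat_lit 152) (nat_lit 13685854863) (nat_lit 228) (nat_lit 40749692866) (nat_lit 219) (nat_lit 5) (nat_lit 221) (nat_lit 5) (nat_lit 222) (nat_lit 5) (nat_lit 415) (nat_lit 374) (nat_lit 231))) (XT.nd (nat_lit 78) (nat_lit 152) (nat_lit 0) (XT.lf (nat_lit 0) (nat_lit 44749019760) (nat_lit 228) (nat_lit 12705129088) (nat_lit 76) (nat_lit 11626639366) (nat_lit 219) (nat_lit 5) (nat_lit 222) (nat_lit 5) (nat_lit 220) (nat_lit 5) (nat_lit 416) (nat_lit 374) (nat_lit 230)) (XT.lf (nat_lit 0) (nat_lit 31904798869) (nat_lit 152) (nat_lit 32990883945) (nat_lit 228) (nat_lit 6336690390) (nat_lit 217) (nat_lit 5) (nat_lit 219) (nat_lit 5) (nat_lit 220) (nat_lit 5) (nat_lit 417) (nat_lit 374) (nat_lit 229)))) (XT.nd (nat_lit 156) (nat_lit 152) (nat_lit 0) (XT.nd (nat_lit 78) (nat_lit 0) (nat_lit 0) (XT.lf (nat_lit 0) (nat_lit 5684049190) (nat_lit 152) (nat_lit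 6777367937) (nat_lit 228) (nat_lit 61005056203) (nat_lit 214) (nat_lit 5) (nat_lit 216) (nat_lit 5) (nat_lit 217) (nat_lit 5) (nat_lit 418) (nat_lit 374) (nat_lit 228)) (XT.lf (nat_lit 0) (nat_lit 32985140115) (nat_lit 228) (nat_lit 21909914109) (nat_lit 76) (nat_lit 20862097007) (nat_lit 214) (nat_lit 5) (nat_lit 217) (nat_lit 5) (nat_lit 215) (nat_lit 5) (nat_lit 419) (nat_lit 374) (nat_lit 227))) (XT.nd (nat_lit 78) (nat_lit 0) (nat_lit 0) (XT.lf (nat_lit 0) (nat_lit 27005813715) (nat_lit 152) (nat_lit 28059879534) (nat_lit 228) (nat_lit 23070137578) (nat_lit 212) (nat_lit 5) (nat_lit 214) (nat_lit 5) (nat_lit 215) (nat_lit 5) (nat_lit 420) (nat_lit 374) (nat_lit 226)) (XT.lf (nat_lit 0) (nat_lit 78627162140) (nat_lit 228) (nat_lit 1498488919) (nat_lit 76) (nat_lit 488948940) (nat_lit 212) (nat_lit 5) (nat_lit 215) (nat_lit 5) (nat_lit 213) (nat_lit 4) (nat_lit 421) (nat_lit 374) (nat_lit 225)))))))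 (XT.nd (nat_lit 1248) (nat_lit 1140) (nat_lit 0) (XT.nd (nat_lit 624) (nat_lit 684) (nat_lit 0) (XT.nd (nat_lit 312) (nat_lit 456) (nat_lit 0) (XT.nd (nat_lit 156) (nat_lit 152) (nat_lit 0) (XT.nd (nat_lit 78) (nat_lit 152) (nat_lit 0) (XT.lf (nat_lit 0) (nat_lit 20792167897) (nat_lit 152) (nat_lit 31679982140) (nat_lit 76) (nat_lit 30665044284) (nat_lit 210) (nat_lit 5) (nat_lit 212) (nat_lit 5) (nat_lit 211) (nat_lit 5) (nat_lit 422) (nat_lit 374) (nat_lit 224)) (XT.lf (nat_lit 0) (nat_lit 21995560279) (nat_lit 152) (nat_lit 23015638969) (nat_lit 228) (nat_lit 40754728253) (nat_lit 208) (nat_lit 5) (nat_lit 210) (nat_lit 5) (nat_lit 211) (nat_lit 5) (nat_lit 423) (nat_lit 374) (nat_lit 223))) (XT.nd (nat_lit 78) (nat_lit 152) (nat_lit 0) (XT.lf (nat_lit 0) (nat_lit 71108094647) (nat_lit 228) (nat_lit 9180411735) (nat_lit 76) (nat_lit 8204245332) (nat_lit 208) (nat_lit 5) (nat_lit 211) (nat_lit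 5) (nat_lit 209) (nat_lit 4) (nat_lit 424) (nat_lit 374) (nat_lit 222)) (XT.lf (nat_lit 0) (nat_lit 8089471580) (nat_lit 152) (nat_lit 42091620988) (nat_lit 76) (nat_lit 41111013738) (nat_lit 206) (nat_lit 5) (nat_lit 208) (nat_lit 5) (nat_lit 207) (nat_lit 5) (nat_lit 425) (nat_lit 374) (nat_lit 221)))) (XT.nd (nat_lit 156) (nat_lit 304) (nat_lit 0) (XT.nd (nat_lit 78) (nat_lit 0) (nat_lit 0) (XT.lf (nat_lit 0) (nat_lit 16843689343) (nat_lit 152) (nat_lit 17828525971) (nat_lit 228) (nat_lit 59524006239) (nat_lit 204) (nat_lit 5) (nat_lit 206) (nat_lit 5) (nat_lit 207) (nat_lit 5) (nat_lit 426) (nat_lit 374) (nat_lit 220)) (XT.lf (nat_lit 0) (nat_lit 63558800494) (nat_lit 228) (nat_lit 17289891335) (nat_lit 76) (nat_lit 16348115520) (nat_lit 204) (nat_lit 5) (nat_lit 207) (nat_lit 5) (nat_lit 205) (nat_lit 4) (nat_lit 427) (nat_lit 374) (nat_lit 219))) (XT.nd (nat_lit 78) (nat_lit 228) (nat_lit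 0) (XT.lf (nat_lit 0) (nat_lit 46984179276) (nat_lit 76) (nat_lit 47929608587) (nat_lit 152) (nat_lit 5382430925) (nat_lit 203) (nat_lit 5) (nat_lit 204) (nat_lit 5) (nat_lit 205) (nat_lit 4) (nat_lit 428) (nat_lit 374) (nat_lit 218)) (XT.lf (nat_lit 0) (nat_lit 11517701687) (nat_lit 152) (nat_lit 12466610517) (nat_lit 228) (nat_lit 79523545545) (nat_lit 200) (nat_lit 5) (nat_lit 202) (nat_lit 5) (nat_lit 203) (nat_lit 5) (nat_lit 429) (nat_lit 374) (nat_lit 217))))) (XT.nd (nat_lit 312) (nat_lit 380) (nat_lit 0) (XT.nd (nat_lit 156) (nat_lit 228) (nat_lit 0) (XT.nd (nat_lit 78) (nat_lit 76) (nat_lit 0) (XT.lf (nat_lit 0) (nat_lit 55941159689) (nat_lit 228) (nat_lit 25888126628) (nat_lit 76) (nat_lit 24981247907) (nat_lit 200) (nat_lit 5) (nat_lit 203) (nat_lit 5) (nat_lit 201) (nat_lit 4) (nat_lit 430) (nat_lit 374) (nat_lit 216)) (XT.lf (nat_lit 0) (nat_lit 44743627930) (nat_lit 76) (nat_lit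 45653512392) (nat_lit 152) (nat_lit 19836139660) (nat_lit 199) (nat_lit 5) (nat_lit 200) (nat_lit 5) (nat_lit 201) (nat_lit 4) (nat_lit 431) (nat_lit 374) (nat_lit 215))) (XT.nd (nat_lit 78) (nat_lit 0) (nat_lit 0) (XT.lf (nat_lit 0) (nat_lit 5982671553) (nat_lit 152) (nat_lit 6895418624) (nat_lit 228) (nat_lit 100912252007) (nat_lit 196) (nat_lit 5) (nat_lit 198) (nat_lit 5) (nat_lit 199) (nat_lit 5) (nat_lit 432) (nat_lit 374) (nat_lit 214)) (XT.lf (nat_lit 0) (nat_lit 48214770255) (nat_lit 228) (nat_lit 35041719675) (nat_lit 76) (nat_lit 34169840280) (nat_lit 196) (nat_lit 5) (nat_lit 199) (nat_lit 5) (nat_lit 197) (nat_lit 4) (nat_lit 433) (nat_lit 374) (nat_lit 213)))) (XT.nd (nat_lit 156) (nat_lit 76) (nat_lit 0) (XT.nd (nat_lit 78) (nat_lit 228) (nat_lit 0) (XT.lf (nat_lit 0) (nat_lit 42610338538) (nat_lit 76) (nat_lit 43484690763) (nat_lit 152) (nat_lit 35110251089) (nat_lit 195) (nat_lit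 5) (nat_lit 196) (nat_lit 5) (nat_lit 197) (nat_lit 4) (nat_lit 434) (nat_lit 374) (nat_lit 212)) (XT.lf (nat_lit 0) (nat_lit 200946289) (nat_lit 152) (nat_lit 1077653589) (nat_lit 228) (nat_lit 123863796930) (nat_lit 192) (nat_lit 5) (nat_lit 194) (nat_lit 5) (nat_lit 195) (nat_lit 5) (nat_lit 435) (nat_lit 374) (nat_lit 211))) (XT.nd (nat_lit 78) (nat_lit 76) (nat_lit 0) (XT.lf (nat_lit 0) (nat_lit 40336644447) (nat_lit 228) (nat_lit 44823278438) (nat_lit 76) (nat_lit 43986182982) (nat_lit 192) (nat_lit 5) (nat_lit 195) (nat_lit 5) (nat_lit 193) (nat_lit 4) (nat_lit 436) (nat_lit 374) (nat_lit 210)) (XT.lf (nat_lit 0) (nat_lit 40579102499) (nat_lit 76) (nat_lit 41418232358) (nat_lit 152) (nat_lit 51320178342) (nat_lit 191) (nat_lit 5) (nat_lit 192) (nat_lit 5) (nat_lit 193) (nat_lit 4) (nat_lit 437) (nat_lit 374) (nat_lit 209)))))) (XT.nd (nat_lit 624) (nat_lit 532) (nat_lit 0) (XT.nd (nat_lit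 312) (nat_lit 380) (nat_lit 0) (XT.nd (nat_lit 156) (nat_lit 76) (nat_lit 0) (XT.nd (nat_lit 78) (nat_lit 152) (nat_lit 0) (XT.lf (nat_lit 0) (nat_lit 126581560239) (nat_lit 152) (nat_lit 5937461097) (nat_lit 0) (nat_lit 5136444538) (nat_lit 191) (nat_lit 5) (nat_lit 193) (nat_lit 4) (nat_lit 191) (nat_lit 4) (nat_lit 438) (nat_lit 374) (nat_lit 208)) (XT.lf (nat_lit 0) (nat_lit 32260875821) (nat_lit 152) (nat_lit 55312077659) (nat_lit 76) (nat_lit 54509303707) (nat_lit 189) (nat_lit 5) (nat_lit 191) (nat_lit 5) (nat_lit 190) (nat_lit 4) (nat_lit 439) (nat_lit 374) (nat_lit 207))) (XT.nd (nat_lit 78) (nat_lit 0) (nat_lit 0) (XT.lf (nat_lit 0) (nat_lit 38644977128) (nat_lit 76) (nat_lit 39449424789) (nat_lit 152) (nat_lit 68591701108) (nat_lit 188) (nat_lit 5) (nat_lit 189) (nat_lit 5) (nat_lit 190) (nat_lit 4) (nat_lit 440) (nat_lit 374) (nat_lit 206)) (XT.lf (nat_lit 0) (nat_lit 127343299732)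 (nat_lit 152) (nat_lit 12444157692) (nat_lit 0) (nat_lit 11676498960) (nat_lit 188) (nat_lit 5) (nat_lit 190) (nat_lit 4) (nat_lit 188) (nat_lit 4) (nat_lit 441) (nat_lit 374) (nat_lit 205)))) (XT.nd (nat_lit 156) (nat_lit 152) (nat_lit 0) (XT.nd (nat_lit 78) (nat_lit 76) (nat_lit 0) (XT.lf (nat_lit 0) (nat_lit 23938274324) (nat_lit 152) (nat_lit 66594784219) (nat_lit 76) (nat_lit 65825679676) (nat_lit 186) (nat_lit 5) (nat_lit 188) (nat_lit 5) (nat_lit 187) (nat_lit 4) (nat_lit 442) (nat_lit 374) (nat_lit 204)) (XT.lf (nat_lit 0) (nat_lit 36803269825) (nat_lit 76) (nat_lit 37573751332) (nat_lit 152) (nat_lit 87062092882) (nat_lit 185) (nat_lit 5) (nat_lit 186) (nat_lit 5) (nat_lit 187) (nat_lit 4) (nat_lit 443) (nat_lit 374) (nat_lit 203))) (XT.nd (nat_lit 78) (nat_lit 152) (nat_lit 0) (XT.lf (nat_lit 0) (nat_lit 128764243746) (nat_lit 152) (nat_lit 19336489421) (nat_lit 0) (nat_lit 18601448562)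 (nat_lit 185) (nat_lit 5) (nat_lit 187) (nat_lit 4) (nat_lit 185) (nat_lit 4) (nat_lit 444) (nat_lit 374) (nat_lit 202)) (XT.lf (nat_lit 0) (nat_lit 15315966198) (nat_lit 152) (nat_lit 78766253948) (nat_lit 76) (nat_lit 78030023616) (nat_lit 183) (nat_lit 5) (nat_lit 185) (nat_lit 5) (nat_lit 184) (nat_lit 4) (nat_lit 445) (nat_lit 374) (nat_lit 201))))) (XT.nd (nat_lit 312) (nat_lit 228) (nat_lit 0) (XT.nd (nat_lit 156) (nat_lit 228) (nat_lit 0) (XT.nd (nat_lit 78) (nat_lit 0) (nat_lit 0) (XT.lf (nat_lit 0) (nat_lit 35049523549) (nat_lit 76) (nat_lit 35786886713) (nat_lit 152) (nat_lit 106881361559) (nat_lit 182) (nat_lit 5) (nat_lit 183) (nat_lit 5) (nat_lit 184) (nat_lit 4) (nat_lit 446) (nat_lit 374) (nat_lit 200)) (XT.lf (nat_lit 0) (nat_lit 130884365906) (nat_lit 152) (nat_lit 26667457025) (nat_lit 0) (nat_lit 25964178881) (nat_lit 182) (nat_lit 5) (nat_lit 184) (nat_lit 4) (nat_lit 182)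 (nat_lit 4) (nat_lit 447) (nat_lit 374) (nat_lit 199))) (XT.nd (nat_lit 78) (nat_lit 76) (nat_lit 0) (XT.lf (nat_lit 0) (nat_lit 6336955172) (nat_lit 152) (nat_lit 91930407502) (nat_lit 76) (nat_lit 91226150776) (nat_lit 180) (nat_lit 5) (nat_lit 182) (nat_lit 5) (nat_lit 181) (nat_lit 4) (nat_lit 448) (nat_lit 374) (nat_lit 198)) (XT.lf (nat_lit 0) (nat_lit 33379503462) (nat_lit 76) (nat_lit 34084692172) (nat_lit 152) (nat_lit 128213614955) (nat_lit 179) (nat_lit 5) (nat_lit 180) (nat_lit 5) (nat_lit 181) (nat_lit 4) (nat_lit 449) (nat_lit 374) (nat_lit 197)))) (XT.nd (nat_lit 156) (nat_lit 152) (nat_lit 0) (XT.nd (nat_lit 78) (nat_lit 76) (nat_lit 0) (XT.lf (nat_lit 0) (nat_lit 133749037374) (nat_lit 152) (nat_lit 34494838440) (nat_lit 0) (nat_lit 33822384809) (nat_lit 179) (nat_lit 5) (nat_lit 181) (nat_lit 4) (nat_lit 179) (nat_lit 4) (nat_lit 450) (nat_lit 374) (nat_lit 196)) (XT.lf (nat_lit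 0) (nat_lit 102415747259) (nat_lit 76) (nat_lit 103089005973) (nat_lit 76) (nat_lit 3161548325) (nat_lit 178) (nat_lit 4) (nat_lit 179) (nat_lit 5) (nat_lit 179) (nat_lit 4) (nat_lit 451) (nat_lit 374) (nat_lit 195))) (XT.nd (nat_lit 78) (nat_lit 0) (nat_lit 0) (XT.lf (nat_lit 0) (nat_lit 31789184581) (nat_lit 76) (nat_lit 32463210040) (nat_lit 152) (nat_lit 151238564011) (nat_lit 176) (nat_lit 5) (nat_lit 177) (nat_lit 5) (nat_lit 178) (nat_lit 4) (nat_lit 452) (nat_lit 374) (nat_lit 194)) (XT.lf (nat_lit 0) (nat_lit 137409520627) (nat_lit 152) (nat_lit 42881712118) (nat_lit 0) (nat_lit 42239087649) (nat_lit 176) (nat_lit 5) (nat_lit 178) (nat_lit 4) (nat_lit 176) (nat_lit 4) (nat_lit 453) (nat_lit 374) (nat_lit 193))))))))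
noncomputable def xc229 : XT := (XT.nd (nat_lit 1248) (nat_lit 1292) (nat_lit 0) (XT.nd (nat_lit 624) (nat_lit 532) (nat_lit 0) (XT.nd (nat_lit 312) (nat_lit 380) (nat_lit 0) (XT.nd (nat_lit 156) (nat_lit 76) (nat_lit 0) (XT.nd (nat_lit 78) (nat_lit 152) (nat_lit 0) (XT.lf (nat_lit 0) (nat_lit 107898462176) (nat_lit 76) (nat_lit 108541748989) (nat_lit 76) (nat_lit 13370653668) (nat_lit 175) (nat_lit 4) (nat_lit 176) (nat_lit 5) (nat_lit 176) (nat_lit 4) (nat_lit 454) (nat_lit 374) (nat_lit 192)) (XT.lf (nat_lit 0) (nat_lit 30274740326) (nat_lit 76) (nat_lit 30918657941) (nat_lit 152) (nat_lit 176153177824) (nat_lit 173) (nat_lit 5) (nat_lit 174) (nat_lit 5) (nat_lit 175) (nat_lit 4) (nat_lit 455) (nat_lit 374) (nat_lit 191))) (XT.nd (nat_lit 78) (nat_lit 76) (nat_lit 0) (XT.lf (nat_lit 0) (nat_lit 141923516241) (nat_lit 152) (nat_lit 51897031947) (nat_lit 0) (nat_lit 51283204919) (nat_lit 173)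 (nat_lit 5) (nat_lit 175) (nat_lit 4) (nat_lit 173) (nat_lit 4) (nat_lit 456) (nat_lit 374) (nat_lit 190)) (XT.lf (nat_lit 0) (nat_lit 114182157979) (nat_lit 76) (nat_lit 114796529919) (nat_lit 76) (nat_lit 24155673686) (nat_lit 172) (nat_lit 4) (nat_lit 173) (nat_lit 5) (nat_lit 173) (nat_lit 4) (nat_lit 457) (nat_lit 374) (nat_lit 189)))) (XT.nd (nat_lit 156) (nat_lit 228) (nat_lit 0) (XT.nd (nat_lit 78) (nat_lit 0) (nat_lit 0) (XT.lf (nat_lit 0) (nat_lit 28832531885) (nat_lit 76) (nat_lit 29447422788) (nat_lit 152) (nat_lit 203173506061) (nat_lit 170) (nat_lit 5) (nat_lit 171) (nat_lit 5) (nat_lit 172) (nat_lit 4) (nat_lit 458) (nat_lit 374) (nat_lit 188)) (XT.lf (nat_lit 0) (nat_lit 147355768093) (nat_lit 152) (nat_lit 61616259242) (nat_lit 0) (nat_lit 61030178143) (nat_lit 170) (nat_lit 5) (nat_lit 172) (nat_lit 4) (nat_lit 170) (nat_lit 4) (nat_lit 459) (nat_lit 374) (nat_lit 187))) (XT.nd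 (nat_lit 78) (nat_lit 152) (nat_lit 0) (XT.lf (nat_lit 0) (nat_lit 121337519047) (nat_lit 76) (nat_lit 121924048446) (nat_lit 76) (nat_lit 35598010196) (nat_lit 169) (nat_lit 4) (nat_lit 170) (nat_lit 5) (nat_lit 170) (nat_lit 4) (nat_lit 460) (nat_lit 374) (nat_lit 186)) (XT.lf (nat_lit 0) (nat_lit 27459098284) (nat_lit 76) (nat_lit 28046054635) (nat_lit 152) (nat_lit 232536685965) (nat_lit 167) (nat_lit 5) (nat_lit 168) (nat_lit 5) (nat_lit 169) (nat_lit 4) (nat_lit 461) (nat_lit 374) (nat_lit 185))))) (XT.nd (nat_lit 312) (nat_lit 304) (nat_lit 0) (XT.nd (nat_lit 156) (nat_lit 152) (nat_lit 0) (XT.nd (nat_lit 78) (nat_lit 76) (nat_lit 0) (XT.lf (nat_lit 0) (nat_lit 153778732893) (nat_lit 152) (nat_lit 72122057797) (nat_lit 0) (nat_lit 71562664489) (nat_lit 167) (nat_lit 5) (nat_lit 169) (nat_lit 4) (nat_lit 167) (nat_lit 4) (nat_lit 462) (nat_lit 374) (nat_lit 184)) (XT.lf (nat_lit 0) (nat_lit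 129443024757) (nat_lit 76) (nat_lit 130002786882) (nat_lit 76) (nat_lit 47786349661) (nat_lit 166) (nat_lit 4) (nat_lit 167) (nat_lit 5) (nat_lit 167) (nat_lit 4) (nat_lit 463) (nat_lit 374) (nat_lit 183))) (XT.nd (nat_lit 78) (nat_lit 0) (nat_lit 0) (XT.lf (nat_lit 0) (nat_lit 26151147112) (nat_lit 76) (nat_lit 26711260491) (nat_lit 152) (nat_lit 264503152913) (nat_lit 164) (nat_lit 5) (nat_lit 165) (nat_lit 5) (nat_lit 166) (nat_lit 4) (nat_lit 464) (nat_lit 374) (nat_lit 182)) (XT.lf (nat_lit 0) (nat_lit 161273320610) (nat_lit 152) (nat_lit 83505058614) (nat_lit 0) (nat_lit 82971298702) (nat_lit 164) (nat_lit 5) (nat_lit 166) (nat_lit 4) (nat_lit 164) (nat_lit 4) (nat_lit 465) (nat_lit 374) (nat_lit 181)))) (XT.nd (nat_lit 156) (nat_lit 76) (nat_lit 0) (XT.nd (nat_lit 78) (nat_lit 152) (nat_lit 0) (XT.lf (nat_lit 0) (nat_lit 138585721181) (nat_lit 76) (nat_lit 139119784520) (nat_lit 76) (nat_lit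 60817459184) (nat_lit 163) (nat_lit 4) (nat_lit 164) (nat_lit 5) (nat_lit 164) (nat_lit 4) (nat_lit 466) (nat_lit 374) (nat_lit 180)) (XT.lf (nat_lit 0) (nat_lit 24905545826) (nat_lit 76) (nat_lit 25439898144) (nat_lit 152) (nat_lit 299359075444) (nat_lit 161) (nat_lit 5) (nat_lit 162) (nat_lit 5) (nat_lit 163) (nat_lit 4) (nat_lit 467) (nat_lit 374) (nat_lit 179))) (XT.nd (nat_lit 78) (nat_lit 76) (nat_lit 0) (XT.lf (nat_lit 0) (nat_lit 169929712973) (nat_lit 152) (nat_lit 95864701548) (nat_lit 0) (nat_lit 95355532467) (nat_lit 161) (nat_lit 5) (nat_lit 163) (nat_lit 4) (nat_lit 161) (nat_lit 4) (nat_lit 468) (nat_lit 374) (nat_lit 178)) (XT.lf (nat_lit 0) (nat_lit 148862073384) (nat_lit 76) (nat_lit 149371492095) (nat_lit 76) (nat_lit 74797061959) (nat_lit 160) (nat_lit 4) (nat_lit 161) (nat_lit 5) (nat_lit 161) (nat_lit 4) (nat_lit 469) (nat_lit 374) (nat_lit 177)))))) (XT.nd (nat_lit 624) (nat_lit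 684) (nat_lit 0) (XT.nd (nat_lit 312) (nat_lit 228) (nat_lit 0) (XT.nd (nat_lit 156) (nat_lit 228) (nat_lit 0) (XT.nd (nat_lit 78) (nat_lit 0) (nat_lit 0) (XT.lf (nat_lit 0) (nat_lit 23719313596) (nat_lit 76) (nat_lit 24228970050) (nat_lit 152) (nat_lit 337419037830) (nat_lit 158) (nat_lit 5) (nat_lit 159) (nat_lit 5) (nat_lit 160) (nat_lit 4) (nat_lit 470) (nat_lit 374) (nat_lit 176)) (XT.lf (nat_lit 0) (nat_lit 179848267988) (nat_lit 152) (nat_lit 109310161869) (nat_lit 0) (nat_lit 108824559130) (nat_lit 158) (nat_lit 5) (nat_lit 160) (nat_lit 4) (nat_lit 158) (nat_lit 4) (nat_lit 471) (nat_lit 374) (nat_lit 175))) (XT.nd (nat_lit 78) (nat_lit 152) (nat_lit 0) (XT.lf (nat_lit 0) (nat_lit 160378906469) (nat_lit 76) (nat_lit 160864714580) (nat_lit 76) (nat_lit 89840800350) (nat_lit 157) (nat_lit 4) (nat_lit 158) (nat_lit 5) (nat_lit 158) (nat_lit 4) (nat_lit 472) (nat_lit 374) (nat_lit 174)) (XT.lf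 (nat_lit 0) (nat_lit 22589613623) (nat_lit 76) (nat_lit 23075617325) (nat_lit 152) (nat_lit 379028995619) (nat_lit 155) (nat_lit 5) (nat_lit 156) (nat_lit 5) (nat_lit 157) (nat_lit 4) (nat_lit 473) (nat_lit 374) (nat_lit 173)))) (XT.nd (nat_lit 156) (nat_lit 152) (nat_lit 0) (XT.nd (nat_lit 78) (nat_lit 76) (nat_lit 0) (XT.lf (nat_lit 0) (nat_lit 191140519223) (nat_lit 152) (nat_lit 123961370538) (nat_lit 0) (nat_lit 123498332462) (nat_lit 155) (nat_lit 5) (nat_lit 157) (nat_lit 4) (nat_lit 155) (nat_lit 4) (nat_lit 474) (nat_lit 374) (nat_lit 172)) (XT.lf (nat_lit 0) (nat_lit 173254444372) (nat_lit 76) (nat_lit 173717651407) (nat_lit 76) (nat_lit 106075295687) (nat_lit 154) (nat_lit 4) (nat_lit 155) (nat_lit 5) (nat_lit 155) (nat_lit 4) (nat_lit 475) (nat_lit 374) (nat_lit 171))) (XT.nd (nat_lit 78) (nat_lit 0) (nat_lit 0) (XT.lf (nat_lit 0) (nat_lit 21513745915) (nat_lit 76) (nat_lit 21977113864)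 (nat_lit 152) (nat_lit 424569532213) (nat_lit 152) (nat_lit 5) (nat_lit 153) (nat_lit 5) (nat_lit 154) (nat_lit 4) (nat_lit 476) (nat_lit 374) (nat_lit 170)) (XT.lf (nat_lit 0) (nat_lit 203930279485) (nat_lit 152) (nat_lit 139950137880) (nat_lit 0) (nat_lit 139508689118) (nat_lit 152) (nat_lit 5) (nat_lit 154) (nat_lit 4) (nat_lit 152) (nat_lit 4) (nat_lit 477) (nat_lit 374) (nat_lit 169))))) (XT.nd (nat_lit 312) (nat_lit 380) (nat_lit 0) (XT.nd (nat_lit 156) (nat_lit 76) (nat_lit 0) (XT.nd (nat_lit 78) (nat_lit 152) (nat_lit 0) (XT.lf (nat_lit 0) (nat_lit 187619456341) (nat_lit 76) (nat_lit 188061044107) (nat_lit 76) (nat_lit 123639314736) (nat_lit 151) (nat_lit 4) (nat_lit 152) (nat_lit 5) (nat_lit 152) (nat_lit 4) (nat_lit 478) (nat_lit 374) (nat_lit 168)) (XT.lf (nat_lit 0) (nat_lit 20489140466) (nat_lit 76) (nat_lit 20930860617) (nat_lit 152) (nat_lit 474459447380) (nat_lit 149) (nat_lit 5)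 (nat_lit 150) (nat_lit 5) (nat_lit 151) (nat_lit 4) (nat_lit 479) (nat_lit 374) (nat_lit 167))) (XT.nd (nat_lit 78) (nat_lit 76) (nat_lit 0) (XT.lf (nat_lit 0) (nat_lit 218354859534) (nat_lit 152) (nat_lit 157421391339) (nat_lit 0) (nat_lit 157000585405) (nat_lit 149) (nat_lit 5) (nat_lit 151) (nat_lit 4) (nat_lit 149) (nat_lit 4) (nat_lit 480) (nat_lit 374) (nat_lit 166)) (XT.lf (nat_lit 0) (nat_lit 203618522070) (nat_lit 76) (nat_lit 204039442362) (nat_lit 76) (nat_lit 142685053875) (nat_lit 148) (nat_lit 4) (nat_lit 149) (nat_lit 5) (nat_lit 149) (nat_lit 4) (nat_lit 481) (nat_lit 374) (nat_lit 165)))) (XT.nd (nat_lit 156) (nat_lit 228) (nat_lit 0) (XT.nd (nat_lit 78) (nat_lit 0) (nat_lit 0) (XT.lf (nat_lit 0) (nat_lit 19513350816) (nat_lit 76) (nat_lit 19934380021) (nat_lit 152) (nat_lit 529159711826) (nat_lit 146) (nat_lit 5) (nat_lit 147) (nat_lit 5) (nat_lit 148) (nat_lit 4) (nat_lit 482)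 (nat_lit 374) (nat_lit 164)) (XT.lf (nat_lit 0) (nat_lit 234566413530) (nat_lit 152) (nat_lit 176534539059) (nat_lit 0) (nat_lit 176133460076) (nat_lit 146) (nat_lit 5) (nat_lit 148) (nat_lit 4) (nat_lit 146) (nat_lit 4) (nat_lit 483) (nat_lit 374) (nat_lit 163))) (XT.nd (nat_lit 78) (nat_lit 152) (nat_lit 0) (XT.lf (nat_lit 0) (nat_lit 221411427561) (nat_lit 76) (nat_lit 221812600626) (nat_lit 76) (nat_lit 163379553089) (nat_lit 145) (nat_lit 4) (nat_lit 146) (nat_lit 5) (nat_lit 146) (nat_lit 4) (nat_lit 484) (nat_lit 374) (nat_lit 162)) (XT.lf (nat_lit 0) (nat_lit 18584047957) (nat_lit 76) (nat_lit 18985310626) (nat_lit 152) (nat_lit 589177825390) (nat_lit 143) (nat_lit 5) (nat_lit 144) (nat_lit 5) (nat_lit 145) (nat_lit 4) (nat_lit 485) (nat_lit 374) (nat_lit 161)))))))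
noncomputable def xc230 : XT := (XT.nd (nat_lit 45318) (nat_lit 0) (nat_lit 8056) (XT.nd (nat_lit 44694) (nat_lit 0) (nat_lit 11704) (XT.nd (nat_lit 312) (nat_lit 76) (nat_lit 0) (XT.nd (nat_lit 156) (nat_lit 152) (nat_lit 0) (XT.nd (nat_lit 78) (nat_lit 76) (nat_lit 0) (XT.lf (nat_lit 0) (nat_lit 252733424152) (nat_lit 152) (nat_lit 197464972274) (nat_lit 0) (nat_lit 197082736080) (nat_lit 143) (nat_lit 5) (nat_lit 145) (nat_lit 4) (nat_lit 143) (nat_lit 4) (nat_lit 486) (nat_lit 374) (nat_lit 160)) (XT.lf (nat_lit 0) (nat_lit 241174705070) (nat_lit 76) (nat_lit 241557018667) (nat_lit 76) (nat_lit 185906253192) (nat_lit 142) (nat_lit 4) (nat_lit 143) (nat_lit 5) (nat_lit 143) (nat_lit 4) (nat_lit 487) (nat_lit 374) (nat_lit 159))) (XT.nd (nat_lit 78) (nat_lit 0) (nat_lit 0) (XT.lf (nat_lit 0) (nat_lit 17699014580) (nat_lit 76) (nat_lit 18081401893) (nat_lit 152) (nat_lit 655072620311) (nat_lit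 140) (nat_lit 5) (nat_lit 141) (nat_lit 5) (nat_lit 142) (nat_lit 4) (nat_lit 488) (nat_lit 374) (nat_lit 158)) (XT.lf (nat_lit 0) (nat_lit 273042341609) (nat_lit 152) (nat_lit 220405720773) (nat_lit 0) (nat_lit 220041475516) (nat_lit 140) (nat_lit 5) (nat_lit 142) (nat_lit 4) (nat_lit 140) (nat_lit 4) (nat_lit 489) (nat_lit 374) (nat_lit 157)))) (XT.nd (nat_lit 44226) (nat_lit 0) (nat_lit 11628) (XT.nd (nat_lit 44148) (nat_lit 0) (nat_lit 11628) (XT.lf (nat_lit 0) (nat_lit 263103331830) (nat_lit 76) (nat_lit 263467640766) (nat_lit 76) (nat_lit 210466710994) (nat_lit 139) (nat_lit 4) (nat_lit 140) (nat_lit 5) (nat_lit 140) (nat_lit 4) (nat_lit 490) (nat_lit 374) (nat_lit 156)) (XT.lf (nat_lit 0) (nat_lit 4376511428) (nat_lit 836) (nat_lit 3429143216) (nat_lit 836) (nat_lit 3429143216) (nat_lit 292) (nat_lit 3) (nat_lit 303) (nat_lit 3) (nat_lit 303) (nat_lit 5) (nat_lit 375) (nat_lit 375) (nat_lit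 270))) (XT.nd (nat_lit 78) (nat_lit 0) (nat_lit 76) (XT.lf (nat_lit 76) (nat_lit 4521218660) (nat_lit 0) (nat_lit 4649903500) (nat_lit 836) (nat_lit 13850249766) (nat_lit 293) (nat_lit 5) (nat_lit 292) (nat_lit 3) (nat_lit 303) (nat_lit 5) (nat_lit 376) (nat_lit 375) (nat_lit 269)) (XT.lf (nat_lit 0) (nat_lit 9827028811) (nat_lit 760) (nat_lit 7001070473) (nat_lit 836) (nat_lit 6761792540) (nat_lit 293) (nat_lit 5) (nat_lit 303) (nat_lit 5) (nat_lit 304) (nat_lit 5) (nat_lit 377) (nat_lit 375) (nat_lit 268))))) (XT.nd (nat_lit 312) (nat_lit 0) (nat_lit 152) (XT.nd (nat_lit 156) (nat_lit 0) (nat_lit 76) (XT.nd (nat_lit 78) (nat_lit 0) (nat_lit 76) (XT.lf (nat_lit 76) (nat_lit 5157090047) (nat_lit 0) (nat_lit 5507530783) (nat_lit 836) (nat_lit 13514772385) (nat_lit 294) (nat_lit 5) (nat_lit 293) (nat_lit 5) (nat_lit 304) (nat_lit 5) (nat_lit 378) (nat_lit 375) (nat_lit 267)) (XT.lf (nat_lit 0) (nat_lit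 11756690582) (nat_lit 760) (nat_lit 6732815104) (nat_lit 836) (nat_lit 6298234083) (nat_lit 294) (nat_lit 5) (nat_lit 304) (nat_lit 5) (nat_lit 305) (nat_lit 5) (nat_lit 379) (nat_lit 375) (nat_lit 266))) (XT.nd (nat_lit 78) (nat_lit 0) (nat_lit 76) (XT.lf (nat_lit 76) (nat_lit 6276947303) (nat_lit 0) (nat_lit 6807554933) (nat_lit 836) (nat_lit 12332944493) (nat_lit 295) (nat_lit 5) (nat_lit 294) (nat_lit 5) (nat_lit 305) (nat_lit 5) (nat_lit 380) (nat_lit 375) (nat_lit 265)) (XT.lf (nat_lit 0) (nat_lit 14672969887) (nat_lit 760) (nat_lit 5994197723) (nat_lit 836) (nat_lit 5401758158) (nat_lit 295) (nat_lit 5) (nat_lit 305) (nat_lit 5) (nat_lit 306) (nat_lit 5) (nat_lit 381) (nat_lit 375) (nat_lit 264)))) (XT.nd (nat_lit 156) (nat_lit 0) (nat_lit 76) (XT.nd (nat_lit 78) (nat_lit 0) (nat_lit 76) (XT.lf (nat_lit 76) (nat_lit 7947312767) (nat_lit 0) (nat_lit 8622703727) (nat_lit 836) (nat_lit 10171504485)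 (nat_lit 296) (nat_lit 5) (nat_lit 295) (nat_lit 5) (nat_lit 306) (nat_lit 5) (nat_lit 382) (nat_lit 375) (nat_lit 263)) (XT.lf (nat_lit 0) (nat_lit 18721655569) (nat_lit 760) (nat_lit 4718286111) (nat_lit 836) (nat_lit 3999817264) (nat_lit 296) (nat_lit 5) (nat_lit 306) (nat_lit 5) (nat_lit 307) (nat_lit 5) (nat_lit 383) (nat_lit 375) (nat_lit 262))) (XT.nd (nat_lit 78) (nat_lit 0) (nat_lit 76) (XT.lf (nat_lit 76) (nat_lit 10243031706) (nat_lit 0) (nat_lit 11033157086) (nat_lit 836) (nat_lit 6881954404) (nat_lit 297) (nat_lit 5) (nat_lit 296) (nat_lit 5) (nat_lit 307) (nat_lit 5) (nat_lit 384) (nat_lit 375) (nat_lit 261)) (XT.lf (nat_lit 0) (nat_lit 24065054339) (nat_lit 760) (nat_lit 2829778496) (nat_lit 76) (nat_lit 2012283545) (nat_lit 297) (nat_lit 5) (nat_lit 307) (nat_lit 5) (nat_lit 298) (nat_lit 5) (nat_lit 385) (nat_lit 375) (nat_lit 260)))))) (XT.nd (nat_lit 624) (nat_lit 1596) (nat_lit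 0) (XT.nd (nat_lit 312) (nat_lit 684) (nat_lit 0) (XT.nd (nat_lit 156) (nat_lit 836) (nat_lit 0) (XT.nd (nat_lit 78) (nat_lit 76) (nat_lit 0) (XT.lf (nat_lit 0) (nat_lit 13248105688) (nat_lit 760) (nat_lit 14127500247) (nat_lit 836) (nat_lit 2298820148) (nat_lit 287) (nat_lit 5) (nat_lit 297) (nat_lit 5) (nat_lit 298) (nat_lit 5) (nat_lit 386) (nat_lit 375) (nat_lit 259)) (XT.lf (nat_lit 0) (nat_lit 403030482) (nat_lit 836) (nat_lit 261129796) (nat_lit 76) (nat_lit 29813483938) (nat_lit 286) (nat_lit 5) (nat_lit 297) (nat_lit 5) (nat_lit 287) (nat_lit 5) (nat_lit 387) (nat_lit 375) (nat_lit 258))) (XT.nd (nat_lit 78) (nat_lit 380) (nat_lit 0) (XT.lf (nat_lit 0) (nat_lit 3641846304) (nat_lit 532) (nat_lit 14300235437) (nat_lit 76) (nat_lit 13353100832) (nat_lit 280) (nat_lit 5) (nat_lit 287) (nat_lit 5) (nat_lit 281) (nat_lit 5) (nat_lit 388) (nat_lit 375) (nat_lit 257)) (XT.lf (nat_lit 0) (nat_lit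 3051313550) (nat_lit 380) (nat_lit 4049373116) (nat_lit 456) (nat_lit 25050006993) (nat_lit 275) (nat_lit 5) (nat_lit 280) (nat_lit 5) (nat_lit 281) (nat_lit 5) (nat_lit 389) (nat_lit 375) (nat_lit 256)))) (XT.nd (nat_lit 156) (nat_lit 304) (nat_lit 0) (XT.nd (nat_lit 78) (nat_lit 380) (nat_lit 0) (XT.lf (nat_lit 0) (nat_lit 11138368475) (nat_lit 456) (nat_lit 11443520108) (nat_lit 76) (nat_lit 10446796747) (nat_lit 275) (nat_lit 5) (nat_lit 281) (nat_lit 5) (nat_lit 276) (nat_lit 5) (nat_lit 390) (nat_lit 375) (nat_lit 255)) (XT.lf (nat_lit 0) (nat_lit 7256170301) (nat_lit 380) (nat_lit 8296884558) (nat_lit 456) (nat_lit 18388765700) (nat_lit 270) (nat_lit 5) (nat_lit 275) (nat_lit 5) (nat_lit 276) (nat_lit 5) (nat_lit 391) (nat_lit 375) (nat_lit 254))) (XT.nd (nat_lit 78) (nat_lit 304) (nat_lit 0) (XT.lf (nat_lit 0) (nat_lit 20485682574) (nat_lit 456) (nat_lit 7715563549) (nat_lit 76) (nat_lit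 6684506075) (nat_lit 270) (nat_lit 5) (nat_lit 276) (nat_lit 5) (nat_lit 271) (nat_lit 5) (nat_lit 392) (nat_lit 375) (nat_lit 253)) (XT.lf (nat_lit 0) (nat_lit 12461123294) (nat_lit 304) (nat_lit 13530181759) (nat_lit 380) (nat_lit 9869257198) (nat_lit 266) (nat_lit 5) (nat_lit 270) (nat_lit 5) (nat_lit 271) (nat_lit 5) (nat_lit 393) (nat_lit 375) (nat_lit 252))))) (XT.nd (nat_lit 312) (nat_lit 912) (nat_lit 0) (XT.nd (nat_lit 156) (nat_lit 304) (nat_lit 0) (XT.nd (nat_lit 78) (nat_lit 380) (nat_lit 0) (XT.lf (nat_lit 0) (nat_lit 31930197286) (nat_lit 380) (nat_lit 2999317513) (nat_lit 76) (nat_lit 1946698576) (nat_lit 266) (nat_lit 5) (nat_lit 271) (nat_lit 5) (nat_lit 267) (nat_lit 5) (nat_lit 394) (nat_lit 375) (nat_lit 251)) (XT.lf (nat_lit 0) (nat_lit 735993754) (nat_lit 380) (nat_lit 19132968357) (nat_lit 76) (nat_lit 18047522736) (nat_lit 261) (nat_lit 5) (nat_lit 266) (nat_lit 5) (nat_lit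 262) (nat_lit 5) (nat_lit 395) (nat_lit 375) (nat_lit 250))) (XT.nd (nat_lit 78) (nat_lit 0) (nat_lit 0) (XT.lf (nat_lit 0) (nat_lit 2754989360) (nat_lit 304) (nat_lit 3871698489) (nat_lit 380) (nat_lit 32373487816) (nat_lit 257) (nat_lit 5) (nat_lit 261) (nat_lit 5) (nat_lit 262) (nat_lit 5) (nat_lit 396) (nat_lit 375) (nat_lit 249)) (XT.lf (nat_lit 0) (nat_lit 13339316099) (nat_lit 380) (nat_lit 13932127190) (nat_lit 76) (nat_lit 12840237762) (nat_lit 257) (nat_lit 5) (nat_lit 262) (nat_lit 5) (nat_lit 258) (nat_lit 5) (nat_lit 397) (nat_lit 375) (nat_lit 248)))) (XT.nd (nat_lit 156) (nat_lit 608) (nat_lit 0) (XT.nd (nat_lit 78) (nat_lit 0) (nat_lit 0) (XT.lf (nat_lit 0) (nat_lit 9740330753) (nat_lit 304) (nat_lit 10859226774) (nat_lit 380) (nat_lit 20668605091) (nat_lit 253) (nat_lit 5) (nat_lit 257) (nat_lit 5) (nat_lit 258) (nat_lit 5) (nat_lit 398) (nat_lit 375) (nat_lit 247)) (XT.lf (nat_lit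 0) (nat_lit 28558657916) (nat_lit 380) (nat_lit 7498564519) (nat_lit 76) (nat_lit 6408453484) (nat_lit 253) (nat_lit 5) (nat_lit 258) (nat_lit 5) (nat_lit 254) (nat_lit 5) (nat_lit 399) (nat_lit 375) (nat_lit 246))) (XT.nd (nat_lit 78) (nat_lit 380) (nat_lit 0) (XT.lf (nat_lit 0) (nat_lit 18130020482) (nat_lit 228) (nat_lit 19243460829) (nat_lit 304) (nat_lit 6326695175) (nat_lit 250) (nat_lit 5) (nat_lit 253) (nat_lit 5) (nat_lit 254) (nat_lit 5) (nat_lit 400) (nat_lit 375) (nat_lit 245)) (XT.nd (nat_lit 78) (nat_lit 0) (nat_lit 0) (XT.lf (nat_lit 0) (nat_lit 287508754) (nat_lit 304) (nat_lit 1423167492) (nat_lit 380) (nat_lit 43277936965) (nat_lit 245) (nat_lit 5) (nat_lit 249) (nat_lit 5) (nat_lit 250) (nat_lit 5) (nat_lit 401) (nat_lit 375) (nat_lit 244)) (XT.lf (nat_lit 0) (nat_lit 10644150347) (nat_lit 380) (nat_lit 18379262734) (nat_lit 76) (nat_lit 17277530247) (nat_lit 245) (nat_lit 5)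 (nat_lit 250) (nat_lit 5) (nat_lit 246) (nat_lit 5) (nat_lit 402) (nat_lit 375) (nat_lit 243))))))))
noncomputable def xc231 : XT := (XT.nd (nat_lit 2496) (nat_lit 2432) (nat_lit 0) (XT.nd (nat_lit 1248) (nat_lit 1596) (nat_lit 0) (XT.nd (nat_lit 624) (nat_lit 988) (nat_lit 0) (XT.nd (nat_lit 312) (nat_lit 380) (nat_lit 0) (XT.nd (nat_lit 156) (nat_lit 532) (nat_lit 0) (XT.nd (nat_lit 78) (nat_lit 0) (nat_lit 0) (XT.lf (nat_lit 0) (nat_lit 9536268970) (nat_lit 228) (nat_lit 10657194539) (nat_lit 304) (nat_lit 27476968176) (nat_lit 242) (nat_lit 5) (nat_lit 245) (nat_lit 5) (nat_lit 246) (nat_lit 5) (nat_lit 403) (nat_lit 375) (nat_lit 242)) (XT.lf (nat_lit 0) (nat_lit 30668310389) (nat_lit 304) (nat_lit 9751318760) (nat_lit 76) (nat_lit 8666361907) (nat_lit 242) (nat_lit 5) (nat_lit 246) (nat_lit 5) (nat_lit 243) (nat_lit 5) (nat_lit 404) (nat_lit 375) (nat_lit 241))) (XT.nd (nat_lit 78) (nat_lit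 304) (nat_lit 0) (XT.lf (nat_lit 0) (nat_lit 20528866831) (nat_lit 228) (nat_lit 21630403389) (nat_lit 304) (nat_lit 8388439646) (nat_lit 239) (nat_lit 5) (nat_lit 242) (nat_lit 5) (nat_lit 243) (nat_lit 5) (nat_lit 405) (nat_lit 375) (nat_lit 240)) (XT.lf (nat_lit 0) (nat_lit 565110137) (nat_lit 228) (nat_lit 1682436891) (nat_lit 304) (nat_lit 49824602780) (nat_lit 235) (nat_lit 5) (nat_lit 238) (nat_lit 5) (nat_lit 239) (nat_lit 5) (nat_lit 406) (nat_lit 375) (nat_lit 239)))) (XT.nd (nat_lit 156) (nat_lit 152) (nat_lit 0) (XT.nd (nat_lit 78) (nat_lit 228) (nat_lit 0) (XT.lf (nat_lit 0) (nat_lit 13948117763) (nat_lit 304) (nat_lit 20377763270) (nat_lit 76) (nat_lit 19299320378) (nat_lit 235) (nat_lit 5) (nat_lit 239) (nat_lit 5) (nat_lit 236) (nat_lit 5) (nat_lit 407) (nat_lit 375) (nat_lit 238)) (XT.lf (nat_lit 0) (nat_lit 12682289171) (nat_lit 228) (nat_lit 13774372228) (nat_lit 304) (nat_lit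 28788096979) (nat_lit 232) (nat_lit 5) (nat_lit 235) (nat_lit 5) (nat_lit 236) (nat_lit 5) (nat_lit 408) (nat_lit 375) (nat_lit 237))) (XT.nd (nat_lit 78) (nat_lit 152) (nat_lit 0) (XT.lf (nat_lit 0) (nat_lit 40060650397) (nat_lit 304) (nat_lit 8956796510) (nat_lit 76) (nat_lit 7904345376) (nat_lit 232) (nat_lit 5) (nat_lit 236) (nat_lit 5) (nat_lit 233) (nat_lit 5) (nat_lit 409) (nat_lit 375) (nat_lit 236)) (XT.lf (nat_lit 0) (nat_lit 26962448687) (nat_lit 152) (nat_lit 28026682709) (nat_lit 228) (nat_lit 3661331861) (nat_lit 230) (nat_lit 5) (nat_lit 232) (nat_lit 5) (nat_lit 233) (nat_lit 5) (nat_lit 410) (nat_lit 375) (nat_lit 235))))) (XT.nd (nat_lit 312) (nat_lit 532) (nat_lit 0) (XT.nd (nat_lit 156) (nat_lit 152) (nat_lit 0) (XT.nd (nat_lit 78) (nat_lit 0) (nat_lit 0) (XT.lf (nat_lit 0) (nat_lit 4509359452) (nat_lit 228) (nat_lit 5584815271) (nat_lit 304) (nat_lit 50352325684) (nat_lit 226)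 (nat_lit 5) (nat_lit 229) (nat_lit 5) (nat_lit 230) (nat_lit 5) (nat_lit 411) (nat_lit 375) (nat_lit 234)) (XT.lf (nat_lit 0) (nat_lit 25238143862) (nat_lit 304) (nat_lit 19042215001) (nat_lit 76) (nat_lit 18007792862) (nat_lit 226) (nat_lit 5) (nat_lit 230) (nat_lit 5) (nat_lit 227) (nat_lit 5) (nat_lit 412) (nat_lit 375) (nat_lit 233))) (XT.nd (nat_lit 78) (nat_lit 0) (nat_lit 0) (XT.lf (nat_lit 0) (nat_lit 20250303447) (nat_lit 152) (nat_lit 21294419396) (nat_lit 228) (nat_lit 22656892195) (nat_lit 224) (nat_lit 5) (nat_lit 226) (nat_lit 5) (nat_lit 227) (nat_lit 5) (nat_lit 413) (nat_lit 375) (nat_lit 232)) (XT.lf (nat_lit 0) (nat_lit 59036483060) (nat_lit 228) (nat_lit 4079482279) (nat_lit 76) (nat_lit 3076293564) (nat_lit 224) (nat_lit 5) (nat_lit 227) (nat_lit 5) (nat_lit 225) (nat_lit 5) (nat_lit 414) (nat_lit 375) (nat_lit 231)))) (XT.nd (nat_lit 156) (nat_lit 152) (nat_lit 0) (XT.nd (nat_lit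 78) (nat_lit 152) (nat_lit 0) (XT.lf (nat_lit 0) (nat_lit 9794754550) (nat_lit 228) (nat_lit 29721904932) (nat_lit 76) (nat_lit 28710342339) (nat_lit 221) (nat_lit 5) (nat_lit 224) (nat_lit 5) (nat_lit 222) (nat_lit 5) (nat_lit 415) (nat_lit 375) (nat_lit 230)) (XT.lf (nat_lit 0) (nat_lit 13304287862) (nat_lit 152) (nat_lit 14323825577) (nat_lit 228) (nat_lit 42715713908) (nat_lit 219) (nat_lit 5) (nat_lit 221) (nat_lit 5) (nat_lit 222) (nat_lit 5) (nat_lit 416) (nat_lit 375) (nat_lit 229))) (XT.nd (nat_lit 78) (nat_lit 152) (nat_lit 0) (XT.lf (nat_lit 0) (nat_lit 47051979120) (nat_lit 228) (nat_lit 13228897528) (nat_lit 76) (nat_lit 12250675558) (nat_lit 219) (nat_lit 5) (nat_lit 222) (nat_lit 5) (nat_lit 220) (nat_lit 5) (nat_lit 417) (nat_lit 375) (nat_lit 228)) (XT.lf (nat_lit 0) (nat_lit 33609728632) (nat_lit 152) (nat_lit 34594839813) (nat_lit 228) (nat_lit 6586218345) (nat_lit 217) (nat_lit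 5) (nat_lit 219) (nat_lit 5) (nat_lit 220) (nat_lit 5) (nat_lit 418) (nat_lit 375) (nat_lit 227)))))) (XT.nd (nat_lit 624) (nat_lit 760) (nat_lit 0) (XT.nd (nat_lit 312) (nat_lit 456) (nat_lit 0) (XT.nd (nat_lit 156) (nat_lit 152) (nat_lit 0) (XT.nd (nat_lit 78) (nat_lit 0) (nat_lit 0) (XT.lf (nat_lit 0) (nat_lit 6078291764) (nat_lit 152) (nat_lit 7069964097) (nat_lit 228) (nat_lit 63988352742) (nat_lit 214) (nat_lit 5) (nat_lit 216) (nat_lit 5) (nat_lit 217) (nat_lit 5) (nat_lit 419) (nat_lit 375) (nat_lit 226)) (XT.lf (nat_lit 0) (nat_lit 34695816470) (nat_lit 228) (nat_lit 22898261178) (nat_lit 76) (nat_lit 21947860178) (nat_lit 214) (nat_lit 5) (nat_lit 217) (nat_lit 5) (nat_lit 215) (nat_lit 5) (nat_lit 420) (nat_lit 375) (nat_lit 225))) (XT.nd (nat_lit 78) (nat_lit 0) (nat_lit 0) (XT.lf (nat_lit 0) (nat_lit 28461524834) (nat_lit 152) (nat_lit 29417593604) (nat_lit 228) (nat_lit 24160496904)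 (nat_lit 212) (nat_lit 5) (nat_lit 214) (nat_lit 5) (nat_lit 215) (nat_lit 5) (nat_lit 421) (nat_lit 375) (nat_lit 224)) (XT.lf (nat_lit 0) (nat_lit 82616470221) (nat_lit 228) (nat_lit 1470822400) (nat_lit 76) (nat_lit 555139879) (nat_lit 212) (nat_lit 5) (nat_lit 215) (nat_lit 5) (nat_lit 213) (nat_lit 4) (nat_lit 422) (nat_lit 375) (nat_lit 223)))) (XT.nd (nat_lit 156) (nat_lit 152) (nat_lit 0) (XT.nd (nat_lit 78) (nat_lit 152) (nat_lit 0) (XT.lf (nat_lit 0) (nat_lit 21889473237) (nat_lit 152) (nat_lit 33161137254) (nat_lit 76) (nat_lit 32240558700) (nat_lit 210) (nat_lit 5) (nat_lit 212) (nat_lit 5) (nat_lit 211) (nat_lit 5) (nat_lit 423) (nat_lit 375) (nat_lit 222)) (XT.lf (nat_lit 0) (nat_lit 23196523512) (nat_lit 152) (nat_lit 24121764955) (nat_lit 228) (nat_lit 42733108946) (nat_lit 208) (nat_lit 5) (nat_lit 210) (nat_lit 5) (nat_lit 211) (nat_lit 5) (nat_lit 424) (nat_lit 375) (nat_lit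 221))) (XT.nd (nat_lit 78) (nat_lit 152) (nat_lit 0) (XT.lf (nat_lit 0) (nat_lit 74718000772) (nat_lit 228) (nat_lit 9541037582) (nat_lit 76) (nat_lit 8655625878) (nat_lit 208) (nat_lit 5) (nat_lit 211) (nat_lit 5) (nat_lit 209) (nat_lit 4) (nat_lit 425) (nat_lit 375) (nat_lit 220)) (XT.lf (nat_lit 0) (nat_lit 8548238384) (nat_lit 152) (nat_lit 44097599130) (nat_lit 76) (nat_lit 43208159447) (nat_lit 206) (nat_lit 5) (nat_lit 208) (nat_lit 5) (nat_lit 207) (nat_lit 5) (nat_lit 426) (nat_lit 375) (nat_lit 219))))) (XT.nd (nat_lit 312) (nat_lit 304) (nat_lit 0) (XT.nd (nat_lit 156) (nat_lit 304) (nat_lit 0) (XT.nd (nat_lit 78) (nat_lit 0) (nat_lit 0) (XT.lf (nat_lit 0) (nat_lit 17782886349) (nat_lit 152) (nat_lit 18676162201) (nat_lit 228) (nat_lit 62444322957) (nat_lit 204) (nat_lit 5) (nat_lit 206) (nat_lit 5) (nat_lit 207) (nat_lit 5) (nat_lit 427) (nat_lit 375) (nat_lit 218)) (XT.lf (nat_lit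 0) (nat_lit 66788079715) (nat_lit 228) (nat_lit 18060109734) (nat_lit 76) (nat_lit 17205891307) (nat_lit 204) (nat_lit 5) (nat_lit 207) (nat_lit 5) (nat_lit 205) (nat_lit 4) (nat_lit 428) (nat_lit 375) (nat_lit 217))) (XT.nd (nat_lit 78) (nat_lit 228) (nat_lit 0) (XT.lf (nat_lit 0) (nat_lit 49426143824) (nat_lit 76) (nat_lit 50283676079) (nat_lit 152) (nat_lit 5598692691) (nat_lit 203) (nat_lit 5) (nat_lit 204) (nat_lit 5) (nat_lit 205) (nat_lit 4) (nat_lit 429) (nat_lit 375) (nat_lit 216)) (XT.lf (nat_lit 0) (nat_lit 12186510854) (nat_lit 152) (nat_lit 13047199135) (nat_lit 228) (nat_lit 83447031541) (nat_lit 200) (nat_lit 5) (nat_lit 202) (nat_lit 5) (nat_lit 203) (nat_lit 5) (nat_lit 430) (nat_lit 375) (nat_lit 215)))) (XT.nd (nat_lit 156) (nat_lit 228) (nat_lit 0) (XT.nd (nat_lit 78) (nat_lit 76) (nat_lit 0) (XT.lf (nat_lit 0) (nat_lit 58786645763) (nat_lit 228) (nat_lit 27092279751) (nat_lit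 76) (nat_lit 26269714017) (nat_lit 200) (nat_lit 5) (nat_lit 203) (nat_lit 5) (nat_lit 201) (nat_lit 4) (nat_lit 431) (nat_lit 375) (nat_lit 214)) (XT.lf (nat_lit 0) (nat_lit 47069606839) (nat_lit 76) (nat_lit 47894898868) (nat_lit 152) (nat_lit 20778062856) (nat_lit 199) (nat_lit 5) (nat_lit 200) (nat_lit 5) (nat_lit 201) (nat_lit 4) (nat_lit 432) (nat_lit 375) (nat_lit 213))) (XT.nd (nat_lit 78) (nat_lit 0) (nat_lit 0) (XT.lf (nat_lit 0) (nat_lit 6370741266) (nat_lit 152) (nat_lit 7198629766) (nat_lit 228) (nat_lit 105908119444) (nat_lit 196) (nat_lit 5) (nat_lit 198) (nat_lit 5) (nat_lit 199) (nat_lit 5) (nat_lit 433) (nat_lit 375) (nat_lit 212)) (XT.lf (nat_lit 0) (nat_lit 50671247065) (nat_lit 228) (nat_lit 36707466527) (nat_lit 76) (nat_lit 35916646214) (nat_lit 196) (nat_lit 5) (nat_lit 199) (nat_lit 5) (nat_lit 197) (nat_lit 4) (nat_lit 434) (nat_lit 375) (nat_lit 211))))))) (XT.nd (nat_lit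 1248) (nat_lit 1140) (nat_lit 0) (XT.nd (nat_lit 624) (nat_lit 684) (nat_lit 0) (XT.nd (nat_lit 312) (nat_lit 228) (nat_lit 0) (XT.nd (nat_lit 156) (nat_lit 76) (nat_lit 0) (XT.nd (nat_lit 78) (nat_lit 228) (nat_lit 0) (XT.lf (nat_lit 0) (nat_lit 44825802030) (nat_lit 76) (nat_lit 45618865272) (nat_lit 152) (nat_lit 36818632780) (nat_lit 195) (nat_lit 5) (nat_lit 196) (nat_lit 5) (nat_lit 197) (nat_lit 4) (nat_lit 435) (nat_lit 375) (nat_lit 210)) (XT.lf (nat_lit 0) (nat_lit 296054214) (nat_lit 152) (nat_lit 1091253579) (nat_lit 228) (nat_lit 130009969960) (nat_lit 192) (nat_lit 5) (nat_lit 194) (nat_lit 5) (nat_lit 195) (nat_lit 5) (nat_lit 436) (nat_lit 375) (nat_lit 209))) (XT.nd (nat_lit 78) (nat_lit 76) (nat_lit 0) (XT.lf (nat_lit 0) (nat_lit 42396721286) (nat_lit 228) (nat_lit 46981898950) (nat_lit 76) (nat_lit 46222628694) (nat_lit 192) (nat_lit 5) (nat_lit 195) (nat_lit 5) (nat_lit 193)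 (nat_lit 4) (nat_lit 437) (nat_lit 375) (nat_lit 208)) (XT.lf (nat_lit 0) (nat_lit 42689269689) (nat_lit 76) (nat_lit 43450385208) (nat_lit 152) (nat_lit 53841611298) (nat_lit 191) (nat_lit 5) (nat_lit 192) (nat_lit 5) (nat_lit 193) (nat_lit 4) (nat_lit 438) (nat_lit 375) (nat_lit 207)))) (XT.nd (nat_lit 156) (nat_lit 76) (nat_lit 0) (XT.nd (nat_lit 78) (nat_lit 152) (nat_lit 0) (XT.lf (nat_lit 0) (nat_lit 132951646280) (nat_lit 152) (nat_lit 6155544059) (nat_lit 0) (nat_lit 5428998428) (nat_lit 191) (nat_lit 5) (nat_lit 193) (nat_lit 4) (nat_lit 191) (nat_lit 4) (nat_lit 439) (nat_lit 375) (nat_lit 206)) (XT.lf (nat_lit 0) (nat_lit 33914845262) (nat_lit 152) (nat_lit 57998809071) (nat_lit 76) (nat_lit 57270669432) (nat_lit 189) (nat_lit 5) (nat_lit 191) (nat_lit 5) (nat_lit 190) (nat_lit 4) (nat_lit 440) (nat_lit 375) (nat_lit 205))) (XT.nd (nat_lit 78) (nat_lit 0) (nat_lit 0) (XT.lf (nat_lit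 0) (nat_lit 40654826319) (nat_lit 76) (nat_lit 41384484061) (nat_lit 152) (nat_lit 71979088378) (nat_lit 188) (nat_lit 5) (nat_lit 189) (nat_lit 5) (nat_lit 190) (nat_lit 4) (nat_lit 441) (nat_lit 375) (nat_lit 204)) (XT.lf (nat_lit 0) (nat_lit 133749295646) (nat_lit 152) (nat_lit 12991103055) (nat_lit 0) (nat_lit 12294813956) (nat_lit 188) (nat_lit 5) (nat_lit 190) (nat_lit 4) (nat_lit 188) (nat_lit 4) (nat_lit 442) (nat_lit 375) (nat_lit 203))))) (XT.nd (nat_lit 312) (nat_lit 304) (nat_lit 0) (XT.nd (nat_lit 156) (nat_lit 152) (nat_lit 0) (XT.nd (nat_lit 78) (nat_lit 76) (nat_lit 0) (XT.lf (nat_lit 0) (nat_lit 25173951193) (nat_lit 152) (nat_lit 69849193136) (nat_lit 76) (nat_lit 69151592643) (nat_lit 186) (nat_lit 5) (nat_lit 188) (nat_lit 5) (nat_lit 187) (nat_lit 4) (nat_lit 443) (nat_lit 375) (nat_lit 202)) (XT.lf (nat_lit 0) (nat_lit 38717548606) (nat_lit 76) (nat_lit 39416398046) (nat_lit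 152) (nat_lit 91375219368) (nat_lit 185) (nat_lit 5) (nat_lit 186) (nat_lit 5) (nat_lit 187) (nat_lit 4) (nat_lit 444) (nat_lit 375) (nat_lit 201))) (XT.nd (nat_lit 78) (nat_lit 152) (nat_lit 0) (XT.lf (nat_lit 0) (nat_lit 135239253205) (nat_lit 152) (nat_lit 20231450737) (nat_lit 0) (nat_lit 19564747010) (nat_lit 185) (nat_lit 5) (nat_lit 187) (nat_lit 4) (nat_lit 185) (nat_lit 4) (nat_lit 445) (nat_lit 375) (nat_lit 200)) (XT.lf (nat_lit 0) (nat_lit 16118506023) (nat_lit 152) (nat_lit 82632647734) (nat_lit 76) (nat_lit 81964865119) (nat_lit 183) (nat_lit 5) (nat_lit 185) (nat_lit 5) (nat_lit 184) (nat_lit 4) (nat_lit 446) (nat_lit 375) (nat_lit 199)))) (XT.nd (nat_lit 156) (nat_lit 228) (nat_lit 0) (XT.nd (nat_lit 78) (nat_lit 0) (nat_lit 0) (XT.lf (nat_lit 0) (nat_lit 36872758656) (nat_lit 76) (nat_lit 37541568782) (nat_lit 152) (nat_lit 112187528140) (nat_lit 182) (nat_lit 5) (nat_lit 183)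 (nat_lit 5) (nat_lit 184) (nat_lit 4) (nat_lit 447) (nat_lit 375) (nat_lit 198)) (XT.lf (nat_lit 0) (nat_lit 137463477381) (nat_lit 152) (nat_lit 27932236935) (nat_lit 0) (nat_lit 27294342927) (nat_lit 182) (nat_lit 5) (nat_lit 184) (nat_lit 4) (nat_lit 182) (nat_lit 4) (nat_lit 448) (nat_lit 375) (nat_lit 197))) (XT.nd (nat_lit 78) (nat_lit 76) (nat_lit 0) (XT.lf (nat_lit 0) (nat_lit 6688650239) (nat_lit 152) (nat_lit 96458289065) (nat_lit 76) (nat_lit 95819507453) (nat_lit 180) (nat_lit 5) (nat_lit 182) (nat_lit 5) (nat_lit 181) (nat_lit 4) (nat_lit 449) (nat_lit 375) (nat_lit 196)) (XT.lf (nat_lit 0) (nat_lit 35116010370) (nat_lit 76) (nat_lit 35755637318) (nat_lit 152) (nat_lit 134588341317) (nat_lit 179) (nat_lit 5) (nat_lit 180) (nat_lit 5) (nat_lit 181) (nat_lit 4) (nat_lit 450) (nat_lit 375) (nat_lit 195)))))) (XT.nd (nat_lit 624) (nat_lit 608) (nat_lit 0) (XT.nd (nat_lit 312) (nat_lit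 304) (nat_lit 0) (XT.nd (nat_lit 156) (nat_lit 152) (nat_lit 0) (XT.nd (nat_lit 78) (nat_lit 76) (nat_lit 0) (XT.lf (nat_lit 0) (nat_lit 140469595923) (nat_lit 152) (nat_lit 36154128832) (nat_lit 0) (nat_lit 35544193565) (nat_lit 179) (nat_lit 5) (nat_lit 181) (nat_lit 4) (nat_lit 179) (nat_lit 4) (nat_lit 451) (nat_lit 375) (nat_lit 194)) (XT.lf (nat_lit 0) (nat_lit 107600930482) (nat_lit 76) (nat_lit 108211595982) (nat_lit 76) (nat_lit 3285463391) (nat_lit 178) (nat_lit 4) (nat_lit 179) (nat_lit 5) (nat_lit 179) (nat_lit 4) (nat_lit 452) (nat_lit 375) (nat_lit 193))) (XT.nd (nat_lit 78) (nat_lit 0) (nat_lit 0) (XT.lf (nat_lit 0) (nat_lit 33443076800) (nat_lit 76) (nat_lit 34054437761) (nat_lit 152) (nat_lit 158766366992) (nat_lit 176) (nat_lit 5) (nat_lit 177) (nat_lit 5) (nat_lit 178) (nat_lit 4) (nat_lit 453) (nat_lit 375) (nat_lit 192)) (XT.lf (nat_lit 0) (nat_lit 144311424057) (nat_lit 152)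 (nat_lit 44963360162) (nat_lit 0) (nat_lit 44380480825) (nat_lit 176) (nat_lit 5) (nat_lit 178) (nat_lit 4) (nat_lit 176) (nat_lit 4) (nat_lit 454) (nat_lit 375) (nat_lit 191)))) (XT.nd (nat_lit 156) (nat_lit 76) (nat_lit 0) (XT.nd (nat_lit 78) (nat_lit 152) (nat_lit 0) (XT.lf (nat_lit 0) (nat_lit 113354815790) (nat_lit 76) (nat_lit 113938295892) (nat_lit 76) (nat_lit 14006751894) (nat_lit 175) (nat_lit 4) (nat_lit 176) (nat_lit 5) (nat_lit 176) (nat_lit 4) (nat_lit 455) (nat_lit 375) (nat_lit 190)) (XT.lf (nat_lit 0) (nat_lit 31849938394) (nat_lit 76) (nat_lit 32433990653) (nat_lit 152) (nat_lit 184928432805) (nat_lit 173) (nat_lit 5) (nat_lit 174) (nat_lit 5) (nat_lit 175) (nat_lit 4) (nat_lit 456) (nat_lit 375) (nat_lit 189))) (XT.nd (nat_lit 78) (nat_lit 76) (nat_lit 0) (XT.lf (nat_lit 0) (nat_lit 149049538359) (nat_lit 152) (nat_lit 54432334649) (nat_lit 0) (nat_lit 53875575439) (nat_lit 173)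 (nat_lit 5) (nat_lit 175) (nat_lit 4) (nat_lit 173) (nat_lit 4) (nat_lit 457) (nat_lit 375) (nat_lit 188)) (XT.lf (nat_lit 0) (nat_lit 119949854308) (nat_lit 76) (nat_lit 120507107768) (nat_lit 76) (nat_lit 25332650598) (nat_lit 172) (nat_lit 4) (nat_lit 173) (nat_lit 5) (nat_lit 173) (nat_lit 4) (nat_lit 458) (nat_lit 375) (nat_lit 187))))) (XT.nd (nat_lit 312) (nat_lit 228) (nat_lit 0) (XT.nd (nat_lit 156) (nat_lit 228) (nat_lit 0) (XT.nd (nat_lit 78) (nat_lit 0) (nat_lit 0) (XT.lf (nat_lit 0) (nat_lit 30332772040) (nat_lit 76) (nat_lit 30890496215) (nat_lit 152) (nat_lit 213301399723) (nat_lit 170) (nat_lit 5) (nat_lit 171) (nat_lit 5) (nat_lit 172) (nat_lit 4) (nat_lit 459) (nat_lit 375) (nat_lit 186)) (XT.lf (nat_lit 0) (nat_lit 154751911991) (nat_lit 152) (nat_lit 64640289409) (nat_lit 0) (nat_lit 64108696576) (nat_lit 170) (nat_lit 5) (nat_lit 172) (nat_lit 4) (nat_lit 170) (nat_lit 4) (nat_lit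 460) (nat_lit 375) (nat_lit 185))) (XT.nd (nat_lit 78) (nat_lit 152) (nat_lit 0) (XT.lf (nat_lit 0) (nat_lit 127460261943) (nat_lit 76) (nat_lit 127992261397) (nat_lit 76) (nat_lit 37348639361) (nat_lit 169) (nat_lit 4) (nat_lit 170) (nat_lit 5) (nat_lit 170) (nat_lit 4) (nat_lit 461) (nat_lit 375) (nat_lit 184)) (XT.lf (nat_lit 0) (nat_lit 28887940816) (nat_lit 76) (nat_lit 29420327530) (nat_lit 152) (nat_lit 244134269594) (nat_lit 167) (nat_lit 5) (nat_lit 168) (nat_lit 5) (nat_lit 169) (nat_lit 4) (nat_lit 462) (nat_lit 375) (nat_lit 183)))) (XT.nd (nat_lit 156) (nat_lit 152) (nat_lit 0) (XT.nd (nat_lit 78) (nat_lit 76) (nat_lit 0) (XT.lf (nat_lit 0) (nat_lit 161494617542) (nat_lit 152) (nat_lit 75674024608) (nat_lit 0) (nat_lit 75166638388) (nat_lit 167) (nat_lit 5) (nat_lit 169) (nat_lit 4) (nat_lit 167) (nat_lit 4) (nat_lit 463) (nat_lit 375) (nat_lit 182)) (XT.lf (nat_lit 0) (nat_lit 135968438911)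 (nat_lit 76) (nat_lit 136476159659) (nat_lit 76) (nat_lit 50147845976) (nat_lit 166) (nat_lit 4) (nat_lit 167) (nat_lit 5) (nat_lit 167) (nat_lit 4) (nat_lit 464) (nat_lit 375) (nat_lit 181))) (XT.nd (nat_lit 78) (nat_lit 0) (nat_lit 0) (XT.lf (nat_lit 0) (nat_lit 27511984393) (nat_lit 76) (nat_lit 28020023740) (nat_lit 152) (nat_lit 277700506401) (nat_lit 164) (nat_lit 5) (nat_lit 165) (nat_lit 5) (nat_lit 166) (nat_lit 4) (nat_lit 465) (nat_lit 375) (nat_lit 180)) (XT.lf (nat_lit 0) (nat_lit 169362604326) (nat_lit 152) (nat_lit 87628706293) (nat_lit 0) (nat_lit 87144570319) (nat_lit 164) (nat_lit 5) (nat_lit 166) (nat_lit 4) (nat_lit 164) (nat_lit 4) (nat_lit 466) (nat_lit 375) (nat_lit 179))))))))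
noncomputable def xc232 : XT := (XT.nd (nat_lit 46722) (nat_lit 0) (nat_lit 6156) (XT.nd (nat_lit 1248) (nat_lit 608) (nat_lit 0) (XT.nd (nat_lit 624) (nat_lit 532) (nat_lit 0) (XT.nd (nat_lit 312) (nat_lit 380) (nat_lit 0) (XT.nd (nat_lit 156) (nat_lit 76) (nat_lit 0) (XT.nd (nat_lit 78) (nat_lit 152) (nat_lit 0) (XT.lf (nat_lit 0) (nat_lit 145565780148) (nat_lit 76) (nat_lit 146050191340) (nat_lit 76) (nat_lit 63831882115) (nat_lit 163) (nat_lit 4) (nat_lit 164) (nat_lit 5) (nat_lit 164) (nat_lit 4) (nat_lit 467) (nat_lit 375) (nat_lit 178)) (XT.lf (nat_lit 0) (nat_lit 26201610020) (nat_lit 76) (nat_lit 26686283324) (nat_lit 152) (nat_lit 314300593182) (nat_lit 161) (nat_lit 5) (nat_lit 162) (nat_lit 5) (nat_lit 163) (nat_lit 4) (nat_lit 468) (nat_lit 375) (nat_lit 177))) (XT.nd (nat_lit 78) (nat_lit 76) (nat_lit 0) (XT.lf (nat_lit 0) (nat_lit 178450557684) (nat_lit 152) (nat_lit 100608750033)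 (nat_lit 0) (nat_lit 100146918668) (nat_lit 161) (nat_lit 5) (nat_lit 163) (nat_lit 4) (nat_lit 161) (nat_lit 4) (nat_lit 469) (nat_lit 375) (nat_lit 176)) (XT.lf (nat_lit 0) (nat_lit 156353570313) (nat_lit 76) (nat_lit 156815628101) (nat_lit 76) (nat_lit 78511762663) (nat_lit 160) (nat_lit 4) (nat_lit 161) (nat_lit 5) (nat_lit 161) (nat_lit 4) (nat_lit 470) (nat_lit 375) (nat_lit 175)))) (XT.nd (nat_lit 156) (nat_lit 228) (nat_lit 0) (XT.nd (nat_lit 78) (nat_lit 0) (nat_lit 0) (XT.lf (nat_lit 0) (nat_lit 24953684048) (nat_lit 76) (nat_lit 25415957476) (nat_lit 152) (nat_lit 354264848840) (nat_lit 158) (nat_lit 5) (nat_lit 159) (nat_lit 5) (nat_lit 160) (nat_lit 4) (nat_lit 471) (nat_lit 375) (nat_lit 174)) (XT.lf (nat_lit 0) (nat_lit 188863848628) (nat_lit 152) (nat_lit 114728793723) (nat_lit 0) (nat_lit 114288337724) (nat_lit 158) (nat_lit 5) (nat_lit 160) (nat_lit 4) (nat_lit 158) (nat_lit 4)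 (nat_lit 472) (nat_lit 375) (nat_lit 173))) (XT.nd (nat_lit 78) (nat_lit 152) (nat_lit 0) (XT.lf (nat_lit 0) (nat_lit 168443971964) (nat_lit 76) (nat_lit 168884614241) (nat_lit 76) (nat_lit 94308917059) (nat_lit 157) (nat_lit 4) (nat_lit 158) (nat_lit 5) (nat_lit 158) (nat_lit 4) (nat_lit 473) (nat_lit 375) (nat_lit 172)) (XT.lf (nat_lit 0) (nat_lit 23765223947) (nat_lit 76) (nat_lit 24206043631) (nat_lit 152) (nat_lit 397956531563) (nat_lit 155) (nat_lit 5) (nat_lit 156) (nat_lit 5) (nat_lit 157) (nat_lit 4) (nat_lit 474) (nat_lit 375) (nat_lit 171))))) (XT.nd (nat_lit 312) (nat_lit 304) (nat_lit 0) (XT.nd (nat_lit 156) (nat_lit 152) (nat_lit 0) (XT.nd (nat_lit 78) (nat_lit 76) (nat_lit 0) (XT.lf (nat_lit 0) (nat_lit 200719583006) (nat_lit 152) (nat_lit 130114768810) (nat_lit 0) (nat_lit 129694779626) (nat_lit 155) (nat_lit 5) (nat_lit 157) (nat_lit 4) (nat_lit 155) (nat_lit 4) (nat_lit 475) (nat_lit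 375) (nat_lit 170)) (XT.lf (nat_lit 0) (nat_lit 181961116357) (nat_lit 76) (nat_lit 182381258792) (nat_lit 76) (nat_lit 111356302161) (nat_lit 154) (nat_lit 4) (nat_lit 155) (nat_lit 5) (nat_lit 155) (nat_lit 4) (nat_lit 476) (nat_lit 375) (nat_lit 169))) (XT.nd (nat_lit 78) (nat_lit 0) (nat_lit 0) (XT.lf (nat_lit 0) (nat_lit 22633390769) (nat_lit 76) (nat_lit 23053679159) (nat_lit 152) (nat_lit 445775258306) (nat_lit 152) (nat_lit 5) (nat_lit 153) (nat_lit 5) (nat_lit 154) (nat_lit 4) (nat_lit 477) (nat_lit 375) (nat_lit 168)) (XT.lf (nat_lit 0) (nat_lit 214147760293) (nat_lit 152) (nat_lit 146905080107) (nat_lit 0) (nat_lit 146504673066) (nat_lit 152) (nat_lit 5) (nat_lit 154) (nat_lit 4) (nat_lit 152) (nat_lit 4) (nat_lit 478) (nat_lit 375) (nat_lit 167)))) (XT.nd (nat_lit 156) (nat_lit 76) (nat_lit 0) (XT.nd (nat_lit 78) (nat_lit 152) (nat_lit 0) (XT.lf (nat_lit 0) (nat_lit 197042307299) (nat_lit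 76) (nat_lit 197442840420) (nat_lit 76) (nat_lit 129799627112) (nat_lit 151) (nat_lit 4) (nat_lit 152) (nat_lit 5) (nat_lit 152) (nat_lit 4) (nat_lit 479) (nat_lit 375) (nat_lit 166)) (XT.lf (nat_lit 0) (nat_lit 21555482041) (nat_lit 76) (nat_lit 21956135239) (nat_lit 152) (nat_lit 498160772799) (nat_lit 149) (nat_lit 5) (nat_lit 150) (nat_lit 5) (nat_lit 151) (nat_lit 4) (nat_lit 480) (nat_lit 375) (nat_lit 165))) (XT.nd (nat_lit 78) (nat_lit 76) (nat_lit 0) (XT.lf (nat_lit 0) (nat_lit 229292553179) (nat_lit 152) (nat_lit 165251905383) (nat_lit 0) (nat_lit 164870221996) (nat_lit 149) (nat_lit 5) (nat_lit 151) (nat_lit 4) (nat_lit 149) (nat_lit 4) (nat_lit 481) (nat_lit 375) (nat_lit 164)) (XT.lf (nat_lit 0) (nat_lit 213839349575) (nat_lit 76) (nat_lit 214221136688) (nat_lit 76) (nat_lit 149798701778) (nat_lit 148) (nat_lit 4) (nat_lit 149) (nat_lit 5) (nat_lit 149) (nat_lit 4) (nat_lit 482) (nat_lit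 375) (nat_lit 163)))))) (XT.nd (nat_lit 44850) (nat_lit 0) (nat_lit 11552) (XT.nd (nat_lit 312) (nat_lit 228) (nat_lit 0) (XT.nd (nat_lit 156) (nat_lit 228) (nat_lit 0) (XT.nd (nat_lit 78) (nat_lit 0) (nat_lit 0) (XT.lf (nat_lit 0) (nat_lit 20528925032) (nat_lit 76) (nat_lit 20910810932) (nat_lit 152) (nat_lit 555597097902) (nat_lit 146) (nat_lit 5) (nat_lit 147) (nat_lit 5) (nat_lit 148) (nat_lit 4) (nat_lit 483) (nat_lit 375) (nat_lit 162)) (XT.lf (nat_lit 0) (nat_lit 246313720245) (nat_lit 152) (nat_lit 185322627106) (nat_lit 0) (nat_lit 184958836646) (nat_lit 146) (nat_lit 5) (nat_lit 148) (nat_lit 4) (nat_lit 146) (nat_lit 4) (nat_lit 484) (nat_lit 375) (nat_lit 161))) (XT.nd (nat_lit 78) (nat_lit 152) (nat_lit 0) (XT.lf (nat_lit 0) (nat_lit 232520014637) (nat_lit 76) (nat_lit 232883890433) (nat_lit 76) (nat_lit 171528921497) (nat_lit 145) (nat_lit 4) (nat_lit 146) (nat_lit 5) (nat_lit 146)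 (nat_lit 4) (nat_lit 485) (nat_lit 375) (nat_lit 160)) (XT.lf (nat_lit 0) (nat_lit 19551270392) (nat_lit 76) (nat_lit 19915227461) (nat_lit 152) (nat_lit 618617111752) (nat_lit 143) (nat_lit 5) (nat_lit 144) (nat_lit 5) (nat_lit 145) (nat_lit 4) (nat_lit 486) (nat_lit 375) (nat_lit 159)))) (XT.nd (nat_lit 156) (nat_lit 152) (nat_lit 0) (XT.nd (nat_lit 78) (nat_lit 76) (nat_lit 0) (XT.lf (nat_lit 0) (nat_lit 265388165291) (nat_lit 152) (nat_lit 207301409920) (nat_lit 0) (nat_lit 206954710424) (nat_lit 143) (nat_lit 5) (nat_lit 145) (nat_lit 4) (nat_lit 143) (nat_lit 4) (nat_lit 487) (nat_lit 375) (nat_lit 158)) (XT.lf (nat_lit 0) (nat_lit 253269657566) (nat_lit 76) (nat_lit 253616427268) (nat_lit 76) (nat_lit 195182902195) (nat_lit 142) (nat_lit 4) (nat_lit 143) (nat_lit 5) (nat_lit 143) (nat_lit 4) (nat_lit 488) (nat_lit 375) (nat_lit 157))) (XT.nd (nat_lit 44304) (nat_lit 0) (nat_lit 11552) (XT.lf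 (nat_lit 0) (nat_lit 18620186121) (nat_lit 76) (nat_lit 18967022687) (nat_lit 152) (nat_lit 687807591239) (nat_lit 140) (nat_lit 5) (nat_lit 141) (nat_lit 5) (nat_lit 142) (nat_lit 4) (nat_lit 489) (nat_lit 375) (nat_lit 156)) (XT.lf (nat_lit 0) (nat_lit 4722012708) (nat_lit 836) (nat_lit 3534095630) (nat_lit 836) (nat_lit 3534095630) (nat_lit 292) (nat_lit 3) (nat_lit 303) (nat_lit 3) (nat_lit 303) (nat_lit 5) (nat_lit 376) (nat_lit 376) (nat_lit 268))))) (XT.nd (nat_lit 312) (nat_lit 0) (nat_lit 152) (XT.nd (nat_lit 156) (nat_lit 0) (nat_lit 76) (XT.nd (nat_lit 78) (nat_lit 0) (nat_lit 76) (XT.lf (nat_lit 76) (nat_lit 4878143773) (nat_lit 0) (nat_lit 4994864716) (nat_lit 836) (nat_lit 14287265523) (nat_lit 293) (nat_lit 5) (nat_lit 292) (nat_lit 3) (nat_lit 303) (nat_lit 5) (nat_lit 377) (nat_lit 376) (nat_lit 267)) (XT.lf (nat_lit 0) (nat_lit 10548451024) (nat_lit 760) (nat_lit 7213231996) (nat_lit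 836) (nat_lit 6996199857) (nat_lit 293) (nat_lit 5) (nat_lit 303) (nat_lit 5) (nat_lit 304) (nat_lit 5) (nat_lit 378) (nat_lit 376) (nat_lit 266))) (XT.nd (nat_lit 78) (nat_lit 0) (nat_lit 76) (XT.lf (nat_lit 76) (nat_lit 5550612486) (nat_lit 0) (nat_lit 5868472564) (nat_lit 836) (nat_lit 13958216167) (nat_lit 294) (nat_lit 5) (nat_lit 293) (nat_lit 5) (nat_lit 304) (nat_lit 5) (nat_lit 379) (nat_lit 376) (nat_lit 265)) (XT.lf (nat_lit 0) (nat_lit 12553951078) (nat_lit 760) (nat_lit 6928441089) (nat_lit 836) (nat_lit 6534263292) (nat_lit 294) (nat_lit 5) (nat_lit 304) (nat_lit 5) (nat_lit 305) (nat_lit 5) (nat_lit 380) (nat_lit 376) (nat_lit 264)))) (XT.nd (nat_lit 156) (nat_lit 0) (nat_lit 76) (XT.nd (nat_lit 78) (nat_lit 0) (nat_lit 76) (XT.lf (nat_lit 76) (nat_lit 6729535007) (nat_lit 0) (nat_lit 7210811769) (nat_lit 836) (nat_lit 12737891320) (nat_lit 295) (nat_lit 5) (nat_lit 294) (nat_lit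 5) (nat_lit 305) (nat_lit 5) (nat_lit 381) (nat_lit 376) (nat_lit 263)) (XT.lf (nat_lit 0) (nat_lit 15597701912) (nat_lit 760) (nat_lit 6151238058) (nat_lit 836) (nat_lit 5613877909) (nat_lit 295) (nat_lit 5) (nat_lit 305) (nat_lit 5) (nat_lit 306) (nat_lit 5) (nat_lit 382) (nat_lit 376) (nat_lit 262))) (XT.nd (nat_lit 78) (nat_lit 0) (nat_lit 76) (XT.lf (nat_lit 76) (nat_lit 8485046835) (nat_lit 0) (nat_lit 9097646345) (nat_lit 836) (nat_lit 10486695056) (nat_lit 296) (nat_lit 5) (nat_lit 295) (nat_lit 5) (nat_lit 306) (nat_lit 5) (nat_lit 383) (nat_lit 376) (nat_lit 261)) (XT.lf (nat_lit 0) (nat_lit 19832492541) (nat_lit 760) (nat_lit 4811094532) (nat_lit 836) (nat_lit 4159422109) (nat_lit 296) (nat_lit 5) (nat_lit 306) (nat_lit 5) (nat_lit 307) (nat_lit 5) (nat_lit 384) (nat_lit 376) (nat_lit 260))))))) (XT.nd (nat_lit 1248) (nat_lit 2432) (nat_lit 0) (XT.nd (nat_lit 624) (nat_lit 1292) (nat_lit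 0) (XT.nd (nat_lit 312) (nat_lit 1216) (nat_lit 0) (XT.nd (nat_lit 156) (nat_lit 760) (nat_lit 0) (XT.nd (nat_lit 78) (nat_lit 0) (nat_lit 76) (XT.lf (nat_lit 76) (nat_lit 10895981017) (nat_lit 0) (nat_lit 11612648028) (nat_lit 836) (nat_lit 7048989772) (nat_lit 297) (nat_lit 5) (nat_lit 296) (nat_lit 5) (nat_lit 307) (nat_lit 5) (nat_lit 385) (nat_lit 376) (nat_lit 259)) (XT.lf (nat_lit 0) (nat_lit 25428493971) (nat_lit 760) (nat_lit 2828730451) (nat_lit 76) (nat_lit 2087238432) (nat_lit 297) (nat_lit 5) (nat_lit 307) (nat_lit 5) (nat_lit 298) (nat_lit 5) (nat_lit 386) (nat_lit 376) (nat_lit 258))) (XT.nd (nat_lit 78) (nat_lit 76) (nat_lit 0) (XT.lf (nat_lit 0) (nat_lit 14050748959) (nat_lit 760) (nat_lit 14848385747) (nat_lit 836) (nat_lit 2251275258) (nat_lit 287) (nat_lit 5) (nat_lit 297) (nat_lit 5) (nat_lit 298) (nat_lit 5) (nat_lit 387) (nat_lit 376) (nat_lit 257)) (XT.lf (nat_lit 0) (nat_lit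 572977563) (nat_lit 836) (nat_lit 135673382) (nat_lit 76) (nat_lit 31285385705) (nat_lit 286) (nat_lit 5) (nat_lit 297) (nat_lit 5) (nat_lit 287) (nat_lit 5) (nat_lit 388) (nat_lit 376) (nat_lit 256)))) (XT.nd (nat_lit 156) (nat_lit 380) (nat_lit 0) (XT.nd (nat_lit 78) (nat_lit 380) (nat_lit 0) (XT.lf (nat_lit 0) (nat_lit 3968595863) (nat_lit 532) (nat_lit 14871595992) (nat_lit 76) (nat_lit 14012516985) (nat_lit 280) (nat_lit 5) (nat_lit 287) (nat_lit 5) (nat_lit 281) (nat_lit 5) (nat_lit 389) (nat_lit 376) (nat_lit 255)) (XT.lf (nat_lit 0) (nat_lit 3345213490) (nat_lit 380) (nat_lit 4250482938) (nat_lit 456) (nat_lit 26155533144) (nat_lit 275) (nat_lit 5) (nat_lit 280) (nat_lit 5) (nat_lit 281) (nat_lit 5) (nat_lit 390) (nat_lit 376) (nat_lit 254))) (XT.nd (nat_lit 78) (nat_lit 380) (nat_lit 0) (XT.lf (nat_lit 0) (nat_lit 11828617034) (nat_lit 456) (nat_lit 11874446763) (nat_lit 76) (nat_lit 10970389292)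 (nat_lit 275) (nat_lit 5) (nat_lit 281) (nat_lit 5) (nat_lit 276) (nat_lit 5) (nat_lit 391) (nat_lit 376) (nat_lit 253)) (XT.lf (nat_lit 0) (nat_lit 7757949951) (nat_lit 380) (nat_lit 8701908461) (nat_lit 456) (nat_lit 19172595633) (nat_lit 270) (nat_lit 5) (nat_lit 275) (nat_lit 5) (nat_lit 276) (nat_lit 5) (nat_lit 392) (nat_lit 376) (nat_lit 252))))) (XT.nd (nat_lit 312) (nat_lit 608) (nat_lit 0) (XT.nd (nat_lit 156) (nat_lit 380) (nat_lit 0) (XT.nd (nat_lit 78) (nat_lit 304) (nat_lit 0) (XT.lf (nat_lit 0) (nat_lit 21633113496) (nat_lit 456) (nat_lit 7962984248) (nat_lit 76) (nat_lit 7027784724) (nat_lit 270) (nat_lit 5) (nat_lit 276) (nat_lit 5) (nat_lit 271) (nat_lit 5) (nat_lit 393) (nat_lit 376) (nat_lit 251)) (XT.lf (nat_lit 0) (nat_lit 13220305366) (nat_lit 304) (nat_lit 14189972907) (nat_lit 380) (nat_lit 10237341692) (nat_lit 266) (nat_lit 5) (nat_lit 270) (nat_lit 5) (nat_lit 271) (nat_lit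 5) (nat_lit 394) (nat_lit 376) (nat_lit 250))) (XT.nd (nat_lit 78) (nat_lit 380) (nat_lit 0) (XT.lf (nat_lit 0) (nat_lit 33640677609) (nat_lit 380) (nat_lit 3014202159) (nat_lit 76) (nat_lit 2059445753) (nat_lit 266) (nat_lit 5) (nat_lit 271) (nat_lit 5) (nat_lit 267) (nat_lit 5) (nat_lit 395) (nat_lit 376) (nat_lit 249)) (XT.lf (nat_lit 0) (nat_lit 885225131) (nat_lit 380) (nat_lit 19952996775) (nat_lit 76) (nat_lit 18968465600) (nat_lit 261) (nat_lit 5) (nat_lit 266) (nat_lit 5) (nat_lit 262) (nat_lit 5) (nat_lit 396) (nat_lit 376) (nat_lit 248)))) (XT.nd (nat_lit 156) (nat_lit 304) (nat_lit 0) (XT.nd (nat_lit 78) (nat_lit 0) (nat_lit 0) (XT.lf (nat_lit 0) (nat_lit 3027155279) (nat_lit 304) (nat_lit 4040043378) (nat_lit 380) (nat_lit 33877526970) (nat_lit 257) (nat_lit 5) (nat_lit 261) (nat_lit 5) (nat_lit 262) (nat_lit 5) (nat_lit 397) (nat_lit 376) (nat_lit 247)) (XT.lf (nat_lit 0) (nat_lit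 14110634746) (nat_lit 380) (nat_lit 14495894307) (nat_lit 76) (nat_lit 13505518409) (nat_lit 257) (nat_lit 5) (nat_lit 262) (nat_lit 5) (nat_lit 258) (nat_lit 5) (nat_lit 398) (nat_lit 376) (nat_lit 246))) (XT.nd (nat_lit 78) (nat_lit 0) (nat_lit 0) (XT.lf (nat_lit 0) (nat_lit 10358043964) (nat_lit 304) (nat_lit 11372915639) (nat_lit 380) (nat_lit 21595539935) (nat_lit 253) (nat_lit 5) (nat_lit 257) (nat_lit 5) (nat_lit 258) (nat_lit 5) (nat_lit 399) (nat_lit 376) (nat_lit 245)) (XT.lf (nat_lit 0) (nat_lit 30083620551) (nat_lit 380) (nat_lit 7744625260) (nat_lit 76) (nat_lit 6755862417) (nat_lit 253) (nat_lit 5) (nat_lit 258) (nat_lit 5) (nat_lit 254) (nat_lit 5) (nat_lit 400) (nat_lit 376) (nat_lit 244)))))) (XT.nd (nat_lit 624) (nat_lit 1064) (nat_lit 0) (XT.nd (nat_lit 312) (nat_lit 532) (nat_lit 0) (XT.nd (nat_lit 156) (nat_lit 228) (nat_lit 0) (XT.nd (nat_lit 78) (nat_lit 380) (nat_lit 0)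 (XT.lf (nat_lit 0) (nat_lit 19163310483) (nat_lit 228) (nat_lit 20173233700) (nat_lit 304) (nat_lit 6543921687) (nat_lit 250) (nat_lit 5) (nat_lit 253) (nat_lit 5) (nat_lit 254) (nat_lit 5) (nat_lit 401) (nat_lit 376) (nat_lit 243)) (XT.lf (nat_lit 0) (nat_lit 429749105) (nat_lit 304) (nat_lit 1459825058) (nat_lit 380) (nat_lit 45343801503) (nat_lit 245) (nat_lit 5) (nat_lit 249) (nat_lit 5) (nat_lit 250) (nat_lit 5) (nat_lit 402) (nat_lit 376) (nat_lit 242))) (XT.nd (nat_lit 78) (nat_lit 228) (nat_lit 0) (XT.lf (nat_lit 0) (nat_lit 11265789064) (nat_lit 380) (nat_lit 19172516857) (nat_lit 76) (nat_lit 18173213014) (nat_lit 245) (nat_lit 5) (nat_lit 250) (nat_lit 5) (nat_lit 246) (nat_lit 5) (nat_lit 403) (nat_lit 376) (nat_lit 241)) (XT.lf (nat_lit 0) (nat_lit 10136763867) (nat_lit 228) (nat_lit 11153476402) (nat_lit 304) (nat_lit 28759357821) (nat_lit 242) (nat_lit 5) (nat_lit 245) (nat_lit 5)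 (nat_lit 246) (nat_lit 5) (nat_lit 404) (nat_lit 376) (nat_lit 240)))) (XT.nd (nat_lit 156) (nat_lit 304) (nat_lit 0) (XT.nd (nat_lit 78) (nat_lit 228) (nat_lit 0) (XT.lf (nat_lit 0) (nat_lit 32285225592) (nat_lit 304) (nat_lit 10117488940) (nat_lit 76) (nat_lit 9133401092) (nat_lit 242) (nat_lit 5) (nat_lit 246) (nat_lit 5) (nat_lit 243) (nat_lit 5) (nat_lit 405) (nat_lit 376) (nat_lit 239)) (XT.lf (nat_lit 0) (nat_lit 21674747933) (nat_lit 228) (nat_lit 22673874063) (nat_lit 304) (nat_lit 8722403949) (nat_lit 239) (nat_lit 5) (nat_lit 242) (nat_lit 5) (nat_lit 243) (nat_lit 5) (nat_lit 406) (nat_lit 376) (nat_lit 238))) (XT.nd (nat_lit 78) (nat_lit 0) (nat_lit 0) (XT.lf (nat_lit 0) (nat_lit 713568053) (nat_lit 228) (nat_lit 1727016356) (nat_lit 304) (nat_lit 52231139887) (nat_lit 235) (nat_lit 5) (nat_lit 238) (nat_lit 5) (nat_lit 239) (nat_lit 5) (nat_lit 407) (nat_lit 376) (nat_lit 237)) (XT.lf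 (nat_lit 0) (nat_lit 14722930696) (nat_lit 304) (nat_lit 21278919964) (nat_lit 76) (nat_lit 20300740470) (nat_lit 235) (nat_lit 5) (nat_lit 239) (nat_lit 5) (nat_lit 236) (nat_lit 5) (nat_lit 408) (nat_lit 376) (nat_lit 236))))) (XT.nd (nat_lit 312) (nat_lit 380) (nat_lit 0) (XT.nd (nat_lit 156) (nat_lit 456) (nat_lit 0) (XT.nd (nat_lit 78) (nat_lit 0) (nat_lit 0) (XT.lf (nat_lit 0) (nat_lit 13432236205) (nat_lit 228) (nat_lit 14422787730) (nat_lit 304) (nat_lit 30148195888) (nat_lit 232) (nat_lit 5) (nat_lit 235) (nat_lit 5) (nat_lit 236) (nat_lit 5) (nat_lit 409) (nat_lit 376) (nat_lit 235)) (XT.lf (nat_lit 0) (nat_lit 42136215022) (nat_lit 304) (nat_lit 9291322237) (nat_lit 76) (nat_lit 8336718033) (nat_lit 232) (nat_lit 5) (nat_lit 236) (nat_lit 5) (nat_lit 233) (nat_lit 5) (nat_lit 410) (nat_lit 376) (nat_lit 234))) (XT.nd (nat_lit 78) (nat_lit 304) (nat_lit 0) (XT.lf (nat_lit 0) (nat_lit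 28422057574) (nat_lit 152) (nat_lit 29387349203) (nat_lit 228) (nat_lit 3770038701) (nat_lit 230) (nat_lit 5) (nat_lit 232) (nat_lit 5) (nat_lit 233) (nat_lit 5) (nat_lit 411) (nat_lit 376) (nat_lit 233)) (XT.lf (nat_lit 0) (nat_lit 4846857298) (nat_lit 228) (nat_lit 5822327429) (nat_lit 304) (nat_lit 52796125637) (nat_lit 226) (nat_lit 5) (nat_lit 229) (nat_lit 5) (nat_lit 230) (nat_lit 5) (nat_lit 412) (nat_lit 376) (nat_lit 232)))) (XT.nd (nat_lit 156) (nat_lit 228) (nat_lit 0) (XT.nd (nat_lit 78) (nat_lit 152) (nat_lit 0) (XT.lf (nat_lit 0) (nat_lit 26567625120) (nat_lit 304) (nat_lit 19884903430) (nat_lit 76) (nat_lit 18946652057) (nat_lit 226) (nat_lit 5) (nat_lit 230) (nat_lit 5) (nat_lit 227) (nat_lit 5) (nat_lit 413) (nat_lit 376) (nat_lit 231)) (XT.lf (nat_lit 0) (nat_lit 21370476064) (nat_lit 152) (nat_lit 22317520009) (nat_lit 228) (nat_lit 23720397863) (nat_lit 224) (nat_lit 5) (nat_lit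 226) (nat_lit 5) (nat_lit 227) (nat_lit 5) (nat_lit 414) (nat_lit 376) (nat_lit 230))) (XT.nd (nat_lit 78) (nat_lit 228) (nat_lit 0) (XT.lf (nat_lit 0) (nat_lit 62051818544) (nat_lit 228) (nat_lit 4178399737) (nat_lit 76) (nat_lit 3268478001) (nat_lit 224) (nat_lit 5) (nat_lit 227) (nat_lit 5) (nat_lit 225) (nat_lit 5) (nat_lit 415) (nat_lit 376) (nat_lit 229)) (XT.lf (nat_lit 0) (nat_lit 10347611078) (nat_lit 228) (nat_lit 31102550993) (nat_lit 76) (nat_lit 30185033902) (nat_lit 221) (nat_lit 5) (nat_lit 224) (nat_lit 5) (nat_lit 222) (nat_lit 5) (nat_lit 416) (nat_lit 376) (nat_lit 228))))))))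
noncomputable def xc233 : XT := (XT.nd (nat_lit 2496) (nat_lit 2356) (nat_lit 0) (XT.nd (nat_lit 1248) (nat_lit 1368) (nat_lit 0) (XT.nd (nat_lit 624) (nat_lit 760) (nat_lit 0) (XT.nd (nat_lit 312) (nat_lit 304) (nat_lit 0) (XT.nd (nat_lit 156) (nat_lit 380) (nat_lit 0) (XT.nd (nat_lit 78) (nat_lit 0) (nat_lit 0) (XT.lf (nat_lit 0) (nat_lit 14073250648) (nat_lit 152) (nat_lit 14998001409) (nat_lit 228) (nat_lit 44786680010) (nat_lit 219) (nat_lit 5) (nat_lit 221) (nat_lit 5) (nat_lit 222) (nat_lit 5) (nat_lit 417) (nat_lit 376) (nat_lit 227)) (XT.lf (nat_lit 0) (nat_lit 49463996100) (nat_lit 228) (nat_lit 13789219490) (nat_lit 76) (nat_lit 12901943326) (nat_lit 219) (nat_lit 5) (nat_lit 222) (nat_lit 5) (nat_lit 220) (nat_lit 5) (nat_lit 418) (nat_lit 376) (nat_lit 226))) (XT.nd (nat_lit 78) (nat_lit 228) (nat_lit 0) (XT.lf (nat_lit 0) (nat_lit 35389706965) (nat_lit 152) (nat_lit 36283231845) (nat_lit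 228) (nat_lit 6854480223) (nat_lit 217) (nat_lit 5) (nat_lit 219) (nat_lit 5) (nat_lit 220) (nat_lit 5) (nat_lit 419) (nat_lit 376) (nat_lit 225)) (XT.lf (nat_lit 0) (nat_lit 6482015979) (nat_lit 152) (nat_lit 7381492019) (nat_lit 228) (nat_lit 67127039068) (nat_lit 214) (nat_lit 5) (nat_lit 216) (nat_lit 5) (nat_lit 217) (nat_lit 5) (nat_lit 420) (nat_lit 376) (nat_lit 224)))) (XT.nd (nat_lit 156) (nat_lit 152) (nat_lit 0) (XT.nd (nat_lit 78) (nat_lit 152) (nat_lit 0) (XT.lf (nat_lit 0) (nat_lit 36486316453) (nat_lit 228) (nat_lit 23945987264) (nat_lit 76) (nat_lit 23083945541) (nat_lit 214) (nat_lit 5) (nat_lit 217) (nat_lit 5) (nat_lit 215) (nat_lit 5) (nat_lit 421) (nat_lit 376) (nat_lit 223)) (XT.lf (nat_lit 0) (nat_lit 29980220516) (nat_lit 152) (nat_lit 30847403075) (nat_lit 228) (nat_lit 25311245058) (nat_lit 212) (nat_lit 5) (nat_lit 214) (nat_lit 5) (nat_lit 215) (nat_lit 5) (nat_lit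 422) (nat_lit 376) (nat_lit 222))) (XT.nd (nat_lit 78) (nat_lit 152) (nat_lit 0) (XT.lf (nat_lit 0) (nat_lit 86799856067) (nat_lit 228) (nat_lit 1451310490) (nat_lit 76) (nat_lit 620759451) (nat_lit 212) (nat_lit 5) (nat_lit 215) (nat_lit 5) (nat_lit 213) (nat_lit 4) (nat_lit 423) (nat_lit 376) (nat_lit 221)) (XT.lf (nat_lit 0) (nat_lit 23036279729) (nat_lit 152) (nat_lit 34725911582) (nat_lit 76) (nat_lit 33890919697) (nat_lit 210) (nat_lit 5) (nat_lit 212) (nat_lit 5) (nat_lit 211) (nat_lit 5) (nat_lit 424) (nat_lit 376) (nat_lit 220))))) (XT.nd (nat_lit 312) (nat_lit 304) (nat_lit 0) (XT.nd (nat_lit 156) (nat_lit 304) (nat_lit 0) (XT.nd (nat_lit 78) (nat_lit 0) (nat_lit 0) (XT.lf (nat_lit 0) (nat_lit 24448127665) (nat_lit 152) (nat_lit 25287348928) (nat_lit 228) (nat_lit 44815927006) (nat_lit 208) (nat_lit 5) (nat_lit 210) (nat_lit 5) (nat_lit 211) (nat_lit 5) (nat_lit 425) (nat_lit 376) (nat_lit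 219)) (XT.lf (nat_lit 0) (nat_lit 78503335179) (nat_lit 228) (nat_lit 9928842530) (nat_lit 76) (nat_lit 9125748014) (nat_lit 208) (nat_lit 5) (nat_lit 211) (nat_lit 5) (nat_lit 209) (nat_lit 4) (nat_lit 426) (nat_lit 376) (nat_lit 218))) (XT.nd (nat_lit 78) (nat_lit 152) (nat_lit 0) (XT.lf (nat_lit 0) (nat_lit 9024895858) (nat_lit 152) (nat_lit 46213043342) (nat_lit 76) (nat_lit 45406295331) (nat_lit 206) (nat_lit 5) (nat_lit 208) (nat_lit 5) (nat_lit 207) (nat_lit 5) (nat_lit 427) (nat_lit 376) (nat_lit 217)) (XT.lf (nat_lit 0) (nat_lit 18760023898) (nat_lit 152) (nat_lit 19570251429) (nat_lit 228) (nat_lit 65515851038) (nat_lit 204) (nat_lit 5) (nat_lit 206) (nat_lit 5) (nat_lit 207) (nat_lit 5) (nat_lit 428) (nat_lit 376) (nat_lit 216)))) (XT.nd (nat_lit 156) (nat_lit 228) (nat_lit 0) (XT.nd (nat_lit 78) (nat_lit 76) (nat_lit 0) (XT.lf (nat_lit 0) (nat_lit 70174049865) (nat_lit 228) (nat_lit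 18877603957) (nat_lit 76) (nat_lit 18102802663) (nat_lit 204) (nat_lit 5) (nat_lit 207) (nat_lit 5) (nat_lit 205) (nat_lit 4) (nat_lit 429) (nat_lit 376) (nat_lit 215)) (XT.lf (nat_lit 0) (nat_lit 51981583065) (nat_lit 76) (nat_lit 52759390099) (nat_lit 152) (nat_lit 5830681947) (nat_lit 203) (nat_lit 5) (nat_lit 204) (nat_lit 5) (nat_lit 205) (nat_lit 4) (nat_lit 430) (nat_lit 376) (nat_lit 214))) (XT.nd (nat_lit 78) (nat_lit 0) (nat_lit 0) (XT.lf (nat_lit 0) (nat_lit 12880121278) (nat_lit 152) (nat_lit 13660790921) (nat_lit 228) (nat_lit 87571590571) (nat_lit 200) (nat_lit 5) (nat_lit 202) (nat_lit 5) (nat_lit 203) (nat_lit 5) (nat_lit 431) (nat_lit 376) (nat_lit 213)) (XT.lf (nat_lit 0) (nat_lit 61769903757) (nat_lit 228) (nat_lit 28365031417) (nat_lit 76) (nat_lit 27618940048) (nat_lit 200) (nat_lit 5) (nat_lit 203) (nat_lit 5) (nat_lit 201) (nat_lit 4) (nat_lit 432) (nat_lit 376) (nat_lit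 212)))))) (XT.nd (nat_lit 624) (nat_lit 684) (nat_lit 0) (XT.nd (nat_lit 312) (nat_lit 304) (nat_lit 0) (XT.nd (nat_lit 156) (nat_lit 76) (nat_lit 0) (XT.nd (nat_lit 78) (nat_lit 228) (nat_lit 0) (XT.lf (nat_lit 0) (nat_lit 49503629142) (nat_lit 76) (nat_lit 50252193341) (nat_lit 152) (nat_lit 21771719934) (nat_lit 199) (nat_lit 5) (nat_lit 200) (nat_lit 5) (nat_lit 201) (nat_lit 4) (nat_lit 433) (nat_lit 376) (nat_lit 211)) (XT.lf (nat_lit 0) (nat_lit 6769946026) (nat_lit 152) (nat_lit 7520865300) (nat_lit 228) (nat_lit 111158405086) (nat_lit 196) (nat_lit 5) (nat_lit 198) (nat_lit 5) (nat_lit 199) (nat_lit 5) (nat_lit 434) (nat_lit 376) (nat_lit 210))) (XT.nd (nat_lit 78) (nat_lit 76) (nat_lit 0) (XT.lf (nat_lit 0) (nat_lit 53246295401) (nat_lit 228) (nat_lit 38464527716) (nat_lit 76) (nat_lit 37747230380) (nat_lit 196) (nat_lit 5) (nat_lit 199) (nat_lit 5) (nat_lit 197) (nat_lit 4) (nat_lit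 435) (nat_lit 376) (nat_lit 209)) (XT.lf (nat_lit 0) (nat_lit 47144141170) (nat_lit 76) (nat_lit 47863472909) (nat_lit 152) (nat_lit 38616815337) (nat_lit 195) (nat_lit 5) (nat_lit 196) (nat_lit 5) (nat_lit 197) (nat_lit 4) (nat_lit 436) (nat_lit 376) (nat_lit 208)))) (XT.nd (nat_lit 156) (nat_lit 76) (nat_lit 0) (XT.nd (nat_lit 78) (nat_lit 0) (nat_lit 0) (XT.lf (nat_lit 0) (nat_lit 388009406) (nat_lit 152) (nat_lit 1109278671) (nat_lit 228) (nat_lit 136467822818) (nat_lit 192) (nat_lit 5) (nat_lit 194) (nat_lit 5) (nat_lit 195) (nat_lit 5) (nat_lit 437) (nat_lit 376) (nat_lit 207)) (XT.lf (nat_lit 0) (nat_lit 44555781492) (nat_lit 228) (nat_lit 49256124591) (nat_lit 76) (nat_lit 48567444087) (nat_lit 192) (nat_lit 5) (nat_lit 195) (nat_lit 5) (nat_lit 193) (nat_lit 4) (nat_lit 438) (nat_lit 376) (nat_lit 206))) (XT.nd (nat_lit 78) (nat_lit 0) (nat_lit 0) (XT.lf (nat_lit 0) (nat_lit 44897394910)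 (nat_lit 76) (nat_lit 45587749122) (nat_lit 152) (nat_lit 56493260151) (nat_lit 191) (nat_lit 5) (nat_lit 192) (nat_lit 5) (nat_lit 193) (nat_lit 4) (nat_lit 439) (nat_lit 376) (nat_lit 205)) (XT.lf (nat_lit 0) (nat_lit 139636424084) (nat_lit 152) (nat_lit 6391856326) (nat_lit 0) (nat_lit 5732858021) (nat_lit 191) (nat_lit 5) (nat_lit 193) (nat_lit 4) (nat_lit 191) (nat_lit 4) (nat_lit 440) (nat_lit 376) (nat_lit 204))))) (XT.nd (nat_lit 312) (nat_lit 304) (nat_lit 0) (XT.nd (nat_lit 156) (nat_lit 152) (nat_lit 0) (XT.nd (nat_lit 78) (nat_lit 76) (nat_lit 0) (XT.lf (nat_lit 0) (nat_lit 35647708295) (nat_lit 152) (nat_lit 60827209868) (nat_lit 76) (nat_lit 60166765751) (nat_lit 189) (nat_lit 5) (nat_lit 191) (nat_lit 5) (nat_lit 190) (nat_lit 4) (nat_lit 441) (nat_lit 376) (nat_lit 203)) (XT.lf (nat_lit 0) (nat_lit 42757953426) (nat_lit 76) (nat_lit 43419774507) (nat_lit 152) (nat_lit 75539768161)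 (nat_lit 188) (nat_lit 5) (nat_lit 189) (nat_lit 5) (nat_lit 190) (nat_lit 4) (nat_lit 442) (nat_lit 376) (nat_lit 202))) (XT.nd (nat_lit 78) (nat_lit 152) (nat_lit 0) (XT.lf (nat_lit 0) (nat_lit 140471981223) (nat_lit 152) (nat_lit 13572392882) (nat_lit 0) (nat_lit 12940838144) (nat_lit 188) (nat_lit 5) (nat_lit 190) (nat_lit 4) (nat_lit 188) (nat_lit 4) (nat_lit 443) (nat_lit 376) (nat_lit 201)) (XT.lf (nat_lit 0) (nat_lit 26467808076) (nat_lit 152) (nat_lit 73273325995) (nat_lit 76) (nat_lit 72640581784) (nat_lit 186) (nat_lit 5) (nat_lit 188) (nat_lit 5) (nat_lit 187) (nat_lit 4) (nat_lit 444) (nat_lit 376) (nat_lit 200)))) (XT.nd (nat_lit 156) (nat_lit 228) (nat_lit 0) (XT.nd (nat_lit 78) (nat_lit 0) (nat_lit 0) (XT.lf (nat_lit 0) (nat_lit 40720650788) (nat_lit 76) (nat_lit 41354527832) (nat_lit 152) (nat_lit 95907718968) (nat_lit 185) (nat_lit 5) (nat_lit 186) (nat_lit 5) (nat_lit 187) (nat_lit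 4) (nat_lit 445) (nat_lit 376) (nat_lit 199)) (XT.lf (nat_lit 0) (nat_lit 142034592075) (nat_lit 152) (nat_lit 21177841274) (nat_lit 0) (nat_lit 20573121340) (nat_lit 185) (nat_lit 5) (nat_lit 187) (nat_lit 4) (nat_lit 185) (nat_lit 4) (nat_lit 446) (nat_lit 376) (nat_lit 198))) (XT.nd (nat_lit 78) (nat_lit 76) (nat_lit 0) (XT.lf (nat_lit 0) (nat_lit 16957756961) (nat_lit 152) (nat_lit 86699047547) (nat_lit 76) (nat_lit 86093349030) (nat_lit 183) (nat_lit 5) (nat_lit 185) (nat_lit 5) (nat_lit 184) (nat_lit 4) (nat_lit 447) (nat_lit 376) (nat_lit 197)) (XT.lf (nat_lit 0) (nat_lit 38780577024) (nat_lit 76) (nat_lit 39387207524) (nat_lit 152) (nat_lit 117762526772) (nat_lit 182) (nat_lit 5) (nat_lit 183) (nat_lit 5) (nat_lit 184) (nat_lit 4) (nat_lit 448) (nat_lit 376) (nat_lit 196))))))) (XT.nd (nat_lit 1248) (nat_lit 1216) (nat_lit 0) (XT.nd (nat_lit 624) (nat_lit 608) (nat_lit 0) (XT.nd (nat_lit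 312) (nat_lit 304) (nat_lit 0) (XT.nd (nat_lit 156) (nat_lit 76) (nat_lit 0) (XT.nd (nat_lit 78) (nat_lit 152) (nat_lit 0) (XT.lf (nat_lit 0) (nat_lit 144368300392) (nat_lit 152) (nat_lit 29266632963) (nat_lit 0) (nat_lit 28688044293) (nat_lit 182) (nat_lit 5) (nat_lit 184) (nat_lit 4) (nat_lit 182) (nat_lit 4) (nat_lit 449) (nat_lit 376) (nat_lit 195)) (XT.lf (nat_lit 0) (nat_lit 7054690287) (nat_lit 152) (nat_lit 101218946092) (nat_lit 76) (nat_lit 100639552340) (nat_lit 180) (nat_lit 5) (nat_lit 182) (nat_lit 5) (nat_lit 181) (nat_lit 4) (nat_lit 450) (nat_lit 376) (nat_lit 194))) (XT.nd (nat_lit 78) (nat_lit 0) (nat_lit 0) (XT.lf (nat_lit 0) (nat_lit 36933064163) (nat_lit 76) (nat_lit 37513224660) (nat_lit 152) (nat_lit 141285146695) (nat_lit 179) (nat_lit 5) (nat_lit 180) (nat_lit 5) (nat_lit 181) (nat_lit 4) (nat_lit 451) (nat_lit 376) (nat_lit 193)) (XT.lf (nat_lit 0) (nat_lit 147523104454)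 (nat_lit 152) (nat_lit 37902468806) (nat_lit 0) (nat_lit 37349239539) (nat_lit 179) (nat_lit 5) (nat_lit 181) (nat_lit 4) (nat_lit 179) (nat_lit 4) (nat_lit 452) (nat_lit 376) (nat_lit 192)))) (XT.nd (nat_lit 156) (nat_lit 76) (nat_lit 0) (XT.nd (nat_lit 78) (nat_lit 152) (nat_lit 0) (XT.lf (nat_lit 0) (nat_lit 113039385950) (nat_lit 76) (nat_lit 113593277560) (nat_lit 76) (nat_lit 3418750303) (nat_lit 178) (nat_lit 4) (nat_lit 179) (nat_lit 5) (nat_lit 179) (nat_lit 4) (nat_lit 453) (nat_lit 376) (nat_lit 191)) (XT.lf (nat_lit 0) (nat_lit 35173673262) (nat_lit 76) (nat_lit 35728195675) (nat_lit 152) (nat_lit 166673732761) (nat_lit 176) (nat_lit 5) (nat_lit 177) (nat_lit 5) (nat_lit 178) (nat_lit 4) (nat_lit 454) (nat_lit 376) (nat_lit 190))) (XT.nd (nat_lit 78) (nat_lit 76) (nat_lit 0) (XT.lf (nat_lit 0) (nat_lit 151555500838) (nat_lit 152) (nat_lit 47154895460) (nat_lit 0) (nat_lit 46626206719)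 (nat_lit 176) (nat_lit 5) (nat_lit 178) (nat_lit 4) (nat_lit 176) (nat_lit 4) (nat_lit 455) (nat_lit 376) (nat_lit 189)) (XT.lf (nat_lit 0) (nat_lit 119078275859) (nat_lit 76) (nat_lit 119607509511) (nat_lit 76) (nat_lit 14677670480) (nat_lit 175) (nat_lit 4) (nat_lit 176) (nat_lit 5) (nat_lit 176) (nat_lit 4) (nat_lit 456) (nat_lit 376) (nat_lit 188))))) (XT.nd (nat_lit 312) (nat_lit 228) (nat_lit 0) (XT.nd (nat_lit 156) (nat_lit 228) (nat_lit 0) (XT.nd (nat_lit 78) (nat_lit 0) (nat_lit 0) (XT.lf (nat_lit 0) (nat_lit 33498182300) (nat_lit 76) (nat_lit 34027934916) (nat_lit 152) (nat_lit 194145463144) (nat_lit 173) (nat_lit 5) (nat_lit 174) (nat_lit 5) (nat_lit 175) (nat_lit 4) (nat_lit 457) (nat_lit 376) (nat_lit 187)) (XT.lf (nat_lit 0) (nat_lit 156529086757) (nat_lit 152) (nat_lit 57099938777) (nat_lit 0) (nat_lit 56594941762) (nat_lit 173) (nat_lit 5) (nat_lit 175) (nat_lit 4) (nat_lit 173)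 (nat_lit 4) (nat_lit 458) (nat_lit 376) (nat_lit 186))) (XT.nd (nat_lit 78) (nat_lit 152) (nat_lit 0) (XT.lf (nat_lit 0) (nat_lit 126000488456) (nat_lit 76) (nat_lit 126505933772) (nat_lit 76) (nat_lit 26571340477) (nat_lit 172) (nat_lit 4) (nat_lit 173) (nat_lit 5) (nat_lit 173) (nat_lit 4) (nat_lit 459) (nat_lit 376) (nat_lit 185)) (XT.lf (nat_lit 0) (nat_lit 31902574870) (nat_lit 76) (nat_lit 32408447138) (nat_lit 152) (nat_lit 223938549854) (nat_lit 170) (nat_lit 5) (nat_lit 171) (nat_lit 5) (nat_lit 172) (nat_lit 4) (nat_lit 460) (nat_lit 376) (nat_lit 184)))) (XT.nd (nat_lit 156) (nat_lit 152) (nat_lit 0) (XT.nd (nat_lit 78) (nat_lit 76) (nat_lit 0) (XT.lf (nat_lit 0) (nat_lit 162515226859) (nat_lit 152) (nat_lit 67820800212) (nat_lit 0) (nat_lit 67338629841) (nat_lit 170) (nat_lit 5) (nat_lit 172) (nat_lit 4) (nat_lit 170) (nat_lit 4) (nat_lit 461) (nat_lit 376) (nat_lit 183)) (XT.lf (nat_lit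 0) (nat_lit 133883948004) (nat_lit 76) (nat_lit 134366487192) (nat_lit 76) (nat_lit 39189521357) (nat_lit 169) (nat_lit 4) (nat_lit 170) (nat_lit 5) (nat_lit 170) (nat_lit 4) (nat_lit 462) (nat_lit 376) (nat_lit 182))) (XT.nd (nat_lit 78) (nat_lit 0) (nat_lit 0) (XT.lf (nat_lit 0) (nat_lit 30383029574) (nat_lit 76) (nat_lit 30865920017) (nat_lit 152) (nat_lit 256314451854) (nat_lit 167) (nat_lit 5) (nat_lit 168) (nat_lit 5) (nat_lit 169) (nat_lit 4) (nat_lit 463) (nat_lit 376) (nat_lit 181)) (XT.lf (nat_lit 0) (nat_lit 169593791054) (nat_lit 152) (nat_lit 79408622819) (nat_lit 0) (nat_lit 78948408560) (nat_lit 167) (nat_lit 5) (nat_lit 169) (nat_lit 4) (nat_lit 167) (nat_lit 4) (nat_lit 464) (nat_lit 376) (nat_lit 180)))))) (XT.nd (nat_lit 624) (nat_lit 532) (nat_lit 0) (XT.nd (nat_lit 312) (nat_lit 380) (nat_lit 0) (XT.nd (nat_lit 156) (nat_lit 76) (nat_lit 0) (XT.nd (nat_lit 78) (nat_lit 152)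 (nat_lit 0) (XT.lf (nat_lit 0) (nat_lit 142815171892) (nat_lit 76) (nat_lit 143275689577) (nat_lit 76) (nat_lit 52630003657) (nat_lit 166) (nat_lit 4) (nat_lit 167) (nat_lit 5) (nat_lit 167) (nat_lit 4) (nat_lit 465) (nat_lit 376) (nat_lit 179)) (XT.lf (nat_lit 0) (nat_lit 28935910076) (nat_lit 76) (nat_lit 29396716740) (nat_lit 152) (nat_lit 291560312531) (nat_lit 164) (nat_lit 5) (nat_lit 165) (nat_lit 5) (nat_lit 166) (nat_lit 4) (nat_lit 466) (nat_lit 376) (nat_lit 178))) (XT.nd (nat_lit 78) (nat_lit 76) (nat_lit 0) (XT.lf (nat_lit 0) (nat_lit 177853970538) (nat_lit 152) (nat_lit 91963334124) (nat_lit 0) (nat_lit 91524208523) (nat_lit 164) (nat_lit 5) (nat_lit 166) (nat_lit 4) (nat_lit 164) (nat_lit 4) (nat_lit 467) (nat_lit 376) (nat_lit 177)) (XT.lf (nat_lit 0) (nat_lit 152890121680) (nat_lit 76) (nat_lit 153329496911) (nat_lit 76) (nat_lit 66999485266) (nat_lit 163) (nat_lit 4) (nat_lit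 164) (nat_lit 5) (nat_lit 164) (nat_lit 4) (nat_lit 468) (nat_lit 376) (nat_lit 176)))) (XT.nd (nat_lit 156) (nat_lit 228) (nat_lit 0) (XT.nd (nat_lit 78) (nat_lit 0) (nat_lit 0) (XT.lf (nat_lit 0) (nat_lit 27557755739) (nat_lit 76) (nat_lit 27997368713) (nat_lit 152) (nat_lit 329991644579) (nat_lit 161) (nat_lit 5) (nat_lit 162) (nat_lit 5) (nat_lit 163) (nat_lit 4) (nat_lit 469) (nat_lit 376) (nat_lit 175)) (XT.lf (nat_lit 0) (nat_lit 187395179955) (nat_lit 152) (nat_lit 105594573846) (nat_lit 0) (nat_lit 105175679183) (nat_lit 161) (nat_lit 5) (nat_lit 163) (nat_lit 4) (nat_lit 161) (nat_lit 4) (nat_lit 470) (nat_lit 376) (nat_lit 174))) (XT.nd (nat_lit 78) (nat_lit 152) (nat_lit 0) (XT.lf (nat_lit 0) (nat_lit 164215142942) (nat_lit 76) (nat_lit 164634242976) (nat_lit 76) (nat_lit 82414536833) (nat_lit 160) (nat_lit 4) (nat_lit 161) (nat_lit 5) (nat_lit 161) (nat_lit 4) (nat_lit 471) (nat_lit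 376) (nat_lit 173)) (XT.lf (nat_lit 0) (nat_lit 26245272807) (nat_lit 76) (nat_lit 26664568432) (nat_lit 152) (nat_lit 371955287762) (nat_lit 158) (nat_lit 5) (nat_lit 159) (nat_lit 5) (nat_lit 160) (nat_lit 4) (nat_lit 472) (nat_lit 376) (nat_lit 172))))) (XT.nd (nat_lit 312) (nat_lit 304) (nat_lit 0) (XT.nd (nat_lit 156) (nat_lit 152) (nat_lit 0) (XT.nd (nat_lit 78) (nat_lit 76) (nat_lit 0) (XT.lf (nat_lit 0) (nat_lit 198328054429) (nat_lit 152) (nat_lit 120422715278) (nat_lit 0) (nat_lit 120023208703) (nat_lit 158) (nat_lit 5) (nat_lit 160) (nat_lit 4) (nat_lit 158) (nat_lit 4) (nat_lit 473) (nat_lit 376) (nat_lit 171)) (XT.lf (nat_lit 0) (nat_lit 176908002917) (nat_lit 76) (nat_lit 177307678452) (nat_lit 76) (nat_lit 99002663766) (nat_lit 157) (nat_lit 4) (nat_lit 158) (nat_lit 5) (nat_lit 158) (nat_lit 4) (nat_lit 474) (nat_lit 376) (nat_lit 170))) (XT.nd (nat_lit 78) (nat_lit 0) (nat_lit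 0) (XT.lf (nat_lit 0) (nat_lit 24995326090) (nat_lit 76) (nat_lit 25395162538) (nat_lit 152) (nat_lit 417832667586) (nat_lit 155) (nat_lit 5) (nat_lit 156) (nat_lit 5) (nat_lit 157) (nat_lit 4) (nat_lit 475) (nat_lit 376) (nat_lit 169)) (XT.lf (nat_lit 0) (nat_lit 210775551110) (nat_lit 152) (nat_lit 136579990014) (nat_lit 0) (nat_lit 136199047442) (nat_lit 155) (nat_lit 5) (nat_lit 157) (nat_lit 4) (nat_lit 155) (nat_lit 4) (nat_lit 476) (nat_lit 376) (nat_lit 168)))) (XT.nd (nat_lit 156) (nat_lit 76) (nat_lit 0) (XT.nd (nat_lit 78) (nat_lit 152) (nat_lit 0) (XT.lf (nat_lit 0) (nat_lit 191099035908) (nat_lit 76) (nat_lit 191480117482) (nat_lit 76) (nat_lit 116903474811) (nat_lit 154) (nat_lit 4) (nat_lit 155) (nat_lit 5) (nat_lit 155) (nat_lit 4) (nat_lit 477) (nat_lit 376) (nat_lit 167)) (XT.lf (nat_lit 0) (nat_lit 23804931109) (nat_lit 76) (nat_lit 24186145068) (nat_lit 152) (nat_lit 468043385831)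 (nat_lit 152) (nat_lit 5) (nat_lit 153) (nat_lit 5) (nat_lit 154) (nat_lit 4) (nat_lit 478) (nat_lit 376) (nat_lit 166))) (XT.nd (nat_lit 78) (nat_lit 76) (nat_lit 0) (XT.lf (nat_lit 0) (nat_lit 224874165843) (nat_lit 152) (nat_lit 154211726704) (nat_lit 0) (nat_lit 153848545714) (nat_lit 152) (nat_lit 5) (nat_lit 154) (nat_lit 4) (nat_lit 152) (nat_lit 4) (nat_lit 479) (nat_lit 376) (nat_lit 165)) (XT.lf (nat_lit 0) (nat_lit 206932407371) (nat_lit 76) (nat_lit 207295702719) (nat_lit 76) (nat_lit 136269968232) (nat_lit 151) (nat_lit 4) (nat_lit 152) (nat_lit 5) (nat_lit 152) (nat_lit 4) (nat_lit 480) (nat_lit 376) (nat_lit 164))))))))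
noncomputable def xc234 : XT := (XT.nd (nat_lit 45552) (nat_lit 0) (nat_lit 8740) (XT.nd (nat_lit 624) (nat_lit 76) (nat_lit 0) (XT.nd (nat_lit 312) (nat_lit 228) (nat_lit 0) (XT.nd (nat_lit 156) (nat_lit 228) (nat_lit 0) (XT.nd (nat_lit 78) (nat_lit 0) (nat_lit 0) (XT.lf (nat_lit 0) (nat_lit 22671246666) (nat_lit 76) (nat_lit 23034650927) (nat_lit 152) (nat_lit 523049177018) (nat_lit 149) (nat_lit 5) (nat_lit 150) (nat_lit 5) (nat_lit 151) (nat_lit 4) (nat_lit 481) (nat_lit 376) (nat_lit 163)) (XT.lf (nat_lit 0) (nat_lit 240775276682) (nat_lit 152) (nat_lit 173477715597) (nat_lit 0) (nat_lit 173131517514) (nat_lit 149) (nat_lit 5) (nat_lit 151) (nat_lit 4) (nat_lit 149) (nat_lit 4) (nat_lit 482) (nat_lit 376) (nat_lit 162))) (XT.nd (nat_lit 78) (nat_lit 152) (nat_lit 0) (XT.lf (nat_lit 0) (nat_lit 224567508801) (nat_lit 76) (nat_lit 224913800967) (nat_lit 76) (nat_lit 157269947715) (nat_lit 148)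 (nat_lit 4) (nat_lit 149) (nat_lit 5) (nat_lit 149) (nat_lit 4) (nat_lit 483) (nat_lit 376) (nat_lit 161)) (XT.lf (nat_lit 0) (nat_lit 21591567815) (nat_lit 76) (nat_lit 21937949584) (nat_lit 152) (nat_lit 583358268429) (nat_lit 146) (nat_lit 5) (nat_lit 147) (nat_lit 5) (nat_lit 148) (nat_lit 4) (nat_lit 484) (nat_lit 376) (nat_lit 160)))) (XT.nd (nat_lit 156) (nat_lit 152) (nat_lit 0) (XT.nd (nat_lit 78) (nat_lit 76) (nat_lit 0) (XT.lf (nat_lit 0) (nat_lit 258646627154) (nat_lit 152) (nat_lit 194553711835) (nat_lit 0) (nat_lit 194223743163) (nat_lit 146) (nat_lit 5) (nat_lit 148) (nat_lit 4) (nat_lit 146) (nat_lit 4) (nat_lit 485) (nat_lit 376) (nat_lit 159)) (XT.lf (nat_lit 0) (nat_lit 244180496727) (nat_lit 76) (nat_lit 244510542801) (nat_lit 76) (nat_lit 180087581407) (nat_lit 145) (nat_lit 4) (nat_lit 146) (nat_lit 5) (nat_lit 146) (nat_lit 4) (nat_lit 486) (nat_lit 376) (nat_lit 158))) (XT.nd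 (nat_lit 78) (nat_lit 0) (nat_lit 0) (XT.lf (nat_lit 0) (nat_lit 20563319206) (nat_lit 76) (nat_lit 20893438996) (nat_lit 152) (nat_lit 649530185110) (nat_lit 143) (nat_lit 5) (nat_lit 144) (nat_lit 5) (nat_lit 145) (nat_lit 4) (nat_lit 487) (nat_lit 376) (nat_lit 157)) (XT.lf (nat_lit 0) (nat_lit 278673963516) (nat_lit 152) (nat_lit 217633091783) (nat_lit 0) (nat_lit 217318625120) (nat_lit 143) (nat_lit 5) (nat_lit 145) (nat_lit 4) (nat_lit 143) (nat_lit 4) (nat_lit 488) (nat_lit 376) (nat_lit 156))))) (XT.nd (nat_lit 44616) (nat_lit 0) (nat_lit 11476) (XT.nd (nat_lit 44460) (nat_lit 0) (nat_lit 11400) (XT.nd (nat_lit 44382) (nat_lit 0) (nat_lit 11400) (XT.lf (nat_lit 0) (nat_lit 265965990551) (nat_lit 76) (nat_lit 266280520893) (nat_lit 76) (nat_lit 204925118818) (nat_lit 142) (nat_lit 4) (nat_lit 143) (nat_lit 5) (nat_lit 143) (nat_lit 4) (nat_lit 489) (nat_lit 376) (nat_lit 155)) (XT.lf (nat_lit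 0) (nat_lit 5073011945) (nat_lit 836) (nat_lit 3650478645) (nat_lit 836) (nat_lit 3650478645) (nat_lit 292) (nat_lit 3) (nat_lit 303) (nat_lit 3) (nat_lit 303) (nat_lit 5) (nat_lit 377) (nat_lit 377) (nat_lit 266))) (XT.nd (nat_lit 78) (nat_lit 0) (nat_lit 76) (XT.lf (nat_lit 76) (nat_lit 5240748631) (nat_lit 0) (nat_lit 5346617967) (nat_lit 836) (nat_lit 14769885731) (nat_lit 293) (nat_lit 5) (nat_lit 292) (nat_lit 3) (nat_lit 303) (nat_lit 5) (nat_lit 378) (nat_lit 377) (nat_lit 265)) (XT.lf (nat_lit 0) (nat_lit 11284554548) (nat_lit 760) (nat_lit 7448821486) (nat_lit 836) (nat_lit 7251966938) (nat_lit 293) (nat_lit 5) (nat_lit 303) (nat_lit 5) (nat_lit 304) (nat_lit 5) (nat_lit 379) (nat_lit 377) (nat_lit 264)))) (XT.nd (nat_lit 156) (nat_lit 0) (nat_lit 76) (XT.nd (nat_lit 78) (nat_lit 0) (nat_lit 76) (XT.lf (nat_lit 76) (nat_lit 5951197928) (nat_lit 0) (nat_lit 6239506389) (nat_lit 836) (nat_lit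 14445428711) (nat_lit 294) (nat_lit 5) (nat_lit 293) (nat_lit 5) (nat_lit 304) (nat_lit 5) (nat_lit 380) (nat_lit 377) (nat_lit 263)) (XT.lf (nat_lit 0) (nat_lit 13371604157) (nat_lit 760) (nat_lit 7146958590) (nat_lit 836) (nat_lit 6789427709) (nat_lit 294) (nat_lit 5) (nat_lit 304) (nat_lit 5) (nat_lit 305) (nat_lit 5) (nat_lit 381) (nat_lit 377) (nat_lit 262))) (XT.nd (nat_lit 78) (nat_lit 0) (nat_lit 76) (XT.lf (nat_lit 76) (nat_lit 7191853334) (nat_lit 0) (nat_lit 7628385544) (nat_lit 836) (nat_lit 13182767384) (nat_lit 295) (nat_lit 5) (nat_lit 294) (nat_lit 5) (nat_lit 305) (nat_lit 5) (nat_lit 382) (nat_lit 377) (nat_lit 261)) (XT.lf (nat_lit 0) (nat_lit 16550905404) (nat_lit 760) (nat_lit 6329394473) (nat_lit 836) (nat_lit 5841992977) (nat_lit 295) (nat_lit 5) (nat_lit 305) (nat_lit 5) (nat_lit 306) (nat_lit 5) (nat_lit 383) (nat_lit 377) (nat_lit 260)))))) (XT.nd (nat_lit 624) (nat_lit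 1368) (nat_lit 0) (XT.nd (nat_lit 312) (nat_lit 1520) (nat_lit 0) (XT.nd (nat_lit 156) (nat_lit 0) (nat_lit 76) (XT.nd (nat_lit 78) (nat_lit 0) (nat_lit 76) (XT.lf (nat_lit 76) (nat_lit 9036617479) (nat_lit 0) (nat_lit 9592263293) (nat_lit 836) (nat_lit 10835624227) (nat_lit 296) (nat_lit 5) (nat_lit 295) (nat_lit 5) (nat_lit 306) (nat_lit 5) (nat_lit 384) (nat_lit 377) (nat_lit 259)) (XT.lf (nat_lit 0) (nat_lit 20982624373) (nat_lit 760) (nat_lit 4921848002) (nat_lit 836) (nat_lit 4330761905) (nat_lit 296) (nat_lit 5) (nat_lit 306) (nat_lit 5) (nat_lit 307) (nat_lit 5) (nat_lit 385) (nat_lit 377) (nat_lit 258))) (XT.nd (nat_lit 78) (nat_lit 0) (nat_lit 76) (XT.lf (nat_lit 76) (nat_lit 11568487755) (nat_lit 0) (nat_lit 12218525860) (nat_lit 836) (nat_lit 7240838486) (nat_lit 297) (nat_lit 5) (nat_lit 296) (nat_lit 5) (nat_lit 307) (nat_lit 5) (nat_lit 386) (nat_lit 377) (nat_lit 257)) (XT.lf (nat_lit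 0) (nat_lit 26845212923) (nat_lit 760) (nat_lit 2840881740) (nat_lit 76) (nat_lit 2168326621) (nat_lit 297) (nat_lit 5) (nat_lit 307) (nat_lit 5) (nat_lit 298) (nat_lit 5) (nat_lit 387) (nat_lit 377) (nat_lit 256)))) (XT.nd (nat_lit 156) (nat_lit 836) (nat_lit 0) (XT.nd (nat_lit 78) (nat_lit 76) (nat_lit 0) (XT.lf (nat_lit 0) (nat_lit 14880486394) (nat_lit 760) (nat_lit 15603966474) (nat_lit 836) (nat_lit 2216459522) (nat_lit 287) (nat_lit 5) (nat_lit 297) (nat_lit 5) (nat_lit 298) (nat_lit 5) (nat_lit 388) (nat_lit 377) (nat_lit 255)) (XT.lf (nat_lit 0) (nat_lit 737495427) (nat_lit 836) (nat_lit 16821763) (nat_lit 76) (nat_lit 32832627843) (nat_lit 286) (nat_lit 5) (nat_lit 297) (nat_lit 5) (nat_lit 287) (nat_lit 5) (nat_lit 389) (nat_lit 377) (nat_lit 254))) (XT.nd (nat_lit 78) (nat_lit 380) (nat_lit 0) (XT.lf (nat_lit 0) (nat_lit 4298234040) (nat_lit 532) (nat_lit 15484879903) (nat_lit 76) (nat_lit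 14705669919) (nat_lit 280) (nat_lit 5) (nat_lit 287) (nat_lit 5) (nat_lit 281) (nat_lit 5) (nat_lit 390) (nat_lit 377) (nat_lit 253)) (XT.lf (nat_lit 0) (nat_lit 3640668506) (nat_lit 380) (nat_lit 4461774581) (nat_lit 456) (nat_lit 27329999871) (nat_lit 275) (nat_lit 5) (nat_lit 280) (nat_lit 5) (nat_lit 281) (nat_lit 5) (nat_lit 391) (nat_lit 377) (nat_lit 252))))) (XT.nd (nat_lit 312) (nat_lit 684) (nat_lit 0) (XT.nd (nat_lit 156) (nat_lit 304) (nat_lit 0) (XT.nd (nat_lit 78) (nat_lit 380) (nat_lit 0) (XT.lf (nat_lit 0) (nat_lit 12540982250) (nat_lit 456) (nat_lit 12340051776) (nat_lit 76) (nat_lit 11520045000) (nat_lit 275) (nat_lit 5) (nat_lit 281) (nat_lit 5) (nat_lit 276) (nat_lit 5) (nat_lit 392) (nat_lit 377) (nat_lit 251)) (XT.lf (nat_lit 0) (nat_lit 8271898365) (nat_lit 380) (nat_lit 9128096560) (nat_lit 456) (nat_lit 20008224643) (nat_lit 270) (nat_lit 5) (nat_lit 275) (nat_lit 5) (nat_lit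 276) (nat_lit 5) (nat_lit 393) (nat_lit 377) (nat_lit 250))) (XT.nd (nat_lit 78) (nat_lit 304) (nat_lit 0) (XT.lf (nat_lit 0) (nat_lit 22826466943) (nat_lit 456) (nat_lit 8235639148) (nat_lit 76) (nat_lit 7387385612) (nat_lit 270) (nat_lit 5) (nat_lit 276) (nat_lit 5) (nat_lit 271) (nat_lit 5) (nat_lit 394) (nat_lit 377) (nat_lit 249)) (XT.lf (nat_lit 0) (nat_lit 14004790844) (nat_lit 304) (nat_lit 14884307889) (nat_lit 380) (nat_lit 10635486903) (nat_lit 266) (nat_lit 5) (nat_lit 270) (nat_lit 5) (nat_lit 271) (nat_lit 5) (nat_lit 395) (nat_lit 377) (nat_lit 248)))) (XT.nd (nat_lit 156) (nat_lit 304) (nat_lit 0) (XT.nd (nat_lit 78) (nat_lit 380) (nat_lit 0) (XT.lf (nat_lit 0) (nat_lit 35426086055) (nat_lit 380) (nat_lit 3042389609) (nat_lit 76) (nat_lit 2176397405) (nat_lit 266) (nat_lit 5) (nat_lit 271) (nat_lit 5) (nat_lit 267) (nat_lit 5) (nat_lit 396) (nat_lit 377) (nat_lit 247)) (XT.lf (nat_lit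 0) (nat_lit 1031465243) (nat_lit 380) (nat_lit 20826728246) (nat_lit 76) (nat_lit 19933729448) (nat_lit 261) (nat_lit 5) (nat_lit 266) (nat_lit 5) (nat_lit 262) (nat_lit 5) (nat_lit 397) (nat_lit 377) (nat_lit 246))) (XT.nd (nat_lit 78) (nat_lit 0) (nat_lit 0) (XT.lf (nat_lit 0) (nat_lit 3300432727) (nat_lit 304) (nat_lit 4219152091) (nat_lit 380) (nat_lit 35467425779) (nat_lit 257) (nat_lit 5) (nat_lit 261) (nat_lit 5) (nat_lit 262) (nat_lit 5) (nat_lit 398) (nat_lit 377) (nat_lit 245)) (XT.lf (nat_lit 0) (nat_lit 14910817587) (nat_lit 380) (nat_lit 15100199913) (nat_lit 76) (nat_lit 14201899779) (nat_lit 257) (nat_lit 5) (nat_lit 262) (nat_lit 5) (nat_lit 258) (nat_lit 5) (nat_lit 399) (nat_lit 377) (nat_lit 244)))))))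
noncomputable def xc235 : XT := (XT.nd (nat_lit 1248) (nat_lit 1824) (nat_lit 0) (XT.nd (nat_lit 624) (nat_lit 1140) (nat_lit 0) (XT.nd (nat_lit 312) (nat_lit 456) (nat_lit 0) (XT.nd (nat_lit 156) (nat_lit 608) (nat_lit 0) (XT.nd (nat_lit 78) (nat_lit 0) (nat_lit 0) (XT.lf (nat_lit 0) (nat_lit 10994491899) (nat_lit 304) (nat_lit 11915010424) (nat_lit 380) (nat_lit 22578722456) (nat_lit 253) (nat_lit 5) (nat_lit 257) (nat_lit 5) (nat_lit 258) (nat_lit 5) (nat_lit 400) (nat_lit 377) (nat_lit 243)) (XT.lf (nat_lit 0) (nat_lit 31675810411) (nat_lit 380) (nat_lit 8014969916) (nat_lit 76) (nat_lit 7118132870) (nat_lit 253) (nat_lit 5) (nat_lit 258) (nat_lit 5) (nat_lit 254) (nat_lit 5) (nat_lit 401) (nat_lit 377) (nat_lit 242))) (XT.nd (nat_lit 78) (nat_lit 380) (nat_lit 0) (XT.lf (nat_lit 0) (nat_lit 20236477346) (nat_lit 228) (nat_lit 21152507475) (nat_lit 304) (nat_lit 6781223670) (nat_lit 250) (nat_lit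 5) (nat_lit 253) (nat_lit 5) (nat_lit 254) (nat_lit 5) (nat_lit 402) (nat_lit 377) (nat_lit 241)) (XT.lf (nat_lit 0) (nat_lit 567213806) (nat_lit 304) (nat_lit 1501523060) (nat_lit 380) (nat_lit 47522073384) (nat_lit 245) (nat_lit 5) (nat_lit 249) (nat_lit 5) (nat_lit 250) (nat_lit 5) (nat_lit 403) (nat_lit 377) (nat_lit 240)))) (XT.nd (nat_lit 156) (nat_lit 228) (nat_lit 0) (XT.nd (nat_lit 78) (nat_lit 228) (nat_lit 0) (XT.lf (nat_lit 0) (nat_lit 11910195251) (nat_lit 380) (nat_lit 20017120919) (nat_lit 76) (nat_lit 19110722875) (nat_lit 245) (nat_lit 5) (nat_lit 250) (nat_lit 5) (nat_lit 246) (nat_lit 5) (nat_lit 404) (nat_lit 377) (nat_lit 239)) (XT.lf (nat_lit 0) (nat_lit 10755784781) (nat_lit 228) (nat_lit 11677973021) (nat_lit 304) (nat_lit 30114369917) (nat_lit 242) (nat_lit 5) (nat_lit 245) (nat_lit 5) (nat_lit 246) (nat_lit 5) (nat_lit 405) (nat_lit 377) (nat_lit 238))) (XT.nd (nat_lit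 78) (nat_lit 228) (nat_lit 0) (XT.lf (nat_lit 0) (nat_lit 33975223546) (nat_lit 304) (nat_lit 10513253857) (nat_lit 76) (nat_lit 9620657169) (nat_lit 242) (nat_lit 5) (nat_lit 246) (nat_lit 5) (nat_lit 243) (nat_lit 5) (nat_lit 406) (nat_lit 377) (nat_lit 237)) (XT.lf (nat_lit 0) (nat_lit 22866818900) (nat_lit 228) (nat_lit 23773055753) (nat_lit 304) (nat_lit 9081011512) (nat_lit 239) (nat_lit 5) (nat_lit 242) (nat_lit 5) (nat_lit 243) (nat_lit 5) (nat_lit 407) (nat_lit 377) (nat_lit 236))))) (XT.nd (nat_lit 312) (nat_lit 608) (nat_lit 0) (XT.nd (nat_lit 156) (nat_lit 228) (nat_lit 0) (XT.nd (nat_lit 78) (nat_lit 0) (nat_lit 0) (XT.lf (nat_lit 0) (nat_lit 858273584) (nat_lit 228) (nat_lit 1777501070) (nat_lit 304) (nat_lit 54765877806) (nat_lit 235) (nat_lit 5) (nat_lit 238) (nat_lit 5) (nat_lit 239) (nat_lit 5) (nat_lit 408) (nat_lit 377) (nat_lit 235)) (XT.lf (nat_lit 0) (nat_lit 15529287702)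 (nat_lit 304) (nat_lit 22236080049) (nat_lit 76) (nat_lit 21348842412) (nat_lit 235) (nat_lit 5) (nat_lit 239) (nat_lit 5) (nat_lit 236) (nat_lit 5) (nat_lit 409) (nat_lit 377) (nat_lit 234))) (XT.nd (nat_lit 78) (nat_lit 0) (nat_lit 0) (XT.lf (nat_lit 0) (nat_lit 14208911575) (nat_lit 228) (nat_lit 15107371009) (nat_lit 304) (nat_lit 31583672858) (nat_lit 232) (nat_lit 5) (nat_lit 235) (nat_lit 5) (nat_lit 236) (nat_lit 5) (nat_lit 410) (nat_lit 377) (nat_lit 233)) (XT.lf (nat_lit 0) (nat_lit 44308814531) (nat_lit 304) (nat_lit 9653109120) (nat_lit 76) (nat_lit 8787254968) (nat_lit 232) (nat_lit 5) (nat_lit 236) (nat_lit 5) (nat_lit 233) (nat_lit 5) (nat_lit 411) (nat_lit 377) (nat_lit 232)))) (XT.nd (nat_lit 156) (nat_lit 152) (nat_lit 0) (XT.nd (nat_lit 78) (nat_lit 304) (nat_lit 0) (XT.lf (nat_lit 0) (nat_lit 29944281951) (nat_lit 152) (nat_lit 30819829915) (nat_lit 228) (nat_lit 3891094149)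 (nat_lit 230) (nat_lit 5) (nat_lit 232) (nat_lit 5) (nat_lit 233) (nat_lit 5) (nat_lit 412) (nat_lit 377) (nat_lit 231)) (XT.lf (nat_lit 0) (nat_lit 5190814561) (nat_lit 228) (nat_lit 6075594725) (nat_lit 304) (nat_lit 55368978330) (nat_lit 226) (nat_lit 5) (nat_lit 229) (nat_lit 5) (nat_lit 230) (nat_lit 5) (nat_lit 413) (nat_lit 377) (nat_lit 230))) (XT.nd (nat_lit 78) (nat_lit 152) (nat_lit 0) (XT.lf (nat_lit 0) (nat_lit 27957298045) (nat_lit 304) (nat_lit 20779899332) (nat_lit 76) (nat_lit 19928877678) (nat_lit 226) (nat_lit 5) (nat_lit 230) (nat_lit 5) (nat_lit 227) (nat_lit 5) (nat_lit 414) (nat_lit 377) (nat_lit 229)) (XT.lf (nat_lit 0) (nat_lit 22536648342) (nat_lit 152) (nat_lit 23395645118) (nat_lit 228) (nat_lit 24843525293) (nat_lit 224) (nat_lit 5) (nat_lit 226) (nat_lit 5) (nat_lit 227) (nat_lit 5) (nat_lit 415) (nat_lit 377) (nat_lit 228)))))) (XT.nd (nat_lit 624) (nat_lit 912) (nat_lit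 0) (XT.nd (nat_lit 312) (nat_lit 532) (nat_lit 0) (XT.nd (nat_lit 156) (nat_lit 152) (nat_lit 0) (XT.nd (nat_lit 78) (nat_lit 228) (nat_lit 0) (XT.lf (nat_lit 0) (nat_lit 65212016120) (nat_lit 228) (nat_lit 4292030241) (nat_lit 76) (nat_lit 3466704403) (nat_lit 224) (nat_lit 5) (nat_lit 227) (nat_lit 5) (nat_lit 225) (nat_lit 5) (nat_lit 416) (nat_lit 377) (nat_lit 227)) (XT.lf (nat_lit 0) (nat_lit 10922242244) (nat_lit 228) (nat_lit 32562033022) (nat_lit 76) (nat_lit 31729817974) (nat_lit 221) (nat_lit 5) (nat_lit 224) (nat_lit 5) (nat_lit 222) (nat_lit 5) (nat_lit 417) (nat_lit 377) (nat_lit 226))) (XT.nd (nat_lit 78) (nat_lit 0) (nat_lit 0) (XT.lf (nat_lit 0) (nat_lit 14871016031) (nat_lit 152) (nat_lit 15709792231) (nat_lit 228) (nat_lit 46967220728) (nat_lit 219) (nat_lit 5) (nat_lit 221) (nat_lit 5) (nat_lit 222) (nat_lit 5) (nat_lit 418) (nat_lit 377) (nat_lit 225)) (XT.lf (nat_lit 0) (nat_lit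 51991089804) (nat_lit 228) (nat_lit 14386958999) (nat_lit 76) (nat_lit 13582173363) (nat_lit 219) (nat_lit 5) (nat_lit 222) (nat_lit 5) (nat_lit 220) (nat_lit 5) (nat_lit 419) (nat_lit 377) (nat_lit 224)))) (XT.nd (nat_lit 156) (nat_lit 152) (nat_lit 0) (XT.nd (nat_lit 78) (nat_lit 228) (nat_lit 0) (XT.lf (nat_lit 0) (nat_lit 37249434399) (nat_lit 152) (nat_lit 38059887806) (nat_lit 228) (nat_lit 7141830957) (nat_lit 217) (nat_lit 5) (nat_lit 219) (nat_lit 5) (nat_lit 220) (nat_lit 5) (nat_lit 420) (nat_lit 377) (nat_lit 223)) (XT.lf (nat_lit 0) (nat_lit 6896647053) (nat_lit 152) (nat_lit 7712498336) (nat_lit 228) (nat_lit 70428305931) (nat_lit 214) (nat_lit 5) (nat_lit 216) (nat_lit 5) (nat_lit 217) (nat_lit 5) (nat_lit 421) (nat_lit 377) (nat_lit 222))) (XT.nd (nat_lit 78) (nat_lit 152) (nat_lit 0) (XT.lf (nat_lit 0) (nat_lit 38361162127) (nat_lit 228) (nat_lit 25055135179) (nat_lit 76) (nat_lit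 24273237924) (nat_lit 214) (nat_lit 5) (nat_lit 217) (nat_lit 5) (nat_lit 215) (nat_lit 5) (nat_lit 422) (nat_lit 377) (nat_lit 221)) (XT.lf (nat_lit 0) (nat_lit 31565961193) (nat_lit 152) (nat_lit 32352521337) (nat_lit 228) (nat_lit 26524855662) (nat_lit 212) (nat_lit 5) (nat_lit 214) (nat_lit 5) (nat_lit 215) (nat_lit 5) (nat_lit 423) (nat_lit 377) (nat_lit 220))))) (XT.nd (nat_lit 312) (nat_lit 608) (nat_lit 0) (XT.nd (nat_lit 156) (nat_lit 152) (nat_lit 0) (XT.nd (nat_lit 78) (nat_lit 152) (nat_lit 0) (XT.lf (nat_lit 0) (nat_lit 91187524457) (nat_lit 228) (nat_lit 1439474174) (nat_lit 76) (nat_lit 686139898) (nat_lit 212) (nat_lit 5) (nat_lit 215) (nat_lit 5) (nat_lit 213) (nat_lit 4) (nat_lit 424) (nat_lit 377) (nat_lit 219)) (XT.lf (nat_lit 0) (nat_lit 24235561136) (nat_lit 152) (nat_lit 36377597154) (nat_lit 76) (nat_lit 35620234899) (nat_lit 210) (nat_lit 5) (nat_lit 212) (nat_lit 5) (nat_lit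 211) (nat_lit 5) (nat_lit 425) (nat_lit 377) (nat_lit 218))) (XT.nd (nat_lit 78) (nat_lit 0) (nat_lit 0) (XT.lf (nat_lit 0) (nat_lit 25753779379) (nat_lit 152) (nat_lit 26514977803) (nat_lit 228) (nat_lit 47007891259) (nat_lit 208) (nat_lit 5) (nat_lit 210) (nat_lit 5) (nat_lit 211) (nat_lit 5) (nat_lit 426) (nat_lit 377) (nat_lit 217)) (XT.lf (nat_lit 0) (nat_lit 82473340368) (nat_lit 228) (nat_lit 10344335060) (nat_lit 76) (nat_lit 9615904660) (nat_lit 208) (nat_lit 5) (nat_lit 211) (nat_lit 5) (nat_lit 209) (nat_lit 4) (nat_lit 427) (nat_lit 377) (nat_lit 216)))) (XT.nd (nat_lit 156) (nat_lit 304) (nat_lit 0) (XT.nd (nat_lit 78) (nat_lit 152) (nat_lit 0) (XT.lf (nat_lit 0) (nat_lit 9520807821) (nat_lit 152) (nat_lit 48442574653) (nat_lit 76) (nat_lit 47710830425) (nat_lit 206) (nat_lit 5) (nat_lit 208) (nat_lit 5) (nat_lit 207) (nat_lit 5) (nat_lit 428) (nat_lit 377) (nat_lit 215)) (XT.lf (nat_lit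 0) (nat_lit 19777837549) (nat_lit 152) (nat_lit 20512737803) (nat_lit 228) (nat_lit 68745668018) (nat_lit 204) (nat_lit 5) (nat_lit 206) (nat_lit 5) (nat_lit 207) (nat_lit 5) (nat_lit 429) (nat_lit 377) (nat_lit 214))) (XT.nd (nat_lit 78) (nat_lit 304) (nat_lit 0) (XT.lf (nat_lit 0) (nat_lit 73724989242) (nat_lit 228) (nat_lit 19743922919) (nat_lit 76) (nat_lit 19041155305) (nat_lit 204) (nat_lit 5) (nat_lit 207) (nat_lit 5) (nat_lit 205) (nat_lit 4) (nat_lit 430) (nat_lit 377) (nat_lit 213)) (XT.nd (nat_lit 78) (nat_lit 228) (nat_lit 0) (XT.lf (nat_lit 0) (nat_lit 54656972467) (nat_lit 76) (nat_lit 55362466375) (nat_lit 152) (nat_lit 6078728173) (nat_lit 203) (nat_lit 5) (nat_lit 204) (nat_lit 5) (nat_lit 205) (nat_lit 4) (nat_lit 431) (nat_lit 377) (nat_lit 212)) (XT.lf (nat_lit 0) (nat_lit 13600576214) (nat_lit 152) (nat_lit 14308666593) (nat_lit 228) (nat_lit 91906820852) (nat_lit 200) (nat_lit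 5) (nat_lit 202) (nat_lit 5) (nat_lit 203) (nat_lit 5) (nat_lit 432) (nat_lit 377) (nat_lit 211))))))))
noncomputable def xc236 : XT := (XT.nd (nat_lit 2496) (nat_lit 1824) (nat_lit 0) (XT.nd (nat_lit 1248) (nat_lit 1216) (nat_lit 0) (XT.nd (nat_lit 624) (nat_lit 608) (nat_lit 0) (XT.nd (nat_lit 312) (nat_lit 380) (nat_lit 0) (XT.nd (nat_lit 156) (nat_lit 228) (nat_lit 0) (XT.nd (nat_lit 78) (nat_lit 76) (nat_lit 0) (XT.lf (nat_lit 0) (nat_lit 64898240854) (nat_lit 228) (nat_lit 29709031449) (nat_lit 76) (nat_lit 29032304584) (nat_lit 200) (nat_lit 5) (nat_lit 203) (nat_lit 5) (nat_lit 201) (nat_lit 4) (nat_lit 433) (nat_lit 377) (nat_lit 210)) (XT.lf (nat_lit 0) (nat_lit 52051864533) (nat_lit 76) (nat_lit 52730834327) (nat_lit 152) (nat_lit 22819266415) (nat_lit 199) (nat_lit 5) (nat_lit 200) (nat_lit 5) (nat_lit 201) (nat_lit 4) (nat_lit 434) (nat_lit 377) (nat_lit 209))) (XT.nd (nat_lit 78)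 (nat_lit 0) (nat_lit 0) (XT.lf (nat_lit 0) (nat_lit 7181611307) (nat_lit 152) (nat_lit 7862717224) (nat_lit 228) (nat_lit 116675399872) (nat_lit 196) (nat_lit 5) (nat_lit 198) (nat_lit 5) (nat_lit 199) (nat_lit 5) (nat_lit 435) (nat_lit 377) (nat_lit 208)) (XT.lf (nat_lit 0) (nat_lit 55946239181) (nat_lit 228) (nat_lit 40316722685) (nat_lit 76) (nat_lit 39666112856) (nat_lit 196) (nat_lit 5) (nat_lit 199) (nat_lit 5) (nat_lit 197) (nat_lit 4) (nat_lit 436) (nat_lit 377) (nat_lit 207)))) (XT.nd (nat_lit 156) (nat_lit 76) (nat_lit 0) (XT.nd (nat_lit 78) (nat_lit 228) (nat_lit 0) (XT.lf (nat_lit 0) (nat_lit 49571233977) (nat_lit 76) (nat_lit 50223689069) (nat_lit 152) (nat_lit 40508881426) (nat_lit 195) (nat_lit 5) (nat_lit 196) (nat_lit 5) (nat_lit 197) (nat_lit 4) (nat_lit 437) (nat_lit 377) (nat_lit 206)) (XT.lf (nat_lit 0) (nat_lit 477389451) (nat_lit 152) (nat_lit 1131601937) (nat_lit 228) (nat_lit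 143252533107) (nat_lit 192) (nat_lit 5) (nat_lit 194) (nat_lit 5) (nat_lit 195) (nat_lit 5) (nat_lit 438) (nat_lit 377) (nat_lit 205))) (XT.nd (nat_lit 78) (nat_lit 76) (nat_lit 0) (XT.lf (nat_lit 0) (nat_lit 46819148019) (nat_lit 228) (nat_lit 51651022152) (nat_lit 76) (nat_lit 51026368634) (nat_lit 192) (nat_lit 5) (nat_lit 195) (nat_lit 5) (nat_lit 193) (nat_lit 4) (nat_lit 439) (nat_lit 377) (nat_lit 204)) (XT.lf (nat_lit 0) (nat_lit 47209078023) (nat_lit 76) (nat_lit 47835249644) (nat_lit 152) (nat_lit 59281250405) (nat_lit 191) (nat_lit 5) (nat_lit 192) (nat_lit 5) (nat_lit 193) (nat_lit 4) (nat_lit 440) (nat_lit 377) (nat_lit 203))))) (XT.nd (nat_lit 312) (nat_lit 380) (nat_lit 0) (XT.nd (nat_lit 156) (nat_lit 76) (nat_lit 0) (XT.nd (nat_lit 78) (nat_lit 152) (nat_lit 0) (XT.lf (nat_lit 0) (nat_lit 146651982694) (nat_lit 152) (nat_lit 6646628338) (nat_lit 0) (nat_lit 6048897449) (nat_lit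 191) (nat_lit 5) (nat_lit 193) (nat_lit 4) (nat_lit 191) (nat_lit 4) (nat_lit 441) (nat_lit 377) (nat_lit 202)) (XT.lf (nat_lit 0) (nat_lit 37463763343) (nat_lit 152) (nat_lit 63803681785) (nat_lit 76) (nat_lit 63204639502) (nat_lit 189) (nat_lit 5) (nat_lit 191) (nat_lit 5) (nat_lit 190) (nat_lit 4) (nat_lit 442) (nat_lit 377) (nat_lit 201))) (XT.nd (nat_lit 78) (nat_lit 0) (nat_lit 0) (XT.lf (nat_lit 0) (nat_lit 44959693085) (nat_lit 76) (nat_lit 45559984315) (nat_lit 152) (nat_lit 79282040346) (nat_lit 188) (nat_lit 5) (nat_lit 189) (nat_lit 5) (nat_lit 190) (nat_lit 4) (nat_lit 443) (nat_lit 377) (nat_lit 200)) (XT.lf (nat_lit 0) (nat_lit 147527526584) (nat_lit 152) (nat_lit 14189093864) (nat_lit 0) (nat_lit 13616255099) (nat_lit 188) (nat_lit 5) (nat_lit 190) (nat_lit 4) (nat_lit 188) (nat_lit 4) (nat_lit 444) (nat_lit 377) (nat_lit 199)))) (XT.nd (nat_lit 156) (nat_lit 152) (nat_lit 0) (XT.nd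 (nat_lit 78) (nat_lit 76) (nat_lit 0) (XT.lf (nat_lit 0) (nat_lit 27823089022) (nat_lit 152) (nat_lit 76875017875) (nat_lit 76) (nat_lit 76301100223) (nat_lit 186) (nat_lit 5) (nat_lit 188) (nat_lit 5) (nat_lit 187) (nat_lit 4) (nat_lit 445) (nat_lit 377) (nat_lit 198)) (XT.lf (nat_lit 0) (nat_lit 42817658160) (nat_lit 76) (nat_lit 43392603324) (nat_lit 152) (nat_lit 100670214787) (nat_lit 185) (nat_lit 5) (nat_lit 186) (nat_lit 5) (nat_lit 187) (nat_lit 4) (nat_lit 446) (nat_lit 377) (nat_lit 197))) (XT.nd (nat_lit 78) (nat_lit 152) (nat_lit 0) (XT.lf (nat_lit 0) (nat_lit 149166594885) (nat_lit 152) (nat_lit 22177611342) (nat_lit 0) (nat_lit 21629112536) (nat_lit 185) (nat_lit 5) (nat_lit 187) (nat_lit 4) (nat_lit 185) (nat_lit 4) (nat_lit 447) (nat_lit 377) (nat_lit 196)) (XT.lf (nat_lit 0) (nat_lit 17835872143) (nat_lit 152) (nat_lit 90974832057) (nat_lit 76) (nat_lit 90425445647) (nat_lit 183)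 (nat_lit 5) (nat_lit 185) (nat_lit 5) (nat_lit 184) (nat_lit 4) (nat_lit 448) (nat_lit 377) (nat_lit 195)))))) (XT.nd (nat_lit 624) (nat_lit 684) (nat_lit 0) (XT.nd (nat_lit 312) (nat_lit 228) (nat_lit 0) (XT.nd (nat_lit 156) (nat_lit 228) (nat_lit 0) (XT.nd (nat_lit 78) (nat_lit 0) (nat_lit 0) (XT.lf (nat_lit 0) (nat_lit 40777819422) (nat_lit 76) (nat_lit 41328051168) (nat_lit 152) (nat_lit 123619471456) (nat_lit 182) (nat_lit 5) (nat_lit 183) (nat_lit 5) (nat_lit 184) (nat_lit 4) (nat_lit 449) (nat_lit 377) (nat_lit 194)) (XT.lf (nat_lit 0) (nat_lit 151615422117) (nat_lit 152) (nat_lit 30673533029) (nat_lit 0) (nat_lit 30148736050) (nat_lit 182) (nat_lit 5) (nat_lit 184) (nat_lit 4) (nat_lit 182) (nat_lit 4) (nat_lit 450) (nat_lit 377) (nat_lit 193))) (XT.nd (nat_lit 78) (nat_lit 76) (nat_lit 0) (XT.lf (nat_lit 0) (nat_lit 7436093768) (nat_lit 152) (nat_lit 106223424075) (nat_lit 76) (nat_lit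 105697896863) (nat_lit 180) (nat_lit 5) (nat_lit 182) (nat_lit 5) (nat_lit 181) (nat_lit 4) (nat_lit 451) (nat_lit 377) (nat_lit 192)) (XT.lf (nat_lit 0) (nat_lit 38835275897) (nat_lit 76) (nat_lit 39361498570) (nat_lit 152) (nat_lit 148319824267) (nat_lit 179) (nat_lit 5) (nat_lit 180) (nat_lit 5) (nat_lit 181) (nat_lit 4) (nat_lit 452) (nat_lit 377) (nat_lit 191)))) (XT.nd (nat_lit 156) (nat_lit 152) (nat_lit 0) (XT.nd (nat_lit 78) (nat_lit 76) (nat_lit 0) (XT.lf (nat_lit 0) (nat_lit 154926496624) (nat_lit 152) (nat_lit 39743745111) (nat_lit 0) (nat_lit 39241949857) (nat_lit 179) (nat_lit 5) (nat_lit 181) (nat_lit 4) (nat_lit 179) (nat_lit 4) (nat_lit 453) (nat_lit 377) (nat_lit 190)) (XT.lf (nat_lit 0) (nat_lit 118744333881) (nat_lit 76) (nat_lit 119246729899) (nat_lit 76) (nat_lit 3561582368) (nat_lit 178) (nat_lit 4) (nat_lit 179) (nat_lit 5) (nat_lit 179) (nat_lit 4) (nat_lit 454) (nat_lit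 377) (nat_lit 189))) (XT.nd (nat_lit 78) (nat_lit 0) (nat_lit 0) (XT.lf (nat_lit 0) (nat_lit 36985366106) (nat_lit 76) (nat_lit 37488334281) (nat_lit 152) (nat_lit 174979344496) (nat_lit 176) (nat_lit 5) (nat_lit 177) (nat_lit 5) (nat_lit 178) (nat_lit 4) (nat_lit 455) (nat_lit 377) (nat_lit 188)) (XT.lf (nat_lit 0) (nat_lit 159159131280) (nat_lit 152) (nat_lit 49461272696) (nat_lit 0) (nat_lit 48981736423) (nat_lit 176) (nat_lit 5) (nat_lit 178) (nat_lit 4) (nat_lit 176) (nat_lit 4) (nat_lit 456) (nat_lit 377) (nat_lit 187))))) (XT.nd (nat_lit 312) (nat_lit 380) (nat_lit 0) (XT.nd (nat_lit 156) (nat_lit 76) (nat_lit 0) (XT.nd (nat_lit 78) (nat_lit 152) (nat_lit 0) (XT.lf (nat_lit 0) (nat_lit 125082728680) (nat_lit 76) (nat_lit 125562759204) (nat_lit 76) (nat_lit 15384870096) (nat_lit 175) (nat_lit 4) (nat_lit 176) (nat_lit 5) (nat_lit 176) (nat_lit 4) (nat_lit 457) (nat_lit 377) (nat_lit 186))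 (XT.lf (nat_lit 0) (nat_lit 35223655575) (nat_lit 76) (nat_lit 35704156813) (nat_lit 152) (nat_lit 203826077524) (nat_lit 173) (nat_lit 5) (nat_lit 174) (nat_lit 5) (nat_lit 175) (nat_lit 4) (nat_lit 458) (nat_lit 377) (nat_lit 185))) (XT.nd (nat_lit 78) (nat_lit 76) (nat_lit 0) (XT.lf (nat_lit 0) (nat_lit 164380095724) (nat_lit 152) (nat_lit 59905944692) (nat_lit 0) (nat_lit 59447897513) (nat_lit 173) (nat_lit 5) (nat_lit 175) (nat_lit 4) (nat_lit 173) (nat_lit 4) (nat_lit 459) (nat_lit 377) (nat_lit 184)) (XT.lf (nat_lit 0) (nat_lit 132348713726) (nat_lit 76) (nat_lit 132807167526) (nat_lit 76) (nat_lit 27874562693) (nat_lit 172) (nat_lit 4) (nat_lit 173) (nat_lit 5) (nat_lit 173) (nat_lit 4) (nat_lit 460) (nat_lit 377) (nat_lit 183)))) (XT.nd (nat_lit 156) (nat_lit 228) (nat_lit 0) (XT.nd (nat_lit 78) (nat_lit 0) (nat_lit 0) (XT.lf (nat_lit 0) (nat_lit 33545925135) (nat_lit 76) (nat_lit 34004766194)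 (nat_lit 152) (nat_lit 235110153214) (nat_lit 170) (nat_lit 5) (nat_lit 171) (nat_lit 5) (nat_lit 172) (nat_lit 4) (nat_lit 461) (nat_lit 377) (nat_lit 182)) (XT.lf (nat_lit 0) (nat_lit 170664316336) (nat_lit 152) (nat_lit 71165124877) (nat_lit 0) (nat_lit 70727782137) (nat_lit 170) (nat_lit 5) (nat_lit 172) (nat_lit 4) (nat_lit 170) (nat_lit 4) (nat_lit 462) (nat_lit 377) (nat_lit 181))) (XT.nd (nat_lit 78) (nat_lit 152) (nat_lit 0) (XT.lf (nat_lit 0) (nat_lit 140624107276) (nat_lit 76) (nat_lit 141061784544) (nat_lit 76) (nat_lit 41124915817) (nat_lit 169) (nat_lit 4) (nat_lit 170) (nat_lit 5) (nat_lit 170) (nat_lit 4) (nat_lit 463) (nat_lit 377) (nat_lit 180)) (XT.lf (nat_lit 0) (nat_lit 31948159935) (nat_lit 76) (nat_lit 32386155801) (nat_lit 152) (nat_lit 269106109849) (nat_lit 167) (nat_lit 5) (nat_lit 168) (nat_lit 5) (nat_lit 169) (nat_lit 4) (nat_lit 464) (nat_lit 377) (nat_lit 179)))))))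 (XT.nd (nat_lit 1248) (nat_lit 684) (nat_lit 0) (XT.nd (nat_lit 624) (nat_lit 608) (nat_lit 0) (XT.nd (nat_lit 312) (nat_lit 304) (nat_lit 0) (XT.nd (nat_lit 156) (nat_lit 152) (nat_lit 0) (XT.nd (nat_lit 78) (nat_lit 76) (nat_lit 0) (XT.lf (nat_lit 0) (nat_lit 178095650797) (nat_lit 152) (nat_lit 83334516074) (nat_lit 0) (nat_lit 82917088175) (nat_lit 167) (nat_lit 5) (nat_lit 169) (nat_lit 4) (nat_lit 167) (nat_lit 4) (nat_lit 465) (nat_lit 377) (nat_lit 178)) (XT.lf (nat_lit 0) (nat_lit 149999750019) (nat_lit 76) (nat_lit 150417453135) (nat_lit 76) (nat_lit 55238615296) (nat_lit 166) (nat_lit 4) (nat_lit 167) (nat_lit 5) (nat_lit 167) (nat_lit 4) (nat_lit 466) (nat_lit 377) (nat_lit 177))) (XT.nd (nat_lit 78) (nat_lit 0) (nat_lit 0) (XT.lf (nat_lit 0) (nat_lit 30426539107) (nat_lit 76) (nat_lit 30844504335) (nat_lit 152) (nat_lit 306115453608) (nat_lit 164) (nat_lit 5) (nat_lit 165) (nat_lit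 5) (nat_lit 166) (nat_lit 4) (nat_lit 467) (nat_lit 377) (nat_lit 176)) (XT.lf (nat_lit 0) (nat_lit 186767744798) (nat_lit 152) (nat_lit 96519045062) (nat_lit 0) (nat_lit 96120745198) (nat_lit 164) (nat_lit 5) (nat_lit 166) (nat_lit 4) (nat_lit 164) (nat_lit 4) (nat_lit 468) (nat_lit 377) (nat_lit 175)))) (XT.nd (nat_lit 156) (nat_lit 76) (nat_lit 0) (XT.nd (nat_lit 78) (nat_lit 152) (nat_lit 0) (XT.lf (nat_lit 0) (nat_lit 160576398762) (nat_lit 76) (nat_lit 160974925048) (nat_lit 76) (nat_lit 70327699026) (nat_lit 163) (nat_lit 4) (nat_lit 164) (nat_lit 5) (nat_lit 164) (nat_lit 4) (nat_lit 469) (nat_lit 377) (nat_lit 174)) (XT.lf (nat_lit 0) (nat_lit 28977426036) (nat_lit 76) (nat_lit 29376167963) (nat_lit 152) (nat_lit 346469477817) (nat_lit 161) (nat_lit 5) (nat_lit 162) (nat_lit 5) (nat_lit 163) (nat_lit 4) (nat_lit 470) (nat_lit 377) (nat_lit 173))) (XT.nd (nat_lit 78) (nat_lit 76) (nat_lit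 0) (XT.lf (nat_lit 0) (nat_lit 196784979213) (nat_lit 152) (nat_lit 110833836607) (nat_lit 0) (nat_lit 110453886800) (nat_lit 161) (nat_lit 5) (nat_lit 163) (nat_lit 4) (nat_lit 161) (nat_lit 4) (nat_lit 471) (nat_lit 377) (nat_lit 172)) (XT.lf (nat_lit 0) (nat_lit 172465713344) (nat_lit 76) (nat_lit 172845849429) (nat_lit 76) (nat_lit 86514570738) (nat_lit 160) (nat_lit 4) (nat_lit 161) (nat_lit 5) (nat_lit 161) (nat_lit 4) (nat_lit 472) (nat_lit 377) (nat_lit 171))))) (XT.nd (nat_lit 312) (nat_lit 228) (nat_lit 0) (XT.nd (nat_lit 156) (nat_lit 228) (nat_lit 0) (XT.nd (nat_lit 78) (nat_lit 0) (nat_lit 0) (XT.lf (nat_lit 0) (nat_lit 27597359173) (nat_lit 76) (nat_lit 27977672666) (nat_lit 152) (nat_lit 390532368685) (nat_lit 158) (nat_lit 5) (nat_lit 159) (nat_lit 5) (nat_lit 160) (nat_lit 4) (nat_lit 473) (nat_lit 377) (nat_lit 170)) (XT.lf (nat_lit 0) (nat_lit 208263516897) (nat_lit 152) (nat_lit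 126405285843) (nat_lit 0) (nat_lit 126042921603) (nat_lit 158) (nat_lit 5) (nat_lit 160) (nat_lit 4) (nat_lit 158) (nat_lit 4) (nat_lit 474) (nat_lit 377) (nat_lit 169))) (XT.nd (nat_lit 78) (nat_lit 152) (nat_lit 0) (XT.lf (nat_lit 0) (nat_lit 185791346242) (nat_lit 76) (nat_lit 186153863734) (nat_lit 76) (nat_lit 103933115189) (nat_lit 157) (nat_lit 4) (nat_lit 158) (nat_lit 5) (nat_lit 158) (nat_lit 4) (nat_lit 475) (nat_lit 377) (nat_lit 168)) (XT.lf (nat_lit 0) (nat_lit 26283043366) (nat_lit 76) (nat_lit 26645706811) (nat_lit 152) (nat_lit 438704626993) (nat_lit 155) (nat_lit 5) (nat_lit 156) (nat_lit 5) (nat_lit 157) (nat_lit 4) (nat_lit 476) (nat_lit 377) (nat_lit 167)))) (XT.nd (nat_lit 156) (nat_lit 152) (nat_lit 0) (XT.nd (nat_lit 78) (nat_lit 76) (nat_lit 0) (XT.lf (nat_lit 0) (nat_lit 221332459236) (nat_lit 152) (nat_lit 143372239186) (nat_lit 0) (nat_lit 143026713044) (nat_lit 155)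 (nat_lit 5) (nat_lit 157) (nat_lit 4) (nat_lit 155) (nat_lit 4) (nat_lit 477) (nat_lit 377) (nat_lit 166)) (XT.lf (nat_lit 0) (nat_lit 200690145285) (nat_lit 76) (nat_lit 201035797506) (nat_lit 76) (nat_lit 122729925234) (nat_lit 154) (nat_lit 4) (nat_lit 155) (nat_lit 5) (nat_lit 155) (nat_lit 4) (nat_lit 478) (nat_lit 377) (nat_lit 165))) (XT.nd (nat_lit 78) (nat_lit 0) (nat_lit 0) (XT.lf (nat_lit 0) (nat_lit 25031341657) (nat_lit 76) (nat_lit 25377113955) (nat_lit 152) (nat_lit 491426838215) (nat_lit 152) (nat_lit 5) (nat_lit 153) (nat_lit 5) (nat_lit 154) (nat_lit 4) (nat_lit 479) (nat_lit 377) (nat_lit 164)) (XT.lf (nat_lit 0) (nat_lit 236135123601) (nat_lit 152) (nat_lit 161887294982) (nat_lit 0) (nat_lit 161557879118) (nat_lit 152) (nat_lit 5) (nat_lit 154) (nat_lit 4) (nat_lit 152) (nat_lit 4) (nat_lit 480) (nat_lit 377) (nat_lit 163)))))) (XT.nd (nat_lit 624) (nat_lit 0) (nat_lit 0) (XT.nd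 (nat_lit 312) (nat_lit 380) (nat_lit 0) (XT.nd (nat_lit 156) (nat_lit 76) (nat_lit 0) (XT.nd (nat_lit 78) (nat_lit 152) (nat_lit 0) (XT.lf (nat_lit 0) (nat_lit 217313480990) (nat_lit 76) (nat_lit 217643000580) (nat_lit 76) (nat_lit 143065652370) (nat_lit 151) (nat_lit 4) (nat_lit 152) (nat_lit 5) (nat_lit 152) (nat_lit 4) (nat_lit 481) (nat_lit 377) (nat_lit 162)) (XT.lf (nat_lit 0) (nat_lit 23839267523) (nat_lit 76) (nat_lit 24168885900) (nat_lit 152) (nat_lit 549183826870) (nat_lit 149) (nat_lit 5) (nat_lit 150) (nat_lit 5) (nat_lit 151) (nat_lit 4) (nat_lit 482) (nat_lit 377) (nat_lit 161))) (XT.nd (nat_lit 78) (nat_lit 76) (nat_lit 0) (XT.lf (nat_lit 0) (nat_lit 252830453981) (nat_lit 152) (nat_lit 182118236248) (nat_lit 0) (nat_lit 181804224381) (nat_lit 149) (nat_lit 5) (nat_lit 151) (nat_lit 4) (nat_lit 149) (nat_lit 4) (nat_lit 483) (nat_lit 377) (nat_lit 160)) (XT.lf (nat_lit 0) (nat_lit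 235828711223) (nat_lit 76) (nat_lit 236142808426) (nat_lit 76) (nat_lit 165116493490) (nat_lit 148) (nat_lit 4) (nat_lit 149) (nat_lit 5) (nat_lit 149) (nat_lit 4) (nat_lit 484) (nat_lit 377) (nat_lit 159)))) (XT.nd (nat_lit 156) (nat_lit 228) (nat_lit 0) (XT.nd (nat_lit 78) (nat_lit 0) (nat_lit 0) (XT.lf (nat_lit 0) (nat_lit 22703977527) (nat_lit 76) (nat_lit 23018156002) (nat_lit 152) (nat_lit 612509234578) (nat_lit 146) (nat_lit 5) (nat_lit 147) (nat_lit 5) (nat_lit 148) (nat_lit 4) (nat_lit 485) (nat_lit 377) (nat_lit 158)) (XT.lf (nat_lit 0) (nat_lit 271594578372) (nat_lit 152) (nat_lit 204249609103) (nat_lit 0) (nat_lit 203950317791) (nat_lit 146) (nat_lit 5) (nat_lit 148) (nat_lit 4) (nat_lit 146) (nat_lit 4) (nat_lit 486) (nat_lit 377) (nat_lit 157))) (XT.nd (nat_lit 78) (nat_lit 152) (nat_lit 0) (XT.lf (nat_lit 0) (nat_lit 256420797172) (nat_lit 76) (nat_lit 256720158690) (nat_lit 76)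 (nat_lit 189075827902) (nat_lit 145) (nat_lit 4) (nat_lit 146) (nat_lit 5) (nat_lit 146) (nat_lit 4) (nat_lit 487) (nat_lit 377) (nat_lit 156)) (XT.lf (nat_lit 0) (nat_lit 21622764344) (nat_lit 76) (nat_lit 21922192726) (nat_lit 152) (nat_lit 681990565360) (nat_lit 143) (nat_lit 5) (nat_lit 144) (nat_lit 5) (nat_lit 145) (nat_lit 4) (nat_lit 488) (nat_lit 377) (nat_lit 155))))) (XT.nd (nat_lit 44694) (nat_lit 0) (nat_lit 11400) (XT.nd (nat_lit 44538) (nat_lit 0) (nat_lit 11324) (XT.nd (nat_lit 44460) (nat_lit 0) (nat_lit 11324) (XT.lf (nat_lit 0) (nat_lit 292622527869) (nat_lit 152) (nat_lit 228484461898) (nat_lit 0) (nat_lit 228199231364) (nat_lit 143) (nat_lit 5) (nat_lit 145) (nat_lit 4) (nat_lit 143) (nat_lit 4) (nat_lit 489) (nat_lit 377) (nat_lit 154)) (XT.lf (nat_lit 0) (nat_lit 5430878962) (nat_lit 836) (nat_lit 3778288957) (nat_lit 836) (nat_lit 3778288957) (nat_lit 292) (nat_lit 3) (nat_lit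 303) (nat_lit 3) (nat_lit 303) (nat_lit 5) (nat_lit 378) (nat_lit 378) (nat_lit 264))) (XT.nd (nat_lit 78) (nat_lit 0) (nat_lit 76) (XT.lf (nat_lit 76) (nat_lit 5610448347) (nat_lit 0) (nat_lit 5706474956) (nat_lit 836) (nat_lit 15298182224) (nat_lit 293) (nat_lit 5) (nat_lit 292) (nat_lit 3) (nat_lit 303) (nat_lit 5) (nat_lit 379) (nat_lit 378) (nat_lit 263)) (XT.lf (nat_lit 0) (nat_lit 12038062069) (nat_lit 760) (nat_lit 7707818470) (nat_lit 836) (nat_lit 7529265592) (nat_lit 293) (nat_lit 5) (nat_lit 303) (nat_lit 5) (nat_lit 304) (nat_lit 5) (nat_lit 380) (nat_lit 378) (nat_lit 262)))) (XT.nd (nat_lit 156) (nat_lit 0) (nat_lit 76) (XT.nd (nat_lit 78) (nat_lit 0) (nat_lit 76) (XT.lf (nat_lit 76) (nat_lit 6360372171) (nat_lit 0) (nat_lit 6621876444) (nat_lit 836) (nat_lit 14976590610) (nat_lit 294) (nat_lit 5) (nat_lit 293) (nat_lit 5) (nat_lit 304) (nat_lit 5) (nat_lit 381) (nat_lit 378) (nat_lit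 261)) (XT.lf (nat_lit 0) (nat_lit 14212479625) (nat_lit 760) (nat_lit 7388293320) (nat_lit 836) (nat_lit 7064002271) (nat_lit 294) (nat_lit 5) (nat_lit 304) (nat_lit 5) (nat_lit 305) (nat_lit 5) (nat_lit 382) (nat_lit 378) (nat_lit 260))) (XT.nd (nat_lit 78) (nat_lit 0) (nat_lit 76) (XT.lf (nat_lit 76) (nat_lit 7665588020) (nat_lit 0) (nat_lit 8061535603) (nat_lit 836) (nat_lit 13667739312) (nat_lit 295) (nat_lit 5) (nat_lit 294) (nat_lit 5) (nat_lit 305) (nat_lit 5) (nat_lit 383) (nat_lit 378) (nat_lit 259)) (XT.lf (nat_lit 0) (nat_lit 17535655568) (nat_lit 760) (nat_lit 6528489604) (nat_lit 836) (nat_lit 6086402079) (nat_lit 295) (nat_lit 5) (nat_lit 305) (nat_lit 5) (nat_lit 306) (nat_lit 5) (nat_lit 384) (nat_lit 378) (nat_lit 258))))))))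
noncomputable def xc237 : XT := (XT.nd (nat_lit 1248) (nat_lit 2508) (nat_lit 0) (XT.nd (nat_lit 624) (nat_lit 1368) (nat_lit 0) (XT.nd (nat_lit 312) (nat_lit 1520) (nat_lit 0) (XT.nd (nat_lit 156) (nat_lit 0) (nat_lit 76) (XT.nd (nat_lit 78) (nat_lit 0) (nat_lit 76) (XT.lf (nat_lit 76) (nat_lit 9603929807) (nat_lit 0) (nat_lit 10107916940) (nat_lit 836) (nat_lit 11218307406) (nat_lit 296) (nat_lit 5) (nat_lit 295) (nat_lit 5) (nat_lit 306) (nat_lit 5) (nat_lit 385) (nat_lit 378) (nat_lit 257)) (XT.lf (nat_lit 0) (nat_lit 22175526300) (nat_lit 760) (nat_lit 5050206837) (nat_lit 836) (nat_lit 4514074322) (nat_lit 296) (nat_lit 5) (nat_lit 306) (nat_lit 5) (nat_lit 307) (nat_lit 5) (nat_lit 386) (nat_lit 378) (nat_lit 256))) (XT.nd (nat_lit 78) (nat_lit 0) (nat_lit 76) (XT.lf (nat_lit 76) (nat_lit 12262746779) (nat_lit 0) (nat_lit 12852350503) (nat_lit 836) (nat_lit 7457210775) (nat_lit 297) (nat_lit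 5) (nat_lit 296) (nat_lit 5) (nat_lit 307) (nat_lit 5) (nat_lit 387) (nat_lit 378) (nat_lit 255)) (XT.lf (nat_lit 0) (nat_lit 28319259739) (nat_lit 760) (nat_lit 2865660309) (nat_lit 76) (nat_lit 2255632990) (nat_lit 297) (nat_lit 5) (nat_lit 307) (nat_lit 5) (nat_lit 298) (nat_lit 5) (nat_lit 388) (nat_lit 378) (nat_lit 254)))) (XT.nd (nat_lit 156) (nat_lit 380) (nat_lit 0) (XT.nd (nat_lit 78) (nat_lit 532) (nat_lit 0) (XT.lf (nat_lit 0) (nat_lit 15739884853) (nat_lit 760) (nat_lit 16396102612) (nat_lit 836) (nat_lit 2193604948) (nat_lit 287) (nat_lit 5) (nat_lit 297) (nat_lit 5) (nat_lit 298) (nat_lit 5) (nat_lit 389) (nat_lit 378) (nat_lit 253)) (XT.lf (nat_lit 0) (nat_lit 99475907) (nat_lit 456) (nat_lit 799684563) (nat_lit 532) (nat_lit 34360892301) (nat_lit 280) (nat_lit 5) (nat_lit 286) (nat_lit 5) (nat_lit 287) (nat_lit 5) (nat_lit 390) (nat_lit 378) (nat_lit 252))) (XT.nd (nat_lit 78)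 (nat_lit 380) (nat_lit 0) (XT.lf (nat_lit 0) (nat_lit 4632155615) (nat_lit 532) (nat_lit 16140941686) (nat_lit 76) (nat_lit 15434175261) (nat_lit 280) (nat_lit 5) (nat_lit 287) (nat_lit 5) (nat_lit 281) (nat_lit 5) (nat_lit 391) (nat_lit 378) (nat_lit 251)) (XT.lf (nat_lit 0) (nat_lit 3938977979) (nat_lit 380) (nat_lit 4683745394) (nat_lit 456) (nat_lit 28575583827) (nat_lit 275) (nat_lit 5) (nat_lit 280) (nat_lit 5) (nat_lit 281) (nat_lit 5) (nat_lit 392) (nat_lit 378) (nat_lit 250))))) (XT.nd (nat_lit 312) (nat_lit 684) (nat_lit 0) (XT.nd (nat_lit 156) (nat_lit 304) (nat_lit 0) (XT.nd (nat_lit 78) (nat_lit 380) (nat_lit 0) (XT.lf (nat_lit 0) (nat_lit 13277722395) (nat_lit 456) (nat_lit 12840848174) (nat_lit 76) (nat_lit 12097077856) (nat_lit 275) (nat_lit 5) (nat_lit 281) (nat_lit 5) (nat_lit 276) (nat_lit 5) (nat_lit 393) (nat_lit 378) (nat_lit 249)) (XT.lf (nat_lit 0) (nat_lit 8799825181) (nat_lit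 380) (nat_lit 9576422183) (nat_lit 456) (nat_lit 20897070549) (nat_lit 270) (nat_lit 5) (nat_lit 275) (nat_lit 5) (nat_lit 276) (nat_lit 5) (nat_lit 394) (nat_lit 378) (nat_lit 248))) (XT.nd (nat_lit 78) (nat_lit 304) (nat_lit 0) (XT.lf (nat_lit 0) (nat_lit 24069103462) (nat_lit 456) (nat_lit 8533594065) (nat_lit 76) (nat_lit 7764203102) (nat_lit 270) (nat_lit 5) (nat_lit 276) (nat_lit 5) (nat_lit 271) (nat_lit 5) (nat_lit 395) (nat_lit 378) (nat_lit 247)) (XT.lf (nat_lit 0) (nat_lit 14817021507) (nat_lit 304) (nat_lit 15614769393) (nat_lit 380) (nat_lit 11064112156) (nat_lit 266) (nat_lit 5) (nat_lit 270) (nat_lit 5) (nat_lit 271) (nat_lit 5) (nat_lit 396) (nat_lit 378) (nat_lit 246)))) (XT.nd (nat_lit 156) (nat_lit 304) (nat_lit 0) (XT.nd (nat_lit 78) (nat_lit 380) (nat_lit 0) (XT.lf (nat_lit 0) (nat_lit 37291154136) (nat_lit 380) (nat_lit 3083377427) (nat_lit 76) (nat_lit 2297896970) (nat_lit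 266) (nat_lit 5) (nat_lit 271) (nat_lit 5) (nat_lit 267) (nat_lit 5) (nat_lit 397) (nat_lit 378) (nat_lit 245)) (XT.lf (nat_lit 0) (nat_lit 1175536334) (nat_lit 380) (nat_lit 21755667047) (nat_lit 76) (nat_lit 20945690812) (nat_lit 261) (nat_lit 5) (nat_lit 266) (nat_lit 5) (nat_lit 262) (nat_lit 5) (nat_lit 398) (nat_lit 378) (nat_lit 244))) (XT.nd (nat_lit 78) (nat_lit 0) (nat_lit 0) (XT.lf (nat_lit 0) (nat_lit 3576039111) (nat_lit 304) (nat_lit 4409344656) (nat_lit 380) (nat_lit 37146486375) (nat_lit 257) (nat_lit 5) (nat_lit 261) (nat_lit 5) (nat_lit 262) (nat_lit 5) (nat_lit 399) (nat_lit 378) (nat_lit 243)) (XT.lf (nat_lit 0) (nat_lit 15742209807) (nat_lit 380) (nat_lit 15745922735) (nat_lit 76) (nat_lit 14931138033) (nat_lit 257) (nat_lit 5) (nat_lit 262) (nat_lit 5) (nat_lit 258) (nat_lit 5) (nat_lit 400) (nat_lit 378) (nat_lit 242)))))) (XT.nd (nat_lit 624) (nat_lit 1140) (nat_lit 0) (XT.nd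 (nat_lit 312) (nat_lit 456) (nat_lit 0) (XT.nd (nat_lit 156) (nat_lit 608) (nat_lit 0) (XT.nd (nat_lit 78) (nat_lit 0) (nat_lit 0) (XT.lf (nat_lit 0) (nat_lit 11651740971) (nat_lit 304) (nat_lit 12486678409) (nat_lit 380) (nat_lit 23620044541) (nat_lit 253) (nat_lit 5) (nat_lit 257) (nat_lit 5) (nat_lit 258) (nat_lit 5) (nat_lit 401) (nat_lit 378) (nat_lit 241)) (XT.lf (nat_lit 0) (nat_lit 33339427538) (nat_lit 380) (nat_lit 8309698814) (nat_lit 76) (nat_lit 7496241175) (nat_lit 253) (nat_lit 5) (nat_lit 258) (nat_lit 5) (nat_lit 254) (nat_lit 5) (nat_lit 402) (nat_lit 378) (nat_lit 240))) (XT.nd (nat_lit 78) (nat_lit 380) (nat_lit 0) (XT.lf (nat_lit 0) (nat_lit 21352610818) (nat_lit 228) (nat_lit 22183477148) (nat_lit 304) (nat_lit 7038748254) (nat_lit 250) (nat_lit 5) (nat_lit 253) (nat_lit 5) (nat_lit 254) (nat_lit 5) (nat_lit 403) (nat_lit 378) (nat_lit 239)) (XT.lf (nat_lit 0) (nat_lit 700769277)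 (nat_lit 304) (nat_lit 1548215312) (nat_lit 380) (nat_lit 49817525629) (nat_lit 245) (nat_lit 5) (nat_lit 249) (nat_lit 5) (nat_lit 250) (nat_lit 5) (nat_lit 404) (nat_lit 378) (nat_lit 238)))) (XT.nd (nat_lit 156) (nat_lit 228) (nat_lit 0) (XT.nd (nat_lit 78) (nat_lit 228) (nat_lit 0) (XT.lf (nat_lit 0) (nat_lit 12579280282) (nat_lit 380) (nat_lit 20914555848) (nat_lit 76) (nat_lit 20092426104) (nat_lit 245) (nat_lit 5) (nat_lit 250) (nat_lit 5) (nat_lit 246) (nat_lit 5) (nat_lit 405) (nat_lit 378) (nat_lit 237)) (XT.lf (nat_lit 0) (nat_lit 11395327054) (nat_lit 228) (nat_lit 12231778972) (nat_lit 304) (nat_lit 31544845062) (nat_lit 242) (nat_lit 5) (nat_lit 245) (nat_lit 5) (nat_lit 246) (nat_lit 5) (nat_lit 406) (nat_lit 378) (nat_lit 236))) (XT.nd (nat_lit 78) (nat_lit 228) (nat_lit 0) (XT.lf (nat_lit 0) (nat_lit 35742680119) (nat_lit 304) (nat_lit 10939043960) (nat_lit 76) (nat_lit 10129432452)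 (nat_lit 242) (nat_lit 5) (nat_lit 246) (nat_lit 5) (nat_lit 243) (nat_lit 5) (nat_lit 407) (nat_lit 378) (nat_lit 235)) (XT.lf (nat_lit 0) (nat_lit 24108421587) (nat_lit 228) (nat_lit 24930405127) (nat_lit 304) (nat_lit 9464755843) (nat_lit 239) (nat_lit 5) (nat_lit 242) (nat_lit 5) (nat_lit 243) (nat_lit 5) (nat_lit 408) (nat_lit 378) (nat_lit 234))))) (XT.nd (nat_lit 312) (nat_lit 608) (nat_lit 0) (XT.nd (nat_lit 156) (nat_lit 228) (nat_lit 0) (XT.nd (nat_lit 78) (nat_lit 0) (nat_lit 0) (XT.lf (nat_lit 0) (nat_lit 1000078083) (nat_lit 228) (nat_lit 1833844510) (nat_lit 304) (nat_lit 57434494530) (nat_lit 235) (nat_lit 5) (nat_lit 238) (nat_lit 5) (nat_lit 239) (nat_lit 5) (nat_lit 409) (nat_lit 378) (nat_lit 233)) (XT.lf (nat_lit 0) (nat_lit 16369435055) (nat_lit 304) (nat_lit 23251026079) (nat_lit 76) (nat_lit 22446275389) (nat_lit 235) (nat_lit 5) (nat_lit 239) (nat_lit 5) (nat_lit 236) (nat_lit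 5) (nat_lit 410) (nat_lit 378) (nat_lit 232))) (XT.nd (nat_lit 78) (nat_lit 0) (nat_lit 0) (XT.lf (nat_lit 0) (nat_lit 15014652900) (nat_lit 228) (nat_lit 15829582092) (nat_lit 304) (nat_lit 33097611308) (nat_lit 232) (nat_lit 5) (nat_lit 235) (nat_lit 5) (nat_lit 236) (nat_lit 5) (nat_lit 411) (nat_lit 378) (nat_lit 231)) (XT.lf (nat_lit 0) (nat_lit 46583927600) (nat_lit 304) (nat_lit 10042540786) (nat_lit 76) (nat_lit 9257185546) (nat_lit 232) (nat_lit 5) (nat_lit 236) (nat_lit 5) (nat_lit 233) (nat_lit 5) (nat_lit 412) (nat_lit 378) (nat_lit 230)))) (XT.nd (nat_lit 156) (nat_lit 152) (nat_lit 0) (XT.nd (nat_lit 78) (nat_lit 304) (nat_lit 0) (XT.lf (nat_lit 0) (nat_lit 31533216229) (nat_lit 152) (nat_lit 32327364042) (nat_lit 228) (nat_lit 4024472905) (nat_lit 230) (nat_lit 5) (nat_lit 232) (nat_lit 5) (nat_lit 233) (nat_lit 5) (nat_lit 413) (nat_lit 378) (nat_lit 229)) (XT.lf (nat_lit 0) (nat_lit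 5542522543) (nat_lit 228) (nat_lit 6345044234) (nat_lit 304) (nat_lit 58076698369) (nat_lit 226) (nat_lit 5) (nat_lit 229) (nat_lit 5) (nat_lit 230) (nat_lit 5) (nat_lit 414) (nat_lit 378) (nat_lit 228))) (XT.nd (nat_lit 78) (nat_lit 152) (nat_lit 0) (XT.lf (nat_lit 0) (nat_lit 29410756297) (nat_lit 304) (nat_lit 21728872284) (nat_lit 76) (nat_lit 20956970558) (nat_lit 226) (nat_lit 5) (nat_lit 230) (nat_lit 5) (nat_lit 227) (nat_lit 5) (nat_lit 415) (nat_lit 378) (nat_lit 227)) (XT.lf (nat_lit 0) (nat_lit 23752050805) (nat_lit 152) (nat_lit 24531186203) (nat_lit 228) (nat_lit 26028656239) (nat_lit 224) (nat_lit 5) (nat_lit 226) (nat_lit 5) (nat_lit 227) (nat_lit 5) (nat_lit 416) (nat_lit 378) (nat_lit 226)))))))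
noncomputable def xc238 : XT := (XT.nd (nat_lit 1248) (nat_lit 1520) (nat_lit 0) (XT.nd (nat_lit 624) (nat_lit 684) (nat_lit 0) (XT.nd (nat_lit 312) (nat_lit 532) (nat_lit 0) (XT.nd (nat_lit 156) (nat_lit 152) (nat_lit 0) (XT.nd (nat_lit 78) (nat_lit 228) (nat_lit 0) (XT.lf (nat_lit 0) (nat_lit 68524867855) (nat_lit 228) (nat_lit 4420201382) (nat_lit 76) (nat_lit 3671606518) (nat_lit 224) (nat_lit 5) (nat_lit 227) (nat_lit 5) (nat_lit 225) (nat_lit 5) (nat_lit 417) (nat_lit 378) (nat_lit 225)) (XT.lf (nat_lit 0) (nat_lit 11520282349) (nat_lit 228) (nat_lit 34103381367) (nat_lit 76) (nat_lit 33348537786) (nat_lit 221) (nat_lit 5) (nat_lit 224) (nat_lit 5) (nat_lit 222) (nat_lit 5) (nat_lit 418) (nat_lit 378) (nat_lit 224))) (XT.nd (nat_lit 78) (nat_lit 0) (nat_lit 0) (XT.lf (nat_lit 0) (nat_lit 15699920891) (nat_lit 152) (nat_lit 16460715631) (nat_lit 228) (nat_lit 49262254525) (nat_lit 219) (nat_lit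 5) (nat_lit 221) (nat_lit 5) (nat_lit 222) (nat_lit 5) (nat_lit 419) (nat_lit 378) (nat_lit 223)) (XT.lf (nat_lit 0) (nat_lit 54639527649) (nat_lit 228) (nat_lit 15023112876) (nat_lit 76) (nat_lit 14293148581) (nat_lit 219) (nat_lit 5) (nat_lit 222) (nat_lit 5) (nat_lit 220) (nat_lit 5) (nat_lit 420) (nat_lit 378) (nat_lit 222)))) (XT.nd (nat_lit 156) (nat_lit 152) (nat_lit 0) (XT.nd (nat_lit 78) (nat_lit 228) (nat_lit 0) (XT.lf (nat_lit 0) (nat_lit 39193758352) (nat_lit 152) (nat_lit 39928863482) (nat_lit 228) (nat_lit 7448697310) (nat_lit 217) (nat_lit 5) (nat_lit 219) (nat_lit 5) (nat_lit 220) (nat_lit 5) (nat_lit 421) (nat_lit 378) (nat_lit 221)) (XT.lf (nat_lit 0) (nat_lit 7323593033) (nat_lit 152) (nat_lit 8063594197) (nat_lit 228) (nat_lit 73899757428) (nat_lit 214) (nat_lit 5) (nat_lit 216) (nat_lit 5) (nat_lit 217) (nat_lit 5) (nat_lit 422) (nat_lit 378) (nat_lit 220))) (XT.nd (nat_lit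 78) (nat_lit 152) (nat_lit 0) (XT.lf (nat_lit 0) (nat_lit 40325052297) (nat_lit 228) (nat_lit 26227935975) (nat_lit 76) (nat_lit 25518732116) (nat_lit 214) (nat_lit 5) (nat_lit 217) (nat_lit 5) (nat_lit 215) (nat_lit 5) (nat_lit 423) (nat_lit 378) (nat_lit 219)) (XT.lf (nat_lit 0) (nat_lit 33222925604) (nat_lit 152) (nat_lit 33936358840) (nat_lit 228) (nat_lit 27803976769) (nat_lit 212) (nat_lit 5) (nat_lit 214) (nat_lit 5) (nat_lit 215) (nat_lit 5) (nat_lit 424) (nat_lit 378) (nat_lit 218))))) (XT.nd (nat_lit 312) (nat_lit 380) (nat_lit 0) (XT.nd (nat_lit 156) (nat_lit 152) (nat_lit 0) (XT.nd (nat_lit 78) (nat_lit 152) (nat_lit 0) (XT.lf (nat_lit 0) (nat_lit 95790143843) (nat_lit 228) (nat_lit 1434892925) (nat_lit 76) (nat_lit 751596530) (nat_lit 212) (nat_lit 5) (nat_lit 215) (nat_lit 5) (nat_lit 213) (nat_lit 4) (nat_lit 425) (nat_lit 378) (nat_lit 217)) (XT.lf (nat_lit 0) (nat_lit 25490393541)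 (nat_lit 152) (nat_lit 38119733240) (nat_lit 76) (nat_lit 37432783349) (nat_lit 210) (nat_lit 5) (nat_lit 212) (nat_lit 5) (nat_lit 211) (nat_lit 5) (nat_lit 426) (nat_lit 378) (nat_lit 216))) (XT.nd (nat_lit 78) (nat_lit 0) (nat_lit 0) (XT.lf (nat_lit 0) (nat_lit 27116974316) (nat_lit 152) (nat_lit 27807403726) (nat_lit 228) (nat_lit 49313993670) (nat_lit 208) (nat_lit 5) (nat_lit 210) (nat_lit 5) (nat_lit 211) (nat_lit 5) (nat_lit 427) (nat_lit 378) (nat_lit 215)) (XT.lf (nat_lit 0) (nat_lit 86637677164) (nat_lit 228) (nat_lit 10788128143) (nat_lit 76) (nat_lit 10127420297) (nat_lit 208) (nat_lit 5) (nat_lit 211) (nat_lit 5) (nat_lit 209) (nat_lit 4) (nat_lit 428) (nat_lit 378) (nat_lit 214)))) (XT.nd (nat_lit 156) (nat_lit 76) (nat_lit 0) (XT.nd (nat_lit 78) (nat_lit 152) (nat_lit 0) (XT.lf (nat_lit 0) (nat_lit 10037362652) (nat_lit 152) (nat_lit 50791124378) (nat_lit 76) (nat_lit 50127410792)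 (nat_lit 206) (nat_lit 5) (nat_lit 208) (nat_lit 5) (nat_lit 207) (nat_lit 5) (nat_lit 429) (nat_lit 378) (nat_lit 213)) (XT.lf (nat_lit 0) (nat_lit 20839121676) (nat_lit 152) (nat_lit 21505697871) (nat_lit 228) (nat_lit 72141250221) (nat_lit 204) (nat_lit 5) (nat_lit 206) (nat_lit 5) (nat_lit 207) (nat_lit 5) (nat_lit 430) (nat_lit 378) (nat_lit 212))) (XT.nd (nat_lit 78) (nat_lit 76) (nat_lit 0) (XT.lf (nat_lit 0) (nat_lit 77449548803) (nat_lit 228) (nat_lit 20660768737) (nat_lit 76) (nat_lit 20023337795) (nat_lit 204) (nat_lit 5) (nat_lit 207) (nat_lit 5) (nat_lit 205) (nat_lit 4) (nat_lit 431) (nat_lit 378) (nat_lit 211)) (XT.lf (nat_lit 0) (nat_lit 57459036736) (nat_lit 76) (nat_lit 58098940507) (nat_lit 152) (nat_lit 6343219800) (nat_lit 203) (nat_lit 5) (nat_lit 204) (nat_lit 5) (nat_lit 205) (nat_lit 4) (nat_lit 432) (nat_lit 378) (nat_lit 210)))))) (XT.nd (nat_lit 624) (nat_lit 684) (nat_lit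 0) (XT.nd (nat_lit 312) (nat_lit 304) (nat_lit 0) (XT.nd (nat_lit 156) (nat_lit 304) (nat_lit 0) (XT.nd (nat_lit 78) (nat_lit 0) (nat_lit 0) (XT.lf (nat_lit 0) (nat_lit 14349946405) (nat_lit 152) (nat_lit 14992205253) (nat_lit 228) (nat_lit 96462842848) (nat_lit 200) (nat_lit 5) (nat_lit 202) (nat_lit 5) (nat_lit 203) (nat_lit 5) (nat_lit 433) (nat_lit 378) (nat_lit 209)) (XT.lf (nat_lit 0) (nat_lit 68179290683) (nat_lit 228) (nat_lit 31127134687) (nat_lit 76) (nat_lit 30513323472) (nat_lit 200) (nat_lit 5) (nat_lit 203) (nat_lit 5) (nat_lit 201) (nat_lit 4) (nat_lit 434) (nat_lit 378) (nat_lit 208))) (XT.nd (nat_lit 78) (nat_lit 228) (nat_lit 0) (XT.lf (nat_lit 0) (nat_lit 54720719830) (nat_lit 76) (nat_lit 55336565449) (nat_lit 152) (nat_lit 23923005686) (nat_lit 199) (nat_lit 5) (nat_lit 200) (nat_lit 5) (nat_lit 201) (nat_lit 4) (nat_lit 435) (nat_lit 378) (nat_lit 207)) (XT.lf (nat_lit 0)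 (nat_lit 7607057386) (nat_lit 152) (nat_lit 8224840531) (nat_lit 228) (nat_lit 122472049258) (nat_lit 196) (nat_lit 5) (nat_lit 198) (nat_lit 5) (nat_lit 199) (nat_lit 5) (nat_lit 436) (nat_lit 378) (nat_lit 206)))) (XT.nd (nat_lit 156) (nat_lit 228) (nat_lit 0) (XT.nd (nat_lit 78) (nat_lit 76) (nat_lit 0) (XT.lf (nat_lit 0) (nat_lit 58777681761) (nat_lit 228) (nat_lit 42268131230) (nat_lit 76) (nat_lit 41678008936) (nat_lit 196) (nat_lit 5) (nat_lit 199) (nat_lit 5) (nat_lit 197) (nat_lit 4) (nat_lit 437) (nat_lit 378) (nat_lit 205)) (XT.lf (nat_lit 0) (nat_lit 52113184111) (nat_lit 76) (nat_lit 52704980113) (nat_lit 152) (nat_lit 42499155722) (nat_lit 195) (nat_lit 5) (nat_lit 196) (nat_lit 5) (nat_lit 197) (nat_lit 4) (nat_lit 438) (nat_lit 378) (nat_lit 204))) (XT.nd (nat_lit 78) (nat_lit 0) (nat_lit 0) (XT.lf (nat_lit 0) (nat_lit 564732461) (nat_lit 152) (nat_lit 1158122470) (nat_lit 228)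 (nat_lit 150380075090) (nat_lit 192) (nat_lit 5) (nat_lit 194) (nat_lit 5) (nat_lit 195) (nat_lit 5) (nat_lit 439) (nat_lit 378) (nat_lit 203)) (XT.lf (nat_lit 0) (nat_lit 49192375218) (nat_lit 228) (nat_lit 54171978096) (nat_lit 76) (nat_lit 53605398941) (nat_lit 192) (nat_lit 5) (nat_lit 195) (nat_lit 5) (nat_lit 193) (nat_lit 4) (nat_lit 440) (nat_lit 378) (nat_lit 202))))) (XT.nd (nat_lit 312) (nat_lit 380) (nat_lit 0) (XT.nd (nat_lit 156) (nat_lit 228) (nat_lit 0) (XT.nd (nat_lit 78) (nat_lit 0) (nat_lit 0) (XT.lf (nat_lit 0) (nat_lit 49630133617) (nat_lit 76) (nat_lit 50198089736) (nat_lit 152) (nat_lit 62212049657) (nat_lit 191) (nat_lit 5) (nat_lit 192) (nat_lit 5) (nat_lit 193) (nat_lit 4) (nat_lit 441) (nat_lit 378) (nat_lit 201)) (XT.lf (nat_lit 0) (nat_lit 154015182651) (nat_lit 152) (nat_lit 6920165375) (nat_lit 0) (nat_lit 6378005839) (nat_lit 191) (nat_lit 5) (nat_lit 193) (nat_lit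 4) (nat_lit 191) (nat_lit 4) (nat_lit 442) (nat_lit 378) (nat_lit 200))) (XT.nd (nat_lit 78) (nat_lit 76) (nat_lit 0) (XT.lf (nat_lit 0) (nat_lit 39367490860) (nat_lit 152) (nat_lit 66935010021) (nat_lit 76) (nat_lit 66391661012) (nat_lit 189) (nat_lit 5) (nat_lit 191) (nat_lit 5) (nat_lit 190) (nat_lit 4) (nat_lit 443) (nat_lit 378) (nat_lit 199)) (XT.lf (nat_lit 0) (nat_lit 47265584304) (nat_lit 76) (nat_lit 47810066145) (nat_lit 152) (nat_lit 83214653726) (nat_lit 188) (nat_lit 5) (nat_lit 189) (nat_lit 5) (nat_lit 190) (nat_lit 4) (nat_lit 444) (nat_lit 378) (nat_lit 198)))) (XT.nd (nat_lit 156) (nat_lit 228) (nat_lit 0) (XT.nd (nat_lit 78) (nat_lit 152) (nat_lit 0) (XT.lf (nat_lit 0) (nat_lit 154932879149) (nat_lit 152) (nat_lit 14842386505) (nat_lit 0) (nat_lit 14322804859) (nat_lit 188) (nat_lit 5) (nat_lit 190) (nat_lit 4) (nat_lit 188) (nat_lit 4) (nat_lit 445) (nat_lit 378) (nat_lit 197))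 (XT.lf (nat_lit 0) (nat_lit 29243169136) (nat_lit 152) (nat_lit 80662556143) (nat_lit 76) (nat_lit 80141995915) (nat_lit 186) (nat_lit 5) (nat_lit 188) (nat_lit 5) (nat_lit 187) (nat_lit 4) (nat_lit 446) (nat_lit 378) (nat_lit 196))) (XT.nd (nat_lit 78) (nat_lit 152) (nat_lit 0) (XT.lf (nat_lit 0) (nat_lit 45013847039) (nat_lit 76) (nat_lit 45535339251) (nat_lit 152) (nat_lit 105673893209) (nat_lit 185) (nat_lit 5) (nat_lit 186) (nat_lit 5) (nat_lit 187) (nat_lit 4) (nat_lit 447) (nat_lit 378) (nat_lit 195)) (XT.nd (nat_lit 78) (nat_lit 152) (nat_lit 0) (XT.lf (nat_lit 0) (nat_lit 156652383320) (nat_lit 152) (nat_lit 23232866516) (nat_lit 0) (nat_lit 22735361930) (nat_lit 185) (nat_lit 5) (nat_lit 187) (nat_lit 4) (nat_lit 185) (nat_lit 4) (nat_lit 448) (nat_lit 378) (nat_lit 194)) (XT.lf (nat_lit 0) (nat_lit 18755082834) (nat_lit 152) (nat_lit 95469906660) (nat_lit 76) (nat_lit 94971596992) (nat_lit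 183) (nat_lit 5) (nat_lit 185) (nat_lit 5) (nat_lit 184) (nat_lit 4) (nat_lit 449) (nat_lit 378) (nat_lit 193))))))))
noncomputable def xc239 : XT := (XT.nd (nat_lit 2496) (nat_lit 684) (nat_lit 0) (XT.nd (nat_lit 1248) (nat_lit 1140) (nat_lit 0) (XT.nd (nat_lit 624) (nat_lit 684) (nat_lit 0) (XT.nd (nat_lit 312) (nat_lit 228) (nat_lit 0) (XT.nd (nat_lit 156) (nat_lit 228) (nat_lit 0) (XT.nd (nat_lit 78) (nat_lit 0) (nat_lit 0) (XT.lf (nat_lit 0) (nat_lit 42869511796) (nat_lit 76) (nat_lit 43368588210) (nat_lit 152) (nat_lit 129772162348) (nat_lit 182) (nat_lit 5) (nat_lit 183) (nat_lit 5) (nat_lit 184) (nat_lit 4) (nat_lit 450) (nat_lit 378) (nat_lit 192)) (XT.lf (nat_lit 0) (nat_lit 159222231051) (nat_lit 152) (nat_lit 32156024572) (nat_lit 0) (nat_lit 31680018241) (nat_lit 182) (nat_lit 5) (nat_lit 184) (nat_lit 4) (nat_lit 182) (nat_lit 4) (nat_lit 451) (nat_lit 378) (nat_lit 191))) (XT.nd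 (nat_lit 78) (nat_lit 76) (nat_lit 0) (XT.lf (nat_lit 0) (nat_lit 7833902054) (nat_lit 152) (nat_lit 111483375941) (nat_lit 76) (nat_lit 111006707267) (nat_lit 180) (nat_lit 5) (nat_lit 182) (nat_lit 5) (nat_lit 181) (nat_lit 4) (nat_lit 452) (nat_lit 378) (nat_lit 190)) (XT.lf (nat_lit 0) (nat_lit 40827432912) (nat_lit 76) (nat_lit 41304732389) (nat_lit 152) (nat_lit 155708985764) (nat_lit 179) (nat_lit 5) (nat_lit 180) (nat_lit 5) (nat_lit 181) (nat_lit 4) (nat_lit 453) (nat_lit 378) (nat_lit 189)))) (XT.nd (nat_lit 156) (nat_lit 152) (nat_lit 0) (XT.nd (nat_lit 78) (nat_lit 76) (nat_lit 0) (XT.lf (nat_lit 0) (nat_lit 162697526169) (nat_lit 152) (nat_lit 41682091427) (nat_lit 0) (nat_lit 41226948340) (nat_lit 179) (nat_lit 5) (nat_lit 181) (nat_lit 4) (nat_lit 179) (nat_lit 4) (nat_lit 454) (nat_lit 378) (nat_lit 188)) (XT.lf (nat_lit 0) (nat_lit 124729603758) (nat_lit 76) (nat_lit 125185291756)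 (nat_lit 76) (nat_lit 3714169015) (nat_lit 178) (nat_lit 4) (nat_lit 179) (nat_lit 5) (nat_lit 179) (nat_lit 4) (nat_lit 455) (nat_lit 378) (nat_lit 187))) (XT.nd (nat_lit 78) (nat_lit 0) (nat_lit 0) (XT.lf (nat_lit 0) (nat_lit 38882715300) (nat_lit 76) (nat_lit 39338922262) (nat_lit 152) (nat_lit 183702846957) (nat_lit 176) (nat_lit 5) (nat_lit 177) (nat_lit 5) (nat_lit 178) (nat_lit 4) (nat_lit 456) (nat_lit 378) (nat_lit 186)) (XT.lf (nat_lit 0) (nat_lit 167140539453) (nat_lit 152) (nat_lit 51887744460) (nat_lit 0) (nat_lit 51452790924) (nat_lit 176) (nat_lit 5) (nat_lit 178) (nat_lit 4) (nat_lit 176) (nat_lit 4) (nat_lit 457) (nat_lit 378) (nat_lit 185))))) (XT.nd (nat_lit 312) (nat_lit 380) (nat_lit 0) (XT.nd (nat_lit 156) (nat_lit 76) (nat_lit 0) (XT.nd (nat_lit 78) (nat_lit 152) (nat_lit 0) (XT.lf (nat_lit 0) (nat_lit 131382705503) (nat_lit 76) (nat_lit 131818107339) (nat_lit 76) (nat_lit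 16129910510) (nat_lit 175) (nat_lit 4) (nat_lit 176) (nat_lit 5) (nat_lit 176) (nat_lit 4) (nat_lit 458) (nat_lit 378) (nat_lit 184)) (XT.lf (nat_lit 0) (nat_lit 37030701537) (nat_lit 76) (nat_lit 37466530325) (nat_lit 152) (nat_lit 213993201104) (nat_lit 173) (nat_lit 5) (nat_lit 174) (nat_lit 5) (nat_lit 175) (nat_lit 4) (nat_lit 459) (nat_lit 378) (nat_lit 183))) (XT.nd (nat_lit 78) (nat_lit 76) (nat_lit 0) (XT.lf (nat_lit 0) (nat_lit 172621372284) (nat_lit 152) (nat_lit 62856805624) (nat_lit 0) (nat_lit 62441343329) (nat_lit 173) (nat_lit 5) (nat_lit 175) (nat_lit 4) (nat_lit 173) (nat_lit 4) (nat_lit 460) (nat_lit 378) (nat_lit 182)) (XT.lf (nat_lit 0) (nat_lit 139009869000) (nat_lit 76) (nat_lit 139425700112) (nat_lit 76) (nat_lit 29245302340) (nat_lit 172) (nat_lit 4) (nat_lit 173) (nat_lit 5) (nat_lit 173) (nat_lit 4) (nat_lit 461) (nat_lit 378) (nat_lit 181)))) (XT.nd (nat_lit 156) (nat_lit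 228) (nat_lit 0) (XT.nd (nat_lit 78) (nat_lit 0) (nat_lit 0) (XT.lf (nat_lit 0) (nat_lit 35266959733) (nat_lit 76) (nat_lit 35683142100) (nat_lit 152) (nat_lit 246842691140) (nat_lit 170) (nat_lit 5) (nat_lit 171) (nat_lit 5) (nat_lit 172) (nat_lit 4) (nat_lit 462) (nat_lit 378) (nat_lit 180)) (XT.lf (nat_lit 0) (nat_lit 179218691459) (nat_lit 152) (nat_lit 74681008925) (nat_lit 0) (nat_lit 74284326168) (nat_lit 170) (nat_lit 5) (nat_lit 172) (nat_lit 4) (nat_lit 170) (nat_lit 4) (nat_lit 463) (nat_lit 378) (nat_lit 179))) (XT.nd (nat_lit 78) (nat_lit 152) (nat_lit 0) (XT.lf (nat_lit 0) (nat_lit 147697001412) (nat_lit 76) (nat_lit 148093987597) (nat_lit 76) (nat_lit 43159318879) (nat_lit 169) (nat_lit 4) (nat_lit 170) (nat_lit 5) (nat_lit 170) (nat_lit 4) (nat_lit 464) (nat_lit 378) (nat_lit 178)) (XT.lf (nat_lit 0) (nat_lit 33587272133) (nat_lit 76) (nat_lit 33984547295) (nat_lit 152) (nat_lit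 282539588041) (nat_lit 167) (nat_lit 5) (nat_lit 168) (nat_lit 5) (nat_lit 169) (nat_lit 4) (nat_lit 465) (nat_lit 378) (nat_lit 177)))))) (XT.nd (nat_lit 624) (nat_lit 608) (nat_lit 0) (XT.nd (nat_lit 312) (nat_lit 304) (nat_lit 0) (XT.nd (nat_lit 156) (nat_lit 152) (nat_lit 0) (XT.nd (nat_lit 78) (nat_lit 76) (nat_lit 0) (XT.lf (nat_lit 0) (nat_lit 187020542352) (nat_lit 152) (nat_lit 87460844702) (nat_lit 0) (nat_lit 87082225293) (nat_lit 167) (nat_lit 5) (nat_lit 169) (nat_lit 4) (nat_lit 167) (nat_lit 4) (nat_lit 466) (nat_lit 378) (nat_lit 176)) (XT.lf (nat_lit 0) (nat_lit 157539483129) (nat_lit 76) (nat_lit 157918352168) (nat_lit 76) (nat_lit 57979785478) (nat_lit 166) (nat_lit 4) (nat_lit 167) (nat_lit 5) (nat_lit 167) (nat_lit 4) (nat_lit 467) (nat_lit 378) (nat_lit 175))) (XT.nd (nat_lit 78) (nat_lit 0) (nat_lit 0) (XT.lf (nat_lit 0) (nat_lit 31987624364) (nat_lit 76) (nat_lit 32366731146)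 (nat_lit 152) (nat_lit 321400478399) (nat_lit 164) (nat_lit 5) (nat_lit 165) (nat_lit 5) (nat_lit 166) (nat_lit 4) (nat_lit 468) (nat_lit 378) (nat_lit 174)) (XT.lf (nat_lit 0) (nat_lit 196125248349) (nat_lit 152) (nat_lit 101306488682) (nat_lit 0) (nat_lit 100945218964) (nat_lit 164) (nat_lit 5) (nat_lit 166) (nat_lit 4) (nat_lit 164) (nat_lit 4) (nat_lit 469) (nat_lit 378) (nat_lit 173)))) (XT.nd (nat_lit 156) (nat_lit 76) (nat_lit 0) (XT.nd (nat_lit 78) (nat_lit 152) (nat_lit 0) (XT.lf (nat_lit 0) (nat_lit 168643106226) (nat_lit 76) (nat_lit 169004581316) (nat_lit 76) (nat_lit 73824346559) (nat_lit 163) (nat_lit 4) (nat_lit 164) (nat_lit 5) (nat_lit 164) (nat_lit 4) (nat_lit 470) (nat_lit 378) (nat_lit 172)) (XT.lf (nat_lit 0) (nat_lit 30464195307) (nat_lit 76) (nat_lit 30825865988) (nat_lit 152) (nat_lit 363773224733) (nat_lit 161) (nat_lit 5) (nat_lit 162) (nat_lit 5) (nat_lit 163) (nat_lit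 4) (nat_lit 471) (nat_lit 378) (nat_lit 171))) (XT.nd (nat_lit 78) (nat_lit 76) (nat_lit 0) (XT.lf (nat_lit 0) (nat_lit 206642405281) (nat_lit 152) (nat_lit 116338824645) (nat_lit 0) (nat_lit 115994198970) (nat_lit 161) (nat_lit 5) (nat_lit 163) (nat_lit 4) (nat_lit 161) (nat_lit 4) (nat_lit 472) (nat_lit 378) (nat_lit 170)) (XT.lf (nat_lit 0) (nat_lit 181125110807) (nat_lit 76) (nat_lit 181469905442) (nat_lit 76) (nat_lit 90821530171) (nat_lit 160) (nat_lit 4) (nat_lit 161) (nat_lit 5) (nat_lit 161) (nat_lit 4) (nat_lit 473) (nat_lit 378) (nat_lit 169))))) (XT.nd (nat_lit 312) (nat_lit 228) (nat_lit 0) (XT.nd (nat_lit 156) (nat_lit 228) (nat_lit 0) (XT.nd (nat_lit 78) (nat_lit 0) (nat_lit 0) (XT.lf (nat_lit 0) (nat_lit 29013347519) (nat_lit 76) (nat_lit 29358303068) (nat_lit 152) (nat_lit 410040226606) (nat_lit 158) (nat_lit 5) (nat_lit 159) (nat_lit 5) (nat_lit 160) (nat_lit 4) (nat_lit 474)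 (nat_lit 378) (nat_lit 168)) (XT.lf (nat_lit 0) (nat_lit 218693980493) (nat_lit 152) (nat_lit 132690570364) (nat_lit 0) (nat_lit 132361895316) (nat_lit 158) (nat_lit 5) (nat_lit 160) (nat_lit 4) (nat_lit 158) (nat_lit 4) (nat_lit 475) (nat_lit 378) (nat_lit 167))) (XT.nd (nat_lit 78) (nat_lit 152) (nat_lit 0) (XT.lf (nat_lit 0) (nat_lit 195115329136) (nat_lit 76) (nat_lit 195444143187) (nat_lit 76) (nat_lit 109111919007) (nat_lit 157) (nat_lit 4) (nat_lit 158) (nat_lit 5) (nat_lit 158) (nat_lit 4) (nat_lit 476) (nat_lit 378) (nat_lit 166)) (XT.lf (nat_lit 0) (nat_lit 27631618184) (nat_lit 76) (nat_lit 27960564620) (nat_lit 152) (nat_lit 460622013469) (nat_lit 155) (nat_lit 5) (nat_lit 156) (nat_lit 5) (nat_lit 157) (nat_lit 4) (nat_lit 477) (nat_lit 378) (nat_lit 165)))) (XT.nd (nat_lit 156) (nat_lit 152) (nat_lit 0) (XT.nd (nat_lit 78) (nat_lit 76) (nat_lit 0) (XT.lf (nat_lit 0) (nat_lit 232415527160)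 (nat_lit 152) (nat_lit 150507517514) (nat_lit 0) (nat_lit 150194115118) (nat_lit 155) (nat_lit 5) (nat_lit 157) (nat_lit 4) (nat_lit 155) (nat_lit 4) (nat_lit 478) (nat_lit 378) (nat_lit 164)) (XT.lf (nat_lit 0) (nat_lit 210757448541) (nat_lit 76) (nat_lit 211070965296) (nat_lit 76) (nat_lit 128849438894) (nat_lit 154) (nat_lit 4) (nat_lit 155) (nat_lit 5) (nat_lit 155) (nat_lit 4) (nat_lit 479) (nat_lit 378) (nat_lit 163))) (XT.nd (nat_lit 78) (nat_lit 0) (nat_lit 0) (XT.lf (nat_lit 0) (nat_lit 26315710547) (nat_lit 76) (nat_lit 26629336214) (nat_lit 152) (nat_lit 515981203340) (nat_lit 152) (nat_lit 5) (nat_lit 153) (nat_lit 5) (nat_lit 154) (nat_lit 4) (nat_lit 480) (nat_lit 378) (nat_lit 162)) (XT.lf (nat_lit 0) (nat_lit 247957525556) (nat_lit 152) (nat_lit 169949897321) (nat_lit 0) (nat_lit 169651107422) (nat_lit 152) (nat_lit 5) (nat_lit 154) (nat_lit 4) (nat_lit 152) (nat_lit 4) (nat_lit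 481) (nat_lit 378) (nat_lit 161))))))) (XT.nd (nat_lit 45708) (nat_lit 0) (nat_lit 8360) (XT.nd (nat_lit 45084) (nat_lit 0) (nat_lit 11324) (XT.nd (nat_lit 312) (nat_lit 380) (nat_lit 0) (XT.nd (nat_lit 156) (nat_lit 76) (nat_lit 0) (XT.nd (nat_lit 78) (nat_lit 152) (nat_lit 0) (XT.lf (nat_lit 0) (nat_lit 228210405153) (nat_lit 76) (nat_lit 228509289135) (nat_lit 76) (nat_lit 150202776918) (nat_lit 151) (nat_lit 4) (nat_lit 152) (nat_lit 5) (nat_lit 152) (nat_lit 4) (nat_lit 482) (nat_lit 378) (nat_lit 160)) (XT.lf (nat_lit 0) (nat_lit 25062485797) (nat_lit 76) (nat_lit 25361459381) (nat_lit 152) (nat_lit 576626864926) (nat_lit 149) (nat_lit 5) (nat_lit 150) (nat_lit 5) (nat_lit 151) (nat_lit 4) (nat_lit 483) (nat_lit 378) (nat_lit 159))) (XT.nd (nat_lit 78) (nat_lit 76) (nat_lit 0) (XT.lf (nat_lit 0) (nat_lit 265486864176) (nat_lit 152) (nat_lit 191193884905) (nat_lit 0) (nat_lit 190909066885)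 (nat_lit 149) (nat_lit 5) (nat_lit 151) (nat_lit 4) (nat_lit 149) (nat_lit 4) (nat_lit 484) (nat_lit 378) (nat_lit 158)) (XT.lf (nat_lit 0) (nat_lit 247649921824) (nat_lit 76) (nat_lit 247934817246) (nat_lit 76) (nat_lit 173356942553) (nat_lit 148) (nat_lit 4) (nat_lit 149) (nat_lit 5) (nat_lit 149) (nat_lit 4) (nat_lit 485) (nat_lit 378) (nat_lit 157)))) (XT.nd (nat_lit 156) (nat_lit 228) (nat_lit 0) (XT.nd (nat_lit 78) (nat_lit 0) (nat_lit 0) (XT.lf (nat_lit 0) (nat_lit 23868955379) (nat_lit 76) (nat_lit 24153924517) (nat_lit 152) (nat_lit 643119324631) (nat_lit 146) (nat_lit 5) (nat_lit 147) (nat_lit 5) (nat_lit 148) (nat_lit 4) (nat_lit 486) (nat_lit 378) (nat_lit 156)) (XT.lf (nat_lit 0) (nat_lit 285188474965) (nat_lit 152) (nat_lit 214433256612) (nat_lit 0) (nat_lit 214161790569) (nat_lit 146) (nat_lit 5) (nat_lit 148) (nat_lit 4) (nat_lit 146) (nat_lit 4) (nat_lit 487) (nat_lit 378) (nat_lit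 155))) (XT.nd (nat_lit 78) (nat_lit 152) (nat_lit 0) (XT.lf (nat_lit 0) (nat_lit 269270204929) (nat_lit 76) (nat_lit 269541734651) (nat_lit 76) (nat_lit 198514986576) (nat_lit 145) (nat_lit 4) (nat_lit 146) (nat_lit 5) (nat_lit 146) (nat_lit 4) (nat_lit 488) (nat_lit 378) (nat_lit 154)) (XT.lf (nat_lit 0) (nat_lit 22732273699) (nat_lit 76) (nat_lit 23003864067) (nat_lit 152) (nat_lit 716075464144) (nat_lit 143) (nat_lit 5) (nat_lit 144) (nat_lit 5) (nat_lit 145) (nat_lit 4) (nat_lit 489) (nat_lit 378) (nat_lit 153))))) (XT.nd (nat_lit 312) (nat_lit 0) (nat_lit 152) (XT.nd (nat_lit 156) (nat_lit 0) (nat_lit 76) (XT.nd (nat_lit 78) (nat_lit 0) (nat_lit 0) (XT.lf (nat_lit 0) (nat_lit 5796950274) (nat_lit 836) (nat_lit 3917576539) (nat_lit 836) (nat_lit 3917576539) (nat_lit 292) (nat_lit 3) (nat_lit 303) (nat_lit 3) (nat_lit 303) (nat_lit 5) (nat_lit 379) (nat_lit 379) (nat_lit 262)) (XT.lf (nat_lit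 76) (nat_lit 5988623630) (nat_lit 0) (nat_lit 6075722595) (nat_lit 836) (nat_lit 15872435740) (nat_lit 293) (nat_lit 5) (nat_lit 292) (nat_lit 3) (nat_lit 303) (nat_lit 5) (nat_lit 380) (nat_lit 379) (nat_lit 261))) (XT.nd (nat_lit 78) (nat_lit 0) (nat_lit 0) (XT.lf (nat_lit 0) (nat_lit 12811647525) (nat_lit 760) (nat_lit 7990312260) (nat_lit 836) (nat_lit 7828359536) (nat_lit 293) (nat_lit 5) (nat_lit 303) (nat_lit 5) (nat_lit 304) (nat_lit 5) (nat_lit 381) (nat_lit 379) (nat_lit 260)) (XT.lf (nat_lit 76) (nat_lit 6779628282) (nat_lit 0) (nat_lit 7016820367) (nat_lit 836) (nat_lit 15552078157) (nat_lit 294) (nat_lit 5) (nat_lit 293) (nat_lit 5) (nat_lit 304) (nat_lit 5) (nat_lit 382) (nat_lit 379) (nat_lit 259)))) (XT.nd (nat_lit 156) (nat_lit 0) (nat_lit 76) (XT.nd (nat_lit 78) (nat_lit 0) (nat_lit 0) (XT.lf (nat_lit 0) (nat_lit 15079380487) (nat_lit 760) (nat_lit 7652480593) (nat_lit 836) (nat_lit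 7358339052) (nat_lit 294) (nat_lit 5) (nat_lit 304) (nat_lit 5) (nat_lit 305) (nat_lit 5) (nat_lit 383) (nat_lit 379) (nat_lit 258)) (XT.lf (nat_lit 76) (nat_lit 8152397597) (nat_lit 0) (nat_lit 8511533727) (nat_lit 836) (nat_lit 14193152181) (nat_lit 295) (nat_lit 5) (nat_lit 294) (nat_lit 5) (nat_lit 305) (nat_lit 5) (nat_lit 384) (nat_lit 379) (nat_lit 257))) (XT.nd (nat_lit 78) (nat_lit 0) (nat_lit 0) (XT.lf (nat_lit 0) (nat_lit 18555027820) (nat_lit 760) (nat_lit 6748451869) (nat_lit 836) (nat_lit 6347465452) (nat_lit 295) (nat_lit 5) (nat_lit 305) (nat_lit 5) (nat_lit 306) (nat_lit 5) (nat_lit 385) (nat_lit 379) (nat_lit 256)) (XT.lf (nat_lit 76) (nat_lit 10188871380) (nat_lit 0) (nat_lit 10646002567) (nat_lit 836) (nat_lit 11634916171) (nat_lit 296) (nat_lit 5) (nat_lit 295) (nat_lit 5) (nat_lit 306) (nat_lit 5) (nat_lit 386) (nat_lit 379) (nat_lit 255)))))) (XT.nd (nat_lit 624) (nat_lit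 1672) (nat_lit 0) (XT.nd (nat_lit 312) (nat_lit 912) (nat_lit 0) (XT.nd (nat_lit 156) (nat_lit 684) (nat_lit 0) (XT.nd (nat_lit 78) (nat_lit 0) (nat_lit 0) (XT.lf (nat_lit 0) (nat_lit 23414706884) (nat_lit 760) (nat_lit 5195929365) (nat_lit 836) (nat_lit 4709641369) (nat_lit 296) (nat_lit 5) (nat_lit 306) (nat_lit 5) (nat_lit 307) (nat_lit 5) (nat_lit 387) (nat_lit 379) (nat_lit 254)) (XT.lf (nat_lit 76) (nat_lit 12980949549) (nat_lit 0) (nat_lit 13515737507) (nat_lit 836) (nat_lit 7697944659) (nat_lit 297) (nat_lit 5) (nat_lit 296) (nat_lit 5) (nat_lit 307) (nat_lit 5) (nat_lit 388) (nat_lit 379) (nat_lit 253))) (XT.nd (nat_lit 78) (nat_lit 760) (nat_lit 0) (XT.lf (nat_lit 0) (nat_lit 29854756668) (nat_lit 760) (nat_lit 2902580043) (nat_lit 76) (nat_lit 2349267283) (nat_lit 297) (nat_lit 5) (nat_lit 307) (nat_lit 5) (nat_lit 298) (nat_lit 5) (nat_lit 389) (nat_lit 379) (nat_lit 252)) (XT.lf (nat_lit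 0) (nat_lit 16631526840) (nat_lit 760) (nat_lit 17226735692) (nat_lit 836) (nat_lit 2182035717) (nat_lit 287) (nat_lit 5) (nat_lit 297) (nat_lit 5) (nat_lit 298) (nat_lit 5) (nat_lit 390) (nat_lit 379) (nat_lit 251)))) (XT.nd (nat_lit 156) (nat_lit 380) (nat_lit 0) (XT.nd (nat_lit 78) (nat_lit 0) (nat_lit 0) (XT.lf (nat_lit 0) (nat_lit 211227728) (nat_lit 456) (nat_lit 846337620) (nat_lit 532) (nat_lit 35959817719) (nat_lit 280) (nat_lit 5) (nat_lit 286) (nat_lit 5) (nat_lit 287) (nat_lit 5) (nat_lit 391) (nat_lit 379) (nat_lit 250)) (XT.lf (nat_lit 0) (nat_lit 4971708858) (nat_lit 532) (nat_lit 16840794020) (nat_lit 76) (nat_lit 16199736038) (nat_lit 280) (nat_lit 5) (nat_lit 287) (nat_lit 5) (nat_lit 281) (nat_lit 5) (nat_lit 392) (nat_lit 379) (nat_lit 249))) (XT.nd (nat_lit 78) (nat_lit 0) (nat_lit 0) (XT.lf (nat_lit 0) (nat_lit 4241392680) (nat_lit 380) (nat_lit 4916918680) (nat_lit 456) (nat_lit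 29894688608) (nat_lit 275) (nat_lit 5) (nat_lit 280) (nat_lit 5) (nat_lit 281) (nat_lit 5) (nat_lit 393) (nat_lit 379) (nat_lit 248)) (XT.lf (nat_lit 0) (nat_lit 14041101515) (nat_lit 456) (nat_lit 13377488143) (nat_lit 76) (nat_lit 12702866539) (nat_lit 275) (nat_lit 5) (nat_lit 281) (nat_lit 5) (nat_lit 276) (nat_lit 5) (nat_lit 394) (nat_lit 379) (nat_lit 247))))) (XT.nd (nat_lit 312) (nat_lit 988) (nat_lit 0) (XT.nd (nat_lit 156) (nat_lit 304) (nat_lit 0) (XT.nd (nat_lit 78) (nat_lit 0) (nat_lit 0) (XT.lf (nat_lit 0) (nat_lit 9343518841) (nat_lit 380) (nat_lit 10047915214) (nat_lit 456) (nat_lit 21840731037) (nat_lit 270) (nat_lit 5) (nat_lit 275) (nat_lit 5) (nat_lit 276) (nat_lit 5) (nat_lit 395) (nat_lit 379) (nat_lit 246)) (XT.lf (nat_lit 0) (nat_lit 25364452669) (nat_lit 456) (nat_lit 8857029287) (nat_lit 76) (nat_lit 8159169004) (nat_lit 270) (nat_lit 5) (nat_lit 276) (nat_lit 5) (nat_lit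 271) (nat_lit 5) (nat_lit 396) (nat_lit 379) (nat_lit 245))) (XT.nd (nat_lit 78) (nat_lit 0) (nat_lit 0) (XT.lf (nat_lit 0) (nat_lit 15659451830) (nat_lit 304) (nat_lit 16383032679) (nat_lit 380) (nat_lit 11523758497) (nat_lit 266) (nat_lit 5) (nat_lit 270) (nat_lit 5) (nat_lit 271) (nat_lit 5) (nat_lit 397) (nat_lit 379) (nat_lit 244)) (XT.lf (nat_lit 0) (nat_lit 39240758354) (nat_lit 380) (nat_lit 3136746605) (nat_lit 76) (nat_lit 2424292676) (nat_lit 266) (nat_lit 5) (nat_lit 271) (nat_lit 5) (nat_lit 267) (nat_lit 5) (nat_lit 398) (nat_lit 379) (nat_lit 243)))) (XT.nd (nat_lit 156) (nat_lit 304) (nat_lit 0) (XT.nd (nat_lit 78) (nat_lit 304) (nat_lit 0) (XT.lf (nat_lit 0) (nat_lit 1318211408) (nat_lit 380) (nat_lit 22741502452) (nat_lit 76) (nat_lit 22006830130) (nat_lit 261) (nat_lit 5) (nat_lit 266) (nat_lit 5) (nat_lit 262) (nat_lit 5) (nat_lit 399) (nat_lit 379) (nat_lit 242)) (XT.lf (nat_lit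 0) (nat_lit 3855144692) (nat_lit 304) (nat_lit 4610977386) (nat_lit 380) (nat_lit 38918268114) (nat_lit 257) (nat_lit 5) (nat_lit 261) (nat_lit 5) (nat_lit 262) (nat_lit 5) (nat_lit 400) (nat_lit 379) (nat_lit 241))) (XT.nd (nat_lit 78) (nat_lit 304) (nat_lit 0) (XT.lf (nat_lit 0) (nat_lit 16607189995) (nat_lit 380) (nat_lit 16434092184) (nat_lit 76) (nat_lit 15695058441) (nat_lit 257) (nat_lit 5) (nat_lit 262) (nat_lit 5) (nat_lit 258) (nat_lit 5) (nat_lit 401) (nat_lit 379) (nat_lit 240)) (XT.lf (nat_lit 0) (nat_lit 12331855890) (nat_lit 304) (nat_lit 13089168759) (nat_lit 380) (nat_lit 24721578253) (nat_lit 253) (nat_lit 5) (nat_lit 257) (nat_lit 5) (nat_lit 258) (nat_lit 5) (nat_lit 402) (nat_lit 379) (nat_lit 239))))))))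
noncomputable def xc240 : XT := (XT.nd (nat_lit 1248) (nat_lit 1824) (nat_lit 0) (XT.nd (nat_lit 624) (nat_lit 836) (nat_lit 0) (XT.nd (nat_lit 312) (nat_lit 760) (nat_lit 0) (XT.nd (nat_lit 156) (nat_lit 380) (nat_lit 0) (XT.nd (nat_lit 78) (nat_lit 228) (nat_lit 0) (XT.lf (nat_lit 0) (nat_lit 35078804000) (nat_lit 380) (nat_lit 8629020853) (nat_lit 76) (nat_lit 7891190796) (nat_lit 253) (nat_lit 5) (nat_lit 258) (nat_lit 5) (nat_lit 254) (nat_lit 5) (nat_lit 403) (nat_lit 379) (nat_lit 238)) (XT.lf (nat_lit 0) (nat_lit 22514853246) (nat_lit 228) (nat_lit 23268473500) (nat_lit 304) (nat_lit 7316729567) (nat_lit 250) (nat_lit 5) (nat_lit 253) (nat_lit 5) (nat_lit 254) (nat_lit 5) (nat_lit 404) (nat_lit 379) (nat_lit 237))) (XT.nd (nat_lit 78) (nat_lit 0) (nat_lit 0) (XT.lf (nat_lit 0) (nat_lit 831222507) (nat_lit 304) (nat_lit 1599881043) (nat_lit 380) (nat_lit 52235248691) (nat_lit 245) (nat_lit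 5) (nat_lit 249) (nat_lit 5) (nat_lit 250) (nat_lit 5) (nat_lit 405) (nat_lit 379) (nat_lit 236)) (XT.lf (nat_lit 0) (nat_lit 13274979234) (nat_lit 380) (nat_lit 21866477639) (nat_lit 76) (nat_lit 21120781726) (nat_lit 245) (nat_lit 5) (nat_lit 250) (nat_lit 5) (nat_lit 246) (nat_lit 5) (nat_lit 406) (nat_lit 379) (nat_lit 235)))) (XT.nd (nat_lit 156) (nat_lit 532) (nat_lit 0) (XT.nd (nat_lit 78) (nat_lit 0) (nat_lit 0) (XT.lf (nat_lit 0) (nat_lit 12057386408) (nat_lit 228) (nat_lit 12816072955) (nat_lit 304) (nat_lit 33053839377) (nat_lit 242) (nat_lit 5) (nat_lit 245) (nat_lit 5) (nat_lit 246) (nat_lit 5) (nat_lit 407) (nat_lit 379) (nat_lit 234)) (XT.lf (nat_lit 0) (nat_lit 37592122874) (nat_lit 304) (nat_lit 11395408775) (nat_lit 76) (nat_lit 10661067271) (nat_lit 242) (nat_lit 5) (nat_lit 246) (nat_lit 5) (nat_lit 243) (nat_lit 5) (nat_lit 408) (nat_lit 379) (nat_lit 233))) (XT.nd (nat_lit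 78) (nat_lit 304) (nat_lit 0) (XT.lf (nat_lit 0) (nat_lit 25402968963) (nat_lit 228) (nat_lit 26148532264) (nat_lit 304) (nat_lit 9874223799) (nat_lit 239) (nat_lit 5) (nat_lit 242) (nat_lit 5) (nat_lit 243) (nat_lit 5) (nat_lit 409) (nat_lit 379) (nat_lit 232)) (XT.lf (nat_lit 0) (nat_lit 1139778876) (nat_lit 228) (nat_lit 1896029603) (nat_lit 304) (nat_lit 60243020012) (nat_lit 235) (nat_lit 5) (nat_lit 238) (nat_lit 5) (nat_lit 239) (nat_lit 5) (nat_lit 410) (nat_lit 379) (nat_lit 231))))) (XT.nd (nat_lit 312) (nat_lit 456) (nat_lit 0) (XT.nd (nat_lit 156) (nat_lit 152) (nat_lit 0) (XT.nd (nat_lit 78) (nat_lit 228) (nat_lit 0) (XT.lf (nat_lit 0) (nat_lit 17245669136) (nat_lit 304) (nat_lit 24325724348) (nat_lit 76) (nat_lit 23595791749) (nat_lit 235) (nat_lit 5) (nat_lit 239) (nat_lit 5) (nat_lit 236) (nat_lit 5) (nat_lit 411) (nat_lit 379) (nat_lit 230)) (XT.lf (nat_lit 0) (nat_lit 15851821596)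 (nat_lit 228) (nat_lit 16590986396) (nat_lit 304) (nat_lit 34693312560) (nat_lit 232) (nat_lit 5) (nat_lit 235) (nat_lit 5) (nat_lit 236) (nat_lit 5) (nat_lit 412) (nat_lit 379) (nat_lit 229))) (XT.nd (nat_lit 78) (nat_lit 152) (nat_lit 0) (XT.lf (nat_lit 0) (nat_lit 48967248554) (nat_lit 304) (nat_lit 10460111100) (nat_lit 76) (nat_lit 9747770746) (nat_lit 232) (nat_lit 5) (nat_lit 236) (nat_lit 5) (nat_lit 233) (nat_lit 5) (nat_lit 413) (nat_lit 379) (nat_lit 228)) (XT.lf (nat_lit 0) (nat_lit 33193069948) (nat_lit 152) (nat_lit 33913385424) (nat_lit 228) (nat_lit 4170208158) (nat_lit 230) (nat_lit 5) (nat_lit 232) (nat_lit 5) (nat_lit 233) (nat_lit 5) (nat_lit 414) (nat_lit 379) (nat_lit 227)))) (XT.nd (nat_lit 156) (nat_lit 152) (nat_lit 0) (XT.nd (nat_lit 78) (nat_lit 0) (nat_lit 0) (XT.lf (nat_lit 0) (nat_lit 5903247087) (nat_lit 228) (nat_lit 6631157917) (nat_lit 304) (nat_lit 60925450404)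 (nat_lit 226) (nat_lit 5) (nat_lit 229) (nat_lit 5) (nat_lit 230) (nat_lit 5) (nat_lit 415) (nat_lit 379) (nat_lit 226)) (XT.lf (nat_lit 0) (nat_lit 30931718920) (nat_lit 304) (nat_lit 22733663278) (nat_lit 76) (nat_lit 22033525658) (nat_lit 226) (nat_lit 5) (nat_lit 230) (nat_lit 5) (nat_lit 227) (nat_lit 5) (nat_lit 416) (nat_lit 379) (nat_lit 225))) (XT.nd (nat_lit 78) (nat_lit 0) (nat_lit 0) (XT.lf (nat_lit 0) (nat_lit 25019988988) (nat_lit 152) (nat_lit 25726687761) (nat_lit 228) (nat_lit 27278347266) (nat_lit 224) (nat_lit 5) (nat_lit 226) (nat_lit 5) (nat_lit 227) (nat_lit 5) (nat_lit 417) (nat_lit 379) (nat_lit 224)) (XT.lf (nat_lit 0) (nat_lit 71998504381) (nat_lit 228) (nat_lit 4562816558) (nat_lit 76) (nat_lit 3883818948) (nat_lit 224) (nat_lit 5) (nat_lit 227) (nat_lit 5) (nat_lit 225) (nat_lit 5) (nat_lit 418) (nat_lit 379) (nat_lit 223)))))) (XT.nd (nat_lit 624) (nat_lit 912) (nat_lit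 0) (XT.nd (nat_lit 312) (nat_lit 380) (nat_lit 0) (XT.nd (nat_lit 156) (nat_lit 152) (nat_lit 0) (XT.nd (nat_lit 78) (nat_lit 152) (nat_lit 0) (XT.lf (nat_lit 0) (nat_lit 12143396687) (nat_lit 228) (nat_lit 35729862630) (nat_lit 76) (nat_lit 35045197250) (nat_lit 221) (nat_lit 5) (nat_lit 224) (nat_lit 5) (nat_lit 222) (nat_lit 5) (nat_lit 419) (nat_lit 379) (nat_lit 222)) (XT.lf (nat_lit 0) (nat_lit 16562335584) (nat_lit 152) (nat_lit 17252398840) (nat_lit 228) (nat_lit 51676997872) (nat_lit 219) (nat_lit 5) (nat_lit 221) (nat_lit 5) (nat_lit 222) (nat_lit 5) (nat_lit 420) (nat_lit 379) (nat_lit 221))) (XT.nd (nat_lit 78) (nat_lit 152) (nat_lit 0) (XT.lf (nat_lit 0) (nat_lit 57415842676) (nat_lit 228) (nat_lit 15698809044) (nat_lit 76) (nat_lit 15036709910) (nat_lit 219) (nat_lit 5) (nat_lit 222) (nat_lit 5) (nat_lit 220) (nat_lit 5) (nat_lit 421) (nat_lit 379) (nat_lit 220)) (XT.lf (nat_lit 0)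 (nat_lit 41227688658) (nat_lit 152) (nat_lit 41894450681) (nat_lit 228) (nat_lit 7775576443) (nat_lit 217) (nat_lit 5) (nat_lit 219) (nat_lit 5) (nat_lit 220) (nat_lit 5) (nat_lit 422) (nat_lit 379) (nat_lit 219)))) (XT.nd (nat_lit 156) (nat_lit 152) (nat_lit 0) (XT.nd (nat_lit 78) (nat_lit 0) (nat_lit 0) (XT.lf (nat_lit 0) (nat_lit 7764252165) (nat_lit 152) (nat_lit 8435455035) (nat_lit 228) (nat_lit 77549426659) (nat_lit 214) (nat_lit 5) (nat_lit 216) (nat_lit 5) (nat_lit 217) (nat_lit 5) (nat_lit 423) (nat_lit 379) (nat_lit 218)) (XT.lf (nat_lit 0) (nat_lit 42382875945) (nat_lit 228) (nat_lit 27466810359) (nat_lit 76) (nat_lit 26823541552) (nat_lit 214) (nat_lit 5) (nat_lit 217) (nat_lit 5) (nat_lit 215) (nat_lit 5) (nat_lit 424) (nat_lit 379) (nat_lit 217))) (XT.nd (nat_lit 78) (nat_lit 0) (nat_lit 0) (XT.lf (nat_lit 0) (nat_lit 34955424582) (nat_lit 152) (nat_lit 35602529559) (nat_lit 228)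 (nat_lit 29151434859) (nat_lit 212) (nat_lit 5) (nat_lit 214) (nat_lit 5) (nat_lit 215) (nat_lit 5) (nat_lit 425) (nat_lit 379) (nat_lit 216)) (XT.lf (nat_lit 0) (nat_lit 100618873859) (nat_lit 228) (nat_lit 1437199968) (nat_lit 76) (nat_lit 817429995) (nat_lit 212) (nat_lit 5) (nat_lit 215) (nat_lit 5) (nat_lit 213) (nat_lit 4) (nat_lit 426) (nat_lit 379) (nat_lit 215))))) (XT.nd (nat_lit 312) (nat_lit 456) (nat_lit 0) (XT.nd (nat_lit 156) (nat_lit 152) (nat_lit 0) (XT.nd (nat_lit 78) (nat_lit 152) (nat_lit 0) (XT.lf (nat_lit 0) (nat_lit 26803964782) (nat_lit 152) (nat_lit 39956111039) (nat_lit 76) (nat_lit 39333027238) (nat_lit 210) (nat_lit 5) (nat_lit 212) (nat_lit 5) (nat_lit 211) (nat_lit 5) (nat_lit 427) (nat_lit 379) (nat_lit 214)) (XT.lf (nat_lit 0) (nat_lit 28541309171) (nat_lit 152) (nat_lit 29167548999) (nat_lit 228) (nat_lit 51739519066) (nat_lit 208) (nat_lit 5) (nat_lit 210) (nat_lit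 5) (nat_lit 211) (nat_lit 5) (nat_lit 428) (nat_lit 379) (nat_lit 213))) (XT.nd (nat_lit 78) (nat_lit 152) (nat_lit 0) (XT.lf (nat_lit 0) (nat_lit 91006449710) (nat_lit 228) (nat_lit 11260937117) (nat_lit 76) (nat_lit 10661655624) (nat_lit 208) (nat_lit 5) (nat_lit 211) (nat_lit 5) (nat_lit 209) (nat_lit 4) (nat_lit 429) (nat_lit 379) (nat_lit 212)) (XT.lf (nat_lit 0) (nat_lit 10575978576) (nat_lit 152) (nat_lit 53263942267) (nat_lit 76) (nat_lit 52661934480) (nat_lit 206) (nat_lit 5) (nat_lit 208) (nat_lit 5) (nat_lit 207) (nat_lit 5) (nat_lit 430) (nat_lit 379) (nat_lit 211)))) (XT.nd (nat_lit 156) (nat_lit 304) (nat_lit 0) (XT.nd (nat_lit 78) (nat_lit 0) (nat_lit 0) (XT.lf (nat_lit 0) (nat_lit 21946739664) (nat_lit 152) (nat_lit 22551343923) (nat_lit 228) (nat_lit 75710488516) (nat_lit 204) (nat_lit 5) (nat_lit 206) (nat_lit 5) (nat_lit 207) (nat_lit 5) (nat_lit 431) (nat_lit 379) (nat_lit 210))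 (XT.lf (nat_lit 0) (nat_lit 81356774632) (nat_lit 228) (nat_lit 21629997352) (nat_lit 76) (nat_lit 21051828697) (nat_lit 204) (nat_lit 5) (nat_lit 207) (nat_lit 5) (nat_lit 205) (nat_lit 4) (nat_lit 432) (nat_lit 379) (nat_lit 209))) (XT.nd (nat_lit 78) (nat_lit 228) (nat_lit 0) (XT.lf (nat_lit 0) (nat_lit 60394769203) (nat_lit 76) (nat_lit 60975180787) (nat_lit 152) (nat_lit 6624603211) (nat_lit 203) (nat_lit 5) (nat_lit 204) (nat_lit 5) (nat_lit 205) (nat_lit 4) (nat_lit 433) (nat_lit 379) (nat_lit 208)) (XT.lf (nat_lit 0) (nat_lit 15130338402) (nat_lit 152) (nat_lit 15712886109) (nat_lit 228) (nat_lit 101250321457) (nat_lit 200) (nat_lit 5) (nat_lit 202) (nat_lit 5) (nat_lit 203) (nat_lit 5) (nat_lit 434) (nat_lit 379) (nat_lit 207)))))))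
noncomputable def xc241 : XT := (XT.nd (nat_lit 1248) (nat_lit 1216) (nat_lit 0) (XT.nd (nat_lit 624) (nat_lit 608) (nat_lit 0) (XT.nd (nat_lit 312) (nat_lit 380) (nat_lit 0) (XT.nd (nat_lit 156) (nat_lit 228) (nat_lit 0) (XT.nd (nat_lit 78) (nat_lit 76) (nat_lit 0) (XT.lf (nat_lit 0) (nat_lit 71621033255) (nat_lit 228) (nat_lit 32622404497) (nat_lit 76) (nat_lit 32065659631) (nat_lit 200) (nat_lit 5) (nat_lit 203) (nat_lit 5) (nat_lit 201) (nat_lit 4) (nat_lit 435) (nat_lit 379) (nat_lit 206)) (XT.lf (nat_lit 0) (nat_lit 57516857473) (nat_lit 76) (nat_lit 58075447603) (nat_lit 152) (nat_lit 25085392660) (nat_lit 199) (nat_lit 5) (nat_lit 200) (nat_lit 5) (nat_lit 201) (nat_lit 4) (nat_lit 436) (nat_lit 379) (nat_lit 205))) (XT.nd (nat_lit 78) (nat_lit 0) (nat_lit 0) (XT.lf (nat_lit 0) (nat_lit 8047605732) (nat_lit 152) (nat_lit 8607953256) (nat_lit 228) (nat_lit 128561982236) (nat_lit 196) (nat_lit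 5) (nat_lit 198) (nat_lit 5) (nat_lit 199) (nat_lit 5) (nat_lit 437) (nat_lit 379) (nat_lit 204)) (XT.lf (nat_lit 0) (nat_lit 61747523328) (nat_lit 228) (nat_lit 44323100069) (nat_lit 76) (nat_lit 43787841753) (nat_lit 196) (nat_lit 5) (nat_lit 199) (nat_lit 5) (nat_lit 197) (nat_lit 4) (nat_lit 438) (nat_lit 379) (nat_lit 203)))) (XT.nd (nat_lit 156) (nat_lit 76) (nat_lit 0) (XT.nd (nat_lit 78) (nat_lit 228) (nat_lit 0) (XT.lf (nat_lit 0) (nat_lit 54776338495) (nat_lit 76) (nat_lit 55313114914) (nat_lit 152) (nat_lit 44592213485) (nat_lit 195) (nat_lit 5) (nat_lit 196) (nat_lit 5) (nat_lit 197) (nat_lit 4) (nat_lit 439) (nat_lit 379) (nat_lit 202)) (XT.lf (nat_lit 0) (nat_lit 650541453) (nat_lit 152) (nat_lit 1188763684) (nat_lit 228) (nat_lit 157867256012) (nat_lit 192) (nat_lit 5) (nat_lit 194) (nat_lit 5) (nat_lit 195) (nat_lit 5) (nat_lit 440) (nat_lit 379) (nat_lit 201))) (XT.nd (nat_lit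 78) (nat_lit 76) (nat_lit 0) (XT.lf (nat_lit 0) (nat_lit 51681263637) (nat_lit 228) (nat_lit 56824708372) (nat_lit 76) (nat_lit 56310804376) (nat_lit 192) (nat_lit 5) (nat_lit 195) (nat_lit 5) (nat_lit 193) (nat_lit 4) (nat_lit 441) (nat_lit 379) (nat_lit 200)) (XT.lf (nat_lit 0) (nat_lit 52166607821) (nat_lit 76) (nat_lit 52681760763) (nat_lit 152) (nat_lit 65292481374) (nat_lit 191) (nat_lit 5) (nat_lit 192) (nat_lit 5) (nat_lit 193) (nat_lit 4) (nat_lit 442) (nat_lit 379) (nat_lit 199))))) (XT.nd (nat_lit 312) (nat_lit 380) (nat_lit 0) (XT.nd (nat_lit 156) (nat_lit 76) (nat_lit 0) (XT.nd (nat_lit 78) (nat_lit 152) (nat_lit 0) (XT.lf (nat_lit 0) (nat_lit 161743697631) (nat_lit 152) (nat_lit 7212845408) (nat_lit 0) (nat_lit 6721090727) (nat_lit 191) (nat_lit 5) (nat_lit 193) (nat_lit 4) (nat_lit 191) (nat_lit 4) (nat_lit 443) (nat_lit 379) (nat_lit 198)) (XT.lf (nat_lit 0) (nat_lit 41363565493)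 (nat_lit 152) (nat_lit 70228376529) (nat_lit 76) (nat_lit 69735542961) (nat_lit 189) (nat_lit 5) (nat_lit 191) (nat_lit 5) (nat_lit 190) (nat_lit 4) (nat_lit 444) (nat_lit 379) (nat_lit 197))) (XT.nd (nat_lit 78) (nat_lit 0) (nat_lit 0) (XT.lf (nat_lit 0) (nat_lit 49681386480) (nat_lit 76) (nat_lit 50175247560) (nat_lit 152) (nat_lit 87346825290) (nat_lit 188) (nat_lit 5) (nat_lit 189) (nat_lit 5) (nat_lit 190) (nat_lit 4) (nat_lit 445) (nat_lit 379) (nat_lit 196)) (XT.lf (nat_lit 0) (nat_lit 162705805406) (nat_lit 152) (nat_lit 15533565194) (nat_lit 0) (nat_lit 15062289324) (nat_lit 188) (nat_lit 5) (nat_lit 190) (nat_lit 4) (nat_lit 188) (nat_lit 4) (nat_lit 446) (nat_lit 379) (nat_lit 195)))) (XT.nd (nat_lit 156) (nat_lit 152) (nat_lit 0) (XT.nd (nat_lit 78) (nat_lit 76) (nat_lit 0) (XT.lf (nat_lit 0) (nat_lit 30731564020) (nat_lit 152) (nat_lit 84644697442) (nat_lit 76) (nat_lit 84172533969)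 (nat_lit 186) (nat_lit 5) (nat_lit 188) (nat_lit 5) (nat_lit 187) (nat_lit 4) (nat_lit 447) (nat_lit 379) (nat_lit 194)) (XT.lf (nat_lit 0) (nat_lit 47314703536) (nat_lit 76) (nat_lit 47787712345) (nat_lit 152) (nat_lit 110930529078) (nat_lit 185) (nat_lit 5) (nat_lit 186) (nat_lit 5) (nat_lit 187) (nat_lit 4) (nat_lit 448) (nat_lit 379) (nat_lit 193))) (XT.nd (nat_lit 78) (nat_lit 152) (nat_lit 0) (XT.lf (nat_lit 0) (nat_lit 164509908328) (nat_lit 152) (nat_lit 24345870030) (nat_lit 0) (nat_lit 23894618705) (nat_lit 185) (nat_lit 5) (nat_lit 187) (nat_lit 4) (nat_lit 185) (nat_lit 4) (nat_lit 449) (nat_lit 379) (nat_lit 192)) (XT.lf (nat_lit 0) (nat_lit 19717705079) (nat_lit 152) (nat_lit 100194724442) (nat_lit 76) (nat_lit 99742742884) (nat_lit 183) (nat_lit 5) (nat_lit 185) (nat_lit 5) (nat_lit 184) (nat_lit 4) (nat_lit 450) (nat_lit 379) (nat_lit 191)))))) (XT.nd (nat_lit 624) (nat_lit 684)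 (nat_lit 0) (XT.nd (nat_lit 312) (nat_lit 228) (nat_lit 0) (XT.nd (nat_lit 156) (nat_lit 228) (nat_lit 0) (XT.nd (nat_lit 78) (nat_lit 0) (nat_lit 0) (XT.lf (nat_lit 0) (nat_lit 45060879815) (nat_lit 76) (nat_lit 45513556834) (nat_lit 152) (nat_lit 136235117241) (nat_lit 182) (nat_lit 5) (nat_lit 183) (nat_lit 5) (nat_lit 184) (nat_lit 4) (nat_lit 451) (nat_lit 379) (nat_lit 190)) (XT.lf (nat_lit 0) (nat_lit 167206959682) (nat_lit 152) (nat_lit 33717399398) (nat_lit 0) (nat_lit 33285647624) (nat_lit 182) (nat_lit 5) (nat_lit 184) (nat_lit 4) (nat_lit 182) (nat_lit 4) (nat_lit 452) (nat_lit 379) (nat_lit 189))) (XT.nd (nat_lit 78) (nat_lit 76) (nat_lit 0) (XT.lf (nat_lit 0) (nat_lit 8249183187) (nat_lit 152) (nat_lit 117011087287) (nat_lit 76) (nat_lit 116578734749) (nat_lit 180) (nat_lit 5) (nat_lit 182) (nat_lit 5) (nat_lit 181) (nat_lit 4) (nat_lit 453) (nat_lit 379) (nat_lit 188)) (XT.lf (nat_lit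 0) (nat_lit 42914512694) (nat_lit 76) (nat_lit 43347437389) (nat_lit 152) (nat_lit 163470099709) (nat_lit 179) (nat_lit 5) (nat_lit 180) (nat_lit 5) (nat_lit 181) (nat_lit 4) (nat_lit 454) (nat_lit 379) (nat_lit 187)))) (XT.nd (nat_lit 156) (nat_lit 152) (nat_lit 0) (XT.nd (nat_lit 78) (nat_lit 76) (nat_lit 0) (XT.lf (nat_lit 0) (nat_lit 170854810382) (nat_lit 152) (nat_lit 43721895826) (nat_lit 0) (nat_lit 43309067629) (nat_lit 179) (nat_lit 5) (nat_lit 181) (nat_lit 4) (nat_lit 179) (nat_lit 4) (nat_lit 455) (nat_lit 379) (nat_lit 186)) (XT.lf (nat_lit 0) (nat_lit 131009669599) (nat_lit 76) (nat_lit 131422992046) (nat_lit 76) (nat_lit 3876755043) (nat_lit 178) (nat_lit 4) (nat_lit 179) (nat_lit 5) (nat_lit 179) (nat_lit 4) (nat_lit 456) (nat_lit 379) (nat_lit 185))) (XT.nd (nat_lit 78) (nat_lit 0) (nat_lit 0) (XT.lf (nat_lit 0) (nat_lit 40870461850) (nat_lit 76) (nat_lit 41284255012) (nat_lit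 152) (nat_lit 192864892013) (nat_lit 176) (nat_lit 5) (nat_lit 177) (nat_lit 5) (nat_lit 178) (nat_lit 4) (nat_lit 457) (nat_lit 379) (nat_lit 184)) (XT.lf (nat_lit 0) (nat_lit 175518837727) (nat_lit 152) (nat_lit 54439871483) (nat_lit 0) (nat_lit 54045355805) (nat_lit 176) (nat_lit 5) (nat_lit 178) (nat_lit 4) (nat_lit 176) (nat_lit 4) (nat_lit 458) (nat_lit 379) (nat_lit 183))))) (XT.nd (nat_lit 312) (nat_lit 380) (nat_lit 0) (XT.nd (nat_lit 156) (nat_lit 76) (nat_lit 0) (XT.nd (nat_lit 78) (nat_lit 152) (nat_lit 0) (XT.lf (nat_lit 0) (nat_lit 137993419362) (nat_lit 76) (nat_lit 138388341662) (nat_lit 76) (nat_lit 16914453118) (nat_lit 175) (nat_lit 4) (nat_lit 176) (nat_lit 5) (nat_lit 176) (nat_lit 4) (nat_lit 459) (nat_lit 379) (nat_lit 182)) (XT.lf (nat_lit 0) (nat_lit 38923835873) (nat_lit 76) (nat_lit 39319145431) (nat_lit 152) (nat_lit 224670928917) (nat_lit 173) (nat_lit 5) (nat_lit 174)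 (nat_lit 5) (nat_lit 175) (nat_lit 4) (nat_lit 460) (nat_lit 379) (nat_lit 181))) (XT.nd (nat_lit 78) (nat_lit 76) (nat_lit 0) (XT.lf (nat_lit 0) (nat_lit 181272642053) (nat_lit 152) (nat_lit 65959340868) (nat_lit 0) (nat_lit 65582504320) (nat_lit 173) (nat_lit 5) (nat_lit 175) (nat_lit 4) (nat_lit 173) (nat_lit 4) (nat_lit 461) (nat_lit 379) (nat_lit 180)) (XT.lf (nat_lit 0) (nat_lit 146000017406) (nat_lit 76) (nat_lit 146377188482) (nat_lit 76) (nat_lit 30686716221) (nat_lit 172) (nat_lit 4) (nat_lit 173) (nat_lit 5) (nat_lit 173) (nat_lit 4) (nat_lit 462) (nat_lit 379) (nat_lit 179)))) (XT.nd (nat_lit 156) (nat_lit 228) (nat_lit 0) (XT.nd (nat_lit 78) (nat_lit 0) (nat_lit 0) (XT.lf (nat_lit 0) (nat_lit 37069979685) (nat_lit 76) (nat_lit 37447469360) (nat_lit 152) (nat_lit 259163991471) (nat_lit 170) (nat_lit 5) (nat_lit 171) (nat_lit 5) (nat_lit 172) (nat_lit 4) (nat_lit 463) (nat_lit 379) (nat_lit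 178)) (XT.lf (nat_lit 0) (nat_lit 188198818146) (nat_lit 152) (nat_lit 78376626542) (nat_lit 0) (nat_lit 78016823587) (nat_lit 170) (nat_lit 5) (nat_lit 172) (nat_lit 4) (nat_lit 170) (nat_lit 4) (nat_lit 464) (nat_lit 379) (nat_lit 177))) (XT.nd (nat_lit 78) (nat_lit 152) (nat_lit 0) (XT.lf (nat_lit 0) (nat_lit 155119664429) (nat_lit 76) (nat_lit 155479742601) (nat_lit 76) (nat_lit 45297472825) (nat_lit 169) (nat_lit 4) (nat_lit 170) (nat_lit 5) (nat_lit 170) (nat_lit 4) (nat_lit 465) (nat_lit 379) (nat_lit 176)) (XT.nd (nat_lit 78) (nat_lit 0) (nat_lit 0) (XT.lf (nat_lit 0) (nat_lit 35304462679) (nat_lit 76) (nat_lit 35664802962) (nat_lit 152) (nat_lit 296646769439) (nat_lit 167) (nat_lit 5) (nat_lit 168) (nat_lit 5) (nat_lit 169) (nat_lit 4) (nat_lit 466) (nat_lit 379) (nat_lit 175)) (XT.lf (nat_lit 0) (nat_lit 196389808940) (nat_lit 152) (nat_lit 91797245508) (nat_lit 0) (nat_lit 91453826543)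 (nat_lit 167) (nat_lit 5) (nat_lit 169) (nat_lit 4) (nat_lit 167) (nat_lit 4) (nat_lit 467) (nat_lit 379) (nat_lit 174))))))))
noncomputable def xc242 : XT := (XT.nd (nat_lit 47034) (nat_lit 0) (nat_lit 5624) (XT.nd (nat_lit 1248) (nat_lit 456) (nat_lit 0) (XT.nd (nat_lit 624) (nat_lit 532) (nat_lit 0) (XT.nd (nat_lit 312) (nat_lit 380) (nat_lit 0) (XT.nd (nat_lit 156) (nat_lit 76) (nat_lit 0) (XT.nd (nat_lit 78) (nat_lit 152) (nat_lit 0) (XT.lf (nat_lit 0) (nat_lit 165452507723) (nat_lit 76) (nat_lit 165796153111) (nat_lit 76) (nat_lit 60859944291) (nat_lit 166) (nat_lit 4) (nat_lit 167) (nat_lit 5) (nat_lit 167) (nat_lit 4) (nat_lit 468) (nat_lit 379) (nat_lit 173)) (XT.lf (nat_lit 0) (nat_lit 33623067533) (nat_lit 76) (nat_lit 33966928560) (nat_lit 152) (nat_lit 337451683370) (nat_lit 164) (nat_lit 5) (nat_lit 165) (nat_lit 5) (nat_lit 166) (nat_lit 4) (nat_lit 469) (nat_lit 379) (nat_lit 172)))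 (XT.nd (nat_lit 78) (nat_lit 76) (nat_lit 0) (XT.lf (nat_lit 0) (nat_lit 205948849825) (nat_lit 152) (nat_lit 106336884651) (nat_lit 0) (nat_lit 106009202367) (nat_lit 164) (nat_lit 5) (nat_lit 166) (nat_lit 4) (nat_lit 164) (nat_lit 4) (nat_lit 470) (nat_lit 379) (nat_lit 171)) (XT.lf (nat_lit 0) (nat_lit 177109626641) (nat_lit 76) (nat_lit 177437495203) (nat_lit 76) (nat_lit 77497661467) (nat_lit 163) (nat_lit 4) (nat_lit 164) (nat_lit 5) (nat_lit 164) (nat_lit 4) (nat_lit 471) (nat_lit 379) (nat_lit 170)))) (XT.nd (nat_lit 156) (nat_lit 228) (nat_lit 0) (XT.nd (nat_lit 78) (nat_lit 0) (nat_lit 0) (XT.lf (nat_lit 0) (nat_lit 32021779647) (nat_lit 76) (nat_lit 32349825616) (nat_lit 152) (nat_lit 381943993021) (nat_lit 161) (nat_lit 5) (nat_lit 162) (nat_lit 5) (nat_lit 163) (nat_lit 4) (nat_lit 472) (nat_lit 379) (nat_lit 169)) (XT.lf (nat_lit 0) (nat_lit 216991012717) (nat_lit 152) (nat_lit 122122474456)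 (nat_lit 0) (nat_lit 121809888809) (nat_lit 161) (nat_lit 5) (nat_lit 163) (nat_lit 4) (nat_lit 161) (nat_lit 4) (nat_lit 473) (nat_lit 379) (nat_lit 168))) (XT.nd (nat_lit 78) (nat_lit 152) (nat_lit 0) (XT.lf (nat_lit 0) (nat_lit 190214120810) (nat_lit 76) (nat_lit 190526859708) (nat_lit 76) (nat_lit 95345582549) (nat_lit 160) (nat_lit 4) (nat_lit 161) (nat_lit 5) (nat_lit 161) (nat_lit 4) (nat_lit 474) (nat_lit 379) (nat_lit 167)) (XT.lf (nat_lit 0) (nat_lit 30496777150) (nat_lit 76) (nat_lit 30809662002) (nat_lit 152) (nat_lit 430525221599) (nat_lit 158) (nat_lit 5) (nat_lit 159) (nat_lit 5) (nat_lit 160) (nat_lit 4) (nat_lit 475) (nat_lit 379) (nat_lit 166))))) (XT.nd (nat_lit 312) (nat_lit 304) (nat_lit 0) (XT.nd (nat_lit 156) (nat_lit 152) (nat_lit 0) (XT.nd (nat_lit 78) (nat_lit 76) (nat_lit 0) (XT.lf (nat_lit 0) (nat_lit 229644360018) (nat_lit 152) (nat_lit 139293371198) (nat_lit 0) (nat_lit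 138995253241) (nat_lit 158) (nat_lit 5) (nat_lit 160) (nat_lit 4) (nat_lit 158) (nat_lit 4) (nat_lit 476) (nat_lit 379) (nat_lit 165)) (XT.lf (nat_lit 0) (nat_lit 204902311540) (nat_lit 76) (nat_lit 205200555578) (nat_lit 76) (nat_lit 114551322720) (nat_lit 157) (nat_lit 4) (nat_lit 158) (nat_lit 5) (nat_lit 158) (nat_lit 4) (nat_lit 477) (nat_lit 379) (nat_lit 164))) (XT.nd (nat_lit 78) (nat_lit 0) (nat_lit 0) (XT.lf (nat_lit 0) (nat_lit 29044421451) (nat_lit 76) (nat_lit 29342785565) (nat_lit 152) (nat_lit 483636928316) (nat_lit 155) (nat_lit 5) (nat_lit 156) (nat_lit 5) (nat_lit 157) (nat_lit 4) (nat_lit 478) (nat_lit 379) (nat_lit 163)) (XT.lf (nat_lit 0) (nat_lit 244051219584) (nat_lit 152) (nat_lit 158002658803) (nat_lit 0) (nat_lit 157718393591) (nat_lit 155) (nat_lit 5) (nat_lit 157) (nat_lit 4) (nat_lit 155) (nat_lit 4) (nat_lit 479) (nat_lit 379) (nat_lit 162)))) (XT.nd (nat_lit 156)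 (nat_lit 76) (nat_lit 0) (XT.nd (nat_lit 78) (nat_lit 152) (nat_lit 0) (XT.lf (nat_lit 0) (nat_lit 221325067900) (nat_lit 76) (nat_lit 221609436838) (nat_lit 76) (nat_lit 135276507119) (nat_lit 154) (nat_lit 4) (nat_lit 155) (nat_lit 5) (nat_lit 155) (nat_lit 4) (nat_lit 480) (nat_lit 379) (nat_lit 161)) (XT.lf (nat_lit 0) (nat_lit 27661248280) (nat_lit 76) (nat_lit 27945716005) (nat_lit 152) (nat_lit 541764865061) (nat_lit 152) (nat_lit 5) (nat_lit 153) (nat_lit 5) (nat_lit 154) (nat_lit 4) (nat_lit 481) (nat_lit 379) (nat_lit 160))) (XT.nd (nat_lit 78) (nat_lit 76) (nat_lit 0) (XT.lf (nat_lit 0) (nat_lit 260369593012) (nat_lit 152) (nat_lit 178418582744) (nat_lit 0) (nat_lit 178147571498) (nat_lit 152) (nat_lit 5) (nat_lit 154) (nat_lit 4) (nat_lit 152) (nat_lit 4) (nat_lit 482) (nat_lit 379) (nat_lit 159)) (XT.lf (nat_lit 0) (nat_lit 239649270185) (nat_lit 76) (nat_lit 239920366767) (nat_lit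 76) (nat_lit 157698259917) (nat_lit 151) (nat_lit 4) (nat_lit 152) (nat_lit 5) (nat_lit 152) (nat_lit 4) (nat_lit 483) (nat_lit 379) (nat_lit 158)))))) (XT.nd (nat_lit 45162) (nat_lit 0) (nat_lit 11248) (XT.nd (nat_lit 312) (nat_lit 76) (nat_lit 0) (XT.nd (nat_lit 156) (nat_lit 228) (nat_lit 0) (XT.nd (nat_lit 78) (nat_lit 0) (nat_lit 0) (XT.lf (nat_lit 0) (nat_lit 26343959200) (nat_lit 76) (nat_lit 26615137054) (nat_lit 152) (nat_lit 605443556665) (nat_lit 149) (nat_lit 5) (nat_lit 150) (nat_lit 5) (nat_lit 151) (nat_lit 4) (nat_lit 484) (nat_lit 379) (nat_lit 157)) (XT.lf (nat_lit 0) (nat_lit 278774710783) (nat_lit 152) (nat_lit 200726129576) (nat_lit 0) (nat_lit 200467791236) (nat_lit 149) (nat_lit 5) (nat_lit 151) (nat_lit 4) (nat_lit 149) (nat_lit 4) (nat_lit 485) (nat_lit 379) (nat_lit 156))) (XT.nd (nat_lit 78) (nat_lit 152) (nat_lit 0) (XT.lf (nat_lit 0) (nat_lit 260059424754) (nat_lit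 76) (nat_lit 260317833301) (nat_lit 76) (nat_lit 182010843547) (nat_lit 148) (nat_lit 4) (nat_lit 149) (nat_lit 5) (nat_lit 149) (nat_lit 4) (nat_lit 486) (nat_lit 379) (nat_lit 155)) (XT.lf (nat_lit 0) (nat_lit 25089413557) (nat_lit 76) (nat_lit 25347888966) (nat_lit 152) (nat_lit 675261348300) (nat_lit 146) (nat_lit 5) (nat_lit 147) (nat_lit 5) (nat_lit 148) (nat_lit 4) (nat_lit 487) (nat_lit 379) (nat_lit 154)))) (XT.nd (nat_lit 44694) (nat_lit 0) (nat_lit 11172) (XT.nd (nat_lit 78) (nat_lit 76) (nat_lit 0) (XT.lf (nat_lit 0) (nat_lit 299460749212) (nat_lit 152) (nat_lit 225128767110) (nat_lit 0) (nat_lit 224882539407) (nat_lit 146) (nat_lit 5) (nat_lit 148) (nat_lit 4) (nat_lit 146) (nat_lit 4) (nat_lit 488) (nat_lit 379) (nat_lit 153)) (XT.lf (nat_lit 0) (nat_lit 282759445696) (nat_lit 76) (nat_lit 283005731158) (nat_lit 76) (nat_lit 208427463594) (nat_lit 145) (nat_lit 4) (nat_lit 146) (nat_lit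 5) (nat_lit 146) (nat_lit 4) (nat_lit 489) (nat_lit 379) (nat_lit 152))) (XT.nd (nat_lit 78) (nat_lit 0) (nat_lit 0) (XT.lf (nat_lit 0) (nat_lit 6172536894) (nat_lit 836) (nat_lit 4068442335) (nat_lit 836) (nat_lit 4068442335) (nat_lit 292) (nat_lit 3) (nat_lit 303) (nat_lit 3) (nat_lit 303) (nat_lit 5) (nat_lit 380) (nat_lit 380) (nat_lit 260)) (XT.lf (nat_lit 76) (nat_lit 6376628839) (nat_lit 0) (nat_lit 6455630168) (nat_lit 836) (nat_lit 16493127282) (nat_lit 293) (nat_lit 5) (nat_lit 292) (nat_lit 3) (nat_lit 303) (nat_lit 5) (nat_lit 381) (nat_lit 380) (nat_lit 259))))) (XT.nd (nat_lit 312) (nat_lit 0) (nat_lit 152) (XT.nd (nat_lit 156) (nat_lit 0) (nat_lit 76) (XT.nd (nat_lit 78) (nat_lit 0) (nat_lit 0) (XT.lf (nat_lit 0) (nat_lit 13607950856) (nat_lit 760) (nat_lit 8296497139) (nat_lit 836) (nat_lit 8149601244) (nat_lit 293) (nat_lit 5) (nat_lit 303) (nat_lit 5) (nat_lit 304) (nat_lit 5)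 (nat_lit 382) (nat_lit 380) (nat_lit 258)) (XT.lf (nat_lit 76) (nat_lit 7210435096) (nat_lit 0) (nat_lit 7425575309) (nat_lit 836) (nat_lit 16172455775) (nat_lit 294) (nat_lit 5) (nat_lit 293) (nat_lit 5) (nat_lit 304) (nat_lit 5) (nat_lit 383) (nat_lit 380) (nat_lit 257))) (XT.nd (nat_lit 78) (nat_lit 0) (nat_lit 0) (XT.lf (nat_lit 0) (nat_lit 15975097249) (nat_lit 760) (nat_lit 7939660276) (nat_lit 836) (nat_lit 7672865227) (nat_lit 294) (nat_lit 5) (nat_lit 304) (nat_lit 5) (nat_lit 305) (nat_lit 5) (nat_lit 384) (nat_lit 380) (nat_lit 256)) (XT.lf (nat_lit 76) (nat_lit 8653922399) (nat_lit 0) (nat_lit 8979669456) (nat_lit 836) (nat_lit 14759522628) (nat_lit 295) (nat_lit 5) (nat_lit 294) (nat_lit 5) (nat_lit 305) (nat_lit 5) (nat_lit 385) (nat_lit 380) (nat_lit 255)))) (XT.nd (nat_lit 156) (nat_lit 0) (nat_lit 76) (XT.nd (nat_lit 78) (nat_lit 0) (nat_lit 0) (XT.lf (nat_lit 0) (nat_lit 19612112066)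 (nat_lit 760) (nat_lit 6989310095) (nat_lit 836) (nat_lit 6625603594) (nat_lit 295) (nat_lit 5) (nat_lit 305) (nat_lit 5) (nat_lit 306) (nat_lit 5) (nat_lit 386) (nat_lit 380) (nat_lit 254)) (XT.lf (nat_lit 76) (nat_lit 10793321827) (nat_lit 0) (nat_lit 11207953289) (nat_lit 836) (nat_lit 12085771634) (nat_lit 296) (nat_lit 5) (nat_lit 295) (nat_lit 5) (nat_lit 306) (nat_lit 5) (nat_lit 387) (nat_lit 380) (nat_lit 253))) (XT.nd (nat_lit 78) (nat_lit 0) (nat_lit 0) (XT.lf (nat_lit 0) (nat_lit 24703722746) (nat_lit 760) (nat_lit 5358866137) (nat_lit 836) (nat_lit 4917788590) (nat_lit 296) (nat_lit 5) (nat_lit 306) (nat_lit 5) (nat_lit 307) (nat_lit 5) (nat_lit 388) (nat_lit 380) (nat_lit 252)) (XT.lf (nat_lit 76) (nat_lit 13725294468) (nat_lit 0) (nat_lit 14210362911) (nat_lit 836) (nat_lit 7962999122) (nat_lit 297) (nat_lit 5) (nat_lit 296) (nat_lit 5) (nat_lit 307) (nat_lit 5) (nat_lit 389) (nat_lit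 380) (nat_lit 251))))))) (XT.nd (nat_lit 1248) (nat_lit 2356) (nat_lit 0) (XT.nd (nat_lit 624) (nat_lit 1520) (nat_lit 0) (XT.nd (nat_lit 312) (nat_lit 760) (nat_lit 0) (XT.nd (nat_lit 156) (nat_lit 532) (nat_lit 0) (XT.nd (nat_lit 78) (nat_lit 760) (nat_lit 0) (XT.lf (nat_lit 0) (nat_lit 31455915311) (nat_lit 760) (nat_lit 2951234414) (nat_lit 76) (nat_lit 2449363429) (nat_lit 297) (nat_lit 5) (nat_lit 307) (nat_lit 5) (nat_lit 298) (nat_lit 5) (nat_lit 390) (nat_lit 380) (nat_lit 250)) (XT.lf (nat_lit 0) (nat_lit 17558021771) (nat_lit 760) (nat_lit 18097893746) (nat_lit 836) (nat_lit 2181160652) (nat_lit 287) (nat_lit 5) (nat_lit 297) (nat_lit 5) (nat_lit 298) (nat_lit 5) (nat_lit 391) (nat_lit 380) (nat_lit 249))) (XT.nd (nat_lit 78) (nat_lit 0) (nat_lit 0) (XT.lf (nat_lit 0) (nat_lit 318639932) (nat_lit 456) (nat_lit 894703325) (nat_lit 532) (nat_lit 37649763981) (nat_lit 280) (nat_lit 5) (nat_lit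 286) (nat_lit 5) (nat_lit 287) (nat_lit 5) (nat_lit 392) (nat_lit 380) (nat_lit 248)) (XT.lf (nat_lit 0) (nat_lit 5318204018) (nat_lit 532) (nat_lit 17585604923) (nat_lit 76) (nat_lit 17004146436) (nat_lit 280) (nat_lit 5) (nat_lit 287) (nat_lit 5) (nat_lit 281) (nat_lit 5) (nat_lit 393) (nat_lit 380) (nat_lit 247)))) (XT.nd (nat_lit 156) (nat_lit 380) (nat_lit 0) (XT.nd (nat_lit 78) (nat_lit 0) (nat_lit 0) (XT.lf (nat_lit 0) (nat_lit 4549122906) (nat_lit 380) (nat_lit 5161844902) (nat_lit 456) (nat_lit 31289945116) (nat_lit 275) (nat_lit 5) (nat_lit 280) (nat_lit 5) (nat_lit 281) (nat_lit 5) (nat_lit 394) (nat_lit 380) (nat_lit 246)) (XT.lf (nat_lit 0) (nat_lit 14833399675) (nat_lit 456) (nat_lit 13950759429) (nat_lit 76) (nat_lit 13338857748) (nat_lit 275) (nat_lit 5) (nat_lit 281) (nat_lit 5) (nat_lit 276) (nat_lit 5) (nat_lit 395) (nat_lit 380) (nat_lit 245))) (XT.nd (nat_lit 78) (nat_lit 0)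 (nat_lit 0) (XT.lf (nat_lit 0) (nat_lit 9904755917) (nat_lit 380) (nat_lit 10543664193) (nat_lit 456) (nat_lit 22840982519) (nat_lit 270) (nat_lit 5) (nat_lit 275) (nat_lit 5) (nat_lit 276) (nat_lit 5) (nat_lit 396) (nat_lit 380) (nat_lit 244)) (XT.lf (nat_lit 0) (nat_lit 26716025900) (nat_lit 456) (nat_lit 9206234963) (nat_lit 76) (nat_lit 8573255115) (nat_lit 270) (nat_lit 5) (nat_lit 276) (nat_lit 5) (nat_lit 271) (nat_lit 5) (nat_lit 397) (nat_lit 380) (nat_lit 243))))) (XT.nd (nat_lit 312) (nat_lit 532) (nat_lit 0) (XT.nd (nat_lit 156) (nat_lit 684) (nat_lit 0) (XT.nd (nat_lit 78) (nat_lit 0) (nat_lit 0) (XT.lf (nat_lit 0) (nat_lit 16534559794) (nat_lit 304) (nat_lit 17190868954) (nat_lit 380) (nat_lit 12015085408) (nat_lit 266) (nat_lit 5) (nat_lit 270) (nat_lit 5) (nat_lit 271) (nat_lit 5) (nat_lit 398) (nat_lit 380) (nat_lit 242)) (XT.lf (nat_lit 0) (nat_lit 41279935964) (nat_lit 380) (nat_lit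 3202155642) (nat_lit 76) (nat_lit 2555938926) (nat_lit 266) (nat_lit 5) (nat_lit 271) (nat_lit 5) (nat_lit 267) (nat_lit 5) (nat_lit 399) (nat_lit 380) (nat_lit 241))) (XT.nd (nat_lit 78) (nat_lit 304) (nat_lit 0) (XT.lf (nat_lit 0) (nat_lit 1460220171) (nat_lit 380) (nat_lit 23786107781) (nat_lit 76) (nat_lit 23119738328) (nat_lit 261) (nat_lit 5) (nat_lit 266) (nat_lit 5) (nat_lit 262) (nat_lit 5) (nat_lit 400) (nat_lit 380) (nat_lit 240)) (XT.lf (nat_lit 0) (nat_lit 4138880272) (nat_lit 304) (nat_lit 4824442806) (nat_lit 380) (nat_lit 40786591879) (nat_lit 257) (nat_lit 5) (nat_lit 261) (nat_lit 5) (nat_lit 262) (nat_lit 5) (nat_lit 401) (nat_lit 380) (nat_lit 239)))) (XT.nd (nat_lit 156) (nat_lit 228) (nat_lit 0) (XT.nd (nat_lit 78) (nat_lit 304) (nat_lit 0) (XT.lf (nat_lit 0) (nat_lit 17508179606) (nat_lit 380) (nat_lit 17165885965) (nat_lit 76) (nat_lit 16495560575) (nat_lit 257) (nat_lit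 5) (nat_lit 262) (nat_lit 5) (nat_lit 258) (nat_lit 5) (nat_lit 402) (nat_lit 380) (nat_lit 238)) (XT.lf (nat_lit 0) (nat_lit 13036909338) (nat_lit 304) (nat_lit 13723814434) (nat_lit 380) (nat_lit 25885576880) (nat_lit 253) (nat_lit 5) (nat_lit 257) (nat_lit 5) (nat_lit 258) (nat_lit 5) (nat_lit 403) (nat_lit 380) (nat_lit 237))) (XT.nd (nat_lit 78) (nat_lit 228) (nat_lit 0) (XT.lf (nat_lit 0) (nat_lit 36898417747) (nat_lit 380) (nat_lit 8973249310) (nat_lit 76) (nat_lit 8304015698) (nat_lit 253) (nat_lit 5) (nat_lit 258) (nat_lit 5) (nat_lit 254) (nat_lit 5) (nat_lit 404) (nat_lit 380) (nat_lit 236)) (XT.lf (nat_lit 0) (nat_lit 23726411678) (nat_lit 228) (nat_lit 24409967464) (nat_lit 304) (nat_lit 7615485683) (nat_lit 250) (nat_lit 5) (nat_lit 253) (nat_lit 5) (nat_lit 254) (nat_lit 5) (nat_lit 405) (nat_lit 380) (nat_lit 235)))))) (XT.nd (nat_lit 624) (nat_lit 988) (nat_lit 0) (XT.nd (nat_lit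 312) (nat_lit 760) (nat_lit 0) (XT.nd (nat_lit 156) (nat_lit 228) (nat_lit 0) (XT.nd (nat_lit 78) (nat_lit 0) (nat_lit 0) (XT.lf (nat_lit 0) (nat_lit 959327639) (nat_lit 304) (nat_lit 1656523590) (nat_lit 380) (nat_lit 54780659000) (nat_lit 245) (nat_lit 5) (nat_lit 249) (nat_lit 5) (nat_lit 250) (nat_lit 5) (nat_lit 406) (nat_lit 380) (nat_lit 234)) (XT.lf (nat_lit 0) (nat_lit 13999258751) (nat_lit 380) (nat_lit 22874716713) (nat_lit 76) (nat_lit 22198348537) (nat_lit 245) (nat_lit 5) (nat_lit 250) (nat_lit 5) (nat_lit 246) (nat_lit 5) (nat_lit 407) (nat_lit 380) (nat_lit 233))) (XT.nd (nat_lit 78) (nat_lit 0) (nat_lit 0) (XT.lf (nat_lit 0) (nat_lit 12743968201) (nat_lit 228) (nat_lit 13432119265) (nat_lit 304) (nat_lit 34644628455) (nat_lit 242) (nat_lit 5) (nat_lit 245) (nat_lit 5) (nat_lit 246) (nat_lit 5) (nat_lit 408) (nat_lit 380) (nat_lit 232)) (XT.lf (nat_lit 0) (nat_lit 39528244891) (nat_lit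 304) (nat_lit 11883013787) (nat_lit 76) (nat_lit 11216944395) (nat_lit 242) (nat_lit 5) (nat_lit 246) (nat_lit 5) (nat_lit 243) (nat_lit 5) (nat_lit 409) (nat_lit 380) (nat_lit 231)))) (XT.nd (nat_lit 156) (nat_lit 228) (nat_lit 0) (XT.nd (nat_lit 78) (nat_lit 304) (nat_lit 0) (XT.lf (nat_lit 0) (nat_lit 26753957589) (nat_lit 228) (nat_lit 27430205481) (nat_lit 304) (nat_lit 10310093868) (nat_lit 239) (nat_lit 5) (nat_lit 242) (nat_lit 5) (nat_lit 243) (nat_lit 5) (nat_lit 410) (nat_lit 380) (nat_lit 230)) (XT.lf (nat_lit 0) (nat_lit 1278125541) (nat_lit 228) (nat_lit 1964067245) (nat_lit 304) (nat_lit 63197847436) (nat_lit 235) (nat_lit 5) (nat_lit 238) (nat_lit 5) (nat_lit 239) (nat_lit 5) (nat_lit 411) (nat_lit 380) (nat_lit 229))) (XT.nd (nat_lit 78) (nat_lit 228) (nat_lit 0) (XT.lf (nat_lit 0) (nat_lit 18160344728) (nat_lit 304) (nat_lit 25462325272) (nat_lit 76) (nat_lit 24800254888) (nat_lit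 235) (nat_lit 5) (nat_lit 239) (nat_lit 5) (nat_lit 236) (nat_lit 5) (nat_lit 412) (nat_lit 380) (nat_lit 228)) (XT.lf (nat_lit 0) (nat_lit 16722812723) (nat_lit 228) (nat_lit 17393256985) (nat_lit 304) (nat_lit 36374300807) (nat_lit 232) (nat_lit 5) (nat_lit 235) (nat_lit 5) (nat_lit 236) (nat_lit 5) (nat_lit 413) (nat_lit 380) (nat_lit 227))))) (XT.nd (nat_lit 312) (nat_lit 532) (nat_lit 0) (XT.nd (nat_lit 156) (nat_lit 304) (nat_lit 0) (XT.nd (nat_lit 78) (nat_lit 152) (nat_lit 0) (XT.lf (nat_lit 0) (nat_lit 51464703566) (nat_lit 304) (nat_lit 10906421213) (nat_lit 76) (nat_lit 10260307513) (nat_lit 232) (nat_lit 5) (nat_lit 236) (nat_lit 5) (nat_lit 233) (nat_lit 5) (nat_lit 414) (nat_lit 380) (nat_lit 226)) (XT.lf (nat_lit 0) (nat_lit 34928181865) (nat_lit 152) (nat_lit 35581529235) (nat_lit 228) (nat_lit 4328388959) (nat_lit 230) (nat_lit 5) (nat_lit 232) (nat_lit 5) (nat_lit 233) (nat_lit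 5) (nat_lit 415) (nat_lit 380) (nat_lit 225))) (XT.nd (nat_lit 78) (nat_lit 0) (nat_lit 0) (XT.lf (nat_lit 0) (nat_lit 6274235669) (nat_lit 228) (nat_lit 6934472250) (nat_lit 304) (nat_lit 63921761126) (nat_lit 226) (nat_lit 5) (nat_lit 229) (nat_lit 5) (nat_lit 230) (nat_lit 5) (nat_lit 416) (nat_lit 380) (nat_lit 224)) (XT.lf (nat_lit 0) (nat_lit 32524041653) (nat_lit 304) (nat_lit 23796285109) (nat_lit 76) (nat_lit 23161239648) (nat_lit 226) (nat_lit 5) (nat_lit 230) (nat_lit 5) (nat_lit 227) (nat_lit 5) (nat_lit 417) (nat_lit 380) (nat_lit 223)))) (XT.nd (nat_lit 156) (nat_lit 380) (nat_lit 0) (XT.nd (nat_lit 78) (nat_lit 0) (nat_lit 0) (XT.lf (nat_lit 0) (nat_lit 26343855233) (nat_lit 152) (nat_lit 26984851853) (nat_lit 228) (nat_lit 28595333305) (nat_lit 224) (nat_lit 5) (nat_lit 226) (nat_lit 5) (nat_lit 227) (nat_lit 5) (nat_lit 418) (nat_lit 380) (nat_lit 222)) (XT.lf (nat_lit 0) (nat_lit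 75641416568) (nat_lit 228) (nat_lit 4719850906) (nat_lit 76) (nat_lit 4103980059) (nat_lit 224) (nat_lit 5) (nat_lit 227) (nat_lit 5) (nat_lit 225) (nat_lit 5) (nat_lit 419) (nat_lit 380) (nat_lit 221))) (XT.nd (nat_lit 78) (nat_lit 152) (nat_lit 0) (XT.lf (nat_lit 0) (nat_lit 12793287810) (nat_lit 228) (nat_lit 37444983602) (nat_lit 76) (nat_lit 36823971919) (nat_lit 221) (nat_lit 5) (nat_lit 224) (nat_lit 5) (nat_lit 222) (nat_lit 5) (nat_lit 420) (nat_lit 380) (nat_lit 220)) (XT.lf (nat_lit 0) (nat_lit 17460673359) (nat_lit 152) (nat_lit 18086581074) (nat_lit 228) (nat_lit 54216975313) (nat_lit 219) (nat_lit 5) (nat_lit 221) (nat_lit 5) (nat_lit 222) (nat_lit 5) (nat_lit 421) (nat_lit 380) (nat_lit 219))))))))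
noncomputable def xc243 : XT := (XT.nd (nat_lit 2496) (nat_lit 2508) (nat_lit 0) (XT.nd (nat_lit 1248) (nat_lit 1292) (nat_lit 0) (XT.nd (nat_lit 624) (nat_lit 684) (nat_lit 0) (XT.nd (nat_lit 312) (nat_lit 456) (nat_lit 0) (XT.nd (nat_lit 156) (nat_lit 228) (nat_lit 0) (XT.nd (nat_lit 78) (nat_lit 152) (nat_lit 0) (XT.lf (nat_lit 0) (nat_lit 60326851267) (nat_lit 228) (nat_lit 16415305527) (nat_lit 76) (nat_lit 15814762094) (nat_lit 219) (nat_lit 5) (nat_lit 222) (nat_lit 5) (nat_lit 220) (nat_lit 5) (nat_lit 422) (nat_lit 380) (nat_lit 218)) (XT.lf (nat_lit 0) (nat_lit 43356413125) (nat_lit 152) (nat_lit 43961185935) (nat_lit 228) (nat_lit 8123034872) (nat_lit 217) (nat_lit 5) (nat_lit 219) (nat_lit 5) (nat_lit 220) (nat_lit 5) (nat_lit 423) (nat_lit 380) (nat_lit 217))) (XT.nd (nat_lit 78) (nat_lit 0) (nat_lit 0) (XT.lf (nat_lit 0) (nat_lit 8220019858) (nat_lit 152) (nat_lit 8828820647) (nat_lit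 228) (nat_lit 81385792650) (nat_lit 214) (nat_lit 5) (nat_lit 216) (nat_lit 5) (nat_lit 217) (nat_lit 5) (nat_lit 424) (nat_lit 380) (nat_lit 216)) (XT.lf (nat_lit 0) (nat_lit 44539725894) (nat_lit 228) (nat_lit 28774370908) (nat_lit 76) (nat_lit 28190907138) (nat_lit 214) (nat_lit 5) (nat_lit 217) (nat_lit 5) (nat_lit 215) (nat_lit 5) (nat_lit 425) (nat_lit 380) (nat_lit 215)))) (XT.nd (nat_lit 156) (nat_lit 304) (nat_lit 0) (XT.nd (nat_lit 78) (nat_lit 0) (nat_lit 0) (XT.lf (nat_lit 0) (nat_lit 36767914813) (nat_lit 152) (nat_lit 37354858102) (nat_lit 228) (nat_lit 30570239482) (nat_lit 212) (nat_lit 5) (nat_lit 214) (nat_lit 5) (nat_lit 215) (nat_lit 5) (nat_lit 426) (nat_lit 380) (nat_lit 214)) (XT.lf (nat_lit 0) (nat_lit 105685393809) (nat_lit 228) (nat_lit 1446078014) (nat_lit 76) (nat_lit 883928378) (nat_lit 212) (nat_lit 5) (nat_lit 215) (nat_lit 5) (nat_lit 213) (nat_lit 4) (nat_lit 427)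 (nat_lit 380) (nat_lit 213))) (XT.nd (nat_lit 78) (nat_lit 152) (nat_lit 0) (XT.lf (nat_lit 0) (nat_lit 28179583941) (nat_lit 152) (nat_lit 41890779300) (nat_lit 76) (nat_lit 41325623925) (nat_lit 210) (nat_lit 5) (nat_lit 212) (nat_lit 5) (nat_lit 211) (nat_lit 5) (nat_lit 428) (nat_lit 380) (nat_lit 212)) (XT.lf (nat_lit 0) (nat_lit 30030493577) (nat_lit 152) (nat_lit 30598511562) (nat_lit 228) (nat_lit 54290055756) (nat_lit 208) (nat_lit 5) (nat_lit 210) (nat_lit 5) (nat_lit 211) (nat_lit 5) (nat_lit 429) (nat_lit 380) (nat_lit 211))))) (XT.nd (nat_lit 312) (nat_lit 380) (nat_lit 0) (XT.nd (nat_lit 156) (nat_lit 152) (nat_lit 0) (XT.nd (nat_lit 78) (nat_lit 152) (nat_lit 0) (XT.lf (nat_lit 0) (nat_lit 95590231322) (nat_lit 228) (nat_lit 11763578137) (nat_lit 76) (nat_lit 11220012157) (nat_lit 208) (nat_lit 5) (nat_lit 211) (nat_lit 5) (nat_lit 209) (nat_lit 4) (nat_lit 430) (nat_lit 380) (nat_lit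 210)) (XT.lf (nat_lit 0) (nat_lit 11138108835) (nat_lit 152) (nat_lit 55866605749) (nat_lit 76) (nat_lit 55320566939) (nat_lit 206) (nat_lit 5) (nat_lit 208) (nat_lit 5) (nat_lit 207) (nat_lit 5) (nat_lit 431) (nat_lit 380) (nat_lit 209))) (XT.nd (nat_lit 78) (nat_lit 0) (nat_lit 0) (XT.lf (nat_lit 0) (nat_lit 23103633931) (nat_lit 152) (nat_lit 23652027816) (nat_lit 228) (nat_lit 79461705263) (nat_lit 204) (nat_lit 5) (nat_lit 206) (nat_lit 5) (nat_lit 207) (nat_lit 5) (nat_lit 432) (nat_lit 380) (nat_lit 208)) (XT.lf (nat_lit 0) (nat_lit 85456131177) (nat_lit 228) (nat_lit 22653619831) (nat_lit 76) (nat_lit 22129203817) (nat_lit 204) (nat_lit 5) (nat_lit 207) (nat_lit 5) (nat_lit 205) (nat_lit 4) (nat_lit 433) (nat_lit 380) (nat_lit 207)))) (XT.nd (nat_lit 156) (nat_lit 76) (nat_lit 0) (XT.nd (nat_lit 78) (nat_lit 228) (nat_lit 0) (XT.lf (nat_lit 0) (nat_lit 63471451546) (nat_lit 76) (nat_lit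 63997901963) (nat_lit 152) (nat_lit 6923382052) (nat_lit 203) (nat_lit 5) (nat_lit 204) (nat_lit 5) (nat_lit 205) (nat_lit 4) (nat_lit 434) (nat_lit 380) (nat_lit 206)) (XT.lf (nat_lit 0) (nat_lit 15943902648) (nat_lit 152) (nat_lit 16472290591) (nat_lit 228) (nat_lit 106280489653) (nat_lit 200) (nat_lit 5) (nat_lit 202) (nat_lit 5) (nat_lit 203) (nat_lit 5) (nat_lit 435) (nat_lit 380) (nat_lit 205))) (XT.nd (nat_lit 78) (nat_lit 76) (nat_lit 0) (XT.lf (nat_lit 0) (nat_lit 75231815564) (nat_lit 228) (nat_lit 34198117081) (nat_lit 76) (nat_lit 33693133075) (nat_lit 200) (nat_lit 5) (nat_lit 203) (nat_lit 5) (nat_lit 201) (nat_lit 4) (nat_lit 436) (nat_lit 380) (nat_lit 204)) (XT.lf (nat_lit 0) (nat_lit 60447214317) (nat_lit 76) (nat_lit 60953872031) (nat_lit 152) (nat_lit 26309037975) (nat_lit 199) (nat_lit 5) (nat_lit 200) (nat_lit 5) (nat_lit 201) (nat_lit 4) (nat_lit 437) (nat_lit 380) (nat_lit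 203)))))) (XT.nd (nat_lit 624) (nat_lit 532) (nat_lit 0) (XT.nd (nat_lit 312) (nat_lit 228) (nat_lit 0) (XT.nd (nat_lit 156) (nat_lit 304) (nat_lit 0) (XT.nd (nat_lit 78) (nat_lit 0) (nat_lit 0) (XT.lf (nat_lit 0) (nat_lit 8504585091) (nat_lit 152) (nat_lit 9012836813) (nat_lit 228) (nat_lit 134959542133) (nat_lit 196) (nat_lit 5) (nat_lit 198) (nat_lit 5) (nat_lit 199) (nat_lit 5) (nat_lit 438) (nat_lit 380) (nat_lit 202)) (XT.lf (nat_lit 0) (nat_lit 64862978841) (nat_lit 228) (nat_lit 46486250335) (nat_lit 76) (nat_lit 46000755264) (nat_lit 196) (nat_lit 5) (nat_lit 199) (nat_lit 5) (nat_lit 197) (nat_lit 4) (nat_lit 439) (nat_lit 380) (nat_lit 201))) (XT.nd (nat_lit 78) (nat_lit 228) (nat_lit 0) (XT.lf (nat_lit 0) (nat_lit 57567305242) (nat_lit 76) (nat_lit 58054177277) (nat_lit 152) (nat_lit 46792889898) (nat_lit 195) (nat_lit 5) (nat_lit 196) (nat_lit 5) (nat_lit 197) (nat_lit 4) (nat_lit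 440) (nat_lit 380) (nat_lit 200)) (XT.lf (nat_lit 0) (nat_lit 735288362) (nat_lit 152) (nat_lit 1223471791) (nat_lit 228) (nat_lit 165731754565) (nat_lit 192) (nat_lit 5) (nat_lit 194) (nat_lit 5) (nat_lit 195) (nat_lit 5) (nat_lit 441) (nat_lit 380) (nat_lit 199)))) (XT.nd (nat_lit 156) (nat_lit 152) (nat_lit 0) (XT.nd (nat_lit 78) (nat_lit 76) (nat_lit 0) (XT.lf (nat_lit 0) (nat_lit 54291875262) (nat_lit 228) (nat_lit 59615269297) (nat_lit 76) (nat_lit 59149143224) (nat_lit 192) (nat_lit 5) (nat_lit 195) (nat_lit 5) (nat_lit 193) (nat_lit 4) (nat_lit 442) (nat_lit 380) (nat_lit 198)) (XT.lf (nat_lit 0) (nat_lit 54824795375) (nat_lit 76) (nat_lit 55292054279) (nat_lit 152) (nat_lit 68529739670) (nat_lit 191) (nat_lit 5) (nat_lit 192) (nat_lit 5) (nat_lit 193) (nat_lit 4) (nat_lit 443) (nat_lit 380) (nat_lit 197))) (XT.nd (nat_lit 78) (nat_lit 152) (nat_lit 0) (XT.lf (nat_lit 0) (nat_lit 169856057885)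 (nat_lit 152) (nat_lit 7525117396) (nat_lit 0) (nat_lit 7079081404) (nat_lit 191) (nat_lit 5) (nat_lit 193) (nat_lit 4) (nat_lit 191) (nat_lit 4) (nat_lit 444) (nat_lit 380) (nat_lit 196)) (XT.lf (nat_lit 0) (nat_lit 43456868566) (nat_lit 152) (nat_lit 73691374501) (nat_lit 76) (nat_lit 73244359926) (nat_lit 189) (nat_lit 5) (nat_lit 191) (nat_lit 5) (nat_lit 190) (nat_lit 4) (nat_lit 445) (nat_lit 380) (nat_lit 195))))) (XT.nd (nat_lit 312) (nat_lit 228) (nat_lit 0) (XT.nd (nat_lit 156) (nat_lit 228) (nat_lit 0) (XT.nd (nat_lit 78) (nat_lit 0) (nat_lit 0) (XT.lf (nat_lit 0) (nat_lit 52213095678) (nat_lit 76) (nat_lit 52661042236) (nat_lit 152) (nat_lit 91688260774) (nat_lit 188) (nat_lit 5) (nat_lit 189) (nat_lit 5) (nat_lit 190) (nat_lit 4) (nat_lit 446) (nat_lit 380) (nat_lit 194)) (XT.lf (nat_lit 0) (nat_lit 170864934497) (nat_lit 152) (nat_lit 16264038794) (nat_lit 0) (nat_lit 15836577688)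 (nat_lit 188) (nat_lit 5) (nat_lit 190) (nat_lit 4) (nat_lit 188) (nat_lit 4) (nat_lit 447) (nat_lit 380) (nat_lit 193))) (XT.nd (nat_lit 78) (nat_lit 76) (nat_lit 0) (XT.lf (nat_lit 0) (nat_lit 32291939435) (nat_lit 152) (nat_lit 88830686048) (nat_lit 76) (nat_lit 88402419859) (nat_lit 186) (nat_lit 5) (nat_lit 188) (nat_lit 5) (nat_lit 187) (nat_lit 4) (nat_lit 448) (nat_lit 380) (nat_lit 192)) (XT.lf (nat_lit 0) (nat_lit 49725939071) (nat_lit 76) (nat_lit 50154972005) (nat_lit 152) (nat_lit 116452512411) (nat_lit 185) (nat_lit 5) (nat_lit 186) (nat_lit 5) (nat_lit 187) (nat_lit 4) (nat_lit 449) (nat_lit 380) (nat_lit 191)))) (XT.nd (nat_lit 156) (nat_lit 76) (nat_lit 0) (XT.nd (nat_lit 78) (nat_lit 152) (nat_lit 0) (XT.lf (nat_lit 0) (nat_lit 172757994077) (nat_lit 152) (nat_lit 25519045788) (nat_lit 0) (nat_lit 25109747534) (nat_lit 185) (nat_lit 5) (nat_lit 187) (nat_lit 4) (nat_lit 185) (nat_lit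 4) (nat_lit 450) (nat_lit 380) (nat_lit 190)) (XT.lf (nat_lit 0) (nat_lit 20726146436) (nat_lit 152) (nat_lit 105160308691) (nat_lit 76) (nat_lit 104750348094) (nat_lit 183) (nat_lit 5) (nat_lit 185) (nat_lit 5) (nat_lit 184) (nat_lit 4) (nat_lit 451) (nat_lit 380) (nat_lit 189))) (XT.nd (nat_lit 78) (nat_lit 0) (nat_lit 0) (XT.lf (nat_lit 0) (nat_lit 47357363651) (nat_lit 76) (nat_lit 47767955051) (nat_lit 152) (nat_lit 143023604871) (nat_lit 182) (nat_lit 5) (nat_lit 183) (nat_lit 5) (nat_lit 184) (nat_lit 4) (nat_lit 452) (nat_lit 380) (nat_lit 188)) (XT.lf (nat_lit 0) (nat_lit 175588729051) (nat_lit 152) (nat_lit 35361159252) (nat_lit 0) (nat_lit 34969547666) (nat_lit 182) (nat_lit 5) (nat_lit 184) (nat_lit 4) (nat_lit 182) (nat_lit 4) (nat_lit 453) (nat_lit 380) (nat_lit 187))))))) (XT.nd (nat_lit 1248) (nat_lit 1292) (nat_lit 0) (XT.nd (nat_lit 624) (nat_lit 532) (nat_lit 0) (XT.nd (nat_lit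 312) (nat_lit 380) (nat_lit 0) (XT.nd (nat_lit 156) (nat_lit 76) (nat_lit 0) (XT.nd (nat_lit 78) (nat_lit 76) (nat_lit 0) (XT.lf (nat_lit 0) (nat_lit 8683035571) (nat_lit 152) (nat_lit 122819503375) (nat_lit 76) (nat_lit 122427346878) (nat_lit 180) (nat_lit 5) (nat_lit 182) (nat_lit 5) (nat_lit 181) (nat_lit 4) (nat_lit 454) (nat_lit 380) (nat_lit 186)) (XT.lf (nat_lit 0) (nat_lit 45101696956) (nat_lit 76) (nat_lit 45494372417) (nat_lit 152) (nat_lit 171621531821) (nat_lit 179) (nat_lit 5) (nat_lit 180) (nat_lit 5) (nat_lit 181) (nat_lit 4) (nat_lit 455) (nat_lit 380) (nat_lit 185))) (XT.nd (nat_lit 78) (nat_lit 76) (nat_lit 0) (XT.lf (nat_lit 0) (nat_lit 179417875531) (nat_lit 152) (nat_lit 45867809056) (nat_lit 0) (nat_lit 45493361712) (nat_lit 179) (nat_lit 5) (nat_lit 181) (nat_lit 4) (nat_lit 179) (nat_lit 4) (nat_lit 456) (nat_lit 380) (nat_lit 184)) (XT.lf (nat_lit 0) (nat_lit 137599686551)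 (nat_lit 76) (nat_lit 137974582195) (nat_lit 76) (nat_lit 4049620076) (nat_lit 178) (nat_lit 4) (nat_lit 179) (nat_lit 5) (nat_lit 179) (nat_lit 4) (nat_lit 457) (nat_lit 380) (nat_lit 183)))) (XT.nd (nat_lit 156) (nat_lit 228) (nat_lit 0) (XT.nd (nat_lit 78) (nat_lit 0) (nat_lit 0) (XT.lf (nat_lit 0) (nat_lit 42953541209) (nat_lit 76) (nat_lit 43328863805) (nat_lit 152) (nat_lit 202487186688) (nat_lit 176) (nat_lit 5) (nat_lit 177) (nat_lit 5) (nat_lit 178) (nat_lit 4) (nat_lit 458) (nat_lit 380) (nat_lit 182)) (XT.lf (nat_lit 0) (nat_lit 184314073310) (nat_lit 152) (nat_lit 57123533810) (nat_lit 0) (nat_lit 56765696460) (nat_lit 176) (nat_lit 5) (nat_lit 178) (nat_lit 4) (nat_lit 176) (nat_lit 4) (nat_lit 459) (nat_lit 380) (nat_lit 181))) (XT.nd (nat_lit 78) (nat_lit 152) (nat_lit 0) (XT.lf (nat_lit 0) (nat_lit 144930803331) (nat_lit 76) (nat_lit 145289009499) (nat_lit 76) (nat_lit 17740263831)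 (nat_lit 175) (nat_lit 4) (nat_lit 176) (nat_lit 5) (nat_lit 176) (nat_lit 4) (nat_lit 460) (nat_lit 380) (nat_lit 180)) (XT.lf (nat_lit 0) (nat_lit 40907759421) (nat_lit 76) (nat_lit 41266316843) (nat_lit 152) (nat_lit 235884582173) (nat_lit 173) (nat_lit 5) (nat_lit 174) (nat_lit 5) (nat_lit 175) (nat_lit 4) (nat_lit 461) (nat_lit 380) (nat_lit 179))))) (XT.nd (nat_lit 312) (nat_lit 304) (nat_lit 0) (XT.nd (nat_lit 156) (nat_lit 152) (nat_lit 0) (XT.nd (nat_lit 78) (nat_lit 76) (nat_lit 0) (XT.lf (nat_lit 0) (nat_lit 190354597198) (nat_lit 152) (nat_lit 69220750055) (nat_lit 0) (nat_lit 68878948198) (nat_lit 173) (nat_lit 5) (nat_lit 175) (nat_lit 4) (nat_lit 173) (nat_lit 4) (nat_lit 462) (nat_lit 380) (nat_lit 178)) (XT.lf (nat_lit 0) (nat_lit 153335986490) (nat_lit 76) (nat_lit 153678091775) (nat_lit 76) (nat_lit 32202139347) (nat_lit 172) (nat_lit 4) (nat_lit 173) (nat_lit 5) (nat_lit 173)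 (nat_lit 4) (nat_lit 463) (nat_lit 380) (nat_lit 177))) (XT.nd (nat_lit 78) (nat_lit 0) (nat_lit 0) (XT.lf (nat_lit 0) (nat_lit 38959462311) (nat_lit 76) (nat_lit 39301856574) (nat_lit 152) (nat_lit 272103293787) (nat_lit 170) (nat_lit 5) (nat_lit 171) (nat_lit 5) (nat_lit 172) (nat_lit 4) (nat_lit 464) (nat_lit 380) (nat_lit 176)) (XT.lf (nat_lit 0) (nat_lit 197626166866) (nat_lit 152) (nat_lit 82260598159) (nat_lit 0) (nat_lit 81934246273) (nat_lit 170) (nat_lit 5) (nat_lit 172) (nat_lit 4) (nat_lit 170) (nat_lit 4) (nat_lit 465) (nat_lit 380) (nat_lit 175)))) (XT.nd (nat_lit 156) (nat_lit 76) (nat_lit 0) (XT.nd (nat_lit 78) (nat_lit 152) (nat_lit 0) (XT.lf (nat_lit 0) (nat_lit 162909945107) (nat_lit 76) (nat_lit 163236546623) (nat_lit 76) (nat_lit 47544376399) (nat_lit 169) (nat_lit 4) (nat_lit 170) (nat_lit 5) (nat_lit 170) (nat_lit 4) (nat_lit 466) (nat_lit 380) (nat_lit 174)) (XT.lf (nat_lit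 0) (nat_lit 37103995963) (nat_lit 76) (nat_lit 37430835222) (nat_lit 152) (nat_lit 311461150537) (nat_lit 167) (nat_lit 5) (nat_lit 168) (nat_lit 5) (nat_lit 169) (nat_lit 4) (nat_lit 467) (nat_lit 380) (nat_lit 173))) (XT.nd (nat_lit 78) (nat_lit 76) (nat_lit 0) (XT.lf (nat_lit 0) (nat_lit 206225843125) (nat_lit 152) (nat_lit 96353872927) (nat_lit 0) (nat_lit 96042381802) (nat_lit 167) (nat_lit 5) (nat_lit 169) (nat_lit 4) (nat_lit 167) (nat_lit 4) (nat_lit 468) (nat_lit 380) (nat_lit 172)) (XT.lf (nat_lit 0) (nat_lit 173757831920) (nat_lit 76) (nat_lit 174069528416) (nat_lit 76) (nat_lit 63885861722) (nat_lit 166) (nat_lit 4) (nat_lit 167) (nat_lit 5) (nat_lit 167) (nat_lit 4) (nat_lit 469) (nat_lit 380) (nat_lit 171)))))) (XT.nd (nat_lit 624) (nat_lit 684) (nat_lit 0) (XT.nd (nat_lit 312) (nat_lit 228) (nat_lit 0) (XT.nd (nat_lit 156) (nat_lit 228) (nat_lit 0) (XT.nd (nat_lit 78) (nat_lit 0)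 (nat_lit 0) (XT.lf (nat_lit 0) (nat_lit 35336930162) (nat_lit 76) (nat_lit 35648822251) (nat_lit 152) (nat_lit 354307198198) (nat_lit 164) (nat_lit 5) (nat_lit 165) (nat_lit 5) (nat_lit 166) (nat_lit 4) (nat_lit 470) (nat_lit 380) (nat_lit 170)) (XT.lf (nat_lit 0) (nat_lit 216262019353) (nat_lit 152) (nat_lit 111622047736) (nat_lit 0) (nat_lit 111324830244) (nat_lit 164) (nat_lit 5) (nat_lit 166) (nat_lit 4) (nat_lit 164) (nat_lit 4) (nat_lit 471) (nat_lit 380) (nat_lit 169))) (XT.nd (nat_lit 78) (nat_lit 152) (nat_lit 0) (XT.lf (nat_lit 0) (nat_lit 185996278134) (nat_lit 76) (nat_lit 186293664585) (nat_lit 76) (nat_lit 81356306517) (nat_lit 163) (nat_lit 4) (nat_lit 164) (nat_lit 5) (nat_lit 164) (nat_lit 4) (nat_lit 472) (nat_lit 380) (nat_lit 168)) (XT.lf (nat_lit 0) (nat_lit 33654047381) (nat_lit 76) (nat_lit 33951594746) (nat_lit 152) (nat_lit 401024963240) (nat_lit 161) (nat_lit 5) (nat_lit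 162) (nat_lit 5) (nat_lit 163) (nat_lit 4) (nat_lit 473) (nat_lit 380) (nat_lit 167)))) (XT.nd (nat_lit 156) (nat_lit 152) (nat_lit 0) (XT.nd (nat_lit 78) (nat_lit 76) (nat_lit 0) (XT.lf (nat_lit 0) (nat_lit 227855517704) (nat_lit 152) (nat_lit 128198401878) (nat_lit 0) (nat_lit 127914877482) (nat_lit 161) (nat_lit 5) (nat_lit 163) (nat_lit 4) (nat_lit 161) (nat_lit 4) (nat_lit 474) (nat_lit 380) (nat_lit 166)) (XT.lf (nat_lit 0) (nat_lit 199754536114) (nat_lit 76) (nat_lit 200038199514) (nat_lit 76) (nat_lit 100097420289) (nat_lit 160) (nat_lit 4) (nat_lit 161) (nat_lit 5) (nat_lit 161) (nat_lit 4) (nat_lit 475) (nat_lit 380) (nat_lit 165))) (XT.nd (nat_lit 78) (nat_lit 0) (nat_lit 0) (XT.lf (nat_lit 0) (nat_lit 32051332339) (nat_lit 76) (nat_lit 32335128123) (nat_lit 152) (nat_lit 452036048358) (nat_lit 158) (nat_lit 5) (nat_lit 159) (nat_lit 5) (nat_lit 160) (nat_lit 4) (nat_lit 476) (nat_lit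 380) (nat_lit 164)) (XT.lf (nat_lit 0) (nat_lit 241140800695) (nat_lit 152) (nat_lit 146229261813) (nat_lit 0) (nat_lit 145958860038) (nat_lit 158) (nat_lit 5) (nat_lit 160) (nat_lit 4) (nat_lit 158) (nat_lit 4) (nat_lit 477) (nat_lit 380) (nat_lit 163))))) (XT.nd (nat_lit 312) (nat_lit 380) (nat_lit 0) (XT.nd (nat_lit 156) (nat_lit 76) (nat_lit 0) (XT.nd (nat_lit 78) (nat_lit 152) (nat_lit 0) (XT.lf (nat_lit 0) (nat_lit 215175740902) (nat_lit 76) (nat_lit 215446257035) (nat_lit 76) (nat_lit 120264202020) (nat_lit 157) (nat_lit 4) (nat_lit 158) (nat_lit 5) (nat_lit 158) (nat_lit 4) (nat_lit 478) (nat_lit 380) (nat_lit 162)) (XT.lf (nat_lit 0) (nat_lit 30524962123) (nat_lit 76) (nat_lit 30795587170) (nat_lit 152) (nat_lit 507804093711) (nat_lit 155) (nat_lit 5) (nat_lit 156) (nat_lit 5) (nat_lit 157) (nat_lit 4) (nat_lit 479) (nat_lit 380) (nat_lit 161))) (XT.nd (nat_lit 78) (nat_lit 76) (nat_lit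 0) (XT.lf (nat_lit 0) (nat_lit 256267309874) (nat_lit 152) (nat_lit 165875368082) (nat_lit 0) (nat_lit 165617531155) (nat_lit 155) (nat_lit 5) (nat_lit 157) (nat_lit 4) (nat_lit 155) (nat_lit 4) (nat_lit 480) (nat_lit 380) (nat_lit 160)) (XT.lf (nat_lit 0) (nat_lit 232418302639) (nat_lit 76) (nat_lit 232676233649) (nat_lit 76) (nat_lit 142026360847) (nat_lit 154) (nat_lit 4) (nat_lit 155) (nat_lit 5) (nat_lit 155) (nat_lit 4) (nat_lit 481) (nat_lit 380) (nat_lit 159)))) (XT.nd (nat_lit 156) (nat_lit 228) (nat_lit 0) (XT.nd (nat_lit 78) (nat_lit 0) (nat_lit 0) (XT.lf (nat_lit 0) (nat_lit 29071296822) (nat_lit 76) (nat_lit 29329317434) (nat_lit 152) (nat_lit 568839141470) (nat_lit 152) (nat_lit 5) (nat_lit 153) (nat_lit 5) (nat_lit 154) (nat_lit 4) (nat_lit 482) (nat_lit 380) (nat_lit 158)) (XT.lf (nat_lit 0) (nat_lit 273400944479) (nat_lit 152) (nat_lit 187313380868) (nat_lit 0) (nat_lit 187067565679)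 (nat_lit 152) (nat_lit 5) (nat_lit 154) (nat_lit 4) (nat_lit 152) (nat_lit 4) (nat_lit 483) (nat_lit 380) (nat_lit 157))) (XT.nd (nat_lit 78) (nat_lit 152) (nat_lit 0) (XT.lf (nat_lit 0) (nat_lit 251657443239) (nat_lit 76) (nat_lit 251903335831) (nat_lit 76) (nat_lit 165569879628) (nat_lit 151) (nat_lit 4) (nat_lit 152) (nat_lit 5) (nat_lit 152) (nat_lit 4) (nat_lit 484) (nat_lit 380) (nat_lit 156)) (XT.lf (nat_lit 0) (nat_lit 27686870641) (nat_lit 76) (nat_lit 27932836949) (nat_lit 152) (nat_lit 635702445149) (nat_lit 149) (nat_lit 5) (nat_lit 150) (nat_lit 5) (nat_lit 151) (nat_lit 4) (nat_lit 485) (nat_lit 380) (nat_lit 155))))))))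
noncomputable def xc244 : XT := (XT.nd (nat_lit 47112) (nat_lit 0) (nat_lit 3800) (XT.nd (nat_lit 45864) (nat_lit 0) (nat_lit 7524) (XT.nd (nat_lit 45240) (nat_lit 0) (nat_lit 10716) (XT.nd (nat_lit 44928) (nat_lit 0) (nat_lit 11096) (XT.nd (nat_lit 156) (nat_lit 152) (nat_lit 0) (XT.nd (nat_lit 78) (nat_lit 76) (nat_lit 0) (XT.lf (nat_lit 0) (nat_lit 292725694302) (nat_lit 152) (nat_lit 210737538481) (nat_lit 0) (nat_lit 210503217992) (nat_lit 149) (nat_lit 5) (nat_lit 151) (nat_lit 4) (nat_lit 149) (nat_lit 4) (nat_lit 486) (nat_lit 380) (nat_lit 154)) (XT.lf (nat_lit 0) (nat_lit 273086891991) (nat_lit 76) (nat_lit 273321276160) (nat_lit 76) (nat_lit 191098736171) (nat_lit 148) (nat_lit 4) (nat_lit 149) (nat_lit 5) (nat_lit 149) (nat_lit 4) (nat_lit 487) (nat_lit 380) (nat_lit 153))) (XT.nd (nat_lit 78) (nat_lit 0) (nat_lit 0) (XT.lf (nat_lit 0) (nat_lit 26368383472) (nat_lit 76) (nat_lit 26602828287)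 (nat_lit 152) (nat_lit 709011769399) (nat_lit 146) (nat_lit 5) (nat_lit 147) (nat_lit 5) (nat_lit 148) (nat_lit 4) (nat_lit 488) (nat_lit 380) (nat_lit 152)) (XT.lf (nat_lit 0) (nat_lit 314445442453) (nat_lit 152) (nat_lit 236361484529) (nat_lit 0) (nat_lit 236138148744) (nat_lit 146) (nat_lit 5) (nat_lit 148) (nat_lit 4) (nat_lit 146) (nat_lit 4) (nat_lit 489) (nat_lit 380) (nat_lit 151)))) (XT.nd (nat_lit 156) (nat_lit 0) (nat_lit 76) (XT.nd (nat_lit 78) (nat_lit 0) (nat_lit 0) (XT.lf (nat_lit 0) (nat_lit 6558931635) (nat_lit 836) (nat_lit 4231036306) (nat_lit 836) (nat_lit 4231036306) (nat_lit 292) (nat_lit 3) (nat_lit 303) (nat_lit 3) (nat_lit 303) (nat_lit 5) (nat_lit 381) (nat_lit 381) (nat_lit 258)) (XT.lf (nat_lit 76) (nat_lit 6775799536) (nat_lit 0) (nat_lit 6847456070) (nat_lit 836) (nat_lit 17160930816) (nat_lit 293) (nat_lit 5) (nat_lit 292) (nat_lit 3) (nat_lit 303) (nat_lit 5) (nat_lit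 382) (nat_lit 381) (nat_lit 257))) (XT.nd (nat_lit 78) (nat_lit 0) (nat_lit 0) (XT.lf (nat_lit 0) (nat_lit 14429591895) (nat_lit 760) (nat_lit 8626668269) (nat_lit 836) (nat_lit 8493429362) (nat_lit 293) (nat_lit 5) (nat_lit 303) (nat_lit 5) (nat_lit 304) (nat_lit 5) (nat_lit 383) (nat_lit 381) (nat_lit 256)) (XT.lf (nat_lit 76) (nat_lit 7654245195) (nat_lit 0) (nat_lit 7849383710) (nat_lit 836) (nat_lit 16838469685) (nat_lit 294) (nat_lit 5) (nat_lit 293) (nat_lit 5) (nat_lit 304) (nat_lit 5) (nat_lit 384) (nat_lit 381) (nat_lit 255))))) (XT.nd (nat_lit 312) (nat_lit 532) (nat_lit 0) (XT.nd (nat_lit 156) (nat_lit 0) (nat_lit 76) (XT.nd (nat_lit 78) (nat_lit 0) (nat_lit 0) (XT.lf (nat_lit 0) (nat_lit 16902421488) (nat_lit 760) (nat_lit 8250072454) (nat_lit 836) (nat_lit 8008081480) (nat_lit 294) (nat_lit 5) (nat_lit 304) (nat_lit 5) (nat_lit 305) (nat_lit 5) (nat_lit 385) (nat_lit 381) (nat_lit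 254)) (XT.lf (nat_lit 76) (nat_lit 9171793051) (nat_lit 0) (nat_lit 9467255234) (nat_lit 836) (nat_lit 15367533079) (nat_lit 295) (nat_lit 5) (nat_lit 294) (nat_lit 5) (nat_lit 305) (nat_lit 5) (nat_lit 386) (nat_lit 381) (nat_lit 253))) (XT.nd (nat_lit 78) (nat_lit 0) (nat_lit 0) (XT.lf (nat_lit 0) (nat_lit 20710026382) (nat_lit 760) (nat_lit 7251188872) (nat_lit 836) (nat_lit 6921296354) (nat_lit 295) (nat_lit 5) (nat_lit 305) (nat_lit 5) (nat_lit 306) (nat_lit 5) (nat_lit 387) (nat_lit 381) (nat_lit 252)) (XT.lf (nat_lit 76) (nat_lit 11419161958) (nat_lit 0) (nat_lit 11795244916) (nat_lit 836) (nat_lit 12571338814) (nat_lit 296) (nat_lit 5) (nat_lit 295) (nat_lit 5) (nat_lit 306) (nat_lit 5) (nat_lit 388) (nat_lit 381) (nat_lit 251)))) (XT.nd (nat_lit 156) (nat_lit 684) (nat_lit 0) (XT.nd (nat_lit 78) (nat_lit 0) (nat_lit 0) (XT.lf (nat_lit 0) (nat_lit 26046192799) (nat_lit 760) (nat_lit 5538954845)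 (nat_lit 836) (nat_lit 5138884508) (nat_lit 296) (nat_lit 5) (nat_lit 306) (nat_lit 5) (nat_lit 307) (nat_lit 5) (nat_lit 389) (nat_lit 381) (nat_lit 250)) (XT.lf (nat_lit 76) (nat_lit 14497996781) (nat_lit 0) (nat_lit 14937968158) (nat_lit 836) (nat_lit 8252448153) (nat_lit 297) (nat_lit 5) (nat_lit 296) (nat_lit 5) (nat_lit 307) (nat_lit 5) (nat_lit 390) (nat_lit 381) (nat_lit 249))) (XT.nd (nat_lit 78) (nat_lit 760) (nat_lit 0) (XT.lf (nat_lit 0) (nat_lit 33127051946) (nat_lit 760) (nat_lit 3011290800) (nat_lit 76) (nat_lit 2556079022) (nat_lit 297) (nat_lit 5) (nat_lit 307) (nat_lit 5) (nat_lit 298) (nat_lit 5) (nat_lit 391) (nat_lit 381) (nat_lit 248)) (XT.lf (nat_lit 0) (nat_lit 18522016818) (nat_lit 760) (nat_lit 19011696614) (nat_lit 836) (nat_lit 2190466438) (nat_lit 287) (nat_lit 5) (nat_lit 297) (nat_lit 5) (nat_lit 298) (nat_lit 5) (nat_lit 392) (nat_lit 381) (nat_lit 247)))))) (XT.nd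 (nat_lit 624) (nat_lit 1596) (nat_lit 0) (XT.nd (nat_lit 312) (nat_lit 684) (nat_lit 0) (XT.nd (nat_lit 156) (nat_lit 380) (nat_lit 0) (XT.nd (nat_lit 78) (nat_lit 0) (nat_lit 0) (XT.lf (nat_lit 0) (nat_lit 422418474) (nat_lit 456) (nat_lit 944924954) (nat_lit 532) (nat_lit 39434252522) (nat_lit 280) (nat_lit 5) (nat_lit 286) (nat_lit 5) (nat_lit 287) (nat_lit 5) (nat_lit 393) (nat_lit 381) (nat_lit 246)) (XT.lf (nat_lit 0) (nat_lit 5672921218) (nat_lit 532) (nat_lit 18376695783) (nat_lit 76) (nat_lit 17849295795) (nat_lit 280) (nat_lit 5) (nat_lit 287) (nat_lit 5) (nat_lit 281) (nat_lit 5) (nat_lit 394) (nat_lit 381) (nat_lit 245))) (XT.nd (nat_lit 78) (nat_lit 0) (nat_lit 0) (XT.lf (nat_lit 0) (nat_lit 4863346028) (nat_lit 380) (nat_lit 5419102940) (nat_lit 456) (nat_lit 32764212963) (nat_lit 275) (nat_lit 5) (nat_lit 280) (nat_lit 5) (nat_lit 281) (nat_lit 5) (nat_lit 395) (nat_lit 381) (nat_lit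 244)) (XT.lf (nat_lit 0) (nat_lit 15656922796) (nat_lit 456) (nat_lit 14561582552) (nat_lit 76) (nat_lit 14006569689) (nat_lit 275) (nat_lit 5) (nat_lit 281) (nat_lit 5) (nat_lit 276) (nat_lit 5) (nat_lit 396) (nat_lit 381) (nat_lit 243)))) (XT.nd (nat_lit 156) (nat_lit 304) (nat_lit 0) (XT.nd (nat_lit 78) (nat_lit 0) (nat_lit 0) (XT.lf (nat_lit 0) (nat_lit 10485309935) (nat_lit 380) (nat_lit 11064818575) (nat_lit 456) (nat_lit 23899779881) (nat_lit 270) (nat_lit 5) (nat_lit 275) (nat_lit 5) (nat_lit 276) (nat_lit 5) (nat_lit 397) (nat_lit 381) (nat_lit 242)) (XT.lf (nat_lit 0) (nat_lit 28127428644) (nat_lit 456) (nat_lit 9581607221) (nat_lit 76) (nat_lit 9007475839) (nat_lit 270) (nat_lit 5) (nat_lit 276) (nat_lit 5) (nat_lit 271) (nat_lit 5) (nat_lit 398) (nat_lit 381) (nat_lit 241))) (XT.nd (nat_lit 78) (nat_lit 0) (nat_lit 0) (XT.lf (nat_lit 0) (nat_lit 17444857282) (nat_lit 304) (nat_lit 18040149037)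 (nat_lit 380) (nat_lit 12538868238) (nat_lit 266) (nat_lit 5) (nat_lit 270) (nat_lit 5) (nat_lit 271) (nat_lit 5) (nat_lit 399) (nat_lit 381) (nat_lit 240)) (XT.lf (nat_lit 0) (nat_lit 43413900737) (nat_lit 380) (nat_lit 3279335267) (nat_lit 76) (nat_lit 2693197656) (nat_lit 266) (nat_lit 5) (nat_lit 271) (nat_lit 5) (nat_lit 267) (nat_lit 5) (nat_lit 400) (nat_lit 381) (nat_lit 239))))) (XT.nd (nat_lit 312) (nat_lit 608) (nat_lit 0) (XT.nd (nat_lit 156) (nat_lit 304) (nat_lit 0) (XT.nd (nat_lit 78) (nat_lit 304) (nat_lit 0) (XT.lf (nat_lit 0) (nat_lit 1602254483) (nat_lit 380) (nat_lit 24891540341) (nat_lit 76) (nat_lit 24287123604) (nat_lit 261) (nat_lit 5) (nat_lit 266) (nat_lit 5) (nat_lit 262) (nat_lit 5) (nat_lit 401) (nat_lit 381) (nat_lit 238)) (XT.lf (nat_lit 0) (nat_lit 4428344326) (nat_lit 304) (nat_lit 5050169755) (nat_lit 380) (nat_lit 42755545382) (nat_lit 257) (nat_lit 5) (nat_lit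 261) (nat_lit 5) (nat_lit 262) (nat_lit 5) (nat_lit 402) (nat_lit 381) (nat_lit 237))) (XT.nd (nat_lit 78) (nat_lit 304) (nat_lit 0) (XT.lf (nat_lit 0) (nat_lit 18447652179) (nat_lit 380) (nat_lit 17942628492) (nat_lit 76) (nat_lit 17334623602) (nat_lit 257) (nat_lit 5) (nat_lit 262) (nat_lit 5) (nat_lit 258) (nat_lit 5) (nat_lit 403) (nat_lit 381) (nat_lit 236)) (XT.lf (nat_lit 0) (nat_lit 13768991225) (nat_lit 304) (nat_lit 14392034397) (nat_lit 380) (nat_lit 27114476780) (nat_lit 253) (nat_lit 5) (nat_lit 257) (nat_lit 5) (nat_lit 258) (nat_lit 5) (nat_lit 404) (nat_lit 381) (nat_lit 235)))) (XT.nd (nat_lit 156) (nat_lit 380) (nat_lit 0) (XT.nd (nat_lit 78) (nat_lit 228) (nat_lit 0) (XT.lf (nat_lit 0) (nat_lit 38802906477) (nat_lit 380) (nat_lit 9342798319) (nat_lit 76) (nat_lit 8735783705) (nat_lit 253) (nat_lit 5) (nat_lit 258) (nat_lit 5) (nat_lit 254) (nat_lit 5) (nat_lit 405) (nat_lit 381)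 (nat_lit 234)) (XT.lf (nat_lit 0) (nat_lit 24990569695) (nat_lit 228) (nat_lit 25610574943) (nat_lit 304) (nat_lit 7935416101) (nat_lit 250) (nat_lit 5) (nat_lit 253) (nat_lit 5) (nat_lit 254) (nat_lit 5) (nat_lit 406) (nat_lit 381) (nat_lit 233))) (XT.nd (nat_lit 78) (nat_lit 0) (nat_lit 0) (XT.lf (nat_lit 0) (nat_lit 1085791986) (nat_lit 304) (nat_lit 1718169266) (nat_lit 380) (nat_lit 57459508616) (nat_lit 245) (nat_lit 5) (nat_lit 249) (nat_lit 5) (nat_lit 250) (nat_lit 5) (nat_lit 407) (nat_lit 381) (nat_lit 232)) (XT.lf (nat_lit 0) (nat_lit 14754124687) (nat_lit 380) (nat_lit 23941278119) (nat_lit 76) (nat_lit 23327792245) (nat_lit 245) (nat_lit 5) (nat_lit 250) (nat_lit 5) (nat_lit 246) (nat_lit 5) (nat_lit 408) (nat_lit 381) (nat_lit 231))))))) (XT.nd (nat_lit 1248) (nat_lit 1596) (nat_lit 0) (XT.nd (nat_lit 624) (nat_lit 988) (nat_lit 0) (XT.nd (nat_lit 312) (nat_lit 380) (nat_lit 0) (XT.nd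 (nat_lit 156) (nat_lit 532) (nat_lit 0) (XT.nd (nat_lit 78) (nat_lit 0) (nat_lit 0) (XT.lf (nat_lit 0) (nat_lit 13457096292) (nat_lit 228) (nat_lit 14081269592) (nat_lit 304) (nat_lit 36320712130) (nat_lit 242) (nat_lit 5) (nat_lit 245) (nat_lit 5) (nat_lit 246) (nat_lit 5) (nat_lit 409) (nat_lit 381) (nat_lit 230)) (XT.lf (nat_lit 0) (nat_lit 41555918697) (nat_lit 304) (nat_lit 12402638012) (nat_lit 76) (nat_lit 11798493439) (nat_lit 242) (nat_lit 5) (nat_lit 246) (nat_lit 5) (nat_lit 243) (nat_lit 5) (nat_lit 410) (nat_lit 381) (nat_lit 229))) (XT.nd (nat_lit 78) (nat_lit 304) (nat_lit 0) (XT.lf (nat_lit 0) (nat_lit 28164979893) (nat_lit 228) (nat_lit 28778356666) (nat_lit 304) (nat_lit 10773134959) (nat_lit 239) (nat_lit 5) (nat_lit 242) (nat_lit 5) (nat_lit 243) (nat_lit 5) (nat_lit 411) (nat_lit 381) (nat_lit 228)) (XT.lf (nat_lit 0) (nat_lit 1415825671) (nat_lit 228) (nat_lit 2037995016)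 (nat_lit 304) (nat_lit 66305745633) (nat_lit 235) (nat_lit 5) (nat_lit 238) (nat_lit 5) (nat_lit 239) (nat_lit 5) (nat_lit 412) (nat_lit 381) (nat_lit 227)))) (XT.nd (nat_lit 156) (nat_lit 152) (nat_lit 0) (XT.nd (nat_lit 78) (nat_lit 228) (nat_lit 0) (XT.lf (nat_lit 0) (nat_lit 19115883175) (nat_lit 304) (nat_lit 26663164626) (nat_lit 76) (nat_lit 26062647270) (nat_lit 235) (nat_lit 5) (nat_lit 239) (nat_lit 5) (nat_lit 236) (nat_lit 5) (nat_lit 413) (nat_lit 381) (nat_lit 226)) (XT.lf (nat_lit 0) (nat_lit 17630064512) (nat_lit 228) (nat_lit 18238177222) (nat_lit 304) (nat_lit 38144328880) (nat_lit 232) (nat_lit 5) (nat_lit 235) (nat_lit 5) (nat_lit 236) (nat_lit 5) (nat_lit 414) (nat_lit 381) (nat_lit 225))) (XT.nd (nat_lit 78) (nat_lit 152) (nat_lit 0) (XT.lf (nat_lit 0) (nat_lit 54082467165) (nat_lit 304) (nat_lit 11382177246) (nat_lit 76) (nat_lit 10796133074) (nat_lit 232) (nat_lit 5) (nat_lit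 236) (nat_lit 5) (nat_lit 233) (nat_lit 5) (nat_lit 415) (nat_lit 381) (nat_lit 224)) (XT.lf (nat_lit 0) (nat_lit 36743033969) (nat_lit 152) (nat_lit 37335639293) (nat_lit 228) (nat_lit 4499157969) (nat_lit 230) (nat_lit 5) (nat_lit 232) (nat_lit 5) (nat_lit 233) (nat_lit 5) (nat_lit 416) (nat_lit 381) (nat_lit 223))))) (XT.nd (nat_lit 312) (nat_lit 532) (nat_lit 0) (XT.nd (nat_lit 156) (nat_lit 152) (nat_lit 0) (XT.nd (nat_lit 78) (nat_lit 0) (nat_lit 0) (XT.lf (nat_lit 0) (nat_lit 6656724077) (nat_lit 228) (nat_lit 7255578119) (nat_lit 304) (nat_lit 67072532359) (nat_lit 226) (nat_lit 5) (nat_lit 229) (nat_lit 5) (nat_lit 230) (nat_lit 5) (nat_lit 417) (nat_lit 381) (nat_lit 222)) (XT.lf (nat_lit 0) (nat_lit 34191728350) (nat_lit 304) (nat_lit 24918923552) (nat_lit 76) (nat_lit 24342918599) (nat_lit 226) (nat_lit 5) (nat_lit 230) (nat_lit 5) (nat_lit 227) (nat_lit 5) (nat_lit 418) (nat_lit 381)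 (nat_lit 221))) (XT.nd (nat_lit 78) (nat_lit 0) (nat_lit 0) (XT.lf (nat_lit 0) (nat_lit 27727140327) (nat_lit 152) (nat_lit 28308543157) (nat_lit 228) (nat_lit 29982531875) (nat_lit 224) (nat_lit 5) (nat_lit 226) (nat_lit 5) (nat_lit 227) (nat_lit 5) (nat_lit 419) (nat_lit 381) (nat_lit 220)) (XT.lf (nat_lit 0) (nat_lit 79462477844) (nat_lit 228) (nat_lit 4891347778) (nat_lit 76) (nat_lit 4332734765) (nat_lit 224) (nat_lit 5) (nat_lit 227) (nat_lit 5) (nat_lit 225) (nat_lit 5) (nat_lit 420) (nat_lit 381) (nat_lit 219)))) (XT.nd (nat_lit 156) (nat_lit 152) (nat_lit 0) (XT.nd (nat_lit 78) (nat_lit 152) (nat_lit 0) (XT.lf (nat_lit 0) (nat_lit 13471701669) (nat_lit 228) (nat_lit 39252496129) (nat_lit 76) (nat_lit 38689220227) (nat_lit 221) (nat_lit 5) (nat_lit 224) (nat_lit 5) (nat_lit 222) (nat_lit 5) (nat_lit 421) (nat_lit 381) (nat_lit 218)) (XT.lf (nat_lit 0) (nat_lit 18397399540) (nat_lit 152)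 (nat_lit 18965116289) (nat_lit 228) (nat_lit 56888030472) (nat_lit 219) (nat_lit 5) (nat_lit 221) (nat_lit 5) (nat_lit 222) (nat_lit 5) (nat_lit 422) (nat_lit 381) (nat_lit 217))) (XT.nd (nat_lit 78) (nat_lit 152) (nat_lit 0) (XT.lf (nat_lit 0) (nat_lit 63379671343) (nat_lit 228) (nat_lit 17173990105) (nat_lit 76) (nat_lit 16629279509) (nat_lit 219) (nat_lit 5) (nat_lit 222) (nat_lit 5) (nat_lit 220) (nat_lit 5) (nat_lit 423) (nat_lit 381) (nat_lit 216)) (XT.lf (nat_lit 0) (nat_lit 45585313177) (nat_lit 152) (nat_lit 46133859944) (nat_lit 228) (nat_lit 8491707802) (nat_lit 217) (nat_lit 5) (nat_lit 219) (nat_lit 5) (nat_lit 220) (nat_lit 5) (nat_lit 424) (nat_lit 381) (nat_lit 215)))))) (XT.nd (nat_lit 624) (nat_lit 760) (nat_lit 0) (XT.nd (nat_lit 312) (nat_lit 456) (nat_lit 0) (XT.nd (nat_lit 156) (nat_lit 152) (nat_lit 0) (XT.nd (nat_lit 78) (nat_lit 0) (nat_lit 0) (XT.lf (nat_lit 0) (nat_lit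 8692295304) (nat_lit 152) (nat_lit 9244495566) (nat_lit 228) (nat_lit 85417798526) (nat_lit 214) (nat_lit 5) (nat_lit 216) (nat_lit 5) (nat_lit 217) (nat_lit 5) (nat_lit 425) (nat_lit 381) (nat_lit 214)) (XT.lf (nat_lit 0) (nat_lit 46800912781) (nat_lit 228) (nat_lit 30153425083) (nat_lit 76) (nat_lit 29624206244) (nat_lit 214) (nat_lit 5) (nat_lit 217) (nat_lit 5) (nat_lit 215) (nat_lit 5) (nat_lit 426) (nat_lit 381) (nat_lit 213))) (XT.nd (nat_lit 78) (nat_lit 0) (nat_lit 0) (XT.lf (nat_lit 0) (nat_lit 38665012595) (nat_lit 152) (nat_lit 39197387461) (nat_lit 228) (nat_lit 32063588536) (nat_lit 212) (nat_lit 5) (nat_lit 214) (nat_lit 5) (nat_lit 215) (nat_lit 5) (nat_lit 427) (nat_lit 381) (nat_lit 212)) (XT.lf (nat_lit 0) (nat_lit 111001932213) (nat_lit 228) (nat_lit 1461255426) (nat_lit 76) (nat_lit 951369135) (nat_lit 212) (nat_lit 5) (nat_lit 215) (nat_lit 5) (nat_lit 213) (nat_lit 4) (nat_lit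 428) (nat_lit 381) (nat_lit 211)))) (XT.nd (nat_lit 156) (nat_lit 152) (nat_lit 0) (XT.nd (nat_lit 78) (nat_lit 152) (nat_lit 0) (XT.lf (nat_lit 0) (nat_lit 29620690956) (nat_lit 152) (nat_lit 43928050881) (nat_lit 76) (nat_lit 43415438296) (nat_lit 210) (nat_lit 5) (nat_lit 212) (nat_lit 5) (nat_lit 211) (nat_lit 5) (nat_lit 429) (nat_lit 381) (nat_lit 210)) (XT.lf (nat_lit 0) (nat_lit 31588361973) (nat_lit 152) (nat_lit 32103571029) (nat_lit 228) (nat_lit 56971507059) (nat_lit 208) (nat_lit 5) (nat_lit 210) (nat_lit 5) (nat_lit 211) (nat_lit 5) (nat_lit 430) (nat_lit 381) (nat_lit 209))) (XT.nd (nat_lit 78) (nat_lit 152) (nat_lit 0) (XT.lf (nat_lit 0) (nat_lit 100400091302) (nat_lit 228) (nat_lit 12296967171) (nat_lit 76) (nat_lit 11803936803) (nat_lit 208) (nat_lit 5) (nat_lit 211) (nat_lit 5) (nat_lit 209) (nat_lit 4) (nat_lit 431) (nat_lit 381) (nat_lit 208)) (XT.lf (nat_lit 0) (nat_lit 11725246776)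 (nat_lit 152) (nat_lit 58605030247) (nat_lit 76) (nat_lit 58109756951) (nat_lit 206) (nat_lit 5) (nat_lit 208) (nat_lit 5) (nat_lit 207) (nat_lit 5) (nat_lit 432) (nat_lit 381) (nat_lit 207))))) (XT.nd (nat_lit 312) (nat_lit 304) (nat_lit 0) (XT.nd (nat_lit 156) (nat_lit 304) (nat_lit 0) (XT.nd (nat_lit 78) (nat_lit 0) (nat_lit 0) (XT.lf (nat_lit 0) (nat_lit 24312835839) (nat_lit 152) (nat_lit 24810245258) (nat_lit 228) (nat_lit 83403672450) (nat_lit 204) (nat_lit 5) (nat_lit 206) (nat_lit 5) (nat_lit 207) (nat_lit 5) (nat_lit 433) (nat_lit 381) (nat_lit 206)) (XT.lf (nat_lit 0) (nat_lit 89757525322) (nat_lit 228) (nat_lit 23733804324) (nat_lit 76) (nat_lit 23258143541) (nat_lit 204) (nat_lit 5) (nat_lit 207) (nat_lit 5) (nat_lit 205) (nat_lit 4) (nat_lit 434) (nat_lit 381) (nat_lit 205))) (XT.nd (nat_lit 78) (nat_lit 228) (nat_lit 0) (XT.lf (nat_lit 0) (nat_lit 66696673904) (nat_lit 76) (nat_lit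 67174179950) (nat_lit 152) (nat_lit 7240116851) (nat_lit 203) (nat_lit 5) (nat_lit 204) (nat_lit 5) (nat_lit 205) (nat_lit 4) (nat_lit 435) (nat_lit 381) (nat_lit 204)) (XT.lf (nat_lit 0) (nat_lit 16792841386) (nat_lit 152) (nat_lit 17272104826) (nat_lit 228) (nat_lit 111565173658) (nat_lit 200) (nat_lit 5) (nat_lit 202) (nat_lit 5) (nat_lit 203) (nat_lit 5) (nat_lit 436) (nat_lit 381) (nat_lit 203)))) (XT.nd (nat_lit 156) (nat_lit 228) (nat_lit 0) (XT.nd (nat_lit 78) (nat_lit 76) (nat_lit 0) (XT.lf (nat_lit 0) (nat_lit 79020372915) (nat_lit 228) (nat_lit 35857766571) (nat_lit 76) (nat_lit 35399731191) (nat_lit 200) (nat_lit 5) (nat_lit 203) (nat_lit 5) (nat_lit 201) (nat_lit 4) (nat_lit 437) (nat_lit 381) (nat_lit 202)) (XT.lf (nat_lit 0) (nat_lit 63519020810) (nat_lit 76) (nat_lit 63978574292) (nat_lit 152) (nat_lit 27596712715) (nat_lit 199) (nat_lit 5) (nat_lit 200) (nat_lit 5) (nat_lit 201)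 (nat_lit 4) (nat_lit 438) (nat_lit 381) (nat_lit 201))) (XT.nd (nat_lit 78) (nat_lit 0) (nat_lit 0) (XT.lf (nat_lit 0) (nat_lit 8979337314) (nat_lit 152) (nat_lit 9440336608) (nat_lit 228) (nat_lit 141679819271) (nat_lit 196) (nat_lit 5) (nat_lit 198) (nat_lit 5) (nat_lit 199) (nat_lit 5) (nat_lit 439) (nat_lit 381) (nat_lit 200)) (XT.lf (nat_lit 0) (nat_lit 68131596578) (nat_lit 228) (nat_lit 48762485993) (nat_lit 76) (nat_lit 48322127651) (nat_lit 196) (nat_lit 5) (nat_lit 199) (nat_lit 5) (nat_lit 197) (nat_lit 4) (nat_lit 440) (nat_lit 381) (nat_lit 199))))))))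
noncomputable def xc245 : XT := (XT.nd (nat_lit 1248) (nat_lit 1140) (nat_lit 0) (XT.nd (nat_lit 624) (nat_lit 684) (nat_lit 0) (XT.nd (nat_lit 312) (nat_lit 228) (nat_lit 0) (XT.nd (nat_lit 156) (nat_lit 76) (nat_lit 0) (XT.nd (nat_lit 78) (nat_lit 228) (nat_lit 0) (XT.lf (nat_lit 0) (nat_lit 60492971930) (nat_lit 76) (nat_lit 60934579218) (nat_lit 152) (nat_lit 49106290165) (nat_lit 195) (nat_lit 5) (nat_lit 196) (nat_lit 5) (nat_lit 197) (nat_lit 4) (nat_lit 441) (nat_lit 381) (nat_lit 198)) (XT.lf (nat_lit 0) (nat_lit 819417711) (nat_lit 152) (nat_lit 1262214472) (nat_lit 228) (nat_lit 173992161570) (nat_lit 192) (nat_lit 5) (nat_lit 194) (nat_lit 5) (nat_lit 195) (nat_lit 5) (nat_lit 442) (nat_lit 381) (nat_lit 197))) (XT.nd (nat_lit 78) (nat_lit 76) (nat_lit 0) (XT.lf (nat_lit 0) (nat_lit 57030549246) (nat_lit 228) (nat_lit 62550069502) (nat_lit 76) (nat_lit 62127279413) (nat_lit 192) (nat_lit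 5) (nat_lit 195) (nat_lit 5) (nat_lit 193) (nat_lit 4) (nat_lit 443) (nat_lit 381) (nat_lit 196)) (XT.lf (nat_lit 0) (nat_lit 57611257060) (nat_lit 76) (nat_lit 58035074661) (nat_lit 152) (nat_lit 71931405090) (nat_lit 191) (nat_lit 5) (nat_lit 192) (nat_lit 5) (nat_lit 193) (nat_lit 4) (nat_lit 444) (nat_lit 381) (nat_lit 195)))) (XT.nd (nat_lit 156) (nat_lit 76) (nat_lit 0) (XT.nd (nat_lit 78) (nat_lit 152) (nat_lit 0) (XT.lf (nat_lit 0) (nat_lit 178371695584) (nat_lit 152) (nat_lit 7857499995) (nat_lit 0) (nat_lit 7452932201) (nat_lit 191) (nat_lit 5) (nat_lit 193) (nat_lit 4) (nat_lit 191) (nat_lit 4) (nat_lit 445) (nat_lit 381) (nat_lit 194)) (XT.lf (nat_lit 0) (nat_lit 45652500928) (nat_lit 152) (nat_lit 77332024082) (nat_lit 76) (nat_lit 76926568686) (nat_lit 189) (nat_lit 5) (nat_lit 191) (nat_lit 5) (nat_lit 190) (nat_lit 4) (nat_lit 446) (nat_lit 381) (nat_lit 193))) (XT.nd (nat_lit 78)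 (nat_lit 0) (nat_lit 0) (XT.lf (nat_lit 0) (nat_lit 54866961232) (nat_lit 76) (nat_lit 55273261965) (nat_lit 152) (nat_lit 96249176507) (nat_lit 188) (nat_lit 5) (nat_lit 189) (nat_lit 5) (nat_lit 190) (nat_lit 4) (nat_lit 447) (nat_lit 381) (nat_lit 192)) (XT.lf (nat_lit 0) (nat_lit 179429803735) (nat_lit 152) (nat_lit 17035331746) (nat_lit 0) (nat_lit 16647611921) (nat_lit 188) (nat_lit 5) (nat_lit 190) (nat_lit 4) (nat_lit 188) (nat_lit 4) (nat_lit 448) (nat_lit 381) (nat_lit 191))))) (XT.nd (nat_lit 312) (nat_lit 304) (nat_lit 0) (XT.nd (nat_lit 156) (nat_lit 152) (nat_lit 0) (XT.nd (nat_lit 78) (nat_lit 76) (nat_lit 0) (XT.lf (nat_lit 0) (nat_lit 33928121181) (nat_lit 152) (nat_lit 93230273624) (nat_lit 76) (nat_lit 92841823566) (nat_lit 186) (nat_lit 5) (nat_lit 188) (nat_lit 5) (nat_lit 187) (nat_lit 4) (nat_lit 449) (nat_lit 381) (nat_lit 190)) (XT.lf (nat_lit 0) (nat_lit 52253506192) (nat_lit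 76) (nat_lit 52642651710) (nat_lit 152) (nat_lit 122252876697) (nat_lit 185) (nat_lit 5) (nat_lit 186) (nat_lit 5) (nat_lit 187) (nat_lit 4) (nat_lit 450) (nat_lit 381) (nat_lit 189))) (XT.nd (nat_lit 78) (nat_lit 152) (nat_lit 0) (XT.lf (nat_lit 0) (nat_lit 181416383879) (nat_lit 152) (nat_lit 26754981984) (nat_lit 0) (nat_lit 26383736402) (nat_lit 185) (nat_lit 5) (nat_lit 187) (nat_lit 4) (nat_lit 185) (nat_lit 4) (nat_lit 451) (nat_lit 381) (nat_lit 188)) (XT.lf (nat_lit 0) (nat_lit 21782912808) (nat_lit 152) (nat_lit 110378276984) (nat_lit 76) (nat_lit 110006430637) (nat_lit 183) (nat_lit 5) (nat_lit 185) (nat_lit 5) (nat_lit 184) (nat_lit 4) (nat_lit 452) (nat_lit 381) (nat_lit 187)))) (XT.nd (nat_lit 156) (nat_lit 228) (nat_lit 0) (XT.nd (nat_lit 78) (nat_lit 0) (nat_lit 0) (XT.lf (nat_lit 0) (nat_lit 49764633053) (nat_lit 76) (nat_lit 50137051557) (nat_lit 152) (nat_lit 150153680143) (nat_lit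 182) (nat_lit 5) (nat_lit 183) (nat_lit 5) (nat_lit 184) (nat_lit 4) (nat_lit 453) (nat_lit 381) (nat_lit 186)) (XT.lf (nat_lit 0) (nat_lit 184387595332) (nat_lit 152) (nat_lit 37091022099) (nat_lit 0) (nat_lit 36735818846) (nat_lit 182) (nat_lit 5) (nat_lit 184) (nat_lit 4) (nat_lit 182) (nat_lit 4) (nat_lit 454) (nat_lit 381) (nat_lit 185))) (XT.nd (nat_lit 78) (nat_lit 76) (nat_lit 0) (XT.lf (nat_lit 0) (nat_lit 9136591634) (nat_lit 152) (nat_lit 128922257885) (nat_lit 76) (nat_lit 128566560382) (nat_lit 180) (nat_lit 5) (nat_lit 182) (nat_lit 5) (nat_lit 181) (nat_lit 4) (nat_lit 455) (nat_lit 381) (nat_lit 184)) (XT.lf (nat_lit 0) (nat_lit 47394386001) (nat_lit 76) (nat_lit 47750554219) (nat_lit 152) (nat_lit 180182587664) (nat_lit 179) (nat_lit 5) (nat_lit 180) (nat_lit 5) (nat_lit 181) (nat_lit 4) (nat_lit 456) (nat_lit 381) (nat_lit 183)))))) (XT.nd (nat_lit 624) (nat_lit 608) (nat_lit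 0) (XT.nd (nat_lit 312) (nat_lit 304) (nat_lit 0) (XT.nd (nat_lit 156) (nat_lit 152) (nat_lit 0) (XT.nd (nat_lit 78) (nat_lit 76) (nat_lit 0) (XT.lf (nat_lit 0) (nat_lit 188407204346) (nat_lit 152) (nat_lit 48124753647) (nat_lit 0) (nat_lit 47785118868) (nat_lit 179) (nat_lit 5) (nat_lit 181) (nat_lit 4) (nat_lit 179) (nat_lit 4) (nat_lit 457) (nat_lit 381) (nat_lit 182)) (XT.lf (nat_lit 0) (nat_lit 144515528903) (nat_lit 76) (nat_lit 144855570303) (nat_lit 76) (nat_lit 4233078205) (nat_lit 178) (nat_lit 4) (nat_lit 179) (nat_lit 5) (nat_lit 179) (nat_lit 4) (nat_lit 458) (nat_lit 381) (nat_lit 181))) (XT.nd (nat_lit 78) (nat_lit 0) (nat_lit 0) (XT.lf (nat_lit 0) (nat_lit 45137096969) (nat_lit 76) (nat_lit 45477525628) (nat_lit 152) (nat_lit 212592543824) (nat_lit 176) (nat_lit 5) (nat_lit 177) (nat_lit 5) (nat_lit 178) (nat_lit 4) (nat_lit 459) (nat_lit 381) (nat_lit 180)) (XT.lf (nat_lit 0) (nat_lit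 193547276928) (nat_lit 152) (nat_lit 59944942930) (nat_lit 0) (nat_lit 59620373904) (nat_lit 176) (nat_lit 5) (nat_lit 178) (nat_lit 4) (nat_lit 176) (nat_lit 4) (nat_lit 460) (nat_lit 381) (nat_lit 179)))) (XT.nd (nat_lit 156) (nat_lit 76) (nat_lit 0) (XT.nd (nat_lit 78) (nat_lit 152) (nat_lit 0) (XT.lf (nat_lit 0) (nat_lit 152211550302) (nat_lit 76) (nat_lit 152536453855) (nat_lit 76) (nat_lit 18609216304) (nat_lit 175) (nat_lit 4) (nat_lit 176) (nat_lit 5) (nat_lit 176) (nat_lit 4) (nat_lit 461) (nat_lit 381) (nat_lit 178)) (XT.lf (nat_lit 0) (nat_lit 42987371206) (nat_lit 76) (nat_lit 43312593357) (nat_lit 152) (nat_lit 247660767572) (nat_lit 173) (nat_lit 5) (nat_lit 174) (nat_lit 5) (nat_lit 175) (nat_lit 4) (nat_lit 462) (nat_lit 381) (nat_lit 177))) (XT.nd (nat_lit 78) (nat_lit 76) (nat_lit 0) (XT.lf (nat_lit 0) (nat_lit 199888946598) (nat_lit 152) (nat_lit 72648628505) (nat_lit 0) (nat_lit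 72338604144) (nat_lit 173) (nat_lit 5) (nat_lit 175) (nat_lit 4) (nat_lit 173) (nat_lit 4) (nat_lit 463) (nat_lit 381) (nat_lit 176)) (XT.lf (nat_lit 0) (nat_lit 161035410044) (nat_lit 76) (nat_lit 161345709622) (nat_lit 76) (nat_lit 33795091951) (nat_lit 172) (nat_lit 4) (nat_lit 173) (nat_lit 5) (nat_lit 173) (nat_lit 4) (nat_lit 464) (nat_lit 381) (nat_lit 175))))) (XT.nd (nat_lit 312) (nat_lit 228) (nat_lit 0) (XT.nd (nat_lit 156) (nat_lit 228) (nat_lit 0) (XT.nd (nat_lit 78) (nat_lit 0) (nat_lit 0) (XT.lf (nat_lit 0) (nat_lit 40940073651) (nat_lit 76) (nat_lit 41250635341) (nat_lit 152) (nat_lit 285691318107) (nat_lit 170) (nat_lit 5) (nat_lit 171) (nat_lit 5) (nat_lit 172) (nat_lit 4) (nat_lit 465) (nat_lit 381) (nat_lit 174)) (XT.lf (nat_lit 0) (nat_lit 207523264609) (nat_lit 152) (nat_lit 86342009282) (nat_lit 0) (nat_lit 86045998501) (nat_lit 170) (nat_lit 5) (nat_lit 172) (nat_lit 4)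 (nat_lit 170) (nat_lit 4) (nat_lit 466) (nat_lit 381) (nat_lit 173))) (XT.nd (nat_lit 78) (nat_lit 152) (nat_lit 0) (XT.lf (nat_lit 0) (nat_lit 171086551167) (nat_lit 76) (nat_lit 171382788369) (nat_lit 76) (nat_lit 49905295839) (nat_lit 169) (nat_lit 4) (nat_lit 170) (nat_lit 5) (nat_lit 170) (nat_lit 4) (nat_lit 467) (nat_lit 381) (nat_lit 172)) (XT.lf (nat_lit 0) (nat_lit 38990316078) (nat_lit 76) (nat_lit 39286768920) (nat_lit 152) (nat_lit 327017920197) (nat_lit 167) (nat_lit 5) (nat_lit 168) (nat_lit 5) (nat_lit 169) (nat_lit 4) (nat_lit 468) (nat_lit 381) (nat_lit 171)))) (XT.nd (nat_lit 156) (nat_lit 152) (nat_lit 0) (XT.nd (nat_lit 78) (nat_lit 76) (nat_lit 0) (XT.lf (nat_lit 0) (nat_lit 216552140938) (nat_lit 152) (nat_lit 101141421579) (nat_lit 0) (nat_lit 100858889946) (nat_lit 167) (nat_lit 5) (nat_lit 169) (nat_lit 4) (nat_lit 167) (nat_lit 4) (nat_lit 469) (nat_lit 381) (nat_lit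 170)) (XT.lf (nat_lit 0) (nat_lit 182475382301) (nat_lit 76) (nat_lit 182758100211) (nat_lit 76) (nat_lit 67064662941) (nat_lit 166) (nat_lit 4) (nat_lit 167) (nat_lit 5) (nat_lit 167) (nat_lit 4) (nat_lit 470) (nat_lit 381) (nat_lit 169))) (XT.nd (nat_lit 78) (nat_lit 0) (nat_lit 0) (XT.lf (nat_lit 0) (nat_lit 37133444927) (nat_lit 76) (nat_lit 37416340245) (nat_lit 152) (nat_lit 372007075713) (nat_lit 164) (nat_lit 5) (nat_lit 165) (nat_lit 5) (nat_lit 166) (nat_lit 4) (nat_lit 471) (nat_lit 381) (nat_lit 168)) (XT.lf (nat_lit 0) (nat_lit 227089385206) (nat_lit 152) (nat_lit 117174414388) (nat_lit 0) (nat_lit 116904829361) (nat_lit 164) (nat_lit 5) (nat_lit 166) (nat_lit 4) (nat_lit 164) (nat_lit 4) (nat_lit 472) (nat_lit 381) (nat_lit 167)))))))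
noncomputable def xc246 : XT := (XT.nd (nat_lit 1248) (nat_lit 152) (nat_lit 0) (XT.nd (nat_lit 624) (nat_lit 532) (nat_lit 0) (XT.nd (nat_lit 312) (nat_lit 380) (nat_lit 0) (XT.nd (nat_lit 156) (nat_lit 76) (nat_lit 0) (XT.nd (nat_lit 78) (nat_lit 152) (nat_lit 0) (XT.lf (nat_lit 0) (nat_lit 195324364296) (nat_lit 76) (nat_lit 195594102574) (nat_lit 76) (nat_lit 85409393478) (nat_lit 163) (nat_lit 4) (nat_lit 164) (nat_lit 5) (nat_lit 164) (nat_lit 4) (nat_lit 473) (nat_lit 381) (nat_lit 166)) (XT.lf (nat_lit 0) (nat_lit 35365029798) (nat_lit 76) (nat_lit 35634914029) (nat_lit 152) (nat_lit 421061490829) (nat_lit 161) (nat_lit 5) (nat_lit 162) (nat_lit 5) (nat_lit 163) (nat_lit 4) (nat_lit 474) (nat_lit 381) (nat_lit 165))) (XT.nd (nat_lit 78) (nat_lit 76) (nat_lit 0) (XT.lf (nat_lit 0) (nat_lit 239261857626) (nat_lit 152) (nat_lit 134580933037) (nat_lit 0) (nat_lit 134323768052) (nat_lit 161)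 (nat_lit 5) (nat_lit 163) (nat_lit 4) (nat_lit 161) (nat_lit 4) (nat_lit 475) (nat_lit 381) (nat_lit 164)) (XT.lf (nat_lit 0) (nat_lit 209769210098) (nat_lit 76) (nat_lit 210026501164) (nat_lit 76) (nat_lit 105088285509) (nat_lit 160) (nat_lit 4) (nat_lit 161) (nat_lit 5) (nat_lit 161) (nat_lit 4) (nat_lit 476) (nat_lit 381) (nat_lit 163)))) (XT.nd (nat_lit 156) (nat_lit 228) (nat_lit 0) (XT.nd (nat_lit 78) (nat_lit 0) (nat_lit 0) (XT.lf (nat_lit 0) (nat_lit 33680852545) (nat_lit 76) (nat_lit 33938263686) (nat_lit 152) (nat_lit 474623851393) (nat_lit 158) (nat_lit 5) (nat_lit 159) (nat_lit 5) (nat_lit 160) (nat_lit 4) (nat_lit 477) (nat_lit 381) (nat_lit 162)) (XT.lf (nat_lit 0) (nat_lit 253210741116) (nat_lit 152) (nat_lit 153514622460) (nat_lit 0) (nat_lit 153269360078) (nat_lit 158) (nat_lit 5) (nat_lit 160) (nat_lit 4) (nat_lit 158) (nat_lit 4) (nat_lit 478) (nat_lit 381) (nat_lit 161))) (XT.nd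 (nat_lit 78) (nat_lit 152) (nat_lit 0) (XT.lf (nat_lit 0) (nat_lit 225960209384) (nat_lit 76) (nat_lit 226205575491) (nat_lit 76) (nat_lit 126264090728) (nat_lit 157) (nat_lit 4) (nat_lit 158) (nat_lit 5) (nat_lit 158) (nat_lit 4) (nat_lit 479) (nat_lit 381) (nat_lit 160)) (XT.lf (nat_lit 0) (nat_lit 32076896940) (nat_lit 76) (nat_lit 32322361835) (nat_lit 152) (nat_lit 533180982277) (nat_lit 155) (nat_lit 5) (nat_lit 156) (nat_lit 5) (nat_lit 157) (nat_lit 4) (nat_lit 480) (nat_lit 381) (nat_lit 159))))) (XT.nd (nat_lit 312) (nat_lit 304) (nat_lit 0) (XT.nd (nat_lit 156) (nat_lit 152) (nat_lit 0) (XT.nd (nat_lit 78) (nat_lit 76) (nat_lit 0) (XT.lf (nat_lit 0) (nat_lit 269092946852) (nat_lit 152) (nat_lit 174144262417) (nat_lit 0) (nat_lit 173910396724) (nat_lit 155) (nat_lit 5) (nat_lit 157) (nat_lit 4) (nat_lit 155) (nat_lit 4) (nat_lit 481) (nat_lit 381) (nat_lit 158)) (XT.lf (nat_lit 0) (nat_lit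 244063690645) (nat_lit 76) (nat_lit 244297641675) (nat_lit 76) (nat_lit 149115006211) (nat_lit 154) (nat_lit 4) (nat_lit 155) (nat_lit 5) (nat_lit 155) (nat_lit 4) (nat_lit 482) (nat_lit 381) (nat_lit 157))) (XT.nd (nat_lit 78) (nat_lit 0) (nat_lit 0) (XT.lf (nat_lit 0) (nat_lit 30549338876) (nat_lit 76) (nat_lit 30783371178) (nat_lit 152) (nat_lit 597268430204) (nat_lit 152) (nat_lit 5) (nat_lit 153) (nat_lit 5) (nat_lit 154) (nat_lit 4) (nat_lit 483) (nat_lit 381) (nat_lit 156)) (XT.lf (nat_lit 0) (nat_lit 287082666821) (nat_lit 152) (nat_lit 196655348312) (nat_lit 0) (nat_lit 196432386689) (nat_lit 152) (nat_lit 5) (nat_lit 154) (nat_lit 4) (nat_lit 152) (nat_lit 4) (nat_lit 484) (nat_lit 381) (nat_lit 155)))) (XT.nd (nat_lit 156) (nat_lit 76) (nat_lit 0) (XT.nd (nat_lit 78) (nat_lit 152) (nat_lit 0) (XT.lf (nat_lit 0) (nat_lit 264263634717) (nat_lit 76) (nat_lit 264486666546) (nat_lit 76) (nat_lit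 173836316208) (nat_lit 151) (nat_lit 4) (nat_lit 152) (nat_lit 5) (nat_lit 152) (nat_lit 4) (nat_lit 485) (nat_lit 381) (nat_lit 154)) (XT.lf (nat_lit 0) (nat_lit 29094537058) (nat_lit 76) (nat_lit 29317635750) (nat_lit 152) (nat_lit 667475513575) (nat_lit 149) (nat_lit 5) (nat_lit 150) (nat_lit 5) (nat_lit 151) (nat_lit 4) (nat_lit 486) (nat_lit 381) (nat_lit 153))) (XT.nd (nat_lit 78) (nat_lit 76) (nat_lit 0) (XT.lf (nat_lit 0) (nat_lit 307373088296) (nat_lit 152) (nat_lit 221251832573) (nat_lit 0) (nat_lit 221039296981) (nat_lit 149) (nat_lit 5) (nat_lit 151) (nat_lit 4) (nat_lit 149) (nat_lit 4) (nat_lit 487) (nat_lit 381) (nat_lit 152)) (XT.lf (nat_lit 0) (nat_lit 286763455185) (nat_lit 76) (nat_lit 286976048535) (nat_lit 76) (nat_lit 200642199462) (nat_lit 148) (nat_lit 4) (nat_lit 149) (nat_lit 5) (nat_lit 149) (nat_lit 4) (nat_lit 488) (nat_lit 381) (nat_lit 151)))))) (XT.nd (nat_lit 45318)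 (nat_lit 0) (nat_lit 9804) (XT.nd (nat_lit 45006) (nat_lit 0) (nat_lit 11172) (XT.nd (nat_lit 44850) (nat_lit 0) (nat_lit 11096) (XT.nd (nat_lit 44772) (nat_lit 0) (nat_lit 11096) (XT.lf (nat_lit 0) (nat_lit 27709024176) (nat_lit 76) (nat_lit 27921672534) (nat_lit 152) (nat_lit 744450887288) (nat_lit 146) (nat_lit 5) (nat_lit 147) (nat_lit 5) (nat_lit 148) (nat_lit 4) (nat_lit 489) (nat_lit 381) (nat_lit 150)) (XT.lf (nat_lit 0) (nat_lit 6957415991) (nat_lit 836) (nat_lit 4405555790) (nat_lit 836) (nat_lit 4405555790) (nat_lit 292) (nat_lit 3) (nat_lit 303) (nat_lit 3) (nat_lit 303) (nat_lit 5) (nat_lit 382) (nat_lit 382) (nat_lit 256))) (XT.nd (nat_lit 78) (nat_lit 0) (nat_lit 76) (XT.lf (nat_lit 76) (nat_lit 7187459585) (nat_lit 0) (nat_lit 7252454173) (nat_lit 836) (nat_lit 17876707217) (nat_lit 293) (nat_lit 5) (nat_lit 292) (nat_lit 3) (nat_lit 303) (nat_lit 5) (nat_lit 383) (nat_lit 382)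 (nat_lit 255)) (XT.lf (nat_lit 0) (nat_lit 15279183504) (nat_lit 760) (nat_lit 8981218257) (nat_lit 836) (nat_lit 8860366641) (nat_lit 293) (nat_lit 5) (nat_lit 303) (nat_lit 5) (nat_lit 304) (nat_lit 5) (nat_lit 384) (nat_lit 382) (nat_lit 254)))) (XT.nd (nat_lit 156) (nat_lit 0) (nat_lit 76) (XT.nd (nat_lit 78) (nat_lit 0) (nat_lit 76) (XT.lf (nat_lit 76) (nat_lit 8112502438) (nat_lit 0) (nat_lit 8289498824) (nat_lit 836) (nat_lit 17551042712) (nat_lit 294) (nat_lit 5) (nat_lit 293) (nat_lit 5) (nat_lit 304) (nat_lit 5) (nat_lit 385) (nat_lit 382) (nat_lit 253)) (XT.lf (nat_lit 0) (nat_lit 17864158776) (nat_lit 760) (nat_lit 8584053776) (nat_lit 836) (nat_lit 8364560829) (nat_lit 294) (nat_lit 5) (nat_lit 304) (nat_lit 5) (nat_lit 305) (nat_lit 5) (nat_lit 386) (nat_lit 382) (nat_lit 252))) (XT.nd (nat_lit 78) (nat_lit 0) (nat_lit 76) (XT.lf (nat_lit 76) (nat_lit 9707638516) (nat_lit 0) (nat_lit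 9975631425) (nat_lit 836) (nat_lit 16018027030) (nat_lit 295) (nat_lit 5) (nat_lit 294) (nat_lit 5) (nat_lit 305) (nat_lit 5) (nat_lit 387) (nat_lit 382) (nat_lit 251)) (XT.lf (nat_lit 0) (nat_lit 21851930161) (nat_lit 760) (nat_lit 7534304571) (nat_lit 836) (nat_lit 7235082333) (nat_lit 295) (nat_lit 5) (nat_lit 305) (nat_lit 5) (nat_lit 306) (nat_lit 5) (nat_lit 388) (nat_lit 382) (nat_lit 250))))) (XT.nd (nat_lit 312) (nat_lit 1520) (nat_lit 0) (XT.nd (nat_lit 156) (nat_lit 0) (nat_lit 76) (XT.nd (nat_lit 78) (nat_lit 0) (nat_lit 76) (XT.lf (nat_lit 76) (nat_lit 12068282449) (nat_lit 0) (nat_lit 12409400779) (nat_lit 836) (nat_lit 13092221944) (nat_lit 296) (nat_lit 5) (nat_lit 295) (nat_lit 5) (nat_lit 306) (nat_lit 5) (nat_lit 389) (nat_lit 382) (nat_lit 249)) (XT.lf (nat_lit 0) (nat_lit 27445812113) (nat_lit 760) (nat_lit 5736215876) (nat_lit 836) (nat_lit 5373340287) (nat_lit 296) (nat_lit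 5) (nat_lit 306) (nat_lit 5) (nat_lit 307) (nat_lit 5) (nat_lit 390) (nat_lit 382) (nat_lit 248))) (XT.nd (nat_lit 78) (nat_lit 0) (nat_lit 76) (XT.lf (nat_lit 76) (nat_lit 15301298062) (nat_lit 0) (nat_lit 15700365071) (nat_lit 836) (nat_lit 8566475617) (nat_lit 297) (nat_lit 5) (nat_lit 296) (nat_lit 5) (nat_lit 307) (nat_lit 5) (nat_lit 391) (nat_lit 382) (nat_lit 247)) (XT.lf (nat_lit 0) (nat_lit 34872602611) (nat_lit 760) (nat_lit 3082485422) (nat_lit 76) (nat_lit 2669594920) (nat_lit 297) (nat_lit 5) (nat_lit 307) (nat_lit 5) (nat_lit 298) (nat_lit 5) (nat_lit 392) (nat_lit 382) (nat_lit 246)))) (XT.nd (nat_lit 156) (nat_lit 380) (nat_lit 0) (XT.nd (nat_lit 78) (nat_lit 532) (nat_lit 0) (XT.lf (nat_lit 0) (nat_lit 19526207417) (nat_lit 760) (nat_lit 19970361427) (nat_lit 836) (nat_lit 2209511532) (nat_lit 287) (nat_lit 5) (nat_lit 297) (nat_lit 5) (nat_lit 298) (nat_lit 5) (nat_lit 393) (nat_lit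 382) (nat_lit 245)) (XT.lf (nat_lit 0) (nat_lit 523218805) (nat_lit 456) (nat_lit 997147585) (nat_lit 532) (nat_lit 41317076568) (nat_lit 280) (nat_lit 5) (nat_lit 286) (nat_lit 5) (nat_lit 287) (nat_lit 5) (nat_lit 394) (nat_lit 382) (nat_lit 244))) (XT.nd (nat_lit 78) (nat_lit 380) (nat_lit 0) (XT.lf (nat_lit 0) (nat_lit 6037117845) (nat_lit 532) (nat_lit 19215540200) (nat_lit 76) (nat_lit 18737172863) (nat_lit 280) (nat_lit 5) (nat_lit 287) (nat_lit 5) (nat_lit 281) (nat_lit 5) (nat_lit 395) (nat_lit 382) (nat_lit 243)) (XT.nd (nat_lit 78) (nat_lit 0) (nat_lit 0) (XT.lf (nat_lit 0) (nat_lit 5185213535) (nat_lit 380) (nat_lit 5689301437) (nat_lit 456) (nat_lit 34320582878) (nat_lit 275) (nat_lit 5) (nat_lit 280) (nat_lit 5) (nat_lit 281) (nat_lit 5) (nat_lit 396) (nat_lit 382) (nat_lit 242)) (XT.lf (nat_lit 0) (nat_lit 16514012145) (nat_lit 456) (nat_lit 15211008756) (nat_lit 76) (nat_lit 14707595728)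 (nat_lit 275) (nat_lit 5) (nat_lit 281) (nat_lit 5) (nat_lit 276) (nat_lit 5) (nat_lit 397) (nat_lit 382) (nat_lit 241))))))))
noncomputable def xc247 : XT := (XT.nd (nat_lit 2496) (nat_lit 2736) (nat_lit 0) (XT.nd (nat_lit 1248) (nat_lit 1748) (nat_lit 0) (XT.nd (nat_lit 624) (nat_lit 1368) (nat_lit 0) (XT.nd (nat_lit 312) (nat_lit 988) (nat_lit 0) (XT.nd (nat_lit 156) (nat_lit 304) (nat_lit 0) (XT.nd (nat_lit 78) (nat_lit 0) (nat_lit 0) (XT.lf (nat_lit 0) (nat_lit 11086959760) (nat_lit 380) (nat_lit 11612591180) (nat_lit 456) (nat_lit 25019257070) (nat_lit 270) (nat_lit 5) (nat_lit 275) (nat_lit 5) (nat_lit 276) (nat_lit 5) (nat_lit 398) (nat_lit 382) (nat_lit 240)) (XT.lf (nat_lit 0) (nat_lit 29602372819) (nat_lit 456) (nat_lit 9983644961) (nat_lit 76) (nat_lit 9462890873) (nat_lit 270) (nat_lit 5) (nat_lit 276) (nat_lit 5) (nat_lit 271) (nat_lit 5) (nat_lit 399) (nat_lit 382) (nat_lit 239)))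 (XT.nd (nat_lit 78) (nat_lit 0) (nat_lit 0) (XT.lf (nat_lit 0) (nat_lit 18392900145) (nat_lit 304) (nat_lit 18932847315) (nat_lit 380) (nat_lit 13095996284) (nat_lit 266) (nat_lit 5) (nat_lit 270) (nat_lit 5) (nat_lit 271) (nat_lit 5) (nat_lit 400) (nat_lit 382) (nat_lit 238)) (XT.lf (nat_lit 0) (nat_lit 45648058790) (nat_lit 380) (nat_lit 3368083747) (nat_lit 76) (nat_lit 2836439655) (nat_lit 266) (nat_lit 5) (nat_lit 271) (nat_lit 5) (nat_lit 267) (nat_lit 5) (nat_lit 401) (nat_lit 382) (nat_lit 237)))) (XT.nd (nat_lit 156) (nat_lit 304) (nat_lit 0) (XT.nd (nat_lit 78) (nat_lit 304) (nat_lit 0) (XT.lf (nat_lit 0) (nat_lit 1744973379) (nat_lit 380) (nat_lit 26060042230) (nat_lit 76) (nat_lit 25511818433) (nat_lit 261) (nat_lit 5) (nat_lit 266) (nat_lit 5) (nat_lit 262) (nat_lit 5) (nat_lit 402) (nat_lit 382) (nat_lit 236)) (XT.lf (nat_lit 0) (nat_lit 4724609653) (nat_lit 304) (nat_lit 5288623646)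 (nat_lit 380) (nat_lit 44829489462) (nat_lit 257) (nat_lit 5) (nat_lit 261) (nat_lit 5) (nat_lit 262) (nat_lit 5) (nat_lit 403) (nat_lit 382) (nat_lit 235))) (XT.nd (nat_lit 78) (nat_lit 304) (nat_lit 0) (XT.lf (nat_lit 0) (nat_lit 19428142355) (nat_lit 380) (nat_lit 18765790056) (nat_lit 76) (nat_lit 18214311698) (nat_lit 257) (nat_lit 5) (nat_lit 262) (nat_lit 5) (nat_lit 258) (nat_lit 5) (nat_lit 404) (nat_lit 382) (nat_lit 234)) (XT.lf (nat_lit 0) (nat_lit 14530217585) (nat_lit 304) (nat_lit 15095336108) (nat_lit 380) (nat_lit 28410899990) (nat_lit 253) (nat_lit 5) (nat_lit 257) (nat_lit 5) (nat_lit 258) (nat_lit 5) (nat_lit 405) (nat_lit 382) (nat_lit 233))))) (XT.nd (nat_lit 312) (nat_lit 760) (nat_lit 0) (XT.nd (nat_lit 156) (nat_lit 380) (nat_lit 0) (XT.nd (nat_lit 78) (nat_lit 228) (nat_lit 0) (XT.lf (nat_lit 0) (nat_lit 40797081590) (nat_lit 380) (nat_lit 9738179998) (nat_lit 76) (nat_lit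 9187599848) (nat_lit 253) (nat_lit 5) (nat_lit 258) (nat_lit 5) (nat_lit 254) (nat_lit 5) (nat_lit 406) (nat_lit 382) (nat_lit 232)) (XT.lf (nat_lit 0) (nat_lit 26310699027) (nat_lit 228) (nat_lit 26873062063) (nat_lit 304) (nat_lit 8276999726) (nat_lit 250) (nat_lit 5) (nat_lit 253) (nat_lit 5) (nat_lit 254) (nat_lit 5) (nat_lit 407) (nat_lit 382) (nat_lit 231))) (XT.nd (nat_lit 78) (nat_lit 0) (nat_lit 0) (XT.lf (nat_lit 0) (nat_lit 1211281554) (nat_lit 304) (nat_lit 1784866388) (nat_lit 380) (nat_lit 60277895988) (nat_lit 245) (nat_lit 5) (nat_lit 249) (nat_lit 5) (nat_lit 250) (nat_lit 5) (nat_lit 408) (nat_lit 382) (nat_lit 230)) (XT.lf (nat_lit 0) (nat_lit 15541629559) (nat_lit 380) (nat_lit 25068342542) (nat_lit 76) (nat_lit 24511892770) (nat_lit 245) (nat_lit 5) (nat_lit 250) (nat_lit 5) (nat_lit 246) (nat_lit 5) (nat_lit 409) (nat_lit 382) (nat_lit 229)))) (XT.nd (nat_lit 156) (nat_lit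 532) (nat_lit 0) (XT.nd (nat_lit 78) (nat_lit 0) (nat_lit 0) (XT.lf (nat_lit 0) (nat_lit 14198821565) (nat_lit 228) (nat_lit 14764965148) (nat_lit 304) (nat_lit 38085820075) (nat_lit 242) (nat_lit 5) (nat_lit 245) (nat_lit 5) (nat_lit 246) (nat_lit 5) (nat_lit 410) (nat_lit 382) (nat_lit 228)) (XT.lf (nat_lit 0) (nat_lit 43680210380) (nat_lit 304) (nat_lit 12955172212) (nat_lit 76) (nat_lit 12407195276) (nat_lit 242) (nat_lit 5) (nat_lit 246) (nat_lit 5) (nat_lit 243) (nat_lit 5) (nat_lit 411) (nat_lit 382) (nat_lit 227))) (XT.nd (nat_lit 78) (nat_lit 304) (nat_lit 0) (XT.lf (nat_lit 0) (nat_lit 29639736302) (nat_lit 228) (nat_lit 30196087117) (nat_lit 304) (nat_lit 11264205674) (nat_lit 239) (nat_lit 5) (nat_lit 242) (nat_lit 5) (nat_lit 243) (nat_lit 5) (nat_lit 412) (nat_lit 382) (nat_lit 226)) (XT.lf (nat_lit 0) (nat_lit 1553550154) (nat_lit 228) (nat_lit 2117876090) (nat_lit 304) (nat_lit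 69573872666) (nat_lit 235) (nat_lit 5) (nat_lit 238) (nat_lit 5) (nat_lit 239) (nat_lit 5) (nat_lit 413) (nat_lit 382) (nat_lit 225)))))) (XT.nd (nat_lit 624) (nat_lit 912) (nat_lit 0) (XT.nd (nat_lit 312) (nat_lit 456) (nat_lit 0) (XT.nd (nat_lit 156) (nat_lit 152) (nat_lit 0) (XT.nd (nat_lit 78) (nat_lit 228) (nat_lit 0) (XT.lf (nat_lit 0) (nat_lit 20114780473) (nat_lit 304) (nat_lit 27930765570) (nat_lit 76) (nat_lit 27386078626) (nat_lit 235) (nat_lit 5) (nat_lit 239) (nat_lit 5) (nat_lit 236) (nat_lit 5) (nat_lit 414) (nat_lit 382) (nat_lit 224)) (XT.lf (nat_lit 0) (nat_lit 18576067650) (nat_lit 228) (nat_lit 19127643804) (nat_lit 304) (nat_lit 40007384809) (nat_lit 232) (nat_lit 5) (nat_lit 235) (nat_lit 5) (nat_lit 236) (nat_lit 5) (nat_lit 415) (nat_lit 382) (nat_lit 223))) (XT.nd (nat_lit 78) (nat_lit 152) (nat_lit 0) (XT.lf (nat_lit 0) (nat_lit 56826979114) (nat_lit 304) (nat_lit 11888188578)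 (nat_lit 76) (nat_lit 11356629238) (nat_lit 232) (nat_lit 5) (nat_lit 236) (nat_lit 5) (nat_lit 233) (nat_lit 5) (nat_lit 416) (nat_lit 382) (nat_lit 222)) (XT.lf (nat_lit 0) (nat_lit 38642265495) (nat_lit 152) (nat_lit 39179775994) (nat_lit 228) (nat_lit 4682709575) (nat_lit 230) (nat_lit 5) (nat_lit 232) (nat_lit 5) (nat_lit 233) (nat_lit 5) (nat_lit 417) (nat_lit 382) (nat_lit 221)))) (XT.nd (nat_lit 156) (nat_lit 152) (nat_lit 0) (XT.nd (nat_lit 78) (nat_lit 0) (nat_lit 0) (XT.lf (nat_lit 0) (nat_lit 7051942706) (nat_lit 228) (nat_lit 7595120976) (nat_lit 304) (nat_lit 70385055281) (nat_lit 226) (nat_lit 5) (nat_lit 229) (nat_lit 5) (nat_lit 230) (nat_lit 5) (nat_lit 418) (nat_lit 382) (nat_lit 220)) (XT.lf (nat_lit 0) (nat_lit 35938942535) (nat_lit 304) (nat_lit 26103939287) (nat_lit 76) (nat_lit 25581485815) (nat_lit 226) (nat_lit 5) (nat_lit 230) (nat_lit 5) (nat_lit 227) (nat_lit 5) (nat_lit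 419) (nat_lit 382) (nat_lit 219))) (XT.nd (nat_lit 78) (nat_lit 0) (nat_lit 0) (XT.lf (nat_lit 0) (nat_lit 29173445037) (nat_lit 152) (nat_lit 29700794542) (nat_lit 228) (nat_lit 31443047952) (nat_lit 224) (nat_lit 5) (nat_lit 226) (nat_lit 5) (nat_lit 227) (nat_lit 5) (nat_lit 420) (nat_lit 382) (nat_lit 218)) (XT.lf (nat_lit 0) (nat_lit 83470967222) (nat_lit 228) (nat_lit 5077415690) (nat_lit 76) (nat_lit 4570737220) (nat_lit 224) (nat_lit 5) (nat_lit 227) (nat_lit 5) (nat_lit 225) (nat_lit 5) (nat_lit 421) (nat_lit 382) (nat_lit 217))))) (XT.nd (nat_lit 312) (nat_lit 380) (nat_lit 0) (XT.nd (nat_lit 156) (nat_lit 152) (nat_lit 0) (XT.nd (nat_lit 78) (nat_lit 152) (nat_lit 0) (XT.lf (nat_lit 0) (nat_lit 14180433662) (nat_lit 228) (nat_lit 41156402883) (nat_lit 76) (nat_lit 40645495035) (nat_lit 221) (nat_lit 5) (nat_lit 224) (nat_lit 5) (nat_lit 222) (nat_lit 5) (nat_lit 422) (nat_lit 382) (nat_lit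 216)) (XT.lf (nat_lit 0) (nat_lit 19375040504) (nat_lit 152) (nat_lit 19889976330) (nat_lit 228) (nat_lit 59696338020) (nat_lit 219) (nat_lit 5) (nat_lit 221) (nat_lit 5) (nat_lit 222) (nat_lit 5) (nat_lit 423) (nat_lit 382) (nat_lit 215))) (XT.nd (nat_lit 78) (nat_lit 152) (nat_lit 0) (XT.lf (nat_lit 0) (nat_lit 66581741089) (nat_lit 228) (nat_lit 17976380588) (nat_lit 76) (nat_lit 17482312020) (nat_lit 219) (nat_lit 5) (nat_lit 222) (nat_lit 5) (nat_lit 220) (nat_lit 5) (nat_lit 424) (nat_lit 382) (nat_lit 214)) (XT.lf (nat_lit 0) (nat_lit 47919979649) (nat_lit 152) (nat_lit 48417527737) (nat_lit 228) (nat_lit 8882298803) (nat_lit 217) (nat_lit 5) (nat_lit 219) (nat_lit 5) (nat_lit 220) (nat_lit 5) (nat_lit 425) (nat_lit 382) (nat_lit 213)))) (XT.nd (nat_lit 156) (nat_lit 152) (nat_lit 0) (XT.nd (nat_lit 78) (nat_lit 0) (nat_lit 0) (XT.lf (nat_lit 0) (nat_lit 9182487805) (nat_lit 152) (nat_lit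 9683349720) (nat_lit 228) (nat_lit 89654870985) (nat_lit 214) (nat_lit 5) (nat_lit 216) (nat_lit 5) (nat_lit 217) (nat_lit 5) (nat_lit 426) (nat_lit 382) (nat_lit 212)) (XT.lf (nat_lit 0) (nat_lit 49171979365) (nat_lit 228) (nat_lit 31606978995) (nat_lit 76) (nat_lit 31126961907) (nat_lit 214) (nat_lit 5) (nat_lit 217) (nat_lit 5) (nat_lit 215) (nat_lit 5) (nat_lit 427) (nat_lit 382) (nat_lit 211))) (XT.nd (nat_lit 78) (nat_lit 0) (nat_lit 0) (XT.lf (nat_lit 0) (nat_lit 40651507707) (nat_lit 152) (nat_lit 41134387404) (nat_lit 228) (nat_lit 33634874157) (nat_lit 212) (nat_lit 5) (nat_lit 214) (nat_lit 5) (nat_lit 215) (nat_lit 5) (nat_lit 428) (nat_lit 382) (nat_lit 210)) (XT.lf (nat_lit 0) (nat_lit 116581297498) (nat_lit 228) (nat_lit 1482502789) (nat_lit 76) (nat_lit 1020020892) (nat_lit 212) (nat_lit 5) (nat_lit 215) (nat_lit 5) (nat_lit 213) (nat_lit 4) (nat_lit 429) (nat_lit 382) (nat_lit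 209))))))) (XT.nd (nat_lit 1248) (nat_lit 1140) (nat_lit 0) (XT.nd (nat_lit 624) (nat_lit 684) (nat_lit 0) (XT.nd (nat_lit 312) (nat_lit 456) (nat_lit 0) (XT.nd (nat_lit 156) (nat_lit 152) (nat_lit 0) (XT.nd (nat_lit 78) (nat_lit 152) (nat_lit 0) (XT.lf (nat_lit 0) (nat_lit 31130866382) (nat_lit 152) (nat_lit 46072510220) (nat_lit 76) (nat_lit 45607555494) (nat_lit 210) (nat_lit 5) (nat_lit 212) (nat_lit 5) (nat_lit 211) (nat_lit 5) (nat_lit 430) (nat_lit 382) (nat_lit 208)) (XT.lf (nat_lit 0) (nat_lit 33218885483) (nat_lit 152) (nat_lit 33686195285) (nat_lit 228) (nat_lit 59790103740) (nat_lit 208) (nat_lit 5) (nat_lit 210) (nat_lit 5) (nat_lit 211) (nat_lit 5) (nat_lit 431) (nat_lit 382) (nat_lit 207))) (XT.nd (nat_lit 78) (nat_lit 152) (nat_lit 0) (XT.lf (nat_lit 0) (nat_lit 105447622774) (nat_lit 228) (nat_lit 12862119499) (nat_lit 76) (nat_lit 12414926422) (nat_lit 208) (nat_lit 5) (nat_lit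 211) (nat_lit 5) (nat_lit 209) (nat_lit 4) (nat_lit 432) (nat_lit 382) (nat_lit 206)) (XT.lf (nat_lit 0) (nat_lit 12338930883) (nat_lit 152) (nat_lit 61485480591) (nat_lit 76) (nat_lit 61036253111) (nat_lit 206) (nat_lit 5) (nat_lit 208) (nat_lit 5) (nat_lit 207) (nat_lit 5) (nat_lit 433) (nat_lit 382) (nat_lit 205)))) (XT.nd (nat_lit 156) (nat_lit 304) (nat_lit 0) (XT.nd (nat_lit 78) (nat_lit 0) (nat_lit 0) (XT.lf (nat_lit 0) (nat_lit 25577475555) (nat_lit 152) (nat_lit 26028640561) (nat_lit 228) (nat_lit 87545631060) (nat_lit 204) (nat_lit 5) (nat_lit 206) (nat_lit 5) (nat_lit 207) (nat_lit 5) (nat_lit 434) (nat_lit 382) (nat_lit 204)) (XT.lf (nat_lit 0) (nat_lit 94271331371) (nat_lit 228) (nat_lit 24872878670) (nat_lit 76) (nat_lit 24441440318) (nat_lit 204) (nat_lit 5) (nat_lit 207) (nat_lit 5) (nat_lit 205) (nat_lit 4) (nat_lit 435) (nat_lit 382) (nat_lit 203))) (XT.nd (nat_lit 78) (nat_lit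 228) (nat_lit 0) (XT.lf (nat_lit 0) (nat_lit 70078355472) (nat_lit 76) (nat_lit 70511467533) (nat_lit 152) (nat_lit 7575424913) (nat_lit 203) (nat_lit 5) (nat_lit 204) (nat_lit 5) (nat_lit 205) (nat_lit 4) (nat_lit 436) (nat_lit 382) (nat_lit 202)) (XT.lf (nat_lit 0) (nat_lit 17679416431) (nat_lit 152) (nat_lit 18114122499) (nat_lit 228) (nat_lit 117116819663) (nat_lit 200) (nat_lit 5) (nat_lit 202) (nat_lit 5) (nat_lit 203) (nat_lit 5) (nat_lit 437) (nat_lit 382) (nat_lit 201))))) (XT.nd (nat_lit 312) (nat_lit 380) (nat_lit 0) (XT.nd (nat_lit 156) (nat_lit 228) (nat_lit 0) (XT.nd (nat_lit 78) (nat_lit 76) (nat_lit 0) (XT.lf (nat_lit 0) (nat_lit 82995851037) (nat_lit 228) (nat_lit 37605070896) (nat_lit 76) (nat_lit 37189619304) (nat_lit 200) (nat_lit 5) (nat_lit 203) (nat_lit 5) (nat_lit 201) (nat_lit 4) (nat_lit 438) (nat_lit 382) (nat_lit 200)) (XT.lf (nat_lit 0) (nat_lit 66739820628) (nat_lit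 76) (nat_lit 67156649184) (nat_lit 152) (nat_lit 28951353648) (nat_lit 199) (nat_lit 5) (nat_lit 200) (nat_lit 5) (nat_lit 201) (nat_lit 4) (nat_lit 439) (nat_lit 382) (nat_lit 199))) (XT.nd (nat_lit 78) (nat_lit 0) (nat_lit 0) (XT.lf (nat_lit 0) (nat_lit 9473222971) (nat_lit 152) (nat_lit 9891362921) (nat_lit 228) (nat_lit 148738685546) (nat_lit 196) (nat_lit 5) (nat_lit 198) (nat_lit 5) (nat_lit 199) (nat_lit 5) (nat_lit 440) (nat_lit 382) (nat_lit 198)) (XT.lf (nat_lit 0) (nat_lit 71561277354) (nat_lit 228) (nat_lit 51157003164) (nat_lit 76) (nat_lit 50757585167) (nat_lit 196) (nat_lit 5) (nat_lit 199) (nat_lit 5) (nat_lit 197) (nat_lit 4) (nat_lit 441) (nat_lit 382) (nat_lit 197)))) (XT.nd (nat_lit 156) (nat_lit 76) (nat_lit 0) (XT.nd (nat_lit 78) (nat_lit 228) (nat_lit 0) (XT.lf (nat_lit 0) (nat_lit 63560524314) (nat_lit 76) (nat_lit 63961075142) (nat_lit 152) (nat_lit 51537800384) (nat_lit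 195) (nat_lit 5) (nat_lit 196) (nat_lit 5) (nat_lit 197) (nat_lit 4) (nat_lit 442) (nat_lit 382) (nat_lit 196)) (XT.lf (nat_lit 0) (nat_lit 903349985) (nat_lit 152) (nat_lit 1304979701) (nat_lit 228) (nat_lit 182668022961) (nat_lit 192) (nat_lit 5) (nat_lit 194) (nat_lit 5) (nat_lit 195) (nat_lit 5) (nat_lit 443) (nat_lit 382) (nat_lit 195))) (XT.nd (nat_lit 78) (nat_lit 76) (nat_lit 0) (XT.lf (nat_lit 0) (nat_lit 59903918178) (nat_lit 228) (nat_lit 65635882946) (nat_lit 76) (nat_lit 65252399872) (nat_lit 192) (nat_lit 5) (nat_lit 195) (nat_lit 5) (nat_lit 193) (nat_lit 4) (nat_lit 444) (nat_lit 382) (nat_lit 194)) (XT.lf (nat_lit 0) (nat_lit 60532837525) (nat_lit 76) (nat_lit 60917252582) (nat_lit 152) (nat_lit 75505461455) (nat_lit 191) (nat_lit 5) (nat_lit 192) (nat_lit 5) (nat_lit 193) (nat_lit 4) (nat_lit 445) (nat_lit 382) (nat_lit 193)))))) (XT.nd (nat_lit 624) (nat_lit 532) (nat_lit 0)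 (XT.nd (nat_lit 312) (nat_lit 380) (nat_lit 0) (XT.nd (nat_lit 156) (nat_lit 76) (nat_lit 0) (XT.nd (nat_lit 78) (nat_lit 152) (nat_lit 0) (XT.lf (nat_lit 0) (nat_lit 187310992204) (nat_lit 152) (nat_lit 8210580644) (nat_lit 0) (nat_lit 7843625729) (nat_lit 191) (nat_lit 5) (nat_lit 193) (nat_lit 4) (nat_lit 191) (nat_lit 4) (nat_lit 446) (nat_lit 382) (nat_lit 192)) (XT.lf (nat_lit 0) (nat_lit 47955796208) (nat_lit 152) (nat_lit 81158789329) (nat_lit 76) (nat_lit 80791029332) (nat_lit 189) (nat_lit 5) (nat_lit 191) (nat_lit 5) (nat_lit 190) (nat_lit 4) (nat_lit 447) (nat_lit 382) (nat_lit 191))) (XT.nd (nat_lit 78) (nat_lit 0) (nat_lit 0) (XT.lf (nat_lit 0) (nat_lit 57649502735) (nat_lit 76) (nat_lit 58018029477) (nat_lit 152) (nat_lit 101040322583) (nat_lit 188) (nat_lit 5) (nat_lit 189) (nat_lit 5) (nat_lit 190) (nat_lit 4) (nat_lit 448) (nat_lit 382) (nat_lit 190)) (XT.lf (nat_lit 0) (nat_lit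 188420906179) (nat_lit 152) (nat_lit 17849085645) (nat_lit 0) (nat_lit 17497412336) (nat_lit 188) (nat_lit 5) (nat_lit 190) (nat_lit 4) (nat_lit 188) (nat_lit 4) (nat_lit 449) (nat_lit 382) (nat_lit 189)))) (XT.nd (nat_lit 156) (nat_lit 152) (nat_lit 0) (XT.nd (nat_lit 78) (nat_lit 76) (nat_lit 0) (XT.lf (nat_lit 0) (nat_lit 35644105267) (nat_lit 152) (nat_lit 97853740387) (nat_lit 76) (nat_lit 97501404734) (nat_lit 186) (nat_lit 5) (nat_lit 188) (nat_lit 5) (nat_lit 187) (nat_lit 4) (nat_lit 450) (nat_lit 382) (nat_lit 188)) (XT.lf (nat_lit 0) (nat_lit 54903614759) (nat_lit 76) (nat_lit 55256581215) (nat_lit 152) (nat_lit 128345328845) (nat_lit 185) (nat_lit 5) (nat_lit 186) (nat_lit 5) (nat_lit 187) (nat_lit 4) (nat_lit 451) (nat_lit 382) (nat_lit 187))) (XT.nd (nat_lit 78) (nat_lit 152) (nat_lit 0) (XT.lf (nat_lit 0) (nat_lit 190505788195) (nat_lit 152) (nat_lit 28056435307) (nat_lit 0) (nat_lit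 27719704620) (nat_lit 185) (nat_lit 5) (nat_lit 187) (nat_lit 4) (nat_lit 185) (nat_lit 4) (nat_lit 452) (nat_lit 382) (nat_lit 186)) (XT.lf (nat_lit 0) (nat_lit 22890615410) (nat_lit 152) (nat_lit 115860866895) (nat_lit 76) (nat_lit 115523591297) (nat_lit 183) (nat_lit 5) (nat_lit 185) (nat_lit 5) (nat_lit 184) (nat_lit 4) (nat_lit 453) (nat_lit 382) (nat_lit 185))))) (XT.nd (nat_lit 312) (nat_lit 228) (nat_lit 0) (XT.nd (nat_lit 156) (nat_lit 228) (nat_lit 0) (XT.nd (nat_lit 78) (nat_lit 0) (nat_lit 0) (XT.lf (nat_lit 0) (nat_lit 52288602774) (nat_lit 76) (nat_lit 52626397335) (nat_lit 152) (nat_lit 157642221319) (nat_lit 182) (nat_lit 5) (nat_lit 183) (nat_lit 5) (nat_lit 184) (nat_lit 4) (nat_lit 454) (nat_lit 382) (nat_lit 184)) (XT.lf (nat_lit 0) (nat_lit 193624598525) (nat_lit 152) (nat_lit 38910929107) (nat_lit 0) (nat_lit 38588749287) (nat_lit 182) (nat_lit 5) (nat_lit 184) (nat_lit 4)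 (nat_lit 182) (nat_lit 4) (nat_lit 455) (nat_lit 382) (nat_lit 183))) (XT.nd (nat_lit 78) (nat_lit 76) (nat_lit 0) (XT.lf (nat_lit 0) (nat_lit 9611021475) (nat_lit 152) (nat_lit 135333703515) (nat_lit 76) (nat_lit 135011075394) (nat_lit 180) (nat_lit 5) (nat_lit 182) (nat_lit 5) (nat_lit 181) (nat_lit 4) (nat_lit 456) (nat_lit 382) (nat_lit 182)) (XT.lf (nat_lit 0) (nat_lit 49798213416) (nat_lit 76) (nat_lit 50121268489) (nat_lit 152) (nat_lit 189173557639) (nat_lit 179) (nat_lit 5) (nat_lit 180) (nat_lit 5) (nat_lit 181) (nat_lit 4) (nat_lit 457) (nat_lit 382) (nat_lit 181)))) (XT.nd (nat_lit 156) (nat_lit 152) (nat_lit 0) (XT.nd (nat_lit 78) (nat_lit 76) (nat_lit 0) (XT.lf (nat_lit 0) (nat_lit 197844285686) (nat_lit 152) (nat_lit 50497933859) (nat_lit 0) (nat_lit 50189875103) (nat_lit 179) (nat_lit 5) (nat_lit 181) (nat_lit 4) (nat_lit 179) (nat_lit 4) (nat_lit 458) (nat_lit 382) (nat_lit 180))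 (XT.lf (nat_lit 0) (nat_lit 151773829633) (nat_lit 76) (nat_lit 152082257208) (nat_lit 76) (nat_lit 4427477807) (nat_lit 178) (nat_lit 4) (nat_lit 179) (nat_lit 5) (nat_lit 179) (nat_lit 4) (nat_lit 459) (nat_lit 382) (nat_lit 179))) (XT.nd (nat_lit 78) (nat_lit 0) (nat_lit 0) (XT.lf (nat_lit 0) (nat_lit 47426494856) (nat_lit 76) (nat_lit 47735273685) (nat_lit 152) (nat_lit 223204935460) (nat_lit 176) (nat_lit 5) (nat_lit 177) (nat_lit 5) (nat_lit 178) (nat_lit 4) (nat_lit 460) (nat_lit 382) (nat_lit 178)) (XT.lf (nat_lit 0) (nat_lit 203240513747) (nat_lit 152) (nat_lit 62910654864) (nat_lit 0) (nat_lit 62616261191) (nat_lit 176) (nat_lit 5) (nat_lit 178) (nat_lit 4) (nat_lit 176) (nat_lit 4) (nat_lit 461) (nat_lit 382) (nat_lit 177))))))))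
noncomputable def xc248 : XT := (XT.nd (nat_lit 1248) (nat_lit 912) (nat_lit 0) (XT.nd (nat_lit 624) (nat_lit 532) (nat_lit 0) (XT.nd (nat_lit 312) (nat_lit 380) (nat_lit 0) (XT.nd (nat_lit 156) (nat_lit 76) (nat_lit 0) (XT.nd (nat_lit 78) (nat_lit 152) (nat_lit 0) (XT.lf (nat_lit 0) (nat_lit 159853154396) (nat_lit 76) (nat_lit 160147851497) (nat_lit 76) (nat_lit 19523295514) (nat_lit 175) (nat_lit 4) (nat_lit 176) (nat_lit 5) (nat_lit 176) (nat_lit 4) (nat_lit 462) (nat_lit 382) (nat_lit 176)) (XT.lf (nat_lit 0) (nat_lit 45167781774) (nat_lit 76) (nat_lit 45462767852) (nat_lit 152) (nat_lit 260027439774) (nat_lit 173) (nat_lit 5) (nat_lit 174) (nat_lit 5) (nat_lit 175) (nat_lit 4) (nat_lit 463) (nat_lit 382) (nat_lit 175))) (XT.nd (nat_lit 78) (nat_lit 76) (nat_lit 0) (XT.lf (nat_lit 0) (nat_lit 209898468341) (nat_lit 152) (nat_lit 76250983691) (nat_lit 0) (nat_lit 75969782457) (nat_lit 173) (nat_lit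 5) (nat_lit 175) (nat_lit 4) (nat_lit 173) (nat_lit 4) (nat_lit 464) (nat_lit 382) (nat_lit 174)) (XT.lf (nat_lit 0) (nat_lit 169116771685) (nat_lit 76) (nat_lit 169398222549) (nat_lit 76) (nat_lit 35469287035) (nat_lit 172) (nat_lit 4) (nat_lit 173) (nat_lit 5) (nat_lit 173) (nat_lit 4) (nat_lit 465) (nat_lit 382) (nat_lit 173)))) (XT.nd (nat_lit 156) (nat_lit 228) (nat_lit 0) (XT.nd (nat_lit 78) (nat_lit 0) (nat_lit 0) (XT.lf (nat_lit 0) (nat_lit 43016681165) (nat_lit 76) (nat_lit 43298369772) (nat_lit 152) (nat_lit 299960337192) (nat_lit 170) (nat_lit 5) (nat_lit 171) (nat_lit 5) (nat_lit 172) (nat_lit 4) (nat_lit 466) (nat_lit 382) (nat_lit 172)) (XT.lf (nat_lit 0) (nat_lit 217913749291) (nat_lit 152) (nat_lit 90630430577) (nat_lit 0) (nat_lit 90361940072) (nat_lit 170) (nat_lit 5) (nat_lit 172) (nat_lit 4) (nat_lit 170) (nat_lit 4) (nat_lit 467) (nat_lit 382) (nat_lit 171))) (XT.nd (nat_lit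 78) (nat_lit 152) (nat_lit 0) (XT.lf (nat_lit 0) (nat_lit 179669095327) (nat_lit 76) (nat_lit 179937791203) (nat_lit 76) (nat_lit 52385776613) (nat_lit 169) (nat_lit 4) (nat_lit 170) (nat_lit 5) (nat_lit 170) (nat_lit 4) (nat_lit 468) (nat_lit 382) (nat_lit 170)) (XT.lf (nat_lit 0) (nat_lit 40968058926) (nat_lit 76) (nat_lit 41236950394) (nat_lit 152) (nat_lit 343354042631) (nat_lit 167) (nat_lit 5) (nat_lit 168) (nat_lit 5) (nat_lit 169) (nat_lit 4) (nat_lit 469) (nat_lit 382) (nat_lit 169))))) (XT.nd (nat_lit 312) (nat_lit 304) (nat_lit 0) (XT.nd (nat_lit 156) (nat_lit 152) (nat_lit 0) (XT.nd (nat_lit 78) (nat_lit 76) (nat_lit 0) (XT.lf (nat_lit 0) (nat_lit 227393358559) (nat_lit 152) (nat_lit 106171150259) (nat_lit 0) (nat_lit 105914885740) (nat_lit 167) (nat_lit 5) (nat_lit 169) (nat_lit 4) (nat_lit 167) (nat_lit 4) (nat_lit 470) (nat_lit 382) (nat_lit 168)) (XT.lf (nat_lit 0) (nat_lit 191626052808)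 (nat_lit 76) (nat_lit 191882486287) (nat_lit 76) (nat_lit 70403844508) (nat_lit 166) (nat_lit 4) (nat_lit 167) (nat_lit 5) (nat_lit 167) (nat_lit 4) (nat_lit 471) (nat_lit 382) (nat_lit 167))) (XT.nd (nat_lit 78) (nat_lit 0) (nat_lit 0) (XT.lf (nat_lit 0) (nat_lit 39017027157) (nat_lit 76) (nat_lit 39273621549) (nat_lit 152) (nat_lit 390593386509) (nat_lit 164) (nat_lit 5) (nat_lit 165) (nat_lit 5) (nat_lit 166) (nat_lit 4) (nat_lit 472) (nat_lit 382) (nat_lit 166)) (XT.lf (nat_lit 0) (nat_lit 238456793138) (nat_lit 152) (nat_lit 123007070948) (nat_lit 0) (nat_lit 122762549383) (nat_lit 164) (nat_lit 5) (nat_lit 166) (nat_lit 4) (nat_lit 164) (nat_lit 4) (nat_lit 473) (nat_lit 382) (nat_lit 165)))) (XT.nd (nat_lit 156) (nat_lit 76) (nat_lit 0) (XT.nd (nat_lit 78) (nat_lit 152) (nat_lit 0) (XT.lf (nat_lit 0) (nat_lit 205116226280) (nat_lit 76) (nat_lit 205360886849) (nat_lit 76) (nat_lit 89666504090)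 (nat_lit 163) (nat_lit 4) (nat_lit 164) (nat_lit 5) (nat_lit 164) (nat_lit 4) (nat_lit 474) (nat_lit 382) (nat_lit 164)) (XT.lf (nat_lit 0) (nat_lit 37158932125) (nat_lit 76) (nat_lit 37403725078) (nat_lit 152) (nat_lit 442101213377) (nat_lit 161) (nat_lit 5) (nat_lit 162) (nat_lit 5) (nat_lit 163) (nat_lit 4) (nat_lit 475) (nat_lit 382) (nat_lit 163))) (XT.nd (nat_lit 78) (nat_lit 76) (nat_lit 0) (XT.lf (nat_lit 0) (nat_lit 251237253489) (nat_lit 152) (nat_lit 141285137118) (nat_lit 0) (nat_lit 141051880895) (nat_lit 161) (nat_lit 5) (nat_lit 163) (nat_lit 4) (nat_lit 161) (nat_lit 4) (nat_lit 476) (nat_lit 382) (nat_lit 162)) (XT.lf (nat_lit 0) (nat_lit 220282112488) (nat_lit 76) (nat_lit 220515483069) (nat_lit 76) (nat_lit 110329996116) (nat_lit 160) (nat_lit 4) (nat_lit 161) (nat_lit 5) (nat_lit 161) (nat_lit 4) (nat_lit 477) (nat_lit 382) (nat_lit 161)))))) (XT.nd (nat_lit 624) (nat_lit 304)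 (nat_lit 0) (XT.nd (nat_lit 312) (nat_lit 228) (nat_lit 0) (XT.nd (nat_lit 156) (nat_lit 228) (nat_lit 0) (XT.nd (nat_lit 78) (nat_lit 0) (nat_lit 0) (XT.lf (nat_lit 0) (nat_lit 35389342871) (nat_lit 76) (nat_lit 35622822365) (nat_lit 152) (nat_lit 498342346109) (nat_lit 158) (nat_lit 5) (nat_lit 159) (nat_lit 5) (nat_lit 160) (nat_lit 4) (nat_lit 478) (nat_lit 382) (nat_lit 160)) (XT.lf (nat_lit 0) (nat_lit 265882979202) (nat_lit 152) (nat_lit 161166677896) (nat_lit 0) (nat_lit 160944217686) (nat_lit 158) (nat_lit 5) (nat_lit 160) (nat_lit 4) (nat_lit 158) (nat_lit 4) (nat_lit 479) (nat_lit 382) (nat_lit 159))) (XT.nd (nat_lit 78) (nat_lit 152) (nat_lit 0) (XT.lf (nat_lit 0) (nat_lit 237281513673) (nat_lit 76) (nat_lit 237504067966) (nat_lit 76) (nat_lit 132565212367) (nat_lit 157) (nat_lit 4) (nat_lit 158) (nat_lit 5) (nat_lit 158) (nat_lit 4) (nat_lit 480) (nat_lit 382) (nat_lit 158)) (XT.lf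 (nat_lit 0) (nat_lit 33704040392) (nat_lit 76) (nat_lit 33926684287) (nat_lit 152) (nat_lit 559827953278) (nat_lit 155) (nat_lit 5) (nat_lit 156) (nat_lit 5) (nat_lit 157) (nat_lit 4) (nat_lit 481) (nat_lit 382) (nat_lit 157)))) (XT.nd (nat_lit 156) (nat_lit 152) (nat_lit 0) (XT.nd (nat_lit 78) (nat_lit 76) (nat_lit 0) (XT.lf (nat_lit 0) (nat_lit 282558724792) (nat_lit 152) (nat_lit 182828914024) (nat_lit 0) (nat_lit 182616790946) (nat_lit 155) (nat_lit 5) (nat_lit 157) (nat_lit 4) (nat_lit 155) (nat_lit 4) (nat_lit 482) (nat_lit 382) (nat_lit 156)) (XT.lf (nat_lit 0) (nat_lit 256289072796) (nat_lit 76) (nat_lit 256501273276) (nat_lit 76) (nat_lit 156559262028) (nat_lit 154) (nat_lit 4) (nat_lit 155) (nat_lit 5) (nat_lit 155) (nat_lit 4) (nat_lit 483) (nat_lit 382) (nat_lit 155))) (XT.nd (nat_lit 78) (nat_lit 0) (nat_lit 0) (XT.lf (nat_lit 0) (nat_lit 32099007374) (nat_lit 76) (nat_lit 32311281571)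 (nat_lit 152) (nat_lit 627120361157) (nat_lit 152) (nat_lit 5) (nat_lit 153) (nat_lit 5) (nat_lit 154) (nat_lit 4) (nat_lit 484) (nat_lit 382) (nat_lit 154)) (XT.lf (nat_lit 0) (nat_lit 301447389837) (nat_lit 152) (nat_lit 206466617678) (nat_lit 0) (nat_lit 206264384913) (nat_lit 152) (nat_lit 5) (nat_lit 154) (nat_lit 4) (nat_lit 152) (nat_lit 4) (nat_lit 485) (nat_lit 382) (nat_lit 153))))) (XT.nd (nat_lit 45084) (nat_lit 0) (nat_lit 10944) (XT.nd (nat_lit 156) (nat_lit 76) (nat_lit 0) (XT.nd (nat_lit 78) (nat_lit 152) (nat_lit 0) (XT.lf (nat_lit 0) (nat_lit 277497967760) (nat_lit 76) (nat_lit 277700264203) (nat_lit 76) (nat_lit 182517195600) (nat_lit 151) (nat_lit 4) (nat_lit 152) (nat_lit 5) (nat_lit 152) (nat_lit 4) (nat_lit 486) (nat_lit 382) (nat_lit 152)) (XT.lf (nat_lit 0) (nat_lit 30570418456) (nat_lit 76) (nat_lit 30772775546) (nat_lit 152) (nat_lit 700838356073) (nat_lit 149) (nat_lit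 5) (nat_lit 150) (nat_lit 5) (nat_lit 151) (nat_lit 4) (nat_lit 487) (nat_lit 382) (nat_lit 151))) (XT.nd (nat_lit 78) (nat_lit 76) (nat_lit 0) (XT.lf (nat_lit 0) (nat_lit 322751819154) (nat_lit 152) (nat_lit 232293940907) (nat_lit 0) (nat_lit 232101164860) (nat_lit 149) (nat_lit 5) (nat_lit 151) (nat_lit 4) (nat_lit 149) (nat_lit 4) (nat_lit 488) (nat_lit 382) (nat_lit 150)) (XT.lf (nat_lit 0) (nat_lit 301121780863) (nat_lit 76) (nat_lit 301314609299) (nat_lit 76) (nat_lit 210663902616) (nat_lit 148) (nat_lit 4) (nat_lit 149) (nat_lit 5) (nat_lit 149) (nat_lit 4) (nat_lit 489) (nat_lit 382) (nat_lit 149)))) (XT.nd (nat_lit 156) (nat_lit 0) (nat_lit 76) (XT.nd (nat_lit 78) (nat_lit 0) (nat_lit 0) (XT.lf (nat_lit 0) (nat_lit 7369266632) (nat_lit 836) (nat_lit 4592244163) (nat_lit 836) (nat_lit 4592244163) (nat_lit 292) (nat_lit 3) (nat_lit 303) (nat_lit 3) (nat_lit 303) (nat_lit 5) (nat_lit 383)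 (nat_lit 383) (nat_lit 254)) (XT.lf (nat_lit 76) (nat_lit 7612927867) (nat_lit 0) (nat_lit 7671879875) (nat_lit 836) (nat_lit 18641499366) (nat_lit 293) (nat_lit 5) (nat_lit 292) (nat_lit 3) (nat_lit 303) (nat_lit 5) (nat_lit 384) (nat_lit 383) (nat_lit 253))) (XT.nd (nat_lit 78) (nat_lit 0) (nat_lit 0) (XT.lf (nat_lit 0) (nat_lit 16159344054) (nat_lit 760) (nat_lit 9360634339) (nat_lit 836) (nat_lit 9251018361) (nat_lit 293) (nat_lit 5) (nat_lit 303) (nat_lit 5) (nat_lit 304) (nat_lit 5) (nat_lit 385) (nat_lit 383) (nat_lit 252)) (XT.lf (nat_lit 76) (nat_lit 8586649087) (nat_lit 0) (nat_lit 8747190026) (nat_lit 836) (nat_lit 18311270170) (nat_lit 294) (nat_lit 5) (nat_lit 293) (nat_lit 5) (nat_lit 304) (nat_lit 5) (nat_lit 386) (nat_lit 383) (nat_lit 251)))))))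
noncomputable def xc249 : XT := (XT.nd (nat_lit 1248) (nat_lit 3040) (nat_lit 0) (XT.nd (nat_lit 624) (nat_lit 1596) (nat_lit 0) (XT.nd (nat_lit 312) (nat_lit 532) (nat_lit 0) (XT.nd (nat_lit 156) (nat_lit 0) (nat_lit 76) (XT.nd (nat_lit 78) (nat_lit 0) (nat_lit 0) (XT.lf (nat_lit 0) (nat_lit 18863141059) (nat_lit 760) (nat_lit 8942034424) (nat_lit 836) (nat_lit 8742947851) (nat_lit 294) (nat_lit 5) (nat_lit 304) (nat_lit 5) (nat_lit 305) (nat_lit 5) (nat_lit 387) (nat_lit 383) (nat_lit 250)) (XT.lf (nat_lit 76) (nat_lit 10263093740) (nat_lit 0) (nat_lit 10506171209) (nat_lit 836) (nat_lit 16712005295) (nat_lit 295) (nat_lit 5) (nat_lit 294) (nat_lit 5) (nat_lit 305) (nat_lit 5) (nat_lit 388) (nat_lit 383) (nat_lit 249))) (XT.nd (nat_lit 78) (nat_lit 0) (nat_lit 0) (XT.lf (nat_lit 0) (nat_lit 23041036838) (nat_lit 760) (nat_lit 7838961981) (nat_lit 836) (nat_lit 7567558591) (nat_lit 295) (nat_lit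 5) (nat_lit 305) (nat_lit 5) (nat_lit 306) (nat_lit 5) (nat_lit 389) (nat_lit 383) (nat_lit 248)) (XT.lf (nat_lit 76) (nat_lit 12742592167) (nat_lit 0) (nat_lit 13051996547) (nat_lit 836) (nat_lit 13649160650) (nat_lit 296) (nat_lit 5) (nat_lit 295) (nat_lit 5) (nat_lit 306) (nat_lit 5) (nat_lit 390) (nat_lit 383) (nat_lit 247)))) (XT.nd (nat_lit 156) (nat_lit 684) (nat_lit 0) (XT.nd (nat_lit 78) (nat_lit 0) (nat_lit 0) (XT.lf (nat_lit 0) (nat_lit 28906365461) (nat_lit 760) (nat_lit 5950748474) (nat_lit 836) (nat_lit 5621609617) (nat_lit 296) (nat_lit 5) (nat_lit 306) (nat_lit 5) (nat_lit 307) (nat_lit 5) (nat_lit 391) (nat_lit 383) (nat_lit 246)) (XT.lf (nat_lit 76) (nat_lit 16137475384) (nat_lit 0) (nat_lit 16499440925) (nat_lit 836) (nat_lit 8905370878) (nat_lit 297) (nat_lit 5) (nat_lit 296) (nat_lit 5) (nat_lit 307) (nat_lit 5) (nat_lit 392) (nat_lit 383) (nat_lit 245))) (XT.nd (nat_lit 78)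 (nat_lit 760) (nat_lit 0) (XT.lf (nat_lit 0) (nat_lit 36697138018) (nat_lit 760) (nat_lit 3164618837) (nat_lit 76) (nat_lit 2790114981) (nat_lit 297) (nat_lit 5) (nat_lit 307) (nat_lit 5) (nat_lit 298) (nat_lit 5) (nat_lit 393) (nat_lit 383) (nat_lit 244)) (XT.lf (nat_lit 0) (nat_lit 20573347501) (nat_lit 760) (nat_lit 20976208281) (nat_lit 836) (nat_lit 2237920689) (nat_lit 287) (nat_lit 5) (nat_lit 297) (nat_lit 5) (nat_lit 298) (nat_lit 5) (nat_lit 394) (nat_lit 383) (nat_lit 243))))) (XT.nd (nat_lit 312) (nat_lit 684) (nat_lit 0) (XT.nd (nat_lit 156) (nat_lit 380) (nat_lit 0) (XT.nd (nat_lit 78) (nat_lit 0) (nat_lit 0) (XT.lf (nat_lit 0) (nat_lit 621651316) (nat_lit 456) (nat_lit 1051518690) (nat_lit 532) (nat_lit 43302305835) (nat_lit 280) (nat_lit 5) (nat_lit 286) (nat_lit 5) (nat_lit 287) (nat_lit 5) (nat_lit 395) (nat_lit 383) (nat_lit 242)) (XT.lf (nat_lit 0) (nat_lit 6412035475) (nat_lit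 532) (nat_lit 20103763583) (nat_lit 76) (nat_lit 19669870308) (nat_lit 280) (nat_lit 5) (nat_lit 287) (nat_lit 5) (nat_lit 281) (nat_lit 5) (nat_lit 396) (nat_lit 383) (nat_lit 241))) (XT.nd (nat_lit 78) (nat_lit 0) (nat_lit 0) (XT.lf (nat_lit 0) (nat_lit 5515857618) (nat_lit 380) (nat_lit 5973080205) (nat_lit 456) (nat_lit 35962380064) (nat_lit 275) (nat_lit 5) (nat_lit 280) (nat_lit 5) (nat_lit 281) (nat_lit 5) (nat_lit 397) (nat_lit 383) (nat_lit 240)) (XT.lf (nat_lit 0) (nat_lit 17407053531) (nat_lit 456) (nat_lit 15900218674) (nat_lit 76) (nat_lit 15443608218) (nat_lit 275) (nat_lit 5) (nat_lit 281) (nat_lit 5) (nat_lit 276) (nat_lit 5) (nat_lit 398) (nat_lit 383) (nat_lit 239)))) (XT.nd (nat_lit 156) (nat_lit 304) (nat_lit 0) (XT.nd (nat_lit 78) (nat_lit 0) (nat_lit 0) (XT.lf (nat_lit 0) (nat_lit 11711497615) (nat_lit 380) (nat_lit 12188260807) (nat_lit 456) (nat_lit 26201728492) (nat_lit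 270) (nat_lit 5) (nat_lit 275) (nat_lit 5) (nat_lit 276) (nat_lit 5) (nat_lit 399) (nat_lit 383) (nat_lit 238)) (XT.lf (nat_lit 0) (nat_lit 31144688959) (nat_lit 456) (nat_lit 10412947280) (nat_lit 76) (nat_lit 9940607971) (nat_lit 270) (nat_lit 5) (nat_lit 276) (nat_lit 5) (nat_lit 271) (nat_lit 5) (nat_lit 400) (nat_lit 383) (nat_lit 237))) (XT.nd (nat_lit 78) (nat_lit 0) (nat_lit 0) (XT.lf (nat_lit 0) (nat_lit 19381297985) (nat_lit 304) (nat_lit 19871045985) (nat_lit 380) (nat_lit 13687471504) (nat_lit 266) (nat_lit 5) (nat_lit 270) (nat_lit 5) (nat_lit 271) (nat_lit 5) (nat_lit 401) (nat_lit 383) (nat_lit 236)) (XT.lf (nat_lit 0) (nat_lit 47988024556) (nat_lit 380) (nat_lit 3468262734) (nat_lit 76) (nat_lit 2986045871) (nat_lit 266) (nat_lit 5) (nat_lit 271) (nat_lit 5) (nat_lit 267) (nat_lit 5) (nat_lit 402) (nat_lit 383) (nat_lit 235)))))) (XT.nd (nat_lit 624) (nat_lit 1444) (nat_lit 0) (XT.nd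 (nat_lit 312) (nat_lit 608) (nat_lit 0) (XT.nd (nat_lit 156) (nat_lit 304) (nat_lit 0) (XT.nd (nat_lit 78) (nat_lit 304) (nat_lit 0) (XT.lf (nat_lit 0) (nat_lit 1889007690) (nat_lit 380) (nat_lit 27294041958) (nat_lit 76) (nat_lit 26796786813) (nat_lit 261) (nat_lit 5) (nat_lit 266) (nat_lit 5) (nat_lit 262) (nat_lit 5) (nat_lit 403) (nat_lit 383) (nat_lit 234)) (XT.lf (nat_lit 0) (nat_lit 5028729577) (nat_lit 304) (nat_lit 5540306896) (nat_lit 380) (nat_lit 47013065350) (nat_lit 257) (nat_lit 5) (nat_lit 261) (nat_lit 5) (nat_lit 262) (nat_lit 5) (nat_lit 404) (nat_lit 383) (nat_lit 233))) (XT.nd (nat_lit 78) (nat_lit 304) (nat_lit 0) (XT.lf (nat_lit 0) (nat_lit 20452254749) (nat_lit 380) (nat_lit 19636986714) (nat_lit 76) (nat_lit 19136779587) (nat_lit 257) (nat_lit 5) (nat_lit 262) (nat_lit 5) (nat_lit 258) (nat_lit 5) (nat_lit 405) (nat_lit 383) (nat_lit 232)) (XT.lf (nat_lit 0) (nat_lit 15322739166)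 (nat_lit 304) (nat_lit 15835318325) (nat_lit 380) (nat_lit 29777657571) (nat_lit 253) (nat_lit 5) (nat_lit 257) (nat_lit 5) (nat_lit 258) (nat_lit 5) (nat_lit 406) (nat_lit 383) (nat_lit 231)))) (XT.nd (nat_lit 156) (nat_lit 380) (nat_lit 0) (XT.nd (nat_lit 78) (nat_lit 228) (nat_lit 0) (XT.lf (nat_lit 0) (nat_lit 42885942281) (nat_lit 380) (nat_lit 10160002161) (nat_lit 76) (nat_lit 9660609735) (nat_lit 253) (nat_lit 5) (nat_lit 258) (nat_lit 5) (nat_lit 254) (nat_lit 5) (nat_lit 407) (nat_lit 383) (nat_lit 230)) (XT.lf (nat_lit 0) (nat_lit 27690271027) (nat_lit 228) (nat_lit 28200350879) (nat_lit 304) (nat_lit 8640793313) (nat_lit 250) (nat_lit 5) (nat_lit 253) (nat_lit 5) (nat_lit 254) (nat_lit 5) (nat_lit 408) (nat_lit 383) (nat_lit 229))) (XT.nd (nat_lit 78) (nat_lit 0) (nat_lit 0) (XT.lf (nat_lit 0) (nat_lit 1336426102) (nat_lit 304) (nat_lit 1856684455) (nat_lit 380) (nat_lit 63242277810)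 (nat_lit 245) (nat_lit 5) (nat_lit 249) (nat_lit 5) (nat_lit 250) (nat_lit 5) (nat_lit 409) (nat_lit 383) (nat_lit 228)) (XT.lf (nat_lit 0) (nat_lit 16363879870) (nat_lit 380) (nat_lit 26258268075) (nat_lit 76) (nat_lit 25753551729) (nat_lit 245) (nat_lit 5) (nat_lit 250) (nat_lit 5) (nat_lit 246) (nat_lit 5) (nat_lit 410) (nat_lit 383) (nat_lit 227))))) (XT.nd (nat_lit 312) (nat_lit 684) (nat_lit 0) (XT.nd (nat_lit 156) (nat_lit 532) (nat_lit 0) (XT.nd (nat_lit 78) (nat_lit 0) (nat_lit 0) (XT.lf (nat_lit 0) (nat_lit 14971230180) (nat_lit 228) (nat_lit 15484739098) (nat_lit 304) (nat_lit 39943918188) (nat_lit 242) (nat_lit 5) (nat_lit 245) (nat_lit 5) (nat_lit 246) (nat_lit 5) (nat_lit 411) (nat_lit 383) (nat_lit 226)) (XT.lf (nat_lit 0) (nat_lit 45906393913) (nat_lit 304) (nat_lit 13541617716) (nat_lit 76) (nat_lit 13044586481) (nat_lit 242) (nat_lit 5) (nat_lit 246) (nat_lit 5) (nat_lit 243)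 (nat_lit 5) (nat_lit 412) (nat_lit 383) (nat_lit 225))) (XT.nd (nat_lit 78) (nat_lit 304) (nat_lit 0) (XT.lf (nat_lit 0) (nat_lit 31182047303) (nat_lit 228) (nat_lit 31686673892) (nat_lit 304) (nat_lit 11784254022) (nat_lit 239) (nat_lit 5) (nat_lit 242) (nat_lit 5) (nat_lit 243) (nat_lit 5) (nat_lit 413) (nat_lit 383) (nat_lit 224)) (XT.lf (nat_lit 0) (nat_lit 1691938046) (nat_lit 228) (nat_lit 2203798306) (nat_lit 304) (nat_lit 73009790563) (nat_lit 235) (nat_lit 5) (nat_lit 238) (nat_lit 5) (nat_lit 239) (nat_lit 5) (nat_lit 414) (nat_lit 383) (nat_lit 223)))) (XT.nd (nat_lit 156) (nat_lit 456) (nat_lit 0) (XT.nd (nat_lit 78) (nat_lit 228) (nat_lit 0) (XT.lf (nat_lit 0) (nat_lit 21159615314) (nat_lit 304) (nat_lit 29267841456) (nat_lit 76) (nat_lit 28773794341) (nat_lit 235) (nat_lit 5) (nat_lit 239) (nat_lit 5) (nat_lit 236) (nat_lit 5) (nat_lit 415) (nat_lit 383) (nat_lit 222)) (XT.lf (nat_lit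 0) (nat_lit 19563374354) (nat_lit 228) (nat_lit 20063670185) (nat_lit 304) (nat_lit 41967699161) (nat_lit 232) (nat_lit 5) (nat_lit 235) (nat_lit 5) (nat_lit 236) (nat_lit 5) (nat_lit 416) (nat_lit 383) (nat_lit 221))) (XT.nd (nat_lit 78) (nat_lit 456) (nat_lit 0) (XT.lf (nat_lit 0) (nat_lit 59704961711) (nat_lit 304) (nat_lit 12425366687) (nat_lit 76) (nat_lit 11943226696) (nat_lit 232) (nat_lit 5) (nat_lit 236) (nat_lit 5) (nat_lit 233) (nat_lit 5) (nat_lit 417) (nat_lit 383) (nat_lit 220)) (XT.nd (nat_lit 78) (nat_lit 304) (nat_lit 0) (XT.lf (nat_lit 0) (nat_lit 40630687004) (nat_lit 152) (nat_lit 41118224872) (nat_lit 228) (nat_lit 4879288326) (nat_lit 230) (nat_lit 5) (nat_lit 232) (nat_lit 5) (nat_lit 233) (nat_lit 5) (nat_lit 418) (nat_lit 383) (nat_lit 219)) (XT.lf (nat_lit 0) (nat_lit 7461122541) (nat_lit 228) (nat_lit 7953801243) (nat_lit 304) (nat_lit 73867025782) (nat_lit 226) (nat_lit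 5) (nat_lit 229) (nat_lit 5) (nat_lit 230) (nat_lit 5) (nat_lit 419) (nat_lit 383) (nat_lit 218))))))))
noncomputable def xc250 : XT := (XT.nd (nat_lit 2496) (nat_lit 2356) (nat_lit 0) (XT.nd (nat_lit 1248) (nat_lit 1368) (nat_lit 0) (XT.nd (nat_lit 624) (nat_lit 760) (nat_lit 0) (XT.nd (nat_lit 312) (nat_lit 532) (nat_lit 0) (XT.nd (nat_lit 156) (nat_lit 228) (nat_lit 0) (XT.nd (nat_lit 78) (nat_lit 152) (nat_lit 0) (XT.lf (nat_lit 0) (nat_lit 37770019156) (nat_lit 304) (nat_lit 27353870544) (nat_lit 76) (nat_lit 26879989843) (nat_lit 226) (nat_lit 5) (nat_lit 230) (nat_lit 5) (nat_lit 227) (nat_lit 5) (nat_lit 420) (nat_lit 383) (nat_lit 217)) (XT.lf (nat_lit 0) (nat_lit 30686491614) (nat_lit 152) (nat_lit 31164813160) (nat_lit 228) (nat_lit 32980179473) (nat_lit 224) (nat_lit 5) (nat_lit 226) (nat_lit 5) (nat_lit 227) (nat_lit 5) (nat_lit 421) (nat_lit 383) (nat_lit 216))) (XT.nd (nat_lit 78)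 (nat_lit 228) (nat_lit 0) (XT.lf (nat_lit 0) (nat_lit 87676593121) (nat_lit 228) (nat_lit 5278225725) (nat_lit 76) (nat_lit 4818653416) (nat_lit 224) (nat_lit 5) (nat_lit 227) (nat_lit 5) (nat_lit 225) (nat_lit 5) (nat_lit 422) (nat_lit 383) (nat_lit 215)) (XT.lf (nat_lit 0) (nat_lit 14921334628) (nat_lit 228) (nat_lit 43160964023) (nat_lit 76) (nat_lit 42697555544) (nat_lit 221) (nat_lit 5) (nat_lit 224) (nat_lit 5) (nat_lit 222) (nat_lit 5) (nat_lit 423) (nat_lit 383) (nat_lit 214)))) (XT.nd (nat_lit 156) (nat_lit 380) (nat_lit 0) (XT.nd (nat_lit 78) (nat_lit 0) (nat_lit 0) (XT.lf (nat_lit 0) (nat_lit 20396192517) (nat_lit 152) (nat_lit 20863254492) (nat_lit 228) (nat_lit 62648416622) (nat_lit 219) (nat_lit 5) (nat_lit 221) (nat_lit 5) (nat_lit 222) (nat_lit 5) (nat_lit 424) (nat_lit 383) (nat_lit 213)) (XT.lf (nat_lit 0) (nat_lit 69940838283) (nat_lit 228) (nat_lit 18824125673) (nat_lit 76)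 (nat_lit 18375990918) (nat_lit 219) (nat_lit 5) (nat_lit 222) (nat_lit 5) (nat_lit 220) (nat_lit 5) (nat_lit 425) (nat_lit 383) (nat_lit 212))) (XT.nd (nat_lit 78) (nat_lit 228) (nat_lit 0) (XT.lf (nat_lit 0) (nat_lit 50366228802) (nat_lit 152) (nat_lit 50817519585) (nat_lit 228) (nat_lit 9295579830) (nat_lit 217) (nat_lit 5) (nat_lit 219) (nat_lit 5) (nat_lit 220) (nat_lit 5) (nat_lit 426) (nat_lit 383) (nat_lit 211)) (XT.lf (nat_lit 0) (nat_lit 9692022840) (nat_lit 152) (nat_lit 10146319361) (nat_lit 228) (nat_lit 94106941095) (nat_lit 214) (nat_lit 5) (nat_lit 216) (nat_lit 5) (nat_lit 217) (nat_lit 5) (nat_lit 427) (nat_lit 383) (nat_lit 210))))) (XT.nd (nat_lit 312) (nat_lit 456) (nat_lit 0) (XT.nd (nat_lit 156) (nat_lit 152) (nat_lit 0) (XT.nd (nat_lit 78) (nat_lit 152) (nat_lit 0) (XT.lf (nat_lit 0) (nat_lit 51658715244) (nat_lit 228) (nat_lit 33138241919) (nat_lit 76) (nat_lit 32702852271)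 (nat_lit 214) (nat_lit 5) (nat_lit 217) (nat_lit 5) (nat_lit 215) (nat_lit 5) (nat_lit 428) (nat_lit 383) (nat_lit 209)) (XT.lf (nat_lit 0) (nat_lit 42732377408) (nat_lit 152) (nat_lit 43170363527) (nat_lit 228) (nat_lit 35287689244) (nat_lit 212) (nat_lit 5) (nat_lit 214) (nat_lit 5) (nat_lit 215) (nat_lit 5) (nat_lit 429) (nat_lit 383) (nat_lit 208))) (XT.nd (nat_lit 78) (nat_lit 152) (nat_lit 0) (XT.lf (nat_lit 0) (nat_lit 122436909924) (nat_lit 228) (nat_lit 1509629825) (nat_lit 76) (nat_lit 1090145112) (nat_lit 212) (nat_lit 5) (nat_lit 215) (nat_lit 5) (nat_lit 213) (nat_lit 4) (nat_lit 430) (nat_lit 383) (nat_lit 207)) (XT.lf (nat_lit 0) (nat_lit 32713841337) (nat_lit 152) (nat_lit 48329021712) (nat_lit 76) (nat_lit 47907294070) (nat_lit 210) (nat_lit 5) (nat_lit 212) (nat_lit 5) (nat_lit 211) (nat_lit 5) (nat_lit 431) (nat_lit 383) (nat_lit 206)))) (XT.nd (nat_lit 156) (nat_lit 304) (nat_lit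 0) (XT.nd (nat_lit 78) (nat_lit 0) (nat_lit 0) (XT.lf (nat_lit 0) (nat_lit 34926183872) (nat_lit 152) (nat_lit 35350047638) (nat_lit 228) (nat_lit 62752417388) (nat_lit 208) (nat_lit 5) (nat_lit 210) (nat_lit 5) (nat_lit 211) (nat_lit 5) (nat_lit 432) (nat_lit 383) (nat_lit 205)) (XT.lf (nat_lit 0) (nat_lit 110744971628) (nat_lit 228) (nat_lit 13460149710) (nat_lit 76) (nat_lit 13054532406) (nat_lit 208) (nat_lit 5) (nat_lit 211) (nat_lit 5) (nat_lit 209) (nat_lit 4) (nat_lit 433) (nat_lit 383) (nat_lit 204))) (XT.nd (nat_lit 78) (nat_lit 152) (nat_lit 0) (XT.lf (nat_lit 0) (nat_lit 12980749779) (nat_lit 152) (nat_lit 64514583492) (nat_lit 76) (nat_lit 64107120926) (nat_lit 206) (nat_lit 5) (nat_lit 208) (nat_lit 5) (nat_lit 207) (nat_lit 5) (nat_lit 434) (nat_lit 383) (nat_lit 203)) (XT.lf (nat_lit 0) (nat_lit 26900791894) (nat_lit 152) (nat_lit 27310011855) (nat_lit 228) (nat_lit 91897311694)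 (nat_lit 204) (nat_lit 5) (nat_lit 206) (nat_lit 5) (nat_lit 207) (nat_lit 5) (nat_lit 435) (nat_lit 383) (nat_lit 202)))))) (XT.nd (nat_lit 624) (nat_lit 684) (nat_lit 0) (XT.nd (nat_lit 312) (nat_lit 380) (nat_lit 0) (XT.nd (nat_lit 156) (nat_lit 228) (nat_lit 0) (XT.nd (nat_lit 78) (nat_lit 76) (nat_lit 0) (XT.lf (nat_lit 0) (nat_lit 99008417016) (nat_lit 228) (nat_lit 26073333604) (nat_lit 76) (nat_lit 25682006301) (nat_lit 204) (nat_lit 5) (nat_lit 207) (nat_lit 5) (nat_lit 205) (nat_lit 4) (nat_lit 436) (nat_lit 383) (nat_lit 201)) (XT.lf (nat_lit 0) (nat_lit 73624765648) (nat_lit 76) (nat_lit 74017611054) (nat_lit 152) (nat_lit 7929980485) (nat_lit 203) (nat_lit 5) (nat_lit 204) (nat_lit 5) (nat_lit 205) (nat_lit 4) (nat_lit 437) (nat_lit 383) (nat_lit 200))) (XT.nd (nat_lit 78) (nat_lit 0) (nat_lit 0) (XT.lf (nat_lit 0) (nat_lit 18605956845) (nat_lit 152) (nat_lit 19000248064) (nat_lit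 228) (nat_lit 122948522163) (nat_lit 200) (nat_lit 5) (nat_lit 202) (nat_lit 5) (nat_lit 203) (nat_lit 5) (nat_lit 438) (nat_lit 383) (nat_lit 199)) (XT.lf (nat_lit 0) (nat_lit 87167829055) (nat_lit 228) (nat_lit 39443978406) (nat_lit 76) (nat_lit 39067151565) (nat_lit 200) (nat_lit 5) (nat_lit 203) (nat_lit 5) (nat_lit 201) (nat_lit 4) (nat_lit 439) (nat_lit 383) (nat_lit 198)))) (XT.nd (nat_lit 156) (nat_lit 76) (nat_lit 0) (XT.nd (nat_lit 78) (nat_lit 228) (nat_lit 0) (XT.lf (nat_lit 0) (nat_lit 70117490823) (nat_lit 76) (nat_lit 70495566610) (nat_lit 152) (nat_lit 30376068993) (nat_lit 199) (nat_lit 5) (nat_lit 200) (nat_lit 5) (nat_lit 201) (nat_lit 4) (nat_lit 440) (nat_lit 383) (nat_lit 197)) (XT.lf (nat_lit 0) (nat_lit 9987626788) (nat_lit 152) (nat_lit 10366892049) (nat_lit 228) (nat_lit 156152830991) (nat_lit 196) (nat_lit 5) (nat_lit 198) (nat_lit 5) (nat_lit 199) (nat_lit 5) (nat_lit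 441) (nat_lit 383) (nat_lit 196))) (XT.nd (nat_lit 78) (nat_lit 76) (nat_lit 0) (XT.lf (nat_lit 0) (nat_lit 75160294462) (nat_lit 228) (nat_lit 53675300371) (nat_lit 76) (nat_lit 53313016474) (nat_lit 196) (nat_lit 5) (nat_lit 199) (nat_lit 5) (nat_lit 197) (nat_lit 4) (nat_lit 442) (nat_lit 383) (nat_lit 195)) (XT.lf (nat_lit 0) (nat_lit 66777465530) (nat_lit 76) (nat_lit 67140776939) (nat_lit 152) (nat_lit 54093099212) (nat_lit 195) (nat_lit 5) (nat_lit 196) (nat_lit 5) (nat_lit 197) (nat_lit 4) (nat_lit 443) (nat_lit 383) (nat_lit 194))))) (XT.nd (nat_lit 312) (nat_lit 380) (nat_lit 0) (XT.nd (nat_lit 156) (nat_lit 76) (nat_lit 0) (XT.nd (nat_lit 78) (nat_lit 0) (nat_lit 0) (XT.lf (nat_lit 0) (nat_lit 987484730) (nat_lit 152) (nat_lit 1351774721) (nat_lit 228) (nat_lit 191779885164) (nat_lit 192) (nat_lit 5) (nat_lit 194) (nat_lit 5) (nat_lit 195) (nat_lit 5) (nat_lit 444) (nat_lit 383) (nat_lit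 193)) (XT.lf (nat_lit 0) (nat_lit 62918924944) (nat_lit 228) (nat_lit 68879863006) (nat_lit 76) (nat_lit 68532032553) (nat_lit 192) (nat_lit 5) (nat_lit 195) (nat_lit 5) (nat_lit 193) (nat_lit 4) (nat_lit 445) (nat_lit 383) (nat_lit 192))) (XT.nd (nat_lit 78) (nat_lit 0) (nat_lit 0) (XT.lf (nat_lit 0) (nat_lit 63596683584) (nat_lit 76) (nat_lit 63945359372) (nat_lit 152) (nat_lit 79260313766) (nat_lit 191) (nat_lit 5) (nat_lit 192) (nat_lit 5) (nat_lit 193) (nat_lit 4) (nat_lit 446) (nat_lit 383) (nat_lit 191)) (XT.lf (nat_lit 0) (nat_lit 196695328064) (nat_lit 152) (nat_lit 8585015027) (nat_lit 0) (nat_lit 8252176102) (nat_lit 191) (nat_lit 5) (nat_lit 193) (nat_lit 4) (nat_lit 191) (nat_lit 4) (nat_lit 447) (nat_lit 383) (nat_lit 190)))) (XT.nd (nat_lit 156) (nat_lit 152) (nat_lit 0) (XT.nd (nat_lit 78) (nat_lit 76) (nat_lit 0) (XT.lf (nat_lit 0) (nat_lit 50372334530) (nat_lit 152) (nat_lit 85180596408)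 (nat_lit 76) (nat_lit 84847027249) (nat_lit 189) (nat_lit 5) (nat_lit 191) (nat_lit 5) (nat_lit 190) (nat_lit 4) (nat_lit 448) (nat_lit 383) (nat_lit 189)) (XT.lf (nat_lit 0) (nat_lit 60567527479) (nat_lit 76) (nat_lit 60901792098) (nat_lit 152) (nat_lit 106073007420) (nat_lit 188) (nat_lit 5) (nat_lit 189) (nat_lit 5) (nat_lit 190) (nat_lit 4) (nat_lit 449) (nat_lit 383) (nat_lit 188))) (XT.nd (nat_lit 78) (nat_lit 152) (nat_lit 0) (XT.lf (nat_lit 0) (nat_lit 197859740383) (nat_lit 152) (nat_lit 18707061300) (nat_lit 0) (nat_lit 18388083241) (nat_lit 188) (nat_lit 5) (nat_lit 190) (nat_lit 4) (nat_lit 188) (nat_lit 4) (nat_lit 450) (nat_lit 383) (nat_lit 187)) (XT.lf (nat_lit 0) (nat_lit 37444068378) (nat_lit 152) (nat_lit 102711917731) (nat_lit 76) (nat_lit 102392338907) (nat_lit 186) (nat_lit 5) (nat_lit 188) (nat_lit 5) (nat_lit 187) (nat_lit 4) (nat_lit 451) (nat_lit 383) (nat_lit 186)))))))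 (XT.nd (nat_lit 1248) (nat_lit 1140) (nat_lit 0) (XT.nd (nat_lit 624) (nat_lit 684) (nat_lit 0) (XT.nd (nat_lit 312) (nat_lit 228) (nat_lit 0) (XT.nd (nat_lit 156) (nat_lit 228) (nat_lit 0) (XT.nd (nat_lit 78) (nat_lit 0) (nat_lit 0) (XT.lf (nat_lit 0) (nat_lit 57682748565) (nat_lit 76) (nat_lit 58002899546) (nat_lit 152) (nat_lit 134744280832) (nat_lit 185) (nat_lit 5) (nat_lit 186) (nat_lit 5) (nat_lit 187) (nat_lit 4) (nat_lit 452) (nat_lit 383) (nat_lit 185)) (XT.lf (nat_lit 0) (nat_lit 200047934859) (nat_lit 152) (nat_lit 29426335733) (nat_lit 0) (nat_lit 29120911074) (nat_lit 185) (nat_lit 5) (nat_lit 187) (nat_lit 4) (nat_lit 185) (nat_lit 4) (nat_lit 453) (nat_lit 383) (nat_lit 184))) (XT.nd (nat_lit 78) (nat_lit 76) (nat_lit 0) (XT.lf (nat_lit 0) (nat_lit 24051977891) (nat_lit 152) (nat_lit 121620963358) (nat_lit 76) (nat_lit 121315044448) (nat_lit 183) (nat_lit 5) (nat_lit 185) (nat_lit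 5) (nat_lit 184) (nat_lit 4) (nat_lit 454) (nat_lit 383) (nat_lit 183)) (XT.lf (nat_lit 0) (nat_lit 54935448393) (nat_lit 76) (nat_lit 55241838018) (nat_lit 152) (nat_lit 165506969273) (nat_lit 182) (nat_lit 5) (nat_lit 183) (nat_lit 5) (nat_lit 184) (nat_lit 4) (nat_lit 455) (nat_lit 383) (nat_lit 182)))) (XT.nd (nat_lit 156) (nat_lit 76) (nat_lit 0) (XT.nd (nat_lit 78) (nat_lit 152) (nat_lit 0) (XT.lf (nat_lit 0) (nat_lit 203321813419) (nat_lit 152) (nat_lit 40825052346) (nat_lit 0) (nat_lit 40532825751) (nat_lit 182) (nat_lit 5) (nat_lit 184) (nat_lit 4) (nat_lit 182) (nat_lit 4) (nat_lit 456) (nat_lit 383) (nat_lit 181)) (XT.lf (nat_lit 0) (nat_lit 10107536502) (nat_lit 152) (nat_lit 142068944459) (nat_lit 76) (nat_lit 141776311243) (nat_lit 180) (nat_lit 5) (nat_lit 182) (nat_lit 5) (nat_lit 181) (nat_lit 4) (nat_lit 457) (nat_lit 383) (nat_lit 180))) (XT.nd (nat_lit 78) (nat_lit 0) (nat_lit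 0) (XT.lf (nat_lit 0) (nat_lit 52319061153) (nat_lit 76) (nat_lit 52612081627) (nat_lit 152) (nat_lit 198615764403) (nat_lit 179) (nat_lit 5) (nat_lit 180) (nat_lit 5) (nat_lit 181) (nat_lit 4) (nat_lit 458) (nat_lit 383) (nat_lit 179)) (XT.lf (nat_lit 0) (nat_lit 207751666522) (nat_lit 152) (nat_lit 52992846452) (nat_lit 0) (nat_lit 52713428079) (nat_lit 179) (nat_lit 5) (nat_lit 181) (nat_lit 4) (nat_lit 179) (nat_lit 4) (nat_lit 459) (nat_lit 383) (nat_lit 178))))) (XT.nd (nat_lit 312) (nat_lit 380) (nat_lit 0) (XT.nd (nat_lit 156) (nat_lit 76) (nat_lit 0) (XT.nd (nat_lit 78) (nat_lit 152) (nat_lit 0) (XT.lf (nat_lit 0) (nat_lit 159392021601) (nat_lit 76) (nat_lit 159671774502) (nat_lit 76) (nat_lit 4633201531) (nat_lit 178) (nat_lit 4) (nat_lit 179) (nat_lit 5) (nat_lit 179) (nat_lit 4) (nat_lit 460) (nat_lit 383) (nat_lit 177)) (XT.lf (nat_lit 0) (nat_lit 49827337094) (nat_lit 76) (nat_lit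 50107408595) (nat_lit 152) (nat_lit 234349549077) (nat_lit 176) (nat_lit 5) (nat_lit 177) (nat_lit 5) (nat_lit 178) (nat_lit 4) (nat_lit 461) (nat_lit 383) (nat_lit 176))) (XT.nd (nat_lit 78) (nat_lit 76) (nat_lit 0) (XT.lf (nat_lit 0) (nat_lit 213416936688) (nat_lit 152) (nat_lit 66027584241) (nat_lit 0) (nat_lit 65760560500) (nat_lit 176) (nat_lit 5) (nat_lit 178) (nat_lit 4) (nat_lit 176) (nat_lit 4) (nat_lit 462) (nat_lit 383) (nat_lit 175)) (XT.lf (nat_lit 0) (nat_lit 167873954138) (nat_lit 76) (nat_lit 168141253096) (nat_lit 76) (nat_lit 20484601691) (nat_lit 175) (nat_lit 4) (nat_lit 176) (nat_lit 5) (nat_lit 176) (nat_lit 4) (nat_lit 463) (nat_lit 383) (nat_lit 174)))) (XT.nd (nat_lit 156) (nat_lit 228) (nat_lit 0) (XT.nd (nat_lit 78) (nat_lit 0) (nat_lit 0) (XT.lf (nat_lit 0) (nat_lit 47454326878) (nat_lit 76) (nat_lit 47721887948) (nat_lit 152) (nat_lit 273013967159) (nat_lit 173) (nat_lit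 5) (nat_lit 174) (nat_lit 5) (nat_lit 175) (nat_lit 4) (nat_lit 464) (nat_lit 383) (nat_lit 173)) (XT.lf (nat_lit 0) (nat_lit 220407064695) (nat_lit 152) (nat_lit 80036252840) (nat_lit 0) (nat_lit 79781195031) (nat_lit 173) (nat_lit 5) (nat_lit 175) (nat_lit 4) (nat_lit 173) (nat_lit 4) (nat_lit 465) (nat_lit 383) (nat_lit 172))) (XT.nd (nat_lit 78) (nat_lit 152) (nat_lit 0) (XT.lf (nat_lit 0) (nat_lit 177599450304) (nat_lit 76) (nat_lit 177854734535) (nat_lit 76) (nat_lit 37228638449) (nat_lit 172) (nat_lit 4) (nat_lit 173) (nat_lit 5) (nat_lit 173) (nat_lit 4) (nat_lit 466) (nat_lit 383) (nat_lit 171)) (XT.lf (nat_lit 0) (nat_lit 45194366771) (nat_lit 76) (nat_lit 45449866641) (nat_lit 152) (nat_lit 314944252627) (nat_lit 170) (nat_lit 5) (nat_lit 171) (nat_lit 5) (nat_lit 172) (nat_lit 4) (nat_lit 467) (nat_lit 383) (nat_lit 170)))))) (XT.nd (nat_lit 624) (nat_lit 608) (nat_lit 0) (XT.nd (nat_lit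 312) (nat_lit 304) (nat_lit 0) (XT.nd (nat_lit 156) (nat_lit 152) (nat_lit 0) (XT.nd (nat_lit 78) (nat_lit 76) (nat_lit 0) (XT.lf (nat_lit 0) (nat_lit 228822426734) (nat_lit 152) (nat_lit 95135939253) (nat_lit 0) (nat_lit 94892410451) (nat_lit 170) (nat_lit 5) (nat_lit 172) (nat_lit 4) (nat_lit 170) (nat_lit 4) (nat_lit 468) (nat_lit 383) (nat_lit 169)) (XT.lf (nat_lit 0) (nat_lit 188678143384) (nat_lit 76) (nat_lit 188921858464) (nat_lit 76) (nat_lit 54991655903) (nat_lit 169) (nat_lit 4) (nat_lit 170) (nat_lit 5) (nat_lit 170) (nat_lit 4) (nat_lit 469) (nat_lit 383) (nat_lit 168))) (XT.nd (nat_lit 78) (nat_lit 0) (nat_lit 0) (XT.lf (nat_lit 0) (nat_lit 43042064635) (nat_lit 76) (nat_lit 43285957122) (nat_lit 152) (nat_lit 360508344694) (nat_lit 167) (nat_lit 5) (nat_lit 168) (nat_lit 5) (nat_lit 169) (nat_lit 4) (nat_lit 470) (nat_lit 383) (nat_lit 167)) (XT.lf (nat_lit 0) (nat_lit 238775371678)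 (nat_lit 152) (nat_lit 111454907411) (nat_lit 0) (nat_lit 111222467937) (nat_lit 167) (nat_lit 5) (nat_lit 169) (nat_lit 4) (nat_lit 167) (nat_lit 4) (nat_lit 471) (nat_lit 383) (nat_lit 166)))) (XT.nd (nat_lit 156) (nat_lit 76) (nat_lit 0) (XT.nd (nat_lit 78) (nat_lit 152) (nat_lit 0) (XT.lf (nat_lit 0) (nat_lit 201231755804) (nat_lit 76) (nat_lit 201464348528) (nat_lit 76) (nat_lit 73911291537) (nat_lit 166) (nat_lit 4) (nat_lit 167) (nat_lit 5) (nat_lit 167) (nat_lit 4) (nat_lit 472) (nat_lit 383) (nat_lit 165)) (XT.lf (nat_lit 0) (nat_lit 40992286662) (nat_lit 76) (nat_lit 41225025341) (nat_lit 152) (nat_lit 410110318430) (nat_lit 164) (nat_lit 5) (nat_lit 165) (nat_lit 5) (nat_lit 166) (nat_lit 4) (nat_lit 473) (nat_lit 383) (nat_lit 164))) (XT.nd (nat_lit 78) (nat_lit 76) (nat_lit 0) (XT.lf (nat_lit 0) (nat_lit 250391368552) (nat_lit 152) (nat_lit 129133783536) (nat_lit 0) (nat_lit 128911995267)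 (nat_lit 164) (nat_lit 5) (nat_lit 166) (nat_lit 4) (nat_lit 164) (nat_lit 4) (nat_lit 474) (nat_lit 383) (nat_lit 163)) (XT.lf (nat_lit 0) (nat_lit 215395297248) (nat_lit 76) (nat_lit 215617211597) (nat_lit 76) (nat_lit 94137712232) (nat_lit 163) (nat_lit 4) (nat_lit 164) (nat_lit 5) (nat_lit 164) (nat_lit 4) (nat_lit 475) (nat_lit 383) (nat_lit 162))))) (XT.nd (nat_lit 312) (nat_lit 228) (nat_lit 0) (XT.nd (nat_lit 156) (nat_lit 228) (nat_lit 0) (XT.nd (nat_lit 78) (nat_lit 0) (nat_lit 0) (XT.lf (nat_lit 0) (nat_lit 39040144796) (nat_lit 76) (nat_lit 39262179221) (nat_lit 152) (nat_lit 464194163394) (nat_lit 161) (nat_lit 5) (nat_lit 162) (nat_lit 5) (nat_lit 163) (nat_lit 4) (nat_lit 476) (nat_lit 383) (nat_lit 161)) (XT.lf (nat_lit 0) (nat_lit 263810275331) (nat_lit 152) (nat_lit 148326861029) (nat_lit 0) (nat_lit 148115290760) (nat_lit 161) (nat_lit 5) (nat_lit 163) (nat_lit 4) (nat_lit 161)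 (nat_lit 4) (nat_lit 477) (nat_lit 383) (nat_lit 160))) (XT.nd (nat_lit 78) (nat_lit 152) (nat_lit 0) (XT.lf (nat_lit 0) (nat_lit 231318387622) (nat_lit 76) (nat_lit 231530061618) (nat_lit 76) (nat_lit 115834973321) (nat_lit 160) (nat_lit 4) (nat_lit 161) (nat_lit 5) (nat_lit 161) (nat_lit 4) (nat_lit 478) (nat_lit 383) (nat_lit 159)) (XT.lf (nat_lit 0) (nat_lit 37180984799) (nat_lit 76) (nat_lit 37392757582) (nat_lit 152) (nat_lit 523247946087) (nat_lit 158) (nat_lit 5) (nat_lit 159) (nat_lit 5) (nat_lit 160) (nat_lit 4) (nat_lit 479) (nat_lit 383) (nat_lit 158)))) (XT.nd (nat_lit 156) (nat_lit 152) (nat_lit 0) (XT.nd (nat_lit 78) (nat_lit 76) (nat_lit 0) (XT.lf (nat_lit 0) (nat_lit 279187741342) (nat_lit 152) (nat_lit 169203537246) (nat_lit 0) (nat_lit 169001759277) (nat_lit 158) (nat_lit 5) (nat_lit 160) (nat_lit 4) (nat_lit 158) (nat_lit 4) (nat_lit 480) (nat_lit 383) (nat_lit 157)) (XT.lf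 (nat_lit 0) (nat_lit 249166717539) (nat_lit 76) (nat_lit 249368580843) (nat_lit 76) (nat_lit 139182513442) (nat_lit 157) (nat_lit 4) (nat_lit 158) (nat_lit 5) (nat_lit 158) (nat_lit 4) (nat_lit 481) (nat_lit 383) (nat_lit 156))) (XT.nd (nat_lit 78) (nat_lit 0) (nat_lit 0) (XT.lf (nat_lit 0) (nat_lit 35410374932) (nat_lit 76) (nat_lit 35612319509) (nat_lit 152) (nat_lit 587808395737) (nat_lit 155) (nat_lit 5) (nat_lit 156) (nat_lit 5) (nat_lit 157) (nat_lit 4) (nat_lit 482) (nat_lit 383) (nat_lit 155)) (XT.lf (nat_lit 0) (nat_lit 296696756812) (nat_lit 152) (nat_lit 191949895767) (nat_lit 0) (nat_lit 191757493883) (nat_lit 155) (nat_lit 5) (nat_lit 157) (nat_lit 4) (nat_lit 155) (nat_lit 4) (nat_lit 483) (nat_lit 383) (nat_lit 154))))))))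
noncomputable def xc251 : XT := (XT.nd (nat_lit 46176) (nat_lit 0) (nat_lit 7296) (XT.nd (nat_lit 45552) (nat_lit 0) (nat_lit 10944) (XT.nd (nat_lit 312) (nat_lit 152) (nat_lit 0) (XT.nd (nat_lit 156) (nat_lit 76) (nat_lit 0) (XT.nd (nat_lit 78) (nat_lit 152) (nat_lit 0) (XT.lf (nat_lit 0) (nat_lit 269123660330) (nat_lit 76) (nat_lit 269316132421) (nat_lit 76) (nat_lit 164376799286) (nat_lit 154) (nat_lit 4) (nat_lit 155) (nat_lit 5) (nat_lit 155) (nat_lit 4) (nat_lit 484) (nat_lit 383) (nat_lit 153)) (XT.lf (nat_lit 0) (nat_lit 33724095207) (nat_lit 76) (nat_lit 33916634161) (nat_lit 152) (nat_lit 658465956940) (nat_lit 152) (nat_lit 5) (nat_lit 153) (nat_lit 5) (nat_lit 154) (nat_lit 4) (nat_lit 485) (nat_lit 383) (nat_lit 152))) (XT.nd (nat_lit 78) (nat_lit 76) (nat_lit 0) (XT.lf (nat_lit 0) (nat_lit 316529364477) (nat_lit 152) (nat_lit 216770449197) (nat_lit 0) (nat_lit 216587018118) (nat_lit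 152) (nat_lit 5) (nat_lit 154) (nat_lit 4) (nat_lit 152) (nat_lit 4) (nat_lit 486) (nat_lit 383) (nat_lit 151)) (XT.lf (nat_lit 0) (nat_lit 291392051006) (nat_lit 76) (nat_lit 291575539844) (nat_lit 76) (nat_lit 191633135726) (nat_lit 151) (nat_lit 4) (nat_lit 152) (nat_lit 5) (nat_lit 152) (nat_lit 4) (nat_lit 487) (nat_lit 383) (nat_lit 150)))) (XT.nd (nat_lit 45084) (nat_lit 0) (nat_lit 10868) (XT.nd (nat_lit 45006) (nat_lit 0) (nat_lit 10868) (XT.lf (nat_lit 0) (nat_lit 32118127174) (nat_lit 76) (nat_lit 32301671020) (nat_lit 152) (nat_lit 735870357159) (nat_lit 149) (nat_lit 5) (nat_lit 150) (nat_lit 5) (nat_lit 151) (nat_lit 4) (nat_lit 488) (nat_lit 383) (nat_lit 149)) (XT.lf (nat_lit 0) (nat_lit 7795761565) (nat_lit 836) (nat_lit 4791389780) (nat_lit 836) (nat_lit 4791389780) (nat_lit 292) (nat_lit 3) (nat_lit 303) (nat_lit 3) (nat_lit 303) (nat_lit 5) (nat_lit 384) (nat_lit 384) (nat_lit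 252))) (XT.nd (nat_lit 78) (nat_lit 0) (nat_lit 76) (XT.lf (nat_lit 76) (nat_lit 8053524649) (nat_lit 0) (nat_lit 8106995858) (nat_lit 836) (nat_lit 19456528338) (nat_lit 293) (nat_lit 5) (nat_lit 292) (nat_lit 3) (nat_lit 303) (nat_lit 5) (nat_lit 385) (nat_lit 384) (nat_lit 251)) (XT.lf (nat_lit 0) (nat_lit 17072709328) (nat_lit 760) (nat_lit 9765496142) (nat_lit 836) (nat_lit 9666071218) (nat_lit 293) (nat_lit 5) (nat_lit 303) (nat_lit 5) (nat_lit 304) (nat_lit 5) (nat_lit 386) (nat_lit 384) (nat_lit 250))))) (XT.nd (nat_lit 312) (nat_lit 0) (nat_lit 152) (XT.nd (nat_lit 156) (nat_lit 0) (nat_lit 76) (XT.nd (nat_lit 78) (nat_lit 0) (nat_lit 76) (XT.lf (nat_lit 76) (nat_lit 9078132586) (nat_lit 0) (nat_lit 9223747951) (nat_lit 836) (nat_lit 19120416738) (nat_lit 294) (nat_lit 5) (nat_lit 293) (nat_lit 5) (nat_lit 304) (nat_lit 5) (nat_lit 387) (nat_lit 384) (nat_lit 249)) (XT.lf (nat_lit 0) (nat_lit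 19902238561) (nat_lit 760) (nat_lit 9324535654) (nat_lit 836) (nat_lit 9143958263) (nat_lit 294) (nat_lit 5) (nat_lit 304) (nat_lit 5) (nat_lit 305) (nat_lit 5) (nat_lit 388) (nat_lit 384) (nat_lit 248))) (XT.nd (nat_lit 78) (nat_lit 0) (nat_lit 76) (XT.lf (nat_lit 76) (nat_lit 10839806975) (nat_lit 0) (nat_lit 11060285405) (nat_lit 836) (nat_lit 17450623168) (nat_lit 295) (nat_lit 5) (nat_lit 294) (nat_lit 5) (nat_lit 305) (nat_lit 5) (nat_lit 389) (nat_lit 384) (nat_lit 247)) (XT.lf (nat_lit 0) (nat_lit 24280626247) (nat_lit 760) (nat_lit 8165551515) (nat_lit 836) (nat_lit 7919380640) (nat_lit 295) (nat_lit 5) (nat_lit 305) (nat_lit 5) (nat_lit 306) (nat_lit 5) (nat_lit 390) (nat_lit 384) (nat_lit 246)))) (XT.nd (nat_lit 156) (nat_lit 0) (nat_lit 76) (XT.nd (nat_lit 78) (nat_lit 0) (nat_lit 76) (XT.lf (nat_lit 76) (nat_lit 13444026170) (nat_lit 0) (nat_lit 13724665064) (nat_lit 836) (nat_lit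 14243026945) (nat_lit 296) (nat_lit 5) (nat_lit 295) (nat_lit 5) (nat_lit 306) (nat_lit 5) (nat_lit 391) (nat_lit 384) (nat_lit 245)) (XT.lf (nat_lit 0) (nat_lit 30431740644) (nat_lit 760) (nat_lit 6182727443) (nat_lit 836) (nat_lit 5884188797) (nat_lit 296) (nat_lit 5) (nat_lit 306) (nat_lit 5) (nat_lit 307) (nat_lit 5) (nat_lit 392) (nat_lit 384) (nat_lit 244))) (XT.nd (nat_lit 78) (nat_lit 0) (nat_lit 76) (XT.lf (nat_lit 76) (nat_lit 17008850213) (nat_lit 0) (nat_lit 17337163629) (nat_lit 836) (nat_lit 9269525118) (nat_lit 297) (nat_lit 5) (nat_lit 296) (nat_lit 5) (nat_lit 307) (nat_lit 5) (nat_lit 393) (nat_lit 384) (nat_lit 243)) (XT.lf (nat_lit 0) (nat_lit 38605378390) (nat_lit 760) (nat_lit 3257551951) (nat_lit 76) (nat_lit 2917865914) (nat_lit 297) (nat_lit 5) (nat_lit 307) (nat_lit 5) (nat_lit 298) (nat_lit 5) (nat_lit 394) (nat_lit 384) (nat_lit 242)))))) (XT.nd (nat_lit 624) (nat_lit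 1596) (nat_lit 0) (XT.nd (nat_lit 312) (nat_lit 684) (nat_lit 0) (XT.nd (nat_lit 156) (nat_lit 380) (nat_lit 0) (XT.nd (nat_lit 78) (nat_lit 532) (nat_lit 0) (XT.lf (nat_lit 0) (nat_lit 21666259513) (nat_lit 760) (nat_lit 22031666116) (nat_lit 836) (nat_lit 2275380062) (nat_lit 287) (nat_lit 5) (nat_lit 297) (nat_lit 5) (nat_lit 298) (nat_lit 5) (nat_lit 395) (nat_lit 384) (nat_lit 241)) (XT.lf (nat_lit 0) (nat_lit 718286327) (nat_lit 456) (nat_lit 1108188707) (nat_lit 532) (nat_lit 45394292273) (nat_lit 280) (nat_lit 5) (nat_lit 286) (nat_lit 5) (nat_lit 287) (nat_lit 5) (nat_lit 396) (nat_lit 384) (nat_lit 240))) (XT.nd (nat_lit 78) (nat_lit 380) (nat_lit 0) (XT.lf (nat_lit 0) (nat_lit 6798906399) (nat_lit 532) (nat_lit 21043143485) (nat_lit 76) (nat_lit 20649589493) (nat_lit 280) (nat_lit 5) (nat_lit 287) (nat_lit 5) (nat_lit 281) (nat_lit 5) (nat_lit 397) (nat_lit 384) (nat_lit 239)) (XT.lf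 (nat_lit 0) (nat_lit 5856397353) (nat_lit 380) (nat_lit 6271111718) (nat_lit 456) (nat_lit 37693168493) (nat_lit 275) (nat_lit 5) (nat_lit 280) (nat_lit 5) (nat_lit 281) (nat_lit 5) (nat_lit 398) (nat_lit 384) (nat_lit 238)))) (XT.nd (nat_lit 156) (nat_lit 304) (nat_lit 0) (XT.nd (nat_lit 78) (nat_lit 380) (nat_lit 0) (XT.lf (nat_lit 0) (nat_lit 18338486279) (nat_lit 456) (nat_lit 16630521652) (nat_lit 76) (nat_lit 16216362509) (nat_lit 275) (nat_lit 5) (nat_lit 281) (nat_lit 5) (nat_lit 276) (nat_lit 5) (nat_lit 399) (nat_lit 384) (nat_lit 237)) (XT.lf (nat_lit 0) (nat_lit 12360736774) (nat_lit 380) (nat_lit 12793175044) (nat_lit 456) (nat_lit 27449691168) (nat_lit 270) (nat_lit 5) (nat_lit 275) (nat_lit 5) (nat_lit 276) (nat_lit 5) (nat_lit 400) (nat_lit 384) (nat_lit 236))) (XT.nd (nat_lit 78) (nat_lit 304) (nat_lit 0) (XT.lf (nat_lit 0) (nat_lit 32758338372) (nat_lit 456) (nat_lit 10870211489)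 (nat_lit 76) (nat_lit 10441785812) (nat_lit 270) (nat_lit 5) (nat_lit 276) (nat_lit 5) (nat_lit 271) (nat_lit 5) (nat_lit 401) (nat_lit 384) (nat_lit 235)) (XT.lf (nat_lit 0) (nat_lit 20412723731) (nat_lit 304) (nat_lit 20856939604) (nat_lit 380) (nat_lit 14314407805) (nat_lit 266) (nat_lit 5) (nat_lit 270) (nat_lit 5) (nat_lit 271) (nat_lit 5) (nat_lit 402) (nat_lit 384) (nat_lit 234))))) (XT.nd (nat_lit 312) (nat_lit 912) (nat_lit 0) (XT.nd (nat_lit 156) (nat_lit 304) (nat_lit 0) (XT.nd (nat_lit 78) (nat_lit 380) (nat_lit 0) (XT.lf (nat_lit 0) (nat_lit 50439636964) (nat_lit 380) (nat_lit 3579793603) (nat_lit 76) (nat_lit 3142408693) (nat_lit 266) (nat_lit 5) (nat_lit 271) (nat_lit 5) (nat_lit 267) (nat_lit 5) (nat_lit 403) (nat_lit 384) (nat_lit 233)) (XT.lf (nat_lit 0) (nat_lit 2034964327) (nat_lit 380) (nat_lit 28596156860) (nat_lit 76) (nat_lit 28145131785) (nat_lit 261) (nat_lit 5) (nat_lit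 266) (nat_lit 5) (nat_lit 262) (nat_lit 5) (nat_lit 404) (nat_lit 384) (nat_lit 232))) (XT.nd (nat_lit 78) (nat_lit 0) (nat_lit 0) (XT.lf (nat_lit 0) (nat_lit 5341743781) (nat_lit 304) (nat_lit 5805759490) (nat_lit 380) (nat_lit 49311202895) (nat_lit 257) (nat_lit 5) (nat_lit 261) (nat_lit 5) (nat_lit 262) (nat_lit 5) (nat_lit 405) (nat_lit 384) (nat_lit 231)) (XT.lf (nat_lit 0) (nat_lit 21522672725) (nat_lit 380) (nat_lit 20557980863) (nat_lit 76) (nat_lit 20104278253) (nat_lit 257) (nat_lit 5) (nat_lit 262) (nat_lit 5) (nat_lit 258) (nat_lit 5) (nat_lit 406) (nat_lit 384) (nat_lit 230)))) (XT.nd (nat_lit 156) (nat_lit 608) (nat_lit 0) (XT.nd (nat_lit 78) (nat_lit 0) (nat_lit 0) (XT.lf (nat_lit 0) (nat_lit 16148749776) (nat_lit 304) (nat_lit 16613674184) (nat_lit 380) (nat_lit 31217753675) (nat_lit 253) (nat_lit 5) (nat_lit 257) (nat_lit 5) (nat_lit 258) (nat_lit 5) (nat_lit 407) (nat_lit 384)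 (nat_lit 229)) (XT.lf (nat_lit 0) (nat_lit 45074689836) (nat_lit 380) (nat_lit 10608966590) (nat_lit 76) (nat_lit 10156002938) (nat_lit 253) (nat_lit 5) (nat_lit 258) (nat_lit 5) (nat_lit 254) (nat_lit 5) (nat_lit 408) (nat_lit 384) (nat_lit 228))) (XT.nd (nat_lit 78) (nat_lit 380) (nat_lit 0) (XT.lf (nat_lit 0) (nat_lit 29132868069) (nat_lit 228) (nat_lit 29595525531) (nat_lit 304) (nat_lit 9027430349) (nat_lit 250) (nat_lit 5) (nat_lit 253) (nat_lit 5) (nat_lit 254) (nat_lit 5) (nat_lit 409) (nat_lit 384) (nat_lit 227)) (XT.lf (nat_lit 0) (nat_lit 1461823797) (nat_lit 304) (nat_lit 1933713459) (nat_lit 380) (nat_lit 66359481969) (nat_lit 245) (nat_lit 5) (nat_lit 249) (nat_lit 5) (nat_lit 250) (nat_lit 5) (nat_lit 410) (nat_lit 384) (nat_lit 226)))))))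
noncomputable def xc252 : XT := (XT.nd (nat_lit 1248) (nat_lit 1748) (nat_lit 0) (XT.nd (nat_lit 624) (nat_lit 988) (nat_lit 0) (XT.nd (nat_lit 312) (nat_lit 532) (nat_lit 0) (XT.nd (nat_lit 156) (nat_lit 228) (nat_lit 0) (XT.nd (nat_lit 78) (nat_lit 228) (nat_lit 0) (XT.lf (nat_lit 0) (nat_lit 17223043326) (nat_lit 380) (nat_lit 27513592732) (nat_lit 76) (nat_lit 27055800127) (nat_lit 245) (nat_lit 5) (nat_lit 250) (nat_lit 5) (nat_lit 246) (nat_lit 5) (nat_lit 411) (nat_lit 384) (nat_lit 225)) (XT.lf (nat_lit 0) (nat_lit 15776451586) (nat_lit 228) (nat_lit 16242219312) (nat_lit 304) (nat_lit 41899215784) (nat_lit 242) (nat_lit 5) (nat_lit 245) (nat_lit 5) (nat_lit 246) (nat_lit 5) (nat_lit 412) (nat_lit 384) (nat_lit 224))) (XT.nd (nat_lit 78) (nat_lit 228) (nat_lit 0) (XT.lf (nat_lit 0) (nat_lit 48239965776) (nat_lit 304) (nat_lit 14163085807) (nat_lit 76) (nat_lit 13712263825) (nat_lit 242)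 (nat_lit 5) (nat_lit 246) (nat_lit 5) (nat_lit 243) (nat_lit 5) (nat_lit 413) (nat_lit 384) (nat_lit 223)) (XT.lf (nat_lit 0) (nat_lit 32795865482) (nat_lit 228) (nat_lit 33253576674) (nat_lit 304) (nat_lit 12334317576) (nat_lit 239) (nat_lit 5) (nat_lit 242) (nat_lit 5) (nat_lit 243) (nat_lit 5) (nat_lit 414) (nat_lit 384) (nat_lit 222)))) (XT.nd (nat_lit 156) (nat_lit 228) (nat_lit 0) (XT.nd (nat_lit 78) (nat_lit 0) (nat_lit 0) (XT.lf (nat_lit 0) (nat_lit 1831601057) (nat_lit 228) (nat_lit 2295873402) (nat_lit 304) (nat_lit 76621481238) (nat_lit 235) (nat_lit 5) (nat_lit 238) (nat_lit 5) (nat_lit 239) (nat_lit 5) (nat_lit 415) (nat_lit 384) (nat_lit 221)) (XT.lf (nat_lit 0) (nat_lit 22253057139) (nat_lit 304) (nat_lit 30677299386) (nat_lit 76) (nat_lit 30229184089) (nat_lit 235) (nat_lit 5) (nat_lit 239) (nat_lit 5) (nat_lit 236) (nat_lit 5) (nat_lit 416) (nat_lit 384) (nat_lit 220))) (XT.nd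 (nat_lit 78) (nat_lit 0) (nat_lit 0) (XT.lf (nat_lit 0) (nat_lit 20594607309) (nat_lit 228) (nat_lit 21048390376) (nat_lit 304) (nat_lit 44029753155) (nat_lit 232) (nat_lit 5) (nat_lit 235) (nat_lit 5) (nat_lit 236) (nat_lit 5) (nat_lit 417) (nat_lit 384) (nat_lit 219)) (XT.lf (nat_lit 0) (nat_lit 62723437590) (nat_lit 304) (nat_lit 12994724527) (nat_lit 76) (nat_lit 12557409343) (nat_lit 232) (nat_lit 5) (nat_lit 236) (nat_lit 5) (nat_lit 233) (nat_lit 5) (nat_lit 418) (nat_lit 384) (nat_lit 218))))) (XT.nd (nat_lit 312) (nat_lit 380) (nat_lit 0) (XT.nd (nat_lit 156) (nat_lit 152) (nat_lit 0) (XT.nd (nat_lit 78) (nat_lit 304) (nat_lit 0) (XT.lf (nat_lit 0) (nat_lit 42713294583) (nat_lit 152) (nat_lit 43155505801) (nat_lit 228) (nat_lit 5089187683) (nat_lit 230) (nat_lit 5) (nat_lit 232) (nat_lit 5) (nat_lit 233) (nat_lit 5) (nat_lit 419) (nat_lit 384) (nat_lit 217)) (XT.lf (nat_lit 0) (nat_lit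 7885500844) (nat_lit 228) (nat_lit 8332374950) (nat_lit 304) (nat_lit 77526560960) (nat_lit 226) (nat_lit 5) (nat_lit 229) (nat_lit 5) (nat_lit 230) (nat_lit 5) (nat_lit 420) (nat_lit 384) (nat_lit 216))) (XT.nd (nat_lit 78) (nat_lit 152) (nat_lit 0) (XT.lf (nat_lit 0) (nat_lit 39689476572) (nat_lit 304) (nat_lit 28671436445) (nat_lit 76) (nat_lit 28241612681) (nat_lit 226) (nat_lit 5) (nat_lit 230) (nat_lit 5) (nat_lit 227) (nat_lit 5) (nat_lit 421) (nat_lit 384) (nat_lit 215)) (XT.lf (nat_lit 0) (nat_lit 32270135310) (nat_lit 152) (nat_lit 32703987053) (nat_lit 228) (nat_lit 34597423478) (nat_lit 224) (nat_lit 5) (nat_lit 226) (nat_lit 5) (nat_lit 227) (nat_lit 5) (nat_lit 422) (nat_lit 384) (nat_lit 214)))) (XT.nd (nat_lit 156) (nat_lit 152) (nat_lit 0) (XT.nd (nat_lit 78) (nat_lit 228) (nat_lit 0) (XT.lf (nat_lit 0) (nat_lit 92089518049) (nat_lit 228) (nat_lit 5494009347) (nat_lit 76) (nat_lit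 5077163716) (nat_lit 224) (nat_lit 5) (nat_lit 227) (nat_lit 5) (nat_lit 225) (nat_lit 5) (nat_lit 423) (nat_lit 384) (nat_lit 213)) (XT.lf (nat_lit 0) (nat_lit 15696316809) (nat_lit 228) (nat_lit 45270704737) (nat_lit 76) (nat_lit 44850379586) (nat_lit 221) (nat_lit 5) (nat_lit 224) (nat_lit 5) (nat_lit 222) (nat_lit 5) (nat_lit 424) (nat_lit 384) (nat_lit 212))) (XT.nd (nat_lit 78) (nat_lit 0) (nat_lit 0) (XT.lf (nat_lit 0) (nat_lit 21463530477) (nat_lit 152) (nat_lit 21887169456) (nat_lit 228) (nat_lit 65751142850) (nat_lit 219) (nat_lit 5) (nat_lit 221) (nat_lit 5) (nat_lit 222) (nat_lit 5) (nat_lit 425) (nat_lit 384) (nat_lit 211)) (XT.lf (nat_lit 0) (nat_lit 73465100279) (nat_lit 228) (nat_lit 19719006385) (nat_lit 76) (nat_lit 19312534951) (nat_lit 219) (nat_lit 5) (nat_lit 222) (nat_lit 5) (nat_lit 220) (nat_lit 5) (nat_lit 426) (nat_lit 384) (nat_lit 210)))))) (XT.nd (nat_lit 624) (nat_lit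 912) (nat_lit 0) (XT.nd (nat_lit 312) (nat_lit 304) (nat_lit 0) (XT.nd (nat_lit 156) (nat_lit 152) (nat_lit 0) (XT.nd (nat_lit 78) (nat_lit 228) (nat_lit 0) (XT.lf (nat_lit 0) (nat_lit 52930118628) (nat_lit 152) (nat_lit 53339452671) (nat_lit 228) (nat_lit 9732391554) (nat_lit 217) (nat_lit 5) (nat_lit 219) (nat_lit 5) (nat_lit 220) (nat_lit 5) (nat_lit 427) (nat_lit 384) (nat_lit 209)) (XT.lf (nat_lit 0) (nat_lit 10222347922) (nat_lit 152) (nat_lit 10634408259) (nat_lit 228) (nat_lit 98784466436) (nat_lit 214) (nat_lit 5) (nat_lit 216) (nat_lit 5) (nat_lit 217) (nat_lit 5) (nat_lit 428) (nat_lit 384) (nat_lit 208))) (XT.nd (nat_lit 78) (nat_lit 152) (nat_lit 0) (XT.lf (nat_lit 0) (nat_lit 54267172015) (nat_lit 228) (nat_lit 34750631543) (nat_lit 76) (nat_lit 34355720298) (nat_lit 214) (nat_lit 5) (nat_lit 217) (nat_lit 5) (nat_lit 215) (nat_lit 5) (nat_lit 429) (nat_lit 384) (nat_lit 207)) (XT.lf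 (nat_lit 0) (nat_lit 44912800646) (nat_lit 152) (nat_lit 45310066967) (nat_lit 228) (nat_lit 37025834594) (nat_lit 212) (nat_lit 5) (nat_lit 214) (nat_lit 5) (nat_lit 215) (nat_lit 5) (nat_lit 430) (nat_lit 384) (nat_lit 206)))) (XT.nd (nat_lit 156) (nat_lit 152) (nat_lit 0) (XT.nd (nat_lit 78) (nat_lit 152) (nat_lit 0) (XT.lf (nat_lit 0) (nat_lit 128582834832) (nat_lit 228) (nat_lit 1542482651) (nat_lit 76) (nat_lit 1161997651) (nat_lit 212) (nat_lit 5) (nat_lit 215) (nat_lit 5) (nat_lit 213) (nat_lit 4) (nat_lit 431) (nat_lit 384) (nat_lit 205)) (XT.lf (nat_lit 0) (nat_lit 34373507676) (nat_lit 152) (nat_lit 50702738994) (nat_lit 76) (nat_lit 50320219591) (nat_lit 210) (nat_lit 5) (nat_lit 212) (nat_lit 5) (nat_lit 211) (nat_lit 5) (nat_lit 432) (nat_lit 384) (nat_lit 204))) (XT.nd (nat_lit 78) (nat_lit 0) (nat_lit 0) (XT.lf (nat_lit 0) (nat_lit 36714537614) (nat_lit 152) (nat_lit 37098994545)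 (nat_lit 228) (nat_lit 65865374730) (nat_lit 208) (nat_lit 5) (nat_lit 210) (nat_lit 5) (nat_lit 211) (nat_lit 5) (nat_lit 433) (nat_lit 384) (nat_lit 203)) (XT.lf (nat_lit 0) (nat_lit 116304866664) (nat_lit 228) (nat_lit 14092272148) (nat_lit 76) (nat_lit 13724365297) (nat_lit 208) (nat_lit 5) (nat_lit 211) (nat_lit 5) (nat_lit 209) (nat_lit 4) (nat_lit 434) (nat_lit 384) (nat_lit 202))))) (XT.nd (nat_lit 312) (nat_lit 532) (nat_lit 0) (XT.nd (nat_lit 156) (nat_lit 76) (nat_lit 0) (XT.nd (nat_lit 78) (nat_lit 152) (nat_lit 0) (XT.lf (nat_lit 0) (nat_lit 13652347224) (nat_lit 152) (nat_lit 67699341122) (nat_lit 76) (nat_lit 67329760563) (nat_lit 206) (nat_lit 5) (nat_lit 208) (nat_lit 5) (nat_lit 207) (nat_lit 5) (nat_lit 435) (nat_lit 384) (nat_lit 201)) (XT.lf (nat_lit 0) (nat_lit 28286142202) (nat_lit 152) (nat_lit 28657316770) (nat_lit 228) (nat_lit 96468956492) (nat_lit 204) (nat_lit 5) (nat_lit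 206) (nat_lit 5) (nat_lit 207) (nat_lit 5) (nat_lit 436) (nat_lit 384) (nat_lit 200))) (XT.nd (nat_lit 78) (nat_lit 76) (nat_lit 0) (XT.lf (nat_lit 0) (nat_lit 103980170364) (nat_lit 228) (nat_lit 27337826590) (nat_lit 76) (nat_lit 26982881190) (nat_lit 204) (nat_lit 5) (nat_lit 207) (nat_lit 5) (nat_lit 205) (nat_lit 4) (nat_lit 437) (nat_lit 384) (nat_lit 199)) (XT.lf (nat_lit 0) (nat_lit 77344545791) (nat_lit 76) (nat_lit 77700868155) (nat_lit 152) (nat_lit 8304515179) (nat_lit 203) (nat_lit 5) (nat_lit 204) (nat_lit 5) (nat_lit 205) (nat_lit 4) (nat_lit 438) (nat_lit 384) (nat_lit 198)))) (XT.nd (nat_lit 156) (nat_lit 304) (nat_lit 0) (XT.nd (nat_lit 78) (nat_lit 0) (nat_lit 0) (XT.lf (nat_lit 0) (nat_lit 19574866563) (nat_lit 152) (nat_lit 19932500321) (nat_lit 228) (nat_lit 129074053955) (nat_lit 200) (nat_lit 5) (nat_lit 202) (nat_lit 5) (nat_lit 203) (nat_lit 5) (nat_lit 439) (nat_lit 384)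 (nat_lit 197)) (XT.lf (nat_lit 0) (nat_lit 91546343380) (nat_lit 228) (nat_lit 41378675253) (nat_lit 76) (nat_lit 41036882201) (nat_lit 200) (nat_lit 5) (nat_lit 203) (nat_lit 5) (nat_lit 201) (nat_lit 4) (nat_lit 440) (nat_lit 384) (nat_lit 196))) (XT.nd (nat_lit 78) (nat_lit 228) (nat_lit 0) (XT.lf (nat_lit 0) (nat_lit 73660262565) (nat_lit 76) (nat_lit 74003188449) (nat_lit 152) (nat_lit 31874144699) (nat_lit 199) (nat_lit 5) (nat_lit 200) (nat_lit 5) (nat_lit 201) (nat_lit 4) (nat_lit 441) (nat_lit 384) (nat_lit 195)) (XT.nd (nat_lit 78) (nat_lit 0) (nat_lit 0) (XT.lf (nat_lit 0) (nat_lit 10523962929) (nat_lit 152) (nat_lit 10867967701) (nat_lit 228) (nat_lit 163939802398) (nat_lit 196) (nat_lit 5) (nat_lit 198) (nat_lit 5) (nat_lit 199) (nat_lit 5) (nat_lit 442) (nat_lit 384) (nat_lit 194)) (XT.lf (nat_lit 0) (nat_lit 78937314392) (nat_lit 228) (nat_lit 56323189697) (nat_lit 76) (nat_lit 55994587523)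 (nat_lit 196) (nat_lit 5) (nat_lit 199) (nat_lit 5) (nat_lit 197) (nat_lit 4) (nat_lit 443) (nat_lit 384) (nat_lit 193))))))))
noncomputable def xc253 : XT := (XT.nd (nat_lit 2496) (nat_lit 988) (nat_lit 0) (XT.nd (nat_lit 1248) (nat_lit 1140) (nat_lit 0) (XT.nd (nat_lit 624) (nat_lit 684) (nat_lit 0) (XT.nd (nat_lit 312) (nat_lit 228) (nat_lit 0) (XT.nd (nat_lit 156) (nat_lit 76) (nat_lit 0) (XT.nd (nat_lit 78) (nat_lit 228) (nat_lit 0) (XT.lf (nat_lit 0) (nat_lit 70151635859) (nat_lit 76) (nat_lit 70481170016) (nat_lit 152) (nat_lit 56778170326) (nat_lit 195) (nat_lit 5) (nat_lit 196) (nat_lit 5) (nat_lit 197) (nat_lit 4) (nat_lit 444) (nat_lit 384) (nat_lit 192)) (XT.lf (nat_lit 0) (nat_lit 1072203407) (nat_lit 152) (nat_lit 1402625168) (nat_lit 228) (nat_lit 201349342963) (nat_lit 192) (nat_lit 5) (nat_lit 194) (nat_lit 5) (nat_lit 195) (nat_lit 5) (nat_lit 445) (nat_lit 384) (nat_lit 191)))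 (XT.nd (nat_lit 78) (nat_lit 76) (nat_lit 0) (XT.lf (nat_lit 0) (nat_lit 66082840222) (nat_lit 228) (nat_lit 72289557664) (nat_lit 76) (nat_lit 71974065190) (nat_lit 192) (nat_lit 5) (nat_lit 195) (nat_lit 5) (nat_lit 193) (nat_lit 4) (nat_lit 446) (nat_lit 384) (nat_lit 190)) (XT.lf (nat_lit 0) (nat_lit 66810263053) (nat_lit 76) (nat_lit 67126522272) (nat_lit 152) (nat_lit 83204807222) (nat_lit 191) (nat_lit 5) (nat_lit 192) (nat_lit 5) (nat_lit 193) (nat_lit 4) (nat_lit 447) (nat_lit 384) (nat_lit 189)))) (XT.nd (nat_lit 156) (nat_lit 76) (nat_lit 0) (XT.nd (nat_lit 78) (nat_lit 152) (nat_lit 0) (XT.lf (nat_lit 0) (nat_lit 206547134150) (nat_lit 152) (nat_lit 8981526868) (nat_lit 0) (nat_lit 8679632151) (nat_lit 191) (nat_lit 5) (nat_lit 193) (nat_lit 4) (nat_lit 191) (nat_lit 4) (nat_lit 448) (nat_lit 384) (nat_lit 188)) (XT.lf (nat_lit 0) (nat_lit 52907956709) (nat_lit 152) (nat_lit 89406853087)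 (nat_lit 76) (nat_lit 89104296028) (nat_lit 189) (nat_lit 5) (nat_lit 191) (nat_lit 5) (nat_lit 190) (nat_lit 4) (nat_lit 449) (nat_lit 384) (nat_lit 187))) (XT.nd (nat_lit 78) (nat_lit 0) (nat_lit 0) (XT.lf (nat_lit 0) (nat_lit 63628148395) (nat_lit 76) (nat_lit 63931336258) (nat_lit 152) (nat_lit 111359123739) (nat_lit 188) (nat_lit 5) (nat_lit 189) (nat_lit 5) (nat_lit 190) (nat_lit 4) (nat_lit 450) (nat_lit 384) (nat_lit 186)) (XT.lf (nat_lit 0) (nat_lit 207768862454) (nat_lit 152) (nat_lit 19611141232) (nat_lit 0) (nat_lit 19321818730) (nat_lit 188) (nat_lit 5) (nat_lit 190) (nat_lit 4) (nat_lit 188) (nat_lit 4) (nat_lit 451) (nat_lit 384) (nat_lit 185))))) (XT.nd (nat_lit 312) (nat_lit 304) (nat_lit 0) (XT.nd (nat_lit 156) (nat_lit 152) (nat_lit 0) (XT.nd (nat_lit 78) (nat_lit 76) (nat_lit 0) (XT.lf (nat_lit 0) (nat_lit 39332378688) (nat_lit 152) (nat_lit 107816212324) (nat_lit 76) (nat_lit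 107526344910) (nat_lit 186) (nat_lit 5) (nat_lit 188) (nat_lit 5) (nat_lit 187) (nat_lit 4) (nat_lit 452) (nat_lit 384) (nat_lit 184)) (XT.lf (nat_lit 0) (nat_lit 60597682427) (nat_lit 76) (nat_lit 60888068804) (nat_lit 152) (nat_lit 141464883123) (nat_lit 185) (nat_lit 5) (nat_lit 186) (nat_lit 5) (nat_lit 187) (nat_lit 4) (nat_lit 453) (nat_lit 384) (nat_lit 183))) (XT.nd (nat_lit 78) (nat_lit 152) (nat_lit 0) (XT.lf (nat_lit 0) (nat_lit 210065621629) (nat_lit 152) (nat_lit 30867791894) (nat_lit 0) (nat_lit 30590762725) (nat_lit 185) (nat_lit 5) (nat_lit 187) (nat_lit 4) (nat_lit 185) (nat_lit 4) (nat_lit 454) (nat_lit 384) (nat_lit 182)) (XT.lf (nat_lit 0) (nat_lit 25269843644) (nat_lit 152) (nat_lit 127672127732) (nat_lit 76) (nat_lit 127394650263) (nat_lit 183) (nat_lit 5) (nat_lit 185) (nat_lit 5) (nat_lit 184) (nat_lit 4) (nat_lit 455) (nat_lit 384) (nat_lit 181)))) (XT.nd (nat_lit 156)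 (nat_lit 228) (nat_lit 0) (XT.nd (nat_lit 78) (nat_lit 0) (nat_lit 0) (XT.lf (nat_lit 0) (nat_lit 57711622610) (nat_lit 76) (nat_lit 57989527031) (nat_lit 152) (nat_lit 173766568882) (nat_lit 182) (nat_lit 5) (nat_lit 183) (nat_lit 5) (nat_lit 184) (nat_lit 4) (nat_lit 456) (nat_lit 384) (nat_lit 180)) (XT.lf (nat_lit 0) (nat_lit 213502402927) (nat_lit 152) (nat_lit 42837803180) (nat_lit 0) (nat_lit 42572745044) (nat_lit 182) (nat_lit 5) (nat_lit 184) (nat_lit 4) (nat_lit 182) (nat_lit 4) (nat_lit 457) (nat_lit 384) (nat_lit 179))) (XT.nd (nat_lit 78) (nat_lit 76) (nat_lit 0) (XT.lf (nat_lit 0) (nat_lit 10627393103) (nat_lit 152) (nat_lit 149143870838) (nat_lit 76) (nat_lit 148878443885) (nat_lit 180) (nat_lit 5) (nat_lit 182) (nat_lit 5) (nat_lit 181) (nat_lit 4) (nat_lit 458) (nat_lit 384) (nat_lit 178)) (XT.lf (nat_lit 0) (nat_lit 54963075041) (nat_lit 76) (nat_lit 55228853249) (nat_lit 152)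 (nat_lit 208531612833) (nat_lit 179) (nat_lit 5) (nat_lit 180) (nat_lit 5) (nat_lit 181) (nat_lit 4) (nat_lit 459) (nat_lit 384) (nat_lit 177)))))) (XT.nd (nat_lit 624) (nat_lit 608) (nat_lit 0) (XT.nd (nat_lit 312) (nat_lit 304) (nat_lit 0) (XT.nd (nat_lit 156) (nat_lit 152) (nat_lit 0) (XT.nd (nat_lit 78) (nat_lit 76) (nat_lit 0) (XT.lf (nat_lit 0) (nat_lit 218153006357) (nat_lit 152) (nat_lit 55615292312) (nat_lit 0) (nat_lit 55361851611) (nat_lit 179) (nat_lit 5) (nat_lit 181) (nat_lit 4) (nat_lit 179) (nat_lit 4) (nat_lit 460) (nat_lit 384) (nat_lit 176)) (XT.lf (nat_lit 0) (nat_lit 167388380491) (nat_lit 76) (nat_lit 167642124619) (nat_lit 76) (nat_lit 4850666446) (nat_lit 178) (nat_lit 4) (nat_lit 179) (nat_lit 5) (nat_lit 179) (nat_lit 4) (nat_lit 461) (nat_lit 384) (nat_lit 175))) (XT.nd (nat_lit 78) (nat_lit 0) (nat_lit 0) (XT.lf (nat_lit 0) (nat_lit 52345477188) (nat_lit 76) (nat_lit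 52599510294) (nat_lit 152) (nat_lit 246052846797) (nat_lit 176) (nat_lit 5) (nat_lit 177) (nat_lit 5) (nat_lit 178) (nat_lit 4) (nat_lit 462) (nat_lit 384) (nat_lit 174)) (XT.lf (nat_lit 0) (nat_lit 224100842256) (nat_lit 152) (nat_lit 69303019356) (nat_lit 0) (nat_lit 69060820952) (nat_lit 176) (nat_lit 5) (nat_lit 178) (nat_lit 4) (nat_lit 176) (nat_lit 4) (nat_lit 463) (nat_lit 384) (nat_lit 173)))) (XT.nd (nat_lit 156) (nat_lit 76) (nat_lit 0) (XT.nd (nat_lit 78) (nat_lit 152) (nat_lit 0) (XT.lf (nat_lit 0) (nat_lit 176293177489) (nat_lit 76) (nat_lit 176535625523) (nat_lit 76) (nat_lit 21495354589) (nat_lit 175) (nat_lit 4) (nat_lit 176) (nat_lit 5) (nat_lit 176) (nat_lit 4) (nat_lit 464) (nat_lit 384) (nat_lit 172)) (XT.lf (nat_lit 0) (nat_lit 49852581559) (nat_lit 76) (nat_lit 50095267336) (nat_lit 152) (nat_lit 286651201023) (nat_lit 173) (nat_lit 5) (nat_lit 174) (nat_lit 5) (nat_lit 175)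 (nat_lit 4) (nat_lit 465) (nat_lit 384) (nat_lit 171))) (XT.nd (nat_lit 78) (nat_lit 76) (nat_lit 0) (XT.lf (nat_lit 0) (nat_lit 231439819686) (nat_lit 152) (nat_lit 84013321686) (nat_lit 0) (nat_lit 83781976735) (nat_lit 173) (nat_lit 5) (nat_lit 175) (nat_lit 4) (nat_lit 173) (nat_lit 4) (nat_lit 466) (nat_lit 384) (nat_lit 170)) (XT.lf (nat_lit 0) (nat_lit 186503767522) (nat_lit 76) (nat_lit 186735317845) (nat_lit 76) (nat_lit 39077269522) (nat_lit 172) (nat_lit 4) (nat_lit 173) (nat_lit 5) (nat_lit 173) (nat_lit 4) (nat_lit 467) (nat_lit 384) (nat_lit 169))))) (XT.nd (nat_lit 312) (nat_lit 228) (nat_lit 0) (XT.nd (nat_lit 156) (nat_lit 228) (nat_lit 0) (XT.nd (nat_lit 78) (nat_lit 0) (nat_lit 0) (XT.lf (nat_lit 0) (nat_lit 47478440254) (nat_lit 76) (nat_lit 47710186169) (nat_lit 152) (nat_lit 330678674851) (nat_lit 170) (nat_lit 5) (nat_lit 171) (nat_lit 5) (nat_lit 172) (nat_lit 4) (nat_lit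 468) (nat_lit 384) (nat_lit 168)) (XT.lf (nat_lit 0) (nat_lit 240275330364) (nat_lit 152) (nat_lit 99869141792) (nat_lit 0) (nat_lit 99648253990) (nat_lit 170) (nat_lit 5) (nat_lit 172) (nat_lit 4) (nat_lit 170) (nat_lit 4) (nat_lit 469) (nat_lit 384) (nat_lit 167))) (XT.nd (nat_lit 78) (nat_lit 152) (nat_lit 0) (XT.lf (nat_lit 0) (nat_lit 198135264422) (nat_lit 76) (nat_lit 198356321183) (nat_lit 76) (nat_lit 57729075850) (nat_lit 169) (nat_lit 4) (nat_lit 170) (nat_lit 5) (nat_lit 170) (nat_lit 4) (nat_lit 470) (nat_lit 384) (nat_lit 166)) (XT.lf (nat_lit 0) (nat_lit 45217390326) (nat_lit 76) (nat_lit 45438608002) (nat_lit 152) (nat_lit 378521607671) (nat_lit 167) (nat_lit 5) (nat_lit 168) (nat_lit 5) (nat_lit 169) (nat_lit 4) (nat_lit 471) (nat_lit 384) (nat_lit 165)))) (XT.nd (nat_lit 156) (nat_lit 152) (nat_lit 0) (XT.nd (nat_lit 78) (nat_lit 76) (nat_lit 0) (XT.lf (nat_lit 0) (nat_lit 250725337714)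 (nat_lit 152) (nat_lit 117005158122) (nat_lit 0) (nat_lit 116794328668) (nat_lit 167) (nat_lit 5) (nat_lit 169) (nat_lit 4) (nat_lit 167) (nat_lit 4) (nat_lit 472) (nat_lit 384) (nat_lit 164)) (XT.lf (nat_lit 0) (nat_lit 211315475436) (nat_lit 76) (nat_lit 211526443894) (nat_lit 76) (nat_lit 77595295844) (nat_lit 166) (nat_lit 4) (nat_lit 167) (nat_lit 5) (nat_lit 167) (nat_lit 4) (nat_lit 473) (nat_lit 384) (nat_lit 163))) (XT.nd (nat_lit 78) (nat_lit 0) (nat_lit 0) (XT.lf (nat_lit 0) (nat_lit 43064039905) (nat_lit 76) (nat_lit 43275140747) (nat_lit 152) (nat_lit 430604281150) (nat_lit 164) (nat_lit 5) (nat_lit 165) (nat_lit 5) (nat_lit 166) (nat_lit 4) (nat_lit 474) (nat_lit 384) (nat_lit 162)) (XT.lf (nat_lit 0) (nat_lit 262921581657) (nat_lit 152) (nat_lit 135569029665) (nat_lit 0) (nat_lit 135367861167) (nat_lit 164) (nat_lit 5) (nat_lit 166) (nat_lit 4) (nat_lit 164) (nat_lit 4) (nat_lit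 475) (nat_lit 384) (nat_lit 161))))))) (XT.nd (nat_lit 46254) (nat_lit 0) (nat_lit 8740) (XT.nd (nat_lit 624) (nat_lit 304) (nat_lit 0) (XT.nd (nat_lit 312) (nat_lit 380) (nat_lit 0) (XT.nd (nat_lit 156) (nat_lit 76) (nat_lit 0) (XT.nd (nat_lit 78) (nat_lit 152) (nat_lit 0) (XT.lf (nat_lit 0) (nat_lit 226186159303) (nat_lit 76) (nat_lit 226387442159) (nat_lit 76) (nat_lit 98833607311) (nat_lit 163) (nat_lit 4) (nat_lit 164) (nat_lit 5) (nat_lit 164) (nat_lit 4) (nat_lit 476) (nat_lit 384) (nat_lit 160)) (XT.lf (nat_lit 0) (nat_lit 41013255043) (nat_lit 76) (nat_lit 41214646812) (nat_lit 152) (nat_lit 487392886845) (nat_lit 161) (nat_lit 5) (nat_lit 162) (nat_lit 5) (nat_lit 163) (nat_lit 4) (nat_lit 477) (nat_lit 384) (nat_lit 159))) (XT.nd (nat_lit 78) (nat_lit 76) (nat_lit 0) (XT.lf (nat_lit 0) (nat_lit 277010910790) (nat_lit 152) (nat_lit 155722766036) (nat_lit 0) (nat_lit 155530865564) (nat_lit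 161) (nat_lit 5) (nat_lit 163) (nat_lit 4) (nat_lit 161) (nat_lit 4) (nat_lit 478) (nat_lit 384) (nat_lit 158)) (XT.lf (nat_lit 0) (nat_lit 242904415402) (nat_lit 76) (nat_lit 243096409957) (nat_lit 76) (nat_lit 121616270648) (nat_lit 160) (nat_lit 4) (nat_lit 161) (nat_lit 5) (nat_lit 161) (nat_lit 4) (nat_lit 479) (nat_lit 384) (nat_lit 157)))) (XT.nd (nat_lit 156) (nat_lit 228) (nat_lit 0) (XT.nd (nat_lit 78) (nat_lit 0) (nat_lit 0) (XT.lf (nat_lit 0) (nat_lit 39060147222) (nat_lit 76) (nat_lit 39252231379) (nat_lit 152) (nat_lit 549399896836) (nat_lit 158) (nat_lit 5) (nat_lit 159) (nat_lit 5) (nat_lit 160) (nat_lit 4) (nat_lit 480) (nat_lit 384) (nat_lit 156)) (XT.lf (nat_lit 0) (nat_lit 293156754876) (nat_lit 152) (nat_lit 177644236062) (nat_lit 0) (nat_lit 177461217497) (nat_lit 158) (nat_lit 5) (nat_lit 160) (nat_lit 4) (nat_lit 158) (nat_lit 4) (nat_lit 481) (nat_lit 384) (nat_lit 155)))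 (XT.nd (nat_lit 78) (nat_lit 152) (nat_lit 0) (XT.lf (nat_lit 0) (nat_lit 261644217300) (nat_lit 76) (nat_lit 261827313267) (nat_lit 76) (nat_lit 146131698486) (nat_lit 157) (nat_lit 4) (nat_lit 158) (nat_lit 5) (nat_lit 158) (nat_lit 4) (nat_lit 482) (nat_lit 384) (nat_lit 154)) (XT.lf (nat_lit 0) (nat_lit 37200061498) (nat_lit 76) (nat_lit 37383231182) (nat_lit 152) (nat_lit 617188878831) (nat_lit 155) (nat_lit 5) (nat_lit 156) (nat_lit 5) (nat_lit 157) (nat_lit 4) (nat_lit 483) (nat_lit 384) (nat_lit 153))))) (XT.nd (nat_lit 312) (nat_lit 76) (nat_lit 0) (XT.nd (nat_lit 156) (nat_lit 152) (nat_lit 0) (XT.nd (nat_lit 78) (nat_lit 76) (nat_lit 0) (XT.lf (nat_lit 0) (nat_lit 311540751822) (nat_lit 152) (nat_lit 201528829142) (nat_lit 0) (nat_lit 201354314961) (nat_lit 155) (nat_lit 5) (nat_lit 157) (nat_lit 4) (nat_lit 155) (nat_lit 4) (nat_lit 484) (nat_lit 384) (nat_lit 152)) (XT.lf (nat_lit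 0) (nat_lit 282598105382) (nat_lit 76) (nat_lit 282772683242) (nat_lit 76) (nat_lit 172586182702) (nat_lit 154) (nat_lit 4) (nat_lit 155) (nat_lit 5) (nat_lit 155) (nat_lit 4) (nat_lit 485) (nat_lit 384) (nat_lit 151))) (XT.nd (nat_lit 78) (nat_lit 0) (nat_lit 0) (XT.lf (nat_lit 0) (nat_lit 35428565241) (nat_lit 76) (nat_lit 35603203748) (nat_lit 152) (nat_lit 691379801477) (nat_lit 152) (nat_lit 5) (nat_lit 153) (nat_lit 5) (nat_lit 154) (nat_lit 4) (nat_lit 486) (nat_lit 384) (nat_lit 150)) (XT.lf (nat_lit 0) (nat_lit 332364544854) (nat_lit 152) (nat_lit 227591285159) (nat_lit 0) (nat_lit 227424907763) (nat_lit 152) (nat_lit 5) (nat_lit 154) (nat_lit 4) (nat_lit 152) (nat_lit 4) (nat_lit 487) (nat_lit 384) (nat_lit 149)))) (XT.nd (nat_lit 45162) (nat_lit 0) (nat_lit 10716) (XT.nd (nat_lit 45084) (nat_lit 0) (nat_lit 10716) (XT.lf (nat_lit 0) (nat_lit 305979054789) (nat_lit 76) (nat_lit 306145484574)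 (nat_lit 76) (nat_lit 201205795094) (nat_lit 151) (nat_lit 4) (nat_lit 152) (nat_lit 5) (nat_lit 152) (nat_lit 4) (nat_lit 488) (nat_lit 384) (nat_lit 148)) (XT.lf (nat_lit 0) (nat_lit 8238186017) (nat_lit 836) (nat_lit 5003325173) (nat_lit 836) (nat_lit 5003325173) (nat_lit 292) (nat_lit 3) (nat_lit 303) (nat_lit 3) (nat_lit 303) (nat_lit 5) (nat_lit 385) (nat_lit 385) (nat_lit 250))) (XT.nd (nat_lit 78) (nat_lit 0) (nat_lit 76) (XT.lf (nat_lit 76) (nat_lit 8510577651) (nat_lit 0) (nat_lit 8559077614) (nat_lit 836) (nat_lit 20323190585) (nat_lit 293) (nat_lit 5) (nat_lit 292) (nat_lit 3) (nat_lit 303) (nat_lit 5) (nat_lit 386) (nat_lit 385) (nat_lit 249)) (XT.lf (nat_lit 0) (nat_lit 18021943952) (nat_lit 760) (nat_lit 10196473974) (nat_lit 836) (nat_lit 10106292638) (nat_lit 293) (nat_lit 5) (nat_lit 303) (nat_lit 5) (nat_lit 304) (nat_lit 5) (nat_lit 387) (nat_lit 385) (nat_lit 248)))))) (XT.nd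 (nat_lit 624) (nat_lit 2052) (nat_lit 0) (XT.nd (nat_lit 312) (nat_lit 0) (nat_lit 152) (XT.nd (nat_lit 156) (nat_lit 0) (nat_lit 76) (XT.nd (nat_lit 78) (nat_lit 0) (nat_lit 76) (XT.lf (nat_lit 76) (nat_lit 9588412045) (nat_lit 0) (nat_lit 9720489473) (nat_lit 836) (nat_lit 19979914272) (nat_lit 294) (nat_lit 5) (nat_lit 293) (nat_lit 5) (nat_lit 304) (nat_lit 5) (nat_lit 388) (nat_lit 385) (nat_lit 247)) (XT.lf (nat_lit 0) (nat_lit 20984371303) (nat_lit 760) (nat_lit 9732167887) (nat_lit 836) (nat_lit 9568378871) (nat_lit 294) (nat_lit 5) (nat_lit 304) (nat_lit 5) (nat_lit 305) (nat_lit 5) (nat_lit 389) (nat_lit 385) (nat_lit 246))) (XT.nd (nat_lit 78) (nat_lit 0) (nat_lit 76) (XT.lf (nat_lit 76) (nat_lit 11439446800) (nat_lit 0) (nat_lit 11639427235) (nat_lit 836) (nat_lit 18235188438) (nat_lit 295) (nat_lit 5) (nat_lit 294) (nat_lit 5) (nat_lit 305) (nat_lit 5) (nat_lit 390) (nat_lit 385) (nat_lit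 245)) (XT.lf (nat_lit 0) (nat_lit 25574056713) (nat_lit 760) (nat_lit 8514546946) (nat_lit 836) (nat_lit 8291262705) (nat_lit 295) (nat_lit 5) (nat_lit 305) (nat_lit 5) (nat_lit 306) (nat_lit 5) (nat_lit 391) (nat_lit 385) (nat_lit 244)))) (XT.nd (nat_lit 156) (nat_lit 0) (nat_lit 76) (XT.nd (nat_lit 78) (nat_lit 0) (nat_lit 76) (XT.lf (nat_lit 76) (nat_lit 14174553460) (nat_lit 0) (nat_lit 14429101209) (nat_lit 836) (nat_lit 14874822974) (nat_lit 296) (nat_lit 5) (nat_lit 295) (nat_lit 5) (nat_lit 306) (nat_lit 5) (nat_lit 392) (nat_lit 385) (nat_lit 243)) (XT.lf (nat_lit 0) (nat_lit 32025941653) (nat_lit 760) (nat_lit 6432400364) (nat_lit 836) (nat_lit 6161617012) (nat_lit 296) (nat_lit 5) (nat_lit 306) (nat_lit 5) (nat_lit 307) (nat_lit 5) (nat_lit 393) (nat_lit 385) (nat_lit 242))) (XT.nd (nat_lit 78) (nat_lit 0) (nat_lit 76) (XT.lf (nat_lit 76) (nat_lit 17917797087) (nat_lit 0) (nat_lit 18215587033)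 (nat_lit 836) (nat_lit 9659428309) (nat_lit 297) (nat_lit 5) (nat_lit 296) (nat_lit 5) (nat_lit 307) (nat_lit 5) (nat_lit 394) (nat_lit 385) (nat_lit 241)) (XT.lf (nat_lit 0) (nat_lit 40602208282) (nat_lit 760) (nat_lit 3361202493) (nat_lit 76) (nat_lit 3053097244) (nat_lit 297) (nat_lit 5) (nat_lit 307) (nat_lit 5) (nat_lit 298) (nat_lit 5) (nat_lit 395) (nat_lit 385) (nat_lit 240))))) (XT.nd (nat_lit 312) (nat_lit 684) (nat_lit 0) (XT.nd (nat_lit 156) (nat_lit 380) (nat_lit 0) (XT.nd (nat_lit 78) (nat_lit 532) (nat_lit 0) (XT.lf (nat_lit 0) (nat_lit 22807844269) (nat_lit 760) (nat_lit 23139278829) (nat_lit 836) (nat_lit 2321632818) (nat_lit 287) (nat_lit 5) (nat_lit 297) (nat_lit 5) (nat_lit 298) (nat_lit 5) (nat_lit 396) (nat_lit 385) (nat_lit 239)) (XT.lf (nat_lit 0) (nat_lit 813658644) (nat_lit 456) (nat_lit 1167311596) (nat_lit 532) (nat_lit 47597676860) (nat_lit 280) (nat_lit 5) (nat_lit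 286) (nat_lit 5) (nat_lit 287) (nat_lit 5) (nat_lit 397) (nat_lit 385) (nat_lit 238))) (XT.nd (nat_lit 78) (nat_lit 380) (nat_lit 0) (XT.lf (nat_lit 0) (nat_lit 7198959792) (nat_lit 532) (nat_lit 22035610611) (nat_lit 76) (nat_lit 21678645539) (nat_lit 280) (nat_lit 5) (nat_lit 287) (nat_lit 5) (nat_lit 281) (nat_lit 5) (nat_lit 398) (nat_lit 385) (nat_lit 237)) (XT.lf (nat_lit 0) (nat_lit 6207944526) (nat_lit 380) (nat_lit 6584102680) (nat_lit 456) (nat_lit 39516756102) (nat_lit 275) (nat_lit 5) (nat_lit 280) (nat_lit 5) (nat_lit 281) (nat_lit 5) (nat_lit 399) (nat_lit 385) (nat_lit 236)))) (XT.nd (nat_lit 156) (nat_lit 304) (nat_lit 0) (XT.nd (nat_lit 78) (nat_lit 380) (nat_lit 0) (XT.lf (nat_lit 0) (nat_lit 19310812018) (nat_lit 456) (nat_lit 17403355712) (nat_lit 76) (nat_lit 17027701160) (nat_lit 275) (nat_lit 5) (nat_lit 281) (nat_lit 5) (nat_lit 276) (nat_lit 5) (nat_lit 400) (nat_lit 385)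 (nat_lit 235)) (XT.lf (nat_lit 0) (nat_lit 13036518990) (nat_lit 380) (nat_lit 13428753248) (nat_lit 456) (nat_lit 28765827656) (nat_lit 270) (nat_lit 5) (nat_lit 275) (nat_lit 5) (nat_lit 276) (nat_lit 5) (nat_lit 401) (nat_lit 385) (nat_lit 234))) (XT.nd (nat_lit 78) (nat_lit 304) (nat_lit 0) (XT.lf (nat_lit 0) (nat_lit 34447425327) (nat_lit 456) (nat_lit 11356231673) (nat_lit 76) (nat_lit 10967636955) (nat_lit 270) (nat_lit 5) (nat_lit 276) (nat_lit 5) (nat_lit 271) (nat_lit 5) (nat_lit 402) (nat_lit 385) (nat_lit 233)) (XT.lf (nat_lit 0) (nat_lit 21489923043) (nat_lit 304) (nat_lit 21892839935) (nat_lit 380) (nat_lit 14978030894) (nat_lit 266) (nat_lit 5) (nat_lit 270) (nat_lit 5) (nat_lit 271) (nat_lit 5) (nat_lit 403) (nat_lit 385) (nat_lit 232))))))))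
noncomputable def xc254 : XT := (XT.nd (nat_lit 2496) (nat_lit 2660) (nat_lit 0) (XT.nd (nat_lit 1248) (nat_lit 1824) (nat_lit 0) (XT.nd (nat_lit 624) (nat_lit 988) (nat_lit 0) (XT.nd (nat_lit 312) (nat_lit 912) (nat_lit 0) (XT.nd (nat_lit 156) (nat_lit 304) (nat_lit 0) (XT.nd (nat_lit 78) (nat_lit 380) (nat_lit 0) (XT.lf (nat_lit 0) (nat_lit 53008975892) (nat_lit 380) (nat_lit 3702654242) (nat_lit 76) (nat_lit 3305933235) (nat_lit 266) (nat_lit 5) (nat_lit 271) (nat_lit 5) (nat_lit 267) (nat_lit 5) (nat_lit 404) (nat_lit 385) (nat_lit 231)) (XT.lf (nat_lit 0) (nat_lit 2183430232) (nat_lit 380) (nat_lit 29969196271) (nat_lit 76) (nat_lit 29560103233) (nat_lit 261) (nat_lit 5) (nat_lit 266) (nat_lit 5) (nat_lit 262) (nat_lit 5) (nat_lit 405) (nat_lit 385) (nat_lit 230))) (XT.nd (nat_lit 78) (nat_lit 0) (nat_lit 0) (XT.lf (nat_lit 0) (nat_lit 5664683782) (nat_lit 304) (nat_lit 6085559708) (nat_lit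 380) (nat_lit 51729129731) (nat_lit 257) (nat_lit 5) (nat_lit 261) (nat_lit 5) (nat_lit 262) (nat_lit 5) (nat_lit 406) (nat_lit 385) (nat_lit 229)) (XT.lf (nat_lit 0) (nat_lit 22642167123) (nat_lit 380) (nat_lit 21530682457) (nat_lit 76) (nat_lit 21119160815) (nat_lit 257) (nat_lit 5) (nat_lit 262) (nat_lit 5) (nat_lit 258) (nat_lit 5) (nat_lit 407) (nat_lit 385) (nat_lit 228)))) (XT.nd (nat_lit 156) (nat_lit 608) (nat_lit 0) (XT.nd (nat_lit 78) (nat_lit 0) (nat_lit 0) (XT.lf (nat_lit 0) (nat_lit 17010494432) (nat_lit 304) (nat_lit 17432194575) (nat_lit 380) (nat_lit 32734390316) (nat_lit 253) (nat_lit 5) (nat_lit 257) (nat_lit 5) (nat_lit 258) (nat_lit 5) (nat_lit 408) (nat_lit 385) (nat_lit 227)) (XT.lf (nat_lit 0) (nat_lit 47368742188) (nat_lit 380) (nat_lit 11085867818) (nat_lit 76) (nat_lit 10675016433) (nat_lit 253) (nat_lit 5) (nat_lit 258) (nat_lit 5) (nat_lit 254) (nat_lit 5) (nat_lit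 409) (nat_lit 385) (nat_lit 226))) (XT.nd (nat_lit 78) (nat_lit 380) (nat_lit 0) (XT.lf (nat_lit 0) (nat_lit 30642194911) (nat_lit 228) (nat_lit 31061838868) (nat_lit 304) (nat_lit 9437620343) (nat_lit 250) (nat_lit 5) (nat_lit 253) (nat_lit 5) (nat_lit 254) (nat_lit 5) (nat_lit 410) (nat_lit 385) (nat_lit 225)) (XT.lf (nat_lit 0) (nat_lit 1588045499) (nat_lit 304) (nat_lit 2016063334) (nat_lit 380) (nat_lit 69636721618) (nat_lit 245) (nat_lit 5) (nat_lit 249) (nat_lit 5) (nat_lit 250) (nat_lit 5) (nat_lit 411) (nat_lit 385) (nat_lit 224))))) (XT.nd (nat_lit 312) (nat_lit 532) (nat_lit 0) (XT.nd (nat_lit 156) (nat_lit 228) (nat_lit 0) (XT.nd (nat_lit 78) (nat_lit 228) (nat_lit 0) (XT.lf (nat_lit 0) (nat_lit 18121356003) (nat_lit 380) (nat_lit 28837037677) (nat_lit 76) (nat_lit 28421806289) (nat_lit 245) (nat_lit 5) (nat_lit 250) (nat_lit 5) (nat_lit 246) (nat_lit 5) (nat_lit 412) (nat_lit 385)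 (nat_lit 223)) (XT.lf (nat_lit 0) (nat_lit 16616666362) (nat_lit 228) (nat_lit 17039131420) (nat_lit 304) (nat_lit 43956173568) (nat_lit 242) (nat_lit 5) (nat_lit 245) (nat_lit 5) (nat_lit 246) (nat_lit 5) (nat_lit 413) (nat_lit 385) (nat_lit 222))) (XT.nd (nat_lit 78) (nat_lit 228) (nat_lit 0) (XT.lf (nat_lit 0) (nat_lit 50686659908) (nat_lit 304) (nat_lit 14820797653) (nat_lit 76) (nat_lit 14411888826) (nat_lit 242) (nat_lit 5) (nat_lit 246) (nat_lit 5) (nat_lit 243) (nat_lit 5) (nat_lit 414) (nat_lit 385) (nat_lit 221)) (XT.lf (nat_lit 0) (nat_lit 34485287613) (nat_lit 228) (nat_lit 34900445157) (nat_lit 304) (nat_lit 12915524024) (nat_lit 239) (nat_lit 5) (nat_lit 242) (nat_lit 5) (nat_lit 243) (nat_lit 5) (nat_lit 415) (nat_lit 385) (nat_lit 220)))) (XT.nd (nat_lit 156) (nat_lit 228) (nat_lit 0) (XT.nd (nat_lit 78) (nat_lit 0) (nat_lit 0) (XT.lf (nat_lit 0) (nat_lit 1973127694) (nat_lit 228)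 (nat_lit 2394236397) (nat_lit 304) (nat_lit 80417363596) (nat_lit 235) (nat_lit 5) (nat_lit 238) (nat_lit 5) (nat_lit 239) (nat_lit 5) (nat_lit 416) (nat_lit 385) (nat_lit 219)) (XT.lf (nat_lit 0) (nat_lit 23397874222) (nat_lit 304) (nat_lit 32162244497) (nat_lit 76) (nat_lit 31755790714) (nat_lit 235) (nat_lit 5) (nat_lit 239) (nat_lit 5) (nat_lit 236) (nat_lit 5) (nat_lit 417) (nat_lit 385) (nat_lit 218))) (XT.nd (nat_lit 78) (nat_lit 0) (nat_lit 0) (XT.lf (nat_lit 0) (nat_lit 21672468502) (nat_lit 228) (nat_lit 22084063121) (nat_lit 304) (nat_lit 46198287556) (nat_lit 232) (nat_lit 5) (nat_lit 235) (nat_lit 5) (nat_lit 236) (nat_lit 5) (nat_lit 418) (nat_lit 385) (nat_lit 217)) (XT.lf (nat_lit 0) (nat_lit 65889748058) (nat_lit 304) (nat_lit 13597376405) (nat_lit 76) (nat_lit 13200718641) (nat_lit 232) (nat_lit 5) (nat_lit 236) (nat_lit 5) (nat_lit 233) (nat_lit 5) (nat_lit 419) (nat_lit 385)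 (nat_lit 216)))))) (XT.nd (nat_lit 624) (nat_lit 836) (nat_lit 0) (XT.nd (nat_lit 312) (nat_lit 380) (nat_lit 0) (XT.nd (nat_lit 156) (nat_lit 152) (nat_lit 0) (XT.nd (nat_lit 78) (nat_lit 304) (nat_lit 0) (XT.lf (nat_lit 0) (nat_lit 44895284236) (nat_lit 152) (nat_lit 45296382846) (nat_lit 228) (nat_lit 5312749055) (nat_lit 230) (nat_lit 5) (nat_lit 232) (nat_lit 5) (nat_lit 233) (nat_lit 5) (nat_lit 420) (nat_lit 385) (nat_lit 215)) (XT.lf (nat_lit 0) (nat_lit 8326326612) (nat_lit 228) (nat_lit 8731654600) (nat_lit 304) (nat_lit 81372216797) (nat_lit 226) (nat_lit 5) (nat_lit 229) (nat_lit 5) (nat_lit 230) (nat_lit 5) (nat_lit 421) (nat_lit 385) (nat_lit 214))) (XT.nd (nat_lit 78) (nat_lit 152) (nat_lit 0) (XT.lf (nat_lit 0) (nat_lit 41702028820) (nat_lit 304) (nat_lit 30059541033) (nat_lit 76) (nat_lit 29669678208) (nat_lit 226) (nat_lit 5) (nat_lit 230) (nat_lit 5) (nat_lit 227) (nat_lit 5)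 (nat_lit 422) (nat_lit 385) (nat_lit 213)) (XT.lf (nat_lit 0) (nat_lit 33928375967) (nat_lit 152) (nat_lit 34321892287) (nat_lit 228) (nat_lit 36298482890) (nat_lit 224) (nat_lit 5) (nat_lit 226) (nat_lit 5) (nat_lit 227) (nat_lit 5) (nat_lit 423) (nat_lit 385) (nat_lit 212)))) (XT.nd (nat_lit 156) (nat_lit 152) (nat_lit 0) (XT.nd (nat_lit 78) (nat_lit 228) (nat_lit 0) (XT.lf (nat_lit 0) (nat_lit 96720384221) (nat_lit 228) (nat_lit 5725056604) (nat_lit 76) (nat_lit 5346965328) (nat_lit 224) (nat_lit 5) (nat_lit 227) (nat_lit 5) (nat_lit 225) (nat_lit 5) (nat_lit 424) (nat_lit 385) (nat_lit 211)) (XT.lf (nat_lit 0) (nat_lit 16507359815) (nat_lit 228) (nat_lit 47490423659) (nat_lit 76) (nat_lit 47109176357) (nat_lit 221) (nat_lit 5) (nat_lit 224) (nat_lit 5) (nat_lit 222) (nat_lit 5) (nat_lit 425) (nat_lit 385) (nat_lit 210))) (XT.nd (nat_lit 78) (nat_lit 0) (nat_lit 0) (XT.lf (nat_lit 0) (nat_lit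 22579816601) (nat_lit 152) (nat_lit 22964069643) (nat_lit 228) (nat_lit 69011766113) (nat_lit 219) (nat_lit 5) (nat_lit 221) (nat_lit 5) (nat_lit 222) (nat_lit 5) (nat_lit 426) (nat_lit 385) (nat_lit 209)) (XT.lf (nat_lit 0) (nat_lit 77163044709) (nat_lit 228) (nat_lit 20662938044) (nat_lit 76) (nat_lit 20294256471) (nat_lit 219) (nat_lit 5) (nat_lit 222) (nat_lit 5) (nat_lit 220) (nat_lit 5) (nat_lit 427) (nat_lit 385) (nat_lit 208))))) (XT.nd (nat_lit 312) (nat_lit 304) (nat_lit 0) (XT.nd (nat_lit 156) (nat_lit 152) (nat_lit 0) (XT.nd (nat_lit 78) (nat_lit 228) (nat_lit 0) (XT.lf (nat_lit 0) (nat_lit 55617965499) (nat_lit 152) (nat_lit 55989243543) (nat_lit 228) (nat_lit 10193643995) (nat_lit 217) (nat_lit 5) (nat_lit 219) (nat_lit 5) (nat_lit 220) (nat_lit 5) (nat_lit 428) (nat_lit 385) (nat_lit 207)) (XT.lf (nat_lit 0) (nat_lit 10774938280) (nat_lit 152) (nat_lit 11148689153) (nat_lit 228)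 (nat_lit 103698454644) (nat_lit 214) (nat_lit 5) (nat_lit 216) (nat_lit 5) (nat_lit 217) (nat_lit 5) (nat_lit 429) (nat_lit 385) (nat_lit 206))) (XT.nd (nat_lit 78) (nat_lit 152) (nat_lit 0) (XT.lf (nat_lit 0) (nat_lit 57003678922) (nat_lit 228) (nat_lit 36447779926) (nat_lit 76) (nat_lit 36089583785) (nat_lit 214) (nat_lit 5) (nat_lit 217) (nat_lit 5) (nat_lit 215) (nat_lit 5) (nat_lit 430) (nat_lit 385) (nat_lit 205)) (XT.lf (nat_lit 0) (nat_lit 47198172531) (nat_lit 152) (nat_lit 47558504795) (nat_lit 228) (nat_lit 38853326675) (nat_lit 212) (nat_lit 5) (nat_lit 214) (nat_lit 5) (nat_lit 215) (nat_lit 5) (nat_lit 431) (nat_lit 385) (nat_lit 204)))) (XT.nd (nat_lit 156) (nat_lit 152) (nat_lit 0) (XT.nd (nat_lit 78) (nat_lit 152) (nat_lit 0) (XT.lf (nat_lit 0) (nat_lit 135033817309) (nat_lit 228) (nat_lit 1580941328) (nat_lit 76) (nat_lit 1235830216) (nat_lit 212) (nat_lit 5) (nat_lit 215) (nat_lit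 5) (nat_lit 213) (nat_lit 4) (nat_lit 432) (nat_lit 385) (nat_lit 203)) (XT.lf (nat_lit 0) (nat_lit 36113928432) (nat_lit 152) (nat_lit 53199115125) (nat_lit 76) (nat_lit 52852158749) (nat_lit 210) (nat_lit 5) (nat_lit 212) (nat_lit 5) (nat_lit 211) (nat_lit 5) (nat_lit 433) (nat_lit 385) (nat_lit 202))) (XT.nd (nat_lit 78) (nat_lit 0) (nat_lit 0) (XT.lf (nat_lit 0) (nat_lit 38588400140) (nat_lit 152) (nat_lit 38937113909) (nat_lit 228) (nat_lit 69136272920) (nat_lit 208) (nat_lit 5) (nat_lit 210) (nat_lit 5) (nat_lit 211) (nat_lit 5) (nat_lit 434) (nat_lit 385) (nat_lit 201)) (XT.lf (nat_lit 0) (nat_lit 122140650998) (nat_lit 228) (nat_lit 14759801813) (nat_lit 76) (nat_lit 14426099453) (nat_lit 208) (nat_lit 5) (nat_lit 211) (nat_lit 5) (nat_lit 209) (nat_lit 4) (nat_lit 435) (nat_lit 385) (nat_lit 200))))))) (XT.nd (nat_lit 1248) (nat_lit 1140) (nat_lit 0) (XT.nd (nat_lit 624) (nat_lit 608)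 (nat_lit 0) (XT.nd (nat_lit 312) (nat_lit 532) (nat_lit 0) (XT.nd (nat_lit 156) (nat_lit 76) (nat_lit 0) (XT.nd (nat_lit 78) (nat_lit 152) (nat_lit 0) (XT.lf (nat_lit 0) (nat_lit 14355427130) (nat_lit 152) (nat_lit 71047145779) (nat_lit 76) (nat_lit 70711925317) (nat_lit 206) (nat_lit 5) (nat_lit 208) (nat_lit 5) (nat_lit 207) (nat_lit 5) (nat_lit 436) (nat_lit 385) (nat_lit 199)) (XT.lf (nat_lit 0) (nat_lit 29737012318) (nat_lit 152) (nat_lit 30073678592) (nat_lit 228) (nat_lit 101271342377) (nat_lit 204) (nat_lit 5) (nat_lit 206) (nat_lit 5) (nat_lit 207) (nat_lit 5) (nat_lit 437) (nat_lit 385) (nat_lit 198))) (XT.nd (nat_lit 78) (nat_lit 76) (nat_lit 0) (XT.lf (nat_lit 0) (nat_lit 109198528085) (nat_lit 228) (nat_lit 28669186223) (nat_lit 76) (nat_lit 28347240282) (nat_lit 204) (nat_lit 5) (nat_lit 207) (nat_lit 5) (nat_lit 205) (nat_lit 4) (nat_lit 438) (nat_lit 385) (nat_lit 197)) (XT.lf (nat_lit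 0) (nat_lit 81246731685) (nat_lit 76) (nat_lit 81569926573) (nat_lit 152) (nat_lit 8699818643) (nat_lit 203) (nat_lit 5) (nat_lit 204) (nat_lit 5) (nat_lit 205) (nat_lit 4) (nat_lit 439) (nat_lit 385) (nat_lit 196)))) (XT.nd (nat_lit 156) (nat_lit 304) (nat_lit 0) (XT.nd (nat_lit 78) (nat_lit 0) (nat_lit 0) (XT.lf (nat_lit 0) (nat_lit 20588632000) (nat_lit 152) (nat_lit 20913016362) (nat_lit 228) (nat_lit 135507897862) (nat_lit 200) (nat_lit 5) (nat_lit 202) (nat_lit 5) (nat_lit 203) (nat_lit 5) (nat_lit 440) (nat_lit 385) (nat_lit 195)) (XT.lf (nat_lit 0) (nat_lit 96141912586) (nat_lit 228) (nat_lit 43413593531) (nat_lit 76) (nat_lit 43103577157) (nat_lit 200) (nat_lit 5) (nat_lit 203) (nat_lit 5) (nat_lit 201) (nat_lit 4) (nat_lit 441) (nat_lit 385) (nat_lit 194))) (XT.nd (nat_lit 78) (nat_lit 228) (nat_lit 0) (XT.lf (nat_lit 0) (nat_lit 77376742541) (nat_lit 76) (nat_lit 77687786427) (nat_lit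 152) (nat_lit 33449051259) (nat_lit 199) (nat_lit 5) (nat_lit 200) (nat_lit 5) (nat_lit 201) (nat_lit 4) (nat_lit 442) (nat_lit 385) (nat_lit 193)) (XT.lf (nat_lit 0) (nat_lit 11083680170) (nat_lit 152) (nat_lit 11395702638) (nat_lit 228) (nat_lit 172118044089) (nat_lit 196) (nat_lit 5) (nat_lit 198) (nat_lit 5) (nat_lit 199) (nat_lit 5) (nat_lit 443) (nat_lit 385) (nat_lit 192))))) (XT.nd (nat_lit 312) (nat_lit 304) (nat_lit 0) (XT.nd (nat_lit 156) (nat_lit 228) (nat_lit 0) (XT.nd (nat_lit 78) (nat_lit 76) (nat_lit 0) (XT.lf (nat_lit 0) (nat_lit 82901418395) (nat_lit 228) (nat_lit 59106808872) (nat_lit 76) (nat_lit 58808757013) (nat_lit 196) (nat_lit 5) (nat_lit 199) (nat_lit 5) (nat_lit 197) (nat_lit 4) (nat_lit 444) (nat_lit 385) (nat_lit 191)) (XT.lf (nat_lit 0) (nat_lit 73691233118) (nat_lit 76) (nat_lit 73990130314) (nat_lit 152) (nat_lit 59599315716) (nat_lit 195) (nat_lit 5) (nat_lit 196)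 (nat_lit 5) (nat_lit 197) (nat_lit 4) (nat_lit 445) (nat_lit 385) (nat_lit 190))) (XT.nd (nat_lit 78) (nat_lit 0) (nat_lit 0) (XT.lf (nat_lit 0) (nat_lit 1157872027) (nat_lit 152) (nat_lit 1457574304) (nat_lit 228) (nat_lit 211399089967) (nat_lit 192) (nat_lit 5) (nat_lit 194) (nat_lit 5) (nat_lit 195) (nat_lit 5) (nat_lit 446) (nat_lit 385) (nat_lit 189)) (XT.lf (nat_lit 0) (nat_lit 69403280674) (nat_lit 228) (nat_lit 75872925804) (nat_lit 76) (nat_lit 75586764830) (nat_lit 192) (nat_lit 5) (nat_lit 195) (nat_lit 5) (nat_lit 193) (nat_lit 4) (nat_lit 447) (nat_lit 385) (nat_lit 188)))) (XT.nd (nat_lit 156) (nat_lit 228) (nat_lit 0) (XT.nd (nat_lit 78) (nat_lit 0) (nat_lit 0) (XT.lf (nat_lit 0) (nat_lit 70181384179) (nat_lit 76) (nat_lit 70468240614) (nat_lit 152) (nat_lit 87348247372) (nat_lit 191) (nat_lit 5) (nat_lit 192) (nat_lit 5) (nat_lit 193) (nat_lit 4) (nat_lit 448) (nat_lit 385) (nat_lit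 187)) (XT.lf (nat_lit 0) (nat_lit 216889946352) (nat_lit 152) (nat_lit 9400908054) (nat_lit 0) (nat_lit 9127080647) (nat_lit 191) (nat_lit 5) (nat_lit 193) (nat_lit 4) (nat_lit 191) (nat_lit 4) (nat_lit 449) (nat_lit 385) (nat_lit 186))) (XT.nd (nat_lit 78) (nat_lit 76) (nat_lit 0) (XT.lf (nat_lit 0) (nat_lit 55568778991) (nat_lit 152) (nat_lit 93847469537) (nat_lit 76) (nat_lit 93573041365) (nat_lit 189) (nat_lit 5) (nat_lit 191) (nat_lit 5) (nat_lit 190) (nat_lit 4) (nat_lit 450) (nat_lit 385) (nat_lit 185)) (XT.lf (nat_lit 0) (nat_lit 66838802565) (nat_lit 76) (nat_lit 67113802894) (nat_lit 152) (nat_lit 116911176025) (nat_lit 188) (nat_lit 5) (nat_lit 189) (nat_lit 5) (nat_lit 190) (nat_lit 4) (nat_lit 451) (nat_lit 385) (nat_lit 184)))))) (XT.nd (nat_lit 624) (nat_lit 532) (nat_lit 0) (XT.nd (nat_lit 312) (nat_lit 380) (nat_lit 0) (XT.nd (nat_lit 156) (nat_lit 76) (nat_lit 0) (XT.nd (nat_lit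 78) (nat_lit 152) (nat_lit 0) (XT.lf (nat_lit 0) (nat_lit 218171940545) (nat_lit 152) (nat_lit 20563332641) (nat_lit 0) (nat_lit 20300908603) (nat_lit 188) (nat_lit 5) (nat_lit 190) (nat_lit 4) (nat_lit 188) (nat_lit 4) (nat_lit 452) (nat_lit 385) (nat_lit 183)) (XT.lf (nat_lit 0) (nat_lit 41313607047) (nat_lit 152) (nat_lit 113178631744) (nat_lit 76) (nat_lit 112915713455) (nat_lit 186) (nat_lit 5) (nat_lit 188) (nat_lit 5) (nat_lit 187) (nat_lit 4) (nat_lit 453) (nat_lit 385) (nat_lit 182))) (XT.nd (nat_lit 78) (nat_lit 0) (nat_lit 0) (XT.lf (nat_lit 0) (nat_lit 63655499822) (nat_lit 76) (nat_lit 63918888826) (nat_lit 152) (nat_lit 148523059932) (nat_lit 185) (nat_lit 5) (nat_lit 186) (nat_lit 5) (nat_lit 187) (nat_lit 4) (nat_lit 454) (nat_lit 385) (nat_lit 181)) (XT.lf (nat_lit 0) (nat_lit 220582771215) (nat_lit 152) (nat_lit 32384097021) (nat_lit 0) (nat_lit 32132823398) (nat_lit 185) (nat_lit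 5) (nat_lit 187) (nat_lit 4) (nat_lit 185) (nat_lit 4) (nat_lit 455) (nat_lit 385) (nat_lit 180)))) (XT.nd (nat_lit 156) (nat_lit 152) (nat_lit 0) (XT.nd (nat_lit 78) (nat_lit 76) (nat_lit 0) (XT.lf (nat_lit 0) (nat_lit 26547183317) (nat_lit 152) (nat_lit 134028628637) (nat_lit 76) (nat_lit 133776948393) (nat_lit 183) (nat_lit 5) (nat_lit 185) (nat_lit 5) (nat_lit 184) (nat_lit 4) (nat_lit 456) (nat_lit 385) (nat_lit 179)) (XT.lf (nat_lit 0) (nat_lit 60623872037) (nat_lit 76) (nat_lit 60875939539) (nat_lit 152) (nat_lit 182440612650) (nat_lit 182) (nat_lit 5) (nat_lit 183) (nat_lit 5) (nat_lit 184) (nat_lit 4) (nat_lit 457) (nat_lit 385) (nat_lit 178))) (XT.nd (nat_lit 78) (nat_lit 152) (nat_lit 0) (XT.lf (nat_lit 0) (nat_lit 224190673946) (nat_lit 152) (nat_lit 44953841381) (nat_lit 0) (nat_lit 44713425838) (nat_lit 182) (nat_lit 5) (nat_lit 184) (nat_lit 4) (nat_lit 182) (nat_lit 4) (nat_lit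 458) (nat_lit 385) (nat_lit 177)) (XT.lf (nat_lit 0) (nat_lit 11171896342) (nat_lit 152) (nat_lit 156575195133) (nat_lit 76) (nat_lit 156334445062) (nat_lit 180) (nat_lit 5) (nat_lit 182) (nat_lit 5) (nat_lit 181) (nat_lit 4) (nat_lit 459) (nat_lit 385) (nat_lit 176))))) (XT.nd (nat_lit 312) (nat_lit 228) (nat_lit 0) (XT.nd (nat_lit 156) (nat_lit 228) (nat_lit 0) (XT.nd (nat_lit 78) (nat_lit 0) (nat_lit 0) (XT.lf (nat_lit 0) (nat_lit 57736680794) (nat_lit 76) (nat_lit 57977749463) (nat_lit 152) (nat_lit 218944642645) (nat_lit 179) (nat_lit 5) (nat_lit 180) (nat_lit 5) (nat_lit 181) (nat_lit 4) (nat_lit 460) (nat_lit 385) (nat_lit 175)) (XT.lf (nat_lit 0) (nat_lit 229073134235) (nat_lit 152) (nat_lit 58371388935) (nat_lit 0) (nat_lit 58141510747) (nat_lit 179) (nat_lit 5) (nat_lit 181) (nat_lit 4) (nat_lit 179) (nat_lit 4) (nat_lit 461) (nat_lit 385) (nat_lit 174))) (XT.nd (nat_lit 78) (nat_lit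 152) (nat_lit 0) (XT.lf (nat_lit 0) (nat_lit 175782069638) (nat_lit 76) (nat_lit 176012223043) (nat_lit 76) (nat_lit 5080324338) (nat_lit 178) (nat_lit 4) (nat_lit 179) (nat_lit 5) (nat_lit 179) (nat_lit 4) (nat_lit 462) (nat_lit 385) (nat_lit 173)) (XT.lf (nat_lit 0) (nat_lit 54987035163) (nat_lit 76) (nat_lit 55217450680) (nat_lit 152) (nat_lit 258342627700) (nat_lit 176) (nat_lit 5) (nat_lit 177) (nat_lit 5) (nat_lit 178) (nat_lit 4) (nat_lit 463) (nat_lit 385) (nat_lit 172)))) (XT.nd (nat_lit 156) (nat_lit 152) (nat_lit 0) (XT.nd (nat_lit 78) (nat_lit 76) (nat_lit 0) (XT.lf (nat_lit 0) (nat_lit 235317729025) (nat_lit 152) (nat_lit 72744638263) (nat_lit 0) (nat_lit 72524957171) (nat_lit 176) (nat_lit 5) (nat_lit 178) (nat_lit 4) (nat_lit 176) (nat_lit 4) (nat_lit 464) (nat_lit 385) (nat_lit 171)) (XT.lf (nat_lit 0) (nat_lit 185130988875) (nat_lit 76) (nat_lit 185350896389) (nat_lit 76) (nat_lit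 22557898113) (nat_lit 175) (nat_lit 4) (nat_lit 176) (nat_lit 5) (nat_lit 176) (nat_lit 4) (nat_lit 465) (nat_lit 385) (nat_lit 170))) (XT.nd (nat_lit 78) (nat_lit 0) (nat_lit 0) (XT.lf (nat_lit 0) (nat_lit 52368374661) (nat_lit 76) (nat_lit 52588497815) (nat_lit 152) (nat_lit 300971548381) (nat_lit 173) (nat_lit 5) (nat_lit 174) (nat_lit 5) (nat_lit 175) (nat_lit 4) (nat_lit 466) (nat_lit 385) (nat_lit 169)) (XT.lf (nat_lit 0) (nat_lit 243023059429) (nat_lit 152) (nat_lit 88191544418) (nat_lit 0) (nat_lit 87981707727) (nat_lit 173) (nat_lit 5) (nat_lit 175) (nat_lit 4) (nat_lit 173) (nat_lit 4) (nat_lit 467) (nat_lit 385) (nat_lit 168))))))))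
noncomputable def xc255 : XT := (XT.nd (nat_lit 47580) (nat_lit 0) (nat_lit 5092) (XT.nd (nat_lit 1248) (nat_lit 380) (nat_lit 0) (XT.nd (nat_lit 624) (nat_lit 532) (nat_lit 0) (XT.nd (nat_lit 312) (nat_lit 380) (nat_lit 0) (XT.nd (nat_lit 156) (nat_lit 76) (nat_lit 0) (XT.nd (nat_lit 78) (nat_lit 152) (nat_lit 0) (XT.lf (nat_lit 0) (nat_lit 195851037261) (nat_lit 76) (nat_lit 196061060229) (nat_lit 76) (nat_lit 41019522249) (nat_lit 172) (nat_lit 4) (nat_lit 173) (nat_lit 5) (nat_lit 173) (nat_lit 4) (nat_lit 468) (nat_lit 385) (nat_lit 167)) (XT.lf (nat_lit 0) (nat_lit 49874453102) (nat_lit 76) (nat_lit 50084653478) (nat_lit 152) (nat_lit 347201007316) (nat_lit 170) (nat_lit 5) (nat_lit 171) (nat_lit 5) (nat_lit 172) (nat_lit 4) (nat_lit 469) (nat_lit 385) (nat_lit 166))) (XT.nd (nat_lit 78) (nat_lit 76) (nat_lit 0) (XT.lf (nat_lit 0) (nat_lit 252299783769) (nat_lit 152) (nat_lit 104841198044)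 (nat_lit 0) (nat_lit 104640846296) (nat_lit 170) (nat_lit 5) (nat_lit 172) (nat_lit 4) (nat_lit 170) (nat_lit 4) (nat_lit 470) (nat_lit 385) (nat_lit 165)) (XT.lf (nat_lit 0) (nat_lit 208063083306) (nat_lit 76) (nat_lit 208263588305) (nat_lit 76) (nat_lit 60604497581) (nat_lit 169) (nat_lit 4) (nat_lit 170) (nat_lit 5) (nat_lit 170) (nat_lit 4) (nat_lit 471) (nat_lit 385) (nat_lit 164)))) (XT.nd (nat_lit 156) (nat_lit 228) (nat_lit 0) (XT.nd (nat_lit 78) (nat_lit 0) (nat_lit 0) (XT.lf (nat_lit 0) (nat_lit 47499323298) (nat_lit 76) (nat_lit 47699974251) (nat_lit 152) (nat_lit 397436663785) (nat_lit 167) (nat_lit 5) (nat_lit 168) (nat_lit 5) (nat_lit 169) (nat_lit 4) (nat_lit 472) (nat_lit 385) (nat_lit 163)) (XT.lf (nat_lit 0) (nat_lit 263271761020) (nat_lit 152) (nat_lit 122835012710) (nat_lit 0) (nat_lit 122643784180) (nat_lit 167) (nat_lit 5) (nat_lit 169) (nat_lit 4) (nat_lit 167) (nat_lit 4)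 (nat_lit 473) (nat_lit 385) (nat_lit 162))) (XT.nd (nat_lit 78) (nat_lit 152) (nat_lit 0) (XT.lf (nat_lit 0) (nat_lit 221901323441) (nat_lit 76) (nat_lit 222092678051) (nat_lit 76) (nat_lit 81464575131) (nat_lit 166) (nat_lit 4) (nat_lit 167) (nat_lit 5) (nat_lit 167) (nat_lit 4) (nat_lit 474) (nat_lit 385) (nat_lit 161)) (XT.lf (nat_lit 0) (nat_lit 45237322544) (nat_lit 76) (nat_lit 45428797231) (nat_lit 152) (nat_lit 452124016113) (nat_lit 164) (nat_lit 5) (nat_lit 165) (nat_lit 5) (nat_lit 166) (nat_lit 4) (nat_lit 475) (nat_lit 385) (nat_lit 160))))) (XT.nd (nat_lit 312) (nat_lit 304) (nat_lit 0) (XT.nd (nat_lit 156) (nat_lit 152) (nat_lit 0) (XT.nd (nat_lit 78) (nat_lit 76) (nat_lit 0) (XT.lf (nat_lit 0) (nat_lit 276077315776) (nat_lit 152) (nat_lit 142328031671) (nat_lit 0) (nat_lit 142145565914) (nat_lit 164) (nat_lit 5) (nat_lit 166) (nat_lit 4) (nat_lit 164) (nat_lit 4) (nat_lit 476) (nat_lit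 385) (nat_lit 159)) (XT.lf (nat_lit 0) (nat_lit 237514603043) (nat_lit 76) (nat_lit 237697172527) (nat_lit 76) (nat_lit 103765318939) (nat_lit 163) (nat_lit 4) (nat_lit 164) (nat_lit 5) (nat_lit 164) (nat_lit 4) (nat_lit 477) (nat_lit 385) (nat_lit 158))) (XT.nd (nat_lit 78) (nat_lit 0) (nat_lit 0) (XT.lf (nat_lit 0) (nat_lit 43083058845) (nat_lit 76) (nat_lit 43265727116) (nat_lit 152) (nat_lit 511752567724) (nat_lit 161) (nat_lit 5) (nat_lit 162) (nat_lit 5) (nat_lit 163) (nat_lit 4) (nat_lit 478) (nat_lit 385) (nat_lit 157)) (XT.lf (nat_lit 0) (nat_lit 290870637004) (nat_lit 152) (nat_lit 163490366428) (nat_lit 0) (nat_lit 163316307044) (nat_lit 161) (nat_lit 5) (nat_lit 163) (nat_lit 4) (nat_lit 161) (nat_lit 4) (nat_lit 479) (nat_lit 385) (nat_lit 156)))) (XT.nd (nat_lit 156) (nat_lit 76) (nat_lit 0) (XT.nd (nat_lit 78) (nat_lit 152) (nat_lit 0) (XT.lf (nat_lit 0) (nat_lit 255067875083) (nat_lit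 76) (nat_lit 255242019804) (nat_lit 76) (nat_lit 127687604507) (nat_lit 160) (nat_lit 4) (nat_lit 161) (nat_lit 5) (nat_lit 161) (nat_lit 4) (nat_lit 480) (nat_lit 385) (nat_lit 155)) (XT.lf (nat_lit 0) (nat_lit 41031397833) (nat_lit 76) (nat_lit 41205623826) (nat_lit 152) (nat_lit 576860416344) (nat_lit 158) (nat_lit 5) (nat_lit 159) (nat_lit 5) (nat_lit 160) (nat_lit 4) (nat_lit 481) (nat_lit 385) (nat_lit 154))) (XT.nd (nat_lit 78) (nat_lit 76) (nat_lit 0) (XT.lf (nat_lit 0) (nat_lit 307823324109) (nat_lit 152) (nat_lit 186508780703) (nat_lit 0) (nat_lit 186342777470) (nat_lit 158) (nat_lit 5) (nat_lit 160) (nat_lit 4) (nat_lit 158) (nat_lit 4) (nat_lit 482) (nat_lit 385) (nat_lit 153)) (XT.lf (nat_lit 0) (nat_lit 274743810372) (nat_lit 76) (nat_lit 274909883812) (nat_lit 76) (nat_lit 153429266967) (nat_lit 157) (nat_lit 4) (nat_lit 158) (nat_lit 5) (nat_lit 158) (nat_lit 4) (nat_lit 483) (nat_lit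 385) (nat_lit 152)))))) (XT.nd (nat_lit 45708) (nat_lit 0) (nat_lit 10716) (XT.nd (nat_lit 312) (nat_lit 0) (nat_lit 0) (XT.nd (nat_lit 156) (nat_lit 228) (nat_lit 0) (XT.nd (nat_lit 78) (nat_lit 0) (nat_lit 0) (XT.lf (nat_lit 0) (nat_lit 39077450350) (nat_lit 76) (nat_lit 39243590653) (nat_lit 152) (nat_lit 648039309899) (nat_lit 155) (nat_lit 5) (nat_lit 156) (nat_lit 5) (nat_lit 157) (nat_lit 4) (nat_lit 484) (nat_lit 385) (nat_lit 151)) (XT.lf (nat_lit 0) (nat_lit 327126095237) (nat_lit 152) (nat_lit 211588434851) (nat_lit 0) (nat_lit 211430145344) (nat_lit 155) (nat_lit 5) (nat_lit 157) (nat_lit 4) (nat_lit 155) (nat_lit 4) (nat_lit 485) (nat_lit 385) (nat_lit 150))) (XT.nd (nat_lit 78) (nat_lit 152) (nat_lit 0) (XT.lf (nat_lit 0) (nat_lit 296744574856) (nat_lit 76) (nat_lit 296902922121) (nat_lit 76) (nat_lit 181206914470) (nat_lit 154) (nat_lit 4) (nat_lit 155) (nat_lit 5) (nat_lit 155)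 (nat_lit 4) (nat_lit 486) (nat_lit 385) (nat_lit 149)) (XT.lf (nat_lit 0) (nat_lit 37216560644) (nat_lit 76) (nat_lit 37374962918) (nat_lit 152) (nat_lit 725940217120) (nat_lit 152) (nat_lit 5) (nat_lit 153) (nat_lit 5) (nat_lit 154) (nat_lit 4) (nat_lit 487) (nat_lit 385) (nat_lit 148)))) (XT.nd (nat_lit 45240) (nat_lit 0) (nat_lit 10640) (XT.nd (nat_lit 45162) (nat_lit 0) (nat_lit 10640) (XT.lf (nat_lit 0) (nat_lit 348990674275) (nat_lit 152) (nat_lit 238954807241) (nat_lit 0) (nat_lit 238803898038) (nat_lit 152) (nat_lit 5) (nat_lit 154) (nat_lit 4) (nat_lit 152) (nat_lit 4) (nat_lit 488) (nat_lit 385) (nat_lit 147)) (XT.lf (nat_lit 0) (nat_lit 8697838060) (nat_lit 836) (nat_lit 5228426492) (nat_lit 836) (nat_lit 5228426492) (nat_lit 292) (nat_lit 3) (nat_lit 303) (nat_lit 3) (nat_lit 303) (nat_lit 5) (nat_lit 386) (nat_lit 386) (nat_lit 248))) (XT.nd (nat_lit 78) (nat_lit 0) (nat_lit 76) (XT.lf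 (nat_lit 76) (nat_lit 8985427867) (nat_lit 0) (nat_lit 9029418763) (nat_lit 836) (nat_lit 21243056083) (nat_lit 293) (nat_lit 5) (nat_lit 292) (nat_lit 3) (nat_lit 303) (nat_lit 5) (nat_lit 387) (nat_lit 386) (nat_lit 247)) (XT.lf (nat_lit 0) (nat_lit 19009752404) (nat_lit 760) (nat_lit 10654327628) (nat_lit 836) (nat_lit 10572530497) (nat_lit 293) (nat_lit 5) (nat_lit 303) (nat_lit 5) (nat_lit 304) (nat_lit 5) (nat_lit 388) (nat_lit 386) (nat_lit 246))))) (XT.nd (nat_lit 312) (nat_lit 0) (nat_lit 152) (XT.nd (nat_lit 156) (nat_lit 0) (nat_lit 76) (XT.nd (nat_lit 78) (nat_lit 0) (nat_lit 76) (XT.lf (nat_lit 76) (nat_lit 10118964466) (nat_lit 0) (nat_lit 10238762587) (nat_lit 836) (nat_lit 20891360505) (nat_lit 294) (nat_lit 5) (nat_lit 293) (nat_lit 5) (nat_lit 304) (nat_lit 5) (nat_lit 389) (nat_lit 386) (nat_lit 245)) (XT.lf (nat_lit 0) (nat_lit 22112520313) (nat_lit 760) (nat_lit 10165629298)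 (nat_lit 836) (nat_lit 10017067832) (nat_lit 294) (nat_lit 5) (nat_lit 304) (nat_lit 5) (nat_lit 305) (nat_lit 5) (nat_lit 390) (nat_lit 386) (nat_lit 244))) (XT.nd (nat_lit 78) (nat_lit 0) (nat_lit 76) (XT.lf (nat_lit 76) (nat_lit 12063708914) (nat_lit 0) (nat_lit 12245097064) (nat_lit 836) (nat_lit 19067160207) (nat_lit 295) (nat_lit 5) (nat_lit 294) (nat_lit 5) (nat_lit 305) (nat_lit 5) (nat_lit 391) (nat_lit 386) (nat_lit 243)) (XT.lf (nat_lit 0) (nat_lit 26924776922) (nat_lit 760) (nat_lit 8886503640) (nat_lit 836) (nat_lit 8683978251) (nat_lit 295) (nat_lit 5) (nat_lit 305) (nat_lit 5) (nat_lit 306) (nat_lit 5) (nat_lit 392) (nat_lit 386) (nat_lit 242)))) (XT.nd (nat_lit 156) (nat_lit 0) (nat_lit 76) (XT.nd (nat_lit 78) (nat_lit 0) (nat_lit 76) (XT.lf (nat_lit 76) (nat_lit 14936184517) (nat_lit 0) (nat_lit 15167066830) (nat_lit 836) (nat_lit 15545679481) (nat_lit 296) (nat_lit 5) (nat_lit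 295) (nat_lit 5) (nat_lit 306) (nat_lit 5) (nat_lit 393) (nat_lit 386) (nat_lit 241)) (XT.lf (nat_lit 0) (nat_lit 33693101754) (nat_lit 760) (nat_lit 6700085280) (nat_lit 836) (nat_lit 6454476797) (nat_lit 296) (nat_lit 5) (nat_lit 306) (nat_lit 5) (nat_lit 307) (nat_lit 5) (nat_lit 394) (nat_lit 386) (nat_lit 240))) (XT.nd (nat_lit 78) (nat_lit 0) (nat_lit 76) (XT.lf (nat_lit 76) (nat_lit 18866752123) (nat_lit 0) (nat_lit 19136856383) (nat_lit 836) (nat_lit 10075666785) (nat_lit 297) (nat_lit 5) (nat_lit 296) (nat_lit 5) (nat_lit 307) (nat_lit 5) (nat_lit 395) (nat_lit 386) (nat_lit 239)) (XT.lf (nat_lit 0) (nat_lit 42692691459) (nat_lit 760) (nat_lit 3475541933) (nat_lit 76) (nat_lit 3196081390) (nat_lit 297) (nat_lit 5) (nat_lit 307) (nat_lit 5) (nat_lit 298) (nat_lit 5) (nat_lit 396) (nat_lit 386) (nat_lit 238))))))) (XT.nd (nat_lit 1248) (nat_lit 1976) (nat_lit 0) (XT.nd (nat_lit 624) (nat_lit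 1596) (nat_lit 0) (XT.nd (nat_lit 312) (nat_lit 684) (nat_lit 0) (XT.nd (nat_lit 156) (nat_lit 380) (nat_lit 0) (XT.nd (nat_lit 78) (nat_lit 532) (nat_lit 0) (XT.lf (nat_lit 0) (nat_lit 24001090705) (nat_lit 760) (nat_lit 24301711621) (nat_lit 836) (nat_lit 2376475233) (nat_lit 287) (nat_lit 5) (nat_lit 297) (nat_lit 5) (nat_lit 298) (nat_lit 5) (nat_lit 397) (nat_lit 386) (nat_lit 237)) (XT.lf (nat_lit 0) (nat_lit 908271735) (nat_lit 456) (nat_lit 1229045387) (nat_lit 532) (nat_lit 49917397414) (nat_lit 280) (nat_lit 5) (nat_lit 286) (nat_lit 5) (nat_lit 287) (nat_lit 5) (nat_lit 398) (nat_lit 386) (nat_lit 236))) (XT.nd (nat_lit 78) (nat_lit 380) (nat_lit 0) (XT.lf (nat_lit 0) (nat_lit 7613427575) (nat_lit 532) (nat_lit 23083250509) (nat_lit 76) (nat_lit 22759472666) (nat_lit 280) (nat_lit 5) (nat_lit 287) (nat_lit 5) (nat_lit 281) (nat_lit 5) (nat_lit 399) (nat_lit 386) (nat_lit 235)) (XT.lf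 (nat_lit 0) (nat_lit 6571609149) (nat_lit 380) (nat_lit 6912795683) (nat_lit 456) (nat_lit 41437200878) (nat_lit 275) (nat_lit 5) (nat_lit 280) (nat_lit 5) (nat_lit 281) (nat_lit 5) (nat_lit 400) (nat_lit 386) (nat_lit 234)))) (XT.nd (nat_lit 156) (nat_lit 304) (nat_lit 0) (XT.nd (nat_lit 78) (nat_lit 380) (nat_lit 0) (XT.lf (nat_lit 0) (nat_lit 20326603345) (nat_lit 456) (nat_lit 18220288103) (nat_lit 76) (nat_lit 17879558351) (nat_lit 275) (nat_lit 5) (nat_lit 281) (nat_lit 5) (nat_lit 276) (nat_lit 5) (nat_lit 401) (nat_lit 386) (nat_lit 233)) (XT.lf (nat_lit 0) (nat_lit 13740721699) (nat_lit 380) (nat_lit 14096489734) (nat_lit 456) (nat_lit 30153009677) (nat_lit 270) (nat_lit 5) (nat_lit 275) (nat_lit 5) (nat_lit 276) (nat_lit 5) (nat_lit 402) (nat_lit 386) (nat_lit 232))) (XT.nd (nat_lit 78) (nat_lit 304) (nat_lit 0) (XT.lf (nat_lit 0) (nat_lit 36216209325) (nat_lit 456) (nat_lit 11871897778)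 (nat_lit 76) (nat_lit 11519430913) (nat_lit 270) (nat_lit 5) (nat_lit 276) (nat_lit 5) (nat_lit 271) (nat_lit 5) (nat_lit 403) (nat_lit 386) (nat_lit 231)) (XT.lf (nat_lit 0) (nat_lit 22615723618) (nat_lit 304) (nat_lit 22981181116) (nat_lit 380) (nat_lit 15679678652) (nat_lit 266) (nat_lit 5) (nat_lit 270) (nat_lit 5) (nat_lit 271) (nat_lit 5) (nat_lit 404) (nat_lit 386) (nat_lit 230))))) (XT.nd (nat_lit 312) (nat_lit 912) (nat_lit 0) (XT.nd (nat_lit 156) (nat_lit 304) (nat_lit 0) (XT.nd (nat_lit 78) (nat_lit 380) (nat_lit 0) (XT.lf (nat_lit 0) (nat_lit 55702378953) (nat_lit 380) (nat_lit 3836876259) (nat_lit 76) (nat_lit 3477038611) (nat_lit 266) (nat_lit 5) (nat_lit 271) (nat_lit 5) (nat_lit 267) (nat_lit 5) (nat_lit 405) (nat_lit 386) (nat_lit 229)) (XT.lf (nat_lit 0) (nat_lit 2334976065) (nat_lit 380) (nat_lit 31416165444) (nat_lit 76) (nat_lit 31045105998) (nat_lit 261) (nat_lit 5) (nat_lit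 266) (nat_lit 5) (nat_lit 262) (nat_lit 5) (nat_lit 406) (nat_lit 386) (nat_lit 228))) (XT.nd (nat_lit 78) (nat_lit 0) (nat_lit 0) (XT.lf (nat_lit 0) (nat_lit 5998578118) (nat_lit 304) (nat_lit 6380324990) (nat_lit 380) (nat_lit 54272381402) (nat_lit 257) (nat_lit 5) (nat_lit 261) (nat_lit 5) (nat_lit 262) (nat_lit 5) (nat_lit 407) (nat_lit 386) (nat_lit 227)) (XT.lf (nat_lit 0) (nat_lit 23813604968) (nat_lit 380) (nat_lit 22557150866) (nat_lit 76) (nat_lit 22183888606) (nat_lit 257) (nat_lit 5) (nat_lit 262) (nat_lit 5) (nat_lit 258) (nat_lit 5) (nat_lit 408) (nat_lit 386) (nat_lit 226)))) (XT.nd (nat_lit 156) (nat_lit 608) (nat_lit 0) (XT.nd (nat_lit 78) (nat_lit 0) (nat_lit 0) (XT.lf (nat_lit 0) (nat_lit 17910277356) (nat_lit 304) (nat_lit 18292771817) (nat_lit 380) (nat_lit 34330972832) (nat_lit 253) (nat_lit 5) (nat_lit 257) (nat_lit 5) (nat_lit 258) (nat_lit 5) (nat_lit 409) (nat_lit 386)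 (nat_lit 225)) (XT.lf (nat_lit 0) (nat_lit 49773748786) (nat_lit 380) (nat_lit 11591592409) (nat_lit 76) (nat_lit 11218938092) (nat_lit 253) (nat_lit 5) (nat_lit 258) (nat_lit 5) (nat_lit 254) (nat_lit 5) (nat_lit 410) (nat_lit 386) (nat_lit 224))) (XT.nd (nat_lit 78) (nat_lit 380) (nat_lit 0) (XT.lf (nat_lit 0) (nat_lit 32222090089) (nat_lit 228) (nat_lit 32602719528) (nat_lit 304) (nat_lit 9872148505) (nat_lit 250) (nat_lit 5) (nat_lit 253) (nat_lit 5) (nat_lit 254) (nat_lit 5) (nat_lit 411) (nat_lit 386) (nat_lit 223)) (XT.lf (nat_lit 0) (nat_lit 1715638715) (nat_lit 304) (nat_lit 2103863508) (nat_lit 380) (nat_lit 73081610353) (nat_lit 245) (nat_lit 5) (nat_lit 249) (nat_lit 5) (nat_lit 250) (nat_lit 5) (nat_lit 412) (nat_lit 386) (nat_lit 222)))))) (XT.nd (nat_lit 624) (nat_lit 988) (nat_lit 0) (XT.nd (nat_lit 312) (nat_lit 532) (nat_lit 0) (XT.nd (nat_lit 156) (nat_lit 228) (nat_lit 0) (XT.nd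 (nat_lit 78) (nat_lit 228) (nat_lit 0) (XT.lf (nat_lit 0) (nat_lit 19061129481) (nat_lit 380) (nat_lit 30231511155) (nat_lit 76) (nat_lit 29854884047) (nat_lit 245) (nat_lit 5) (nat_lit 250) (nat_lit 5) (nat_lit 246) (nat_lit 5) (nat_lit 413) (nat_lit 386) (nat_lit 221)) (XT.lf (nat_lit 0) (nat_lit 17494113917) (nat_lit 228) (nat_lit 17877302178) (nat_lit 304) (nat_lit 46119512400) (nat_lit 242) (nat_lit 5) (nat_lit 245) (nat_lit 5) (nat_lit 246) (nat_lit 5) (nat_lit 414) (nat_lit 386) (nat_lit 220))) (XT.nd (nat_lit 78) (nat_lit 228) (nat_lit 0) (XT.lf (nat_lit 0) (nat_lit 53252463056) (nat_lit 304) (nat_lit 15516084751) (nat_lit 76) (nat_lit 15145192391) (nat_lit 242) (nat_lit 5) (nat_lit 246) (nat_lit 5) (nat_lit 243) (nat_lit 5) (nat_lit 415) (nat_lit 386) (nat_lit 219)) (XT.lf (nat_lit 0) (nat_lit 36254566830) (nat_lit 228) (nat_lit 36631126960) (nat_lit 304) (nat_lit 13529092125) (nat_lit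 239) (nat_lit 5) (nat_lit 242) (nat_lit 5) (nat_lit 243) (nat_lit 5) (nat_lit 416) (nat_lit 386) (nat_lit 218)))) (XT.nd (nat_lit 156) (nat_lit 228) (nat_lit 0) (XT.nd (nat_lit 78) (nat_lit 0) (nat_lit 0) (XT.lf (nat_lit 0) (nat_lit 2117087102) (nat_lit 228) (nat_lit 2499045109) (nat_lit 304) (nat_lit 84406311863) (nat_lit 235) (nat_lit 5) (nat_lit 238) (nat_lit 5) (nat_lit 239) (nat_lit 5) (nat_lit 417) (nat_lit 386) (nat_lit 217)) (XT.lf (nat_lit 0) (nat_lit 24596941834) (nat_lit 304) (nat_lit 33725984970) (nat_lit 76) (nat_lit 33357319406) (nat_lit 235) (nat_lit 5) (nat_lit 239) (nat_lit 5) (nat_lit 236) (nat_lit 5) (nat_lit 418) (nat_lit 386) (nat_lit 216))) (XT.nd (nat_lit 78) (nat_lit 0) (nat_lit 0) (XT.lf (nat_lit 0) (nat_lit 22799748006) (nat_lit 228) (nat_lit 23173076459) (nat_lit 304) (nat_lit 48478312360) (nat_lit 232) (nat_lit 5) (nat_lit 235) (nat_lit 5) (nat_lit 236) (nat_lit 5) (nat_lit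 419) (nat_lit 386) (nat_lit 215)) (XT.lf (nat_lit 0) (nat_lit 69211572048) (nat_lit 304) (nat_lit 14234538333) (nat_lit 76) (nat_lit 13874758048) (nat_lit 232) (nat_lit 5) (nat_lit 236) (nat_lit 5) (nat_lit 233) (nat_lit 5) (nat_lit 420) (nat_lit 386) (nat_lit 214))))) (XT.nd (nat_lit 312) (nat_lit 380) (nat_lit 0) (XT.nd (nat_lit 156) (nat_lit 152) (nat_lit 0) (XT.nd (nat_lit 78) (nat_lit 304) (nat_lit 0) (XT.lf (nat_lit 0) (nat_lit 47182066519) (nat_lit 152) (nat_lit 47545874782) (nat_lit 228) (nat_lit 5550361099) (nat_lit 230) (nat_lit 5) (nat_lit 232) (nat_lit 5) (nat_lit 233) (nat_lit 5) (nat_lit 421) (nat_lit 386) (nat_lit 213)) (XT.lf (nat_lit 0) (nat_lit 8784865824) (nat_lit 228) (nat_lit 9152510257) (nat_lit 304) (nat_lit 85413007038) (nat_lit 226) (nat_lit 5) (nat_lit 229) (nat_lit 5) (nat_lit 230) (nat_lit 5) (nat_lit 422) (nat_lit 386) (nat_lit 212))) (XT.nd (nat_lit 78) (nat_lit 152)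 (nat_lit 0) (XT.lf (nat_lit 0) (nat_lit 43812598216) (nat_lit 304) (nat_lit 31521277963) (nat_lit 76) (nat_lit 31167660889) (nat_lit 226) (nat_lit 5) (nat_lit 230) (nat_lit 5) (nat_lit 227) (nat_lit 5) (nat_lit 423) (nat_lit 386) (nat_lit 211)) (XT.lf (nat_lit 0) (nat_lit 35665369724) (nat_lit 152) (nat_lit 36022300627) (nat_lit 228) (nat_lit 38087273917) (nat_lit 224) (nat_lit 5) (nat_lit 226) (nat_lit 5) (nat_lit 227) (nat_lit 5) (nat_lit 424) (nat_lit 386) (nat_lit 210)))) (XT.nd (nat_lit 156) (nat_lit 152) (nat_lit 0) (XT.nd (nat_lit 78) (nat_lit 228) (nat_lit 0) (XT.lf (nat_lit 0) (nat_lit 101580340185) (nat_lit 228) (nat_lit 5971714686) (nat_lit 76) (nat_lit 5628774753) (nat_lit 224) (nat_lit 5) (nat_lit 227) (nat_lit 5) (nat_lit 225) (nat_lit 5) (nat_lit 425) (nat_lit 386) (nat_lit 209)) (XT.lf (nat_lit 0) (nat_lit 17356516618) (nat_lit 228) (nat_lit 49825202153) (nat_lit 76) (nat_lit 49479399611)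 (nat_lit 221) (nat_lit 5) (nat_lit 224) (nat_lit 5) (nat_lit 222) (nat_lit 5) (nat_lit 426) (nat_lit 386) (nat_lit 208))) (XT.nd (nat_lit 78) (nat_lit 0) (nat_lit 0) (XT.lf (nat_lit 0) (nat_lit 23747909109) (nat_lit 152) (nat_lit 24096437946) (nat_lit 228) (nat_lit 72437924595) (nat_lit 219) (nat_lit 5) (nat_lit 221) (nat_lit 5) (nat_lit 222) (nat_lit 5) (nat_lit 427) (nat_lit 386) (nat_lit 207)) (XT.lf (nat_lit 0) (nat_lit 81043590973) (nat_lit 228) (nat_lit 21657972783) (nat_lit 76) (nat_lit 21323567728) (nat_lit 219) (nat_lit 5) (nat_lit 222) (nat_lit 5) (nat_lit 220) (nat_lit 5) (nat_lit 428) (nat_lit 386) (nat_lit 206))))))))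
noncomputable def xc256 : XT := (XT.nd (nat_lit 1248) (nat_lit 1216) (nat_lit 0) (XT.nd (nat_lit 624) (nat_lit 912) (nat_lit 0) (XT.nd (nat_lit 312) (nat_lit 304) (nat_lit 0) (XT.nd (nat_lit 156) (nat_lit 152) (nat_lit 0) (XT.nd (nat_lit 78) (nat_lit 228) (nat_lit 0) (XT.lf (nat_lit 0) (nat_lit 58436361225) (nat_lit 152) (nat_lit 58773121355) (nat_lit 228) (nat_lit 10680317454) (nat_lit 217) (nat_lit 5) (nat_lit 219) (nat_lit 5) (nat_lit 220) (nat_lit 5) (nat_lit 429) (nat_lit 386) (nat_lit 205)) (XT.lf (nat_lit 0) (nat_lit 11351302393) (nat_lit 152) (nat_lit 11690305452) (nat_lit 228) (nat_lit 108860488384) (nat_lit 214) (nat_lit 5) (nat_lit 216) (nat_lit 5) (nat_lit 217) (nat_lit 5) (nat_lit 430) (nat_lit 386) (nat_lit 204))) (XT.nd (nat_lit 78) (nat_lit 152) (nat_lit 0) (XT.lf (nat_lit 0) (nat_lit 59874859065) (nat_lit 228) (nat_lit 38233540175) (nat_lit 76) (nat_lit 37908645715) (nat_lit 214)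 (nat_lit 5) (nat_lit 217) (nat_lit 5) (nat_lit 215) (nat_lit 5) (nat_lit 431) (nat_lit 386) (nat_lit 203)) (XT.lf (nat_lit 0) (nat_lit 49594119119) (nat_lit 152) (nat_lit 49920951105) (nat_lit 228) (nat_lit 40774406026) (nat_lit 212) (nat_lit 5) (nat_lit 214) (nat_lit 5) (nat_lit 215) (nat_lit 5) (nat_lit 432) (nat_lit 386) (nat_lit 202)))) (XT.nd (nat_lit 156) (nat_lit 152) (nat_lit 0) (XT.nd (nat_lit 78) (nat_lit 152) (nat_lit 0) (XT.lf (nat_lit 0) (nat_lit 141805318365) (nat_lit 228) (nat_lit 1624917687) (nat_lit 76) (nat_lit 1311891735) (nat_lit 212) (nat_lit 5) (nat_lit 215) (nat_lit 5) (nat_lit 213) (nat_lit 4) (nat_lit 433) (nat_lit 386) (nat_lit 201)) (XT.lf (nat_lit 0) (nat_lit 37939348547) (nat_lit 152) (nat_lit 55823913675) (nat_lit 76) (nat_lit 55509214015) (nat_lit 210) (nat_lit 5) (nat_lit 212) (nat_lit 5) (nat_lit 211) (nat_lit 5) (nat_lit 434) (nat_lit 386) (nat_lit 200))) (XT.nd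 (nat_lit 78) (nat_lit 0) (nat_lit 0) (XT.lf (nat_lit 0) (nat_lit 40552410302) (nat_lit 152) (nat_lit 40868703970) (nat_lit 228) (nat_lit 72572795821) (nat_lit 208) (nat_lit 5) (nat_lit 210) (nat_lit 5) (nat_lit 211) (nat_lit 5) (nat_lit 435) (nat_lit 386) (nat_lit 199)) (XT.lf (nat_lit 0) (nat_lit 128266314842) (nat_lit 228) (nat_lit 15464155674) (nat_lit 76) (nat_lit 15161477797) (nat_lit 208) (nat_lit 5) (nat_lit 211) (nat_lit 5) (nat_lit 209) (nat_lit 4) (nat_lit 436) (nat_lit 386) (nat_lit 198))))) (XT.nd (nat_lit 312) (nat_lit 532) (nat_lit 0) (XT.nd (nat_lit 156) (nat_lit 76) (nat_lit 0) (XT.nd (nat_lit 78) (nat_lit 152) (nat_lit 0) (XT.lf (nat_lit 0) (nat_lit 15091758619) (nat_lit 152) (nat_lit 74565795677) (nat_lit 76) (nat_lit 74261740836) (nat_lit 206) (nat_lit 5) (nat_lit 208) (nat_lit 5) (nat_lit 207) (nat_lit 5) (nat_lit 437) (nat_lit 386) (nat_lit 197)) (XT.lf (nat_lit 0) (nat_lit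 31257026658) (nat_lit 152) (nat_lit 31562392893) (nat_lit 228) (nat_lit 106315805697) (nat_lit 204) (nat_lit 5) (nat_lit 206) (nat_lit 5) (nat_lit 207) (nat_lit 5) (nat_lit 438) (nat_lit 386) (nat_lit 196))) (XT.nd (nat_lit 78) (nat_lit 76) (nat_lit 0) (XT.lf (nat_lit 0) (nat_lit 114676004787) (nat_lit 228) (nat_lit 30070417238) (nat_lit 76) (nat_lit 29778402779) (nat_lit 204) (nat_lit 5) (nat_lit 207) (nat_lit 5) (nat_lit 205) (nat_lit 4) (nat_lit 439) (nat_lit 386) (nat_lit 195)) (XT.lf (nat_lit 0) (nat_lit 85340776754) (nat_lit 76) (nat_lit 85633924045) (nat_lit 152) (nat_lit 9116739466) (nat_lit 203) (nat_lit 5) (nat_lit 204) (nat_lit 5) (nat_lit 205) (nat_lit 4) (nat_lit 440) (nat_lit 386) (nat_lit 194)))) (XT.nd (nat_lit 156) (nat_lit 304) (nat_lit 0) (XT.nd (nat_lit 78) (nat_lit 0) (nat_lit 0) (XT.lf (nat_lit 0) (nat_lit 21649829686) (nat_lit 152) (nat_lit 21944055864) (nat_lit 228) (nat_lit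 142265280247) (nat_lit 200) (nat_lit 5) (nat_lit 202) (nat_lit 5) (nat_lit 203) (nat_lit 5) (nat_lit 441) (nat_lit 386) (nat_lit 193)) (XT.lf (nat_lit 0) (nat_lit 100965563352) (nat_lit 228) (nat_lit 45553420159) (nat_lit 76) (nat_lit 45272226169) (nat_lit 200) (nat_lit 5) (nat_lit 203) (nat_lit 5) (nat_lit 201) (nat_lit 4) (nat_lit 442) (nat_lit 386) (nat_lit 192))) (XT.nd (nat_lit 78) (nat_lit 228) (nat_lit 0) (XT.lf (nat_lit 0) (nat_lit 81275935087) (nat_lit 76) (nat_lit 81558061060) (nat_lit 152) (nat_lit 35104451056) (nat_lit 199) (nat_lit 5) (nat_lit 200) (nat_lit 5) (nat_lit 201) (nat_lit 4) (nat_lit 443) (nat_lit 386) (nat_lit 191)) (XT.lf (nat_lit 0) (nat_lit 11668266985) (nat_lit 152) (nat_lit 11951280562) (nat_lit 228) (nat_lit 180706940915) (nat_lit 196) (nat_lit 5) (nat_lit 198) (nat_lit 5) (nat_lit 199) (nat_lit 5) (nat_lit 444) (nat_lit 386) (nat_lit 190)))))) (XT.nd (nat_lit 624)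 (nat_lit 608) (nat_lit 0) (XT.nd (nat_lit 312) (nat_lit 304) (nat_lit 0) (XT.nd (nat_lit 156) (nat_lit 228) (nat_lit 0) (XT.nd (nat_lit 78) (nat_lit 76) (nat_lit 0) (XT.lf (nat_lit 0) (nat_lit 87062124945) (nat_lit 228) (nat_lit 62032634294) (nat_lit 76) (nat_lit 61762292472) (nat_lit 196) (nat_lit 5) (nat_lit 199) (nat_lit 5) (nat_lit 197) (nat_lit 4) (nat_lit 445) (nat_lit 386) (nat_lit 189)) (XT.lf (nat_lit 0) (nat_lit 77404833747) (nat_lit 76) (nat_lit 77675942314) (nat_lit 152) (nat_lit 62563169822) (nat_lit 195) (nat_lit 5) (nat_lit 196) (nat_lit 5) (nat_lit 197) (nat_lit 4) (nat_lit 446) (nat_lit 386) (nat_lit 188))) (XT.nd (nat_lit 78) (nat_lit 0) (nat_lit 0) (XT.lf (nat_lit 0) (nat_lit 1244843587) (nat_lit 152) (nat_lit 1516682388) (nat_lit 228) (nat_lit 221952971773) (nat_lit 192) (nat_lit 5) (nat_lit 194) (nat_lit 5) (nat_lit 195) (nat_lit 5) (nat_lit 447) (nat_lit 386) (nat_lit 187))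 (XT.lf (nat_lit 0) (nat_lit 72888227874) (nat_lit 228) (nat_lit 79638354640) (nat_lit 76) (nat_lit 79378798201) (nat_lit 192) (nat_lit 5) (nat_lit 195) (nat_lit 5) (nat_lit 193) (nat_lit 4) (nat_lit 448) (nat_lit 386) (nat_lit 186)))) (XT.nd (nat_lit 156) (nat_lit 228) (nat_lit 0) (XT.nd (nat_lit 78) (nat_lit 0) (nat_lit 0) (XT.lf (nat_lit 0) (nat_lit 73718215722) (nat_lit 76) (nat_lit 73978402964) (nat_lit 152) (nat_lit 91700421454) (nat_lit 191) (nat_lit 5) (nat_lit 192) (nat_lit 5) (nat_lit 193) (nat_lit 4) (nat_lit 449) (nat_lit 386) (nat_lit 185)) (XT.lf (nat_lit 0) (nat_lit 227748462259) (nat_lit 152) (nat_lit 9844019074) (nat_lit 0) (nat_lit 9595649543) (nat_lit 191) (nat_lit 5) (nat_lit 193) (nat_lit 4) (nat_lit 191) (nat_lit 4) (nat_lit 450) (nat_lit 386) (nat_lit 184))) (XT.nd (nat_lit 78) (nat_lit 76) (nat_lit 0) (XT.lf (nat_lit 0) (nat_lit 58361208369) (nat_lit 152) (nat_lit 98512880469)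 (nat_lit 76) (nat_lit 98263966028) (nat_lit 189) (nat_lit 5) (nat_lit 191) (nat_lit 5) (nat_lit 190) (nat_lit 4) (nat_lit 451) (nat_lit 386) (nat_lit 183)) (XT.lf (nat_lit 0) (nat_lit 70207270358) (nat_lit 76) (nat_lit 70456703763) (nat_lit 152) (nat_lit 122742309518) (nat_lit 188) (nat_lit 5) (nat_lit 189) (nat_lit 5) (nat_lit 190) (nat_lit 4) (nat_lit 452) (nat_lit 386) (nat_lit 182))))) (XT.nd (nat_lit 312) (nat_lit 380) (nat_lit 0) (XT.nd (nat_lit 156) (nat_lit 76) (nat_lit 0) (XT.nd (nat_lit 78) (nat_lit 152) (nat_lit 0) (XT.lf (nat_lit 0) (nat_lit 229093811919) (nat_lit 152) (nat_lit 21565770790) (nat_lit 0) (nat_lit 21327744452) (nat_lit 188) (nat_lit 5) (nat_lit 190) (nat_lit 4) (nat_lit 188) (nat_lit 4) (nat_lit 453) (nat_lit 386) (nat_lit 181)) (XT.lf (nat_lit 0) (nat_lit 43392538578) (nat_lit 152) (nat_lit 118811811680) (nat_lit 76) (nat_lit 118573337042) (nat_lit 186) (nat_lit 5) (nat_lit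 188) (nat_lit 5) (nat_lit 187) (nat_lit 4) (nat_lit 454) (nat_lit 386) (nat_lit 180))) (XT.nd (nat_lit 78) (nat_lit 0) (nat_lit 0) (XT.lf (nat_lit 0) (nat_lit 66863611115) (nat_lit 76) (nat_lit 67102512706) (nat_lit 152) (nat_lit 155935546400) (nat_lit 185) (nat_lit 5) (nat_lit 186) (nat_lit 5) (nat_lit 187) (nat_lit 4) (nat_lit 455) (nat_lit 386) (nat_lit 179)) (XT.lf (nat_lit 0) (nat_lit 231624488918) (nat_lit 152) (nat_lit 33978735462) (nat_lit 0) (nat_lit 33750822879) (nat_lit 185) (nat_lit 5) (nat_lit 187) (nat_lit 4) (nat_lit 185) (nat_lit 4) (nat_lit 456) (nat_lit 386) (nat_lit 178)))) (XT.nd (nat_lit 156) (nat_lit 152) (nat_lit 0) (XT.nd (nat_lit 78) (nat_lit 76) (nat_lit 0) (XT.lf (nat_lit 0) (nat_lit 27887102564) (nat_lit 152) (nat_lit 140705474598) (nat_lit 76) (nat_lit 140477193197) (nat_lit 183) (nat_lit 5) (nat_lit 185) (nat_lit 5) (nat_lit 184) (nat_lit 4) (nat_lit 457) (nat_lit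 386) (nat_lit 177)) (XT.lf (nat_lit 0) (nat_lit 63679254570) (nat_lit 76) (nat_lit 63907887225) (nat_lit 152) (nat_lit 191549686661) (nat_lit 182) (nat_lit 5) (nat_lit 183) (nat_lit 5) (nat_lit 184) (nat_lit 4) (nat_lit 458) (nat_lit 386) (nat_lit 176))) (XT.nd (nat_lit 78) (nat_lit 152) (nat_lit 0) (XT.lf (nat_lit 0) (nat_lit 235412135873) (nat_lit 152) (nat_lit 47178084962) (nat_lit 0) (nat_lit 46960020978) (nat_lit 182) (nat_lit 5) (nat_lit 184) (nat_lit 4) (nat_lit 182) (nat_lit 4) (nat_lit 459) (nat_lit 386) (nat_lit 175)) (XT.lf (nat_lit 0) (nat_lit 11742403707) (nat_lit 152) (nat_lit 164380490721) (nat_lit 76) (nat_lit 164162123309) (nat_lit 180) (nat_lit 5) (nat_lit 182) (nat_lit 5) (nat_lit 181) (nat_lit 4) (nat_lit 460) (nat_lit 386) (nat_lit 174)))))))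
noncomputable def xc257 : XT := (XT.nd (nat_lit 1248) (nat_lit 912) (nat_lit 0) (XT.nd (nat_lit 624) (nat_lit 684) (nat_lit 0) (XT.nd (nat_lit 312) (nat_lit 228) (nat_lit 0) (XT.nd (nat_lit 156) (nat_lit 228) (nat_lit 0) (XT.nd (nat_lit 78) (nat_lit 0) (nat_lit 0) (XT.lf (nat_lit 0) (nat_lit 60646600548) (nat_lit 76) (nat_lit 60865256938) (nat_lit 152) (nat_lit 229879583775) (nat_lit 179) (nat_lit 5) (nat_lit 180) (nat_lit 5) (nat_lit 181) (nat_lit 4) (nat_lit 461) (nat_lit 386) (nat_lit 173)) (XT.lf (nat_lit 0) (nat_lit 240538108461) (nat_lit 152) (nat_lit 61267583784) (nat_lit 0) (nat_lit 61059077492) (nat_lit 179) (nat_lit 5) (nat_lit 181) (nat_lit 4) (nat_lit 179) (nat_lit 4) (nat_lit 462) (nat_lit 386) (nat_lit 172))) (XT.nd (nat_lit 78) (nat_lit 152) (nat_lit 0) (XT.lf (nat_lit 0) (nat_lit 184593186836) (nat_lit 76) (nat_lit 184801942759) (nat_lit 76) (nat_lit 5322662160) (nat_lit 178) (nat_lit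 4) (nat_lit 179) (nat_lit 5) (nat_lit 179) (nat_lit 4) (nat_lit 463) (nat_lit 386) (nat_lit 171)) (XT.lf (nat_lit 0) (nat_lit 57758413331) (nat_lit 76) (nat_lit 57967406997) (nat_lit 152) (nat_lit 271248093383) (nat_lit 176) (nat_lit 5) (nat_lit 177) (nat_lit 5) (nat_lit 178) (nat_lit 4) (nat_lit 464) (nat_lit 386) (nat_lit 170)))) (XT.nd (nat_lit 156) (nat_lit 152) (nat_lit 0) (XT.nd (nat_lit 78) (nat_lit 76) (nat_lit 0) (XT.lf (nat_lit 0) (nat_lit 247094358929) (nat_lit 152) (nat_lit 76360525903) (nat_lit 0) (nat_lit 76161268677) (nat_lit 176) (nat_lit 5) (nat_lit 178) (nat_lit 4) (nat_lit 176) (nat_lit 4) (nat_lit 465) (nat_lit 386) (nat_lit 169)) (XT.lf (nat_lit 0) (nat_lit 194408538329) (nat_lit 76) (nat_lit 194608000926) (nat_lit 76) (nat_lit 23674705303) (nat_lit 175) (nat_lit 4) (nat_lit 176) (nat_lit 5) (nat_lit 176) (nat_lit 4) (nat_lit 466) (nat_lit 386) (nat_lit 168))) (XT.nd (nat_lit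 78) (nat_lit 0) (nat_lit 0) (XT.lf (nat_lit 0) (nat_lit 55007803847) (nat_lit 76) (nat_lit 55207462036) (nat_lit 152) (nat_lit 316009048527) (nat_lit 173) (nat_lit 5) (nat_lit 174) (nat_lit 5) (nat_lit 175) (nat_lit 4) (nat_lit 467) (nat_lit 386) (nat_lit 167)) (XT.lf (nat_lit 0) (nat_lit 255184415357) (nat_lit 152) (nat_lit 92580764856) (nat_lit 0) (nat_lit 92390436792) (nat_lit 173) (nat_lit 5) (nat_lit 175) (nat_lit 4) (nat_lit 173) (nat_lit 4) (nat_lit 468) (nat_lit 386) (nat_lit 166))))) (XT.nd (nat_lit 312) (nat_lit 380) (nat_lit 0) (XT.nd (nat_lit 156) (nat_lit 76) (nat_lit 0) (XT.nd (nat_lit 78) (nat_lit 152) (nat_lit 0) (XT.lf (nat_lit 0) (nat_lit 205663617571) (nat_lit 76) (nat_lit 205854114595) (nat_lit 76) (nat_lit 43059967071) (nat_lit 172) (nat_lit 4) (nat_lit 173) (nat_lit 5) (nat_lit 173) (nat_lit 4) (nat_lit 469) (nat_lit 386) (nat_lit 165)) (XT.lf (nat_lit 0) (nat_lit 52388212795)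 (nat_lit 76) (nat_lit 52578870732) (nat_lit 152) (nat_lit 364550534982) (nat_lit 170) (nat_lit 5) (nat_lit 171) (nat_lit 5) (nat_lit 172) (nat_lit 4) (nat_lit 470) (nat_lit 386) (nat_lit 164))) (XT.nd (nat_lit 78) (nat_lit 76) (nat_lit 0) (XT.lf (nat_lit 0) (nat_lit 264924466279) (nat_lit 152) (nat_lit 110063846755) (nat_lit 0) (nat_lit 109882121813) (nat_lit 170) (nat_lit 5) (nat_lit 172) (nat_lit 4) (nat_lit 170) (nat_lit 4) (nat_lit 471) (nat_lit 386) (nat_lit 163)) (XT.lf (nat_lit 0) (nat_lit 218485335578) (nat_lit 76) (nat_lit 218667199523) (nat_lit 76) (nat_lit 63624716054) (nat_lit 169) (nat_lit 4) (nat_lit 170) (nat_lit 5) (nat_lit 170) (nat_lit 4) (nat_lit 472) (nat_lit 386) (nat_lit 162)))) (XT.nd (nat_lit 156) (nat_lit 228) (nat_lit 0) (XT.nd (nat_lit 78) (nat_lit 0) (nat_lit 0) (XT.lf (nat_lit 0) (nat_lit 49893394638) (nat_lit 76) (nat_lit 50075390967) (nat_lit 152) (nat_lit 417298497637)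 (nat_lit 167) (nat_lit 5) (nat_lit 168) (nat_lit 5) (nat_lit 169) (nat_lit 4) (nat_lit 473) (nat_lit 386) (nat_lit 161)) (XT.lf (nat_lit 0) (nat_lit 276444561243) (nat_lit 152) (nat_lit 128958256934) (nat_lit 0) (nat_lit 128784807020) (nat_lit 167) (nat_lit 5) (nat_lit 169) (nat_lit 4) (nat_lit 167) (nat_lit 4) (nat_lit 474) (nat_lit 386) (nat_lit 160))) (XT.nd (nat_lit 78) (nat_lit 152) (nat_lit 0) (XT.lf (nat_lit 0) (nat_lit 233014597534) (nat_lit 76) (nat_lit 233188161806) (nat_lit 76) (nat_lit 85528293225) (nat_lit 166) (nat_lit 4) (nat_lit 167) (nat_lit 5) (nat_lit 167) (nat_lit 4) (nat_lit 475) (nat_lit 386) (nat_lit 159)) (XT.lf (nat_lit 0) (nat_lit 47517402407) (nat_lit 76) (nat_lit 47691075592) (nat_lit 152) (nat_lit 474720712071) (nat_lit 164) (nat_lit 5) (nat_lit 165) (nat_lit 5) (nat_lit 166) (nat_lit 4) (nat_lit 476) (nat_lit 386) (nat_lit 158)))))) (XT.nd (nat_lit 624) (nat_lit 380)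 (nat_lit 0) (XT.nd (nat_lit 312) (nat_lit 304) (nat_lit 0) (XT.nd (nat_lit 156) (nat_lit 152) (nat_lit 0) (XT.nd (nat_lit 78) (nat_lit 76) (nat_lit 0) (XT.lf (nat_lit 0) (nat_lit 289889938967) (nat_lit 152) (nat_lit 149426792006) (nat_lit 0) (nat_lit 149261290186) (nat_lit 164) (nat_lit 5) (nat_lit 166) (nat_lit 4) (nat_lit 164) (nat_lit 4) (nat_lit 477) (nat_lit 386) (nat_lit 157)) (XT.lf (nat_lit 0) (nat_lit 249407689908) (nat_lit 76) (nat_lit 249573285811) (nat_lit 76) (nat_lit 108944542947) (nat_lit 163) (nat_lit 4) (nat_lit 164) (nat_lit 5) (nat_lit 164) (nat_lit 4) (nat_lit 478) (nat_lit 386) (nat_lit 156))) (XT.nd (nat_lit 78) (nat_lit 0) (nat_lit 0) (XT.lf (nat_lit 0) (nat_lit 45254573283) (nat_lit 76) (nat_lit 45420258789) (nat_lit 152) (nat_lit 537331158956) (nat_lit 161) (nat_lit 5) (nat_lit 162) (nat_lit 5) (nat_lit 163) (nat_lit 4) (nat_lit 479) (nat_lit 386) (nat_lit 155)) (XT.lf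 (nat_lit 0) (nat_lit 305422495997) (nat_lit 152) (nat_lit 171648070320) (nat_lit 0) (nat_lit 171490193327) (nat_lit 161) (nat_lit 5) (nat_lit 163) (nat_lit 4) (nat_lit 161) (nat_lit 4) (nat_lit 480) (nat_lit 386) (nat_lit 154)))) (XT.nd (nat_lit 156) (nat_lit 76) (nat_lit 0) (XT.nd (nat_lit 78) (nat_lit 152) (nat_lit 0) (XT.lf (nat_lit 0) (nat_lit 267837812067) (nat_lit 76) (nat_lit 267995766462) (nat_lit 76) (nat_lit 134063386390) (nat_lit 160) (nat_lit 4) (nat_lit 161) (nat_lit 5) (nat_lit 161) (nat_lit 4) (nat_lit 481) (nat_lit 386) (nat_lit 153)) (XT.lf (nat_lit 0) (nat_lit 43099514890) (nat_lit 76) (nat_lit 43257543001) (nat_lit 152) (nat_lit 605694842755) (nat_lit 158) (nat_lit 5) (nat_lit 159) (nat_lit 5) (nat_lit 160) (nat_lit 4) (nat_lit 482) (nat_lit 386) (nat_lit 152))) (XT.nd (nat_lit 78) (nat_lit 76) (nat_lit 0) (XT.lf (nat_lit 0) (nat_lit 323222410033) (nat_lit 152) (nat_lit 195818195102)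 (nat_lit 0) (nat_lit 195667625276) (nat_lit 158) (nat_lit 5) (nat_lit 160) (nat_lit 4) (nat_lit 158) (nat_lit 4) (nat_lit 483) (nat_lit 386) (nat_lit 151)) (XT.lf (nat_lit 0) (nat_lit 288496767065) (nat_lit 76) (nat_lit 288647400571) (nat_lit 76) (nat_lit 161092552135) (nat_lit 157) (nat_lit 4) (nat_lit 158) (nat_lit 5) (nat_lit 158) (nat_lit 4) (nat_lit 484) (nat_lit 386) (nat_lit 150))))) (XT.nd (nat_lit 45474) (nat_lit 0) (nat_lit 10640) (XT.nd (nat_lit 156) (nat_lit 228) (nat_lit 0) (XT.nd (nat_lit 78) (nat_lit 0) (nat_lit 0) (XT.lf (nat_lit 0) (nat_lit 41047092280) (nat_lit 76) (nat_lit 41197786433) (nat_lit 152) (nat_lit 680433100452) (nat_lit 155) (nat_lit 5) (nat_lit 156) (nat_lit 5) (nat_lit 157) (nat_lit 4) (nat_lit 485) (nat_lit 386) (nat_lit 149)) (XT.lf (nat_lit 0) (nat_lit 343489933625) (nat_lit 152) (nat_lit 222152586073) (nat_lit 0) (nat_lit 222009012824) (nat_lit 155) (nat_lit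 5) (nat_lit 157) (nat_lit 4) (nat_lit 155) (nat_lit 4) (nat_lit 486) (nat_lit 386) (nat_lit 148))) (XT.nd (nat_lit 78) (nat_lit 152) (nat_lit 0) (XT.lf (nat_lit 0) (nat_lit 311596827821) (nat_lit 76) (nat_lit 311740453458) (nat_lit 76) (nat_lit 190259480268) (nat_lit 154) (nat_lit 4) (nat_lit 155) (nat_lit 5) (nat_lit 155) (nat_lit 4) (nat_lit 487) (nat_lit 386) (nat_lit 147)) (XT.lf (nat_lit 0) (nat_lit 39092415562) (nat_lit 76) (nat_lit 39236091094) (nat_lit 152) (nat_lit 762229450715) (nat_lit 152) (nat_lit 5) (nat_lit 153) (nat_lit 5) (nat_lit 154) (nat_lit 4) (nat_lit 488) (nat_lit 386) (nat_lit 146)))) (XT.nd (nat_lit 156) (nat_lit 0) (nat_lit 76) (XT.nd (nat_lit 78) (nat_lit 0) (nat_lit 0) (XT.lf (nat_lit 0) (nat_lit 9176034038) (nat_lit 836) (nat_lit 5467113178) (nat_lit 836) (nat_lit 5467113178) (nat_lit 292) (nat_lit 3) (nat_lit 303) (nat_lit 3) (nat_lit 303) (nat_lit 5) (nat_lit 387)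 (nat_lit 387) (nat_lit 246)) (XT.lf (nat_lit 76) (nat_lit 9479435163) (nat_lit 0) (nat_lit 9519336203) (nat_lit 836) (nat_lit 22217867363) (nat_lit 293) (nat_lit 5) (nat_lit 292) (nat_lit 3) (nat_lit 303) (nat_lit 5) (nat_lit 388) (nat_lit 387) (nat_lit 245))) (XT.nd (nat_lit 78) (nat_lit 0) (nat_lit 0) (XT.lf (nat_lit 0) (nat_lit 20038889688) (nat_lit 760) (nat_lit 11139905647) (nat_lit 836) (nat_lit 11065713238) (nat_lit 293) (nat_lit 5) (nat_lit 303) (nat_lit 5) (nat_lit 304) (nat_lit 5) (nat_lit 389) (nat_lit 387) (nat_lit 244)) (XT.nd (nat_lit 78) (nat_lit 0) (nat_lit 76) (XT.lf (nat_lit 76) (nat_lit 10671290756) (nat_lit 0) (nat_lit 10779951183) (nat_lit 836) (nat_lit 21856518570) (nat_lit 294) (nat_lit 5) (nat_lit 293) (nat_lit 5) (nat_lit 304) (nat_lit 5) (nat_lit 390) (nat_lit 387) (nat_lit 243)) (XT.lf (nat_lit 0) (nat_lit 23289738568) (nat_lit 760) (nat_lit 10625704882) (nat_lit 836)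 (nat_lit 10490955253) (nat_lit 294) (nat_lit 5) (nat_lit 304) (nat_lit 5) (nat_lit 305) (nat_lit 5) (nat_lit 391) (nat_lit 387) (nat_lit 242))))))))
noncomputable def xc258 : XT := (XT.nd (nat_lit 2496) (nat_lit 3040) (nat_lit 0) (XT.nd (nat_lit 1248) (nat_lit 2660) (nat_lit 0) (XT.nd (nat_lit 624) (nat_lit 1444) (nat_lit 0) (XT.nd (nat_lit 312) (nat_lit 1064) (nat_lit 0) (XT.nd (nat_lit 156) (nat_lit 0) (nat_lit 76) (XT.nd (nat_lit 78) (nat_lit 0) (nat_lit 76) (XT.lf (nat_lit 76) (nat_lit 12714322726) (nat_lit 0) (nat_lit 12878847125) (nat_lit 836) (nat_lit 19948148463) (nat_lit 295) (nat_lit 5) (nat_lit 294) (nat_lit 5) (nat_lit 305) (nat_lit 5) (nat_lit 392) (nat_lit 387) (nat_lit 241)) (XT.lf (nat_lit 0) (nat_lit 28336337649) (nat_lit 760) (nat_lit 9282057255) (nat_lit 836) (nat_lit 9098360757) (nat_lit 295) (nat_lit 5) (nat_lit 305) (nat_lit 5) (nat_lit 306) (nat_lit 5) (nat_lit 393) (nat_lit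 387) (nat_lit 240))) (XT.nd (nat_lit 78) (nat_lit 0) (nat_lit 76) (XT.lf (nat_lit 76) (nat_lit 15730978673) (nat_lit 0) (nat_lit 15940395736) (nat_lit 836) (nat_lit 16256854937) (nat_lit 296) (nat_lit 5) (nat_lit 295) (nat_lit 5) (nat_lit 306) (nat_lit 5) (nat_lit 394) (nat_lit 387) (nat_lit 239)) (XT.lf (nat_lit 0) (nat_lit 35437496540) (nat_lit 760) (nat_lit 6986168816) (nat_lit 836) (nat_lit 6763394682) (nat_lit 296) (nat_lit 5) (nat_lit 306) (nat_lit 5) (nat_lit 307) (nat_lit 5) (nat_lit 395) (nat_lit 387) (nat_lit 238)))) (XT.nd (nat_lit 156) (nat_lit 1216) (nat_lit 0) (XT.nd (nat_lit 78) (nat_lit 0) (nat_lit 76) (XT.lf (nat_lit 76) (nat_lit 19858221414) (nat_lit 0) (nat_lit 20103213939) (nat_lit 836) (nat_lit 10518921382) (nat_lit 297) (nat_lit 5) (nat_lit 296) (nat_lit 5) (nat_lit 307) (nat_lit 5) (nat_lit 396) (nat_lit 387) (nat_lit 237)) (XT.lf (nat_lit 0) (nat_lit 44882085908) (nat_lit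 760) (nat_lit 3600592785) (nat_lit 76) (nat_lit 3347113834) (nat_lit 297) (nat_lit 5) (nat_lit 307) (nat_lit 5) (nat_lit 298) (nat_lit 5) (nat_lit 397) (nat_lit 387) (nat_lit 236))) (XT.nd (nat_lit 78) (nat_lit 532) (nat_lit 0) (XT.lf (nat_lit 0) (nat_lit 25249085577) (nat_lit 760) (nat_lit 25521757611) (nat_lit 836) (nat_lit 2439753212) (nat_lit 287) (nat_lit 5) (nat_lit 297) (nat_lit 5) (nat_lit 298) (nat_lit 5) (nat_lit 398) (nat_lit 387) (nat_lit 235)) (XT.lf (nat_lit 0) (nat_lit 1002601565) (nat_lit 456) (nat_lit 1293552724) (nat_lit 532) (nat_lit 52358697408) (nat_lit 280) (nat_lit 5) (nat_lit 286) (nat_lit 5) (nat_lit 287) (nat_lit 5) (nat_lit 399) (nat_lit 387) (nat_lit 234))))) (XT.nd (nat_lit 312) (nat_lit 684) (nat_lit 0) (XT.nd (nat_lit 156) (nat_lit 380) (nat_lit 0) (XT.nd (nat_lit 78) (nat_lit 380) (nat_lit 0) (XT.lf (nat_lit 0) (nat_lit 8043550014) (nat_lit 532) (nat_lit 24188305884)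 (nat_lit 76) (nat_lit 23894629836) (nat_lit 280) (nat_lit 5) (nat_lit 287) (nat_lit 5) (nat_lit 281) (nat_lit 5) (nat_lit 400) (nat_lit 387) (nat_lit 233)) (XT.lf (nat_lit 0) (nat_lit 6948504706) (nat_lit 380) (nat_lit 7257970950) (nat_lit 456) (nat_lit 43458817811) (nat_lit 275) (nat_lit 5) (nat_lit 280) (nat_lit 5) (nat_lit 281) (nat_lit 5) (nat_lit 401) (nat_lit 387) (nat_lit 232))) (XT.nd (nat_lit 78) (nat_lit 380) (nat_lit 0) (XT.lf (nat_lit 0) (nat_lit 21388512402) (nat_lit 456) (nat_lit 19083016436) (nat_lit 76) (nat_lit 18773964506) (nat_lit 275) (nat_lit 5) (nat_lit 281) (nat_lit 5) (nat_lit 276) (nat_lit 5) (nat_lit 402) (nat_lit 387) (nat_lit 231)) (XT.lf (nat_lit 0) (nat_lit 14475265049) (nat_lit 380) (nat_lit 14797957144) (nat_lit 456) (nat_lit 31614302463) (nat_lit 270) (nat_lit 5) (nat_lit 275) (nat_lit 5) (nat_lit 276) (nat_lit 5) (nat_lit 403) (nat_lit 387) (nat_lit 230)))) (XT.nd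 (nat_lit 156) (nat_lit 380) (nat_lit 0) (XT.nd (nat_lit 78) (nat_lit 304) (nat_lit 0) (XT.lf (nat_lit 0) (nat_lit 38069117507) (nat_lit 456) (nat_lit 12418195180) (nat_lit 76) (nat_lit 12098497344) (nat_lit 270) (nat_lit 5) (nat_lit 276) (nat_lit 5) (nat_lit 271) (nat_lit 5) (nat_lit 404) (nat_lit 387) (nat_lit 229)) (XT.lf (nat_lit 0) (nat_lit 23793044423) (nat_lit 304) (nat_lit 24124525147) (nat_lit 380) (nat_lit 16420802006) (nat_lit 266) (nat_lit 5) (nat_lit 270) (nat_lit 5) (nat_lit 271) (nat_lit 5) (nat_lit 405) (nat_lit 387) (nat_lit 228))) (XT.nd (nat_lit 78) (nat_lit 380) (nat_lit 0) (XT.lf (nat_lit 0) (nat_lit 58526458688) (nat_lit 380) (nat_lit 3982542571) (nat_lit 76) (nat_lit 3656159217) (nat_lit 266) (nat_lit 5) (nat_lit 271) (nat_lit 5) (nat_lit 267) (nat_lit 5) (nat_lit 406) (nat_lit 387) (nat_lit 227)) (XT.lf (nat_lit 0) (nat_lit 2490159627) (nat_lit 380) (nat_lit 32940270187)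 (nat_lit 76) (nat_lit 32603708332) (nat_lit 261) (nat_lit 5) (nat_lit 266) (nat_lit 5) (nat_lit 262) (nat_lit 5) (nat_lit 407) (nat_lit 387) (nat_lit 226)))))) (XT.nd (nat_lit 624) (nat_lit 1216) (nat_lit 0) (XT.nd (nat_lit 312) (nat_lit 836) (nat_lit 0) (XT.nd (nat_lit 156) (nat_lit 304) (nat_lit 0) (XT.nd (nat_lit 78) (nat_lit 0) (nat_lit 0) (XT.lf (nat_lit 0) (nat_lit 6344457271) (nat_lit 304) (nat_lit 6690712937) (nat_lit 380) (nat_lit 56946812431) (nat_lit 257) (nat_lit 5) (nat_lit 261) (nat_lit 5) (nat_lit 262) (nat_lit 5) (nat_lit 408) (nat_lit 387) (nat_lit 225)) (XT.lf (nat_lit 0) (nat_lit 25039958222) (nat_lit 380) (nat_lit 23639597332) (nat_lit 76) (nat_lit 23301037459) (nat_lit 257) (nat_lit 5) (nat_lit 262) (nat_lit 5) (nat_lit 258) (nat_lit 5) (nat_lit 409) (nat_lit 387) (nat_lit 224))) (XT.nd (nat_lit 78) (nat_lit 0) (nat_lit 0) (XT.lf (nat_lit 0) (nat_lit 18850469865) (nat_lit 304)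 (nat_lit 19197403616) (nat_lit 380) (nat_lit 36011116031) (nat_lit 253) (nat_lit 5) (nat_lit 257) (nat_lit 5) (nat_lit 258) (nat_lit 5) (nat_lit 410) (nat_lit 387) (nat_lit 223)) (XT.lf (nat_lit 0) (nat_lit 52295605829) (nat_lit 380) (nat_lit 12127118696) (nat_lit 76) (nat_lit 11789110246) (nat_lit 253) (nat_lit 5) (nat_lit 258) (nat_lit 5) (nat_lit 254) (nat_lit 5) (nat_lit 411) (nat_lit 387) (nat_lit 222)))) (XT.nd (nat_lit 156) (nat_lit 228) (nat_lit 0) (XT.nd (nat_lit 78) (nat_lit 380) (nat_lit 0) (XT.lf (nat_lit 0) (nat_lit 33876537389) (nat_lit 228) (nat_lit 34221779510) (nat_lit 304) (nat_lit 10331875789) (nat_lit 250) (nat_lit 5) (nat_lit 253) (nat_lit 5) (nat_lit 254) (nat_lit 5) (nat_lit 412) (nat_lit 387) (nat_lit 221)) (XT.lf (nat_lit 0) (nat_lit 1845131255) (nat_lit 304) (nat_lit 2197262587) (nat_lit 380) (nat_lit 76702178538) (nat_lit 245) (nat_lit 5) (nat_lit 249) (nat_lit 5) (nat_lit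 250) (nat_lit 5) (nat_lit 413) (nat_lit 387) (nat_lit 220))) (XT.nd (nat_lit 78) (nat_lit 228) (nat_lit 0) (XT.lf (nat_lit 0) (nat_lit 20044757999) (nat_lit 380) (nat_lit 31700113103) (nat_lit 76) (nat_lit 31358501213) (nat_lit 245) (nat_lit 5) (nat_lit 250) (nat_lit 5) (nat_lit 246) (nat_lit 5) (nat_lit 414) (nat_lit 387) (nat_lit 219)) (XT.lf (nat_lit 0) (nat_lit 18411100100) (nat_lit 228) (nat_lit 18758663149) (nat_lit 304) (nat_lit 48394222854) (nat_lit 242) (nat_lit 5) (nat_lit 245) (nat_lit 5) (nat_lit 246) (nat_lit 5) (nat_lit 415) (nat_lit 387) (nat_lit 218))))) (XT.nd (nat_lit 312) (nat_lit 684) (nat_lit 0) (XT.nd (nat_lit 156) (nat_lit 304) (nat_lit 0) (XT.nd (nat_lit 78) (nat_lit 228) (nat_lit 0) (XT.lf (nat_lit 0) (nat_lit 55943630565) (nat_lit 304) (nat_lit 16250389865) (nat_lit 76) (nat_lit 15913979561) (nat_lit 242) (nat_lit 5) (nat_lit 246) (nat_lit 5) (nat_lit 243) (nat_lit 5)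 (nat_lit 416) (nat_lit 387) (nat_lit 217)) (XT.lf (nat_lit 0) (nat_lit 38108124955) (nat_lit 228) (nat_lit 38449676093) (nat_lit 304) (nat_lit 14176333034) (nat_lit 239) (nat_lit 5) (nat_lit 242) (nat_lit 5) (nat_lit 243) (nat_lit 5) (nat_lit 417) (nat_lit 387) (nat_lit 216))) (XT.nd (nat_lit 78) (nat_lit 0) (nat_lit 0) (XT.lf (nat_lit 0) (nat_lit 2264032636) (nat_lit 228) (nat_lit 2610479808) (nat_lit 304) (nat_lit 88597675155) (nat_lit 235) (nat_lit 5) (nat_lit 238) (nat_lit 5) (nat_lit 239) (nat_lit 5) (nat_lit 418) (nat_lit 387) (nat_lit 215)) (XT.lf (nat_lit 0) (nat_lit 25853250514) (nat_lit 304) (nat_lit 35372037730) (nat_lit 76) (nat_lit 35037647196) (nat_lit 235) (nat_lit 5) (nat_lit 239) (nat_lit 5) (nat_lit 236) (nat_lit 5) (nat_lit 419) (nat_lit 387) (nat_lit 214)))) (XT.nd (nat_lit 156) (nat_lit 456) (nat_lit 0) (XT.nd (nat_lit 78) (nat_lit 0) (nat_lit 0) (XT.lf (nat_lit 0) (nat_lit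 23979332758) (nat_lit 228) (nat_lit 24317952669) (nat_lit 304) (nat_lit 50875117252) (nat_lit 232) (nat_lit 5) (nat_lit 235) (nat_lit 5) (nat_lit 236) (nat_lit 5) (nat_lit 420) (nat_lit 387) (nat_lit 213)) (XT.lf (nat_lit 0) (nat_lit 72696945742) (nat_lit 304) (nat_lit 14907528839) (nat_lit 76) (nat_lit 14581197516) (nat_lit 232) (nat_lit 5) (nat_lit 236) (nat_lit 5) (nat_lit 233) (nat_lit 5) (nat_lit 421) (nat_lit 387) (nat_lit 212))) (XT.nd (nat_lit 78) (nat_lit 304) (nat_lit 0) (XT.lf (nat_lit 0) (nat_lit 49579281474) (nat_lit 152) (nat_lit 49909266293) (nat_lit 228) (nat_lit 5802459282) (nat_lit 230) (nat_lit 5) (nat_lit 232) (nat_lit 5) (nat_lit 233) (nat_lit 5) (nat_lit 422) (nat_lit 387) (nat_lit 211)) (XT.lf (nat_lit 0) (nat_lit 9262406513) (nat_lit 228) (nat_lit 9595870851) (nat_lit 304) (nat_lit 89658423287) (nat_lit 226) (nat_lit 5) (nat_lit 229) (nat_lit 5) (nat_lit 230) (nat_lit 5)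 (nat_lit 423) (nat_lit 387) (nat_lit 210))))))) (XT.nd (nat_lit 1248) (nat_lit 1368) (nat_lit 0) (XT.nd (nat_lit 624) (nat_lit 760) (nat_lit 0) (XT.nd (nat_lit 312) (nat_lit 532) (nat_lit 0) (XT.nd (nat_lit 156) (nat_lit 228) (nat_lit 0) (XT.nd (nat_lit 78) (nat_lit 152) (nat_lit 0) (XT.lf (nat_lit 0) (nat_lit 46026328312) (nat_lit 304) (nat_lit 33059935855) (nat_lit 76) (nat_lit 32739194744) (nat_lit 226) (nat_lit 5) (nat_lit 230) (nat_lit 5) (nat_lit 227) (nat_lit 5) (nat_lit 424) (nat_lit 387) (nat_lit 209)) (XT.lf (nat_lit 0) (nat_lit 37485440894) (nat_lit 152) (nat_lit 37809187744) (nat_lit 228) (nat_lit 39967934105) (nat_lit 224) (nat_lit 5) (nat_lit 226) (nat_lit 5) (nat_lit 227) (nat_lit 5) (nat_lit 425) (nat_lit 387) (nat_lit 208))) (XT.nd (nat_lit 78) (nat_lit 228) (nat_lit 0) (XT.lf (nat_lit 0) (nat_lit 106681068534) (nat_lit 228) (nat_lit 6234386816) (nat_lit 76) (nat_lit 5923330188)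 (nat_lit 224) (nat_lit 5) (nat_lit 227) (nat_lit 5) (nat_lit 225) (nat_lit 5) (nat_lit 426) (nat_lit 387) (nat_lit 207)) (XT.lf (nat_lit 0) (nat_lit 18245919602) (nat_lit 228) (nat_lit 52280414470) (nat_lit 76) (nat_lit 51966761371) (nat_lit 221) (nat_lit 5) (nat_lit 224) (nat_lit 5) (nat_lit 222) (nat_lit 5) (nat_lit 427) (nat_lit 387) (nat_lit 206)))) (XT.nd (nat_lit 156) (nat_lit 380) (nat_lit 0) (XT.nd (nat_lit 78) (nat_lit 0) (nat_lit 0) (XT.lf (nat_lit 0) (nat_lit 24970770939) (nat_lit 152) (nat_lit 25286896868) (nat_lit 228) (nat_lit 76037662255) (nat_lit 219) (nat_lit 5) (nat_lit 221) (nat_lit 5) (nat_lit 222) (nat_lit 5) (nat_lit 428) (nat_lit 387) (nat_lit 205)) (XT.lf (nat_lit 0) (nat_lit 85116082565) (nat_lit 228) (nat_lit 22706302566) (nat_lit 76) (nat_lit 22402987324) (nat_lit 219) (nat_lit 5) (nat_lit 222) (nat_lit 5) (nat_lit 220) (nat_lit 5) (nat_lit 429) (nat_lit 387) (nat_lit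 204))) (XT.nd (nat_lit 78) (nat_lit 228) (nat_lit 0) (XT.lf (nat_lit 0) (nat_lit 61392190580) (nat_lit 152) (nat_lit 61697641945) (nat_lit 228) (nat_lit 11193463721) (nat_lit 217) (nat_lit 5) (nat_lit 219) (nat_lit 5) (nat_lit 220) (nat_lit 5) (nat_lit 430) (nat_lit 387) (nat_lit 203)) (XT.lf (nat_lit 0) (nat_lit 11952987421) (nat_lit 152) (nat_lit 12260473189) (nat_lit 228) (nat_lit 114282751812) (nat_lit 214) (nat_lit 5) (nat_lit 216) (nat_lit 5) (nat_lit 217) (nat_lit 5) (nat_lit 431) (nat_lit 387) (nat_lit 202))))) (XT.nd (nat_lit 312) (nat_lit 456) (nat_lit 0) (XT.nd (nat_lit 156) (nat_lit 152) (nat_lit 0) (XT.nd (nat_lit 78) (nat_lit 152) (nat_lit 0) (XT.lf (nat_lit 0) (nat_lit 62887646187) (nat_lit 228) (nat_lit 40111993830) (nat_lit 76) (nat_lit 39817304978) (nat_lit 214) (nat_lit 5) (nat_lit 217) (nat_lit 5) (nat_lit 215) (nat_lit 5) (nat_lit 432) (nat_lit 387) (nat_lit 201)) (XT.lf (nat_lit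 0) (nat_lit 52106512568) (nat_lit 152) (nat_lit 52402958814) (nat_lit 228) (nat_lit 42793546297) (nat_lit 212) (nat_lit 5) (nat_lit 214) (nat_lit 5) (nat_lit 215) (nat_lit 5) (nat_lit 433) (nat_lit 387) (nat_lit 200))) (XT.nd (nat_lit 78) (nat_lit 152) (nat_lit 0) (XT.lf (nat_lit 0) (nat_lit 148913552711) (nat_lit 228) (nat_lit 1674353405) (nat_lit 76) (nat_lit 1390429639) (nat_lit 212) (nat_lit 5) (nat_lit 215) (nat_lit 5) (nat_lit 213) (nat_lit 4) (nat_lit 434) (nat_lit 387) (nat_lit 199)) (XT.lf (nat_lit 0) (nat_lit 39854205945) (nat_lit 152) (nat_lit 58583220737) (nat_lit 76) (nat_lit 58297778868) (nat_lit 210) (nat_lit 5) (nat_lit 212) (nat_lit 5) (nat_lit 211) (nat_lit 5) (nat_lit 435) (nat_lit 387) (nat_lit 198)))) (XT.nd (nat_lit 156) (nat_lit 304) (nat_lit 0) (XT.nd (nat_lit 78) (nat_lit 0) (nat_lit 0) (XT.lf (nat_lit 0) (nat_lit 42611405106) (nat_lit 152) (nat_lit 42898292787) (nat_lit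 228) (nat_lit 76183031308) (nat_lit 208) (nat_lit 5) (nat_lit 210) (nat_lit 5) (nat_lit 211) (nat_lit 5) (nat_lit 436) (nat_lit 387) (nat_lit 197)) (XT.lf (nat_lit 0) (nat_lit 134696529717) (nat_lit 228) (nat_lit 16206854406) (nat_lit 76) (nat_lit 15932316649) (nat_lit 208) (nat_lit 5) (nat_lit 211) (nat_lit 5) (nat_lit 209) (nat_lit 4) (nat_lit 437) (nat_lit 387) (nat_lit 196))) (XT.nd (nat_lit 78) (nat_lit 152) (nat_lit 0) (XT.lf (nat_lit 0) (nat_lit 15863181137) (nat_lit 152) (nat_lit 78263511863) (nat_lit 76) (nat_lit 77987725160) (nat_lit 206) (nat_lit 5) (nat_lit 208) (nat_lit 5) (nat_lit 207) (nat_lit 5) (nat_lit 438) (nat_lit 387) (nat_lit 195)) (XT.lf (nat_lit 0) (nat_lit 32849958466) (nat_lit 152) (nat_lit 33126934642) (nat_lit 228) (nat_lit 111614268273) (nat_lit 204) (nat_lit 5) (nat_lit 206) (nat_lit 5) (nat_lit 207) (nat_lit 5) (nat_lit 439) (nat_lit 387) (nat_lit 194)))))) (XT.nd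 (nat_lit 624) (nat_lit 684) (nat_lit 0) (XT.nd (nat_lit 312) (nat_lit 380) (nat_lit 0) (XT.nd (nat_lit 156) (nat_lit 228) (nat_lit 0) (XT.nd (nat_lit 78) (nat_lit 76) (nat_lit 0) (XT.lf (nat_lit 0) (nat_lit 120425723664) (nat_lit 228) (nat_lit 31544706086) (nat_lit 76) (nat_lit 31279840363) (nat_lit 204) (nat_lit 5) (nat_lit 207) (nat_lit 5) (nat_lit 205) (nat_lit 4) (nat_lit 440) (nat_lit 387) (nat_lit 193)) (XT.lf (nat_lit 0) (nat_lit 89636576122) (nat_lit 76) (nat_lit 89902469356) (nat_lit 152) (nat_lit 9556186318) (nat_lit 203) (nat_lit 5) (nat_lit 204) (nat_lit 5) (nat_lit 205) (nat_lit 4) (nat_lit 441) (nat_lit 387) (nat_lit 192))) (XT.nd (nat_lit 78) (nat_lit 0) (nat_lit 0) (XT.lf (nat_lit 0) (nat_lit 22761133946) (nat_lit 152) (nat_lit 23028005763) (nat_lit 228) (nat_lit 149362206384) (nat_lit 200) (nat_lit 5) (nat_lit 202) (nat_lit 5) (nat_lit 203) (nat_lit 5) (nat_lit 442) (nat_lit 387)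 (nat_lit 191)) (XT.lf (nat_lit 0) (nat_lit 106028857516) (nat_lit 228) (nat_lit 47803106543) (nat_lit 76) (nat_lit 47548055305) (nat_lit 200) (nat_lit 5) (nat_lit 203) (nat_lit 5) (nat_lit 201) (nat_lit 4) (nat_lit 443) (nat_lit 387) (nat_lit 190)))) (XT.nd (nat_lit 156) (nat_lit 76) (nat_lit 0) (XT.nd (nat_lit 78) (nat_lit 228) (nat_lit 0) (XT.lf (nat_lit 0) (nat_lit 85367265100) (nat_lit 76) (nat_lit 85623161675) (nat_lit 152) (nat_lit 36844206247) (nat_lit 199) (nat_lit 5) (nat_lit 200) (nat_lit 5) (nat_lit 201) (nat_lit 4) (nat_lit 444) (nat_lit 387) (nat_lit 189)) (XT.lf (nat_lit 0) (nat_lit 12279256576) (nat_lit 152) (nat_lit 12535958233) (nat_lit 228) (nat_lit 189726863582) (nat_lit 196) (nat_lit 5) (nat_lit 198) (nat_lit 5) (nat_lit 199) (nat_lit 5) (nat_lit 445) (nat_lit 387) (nat_lit 188))) (XT.nd (nat_lit 78) (nat_lit 76) (nat_lit 0) (XT.lf (nat_lit 0) (nat_lit 91429413171) (nat_lit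 228) (nat_lit 65107495015) (nat_lit 76) (nat_lit 64862287013) (nat_lit 196) (nat_lit 5) (nat_lit 199) (nat_lit 5) (nat_lit 197) (nat_lit 4) (nat_lit 446) (nat_lit 387) (nat_lit 187)) (XT.lf (nat_lit 0) (nat_lit 81301414638) (nat_lit 76) (nat_lit 81547318100) (nat_lit 152) (nat_lit 65676714545) (nat_lit 195) (nat_lit 5) (nat_lit 196) (nat_lit 5) (nat_lit 197) (nat_lit 4) (nat_lit 447) (nat_lit 387) (nat_lit 186))))) (XT.nd (nat_lit 312) (nat_lit 380) (nat_lit 0) (XT.nd (nat_lit 156) (nat_lit 76) (nat_lit 0) (XT.nd (nat_lit 78) (nat_lit 0) (nat_lit 0) (XT.lf (nat_lit 0) (nat_lit 1333460332) (nat_lit 152) (nat_lit 1580026138) (nat_lit 228) (nat_lit 233036041955) (nat_lit 192) (nat_lit 5) (nat_lit 194) (nat_lit 5) (nat_lit 195) (nat_lit 5) (nat_lit 448) (nat_lit 387) (nat_lit 185)) (XT.lf (nat_lit 0) (nat_lit 76546048036) (nat_lit 228) (nat_lit 83594678309) (nat_lit 76) (nat_lit 83359252968) (nat_lit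 192) (nat_lit 5) (nat_lit 195) (nat_lit 5) (nat_lit 193) (nat_lit 4) (nat_lit 449) (nat_lit 387) (nat_lit 184))) (XT.nd (nat_lit 78) (nat_lit 0) (nat_lit 0) (XT.lf (nat_lit 0) (nat_lit 77429307764) (nat_lit 76) (nat_lit 77665305262) (nat_lit 152) (nat_lit 96271620951) (nat_lit 191) (nat_lit 5) (nat_lit 192) (nat_lit 5) (nat_lit 193) (nat_lit 4) (nat_lit 450) (nat_lit 387) (nat_lit 183)) (XT.lf (nat_lit 0) (nat_lit 239148600646) (nat_lit 152) (nat_lit 10311789748) (nat_lit 0) (nat_lit 10086511262) (nat_lit 191) (nat_lit 5) (nat_lit 193) (nat_lit 4) (nat_lit 191) (nat_lit 4) (nat_lit 451) (nat_lit 387) (nat_lit 182)))) (XT.nd (nat_lit 156) (nat_lit 152) (nat_lit 0) (XT.nd (nat_lit 78) (nat_lit 76) (nat_lit 0) (XT.lf (nat_lit 0) (nat_lit 61291958518) (nat_lit 152) (nat_lit 103414068671) (nat_lit 76) (nat_lit 103188295934) (nat_lit 189) (nat_lit 5) (nat_lit 191) (nat_lit 5) (nat_lit 190) (nat_lit 4)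 (nat_lit 452) (nat_lit 387) (nat_lit 181)) (XT.lf (nat_lit 0) (nat_lit 73741695249) (nat_lit 76) (nat_lit 73967938700) (nat_lit 152) (nat_lit 128866340815) (nat_lit 188) (nat_lit 5) (nat_lit 189) (nat_lit 5) (nat_lit 190) (nat_lit 4) (nat_lit 453) (nat_lit 387) (nat_lit 180))) (XT.nd (nat_lit 78) (nat_lit 152) (nat_lit 0) (XT.lf (nat_lit 0) (nat_lit 240560542740) (nat_lit 152) (nat_lit 22620722837) (nat_lit 0) (nat_lit 22404825931) (nat_lit 188) (nat_lit 5) (nat_lit 190) (nat_lit 4) (nat_lit 188) (nat_lit 4) (nat_lit 454) (nat_lit 387) (nat_lit 179)) (XT.lf (nat_lit 0) (nat_lit 45574184717) (nat_lit 152) (nat_lit 124729044757) (nat_lit 76) (nat_lit 124512741230) (nat_lit 186) (nat_lit 5) (nat_lit 188) (nat_lit 5) (nat_lit 187) (nat_lit 4) (nat_lit 455) (nat_lit 387) (nat_lit 178))))))))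
noncomputable def xc259 : XT := (XT.nd (nat_lit 1248) (nat_lit 1140) (nat_lit 0) (XT.nd (nat_lit 624) (nat_lit 684) (nat_lit 0) (XT.nd (nat_lit 312) (nat_lit 228) (nat_lit 0) (XT.nd (nat_lit 156) (nat_lit 228) (nat_lit 0) (XT.nd (nat_lit 78) (nat_lit 0) (nat_lit 0) (XT.lf (nat_lit 0) (nat_lit 70229772444) (nat_lit 76) (nat_lit 70446463229) (nat_lit 152) (nat_lit 163719927776) (nat_lit 185) (nat_lit 5) (nat_lit 186) (nat_lit 5) (nat_lit 187) (nat_lit 4) (nat_lit 456) (nat_lit 387) (nat_lit 177)) (XT.lf (nat_lit 0) (nat_lit 243217123017) (nat_lit 152) (nat_lit 35655389777) (nat_lit 0) (nat_lit 35448666346) (nat_lit 185) (nat_lit 5) (nat_lit 187) (nat_lit 4) (nat_lit 185) (nat_lit 4) (nat_lit 457) (nat_lit 387) (nat_lit 176))) (XT.nd (nat_lit 78) (nat_lit 76) (nat_lit 0) (XT.lf (nat_lit 0) (nat_lit 29292850057) (nat_lit 152) (nat_lit 147718448581) (nat_lit 76) (nat_lit 147511390621) (nat_lit 183)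 (nat_lit 5) (nat_lit 185) (nat_lit 5) (nat_lit 184) (nat_lit 4) (nat_lit 458) (nat_lit 387) (nat_lit 175)) (XT.lf (nat_lit 0) (nat_lit 66885157372) (nat_lit 76) (nat_lit 67092533930) (nat_lit 152) (nat_lit 201115418956) (nat_lit 182) (nat_lit 5) (nat_lit 183) (nat_lit 5) (nat_lit 184) (nat_lit 4) (nat_lit 459) (nat_lit 387) (nat_lit 174)))) (XT.nd (nat_lit 156) (nat_lit 76) (nat_lit 0) (XT.nd (nat_lit 78) (nat_lit 152) (nat_lit 0) (XT.lf (nat_lit 0) (nat_lit 247193561922) (nat_lit 152) (nat_lit 49515720740) (nat_lit 0) (nat_lit 49317930278) (nat_lit 182) (nat_lit 5) (nat_lit 184) (nat_lit 4) (nat_lit 182) (nat_lit 4) (nat_lit 460) (nat_lit 387) (nat_lit 173)) (XT.lf (nat_lit 0) (nat_lit 12340328925) (nat_lit 152) (nat_lit 172578232564) (nat_lit 76) (nat_lit 172380166884) (nat_lit 180) (nat_lit 5) (nat_lit 182) (nat_lit 5) (nat_lit 181) (nat_lit 4) (nat_lit 461) (nat_lit 387) (nat_lit 172))) (XT.nd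 (nat_lit 78) (nat_lit 0) (nat_lit 0) (XT.lf (nat_lit 0) (nat_lit 63699870000) (nat_lit 76) (nat_lit 63898197791) (nat_lit 152) (nat_lit 241362414663) (nat_lit 179) (nat_lit 5) (nat_lit 180) (nat_lit 5) (nat_lit 181) (nat_lit 4) (nat_lit 462) (nat_lit 387) (nat_lit 171)) (XT.lf (nat_lit 0) (nat_lit 252575279203) (nat_lit 152) (nat_lit 64310668554) (nat_lit 0) (nat_lit 64121547201) (nat_lit 179) (nat_lit 5) (nat_lit 181) (nat_lit 4) (nat_lit 179) (nat_lit 4) (nat_lit 463) (nat_lit 387) (nat_lit 170))))) (XT.nd (nat_lit 312) (nat_lit 380) (nat_lit 0) (XT.nd (nat_lit 156) (nat_lit 76) (nat_lit 0) (XT.nd (nat_lit 78) (nat_lit 152) (nat_lit 0) (XT.lf (nat_lit 0) (nat_lit 193842813268) (nat_lit 76) (nat_lit 194032161044) (nat_lit 76) (nat_lit 5578202619) (nat_lit 178) (nat_lit 4) (nat_lit 179) (nat_lit 5) (nat_lit 179) (nat_lit 4) (nat_lit 464) (nat_lit 387) (nat_lit 169)) (XT.lf (nat_lit 0) (nat_lit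 60666312600) (nat_lit 76) (nat_lit 60855876016) (nat_lit 152) (nat_lit 284799916917) (nat_lit 176) (nat_lit 5) (nat_lit 177) (nat_lit 5) (nat_lit 178) (nat_lit 4) (nat_lit 465) (nat_lit 387) (nat_lit 168))) (XT.nd (nat_lit 78) (nat_lit 76) (nat_lit 0) (XT.lf (nat_lit 0) (nat_lit 259458821503) (nat_lit 152) (nat_lit 80159192314) (nat_lit 0) (nat_lit 79978460136) (nat_lit 176) (nat_lit 5) (nat_lit 178) (nat_lit 4) (nat_lit 176) (nat_lit 4) (nat_lit 466) (nat_lit 387) (nat_lit 167)) (XT.lf (nat_lit 0) (nat_lit 204148012874) (nat_lit 76) (nat_lit 204328931329) (nat_lit 76) (nat_lit 24848383684) (nat_lit 175) (nat_lit 4) (nat_lit 176) (nat_lit 5) (nat_lit 176) (nat_lit 4) (nat_lit 467) (nat_lit 387) (nat_lit 166)))) (XT.nd (nat_lit 156) (nat_lit 228) (nat_lit 0) (XT.nd (nat_lit 78) (nat_lit 0) (nat_lit 0) (XT.lf (nat_lit 0) (nat_lit 57777251139) (nat_lit 76) (nat_lit 57958347002) (nat_lit 152) (nat_lit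 331799453541) (nat_lit 173) (nat_lit 5) (nat_lit 174) (nat_lit 5) (nat_lit 175) (nat_lit 4) (nat_lit 468) (nat_lit 387) (nat_lit 165)) (XT.lf (nat_lit 0) (nat_lit 267952890506) (nat_lit 152) (nat_lit 97191338897) (nat_lit 0) (nat_lit 97018705733) (nat_lit 173) (nat_lit 5) (nat_lit 175) (nat_lit 4) (nat_lit 173) (nat_lit 4) (nat_lit 469) (nat_lit 387) (nat_lit 164))) (XT.nd (nat_lit 78) (nat_lit 152) (nat_lit 0) (XT.lf (nat_lit 0) (nat_lit 215964964842) (nat_lit 76) (nat_lit 216137751258) (nat_lit 76) (nat_lit 45203413233) (nat_lit 172) (nat_lit 4) (nat_lit 173) (nat_lit 5) (nat_lit 173) (nat_lit 4) (nat_lit 470) (nat_lit 387) (nat_lit 163)) (XT.lf (nat_lit 0) (nat_lit 55025797619) (nat_lit 76) (nat_lit 55198729989) (nat_lit 152) (nat_lit 382768517332) (nat_lit 170) (nat_lit 5) (nat_lit 171) (nat_lit 5) (nat_lit 172) (nat_lit 4) (nat_lit 471) (nat_lit 387) (nat_lit 162)))))) (XT.nd (nat_lit 624)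 (nat_lit 608) (nat_lit 0) (XT.nd (nat_lit 312) (nat_lit 304) (nat_lit 0) (XT.nd (nat_lit 156) (nat_lit 152) (nat_lit 0) (XT.nd (nat_lit 78) (nat_lit 76) (nat_lit 0) (XT.lf (nat_lit 0) (nat_lit 278179481722) (nat_lit 152) (nat_lit 115549432570) (nat_lit 0) (nat_lit 115384602691) (nat_lit 170) (nat_lit 5) (nat_lit 172) (nat_lit 4) (nat_lit 170) (nat_lit 4) (nat_lit 472) (nat_lit 387) (nat_lit 161)) (XT.lf (nat_lit 0) (nat_lit 229426924903) (nat_lit 76) (nat_lit 229591880863) (nat_lit 76) (nat_lit 66796875752) (nat_lit 169) (nat_lit 4) (nat_lit 170) (nat_lit 5) (nat_lit 170) (nat_lit 4) (nat_lit 473) (nat_lit 387) (nat_lit 160))) (XT.nd (nat_lit 78) (nat_lit 0) (nat_lit 0) (XT.lf (nat_lit 0) (nat_lit 52405393327) (nat_lit 76) (nat_lit 52570469362) (nat_lit 152) (nat_lit 438154352825) (nat_lit 167) (nat_lit 5) (nat_lit 168) (nat_lit 5) (nat_lit 169) (nat_lit 4) (nat_lit 474) (nat_lit 387) (nat_lit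 159)) (XT.lf (nat_lit 0) (nat_lit 290275145016) (nat_lit 152) (nat_lit 135389383920) (nat_lit 0) (nat_lit 135232059735) (nat_lit 167) (nat_lit 5) (nat_lit 169) (nat_lit 4) (nat_lit 167) (nat_lit 4) (nat_lit 475) (nat_lit 387) (nat_lit 158)))) (XT.nd (nat_lit 156) (nat_lit 76) (nat_lit 0) (XT.nd (nat_lit 78) (nat_lit 152) (nat_lit 0) (XT.lf (nat_lit 0) (nat_lit 244681842532) (nat_lit 76) (nat_lit 244839270443) (nat_lit 76) (nat_lit 89796081435) (nat_lit 166) (nat_lit 4) (nat_lit 167) (nat_lit 5) (nat_lit 167) (nat_lit 4) (nat_lit 476) (nat_lit 387) (nat_lit 157)) (XT.lf (nat_lit 0) (nat_lit 49909792923) (nat_lit 76) (nat_lit 50067319622) (nat_lit 152) (nat_lit 498448126497) (nat_lit 164) (nat_lit 5) (nat_lit 165) (nat_lit 5) (nat_lit 166) (nat_lit 4) (nat_lit 477) (nat_lit 387) (nat_lit 156))) (XT.nd (nat_lit 78) (nat_lit 76) (nat_lit 0) (XT.lf (nat_lit 0) (nat_lit 304392379138) (nat_lit 152) (nat_lit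 156882130474) (nat_lit 0) (nat_lit 156732015444) (nat_lit 164) (nat_lit 5) (nat_lit 166) (nat_lit 4) (nat_lit 164) (nat_lit 4) (nat_lit 478) (nat_lit 387) (nat_lit 155)) (XT.lf (nat_lit 0) (nat_lit 261893817453) (nat_lit 76) (nat_lit 262044017819) (nat_lit 76) (nat_lit 114383568789) (nat_lit 163) (nat_lit 4) (nat_lit 164) (nat_lit 5) (nat_lit 164) (nat_lit 4) (nat_lit 479) (nat_lit 387) (nat_lit 154))))) (XT.nd (nat_lit 312) (nat_lit 228) (nat_lit 0) (XT.nd (nat_lit 156) (nat_lit 228) (nat_lit 0) (XT.nd (nat_lit 78) (nat_lit 0) (nat_lit 0) (XT.lf (nat_lit 0) (nat_lit 47533049336) (nat_lit 76) (nat_lit 47683330974) (nat_lit 152) (nat_lit 564189519938) (nat_lit 161) (nat_lit 5) (nat_lit 162) (nat_lit 5) (nat_lit 163) (nat_lit 4) (nat_lit 480) (nat_lit 387) (nat_lit 153)) (XT.lf (nat_lit 0) (nat_lit 320701173760) (nat_lit 152) (nat_lit 180215222652) (nat_lit 0) (nat_lit 180072023566) (nat_lit 161)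 (nat_lit 5) (nat_lit 163) (nat_lit 4) (nat_lit 161) (nat_lit 4) (nat_lit 481) (nat_lit 387) (nat_lit 152))) (XT.nd (nat_lit 78) (nat_lit 152) (nat_lit 0) (XT.lf (nat_lit 0) (nat_lit 281244707867) (nat_lit 76) (nat_lit 281387977160) (nat_lit 76) (nat_lit 140758756759) (nat_lit 160) (nat_lit 4) (nat_lit 161) (nat_lit 5) (nat_lit 161) (nat_lit 4) (nat_lit 482) (nat_lit 387) (nat_lit 151)) (XT.lf (nat_lit 0) (nat_lit 45269499401) (nat_lit 76) (nat_lit 45412835557) (nat_lit 152) (nat_lit 635971789512) (nat_lit 158) (nat_lit 5) (nat_lit 159) (nat_lit 5) (nat_lit 160) (nat_lit 4) (nat_lit 483) (nat_lit 387) (nat_lit 150)))) (XT.nd (nat_lit 156) (nat_lit 152) (nat_lit 0) (XT.nd (nat_lit 78) (nat_lit 76) (nat_lit 0) (XT.lf (nat_lit 0) (nat_lit 339390713952) (nat_lit 152) (nat_lit 205594570040) (nat_lit 0) (nat_lit 205457998769) (nat_lit 158) (nat_lit 5) (nat_lit 160) (nat_lit 4) (nat_lit 158) (nat_lit 4)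 (nat_lit 484) (nat_lit 387) (nat_lit 149)) (XT.lf (nat_lit 0) (nat_lit 302935905804) (nat_lit 76) (nat_lit 303072534834) (nat_lit 76) (nat_lit 169139761891) (nat_lit 157) (nat_lit 4) (nat_lit 158) (nat_lit 5) (nat_lit 158) (nat_lit 4) (nat_lit 485) (nat_lit 387) (nat_lit 148))) (XT.nd (nat_lit 78) (nat_lit 0) (nat_lit 0) (XT.lf (nat_lit 0) (nat_lit 43113750216) (nat_lit 76) (nat_lit 43250434255) (nat_lit 152) (nat_lit 714447340561) (nat_lit 155) (nat_lit 5) (nat_lit 156) (nat_lit 5) (nat_lit 157) (nat_lit 4) (nat_lit 486) (nat_lit 387) (nat_lit 147)) (XT.lf (nat_lit 0) (nat_lit 360671263528) (nat_lit 152) (nat_lit 233246364564) (nat_lit 0) (nat_lit 233116139395) (nat_lit 155) (nat_lit 5) (nat_lit 157) (nat_lit 4) (nat_lit 155) (nat_lit 4) (nat_lit 487) (nat_lit 387) (nat_lit 146)))))))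
noncomputable def xc260 : XT := (XT.nd (nat_lit 46488) (nat_lit 0) (nat_lit 6156) (XT.nd (nat_lit 45864) (nat_lit 0) (nat_lit 9196) (XT.nd (nat_lit 45552) (nat_lit 0) (nat_lit 10564) (XT.nd (nat_lit 45396) (nat_lit 0) (nat_lit 10488) (XT.nd (nat_lit 45318) (nat_lit 0) (nat_lit 10488) (XT.lf (nat_lit 0) (nat_lit 327190296624) (nat_lit 76) (nat_lit 327320569311) (nat_lit 76) (nat_lit 199765397660) (nat_lit 154) (nat_lit 4) (nat_lit 155) (nat_lit 5) (nat_lit 155) (nat_lit 4) (nat_lit 488) (nat_lit 387) (nat_lit 145)) (XT.lf (nat_lit 0) (nat_lit 9674113812) (nat_lit 836) (nat_lit 5719847849) (nat_lit 836) (nat_lit 5719847849) (nat_lit 292) (nat_lit 3) (nat_lit 303) (nat_lit 3) (nat_lit 303) (nat_lit 5) (nat_lit 388) (nat_lit 388) (nat_lit 244))) (XT.nd (nat_lit 78) (nat_lit 0) (nat_lit 76) (XT.lf (nat_lit 76) (nat_lit 9993983704) (nat_lit 0) (nat_lit 10030175123) (nat_lit 836) (nat_lit 23249539393)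 (nat_lit 293) (nat_lit 5) (nat_lit 292) (nat_lit 3) (nat_lit 303) (nat_lit 5) (nat_lit 389) (nat_lit 388) (nat_lit 243)) (XT.lf (nat_lit 0) (nat_lit 21112171736) (nat_lit 760) (nat_lit 11654145044) (nat_lit 836) (nat_lit 11586850343) (nat_lit 293) (nat_lit 5) (nat_lit 303) (nat_lit 5) (nat_lit 304) (nat_lit 5) (nat_lit 390) (nat_lit 388) (nat_lit 242)))) (XT.nd (nat_lit 156) (nat_lit 0) (nat_lit 76) (XT.nd (nat_lit 78) (nat_lit 0) (nat_lit 76) (XT.lf (nat_lit 76) (nat_lit 11246921567) (nat_lit 0) (nat_lit 11345479777) (nat_lit 836) (nat_lit 22877317324) (nat_lit 294) (nat_lit 5) (nat_lit 293) (nat_lit 5) (nat_lit 304) (nat_lit 5) (nat_lit 391) (nat_lit 388) (nat_lit 241)) (XT.lf (nat_lit 0) (nat_lit 24519161768) (nat_lit 760) (nat_lit 11113265971) (nat_lit 836) (nat_lit 10991044085) (nat_lit 294) (nat_lit 5) (nat_lit 304) (nat_lit 5) (nat_lit 305) (nat_lit 5) (nat_lit 392) (nat_lit 388) (nat_lit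 240))) (XT.nd (nat_lit 78) (nat_lit 0) (nat_lit 76) (XT.lf (nat_lit 76) (nat_lit 13393057789) (nat_lit 0) (nat_lit 13542286269) (nat_lit 836) (nat_lit 20879914386) (nat_lit 295) (nat_lit 5) (nat_lit 294) (nat_lit 5) (nat_lit 305) (nat_lit 5) (nat_lit 393) (nat_lit 388) (nat_lit 239)) (XT.lf (nat_lit 0) (nat_lit 29812403403) (nat_lit 760) (nat_lit 9701922868) (nat_lit 836) (nat_lit 9535304729) (nat_lit 295) (nat_lit 5) (nat_lit 305) (nat_lit 5) (nat_lit 306) (nat_lit 5) (nat_lit 394) (nat_lit 388) (nat_lit 238))))) (XT.nd (nat_lit 312) (nat_lit 1520) (nat_lit 0) (XT.nd (nat_lit 156) (nat_lit 0) (nat_lit 76) (XT.nd (nat_lit 78) (nat_lit 0) (nat_lit 76) (XT.lf (nat_lit 76) (nat_lit 16561051352) (nat_lit 0) (nat_lit 16750998802) (nat_lit 836) (nat_lit 17009735308) (nat_lit 296) (nat_lit 5) (nat_lit 295) (nat_lit 5) (nat_lit 306) (nat_lit 5) (nat_lit 395) (nat_lit 388) (nat_lit 237)) (XT.lf (nat_lit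 0) (nat_lit 37263557034) (nat_lit 760) (nat_lit 7291104714) (nat_lit 836) (nat_lit 7089042007) (nat_lit 296) (nat_lit 5) (nat_lit 306) (nat_lit 5) (nat_lit 307) (nat_lit 5) (nat_lit 396) (nat_lit 388) (nat_lit 236))) (XT.nd (nat_lit 78) (nat_lit 0) (nat_lit 76) (XT.lf (nat_lit 76) (nat_lit 20894789341) (nat_lit 0) (nat_lit 21117004783) (nat_lit 836) (nat_lit 10989966097) (nat_lit 297) (nat_lit 5) (nat_lit 296) (nat_lit 5) (nat_lit 307) (nat_lit 5) (nat_lit 397) (nat_lit 388) (nat_lit 235)) (XT.lf (nat_lit 0) (nat_lit 47175859025) (nat_lit 760) (nat_lit 3736426284) (nat_lit 76) (nat_lit 3506513404) (nat_lit 297) (nat_lit 5) (nat_lit 307) (nat_lit 5) (nat_lit 298) (nat_lit 5) (nat_lit 398) (nat_lit 388) (nat_lit 234)))) (XT.nd (nat_lit 156) (nat_lit 380) (nat_lit 0) (XT.nd (nat_lit 78) (nat_lit 532) (nat_lit 0) (XT.lf (nat_lit 0) (nat_lit 26555023156) (nat_lit 760) (nat_lit 26802344728) (nat_lit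 836) (nat_lit 2511359210) (nat_lit 287) (nat_lit 5) (nat_lit 297) (nat_lit 5) (nat_lit 298) (nat_lit 5) (nat_lit 399) (nat_lit 388) (nat_lit 233)) (XT.lf (nat_lit 0) (nat_lit 1097100119) (nat_lit 456) (nat_lit 1361001397) (nat_lit 532) (nat_lit 54927135791) (nat_lit 280) (nat_lit 5) (nat_lit 286) (nat_lit 5) (nat_lit 287) (nat_lit 5) (nat_lit 400) (nat_lit 388) (nat_lit 232))) (XT.nd (nat_lit 78) (nat_lit 380) (nat_lit 0) (XT.lf (nat_lit 0) (nat_lit 8490581084) (nat_lit 532) (nat_lit 25353179546) (nat_lit 76) (nat_lit 25086806713) (nat_lit 280) (nat_lit 5) (nat_lit 287) (nat_lit 5) (nat_lit 281) (nat_lit 5) (nat_lit 401) (nat_lit 388) (nat_lit 231)) (XT.lf (nat_lit 0) (nat_lit 7339753160) (nat_lit 380) (nat_lit 7620448166) (nat_lit 456) (nat_lit 45586186719) (nat_lit 275) (nat_lit 5) (nat_lit 280) (nat_lit 5) (nat_lit 281) (nat_lit 5) (nat_lit 402) (nat_lit 388) (nat_lit 230)))))) (XT.nd (nat_lit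 624) (nat_lit 1672) (nat_lit 0) (XT.nd (nat_lit 312) (nat_lit 684) (nat_lit 0) (XT.nd (nat_lit 156) (nat_lit 304) (nat_lit 0) (XT.nd (nat_lit 78) (nat_lit 380) (nat_lit 0) (XT.lf (nat_lit 0) (nat_lit 22499279419) (nat_lit 456) (nat_lit 19993370367) (nat_lit 76) (nat_lit 19713051156) (nat_lit 275) (nat_lit 5) (nat_lit 281) (nat_lit 5) (nat_lit 276) (nat_lit 5) (nat_lit 403) (nat_lit 388) (nat_lit 229)) (XT.lf (nat_lit 0) (nat_lit 15242118791) (nat_lit 380) (nat_lit 15534810033) (nat_lit 456) (nat_lit 33152969789) (nat_lit 270) (nat_lit 5) (nat_lit 275) (nat_lit 5) (nat_lit 276) (nat_lit 5) (nat_lit 404) (nat_lit 388) (nat_lit 228))) (XT.nd (nat_lit 78) (nat_lit 304) (nat_lit 0) (XT.lf (nat_lit 0) (nat_lit 40010757251) (nat_lit 456) (nat_lit 12996204725) (nat_lit 76) (nat_lit 12706229363) (nat_lit 270) (nat_lit 5) (nat_lit 276) (nat_lit 5) (nat_lit 271) (nat_lit 5) (nat_lit 405) (nat_lit 388) (nat_lit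 227)) (XT.lf (nat_lit 0) (nat_lit 25024904919) (nat_lit 304) (nat_lit 25325567708) (nat_lit 380) (nat_lit 17202966298) (nat_lit 266) (nat_lit 5) (nat_lit 270) (nat_lit 5) (nat_lit 271) (nat_lit 5) (nat_lit 406) (nat_lit 388) (nat_lit 226)))) (XT.nd (nat_lit 156) (nat_lit 304) (nat_lit 0) (XT.nd (nat_lit 78) (nat_lit 380) (nat_lit 0) (XT.lf (nat_lit 0) (nat_lit 61488120204) (nat_lit 380) (nat_lit 4139785345) (nat_lit 76) (nat_lit 3843746021) (nat_lit 266) (nat_lit 5) (nat_lit 271) (nat_lit 5) (nat_lit 267) (nat_lit 5) (nat_lit 407) (nat_lit 388) (nat_lit 225)) (XT.lf (nat_lit 0) (nat_lit 2649529067) (nat_lit 380) (nat_lit 34544922218) (nat_lit 76) (nat_lit 34239650694) (nat_lit 261) (nat_lit 5) (nat_lit 266) (nat_lit 5) (nat_lit 262) (nat_lit 5) (nat_lit 408) (nat_lit 388) (nat_lit 224))) (XT.nd (nat_lit 78) (nat_lit 0) (nat_lit 0) (XT.lf (nat_lit 0) (nat_lit 6703358363) (nat_lit 304) (nat_lit 7017422459)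 (nat_lit 380) (nat_lit 59758608344) (nat_lit 257) (nat_lit 5) (nat_lit 261) (nat_lit 5) (nat_lit 262) (nat_lit 5) (nat_lit 409) (nat_lit 388) (nat_lit 223)) (XT.lf (nat_lit 0) (nat_lit 26324312600) (nat_lit 380) (nat_lit 24780388012) (nat_lit 76) (nat_lit 24473304227) (nat_lit 257) (nat_lit 5) (nat_lit 262) (nat_lit 5) (nat_lit 258) (nat_lit 5) (nat_lit 410) (nat_lit 388) (nat_lit 222))))) (XT.nd (nat_lit 312) (nat_lit 760) (nat_lit 0) (XT.nd (nat_lit 156) (nat_lit 608) (nat_lit 0) (XT.nd (nat_lit 78) (nat_lit 0) (nat_lit 0) (XT.lf (nat_lit 0) (nat_lit 19833518203) (nat_lit 304) (nat_lit 20148197342) (nat_lit 380) (nat_lit 37778651023) (nat_lit 253) (nat_lit 5) (nat_lit 257) (nat_lit 5) (nat_lit 258) (nat_lit 5) (nat_lit 411) (nat_lit 388) (nat_lit 221)) (XT.lf (nat_lit 0) (nat_lit 54940471929) (nat_lit 380) (nat_lit 12693516960) (nat_lit 76) (nat_lit 12386933331) (nat_lit 253) (nat_lit 5) (nat_lit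 258) (nat_lit 5) (nat_lit 254) (nat_lit 5) (nat_lit 412) (nat_lit 388) (nat_lit 220))) (XT.nd (nat_lit 78) (nat_lit 380) (nat_lit 0) (XT.lf (nat_lit 0) (nat_lit 35609677451) (nat_lit 228) (nat_lit 35922822232) (nat_lit 304) (nat_lit 10817739291) (nat_lit 250) (nat_lit 5) (nat_lit 253) (nat_lit 5) (nat_lit 254) (nat_lit 5) (nat_lit 413) (nat_lit 388) (nat_lit 219)) (XT.lf (nat_lit 0) (nat_lit 1977034624) (nat_lit 304) (nat_lit 2296428123) (nat_lit 380) (nat_lit 80506890791) (nat_lit 245) (nat_lit 5) (nat_lit 249) (nat_lit 5) (nat_lit 250) (nat_lit 5) (nat_lit 414) (nat_lit 388) (nat_lit 218)))) (XT.nd (nat_lit 156) (nat_lit 532) (nat_lit 0) (XT.nd (nat_lit 78) (nat_lit 228) (nat_lit 0) (XT.lf (nat_lit 0) (nat_lit 21074725644) (nat_lit 380) (nat_lit 33246140427) (nat_lit 76) (nat_lit 32936288373) (nat_lit 245) (nat_lit 5) (nat_lit 250) (nat_lit 5) (nat_lit 246) (nat_lit 5) (nat_lit 415) (nat_lit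 388) (nat_lit 217)) (XT.lf (nat_lit 0) (nat_lit 19370004754) (nat_lit 228) (nat_lit 19685254685) (nat_lit 304) (nat_lit 50785575569) (nat_lit 242) (nat_lit 5) (nat_lit 245) (nat_lit 5) (nat_lit 246) (nat_lit 5) (nat_lit 416) (nat_lit 388) (nat_lit 216))) (XT.nd (nat_lit 78) (nat_lit 532) (nat_lit 0) (XT.lf (nat_lit 0) (nat_lit 58766702665) (nat_lit 304) (nat_lit 17025268430) (nat_lit 76) (nat_lit 16720134367) (nat_lit 242) (nat_lit 5) (nat_lit 246) (nat_lit 5) (nat_lit 243) (nat_lit 5) (nat_lit 417) (nat_lit 388) (nat_lit 215)) (XT.nd (nat_lit 78) (nat_lit 304) (nat_lit 0) (XT.lf (nat_lit 0) (nat_lit 40050565019) (nat_lit 228) (nat_lit 40360361971) (nat_lit 304) (nat_lit 14858652002) (nat_lit 239) (nat_lit 5) (nat_lit 242) (nat_lit 5) (nat_lit 243) (nat_lit 5) (nat_lit 418) (nat_lit 388) (nat_lit 214)) (XT.lf (nat_lit 0) (nat_lit 2414505177) (nat_lit 228) (nat_lit 2728742975) (nat_lit 304) (nat_lit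 93001298321) (nat_lit 235) (nat_lit 5) (nat_lit 238) (nat_lit 5) (nat_lit 239) (nat_lit 5) (nat_lit 419) (nat_lit 388) (nat_lit 213))))))))
noncomputable def xc261 : XT := (XT.nd (nat_lit 2496) (nat_lit 2356) (nat_lit 0) (XT.nd (nat_lit 1248) (nat_lit 1596) (nat_lit 0) (XT.nd (nat_lit 624) (nat_lit 912) (nat_lit 0) (XT.nd (nat_lit 312) (nat_lit 456) (nat_lit 0) (XT.nd (nat_lit 156) (nat_lit 152) (nat_lit 0) (XT.nd (nat_lit 78) (nat_lit 228) (nat_lit 0) (XT.lf (nat_lit 0) (nat_lit 27169914481) (nat_lit 304) (nat_lit 37104134866) (nat_lit 76) (nat_lit 36800832794) (nat_lit 235) (nat_lit 5) (nat_lit 239) (nat_lit 5) (nat_lit 236) (nat_lit 5) (nat_lit 420) (nat_lit 388) (nat_lit 212)) (XT.lf (nat_lit 0) (nat_lit 25214215360) (nat_lit 228) (nat_lit 25521353602) (nat_lit 304) (nat_lit 53394282888) (nat_lit 232) (nat_lit 5) (nat_lit 235) (nat_lit 5) (nat_lit 236) (nat_lit 5) (nat_lit 421) (nat_lit 388)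 (nat_lit 211))) (XT.nd (nat_lit 78) (nat_lit 152) (nat_lit 0) (XT.lf (nat_lit 0) (nat_lit 76354282907) (nat_lit 304) (nat_lit 15617770215) (nat_lit 76) (nat_lit 15321778085) (nat_lit 232) (nat_lit 5) (nat_lit 236) (nat_lit 5) (nat_lit 233) (nat_lit 5) (nat_lit 422) (nat_lit 388) (nat_lit 210)) (XT.lf (nat_lit 0) (nat_lit 52092813919) (nat_lit 152) (nat_lit 52392119878) (nat_lit 228) (nat_lit 6069525673) (nat_lit 230) (nat_lit 5) (nat_lit 232) (nat_lit 5) (nat_lit 233) (nat_lit 5) (nat_lit 423) (nat_lit 388) (nat_lit 209)))) (XT.nd (nat_lit 156) (nat_lit 152) (nat_lit 0) (XT.nd (nat_lit 78) (nat_lit 0) (nat_lit 0) (XT.lf (nat_lit 0) (nat_lit 9760263707) (nat_lit 228) (nat_lit 10062725692) (nat_lit 304) (nat_lit 94118456376) (nat_lit 226) (nat_lit 5) (nat_lit 229) (nat_lit 5) (nat_lit 230) (nat_lit 5) (nat_lit 424) (nat_lit 388) (nat_lit 208)) (XT.lf (nat_lit 0) (nat_lit 48348597276) (nat_lit 304)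 (nat_lit 34679004298) (nat_lit 76) (nat_lit 34388082655) (nat_lit 226) (nat_lit 5) (nat_lit 230) (nat_lit 5) (nat_lit 227) (nat_lit 5) (nat_lit 425) (nat_lit 388) (nat_lit 207))) (XT.nd (nat_lit 78) (nat_lit 0) (nat_lit 0) (XT.lf (nat_lit 0) (nat_lit 39393094057) (nat_lit 152) (nat_lit 39686741994) (nat_lit 228) (nat_lit 41944831030) (nat_lit 224) (nat_lit 5) (nat_lit 226) (nat_lit 5) (nat_lit 227) (nat_lit 5) (nat_lit 426) (nat_lit 388) (nat_lit 206)) (XT.lf (nat_lit 0) (nat_lit 112034814787) (nat_lit 228) (nat_lit 6513531459) (nat_lit 76) (nat_lit 6231393928) (nat_lit 224) (nat_lit 5) (nat_lit 227) (nat_lit 5) (nat_lit 225) (nat_lit 5) (nat_lit 427) (nat_lit 388) (nat_lit 205))))) (XT.nd (nat_lit 312) (nat_lit 380) (nat_lit 0) (XT.nd (nat_lit 156) (nat_lit 152) (nat_lit 0) (XT.nd (nat_lit 78) (nat_lit 152) (nat_lit 0) (XT.lf (nat_lit 0) (nat_lit 19177786697) (nat_lit 228) (nat_lit 54861738785)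 (nat_lit 76) (nat_lit 54577246178) (nat_lit 221) (nat_lit 5) (nat_lit 224) (nat_lit 5) (nat_lit 222) (nat_lit 5) (nat_lit 428) (nat_lit 388) (nat_lit 204)) (XT.lf (nat_lit 0) (nat_lit 26251478534) (nat_lit 152) (nat_lit 26538214070) (nat_lit 228) (nat_lit 79819446892) (nat_lit 219) (nat_lit 5) (nat_lit 221) (nat_lit 5) (nat_lit 222) (nat_lit 5) (nat_lit 429) (nat_lit 388) (nat_lit 203))) (XT.nd (nat_lit 78) (nat_lit 152) (nat_lit 0) (XT.lf (nat_lit 0) (nat_lit 89390310316) (nat_lit 228) (nat_lit 23810262724) (nat_lit 76) (nat_lit 23535146858) (nat_lit 219) (nat_lit 5) (nat_lit 222) (nat_lit 5) (nat_lit 220) (nat_lit 5) (nat_lit 430) (nat_lit 388) (nat_lit 202)) (XT.lf (nat_lit 0) (nat_lit 64492649355) (nat_lit 152) (nat_lit 64769702747) (nat_lit 228) (nat_lit 11734207559) (nat_lit 217) (nat_lit 5) (nat_lit 219) (nat_lit 5) (nat_lit 220) (nat_lit 5) (nat_lit 431) (nat_lit 388) (nat_lit 201)))) (XT.nd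 (nat_lit 156) (nat_lit 152) (nat_lit 0) (XT.nd (nat_lit 78) (nat_lit 0) (nat_lit 0) (XT.lf (nat_lit 0) (nat_lit 12581584554) (nat_lit 152) (nat_lit 12860483210) (nat_lit 228) (nat_lit 119978058571) (nat_lit 214) (nat_lit 5) (nat_lit 216) (nat_lit 5) (nat_lit 217) (nat_lit 5) (nat_lit 432) (nat_lit 388) (nat_lit 200)) (XT.lf (nat_lit 0) (nat_lit 66049302119) (nat_lit 228) (nat_lit 42087458960) (nat_lit 76) (nat_lit 41820167484) (nat_lit 214) (nat_lit 5) (nat_lit 217) (nat_lit 5) (nat_lit 215) (nat_lit 5) (nat_lit 433) (nat_lit 388) (nat_lit 199))) (XT.nd (nat_lit 78) (nat_lit 0) (nat_lit 0) (XT.lf (nat_lit 0) (nat_lit 54741486717) (nat_lit 152) (nat_lit 55010372200) (nat_lit 228) (nat_lit 44915463948) (nat_lit 212) (nat_lit 5) (nat_lit 214) (nat_lit 5) (nat_lit 215) (nat_lit 5) (nat_lit 434) (nat_lit 388) (nat_lit 198)) (XT.lf (nat_lit 0) (nat_lit 156375528240) (nat_lit 228) (nat_lit 1729218317)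 (nat_lit 76) (nat_lit 1471691091) (nat_lit 212) (nat_lit 5) (nat_lit 215) (nat_lit 5) (nat_lit 213) (nat_lit 4) (nat_lit 435) (nat_lit 388) (nat_lit 197)))))) (XT.nd (nat_lit 624) (nat_lit 684) (nat_lit 0) (XT.nd (nat_lit 312) (nat_lit 456) (nat_lit 0) (XT.nd (nat_lit 156) (nat_lit 152) (nat_lit 0) (XT.nd (nat_lit 78) (nat_lit 152) (nat_lit 0) (XT.lf (nat_lit 0) (nat_lit 41863142974) (nat_lit 152) (nat_lit 61483457853) (nat_lit 76) (nat_lit 61224553664) (nat_lit 210) (nat_lit 5) (nat_lit 212) (nat_lit 5) (nat_lit 211) (nat_lit 5) (nat_lit 436) (nat_lit 388) (nat_lit 196)) (XT.lf (nat_lit 0) (nat_lit 44770432767) (nat_lit 152) (nat_lit 45030648351) (nat_lit 228) (nat_lit 79975489627) (nat_lit 208) (nat_lit 5) (nat_lit 210) (nat_lit 5) (nat_lit 211) (nat_lit 5) (nat_lit 437) (nat_lit 388) (nat_lit 195))) (XT.nd (nat_lit 78) (nat_lit 152) (nat_lit 0) (XT.lf (nat_lit 0) (nat_lit 141446684214) (nat_lit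 228) (nat_lit 16989524517) (nat_lit 76) (nat_lit 16740510679) (nat_lit 208) (nat_lit 5) (nat_lit 211) (nat_lit 5) (nat_lit 209) (nat_lit 4) (nat_lit 438) (nat_lit 388) (nat_lit 194)) (XT.lf (nat_lit 0) (nat_lit 16671609660) (nat_lit 152) (nat_lit 82148956302) (nat_lit 76) (nat_lit 81898809632) (nat_lit 206) (nat_lit 5) (nat_lit 208) (nat_lit 5) (nat_lit 207) (nat_lit 5) (nat_lit 439) (nat_lit 388) (nat_lit 193)))) (XT.nd (nat_lit 156) (nat_lit 304) (nat_lit 0) (XT.nd (nat_lit 78) (nat_lit 0) (nat_lit 0) (XT.lf (nat_lit 0) (nat_lit 34519740266) (nat_lit 152) (nat_lit 34770965824) (nat_lit 228) (nat_lit 117179264943) (nat_lit 204) (nat_lit 5) (nat_lit 206) (nat_lit 5) (nat_lit 207) (nat_lit 5) (nat_lit 440) (nat_lit 388) (nat_lit 192)) (XT.lf (nat_lit 0) (nat_lit 126461448520) (nat_lit 228) (nat_lit 33095427092) (nat_lit 76) (nat_lit 32855186073) (nat_lit 204) (nat_lit 5) (nat_lit 207) (nat_lit 5)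 (nat_lit 205) (nat_lit 4) (nat_lit 441) (nat_lit 388) (nat_lit 191))) (XT.nd (nat_lit 78) (nat_lit 228) (nat_lit 0) (XT.lf (nat_lit 0) (nat_lit 94144491577) (nat_lit 76) (nat_lit 94385664579) (nat_lit 152) (nat_lit 10019129310) (nat_lit 203) (nat_lit 5) (nat_lit 204) (nat_lit 5) (nat_lit 205) (nat_lit 4) (nat_lit 442) (nat_lit 388) (nat_lit 190)) (XT.lf (nat_lit 0) (nat_lit 23925324681) (nat_lit 152) (nat_lit 24167385285) (nat_lit 228) (nat_lit 156815497768) (nat_lit 200) (nat_lit 5) (nat_lit 202) (nat_lit 5) (nat_lit 203) (nat_lit 5) (nat_lit 443) (nat_lit 388) (nat_lit 189))))) (XT.nd (nat_lit 312) (nat_lit 380) (nat_lit 0) (XT.nd (nat_lit 156) (nat_lit 228) (nat_lit 0) (XT.nd (nat_lit 78) (nat_lit 76) (nat_lit 0) (XT.lf (nat_lit 0) (nat_lit 111343920344) (nat_lit 228) (nat_lit 50167878992) (nat_lit 76) (nat_lit 49936540000) (nat_lit 200) (nat_lit 5) (nat_lit 203) (nat_lit 5) (nat_lit 201) (nat_lit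 4) (nat_lit 444) (nat_lit 388) (nat_lit 188)) (XT.lf (nat_lit 0) (nat_lit 89660601833) (nat_lit 76) (nat_lit 89892707569) (nat_lit 152) (nat_lit 38672387207) (nat_lit 199) (nat_lit 5) (nat_lit 200) (nat_lit 5) (nat_lit 201) (nat_lit 4) (nat_lit 445) (nat_lit 388) (nat_lit 187))) (XT.nd (nat_lit 78) (nat_lit 0) (nat_lit 0) (XT.lf (nat_lit 0) (nat_lit 12918231869) (nat_lit 152) (nat_lit 13151067839) (nat_lit 228) (nat_lit 199199216395) (nat_lit 196) (nat_lit 5) (nat_lit 198) (nat_lit 5) (nat_lit 199) (nat_lit 5) (nat_lit 446) (nat_lit 388) (nat_lit 186)) (XT.lf (nat_lit 0) (nat_lit 96013747301) (nat_lit 228) (nat_lit 68338587685) (nat_lit 76) (nat_lit 68116176799) (nat_lit 196) (nat_lit 5) (nat_lit 199) (nat_lit 5) (nat_lit 197) (nat_lit 4) (nat_lit 447) (nat_lit 388) (nat_lit 185)))) (XT.nd (nat_lit 156) (nat_lit 76) (nat_lit 0) (XT.nd (nat_lit 78) (nat_lit 228) (nat_lit 0) (XT.lf (nat_lit 0) (nat_lit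 85390375804) (nat_lit 76) (nat_lit 85613417493) (nat_lit 152) (nat_lit 68947295154) (nat_lit 195) (nat_lit 5) (nat_lit 196) (nat_lit 5) (nat_lit 197) (nat_lit 4) (nat_lit 448) (nat_lit 388) (nat_lit 184)) (XT.lf (nat_lit 0) (nat_lit 1424055857) (nat_lit 152) (nat_lit 1647698311) (nat_lit 228) (nat_lit 244674621009) (nat_lit 192) (nat_lit 5) (nat_lit 194) (nat_lit 5) (nat_lit 195) (nat_lit 5) (nat_lit 449) (nat_lit 388) (nat_lit 183))) (XT.nd (nat_lit 78) (nat_lit 76) (nat_lit 0) (XT.lf (nat_lit 0) (nat_lit 80385512585) (nat_lit 228) (nat_lit 87751197655) (nat_lit 76) (nat_lit 87537659931) (nat_lit 192) (nat_lit 5) (nat_lit 195) (nat_lit 5) (nat_lit 193) (nat_lit 4) (nat_lit 450) (nat_lit 388) (nat_lit 182)) (XT.lf (nat_lit 0) (nat_lit 81323613293) (nat_lit 76) (nat_lit 81537669981) (nat_lit 152) (nat_lit 101072665423) (nat_lit 191) (nat_lit 5) (nat_lit 192) (nat_lit 5) (nat_lit 193) (nat_lit 4)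 (nat_lit 451) (nat_lit 388) (nat_lit 181))))))) (XT.nd (nat_lit 1248) (nat_lit 1216) (nat_lit 0) (XT.nd (nat_lit 624) (nat_lit 532) (nat_lit 0) (XT.nd (nat_lit 312) (nat_lit 380) (nat_lit 0) (XT.nd (nat_lit 156) (nat_lit 76) (nat_lit 0) (XT.nd (nat_lit 78) (nat_lit 152) (nat_lit 0) (XT.lf (nat_lit 0) (nat_lit 251117563806) (nat_lit 152) (nat_lit 10805220252) (nat_lit 0) (nat_lit 10600886025) (nat_lit 191) (nat_lit 5) (nat_lit 193) (nat_lit 4) (nat_lit 191) (nat_lit 4) (nat_lit 452) (nat_lit 388) (nat_lit 180)) (XT.lf (nat_lit 0) (nat_lit 64368066403) (nat_lit 152) (nat_lit 108562589952) (nat_lit 76) (nat_lit 108357807425) (nat_lit 189) (nat_lit 5) (nat_lit 191) (nat_lit 5) (nat_lit 190) (nat_lit 4) (nat_lit 453) (nat_lit 388) (nat_lit 179))) (XT.nd (nat_lit 78) (nat_lit 0) (nat_lit 0) (XT.lf (nat_lit 0) (nat_lit 77450604387) (nat_lit 76) (nat_lit 77655813866) (nat_lit 152) (nat_lit 135297790119)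 (nat_lit 188) (nat_lit 5) (nat_lit 189) (nat_lit 5) (nat_lit 190) (nat_lit 4) (nat_lit 454) (nat_lit 388) (nat_lit 178)) (XT.lf (nat_lit 0) (nat_lit 252599490715) (nat_lit 152) (nat_lit 23730592092) (nat_lit 0) (nat_lit 23534767234) (nat_lit 188) (nat_lit 5) (nat_lit 190) (nat_lit 4) (nat_lit 188) (nat_lit 4) (nat_lit 455) (nat_lit 388) (nat_lit 177)))) (XT.nd (nat_lit 156) (nat_lit 152) (nat_lit 0) (XT.nd (nat_lit 78) (nat_lit 76) (nat_lit 0) (XT.lf (nat_lit 0) (nat_lit 47863795731) (nat_lit 152) (nat_lit 130944311048) (nat_lit 76) (nat_lit 130748117372) (nat_lit 186) (nat_lit 5) (nat_lit 188) (nat_lit 5) (nat_lit 187) (nat_lit 4) (nat_lit 456) (nat_lit 388) (nat_lit 176)) (XT.lf (nat_lit 0) (nat_lit 73762105305) (nat_lit 76) (nat_lit 73958650235) (nat_lit 152) (nat_lit 171894680679) (nat_lit 185) (nat_lit 5) (nat_lit 186) (nat_lit 5) (nat_lit 187) (nat_lit 4) (nat_lit 457) (nat_lit 388) (nat_lit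 175))) (XT.nd (nat_lit 78) (nat_lit 152) (nat_lit 0) (XT.lf (nat_lit 0) (nat_lit 255388328060) (nat_lit 152) (nat_lit 37417948419) (nat_lit 0) (nat_lit 37230444173) (nat_lit 185) (nat_lit 5) (nat_lit 187) (nat_lit 4) (nat_lit 185) (nat_lit 4) (nat_lit 458) (nat_lit 388) (nat_lit 174)) (XT.lf (nat_lit 0) (nat_lit 30767825771) (nat_lit 152) (nat_lit 155084144482) (nat_lit 76) (nat_lit 154896336809) (nat_lit 183) (nat_lit 5) (nat_lit 185) (nat_lit 5) (nat_lit 184) (nat_lit 4) (nat_lit 459) (nat_lit 388) (nat_lit 173))))) (XT.nd (nat_lit 312) (nat_lit 228) (nat_lit 0) (XT.nd (nat_lit 156) (nat_lit 228) (nat_lit 0) (XT.nd (nat_lit 78) (nat_lit 0) (nat_lit 0) (XT.lf (nat_lit 0) (nat_lit 70249315534) (nat_lit 76) (nat_lit 70437412185) (nat_lit 152) (nat_lit 211160530459) (nat_lit 182) (nat_lit 5) (nat_lit 183) (nat_lit 5) (nat_lit 184) (nat_lit 4) (nat_lit 460) (nat_lit 388) (nat_lit 172)) (XT.lf (nat_lit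 0) (nat_lit 259563053401) (nat_lit 152) (nat_lit 51972215648) (nat_lit 0) (nat_lit 51792813869) (nat_lit 182) (nat_lit 5) (nat_lit 184) (nat_lit 4) (nat_lit 182) (nat_lit 4) (nat_lit 461) (nat_lit 388) (nat_lit 171))) (XT.nd (nat_lit 78) (nat_lit 76) (nat_lit 0) (XT.lf (nat_lit 0) (nat_lit 12967145853) (nat_lit 152) (nat_lit 181187840162) (nat_lit 76) (nat_lit 181008188752) (nat_lit 180) (nat_lit 5) (nat_lit 182) (nat_lit 5) (nat_lit 181) (nat_lit 4) (nat_lit 462) (nat_lit 388) (nat_lit 170)) (XT.lf (nat_lit 0) (nat_lit 66903856174) (nat_lit 76) (nat_lit 67083745327) (nat_lit 152) (nat_lit 253420423558) (nat_lit 179) (nat_lit 5) (nat_lit 180) (nat_lit 5) (nat_lit 181) (nat_lit 4) (nat_lit 463) (nat_lit 388) (nat_lit 169)))) (XT.nd (nat_lit 156) (nat_lit 152) (nat_lit 0) (XT.nd (nat_lit 78) (nat_lit 76) (nat_lit 0) (XT.lf (nat_lit 0) (nat_lit 265213354110) (nat_lit 152) (nat_lit 67507794345) (nat_lit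 0) (nat_lit 67336255703) (nat_lit 179) (nat_lit 5) (nat_lit 181) (nat_lit 4) (nat_lit 179) (nat_lit 4) (nat_lit 464) (nat_lit 388) (nat_lit 168)) (XT.lf (nat_lit 0) (nat_lit 203553064671) (nat_lit 76) (nat_lit 203724808685) (nat_lit 76) (nat_lit 5847504906) (nat_lit 178) (nat_lit 4) (nat_lit 179) (nat_lit 5) (nat_lit 179) (nat_lit 4) (nat_lit 465) (nat_lit 388) (nat_lit 167))) (XT.nd (nat_lit 78) (nat_lit 0) (nat_lit 0) (XT.lf (nat_lit 0) (nat_lit 63717749412) (nat_lit 76) (nat_lit 63889689018) (nat_lit 152) (nat_lit 299030315361) (nat_lit 176) (nat_lit 5) (nat_lit 177) (nat_lit 5) (nat_lit 178) (nat_lit 4) (nat_lit 466) (nat_lit 388) (nat_lit 166)) (XT.lf (nat_lit 0) (nat_lit 272440601244) (nat_lit 152) (nat_lit 84149591944) (nat_lit 0) (nat_lit 83985662531) (nat_lit 176) (nat_lit 5) (nat_lit 178) (nat_lit 4) (nat_lit 176) (nat_lit 4) (nat_lit 467) (nat_lit 388) (nat_lit 165)))))) (XT.nd (nat_lit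 624) (nat_lit 532) (nat_lit 0) (XT.nd (nat_lit 312) (nat_lit 380) (nat_lit 0) (XT.nd (nat_lit 156) (nat_lit 76) (nat_lit 0) (XT.nd (nat_lit 78) (nat_lit 152) (nat_lit 0) (XT.lf (nat_lit 0) (nat_lit 214372690278) (nat_lit 76) (nat_lit 214536788650) (nat_lit 76) (nat_lit 26081680978) (nat_lit 175) (nat_lit 4) (nat_lit 176) (nat_lit 5) (nat_lit 176) (nat_lit 4) (nat_lit 468) (nat_lit 388) (nat_lit 164)) (XT.lf (nat_lit 0) (nat_lit 60683399048) (nat_lit 76) (nat_lit 60847658334) (nat_lit 152) (nat_lit 348380312919) (nat_lit 173) (nat_lit 5) (nat_lit 174) (nat_lit 5) (nat_lit 175) (nat_lit 4) (nat_lit 469) (nat_lit 388) (nat_lit 163))) (XT.nd (nat_lit 78) (nat_lit 76) (nat_lit 0) (XT.lf (nat_lit 0) (nat_lit 281358929029) (nat_lit 152) (nat_lit 102034158267) (nat_lit 0) (nat_lit 101877574898) (nat_lit 173) (nat_lit 5) (nat_lit 175) (nat_lit 4) (nat_lit 173) (nat_lit 4) (nat_lit 470) (nat_lit 388) (nat_lit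 162)) (XT.lf (nat_lit 0) (nat_lit 226779690537) (nat_lit 76) (nat_lit 226936412910) (nat_lit 76) (nat_lit 47454919775) (nat_lit 172) (nat_lit 4) (nat_lit 173) (nat_lit 5) (nat_lit 173) (nat_lit 4) (nat_lit 471) (nat_lit 388) (nat_lit 161)))) (XT.nd (nat_lit 156) (nat_lit 228) (nat_lit 0) (XT.nd (nat_lit 78) (nat_lit 0) (nat_lit 0) (XT.lf (nat_lit 0) (nat_lit 57793572021) (nat_lit 76) (nat_lit 57950426778) (nat_lit 152) (nat_lit 401898286148) (nat_lit 170) (nat_lit 5) (nat_lit 171) (nat_lit 5) (nat_lit 172) (nat_lit 4) (nat_lit 472) (nat_lit 388) (nat_lit 160)) (XT.lf (nat_lit 0) (nat_lit 292096430528) (nat_lit 152) (nat_lit 121310934564) (nat_lit 0) (nat_lit 121161429005) (nat_lit 170) (nat_lit 5) (nat_lit 172) (nat_lit 4) (nat_lit 170) (nat_lit 4) (nat_lit 473) (nat_lit 388) (nat_lit 159))) (XT.nd (nat_lit 78) (nat_lit 152) (nat_lit 0) (XT.lf (nat_lit 0) (nat_lit 240913983209) (nat_lit 76) (nat_lit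 241063603126) (nat_lit 76) (nat_lit 70128487245) (nat_lit 169) (nat_lit 4) (nat_lit 170) (nat_lit 5) (nat_lit 170) (nat_lit 4) (nat_lit 474) (nat_lit 388) (nat_lit 158)) (XT.lf (nat_lit 0) (nat_lit 55041380868) (nat_lit 76) (nat_lit 55191109698) (nat_lit 152) (nat_lit 460053843986) (nat_lit 167) (nat_lit 5) (nat_lit 168) (nat_lit 5) (nat_lit 169) (nat_lit 4) (nat_lit 475) (nat_lit 388) (nat_lit 157))))) (XT.nd (nat_lit 312) (nat_lit 304) (nat_lit 0) (XT.nd (nat_lit 156) (nat_lit 152) (nat_lit 0) (XT.nd (nat_lit 78) (nat_lit 76) (nat_lit 0) (XT.lf (nat_lit 0) (nat_lit 304796481144) (nat_lit 152) (nat_lit 142143627845) (nat_lit 0) (nat_lit 142000930172) (nat_lit 167) (nat_lit 5) (nat_lit 169) (nat_lit 4) (nat_lit 167) (nat_lit 4) (nat_lit 476) (nat_lit 388) (nat_lit 156)) (XT.lf (nat_lit 0) (nat_lit 256930914360) (nat_lit 76) (nat_lit 257073706116) (nat_lit 76) (nat_lit 94278061061) (nat_lit 166)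 (nat_lit 4) (nat_lit 167) (nat_lit 5) (nat_lit 167) (nat_lit 4) (nat_lit 477) (nat_lit 388) (nat_lit 155))) (XT.nd (nat_lit 78) (nat_lit 0) (nat_lit 0) (XT.lf (nat_lit 0) (nat_lit 52420267055) (nat_lit 76) (nat_lit 52563148414) (nat_lit 152) (nat_lit 523362713161) (nat_lit 164) (nat_lit 5) (nat_lit 165) (nat_lit 5) (nat_lit 166) (nat_lit 4) (nat_lit 478) (nat_lit 388) (nat_lit 154)) (XT.lf (nat_lit 0) (nat_lit 319619202831) (nat_lit 152) (nat_lit 164711723499) (nat_lit 0) (nat_lit 164575564742) (nat_lit 164) (nat_lit 5) (nat_lit 166) (nat_lit 4) (nat_lit 164) (nat_lit 4) (nat_lit 479) (nat_lit 388) (nat_lit 153)))) (XT.nd (nat_lit 156) (nat_lit 76) (nat_lit 0) (XT.nd (nat_lit 78) (nat_lit 152) (nat_lit 0) (XT.lf (nat_lit 0) (nat_lit 275002787736) (nat_lit 76) (nat_lit 275139023895) (nat_lit 76) (nat_lit 120095308404) (nat_lit 163) (nat_lit 4) (nat_lit 164) (nat_lit 5) (nat_lit 164) (nat_lit 4)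 (nat_lit 480) (nat_lit 388) (nat_lit 152)) (XT.lf (nat_lit 0) (nat_lit 49923985149) (nat_lit 76) (nat_lit 50060295025) (nat_lit 152) (nat_lit 592391561045) (nat_lit 161) (nat_lit 5) (nat_lit 162) (nat_lit 5) (nat_lit 163) (nat_lit 4) (nat_lit 481) (nat_lit 388) (nat_lit 151))) (XT.nd (nat_lit 78) (nat_lit 76) (nat_lit 0) (XT.lf (nat_lit 0) (nat_lit 336743083208) (nat_lit 152) (nat_lit 189212150511) (nat_lit 0) (nat_lit 189082264719) (nat_lit 161) (nat_lit 5) (nat_lit 163) (nat_lit 4) (nat_lit 161) (nat_lit 4) (nat_lit 482) (nat_lit 388) (nat_lit 150)) (XT.lf (nat_lit 0) (nat_lit 295320553417) (nat_lit 76) (nat_lit 295450502888) (nat_lit 76) (nat_lit 147789620719) (nat_lit 160) (nat_lit 4) (nat_lit 161) (nat_lit 5) (nat_lit 161) (nat_lit 4) (nat_lit 483) (nat_lit 388) (nat_lit 149))))))))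
noncomputable def xc262 : XT := (XT.nd (nat_lit 46566) (nat_lit 0) (nat_lit 6840) (XT.nd (nat_lit 45942) (nat_lit 0) (nat_lit 10488) (XT.nd (nat_lit 312) (nat_lit 0) (nat_lit 0) (XT.nd (nat_lit 156) (nat_lit 228) (nat_lit 0) (XT.nd (nat_lit 78) (nat_lit 0) (nat_lit 0) (XT.lf (nat_lit 0) (nat_lit 47546587765) (nat_lit 76) (nat_lit 47676597883) (nat_lit 152) (nat_lit 667763308347) (nat_lit 158) (nat_lit 5) (nat_lit 159) (nat_lit 5) (nat_lit 160) (nat_lit 4) (nat_lit 484) (nat_lit 388) (nat_lit 148)) (XT.lf (nat_lit 0) (nat_lit 356366765221) (nat_lit 152) (nat_lit 215861115034) (nat_lit 0) (nat_lit 215737240865) (nat_lit 158) (nat_lit 5) (nat_lit 160) (nat_lit 4) (nat_lit 158) (nat_lit 4) (nat_lit 485) (nat_lit 388) (nat_lit 147))) (XT.nd (nat_lit 78) (nat_lit 152) (nat_lit 0) (XT.lf (nat_lit 0) (nat_lit 318095671965) (nat_lit 76) (nat_lit 318219598523) (nat_lit 76) (nat_lit 177590021777) (nat_lit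 157) (nat_lit 4) (nat_lit 158) (nat_lit 5) (nat_lit 158) (nat_lit 4) (nat_lit 486) (nat_lit 388) (nat_lit 146)) (XT.lf (nat_lit 0) (nat_lit 45282411262) (nat_lit 76) (nat_lit 45406387714) (nat_lit 152) (nat_lit 750162982044) (nat_lit 155) (nat_lit 5) (nat_lit 156) (nat_lit 5) (nat_lit 157) (nat_lit 4) (nat_lit 487) (nat_lit 388) (nat_lit 145)))) (XT.nd (nat_lit 45474) (nat_lit 0) (nat_lit 10412) (XT.nd (nat_lit 45396) (nat_lit 0) (nat_lit 10412) (XT.lf (nat_lit 0) (nat_lit 378711024638) (nat_lit 152) (nat_lit 244896119697) (nat_lit 0) (nat_lit 244778001630) (nat_lit 155) (nat_lit 5) (nat_lit 157) (nat_lit 4) (nat_lit 155) (nat_lit 4) (nat_lit 488) (nat_lit 388) (nat_lit 144)) (XT.lf (nat_lit 0) (nat_lit 10193445872) (nat_lit 836) (nat_lit 5987136397) (nat_lit 836) (nat_lit 5987136397) (nat_lit 292) (nat_lit 3) (nat_lit 303) (nat_lit 3) (nat_lit 303) (nat_lit 5) (nat_lit 389) (nat_lit 389) (nat_lit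 242))) (XT.nd (nat_lit 78) (nat_lit 0) (nat_lit 76) (XT.lf (nat_lit 76) (nat_lit 10530487228) (nat_lit 0) (nat_lit 10563313911) (nat_lit 836) (nat_lit 24340160274) (nat_lit 293) (nat_lit 5) (nat_lit 292) (nat_lit 3) (nat_lit 303) (nat_lit 5) (nat_lit 390) (nat_lit 389) (nat_lit 241)) (XT.lf (nat_lit 0) (nat_lit 22232485596) (nat_lit 760) (nat_lit 12198071449) (nat_lit 836) (nat_lit 12137033171) (nat_lit 293) (nat_lit 5) (nat_lit 303) (nat_lit 5) (nat_lit 304) (nat_lit 5) (nat_lit 391) (nat_lit 389) (nat_lit 240))))) (XT.nd (nat_lit 312) (nat_lit 0) (nat_lit 152) (XT.nd (nat_lit 156) (nat_lit 0) (nat_lit 76) (XT.nd (nat_lit 78) (nat_lit 0) (nat_lit 76) (XT.lf (nat_lit 76) (nat_lit 11847422996) (nat_lit 0) (nat_lit 11936818198) (nat_lit 836) (nat_lit 23955852419) (nat_lit 294) (nat_lit 5) (nat_lit 293) (nat_lit 5) (nat_lit 304) (nat_lit 5) (nat_lit 392) (nat_lit 389) (nat_lit 239)) (XT.lf (nat_lit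 0) (nat_lit 25804018969) (nat_lit 760) (nat_lit 11629270172) (nat_lit 836) (nat_lit 11518411319) (nat_lit 294) (nat_lit 5) (nat_lit 304) (nat_lit 5) (nat_lit 305) (nat_lit 5) (nat_lit 393) (nat_lit 389) (nat_lit 238))) (XT.nd (nat_lit 78) (nat_lit 0) (nat_lit 76) (XT.lf (nat_lit 76) (nat_lit 14101730114) (nat_lit 0) (nat_lit 14237084744) (nat_lit 836) (nat_lit 21864371330) (nat_lit 295) (nat_lit 5) (nat_lit 294) (nat_lit 5) (nat_lit 305) (nat_lit 5) (nat_lit 394) (nat_lit 389) (nat_lit 237)) (XT.lf (nat_lit 0) (nat_lit 31356764046) (nat_lit 760) (nat_lit 10146894522) (nat_lit 836) (nat_lit 9995766959) (nat_lit 295) (nat_lit 5) (nat_lit 305) (nat_lit 5) (nat_lit 306) (nat_lit 5) (nat_lit 395) (nat_lit 389) (nat_lit 236)))) (XT.nd (nat_lit 156) (nat_lit 0) (nat_lit 76) (XT.nd (nat_lit 78) (nat_lit 0) (nat_lit 76) (XT.lf (nat_lit 76) (nat_lit 17428581239) (nat_lit 0) (nat_lit 17600869176) (nat_lit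 836) (nat_lit 17805834432) (nat_lit 296) (nat_lit 5) (nat_lit 295) (nat_lit 5) (nat_lit 306) (nat_lit 5) (nat_lit 396) (nat_lit 389) (nat_lit 235)) (XT.lf (nat_lit 0) (nat_lit 39175882884) (nat_lit 760) (nat_lit 7615412745) (nat_lit 836) (nat_lit 7432135914) (nat_lit 296) (nat_lit 5) (nat_lit 306) (nat_lit 5) (nat_lit 307) (nat_lit 5) (nat_lit 397) (nat_lit 389) (nat_lit 234))) (XT.nd (nat_lit 78) (nat_lit 0) (nat_lit 76) (XT.lf (nat_lit 76) (nat_lit 21979126863) (nat_lit 0) (nat_lit 22180682821) (nat_lit 836) (nat_lit 11489667256) (nat_lit 297) (nat_lit 5) (nat_lit 296) (nat_lit 5) (nat_lit 307) (nat_lit 5) (nat_lit 398) (nat_lit 389) (nat_lit 233)) (XT.lf (nat_lit 0) (nat_lit 49579703062) (nat_lit 760) (nat_lit 3883160396) (nat_lit 76) (nat_lit 3674622636) (nat_lit 297) (nat_lit 5) (nat_lit 307) (nat_lit 5) (nat_lit 298) (nat_lit 5) (nat_lit 399) (nat_lit 389) (nat_lit 232)))))) (XT.nd (nat_lit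 624) (nat_lit 1596) (nat_lit 0) (XT.nd (nat_lit 312) (nat_lit 684) (nat_lit 0) (XT.nd (nat_lit 156) (nat_lit 380) (nat_lit 0) (XT.nd (nat_lit 78) (nat_lit 532) (nat_lit 0) (XT.lf (nat_lit 0) (nat_lit 27922214948) (nat_lit 760) (nat_lit 28146542904) (nat_lit 836) (nat_lit 2591229517) (nat_lit 287) (nat_lit 5) (nat_lit 297) (nat_lit 5) (nat_lit 298) (nat_lit 5) (nat_lit 400) (nat_lit 389) (nat_lit 231)) (XT.lf (nat_lit 0) (nat_lit 1192198640) (nat_lit 456) (nat_lit 1431564878) (nat_lit 532) (nat_lit 57628597808) (nat_lit 280) (nat_lit 5) (nat_lit 286) (nat_lit 5) (nat_lit 287) (nat_lit 5) (nat_lit 401) (nat_lit 389) (nat_lit 230))) (XT.nd (nat_lit 78) (nat_lit 380) (nat_lit 0) (XT.lf (nat_lit 0) (nat_lit 8955793648) (nat_lit 532) (nat_lit 26580437949) (nat_lit 76) (nat_lit 26338829938) (nat_lit 280) (nat_lit 5) (nat_lit 287) (nat_lit 5) (nat_lit 281) (nat_lit 5) (nat_lit 402) (nat_lit 389) (nat_lit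 229)) (XT.lf (nat_lit 0) (nat_lit 7746489770) (nat_lit 380) (nat_lit 8001088415) (nat_lit 456) (nat_lit 47824160923) (nat_lit 275) (nat_lit 5) (nat_lit 280) (nat_lit 5) (nat_lit 281) (nat_lit 5) (nat_lit 403) (nat_lit 389) (nat_lit 228)))) (XT.nd (nat_lit 156) (nat_lit 304) (nat_lit 0) (XT.nd (nat_lit 78) (nat_lit 380) (nat_lit 0) (XT.lf (nat_lit 0) (nat_lit 23661741255) (nat_lit 456) (nat_lit 20953313814) (nat_lit 76) (nat_lit 20699056026) (nat_lit 275) (nat_lit 5) (nat_lit 281) (nat_lit 5) (nat_lit 276) (nat_lit 5) (nat_lit 404) (nat_lit 389) (nat_lit 227)) (XT.lf (nat_lit 0) (nat_lit 16043309074) (nat_lit 380) (nat_lit 16308788660) (nat_lit 456) (nat_lit 34772479686) (nat_lit 270) (nat_lit 5) (nat_lit 275) (nat_lit 5) (nat_lit 276) (nat_lit 5) (nat_lit 405) (nat_lit 389) (nat_lit 226))) (XT.nd (nat_lit 78) (nat_lit 304) (nat_lit 0) (XT.lf (nat_lit 0) (nat_lit 42045929008) (nat_lit 456) (nat_lit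 13607103202) (nat_lit 76) (nat_lit 13344087001) (nat_lit 270) (nat_lit 5) (nat_lit 276) (nat_lit 5) (nat_lit 271) (nat_lit 5) (nat_lit 406) (nat_lit 389) (nat_lit 225)) (XT.lf (nat_lit 0) (nat_lit 26314434316) (nat_lit 304) (nat_lit 26587144328) (nat_lit 380) (nat_lit 18027853109) (nat_lit 266) (nat_lit 5) (nat_lit 270) (nat_lit 5) (nat_lit 271) (nat_lit 5) (nat_lit 407) (nat_lit 389) (nat_lit 224))))) (XT.nd (nat_lit 312) (nat_lit 912) (nat_lit 0) (XT.nd (nat_lit 156) (nat_lit 304) (nat_lit 0) (XT.nd (nat_lit 78) (nat_lit 380) (nat_lit 0) (XT.lf (nat_lit 0) (nat_lit 64594579350) (nat_lit 380) (nat_lit 4308784267) (nat_lit 76) (nat_lit 4040267874) (nat_lit 266) (nat_lit 5) (nat_lit 271) (nat_lit 5) (nat_lit 267) (nat_lit 5) (nat_lit 408) (nat_lit 389) (nat_lit 223)) (XT.lf (nat_lit 0) (nat_lit 2813625891) (nat_lit 380) (nat_lit 36233745220) (nat_lit 76) (nat_lit 35956854949) (nat_lit 261) (nat_lit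 5) (nat_lit 266) (nat_lit 5) (nat_lit 262) (nat_lit 5) (nat_lit 409) (nat_lit 389) (nat_lit 222))) (XT.nd (nat_lit 78) (nat_lit 0) (nat_lit 0) (XT.lf (nat_lit 0) (nat_lit 7076329662) (nat_lit 304) (nat_lit 7361195056) (nat_lit 380) (nat_lit 62714298663) (nat_lit 257) (nat_lit 5) (nat_lit 261) (nat_lit 5) (nat_lit 262) (nat_lit 5) (nat_lit 410) (nat_lit 389) (nat_lit 221)) (XT.lf (nat_lit 0) (nat_lit 27669876500) (nat_lit 380) (nat_lit 25982047607) (nat_lit 76) (nat_lit 25703513561) (nat_lit 257) (nat_lit 5) (nat_lit 262) (nat_lit 5) (nat_lit 258) (nat_lit 5) (nat_lit 411) (nat_lit 389) (nat_lit 220)))) (XT.nd (nat_lit 156) (nat_lit 608) (nat_lit 0) (XT.nd (nat_lit 78) (nat_lit 0) (nat_lit 0) (XT.lf (nat_lit 0) (nat_lit 20861951342) (nat_lit 304) (nat_lit 21147374597) (nat_lit 380) (nat_lit 39637632727) (nat_lit 253) (nat_lit 5) (nat_lit 257) (nat_lit 5) (nat_lit 258) (nat_lit 5) (nat_lit 412) (nat_lit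 389) (nat_lit 219)) (XT.lf (nat_lit 0) (nat_lit 57714784240) (nat_lit 380) (nat_lit 13291950022) (nat_lit 76) (nat_lit 13013869633) (nat_lit 253) (nat_lit 5) (nat_lit 258) (nat_lit 5) (nat_lit 254) (nat_lit 5) (nat_lit 413) (nat_lit 389) (nat_lit 218))) (XT.nd (nat_lit 78) (nat_lit 380) (nat_lit 0) (XT.lf (nat_lit 0) (nat_lit 37425819549) (nat_lit 228) (nat_lit 37709851096) (nat_lit 304) (nat_lit 11330752980) (nat_lit 250) (nat_lit 5) (nat_lit 253) (nat_lit 5) (nat_lit 254) (nat_lit 5) (nat_lit 414) (nat_lit 389) (nat_lit 217)) (XT.lf (nat_lit 0) (nat_lit 2111847178) (nat_lit 304) (nat_lit 2401546496) (nat_lit 380) (nat_lit 84504664652) (nat_lit 245) (nat_lit 5) (nat_lit 249) (nat_lit 5) (nat_lit 250) (nat_lit 5) (nat_lit 415) (nat_lit 389) (nat_lit 216)))))))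
noncomputable def xc263 : XT := (XT.nd (nat_lit 1248) (nat_lit 1748) (nat_lit 0) (XT.nd (nat_lit 624) (nat_lit 988) (nat_lit 0) (XT.nd (nat_lit 312) (nat_lit 532) (nat_lit 0) (XT.nd (nat_lit 156) (nat_lit 228) (nat_lit 0) (XT.nd (nat_lit 78) (nat_lit 228) (nat_lit 0) (XT.lf (nat_lit 0) (nat_lit 22153613623) (nat_lit 380) (nat_lit 34873092953) (nat_lit 76) (nat_lit 34592048006) (nat_lit 245) (nat_lit 5) (nat_lit 250) (nat_lit 5) (nat_lit 246) (nat_lit 5) (nat_lit 416) (nat_lit 389) (nat_lit 215)) (XT.lf (nat_lit 0) (nat_lit 20373289253) (nat_lit 228) (nat_lit 20659230233) (nat_lit 304) (nat_lit 53299132417) (nat_lit 242) (nat_lit 5) (nat_lit 245) (nat_lit 5) (nat_lit 246) (nat_lit 5) (nat_lit 417) (nat_lit 389) (nat_lit 214))) (XT.nd (nat_lit 78) (nat_lit 228) (nat_lit 0) (XT.lf (nat_lit 0) (nat_lit 61728521311) (nat_lit 304) (nat_lit 17842390419) (nat_lit 76) (nat_lit 17565624829) (nat_lit 242)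 (nat_lit 5) (nat_lit 246) (nat_lit 5) (nat_lit 243) (nat_lit 5) (nat_lit 418) (nat_lit 389) (nat_lit 213)) (XT.lf (nat_lit 0) (nat_lit 42086684034) (nat_lit 228) (nat_lit 42367679001) (nat_lit 304) (nat_lit 15577550421) (nat_lit 239) (nat_lit 5) (nat_lit 242) (nat_lit 5) (nat_lit 243) (nat_lit 5) (nat_lit 419) (nat_lit 389) (nat_lit 212)))) (XT.nd (nat_lit 156) (nat_lit 228) (nat_lit 0) (XT.nd (nat_lit 78) (nat_lit 0) (nat_lit 0) (XT.lf (nat_lit 0) (nat_lit 2569036250) (nat_lit 228) (nat_lit 2854059196) (nat_lit 304) (nat_lit 97627544107) (nat_lit 235) (nat_lit 5) (nat_lit 238) (nat_lit 5) (nat_lit 239) (nat_lit 5) (nat_lit 420) (nat_lit 389) (nat_lit 211)) (XT.lf (nat_lit 0) (nat_lit 28550180219) (nat_lit 304) (nat_lit 38926230724) (nat_lit 76) (nat_lit 38651126804) (nat_lit 235) (nat_lit 5) (nat_lit 239) (nat_lit 5) (nat_lit 236) (nat_lit 5) (nat_lit 421) (nat_lit 389) (nat_lit 210))) (XT.nd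 (nat_lit 78) (nat_lit 0) (nat_lit 0) (XT.lf (nat_lit 0) (nat_lit 26507502967) (nat_lit 228) (nat_lit 26786086406) (nat_lit 304) (nat_lit 56041692972) (nat_lit 232) (nat_lit 5) (nat_lit 235) (nat_lit 5) (nat_lit 236) (nat_lit 5) (nat_lit 422) (nat_lit 389) (nat_lit 209)) (XT.lf (nat_lit 0) (nat_lit 80192396035) (nat_lit 304) (nat_lit 16366790186) (nat_lit 76) (nat_lit 16098316598) (nat_lit 232) (nat_lit 5) (nat_lit 236) (nat_lit 5) (nat_lit 233) (nat_lit 5) (nat_lit 423) (nat_lit 389) (nat_lit 208))))) (XT.nd (nat_lit 312) (nat_lit 380) (nat_lit 0) (XT.nd (nat_lit 156) (nat_lit 152) (nat_lit 0) (XT.nd (nat_lit 78) (nat_lit 304) (nat_lit 0) (XT.lf (nat_lit 0) (nat_lit 54728809147) (nat_lit 152) (nat_lit 55000288475) (nat_lit 228) (nat_lit 6352088965) (nat_lit 230) (nat_lit 5) (nat_lit 232) (nat_lit 5) (nat_lit 233) (nat_lit 5) (nat_lit 424) (nat_lit 389) (nat_lit 207)) (XT.lf (nat_lit 0) (nat_lit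 10279784257) (nat_lit 228) (nat_lit 10554126193) (nat_lit 304) (nat_lit 98803619036) (nat_lit 226) (nat_lit 5) (nat_lit 229) (nat_lit 5) (nat_lit 230) (nat_lit 5) (nat_lit 425) (nat_lit 389) (nat_lit 206))) (XT.nd (nat_lit 78) (nat_lit 152) (nat_lit 0) (XT.lf (nat_lit 0) (nat_lit 50785031720) (nat_lit 304) (nat_lit 36382180499) (nat_lit 76) (nat_lit 36118305993) (nat_lit 226) (nat_lit 5) (nat_lit 230) (nat_lit 5) (nat_lit 227) (nat_lit 5) (nat_lit 426) (nat_lit 389) (nat_lit 205)) (XT.lf (nat_lit 0) (nat_lit 41393026419) (nat_lit 152) (nat_lit 41659373754) (nat_lit 228) (nat_lit 44022571646) (nat_lit 224) (nat_lit 5) (nat_lit 226) (nat_lit 5) (nat_lit 227) (nat_lit 5) (nat_lit 427) (nat_lit 389) (nat_lit 204)))) (XT.nd (nat_lit 156) (nat_lit 152) (nat_lit 0) (XT.nd (nat_lit 78) (nat_lit 228) (nat_lit 0) (XT.lf (nat_lit 0) (nat_lit 117654417499) (nat_lit 228) (nat_lit 6809661821) (nat_lit 76) (nat_lit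 6553754763) (nat_lit 224) (nat_lit 5) (nat_lit 227) (nat_lit 5) (nat_lit 225) (nat_lit 5) (nat_lit 428) (nat_lit 389) (nat_lit 203)) (XT.lf (nat_lit 0) (nat_lit 20154427610) (nat_lit 228) (nat_lit 57575169118) (nat_lit 76) (nat_lit 57317125937) (nat_lit 221) (nat_lit 5) (nat_lit 224) (nat_lit 5) (nat_lit 222) (nat_lit 5) (nat_lit 429) (nat_lit 389) (nat_lit 202))) (XT.nd (nat_lit 78) (nat_lit 0) (nat_lit 0) (XT.lf (nat_lit 0) (nat_lit 27593230734) (nat_lit 152) (nat_lit 27853308318) (nat_lit 228) (nat_lit 83792189327) (nat_lit 219) (nat_lit 5) (nat_lit 221) (nat_lit 5) (nat_lit 222) (nat_lit 5) (nat_lit 430) (nat_lit 389) (nat_lit 201)) (XT.lf (nat_lit 0) (nat_lit 93876536601) (nat_lit 228) (nat_lit 24972335977) (nat_lit 76) (nat_lit 24722797777) (nat_lit 219) (nat_lit 5) (nat_lit 222) (nat_lit 5) (nat_lit 220) (nat_lit 5) (nat_lit 431) (nat_lit 389) (nat_lit 200)))))) (XT.nd (nat_lit 624) (nat_lit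 912) (nat_lit 0) (XT.nd (nat_lit 312) (nat_lit 304) (nat_lit 0) (XT.nd (nat_lit 156) (nat_lit 152) (nat_lit 0) (XT.nd (nat_lit 78) (nat_lit 228) (nat_lit 0) (XT.lf (nat_lit 0) (nat_lit 67745262997) (nat_lit 152) (nat_lit 67996558592) (nat_lit 228) (nat_lit 12303748461) (nat_lit 217) (nat_lit 5) (nat_lit 219) (nat_lit 5) (nat_lit 220) (nat_lit 5) (nat_lit 432) (nat_lit 389) (nat_lit 199)) (XT.lf (nat_lit 0) (nat_lit 13238734315) (nat_lit 152) (nat_lit 13491703617) (nat_lit 228) (nat_lit 125959881381) (nat_lit 214) (nat_lit 5) (nat_lit 216) (nat_lit 5) (nat_lit 217) (nat_lit 5) (nat_lit 433) (nat_lit 389) (nat_lit 198))) (XT.nd (nat_lit 78) (nat_lit 152) (nat_lit 0) (XT.lf (nat_lit 0) (nat_lit 69367434910) (nat_lit 228) (nat_lit 44164498972) (nat_lit 76) (nat_lit 43922057724) (nat_lit 214) (nat_lit 5) (nat_lit 217) (nat_lit 5) (nat_lit 215) (nat_lit 5) (nat_lit 434) (nat_lit 389) (nat_lit 197)) (XT.lf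 (nat_lit 0) (nat_lit 57505453134) (nat_lit 152) (nat_lit 57749340194) (nat_lit 228) (nat_lit 47145128607) (nat_lit 212) (nat_lit 5) (nat_lit 214) (nat_lit 5) (nat_lit 215) (nat_lit 5) (nat_lit 435) (nat_lit 389) (nat_lit 196)))) (XT.nd (nat_lit 156) (nat_lit 152) (nat_lit 0) (XT.nd (nat_lit 78) (nat_lit 152) (nat_lit 0) (XT.lf (nat_lit 0) (nat_lit 164209087322) (nat_lit 228) (nat_lit 1789508930) (nat_lit 76) (nat_lit 1555924145) (nat_lit 212) (nat_lit 5) (nat_lit 215) (nat_lit 5) (nat_lit 213) (nat_lit 4) (nat_lit 436) (nat_lit 389) (nat_lit 195)) (XT.lf (nat_lit 0) (nat_lit 43971018246) (nat_lit 152) (nat_lit 64531395897) (nat_lit 76) (nat_lit 64296562166) (nat_lit 210) (nat_lit 5) (nat_lit 212) (nat_lit 5) (nat_lit 211) (nat_lit 5) (nat_lit 437) (nat_lit 389) (nat_lit 194))) (XT.nd (nat_lit 78) (nat_lit 0) (nat_lit 0) (XT.lf (nat_lit 0) (nat_lit 47034766111) (nat_lit 152) (nat_lit 47270789316)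 (nat_lit 228) (nat_lit 83959122842) (nat_lit 208) (nat_lit 5) (nat_lit 210) (nat_lit 5) (nat_lit 211) (nat_lit 5) (nat_lit 438) (nat_lit 389) (nat_lit 193)) (XT.lf (nat_lit 0) (nat_lit 148532921383) (nat_lit 228) (nat_lit 17813900871) (nat_lit 76) (nat_lit 17588037979) (nat_lit 208) (nat_lit 5) (nat_lit 211) (nat_lit 5) (nat_lit 209) (nat_lit 4) (nat_lit 439) (nat_lit 389) (nat_lit 192))))) (XT.nd (nat_lit 312) (nat_lit 532) (nat_lit 0) (XT.nd (nat_lit 156) (nat_lit 76) (nat_lit 0) (XT.nd (nat_lit 78) (nat_lit 152) (nat_lit 0) (XT.lf (nat_lit 0) (nat_lit 17519039999) (nat_lit 152) (nat_lit 86231251143) (nat_lit 76) (nat_lit 86004360739) (nat_lit 206) (nat_lit 5) (nat_lit 208) (nat_lit 5) (nat_lit 207) (nat_lit 5) (nat_lit 440) (nat_lit 389) (nat_lit 191)) (XT.lf (nat_lit 0) (nat_lit 36270474561) (nat_lit 152) (nat_lit 36498343547) (nat_lit 228) (nat_lit 123023972641) (nat_lit 204) (nat_lit 5) (nat_lit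 206) (nat_lit 5) (nat_lit 207) (nat_lit 5) (nat_lit 441) (nat_lit 389) (nat_lit 190))) (XT.nd (nat_lit 78) (nat_lit 76) (nat_lit 0) (XT.lf (nat_lit 0) (nat_lit 132797617249) (nat_lit 228) (nat_lit 34726149196) (nat_lit 76) (nat_lit 34508243510) (nat_lit 204) (nat_lit 5) (nat_lit 207) (nat_lit 5) (nat_lit 205) (nat_lit 4) (nat_lit 442) (nat_lit 389) (nat_lit 189)) (XT.lf (nat_lit 0) (nat_lit 98875377515) (nat_lit 76) (nat_lit 99094128537) (nat_lit 152) (nat_lit 10506601582) (nat_lit 203) (nat_lit 5) (nat_lit 204) (nat_lit 5) (nat_lit 205) (nat_lit 4) (nat_lit 443) (nat_lit 389) (nat_lit 188)))) (XT.nd (nat_lit 156) (nat_lit 304) (nat_lit 0) (XT.nd (nat_lit 78) (nat_lit 0) (nat_lit 0) (XT.lf (nat_lit 0) (nat_lit 25145295257) (nat_lit 152) (nat_lit 25364851361) (nat_lit 228) (nat_lit 164642831446) (nat_lit 200) (nat_lit 5) (nat_lit 202) (nat_lit 5) (nat_lit 203) (nat_lit 5) (nat_lit 444) (nat_lit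 389) (nat_lit 187)) (XT.lf (nat_lit 0) (nat_lit 116923470059) (nat_lit 228) (nat_lit 52653249922) (nat_lit 76) (nat_lit 52443418637) (nat_lit 200) (nat_lit 5) (nat_lit 203) (nat_lit 5) (nat_lit 201) (nat_lit 4) (nat_lit 445) (nat_lit 389) (nat_lit 186))) (XT.nd (nat_lit 78) (nat_lit 228) (nat_lit 0) (XT.lf (nat_lit 0) (nat_lit 94166283605) (nat_lit 76) (nat_lit 94376810350) (nat_lit 152) (nat_lit 40593281531) (nat_lit 199) (nat_lit 5) (nat_lit 200) (nat_lit 5) (nat_lit 201) (nat_lit 4) (nat_lit 446) (nat_lit 389) (nat_lit 185)) (XT.nd (nat_lit 78) (nat_lit 0) (nat_lit 0) (XT.lf (nat_lit 0) (nat_lit 13586830504) (nat_lit 152) (nat_lit 13798019593) (nat_lit 228) (nat_lit 209146487540) (nat_lit 196) (nat_lit 5) (nat_lit 198) (nat_lit 5) (nat_lit 199) (nat_lit 5) (nat_lit 447) (nat_lit 389) (nat_lit 184)) (XT.lf (nat_lit 0) (nat_lit 100826102215) (nat_lit 228) (nat_lit 71733492506) (nat_lit 76) (nat_lit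 71531759276) (nat_lit 196) (nat_lit 5) (nat_lit 199) (nat_lit 5) (nat_lit 197) (nat_lit 4) (nat_lit 448) (nat_lit 389) (nat_lit 183))))))))
noncomputable def xc264 : XT := (XT.nd (nat_lit 2496) (nat_lit 684) (nat_lit 0) (XT.nd (nat_lit 1248) (nat_lit 1140) (nat_lit 0) (XT.nd (nat_lit 624) (nat_lit 684) (nat_lit 0) (XT.nd (nat_lit 312) (nat_lit 228) (nat_lit 0) (XT.nd (nat_lit 156) (nat_lit 76) (nat_lit 0) (XT.nd (nat_lit 78) (nat_lit 228) (nat_lit 0) (XT.lf (nat_lit 0) (nat_lit 89681563923) (nat_lit 76) (nat_lit 89883869310) (nat_lit 152) (nat_lit 72382637128) (nat_lit 195) (nat_lit 5) (nat_lit 196) (nat_lit 5) (nat_lit 197) (nat_lit 4) (nat_lit 449) (nat_lit 389) (nat_lit 182)) (XT.lf (nat_lit 0) (nat_lit 1516957071) (nat_lit 152) (nat_lit 1719807369) (nat_lit 228) (nat_lit 256896358368) (nat_lit 192) (nat_lit 5) (nat_lit 194) (nat_lit 5) (nat_lit 195) (nat_lit 5) (nat_lit 450) (nat_lit 389) (nat_lit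 181))) (XT.nd (nat_lit 78) (nat_lit 76) (nat_lit 0) (XT.lf (nat_lit 0) (nat_lit 84415819641) (nat_lit 228) (nat_lit 92117701239) (nat_lit 76) (nat_lit 91924016228) (nat_lit 192) (nat_lit 5) (nat_lit 195) (nat_lit 5) (nat_lit 193) (nat_lit 4) (nat_lit 451) (nat_lit 389) (nat_lit 180)) (XT.lf (nat_lit 0) (nat_lit 85410510639) (nat_lit 76) (nat_lit 85604666365) (nat_lit 152) (nat_lit 106114927650) (nat_lit 191) (nat_lit 5) (nat_lit 192) (nat_lit 5) (nat_lit 193) (nat_lit 4) (nat_lit 452) (nat_lit 389) (nat_lit 179)))) (XT.nd (nat_lit 156) (nat_lit 76) (nat_lit 0) (XT.nd (nat_lit 78) (nat_lit 152) (nat_lit 0) (XT.lf (nat_lit 0) (nat_lit 263683902883) (nat_lit 152) (nat_lit 11325382413) (nat_lit 0) (nat_lit 11140045246) (nat_lit 191) (nat_lit 5) (nat_lit 193) (nat_lit 4) (nat_lit 191) (nat_lit 4) (nat_lit 453) (nat_lit 389) (nat_lit 178)) (XT.lf (nat_lit 0) (nat_lit 67596909596) (nat_lit 152) (nat_lit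 113970599585) (nat_lit 76) (nat_lit 113784855796) (nat_lit 189) (nat_lit 5) (nat_lit 191) (nat_lit 5) (nat_lit 190) (nat_lit 4) (nat_lit 454) (nat_lit 389) (nat_lit 177))) (XT.nd (nat_lit 78) (nat_lit 0) (nat_lit 0) (XT.lf (nat_lit 0) (nat_lit 81342929958) (nat_lit 76) (nat_lit 81529061005) (nat_lit 152) (nat_lit 142051915238) (nat_lit 188) (nat_lit 5) (nat_lit 189) (nat_lit 5) (nat_lit 190) (nat_lit 4) (nat_lit 455) (nat_lit 389) (nat_lit 176)) (XT.lf (nat_lit 0) (nat_lit 265239370773) (nat_lit 152) (nat_lit 24897922707) (nat_lit 0) (nat_lit 24720303788) (nat_lit 188) (nat_lit 5) (nat_lit 190) (nat_lit 4) (nat_lit 188) (nat_lit 4) (nat_lit 456) (nat_lit 389) (nat_lit 175))))) (XT.nd (nat_lit 312) (nat_lit 304) (nat_lit 0) (XT.nd (nat_lit 156) (nat_lit 152) (nat_lit 0) (XT.nd (nat_lit 78) (nat_lit 76) (nat_lit 0) (XT.lf (nat_lit 0) (nat_lit 50266873752) (nat_lit 152) (nat_lit 137472310321) (nat_lit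 76) (nat_lit 137294356874) (nat_lit 186) (nat_lit 5) (nat_lit 188) (nat_lit 5) (nat_lit 187) (nat_lit 4) (nat_lit 457) (nat_lit 389) (nat_lit 174)) (XT.lf (nat_lit 0) (nat_lit 77469116909) (nat_lit 76) (nat_lit 77647388954) (nat_lit 152) (nat_lit 180479216539) (nat_lit 185) (nat_lit 5) (nat_lit 186) (nat_lit 5) (nat_lit 187) (nat_lit 4) (nat_lit 458) (nat_lit 389) (nat_lit 173))) (XT.nd (nat_lit 78) (nat_lit 152) (nat_lit 0) (XT.lf (nat_lit 0) (nat_lit 268167131213) (nat_lit 152) (nat_lit 39270514007) (nat_lit 0) (nat_lit 39100442128) (nat_lit 185) (nat_lit 5) (nat_lit 187) (nat_lit 4) (nat_lit 185) (nat_lit 4) (nat_lit 459) (nat_lit 389) (nat_lit 172)) (XT.lf (nat_lit 0) (nat_lit 32315589586) (nat_lit 152) (nat_lit 162820005650) (nat_lit 76) (nat_lit 162649658554) (nat_lit 183) (nat_lit 5) (nat_lit 185) (nat_lit 5) (nat_lit 184) (nat_lit 4) (nat_lit 460) (nat_lit 389) (nat_lit 171)))) (XT.nd (nat_lit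 156) (nat_lit 228) (nat_lit 0) (XT.nd (nat_lit 78) (nat_lit 0) (nat_lit 0) (XT.lf (nat_lit 0) (nat_lit 73779831463) (nat_lit 76) (nat_lit 73950440671) (nat_lit 152) (nat_lit 221708888551) (nat_lit 182) (nat_lit 5) (nat_lit 183) (nat_lit 5) (nat_lit 184) (nat_lit 4) (nat_lit 461) (nat_lit 389) (nat_lit 170)) (XT.lf (nat_lit 0) (nat_lit 272550107099) (nat_lit 152) (nat_lit 54553328808) (nat_lit 0) (nat_lit 54390606105) (nat_lit 182) (nat_lit 5) (nat_lit 184) (nat_lit 4) (nat_lit 182) (nat_lit 4) (nat_lit 462) (nat_lit 389) (nat_lit 169))) (XT.nd (nat_lit 78) (nat_lit 76) (nat_lit 0) (XT.lf (nat_lit 0) (nat_lit 13624392473) (nat_lit 152) (nat_lit 190229722846) (nat_lit 76) (nat_lit 190066773721) (nat_lit 180) (nat_lit 5) (nat_lit 182) (nat_lit 5) (nat_lit 181) (nat_lit 4) (nat_lit 463) (nat_lit 389) (nat_lit 168)) (XT.lf (nat_lit 0) (nat_lit 70266275899) (nat_lit 76) (nat_lit 70429440664) (nat_lit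 152) (nat_lit 266082273001) (nat_lit 179) (nat_lit 5) (nat_lit 180) (nat_lit 5) (nat_lit 181) (nat_lit 4) (nat_lit 464) (nat_lit 389) (nat_lit 167)))))) (XT.nd (nat_lit 624) (nat_lit 608) (nat_lit 0) (XT.nd (nat_lit 312) (nat_lit 304) (nat_lit 0) (XT.nd (nat_lit 156) (nat_lit 152) (nat_lit 0) (XT.nd (nat_lit 78) (nat_lit 76) (nat_lit 0) (XT.lf (nat_lit 0) (nat_lit 278482467119) (nat_lit 152) (nat_lit 70866487794) (nat_lit 0) (nat_lit 70710897188) (nat_lit 179) (nat_lit 5) (nat_lit 181) (nat_lit 4) (nat_lit 179) (nat_lit 4) (nat_lit 465) (nat_lit 389) (nat_lit 166)) (XT.lf (nat_lit 0) (nat_lit 213747144878) (nat_lit 76) (nat_lit 213902921762) (nat_lit 76) (nat_lit 6131165553) (nat_lit 178) (nat_lit 4) (nat_lit 179) (nat_lit 5) (nat_lit 179) (nat_lit 4) (nat_lit 466) (nat_lit 389) (nat_lit 165))) (XT.nd (nat_lit 78) (nat_lit 0) (nat_lit 0) (XT.lf (nat_lit 0) (nat_lit 66920073328) (nat_lit 76) (nat_lit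 67076027619) (nat_lit 152) (nat_lit 313973126002) (nat_lit 176) (nat_lit 5) (nat_lit 177) (nat_lit 5) (nat_lit 178) (nat_lit 4) (nat_lit 467) (nat_lit 389) (nat_lit 164)) (XT.lf (nat_lit 0) (nat_lit 286070648236) (nat_lit 152) (nat_lit 88341144116) (nat_lit 0) (nat_lit 88192455306) (nat_lit 176) (nat_lit 5) (nat_lit 178) (nat_lit 4) (nat_lit 176) (nat_lit 4) (nat_lit 468) (nat_lit 389) (nat_lit 163)))) (XT.nd (nat_lit 156) (nat_lit 76) (nat_lit 0) (XT.nd (nat_lit 78) (nat_lit 152) (nat_lit 0) (XT.lf (nat_lit 0) (nat_lit 225106995323) (nat_lit 76) (nat_lit 225255837384) (nat_lit 76) (nat_lit 27377491203) (nat_lit 175) (nat_lit 4) (nat_lit 176) (nat_lit 5) (nat_lit 176) (nat_lit 4) (nat_lit 469) (nat_lit 389) (nat_lit 162)) (XT.lf (nat_lit 0) (nat_lit 63733247323) (nat_lit 76) (nat_lit 63882235338) (nat_lit 152) (nat_lit 365791062533) (nat_lit 173) (nat_lit 5) (nat_lit 174) (nat_lit 5) (nat_lit 175)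 (nat_lit 4) (nat_lit 470) (nat_lit 389) (nat_lit 161))) (XT.nd (nat_lit 78) (nat_lit 76) (nat_lit 0) (XT.lf (nat_lit 0) (nat_lit 295434489083) (nat_lit 152) (nat_lit 107120675636) (nat_lit 0) (nat_lit 106978649904) (nat_lit 173) (nat_lit 5) (nat_lit 175) (nat_lit 4) (nat_lit 173) (nat_lit 4) (nat_lit 471) (nat_lit 389) (nat_lit 160)) (XT.lf (nat_lit 0) (nat_lit 238133620599) (nat_lit 76) (nat_lit 238275772411) (nat_lit 76) (nat_lit 49819807152) (nat_lit 172) (nat_lit 4) (nat_lit 173) (nat_lit 5) (nat_lit 173) (nat_lit 4) (nat_lit 472) (nat_lit 389) (nat_lit 159))))) (XT.nd (nat_lit 312) (nat_lit 228) (nat_lit 0) (XT.nd (nat_lit 156) (nat_lit 228) (nat_lit 0) (XT.nd (nat_lit 78) (nat_lit 0) (nat_lit 0) (XT.lf (nat_lit 0) (nat_lit 60698202569) (nat_lit 76) (nat_lit 60840474457) (nat_lit 152) (nat_lit 421985348254) (nat_lit 170) (nat_lit 5) (nat_lit 171) (nat_lit 5) (nat_lit 172) (nat_lit 4) (nat_lit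 473) (nat_lit 389) (nat_lit 158)) (XT.lf (nat_lit 0) (nat_lit 306708485360) (nat_lit 152) (nat_lit 127361996363) (nat_lit 0) (nat_lit 127226390414) (nat_lit 170) (nat_lit 5) (nat_lit 172) (nat_lit 4) (nat_lit 170) (nat_lit 4) (nat_lit 474) (nat_lit 389) (nat_lit 157))) (XT.nd (nat_lit 78) (nat_lit 152) (nat_lit 0) (XT.lf (nat_lit 0) (nat_lit 252973933671) (nat_lit 76) (nat_lit 253109643347) (nat_lit 76) (nat_lit 73627444674) (nat_lit 169) (nat_lit 4) (nat_lit 170) (nat_lit 5) (nat_lit 170) (nat_lit 4) (nat_lit 475) (nat_lit 389) (nat_lit 156)) (XT.lf (nat_lit 0) (nat_lit 57807706487) (nat_lit 76) (nat_lit 57943514950) (nat_lit 152) (nat_lit 483049074526) (nat_lit 167) (nat_lit 5) (nat_lit 168) (nat_lit 5) (nat_lit 169) (nat_lit 4) (nat_lit 476) (nat_lit 389) (nat_lit 155)))) (XT.nd (nat_lit 156) (nat_lit 152) (nat_lit 0) (XT.nd (nat_lit 78) (nat_lit 76) (nat_lit 0) (XT.lf (nat_lit 0) (nat_lit 320043179465)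 (nat_lit 152) (nat_lit 149236999468) (nat_lit 0) (nat_lit 149107568472) (nat_lit 167) (nat_lit 5) (nat_lit 169) (nat_lit 4) (nat_lit 167) (nat_lit 4) (nat_lit 477) (nat_lit 389) (nat_lit 154)) (XT.lf (nat_lit 0) (nat_lit 269791047109) (nat_lit 76) (nat_lit 269920563441) (nat_lit 76) (nat_lit 98984867112) (nat_lit 166) (nat_lit 4) (nat_lit 167) (nat_lit 5) (nat_lit 167) (nat_lit 4) (nat_lit 478) (nat_lit 389) (nat_lit 153))) (XT.nd (nat_lit 78) (nat_lit 0) (nat_lit 0) (XT.lf (nat_lit 0) (nat_lit 55054871778) (nat_lit 76) (nat_lit 55184469382) (nat_lit 152) (nat_lit 549523756155) (nat_lit 164) (nat_lit 5) (nat_lit 165) (nat_lit 5) (nat_lit 166) (nat_lit 4) (nat_lit 479) (nat_lit 389) (nat_lit 152)) (XT.lf (nat_lit 0) (nat_lit 335606697881) (nat_lit 152) (nat_lit 172934145503) (nat_lit 0) (nat_lit 172810645496) (nat_lit 164) (nat_lit 5) (nat_lit 166) (nat_lit 4) (nat_lit 164) (nat_lit 4) (nat_lit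 480) (nat_lit 389) (nat_lit 151))))))) (XT.nd (nat_lit 46644) (nat_lit 0) (nat_lit 7448) (XT.nd (nat_lit 46020) (nat_lit 0) (nat_lit 10412) (XT.nd (nat_lit 312) (nat_lit 380) (nat_lit 0) (XT.nd (nat_lit 156) (nat_lit 76) (nat_lit 0) (XT.nd (nat_lit 78) (nat_lit 152) (nat_lit 0) (XT.lf (nat_lit 0) (nat_lit 288765878968) (nat_lit 76) (nat_lit 288889449181) (nat_lit 76) (nat_lit 126093326590) (nat_lit 163) (nat_lit 4) (nat_lit 164) (nat_lit 5) (nat_lit 164) (nat_lit 4) (nat_lit 481) (nat_lit 389) (nat_lit 150)) (XT.lf (nat_lit 0) (nat_lit 52433139822) (nat_lit 76) (nat_lit 52556776898) (nat_lit 152) (nat_lit 622004395433) (nat_lit 161) (nat_lit 5) (nat_lit 162) (nat_lit 5) (nat_lit 163) (nat_lit 4) (nat_lit 482) (nat_lit 389) (nat_lit 149))) (XT.nd (nat_lit 78) (nat_lit 76) (nat_lit 0) (XT.lf (nat_lit 0) (nat_lit 353586451211) (nat_lit 152) (nat_lit 198660210850) (nat_lit 0) (nat_lit 198542400607)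 (nat_lit 161) (nat_lit 5) (nat_lit 163) (nat_lit 4) (nat_lit 161) (nat_lit 4) (nat_lit 483) (nat_lit 389) (nat_lit 148)) (XT.lf (nat_lit 0) (nat_lit 310098925900) (nat_lit 76) (nat_lit 310216793902) (nat_lit 76) (nat_lit 155172685540) (nat_lit 160) (nat_lit 4) (nat_lit 161) (nat_lit 5) (nat_lit 161) (nat_lit 4) (nat_lit 484) (nat_lit 389) (nat_lit 147)))) (XT.nd (nat_lit 156) (nat_lit 228) (nat_lit 0) (XT.nd (nat_lit 78) (nat_lit 0) (nat_lit 0) (XT.lf (nat_lit 0) (nat_lit 49936264903) (nat_lit 76) (nat_lit 50054187913) (nat_lit 152) (nat_lit 701145060486) (nat_lit 158) (nat_lit 5) (nat_lit 159) (nat_lit 5) (nat_lit 160) (nat_lit 4) (nat_lit 485) (nat_lit 389) (nat_lit 146)) (XT.lf (nat_lit 0) (nat_lit 374191013298) (nat_lit 152) (nat_lit 226642212955) (nat_lit 0) (nat_lit 226529855432) (nat_lit 158) (nat_lit 5) (nat_lit 160) (nat_lit 4) (nat_lit 158) (nat_lit 4) (nat_lit 486) (nat_lit 389) (nat_lit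 145))) (XT.nd (nat_lit 78) (nat_lit 152) (nat_lit 0) (XT.lf (nat_lit 0) (nat_lit 334012220525) (nat_lit 76) (nat_lit 334124625566) (nat_lit 76) (nat_lit 186463420182) (nat_lit 157) (nat_lit 4) (nat_lit 158) (nat_lit 5) (nat_lit 158) (nat_lit 4) (nat_lit 487) (nat_lit 389) (nat_lit 144)) (XT.lf (nat_lit 0) (nat_lit 47558299203) (nat_lit 76) (nat_lit 47670749500) (nat_lit 152) (nat_lit 787665030879) (nat_lit 155) (nat_lit 5) (nat_lit 156) (nat_lit 5) (nat_lit 157) (nat_lit 4) (nat_lit 488) (nat_lit 389) (nat_lit 143))))) (XT.nd (nat_lit 312) (nat_lit 0) (nat_lit 152) (XT.nd (nat_lit 156) (nat_lit 0) (nat_lit 76) (XT.nd (nat_lit 78) (nat_lit 0) (nat_lit 0) (XT.lf (nat_lit 0) (nat_lit 10735432333) (nat_lit 836) (nat_lit 6269528279) (nat_lit 836) (nat_lit 6269528279) (nat_lit 292) (nat_lit 3) (nat_lit 303) (nat_lit 3) (nat_lit 303) (nat_lit 5) (nat_lit 390) (nat_lit 390) (nat_lit 240)) (XT.lf (nat_lit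 76) (nat_lit 11090394209) (nat_lit 0) (nat_lit 11120168979) (nat_lit 836) (nat_lit 25491992697) (nat_lit 293) (nat_lit 5) (nat_lit 292) (nat_lit 3) (nat_lit 303) (nat_lit 5) (nat_lit 391) (nat_lit 390) (nat_lit 239))) (XT.nd (nat_lit 78) (nat_lit 0) (nat_lit 0) (XT.lf (nat_lit 0) (nat_lit 23402799466) (nat_lit 760) (nat_lit 12772799649) (nat_lit 836) (nat_lit 12717436132) (nat_lit 293) (nat_lit 5) (nat_lit 303) (nat_lit 5) (nat_lit 304) (nat_lit 5) (nat_lit 392) (nat_lit 390) (nat_lit 238)) (XT.lf (nat_lit 76) (nat_lit 12474402173) (nat_lit 0) (nat_lit 12555486256) (nat_lit 836) (nat_lit 25094388106) (nat_lit 294) (nat_lit 5) (nat_lit 293) (nat_lit 5) (nat_lit 304) (nat_lit 5) (nat_lit 393) (nat_lit 390) (nat_lit 237)))) (XT.nd (nat_lit 156) (nat_lit 0) (nat_lit 76) (XT.nd (nat_lit 78) (nat_lit 0) (nat_lit 0) (XT.lf (nat_lit 0) (nat_lit 27147643149) (nat_lit 760) (nat_lit 12174761710) (nat_lit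 836) (nat_lit 12074209462) (nat_lit 294) (nat_lit 5) (nat_lit 304) (nat_lit 5) (nat_lit 305) (nat_lit 5) (nat_lit 394) (nat_lit 390) (nat_lit 236)) (XT.lf (nat_lit 76) (nat_lit 14842208397) (nat_lit 0) (nat_lit 14964979036) (nat_lit 836) (nat_lit 22903586472) (nat_lit 295) (nat_lit 5) (nat_lit 294) (nat_lit 5) (nat_lit 305) (nat_lit 5) (nat_lit 395) (nat_lit 390) (nat_lit 235))) (XT.nd (nat_lit 78) (nat_lit 0) (nat_lit 0) (XT.lf (nat_lit 0) (nat_lit 32973346441) (nat_lit 760) (nat_lit 10617845154) (nat_lit 836) (nat_lit 10480767999) (nat_lit 295) (nat_lit 5) (nat_lit 305) (nat_lit 5) (nat_lit 306) (nat_lit 5) (nat_lit 396) (nat_lit 390) (nat_lit 234)) (XT.lf (nat_lit 76) (nat_lit 18335817394) (nat_lit 0) (nat_lit 18492087632) (nat_lit 836) (nat_lit 18646794959) (nat_lit 296) (nat_lit 5) (nat_lit 295) (nat_lit 5) (nat_lit 306) (nat_lit 5) (nat_lit 397) (nat_lit 390) (nat_lit 233)))))) (XT.nd (nat_lit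 624) (nat_lit 1672) (nat_lit 0) (XT.nd (nat_lit 312) (nat_lit 912) (nat_lit 0) (XT.nd (nat_lit 156) (nat_lit 684) (nat_lit 0) (XT.nd (nat_lit 78) (nat_lit 0) (nat_lit 0) (XT.lf (nat_lit 0) (nat_lit 41179255711) (nat_lit 760) (nat_lit 7959677982) (nat_lit 836) (nat_lit 7793440494) (nat_lit 296) (nat_lit 5) (nat_lit 306) (nat_lit 5) (nat_lit 307) (nat_lit 5) (nat_lit 398) (nat_lit 390) (nat_lit 232)) (XT.lf (nat_lit 76) (nat_lit 23113999810) (nat_lit 0) (nat_lit 23296817005) (nat_lit 836) (nat_lit 12018983139) (nat_lit 297) (nat_lit 5) (nat_lit 296) (nat_lit 5) (nat_lit 307) (nat_lit 5) (nat_lit 399) (nat_lit 390) (nat_lit 231))) (XT.nd (nat_lit 78) (nat_lit 760) (nat_lit 0) (XT.lf (nat_lit 0) (nat_lit 52099550878) (nat_lit 760) (nat_lit 4040958142) (nat_lit 76) (nat_lit 3851808246) (nat_lit 297) (nat_lit 5) (nat_lit 307) (nat_lit 5) (nat_lit 298) (nat_lit 5) (nat_lit 400) (nat_lit 390) (nat_lit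 230)) (XT.lf (nat_lit 0) (nat_lit 29354099513) (nat_lit 760) (nat_lit 29557571583) (nat_lit 836) (nat_lit 2679341874) (nat_lit 287) (nat_lit 5) (nat_lit 297) (nat_lit 5) (nat_lit 298) (nat_lit 5) (nat_lit 401) (nat_lit 390) (nat_lit 229)))) (XT.nd (nat_lit 156) (nat_lit 380) (nat_lit 0) (XT.nd (nat_lit 78) (nat_lit 0) (nat_lit 0) (XT.lf (nat_lit 0) (nat_lit 1288310626) (nat_lit 456) (nat_lit 1505422860) (nat_lit 532) (nat_lit 60469306816) (nat_lit 280) (nat_lit 5) (nat_lit 286) (nat_lit 5) (nat_lit 287) (nat_lit 5) (nat_lit 402) (nat_lit 390) (nat_lit 228)) (XT.lf (nat_lit 0) (nat_lit 9440484472) (nat_lit 532) (nat_lit 27872815335) (nat_lit 76) (nat_lit 27653669747) (nat_lit 280) (nat_lit 5) (nat_lit 287) (nat_lit 5) (nat_lit 281) (nat_lit 5) (nat_lit 403) (nat_lit 390) (nat_lit 227))) (XT.nd (nat_lit 78) (nat_lit 0) (nat_lit 0) (XT.lf (nat_lit 0) (nat_lit 8169867730) (nat_lit 380) (nat_lit 8400796206)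 (nat_lit 456) (nat_lit 50177876786) (nat_lit 275) (nat_lit 5) (nat_lit 280) (nat_lit 5) (nat_lit 281) (nat_lit 5) (nat_lit 404) (nat_lit 390) (nat_lit 226)) (XT.lf (nat_lit 0) (nat_lit 24878839988) (nat_lit 456) (nat_lit 21964947694) (nat_lit 76) (nat_lit 21734328386) (nat_lit 275) (nat_lit 5) (nat_lit 281) (nat_lit 5) (nat_lit 276) (nat_lit 5) (nat_lit 405) (nat_lit 390) (nat_lit 225))))) (XT.nd (nat_lit 312) (nat_lit 988) (nat_lit 0) (XT.nd (nat_lit 156) (nat_lit 304) (nat_lit 0) (XT.nd (nat_lit 78) (nat_lit 0) (nat_lit 0) (XT.lf (nat_lit 0) (nat_lit 16880925181) (nat_lit 380) (nat_lit 17121722990) (nat_lit 456) (nat_lit 36476510842) (nat_lit 270) (nat_lit 5) (nat_lit 275) (nat_lit 5) (nat_lit 276) (nat_lit 5) (nat_lit 406) (nat_lit 390) (nat_lit 224)) (XT.lf (nat_lit 0) (nat_lit 44179639422) (nat_lit 456) (nat_lit 14252164250) (nat_lit 76) (nat_lit 14013600802) (nat_lit 270) (nat_lit 5) (nat_lit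 276) (nat_lit 5) (nat_lit 271) (nat_lit 5) (nat_lit 407) (nat_lit 390) (nat_lit 223))) (XT.nd (nat_lit 78) (nat_lit 0) (nat_lit 0) (XT.lf (nat_lit 0) (nat_lit 27664880884) (nat_lit 304) (nat_lit 27912236904) (nat_lit 380) (nat_lit 18897262542) (nat_lit 266) (nat_lit 5) (nat_lit 270) (nat_lit 5) (nat_lit 271) (nat_lit 5) (nat_lit 408) (nat_lit 390) (nat_lit 222)) (XT.lf (nat_lit 0) (nat_lit 67853381456) (nat_lit 380) (nat_lit 4489765119) (nat_lit 76) (nat_lit 4246212835) (nat_lit 266) (nat_lit 5) (nat_lit 271) (nat_lit 5) (nat_lit 267) (nat_lit 5) (nat_lit 409) (nat_lit 390) (nat_lit 221)))) (XT.nd (nat_lit 156) (nat_lit 304) (nat_lit 0) (XT.nd (nat_lit 78) (nat_lit 304) (nat_lit 0) (XT.lf (nat_lit 0) (nat_lit 2982987794) (nat_lit 380) (nat_lit 38010581588) (nat_lit 76) (nat_lit 37759433950) (nat_lit 261) (nat_lit 5) (nat_lit 266) (nat_lit 5) (nat_lit 262) (nat_lit 5) (nat_lit 410) (nat_lit 390)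 (nat_lit 220)) (XT.lf (nat_lit 0) (nat_lit 7464434927) (nat_lit 304) (nat_lit 7722816236) (nat_lit 380) (nat_lit 65820770877) (nat_lit 257) (nat_lit 5) (nat_lit 261) (nat_lit 5) (nat_lit 262) (nat_lit 5) (nat_lit 411) (nat_lit 390) (nat_lit 219))) (XT.nd (nat_lit 78) (nat_lit 304) (nat_lit 0) (XT.lf (nat_lit 0) (nat_lit 29079990071) (nat_lit 380) (nat_lit 27247263541) (nat_lit 76) (nat_lit 26994624951) (nat_lit 257) (nat_lit 5) (nat_lit 262) (nat_lit 5) (nat_lit 258) (nat_lit 5) (nat_lit 412) (nat_lit 390) (nat_lit 218)) (XT.lf (nat_lit 0) (nat_lit 21938388799) (nat_lit 304) (nat_lit 22197276105) (nat_lit 380) (nat_lit 41592348062) (nat_lit 253) (nat_lit 5) (nat_lit 257) (nat_lit 5) (nat_lit 258) (nat_lit 5) (nat_lit 413) (nat_lit 390) (nat_lit 217))))))))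
noncomputable def xc265 : XT := (XT.nd (nat_lit 2496) (nat_lit 2508) (nat_lit 0) (XT.nd (nat_lit 1248) (nat_lit 1824) (nat_lit 0) (XT.nd (nat_lit 624) (nat_lit 836) (nat_lit 0) (XT.nd (nat_lit 312) (nat_lit 760) (nat_lit 0) (XT.nd (nat_lit 156) (nat_lit 380) (nat_lit 0) (XT.nd (nat_lit 78) (nat_lit 228) (nat_lit 0) (XT.lf (nat_lit 0) (nat_lit 60625275121) (nat_lit 380) (nat_lit 13923674247) (nat_lit 76) (nat_lit 13671447137) (nat_lit 253) (nat_lit 5) (nat_lit 258) (nat_lit 5) (nat_lit 254) (nat_lit 5) (nat_lit 414) (nat_lit 390) (nat_lit 216)) (XT.lf (nat_lit 0) (nat_lit 39329453587) (nat_lit 228) (nat_lit 39587078574) (nat_lit 304) (nat_lit 11872008746) (nat_lit 250) (nat_lit 5) (nat_lit 253) (nat_lit 5) (nat_lit 254) (nat_lit 5) (nat_lit 415) (nat_lit 390) (nat_lit 215))) (XT.nd (nat_lit 78) (nat_lit 0) (nat_lit 0) (XT.lf (nat_lit 0) (nat_lit 2250057063) (nat_lit 304) (nat_lit 2512822884) (nat_lit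 380) (nat_lit 88704890466) (nat_lit 245) (nat_lit 5) (nat_lit 249) (nat_lit 5) (nat_lit 250) (nat_lit 5) (nat_lit 416) (nat_lit 390) (nat_lit 214)) (XT.lf (nat_lit 0) (nat_lit 23284107633) (nat_lit 380) (nat_lit 36584680031) (nat_lit 76) (nat_lit 36329763979) (nat_lit 245) (nat_lit 5) (nat_lit 250) (nat_lit 5) (nat_lit 246) (nat_lit 5) (nat_lit 417) (nat_lit 390) (nat_lit 213)))) (XT.nd (nat_lit 156) (nat_lit 532) (nat_lit 0) (XT.nd (nat_lit 78) (nat_lit 0) (nat_lit 0) (XT.lf (nat_lit 0) (nat_lit 21423504066) (nat_lit 228) (nat_lit 21682860965) (nat_lit 304) (nat_lit 55940758490) (nat_lit 242) (nat_lit 5) (nat_lit 245) (nat_lit 5) (nat_lit 246) (nat_lit 5) (nat_lit 418) (nat_lit 390) (nat_lit 212)) (XT.lf (nat_lit 0) (nat_lit 64836247614) (nat_lit 304) (nat_lit 18703542655) (nat_lit 76) (nat_lit 18452508106) (nat_lit 242) (nat_lit 5) (nat_lit 246) (nat_lit 5) (nat_lit 243) (nat_lit 5) (nat_lit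 419) (nat_lit 390) (nat_lit 211))) (XT.nd (nat_lit 78) (nat_lit 304) (nat_lit 0) (XT.lf (nat_lit 0) (nat_lit 44221486049) (nat_lit 228) (nat_lit 44476356767) (nat_lit 304) (nat_lit 16334628232) (nat_lit 239) (nat_lit 5) (nat_lit 242) (nat_lit 5) (nat_lit 243) (nat_lit 5) (nat_lit 420) (nat_lit 390) (nat_lit 210)) (XT.lf (nat_lit 0) (nat_lit 2728150932) (nat_lit 228) (nat_lit 2986675146) (nat_lit 304) (nat_lit 102487316659) (nat_lit 235) (nat_lit 5) (nat_lit 238) (nat_lit 5) (nat_lit 239) (nat_lit 5) (nat_lit 421) (nat_lit 390) (nat_lit 209))))) (XT.nd (nat_lit 312) (nat_lit 456) (nat_lit 0) (XT.nd (nat_lit 156) (nat_lit 152) (nat_lit 0) (XT.nd (nat_lit 78) (nat_lit 228) (nat_lit 0) (XT.lf (nat_lit 0) (nat_lit 29997435275) (nat_lit 304) (nat_lit 40842509711) (nat_lit 76) (nat_lit 40592982347) (nat_lit 235) (nat_lit 5) (nat_lit 239) (nat_lit 5) (nat_lit 236) (nat_lit 5) (nat_lit 422) (nat_lit 390)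 (nat_lit 208)) (XT.lf (nat_lit 0) (nat_lit 27862426268) (nat_lit 228) (nat_lit 28115109660) (nat_lit 304) (nat_lit 58823547180) (nat_lit 232) (nat_lit 5) (nat_lit 235) (nat_lit 5) (nat_lit 236) (nat_lit 5) (nat_lit 423) (nat_lit 390) (nat_lit 207))) (XT.nd (nat_lit 78) (nat_lit 152) (nat_lit 0) (XT.lf (nat_lit 0) (nat_lit 84220518315) (nat_lit 304) (nat_lit 17156223989) (nat_lit 76) (nat_lit 16912710531) (nat_lit 232) (nat_lit 5) (nat_lit 236) (nat_lit 5) (nat_lit 233) (nat_lit 5) (nat_lit 424) (nat_lit 390) (nat_lit 206)) (XT.lf (nat_lit 0) (nat_lit 57493689089) (nat_lit 152) (nat_lit 57739928842) (nat_lit 228) (nat_lit 6650724714) (nat_lit 230) (nat_lit 5) (nat_lit 232) (nat_lit 5) (nat_lit 233) (nat_lit 5) (nat_lit 425) (nat_lit 390) (nat_lit 205)))) (XT.nd (nat_lit 156) (nat_lit 152) (nat_lit 0) (XT.nd (nat_lit 78) (nat_lit 0) (nat_lit 0) (XT.lf (nat_lit 0) (nat_lit 10822351577) (nat_lit 228)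 (nat_lit 11071187801) (nat_lit 304) (nat_lit 103724969911) (nat_lit 226) (nat_lit 5) (nat_lit 229) (nat_lit 5) (nat_lit 230) (nat_lit 5) (nat_lit 426) (nat_lit 390) (nat_lit 204)) (XT.lf (nat_lit 0) (nat_lit 53341521020) (nat_lit 304) (nat_lit 38173376586) (nat_lit 76) (nat_lit 37934034631) (nat_lit 226) (nat_lit 5) (nat_lit 230) (nat_lit 5) (nat_lit 227) (nat_lit 5) (nat_lit 427) (nat_lit 390) (nat_lit 203))) (XT.nd (nat_lit 78) (nat_lit 0) (nat_lit 0) (XT.lf (nat_lit 0) (nat_lit 43490140469) (nat_lit 152) (nat_lit 43731725353) (nat_lit 228) (nat_lit 46206012306) (nat_lit 224) (nat_lit 5) (nat_lit 226) (nat_lit 5) (nat_lit 227) (nat_lit 5) (nat_lit 428) (nat_lit 390) (nat_lit 202)) (XT.lf (nat_lit 0) (nat_lit 123553339711) (nat_lit 228) (nat_lit 7123345628) (nat_lit 76) (nat_lit 6891230383) (nat_lit 224) (nat_lit 5) (nat_lit 227) (nat_lit 5) (nat_lit 225) (nat_lit 5) (nat_lit 429) (nat_lit 390)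 (nat_lit 201)))))) (XT.nd (nat_lit 624) (nat_lit 912) (nat_lit 0) (XT.nd (nat_lit 312) (nat_lit 380) (nat_lit 0) (XT.nd (nat_lit 156) (nat_lit 152) (nat_lit 0) (XT.nd (nat_lit 78) (nat_lit 152) (nat_lit 0) (XT.lf (nat_lit 0) (nat_lit 21178250195) (nat_lit 228) (nat_lit 60427028157) (nat_lit 76) (nat_lit 60192975385) (nat_lit 221) (nat_lit 5) (nat_lit 224) (nat_lit 5) (nat_lit 222) (nat_lit 5) (nat_lit 430) (nat_lit 390) (nat_lit 200)) (XT.lf (nat_lit 0) (nat_lit 28999357826) (nat_lit 152) (nat_lit 29235255861) (nat_lit 228) (nat_lit 87965263727) (nat_lit 219) (nat_lit 5) (nat_lit 221) (nat_lit 5) (nat_lit 222) (nat_lit 5) (nat_lit 431) (nat_lit 390) (nat_lit 199))) (XT.nd (nat_lit 78) (nat_lit 152) (nat_lit 0) (XT.lf (nat_lit 0) (nat_lit 98585520590) (nat_lit 228) (nat_lit 26195156964) (nat_lit 76) (nat_lit 25968818460) (nat_lit 219) (nat_lit 5) (nat_lit 222) (nat_lit 5) (nat_lit 220) (nat_lit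 5) (nat_lit 432) (nat_lit 390) (nat_lit 198)) (XT.lf (nat_lit 0) (nat_lit 71157905898) (nat_lit 152) (nat_lit 71385838410) (nat_lit 228) (nat_lit 12903362662) (nat_lit 217) (nat_lit 5) (nat_lit 219) (nat_lit 5) (nat_lit 220) (nat_lit 5) (nat_lit 433) (nat_lit 390) (nat_lit 197)))) (XT.nd (nat_lit 156) (nat_lit 152) (nat_lit 0) (XT.nd (nat_lit 78) (nat_lit 0) (nat_lit 0) (XT.lf (nat_lit 0) (nat_lit 13926131832) (nat_lit 152) (nat_lit 14155582446) (nat_lit 228) (nat_lit 132242383279) (nat_lit 214) (nat_lit 5) (nat_lit 216) (nat_lit 5) (nat_lit 217) (nat_lit 5) (nat_lit 434) (nat_lit 390) (nat_lit 196)) (XT.lf (nat_lit 0) (nat_lit 72850017708) (nat_lit 228) (nat_lit 46347932143) (nat_lit 76) (nat_lit 46128030784) (nat_lit 214) (nat_lit 5) (nat_lit 217) (nat_lit 5) (nat_lit 215) (nat_lit 5) (nat_lit 435) (nat_lit 390) (nat_lit 195))) (XT.nd (nat_lit 78) (nat_lit 0) (nat_lit 0) (XT.lf (nat_lit 0) (nat_lit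 60405117702) (nat_lit 152) (nat_lit 60626330455) (nat_lit 228) (nat_lit 49487774117) (nat_lit 212) (nat_lit 5) (nat_lit 214) (nat_lit 5) (nat_lit 215) (nat_lit 5) (nat_lit 436) (nat_lit 390) (nat_lit 194)) (XT.lf (nat_lit 0) (nat_lit 172432950005) (nat_lit 228) (nat_lit 1855247141) (nat_lit 76) (nat_lit 1643378855) (nat_lit 212) (nat_lit 5) (nat_lit 215) (nat_lit 5) (nat_lit 213) (nat_lit 4) (nat_lit 437) (nat_lit 390) (nat_lit 193))))) (XT.nd (nat_lit 312) (nat_lit 456) (nat_lit 0) (XT.nd (nat_lit 156) (nat_lit 152) (nat_lit 0) (XT.nd (nat_lit 78) (nat_lit 152) (nat_lit 0) (XT.lf (nat_lit 0) (nat_lit 46182918931) (nat_lit 152) (nat_lit 67734169911) (nat_lit 76) (nat_lit 67521168794) (nat_lit 210) (nat_lit 5) (nat_lit 212) (nat_lit 5) (nat_lit 211) (nat_lit 5) (nat_lit 438) (nat_lit 390) (nat_lit 192)) (XT.lf (nat_lit 0) (nat_lit 49409916395) (nat_lit 152) (nat_lit 49623996399) (nat_lit 228) (nat_lit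 88143345410) (nat_lit 208) (nat_lit 5) (nat_lit 210) (nat_lit 5) (nat_lit 211) (nat_lit 5) (nat_lit 439) (nat_lit 390) (nat_lit 191))) (XT.nd (nat_lit 78) (nat_lit 152) (nat_lit 0) (XT.lf (nat_lit 0) (nat_lit 155972177845) (nat_lit 228) (nat_lit 18681829590) (nat_lit 76) (nat_lit 18476965289) (nat_lit 208) (nat_lit 5) (nat_lit 211) (nat_lit 5) (nat_lit 209) (nat_lit 4) (nat_lit 440) (nat_lit 390) (nat_lit 190)) (XT.lf (nat_lit 0) (nat_lit 18407554227) (nat_lit 152) (nat_lit 90519999211) (nat_lit 76) (nat_lit 90314202926) (nat_lit 206) (nat_lit 5) (nat_lit 208) (nat_lit 5) (nat_lit 207) (nat_lit 5) (nat_lit 441) (nat_lit 390) (nat_lit 189)))) (XT.nd (nat_lit 156) (nat_lit 304) (nat_lit 0) (XT.nd (nat_lit 78) (nat_lit 0) (nat_lit 0) (XT.lf (nat_lit 0) (nat_lit 38106444803) (nat_lit 152) (nat_lit 38313128690) (nat_lit 228) (nat_lit 129162241070) (nat_lit 204) (nat_lit 5) (nat_lit 206) (nat_lit 5)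 (nat_lit 207) (nat_lit 5) (nat_lit 442) (nat_lit 390) (nat_lit 188)) (XT.lf (nat_lit 0) (nat_lit 139449376844) (nat_lit 228) (nat_lit 36440643276) (nat_lit 76) (nat_lit 36242996396) (nat_lit 204) (nat_lit 5) (nat_lit 207) (nat_lit 5) (nat_lit 205) (nat_lit 4) (nat_lit 443) (nat_lit 390) (nat_lit 187))) (XT.nd (nat_lit 78) (nat_lit 228) (nat_lit 0) (XT.lf (nat_lit 0) (nat_lit 103840607942) (nat_lit 76) (nat_lit 104039021567) (nat_lit 152) (nat_lit 11019701101) (nat_lit 203) (nat_lit 5) (nat_lit 204) (nat_lit 5) (nat_lit 205) (nat_lit 4) (nat_lit 444) (nat_lit 390) (nat_lit 186)) (XT.lf (nat_lit 0) (nat_lit 26424060556) (nat_lit 152) (nat_lit 26623204415) (nat_lit 228) (nat_lit 172862781444) (nat_lit 200) (nat_lit 5) (nat_lit 202) (nat_lit 5) (nat_lit 203) (nat_lit 5) (nat_lit 445) (nat_lit 390) (nat_lit 185))))))) (XT.nd (nat_lit 1248) (nat_lit 1216) (nat_lit 0) (XT.nd (nat_lit 624) (nat_lit 608)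 (nat_lit 0) (XT.nd (nat_lit 312) (nat_lit 380) (nat_lit 0) (XT.nd (nat_lit 156) (nat_lit 228) (nat_lit 0) (XT.nd (nat_lit 78) (nat_lit 76) (nat_lit 0) (XT.lf (nat_lit 0) (nat_lit 122780848730) (nat_lit 228) (nat_lit 55265029861) (nat_lit 76) (nat_lit 55074706700) (nat_lit 200) (nat_lit 5) (nat_lit 203) (nat_lit 5) (nat_lit 201) (nat_lit 4) (nat_lit 446) (nat_lit 390) (nat_lit 184)) (XT.lf (nat_lit 0) (nat_lit 98895143527) (nat_lit 76) (nat_lit 99086097491) (nat_lit 152) (nat_lit 42611403624) (nat_lit 199) (nat_lit 5) (nat_lit 200) (nat_lit 5) (nat_lit 201) (nat_lit 4) (nat_lit 447) (nat_lit 390) (nat_lit 183))) (XT.nd (nat_lit 78) (nat_lit 0) (nat_lit 0) (XT.lf (nat_lit 0) (nat_lit 14286749846) (nat_lit 152) (nat_lit 14478304575) (nat_lit 228) (nat_lit 219592302008) (nat_lit 196) (nat_lit 5) (nat_lit 198) (nat_lit 5) (nat_lit 199) (nat_lit 5) (nat_lit 448) (nat_lit 390) (nat_lit 182)) (XT.lf (nat_lit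 0) (nat_lit 105877990136) (nat_lit 228) (nat_lit 75300190204) (nat_lit 76) (nat_lit 75117212217) (nat_lit 196) (nat_lit 5) (nat_lit 199) (nat_lit 5) (nat_lit 197) (nat_lit 4) (nat_lit 449) (nat_lit 390) (nat_lit 181)))) (XT.nd (nat_lit 156) (nat_lit 76) (nat_lit 0) (XT.nd (nat_lit 78) (nat_lit 228) (nat_lit 0) (XT.lf (nat_lit 0) (nat_lit 94185296838) (nat_lit 76) (nat_lit 94368793788) (nat_lit 152) (nat_lit 75990863966) (nat_lit 195) (nat_lit 5) (nat_lit 196) (nat_lit 5) (nat_lit 197) (nat_lit 4) (nat_lit 450) (nat_lit 390) (nat_lit 180)) (XT.lf (nat_lit 0) (nat_lit 1612486031) (nat_lit 152) (nat_lit 1796477232) (nat_lit 228) (nat_lit 269730297655) (nat_lit 192) (nat_lit 5) (nat_lit 194) (nat_lit 5) (nat_lit 195) (nat_lit 5) (nat_lit 451) (nat_lit 390) (nat_lit 179))) (XT.nd (nat_lit 78) (nat_lit 76) (nat_lit 0) (XT.lf (nat_lit 0) (nat_lit 88646616452) (nat_lit 228) (nat_lit 96704487617) (nat_lit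 76) (nat_lit 96528809603) (nat_lit 192) (nat_lit 5) (nat_lit 195) (nat_lit 5) (nat_lit 193) (nat_lit 4) (nat_lit 452) (nat_lit 390) (nat_lit 178)) (XT.lf (nat_lit 0) (nat_lit 89699826811) (nat_lit 76) (nat_lit 89875931778) (nat_lit 152) (nat_lit 111410360160) (nat_lit 191) (nat_lit 5) (nat_lit 192) (nat_lit 5) (nat_lit 193) (nat_lit 4) (nat_lit 453) (nat_lit 390) (nat_lit 177))))) (XT.nd (nat_lit 312) (nat_lit 380) (nat_lit 0) (XT.nd (nat_lit 156) (nat_lit 76) (nat_lit 0) (XT.nd (nat_lit 78) (nat_lit 152) (nat_lit 0) (XT.lf (nat_lit 0) (nat_lit 276877586360) (nat_lit 152) (nat_lit 11873421284) (nat_lit 0) (nat_lit 11705315009) (nat_lit 191) (nat_lit 5) (nat_lit 193) (nat_lit 4) (nat_lit 191) (nat_lit 4) (nat_lit 454) (nat_lit 390) (nat_lit 176)) (XT.lf (nat_lit 0) (nat_lit 70986224349) (nat_lit 152) (nat_lit 119650880253) (nat_lit 76) (nat_lit 119482405161) (nat_lit 189) (nat_lit 5) (nat_lit 191)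 (nat_lit 5) (nat_lit 190) (nat_lit 4) (nat_lit 455) (nat_lit 390) (nat_lit 175))) (XT.nd (nat_lit 78) (nat_lit 0) (nat_lit 0) (XT.lf (nat_lit 0) (nat_lit 85428031423) (nat_lit 76) (nat_lit 85596857770) (nat_lit 152) (nat_lit 149144747384) (nat_lit 188) (nat_lit 5) (nat_lit 189) (nat_lit 5) (nat_lit 190) (nat_lit 4) (nat_lit 456) (nat_lit 390) (nat_lit 174)) (XT.lf (nat_lit 0) (nat_lit 278510323913) (nat_lit 152) (nat_lit 26125404792) (nat_lit 0) (nat_lit 25964299197) (nat_lit 188) (nat_lit 5) (nat_lit 190) (nat_lit 4) (nat_lit 188) (nat_lit 4) (nat_lit 457) (nat_lit 390) (nat_lit 173)))) (XT.nd (nat_lit 156) (nat_lit 152) (nat_lit 0) (XT.nd (nat_lit 78) (nat_lit 76) (nat_lit 0) (XT.lf (nat_lit 0) (nat_lit 52789186359) (nat_lit 152) (nat_lit 144328496106) (nat_lit 76) (nat_lit 144167087084) (nat_lit 186) (nat_lit 5) (nat_lit 188) (nat_lit 5) (nat_lit 187) (nat_lit 4) (nat_lit 458) (nat_lit 390)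 (nat_lit 172)) (XT.lf (nat_lit 0) (nat_lit 81359721361) (nat_lit 76) (nat_lit 81521419361) (nat_lit 152) (nat_lit 189493927321) (nat_lit 185) (nat_lit 5) (nat_lit 186) (nat_lit 5) (nat_lit 187) (nat_lit 4) (nat_lit 459) (nat_lit 390) (nat_lit 171))) (XT.nd (nat_lit 78) (nat_lit 152) (nat_lit 0) (XT.lf (nat_lit 0) (nat_lit 281584001832) (nat_lit 152) (nat_lit 41217412194) (nat_lit 0) (nat_lit 41063151986) (nat_lit 185) (nat_lit 5) (nat_lit 187) (nat_lit 4) (nat_lit 185) (nat_lit 4) (nat_lit 460) (nat_lit 390) (nat_lit 170)) (XT.lf (nat_lit 0) (nat_lit 33939870223) (nat_lit 152) (nat_lit 170944365518) (nat_lit 76) (nat_lit 170789855680) (nat_lit 183) (nat_lit 5) (nat_lit 185) (nat_lit 5) (nat_lit 184) (nat_lit 4) (nat_lit 461) (nat_lit 390) (nat_lit 169)))))) (XT.nd (nat_lit 624) (nat_lit 684) (nat_lit 0) (XT.nd (nat_lit 312) (nat_lit 228) (nat_lit 0) (XT.nd (nat_lit 156) (nat_lit 228) (nat_lit 0)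 (XT.nd (nat_lit 78) (nat_lit 0) (nat_lit 0) (XT.lf (nat_lit 0) (nat_lit 77485195057) (nat_lit 76) (nat_lit 77639942638) (nat_lit 152) (nat_lit 232785563427) (nat_lit 182) (nat_lit 5) (nat_lit 183) (nat_lit 5) (nat_lit 184) (nat_lit 4) (nat_lit 462) (nat_lit 390) (nat_lit 168)) (XT.lf (nat_lit 0) (nat_lit 286185685949) (nat_lit 152) (nat_lit 57265124389) (nat_lit 0) (nat_lit 57117530100) (nat_lit 182) (nat_lit 5) (nat_lit 184) (nat_lit 4) (nat_lit 182) (nat_lit 4) (nat_lit 463) (nat_lit 390) (nat_lit 167))) (XT.nd (nat_lit 78) (nat_lit 76) (nat_lit 0) (XT.lf (nat_lit 0) (nat_lit 14313674978) (nat_lit 152) (nat_lit 199725327515) (nat_lit 76) (nat_lit 199577527855) (nat_lit 180) (nat_lit 5) (nat_lit 182) (nat_lit 5) (nat_lit 181) (nat_lit 4) (nat_lit 464) (nat_lit 390) (nat_lit 166)) (XT.lf (nat_lit 0) (nat_lit 73795215015) (nat_lit 76) (nat_lit 73943210266) (nat_lit 152) (nat_lit 279378067617) (nat_lit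 179) (nat_lit 5) (nat_lit 180) (nat_lit 5) (nat_lit 181) (nat_lit 4) (nat_lit 465) (nat_lit 390) (nat_lit 165)))) (XT.nd (nat_lit 156) (nat_lit 152) (nat_lit 0) (XT.nd (nat_lit 78) (nat_lit 76) (nat_lit 0) (XT.lf (nat_lit 0) (nat_lit 292414250614) (nat_lit 152) (nat_lit 74394668175) (nat_lit 0) (nat_lit 74253542910) (nat_lit 179) (nat_lit 5) (nat_lit 181) (nat_lit 4) (nat_lit 179) (nat_lit 4) (nat_lit 466) (nat_lit 390) (nat_lit 164)) (XT.lf (nat_lit 0) (nat_lit 224449401872) (nat_lit 76) (nat_lit 224590696098) (nat_lit 76) (nat_lit 6429819433) (nat_lit 178) (nat_lit 4) (nat_lit 179) (nat_lit 5) (nat_lit 179) (nat_lit 4) (nat_lit 467) (nat_lit 390) (nat_lit 163))) (XT.nd (nat_lit 78) (nat_lit 0) (nat_lit 0) (XT.lf (nat_lit 0) (nat_lit 70280985336) (nat_lit 76) (nat_lit 70422440475) (nat_lit 152) (nat_lit 329663886496) (nat_lit 176) (nat_lit 5) (nat_lit 177) (nat_lit 5) (nat_lit 178) (nat_lit 4)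 (nat_lit 468) (nat_lit 390) (nat_lit 162)) (XT.lf (nat_lit 0) (nat_lit 300381452239) (nat_lit 152) (nat_lit 92743754678) (nat_lit 0) (nat_lit 92608889544) (nat_lit 176) (nat_lit 5) (nat_lit 178) (nat_lit 4) (nat_lit 176) (nat_lit 4) (nat_lit 469) (nat_lit 390) (nat_lit 161))))) (XT.nd (nat_lit 312) (nat_lit 380) (nat_lit 0) (XT.nd (nat_lit 156) (nat_lit 76) (nat_lit 0) (XT.nd (nat_lit 78) (nat_lit 152) (nat_lit 0) (XT.lf (nat_lit 0) (nat_lit 236376558722) (nat_lit 76) (nat_lit 236511562860) (nat_lit 76) (nat_lit 28738861161) (nat_lit 175) (nat_lit 4) (nat_lit 176) (nat_lit 5) (nat_lit 176) (nat_lit 4) (nat_lit 470) (nat_lit 390) (nat_lit 160)) (XT.lf (nat_lit 0) (nat_lit 66934130391) (nat_lit 76) (nat_lit 67069266912) (nat_lit 152) (nat_lit 384073118126) (nat_lit 173) (nat_lit 5) (nat_lit 174) (nat_lit 5) (nat_lit 175) (nat_lit 4) (nat_lit 471) (nat_lit 390) (nat_lit 159))) (XT.nd (nat_lit 78)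 (nat_lit 76) (nat_lit 0) (XT.lf (nat_lit 0) (nat_lit 310213119299) (nat_lit 152) (nat_lit 112462931146) (nat_lit 0) (nat_lit 112334109621) (nat_lit 173) (nat_lit 5) (nat_lit 175) (nat_lit 4) (nat_lit 173) (nat_lit 4) (nat_lit 472) (nat_lit 390) (nat_lit 158)) (XT.lf (nat_lit 0) (nat_lit 250053857671) (nat_lit 76) (nat_lit 250182793555) (nat_lit 76) (nat_lit 52303669518) (nat_lit 172) (nat_lit 4) (nat_lit 173) (nat_lit 5) (nat_lit 173) (nat_lit 4) (nat_lit 473) (nat_lit 390) (nat_lit 157)))) (XT.nd (nat_lit 156) (nat_lit 228) (nat_lit 0) (XT.nd (nat_lit 78) (nat_lit 0) (nat_lit 0) (XT.lf (nat_lit 0) (nat_lit 63746674553) (nat_lit 76) (nat_lit 63875719350) (nat_lit 152) (nat_lit 443077493489) (nat_lit 170) (nat_lit 5) (nat_lit 171) (nat_lit 5) (nat_lit 172) (nat_lit 4) (nat_lit 474) (nat_lit 390) (nat_lit 156)) (XT.lf (nat_lit 0) (nat_lit 322050470450) (nat_lit 152) (nat_lit 133716957923) (nat_lit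 0) (nat_lit 133593959330) (nat_lit 170) (nat_lit 5) (nat_lit 172) (nat_lit 4) (nat_lit 170) (nat_lit 4) (nat_lit 475) (nat_lit 390) (nat_lit 155))) (XT.nd (nat_lit 78) (nat_lit 152) (nat_lit 0) (XT.lf (nat_lit 0) (nat_lit 265635556705) (nat_lit 76) (nat_lit 265758649382) (nat_lit 76) (nat_lit 77302044178) (nat_lit 169) (nat_lit 4) (nat_lit 170) (nat_lit 5) (nat_lit 170) (nat_lit 4) (nat_lit 476) (nat_lit 390) (nat_lit 154)) (XT.lf (nat_lit 0) (nat_lit 60711022946) (nat_lit 76) (nat_lit 60834205225) (nat_lit 152) (nat_lit 507194760307) (nat_lit 167) (nat_lit 5) (nat_lit 168) (nat_lit 5) (nat_lit 169) (nat_lit 4) (nat_lit 477) (nat_lit 390) (nat_lit 153))))))))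
noncomputable def xc266 : XT := (XT.nd (nat_lit 48048) (nat_lit 0) (nat_lit 3496) (XT.nd (nat_lit 46800) (nat_lit 0) (nat_lit 7524) (XT.nd (nat_lit 624) (nat_lit 152) (nat_lit 0) (XT.nd (nat_lit 312) (nat_lit 304) (nat_lit 0) (XT.nd (nat_lit 156) (nat_lit 152) (nat_lit 0) (XT.nd (nat_lit 78) (nat_lit 76) (nat_lit 0) (XT.lf (nat_lit 0) (nat_lit 336051573599) (nat_lit 152) (nat_lit 156686323574) (nat_lit 0) (nat_lit 156568925845) (nat_lit 167) (nat_lit 5) (nat_lit 169) (nat_lit 4) (nat_lit 167) (nat_lit 4) (nat_lit 478) (nat_lit 390) (nat_lit 152)) (XT.lf (nat_lit 0) (nat_lit 283292923302) (nat_lit 76) (nat_lit 283410398434) (nat_lit 76) (nat_lit 103927673277) (nat_lit 166) (nat_lit 4) (nat_lit 167) (nat_lit 5) (nat_lit 167) (nat_lit 4) (nat_lit 479) (nat_lit 390) (nat_lit 151))) (XT.nd (nat_lit 78) (nat_lit 0) (nat_lit 0) (XT.lf (nat_lit 0) (nat_lit 57819943140) (nat_lit 76) (nat_lit 57937491988)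 (nat_lit 152) (nat_lit 576993510708) (nat_lit 164) (nat_lit 5) (nat_lit 165) (nat_lit 5) (nat_lit 166) (nat_lit 4) (nat_lit 480) (nat_lit 390) (nat_lit 150)) (XT.lf (nat_lit 0) (nat_lit 352392960130) (nat_lit 152) (nat_lit 181568912487) (nat_lit 0) (nat_lit 181456894340) (nat_lit 164) (nat_lit 5) (nat_lit 166) (nat_lit 4) (nat_lit 164) (nat_lit 4) (nat_lit 481) (nat_lit 390) (nat_lit 149)))) (XT.nd (nat_lit 156) (nat_lit 76) (nat_lit 0) (XT.nd (nat_lit 78) (nat_lit 152) (nat_lit 0) (XT.lf (nat_lit 0) (nat_lit 303215920623) (nat_lit 76) (nat_lit 303328002449) (nat_lit 76) (nat_lit 132391872980) (nat_lit 163) (nat_lit 4) (nat_lit 164) (nat_lit 5) (nat_lit 164) (nat_lit 4) (nat_lit 482) (nat_lit 390) (nat_lit 148)) (XT.lf (nat_lit 0) (nat_lit 55066547757) (nat_lit 76) (nat_lit 55178690229) (nat_lit 152) (nat_lit 653098498503) (nat_lit 161) (nat_lit 5) (nat_lit 162) (nat_lit 5) (nat_lit 163) (nat_lit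 4) (nat_lit 483) (nat_lit 390) (nat_lit 147))) (XT.nd (nat_lit 78) (nat_lit 76) (nat_lit 0) (XT.lf (nat_lit 0) (nat_lit 371271409909) (nat_lit 152) (nat_lit 208581840725) (nat_lit 0) (nat_lit 208474983362) (nat_lit 161) (nat_lit 5) (nat_lit 163) (nat_lit 4) (nat_lit 161) (nat_lit 4) (nat_lit 484) (nat_lit 390) (nat_lit 146)) (XT.lf (nat_lit 0) (nat_lit 325615069304) (nat_lit 76) (nat_lit 325721979056) (nat_lit 76) (nat_lit 162925500120) (nat_lit 160) (nat_lit 4) (nat_lit 161) (nat_lit 5) (nat_lit 161) (nat_lit 4) (nat_lit 485) (nat_lit 390) (nat_lit 145))))) (XT.nd (nat_lit 45864) (nat_lit 0) (nat_lit 10260) (XT.nd (nat_lit 45708) (nat_lit 0) (nat_lit 10184) (XT.nd (nat_lit 78) (nat_lit 0) (nat_lit 0) (XT.lf (nat_lit 0) (nat_lit 52444277921) (nat_lit 76) (nat_lit 52551237567) (nat_lit 152) (nat_lit 736196496477) (nat_lit 158) (nat_lit 5) (nat_lit 159) (nat_lit 5) (nat_lit 160) (nat_lit 4) (nat_lit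 486) (nat_lit 390) (nat_lit 144)) (XT.lf (nat_lit 0) (nat_lit 392905924340) (nat_lit 152) (nat_lit 237963477498) (nat_lit 0) (nat_lit 237861565913) (nat_lit 158) (nat_lit 5) (nat_lit 160) (nat_lit 4) (nat_lit 158) (nat_lit 4) (nat_lit 487) (nat_lit 390) (nat_lit 143))) (XT.nd (nat_lit 78) (nat_lit 0) (nat_lit 0) (XT.lf (nat_lit 0) (nat_lit 11301513852) (nat_lit 836) (nat_lit 6567616995) (nat_lit 836) (nat_lit 6567616995) (nat_lit 292) (nat_lit 3) (nat_lit 303) (nat_lit 3) (nat_lit 303) (nat_lit 5) (nat_lit 391) (nat_lit 391) (nat_lit 238)) (XT.lf (nat_lit 76) (nat_lit 11675192939) (nat_lit 0) (nat_lit 11702199533) (nat_lit 836) (nat_lit 26707476150) (nat_lit 293) (nat_lit 5) (nat_lit 292) (nat_lit 3) (nat_lit 303) (nat_lit 5) (nat_lit 392) (nat_lit 391) (nat_lit 237)))) (XT.nd (nat_lit 156) (nat_lit 0) (nat_lit 76) (XT.nd (nat_lit 78) (nat_lit 0) (nat_lit 0) (XT.lf (nat_lit 0) (nat_lit 24626172628)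 (nat_lit 760) (nat_lit 13379534533) (nat_lit 836) (nat_lit 13329318190) (nat_lit 293) (nat_lit 5) (nat_lit 303) (nat_lit 5) (nat_lit 304) (nat_lit 5) (nat_lit 393) (nat_lit 391) (nat_lit 236)) (XT.lf (nat_lit 76) (nat_lit 13129512783) (nat_lit 0) (nat_lit 13203058436) (nat_lit 836) (nat_lit 26295359724) (nat_lit 294) (nat_lit 5) (nat_lit 293) (nat_lit 5) (nat_lit 304) (nat_lit 5) (nat_lit 394) (nat_lit 391) (nat_lit 235))) (XT.nd (nat_lit 78) (nat_lit 0) (nat_lit 0) (XT.lf (nat_lit 0) (nat_lit 28553481752) (nat_lit 760) (nat_lit 12750872158) (nat_lit 836) (nat_lit 12659668305) (nat_lit 294) (nat_lit 5) (nat_lit 304) (nat_lit 5) (nat_lit 305) (nat_lit 5) (nat_lit 395) (nat_lit 391) (nat_lit 234)) (XT.lf (nat_lit 76) (nat_lit 15616420202) (nat_lit 0) (nat_lit 15727776791) (nat_lit 836) (nat_lit 23999783098) (nat_lit 295) (nat_lit 5) (nat_lit 294) (nat_lit 5) (nat_lit 305) (nat_lit 5) (nat_lit 396)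 (nat_lit 391) (nat_lit 233)))))) (XT.nd (nat_lit 624) (nat_lit 1748) (nat_lit 0) (XT.nd (nat_lit 312) (nat_lit 1140) (nat_lit 0) (XT.nd (nat_lit 156) (nat_lit 0) (nat_lit 76) (XT.nd (nat_lit 78) (nat_lit 0) (nat_lit 0) (XT.lf (nat_lit 0) (nat_lit 34666226183) (nat_lit 760) (nat_lit 11115726895) (nat_lit 836) (nat_lit 10991393874) (nat_lit 295) (nat_lit 5) (nat_lit 305) (nat_lit 5) (nat_lit 306) (nat_lit 5) (nat_lit 397) (nat_lit 391) (nat_lit 232)) (XT.lf (nat_lit 76) (nat_lit 19285086353) (nat_lit 0) (nat_lit 19426828065) (nat_lit 836) (nat_lit 19534389859) (nat_lit 296) (nat_lit 5) (nat_lit 295) (nat_lit 5) (nat_lit 306) (nat_lit 5) (nat_lit 398) (nat_lit 391) (nat_lit 231))) (XT.nd (nat_lit 78) (nat_lit 0) (nat_lit 0) (XT.lf (nat_lit 0) (nat_lit 43278652676) (nat_lit 760) (nat_lit 8324550407) (nat_lit 836) (nat_lit 8173768104) (nat_lit 296) (nat_lit 5) (nat_lit 306) (nat_lit 5) (nat_lit 307)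 (nat_lit 5) (nat_lit 399) (nat_lit 391) (nat_lit 230)) (XT.lf (nat_lit 76) (nat_lit 24302277219) (nat_lit 0) (nat_lit 24468097804) (nat_lit 836) (nat_lit 12578964061) (nat_lit 297) (nat_lit 5) (nat_lit 296) (nat_lit 5) (nat_lit 307) (nat_lit 5) (nat_lit 400) (nat_lit 391) (nat_lit 229)))) (XT.nd (nat_lit 156) (nat_lit 532) (nat_lit 0) (XT.nd (nat_lit 78) (nat_lit 760) (nat_lit 0) (XT.lf (nat_lit 0) (nat_lit 54741592061) (nat_lit 760) (nat_lit 4210026209) (nat_lit 76) (nat_lit 4038461677) (nat_lit 297) (nat_lit 5) (nat_lit 307) (nat_lit 5) (nat_lit 298) (nat_lit 5) (nat_lit 401) (nat_lit 391) (nat_lit 228)) (XT.lf (nat_lit 0) (nat_lit 30854252396) (nat_lit 760) (nat_lit 31038807561) (nat_lit 836) (nat_lit 2775713396) (nat_lit 287) (nat_lit 5) (nat_lit 297) (nat_lit 5) (nat_lit 298) (nat_lit 5) (nat_lit 402) (nat_lit 391) (nat_lit 227))) (XT.nd (nat_lit 78) (nat_lit 0) (nat_lit 0) (XT.lf (nat_lit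 0) (nat_lit 1385834596) (nat_lit 456) (nat_lit 1582761793) (nat_lit 532) (nat_lit 63455837117) (nat_lit 280) (nat_lit 5) (nat_lit 286) (nat_lit 5) (nat_lit 287) (nat_lit 5) (nat_lit 403) (nat_lit 391) (nat_lit 226)) (XT.lf (nat_lit 0) (nat_lit 9945979120) (nat_lit 532) (nat_lit 29233218450) (nat_lit 76) (nat_lit 29034446941) (nat_lit 280) (nat_lit 5) (nat_lit 287) (nat_lit 5) (nat_lit 281) (nat_lit 5) (nat_lit 404) (nat_lit 391) (nat_lit 225))))) (XT.nd (nat_lit 312) (nat_lit 988) (nat_lit 0) (XT.nd (nat_lit 156) (nat_lit 380) (nat_lit 0) (XT.nd (nat_lit 78) (nat_lit 0) (nat_lit 0) (XT.lf (nat_lit 0) (nat_lit 8611062677) (nat_lit 380) (nat_lit 8820521612) (nat_lit 456) (nat_lit 52652764110) (nat_lit 275) (nat_lit 5) (nat_lit 280) (nat_lit 5) (nat_lit 281) (nat_lit 5) (nat_lit 405) (nat_lit 391) (nat_lit 224)) (XT.lf (nat_lit 0) (nat_lit 26153631574) (nat_lit 456) (nat_lit 23030513164) (nat_lit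 76) (nat_lit 22821334653) (nat_lit 275) (nat_lit 5) (nat_lit 281) (nat_lit 5) (nat_lit 276) (nat_lit 5) (nat_lit 406) (nat_lit 391) (nat_lit 223))) (XT.nd (nat_lit 78) (nat_lit 0) (nat_lit 0) (XT.lf (nat_lit 0) (nat_lit 17757126226) (nat_lit 380) (nat_lit 17975536938) (nat_lit 456) (nat_lit 38268959670) (nat_lit 270) (nat_lit 5) (nat_lit 275) (nat_lit 5) (nat_lit 276) (nat_lit 5) (nat_lit 407) (nat_lit 391) (nat_lit 222)) (XT.lf (nat_lit 0) (nat_lit 46417114784) (nat_lit 456) (nat_lit 14932759662) (nat_lit 76) (nat_lit 14716375582) (nat_lit 270) (nat_lit 5) (nat_lit 276) (nat_lit 5) (nat_lit 271) (nat_lit 5) (nat_lit 408) (nat_lit 391) (nat_lit 221)))) (XT.nd (nat_lit 156) (nat_lit 684) (nat_lit 0) (XT.nd (nat_lit 78) (nat_lit 0) (nat_lit 0) (XT.lf (nat_lit 0) (nat_lit 29079621393) (nat_lit 304) (nat_lit 29303980595) (nat_lit 380) (nat_lit 19813115942) (nat_lit 266) (nat_lit 5) (nat_lit 270) (nat_lit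 5) (nat_lit 271) (nat_lit 5) (nat_lit 409) (nat_lit 391) (nat_lit 220)) (XT.lf (nat_lit 0) (nat_lit 71272420723) (nat_lit 380) (nat_lit 4682998624) (nat_lit 76) (nat_lit 4462089523) (nat_lit 266) (nat_lit 5) (nat_lit 271) (nat_lit 5) (nat_lit 267) (nat_lit 5) (nat_lit 410) (nat_lit 391) (nat_lit 219))) (XT.nd (nat_lit 78) (nat_lit 304) (nat_lit 0) (XT.lf (nat_lit 0) (nat_lit 3158151341) (nat_lit 380) (nat_lit 39879499881) (nat_lit 76) (nat_lit 39651701569) (nat_lit 261) (nat_lit 5) (nat_lit 266) (nat_lit 5) (nat_lit 262) (nat_lit 5) (nat_lit 411) (nat_lit 391) (nat_lit 218)) (XT.lf (nat_lit 0) (nat_lit 7868757609) (nat_lit 304) (nat_lit 8103117073) (nat_lit 380) (nat_lit 69085285412) (nat_lit 257) (nat_lit 5) (nat_lit 261) (nat_lit 5) (nat_lit 262) (nat_lit 5) (nat_lit 412) (nat_lit 391) (nat_lit 217))))))) (XT.nd (nat_lit 1248) (nat_lit 1672) (nat_lit 0) (XT.nd (nat_lit 624) (nat_lit 1216) (nat_lit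 0) (XT.nd (nat_lit 312) (nat_lit 608) (nat_lit 0) (XT.nd (nat_lit 156) (nat_lit 228) (nat_lit 0) (XT.nd (nat_lit 78) (nat_lit 304) (nat_lit 0) (XT.lf (nat_lit 0) (nat_lit 30558134469) (nat_lit 380) (nat_lit 28578890713) (nat_lit 76) (nat_lit 28349740065) (nat_lit 257) (nat_lit 5) (nat_lit 262) (nat_lit 5) (nat_lit 258) (nat_lit 5) (nat_lit 413) (nat_lit 391) (nat_lit 216)) (XT.lf (nat_lit 0) (nat_lit 23065548502) (nat_lit 304) (nat_lit 23300366920) (nat_lit 380) (nat_lit 43647324829) (nat_lit 253) (nat_lit 5) (nat_lit 257) (nat_lit 5) (nat_lit 258) (nat_lit 5) (nat_lit 414) (nat_lit 391) (nat_lit 215))) (XT.nd (nat_lit 78) (nat_lit 228) (nat_lit 0) (XT.lf (nat_lit 0) (nat_lit 63678989371) (nat_lit 380) (nat_lit 14590040930) (nat_lit 76) (nat_lit 14361263506) (nat_lit 253) (nat_lit 5) (nat_lit 258) (nat_lit 5) (nat_lit 254) (nat_lit 5) (nat_lit 415) (nat_lit 391) (nat_lit 214)) (XT.lf (nat_lit 0)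 (nat_lit 41325262377) (nat_lit 228) (nat_lit 41558935834) (nat_lit 304) (nat_lit 12442677770) (nat_lit 250) (nat_lit 5) (nat_lit 253) (nat_lit 5) (nat_lit 254) (nat_lit 5) (nat_lit 416) (nat_lit 391) (nat_lit 213)))) (XT.nd (nat_lit 156) (nat_lit 228) (nat_lit 0) (XT.nd (nat_lit 78) (nat_lit 0) (nat_lit 0) (XT.lf (nat_lit 0) (nat_lit 2392144973) (nat_lit 304) (nat_lit 2630481319) (nat_lit 380) (nat_lit 93117452524) (nat_lit 245) (nat_lit 5) (nat_lit 249) (nat_lit 5) (nat_lit 250) (nat_lit 5) (nat_lit 417) (nat_lit 391) (nat_lit 212)) (XT.lf (nat_lit 0) (nat_lit 24469005378) (nat_lit 380) (nat_lit 38384827802) (nat_lit 76) (nat_lit 38153611428) (nat_lit 245) (nat_lit 5) (nat_lit 250) (nat_lit 5) (nat_lit 246) (nat_lit 5) (nat_lit 418) (nat_lit 391) (nat_lit 211))) (XT.nd (nat_lit 78) (nat_lit 0) (nat_lit 0) (XT.lf (nat_lit 0) (nat_lit 22523296368) (nat_lit 228) (nat_lit 22758540720) (nat_lit 304)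 (nat_lit 58716634919) (nat_lit 242) (nat_lit 5) (nat_lit 245) (nat_lit 5) (nat_lit 246) (nat_lit 5) (nat_lit 419) (nat_lit 391) (nat_lit 210)) (XT.lf (nat_lit 0) (nat_lit 68097379939) (nat_lit 304) (nat_lit 19610631547) (nat_lit 76) (nat_lit 19382935811) (nat_lit 242) (nat_lit 5) (nat_lit 246) (nat_lit 5) (nat_lit 243) (nat_lit 5) (nat_lit 420) (nat_lit 391) (nat_lit 209))))) (XT.nd (nat_lit 312) (nat_lit 456) (nat_lit 0) (XT.nd (nat_lit 156) (nat_lit 228) (nat_lit 0) (XT.nd (nat_lit 78) (nat_lit 304) (nat_lit 0) (XT.lf (nat_lit 0) (nat_lit 46460195556) (nat_lit 228) (nat_lit 46691370811) (nat_lit 304) (nat_lit 17131586664) (nat_lit 239) (nat_lit 5) (nat_lit 242) (nat_lit 5) (nat_lit 243) (nat_lit 5) (nat_lit 421) (nat_lit 391) (nat_lit 208)) (XT.lf (nat_lit 0) (nat_lit 2892370606) (nat_lit 228) (nat_lit 3126859689) (nat_lit 304) (nat_lit 107592086435) (nat_lit 235) (nat_lit 5) (nat_lit 238) (nat_lit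 5) (nat_lit 239) (nat_lit 5) (nat_lit 422) (nat_lit 391) (nat_lit 207))) (XT.nd (nat_lit 78) (nat_lit 228) (nat_lit 0) (XT.lf (nat_lit 0) (nat_lit 31515217283) (nat_lit 304) (nat_lit 42857394790) (nat_lit 76) (nat_lit 42631066114) (nat_lit 235) (nat_lit 5) (nat_lit 239) (nat_lit 5) (nat_lit 236) (nat_lit 5) (nat_lit 423) (nat_lit 391) (nat_lit 206)) (XT.lf (nat_lit 0) (nat_lit 29282348627) (nat_lit 228) (nat_lit 29511539912) (nat_lit 304) (nat_lit 61746374933) (nat_lit 232) (nat_lit 5) (nat_lit 235) (nat_lit 5) (nat_lit 236) (nat_lit 5) (nat_lit 424) (nat_lit 391) (nat_lit 205)))) (XT.nd (nat_lit 156) (nat_lit 304) (nat_lit 0) (XT.nd (nat_lit 78) (nat_lit 152) (nat_lit 0) (XT.lf (nat_lit 0) (nat_lit 88448326525) (nat_lit 304) (nat_lit 17987816862) (nat_lit 76) (nat_lit 17766942977) (nat_lit 232) (nat_lit 5) (nat_lit 236) (nat_lit 5) (nat_lit 233) (nat_lit 5) (nat_lit 425) (nat_lit 391) (nat_lit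 204)) (XT.lf (nat_lit 0) (nat_lit 60394168995) (nat_lit 152) (nat_lit 60617515709) (nat_lit 228) (nat_lit 6966055780) (nat_lit 230) (nat_lit 5) (nat_lit 232) (nat_lit 5) (nat_lit 233) (nat_lit 5) (nat_lit 426) (nat_lit 391) (nat_lit 203))) (XT.nd (nat_lit 78) (nat_lit 0) (nat_lit 0) (XT.lf (nat_lit 0) (nat_lit 11389390343) (nat_lit 228) (nat_lit 11615092133) (nat_lit 304) (nat_lit 108894138972) (nat_lit 226) (nat_lit 5) (nat_lit 229) (nat_lit 5) (nat_lit 230) (nat_lit 5) (nat_lit 427) (nat_lit 391) (nat_lit 202)) (XT.lf (nat_lit 0) (nat_lit 56024232186) (nat_lit 304) (nat_lit 40056727558) (nat_lit 76) (nat_lit 39839637349) (nat_lit 226) (nat_lit 5) (nat_lit 230) (nat_lit 5) (nat_lit 227) (nat_lit 5) (nat_lit 428) (nat_lit 391) (nat_lit 201)))))) (XT.nd (nat_lit 624) (nat_lit 760) (nat_lit 0) (XT.nd (nat_lit 312) (nat_lit 380) (nat_lit 0) (XT.nd (nat_lit 156) (nat_lit 380) (nat_lit 0) (XT.nd (nat_lit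 78) (nat_lit 0) (nat_lit 0) (XT.lf (nat_lit 0) (nat_lit 45689556997) (nat_lit 152) (nat_lit 45908681609) (nat_lit 228) (nat_lit 48500269454) (nat_lit 224) (nat_lit 5) (nat_lit 226) (nat_lit 5) (nat_lit 227) (nat_lit 5) (nat_lit 429) (nat_lit 391) (nat_lit 200)) (XT.lf (nat_lit 0) (nat_lit 129745701786) (nat_lit 228) (nat_lit 7455205169) (nat_lit 76) (nat_lit 7244669799) (nat_lit 224) (nat_lit 5) (nat_lit 227) (nat_lit 5) (nat_lit 225) (nat_lit 5) (nat_lit 430) (nat_lit 391) (nat_lit 199))) (XT.nd (nat_lit 78) (nat_lit 152) (nat_lit 0) (XT.lf (nat_lit 0) (nat_lit 22251766971) (nat_lit 228) (nat_lit 63423981001) (nat_lit 76) (nat_lit 63211688238) (nat_lit 221) (nat_lit 5) (nat_lit 224) (nat_lit 5) (nat_lit 222) (nat_lit 5) (nat_lit 431) (nat_lit 391) (nat_lit 198)) (XT.lf (nat_lit 0) (nat_lit 30473330756) (nat_lit 152) (nat_lit 30687297227) (nat_lit 228) (nat_lit 92348529122) (nat_lit 219) (nat_lit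 5) (nat_lit 221) (nat_lit 5) (nat_lit 222) (nat_lit 5) (nat_lit 432) (nat_lit 391) (nat_lit 197)))) (XT.nd (nat_lit 156) (nat_lit 228) (nat_lit 0) (XT.nd (nat_lit 78) (nat_lit 152) (nat_lit 0) (XT.lf (nat_lit 0) (nat_lit 103528544611) (nat_lit 228) (nat_lit 27481517250) (nat_lit 76) (nat_lit 27276221555) (nat_lit 219) (nat_lit 5) (nat_lit 222) (nat_lit 5) (nat_lit 220) (nat_lit 5) (nat_lit 433) (nat_lit 391) (nat_lit 196)) (XT.lf (nat_lit 0) (nat_lit 74738821375) (nat_lit 152) (nat_lit 74945562882) (nat_lit 228) (nat_lit 13534405425) (nat_lit 217) (nat_lit 5) (nat_lit 219) (nat_lit 5) (nat_lit 220) (nat_lit 5) (nat_lit 434) (nat_lit 391) (nat_lit 195))) (XT.nd (nat_lit 78) (nat_lit 0) (nat_lit 0) (XT.lf (nat_lit 0) (nat_lit 14645532120) (nat_lit 152) (nat_lit 14853650591) (nat_lit 228) (nat_lit 138840450587) (nat_lit 214) (nat_lit 5) (nat_lit 216) (nat_lit 5) (nat_lit 217) (nat_lit 5) (nat_lit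 435) (nat_lit 391) (nat_lit 194)) (XT.lf (nat_lit 0) (nat_lit 76505408437) (nat_lit 228) (nat_lit 48642841876) (nat_lit 76) (nat_lit 48443384861) (nat_lit 214) (nat_lit 5) (nat_lit 217) (nat_lit 5) (nat_lit 215) (nat_lit 5) (nat_lit 436) (nat_lit 391) (nat_lit 193))))) (XT.nd (nat_lit 312) (nat_lit 304) (nat_lit 0) (XT.nd (nat_lit 156) (nat_lit 304) (nat_lit 0) (XT.nd (nat_lit 78) (nat_lit 0) (nat_lit 0) (XT.lf (nat_lit 0) (nat_lit 63447497769) (nat_lit 152) (nat_lit 63648144257) (nat_lit 228) (nat_lit 51948910288) (nat_lit 212) (nat_lit 5) (nat_lit 214) (nat_lit 5) (nat_lit 215) (nat_lit 5) (nat_lit 437) (nat_lit 391) (nat_lit 192)) (XT.lf (nat_lit 0) (nat_lit 181066759244) (nat_lit 228) (nat_lit 1926479125) (nat_lit 76) (nat_lit 1734308345) (nat_lit 212) (nat_lit 5) (nat_lit 215) (nat_lit 5) (nat_lit 213) (nat_lit 4) (nat_lit 438) (nat_lit 391) (nat_lit 191))) (XT.nd (nat_lit 78) (nat_lit 152)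 (nat_lit 0) (XT.lf (nat_lit 0) (nat_lit 48504173514) (nat_lit 152) (nat_lit 71099294932) (nat_lit 76) (nat_lit 70906096640) (nat_lit 210) (nat_lit 5) (nat_lit 212) (nat_lit 5) (nat_lit 211) (nat_lit 5) (nat_lit 439) (nat_lit 391) (nat_lit 190)) (XT.lf (nat_lit 0) (nat_lit 51901647569) (nat_lit 152) (nat_lit 52095824443) (nat_lit 228) (nat_lit 92538055923) (nat_lit 208) (nat_lit 5) (nat_lit 210) (nat_lit 5) (nat_lit 211) (nat_lit 5) (nat_lit 440) (nat_lit 391) (nat_lit 189)))) (XT.nd (nat_lit 156) (nat_lit 152) (nat_lit 0) (XT.nd (nat_lit 78) (nat_lit 152) (nat_lit 0) (XT.lf (nat_lit 0) (nat_lit 163782224736) (nat_lit 228) (nat_lit 19595271343) (nat_lit 76) (nat_lit 19409453383) (nat_lit 208) (nat_lit 5) (nat_lit 211) (nat_lit 5) (nat_lit 209) (nat_lit 4) (nat_lit 441) (nat_lit 391) (nat_lit 188)) (XT.lf (nat_lit 0) (nat_lit 19339326249) (nat_lit 152) (nat_lit 95025305757) (nat_lit 76) (nat_lit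 94838642461) (nat_lit 206) (nat_lit 5) (nat_lit 208) (nat_lit 5) (nat_lit 207) (nat_lit 5) (nat_lit 442) (nat_lit 391) (nat_lit 187))) (XT.nd (nat_lit 78) (nat_lit 0) (nat_lit 0) (XT.lf (nat_lit 0) (nat_lit 40032126692) (nat_lit 152) (nat_lit 40219595071) (nat_lit 228) (nat_lit 135608625048) (nat_lit 204) (nat_lit 5) (nat_lit 206) (nat_lit 5) (nat_lit 207) (nat_lit 5) (nat_lit 443) (nat_lit 391) (nat_lit 186)) (XT.lf (nat_lit 0) (nat_lit 146432620046) (nat_lit 228) (nat_lit 38242890062) (nat_lit 76) (nat_lit 38063618515) (nat_lit 204) (nat_lit 5) (nat_lit 207) (nat_lit 5) (nat_lit 205) (nat_lit 4) (nat_lit 444) (nat_lit 391) (nat_lit 185))))))))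
noncomputable def xc267 : XT := (XT.nd (nat_lit 1248) (nat_lit 1140) (nat_lit 0) (XT.nd (nat_lit 624) (nat_lit 532) (nat_lit 0) (XT.nd (nat_lit 312) (nat_lit 532) (nat_lit 0) (XT.nd (nat_lit 156) (nat_lit 76) (nat_lit 0) (XT.nd (nat_lit 78) (nat_lit 228) (nat_lit 0) (XT.lf (nat_lit 0) (nat_lit 109052104598) (nat_lit 76) (nat_lit 109232071605) (nat_lit 152) (nat_lit 11559592676) (nat_lit 203) (nat_lit 5) (nat_lit 204) (nat_lit 5) (nat_lit 205) (nat_lit 4) (nat_lit 445) (nat_lit 391) (nat_lit 184)) (XT.lf (nat_lit 0) (nat_lit 27764765205) (nat_lit 152) (nat_lit 27945394555) (nat_lit 228) (nat_lit 181494862399) (nat_lit 200) (nat_lit 5) (nat_lit 202) (nat_lit 5) (nat_lit 203) (nat_lit 5) (nat_lit 446) (nat_lit 391) (nat_lit 183))) (XT.nd (nat_lit 78) (nat_lit 76) (nat_lit 0) (XT.lf (nat_lit 0) (nat_lit 128930054584) (nat_lit 228) (nat_lit 58009340259) (nat_lit 76) (nat_lit 57836711541) (nat_lit 200)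 (nat_lit 5) (nat_lit 203) (nat_lit 5) (nat_lit 201) (nat_lit 4) (nat_lit 447) (nat_lit 391) (nat_lit 182)) (XT.lf (nat_lit 0) (nat_lit 103858536297) (nat_lit 76) (nat_lit 104031737171) (nat_lit 152) (nat_lit 44731504886) (nat_lit 199) (nat_lit 5) (nat_lit 200) (nat_lit 5) (nat_lit 201) (nat_lit 4) (nat_lit 448) (nat_lit 391) (nat_lit 181)))) (XT.nd (nat_lit 156) (nat_lit 304) (nat_lit 0) (XT.nd (nat_lit 78) (nat_lit 0) (nat_lit 0) (XT.lf (nat_lit 0) (nat_lit 15019752024) (nat_lit 152) (nat_lit 15193497810) (nat_lit 228) (nat_lit 230561477281) (nat_lit 196) (nat_lit 5) (nat_lit 198) (nat_lit 5) (nat_lit 199) (nat_lit 5) (nat_lit 449) (nat_lit 391) (nat_lit 180)) (XT.lf (nat_lit 0) (nat_lit 111181488564) (nat_lit 228) (nat_lit 79047080051) (nat_lit 76) (nat_lit 78881113624) (nat_lit 196) (nat_lit 5) (nat_lit 199) (nat_lit 5) (nat_lit 197) (nat_lit 4) (nat_lit 450) (nat_lit 391) (nat_lit 179))) (XT.nd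 (nat_lit 78) (nat_lit 228) (nat_lit 0) (XT.lf (nat_lit 0) (nat_lit 98912389090) (nat_lit 76) (nat_lit 99078826233) (nat_lit 152) (nat_lit 79780515991) (nat_lit 195) (nat_lit 5) (nat_lit 196) (nat_lit 5) (nat_lit 197) (nat_lit 4) (nat_lit 451) (nat_lit 391) (nat_lit 178)) (XT.lf (nat_lit 0) (nat_lit 1710961677) (nat_lit 152) (nat_lit 1877847120) (nat_lit 228) (nat_lit 283206945299) (nat_lit 192) (nat_lit 5) (nat_lit 194) (nat_lit 5) (nat_lit 195) (nat_lit 5) (nat_lit 452) (nat_lit 391) (nat_lit 177))))) (XT.nd (nat_lit 312) (nat_lit 304) (nat_lit 0) (XT.nd (nat_lit 156) (nat_lit 152) (nat_lit 0) (XT.nd (nat_lit 78) (nat_lit 76) (nat_lit 0) (XT.lf (nat_lit 0) (nat_lit 93088022856) (nat_lit 228) (nat_lit 101522388929) (nat_lit 76) (nat_lit 101363043791) (nat_lit 192) (nat_lit 5) (nat_lit 195) (nat_lit 5) (nat_lit 193) (nat_lit 4) (nat_lit 453) (nat_lit 391) (nat_lit 176)) (XT.lf (nat_lit 0) (nat_lit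 94201861816) (nat_lit 76) (nat_lit 94361594213) (nat_lit 152) (nat_lit 116971523182) (nat_lit 191) (nat_lit 5) (nat_lit 192) (nat_lit 5) (nat_lit 193) (nat_lit 4) (nat_lit 454) (nat_lit 391) (nat_lit 175))) (XT.nd (nat_lit 78) (nat_lit 152) (nat_lit 0) (XT.lf (nat_lit 0) (nat_lit 290730071876) (nat_lit 152) (nat_lit 12450556973) (nat_lit 0) (nat_lit 12298079627) (nat_lit 191) (nat_lit 5) (nat_lit 193) (nat_lit 4) (nat_lit 191) (nat_lit 4) (nat_lit 455) (nat_lit 391) (nat_lit 174)) (XT.lf (nat_lit 0) (nat_lit 74544124475) (nat_lit 152) (nat_lit 125616871602) (nat_lit 76) (nat_lit 125464059727) (nat_lit 189) (nat_lit 5) (nat_lit 191) (nat_lit 5) (nat_lit 190) (nat_lit 4) (nat_lit 456) (nat_lit 391) (nat_lit 173)))) (XT.nd (nat_lit 156) (nat_lit 228) (nat_lit 0) (XT.nd (nat_lit 78) (nat_lit 0) (nat_lit 0) (XT.lf (nat_lit 0) (nat_lit 89715718679) (nat_lit 76) (nat_lit 89868849152) (nat_lit 152) (nat_lit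 156593128866) (nat_lit 188) (nat_lit 5) (nat_lit 189) (nat_lit 5) (nat_lit 190) (nat_lit 4) (nat_lit 457) (nat_lit 391) (nat_lit 172)) (XT.lf (nat_lit 0) (nat_lit 292443989406) (nat_lit 152) (nat_lit 27415879975) (nat_lit 0) (nat_lit 27269752451) (nat_lit 188) (nat_lit 5) (nat_lit 190) (nat_lit 4) (nat_lit 188) (nat_lit 4) (nat_lit 458) (nat_lit 391) (nat_lit 171))) (XT.nd (nat_lit 78) (nat_lit 76) (nat_lit 0) (XT.lf (nat_lit 0) (nat_lit 55436780751) (nat_lit 152) (nat_lit 151529111631) (nat_lit 76) (nat_lit 151382708890) (nat_lit 186) (nat_lit 5) (nat_lit 188) (nat_lit 5) (nat_lit 187) (nat_lit 4) (nat_lit 459) (nat_lit 391) (nat_lit 170)) (XT.lf (nat_lit 0) (nat_lit 85443261721) (nat_lit 76) (nat_lit 85589926574) (nat_lit 152) (nat_lit 198960233625) (nat_lit 185) (nat_lit 5) (nat_lit 186) (nat_lit 5) (nat_lit 187) (nat_lit 4) (nat_lit 460) (nat_lit 391) (nat_lit 169)))))) (XT.nd (nat_lit 624)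 (nat_lit 608) (nat_lit 0) (XT.nd (nat_lit 312) (nat_lit 304) (nat_lit 0) (XT.nd (nat_lit 156) (nat_lit 76) (nat_lit 0) (XT.nd (nat_lit 78) (nat_lit 152) (nat_lit 0) (XT.lf (nat_lit 0) (nat_lit 295670924426) (nat_lit 152) (nat_lit 43263201158) (nat_lit 0) (nat_lit 43123282603) (nat_lit 185) (nat_lit 5) (nat_lit 187) (nat_lit 4) (nat_lit 185) (nat_lit 4) (nat_lit 461) (nat_lit 391) (nat_lit 168)) (XT.lf (nat_lit 0) (nat_lit 35644574535) (nat_lit 152) (nat_lit 179476490447) (nat_lit 76) (nat_lit 179336345470) (nat_lit 183) (nat_lit 5) (nat_lit 185) (nat_lit 5) (nat_lit 184) (nat_lit 4) (nat_lit 462) (nat_lit 391) (nat_lit 167))) (XT.nd (nat_lit 78) (nat_lit 0) (nat_lit 0) (XT.lf (nat_lit 0) (nat_lit 81374304716) (nat_lit 76) (nat_lit 81514665333) (nat_lit 152) (nat_lit 244416887357) (nat_lit 182) (nat_lit 5) (nat_lit 183) (nat_lit 5) (nat_lit 184) (nat_lit 4) (nat_lit 463) (nat_lit 391) (nat_lit 166))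 (XT.lf (nat_lit 0) (nat_lit 300502293145) (nat_lit 152) (nat_lit 60113985271) (nat_lit 0) (nat_lit 59980112900) (nat_lit 182) (nat_lit 5) (nat_lit 184) (nat_lit 4) (nat_lit 182) (nat_lit 4) (nat_lit 464) (nat_lit 391) (nat_lit 165)))) (XT.nd (nat_lit 156) (nat_lit 76) (nat_lit 0) (XT.nd (nat_lit 78) (nat_lit 76) (nat_lit 0) (XT.lf (nat_lit 0) (nat_lit 15036671997) (nat_lit 152) (nat_lit 209697188926) (nat_lit 76) (nat_lit 209563130278) (nat_lit 180) (nat_lit 5) (nat_lit 182) (nat_lit 5) (nat_lit 181) (nat_lit 4) (nat_lit 465) (nat_lit 391) (nat_lit 164)) (XT.lf (nat_lit 0) (nat_lit 77499148392) (nat_lit 76) (nat_lit 77633384447) (nat_lit 152) (nat_lit 293339425389) (nat_lit 179) (nat_lit 5) (nat_lit 180) (nat_lit 5) (nat_lit 181) (nat_lit 4) (nat_lit 466) (nat_lit 391) (nat_lit 163))) (XT.nd (nat_lit 78) (nat_lit 76) (nat_lit 0) (XT.lf (nat_lit 0) (nat_lit 307041911117) (nat_lit 152) (nat_lit 78100665523)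 (nat_lit 0) (nat_lit 77972660746) (nat_lit 179) (nat_lit 5) (nat_lit 181) (nat_lit 4) (nat_lit 179) (nat_lit 4) (nat_lit 467) (nat_lit 391) (nat_lit 162)) (XT.lf (nat_lit 0) (nat_lit 235685386478) (nat_lit 76) (nat_lit 235813544506) (nat_lit 76) (nat_lit 6744140884) (nat_lit 178) (nat_lit 4) (nat_lit 179) (nat_lit 5) (nat_lit 179) (nat_lit 4) (nat_lit 468) (nat_lit 391) (nat_lit 161))))) (XT.nd (nat_lit 312) (nat_lit 228) (nat_lit 0) (XT.nd (nat_lit 156) (nat_lit 228) (nat_lit 0) (XT.nd (nat_lit 78) (nat_lit 0) (nat_lit 0) (XT.lf (nat_lit 0) (nat_lit 73808556907) (nat_lit 76) (nat_lit 73936860889) (nat_lit 152) (nat_lit 346139919092) (nat_lit 176) (nat_lit 5) (nat_lit 177) (nat_lit 5) (nat_lit 178) (nat_lit 4) (nat_lit 469) (nat_lit 391) (nat_lit 160)) (XT.lf (nat_lit 0) (nat_lit 315407120399) (nat_lit 152) (nat_lit 97367838880) (nat_lit 0) (nat_lit 97245512228) (nat_lit 176) (nat_lit 5) (nat_lit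 178) (nat_lit 4) (nat_lit 176) (nat_lit 4) (nat_lit 470) (nat_lit 391) (nat_lit 159))) (XT.nd (nat_lit 78) (nat_lit 152) (nat_lit 0) (XT.lf (nat_lit 0) (nat_lit 248208278843) (nat_lit 76) (nat_lit 248330731575) (nat_lit 76) (nat_lit 30168997324) (nat_lit 175) (nat_lit 4) (nat_lit 176) (nat_lit 5) (nat_lit 176) (nat_lit 4) (nat_lit 471) (nat_lit 391) (nat_lit 158)) (XT.lf (nat_lit 0) (nat_lit 70293735506) (nat_lit 76) (nat_lit 70416308314) (nat_lit 152) (nat_lit 403269973548) (nat_lit 173) (nat_lit 5) (nat_lit 174) (nat_lit 5) (nat_lit 175) (nat_lit 4) (nat_lit 472) (nat_lit 391) (nat_lit 157)))) (XT.nd (nat_lit 156) (nat_lit 152) (nat_lit 0) (XT.nd (nat_lit 78) (nat_lit 76) (nat_lit 0) (XT.lf (nat_lit 0) (nat_lit 325730038994) (nat_lit 152) (nat_lit 118073580405) (nat_lit 0) (nat_lit 117956735484) (nat_lit 173) (nat_lit 5) (nat_lit 175) (nat_lit 4) (nat_lit 173) (nat_lit 4) (nat_lit 473) (nat_lit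 391) (nat_lit 156)) (XT.lf (nat_lit 0) (nat_lit 262568846284) (nat_lit 76) (nat_lit 262685794931) (nat_lit 76) (nat_lit 54912387695) (nat_lit 172) (nat_lit 4) (nat_lit 173) (nat_lit 5) (nat_lit 173) (nat_lit 4) (nat_lit 474) (nat_lit 391) (nat_lit 155))) (XT.nd (nat_lit 78) (nat_lit 0) (nat_lit 0) (XT.lf (nat_lit 0) (nat_lit 66946309284) (nat_lit 76) (nat_lit 67063356719) (nat_lit 152) (nat_lit 465224908139) (nat_lit 170) (nat_lit 5) (nat_lit 171) (nat_lit 5) (nat_lit 172) (nat_lit 4) (nat_lit 475) (nat_lit 391) (nat_lit 154)) (XT.lf (nat_lit 0) (nat_lit 338158944831) (nat_lit 152) (nat_lit 140390889032) (nat_lit 0) (nat_lit 140279325682) (nat_lit 170) (nat_lit 5) (nat_lit 172) (nat_lit 4) (nat_lit 170) (nat_lit 4) (nat_lit 476) (nat_lit 391) (nat_lit 153)))))))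
noncomputable def xc268 : XT := (XT.nd (nat_lit 46878) (nat_lit 0) (nat_lit 7524) (XT.nd (nat_lit 624) (nat_lit 228) (nat_lit 0) (XT.nd (nat_lit 312) (nat_lit 380) (nat_lit 0) (XT.nd (nat_lit 156) (nat_lit 76) (nat_lit 0) (XT.nd (nat_lit 78) (nat_lit 152) (nat_lit 0) (XT.lf (nat_lit 0) (nat_lit 278929059121) (nat_lit 76) (nat_lit 279040707808) (nat_lit 76) (nat_lit 81161003322) (nat_lit 169) (nat_lit 4) (nat_lit 170) (nat_lit 5) (nat_lit 170) (nat_lit 4) (nat_lit 477) (nat_lit 391) (nat_lit 152)) (XT.lf (nat_lit 0) (nat_lit 63758303013) (nat_lit 76) (nat_lit 63870032972) (nat_lit 152) (nat_lit 532548359596) (nat_lit 167) (nat_lit 5) (nat_lit 168) (nat_lit 5) (nat_lit 169) (nat_lit 4) (nat_lit 478) (nat_lit 391) (nat_lit 151))) (XT.nd (nat_lit 78) (nat_lit 76) (nat_lit 0) (XT.lf (nat_lit 0) (nat_lit 352859807754) (nat_lit 152) (nat_lit 164509278421) (nat_lit 0) (nat_lit 164402795220) (nat_lit 167)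 (nat_lit 5) (nat_lit 169) (nat_lit 4) (nat_lit 167) (nat_lit 4) (nat_lit 479) (nat_lit 391) (nat_lit 150)) (XT.lf (nat_lit 0) (nat_lit 297468747551) (nat_lit 76) (nat_lit 297575300959) (nat_lit 76) (nat_lit 109118218219) (nat_lit 166) (nat_lit 4) (nat_lit 167) (nat_lit 5) (nat_lit 167) (nat_lit 4) (nat_lit 480) (nat_lit 391) (nat_lit 149)))) (XT.nd (nat_lit 156) (nat_lit 228) (nat_lit 0) (XT.nd (nat_lit 78) (nat_lit 0) (nat_lit 0) (XT.lf (nat_lit 0) (nat_lit 60722121951) (nat_lit 76) (nat_lit 60828742221) (nat_lit 152) (nat_lit 605837351091) (nat_lit 164) (nat_lit 5) (nat_lit 165) (nat_lit 5) (nat_lit 166) (nat_lit 4) (nat_lit 481) (nat_lit 391) (nat_lit 148)) (XT.lf (nat_lit 0) (nat_lit 370017984422) (nat_lit 152) (nat_lit 190636527915) (nat_lit 0) (nat_lit 190534924154) (nat_lit 164) (nat_lit 5) (nat_lit 166) (nat_lit 4) (nat_lit 164) (nat_lit 4) (nat_lit 482) (nat_lit 391) (nat_lit 147))) (XT.nd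 (nat_lit 78) (nat_lit 152) (nat_lit 0) (XT.lf (nat_lit 0) (nat_lit 318387372170) (nat_lit 76) (nat_lit 318489033690) (nat_lit 76) (nat_lit 139005915663) (nat_lit 163) (nat_lit 4) (nat_lit 164) (nat_lit 5) (nat_lit 164) (nat_lit 4) (nat_lit 483) (nat_lit 391) (nat_lit 146)) (XT.lf (nat_lit 0) (nat_lit 57830533597) (nat_lit 76) (nat_lit 57932250125) (nat_lit 152) (nat_lit 685747875399) (nat_lit 161) (nat_lit 5) (nat_lit 162) (nat_lit 5) (nat_lit 163) (nat_lit 4) (nat_lit 484) (nat_lit 391) (nat_lit 145))))) (XT.nd (nat_lit 45942) (nat_lit 0) (nat_lit 10184) (XT.nd (nat_lit 156) (nat_lit 152) (nat_lit 0) (XT.nd (nat_lit 78) (nat_lit 76) (nat_lit 0) (XT.lf (nat_lit 0) (nat_lit 389840092547) (nat_lit 152) (nat_lit 219000610159) (nat_lit 0) (nat_lit 218903687381) (nat_lit 161) (nat_lit 5) (nat_lit 163) (nat_lit 4) (nat_lit 161) (nat_lit 4) (nat_lit 485) (nat_lit 391) (nat_lit 144)) (XT.lf (nat_lit 0)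 (nat_lit 341905978877) (nat_lit 76) (nat_lit 342002949174) (nat_lit 76) (nat_lit 171066496489) (nat_lit 160) (nat_lit 4) (nat_lit 161) (nat_lit 5) (nat_lit 161) (nat_lit 4) (nat_lit 486) (nat_lit 391) (nat_lit 143))) (XT.nd (nat_lit 45708) (nat_lit 0) (nat_lit 10184) (XT.lf (nat_lit 0) (nat_lit 55076650341) (nat_lit 76) (nat_lit 55173665893) (nat_lit 152) (nat_lit 773001045081) (nat_lit 158) (nat_lit 5) (nat_lit 159) (nat_lit 5) (nat_lit 160) (nat_lit 4) (nat_lit 487) (nat_lit 391) (nat_lit 142)) (XT.lf (nat_lit 0) (nat_lit 11893174490) (nat_lit 836) (nat_lit 6882040748) (nat_lit 836) (nat_lit 6882040748) (nat_lit 292) (nat_lit 3) (nat_lit 303) (nat_lit 3) (nat_lit 303) (nat_lit 5) (nat_lit 392) (nat_lit 392) (nat_lit 236)))) (XT.nd (nat_lit 156) (nat_lit 0) (nat_lit 76) (XT.nd (nat_lit 78) (nat_lit 0) (nat_lit 76) (XT.lf (nat_lit 76) (nat_lit 12286416550) (nat_lit 0) (nat_lit 12310912327) (nat_lit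 836) (nat_lit 27989229838) (nat_lit 293) (nat_lit 5) (nat_lit 292) (nat_lit 3) (nat_lit 303) (nat_lit 5) (nat_lit 393) (nat_lit 392) (nat_lit 235)) (XT.lf (nat_lit 0) (nat_lit 25905765330) (nat_lit 760) (nat_lit 14019572394) (nat_lit 836) (nat_lit 13974024691) (nat_lit 293) (nat_lit 5) (nat_lit 303) (nat_lit 5) (nat_lit 304) (nat_lit 5) (nat_lit 394) (nat_lit 392) (nat_lit 234))) (XT.nd (nat_lit 78) (nat_lit 0) (nat_lit 76) (XT.lf (nat_lit 76) (nat_lit 13814460531) (nat_lit 0) (nat_lit 13881168608) (nat_lit 836) (nat_lit 27561376883) (nat_lit 294) (nat_lit 5) (nat_lit 293) (nat_lit 5) (nat_lit 304) (nat_lit 5) (nat_lit 395) (nat_lit 392) (nat_lit 233)) (XT.lf (nat_lit 0) (nat_lit 30025107265) (nat_lit 760) (nat_lit 13358821537) (nat_lit 836) (nat_lit 13276096953) (nat_lit 294) (nat_lit 5) (nat_lit 304) (nat_lit 5) (nat_lit 305) (nat_lit 5) (nat_lit 396) (nat_lit 392) (nat_lit 232)))))) (XT.nd (nat_lit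 624) (nat_lit 1748) (nat_lit 0) (XT.nd (nat_lit 312) (nat_lit 1064) (nat_lit 0) (XT.nd (nat_lit 156) (nat_lit 0) (nat_lit 76) (XT.nd (nat_lit 78) (nat_lit 0) (nat_lit 76) (XT.lf (nat_lit 76) (nat_lit 16426358115) (nat_lit 0) (nat_lit 16527361824) (nat_lit 836) (nat_lit 25155343502) (nat_lit 295) (nat_lit 5) (nat_lit 294) (nat_lit 5) (nat_lit 305) (nat_lit 5) (nat_lit 397) (nat_lit 392) (nat_lit 231)) (XT.lf (nat_lit 0) (nat_lit 36439639461) (nat_lit 760) (nat_lit 11641571728) (nat_lit 836) (nat_lit 11528798013) (nat_lit 295) (nat_lit 5) (nat_lit 305) (nat_lit 5) (nat_lit 306) (nat_lit 5) (nat_lit 398) (nat_lit 392) (nat_lit 230))) (XT.nd (nat_lit 78) (nat_lit 0) (nat_lit 76) (XT.lf (nat_lit 76) (nat_lit 20278799255) (nat_lit 0) (nat_lit 20407363166) (nat_lit 836) (nat_lit 20470524456) (nat_lit 296) (nat_lit 5) (nat_lit 295) (nat_lit 5) (nat_lit 306) (nat_lit 5) (nat_lit 399) (nat_lit 392) (nat_lit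 229)) (XT.lf (nat_lit 0) (nat_lit 45479260303) (nat_lit 760) (nat_lit 8710744844) (nat_lit 836) (nat_lit 8573980850) (nat_lit 296) (nat_lit 5) (nat_lit 306) (nat_lit 5) (nat_lit 307) (nat_lit 5) (nat_lit 400) (nat_lit 392) (nat_lit 228)))) (XT.nd (nat_lit 156) (nat_lit 1216) (nat_lit 0) (XT.nd (nat_lit 78) (nat_lit 0) (nat_lit 76) (XT.lf (nat_lit 76) (nat_lit 25546939759) (nat_lit 0) (nat_lit 25697343918) (nat_lit 836) (nat_lit 13170752866) (nat_lit 297) (nat_lit 5) (nat_lit 296) (nat_lit 5) (nat_lit 307) (nat_lit 5) (nat_lit 401) (nat_lit 392) (nat_lit 227)) (XT.lf (nat_lit 0) (nat_lit 57512289478) (nat_lit 760) (nat_lit 4390613832) (nat_lit 76) (nat_lit 4234999744) (nat_lit 297) (nat_lit 5) (nat_lit 307) (nat_lit 5) (nat_lit 298) (nat_lit 5) (nat_lit 402) (nat_lit 392) (nat_lit 226))) (XT.nd (nat_lit 78) (nat_lit 532) (nat_lit 0) (XT.lf (nat_lit 0) (nat_lit 32426396225) (nat_lit 760) (nat_lit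 32593793200) (nat_lit 836) (nat_lit 2880398773) (nat_lit 287) (nat_lit 5) (nat_lit 297) (nat_lit 5) (nat_lit 298) (nat_lit 5) (nat_lit 403) (nat_lit 392) (nat_lit 225)) (XT.lf (nat_lit 0) (nat_lit 1485156657) (nat_lit 456) (nat_lit 1663775429) (nat_lit 532) (nat_lit 66595127802) (nat_lit 280) (nat_lit 5) (nat_lit 286) (nat_lit 5) (nat_lit 287) (nat_lit 5) (nat_lit 404) (nat_lit 392) (nat_lit 224))))) (XT.nd (nat_lit 312) (nat_lit 988) (nat_lit 0) (XT.nd (nat_lit 156) (nat_lit 380) (nat_lit 0) (XT.nd (nat_lit 78) (nat_lit 380) (nat_lit 0) (XT.lf (nat_lit 0) (nat_lit 10473636737) (nat_lit 532) (nat_lit 30664731842) (nat_lit 76) (nat_lit 30484440224) (nat_lit 280) (nat_lit 5) (nat_lit 287) (nat_lit 5) (nat_lit 281) (nat_lit 5) (nat_lit 405) (nat_lit 392) (nat_lit 223)) (XT.lf (nat_lit 0) (nat_lit 9071277091) (nat_lit 380) (nat_lit 9261262520) (nat_lit 456) (nat_lit 55254557404) (nat_lit 275) (nat_lit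 5) (nat_lit 280) (nat_lit 5) (nat_lit 281) (nat_lit 5) (nat_lit 406) (nat_lit 392) (nat_lit 222))) (XT.nd (nat_lit 78) (nat_lit 380) (nat_lit 0) (XT.lf (nat_lit 0) (nat_lit 27489294637) (nat_lit 456) (nat_lit 24152395363) (nat_lit 76) (nat_lit 23962664287) (nat_lit 275) (nat_lit 5) (nat_lit 281) (nat_lit 5) (nat_lit 276) (nat_lit 5) (nat_lit 407) (nat_lit 392) (nat_lit 221)) (XT.lf (nat_lit 0) (nat_lit 18674147877) (nat_lit 380) (nat_lit 18872252831) (nat_lit 456) (nat_lit 40153948049) (nat_lit 270) (nat_lit 5) (nat_lit 275) (nat_lit 5) (nat_lit 276) (nat_lit 5) (nat_lit 408) (nat_lit 392) (nat_lit 220)))) (XT.nd (nat_lit 156) (nat_lit 684) (nat_lit 0) (XT.nd (nat_lit 78) (nat_lit 304) (nat_lit 0) (XT.lf (nat_lit 0) (nat_lit 48763814869) (nat_lit 456) (nat_lit 15650361091) (nat_lit 76) (nat_lit 15454094352) (nat_lit 270) (nat_lit 5) (nat_lit 276) (nat_lit 5) (nat_lit 271) (nat_lit 5) (nat_lit 409)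 (nat_lit 392) (nat_lit 219)) (XT.lf (nat_lit 0) (nat_lit 30562170685) (nat_lit 304) (nat_lit 30765671095) (nat_lit 380) (nat_lit 20777459062) (nat_lit 266) (nat_lit 5) (nat_lit 270) (nat_lit 5) (nat_lit 271) (nat_lit 5) (nat_lit 410) (nat_lit 392) (nat_lit 218))) (XT.nd (nat_lit 78) (nat_lit 684) (nat_lit 0) (XT.lf (nat_lit 0) (nat_lit 74859960302) (nat_lit 380) (nat_lit 4888799575) (nat_lit 76) (nat_lit 4688428509) (nat_lit 266) (nat_lit 5) (nat_lit 271) (nat_lit 5) (nat_lit 267) (nat_lit 5) (nat_lit 411) (nat_lit 392) (nat_lit 217)) (XT.nd (nat_lit 78) (nat_lit 304) (nat_lit 0) (XT.lf (nat_lit 0) (nat_lit 3339654515) (nat_lit 380) (nat_lit 41844802959) (nat_lit 76) (nat_lit 41638183176) (nat_lit 261) (nat_lit 5) (nat_lit 266) (nat_lit 5) (nat_lit 262) (nat_lit 5) (nat_lit 412) (nat_lit 392) (nat_lit 216)) (XT.lf (nat_lit 0) (nat_lit 8290404955) (nat_lit 304) (nat_lit 8502975897) (nat_lit 380)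 (nat_lit 72515491625) (nat_lit 257) (nat_lit 5) (nat_lit 261) (nat_lit 5) (nat_lit 262) (nat_lit 5) (nat_lit 413) (nat_lit 392) (nat_lit 215))))))))
noncomputable def xc269 : XT := (XT.nd (nat_lit 2496) (nat_lit 2584) (nat_lit 0) (XT.nd (nat_lit 1248) (nat_lit 1672) (nat_lit 0) (XT.nd (nat_lit 624) (nat_lit 1216) (nat_lit 0) (XT.nd (nat_lit 312) (nat_lit 608) (nat_lit 0) (XT.nd (nat_lit 156) (nat_lit 228) (nat_lit 0) (XT.nd (nat_lit 78) (nat_lit 304) (nat_lit 0) (XT.lf (nat_lit 0) (nat_lit 32107941324) (nat_lit 380) (nat_lit 29979956787) (nat_lit 76) (nat_lit 29772110393) (nat_lit 257) (nat_lit 5) (nat_lit 262) (nat_lit 5) (nat_lit 258) (nat_lit 5) (nat_lit 414) (nat_lit 392) (nat_lit 214)) (XT.lf (nat_lit 0) (nat_lit 24246254737) (nat_lit 304) (nat_lit 24459241965) (nat_lit 380) (nat_lit 45807341287) (nat_lit 253) (nat_lit 5) (nat_lit 257) (nat_lit 5) (nat_lit 258) (nat_lit 5) (nat_lit 415) (nat_lit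 392) (nat_lit 213))) (XT.nd (nat_lit 78) (nat_lit 228) (nat_lit 0) (XT.lf (nat_lit 0) (nat_lit 66883302099) (nat_lit 380) (nat_lit 15292498052) (nat_lit 76) (nat_lit 15084990184) (nat_lit 253) (nat_lit 5) (nat_lit 258) (nat_lit 5) (nat_lit 254) (nat_lit 5) (nat_lit 416) (nat_lit 392) (nat_lit 212)) (XT.lf (nat_lit 0) (nat_lit 43418134212) (nat_lit 228) (nat_lit 43630082926) (nat_lit 304) (nat_lit 13044012190) (nat_lit 250) (nat_lit 5) (nat_lit 253) (nat_lit 5) (nat_lit 254) (nat_lit 5) (nat_lit 417) (nat_lit 392) (nat_lit 211)))) (XT.nd (nat_lit 156) (nat_lit 228) (nat_lit 0) (XT.nd (nat_lit 78) (nat_lit 0) (nat_lit 0) (XT.lf (nat_lit 0) (nat_lit 2538586741) (nat_lit 304) (nat_lit 2754764833) (nat_lit 380) (nat_lit 97752751485) (nat_lit 245) (nat_lit 5) (nat_lit 249) (nat_lit 5) (nat_lit 250) (nat_lit 5) (nat_lit 418) (nat_lit 392) (nat_lit 210)) (XT.lf (nat_lit 0) (nat_lit 25711224230) (nat_lit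 380) (nat_lit 40277687123) (nat_lit 76) (nat_lit 40067967057) (nat_lit 245) (nat_lit 5) (nat_lit 250) (nat_lit 5) (nat_lit 246) (nat_lit 5) (nat_lit 419) (nat_lit 392) (nat_lit 209))) (XT.nd (nat_lit 78) (nat_lit 0) (nat_lit 0) (XT.lf (nat_lit 0) (nat_lit 23675417738) (nat_lit 228) (nat_lit 23888791300) (nat_lit 304) (nat_lit 61633272565) (nat_lit 242) (nat_lit 5) (nat_lit 245) (nat_lit 5) (nat_lit 246) (nat_lit 5) (nat_lit 420) (nat_lit 392) (nat_lit 208)) (XT.lf (nat_lit 0) (nat_lit 71519772694) (nat_lit 304) (nat_lit 20565686262) (nat_lit 76) (nat_lit 20359159518) (nat_lit 242) (nat_lit 5) (nat_lit 246) (nat_lit 5) (nat_lit 243) (nat_lit 5) (nat_lit 421) (nat_lit 392) (nat_lit 207))))) (XT.nd (nat_lit 312) (nat_lit 456) (nat_lit 0) (XT.nd (nat_lit 156) (nat_lit 228) (nat_lit 0) (XT.nd (nat_lit 78) (nat_lit 304) (nat_lit 0) (XT.lf (nat_lit 0) (nat_lit 48808271279) (nat_lit 228) (nat_lit 49017954049)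 (nat_lit 304) (nat_lit 17970231322) (nat_lit 239) (nat_lit 5) (nat_lit 242) (nat_lit 5) (nat_lit 243) (nat_lit 5) (nat_lit 422) (nat_lit 392) (nat_lit 206)) (XT.lf (nat_lit 0) (nat_lit 3062215555) (nat_lit 228) (nat_lit 3274904065) (nat_lit 304) (nat_lit 112953916555) (nat_lit 235) (nat_lit 5) (nat_lit 238) (nat_lit 5) (nat_lit 239) (nat_lit 5) (nat_lit 423) (nat_lit 392) (nat_lit 205))) (XT.nd (nat_lit 78) (nat_lit 228) (nat_lit 0) (XT.lf (nat_lit 0) (nat_lit 33107223267) (nat_lit 304) (nat_lit 44975556677) (nat_lit 76) (nat_lit 44770269897) (nat_lit 235) (nat_lit 5) (nat_lit 239) (nat_lit 5) (nat_lit 236) (nat_lit 5) (nat_lit 424) (nat_lit 392) (nat_lit 204)) (XT.lf (nat_lit 0) (nat_lit 30770775397) (nat_lit 228) (nat_lit 30978658649) (nat_lit 304) (nat_lit 64817050046) (nat_lit 232) (nat_lit 5) (nat_lit 235) (nat_lit 5) (nat_lit 236) (nat_lit 5) (nat_lit 425) (nat_lit 392) (nat_lit 203)))) (XT.nd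 (nat_lit 156) (nat_lit 304) (nat_lit 0) (XT.nd (nat_lit 78) (nat_lit 152) (nat_lit 0) (XT.lf (nat_lit 0) (nat_lit 92885964886) (nat_lit 304) (nat_lit 18863426909) (nat_lit 76) (nat_lit 18663087784) (nat_lit 232) (nat_lit 5) (nat_lit 236) (nat_lit 5) (nat_lit 233) (nat_lit 5) (nat_lit 426) (nat_lit 392) (nat_lit 202)) (XT.lf (nat_lit 0) (nat_lit 63437274679) (nat_lit 152) (nat_lit 63639856733) (nat_lit 228) (nat_lit 7298752973) (nat_lit 230) (nat_lit 5) (nat_lit 232) (nat_lit 5) (nat_lit 233) (nat_lit 5) (nat_lit 427) (nat_lit 392) (nat_lit 201))) (XT.nd (nat_lit 78) (nat_lit 0) (nat_lit 0) (XT.lf (nat_lit 0) (nat_lit 11982371140) (nat_lit 228) (nat_lit 12187089317) (nat_lit 304) (nat_lit 114323354370) (nat_lit 226) (nat_lit 5) (nat_lit 229) (nat_lit 5) (nat_lit 230) (nat_lit 5) (nat_lit 428) (nat_lit 392) (nat_lit 200)) (XT.lf (nat_lit 0) (nat_lit 58839625305) (nat_lit 304) (nat_lit 42036599893)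 (nat_lit 76) (nat_lit 41839692674) (nat_lit 226) (nat_lit 5) (nat_lit 230) (nat_lit 5) (nat_lit 227) (nat_lit 5) (nat_lit 429) (nat_lit 392) (nat_lit 199)))))) (XT.nd (nat_lit 624) (nat_lit 760) (nat_lit 0) (XT.nd (nat_lit 312) (nat_lit 380) (nat_lit 0) (XT.nd (nat_lit 156) (nat_lit 380) (nat_lit 0) (XT.nd (nat_lit 78) (nat_lit 0) (nat_lit 0) (XT.lf (nat_lit 0) (nat_lit 47996628502) (nat_lit 152) (nat_lit 48195380984) (nat_lit 228) (nat_lit 50910731029) (nat_lit 224) (nat_lit 5) (nat_lit 226) (nat_lit 5) (nat_lit 227) (nat_lit 5) (nat_lit 430) (nat_lit 392) (nat_lit 198)) (XT.lf (nat_lit 0) (nat_lit 136246315755) (nat_lit 228) (nat_lit 7805917590) (nat_lit 76) (nat_lit 7614955803) (nat_lit 224) (nat_lit 5) (nat_lit 227) (nat_lit 5) (nat_lit 225) (nat_lit 5) (nat_lit 431) (nat_lit 392) (nat_lit 197))) (XT.nd (nat_lit 78) (nat_lit 152) (nat_lit 0) (XT.lf (nat_lit 0) (nat_lit 23377601821) (nat_lit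 228) (nat_lit 66573049835) (nat_lit 76) (nat_lit 66380494041) (nat_lit 221) (nat_lit 5) (nat_lit 224) (nat_lit 5) (nat_lit 222) (nat_lit 5) (nat_lit 432) (nat_lit 392) (nat_lit 196)) (XT.lf (nat_lit 0) (nat_lit 32018770571) (nat_lit 152) (nat_lit 32212844468) (nat_lit 228) (nat_lit 96952352138) (nat_lit 219) (nat_lit 5) (nat_lit 221) (nat_lit 5) (nat_lit 222) (nat_lit 5) (nat_lit 433) (nat_lit 392) (nat_lit 195)))) (XT.nd (nat_lit 156) (nat_lit 228) (nat_lit 0) (XT.nd (nat_lit 78) (nat_lit 152) (nat_lit 0) (XT.lf (nat_lit 0) (nat_lit 108717441674) (nat_lit 228) (nat_lit 28834370834) (nat_lit 76) (nat_lit 28648161587) (nat_lit 219) (nat_lit 5) (nat_lit 222) (nat_lit 5) (nat_lit 220) (nat_lit 5) (nat_lit 434) (nat_lit 392) (nat_lit 194)) (XT.lf (nat_lit 0) (nat_lit 78496642428) (nat_lit 152) (nat_lit 78684163069) (nat_lit 228) (nat_lit 14198313568) (nat_lit 217) (nat_lit 5) (nat_lit 219) (nat_lit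 5) (nat_lit 220) (nat_lit 5) (nat_lit 435) (nat_lit 392) (nat_lit 193))) (XT.nd (nat_lit 78) (nat_lit 0) (nat_lit 0) (XT.lf (nat_lit 0) (nat_lit 15398755390) (nat_lit 152) (nat_lit 15587524979) (nat_lit 228) (nat_lit 145769727669) (nat_lit 214) (nat_lit 5) (nat_lit 216) (nat_lit 5) (nat_lit 217) (nat_lit 5) (nat_lit 436) (nat_lit 392) (nat_lit 192)) (XT.lf (nat_lit 0) (nat_lit 80342370327) (nat_lit 228) (nat_lit 51054587713) (nat_lit 76) (nat_lit 50873674321) (nat_lit 214) (nat_lit 5) (nat_lit 217) (nat_lit 5) (nat_lit 215) (nat_lit 5) (nat_lit 437) (nat_lit 392) (nat_lit 191))))) (XT.nd (nat_lit 312) (nat_lit 304) (nat_lit 0) (XT.nd (nat_lit 156) (nat_lit 304) (nat_lit 0) (XT.nd (nat_lit 78) (nat_lit 0) (nat_lit 0) (XT.lf (nat_lit 0) (nat_lit 66639939943) (nat_lit 152) (nat_lit 66821932222) (nat_lit 228) (nat_lit 54534335363) (nat_lit 212) (nat_lit 5) (nat_lit 214) (nat_lit 5) (nat_lit 215) (nat_lit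 5) (nat_lit 438) (nat_lit 392) (nat_lit 190)) (XT.lf (nat_lit 0) (nat_lit 190131128262) (nat_lit 228) (nat_lit 2003274399) (nat_lit 76) (nat_lit 1828969836) (nat_lit 212) (nat_lit 5) (nat_lit 215) (nat_lit 5) (nat_lit 213) (nat_lit 4) (nat_lit 439) (nat_lit 392) (nat_lit 189))) (XT.nd (nat_lit 78) (nat_lit 152) (nat_lit 0) (XT.lf (nat_lit 0) (nat_lit 50940365080) (nat_lit 152) (nat_lit 74634682831) (nat_lit 76) (nat_lit 74459446285) (nat_lit 210) (nat_lit 5) (nat_lit 212) (nat_lit 5) (nat_lit 211) (nat_lit 5) (nat_lit 440) (nat_lit 392) (nat_lit 188)) (XT.lf (nat_lit 0) (nat_lit 54515991039) (nat_lit 152) (nat_lit 54692115189) (nat_lit 228) (nat_lit 97153660073) (nat_lit 208) (nat_lit 5) (nat_lit 210) (nat_lit 5) (nat_lit 211) (nat_lit 5) (nat_lit 441) (nat_lit 392) (nat_lit 187)))) (XT.nd (nat_lit 156) (nat_lit 152) (nat_lit 0) (XT.nd (nat_lit 78) (nat_lit 152) (nat_lit 0) (XT.lf (nat_lit 0) (nat_lit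 171981710574) (nat_lit 228) (nat_lit 20556304999) (nat_lit 76) (nat_lit 20387762631) (nat_lit 208) (nat_lit 5) (nat_lit 211) (nat_lit 5) (nat_lit 209) (nat_lit 4) (nat_lit 442) (nat_lit 392) (nat_lit 186)) (XT.lf (nat_lit 0) (nat_lit 20316627537) (nat_lit 152) (nat_lit 99757801508) (nat_lit 76) (nat_lit 99588492396) (nat_lit 206) (nat_lit 5) (nat_lit 208) (nat_lit 5) (nat_lit 207) (nat_lit 5) (nat_lit 443) (nat_lit 392) (nat_lit 185))) (XT.nd (nat_lit 78) (nat_lit 0) (nat_lit 0) (XT.lf (nat_lit 0) (nat_lit 42052199829) (nat_lit 152) (nat_lit 42222239175) (nat_lit 228) (nat_lit 142378418590) (nat_lit 204) (nat_lit 5) (nat_lit 206) (nat_lit 5) (nat_lit 207) (nat_lit 5) (nat_lit 444) (nat_lit 392) (nat_lit 184)) (XT.lf (nat_lit 0) (nat_lit 153764023711) (nat_lit 228) (nat_lit 40137088644) (nat_lit 76) (nat_lit 39974484067) (nat_lit 204) (nat_lit 5) (nat_lit 207) (nat_lit 5) (nat_lit 205) (nat_lit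 4) (nat_lit 445) (nat_lit 392) (nat_lit 183))))))) (XT.nd (nat_lit 1248) (nat_lit 1140) (nat_lit 0) (XT.nd (nat_lit 624) (nat_lit 532) (nat_lit 0) (XT.nd (nat_lit 312) (nat_lit 532) (nat_lit 0) (XT.nd (nat_lit 156) (nat_lit 76) (nat_lit 0) (XT.nd (nat_lit 78) (nat_lit 228) (nat_lit 0) (XT.lf (nat_lit 0) (nat_lit 114522366298) (nat_lit 76) (nat_lit 114685601679) (nat_lit 152) (nat_lit 12127510197) (nat_lit 203) (nat_lit 5) (nat_lit 204) (nat_lit 5) (nat_lit 205) (nat_lit 4) (nat_lit 446) (nat_lit 392) (nat_lit 182)) (XT.lf (nat_lit 0) (nat_lit 29170692010) (nat_lit 152) (nat_lit 29334528156) (nat_lit 228) (nat_lit 190559575480) (nat_lit 200) (nat_lit 5) (nat_lit 202) (nat_lit 5) (nat_lit 203) (nat_lit 5) (nat_lit 447) (nat_lit 392) (nat_lit 181))) (XT.nd (nat_lit 78) (nat_lit 76) (nat_lit 0) (XT.lf (nat_lit 0) (nat_lit 135385775832) (nat_lit 228) (nat_lit 60892627140) (nat_lit 76) (nat_lit 60736047805)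 (nat_lit 200) (nat_lit 5) (nat_lit 203) (nat_lit 5) (nat_lit 201) (nat_lit 4) (nat_lit 448) (nat_lit 392) (nat_lit 180)) (XT.lf (nat_lit 0) (nat_lit 109068366144) (nat_lit 76) (nat_lit 109225464443) (nat_lit 152) (nat_lit 46958584512) (nat_lit 199) (nat_lit 5) (nat_lit 200) (nat_lit 5) (nat_lit 201) (nat_lit 4) (nat_lit 449) (nat_lit 392) (nat_lit 179)))) (XT.nd (nat_lit 156) (nat_lit 304) (nat_lit 0) (XT.nd (nat_lit 78) (nat_lit 0) (nat_lit 0) (XT.lf (nat_lit 0) (nat_lit 15787669045) (nat_lit 152) (nat_lit 15945261595) (nat_lit 228) (nat_lit 242080081915) (nat_lit 196) (nat_lit 5) (nat_lit 198) (nat_lit 5) (nat_lit 199) (nat_lit 5) (nat_lit 450) (nat_lit 392) (nat_lit 178)) (XT.lf (nat_lit 0) (nat_lit 116749269496) (nat_lit 228) (nat_lit 82982998986) (nat_lit 76) (nat_lit 82832462543) (nat_lit 196) (nat_lit 5) (nat_lit 199) (nat_lit 5) (nat_lit 197) (nat_lit 4) (nat_lit 451) (nat_lit 392) (nat_lit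 177))) (XT.nd (nat_lit 78) (nat_lit 228) (nat_lit 0) (XT.lf (nat_lit 0) (nat_lit 103874178531) (nat_lit 76) (nat_lit 104025141926) (nat_lit 152) (nat_lit 83760570204) (nat_lit 195) (nat_lit 5) (nat_lit 196) (nat_lit 5) (nat_lit 197) (nat_lit 4) (nat_lit 452) (nat_lit 392) (nat_lit 176)) (XT.lf (nat_lit 0) (nat_lit 1812701457) (nat_lit 152) (nat_lit 1964071473) (nat_lit 228) (nat_lit 297358342687) (nat_lit 192) (nat_lit 5) (nat_lit 194) (nat_lit 5) (nat_lit 195) (nat_lit 5) (nat_lit 453) (nat_lit 392) (nat_lit 175))))) (XT.nd (nat_lit 312) (nat_lit 304) (nat_lit 0) (XT.nd (nat_lit 156) (nat_lit 152) (nat_lit 0) (XT.nd (nat_lit 78) (nat_lit 76) (nat_lit 0) (XT.lf (nat_lit 0) (nat_lit 97750655819) (nat_lit 228) (nat_lit 106582795841) (nat_lit 76) (nat_lit 106438265104) (nat_lit 192) (nat_lit 5) (nat_lit 195) (nat_lit 5) (nat_lit 193) (nat_lit 4) (nat_lit 454) (nat_lit 392) (nat_lit 174)) (XT.lf (nat_lit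 0) (nat_lit 98927414013) (nat_lit 76) (nat_lit 99072296006) (nat_lit 152) (nat_lit 122811614093) (nat_lit 191) (nat_lit 5) (nat_lit 192) (nat_lit 5) (nat_lit 193) (nat_lit 4) (nat_lit 455) (nat_lit 392) (nat_lit 173))) (XT.nd (nat_lit 78) (nat_lit 152) (nat_lit 0) (XT.lf (nat_lit 0) (nat_lit 305274381545) (nat_lit 152) (nat_lit 13058086750) (nat_lit 0) (nat_lit 12919785302) (nat_lit 191) (nat_lit 5) (nat_lit 193) (nat_lit 4) (nat_lit 191) (nat_lit 4) (nat_lit 456) (nat_lit 392) (nat_lit 172)) (XT.lf (nat_lit 0) (nat_lit 78279121093) (nat_lit 152) (nat_lit 131882701429) (nat_lit 76) (nat_lit 131744096554) (nat_lit 189) (nat_lit 5) (nat_lit 191) (nat_lit 5) (nat_lit 190) (nat_lit 4) (nat_lit 457) (nat_lit 392) (nat_lit 171)))) (XT.nd (nat_lit 156) (nat_lit 228) (nat_lit 0) (XT.nd (nat_lit 78) (nat_lit 0) (nat_lit 0) (XT.lf (nat_lit 0) (nat_lit 94216276209) (nat_lit 76) (nat_lit 94355170062) (nat_lit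 152) (nat_lit 164414752758) (nat_lit 188) (nat_lit 5) (nat_lit 189) (nat_lit 5) (nat_lit 190) (nat_lit 4) (nat_lit 458) (nat_lit 392) (nat_lit 170)) (XT.lf (nat_lit 0) (nat_lit 307073580530) (nat_lit 152) (nat_lit 28772347391) (nat_lit 0) (nat_lit 28639805419) (nat_lit 188) (nat_lit 5) (nat_lit 190) (nat_lit 4) (nat_lit 188) (nat_lit 4) (nat_lit 459) (nat_lit 392) (nat_lit 169))) (XT.nd (nat_lit 78) (nat_lit 76) (nat_lit 0) (XT.lf (nat_lit 0) (nat_lit 58215998541) (nat_lit 152) (nat_lit 159091227730) (nat_lit 76) (nat_lit 158958436128) (nat_lit 186) (nat_lit 5) (nat_lit 188) (nat_lit 5) (nat_lit 187) (nat_lit 4) (nat_lit 460) (nat_lit 392) (nat_lit 168)) (XT.lf (nat_lit 0) (nat_lit 89729533008) (nat_lit 76) (nat_lit 89862562353) (nat_lit 152) (nat_lit 208900635272) (nat_lit 185) (nat_lit 5) (nat_lit 186) (nat_lit 5) (nat_lit 187) (nat_lit 4) (nat_lit 461) (nat_lit 392) (nat_lit 167)))))) (XT.nd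 (nat_lit 624) (nat_lit 608) (nat_lit 0) (XT.nd (nat_lit 312) (nat_lit 304) (nat_lit 0) (XT.nd (nat_lit 156) (nat_lit 76) (nat_lit 0) (XT.nd (nat_lit 78) (nat_lit 152) (nat_lit 0) (XT.lf (nat_lit 0) (nat_lit 310461475185) (nat_lit 152) (nat_lit 45412681720) (nat_lit 0) (nat_lit 45285771465) (nat_lit 185) (nat_lit 5) (nat_lit 187) (nat_lit 4) (nat_lit 185) (nat_lit 4) (nat_lit 462) (nat_lit 392) (nat_lit 166)) (XT.lf (nat_lit 0) (nat_lit 37433797185) (nat_lit 152) (nat_lit 188436624859) (nat_lit 76) (nat_lit 188309509234) (nat_lit 183) (nat_lit 5) (nat_lit 185) (nat_lit 5) (nat_lit 184) (nat_lit 4) (nat_lit 463) (nat_lit 392) (nat_lit 165))) (XT.nd (nat_lit 78) (nat_lit 0) (nat_lit 0) (XT.lf (nat_lit 0) (nat_lit 85456489253) (nat_lit 76) (nat_lit 85583800471) (nat_lit 152) (nat_lit 256630516993) (nat_lit 182) (nat_lit 5) (nat_lit 183) (nat_lit 5) (nat_lit 184) (nat_lit 4) (nat_lit 464) (nat_lit 392)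 (nat_lit 164)) (XT.lf (nat_lit 0) (nat_lit 315534049886) (nat_lit 152) (nat_lit 63106627539) (nat_lit 0) (nat_lit 62985201352) (nat_lit 182) (nat_lit 5) (nat_lit 184) (nat_lit 4) (nat_lit 182) (nat_lit 4) (nat_lit 465) (nat_lit 392) (nat_lit 163)))) (XT.nd (nat_lit 156) (nat_lit 76) (nat_lit 0) (XT.nd (nat_lit 78) (nat_lit 76) (nat_lit 0) (XT.lf (nat_lit 0) (nat_lit 15795138950) (nat_lit 152) (nat_lit 220168982645) (nat_lit 76) (nat_lit 220047387499) (nat_lit 180) (nat_lit 5) (nat_lit 182) (nat_lit 5) (nat_lit 181) (nat_lit 4) (nat_lit 466) (nat_lit 392) (nat_lit 162)) (XT.lf (nat_lit 0) (nat_lit 81386960801) (nat_lit 76) (nat_lit 81508716861) (nat_lit 152) (nat_lit 307999552568) (nat_lit 179) (nat_lit 5) (nat_lit 180) (nat_lit 5) (nat_lit 181) (nat_lit 4) (nat_lit 467) (nat_lit 392) (nat_lit 161))) (XT.nd (nat_lit 78) (nat_lit 76) (nat_lit 0) (XT.lf (nat_lit 0) (nat_lit 322400308688) (nat_lit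 152) (nat_lit 81993239786) (nat_lit 0) (nat_lit 81877135680) (nat_lit 179) (nat_lit 5) (nat_lit 181) (nat_lit 4) (nat_lit 179) (nat_lit 4) (nat_lit 468) (nat_lit 392) (nat_lit 160)) (XT.lf (nat_lit 0) (nat_lit 247481913863) (nat_lit 76) (nat_lit 247598156972) (nat_lit 76) (nat_lit 7074844961) (nat_lit 178) (nat_lit 4) (nat_lit 179) (nat_lit 5) (nat_lit 179) (nat_lit 4) (nat_lit 469) (nat_lit 392) (nat_lit 159))))) (XT.nd (nat_lit 312) (nat_lit 228) (nat_lit 0) (XT.nd (nat_lit 156) (nat_lit 228) (nat_lit 0) (XT.nd (nat_lit 78) (nat_lit 0) (nat_lit 0) (XT.lf (nat_lit 0) (nat_lit 77511249882) (nat_lit 76) (nat_lit 77627625375) (nat_lit 152) (nat_lit 363440419147) (nat_lit 176) (nat_lit 5) (nat_lit 177) (nat_lit 5) (nat_lit 178) (nat_lit 4) (nat_lit 470) (nat_lit 392) (nat_lit 158)) (XT.lf (nat_lit 0) (nat_lit 331183458775) (nat_lit 152) (nat_lit 102224345534) (nat_lit 0) (nat_lit 102113391655) (nat_lit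 176) (nat_lit 5) (nat_lit 178) (nat_lit 4) (nat_lit 176) (nat_lit 4) (nat_lit 471) (nat_lit 392) (nat_lit 157))) (XT.nd (nat_lit 78) (nat_lit 152) (nat_lit 0) (XT.lf (nat_lit 0) (nat_lit 260630386377) (nat_lit 76) (nat_lit 260741454615) (nat_lit 76) (nat_lit 31671273136) (nat_lit 175) (nat_lit 4) (nat_lit 176) (nat_lit 5) (nat_lit 176) (nat_lit 4) (nat_lit 472) (nat_lit 392) (nat_lit 156)) (XT.lf (nat_lit 0) (nat_lit 73820121687) (nat_lit 76) (nat_lit 73931298838) (nat_lit 152) (nat_lit 423427303986) (nat_lit 173) (nat_lit 5) (nat_lit 174) (nat_lit 5) (nat_lit 175) (nat_lit 4) (nat_lit 473) (nat_lit 392) (nat_lit 155)))) (XT.nd (nat_lit 156) (nat_lit 152) (nat_lit 0) (XT.nd (nat_lit 78) (nat_lit 76) (nat_lit 0) (XT.lf (nat_lit 0) (nat_lit 342022222331) (nat_lit 152) (nat_lit 123965924007) (nat_lit 0) (nat_lit 123859942219) (nat_lit 173) (nat_lit 5) (nat_lit 175) (nat_lit 4) (nat_lit 173) (nat_lit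 4) (nat_lit 474) (nat_lit 392) (nat_lit 154)) (XT.lf (nat_lit 0) (nat_lit 275708441187) (nat_lit 76) (nat_lit 275814517057) (nat_lit 76) (nat_lit 57652142862) (nat_lit 172) (nat_lit 4) (nat_lit 173) (nat_lit 5) (nat_lit 173) (nat_lit 4) (nat_lit 475) (nat_lit 392) (nat_lit 153))) (XT.nd (nat_lit 78) (nat_lit 0) (nat_lit 0) (XT.lf (nat_lit 0) (nat_lit 70304782121) (nat_lit 76) (nat_lit 70410947595) (nat_lit 152) (nat_lit 488480294113) (nat_lit 170) (nat_lit 5) (nat_lit 171) (nat_lit 5) (nat_lit 172) (nat_lit 4) (nat_lit 476) (nat_lit 392) (nat_lit 152)) (XT.lf (nat_lit 0) (nat_lit 355072289677) (nat_lit 152) (nat_lit 147399624606) (nat_lit 0) (nat_lit 147298433359) (nat_lit 170) (nat_lit 5) (nat_lit 172) (nat_lit 4) (nat_lit 170) (nat_lit 4) (nat_lit 477) (nat_lit 392) (nat_lit 151))))))))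
noncomputable def xc270 : XT := (XT.nd (nat_lit 46956) (nat_lit 0) (nat_lit 7372) (XT.nd (nat_lit 624) (nat_lit 76) (nat_lit 0) (XT.nd (nat_lit 312) (nat_lit 380) (nat_lit 0) (XT.nd (nat_lit 156) (nat_lit 76) (nat_lit 0) (XT.nd (nat_lit 78) (nat_lit 152) (nat_lit 0) (XT.lf (nat_lit 0) (nat_lit 292886146618) (nat_lit 76) (nat_lit 292987415268) (nat_lit 76) (nat_lit 85213481547) (nat_lit 169) (nat_lit 4) (nat_lit 170) (nat_lit 5) (nat_lit 170) (nat_lit 4) (nat_lit 478) (nat_lit 392) (nat_lit 150)) (XT.lf (nat_lit 0) (nat_lit 66956856640) (nat_lit 76) (nat_lit 67058199006) (nat_lit 152) (nat_lit 559170209571) (nat_lit 167) (nat_lit 5) (nat_lit 168) (nat_lit 5) (nat_lit 169) (nat_lit 4) (nat_lit 479) (nat_lit 392) (nat_lit 149))) (XT.nd (nat_lit 78) (nat_lit 76) (nat_lit 0) (XT.lf (nat_lit 0) (nat_lit 370507927823) (nat_lit 152) (nat_lit 172724437280) (nat_lit 0) (nat_lit 172627853878) (nat_lit 167)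 (nat_lit 5) (nat_lit 169) (nat_lit 4) (nat_lit 167) (nat_lit 4) (nat_lit 480) (nat_lit 392) (nat_lit 148)) (XT.lf (nat_lit 0) (nat_lit 312352323781) (nat_lit 76) (nat_lit 312448970862) (nat_lit 76) (nat_lit 114568833237) (nat_lit 166) (nat_lit 4) (nat_lit 167) (nat_lit 5) (nat_lit 167) (nat_lit 4) (nat_lit 481) (nat_lit 392) (nat_lit 147)))) (XT.nd (nat_lit 156) (nat_lit 228) (nat_lit 0) (XT.nd (nat_lit 78) (nat_lit 0) (nat_lit 0) (XT.lf (nat_lit 0) (nat_lit 63768370138) (nat_lit 76) (nat_lit 63865077866) (nat_lit 152) (nat_lit 636123925991) (nat_lit 164) (nat_lit 5) (nat_lit 165) (nat_lit 5) (nat_lit 166) (nat_lit 4) (nat_lit 482) (nat_lit 392) (nat_lit 146)) (XT.lf (nat_lit 0) (nat_lit 388523760093) (nat_lit 152) (nat_lit 200158531003) (nat_lit 0) (nat_lit 200066373397) (nat_lit 164) (nat_lit 5) (nat_lit 166) (nat_lit 4) (nat_lit 164) (nat_lit 4) (nat_lit 483) (nat_lit 392) (nat_lit 145))) (XT.nd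 (nat_lit 78) (nat_lit 152) (nat_lit 0) (XT.lf (nat_lit 0) (nat_lit 334316405645) (nat_lit 76) (nat_lit 334408615640) (nat_lit 76) (nat_lit 145951176556) (nat_lit 163) (nat_lit 4) (nat_lit 164) (nat_lit 5) (nat_lit 164) (nat_lit 4) (nat_lit 484) (nat_lit 392) (nat_lit 144)) (XT.lf (nat_lit 0) (nat_lit 60731727808) (nat_lit 76) (nat_lit 60823987697) (nat_lit 152) (nat_lit 720030236943) (nat_lit 161) (nat_lit 5) (nat_lit 162) (nat_lit 5) (nat_lit 163) (nat_lit 4) (nat_lit 485) (nat_lit 392) (nat_lit 143))))) (XT.nd (nat_lit 46020) (nat_lit 0) (nat_lit 10108) (XT.nd (nat_lit 45864) (nat_lit 0) (nat_lit 10032) (XT.nd (nat_lit 78) (nat_lit 76) (nat_lit 0) (XT.lf (nat_lit 0) (nat_lit 409336734039) (nat_lit 152) (nat_lit 229941277764) (nat_lit 0) (nat_lit 229853365946) (nat_lit 161) (nat_lit 5) (nat_lit 163) (nat_lit 4) (nat_lit 161) (nat_lit 4) (nat_lit 486) (nat_lit 392) (nat_lit 142)) (XT.lf (nat_lit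 0) (nat_lit 359010489710) (nat_lit 76) (nat_lit 359098444628) (nat_lit 76) (nat_lit 179615033435) (nat_lit 160) (nat_lit 4) (nat_lit 161) (nat_lit 5) (nat_lit 161) (nat_lit 4) (nat_lit 487) (nat_lit 392) (nat_lit 141))) (XT.nd (nat_lit 78) (nat_lit 0) (nat_lit 0) (XT.lf (nat_lit 0) (nat_lit 12511946544) (nat_lit 836) (nat_lit 7213483288) (nat_lit 836) (nat_lit 7213483288) (nat_lit 292) (nat_lit 3) (nat_lit 303) (nat_lit 3) (nat_lit 303) (nat_lit 5) (nat_lit 393) (nat_lit 393) (nat_lit 234)) (XT.lf (nat_lit 76) (nat_lit 12925648002) (nat_lit 0) (nat_lit 12947866394) (nat_lit 836) (nat_lit 29340056301) (nat_lit 293) (nat_lit 5) (nat_lit 292) (nat_lit 3) (nat_lit 303) (nat_lit 5) (nat_lit 394) (nat_lit 393) (nat_lit 233)))) (XT.nd (nat_lit 156) (nat_lit 0) (nat_lit 76) (XT.nd (nat_lit 78) (nat_lit 0) (nat_lit 0) (XT.lf (nat_lit 0) (nat_lit 27244848672) (nat_lit 760) (nat_lit 14694302609) (nat_lit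 836) (nat_lit 14652989500) (nat_lit 293) (nat_lit 5) (nat_lit 303) (nat_lit 5) (nat_lit 304) (nat_lit 5) (nat_lit 395) (nat_lit 393) (nat_lit 232)) (XT.lf (nat_lit 76) (nat_lit 14531008601) (nat_lit 0) (nat_lit 14591514792) (nat_lit 836) (nat_lit 28895227291) (nat_lit 294) (nat_lit 5) (nat_lit 293) (nat_lit 5) (nat_lit 304) (nat_lit 5) (nat_lit 396) (nat_lit 393) (nat_lit 231))) (XT.nd (nat_lit 78) (nat_lit 0) (nat_lit 0) (XT.lf (nat_lit 0) (nat_lit 31566227866) (nat_lit 760) (nat_lit 13999919775) (nat_lit 836) (nat_lit 13924886140) (nat_lit 294) (nat_lit 5) (nat_lit 304) (nat_lit 5) (nat_lit 305) (nat_lit 5) (nat_lit 397) (nat_lit 393) (nat_lit 230)) (XT.lf (nat_lit 76) (nat_lit 17274085910) (nat_lit 0) (nat_lit 17365699252) (nat_lit 836) (nat_lit 26372812490) (nat_lit 295) (nat_lit 5) (nat_lit 294) (nat_lit 5) (nat_lit 305) (nat_lit 5) (nat_lit 398) (nat_lit 393) (nat_lit 229)))))) (XT.nd (nat_lit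 624) (nat_lit 1748) (nat_lit 0) (XT.nd (nat_lit 312) (nat_lit 1140) (nat_lit 0) (XT.nd (nat_lit 156) (nat_lit 0) (nat_lit 76) (XT.nd (nat_lit 78) (nat_lit 0) (nat_lit 0) (XT.lf (nat_lit 0) (nat_lit 38297995101) (nat_lit 760) (nat_lit 12196492481) (nat_lit 836) (nat_lit 12094203397) (nat_lit 295) (nat_lit 5) (nat_lit 305) (nat_lit 5) (nat_lit 306) (nat_lit 5) (nat_lit 399) (nat_lit 393) (nat_lit 228)) (XT.lf (nat_lit 76) (nat_lit 21319459022) (nat_lit 0) (nat_lit 21436070279) (nat_lit 836) (nat_lit 21457238982) (nat_lit 296) (nat_lit 5) (nat_lit 295) (nat_lit 5) (nat_lit 306) (nat_lit 5) (nat_lit 400) (nat_lit 393) (nat_lit 227))) (XT.nd (nat_lit 78) (nat_lit 0) (nat_lit 0) (XT.lf (nat_lit 0) (nat_lit 47786488617) (nat_lit 760) (nat_lit 9119041194) (nat_lit 836) (nat_lit 8994992221) (nat_lit 296) (nat_lit 5) (nat_lit 306) (nat_lit 5) (nat_lit 307) (nat_lit 5) (nat_lit 401) (nat_lit 393) (nat_lit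 226)) (XT.lf (nat_lit 76) (nat_lit 26851088270) (nat_lit 0) (nat_lit 26987509275) (nat_lit 836) (nat_lit 13795585841) (nat_lit 297) (nat_lit 5) (nat_lit 296) (nat_lit 5) (nat_lit 307) (nat_lit 5) (nat_lit 402) (nat_lit 393) (nat_lit 225)))) (XT.nd (nat_lit 156) (nat_lit 532) (nat_lit 0) (XT.nd (nat_lit 78) (nat_lit 760) (nat_lit 0) (XT.lf (nat_lit 0) (nat_lit 60418396300) (nat_lit 760) (nat_lit 4583011927) (nat_lit 76) (nat_lit 4441865363) (nat_lit 297) (nat_lit 5) (nat_lit 307) (nat_lit 5) (nat_lit 298) (nat_lit 5) (nat_lit 403) (nat_lit 393) (nat_lit 224)) (XT.lf (nat_lit 0) (nat_lit 34074411010) (nat_lit 760) (nat_lit 34226245001) (nat_lit 836) (nat_lit 2993488741) (nat_lit 287) (nat_lit 5) (nat_lit 297) (nat_lit 5) (nat_lit 298) (nat_lit 5) (nat_lit 404) (nat_lit 393) (nat_lit 223))) (XT.nd (nat_lit 78) (nat_lit 0) (nat_lit 0) (XT.lf (nat_lit 0) (nat_lit 1586652885) (nat_lit 456) (nat_lit 1748665377)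 (nat_lit 532) (nat_lit 69894497643) (nat_lit 280) (nat_lit 5) (nat_lit 286) (nat_lit 5) (nat_lit 287) (nat_lit 5) (nat_lit 405) (nat_lit 393) (nat_lit 222)) (XT.lf (nat_lit 0) (nat_lit 11024854775) (nat_lit 532) (nat_lit 32170623735) (nat_lit 76) (nat_lit 32007093923) (nat_lit 280) (nat_lit 5) (nat_lit 287) (nat_lit 5) (nat_lit 281) (nat_lit 5) (nat_lit 406) (nat_lit 393) (nat_lit 221))))) (XT.nd (nat_lit 312) (nat_lit 988) (nat_lit 0) (XT.nd (nat_lit 156) (nat_lit 380) (nat_lit 0) (XT.nd (nat_lit 78) (nat_lit 0) (nat_lit 0) (XT.lf (nat_lit 0) (nat_lit 9551744601) (nat_lit 380) (nat_lit 9724066985) (nat_lit 456) (nat_lit 57989308030) (nat_lit 275) (nat_lit 5) (nat_lit 280) (nat_lit 5) (nat_lit 281) (nat_lit 5) (nat_lit 407) (nat_lit 393) (nat_lit 220)) (XT.lf (nat_lit 0) (nat_lit 28889139400) (nat_lit 456) (nat_lit 25333127639) (nat_lit 76) (nat_lit 25161035960) (nat_lit 275) (nat_lit 5) (nat_lit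 281) (nat_lit 5) (nat_lit 276) (nat_lit 5) (nat_lit 408) (nat_lit 393) (nat_lit 219))) (XT.nd (nat_lit 78) (nat_lit 0) (nat_lit 0) (XT.lf (nat_lit 0) (nat_lit 19634309094) (nat_lit 380) (nat_lit 19813996127) (nat_lit 456) (nat_lit 42135831751) (nat_lit 270) (nat_lit 5) (nat_lit 275) (nat_lit 5) (nat_lit 276) (nat_lit 5) (nat_lit 409) (nat_lit 393) (nat_lit 218)) (XT.lf (nat_lit 0) (nat_lit 51225447196) (nat_lit 456) (nat_lit 16406542135) (nat_lit 76) (nat_lit 16228522417) (nat_lit 270) (nat_lit 5) (nat_lit 276) (nat_lit 5) (nat_lit 271) (nat_lit 5) (nat_lit 410) (nat_lit 393) (nat_lit 217)))) (XT.nd (nat_lit 156) (nat_lit 684) (nat_lit 0) (XT.nd (nat_lit 78) (nat_lit 0) (nat_lit 0) (XT.lf (nat_lit 0) (nat_lit 32116191439) (nat_lit 304) (nat_lit 32300772310) (nat_lit 380) (nat_lit 21792465642) (nat_lit 266) (nat_lit 5) (nat_lit 270) (nat_lit 5) (nat_lit 271) (nat_lit 5) (nat_lit 411) (nat_lit 393)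 (nat_lit 216)) (XT.lf (nat_lit 0) (nat_lit 78624653141) (nat_lit 380) (nat_lit 5107526194) (nat_lit 76) (nat_lit 4925783730) (nat_lit 266) (nat_lit 5) (nat_lit 271) (nat_lit 5) (nat_lit 267) (nat_lit 5) (nat_lit 412) (nat_lit 393) (nat_lit 215))) (XT.nd (nat_lit 78) (nat_lit 304) (nat_lit 0) (XT.lf (nat_lit 0) (nat_lit 3528039153) (nat_lit 380) (nat_lit 43911036835) (nat_lit 76) (nat_lit 43723626600) (nat_lit 261) (nat_lit 5) (nat_lit 266) (nat_lit 5) (nat_lit 262) (nat_lit 5) (nat_lit 413) (nat_lit 393) (nat_lit 214)) (XT.lf (nat_lit 0) (nat_lit 8730512019) (nat_lit 304) (nat_lit 8923320130) (nat_lit 380) (nat_lit 76119444839) (nat_lit 257) (nat_lit 5) (nat_lit 261) (nat_lit 5) (nat_lit 262) (nat_lit 5) (nat_lit 414) (nat_lit 393) (nat_lit 213)))))))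
noncomputable def xc271 : XT := (XT.nd (nat_lit 1248) (nat_lit 1748) (nat_lit 0) (XT.nd (nat_lit 624) (nat_lit 1216) (nat_lit 0) (XT.nd (nat_lit 312) (nat_lit 608) (nat_lit 0) (XT.nd (nat_lit 156) (nat_lit 228) (nat_lit 0) (XT.nd (nat_lit 78) (nat_lit 304) (nat_lit 0) (XT.lf (nat_lit 0) (nat_lit 33733202454) (nat_lit 380) (nat_lit 31453668039) (nat_lit 76) (nat_lit 31265145233) (nat_lit 257) (nat_lit 5) (nat_lit 262) (nat_lit 5) (nat_lit 258) (nat_lit 5) (nat_lit 415) (nat_lit 393) (nat_lit 212)) (XT.lf (nat_lit 0) (nat_lit 25483446213) (nat_lit 304) (nat_lit 25676631907) (nat_lit 380) (nat_lit 48077436438) (nat_lit 253) (nat_lit 5) (nat_lit 257) (nat_lit 5) (nat_lit 258) (nat_lit 5) (nat_lit 416) (nat_lit 393) (nat_lit 211))) (XT.nd (nat_lit 78) (nat_lit 228) (nat_lit 0) (XT.lf (nat_lit 0) (nat_lit 70245937280) (nat_lit 380) (nat_lit 16032592410) (nat_lit 76) (nat_lit 15844376657) (nat_lit 253)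 (nat_lit 5) (nat_lit 258) (nat_lit 5) (nat_lit 254) (nat_lit 5) (nat_lit 417) (nat_lit 393) (nat_lit 210)) (XT.lf (nat_lit 0) (nat_lit 45613175813) (nat_lit 228) (nat_lit 45805419544) (nat_lit 304) (nat_lit 13677347070) (nat_lit 250) (nat_lit 5) (nat_lit 253) (nat_lit 5) (nat_lit 254) (nat_lit 5) (nat_lit 418) (nat_lit 393) (nat_lit 209)))) (XT.nd (nat_lit 156) (nat_lit 228) (nat_lit 0) (XT.nd (nat_lit 78) (nat_lit 0) (nat_lit 0) (XT.lf (nat_lit 0) (nat_lit 2689855778) (nat_lit 304) (nat_lit 2885935680) (nat_lit 380) (nat_lit 102621728139) (nat_lit 245) (nat_lit 5) (nat_lit 249) (nat_lit 5) (nat_lit 250) (nat_lit 5) (nat_lit 419) (nat_lit 393) (nat_lit 208)) (XT.lf (nat_lit 0) (nat_lit 27013809099) (nat_lit 380) (nat_lit 42267642166) (nat_lit 76) (nat_lit 42077419883) (nat_lit 245) (nat_lit 5) (nat_lit 250) (nat_lit 5) (nat_lit 246) (nat_lit 5) (nat_lit 420) (nat_lit 393) (nat_lit 207))) (XT.nd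 (nat_lit 78) (nat_lit 0) (nat_lit 0) (XT.lf (nat_lit 0) (nat_lit 24882731982) (nat_lit 228) (nat_lit 25076268093) (nat_lit 304) (nat_lit 64697526578) (nat_lit 242) (nat_lit 5) (nat_lit 245) (nat_lit 5) (nat_lit 246) (nat_lit 5) (nat_lit 421) (nat_lit 393) (nat_lit 206)) (XT.lf (nat_lit 0) (nat_lit 75111655894) (nat_lit 304) (nat_lit 21570862310) (nat_lit 76) (nat_lit 21383536465) (nat_lit 242) (nat_lit 5) (nat_lit 246) (nat_lit 5) (nat_lit 243) (nat_lit 5) (nat_lit 422) (nat_lit 393) (nat_lit 205))))) (XT.nd (nat_lit 312) (nat_lit 456) (nat_lit 0) (XT.nd (nat_lit 156) (nat_lit 228) (nat_lit 0) (XT.nd (nat_lit 78) (nat_lit 304) (nat_lit 0) (XT.lf (nat_lit 0) (nat_lit 51271420394) (nat_lit 228) (nat_lit 51461608848) (nat_lit 304) (nat_lit 18852475608) (nat_lit 239) (nat_lit 5) (nat_lit 242) (nat_lit 5) (nat_lit 243) (nat_lit 5) (nat_lit 423) (nat_lit 393) (nat_lit 204)) (XT.lf (nat_lit 0) (nat_lit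 3238207438) (nat_lit 228) (nat_lit 3431122187) (nat_lit 304) (nat_lit 118585490657) (nat_lit 235) (nat_lit 5) (nat_lit 238) (nat_lit 5) (nat_lit 239) (nat_lit 5) (nat_lit 424) (nat_lit 393) (nat_lit 203))) (XT.nd (nat_lit 78) (nat_lit 228) (nat_lit 0) (XT.lf (nat_lit 0) (nat_lit 34777319233) (nat_lit 304) (nat_lit 47201923761) (nat_lit 76) (nat_lit 47015722599) (nat_lit 235) (nat_lit 5) (nat_lit 239) (nat_lit 5) (nat_lit 236) (nat_lit 5) (nat_lit 425) (nat_lit 393) (nat_lit 202)) (XT.lf (nat_lit 0) (nat_lit 32331363454) (nat_lit 228) (nat_lit 32519919691) (nat_lit 304) (nat_lit 68042806282) (nat_lit 232) (nat_lit 5) (nat_lit 235) (nat_lit 5) (nat_lit 236) (nat_lit 5) (nat_lit 426) (nat_lit 393) (nat_lit 201)))) (XT.nd (nat_lit 156) (nat_lit 304) (nat_lit 0) (XT.nd (nat_lit 78) (nat_lit 152) (nat_lit 0) (XT.lf (nat_lit 0) (nat_lit 97544069965) (nat_lit 304) (nat_lit 19785028372) (nat_lit 76) (nat_lit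 19603314880) (nat_lit 232) (nat_lit 5) (nat_lit 236) (nat_lit 5) (nat_lit 233) (nat_lit 5) (nat_lit 427) (nat_lit 393) (nat_lit 200)) (XT.lf (nat_lit 0) (nat_lit 66630360394) (nat_lit 152) (nat_lit 66814108289) (nat_lit 228) (nat_lit 7649535886) (nat_lit 230) (nat_lit 5) (nat_lit 232) (nat_lit 5) (nat_lit 233) (nat_lit 5) (nat_lit 428) (nat_lit 393) (nat_lit 199))) (XT.nd (nat_lit 78) (nat_lit 0) (nat_lit 0) (XT.lf (nat_lit 0) (nat_lit 12602815121) (nat_lit 228) (nat_lit 12788500542) (nat_lit 304) (nat_lit 120025470796) (nat_lit 226) (nat_lit 5) (nat_lit 229) (nat_lit 5) (nat_lit 230) (nat_lit 5) (nat_lit 429) (nat_lit 393) (nat_lit 198)) (XT.lf (nat_lit 0) (nat_lit 61794469618) (nat_lit 304) (nat_lit 44117600824) (nat_lit 76) (nat_lit 43939000172) (nat_lit 226) (nat_lit 5) (nat_lit 230) (nat_lit 5) (nat_lit 227) (nat_lit 5) (nat_lit 430) (nat_lit 393) (nat_lit 197)))))) (XT.nd (nat_lit 624) (nat_lit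 836) (nat_lit 0) (XT.nd (nat_lit 312) (nat_lit 380) (nat_lit 0) (XT.nd (nat_lit 156) (nat_lit 380) (nat_lit 0) (XT.nd (nat_lit 78) (nat_lit 0) (nat_lit 0) (XT.lf (nat_lit 0) (nat_lit 50416953038) (nat_lit 152) (nat_lit 50597227399) (nat_lit 228) (nat_lit 53443068580) (nat_lit 224) (nat_lit 5) (nat_lit 226) (nat_lit 5) (nat_lit 227) (nat_lit 5) (nat_lit 431) (nat_lit 393) (nat_lit 196)) (XT.lf (nat_lit 0) (nat_lit 143070721229) (nat_lit 228) (nat_lit 8176215430) (nat_lit 76) (nat_lit 8003007461) (nat_lit 224) (nat_lit 5) (nat_lit 227) (nat_lit 5) (nat_lit 225) (nat_lit 5) (nat_lit 432) (nat_lit 393) (nat_lit 195))) (XT.nd (nat_lit 78) (nat_lit 152) (nat_lit 0) (XT.lf (nat_lit 0) (nat_lit 24558496878) (nat_lit 228) (nat_lit 69881629568) (nat_lit 76) (nat_lit 69706975786) (nat_lit 221) (nat_lit 5) (nat_lit 224) (nat_lit 5) (nat_lit 222) (nat_lit 5) (nat_lit 433) (nat_lit 393) (nat_lit 194)) (XT.lf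 (nat_lit 0) (nat_lit 33639458104) (nat_lit 152) (nat_lit 33815488850) (nat_lit 228) (nat_lit 101787631024) (nat_lit 219) (nat_lit 5) (nat_lit 221) (nat_lit 5) (nat_lit 222) (nat_lit 5) (nat_lit 434) (nat_lit 393) (nat_lit 193)))) (XT.nd (nat_lit 156) (nat_lit 228) (nat_lit 0) (XT.nd (nat_lit 78) (nat_lit 152) (nat_lit 0) (XT.lf (nat_lit 0) (nat_lit 114164624264) (nat_lit 228) (nat_lit 30256840143) (nat_lit 76) (nat_lit 30087942867) (nat_lit 219) (nat_lit 5) (nat_lit 222) (nat_lit 5) (nat_lit 220) (nat_lit 5) (nat_lit 435) (nat_lit 393) (nat_lit 192)) (XT.lf (nat_lit 0) (nat_lit 82440413310) (nat_lit 152) (nat_lit 82610500059) (nat_lit 228) (nat_lit 14896608269) (nat_lit 217) (nat_lit 5) (nat_lit 219) (nat_lit 5) (nat_lit 220) (nat_lit 5) (nat_lit 436) (nat_lit 393) (nat_lit 191))) (XT.nd (nat_lit 78) (nat_lit 0) (nat_lit 0) (XT.lf (nat_lit 0) (nat_lit 16187692401) (nat_lit 152) (nat_lit 16358911983)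 (nat_lit 228) (nat_lit 153046653556) (nat_lit 214) (nat_lit 5) (nat_lit 216) (nat_lit 5) (nat_lit 217) (nat_lit 5) (nat_lit 437) (nat_lit 393) (nat_lit 190)) (XT.lf (nat_lit 0) (nat_lit 84370093349) (nat_lit 228) (nat_lit 53588817092) (nat_lit 76) (nat_lit 53424723312) (nat_lit 214) (nat_lit 5) (nat_lit 217) (nat_lit 5) (nat_lit 215) (nat_lit 5) (nat_lit 438) (nat_lit 393) (nat_lit 189))))) (XT.nd (nat_lit 312) (nat_lit 380) (nat_lit 0) (XT.nd (nat_lit 156) (nat_lit 304) (nat_lit 0) (XT.nd (nat_lit 78) (nat_lit 0) (nat_lit 0) (XT.lf (nat_lit 0) (nat_lit 69990138560) (nat_lit 152) (nat_lit 70155210922) (nat_lit 228) (nat_lit 57250149238) (nat_lit 212) (nat_lit 5) (nat_lit 214) (nat_lit 5) (nat_lit 215) (nat_lit 5) (nat_lit 439) (nat_lit 393) (nat_lit 188)) (XT.lf (nat_lit 0) (nat_lit 199647690168) (nat_lit 228) (nat_lit 2085725028) (nat_lit 76) (nat_lit 1927625652) (nat_lit 212) (nat_lit 5) (nat_lit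 215) (nat_lit 5) (nat_lit 213) (nat_lit 4) (nat_lit 440) (nat_lit 393) (nat_lit 187))) (XT.nd (nat_lit 78) (nat_lit 152) (nat_lit 0) (XT.lf (nat_lit 0) (nat_lit 53497345140) (nat_lit 152) (nat_lit 78348660195) (nat_lit 76) (nat_lit 78189715482) (nat_lit 210) (nat_lit 5) (nat_lit 212) (nat_lit 5) (nat_lit 211) (nat_lit 5) (nat_lit 441) (nat_lit 393) (nat_lit 186)) (XT.lf (nat_lit 0) (nat_lit 57259260970) (nat_lit 152) (nat_lit 57419010765) (nat_lit 228) (nat_lit 102001094872) (nat_lit 208) (nat_lit 5) (nat_lit 210) (nat_lit 5) (nat_lit 211) (nat_lit 5) (nat_lit 442) (nat_lit 393) (nat_lit 185)))) (XT.nd (nat_lit 156) (nat_lit 228) (nat_lit 0) (XT.nd (nat_lit 78) (nat_lit 152) (nat_lit 0) (XT.lf (nat_lit 0) (nat_lit 180590206172) (nat_lit 228) (nat_lit 21567131667) (nat_lit 76) (nat_lit 21414258772) (nat_lit 208) (nat_lit 5) (nat_lit 211) (nat_lit 5) (nat_lit 209) (nat_lit 4) (nat_lit 443) (nat_lit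 393) (nat_lit 184)) (XT.lf (nat_lit 0) (nat_lit 21341833042) (nat_lit 152) (nat_lit 104728667061) (nat_lit 76) (nat_lit 104575098705) (nat_lit 206) (nat_lit 5) (nat_lit 208) (nat_lit 5) (nat_lit 207) (nat_lit 5) (nat_lit 444) (nat_lit 393) (nat_lit 183))) (XT.nd (nat_lit 78) (nat_lit 76) (nat_lit 0) (XT.lf (nat_lit 0) (nat_lit 44171559755) (nat_lit 152) (nat_lit 44325790454) (nat_lit 228) (nat_lit 149487690802) (nat_lit 204) (nat_lit 5) (nat_lit 206) (nat_lit 5) (nat_lit 207) (nat_lit 5) (nat_lit 445) (nat_lit 393) (nat_lit 182)) (XT.nd (nat_lit 78) (nat_lit 76) (nat_lit 0) (XT.lf (nat_lit 0) (nat_lit 161461088989) (nat_lit 228) (nat_lit 42127665597) (nat_lit 76) (nat_lit 41980178452) (nat_lit 204) (nat_lit 5) (nat_lit 207) (nat_lit 5) (nat_lit 205) (nat_lit 4) (nat_lit 446) (nat_lit 393) (nat_lit 181)) (XT.lf (nat_lit 0) (nat_lit 120264499553) (nat_lit 76) (nat_lit 120412558855) (nat_lit 152)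 (nat_lit 12724759074) (nat_lit 203) (nat_lit 5) (nat_lit 204) (nat_lit 5) (nat_lit 205) (nat_lit 4) (nat_lit 447) (nat_lit 393) (nat_lit 180))))))))
noncomputable def xc272 : XT := (XT.nd (nat_lit 2496) (nat_lit 608) (nat_lit 0) (XT.nd (nat_lit 1248) (nat_lit 1216) (nat_lit 0) (XT.nd (nat_lit 624) (nat_lit 532) (nat_lit 0) (XT.nd (nat_lit 312) (nat_lit 304) (nat_lit 0) (XT.nd (nat_lit 156) (nat_lit 304) (nat_lit 0) (XT.nd (nat_lit 78) (nat_lit 0) (nat_lit 0) (XT.lf (nat_lit 0) (nat_lit 30645270643) (nat_lit 152) (nat_lit 30793874856) (nat_lit 228) (nat_lit 200078456713) (nat_lit 200) (nat_lit 5) (nat_lit 202) (nat_lit 5) (nat_lit 203) (nat_lit 5) (nat_lit 448) (nat_lit 393) (nat_lit 179)) (XT.lf (nat_lit 0) (nat_lit 142163426093) (nat_lit 228) (nat_lit 63921675611) (nat_lit 76) (nat_lit 63779653538) (nat_lit 200) (nat_lit 5) (nat_lit 203) (nat_lit 5) (nat_lit 201) (nat_lit 4) (nat_lit 449) (nat_lit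 393) (nat_lit 178))) (XT.nd (nat_lit 78) (nat_lit 228) (nat_lit 0) (XT.lf (nat_lit 0) (nat_lit 114537116000) (nat_lit 76) (nat_lit 114679608788) (nat_lit 152) (nat_lit 49297900932) (nat_lit 199) (nat_lit 5) (nat_lit 200) (nat_lit 5) (nat_lit 201) (nat_lit 4) (nat_lit 450) (nat_lit 393) (nat_lit 177)) (XT.lf (nat_lit 0) (nat_lit 16592407981) (nat_lit 152) (nat_lit 16735349069) (nat_lit 228) (nat_lit 254175497139) (nat_lit 196) (nat_lit 5) (nat_lit 198) (nat_lit 5) (nat_lit 199) (nat_lit 5) (nat_lit 451) (nat_lit 393) (nat_lit 176)))) (XT.nd (nat_lit 156) (nat_lit 228) (nat_lit 0) (XT.nd (nat_lit 78) (nat_lit 76) (nat_lit 0) (XT.lf (nat_lit 0) (nat_lit 122594630027) (nat_lit 228) (nat_lit 87117241844) (nat_lit 76) (nat_lit 86980700853) (nat_lit 196) (nat_lit 5) (nat_lit 199) (nat_lit 5) (nat_lit 197) (nat_lit 4) (nat_lit 452) (nat_lit 393) (nat_lit 175)) (XT.lf (nat_lit 0) (nat_lit 109082554112)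 (nat_lit 76) (nat_lit 109219482361) (nat_lit 152) (nat_lit 87940461221) (nat_lit 195) (nat_lit 5) (nat_lit 196) (nat_lit 5) (nat_lit 197) (nat_lit 4) (nat_lit 453) (nat_lit 393) (nat_lit 174))) (XT.nd (nat_lit 78) (nat_lit 0) (nat_lit 0) (XT.lf (nat_lit 0) (nat_lit 1918022875) (nat_lit 152) (nat_lit 2055319941) (nat_lit 228) (nat_lit 312218142019) (nat_lit 192) (nat_lit 5) (nat_lit 194) (nat_lit 5) (nat_lit 195) (nat_lit 5) (nat_lit 454) (nat_lit 393) (nat_lit 173)) (XT.lf (nat_lit 0) (nat_lit 102645655114) (nat_lit 228) (nat_lit 111897683902) (nat_lit 76) (nat_lit 111766590262) (nat_lit 192) (nat_lit 5) (nat_lit 195) (nat_lit 5) (nat_lit 193) (nat_lit 4) (nat_lit 455) (nat_lit 393) (nat_lit 172))))) (XT.nd (nat_lit 312) (nat_lit 228) (nat_lit 0) (XT.nd (nat_lit 156) (nat_lit 228) (nat_lit 0) (XT.nd (nat_lit 78) (nat_lit 0) (nat_lit 0) (XT.lf (nat_lit 0) (nat_lit 103887806579) (nat_lit 76) (nat_lit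 104019218817) (nat_lit 152) (nat_lit 128944498427) (nat_lit 191) (nat_lit 5) (nat_lit 192) (nat_lit 5) (nat_lit 193) (nat_lit 4) (nat_lit 456) (nat_lit 393) (nat_lit 171)) (XT.lf (nat_lit 0) (nat_lit 320545180962) (nat_lit 152) (nat_lit 13697387393) (nat_lit 0) (nat_lit 13571943903) (nat_lit 191) (nat_lit 5) (nat_lit 193) (nat_lit 4) (nat_lit 191) (nat_lit 4) (nat_lit 457) (nat_lit 393) (nat_lit 170))) (XT.nd (nat_lit 78) (nat_lit 76) (nat_lit 0) (XT.lf (nat_lit 0) (nat_lit 82200143264) (nat_lit 152) (nat_lit 138463218583) (nat_lit 76) (nat_lit 138337499876) (nat_lit 189) (nat_lit 5) (nat_lit 191) (nat_lit 5) (nat_lit 190) (nat_lit 4) (nat_lit 458) (nat_lit 393) (nat_lit 169)) (XT.lf (nat_lit 0) (nat_lit 98940488293) (nat_lit 76) (nat_lit 99066469112) (nat_lit 152) (nat_lit 172628204636) (nat_lit 188) (nat_lit 5) (nat_lit 189) (nat_lit 5) (nat_lit 190) (nat_lit 4) (nat_lit 459) (nat_lit 393) (nat_lit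 168)))) (XT.nd (nat_lit 156) (nat_lit 76) (nat_lit 0) (XT.nd (nat_lit 78) (nat_lit 152) (nat_lit 0) (XT.lf (nat_lit 0) (nat_lit 322433964004) (nat_lit 152) (nat_lit 30197970129) (nat_lit 0) (nat_lit 30077750653) (nat_lit 188) (nat_lit 5) (nat_lit 190) (nat_lit 4) (nat_lit 188) (nat_lit 4) (nat_lit 460) (nat_lit 393) (nat_lit 167)) (XT.lf (nat_lit 0) (nat_lit 61133491214) (nat_lit 152) (nat_lit 167032782782) (nat_lit 76) (nat_lit 166912336885) (nat_lit 186) (nat_lit 5) (nat_lit 188) (nat_lit 5) (nat_lit 187) (nat_lit 4) (nat_lit 461) (nat_lit 393) (nat_lit 166))) (XT.nd (nat_lit 78) (nat_lit 0) (nat_lit 0) (XT.lf (nat_lit 0) (nat_lit 94228806213) (nat_lit 76) (nat_lit 94349467750) (nat_lit 152) (nat_lit 219338764510) (nat_lit 185) (nat_lit 5) (nat_lit 186) (nat_lit 5) (nat_lit 187) (nat_lit 4) (nat_lit 462) (nat_lit 393) (nat_lit 165)) (XT.lf (nat_lit 0) (nat_lit 325990902266) (nat_lit 152) (nat_lit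 47670908099) (nat_lit 0) (nat_lit 47555796757) (nat_lit 185) (nat_lit 5) (nat_lit 187) (nat_lit 4) (nat_lit 185) (nat_lit 4) (nat_lit 463) (nat_lit 393) (nat_lit 164)))))) (XT.nd (nat_lit 624) (nat_lit 532) (nat_lit 0) (XT.nd (nat_lit 312) (nat_lit 304) (nat_lit 0) (XT.nd (nat_lit 156) (nat_lit 152) (nat_lit 0) (XT.nd (nat_lit 78) (nat_lit 76) (nat_lit 0) (XT.lf (nat_lit 0) (nat_lit 39311830739) (nat_lit 152) (nat_lit 197846038769) (nat_lit 76) (nat_lit 197730741149) (nat_lit 183) (nat_lit 5) (nat_lit 185) (nat_lit 5) (nat_lit 184) (nat_lit 4) (nat_lit 464) (nat_lit 393) (nat_lit 163)) (XT.lf (nat_lit 0) (nat_lit 89741530770) (nat_lit 76) (nat_lit 89857005797) (nat_lit 152) (nat_lit 269455498868) (nat_lit 182) (nat_lit 5) (nat_lit 183) (nat_lit 5) (nat_lit 184) (nat_lit 4) (nat_lit 465) (nat_lit 393) (nat_lit 162))) (XT.nd (nat_lit 78) (nat_lit 152) (nat_lit 0) (XT.lf (nat_lit 0) (nat_lit 331316776947)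 (nat_lit 152) (nat_lit 66250115836) (nat_lit 0) (nat_lit 66139978705) (nat_lit 182) (nat_lit 5) (nat_lit 184) (nat_lit 4) (nat_lit 182) (nat_lit 4) (nat_lit 466) (nat_lit 393) (nat_lit 161)) (XT.lf (nat_lit 0) (nat_lit 16590912543) (nat_lit 152) (nat_lit 231165580777) (nat_lit 76) (nat_lit 231055290396) (nat_lit 180) (nat_lit 5) (nat_lit 182) (nat_lit 5) (nat_lit 181) (nat_lit 4) (nat_lit 467) (nat_lit 393) (nat_lit 160)))) (XT.nd (nat_lit 156) (nat_lit 228) (nat_lit 0) (XT.nd (nat_lit 78) (nat_lit 0) (nat_lit 0) (XT.lf (nat_lit 0) (nat_lit 85467968696) (nat_lit 76) (nat_lit 85578405031) (nat_lit 152) (nat_lit 323393322405) (nat_lit 179) (nat_lit 5) (nat_lit 180) (nat_lit 5) (nat_lit 181) (nat_lit 4) (nat_lit 468) (nat_lit 393) (nat_lit 159)) (XT.lf (nat_lit 0) (nat_lit 338526040237) (nat_lit 152) (nat_lit 86081601083) (nat_lit 0) (nat_lit 85976291237) (nat_lit 179) (nat_lit 5) (nat_lit 181) (nat_lit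 4) (nat_lit 179) (nat_lit 4) (nat_lit 469) (nat_lit 393) (nat_lit 158))) (XT.nd (nat_lit 78) (nat_lit 152) (nat_lit 0) (XT.lf (nat_lit 0) (nat_lit 259867127979) (nat_lit 76) (nat_lit 259972563906) (nat_lit 76) (nat_lit 7422688826) (nat_lit 178) (nat_lit 4) (nat_lit 179) (nat_lit 5) (nat_lit 179) (nat_lit 4) (nat_lit 470) (nat_lit 393) (nat_lit 157)) (XT.lf (nat_lit 0) (nat_lit 81397937209) (nat_lit 76) (nat_lit 81503493212) (nat_lit 152) (nat_lit 381606548132) (nat_lit 176) (nat_lit 5) (nat_lit 177) (nat_lit 5) (nat_lit 178) (nat_lit 4) (nat_lit 471) (nat_lit 393) (nat_lit 156))))) (XT.nd (nat_lit 312) (nat_lit 304) (nat_lit 0) (XT.nd (nat_lit 156) (nat_lit 152) (nat_lit 0) (XT.nd (nat_lit 78) (nat_lit 76) (nat_lit 0) (XT.lf (nat_lit 0) (nat_lit 347748057887) (nat_lit 152) (nat_lit 107324782503) (nat_lit 0) (nat_lit 107224144064) (nat_lit 176) (nat_lit 5) (nat_lit 178) (nat_lit 4) (nat_lit 176)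 (nat_lit 4) (nat_lit 472) (nat_lit 393) (nat_lit 155)) (XT.lf (nat_lit 0) (nat_lit 273672512128) (nat_lit 76) (nat_lit 273773254294) (nat_lit 76) (nat_lit 33249236743) (nat_lit 175) (nat_lit 4) (nat_lit 176) (nat_lit 5) (nat_lit 176) (nat_lit 4) (nat_lit 473) (nat_lit 393) (nat_lit 154))) (XT.nd (nat_lit 78) (nat_lit 0) (nat_lit 0) (XT.lf (nat_lit 0) (nat_lit 77521739478) (nat_lit 76) (nat_lit 77622580431) (nat_lit 152) (nat_lit 444593074410) (nat_lit 173) (nat_lit 5) (nat_lit 174) (nat_lit 5) (nat_lit 175) (nat_lit 4) (nat_lit 474) (nat_lit 393) (nat_lit 153)) (XT.lf (nat_lit 0) (nat_lit 359128486634) (nat_lit 152) (nat_lit 130153938649) (nat_lit 0) (nat_lit 130057810043) (nat_lit 173) (nat_lit 5) (nat_lit 175) (nat_lit 4) (nat_lit 173) (nat_lit 4) (nat_lit 475) (nat_lit 393) (nat_lit 152)))) (XT.nd (nat_lit 156) (nat_lit 76) (nat_lit 0) (XT.nd (nat_lit 78) (nat_lit 152) (nat_lit 0) (XT.lf (nat_lit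 0) (nat_lit 289503978973) (nat_lit 76) (nat_lit 289600192915) (nat_lit 76) (nat_lit 60529430988) (nat_lit 172) (nat_lit 4) (nat_lit 173) (nat_lit 5) (nat_lit 173) (nat_lit 4) (nat_lit 476) (nat_lit 393) (nat_lit 151)) (XT.lf (nat_lit 0) (nat_lit 73830141293) (nat_lit 76) (nat_lit 73926436507) (nat_lit 152) (nat_lit 512898994140) (nat_lit 170) (nat_lit 5) (nat_lit 171) (nat_lit 5) (nat_lit 172) (nat_lit 4) (nat_lit 477) (nat_lit 393) (nat_lit 150))) (XT.nd (nat_lit 78) (nat_lit 76) (nat_lit 0) (XT.lf (nat_lit 0) (nat_lit 372830799947) (nat_lit 152) (nat_lit 154759801866) (nat_lit 0) (nat_lit 154668018422) (nat_lit 170) (nat_lit 5) (nat_lit 172) (nat_lit 4) (nat_lit 170) (nat_lit 4) (nat_lit 478) (nat_lit 393) (nat_lit 149)) (XT.lf (nat_lit 0) (nat_lit 307540099791) (nat_lit 76) (nat_lit 307631953441) (nat_lit 76) (nat_lit 89469101710) (nat_lit 169) (nat_lit 4) (nat_lit 170) (nat_lit 5) (nat_lit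 170) (nat_lit 4) (nat_lit 479) (nat_lit 393) (nat_lit 148))))))) (XT.nd (nat_lit 47034) (nat_lit 0) (nat_lit 6992) (XT.nd (nat_lit 46410) (nat_lit 0) (nat_lit 9956) (XT.nd (nat_lit 312) (nat_lit 228) (nat_lit 0) (XT.nd (nat_lit 156) (nat_lit 228) (nat_lit 0) (XT.nd (nat_lit 78) (nat_lit 0) (nat_lit 0) (XT.lf (nat_lit 0) (nat_lit 70314348884) (nat_lit 76) (nat_lit 70406269397) (nat_lit 152) (nat_lit 587123669704) (nat_lit 167) (nat_lit 5) (nat_lit 168) (nat_lit 5) (nat_lit 169) (nat_lit 4) (nat_lit 480) (nat_lit 393) (nat_lit 147)) (XT.lf (nat_lit 0) (nat_lit 389037976987) (nat_lit 152) (nat_lit 181351312148) (nat_lit 0) (nat_lit 181263708155) (nat_lit 167) (nat_lit 5) (nat_lit 169) (nat_lit 4) (nat_lit 167) (nat_lit 4) (nat_lit 481) (nat_lit 393) (nat_lit 146))) (XT.nd (nat_lit 78) (nat_lit 152) (nat_lit 0) (XT.lf (nat_lit 0) (nat_lit 327979136207) (nat_lit 76) (nat_lit 328066797959) (nat_lit 76)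 (nat_lit 120292471368) (nat_lit 166) (nat_lit 4) (nat_lit 167) (nat_lit 5) (nat_lit 167) (nat_lit 4) (nat_lit 482) (nat_lit 393) (nat_lit 145)) (XT.lf (nat_lit 0) (nat_lit 66965987819) (nat_lit 76) (nat_lit 67053704579) (nat_lit 152) (nat_lit 667925321697) (nat_lit 164) (nat_lit 5) (nat_lit 165) (nat_lit 5) (nat_lit 166) (nat_lit 4) (nat_lit 483) (nat_lit 393) (nat_lit 144)))) (XT.nd (nat_lit 156) (nat_lit 152) (nat_lit 0) (XT.nd (nat_lit 78) (nat_lit 76) (nat_lit 0) (XT.lf (nat_lit 0) (nat_lit 407954371181) (nat_lit 152) (nat_lit 210157547524) (nat_lit 0) (nat_lit 210073957859) (nat_lit 164) (nat_lit 5) (nat_lit 166) (nat_lit 4) (nat_lit 164) (nat_lit 4) (nat_lit 484) (nat_lit 393) (nat_lit 143)) (XT.lf (nat_lit 0) (nat_lit 351040992246) (nat_lit 76) (nat_lit 351124629430) (nat_lit 76) (nat_lit 153244168590) (nat_lit 163) (nat_lit 4) (nat_lit 164) (nat_lit 5) (nat_lit 164) (nat_lit 4) (nat_lit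 485) (nat_lit 393) (nat_lit 142))) (XT.nd (nat_lit 78) (nat_lit 0) (nat_lit 0) (XT.lf (nat_lit 0) (nat_lit 63777082933) (nat_lit 76) (nat_lit 63860765373) (nat_lit 152) (nat_lit 756027184412) (nat_lit 161) (nat_lit 5) (nat_lit 162) (nat_lit 5) (nat_lit 163) (nat_lit 4) (nat_lit 486) (nat_lit 393) (nat_lit 141)) (XT.lf (nat_lit 0) (nat_lit 429807776514) (nat_lit 152) (nat_lit 241429849222) (nat_lit 0) (nat_lit 241350110612) (nat_lit 161) (nat_lit 5) (nat_lit 163) (nat_lit 4) (nat_lit 161) (nat_lit 4) (nat_lit 487) (nat_lit 393) (nat_lit 140))))) (XT.nd (nat_lit 312) (nat_lit 0) (nat_lit 152) (XT.nd (nat_lit 156) (nat_lit 0) (nat_lit 76) (XT.nd (nat_lit 78) (nat_lit 0) (nat_lit 0) (XT.lf (nat_lit 0) (nat_lit 13159415371) (nat_lit 836) (nat_lit 7562674914) (nat_lit 836) (nat_lit 7562674914) (nat_lit 292) (nat_lit 3) (nat_lit 303) (nat_lit 3) (nat_lit 303) (nat_lit 5) (nat_lit 394) (nat_lit 394) (nat_lit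 232)) (XT.lf (nat_lit 76) (nat_lit 13594525073) (nat_lit 0) (nat_lit 13614677809) (nat_lit 836) (nat_lit 30762945711) (nat_lit 293) (nat_lit 5) (nat_lit 292) (nat_lit 3) (nat_lit 303) (nat_lit 5) (nat_lit 395) (nat_lit 394) (nat_lit 231))) (XT.nd (nat_lit 78) (nat_lit 0) (nat_lit 0) (XT.lf (nat_lit 0) (nat_lit 28646814531) (nat_lit 760) (nat_lit 15405209663) (nat_lit 836) (nat_lit 15367737455) (nat_lit 293) (nat_lit 5) (nat_lit 303) (nat_lit 5) (nat_lit 304) (nat_lit 5) (nat_lit 396) (nat_lit 394) (nat_lit 230)) (XT.lf (nat_lit 76) (nat_lit 15280983106) (nat_lit 0) (nat_lit 15335864005) (nat_lit 836) (nat_lit 30299881229) (nat_lit 294) (nat_lit 5) (nat_lit 293) (nat_lit 5) (nat_lit 304) (nat_lit 5) (nat_lit 397) (nat_lit 394) (nat_lit 229)))) (XT.nd (nat_lit 156) (nat_lit 0) (nat_lit 76) (XT.nd (nat_lit 78) (nat_lit 0) (nat_lit 0) (XT.lf (nat_lit 0) (nat_lit 33180698205) (nat_lit 760) (nat_lit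 14675568518) (nat_lit 836) (nat_lit 14607510799) (nat_lit 294) (nat_lit 5) (nat_lit 304) (nat_lit 5) (nat_lit 305) (nat_lit 5) (nat_lit 398) (nat_lit 394) (nat_lit 228)) (XT.lf (nat_lit 76) (nat_lit 18161744754) (nat_lit 0) (nat_lit 18244840755) (nat_lit 836) (nat_lit 27654901471) (nat_lit 295) (nat_lit 5) (nat_lit 294) (nat_lit 5) (nat_lit 305) (nat_lit 5) (nat_lit 399) (nat_lit 394) (nat_lit 227))) (XT.nd (nat_lit 78) (nat_lit 0) (nat_lit 0) (XT.lf (nat_lit 0) (nat_lit 40245886845) (nat_lit 760) (nat_lit 12781684149) (nat_lit 836) (nat_lit 12688904935) (nat_lit 295) (nat_lit 5) (nat_lit 305) (nat_lit 5) (nat_lit 306) (nat_lit 5) (nat_lit 400) (nat_lit 394) (nat_lit 226)) (XT.lf (nat_lit 76) (nat_lit 22409667623) (nat_lit 0) (nat_lit 22515437471) (nat_lit 836) (nat_lit 22496711637) (nat_lit 296) (nat_lit 5) (nat_lit 295) (nat_lit 5) (nat_lit 306) (nat_lit 5) (nat_lit 401) (nat_lit 394) (nat_lit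 225)))))) (XT.nd (nat_lit 624) (nat_lit 1672) (nat_lit 0) (XT.nd (nat_lit 312) (nat_lit 912) (nat_lit 0) (XT.nd (nat_lit 156) (nat_lit 684) (nat_lit 0) (XT.nd (nat_lit 78) (nat_lit 0) (nat_lit 0) (XT.lf (nat_lit 0) (nat_lit 50205985656) (nat_lit 760) (nat_lit 9550284962) (nat_lit 836) (nat_lit 9437768886) (nat_lit 296) (nat_lit 5) (nat_lit 306) (nat_lit 5) (nat_lit 307) (nat_lit 5) (nat_lit 402) (nat_lit 394) (nat_lit 224)) (XT.lf (nat_lit 76) (nat_lit 28217952455) (nat_lit 0) (nat_lit 28341690328) (nat_lit 836) (nat_lit 14454794005) (nat_lit 297) (nat_lit 5) (nat_lit 296) (nat_lit 5) (nat_lit 307) (nat_lit 5) (nat_lit 403) (nat_lit 394) (nat_lit 223))) (XT.nd (nat_lit 78) (nat_lit 760) (nat_lit 0) (XT.lf (nat_lit 0) (nat_lit 63466973573) (nat_lit 760) (nat_lit 4787552459) (nat_lit 76) (nat_lit 4659528364) (nat_lit 297) (nat_lit 5) (nat_lit 307) (nat_lit 5) (nat_lit 298) (nat_lit 5) (nat_lit 404)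 (nat_lit 394) (nat_lit 222)) (XT.lf (nat_lit 0) (nat_lit 35802344689) (nat_lit 760) (nat_lit 35940062594) (nat_lit 836) (nat_lit 3115108783) (nat_lit 287) (nat_lit 5) (nat_lit 297) (nat_lit 5) (nat_lit 298) (nat_lit 5) (nat_lit 405) (nat_lit 394) (nat_lit 221)))) (XT.nd (nat_lit 156) (nat_lit 380) (nat_lit 0) (XT.nd (nat_lit 78) (nat_lit 0) (nat_lit 0) (XT.lf (nat_lit 0) (nat_lit 1690691556) (nat_lit 456) (nat_lit 1837641662) (nat_lit 532) (nat_lit 73361661029) (nat_lit 280) (nat_lit 5) (nat_lit 286) (nat_lit 5) (nat_lit 287) (nat_lit 5) (nat_lit 406) (nat_lit 394) (nat_lit 220)) (XT.lf (nat_lit 0) (nat_lit 11601073659) (nat_lit 532) (nat_lit 33754352474) (nat_lit 76) (nat_lit 33606026114) (nat_lit 280) (nat_lit 5) (nat_lit 287) (nat_lit 5) (nat_lit 281) (nat_lit 5) (nat_lit 407) (nat_lit 394) (nat_lit 219))) (XT.nd (nat_lit 78) (nat_lit 0) (nat_lit 0) (XT.lf (nat_lit 0) (nat_lit 10053734239) (nat_lit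 380) (nat_lit 10210035721) (nat_lit 456) (nat_lit 60863397247) (nat_lit 275) (nat_lit 5) (nat_lit 280) (nat_lit 5) (nat_lit 281) (nat_lit 5) (nat_lit 408) (nat_lit 394) (nat_lit 218)) (XT.lf (nat_lit 0) (nat_lit 30356616807) (nat_lit 456) (nat_lit 26575396273) (nat_lit 76) (nat_lit 26419304048) (nat_lit 275) (nat_lit 5) (nat_lit 281) (nat_lit 5) (nat_lit 276) (nat_lit 5) (nat_lit 409) (nat_lit 394) (nat_lit 217))))) (XT.nd (nat_lit 312) (nat_lit 988) (nat_lit 0) (XT.nd (nat_lit 156) (nat_lit 304) (nat_lit 0) (XT.nd (nat_lit 78) (nat_lit 0) (nat_lit 0) (XT.lf (nat_lit 0) (nat_lit 20640018945) (nat_lit 380) (nat_lit 20803000381) (nat_lit 456) (nat_lit 44219209551) (nat_lit 270) (nat_lit 5) (nat_lit 275) (nat_lit 5) (nat_lit 276) (nat_lit 5) (nat_lit 410) (nat_lit 394) (nat_lit 216)) (XT.lf (nat_lit 0) (nat_lit 53807981763) (nat_lit 456) (nat_lit 17202980797) (nat_lit 76) (nat_lit 17041511666) (nat_lit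 270) (nat_lit 5) (nat_lit 276) (nat_lit 5) (nat_lit 271) (nat_lit 5) (nat_lit 411) (nat_lit 394) (nat_lit 215))) (XT.nd (nat_lit 78) (nat_lit 0) (nat_lit 0) (XT.lf (nat_lit 0) (nat_lit 33745504158) (nat_lit 304) (nat_lit 33912924449) (nat_lit 380) (nat_lit 22860441419) (nat_lit 266) (nat_lit 5) (nat_lit 270) (nat_lit 5) (nat_lit 271) (nat_lit 5) (nat_lit 412) (nat_lit 394) (nat_lit 214)) (XT.lf (nat_lit 0) (nat_lit 82575563643) (nat_lit 380) (nat_lit 5339579728) (nat_lit 76) (nat_lit 5174733955) (nat_lit 266) (nat_lit 5) (nat_lit 271) (nat_lit 5) (nat_lit 267) (nat_lit 5) (nat_lit 413) (nat_lit 394) (nat_lit 213)))) (XT.nd (nat_lit 156) (nat_lit 304) (nat_lit 0) (XT.nd (nat_lit 78) (nat_lit 304) (nat_lit 0) (XT.lf (nat_lit 0) (nat_lit 3723853275) (nat_lit 380) (nat_lit 46083000220) (nat_lit 76) (nat_lit 45913013613) (nat_lit 261) (nat_lit 5) (nat_lit 266) (nat_lit 5) (nat_lit 262) (nat_lit 5) (nat_lit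 414) (nat_lit 394) (nat_lit 212)) (XT.lf (nat_lit 0) (nat_lit 9190245617) (nat_lit 304) (nat_lit 9365128258) (nat_lit 380) (nat_lit 79905624457) (nat_lit 257) (nat_lit 5) (nat_lit 261) (nat_lit 5) (nat_lit 262) (nat_lit 5) (nat_lit 415) (nat_lit 394) (nat_lit 211))) (XT.nd (nat_lit 78) (nat_lit 304) (nat_lit 0) (XT.lf (nat_lit 0) (nat_lit 35437879869) (nat_lit 380) (nat_lit 33003415760) (nat_lit 76) (nat_lit 32832420018) (nat_lit 257) (nat_lit 5) (nat_lit 262) (nat_lit 5) (nat_lit 258) (nat_lit 5) (nat_lit 416) (nat_lit 394) (nat_lit 210)) (XT.lf (nat_lit 0) (nat_lit 26780184273) (nat_lit 304) (nat_lit 26955409393) (nat_lit 380) (nat_lit 50462921038) (nat_lit 253) (nat_lit 5) (nat_lit 257) (nat_lit 5) (nat_lit 258) (nat_lit 5) (nat_lit 417) (nat_lit 394) (nat_lit 209))))))))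
noncomputable def xc273 : XT := (XT.nd (nat_lit 1248) (nat_lit 1824) (nat_lit 0) (XT.nd (nat_lit 624) (nat_lit 836) (nat_lit 0) (XT.nd (nat_lit 312) (nat_lit 760) (nat_lit 0) (XT.nd (nat_lit 156) (nat_lit 380) (nat_lit 0) (XT.nd (nat_lit 78) (nat_lit 228) (nat_lit 0) (XT.lf (nat_lit 0) (nat_lit 73774987048) (nat_lit 380) (nat_lit 16811972104) (nat_lit 76) (nat_lit 16641254868) (nat_lit 253) (nat_lit 5) (nat_lit 258) (nat_lit 5) (nat_lit 254) (nat_lit 5) (nat_lit 418) (nat_lit 394) (nat_lit 208)) (XT.lf (nat_lit 0) (nat_lit 47915725660) (nat_lit 228) (nat_lit 48090096392) (nat_lit 304) (nat_lit 14344102650) (nat_lit 250) (nat_lit 5) (nat_lit 253) (nat_lit 5) (nat_lit 254) (nat_lit 5) (nat_lit 419) (nat_lit 394) (nat_lit 207))) (XT.nd (nat_lit 78) (nat_lit 0) (nat_lit 0) (XT.lf (nat_lit 0) (nat_lit 2846425392) (nat_lit 304) (nat_lit 3024275643) (nat_lit 380) (nat_lit 107735888540) (nat_lit 245) (nat_lit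 5) (nat_lit 249) (nat_lit 5) (nat_lit 250) (nat_lit 5) (nat_lit 420) (nat_lit 394) (nat_lit 206)) (XT.lf (nat_lit 0) (nat_lit 28379940514) (nat_lit 380) (nat_lit 44359319681) (nat_lit 76) (nat_lit 44186782463) (nat_lit 245) (nat_lit 5) (nat_lit 250) (nat_lit 5) (nat_lit 246) (nat_lit 5) (nat_lit 421) (nat_lit 394) (nat_lit 205)))) (XT.nd (nat_lit 156) (nat_lit 532) (nat_lit 0) (XT.nd (nat_lit 78) (nat_lit 0) (nat_lit 0) (XT.lf (nat_lit 0) (nat_lit 26148223100) (nat_lit 228) (nat_lit 26323766058) (nat_lit 304) (nat_lit 67916611874) (nat_lit 242) (nat_lit 5) (nat_lit 245) (nat_lit 5) (nat_lit 246) (nat_lit 5) (nat_lit 422) (nat_lit 394) (nat_lit 204)) (XT.lf (nat_lit 0) (nat_lit 78881655529) (nat_lit 304) (nat_lit 22628445548) (nat_lit 76) (nat_lit 22458535485) (nat_lit 242) (nat_lit 5) (nat_lit 246) (nat_lit 5) (nat_lit 243) (nat_lit 5) (nat_lit 423) (nat_lit 394) (nat_lit 203))) (XT.nd (nat_lit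 78) (nat_lit 304) (nat_lit 0) (XT.lf (nat_lit 0) (nat_lit 53855613228) (nat_lit 228) (nat_lit 54028119763) (nat_lit 304) (nat_lit 19780344487) (nat_lit 239) (nat_lit 5) (nat_lit 242) (nat_lit 5) (nat_lit 243) (nat_lit 5) (nat_lit 424) (nat_lit 394) (nat_lit 202)) (XT.lf (nat_lit 0) (nat_lit 3420871647) (nat_lit 228) (nat_lit 3595851011) (nat_lit 304) (nat_lit 124500142310) (nat_lit 235) (nat_lit 5) (nat_lit 238) (nat_lit 5) (nat_lit 239) (nat_lit 5) (nat_lit 425) (nat_lit 394) (nat_lit 201))))) (XT.nd (nat_lit 312) (nat_lit 456) (nat_lit 0) (XT.nd (nat_lit 156) (nat_lit 152) (nat_lit 0) (XT.nd (nat_lit 78) (nat_lit 228) (nat_lit 0) (XT.lf (nat_lit 0) (nat_lit 36529550095) (nat_lit 304) (nat_lit 49541692738) (nat_lit 76) (nat_lit 49372802795) (nat_lit 235) (nat_lit 5) (nat_lit 239) (nat_lit 5) (nat_lit 236) (nat_lit 5) (nat_lit 426) (nat_lit 394) (nat_lit 200)) (XT.lf (nat_lit 0) (nat_lit 33967930979)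 (nat_lit 228) (nat_lit 34138957045) (nat_lit 304) (nat_lit 71431253838) (nat_lit 232) (nat_lit 5) (nat_lit 235) (nat_lit 5) (nat_lit 236) (nat_lit 5) (nat_lit 427) (nat_lit 394) (nat_lit 199))) (XT.nd (nat_lit 78) (nat_lit 152) (nat_lit 0) (XT.lf (nat_lit 0) (nat_lit 102433796669) (nat_lit 304) (nat_lit 20754715271) (nat_lit 76) (nat_lit 20589895778) (nat_lit 232) (nat_lit 5) (nat_lit 236) (nat_lit 5) (nat_lit 233) (nat_lit 5) (nat_lit 428) (nat_lit 394) (nat_lit 198)) (XT.lf (nat_lit 0) (nat_lit 69981127376) (nat_lit 152) (nat_lit 70147792133) (nat_lit 228) (nat_lit 8019173918) (nat_lit 230) (nat_lit 5) (nat_lit 232) (nat_lit 5) (nat_lit 233) (nat_lit 5) (nat_lit 429) (nat_lit 394) (nat_lit 197)))) (XT.nd (nat_lit 156) (nat_lit 152) (nat_lit 0) (XT.nd (nat_lit 78) (nat_lit 0) (nat_lit 0) (XT.lf (nat_lit 0) (nat_lit 13252298665) (nat_lit 228) (nat_lit 13420720816) (nat_lit 304) (nat_lit 126013999399)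 (nat_lit 226) (nat_lit 5) (nat_lit 229) (nat_lit 5) (nat_lit 230) (nat_lit 5) (nat_lit 430) (nat_lit 394) (nat_lit 196)) (XT.lf (nat_lit 0) (nat_lit 64895860262) (nat_lit 304) (nat_lit 46304588290) (nat_lit 76) (nat_lit 46142592234) (nat_lit 226) (nat_lit 5) (nat_lit 230) (nat_lit 5) (nat_lit 227) (nat_lit 5) (nat_lit 431) (nat_lit 394) (nat_lit 195))) (XT.nd (nat_lit 78) (nat_lit 0) (nat_lit 0) (XT.lf (nat_lit 0) (nat_lit 52956388546) (nat_lit 152) (nat_lit 53119902705) (nat_lit 228) (nat_lit 56103250127) (nat_lit 224) (nat_lit 5) (nat_lit 226) (nat_lit 5) (nat_lit 227) (nat_lit 5) (nat_lit 432) (nat_lit 394) (nat_lit 194)) (XT.lf (nat_lit 0) (nat_lit 150235222993) (nat_lit 228) (nat_lit 8566887391) (nat_lit 76) (nat_lit 8409782657) (nat_lit 224) (nat_lit 5) (nat_lit 227) (nat_lit 5) (nat_lit 225) (nat_lit 5) (nat_lit 433) (nat_lit 394) (nat_lit 193)))))) (XT.nd (nat_lit 624) (nat_lit 912) (nat_lit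 0) (XT.nd (nat_lit 312) (nat_lit 380) (nat_lit 0) (XT.nd (nat_lit 156) (nat_lit 152) (nat_lit 0) (XT.nd (nat_lit 78) (nat_lit 152) (nat_lit 0) (XT.lf (nat_lit 0) (nat_lit 25797319651) (nat_lit 228) (nat_lit 73357504463) (nat_lit 76) (nat_lit 73199088334) (nat_lit 221) (nat_lit 5) (nat_lit 224) (nat_lit 5) (nat_lit 222) (nat_lit 5) (nat_lit 434) (nat_lit 394) (nat_lit 192)) (XT.lf (nat_lit 0) (nat_lit 35339343938) (nat_lit 152) (nat_lit 35499009014) (nat_lit 228) (nat_lit 106865820992) (nat_lit 219) (nat_lit 5) (nat_lit 221) (nat_lit 5) (nat_lit 222) (nat_lit 5) (nat_lit 435) (nat_lit 394) (nat_lit 191))) (XT.nd (nat_lit 78) (nat_lit 152) (nat_lit 0) (XT.lf (nat_lit 0) (nat_lit 119883114440) (nat_lit 228) (nat_lit 31752222529) (nat_lit 76) (nat_lit 31599027721) (nat_lit 219) (nat_lit 5) (nat_lit 222) (nat_lit 5) (nat_lit 220) (nat_lit 5) (nat_lit 436) (nat_lit 394) (nat_lit 190)) (XT.lf (nat_lit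 0) (nat_lit 86579611990) (nat_lit 152) (nat_lit 86733885685) (nat_lit 228) (nat_lit 15630898114) (nat_lit 217) (nat_lit 5) (nat_lit 219) (nat_lit 5) (nat_lit 220) (nat_lit 5) (nat_lit 437) (nat_lit 394) (nat_lit 189)))) (XT.nd (nat_lit 156) (nat_lit 152) (nat_lit 0) (XT.nd (nat_lit 78) (nat_lit 0) (nat_lit 0) (XT.lf (nat_lit 0) (nat_lit 17014309894) (nat_lit 152) (nat_lit 17169611101) (nat_lit 228) (nat_lit 160688500523) (nat_lit 214) (nat_lit 5) (nat_lit 216) (nat_lit 5) (nat_lit 217) (nat_lit 5) (nat_lit 438) (nat_lit 394) (nat_lit 188)) (XT.lf (nat_lit 0) (nat_lit 88598216616) (nat_lit 228) (nat_lit 56251477895) (nat_lit 76) (nat_lit 56102639999) (nat_lit 214) (nat_lit 5) (nat_lit 217) (nat_lit 5) (nat_lit 215) (nat_lit 5) (nat_lit 439) (nat_lit 394) (nat_lit 187))) (XT.nd (nat_lit 78) (nat_lit 0) (nat_lit 0) (XT.lf (nat_lit 0) (nat_lit 73506154893) (nat_lit 152) (nat_lit 73655880392) (nat_lit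 228) (nat_lit 60102767454) (nat_lit 212) (nat_lit 5) (nat_lit 214) (nat_lit 5) (nat_lit 215) (nat_lit 5) (nat_lit 440) (nat_lit 394) (nat_lit 186)) (XT.lf (nat_lit 0) (nat_lit 209639149953) (nat_lit 228) (nat_lit 2173944984) (nat_lit 76) (nat_lit 2030544189) (nat_lit 212) (nat_lit 5) (nat_lit 215) (nat_lit 5) (nat_lit 213) (nat_lit 4) (nat_lit 441) (nat_lit 394) (nat_lit 185))))) (XT.nd (nat_lit 312) (nat_lit 456) (nat_lit 0) (XT.nd (nat_lit 156) (nat_lit 152) (nat_lit 0) (XT.nd (nat_lit 78) (nat_lit 152) (nat_lit 0) (XT.lf (nat_lit 0) (nat_lit 56181248048) (nat_lit 152) (nat_lit 82249987283) (nat_lit 76) (nat_lit 82105819743) (nat_lit 210) (nat_lit 5) (nat_lit 212) (nat_lit 5) (nat_lit 211) (nat_lit 5) (nat_lit 442) (nat_lit 394) (nat_lit 184)) (XT.lf (nat_lit 0) (nat_lit 60138070166) (nat_lit 152) (nat_lit 60282967940) (nat_lit 228) (nat_lit 107091854191) (nat_lit 208) (nat_lit 5) (nat_lit 210)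 (nat_lit 5) (nat_lit 211) (nat_lit 5) (nat_lit 443) (nat_lit 394) (nat_lit 183))) (XT.nd (nat_lit 78) (nat_lit 152) (nat_lit 0) (XT.lf (nat_lit 0) (nat_lit 189628251691) (nat_lit 228) (nat_lit 22630079106) (nat_lit 76) (nat_lit 22491418884) (nat_lit 208) (nat_lit 5) (nat_lit 211) (nat_lit 5) (nat_lit 209) (nat_lit 4) (nat_lit 444) (nat_lit 394) (nat_lit 182)) (XT.lf (nat_lit 0) (nat_lit 22417427304) (nat_lit 152) (nat_lit 109949658669) (nat_lit 76) (nat_lit 109810367643) (nat_lit 206) (nat_lit 5) (nat_lit 208) (nat_lit 5) (nat_lit 207) (nat_lit 5) (nat_lit 445) (nat_lit 394) (nat_lit 181)))) (XT.nd (nat_lit 156) (nat_lit 304) (nat_lit 0) (XT.nd (nat_lit 78) (nat_lit 0) (nat_lit 0) (XT.lf (nat_lit 0) (nat_lit 46395330427) (nat_lit 152) (nat_lit 46535222217) (nat_lit 228) (nat_lit 156953323672) (nat_lit 204) (nat_lit 5) (nat_lit 206) (nat_lit 5) (nat_lit 207) (nat_lit 5) (nat_lit 446) (nat_lit 394)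 (nat_lit 180)) (XT.lf (nat_lit 0) (nat_lit 169542183432) (nat_lit 228) (nat_lit 44219284723) (nat_lit 76) (nat_lit 44085509535) (nat_lit 204) (nat_lit 5) (nat_lit 207) (nat_lit 5) (nat_lit 205) (nat_lit 4) (nat_lit 447) (nat_lit 394) (nat_lit 179))) (XT.nd (nat_lit 78) (nat_lit 228) (nat_lit 0) (XT.lf (nat_lit 0) (nat_lit 126292250552) (nat_lit 76) (nat_lit 126426544704) (nat_lit 152) (nat_lit 13352718903) (nat_lit 203) (nat_lit 5) (nat_lit 204) (nat_lit 5) (nat_lit 205) (nat_lit 4) (nat_lit 448) (nat_lit 394) (nat_lit 178)) (XT.lf (nat_lit 0) (nat_lit 32192086585) (nat_lit 152) (nat_lit 32326874987) (nat_lit 228) (nat_lit 210074127812) (nat_lit 200) (nat_lit 5) (nat_lit 202) (nat_lit 5) (nat_lit 203) (nat_lit 5) (nat_lit 449) (nat_lit 394) (nat_lit 177)))))))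
noncomputable def xc274 : XT := (XT.nd (nat_lit 1248) (nat_lit 1216) (nat_lit 0) (XT.nd (nat_lit 624) (nat_lit 608) (nat_lit 0) (XT.nd (nat_lit 312) (nat_lit 380) (nat_lit 0) (XT.nd (nat_lit 156) (nat_lit 228) (nat_lit 0) (XT.nd (nat_lit 78) (nat_lit 76) (nat_lit 0) (XT.lf (nat_lit 0) (nat_lit 149279181496) (nat_lit 228) (nat_lit 67103625255) (nat_lit 76) (nat_lit 66974807048) (nat_lit 200) (nat_lit 5) (nat_lit 203) (nat_lit 5) (nat_lit 201) (nat_lit 4) (nat_lit 450) (nat_lit 394) (nat_lit 176)) (XT.lf (nat_lit 0) (nat_lit 120277877967) (nat_lit 76) (nat_lit 120407123126) (nat_lit 152) (nat_lit 51754983910) (nat_lit 199) (nat_lit 5) (nat_lit 200) (nat_lit 5) (nat_lit 201) (nat_lit 4) (nat_lit 451) (nat_lit 394) (nat_lit 175))) (XT.nd (nat_lit 78) (nat_lit 0) (nat_lit 0) (XT.lf (nat_lit 0) (nat_lit 17435956256) (nat_lit 152) (nat_lit 17565608036) (nat_lit 228) (nat_lit 266876481637) (nat_lit 196)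 (nat_lit 5) (nat_lit 198) (nat_lit 5) (nat_lit 199) (nat_lit 5) (nat_lit 452) (nat_lit 394) (nat_lit 174)) (XT.lf (nat_lit 0) (nat_lit 128731524391) (nat_lit 228) (nat_lit 91459582765) (nat_lit 76) (nat_lit 91335736061) (nat_lit 196) (nat_lit 5) (nat_lit 199) (nat_lit 5) (nat_lit 197) (nat_lit 4) (nat_lit 453) (nat_lit 394) (nat_lit 173)))) (XT.nd (nat_lit 156) (nat_lit 76) (nat_lit 0) (XT.nd (nat_lit 78) (nat_lit 228) (nat_lit 0) (XT.lf (nat_lit 0) (nat_lit 114549984905) (nat_lit 76) (nat_lit 114674182864) (nat_lit 152) (nat_lit 92330103337) (nat_lit 195) (nat_lit 5) (nat_lit 196) (nat_lit 5) (nat_lit 197) (nat_lit 4) (nat_lit 454) (nat_lit 394) (nat_lit 172)) (XT.lf (nat_lit 0) (nat_lit 2027244966) (nat_lit 152) (nat_lit 2151777453) (nat_lit 228) (nat_lit 327821686035) (nat_lit 192) (nat_lit 5) (nat_lit 194) (nat_lit 5) (nat_lit 195) (nat_lit 5) (nat_lit 455) (nat_lit 394) (nat_lit 171))) (XT.nd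 (nat_lit 78) (nat_lit 76) (nat_lit 0) (XT.lf (nat_lit 0) (nat_lit 107784710208) (nat_lit 228) (nat_lit 117479641356) (nat_lit 76) (nat_lit 117360735561) (nat_lit 192) (nat_lit 5) (nat_lit 195) (nat_lit 5) (nat_lit 193) (nat_lit 4) (nat_lit 456) (nat_lit 394) (nat_lit 170)) (XT.lf (nat_lit 0) (nat_lit 109094915153) (nat_lit 76) (nat_lit 109214109927) (nat_lit 152) (nat_lit 135384742514) (nat_lit 191) (nat_lit 5) (nat_lit 192) (nat_lit 5) (nat_lit 193) (nat_lit 4) (nat_lit 457) (nat_lit 394) (nat_lit 169))))) (XT.nd (nat_lit 312) (nat_lit 380) (nat_lit 0) (XT.nd (nat_lit 156) (nat_lit 76) (nat_lit 0) (XT.nd (nat_lit 78) (nat_lit 152) (nat_lit 0) (XT.lf (nat_lit 0) (nat_lit 336578862088) (nat_lit 152) (nat_lit 14369917812) (nat_lit 0) (nat_lit 14256136868) (nat_lit 191) (nat_lit 5) (nat_lit 193) (nat_lit 4) (nat_lit 191) (nat_lit 4) (nat_lit 458) (nat_lit 394) (nat_lit 168)) (XT.lf (nat_lit 0) (nat_lit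 86316559604) (nat_lit 152) (nat_lit 145374027660) (nat_lit 76) (nat_lit 145259997087) (nat_lit 189) (nat_lit 5) (nat_lit 191) (nat_lit 5) (nat_lit 190) (nat_lit 4) (nat_lit 459) (nat_lit 394) (nat_lit 167))) (XT.nd (nat_lit 78) (nat_lit 0) (nat_lit 0) (XT.lf (nat_lit 0) (nat_lit 103899665336) (nat_lit 76) (nat_lit 104013933653) (nat_lit 152) (nat_lit 181253006468) (nat_lit 188) (nat_lit 5) (nat_lit 189) (nat_lit 5) (nat_lit 190) (nat_lit 4) (nat_lit 460) (nat_lit 394) (nat_lit 166)) (XT.lf (nat_lit 0) (nat_lit 338561743335) (nat_lit 152) (nat_lit 31696082120) (nat_lit 0) (nat_lit 31587039512) (nat_lit 188) (nat_lit 5) (nat_lit 190) (nat_lit 4) (nat_lit 188) (nat_lit 4) (nat_lit 461) (nat_lit 394) (nat_lit 165)))) (XT.nd (nat_lit 156) (nat_lit 152) (nat_lit 0) (XT.nd (nat_lit 78) (nat_lit 76) (nat_lit 0) (XT.lf (nat_lit 0) (nat_lit 64196236293) (nat_lit 152) (nat_lit 175372624793) (nat_lit 76) (nat_lit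 175263376814) (nat_lit 186) (nat_lit 5) (nat_lit 188) (nat_lit 5) (nat_lit 187) (nat_lit 4) (nat_lit 462) (nat_lit 394) (nat_lit 164)) (XT.lf (nat_lit 0) (nat_lit 98951853375) (nat_lit 76) (nat_lit 99061296947) (nat_lit 152) (nat_lit 230299441941) (nat_lit 185) (nat_lit 5) (nat_lit 186) (nat_lit 5) (nat_lit 187) (nat_lit 4) (nat_lit 463) (nat_lit 394) (nat_lit 163))) (XT.nd (nat_lit 78) (nat_lit 152) (nat_lit 0) (XT.lf (nat_lit 0) (nat_lit 342296210029) (nat_lit 152) (nat_lit 50043199349) (nat_lit 0) (nat_lit 49938789968) (nat_lit 185) (nat_lit 5) (nat_lit 187) (nat_lit 4) (nat_lit 185) (nat_lit 4) (nat_lit 464) (nat_lit 394) (nat_lit 162)) (XT.lf (nat_lit 0) (nat_lit 41283176195) (nat_lit 152) (nat_lit 207727077820) (nat_lit 76) (nat_lit 207622499480) (nat_lit 183) (nat_lit 5) (nat_lit 185) (nat_lit 5) (nat_lit 184) (nat_lit 4) (nat_lit 465) (nat_lit 394) (nat_lit 161)))))) (XT.nd (nat_lit 624)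 (nat_lit 684) (nat_lit 0) (XT.nd (nat_lit 312) (nat_lit 228) (nat_lit 0) (XT.nd (nat_lit 156) (nat_lit 228) (nat_lit 0) (XT.nd (nat_lit 78) (nat_lit 0) (nat_lit 0) (XT.lf (nat_lit 0) (nat_lit 94239688536) (nat_lit 76) (nat_lit 94344427790) (nat_lit 152) (nat_lit 282922338234) (nat_lit 182) (nat_lit 5) (nat_lit 183) (nat_lit 5) (nat_lit 184) (nat_lit 4) (nat_lit 466) (nat_lit 394) (nat_lit 160)) (XT.lf (nat_lit 0) (nat_lit 347888080253) (nat_lit 152) (nat_lit 69551879605) (nat_lit 0) (nat_lit 69451981981) (nat_lit 182) (nat_lit 5) (nat_lit 184) (nat_lit 4) (nat_lit 182) (nat_lit 4) (nat_lit 467) (nat_lit 394) (nat_lit 159))) (XT.nd (nat_lit 78) (nat_lit 76) (nat_lit 0) (XT.lf (nat_lit 0) (nat_lit 17425915446) (nat_lit 152) (nat_lit 242713110610) (nat_lit 76) (nat_lit 242613073983) (nat_lit 180) (nat_lit 5) (nat_lit 182) (nat_lit 5) (nat_lit 181) (nat_lit 4) (nat_lit 468) (nat_lit 394) (nat_lit 158))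 (XT.lf (nat_lit 0) (nat_lit 89751942963) (nat_lit 76) (nat_lit 89852111974) (nat_lit 152) (nat_lit 339557357876) (nat_lit 179) (nat_lit 5) (nat_lit 180) (nat_lit 5) (nat_lit 181) (nat_lit 4) (nat_lit 469) (nat_lit 394) (nat_lit 157)))) (XT.nd (nat_lit 156) (nat_lit 152) (nat_lit 0) (XT.nd (nat_lit 78) (nat_lit 76) (nat_lit 0) (XT.lf (nat_lit 0) (nat_lit 355457526932) (nat_lit 152) (nat_lit 90375431076) (nat_lit 0) (nat_lit 90279911942) (nat_lit 179) (nat_lit 5) (nat_lit 181) (nat_lit 4) (nat_lit 179) (nat_lit 4) (nat_lit 470) (nat_lit 394) (nat_lit 156)) (XT.lf (nat_lit 0) (nat_lit 272870569115) (nat_lit 76) (nat_lit 272966202609) (nat_lit 76) (nat_lit 7788473260) (nat_lit 178) (nat_lit 4) (nat_lit 179) (nat_lit 5) (nat_lit 179) (nat_lit 4) (nat_lit 471) (nat_lit 394) (nat_lit 155))) (XT.nd (nat_lit 78) (nat_lit 0) (nat_lit 0) (XT.lf (nat_lit 0) (nat_lit 85477924622) (nat_lit 76) (nat_lit 85573667028)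 (nat_lit 152) (nat_lit 400681531346) (nat_lit 176) (nat_lit 5) (nat_lit 177) (nat_lit 5) (nat_lit 178) (nat_lit 4) (nat_lit 472) (nat_lit 394) (nat_lit 154)) (XT.lf (nat_lit 0) (nat_lit 365140382481) (nat_lit 152) (nat_lit 112681243571) (nat_lit 0) (nat_lit 112589961540) (nat_lit 176) (nat_lit 5) (nat_lit 178) (nat_lit 4) (nat_lit 176) (nat_lit 4) (nat_lit 473) (nat_lit 394) (nat_lit 153))))) (XT.nd (nat_lit 312) (nat_lit 380) (nat_lit 0) (XT.nd (nat_lit 156) (nat_lit 76) (nat_lit 0) (XT.nd (nat_lit 78) (nat_lit 152) (nat_lit 0) (XT.lf (nat_lit 0) (nat_lit 287365758081) (nat_lit 76) (nat_lit 287457134195) (nat_lit 76) (nat_lit 34906619171) (nat_lit 175) (nat_lit 4) (nat_lit 176) (nat_lit 5) (nat_lit 176) (nat_lit 4) (nat_lit 474) (nat_lit 394) (nat_lit 152)) (XT.lf (nat_lit 0) (nat_lit 81407451582) (nat_lit 76) (nat_lit 81498917299) (nat_lit 152) (nat_lit 466817653504) (nat_lit 173) (nat_lit 5)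 (nat_lit 174) (nat_lit 5) (nat_lit 175) (nat_lit 4) (nat_lit 475) (nat_lit 394) (nat_lit 151))) (XT.nd (nat_lit 78) (nat_lit 76) (nat_lit 0) (XT.lf (nat_lit 0) (nat_lit 377089585058) (nat_lit 152) (nat_lit 136652309905) (nat_lit 0) (nat_lit 136565118426) (nat_lit 173) (nat_lit 5) (nat_lit 175) (nat_lit 4) (nat_lit 173) (nat_lit 4) (nat_lit 476) (nat_lit 394) (nat_lit 150)) (XT.lf (nat_lit 0) (nat_lit 303988353184) (nat_lit 76) (nat_lit 304075622065) (nat_lit 76) (nat_lit 63551078031) (nat_lit 172) (nat_lit 4) (nat_lit 173) (nat_lit 5) (nat_lit 173) (nat_lit 4) (nat_lit 477) (nat_lit 394) (nat_lit 149)))) (XT.nd (nat_lit 156) (nat_lit 228) (nat_lit 0) (XT.nd (nat_lit 78) (nat_lit 0) (nat_lit 0) (XT.lf (nat_lit 0) (nat_lit 77530827556) (nat_lit 76) (nat_lit 77618170154) (nat_lit 152) (nat_lit 538539123277) (nat_lit 170) (nat_lit 5) (nat_lit 171) (nat_lit 5) (nat_lit 172) (nat_lit 4) (nat_lit 478)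 (nat_lit 394) (nat_lit 148)) (XT.lf (nat_lit 0) (nat_lit 391476780567) (nat_lit 152) (nat_lit 162488899469) (nat_lit 0) (nat_lit 162405649180) (nat_lit 170) (nat_lit 5) (nat_lit 172) (nat_lit 4) (nat_lit 170) (nat_lit 4) (nat_lit 479) (nat_lit 394) (nat_lit 147))) (XT.nd (nat_lit 78) (nat_lit 152) (nat_lit 0) (XT.lf (nat_lit 0) (nat_lit 322925853844) (nat_lit 76) (nat_lit 323009167812) (nat_lit 76) (nat_lit 93937972746) (nat_lit 169) (nat_lit 4) (nat_lit 170) (nat_lit 5) (nat_lit 170) (nat_lit 4) (nat_lit 480) (nat_lit 394) (nat_lit 146)) (XT.nd (nat_lit 78) (nat_lit 0) (nat_lit 0) (XT.lf (nat_lit 0) (nat_lit 73838818629) (nat_lit 76) (nat_lit 73922193244) (nat_lit 152) (nat_lit 616475272378) (nat_lit 167) (nat_lit 5) (nat_lit 168) (nat_lit 5) (nat_lit 169) (nat_lit 4) (nat_lit 481) (nat_lit 394) (nat_lit 145)) (XT.lf (nat_lit 0) (nat_lit 408494096039) (nat_lit 152) (nat_lit 190410399755) (nat_lit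 0) (nat_lit 190330940351) (nat_lit 167) (nat_lit 5) (nat_lit 169) (nat_lit 4) (nat_lit 167) (nat_lit 4) (nat_lit 482) (nat_lit 394) (nat_lit 144))))))))
noncomputable def xc275 : XT := (XT.nd (nat_lit 48360) (nat_lit 0) (nat_lit 2660) (XT.nd (nat_lit 47112) (nat_lit 0) (nat_lit 6384) (XT.nd (nat_lit 46488) (nat_lit 0) (nat_lit 10032) (XT.nd (nat_lit 312) (nat_lit 152) (nat_lit 0) (XT.nd (nat_lit 156) (nat_lit 76) (nat_lit 0) (XT.nd (nat_lit 78) (nat_lit 152) (nat_lit 0) (XT.lf (nat_lit 0) (nat_lit 344386434276) (nat_lit 76) (nat_lit 344465946069) (nat_lit 76) (nat_lit 126302737993) (nat_lit 166) (nat_lit 4) (nat_lit 167) (nat_lit 5) (nat_lit 167) (nat_lit 4) (nat_lit 483) (nat_lit 394) (nat_lit 143)) (XT.lf (nat_lit 0) (nat_lit 70322631132) (nat_lit 76) (nat_lit 70402192820) (nat_lit 152) (nat_lit 701317233501) (nat_lit 164) (nat_lit 5) (nat_lit 165) (nat_lit 5) (nat_lit 166) (nat_lit 4) (nat_lit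 484) (nat_lit 394) (nat_lit 142))) (XT.nd (nat_lit 78) (nat_lit 76) (nat_lit 0) (XT.lf (nat_lit 0) (nat_lit 428356101607) (nat_lit 152) (nat_lit 220657343241) (nat_lit 0) (nat_lit 220581524951) (nat_lit 164) (nat_lit 5) (nat_lit 166) (nat_lit 4) (nat_lit 164) (nat_lit 4) (nat_lit 485) (nat_lit 394) (nat_lit 141)) (XT.lf (nat_lit 0) (nat_lit 368600993169) (nat_lit 76) (nat_lit 368676854560) (nat_lit 76) (nat_lit 160902234803) (nat_lit 163) (nat_lit 4) (nat_lit 164) (nat_lit 5) (nat_lit 164) (nat_lit 4) (nat_lit 486) (nat_lit 394) (nat_lit 140)))) (XT.nd (nat_lit 46020) (nat_lit 0) (nat_lit 9956) (XT.nd (nat_lit 45942) (nat_lit 0) (nat_lit 9956) (XT.lf (nat_lit 0) (nat_lit 66973890581) (nat_lit 76) (nat_lit 67049793021) (nat_lit 152) (nat_lit 793824403608) (nat_lit 161) (nat_lit 5) (nat_lit 162) (nat_lit 5) (nat_lit 163) (nat_lit 4) (nat_lit 487) (nat_lit 394) (nat_lit 139)) (XT.lf (nat_lit 0) (nat_lit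 13837224236) (nat_lit 836) (nat_lit 7930393660) (nat_lit 836) (nat_lit 7930393660) (nat_lit 292) (nat_lit 3) (nat_lit 303) (nat_lit 3) (nat_lit 303) (nat_lit 5) (nat_lit 395) (nat_lit 395) (nat_lit 230))) (XT.nd (nat_lit 78) (nat_lit 0) (nat_lit 76) (XT.lf (nat_lit 76) (nat_lit 14294745359) (nat_lit 0) (nat_lit 14313024485) (nat_lit 836) (nat_lit 32261080837) (nat_lit 293) (nat_lit 5) (nat_lit 292) (nat_lit 3) (nat_lit 303) (nat_lit 5) (nat_lit 396) (nat_lit 395) (nat_lit 229)) (XT.lf (nat_lit 0) (nat_lit 30115185574) (nat_lit 760) (nat_lit 16153875519) (nat_lit 836) (nat_lit 16119887122) (nat_lit 293) (nat_lit 5) (nat_lit 303) (nat_lit 5) (nat_lit 304) (nat_lit 5) (nat_lit 397) (nat_lit 395) (nat_lit 228))))) (XT.nd (nat_lit 312) (nat_lit 0) (nat_lit 152) (XT.nd (nat_lit 156) (nat_lit 0) (nat_lit 76) (XT.nd (nat_lit 78) (nat_lit 0) (nat_lit 76) (XT.lf (nat_lit 76) (nat_lit 16066278588) (nat_lit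 0) (nat_lit 16116057182) (nat_lit 836) (nat_lit 31778496673) (nat_lit 294) (nat_lit 5) (nat_lit 293) (nat_lit 5) (nat_lit 304) (nat_lit 5) (nat_lit 398) (nat_lit 395) (nat_lit 227)) (XT.lf (nat_lit 0) (nat_lit 34872530345) (nat_lit 760) (nat_lit 15387263275) (nat_lit 836) (nat_lit 15325532917) (nat_lit 294) (nat_lit 5) (nat_lit 304) (nat_lit 5) (nat_lit 305) (nat_lit 5) (nat_lit 399) (nat_lit 395) (nat_lit 226))) (XT.nd (nat_lit 78) (nat_lit 0) (nat_lit 76) (XT.lf (nat_lit 76) (nat_lit 19091559473) (nat_lit 0) (nat_lit 19166929996) (nat_lit 836) (nat_lit 29004493127) (nat_lit 295) (nat_lit 5) (nat_lit 294) (nat_lit 5) (nat_lit 305) (nat_lit 5) (nat_lit 400) (nat_lit 395) (nat_lit 225)) (XT.lf (nat_lit 0) (nat_lit 42288105893) (nat_lit 760) (nat_lit 13398425539) (nat_lit 836) (nat_lit 13314272057) (nat_lit 295) (nat_lit 5) (nat_lit 305) (nat_lit 5) (nat_lit 306) (nat_lit 5) (nat_lit 401) (nat_lit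 395) (nat_lit 224)))) (XT.nd (nat_lit 156) (nat_lit 0) (nat_lit 76) (XT.nd (nat_lit 78) (nat_lit 0) (nat_lit 76) (XT.lf (nat_lit 76) (nat_lit 23552133453) (nat_lit 0) (nat_lit 23648069823) (nat_lit 836) (nat_lit 23591262145) (nat_lit 296) (nat_lit 5) (nat_lit 295) (nat_lit 5) (nat_lit 306) (nat_lit 5) (nat_lit 402) (nat_lit 395) (nat_lit 223)) (XT.lf (nat_lit 0) (nat_lit 52743652383) (nat_lit 760) (nat_lit 10005388061) (nat_lit 836) (nat_lit 9903332663) (nat_lit 296) (nat_lit 5) (nat_lit 306) (nat_lit 5) (nat_lit 307) (nat_lit 5) (nat_lit 403) (nat_lit 395) (nat_lit 222))) (XT.nd (nat_lit 78) (nat_lit 0) (nat_lit 76) (XT.lf (nat_lit 76) (nat_lit 29650899757) (nat_lit 0) (nat_lit 29763133655) (nat_lit 836) (nat_lit 15149804791) (nat_lit 297) (nat_lit 5) (nat_lit 296) (nat_lit 5) (nat_lit 307) (nat_lit 5) (nat_lit 404) (nat_lit 395) (nat_lit 221)) (XT.lf (nat_lit 0) (nat_lit 66665408382) (nat_lit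 760) (nat_lit 5004608028) (nat_lit 76) (nat_lit 4888486400) (nat_lit 297) (nat_lit 5) (nat_lit 307) (nat_lit 5) (nat_lit 298) (nat_lit 5) (nat_lit 405) (nat_lit 395) (nat_lit 220)))))) (XT.nd (nat_lit 624) (nat_lit 1596) (nat_lit 0) (XT.nd (nat_lit 312) (nat_lit 684) (nat_lit 0) (XT.nd (nat_lit 156) (nat_lit 380) (nat_lit 0) (XT.nd (nat_lit 78) (nat_lit 532) (nat_lit 0) (XT.lf (nat_lit 0) (nat_lit 37614423944) (nat_lit 760) (nat_lit 37739338144) (nat_lit 836) (nat_lit 3245418059) (nat_lit 287) (nat_lit 5) (nat_lit 297) (nat_lit 5) (nat_lit 298) (nat_lit 5) (nat_lit 406) (nat_lit 395) (nat_lit 219)) (XT.lf (nat_lit 0) (nat_lit 1797635229) (nat_lit 456) (nat_lit 1930923307) (nat_lit 532) (nat_lit 77004744991) (nat_lit 280) (nat_lit 5) (nat_lit 286) (nat_lit 5) (nat_lit 287) (nat_lit 5) (nat_lit 407) (nat_lit 395) (nat_lit 218))) (XT.nd (nat_lit 78) (nat_lit 380) (nat_lit 0) (XT.lf (nat_lit 0) (nat_lit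 12203781443) (nat_lit 532) (nat_lit 35419573547) (nat_lit 76) (nat_lit 35285037166) (nat_lit 280) (nat_lit 5) (nat_lit 287) (nat_lit 5) (nat_lit 281) (nat_lit 5) (nat_lit 408) (nat_lit 395) (nat_lit 217)) (XT.lf (nat_lit 0) (nat_lit 10578554655) (nat_lit 380) (nat_lit 10720324707) (nat_lit 456) (nat_lit 63883550161) (nat_lit 275) (nat_lit 5) (nat_lit 280) (nat_lit 5) (nat_lit 281) (nat_lit 5) (nat_lit 409) (nat_lit 395) (nat_lit 216)))) (XT.nd (nat_lit 156) (nat_lit 304) (nat_lit 0) (XT.nd (nat_lit 78) (nat_lit 380) (nat_lit 0) (XT.lf (nat_lit 0) (nat_lit 31895327862) (nat_lit 456) (nat_lit 27882045681) (nat_lit 76) (nat_lit 27740465431) (nat_lit 275) (nat_lit 5) (nat_lit 281) (nat_lit 5) (nat_lit 276) (nat_lit 5) (nat_lit 410) (nat_lit 395) (nat_lit 215)) (XT.lf (nat_lit 0) (nat_lit 21693783518) (nat_lit 380) (nat_lit 21841612485) (nat_lit 456) (nat_lit 46408933033) (nat_lit 270) (nat_lit 5) (nat_lit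 275) (nat_lit 5) (nat_lit 276) (nat_lit 5) (nat_lit 411) (nat_lit 395) (nat_lit 214))) (XT.nd (nat_lit 78) (nat_lit 304) (nat_lit 0) (XT.lf (nat_lit 0) (nat_lit 56517666300) (nat_lit 456) (nat_lit 18041462314) (nat_lit 76) (nat_lit 17895005051) (nat_lit 270) (nat_lit 5) (nat_lit 276) (nat_lit 5) (nat_lit 271) (nat_lit 5) (nat_lit 412) (nat_lit 395) (nat_lit 213)) (XT.lf (nat_lit 0) (nat_lit 35454097414) (nat_lit 304) (nat_lit 35605952553) (nat_lit 380) (nat_lit 23983828565) (nat_lit 266) (nat_lit 5) (nat_lit 270) (nat_lit 5) (nat_lit 271) (nat_lit 5) (nat_lit 413) (nat_lit 395) (nat_lit 212))))) (XT.nd (nat_lit 312) (nat_lit 912) (nat_lit 0) (XT.nd (nat_lit 156) (nat_lit 304) (nat_lit 0) (XT.nd (nat_lit 78) (nat_lit 380) (nat_lit 0) (XT.lf (nat_lit 0) (nat_lit 86722190210) (nat_lit 380) (nat_lit 5585404269) (nat_lit 76) (nat_lit 5435884294) (nat_lit 266) (nat_lit 5) (nat_lit 271) (nat_lit 5) (nat_lit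 267) (nat_lit 5) (nat_lit 414) (nat_lit 395) (nat_lit 211)) (XT.lf (nat_lit 0) (nat_lit 3927653344) (nat_lit 380) (nat_lit 48365754807) (nat_lit 76) (nat_lit 48211571943) (nat_lit 261) (nat_lit 5) (nat_lit 266) (nat_lit 5) (nat_lit 262) (nat_lit 5) (nat_lit 415) (nat_lit 395) (nat_lit 210))) (XT.nd (nat_lit 78) (nat_lit 0) (nat_lit 0) (XT.lf (nat_lit 0) (nat_lit 9670808235) (nat_lit 304) (nat_lit 9829431946) (nat_lit 380) (nat_lit 83882953187) (nat_lit 257) (nat_lit 5) (nat_lit 261) (nat_lit 5) (nat_lit 262) (nat_lit 5) (nat_lit 416) (nat_lit 395) (nat_lit 209)) (XT.lf (nat_lit 0) (nat_lit 37226116077) (nat_lit 380) (nat_lit 34632783210) (nat_lit 76) (nat_lit 34477685032) (nat_lit 257) (nat_lit 5) (nat_lit 262) (nat_lit 5) (nat_lit 258) (nat_lit 5) (nat_lit 417) (nat_lit 395) (nat_lit 208)))) (XT.nd (nat_lit 156) (nat_lit 608) (nat_lit 0) (XT.nd (nat_lit 78) (nat_lit 0) (nat_lit 0) (XT.lf (nat_lit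 0) (nat_lit 28139661287) (nat_lit 304) (nat_lit 28298595636) (nat_lit 380) (nat_lit 52969389337) (nat_lit 253) (nat_lit 5) (nat_lit 257) (nat_lit 5) (nat_lit 258) (nat_lit 5) (nat_lit 418) (nat_lit 395) (nat_lit 207)) (XT.lf (nat_lit 0) (nat_lit 77478931778) (nat_lit 380) (nat_lit 17632389370) (nat_lit 76) (nat_lit 17477543804) (nat_lit 253) (nat_lit 5) (nat_lit 258) (nat_lit 5) (nat_lit 254) (nat_lit 5) (nat_lit 419) (nat_lit 395) (nat_lit 206))) (XT.nd (nat_lit 78) (nat_lit 380) (nat_lit 0) (XT.lf (nat_lit 0) (nat_lit 50331367777) (nat_lit 228) (nat_lit 50489527171) (nat_lit 304) (nat_lit 15045786899) (nat_lit 250) (nat_lit 5) (nat_lit 253) (nat_lit 5) (nat_lit 254) (nat_lit 5) (nat_lit 420) (nat_lit 395) (nat_lit 205)) (XT.lf (nat_lit 0) (nat_lit 3008770993) (nat_lit 304) (nat_lit 3170086414) (nat_lit 380) (nat_lit 113107330582) (nat_lit 245) (nat_lit 5) (nat_lit 249) (nat_lit 5) (nat_lit 250)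 (nat_lit 5) (nat_lit 421) (nat_lit 395) (nat_lit 204))))))) (XT.nd (nat_lit 1248) (nat_lit 1748) (nat_lit 0) (XT.nd (nat_lit 624) (nat_lit 988) (nat_lit 0) (XT.nd (nat_lit 312) (nat_lit 532) (nat_lit 0) (XT.nd (nat_lit 156) (nat_lit 228) (nat_lit 0) (XT.nd (nat_lit 78) (nat_lit 228) (nat_lit 0) (XT.lf (nat_lit 0) (nat_lit 29812942945) (nat_lit 380) (nat_lit 46557598959) (nat_lit 76) (nat_lit 46401102616) (nat_lit 245) (nat_lit 5) (nat_lit 250) (nat_lit 5) (nat_lit 246) (nat_lit 5) (nat_lit 422) (nat_lit 395) (nat_lit 203)) (XT.lf (nat_lit 0) (nat_lit 27475003434) (nat_lit 228) (nat_lit 27634226071) (nat_lit 304) (nat_lit 71298119534) (nat_lit 242) (nat_lit 5) (nat_lit 245) (nat_lit 5) (nat_lit 246) (nat_lit 5) (nat_lit 423) (nat_lit 395) (nat_lit 202))) (XT.nd (nat_lit 78) (nat_lit 228) (nat_lit 0) (XT.lf (nat_lit 0) (nat_lit 82838814803) (nat_lit 304) (nat_lit 23740856599) (nat_lit 76) (nat_lit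 23586743162) (nat_lit 242) (nat_lit 5) (nat_lit 246) (nat_lit 5) (nat_lit 243) (nat_lit 5) (nat_lit 424) (nat_lit 395) (nat_lit 201)) (XT.lf (nat_lit 0) (nat_lit 56567098484) (nat_lit 228) (nat_lit 56723566996) (nat_lit 304) (nat_lit 20755978580) (nat_lit 239) (nat_lit 5) (nat_lit 242) (nat_lit 5) (nat_lit 243) (nat_lit 5) (nat_lit 425) (nat_lit 395) (nat_lit 200)))) (XT.nd (nat_lit 156) (nat_lit 228) (nat_lit 0) (XT.nd (nat_lit 78) (nat_lit 0) (nat_lit 0) (XT.lf (nat_lit 0) (nat_lit 3610739572) (nat_lit 228) (nat_lit 3769451013) (nat_lit 304) (nat_lit 130711886043) (nat_lit 235) (nat_lit 5) (nat_lit 238) (nat_lit 5) (nat_lit 239) (nat_lit 5) (nat_lit 426) (nat_lit 395) (nat_lit 199)) (XT.lf (nat_lit 0) (nat_lit 38368149958) (nat_lit 304) (nat_lit 52000339995) (nat_lit 76) (nat_lit 51847151838) (nat_lit 235) (nat_lit 5) (nat_lit 239) (nat_lit 5) (nat_lit 236) (nat_lit 5) (nat_lit 427) (nat_lit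 395) (nat_lit 198))) (XT.nd (nat_lit 78) (nat_lit 0) (nat_lit 0) (XT.lf (nat_lit 0) (nat_lit 35684467531) (nat_lit 228) (nat_lit 35839593214) (nat_lit 304) (nat_lit 74990396794) (nat_lit 232) (nat_lit 5) (nat_lit 235) (nat_lit 5) (nat_lit 236) (nat_lit 5) (nat_lit 428) (nat_lit 395) (nat_lit 197)) (XT.lf (nat_lit 0) (nat_lit 107566845419) (nat_lit 304) (nat_lit 21774705439) (nat_lit 76) (nat_lit 21625209300) (nat_lit 232) (nat_lit 5) (nat_lit 236) (nat_lit 5) (nat_lit 233) (nat_lit 5) (nat_lit 429) (nat_lit 395) (nat_lit 196))))) (XT.nd (nat_lit 312) (nat_lit 380) (nat_lit 0) (XT.nd (nat_lit 156) (nat_lit 152) (nat_lit 0) (XT.nd (nat_lit 78) (nat_lit 304) (nat_lit 0) (XT.lf (nat_lit 0) (nat_lit 73497643122) (nat_lit 152) (nat_lit 73648812969) (nat_lit 228) (nat_lit 8408487478) (nat_lit 230) (nat_lit 5) (nat_lit 232) (nat_lit 5) (nat_lit 233) (nat_lit 5) (nat_lit 430) (nat_lit 395) (nat_lit 195))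 (XT.lf (nat_lit 0) (nat_lit 13932458078) (nat_lit 228) (nat_lit 14085221934) (nat_lit 304) (nat_lit 132303139336) (nat_lit 226) (nat_lit 5) (nat_lit 229) (nat_lit 5) (nat_lit 230) (nat_lit 5) (nat_lit 431) (nat_lit 395) (nat_lit 194))) (XT.nd (nat_lit 78) (nat_lit 152) (nat_lit 0) (XT.lf (nat_lit 0) (nat_lit 68151235736) (nat_lit 304) (nat_lit 48602681583) (nat_lit 76) (nat_lit 48455746384) (nat_lit 226) (nat_lit 5) (nat_lit 230) (nat_lit 5) (nat_lit 227) (nat_lit 5) (nat_lit 432) (nat_lit 395) (nat_lit 193)) (XT.lf (nat_lit 0) (nat_lit 55621067707) (nat_lit 152) (nat_lit 55769379869) (nat_lit 228) (nat_lit 58897553783) (nat_lit 224) (nat_lit 5) (nat_lit 226) (nat_lit 5) (nat_lit 227) (nat_lit 5) (nat_lit 433) (nat_lit 395) (nat_lit 192)))) (XT.nd (nat_lit 156) (nat_lit 152) (nat_lit 0) (XT.nd (nat_lit 78) (nat_lit 228) (nat_lit 0) (XT.lf (nat_lit 0) (nat_lit 157756930357) (nat_lit 228) (nat_lit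 8978779325) (nat_lit 76) (nat_lit 8836280700) (nat_lit 224) (nat_lit 5) (nat_lit 227) (nat_lit 5) (nat_lit 225) (nat_lit 5) (nat_lit 434) (nat_lit 395) (nat_lit 191)) (XT.lf (nat_lit 0) (nat_lit 27097070376) (nat_lit 228) (nat_lit 77008865778) (nat_lit 76) (nat_lit 76865177679) (nat_lit 221) (nat_lit 5) (nat_lit 224) (nat_lit 5) (nat_lit 222) (nat_lit 5) (nat_lit 435) (nat_lit 395) (nat_lit 190))) (XT.nd (nat_lit 78) (nat_lit 0) (nat_lit 0) (XT.lf (nat_lit 0) (nat_lit 37122558690) (nat_lit 152) (nat_lit 37267379620) (nat_lit 228) (nat_lit 112198960946) (nat_lit 219) (nat_lit 5) (nat_lit 221) (nat_lit 5) (nat_lit 222) (nat_lit 5) (nat_lit 436) (nat_lit 395) (nat_lit 189)) (XT.lf (nat_lit 0) (nat_lit 125886575343) (nat_lit 228) (nat_lit 33323997265) (nat_lit 76) (nat_lit 33185045058) (nat_lit 219) (nat_lit 5) (nat_lit 222) (nat_lit 5) (nat_lit 220) (nat_lit 5) (nat_lit 437) (nat_lit 395) (nat_lit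 188)))))) (XT.nd (nat_lit 624) (nat_lit 912) (nat_lit 0) (XT.nd (nat_lit 312) (nat_lit 304) (nat_lit 0) (XT.nd (nat_lit 156) (nat_lit 152) (nat_lit 0) (XT.nd (nat_lit 78) (nat_lit 228) (nat_lit 0) (XT.lf (nat_lit 0) (nat_lit 90924173554) (nat_lit 152) (nat_lit 91064104344) (nat_lit 228) (nat_lit 16402882412) (nat_lit 217) (nat_lit 5) (nat_lit 219) (nat_lit 5) (nat_lit 220) (nat_lit 5) (nat_lit 438) (nat_lit 395) (nat_lit 187)) (XT.lf (nat_lit 0) (nat_lit 17880656112) (nat_lit 152) (nat_lit 18021518885) (nat_lit 228) (nat_lit 168713414700) (nat_lit 214) (nat_lit 5) (nat_lit 216) (nat_lit 5) (nat_lit 217) (nat_lit 5) (nat_lit 439) (nat_lit 395) (nat_lit 186))) (XT.nd (nat_lit 78) (nat_lit 152) (nat_lit 0) (XT.lf (nat_lit 0) (nat_lit 93036851800) (nat_lit 228) (nat_lit 59048831788) (nat_lit 76) (nat_lit 58913831430) (nat_lit 214) (nat_lit 5) (nat_lit 217) (nat_lit 5) (nat_lit 215) (nat_lit 5) (nat_lit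 440) (nat_lit 395) (nat_lit 185)) (XT.lf (nat_lit 0) (nat_lit 77196437155) (nat_lit 152) (nat_lit 77332242596) (nat_lit 228) (nat_lit 63098935990) (nat_lit 212) (nat_lit 5) (nat_lit 214) (nat_lit 5) (nat_lit 215) (nat_lit 5) (nat_lit 441) (nat_lit 395) (nat_lit 184)))) (XT.nd (nat_lit 156) (nat_lit 152) (nat_lit 0) (XT.nd (nat_lit 78) (nat_lit 152) (nat_lit 0) (XT.lf (nat_lit 0) (nat_lit 220129338994) (nat_lit 228) (nat_lit 2268069630) (nat_lit 76) (nat_lit 2138000881) (nat_lit 212) (nat_lit 5) (nat_lit 215) (nat_lit 5) (nat_lit 213) (nat_lit 4) (nat_lit 442) (nat_lit 395) (nat_lit 183)) (XT.lf (nat_lit 0) (nat_lit 58998506052) (nat_lit 152) (nat_lit 86347878102) (nat_lit 76) (nat_lit 86217113893) (nat_lit 210) (nat_lit 5) (nat_lit 212) (nat_lit 5) (nat_lit 211) (nat_lit 5) (nat_lit 443) (nat_lit 395) (nat_lit 182))) (XT.nd (nat_lit 78) (nat_lit 0) (nat_lit 0) (XT.lf (nat_lit 0) (nat_lit 63159346598)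 (nat_lit 152) (nat_lit 63290773150) (nat_lit 228) (nat_lit 112438015677) (nat_lit 208) (nat_lit 5) (nat_lit 210) (nat_lit 5) (nat_lit 211) (nat_lit 5) (nat_lit 444) (nat_lit 395) (nat_lit 181)) (XT.lf (nat_lit 0) (nat_lit 199117405963) (nat_lit 228) (nat_lit 23747606514) (nat_lit 76) (nat_lit 23621837604) (nat_lit 208) (nat_lit 5) (nat_lit 211) (nat_lit 5) (nat_lit 209) (nat_lit 4) (nat_lit 445) (nat_lit 395) (nat_lit 180))))) (XT.nd (nat_lit 312) (nat_lit 532) (nat_lit 0) (XT.nd (nat_lit 156) (nat_lit 76) (nat_lit 0) (XT.nd (nat_lit 78) (nat_lit 152) (nat_lit 0) (XT.lf (nat_lit 0) (nat_lit 23546010788) (nat_lit 152) (nat_lit 115433135485) (nat_lit 76) (nat_lit 115306794419) (nat_lit 206) (nat_lit 5) (nat_lit 208) (nat_lit 5) (nat_lit 207) (nat_lit 5) (nat_lit 446) (nat_lit 395) (nat_lit 179)) (XT.lf (nat_lit 0) (nat_lit 48728877160) (nat_lit 152) (nat_lit 48855763138) (nat_lit 228) (nat_lit 164793051832)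 (nat_lit 204) (nat_lit 5) (nat_lit 206) (nat_lit 5) (nat_lit 207) (nat_lit 5) (nat_lit 447) (nat_lit 395) (nat_lit 178))) (XT.nd (nat_lit 78) (nat_lit 76) (nat_lit 0) (XT.lf (nat_lit 0) (nat_lit 178026585115) (nat_lit 228) (nat_lit 46416857437) (nat_lit 76) (nat_lit 46295519398) (nat_lit 204) (nat_lit 5) (nat_lit 207) (nat_lit 5) (nat_lit 205) (nat_lit 4) (nat_lit 448) (nat_lit 395) (nat_lit 177)) (XT.lf (nat_lit 0) (nat_lit 132620038610) (nat_lit 76) (nat_lit 132741847364) (nat_lit 152) (nat_lit 14012846345) (nat_lit 203) (nat_lit 5) (nat_lit 204) (nat_lit 5) (nat_lit 205) (nat_lit 4) (nat_lit 449) (nat_lit 395) (nat_lit 176)))) (XT.nd (nat_lit 156) (nat_lit 304) (nat_lit 0) (XT.nd (nat_lit 78) (nat_lit 0) (nat_lit 0) (XT.lf (nat_lit 0) (nat_lit 33814890379) (nat_lit 152) (nat_lit 33937147433) (nat_lit 228) (nat_lit 220570349633) (nat_lit 200) (nat_lit 5) (nat_lit 202) (nat_lit 5) (nat_lit 203)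 (nat_lit 5) (nat_lit 450) (nat_lit 395) (nat_lit 175)) (XT.lf (nat_lit 0) (nat_lit 156750019572) (nat_lit 228) (nat_lit 70445986439) (nat_lit 76) (nat_lit 70329144528) (nat_lit 200) (nat_lit 5) (nat_lit 203) (nat_lit 5) (nat_lit 201) (nat_lit 4) (nat_lit 451) (nat_lit 395) (nat_lit 174))) (XT.nd (nat_lit 78) (nat_lit 228) (nat_lit 0) (XT.lf (nat_lit 0) (nat_lit 126304385169) (nat_lit 76) (nat_lit 126421614338) (nat_lit 152) (nat_lit 54335647329) (nat_lit 199) (nat_lit 5) (nat_lit 200) (nat_lit 5) (nat_lit 201) (nat_lit 4) (nat_lit 452) (nat_lit 395) (nat_lit 173)) (XT.lf (nat_lit 0) (nat_lit 18320387063) (nat_lit 152) (nat_lit 18437985050) (nat_lit 228) (nat_lit 280213239633) (nat_lit 196) (nat_lit 5) (nat_lit 198) (nat_lit 5) (nat_lit 199) (nat_lit 5) (nat_lit 453) (nat_lit 395) (nat_lit 172))))))))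
noncomputable def xc276 : XT := (XT.nd (nat_lit 2496) (nat_lit 76) (nat_lit 0) (XT.nd (nat_lit 1248) (nat_lit 1216) (nat_lit 0) (XT.nd (nat_lit 624) (nat_lit 608) (nat_lit 0) (XT.nd (nat_lit 312) (nat_lit 304) (nat_lit 0) (XT.nd (nat_lit 156) (nat_lit 228) (nat_lit 0) (XT.nd (nat_lit 78) (nat_lit 76) (nat_lit 0) (XT.lf (nat_lit 0) (nat_lit 135174597538) (nat_lit 228) (nat_lit 96020297802) (nat_lit 76) (nat_lit 95907965191) (nat_lit 196) (nat_lit 5) (nat_lit 199) (nat_lit 5) (nat_lit 197) (nat_lit 4) (nat_lit 454) (nat_lit 395) (nat_lit 171)) (XT.lf (nat_lit 0) (nat_lit 120289550443) (nat_lit 76) (nat_lit 120402201653) (nat_lit 152) (nat_lit 96939913768) (nat_lit 195) (nat_lit 5) (nat_lit 196) (nat_lit 5) (nat_lit 197) (nat_lit 4) (nat_lit 455) (nat_lit 395) (nat_lit 170))) (XT.nd (nat_lit 78) (nat_lit 0) (nat_lit 0) (XT.lf (nat_lit 0) (nat_lit 2140689707) (nat_lit 152) (nat_lit 2253644344) (nat_lit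 228) (nat_lit 344206091800) (nat_lit 192) (nat_lit 5) (nat_lit 194) (nat_lit 5) (nat_lit 195) (nat_lit 5) (nat_lit 456) (nat_lit 395) (nat_lit 169)) (XT.lf (nat_lit 0) (nat_lit 113180088430) (nat_lit 228) (nat_lit 123341898489) (nat_lit 76) (nat_lit 123234047427) (nat_lit 192) (nat_lit 5) (nat_lit 195) (nat_lit 5) (nat_lit 193) (nat_lit 4) (nat_lit 457) (nat_lit 395) (nat_lit 168)))) (XT.nd (nat_lit 156) (nat_lit 228) (nat_lit 0) (XT.nd (nat_lit 78) (nat_lit 0) (nat_lit 0) (XT.lf (nat_lit 0) (nat_lit 114561196734) (nat_lit 76) (nat_lit 114669309908) (nat_lit 152) (nat_lit 142147647817) (nat_lit 191) (nat_lit 5) (nat_lit 192) (nat_lit 5) (nat_lit 193) (nat_lit 4) (nat_lit 458) (nat_lit 395) (nat_lit 167)) (XT.lf (nat_lit 0) (nat_lit 353413630205) (nat_lit 152) (nat_lit 15077221910) (nat_lit 0) (nat_lit 14974019240) (nat_lit 191) (nat_lit 5) (nat_lit 193) (nat_lit 4) (nat_lit 191) (nat_lit 4) (nat_lit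 459) (nat_lit 395) (nat_lit 166))) (XT.nd (nat_lit 78) (nat_lit 76) (nat_lit 0) (XT.lf (nat_lit 0) (nat_lit 90638200896) (nat_lit 152) (nat_lit 152631525549) (nat_lit 76) (nat_lit 152528096458) (nat_lit 189) (nat_lit 5) (nat_lit 191) (nat_lit 5) (nat_lit 190) (nat_lit 4) (nat_lit 460) (nat_lit 395) (nat_lit 165)) (XT.lf (nat_lit 0) (nat_lit 109105671395) (nat_lit 76) (nat_lit 109209316127) (nat_lit 152) (nat_lit 190309662778) (nat_lit 188) (nat_lit 5) (nat_lit 189) (nat_lit 5) (nat_lit 190) (nat_lit 4) (nat_lit 461) (nat_lit 395) (nat_lit 164))))) (XT.nd (nat_lit 312) (nat_lit 380) (nat_lit 0) (XT.nd (nat_lit 156) (nat_lit 76) (nat_lit 0) (XT.nd (nat_lit 78) (nat_lit 152) (nat_lit 0) (XT.lf (nat_lit 0) (nat_lit 355495346268) (nat_lit 152) (nat_lit 33270195510) (nat_lit 0) (nat_lit 33171290650) (nat_lit 188) (nat_lit 5) (nat_lit 190) (nat_lit 4) (nat_lit 188) (nat_lit 4) (nat_lit 462) (nat_lit 395)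 (nat_lit 163)) (XT.lf (nat_lit 0) (nat_lit 67411554246) (nat_lit 152) (nat_lit 184130555690) (nat_lit 76) (nat_lit 184031464552) (nat_lit 186) (nat_lit 5) (nat_lit 188) (nat_lit 5) (nat_lit 187) (nat_lit 4) (nat_lit 463) (nat_lit 395) (nat_lit 162))) (XT.nd (nat_lit 78) (nat_lit 0) (nat_lit 0) (XT.lf (nat_lit 0) (nat_lit 103909973801) (nat_lit 76) (nat_lit 104009242346) (nat_lit 152) (nat_lit 241808735314) (nat_lit 185) (nat_lit 5) (nat_lit 186) (nat_lit 5) (nat_lit 187) (nat_lit 4) (nat_lit 464) (nat_lit 395) (nat_lit 161)) (XT.lf (nat_lit 0) (nat_lit 359416247425) (nat_lit 152) (nat_lit 52535151465) (nat_lit 0) (nat_lit 52440449079) (nat_lit 185) (nat_lit 5) (nat_lit 187) (nat_lit 4) (nat_lit 185) (nat_lit 4) (nat_lit 465) (nat_lit 395) (nat_lit 160)))) (XT.nd (nat_lit 156) (nat_lit 152) (nat_lit 0) (XT.nd (nat_lit 78) (nat_lit 76) (nat_lit 0) (XT.lf (nat_lit 0) (nat_lit 43352553978) (nat_lit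 152) (nat_lit 218103215940) (nat_lit 76) (nat_lit 218008360303) (nat_lit 183) (nat_lit 5) (nat_lit 185) (nat_lit 5) (nat_lit 184) (nat_lit 4) (nat_lit 466) (nat_lit 395) (nat_lit 159)) (XT.lf (nat_lit 0) (nat_lit 98961723964) (nat_lit 76) (nat_lit 99056725554) (nat_lit 152) (nat_lit 297063071401) (nat_lit 182) (nat_lit 5) (nat_lit 183) (nat_lit 5) (nat_lit 184) (nat_lit 4) (nat_lit 467) (nat_lit 395) (nat_lit 158))) (XT.nd (nat_lit 78) (nat_lit 152) (nat_lit 0) (XT.lf (nat_lit 0) (nat_lit 365287440692) (nat_lit 152) (nat_lit 73019730254) (nat_lit 0) (nat_lit 72929120164) (nat_lit 182) (nat_lit 5) (nat_lit 184) (nat_lit 4) (nat_lit 182) (nat_lit 4) (nat_lit 468) (nat_lit 395) (nat_lit 157)) (XT.lf (nat_lit 0) (nat_lit 18302161128) (nat_lit 152) (nat_lit 254839016293) (nat_lit 76) (nat_lit 254748280124) (nat_lit 180) (nat_lit 5) (nat_lit 182) (nat_lit 5) (nat_lit 181) (nat_lit 4) (nat_lit 469) (nat_lit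 395) (nat_lit 156)))))) (XT.nd (nat_lit 624) (nat_lit 684) (nat_lit 0) (XT.nd (nat_lit 312) (nat_lit 228) (nat_lit 0) (XT.nd (nat_lit 156) (nat_lit 228) (nat_lit 0) (XT.nd (nat_lit 78) (nat_lit 0) (nat_lit 0) (XT.lf (nat_lit 0) (nat_lit 94249132702) (nat_lit 76) (nat_lit 94339988949) (nat_lit 152) (nat_lit 356530118605) (nat_lit 179) (nat_lit 5) (nat_lit 180) (nat_lit 5) (nat_lit 181) (nat_lit 4) (nat_lit 470) (nat_lit 395) (nat_lit 155)) (XT.lf (nat_lit 0) (nat_lit 373235105940) (nat_lit 152) (nat_lit 94884905523) (nat_lit 0) (nat_lit 94798266852) (nat_lit 179) (nat_lit 5) (nat_lit 181) (nat_lit 4) (nat_lit 179) (nat_lit 4) (nat_lit 471) (nat_lit 395) (nat_lit 154))) (XT.nd (nat_lit 78) (nat_lit 152) (nat_lit 0) (XT.lf (nat_lit 0) (nat_lit 286523244725) (nat_lit 76) (nat_lit 286609987123) (nat_lit 76) (nat_lit 8173044309) (nat_lit 178) (nat_lit 4) (nat_lit 179) (nat_lit 5) (nat_lit 179) (nat_lit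 4) (nat_lit 472) (nat_lit 395) (nat_lit 153)) (XT.lf (nat_lit 0) (nat_lit 89760973281) (nat_lit 76) (nat_lit 89847814466) (nat_lit 152) (nat_lit 420710760574) (nat_lit 176) (nat_lit 5) (nat_lit 177) (nat_lit 5) (nat_lit 178) (nat_lit 4) (nat_lit 473) (nat_lit 395) (nat_lit 152)))) (XT.nd (nat_lit 156) (nat_lit 152) (nat_lit 0) (XT.nd (nat_lit 78) (nat_lit 76) (nat_lit 0) (XT.lf (nat_lit 0) (nat_lit 383401865732) (nat_lit 152) (nat_lit 118306436763) (nat_lit 0) (nat_lit 118223641270) (nat_lit 176) (nat_lit 5) (nat_lit 178) (nat_lit 4) (nat_lit 176) (nat_lit 4) (nat_lit 474) (nat_lit 395) (nat_lit 151)) (XT.lf (nat_lit 0) (nat_lit 301742771923) (nat_lit 76) (nat_lit 301825652752) (nat_lit 76) (nat_lit 36647342955) (nat_lit 175) (nat_lit 4) (nat_lit 176) (nat_lit 5) (nat_lit 176) (nat_lit 4) (nat_lit 475) (nat_lit 395) (nat_lit 150))) (XT.nd (nat_lit 78) (nat_lit 0) (nat_lit 0) (XT.lf (nat_lit 0)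 (nat_lit 85486554439) (nat_lit 76) (nat_lit 85569516540) (nat_lit 152) (nat_lit 490153933344) (nat_lit 173) (nat_lit 5) (nat_lit 174) (nat_lit 5) (nat_lit 175) (nat_lit 4) (nat_lit 476) (nat_lit 395) (nat_lit 149)) (XT.lf (nat_lit 0) (nat_lit 395948303849) (nat_lit 152) (nat_lit 143476466737) (nat_lit 0) (nat_lit 143397381495) (nat_lit 173) (nat_lit 5) (nat_lit 175) (nat_lit 4) (nat_lit 173) (nat_lit 4) (nat_lit 477) (nat_lit 395) (nat_lit 148))))) (XT.nd (nat_lit 312) (nat_lit 380) (nat_lit 0) (XT.nd (nat_lit 156) (nat_lit 76) (nat_lit 0) (XT.nd (nat_lit 78) (nat_lit 152) (nat_lit 0) (XT.lf (nat_lit 0) (nat_lit 319196093077) (nat_lit 76) (nat_lit 319275248525) (nat_lit 76) (nat_lit 66724255964) (nat_lit 172) (nat_lit 4) (nat_lit 173) (nat_lit 5) (nat_lit 173) (nat_lit 4) (nat_lit 478) (nat_lit 395) (nat_lit 147)) (XT.lf (nat_lit 0) (nat_lit 81415694737) (nat_lit 76) (nat_lit 81494917048) (nat_lit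 152) (nat_lit 565461707041) (nat_lit 170) (nat_lit 5) (nat_lit 171) (nat_lit 5) (nat_lit 172) (nat_lit 4) (nat_lit 479) (nat_lit 395) (nat_lit 146))) (XT.nd (nat_lit 78) (nat_lit 76) (nat_lit 0) (XT.lf (nat_lit 0) (nat_lit 411054647371) (nat_lit 152) (nat_lit 170605278692) (nat_lit 0) (nat_lit 170529768225) (nat_lit 170) (nat_lit 5) (nat_lit 172) (nat_lit 4) (nat_lit 170) (nat_lit 4) (nat_lit 480) (nat_lit 395) (nat_lit 145)) (XT.lf (nat_lit 0) (nat_lit 339080082194) (nat_lit 76) (nat_lit 339155650419) (nat_lit 76) (nat_lit 98630713515) (nat_lit 169) (nat_lit 4) (nat_lit 170) (nat_lit 5) (nat_lit 170) (nat_lit 4) (nat_lit 481) (nat_lit 395) (nat_lit 144)))) (XT.nd (nat_lit 156) (nat_lit 228) (nat_lit 0) (XT.nd (nat_lit 78) (nat_lit 0) (nat_lit 0) (XT.lf (nat_lit 0) (nat_lit 77538698155) (nat_lit 76) (nat_lit 77614321389) (nat_lit 152) (nat_lit 647294881065) (nat_lit 167) (nat_lit 5) (nat_lit 168)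 (nat_lit 5) (nat_lit 169) (nat_lit 4) (nat_lit 482) (nat_lit 395) (nat_lit 143)) (XT.lf (nat_lit 0) (nat_lit 428922628688) (nat_lit 152) (nat_lit 199923229947) (nat_lit 0) (nat_lit 199851157925) (nat_lit 167) (nat_lit 5) (nat_lit 169) (nat_lit 4) (nat_lit 167) (nat_lit 4) (nat_lit 483) (nat_lit 395) (nat_lit 142))) (XT.nd (nat_lit 78) (nat_lit 152) (nat_lit 0) (XT.lf (nat_lit 0) (nat_lit 361613321757) (nat_lit 76) (nat_lit 361685441297) (nat_lit 76) (nat_lit 132613923016) (nat_lit 166) (nat_lit 4) (nat_lit 167) (nat_lit 5) (nat_lit 167) (nat_lit 4) (nat_lit 484) (nat_lit 395) (nat_lit 141)) (XT.lf (nat_lit 0) (nat_lit 73846330872) (nat_lit 76) (nat_lit 73918495668) (nat_lit 152) (nat_lit 736379145716) (nat_lit 164) (nat_lit 5) (nat_lit 165) (nat_lit 5) (nat_lit 166) (nat_lit 4) (nat_lit 485) (nat_lit 395) (nat_lit 140))))))) (XT.nd (nat_lit 47190) (nat_lit 0) (nat_lit 6004) (XT.nd (nat_lit 46566)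 (nat_lit 0) (nat_lit 8892) (XT.nd (nat_lit 46254) (nat_lit 0) (nat_lit 9880) (XT.nd (nat_lit 46098) (nat_lit 0) (nat_lit 9804) (XT.nd (nat_lit 78) (nat_lit 76) (nat_lit 0) (XT.lf (nat_lit 0) (nat_lit 449777545569) (nat_lit 152) (nat_lit 231682880100) (nat_lit 0) (nat_lit 231614110676) (nat_lit 164) (nat_lit 5) (nat_lit 166) (nat_lit 4) (nat_lit 164) (nat_lit 4) (nat_lit 486) (nat_lit 395) (nat_lit 139)) (XT.lf (nat_lit 0) (nat_lit 387038254900) (nat_lit 76) (nat_lit 387107063418) (nat_lit 76) (nat_lit 168943589431) (nat_lit 163) (nat_lit 4) (nat_lit 164) (nat_lit 5) (nat_lit 164) (nat_lit 4) (nat_lit 487) (nat_lit 395) (nat_lit 138))) (XT.nd (nat_lit 78) (nat_lit 0) (nat_lit 0) (XT.lf (nat_lit 0) (nat_lit 14547079185) (nat_lit 836) (nat_lit 8317466631) (nat_lit 836) (nat_lit 8317466631) (nat_lit 292) (nat_lit 3) (nat_lit 303) (nat_lit 3) (nat_lit 303) (nat_lit 5) (nat_lit 396) (nat_lit 396) (nat_lit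 228)) (XT.lf (nat_lit 76) (nat_lit 15028071319) (nat_lit 0) (nat_lit 15044651025) (nat_lit 836) (nat_lit 33837842672) (nat_lit 293) (nat_lit 5) (nat_lit 292) (nat_lit 3) (nat_lit 303) (nat_lit 5) (nat_lit 397) (nat_lit 396) (nat_lit 227)))) (XT.nd (nat_lit 156) (nat_lit 0) (nat_lit 76) (XT.nd (nat_lit 78) (nat_lit 0) (nat_lit 0) (XT.lf (nat_lit 0) (nat_lit 31653625413) (nat_lit 760) (nat_lit 16941982332) (nat_lit 836) (nat_lit 16911153854) (nat_lit 293) (nat_lit 5) (nat_lit 303) (nat_lit 5) (nat_lit 304) (nat_lit 5) (nat_lit 398) (nat_lit 396) (nat_lit 226)) (XT.lf (nat_lit 76) (nat_lit 16888863562) (nat_lit 0) (nat_lit 16934014214) (nat_lit 836) (nat_lit 33334425028) (nat_lit 294) (nat_lit 5) (nat_lit 293) (nat_lit 5) (nat_lit 304) (nat_lit 5) (nat_lit 399) (nat_lit 396) (nat_lit 225))) (XT.nd (nat_lit 78) (nat_lit 0) (nat_lit 0) (XT.lf (nat_lit 0) (nat_lit 36645904917) (nat_lit 760) (nat_lit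 16136595899) (nat_lit 836) (nat_lit 16080604645) (nat_lit 294) (nat_lit 5) (nat_lit 304) (nat_lit 5) (nat_lit 305) (nat_lit 5) (nat_lit 400) (nat_lit 396) (nat_lit 224)) (XT.lf (nat_lit 76) (nat_lit 20065844913) (nat_lit 0) (nat_lit 20134208199) (nat_lit 836) (nat_lit 30424646656) (nat_lit 295) (nat_lit 5) (nat_lit 294) (nat_lit 5) (nat_lit 305) (nat_lit 5) (nat_lit 401) (nat_lit 396) (nat_lit 223))))) (XT.nd (nat_lit 312) (nat_lit 1140) (nat_lit 0) (XT.nd (nat_lit 156) (nat_lit 0) (nat_lit 76) (XT.nd (nat_lit 78) (nat_lit 0) (nat_lit 0) (XT.lf (nat_lit 0) (nat_lit 44429653778) (nat_lit 760) (nat_lit 14048081223) (nat_lit 836) (nat_lit 13971751533) (nat_lit 295) (nat_lit 5) (nat_lit 305) (nat_lit 5) (nat_lit 306) (nat_lit 5) (nat_lit 402) (nat_lit 396) (nat_lit 222)) (XT.lf (nat_lit 76) (nat_lit 24749678855) (nat_lit 0) (nat_lit 24836695971) (nat_lit 836) (nat_lit 24743355797) (nat_lit 296) (nat_lit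 5) (nat_lit 295) (nat_lit 5) (nat_lit 306) (nat_lit 5) (nat_lit 403) (nat_lit 396) (nat_lit 221))) (XT.nd (nat_lit 78) (nat_lit 0) (nat_lit 0) (XT.lf (nat_lit 0) (nat_lit 55405658081) (nat_lit 760) (nat_lit 10485329891) (nat_lit 836) (nat_lit 10392762637) (nat_lit 296) (nat_lit 5) (nat_lit 306) (nat_lit 5) (nat_lit 307) (nat_lit 5) (nat_lit 404) (nat_lit 396) (nat_lit 220)) (XT.lf (nat_lit 76) (nat_lit 31153444453) (nat_lit 0) (nat_lit 31255243908) (nat_lit 836) (nat_lit 15882144088) (nat_lit 297) (nat_lit 5) (nat_lit 296) (nat_lit 5) (nat_lit 307) (nat_lit 5) (nat_lit 405) (nat_lit 396) (nat_lit 219)))) (XT.nd (nat_lit 156) (nat_lit 532) (nat_lit 0) (XT.nd (nat_lit 78) (nat_lit 760) (nat_lit 0) (XT.lf (nat_lit 0) (nat_lit 70021432661) (nat_lit 760) (nat_lit 5234591668) (nat_lit 76) (nat_lit 5129265928) (nat_lit 297) (nat_lit 5) (nat_lit 307) (nat_lit 5) (nat_lit 298) (nat_lit 5) (nat_lit 406)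 (nat_lit 396) (nat_lit 218)) (XT.lf (nat_lit 0) (nat_lit 39515065342) (nat_lit 760) (nat_lit 39628366204) (nat_lit 836) (nat_lit 3384608542) (nat_lit 287) (nat_lit 5) (nat_lit 297) (nat_lit 5) (nat_lit 298) (nat_lit 5) (nat_lit 407) (nat_lit 396) (nat_lit 217))) (XT.nd (nat_lit 78) (nat_lit 0) (nat_lit 0) (XT.lf (nat_lit 0) (nat_lit 1907842700) (nat_lit 456) (nat_lit 2028738916) (nat_lit 532) (nat_lit 80832307329) (nat_lit 280) (nat_lit 5) (nat_lit 286) (nat_lit 5) (nat_lit 287) (nat_lit 5) (nat_lit 408) (nat_lit 396) (nat_lit 216)) (XT.lf (nat_lit 0) (nat_lit 12834518452) (nat_lit 532) (nat_lit 37170147189) (nat_lit 76) (nat_lit 37048118725) (nat_lit 280) (nat_lit 5) (nat_lit 287) (nat_lit 5) (nat_lit 281) (nat_lit 5) (nat_lit 409) (nat_lit 396) (nat_lit 215)))))) (XT.nd (nat_lit 624) (nat_lit 1140) (nat_lit 0) (XT.nd (nat_lit 312) (nat_lit 988) (nat_lit 0) (XT.nd (nat_lit 156) (nat_lit 380) (nat_lit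 0) (XT.nd (nat_lit 78) (nat_lit 0) (nat_lit 0) (XT.lf (nat_lit 0) (nat_lit 11127558309) (nat_lit 380) (nat_lit 11256147926) (nat_lit 456) (nat_lit 67056850619) (nat_lit 275) (nat_lit 5) (nat_lit 280) (nat_lit 5) (nat_lit 281) (nat_lit 5) (nat_lit 410) (nat_lit 396) (nat_lit 214)) (XT.lf (nat_lit 0) (nat_lit 33509033225) (nat_lit 456) (nat_lit 29256084105) (nat_lit 76) (nat_lit 29127666644) (nat_lit 275) (nat_lit 5) (nat_lit 281) (nat_lit 5) (nat_lit 276) (nat_lit 5) (nat_lit 411) (nat_lit 396) (nat_lit 213))) (XT.nd (nat_lit 78) (nat_lit 0) (nat_lit 0) (XT.lf (nat_lit 0) (nat_lit 22798212944) (nat_lit 380) (nat_lit 22932298174) (nat_lit 456) (nat_lit 48710117104) (nat_lit 270) (nat_lit 5) (nat_lit 275) (nat_lit 5) (nat_lit 276) (nat_lit 5) (nat_lit 412) (nat_lit 396) (nat_lit 212)) (XT.lf (nat_lit 0) (nat_lit 59361042085) (nat_lit 456) (nat_lit 18923882347) (nat_lit 76) (nat_lit 18791041293) (nat_lit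 270) (nat_lit 5) (nat_lit 276) (nat_lit 5) (nat_lit 271) (nat_lit 5) (nat_lit 413) (nat_lit 396) (nat_lit 211)))) (XT.nd (nat_lit 156) (nat_lit 684) (nat_lit 0) (XT.nd (nat_lit 78) (nat_lit 0) (nat_lit 0) (XT.lf (nat_lit 0) (nat_lit 37246138382) (nat_lit 304) (nat_lit 37383875469) (nat_lit 380) (nat_lit 25165210538) (nat_lit 266) (nat_lit 5) (nat_lit 270) (nat_lit 5) (nat_lit 271) (nat_lit 5) (nat_lit 414) (nat_lit 396) (nat_lit 210)) (XT.lf (nat_lit 0) (nat_lit 91074488733) (nat_lit 380) (nat_lit 5845486777) (nat_lit 76) (nat_lit 5709867752) (nat_lit 266) (nat_lit 5) (nat_lit 271) (nat_lit 5) (nat_lit 267) (nat_lit 5) (nat_lit 415) (nat_lit 396) (nat_lit 209))) (XT.nd (nat_lit 78) (nat_lit 304) (nat_lit 0) (XT.lf (nat_lit 0) (nat_lit 4140006448) (nat_lit 380) (nat_lit 50764636266) (nat_lit 76) (nat_lit 50624787863) (nat_lit 261) (nat_lit 5) (nat_lit 266) (nat_lit 5) (nat_lit 262) (nat_lit 5) (nat_lit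 416) (nat_lit 396) (nat_lit 208)) (XT.lf (nat_lit 0) (nat_lit 10173441924) (nat_lit 304) (nat_lit 10317318305) (nat_lit 380) (nat_lit 88060817405) (nat_lit 257) (nat_lit 5) (nat_lit 261) (nat_lit 5) (nat_lit 262) (nat_lit 5) (nat_lit 417) (nat_lit 396) (nat_lit 207))))) (XT.nd (nat_lit 312) (nat_lit 608) (nat_lit 0) (XT.nd (nat_lit 156) (nat_lit 228) (nat_lit 0) (XT.nd (nat_lit 78) (nat_lit 304) (nat_lit 0) (XT.lf (nat_lit 0) (nat_lit 39102244752) (nat_lit 380) (nat_lit 36345553130) (nat_lit 76) (nat_lit 36204874510) (nat_lit 257) (nat_lit 5) (nat_lit 262) (nat_lit 5) (nat_lit 258) (nat_lit 5) (nat_lit 418) (nat_lit 396) (nat_lit 206)) (XT.lf (nat_lit 0) (nat_lit 29565209250) (nat_lit 304) (nat_lit 29709367389) (nat_lit 380) (nat_lit 55602731591) (nat_lit 253) (nat_lit 5) (nat_lit 257) (nat_lit 5) (nat_lit 258) (nat_lit 5) (nat_lit 419) (nat_lit 396) (nat_lit 205))) (XT.nd (nat_lit 78) (nat_lit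 228) (nat_lit 0) (XT.lf (nat_lit 0) (nat_lit 81366661022) (nat_lit 380) (nat_lit 18495703768) (nat_lit 76) (nat_lit 18355254276) (nat_lit 253) (nat_lit 5) (nat_lit 258) (nat_lit 5) (nat_lit 254) (nat_lit 5) (nat_lit 420) (nat_lit 396) (nat_lit 204)) (XT.lf (nat_lit 0) (nat_lit 52865945993) (nat_lit 228) (nat_lit 53009401225) (nat_lit 304) (nat_lit 15783998345) (nat_lit 250) (nat_lit 5) (nat_lit 253) (nat_lit 5) (nat_lit 254) (nat_lit 5) (nat_lit 421) (nat_lit 396) (nat_lit 203)))) (XT.nd (nat_lit 156) (nat_lit 228) (nat_lit 0) (XT.nd (nat_lit 78) (nat_lit 0) (nat_lit 0) (XT.lf (nat_lit 0) (nat_lit 3177372202) (nat_lit 304) (nat_lit 3323690043) (nat_lit 380) (nat_lit 118748772045) (nat_lit 245) (nat_lit 5) (nat_lit 249) (nat_lit 5) (nat_lit 250) (nat_lit 5) (nat_lit 422) (nat_lit 396) (nat_lit 202)) (XT.lf (nat_lit 0) (nat_lit 31316293408) (nat_lit 380) (nat_lit 48867622484) (nat_lit 76) (nat_lit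 48725675688) (nat_lit 245) (nat_lit 5) (nat_lit 250) (nat_lit 5) (nat_lit 246) (nat_lit 5) (nat_lit 423) (nat_lit 396) (nat_lit 201))) (XT.nd (nat_lit 78) (nat_lit 0) (nat_lit 0) (XT.lf (nat_lit 0) (nat_lit 28866322021) (nat_lit 228) (nat_lit 29010741647) (nat_lit 304) (nat_lit 74850034188) (nat_lit 242) (nat_lit 5) (nat_lit 245) (nat_lit 5) (nat_lit 246) (nat_lit 5) (nat_lit 424) (nat_lit 396) (nat_lit 200)) (XT.lf (nat_lit 0) (nat_lit 86992616313) (nat_lit 304) (nat_lit 24910655686) (nat_lit 76) (nat_lit 24770870256) (nat_lit 242) (nat_lit 5) (nat_lit 246) (nat_lit 5) (nat_lit 243) (nat_lit 5) (nat_lit 425) (nat_lit 396) (nat_lit 199))))))))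
noncomputable def xc277 : XT := (XT.nd (nat_lit 2496) (nat_lit 2128) (nat_lit 0) (XT.nd (nat_lit 1248) (nat_lit 1672) (nat_lit 0) (XT.nd (nat_lit 624) (nat_lit 912) (nat_lit 0) (XT.nd (nat_lit 312) (nat_lit 456) (nat_lit 0) (XT.nd (nat_lit 156) (nat_lit 228) (nat_lit 0) (XT.nd (nat_lit 78) (nat_lit 304) (nat_lit 0) (XT.lf (nat_lit 0) (nat_lit 59412419027) (nat_lit 228) (nat_lit 59554340579) (nat_lit 304) (nat_lit 21781638615) (nat_lit 239) (nat_lit 5) (nat_lit 242) (nat_lit 5) (nat_lit 243) (nat_lit 5) (nat_lit 426) (nat_lit 396) (nat_lit 198)) (XT.lf (nat_lit 0) (nat_lit 3808350784) (nat_lit 228) (nat_lit 3952306740) (nat_lit 304) (nat_lit 137235450066) (nat_lit 235) (nat_lit 5) (nat_lit 238) (nat_lit 5) (nat_lit 239) (nat_lit 5) (nat_lit 427) (nat_lit 396) (nat_lit 197))) (XT.nd (nat_lit 78) (nat_lit 228) (nat_lit 0) (XT.lf (nat_lit 0) (nat_lit 40297552792) (nat_lit 304) (nat_lit 54583633747)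 (nat_lit 76) (nat_lit 54444687574) (nat_lit 235) (nat_lit 5) (nat_lit 239) (nat_lit 5) (nat_lit 236) (nat_lit 5) (nat_lit 428) (nat_lit 396) (nat_lit 196)) (XT.lf (nat_lit 0) (nat_lit 37485144425) (nat_lit 228) (nat_lit 37625847992) (nat_lit 304) (nat_lit 78728651568) (nat_lit 232) (nat_lit 5) (nat_lit 235) (nat_lit 5) (nat_lit 236) (nat_lit 5) (nat_lit 429) (nat_lit 396) (nat_lit 195)))) (XT.nd (nat_lit 156) (nat_lit 304) (nat_lit 0) (XT.nd (nat_lit 78) (nat_lit 152) (nat_lit 0) (XT.lf (nat_lit 0) (nat_lit 112955490562) (nat_lit 304) (nat_lit 22847344932) (nat_lit 76) (nat_lit 22711747527) (nat_lit 232) (nat_lit 5) (nat_lit 236) (nat_lit 5) (nat_lit 233) (nat_lit 5) (nat_lit 430) (nat_lit 396) (nat_lit 194)) (XT.lf (nat_lit 0) (nat_lit 77188361447) (nat_lit 152) (nat_lit 77325476955) (nat_lit 228) (nat_lit 8818349370) (nat_lit 230) (nat_lit 5) (nat_lit 232) (nat_lit 5) (nat_lit 233) (nat_lit 5)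 (nat_lit 431) (nat_lit 396) (nat_lit 193))) (XT.nd (nat_lit 78) (nat_lit 0) (nat_lit 0) (XT.lf (nat_lit 0) (nat_lit 14644994342) (nat_lit 228) (nat_lit 14783555662) (nat_lit 304) (nat_lit 138907811011) (nat_lit 226) (nat_lit 5) (nat_lit 229) (nat_lit 5) (nat_lit 230) (nat_lit 5) (nat_lit 432) (nat_lit 396) (nat_lit 192)) (XT.lf (nat_lit 0) (nat_lit 71568396127) (nat_lit 304) (nat_lit 51017272694) (nat_lit 76) (nat_lit 50883998137) (nat_lit 226) (nat_lit 5) (nat_lit 230) (nat_lit 5) (nat_lit 227) (nat_lit 5) (nat_lit 433) (nat_lit 396) (nat_lit 191))))) (XT.nd (nat_lit 312) (nat_lit 380) (nat_lit 0) (XT.nd (nat_lit 156) (nat_lit 380) (nat_lit 0) (XT.nd (nat_lit 78) (nat_lit 0) (nat_lit 0) (XT.lf (nat_lit 0) (nat_lit 58417413368) (nat_lit 152) (nat_lit 58551936871) (nat_lit 228) (nat_lit 61832582175) (nat_lit 224) (nat_lit 5) (nat_lit 226) (nat_lit 5) (nat_lit 227) (nat_lit 5) (nat_lit 434) (nat_lit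 396) (nat_lit 190)) (XT.lf (nat_lit 0) (nat_lit 165653798386) (nat_lit 228) (nat_lit 9412795447) (nat_lit 76) (nat_lit 9283544993) (nat_lit 224) (nat_lit 5) (nat_lit 227) (nat_lit 5) (nat_lit 225) (nat_lit 5) (nat_lit 435) (nat_lit 396) (nat_lit 189))) (XT.nd (nat_lit 78) (nat_lit 152) (nat_lit 0) (XT.lf (nat_lit 0) (nat_lit 28460889648) (nat_lit 228) (nat_lit 80844330465) (nat_lit 76) (nat_lit 80714001124) (nat_lit 221) (nat_lit 5) (nat_lit 224) (nat_lit 5) (nat_lit 222) (nat_lit 5) (nat_lit 436) (nat_lit 396) (nat_lit 188)) (XT.lf (nat_lit 0) (nat_lit 38993423636) (nat_lit 152) (nat_lit 39124780489) (nat_lit 228) (nat_lit 117799701650) (nat_lit 219) (nat_lit 5) (nat_lit 221) (nat_lit 5) (nat_lit 222) (nat_lit 5) (nat_lit 437) (nat_lit 396) (nat_lit 187)))) (XT.nd (nat_lit 156) (nat_lit 228) (nat_lit 0) (XT.nd (nat_lit 78) (nat_lit 152) (nat_lit 0) (XT.lf (nat_lit 0) (nat_lit 132189344184) (nat_lit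 228) (nat_lit 34975833055) (nat_lit 76) (nat_lit 34849799307) (nat_lit 219) (nat_lit 5) (nat_lit 222) (nat_lit 5) (nat_lit 220) (nat_lit 5) (nat_lit 438) (nat_lit 396) (nat_lit 186)) (XT.lf (nat_lit 0) (nat_lit 95484514627) (nat_lit 152) (nat_lit 95611435978) (nat_lit 228) (nat_lit 17214354781) (nat_lit 217) (nat_lit 5) (nat_lit 219) (nat_lit 5) (nat_lit 220) (nat_lit 5) (nat_lit 439) (nat_lit 396) (nat_lit 185))) (XT.nd (nat_lit 78) (nat_lit 0) (nat_lit 0) (XT.lf (nat_lit 0) (nat_lit 18788866444) (nat_lit 152) (nat_lit 18916633132) (nat_lit 228) (nat_lit 177140458814) (nat_lit 214) (nat_lit 5) (nat_lit 216) (nat_lit 5) (nat_lit 217) (nat_lit 5) (nat_lit 440) (nat_lit 396) (nat_lit 184)) (XT.lf (nat_lit 0) (nat_lit 97696607636) (nat_lit 228) (nat_lit 61987468388) (nat_lit 76) (nat_lit 61865019083) (nat_lit 214) (nat_lit 5) (nat_lit 217) (nat_lit 5) (nat_lit 215) (nat_lit 5) (nat_lit 441) (nat_lit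 396) (nat_lit 183)))))) (XT.nd (nat_lit 624) (nat_lit 912) (nat_lit 0) (XT.nd (nat_lit 312) (nat_lit 304) (nat_lit 0) (XT.nd (nat_lit 156) (nat_lit 304) (nat_lit 0) (XT.nd (nat_lit 78) (nat_lit 0) (nat_lit 0) (XT.lf (nat_lit 0) (nat_lit 81069841342) (nat_lit 152) (nat_lit 81193020880) (nat_lit 228) (nat_lit 66245746883) (nat_lit 212) (nat_lit 5) (nat_lit 214) (nat_lit 5) (nat_lit 215) (nat_lit 5) (nat_lit 442) (nat_lit 396) (nat_lit 182)) (XT.lf (nat_lit 0) (nat_lit 231143272197) (nat_lit 228) (nat_lit 2368255330) (nat_lit 76) (nat_lit 2250279141) (nat_lit 212) (nat_lit 5) (nat_lit 215) (nat_lit 5) (nat_lit 213) (nat_lit 4) (nat_lit 443) (nat_lit 396) (nat_lit 181))) (XT.nd (nat_lit 78) (nat_lit 152) (nat_lit 0) (XT.lf (nat_lit 0) (nat_lit 61955865007) (nat_lit 152) (nat_lit 90652021626) (nat_lit 76) (nat_lit 90533414634) (nat_lit 210) (nat_lit 5) (nat_lit 212) (nat_lit 5) (nat_lit 211) (nat_lit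 5) (nat_lit 444) (nat_lit 396) (nat_lit 180)) (XT.lf (nat_lit 0) (nat_lit 66330350594) (nat_lit 152) (nat_lit 66449558351) (nat_lit 228) (nat_lit 118052269092) (nat_lit 208) (nat_lit 5) (nat_lit 210) (nat_lit 5) (nat_lit 211) (nat_lit 5) (nat_lit 445) (nat_lit 396) (nat_lit 179)))) (XT.nd (nat_lit 156) (nat_lit 152) (nat_lit 0) (XT.nd (nat_lit 78) (nat_lit 152) (nat_lit 0) (XT.lf (nat_lit 0) (nat_lit 209080298200) (nat_lit 228) (nat_lit 24922309698) (nat_lit 76) (nat_lit 24808233590) (nat_lit 208) (nat_lit 5) (nat_lit 211) (nat_lit 5) (nat_lit 209) (nat_lit 4) (nat_lit 446) (nat_lit 396) (nat_lit 178)) (XT.lf (nat_lit 0) (nat_lit 24730306445) (nat_lit 152) (nat_lit 121192088298) (nat_lit 76) (nat_lit 121077493227) (nat_lit 206) (nat_lit 5) (nat_lit 208) (nat_lit 5) (nat_lit 207) (nat_lit 5) (nat_lit 447) (nat_lit 396) (nat_lit 177))) (XT.nd (nat_lit 78) (nat_lit 0) (nat_lit 0) (XT.lf (nat_lit 0)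 (nat_lit 51177820077) (nat_lit 152) (nat_lit 51292909399) (nat_lit 228) (nat_lit 173025504403) (nat_lit 204) (nat_lit 5) (nat_lit 206) (nat_lit 5) (nat_lit 207) (nat_lit 5) (nat_lit 448) (nat_lit 396) (nat_lit 176)) (XT.lf (nat_lit 0) (nat_lit 186934528894) (nat_lit 228) (nat_lit 48725553803) (nat_lit 76) (nat_lit 48615496625) (nat_lit 204) (nat_lit 5) (nat_lit 207) (nat_lit 5) (nat_lit 205) (nat_lit 4) (nat_lit 449) (nat_lit 396) (nat_lit 175))))) (XT.nd (nat_lit 312) (nat_lit 532) (nat_lit 0) (XT.nd (nat_lit 156) (nat_lit 76) (nat_lit 0) (XT.nd (nat_lit 78) (nat_lit 228) (nat_lit 0) (XT.lf (nat_lit 0) (nat_lit 139262991135) (nat_lit 76) (nat_lit 139373475266) (nat_lit 152) (nat_lit 14706678228) (nat_lit 203) (nat_lit 5) (nat_lit 204) (nat_lit 5) (nat_lit 205) (nat_lit 4) (nat_lit 450) (nat_lit 396) (nat_lit 174)) (XT.lf (nat_lit 0) (nat_lit 35517607201) (nat_lit 152) (nat_lit 35628497953) (nat_lit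 228) (nat_lit 231592078390) (nat_lit 200) (nat_lit 5) (nat_lit 202) (nat_lit 5) (nat_lit 203) (nat_lit 5) (nat_lit 451) (nat_lit 396) (nat_lit 173))) (XT.nd (nat_lit 78) (nat_lit 76) (nat_lit 0) (XT.lf (nat_lit 0) (nat_lit 164593760007) (nat_lit 228) (nat_lit 73956657572) (nat_lit 76) (nat_lit 73850678515) (nat_lit 200) (nat_lit 5) (nat_lit 203) (nat_lit 5) (nat_lit 201) (nat_lit 4) (nat_lit 452) (nat_lit 396) (nat_lit 172)) (XT.lf (nat_lit 0) (nat_lit 132631045065) (nat_lit 76) (nat_lit 132737375377) (nat_lit 152) (nat_lit 57046002687) (nat_lit 199) (nat_lit 5) (nat_lit 200) (nat_lit 5) (nat_lit 201) (nat_lit 4) (nat_lit 453) (nat_lit 396) (nat_lit 171)))) (XT.nd (nat_lit 156) (nat_lit 304) (nat_lit 0) (XT.nd (nat_lit 78) (nat_lit 0) (nat_lit 0) (XT.lf (nat_lit 0) (nat_lit 19247864914) (nat_lit 152) (nat_lit 19354529755) (nat_lit 228) (nat_lit 294217492466) (nat_lit 196) (nat_lit 5) (nat_lit 198)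 (nat_lit 5) (nat_lit 199) (nat_lit 5) (nat_lit 454) (nat_lit 396) (nat_lit 170)) (XT.lf (nat_lit 0) (nat_lit 141939220320) (nat_lit 228) (nat_lit 100810188791) (nat_lit 76) (nat_lit 100708299802) (nat_lit 196) (nat_lit 5) (nat_lit 199) (nat_lit 5) (nat_lit 197) (nat_lit 4) (nat_lit 455) (nat_lit 396) (nat_lit 169))) (XT.nd (nat_lit 78) (nat_lit 228) (nat_lit 0) (XT.lf (nat_lit 0) (nat_lit 126314972449) (nat_lit 76) (nat_lit 126417150416) (nat_lit 152) (nat_lit 101780837134) (nat_lit 195) (nat_lit 5) (nat_lit 196) (nat_lit 5) (nat_lit 197) (nat_lit 4) (nat_lit 456) (nat_lit 396) (nat_lit 168)) (XT.lf (nat_lit 0) (nat_lit 2258683369) (nat_lit 152) (nat_lit 2361136554) (nat_lit 228) (nat_lit 361410338762) (nat_lit 192) (nat_lit 5) (nat_lit 194) (nat_lit 5) (nat_lit 195) (nat_lit 5) (nat_lit 457) (nat_lit 396) (nat_lit 167))))))) (XT.nd (nat_lit 1248) (nat_lit 1064) (nat_lit 0) (XT.nd (nat_lit 624)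 (nat_lit 532) (nat_lit 0) (XT.nd (nat_lit 312) (nat_lit 304) (nat_lit 0) (XT.nd (nat_lit 156) (nat_lit 152) (nat_lit 0) (XT.nd (nat_lit 78) (nat_lit 76) (nat_lit 0) (XT.lf (nat_lit 0) (nat_lit 118844664471) (nat_lit 228) (nat_lit 129498358551) (nat_lit 76) (nat_lit 129400534459) (nat_lit 192) (nat_lit 5) (nat_lit 195) (nat_lit 5) (nat_lit 193) (nat_lit 4) (nat_lit 458) (nat_lit 396) (nat_lit 166)) (XT.lf (nat_lit 0) (nat_lit 120299719903) (nat_lit 76) (nat_lit 120397781738) (nat_lit 152) (nat_lit 149249287058) (nat_lit 191) (nat_lit 5) (nat_lit 192) (nat_lit 5) (nat_lit 193) (nat_lit 4) (nat_lit 459) (nat_lit 396) (nat_lit 165))) (XT.nd (nat_lit 78) (nat_lit 152) (nat_lit 0) (XT.lf (nat_lit 0) (nat_lit 371089595174) (nat_lit 152) (nat_lit 15820931720) (nat_lit 0) (nat_lit 15727323856) (nat_lit 191) (nat_lit 5) (nat_lit 193) (nat_lit 4) (nat_lit 191) (nat_lit 4) (nat_lit 460) (nat_lit 396) (nat_lit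 164)) (XT.lf (nat_lit 0) (nat_lit 95175383786) (nat_lit 152) (nat_lit 160252939928) (nat_lit 76) (nat_lit 160159126692) (nat_lit 189) (nat_lit 5) (nat_lit 191) (nat_lit 5) (nat_lit 190) (nat_lit 4) (nat_lit 461) (nat_lit 396) (nat_lit 163)))) (XT.nd (nat_lit 156) (nat_lit 228) (nat_lit 0) (XT.nd (nat_lit 78) (nat_lit 0) (nat_lit 0) (XT.lf (nat_lit 0) (nat_lit 114570952963) (nat_lit 76) (nat_lit 114664961790) (nat_lit 152) (nat_lit 199819709170) (nat_lit 188) (nat_lit 5) (nat_lit 189) (nat_lit 5) (nat_lit 190) (nat_lit 4) (nat_lit 462) (nat_lit 396) (nat_lit 162)) (XT.lf (nat_lit 0) (nat_lit 373275116543) (nat_lit 152) (nat_lit 34924008491) (nat_lit 0) (nat_lit 34834298867) (nat_lit 188) (nat_lit 5) (nat_lit 190) (nat_lit 4) (nat_lit 188) (nat_lit 4) (nat_lit 463) (nat_lit 396) (nat_lit 161))) (XT.nd (nat_lit 78) (nat_lit 76) (nat_lit 0) (XT.lf (nat_lit 0) (nat_lit 70787126188) (nat_lit 152) (nat_lit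 193327377948) (nat_lit 76) (nat_lit 193237499365) (nat_lit 186) (nat_lit 5) (nat_lit 188) (nat_lit 5) (nat_lit 187) (nat_lit 4) (nat_lit 464) (nat_lit 396) (nat_lit 160)) (XT.lf (nat_lit 0) (nat_lit 109115021477) (nat_lit 76) (nat_lit 109205060974) (nat_lit 152) (nat_lit 253894021309) (nat_lit 185) (nat_lit 5) (nat_lit 186) (nat_lit 5) (nat_lit 187) (nat_lit 4) (nat_lit 465) (nat_lit 396) (nat_lit 159))))) (XT.nd (nat_lit 312) (nat_lit 304) (nat_lit 0) (XT.nd (nat_lit 156) (nat_lit 76) (nat_lit 0) (XT.nd (nat_lit 78) (nat_lit 152) (nat_lit 0) (XT.lf (nat_lit 0) (nat_lit 377391800742) (nat_lit 152) (nat_lit 55152650217) (nat_lit 0) (nat_lit 55066752361) (nat_lit 185) (nat_lit 5) (nat_lit 187) (nat_lit 4) (nat_lit 185) (nat_lit 4) (nat_lit 466) (nat_lit 396) (nat_lit 158)) (XT.lf (nat_lit 0) (nat_lit 45524915440) (nat_lit 152) (nat_lit 228999110732) (nat_lit 76) (nat_lit 228913073873) (nat_lit 183)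 (nat_lit 5) (nat_lit 185) (nat_lit 5) (nat_lit 184) (nat_lit 4) (nat_lit 467) (nat_lit 396) (nat_lit 157))) (XT.nd (nat_lit 78) (nat_lit 0) (nat_lit 0) (XT.lf (nat_lit 0) (nat_lit 103918926716) (nat_lit 76) (nat_lit 104005095959) (nat_lit 152) (nat_lit 311911341757) (nat_lit 182) (nat_lit 5) (nat_lit 183) (nat_lit 5) (nat_lit 184) (nat_lit 4) (nat_lit 468) (nat_lit 396) (nat_lit 156)) (XT.lf (nat_lit 0) (nat_lit 383556308350) (nat_lit 152) (nat_lit 76661879278) (nat_lit 0) (nat_lit 76579693256) (nat_lit 182) (nat_lit 5) (nat_lit 184) (nat_lit 4) (nat_lit 182) (nat_lit 4) (nat_lit 469) (nat_lit 396) (nat_lit 155)))) (XT.nd (nat_lit 156) (nat_lit 76) (nat_lit 0) (XT.nd (nat_lit 78) (nat_lit 76) (nat_lit 0) (XT.lf (nat_lit 0) (nat_lit 19221758898) (nat_lit 152) (nat_lit 267572123709) (nat_lit 76) (nat_lit 267489823329) (nat_lit 180) (nat_lit 5) (nat_lit 182) (nat_lit 5) (nat_lit 181) (nat_lit 4) (nat_lit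 470) (nat_lit 396) (nat_lit 154)) (XT.lf (nat_lit 0) (nat_lit 98970290101) (nat_lit 76) (nat_lit 99052699394) (nat_lit 152) (nat_lit 374351992185) (nat_lit 179) (nat_lit 5) (nat_lit 180) (nat_lit 5) (nat_lit 181) (nat_lit 4) (nat_lit 471) (nat_lit 396) (nat_lit 153))) (XT.nd (nat_lit 78) (nat_lit 76) (nat_lit 0) (XT.lf (nat_lit 0) (nat_lit 391901126689) (nat_lit 152) (nat_lit 99620718049) (nat_lit 0) (nat_lit 99542134220) (nat_lit 179) (nat_lit 5) (nat_lit 181) (nat_lit 4) (nat_lit 179) (nat_lit 4) (nat_lit 472) (nat_lit 396) (nat_lit 152)) (XT.lf (nat_lit 0) (nat_lit 300857703700) (nat_lit 76) (nat_lit 300936381611) (nat_lit 76) (nat_lit 8577295060) (nat_lit 178) (nat_lit 4) (nat_lit 179) (nat_lit 5) (nat_lit 179) (nat_lit 4) (nat_lit 473) (nat_lit 396) (nat_lit 151)))))) (XT.nd (nat_lit 624) (nat_lit 456) (nat_lit 0) (XT.nd (nat_lit 312) (nat_lit 228) (nat_lit 0) (XT.nd (nat_lit 156) (nat_lit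 228) (nat_lit 0) (XT.nd (nat_lit 78) (nat_lit 0) (nat_lit 0) (XT.lf (nat_lit 0) (nat_lit 94257323467) (nat_lit 76) (nat_lit 94336090982) (nat_lit 152) (nat_lit 441741901922) (nat_lit 176) (nat_lit 5) (nat_lit 177) (nat_lit 5) (nat_lit 178) (nat_lit 4) (nat_lit 474) (nat_lit 396) (nat_lit 150)) (XT.lf (nat_lit 0) (nat_lit 402576008112) (nat_lit 152) (nat_lit 124213714170) (nat_lit 0) (nat_lit 124138616217) (nat_lit 176) (nat_lit 5) (nat_lit 178) (nat_lit 4) (nat_lit 176) (nat_lit 4) (nat_lit 475) (nat_lit 396) (nat_lit 149))) (XT.nd (nat_lit 78) (nat_lit 152) (nat_lit 0) (XT.lf (nat_lit 0) (nat_lit 316837825202) (nat_lit 76) (nat_lit 316913000557) (nat_lit 76) (nat_lit 38475531259) (nat_lit 175) (nat_lit 4) (nat_lit 176) (nat_lit 5) (nat_lit 176) (nat_lit 4) (nat_lit 476) (nat_lit 396) (nat_lit 148)) (XT.lf (nat_lit 0) (nat_lit 89768800779) (nat_lit 76) (nat_lit 89844049851) (nat_lit 152) (nat_lit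 514657455103) (nat_lit 173) (nat_lit 5) (nat_lit 174) (nat_lit 5) (nat_lit 175) (nat_lit 4) (nat_lit 477) (nat_lit 396) (nat_lit 147)))) (XT.nd (nat_lit 156) (nat_lit 152) (nat_lit 0) (XT.nd (nat_lit 78) (nat_lit 76) (nat_lit 0) (XT.lf (nat_lit 0) (nat_lit 415749564429) (nat_lit 152) (nat_lit 150642617816) (nat_lit 0) (nat_lit 150570885171) (nat_lit 173) (nat_lit 5) (nat_lit 175) (nat_lit 4) (nat_lit 173) (nat_lit 4) (nat_lit 478) (nat_lit 396) (nat_lit 146)) (XT.lf (nat_lit 0) (nat_lit 335163446242) (nat_lit 76) (nat_lit 335235242566) (nat_lit 76) (nat_lit 70056499629) (nat_lit 172) (nat_lit 4) (nat_lit 173) (nat_lit 5) (nat_lit 173) (nat_lit 4) (nat_lit 479) (nat_lit 396) (nat_lit 145))) (XT.nd (nat_lit 78) (nat_lit 0) (nat_lit 0) (XT.lf (nat_lit 0) (nat_lit 85494031223) (nat_lit 76) (nat_lit 85565888194) (nat_lit 152) (nat_lit 593730826498) (nat_lit 170) (nat_lit 5) (nat_lit 171) (nat_lit 5)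 (nat_lit 172) (nat_lit 4) (nat_lit 480) (nat_lit 396) (nat_lit 144)) (XT.lf (nat_lit 0) (nat_lit 431611033050) (nat_lit 152) (nat_lit 179128226753) (nat_lit 0) (nat_lit 179059736534) (nat_lit 170) (nat_lit 5) (nat_lit 172) (nat_lit 4) (nat_lit 170) (nat_lit 4) (nat_lit 481) (nat_lit 396) (nat_lit 143))))) (XT.nd (nat_lit 312) (nat_lit 152) (nat_lit 0) (XT.nd (nat_lit 156) (nat_lit 76) (nat_lit 0) (XT.nd (nat_lit 78) (nat_lit 152) (nat_lit 0) (XT.lf (nat_lit 0) (nat_lit 356041284179) (nat_lit 76) (nat_lit 356109826787) (nat_lit 76) (nat_lit 103558477882) (nat_lit 169) (nat_lit 4) (nat_lit 170) (nat_lit 5) (nat_lit 170) (nat_lit 4) (nat_lit 482) (nat_lit 396) (nat_lit 142)) (XT.lf (nat_lit 0) (nat_lit 81422833603) (nat_lit 76) (nat_lit 81491426105) (nat_lit 152) (nat_lit 679655856473) (nat_lit 167) (nat_lit 5) (nat_lit 168) (nat_lit 5) (nat_lit 169) (nat_lit 4) (nat_lit 483) (nat_lit 396) (nat_lit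 141))) (XT.nd (nat_lit 78) (nat_lit 76) (nat_lit 0) (XT.lf (nat_lit 0) (nat_lit 450372232094) (nat_lit 152) (nat_lit 209912416572) (nat_lit 0) (nat_lit 209847045124) (nat_lit 167) (nat_lit 5) (nat_lit 169) (nat_lit 4) (nat_lit 167) (nat_lit 4) (nat_lit 484) (nat_lit 396) (nat_lit 140)) (XT.lf (nat_lit 0) (nat_lit 379700850219) (nat_lit 76) (nat_lit 379766264768) (nat_lit 76) (nat_lit 139241034698) (nat_lit 166) (nat_lit 4) (nat_lit 167) (nat_lit 5) (nat_lit 167) (nat_lit 4) (nat_lit 485) (nat_lit 396) (nat_lit 139)))) (XT.nd (nat_lit 46254) (nat_lit 0) (nat_lit 9728) (XT.nd (nat_lit 46176) (nat_lit 0) (nat_lit 9728) (XT.lf (nat_lit 0) (nat_lit 77545511982) (nat_lit 76) (nat_lit 77610967578) (nat_lit 152) (nat_lit 773194520725) (nat_lit 164) (nat_lit 5) (nat_lit 165) (nat_lit 5) (nat_lit 166) (nat_lit 4) (nat_lit 486) (nat_lit 396) (nat_lit 138)) (XT.lf (nat_lit 0) (nat_lit 15290753994) (nat_lit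 836) (nat_lit 8724771516) (nat_lit 836) (nat_lit 8724771516) (nat_lit 292) (nat_lit 3) (nat_lit 303) (nat_lit 3) (nat_lit 303) (nat_lit 5) (nat_lit 397) (nat_lit 397) (nat_lit 226))) (XT.nd (nat_lit 78) (nat_lit 0) (nat_lit 76) (XT.lf (nat_lit 76) (nat_lit 15796335376) (nat_lit 0) (nat_lit 15811373659) (nat_lit 836) (nat_lit 35496816703) (nat_lit 293) (nat_lit 5) (nat_lit 292) (nat_lit 3) (nat_lit 303) (nat_lit 5) (nat_lit 398) (nat_lit 397) (nat_lit 225)) (XT.lf (nat_lit 0) (nat_lit 33265948915) (nat_lit 760) (nat_lit 17771315496) (nat_lit 836) (nat_lit 17743353157) (nat_lit 293) (nat_lit 5) (nat_lit 303) (nat_lit 5) (nat_lit 304) (nat_lit 5) (nat_lit 399) (nat_lit 397) (nat_lit 224))))))))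
noncomputable def xc278 : XT := (XT.nd (nat_lit 1248) (nat_lit 2584) (nat_lit 0) (XT.nd (nat_lit 624) (nat_lit 2052) (nat_lit 0) (XT.nd (nat_lit 312) (nat_lit 0) (nat_lit 152) (XT.nd (nat_lit 156) (nat_lit 0) (nat_lit 76) (XT.nd (nat_lit 78) (nat_lit 0) (nat_lit 76) (XT.lf (nat_lit 76) (nat_lit 17750786146) (nat_lit 0) (nat_lit 17791739118) (nat_lit 836) (nat_lit 34971217501) (nat_lit 294) (nat_lit 5) (nat_lit 293) (nat_lit 5) (nat_lit 304) (nat_lit 5) (nat_lit 400) (nat_lit 397) (nat_lit 223)) (XT.lf (nat_lit 0) (nat_lit 38505182525) (nat_lit 760) (nat_lit 16925257405) (nat_lit 836) (nat_lit 16874471687) (nat_lit 294) (nat_lit 5) (nat_lit 304) (nat_lit 5) (nat_lit 305) (nat_lit 5) (nat_lit 401) (nat_lit 397) (nat_lit 222))) (XT.nd (nat_lit 78) (nat_lit 0) (nat_lit 76) (XT.lf (nat_lit 76) (nat_lit 21087012411) (nat_lit 0) (nat_lit 21149019926) (nat_lit 836) (nat_lit 31918603589) (nat_lit 295) (nat_lit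 5) (nat_lit 294) (nat_lit 5) (nat_lit 305) (nat_lit 5) (nat_lit 402) (nat_lit 397) (nat_lit 221)) (XT.lf (nat_lit 0) (nat_lit 46675755597) (nat_lit 760) (nat_lit 14732103793) (nat_lit 836) (nat_lit 14662870515) (nat_lit 295) (nat_lit 5) (nat_lit 305) (nat_lit 5) (nat_lit 306) (nat_lit 5) (nat_lit 403) (nat_lit 397) (nat_lit 220)))) (XT.nd (nat_lit 156) (nat_lit 0) (nat_lit 76) (XT.nd (nat_lit 78) (nat_lit 0) (nat_lit 76) (XT.lf (nat_lit 76) (nat_lit 26005247813) (nat_lit 0) (nat_lit 26084174902) (nat_lit 836) (nat_lit 25955607981) (nat_lit 296) (nat_lit 5) (nat_lit 295) (nat_lit 5) (nat_lit 306) (nat_lit 5) (nat_lit 404) (nat_lit 397) (nat_lit 219)) (XT.lf (nat_lit 0) (nat_lit 58198456249) (nat_lit 760) (nat_lit 10991158677) (nat_lit 836) (nat_lit 10907197449) (nat_lit 296) (nat_lit 5) (nat_lit 306) (nat_lit 5) (nat_lit 307) (nat_lit 5) (nat_lit 405) (nat_lit 397) (nat_lit 218))) (XT.nd (nat_lit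 78) (nat_lit 0) (nat_lit 76) (XT.lf (nat_lit 76) (nat_lit 32729257002) (nat_lit 0) (nat_lit 32821592108) (nat_lit 836) (nat_lit 16653438646) (nat_lit 297) (nat_lit 5) (nat_lit 296) (nat_lit 5) (nat_lit 307) (nat_lit 5) (nat_lit 406) (nat_lit 397) (nat_lit 217)) (XT.lf (nat_lit 0) (nat_lit 73543142715) (nat_lit 760) (nat_lit 5477956842) (nat_lit 76) (nat_lit 5382423292) (nat_lit 297) (nat_lit 5) (nat_lit 307) (nat_lit 5) (nat_lit 298) (nat_lit 5) (nat_lit 407) (nat_lit 397) (nat_lit 216))))) (XT.nd (nat_lit 312) (nat_lit 684) (nat_lit 0) (XT.nd (nat_lit 156) (nat_lit 380) (nat_lit 0) (XT.nd (nat_lit 78) (nat_lit 532) (nat_lit 0) (XT.lf (nat_lit 0) (nat_lit 41508886818) (nat_lit 760) (nat_lit 41611654039) (nat_lit 836) (nat_lit 3532904347) (nat_lit 287) (nat_lit 5) (nat_lit 297) (nat_lit 5) (nat_lit 298) (nat_lit 5) (nat_lit 408) (nat_lit 397) (nat_lit 215)) (XT.lf (nat_lit 0) (nat_lit 2021670853)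 (nat_lit 456) (nat_lit 2131327285) (nat_lit 532) (nat_lit 84853355883) (nat_lit 280) (nat_lit 5) (nat_lit 286) (nat_lit 5) (nat_lit 287) (nat_lit 5) (nat_lit 409) (nat_lit 397) (nat_lit 214))) (XT.nd (nat_lit 78) (nat_lit 380) (nat_lit 0) (XT.lf (nat_lit 0) (nat_lit 13494881959) (nat_lit 532) (nat_lit 39010146580) (nat_lit 76) (nat_lit 38899463166) (nat_lit 280) (nat_lit 5) (nat_lit 287) (nat_lit 5) (nat_lit 281) (nat_lit 5) (nat_lit 410) (nat_lit 397) (nat_lit 213)) (XT.lf (nat_lit 0) (nat_lit 11702145677) (nat_lit 380) (nat_lit 11818780250) (nat_lit 456) (nat_lit 70390757049) (nat_lit 275) (nat_lit 5) (nat_lit 280) (nat_lit 5) (nat_lit 281) (nat_lit 5) (nat_lit 411) (nat_lit 397) (nat_lit 212)))) (XT.nd (nat_lit 156) (nat_lit 304) (nat_lit 0) (XT.nd (nat_lit 78) (nat_lit 380) (nat_lit 0) (XT.lf (nat_lit 0) (nat_lit 35201663090) (nat_lit 456) (nat_lit 30700689797) (nat_lit 76) (nat_lit 30584211375)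 (nat_lit 275) (nat_lit 5) (nat_lit 281) (nat_lit 5) (nat_lit 276) (nat_lit 5) (nat_lit 412) (nat_lit 397) (nat_lit 211)) (XT.lf (nat_lit 0) (nat_lit 23956028579) (nat_lit 380) (nat_lit 24077647836) (nat_lit 456) (nat_lit 51128151231) (nat_lit 270) (nat_lit 5) (nat_lit 275) (nat_lit 5) (nat_lit 276) (nat_lit 5) (nat_lit 413) (nat_lit 397) (nat_lit 210))) (XT.nd (nat_lit 78) (nat_lit 304) (nat_lit 0) (XT.lf (nat_lit 0) (nat_lit 62344960375) (nat_lit 456) (nat_lit 19852250539) (nat_lit 76) (nat_lit 19731759787) (nat_lit 270) (nat_lit 5) (nat_lit 276) (nat_lit 5) (nat_lit 271) (nat_lit 5) (nat_lit 414) (nat_lit 397) (nat_lit 209)) (XT.lf (nat_lit 0) (nat_lit 39125983711) (nat_lit 304) (nat_lit 39250915310) (nat_lit 380) (nat_lit 26407317364) (nat_lit 266) (nat_lit 5) (nat_lit 270) (nat_lit 5) (nat_lit 271) (nat_lit 5) (nat_lit 415) (nat_lit 397) (nat_lit 208)))))) (XT.nd (nat_lit 624) (nat_lit 988)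 (nat_lit 0) (XT.nd (nat_lit 312) (nat_lit 912) (nat_lit 0) (XT.nd (nat_lit 156) (nat_lit 304) (nat_lit 0) (XT.nd (nat_lit 78) (nat_lit 380) (nat_lit 0) (XT.lf (nat_lit 0) (nat_lit 95642897080) (nat_lit 380) (nat_lit 6120357301) (nat_lit 76) (nat_lit 5997346848) (nat_lit 266) (nat_lit 5) (nat_lit 271) (nat_lit 5) (nat_lit 267) (nat_lit 5) (nat_lit 416) (nat_lit 397) (nat_lit 207)) (XT.lf (nat_lit 0) (nat_lit 4361492426) (nat_lit 380) (nat_lit 53285266010) (nat_lit 76) (nat_lit 53158419387) (nat_lit 261) (nat_lit 5) (nat_lit 266) (nat_lit 5) (nat_lit 262) (nat_lit 5) (nat_lit 417) (nat_lit 397) (nat_lit 206))) (XT.nd (nat_lit 78) (nat_lit 0) (nat_lit 0) (XT.lf (nat_lit 0) (nat_lit 10699432185) (nat_lit 304) (nat_lit 10829932304) (nat_lit 380) (nat_lit 92449088715) (nat_lit 257) (nat_lit 5) (nat_lit 261) (nat_lit 5) (nat_lit 262) (nat_lit 5) (nat_lit 418) (nat_lit 397) (nat_lit 205)) (XT.lf (nat_lit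 0) (nat_lit 41070801770) (nat_lit 380) (nat_lit 38145715829) (nat_lit 76) (nat_lit 38018116174) (nat_lit 257) (nat_lit 5) (nat_lit 262) (nat_lit 5) (nat_lit 258) (nat_lit 5) (nat_lit 419) (nat_lit 397) (nat_lit 204)))) (XT.nd (nat_lit 156) (nat_lit 608) (nat_lit 0) (XT.nd (nat_lit 78) (nat_lit 0) (nat_lit 0) (XT.lf (nat_lit 0) (nat_lit 31060308622) (nat_lit 304) (nat_lit 31191064304) (nat_lit 380) (nat_lit 58369147342) (nat_lit 253) (nat_lit 5) (nat_lit 257) (nat_lit 5) (nat_lit 258) (nat_lit 5) (nat_lit 420) (nat_lit 397) (nat_lit 203)) (XT.lf (nat_lit 0) (nat_lit 85447495348) (nat_lit 380) (nat_lit 19403885719) (nat_lit 76) (nat_lit 19276493889) (nat_lit 253) (nat_lit 5) (nat_lit 258) (nat_lit 5) (nat_lit 254) (nat_lit 5) (nat_lit 421) (nat_lit 397) (nat_lit 202))) (XT.nd (nat_lit 78) (nat_lit 380) (nat_lit 0) (XT.lf (nat_lit 0) (nat_lit 55525578736) (nat_lit 228) (nat_lit 55655696861) (nat_lit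 304) (nat_lit 16560429194) (nat_lit 250) (nat_lit 5) (nat_lit 253) (nat_lit 5) (nat_lit 254) (nat_lit 5) (nat_lit 422) (nat_lit 397) (nat_lit 201)) (XT.lf (nat_lit 0) (nat_lit 3352714879) (nat_lit 304) (nat_lit 3485429475) (nat_lit 380) (nat_lit 124673580201) (nat_lit 245) (nat_lit 5) (nat_lit 249) (nat_lit 5) (nat_lit 250) (nat_lit 5) (nat_lit 423) (nat_lit 397) (nat_lit 200))))) (XT.nd (nat_lit 312) (nat_lit 532) (nat_lit 0) (XT.nd (nat_lit 156) (nat_lit 228) (nat_lit 0) (XT.nd (nat_lit 78) (nat_lit 228) (nat_lit 0) (XT.lf (nat_lit 0) (nat_lit 32893630360) (nat_lit 380) (nat_lit 51294807307) (nat_lit 76) (nat_lit 51166057378) (nat_lit 245) (nat_lit 5) (nat_lit 250) (nat_lit 5) (nat_lit 246) (nat_lit 5) (nat_lit 424) (nat_lit 397) (nat_lit 199)) (XT.lf (nat_lit 0) (nat_lit 30325573193) (nat_lit 228) (nat_lit 30456566051) (nat_lit 304) (nat_lit 78580752385) (nat_lit 242) (nat_lit 5) (nat_lit 245)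 (nat_lit 5) (nat_lit 246) (nat_lit 5) (nat_lit 425) (nat_lit 397) (nat_lit 198))) (XT.nd (nat_lit 78) (nat_lit 228) (nat_lit 0) (XT.lf (nat_lit 0) (nat_lit 91353005196) (nat_lit 304) (nat_lit 26140547886) (nat_lit 76) (nat_lit 26013758381) (nat_lit 242) (nat_lit 5) (nat_lit 246) (nat_lit 5) (nat_lit 243) (nat_lit 5) (nat_lit 426) (nat_lit 397) (nat_lit 197)) (XT.lf (nat_lit 0) (nat_lit 62398428294) (nat_lit 228) (nat_lit 62527155326) (nat_lit 304) (nat_lit 22859710211) (nat_lit 239) (nat_lit 5) (nat_lit 242) (nat_lit 5) (nat_lit 243) (nat_lit 5) (nat_lit 427) (nat_lit 397) (nat_lit 196)))) (XT.nd (nat_lit 156) (nat_lit 228) (nat_lit 0) (XT.nd (nat_lit 78) (nat_lit 0) (nat_lit 0) (XT.lf (nat_lit 0) (nat_lit 4014255156) (nat_lit 228) (nat_lit 4144827451) (nat_lit 304) (nat_lit 144086310751) (nat_lit 235) (nat_lit 5) (nat_lit 238) (nat_lit 5) (nat_lit 239) (nat_lit 5) (nat_lit 428) (nat_lit 397) (nat_lit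 195)) (XT.lf (nat_lit 0) (nat_lit 42322403526) (nat_lit 304) (nat_lit 57297646957) (nat_lit 76) (nat_lit 57171618681) (nat_lit 235) (nat_lit 5) (nat_lit 239) (nat_lit 5) (nat_lit 236) (nat_lit 5) (nat_lit 429) (nat_lit 397) (nat_lit 194))) (XT.nd (nat_lit 78) (nat_lit 0) (nat_lit 0) (XT.lf (nat_lit 0) (nat_lit 39374325471) (nat_lit 228) (nat_lit 39501947754) (nat_lit 304) (nat_lit 82654866399) (nat_lit 232) (nat_lit 5) (nat_lit 235) (nat_lit 5) (nat_lit 236) (nat_lit 5) (nat_lit 430) (nat_lit 397) (nat_lit 193)) (XT.lf (nat_lit 0) (nat_lit 118612610100) (nat_lit 304) (nat_lit 23975112834) (nat_lit 76) (nat_lit 23852121990) (nat_lit 232) (nat_lit 5) (nat_lit 236) (nat_lit 5) (nat_lit 233) (nat_lit 5) (nat_lit 431) (nat_lit 397) (nat_lit 192)))))))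
noncomputable def xc279 : XT := (XT.nd (nat_lit 1248) (nat_lit 1520) (nat_lit 0) (XT.nd (nat_lit 624) (nat_lit 836) (nat_lit 0) (XT.nd (nat_lit 312) (nat_lit 380) (nat_lit 0) (XT.nd (nat_lit 156) (nat_lit 152) (nat_lit 0) (XT.nd (nat_lit 78) (nat_lit 304) (nat_lit 0) (XT.lf (nat_lit 0) (nat_lit 81062143392) (nat_lit 152) (nat_lit 81186511200) (nat_lit 228) (nat_lit 9249686356) (nat_lit 230) (nat_lit 5) (nat_lit 232) (nat_lit 5) (nat_lit 233) (nat_lit 5) (nat_lit 432) (nat_lit 397) (nat_lit 191)) (XT.lf (nat_lit 0) (nat_lit 15391677945) (nat_lit 228) (nat_lit 15517357147) (nat_lit 304) (nat_lit 145843691094) (nat_lit 226) (nat_lit 5) (nat_lit 229) (nat_lit 5) (nat_lit 230) (nat_lit 5) (nat_lit 433) (nat_lit 397) (nat_lit 190))) (XT.nd (nat_lit 78) (nat_lit 152) (nat_lit 0) (XT.lf (nat_lit 0) (nat_lit 75155522151) (nat_lit 304) (nat_lit 53554038398) (nat_lit 76) (nat_lit 53433154447) (nat_lit 226)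 (nat_lit 5) (nat_lit 230) (nat_lit 5) (nat_lit 227) (nat_lit 5) (nat_lit 434) (nat_lit 397) (nat_lit 189)) (XT.lf (nat_lit 0) (nat_lit 61352154580) (nat_lit 152) (nat_lit 61474171363) (nat_lit 228) (nat_lit 64915277681) (nat_lit 224) (nat_lit 5) (nat_lit 226) (nat_lit 5) (nat_lit 227) (nat_lit 5) (nat_lit 435) (nat_lit 397) (nat_lit 188)))) (XT.nd (nat_lit 156) (nat_lit 152) (nat_lit 0) (XT.nd (nat_lit 78) (nat_lit 228) (nat_lit 0) (XT.lf (nat_lit 0) (nat_lit 173944671081) (nat_lit 228) (nat_lit 9869899760) (nat_lit 76) (nat_lit 9752665788) (nat_lit 224) (nat_lit 5) (nat_lit 227) (nat_lit 5) (nat_lit 225) (nat_lit 5) (nat_lit 436) (nat_lit 397) (nat_lit 187)) (XT.lf (nat_lit 0) (nat_lit 29892066333) (nat_lit 228) (nat_lit 84872960955) (nat_lit 76) (nat_lit 84754748401) (nat_lit 221) (nat_lit 5) (nat_lit 224) (nat_lit 5) (nat_lit 222) (nat_lit 5) (nat_lit 437) (nat_lit 397) (nat_lit 186))) (XT.nd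 (nat_lit 78) (nat_lit 0) (nat_lit 0) (XT.lf (nat_lit 0) (nat_lit 40956461721) (nat_lit 152) (nat_lit 41075606259) (nat_lit 228) (nat_lit 123681335400) (nat_lit 219) (nat_lit 5) (nat_lit 221) (nat_lit 5) (nat_lit 222) (nat_lit 5) (nat_lit 438) (nat_lit 397) (nat_lit 185)) (XT.lf (nat_lit 0) (nat_lit 138806466789) (nat_lit 228) (nat_lit 36711596069) (nat_lit 76) (nat_lit 36597279745) (nat_lit 219) (nat_lit 5) (nat_lit 222) (nat_lit 5) (nat_lit 220) (nat_lit 5) (nat_lit 439) (nat_lit 397) (nat_lit 184))))) (XT.nd (nat_lit 312) (nat_lit 304) (nat_lit 0) (XT.nd (nat_lit 156) (nat_lit 152) (nat_lit 0) (XT.nd (nat_lit 78) (nat_lit 228) (nat_lit 0) (XT.lf (nat_lit 0) (nat_lit 100271558857) (nat_lit 152) (nat_lit 100386680264) (nat_lit 228) (nat_lit 18067206985) (nat_lit 217) (nat_lit 5) (nat_lit 219) (nat_lit 5) (nat_lit 220) (nat_lit 5) (nat_lit 440) (nat_lit 397) (nat_lit 183)) (XT.lf (nat_lit 0) (nat_lit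 19741169201) (nat_lit 152) (nat_lit 19857057353) (nat_lit 228) (nat_lit 185989657156) (nat_lit 214) (nat_lit 5) (nat_lit 216) (nat_lit 5) (nat_lit 217) (nat_lit 5) (nat_lit 441) (nat_lit 397) (nat_lit 182))) (XT.nd (nat_lit 78) (nat_lit 152) (nat_lit 0) (XT.lf (nat_lit 0) (nat_lit 102588615565) (nat_lit 228) (nat_lit 65074320275) (nat_lit 76) (nat_lit 64963255146) (nat_lit 214) (nat_lit 5) (nat_lit 217) (nat_lit 5) (nat_lit 215) (nat_lit 5) (nat_lit 442) (nat_lit 397) (nat_lit 181)) (XT.lf (nat_lit 0) (nat_lit 85135652981) (nat_lit 152) (nat_lit 85247380453) (nat_lit 228) (nat_lit 69550654720) (nat_lit 212) (nat_lit 5) (nat_lit 214) (nat_lit 5) (nat_lit 215) (nat_lit 5) (nat_lit 443) (nat_lit 397) (nat_lit 180)))) (XT.nd (nat_lit 156) (nat_lit 152) (nat_lit 0) (XT.nd (nat_lit 78) (nat_lit 152) (nat_lit 0) (XT.lf (nat_lit 0) (nat_lit 242707207918) (nat_lit 228) (nat_lit 2474679180) (nat_lit 76)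 (nat_lit 2367671298) (nat_lit 212) (nat_lit 5) (nat_lit 215) (nat_lit 5) (nat_lit 213) (nat_lit 4) (nat_lit 444) (nat_lit 397) (nat_lit 179)) (XT.lf (nat_lit 0) (nat_lit 65060400800) (nat_lit 152) (nat_lit 95172604221) (nat_lit 76) (nat_lit 95065024183) (nat_lit 210) (nat_lit 5) (nat_lit 212) (nat_lit 5) (nat_lit 211) (nat_lit 5) (nat_lit 445) (nat_lit 397) (nat_lit 178))) (XT.nd (nat_lit 78) (nat_lit 0) (nat_lit 0) (XT.lf (nat_lit 0) (nat_lit 69658692763) (nat_lit 152) (nat_lit 69766817713) (nat_lit 228) (nat_lit 123947946158) (nat_lit 208) (nat_lit 5) (nat_lit 210) (nat_lit 5) (nat_lit 211) (nat_lit 5) (nat_lit 446) (nat_lit 397) (nat_lit 177)) (XT.lf (nat_lit 0) (nat_lit 219540682215) (nat_lit 228) (nat_lit 26156926643) (nat_lit 76) (nat_lit 26053456249) (nat_lit 208) (nat_lit 5) (nat_lit 211) (nat_lit 5) (nat_lit 209) (nat_lit 4) (nat_lit 447) (nat_lit 397) (nat_lit 176)))))) (XT.nd (nat_lit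 624) (nat_lit 608) (nat_lit 0) (XT.nd (nat_lit 312) (nat_lit 532) (nat_lit 0) (XT.nd (nat_lit 156) (nat_lit 76) (nat_lit 0) (XT.nd (nat_lit 78) (nat_lit 152) (nat_lit 0) (XT.lf (nat_lit 0) (nat_lit 25973166546) (nat_lit 152) (nat_lit 127240169846) (nat_lit 76) (nat_lit 127136228738) (nat_lit 206) (nat_lit 5) (nat_lit 208) (nat_lit 5) (nat_lit 207) (nat_lit 5) (nat_lit 448) (nat_lit 397) (nat_lit 175)) (XT.lf (nat_lit 0) (nat_lit 53748048096) (nat_lit 152) (nat_lit 53852437504) (nat_lit 228) (nat_lit 181670248992) (nat_lit 204) (nat_lit 5) (nat_lit 206) (nat_lit 5) (nat_lit 207) (nat_lit 5) (nat_lit 449) (nat_lit 397) (nat_lit 174))) (XT.nd (nat_lit 78) (nat_lit 76) (nat_lit 0) (XT.lf (nat_lit 0) (nat_lit 196287254905) (nat_lit 228) (nat_lit 51150814254) (nat_lit 76) (nat_lit 51050989149) (nat_lit 204) (nat_lit 5) (nat_lit 207) (nat_lit 5) (nat_lit 205) (nat_lit 4) (nat_lit 450) (nat_lit 397) (nat_lit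 173)) (XT.lf (nat_lit 0) (nat_lit 146236980233) (nat_lit 76) (nat_lit 146337192597) (nat_lit 152) (nat_lit 15435834875) (nat_lit 203) (nat_lit 5) (nat_lit 204) (nat_lit 5) (nat_lit 205) (nat_lit 4) (nat_lit 451) (nat_lit 397) (nat_lit 172)))) (XT.nd (nat_lit 156) (nat_lit 304) (nat_lit 0) (XT.nd (nat_lit 78) (nat_lit 0) (nat_lit 0) (XT.lf (nat_lit 0) (nat_lit 37304346793) (nat_lit 152) (nat_lit 37404927974) (nat_lit 228) (nat_lit 243165524736) (nat_lit 200) (nat_lit 5) (nat_lit 202) (nat_lit 5) (nat_lit 203) (nat_lit 5) (nat_lit 452) (nat_lit 397) (nat_lit 171)) (XT.lf (nat_lit 0) (nat_lit 172829107379) (nat_lit 228) (nat_lit 77643943340) (nat_lit 76) (nat_lit 77547817211) (nat_lit 200) (nat_lit 5) (nat_lit 203) (nat_lit 5) (nat_lit 201) (nat_lit 4) (nat_lit 453) (nat_lit 397) (nat_lit 170))) (XT.nd (nat_lit 78) (nat_lit 228) (nat_lit 0) (XT.lf (nat_lit 0) (nat_lit 139272974314) (nat_lit 76) (nat_lit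 139369419042) (nat_lit 152) (nat_lit 59892473336) (nat_lit 199) (nat_lit 5) (nat_lit 200) (nat_lit 5) (nat_lit 201) (nat_lit 4) (nat_lit 454) (nat_lit 397) (nat_lit 169)) (XT.lf (nat_lit 0) (nat_lit 20220651355) (nat_lit 152) (nat_lit 20317399510) (nat_lit 228) (nat_lit 308922553803) (nat_lit 196) (nat_lit 5) (nat_lit 198) (nat_lit 5) (nat_lit 199) (nat_lit 5) (nat_lit 455) (nat_lit 397) (nat_lit 168))))) (XT.nd (nat_lit 312) (nat_lit 304) (nat_lit 0) (XT.nd (nat_lit 156) (nat_lit 228) (nat_lit 0) (XT.nd (nat_lit 78) (nat_lit 76) (nat_lit 0) (XT.lf (nat_lit 0) (nat_lit 149041526374) (nat_lit 228) (nat_lit 105840608525) (nat_lit 76) (nat_lit 105748192208) (nat_lit 196) (nat_lit 5) (nat_lit 199) (nat_lit 5) (nat_lit 197) (nat_lit 4) (nat_lit 456) (nat_lit 397) (nat_lit 167)) (XT.lf (nat_lit 0) (nat_lit 132640648040) (nat_lit 76) (nat_lit 132733326469) (nat_lit 152) (nat_lit 106864371215) (nat_lit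 195) (nat_lit 5) (nat_lit 196) (nat_lit 5) (nat_lit 197) (nat_lit 4) (nat_lit 457) (nat_lit 397) (nat_lit 166))) (XT.nd (nat_lit 78) (nat_lit 0) (nat_lit 0) (XT.lf (nat_lit 0) (nat_lit 2381557834) (nat_lit 152) (nat_lit 2474485893) (nat_lit 228) (nat_lit 379475361252) (nat_lit 192) (nat_lit 5) (nat_lit 194) (nat_lit 5) (nat_lit 195) (nat_lit 5) (nat_lit 458) (nat_lit 397) (nat_lit 165)) (XT.lf (nat_lit 0) (nat_lit 124791951319) (nat_lit 228) (nat_lit 135963630346) (nat_lit 76) (nat_lit 135874901011) (nat_lit 192) (nat_lit 5) (nat_lit 195) (nat_lit 5) (nat_lit 193) (nat_lit 4) (nat_lit 459) (nat_lit 397) (nat_lit 164)))) (XT.nd (nat_lit 156) (nat_lit 228) (nat_lit 0) (XT.nd (nat_lit 78) (nat_lit 0) (nat_lit 0) (XT.lf (nat_lit 0) (nat_lit 126324196448) (nat_lit 76) (nat_lit 126413141423) (nat_lit 152) (nat_lit 156706542204) (nat_lit 191) (nat_lit 5) (nat_lit 192) (nat_lit 5) (nat_lit 193) (nat_lit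 4) (nat_lit 460) (nat_lit 397) (nat_lit 163)) (XT.lf (nat_lit 0) (nat_lit 389648867186) (nat_lit 152) (nat_lit 16602770791) (nat_lit 0) (nat_lit 16517865699) (nat_lit 191) (nat_lit 5) (nat_lit 193) (nat_lit 4) (nat_lit 191) (nat_lit 4) (nat_lit 461) (nat_lit 397) (nat_lit 162))) (XT.nd (nat_lit 78) (nat_lit 76) (nat_lit 0) (XT.lf (nat_lit 0) (nat_lit 99938935601) (nat_lit 152) (nat_lit 168256369782) (nat_lit 76) (nat_lit 168171278412) (nat_lit 189) (nat_lit 5) (nat_lit 191) (nat_lit 5) (nat_lit 190) (nat_lit 4) (nat_lit 462) (nat_lit 397) (nat_lit 161)) (XT.nd (nat_lit 78) (nat_lit 0) (nat_lit 0) (XT.lf (nat_lit 0) (nat_lit 120308569090) (nat_lit 76) (nat_lit 120393837867) (nat_lit 152) (nat_lit 209805763339) (nat_lit 188) (nat_lit 5) (nat_lit 189) (nat_lit 5) (nat_lit 190) (nat_lit 4) (nat_lit 463) (nat_lit 397) (nat_lit 160)) (XT.lf (nat_lit 0) (nat_lit 391943410204) (nat_lit 152) (nat_lit 36661413637)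 (nat_lit 0) (nat_lit 36580044364) (nat_lit 188) (nat_lit 5) (nat_lit 190) (nat_lit 4) (nat_lit 188) (nat_lit 4) (nat_lit 464) (nat_lit 397) (nat_lit 159))))))))
noncomputable def xc280 : XT := (XT.nd (nat_lit 48672) (nat_lit 0) (nat_lit 4028) (XT.nd (nat_lit 1248) (nat_lit 456) (nat_lit 0) (XT.nd (nat_lit 624) (nat_lit 532) (nat_lit 0) (XT.nd (nat_lit 312) (nat_lit 304) (nat_lit 0) (XT.nd (nat_lit 156) (nat_lit 152) (nat_lit 0) (XT.nd (nat_lit 78) (nat_lit 76) (nat_lit 0) (XT.lf (nat_lit 0) (nat_lit 74331012411) (nat_lit 152) (nat_lit 202984943647) (nat_lit 76) (nat_lit 202903421122) (nat_lit 186) (nat_lit 5) (nat_lit 188) (nat_lit 5) (nat_lit 187) (nat_lit 4) (nat_lit 465) (nat_lit 397) (nat_lit 158)) (XT.lf (nat_lit 0) (nat_lit 114579433762) (nat_lit 76) (nat_lit 114661102240) (nat_lit 152) (nat_lit 266584050473) (nat_lit 185) (nat_lit 5) (nat_lit 186) (nat_lit 5) (nat_lit 187) (nat_lit 4) (nat_lit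 466) (nat_lit 397) (nat_lit 157))) (XT.nd (nat_lit 78) (nat_lit 152) (nat_lit 0) (XT.lf (nat_lit 0) (nat_lit 396265690958) (nat_lit 152) (nat_lit 57901884703) (nat_lit 0) (nat_lit 57823972816) (nat_lit 185) (nat_lit 5) (nat_lit 187) (nat_lit 4) (nat_lit 185) (nat_lit 4) (nat_lit 467) (nat_lit 397) (nat_lit 156)) (XT.lf (nat_lit 0) (nat_lit 47805454874) (nat_lit 152) (nat_lit 240440661728) (nat_lit 76) (nat_lit 240362623761) (nat_lit 183) (nat_lit 5) (nat_lit 185) (nat_lit 5) (nat_lit 184) (nat_lit 4) (nat_lit 468) (nat_lit 397) (nat_lit 155)))) (XT.nd (nat_lit 156) (nat_lit 228) (nat_lit 0) (XT.nd (nat_lit 78) (nat_lit 0) (nat_lit 0) (XT.lf (nat_lit 0) (nat_lit 109123142034) (nat_lit 76) (nat_lit 109201300078) (nat_lit 152) (nat_lit 327502479625) (nat_lit 182) (nat_lit 5) (nat_lit 183) (nat_lit 5) (nat_lit 184) (nat_lit 4) (nat_lit 469) (nat_lit 397) (nat_lit 154)) (XT.lf (nat_lit 0) (nat_lit 402738201431)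 (nat_lit 152) (nat_lit 80486957380) (nat_lit 0) (nat_lit 80412412235) (nat_lit 182) (nat_lit 5) (nat_lit 184) (nat_lit 4) (nat_lit 182) (nat_lit 4) (nat_lit 470) (nat_lit 397) (nat_lit 153))) (XT.nd (nat_lit 78) (nat_lit 76) (nat_lit 0) (XT.lf (nat_lit 0) (nat_lit 20186919146) (nat_lit 152) (nat_lit 280942708672) (nat_lit 76) (nat_lit 280868059800) (nat_lit 180) (nat_lit 5) (nat_lit 182) (nat_lit 5) (nat_lit 181) (nat_lit 4) (nat_lit 471) (nat_lit 397) (nat_lit 152)) (XT.lf (nat_lit 0) (nat_lit 103926696454) (nat_lit 76) (nat_lit 104001444113) (nat_lit 152) (nat_lit 393065390117) (nat_lit 179) (nat_lit 5) (nat_lit 180) (nat_lit 5) (nat_lit 181) (nat_lit 4) (nat_lit 472) (nat_lit 397) (nat_lit 151))))) (XT.nd (nat_lit 312) (nat_lit 304) (nat_lit 0) (XT.nd (nat_lit 156) (nat_lit 152) (nat_lit 0) (XT.nd (nat_lit 78) (nat_lit 76) (nat_lit 0) (XT.lf (nat_lit 0) (nat_lit 411500051914) (nat_lit 152) (nat_lit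 104594105198) (nat_lit 0) (nat_lit 104522827349) (nat_lit 179) (nat_lit 5) (nat_lit 181) (nat_lit 4) (nat_lit 179) (nat_lit 4) (nat_lit 473) (nat_lit 397) (nat_lit 150)) (XT.lf (nat_lit 0) (nat_lit 315908114271) (nat_lit 76) (nat_lit 315979477456) (nat_lit 76) (nat_lit 9002167555) (nat_lit 178) (nat_lit 4) (nat_lit 179) (nat_lit 5) (nat_lit 179) (nat_lit 4) (nat_lit 474) (nat_lit 397) (nat_lit 149))) (XT.nd (nat_lit 78) (nat_lit 0) (nat_lit 0) (XT.lf (nat_lit 0) (nat_lit 98977719366) (nat_lit 76) (nat_lit 99049163823) (nat_lit 152) (nat_lit 463825009099) (nat_lit 176) (nat_lit 5) (nat_lit 177) (nat_lit 5) (nat_lit 178) (nat_lit 4) (nat_lit 475) (nat_lit 397) (nat_lit 148)) (XT.lf (nat_lit 0) (nat_lit 422708481166) (nat_lit 152) (nat_lit 130417103341) (nat_lit 0) (nat_lit 130348987284) (nat_lit 176) (nat_lit 5) (nat_lit 178) (nat_lit 4) (nat_lit 176) (nat_lit 4) (nat_lit 476) (nat_lit 397) (nat_lit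 147)))) (XT.nd (nat_lit 156) (nat_lit 76) (nat_lit 0) (XT.nd (nat_lit 78) (nat_lit 152) (nat_lit 0) (XT.lf (nat_lit 0) (nat_lit 332686895313) (nat_lit 76) (nat_lit 332755081576) (nat_lit 76) (nat_lit 40395517488) (nat_lit 175) (nat_lit 4) (nat_lit 176) (nat_lit 5) (nat_lit 176) (nat_lit 4) (nat_lit 477) (nat_lit 397) (nat_lit 146)) (XT.lf (nat_lit 0) (nat_lit 94264423239) (nat_lit 76) (nat_lit 94332676365) (nat_lit 152) (nat_lit 540386541094) (nat_lit 173) (nat_lit 5) (nat_lit 174) (nat_lit 5) (nat_lit 175) (nat_lit 4) (nat_lit 478) (nat_lit 397) (nat_lit 145))) (XT.nd (nat_lit 78) (nat_lit 76) (nat_lit 0) (XT.lf (nat_lit 0) (nat_lit 436540530529) (nat_lit 152) (nat_lit 158167789744) (nat_lit 0) (nat_lit 158102726120) (nat_lit 173) (nat_lit 5) (nat_lit 175) (nat_lit 4) (nat_lit 173) (nat_lit 4) (nat_lit 479) (nat_lit 397) (nat_lit 144)) (XT.lf (nat_lit 0) (nat_lit 351928465276) (nat_lit 76) (nat_lit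 351993586659) (nat_lit 76) (nat_lit 73555724490) (nat_lit 172) (nat_lit 4) (nat_lit 173) (nat_lit 5) (nat_lit 173) (nat_lit 4) (nat_lit 480) (nat_lit 397) (nat_lit 143)))))) (XT.nd (nat_lit 46800) (nat_lit 0) (nat_lit 9652) (XT.nd (nat_lit 312) (nat_lit 76) (nat_lit 0) (XT.nd (nat_lit 156) (nat_lit 228) (nat_lit 0) (XT.nd (nat_lit 78) (nat_lit 0) (nat_lit 0) (XT.lf (nat_lit 0) (nat_lit 89775582443) (nat_lit 76) (nat_lit 89840758834) (nat_lit 152) (nat_lit 623413770640) (nat_lit 170) (nat_lit 5) (nat_lit 171) (nat_lit 5) (nat_lit 172) (nat_lit 4) (nat_lit 481) (nat_lit 397) (nat_lit 142)) (XT.lf (nat_lit 0) (nat_lit 453194898363) (nat_lit 152) (nat_lit 188078002377) (nat_lit 0) (nat_lit 188015879729) (nat_lit 170) (nat_lit 5) (nat_lit 172) (nat_lit 4) (nat_lit 170) (nat_lit 4) (nat_lit 482) (nat_lit 397) (nat_lit 141))) (XT.nd (nat_lit 78) (nat_lit 152) (nat_lit 0) (XT.lf (nat_lit 0) (nat_lit 373849877074)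 (nat_lit 76) (nat_lit 373912047240) (nat_lit 76) (nat_lit 108732981088) (nat_lit 169) (nat_lit 4) (nat_lit 170) (nat_lit 5) (nat_lit 170) (nat_lit 4) (nat_lit 483) (nat_lit 397) (nat_lit 140)) (XT.lf (nat_lit 0) (nat_lit 85500506384) (nat_lit 76) (nat_lit 85562721806) (nat_lit 152) (nat_lit 713635231025) (nat_lit 167) (nat_lit 5) (nat_lit 168) (nat_lit 5) (nat_lit 169) (nat_lit 4) (nat_lit 484) (nat_lit 397) (nat_lit 139)))) (XT.nd (nat_lit 46332) (nat_lit 0) (nat_lit 9576) (XT.nd (nat_lit 78) (nat_lit 76) (nat_lit 0) (XT.lf (nat_lit 0) (nat_lit 472893992878) (nat_lit 152) (nat_lit 220401710987) (nat_lit 0) (nat_lit 220342417156) (nat_lit 167) (nat_lit 5) (nat_lit 169) (nat_lit 4) (nat_lit 167) (nat_lit 4) (nat_lit 485) (nat_lit 397) (nat_lit 138)) (XT.lf (nat_lit 0) (nat_lit 398692117106) (nat_lit 76) (nat_lit 398751450030) (nat_lit 76) (nat_lit 146199835214) (nat_lit 166) (nat_lit 4) (nat_lit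 167) (nat_lit 5) (nat_lit 167) (nat_lit 4) (nat_lit 486) (nat_lit 397) (nat_lit 137))) (XT.nd (nat_lit 78) (nat_lit 0) (nat_lit 0) (XT.lf (nat_lit 0) (nat_lit 16070095186) (nat_lit 836) (nat_lit 9153238258) (nat_lit 836) (nat_lit 9153238258) (nat_lit 292) (nat_lit 3) (nat_lit 303) (nat_lit 3) (nat_lit 303) (nat_lit 5) (nat_lit 398) (nat_lit 398) (nat_lit 224)) (XT.lf (nat_lit 76) (nat_lit 16601445108) (nat_lit 0) (nat_lit 16615085273) (nat_lit 836) (nat_lit 37241799849) (nat_lit 293) (nat_lit 5) (nat_lit 292) (nat_lit 3) (nat_lit 303) (nat_lit 5) (nat_lit 399) (nat_lit 398) (nat_lit 223))))) (XT.nd (nat_lit 312) (nat_lit 0) (nat_lit 152) (XT.nd (nat_lit 156) (nat_lit 0) (nat_lit 76) (XT.nd (nat_lit 78) (nat_lit 0) (nat_lit 0) (XT.lf (nat_lit 0) (nat_lit 34956132738) (nat_lit 760) (nat_lit 18643767027) (nat_lit 836) (nat_lit 18618404362) (nat_lit 293) (nat_lit 5) (nat_lit 303) (nat_lit 5) (nat_lit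 304) (nat_lit 5) (nat_lit 400) (nat_lit 398) (nat_lit 222)) (XT.lf (nat_lit 76) (nat_lit 18654179789) (nat_lit 0) (nat_lit 18691325342) (nat_lit 836) (nat_lit 36692632091) (nat_lit 294) (nat_lit 5) (nat_lit 293) (nat_lit 5) (nat_lit 304) (nat_lit 5) (nat_lit 401) (nat_lit 398) (nat_lit 221))) (XT.nd (nat_lit 78) (nat_lit 0) (nat_lit 0) (XT.lf (nat_lit 0) (nat_lit 40454915449) (nat_lit 760) (nat_lit 17755041101) (nat_lit 836) (nat_lit 17708976958) (nat_lit 294) (nat_lit 5) (nat_lit 304) (nat_lit 5) (nat_lit 305) (nat_lit 5) (nat_lit 402) (nat_lit 398) (nat_lit 220)) (XT.lf (nat_lit 76) (nat_lit 22157576412) (nat_lit 0) (nat_lit 22213819057) (nat_lit 836) (nat_lit 33489794178) (nat_lit 295) (nat_lit 5) (nat_lit 294) (nat_lit 5) (nat_lit 305) (nat_lit 5) (nat_lit 403) (nat_lit 398) (nat_lit 219)))) (XT.nd (nat_lit 156) (nat_lit 0) (nat_lit 76) (XT.nd (nat_lit 78) (nat_lit 0) (nat_lit 0) (XT.lf (nat_lit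 0) (nat_lit 49031873653) (nat_lit 760) (nat_lit 15452036428) (nat_lit 836) (nat_lit 15389239804) (nat_lit 295) (nat_lit 5) (nat_lit 305) (nat_lit 5) (nat_lit 306) (nat_lit 5) (nat_lit 404) (nat_lit 398) (nat_lit 218)) (XT.lf (nat_lit 76) (nat_lit 27321913846) (nat_lit 0) (nat_lit 27393503042) (nat_lit 836) (nat_lit 27230789192) (nat_lit 296) (nat_lit 5) (nat_lit 295) (nat_lit 5) (nat_lit 306) (nat_lit 5) (nat_lit 405) (nat_lit 398) (nat_lit 217))) (XT.nd (nat_lit 78) (nat_lit 0) (nat_lit 0) (XT.lf (nat_lit 0) (nat_lit 61128801069) (nat_lit 760) (nat_lit 11523993066) (nat_lit 836) (nat_lit 11447837758) (nat_lit 296) (nat_lit 5) (nat_lit 306) (nat_lit 5) (nat_lit 307) (nat_lit 5) (nat_lit 406) (nat_lit 398) (nat_lit 216)) (XT.lf (nat_lit 76) (nat_lit 34382173662) (nat_lit 0) (nat_lit 34465924325) (nat_lit 836) (nat_lit 17465418835) (nat_lit 297) (nat_lit 5) (nat_lit 296) (nat_lit 5) (nat_lit 307)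 (nat_lit 5) (nat_lit 407) (nat_lit 398) (nat_lit 215))))))) (XT.nd (nat_lit 1248) (nat_lit 2356) (nat_lit 0) (XT.nd (nat_lit 624) (nat_lit 1520) (nat_lit 0) (XT.nd (nat_lit 312) (nat_lit 760) (nat_lit 0) (XT.nd (nat_lit 156) (nat_lit 532) (nat_lit 0) (XT.nd (nat_lit 78) (nat_lit 760) (nat_lit 0) (XT.lf (nat_lit 0) (nat_lit 77239019507) (nat_lit 760) (nat_lit 5735197624) (nat_lit 76) (nat_lit 5648545877) (nat_lit 297) (nat_lit 5) (nat_lit 307) (nat_lit 5) (nat_lit 298) (nat_lit 5) (nat_lit 408) (nat_lit 398) (nat_lit 214)) (XT.lf (nat_lit 0) (nat_lit 43600719557) (nat_lit 760) (nat_lit 43693932456) (nat_lit 836) (nat_lit 3690561246) (nat_lit 287) (nat_lit 5) (nat_lit 297) (nat_lit 5) (nat_lit 298) (nat_lit 5) (nat_lit 409) (nat_lit 398) (nat_lit 213))) (XT.nd (nat_lit 78) (nat_lit 0) (nat_lit 0) (XT.lf (nat_lit 0) (nat_lit 2139476407) (nat_lit 456) (nat_lit 2238938023) (nat_lit 532) (nat_lit 89077368972)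 (nat_lit 280) (nat_lit 5) (nat_lit 286) (nat_lit 5) (nat_lit 287) (nat_lit 5) (nat_lit 410) (nat_lit 398) (nat_lit 212)) (XT.lf (nat_lit 0) (nat_lit 14186530895) (nat_lit 532) (nat_lit 40943866636) (nat_lit 76) (nat_lit 40843473517) (nat_lit 280) (nat_lit 5) (nat_lit 287) (nat_lit 5) (nat_lit 281) (nat_lit 5) (nat_lit 411) (nat_lit 398) (nat_lit 211)))) (XT.nd (nat_lit 156) (nat_lit 380) (nat_lit 0) (XT.nd (nat_lit 78) (nat_lit 0) (nat_lit 0) (XT.lf (nat_lit 0) (nat_lit 12303769472) (nat_lit 380) (nat_lit 12409560467) (nat_lit 456) (nat_lit 73893119301) (nat_lit 275) (nat_lit 5) (nat_lit 280) (nat_lit 5) (nat_lit 281) (nat_lit 5) (nat_lit 412) (nat_lit 398) (nat_lit 210)) (XT.lf (nat_lit 0) (nat_lit 36977327382) (nat_lit 456) (nat_lit 32219217699) (nat_lit 76) (nat_lit 32113568337) (nat_lit 275) (nat_lit 5) (nat_lit 281) (nat_lit 5) (nat_lit 276) (nat_lit 5) (nat_lit 413) (nat_lit 398) (nat_lit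 209))) (XT.nd (nat_lit 78) (nat_lit 0) (nat_lit 0) (XT.lf (nat_lit 0) (nat_lit 25170070361) (nat_lit 380) (nat_lit 25280382612) (nat_lit 456) (nat_lit 53668711420) (nat_lit 270) (nat_lit 5) (nat_lit 275) (nat_lit 5) (nat_lit 276) (nat_lit 5) (nat_lit 414) (nat_lit 398) (nat_lit 208)) (XT.lf (nat_lit 0) (nat_lit 65476599493) (nat_lit 456) (nat_lit 20828694427) (nat_lit 76) (nat_lit 20719405762) (nat_lit 270) (nat_lit 5) (nat_lit 276) (nat_lit 5) (nat_lit 271) (nat_lit 5) (nat_lit 415) (nat_lit 398) (nat_lit 207))))) (XT.nd (nat_lit 312) (nat_lit 532) (nat_lit 0) (XT.nd (nat_lit 156) (nat_lit 684) (nat_lit 0) (XT.nd (nat_lit 78) (nat_lit 0) (nat_lit 0) (XT.lf (nat_lit 0) (nat_lit 41098190752) (nat_lit 304) (nat_lit 41211507395) (nat_lit 380) (nat_lit 27713031349) (nat_lit 266) (nat_lit 5) (nat_lit 270) (nat_lit 5) (nat_lit 271) (nat_lit 5) (nat_lit 416) (nat_lit 398) (nat_lit 206)) (XT.lf (nat_lit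 0) (nat_lit 100438360674) (nat_lit 380) (nat_lit 6410589393) (nat_lit 76) (nat_lit 6299015286) (nat_lit 266) (nat_lit 5) (nat_lit 271) (nat_lit 5) (nat_lit 267) (nat_lit 5) (nat_lit 417) (nat_lit 398) (nat_lit 205))) (XT.nd (nat_lit 78) (nat_lit 304) (nat_lit 0) (XT.lf (nat_lit 0) (nat_lit 4592705965) (nat_lit 380) (nat_lit 55933563715) (nat_lit 76) (nat_lit 55818510088) (nat_lit 261) (nat_lit 5) (nat_lit 266) (nat_lit 5) (nat_lit 262) (nat_lit 5) (nat_lit 418) (nat_lit 398) (nat_lit 204)) (XT.lf (nat_lit 0) (nat_lit 11250111880) (nat_lit 304) (nat_lit 11368479335) (nat_lit 380) (nat_lit 97058146724) (nat_lit 257) (nat_lit 5) (nat_lit 261) (nat_lit 5) (nat_lit 262) (nat_lit 5) (nat_lit 419) (nat_lit 398) (nat_lit 203)))) (XT.nd (nat_lit 156) (nat_lit 228) (nat_lit 0) (XT.nd (nat_lit 78) (nat_lit 304) (nat_lit 0) (XT.lf (nat_lit 0) (nat_lit 43136536671) (nat_lit 380) (nat_lit 40037477849) (nat_lit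 76) (nat_lit 39921741200) (nat_lit 257) (nat_lit 5) (nat_lit 262) (nat_lit 5) (nat_lit 258) (nat_lit 5) (nat_lit 420) (nat_lit 398) (nat_lit 202)) (XT.lf (nat_lit 0) (nat_lit 32628597441) (nat_lit 304) (nat_lit 32747196699) (nat_lit 380) (nat_lit 61275159514) (nat_lit 253) (nat_lit 5) (nat_lit 257) (nat_lit 5) (nat_lit 258) (nat_lit 5) (nat_lit 421) (nat_lit 398) (nat_lit 201))) (XT.nd (nat_lit 78) (nat_lit 228) (nat_lit 0) (XT.lf (nat_lit 0) (nat_lit 89731209140) (nat_lit 380) (nat_lit 20359020379) (nat_lit 76) (nat_lit 20243472233) (nat_lit 253) (nat_lit 5) (nat_lit 258) (nat_lit 5) (nat_lit 254) (nat_lit 5) (nat_lit 422) (nat_lit 398) (nat_lit 200)) (XT.lf (nat_lit 0) (nat_lit 58316674402) (nat_lit 228) (nat_lit 58434695377) (nat_lit 304) (nat_lit 17376868732) (nat_lit 250) (nat_lit 5) (nat_lit 253) (nat_lit 5) (nat_lit 254) (nat_lit 5) (nat_lit 423) (nat_lit 398) (nat_lit 199)))))) (XT.nd (nat_lit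 624) (nat_lit 988) (nat_lit 0) (XT.nd (nat_lit 312) (nat_lit 760) (nat_lit 0) (XT.nd (nat_lit 156) (nat_lit 228) (nat_lit 0) (XT.nd (nat_lit 78) (nat_lit 0) (nat_lit 0) (XT.lf (nat_lit 0) (nat_lit 3535293087) (nat_lit 304) (nat_lit 3655669138) (nat_lit 380) (nat_lit 130895803025) (nat_lit 245) (nat_lit 5) (nat_lit 249) (nat_lit 5) (nat_lit 250) (nat_lit 5) (nat_lit 424) (nat_lit 398) (nat_lit 198)) (XT.lf (nat_lit 0) (nat_lit 34548762927) (nat_lit 380) (nat_lit 53844857149) (nat_lit 76) (nat_lit 53728077168) (nat_lit 245) (nat_lit 5) (nat_lit 250) (nat_lit 5) (nat_lit 246) (nat_lit 5) (nat_lit 425) (nat_lit 398) (nat_lit 197))) (XT.nd (nat_lit 78) (nat_lit 0) (nat_lit 0) (XT.lf (nat_lit 0) (nat_lit 31856305432) (nat_lit 228) (nat_lit 31975119816) (nat_lit 304) (nat_lit 82499102012) (nat_lit 242) (nat_lit 5) (nat_lit 245) (nat_lit 5) (nat_lit 246) (nat_lit 5) (nat_lit 426) (nat_lit 398) (nat_lit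 196)) (XT.lf (nat_lit 0) (nat_lit 95930413341) (nat_lit 304) (nat_lit 27433388811) (nat_lit 76) (nat_lit 27318386992) (nat_lit 242) (nat_lit 5) (nat_lit 246) (nat_lit 5) (nat_lit 243) (nat_lit 5) (nat_lit 427) (nat_lit 398) (nat_lit 195)))) (XT.nd (nat_lit 156) (nat_lit 228) (nat_lit 0) (XT.nd (nat_lit 78) (nat_lit 304) (nat_lit 0) (XT.lf (nat_lit 0) (nat_lit 65532307365) (nat_lit 228) (nat_lit 65649066577) (nat_lit 304) (nat_lit 23992709023) (nat_lit 239) (nat_lit 5) (nat_lit 242) (nat_lit 5) (nat_lit 243) (nat_lit 5) (nat_lit 428) (nat_lit 398) (nat_lit 194)) (XT.lf (nat_lit 0) (nat_lit 4229014928) (nat_lit 228) (nat_lit 4347447849) (nat_lit 304) (nat_lit 151280728948) (nat_lit 235) (nat_lit 5) (nat_lit 238) (nat_lit 5) (nat_lit 239) (nat_lit 5) (nat_lit 429) (nat_lit 398) (nat_lit 193))) (XT.nd (nat_lit 78) (nat_lit 228) (nat_lit 0) (XT.lf (nat_lit 0) (nat_lit 44447569593) (nat_lit 304) (nat_lit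 60148771048) (nat_lit 76) (nat_lit 60034459687) (nat_lit 235) (nat_lit 5) (nat_lit 239) (nat_lit 5) (nat_lit 236) (nat_lit 5) (nat_lit 430) (nat_lit 398) (nat_lit 192)) (XT.lf (nat_lit 0) (nat_lit 41356578094) (nat_lit 228) (nat_lit 41472335267) (nat_lit 304) (nat_lit 86778341921) (nat_lit 232) (nat_lit 5) (nat_lit 235) (nat_lit 5) (nat_lit 236) (nat_lit 5) (nat_lit 431) (nat_lit 398) (nat_lit 191))))) (XT.nd (nat_lit 312) (nat_lit 532) (nat_lit 0) (XT.nd (nat_lit 156) (nat_lit 304) (nat_lit 0) (XT.nd (nat_lit 78) (nat_lit 152) (nat_lit 0) (XT.lf (nat_lit 0) (nat_lit 124551716803) (nat_lit 304) (nat_lit 25160626438) (nat_lit 76) (nat_lit 25049070117) (nat_lit 232) (nat_lit 5) (nat_lit 236) (nat_lit 5) (nat_lit 233) (nat_lit 5) (nat_lit 432) (nat_lit 398) (nat_lit 190)) (XT.lf (nat_lit 0) (nat_lit 85128279017) (nat_lit 152) (nat_lit 85241084285) (nat_lit 228) (nat_lit 9703480894) (nat_lit 230) (nat_lit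 5) (nat_lit 232) (nat_lit 5) (nat_lit 233) (nat_lit 5) (nat_lit 433) (nat_lit 398) (nat_lit 189))) (XT.nd (nat_lit 78) (nat_lit 0) (nat_lit 0) (XT.lf (nat_lit 0) (nat_lit 16174353803) (nat_lit 228) (nat_lit 16288348544) (nat_lit 304) (nat_lit 153127249374) (nat_lit 226) (nat_lit 5) (nat_lit 229) (nat_lit 5) (nat_lit 230) (nat_lit 5) (nat_lit 434) (nat_lit 398) (nat_lit 188)) (XT.lf (nat_lit 0) (nat_lit 78921195054) (nat_lit 304) (nat_lit 56218953079) (nat_lit 76) (nat_lit 56109307772) (nat_lit 226) (nat_lit 5) (nat_lit 230) (nat_lit 5) (nat_lit 227) (nat_lit 5) (nat_lit 435) (nat_lit 398) (nat_lit 187)))) (XT.nd (nat_lit 156) (nat_lit 380) (nat_lit 0) (XT.nd (nat_lit 78) (nat_lit 0) (nat_lit 0) (XT.lf (nat_lit 0) (nat_lit 64432343302) (nat_lit 152) (nat_lit 64543016121) (nat_lit 228) (nat_lit 68152938524) (nat_lit 224) (nat_lit 5) (nat_lit 226) (nat_lit 5) (nat_lit 227) (nat_lit 5) (nat_lit 436)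 (nat_lit 398) (nat_lit 186)) (XT.lf (nat_lit 0) (nat_lit 182649326654) (nat_lit 228) (nat_lit 10351117687) (nat_lit 76) (nat_lit 10244783019) (nat_lit 224) (nat_lit 5) (nat_lit 227) (nat_lit 5) (nat_lit 225) (nat_lit 5) (nat_lit 437) (nat_lit 398) (nat_lit 185))) (XT.nd (nat_lit 78) (nat_lit 152) (nat_lit 0) (XT.lf (nat_lit 0) (nat_lit 31394045797) (nat_lit 228) (nat_lit 89104286071) (nat_lit 76) (nat_lit 88997063799) (nat_lit 221) (nat_lit 5) (nat_lit 224) (nat_lit 5) (nat_lit 222) (nat_lit 5) (nat_lit 438) (nat_lit 398) (nat_lit 184)) (XT.lf (nat_lit 0) (nat_lit 43016408983) (nat_lit 152) (nat_lit 43124476591) (nat_lit 228) (nat_lit 129857827266) (nat_lit 219) (nat_lit 5) (nat_lit 221) (nat_lit 5) (nat_lit 222) (nat_lit 5) (nat_lit 439) (nat_lit 398) (nat_lit 183))))))))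
noncomputable def xc281 : XT := (XT.nd (nat_lit 1248) (nat_lit 1292) (nat_lit 0) (XT.nd (nat_lit 624) (nat_lit 684) (nat_lit 0) (XT.nd (nat_lit 312) (nat_lit 456) (nat_lit 0) (XT.nd (nat_lit 156) (nat_lit 228) (nat_lit 0) (XT.nd (nat_lit 78) (nat_lit 152) (nat_lit 0) (XT.lf (nat_lit 0) (nat_lit 145753733798) (nat_lit 228) (nat_lit 38535358514) (nat_lit 76) (nat_lit 38431670238) (nat_lit 219) (nat_lit 5) (nat_lit 222) (nat_lit 5) (nat_lit 220) (nat_lit 5) (nat_lit 440) (nat_lit 398) (nat_lit 182)) (XT.lf (nat_lit 0) (nat_lit 105296763556) (nat_lit 152) (nat_lit 105401182066) (nat_lit 228) (nat_lit 18963433062) (nat_lit 217) (nat_lit 5) (nat_lit 219) (nat_lit 5) (nat_lit 220) (nat_lit 5) (nat_lit 441) (nat_lit 398) (nat_lit 181))) (XT.nd (nat_lit 78) (nat_lit 0) (nat_lit 0) (XT.lf (nat_lit 0) (nat_lit 20739891547) (nat_lit 152) (nat_lit 20845005517) (nat_lit 228) (nat_lit 195282042871) (nat_lit 214)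 (nat_lit 5) (nat_lit 216) (nat_lit 5) (nat_lit 217) (nat_lit 5) (nat_lit 442) (nat_lit 398) (nat_lit 180)) (XT.lf (nat_lit 0) (nat_lit 107724556590) (nat_lit 228) (nat_lit 68316678889) (nat_lit 76) (nat_lit 68215939543) (nat_lit 214) (nat_lit 5) (nat_lit 217) (nat_lit 5) (nat_lit 215) (nat_lit 5) (nat_lit 443) (nat_lit 398) (nat_lit 179)))) (XT.nd (nat_lit 156) (nat_lit 304) (nat_lit 0) (XT.nd (nat_lit 78) (nat_lit 0) (nat_lit 0) (XT.lf (nat_lit 0) (nat_lit 89403609846) (nat_lit 152) (nat_lit 89504949957) (nat_lit 228) (nat_lit 73021494025) (nat_lit 212) (nat_lit 5) (nat_lit 214) (nat_lit 5) (nat_lit 215) (nat_lit 5) (nat_lit 444) (nat_lit 398) (nat_lit 178)) (XT.lf (nat_lit 0) (nat_lit 254848710818) (nat_lit 228) (nat_lit 2587538838) (nat_lit 76) (nat_lit 2490479535) (nat_lit 212) (nat_lit 5) (nat_lit 215) (nat_lit 5) (nat_lit 213) (nat_lit 4) (nat_lit 445) (nat_lit 398) (nat_lit 177))) (XT.nd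 (nat_lit 78) (nat_lit 152) (nat_lit 0) (XT.lf (nat_lit 0) (nat_lit 68319536524) (nat_lit 152) (nat_lit 99920333311) (nat_lit 76) (nat_lit 99822755045) (nat_lit 210) (nat_lit 5) (nat_lit 212) (nat_lit 5) (nat_lit 211) (nat_lit 5) (nat_lit 446) (nat_lit 398) (nat_lit 176)) (XT.lf (nat_lit 0) (nat_lit 73152352698) (nat_lit 152) (nat_lit 73250425215) (nat_lit 228) (nat_lit 130139051957) (nat_lit 208) (nat_lit 5) (nat_lit 210) (nat_lit 5) (nat_lit 211) (nat_lit 5) (nat_lit 447) (nat_lit 398) (nat_lit 175))))) (XT.nd (nat_lit 312) (nat_lit 380) (nat_lit 0) (XT.nd (nat_lit 156) (nat_lit 152) (nat_lit 0) (XT.nd (nat_lit 78) (nat_lit 152) (nat_lit 0) (XT.lf (nat_lit 0) (nat_lit 230523493292) (nat_lit 228) (nat_lit 27454343459) (nat_lit 76) (nat_lit 27360492763) (nat_lit 208) (nat_lit 5) (nat_lit 211) (nat_lit 5) (nat_lit 209) (nat_lit 4) (nat_lit 448) (nat_lit 398) (nat_lit 174)) (XT.lf (nat_lit 0) (nat_lit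 27277579775) (nat_lit 152) (nat_lit 133591726758) (nat_lit 76) (nat_lit 133497449109) (nat_lit 206) (nat_lit 5) (nat_lit 208) (nat_lit 5) (nat_lit 207) (nat_lit 5) (nat_lit 449) (nat_lit 398) (nat_lit 173))) (XT.nd (nat_lit 78) (nat_lit 0) (nat_lit 0) (XT.lf (nat_lit 0) (nat_lit 56445733507) (nat_lit 152) (nat_lit 56540417777) (nat_lit 228) (nat_lit 190747837966) (nat_lit 204) (nat_lit 5) (nat_lit 206) (nat_lit 5) (nat_lit 207) (nat_lit 5) (nat_lit 450) (nat_lit 398) (nat_lit 172)) (XT.lf (nat_lit 0) (nat_lit 206107059435) (nat_lit 228) (nat_lit 53698362007) (nat_lit 76) (nat_lit 53607817694) (nat_lit 204) (nat_lit 5) (nat_lit 207) (nat_lit 5) (nat_lit 205) (nat_lit 4) (nat_lit 451) (nat_lit 398) (nat_lit 171)))) (XT.nd (nat_lit 156) (nat_lit 76) (nat_lit 0) (XT.nd (nat_lit 78) (nat_lit 228) (nat_lit 0) (XT.lf (nat_lit 0) (nat_lit 153558661029) (nat_lit 76) (nat_lit 153649556596) (nat_lit 152)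 (nat_lit 16202023658) (nat_lit 203) (nat_lit 5) (nat_lit 204) (nat_lit 5) (nat_lit 205) (nat_lit 4) (nat_lit 452) (nat_lit 398) (nat_lit 170)) (XT.lf (nat_lit 0) (nat_lit 39179413777) (nat_lit 152) (nat_lit 39270643873) (nat_lit 228) (nat_lit 255318215872) (nat_lit 200) (nat_lit 5) (nat_lit 202) (nat_lit 5) (nat_lit 203) (nat_lit 5) (nat_lit 453) (nat_lit 398) (nat_lit 169))) (XT.nd (nat_lit 78) (nat_lit 76) (nat_lit 0) (XT.lf (nat_lit 0) (nat_lit 181475695965) (nat_lit 228) (nat_lit 81516573967) (nat_lit 76) (nat_lit 81429384734) (nat_lit 200) (nat_lit 5) (nat_lit 203) (nat_lit 5) (nat_lit 201) (nat_lit 4) (nat_lit 454) (nat_lit 398) (nat_lit 168)) (XT.lf (nat_lit 0) (nat_lit 146246035271) (nat_lit 76) (nat_lit 146333513482) (nat_lit 152) (nat_lit 62881809487) (nat_lit 199) (nat_lit 5) (nat_lit 200) (nat_lit 5) (nat_lit 201) (nat_lit 4) (nat_lit 455) (nat_lit 398) (nat_lit 167)))))) (XT.nd (nat_lit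 624) (nat_lit 532) (nat_lit 0) (XT.nd (nat_lit 312) (nat_lit 228) (nat_lit 0) (XT.nd (nat_lit 156) (nat_lit 304) (nat_lit 0) (XT.nd (nat_lit 78) (nat_lit 0) (nat_lit 0) (XT.lf (nat_lit 0) (nat_lit 21241110858) (nat_lit 152) (nat_lit 21328864286) (nat_lit 228) (nat_lit 324363408672) (nat_lit 196) (nat_lit 5) (nat_lit 198) (nat_lit 5) (nat_lit 199) (nat_lit 5) (nat_lit 456) (nat_lit 398) (nat_lit 166)) (XT.lf (nat_lit 0) (nat_lit 156498450800) (nat_lit 228) (nat_lit 111123487290) (nat_lit 76) (nat_lit 111039662966) (nat_lit 196) (nat_lit 5) (nat_lit 199) (nat_lit 5) (nat_lit 197) (nat_lit 4) (nat_lit 457) (nat_lit 398) (nat_lit 165))) (XT.nd (nat_lit 78) (nat_lit 228) (nat_lit 0) (XT.lf (nat_lit 0) (nat_lit 139281684496) (nat_lit 76) (nat_lit 139365746562) (nat_lit 152) (nat_lit 112202594061) (nat_lit 195) (nat_lit 5) (nat_lit 196) (nat_lit 5) (nat_lit 197) (nat_lit 4) (nat_lit 458) (nat_lit 398)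 (nat_lit 164)) (XT.lf (nat_lit 0) (nat_lit 2509651868) (nat_lit 152) (nat_lit 2593940357) (nat_lit 228) (nat_lit 398444145688) (nat_lit 192) (nat_lit 5) (nat_lit 194) (nat_lit 5) (nat_lit 195) (nat_lit 5) (nat_lit 459) (nat_lit 398) (nat_lit 163)))) (XT.nd (nat_lit 156) (nat_lit 152) (nat_lit 0) (XT.nd (nat_lit 78) (nat_lit 76) (nat_lit 0) (XT.lf (nat_lit 0) (nat_lit 131036132670) (nat_lit 228) (nat_lit 142753062536) (nat_lit 76) (nat_lit 142672582413) (nat_lit 192) (nat_lit 5) (nat_lit 195) (nat_lit 5) (nat_lit 193) (nat_lit 4) (nat_lit 460) (nat_lit 398) (nat_lit 162)) (XT.lf (nat_lit 0) (nat_lit 132649014480) (nat_lit 76) (nat_lit 132729690194) (nat_lit 152) (nat_lit 164537144411) (nat_lit 191) (nat_lit 5) (nat_lit 192) (nat_lit 5) (nat_lit 193) (nat_lit 4) (nat_lit 461) (nat_lit 398) (nat_lit 161))) (XT.nd (nat_lit 78) (nat_lit 152) (nat_lit 0) (XT.lf (nat_lit 0) (nat_lit 409135657260) (nat_lit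 152) (nat_lit 17424557842) (nat_lit 0) (nat_lit 17347546421) (nat_lit 191) (nat_lit 5) (nat_lit 193) (nat_lit 4) (nat_lit 191) (nat_lit 4) (nat_lit 462) (nat_lit 398) (nat_lit 160)) (XT.lf (nat_lit 0) (nat_lit 104940220364) (nat_lit 152) (nat_lit 176660828051) (nat_lit 76) (nat_lit 176583647670) (nat_lit 189) (nat_lit 5) (nat_lit 191) (nat_lit 5) (nat_lit 190) (nat_lit 4) (nat_lit 463) (nat_lit 398) (nat_lit 159))))) (XT.nd (nat_lit 312) (nat_lit 228) (nat_lit 0) (XT.nd (nat_lit 156) (nat_lit 228) (nat_lit 0) (XT.nd (nat_lit 78) (nat_lit 0) (nat_lit 0) (XT.lf (nat_lit 0) (nat_lit 126332222921) (nat_lit 76) (nat_lit 126409564216) (nat_lit 152) (nat_lit 220291578681) (nat_lit 188) (nat_lit 5) (nat_lit 189) (nat_lit 5) (nat_lit 190) (nat_lit 4) (nat_lit 464) (nat_lit 398) (nat_lit 158)) (XT.lf (nat_lit 0) (nat_lit 411544696663) (nat_lit 152) (nat_lit 38486506742) (nat_lit 0) (nat_lit 38412702412)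 (nat_lit 188) (nat_lit 5) (nat_lit 190) (nat_lit 4) (nat_lit 188) (nat_lit 4) (nat_lit 465) (nat_lit 398) (nat_lit 157))) (XT.nd (nat_lit 78) (nat_lit 76) (nat_lit 0) (XT.lf (nat_lit 0) (nat_lit 78051671797) (nat_lit 152) (nat_lit 213126206068) (nat_lit 76) (nat_lit 213052262735) (nat_lit 186) (nat_lit 5) (nat_lit 188) (nat_lit 5) (nat_lit 187) (nat_lit 4) (nat_lit 466) (nat_lit 398) (nat_lit 156)) (XT.lf (nat_lit 0) (nat_lit 120316261425) (nat_lit 76) (nat_lit 120390337142) (nat_lit 152) (nat_lit 279909015445) (nat_lit 185) (nat_lit 5) (nat_lit 186) (nat_lit 5) (nat_lit 187) (nat_lit 4) (nat_lit 467) (nat_lit 398) (nat_lit 155)))) (XT.nd (nat_lit 156) (nat_lit 76) (nat_lit 0) (XT.nd (nat_lit 78) (nat_lit 152) (nat_lit 0) (XT.lf (nat_lit 0) (nat_lit 416082875894) (nat_lit 152) (nat_lit 60789361683) (nat_lit 0) (nat_lit 60718693305) (nat_lit 185) (nat_lit 5) (nat_lit 187) (nat_lit 4) (nat_lit 185)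 (nat_lit 4) (nat_lit 468) (nat_lit 398) (nat_lit 154)) (XT.lf (nat_lit 0) (nat_lit 50199622096) (nat_lit 152) (nat_lit 252455071649) (nat_lit 76) (nat_lit 252384288912) (nat_lit 183) (nat_lit 5) (nat_lit 185) (nat_lit 5) (nat_lit 184) (nat_lit 4) (nat_lit 469) (nat_lit 398) (nat_lit 153))) (XT.nd (nat_lit 78) (nat_lit 0) (nat_lit 0) (XT.lf (nat_lit 0) (nat_lit 114586799347) (nat_lit 76) (nat_lit 114657690997) (nat_lit 152) (nat_lit 343873586174) (nat_lit 182) (nat_lit 5) (nat_lit 183) (nat_lit 5) (nat_lit 184) (nat_lit 4) (nat_lit 470) (nat_lit 398) (nat_lit 152)) (XT.lf (nat_lit 0) (nat_lit 422878810064) (nat_lit 152) (nat_lit 84504034625) (nat_lit 0) (nat_lit 84436419981) (nat_lit 182) (nat_lit 5) (nat_lit 184) (nat_lit 4) (nat_lit 182) (nat_lit 4) (nat_lit 471) (nat_lit 398) (nat_lit 151)))))))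
noncomputable def xc282 : XT := (XT.nd (nat_lit 47502) (nat_lit 0) (nat_lit 7828) (XT.nd (nat_lit 624) (nat_lit 456) (nat_lit 0) (XT.nd (nat_lit 312) (nat_lit 380) (nat_lit 0) (XT.nd (nat_lit 156) (nat_lit 76) (nat_lit 0) (XT.nd (nat_lit 78) (nat_lit 76) (nat_lit 0) (XT.lf (nat_lit 0) (nat_lit 21199958802) (nat_lit 152) (nat_lit 294982568619) (nat_lit 76) (nat_lit 294914859892) (nat_lit 180) (nat_lit 5) (nat_lit 182) (nat_lit 5) (nat_lit 181) (nat_lit 4) (nat_lit 472) (nat_lit 398) (nat_lit 150)) (XT.lf (nat_lit 0) (nat_lit 109130189416) (nat_lit 76) (nat_lit 109197987746) (nat_lit 152) (nat_lit 412714848578) (nat_lit 179) (nat_lit 5) (nat_lit 180) (nat_lit 5) (nat_lit 181) (nat_lit 4) (nat_lit 473) (nat_lit 398) (nat_lit 149))) (XT.nd (nat_lit 78) (nat_lit 76) (nat_lit 0) (XT.lf (nat_lit 0) (nat_lit 432078563708) (nat_lit 152) (nat_lit 109816872814) (nat_lit 0) (nat_lit 109752221703) (nat_lit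 179) (nat_lit 5) (nat_lit 181) (nat_lit 4) (nat_lit 179) (nat_lit 4) (nat_lit 474) (nat_lit 398) (nat_lit 148)) (XT.lf (nat_lit 0) (nat_lit 331710345732) (nat_lit 76) (nat_lit 331775074244) (nat_lit 76) (nat_lit 9448654837) (nat_lit 178) (nat_lit 4) (nat_lit 179) (nat_lit 5) (nat_lit 179) (nat_lit 4) (nat_lit 475) (nat_lit 398) (nat_lit 147)))) (XT.nd (nat_lit 156) (nat_lit 228) (nat_lit 0) (XT.nd (nat_lit 78) (nat_lit 0) (nat_lit 0) (XT.lf (nat_lit 0) (nat_lit 103933435017) (nat_lit 76) (nat_lit 103998237246) (nat_lit 152) (nat_lit 487012642394) (nat_lit 176) (nat_lit 5) (nat_lit 177) (nat_lit 5) (nat_lit 178) (nat_lit 4) (nat_lit 476) (nat_lit 398) (nat_lit 146)) (XT.lf (nat_lit 0) (nat_lit 443847236424) (nat_lit 152) (nat_lit 136931340334) (nat_lit 0) (nat_lit 136869557063) (nat_lit 176) (nat_lit 5) (nat_lit 178) (nat_lit 4) (nat_lit 176) (nat_lit 4) (nat_lit 477) (nat_lit 398) (nat_lit 145)))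 (XT.nd (nat_lit 78) (nat_lit 152) (nat_lit 0) (XT.lf (nat_lit 0) (nat_lit 349327751508) (nat_lit 76) (nat_lit 349389598459) (nat_lit 76) (nat_lit 42411855418) (nat_lit 175) (nat_lit 4) (nat_lit 176) (nat_lit 5) (nat_lit 176) (nat_lit 4) (nat_lit 478) (nat_lit 398) (nat_lit 144)) (XT.lf (nat_lit 0) (nat_lit 98984159068) (nat_lit 76) (nat_lit 99046066666) (nat_lit 152) (nat_lit 567402433442) (nat_lit 173) (nat_lit 5) (nat_lit 174) (nat_lit 5) (nat_lit 175) (nat_lit 4) (nat_lit 479) (nat_lit 398) (nat_lit 143))))) (XT.nd (nat_lit 312) (nat_lit 228) (nat_lit 0) (XT.nd (nat_lit 156) (nat_lit 152) (nat_lit 0) (XT.nd (nat_lit 78) (nat_lit 76) (nat_lit 0) (XT.lf (nat_lit 0) (nat_lit 458370720665) (nat_lit 152) (nat_lit 166069867246) (nat_lit 0) (nat_lit 166010852621) (nat_lit 173) (nat_lit 5) (nat_lit 175) (nat_lit 4) (nat_lit 173) (nat_lit 4) (nat_lit 480) (nat_lit 398) (nat_lit 142)) (XT.lf (nat_lit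 0) (nat_lit 369531098718) (nat_lit 76) (nat_lit 369590165732) (nat_lit 76) (nat_lit 77230245300) (nat_lit 172) (nat_lit 4) (nat_lit 173) (nat_lit 5) (nat_lit 173) (nat_lit 4) (nat_lit 481) (nat_lit 398) (nat_lit 141))) (XT.nd (nat_lit 78) (nat_lit 0) (nat_lit 0) (XT.lf (nat_lit 0) (nat_lit 94270574408) (nat_lit 76) (nat_lit 94329691316) (nat_lit 152) (nat_lit 654581196420) (nat_lit 170) (nat_lit 5) (nat_lit 171) (nat_lit 5) (nat_lit 172) (nat_lit 4) (nat_lit 482) (nat_lit 398) (nat_lit 140)) (XT.lf (nat_lit 0) (nat_lit 475857648870) (nat_lit 152) (nat_lit 197475883709) (nat_lit 0) (nat_lit 197419536636) (nat_lit 170) (nat_lit 5) (nat_lit 172) (nat_lit 4) (nat_lit 170) (nat_lit 4) (nat_lit 483) (nat_lit 398) (nat_lit 139)))) (XT.nd (nat_lit 156) (nat_lit 0) (nat_lit 0) (XT.nd (nat_lit 78) (nat_lit 152) (nat_lit 0) (XT.lf (nat_lit 0) (nat_lit 392548292637) (nat_lit 76) (nat_lit 392604682811) (nat_lit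 76) (nat_lit 114166527477) (nat_lit 169) (nat_lit 4) (nat_lit 170) (nat_lit 5) (nat_lit 170) (nat_lit 4) (nat_lit 484) (nat_lit 398) (nat_lit 138)) (XT.lf (nat_lit 0) (nat_lit 89781455605) (nat_lit 76) (nat_lit 89837886827) (nat_lit 152) (nat_lit 749313892102) (nat_lit 167) (nat_lit 5) (nat_lit 168) (nat_lit 5) (nat_lit 169) (nat_lit 4) (nat_lit 485) (nat_lit 398) (nat_lit 137))) (XT.nd (nat_lit 46332) (nat_lit 0) (nat_lit 9500) (XT.lf (nat_lit 0) (nat_lit 496541548921) (nat_lit 152) (nat_lit 231416058292) (nat_lit 0) (nat_lit 231362277039) (nat_lit 167) (nat_lit 5) (nat_lit 169) (nat_lit 4) (nat_lit 167) (nat_lit 4) (nat_lit 486) (nat_lit 398) (nat_lit 136)) (XT.lf (nat_lit 0) (nat_lit 16887027150) (nat_lit 836) (nat_lit 9603850889) (nat_lit 836) (nat_lit 9603850889) (nat_lit 292) (nat_lit 3) (nat_lit 303) (nat_lit 3) (nat_lit 303) (nat_lit 5) (nat_lit 399) (nat_lit 399) (nat_lit 222)))))) (XT.nd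 (nat_lit 624) (nat_lit 1672) (nat_lit 0) (XT.nd (nat_lit 312) (nat_lit 0) (nat_lit 152) (XT.nd (nat_lit 156) (nat_lit 0) (nat_lit 76) (XT.nd (nat_lit 78) (nat_lit 0) (nat_lit 76) (XT.lf (nat_lit 76) (nat_lit 17445388531) (nat_lit 0) (nat_lit 17457760563) (nat_lit 836) (nat_lit 39076808038) (nat_lit 293) (nat_lit 5) (nat_lit 292) (nat_lit 3) (nat_lit 303) (nat_lit 5) (nat_lit 400) (nat_lit 399) (nat_lit 221)) (XT.lf (nat_lit 0) (nat_lit 36728326112) (nat_lit 760) (nat_lit 19561339285) (nat_lit 836) (nat_lit 19538334600) (nat_lit 293) (nat_lit 5) (nat_lit 303) (nat_lit 5) (nat_lit 304) (nat_lit 5) (nat_lit 401) (nat_lit 399) (nat_lit 220))) (XT.nd (nat_lit 78) (nat_lit 0) (nat_lit 76) (XT.lf (nat_lit 76) (nat_lit 19601269129) (nat_lit 0) (nat_lit 19634961240) (nat_lit 836) (nat_lit 38502641216) (nat_lit 294) (nat_lit 5) (nat_lit 293) (nat_lit 5) (nat_lit 304) (nat_lit 5) (nat_lit 402) (nat_lit 399)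 (nat_lit 219)) (XT.lf (nat_lit 0) (nat_lit 42499859677) (nat_lit 760) (nat_lit 18627846059) (nat_lit 836) (nat_lit 18586064523) (nat_lit 294) (nat_lit 5) (nat_lit 304) (nat_lit 5) (nat_lit 305) (nat_lit 5) (nat_lit 403) (nat_lit 399) (nat_lit 218)))) (XT.nd (nat_lit 156) (nat_lit 0) (nat_lit 76) (XT.nd (nat_lit 78) (nat_lit 0) (nat_lit 76) (XT.lf (nat_lit 76) (nat_lit 23280161248) (nat_lit 0) (nat_lit 23331174984) (nat_lit 836) (nat_lit 35141844348) (nat_lit 295) (nat_lit 5) (nat_lit 294) (nat_lit 5) (nat_lit 305) (nat_lit 5) (nat_lit 404) (nat_lit 399) (nat_lit 217)) (XT.lf (nat_lit 0) (nat_lit 51503721555) (nat_lit 760) (nat_lit 16209515752) (nat_lit 836) (nat_lit 16152557363) (nat_lit 295) (nat_lit 5) (nat_lit 305) (nat_lit 5) (nat_lit 306) (nat_lit 5) (nat_lit 405) (nat_lit 399) (nat_lit 216))) (XT.nd (nat_lit 78) (nat_lit 0) (nat_lit 76) (XT.lf (nat_lit 76) (nat_lit 28702888125) (nat_lit 0)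 (nat_lit 28767821636) (nat_lit 836) (nat_lit 28571830521) (nat_lit 296) (nat_lit 5) (nat_lit 295) (nat_lit 5) (nat_lit 306) (nat_lit 5) (nat_lit 406) (nat_lit 399) (nat_lit 215)) (XT.lf (nat_lit 0) (nat_lit 64203764486) (nat_lit 760) (nat_lit 12085023972) (nat_lit 836) (nat_lit 12015948862) (nat_lit 296) (nat_lit 5) (nat_lit 306) (nat_lit 5) (nat_lit 307) (nat_lit 5) (nat_lit 407) (nat_lit 399) (nat_lit 214))))) (XT.nd (nat_lit 312) (nat_lit 760) (nat_lit 0) (XT.nd (nat_lit 156) (nat_lit 1216) (nat_lit 0) (XT.nd (nat_lit 78) (nat_lit 0) (nat_lit 76) (XT.lf (nat_lit 76) (nat_lit 36116206436) (nat_lit 0) (nat_lit 36192170756) (nat_lit 836) (nat_lit 18319921756) (nat_lit 297) (nat_lit 5) (nat_lit 296) (nat_lit 5) (nat_lit 307) (nat_lit 5) (nat_lit 408) (nat_lit 399) (nat_lit 213)) (XT.lf (nat_lit 0) (nat_lit 81117949763) (nat_lit 760) (nat_lit 6006849060) (nat_lit 76) (nat_lit 5928253372) (nat_lit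 297) (nat_lit 5) (nat_lit 307) (nat_lit 5) (nat_lit 298) (nat_lit 5) (nat_lit 409) (nat_lit 399) (nat_lit 212))) (XT.nd (nat_lit 78) (nat_lit 532) (nat_lit 0) (XT.lf (nat_lit 0) (nat_lit 45795620295) (nat_lit 760) (nat_lit 45880167143) (nat_lit 836) (nat_lit 3857866343) (nat_lit 287) (nat_lit 5) (nat_lit 297) (nat_lit 5) (nat_lit 298) (nat_lit 5) (nat_lit 410) (nat_lit 399) (nat_lit 211)) (XT.lf (nat_lit 0) (nat_lit 2261617585) (nat_lit 456) (nat_lit 2351832203) (nat_lit 532) (nat_lit 93514317053) (nat_lit 280) (nat_lit 5) (nat_lit 286) (nat_lit 5) (nat_lit 287) (nat_lit 5) (nat_lit 411) (nat_lit 399) (nat_lit 210)))) (XT.nd (nat_lit 156) (nat_lit 380) (nat_lit 0) (XT.nd (nat_lit 78) (nat_lit 380) (nat_lit 0) (XT.lf (nat_lit 0) (nat_lit 14911190627) (nat_lit 532) (nat_lit 42975833417) (nat_lit 76) (nat_lit 42884773898) (nat_lit 280) (nat_lit 5) (nat_lit 287) (nat_lit 5) (nat_lit 281) (nat_lit 5)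 (nat_lit 412) (nat_lit 399) (nat_lit 209)) (XT.lf (nat_lit 0) (nat_lit 12933938907) (nat_lit 380) (nat_lit 13029894459) (nat_lit 456) (nat_lit 77572196490) (nat_lit 275) (nat_lit 5) (nat_lit 280) (nat_lit 5) (nat_lit 281) (nat_lit 5) (nat_lit 413) (nat_lit 399) (nat_lit 208))) (XT.nd (nat_lit 78) (nat_lit 380) (nat_lit 0) (XT.lf (nat_lit 0) (nat_lit 38840326303) (nat_lit 456) (nat_lit 33815206623) (nat_lit 76) (nat_lit 33719379537) (nat_lit 275) (nat_lit 5) (nat_lit 281) (nat_lit 5) (nat_lit 276) (nat_lit 5) (nat_lit 414) (nat_lit 399) (nat_lit 207)) (XT.nd (nat_lit 78) (nat_lit 0) (nat_lit 0) (XT.lf (nat_lit 0) (nat_lit 26443304357) (nat_lit 380) (nat_lit 26543360821) (nat_lit 456) (nat_lit 56337772956) (nat_lit 270) (nat_lit 5) (nat_lit 275) (nat_lit 5) (nat_lit 276) (nat_lit 5) (nat_lit 415) (nat_lit 399) (nat_lit 206)) (XT.lf (nat_lit 0) (nat_lit 68763482618) (nat_lit 456) (nat_lit 21855463715)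 (nat_lit 76) (nat_lit 21756335675) (nat_lit 270) (nat_lit 5) (nat_lit 276) (nat_lit 5) (nat_lit 271) (nat_lit 5) (nat_lit 416) (nat_lit 399) (nat_lit 205))))))))
noncomputable def xc283 : XT := (XT.nd (nat_lit 2496) (nat_lit 2660) (nat_lit 0) (XT.nd (nat_lit 1248) (nat_lit 1824) (nat_lit 0) (XT.nd (nat_lit 624) (nat_lit 1368) (nat_lit 0) (XT.nd (nat_lit 312) (nat_lit 532) (nat_lit 0) (XT.nd (nat_lit 156) (nat_lit 684) (nat_lit 0) (XT.nd (nat_lit 78) (nat_lit 0) (nat_lit 0) (XT.lf (nat_lit 0) (nat_lit 43167529183) (nat_lit 304) (nat_lit 43270310718) (nat_lit 380) (nat_lit 29085393227) (nat_lit 266) (nat_lit 5) (nat_lit 270) (nat_lit 5) (nat_lit 271) (nat_lit 5) (nat_lit 417) (nat_lit 399) (nat_lit 204)) (XT.lf (nat_lit 0) (nat_lit 105472359197) (nat_lit 380) (nat_lit 6716800702) (nat_lit 76) (nat_lit 6615599697) (nat_lit 266) (nat_lit 5) (nat_lit 271) (nat_lit 5) (nat_lit 267) (nat_lit 5) (nat_lit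 418) (nat_lit 399) (nat_lit 203))) (XT.nd (nat_lit 78) (nat_lit 304) (nat_lit 0) (XT.lf (nat_lit 0) (nat_lit 4834258648) (nat_lit 380) (nat_lit 58715760635) (nat_lit 76) (nat_lit 58611403604) (nat_lit 261) (nat_lit 5) (nat_lit 266) (nat_lit 5) (nat_lit 262) (nat_lit 5) (nat_lit 419) (nat_lit 399) (nat_lit 202)) (XT.lf (nat_lit 0) (nat_lit 11826865171) (nat_lit 304) (nat_lit 11934227942) (nat_lit 380) (nat_lit 101898903106) (nat_lit 257) (nat_lit 5) (nat_lit 261) (nat_lit 5) (nat_lit 262) (nat_lit 5) (nat_lit 420) (nat_lit 399) (nat_lit 201)))) (XT.nd (nat_lit 156) (nat_lit 228) (nat_lit 0) (XT.nd (nat_lit 78) (nat_lit 304) (nat_lit 0) (XT.lf (nat_lit 0) (nat_lit 45304424559) (nat_lit 380) (nat_lit 42025271224) (nat_lit 76) (nat_lit 41920294671) (nat_lit 257) (nat_lit 5) (nat_lit 262) (nat_lit 5) (nat_lit 258) (nat_lit 5) (nat_lit 421) (nat_lit 399) (nat_lit 200)) (XT.lf (nat_lit 0) (nat_lit 34273880726)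 (nat_lit 304) (nat_lit 34381453750) (nat_lit 380) (nat_lit 64327629330) (nat_lit 253) (nat_lit 5) (nat_lit 257) (nat_lit 5) (nat_lit 258) (nat_lit 5) (nat_lit 422) (nat_lit 399) (nat_lit 199))) (XT.nd (nat_lit 78) (nat_lit 228) (nat_lit 0) (XT.lf (nat_lit 0) (nat_lit 94228054427) (nat_lit 380) (nat_lit 21363311873) (nat_lit 76) (nat_lit 21258506299) (nat_lit 253) (nat_lit 5) (nat_lit 258) (nat_lit 5) (nat_lit 254) (nat_lit 5) (nat_lit 423) (nat_lit 399) (nat_lit 198)) (XT.lf (nat_lit 0) (nat_lit 61245947332) (nat_lit 228) (nat_lit 61352995835) (nat_lit 304) (nat_lit 18235207024) (nat_lit 250) (nat_lit 5) (nat_lit 253) (nat_lit 5) (nat_lit 254) (nat_lit 5) (nat_lit 424) (nat_lit 399) (nat_lit 197))))) (XT.nd (nat_lit 312) (nat_lit 760) (nat_lit 0) (XT.nd (nat_lit 156) (nat_lit 228) (nat_lit 0) (XT.nd (nat_lit 78) (nat_lit 0) (nat_lit 0) (XT.lf (nat_lit 0) (nat_lit 3725610997) (nat_lit 304) (nat_lit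 3834795624) (nat_lit 380) (nat_lit 137430202077) (nat_lit 245) (nat_lit 5) (nat_lit 249) (nat_lit 5) (nat_lit 250) (nat_lit 5) (nat_lit 425) (nat_lit 399) (nat_lit 196)) (XT.lf (nat_lit 0) (nat_lit 36285680483) (nat_lit 380) (nat_lit 56523775269) (nat_lit 76) (nat_lit 56417852384) (nat_lit 245) (nat_lit 5) (nat_lit 250) (nat_lit 5) (nat_lit 246) (nat_lit 5) (nat_lit 426) (nat_lit 399) (nat_lit 195))) (XT.nd (nat_lit 78) (nat_lit 0) (nat_lit 0) (XT.lf (nat_lit 0) (nat_lit 33462230526) (nat_lit 228) (nat_lit 33569998675) (nat_lit 304) (nat_lit 86614362787) (nat_lit 242) (nat_lit 5) (nat_lit 245) (nat_lit 5) (nat_lit 246) (nat_lit 5) (nat_lit 427) (nat_lit 399) (nat_lit 194)) (XT.lf (nat_lit 0) (nat_lit 100735784696) (nat_lit 304) (nat_lit 28792190705) (nat_lit 76) (nat_lit 28687880665) (nat_lit 242) (nat_lit 5) (nat_lit 246) (nat_lit 5) (nat_lit 243) (nat_lit 5) (nat_lit 428) (nat_lit 399) (nat_lit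 193)))) (XT.nd (nat_lit 156) (nat_lit 228) (nat_lit 0) (XT.nd (nat_lit 78) (nat_lit 304) (nat_lit 0) (XT.lf (nat_lit 0) (nat_lit 68821582738) (nat_lit 228) (nat_lit 68927486786) (nat_lit 304) (nat_lit 25183286244) (nat_lit 239) (nat_lit 5) (nat_lit 242) (nat_lit 5) (nat_lit 243) (nat_lit 5) (nat_lit 429) (nat_lit 399) (nat_lit 192)) (XT.lf (nat_lit 0) (nat_lit 4453206730) (nat_lit 228) (nat_lit 4560628881) (nat_lit 304) (nat_lit 158835788216) (nat_lit 235) (nat_lit 5) (nat_lit 238) (nat_lit 5) (nat_lit 239) (nat_lit 5) (nat_lit 430) (nat_lit 399) (nat_lit 191))) (XT.nd (nat_lit 78) (nat_lit 228) (nat_lit 0) (XT.lf (nat_lit 0) (nat_lit 46678152962) (nat_lit 304) (nat_lit 63143730456) (nat_lit 76) (nat_lit 63040046682) (nat_lit 235) (nat_lit 5) (nat_lit 239) (nat_lit 5) (nat_lit 236) (nat_lit 5) (nat_lit 431) (nat_lit 399) (nat_lit 190)) (XT.lf (nat_lit 0) (nat_lit 43436684867) (nat_lit 228) (nat_lit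 43541680035) (nat_lit 304) (nat_lit 91108852851) (nat_lit 232) (nat_lit 5) (nat_lit 235) (nat_lit 5) (nat_lit 236) (nat_lit 5) (nat_lit 432) (nat_lit 399) (nat_lit 189)))))) (XT.nd (nat_lit 624) (nat_lit 836) (nat_lit 0) (XT.nd (nat_lit 312) (nat_lit 532) (nat_lit 0) (XT.nd (nat_lit 156) (nat_lit 304) (nat_lit 0) (XT.nd (nat_lit 78) (nat_lit 152) (nat_lit 0) (XT.lf (nat_lit 0) (nat_lit 130786990805) (nat_lit 304) (nat_lit 26406646843) (nat_lit 76) (nat_lit 26305461971) (nat_lit 232) (nat_lit 5) (nat_lit 236) (nat_lit 5) (nat_lit 233) (nat_lit 5) (nat_lit 433) (nat_lit 399) (nat_lit 188)) (XT.lf (nat_lit 0) (nat_lit 89396510161) (nat_lit 152) (nat_lit 89498827864) (nat_lit 228) (nat_lit 10180773052) (nat_lit 230) (nat_lit 5) (nat_lit 232) (nat_lit 5) (nat_lit 233) (nat_lit 5) (nat_lit 434) (nat_lit 399) (nat_lit 187))) (XT.nd (nat_lit 78) (nat_lit 0) (nat_lit 0) (XT.lf (nat_lit 0) (nat_lit 16994946287)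 (nat_lit 228) (nat_lit 17098342878) (nat_lit 304) (nat_lit 160775787557) (nat_lit 226) (nat_lit 5) (nat_lit 229) (nat_lit 5) (nat_lit 230) (nat_lit 5) (nat_lit 435) (nat_lit 399) (nat_lit 186)) (XT.lf (nat_lit 0) (nat_lit 82874417433) (nat_lit 304) (nat_lit 59018302331) (nat_lit 76) (nat_lit 58918850805) (nat_lit 226) (nat_lit 5) (nat_lit 230) (nat_lit 5) (nat_lit 227) (nat_lit 5) (nat_lit 436) (nat_lit 399) (nat_lit 185)))) (XT.nd (nat_lit 156) (nat_lit 380) (nat_lit 0) (XT.nd (nat_lit 78) (nat_lit 0) (nat_lit 0) (XT.lf (nat_lit 0) (nat_lit 67665371798) (nat_lit 152) (nat_lit 67765755308) (nat_lit 228) (nat_lit 71553235753) (nat_lit 224) (nat_lit 5) (nat_lit 226) (nat_lit 5) (nat_lit 227) (nat_lit 5) (nat_lit 437) (nat_lit 399) (nat_lit 184)) (XT.lf (nat_lit 0) (nat_lit 191788524976) (nat_lit 228) (nat_lit 10857537915) (nat_lit 76) (nat_lit 10761089237) (nat_lit 224) (nat_lit 5) (nat_lit 227)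 (nat_lit 5) (nat_lit 225) (nat_lit 5) (nat_lit 438) (nat_lit 399) (nat_lit 183))) (XT.nd (nat_lit 78) (nat_lit 152) (nat_lit 0) (XT.lf (nat_lit 0) (nat_lit 32970438469) (nat_lit 228) (nat_lit 93548323111) (nat_lit 76) (nat_lit 93451069350) (nat_lit 221) (nat_lit 5) (nat_lit 224) (nat_lit 5) (nat_lit 222) (nat_lit 5) (nat_lit 439) (nat_lit 399) (nat_lit 182)) (XT.lf (nat_lit 0) (nat_lit 45178226417) (nat_lit 152) (nat_lit 45276246923) (nat_lit 228) (nat_lit 136343847968) (nat_lit 219) (nat_lit 5) (nat_lit 221) (nat_lit 5) (nat_lit 222) (nat_lit 5) (nat_lit 440) (nat_lit 399) (nat_lit 181))))) (XT.nd (nat_lit 312) (nat_lit 456) (nat_lit 0) (XT.nd (nat_lit 156) (nat_lit 228) (nat_lit 0) (XT.nd (nat_lit 78) (nat_lit 152) (nat_lit 0) (XT.lf (nat_lit 0) (nat_lit 153047718601) (nat_lit 228) (nat_lit 40451407747) (nat_lit 76) (nat_lit 40357359424) (nat_lit 219) (nat_lit 5) (nat_lit 222) (nat_lit 5) (nat_lit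 220) (nat_lit 5) (nat_lit 441) (nat_lit 399) (nat_lit 180)) (XT.lf (nat_lit 0) (nat_lit 110572147545) (nat_lit 152) (nat_lit 110666858211) (nat_lit 228) (nat_lit 19905133720) (nat_lit 217) (nat_lit 5) (nat_lit 219) (nat_lit 5) (nat_lit 220) (nat_lit 5) (nat_lit 442) (nat_lit 399) (nat_lit 179))) (XT.nd (nat_lit 78) (nat_lit 0) (nat_lit 0) (XT.lf (nat_lit 0) (nat_lit 21787465613) (nat_lit 152) (nat_lit 21882807083) (nat_lit 228) (nat_lit 205039707698) (nat_lit 214) (nat_lit 5) (nat_lit 216) (nat_lit 5) (nat_lit 217) (nat_lit 5) (nat_lit 443) (nat_lit 399) (nat_lit 178)) (XT.lf (nat_lit 0) (nat_lit 113116689405) (nat_lit 228) (nat_lit 71722211338) (nat_lit 76) (nat_lit 71630837781) (nat_lit 214) (nat_lit 5) (nat_lit 217) (nat_lit 5) (nat_lit 215) (nat_lit 5) (nat_lit 444) (nat_lit 399) (nat_lit 177)))) (XT.nd (nat_lit 156) (nat_lit 304) (nat_lit 0) (XT.nd (nat_lit 78) (nat_lit 0) (nat_lit 0) (XT.lf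 (nat_lit 0) (nat_lit 93883925681) (nat_lit 152) (nat_lit 93975844149) (nat_lit 228) (nat_lit 76666497587) (nat_lit 212) (nat_lit 5) (nat_lit 214) (nat_lit 5) (nat_lit 215) (nat_lit 5) (nat_lit 445) (nat_lit 399) (nat_lit 176)) (XT.lf (nat_lit 0) (nat_lit 267596717792) (nat_lit 228) (nat_lit 2707052468) (nat_lit 76) (nat_lit 2619016819) (nat_lit 212) (nat_lit 5) (nat_lit 215) (nat_lit 5) (nat_lit 213) (nat_lit 4) (nat_lit 446) (nat_lit 399) (nat_lit 175))) (XT.nd (nat_lit 78) (nat_lit 152) (nat_lit 0) (XT.lf (nat_lit 0) (nat_lit 71741060456) (nat_lit 152) (nat_lit 104906462338) (nat_lit 76) (nat_lit 104817955974) (nat_lit 210) (nat_lit 5) (nat_lit 212) (nat_lit 5) (nat_lit 211) (nat_lit 5) (nat_lit 447) (nat_lit 399) (nat_lit 174)) (XT.lf (nat_lit 0) (nat_lit 76819698493) (nat_lit 152) (nat_lit 76908653157) (nat_lit 228) (nat_lit 136640297971) (nat_lit 208) (nat_lit 5) (nat_lit 210) (nat_lit 5)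 (nat_lit 211) (nat_lit 5) (nat_lit 448) (nat_lit 399) (nat_lit 173))))))) (XT.nd (nat_lit 1248) (nat_lit 1216) (nat_lit 0) (XT.nd (nat_lit 624) (nat_lit 760) (nat_lit 0) (XT.nd (nat_lit 312) (nat_lit 380) (nat_lit 0) (XT.nd (nat_lit 156) (nat_lit 152) (nat_lit 0) (XT.nd (nat_lit 78) (nat_lit 152) (nat_lit 0) (XT.lf (nat_lit 0) (nat_lit 242054907836) (nat_lit 228) (nat_lit 28817600754) (nat_lit 76) (nat_lit 28732475406) (nat_lit 208) (nat_lit 5) (nat_lit 211) (nat_lit 5) (nat_lit 209) (nat_lit 4) (nat_lit 449) (nat_lit 399) (nat_lit 172)) (XT.lf (nat_lit 0) (nat_lit 28646678629) (nat_lit 152) (nat_lit 140261833204) (nat_lit 76) (nat_lit 140176320597) (nat_lit 206) (nat_lit 5) (nat_lit 208) (nat_lit 5) (nat_lit 207) (nat_lit 5) (nat_lit 450) (nat_lit 399) (nat_lit 171))) (XT.nd (nat_lit 78) (nat_lit 0) (nat_lit 0) (XT.lf (nat_lit 0) (nat_lit 59277347172) (nat_lit 152) (nat_lit 59363228597) (nat_lit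 228) (nat_lit 200279857098) (nat_lit 204) (nat_lit 5) (nat_lit 206) (nat_lit 5) (nat_lit 207) (nat_lit 5) (nat_lit 451) (nat_lit 399) (nat_lit 170)) (XT.lf (nat_lit 0) (nat_lit 216417348265) (nat_lit 228) (nat_lit 56374216198) (nat_lit 76) (nat_lit 56292089836) (nat_lit 204) (nat_lit 5) (nat_lit 207) (nat_lit 5) (nat_lit 205) (nat_lit 4) (nat_lit 452) (nat_lit 399) (nat_lit 169)))) (XT.nd (nat_lit 156) (nat_lit 76) (nat_lit 0) (XT.nd (nat_lit 78) (nat_lit 228) (nat_lit 0) (XT.lf (nat_lit 0) (nat_lit 161245511798) (nat_lit 76) (nat_lit 161327956757) (nat_lit 152) (nat_lit 17007042790) (nat_lit 203) (nat_lit 5) (nat_lit 204) (nat_lit 5) (nat_lit 205) (nat_lit 4) (nat_lit 453) (nat_lit 399) (nat_lit 168)) (XT.lf (nat_lit 0) (nat_lit 41147318383) (nat_lit 152) (nat_lit 41230066769) (nat_lit 228) (nat_lit 268079060815) (nat_lit 200) (nat_lit 5) (nat_lit 202) (nat_lit 5) (nat_lit 203) (nat_lit 5) (nat_lit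 454) (nat_lit 399) (nat_lit 167))) (XT.nd (nat_lit 78) (nat_lit 76) (nat_lit 0) (XT.lf (nat_lit 0) (nat_lit 190554136742) (nat_lit 228) (nat_lit 85583725532) (nat_lit 76) (nat_lit 85504642327) (nat_lit 200) (nat_lit 5) (nat_lit 203) (nat_lit 5) (nat_lit 201) (nat_lit 4) (nat_lit 455) (nat_lit 399) (nat_lit 166)) (XT.lf (nat_lit 0) (nat_lit 153566874215) (nat_lit 76) (nat_lit 153646219531) (nat_lit 152) (nat_lit 66021104029) (nat_lit 199) (nat_lit 5) (nat_lit 200) (nat_lit 5) (nat_lit 201) (nat_lit 4) (nat_lit 456) (nat_lit 399) (nat_lit 165))))) (XT.nd (nat_lit 312) (nat_lit 228) (nat_lit 0) (XT.nd (nat_lit 156) (nat_lit 304) (nat_lit 0) (XT.nd (nat_lit 78) (nat_lit 0) (nat_lit 0) (XT.lf (nat_lit 0) (nat_lit 22311716908) (nat_lit 152) (nat_lit 22391311855) (nat_lit 228) (nat_lit 340576796500) (nat_lit 196) (nat_lit 5) (nat_lit 198) (nat_lit 5) (nat_lit 199) (nat_lit 5) (nat_lit 457) (nat_lit 399)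 (nat_lit 164)) (XT.lf (nat_lit 0) (nat_lit 164327770716) (nat_lit 228) (nat_lit 116671360829) (nat_lit 76) (nat_lit 116595329696) (nat_lit 196) (nat_lit 5) (nat_lit 199) (nat_lit 5) (nat_lit 197) (nat_lit 4) (nat_lit 458) (nat_lit 399) (nat_lit 163))) (XT.nd (nat_lit 78) (nat_lit 228) (nat_lit 0) (XT.lf (nat_lit 0) (nat_lit 146253935662) (nat_lit 76) (nat_lit 146330182435) (nat_lit 152) (nat_lit 117808192503) (nat_lit 195) (nat_lit 5) (nat_lit 196) (nat_lit 5) (nat_lit 197) (nat_lit 4) (nat_lit 459) (nat_lit 399) (nat_lit 162)) (XT.lf (nat_lit 0) (nat_lit 2643312368) (nat_lit 152) (nat_lit 2719764512) (nat_lit 228) (nat_lit 418361832676) (nat_lit 192) (nat_lit 5) (nat_lit 194) (nat_lit 5) (nat_lit 195) (nat_lit 5) (nat_lit 460) (nat_lit 399) (nat_lit 161)))) (XT.nd (nat_lit 156) (nat_lit 152) (nat_lit 0) (XT.nd (nat_lit 78) (nat_lit 76) (nat_lit 0) (XT.lf (nat_lit 0) (nat_lit 137592096932) (nat_lit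 228) (nat_lit 149882779765) (nat_lit 76) (nat_lit 149809781922) (nat_lit 192) (nat_lit 5) (nat_lit 195) (nat_lit 5) (nat_lit 193) (nat_lit 4) (nat_lit 461) (nat_lit 399) (nat_lit 160)) (XT.lf (nat_lit 0) (nat_lit 139289273103) (nat_lit 76) (nat_lit 139362448354) (nat_lit 152) (nat_lit 172759716005) (nat_lit 191) (nat_lit 5) (nat_lit 192) (nat_lit 5) (nat_lit 193) (nat_lit 4) (nat_lit 462) (nat_lit 399) (nat_lit 159))) (XT.nd (nat_lit 78) (nat_lit 152) (nat_lit 0) (XT.lf (nat_lit 0) (nat_lit 429596382721) (nat_lit 152) (nat_lit 18288210689) (nat_lit 0) (nat_lit 18218359060) (nat_lit 191) (nat_lit 5) (nat_lit 193) (nat_lit 4) (nat_lit 191) (nat_lit 4) (nat_lit 463) (nat_lit 399) (nat_lit 158)) (XT.lf (nat_lit 0) (nat_lit 110191166060) (nat_lit 152) (nat_lit 185486286488) (nat_lit 76) (nat_lit 185416281607) (nat_lit 189) (nat_lit 5) (nat_lit 191) (nat_lit 5) (nat_lit 190) (nat_lit 4) (nat_lit 464)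 (nat_lit 399) (nat_lit 157)))))) (XT.nd (nat_lit 624) (nat_lit 684) (nat_lit 0) (XT.nd (nat_lit 312) (nat_lit 228) (nat_lit 0) (XT.nd (nat_lit 156) (nat_lit 228) (nat_lit 0) (XT.nd (nat_lit 78) (nat_lit 0) (nat_lit 0) (XT.lf (nat_lit 0) (nat_lit 132656294727) (nat_lit 76) (nat_lit 132726445562) (nat_lit 152) (nat_lit 231302100631) (nat_lit 188) (nat_lit 5) (nat_lit 189) (nat_lit 5) (nat_lit 190) (nat_lit 4) (nat_lit 465) (nat_lit 399) (nat_lit 156)) (XT.lf (nat_lit 0) (nat_lit 432125664784) (nat_lit 152) (nat_lit 40403596182) (nat_lit 0) (nat_lit 40336653479) (nat_lit 188) (nat_lit 5) (nat_lit 190) (nat_lit 4) (nat_lit 188) (nat_lit 4) (nat_lit 466) (nat_lit 399) (nat_lit 155))) (XT.nd (nat_lit 78) (nat_lit 76) (nat_lit 0) (XT.lf (nat_lit 0) (nat_lit 81957982159) (nat_lit 152) (nat_lit 223775273958) (nat_lit 76) (nat_lit 223708205176) (nat_lit 186) (nat_lit 5) (nat_lit 188) (nat_lit 5) (nat_lit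 187) (nat_lit 4) (nat_lit 467) (nat_lit 399) (nat_lit 154)) (XT.lf (nat_lit 0) (nat_lit 126339200096) (nat_lit 76) (nat_lit 126406388955) (nat_lit 152) (nat_lit 293900622633) (nat_lit 185) (nat_lit 5) (nat_lit 186) (nat_lit 5) (nat_lit 187) (nat_lit 4) (nat_lit 468) (nat_lit 399) (nat_lit 153)))) (XT.nd (nat_lit 156) (nat_lit 76) (nat_lit 0) (XT.nd (nat_lit 78) (nat_lit 152) (nat_lit 0) (XT.lf (nat_lit 0) (nat_lit 436890557456) (nat_lit 152) (nat_lit 63821920692) (nat_lit 0) (nat_lit 63757822390) (nat_lit 185) (nat_lit 5) (nat_lit 187) (nat_lit 4) (nat_lit 185) (nat_lit 4) (nat_lit 469) (nat_lit 399) (nat_lit 152)) (XT.lf (nat_lit 0) (nat_lit 52713135608) (nat_lit 152) (nat_lit 265070910796) (nat_lit 76) (nat_lit 265006708767) (nat_lit 183) (nat_lit 5) (nat_lit 185) (nat_lit 5) (nat_lit 184) (nat_lit 4) (nat_lit 470) (nat_lit 399) (nat_lit 151))) (XT.nd (nat_lit 78) (nat_lit 0) (nat_lit 0) (XT.lf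 (nat_lit 0) (nat_lit 120322942228) (nat_lit 76) (nat_lit 120387243044) (nat_lit 152) (nat_lit 361063621553) (nat_lit 182) (nat_lit 5) (nat_lit 183) (nat_lit 5) (nat_lit 184) (nat_lit 4) (nat_lit 471) (nat_lit 399) (nat_lit 150)) (XT.lf (nat_lit 0) (nat_lit 444026105271) (nat_lit 152) (nat_lit 88722641686) (nat_lit 0) (nat_lit 88661313211) (nat_lit 182) (nat_lit 5) (nat_lit 184) (nat_lit 4) (nat_lit 182) (nat_lit 4) (nat_lit 472) (nat_lit 399) (nat_lit 149))))) (XT.nd (nat_lit 312) (nat_lit 380) (nat_lit 0) (XT.nd (nat_lit 156) (nat_lit 76) (nat_lit 0) (XT.nd (nat_lit 78) (nat_lit 76) (nat_lit 0) (XT.lf (nat_lit 0) (nat_lit 22263307036) (nat_lit 152) (nat_lit 309725097970) (nat_lit 76) (nat_lit 309663684159) (nat_lit 180) (nat_lit 5) (nat_lit 182) (nat_lit 5) (nat_lit 181) (nat_lit 4) (nat_lit 473) (nat_lit 399) (nat_lit 148)) (XT.lf (nat_lit 0) (nat_lit 114593191531) (nat_lit 76) (nat_lit 114654686614)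 (nat_lit 152) (nat_lit 433347134276) (nat_lit 179) (nat_lit 5) (nat_lit 180) (nat_lit 5) (nat_lit 181) (nat_lit 4) (nat_lit 474) (nat_lit 399) (nat_lit 147))) (XT.nd (nat_lit 78) (nat_lit 76) (nat_lit 0) (XT.lf (nat_lit 0) (nat_lit 453685674839) (nat_lit 152) (nat_lit 115301423806) (nat_lit 0) (nat_lit 115242783343) (nat_lit 179) (nat_lit 5) (nat_lit 181) (nat_lit 4) (nat_lit 179) (nat_lit 4) (nat_lit 475) (nat_lit 399) (nat_lit 146)) (XT.lf (nat_lit 0) (nat_lit 348302054172) (nat_lit 76) (nat_lit 348360764841) (nat_lit 76) (nat_lit 9917803139) (nat_lit 178) (nat_lit 4) (nat_lit 179) (nat_lit 5) (nat_lit 179) (nat_lit 4) (nat_lit 476) (nat_lit 399) (nat_lit 145)))) (XT.nd (nat_lit 156) (nat_lit 228) (nat_lit 0) (XT.nd (nat_lit 78) (nat_lit 0) (nat_lit 0) (XT.lf (nat_lit 0) (nat_lit 109136301491) (nat_lit 76) (nat_lit 109195079023) (nat_lit 152) (nat_lit 511359993644) (nat_lit 176) (nat_lit 5) (nat_lit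 177) (nat_lit 5) (nat_lit 178) (nat_lit 4) (nat_lit 477) (nat_lit 399) (nat_lit 144)) (XT.lf (nat_lit 0) (nat_lit 466042619742) (nat_lit 152) (nat_lit 143771904472) (nat_lit 0) (nat_lit 143715865223) (nat_lit 176) (nat_lit 5) (nat_lit 178) (nat_lit 4) (nat_lit 176) (nat_lit 4) (nat_lit 478) (nat_lit 399) (nat_lit 143))) (XT.nd (nat_lit 78) (nat_lit 152) (nat_lit 0) (XT.lf (nat_lit 0) (nat_lit 366800045142) (nat_lit 76) (nat_lit 366856142149) (nat_lit 76) (nat_lit 44529329872) (nat_lit 175) (nat_lit 4) (nat_lit 176) (nat_lit 5) (nat_lit 176) (nat_lit 4) (nat_lit 479) (nat_lit 399) (nat_lit 142)) (XT.lf (nat_lit 0) (nat_lit 103939276017) (nat_lit 76) (nat_lit 103995428032) (nat_lit 152) (nat_lit 595769439734) (nat_lit 173) (nat_lit 5) (nat_lit 174) (nat_lit 5) (nat_lit 175) (nat_lit 4) (nat_lit 480) (nat_lit 399) (nat_lit 141))))))))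
noncomputable def xc284 : XT := (XT.nd (nat_lit 47580) (nat_lit 0) (nat_lit 6308) (XT.nd (nat_lit 46956) (nat_lit 0) (nat_lit 9576) (XT.nd (nat_lit 312) (nat_lit 228) (nat_lit 0) (XT.nd (nat_lit 156) (nat_lit 152) (nat_lit 0) (XT.nd (nat_lit 78) (nat_lit 76) (nat_lit 0) (XT.lf (nat_lit 0) (nat_lit 481292126185) (nat_lit 152) (nat_lit 174367635452) (nat_lit 0) (nat_lit 174314107447) (nat_lit 173) (nat_lit 5) (nat_lit 175) (nat_lit 4) (nat_lit 173) (nat_lit 4) (nat_lit 481) (nat_lit 399) (nat_lit 140)) (XT.lf (nat_lit 0) (nat_lit 388013286470) (nat_lit 76) (nat_lit 388066861992) (nat_lit 76) (nat_lit 81088795737) (nat_lit 172) (nat_lit 4) (nat_lit 173) (nat_lit 5) (nat_lit 173) (nat_lit 4) (nat_lit 482) (nat_lit 399) (nat_lit 139))) (XT.nd (nat_lit 78) (nat_lit 0) (nat_lit 0) (XT.lf (nat_lit 0) (nat_lit 98989738359) (nat_lit 76) (nat_lit 99043359138) (nat_lit 152) (nat_lit 687307296829) (nat_lit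 170) (nat_lit 5) (nat_lit 171) (nat_lit 5) (nat_lit 172) (nat_lit 4) (nat_lit 483) (nat_lit 399) (nat_lit 138)) (XT.lf (nat_lit 0) (nat_lit 499653257470) (nat_lit 152) (nat_lit 207344218677) (nat_lit 0) (nat_lit 207293110221) (nat_lit 170) (nat_lit 5) (nat_lit 172) (nat_lit 4) (nat_lit 170) (nat_lit 4) (nat_lit 484) (nat_lit 399) (nat_lit 137)))) (XT.nd (nat_lit 46488) (nat_lit 0) (nat_lit 9500) (XT.nd (nat_lit 78) (nat_lit 152) (nat_lit 0) (XT.lf (nat_lit 0) (nat_lit 412181078435) (nat_lit 76) (nat_lit 412232225985) (nat_lit 76) (nat_lit 119872039642) (nat_lit 169) (nat_lit 4) (nat_lit 170) (nat_lit 5) (nat_lit 170) (nat_lit 4) (nat_lit 485) (nat_lit 399) (nat_lit 136)) (XT.lf (nat_lit 0) (nat_lit 94275901539) (nat_lit 76) (nat_lit 94327086321) (nat_lit 152) (nat_lit 786776774486) (nat_lit 167) (nat_lit 5) (nat_lit 168) (nat_lit 5) (nat_lit 169) (nat_lit 4) (nat_lit 486) (nat_lit 399) (nat_lit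 135))) (XT.nd (nat_lit 78) (nat_lit 0) (nat_lit 0) (XT.lf (nat_lit 0) (nat_lit 17743557377) (nat_lit 836) (nat_lit 10077649527) (nat_lit 836) (nat_lit 10077649527) (nat_lit 292) (nat_lit 3) (nat_lit 303) (nat_lit 3) (nat_lit 303) (nat_lit 5) (nat_lit 400) (nat_lit 400) (nat_lit 220)) (XT.lf (nat_lit 76) (nat_lit 18330239516) (nat_lit 0) (nat_lit 18341461314) (nat_lit 836) (nat_lit 41006084445) (nat_lit 293) (nat_lit 5) (nat_lit 292) (nat_lit 3) (nat_lit 303) (nat_lit 5) (nat_lit 401) (nat_lit 400) (nat_lit 219))))) (XT.nd (nat_lit 312) (nat_lit 0) (nat_lit 152) (XT.nd (nat_lit 156) (nat_lit 0) (nat_lit 76) (XT.nd (nat_lit 78) (nat_lit 0) (nat_lit 0) (XT.lf (nat_lit 0) (nat_lit 38586861907) (nat_lit 760) (nat_lit 20526149021) (nat_lit 836) (nat_lit 20505283094) (nat_lit 293) (nat_lit 5) (nat_lit 303) (nat_lit 5) (nat_lit 304) (nat_lit 5) (nat_lit 402) (nat_lit 400) (nat_lit 218)) (XT.lf (nat_lit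 76) (nat_lit 20594375987) (nat_lit 0) (nat_lit 20624935725) (nat_lit 836) (nat_lit 40405439961) (nat_lit 294) (nat_lit 5) (nat_lit 293) (nat_lit 5) (nat_lit 304) (nat_lit 5) (nat_lit 403) (nat_lit 400) (nat_lit 217))) (XT.nd (nat_lit 78) (nat_lit 0) (nat_lit 0) (XT.lf (nat_lit 0) (nat_lit 44644987315) (nat_lit 760) (nat_lit 19545680905) (nat_lit 836) (nat_lit 19507783820) (nat_lit 294) (nat_lit 5) (nat_lit 304) (nat_lit 5) (nat_lit 305) (nat_lit 5) (nat_lit 404) (nat_lit 400) (nat_lit 216)) (XT.lf (nat_lit 76) (nat_lit 24457508099) (nat_lit 0) (nat_lit 24503779062) (nat_lit 836) (nat_lit 36878583243) (nat_lit 295) (nat_lit 5) (nat_lit 294) (nat_lit 5) (nat_lit 305) (nat_lit 5) (nat_lit 405) (nat_lit 400) (nat_lit 215)))) (XT.nd (nat_lit 156) (nat_lit 0) (nat_lit 76) (XT.nd (nat_lit 78) (nat_lit 0) (nat_lit 0) (XT.lf (nat_lit 0) (nat_lit 54097278806) (nat_lit 760) (nat_lit 17006274988) (nat_lit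 836) (nat_lit 16954612050) (nat_lit 295) (nat_lit 5) (nat_lit 305) (nat_lit 5) (nat_lit 306) (nat_lit 5) (nat_lit 406) (nat_lit 400) (nat_lit 214)) (XT.lf (nat_lit 76) (nat_lit 30151527848) (nat_lit 0) (nat_lit 30210424457) (nat_lit 836) (nat_lit 29981829639) (nat_lit 296) (nat_lit 5) (nat_lit 295) (nat_lit 5) (nat_lit 306) (nat_lit 5) (nat_lit 407) (nat_lit 400) (nat_lit 213))) (XT.nd (nat_lit 78) (nat_lit 0) (nat_lit 0) (XT.lf (nat_lit 0) (nat_lit 67430753948) (nat_lit 760) (nat_lit 12675516669) (nat_lit 836) (nat_lit 12612863508) (nat_lit 296) (nat_lit 5) (nat_lit 306) (nat_lit 5) (nat_lit 307) (nat_lit 5) (nat_lit 408) (nat_lit 400) (nat_lit 212)) (XT.lf (nat_lit 76) (nat_lit 37935553348) (nat_lit 0) (nat_lit 38004455226) (nat_lit 836) (nat_lit 19218894696) (nat_lit 297) (nat_lit 5) (nat_lit 296) (nat_lit 5) (nat_lit 307) (nat_lit 5) (nat_lit 409) (nat_lit 400) (nat_lit 211)))))) (XT.nd (nat_lit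 624) (nat_lit 1520) (nat_lit 0) (XT.nd (nat_lit 312) (nat_lit 760) (nat_lit 0) (XT.nd (nat_lit 156) (nat_lit 532) (nat_lit 0) (XT.nd (nat_lit 78) (nat_lit 760) (nat_lit 0) (XT.lf (nat_lit 0) (nat_lit 85189247959) (nat_lit 760) (nat_lit 6293487709) (nat_lit 76) (nat_lit 6222199102) (nat_lit 297) (nat_lit 5) (nat_lit 307) (nat_lit 5) (nat_lit 298) (nat_lit 5) (nat_lit 410) (nat_lit 400) (nat_lit 210)) (XT.lf (nat_lit 0) (nat_lit 48098884086) (nat_lit 760) (nat_lit 48175570569) (nat_lit 836) (nat_lit 4035137924) (nat_lit 287) (nat_lit 5) (nat_lit 297) (nat_lit 5) (nat_lit 298) (nat_lit 5) (nat_lit 411) (nat_lit 400) (nat_lit 209))) (XT.nd (nat_lit 78) (nat_lit 0) (nat_lit 0) (XT.lf (nat_lit 0) (nat_lit 2388455705) (nat_lit 456) (nat_lit 2470283022) (nat_lit 532) (nat_lit 98174685633) (nat_lit 280) (nat_lit 5) (nat_lit 286) (nat_lit 5) (nat_lit 287) (nat_lit 5) (nat_lit 412) (nat_lit 400) (nat_lit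 208)) (XT.lf (nat_lit 0) (nat_lit 15670657811) (nat_lit 532) (nat_lit 45110814157) (nat_lit 76) (nat_lit 45028220489) (nat_lit 280) (nat_lit 5) (nat_lit 287) (nat_lit 5) (nat_lit 281) (nat_lit 5) (nat_lit 413) (nat_lit 400) (nat_lit 207)))) (XT.nd (nat_lit 156) (nat_lit 380) (nat_lit 0) (XT.nd (nat_lit 78) (nat_lit 0) (nat_lit 0) (XT.lf (nat_lit 0) (nat_lit 13594224027) (nat_lit 380) (nat_lit 13681258541) (nat_lit 456) (nat_lit 81436675905) (nat_lit 275) (nat_lit 5) (nat_lit 280) (nat_lit 5) (nat_lit 281) (nat_lit 5) (nat_lit 414) (nat_lit 400) (nat_lit 206)) (XT.lf (nat_lit 0) (nat_lit 40795161258) (nat_lit 456) (nat_lit 35492386943) (nat_lit 76) (nat_lit 35405468952) (nat_lit 275) (nat_lit 5) (nat_lit 281) (nat_lit 5) (nat_lit 276) (nat_lit 5) (nat_lit 415) (nat_lit 400) (nat_lit 205))) (XT.nd (nat_lit 78) (nat_lit 0) (nat_lit 0) (XT.lf (nat_lit 0) (nat_lit 27778830553) (nat_lit 380) (nat_lit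 27869584715) (nat_lit 456) (nat_lit 59141623931) (nat_lit 270) (nat_lit 5) (nat_lit 275) (nat_lit 5) (nat_lit 276) (nat_lit 5) (nat_lit 416) (nat_lit 400) (nat_lit 204)) (XT.lf (nat_lit 0) (nat_lit 72213496342) (nat_lit 456) (nat_lit 22934934921) (nat_lit 76) (nat_lit 22845022867) (nat_lit 270) (nat_lit 5) (nat_lit 276) (nat_lit 5) (nat_lit 271) (nat_lit 5) (nat_lit 417) (nat_lit 400) (nat_lit 203))))) (XT.nd (nat_lit 312) (nat_lit 532) (nat_lit 0) (XT.nd (nat_lit 156) (nat_lit 684) (nat_lit 0) (XT.nd (nat_lit 78) (nat_lit 0) (nat_lit 0) (XT.lf (nat_lit 0) (nat_lit 45338993074) (nat_lit 304) (nat_lit 45432218956) (nat_lit 380) (nat_lit 30527608747) (nat_lit 266) (nat_lit 5) (nat_lit 270) (nat_lit 5) (nat_lit 271) (nat_lit 5) (nat_lit 418) (nat_lit 400) (nat_lit 202)) (XT.lf (nat_lit 0) (nat_lit 110756934517) (nat_lit 380) (nat_lit 7039653743) (nat_lit 76) (nat_lit 6947861448) (nat_lit 266) (nat_lit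 5) (nat_lit 271) (nat_lit 5) (nat_lit 267) (nat_lit 5) (nat_lit 419) (nat_lit 400) (nat_lit 201))) (XT.nd (nat_lit 78) (nat_lit 304) (nat_lit 0) (XT.lf (nat_lit 0) (nat_lit 5086781000) (nat_lit 380) (nat_lit 61638413732) (nat_lit 76) (nat_lit 61543758829) (nat_lit 261) (nat_lit 5) (nat_lit 266) (nat_lit 5) (nat_lit 262) (nat_lit 5) (nat_lit 420) (nat_lit 400) (nat_lit 200)) (XT.lf (nat_lit 0) (nat_lit 12431131511) (nat_lit 304) (nat_lit 12528512708) (nat_lit 380) (nat_lit 106982826988) (nat_lit 257) (nat_lit 5) (nat_lit 261) (nat_lit 5) (nat_lit 262) (nat_lit 5) (nat_lit 421) (nat_lit 400) (nat_lit 199)))) (XT.nd (nat_lit 156) (nat_lit 228) (nat_lit 0) (XT.nd (nat_lit 78) (nat_lit 304) (nat_lit 0) (XT.lf (nat_lit 0) (nat_lit 47579678489) (nat_lit 380) (nat_lit 44113763340) (nat_lit 76) (nat_lit 44018546513) (nat_lit 257) (nat_lit 5) (nat_lit 262) (nat_lit 5) (nat_lit 258) (nat_lit 5) (nat_lit 422)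 (nat_lit 400) (nat_lit 198)) (XT.lf (nat_lit 0) (nat_lit 36000140217) (nat_lit 304) (nat_lit 36097712120) (nat_lit 380) (nat_lit 67533772103) (nat_lit 253) (nat_lit 5) (nat_lit 257) (nat_lit 5) (nat_lit 258) (nat_lit 5) (nat_lit 423) (nat_lit 400) (nat_lit 197))) (XT.nd (nat_lit 78) (nat_lit 228) (nat_lit 0) (XT.lf (nat_lit 0) (nat_lit 98948785792) (nat_lit 380) (nat_lit 22419087875) (nat_lit 76) (nat_lit 22324026130) (nat_lit 253) (nat_lit 5) (nat_lit 258) (nat_lit 5) (nat_lit 254) (nat_lit 5) (nat_lit 424) (nat_lit 400) (nat_lit 196)) (XT.lf (nat_lit 0) (nat_lit 64320434459) (nat_lit 228) (nat_lit 64417530607) (nat_lit 304) (nat_lit 19137438899) (nat_lit 250) (nat_lit 5) (nat_lit 253) (nat_lit 5) (nat_lit 254) (nat_lit 5) (nat_lit 425) (nat_lit 400) (nat_lit 195)))))))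
noncomputable def xc285 : XT := (XT.nd (nat_lit 1248) (nat_lit 1748) (nat_lit 0) (XT.nd (nat_lit 624) (nat_lit 988) (nat_lit 0) (XT.nd (nat_lit 312) (nat_lit 760) (nat_lit 0) (XT.nd (nat_lit 156) (nat_lit 228) (nat_lit 0) (XT.nd (nat_lit 78) (nat_lit 0) (nat_lit 0) (XT.lf (nat_lit 0) (nat_lit 3924184750) (nat_lit 304) (nat_lit 4023218424) (nat_lit 380) (nat_lit 144292287148) (nat_lit 245) (nat_lit 5) (nat_lit 249) (nat_lit 5) (nat_lit 250) (nat_lit 5) (nat_lit 426) (nat_lit 400) (nat_lit 194)) (XT.lf (nat_lit 0) (nat_lit 38108562612) (nat_lit 380) (nat_lit 59337878103) (nat_lit 76) (nat_lit 59241802924) (nat_lit 245) (nat_lit 5) (nat_lit 250) (nat_lit 5) (nat_lit 246) (nat_lit 5) (nat_lit 427) (nat_lit 400) (nat_lit 193))) (XT.nd (nat_lit 78) (nat_lit 0) (nat_lit 0) (XT.lf (nat_lit 0) (nat_lit 35147233048) (nat_lit 228) (nat_lit 35244981935) (nat_lit 304) (nat_lit 90936287888) (nat_lit 242) (nat_lit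 5) (nat_lit 245) (nat_lit 5) (nat_lit 246) (nat_lit 5) (nat_lit 428) (nat_lit 400) (nat_lit 192)) (XT.lf (nat_lit 0) (nat_lit 105780601767) (nat_lit 304) (nat_lit 30220128996) (nat_lit 76) (nat_lit 30125516715) (nat_lit 242) (nat_lit 5) (nat_lit 246) (nat_lit 5) (nat_lit 243) (nat_lit 5) (nat_lit 429) (nat_lit 400) (nat_lit 191)))) (XT.nd (nat_lit 156) (nat_lit 228) (nat_lit 0) (XT.nd (nat_lit 78) (nat_lit 304) (nat_lit 0) (XT.lf (nat_lit 0) (nat_lit 72274144874) (nat_lit 228) (nat_lit 72370202967) (nat_lit 304) (nat_lit 26434234475) (nat_lit 239) (nat_lit 5) (nat_lit 242) (nat_lit 5) (nat_lit 243) (nat_lit 5) (nat_lit 430) (nat_lit 400) (nat_lit 190)) (XT.lf (nat_lit 0) (nat_lit 4687423580) (nat_lit 228) (nat_lit 4784858637) (nat_lit 304) (nat_lit 166769435060) (nat_lit 235) (nat_lit 5) (nat_lit 238) (nat_lit 5) (nat_lit 239) (nat_lit 5) (nat_lit 431) (nat_lit 400) (nat_lit 189))) (XT.nd (nat_lit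 78) (nat_lit 228) (nat_lit 0) (XT.lf (nat_lit 0) (nat_lit 49019502687) (nat_lit 304) (nat_lit 66289598027) (nat_lit 76) (nat_lit 66195553788) (nat_lit 235) (nat_lit 5) (nat_lit 239) (nat_lit 5) (nat_lit 236) (nat_lit 5) (nat_lit 432) (nat_lit 400) (nat_lit 188)) (XT.lf (nat_lit 0) (nat_lit 45619655498) (nat_lit 228) (nat_lit 45714889211) (nat_lit 304) (nat_lit 95656670853) (nat_lit 232) (nat_lit 5) (nat_lit 235) (nat_lit 5) (nat_lit 236) (nat_lit 5) (nat_lit 433) (nat_lit 400) (nat_lit 187))))) (XT.nd (nat_lit 312) (nat_lit 532) (nat_lit 0) (XT.nd (nat_lit 156) (nat_lit 304) (nat_lit 0) (XT.nd (nat_lit 78) (nat_lit 152) (nat_lit 0) (XT.lf (nat_lit 0) (nat_lit 137333313735) (nat_lit 304) (nat_lit 27716084928) (nat_lit 76) (nat_lit 27624307267) (nat_lit 232) (nat_lit 5) (nat_lit 236) (nat_lit 5) (nat_lit 233) (nat_lit 5) (nat_lit 434) (nat_lit 400) (nat_lit 186)) (XT.lf (nat_lit 0) (nat_lit 93877054212)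 (nat_lit 152) (nat_lit 93969859385) (nat_lit 228) (nat_lit 10682662601) (nat_lit 230) (nat_lit 5) (nat_lit 232) (nat_lit 5) (nat_lit 233) (nat_lit 5) (nat_lit 435) (nat_lit 400) (nat_lit 185))) (XT.nd (nat_lit 78) (nat_lit 0) (nat_lit 0) (XT.lf (nat_lit 0) (nat_lit 17855464390) (nat_lit 228) (nat_lit 17949248146) (nat_lit 304) (nat_lit 168807480077) (nat_lit 226) (nat_lit 5) (nat_lit 229) (nat_lit 5) (nat_lit 230) (nat_lit 5) (nat_lit 436) (nat_lit 400) (nat_lit 184)) (XT.lf (nat_lit 0) (nat_lit 87024635017) (nat_lit 304) (nat_lit 61958697355) (nat_lit 76) (nat_lit 61868491890) (nat_lit 226) (nat_lit 5) (nat_lit 230) (nat_lit 5) (nat_lit 227) (nat_lit 5) (nat_lit 437) (nat_lit 400) (nat_lit 183)))) (XT.nd (nat_lit 156) (nat_lit 380) (nat_lit 0) (XT.nd (nat_lit 78) (nat_lit 0) (nat_lit 0) (XT.lf (nat_lit 0) (nat_lit 71058990802) (nat_lit 152) (nat_lit 71150041604) (nat_lit 228) (nat_lit 75124231149)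 (nat_lit 224) (nat_lit 5) (nat_lit 226) (nat_lit 5) (nat_lit 227) (nat_lit 5) (nat_lit 438) (nat_lit 400) (nat_lit 182)) (XT.lf (nat_lit 0) (nat_lit 201384057338) (nat_lit 228) (nat_lit 11390314443) (nat_lit 76) (nat_lit 11302832648) (nat_lit 224) (nat_lit 5) (nat_lit 227) (nat_lit 5) (nat_lit 225) (nat_lit 5) (nat_lit 439) (nat_lit 400) (nat_lit 181))) (XT.nd (nat_lit 78) (nat_lit 152) (nat_lit 0) (XT.lf (nat_lit 0) (nat_lit 34625028768) (nat_lit 228) (nat_lit 98215601160) (nat_lit 76) (nat_lit 98127389132) (nat_lit 221) (nat_lit 5) (nat_lit 224) (nat_lit 5) (nat_lit 222) (nat_lit 5) (nat_lit 440) (nat_lit 400) (nat_lit 180)) (XT.lf (nat_lit 0) (nat_lit 47447112327) (nat_lit 152) (nat_lit 47536019815) (nat_lit 228) (nat_lit 143154808474) (nat_lit 219) (nat_lit 5) (nat_lit 221) (nat_lit 5) (nat_lit 222) (nat_lit 5) (nat_lit 441) (nat_lit 400) (nat_lit 179)))))) (XT.nd (nat_lit 624) (nat_lit 912)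 (nat_lit 0) (XT.nd (nat_lit 312) (nat_lit 456) (nat_lit 0) (XT.nd (nat_lit 156) (nat_lit 228) (nat_lit 0) (XT.nd (nat_lit 78) (nat_lit 152) (nat_lit 0) (XT.lf (nat_lit 0) (nat_lit 160705817105) (nat_lit 228) (nat_lit 42464255964) (nat_lit 76) (nat_lit 42378951362) (nat_lit 219) (nat_lit 5) (nat_lit 222) (nat_lit 5) (nat_lit 220) (nat_lit 5) (nat_lit 442) (nat_lit 400) (nat_lit 178)) (XT.lf (nat_lit 0) (nat_lit 116110320283) (nat_lit 152) (nat_lit 116196225650) (nat_lit 228) (nat_lit 20894521022) (nat_lit 217) (nat_lit 5) (nat_lit 219) (nat_lit 5) (nat_lit 220) (nat_lit 5) (nat_lit 443) (nat_lit 400) (nat_lit 177))) (XT.nd (nat_lit 78) (nat_lit 0) (nat_lit 0) (XT.lf (nat_lit 0) (nat_lit 22886434802) (nat_lit 152) (nat_lit 22972912325) (nat_lit 228) (nat_lit 215285854246) (nat_lit 214) (nat_lit 5) (nat_lit 216) (nat_lit 5) (nat_lit 217) (nat_lit 5) (nat_lit 444) (nat_lit 400) (nat_lit 176)) (XT.lf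 (nat_lit 0) (nat_lit 118777879872) (nat_lit 228) (nat_lit 75298978144) (nat_lit 76) (nat_lit 75216099635) (nat_lit 214) (nat_lit 5) (nat_lit 217) (nat_lit 5) (nat_lit 215) (nat_lit 5) (nat_lit 445) (nat_lit 400) (nat_lit 175)))) (XT.nd (nat_lit 156) (nat_lit 304) (nat_lit 0) (XT.nd (nat_lit 78) (nat_lit 0) (nat_lit 0) (XT.lf (nat_lit 0) (nat_lit 98587315020) (nat_lit 152) (nat_lit 98670687780) (nat_lit 228) (nat_lit 80494315765) (nat_lit 212) (nat_lit 5) (nat_lit 214) (nat_lit 5) (nat_lit 215) (nat_lit 5) (nat_lit 446) (nat_lit 400) (nat_lit 174)) (XT.lf (nat_lit 0) (nat_lit 280981607135) (nat_lit 228) (nat_lit 2833458777) (nat_lit 76) (nat_lit 2753607848) (nat_lit 212) (nat_lit 5) (nat_lit 215) (nat_lit 5) (nat_lit 213) (nat_lit 4) (nat_lit 447) (nat_lit 400) (nat_lit 173))) (XT.nd (nat_lit 78) (nat_lit 152) (nat_lit 0) (XT.lf (nat_lit 0) (nat_lit 75333144868) (nat_lit 152) (nat_lit 110142817075)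 (nat_lit 76) (nat_lit 110062539194) (nat_lit 210) (nat_lit 5) (nat_lit 212) (nat_lit 5) (nat_lit 211) (nat_lit 5) (nat_lit 448) (nat_lit 400) (nat_lit 172)) (XT.lf (nat_lit 0) (nat_lit 80669507146) (nat_lit 152) (nat_lit 80750191649) (nat_lit 228) (nat_lit 143467136830) (nat_lit 208) (nat_lit 5) (nat_lit 210) (nat_lit 5) (nat_lit 211) (nat_lit 5) (nat_lit 449) (nat_lit 400) (nat_lit 171))))) (XT.nd (nat_lit 312) (nat_lit 608) (nat_lit 0) (XT.nd (nat_lit 156) (nat_lit 152) (nat_lit 0) (XT.nd (nat_lit 78) (nat_lit 152) (nat_lit 0) (XT.lf (nat_lit 0) (nat_lit 254162405952) (nat_lit 228) (nat_lit 30249900404) (nat_lit 76) (nat_lit 30172689204) (nat_lit 208) (nat_lit 5) (nat_lit 211) (nat_lit 5) (nat_lit 209) (nat_lit 4) (nat_lit 450) (nat_lit 400) (nat_lit 170)) (XT.lf (nat_lit 0) (nat_lit 30083747132) (nat_lit 152) (nat_lit 147266326324) (nat_lit 76) (nat_lit 147188763868) (nat_lit 206) (nat_lit 5)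 (nat_lit 208) (nat_lit 5) (nat_lit 207) (nat_lit 5) (nat_lit 451) (nat_lit 400) (nat_lit 169))) (XT.nd (nat_lit 78) (nat_lit 0) (nat_lit 0) (XT.lf (nat_lit 0) (nat_lit 62249674386) (nat_lit 152) (nat_lit 62327571369) (nat_lit 228) (nat_lit 210288976695) (nat_lit 204) (nat_lit 5) (nat_lit 206) (nat_lit 5) (nat_lit 207) (nat_lit 5) (nat_lit 452) (nat_lit 400) (nat_lit 168)) (XT.lf (nat_lit 0) (nat_lit 227242692648) (nat_lit 228) (nat_lit 59184705774) (nat_lit 76) (nat_lit 59110214744) (nat_lit 204) (nat_lit 5) (nat_lit 207) (nat_lit 5) (nat_lit 205) (nat_lit 4) (nat_lit 453) (nat_lit 400) (nat_lit 167)))) (XT.nd (nat_lit 156) (nat_lit 304) (nat_lit 0) (XT.nd (nat_lit 78) (nat_lit 228) (nat_lit 0) (XT.lf (nat_lit 0) (nat_lit 169315876020) (nat_lit 76) (nat_lit 169390656029) (nat_lit 152) (nat_lit 17852785360) (nat_lit 203) (nat_lit 5) (nat_lit 204) (nat_lit 5) (nat_lit 205) (nat_lit 4) (nat_lit 454)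 (nat_lit 400) (nat_lit 166)) (XT.lf (nat_lit 0) (nat_lit 43212787628) (nat_lit 152) (nat_lit 43287842854) (nat_lit 228) (nat_lit 281478418979) (nat_lit 200) (nat_lit 5) (nat_lit 202) (nat_lit 5) (nat_lit 203) (nat_lit 5) (nat_lit 455) (nat_lit 400) (nat_lit 165))) (XT.nd (nat_lit 78) (nat_lit 304) (nat_lit 0) (XT.lf (nat_lit 0) (nat_lit 200086066689) (nat_lit 228) (nat_lit 89855041392) (nat_lit 76) (nat_lit 89783310594) (nat_lit 200) (nat_lit 5) (nat_lit 203) (nat_lit 5) (nat_lit 201) (nat_lit 4) (nat_lit 456) (nat_lit 400) (nat_lit 164)) (XT.nd (nat_lit 78) (nat_lit 228) (nat_lit 0) (XT.lf (nat_lit 0) (nat_lit 161252961399) (nat_lit 76) (nat_lit 161324929940) (nat_lit 152) (nat_lit 69317809178) (nat_lit 199) (nat_lit 5) (nat_lit 200) (nat_lit 5) (nat_lit 201) (nat_lit 4) (nat_lit 457) (nat_lit 400) (nat_lit 163)) (XT.lf (nat_lit 0) (nat_lit 23435058316) (nat_lit 152) (nat_lit 23507253279) (nat_lit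 228) (nat_lit 357601298362) (nat_lit 196) (nat_lit 5) (nat_lit 198) (nat_lit 5) (nat_lit 199) (nat_lit 5) (nat_lit 458) (nat_lit 400) (nat_lit 162))))))))
noncomputable def xc286 : XT := (XT.nd (nat_lit 48906) (nat_lit 0) (nat_lit 4636) (XT.nd (nat_lit 1248) (nat_lit 836) (nat_lit 0) (XT.nd (nat_lit 624) (nat_lit 608) (nat_lit 0) (XT.nd (nat_lit 312) (nat_lit 304) (nat_lit 0) (XT.nd (nat_lit 156) (nat_lit 228) (nat_lit 0) (XT.nd (nat_lit 78) (nat_lit 76) (nat_lit 0) (XT.lf (nat_lit 0) (nat_lit 172548147802) (nat_lit 228) (nat_lit 122497399776) (nat_lit 76) (nat_lit 122428437297) (nat_lit 196) (nat_lit 5) (nat_lit 199) (nat_lit 5) (nat_lit 197) (nat_lit 4) (nat_lit 459) (nat_lit 400) (nat_lit 161)) (XT.lf (nat_lit 0) (nat_lit 153574040102) (nat_lit 76) (nat_lit 153643198173) (nat_lit 152) (nat_lit 123694492142) (nat_lit 195) (nat_lit 5) (nat_lit 196) (nat_lit 5) (nat_lit 197) (nat_lit 4) (nat_lit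 460) (nat_lit 400) (nat_lit 160))) (XT.nd (nat_lit 78) (nat_lit 0) (nat_lit 0) (XT.lf (nat_lit 0) (nat_lit 2782895589) (nat_lit 152) (nat_lit 2852239937) (nat_lit 228) (nat_lit 439275824269) (nat_lit 192) (nat_lit 5) (nat_lit 194) (nat_lit 5) (nat_lit 195) (nat_lit 5) (nat_lit 461) (nat_lit 400) (nat_lit 159)) (XT.lf (nat_lit 0) (nat_lit 144475472870) (nat_lit 228) (nat_lit 157369720661) (nat_lit 76) (nat_lit 157303509465) (nat_lit 192) (nat_lit 5) (nat_lit 195) (nat_lit 5) (nat_lit 193) (nat_lit 4) (nat_lit 462) (nat_lit 400) (nat_lit 158)))) (XT.nd (nat_lit 156) (nat_lit 228) (nat_lit 0) (XT.nd (nat_lit 78) (nat_lit 0) (nat_lit 0) (XT.lf (nat_lit 0) (nat_lit 146260818753) (nat_lit 76) (nat_lit 146327190863) (nat_lit 152) (nat_lit 181393814615) (nat_lit 191) (nat_lit 5) (nat_lit 192) (nat_lit 5) (nat_lit 193) (nat_lit 4) (nat_lit 463) (nat_lit 400) (nat_lit 157)) (XT.lf (nat_lit 0) (nat_lit 451079777910)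 (nat_lit 152) (nat_lit 19195750434) (nat_lit 0) (nat_lit 19132392947) (nat_lit 191) (nat_lit 5) (nat_lit 193) (nat_lit 4) (nat_lit 191) (nat_lit 4) (nat_lit 464) (nat_lit 400) (nat_lit 156))) (XT.nd (nat_lit 78) (nat_lit 76) (nat_lit 0) (XT.lf (nat_lit 0) (nat_lit 115704293232) (nat_lit 152) (nat_lit 194753722839) (nat_lit 76) (nat_lit 194690226349) (nat_lit 189) (nat_lit 5) (nat_lit 191) (nat_lit 5) (nat_lit 190) (nat_lit 4) (nat_lit 465) (nat_lit 400) (nat_lit 155)) (XT.lf (nat_lit 0) (nat_lit 139295876502) (nat_lit 76) (nat_lit 139359505377) (nat_lit 152) (nat_lit 242863525858) (nat_lit 188) (nat_lit 5) (nat_lit 189) (nat_lit 5) (nat_lit 190) (nat_lit 4) (nat_lit 466) (nat_lit 400) (nat_lit 154))))) (XT.nd (nat_lit 312) (nat_lit 380) (nat_lit 0) (XT.nd (nat_lit 156) (nat_lit 76) (nat_lit 0) (XT.nd (nat_lit 78) (nat_lit 152) (nat_lit 0) (XT.lf (nat_lit 0) (nat_lit 453735334225) (nat_lit 152)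 (nat_lit 42417212818) (nat_lit 0) (nat_lit 42356493814) (nat_lit 188) (nat_lit 5) (nat_lit 190) (nat_lit 4) (nat_lit 188) (nat_lit 4) (nat_lit 467) (nat_lit 400) (nat_lit 153)) (XT.lf (nat_lit 0) (nat_lit 86059261558) (nat_lit 152) (nat_lit 234957468574) (nat_lit 76) (nat_lit 234896635211) (nat_lit 186) (nat_lit 5) (nat_lit 188) (nat_lit 5) (nat_lit 187) (nat_lit 4) (nat_lit 468) (nat_lit 400) (nat_lit 152))) (XT.nd (nat_lit 78) (nat_lit 0) (nat_lit 0) (XT.lf (nat_lit 0) (nat_lit 132662623231) (nat_lit 76) (nat_lit 132723565506) (nat_lit 152) (nat_lit 308592167520) (nat_lit 185) (nat_lit 5) (nat_lit 186) (nat_lit 5) (nat_lit 187) (nat_lit 4) (nat_lit 469) (nat_lit 400) (nat_lit 151)) (XT.lf (nat_lit 0) (nat_lit 458738294188) (nat_lit 152) (nat_lit 67006749992) (nat_lit 0) (nat_lit 66948610942) (nat_lit 185) (nat_lit 5) (nat_lit 187) (nat_lit 4) (nat_lit 185) (nat_lit 4) (nat_lit 470) (nat_lit 400)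 (nat_lit 150)))) (XT.nd (nat_lit 156) (nat_lit 152) (nat_lit 0) (XT.nd (nat_lit 78) (nat_lit 76) (nat_lit 0) (XT.lf (nat_lit 0) (nat_lit 55351996385) (nat_lit 152) (nat_lit 278318184738) (nat_lit 76) (nat_lit 278259951605) (nat_lit 183) (nat_lit 5) (nat_lit 185) (nat_lit 5) (nat_lit 184) (nat_lit 4) (nat_lit 471) (nat_lit 400) (nat_lit 149)) (XT.lf (nat_lit 0) (nat_lit 126345259781) (nat_lit 76) (nat_lit 126403582517) (nat_lit 152) (nat_lit 379113497479) (nat_lit 182) (nat_lit 5) (nat_lit 183) (nat_lit 5) (nat_lit 184) (nat_lit 4) (nat_lit 472) (nat_lit 400) (nat_lit 148))) (XT.nd (nat_lit 78) (nat_lit 152) (nat_lit 0) (XT.lf (nat_lit 0) (nat_lit 466230453350) (nat_lit 152) (nat_lit 93152792210) (nat_lit 0) (nat_lit 93097165476) (nat_lit 182) (nat_lit 5) (nat_lit 184) (nat_lit 4) (nat_lit 182) (nat_lit 4) (nat_lit 473) (nat_lit 400) (nat_lit 147)) (XT.lf (nat_lit 0) (nat_lit 23379511203) (nat_lit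 152) (nat_lit 325205367309) (nat_lit 76) (nat_lit 325149663171) (nat_lit 180) (nat_lit 5) (nat_lit 182) (nat_lit 5) (nat_lit 181) (nat_lit 4) (nat_lit 474) (nat_lit 400) (nat_lit 146)))))) (XT.nd (nat_lit 624) (nat_lit 304) (nat_lit 0) (XT.nd (nat_lit 312) (nat_lit 228) (nat_lit 0) (XT.nd (nat_lit 156) (nat_lit 228) (nat_lit 0) (XT.nd (nat_lit 78) (nat_lit 0) (nat_lit 0) (XT.lf (nat_lit 0) (nat_lit 120328740126) (nat_lit 76) (nat_lit 120384517980) (nat_lit 152) (nat_lit 455011355633) (nat_lit 179) (nat_lit 5) (nat_lit 180) (nat_lit 5) (nat_lit 181) (nat_lit 4) (nat_lit 475) (nat_lit 400) (nat_lit 145)) (XT.lf (nat_lit 0) (nat_lit 476372845607) (nat_lit 152) (nat_lit 121060787379) (nat_lit 0) (nat_lit 121007598751) (nat_lit 179) (nat_lit 5) (nat_lit 181) (nat_lit 4) (nat_lit 179) (nat_lit 4) (nat_lit 476) (nat_lit 400) (nat_lit 144))) (XT.nd (nat_lit 78) (nat_lit 152) (nat_lit 0) (XT.lf (nat_lit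 0) (nat_lit 365722772440) (nat_lit 76) (nat_lit 365776024747) (nat_lit 76) (nat_lit 10410714212) (nat_lit 178) (nat_lit 4) (nat_lit 179) (nat_lit 5) (nat_lit 179) (nat_lit 4) (nat_lit 477) (nat_lit 400) (nat_lit 143)) (XT.lf (nat_lit 0) (nat_lit 114598735363) (nat_lit 76) (nat_lit 114652048317) (nat_lit 152) (nat_lit 536925017479) (nat_lit 176) (nat_lit 5) (nat_lit 177) (nat_lit 5) (nat_lit 178) (nat_lit 4) (nat_lit 478) (nat_lit 400) (nat_lit 142)))) (XT.nd (nat_lit 156) (nat_lit 152) (nat_lit 0) (XT.nd (nat_lit 78) (nat_lit 76) (nat_lit 0) (XT.lf (nat_lit 0) (nat_lit 489347491315) (nat_lit 152) (nat_lit 150955054908) (nat_lit 0) (nat_lit 150904225657) (nat_lit 176) (nat_lit 5) (nat_lit 178) (nat_lit 4) (nat_lit 176) (nat_lit 4) (nat_lit 479) (nat_lit 400) (nat_lit 141)) (XT.lf (nat_lit 0) (nat_lit 385145404368) (nat_lit 76) (nat_lit 385196286007) (nat_lit 76) (nat_lit 46752967960) (nat_lit 175)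 (nat_lit 4) (nat_lit 176) (nat_lit 5) (nat_lit 176) (nat_lit 4) (nat_lit 480) (nat_lit 400) (nat_lit 140))) (XT.nd (nat_lit 78) (nat_lit 0) (nat_lit 0) (XT.lf (nat_lit 0) (nat_lit 109141599450) (nat_lit 76) (nat_lit 109192530984) (nat_lit 152) (nat_lit 625555085979) (nat_lit 173) (nat_lit 5) (nat_lit 174) (nat_lit 5) (nat_lit 175) (nat_lit 4) (nat_lit 481) (nat_lit 400) (nat_lit 139)) (XT.lf (nat_lit 0) (nat_lit 505359335203) (nat_lit 152) (nat_lit 183080824339) (nat_lit 0) (nat_lit 183032272861) (nat_lit 173) (nat_lit 5) (nat_lit 175) (nat_lit 4) (nat_lit 173) (nat_lit 4) (nat_lit 482) (nat_lit 400) (nat_lit 138))))) (XT.nd (nat_lit 46722) (nat_lit 0) (nat_lit 9348) (XT.nd (nat_lit 156) (nat_lit 76) (nat_lit 0) (XT.nd (nat_lit 78) (nat_lit 152) (nat_lit 0) (XT.lf (nat_lit 0) (nat_lit 407419059923) (nat_lit 76) (nat_lit 407467654501) (nat_lit 76) (nat_lit 85140549058) (nat_lit 172) (nat_lit 4)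 (nat_lit 173) (nat_lit 5) (nat_lit 173) (nat_lit 4) (nat_lit 483) (nat_lit 400) (nat_lit 137)) (XT.lf (nat_lit 0) (nat_lit 103944336598) (nat_lit 76) (nat_lit 103992972225) (nat_lit 152) (nat_lit 721669977397) (nat_lit 170) (nat_lit 5) (nat_lit 171) (nat_lit 5) (nat_lit 172) (nat_lit 4) (nat_lit 484) (nat_lit 400) (nat_lit 136))) (XT.nd (nat_lit 78) (nat_lit 76) (nat_lit 0) (XT.lf (nat_lit 0) (nat_lit 524638393048) (nat_lit 152) (nat_lit 217706477939) (nat_lit 0) (nat_lit 217660121063) (nat_lit 170) (nat_lit 5) (nat_lit 172) (nat_lit 4) (nat_lit 170) (nat_lit 4) (nat_lit 485) (nat_lit 400) (nat_lit 135)) (XT.lf (nat_lit 0) (nat_lit 432795004162) (nat_lit 76) (nat_lit 432841396498) (nat_lit 76) (nat_lit 125863089053) (nat_lit 169) (nat_lit 4) (nat_lit 170) (nat_lit 5) (nat_lit 170) (nat_lit 4) (nat_lit 486) (nat_lit 400) (nat_lit 134)))) (XT.nd (nat_lit 156) (nat_lit 0) (nat_lit 76) (XT.nd (nat_lit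 78) (nat_lit 0) (nat_lit 0) (XT.lf (nat_lit 0) (nat_lit 18641781840) (nat_lit 836) (nat_lit 10575732542) (nat_lit 836) (nat_lit 10575732542) (nat_lit 292) (nat_lit 3) (nat_lit 303) (nat_lit 3) (nat_lit 303) (nat_lit 5) (nat_lit 401) (nat_lit 401) (nat_lit 218)) (XT.lf (nat_lit 76) (nat_lit 19258163336) (nat_lit 0) (nat_lit 19268341837) (nat_lit 836) (nat_lit 43034108400) (nat_lit 293) (nat_lit 5) (nat_lit 292) (nat_lit 3) (nat_lit 303) (nat_lit 5) (nat_lit 402) (nat_lit 401) (nat_lit 217))) (XT.nd (nat_lit 78) (nat_lit 0) (nat_lit 0) (XT.lf (nat_lit 0) (nat_lit 40536268031) (nat_lit 760) (nat_lit 21540431776) (nat_lit 836) (nat_lit 21521505765) (nat_lit 293) (nat_lit 5) (nat_lit 303) (nat_lit 5) (nat_lit 304) (nat_lit 5) (nat_lit 403) (nat_lit 401) (nat_lit 216)) (XT.lf (nat_lit 76) (nat_lit 21635925536) (nat_lit 0) (nat_lit 21663644119) (nat_lit 836) (nat_lit 42405454983) (nat_lit 294) (nat_lit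 5) (nat_lit 293) (nat_lit 5) (nat_lit 304) (nat_lit 5) (nat_lit 404) (nat_lit 401) (nat_lit 215))))))) (XT.nd (nat_lit 1248) (nat_lit 2736) (nat_lit 0) (XT.nd (nat_lit 624) (nat_lit 1596) (nat_lit 0) (XT.nd (nat_lit 312) (nat_lit 532) (nat_lit 0) (XT.nd (nat_lit 156) (nat_lit 0) (nat_lit 76) (XT.nd (nat_lit 78) (nat_lit 0) (nat_lit 0) (XT.lf (nat_lit 0) (nat_lit 46895499406) (nat_lit 760) (nat_lit 20510667937) (nat_lit 836) (nat_lit 20476294164) (nat_lit 294) (nat_lit 5) (nat_lit 304) (nat_lit 5) (nat_lit 305) (nat_lit 5) (nat_lit 405) (nat_lit 401) (nat_lit 214)) (XT.lf (nat_lit 76) (nat_lit 25692482178) (nat_lit 0) (nat_lit 25734451306) (nat_lit 836) (nat_lit 38704051341) (nat_lit 295) (nat_lit 5) (nat_lit 294) (nat_lit 5) (nat_lit 305) (nat_lit 5) (nat_lit 406) (nat_lit 401) (nat_lit 213))) (XT.nd (nat_lit 78) (nat_lit 0) (nat_lit 0) (XT.lf (nat_lit 0) (nat_lit 56818805943) (nat_lit 760) (nat_lit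 17844147421) (nat_lit 836) (nat_lit 17797287613) (nat_lit 295) (nat_lit 5) (nat_lit 305) (nat_lit 5) (nat_lit 306) (nat_lit 5) (nat_lit 407) (nat_lit 401) (nat_lit 212)) (XT.lf (nat_lit 76) (nat_lit 31671344890) (nat_lit 0) (nat_lit 31724765851) (nat_lit 836) (nat_lit 31464057258) (nat_lit 296) (nat_lit 5) (nat_lit 295) (nat_lit 5) (nat_lit 306) (nat_lit 5) (nat_lit 408) (nat_lit 401) (nat_lit 211)))) (XT.nd (nat_lit 156) (nat_lit 684) (nat_lit 0) (XT.nd (nat_lit 78) (nat_lit 0) (nat_lit 0) (XT.lf (nat_lit 0) (nat_lit 70817530862) (nat_lit 760) (nat_lit 13296813136) (nat_lit 836) (nat_lit 13239984872) (nat_lit 296) (nat_lit 5) (nat_lit 306) (nat_lit 5) (nat_lit 307) (nat_lit 5) (nat_lit 409) (nat_lit 401) (nat_lit 210)) (XT.lf (nat_lit 76) (nat_lit 39844609101) (nat_lit 0) (nat_lit 39907105136) (nat_lit 836) (nat_lit 20164398934) (nat_lit 297) (nat_lit 5) (nat_lit 296) (nat_lit 5) (nat_lit 307)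 (nat_lit 5) (nat_lit 410) (nat_lit 401) (nat_lit 209))) (XT.nd (nat_lit 78) (nat_lit 760) (nat_lit 0) (XT.lf (nat_lit 0) (nat_lit 89462679253) (nat_lit 760) (nat_lit 6595732339) (nat_lit 76) (nat_lit 6531071472) (nat_lit 297) (nat_lit 5) (nat_lit 307) (nat_lit 5) (nat_lit 298) (nat_lit 5) (nat_lit 411) (nat_lit 401) (nat_lit 208)) (XT.lf (nat_lit 0) (nat_lit 50516057565) (nat_lit 760) (nat_lit 50585614466) (nat_lit 836) (nat_lit 4222725444) (nat_lit 287) (nat_lit 5) (nat_lit 297) (nat_lit 5) (nat_lit 298) (nat_lit 5) (nat_lit 412) (nat_lit 401) (nat_lit 207))))) (XT.nd (nat_lit 312) (nat_lit 684) (nat_lit 0) (XT.nd (nat_lit 156) (nat_lit 380) (nat_lit 0) (XT.nd (nat_lit 78) (nat_lit 0) (nat_lit 0) (XT.lf (nat_lit 0) (nat_lit 2520356712) (nat_lit 456) (nat_lit 2594576502) (nat_lit 532) (nat_lit 103069499487) (nat_lit 280) (nat_lit 5) (nat_lit 286) (nat_lit 5) (nat_lit 287) (nat_lit 5) (nat_lit 413)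 (nat_lit 401) (nat_lit 206)) (XT.lf (nat_lit 0) (nat_lit 16466805352) (nat_lit 532) (nat_lit 47353827943) (nat_lit 76) (nat_lit 47278913052) (nat_lit 280) (nat_lit 5) (nat_lit 287) (nat_lit 5) (nat_lit 281) (nat_lit 5) (nat_lit 414) (nat_lit 401) (nat_lit 205))) (XT.nd (nat_lit 78) (nat_lit 0) (nat_lit 0) (XT.lf (nat_lit 0) (nat_lit 14286260102) (nat_lit 380) (nat_lit 14365202972) (nat_lit 456) (nat_lit 85495693002) (nat_lit 275) (nat_lit 5) (nat_lit 280) (nat_lit 5) (nat_lit 281) (nat_lit 5) (nat_lit 415) (nat_lit 401) (nat_lit 204)) (XT.lf (nat_lit 0) (nat_lit 42846546206) (nat_lit 456) (nat_lit 37254688821) (nat_lit 76) (nat_lit 37175851640) (nat_lit 275) (nat_lit 5) (nat_lit 281) (nat_lit 5) (nat_lit 276) (nat_lit 5) (nat_lit 416) (nat_lit 401) (nat_lit 203)))) (XT.nd (nat_lit 156) (nat_lit 304) (nat_lit 0) (XT.nd (nat_lit 78) (nat_lit 0) (nat_lit 0) (XT.lf (nat_lit 0) (nat_lit 29179890882)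 (nat_lit 380) (nat_lit 29262207582) (nat_lit 456) (nat_lit 62086879574) (nat_lit 270) (nat_lit 5) (nat_lit 275) (nat_lit 5) (nat_lit 276) (nat_lit 5) (nat_lit 417) (nat_lit 401) (nat_lit 202)) (XT.lf (nat_lit 0) (nat_lit 75834910018) (nat_lit 456) (nat_lit 24069616379) (nat_lit 76) (nat_lit 23988063495) (nat_lit 270) (nat_lit 5) (nat_lit 276) (nat_lit 5) (nat_lit 271) (nat_lit 5) (nat_lit 418) (nat_lit 401) (nat_lit 201))) (XT.nd (nat_lit 78) (nat_lit 0) (nat_lit 0) (XT.lf (nat_lit 0) (nat_lit 47617813414) (nat_lit 304) (nat_lit 47702372038) (nat_lit 380) (nat_lit 32043055724) (nat_lit 266) (nat_lit 5) (nat_lit 270) (nat_lit 5) (nat_lit 271) (nat_lit 5) (nat_lit 419) (nat_lit 401) (nat_lit 200)) (XT.lf (nat_lit 0) (nat_lit 116304719892) (nat_lit 380) (nat_lit 7379856843) (nat_lit 76) (nat_lit 7296598526) (nat_lit 266) (nat_lit 5) (nat_lit 271) (nat_lit 5) (nat_lit 267) (nat_lit 5) (nat_lit 420)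 (nat_lit 401) (nat_lit 199)))))) (XT.nd (nat_lit 624) (nat_lit 1140) (nat_lit 0) (XT.nd (nat_lit 312) (nat_lit 608) (nat_lit 0) (XT.nd (nat_lit 156) (nat_lit 304) (nat_lit 0) (XT.nd (nat_lit 78) (nat_lit 304) (nat_lit 0) (XT.lf (nat_lit 0) (nat_lit 5350924513) (nat_lit 380) (nat_lit 64708420646) (nat_lit 76) (nat_lit 64622565858) (nat_lit 261) (nat_lit 5) (nat_lit 266) (nat_lit 5) (nat_lit 262) (nat_lit 5) (nat_lit 421) (nat_lit 401) (nat_lit 198)) (XT.lf (nat_lit 0) (nat_lit 13064409702) (nat_lit 304) (nat_lit 13152737319) (nat_lit 380) (nat_lit 112321971718) (nat_lit 257) (nat_lit 5) (nat_lit 261) (nat_lit 5) (nat_lit 262) (nat_lit 5) (nat_lit 422) (nat_lit 401) (nat_lit 197))) (XT.nd (nat_lit 78) (nat_lit 304) (nat_lit 0) (XT.lf (nat_lit 0) (nat_lit 49967762370) (nat_lit 380) (nat_lit 46307867430) (nat_lit 76) (nat_lit 46221502961) (nat_lit 257) (nat_lit 5) (nat_lit 262) (nat_lit 5) (nat_lit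 258) (nat_lit 5) (nat_lit 423) (nat_lit 401) (nat_lit 196)) (XT.lf (nat_lit 0) (nat_lit 37811544464) (nat_lit 304) (nat_lit 37900045057) (nat_lit 380) (nat_lit 70901173912) (nat_lit 253) (nat_lit 5) (nat_lit 257) (nat_lit 5) (nat_lit 258) (nat_lit 5) (nat_lit 424) (nat_lit 401) (nat_lit 195)))) (XT.nd (nat_lit 156) (nat_lit 380) (nat_lit 0) (XT.nd (nat_lit 78) (nat_lit 228) (nat_lit 0) (XT.lf (nat_lit 0) (nat_lit 103904686437) (nat_lit 380) (nat_lit 23528804544) (nat_lit 76) (nat_lit 23442580738) (nat_lit 253) (nat_lit 5) (nat_lit 258) (nat_lit 5) (nat_lit 254) (nat_lit 5) (nat_lit 425) (nat_lit 401) (nat_lit 194)) (XT.lf (nat_lit 0) (nat_lit 67547512653) (nat_lit 228) (nat_lit 67635581721) (nat_lit 304) (nat_lit 20085668235) (nat_lit 250) (nat_lit 5) (nat_lit 253) (nat_lit 5) (nat_lit 254) (nat_lit 5) (nat_lit 426) (nat_lit 401) (nat_lit 193))) (XT.nd (nat_lit 78) (nat_lit 0) (nat_lit 0) (XT.lf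 (nat_lit 0) (nat_lit 4131544284) (nat_lit 304) (nat_lit 4221370746) (nat_lit 380) (nat_lit 151498352723) (nat_lit 245) (nat_lit 5) (nat_lit 249) (nat_lit 5) (nat_lit 250) (nat_lit 5) (nat_lit 427) (nat_lit 401) (nat_lit 192)) (XT.lf (nat_lit 0) (nat_lit 40021789476) (nat_lit 380) (nat_lit 62293809713) (nat_lit 76) (nat_lit 62206666694) (nat_lit 245) (nat_lit 5) (nat_lit 250) (nat_lit 5) (nat_lit 246) (nat_lit 5) (nat_lit 428) (nat_lit 401) (nat_lit 191))))) (XT.nd (nat_lit 312) (nat_lit 380) (nat_lit 0) (XT.nd (nat_lit 156) (nat_lit 532) (nat_lit 0) (XT.nd (nat_lit 78) (nat_lit 0) (nat_lit 0) (XT.lf (nat_lit 0) (nat_lit 36915380184) (nat_lit 228) (nat_lit 37004041306) (nat_lit 304) (nat_lit 95475126738) (nat_lit 242) (nat_lit 5) (nat_lit 245) (nat_lit 5) (nat_lit 246) (nat_lit 5) (nat_lit 429) (nat_lit 401) (nat_lit 190)) (XT.lf (nat_lit 0) (nat_lit 111076913339) (nat_lit 304) (nat_lit 31720549283)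 (nat_lit 76) (nat_lit 31634733155) (nat_lit 242) (nat_lit 5) (nat_lit 246) (nat_lit 5) (nat_lit 243) (nat_lit 5) (nat_lit 430) (nat_lit 401) (nat_lit 189))) (XT.nd (nat_lit 78) (nat_lit 304) (nat_lit 0) (XT.lf (nat_lit 0) (nat_lit 75898267535) (nat_lit 228) (nat_lit 75985395058) (nat_lit 304) (nat_lit 27748493970) (nat_lit 239) (nat_lit 5) (nat_lit 242) (nat_lit 5) (nat_lit 243) (nat_lit 5) (nat_lit 431) (nat_lit 401) (nat_lit 188)) (XT.lf (nat_lit 0) (nat_lit 4932276857) (nat_lit 228) (nat_lit 5020653326) (nat_lit 304) (nat_lit 175100521265) (nat_lit 235) (nat_lit 5) (nat_lit 238) (nat_lit 5) (nat_lit 239) (nat_lit 5) (nat_lit 432) (nat_lit 401) (nat_lit 187)))) (XT.nd (nat_lit 156) (nat_lit 152) (nat_lit 0) (XT.nd (nat_lit 78) (nat_lit 228) (nat_lit 0) (XT.lf (nat_lit 0) (nat_lit 51477228004) (nat_lit 304) (nat_lit 69593811306) (nat_lit 76) (nat_lit 69508510408) (nat_lit 235) (nat_lit 5) (nat_lit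 239) (nat_lit 5) (nat_lit 236) (nat_lit 5) (nat_lit 433) (nat_lit 401) (nat_lit 186)) (XT.lf (nat_lit 0) (nat_lit 47910739305) (nat_lit 228) (nat_lit 47997119090) (nat_lit 304) (nat_lit 100432588623) (nat_lit 232) (nat_lit 5) (nat_lit 235) (nat_lit 5) (nat_lit 236) (nat_lit 5) (nat_lit 434) (nat_lit 401) (nat_lit 185))) (XT.nd (nat_lit 78) (nat_lit 152) (nat_lit 0) (XT.lf (nat_lit 0) (nat_lit 144206304492) (nat_lit 304) (nat_lit 29092007763) (nat_lit 76) (nat_lit 29008762719) (nat_lit 232) (nat_lit 5) (nat_lit 236) (nat_lit 5) (nat_lit 233) (nat_lit 5) (nat_lit 435) (nat_lit 401) (nat_lit 184)) (XT.lf (nat_lit 0) (nat_lit 98580628957) (nat_lit 152) (nat_lit 98664805984) (nat_lit 228) (nat_lit 11210311284) (nat_lit 230) (nat_lit 5) (nat_lit 232) (nat_lit 5) (nat_lit 233) (nat_lit 5) (nat_lit 436) (nat_lit 401) (nat_lit 183))))))))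
noncomputable def xc287 : XT := (XT.nd (nat_lit 2496) (nat_lit 1368) (nat_lit 0) (XT.nd (nat_lit 1248) (nat_lit 1368) (nat_lit 0) (XT.nd (nat_lit 624) (nat_lit 836) (nat_lit 0) (XT.nd (nat_lit 312) (nat_lit 532) (nat_lit 0) (XT.nd (nat_lit 156) (nat_lit 152) (nat_lit 0) (XT.nd (nat_lit 78) (nat_lit 0) (nat_lit 0) (XT.lf (nat_lit 0) (nat_lit 18758007032) (nat_lit 228) (nat_lit 18843071663) (nat_lit 304) (nat_lit 177241417021) (nat_lit 226) (nat_lit 5) (nat_lit 229) (nat_lit 5) (nat_lit 230) (nat_lit 5) (nat_lit 437) (nat_lit 401) (nat_lit 182)) (XT.lf (nat_lit 0) (nat_lit 91381759478) (nat_lit 304) (nat_lit 65047090189) (nat_lit 76) (nat_lit 64965271172) (nat_lit 226) (nat_lit 5) (nat_lit 230) (nat_lit 5) (nat_lit 227) (nat_lit 5) (nat_lit 438) (nat_lit 401) (nat_lit 181))) (XT.nd (nat_lit 78) (nat_lit 0) (nat_lit 0) (XT.lf (nat_lit 0) (nat_lit 74621328472) (nat_lit 152) (nat_lit 74703914234) (nat_lit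 228) (nat_lit 78874396092) (nat_lit 224) (nat_lit 5) (nat_lit 226) (nat_lit 5) (nat_lit 227) (nat_lit 5) (nat_lit 439) (nat_lit 401) (nat_lit 180)) (XT.lf (nat_lit 0) (nat_lit 211458798630) (nat_lit 228) (nat_lit 11950668833) (nat_lit 76) (nat_lit 11871320266) (nat_lit 224) (nat_lit 5) (nat_lit 227) (nat_lit 5) (nat_lit 225) (nat_lit 5) (nat_lit 440) (nat_lit 401) (nat_lit 179)))) (XT.nd (nat_lit 156) (nat_lit 152) (nat_lit 0) (XT.nd (nat_lit 78) (nat_lit 152) (nat_lit 0) (XT.lf (nat_lit 0) (nat_lit 36361784401) (nat_lit 228) (nat_lit 103117185656) (nat_lit 76) (nat_lit 103037174746) (nat_lit 221) (nat_lit 5) (nat_lit 224) (nat_lit 5) (nat_lit 222) (nat_lit 5) (nat_lit 441) (nat_lit 401) (nat_lit 178)) (XT.lf (nat_lit 0) (nat_lit 49828515190) (nat_lit 152) (nat_lit 49909156903) (nat_lit 228) (nat_lit 150306896388) (nat_lit 219) (nat_lit 5) (nat_lit 221) (nat_lit 5) (nat_lit 222) (nat_lit 5) (nat_lit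 442) (nat_lit 401) (nat_lit 177))) (XT.nd (nat_lit 78) (nat_lit 152) (nat_lit 0) (XT.lf (nat_lit 0) (nat_lit 168746289433) (nat_lit 228) (nat_lit 44578650467) (nat_lit 76) (nat_lit 44501276679) (nat_lit 219) (nat_lit 5) (nat_lit 222) (nat_lit 5) (nat_lit 220) (nat_lit 5) (nat_lit 443) (nat_lit 401) (nat_lit 176)) (XT.lf (nat_lit 0) (nat_lit 121924512362) (nat_lit 152) (nat_lit 122002431062) (nat_lit 228) (nat_lit 21933923370) (nat_lit 217) (nat_lit 5) (nat_lit 219) (nat_lit 5) (nat_lit 220) (nat_lit 5) (nat_lit 444) (nat_lit 401) (nat_lit 175))))) (XT.nd (nat_lit 312) (nat_lit 456) (nat_lit 0) (XT.nd (nat_lit 156) (nat_lit 152) (nat_lit 0) (XT.nd (nat_lit 78) (nat_lit 0) (nat_lit 0) (XT.lf (nat_lit 0) (nat_lit 24039460313) (nat_lit 152) (nat_lit 24117897976) (nat_lit 228) (nat_lit 226044850962) (nat_lit 214) (nat_lit 5) (nat_lit 216) (nat_lit 5) (nat_lit 217) (nat_lit 5) (nat_lit 445) (nat_lit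 401) (nat_lit 174)) (XT.lf (nat_lit 0) (nat_lit 124721631912) (nat_lit 228) (nat_lit 79055451985) (nat_lit 76) (nat_lit 78980278734) (nat_lit 214) (nat_lit 5) (nat_lit 217) (nat_lit 5) (nat_lit 215) (nat_lit 5) (nat_lit 446) (nat_lit 401) (nat_lit 173))) (XT.nd (nat_lit 78) (nat_lit 0) (nat_lit 0) (XT.lf (nat_lit 0) (nat_lit 103525019142) (nat_lit 152) (nat_lit 103600640693) (nat_lit 228) (nat_lit 84514036812) (nat_lit 212) (nat_lit 5) (nat_lit 214) (nat_lit 5) (nat_lit 215) (nat_lit 5) (nat_lit 447) (nat_lit 401) (nat_lit 172)) (XT.lf (nat_lit 0) (nat_lit 295035271124) (nat_lit 228) (nat_lit 2967017144) (nat_lit 76) (nat_lit 2894589998) (nat_lit 212) (nat_lit 5) (nat_lit 215) (nat_lit 5) (nat_lit 213) (nat_lit 4) (nat_lit 448) (nat_lit 401) (nat_lit 171)))) (XT.nd (nat_lit 156) (nat_lit 152) (nat_lit 0) (XT.nd (nat_lit 78) (nat_lit 152) (nat_lit 0) (XT.lf (nat_lit 0) (nat_lit 79104365729) (nat_lit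 152) (nat_lit 115641823344) (nat_lit 76) (nat_lit 115569008940) (nat_lit 210) (nat_lit 5) (nat_lit 212) (nat_lit 5) (nat_lit 211) (nat_lit 5) (nat_lit 449) (nat_lit 401) (nat_lit 170)) (XT.lf (nat_lit 0) (nat_lit 84710985885) (nat_lit 152) (nat_lit 84784169107) (nat_lit 228) (nat_lit 150635798851) (nat_lit 208) (nat_lit 5) (nat_lit 210) (nat_lit 5) (nat_lit 211) (nat_lit 5) (nat_lit 450) (nat_lit 401) (nat_lit 169))) (XT.nd (nat_lit 78) (nat_lit 152) (nat_lit 0) (XT.lf (nat_lit 0) (nat_lit 266874837111) (nat_lit 228) (nat_lit 31754612759) (nat_lit 76) (nat_lit 31684579925) (nat_lit 208) (nat_lit 5) (nat_lit 211) (nat_lit 5) (nat_lit 209) (nat_lit 4) (nat_lit 451) (nat_lit 401) (nat_lit 168)) (XT.lf (nat_lit 0) (nat_lit 31592228885) (nat_lit 152) (nat_lit 154621843510) (nat_lit 76) (nat_lit 154551492076) (nat_lit 206) (nat_lit 5) (nat_lit 208) (nat_lit 5) (nat_lit 207) (nat_lit 5) (nat_lit 452)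 (nat_lit 401) (nat_lit 167)))))) (XT.nd (nat_lit 624) (nat_lit 608) (nat_lit 0) (XT.nd (nat_lit 312) (nat_lit 304) (nat_lit 0) (XT.nd (nat_lit 156) (nat_lit 304) (nat_lit 0) (XT.nd (nat_lit 78) (nat_lit 0) (nat_lit 0) (XT.lf (nat_lit 0) (nat_lit 65369831443) (nat_lit 152) (nat_lit 65440486303) (nat_lit 228) (nat_lit 220799005341) (nat_lit 204) (nat_lit 5) (nat_lit 206) (nat_lit 5) (nat_lit 207) (nat_lit 5) (nat_lit 453) (nat_lit 401) (nat_lit 166)) (XT.lf (nat_lit 0) (nat_lit 238608888023) (nat_lit 228) (nat_lit 62136484162) (nat_lit 76) (nat_lit 62068918602) (nat_lit 204) (nat_lit 5) (nat_lit 207) (nat_lit 5) (nat_lit 205) (nat_lit 4) (nat_lit 454) (nat_lit 401) (nat_lit 165))) (XT.nd (nat_lit 78) (nat_lit 228) (nat_lit 0) (XT.lf (nat_lit 0) (nat_lit 177789006449) (nat_lit 76) (nat_lit 177856834122) (nat_lit 152) (nat_lit 18741243612) (nat_lit 203) (nat_lit 5) (nat_lit 204) (nat_lit 5) (nat_lit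 205) (nat_lit 4) (nat_lit 455) (nat_lit 401) (nat_lit 164)) (XT.lf (nat_lit 0) (nat_lit 45380776965) (nat_lit 152) (nat_lit 45448854268) (nat_lit 228) (nat_lit 295548172240) (nat_lit 200) (nat_lit 5) (nat_lit 202) (nat_lit 5) (nat_lit 203) (nat_lit 5) (nat_lit 456) (nat_lit 401) (nat_lit 163)))) (XT.nd (nat_lit 156) (nat_lit 228) (nat_lit 0) (XT.nd (nat_lit 78) (nat_lit 76) (nat_lit 0) (XT.lf (nat_lit 0) (nat_lit 210094200508) (nat_lit 228) (nat_lit 94340654762) (nat_lit 76) (nat_lit 94275592814) (nat_lit 200) (nat_lit 5) (nat_lit 203) (nat_lit 5) (nat_lit 201) (nat_lit 4) (nat_lit 457) (nat_lit 401) (nat_lit 162)) (XT.lf (nat_lit 0) (nat_lit 169322633029) (nat_lit 76) (nat_lit 169387910617) (nat_lit 152) (nat_lit 72779754011) (nat_lit 199) (nat_lit 5) (nat_lit 200) (nat_lit 5) (nat_lit 201) (nat_lit 4) (nat_lit 458) (nat_lit 401) (nat_lit 161))) (XT.nd (nat_lit 78) (nat_lit 0) (nat_lit 0) (XT.lf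 (nat_lit 0) (nat_lit 24613845756) (nat_lit 152) (nat_lit 24679328715) (nat_lit 228) (nat_lit 375477428619) (nat_lit 196) (nat_lit 5) (nat_lit 198) (nat_lit 5) (nat_lit 199) (nat_lit 5) (nat_lit 459) (nat_lit 401) (nat_lit 160)) (XT.lf (nat_lit 0) (nat_lit 181179172924) (nat_lit 228) (nat_lit 128615440655) (nat_lit 76) (nat_lit 128552889653) (nat_lit 196) (nat_lit 5) (nat_lit 199) (nat_lit 5) (nat_lit 197) (nat_lit 4) (nat_lit 460) (nat_lit 401) (nat_lit 159))))) (XT.nd (nat_lit 312) (nat_lit 228) (nat_lit 0) (XT.nd (nat_lit 156) (nat_lit 76) (nat_lit 0) (XT.nd (nat_lit 78) (nat_lit 228) (nat_lit 0) (XT.lf (nat_lit 0) (nat_lit 161259461071) (nat_lit 76) (nat_lit 161322189479) (nat_lit 152) (nat_lit 129875488869) (nat_lit 195) (nat_lit 5) (nat_lit 196) (nat_lit 5) (nat_lit 197) (nat_lit 4) (nat_lit 461) (nat_lit 401) (nat_lit 158)) (XT.lf (nat_lit 0) (nat_lit 2928768352) (nat_lit 152) (nat_lit 2991665720)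 (nat_lit 228) (nat_lit 461235896623) (nat_lit 192) (nat_lit 5) (nat_lit 194) (nat_lit 5) (nat_lit 195) (nat_lit 5) (nat_lit 462) (nat_lit 401) (nat_lit 157))) (XT.nd (nat_lit 78) (nat_lit 76) (nat_lit 0) (XT.lf (nat_lit 0) (nat_lit 151702667005) (nat_lit 228) (nat_lit 165231677811) (nat_lit 76) (nat_lit 165171622304) (nat_lit 192) (nat_lit 5) (nat_lit 195) (nat_lit 5) (nat_lit 193) (nat_lit 4) (nat_lit 463) (nat_lit 401) (nat_lit 156)) (XT.lf (nat_lit 0) (nat_lit 153580283268) (nat_lit 76) (nat_lit 153640484729) (nat_lit 152) (nat_lit 190459979550) (nat_lit 191) (nat_lit 5) (nat_lit 192) (nat_lit 5) (nat_lit 193) (nat_lit 4) (nat_lit 464) (nat_lit 401) (nat_lit 155)))) (XT.nd (nat_lit 156) (nat_lit 76) (nat_lit 0) (XT.nd (nat_lit 78) (nat_lit 152) (nat_lit 0) (XT.lf (nat_lit 0) (nat_lit 473637010391) (nat_lit 152) (nat_lit 20149305947) (nat_lit 0) (nat_lit 20091838838) (nat_lit 191) (nat_lit 5)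 (nat_lit 193) (nat_lit 4) (nat_lit 191) (nat_lit 4) (nat_lit 465) (nat_lit 401) (nat_lit 154)) (XT.lf (nat_lit 0) (nat_lit 121492744964) (nat_lit 152) (nat_lit 204485170456) (nat_lit 76) (nat_lit 204427577268) (nat_lit 189) (nat_lit 5) (nat_lit 191) (nat_lit 5) (nat_lit 190) (nat_lit 4) (nat_lit 466) (nat_lit 401) (nat_lit 153))) (XT.nd (nat_lit 78) (nat_lit 0) (nat_lit 0) (XT.lf (nat_lit 0) (nat_lit 146266808231) (nat_lit 76) (nat_lit 146324521495) (nat_lit 152) (nat_lit 255003364460) (nat_lit 188) (nat_lit 5) (nat_lit 189) (nat_lit 5) (nat_lit 190) (nat_lit 4) (nat_lit 467) (nat_lit 401) (nat_lit 152)) (XT.lf (nat_lit 0) (nat_lit 476425172320) (nat_lit 152) (nat_lit 44532120468) (nat_lit 0) (nat_lit 44477046541) (nat_lit 188) (nat_lit 5) (nat_lit 190) (nat_lit 4) (nat_lit 188) (nat_lit 4) (nat_lit 468) (nat_lit 401) (nat_lit 151))))))) (XT.nd (nat_lit 1248) (nat_lit 152) (nat_lit 0) (XT.nd (nat_lit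 624) (nat_lit 532) (nat_lit 0) (XT.nd (nat_lit 312) (nat_lit 304) (nat_lit 0) (XT.nd (nat_lit 156) (nat_lit 152) (nat_lit 0) (XT.nd (nat_lit 78) (nat_lit 76) (nat_lit 0) (XT.lf (nat_lit 0) (nat_lit 90365290660) (nat_lit 152) (nat_lit 246699383651) (nat_lit 76) (nat_lit 246644205997) (nat_lit 186) (nat_lit 5) (nat_lit 188) (nat_lit 5) (nat_lit 187) (nat_lit 4) (nat_lit 469) (nat_lit 401) (nat_lit 150)) (XT.lf (nat_lit 0) (nat_lit 139301616641) (nat_lit 76) (nat_lit 139356893082) (nat_lit 152) (nat_lit 324018613769) (nat_lit 185) (nat_lit 5) (nat_lit 186) (nat_lit 5) (nat_lit 187) (nat_lit 4) (nat_lit 470) (nat_lit 401) (nat_lit 149))) (XT.nd (nat_lit 78) (nat_lit 152) (nat_lit 0) (XT.lf (nat_lit 0) (nat_lit 481678119428) (nat_lit 152) (nat_lit 70351403378) (nat_lit 0) (nat_lit 70298669546) (nat_lit 185) (nat_lit 5) (nat_lit 187) (nat_lit 4) (nat_lit 185) (nat_lit 4) (nat_lit 471) (nat_lit 401) (nat_lit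 148)) (XT.lf (nat_lit 0) (nat_lit 58122502324) (nat_lit 152) (nat_lit 292228405452) (nat_lit 76) (nat_lit 292175586284) (nat_lit 183) (nat_lit 5) (nat_lit 185) (nat_lit 5) (nat_lit 184) (nat_lit 4) (nat_lit 472) (nat_lit 401) (nat_lit 147)))) (XT.nd (nat_lit 156) (nat_lit 228) (nat_lit 0) (XT.nd (nat_lit 78) (nat_lit 0) (nat_lit 0) (XT.lf (nat_lit 0) (nat_lit 132668119544) (nat_lit 76) (nat_lit 132721019984) (nat_lit 152) (nat_lit 398066174483) (nat_lit 182) (nat_lit 5) (nat_lit 183) (nat_lit 5) (nat_lit 184) (nat_lit 4) (nat_lit 473) (nat_lit 401) (nat_lit 146)) (XT.lf (nat_lit 0) (nat_lit 489544735941) (nat_lit 152) (nat_lit 97805006370) (nat_lit 0) (nat_lit 97754551281) (nat_lit 182) (nat_lit 5) (nat_lit 184) (nat_lit 4) (nat_lit 182) (nat_lit 4) (nat_lit 474) (nat_lit 401) (nat_lit 145))) (XT.nd (nat_lit 78) (nat_lit 76) (nat_lit 0) (XT.lf (nat_lit 0) (nat_lit 24551243058) (nat_lit 152) (nat_lit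 341460206594) (nat_lit 76) (nat_lit 341409681300) (nat_lit 180) (nat_lit 5) (nat_lit 182) (nat_lit 5) (nat_lit 181) (nat_lit 4) (nat_lit 475) (nat_lit 401) (nat_lit 144)) (XT.lf (nat_lit 0) (nat_lit 126350518646) (nat_lit 76) (nat_lit 126401110804) (nat_lit 152) (nat_lit 477759079554) (nat_lit 179) (nat_lit 5) (nat_lit 180) (nat_lit 5) (nat_lit 181) (nat_lit 4) (nat_lit 476) (nat_lit 401) (nat_lit 143))))) (XT.nd (nat_lit 312) (nat_lit 304) (nat_lit 0) (XT.nd (nat_lit 156) (nat_lit 152) (nat_lit 0) (XT.nd (nat_lit 78) (nat_lit 76) (nat_lit 0) (XT.lf (nat_lit 0) (nat_lit 500194106505) (nat_lit 152) (nat_lit 127108649771) (nat_lit 0) (nat_lit 127060406117) (nat_lit 179) (nat_lit 5) (nat_lit 181) (nat_lit 4) (nat_lit 179) (nat_lit 4) (nat_lit 477) (nat_lit 401) (nat_lit 142)) (XT.lf (nat_lit 0) (nat_lit 384014004539) (nat_lit 76) (nat_lit 384062305952) (nat_lit 76) (nat_lit 10928547805) (nat_lit 178)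 (nat_lit 4) (nat_lit 179) (nat_lit 5) (nat_lit 179) (nat_lit 4) (nat_lit 478) (nat_lit 401) (nat_lit 141))) (XT.nd (nat_lit 78) (nat_lit 0) (nat_lit 0) (XT.lf (nat_lit 0) (nat_lit 120333768545) (nat_lit 76) (nat_lit 120382124966) (nat_lit 152) (nat_lit 563768569173) (nat_lit 176) (nat_lit 5) (nat_lit 177) (nat_lit 5) (nat_lit 178) (nat_lit 4) (nat_lit 479) (nat_lit 401) (nat_lit 140)) (XT.lf (nat_lit 0) (nat_lit 513817351674) (nat_lit 152) (nat_lit 158497869070) (nat_lit 0) (nat_lit 158451765441) (nat_lit 176) (nat_lit 5) (nat_lit 178) (nat_lit 4) (nat_lit 176) (nat_lit 4) (nat_lit 480) (nat_lit 401) (nat_lit 139)))) (XT.nd (nat_lit 156) (nat_lit 76) (nat_lit 0) (XT.nd (nat_lit 78) (nat_lit 152) (nat_lit 0) (XT.lf (nat_lit 0) (nat_lit 404407533515) (nat_lit 76) (nat_lit 404453684662) (nat_lit 76) (nat_lit 49088050911) (nat_lit 175) (nat_lit 4) (nat_lit 176) (nat_lit 5) (nat_lit 176) (nat_lit 4)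 (nat_lit 481) (nat_lit 401) (nat_lit 138)) (XT.lf (nat_lit 0) (nat_lit 114603540768) (nat_lit 76) (nat_lit 114649737170) (nat_lit 152) (nat_lit 656830277247) (nat_lit 173) (nat_lit 5) (nat_lit 174) (nat_lit 5) (nat_lit 175) (nat_lit 4) (nat_lit 482) (nat_lit 401) (nat_lit 137))) (XT.nd (nat_lit 78) (nat_lit 76) (nat_lit 0) (XT.lf (nat_lit 0) (nat_lit 530629662697) (nat_lit 152) (nat_lit 192230155456) (nat_lit 0) (nat_lit 192186117834) (nat_lit 173) (nat_lit 5) (nat_lit 175) (nat_lit 4) (nat_lit 173) (nat_lit 4) (nat_lit 483) (nat_lit 401) (nat_lit 136)) (XT.lf (nat_lit 0) (nat_lit 427794647050) (nat_lit 76) (nat_lit 427838723765) (nat_lit 76) (nat_lit 89395139808) (nat_lit 172) (nat_lit 4) (nat_lit 173) (nat_lit 5) (nat_lit 173) (nat_lit 4) (nat_lit 484) (nat_lit 401) (nat_lit 135)))))) (XT.nd (nat_lit 47112) (nat_lit 0) (nat_lit 8360) (XT.nd (nat_lit 46800) (nat_lit 0) (nat_lit 9348) (XT.nd (nat_lit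 46644) (nat_lit 0) (nat_lit 9272) (XT.nd (nat_lit 78) (nat_lit 0) (nat_lit 0) (XT.lf (nat_lit 0) (nat_lit 109146189547) (nat_lit 76) (nat_lit 109190303494) (nat_lit 152) (nat_lit 757751041551) (nat_lit 170) (nat_lit 5) (nat_lit 171) (nat_lit 5) (nat_lit 172) (nat_lit 4) (nat_lit 485) (nat_lit 401) (nat_lit 134)) (XT.lf (nat_lit 0) (nat_lit 550872555517) (nat_lit 152) (nat_lit 228587310524) (nat_lit 0) (nat_lit 228545263471) (nat_lit 170) (nat_lit 5) (nat_lit 172) (nat_lit 4) (nat_lit 170) (nat_lit 4) (nat_lit 486) (nat_lit 401) (nat_lit 133))) (XT.nd (nat_lit 78) (nat_lit 0) (nat_lit 0) (XT.lf (nat_lit 0) (nat_lit 19583890518) (nat_lit 836) (nat_lit 11099258886) (nat_lit 836) (nat_lit 11099258886) (nat_lit 292) (nat_lit 3) (nat_lit 303) (nat_lit 3) (nat_lit 303) (nat_lit 5) (nat_lit 402) (nat_lit 402) (nat_lit 216)) (XT.lf (nat_lit 76) (nat_lit 20231422382) (nat_lit 0) (nat_lit 20240654583) (nat_lit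 836) (nat_lit 45165604961) (nat_lit 293) (nat_lit 5) (nat_lit 292) (nat_lit 3) (nat_lit 303) (nat_lit 5) (nat_lit 403) (nat_lit 402) (nat_lit 215)))) (XT.nd (nat_lit 156) (nat_lit 0) (nat_lit 76) (XT.nd (nat_lit 78) (nat_lit 0) (nat_lit 0) (XT.lf (nat_lit 0) (nat_lit 42581279191) (nat_lit 760) (nat_lit 22606546611) (nat_lit 836) (nat_lit 22589380161) (nat_lit 293) (nat_lit 5) (nat_lit 303) (nat_lit 5) (nat_lit 304) (nat_lit 5) (nat_lit 404) (nat_lit 402) (nat_lit 214)) (XT.lf (nat_lit 76) (nat_lit 22728452651) (nat_lit 0) (nat_lit 22753594224) (nat_lit 836) (nat_lit 44507354059) (nat_lit 294) (nat_lit 5) (nat_lit 293) (nat_lit 5) (nat_lit 304) (nat_lit 5) (nat_lit 405) (nat_lit 402) (nat_lit 213))) (XT.nd (nat_lit 78) (nat_lit 0) (nat_lit 0) (XT.lf (nat_lit 0) (nat_lit 49256839206) (nat_lit 760) (nat_lit 21525047580) (nat_lit 836) (nat_lit 21493869554) (nat_lit 294) (nat_lit 5) (nat_lit 304) (nat_lit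 5) (nat_lit 305) (nat_lit 5) (nat_lit 406) (nat_lit 402) (nat_lit 212)) (XT.lf (nat_lit 76) (nat_lit 26988080142) (nat_lit 0) (nat_lit 27026147377) (nat_lit 836) (nat_lit 40622509180) (nat_lit 295) (nat_lit 5) (nat_lit 294) (nat_lit 5) (nat_lit 305) (nat_lit 5) (nat_lit 407) (nat_lit 402) (nat_lit 211))))) (XT.nd (nat_lit 312) (nat_lit 1140) (nat_lit 0) (XT.nd (nat_lit 156) (nat_lit 0) (nat_lit 76) (XT.nd (nat_lit 78) (nat_lit 0) (nat_lit 0) (XT.lf (nat_lit 0) (nat_lit 59674860250) (nat_lit 760) (nat_lit 18725070151) (nat_lit 836) (nat_lit 18682566924) (nat_lit 295) (nat_lit 5) (nat_lit 305) (nat_lit 5) (nat_lit 306) (nat_lit 5) (nat_lit 408) (nat_lit 402) (nat_lit 210)) (XT.lf (nat_lit 76) (nat_lit 33266014766) (nat_lit 0) (nat_lit 33314469151) (nat_lit 836) (nat_lit 33021964101) (nat_lit 296) (nat_lit 5) (nat_lit 295) (nat_lit 5) (nat_lit 306) (nat_lit 5) (nat_lit 409) (nat_lit 402) (nat_lit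 209))) (XT.nd (nat_lit 78) (nat_lit 0) (nat_lit 0) (XT.lf (nat_lit 0) (nat_lit 74372229824) (nat_lit 760) (nat_lit 13950334639) (nat_lit 836) (nat_lit 13898789729) (nat_lit 296) (nat_lit 5) (nat_lit 306) (nat_lit 5) (nat_lit 307) (nat_lit 5) (nat_lit 410) (nat_lit 402) (nat_lit 208)) (XT.lf (nat_lit 76) (nat_lit 41847976143) (nat_lit 0) (nat_lit 41904661888) (nat_lit 836) (nat_lit 21158613894) (nat_lit 297) (nat_lit 5) (nat_lit 296) (nat_lit 5) (nat_lit 307) (nat_lit 5) (nat_lit 411) (nat_lit 402) (nat_lit 207)))) (XT.nd (nat_lit 156) (nat_lit 532) (nat_lit 0) (XT.nd (nat_lit 78) (nat_lit 760) (nat_lit 0) (XT.lf (nat_lit 0) (nat_lit 93948483416) (nat_lit 760) (nat_lit 6914244802) (nat_lit 76) (nat_lit 6855595489) (nat_lit 297) (nat_lit 5) (nat_lit 307) (nat_lit 5) (nat_lit 298) (nat_lit 5) (nat_lit 412) (nat_lit 402) (nat_lit 206)) (XT.lf (nat_lit 0) (nat_lit 53052952756) (nat_lit 760) (nat_lit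 53116042916) (nat_lit 836) (nat_lit 4421009675) (nat_lit 287) (nat_lit 5) (nat_lit 297) (nat_lit 5) (nat_lit 298) (nat_lit 5) (nat_lit 413) (nat_lit 402) (nat_lit 205))) (XT.nd (nat_lit 78) (nat_lit 0) (nat_lit 0) (XT.lf (nat_lit 0) (nat_lit 2657692664) (nat_lit 456) (nat_lit 2725012201) (nat_lit 532) (nat_lit 108210348222) (nat_lit 280) (nat_lit 5) (nat_lit 286) (nat_lit 5) (nat_lit 287) (nat_lit 5) (nat_lit 414) (nat_lit 402) (nat_lit 204)) (XT.lf (nat_lit 0) (nat_lit 17301587480) (nat_lit 532) (nat_lit 49710157053) (nat_lit 76) (nat_lit 49642207038) (nat_lit 280) (nat_lit 5) (nat_lit 287) (nat_lit 5) (nat_lit 281) (nat_lit 5) (nat_lit 415) (nat_lit 402) (nat_lit 203))))))))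
noncomputable def xc288 : XT := (XT.nd (nat_lit 2496) (nat_lit 2736) (nat_lit 0) (XT.nd (nat_lit 1248) (nat_lit 2128) (nat_lit 0) (XT.nd (nat_lit 624) (nat_lit 1140) (nat_lit 0) (XT.nd (nat_lit 312) (nat_lit 988) (nat_lit 0) (XT.nd (nat_lit 156) (nat_lit 380) (nat_lit 0) (XT.nd (nat_lit 78) (nat_lit 0) (nat_lit 0) (XT.lf (nat_lit 0) (nat_lit 15011752132) (nat_lit 380) (nat_lit 15083355642) (nat_lit 456) (nat_lit 89758852529) (nat_lit 275) (nat_lit 5) (nat_lit 280) (nat_lit 5) (nat_lit 281) (nat_lit 5) (nat_lit 416) (nat_lit 402) (nat_lit 202)) (XT.lf (nat_lit 0) (nat_lit 44999419443) (nat_lit 456) (nat_lit 39106250954) (nat_lit 76) (nat_lit 39034743307) (nat_lit 275) (nat_lit 5) (nat_lit 281) (nat_lit 5) (nat_lit 276) (nat_lit 5) (nat_lit 417) (nat_lit 402) (nat_lit 201))) (XT.nd (nat_lit 78) (nat_lit 0) (nat_lit 0) (XT.lf (nat_lit 0) (nat_lit 30649877535) (nat_lit 380) (nat_lit 30724541209) (nat_lit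 456) (nat_lit 65180497427) (nat_lit 270) (nat_lit 5) (nat_lit 275) (nat_lit 5) (nat_lit 276) (nat_lit 5) (nat_lit 418) (nat_lit 402) (nat_lit 200)) (XT.lf (nat_lit 0) (nat_lit 79636395981) (nat_lit 456) (nat_lit 25262153627) (nat_lit 76) (nat_lit 25188182757) (nat_lit 270) (nat_lit 5) (nat_lit 276) (nat_lit 5) (nat_lit 271) (nat_lit 5) (nat_lit 419) (nat_lit 402) (nat_lit 199)))) (XT.nd (nat_lit 156) (nat_lit 684) (nat_lit 0) (XT.nd (nat_lit 78) (nat_lit 0) (nat_lit 0) (XT.lf (nat_lit 0) (nat_lit 50009471147) (nat_lit 304) (nat_lit 50086168312) (nat_lit 380) (nat_lit 33635291539) (nat_lit 266) (nat_lit 5) (nat_lit 270) (nat_lit 5) (nat_lit 271) (nat_lit 5) (nat_lit 420) (nat_lit 402) (nat_lit 198)) (XT.lf (nat_lit 0) (nat_lit 122128970534) (nat_lit 380) (nat_lit 7738165253) (nat_lit 76) (nat_lit 7662647505) (nat_lit 266) (nat_lit 5) (nat_lit 271) (nat_lit 5) (nat_lit 267) (nat_lit 5) (nat_lit 421)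 (nat_lit 402) (nat_lit 197))) (XT.nd (nat_lit 78) (nat_lit 304) (nat_lit 0) (XT.lf (nat_lit 0) (nat_lit 5627363675) (nat_lit 380) (nat_lit 67933035534) (nat_lit 76) (nat_lit 67855162711) (nat_lit 261) (nat_lit 5) (nat_lit 266) (nat_lit 5) (nat_lit 262) (nat_lit 5) (nat_lit 422) (nat_lit 402) (nat_lit 196)) (XT.lf (nat_lit 0) (nat_lit 13728262038) (nat_lit 304) (nat_lit 13808377790) (nat_lit 380) (nat_lit 117929003075) (nat_lit 257) (nat_lit 5) (nat_lit 261) (nat_lit 5) (nat_lit 262) (nat_lit 5) (nat_lit 423) (nat_lit 402) (nat_lit 195))))) (XT.nd (nat_lit 312) (nat_lit 608) (nat_lit 0) (XT.nd (nat_lit 156) (nat_lit 228) (nat_lit 0) (XT.nd (nat_lit 78) (nat_lit 304) (nat_lit 0) (XT.lf (nat_lit 0) (nat_lit 52474404418) (nat_lit 380) (nat_lit 48612753702) (nat_lit 76) (nat_lit 48534418583) (nat_lit 257) (nat_lit 5) (nat_lit 262) (nat_lit 5) (nat_lit 258) (nat_lit 5) (nat_lit 424) (nat_lit 402) (nat_lit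 194)) (XT.lf (nat_lit 0) (nat_lit 39712459318) (nat_lit 304) (nat_lit 39792731964) (nat_lit 380) (nat_lit 74437809209) (nat_lit 253) (nat_lit 5) (nat_lit 257) (nat_lit 5) (nat_lit 258) (nat_lit 5) (nat_lit 425) (nat_lit 402) (nat_lit 193))) (XT.nd (nat_lit 78) (nat_lit 228) (nat_lit 0) (XT.lf (nat_lit 0) (nat_lit 109107595457) (nat_lit 380) (nat_lit 24695051823) (nat_lit 76) (nat_lit 24616844290) (nat_lit 253) (nat_lit 5) (nat_lit 258) (nat_lit 5) (nat_lit 254) (nat_lit 5) (nat_lit 426) (nat_lit 402) (nat_lit 192)) (XT.lf (nat_lit 0) (nat_lit 70934916831) (nat_lit 228) (nat_lit 71014798072) (nat_lit 304) (nat_lit 21082112546) (nat_lit 250) (nat_lit 5) (nat_lit 253) (nat_lit 5) (nat_lit 254) (nat_lit 5) (nat_lit 427) (nat_lit 402) (nat_lit 191)))) (XT.nd (nat_lit 156) (nat_lit 228) (nat_lit 0) (XT.nd (nat_lit 78) (nat_lit 0) (nat_lit 0) (XT.lf (nat_lit 0) (nat_lit 4348235147) (nat_lit 304) (nat_lit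 4429710396) (nat_lit 380) (nat_lit 159065516361) (nat_lit 245) (nat_lit 5) (nat_lit 249) (nat_lit 5) (nat_lit 250) (nat_lit 5) (nat_lit 428) (nat_lit 402) (nat_lit 190)) (XT.lf (nat_lit 0) (nat_lit 42029952632) (nat_lit 380) (nat_lit 65398557075) (nat_lit 76) (nat_lit 65319515787) (nat_lit 245) (nat_lit 5) (nat_lit 250) (nat_lit 5) (nat_lit 246) (nat_lit 5) (nat_lit 429) (nat_lit 402) (nat_lit 189))) (XT.nd (nat_lit 78) (nat_lit 0) (nat_lit 0) (XT.lf (nat_lit 0) (nat_lit 38770931944) (nat_lit 228) (nat_lit 38851350196) (nat_lit 304) (nat_lit 100241649020) (nat_lit 242) (nat_lit 5) (nat_lit 245) (nat_lit 5) (nat_lit 246) (nat_lit 5) (nat_lit 430) (nat_lit 402) (nat_lit 188)) (XT.lf (nat_lit 0) (nat_lit 116637363526) (nat_lit 304) (nat_lit 33296974786) (nat_lit 76) (nat_lit 33219137028) (nat_lit 242) (nat_lit 5) (nat_lit 246) (nat_lit 5) (nat_lit 243) (nat_lit 5) (nat_lit 431) (nat_lit 402) (nat_lit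 187)))))) (XT.nd (nat_lit 624) (nat_lit 912) (nat_lit 0) (XT.nd (nat_lit 312) (nat_lit 456) (nat_lit 0) (XT.nd (nat_lit 156) (nat_lit 228) (nat_lit 0) (XT.nd (nat_lit 78) (nat_lit 304) (nat_lit 0) (XT.lf (nat_lit 0) (nat_lit 79702628003) (nat_lit 228) (nat_lit 79781655234) (nat_lit 304) (nat_lit 29129159278) (nat_lit 239) (nat_lit 5) (nat_lit 242) (nat_lit 5) (nat_lit 243) (nat_lit 5) (nat_lit 432) (nat_lit 402) (nat_lit 186)) (XT.lf (nat_lit 0) (nat_lit 5188398271) (nat_lit 228) (nat_lit 5268558334) (nat_lit 304) (nat_lit 183848848418) (nat_lit 235) (nat_lit 5) (nat_lit 238) (nat_lit 5) (nat_lit 239) (nat_lit 5) (nat_lit 433) (nat_lit 402) (nat_lit 185))) (XT.nd (nat_lit 78) (nat_lit 228) (nat_lit 0) (XT.lf (nat_lit 0) (nat_lit 54057212019) (nat_lit 304) (nat_lit 73064189741) (nat_lit 76) (nat_lit 72986819313) (nat_lit 235) (nat_lit 5) (nat_lit 239) (nat_lit 5) (nat_lit 236) (nat_lit 5) (nat_lit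 434) (nat_lit 402) (nat_lit 184)) (XT.lf (nat_lit 0) (nat_lit 50315438205) (nat_lit 228) (nat_lit 50393787216) (nat_lit 304) (nat_lit 105447945243) (nat_lit 232) (nat_lit 5) (nat_lit 235) (nat_lit 5) (nat_lit 236) (nat_lit 5) (nat_lit 435) (nat_lit 402) (nat_lit 183)))) (XT.nd (nat_lit 156) (nat_lit 304) (nat_lit 0) (XT.nd (nat_lit 78) (nat_lit 152) (nat_lit 0) (XT.lf (nat_lit 0) (nat_lit 151422356741) (nat_lit 304) (nat_lit 30537645419) (nat_lit 76) (nat_lit 30462139710) (nat_lit 232) (nat_lit 5) (nat_lit 236) (nat_lit 5) (nat_lit 233) (nat_lit 5) (nat_lit 436) (nat_lit 402) (nat_lit 182)) (XT.lf (nat_lit 0) (nat_lit 103518478576) (nat_lit 152) (nat_lit 103594829622) (nat_lit 228) (nat_lit 11764945263) (nat_lit 230) (nat_lit 5) (nat_lit 232) (nat_lit 5) (nat_lit 233) (nat_lit 5) (nat_lit 437) (nat_lit 402) (nat_lit 181))) (XT.nd (nat_lit 78) (nat_lit 0) (nat_lit 0) (XT.lf (nat_lit 0) (nat_lit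 19704768538) (nat_lit 228) (nat_lit 19781924666) (nat_lit 304) (nat_lit 186097649270) (nat_lit 226) (nat_lit 5) (nat_lit 229) (nat_lit 5) (nat_lit 230) (nat_lit 5) (nat_lit 438) (nat_lit 402) (nat_lit 180)) (XT.lf (nat_lit 0) (nat_lit 95956192314) (nat_lit 304) (nat_lit 68290789792) (nat_lit 76) (nat_lit 68216577532) (nat_lit 226) (nat_lit 5) (nat_lit 230) (nat_lit 5) (nat_lit 227) (nat_lit 5) (nat_lit 439) (nat_lit 402) (nat_lit 179))))) (XT.nd (nat_lit 312) (nat_lit 380) (nat_lit 0) (XT.nd (nat_lit 156) (nat_lit 380) (nat_lit 0) (XT.nd (nat_lit 78) (nat_lit 0) (nat_lit 0) (XT.lf (nat_lit 0) (nat_lit 78360910207) (nat_lit 152) (nat_lit 78435817927) (nat_lit 228) (nat_lit 82812631440) (nat_lit 224) (nat_lit 5) (nat_lit 226) (nat_lit 5) (nat_lit 227) (nat_lit 5) (nat_lit 440) (nat_lit 402) (nat_lit 178)) (XT.lf (nat_lit 0) (nat_lit 222036762076) (nat_lit 228) (nat_lit 12539892676) (nat_lit 76) (nat_lit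 12467921187) (nat_lit 224) (nat_lit 5) (nat_lit 227) (nat_lit 5) (nat_lit 225) (nat_lit 5) (nat_lit 441) (nat_lit 402) (nat_lit 177))) (XT.nd (nat_lit 78) (nat_lit 152) (nat_lit 0) (XT.lf (nat_lit 0) (nat_lit 38184866087) (nat_lit 228) (nat_lit 108264704293) (nat_lit 76) (nat_lit 108192132039) (nat_lit 221) (nat_lit 5) (nat_lit 224) (nat_lit 5) (nat_lit 222) (nat_lit 5) (nat_lit 442) (nat_lit 402) (nat_lit 176)) (XT.lf (nat_lit 0) (nat_lit 52328147069) (nat_lit 152) (nat_lit 52401291479) (nat_lit 228) (nat_lit 157817114214) (nat_lit 219) (nat_lit 5) (nat_lit 221) (nat_lit 5) (nat_lit 222) (nat_lit 5) (nat_lit 443) (nat_lit 402) (nat_lit 175)))) (XT.nd (nat_lit 156) (nat_lit 228) (nat_lit 0) (XT.nd (nat_lit 78) (nat_lit 152) (nat_lit 0) (XT.lf (nat_lit 0) (nat_lit 177188303654) (nat_lit 228) (nat_lit 46799584537) (nat_lit 76) (nat_lit 46729404230) (nat_lit 219) (nat_lit 5) (nat_lit 222) (nat_lit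 5) (nat_lit 220) (nat_lit 5) (nat_lit 444) (nat_lit 402) (nat_lit 174)) (XT.lf (nat_lit 0) (nat_lit 128028607426) (nat_lit 152) (nat_lit 128099281984) (nat_lit 228) (nat_lit 23025790782) (nat_lit 217) (nat_lit 5) (nat_lit 219) (nat_lit 5) (nat_lit 220) (nat_lit 5) (nat_lit 445) (nat_lit 402) (nat_lit 173))) (XT.nd (nat_lit 78) (nat_lit 0) (nat_lit 0) (XT.lf (nat_lit 0) (nat_lit 25249327906) (nat_lit 152) (nat_lit 25320473179) (nat_lit 228) (nat_lit 237342289885) (nat_lit 214) (nat_lit 5) (nat_lit 216) (nat_lit 5) (nat_lit 217) (nat_lit 5) (nat_lit 446) (nat_lit 402) (nat_lit 172)) (XT.lf (nat_lit 0) (nat_lit 130962119898) (nat_lit 228) (nat_lit 83000537449) (nat_lit 76) (nat_lit 82932353095) (nat_lit 214) (nat_lit 5) (nat_lit 217) (nat_lit 5) (nat_lit 215) (nat_lit 5) (nat_lit 447) (nat_lit 402) (nat_lit 171))))))) (XT.nd (nat_lit 1248) (nat_lit 1064) (nat_lit 0) (XT.nd (nat_lit 624) (nat_lit 912)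 (nat_lit 0) (XT.nd (nat_lit 312) (nat_lit 304) (nat_lit 0) (XT.nd (nat_lit 156) (nat_lit 304) (nat_lit 0) (XT.nd (nat_lit 78) (nat_lit 0) (nat_lit 0) (XT.lf (nat_lit 0) (nat_lit 108708833248) (nat_lit 152) (nat_lit 108777424224) (nat_lit 228) (nat_lit 88735208275) (nat_lit 212) (nat_lit 5) (nat_lit 214) (nat_lit 5) (nat_lit 215) (nat_lit 5) (nat_lit 448) (nat_lit 402) (nat_lit 170)) (XT.lf (nat_lit 0) (nat_lit 309791192169) (nat_lit 228) (nat_lit 3108007847) (nat_lit 76) (nat_lit 3042314290) (nat_lit 212) (nat_lit 5) (nat_lit 215) (nat_lit 5) (nat_lit 213) (nat_lit 4) (nat_lit 449) (nat_lit 402) (nat_lit 169))) (XT.nd (nat_lit 78) (nat_lit 152) (nat_lit 0) (XT.lf (nat_lit 0) (nat_lit 83063723352) (nat_lit 152) (nat_lit 121416536204) (nat_lit 76) (nat_lit 121350491392) (nat_lit 210) (nat_lit 5) (nat_lit 212) (nat_lit 5) (nat_lit 211) (nat_lit 5) (nat_lit 450) (nat_lit 402) (nat_lit 168)) (XT.lf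 (nat_lit 0) (nat_lit 88953794483) (nat_lit 152) (nat_lit 89020173822) (nat_lit 228) (nat_lit 158163330452) (nat_lit 208) (nat_lit 5) (nat_lit 210) (nat_lit 5) (nat_lit 211) (nat_lit 5) (nat_lit 451) (nat_lit 402) (nat_lit 167)))) (XT.nd (nat_lit 156) (nat_lit 152) (nat_lit 0) (XT.nd (nat_lit 78) (nat_lit 152) (nat_lit 0) (XT.lf (nat_lit 0) (nat_lit 280222489045) (nat_lit 228) (nat_lit 33335284291) (nat_lit 76) (nat_lit 33271762445) (nat_lit 208) (nat_lit 5) (nat_lit 211) (nat_lit 5) (nat_lit 209) (nat_lit 4) (nat_lit 452) (nat_lit 402) (nat_lit 166)) (XT.lf (nat_lit 0) (nat_lit 33175735473) (nat_lit 152) (nat_lit 162345861644) (nat_lit 76) (nat_lit 162282050820) (nat_lit 206) (nat_lit 5) (nat_lit 208) (nat_lit 5) (nat_lit 207) (nat_lit 5) (nat_lit 453) (nat_lit 402) (nat_lit 165))) (XT.nd (nat_lit 78) (nat_lit 0) (nat_lit 0) (XT.lf (nat_lit 0) (nat_lit 68645282959) (nat_lit 152) (nat_lit 68709369000)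 (nat_lit 228) (nat_lit 231834946367) (nat_lit 204) (nat_lit 5) (nat_lit 206) (nat_lit 5) (nat_lit 207) (nat_lit 5) (nat_lit 454) (nat_lit 402) (nat_lit 164)) (XT.lf (nat_lit 0) (nat_lit 250543015638) (nat_lit 228) (nat_lit 65236544741) (nat_lit 76) (nat_lit 65175260786) (nat_lit 204) (nat_lit 5) (nat_lit 207) (nat_lit 5) (nat_lit 205) (nat_lit 4) (nat_lit 455) (nat_lit 402) (nat_lit 163))))) (XT.nd (nat_lit 312) (nat_lit 532) (nat_lit 0) (XT.nd (nat_lit 156) (nat_lit 76) (nat_lit 0) (XT.nd (nat_lit 78) (nat_lit 228) (nat_lit 0) (XT.lf (nat_lit 0) (nat_lit 186685111310) (nat_lit 76) (nat_lit 186746633008) (nat_lit 152) (nat_lit 19674513488) (nat_lit 203) (nat_lit 5) (nat_lit 204) (nat_lit 5) (nat_lit 205) (nat_lit 4) (nat_lit 456) (nat_lit 402) (nat_lit 162)) (XT.lf (nat_lit 0) (nat_lit 47656482440) (nat_lit 152) (nat_lit 47718230560) (nat_lit 228) (nat_lit 310321800636) (nat_lit 200) (nat_lit 5)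 (nat_lit 202) (nat_lit 5) (nat_lit 203) (nat_lit 5) (nat_lit 457) (nat_lit 402) (nat_lit 161))) (XT.nd (nat_lit 78) (nat_lit 76) (nat_lit 0) (XT.lf (nat_lit 0) (nat_lit 220602384897) (nat_lit 228) (nat_lit 99051212490) (nat_lit 76) (nat_lit 98992199385) (nat_lit 200) (nat_lit 5) (nat_lit 203) (nat_lit 5) (nat_lit 201) (nat_lit 4) (nat_lit 458) (nat_lit 402) (nat_lit 160)) (XT.lf (nat_lit 0) (nat_lit 177795135255) (nat_lit 76) (nat_lit 177854343952) (nat_lit 152) (nat_lit 76415162913) (nat_lit 199) (nat_lit 5) (nat_lit 200) (nat_lit 5) (nat_lit 201) (nat_lit 4) (nat_lit 459) (nat_lit 402) (nat_lit 159)))) (XT.nd (nat_lit 156) (nat_lit 304) (nat_lit 0) (XT.nd (nat_lit 78) (nat_lit 0) (nat_lit 0) (XT.lf (nat_lit 0) (nat_lit 25850918564) (nat_lit 152) (nat_lit 25910313539) (nat_lit 228) (nat_lit 394247731196) (nat_lit 196) (nat_lit 5) (nat_lit 198) (nat_lit 5) (nat_lit 199) (nat_lit 5) (nat_lit 460)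 (nat_lit 402) (nat_lit 158)) (XT.lf (nat_lit 0) (nat_lit 190241412961) (nat_lit 228) (nat_lit 135040018483) (nat_lit 76) (nat_lit 134983282881) (nat_lit 196) (nat_lit 5) (nat_lit 199) (nat_lit 5) (nat_lit 197) (nat_lit 4) (nat_lit 461) (nat_lit 402) (nat_lit 157))) (XT.nd (nat_lit 78) (nat_lit 228) (nat_lit 0) (XT.lf (nat_lit 0) (nat_lit 169328528422) (nat_lit 76) (nat_lit 169385424938) (nat_lit 152) (nat_lit 136365882017) (nat_lit 195) (nat_lit 5) (nat_lit 196) (nat_lit 5) (nat_lit 197) (nat_lit 4) (nat_lit 462) (nat_lit 402) (nat_lit 156)) (XT.lf (nat_lit 0) (nat_lit 3081309249) (nat_lit 152) (nat_lit 3138359016) (nat_lit 228) (nat_lit 484294318340) (nat_lit 192) (nat_lit 5) (nat_lit 194) (nat_lit 5) (nat_lit 195) (nat_lit 5) (nat_lit 463) (nat_lit 402) (nat_lit 155)))))) (XT.nd (nat_lit 624) (nat_lit 532) (nat_lit 0) (XT.nd (nat_lit 312) (nat_lit 304) (nat_lit 0) (XT.nd (nat_lit 156) (nat_lit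 152) (nat_lit 0) (XT.nd (nat_lit 78) (nat_lit 76) (nat_lit 0) (XT.lf (nat_lit 0) (nat_lit 159290902842) (nat_lit 228) (nat_lit 173487339813) (nat_lit 76) (nat_lit 173432867698) (nat_lit 192) (nat_lit 5) (nat_lit 195) (nat_lit 5) (nat_lit 193) (nat_lit 4) (nat_lit 464) (nat_lit 402) (nat_lit 154)) (XT.lf (nat_lit 0) (nat_lit 161265123806) (nat_lit 76) (nat_lit 161319728306) (nat_lit 152) (nat_lit 199979780526) (nat_lit 191) (nat_lit 5) (nat_lit 192) (nat_lit 5) (nat_lit 193) (nat_lit 4) (nat_lit 465) (nat_lit 402) (nat_lit 153))) (XT.nd (nat_lit 78) (nat_lit 152) (nat_lit 0) (XT.lf (nat_lit 0) (nat_lit 497321802938) (nat_lit 152) (nat_lit 21151118628) (nat_lit 0) (nat_lit 21098994267) (nat_lit 191) (nat_lit 5) (nat_lit 193) (nat_lit 4) (nat_lit 191) (nat_lit 4) (nat_lit 466) (nat_lit 402) (nat_lit 152)) (XT.lf (nat_lit 0) (nat_lit 127570318329) (nat_lit 152) (nat_lit 214703770453) (nat_lit 76) (nat_lit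 214651531734) (nat_lit 189) (nat_lit 5) (nat_lit 191) (nat_lit 5) (nat_lit 190) (nat_lit 4) (nat_lit 467) (nat_lit 402) (nat_lit 151)))) (XT.nd (nat_lit 156) (nat_lit 228) (nat_lit 0) (XT.nd (nat_lit 78) (nat_lit 0) (nat_lit 0) (XT.lf (nat_lit 0) (nat_lit 153585715901) (nat_lit 76) (nat_lit 153638063534) (nat_lit 152) (nat_lit 267750505299) (nat_lit 188) (nat_lit 5) (nat_lit 189) (nat_lit 5) (nat_lit 190) (nat_lit 4) (nat_lit 468) (nat_lit 402) (nat_lit 150)) (XT.lf (nat_lit 0) (nat_lit 500249216773) (nat_lit 152) (nat_lit 46753326954) (nat_lit 0) (nat_lit 46703373278) (nat_lit 188) (nat_lit 5) (nat_lit 190) (nat_lit 4) (nat_lit 188) (nat_lit 4) (nat_lit 469) (nat_lit 402) (nat_lit 149))) (XT.nd (nat_lit 78) (nat_lit 76) (nat_lit 0) (XT.lf (nat_lit 0) (nat_lit 94886336167) (nat_lit 152) (nat_lit 259028948433) (nat_lit 76) (nat_lit 258978900675) (nat_lit 186) (nat_lit 5) (nat_lit 188) (nat_lit 5)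 (nat_lit 187) (nat_lit 4) (nat_lit 470) (nat_lit 402) (nat_lit 148)) (XT.lf (nat_lit 0) (nat_lit 146272014706) (nat_lit 76) (nat_lit 146322152067) (nat_lit 152) (nat_lit 340216676316) (nat_lit 185) (nat_lit 5) (nat_lit 186) (nat_lit 5) (nat_lit 187) (nat_lit 4) (nat_lit 471) (nat_lit 402) (nat_lit 147))))) (XT.nd (nat_lit 312) (nat_lit 304) (nat_lit 0) (XT.nd (nat_lit 156) (nat_lit 76) (nat_lit 0) (XT.nd (nat_lit 78) (nat_lit 152) (nat_lit 0) (XT.lf (nat_lit 0) (nat_lit 505764665335) (nat_lit 152) (nat_lit 73863817889) (nat_lit 0) (nat_lit 73815986748) (nat_lit 185) (nat_lit 5) (nat_lit 187) (nat_lit 4) (nat_lit 185) (nat_lit 4) (nat_lit 472) (nat_lit 402) (nat_lit 146)) (XT.lf (nat_lit 0) (nat_lit 61031263377) (nat_lit 152) (nat_lit 306834666066) (nat_lit 76) (nat_lit 306786757523) (nat_lit 183) (nat_lit 5) (nat_lit 185) (nat_lit 5) (nat_lit 184) (nat_lit 4) (nat_lit 473) (nat_lit 402) (nat_lit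 145))) (XT.nd (nat_lit 78) (nat_lit 0) (nat_lit 0) (XT.lf (nat_lit 0) (nat_lit 139306601959) (nat_lit 76) (nat_lit 139354584218) (nat_lit 152) (nat_lit 417966764050) (nat_lit 182) (nat_lit 5) (nat_lit 183) (nat_lit 5) (nat_lit 184) (nat_lit 4) (nat_lit 474) (nat_lit 402) (nat_lit 144)) (XT.lf (nat_lit 0) (nat_lit 514024476069) (nat_lit 152) (nat_lit 102690335644) (nat_lit 0) (nat_lit 102644571391) (nat_lit 182) (nat_lit 5) (nat_lit 184) (nat_lit 4) (nat_lit 182) (nat_lit 4) (nat_lit 475) (nat_lit 402) (nat_lit 143)))) (XT.nd (nat_lit 156) (nat_lit 76) (nat_lit 0) (XT.nd (nat_lit 78) (nat_lit 76) (nat_lit 0) (XT.lf (nat_lit 0) (nat_lit 25781305252) (nat_lit 152) (nat_lit 358528292589) (nat_lit 76) (nat_lit 358482464657) (nat_lit 180) (nat_lit 5) (nat_lit 182) (nat_lit 5) (nat_lit 181) (nat_lit 4) (nat_lit 476) (nat_lit 402) (nat_lit 142)) (XT.lf (nat_lit 0) (nat_lit 132672889489) (nat_lit 76) (nat_lit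 132718778068) (nat_lit 152) (nat_lit 501644454067) (nat_lit 179) (nat_lit 5) (nat_lit 180) (nat_lit 5) (nat_lit 181) (nat_lit 4) (nat_lit 477) (nat_lit 402) (nat_lit 141))) (XT.nd (nat_lit 78) (nat_lit 76) (nat_lit 0) (XT.lf (nat_lit 0) (nat_lit 525206186994) (nat_lit 152) (nat_lit 133459386588) (nat_lit 0) (nat_lit 133415628172) (nat_lit 179) (nat_lit 5) (nat_lit 181) (nat_lit 4) (nat_lit 179) (nat_lit 4) (nat_lit 478) (nat_lit 402) (nat_lit 140)) (XT.lf (nat_lit 0) (nat_lit 403219324701) (nat_lit 76) (nat_lit 403263135506) (nat_lit 76) (nat_lit 11472524295) (nat_lit 178) (nat_lit 4) (nat_lit 179) (nat_lit 5) (nat_lit 179) (nat_lit 4) (nat_lit 479) (nat_lit 402) (nat_lit 139))))))))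
noncomputable def xc289 : XT := (XT.nd (nat_lit 47892) (nat_lit 0) (nat_lit 5928) (XT.nd (nat_lit 47268) (nat_lit 0) (nat_lit 9196) (XT.nd (nat_lit 312) (nat_lit 76) (nat_lit 0) (XT.nd (nat_lit 156) (nat_lit 228) (nat_lit 0) (XT.nd (nat_lit 78) (nat_lit 0) (nat_lit 0) (XT.lf (nat_lit 0) (nat_lit 126355079571) (nat_lit 76) (nat_lit 126398940270) (nat_lit 152) (nat_lit 591954549396) (nat_lit 176) (nat_lit 5) (nat_lit 177) (nat_lit 5) (nat_lit 178) (nat_lit 4) (nat_lit 480) (nat_lit 402) (nat_lit 138)) (XT.lf (nat_lit 0) (nat_lit 539510473945) (nat_lit 152) (nat_lit 166418283083) (nat_lit 0) (nat_lit 166376465732) (nat_lit 176) (nat_lit 5) (nat_lit 178) (nat_lit 4) (nat_lit 176) (nat_lit 4) (nat_lit 481) (nat_lit 402) (nat_lit 137))) (XT.nd (nat_lit 78) (nat_lit 152) (nat_lit 0) (XT.lf (nat_lit 0) (nat_lit 424632317382) (nat_lit 76) (nat_lit 424674177833) (nat_lit 76) (nat_lit 51540126520) (nat_lit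 175) (nat_lit 4) (nat_lit 176) (nat_lit 5) (nat_lit 176) (nat_lit 4) (nat_lit 482) (nat_lit 402) (nat_lit 136)) (XT.lf (nat_lit 0) (nat_lit 120338127189) (nat_lit 76) (nat_lit 120380028688) (nat_lit 152) (nat_lit 689669466365) (nat_lit 173) (nat_lit 5) (nat_lit 174) (nat_lit 5) (nat_lit 175) (nat_lit 4) (nat_lit 483) (nat_lit 402) (nat_lit 135)))) (XT.nd (nat_lit 46800) (nat_lit 0) (nat_lit 9120) (XT.nd (nat_lit 78) (nat_lit 76) (nat_lit 0) (XT.lf (nat_lit 0) (nat_lit 557163287088) (nat_lit 152) (nat_lit 201837391028) (nat_lit 0) (nat_lit 201797447607) (nat_lit 173) (nat_lit 5) (nat_lit 175) (nat_lit 4) (nat_lit 173) (nat_lit 4) (nat_lit 484) (nat_lit 402) (nat_lit 134)) (XT.lf (nat_lit 0) (nat_lit 449188582696) (nat_lit 76) (nat_lit 449228561576) (nat_lit 76) (nat_lit 93862686636) (nat_lit 172) (nat_lit 4) (nat_lit 173) (nat_lit 5) (nat_lit 173) (nat_lit 4) (nat_lit 485) (nat_lit 402) (nat_lit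 133))) (XT.nd (nat_lit 78) (nat_lit 0) (nat_lit 0) (XT.lf (nat_lit 0) (nat_lit 20572173104) (nat_lit 836) (nat_lit 11649450599) (nat_lit 836) (nat_lit 11649450599) (nat_lit 292) (nat_lit 3) (nat_lit 303) (nat_lit 3) (nat_lit 303) (nat_lit 5) (nat_lit 403) (nat_lit 403) (nat_lit 214)) (XT.lf (nat_lit 76) (nat_lit 21252382054) (nat_lit 0) (nat_lit 21260755932) (nat_lit 836) (nat_lit 47405555178) (nat_lit 293) (nat_lit 5) (nat_lit 292) (nat_lit 3) (nat_lit 303) (nat_lit 5) (nat_lit 404) (nat_lit 403) (nat_lit 213))))) (XT.nd (nat_lit 312) (nat_lit 0) (nat_lit 152) (XT.nd (nat_lit 156) (nat_lit 0) (nat_lit 76) (XT.nd (nat_lit 78) (nat_lit 0) (nat_lit 0) (XT.lf (nat_lit 0) (nat_lit 44726849054) (nat_lit 760) (nat_lit 23726981194) (nat_lit 836) (nat_lit 23711410717) (nat_lit 293) (nat_lit 5) (nat_lit 303) (nat_lit 5) (nat_lit 304) (nat_lit 5) (nat_lit 405) (nat_lit 403) (nat_lit 212)) (XT.lf (nat_lit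 76) (nat_lit 23874608471) (nat_lit 0) (nat_lit 23897412618) (nat_lit 836) (nat_lit 46716056298) (nat_lit 294) (nat_lit 5) (nat_lit 293) (nat_lit 5) (nat_lit 304) (nat_lit 5) (nat_lit 406) (nat_lit 403) (nat_lit 211))) (XT.nd (nat_lit 78) (nat_lit 0) (nat_lit 0) (XT.lf (nat_lit 0) (nat_lit 51734705955) (nat_lit 760) (nat_lit 22591183175) (nat_lit 836) (nat_lit 22562903787) (nat_lit 294) (nat_lit 5) (nat_lit 304) (nat_lit 5) (nat_lit 305) (nat_lit 5) (nat_lit 407) (nat_lit 403) (nat_lit 210)) (XT.lf (nat_lit 76) (nat_lit 28347437758) (nat_lit 0) (nat_lit 28381965863) (nat_lit 836) (nat_lit 42638446676) (nat_lit 295) (nat_lit 5) (nat_lit 294) (nat_lit 5) (nat_lit 305) (nat_lit 5) (nat_lit 408) (nat_lit 403) (nat_lit 209)))) (XT.nd (nat_lit 156) (nat_lit 0) (nat_lit 76) (XT.nd (nat_lit 78) (nat_lit 0) (nat_lit 0) (XT.lf (nat_lit 0) (nat_lit 62672312115) (nat_lit 760) (nat_lit 19651088157) (nat_lit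 836) (nat_lit 19612536477) (nat_lit 295) (nat_lit 5) (nat_lit 305) (nat_lit 5) (nat_lit 306) (nat_lit 5) (nat_lit 409) (nat_lit 403) (nat_lit 208)) (XT.lf (nat_lit 76) (nat_lit 34939385917) (nat_lit 0) (nat_lit 34983335473) (nat_lit 836) (nat_lit 34659188364) (nat_lit 296) (nat_lit 5) (nat_lit 295) (nat_lit 5) (nat_lit 306) (nat_lit 5) (nat_lit 410) (nat_lit 403) (nat_lit 207))) (XT.nd (nat_lit 78) (nat_lit 0) (nat_lit 0) (XT.lf (nat_lit 0) (nat_lit 78103378657) (nat_lit 760) (nat_lit 14637584566) (nat_lit 836) (nat_lit 14590831812) (nat_lit 296) (nat_lit 5) (nat_lit 306) (nat_lit 5) (nat_lit 307) (nat_lit 5) (nat_lit 411) (nat_lit 403) (nat_lit 206)) (XT.lf (nat_lit 76) (nat_lit 43950476162) (nat_lit 0) (nat_lit 44001891804) (nat_lit 836) (nat_lit 22203841654) (nat_lit 297) (nat_lit 5) (nat_lit 296) (nat_lit 5) (nat_lit 307) (nat_lit 5) (nat_lit 412) (nat_lit 403) (nat_lit 205)))))) (XT.nd (nat_lit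 624) (nat_lit 1520) (nat_lit 0) (XT.nd (nat_lit 312) (nat_lit 760) (nat_lit 0) (XT.nd (nat_lit 156) (nat_lit 532) (nat_lit 0) (XT.nd (nat_lit 78) (nat_lit 760) (nat_lit 0) (XT.lf (nat_lit 0) (nat_lit 98657399832) (nat_lit 760) (nat_lit 7249731052) (nat_lit 76) (nat_lit 7196534396) (nat_lit 297) (nat_lit 5) (nat_lit 307) (nat_lit 5) (nat_lit 298) (nat_lit 5) (nat_lit 413) (nat_lit 403) (nat_lit 204)) (XT.lf (nat_lit 0) (nat_lit 55715661449) (nat_lit 760) (nat_lit 55772886083) (nat_lit 836) (nat_lit 4630402978) (nat_lit 287) (nat_lit 5) (nat_lit 297) (nat_lit 5) (nat_lit 298) (nat_lit 5) (nat_lit 414) (nat_lit 403) (nat_lit 203))) (XT.nd (nat_lit 78) (nat_lit 0) (nat_lit 0) (XT.lf (nat_lit 0) (nat_lit 2800843161) (nat_lit 456) (nat_lit 2861903966) (nat_lit 532) (nat_lit 113609413262) (nat_lit 280) (nat_lit 5) (nat_lit 286) (nat_lit 5) (nat_lit 287) (nat_lit 5) (nat_lit 415) (nat_lit 403) (nat_lit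 202)) (XT.lf (nat_lit 0) (nat_lit 18177044958) (nat_lit 532) (nat_lit 52185358976) (nat_lit 76) (nat_lit 52123726310) (nat_lit 280) (nat_lit 5) (nat_lit 287) (nat_lit 5) (nat_lit 281) (nat_lit 5) (nat_lit 416) (nat_lit 403) (nat_lit 201)))) (XT.nd (nat_lit 156) (nat_lit 380) (nat_lit 0) (XT.nd (nat_lit 78) (nat_lit 0) (nat_lit 0) (XT.lf (nat_lit 0) (nat_lit 15772479443) (nat_lit 380) (nat_lit 15837425938) (nat_lit 456) (nat_lit 94236250827) (nat_lit 275) (nat_lit 5) (nat_lit 280) (nat_lit 5) (nat_lit 281) (nat_lit 5) (nat_lit 417) (nat_lit 403) (nat_lit 200)) (XT.lf (nat_lit 0) (nat_lit 47258955882) (nat_lit 456) (nat_lit 41051429888) (nat_lit 76) (nat_lit 40986570345) (nat_lit 275) (nat_lit 5) (nat_lit 281) (nat_lit 5) (nat_lit 276) (nat_lit 5) (nat_lit 418) (nat_lit 403) (nat_lit 199))) (XT.nd (nat_lit 78) (nat_lit 0) (nat_lit 0) (XT.lf (nat_lit 0) (nat_lit 32192341580) (nat_lit 380) (nat_lit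 32260063733) (nat_lit 456) (nat_lit 68429793386) (nat_lit 270) (nat_lit 5) (nat_lit 275) (nat_lit 5) (nat_lit 276) (nat_lit 5) (nat_lit 419) (nat_lit 403) (nat_lit 198)) (XT.lf (nat_lit 0) (nat_lit 83627050666) (nat_lit 456) (nat_lit 26515335166) (nat_lit 76) (nat_lit 26448241406) (nat_lit 270) (nat_lit 5) (nat_lit 276) (nat_lit 5) (nat_lit 271) (nat_lit 5) (nat_lit 420) (nat_lit 403) (nat_lit 197))))) (XT.nd (nat_lit 312) (nat_lit 532) (nat_lit 0) (XT.nd (nat_lit 156) (nat_lit 684) (nat_lit 0) (XT.nd (nat_lit 78) (nat_lit 0) (nat_lit 0) (XT.lf (nat_lit 0) (nat_lit 52519710748) (nat_lit 304) (nat_lit 52589277337) (nat_lit 380) (nat_lit 35308061131) (nat_lit 266) (nat_lit 5) (nat_lit 270) (nat_lit 5) (nat_lit 271) (nat_lit 5) (nat_lit 421) (nat_lit 403) (nat_lit 196)) (XT.lf (nat_lit 0) (nat_lit 128243595612) (nat_lit 380) (nat_lit 8115382420) (nat_lit 76) (nat_lit 8046885597) (nat_lit 266) (nat_lit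 5) (nat_lit 271) (nat_lit 5) (nat_lit 267) (nat_lit 5) (nat_lit 422) (nat_lit 403) (nat_lit 195))) (XT.nd (nat_lit 78) (nat_lit 304) (nat_lit 0) (XT.lf (nat_lit 0) (nat_lit 5916798014) (nat_lit 380) (nat_lit 71319885820) (nat_lit 76) (nat_lit 71249252874) (nat_lit 261) (nat_lit 5) (nat_lit 266) (nat_lit 5) (nat_lit 262) (nat_lit 5) (nat_lit 423) (nat_lit 403) (nat_lit 194)) (XT.lf (nat_lit 0) (nat_lit 14424318542) (nat_lit 304) (nat_lit 14496985891) (nat_lit 380) (nat_lit 123817228985) (nat_lit 257) (nat_lit 5) (nat_lit 261) (nat_lit 5) (nat_lit 262) (nat_lit 5) (nat_lit 424) (nat_lit 403) (nat_lit 193)))) (XT.nd (nat_lit 156) (nat_lit 228) (nat_lit 0) (XT.nd (nat_lit 78) (nat_lit 304) (nat_lit 0) (XT.lf (nat_lit 0) (nat_lit 55105611196) (nat_lit 380) (nat_lit 51033861139) (nat_lit 76) (nat_lit 50962808876) (nat_lit 257) (nat_lit 5) (nat_lit 262) (nat_lit 5) (nat_lit 258) (nat_lit 5) (nat_lit 425)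 (nat_lit 403) (nat_lit 192)) (XT.lf (nat_lit 0) (nat_lit 41707458819) (nat_lit 304) (nat_lit 41780268475) (nat_lit 380) (nat_lit 78152059399) (nat_lit 253) (nat_lit 5) (nat_lit 257) (nat_lit 5) (nat_lit 258) (nat_lit 5) (nat_lit 426) (nat_lit 403) (nat_lit 191))) (XT.nd (nat_lit 78) (nat_lit 228) (nat_lit 0) (XT.lf (nat_lit 0) (nat_lit 114569936407) (nat_lit 380) (nat_lit 25920559110) (nat_lit 76) (nat_lit 25849622572) (nat_lit 253) (nat_lit 5) (nat_lit 258) (nat_lit 5) (nat_lit 254) (nat_lit 5) (nat_lit 427) (nat_lit 403) (nat_lit 190)) (XT.lf (nat_lit 0) (nat_lit 74490758859) (nat_lit 228) (nat_lit 74563213499) (nat_lit 304) (nat_lit 22129107878) (nat_lit 250) (nat_lit 5) (nat_lit 253) (nat_lit 5) (nat_lit 254) (nat_lit 5) (nat_lit 428) (nat_lit 403) (nat_lit 189)))))))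
noncomputable def xc290 : XT := (XT.nd (nat_lit 1248) (nat_lit 1748) (nat_lit 0) (XT.nd (nat_lit 624) (nat_lit 988) (nat_lit 0) (XT.nd (nat_lit 312) (nat_lit 760) (nat_lit 0) (XT.nd (nat_lit 156) (nat_lit 228) (nat_lit 0) (XT.nd (nat_lit 78) (nat_lit 0) (nat_lit 0) (XT.lf (nat_lit 0) (nat_lit 4574820281) (nat_lit 304) (nat_lit 4648720734) (nat_lit 380) (nat_lit 167011759074) (nat_lit 245) (nat_lit 5) (nat_lit 249) (nat_lit 5) (nat_lit 250) (nat_lit 5) (nat_lit 429) (nat_lit 403) (nat_lit 188)) (XT.lf (nat_lit 0) (nat_lit 44137866301) (nat_lit 380) (nat_lit 68659466222) (nat_lit 76) (nat_lit 68587773444) (nat_lit 245) (nat_lit 5) (nat_lit 250) (nat_lit 5) (nat_lit 246) (nat_lit 5) (nat_lit 430) (nat_lit 403) (nat_lit 187))) (XT.nd (nat_lit 78) (nat_lit 0) (nat_lit 0) (XT.lf (nat_lit 0) (nat_lit 40718351785) (nat_lit 228) (nat_lit 40791293510) (nat_lit 304) (nat_lit 105247169970) (nat_lit 242) (nat_lit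 5) (nat_lit 245) (nat_lit 5) (nat_lit 246) (nat_lit 5) (nat_lit 431) (nat_lit 403) (nat_lit 186)) (XT.lf (nat_lit 0) (nat_lit 122475222197) (nat_lit 304) (nat_lit 34953114263) (nat_lit 76) (nat_lit 34882513122) (nat_lit 242) (nat_lit 5) (nat_lit 246) (nat_lit 5) (nat_lit 243) (nat_lit 5) (nat_lit 432) (nat_lit 403) (nat_lit 185)))) (XT.nd (nat_lit 156) (nat_lit 228) (nat_lit 0) (XT.nd (nat_lit 78) (nat_lit 304) (nat_lit 0) (XT.lf (nat_lit 0) (nat_lit 83696328193) (nat_lit 228) (nat_lit 83768008222) (nat_lit 304) (nat_lit 30579486276) (nat_lit 239) (nat_lit 5) (nat_lit 242) (nat_lit 5) (nat_lit 243) (nat_lit 5) (nat_lit 433) (nat_lit 403) (nat_lit 184)) (XT.lf (nat_lit 0) (nat_lit 5456441833) (nat_lit 228) (nat_lit 5529149373) (nat_lit 304) (nat_lit 193035214731) (nat_lit 235) (nat_lit 5) (nat_lit 238) (nat_lit 5) (nat_lit 239) (nat_lit 5) (nat_lit 434) (nat_lit 403) (nat_lit 183))) (XT.nd (nat_lit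 78) (nat_lit 228) (nat_lit 0) (XT.lf (nat_lit 0) (nat_lit 56765626012) (nat_lit 304) (nat_lit 76708952852) (nat_lit 76) (nat_lit 76638775593) (nat_lit 235) (nat_lit 5) (nat_lit 239) (nat_lit 5) (nat_lit 236) (nat_lit 5) (nat_lit 435) (nat_lit 403) (nat_lit 182)) (XT.lf (nat_lit 0) (nat_lit 52839520259) (nat_lit 228) (nat_lit 52910585122) (nat_lit 304) (nat_lit 110714652881) (nat_lit 232) (nat_lit 5) (nat_lit 235) (nat_lit 5) (nat_lit 236) (nat_lit 5) (nat_lit 436) (nat_lit 403) (nat_lit 181))))) (XT.nd (nat_lit 312) (nat_lit 532) (nat_lit 0) (XT.nd (nat_lit 156) (nat_lit 304) (nat_lit 0) (XT.nd (nat_lit 78) (nat_lit 152) (nat_lit 0) (XT.lf (nat_lit 0) (nat_lit 158998678229) (nat_lit 304) (nat_lit 32056398228) (nat_lit 76) (nat_lit 31987912324) (nat_lit 232) (nat_lit 5) (nat_lit 236) (nat_lit 5) (nat_lit 233) (nat_lit 5) (nat_lit 437) (nat_lit 403) (nat_lit 180)) (XT.lf (nat_lit 0) (nat_lit 108702400846)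 (nat_lit 152) (nat_lit 108771653495) (nat_lit 228) (nat_lit 12347857755) (nat_lit 230) (nat_lit 5) (nat_lit 232) (nat_lit 5) (nat_lit 233) (nat_lit 5) (nat_lit 438) (nat_lit 403) (nat_lit 179))) (XT.nd (nat_lit 78) (nat_lit 0) (nat_lit 0) (XT.lf (nat_lit 0) (nat_lit 20698044293) (nat_lit 228) (nat_lit 20768027175) (nat_lit 304) (nat_lit 195397235949) (nat_lit 226) (nat_lit 5) (nat_lit 229) (nat_lit 5) (nat_lit 230) (nat_lit 5) (nat_lit 439) (nat_lit 403) (nat_lit 178)) (XT.lf (nat_lit 0) (nat_lit 100758849877) (nat_lit 304) (nat_lit 71697479027) (nat_lit 76) (nat_lit 71630166319) (nat_lit 226) (nat_lit 5) (nat_lit 230) (nat_lit 5) (nat_lit 227) (nat_lit 5) (nat_lit 440) (nat_lit 403) (nat_lit 177)))) (XT.nd (nat_lit 156) (nat_lit 380) (nat_lit 0) (XT.nd (nat_lit 78) (nat_lit 0) (nat_lit 0) (XT.lf (nat_lit 0) (nat_lit 82286679355) (nat_lit 152) (nat_lit 82354622866) (nat_lit 228) (nat_lit 86948288447)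 (nat_lit 224) (nat_lit 5) (nat_lit 226) (nat_lit 5) (nat_lit 227) (nat_lit 5) (nat_lit 441) (nat_lit 403) (nat_lit 176)) (XT.lf (nat_lit 0) (nat_lit 233143156656) (nat_lit 228) (nat_lit 13159350260) (nat_lit 76) (nat_lit 13094069998) (nat_lit 224) (nat_lit 5) (nat_lit 227) (nat_lit 5) (nat_lit 225) (nat_lit 5) (nat_lit 442) (nat_lit 403) (nat_lit 175))) (XT.nd (nat_lit 78) (nat_lit 152) (nat_lit 0) (XT.lf (nat_lit 0) (nat_lit 40098637706) (nat_lit 228) (nat_lit 113670374296) (nat_lit 76) (nat_lit 113604549122) (nat_lit 221) (nat_lit 5) (nat_lit 224) (nat_lit 5) (nat_lit 222) (nat_lit 5) (nat_lit 443) (nat_lit 403) (nat_lit 174)) (XT.lf (nat_lit 0) (nat_lit 54951997614) (nat_lit 152) (nat_lit 55018341751) (nat_lit 228) (nat_lit 165703319590) (nat_lit 219) (nat_lit 5) (nat_lit 221) (nat_lit 5) (nat_lit 222) (nat_lit 5) (nat_lit 444) (nat_lit 403) (nat_lit 173)))))) (XT.nd (nat_lit 624) (nat_lit 912)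 (nat_lit 0) (XT.nd (nat_lit 312) (nat_lit 456) (nat_lit 0) (XT.nd (nat_lit 156) (nat_lit 228) (nat_lit 0) (XT.nd (nat_lit 78) (nat_lit 152) (nat_lit 0) (XT.lf (nat_lit 0) (nat_lit 186051981647) (nat_lit 228) (nat_lit 49132308931) (nat_lit 76) (nat_lit 49068653323) (nat_lit 219) (nat_lit 5) (nat_lit 222) (nat_lit 5) (nat_lit 220) (nat_lit 5) (nat_lit 445) (nat_lit 403) (nat_lit 172)) (XT.lf (nat_lit 0) (nat_lit 134437175617) (nat_lit 152) (nat_lit 134501279525) (nat_lit 228) (nat_lit 24172700497) (nat_lit 217) (nat_lit 5) (nat_lit 219) (nat_lit 5) (nat_lit 220) (nat_lit 5) (nat_lit 446) (nat_lit 403) (nat_lit 171))) (XT.nd (nat_lit 78) (nat_lit 0) (nat_lit 0) (XT.lf (nat_lit 0) (nat_lit 26518954916) (nat_lit 152) (nat_lit 26583485776) (nat_lit 228) (nat_lit 249205047350) (nat_lit 214) (nat_lit 5) (nat_lit 216) (nat_lit 5) (nat_lit 217) (nat_lit 5) (nat_lit 447) (nat_lit 403) (nat_lit 170)) (XT.lf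 (nat_lit 0) (nat_lit 137514222620) (nat_lit 228) (nat_lit 87143591864) (nat_lit 76) (nat_lit 87081746644) (nat_lit 214) (nat_lit 5) (nat_lit 217) (nat_lit 5) (nat_lit 215) (nat_lit 5) (nat_lit 448) (nat_lit 403) (nat_lit 169)))) (XT.nd (nat_lit 156) (nat_lit 304) (nat_lit 0) (XT.nd (nat_lit 78) (nat_lit 0) (nat_lit 0) (XT.lf (nat_lit 0) (nat_lit 114151134909) (nat_lit 152) (nat_lit 114213348947) (nat_lit 228) (nat_lit 93167859503) (nat_lit 212) (nat_lit 5) (nat_lit 214) (nat_lit 5) (nat_lit 215) (nat_lit 5) (nat_lit 449) (nat_lit 403) (nat_lit 168)) (XT.lf (nat_lit 0) (nat_lit 325284522742) (nat_lit 228) (nat_lit 3256732361) (nat_lit 76) (nat_lit 3197146369) (nat_lit 212) (nat_lit 5) (nat_lit 215) (nat_lit 5) (nat_lit 213) (nat_lit 4) (nat_lit 450) (nat_lit 403) (nat_lit 167))) (XT.nd (nat_lit 78) (nat_lit 152) (nat_lit 0) (XT.lf (nat_lit 0) (nat_lit 87220664019) (nat_lit 152) (nat_lit 127480670671)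 (nat_lit 76) (nat_lit 127420766080) (nat_lit 210) (nat_lit 5) (nat_lit 212) (nat_lit 5) (nat_lit 211) (nat_lit 5) (nat_lit 451) (nat_lit 403) (nat_lit 166)) (XT.lf (nat_lit 0) (nat_lit 93408068609) (nat_lit 152) (nat_lit 93468276627) (nat_lit 228) (nat_lit 166067634534) (nat_lit 208) (nat_lit 5) (nat_lit 210) (nat_lit 5) (nat_lit 211) (nat_lit 5) (nat_lit 452) (nat_lit 403) (nat_lit 165))))) (XT.nd (nat_lit 312) (nat_lit 608) (nat_lit 0) (XT.nd (nat_lit 156) (nat_lit 152) (nat_lit 0) (XT.nd (nat_lit 78) (nat_lit 152) (nat_lit 0) (XT.lf (nat_lit 0) (nat_lit 294237160053) (nat_lit 228) (nat_lit 34995645688) (nat_lit 76) (nat_lit 34938029501) (nat_lit 208) (nat_lit 5) (nat_lit 211) (nat_lit 5) (nat_lit 209) (nat_lit 4) (nat_lit 453) (nat_lit 403) (nat_lit 164)) (XT.lf (nat_lit 0) (nat_lit 34838055256) (nat_lit 152) (nat_lit 170456738363) (nat_lit 76) (nat_lit 170398860064) (nat_lit 206) (nat_lit 5)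 (nat_lit 208) (nat_lit 5) (nat_lit 207) (nat_lit 5) (nat_lit 454) (nat_lit 403) (nat_lit 163))) (XT.nd (nat_lit 78) (nat_lit 0) (nat_lit 0) (XT.lf (nat_lit 0) (nat_lit 72083859981) (nat_lit 152) (nat_lit 72141987909) (nat_lit 228) (nat_lit 243423057186) (nat_lit 204) (nat_lit 5) (nat_lit 206) (nat_lit 5) (nat_lit 207) (nat_lit 5) (nat_lit 455) (nat_lit 403) (nat_lit 162)) (XT.lf (nat_lit 0) (nat_lit 263073507203) (nat_lit 228) (nat_lit 68492237168) (nat_lit 76) (nat_lit 68436650814) (nat_lit 204) (nat_lit 5) (nat_lit 207) (nat_lit 5) (nat_lit 205) (nat_lit 4) (nat_lit 456) (nat_lit 403) (nat_lit 161)))) (XT.nd (nat_lit 156) (nat_lit 304) (nat_lit 0) (XT.nd (nat_lit 78) (nat_lit 228) (nat_lit 0) (XT.lf (nat_lit 0) (nat_lit 196025402738) (nat_lit 76) (nat_lit 196081204732) (nat_lit 152) (nat_lit 20654799431) (nat_lit 203) (nat_lit 5) (nat_lit 204) (nat_lit 5) (nat_lit 205) (nat_lit 4) (nat_lit 457)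 (nat_lit 403) (nat_lit 160)) (XT.lf (nat_lit 0) (nat_lit 50045353389) (nat_lit 152) (nat_lit 50101360754) (nat_lit 228) (nat_lit 325834461901) (nat_lit 200) (nat_lit 5) (nat_lit 202) (nat_lit 5) (nat_lit 203) (nat_lit 5) (nat_lit 458) (nat_lit 403) (nat_lit 159))) (XT.nd (nat_lit 78) (nat_lit 304) (nat_lit 0) (XT.lf (nat_lit 0) (nat_lit 231635655491) (nat_lit 228) (nat_lit 103997900088) (nat_lit 76) (nat_lit 103944373463) (nat_lit 200) (nat_lit 5) (nat_lit 203) (nat_lit 5) (nat_lit 201) (nat_lit 4) (nat_lit 459) (nat_lit 403) (nat_lit 158)) (XT.nd (nat_lit 78) (nat_lit 228) (nat_lit 0) (XT.lf (nat_lit 0) (nat_lit 186690670318) (nat_lit 76) (nat_lit 186744374351) (nat_lit 152) (nat_lit 80232674983) (nat_lit 199) (nat_lit 5) (nat_lit 200) (nat_lit 5) (nat_lit 201) (nat_lit 4) (nat_lit 460) (nat_lit 403) (nat_lit 157)) (XT.lf (nat_lit 0) (nat_lit 27149251812) (nat_lit 152) (nat_lit 27203124805) (nat_lit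 228) (nat_lit 413956880701) (nat_lit 196) (nat_lit 5) (nat_lit 198) (nat_lit 5) (nat_lit 199) (nat_lit 5) (nat_lit 461) (nat_lit 403) (nat_lit 156))))))))
noncomputable def xc291 : XT := (XT.nd (nat_lit 49218) (nat_lit 0) (nat_lit 3876) (XT.nd (nat_lit 1248) (nat_lit 532) (nat_lit 0) (XT.nd (nat_lit 624) (nat_lit 608) (nat_lit 0) (XT.nd (nat_lit 312) (nat_lit 304) (nat_lit 0) (XT.nd (nat_lit 156) (nat_lit 228) (nat_lit 0) (XT.nd (nat_lit 78) (nat_lit 76) (nat_lit 0) (XT.lf (nat_lit 0) (nat_lit 199756459926) (nat_lit 228) (nat_lit 141786401081) (nat_lit 76) (nat_lit 141734940218) (nat_lit 196) (nat_lit 5) (nat_lit 199) (nat_lit 5) (nat_lit 197) (nat_lit 4) (nat_lit 462) (nat_lit 403) (nat_lit 155)) (XT.lf (nat_lit 0) (nat_lit 177800482551) (nat_lit 76) (nat_lit 177852089368) (nat_lit 152) (nat_lit 143181109182) (nat_lit 195) (nat_lit 5) (nat_lit 196) (nat_lit 5) (nat_lit 197) (nat_lit 4) (nat_lit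 463) (nat_lit 403) (nat_lit 154))) (XT.nd (nat_lit 78) (nat_lit 0) (nat_lit 0) (XT.lf (nat_lit 0) (nat_lit 3240909841) (nat_lit 152) (nat_lit 3292655661) (nat_lit 228) (nat_lit 508505974743) (nat_lit 192) (nat_lit 5) (nat_lit 194) (nat_lit 5) (nat_lit 195) (nat_lit 5) (nat_lit 464) (nat_lit 403) (nat_lit 153)) (XT.lf (nat_lit 0) (nat_lit 167258262031) (nat_lit 228) (nat_lit 182156335476) (nat_lit 76) (nat_lit 182106927662) (nat_lit 192) (nat_lit 5) (nat_lit 195) (nat_lit 5) (nat_lit 193) (nat_lit 4) (nat_lit 465) (nat_lit 403) (nat_lit 152)))) (XT.nd (nat_lit 156) (nat_lit 228) (nat_lit 0) (XT.nd (nat_lit 78) (nat_lit 0) (nat_lit 0) (XT.lf (nat_lit 0) (nat_lit 169333664690) (nat_lit 76) (nat_lit 169383192581) (nat_lit 152) (nat_lit 209975868872) (nat_lit 191) (nat_lit 5) (nat_lit 192) (nat_lit 5) (nat_lit 193) (nat_lit 4) (nat_lit 466) (nat_lit 403) (nat_lit 151)) (XT.lf (nat_lit 0) (nat_lit 522190561591)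 (nat_lit 152) (nat_lit 22203547471) (nat_lit 0) (nat_lit 22156269139) (nat_lit 191) (nat_lit 5) (nat_lit 193) (nat_lit 4) (nat_lit 191) (nat_lit 4) (nat_lit 467) (nat_lit 403) (nat_lit 150))) (XT.nd (nat_lit 78) (nat_lit 76) (nat_lit 0) (XT.lf (nat_lit 0) (nat_lit 133951497391) (nat_lit 152) (nat_lit 225433826526) (nat_lit 76) (nat_lit 225386444468) (nat_lit 189) (nat_lit 5) (nat_lit 191) (nat_lit 5) (nat_lit 190) (nat_lit 4) (nat_lit 468) (nat_lit 403) (nat_lit 149)) (XT.lf (nat_lit 0) (nat_lit 161270051365) (nat_lit 76) (nat_lit 161317532211) (nat_lit 152) (nat_lit 281135284638) (nat_lit 188) (nat_lit 5) (nat_lit 189) (nat_lit 5) (nat_lit 190) (nat_lit 4) (nat_lit 469) (nat_lit 403) (nat_lit 148))))) (XT.nd (nat_lit 312) (nat_lit 380) (nat_lit 0) (XT.nd (nat_lit 156) (nat_lit 76) (nat_lit 0) (XT.nd (nat_lit 78) (nat_lit 152) (nat_lit 0) (XT.lf (nat_lit 0) (nat_lit 525264204447) (nat_lit 152)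 (nat_lit 49086095761) (nat_lit 0) (nat_lit 49040786305) (nat_lit 188) (nat_lit 5) (nat_lit 190) (nat_lit 4) (nat_lit 188) (nat_lit 4) (nat_lit 470) (nat_lit 403) (nat_lit 147)) (XT.lf (nat_lit 0) (nat_lit 99633175401) (nat_lit 152) (nat_lit 271975493904) (nat_lit 76) (nat_lit 271930099112) (nat_lit 186) (nat_lit 5) (nat_lit 188) (nat_lit 5) (nat_lit 187) (nat_lit 4) (nat_lit 471) (nat_lit 403) (nat_lit 146))) (XT.nd (nat_lit 78) (nat_lit 0) (nat_lit 0) (XT.lf (nat_lit 0) (nat_lit 153590438328) (nat_lit 76) (nat_lit 153635914392) (nat_lit 152) (nat_lit 357224908643) (nat_lit 185) (nat_lit 5) (nat_lit 186) (nat_lit 5) (nat_lit 187) (nat_lit 4) (nat_lit 472) (nat_lit 403) (nat_lit 145)) (XT.lf (nat_lit 0) (nat_lit 531055293102) (nat_lit 152) (nat_lit 77552332449) (nat_lit 0) (nat_lit 77508948195) (nat_lit 185) (nat_lit 5) (nat_lit 187) (nat_lit 4) (nat_lit 185) (nat_lit 4) (nat_lit 473) (nat_lit 403)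 (nat_lit 144)))) (XT.nd (nat_lit 156) (nat_lit 152) (nat_lit 0) (XT.nd (nat_lit 78) (nat_lit 76) (nat_lit 0) (XT.lf (nat_lit 0) (nat_lit 64085217417) (nat_lit 152) (nat_lit 322171719407) (nat_lit 76) (nat_lit 322128264946) (nat_lit 183) (nat_lit 5) (nat_lit 185) (nat_lit 5) (nat_lit 184) (nat_lit 4) (nat_lit 474) (nat_lit 403) (nat_lit 143)) (XT.lf (nat_lit 0) (nat_lit 146276536536) (nat_lit 76) (nat_lit 146320057860) (nat_lit 152) (nat_lit 438862635897) (nat_lit 182) (nat_lit 5) (nat_lit 183) (nat_lit 5) (nat_lit 184) (nat_lit 4) (nat_lit 475) (nat_lit 403) (nat_lit 142))) (XT.nd (nat_lit 78) (nat_lit 152) (nat_lit 0) (XT.lf (nat_lit 0) (nat_lit 539727970469) (nat_lit 152) (nat_lit 107820388894) (nat_lit 0) (nat_lit 107778879368) (nat_lit 182) (nat_lit 5) (nat_lit 184) (nat_lit 4) (nat_lit 182) (nat_lit 4) (nat_lit 476) (nat_lit 403) (nat_lit 141)) (XT.lf (nat_lit 0) (nat_lit 27072638125) (nat_lit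 152) (nat_lit 376450240701) (nat_lit 76) (nat_lit 376408673416) (nat_lit 180) (nat_lit 5) (nat_lit 182) (nat_lit 5) (nat_lit 181) (nat_lit 4) (nat_lit 477) (nat_lit 403) (nat_lit 140)))))) (XT.nd (nat_lit 47346) (nat_lit 0) (nat_lit 9044) (XT.nd (nat_lit 312) (nat_lit 228) (nat_lit 0) (XT.nd (nat_lit 156) (nat_lit 228) (nat_lit 0) (XT.nd (nat_lit 78) (nat_lit 0) (nat_lit 0) (XT.lf (nat_lit 0) (nat_lit 139310928440) (nat_lit 76) (nat_lit 139352550734) (nat_lit 152) (nat_lit 526724337119) (nat_lit 179) (nat_lit 5) (nat_lit 180) (nat_lit 5) (nat_lit 181) (nat_lit 4) (nat_lit 478) (nat_lit 403) (nat_lit 139)) (XT.lf (nat_lit 0) (nat_lit 551468650687) (nat_lit 152) (nat_lit 140128096806) (nat_lit 0) (nat_lit 140088406632) (nat_lit 179) (nat_lit 5) (nat_lit 181) (nat_lit 4) (nat_lit 179) (nat_lit 4) (nat_lit 479) (nat_lit 403) (nat_lit 138))) (XT.nd (nat_lit 78) (nat_lit 152) (nat_lit 0) (XT.lf (nat_lit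 0) (nat_lit 423384481352) (nat_lit 76) (nat_lit 423424219044) (nat_lit 76) (nat_lit 12043927472) (nat_lit 178) (nat_lit 4) (nat_lit 179) (nat_lit 5) (nat_lit 179) (nat_lit 4) (nat_lit 480) (nat_lit 403) (nat_lit 137)) (XT.lf (nat_lit 0) (nat_lit 132677026382) (nat_lit 76) (nat_lit 132716809329) (nat_lit 152) (nat_lit 621550056243) (nat_lit 176) (nat_lit 5) (nat_lit 177) (nat_lit 5) (nat_lit 178) (nat_lit 4) (nat_lit 481) (nat_lit 403) (nat_lit 136)))) (XT.nd (nat_lit 156) (nat_lit 152) (nat_lit 0) (XT.nd (nat_lit 78) (nat_lit 76) (nat_lit 0) (XT.lf (nat_lit 0) (nat_lit 566488042710) (nat_lit 152) (nat_lit 174735134252) (nat_lit 0) (nat_lit 174697204683) (nat_lit 176) (nat_lit 5) (nat_lit 178) (nat_lit 4) (nat_lit 176) (nat_lit 4) (nat_lit 482) (nat_lit 403) (nat_lit 135)) (XT.lf (nat_lit 0) (nat_lit 445867930704) (nat_lit 76) (nat_lit 445905899367) (nat_lit 76) (nat_lit 54115022246) (nat_lit 175)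 (nat_lit 4) (nat_lit 176) (nat_lit 5) (nat_lit 176) (nat_lit 4) (nat_lit 483) (nat_lit 403) (nat_lit 134))) (XT.nd (nat_lit 78) (nat_lit 0) (nat_lit 0) (XT.lf (nat_lit 0) (nat_lit 126359032989) (nat_lit 76) (nat_lit 126397038884) (nat_lit 152) (nat_lit 724150831071) (nat_lit 173) (nat_lit 5) (nat_lit 174) (nat_lit 5) (nat_lit 175) (nat_lit 4) (nat_lit 484) (nat_lit 403) (nat_lit 133)) (XT.lf (nat_lit 0) (nat_lit 585023393624) (nat_lit 152) (nat_lit 211925385569) (nat_lit 0) (nat_lit 211889155708) (nat_lit 173) (nat_lit 5) (nat_lit 175) (nat_lit 4) (nat_lit 173) (nat_lit 4) (nat_lit 485) (nat_lit 403) (nat_lit 132))))) (XT.nd (nat_lit 312) (nat_lit 0) (nat_lit 152) (XT.nd (nat_lit 156) (nat_lit 0) (nat_lit 76) (XT.nd (nat_lit 78) (nat_lit 0) (nat_lit 0) (XT.lf (nat_lit 0) (nat_lit 21609024898) (nat_lit 836) (nat_lit 12227595481) (nat_lit 836) (nat_lit 12227595481) (nat_lit 292) (nat_lit 3) (nat_lit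 303) (nat_lit 3) (nat_lit 303) (nat_lit 5) (nat_lit 404) (nat_lit 404) (nat_lit 212)) (XT.lf (nat_lit 76) (nat_lit 22323516850) (nat_lit 0) (nat_lit 22331112205) (nat_lit 836) (nat_lit 49759207058) (nat_lit 293) (nat_lit 5) (nat_lit 292) (nat_lit 3) (nat_lit 303) (nat_lit 5) (nat_lit 405) (nat_lit 404) (nat_lit 211))) (XT.nd (nat_lit 78) (nat_lit 0) (nat_lit 0) (XT.lf (nat_lit 0) (nat_lit 46978162848) (nat_lit 760) (nat_lit 24904357240) (nat_lit 836) (nat_lit 24890234359) (nat_lit 293) (nat_lit 5) (nat_lit 303) (nat_lit 5) (nat_lit 304) (nat_lit 5) (nat_lit 406) (nat_lit 404) (nat_lit 210)) (XT.lf (nat_lit 76) (nat_lit 25077167182) (nat_lit 0) (nat_lit 25097851216) (nat_lit 836) (nat_lit 49036743046) (nat_lit 294) (nat_lit 5) (nat_lit 293) (nat_lit 5) (nat_lit 304) (nat_lit 5) (nat_lit 407) (nat_lit 404) (nat_lit 209)))) (XT.nd (nat_lit 156) (nat_lit 0) (nat_lit 76) (XT.nd (nat_lit 78) (nat_lit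 0) (nat_lit 0) (XT.lf (nat_lit 0) (nat_lit 54335069179) (nat_lit 760) (nat_lit 23711566113) (nat_lit 836) (nat_lit 23685915875) (nat_lit 294) (nat_lit 5) (nat_lit 304) (nat_lit 5) (nat_lit 305) (nat_lit 5) (nat_lit 408) (nat_lit 404) (nat_lit 208)) (XT.lf (nat_lit 76) (nat_lit 29773837863) (nat_lit 0) (nat_lit 29805155872) (nat_lit 836) (nat_lit 44756593080) (nat_lit 295) (nat_lit 5) (nat_lit 294) (nat_lit 5) (nat_lit 305) (nat_lit 5) (nat_lit 409) (nat_lit 404) (nat_lit 207))) (XT.nd (nat_lit 78) (nat_lit 0) (nat_lit 0) (XT.lf (nat_lit 0) (nat_lit 65818362054) (nat_lit 760) (nat_lit 20624358663) (nat_lit 836) (nat_lit 20589391153) (nat_lit 295) (nat_lit 5) (nat_lit 305) (nat_lit 5) (nat_lit 306) (nat_lit 5) (nat_lit 410) (nat_lit 404) (nat_lit 206)) (XT.lf (nat_lit 76) (nat_lit 36695489375) (nat_lit 0) (nat_lit 36735352918) (nat_lit 836) (nat_lit 36379563709) (nat_lit 296) (nat_lit 5) (nat_lit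 295) (nat_lit 5) (nat_lit 306) (nat_lit 5) (nat_lit 411) (nat_lit 404) (nat_lit 205))))))) (XT.nd (nat_lit 1248) (nat_lit 2204) (nat_lit 0) (XT.nd (nat_lit 624) (nat_lit 1672) (nat_lit 0) (XT.nd (nat_lit 312) (nat_lit 912) (nat_lit 0) (XT.nd (nat_lit 156) (nat_lit 684) (nat_lit 0) (XT.nd (nat_lit 78) (nat_lit 0) (nat_lit 0) (XT.lf (nat_lit 0) (nat_lit 82019919328) (nat_lit 760) (nat_lit 15360151499) (nat_lit 836) (nat_lit 15317745373) (nat_lit 296) (nat_lit 5) (nat_lit 306) (nat_lit 5) (nat_lit 307) (nat_lit 5) (nat_lit 412) (nat_lit 404) (nat_lit 204)) (XT.lf (nat_lit 76) (nat_lit 46157162067) (nat_lit 0) (nat_lit 46203797570) (nat_lit 836) (nat_lit 23302511800) (nat_lit 297) (nat_lit 5) (nat_lit 296) (nat_lit 5) (nat_lit 307) (nat_lit 5) (nat_lit 413) (nat_lit 404) (nat_lit 203))) (XT.nd (nat_lit 78) (nat_lit 760) (nat_lit 0) (XT.lf (nat_lit 0) (nat_lit 103600693629) (nat_lit 760) (nat_lit 7602942330)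 (nat_lit 76) (nat_lit 7554691395) (nat_lit 297) (nat_lit 5) (nat_lit 307) (nat_lit 5) (nat_lit 298) (nat_lit 5) (nat_lit 414) (nat_lit 404) (nat_lit 202)) (XT.lf (nat_lit 0) (nat_lit 58510570195) (nat_lit 760) (nat_lit 58562474625) (nat_lit 836) (nat_lit 4851349720) (nat_lit 287) (nat_lit 5) (nat_lit 297) (nat_lit 5) (nat_lit 298) (nat_lit 5) (nat_lit 415) (nat_lit 404) (nat_lit 201)))) (XT.nd (nat_lit 156) (nat_lit 380) (nat_lit 0) (XT.nd (nat_lit 78) (nat_lit 0) (nat_lit 0) (XT.lf (nat_lit 0) (nat_lit 2950196761) (nat_lit 456) (nat_lit 3005580711) (nat_lit 532) (nat_lit 119279496288) (nat_lit 280) (nat_lit 5) (nat_lit 286) (nat_lit 5) (nat_lit 287) (nat_lit 5) (nat_lit 416) (nat_lit 404) (nat_lit 200)) (XT.lf (nat_lit 0) (nat_lit 19095310453) (nat_lit 532) (nat_lit 54785279144) (nat_lit 76) (nat_lit 54729376498) (nat_lit 280) (nat_lit 5) (nat_lit 287) (nat_lit 5) (nat_lit 281) (nat_lit 5) (nat_lit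 417) (nat_lit 404) (nat_lit 199))) (XT.nd (nat_lit 78) (nat_lit 0) (nat_lit 0) (XT.lf (nat_lit 0) (nat_lit 16570300426) (nat_lit 380) (nat_lit 16629208811) (nat_lit 456) (nat_lit 98938499351) (nat_lit 275) (nat_lit 5) (nat_lit 280) (nat_lit 5) (nat_lit 281) (nat_lit 5) (nat_lit 418) (nat_lit 404) (nat_lit 198)) (XT.lf (nat_lit 0) (nat_lit 49630579837) (nat_lit 456) (nat_lit 43094809897) (nat_lit 76) (nat_lit 43035980379) (nat_lit 275) (nat_lit 5) (nat_lit 281) (nat_lit 5) (nat_lit 276) (nat_lit 5) (nat_lit 419) (nat_lit 404) (nat_lit 197))))) (XT.nd (nat_lit 312) (nat_lit 988) (nat_lit 0) (XT.nd (nat_lit 156) (nat_lit 304) (nat_lit 0) (XT.nd (nat_lit 78) (nat_lit 0) (nat_lit 0) (XT.lf (nat_lit 0) (nat_lit 33811001895) (nat_lit 380) (nat_lit 33872427884) (nat_lit 456) (nat_lit 71842458646) (nat_lit 270) (nat_lit 5) (nat_lit 275) (nat_lit 5) (nat_lit 276) (nat_lit 5) (nat_lit 420) (nat_lit 404) (nat_lit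 196)) (XT.lf (nat_lit 0) (nat_lit 87816416702) (nat_lit 456) (nat_lit 27832098621) (nat_lit 76) (nat_lit 27771242603) (nat_lit 270) (nat_lit 5) (nat_lit 276) (nat_lit 5) (nat_lit 271) (nat_lit 5) (nat_lit 421) (nat_lit 404) (nat_lit 195))) (XT.nd (nat_lit 78) (nat_lit 0) (nat_lit 0) (XT.lf (nat_lit 0) (nat_lit 55154554374) (nat_lit 304) (nat_lit 55217653321) (nat_lit 380) (nat_lit 37065305470) (nat_lit 266) (nat_lit 5) (nat_lit 270) (nat_lit 5) (nat_lit 271) (nat_lit 5) (nat_lit 422) (nat_lit 404) (nat_lit 194)) (XT.lf (nat_lit 0) (nat_lit 134663191765) (nat_lit 380) (nat_lit 8512361433) (nat_lit 76) (nat_lit 8450232795) (nat_lit 266) (nat_lit 5) (nat_lit 271) (nat_lit 5) (nat_lit 267) (nat_lit 5) (nat_lit 423) (nat_lit 404) (nat_lit 193)))) (XT.nd (nat_lit 156) (nat_lit 304) (nat_lit 0) (XT.nd (nat_lit 78) (nat_lit 304) (nat_lit 0) (XT.lf (nat_lit 0) (nat_lit 6219954155) (nat_lit 380) (nat_lit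 74876989871) (nat_lit 76) (nat_lit 74812923706) (nat_lit 261) (nat_lit 5) (nat_lit 266) (nat_lit 5) (nat_lit 262) (nat_lit 5) (nat_lit 424) (nat_lit 404) (nat_lit 192)) (XT.lf (nat_lit 0) (nat_lit 15154281319) (nat_lit 304) (nat_lit 15220192747) (nat_lit 380) (nat_lit 130000630802) (nat_lit 257) (nat_lit 5) (nat_lit 261) (nat_lit 5) (nat_lit 262) (nat_lit 5) (nat_lit 425) (nat_lit 404) (nat_lit 191))) (XT.nd (nat_lit 78) (nat_lit 304) (nat_lit 0) (XT.lf (nat_lit 0) (nat_lit 57867682283) (nat_lit 380) (nat_lit 53576909979) (nat_lit 76) (nat_lit 53512463482) (nat_lit 257) (nat_lit 5) (nat_lit 262) (nat_lit 5) (nat_lit 258) (nat_lit 5) (nat_lit 426) (nat_lit 404) (nat_lit 190)) (XT.lf (nat_lit 0) (nat_lit 43801336553) (nat_lit 304) (nat_lit 43867377058) (nat_lit 380) (nat_lit 82052732418) (nat_lit 253) (nat_lit 5) (nat_lit 257) (nat_lit 5) (nat_lit 258) (nat_lit 5) (nat_lit 427) (nat_lit 404) (nat_lit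 189)))))) (XT.nd (nat_lit 624) (nat_lit 836) (nat_lit 0) (XT.nd (nat_lit 312) (nat_lit 760) (nat_lit 0) (XT.nd (nat_lit 156) (nat_lit 380) (nat_lit 0) (XT.nd (nat_lit 78) (nat_lit 228) (nat_lit 0) (XT.lf (nat_lit 0) (nat_lit 120304747221) (nat_lit 380) (nat_lit 27208201302) (nat_lit 76) (nat_lit 27143859771) (nat_lit 253) (nat_lit 5) (nat_lit 258) (nat_lit 5) (nat_lit 254) (nat_lit 5) (nat_lit 428) (nat_lit 404) (nat_lit 188)) (XT.lf (nat_lit 0) (nat_lit 78223547311) (nat_lit 228) (nat_lit 78289265806) (nat_lit 304) (nat_lit 23229114025) (nat_lit 250) (nat_lit 5) (nat_lit 253) (nat_lit 5) (nat_lit 254) (nat_lit 5) (nat_lit 429) (nat_lit 404) (nat_lit 187))) (XT.nd (nat_lit 78) (nat_lit 0) (nat_lit 0) (XT.lf (nat_lit 0) (nat_lit 4811881818) (nat_lit 304) (nat_lit 4878911707) (nat_lit 380) (nat_lit 175355967795) (nat_lit 245) (nat_lit 5) (nat_lit 249) (nat_lit 5) (nat_lit 250) (nat_lit 5) (nat_lit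 430) (nat_lit 404) (nat_lit 186)) (XT.lf (nat_lit 0) (nat_lit 46350579151) (nat_lit 380) (nat_lit 72084259300) (nat_lit 76) (nat_lit 72019231837) (nat_lit 245) (nat_lit 5) (nat_lit 250) (nat_lit 5) (nat_lit 246) (nat_lit 5) (nat_lit 431) (nat_lit 404) (nat_lit 185)))) (XT.nd (nat_lit 156) (nat_lit 532) (nat_lit 0) (XT.nd (nat_lit 78) (nat_lit 0) (nat_lit 0) (XT.lf (nat_lit 0) (nat_lit 42762317668) (nat_lit 228) (nat_lit 42828477963) (nat_lit 304) (nat_lit 110503576994) (nat_lit 242) (nat_lit 5) (nat_lit 245) (nat_lit 5) (nat_lit 246) (nat_lit 5) (nat_lit 432) (nat_lit 404) (nat_lit 184)) (XT.lf (nat_lit 0) (nat_lit 128604416862) (nat_lit 304) (nat_lit 36692870419) (nat_lit 76) (nat_lit 36628833103) (nat_lit 242) (nat_lit 5) (nat_lit 246) (nat_lit 5) (nat_lit 243) (nat_lit 5) (nat_lit 433) (nat_lit 404) (nat_lit 183))) (XT.nd (nat_lit 78) (nat_lit 304) (nat_lit 0) (XT.lf (nat_lit 0) (nat_lit 87888916748)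 (nat_lit 228) (nat_lit 87953932647) (nat_lit 304) (nat_lit 32102899622) (nat_lit 239) (nat_lit 5) (nat_lit 242) (nat_lit 5) (nat_lit 243) (nat_lit 5) (nat_lit 434) (nat_lit 404) (nat_lit 182)) (XT.lf (nat_lit 0) (nat_lit 5737085828) (nat_lit 228) (nat_lit 5803033710) (nat_lit 304) (nat_lit 202681464258) (nat_lit 235) (nat_lit 5) (nat_lit 238) (nat_lit 5) (nat_lit 239) (nat_lit 5) (nat_lit 435) (nat_lit 404) (nat_lit 181))))) (XT.nd (nat_lit 312) (nat_lit 456) (nat_lit 0) (XT.nd (nat_lit 156) (nat_lit 152) (nat_lit 0) (XT.nd (nat_lit 78) (nat_lit 228) (nat_lit 0) (XT.lf (nat_lit 0) (nat_lit 59608944403) (nat_lit 304) (nat_lit 80536739383) (nat_lit 76) (nat_lit 80473086540) (nat_lit 235) (nat_lit 5) (nat_lit 239) (nat_lit 5) (nat_lit 236) (nat_lit 5) (nat_lit 436) (nat_lit 404) (nat_lit 180)) (XT.lf (nat_lit 0) (nat_lit 55489033818) (nat_lit 228) (nat_lit 55553491743) (nat_lit 304) (nat_lit 116245224869)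 (nat_lit 232) (nat_lit 5) (nat_lit 235) (nat_lit 5) (nat_lit 236) (nat_lit 5) (nat_lit 437) (nat_lit 404) (nat_lit 179))) (XT.nd (nat_lit 78) (nat_lit 152) (nat_lit 0) (XT.lf (nat_lit 0) (nat_lit 166953332005) (nat_lit 304) (nat_lit 33651844478) (nat_lit 76) (nat_lit 33589725745) (nat_lit 232) (nat_lit 5) (nat_lit 236) (nat_lit 5) (nat_lit 233) (nat_lit 5) (nat_lit 438) (nat_lit 404) (nat_lit 178)) (XT.lf (nat_lit 0) (nat_lit 114144775620) (nat_lit 152) (nat_lit 114207589814) (nat_lit 228) (nat_lit 12960411848) (nat_lit 230) (nat_lit 5) (nat_lit 232) (nat_lit 5) (nat_lit 233) (nat_lit 5) (nat_lit 439) (nat_lit 404) (nat_lit 177)))) (XT.nd (nat_lit 156) (nat_lit 152) (nat_lit 0) (XT.nd (nat_lit 78) (nat_lit 0) (nat_lit 0) (XT.lf (nat_lit 0) (nat_lit 21740236601) (nat_lit 228) (nat_lit 21803713138) (nat_lit 304) (nat_lit 205162294314) (nat_lit 226) (nat_lit 5) (nat_lit 229) (nat_lit 5) (nat_lit 230)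 (nat_lit 5) (nat_lit 440) (nat_lit 404) (nat_lit 176)) (XT.lf (nat_lit 0) (nat_lit 105801189603) (nat_lit 304) (nat_lit 75275232565) (nat_lit 76) (nat_lit 75214177955) (nat_lit 226) (nat_lit 5) (nat_lit 230) (nat_lit 5) (nat_lit 227) (nat_lit 5) (nat_lit 441) (nat_lit 404) (nat_lit 175))) (XT.nd (nat_lit 78) (nat_lit 0) (nat_lit 0) (XT.lf (nat_lit 0) (nat_lit 86408018891) (nat_lit 152) (nat_lit 86469645658) (nat_lit 228) (nat_lit 91291190793) (nat_lit 224) (nat_lit 5) (nat_lit 226) (nat_lit 5) (nat_lit 227) (nat_lit 5) (nat_lit 442) (nat_lit 404) (nat_lit 174)) (XT.lf (nat_lit 0) (nat_lit 244804447346) (nat_lit 228) (nat_lit 13810481446) (nat_lit 76) (nat_lit 13751270324) (nat_lit 224) (nat_lit 5) (nat_lit 227) (nat_lit 5) (nat_lit 225) (nat_lit 5) (nat_lit 443) (nat_lit 404) (nat_lit 173))))))))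
noncomputable def xc292 : XT := (XT.nd (nat_lit 1248) (nat_lit 1292) (nat_lit 0) (XT.nd (nat_lit 624) (nat_lit 912) (nat_lit 0) (XT.nd (nat_lit 312) (nat_lit 380) (nat_lit 0) (XT.nd (nat_lit 156) (nat_lit 152) (nat_lit 0) (XT.nd (nat_lit 78) (nat_lit 152) (nat_lit 0) (XT.lf (nat_lit 0) (nat_lit 42107676906) (nat_lit 228) (nat_lit 119347031141) (nat_lit 76) (nat_lit 119287325768) (nat_lit 221) (nat_lit 5) (nat_lit 224) (nat_lit 5) (nat_lit 222) (nat_lit 5) (nat_lit 444) (nat_lit 404) (nat_lit 172)) (XT.lf (nat_lit 0) (nat_lit 57706348689) (nat_lit 152) (nat_lit 57766524777) (nat_lit 228) (nat_lit 173984267580) (nat_lit 219) (nat_lit 5) (nat_lit 221) (nat_lit 5) (nat_lit 222) (nat_lit 5) (nat_lit 445) (nat_lit 404) (nat_lit 171))) (XT.nd (nat_lit 78) (nat_lit 152) (nat_lit 0) (XT.lf (nat_lit 0) (nat_lit 195358447225) (nat_lit 228) (nat_lit 51582344030) (nat_lit 76) (nat_lit 51524606517) (nat_lit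 219) (nat_lit 5) (nat_lit 222) (nat_lit 5) (nat_lit 220) (nat_lit 5) (nat_lit 446) (nat_lit 404) (nat_lit 170)) (XT.lf (nat_lit 0) (nat_lit 141165508611) (nat_lit 152) (nat_lit 141223652745) (nat_lit 228) (nat_lit 25377362892) (nat_lit 217) (nat_lit 5) (nat_lit 219) (nat_lit 5) (nat_lit 220) (nat_lit 5) (nat_lit 447) (nat_lit 404) (nat_lit 169)))) (XT.nd (nat_lit 156) (nat_lit 152) (nat_lit 0) (XT.nd (nat_lit 78) (nat_lit 0) (nat_lit 0) (XT.lf (nat_lit 0) (nat_lit 27851397550) (nat_lit 152) (nat_lit 27909928942) (nat_lit 228) (nat_lit 261661347763) (nat_lit 214) (nat_lit 5) (nat_lit 216) (nat_lit 5) (nat_lit 217) (nat_lit 5) (nat_lit 448) (nat_lit 404) (nat_lit 168)) (XT.lf (nat_lit 0) (nat_lit 144393558900) (nat_lit 228) (nat_lit 91494447232) (nat_lit 76) (nat_lit 91438351795) (nat_lit 214) (nat_lit 5) (nat_lit 217) (nat_lit 5) (nat_lit 215) (nat_lit 5) (nat_lit 449) (nat_lit 404) (nat_lit 167)))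 (XT.nd (nat_lit 78) (nat_lit 0) (nat_lit 0) (XT.lf (nat_lit 0) (nat_lit 119864913876) (nat_lit 152) (nat_lit 119921343842) (nat_lit 228) (nat_lit 97822525326) (nat_lit 212) (nat_lit 5) (nat_lit 214) (nat_lit 5) (nat_lit 215) (nat_lit 5) (nat_lit 450) (nat_lit 404) (nat_lit 166)) (XT.lf (nat_lit 0) (nat_lit 341552169256) (nat_lit 228) (nat_lit 3413513762) (nat_lit 76) (nat_lit 3359467510) (nat_lit 212) (nat_lit 5) (nat_lit 215) (nat_lit 5) (nat_lit 213) (nat_lit 4) (nat_lit 451) (nat_lit 404) (nat_lit 165))))) (XT.nd (nat_lit 312) (nat_lit 456) (nat_lit 0) (XT.nd (nat_lit 156) (nat_lit 152) (nat_lit 0) (XT.nd (nat_lit 78) (nat_lit 152) (nat_lit 0) (XT.lf (nat_lit 0) (nat_lit 91585102662) (nat_lit 152) (nat_lit 133848634052) (nat_lit 76) (nat_lit 133794298823) (nat_lit 210) (nat_lit 5) (nat_lit 212) (nat_lit 5) (nat_lit 211) (nat_lit 5) (nat_lit 452) (nat_lit 404) (nat_lit 164)) (XT.lf (nat_lit 0)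 (nat_lit 98084444286) (nat_lit 152) (nat_lit 98139054733) (nat_lit 228) (nat_lit 174367512913) (nat_lit 208) (nat_lit 5) (nat_lit 210) (nat_lit 5) (nat_lit 211) (nat_lit 5) (nat_lit 453) (nat_lit 404) (nat_lit 163))) (XT.nd (nat_lit 78) (nat_lit 152) (nat_lit 0) (XT.lf (nat_lit 0) (nat_lit 308952234887) (nat_lit 228) (nat_lit 36739620428) (nat_lit 76) (nat_lit 36687360848) (nat_lit 208) (nat_lit 5) (nat_lit 211) (nat_lit 5) (nat_lit 209) (nat_lit 4) (nat_lit 454) (nat_lit 404) (nat_lit 162)) (XT.lf (nat_lit 0) (nat_lit 36583162564) (nat_lit 152) (nat_lit 178973755450) (nat_lit 76) (nat_lit 178921258127) (nat_lit 206) (nat_lit 5) (nat_lit 208) (nat_lit 5) (nat_lit 207) (nat_lit 5) (nat_lit 455) (nat_lit 404) (nat_lit 161)))) (XT.nd (nat_lit 156) (nat_lit 304) (nat_lit 0) (XT.nd (nat_lit 78) (nat_lit 0) (nat_lit 0) (XT.lf (nat_lit 0) (nat_lit 75693778942) (nat_lit 152) (nat_lit 75746502687) (nat_lit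 228) (nat_lit 255590911632) (nat_lit 204) (nat_lit 5) (nat_lit 206) (nat_lit 5) (nat_lit 207) (nat_lit 5) (nat_lit 456) (nat_lit 404) (nat_lit 160)) (XT.lf (nat_lit 0) (nat_lit 276230212753) (nat_lit 228) (nat_lit 71911284572) (nat_lit 76) (nat_lit 71860866110) (nat_lit 204) (nat_lit 5) (nat_lit 207) (nat_lit 5) (nat_lit 205) (nat_lit 4) (nat_lit 457) (nat_lit 404) (nat_lit 159))) (XT.nd (nat_lit 78) (nat_lit 228) (nat_lit 0) (XT.lf (nat_lit 0) (nat_lit 205832147580) (nat_lit 76) (nat_lit 205882761633) (nat_lit 152) (nat_lit 21684419464) (nat_lit 203) (nat_lit 5) (nat_lit 204) (nat_lit 5) (nat_lit 205) (nat_lit 4) (nat_lit 458) (nat_lit 404) (nat_lit 158)) (XT.lf (nat_lit 0) (nat_lit 52553105709) (nat_lit 152) (nat_lit 52603906040) (nat_lit 228) (nat_lit 342123075003) (nat_lit 200) (nat_lit 5) (nat_lit 202) (nat_lit 5) (nat_lit 203) (nat_lit 5) (nat_lit 459) (nat_lit 404) (nat_lit 157)))))) (XT.nd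 (nat_lit 624) (nat_lit 608) (nat_lit 0) (XT.nd (nat_lit 312) (nat_lit 380) (nat_lit 0) (XT.nd (nat_lit 156) (nat_lit 228) (nat_lit 0) (XT.nd (nat_lit 78) (nat_lit 76) (nat_lit 0) (XT.lf (nat_lit 0) (nat_lit 243220296633) (nat_lit 228) (nat_lit 109192468085) (nat_lit 76) (nat_lit 109143917858) (nat_lit 200) (nat_lit 5) (nat_lit 203) (nat_lit 5) (nat_lit 201) (nat_lit 4) (nat_lit 460) (nat_lit 404) (nat_lit 156)) (XT.lf (nat_lit 0) (nat_lit 196030444922) (nat_lit 76) (nat_lit 196079156063) (nat_lit 152) (nat_lit 84241364446) (nat_lit 199) (nat_lit 5) (nat_lit 200) (nat_lit 5) (nat_lit 201) (nat_lit 4) (nat_lit 461) (nat_lit 404) (nat_lit 155))) (XT.nd (nat_lit 78) (nat_lit 0) (nat_lit 0) (XT.lf (nat_lit 0) (nat_lit 28511963673) (nat_lit 152) (nat_lit 28560828066) (nat_lit 228) (nat_lit 434651788632) (nat_lit 196) (nat_lit 5) (nat_lit 198) (nat_lit 5) (nat_lit 199) (nat_lit 5) (nat_lit 462) (nat_lit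 404) (nat_lit 154)) (XT.lf (nat_lit 0) (nat_lit 209746982530) (nat_lit 228) (nat_lit 148870625148) (nat_lit 76) (nat_lit 148823948628) (nat_lit 196) (nat_lit 5) (nat_lit 199) (nat_lit 5) (nat_lit 197) (nat_lit 4) (nat_lit 463) (nat_lit 404) (nat_lit 153)))) (XT.nd (nat_lit 156) (nat_lit 76) (nat_lit 0) (XT.nd (nat_lit 78) (nat_lit 228) (nat_lit 0) (XT.lf (nat_lit 0) (nat_lit 186695520473) (nat_lit 76) (nat_lit 186742329377) (nat_lit 152) (nat_lit 150337382840) (nat_lit 195) (nat_lit 5) (nat_lit 196) (nat_lit 5) (nat_lit 197) (nat_lit 4) (nat_lit 464) (nat_lit 404) (nat_lit 152)) (XT.lf (nat_lit 0) (nat_lit 3407975858) (nat_lit 152) (nat_lit 3454910843) (nat_lit 228) (nat_lit 533928498410) (nat_lit 192) (nat_lit 5) (nat_lit 194) (nat_lit 5) (nat_lit 195) (nat_lit 5) (nat_lit 465) (nat_lit 404) (nat_lit 151))) (XT.nd (nat_lit 78) (nat_lit 76) (nat_lit 0) (XT.lf (nat_lit 0) (nat_lit 175623727556)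 (nat_lit 228) (nat_lit 191259280297) (nat_lit 76) (nat_lit 191214465953) (nat_lit 192) (nat_lit 5) (nat_lit 195) (nat_lit 5) (nat_lit 193) (nat_lit 4) (nat_lit 466) (nat_lit 404) (nat_lit 150)) (XT.lf (nat_lit 0) (nat_lit 177805141298) (nat_lit 76) (nat_lit 177850064554) (nat_lit 152) (nat_lit 220472031312) (nat_lit 191) (nat_lit 5) (nat_lit 192) (nat_lit 5) (nat_lit 193) (nat_lit 4) (nat_lit 467) (nat_lit 404) (nat_lit 149))))) (XT.nd (nat_lit 312) (nat_lit 380) (nat_lit 0) (XT.nd (nat_lit 156) (nat_lit 76) (nat_lit 0) (XT.nd (nat_lit 78) (nat_lit 152) (nat_lit 0) (XT.lf (nat_lit 0) (nat_lit 548302510084) (nat_lit 152) (nat_lit 23309074423) (nat_lit 0) (nat_lit 23266191582) (nat_lit 191) (nat_lit 5) (nat_lit 193) (nat_lit 4) (nat_lit 191) (nat_lit 4) (nat_lit 468) (nat_lit 404) (nat_lit 148)) (XT.lf (nat_lit 0) (nat_lit 140651487811) (nat_lit 152) (nat_lit 236700862570) (nat_lit 76) (nat_lit 236657885646)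 (nat_lit 189) (nat_lit 5) (nat_lit 191) (nat_lit 5) (nat_lit 190) (nat_lit 4) (nat_lit 469) (nat_lit 404) (nat_lit 147))) (XT.nd (nat_lit 78) (nat_lit 0) (nat_lit 0) (XT.lf (nat_lit 0) (nat_lit 169338134131) (nat_lit 76) (nat_lit 169381200658) (nat_lit 152) (nat_lit 295189558233) (nat_lit 188) (nat_lit 5) (nat_lit 189) (nat_lit 5) (nat_lit 190) (nat_lit 4) (nat_lit 470) (nat_lit 404) (nat_lit 146)) (XT.lf (nat_lit 0) (nat_lit 551529706584) (nat_lit 152) (nat_lit 51535958336) (nat_lit 0) (nat_lit 51494861324) (nat_lit 188) (nat_lit 5) (nat_lit 190) (nat_lit 4) (nat_lit 188) (nat_lit 4) (nat_lit 471) (nat_lit 404) (nat_lit 145)))) (XT.nd (nat_lit 156) (nat_lit 152) (nat_lit 0) (XT.nd (nat_lit 78) (nat_lit 76) (nat_lit 0) (XT.lf (nat_lit 0) (nat_lit 104617122085) (nat_lit 152) (nat_lit 285569822386) (nat_lit 76) (nat_lit 285528647971) (nat_lit 186) (nat_lit 5) (nat_lit 188) (nat_lit 5) (nat_lit 187)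 (nat_lit 4) (nat_lit 472) (nat_lit 404) (nat_lit 144)) (XT.lf (nat_lit 0) (nat_lit 161274334745) (nat_lit 76) (nat_lit 161315582876) (nat_lit 152) (nat_lit 375083794447) (nat_lit 185) (nat_lit 5) (nat_lit 186) (nat_lit 5) (nat_lit 187) (nat_lit 4) (nat_lit 473) (nat_lit 404) (nat_lit 143))) (XT.nd (nat_lit 78) (nat_lit 152) (nat_lit 0) (XT.lf (nat_lit 0) (nat_lit 557610229640) (nat_lit 152) (nat_lit 81425707498) (nat_lit 0) (nat_lit 81386356701) (nat_lit 185) (nat_lit 5) (nat_lit 187) (nat_lit 4) (nat_lit 185) (nat_lit 4) (nat_lit 474) (nat_lit 404) (nat_lit 142)) (XT.lf (nat_lit 0) (nat_lit 67291646880) (nat_lit 152) (nat_lit 338276060513) (nat_lit 76) (nat_lit 338236646037) (nat_lit 183) (nat_lit 5) (nat_lit 185) (nat_lit 5) (nat_lit 184) (nat_lit 4) (nat_lit 475) (nat_lit 404) (nat_lit 141)))))))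
noncomputable def xc293 : XT := (XT.nd (nat_lit 48048) (nat_lit 0) (nat_lit 6384) (XT.nd (nat_lit 624) (nat_lit 228) (nat_lit 0) (XT.nd (nat_lit 312) (nat_lit 228) (nat_lit 0) (XT.nd (nat_lit 156) (nat_lit 228) (nat_lit 0) (XT.nd (nat_lit 78) (nat_lit 0) (nat_lit 0) (XT.lf (nat_lit 0) (nat_lit 153594539761) (nat_lit 76) (nat_lit 153634014885) (nat_lit 152) (nat_lit 460803530636) (nat_lit 182) (nat_lit 5) (nat_lit 183) (nat_lit 5) (nat_lit 184) (nat_lit 4) (nat_lit 476) (nat_lit 404) (nat_lit 140)) (XT.lf (nat_lit 0) (nat_lit 566716428489) (nat_lit 152) (nat_lit 113207359783) (nat_lit 0) (nat_lit 113169709420) (nat_lit 182) (nat_lit 5) (nat_lit 184) (nat_lit 4) (nat_lit 182) (nat_lit 4) (nat_lit 477) (nat_lit 404) (nat_lit 139))) (XT.nd (nat_lit 78) (nat_lit 76) (nat_lit 0) (XT.lf (nat_lit 0) (nat_lit 28428326821) (nat_lit 152) (nat_lit 395268701473) (nat_lit 76) (nat_lit 395230998721) (nat_lit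 180) (nat_lit 5) (nat_lit 182) (nat_lit 5) (nat_lit 181) (nat_lit 4) (nat_lit 478) (nat_lit 404) (nat_lit 138)) (XT.lf (nat_lit 0) (nat_lit 146280460782) (nat_lit 76) (nat_lit 146318213429) (nat_lit 152) (nat_lit 553058431842) (nat_lit 179) (nat_lit 5) (nat_lit 180) (nat_lit 5) (nat_lit 181) (nat_lit 4) (nat_lit 479) (nat_lit 404) (nat_lit 137)))) (XT.nd (nat_lit 156) (nat_lit 152) (nat_lit 0) (XT.nd (nat_lit 78) (nat_lit 76) (nat_lit 0) (XT.lf (nat_lit 0) (nat_lit 579044037274) (nat_lit 152) (nat_lit 147130638506) (nat_lit 0) (nat_lit 147094638349) (nat_lit 179) (nat_lit 5) (nat_lit 181) (nat_lit 4) (nat_lit 179) (nat_lit 4) (nat_lit 480) (nat_lit 404) (nat_lit 136)) (XT.lf (nat_lit 0) (nat_lit 444557506251) (nat_lit 76) (nat_lit 444593549509) (nat_lit 76) (nat_lit 12644107484) (nat_lit 178) (nat_lit 4) (nat_lit 179) (nat_lit 5) (nat_lit 179) (nat_lit 4) (nat_lit 481) (nat_lit 404) (nat_lit 135)))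 (XT.nd (nat_lit 78) (nat_lit 0) (nat_lit 0) (XT.lf (nat_lit 0) (nat_lit 139314680724) (nat_lit 76) (nat_lit 139350765030) (nat_lit 152) (nat_lit 652625544885) (nat_lit 176) (nat_lit 5) (nat_lit 177) (nat_lit 5) (nat_lit 178) (nat_lit 4) (nat_lit 482) (nat_lit 404) (nat_lit 134)) (XT.lf (nat_lit 0) (nat_lit 594814299782) (nat_lit 152) (nat_lit 183468205718) (nat_lit 0) (nat_lit 183433802480) (nat_lit 176) (nat_lit 5) (nat_lit 178) (nat_lit 4) (nat_lit 176) (nat_lit 4) (nat_lit 483) (nat_lit 404) (nat_lit 133))))) (XT.nd (nat_lit 47112) (nat_lit 0) (nat_lit 9120) (XT.nd (nat_lit 46956) (nat_lit 0) (nat_lit 9044) (XT.nd (nat_lit 78) (nat_lit 152) (nat_lit 0) (XT.lf (nat_lit 0) (nat_lit 468164953047) (nat_lit 76) (nat_lit 468199391743) (nat_lit 76) (nat_lit 56818858983) (nat_lit 175) (nat_lit 4) (nat_lit 176) (nat_lit 5) (nat_lit 176) (nat_lit 4) (nat_lit 484) (nat_lit 404) (nat_lit 132)) (XT.lf (nat_lit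 0) (nat_lit 132680612249) (nat_lit 76) (nat_lit 132715084716) (nat_lit 152) (nat_lit 760356460051) (nat_lit 173) (nat_lit 5) (nat_lit 174) (nat_lit 5) (nat_lit 175) (nat_lit 4) (nat_lit 485) (nat_lit 404) (nat_lit 131))) (XT.nd (nat_lit 78) (nat_lit 0) (nat_lit 0) (XT.lf (nat_lit 0) (nat_lit 22696952913) (nat_lit 836) (nat_lit 12835049951) (nat_lit 836) (nat_lit 12835049951) (nat_lit 292) (nat_lit 3) (nat_lit 303) (nat_lit 3) (nat_lit 303) (nat_lit 5) (nat_lit 405) (nat_lit 405) (nat_lit 210)) (XT.lf (nat_lit 76) (nat_lit 23447416678) (nat_lit 0) (nat_lit 23454305888) (nat_lit 836) (nat_lit 52232087249) (nat_lit 293) (nat_lit 5) (nat_lit 292) (nat_lit 3) (nat_lit 303) (nat_lit 5) (nat_lit 406) (nat_lit 405) (nat_lit 209)))) (XT.nd (nat_lit 156) (nat_lit 0) (nat_lit 76) (XT.nd (nat_lit 78) (nat_lit 0) (nat_lit 0) (XT.lf (nat_lit 0) (nat_lit 49340650438) (nat_lit 760) (nat_lit 26141436314) (nat_lit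 836) (nat_lit 26128626445) (nat_lit 293) (nat_lit 5) (nat_lit 303) (nat_lit 5) (nat_lit 304) (nat_lit 5) (nat_lit 407) (nat_lit 405) (nat_lit 208)) (XT.lf (nat_lit 76) (nat_lit 26339033058) (nat_lit 0) (nat_lit 26357794087) (nat_lit 836) (nat_lit 51474869480) (nat_lit 294) (nat_lit 5) (nat_lit 293) (nat_lit 5) (nat_lit 304) (nat_lit 5) (nat_lit 408) (nat_lit 405) (nat_lit 207))) (XT.nd (nat_lit 78) (nat_lit 0) (nat_lit 0) (XT.lf (nat_lit 0) (nat_lit 57064183569) (nat_lit 760) (nat_lit 24888821316) (nat_lit 836) (nat_lit 24865555794) (nat_lit 294) (nat_lit 5) (nat_lit 304) (nat_lit 5) (nat_lit 305) (nat_lit 5) (nat_lit 409) (nat_lit 405) (nat_lit 206)) (XT.lf (nat_lit 76) (nat_lit 31270718616) (nat_lit 0) (nat_lit 31299124973) (nat_lit 836) (nat_lit 46981927559) (nat_lit 295) (nat_lit 5) (nat_lit 294) (nat_lit 5) (nat_lit 305) (nat_lit 5) (nat_lit 410) (nat_lit 405) (nat_lit 205)))))) (XT.nd (nat_lit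 624) (nat_lit 1748) (nat_lit 0) (XT.nd (nat_lit 312) (nat_lit 1140) (nat_lit 0) (XT.nd (nat_lit 156) (nat_lit 0) (nat_lit 76) (XT.nd (nat_lit 78) (nat_lit 0) (nat_lit 0) (XT.lf (nat_lit 0) (nat_lit 69120558464) (nat_lit 760) (nat_lit 21647155823) (nat_lit 836) (nat_lit 21615439261) (nat_lit 295) (nat_lit 5) (nat_lit 305) (nat_lit 5) (nat_lit 306) (nat_lit 5) (nat_lit 411) (nat_lit 405) (nat_lit 204)) (XT.lf (nat_lit 76) (nat_lit 38538548797) (nat_lit 0) (nat_lit 38574706206) (nat_lit 836) (nat_lit 38187127768) (nat_lit 296) (nat_lit 5) (nat_lit 295) (nat_lit 5) (nat_lit 306) (nat_lit 5) (nat_lit 412) (nat_lit 405) (nat_lit 203))) (XT.nd (nat_lit 78) (nat_lit 0) (nat_lit 0) (XT.lf (nat_lit 0) (nat_lit 86131229796) (nat_lit 760) (nat_lit 16119712547) (nat_lit 836) (nat_lit 16081248941) (nat_lit 296) (nat_lit 5) (nat_lit 306) (nat_lit 5) (nat_lit 307) (nat_lit 5) (nat_lit 413) (nat_lit 405) (nat_lit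 202)) (XT.lf (nat_lit 76) (nat_lit 48473330463) (nat_lit 0) (nat_lit 48515630239) (nat_lit 836) (nat_lit 24457186654) (nat_lit 297) (nat_lit 5) (nat_lit 296) (nat_lit 5) (nat_lit 307) (nat_lit 5) (nat_lit 414) (nat_lit 405) (nat_lit 201)))) (XT.nd (nat_lit 156) (nat_lit 532) (nat_lit 0) (XT.nd (nat_lit 78) (nat_lit 760) (nat_lit 0) (XT.lf (nat_lit 0) (nat_lit 108790183009) (nat_lit 760) (nat_lit 7974676499) (nat_lit 76) (nat_lit 7930911479) (nat_lit 297) (nat_lit 5) (nat_lit 307) (nat_lit 5) (nat_lit 298) (nat_lit 5) (nat_lit 415) (nat_lit 405) (nat_lit 200)) (XT.lf (nat_lit 0) (nat_lit 61444375959) (nat_lit 760) (nat_lit 61491454808) (nat_lit 836) (nat_lit 5084326815) (nat_lit 287) (nat_lit 5) (nat_lit 297) (nat_lit 5) (nat_lit 298) (nat_lit 5) (nat_lit 416) (nat_lit 405) (nat_lit 199))) (XT.nd (nat_lit 78) (nat_lit 0) (nat_lit 0) (XT.lf (nat_lit 0) (nat_lit 3106152352) (nat_lit 456) (nat_lit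 3156387227) (nat_lit 532) (nat_lit 125234049208) (nat_lit 280) (nat_lit 5) (nat_lit 286) (nat_lit 5) (nat_lit 287) (nat_lit 5) (nat_lit 417) (nat_lit 405) (nat_lit 198)) (XT.lf (nat_lit 0) (nat_lit 20058614068) (nat_lit 532) (nat_lit 57516064387) (nat_lit 76) (nat_lit 57465359040) (nat_lit 280) (nat_lit 5) (nat_lit 287) (nat_lit 5) (nat_lit 281) (nat_lit 5) (nat_lit 418) (nat_lit 405) (nat_lit 197))))) (XT.nd (nat_lit 312) (nat_lit 988) (nat_lit 0) (XT.nd (nat_lit 156) (nat_lit 380) (nat_lit 0) (XT.nd (nat_lit 78) (nat_lit 0) (nat_lit 0) (XT.lf (nat_lit 0) (nat_lit 17407157408) (nat_lit 380) (nat_lit 17460589050) (nat_lit 456) (nat_lit 103876749473) (nat_lit 275) (nat_lit 5) (nat_lit 280) (nat_lit 5) (nat_lit 281) (nat_lit 5) (nat_lit 419) (nat_lit 405) (nat_lit 196)) (XT.lf (nat_lit 0) (nat_lit 52119978362) (nat_lit 456) (nat_lit 45241213444) (nat_lit 76) (nat_lit 45187853337) (nat_lit 275) (nat_lit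 5) (nat_lit 281) (nat_lit 5) (nat_lit 276) (nat_lit 5) (nat_lit 420) (nat_lit 405) (nat_lit 195))) (XT.nd (nat_lit 78) (nat_lit 0) (nat_lit 0) (XT.lf (nat_lit 0) (nat_lit 35509754471) (nat_lit 380) (nat_lit 35565469654) (nat_lit 456) (nat_lit 75426577578) (nat_lit 270) (nat_lit 5) (nat_lit 275) (nat_lit 5) (nat_lit 276) (nat_lit 5) (nat_lit 421) (nat_lit 405) (nat_lit 194)) (XT.lf (nat_lit 0) (nat_lit 92214506020) (nat_lit 456) (nat_lit 29215537290) (nat_lit 76) (nat_lit 29160339088) (nat_lit 270) (nat_lit 5) (nat_lit 276) (nat_lit 5) (nat_lit 271) (nat_lit 5) (nat_lit 422) (nat_lit 405) (nat_lit 193)))) (XT.nd (nat_lit 156) (nat_lit 684) (nat_lit 0) (XT.nd (nat_lit 78) (nat_lit 0) (nat_lit 0) (XT.lf (nat_lit 0) (nat_lit 57920316641) (nat_lit 304) (nat_lit 57977549246) (nat_lit 380) (nat_lit 38911170547) (nat_lit 266) (nat_lit 5) (nat_lit 270) (nat_lit 5) (nat_lit 271) (nat_lit 5) (nat_lit 423)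 (nat_lit 405) (nat_lit 192)) (XT.lf (nat_lit 0) (nat_lit 141403078222) (nat_lit 380) (nat_lit 8930006616) (nat_lit 76) (nat_lit 8873654110) (nat_lit 266) (nat_lit 5) (nat_lit 271) (nat_lit 5) (nat_lit 267) (nat_lit 5) (nat_lit 424) (nat_lit 405) (nat_lit 191))) (XT.nd (nat_lit 78) (nat_lit 304) (nat_lit 0) (XT.lf (nat_lit 0) (nat_lit 6537587909) (nat_lit 380) (nat_lit 78612775653) (nat_lit 76) (nat_lit 78554665754) (nat_lit 261) (nat_lit 5) (nat_lit 266) (nat_lit 5) (nat_lit 262) (nat_lit 5) (nat_lit 425) (nat_lit 405) (nat_lit 190)) (XT.nd (nat_lit 78) (nat_lit 0) (nat_lit 0) (XT.lf (nat_lit 0) (nat_lit 15919929035) (nat_lit 304) (nat_lit 15979712643) (nat_lit 380) (nat_lit 136493896237) (nat_lit 257) (nat_lit 5) (nat_lit 261) (nat_lit 5) (nat_lit 262) (nat_lit 5) (nat_lit 426) (nat_lit 405) (nat_lit 189)) (XT.lf (nat_lit 0) (nat_lit 60767225606) (nat_lit 380) (nat_lit 56247914919) (nat_lit 76)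 (nat_lit 56189460046) (nat_lit 257) (nat_lit 5) (nat_lit 262) (nat_lit 5) (nat_lit 258) (nat_lit 5) (nat_lit 427) (nat_lit 405) (nat_lit 188))))))))
noncomputable def xc294 : XT := (XT.nd (nat_lit 2496) (nat_lit 2128) (nat_lit 0) (XT.nd (nat_lit 1248) (nat_lit 1596) (nat_lit 0) (XT.nd (nat_lit 624) (nat_lit 1140) (nat_lit 0) (XT.nd (nat_lit 312) (nat_lit 456) (nat_lit 0) (XT.nd (nat_lit 156) (nat_lit 608) (nat_lit 0) (XT.nd (nat_lit 78) (nat_lit 0) (nat_lit 0) (XT.lf (nat_lit 0) (nat_lit 45999117480) (nat_lit 304) (nat_lit 46059018164) (nat_lit 380) (nat_lit 86149083370) (nat_lit 253) (nat_lit 5) (nat_lit 257) (nat_lit 5) (nat_lit 258) (nat_lit 5) (nat_lit 428) (nat_lit 405) (nat_lit 187)) (XT.lf (nat_lit 0) (nat_lit 126325711560) (nat_lit 380) (nat_lit 28561005233) (nat_lit 76) (nat_lit 28502645568) (nat_lit 253) (nat_lit 5) (nat_lit 258) (nat_lit 5) (nat_lit 254) (nat_lit 5) (nat_lit 429) (nat_lit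 405) (nat_lit 186))) (XT.nd (nat_lit 78) (nat_lit 380) (nat_lit 0) (XT.lf (nat_lit 0) (nat_lit 82142208131) (nat_lit 228) (nat_lit 82201816743) (nat_lit 304) (nat_lit 24384720069) (nat_lit 250) (nat_lit 5) (nat_lit 253) (nat_lit 5) (nat_lit 254) (nat_lit 5) (nat_lit 430) (nat_lit 405) (nat_lit 185)) (XT.lf (nat_lit 0) (nat_lit 5060022869) (nat_lit 304) (nat_lit 5120820954) (nat_lit 380) (nat_lit 184117980032) (nat_lit 245) (nat_lit 5) (nat_lit 249) (nat_lit 5) (nat_lit 250) (nat_lit 5) (nat_lit 431) (nat_lit 405) (nat_lit 184)))) (XT.nd (nat_lit 156) (nat_lit 228) (nat_lit 0) (XT.nd (nat_lit 78) (nat_lit 228) (nat_lit 0) (XT.lf (nat_lit 0) (nat_lit 48673386599) (nat_lit 380) (nat_lit 75681052552) (nat_lit 76) (nat_lit 75622070727) (nat_lit 245) (nat_lit 5) (nat_lit 250) (nat_lit 5) (nat_lit 246) (nat_lit 5) (nat_lit 432) (nat_lit 405) (nat_lit 183)) (XT.lf (nat_lit 0) (nat_lit 44907733591) (nat_lit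 228) (nat_lit 44967742929) (nat_lit 304) (nat_lit 116023357681) (nat_lit 242) (nat_lit 5) (nat_lit 245) (nat_lit 5) (nat_lit 246) (nat_lit 5) (nat_lit 433) (nat_lit 405) (nat_lit 182))) (XT.nd (nat_lit 78) (nat_lit 228) (nat_lit 0) (XT.lf (nat_lit 0) (nat_lit 135039566100) (nat_lit 304) (nat_lit 38520348808) (nat_lit 76) (nat_lit 38462265075) (nat_lit 242) (nat_lit 5) (nat_lit 246) (nat_lit 5) (nat_lit 243) (nat_lit 5) (nat_lit 434) (nat_lit 405) (nat_lit 181)) (XT.lf (nat_lit 0) (nat_lit 92290412151) (nat_lit 228) (nat_lit 92349383487) (nat_lit 304) (nat_lit 33703000642) (nat_lit 239) (nat_lit 5) (nat_lit 242) (nat_lit 5) (nat_lit 243) (nat_lit 5) (nat_lit 435) (nat_lit 405) (nat_lit 180))))) (XT.nd (nat_lit 312) (nat_lit 608) (nat_lit 0) (XT.nd (nat_lit 156) (nat_lit 228) (nat_lit 0) (XT.nd (nat_lit 78) (nat_lit 0) (nat_lit 0) (XT.lf (nat_lit 0) (nat_lit 6031034816) (nat_lit 228) (nat_lit 6090851489)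 (nat_lit 304) (nat_lit 212810538641) (nat_lit 235) (nat_lit 5) (nat_lit 238) (nat_lit 5) (nat_lit 239) (nat_lit 5) (nat_lit 436) (nat_lit 405) (nat_lit 179)) (XT.lf (nat_lit 0) (nat_lit 62593960413) (nat_lit 304) (nat_lit 84556627497) (nat_lit 76) (nat_lit 84498892492) (nat_lit 235) (nat_lit 5) (nat_lit 239) (nat_lit 5) (nat_lit 236) (nat_lit 5) (nat_lit 437) (nat_lit 405) (nat_lit 178))) (XT.nd (nat_lit 78) (nat_lit 0) (nat_lit 0) (XT.lf (nat_lit 0) (nat_lit 58270322285) (nat_lit 228) (nat_lit 58328787523) (nat_lit 304) (nat_lit 122052805245) (nat_lit 232) (nat_lit 5) (nat_lit 235) (nat_lit 5) (nat_lit 236) (nat_lit 5) (nat_lit 438) (nat_lit 405) (nat_lit 177)) (XT.lf (nat_lit 0) (nat_lit 175305279662) (nat_lit 304) (nat_lit 35327748574) (nat_lit 76) (nat_lit 35271405051) (nat_lit 232) (nat_lit 5) (nat_lit 236) (nat_lit 5) (nat_lit 233) (nat_lit 5) (nat_lit 439) (nat_lit 405) (nat_lit 176))))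 (XT.nd (nat_lit 156) (nat_lit 152) (nat_lit 0) (XT.nd (nat_lit 78) (nat_lit 304) (nat_lit 0) (XT.lf (nat_lit 0) (nat_lit 119858594657) (nat_lit 152) (nat_lit 119915568982) (nat_lit 228) (nat_lit 13604043511) (nat_lit 230) (nat_lit 5) (nat_lit 232) (nat_lit 5) (nat_lit 233) (nat_lit 5) (nat_lit 440) (nat_lit 405) (nat_lit 175)) (XT.lf (nat_lit 0) (nat_lit 22833860761) (nat_lit 228) (nat_lit 22891435851) (nat_lit 304) (nat_lit 215416052175) (nat_lit 226) (nat_lit 5) (nat_lit 229) (nat_lit 5) (nat_lit 230) (nat_lit 5) (nat_lit 441) (nat_lit 405) (nat_lit 174))) (XT.nd (nat_lit 78) (nat_lit 152) (nat_lit 0) (XT.lf (nat_lit 0) (nat_lit 111095237501) (nat_lit 304) (nat_lit 79032535769) (nat_lit 76) (nat_lit 78977157438) (nat_lit 226) (nat_lit 5) (nat_lit 230) (nat_lit 5) (nat_lit 227) (nat_lit 5) (nat_lit 442) (nat_lit 405) (nat_lit 173)) (XT.lf (nat_lit 0) (nat_lit 90734774091) (nat_lit 152) (nat_lit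 90790671386) (nat_lit 228) (nat_lit 95851657747) (nat_lit 224) (nat_lit 5) (nat_lit 226) (nat_lit 5) (nat_lit 227) (nat_lit 5) (nat_lit 443) (nat_lit 405) (nat_lit 172)))))) (XT.nd (nat_lit 624) (nat_lit 684) (nat_lit 0) (XT.nd (nat_lit 312) (nat_lit 532) (nat_lit 0) (XT.nd (nat_lit 156) (nat_lit 152) (nat_lit 0) (XT.nd (nat_lit 78) (nat_lit 228) (nat_lit 0) (XT.lf (nat_lit 0) (nat_lit 257048418337) (nat_lit 228) (nat_lit 14494804768) (nat_lit 76) (nat_lit 14441098535) (nat_lit 224) (nat_lit 5) (nat_lit 227) (nat_lit 5) (nat_lit 225) (nat_lit 5) (nat_lit 444) (nat_lit 405) (nat_lit 171)) (XT.lf (nat_lit 0) (nat_lit 44216786207) (nat_lit 228) (nat_lit 125308158779) (nat_lit 76) (nat_lit 125254004246) (nat_lit 221) (nat_lit 5) (nat_lit 224) (nat_lit 5) (nat_lit 222) (nat_lit 5) (nat_lit 445) (nat_lit 405) (nat_lit 170))) (XT.nd (nat_lit 78) (nat_lit 0) (nat_lit 0) (XT.lf (nat_lit 0) (nat_lit 60597789657)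 (nat_lit 152) (nat_lit 60652371142) (nat_lit 228) (nat_lit 182679655117) (nat_lit 219) (nat_lit 5) (nat_lit 221) (nat_lit 5) (nat_lit 222) (nat_lit 5) (nat_lit 446) (nat_lit 405) (nat_lit 169)) (XT.lf (nat_lit 0) (nat_lit 205129876611) (nat_lit 228) (nat_lit 54155492662) (nat_lit 76) (nat_lit 54103123036) (nat_lit 219) (nat_lit 5) (nat_lit 222) (nat_lit 5) (nat_lit 220) (nat_lit 5) (nat_lit 447) (nat_lit 405) (nat_lit 168)))) (XT.nd (nat_lit 156) (nat_lit 152) (nat_lit 0) (XT.nd (nat_lit 78) (nat_lit 228) (nat_lit 0) (XT.lf (nat_lit 0) (nat_lit 148229656344) (nat_lit 152) (nat_lit 148282394787) (nat_lit 228) (nat_lit 26642627745) (nat_lit 217) (nat_lit 5) (nat_lit 219) (nat_lit 5) (nat_lit 220) (nat_lit 5) (nat_lit 448) (nat_lit 405) (nat_lit 167)) (XT.lf (nat_lit 0) (nat_lit 29249858483) (nat_lit 152) (nat_lit 29302948181) (nat_lit 228) (nat_lit 274740830612) (nat_lit 214) (nat_lit 5) (nat_lit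 216) (nat_lit 5) (nat_lit 217) (nat_lit 5) (nat_lit 449) (nat_lit 405) (nat_lit 166))) (XT.nd (nat_lit 78) (nat_lit 152) (nat_lit 0) (XT.lf (nat_lit 0) (nat_lit 151616524962) (nat_lit 228) (nat_lit 96063433336) (nat_lit 76) (nat_lit 96012553120) (nat_lit 214) (nat_lit 5) (nat_lit 217) (nat_lit 5) (nat_lit 215) (nat_lit 5) (nat_lit 450) (nat_lit 405) (nat_lit 165)) (XT.lf (nat_lit 0) (nat_lit 125863803308) (nat_lit 152) (nat_lit 125914986951) (nat_lit 228) (nat_lit 102710270955) (nat_lit 212) (nat_lit 5) (nat_lit 214) (nat_lit 5) (nat_lit 215) (nat_lit 5) (nat_lit 451) (nat_lit 405) (nat_lit 164))))) (XT.nd (nat_lit 312) (nat_lit 380) (nat_lit 0) (XT.nd (nat_lit 156) (nat_lit 152) (nat_lit 0) (XT.nd (nat_lit 78) (nat_lit 152) (nat_lit 0) (XT.lf (nat_lit 0) (nat_lit 358632880101) (nat_lit 228) (nat_lit 3578697189) (nat_lit 76) (nat_lit 3529675645) (nat_lit 212) (nat_lit 5) (nat_lit 215) (nat_lit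 5) (nat_lit 213) (nat_lit 4) (nat_lit 452) (nat_lit 405) (nat_lit 163)) (XT.lf (nat_lit 0) (nat_lit 96167446631) (nat_lit 152) (nat_lit 140535559948) (nat_lit 76) (nat_lit 140486276293) (nat_lit 210) (nat_lit 5) (nat_lit 212) (nat_lit 5) (nat_lit 211) (nat_lit 5) (nat_lit 453) (nat_lit 405) (nat_lit 162))) (XT.nd (nat_lit 78) (nat_lit 0) (nat_lit 0) (XT.lf (nat_lit 0) (nat_lit 102994083504) (nat_lit 152) (nat_lit 103043616789) (nat_lit 228) (nat_lit 183082710920) (nat_lit 208) (nat_lit 5) (nat_lit 210) (nat_lit 5) (nat_lit 211) (nat_lit 5) (nat_lit 454) (nat_lit 405) (nat_lit 161)) (XT.lf (nat_lit 0) (nat_lit 324402764392) (nat_lit 228) (nat_lit 38571333835) (nat_lit 76) (nat_lit 38523932856) (nat_lit 208) (nat_lit 5) (nat_lit 211) (nat_lit 5) (nat_lit 209) (nat_lit 4) (nat_lit 455) (nat_lit 405) (nat_lit 160)))) (XT.nd (nat_lit 156) (nat_lit 76) (nat_lit 0) (XT.nd (nat_lit 78) (nat_lit 152) (nat_lit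 0) (XT.lf (nat_lit 0) (nat_lit 38415227308) (nat_lit 152) (nat_lit 187917164464) (nat_lit 76) (nat_lit 187869547845) (nat_lit 206) (nat_lit 5) (nat_lit 208) (nat_lit 5) (nat_lit 207) (nat_lit 5) (nat_lit 456) (nat_lit 405) (nat_lit 159)) (XT.lf (nat_lit 0) (nat_lit 79483661507) (nat_lit 152) (nat_lit 79531483497) (nat_lit 228) (nat_lit 268367465457) (nat_lit 204) (nat_lit 5) (nat_lit 206) (nat_lit 5) (nat_lit 207) (nat_lit 5) (nat_lit 457) (nat_lit 405) (nat_lit 158))) (XT.nd (nat_lit 78) (nat_lit 76) (nat_lit 0) (XT.lf (nat_lit 0) (nat_lit 290044471861) (nat_lit 228) (nat_lit 75501801676) (nat_lit 76) (nat_lit 75456070646) (nat_lit 204) (nat_lit 5) (nat_lit 207) (nat_lit 5) (nat_lit 205) (nat_lit 4) (nat_lit 458) (nat_lit 405) (nat_lit 157)) (XT.lf (nat_lit 0) (nat_lit 216128720677) (nat_lit 76) (nat_lit 216174629116) (nat_lit 152) (nat_lit 22765810561) (nat_lit 203) (nat_lit 5) (nat_lit 204)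 (nat_lit 5) (nat_lit 205) (nat_lit 4) (nat_lit 459) (nat_lit 405) (nat_lit 156))))))) (XT.nd (nat_lit 1248) (nat_lit 760) (nat_lit 0) (XT.nd (nat_lit 624) (nat_lit 532) (nat_lit 0) (XT.nd (nat_lit 312) (nat_lit 304) (nat_lit 0) (XT.nd (nat_lit 156) (nat_lit 304) (nat_lit 0) (XT.nd (nat_lit 78) (nat_lit 0) (nat_lit 0) (XT.lf (nat_lit 0) (nat_lit 55185735734) (nat_lit 152) (nat_lit 55231813132) (nat_lit 228) (nat_lit 359226407897) (nat_lit 200) (nat_lit 5) (nat_lit 202) (nat_lit 5) (nat_lit 203) (nat_lit 5) (nat_lit 460) (nat_lit 405) (nat_lit 155)) (XT.lf (nat_lit 0) (nat_lit 255383904088) (nat_lit 228) (nat_lit 114647259737) (nat_lit 76) (nat_lit 114603223249) (nat_lit 200) (nat_lit 5) (nat_lit 203) (nat_lit 5) (nat_lit 201) (nat_lit 4) (nat_lit 461) (nat_lit 405) (nat_lit 154))) (XT.nd (nat_lit 78) (nat_lit 228) (nat_lit 0) (XT.lf (nat_lit 0) (nat_lit 205836720989) (nat_lit 76) (nat_lit 205880903430)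 (nat_lit 152) (nat_lit 88450762114) (nat_lit 199) (nat_lit 5) (nat_lit 200) (nat_lit 5) (nat_lit 201) (nat_lit 4) (nat_lit 462) (nat_lit 405) (nat_lit 153)) (XT.lf (nat_lit 0) (nat_lit 29942323099) (nat_lit 152) (nat_lit 29986644544) (nat_lit 228) (nat_lit 456381714930) (nat_lit 196) (nat_lit 5) (nat_lit 198) (nat_lit 5) (nat_lit 199) (nat_lit 5) (nat_lit 463) (nat_lit 405) (nat_lit 152)))) (XT.nd (nat_lit 156) (nat_lit 228) (nat_lit 0) (XT.nd (nat_lit 78) (nat_lit 76) (nat_lit 0) (XT.lf (nat_lit 0) (nat_lit 220236780280) (nat_lit 228) (nat_lit 156309534195) (nat_lit 76) (nat_lit 156267197215) (nat_lit 196) (nat_lit 5) (nat_lit 199) (nat_lit 5) (nat_lit 197) (nat_lit 4) (nat_lit 464) (nat_lit 405) (nat_lit 151)) (XT.lf (nat_lit 0) (nat_lit 196034844155) (nat_lit 76) (nat_lit 196077301211) (nat_lit 152) (nat_lit 157851728807) (nat_lit 195) (nat_lit 5) (nat_lit 196) (nat_lit 5) (nat_lit 197) (nat_lit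 4) (nat_lit 465) (nat_lit 405) (nat_lit 150))) (XT.nd (nat_lit 78) (nat_lit 0) (nat_lit 0) (XT.lf (nat_lit 0) (nat_lit 3582928415) (nat_lit 152) (nat_lit 3625499830) (nat_lit 228) (nat_lit 560622406261) (nat_lit 192) (nat_lit 5) (nat_lit 194) (nat_lit 5) (nat_lit 195) (nat_lit 5) (nat_lit 466) (nat_lit 405) (nat_lit 149)) (XT.lf (nat_lit 0) (nat_lit 184407229057) (nat_lit 228) (nat_lit 200817825307) (nat_lit 76) (nat_lit 200777177376) (nat_lit 192) (nat_lit 5) (nat_lit 195) (nat_lit 5) (nat_lit 193) (nat_lit 4) (nat_lit 467) (nat_lit 405) (nat_lit 148))))) (XT.nd (nat_lit 312) (nat_lit 228) (nat_lit 0) (XT.nd (nat_lit 156) (nat_lit 228) (nat_lit 0) (XT.nd (nat_lit 78) (nat_lit 0) (nat_lit 0) (XT.lf (nat_lit 0) (nat_lit 186699746093) (nat_lit 76) (nat_lit 186740492811) (nat_lit 152) (nat_lit 231493246480) (nat_lit 191) (nat_lit 5) (nat_lit 192) (nat_lit 5) (nat_lit 193) (nat_lit 4) (nat_lit 468)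 (nat_lit 405) (nat_lit 147)) (XT.lf (nat_lit 0) (nat_lit 575719830975) (nat_lit 152) (nat_lit 24470310076) (nat_lit 0) (nat_lit 24431414075) (nat_lit 191) (nat_lit 5) (nat_lit 193) (nat_lit 4) (nat_lit 191) (nat_lit 4) (nat_lit 469) (nat_lit 405) (nat_lit 146))) (XT.nd (nat_lit 78) (nat_lit 76) (nat_lit 0) (XT.lf (nat_lit 0) (nat_lit 147686253178) (nat_lit 152) (nat_lit 248531683219) (nat_lit 76) (nat_lit 248492701882) (nat_lit 189) (nat_lit 5) (nat_lit 191) (nat_lit 5) (nat_lit 190) (nat_lit 4) (nat_lit 470) (nat_lit 405) (nat_lit 145)) (XT.lf (nat_lit 0) (nat_lit 177809195212) (nat_lit 76) (nat_lit 177848257821) (nat_lit 152) (nat_lit 309946777064) (nat_lit 188) (nat_lit 5) (nat_lit 189) (nat_lit 5) (nat_lit 190) (nat_lit 4) (nat_lit 471) (nat_lit 405) (nat_lit 144)))) (XT.nd (nat_lit 156) (nat_lit 76) (nat_lit 0) (XT.nd (nat_lit 78) (nat_lit 152) (nat_lit 0) (XT.lf (nat_lit 0) (nat_lit 579108270747)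 (nat_lit 152) (nat_lit 54108727034) (nat_lit 0) (nat_lit 54071450833) (nat_lit 188) (nat_lit 5) (nat_lit 190) (nat_lit 4) (nat_lit 188) (nat_lit 4) (nat_lit 472) (nat_lit 405) (nat_lit 143)) (XT.lf (nat_lit 0) (nat_lit 109850053396) (nat_lit 152) (nat_lit 299844280659) (nat_lit 76) (nat_lit 299806934251) (nat_lit 186) (nat_lit 5) (nat_lit 188) (nat_lit 5) (nat_lit 187) (nat_lit 4) (nat_lit 473) (nat_lit 405) (nat_lit 142))) (XT.nd (nat_lit 78) (nat_lit 0) (nat_lit 0) (XT.lf (nat_lit 0) (nat_lit 169342019283) (nat_lit 76) (nat_lit 169379432554) (nat_lit 152) (nat_lit 393835843918) (nat_lit 185) (nat_lit 5) (nat_lit 186) (nat_lit 5) (nat_lit 187) (nat_lit 4) (nat_lit 474) (nat_lit 405) (nat_lit 141)) (XT.lf (nat_lit 0) (nat_lit 585492711083) (nat_lit 152) (nat_lit 85493145642) (nat_lit 0) (nat_lit 85457453309) (nat_lit 185) (nat_lit 5) (nat_lit 187) (nat_lit 4) (nat_lit 185) (nat_lit 4) (nat_lit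 475) (nat_lit 405) (nat_lit 140)))))) (XT.nd (nat_lit 624) (nat_lit 76) (nat_lit 0) (XT.nd (nat_lit 312) (nat_lit 304) (nat_lit 0) (XT.nd (nat_lit 156) (nat_lit 152) (nat_lit 0) (XT.nd (nat_lit 78) (nat_lit 76) (nat_lit 0) (XT.lf (nat_lit 0) (nat_lit 70658196200) (nat_lit 152) (nat_lit 355186013322) (nat_lit 76) (nat_lit 355150263230) (nat_lit 183) (nat_lit 5) (nat_lit 185) (nat_lit 5) (nat_lit 184) (nat_lit 4) (nat_lit 476) (nat_lit 405) (nat_lit 139)) (XT.lf (nat_lit 0) (nat_lit 161278054866) (nat_lit 76) (nat_lit 161313859966) (nat_lit 152) (nat_lit 483841678091) (nat_lit 182) (nat_lit 5) (nat_lit 183) (nat_lit 5) (nat_lit 184) (nat_lit 4) (nat_lit 477) (nat_lit 405) (nat_lit 138))) (XT.nd (nat_lit 78) (nat_lit 152) (nat_lit 0) (XT.lf (nat_lit 0) (nat_lit 595054117938) (nat_lit 152) (nat_lit 118864055613) (nat_lit 0) (nat_lit 118829905624) (nat_lit 182) (nat_lit 5) (nat_lit 184) (nat_lit 4)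 (nat_lit 182) (nat_lit 4) (nat_lit 478) (nat_lit 405) (nat_lit 137)) (XT.lf (nat_lit 0) (nat_lit 29851608731) (nat_lit 152) (nat_lit 415028461932) (nat_lit 76) (nat_lit 414994264424) (nat_lit 180) (nat_lit 5) (nat_lit 182) (nat_lit 5) (nat_lit 181) (nat_lit 4) (nat_lit 479) (nat_lit 405) (nat_lit 136)))) (XT.nd (nat_lit 156) (nat_lit 228) (nat_lit 0) (XT.nd (nat_lit 78) (nat_lit 0) (nat_lit 0) (XT.lf (nat_lit 0) (nat_lit 153598099168) (nat_lit 76) (nat_lit 153632341932) (nat_lit 152) (nat_lit 580709428597) (nat_lit 179) (nat_lit 5) (nat_lit 180) (nat_lit 5) (nat_lit 181) (nat_lit 4) (nat_lit 480) (nat_lit 405) (nat_lit 135)) (XT.lf (nat_lit 0) (nat_lit 607998011521) (nat_lit 152) (nat_lit 154483666450) (nat_lit 0) (nat_lit 154451013246) (nat_lit 179) (nat_lit 5) (nat_lit 181) (nat_lit 4) (nat_lit 179) (nat_lit 4) (nat_lit 481) (nat_lit 405) (nat_lit 134))) (XT.nd (nat_lit 78) (nat_lit 152) (nat_lit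 0) (XT.lf (nat_lit 0) (nat_lit 466788829030) (nat_lit 76) (nat_lit 466821521327) (nat_lit 76) (nat_lit 13274483959) (nat_lit 178) (nat_lit 4) (nat_lit 179) (nat_lit 5) (nat_lit 179) (nat_lit 4) (nat_lit 482) (nat_lit 405) (nat_lit 133)) (XT.lf (nat_lit 0) (nat_lit 146283864214) (nat_lit 76) (nat_lit 146316593743) (nat_lit 152) (nat_lit 685254995218) (nat_lit 176) (nat_lit 5) (nat_lit 177) (nat_lit 5) (nat_lit 178) (nat_lit 4) (nat_lit 483) (nat_lit 405) (nat_lit 132))))) (XT.nd (nat_lit 47190) (nat_lit 0) (nat_lit 8968) (XT.nd (nat_lit 47034) (nat_lit 0) (nat_lit 8892) (XT.nd (nat_lit 78) (nat_lit 76) (nat_lit 0) (XT.lf (nat_lit 0) (nat_lit 624556697253) (nat_lit 152) (nat_lit 192638273376) (nat_lit 0) (nat_lit 192607068625) (nat_lit 176) (nat_lit 5) (nat_lit 178) (nat_lit 4) (nat_lit 176) (nat_lit 4) (nat_lit 484) (nat_lit 405) (nat_lit 131)) (XT.lf (nat_lit 0) (nat_lit 491576489414) (nat_lit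 76) (nat_lit 491607726326) (nat_lit 76) (nat_lit 59658065536) (nat_lit 175) (nat_lit 4) (nat_lit 176) (nat_lit 5) (nat_lit 176) (nat_lit 4) (nat_lit 485) (nat_lit 405) (nat_lit 130))) (XT.nd (nat_lit 78) (nat_lit 0) (nat_lit 0) (XT.lf (nat_lit 0) (nat_lit 23838582209) (nat_lit 836) (nat_lit 13473242082) (nat_lit 836) (nat_lit 13473242082) (nat_lit 292) (nat_lit 3) (nat_lit 303) (nat_lit 3) (nat_lit 303) (nat_lit 5) (nat_lit 406) (nat_lit 406) (nat_lit 208)) (XT.lf (nat_lit 76) (nat_lit 24626793395) (nat_lit 0) (nat_lit 24633042111) (nat_lit 836) (nat_lit 54830013461) (nat_lit 293) (nat_lit 5) (nat_lit 292) (nat_lit 3) (nat_lit 303) (nat_lit 5) (nat_lit 407) (nat_lit 406) (nat_lit 207)))) (XT.nd (nat_lit 156) (nat_lit 0) (nat_lit 76) (XT.nd (nat_lit 78) (nat_lit 0) (nat_lit 0) (XT.lf (nat_lit 0) (nat_lit 51819999919) (nat_lit 760) (nat_lit 27441126009) (nat_lit 836) (nat_lit 27429507080) (nat_lit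 293) (nat_lit 5) (nat_lit 303) (nat_lit 5) (nat_lit 304) (nat_lit 5) (nat_lit 408) (nat_lit 406) (nat_lit 206)) (XT.lf (nat_lit 76) (nat_lit 27663247765) (nat_lit 0) (nat_lit 27680264571) (nat_lit 836) (nat_lit 54036176928) (nat_lit 294) (nat_lit 5) (nat_lit 293) (nat_lit 5) (nat_lit 304) (nat_lit 5) (nat_lit 409) (nat_lit 406) (nat_lit 205))) (XT.nd (nat_lit 78) (nat_lit 0) (nat_lit 0) (XT.lf (nat_lit 0) (nat_lit 59928604477) (nat_lit 760) (nat_lit 26125713083) (nat_lit 836) (nat_lit 26104610568) (nat_lit 294) (nat_lit 5) (nat_lit 304) (nat_lit 5) (nat_lit 305) (nat_lit 5) (nat_lit 410) (nat_lit 406) (nat_lit 204)) (XT.lf (nat_lit 76) (nat_lit 32841682083) (nat_lit 0) (nat_lit 32867447487) (nat_lit 836) (nat_lit 49319690445) (nat_lit 295) (nat_lit 5) (nat_lit 294) (nat_lit 5) (nat_lit 305) (nat_lit 5) (nat_lit 411) (nat_lit 406) (nat_lit 203))))))))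
noncomputable def xc295 : XT := (XT.nd (nat_lit 1248) (nat_lit 2356) (nat_lit 0) (XT.nd (nat_lit 624) (nat_lit 1748) (nat_lit 0) (XT.nd (nat_lit 312) (nat_lit 1140) (nat_lit 0) (XT.nd (nat_lit 156) (nat_lit 0) (nat_lit 76) (XT.nd (nat_lit 78) (nat_lit 0) (nat_lit 0) (XT.lf (nat_lit 0) (nat_lit 72586816144) (nat_lit 760) (nat_lit 22721875725) (nat_lit 836) (nat_lit 22693107868) (nat_lit 295) (nat_lit 5) (nat_lit 305) (nat_lit 5) (nat_lit 306) (nat_lit 5) (nat_lit 412) (nat_lit 406) (nat_lit 202)) (XT.lf (nat_lit 76) (nat_lit 40472990934) (nat_lit 0) (nat_lit 40505786770) (nat_lit 836) (nat_lit 40086131208) (nat_lit 296) (nat_lit 5) (nat_lit 295) (nat_lit 5) (nat_lit 306) (nat_lit 5) (nat_lit 413) (nat_lit 406) (nat_lit 201))) (XT.nd (nat_lit 78) (nat_lit 0) (nat_lit 0) (XT.lf (nat_lit 0) (nat_lit 90447146844) (nat_lit 760) (nat_lit 16918036926) (nat_lit 836) (nat_lit 16883149302) (nat_lit 296) (nat_lit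 5) (nat_lit 306) (nat_lit 5) (nat_lit 307) (nat_lit 5) (nat_lit 414) (nat_lit 406) (nat_lit 200)) (XT.lf (nat_lit 76) (nat_lit 50904534666) (nat_lit 0) (nat_lit 50942901810) (nat_lit 836) (nat_lit 25670566861) (nat_lit 297) (nat_lit 5) (nat_lit 296) (nat_lit 5) (nat_lit 307) (nat_lit 5) (nat_lit 415) (nat_lit 406) (nat_lit 199)))) (XT.nd (nat_lit 156) (nat_lit 532) (nat_lit 0) (XT.nd (nat_lit 78) (nat_lit 760) (nat_lit 0) (XT.lf (nat_lit 0) (nat_lit 114238267850) (nat_lit 760) (nat_lit 8365779533) (nat_lit 76) (nat_lit 8326083369) (nat_lit 297) (nat_lit 5) (nat_lit 307) (nat_lit 5) (nat_lit 298) (nat_lit 5) (nat_lit 416) (nat_lit 406) (nat_lit 198)) (XT.lf (nat_lit 0) (nat_lit 64524102471) (nat_lit 760) (nat_lit 64566804375) (nat_lit 836) (nat_lit 5329844388) (nat_lit 287) (nat_lit 5) (nat_lit 297) (nat_lit 5) (nat_lit 298) (nat_lit 5) (nat_lit 417) (nat_lit 406) (nat_lit 197))) (XT.nd (nat_lit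 78) (nat_lit 0) (nat_lit 0) (XT.lf (nat_lit 0) (nat_lit 3269120515) (nat_lit 456) (nat_lit 3314685028) (nat_lit 532) (nat_lit 131487205733) (nat_lit 280) (nat_lit 5) (nat_lit 286) (nat_lit 5) (nat_lit 287) (nat_lit 5) (nat_lit 418) (nat_lit 406) (nat_lit 196)) (XT.lf (nat_lit 0) (nat_lit 21069289073) (nat_lit 532) (nat_lit 60384177163) (nat_lit 76) (nat_lit 60338185919) (nat_lit 280) (nat_lit 5) (nat_lit 287) (nat_lit 5) (nat_lit 281) (nat_lit 5) (nat_lit 419) (nat_lit 406) (nat_lit 195))))) (XT.nd (nat_lit 312) (nat_lit 988) (nat_lit 0) (XT.nd (nat_lit 156) (nat_lit 380) (nat_lit 0) (XT.nd (nat_lit 78) (nat_lit 0) (nat_lit 0) (XT.lf (nat_lit 0) (nat_lit 18285081682) (nat_lit 380) (nat_lit 18333545756) (nat_lit 456) (nat_lit 109062718606) (nat_lit 275) (nat_lit 5) (nat_lit 280) (nat_lit 5) (nat_lit 281) (nat_lit 5) (nat_lit 420) (nat_lit 406) (nat_lit 194)) (XT.lf (nat_lit 0) (nat_lit 54733115179)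 (nat_lit 456) (nat_lit 47495712258) (nat_lit 76) (nat_lit 47447313068) (nat_lit 275) (nat_lit 5) (nat_lit 281) (nat_lit 5) (nat_lit 276) (nat_lit 5) (nat_lit 421) (nat_lit 406) (nat_lit 193))) (XT.nd (nat_lit 78) (nat_lit 0) (nat_lit 0) (XT.lf (nat_lit 0) (nat_lit 37292682087) (nat_lit 380) (nat_lit 37343217400) (nat_lit 456) (nat_lit 79190646593) (nat_lit 270) (nat_lit 5) (nat_lit 275) (nat_lit 5) (nat_lit 276) (nat_lit 5) (nat_lit 422) (nat_lit 406) (nat_lit 192)) (XT.lf (nat_lit 0) (nat_lit 96831824049) (nat_lit 456) (nat_lit 30668907114) (nat_lit 76) (nat_lit 30618840718) (nat_lit 270) (nat_lit 5) (nat_lit 276) (nat_lit 5) (nat_lit 271) (nat_lit 5) (nat_lit 423) (nat_lit 406) (nat_lit 191)))) (XT.nd (nat_lit 156) (nat_lit 684) (nat_lit 0) (XT.nd (nat_lit 78) (nat_lit 0) (nat_lit 0) (XT.lf (nat_lit 0) (nat_lit 60823620045) (nat_lit 304) (nat_lit 60875531704) (nat_lit 380) (nat_lit 40850016878)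 (nat_lit 266) (nat_lit 5) (nat_lit 270) (nat_lit 5) (nat_lit 271) (nat_lit 5) (nat_lit 424) (nat_lit 406) (nat_lit 190)) (XT.lf (nat_lit 0) (nat_lit 148479333601) (nat_lit 380) (nat_lit 9369275303) (nat_lit 76) (nat_lit 9318161918) (nat_lit 266) (nat_lit 5) (nat_lit 271) (nat_lit 5) (nat_lit 267) (nat_lit 5) (nat_lit 425) (nat_lit 406) (nat_lit 189))) (XT.nd (nat_lit 78) (nat_lit 304) (nat_lit 0) (XT.lf (nat_lit 0) (nat_lit 6870486394) (nat_lit 380) (nat_lit 82536100413) (nat_lit 76) (nat_lit 82483393021) (nat_lit 261) (nat_lit 5) (nat_lit 266) (nat_lit 5) (nat_lit 262) (nat_lit 5) (nat_lit 426) (nat_lit 406) (nat_lit 188)) (XT.lf (nat_lit 0) (nat_lit 16723121542) (nat_lit 304) (nat_lit 16777347037) (nat_lit 380) (nat_lit 143312453991) (nat_lit 257) (nat_lit 5) (nat_lit 261) (nat_lit 5) (nat_lit 262) (nat_lit 5) (nat_lit 427) (nat_lit 406) (nat_lit 187)))))) (XT.nd (nat_lit 624) (nat_lit 1216)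 (nat_lit 0) (XT.nd (nat_lit 312) (nat_lit 608) (nat_lit 0) (XT.nd (nat_lit 156) (nat_lit 228) (nat_lit 0) (XT.nd (nat_lit 78) (nat_lit 304) (nat_lit 0) (XT.lf (nat_lit 0) (nat_lit 63811173471) (nat_lit 380) (nat_lit 59053199046) (nat_lit 76) (nat_lit 59000178754) (nat_lit 257) (nat_lit 5) (nat_lit 262) (nat_lit 5) (nat_lit 258) (nat_lit 5) (nat_lit 428) (nat_lit 406) (nat_lit 186)) (XT.lf (nat_lit 0) (nat_lit 48306070269) (nat_lit 304) (nat_lit 48360401955) (nat_lit 380) (nat_lit 90450836251) (nat_lit 253) (nat_lit 5) (nat_lit 257) (nat_lit 5) (nat_lit 258) (nat_lit 5) (nat_lit 429) (nat_lit 406) (nat_lit 185))) (XT.nd (nat_lit 78) (nat_lit 228) (nat_lit 0) (XT.lf (nat_lit 0) (nat_lit 132647191676) (nat_lit 380) (nat_lit 29982156506) (nat_lit 76) (nat_lit 29929222569) (nat_lit 253) (nat_lit 5) (nat_lit 258) (nat_lit 5) (nat_lit 254) (nat_lit 5) (nat_lit 430) (nat_lit 406) (nat_lit 184)) (XT.lf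 (nat_lit 0) (nat_lit 86256106252) (nat_lit 228) (nat_lit 86310173021) (nat_lit 304) (nat_lit 25598650260) (nat_lit 250) (nat_lit 5) (nat_lit 253) (nat_lit 5) (nat_lit 254) (nat_lit 5) (nat_lit 431) (nat_lit 406) (nat_lit 183)))) (XT.nd (nat_lit 156) (nat_lit 228) (nat_lit 0) (XT.nd (nat_lit 78) (nat_lit 0) (nat_lit 0) (XT.lf (nat_lit 0) (nat_lit 5319869328) (nat_lit 304) (nat_lit 5375014983) (nat_lit 380) (nat_lit 193318630822) (nat_lit 245) (nat_lit 5) (nat_lit 249) (nat_lit 5) (nat_lit 250) (nat_lit 5) (nat_lit 432) (nat_lit 406) (nat_lit 182)) (XT.lf (nat_lit 0) (nat_lit 51111843675) (nat_lit 380) (nat_lit 79458375282) (nat_lit 76) (nat_lit 79404877028) (nat_lit 245) (nat_lit 5) (nat_lit 250) (nat_lit 5) (nat_lit 246) (nat_lit 5) (nat_lit 433) (nat_lit 406) (nat_lit 181))) (XT.nd (nat_lit 78) (nat_lit 0) (nat_lit 0) (XT.lf (nat_lit 0) (nat_lit 47159741622) (nat_lit 228) (nat_lit 47214171860)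 (nat_lit 304) (nat_lit 121819629273) (nat_lit 242) (nat_lit 5) (nat_lit 245) (nat_lit 5) (nat_lit 246) (nat_lit 5) (nat_lit 434) (nat_lit 406) (nat_lit 180)) (XT.lf (nat_lit 0) (nat_lit 141796014604) (nat_lit 304) (nat_lit 40439867263) (nat_lit 76) (nat_lit 40387183605) (nat_lit 242) (nat_lit 5) (nat_lit 246) (nat_lit 5) (nat_lit 243) (nat_lit 5) (nat_lit 435) (nat_lit 406) (nat_lit 179))))) (XT.nd (nat_lit 312) (nat_lit 456) (nat_lit 0) (XT.nd (nat_lit 156) (nat_lit 228) (nat_lit 0) (XT.nd (nat_lit 78) (nat_lit 304) (nat_lit 0) (XT.lf (nat_lit 0) (nat_lit 96911326921) (nat_lit 228) (nat_lit 96964815662) (nat_lit 304) (nat_lit 35383575652) (nat_lit 239) (nat_lit 5) (nat_lit 242) (nat_lit 5) (nat_lit 243) (nat_lit 5) (nat_lit 436) (nat_lit 406) (nat_lit 178)) (XT.lf (nat_lit 0) (nat_lit 6339021655) (nat_lit 228) (nat_lit 6393277141) (nat_lit 304) (nat_lit 223446531487) (nat_lit 235) (nat_lit 5)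 (nat_lit 238) (nat_lit 5) (nat_lit 239) (nat_lit 5) (nat_lit 437) (nat_lit 406) (nat_lit 177))) (XT.nd (nat_lit 78) (nat_lit 228) (nat_lit 0) (XT.lf (nat_lit 0) (nat_lit 65727802460) (nat_lit 304) (nat_lit 88778156056) (nat_lit 76) (nat_lit 88725788705) (nat_lit 235) (nat_lit 5) (nat_lit 239) (nat_lit 5) (nat_lit 236) (nat_lit 5) (nat_lit 438) (nat_lit 406) (nat_lit 176)) (XT.lf (nat_lit 0) (nat_lit 61190039557) (nat_lit 228) (nat_lit 61243069252) (nat_lit 304) (nat_lit 128151199822) (nat_lit 232) (nat_lit 5) (nat_lit 235) (nat_lit 5) (nat_lit 236) (nat_lit 5) (nat_lit 439) (nat_lit 406) (nat_lit 175)))) (XT.nd (nat_lit 156) (nat_lit 304) (nat_lit 0) (XT.nd (nat_lit 78) (nat_lit 152) (nat_lit 0) (XT.lf (nat_lit 0) (nat_lit 184074426689) (nat_lit 304) (nat_lit 37088069673) (nat_lit 76) (nat_lit 37036964437) (nat_lit 232) (nat_lit 5) (nat_lit 236) (nat_lit 5) (nat_lit 233) (nat_lit 5) (nat_lit 440)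 (nat_lit 406) (nat_lit 174)) (XT.lf (nat_lit 0) (nat_lit 125857492875) (nat_lit 152) (nat_lit 125909170268) (nat_lit 228) (nat_lit 14280264799) (nat_lit 230) (nat_lit 5) (nat_lit 232) (nat_lit 5) (nat_lit 233) (nat_lit 5) (nat_lit 441) (nat_lit 406) (nat_lit 173))) (XT.nd (nat_lit 78) (nat_lit 0) (nat_lit 0) (XT.lf (nat_lit 0) (nat_lit 23981551377) (nat_lit 228) (nat_lit 24033773681) (nat_lit 304) (nat_lit 226182902987) (nat_lit 226) (nat_lit 5) (nat_lit 229) (nat_lit 5) (nat_lit 230) (nat_lit 5) (nat_lit 442) (nat_lit 406) (nat_lit 172)) (XT.lf (nat_lit 0) (nat_lit 116653616989) (nat_lit 304) (nat_lit 82978304576) (nat_lit 76) (nat_lit 82928074798) (nat_lit 226) (nat_lit 5) (nat_lit 230) (nat_lit 5) (nat_lit 227) (nat_lit 5) (nat_lit 443) (nat_lit 406) (nat_lit 171)))))))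
noncomputable def xc296 : XT := (XT.nd (nat_lit 1248) (nat_lit 1444) (nat_lit 0) (XT.nd (nat_lit 624) (nat_lit 760) (nat_lit 0) (XT.nd (nat_lit 312) (nat_lit 380) (nat_lit 0) (XT.nd (nat_lit 156) (nat_lit 380) (nat_lit 0) (XT.nd (nat_lit 78) (nat_lit 0) (nat_lit 0) (XT.lf (nat_lit 0) (nat_lit 95277276294) (nat_lit 152) (nat_lit 95327976787) (nat_lit 228) (nat_lit 100640528537) (nat_lit 224) (nat_lit 5) (nat_lit 226) (nat_lit 5) (nat_lit 227) (nat_lit 5) (nat_lit 444) (nat_lit 406) (nat_lit 170)) (XT.lf (nat_lit 0) (nat_lit 269904239367) (nat_lit 228) (nat_lit 15213920744) (nat_lit 76) (nat_lit 15165207607) (nat_lit 224) (nat_lit 5) (nat_lit 227) (nat_lit 5) (nat_lit 225) (nat_lit 5) (nat_lit 445) (nat_lit 406) (nat_lit 169))) (XT.nd (nat_lit 78) (nat_lit 152) (nat_lit 0) (XT.lf (nat_lit 0) (nat_lit 46431004616) (nat_lit 228) (nat_lit 131567921441) (nat_lit 76) (nat_lit 131518801683) (nat_lit 221)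 (nat_lit 5) (nat_lit 224) (nat_lit 5) (nat_lit 222) (nat_lit 5) (nat_lit 446) (nat_lit 406) (nat_lit 168)) (XT.lf (nat_lit 0) (nat_lit 63633233364) (nat_lit 152) (nat_lit 63682740380) (nat_lit 228) (nat_lit 191810167722) (nat_lit 219) (nat_lit 5) (nat_lit 221) (nat_lit 5) (nat_lit 222) (nat_lit 5) (nat_lit 447) (nat_lit 406) (nat_lit 167)))) (XT.nd (nat_lit 156) (nat_lit 228) (nat_lit 0) (XT.nd (nat_lit 78) (nat_lit 152) (nat_lit 0) (XT.lf (nat_lit 0) (nat_lit 215389551416) (nat_lit 228) (nat_lit 56857853627) (nat_lit 76) (nat_lit 56810352833) (nat_lit 219) (nat_lit 5) (nat_lit 222) (nat_lit 5) (nat_lit 220) (nat_lit 5) (nat_lit 448) (nat_lit 406) (nat_lit 166)) (XT.lf (nat_lit 0) (nat_lit 155646465512) (nat_lit 152) (nat_lit 155694300835) (nat_lit 228) (nat_lit 27971490840) (nat_lit 217) (nat_lit 5) (nat_lit 219) (nat_lit 5) (nat_lit 220) (nat_lit 5) (nat_lit 449) (nat_lit 406) (nat_lit 165)))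 (XT.nd (nat_lit 78) (nat_lit 0) (nat_lit 0) (XT.lf (nat_lit 0) (nat_lit 30717694768) (nat_lit 152) (nat_lit 30765848689) (nat_lit 228) (nat_lit 288474620860) (nat_lit 214) (nat_lit 5) (nat_lit 216) (nat_lit 5) (nat_lit 217) (nat_lit 5) (nat_lit 450) (nat_lit 406) (nat_lit 164)) (XT.lf (nat_lit 0) (nat_lit 159200333630) (nat_lit 228) (nat_lit 100861402047) (nat_lit 76) (nat_lit 100815252192) (nat_lit 214) (nat_lit 5) (nat_lit 217) (nat_lit 5) (nat_lit 215) (nat_lit 5) (nat_lit 451) (nat_lit 406) (nat_lit 163))))) (XT.nd (nat_lit 312) (nat_lit 304) (nat_lit 0) (XT.nd (nat_lit 156) (nat_lit 304) (nat_lit 0) (XT.nd (nat_lit 78) (nat_lit 0) (nat_lit 0) (XT.lf (nat_lit 0) (nat_lit 132162112510) (nat_lit 152) (nat_lit 132208537583) (nat_lit 228) (nat_lit 107842718165) (nat_lit 212) (nat_lit 5) (nat_lit 214) (nat_lit 5) (nat_lit 215) (nat_lit 5) (nat_lit 452) (nat_lit 406) (nat_lit 162)) (XT.lf (nat_lit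 0) (nat_lit 376567338058) (nat_lit 228) (nat_lit 3752650405) (nat_lit 76) (nat_lit 3708186421) (nat_lit 212) (nat_lit 5) (nat_lit 215) (nat_lit 5) (nat_lit 213) (nat_lit 4) (nat_lit 453) (nat_lit 406) (nat_lit 161))) (XT.nd (nat_lit 78) (nat_lit 152) (nat_lit 0) (XT.lf (nat_lit 0) (nat_lit 100978620628) (nat_lit 152) (nat_lit 147557344016) (nat_lit 76) (nat_lit 147512642288) (nat_lit 210) (nat_lit 5) (nat_lit 212) (nat_lit 5) (nat_lit 211) (nat_lit 5) (nat_lit 454) (nat_lit 406) (nat_lit 160)) (XT.lf (nat_lit 0) (nat_lit 108148701061) (nat_lit 152) (nat_lit 108193629211) (nat_lit 228) (nat_lit 192233964253) (nat_lit 208) (nat_lit 5) (nat_lit 210) (nat_lit 5) (nat_lit 211) (nat_lit 5) (nat_lit 455) (nat_lit 406) (nat_lit 159)))) (XT.nd (nat_lit 156) (nat_lit 152) (nat_lit 0) (XT.nd (nat_lit 78) (nat_lit 152) (nat_lit 0) (XT.lf (nat_lit 0) (nat_lit 340625549106) (nat_lit 228) (nat_lit 40495122646)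 (nat_lit 76) (nat_lit 40452128560) (nat_lit 208) (nat_lit 5) (nat_lit 211) (nat_lit 5) (nat_lit 209) (nat_lit 4) (nat_lit 456) (nat_lit 406) (nat_lit 158)) (XT.lf (nat_lit 0) (nat_lit 40338625060) (nat_lit 152) (nat_lit 197308234698) (nat_lit 76) (nat_lit 197265045020) (nat_lit 206) (nat_lit 5) (nat_lit 208) (nat_lit 5) (nat_lit 207) (nat_lit 5) (nat_lit 457) (nat_lit 406) (nat_lit 157))) (XT.nd (nat_lit 78) (nat_lit 0) (nat_lit 0) (XT.lf (nat_lit 0) (nat_lit 83462555346) (nat_lit 152) (nat_lit 83505931301) (nat_lit 228) (nat_lit 281783125117) (nat_lit 204) (nat_lit 5) (nat_lit 206) (nat_lit 5) (nat_lit 207) (nat_lit 5) (nat_lit 458) (nat_lit 406) (nat_lit 156)) (XT.lf (nat_lit 0) (nat_lit 304549188398) (nat_lit 228) (nat_lit 79272313870) (nat_lit 76) (nat_lit 79230834477) (nat_lit 204) (nat_lit 5) (nat_lit 207) (nat_lit 5) (nat_lit 205) (nat_lit 4) (nat_lit 459) (nat_lit 406) (nat_lit 155))))))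 (XT.nd (nat_lit 624) (nat_lit 532) (nat_lit 0) (XT.nd (nat_lit 312) (nat_lit 532) (nat_lit 0) (XT.nd (nat_lit 156) (nat_lit 76) (nat_lit 0) (XT.nd (nat_lit 78) (nat_lit 228) (nat_lit 0) (XT.lf (nat_lit 0) (nat_lit 226939660765) (nat_lit 76) (nat_lit 226981301072) (nat_lit 152) (nat_lit 23901534309) (nat_lit 203) (nat_lit 5) (nat_lit 204) (nat_lit 5) (nat_lit 205) (nat_lit 4) (nat_lit 460) (nat_lit 406) (nat_lit 154)) (XT.lf (nat_lit 0) (nat_lit 57949534756) (nat_lit 152) (nat_lit 57991328314) (nat_lit 228) (nat_lit 377185169693) (nat_lit 200) (nat_lit 5) (nat_lit 202) (nat_lit 5) (nat_lit 203) (nat_lit 5) (nat_lit 461) (nat_lit 406) (nat_lit 153))) (XT.nd (nat_lit 78) (nat_lit 76) (nat_lit 0) (XT.lf (nat_lit 0) (nat_lit 268155450878) (nat_lit 228) (nat_lit 120375240181) (nat_lit 76) (nat_lit 120335297789) (nat_lit 200) (nat_lit 5) (nat_lit 203) (nat_lit 5) (nat_lit 201) (nat_lit 4) (nat_lit 462)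 (nat_lit 406) (nat_lit 152)) (XT.lf (nat_lit 0) (nat_lit 216132868895) (nat_lit 76) (nat_lit 216172943671) (nat_lit 152) (nat_lit 92870877947) (nat_lit 199) (nat_lit 5) (nat_lit 200) (nat_lit 5) (nat_lit 201) (nat_lit 4) (nat_lit 463) (nat_lit 406) (nat_lit 151)))) (XT.nd (nat_lit 156) (nat_lit 304) (nat_lit 0) (XT.nd (nat_lit 78) (nat_lit 0) (nat_lit 0) (XT.lf (nat_lit 0) (nat_lit 31443757842) (nat_lit 152) (nat_lit 31483958698) (nat_lit 228) (nat_lit 479198385136) (nat_lit 196) (nat_lit 5) (nat_lit 198) (nat_lit 5) (nat_lit 199) (nat_lit 5) (nat_lit 464) (nat_lit 406) (nat_lit 150)) (XT.lf (nat_lit 0) (nat_lit 231250840268) (nat_lit 228) (nat_lit 164120818423) (nat_lit 76) (nat_lit 164082417535) (nat_lit 196) (nat_lit 5) (nat_lit 199) (nat_lit 5) (nat_lit 197) (nat_lit 4) (nat_lit 465) (nat_lit 406) (nat_lit 149))) (XT.nd (nat_lit 78) (nat_lit 228) (nat_lit 0) (XT.lf (nat_lit 0) (nat_lit 205840711223)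 (nat_lit 76) (nat_lit 205879221025) (nat_lit 152) (nat_lit 165742026653) (nat_lit 195) (nat_lit 5) (nat_lit 196) (nat_lit 5) (nat_lit 197) (nat_lit 4) (nat_lit 466) (nat_lit 406) (nat_lit 148)) (XT.lf (nat_lit 0) (nat_lit 3766205235) (nat_lit 152) (nat_lit 3804818763) (nat_lit 228) (nat_lit 588651243517) (nat_lit 192) (nat_lit 5) (nat_lit 194) (nat_lit 5) (nat_lit 195) (nat_lit 5) (nat_lit 467) (nat_lit 406) (nat_lit 147))))) (XT.nd (nat_lit 312) (nat_lit 304) (nat_lit 0) (XT.nd (nat_lit 156) (nat_lit 152) (nat_lit 0) (XT.nd (nat_lit 78) (nat_lit 76) (nat_lit 0) (XT.lf (nat_lit 0) (nat_lit 193629690395) (nat_lit 228) (nat_lit 210854708405) (nat_lit 76) (nat_lit 210817839533) (nat_lit 192) (nat_lit 5) (nat_lit 195) (nat_lit 5) (nat_lit 193) (nat_lit 4) (nat_lit 468) (nat_lit 406) (nat_lit 146)) (XT.lf (nat_lit 0) (nat_lit 196038676917) (nat_lit 76) (nat_lit 196075635392) (nat_lit 152) (nat_lit 243065744272)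 (nat_lit 191) (nat_lit 5) (nat_lit 192) (nat_lit 5) (nat_lit 193) (nat_lit 4) (nat_lit 469) (nat_lit 406) (nat_lit 145))) (XT.nd (nat_lit 78) (nat_lit 152) (nat_lit 0) (XT.lf (nat_lit 0) (nat_lit 604507813803) (nat_lit 152) (nat_lit 25689999667) (nat_lit 0) (nat_lit 25654719847) (nat_lit 191) (nat_lit 5) (nat_lit 193) (nat_lit 4) (nat_lit 191) (nat_lit 4) (nat_lit 470) (nat_lit 406) (nat_lit 144)) (XT.lf (nat_lit 0) (nat_lit 155072553117) (nat_lit 152) (nat_lit 260954437467) (nat_lit 76) (nat_lit 260919080245) (nat_lit 189) (nat_lit 5) (nat_lit 191) (nat_lit 5) (nat_lit 190) (nat_lit 4) (nat_lit 471) (nat_lit 406) (nat_lit 143)))) (XT.nd (nat_lit 156) (nat_lit 228) (nat_lit 0) (XT.nd (nat_lit 78) (nat_lit 0) (nat_lit 0) (XT.lf (nat_lit 0) (nat_lit 186703423113) (nat_lit 76) (nat_lit 186738854051) (nat_lit 152) (nat_lit 325442066865) (nat_lit 188) (nat_lit 5) (nat_lit 189) (nat_lit 5) (nat_lit 190)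 (nat_lit 4) (nat_lit 472) (nat_lit 406) (nat_lit 142)) (XT.lf (nat_lit 0) (nat_lit 608065569848) (nat_lit 152) (nat_lit 56810508766) (nat_lit 0) (nat_lit 56776698152) (nat_lit 188) (nat_lit 5) (nat_lit 190) (nat_lit 4) (nat_lit 188) (nat_lit 4) (nat_lit 473) (nat_lit 406) (nat_lit 141))) (XT.nd (nat_lit 78) (nat_lit 76) (nat_lit 0) (XT.lf (nat_lit 0) (nat_lit 115344438338) (nat_lit 152) (nat_lit 314832836781) (nat_lit 76) (nat_lit 314798962488) (nat_lit 186) (nat_lit 5) (nat_lit 188) (nat_lit 5) (nat_lit 187) (nat_lit 4) (nat_lit 474) (nat_lit 406) (nat_lit 140)) (XT.nd (nat_lit 78) (nat_lit 0) (nat_lit 0) (XT.lf (nat_lit 0) (nat_lit 177812719160) (nat_lit 76) (nat_lit 177846654099) (nat_lit 152) (nat_lit 413525694843) (nat_lit 185) (nat_lit 5) (nat_lit 186) (nat_lit 5) (nat_lit 187) (nat_lit 4) (nat_lit 475) (nat_lit 406) (nat_lit 139)) (XT.lf (nat_lit 0) (nat_lit 614769133450) (nat_lit 152) (nat_lit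 89764313371) (nat_lit 0) (nat_lit 89731939373) (nat_lit 185) (nat_lit 5) (nat_lit 187) (nat_lit 4) (nat_lit 185) (nat_lit 4) (nat_lit 476) (nat_lit 406) (nat_lit 138))))))))
noncomputable def xc297 : XT := (XT.nd (nat_lit 49452) (nat_lit 0) (nat_lit 2052) (XT.nd (nat_lit 48204) (nat_lit 0) (nat_lit 6156) (XT.nd (nat_lit 624) (nat_lit 0) (nat_lit 0) (XT.nd (nat_lit 312) (nat_lit 304) (nat_lit 0) (XT.nd (nat_lit 156) (nat_lit 152) (nat_lit 0) (XT.nd (nat_lit 78) (nat_lit 76) (nat_lit 0) (XT.lf (nat_lit 0) (nat_lit 74192890115) (nat_lit 152) (nat_lit 372941821728) (nat_lit 76) (nat_lit 372909395341) (nat_lit 183) (nat_lit 5) (nat_lit 185) (nat_lit 5) (nat_lit 184) (nat_lit 4) (nat_lit 477) (nat_lit 406) (nat_lit 137)) (XT.lf (nat_lit 0) (nat_lit 169345393542) (nat_lit 76) (nat_lit 169377869824) (nat_lit 152) (nat_lit 508031921563) (nat_lit 182) (nat_lit 5) (nat_lit 183) (nat_lit 5) (nat_lit 184) (nat_lit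 4) (nat_lit 478) (nat_lit 406) (nat_lit 136))) (XT.nd (nat_lit 78) (nat_lit 152) (nat_lit 0) (XT.lf (nat_lit 0) (nat_lit 624808518189) (nat_lit 152) (nat_lit 124803927638) (nat_lit 0) (nat_lit 124772952590) (nat_lit 182) (nat_lit 5) (nat_lit 184) (nat_lit 4) (nat_lit 182) (nat_lit 4) (nat_lit 479) (nat_lit 406) (nat_lit 135)) (XT.lf (nat_lit 0) (nat_lit 31345881294) (nat_lit 152) (nat_lit 435776552045) (nat_lit 76) (nat_lit 435745533897) (nat_lit 180) (nat_lit 5) (nat_lit 182) (nat_lit 5) (nat_lit 181) (nat_lit 4) (nat_lit 480) (nat_lit 406) (nat_lit 134)))) (XT.nd (nat_lit 156) (nat_lit 228) (nat_lit 0) (XT.nd (nat_lit 78) (nat_lit 0) (nat_lit 0) (XT.lf (nat_lit 0) (nat_lit 161281283353) (nat_lit 76) (nat_lit 161312342549) (nat_lit 152) (nat_lit 609743154144) (nat_lit 179) (nat_lit 5) (nat_lit 180) (nat_lit 5) (nat_lit 181) (nat_lit 4) (nat_lit 481) (nat_lit 406) (nat_lit 133)) (XT.lf (nat_lit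 0) (nat_lit 638399519701) (nat_lit 152) (nat_lit 162204671557) (nat_lit 0) (nat_lit 162175054139) (nat_lit 179) (nat_lit 5) (nat_lit 181) (nat_lit 4) (nat_lit 179) (nat_lit 4) (nat_lit 482) (nat_lit 406) (nat_lit 132))) (XT.nd (nat_lit 78) (nat_lit 152) (nat_lit 0) (XT.lf (nat_lit 0) (nat_lit 490131397435) (nat_lit 76) (nat_lit 490161050312) (nat_lit 76) (nat_lit 13936549291) (nat_lit 178) (nat_lit 4) (nat_lit 179) (nat_lit 5) (nat_lit 179) (nat_lit 4) (nat_lit 483) (nat_lit 406) (nat_lit 131)) (XT.lf (nat_lit 0) (nat_lit 153601186181) (nat_lit 76) (nat_lit 153630872829) (nat_lit 152) (nat_lit 719516087916) (nat_lit 176) (nat_lit 5) (nat_lit 177) (nat_lit 5) (nat_lit 178) (nat_lit 4) (nat_lit 484) (nat_lit 406) (nat_lit 130))))) (XT.nd (nat_lit 47268) (nat_lit 0) (nat_lit 8892) (XT.nd (nat_lit 47112) (nat_lit 0) (nat_lit 8816) (XT.nd (nat_lit 47034) (nat_lit 0) (nat_lit 8816) (XT.lf (nat_lit 0)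 (nat_lit 655786058177) (nat_lit 152) (nat_lit 202267155183) (nat_lit 0) (nat_lit 202238851554) (nat_lit 176) (nat_lit 5) (nat_lit 178) (nat_lit 4) (nat_lit 176) (nat_lit 4) (nat_lit 485) (nat_lit 406) (nat_lit 129)) (XT.lf (nat_lit 0) (nat_lit 25036662476) (nat_lit 836) (nat_lit 14143674829) (nat_lit 836) (nat_lit 14143674829) (nat_lit 292) (nat_lit 3) (nat_lit 303) (nat_lit 3) (nat_lit 303) (nat_lit 5) (nat_lit 407) (nat_lit 407) (nat_lit 206))) (XT.nd (nat_lit 78) (nat_lit 0) (nat_lit 76) (XT.lf (nat_lit 76) (nat_lit 25864487606) (nat_lit 0) (nat_lit 25870155377) (nat_lit 836) (nat_lit 57559107647) (nat_lit 293) (nat_lit 5) (nat_lit 292) (nat_lit 3) (nat_lit 303) (nat_lit 5) (nat_lit 408) (nat_lit 407) (nat_lit 205)) (XT.lf (nat_lit 0) (nat_lit 54422171760) (nat_lit 760) (nat_lit 28806486509) (nat_lit 836) (nat_lit 28795947798) (nat_lit 293) (nat_lit 5) (nat_lit 303) (nat_lit 5) (nat_lit 304)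 (nat_lit 5) (nat_lit 409) (nat_lit 407) (nat_lit 204)))) (XT.nd (nat_lit 156) (nat_lit 0) (nat_lit 76) (XT.nd (nat_lit 78) (nat_lit 0) (nat_lit 76) (XT.lf (nat_lit 76) (nat_lit 29052997958) (nat_lit 0) (nat_lit 29068432702) (nat_lit 836) (nat_lit 56726705932) (nat_lit 294) (nat_lit 5) (nat_lit 293) (nat_lit 5) (nat_lit 304) (nat_lit 5) (nat_lit 410) (nat_lit 407) (nat_lit 203)) (XT.lf (nat_lit 0) (nat_lit 62935204069) (nat_lit 760) (nat_lit 27425151299) (nat_lit 836) (nat_lit 27406010696) (nat_lit 294) (nat_lit 5) (nat_lit 304) (nat_lit 5) (nat_lit 305) (nat_lit 5) (nat_lit 411) (nat_lit 407) (nat_lit 202))) (XT.nd (nat_lit 78) (nat_lit 0) (nat_lit 76) (XT.lf (nat_lit 76) (nat_lit 34490503182) (nat_lit 0) (nat_lit 34513873163) (nat_lit 836) (nat_lit 51775395157) (nat_lit 295) (nat_lit 5) (nat_lit 294) (nat_lit 5) (nat_lit 305) (nat_lit 5) (nat_lit 412) (nat_lit 407) (nat_lit 201)) (XT.lf (nat_lit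 0) (nat_lit 76225435643) (nat_lit 760) (nat_lit 23851041721) (nat_lit 836) (nat_lit 23824948426) (nat_lit 295) (nat_lit 5) (nat_lit 305) (nat_lit 5) (nat_lit 306) (nat_lit 5) (nat_lit 413) (nat_lit 407) (nat_lit 200)))))) (XT.nd (nat_lit 624) (nat_lit 1368) (nat_lit 0) (XT.nd (nat_lit 312) (nat_lit 1520) (nat_lit 0) (XT.nd (nat_lit 156) (nat_lit 0) (nat_lit 76) (XT.nd (nat_lit 78) (nat_lit 0) (nat_lit 76) (XT.lf (nat_lit 76) (nat_lit 42503456533) (nat_lit 0) (nat_lit 42533203323) (nat_lit 836) (nat_lit 42081047339) (nat_lit 296) (nat_lit 5) (nat_lit 295) (nat_lit 5) (nat_lit 306) (nat_lit 5) (nat_lit 414) (nat_lit 407) (nat_lit 199)) (XT.lf (nat_lit 0) (nat_lit 94977989952) (nat_lit 760) (nat_lit 17756989794) (nat_lit 836) (nat_lit 17725345690) (nat_lit 296) (nat_lit 5) (nat_lit 306) (nat_lit 5) (nat_lit 307) (nat_lit 5) (nat_lit 415) (nat_lit 407) (nat_lit 198))) (XT.nd (nat_lit 78) (nat_lit 0)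 (nat_lit 76) (XT.lf (nat_lit 76) (nat_lit 53456598297) (nat_lit 0) (nat_lit 53491398428) (nat_lit 836) (nat_lit 26945497357) (nat_lit 297) (nat_lit 5) (nat_lit 296) (nat_lit 5) (nat_lit 307) (nat_lit 5) (nat_lit 416) (nat_lit 407) (nat_lit 197)) (XT.lf (nat_lit 0) (nat_lit 119957959646) (nat_lit 760) (nat_lit 8777147157) (nat_lit 76) (nat_lit 8741141566) (nat_lit 297) (nat_lit 5) (nat_lit 307) (nat_lit 5) (nat_lit 298) (nat_lit 5) (nat_lit 417) (nat_lit 407) (nat_lit 196)))) (XT.nd (nat_lit 156) (nat_lit 380) (nat_lit 0) (XT.nd (nat_lit 78) (nat_lit 532) (nat_lit 0) (XT.lf (nat_lit 0) (nat_lit 67757117313) (nat_lit 760) (nat_lit 67795849198) (nat_lit 836) (nat_lit 5588446569) (nat_lit 287) (nat_lit 5) (nat_lit 297) (nat_lit 5) (nat_lit 298) (nat_lit 5) (nat_lit 418) (nat_lit 407) (nat_lit 195)) (XT.lf (nat_lit 0) (nat_lit 3439524883) (nat_lit 456) (nat_lit 3480853238) (nat_lit 532) (nat_lit 138053814604)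 (nat_lit 280) (nat_lit 5) (nat_lit 286) (nat_lit 5) (nat_lit 287) (nat_lit 5) (nat_lit 419) (nat_lit 407) (nat_lit 194))) (XT.nd (nat_lit 78) (nat_lit 380) (nat_lit 0) (XT.lf (nat_lit 0) (nat_lit 22129777836) (nat_lit 532) (nat_lit 63396410563) (nat_lit 76) (nat_lit 63354695148) (nat_lit 280) (nat_lit 5) (nat_lit 287) (nat_lit 5) (nat_lit 281) (nat_lit 5) (nat_lit 420) (nat_lit 407) (nat_lit 193)) (XT.lf (nat_lit 0) (nat_lit 19206198717) (nat_lit 380) (nat_lit 19250157061) (nat_lit 456) (nat_lit 114508717719) (nat_lit 275) (nat_lit 5) (nat_lit 280) (nat_lit 5) (nat_lit 281) (nat_lit 5) (nat_lit 421) (nat_lit 407) (nat_lit 192))))) (XT.nd (nat_lit 312) (nat_lit 684) (nat_lit 0) (XT.nd (nat_lit 156) (nat_lit 304) (nat_lit 0) (XT.nd (nat_lit 78) (nat_lit 380) (nat_lit 0) (XT.lf (nat_lit 0) (nat_lit 57476245222) (nat_lit 456) (nat_lit 49863639043) (nat_lit 76) (nat_lit 49819739551) (nat_lit 275) (nat_lit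 5) (nat_lit 281) (nat_lit 5) (nat_lit 276) (nat_lit 5) (nat_lit 422) (nat_lit 407) (nat_lit 191)) (XT.lf (nat_lit 0) (nat_lit 39164064393) (nat_lit 380) (nat_lit 39209901412) (nat_lit 456) (nat_lit 83143594011) (nat_lit 270) (nat_lit 5) (nat_lit 275) (nat_lit 5) (nat_lit 276) (nat_lit 5) (nat_lit 423) (nat_lit 407) (nat_lit 190))) (XT.nd (nat_lit 78) (nat_lit 304) (nat_lit 0) (XT.lf (nat_lit 0) (nat_lit 101679395050) (nat_lit 456) (nat_lit 32195634066) (nat_lit 76) (nat_lit 32150222369) (nat_lit 270) (nat_lit 5) (nat_lit 276) (nat_lit 5) (nat_lit 271) (nat_lit 5) (nat_lit 424) (nat_lit 407) (nat_lit 189)) (XT.lf (nat_lit 0) (nat_lit 63871411089) (nat_lit 304) (nat_lit 63918496495) (nat_lit 380) (nat_lit 42886429562) (nat_lit 266) (nat_lit 5) (nat_lit 270) (nat_lit 5) (nat_lit 271) (nat_lit 5) (nat_lit 425) (nat_lit 407) (nat_lit 188)))) (XT.nd (nat_lit 156) (nat_lit 304) (nat_lit 0) (XT.nd (nat_lit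 78) (nat_lit 380) (nat_lit 0) (XT.lf (nat_lit 0) (nat_lit 155908834493) (nat_lit 380) (nat_lit 9831179753) (nat_lit 76) (nat_lit 9784818407) (nat_lit 266) (nat_lit 5) (nat_lit 271) (nat_lit 5) (nat_lit 267) (nat_lit 5) (nat_lit 426) (nat_lit 407) (nat_lit 187)) (XT.lf (nat_lit 0) (nat_lit 7219470205) (nat_lit 380) (nat_lit 86656271399) (nat_lit 76) (nat_lit 86608464240) (nat_lit 261) (nat_lit 5) (nat_lit 266) (nat_lit 5) (nat_lit 262) (nat_lit 5) (nat_lit 427) (nat_lit 407) (nat_lit 186))) (XT.nd (nat_lit 78) (nat_lit 0) (nat_lit 0) (XT.lf (nat_lit 0) (nat_lit 17565804654) (nat_lit 304) (nat_lit 17614988776) (nat_lit 380) (nat_lit 150472510198) (nat_lit 257) (nat_lit 5) (nat_lit 261) (nat_lit 5) (nat_lit 262) (nat_lit 5) (nat_lit 428) (nat_lit 407) (nat_lit 185)) (XT.lf (nat_lit 0) (nat_lit 67006799341) (nat_lit 380) (nat_lit 61999408551) (nat_lit 76) (nat_lit 61951317583) (nat_lit 257) (nat_lit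 5) (nat_lit 262) (nat_lit 5) (nat_lit 258) (nat_lit 5) (nat_lit 429) (nat_lit 407) (nat_lit 184))))))) (XT.nd (nat_lit 1248) (nat_lit 1596) (nat_lit 0) (XT.nd (nat_lit 624) (nat_lit 1140) (nat_lit 0) (XT.nd (nat_lit 312) (nat_lit 456) (nat_lit 0) (XT.nd (nat_lit 156) (nat_lit 608) (nat_lit 0) (XT.nd (nat_lit 78) (nat_lit 0) (nat_lit 0) (XT.lf (nat_lit 0) (nat_lit 50727720190) (nat_lit 304) (nat_lit 50777000632) (nat_lit 380) (nat_lit 94968206827) (nat_lit 253) (nat_lit 5) (nat_lit 257) (nat_lit 5) (nat_lit 258) (nat_lit 5) (nat_lit 430) (nat_lit 407) (nat_lit 183)) (XT.lf (nat_lit 0) (nat_lit 139284262859) (nat_lit 380) (nat_lit 31475006746) (nat_lit 76) (nat_lit 31426994105) (nat_lit 253) (nat_lit 5) (nat_lit 258) (nat_lit 5) (nat_lit 254) (nat_lit 5) (nat_lit 431) (nat_lit 407) (nat_lit 182))) (XT.nd (nat_lit 78) (nat_lit 380) (nat_lit 0) (XT.lf (nat_lit 0) (nat_lit 90575068222) (nat_lit 228)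 (nat_lit 90624108374) (nat_lit 304) (nat_lit 26873770245) (nat_lit 250) (nat_lit 5) (nat_lit 253) (nat_lit 5) (nat_lit 254) (nat_lit 5) (nat_lit 432) (nat_lit 407) (nat_lit 181)) (XT.lf (nat_lit 0) (nat_lit 5592071697) (nat_lit 304) (nat_lit 5642090432) (nat_lit 380) (nat_lit 202979802081) (nat_lit 245) (nat_lit 5) (nat_lit 249) (nat_lit 5) (nat_lit 250) (nat_lit 5) (nat_lit 433) (nat_lit 407) (nat_lit 180)))) (XT.nd (nat_lit 156) (nat_lit 228) (nat_lit 0) (XT.nd (nat_lit 78) (nat_lit 228) (nat_lit 0) (XT.lf (nat_lit 0) (nat_lit 53671778485) (nat_lit 380) (nat_lit 83425189831) (nat_lit 76) (nat_lit 83376665337) (nat_lit 245) (nat_lit 5) (nat_lit 250) (nat_lit 5) (nat_lit 246) (nat_lit 5) (nat_lit 434) (nat_lit 407) (nat_lit 179)) (XT.lf (nat_lit 0) (nat_lit 49523734464) (nat_lit 228) (nat_lit 49573104294) (nat_lit 304) (nat_lit 127906169654) (nat_lit 242) (nat_lit 5) (nat_lit 245) (nat_lit 5) (nat_lit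 246) (nat_lit 5) (nat_lit 435) (nat_lit 407) (nat_lit 178))) (XT.nd (nat_lit 78) (nat_lit 228) (nat_lit 0) (XT.lf (nat_lit 0) (nat_lit 148889869937) (nat_lit 304) (nat_lit 42455965855) (nat_lit 76) (nat_lit 42408180224) (nat_lit 242) (nat_lit 5) (nat_lit 246) (nat_lit 5) (nat_lit 243) (nat_lit 5) (nat_lit 436) (nat_lit 407) (nat_lit 177)) (XT.lf (nat_lit 0) (nat_lit 101762692962) (nat_lit 228) (nat_lit 101811208826) (nat_lit 304) (nat_lit 37148604755) (nat_lit 239) (nat_lit 5) (nat_lit 242) (nat_lit 5) (nat_lit 243) (nat_lit 5) (nat_lit 437) (nat_lit 407) (nat_lit 176))))) (XT.nd (nat_lit 312) (nat_lit 608) (nat_lit 0) (XT.nd (nat_lit 156) (nat_lit 228) (nat_lit 0) (XT.nd (nat_lit 78) (nat_lit 0) (nat_lit 0) (XT.lf (nat_lit 0) (nat_lit 6661809563) (nat_lit 228) (nat_lit 6711020888) (nat_lit 304) (nat_lit 234614745512) (nat_lit 235) (nat_lit 5) (nat_lit 238) (nat_lit 5) (nat_lit 239) (nat_lit 5)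 (nat_lit 438) (nat_lit 407) (nat_lit 175)) (XT.lf (nat_lit 0) (nat_lit 69017951338) (nat_lit 304) (nat_lit 93211347019) (nat_lit 76) (nat_lit 93163848288) (nat_lit 235) (nat_lit 5) (nat_lit 239) (nat_lit 5) (nat_lit 236) (nat_lit 5) (nat_lit 439) (nat_lit 407) (nat_lit 174))) (XT.nd (nat_lit 78) (nat_lit 0) (nat_lit 0) (XT.lf (nat_lit 0) (nat_lit 64255166167) (nat_lit 228) (nat_lit 64303265664) (nat_lit 304) (nat_lit 134554908852) (nat_lit 232) (nat_lit 5) (nat_lit 235) (nat_lit 5) (nat_lit 236) (nat_lit 5) (nat_lit 440) (nat_lit 407) (nat_lit 173)) (XT.lf (nat_lit 0) (nat_lit 193281670059) (nat_lit 304) (nat_lit 38936970817) (nat_lit 76) (nat_lit 38890616861) (nat_lit 232) (nat_lit 5) (nat_lit 236) (nat_lit 5) (nat_lit 233) (nat_lit 5) (nat_lit 441) (nat_lit 407) (nat_lit 172)))) (XT.nd (nat_lit 156) (nat_lit 152) (nat_lit 0) (XT.nd (nat_lit 78) (nat_lit 304) (nat_lit 0) (XT.lf (nat_lit 0) (nat_lit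 132155781111) (nat_lit 152) (nat_lit 132202654030) (nat_lit 228) (nat_lit 14990667256) (nat_lit 230) (nat_lit 5) (nat_lit 232) (nat_lit 5) (nat_lit 233) (nat_lit 5) (nat_lit 442) (nat_lit 407) (nat_lit 171)) (XT.lf (nat_lit 0) (nat_lit 25186068926) (nat_lit 228) (nat_lit 25233436095) (nat_lit 304) (nat_lit 237488463741) (nat_lit 226) (nat_lit 5) (nat_lit 229) (nat_lit 5) (nat_lit 230) (nat_lit 5) (nat_lit 443) (nat_lit 407) (nat_lit 170))) (XT.nd (nat_lit 78) (nat_lit 152) (nat_lit 0) (XT.lf (nat_lit 0) (nat_lit 122489579120) (nat_lit 304) (nat_lit 87121906444) (nat_lit 76) (nat_lit 87076346554) (nat_lit 226) (nat_lit 5) (nat_lit 230) (nat_lit 5) (nat_lit 227) (nat_lit 5) (nat_lit 444) (nat_lit 407) (nat_lit 169)) (XT.lf (nat_lit 0) (nat_lit 100046367771) (nat_lit 152) (nat_lit 100092354613) (nat_lit 228) (nat_lit 105669187983) (nat_lit 224) (nat_lit 5) (nat_lit 226) (nat_lit 5) (nat_lit 227) (nat_lit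 5) (nat_lit 445) (nat_lit 407) (nat_lit 168)))))) (XT.nd (nat_lit 624) (nat_lit 684) (nat_lit 0) (XT.nd (nat_lit 312) (nat_lit 532) (nat_lit 0) (XT.nd (nat_lit 156) (nat_lit 152) (nat_lit 0) (XT.nd (nat_lit 78) (nat_lit 228) (nat_lit 0) (XT.lf (nat_lit 0) (nat_lit 283402535337) (nat_lit 228) (nat_lit 15969515408) (nat_lit 76) (nat_lit 15925331157) (nat_lit 224) (nat_lit 5) (nat_lit 227) (nat_lit 5) (nat_lit 225) (nat_lit 5) (nat_lit 446) (nat_lit 407) (nat_lit 167)) (XT.lf (nat_lit 0) (nat_lit 48755619788) (nat_lit 228) (nat_lit 138141197080) (nat_lit 76) (nat_lit 138096644011) (nat_lit 221) (nat_lit 5) (nat_lit 224) (nat_lit 5) (nat_lit 222) (nat_lit 5) (nat_lit 447) (nat_lit 407) (nat_lit 166))) (XT.nd (nat_lit 78) (nat_lit 0) (nat_lit 0) (XT.lf (nat_lit 0) (nat_lit 66819932877) (nat_lit 152) (nat_lit 66864837201) (nat_lit 228) (nat_lit 201397528579) (nat_lit 219) (nat_lit 5) (nat_lit 221) (nat_lit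 5) (nat_lit 222) (nat_lit 5) (nat_lit 448) (nat_lit 407) (nat_lit 165)) (XT.lf (nat_lit 0) (nat_lit 226161914225) (nat_lit 228) (nat_lit 59695835951) (nat_lit 76) (nat_lit 59652751331) (nat_lit 219) (nat_lit 5) (nat_lit 222) (nat_lit 5) (nat_lit 220) (nat_lit 5) (nat_lit 449) (nat_lit 407) (nat_lit 164)))) (XT.nd (nat_lit 156) (nat_lit 152) (nat_lit 0) (XT.nd (nat_lit 78) (nat_lit 228) (nat_lit 0) (XT.lf (nat_lit 0) (nat_lit 163433619945) (nat_lit 152) (nat_lit 163477007993) (nat_lit 228) (nat_lit 29367100944) (nat_lit 217) (nat_lit 5) (nat_lit 219) (nat_lit 5) (nat_lit 220) (nat_lit 5) (nat_lit 450) (nat_lit 407) (nat_lit 163)) (XT.lf (nat_lit 0) (nat_lit 32258426092) (nat_lit 152) (nat_lit 32302103118) (nat_lit 228) (nat_lit 302895402894) (nat_lit 214) (nat_lit 5) (nat_lit 216) (nat_lit 5) (nat_lit 217) (nat_lit 5) (nat_lit 451) (nat_lit 407) (nat_lit 162))) (XT.nd (nat_lit 78) (nat_lit 152)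 (nat_lit 0) (XT.lf (nat_lit 0) (nat_lit 167163055453) (nat_lit 228) (nat_lit 105899752915) (nat_lit 76) (nat_lit 105857893636) (nat_lit 214) (nat_lit 5) (nat_lit 217) (nat_lit 5) (nat_lit 215) (nat_lit 5) (nat_lit 452) (nat_lit 407) (nat_lit 161)) (XT.lf (nat_lit 0) (nat_lit 138774861253) (nat_lit 152) (nat_lit 138816970163) (nat_lit 228) (nat_lit 113232072814) (nat_lit 212) (nat_lit 5) (nat_lit 214) (nat_lit 5) (nat_lit 215) (nat_lit 5) (nat_lit 453) (nat_lit 407) (nat_lit 160))))) (XT.nd (nat_lit 312) (nat_lit 380) (nat_lit 0) (XT.nd (nat_lit 156) (nat_lit 152) (nat_lit 0) (XT.nd (nat_lit 78) (nat_lit 152) (nat_lit 0) (XT.lf (nat_lit 0) (nat_lit 395398257298) (nat_lit 228) (nat_lit 3935764429) (nat_lit 76) (nat_lit 3895434284) (nat_lit 212) (nat_lit 5) (nat_lit 215) (nat_lit 5) (nat_lit 213) (nat_lit 4) (nat_lit 454) (nat_lit 407) (nat_lit 159)) (XT.lf (nat_lit 0) (nat_lit 106030092853) (nat_lit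 152) (nat_lit 154930681576) (nat_lit 76) (nat_lit 154890135791) (nat_lit 210) (nat_lit 5) (nat_lit 212) (nat_lit 5) (nat_lit 211) (nat_lit 5) (nat_lit 455) (nat_lit 407) (nat_lit 158))) (XT.nd (nat_lit 78) (nat_lit 0) (nat_lit 0) (XT.lf (nat_lit 0) (nat_lit 113560592697) (nat_lit 152) (nat_lit 113601343853) (nat_lit 228) (nat_lit 201843048214) (nat_lit 208) (nat_lit 5) (nat_lit 210) (nat_lit 5) (nat_lit 211) (nat_lit 5) (nat_lit 456) (nat_lit 407) (nat_lit 157)) (XT.lf (nat_lit 0) (nat_lit 357659227010) (nat_lit 228) (nat_lit 42515545099) (nat_lit 76) (nat_lit 42476548196) (nat_lit 208) (nat_lit 5) (nat_lit 211) (nat_lit 5) (nat_lit 209) (nat_lit 4) (nat_lit 457) (nat_lit 407) (nat_lit 156)))) (XT.nd (nat_lit 156) (nat_lit 76) (nat_lit 0) (XT.nd (nat_lit 78) (nat_lit 152) (nat_lit 0) (XT.lf (nat_lit 0) (nat_lit 42357947593) (nat_lit 152) (nat_lit 207169303585) (nat_lit 76) (nat_lit 207130129275)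 (nat_lit 206) (nat_lit 5) (nat_lit 208) (nat_lit 5) (nat_lit 207) (nat_lit 5) (nat_lit 458) (nat_lit 407) (nat_lit 155)) (XT.lf (nat_lit 0) (nat_lit 87639955915) (nat_lit 152) (nat_lit 87679299185) (nat_lit 228) (nat_lit 295869820047) (nat_lit 204) (nat_lit 5) (nat_lit 206) (nat_lit 5) (nat_lit 207) (nat_lit 5) (nat_lit 459) (nat_lit 407) (nat_lit 154))) (XT.nd (nat_lit 78) (nat_lit 76) (nat_lit 0) (XT.lf (nat_lit 0) (nat_lit 319778908992) (nat_lit 228) (nat_lit 83231777282) (nat_lit 76) (nat_lit 83194154250) (nat_lit 204) (nat_lit 5) (nat_lit 207) (nat_lit 5) (nat_lit 205) (nat_lit 4) (nat_lit 460) (nat_lit 407) (nat_lit 153)) (XT.lf (nat_lit 0) (nat_lit 238290729112) (nat_lit 76) (nat_lit 238328498098) (nat_lit 152) (nat_lit 25094282878) (nat_lit 203) (nat_lit 5) (nat_lit 204) (nat_lit 5) (nat_lit 205) (nat_lit 4) (nat_lit 461) (nat_lit 407) (nat_lit 152))))))))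
noncomputable def xc298 : XT := (XT.nd (nat_lit 49530) (nat_lit 0) (nat_lit 3648) (XT.nd (nat_lit 1248) (nat_lit 684) (nat_lit 0) (XT.nd (nat_lit 624) (nat_lit 532) (nat_lit 0) (XT.nd (nat_lit 312) (nat_lit 304) (nat_lit 0) (XT.nd (nat_lit 156) (nat_lit 304) (nat_lit 0) (XT.nd (nat_lit 78) (nat_lit 0) (nat_lit 0) (XT.lf (nat_lit 0) (nat_lit 60851104224) (nat_lit 152) (nat_lit 60889012213) (nat_lit 228) (nat_lit 396042107453) (nat_lit 200) (nat_lit 5) (nat_lit 202) (nat_lit 5) (nat_lit 203) (nat_lit 5) (nat_lit 462) (nat_lit 407) (nat_lit 151)) (XT.lf (nat_lit 0) (nat_lit 281565356379) (nat_lit 228) (nat_lit 126390027095) (nat_lit 76) (nat_lit 126353798168) (nat_lit 200) (nat_lit 5) (nat_lit 203) (nat_lit 5) (nat_lit 201) (nat_lit 4) (nat_lit 463) (nat_lit 407) (nat_lit 150))) (XT.nd (nat_lit 78) (nat_lit 228) (nat_lit 0) (XT.lf (nat_lit 0) (nat_lit 226943423320) (nat_lit 76) (nat_lit 226979772323)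 (nat_lit 152) (nat_lit 97512224773) (nat_lit 199) (nat_lit 5) (nat_lit 200) (nat_lit 5) (nat_lit 201) (nat_lit 4) (nat_lit 464) (nat_lit 407) (nat_lit 149)) (XT.lf (nat_lit 0) (nat_lit 33019862820) (nat_lit 152) (nat_lit 33056326182) (nat_lit 228) (nat_lit 503156113426) (nat_lit 196) (nat_lit 5) (nat_lit 198) (nat_lit 5) (nat_lit 199) (nat_lit 5) (nat_lit 465) (nat_lit 407) (nat_lit 148)))) (XT.nd (nat_lit 156) (nat_lit 228) (nat_lit 0) (XT.nd (nat_lit 78) (nat_lit 76) (nat_lit 0) (XT.lf (nat_lit 0) (nat_lit 242815396770) (nat_lit 228) (nat_lit 172323056641) (nat_lit 76) (nat_lit 172288225903) (nat_lit 196) (nat_lit 5) (nat_lit 199) (nat_lit 5) (nat_lit 197) (nat_lit 4) (nat_lit 466) (nat_lit 407) (nat_lit 147)) (XT.lf (nat_lit 0) (nat_lit 216136488155) (nat_lit 76) (nat_lit 216171417680) (nat_lit 152) (nat_lit 174027052163) (nat_lit 195) (nat_lit 5) (nat_lit 196) (nat_lit 5) (nat_lit 197) (nat_lit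 4) (nat_lit 467) (nat_lit 407) (nat_lit 146))) (XT.nd (nat_lit 78) (nat_lit 0) (nat_lit 0) (XT.lf (nat_lit 0) (nat_lit 3958261890) (nat_lit 152) (nat_lit 3993285498) (nat_lit 228) (nat_lit 618081734894) (nat_lit 192) (nat_lit 5) (nat_lit 194) (nat_lit 5) (nat_lit 195) (nat_lit 5) (nat_lit 468) (nat_lit 407) (nat_lit 145)) (XT.lf (nat_lit 0) (nat_lit 203313079572) (nat_lit 228) (nat_lit 221393808299) (nat_lit 76) (nat_lit 221360367146) (nat_lit 192) (nat_lit 5) (nat_lit 195) (nat_lit 5) (nat_lit 193) (nat_lit 4) (nat_lit 469) (nat_lit 407) (nat_lit 144))))) (XT.nd (nat_lit 312) (nat_lit 228) (nat_lit 0) (XT.nd (nat_lit 156) (nat_lit 228) (nat_lit 0) (XT.nd (nat_lit 78) (nat_lit 0) (nat_lit 0) (XT.lf (nat_lit 0) (nat_lit 205844187652) (nat_lit 76) (nat_lit 205877710078) (nat_lit 152) (nat_lit 255217068190) (nat_lit 191) (nat_lit 5) (nat_lit 192) (nat_lit 5) (nat_lit 193) (nat_lit 4) (nat_lit 470)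 (nat_lit 407) (nat_lit 143)) (XT.lf (nat_lit 0) (nat_lit 634735010643) (nat_lit 152) (nat_lit 26971029434) (nat_lit 0) (nat_lit 26939029598) (nat_lit 191) (nat_lit 5) (nat_lit 193) (nat_lit 4) (nat_lit 191) (nat_lit 4) (nat_lit 471) (nat_lit 407) (nat_lit 142))) (XT.nd (nat_lit 78) (nat_lit 76) (nat_lit 0) (XT.lf (nat_lit 0) (nat_lit 162827983294) (nat_lit 152) (nat_lit 273998685496) (nat_lit 76) (nat_lit 273966615454) (nat_lit 189) (nat_lit 5) (nat_lit 191) (nat_lit 5) (nat_lit 190) (nat_lit 4) (nat_lit 472) (nat_lit 407) (nat_lit 141)) (XT.lf (nat_lit 0) (nat_lit 196042012083) (nat_lit 76) (nat_lit 196074148988) (nat_lit 152) (nat_lit 341712311657) (nat_lit 188) (nat_lit 5) (nat_lit 189) (nat_lit 5) (nat_lit 190) (nat_lit 4) (nat_lit 473) (nat_lit 407) (nat_lit 140)))) (XT.nd (nat_lit 156) (nat_lit 76) (nat_lit 0) (XT.nd (nat_lit 78) (nat_lit 152) (nat_lit 0) (XT.lf (nat_lit 0) (nat_lit 638470558603)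 (nat_lit 152) (nat_lit 59647719356) (nat_lit 0) (nat_lit 59617052133) (nat_lit 188) (nat_lit 5) (nat_lit 190) (nat_lit 4) (nat_lit 188) (nat_lit 4) (nat_lit 474) (nat_lit 407) (nat_lit 139)) (XT.lf (nat_lit 0) (nat_lit 121113367532) (nat_lit 152) (nat_lit 330571160787) (nat_lit 76) (nat_lit 330540435805) (nat_lit 186) (nat_lit 5) (nat_lit 188) (nat_lit 5) (nat_lit 187) (nat_lit 4) (nat_lit 475) (nat_lit 407) (nat_lit 138))) (XT.nd (nat_lit 78) (nat_lit 0) (nat_lit 0) (XT.lf (nat_lit 0) (nat_lit 186706619437) (nat_lit 76) (nat_lit 186737399428) (nat_lit 152) (nat_lit 434200218795) (nat_lit 185) (nat_lit 5) (nat_lit 186) (nat_lit 5) (nat_lit 187) (nat_lit 4) (nat_lit 476) (nat_lit 407) (nat_lit 137)) (XT.lf (nat_lit 0) (nat_lit 645509210814) (nat_lit 152) (nat_lit 94249363913) (nat_lit 0) (nat_lit 94219999742) (nat_lit 185) (nat_lit 5) (nat_lit 187) (nat_lit 4) (nat_lit 185) (nat_lit 4) (nat_lit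 477) (nat_lit 407) (nat_lit 136)))))) (XT.nd (nat_lit 47658) (nat_lit 0) (nat_lit 8816) (XT.nd (nat_lit 312) (nat_lit 304) (nat_lit 0) (XT.nd (nat_lit 156) (nat_lit 152) (nat_lit 0) (XT.nd (nat_lit 78) (nat_lit 76) (nat_lit 0) (XT.lf (nat_lit 0) (nat_lit 77904152857) (nat_lit 152) (nat_lit 391585745232) (nat_lit 76) (nat_lit 391556333543) (nat_lit 183) (nat_lit 5) (nat_lit 185) (nat_lit 5) (nat_lit 184) (nat_lit 4) (nat_lit 478) (nat_lit 407) (nat_lit 135)) (XT.lf (nat_lit 0) (nat_lit 177815779712) (nat_lit 76) (nat_lit 177845236657) (nat_lit 152) (nat_lit 533431848315) (nat_lit 182) (nat_lit 5) (nat_lit 183) (nat_lit 5) (nat_lit 184) (nat_lit 4) (nat_lit 479) (nat_lit 407) (nat_lit 134))) (XT.nd (nat_lit 78) (nat_lit 152) (nat_lit 0) (XT.lf (nat_lit 0) (nat_lit 656050480927) (nat_lit 152) (nat_lit 131041102925) (nat_lit 0) (nat_lit 131013007644) (nat_lit 182) (nat_lit 5) (nat_lit 184) (nat_lit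 4) (nat_lit 182) (nat_lit 4) (nat_lit 480) (nat_lit 407) (nat_lit 133)) (XT.lf (nat_lit 0) (nat_lit 32914710167) (nat_lit 152) (nat_lit 457562356533) (nat_lit 76) (nat_lit 457534222158) (nat_lit 180) (nat_lit 5) (nat_lit 182) (nat_lit 5) (nat_lit 181) (nat_lit 4) (nat_lit 481) (nat_lit 407) (nat_lit 132)))) (XT.nd (nat_lit 156) (nat_lit 228) (nat_lit 0) (XT.nd (nat_lit 78) (nat_lit 0) (nat_lit 0) (XT.lf (nat_lit 0) (nat_lit 169348321875) (nat_lit 76) (nat_lit 169376493482) (nat_lit 152) (nat_lit 640228728283) (nat_lit 179) (nat_lit 5) (nat_lit 180) (nat_lit 5) (nat_lit 181) (nat_lit 4) (nat_lit 482) (nat_lit 407) (nat_lit 131)) (XT.lf (nat_lit 0) (nat_lit 670320953830) (nat_lit 152) (nat_lit 170312022400) (nat_lit 0) (nat_lit 170285158529) (nat_lit 179) (nat_lit 5) (nat_lit 181) (nat_lit 4) (nat_lit 179) (nat_lit 4) (nat_lit 483) (nat_lit 407) (nat_lit 130))) (XT.nd (nat_lit 78) (nat_lit 152) (nat_lit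 0) (XT.lf (nat_lit 0) (nat_lit 514640803546) (nat_lit 76) (nat_lit 514667699579) (nat_lit 76) (nat_lit 14631872116) (nat_lit 178) (nat_lit 4) (nat_lit 179) (nat_lit 5) (nat_lit 179) (nat_lit 4) (nat_lit 484) (nat_lit 407) (nat_lit 129)) (XT.lf (nat_lit 0) (nat_lit 161284083365) (nat_lit 76) (nat_lit 161311010029) (nat_lit 152) (nat_lit 755490389308) (nat_lit 176) (nat_lit 5) (nat_lit 177) (nat_lit 5) (nat_lit 178) (nat_lit 4) (nat_lit 485) (nat_lit 407) (nat_lit 128))))) (XT.nd (nat_lit 312) (nat_lit 0) (nat_lit 152) (XT.nd (nat_lit 156) (nat_lit 0) (nat_lit 76) (XT.nd (nat_lit 78) (nat_lit 0) (nat_lit 0) (XT.lf (nat_lit 0) (nat_lit 26294074880) (nat_lit 836) (nat_lit 14847929448) (nat_lit 836) (nat_lit 14847929448) (nat_lit 292) (nat_lit 3) (nat_lit 303) (nat_lit 3) (nat_lit 303) (nat_lit 5) (nat_lit 408) (nat_lit 408) (nat_lit 204)) (XT.lf (nat_lit 76) (nat_lit 27163475743) (nat_lit 0) (nat_lit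 27168616578) (nat_lit 836) (nat_lit 60425809981) (nat_lit 293) (nat_lit 5) (nat_lit 292) (nat_lit 3) (nat_lit 303) (nat_lit 5) (nat_lit 409) (nat_lit 408) (nat_lit 203))) (XT.nd (nat_lit 78) (nat_lit 0) (nat_lit 0) (XT.lf (nat_lit 0) (nat_lit 57153413541) (nat_lit 760) (nat_lit 30240737546) (nat_lit 836) (nat_lit 30231178624) (nat_lit 293) (nat_lit 5) (nat_lit 303) (nat_lit 5) (nat_lit 304) (nat_lit 5) (nat_lit 410) (nat_lit 408) (nat_lit 202)) (XT.lf (nat_lit 76) (nat_lit 30511623188) (nat_lit 0) (nat_lit 30525622956) (nat_lit 836) (nat_lit 59552810080) (nat_lit 294) (nat_lit 5) (nat_lit 293) (nat_lit 5) (nat_lit 304) (nat_lit 5) (nat_lit 411) (nat_lit 408) (nat_lit 201)))) (XT.nd (nat_lit 156) (nat_lit 0) (nat_lit 76) (XT.nd (nat_lit 78) (nat_lit 0) (nat_lit 0) (XT.lf (nat_lit 0) (nat_lit 66091188189) (nat_lit 760) (nat_lit 28790198037) (nat_lit 836) (nat_lit 28772836946) (nat_lit 294) (nat_lit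 5) (nat_lit 304) (nat_lit 5) (nat_lit 305) (nat_lit 5) (nat_lit 412) (nat_lit 408) (nat_lit 200)) (XT.lf (nat_lit 76) (nat_lit 36221138994) (nat_lit 0) (nat_lit 36242336255) (nat_lit 836) (nat_lit 54354840823) (nat_lit 295) (nat_lit 5) (nat_lit 294) (nat_lit 5) (nat_lit 305) (nat_lit 5) (nat_lit 413) (nat_lit 408) (nat_lit 199))) (XT.nd (nat_lit 78) (nat_lit 0) (nat_lit 0) (XT.lf (nat_lit 0) (nat_lit 80045123471) (nat_lit 760) (nat_lit 25037310096) (nat_lit 836) (nat_lit 25013642709) (nat_lit 295) (nat_lit 5) (nat_lit 305) (nat_lit 5) (nat_lit 306) (nat_lit 5) (nat_lit 414) (nat_lit 408) (nat_lit 198)) (XT.lf (nat_lit 76) (nat_lit 44634811720) (nat_lit 0) (nat_lit 44661792935) (nat_lit 836) (nat_lit 44176582309) (nat_lit 296) (nat_lit 5) (nat_lit 295) (nat_lit 5) (nat_lit 306) (nat_lit 5) (nat_lit 415) (nat_lit 408) (nat_lit 197))))))) (XT.nd (nat_lit 1248) (nat_lit 2204) (nat_lit 0) (XT.nd (nat_lit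 624) (nat_lit 1672) (nat_lit 0) (XT.nd (nat_lit 312) (nat_lit 912) (nat_lit 0) (XT.nd (nat_lit 156) (nat_lit 684) (nat_lit 0) (XT.nd (nat_lit 78) (nat_lit 0) (nat_lit 0) (XT.lf (nat_lit 0) (nat_lit 99734586290) (nat_lit 760) (nat_lit 18638536356) (nat_lit 836) (nat_lit 18609834221) (nat_lit 296) (nat_lit 5) (nat_lit 306) (nat_lit 5) (nat_lit 307) (nat_lit 5) (nat_lit 416) (nat_lit 408) (nat_lit 196)) (XT.lf (nat_lit 76) (nat_lit 56135629480) (nat_lit 0) (nat_lit 56167194224) (nat_lit 836) (nat_lit 28284973725) (nat_lit 297) (nat_lit 5) (nat_lit 296) (nat_lit 5) (nat_lit 307) (nat_lit 5) (nat_lit 417) (nat_lit 408) (nat_lit 195))) (XT.nd (nat_lit 78) (nat_lit 760) (nat_lit 0) (XT.lf (nat_lit 0) (nat_lit 125962912870) (nat_lit 760) (nat_lit 9209726644) (nat_lit 76) (nat_lit 9177068512) (nat_lit 297) (nat_lit 5) (nat_lit 307) (nat_lit 5) (nat_lit 298) (nat_lit 5) (nat_lit 418) (nat_lit 408) (nat_lit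 194)) (XT.lf (nat_lit 0) (nat_lit 71151149794) (nat_lit 760) (nat_lit 71186280755) (nat_lit 836) (nat_lit 5860712400) (nat_lit 287) (nat_lit 5) (nat_lit 297) (nat_lit 5) (nat_lit 298) (nat_lit 5) (nat_lit 419) (nat_lit 408) (nat_lit 193)))) (XT.nd (nat_lit 156) (nat_lit 380) (nat_lit 0) (XT.nd (nat_lit 78) (nat_lit 0) (nat_lit 0) (XT.lf (nat_lit 0) (nat_lit 3617803477) (nat_lit 456) (nat_lit 3655289514) (nat_lit 532) (nat_lit 144949474572) (nat_lit 280) (nat_lit 5) (nat_lit 286) (nat_lit 5) (nat_lit 287) (nat_lit 5) (nat_lit 420) (nat_lit 408) (nat_lit 192)) (XT.lf (nat_lit 0) (nat_lit 23242637984) (nat_lit 532) (nat_lit 66559904144) (nat_lit 76) (nat_lit 66522067034) (nat_lit 280) (nat_lit 5) (nat_lit 287) (nat_lit 5) (nat_lit 281) (nat_lit 5) (nat_lit 421) (nat_lit 408) (nat_lit 191))) (XT.nd (nat_lit 78) (nat_lit 0) (nat_lit 0) (XT.lf (nat_lit 0) (nat_lit 20172733552) (nat_lit 380) (nat_lit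 20212605066) (nat_lit 456) (nat_lit 120227680302) (nat_lit 275) (nat_lit 5) (nat_lit 280) (nat_lit 5) (nat_lit 281) (nat_lit 5) (nat_lit 422) (nat_lit 408) (nat_lit 190)) (XT.lf (nat_lit 0) (nat_lit 60355929850) (nat_lit 456) (nat_lit 52350599836) (nat_lit 76) (nat_lit 52310781702) (nat_lit 275) (nat_lit 5) (nat_lit 281) (nat_lit 5) (nat_lit 276) (nat_lit 5) (nat_lit 423) (nat_lit 408) (nat_lit 189))))) (XT.nd (nat_lit 312) (nat_lit 988) (nat_lit 0) (XT.nd (nat_lit 156) (nat_lit 304) (nat_lit 0) (XT.nd (nat_lit 78) (nat_lit 0) (nat_lit 0) (XT.lf (nat_lit 0) (nat_lit 41128388431) (nat_lit 380) (nat_lit 41169963958) (nat_lit 456) (nat_lit 87294801004) (nat_lit 270) (nat_lit 5) (nat_lit 275) (nat_lit 5) (nat_lit 276) (nat_lit 5) (nat_lit 424) (nat_lit 408) (nat_lit 188)) (XT.lf (nat_lit 0) (nat_lit 106768788656) (nat_lit 456) (nat_lit 33799321979) (nat_lit 76) (nat_lit 33758132231) (nat_lit 270) (nat_lit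 5) (nat_lit 276) (nat_lit 5) (nat_lit 271) (nat_lit 5) (nat_lit 425) (nat_lit 408) (nat_lit 187))) (XT.nd (nat_lit 78) (nat_lit 0) (nat_lit 0) (XT.lf (nat_lit 0) (nat_lit 67070977147) (nat_lit 304) (nat_lit 67113684998) (nat_lit 380) (nat_lit 45025228900) (nat_lit 266) (nat_lit 5) (nat_lit 270) (nat_lit 5) (nat_lit 271) (nat_lit 5) (nat_lit 426) (nat_lit 408) (nat_lit 186)) (XT.lf (nat_lit 0) (nat_lit 163709295911) (nat_lit 380) (nat_lit 10316789249) (nat_lit 76) (nat_lit 10274738141) (nat_lit 266) (nat_lit 5) (nat_lit 271) (nat_lit 5) (nat_lit 267) (nat_lit 5) (nat_lit 427) (nat_lit 408) (nat_lit 185)))) (XT.nd (nat_lit 156) (nat_lit 304) (nat_lit 0) (XT.nd (nat_lit 78) (nat_lit 304) (nat_lit 0) (XT.lf (nat_lit 0) (nat_lit 7585395635) (nat_lit 380) (nat_lit 90983067704) (nat_lit 76) (nat_lit 90939705202) (nat_lit 261) (nat_lit 5) (nat_lit 266) (nat_lit 5) (nat_lit 262) (nat_lit 5) (nat_lit 428)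 (nat_lit 408) (nat_lit 184)) (XT.lf (nat_lit 0) (nat_lit 18450015099) (nat_lit 304) (nat_lit 18494626547) (nat_lit 380) (nat_lit 157991086736) (nat_lit 257) (nat_lit 5) (nat_lit 261) (nat_lit 5) (nat_lit 262) (nat_lit 5) (nat_lit 429) (nat_lit 408) (nat_lit 183))) (XT.nd (nat_lit 78) (nat_lit 304) (nat_lit 0) (XT.lf (nat_lit 0) (nat_lit 70361735404) (nat_lit 380) (nat_lit 65093528232) (nat_lit 76) (nat_lit 65049908307) (nat_lit 257) (nat_lit 5) (nat_lit 262) (nat_lit 5) (nat_lit 258) (nat_lit 5) (nat_lit 430) (nat_lit 408) (nat_lit 182)) (XT.lf (nat_lit 0) (nat_lit 53269862579) (nat_lit 304) (nat_lit 53314561392) (nat_lit 380) (nat_lit 99711926705) (nat_lit 253) (nat_lit 5) (nat_lit 257) (nat_lit 5) (nat_lit 258) (nat_lit 5) (nat_lit 431) (nat_lit 408) (nat_lit 181)))))) (XT.nd (nat_lit 624) (nat_lit 836) (nat_lit 0) (XT.nd (nat_lit 312) (nat_lit 760) (nat_lit 0) (XT.nd (nat_lit 156) (nat_lit 380)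 (nat_lit 0) (XT.nd (nat_lit 78) (nat_lit 228) (nat_lit 0) (XT.lf (nat_lit 0) (nat_lit 146252749561) (nat_lit 380) (nat_lit 33043081268) (nat_lit 76) (nat_lit 32999532388) (nat_lit 253) (nat_lit 5) (nat_lit 258) (nat_lit 5) (nat_lit 254) (nat_lit 5) (nat_lit 432) (nat_lit 408) (nat_lit 180)) (XT.lf (nat_lit 0) (nat_lit 95109405902) (nat_lit 228) (nat_lit 95153886766) (nat_lit 304) (nat_lit 28213093653) (nat_lit 250) (nat_lit 5) (nat_lit 253) (nat_lit 5) (nat_lit 254) (nat_lit 5) (nat_lit 433) (nat_lit 408) (nat_lit 179))) (XT.nd (nat_lit 78) (nat_lit 0) (nat_lit 0) (XT.lf (nat_lit 0) (nat_lit 5877306939) (nat_lit 304) (nat_lit 5922675407) (nat_lit 380) (nat_lit 213124474469) (nat_lit 245) (nat_lit 5) (nat_lit 249) (nat_lit 5) (nat_lit 250) (nat_lit 5) (nat_lit 434) (nat_lit 408) (nat_lit 178)) (XT.lf (nat_lit 0) (nat_lit 56359306300) (nat_lit 380) (nat_lit 87590912618) (nat_lit 76) (nat_lit 87546899472)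 (nat_lit 245) (nat_lit 5) (nat_lit 250) (nat_lit 5) (nat_lit 246) (nat_lit 5) (nat_lit 435) (nat_lit 408) (nat_lit 177)))) (XT.nd (nat_lit 156) (nat_lit 532) (nat_lit 0) (XT.nd (nat_lit 78) (nat_lit 0) (nat_lit 0) (XT.lf (nat_lit 0) (nat_lit 52005368589) (nat_lit 228) (nat_lit 52050148481) (nat_lit 304) (nat_lit 134297449945) (nat_lit 242) (nat_lit 5) (nat_lit 245) (nat_lit 5) (nat_lit 246) (nat_lit 5) (nat_lit 436) (nat_lit 408) (nat_lit 176)) (XT.lf (nat_lit 0) (nat_lit 156338041078) (nat_lit 304) (nat_lit 44573417416) (nat_lit 76) (nat_lit 44530074440) (nat_lit 242) (nat_lit 5) (nat_lit 246) (nat_lit 5) (nat_lit 243) (nat_lit 5) (nat_lit 437) (nat_lit 408) (nat_lit 175))) (XT.nd (nat_lit 78) (nat_lit 304) (nat_lit 0) (XT.lf (nat_lit 0) (nat_lit 106856088104) (nat_lit 228) (nat_lit 106900093423) (nat_lit 304) (nat_lit 39002271112) (nat_lit 239) (nat_lit 5) (nat_lit 242) (nat_lit 5) (nat_lit 243)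 (nat_lit 5) (nat_lit 438) (nat_lit 408) (nat_lit 174)) (XT.lf (nat_lit 0) (nat_lit 7000194213) (nat_lit 228) (nat_lit 7044830335) (nat_lit 304) (nat_lit 246341752584) (nat_lit 235) (nat_lit 5) (nat_lit 238) (nat_lit 5) (nat_lit 239) (nat_lit 5) (nat_lit 439) (nat_lit 408) (nat_lit 173))))) (XT.nd (nat_lit 312) (nat_lit 456) (nat_lit 0) (XT.nd (nat_lit 156) (nat_lit 152) (nat_lit 0) (XT.nd (nat_lit 78) (nat_lit 228) (nat_lit 0) (XT.lf (nat_lit 0) (nat_lit 72472258206) (nat_lit 304) (nat_lit 97866729028) (nat_lit 76) (nat_lit 97823646278) (nat_lit 235) (nat_lit 5) (nat_lit 239) (nat_lit 5) (nat_lit 236) (nat_lit 5) (nat_lit 440) (nat_lit 408) (nat_lit 172)) (XT.lf (nat_lit 0) (nat_lit 67473026183) (nat_lit 228) (nat_lit 67516653845) (nat_lit 304) (nat_lit 141279161359) (nat_lit 232) (nat_lit 5) (nat_lit 235) (nat_lit 5) (nat_lit 236) (nat_lit 5) (nat_lit 441) (nat_lit 408) (nat_lit 171))) (XT.nd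 (nat_lit 78) (nat_lit 152) (nat_lit 0) (XT.lf (nat_lit 0) (nat_lit 202948948152) (nat_lit 304) (nat_lit 40878828573) (nat_lit 76) (nat_lit 40836784169) (nat_lit 232) (nat_lit 5) (nat_lit 236) (nat_lit 5) (nat_lit 233) (nat_lit 5) (nat_lit 442) (nat_lit 408) (nat_lit 170)) (XT.lf (nat_lit 0) (nat_lit 138768480455) (nat_lit 152) (nat_lit 138810995574) (nat_lit 228) (nat_lit 15736925532) (nat_lit 230) (nat_lit 5) (nat_lit 232) (nat_lit 5) (nat_lit 233) (nat_lit 5) (nat_lit 443) (nat_lit 408) (nat_lit 169)))) (XT.nd (nat_lit 156) (nat_lit 152) (nat_lit 0) (XT.nd (nat_lit 78) (nat_lit 0) (nat_lit 0) (XT.lf (nat_lit 0) (nat_lit 26450306594) (nat_lit 228) (nat_lit 26493270013) (nat_lit 304) (nat_lit 249359635776) (nat_lit 226) (nat_lit 5) (nat_lit 229) (nat_lit 5) (nat_lit 230) (nat_lit 5) (nat_lit 444) (nat_lit 408) (nat_lit 168)) (XT.lf (nat_lit 0) (nat_lit 128617034295) (nat_lit 304) (nat_lit 91473182390)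 (nat_lit 76) (nat_lit 91431858227) (nat_lit 226) (nat_lit 5) (nat_lit 230) (nat_lit 5) (nat_lit 227) (nat_lit 5) (nat_lit 445) (nat_lit 408) (nat_lit 167))) (XT.nd (nat_lit 78) (nat_lit 0) (nat_lit 0) (XT.lf (nat_lit 0) (nat_lit 105053427803) (nat_lit 152) (nat_lit 105095139225) (nat_lit 228) (nat_lit 110949593432) (nat_lit 224) (nat_lit 5) (nat_lit 226) (nat_lit 5) (nat_lit 227) (nat_lit 5) (nat_lit 446) (nat_lit 408) (nat_lit 166)) (XT.lf (nat_lit 0) (nat_lit 297575459385) (nat_lit 228) (nat_lit 16763364084) (nat_lit 76) (nat_lit 16723287666) (nat_lit 224) (nat_lit 5) (nat_lit 227) (nat_lit 5) (nat_lit 225) (nat_lit 5) (nat_lit 447) (nat_lit 408) (nat_lit 165))))))))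
noncomputable def xc299 : XT := (XT.nd (nat_lit 2496) (nat_lit 304) (nat_lit 0) (XT.nd (nat_lit 1248) (nat_lit 1292) (nat_lit 0) (XT.nd (nat_lit 624) (nat_lit 912) (nat_lit 0) (XT.nd (nat_lit 312) (nat_lit 380) (nat_lit 0) (XT.nd (nat_lit 156) (nat_lit 152) (nat_lit 0) (XT.nd (nat_lit 78) (nat_lit 152) (nat_lit 0) (XT.lf (nat_lit 0) (nat_lit 51196180770) (nat_lit 228) (nat_lit 145043612550) (nat_lit 76) (nat_lit 145003201604) (nat_lit 221) (nat_lit 5) (nat_lit 224) (nat_lit 5) (nat_lit 222) (nat_lit 5) (nat_lit 448) (nat_lit 408) (nat_lit 164)) (XT.lf (nat_lit 0) (nat_lit 70165498996) (nat_lit 152) (nat_lit 70206228541) (nat_lit 228) (nat_lit 211464550107) (nat_lit 219) (nat_lit 5) (nat_lit 221) (nat_lit 5) (nat_lit 222) (nat_lit 5) (nat_lit 449) (nat_lit 408) (nat_lit 163))) (XT.nd (nat_lit 78) (nat_lit 152) (nat_lit 0) (XT.lf (nat_lit 0) (nat_lit 237472626933) (nat_lit 228) (nat_lit 62676173911)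 (nat_lit 76) (nat_lit 62637094890) (nat_lit 219) (nat_lit 5) (nat_lit 222) (nat_lit 5) (nat_lit 220) (nat_lit 5) (nat_lit 450) (nat_lit 408) (nat_lit 162)) (XT.lf (nat_lit 0) (nat_lit 171609682945) (nat_lit 152) (nat_lit 171649037183) (nat_lit 228) (nat_lit 30832767160) (nat_lit 217) (nat_lit 5) (nat_lit 219) (nat_lit 5) (nat_lit 220) (nat_lit 5) (nat_lit 451) (nat_lit 408) (nat_lit 161)))) (XT.nd (nat_lit 156) (nat_lit 152) (nat_lit 0) (XT.nd (nat_lit 78) (nat_lit 0) (nat_lit 0) (XT.lf (nat_lit 0) (nat_lit 33875743393) (nat_lit 152) (nat_lit 33915359742) (nat_lit 228) (nat_lit 318037498200) (nat_lit 214) (nat_lit 5) (nat_lit 216) (nat_lit 5) (nat_lit 217) (nat_lit 5) (nat_lit 452) (nat_lit 408) (nat_lit 160)) (XT.lf (nat_lit 0) (nat_lit 175523661869) (nat_lit 228) (nat_lit 111190460077) (nat_lit 76) (nat_lit 111152492477) (nat_lit 214) (nat_lit 5) (nat_lit 217) (nat_lit 5) (nat_lit 215) (nat_lit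 5) (nat_lit 453) (nat_lit 408) (nat_lit 159))) (XT.nd (nat_lit 78) (nat_lit 0) (nat_lit 0) (XT.lf (nat_lit 0) (nat_lit 145717815760) (nat_lit 152) (nat_lit 145756009782) (nat_lit 228) (nat_lit 118891153772) (nat_lit 212) (nat_lit 5) (nat_lit 214) (nat_lit 5) (nat_lit 215) (nat_lit 5) (nat_lit 454) (nat_lit 408) (nat_lit 158)) (XT.lf (nat_lit 0) (nat_lit 415170485209) (nat_lit 228) (nat_lit 4128454241) (nat_lit 76) (nat_lit 4091873610) (nat_lit 212) (nat_lit 5) (nat_lit 215) (nat_lit 5) (nat_lit 213) (nat_lit 4) (nat_lit 455) (nat_lit 408) (nat_lit 157))))) (XT.nd (nat_lit 312) (nat_lit 456) (nat_lit 0) (XT.nd (nat_lit 156) (nat_lit 152) (nat_lit 0) (XT.nd (nat_lit 78) (nat_lit 152) (nat_lit 0) (XT.lf (nat_lit 0) (nat_lit 111333902433) (nat_lit 152) (nat_lit 162673107137) (nat_lit 76) (nat_lit 162636330914) (nat_lit 210) (nat_lit 5) (nat_lit 212) (nat_lit 5) (nat_lit 211) (nat_lit 5) (nat_lit 456)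 (nat_lit 408) (nat_lit 156)) (XT.lf (nat_lit 0) (nat_lit 119242664583) (nat_lit 152) (nat_lit 119279627083) (nat_lit 228) (nat_lit 211932829421) (nat_lit 208) (nat_lit 5) (nat_lit 210) (nat_lit 5) (nat_lit 211) (nat_lit 5) (nat_lit 457) (nat_lit 408) (nat_lit 155))) (XT.nd (nat_lit 78) (nat_lit 152) (nat_lit 0) (XT.lf (nat_lit 0) (nat_lit 375544365639) (nat_lit 228) (nat_lit 44637391579) (nat_lit 76) (nat_lit 44602020239) (nat_lit 208) (nat_lit 5) (nat_lit 211) (nat_lit 5) (nat_lit 209) (nat_lit 4) (nat_lit 458) (nat_lit 408) (nat_lit 154)) (XT.lf (nat_lit 0) (nat_lit 44478013935) (nat_lit 152) (nat_lit 217523829674) (nat_lit 76) (nat_lit 217488297419) (nat_lit 206) (nat_lit 5) (nat_lit 208) (nat_lit 5) (nat_lit 207) (nat_lit 5) (nat_lit 459) (nat_lit 408) (nat_lit 153)))) (XT.nd (nat_lit 156) (nat_lit 304) (nat_lit 0) (XT.nd (nat_lit 78) (nat_lit 0) (nat_lit 0) (XT.lf (nat_lit 0) (nat_lit 92025829267)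 (nat_lit 152) (nat_lit 92061514773) (nat_lit 228) (nat_lit 310661078554) (nat_lit 204) (nat_lit 5) (nat_lit 206) (nat_lit 5) (nat_lit 207) (nat_lit 5) (nat_lit 460) (nat_lit 408) (nat_lit 152)) (XT.lf (nat_lit 0) (nat_lit 335769905392) (nat_lit 228) (nat_lit 87389599905) (nat_lit 76) (nat_lit 87355474705) (nat_lit 204) (nat_lit 5) (nat_lit 207) (nat_lit 5) (nat_lit 205) (nat_lit 4) (nat_lit 461) (nat_lit 408) (nat_lit 151))) (XT.nd (nat_lit 78) (nat_lit 228) (nat_lit 0) (XT.lf (nat_lit 0) (nat_lit 250208971064) (nat_lit 76) (nat_lit 250243228647) (nat_lit 152) (nat_lit 26346885325) (nat_lit 203) (nat_lit 5) (nat_lit 204) (nat_lit 5) (nat_lit 205) (nat_lit 4) (nat_lit 462) (nat_lit 408) (nat_lit 150)) (XT.lf (nat_lit 0) (nat_lit 63897371662) (nat_lit 152) (nat_lit 63931755326) (nat_lit 228) (nat_lit 415842107860) (nat_lit 200) (nat_lit 5) (nat_lit 202) (nat_lit 5) (nat_lit 203) (nat_lit 5) (nat_lit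 463) (nat_lit 408) (nat_lit 149)))))) (XT.nd (nat_lit 624) (nat_lit 608) (nat_lit 0) (XT.nd (nat_lit 312) (nat_lit 380) (nat_lit 0) (XT.nd (nat_lit 156) (nat_lit 228) (nat_lit 0) (XT.nd (nat_lit 78) (nat_lit 76) (nat_lit 0) (XT.lf (nat_lit 0) (nat_lit 295645558853) (nat_lit 228) (nat_lit 132705922922) (nat_lit 76) (nat_lit 132673062217) (nat_lit 200) (nat_lit 5) (nat_lit 203) (nat_lit 5) (nat_lit 201) (nat_lit 4) (nat_lit 464) (nat_lit 408) (nat_lit 148)) (XT.lf (nat_lit 0) (nat_lit 238294141861) (nat_lit 76) (nat_lit 238327111478) (nat_lit 152) (nat_lit 102385843203) (nat_lit 199) (nat_lit 5) (nat_lit 200) (nat_lit 5) (nat_lit 201) (nat_lit 4) (nat_lit 465) (nat_lit 408) (nat_lit 147))) (XT.nd (nat_lit 78) (nat_lit 0) (nat_lit 0) (XT.lf (nat_lit 0) (nat_lit 34674408873) (nat_lit 152) (nat_lit 34707482218) (nat_lit 228) (nat_lit 528311931826) (nat_lit 196) (nat_lit 5) (nat_lit 198) (nat_lit 5)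 (nat_lit 199) (nat_lit 5) (nat_lit 466) (nat_lit 408) (nat_lit 146)) (XT.lf (nat_lit 0) (nat_lit 254957993809) (nat_lit 228) (nat_lit 180935760308) (nat_lit 76) (nat_lit 180904167802) (nat_lit 196) (nat_lit 5) (nat_lit 199) (nat_lit 5) (nat_lit 197) (nat_lit 4) (nat_lit 467) (nat_lit 408) (nat_lit 145)))) (XT.nd (nat_lit 156) (nat_lit 76) (nat_lit 0) (XT.nd (nat_lit 78) (nat_lit 228) (nat_lit 0) (XT.lf (nat_lit 0) (nat_lit 226946706096) (nat_lit 76) (nat_lit 226978388205) (nat_lit 152) (nat_lit 182726521938) (nat_lit 195) (nat_lit 5) (nat_lit 196) (nat_lit 5) (nat_lit 197) (nat_lit 4) (nat_lit 468) (nat_lit 408) (nat_lit 144)) (XT.lf (nat_lit 0) (nat_lit 4159573073) (nat_lit 152) (nat_lit 4191340518) (nat_lit 228) (nat_lit 648983943362) (nat_lit 192) (nat_lit 5) (nat_lit 194) (nat_lit 5) (nat_lit 195) (nat_lit 5) (nat_lit 469) (nat_lit 408) (nat_lit 143))) (XT.nd (nat_lit 78) (nat_lit 76) (nat_lit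 0) (XT.lf (nat_lit 0) (nat_lit 213480461131) (nat_lit 228) (nat_lit 232460201184) (nat_lit 76) (nat_lit 232429869073) (nat_lit 192) (nat_lit 5) (nat_lit 195) (nat_lit 5) (nat_lit 193) (nat_lit 4) (nat_lit 470) (nat_lit 408) (nat_lit 142)) (XT.lf (nat_lit 0) (nat_lit 216139641378) (nat_lit 76) (nat_lit 216170047206) (nat_lit 152) (nat_lit 267976140833) (nat_lit 191) (nat_lit 5) (nat_lit 192) (nat_lit 5) (nat_lit 193) (nat_lit 4) (nat_lit 471) (nat_lit 408) (nat_lit 141))))) (XT.nd (nat_lit 312) (nat_lit 380) (nat_lit 0) (XT.nd (nat_lit 156) (nat_lit 76) (nat_lit 0) (XT.nd (nat_lit 78) (nat_lit 152) (nat_lit 0) (XT.lf (nat_lit 0) (nat_lit 666473399406) (nat_lit 152) (nat_lit 28316433318) (nat_lit 0) (nat_lit 28287408523) (nat_lit 191) (nat_lit 5) (nat_lit 193) (nat_lit 4) (nat_lit 191) (nat_lit 4) (nat_lit 472) (nat_lit 408) (nat_lit 140)) (XT.lf (nat_lit 0) (nat_lit 170971017399) (nat_lit 152) (nat_lit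 287695468892) (nat_lit 76) (nat_lit 287666380419) (nat_lit 189) (nat_lit 5) (nat_lit 191) (nat_lit 5) (nat_lit 190) (nat_lit 4) (nat_lit 473) (nat_lit 408) (nat_lit 139))) (XT.nd (nat_lit 78) (nat_lit 0) (nat_lit 0) (XT.lf (nat_lit 0) (nat_lit 205847212745) (nat_lit 76) (nat_lit 205876361866) (nat_lit 152) (nat_lit 358796241479) (nat_lit 188) (nat_lit 5) (nat_lit 189) (nat_lit 5) (nat_lit 190) (nat_lit 4) (nat_lit 474) (nat_lit 408) (nat_lit 138)) (XT.lf (nat_lit 0) (nat_lit 670395637791) (nat_lit 152) (nat_lit 62627098659) (nat_lit 0) (nat_lit 62599282584) (nat_lit 188) (nat_lit 5) (nat_lit 190) (nat_lit 4) (nat_lit 188) (nat_lit 4) (nat_lit 475) (nat_lit 408) (nat_lit 137)))) (XT.nd (nat_lit 156) (nat_lit 152) (nat_lit 0) (XT.nd (nat_lit 78) (nat_lit 76) (nat_lit 0) (XT.lf (nat_lit 0) (nat_lit 127170584459) (nat_lit 152) (nat_lit 347096709454) (nat_lit 76) (nat_lit 347068840989) (nat_lit 186)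 (nat_lit 5) (nat_lit 188) (nat_lit 5) (nat_lit 187) (nat_lit 4) (nat_lit 476) (nat_lit 408) (nat_lit 136)) (XT.lf (nat_lit 0) (nat_lit 196044911243) (nat_lit 76) (nat_lit 196072829602) (nat_lit 152) (nat_lit 455908632646) (nat_lit 185) (nat_lit 5) (nat_lit 186) (nat_lit 5) (nat_lit 187) (nat_lit 4) (nat_lit 477) (nat_lit 408) (nat_lit 135))) (XT.nd (nat_lit 78) (nat_lit 152) (nat_lit 0) (XT.lf (nat_lit 0) (nat_lit 677786141371) (nat_lit 152) (nat_lit 98958961245) (nat_lit 0) (nat_lit 98932327077) (nat_lit 185) (nat_lit 5) (nat_lit 187) (nat_lit 4) (nat_lit 185) (nat_lit 4) (nat_lit 478) (nat_lit 408) (nat_lit 134)) (XT.lf (nat_lit 0) (nat_lit 81800828288) (nat_lit 152) (nat_lit 411162159403) (nat_lit 76) (nat_lit 411135482134) (nat_lit 183) (nat_lit 5) (nat_lit 185) (nat_lit 5) (nat_lit 184) (nat_lit 4) (nat_lit 479) (nat_lit 408) (nat_lit 133))))))) (XT.nd (nat_lit 48438) (nat_lit 0) (nat_lit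 5016) (XT.nd (nat_lit 47814) (nat_lit 0) (nat_lit 8664) (XT.nd (nat_lit 312) (nat_lit 0) (nat_lit 0) (XT.nd (nat_lit 156) (nat_lit 228) (nat_lit 0) (XT.nd (nat_lit 78) (nat_lit 0) (nat_lit 0) (XT.lf (nat_lit 0) (nat_lit 186709395449) (nat_lit 76) (nat_lit 186736113766) (nat_lit 152) (nat_lit 560101926603) (nat_lit 182) (nat_lit 5) (nat_lit 183) (nat_lit 5) (nat_lit 184) (nat_lit 4) (nat_lit 480) (nat_lit 408) (nat_lit 132)) (XT.lf (nat_lit 0) (nat_lit 688854398922) (nat_lit 152) (nat_lit 137590417850) (nat_lit 0) (nat_lit 137564934602) (nat_lit 182) (nat_lit 5) (nat_lit 184) (nat_lit 4) (nat_lit 182) (nat_lit 4) (nat_lit 481) (nat_lit 408) (nat_lit 131))) (XT.nd (nat_lit 78) (nat_lit 76) (nat_lit 0) (XT.lf (nat_lit 0) (nat_lit 34561837791) (nat_lit 152) (nat_lit 480437732305) (nat_lit 76) (nat_lit 480412213598) (nat_lit 180) (nat_lit 5) (nat_lit 182) (nat_lit 5) (nat_lit 181) (nat_lit 4) (nat_lit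 482) (nat_lit 408) (nat_lit 130)) (XT.lf (nat_lit 0) (nat_lit 177818435796) (nat_lit 76) (nat_lit 177843988274) (nat_lit 152) (nat_lit 672238728354) (nat_lit 179) (nat_lit 5) (nat_lit 180) (nat_lit 5) (nat_lit 181) (nat_lit 4) (nat_lit 483) (nat_lit 408) (nat_lit 129)))) (XT.nd (nat_lit 47346) (nat_lit 0) (nat_lit 8588) (XT.nd (nat_lit 47268) (nat_lit 0) (nat_lit 8588) (XT.lf (nat_lit 0) (nat_lit 703838324102) (nat_lit 152) (nat_lit 178825008795) (nat_lit 0) (nat_lit 178800642472) (nat_lit 179) (nat_lit 5) (nat_lit 181) (nat_lit 4) (nat_lit 179) (nat_lit 4) (nat_lit 484) (nat_lit 408) (nat_lit 128)) (XT.lf (nat_lit 0) (nat_lit 27613839196) (nat_lit 836) (nat_lit 15587669120) (nat_lit 836) (nat_lit 15587669120) (nat_lit 292) (nat_lit 3) (nat_lit 303) (nat_lit 3) (nat_lit 303) (nat_lit 5) (nat_lit 409) (nat_lit 409) (nat_lit 202))) (XT.nd (nat_lit 78) (nat_lit 0) (nat_lit 76) (XT.lf (nat_lit 76)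 (nat_lit 28526877428) (nat_lit 0) (nat_lit 28531540316) (nat_lit 836) (nat_lit 63436893632) (nat_lit 293) (nat_lit 5) (nat_lit 292) (nat_lit 3) (nat_lit 303) (nat_lit 5) (nat_lit 410) (nat_lit 409) (nat_lit 201)) (XT.lf (nat_lit 0) (nat_lit 60020275323) (nat_lit 760) (nat_lit 31747265771) (nat_lit 836) (nat_lit 31738595547) (nat_lit 293) (nat_lit 5) (nat_lit 303) (nat_lit 5) (nat_lit 304) (nat_lit 5) (nat_lit 411) (nat_lit 409) (nat_lit 200))))) (XT.nd (nat_lit 312) (nat_lit 0) (nat_lit 152) (XT.nd (nat_lit 156) (nat_lit 0) (nat_lit 76) (XT.nd (nat_lit 78) (nat_lit 0) (nat_lit 76) (XT.lf (nat_lit 76) (nat_lit 32042624150) (nat_lit 0) (nat_lit 32055322353) (nat_lit 836) (nat_lit 62521170630) (nat_lit 294) (nat_lit 5) (nat_lit 293) (nat_lit 5) (nat_lit 304) (nat_lit 5) (nat_lit 412) (nat_lit 409) (nat_lit 199)) (XT.lf (nat_lit 0) (nat_lit 69404113964) (nat_lit 760) (nat_lit 30224074535) (nat_lit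 836) (nat_lit 30208327514) (nat_lit 294) (nat_lit 5) (nat_lit 304) (nat_lit 5) (nat_lit 305) (nat_lit 5) (nat_lit 413) (nat_lit 409) (nat_lit 198))) (XT.nd (nat_lit 78) (nat_lit 0) (nat_lit 76) (XT.lf (nat_lit 76) (nat_lit 38037738486) (nat_lit 0) (nat_lit 38056965027) (nat_lit 836) (nat_lit 57064125638) (nat_lit 295) (nat_lit 5) (nat_lit 294) (nat_lit 5) (nat_lit 305) (nat_lit 5) (nat_lit 414) (nat_lit 409) (nat_lit 197)) (XT.lf (nat_lit 0) (nat_lit 84055013247) (nat_lit 760) (nat_lit 26283476091) (nat_lit 836) (nat_lit 26262009073) (nat_lit 295) (nat_lit 5) (nat_lit 305) (nat_lit 5) (nat_lit 306) (nat_lit 5) (nat_lit 415) (nat_lit 409) (nat_lit 196)))) (XT.nd (nat_lit 156) (nat_lit 0) (nat_lit 76) (XT.nd (nat_lit 78) (nat_lit 0) (nat_lit 76) (XT.lf (nat_lit 76) (nat_lit 46872159889) (nat_lit 0) (nat_lit 46896632646) (nat_lit 836) (nat_lit 46377685895) (nat_lit 296) (nat_lit 5) (nat_lit 295) (nat_lit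 5) (nat_lit 306) (nat_lit 5) (nat_lit 416) (nat_lit 409) (nat_lit 195)) (XT.lf (nat_lit 0) (nat_lit 104728296865) (nat_lit 760) (nat_lit 19564746232) (nat_lit 836) (nat_lit 19538712550) (nat_lit 296) (nat_lit 5) (nat_lit 306) (nat_lit 5) (nat_lit 307) (nat_lit 5) (nat_lit 417) (nat_lit 409) (nat_lit 194))) (XT.nd (nat_lit 78) (nat_lit 0) (nat_lit 76) (XT.lf (nat_lit 76) (nat_lit 58948035687) (nat_lit 0) (nat_lit 58976665840) (nat_lit 836) (nat_lit 29692148941) (nat_lit 297) (nat_lit 5) (nat_lit 296) (nat_lit 5) (nat_lit 307) (nat_lit 5) (nat_lit 418) (nat_lit 409) (nat_lit 193)) (XT.lf (nat_lit 0) (nat_lit 132267457826) (nat_lit 760) (nat_lit 9664518762) (nat_lit 76) (nat_lit 9634896873) (nat_lit 297) (nat_lit 5) (nat_lit 307) (nat_lit 5) (nat_lit 298) (nat_lit 5) (nat_lit 419) (nat_lit 409) (nat_lit 192)))))) (XT.nd (nat_lit 624) (nat_lit 1596) (nat_lit 0) (XT.nd (nat_lit 312) (nat_lit 684) (nat_lit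 0) (XT.nd (nat_lit 156) (nat_lit 380) (nat_lit 0) (XT.nd (nat_lit 78) (nat_lit 532) (nat_lit 0) (XT.lf (nat_lit 0) (nat_lit 74714309655) (nat_lit 760) (nat_lit 74746174473) (nat_lit 836) (nat_lit 6147256866) (nat_lit 287) (nat_lit 5) (nat_lit 297) (nat_lit 5) (nat_lit 298) (nat_lit 5) (nat_lit 420) (nat_lit 409) (nat_lit 191)) (XT.lf (nat_lit 0) (nat_lit 3804410068) (nat_lit 456) (nat_lit 3838411009) (nat_lit 532) (nat_lit 152190571192) (nat_lit 280) (nat_lit 5) (nat_lit 286) (nat_lit 5) (nat_lit 287) (nat_lit 5) (nat_lit 421) (nat_lit 409) (nat_lit 190))) (XT.nd (nat_lit 78) (nat_lit 380) (nat_lit 0) (XT.lf (nat_lit 0) (nat_lit 24410548800) (nat_lit 532) (nat_lit 69882160625) (nat_lit 76) (nat_lit 69847841250) (nat_lit 280) (nat_lit 5) (nat_lit 287) (nat_lit 5) (nat_lit 281) (nat_lit 5) (nat_lit 422) (nat_lit 409) (nat_lit 189)) (XT.lf (nat_lit 0) (nat_lit 21187016397) (nat_lit 380) (nat_lit 21223181035)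 (nat_lit 456) (nat_lit 126233192840) (nat_lit 275) (nat_lit 5) (nat_lit 280) (nat_lit 5) (nat_lit 281) (nat_lit 5) (nat_lit 423) (nat_lit 409) (nat_lit 188)))) (XT.nd (nat_lit 156) (nat_lit 304) (nat_lit 0) (XT.nd (nat_lit 78) (nat_lit 380) (nat_lit 0) (XT.lf (nat_lit 0) (nat_lit 63379052753) (nat_lit 456) (nat_lit 54962487053) (nat_lit 76) (nat_lit 54926370832) (nat_lit 275) (nat_lit 5) (nat_lit 281) (nat_lit 5) (nat_lit 276) (nat_lit 5) (nat_lit 424) (nat_lit 409) (nat_lit 187)) (XT.lf (nat_lit 0) (nat_lit 43190359615) (nat_lit 380) (nat_lit 43228069843) (nat_lit 456) (nat_lit 91654123632) (nat_lit 270) (nat_lit 5) (nat_lit 275) (nat_lit 5) (nat_lit 276) (nat_lit 5) (nat_lit 425) (nat_lit 409) (nat_lit 186))) (XT.nd (nat_lit 78) (nat_lit 304) (nat_lit 0) (XT.lf (nat_lit 0) (nat_lit 112112147684) (nat_lit 456) (nat_lit 35483760831) (nat_lit 76) (nat_lit 35446400515) (nat_lit 270) (nat_lit 5) (nat_lit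 276) (nat_lit 5) (nat_lit 271) (nat_lit 5) (nat_lit 426) (nat_lit 409) (nat_lit 185)) (XT.lf (nat_lit 0) (nat_lit 70429964103) (nat_lit 304) (nat_lit 70468701382) (nat_lit 380) (nat_lit 47271481600) (nat_lit 266) (nat_lit 5) (nat_lit 270) (nat_lit 5) (nat_lit 271) (nat_lit 5) (nat_lit 427) (nat_lit 409) (nat_lit 184))))) (XT.nd (nat_lit 312) (nat_lit 912) (nat_lit 0) (XT.nd (nat_lit 156) (nat_lit 304) (nat_lit 0) (XT.nd (nat_lit 78) (nat_lit 380) (nat_lit 0) (XT.lf (nat_lit 0) (nat_lit 171899313716) (nat_lit 380) (nat_lit 10827232347) (nat_lit 76) (nat_lit 10789090753) (nat_lit 266) (nat_lit 5) (nat_lit 271) (nat_lit 5) (nat_lit 267) (nat_lit 5) (nat_lit 428) (nat_lit 409) (nat_lit 183)) (XT.lf (nat_lit 0) (nat_lit 7969156954) (nat_lit 380) (nat_lit 95526763252) (nat_lit 76) (nat_lit 95487432185) (nat_lit 261) (nat_lit 5) (nat_lit 266) (nat_lit 5) (nat_lit 262) (nat_lit 5) (nat_lit 429) (nat_lit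 409) (nat_lit 182))) (XT.nd (nat_lit 78) (nat_lit 0) (nat_lit 0) (XT.lf (nat_lit 0) (nat_lit 19377885661) (nat_lit 304) (nat_lit 19418349560) (nat_lit 380) (nat_lit 165886061506) (nat_lit 257) (nat_lit 5) (nat_lit 261) (nat_lit 5) (nat_lit 262) (nat_lit 5) (nat_lit 430) (nat_lit 409) (nat_lit 181)) (XT.lf (nat_lit 0) (nat_lit 73883990969) (nat_lit 380) (nat_lit 68342897845) (nat_lit 76) (nat_lit 68303333286) (nat_lit 257) (nat_lit 5) (nat_lit 262) (nat_lit 5) (nat_lit 258) (nat_lit 5) (nat_lit 431) (nat_lit 409) (nat_lit 180)))) (XT.nd (nat_lit 156) (nat_lit 608) (nat_lit 0) (XT.nd (nat_lit 78) (nat_lit 0) (nat_lit 0) (XT.lf (nat_lit 0) (nat_lit 55938576914) (nat_lit 304) (nat_lit 55979120055) (nat_lit 380) (nat_lit 104693268652) (nat_lit 253) (nat_lit 5) (nat_lit 257) (nat_lit 5) (nat_lit 258) (nat_lit 5) (nat_lit 432) (nat_lit 409) (nat_lit 179)) (XT.lf (nat_lit 0) (nat_lit 153569263283) (nat_lit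 380) (nat_lit 34690087200) (nat_lit 76) (nat_lit 34650587082) (nat_lit 253) (nat_lit 5) (nat_lit 258) (nat_lit 5) (nat_lit 254) (nat_lit 5) (nat_lit 433) (nat_lit 409) (nat_lit 178))) (XT.nd (nat_lit 78) (nat_lit 380) (nat_lit 0) (XT.lf (nat_lit 0) (nat_lit 99869941294) (nat_lit 228) (nat_lit 99910286749) (nat_lit 304) (nat_lit 29619789057) (nat_lit 250) (nat_lit 5) (nat_lit 253) (nat_lit 5) (nat_lit 254) (nat_lit 5) (nat_lit 434) (nat_lit 409) (nat_lit 177)) (XT.lf (nat_lit 0) (nat_lit 6176280366) (nat_lit 304) (nat_lit 6217430903) (nat_lit 380) (nat_lit 223776781897) (nat_lit 245) (nat_lit 5) (nat_lit 249) (nat_lit 5) (nat_lit 250) (nat_lit 5) (nat_lit 435) (nat_lit 409) (nat_lit 176))))))))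
noncomputable def xc300 : XT := (XT.nd (nat_lit 1248) (nat_lit 1748) (nat_lit 0) (XT.nd (nat_lit 624) (nat_lit 988) (nat_lit 0) (XT.nd (nat_lit 312) (nat_lit 532) (nat_lit 0) (XT.nd (nat_lit 156) (nat_lit 228) (nat_lit 0) (XT.nd (nat_lit 78) (nat_lit 228) (nat_lit 0) (XT.lf (nat_lit 0) (nat_lit 59180844305) (nat_lit 380) (nat_lit 91965436296) (nat_lit 76) (nat_lit 91925515075) (nat_lit 245) (nat_lit 5) (nat_lit 250) (nat_lit 5) (nat_lit 246) (nat_lit 5) (nat_lit 436) (nat_lit 409) (nat_lit 175)) (XT.lf (nat_lit 0) (nat_lit 54610577973) (nat_lit 228) (nat_lit 54651194654) (nat_lit 304) (nat_lit 141008668753) (nat_lit 242) (nat_lit 5) (nat_lit 245) (nat_lit 5) (nat_lit 246) (nat_lit 5) (nat_lit 437) (nat_lit 409) (nat_lit 174))) (XT.nd (nat_lit 78) (nat_lit 228) (nat_lit 0) (XT.lf (nat_lit 0) (nat_lit 164158278863) (nat_lit 304) (nat_lit 46797238644) (nat_lit 76) (nat_lit 46757925287) (nat_lit 242)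 (nat_lit 5) (nat_lit 246) (nat_lit 5) (nat_lit 243) (nat_lit 5) (nat_lit 438) (nat_lit 409) (nat_lit 173)) (XT.lf (nat_lit 0) (nat_lit 112203663932) (nat_lit 228) (nat_lit 112243578054) (nat_lit 304) (nat_lit 40948970716) (nat_lit 239) (nat_lit 5) (nat_lit 242) (nat_lit 5) (nat_lit 243) (nat_lit 5) (nat_lit 439) (nat_lit 409) (nat_lit 172)))) (XT.nd (nat_lit 156) (nat_lit 228) (nat_lit 0) (XT.nd (nat_lit 78) (nat_lit 0) (nat_lit 0) (XT.lf (nat_lit 0) (nat_lit 7355005893) (nat_lit 228) (nat_lit 7395492172) (nat_lit 304) (nat_lit 258655456809) (nat_lit 235) (nat_lit 5) (nat_lit 238) (nat_lit 5) (nat_lit 239) (nat_lit 5) (nat_lit 440) (nat_lit 409) (nat_lit 171)) (XT.lf (nat_lit 0) (nat_lit 76098963452) (nat_lit 304) (nat_lit 102755362221) (nat_lit 76) (nat_lit 102716284897) (nat_lit 235) (nat_lit 5) (nat_lit 239) (nat_lit 5) (nat_lit 236) (nat_lit 5) (nat_lit 441) (nat_lit 409) (nat_lit 170))) (XT.nd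 (nat_lit 78) (nat_lit 0) (nat_lit 0) (XT.lf (nat_lit 0) (nat_lit 70851304892) (nat_lit 228) (nat_lit 70890876467) (nat_lit 304) (nat_lit 148339951231) (nat_lit 232) (nat_lit 5) (nat_lit 235) (nat_lit 5) (nat_lit 236) (nat_lit 5) (nat_lit 442) (nat_lit 409) (nat_lit 169)) (XT.lf (nat_lit 0) (nat_lit 213099293147) (nat_lit 304) (nat_lit 42918243213) (nat_lit 76) (nat_lit 42880107699) (nat_lit 232) (nat_lit 5) (nat_lit 236) (nat_lit 5) (nat_lit 233) (nat_lit 5) (nat_lit 443) (nat_lit 409) (nat_lit 168))))) (XT.nd (nat_lit 312) (nat_lit 380) (nat_lit 0) (XT.nd (nat_lit 156) (nat_lit 152) (nat_lit 0) (XT.nd (nat_lit 78) (nat_lit 304) (nat_lit 0) (XT.lf (nat_lit 0) (nat_lit 145711358253) (nat_lit 152) (nat_lit 145749920720) (nat_lit 228) (nat_lit 16520801208) (nat_lit 230) (nat_lit 5) (nat_lit 232) (nat_lit 5) (nat_lit 233) (nat_lit 5) (nat_lit 444) (nat_lit 409) (nat_lit 167)) (XT.lf (nat_lit 0) (nat_lit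 27777297409) (nat_lit 228) (nat_lit 27816266497) (nat_lit 304) (nat_lit 261824668674) (nat_lit 226) (nat_lit 5) (nat_lit 229) (nat_lit 5) (nat_lit 230) (nat_lit 5) (nat_lit 445) (nat_lit 409) (nat_lit 166))) (XT.nd (nat_lit 78) (nat_lit 152) (nat_lit 0) (XT.lf (nat_lit 0) (nat_lit 135050585529) (nat_lit 304) (nat_lit 96042470194) (nat_lit 76) (nat_lit 96004987960) (nat_lit 226) (nat_lit 5) (nat_lit 230) (nat_lit 5) (nat_lit 227) (nat_lit 5) (nat_lit 446) (nat_lit 409) (nat_lit 165)) (XT.lf (nat_lit 0) (nat_lit 110310400004) (nat_lit 152) (nat_lit 110348233493) (nat_lit 228) (nat_lit 116494303080) (nat_lit 224) (nat_lit 5) (nat_lit 226) (nat_lit 5) (nat_lit 227) (nat_lit 5) (nat_lit 447) (nat_lit 409) (nat_lit 164)))) (XT.nd (nat_lit 156) (nat_lit 152) (nat_lit 0) (XT.nd (nat_lit 78) (nat_lit 228) (nat_lit 0) (XT.lf (nat_lit 0) (nat_lit 312456769570) (nat_lit 228) (nat_lit 17597335376) (nat_lit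 76) (nat_lit 17560984884) (nat_lit 224) (nat_lit 5) (nat_lit 227) (nat_lit 5) (nat_lit 225) (nat_lit 5) (nat_lit 448) (nat_lit 409) (nat_lit 163)) (XT.lf (nat_lit 0) (nat_lit 53758511343) (nat_lit 228) (nat_lit 152291580585) (nat_lit 76) (nat_lit 152254926665) (nat_lit 221) (nat_lit 5) (nat_lit 224) (nat_lit 5) (nat_lit 222) (nat_lit 5) (nat_lit 449) (nat_lit 409) (nat_lit 162))) (XT.nd (nat_lit 78) (nat_lit 0) (nat_lit 0) (XT.lf (nat_lit 0) (nat_lit 73677918593) (nat_lit 152) (nat_lit 73714861491) (nat_lit 228) (nat_lit 222035188132) (nat_lit 219) (nat_lit 5) (nat_lit 221) (nat_lit 5) (nat_lit 222) (nat_lit 5) (nat_lit 450) (nat_lit 409) (nat_lit 161)) (XT.lf (nat_lit 0) (nat_lit 249348631972) (nat_lit 228) (nat_lit 65805942844) (nat_lit 76) (nat_lit 65770497020) (nat_lit 219) (nat_lit 5) (nat_lit 222) (nat_lit 5) (nat_lit 220) (nat_lit 5) (nat_lit 451) (nat_lit 409) (nat_lit 160)))))) (XT.nd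 (nat_lit 624) (nat_lit 912) (nat_lit 0) (XT.nd (nat_lit 312) (nat_lit 304) (nat_lit 0) (XT.nd (nat_lit 156) (nat_lit 152) (nat_lit 0) (XT.nd (nat_lit 78) (nat_lit 228) (nat_lit 0) (XT.lf (nat_lit 0) (nat_lit 180194141697) (nat_lit 152) (nat_lit 180229837151) (nat_lit 228) (nat_lit 32371966668) (nat_lit 217) (nat_lit 5) (nat_lit 219) (nat_lit 5) (nat_lit 220) (nat_lit 5) (nat_lit 452) (nat_lit 409) (nat_lit 159)) (XT.lf (nat_lit 0) (nat_lit 35573517860) (nat_lit 152) (nat_lit 35609451057) (nat_lit 228) (nat_lit 333936946953) (nat_lit 214) (nat_lit 5) (nat_lit 216) (nat_lit 5) (nat_lit 217) (nat_lit 5) (nat_lit 453) (nat_lit 409) (nat_lit 158))) (XT.nd (nat_lit 78) (nat_lit 152) (nat_lit 0) (XT.lf (nat_lit 0) (nat_lit 184302070490) (nat_lit 228) (nat_lit 116746100555) (nat_lit 76) (nat_lit 116711662823) (nat_lit 214) (nat_lit 5) (nat_lit 217) (nat_lit 5) (nat_lit 215) (nat_lit 5) (nat_lit 454) (nat_lit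 409) (nat_lit 157)) (XT.lf (nat_lit 0) (nat_lit 153007526452) (nat_lit 152) (nat_lit 153042169556) (nat_lit 228) (nat_lit 124833423312) (nat_lit 212) (nat_lit 5) (nat_lit 214) (nat_lit 5) (nat_lit 215) (nat_lit 5) (nat_lit 455) (nat_lit 409) (nat_lit 156)))) (XT.nd (nat_lit 156) (nat_lit 152) (nat_lit 0) (XT.nd (nat_lit 78) (nat_lit 152) (nat_lit 0) (XT.lf (nat_lit 0) (nat_lit 435931109283) (nat_lit 228) (nat_lit 4331159574) (nat_lit 76) (nat_lit 4297979864) (nat_lit 212) (nat_lit 5) (nat_lit 215) (nat_lit 5) (nat_lit 213) (nat_lit 4) (nat_lit 456) (nat_lit 409) (nat_lit 155)) (XT.lf (nat_lit 0) (nat_lit 116902688200) (nat_lit 152) (nat_lit 170803035946) (nat_lit 76) (nat_lit 170769678829) (nat_lit 210) (nat_lit 5) (nat_lit 212) (nat_lit 5) (nat_lit 211) (nat_lit 5) (nat_lit 457) (nat_lit 409) (nat_lit 154))) (XT.nd (nat_lit 78) (nat_lit 0) (nat_lit 0) (XT.lf (nat_lit 0) (nat_lit 125208464254)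 (nat_lit 152) (nat_lit 125241990331) (nat_lit 228) (nat_lit 222527320140) (nat_lit 208) (nat_lit 5) (nat_lit 210) (nat_lit 5) (nat_lit 211) (nat_lit 5) (nat_lit 458) (nat_lit 409) (nat_lit 153)) (XT.lf (nat_lit 0) (nat_lit 394323558776) (nat_lit 228) (nat_lit 46865695830) (nat_lit 76) (nat_lit 46833612981) (nat_lit 208) (nat_lit 5) (nat_lit 211) (nat_lit 5) (nat_lit 209) (nat_lit 4) (nat_lit 459) (nat_lit 409) (nat_lit 152))))) (XT.nd (nat_lit 312) (nat_lit 532) (nat_lit 0) (XT.nd (nat_lit 156) (nat_lit 76) (nat_lit 0) (XT.nd (nat_lit 78) (nat_lit 152) (nat_lit 0) (XT.lf (nat_lit 0) (nat_lit 46703881944) (nat_lit 152) (nat_lit 228396448286) (nat_lit 76) (nat_lit 228364219484) (nat_lit 206) (nat_lit 5) (nat_lit 208) (nat_lit 5) (nat_lit 207) (nat_lit 5) (nat_lit 460) (nat_lit 409) (nat_lit 151)) (XT.lf (nat_lit 0) (nat_lit 96630635975) (nat_lit 152) (nat_lit 96663003781) (nat_lit 228) (nat_lit 326192107542)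 (nat_lit 204) (nat_lit 5) (nat_lit 206) (nat_lit 5) (nat_lit 207) (nat_lit 5) (nat_lit 461) (nat_lit 409) (nat_lit 150))) (XT.nd (nat_lit 78) (nat_lit 76) (nat_lit 0) (XT.lf (nat_lit 0) (nat_lit 352560260935) (nat_lit 228) (nat_lit 91755663808) (nat_lit 76) (nat_lit 91724711246) (nat_lit 204) (nat_lit 5) (nat_lit 207) (nat_lit 5) (nat_lit 205) (nat_lit 4) (nat_lit 462) (nat_lit 409) (nat_lit 149)) (XT.lf (nat_lit 0) (nat_lit 262722780611) (nat_lit 76) (nat_lit 262753853249) (nat_lit 152) (nat_lit 27662314220) (nat_lit 203) (nat_lit 5) (nat_lit 204) (nat_lit 5) (nat_lit 205) (nat_lit 4) (nat_lit 463) (nat_lit 409) (nat_lit 148)))) (XT.nd (nat_lit 156) (nat_lit 304) (nat_lit 0) (XT.nd (nat_lit 78) (nat_lit 0) (nat_lit 0) (XT.lf (nat_lit 0) (nat_lit 67095607345) (nat_lit 152) (nat_lit 67126794342) (nat_lit 228) (nat_lit 436632303987) (nat_lit 200) (nat_lit 5) (nat_lit 202) (nat_lit 5) (nat_lit 203)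 (nat_lit 5) (nat_lit 464) (nat_lit 409) (nat_lit 147)) (XT.lf (nat_lit 0) (nat_lit 310429591586) (nat_lit 228) (nat_lit 139337948747) (nat_lit 76) (nat_lit 139308143119) (nat_lit 200) (nat_lit 5) (nat_lit 203) (nat_lit 5) (nat_lit 201) (nat_lit 4) (nat_lit 465) (nat_lit 409) (nat_lit 146))) (XT.nd (nat_lit 78) (nat_lit 228) (nat_lit 0) (XT.lf (nat_lit 0) (nat_lit 250212066527) (nat_lit 76) (nat_lit 250241970942) (nat_lit 152) (nat_lit 107503327826) (nat_lit 199) (nat_lit 5) (nat_lit 200) (nat_lit 5) (nat_lit 201) (nat_lit 4) (nat_lit 466) (nat_lit 409) (nat_lit 145)) (XT.lf (nat_lit 0) (nat_lit 36411351914) (nat_lit 152) (nat_lit 36441350412) (nat_lit 228) (nat_lit 554725725904) (nat_lit 196) (nat_lit 5) (nat_lit 198) (nat_lit 5) (nat_lit 199) (nat_lit 5) (nat_lit 467) (nat_lit 409) (nat_lit 144)))))))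
noncomputable def xc301 : XT := (XT.nd (nat_lit 1248) (nat_lit 76) (nat_lit 0) (XT.nd (nat_lit 624) (nat_lit 608) (nat_lit 0) (XT.nd (nat_lit 312) (nat_lit 304) (nat_lit 0) (XT.nd (nat_lit 156) (nat_lit 228) (nat_lit 0) (XT.nd (nat_lit 78) (nat_lit 76) (nat_lit 0) (XT.lf (nat_lit 0) (nat_lit 267707550825) (nat_lit 228) (nat_lit 189979419829) (nat_lit 76) (nat_lit 189950764495) (nat_lit 196) (nat_lit 5) (nat_lit 199) (nat_lit 5) (nat_lit 197) (nat_lit 4) (nat_lit 468) (nat_lit 409) (nat_lit 143)) (XT.lf (nat_lit 0) (nat_lit 238297119435) (nat_lit 76) (nat_lit 238325856042) (nat_lit 152) (nat_lit 191861140251) (nat_lit 195) (nat_lit 5) (nat_lit 196) (nat_lit 5) (nat_lit 197) (nat_lit 4) (nat_lit 469) (nat_lit 409) (nat_lit 142))) (XT.nd (nat_lit 78) (nat_lit 0) (nat_lit 0) (XT.lf (nat_lit 0) (nat_lit 4370633894) (nat_lit 152) (nat_lit 4399447903) (nat_lit 228) (nat_lit 681431436878) (nat_lit 192)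 (nat_lit 5) (nat_lit 194) (nat_lit 5) (nat_lit 195) (nat_lit 5) (nat_lit 470) (nat_lit 409) (nat_lit 141)) (XT.lf (nat_lit 0) (nat_lit 224156051154) (nat_lit 228) (nat_lit 244080220287) (nat_lit 76) (nat_lit 244052708168) (nat_lit 192) (nat_lit 5) (nat_lit 195) (nat_lit 5) (nat_lit 193) (nat_lit 4) (nat_lit 471) (nat_lit 409) (nat_lit 140)))) (XT.nd (nat_lit 156) (nat_lit 228) (nat_lit 0) (XT.nd (nat_lit 78) (nat_lit 0) (nat_lit 0) (XT.lf (nat_lit 0) (nat_lit 226949566162) (nat_lit 76) (nat_lit 226977145144) (nat_lit 152) (nat_lit 281373332667) (nat_lit 191) (nat_lit 5) (nat_lit 192) (nat_lit 5) (nat_lit 193) (nat_lit 4) (nat_lit 472) (nat_lit 409) (nat_lit 139)) (XT.lf (nat_lit 0) (nat_lit 699798555301) (nat_lit 152) (nat_lit 29729400029) (nat_lit 0) (nat_lit 29703073685) (nat_lit 191) (nat_lit 5) (nat_lit 193) (nat_lit 4) (nat_lit 191) (nat_lit 4) (nat_lit 473) (nat_lit 409) (nat_lit 138))) (XT.nd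 (nat_lit 78) (nat_lit 76) (nat_lit 0) (XT.lf (nat_lit 0) (nat_lit 179521051208) (nat_lit 152) (nat_lit 302077384397) (nat_lit 76) (nat_lit 302051000294) (nat_lit 189) (nat_lit 5) (nat_lit 191) (nat_lit 5) (nat_lit 190) (nat_lit 4) (nat_lit 474) (nat_lit 409) (nat_lit 137)) (XT.lf (nat_lit 0) (nat_lit 216142385227) (nat_lit 76) (nat_lit 216168824338) (nat_lit 152) (nat_lit 376734524519) (nat_lit 188) (nat_lit 5) (nat_lit 189) (nat_lit 5) (nat_lit 190) (nat_lit 4) (nat_lit 475) (nat_lit 409) (nat_lit 136))))) (XT.nd (nat_lit 312) (nat_lit 380) (nat_lit 0) (XT.nd (nat_lit 156) (nat_lit 76) (nat_lit 0) (XT.nd (nat_lit 78) (nat_lit 152) (nat_lit 0) (XT.lf (nat_lit 0) (nat_lit 703916826717) (nat_lit 152) (nat_lit 65755726459) (nat_lit 0) (nat_lit 65730496458) (nat_lit 188) (nat_lit 5) (nat_lit 190) (nat_lit 4) (nat_lit 188) (nat_lit 4) (nat_lit 476) (nat_lit 409) (nat_lit 135)) (XT.lf (nat_lit 0) (nat_lit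 133530518263) (nat_lit 152) (nat_lit 364448815337) (nat_lit 76) (nat_lit 364423537818) (nat_lit 186) (nat_lit 5) (nat_lit 188) (nat_lit 5) (nat_lit 187) (nat_lit 4) (nat_lit 477) (nat_lit 409) (nat_lit 134))) (XT.nd (nat_lit 78) (nat_lit 0) (nat_lit 0) (XT.lf (nat_lit 0) (nat_lit 205849842369) (nat_lit 76) (nat_lit 205875165143) (nat_lit 152) (nat_lit 478702615671) (nat_lit 185) (nat_lit 5) (nat_lit 186) (nat_lit 5) (nat_lit 187) (nat_lit 4) (nat_lit 478) (nat_lit 409) (nat_lit 133)) (XT.lf (nat_lit 0) (nat_lit 711676781786) (nat_lit 152) (nat_lit 103904305350) (nat_lit 0) (nat_lit 103880147374) (nat_lit 185) (nat_lit 5) (nat_lit 187) (nat_lit 4) (nat_lit 185) (nat_lit 4) (nat_lit 479) (nat_lit 409) (nat_lit 132)))) (XT.nd (nat_lit 156) (nat_lit 152) (nat_lit 0) (XT.nd (nat_lit 78) (nat_lit 76) (nat_lit 0) (XT.lf (nat_lit 0) (nat_lit 85892201029) (nat_lit 152) (nat_lit 431717661395) (nat_lit 76)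 (nat_lit 431693464325) (nat_lit 183) (nat_lit 5) (nat_lit 185) (nat_lit 5) (nat_lit 184) (nat_lit 4) (nat_lit 480) (nat_lit 409) (nat_lit 131)) (XT.lf (nat_lit 0) (nat_lit 196047429167) (nat_lit 76) (nat_lit 196071663469) (nat_lit 152) (nat_lit 588105649574) (nat_lit 182) (nat_lit 5) (nat_lit 183) (nat_lit 5) (nat_lit 184) (nat_lit 4) (nat_lit 481) (nat_lit 409) (nat_lit 130))) (XT.nd (nat_lit 78) (nat_lit 152) (nat_lit 0) (XT.lf (nat_lit 0) (nat_lit 723298383221) (nat_lit 152) (nat_lit 144467453281) (nat_lit 0) (nat_lit 144444339223) (nat_lit 182) (nat_lit 5) (nat_lit 184) (nat_lit 4) (nat_lit 182) (nat_lit 4) (nat_lit 482) (nat_lit 409) (nat_lit 129)) (XT.lf (nat_lit 0) (nat_lit 36291192371) (nat_lit 152) (nat_lit 504457131796) (nat_lit 76) (nat_lit 504433985577) (nat_lit 180) (nat_lit 5) (nat_lit 182) (nat_lit 5) (nat_lit 181) (nat_lit 4) (nat_lit 483) (nat_lit 409) (nat_lit 128)))))) (XT.nd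 (nat_lit 47892) (nat_lit 0) (nat_lit 7296) (XT.nd (nat_lit 47580) (nat_lit 0) (nat_lit 8664) (XT.nd (nat_lit 47424) (nat_lit 0) (nat_lit 8588) (XT.nd (nat_lit 47346) (nat_lit 0) (nat_lit 8588) (XT.lf (nat_lit 0) (nat_lit 186711804595) (nat_lit 76) (nat_lit 186734981446) (nat_lit 152) (nat_lit 705849361966) (nat_lit 179) (nat_lit 5) (nat_lit 180) (nat_lit 5) (nat_lit 181) (nat_lit 4) (nat_lit 484) (nat_lit 409) (nat_lit 127)) (XT.lf (nat_lit 0) (nat_lit 28999121244) (nat_lit 836) (nat_lit 16364642780) (nat_lit 836) (nat_lit 16364642780) (nat_lit 292) (nat_lit 3) (nat_lit 303) (nat_lit 3) (nat_lit 303) (nat_lit 5) (nat_lit 410) (nat_lit 410) (nat_lit 200))) (XT.nd (nat_lit 78) (nat_lit 0) (nat_lit 76) (XT.lf (nat_lit 76) (nat_lit 29957963156) (nat_lit 0) (nat_lit 29962192534) (nat_lit 836) (nat_lit 66599480403) (nat_lit 293) (nat_lit 5) (nat_lit 292) (nat_lit 3) (nat_lit 303) (nat_lit 5) (nat_lit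 411) (nat_lit 410) (nat_lit 199)) (XT.lf (nat_lit 0) (nat_lit 63029625692) (nat_lit 760) (nat_lit 33329632550) (nat_lit 836) (nat_lit 33321768401) (nat_lit 293) (nat_lit 5) (nat_lit 303) (nat_lit 5) (nat_lit 304) (nat_lit 5) (nat_lit 412) (nat_lit 410) (nat_lit 198)))) (XT.nd (nat_lit 156) (nat_lit 0) (nat_lit 76) (XT.nd (nat_lit 78) (nat_lit 0) (nat_lit 76) (XT.lf (nat_lit 76) (nat_lit 33649671279) (nat_lit 0) (nat_lit 33661188922) (nat_lit 836) (nat_lit 65638811970) (nat_lit 294) (nat_lit 5) (nat_lit 293) (nat_lit 5) (nat_lit 304) (nat_lit 5) (nat_lit 413) (nat_lit 410) (nat_lit 197)) (XT.lf (nat_lit 0) (nat_lit 72881908201) (nat_lit 760) (nat_lit 31730168599) (nat_lit 836) (nat_lit 31715885586) (nat_lit 294) (nat_lit 5) (nat_lit 304) (nat_lit 5) (nat_lit 305) (nat_lit 5) (nat_lit 414) (nat_lit 410) (nat_lit 196))) (XT.nd (nat_lit 78) (nat_lit 0) (nat_lit 76) (XT.lf (nat_lit 76) (nat_lit 39944652660)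 (nat_lit 0) (nat_lit 39962091699) (nat_lit 836) (nat_lit 59909660967) (nat_lit 295) (nat_lit 5) (nat_lit 294) (nat_lit 5) (nat_lit 305) (nat_lit 5) (nat_lit 415) (nat_lit 410) (nat_lit 195)) (XT.lf (nat_lit 0) (nat_lit 88264687812) (nat_lit 760) (nat_lit 27592480271) (nat_lit 836) (nat_lit 27573009053) (nat_lit 295) (nat_lit 5) (nat_lit 305) (nat_lit 5) (nat_lit 306) (nat_lit 5) (nat_lit 416) (nat_lit 410) (nat_lit 194))))) (XT.nd (nat_lit 312) (nat_lit 1520) (nat_lit 0) (XT.nd (nat_lit 156) (nat_lit 0) (nat_lit 76) (XT.nd (nat_lit 78) (nat_lit 0) (nat_lit 76) (XT.lf (nat_lit 76) (nat_lit 49220854126) (nat_lit 0) (nat_lit 49243051639) (nat_lit 836) (nat_lit 48689562907) (nat_lit 296) (nat_lit 5) (nat_lit 295) (nat_lit 5) (nat_lit 306) (nat_lit 5) (nat_lit 417) (nat_lit 410) (nat_lit 193)) (XT.lf (nat_lit 0) (nat_lit 109971043918) (nat_lit 760) (nat_lit 20537798109) (nat_lit 836) (nat_lit 20514184792)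 (nat_lit 296) (nat_lit 5) (nat_lit 306) (nat_lit 5) (nat_lit 307) (nat_lit 5) (nat_lit 418) (nat_lit 410) (nat_lit 192))) (XT.nd (nat_lit 78) (nat_lit 0) (nat_lit 76) (XT.lf (nat_lit 76) (nat_lit 61900539270) (nat_lit 0) (nat_lit 61926507663) (nat_lit 836) (nat_lit 31170340543) (nat_lit 297) (nat_lit 5) (nat_lit 296) (nat_lit 5) (nat_lit 307) (nat_lit 5) (nat_lit 419) (nat_lit 410) (nat_lit 191)) (XT.lf (nat_lit 0) (nat_lit 138886635082) (nat_lit 760) (nat_lit 10142579880) (nat_lit 76) (nat_lit 10115711954) (nat_lit 297) (nat_lit 5) (nat_lit 307) (nat_lit 5) (nat_lit 298) (nat_lit 5) (nat_lit 420) (nat_lit 410) (nat_lit 190)))) (XT.nd (nat_lit 156) (nat_lit 380) (nat_lit 0) (XT.nd (nat_lit 78) (nat_lit 532) (nat_lit 0) (XT.lf (nat_lit 0) (nat_lit 78455106654) (nat_lit 760) (nat_lit 78484008983) (nat_lit 836) (nat_lit 6448732041) (nat_lit 287) (nat_lit 5) (nat_lit 297) (nat_lit 5) (nat_lit 298)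 (nat_lit 5) (nat_lit 421) (nat_lit 410) (nat_lit 189)) (XT.lf (nat_lit 0) (nat_lit 3999815531) (nat_lit 456) (nat_lit 4030655387) (nat_lit 532) (nat_lit 159794315527) (nat_lit 280) (nat_lit 5) (nat_lit 286) (nat_lit 5) (nat_lit 287) (nat_lit 5) (nat_lit 422) (nat_lit 410) (nat_lit 188))) (XT.nd (nat_lit 78) (nat_lit 380) (nat_lit 0) (XT.lf (nat_lit 0) (nat_lit 25636317888) (nat_lit 532) (nat_lit 73371063461) (nat_lit 76) (nat_lit 73339934777) (nat_lit 280) (nat_lit 5) (nat_lit 287) (nat_lit 5) (nat_lit 281) (nat_lit 5) (nat_lit 423) (nat_lit 410) (nat_lit 187)) (XT.nd (nat_lit 78) (nat_lit 0) (nat_lit 0) (XT.lf (nat_lit 0) (nat_lit 22251488457) (nat_lit 380) (nat_lit 22284290850) (nat_lit 456) (nat_lit 132539526879) (nat_lit 275) (nat_lit 5) (nat_lit 280) (nat_lit 5) (nat_lit 281) (nat_lit 5) (nat_lit 424) (nat_lit 410) (nat_lit 186)) (XT.lf (nat_lit 0) (nat_lit 66552836601) (nat_lit 456) (nat_lit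 57705493242) (nat_lit 76) (nat_lit 57672734765) (nat_lit 275) (nat_lit 5) (nat_lit 281) (nat_lit 5) (nat_lit 276) (nat_lit 5) (nat_lit 425) (nat_lit 410) (nat_lit 185))))))))
noncomputable def xc302 : XT := (XT.nd (nat_lit 2496) (nat_lit 2432) (nat_lit 0) (XT.nd (nat_lit 1248) (nat_lit 1748) (nat_lit 0) (XT.nd (nat_lit 624) (nat_lit 1368) (nat_lit 0) (XT.nd (nat_lit 312) (nat_lit 988) (nat_lit 0) (XT.nd (nat_lit 156) (nat_lit 304) (nat_lit 0) (XT.nd (nat_lit 78) (nat_lit 0) (nat_lit 0) (XT.lf (nat_lit 0) (nat_lit 45354913208) (nat_lit 380) (nat_lit 45389117497) (nat_lit 456) (nat_lit 96231916051) (nat_lit 270) (nat_lit 5) (nat_lit 275) (nat_lit 5) (nat_lit 276) (nat_lit 5) (nat_lit 426) (nat_lit 410) (nat_lit 184)) (XT.lf (nat_lit 0) (nat_lit 117722217287) (nat_lit 456) (nat_lit 37252935496) (nat_lit 76) (nat_lit 37219048589) (nat_lit 270) (nat_lit 5) (nat_lit 276) (nat_lit 5) (nat_lit 271) (nat_lit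 5) (nat_lit 427) (nat_lit 410) (nat_lit 183))) (XT.nd (nat_lit 78) (nat_lit 0) (nat_lit 0) (XT.lf (nat_lit 0) (nat_lit 73956394823) (nat_lit 304) (nat_lit 73991530678) (nat_lit 380) (nat_lit 49630512602) (nat_lit 266) (nat_lit 5) (nat_lit 270) (nat_lit 5) (nat_lit 271) (nat_lit 5) (nat_lit 428) (nat_lit 410) (nat_lit 182)) (XT.lf (nat_lit 0) (nat_lit 180498409115) (nat_lit 380) (nat_lit 11363699303) (nat_lit 76) (nat_lit 11329103753) (nat_lit 266) (nat_lit 5) (nat_lit 271) (nat_lit 5) (nat_lit 267) (nat_lit 5) (nat_lit 429) (nat_lit 410) (nat_lit 181)))) (XT.nd (nat_lit 156) (nat_lit 304) (nat_lit 0) (XT.nd (nat_lit 78) (nat_lit 304) (nat_lit 0) (XT.lf (nat_lit 0) (nat_lit 8371688758) (nat_lit 380) (nat_lit 100298150996) (nat_lit 76) (nat_lit 100262476558) (nat_lit 261) (nat_lit 5) (nat_lit 266) (nat_lit 5) (nat_lit 262) (nat_lit 5) (nat_lit 430) (nat_lit 410) (nat_lit 180)) (XT.lf (nat_lit 0)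 (nat_lit 20351650517) (nat_lit 304) (nat_lit 20388352466) (nat_lit 380) (nat_lit 174176210779) (nat_lit 257) (nat_lit 5) (nat_lit 261) (nat_lit 5) (nat_lit 262) (nat_lit 5) (nat_lit 431) (nat_lit 410) (nat_lit 179))) (XT.nd (nat_lit 78) (nat_lit 304) (nat_lit 0) (XT.lf (nat_lit 0) (nat_lit 77581971738) (nat_lit 380) (nat_lit 71755229314) (nat_lit 76) (nat_lit 71719343093) (nat_lit 257) (nat_lit 5) (nat_lit 262) (nat_lit 5) (nat_lit 258) (nat_lit 5) (nat_lit 432) (nat_lit 410) (nat_lit 178)) (XT.lf (nat_lit 0) (nat_lit 58740241547) (nat_lit 304) (nat_lit 58777015371) (nat_lit 380) (nat_lit 109924073229) (nat_lit 253) (nat_lit 5) (nat_lit 257) (nat_lit 5) (nat_lit 258) (nat_lit 5) (nat_lit 433) (nat_lit 410) (nat_lit 177))))) (XT.nd (nat_lit 312) (nat_lit 760) (nat_lit 0) (XT.nd (nat_lit 156) (nat_lit 380) (nat_lit 0) (XT.nd (nat_lit 78) (nat_lit 228) (nat_lit 0) (XT.lf (nat_lit 0) (nat_lit 161251242315)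 (nat_lit 380) (nat_lit 36419922054) (nat_lit 76) (nat_lit 36384094282) (nat_lit 253) (nat_lit 5) (nat_lit 258) (nat_lit 5) (nat_lit 254) (nat_lit 5) (nat_lit 434) (nat_lit 410) (nat_lit 176)) (XT.lf (nat_lit 0) (nat_lit 104868032551) (nat_lit 228) (nat_lit 104904627068) (nat_lit 304) (nat_lit 31097187328) (nat_lit 250) (nat_lit 5) (nat_lit 253) (nat_lit 5) (nat_lit 254) (nat_lit 5) (nat_lit 435) (nat_lit 410) (nat_lit 175))) (XT.nd (nat_lit 78) (nat_lit 0) (nat_lit 0) (XT.lf (nat_lit 0) (nat_lit 6489727563) (nat_lit 304) (nat_lit 6527052313) (nat_lit 380) (nat_lit 234962068796) (nat_lit 245) (nat_lit 5) (nat_lit 249) (nat_lit 5) (nat_lit 250) (nat_lit 5) (nat_lit 436) (nat_lit 410) (nat_lit 174)) (XT.lf (nat_lit 0) (nat_lit 62143127055) (nat_lit 380) (nat_lit 96559153051) (nat_lit 76) (nat_lit 96522943326) (nat_lit 245) (nat_lit 5) (nat_lit 250) (nat_lit 5) (nat_lit 246) (nat_lit 5) (nat_lit 437)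 (nat_lit 410) (nat_lit 173)))) (XT.nd (nat_lit 156) (nat_lit 532) (nat_lit 0) (XT.nd (nat_lit 78) (nat_lit 0) (nat_lit 0) (XT.lf (nat_lit 0) (nat_lit 57345588462) (nat_lit 228) (nat_lit 57382428990) (nat_lit 304) (nat_lit 148055788187) (nat_lit 242) (nat_lit 5) (nat_lit 245) (nat_lit 5) (nat_lit 246) (nat_lit 5) (nat_lit 438) (nat_lit 410) (nat_lit 172)) (XT.lf (nat_lit 0) (nat_lit 172369218413) (nat_lit 304) (nat_lit 49132701807) (nat_lit 76) (nat_lit 49097043434) (nat_lit 242) (nat_lit 5) (nat_lit 246) (nat_lit 5) (nat_lit 243) (nat_lit 5) (nat_lit 439) (nat_lit 410) (nat_lit 171))) (XT.nd (nat_lit 78) (nat_lit 304) (nat_lit 0) (XT.lf (nat_lit 0) (nat_lit 117818174950) (nat_lit 228) (nat_lit 117854378235) (nat_lit 304) (nat_lit 42993322697) (nat_lit 239) (nat_lit 5) (nat_lit 242) (nat_lit 5) (nat_lit 243) (nat_lit 5) (nat_lit 440) (nat_lit 410) (nat_lit 170)) (XT.lf (nat_lit 0) (nat_lit 7727111716)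 (nat_lit 228) (nat_lit 7763833965) (nat_lit 304) (nat_lit 271585160802) (nat_lit 235) (nat_lit 5) (nat_lit 238) (nat_lit 5) (nat_lit 239) (nat_lit 5) (nat_lit 441) (nat_lit 410) (nat_lit 169)))))) (XT.nd (nat_lit 624) (nat_lit 912) (nat_lit 0) (XT.nd (nat_lit 312) (nat_lit 456) (nat_lit 0) (XT.nd (nat_lit 156) (nat_lit 152) (nat_lit 0) (XT.nd (nat_lit 78) (nat_lit 228) (nat_lit 0) (XT.lf (nat_lit 0) (nat_lit 79906716466) (nat_lit 304) (nat_lit 107888864338) (nat_lit 76) (nat_lit 107853420054) (nat_lit 235) (nat_lit 5) (nat_lit 239) (nat_lit 5) (nat_lit 236) (nat_lit 5) (nat_lit 442) (nat_lit 410) (nat_lit 168)) (XT.lf (nat_lit 0) (nat_lit 74398067324) (nat_lit 228) (nat_lit 74433959909) (nat_lit 304) (nat_lit 155754075146) (nat_lit 232) (nat_lit 5) (nat_lit 235) (nat_lit 5) (nat_lit 236) (nat_lit 5) (nat_lit 443) (nat_lit 410) (nat_lit 167))) (XT.nd (nat_lit 78) (nat_lit 152) (nat_lit 0) (XT.lf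 (nat_lit 0) (nat_lit 223756886002) (nat_lit 304) (nat_lit 45060049443) (nat_lit 76) (nat_lit 45025459408) (nat_lit 232) (nat_lit 5) (nat_lit 236) (nat_lit 5) (nat_lit 233) (nat_lit 5) (nat_lit 444) (nat_lit 410) (nat_lit 166)) (XT.lf (nat_lit 0) (nat_lit 153000965872) (nat_lit 152) (nat_lit 153035943166) (nat_lit 228) (nat_lit 17344146847) (nat_lit 230) (nat_lit 5) (nat_lit 232) (nat_lit 5) (nat_lit 233) (nat_lit 5) (nat_lit 445) (nat_lit 410) (nat_lit 165)))) (XT.nd (nat_lit 156) (nat_lit 152) (nat_lit 0) (XT.nd (nat_lit 78) (nat_lit 0) (nat_lit 0) (XT.lf (nat_lit 0) (nat_lit 29170221676) (nat_lit 228) (nat_lit 29205567788) (nat_lit 304) (nat_lit 274913227377) (nat_lit 226) (nat_lit 5) (nat_lit 229) (nat_lit 5) (nat_lit 230) (nat_lit 5) (nat_lit 446) (nat_lit 410) (nat_lit 164)) (XT.lf (nat_lit 0) (nat_lit 141805563348) (nat_lit 304) (nat_lit 100840628791) (nat_lit 76) (nat_lit 100806631300) (nat_lit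 226) (nat_lit 5) (nat_lit 230) (nat_lit 5) (nat_lit 227) (nat_lit 5) (nat_lit 447) (nat_lit 410) (nat_lit 163))) (XT.nd (nat_lit 78) (nat_lit 0) (nat_lit 0) (XT.lf (nat_lit 0) (nat_lit 115829820966) (nat_lit 152) (nat_lit 115864137056) (nat_lit 228) (nat_lit 122316505740) (nat_lit 224) (nat_lit 5) (nat_lit 226) (nat_lit 5) (nat_lit 227) (nat_lit 5) (nat_lit 448) (nat_lit 410) (nat_lit 162)) (XT.lf (nat_lit 0) (nat_lit 328081909379) (nat_lit 228) (nat_lit 18473395422) (nat_lit 76) (nat_lit 18440424454) (nat_lit 224) (nat_lit 5) (nat_lit 227) (nat_lit 5) (nat_lit 225) (nat_lit 5) (nat_lit 449) (nat_lit 410) (nat_lit 161))))) (XT.nd (nat_lit 312) (nat_lit 380) (nat_lit 0) (XT.nd (nat_lit 156) (nat_lit 152) (nat_lit 0) (XT.nd (nat_lit 78) (nat_lit 152) (nat_lit 0) (XT.lf (nat_lit 0) (nat_lit 56448724017) (nat_lit 228) (nat_lit 159902338668) (nat_lit 76) (nat_lit 159869092483) (nat_lit 221) (nat_lit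 5) (nat_lit 224) (nat_lit 5) (nat_lit 222) (nat_lit 5) (nat_lit 450) (nat_lit 410) (nat_lit 160)) (XT.lf (nat_lit 0) (nat_lit 77365573841) (nat_lit 152) (nat_lit 77399082138) (nat_lit 228) (nat_lit 233134598804) (nat_lit 219) (nat_lit 5) (nat_lit 221) (nat_lit 5) (nat_lit 222) (nat_lit 5) (nat_lit 451) (nat_lit 410) (nat_lit 159))) (XT.nd (nat_lit 78) (nat_lit 152) (nat_lit 0) (XT.lf (nat_lit 0) (nat_lit 261818216580) (nat_lit 228) (nat_lit 69092575802) (nat_lit 76) (nat_lit 69060425395) (nat_lit 219) (nat_lit 5) (nat_lit 222) (nat_lit 5) (nat_lit 220) (nat_lit 5) (nat_lit 452) (nat_lit 410) (nat_lit 158)) (XT.lf (nat_lit 0) (nat_lit 189207453866) (nat_lit 152) (nat_lit 189239830695) (nat_lit 228) (nat_lit 33988352892) (nat_lit 217) (nat_lit 5) (nat_lit 219) (nat_lit 5) (nat_lit 220) (nat_lit 5) (nat_lit 453) (nat_lit 410) (nat_lit 157)))) (XT.nd (nat_lit 156) (nat_lit 152) (nat_lit 0) (XT.nd (nat_lit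 78) (nat_lit 0) (nat_lit 0) (XT.lf (nat_lit 0) (nat_lit 37355810350) (nat_lit 152) (nat_lit 37388402819) (nat_lit 228) (nat_lit 350631593705) (nat_lit 214) (nat_lit 5) (nat_lit 216) (nat_lit 5) (nat_lit 217) (nat_lit 5) (nat_lit 454) (nat_lit 410) (nat_lit 156)) (XT.lf (nat_lit 0) (nat_lit 193519192633) (nat_lit 228) (nat_lit 122579884018) (nat_lit 76) (nat_lit 122548647979) (nat_lit 214) (nat_lit 5) (nat_lit 217) (nat_lit 5) (nat_lit 215) (nat_lit 5) (nat_lit 455) (nat_lit 410) (nat_lit 155))) (XT.nd (nat_lit 78) (nat_lit 0) (nat_lit 0) (XT.lf (nat_lit 0) (nat_lit 160661367541) (nat_lit 152) (nat_lit 160692789857) (nat_lit 228) (nat_lit 131073019059) (nat_lit 212) (nat_lit 5) (nat_lit 214) (nat_lit 5) (nat_lit 215) (nat_lit 5) (nat_lit 456) (nat_lit 410) (nat_lit 154)) (XT.lf (nat_lit 0) (nat_lit 457729569341) (nat_lit 228) (nat_lit 4544345781) (nat_lit 76) (nat_lit 4514250806) (nat_lit 212) (nat_lit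 5) (nat_lit 215) (nat_lit 5) (nat_lit 213) (nat_lit 4) (nat_lit 457) (nat_lit 410) (nat_lit 153))))))) (XT.nd (nat_lit 1248) (nat_lit 836) (nat_lit 0) (XT.nd (nat_lit 624) (nat_lit 684) (nat_lit 0) (XT.nd (nat_lit 312) (nat_lit 456) (nat_lit 0) (XT.nd (nat_lit 156) (nat_lit 152) (nat_lit 0) (XT.nd (nat_lit 78) (nat_lit 152) (nat_lit 0) (XT.lf (nat_lit 0) (nat_lit 122749718888) (nat_lit 152) (nat_lit 179339807656) (nat_lit 76) (nat_lit 179309551767) (nat_lit 210) (nat_lit 5) (nat_lit 212) (nat_lit 5) (nat_lit 211) (nat_lit 5) (nat_lit 458) (nat_lit 410) (nat_lit 152)) (XT.lf (nat_lit 0) (nat_lit 131472213037) (nat_lit 152) (nat_lit 131502622177) (nat_lit 228) (nat_lit 233651735352) (nat_lit 208) (nat_lit 5) (nat_lit 210) (nat_lit 5) (nat_lit 211) (nat_lit 5) (nat_lit 459) (nat_lit 410) (nat_lit 151))) (XT.nd (nat_lit 78) (nat_lit 152) (nat_lit 0) (XT.lf (nat_lit 0) (nat_lit 414041527966) (nat_lit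 228) (nat_lit 49205746763) (nat_lit 76) (nat_lit 49176646674) (nat_lit 208) (nat_lit 5) (nat_lit 211) (nat_lit 5) (nat_lit 209) (nat_lit 4) (nat_lit 460) (nat_lit 410) (nat_lit 150)) (XT.lf (nat_lit 0) (nat_lit 49040860451) (nat_lit 152) (nat_lit 239813030001) (nat_lit 76) (nat_lit 239783797527) (nat_lit 206) (nat_lit 5) (nat_lit 208) (nat_lit 5) (nat_lit 207) (nat_lit 5) (nat_lit 461) (nat_lit 410) (nat_lit 149)))) (XT.nd (nat_lit 156) (nat_lit 304) (nat_lit 0) (XT.nd (nat_lit 78) (nat_lit 0) (nat_lit 0) (XT.lf (nat_lit 0) (nat_lit 101465356204) (nat_lit 152) (nat_lit 101494714758) (nat_lit 228) (nat_lit 342499876240) (nat_lit 204) (nat_lit 5) (nat_lit 206) (nat_lit 5) (nat_lit 207) (nat_lit 5) (nat_lit 462) (nat_lit 410) (nat_lit 148)) (XT.lf (nat_lit 0) (nat_lit 370189961305) (nat_lit 228) (nat_lit 96340348502) (nat_lit 76) (nat_lit 96312273616) (nat_lit 204) (nat_lit 5) (nat_lit 207) (nat_lit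 5) (nat_lit 205) (nat_lit 4) (nat_lit 463) (nat_lit 410) (nat_lit 147))) (XT.nd (nat_lit 78) (nat_lit 228) (nat_lit 0) (XT.lf (nat_lit 0) (nat_lit 275861968162) (nat_lit 76) (nat_lit 275890151961) (nat_lit 152) (nat_lit 29043692632) (nat_lit 203) (nat_lit 5) (nat_lit 204) (nat_lit 5) (nat_lit 205) (nat_lit 4) (nat_lit 464) (nat_lit 410) (nat_lit 146)) (XT.lf (nat_lit 0) (nat_lit 70453441771) (nat_lit 152) (nat_lit 70481729296) (nat_lit 228) (nat_lit 458462187426) (nat_lit 200) (nat_lit 5) (nat_lit 202) (nat_lit 5) (nat_lit 203) (nat_lit 5) (nat_lit 465) (nat_lit 410) (nat_lit 145))))) (XT.nd (nat_lit 312) (nat_lit 380) (nat_lit 0) (XT.nd (nat_lit 156) (nat_lit 228) (nat_lit 0) (XT.nd (nat_lit 78) (nat_lit 76) (nat_lit 0) (XT.lf (nat_lit 0) (nat_lit 325952662811) (nat_lit 228) (nat_lit 146301879908) (nat_lit 76) (nat_lit 146274845324) (nat_lit 200) (nat_lit 5) (nat_lit 203) (nat_lit 5) (nat_lit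 201) (nat_lit 4) (nat_lit 466) (nat_lit 410) (nat_lit 144)) (XT.lf (nat_lit 0) (nat_lit 262725588287) (nat_lit 76) (nat_lit 262752712473) (nat_lit 152) (nat_lit 112876854729) (nat_lit 199) (nat_lit 5) (nat_lit 200) (nat_lit 5) (nat_lit 201) (nat_lit 4) (nat_lit 467) (nat_lit 410) (nat_lit 143))) (XT.nd (nat_lit 78) (nat_lit 0) (nat_lit 0) (XT.lf (nat_lit 0) (nat_lit 38234842499) (nat_lit 152) (nat_lit 38262052021) (nat_lit 228) (nat_lit 582460377267) (nat_lit 196) (nat_lit 5) (nat_lit 198) (nat_lit 5) (nat_lit 199) (nat_lit 5) (nat_lit 468) (nat_lit 410) (nat_lit 142)) (XT.lf (nat_lit 0) (nat_lit 281094431608) (nat_lit 228) (nat_lit 199475553184) (nat_lit 76) (nat_lit 199449561951) (nat_lit 196) (nat_lit 5) (nat_lit 199) (nat_lit 5) (nat_lit 197) (nat_lit 4) (nat_lit 469) (nat_lit 410) (nat_lit 141)))) (XT.nd (nat_lit 156) (nat_lit 76) (nat_lit 0) (XT.nd (nat_lit 78) (nat_lit 228) (nat_lit 0) (XT.lf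 (nat_lit 0) (nat_lit 250214767275) (nat_lit 76) (nat_lit 250240832224) (nat_lit 152) (nat_lit 201452648253) (nat_lit 195) (nat_lit 5) (nat_lit 196) (nat_lit 5) (nat_lit 197) (nat_lit 4) (nat_lit 470) (nat_lit 410) (nat_lit 140)) (XT.lf (nat_lit 0) (nat_lit 4591961205) (nat_lit 152) (nat_lit 4618096361) (nat_lit 228) (nat_lit 715501463459) (nat_lit 192) (nat_lit 5) (nat_lit 194) (nat_lit 5) (nat_lit 195) (nat_lit 5) (nat_lit 471) (nat_lit 410) (nat_lit 139))) (XT.nd (nat_lit 78) (nat_lit 76) (nat_lit 0) (XT.lf (nat_lit 0) (nat_lit 235365274997) (nat_lit 228) (nat_lit 256281518416) (nat_lit 76) (nat_lit 256256564113) (nat_lit 192) (nat_lit 5) (nat_lit 195) (nat_lit 5) (nat_lit 193) (nat_lit 4) (nat_lit 472) (nat_lit 410) (nat_lit 138)) (XT.lf (nat_lit 0) (nat_lit 238299713599) (nat_lit 76) (nat_lit 238324728550) (nat_lit 152) (nat_lit 295440534260) (nat_lit 191) (nat_lit 5) (nat_lit 192) (nat_lit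 5) (nat_lit 193) (nat_lit 4) (nat_lit 473) (nat_lit 410) (nat_lit 137)))))) (XT.nd (nat_lit 624) (nat_lit 228) (nat_lit 0) (XT.nd (nat_lit 312) (nat_lit 380) (nat_lit 0) (XT.nd (nat_lit 156) (nat_lit 76) (nat_lit 0) (XT.nd (nat_lit 78) (nat_lit 152) (nat_lit 0) (XT.lf (nat_lit 0) (nat_lit 734789830842) (nat_lit 152) (nat_lit 31213280502) (nat_lit 0) (nat_lit 31189401732) (nat_lit 191) (nat_lit 5) (nat_lit 193) (nat_lit 4) (nat_lit 191) (nat_lit 4) (nat_lit 474) (nat_lit 410) (nat_lit 136)) (XT.lf (nat_lit 0) (nat_lit 188498448838) (nat_lit 152) (nat_lit 317178661381) (nat_lit 76) (nat_lit 317154730222) (nat_lit 189) (nat_lit 5) (nat_lit 191) (nat_lit 5) (nat_lit 190) (nat_lit 4) (nat_lit 475) (nat_lit 410) (nat_lit 135))) (XT.nd (nat_lit 78) (nat_lit 0) (nat_lit 0) (XT.lf (nat_lit 0) (nat_lit 226952054914) (nat_lit 76) (nat_lit 226976035967) (nat_lit 152) (nat_lit 395569863865) (nat_lit 188) (nat_lit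 5) (nat_lit 189) (nat_lit 5) (nat_lit 190) (nat_lit 4) (nat_lit 476) (nat_lit 410) (nat_lit 134)) (XT.lf (nat_lit 0) (nat_lit 739113944277) (nat_lit 152) (nat_lit 69041039191) (nat_lit 0) (nat_lit 69018154837) (nat_lit 188) (nat_lit 5) (nat_lit 190) (nat_lit 4) (nat_lit 188) (nat_lit 4) (nat_lit 477) (nat_lit 410) (nat_lit 133)))) (XT.nd (nat_lit 156) (nat_lit 152) (nat_lit 0) (XT.nd (nat_lit 78) (nat_lit 76) (nat_lit 0) (XT.lf (nat_lit 0) (nat_lit 140208318172) (nat_lit 152) (nat_lit 382668780286) (nat_lit 76) (nat_lit 382645852831) (nat_lit 186) (nat_lit 5) (nat_lit 188) (nat_lit 5) (nat_lit 187) (nat_lit 4) (nat_lit 478) (nat_lit 410) (nat_lit 132)) (XT.lf (nat_lit 0) (nat_lit 216144770373) (nat_lit 76) (nat_lit 216167738876) (nat_lit 152) (nat_lit 502636432526) (nat_lit 185) (nat_lit 5) (nat_lit 186) (nat_lit 5) (nat_lit 187) (nat_lit 4) (nat_lit 479) (nat_lit 410) (nat_lit 131))) (XT.nd (nat_lit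 78) (nat_lit 152) (nat_lit 0) (XT.lf (nat_lit 0) (nat_lit 747261830261) (nat_lit 152) (nat_lit 109097158751) (nat_lit 0) (nat_lit 109075246754) (nat_lit 185) (nat_lit 5) (nat_lit 187) (nat_lit 4) (nat_lit 185) (nat_lit 4) (nat_lit 480) (nat_lit 410) (nat_lit 130)) (XT.lf (nat_lit 0) (nat_lit 90188018634) (nat_lit 152) (nat_lit 453301180765) (nat_lit 76) (nat_lit 453279233310) (nat_lit 183) (nat_lit 5) (nat_lit 185) (nat_lit 5) (nat_lit 184) (nat_lit 4) (nat_lit 481) (nat_lit 410) (nat_lit 129))))) (XT.nd (nat_lit 47658) (nat_lit 0) (nat_lit 8512) (XT.nd (nat_lit 156) (nat_lit 152) (nat_lit 0) (XT.nd (nat_lit 78) (nat_lit 0) (nat_lit 0) (XT.lf (nat_lit 0) (nat_lit 205852126201) (nat_lit 76) (nat_lit 205874107426) (nat_lit 152) (nat_lit 617509686376) (nat_lit 182) (nat_lit 5) (nat_lit 183) (nat_lit 5) (nat_lit 184) (nat_lit 4) (nat_lit 482) (nat_lit 410) (nat_lit 128)) (XT.lf (nat_lit 0) (nat_lit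 759464449187) (nat_lit 152) (nat_lit 151688571558) (nat_lit 0) (nat_lit 151667606426) (nat_lit 182) (nat_lit 5) (nat_lit 184) (nat_lit 4) (nat_lit 182) (nat_lit 4) (nat_lit 483) (nat_lit 410) (nat_lit 127))) (XT.nd (nat_lit 47424) (nat_lit 0) (nat_lit 8512) (XT.lf (nat_lit 0) (nat_lit 38106897287) (nat_lit 152) (nat_lit 529677732492) (nat_lit 76) (nat_lit 529656738188) (nat_lit 180) (nat_lit 5) (nat_lit 182) (nat_lit 5) (nat_lit 181) (nat_lit 4) (nat_lit 484) (nat_lit 410) (nat_lit 126)) (XT.lf (nat_lit 0) (nat_lit 30453240651) (nat_lit 836) (nat_lit 17180689163) (nat_lit 836) (nat_lit 17180689163) (nat_lit 292) (nat_lit 3) (nat_lit 303) (nat_lit 3) (nat_lit 303) (nat_lit 5) (nat_lit 411) (nat_lit 411) (nat_lit 198)))) (XT.nd (nat_lit 156) (nat_lit 0) (nat_lit 76) (XT.nd (nat_lit 78) (nat_lit 0) (nat_lit 76) (XT.lf (nat_lit 76) (nat_lit 31460162318) (nat_lit 0) (nat_lit 31463998488) (nat_lit 836)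 (nat_lit 69921057225) (nat_lit 293) (nat_lit 5) (nat_lit 292) (nat_lit 3) (nat_lit 303) (nat_lit 5) (nat_lit 412) (nat_lit 411) (nat_lit 197)) (XT.lf (nat_lit 0) (nat_lit 66188668521) (nat_lit 760) (nat_lit 34991582196) (nat_lit 836) (nat_lit 34984449181) (nat_lit 293) (nat_lit 5) (nat_lit 303) (nat_lit 5) (nat_lit 304) (nat_lit 5) (nat_lit 413) (nat_lit 411) (nat_lit 196))) (XT.nd (nat_lit 78) (nat_lit 0) (nat_lit 76) (XT.lf (nat_lit 76) (nat_lit 35336613728) (nat_lit 0) (nat_lit 35347060570) (nat_lit 836) (nat_lit 68913117927) (nat_lit 294) (nat_lit 5) (nat_lit 293) (nat_lit 5) (nat_lit 304) (nat_lit 5) (nat_lit 414) (nat_lit 411) (nat_lit 195)) (XT.lf (nat_lit 0) (nat_lit 76532886640) (nat_lit 760) (nat_lit 33312042414) (nat_lit 836) (nat_lit 33299087300) (nat_lit 294) (nat_lit 5) (nat_lit 304) (nat_lit 5) (nat_lit 305) (nat_lit 5) (nat_lit 415) (nat_lit 411) (nat_lit 194))))))))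
noncomputable def xc303 : XT := (XT.nd (nat_lit 1248) (nat_lit 2660) (nat_lit 0) (XT.nd (nat_lit 624) (nat_lit 1444) (nat_lit 0) (XT.nd (nat_lit 312) (nat_lit 1064) (nat_lit 0) (XT.nd (nat_lit 156) (nat_lit 0) (nat_lit 76) (XT.nd (nat_lit 78) (nat_lit 0) (nat_lit 76) (XT.lf (nat_lit 76) (nat_lit 41946445156) (nat_lit 0) (nat_lit 41962262879) (nat_lit 836) (nat_lit 62898186234) (nat_lit 295) (nat_lit 5) (nat_lit 294) (nat_lit 5) (nat_lit 305) (nat_lit 5) (nat_lit 416) (nat_lit 411) (nat_lit 193)) (XT.lf (nat_lit 0) (nat_lit 92684202385) (nat_lit 760) (nat_lit 28967415284) (nat_lit 836) (nat_lit 28949754315) (nat_lit 295) (nat_lit 5) (nat_lit 305) (nat_lit 5) (nat_lit 306) (nat_lit 5) (nat_lit 417) (nat_lit 411) (nat_lit 192))) (XT.nd (nat_lit 78) (nat_lit 0) (nat_lit 76) (XT.lf (nat_lit 76) (nat_lit 51686510205) (nat_lit 0) (nat_lit 51706644003) (nat_lit 836) (nat_lit 51117685240) (nat_lit 296)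 (nat_lit 5) (nat_lit 295) (nat_lit 5) (nat_lit 306) (nat_lit 5) (nat_lit 418) (nat_lit 411) (nat_lit 191)) (XT.lf (nat_lit 0) (nat_lit 115475339614) (nat_lit 760) (nat_lit 21559984673) (nat_lit 836) (nat_lit 21538566698) (nat_lit 296) (nat_lit 5) (nat_lit 306) (nat_lit 5) (nat_lit 307) (nat_lit 5) (nat_lit 419) (nat_lit 411) (nat_lit 190)))) (XT.nd (nat_lit 156) (nat_lit 1216) (nat_lit 0) (XT.nd (nat_lit 78) (nat_lit 0) (nat_lit 76) (XT.lf (nat_lit 76) (nat_lit 65000193715) (nat_lit 0) (nat_lit 65023747813) (nat_lit 836) (nat_lit 32723038209) (nat_lit 297) (nat_lit 5) (nat_lit 296) (nat_lit 5) (nat_lit 307) (nat_lit 5) (nat_lit 420) (nat_lit 411) (nat_lit 189)) (XT.lf (nat_lit 0) (nat_lit 145836231566) (nat_lit 760) (nat_lit 10645024230) (nat_lit 76) (nat_lit 10620654229) (nat_lit 297) (nat_lit 5) (nat_lit 307) (nat_lit 5) (nat_lit 298) (nat_lit 5) (nat_lit 421) (nat_lit 411) (nat_lit 188))) (XT.nd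 (nat_lit 78) (nat_lit 532) (nat_lit 0) (XT.lf (nat_lit 0) (nat_lit 82382471072) (nat_lit 760) (nat_lit 82408686337) (nat_lit 836) (nat_lit 6765828354) (nat_lit 287) (nat_lit 5) (nat_lit 297) (nat_lit 5) (nat_lit 298) (nat_lit 5) (nat_lit 422) (nat_lit 411) (nat_lit 187)) (XT.lf (nat_lit 0) (nat_lit 4204509219) (nat_lit 456) (nat_lit 4232481877) (nat_lit 532) (nat_lit 167778784840) (nat_lit 280) (nat_lit 5) (nat_lit 286) (nat_lit 5) (nat_lit 287) (nat_lit 5) (nat_lit 423) (nat_lit 411) (nat_lit 186))))) (XT.nd (nat_lit 312) (nat_lit 684) (nat_lit 0) (XT.nd (nat_lit 156) (nat_lit 380) (nat_lit 0) (XT.nd (nat_lit 78) (nat_lit 380) (nat_lit 0) (XT.lf (nat_lit 0) (nat_lit 26922888111) (nat_lit 532) (nat_lit 77034895369) (nat_lit 76) (nat_lit 77006660735) (nat_lit 280) (nat_lit 5) (nat_lit 287) (nat_lit 5) (nat_lit 281) (nat_lit 5) (nat_lit 424) (nat_lit 411) (nat_lit 185)) (XT.lf (nat_lit 0) (nat_lit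 23368707995) (nat_lit 380) (nat_lit 23398460733) (nat_lit 456) (nat_lit 139161672744) (nat_lit 275) (nat_lit 5) (nat_lit 280) (nat_lit 5) (nat_lit 281) (nat_lit 5) (nat_lit 425) (nat_lit 411) (nat_lit 184))) (XT.nd (nat_lit 78) (nat_lit 380) (nat_lit 0) (XT.lf (nat_lit 0) (nat_lit 69884860482) (nat_lit 456) (nat_lit 60586125579) (nat_lit 76) (nat_lit 60556412675) (nat_lit 275) (nat_lit 5) (nat_lit 281) (nat_lit 5) (nat_lit 276) (nat_lit 5) (nat_lit 426) (nat_lit 411) (nat_lit 183)) (XT.lf (nat_lit 0) (nat_lit 47627226317) (nat_lit 380) (nat_lit 47658250615) (nat_lit 456) (nat_lit 101039054927) (nat_lit 270) (nat_lit 5) (nat_lit 275) (nat_lit 5) (nat_lit 276) (nat_lit 5) (nat_lit 427) (nat_lit 411) (nat_lit 182)))) (XT.nd (nat_lit 156) (nat_lit 380) (nat_lit 0) (XT.nd (nat_lit 78) (nat_lit 304) (nat_lit 0) (XT.lf (nat_lit 0) (nat_lit 123612375514) (nat_lit 456) (nat_lit 39111034991) (nat_lit 76)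 (nat_lit 39080298567) (nat_lit 270) (nat_lit 5) (nat_lit 276) (nat_lit 5) (nat_lit 271) (nat_lit 5) (nat_lit 428) (nat_lit 411) (nat_lit 181)) (XT.lf (nat_lit 0) (nat_lit 77658688501) (nat_lit 304) (nat_lit 77690557757) (nat_lit 380) (nat_lit 52107917525) (nat_lit 266) (nat_lit 5) (nat_lit 270) (nat_lit 5) (nat_lit 271) (nat_lit 5) (nat_lit 429) (nat_lit 411) (nat_lit 180))) (XT.nd (nat_lit 78) (nat_lit 380) (nat_lit 0) (XT.lf (nat_lit 0) (nat_lit 189527075343) (nat_lit 380) (nat_lit 11927444666) (nat_lit 76) (nat_lit 11896065482) (nat_lit 266) (nat_lit 5) (nat_lit 271) (nat_lit 5) (nat_lit 267) (nat_lit 5) (nat_lit 430) (nat_lit 411) (nat_lit 179)) (XT.lf (nat_lit 0) (nat_lit 8793968395) (nat_lit 380) (nat_lit 105308568370) (nat_lit 76) (nat_lit 105276210604) (nat_lit 261) (nat_lit 5) (nat_lit 266) (nat_lit 5) (nat_lit 262) (nat_lit 5) (nat_lit 431) (nat_lit 411) (nat_lit 178)))))) (XT.nd (nat_lit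 624) (nat_lit 1216) (nat_lit 0) (XT.nd (nat_lit 312) (nat_lit 836) (nat_lit 0) (XT.nd (nat_lit 156) (nat_lit 304) (nat_lit 0) (XT.nd (nat_lit 78) (nat_lit 0) (nat_lit 0) (XT.lf (nat_lit 0) (nat_lit 21373650797) (nat_lit 304) (nat_lit 21406940547) (nat_lit 380) (nat_lit 182881253697) (nat_lit 257) (nat_lit 5) (nat_lit 261) (nat_lit 5) (nat_lit 262) (nat_lit 5) (nat_lit 432) (nat_lit 411) (nat_lit 177)) (XT.lf (nat_lit 0) (nat_lit 81464500003) (nat_lit 380) (nat_lit 75338624863) (nat_lit 76) (nat_lit 75306075003) (nat_lit 257) (nat_lit 5) (nat_lit 262) (nat_lit 5) (nat_lit 258) (nat_lit 5) (nat_lit 433) (nat_lit 411) (nat_lit 176))) (XT.nd (nat_lit 78) (nat_lit 0) (nat_lit 0) (XT.lf (nat_lit 0) (nat_lit 61681549123) (nat_lit 304) (nat_lit 61714904065) (nat_lit 380) (nat_lit 115416776794) (nat_lit 253) (nat_lit 5) (nat_lit 257) (nat_lit 5) (nat_lit 258) (nat_lit 5) (nat_lit 434) (nat_lit 411) (nat_lit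 175)) (XT.lf (nat_lit 0) (nat_lit 169316993426) (nat_lit 380) (nat_lit 38236682776) (nat_lit 76) (nat_lit 38204185931) (nat_lit 253) (nat_lit 5) (nat_lit 258) (nat_lit 5) (nat_lit 254) (nat_lit 5) (nat_lit 435) (nat_lit 411) (nat_lit 174)))) (XT.nd (nat_lit 156) (nat_lit 228) (nat_lit 0) (XT.nd (nat_lit 78) (nat_lit 380) (nat_lit 0) (XT.lf (nat_lit 0) (nat_lit 110115601247) (nat_lit 228) (nat_lit 110148793552) (nat_lit 304) (nat_lit 32648789386) (nat_lit 250) (nat_lit 5) (nat_lit 253) (nat_lit 5) (nat_lit 254) (nat_lit 5) (nat_lit 436) (nat_lit 411) (nat_lit 173)) (XT.lf (nat_lit 0) (nat_lit 6818416370) (nat_lit 304) (nat_lit 6852271019) (nat_lit 380) (nat_lit 246706950289) (nat_lit 245) (nat_lit 5) (nat_lit 249) (nat_lit 5) (nat_lit 250) (nat_lit 5) (nat_lit 437) (nat_lit 411) (nat_lit 172))) (XT.nd (nat_lit 78) (nat_lit 228) (nat_lit 0) (XT.lf (nat_lit 0) (nat_lit 65253222669) (nat_lit 380) (nat_lit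 101382979130) (nat_lit 76) (nat_lit 101350135843) (nat_lit 245) (nat_lit 5) (nat_lit 250) (nat_lit 5) (nat_lit 246) (nat_lit 5) (nat_lit 438) (nat_lit 411) (nat_lit 171)) (XT.lf (nat_lit 0) (nat_lit 60216932821) (nat_lit 228) (nat_lit 60250348265) (nat_lit 304) (nat_lit 155455571697) (nat_lit 242) (nat_lit 5) (nat_lit 245) (nat_lit 5) (nat_lit 246) (nat_lit 5) (nat_lit 439) (nat_lit 411) (nat_lit 170))))) (XT.nd (nat_lit 312) (nat_lit 684) (nat_lit 0) (XT.nd (nat_lit 156) (nat_lit 304) (nat_lit 0) (XT.nd (nat_lit 78) (nat_lit 228) (nat_lit 0) (XT.lf (nat_lit 0) (nat_lit 180990423648) (nat_lit 304) (nat_lit 51585347084) (nat_lit 76) (nat_lit 51553003888) (nat_lit 242) (nat_lit 5) (nat_lit 246) (nat_lit 5) (nat_lit 243) (nat_lit 5) (nat_lit 440) (nat_lit 411) (nat_lit 169)) (XT.lf (nat_lit 0) (nat_lit 123713009159) (nat_lit 228) (nat_lit 123745846606) (nat_lit 304) (nat_lit 45140180165) (nat_lit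 239) (nat_lit 5) (nat_lit 242) (nat_lit 5) (nat_lit 243) (nat_lit 5) (nat_lit 441) (nat_lit 411) (nat_lit 168))) (XT.nd (nat_lit 78) (nat_lit 0) (nat_lit 0) (XT.lf (nat_lit 0) (nat_lit 8117417895) (nat_lit 228) (nat_lit 8150726056) (nat_lit 304) (nat_lit 285161635306) (nat_lit 235) (nat_lit 5) (nat_lit 238) (nat_lit 5) (nat_lit 239) (nat_lit 5) (nat_lit 442) (nat_lit 411) (nat_lit 167)) (XT.lf (nat_lit 0) (nat_lit 83904596362) (nat_lit 304) (nat_lit 113279438173) (nat_lit 76) (nat_lit 113247289162) (nat_lit 235) (nat_lit 5) (nat_lit 239) (nat_lit 5) (nat_lit 236) (nat_lit 5) (nat_lit 443) (nat_lit 411) (nat_lit 166)))) (XT.nd (nat_lit 156) (nat_lit 456) (nat_lit 0) (XT.nd (nat_lit 78) (nat_lit 0) (nat_lit 0) (XT.lf (nat_lit 0) (nat_lit 78121777663) (nat_lit 228) (nat_lit 78154333296) (nat_lit 304) (nat_lit 163539172421) (nat_lit 232) (nat_lit 5) (nat_lit 235) (nat_lit 5) (nat_lit 236) (nat_lit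 5) (nat_lit 444) (nat_lit 411) (nat_lit 165)) (XT.lf (nat_lit 0) (nat_lit 234947114155) (nat_lit 304) (nat_lit 47309327715) (nat_lit 76) (nat_lit 47277953534) (nat_lit 232) (nat_lit 5) (nat_lit 236) (nat_lit 5) (nat_lit 233) (nat_lit 5) (nat_lit 445) (nat_lit 411) (nat_lit 164))) (XT.nd (nat_lit 78) (nat_lit 304) (nat_lit 0) (XT.lf (nat_lit 0) (nat_lit 160654678298) (nat_lit 152) (nat_lit 160686403735) (nat_lit 228) (nat_lit 18208910269) (nat_lit 230) (nat_lit 5) (nat_lit 232) (nat_lit 5) (nat_lit 233) (nat_lit 5) (nat_lit 446) (nat_lit 411) (nat_lit 163)) (XT.lf (nat_lit 0) (nat_lit 30632414753) (nat_lit 228) (nat_lit 30664474718) (nat_lit 304) (nat_lit 288656462686) (nat_lit 226) (nat_lit 5) (nat_lit 229) (nat_lit 5) (nat_lit 230) (nat_lit 5) (nat_lit 447) (nat_lit 411) (nat_lit 162)))))))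
noncomputable def xc304 : XT := (XT.nd (nat_lit 1248) (nat_lit 1444) (nat_lit 0) (XT.nd (nat_lit 624) (nat_lit 760) (nat_lit 0) (XT.nd (nat_lit 312) (nat_lit 532) (nat_lit 0) (XT.nd (nat_lit 156) (nat_lit 228) (nat_lit 0) (XT.nd (nat_lit 78) (nat_lit 152) (nat_lit 0) (XT.lf (nat_lit 0) (nat_lit 148898062416) (nat_lit 304) (nat_lit 105879063939) (nat_lit 76) (nat_lit 105848227212) (nat_lit 226) (nat_lit 5) (nat_lit 230) (nat_lit 5) (nat_lit 227) (nat_lit 5) (nat_lit 448) (nat_lit 411) (nat_lit 161)) (XT.lf (nat_lit 0) (nat_lit 121624850302) (nat_lit 152) (nat_lit 121655976007) (nat_lit 228) (nat_lit 128430052122) (nat_lit 224) (nat_lit 5) (nat_lit 226) (nat_lit 5) (nat_lit 227) (nat_lit 5) (nat_lit 449) (nat_lit 411) (nat_lit 160))) (XT.nd (nat_lit 78) (nat_lit 228) (nat_lit 0) (XT.lf (nat_lit 0) (nat_lit 344488092222) (nat_lit 228) (nat_lit 19393612384) (nat_lit 76) (nat_lit 19363706744) (nat_lit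 224) (nat_lit 5) (nat_lit 227) (nat_lit 5) (nat_lit 225) (nat_lit 5) (nat_lit 450) (nat_lit 411) (nat_lit 159)) (XT.lf (nat_lit 0) (nat_lit 59273234691) (nat_lit 228) (nat_lit 167893989891) (nat_lit 76) (nat_lit 167863834621) (nat_lit 221) (nat_lit 5) (nat_lit 224) (nat_lit 5) (nat_lit 222) (nat_lit 5) (nat_lit 451) (nat_lit 411) (nat_lit 158)))) (XT.nd (nat_lit 156) (nat_lit 380) (nat_lit 0) (XT.nd (nat_lit 78) (nat_lit 0) (nat_lit 0) (XT.lf (nat_lit 0) (nat_lit 81237262345) (nat_lit 152) (nat_lit 81267655358) (nat_lit 228) (nat_lit 244789198373) (nat_lit 219) (nat_lit 5) (nat_lit 221) (nat_lit 5) (nat_lit 222) (nat_lit 5) (nat_lit 452) (nat_lit 411) (nat_lit 157)) (XT.lf (nat_lit 0) (nat_lit 274911080251) (nat_lit 228) (nat_lit 72543881070) (nat_lit 76) (nat_lit 72514719703) (nat_lit 219) (nat_lit 5) (nat_lit 222) (nat_lit 5) (nat_lit 220) (nat_lit 5) (nat_lit 453) (nat_lit 411) (nat_lit 156)))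 (XT.nd (nat_lit 78) (nat_lit 228) (nat_lit 0) (XT.lf (nat_lit 0) (nat_lit 198671096477) (nat_lit 152) (nat_lit 198700463215) (nat_lit 228) (nat_lit 35685764089) (nat_lit 217) (nat_lit 5) (nat_lit 219) (nat_lit 5) (nat_lit 220) (nat_lit 5) (nat_lit 454) (nat_lit 411) (nat_lit 155)) (XT.lf (nat_lit 0) (nat_lit 39226881228) (nat_lit 152) (nat_lit 39256443558) (nat_lit 228) (nat_lit 368161177385) (nat_lit 214) (nat_lit 5) (nat_lit 216) (nat_lit 5) (nat_lit 217) (nat_lit 5) (nat_lit 455) (nat_lit 411) (nat_lit 154))))) (XT.nd (nat_lit 312) (nat_lit 456) (nat_lit 0) (XT.nd (nat_lit 156) (nat_lit 152) (nat_lit 0) (XT.nd (nat_lit 78) (nat_lit 152) (nat_lit 0) (XT.lf (nat_lit 0) (nat_lit 203196983211) (nat_lit 228) (nat_lit 128705684055) (nat_lit 76) (nat_lit 128677352048) (nat_lit 214) (nat_lit 5) (nat_lit 217) (nat_lit 5) (nat_lit 215) (nat_lit 5) (nat_lit 456) (nat_lit 411) (nat_lit 153)) (XT.lf (nat_lit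 0) (nat_lit 168697578562) (nat_lit 152) (nat_lit 168726079530) (nat_lit 228) (nat_lit 137624787547) (nat_lit 212) (nat_lit 5) (nat_lit 214) (nat_lit 5) (nat_lit 215) (nat_lit 5) (nat_lit 457) (nat_lit 411) (nat_lit 152))) (XT.nd (nat_lit 78) (nat_lit 152) (nat_lit 0) (XT.lf (nat_lit 0) (nat_lit 480617775331) (nat_lit 228) (nat_lit 4768504774) (nat_lit 76) (nat_lit 4741207744) (nat_lit 212) (nat_lit 5) (nat_lit 215) (nat_lit 5) (nat_lit 213) (nat_lit 4) (nat_lit 458) (nat_lit 411) (nat_lit 151)) (XT.lf (nat_lit 0) (nat_lit 128888924812) (nat_lit 152) (nat_lit 188303732199) (nat_lit 76) (nat_lit 188276289216) (nat_lit 210) (nat_lit 5) (nat_lit 212) (nat_lit 5) (nat_lit 211) (nat_lit 5) (nat_lit 459) (nat_lit 411) (nat_lit 150)))) (XT.nd (nat_lit 156) (nat_lit 304) (nat_lit 0) (XT.nd (nat_lit 78) (nat_lit 0) (nat_lit 0) (XT.lf (nat_lit 0) (nat_lit 138048840079) (nat_lit 152) (nat_lit 138076422066)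 (nat_lit 228) (nat_lit 245332552691) (nat_lit 208) (nat_lit 5) (nat_lit 210) (nat_lit 5) (nat_lit 211) (nat_lit 5) (nat_lit 460) (nat_lit 411) (nat_lit 149)) (XT.lf (nat_lit 0) (nat_lit 434745229083) (nat_lit 228) (nat_lit 51663100897) (nat_lit 76) (nat_lit 51636706258) (nat_lit 208) (nat_lit 5) (nat_lit 211) (nat_lit 5) (nat_lit 209) (nat_lit 4) (nat_lit 461) (nat_lit 411) (nat_lit 148))) (XT.nd (nat_lit 78) (nat_lit 152) (nat_lit 0) (XT.lf (nat_lit 0) (nat_lit 51494521987) (nat_lit 152) (nat_lit 251800742090) (nat_lit 76) (nat_lit 251774227375) (nat_lit 206) (nat_lit 5) (nat_lit 208) (nat_lit 5) (nat_lit 207) (nat_lit 5) (nat_lit 462) (nat_lit 411) (nat_lit 147)) (XT.lf (nat_lit 0) (nat_lit 106541516015) (nat_lit 152) (nat_lit 106568145089) (nat_lit 228) (nat_lit 359623204129) (nat_lit 204) (nat_lit 5) (nat_lit 206) (nat_lit 5) (nat_lit 207) (nat_lit 5) (nat_lit 463) (nat_lit 411) (nat_lit 146))))))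 (XT.nd (nat_lit 624) (nat_lit 760) (nat_lit 0) (XT.nd (nat_lit 312) (nat_lit 380) (nat_lit 0) (XT.nd (nat_lit 156) (nat_lit 228) (nat_lit 0) (XT.nd (nat_lit 78) (nat_lit 76) (nat_lit 0) (XT.lf (nat_lit 0) (nat_lit 388700989821) (nat_lit 228) (nat_lit 101154555499) (nat_lit 76) (nat_lit 101129090750) (nat_lit 204) (nat_lit 5) (nat_lit 207) (nat_lit 5) (nat_lit 205) (nat_lit 4) (nat_lit 464) (nat_lit 411) (nat_lit 145)) (XT.lf (nat_lit 0) (nat_lit 289657831668) (nat_lit 76) (nat_lit 289683395204) (nat_lit 152) (nat_lit 30494301483) (nat_lit 203) (nat_lit 5) (nat_lit 204) (nat_lit 5) (nat_lit 205) (nat_lit 4) (nat_lit 465) (nat_lit 411) (nat_lit 144))) (XT.nd (nat_lit 78) (nat_lit 0) (nat_lit 0) (XT.lf (nat_lit 0) (nat_lit 73978883980) (nat_lit 152) (nat_lit 74004541600) (nat_lit 228) (nat_lit 481383726040) (nat_lit 200) (nat_lit 5) (nat_lit 202) (nat_lit 5) (nat_lit 203) (nat_lit 5) (nat_lit 466)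 (nat_lit 411) (nat_lit 143)) (XT.lf (nat_lit 0) (nat_lit 342251739621) (nat_lit 228) (nat_lit 153614283402) (nat_lit 76) (nat_lit 153589762238) (nat_lit 200) (nat_lit 5) (nat_lit 203) (nat_lit 5) (nat_lit 201) (nat_lit 4) (nat_lit 467) (nat_lit 411) (nat_lit 142)))) (XT.nd (nat_lit 156) (nat_lit 76) (nat_lit 0) (XT.nd (nat_lit 78) (nat_lit 228) (nat_lit 0) (XT.lf (nat_lit 0) (nat_lit 275864514807) (nat_lit 76) (nat_lit 275889117244) (nat_lit 152) (nat_lit 118519210400) (nat_lit 199) (nat_lit 5) (nat_lit 200) (nat_lit 5) (nat_lit 201) (nat_lit 4) (nat_lit 468) (nat_lit 411) (nat_lit 141)) (XT.lf (nat_lit 0) (nat_lit 40149235862) (nat_lit 152) (nat_lit 40173915701) (nat_lit 228) (nat_lit 611581913198) (nat_lit 196) (nat_lit 5) (nat_lit 198) (nat_lit 5) (nat_lit 199) (nat_lit 5) (nat_lit 469) (nat_lit 411) (nat_lit 140))) (XT.nd (nat_lit 78) (nat_lit 76) (nat_lit 0) (XT.lf (nat_lit 0) (nat_lit 295150516674)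 (nat_lit 228) (nat_lit 209446757024) (nat_lit 76) (nat_lit 209423182209) (nat_lit 196) (nat_lit 5) (nat_lit 199) (nat_lit 5) (nat_lit 197) (nat_lit 4) (nat_lit 470) (nat_lit 411) (nat_lit 139)) (XT.lf (nat_lit 0) (nat_lit 262728037945) (nat_lit 76) (nat_lit 262751679623) (nat_lit 152) (nat_lit 211523875667) (nat_lit 195) (nat_lit 5) (nat_lit 196) (nat_lit 5) (nat_lit 197) (nat_lit 4) (nat_lit 471) (nat_lit 411) (nat_lit 138))))) (XT.nd (nat_lit 312) (nat_lit 456) (nat_lit 0) (XT.nd (nat_lit 156) (nat_lit 76) (nat_lit 0) (XT.nd (nat_lit 78) (nat_lit 0) (nat_lit 0) (XT.lf (nat_lit 0) (nat_lit 4824094972) (nat_lit 152) (nat_lit 4847800328) (nat_lit 228) (nat_lit 751275135034) (nat_lit 192) (nat_lit 5) (nat_lit 194) (nat_lit 5) (nat_lit 195) (nat_lit 5) (nat_lit 472) (nat_lit 411) (nat_lit 137)) (XT.lf (nat_lit 0) (nat_lit 247134827894) (nat_lit 228) (nat_lit 269093133670) (nat_lit 76) (nat_lit 269070499381)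 (nat_lit 192) (nat_lit 5) (nat_lit 195) (nat_lit 5) (nat_lit 193) (nat_lit 4) (nat_lit 473) (nat_lit 411) (nat_lit 136))) (XT.nd (nat_lit 78) (nat_lit 0) (nat_lit 0) (XT.lf (nat_lit 0) (nat_lit 250217120258) (nat_lit 76) (nat_lit 250239809556) (nat_lit 152) (nat_lit 310211232137) (nat_lit 191) (nat_lit 5) (nat_lit 192) (nat_lit 5) (nat_lit 193) (nat_lit 4) (nat_lit 474) (nat_lit 411) (nat_lit 135)) (XT.lf (nat_lit 0) (nat_lit 771530544858) (nat_lit 152) (nat_lit 32771595749) (nat_lit 0) (nat_lit 32749937000) (nat_lit 191) (nat_lit 5) (nat_lit 193) (nat_lit 4) (nat_lit 191) (nat_lit 4) (nat_lit 475) (nat_lit 411) (nat_lit 134)))) (XT.nd (nat_lit 156) (nat_lit 228) (nat_lit 0) (XT.nd (nat_lit 78) (nat_lit 76) (nat_lit 0) (XT.lf (nat_lit 0) (nat_lit 197924591297) (nat_lit 152) (nat_lit 333035243216) (nat_lit 76) (nat_lit 333013536949) (nat_lit 189) (nat_lit 5) (nat_lit 191) (nat_lit 5) (nat_lit 190)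 (nat_lit 4) (nat_lit 476) (nat_lit 411) (nat_lit 133)) (XT.lf (nat_lit 0) (nat_lit 238301970971) (nat_lit 76) (nat_lit 238323722493) (nat_lit 152) (nat_lit 415347099118) (nat_lit 188) (nat_lit 5) (nat_lit 189) (nat_lit 5) (nat_lit 190) (nat_lit 4) (nat_lit 477) (nat_lit 411) (nat_lit 132))) (XT.nd (nat_lit 78) (nat_lit 228) (nat_lit 0) (XT.lf (nat_lit 0) (nat_lit 776070799063) (nat_lit 152) (nat_lit 72490847531) (nat_lit 0) (nat_lit 72470090747) (nat_lit 188) (nat_lit 5) (nat_lit 190) (nat_lit 4) (nat_lit 188) (nat_lit 4) (nat_lit 478) (nat_lit 411) (nat_lit 131)) (XT.nd (nat_lit 78) (nat_lit 76) (nat_lit 0) (XT.lf (nat_lit 0) (nat_lit 147219889633) (nat_lit 152) (nat_lit 401799973660) (nat_lit 76) (nat_lit 401779177783) (nat_lit 186) (nat_lit 5) (nat_lit 188) (nat_lit 5) (nat_lit 187) (nat_lit 4) (nat_lit 479) (nat_lit 411) (nat_lit 130)) (XT.lf (nat_lit 0) (nat_lit 226954218312) (nat_lit 76)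 (nat_lit 226975051421) (nat_lit 152) (nat_lit 527767062380) (nat_lit 185) (nat_lit 5) (nat_lit 186) (nat_lit 5) (nat_lit 187) (nat_lit 4) (nat_lit 480) (nat_lit 411) (nat_lit 129))))))))
noncomputable def xc305 : XT := (XT.nd (nat_lit 49920) (nat_lit 0) (nat_lit 1064) (XT.nd (nat_lit 48672) (nat_lit 0) (nat_lit 4788) (XT.nd (nat_lit 48048) (nat_lit 0) (nat_lit 7980) (XT.nd (nat_lit 47736) (nat_lit 0) (nat_lit 8360) (XT.nd (nat_lit 156) (nat_lit 76) (nat_lit 0) (XT.nd (nat_lit 78) (nat_lit 152) (nat_lit 0) (XT.lf (nat_lit 0) (nat_lit 784626018722) (nat_lit 152) (nat_lit 114549874406) (nat_lit 0) (nat_lit 114529999579) (nat_lit 185) (nat_lit 5) (nat_lit 187) (nat_lit 4) (nat_lit 185) (nat_lit 4) (nat_lit 481) (nat_lit 411) (nat_lit 128)) (XT.lf (nat_lit 0) (nat_lit 94698514851) (nat_lit 152) (nat_lit 475964095859) (nat_lit 76) (nat_lit 475944188870) (nat_lit 183) (nat_lit 5) (nat_lit 185) (nat_lit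 5) (nat_lit 184) (nat_lit 4) (nat_lit 482) (nat_lit 411) (nat_lit 127))) (XT.nd (nat_lit 78) (nat_lit 0) (nat_lit 0) (XT.lf (nat_lit 0) (nat_lit 216146841876) (nat_lit 76) (nat_lit 216166779495) (nat_lit 152) (nat_lit 648384040829) (nat_lit 182) (nat_lit 5) (nat_lit 183) (nat_lit 5) (nat_lit 184) (nat_lit 4) (nat_lit 483) (nat_lit 411) (nat_lit 126)) (XT.lf (nat_lit 0) (nat_lit 797438711832) (nat_lit 152) (nat_lit 159270955340) (nat_lit 0) (nat_lit 159251939348) (nat_lit 182) (nat_lit 5) (nat_lit 184) (nat_lit 4) (nat_lit 182) (nat_lit 4) (nat_lit 484) (nat_lit 411) (nat_lit 125)))) (XT.nd (nat_lit 156) (nat_lit 0) (nat_lit 76) (XT.nd (nat_lit 78) (nat_lit 0) (nat_lit 0) (XT.lf (nat_lit 0) (nat_lit 31979678961) (nat_lit 836) (nat_lit 18037741076) (nat_lit 836) (nat_lit 18037741076) (nat_lit 292) (nat_lit 3) (nat_lit 303) (nat_lit 3) (nat_lit 303) (nat_lit 5) (nat_lit 412) (nat_lit 412) (nat_lit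 196)) (XT.lf (nat_lit 76) (nat_lit 33037071571) (nat_lit 0) (nat_lit 33040551091) (nat_lit 836) (nat_lit 73409493579) (nat_lit 293) (nat_lit 5) (nat_lit 292) (nat_lit 3) (nat_lit 303) (nat_lit 5) (nat_lit 413) (nat_lit 412) (nat_lit 195))) (XT.nd (nat_lit 78) (nat_lit 0) (nat_lit 0) (XT.lf (nat_lit 0) (nat_lit 69504960491) (nat_lit 760) (nat_lit 36737050665) (nat_lit 836) (nat_lit 36730580810) (nat_lit 293) (nat_lit 5) (nat_lit 303) (nat_lit 5) (nat_lit 304) (nat_lit 5) (nat_lit 414) (nat_lit 412) (nat_lit 194)) (XT.lf (nat_lit 76) (nat_lit 37107488754) (nat_lit 0) (nat_lit 37116964348) (nat_lit 836) (nat_lit 72351848979) (nat_lit 294) (nat_lit 5) (nat_lit 293) (nat_lit 5) (nat_lit 304) (nat_lit 5) (nat_lit 415) (nat_lit 412) (nat_lit 193))))) (XT.nd (nat_lit 312) (nat_lit 532) (nat_lit 0) (XT.nd (nat_lit 156) (nat_lit 0) (nat_lit 76) (XT.nd (nat_lit 78) (nat_lit 0) (nat_lit 0) (XT.lf (nat_lit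 0) (nat_lit 80365774082) (nat_lit 760) (nat_lit 34973440802) (nat_lit 836) (nat_lit 34961690132) (nat_lit 294) (nat_lit 5) (nat_lit 304) (nat_lit 5) (nat_lit 305) (nat_lit 5) (nat_lit 416) (nat_lit 412) (nat_lit 192)) (XT.lf (nat_lit 76) (nat_lit 44047903344) (nat_lit 0) (nat_lit 44062250485) (nat_lit 836) (nat_lit 66036784634) (nat_lit 295) (nat_lit 5) (nat_lit 294) (nat_lit 5) (nat_lit 305) (nat_lit 5) (nat_lit 417) (nat_lit 412) (nat_lit 191))) (XT.nd (nat_lit 78) (nat_lit 0) (nat_lit 0) (XT.lf (nat_lit 0) (nat_lit 97324108816) (nat_lit 760) (nat_lit 30411532985) (nat_lit 836) (nat_lit 30395513966) (nat_lit 295) (nat_lit 5) (nat_lit 305) (nat_lit 5) (nat_lit 306) (nat_lit 5) (nat_lit 418) (nat_lit 412) (nat_lit 190)) (XT.lf (nat_lit 76) (nat_lit 54275020180) (nat_lit 0) (nat_lit 54293282128) (nat_lit 836) (nat_lit 53667804592) (nat_lit 296) (nat_lit 5) (nat_lit 295) (nat_lit 5) (nat_lit 306)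 (nat_lit 5) (nat_lit 419) (nat_lit 412) (nat_lit 189)))) (XT.nd (nat_lit 156) (nat_lit 684) (nat_lit 0) (XT.nd (nat_lit 78) (nat_lit 0) (nat_lit 0) (XT.lf (nat_lit 0) (nat_lit 121254316119) (nat_lit 760) (nat_lit 22633717837) (nat_lit 836) (nat_lit 22614291102) (nat_lit 296) (nat_lit 5) (nat_lit 306) (nat_lit 5) (nat_lit 307) (nat_lit 5) (nat_lit 420) (nat_lit 412) (nat_lit 188)) (XT.lf (nat_lit 76) (nat_lit 68254400663) (nat_lit 0) (nat_lit 68275764924) (nat_lit 836) (nat_lit 34353911788) (nat_lit 297) (nat_lit 5) (nat_lit 296) (nat_lit 5) (nat_lit 307) (nat_lit 5) (nat_lit 421) (nat_lit 412) (nat_lit 187))) (XT.nd (nat_lit 78) (nat_lit 760) (nat_lit 0) (XT.lf (nat_lit 0) (nat_lit 153132818410) (nat_lit 760) (nat_lit 11173026331) (nat_lit 76) (nat_lit 11150922022) (nat_lit 297) (nat_lit 5) (nat_lit 307) (nat_lit 5) (nat_lit 298) (nat_lit 5) (nat_lit 422) (nat_lit 412) (nat_lit 186)) (XT.lf (nat_lit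 0) (nat_lit 86505775202) (nat_lit 760) (nat_lit 86529553220) (nat_lit 836) (nat_lit 7099275972) (nat_lit 287) (nat_lit 5) (nat_lit 297) (nat_lit 5) (nat_lit 298) (nat_lit 5) (nat_lit 423) (nat_lit 412) (nat_lit 185)))))) (XT.nd (nat_lit 624) (nat_lit 1596) (nat_lit 0) (XT.nd (nat_lit 312) (nat_lit 684) (nat_lit 0) (XT.nd (nat_lit 156) (nat_lit 380) (nat_lit 0) (XT.nd (nat_lit 78) (nat_lit 0) (nat_lit 0) (XT.lf (nat_lit 0) (nat_lit 4419000358) (nat_lit 456) (nat_lit 4444372384) (nat_lit 532) (nat_lit 176162965385) (nat_lit 280) (nat_lit 5) (nat_lit 286) (nat_lit 5) (nat_lit 287) (nat_lit 5) (nat_lit 424) (nat_lit 412) (nat_lit 184)) (XT.lf (nat_lit 0) (nat_lit 28273344834) (nat_lit 532) (nat_lit 80882357811) (nat_lit 76) (nat_lit 80856748165) (nat_lit 280) (nat_lit 5) (nat_lit 287) (nat_lit 5) (nat_lit 281) (nat_lit 5) (nat_lit 425) (nat_lit 412) (nat_lit 183))) (XT.nd (nat_lit 78) (nat_lit 0) (nat_lit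 0) (XT.lf (nat_lit 0) (nat_lit 24541356652) (nat_lit 380) (nat_lit 24568343262) (nat_lit 456) (nat_lit 146115374995) (nat_lit 275) (nat_lit 5) (nat_lit 280) (nat_lit 5) (nat_lit 281) (nat_lit 5) (nat_lit 426) (nat_lit 412) (nat_lit 182)) (XT.lf (nat_lit 0) (nat_lit 73383078155) (nat_lit 456) (nat_lit 63611221133) (nat_lit 76) (nat_lit 63584270653) (nat_lit 275) (nat_lit 5) (nat_lit 281) (nat_lit 5) (nat_lit 276) (nat_lit 5) (nat_lit 427) (nat_lit 412) (nat_lit 181)))) (XT.nd (nat_lit 156) (nat_lit 304) (nat_lit 0) (XT.nd (nat_lit 78) (nat_lit 0) (nat_lit 0) (XT.lf (nat_lit 0) (nat_lit 50012730443) (nat_lit 380) (nat_lit 50040870396) (nat_lit 456) (nat_lit 106086965110) (nat_lit 270) (nat_lit 5) (nat_lit 275) (nat_lit 5) (nat_lit 276) (nat_lit 5) (nat_lit 428) (nat_lit 412) (nat_lit 180)) (XT.lf (nat_lit 0) (nat_lit 129796665367) (nat_lit 456) (nat_lit 41062462223) (nat_lit 76) (nat_lit 41034583381)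 (nat_lit 270) (nat_lit 5) (nat_lit 276) (nat_lit 5) (nat_lit 271) (nat_lit 5) (nat_lit 429) (nat_lit 412) (nat_lit 179))) (XT.nd (nat_lit 78) (nat_lit 0) (nat_lit 0) (XT.lf (nat_lit 0) (nat_lit 81545680919) (nat_lit 304) (nat_lit 81574587274) (nat_lit 380) (nat_lit 54709575799) (nat_lit 266) (nat_lit 5) (nat_lit 270) (nat_lit 5) (nat_lit 271) (nat_lit 5) (nat_lit 430) (nat_lit 412) (nat_lit 178)) (XT.lf (nat_lit 0) (nat_lit 199006826636) (nat_lit 380) (nat_lit 12519790049) (nat_lit 76) (nat_lit 12491328204) (nat_lit 266) (nat_lit 5) (nat_lit 271) (nat_lit 5) (nat_lit 267) (nat_lit 5) (nat_lit 431) (nat_lit 412) (nat_lit 177))))) (XT.nd (nat_lit 312) (nat_lit 608) (nat_lit 0) (XT.nd (nat_lit 156) (nat_lit 304) (nat_lit 0) (XT.nd (nat_lit 78) (nat_lit 304) (nat_lit 0) (XT.lf (nat_lit 0) (nat_lit 9237018469) (nat_lit 380) (nat_lit 110569924067) (nat_lit 76) (nat_lit 110540574619) (nat_lit 261) (nat_lit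 5) (nat_lit 266) (nat_lit 5) (nat_lit 262) (nat_lit 5) (nat_lit 432) (nat_lit 412) (nat_lit 176)) (XT.lf (nat_lit 0) (nat_lit 22446340369) (nat_lit 304) (nat_lit 22476535154) (nat_lit 380) (nat_lit 192021899039) (nat_lit 257) (nat_lit 5) (nat_lit 261) (nat_lit 5) (nat_lit 262) (nat_lit 5) (nat_lit 433) (nat_lit 412) (nat_lit 175))) (XT.nd (nat_lit 78) (nat_lit 304) (nat_lit 0) (XT.lf (nat_lit 0) (nat_lit 85540835822) (nat_lit 380) (nat_lit 79101596091) (nat_lit 76) (nat_lit 79072072408) (nat_lit 257) (nat_lit 5) (nat_lit 262) (nat_lit 5) (nat_lit 258) (nat_lit 5) (nat_lit 434) (nat_lit 412) (nat_lit 174)) (XT.lf (nat_lit 0) (nat_lit 64769522723) (nat_lit 304) (nat_lit 64799776639) (nat_lit 380) (nat_lit 121184440944) (nat_lit 253) (nat_lit 5) (nat_lit 257) (nat_lit 5) (nat_lit 258) (nat_lit 5) (nat_lit 435) (nat_lit 412) (nat_lit 173)))) (XT.nd (nat_lit 156) (nat_lit 380) (nat_lit 0) (XT.nd (nat_lit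 78) (nat_lit 228) (nat_lit 0) (XT.lf (nat_lit 0) (nat_lit 177785735611) (nat_lit 380) (nat_lit 40144675300) (nat_lit 76) (nat_lit 40115199703) (nat_lit 253) (nat_lit 5) (nat_lit 258) (nat_lit 5) (nat_lit 254) (nat_lit 5) (nat_lit 436) (nat_lit 412) (nat_lit 172)) (XT.lf (nat_lit 0) (nat_lit 115625160962) (nat_lit 228) (nat_lit 115655267362) (nat_lit 304) (nat_lit 34278274381) (nat_lit 250) (nat_lit 5) (nat_lit 253) (nat_lit 5) (nat_lit 254) (nat_lit 5) (nat_lit 437) (nat_lit 412) (nat_lit 171))) (XT.nd (nat_lit 78) (nat_lit 0) (nat_lit 0) (XT.lf (nat_lit 0) (nat_lit 7163148917) (nat_lit 304) (nat_lit 7193856081) (nat_lit 380) (nat_lit 259039375403) (nat_lit 245) (nat_lit 5) (nat_lit 249) (nat_lit 5) (nat_lit 250) (nat_lit 5) (nat_lit 438) (nat_lit 412) (nat_lit 170)) (XT.lf (nat_lit 0) (nat_lit 68518549799) (nat_lit 380) (nat_lit 106448380628) (nat_lit 76) (nat_lit 106418590798) (nat_lit 245) (nat_lit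 5) (nat_lit 250) (nat_lit 5) (nat_lit 246) (nat_lit 5) (nat_lit 439) (nat_lit 412) (nat_lit 169))))))) (XT.nd (nat_lit 1248) (nat_lit 1596) (nat_lit 0) (XT.nd (nat_lit 624) (nat_lit 988) (nat_lit 0) (XT.nd (nat_lit 312) (nat_lit 380) (nat_lit 0) (XT.nd (nat_lit 156) (nat_lit 532) (nat_lit 0) (XT.nd (nat_lit 78) (nat_lit 0) (nat_lit 0) (XT.lf (nat_lit 0) (nat_lit 63231466478) (nat_lit 228) (nat_lit 63261775271) (nat_lit 304) (nat_lit 163225623843) (nat_lit 242) (nat_lit 5) (nat_lit 245) (nat_lit 5) (nat_lit 246) (nat_lit 5) (nat_lit 440) (nat_lit 412) (nat_lit 168)) (XT.lf (nat_lit 0) (nat_lit 190042434005) (nat_lit 304) (nat_lit 54160995560) (nat_lit 76) (nat_lit 54131659328) (nat_lit 242) (nat_lit 5) (nat_lit 246) (nat_lit 5) (nat_lit 243) (nat_lit 5) (nat_lit 441) (nat_lit 412) (nat_lit 167))) (XT.nd (nat_lit 78) (nat_lit 304) (nat_lit 0) (XT.lf (nat_lit 0) (nat_lit 129902220126) (nat_lit 228)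 (nat_lit 129932004658) (nat_lit 304) (nat_lit 47394641630) (nat_lit 239) (nat_lit 5) (nat_lit 242) (nat_lit 5) (nat_lit 243) (nat_lit 5) (nat_lit 442) (nat_lit 412) (nat_lit 166)) (XT.lf (nat_lit 0) (nat_lit 8526872093) (nat_lit 228) (nat_lit 8557083578) (nat_lit 304) (nat_lit 299417192323) (nat_lit 235) (nat_lit 5) (nat_lit 238) (nat_lit 5) (nat_lit 239) (nat_lit 5) (nat_lit 443) (nat_lit 412) (nat_lit 165)))) (XT.nd (nat_lit 156) (nat_lit 152) (nat_lit 0) (XT.nd (nat_lit 78) (nat_lit 228) (nat_lit 0) (XT.lf (nat_lit 0) (nat_lit 88102133729) (nat_lit 304) (nat_lit 118939900438) (nat_lit 76) (nat_lit 118910740337) (nat_lit 235) (nat_lit 5) (nat_lit 239) (nat_lit 5) (nat_lit 236) (nat_lit 5) (nat_lit 444) (nat_lit 412) (nat_lit 164)) (XT.lf (nat_lit 0) (nat_lit 82031319583) (nat_lit 228) (nat_lit 82060848501) (nat_lit 304) (nat_lit 171713766886) (nat_lit 232) (nat_lit 5) (nat_lit 235) (nat_lit 5)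 (nat_lit 236) (nat_lit 5) (nat_lit 445) (nat_lit 412) (nat_lit 163))) (XT.nd (nat_lit 78) (nat_lit 152) (nat_lit 0) (XT.lf (nat_lit 0) (nat_lit 246696632087) (nat_lit 304) (nat_lit 49671416142) (nat_lit 76) (nat_lit 49642958834) (nat_lit 232) (nat_lit 5) (nat_lit 236) (nat_lit 5) (nat_lit 233) (nat_lit 5) (nat_lit 446) (nat_lit 412) (nat_lit 162)) (XT.lf (nat_lit 0) (nat_lit 168690735689) (nat_lit 152) (nat_lit 168719511595) (nat_lit 228) (nat_lit 19117139075) (nat_lit 230) (nat_lit 5) (nat_lit 232) (nat_lit 5) (nat_lit 233) (nat_lit 5) (nat_lit 447) (nat_lit 412) (nat_lit 161))))) (XT.nd (nat_lit 312) (nat_lit 532) (nat_lit 0) (XT.nd (nat_lit 156) (nat_lit 152) (nat_lit 0) (XT.nd (nat_lit 78) (nat_lit 0) (nat_lit 0) (XT.lf (nat_lit 0) (nat_lit 32167375166) (nat_lit 228) (nat_lit 32196454499) (nat_lit 304) (nat_lit 303087085312) (nat_lit 226) (nat_lit 5) (nat_lit 229) (nat_lit 5) (nat_lit 230)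 (nat_lit 5) (nat_lit 448) (nat_lit 412) (nat_lit 160)) (XT.lf (nat_lit 0) (nat_lit 156344979959) (nat_lit 304) (nat_lit 111169755192) (nat_lit 76) (nat_lit 111141785372) (nat_lit 226) (nat_lit 5) (nat_lit 230) (nat_lit 5) (nat_lit 227) (nat_lit 5) (nat_lit 449) (nat_lit 412) (nat_lit 159))) (XT.nd (nat_lit 78) (nat_lit 0) (nat_lit 0) (XT.lf (nat_lit 0) (nat_lit 127709302148) (nat_lit 152) (nat_lit 127737534080) (nat_lit 228) (nat_lit 134849487694) (nat_lit 224) (nat_lit 5) (nat_lit 226) (nat_lit 5) (nat_lit 227) (nat_lit 5) (nat_lit 450) (nat_lit 412) (nat_lit 158)) (XT.lf (nat_lit 0) (nat_lit 361714390143) (nat_lit 228) (nat_lit 20360161203) (nat_lit 76) (nat_lit 20333035906) (nat_lit 224) (nat_lit 5) (nat_lit 227) (nat_lit 5) (nat_lit 225) (nat_lit 5) (nat_lit 451) (nat_lit 412) (nat_lit 157)))) (XT.nd (nat_lit 156) (nat_lit 152) (nat_lit 0) (XT.nd (nat_lit 78) (nat_lit 152) (nat_lit 0) (XT.lf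 (nat_lit 0) (nat_lit 62238778034) (nat_lit 228) (nat_lit 176285545884) (nat_lit 76) (nat_lit 176258194165) (nat_lit 221) (nat_lit 5) (nat_lit 224) (nat_lit 5) (nat_lit 222) (nat_lit 5) (nat_lit 452) (nat_lit 412) (nat_lit 156)) (XT.lf (nat_lit 0) (nat_lit 85302218262) (nat_lit 152) (nat_lit 85329785621) (nat_lit 228) (nat_lit 257026725981) (nat_lit 219) (nat_lit 5) (nat_lit 221) (nat_lit 5) (nat_lit 222) (nat_lit 5) (nat_lit 453) (nat_lit 412) (nat_lit 155))) (XT.nd (nat_lit 78) (nat_lit 152) (nat_lit 0) (XT.lf (nat_lit 0) (nat_lit 288658405550) (nat_lit 228) (nat_lit 76168060590) (nat_lit 76) (nat_lit 76141610371) (nat_lit 219) (nat_lit 5) (nat_lit 222) (nat_lit 5) (nat_lit 220) (nat_lit 5) (nat_lit 454) (nat_lit 412) (nat_lit 154)) (XT.lf (nat_lit 0) (nat_lit 208607617212) (nat_lit 152) (nat_lit 208634253709) (nat_lit 228) (nat_lit 37468232386) (nat_lit 217) (nat_lit 5) (nat_lit 219) (nat_lit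 5) (nat_lit 220) (nat_lit 5) (nat_lit 455) (nat_lit 412) (nat_lit 153)))))) (XT.nd (nat_lit 624) (nat_lit 760) (nat_lit 0) (XT.nd (nat_lit 312) (nat_lit 456) (nat_lit 0) (XT.nd (nat_lit 156) (nat_lit 152) (nat_lit 0) (XT.nd (nat_lit 78) (nat_lit 0) (nat_lit 0) (XT.lf (nat_lit 0) (nat_lit 41191200672) (nat_lit 152) (nat_lit 41218014577) (nat_lit 228) (nat_lit 386567425818) (nat_lit 214) (nat_lit 5) (nat_lit 216) (nat_lit 5) (nat_lit 217) (nat_lit 5) (nat_lit 456) (nat_lit 412) (nat_lit 152)) (XT.lf (nat_lit 0) (nat_lit 213358493094) (nat_lit 228) (nat_lit 135138071058) (nat_lit 76) (nat_lit 135112373092) (nat_lit 214) (nat_lit 5) (nat_lit 217) (nat_lit 5) (nat_lit 215) (nat_lit 5) (nat_lit 457) (nat_lit 412) (nat_lit 151))) (XT.nd (nat_lit 78) (nat_lit 0) (nat_lit 0) (XT.lf (nat_lit 0) (nat_lit 177135307962) (nat_lit 152) (nat_lit 177161159179) (nat_lit 228) (nat_lit 144504319473) (nat_lit 212)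 (nat_lit 5) (nat_lit 214) (nat_lit 5) (nat_lit 215) (nat_lit 5) (nat_lit 458) (nat_lit 412) (nat_lit 150)) (XT.lf (nat_lit 0) (nat_lit 504650231011) (nat_lit 228) (nat_lit 5004156048) (nat_lit 76) (nat_lit 4979396837) (nat_lit 212) (nat_lit 5) (nat_lit 215) (nat_lit 5) (nat_lit 213) (nat_lit 4) (nat_lit 459) (nat_lit 412) (nat_lit 149)))) (XT.nd (nat_lit 156) (nat_lit 152) (nat_lit 0) (XT.nd (nat_lit 78) (nat_lit 152) (nat_lit 0) (XT.lf (nat_lit 0) (nat_lit 135334931124) (nat_lit 152) (nat_lit 197716138003) (nat_lit 76) (nat_lit 197691246408) (nat_lit 210) (nat_lit 5) (nat_lit 212) (nat_lit 5) (nat_lit 211) (nat_lit 5) (nat_lit 460) (nat_lit 412) (nat_lit 148)) (XT.lf (nat_lit 0) (nat_lit 144954018038) (nat_lit 152) (nat_lit 144979035713) (nat_lit 228) (nat_lit 257597575402) (nat_lit 208) (nat_lit 5) (nat_lit 210) (nat_lit 5) (nat_lit 211) (nat_lit 5) (nat_lit 461) (nat_lit 412) (nat_lit 147)))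 (XT.nd (nat_lit 78) (nat_lit 152) (nat_lit 0) (XT.lf (nat_lit 0) (nat_lit 456483964204) (nat_lit 228) (nat_lit 54243595439) (nat_lit 76) (nat_lit 54219654723) (nat_lit 208) (nat_lit 5) (nat_lit 211) (nat_lit 5) (nat_lit 209) (nat_lit 4) (nat_lit 462) (nat_lit 412) (nat_lit 146)) (XT.lf (nat_lit 0) (nat_lit 54070716125) (nat_lit 152) (nat_lit 264388113063) (nat_lit 76) (nat_lit 264364063435) (nat_lit 206) (nat_lit 5) (nat_lit 208) (nat_lit 5) (nat_lit 207) (nat_lit 5) (nat_lit 463) (nat_lit 412) (nat_lit 145))))) (XT.nd (nat_lit 312) (nat_lit 304) (nat_lit 0) (XT.nd (nat_lit 156) (nat_lit 304) (nat_lit 0) (XT.nd (nat_lit 78) (nat_lit 0) (nat_lit 0) (XT.lf (nat_lit 0) (nat_lit 111871214945) (nat_lit 152) (nat_lit 111895368300) (nat_lit 228) (nat_lit 377602853295) (nat_lit 204) (nat_lit 5) (nat_lit 206) (nat_lit 5) (nat_lit 207) (nat_lit 5) (nat_lit 464) (nat_lit 412) (nat_lit 144)) (XT.lf (nat_lit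 0) (nat_lit 408137427477) (nat_lit 228) (nat_lit 106209734134) (nat_lit 76) (nat_lit 106186636856) (nat_lit 204) (nat_lit 5) (nat_lit 207) (nat_lit 5) (nat_lit 205) (nat_lit 4) (nat_lit 465) (nat_lit 412) (nat_lit 143))) (XT.nd (nat_lit 78) (nat_lit 228) (nat_lit 0) (XT.lf (nat_lit 0) (nat_lit 304143231277) (nat_lit 76) (nat_lit 304166418158) (nat_lit 152) (nat_lit 32017587278) (nat_lit 203) (nat_lit 5) (nat_lit 204) (nat_lit 5) (nat_lit 205) (nat_lit 4) (nat_lit 466) (nat_lit 412) (nat_lit 142)) (XT.lf (nat_lit 0) (nat_lit 77680340761) (nat_lit 152) (nat_lit 77703612978) (nat_lit 228) (nat_lit 505451487618) (nat_lit 200) (nat_lit 5) (nat_lit 202) (nat_lit 5) (nat_lit 203) (nat_lit 5) (nat_lit 467) (nat_lit 412) (nat_lit 141)))) (XT.nd (nat_lit 156) (nat_lit 228) (nat_lit 0) (XT.nd (nat_lit 78) (nat_lit 76) (nat_lit 0) (XT.lf (nat_lit 0) (nat_lit 359365636053) (nat_lit 228) (nat_lit 161292557209)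 (nat_lit 76) (nat_lit 161270315790) (nat_lit 200) (nat_lit 5) (nat_lit 203) (nat_lit 5) (nat_lit 201) (nat_lit 4) (nat_lit 468) (nat_lit 412) (nat_lit 140)) (XT.lf (nat_lit 0) (nat_lit 289660141550) (nat_lit 76) (nat_lit 289682456686) (nat_lit 152) (nat_lit 124443822109) (nat_lit 199) (nat_lit 5) (nat_lit 200) (nat_lit 5) (nat_lit 201) (nat_lit 4) (nat_lit 469) (nat_lit 412) (nat_lit 139))) (XT.nd (nat_lit 78) (nat_lit 0) (nat_lit 0) (XT.lf (nat_lit 0) (nat_lit 42159102406) (nat_lit 152) (nat_lit 42181487748) (nat_lit 228) (nat_lit 642159663794) (nat_lit 196) (nat_lit 5) (nat_lit 198) (nat_lit 5) (nat_lit 199) (nat_lit 5) (nat_lit 470) (nat_lit 412) (nat_lit 138)) (XT.lf (nat_lit 0) (nat_lit 309909279229) (nat_lit 228) (nat_lit 219916760344) (nat_lit 76) (nat_lit 219895377293) (nat_lit 196) (nat_lit 5) (nat_lit 199) (nat_lit 5) (nat_lit 197) (nat_lit 4) (nat_lit 471) (nat_lit 412) (nat_lit 137))))))))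
noncomputable def xc306 : XT := (XT.nd (nat_lit 48750) (nat_lit 0) (nat_lit 6384) (XT.nd (nat_lit 624) (nat_lit 456) (nat_lit 0) (XT.nd (nat_lit 312) (nat_lit 228) (nat_lit 0) (XT.nd (nat_lit 156) (nat_lit 76) (nat_lit 0) (XT.nd (nat_lit 78) (nat_lit 228) (nat_lit 0) (XT.lf (nat_lit 0) (nat_lit 275866736719) (nat_lit 76) (nat_lit 275888180418) (nat_lit 152) (nat_lit 222098795075) (nat_lit 195) (nat_lit 5) (nat_lit 196) (nat_lit 5) (nat_lit 197) (nat_lit 4) (nat_lit 472) (nat_lit 412) (nat_lit 136)) (XT.lf (nat_lit 0) (nat_lit 5067599681) (nat_lit 152) (nat_lit 5089101138) (nat_lit 228) (nat_lit 788837620494) (nat_lit 192) (nat_lit 5) (nat_lit 194) (nat_lit 5) (nat_lit 195) (nat_lit 5) (nat_lit 473) (nat_lit 412) (nat_lit 135))) (XT.nd (nat_lit 78) (nat_lit 76) (nat_lit 0) (XT.lf (nat_lit 0) (nat_lit 259492738583) (nat_lit 228) (nat_lit 282545558456) (nat_lit 76) (nat_lit 282525028488) (nat_lit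 192) (nat_lit 5) (nat_lit 195) (nat_lit 5) (nat_lit 193) (nat_lit 4) (nat_lit 474) (nat_lit 412) (nat_lit 134)) (XT.lf (nat_lit 0) (nat_lit 262730172171) (nat_lit 76) (nat_lit 262750752032) (nat_lit 152) (nat_lit 325720588451) (nat_lit 191) (nat_lit 5) (nat_lit 192) (nat_lit 5) (nat_lit 193) (nat_lit 4) (nat_lit 475) (nat_lit 412) (nat_lit 133)))) (XT.nd (nat_lit 156) (nat_lit 76) (nat_lit 0) (XT.nd (nat_lit 78) (nat_lit 152) (nat_lit 0) (XT.lf (nat_lit 0) (nat_lit 810108180920) (nat_lit 152) (nat_lit 34408045125) (nat_lit 0) (nat_lit 34388400001) (nat_lit 191) (nat_lit 5) (nat_lit 193) (nat_lit 4) (nat_lit 191) (nat_lit 4) (nat_lit 476) (nat_lit 412) (nat_lit 132)) (XT.lf (nat_lit 0) (nat_lit 207821927454) (nat_lit 152) (nat_lit 349684872738) (nat_lit 76) (nat_lit 349665184514) (nat_lit 189) (nat_lit 5) (nat_lit 191) (nat_lit 5) (nat_lit 190) (nat_lit 4) (nat_lit 477) (nat_lit 412) (nat_lit 131)))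 (XT.nd (nat_lit 78) (nat_lit 0) (nat_lit 0) (XT.lf (nat_lit 0) (nat_lit 250219167761) (nat_lit 76) (nat_lit 250238897033) (nat_lit 152) (nat_lit 436113313084) (nat_lit 188) (nat_lit 5) (nat_lit 189) (nat_lit 5) (nat_lit 190) (nat_lit 4) (nat_lit 478) (nat_lit 412) (nat_lit 130)) (XT.lf (nat_lit 0) (nat_lit 814875388969) (nat_lit 152) (nat_lit 76113354878) (nat_lit 0) (nat_lit 76094527863) (nat_lit 188) (nat_lit 5) (nat_lit 190) (nat_lit 4) (nat_lit 188) (nat_lit 4) (nat_lit 479) (nat_lit 412) (nat_lit 129))))) (XT.nd (nat_lit 312) (nat_lit 76) (nat_lit 0) (XT.nd (nat_lit 156) (nat_lit 152) (nat_lit 0) (XT.nd (nat_lit 78) (nat_lit 76) (nat_lit 0) (XT.lf (nat_lit 0) (nat_lit 154581932235) (nat_lit 152) (nat_lit 421887935481) (nat_lit 76) (nat_lit 421869073008) (nat_lit 186) (nat_lit 5) (nat_lit 188) (nat_lit 5) (nat_lit 187) (nat_lit 4) (nat_lit 480) (nat_lit 412) (nat_lit 128)) (XT.lf (nat_lit 0)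 (nat_lit 238303933236) (nat_lit 76) (nat_lit 238322829480) (nat_lit 152) (nat_lit 554154334527) (nat_lit 185) (nat_lit 5) (nat_lit 186) (nat_lit 5) (nat_lit 187) (nat_lit 4) (nat_lit 481) (nat_lit 412) (nat_lit 127))) (XT.nd (nat_lit 78) (nat_lit 152) (nat_lit 0) (XT.lf (nat_lit 0) (nat_lit 823858314623) (nat_lit 152) (nat_lit 120275425013) (nat_lit 0) (nat_lit 120257397959) (nat_lit 185) (nat_lit 5) (nat_lit 187) (nat_lit 4) (nat_lit 185) (nat_lit 4) (nat_lit 482) (nat_lit 412) (nat_lit 126)) (XT.lf (nat_lit 0) (nat_lit 99434434051) (nat_lit 152) (nat_lit 499760356031) (nat_lit 76) (nat_lit 499742299805) (nat_lit 183) (nat_lit 5) (nat_lit 185) (nat_lit 5) (nat_lit 184) (nat_lit 4) (nat_lit 483) (nat_lit 412) (nat_lit 125)))) (XT.nd (nat_lit 47658) (nat_lit 0) (nat_lit 8360) (XT.nd (nat_lit 47580) (nat_lit 0) (nat_lit 8360) (XT.lf (nat_lit 0) (nat_lit 226956097226) (nat_lit 76) (nat_lit 226974181234)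 (nat_lit 152) (nat_lit 680802218049) (nat_lit 182) (nat_lit 5) (nat_lit 183) (nat_lit 5) (nat_lit 184) (nat_lit 4) (nat_lit 484) (nat_lit 412) (nat_lit 124)) (XT.lf (nat_lit 0) (nat_lit 33582088103) (nat_lit 836) (nat_lit 18937829903) (nat_lit 836) (nat_lit 18937829903) (nat_lit 292) (nat_lit 3) (nat_lit 303) (nat_lit 3) (nat_lit 303) (nat_lit 5) (nat_lit 413) (nat_lit 413) (nat_lit 194))) (XT.nd (nat_lit 78) (nat_lit 0) (nat_lit 76) (XT.lf (nat_lit 76) (nat_lit 34692463597) (nat_lit 0) (nat_lit 34695619623) (nat_lit 836) (nat_lit 77073059862) (nat_lit 293) (nat_lit 5) (nat_lit 292) (nat_lit 3) (nat_lit 303) (nat_lit 5) (nat_lit 414) (nat_lit 413) (nat_lit 193)) (XT.lf (nat_lit 0) (nat_lit 72986429417) (nat_lit 760) (nat_lit 38570174726) (nat_lit 836) (nat_lit 38564306377) (nat_lit 293) (nat_lit 5) (nat_lit 303) (nat_lit 5) (nat_lit 304) (nat_lit 5) (nat_lit 415) (nat_lit 413) (nat_lit 192))))))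 (XT.nd (nat_lit 624) (nat_lit 2052) (nat_lit 0) (XT.nd (nat_lit 312) (nat_lit 0) (nat_lit 152) (XT.nd (nat_lit 156) (nat_lit 0) (nat_lit 76) (XT.nd (nat_lit 78) (nat_lit 0) (nat_lit 76) (XT.lf (nat_lit 76) (nat_lit 38966531528) (nat_lit 0) (nat_lit 38975126171) (nat_lit 836) (nat_lit 75963160390) (nat_lit 294) (nat_lit 5) (nat_lit 293) (nat_lit 5) (nat_lit 304) (nat_lit 5) (nat_lit 416) (nat_lit 413) (nat_lit 191)) (XT.lf (nat_lit 0) (nat_lit 84389725471) (nat_lit 760) (nat_lit 36718299933) (nat_lit 836) (nat_lit 36707641729) (nat_lit 294) (nat_lit 5) (nat_lit 304) (nat_lit 5) (nat_lit 305) (nat_lit 5) (nat_lit 417) (nat_lit 413) (nat_lit 190))) (XT.nd (nat_lit 78) (nat_lit 0) (nat_lit 76) (XT.lf (nat_lit 76) (nat_lit 46254049922) (nat_lit 0) (nat_lit 46267063202) (nat_lit 836) (nat_lit 69332899682) (nat_lit 295) (nat_lit 5) (nat_lit 294) (nat_lit 5) (nat_lit 305) (nat_lit 5) (nat_lit 418) (nat_lit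 413) (nat_lit 189)) (XT.lf (nat_lit 0) (nat_lit 102195480979) (nat_lit 760) (nat_lit 31928251982) (nat_lit 836) (nat_lit 31913722259) (nat_lit 295) (nat_lit 5) (nat_lit 305) (nat_lit 5) (nat_lit 306) (nat_lit 5) (nat_lit 419) (nat_lit 413) (nat_lit 188)))) (XT.nd (nat_lit 156) (nat_lit 0) (nat_lit 76) (XT.nd (nat_lit 78) (nat_lit 0) (nat_lit 76) (XT.lf (nat_lit 76) (nat_lit 56992566622) (nat_lit 0) (nat_lit 57009130747) (nat_lit 836) (nat_lit 56345965880) (nat_lit 296) (nat_lit 5) (nat_lit 295) (nat_lit 5) (nat_lit 306) (nat_lit 5) (nat_lit 420) (nat_lit 413) (nat_lit 187)) (XT.lf (nat_lit 0) (nat_lit 127321757118) (nat_lit 760) (nat_lit 23761534277) (nat_lit 836) (nat_lit 23743913656) (nat_lit 296) (nat_lit 5) (nat_lit 306) (nat_lit 5) (nat_lit 307) (nat_lit 5) (nat_lit 421) (nat_lit 413) (nat_lit 186))) (XT.nd (nat_lit 78) (nat_lit 0) (nat_lit 76) (XT.lf (nat_lit 76) (nat_lit 71670927737) (nat_lit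 0) (nat_lit 71690305751) (nat_lit 836) (nat_lit 36066819774) (nat_lit 297) (nat_lit 5) (nat_lit 296) (nat_lit 5) (nat_lit 307) (nat_lit 5) (nat_lit 422) (nat_lit 413) (nat_lit 185)) (XT.lf (nat_lit 0) (nat_lit 160793790636) (nat_lit 760) (nat_lit 11727823580) (nat_lit 76) (nat_lit 11707774320) (nat_lit 297) (nat_lit 5) (nat_lit 307) (nat_lit 5) (nat_lit 298) (nat_lit 5) (nat_lit 423) (nat_lit 413) (nat_lit 184))))) (XT.nd (nat_lit 312) (nat_lit 684) (nat_lit 0) (XT.nd (nat_lit 156) (nat_lit 380) (nat_lit 0) (XT.nd (nat_lit 78) (nat_lit 532) (nat_lit 0) (XT.lf (nat_lit 0) (nat_lit 90834855868) (nat_lit 760) (nat_lit 90856423231) (nat_lit 836) (nat_lit 7449846302) (nat_lit 287) (nat_lit 5) (nat_lit 297) (nat_lit 5) (nat_lit 298) (nat_lit 5) (nat_lit 424) (nat_lit 413) (nat_lit 183)) (XT.lf (nat_lit 0) (nat_lit 4643819473) (nat_lit 456) (nat_lit 4666832648) (nat_lit 532) (nat_lit 184966797376) (nat_lit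 280) (nat_lit 5) (nat_lit 286) (nat_lit 5) (nat_lit 287) (nat_lit 5) (nat_lit 425) (nat_lit 413) (nat_lit 182))) (XT.nd (nat_lit 78) (nat_lit 380) (nat_lit 0) (XT.lf (nat_lit 0) (nat_lit 29690923474) (nat_lit 532) (nat_lit 84922591506) (nat_lit 76) (nat_lit 84899362802) (nat_lit 280) (nat_lit 5) (nat_lit 287) (nat_lit 5) (nat_lit 281) (nat_lit 5) (nat_lit 426) (nat_lit 413) (nat_lit 181)) (XT.lf (nat_lit 0) (nat_lit 25772246032) (nat_lit 380) (nat_lit 25796723683) (nat_lit 456) (nat_lit 153417169698) (nat_lit 275) (nat_lit 5) (nat_lit 280) (nat_lit 5) (nat_lit 281) (nat_lit 5) (nat_lit 427) (nat_lit 413) (nat_lit 180)))) (XT.nd (nat_lit 156) (nat_lit 304) (nat_lit 0) (XT.nd (nat_lit 78) (nat_lit 380) (nat_lit 0) (XT.lf (nat_lit 0) (nat_lit 77055837187) (nat_lit 456) (nat_lit 66787962938) (nat_lit 76) (nat_lit 66763518058) (nat_lit 275) (nat_lit 5) (nat_lit 281) (nat_lit 5) (nat_lit 276) (nat_lit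 5) (nat_lit 428) (nat_lit 413) (nat_lit 179)) (XT.lf (nat_lit 0) (nat_lit 52517124616) (nat_lit 380) (nat_lit 52542648384) (nat_lit 456) (nat_lit 111387646641) (nat_lit 270) (nat_lit 5) (nat_lit 275) (nat_lit 5) (nat_lit 276) (nat_lit 5) (nat_lit 429) (nat_lit 413) (nat_lit 178))) (XT.nd (nat_lit 78) (nat_lit 304) (nat_lit 0) (XT.lf (nat_lit 0) (nat_lit 136289828412) (nat_lit 456) (nat_lit 43111844276) (nat_lit 76) (nat_lit 43086557344) (nat_lit 270) (nat_lit 5) (nat_lit 276) (nat_lit 5) (nat_lit 271) (nat_lit 5) (nat_lit 430) (nat_lit 413) (nat_lit 177)) (XT.lf (nat_lit 0) (nat_lit 85626645684) (nat_lit 304) (nat_lit 85652864600) (nat_lit 380) (nat_lit 57441664474) (nat_lit 266) (nat_lit 5) (nat_lit 270) (nat_lit 5) (nat_lit 271) (nat_lit 5) (nat_lit 431) (nat_lit 413) (nat_lit 176)))))))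
noncomputable def xc307 : XT := (XT.nd (nat_lit 1248) (nat_lit 1976) (nat_lit 0) (XT.nd (nat_lit 624) (nat_lit 988) (nat_lit 0) (XT.nd (nat_lit 312) (nat_lit 912) (nat_lit 0) (XT.nd (nat_lit 156) (nat_lit 304) (nat_lit 0) (XT.nd (nat_lit 78) (nat_lit 380) (nat_lit 0) (XT.lf (nat_lit 0) (nat_lit 208960249624) (nat_lit 380) (nat_lit 13142127080) (nat_lit 76) (nat_lit 13116311347) (nat_lit 266) (nat_lit 5) (nat_lit 271) (nat_lit 5) (nat_lit 267) (nat_lit 5) (nat_lit 432) (nat_lit 413) (nat_lit 175)) (XT.lf (nat_lit 0) (nat_lit 9701909441) (nat_lit 380) (nat_lit 116094726191) (nat_lit 76) (nat_lit 116068105377) (nat_lit 261) (nat_lit 5) (nat_lit 266) (nat_lit 5) (nat_lit 262) (nat_lit 5) (nat_lit 433) (nat_lit 413) (nat_lit 174))) (XT.nd (nat_lit 78) (nat_lit 0) (nat_lit 0) (XT.lf (nat_lit 0) (nat_lit 23572291885) (nat_lit 304) (nat_lit 23599679444) (nat_lit 380) (nat_lit 201619894360) (nat_lit 257)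 (nat_lit 5) (nat_lit 261) (nat_lit 5) (nat_lit 262) (nat_lit 5) (nat_lit 434) (nat_lit 413) (nat_lit 173)) (XT.lf (nat_lit 0) (nat_lit 89820699218) (nat_lit 380) (nat_lit 83053084045) (nat_lit 76) (nat_lit 83026305194) (nat_lit 257) (nat_lit 5) (nat_lit 262) (nat_lit 5) (nat_lit 258) (nat_lit 5) (nat_lit 435) (nat_lit 413) (nat_lit 172)))) (XT.nd (nat_lit 156) (nat_lit 608) (nat_lit 0) (XT.nd (nat_lit 78) (nat_lit 0) (nat_lit 0) (XT.lf (nat_lit 0) (nat_lit 68011532777) (nat_lit 304) (nat_lit 68038973971) (nat_lit 380) (nat_lit 127240783453) (nat_lit 253) (nat_lit 5) (nat_lit 257) (nat_lit 5) (nat_lit 258) (nat_lit 5) (nat_lit 436) (nat_lit 413) (nat_lit 171)) (XT.lf (nat_lit 0) (nat_lit 186677645986) (nat_lit 380) (nat_lit 42148424607) (nat_lit 76) (nat_lit 42121689372) (nat_lit 253) (nat_lit 5) (nat_lit 258) (nat_lit 5) (nat_lit 254) (nat_lit 5) (nat_lit 437) (nat_lit 413) (nat_lit 170))) (XT.nd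 (nat_lit 78) (nat_lit 380) (nat_lit 0) (XT.lf (nat_lit 0) (nat_lit 121409847267) (nat_lit 228) (nat_lit 121437154659) (nat_lit 304) (nat_lit 35989508304) (nat_lit 250) (nat_lit 5) (nat_lit 253) (nat_lit 5) (nat_lit 254) (nat_lit 5) (nat_lit 438) (nat_lit 413) (nat_lit 169)) (XT.lf (nat_lit 0) (nat_lit 7524763712) (nat_lit 304) (nat_lit 7552616015) (nat_lit 380) (nat_lit 271988693470) (nat_lit 245) (nat_lit 5) (nat_lit 249) (nat_lit 5) (nat_lit 250) (nat_lit 5) (nat_lit 439) (nat_lit 413) (nat_lit 168))))) (XT.nd (nat_lit 312) (nat_lit 532) (nat_lit 0) (XT.nd (nat_lit 156) (nat_lit 228) (nat_lit 0) (XT.nd (nat_lit 78) (nat_lit 228) (nat_lit 0) (XT.lf (nat_lit 0) (nat_lit 71946895426) (nat_lit 380) (nat_lit 111767400603) (nat_lit 76) (nat_lit 111740380349) (nat_lit 245) (nat_lit 5) (nat_lit 250) (nat_lit 5) (nat_lit 246) (nat_lit 5) (nat_lit 440) (nat_lit 413) (nat_lit 167)) (XT.lf (nat_lit 0) (nat_lit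 66396384034) (nat_lit 228) (nat_lit 66423875003) (nat_lit 304) (nat_lit 171384432075) (nat_lit 242) (nat_lit 5) (nat_lit 245) (nat_lit 5) (nat_lit 246) (nat_lit 5) (nat_lit 441) (nat_lit 413) (nat_lit 166))) (XT.nd (nat_lit 78) (nat_lit 228) (nat_lit 0) (XT.lf (nat_lit 0) (nat_lit 199546813460) (nat_lit 304) (nat_lit 56865762909) (nat_lit 76) (nat_lit 56839154082) (nat_lit 242) (nat_lit 5) (nat_lit 246) (nat_lit 5) (nat_lit 243) (nat_lit 5) (nat_lit 442) (nat_lit 413) (nat_lit 165)) (XT.lf (nat_lit 0) (nat_lit 136400560619) (nat_lit 228) (nat_lit 136427576068) (nat_lit 304) (nat_lit 49762063015) (nat_lit 239) (nat_lit 5) (nat_lit 242) (nat_lit 5) (nat_lit 243) (nat_lit 5) (nat_lit 443) (nat_lit 413) (nat_lit 164)))) (XT.nd (nat_lit 156) (nat_lit 228) (nat_lit 0) (XT.nd (nat_lit 78) (nat_lit 0) (nat_lit 0) (XT.lf (nat_lit 0) (nat_lit 8956465860) (nat_lit 228) (nat_lit 8983868567) (nat_lit 304) (nat_lit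 314385761918) (nat_lit 235) (nat_lit 5) (nat_lit 238) (nat_lit 5) (nat_lit 239) (nat_lit 5) (nat_lit 444) (nat_lit 413) (nat_lit 163)) (XT.lf (nat_lit 0) (nat_lit 92509333431) (nat_lit 304) (nat_lit 124883712110) (nat_lit 76) (nat_lit 124857263039) (nat_lit 235) (nat_lit 5) (nat_lit 239) (nat_lit 5) (nat_lit 236) (nat_lit 5) (nat_lit 445) (nat_lit 413) (nat_lit 162))) (XT.nd (nat_lit 78) (nat_lit 0) (nat_lit 0) (XT.lf (nat_lit 0) (nat_lit 86136017568) (nat_lit 228) (nat_lit 86162801167) (nat_lit 304) (nat_lit 180297310871) (nat_lit 232) (nat_lit 5) (nat_lit 235) (nat_lit 5) (nat_lit 236) (nat_lit 5) (nat_lit 446) (nat_lit 413) (nat_lit 161)) (XT.lf (nat_lit 0) (nat_lit 259033424892) (nat_lit 304) (nat_lit 52151923040) (nat_lit 76) (nat_lit 52126111423) (nat_lit 232) (nat_lit 5) (nat_lit 236) (nat_lit 5) (nat_lit 233) (nat_lit 5) (nat_lit 447) (nat_lit 413) (nat_lit 160)))))) (XT.nd (nat_lit 624)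 (nat_lit 988) (nat_lit 0) (XT.nd (nat_lit 312) (nat_lit 380) (nat_lit 0) (XT.nd (nat_lit 156) (nat_lit 152) (nat_lit 0) (XT.nd (nat_lit 78) (nat_lit 304) (nat_lit 0) (XT.lf (nat_lit 0) (nat_lit 177128286965) (nat_lit 152) (nat_lit 177154387560) (nat_lit 228) (nat_lit 20070985410) (nat_lit 230) (nat_lit 5) (nat_lit 232) (nat_lit 5) (nat_lit 233) (nat_lit 5) (nat_lit 448) (nat_lit 413) (nat_lit 159)) (XT.lf (nat_lit 0) (nat_lit 33778773109) (nat_lit 228) (nat_lit 33805148921) (nat_lit 304) (nat_lit 318239443652) (nat_lit 226) (nat_lit 5) (nat_lit 229) (nat_lit 5) (nat_lit 230) (nat_lit 5) (nat_lit 449) (nat_lit 413) (nat_lit 158))) (XT.nd (nat_lit 78) (nat_lit 152) (nat_lit 0) (XT.lf (nat_lit 0) (nat_lit 164164056097) (nat_lit 304) (nat_lit 116725284273) (nat_lit 76) (nat_lit 116699914822) (nat_lit 226) (nat_lit 5) (nat_lit 230) (nat_lit 5) (nat_lit 227) (nat_lit 5) (nat_lit 450) (nat_lit 413) (nat_lit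 157)) (XT.lf (nat_lit 0) (nat_lit 134097678214) (nat_lit 152) (nat_lit 134123285408) (nat_lit 228) (nat_lit 141590087218) (nat_lit 224) (nat_lit 5) (nat_lit 226) (nat_lit 5) (nat_lit 227) (nat_lit 5) (nat_lit 451) (nat_lit 413) (nat_lit 156)))) (XT.nd (nat_lit 156) (nat_lit 152) (nat_lit 0) (XT.nd (nat_lit 78) (nat_lit 228) (nat_lit 0) (XT.lf (nat_lit 0) (nat_lit 379801826937) (nat_lit 228) (nat_lit 21375328628) (nat_lit 76) (nat_lit 21350725184) (nat_lit 224) (nat_lit 5) (nat_lit 227) (nat_lit 5) (nat_lit 225) (nat_lit 5) (nat_lit 452) (nat_lit 413) (nat_lit 155)) (XT.lf (nat_lit 0) (nat_lit 65352423610) (nat_lit 228) (nat_lit 185096971929) (nat_lit 76) (nat_lit 185072163114) (nat_lit 221) (nat_lit 5) (nat_lit 224) (nat_lit 5) (nat_lit 222) (nat_lit 5) (nat_lit 453) (nat_lit 413) (nat_lit 154))) (XT.nd (nat_lit 78) (nat_lit 0) (nat_lit 0) (XT.lf (nat_lit 0) (nat_lit 89570134436) (nat_lit 152)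 (nat_lit 89595138844) (nat_lit 228) (nat_lit 269876309619) (nat_lit 219) (nat_lit 5) (nat_lit 221) (nat_lit 5) (nat_lit 222) (nat_lit 5) (nat_lit 454) (nat_lit 413) (nat_lit 153)) (XT.lf (nat_lit 0) (nat_lit 303092932436) (nat_lit 228) (nat_lit 79973729349) (nat_lit 76) (nat_lit 79949738220) (nat_lit 219) (nat_lit 5) (nat_lit 222) (nat_lit 5) (nat_lit 220) (nat_lit 5) (nat_lit 455) (nat_lit 413) (nat_lit 152))))) (XT.nd (nat_lit 312) (nat_lit 456) (nat_lit 0) (XT.nd (nat_lit 156) (nat_lit 152) (nat_lit 0) (XT.nd (nat_lit 78) (nat_lit 228) (nat_lit 0) (XT.lf (nat_lit 0) (nat_lit 219040688242) (nat_lit 152) (nat_lit 219064848330) (nat_lit 228) (nat_lit 39339993296) (nat_lit 217) (nat_lit 5) (nat_lit 219) (nat_lit 5) (nat_lit 220) (nat_lit 5) (nat_lit 456) (nat_lit 413) (nat_lit 151)) (XT.lf (nat_lit 0) (nat_lit 43253459466) (nat_lit 152) (nat_lit 43277780468) (nat_lit 228) (nat_lit 405894154991)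 (nat_lit 214) (nat_lit 5) (nat_lit 216) (nat_lit 5) (nat_lit 217) (nat_lit 5) (nat_lit 457) (nat_lit 413) (nat_lit 150))) (XT.nd (nat_lit 78) (nat_lit 152) (nat_lit 0) (XT.lf (nat_lit 0) (nat_lit 224027924073) (nat_lit 228) (nat_lit 141892346765) (nat_lit 76) (nat_lit 141869037952) (nat_lit 214) (nat_lit 5) (nat_lit 217) (nat_lit 5) (nat_lit 215) (nat_lit 5) (nat_lit 458) (nat_lit 413) (nat_lit 149)) (XT.lf (nat_lit 0) (nat_lit 185994658821) (nat_lit 152) (nat_lit 186018106638) (nat_lit 228) (nat_lit 151727986738) (nat_lit 212) (nat_lit 5) (nat_lit 214) (nat_lit 5) (nat_lit 215) (nat_lit 5) (nat_lit 459) (nat_lit 413) (nat_lit 148)))) (XT.nd (nat_lit 156) (nat_lit 304) (nat_lit 0) (XT.nd (nat_lit 78) (nat_lit 152) (nat_lit 0) (XT.lf (nat_lit 0) (nat_lit 529884163799) (nat_lit 228) (nat_lit 5251847782) (nat_lit 76) (nat_lit 5229390448) (nat_lit 212) (nat_lit 5) (nat_lit 215) (nat_lit 5) (nat_lit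 213) (nat_lit 4) (nat_lit 460) (nat_lit 413) (nat_lit 147)) (XT.lf (nat_lit 0) (nat_lit 142103092712) (nat_lit 152) (nat_lit 207599422629) (nat_lit 76) (nat_lit 207576845219) (nat_lit 210) (nat_lit 5) (nat_lit 212) (nat_lit 5) (nat_lit 211) (nat_lit 5) (nat_lit 461) (nat_lit 413) (nat_lit 146))) (XT.nd (nat_lit 78) (nat_lit 152) (nat_lit 0) (XT.lf (nat_lit 0) (nat_lit 152204200532) (nat_lit 152) (nat_lit 152226892300) (nat_lit 228) (nat_lit 270475998459) (nat_lit 208) (nat_lit 5) (nat_lit 210) (nat_lit 5) (nat_lit 211) (nat_lit 5) (nat_lit 462) (nat_lit 413) (nat_lit 145)) (XT.nd (nat_lit 78) (nat_lit 152) (nat_lit 0) (XT.lf (nat_lit 0) (nat_lit 479309499074) (nat_lit 228) (nat_lit 56953362056) (nat_lit 76) (nat_lit 56931647121) (nat_lit 208) (nat_lit 5) (nat_lit 211) (nat_lit 5) (nat_lit 209) (nat_lit 4) (nat_lit 463) (nat_lit 413) (nat_lit 144)) (XT.lf (nat_lit 0) (nat_lit 56775583485) (nat_lit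 152) (nat_lit 277605100457) (nat_lit 76) (nat_lit 277583286735) (nat_lit 206) (nat_lit 5) (nat_lit 208) (nat_lit 5) (nat_lit 207) (nat_lit 5) (nat_lit 464) (nat_lit 413) (nat_lit 143))))))))
noncomputable def xc308 : XT := (XT.nd (nat_lit 50154) (nat_lit 0) (nat_lit 2204) (XT.nd (nat_lit 1248) (nat_lit 228) (nat_lit 0) (XT.nd (nat_lit 624) (nat_lit 608) (nat_lit 0) (XT.nd (nat_lit 312) (nat_lit 304) (nat_lit 0) (XT.nd (nat_lit 156) (nat_lit 304) (nat_lit 0) (XT.nd (nat_lit 78) (nat_lit 0) (nat_lit 0) (XT.lf (nat_lit 0) (nat_lit 117467154948) (nat_lit 152) (nat_lit 117489062753) (nat_lit 228) (nat_lit 396481625401) (nat_lit 204) (nat_lit 5) (nat_lit 206) (nat_lit 5) (nat_lit 207) (nat_lit 5) (nat_lit 465) (nat_lit 413) (nat_lit 142)) (XT.lf (nat_lit 0) (nat_lit 428545557957) (nat_lit 228) (nat_lit 111517908695) (nat_lit 76) (nat_lit 111496958783) (nat_lit 204) (nat_lit 5) (nat_lit 207) (nat_lit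 5) (nat_lit 205) (nat_lit 4) (nat_lit 466) (nat_lit 413) (nat_lit 141))) (XT.nd (nat_lit 78) (nat_lit 228) (nat_lit 0) (XT.lf (nat_lit 0) (nat_lit 319352667694) (nat_lit 76) (nat_lit 319373698878) (nat_lit 152) (nat_lit 33617170243) (nat_lit 203) (nat_lit 5) (nat_lit 204) (nat_lit 5) (nat_lit 205) (nat_lit 4) (nat_lit 467) (nat_lit 413) (nat_lit 140)) (XT.lf (nat_lit 0) (nat_lit 81566636784) (nat_lit 152) (nat_lit 81587745371) (nat_lit 228) (nat_lit 530722769732) (nat_lit 200) (nat_lit 5) (nat_lit 202) (nat_lit 5) (nat_lit 203) (nat_lit 5) (nat_lit 468) (nat_lit 413) (nat_lit 139)))) (XT.nd (nat_lit 156) (nat_lit 228) (nat_lit 0) (XT.nd (nat_lit 78) (nat_lit 76) (nat_lit 0) (XT.lf (nat_lit 0) (nat_lit 377335105566) (nat_lit 228) (nat_lit 169354971588) (nat_lit 76) (nat_lit 169334797966) (nat_lit 200) (nat_lit 5) (nat_lit 203) (nat_lit 5) (nat_lit 201) (nat_lit 4) (nat_lit 469) (nat_lit 413) (nat_lit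 138)) (XT.lf (nat_lit 0) (nat_lit 304145326408) (nat_lit 76) (nat_lit 304165566894) (nat_lit 152) (nat_lit 130664789802) (nat_lit 199) (nat_lit 5) (nat_lit 200) (nat_lit 5) (nat_lit 201) (nat_lit 4) (nat_lit 470) (nat_lit 413) (nat_lit 137))) (XT.nd (nat_lit 78) (nat_lit 0) (nat_lit 0) (XT.lf (nat_lit 0) (nat_lit 44269238707) (nat_lit 152) (nat_lit 44289542871) (nat_lit 228) (nat_lit 674266426972) (nat_lit 196) (nat_lit 5) (nat_lit 198) (nat_lit 5) (nat_lit 199) (nat_lit 5) (nat_lit 471) (nat_lit 413) (nat_lit 136)) (XT.lf (nat_lit 0) (nat_lit 325405864933) (nat_lit 228) (nat_lit 230910480874) (nat_lit 76) (nat_lit 230891085816) (nat_lit 196) (nat_lit 5) (nat_lit 199) (nat_lit 5) (nat_lit 197) (nat_lit 4) (nat_lit 472) (nat_lit 413) (nat_lit 135))))) (XT.nd (nat_lit 312) (nat_lit 228) (nat_lit 0) (XT.nd (nat_lit 156) (nat_lit 76) (nat_lit 0) (XT.nd (nat_lit 78) (nat_lit 228) (nat_lit 0) (XT.lf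 (nat_lit 0) (nat_lit 289662156890) (nat_lit 76) (nat_lit 289681606957) (nat_lit 152) (nat_lit 233202578933) (nat_lit 195) (nat_lit 5) (nat_lit 196) (nat_lit 5) (nat_lit 197) (nat_lit 4) (nat_lit 473) (nat_lit 413) (nat_lit 134)) (XT.lf (nat_lit 0) (nat_lit 5323065797) (nat_lit 152) (nat_lit 5342568252) (nat_lit 228) (nat_lit 828278348420) (nat_lit 192) (nat_lit 5) (nat_lit 194) (nat_lit 5) (nat_lit 195) (nat_lit 5) (nat_lit 474) (nat_lit 413) (nat_lit 133))) (XT.nd (nat_lit 78) (nat_lit 76) (nat_lit 0) (XT.lf (nat_lit 0) (nat_lit 272468436097) (nat_lit 228) (nat_lit 296670811981) (nat_lit 76) (nat_lit 296652190696) (nat_lit 192) (nat_lit 5) (nat_lit 195) (nat_lit 5) (nat_lit 193) (nat_lit 4) (nat_lit 475) (nat_lit 413) (nat_lit 132)) (XT.lf (nat_lit 0) (nat_lit 275868672525) (nat_lit 76) (nat_lit 275887339066) (nat_lit 152) (nat_lit 342005524638) (nat_lit 191) (nat_lit 5) (nat_lit 192) (nat_lit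 5) (nat_lit 193) (nat_lit 4) (nat_lit 476) (nat_lit 413) (nat_lit 131)))) (XT.nd (nat_lit 156) (nat_lit 76) (nat_lit 0) (XT.nd (nat_lit 78) (nat_lit 152) (nat_lit 0) (XT.lf (nat_lit 0) (nat_lit 850614595698) (nat_lit 152) (nat_lit 36126515035) (nat_lit 0) (nat_lit 36108696329) (nat_lit 191) (nat_lit 5) (nat_lit 193) (nat_lit 4) (nat_lit 191) (nat_lit 4) (nat_lit 477) (nat_lit 413) (nat_lit 130)) (XT.lf (nat_lit 0) (nat_lit 218214027538) (nat_lit 152) (nat_lit 367167182008) (nat_lit 76) (nat_lit 367149324209) (nat_lit 189) (nat_lit 5) (nat_lit 191) (nat_lit 5) (nat_lit 190) (nat_lit 4) (nat_lit 478) (nat_lit 413) (nat_lit 129))) (XT.nd (nat_lit 78) (nat_lit 0) (nat_lit 0) (XT.lf (nat_lit 0) (nat_lit 262732029316) (nat_lit 76) (nat_lit 262749924347) (nat_lit 152) (nat_lit 457917943828) (nat_lit 188) (nat_lit 5) (nat_lit 189) (nat_lit 5) (nat_lit 190) (nat_lit 4) (nat_lit 479) (nat_lit 413) (nat_lit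 128)) (XT.lf (nat_lit 0) (nat_lit 855620110755) (nat_lit 152) (nat_lit 79917176791) (nat_lit 0) (nat_lit 79900100133) (nat_lit 188) (nat_lit 5) (nat_lit 190) (nat_lit 4) (nat_lit 188) (nat_lit 4) (nat_lit 480) (nat_lit 413) (nat_lit 127)))))) (XT.nd (nat_lit 48282) (nat_lit 0) (nat_lit 7220) (XT.nd (nat_lit 47970) (nat_lit 0) (nat_lit 8132) (XT.nd (nat_lit 156) (nat_lit 0) (nat_lit 0) (XT.nd (nat_lit 78) (nat_lit 76) (nat_lit 0) (XT.lf (nat_lit 0) (nat_lit 162311979522) (nat_lit 152) (nat_lit 442980484762) (nat_lit 76) (nat_lit 442963375942) (nat_lit 186) (nat_lit 5) (nat_lit 188) (nat_lit 5) (nat_lit 187) (nat_lit 4) (nat_lit 481) (nat_lit 413) (nat_lit 126)) (XT.lf (nat_lit 0) (nat_lit 250220947594) (nat_lit 76) (nat_lit 250238087044) (nat_lit 152) (nat_lit 581861070779) (nat_lit 185) (nat_lit 5) (nat_lit 186) (nat_lit 5) (nat_lit 187) (nat_lit 4) (nat_lit 482) (nat_lit 413) (nat_lit 125))) (XT.nd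 (nat_lit 47736) (nat_lit 0) (nat_lit 8132) (XT.lf (nat_lit 0) (nat_lit 865052132816) (nat_lit 152) (nat_lit 126287433802) (nat_lit 0) (nat_lit 126271082733) (nat_lit 185) (nat_lit 5) (nat_lit 187) (nat_lit 4) (nat_lit 185) (nat_lit 4) (nat_lit 483) (nat_lit 413) (nat_lit 124)) (XT.lf (nat_lit 0) (nat_lit 35264299260) (nat_lit 836) (nat_lit 19883090353) (nat_lit 836) (nat_lit 19883090353) (nat_lit 292) (nat_lit 3) (nat_lit 303) (nat_lit 3) (nat_lit 303) (nat_lit 5) (nat_lit 414) (nat_lit 414) (nat_lit 192)))) (XT.nd (nat_lit 156) (nat_lit 0) (nat_lit 76) (XT.nd (nat_lit 78) (nat_lit 0) (nat_lit 76) (XT.lf (nat_lit 76) (nat_lit 36430296252) (nat_lit 0) (nat_lit 36433158861) (nat_lit 836) (nat_lit 80920446737) (nat_lit 293) (nat_lit 5) (nat_lit 292) (nat_lit 3) (nat_lit 303) (nat_lit 5) (nat_lit 415) (nat_lit 414) (nat_lit 191)) (XT.lf (nat_lit 0) (nat_lit 76641393429) (nat_lit 760) (nat_lit 40495301627)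 (nat_lit 836) (nat_lit 40489978862) (nat_lit 293) (nat_lit 5) (nat_lit 303) (nat_lit 5) (nat_lit 304) (nat_lit 5) (nat_lit 416) (nat_lit 414) (nat_lit 190))) (XT.nd (nat_lit 78) (nat_lit 0) (nat_lit 76) (XT.lf (nat_lit 76) (nat_lit 40918185393) (nat_lit 0) (nat_lit 40925980988) (nat_lit 836) (nat_lit 79755621323) (nat_lit 294) (nat_lit 5) (nat_lit 293) (nat_lit 5) (nat_lit 304) (nat_lit 5) (nat_lit 417) (nat_lit 414) (nat_lit 189)) (XT.lf (nat_lit 0) (nat_lit 88614347967) (nat_lit 760) (nat_lit 38550756509) (nat_lit 836) (nat_lit 38541089203) (nat_lit 294) (nat_lit 5) (nat_lit 304) (nat_lit 5) (nat_lit 305) (nat_lit 5) (nat_lit 418) (nat_lit 414) (nat_lit 188))))) (XT.nd (nat_lit 312) (nat_lit 1064) (nat_lit 0) (XT.nd (nat_lit 156) (nat_lit 0) (nat_lit 76) (XT.nd (nat_lit 78) (nat_lit 0) (nat_lit 76) (XT.lf (nat_lit 76) (nat_lit 48570155058) (nat_lit 0) (nat_lit 48581958486) (nat_lit 836) (nat_lit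 72794352663) (nat_lit 295) (nat_lit 5) (nat_lit 294) (nat_lit 5) (nat_lit 305) (nat_lit 5) (nat_lit 419) (nat_lit 414) (nat_lit 187)) (XT.lf (nat_lit 0) (nat_lit 107309941398) (nat_lit 760) (nat_lit 33521165576) (nat_lit 836) (nat_lit 33507986689) (nat_lit 295) (nat_lit 5) (nat_lit 305) (nat_lit 5) (nat_lit 306) (nat_lit 5) (nat_lit 420) (nat_lit 414) (nat_lit 186))) (XT.nd (nat_lit 78) (nat_lit 0) (nat_lit 76) (XT.lf (nat_lit 76) (nat_lit 59845637522) (nat_lit 0) (nat_lit 59860661672) (nat_lit 836) (nat_lit 59158521368) (nat_lit 296) (nat_lit 5) (nat_lit 295) (nat_lit 5) (nat_lit 306) (nat_lit 5) (nat_lit 421) (nat_lit 414) (nat_lit 185)) (XT.lf (nat_lit 0) (nat_lit 133692130862) (nat_lit 760) (nat_lit 24946101285) (nat_lit 836) (nat_lit 24930118862) (nat_lit 296) (nat_lit 5) (nat_lit 306) (nat_lit 5) (nat_lit 307) (nat_lit 5) (nat_lit 422) (nat_lit 414) (nat_lit 184)))) (XT.nd (nat_lit 156) (nat_lit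 1216) (nat_lit 0) (XT.nd (nat_lit 78) (nat_lit 0) (nat_lit 76) (XT.lf (nat_lit 76) (nat_lit 75257927221) (nat_lit 0) (nat_lit 75275503652) (nat_lit 836) (nat_lit 37865818266) (nat_lit 297) (nat_lit 5) (nat_lit 296) (nat_lit 5) (nat_lit 307) (nat_lit 5) (nat_lit 423) (nat_lit 414) (nat_lit 183)) (XT.lf (nat_lit 0) (nat_lit 168837408791) (nat_lit 760) (nat_lit 12310719005) (nat_lit 76) (nat_lit 12292533736) (nat_lit 297) (nat_lit 5) (nat_lit 307) (nat_lit 5) (nat_lit 298) (nat_lit 5) (nat_lit 424) (nat_lit 414) (nat_lit 182))) (XT.nd (nat_lit 78) (nat_lit 532) (nat_lit 0) (XT.lf (nat_lit 0) (nat_lit 95380038032) (nat_lit 760) (nat_lit 95399600265) (nat_lit 836) (nat_lit 7818353612) (nat_lit 287) (nat_lit 5) (nat_lit 297) (nat_lit 5) (nat_lit 298) (nat_lit 5) (nat_lit 425) (nat_lit 414) (nat_lit 181)) (XT.lf (nat_lit 0) (nat_lit 4879519831) (nat_lit 456) (nat_lit 4900393459) (nat_lit 532) (nat_lit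 194211222254) (nat_lit 280) (nat_lit 5) (nat_lit 286) (nat_lit 5) (nat_lit 287) (nat_lit 5) (nat_lit 426) (nat_lit 414) (nat_lit 180))))))) (XT.nd (nat_lit 1248) (nat_lit 2128) (nat_lit 0) (XT.nd (nat_lit 624) (nat_lit 1444) (nat_lit 0) (XT.nd (nat_lit 312) (nat_lit 684) (nat_lit 0) (XT.nd (nat_lit 156) (nat_lit 380) (nat_lit 0) (XT.nd (nat_lit 78) (nat_lit 380) (nat_lit 0) (XT.lf (nat_lit 0) (nat_lit 31179017401) (nat_lit 532) (nat_lit 89165198000) (nat_lit 76) (nat_lit 89144128881) (nat_lit 280) (nat_lit 5) (nat_lit 287) (nat_lit 5) (nat_lit 281) (nat_lit 5) (nat_lit 427) (nat_lit 414) (nat_lit 179)) (XT.lf (nat_lit 0) (nat_lit 27064324591) (nat_lit 380) (nat_lit 27086526542) (nat_lit 456) (nat_lit 161084423606) (nat_lit 275) (nat_lit 5) (nat_lit 280) (nat_lit 5) (nat_lit 281) (nat_lit 5) (nat_lit 428) (nat_lit 414) (nat_lit 178))) (XT.nd (nat_lit 78) (nat_lit 380) (nat_lit 0) (XT.lf (nat_lit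 0) (nat_lit 80911899000) (nat_lit 456) (nat_lit 70123896910) (nat_lit 76) (nat_lit 70101724684) (nat_lit 275) (nat_lit 5) (nat_lit 281) (nat_lit 5) (nat_lit 276) (nat_lit 5) (nat_lit 429) (nat_lit 414) (nat_lit 177)) (XT.lf (nat_lit 0) (nat_lit 55146389148) (nat_lit 380) (nat_lit 55169539957) (nat_lit 456) (nat_lit 116953703145) (nat_lit 270) (nat_lit 5) (nat_lit 275) (nat_lit 5) (nat_lit 276) (nat_lit 5) (nat_lit 430) (nat_lit 414) (nat_lit 176)))) (XT.nd (nat_lit 156) (nat_lit 380) (nat_lit 0) (XT.nd (nat_lit 78) (nat_lit 304) (nat_lit 0) (XT.lf (nat_lit 0) (nat_lit 143107340037) (nat_lit 456) (nat_lit 45264043239) (nat_lit 76) (nat_lit 45241107246) (nat_lit 270) (nat_lit 5) (nat_lit 276) (nat_lit 5) (nat_lit 271) (nat_lit 5) (nat_lit 431) (nat_lit 414) (nat_lit 175)) (XT.lf (nat_lit 0) (nat_lit 89911316489) (nat_lit 304) (nat_lit 89935097818) (nat_lit 380) (nat_lit 60310672763) (nat_lit 266)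 (nat_lit 5) (nat_lit 270) (nat_lit 5) (nat_lit 271) (nat_lit 5) (nat_lit 432) (nat_lit 414) (nat_lit 174))) (XT.nd (nat_lit 78) (nat_lit 380) (nat_lit 0) (XT.lf (nat_lit 0) (nat_lit 219411057258) (nat_lit 380) (nat_lit 13795920534) (nat_lit 76) (nat_lit 13772504904) (nat_lit 266) (nat_lit 5) (nat_lit 271) (nat_lit 5) (nat_lit 267) (nat_lit 5) (nat_lit 433) (nat_lit 414) (nat_lit 173)) (XT.lf (nat_lit 0) (nat_lit 10189762328) (nat_lit 380) (nat_lit 121896111863) (nat_lit 76) (nat_lit 121871965999) (nat_lit 261) (nat_lit 5) (nat_lit 266) (nat_lit 5) (nat_lit 262) (nat_lit 5) (nat_lit 434) (nat_lit 414) (nat_lit 172))))) (XT.nd (nat_lit 312) (nat_lit 836) (nat_lit 0) (XT.nd (nat_lit 156) (nat_lit 304) (nat_lit 0) (XT.nd (nat_lit 78) (nat_lit 0) (nat_lit 0) (XT.lf (nat_lit 0) (nat_lit 24754203075) (nat_lit 304) (nat_lit 24779044399) (nat_lit 380) (nat_lit 211698077621) (nat_lit 257) (nat_lit 5) (nat_lit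 261) (nat_lit 5) (nat_lit 262) (nat_lit 5) (nat_lit 435) (nat_lit 414) (nat_lit 171)) (XT.lf (nat_lit 0) (nat_lit 94314293457) (nat_lit 380) (nat_lit 87202480333) (nat_lit 76) (nat_lit 87178191126) (nat_lit 257) (nat_lit 5) (nat_lit 262) (nat_lit 5) (nat_lit 258) (nat_lit 5) (nat_lit 436) (nat_lit 414) (nat_lit 170))) (XT.nd (nat_lit 78) (nat_lit 0) (nat_lit 0) (XT.lf (nat_lit 0) (nat_lit 71415314783) (nat_lit 304) (nat_lit 71440204755) (nat_lit 380) (nat_lit 133600210800) (nat_lit 253) (nat_lit 5) (nat_lit 257) (nat_lit 5) (nat_lit 258) (nat_lit 5) (nat_lit 437) (nat_lit 414) (nat_lit 169)) (XT.lf (nat_lit 0) (nat_lit 196013907963) (nat_lit 380) (nat_lit 44252685332) (nat_lit 76) (nat_lit 44228435685) (nat_lit 253) (nat_lit 5) (nat_lit 258) (nat_lit 5) (nat_lit 254) (nat_lit 5) (nat_lit 438) (nat_lit 414) (nat_lit 168)))) (XT.nd (nat_lit 156) (nat_lit 228) (nat_lit 0) (XT.nd (nat_lit 78) (nat_lit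 380) (nat_lit 0) (XT.lf (nat_lit 0) (nat_lit 127483449161) (nat_lit 228) (nat_lit 127508217770) (nat_lit 304) (nat_lit 37786553066) (nat_lit 250) (nat_lit 5) (nat_lit 253) (nat_lit 5) (nat_lit 254) (nat_lit 5) (nat_lit 439) (nat_lit 414) (nat_lit 167)) (XT.lf (nat_lit 0) (nat_lit 7904137815) (nat_lit 304) (nat_lit 7929400675) (nat_lit 380) (nat_lit 285585723878) (nat_lit 245) (nat_lit 5) (nat_lit 249) (nat_lit 5) (nat_lit 250) (nat_lit 5) (nat_lit 440) (nat_lit 414) (nat_lit 166))) (XT.nd (nat_lit 78) (nat_lit 228) (nat_lit 0) (XT.lf (nat_lit 0) (nat_lit 75546433519) (nat_lit 380) (nat_lit 117352687590) (nat_lit 76) (nat_lit 117328179423) (nat_lit 245) (nat_lit 5) (nat_lit 250) (nat_lit 5) (nat_lit 246) (nat_lit 5) (nat_lit 441) (nat_lit 414) (nat_lit 165)) (XT.lf (nat_lit 0) (nat_lit 69719236553) (nat_lit 228) (nat_lit 69744171672) (nat_lit 304) (nat_lit 179951410630) (nat_lit 242) (nat_lit 5)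 (nat_lit 245) (nat_lit 5) (nat_lit 246) (nat_lit 5) (nat_lit 442) (nat_lit 414) (nat_lit 164)))))) (XT.nd (nat_lit 624) (nat_lit 912) (nat_lit 0) (XT.nd (nat_lit 312) (nat_lit 684) (nat_lit 0) (XT.nd (nat_lit 156) (nat_lit 304) (nat_lit 0) (XT.nd (nat_lit 78) (nat_lit 228) (nat_lit 0) (XT.lf (nat_lit 0) (nat_lit 209526201983) (nat_lit 304) (nat_lit 59706073795) (nat_lit 76) (nat_lit 59681938804) (nat_lit 242) (nat_lit 5) (nat_lit 246) (nat_lit 5) (nat_lit 243) (nat_lit 5) (nat_lit 443) (nat_lit 414) (nat_lit 163)) (XT.lf (nat_lit 0) (nat_lit 143223517890) (nat_lit 228) (nat_lit 143248021698) (nat_lit 304) (nat_lit 52248070296) (nat_lit 239) (nat_lit 5) (nat_lit 242) (nat_lit 5) (nat_lit 243) (nat_lit 5) (nat_lit 444) (nat_lit 414) (nat_lit 162))) (XT.nd (nat_lit 78) (nat_lit 0) (nat_lit 0) (XT.lf (nat_lit 0) (nat_lit 9407237146) (nat_lit 228) (nat_lit 9432092209) (nat_lit 304) (nat_lit 330102972897)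 (nat_lit 235) (nat_lit 5) (nat_lit 238) (nat_lit 5) (nat_lit 239) (nat_lit 5) (nat_lit 445) (nat_lit 414) (nat_lit 161)) (XT.lf (nat_lit 0) (nat_lit 97136698528) (nat_lit 304) (nat_lit 131125010322) (nat_lit 76) (nat_lit 131101020235) (nat_lit 235) (nat_lit 5) (nat_lit 239) (nat_lit 5) (nat_lit 236) (nat_lit 5) (nat_lit 446) (nat_lit 414) (nat_lit 160)))) (XT.nd (nat_lit 156) (nat_lit 456) (nat_lit 0) (XT.nd (nat_lit 78) (nat_lit 0) (nat_lit 0) (XT.lf (nat_lit 0) (nat_lit 90445659268) (nat_lit 228) (nat_lit 90469952782) (nat_lit 304) (nat_lit 189310231417) (nat_lit 232) (nat_lit 5) (nat_lit 235) (nat_lit 5) (nat_lit 236) (nat_lit 5) (nat_lit 447) (nat_lit 414) (nat_lit 159)) (XT.lf (nat_lit 0) (nat_lit 271986875004) (nat_lit 304) (nat_lit 54756740137) (nat_lit 76) (nat_lit 54733328239) (nat_lit 232) (nat_lit 5) (nat_lit 236) (nat_lit 5) (nat_lit 233) (nat_lit 5) (nat_lit 448) (nat_lit 414) (nat_lit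 158))) (XT.nd (nat_lit 78) (nat_lit 304) (nat_lit 0) (XT.lf (nat_lit 0) (nat_lit 185987435545) (nat_lit 152) (nat_lit 186011109554) (nat_lit 228) (nat_lit 21072710990) (nat_lit 230) (nat_lit 5) (nat_lit 232) (nat_lit 5) (nat_lit 233) (nat_lit 5) (nat_lit 449) (nat_lit 414) (nat_lit 157)) (XT.lf (nat_lit 0) (nat_lit 35470459324) (nat_lit 228) (nat_lit 35494382963) (nat_lit 304) (nat_lit 334149605472) (nat_lit 226) (nat_lit 5) (nat_lit 229) (nat_lit 5) (nat_lit 230) (nat_lit 5) (nat_lit 450) (nat_lit 414) (nat_lit 156))))) (XT.nd (nat_lit 312) (nat_lit 532) (nat_lit 0) (XT.nd (nat_lit 156) (nat_lit 228) (nat_lit 0) (XT.nd (nat_lit 78) (nat_lit 152) (nat_lit 0) (XT.lf (nat_lit 0) (nat_lit 172373916172) (nat_lit 304) (nat_lit 122558864878) (nat_lit 76) (nat_lit 122535854038) (nat_lit 226) (nat_lit 5) (nat_lit 230) (nat_lit 5) (nat_lit 227) (nat_lit 5) (nat_lit 451) (nat_lit 414) (nat_lit 155)) (XT.lf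 (nat_lit 0) (nat_lit 140805202449) (nat_lit 152) (nat_lit 140828428930) (nat_lit 228) (nat_lit 148667891025) (nat_lit 224) (nat_lit 5) (nat_lit 226) (nat_lit 5) (nat_lit 227) (nat_lit 5) (nat_lit 452) (nat_lit 414) (nat_lit 154))) (XT.nd (nat_lit 78) (nat_lit 228) (nat_lit 0) (XT.lf (nat_lit 0) (nat_lit 398793475915) (nat_lit 228) (nat_lit 22441518520) (nat_lit 76) (nat_lit 22419202471) (nat_lit 224) (nat_lit 5) (nat_lit 227) (nat_lit 5) (nat_lit 225) (nat_lit 5) (nat_lit 453) (nat_lit 414) (nat_lit 153)) (XT.lf (nat_lit 0) (nat_lit 68621592794) (nat_lit 228) (nat_lit 194349234359) (nat_lit 76) (nat_lit 194326732032) (nat_lit 221) (nat_lit 5) (nat_lit 224) (nat_lit 5) (nat_lit 222) (nat_lit 5) (nat_lit 454) (nat_lit 414) (nat_lit 152)))) (XT.nd (nat_lit 156) (nat_lit 380) (nat_lit 0) (XT.nd (nat_lit 78) (nat_lit 0) (nat_lit 0) (XT.lf (nat_lit 0) (nat_lit 94051185612) (nat_lit 152) (nat_lit 94073865347)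 (nat_lit 228) (nat_lit 283368535383) (nat_lit 219) (nat_lit 5) (nat_lit 221) (nat_lit 5) (nat_lit 222) (nat_lit 5) (nat_lit 455) (nat_lit 414) (nat_lit 151)) (XT.lf (nat_lit 0) (nat_lit 318249036299) (nat_lit 228) (nat_lit 83969935753) (nat_lit 76) (nat_lit 83948175092) (nat_lit 219) (nat_lit 5) (nat_lit 222) (nat_lit 5) (nat_lit 220) (nat_lit 5) (nat_lit 456) (nat_lit 414) (nat_lit 150))) (XT.nd (nat_lit 78) (nat_lit 228) (nat_lit 0) (XT.lf (nat_lit 0) (nat_lit 229995162717) (nat_lit 152) (nat_lit 230017076629) (nat_lit 228) (nat_lit 41305495718) (nat_lit 217) (nat_lit 5) (nat_lit 219) (nat_lit 5) (nat_lit 220) (nat_lit 5) (nat_lit 457) (nat_lit 414) (nat_lit 149)) (XT.lf (nat_lit 0) (nat_lit 45418580294) (nat_lit 152) (nat_lit 45440640160) (nat_lit 228) (nat_lit 426187373290) (nat_lit 214) (nat_lit 5) (nat_lit 216) (nat_lit 5) (nat_lit 217) (nat_lit 5) (nat_lit 458) (nat_lit 414) (nat_lit 148))))))))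
noncomputable def xc309 : XT := (XT.nd (nat_lit 50232) (nat_lit 0) (nat_lit 2964) (XT.nd (nat_lit 1248) (nat_lit 760) (nat_lit 0) (XT.nd (nat_lit 624) (nat_lit 684) (nat_lit 0) (XT.nd (nat_lit 312) (nat_lit 456) (nat_lit 0) (XT.nd (nat_lit 156) (nat_lit 152) (nat_lit 0) (XT.nd (nat_lit 78) (nat_lit 152) (nat_lit 0) (XT.lf (nat_lit 0) (nat_lit 235230686558) (nat_lit 228) (nat_lit 148984580569) (nat_lit 76) (nat_lit 148963438789) (nat_lit 214) (nat_lit 5) (nat_lit 217) (nat_lit 5) (nat_lit 215) (nat_lit 5) (nat_lit 459) (nat_lit 414) (nat_lit 147)) (XT.lf (nat_lit 0) (nat_lit 195296736852) (nat_lit 152) (nat_lit 195318004713) (nat_lit 228) (nat_lit 159312981350) (nat_lit 212) (nat_lit 5) (nat_lit 214) (nat_lit 5) (nat_lit 215) (nat_lit 5) (nat_lit 460) (nat_lit 414) (nat_lit 146))) (XT.nd (nat_lit 78) (nat_lit 152) (nat_lit 0) (XT.lf (nat_lit 0) (nat_lit 556379661093) (nat_lit 228) (nat_lit 5512158023)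 (nat_lit 76) (nat_lit 5491788559) (nat_lit 212) (nat_lit 5) (nat_lit 215) (nat_lit 5) (nat_lit 213) (nat_lit 4) (nat_lit 461) (nat_lit 414) (nat_lit 145)) (XT.lf (nat_lit 0) (nat_lit 149209530823) (nat_lit 152) (nat_lit 217977105984) (nat_lit 76) (nat_lit 217956627607) (nat_lit 210) (nat_lit 5) (nat_lit 212) (nat_lit 5) (nat_lit 211) (nat_lit 5) (nat_lit 462) (nat_lit 414) (nat_lit 144)))) (XT.nd (nat_lit 156) (nat_lit 304) (nat_lit 0) (XT.nd (nat_lit 78) (nat_lit 0) (nat_lit 0) (XT.lf (nat_lit 0) (nat_lit 159816661435) (nat_lit 152) (nat_lit 159837243538) (nat_lit 228) (nat_lit 283998478007) (nat_lit 208) (nat_lit 5) (nat_lit 210) (nat_lit 5) (nat_lit 211) (nat_lit 5) (nat_lit 463) (nat_lit 414) (nat_lit 143)) (XT.lf (nat_lit 0) (nat_lit 503276186418) (nat_lit 228) (nat_lit 59798841357) (nat_lit 76) (nat_lit 59779145271) (nat_lit 208) (nat_lit 5) (nat_lit 211) (nat_lit 5) (nat_lit 209) (nat_lit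 4) (nat_lit 464) (nat_lit 414) (nat_lit 142))) (XT.nd (nat_lit 78) (nat_lit 152) (nat_lit 0) (XT.lf (nat_lit 0) (nat_lit 59615570419) (nat_lit 152) (nat_lit 291483162046) (nat_lit 76) (nat_lit 291463376357) (nat_lit 206) (nat_lit 5) (nat_lit 208) (nat_lit 5) (nat_lit 207) (nat_lit 5) (nat_lit 465) (nat_lit 414) (nat_lit 141)) (XT.lf (nat_lit 0) (nat_lit 123342670751) (nat_lit 152) (nat_lit 123362541776) (nat_lit 228) (nat_lit 416304463534) (nat_lit 204) (nat_lit 5) (nat_lit 206) (nat_lit 5) (nat_lit 207) (nat_lit 5) (nat_lit 466) (nat_lit 414) (nat_lit 140))))) (XT.nd (nat_lit 312) (nat_lit 380) (nat_lit 0) (XT.nd (nat_lit 156) (nat_lit 228) (nat_lit 0) (XT.nd (nat_lit 78) (nat_lit 76) (nat_lit 0) (XT.lf (nat_lit 0) (nat_lit 449973977901) (nat_lit 228) (nat_lit 117091706945) (nat_lit 76) (nat_lit 117072704757) (nat_lit 204) (nat_lit 5) (nat_lit 207) (nat_lit 5) (nat_lit 205) (nat_lit 4) (nat_lit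 467) (nat_lit 414) (nat_lit 139)) (XT.lf (nat_lit 0) (nat_lit 335322364437) (nat_lit 76) (nat_lit 335341440342) (nat_lit 152) (nat_lit 35296852883) (nat_lit 203) (nat_lit 5) (nat_lit 204) (nat_lit 5) (nat_lit 205) (nat_lit 4) (nat_lit 468) (nat_lit 414) (nat_lit 138))) (XT.nd (nat_lit 78) (nat_lit 0) (nat_lit 0) (XT.lf (nat_lit 0) (nat_lit 85647035730) (nat_lit 152) (nat_lit 85666181841) (nat_lit 228) (nat_lit 557257736095) (nat_lit 200) (nat_lit 5) (nat_lit 202) (nat_lit 5) (nat_lit 203) (nat_lit 5) (nat_lit 469) (nat_lit 414) (nat_lit 137)) (XT.lf (nat_lit 0) (nat_lit 396202938133) (nat_lit 228) (nat_lit 177820712474) (nat_lit 76) (nat_lit 177802414404) (nat_lit 200) (nat_lit 5) (nat_lit 203) (nat_lit 5) (nat_lit 201) (nat_lit 4) (nat_lit 470) (nat_lit 414) (nat_lit 136)))) (XT.nd (nat_lit 156) (nat_lit 76) (nat_lit 0) (XT.nd (nat_lit 78) (nat_lit 228) (nat_lit 0) (XT.lf (nat_lit 0) (nat_lit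 319354568040) (nat_lit 76) (nat_lit 319372926757) (nat_lit 152) (nat_lit 137196919622) (nat_lit 199) (nat_lit 5) (nat_lit 200) (nat_lit 5) (nat_lit 201) (nat_lit 4) (nat_lit 471) (nat_lit 414) (nat_lit 135)) (XT.lf (nat_lit 0) (nat_lit 46484679037) (nat_lit 152) (nat_lit 46503095512) (nat_lit 228) (nat_lit 707978641733) (nat_lit 196) (nat_lit 5) (nat_lit 198) (nat_lit 5) (nat_lit 199) (nat_lit 5) (nat_lit 472) (nat_lit 414) (nat_lit 134))) (XT.nd (nat_lit 78) (nat_lit 76) (nat_lit 0) (XT.lf (nat_lit 0) (nat_lit 341677175634) (nat_lit 228) (nat_lit 242454084293) (nat_lit 76) (nat_lit 242436492404) (nat_lit 196) (nat_lit 5) (nat_lit 199) (nat_lit 5) (nat_lit 197) (nat_lit 4) (nat_lit 473) (nat_lit 414) (nat_lit 133)) (XT.lf (nat_lit 0) (nat_lit 304147154381) (nat_lit 76) (nat_lit 304164796164) (nat_lit 152) (nat_lit 244861659448) (nat_lit 195) (nat_lit 5) (nat_lit 196) (nat_lit 5) (nat_lit 197) (nat_lit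 4) (nat_lit 474) (nat_lit 414) (nat_lit 132)))))) (XT.nd (nat_lit 624) (nat_lit 76) (nat_lit 0) (XT.nd (nat_lit 312) (nat_lit 380) (nat_lit 0) (XT.nd (nat_lit 156) (nat_lit 76) (nat_lit 0) (XT.nd (nat_lit 78) (nat_lit 0) (nat_lit 0) (XT.lf (nat_lit 0) (nat_lit 5591111270) (nat_lit 152) (nat_lit 5608800572) (nat_lit 228) (nat_lit 869691219947) (nat_lit 192) (nat_lit 5) (nat_lit 194) (nat_lit 5) (nat_lit 195) (nat_lit 5) (nat_lit 475) (nat_lit 414) (nat_lit 131)) (XT.lf (nat_lit 0) (nat_lit 286092819883) (nat_lit 228) (nat_lit 311502516393) (nat_lit 76) (nat_lit 311485626338) (nat_lit 192) (nat_lit 5) (nat_lit 195) (nat_lit 5) (nat_lit 193) (nat_lit 4) (nat_lit 476) (nat_lit 414) (nat_lit 130))) (XT.nd (nat_lit 78) (nat_lit 0) (nat_lit 0) (XT.lf (nat_lit 0) (nat_lit 289663912723) (nat_lit 76) (nat_lit 289680843826) (nat_lit 152) (nat_lit 359104809272) (nat_lit 191) (nat_lit 5) (nat_lit 192) (nat_lit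 5) (nat_lit 193) (nat_lit 4) (nat_lit 477) (nat_lit 414) (nat_lit 129)) (XT.lf (nat_lit 0) (nat_lit 893146237711) (nat_lit 152) (nat_lit 37931088092) (nat_lit 0) (nat_lit 37914926000) (nat_lit 191) (nat_lit 5) (nat_lit 193) (nat_lit 4) (nat_lit 191) (nat_lit 4) (nat_lit 478) (nat_lit 414) (nat_lit 128)))) (XT.nd (nat_lit 156) (nat_lit 152) (nat_lit 0) (XT.nd (nat_lit 78) (nat_lit 76) (nat_lit 0) (XT.lf (nat_lit 0) (nat_lit 229125639310) (nat_lit 152) (nat_lit 385523786582) (nat_lit 76) (nat_lit 385507589031) (nat_lit 189) (nat_lit 5) (nat_lit 191) (nat_lit 5) (nat_lit 190) (nat_lit 4) (nat_lit 479) (nat_lit 414) (nat_lit 127)) (XT.lf (nat_lit 0) (nat_lit 275870357010) (nat_lit 76) (nat_lit 275886588331) (nat_lit 152) (nat_lit 480812902325) (nat_lit 188) (nat_lit 5) (nat_lit 189) (nat_lit 5) (nat_lit 190) (nat_lit 4) (nat_lit 480) (nat_lit 414) (nat_lit 126))) (XT.nd (nat_lit 78) (nat_lit 152) (nat_lit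 0) (XT.lf (nat_lit 0) (nat_lit 898401980091) (nat_lit 152) (nat_lit 83911361407) (nat_lit 0) (nat_lit 83895872375) (nat_lit 188) (nat_lit 5) (nat_lit 190) (nat_lit 4) (nat_lit 188) (nat_lit 4) (nat_lit 481) (nat_lit 414) (nat_lit 125)) (XT.lf (nat_lit 0) (nat_lit 170428440789) (nat_lit 152) (nat_lit 465127833269) (nat_lit 76) (nat_lit 465112315065) (nat_lit 186) (nat_lit 5) (nat_lit 188) (nat_lit 5) (nat_lit 187) (nat_lit 4) (nat_lit 482) (nat_lit 414) (nat_lit 124))))) (XT.nd (nat_lit 48048) (nat_lit 0) (nat_lit 8208) (XT.nd (nat_lit 47892) (nat_lit 0) (nat_lit 8132) (XT.nd (nat_lit 47814) (nat_lit 0) (nat_lit 8132) (XT.lf (nat_lit 0) (nat_lit 262733643676) (nat_lit 76) (nat_lit 262749189663) (nat_lit 152) (nat_lit 610953234999) (nat_lit 185) (nat_lit 5) (nat_lit 186) (nat_lit 5) (nat_lit 187) (nat_lit 4) (nat_lit 483) (nat_lit 414) (nat_lit 123)) (XT.lf (nat_lit 0) (nat_lit 37030332139) (nat_lit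 836) (nat_lit 20875765465) (nat_lit 836) (nat_lit 20875765465) (nat_lit 292) (nat_lit 3) (nat_lit 303) (nat_lit 3) (nat_lit 303) (nat_lit 5) (nat_lit 415) (nat_lit 415) (nat_lit 190))) (XT.nd (nat_lit 78) (nat_lit 0) (nat_lit 76) (XT.lf (nat_lit 76) (nat_lit 38254722154) (nat_lit 0) (nat_lit 38257318624) (nat_lit 836) (nat_lit 84960785519) (nat_lit 293) (nat_lit 5) (nat_lit 292) (nat_lit 3) (nat_lit 303) (nat_lit 5) (nat_lit 416) (nat_lit 415) (nat_lit 189)) (XT.lf (nat_lit 0) (nat_lit 80478581051) (nat_lit 760) (nat_lit 42516999285) (nat_lit 836) (nat_lit 42512171380) (nat_lit 293) (nat_lit 5) (nat_lit 303) (nat_lit 5) (nat_lit 304) (nat_lit 5) (nat_lit 417) (nat_lit 415) (nat_lit 188)))) (XT.nd (nat_lit 156) (nat_lit 0) (nat_lit 76) (XT.nd (nat_lit 78) (nat_lit 0) (nat_lit 76) (XT.lf (nat_lit 76) (nat_lit 42967112612) (nat_lit 0) (nat_lit 42974183446) (nat_lit 836) (nat_lit 83738234963) (nat_lit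 294) (nat_lit 5) (nat_lit 293) (nat_lit 5) (nat_lit 304) (nat_lit 5) (nat_lit 418) (nat_lit 415) (nat_lit 187)) (XT.lf (nat_lit 0) (nat_lit 93049724070) (nat_lit 760) (nat_lit 40475157444) (nat_lit 836) (nat_lit 40466388913) (nat_lit 294) (nat_lit 5) (nat_lit 304) (nat_lit 5) (nat_lit 305) (nat_lit 5) (nat_lit 419) (nat_lit 415) (nat_lit 186))) (XT.nd (nat_lit 78) (nat_lit 0) (nat_lit 76) (XT.lf (nat_lit 76) (nat_lit 51001749106) (nat_lit 0) (nat_lit 51012455163) (nat_lit 836) (nat_lit 76429360996) (nat_lit 295) (nat_lit 5) (nat_lit 294) (nat_lit 5) (nat_lit 305) (nat_lit 5) (nat_lit 420) (nat_lit 415) (nat_lit 185)) (XT.lf (nat_lit 0) (nat_lit 112679689143) (nat_lit 760) (nat_lit 35194050154) (nat_lit 836) (nat_lit 35182096515) (nat_lit 295) (nat_lit 5) (nat_lit 305) (nat_lit 5) (nat_lit 306) (nat_lit 5) (nat_lit 421) (nat_lit 415) (nat_lit 184))))))) (XT.nd (nat_lit 1248) (nat_lit 2508) (nat_lit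 0) (XT.nd (nat_lit 624) (nat_lit 1368) (nat_lit 0) (XT.nd (nat_lit 312) (nat_lit 1520) (nat_lit 0) (XT.nd (nat_lit 156) (nat_lit 0) (nat_lit 76) (XT.nd (nat_lit 78) (nat_lit 0) (nat_lit 76) (XT.lf (nat_lit 76) (nat_lit 62841041910) (nat_lit 0) (nat_lit 62854669257) (nat_lit 836) (nat_lit 62112145573) (nat_lit 296) (nat_lit 5) (nat_lit 295) (nat_lit 5) (nat_lit 306) (nat_lit 5) (nat_lit 422) (nat_lit 415) (nat_lit 183)) (XT.lf (nat_lit 0) (nat_lit 140380624833) (nat_lit 760) (nat_lit 26190222942) (nat_lit 836) (nat_lit 26175726414) (nat_lit 296) (nat_lit 5) (nat_lit 306) (nat_lit 5) (nat_lit 307) (nat_lit 5) (nat_lit 423) (nat_lit 415) (nat_lit 182))) (XT.nd (nat_lit 78) (nat_lit 0) (nat_lit 76) (XT.lf (nat_lit 76) (nat_lit 79023955644) (nat_lit 0) (nat_lit 79039897985) (nat_lit 836) (nat_lit 39755170407) (nat_lit 297) (nat_lit 5) (nat_lit 296) (nat_lit 5) (nat_lit 307) (nat_lit 5) (nat_lit 424)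 (nat_lit 415) (nat_lit 181)) (XT.lf (nat_lit 0) (nat_lit 177282842607) (nat_lit 760) (nat_lit 12923084204) (nat_lit 76) (nat_lit 12906589628) (nat_lit 297) (nat_lit 5) (nat_lit 307) (nat_lit 5) (nat_lit 298) (nat_lit 5) (nat_lit 425) (nat_lit 415) (nat_lit 180)))) (XT.nd (nat_lit 156) (nat_lit 380) (nat_lit 0) (XT.nd (nat_lit 78) (nat_lit 532) (nat_lit 0) (XT.lf (nat_lit 0) (nat_lit 100152159543) (nat_lit 760) (nat_lit 100169903066) (nat_lit 836) (nat_lit 8205656775) (nat_lit 287) (nat_lit 5) (nat_lit 297) (nat_lit 5) (nat_lit 298) (nat_lit 5) (nat_lit 426) (nat_lit 415) (nat_lit 179)) (XT.lf (nat_lit 0) (nat_lit 5126678937) (nat_lit 456) (nat_lit 5145611933) (nat_lit 532) (nat_lit 203918232354) (nat_lit 280) (nat_lit 5) (nat_lit 286) (nat_lit 5) (nat_lit 287) (nat_lit 5) (nat_lit 427) (nat_lit 415) (nat_lit 178))) (XT.nd (nat_lit 78) (nat_lit 380) (nat_lit 0) (XT.lf (nat_lit 0) (nat_lit 32741186188)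 (nat_lit 532) (nat_lit 93620262362) (nat_lit 76) (nat_lit 93601152050) (nat_lit 280) (nat_lit 5) (nat_lit 287) (nat_lit 5) (nat_lit 281) (nat_lit 5) (nat_lit 428) (nat_lit 415) (nat_lit 177)) (XT.lf (nat_lit 0) (nat_lit 28420684817) (nat_lit 380) (nat_lit 28440822641) (nat_lit 456) (nat_lit 169135375328) (nat_lit 275) (nat_lit 5) (nat_lit 280) (nat_lit 5) (nat_lit 281) (nat_lit 5) (nat_lit 429) (nat_lit 415) (nat_lit 176))))) (XT.nd (nat_lit 312) (nat_lit 684) (nat_lit 0) (XT.nd (nat_lit 156) (nat_lit 304) (nat_lit 0) (XT.nd (nat_lit 78) (nat_lit 380) (nat_lit 0) (XT.lf (nat_lit 0) (nat_lit 84960459894) (nat_lit 456) (nat_lit 73626949648) (nat_lit 76) (nat_lit 73606838784) (nat_lit 275) (nat_lit 5) (nat_lit 281) (nat_lit 5) (nat_lit 276) (nat_lit 5) (nat_lit 430) (nat_lit 415) (nat_lit 175)) (XT.lf (nat_lit 0) (nat_lit 57906800034) (nat_lit 380) (nat_lit 57927798501) (nat_lit 456) (nat_lit 122798371679)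 (nat_lit 270) (nat_lit 5) (nat_lit 275) (nat_lit 5) (nat_lit 276) (nat_lit 5) (nat_lit 431) (nat_lit 415) (nat_lit 174))) (XT.nd (nat_lit 78) (nat_lit 304) (nat_lit 0) (XT.lf (nat_lit 0) (nat_lit 150265446453) (nat_lit 456) (nat_lit 47524167623) (nat_lit 76) (nat_lit 47503364002) (nat_lit 270) (nat_lit 5) (nat_lit 276) (nat_lit 5) (nat_lit 271) (nat_lit 5) (nat_lit 432) (nat_lit 415) (nat_lit 173)) (XT.lf (nat_lit 0) (nat_lit 94409910450) (nat_lit 304) (nat_lit 94431480817) (nat_lit 380) (nat_lit 63323417345) (nat_lit 266) (nat_lit 5) (nat_lit 270) (nat_lit 5) (nat_lit 271) (nat_lit 5) (nat_lit 433) (nat_lit 415) (nat_lit 172)))) (XT.nd (nat_lit 156) (nat_lit 304) (nat_lit 0) (XT.nd (nat_lit 78) (nat_lit 380) (nat_lit 0) (XT.lf (nat_lit 0) (nat_lit 230384145407) (nat_lit 380) (nat_lit 14482711663) (nat_lit 76) (nat_lit 14461472996) (nat_lit 266) (nat_lit 5) (nat_lit 271) (nat_lit 5) (nat_lit 267)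 (nat_lit 5) (nat_lit 434) (nat_lit 415) (nat_lit 171)) (XT.lf (nat_lit 0) (nat_lit 10701751500) (nat_lit 380) (nat_lit 127987878328) (nat_lit 76) (nat_lit 127965977318) (nat_lit 261) (nat_lit 5) (nat_lit 266) (nat_lit 5) (nat_lit 262) (nat_lit 5) (nat_lit 435) (nat_lit 415) (nat_lit 170))) (XT.nd (nat_lit 78) (nat_lit 0) (nat_lit 0) (XT.lf (nat_lit 0) (nat_lit 25994903338) (nat_lit 304) (nat_lit 26017435151) (nat_lit 380) (nat_lit 222280431428) (nat_lit 257) (nat_lit 5) (nat_lit 261) (nat_lit 5) (nat_lit 262) (nat_lit 5) (nat_lit 436) (nat_lit 415) (nat_lit 169)) (XT.lf (nat_lit 0) (nat_lit 99032329471) (nat_lit 380) (nat_lit 91559649325) (nat_lit 76) (nat_lit 91537618298) (nat_lit 257) (nat_lit 5) (nat_lit 262) (nat_lit 5) (nat_lit 258) (nat_lit 5) (nat_lit 437) (nat_lit 415) (nat_lit 168)))))) (XT.nd (nat_lit 624) (nat_lit 1140) (nat_lit 0) (XT.nd (nat_lit 312) (nat_lit 456) (nat_lit 0) (XT.nd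 (nat_lit 156) (nat_lit 608) (nat_lit 0) (XT.nd (nat_lit 78) (nat_lit 0) (nat_lit 0) (XT.lf (nat_lit 0) (nat_lit 74988987885) (nat_lit 304) (nat_lit 75011563823) (nat_lit 380) (nat_lit 140277852338) (nat_lit 253) (nat_lit 5) (nat_lit 257) (nat_lit 5) (nat_lit 258) (nat_lit 5) (nat_lit 438) (nat_lit 415) (nat_lit 167)) (XT.lf (nat_lit 0) (nat_lit 205816761799) (nat_lit 380) (nat_lit 46462452926) (nat_lit 76) (nat_lit 46440457782) (nat_lit 253) (nat_lit 5) (nat_lit 258) (nat_lit 5) (nat_lit 254) (nat_lit 5) (nat_lit 439) (nat_lit 415) (nat_lit 166))) (XT.nd (nat_lit 78) (nat_lit 380) (nat_lit 0) (XT.lf (nat_lit 0) (nat_lit 133860442054) (nat_lit 228) (nat_lit 133882907913) (nat_lit 304) (nat_lit 39673676045) (nat_lit 250) (nat_lit 5) (nat_lit 253) (nat_lit 5) (nat_lit 254) (nat_lit 5) (nat_lit 440) (nat_lit 415) (nat_lit 165)) (XT.lf (nat_lit 0) (nat_lit 8302189076) (nat_lit 304) (nat_lit 8325103235)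 (nat_lit 380) (nat_lit 299862829332) (nat_lit 245) (nat_lit 5) (nat_lit 249) (nat_lit 5) (nat_lit 250) (nat_lit 5) (nat_lit 441) (nat_lit 415) (nat_lit 164)))) (XT.nd (nat_lit 156) (nat_lit 228) (nat_lit 0) (XT.nd (nat_lit 78) (nat_lit 228) (nat_lit 0) (XT.lf (nat_lit 0) (nat_lit 79325744602) (nat_lit 380) (nat_lit 123217525558) (nat_lit 76) (nat_lit 123195295928) (nat_lit 245) (nat_lit 5) (nat_lit 250) (nat_lit 5) (nat_lit 246) (nat_lit 5) (nat_lit 442) (nat_lit 415) (nat_lit 163)) (XT.lf (nat_lit 0) (nat_lit 73207949689) (nat_lit 228) (nat_lit 73230566577) (nat_lit 304) (nat_lit 188946946651) (nat_lit 242) (nat_lit 5) (nat_lit 245) (nat_lit 5) (nat_lit 246) (nat_lit 5) (nat_lit 443) (nat_lit 415) (nat_lit 162))) (XT.nd (nat_lit 78) (nat_lit 228) (nat_lit 0) (XT.lf (nat_lit 0) (nat_lit 220004369542) (nat_lit 304) (nat_lit 62688677022) (nat_lit 76) (nat_lit 62666785873) (nat_lit 242) (nat_lit 5)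 (nat_lit 246) (nat_lit 5) (nat_lit 243) (nat_lit 5) (nat_lit 444) (nat_lit 415) (nat_lit 161)) (XT.lf (nat_lit 0) (nat_lit 150387350691) (nat_lit 228) (nat_lit 150409576368) (nat_lit 304) (nat_lit 54858572795) (nat_lit 239) (nat_lit 5) (nat_lit 242) (nat_lit 5) (nat_lit 243) (nat_lit 5) (nat_lit 445) (nat_lit 415) (nat_lit 160))))) (XT.nd (nat_lit 312) (nat_lit 608) (nat_lit 0) (XT.nd (nat_lit 156) (nat_lit 228) (nat_lit 0) (XT.nd (nat_lit 78) (nat_lit 0) (nat_lit 0) (XT.lf (nat_lit 0) (nat_lit 9880272920) (nat_lit 228) (nat_lit 9902817195) (nat_lit 304) (nat_lit 346606237535) (nat_lit 235) (nat_lit 5) (nat_lit 238) (nat_lit 5) (nat_lit 239) (nat_lit 5) (nat_lit 446) (nat_lit 415) (nat_lit 159)) (XT.lf (nat_lit 0) (nat_lit 101995255384) (nat_lit 304) (nat_lit 137678641888) (nat_lit 76) (nat_lit 137656882172) (nat_lit 235) (nat_lit 5) (nat_lit 239) (nat_lit 5) (nat_lit 236) (nat_lit 5) (nat_lit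 447) (nat_lit 415) (nat_lit 158))) (XT.nd (nat_lit 78) (nat_lit 0) (nat_lit 0) (XT.lf (nat_lit 0) (nat_lit 94970518941) (nat_lit 228) (nat_lit 94992553874) (nat_lit 304) (nat_lit 198773978818) (nat_lit 232) (nat_lit 5) (nat_lit 235) (nat_lit 5) (nat_lit 236) (nat_lit 5) (nat_lit 448) (nat_lit 415) (nat_lit 157)) (XT.lf (nat_lit 0) (nat_lit 285587832239) (nat_lit 304) (nat_lit 57492056458) (nat_lit 76) (nat_lit 57470821177) (nat_lit 232) (nat_lit 5) (nat_lit 236) (nat_lit 5) (nat_lit 233) (nat_lit 5) (nat_lit 449) (nat_lit 415) (nat_lit 156)))) (XT.nd (nat_lit 156) (nat_lit 152) (nat_lit 0) (XT.nd (nat_lit 78) (nat_lit 304) (nat_lit 0) (XT.lf (nat_lit 0) (nat_lit 195289287351) (nat_lit 152) (nat_lit 195310760375) (nat_lit 228) (nat_lit 22124692398) (nat_lit 230) (nat_lit 5) (nat_lit 232) (nat_lit 5) (nat_lit 233) (nat_lit 5) (nat_lit 450) (nat_lit 415) (nat_lit 155)) (XT.lf (nat_lit 0) (nat_lit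 37246474408) (nat_lit 228) (nat_lit 37268173854) (nat_lit 304) (nat_lit 350855443692) (nat_lit 226) (nat_lit 5) (nat_lit 229) (nat_lit 5) (nat_lit 230) (nat_lit 5) (nat_lit 451) (nat_lit 415) (nat_lit 154))) (XT.nd (nat_lit 78) (nat_lit 152) (nat_lit 0) (XT.lf (nat_lit 0) (nat_lit 180994115174) (nat_lit 304) (nat_lit 128684374010) (nat_lit 76) (nat_lit 128663502500) (nat_lit 226) (nat_lit 5) (nat_lit 230) (nat_lit 5) (nat_lit 227) (nat_lit 5) (nat_lit 452) (nat_lit 415) (nat_lit 153)) (XT.lf (nat_lit 0) (nat_lit 147847857424) (nat_lit 152) (nat_lit 147868924526) (nat_lit 228) (nat_lit 156099743123) (nat_lit 224) (nat_lit 5) (nat_lit 226) (nat_lit 5) (nat_lit 227) (nat_lit 5) (nat_lit 453) (nat_lit 415) (nat_lit 152))))))))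
noncomputable def xc310 : XT := (XT.nd (nat_lit 50310) (nat_lit 0) (nat_lit 3496) (XT.nd (nat_lit 1248) (nat_lit 1292) (nat_lit 0) (XT.nd (nat_lit 624) (nat_lit 684) (nat_lit 0) (XT.nd (nat_lit 312) (nat_lit 532) (nat_lit 0) (XT.nd (nat_lit 156) (nat_lit 152) (nat_lit 0) (XT.nd (nat_lit 78) (nat_lit 228) (nat_lit 0) (XT.lf (nat_lit 0) (nat_lit 418734562528) (nat_lit 228) (nat_lit 23561257448) (nat_lit 76) (nat_lit 23541016134) (nat_lit 224) (nat_lit 5) (nat_lit 227) (nat_lit 5) (nat_lit 225) (nat_lit 5) (nat_lit 454) (nat_lit 415) (nat_lit 151)) (XT.lf (nat_lit 0) (nat_lit 72054076519) (nat_lit 228) (nat_lit 204064350348) (nat_lit 76) (nat_lit 204043940074) (nat_lit 221) (nat_lit 5) (nat_lit 224) (nat_lit 5) (nat_lit 222) (nat_lit 5) (nat_lit 455) (nat_lit 415) (nat_lit 150))) (XT.nd (nat_lit 78) (nat_lit 0) (nat_lit 0) (XT.lf (nat_lit 0) (nat_lit 98756052788) (nat_lit 152) (nat_lit 98776623976)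 (nat_lit 228) (nat_lit 297535520233) (nat_lit 219) (nat_lit 5) (nat_lit 221) (nat_lit 5) (nat_lit 222) (nat_lit 5) (nat_lit 456) (nat_lit 415) (nat_lit 149)) (XT.lf (nat_lit 0) (nat_lit 334162809875) (nat_lit 228) (nat_lit 88166183050) (nat_lit 76) (nat_lit 88146445489) (nat_lit 219) (nat_lit 5) (nat_lit 222) (nat_lit 5) (nat_lit 220) (nat_lit 5) (nat_lit 457) (nat_lit 415) (nat_lit 148)))) (XT.nd (nat_lit 156) (nat_lit 152) (nat_lit 0) (XT.nd (nat_lit 78) (nat_lit 228) (nat_lit 0) (XT.lf (nat_lit 0) (nat_lit 241497134061) (nat_lit 152) (nat_lit 241517010626) (nat_lit 228) (nat_lit 43369412461) (nat_lit 217) (nat_lit 5) (nat_lit 219) (nat_lit 5) (nat_lit 220) (nat_lit 5) (nat_lit 458) (nat_lit 415) (nat_lit 147)) (XT.lf (nat_lit 0) (nat_lit 47691729586) (nat_lit 152) (nat_lit 47711738535) (nat_lit 228) (nat_lit 447495390980) (nat_lit 214) (nat_lit 5) (nat_lit 216) (nat_lit 5) (nat_lit 217) (nat_lit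 5) (nat_lit 459) (nat_lit 415) (nat_lit 146))) (XT.nd (nat_lit 78) (nat_lit 152) (nat_lit 0) (XT.lf (nat_lit 0) (nat_lit 246993460142) (nat_lit 228) (nat_lit 156431647662) (nat_lit 76) (nat_lit 156412471444) (nat_lit 214) (nat_lit 5) (nat_lit 217) (nat_lit 5) (nat_lit 215) (nat_lit 5) (nat_lit 460) (nat_lit 415) (nat_lit 145)) (XT.lf (nat_lit 0) (nat_lit 205063700760) (nat_lit 152) (nat_lit 205082991337) (nat_lit 228) (nat_lit 167277356291) (nat_lit 212) (nat_lit 5) (nat_lit 214) (nat_lit 5) (nat_lit 215) (nat_lit 5) (nat_lit 461) (nat_lit 415) (nat_lit 144))))) (XT.nd (nat_lit 312) (nat_lit 380) (nat_lit 0) (XT.nd (nat_lit 156) (nat_lit 152) (nat_lit 0) (XT.nd (nat_lit 78) (nat_lit 152) (nat_lit 0) (XT.lf (nat_lit 0) (nat_lit 584199813402) (nat_lit 228) (nat_lit 5785695949) (nat_lit 76) (nat_lit 5767220245) (nat_lit 212) (nat_lit 5) (nat_lit 215) (nat_lit 5) (nat_lit 213) (nat_lit 4) (nat_lit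 462) (nat_lit 415) (nat_lit 143)) (XT.lf (nat_lit 0) (nat_lit 156671171514) (nat_lit 152) (nat_lit 228873886202) (nat_lit 76) (nat_lit 228855311711) (nat_lit 210) (nat_lit 5) (nat_lit 212) (nat_lit 5) (nat_lit 211) (nat_lit 5) (nat_lit 463) (nat_lit 415) (nat_lit 142))) (XT.nd (nat_lit 78) (nat_lit 0) (nat_lit 0) (XT.lf (nat_lit 0) (nat_lit 167809536119) (nat_lit 152) (nat_lit 167828204693) (nat_lit 228) (nat_lit 298197204289) (nat_lit 208) (nat_lit 5) (nat_lit 210) (nat_lit 5) (nat_lit 211) (nat_lit 5) (nat_lit 464) (nat_lit 415) (nat_lit 141)) (XT.lf (nat_lit 0) (nat_lit 528441095412) (nat_lit 228) (nat_lit 62786798116) (nat_lit 76) (nat_lit 62768933186) (nat_lit 208) (nat_lit 5) (nat_lit 211) (nat_lit 5) (nat_lit 209) (nat_lit 4) (nat_lit 465) (nat_lit 415) (nat_lit 140)))) (XT.nd (nat_lit 156) (nat_lit 76) (nat_lit 0) (XT.nd (nat_lit 78) (nat_lit 152) (nat_lit 0) (XT.lf (nat_lit 0) (nat_lit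 62597444413) (nat_lit 152) (nat_lit 306055330640) (nat_lit 76) (nat_lit 306037384437) (nat_lit 206) (nat_lit 5) (nat_lit 208) (nat_lit 5) (nat_lit 207) (nat_lit 5) (nat_lit 466) (nat_lit 415) (nat_lit 139)) (XT.lf (nat_lit 0) (nat_lit 129511761708) (nat_lit 152) (nat_lit 129529785314) (nat_lit 228) (nat_lit 437118559149) (nat_lit 204) (nat_lit 5) (nat_lit 206) (nat_lit 5) (nat_lit 207) (nat_lit 5) (nat_lit 467) (nat_lit 415) (nat_lit 138))) (XT.nd (nat_lit 78) (nat_lit 76) (nat_lit 0) (XT.lf (nat_lit 0) (nat_lit 472473712666) (nat_lit 228) (nat_lit 122944390085) (nat_lit 76) (nat_lit 122927154540) (nat_lit 204) (nat_lit 5) (nat_lit 207) (nat_lit 5) (nat_lit 205) (nat_lit 4) (nat_lit 468) (nat_lit 415) (nat_lit 137)) (XT.lf (nat_lit 0) (nat_lit 352090354186) (nat_lit 76) (nat_lit 352107656594) (nat_lit 152) (nat_lit 37060628977) (nat_lit 203) (nat_lit 5) (nat_lit 204) (nat_lit 5) (nat_lit 205) (nat_lit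 4) (nat_lit 469) (nat_lit 415) (nat_lit 136)))))) (XT.nd (nat_lit 624) (nat_lit 456) (nat_lit 0) (XT.nd (nat_lit 312) (nat_lit 304) (nat_lit 0) (XT.nd (nat_lit 156) (nat_lit 304) (nat_lit 0) (XT.nd (nat_lit 78) (nat_lit 0) (nat_lit 0) (XT.lf (nat_lit 0) (nat_lit 89931262444) (nat_lit 152) (nat_lit 89948628531) (nat_lit 228) (nat_lit 585119559749) (nat_lit 200) (nat_lit 5) (nat_lit 202) (nat_lit 5) (nat_lit 203) (nat_lit 5) (nat_lit 470) (nat_lit 415) (nat_lit 135)) (XT.lf (nat_lit 0) (nat_lit 416014062172) (nat_lit 228) (nat_lit 186709927061) (nat_lit 76) (nat_lit 186693330172) (nat_lit 200) (nat_lit 5) (nat_lit 203) (nat_lit 5) (nat_lit 201) (nat_lit 4) (nat_lit 471) (nat_lit 415) (nat_lit 134))) (XT.nd (nat_lit 78) (nat_lit 228) (nat_lit 0) (XT.lf (nat_lit 0) (nat_lit 335324088107) (nat_lit 76) (nat_lit 335340740004) (nat_lit 152) (nat_lit 144055759099) (nat_lit 199) (nat_lit 5) (nat_lit 200)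 (nat_lit 5) (nat_lit 201) (nat_lit 4) (nat_lit 472) (nat_lit 415) (nat_lit 133)) (XT.lf (nat_lit 0) (nat_lit 48810707451) (nat_lit 152) (nat_lit 48827411737) (nat_lit 228) (nat_lit 743376570113) (nat_lit 196) (nat_lit 5) (nat_lit 198) (nat_lit 5) (nat_lit 199) (nat_lit 5) (nat_lit 473) (nat_lit 415) (nat_lit 132)))) (XT.nd (nat_lit 156) (nat_lit 228) (nat_lit 0) (XT.nd (nat_lit 78) (nat_lit 76) (nat_lit 0) (XT.lf (nat_lit 0) (nat_lit 358761957276) (nat_lit 228) (nat_lit 254575046446) (nat_lit 76) (nat_lit 254559090083) (nat_lit 196) (nat_lit 5) (nat_lit 199) (nat_lit 5) (nat_lit 197) (nat_lit 4) (nat_lit 474) (nat_lit 415) (nat_lit 131)) (XT.lf (nat_lit 0) (nat_lit 319356226065) (nat_lit 76) (nat_lit 319372227682) (nat_lit 152) (nat_lit 257103791462) (nat_lit 195) (nat_lit 5) (nat_lit 196) (nat_lit 5) (nat_lit 197) (nat_lit 4) (nat_lit 475) (nat_lit 415) (nat_lit 130))) (XT.nd (nat_lit 78) (nat_lit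 0) (nat_lit 0) (XT.lf (nat_lit 0) (nat_lit 5872383099) (nat_lit 152) (nat_lit 5888427817) (nat_lit 228) (nat_lit 913174832287) (nat_lit 192) (nat_lit 5) (nat_lit 194) (nat_lit 5) (nat_lit 195) (nat_lit 5) (nat_lit 476) (nat_lit 415) (nat_lit 129)) (XT.lf (nat_lit 0) (nat_lit 300398333423) (nat_lit 228) (nat_lit 327075976736) (nat_lit 76) (nat_lit 327060656958) (nat_lit 192) (nat_lit 5) (nat_lit 195) (nat_lit 5) (nat_lit 193) (nat_lit 4) (nat_lit 477) (nat_lit 415) (nat_lit 128))))) (XT.nd (nat_lit 312) (nat_lit 152) (nat_lit 0) (XT.nd (nat_lit 156) (nat_lit 228) (nat_lit 0) (XT.nd (nat_lit 78) (nat_lit 0) (nat_lit 0) (XT.lf (nat_lit 0) (nat_lit 304148746973) (nat_lit 76) (nat_lit 304164103982) (nat_lit 152) (nat_lit 377059150328) (nat_lit 191) (nat_lit 5) (nat_lit 192) (nat_lit 5) (nat_lit 193) (nat_lit 4) (nat_lit 478) (nat_lit 415) (nat_lit 127)) (XT.lf (nat_lit 0) (nat_lit 937804377015) (nat_lit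 152) (nat_lit 39826052751) (nat_lit 0) (nat_lit 39811393257) (nat_lit 191) (nat_lit 5) (nat_lit 193) (nat_lit 4) (nat_lit 191) (nat_lit 4) (nat_lit 479) (nat_lit 415) (nat_lit 126))) (XT.nd (nat_lit 78) (nat_lit 76) (nat_lit 0) (XT.lf (nat_lit 0) (nat_lit 240582747032) (nat_lit 152) (nat_lit 404798384503) (nat_lit 76) (nat_lit 404783692847) (nat_lit 189) (nat_lit 5) (nat_lit 191) (nat_lit 5) (nat_lit 190) (nat_lit 4) (nat_lit 480) (nat_lit 415) (nat_lit 125)) (XT.lf (nat_lit 0) (nat_lit 289665440600) (nat_lit 76) (nat_lit 289680162887) (nat_lit 152) (nat_lit 504852696017) (nat_lit 188) (nat_lit 5) (nat_lit 189) (nat_lit 5) (nat_lit 190) (nat_lit 4) (nat_lit 481) (nat_lit 415) (nat_lit 124)))) (XT.nd (nat_lit 47970) (nat_lit 0) (nat_lit 8056) (XT.nd (nat_lit 78) (nat_lit 152) (nat_lit 0) (XT.lf (nat_lit 0) (nat_lit 943322862587) (nat_lit 152) (nat_lit 88105410907) (nat_lit 0) (nat_lit 88091361899)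 (nat_lit 188) (nat_lit 5) (nat_lit 190) (nat_lit 4) (nat_lit 188) (nat_lit 4) (nat_lit 482) (nat_lit 415) (nat_lit 123)) (XT.lf (nat_lit 0) (nat_lit 178950644952) (nat_lit 152) (nat_lit 488382704995) (nat_lit 76) (nat_lit 488368629527) (nat_lit 186) (nat_lit 5) (nat_lit 188) (nat_lit 5) (nat_lit 187) (nat_lit 4) (nat_lit 483) (nat_lit 415) (nat_lit 122))) (XT.nd (nat_lit 78) (nat_lit 0) (nat_lit 0) (XT.lf (nat_lit 0) (nat_lit 38884404679) (nat_lit 836) (nat_lit 21918211873) (nat_lit 836) (nat_lit 21918211873) (nat_lit 292) (nat_lit 3) (nat_lit 303) (nat_lit 3) (nat_lit 303) (nat_lit 5) (nat_lit 416) (nat_lit 416) (nat_lit 188)) (XT.lf (nat_lit 76) (nat_lit 40170098705) (nat_lit 0) (nat_lit 40172453780) (nat_lit 836) (nat_lit 89203669644) (nat_lit 293) (nat_lit 5) (nat_lit 292) (nat_lit 3) (nat_lit 303) (nat_lit 5) (nat_lit 417) (nat_lit 416) (nat_lit 187))))))) (XT.nd (nat_lit 1248) (nat_lit 2888)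 (nat_lit 0) (XT.nd (nat_lit 624) (nat_lit 1748) (nat_lit 0) (XT.nd (nat_lit 312) (nat_lit 0) (nat_lit 152) (XT.nd (nat_lit 156) (nat_lit 0) (nat_lit 76) (XT.nd (nat_lit 78) (nat_lit 0) (nat_lit 0) (XT.lf (nat_lit 0) (nat_lit 84507152236) (nat_lit 760) (nat_lit 44640067006) (nat_lit 836) (nat_lit 44635687954) (nat_lit 293) (nat_lit 5) (nat_lit 303) (nat_lit 5) (nat_lit 304) (nat_lit 5) (nat_lit 418) (nat_lit 416) (nat_lit 186)) (XT.lf (nat_lit 76) (nat_lit 45118205611) (nat_lit 0) (nat_lit 45124619066) (nat_lit 836) (nat_lit 87920459704) (nat_lit 294) (nat_lit 5) (nat_lit 293) (nat_lit 5) (nat_lit 304) (nat_lit 5) (nat_lit 419) (nat_lit 416) (nat_lit 185))) (XT.nd (nat_lit 78) (nat_lit 0) (nat_lit 0) (XT.lf (nat_lit 0) (nat_lit 97706435856) (nat_lit 760) (nat_lit 42496070065) (nat_lit 836) (nat_lit 42488116749) (nat_lit 294) (nat_lit 5) (nat_lit 304) (nat_lit 5) (nat_lit 305) (nat_lit 5) (nat_lit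 420) (nat_lit 416) (nat_lit 184)) (XT.lf (nat_lit 76) (nat_lit 53554635922) (nat_lit 0) (nat_lit 53564346631) (nat_lit 836) (nat_lit 80246557572) (nat_lit 295) (nat_lit 5) (nat_lit 294) (nat_lit 5) (nat_lit 305) (nat_lit 5) (nat_lit 421) (nat_lit 416) (nat_lit 183)))) (XT.nd (nat_lit 156) (nat_lit 0) (nat_lit 76) (XT.nd (nat_lit 78) (nat_lit 0) (nat_lit 0) (XT.lf (nat_lit 0) (nat_lit 118317529088) (nat_lit 760) (nat_lit 36950874022) (nat_lit 836) (nat_lit 36940031719) (nat_lit 295) (nat_lit 5) (nat_lit 305) (nat_lit 5) (nat_lit 306) (nat_lit 5) (nat_lit 422) (nat_lit 416) (nat_lit 182)) (XT.lf (nat_lit 76) (nat_lit 65985926216) (nat_lit 0) (nat_lit 65998286622) (nat_lit 836) (nat_lit 65213850934) (nat_lit 296) (nat_lit 5) (nat_lit 295) (nat_lit 5) (nat_lit 306) (nat_lit 5) (nat_lit 423) (nat_lit 416) (nat_lit 181))) (XT.nd (nat_lit 78) (nat_lit 0) (nat_lit 0) (XT.lf (nat_lit 0) (nat_lit 147403182085)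 (nat_lit 760) (nat_lit 27496846645) (nat_lit 836) (nat_lit 27483697867) (nat_lit 296) (nat_lit 5) (nat_lit 306) (nat_lit 5) (nat_lit 307) (nat_lit 5) (nat_lit 424) (nat_lit 416) (nat_lit 180)) (XT.lf (nat_lit 76) (nat_lit 82977994299) (nat_lit 0) (nat_lit 82992454472) (nat_lit 836) (nat_lit 41739356345) (nat_lit 297) (nat_lit 5) (nat_lit 296) (nat_lit 5) (nat_lit 307) (nat_lit 5) (nat_lit 425) (nat_lit 416) (nat_lit 179))))) (XT.nd (nat_lit 312) (nat_lit 760) (nat_lit 0) (XT.nd (nat_lit 156) (nat_lit 532) (nat_lit 0) (XT.nd (nat_lit 78) (nat_lit 760) (nat_lit 0) (XT.lf (nat_lit 0) (nat_lit 186150216825) (nat_lit 760) (nat_lit 13566362450) (nat_lit 76) (nat_lit 13551401383) (nat_lit 297) (nat_lit 5) (nat_lit 307) (nat_lit 5) (nat_lit 298) (nat_lit 5) (nat_lit 426) (nat_lit 416) (nat_lit 178)) (XT.lf (nat_lit 0) (nat_lit 105162597099) (nat_lit 760) (nat_lit 105178690997) (nat_lit 836) (nat_lit 8612661139)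 (nat_lit 287) (nat_lit 5) (nat_lit 297) (nat_lit 5) (nat_lit 298) (nat_lit 5) (nat_lit 427) (nat_lit 416) (nat_lit 177))) (XT.nd (nat_lit 78) (nat_lit 0) (nat_lit 0) (XT.lf (nat_lit 0) (nat_lit 5385900064) (nat_lit 456) (nat_lit 5403072849) (nat_lit 532) (nat_lit 214110923098) (nat_lit 280) (nat_lit 5) (nat_lit 286) (nat_lit 5) (nat_lit 287) (nat_lit 5) (nat_lit 428) (nat_lit 416) (nat_lit 176)) (XT.lf (nat_lit 0) (nat_lit 34381164243) (nat_lit 532) (nat_lit 98298377033) (nat_lit 76) (nat_lit 98281043417) (nat_lit 280) (nat_lit 5) (nat_lit 287) (nat_lit 5) (nat_lit 281) (nat_lit 5) (nat_lit 429) (nat_lit 416) (nat_lit 175)))) (XT.nd (nat_lit 156) (nat_lit 380) (nat_lit 0) (XT.nd (nat_lit 78) (nat_lit 0) (nat_lit 0) (XT.lf (nat_lit 0) (nat_lit 29844570756) (nat_lit 380) (nat_lit 29862836356) (nat_lit 456) (nat_lit 177589178599) (nat_lit 275) (nat_lit 5) (nat_lit 280) (nat_lit 5) (nat_lit 281) (nat_lit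 5) (nat_lit 430) (nat_lit 416) (nat_lit 174)) (XT.lf (nat_lit 0) (nat_lit 89211173088) (nat_lit 456) (nat_lit 77305447145) (nat_lit 76) (nat_lit 77287205999) (nat_lit 275) (nat_lit 5) (nat_lit 281) (nat_lit 5) (nat_lit 276) (nat_lit 5) (nat_lit 431) (nat_lit 416) (nat_lit 173))) (XT.nd (nat_lit 78) (nat_lit 0) (nat_lit 0) (XT.lf (nat_lit 0) (nat_lit 60804944053) (nat_lit 380) (nat_lit 60823990281) (nat_lit 456) (nat_lit 128935554097) (nat_lit 270) (nat_lit 5) (nat_lit 275) (nat_lit 5) (nat_lit 276) (nat_lit 5) (nat_lit 432) (nat_lit 416) (nat_lit 172)) (XT.lf (nat_lit 0) (nat_lit 157781203506) (nat_lit 456) (nat_lit 49897584369) (nat_lit 76) (nat_lit 49878714871) (nat_lit 270) (nat_lit 5) (nat_lit 276) (nat_lit 5) (nat_lit 271) (nat_lit 5) (nat_lit 433) (nat_lit 416) (nat_lit 171)))))) (XT.nd (nat_lit 624) (nat_lit 1368) (nat_lit 0) (XT.nd (nat_lit 312) (nat_lit 532) (nat_lit 0) (XT.nd (nat_lit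 156) (nat_lit 684) (nat_lit 0) (XT.nd (nat_lit 78) (nat_lit 0) (nat_lit 0) (XT.lf (nat_lit 0) (nat_lit 99133152581) (nat_lit 304) (nat_lit 99152717540) (nat_lit 380) (nat_lit 66487058456) (nat_lit 266) (nat_lit 5) (nat_lit 270) (nat_lit 5) (nat_lit 271) (nat_lit 5) (nat_lit 434) (nat_lit 416) (nat_lit 170)) (XT.lf (nat_lit 0) (nat_lit 241905652257) (nat_lit 380) (nat_lit 15204121716) (nat_lit 76) (nat_lit 15184857619) (nat_lit 266) (nat_lit 5) (nat_lit 271) (nat_lit 5) (nat_lit 267) (nat_lit 5) (nat_lit 435) (nat_lit 416) (nat_lit 169))) (XT.nd (nat_lit 78) (nat_lit 304) (nat_lit 0) (XT.lf (nat_lit 0) (nat_lit 11239107606) (nat_lit 380) (nat_lit 134384515666) (nat_lit 76) (nat_lit 134364650804) (nat_lit 261) (nat_lit 5) (nat_lit 266) (nat_lit 5) (nat_lit 262) (nat_lit 5) (nat_lit 436) (nat_lit 416) (nat_lit 168)) (XT.lf (nat_lit 0) (nat_lit 27297360622) (nat_lit 304) (nat_lit 27317797641) (nat_lit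 380) (nat_lit 233392140007) (nat_lit 257) (nat_lit 5) (nat_lit 261) (nat_lit 5) (nat_lit 262) (nat_lit 5) (nat_lit 437) (nat_lit 416) (nat_lit 167)))) (XT.nd (nat_lit 156) (nat_lit 228) (nat_lit 0) (XT.nd (nat_lit 78) (nat_lit 304) (nat_lit 0) (XT.lf (nat_lit 0) (nat_lit 103986051469) (nat_lit 380) (nat_lit 96134951497) (nat_lit 76) (nat_lit 96114968706) (nat_lit 257) (nat_lit 5) (nat_lit 262) (nat_lit 5) (nat_lit 258) (nat_lit 5) (nat_lit 438) (nat_lit 416) (nat_lit 166)) (XT.lf (nat_lit 0) (nat_lit 78741074343) (nat_lit 304) (nat_lit 78761551384) (nat_lit 380) (nat_lit 147289596199) (nat_lit 253) (nat_lit 5) (nat_lit 257) (nat_lit 5) (nat_lit 258) (nat_lit 5) (nat_lit 439) (nat_lit 416) (nat_lit 165))) (XT.nd (nat_lit 78) (nat_lit 228) (nat_lit 0) (XT.lf (nat_lit 0) (nat_lit 216109557655) (nat_lit 380) (nat_lit 48782975416) (nat_lit 76) (nat_lit 48763025172) (nat_lit 253) (nat_lit 5) (nat_lit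 258) (nat_lit 5) (nat_lit 254) (nat_lit 5) (nat_lit 440) (nat_lit 416) (nat_lit 164)) (XT.lf (nat_lit 0) (nat_lit 140556022375) (nat_lit 228) (nat_lit 140576399572) (nat_lit 304) (nat_lit 41655360142) (nat_lit 250) (nat_lit 5) (nat_lit 253) (nat_lit 5) (nat_lit 254) (nat_lit 5) (nat_lit 441) (nat_lit 416) (nat_lit 163))))) (XT.nd (nat_lit 312) (nat_lit 760) (nat_lit 0) (XT.nd (nat_lit 156) (nat_lit 228) (nat_lit 0) (XT.nd (nat_lit 78) (nat_lit 0) (nat_lit 0) (XT.lf (nat_lit 0) (nat_lit 8719878457) (nat_lit 304) (nat_lit 8740662274) (nat_lit 380) (nat_lit 314853992803) (nat_lit 245) (nat_lit 5) (nat_lit 249) (nat_lit 5) (nat_lit 250) (nat_lit 5) (nat_lit 442) (nat_lit 416) (nat_lit 162)) (XT.lf (nat_lit 0) (nat_lit 83293836283) (nat_lit 380) (nat_lit 129375865408) (nat_lit 76) (nat_lit 129355702478) (nat_lit 245) (nat_lit 5) (nat_lit 250) (nat_lit 5) (nat_lit 246) (nat_lit 5) (nat_lit 443) (nat_lit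 416) (nat_lit 161))) (XT.nd (nat_lit 78) (nat_lit 0) (nat_lit 0) (XT.lf (nat_lit 0) (nat_lit 76870842691) (nat_lit 228) (nat_lit 76891356875) (nat_lit 304) (nat_lit 198392448623) (nat_lit 242) (nat_lit 5) (nat_lit 245) (nat_lit 5) (nat_lit 246) (nat_lit 5) (nat_lit 444) (nat_lit 416) (nat_lit 160)) (XT.lf (nat_lit 0) (nat_lit 231006272790) (nat_lit 304) (nat_lit 65820661473) (nat_lit 76) (nat_lit 65800805557) (nat_lit 242) (nat_lit 5) (nat_lit 246) (nat_lit 5) (nat_lit 243) (nat_lit 5) (nat_lit 445) (nat_lit 416) (nat_lit 159)))) (XT.nd (nat_lit 156) (nat_lit 228) (nat_lit 0) (XT.nd (nat_lit 78) (nat_lit 304) (nat_lit 0) (XT.lf (nat_lit 0) (nat_lit 157909128119) (nat_lit 228) (nat_lit 157929287463) (nat_lit 304) (nat_lit 57599777157) (nat_lit 239) (nat_lit 5) (nat_lit 242) (nat_lit 5) (nat_lit 243) (nat_lit 5) (nat_lit 446) (nat_lit 416) (nat_lit 158)) (XT.lf (nat_lit 0) (nat_lit 10376711887) (nat_lit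 228) (nat_lit 10397160209) (nat_lit 304) (nat_lit 363934840563) (nat_lit 235) (nat_lit 5) (nat_lit 238) (nat_lit 5) (nat_lit 239) (nat_lit 5) (nat_lit 447) (nat_lit 416) (nat_lit 157))) (XT.nd (nat_lit 78) (nat_lit 228) (nat_lit 0) (XT.lf (nat_lit 0) (nat_lit 107096579993) (nat_lit 304) (nat_lit 144560198518) (nat_lit 76) (nat_lit 144540461814) (nat_lit 235) (nat_lit 5) (nat_lit 239) (nat_lit 5) (nat_lit 236) (nat_lit 5) (nat_lit 448) (nat_lit 416) (nat_lit 156)) (XT.lf (nat_lit 0) (nat_lit 99721382039) (nat_lit 228) (nat_lit 99741368373) (nat_lit 304) (nat_lit 208711077605) (nat_lit 232) (nat_lit 5) (nat_lit 235) (nat_lit 5) (nat_lit 236) (nat_lit 5) (nat_lit 449) (nat_lit 416) (nat_lit 155))))))))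
noncomputable def xc311 : XT := (XT.nd (nat_lit 1248) (nat_lit 1444) (nat_lit 0) (XT.nd (nat_lit 624) (nat_lit 836) (nat_lit 0) (XT.nd (nat_lit 312) (nat_lit 532) (nat_lit 0) (XT.nd (nat_lit 156) (nat_lit 304) (nat_lit 0) (XT.nd (nat_lit 78) (nat_lit 152) (nat_lit 0) (XT.lf (nat_lit 0) (nat_lit 299868687330) (nat_lit 304) (nat_lit 60364372945) (nat_lit 76) (nat_lit 60345111919) (nat_lit 232) (nat_lit 5) (nat_lit 236) (nat_lit 5) (nat_lit 233) (nat_lit 5) (nat_lit 450) (nat_lit 416) (nat_lit 154)) (XT.lf (nat_lit 0) (nat_lit 205056001178) (nat_lit 152) (nat_lit 205075477844) (nat_lit 228) (nat_lit 23229426663) (nat_lit 230) (nat_lit 5) (nat_lit 232) (nat_lit 5) (nat_lit 233) (nat_lit 5) (nat_lit 451) (nat_lit 416) (nat_lit 153))) (XT.nd (nat_lit 78) (nat_lit 0) (nat_lit 0) (XT.lf (nat_lit 0) (nat_lit 39111058552) (nat_lit 228) (nat_lit 39130740590) (nat_lit 304) (nat_lit 368396726487) (nat_lit 226)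 (nat_lit 5) (nat_lit 229) (nat_lit 5) (nat_lit 230) (nat_lit 5) (nat_lit 452) (nat_lit 416) (nat_lit 152)) (XT.lf (nat_lit 0) (nat_lit 190045184373) (nat_lit 304) (nat_lit 135116384899) (nat_lit 76) (nat_lit 135097453824) (nat_lit 226) (nat_lit 5) (nat_lit 230) (nat_lit 5) (nat_lit 227) (nat_lit 5) (nat_lit 453) (nat_lit 416) (nat_lit 151)))) (XT.nd (nat_lit 156) (nat_lit 380) (nat_lit 0) (XT.nd (nat_lit 78) (nat_lit 0) (nat_lit 0) (XT.lf (nat_lit 0) (nat_lit 155242422497) (nat_lit 152) (nat_lit 155261530980) (nat_lit 228) (nat_lit 163903331229) (nat_lit 224) (nat_lit 5) (nat_lit 226) (nat_lit 5) (nat_lit 227) (nat_lit 5) (nat_lit 454) (nat_lit 416) (nat_lit 150)) (XT.lf (nat_lit 0) (nat_lit 439672572121) (nat_lit 228) (nat_lit 24737200595) (nat_lit 76) (nat_lit 24718841126) (nat_lit 224) (nat_lit 5) (nat_lit 227) (nat_lit 5) (nat_lit 225) (nat_lit 5) (nat_lit 455) (nat_lit 416) (nat_lit 149)))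 (XT.nd (nat_lit 78) (nat_lit 152) (nat_lit 0) (XT.lf (nat_lit 0) (nat_lit 75658053891) (nat_lit 228) (nat_lit 214265440220) (nat_lit 76) (nat_lit 214246927500) (nat_lit 221) (nat_lit 5) (nat_lit 224) (nat_lit 5) (nat_lit 222) (nat_lit 5) (nat_lit 456) (nat_lit 416) (nat_lit 148)) (XT.lf (nat_lit 0) (nat_lit 103695948756) (nat_lit 152) (nat_lit 103714607430) (nat_lit 228) (nat_lit 312410988382) (nat_lit 219) (nat_lit 5) (nat_lit 221) (nat_lit 5) (nat_lit 222) (nat_lit 5) (nat_lit 457) (nat_lit 416) (nat_lit 147))))) (XT.nd (nat_lit 312) (nat_lit 456) (nat_lit 0) (XT.nd (nat_lit 156) (nat_lit 228) (nat_lit 0) (XT.nd (nat_lit 78) (nat_lit 152) (nat_lit 0) (XT.lf (nat_lit 0) (nat_lit 350872149245) (nat_lit 228) (nat_lit 92572451848) (nat_lit 76) (nat_lit 92554549298) (nat_lit 219) (nat_lit 5) (nat_lit 222) (nat_lit 5) (nat_lit 220) (nat_lit 5) (nat_lit 458) (nat_lit 416) (nat_lit 146)) (XT.lf (nat_lit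 0) (nat_lit 253573998210) (nat_lit 152) (nat_lit 253592026840) (nat_lit 228) (nat_lit 45536651299) (nat_lit 217) (nat_lit 5) (nat_lit 219) (nat_lit 5) (nat_lit 220) (nat_lit 5) (nat_lit 459) (nat_lit 416) (nat_lit 145))) (XT.nd (nat_lit 78) (nat_lit 0) (nat_lit 0) (XT.lf (nat_lit 0) (nat_lit 50078329922) (nat_lit 152) (nat_lit 50096478628) (nat_lit 228) (nat_lit 469868935155) (nat_lit 214) (nat_lit 5) (nat_lit 216) (nat_lit 5) (nat_lit 217) (nat_lit 5) (nat_lit 460) (nat_lit 416) (nat_lit 144)) (XT.lf (nat_lit 0) (nat_lit 259344257192) (nat_lit 228) (nat_lit 164251269106) (nat_lit 76) (nat_lit 164233875711) (nat_lit 214) (nat_lit 5) (nat_lit 217) (nat_lit 5) (nat_lit 215) (nat_lit 5) (nat_lit 461) (nat_lit 416) (nat_lit 143)))) (XT.nd (nat_lit 156) (nat_lit 304) (nat_lit 0) (XT.nd (nat_lit 78) (nat_lit 0) (nat_lit 0) (XT.lf (nat_lit 0) (nat_lit 215318815109) (nat_lit 152) (nat_lit 215336312231)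 (nat_lit 228) (nat_lit 175640068435) (nat_lit 212) (nat_lit 5) (nat_lit 214) (nat_lit 5) (nat_lit 215) (nat_lit 5) (nat_lit 462) (nat_lit 416) (nat_lit 142)) (XT.lf (nat_lit 0) (nat_lit 613410864622) (nat_lit 228) (nat_lit 6073103218) (nat_lit 76) (nat_lit 6056345209) (nat_lit 212) (nat_lit 5) (nat_lit 215) (nat_lit 5) (nat_lit 213) (nat_lit 4) (nat_lit 463) (nat_lit 416) (nat_lit 141))) (XT.nd (nat_lit 78) (nat_lit 152) (nat_lit 0) (XT.lf (nat_lit 0) (nat_lit 164505786008) (nat_lit 152) (nat_lit 240315698353) (nat_lit 76) (nat_lit 240298850742) (nat_lit 210) (nat_lit 5) (nat_lit 212) (nat_lit 5) (nat_lit 211) (nat_lit 5) (nat_lit 464) (nat_lit 416) (nat_lit 140)) (XT.lf (nat_lit 0) (nat_lit 176201864727) (nat_lit 152) (nat_lit 176218797674) (nat_lit 228) (nat_lit 313105978227) (nat_lit 208) (nat_lit 5) (nat_lit 210) (nat_lit 5) (nat_lit 211) (nat_lit 5) (nat_lit 465) (nat_lit 416) (nat_lit 139))))))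 (XT.nd (nat_lit 624) (nat_lit 760) (nat_lit 0) (XT.nd (nat_lit 312) (nat_lit 380) (nat_lit 0) (XT.nd (nat_lit 156) (nat_lit 152) (nat_lit 0) (XT.nd (nat_lit 78) (nat_lit 152) (nat_lit 0) (XT.lf (nat_lit 0) (nat_lit 554864147619) (nat_lit 228) (nat_lit 65924337289) (nat_lit 76) (nat_lit 65908133270) (nat_lit 208) (nat_lit 5) (nat_lit 211) (nat_lit 5) (nat_lit 209) (nat_lit 4) (nat_lit 466) (nat_lit 416) (nat_lit 138)) (XT.lf (nat_lit 0) (nat_lit 65728310260) (nat_lit 152) (nat_lit 321356292629) (nat_lit 76) (nat_lit 321340014894) (nat_lit 206) (nat_lit 5) (nat_lit 208) (nat_lit 5) (nat_lit 207) (nat_lit 5) (nat_lit 467) (nat_lit 416) (nat_lit 137))) (XT.nd (nat_lit 78) (nat_lit 0) (nat_lit 0) (XT.lf (nat_lit 0) (nat_lit 135989125231) (nat_lit 152) (nat_lit 136005473172) (nat_lit 228) (nat_lit 458973464375) (nat_lit 204) (nat_lit 5) (nat_lit 206) (nat_lit 5) (nat_lit 207) (nat_lit 5) (nat_lit 468)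 (nat_lit 416) (nat_lit 136)) (XT.lf (nat_lit 0) (nat_lit 496098337864) (nat_lit 228) (nat_lit 129089884230) (nat_lit 76) (nat_lit 129074251083) (nat_lit 204) (nat_lit 5) (nat_lit 207) (nat_lit 5) (nat_lit 205) (nat_lit 4) (nat_lit 469) (nat_lit 416) (nat_lit 135)))) (XT.nd (nat_lit 156) (nat_lit 76) (nat_lit 0) (XT.nd (nat_lit 78) (nat_lit 228) (nat_lit 0) (XT.lf (nat_lit 0) (nat_lit 369696569426) (nat_lit 76) (nat_lit 369712263220) (nat_lit 152) (nat_lit 38912693033) (nat_lit 203) (nat_lit 5) (nat_lit 204) (nat_lit 5) (nat_lit 205) (nat_lit 4) (nat_lit 470) (nat_lit 416) (nat_lit 134)) (XT.lf (nat_lit 0) (nat_lit 94429526180) (nat_lit 152) (nat_lit 94445277733) (nat_lit 228) (nat_lit 614374573428) (nat_lit 200) (nat_lit 5) (nat_lit 202) (nat_lit 5) (nat_lit 203) (nat_lit 5) (nat_lit 471) (nat_lit 416) (nat_lit 133))) (XT.nd (nat_lit 78) (nat_lit 76) (nat_lit 0) (XT.lf (nat_lit 0) (nat_lit 436815651568)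 (nat_lit 228) (nat_lit 196043771680) (nat_lit 76) (nat_lit 196028717813) (nat_lit 200) (nat_lit 5) (nat_lit 203) (nat_lit 5) (nat_lit 201) (nat_lit 4) (nat_lit 472) (nat_lit 416) (nat_lit 132)) (XT.lf (nat_lit 0) (nat_lit 352091917606) (nat_lit 76) (nat_lit 352107021367) (nat_lit 152) (nat_lit 151257634125) (nat_lit 199) (nat_lit 5) (nat_lit 200) (nat_lit 5) (nat_lit 201) (nat_lit 4) (nat_lit 473) (nat_lit 416) (nat_lit 131))))) (XT.nd (nat_lit 312) (nat_lit 228) (nat_lit 0) (XT.nd (nat_lit 156) (nat_lit 304) (nat_lit 0) (XT.nd (nat_lit 78) (nat_lit 0) (nat_lit 0) (XT.lf (nat_lit 0) (nat_lit 51252870454) (nat_lit 152) (nat_lit 51268021734) (nat_lit 228) (nat_lit 780544488227) (nat_lit 196) (nat_lit 5) (nat_lit 198) (nat_lit 5) (nat_lit 199) (nat_lit 5) (nat_lit 474) (nat_lit 416) (nat_lit 130)) (XT.lf (nat_lit 0) (nat_lit 376700892202) (nat_lit 228) (nat_lit 267302218666) (nat_lit 76) (nat_lit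 267287745775) (nat_lit 196) (nat_lit 5) (nat_lit 199) (nat_lit 5) (nat_lit 197) (nat_lit 4) (nat_lit 475) (nat_lit 416) (nat_lit 129))) (XT.nd (nat_lit 78) (nat_lit 228) (nat_lit 0) (XT.lf (nat_lit 0) (nat_lit 335325591984) (nat_lit 76) (nat_lit 335340105924) (nat_lit 152) (nat_lit 269958118488) (nat_lit 195) (nat_lit 5) (nat_lit 196) (nat_lit 5) (nat_lit 197) (nat_lit 4) (nat_lit 476) (nat_lit 416) (nat_lit 128)) (XT.lf (nat_lit 0) (nat_lit 6167558958) (nat_lit 152) (nat_lit 6182111990) (nat_lit 228) (nat_lit 958832713441) (nat_lit 192) (nat_lit 5) (nat_lit 194) (nat_lit 5) (nat_lit 195) (nat_lit 5) (nat_lit 477) (nat_lit 416) (nat_lit 127)))) (XT.nd (nat_lit 156) (nat_lit 152) (nat_lit 0) (XT.nd (nat_lit 78) (nat_lit 76) (nat_lit 0) (XT.lf (nat_lit 0) (nat_lit 315419041518) (nat_lit 228) (nat_lit 343428264937) (nat_lit 76) (nat_lit 343414369447) (nat_lit 192) (nat_lit 5) (nat_lit 195) (nat_lit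 5) (nat_lit 193) (nat_lit 4) (nat_lit 478) (nat_lit 416) (nat_lit 126)) (XT.lf (nat_lit 0) (nat_lit 319357670592) (nat_lit 76) (nat_lit 319371599853) (nat_lit 152) (nat_lit 395911292054) (nat_lit 191) (nat_lit 5) (nat_lit 192) (nat_lit 5) (nat_lit 193) (nat_lit 4) (nat_lit 479) (nat_lit 416) (nat_lit 125))) (XT.nd (nat_lit 78) (nat_lit 152) (nat_lit 0) (XT.lf (nat_lit 0) (nat_lit 984695346358) (nat_lit 152) (nat_lit 41815913442) (nat_lit 0) (nat_lit 41802616849) (nat_lit 191) (nat_lit 5) (nat_lit 193) (nat_lit 4) (nat_lit 191) (nat_lit 4) (nat_lit 480) (nat_lit 416) (nat_lit 124)) (XT.lf (nat_lit 0) (nat_lit 252612633368) (nat_lit 152) (nat_lit 425036860274) (nat_lit 76) (nat_lit 425023534509) (nat_lit 189) (nat_lit 5) (nat_lit 191) (nat_lit 5) (nat_lit 190) (nat_lit 4) (nat_lit 481) (nat_lit 416) (nat_lit 123)))))))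
noncomputable def xc312 : XT := (XT.nd (nat_lit 49140) (nat_lit 0) (nat_lit 3876) (XT.nd (nat_lit 48516) (nat_lit 0) (nat_lit 6992) (XT.nd (nat_lit 48204) (nat_lit 0) (nat_lit 7980) (XT.nd (nat_lit 48048) (nat_lit 0) (nat_lit 7904) (XT.nd (nat_lit 78) (nat_lit 0) (nat_lit 0) (XT.lf (nat_lit 0) (nat_lit 304150132803) (nat_lit 76) (nat_lit 304163486351) (nat_lit 152) (nat_lit 530094558552) (nat_lit 188) (nat_lit 5) (nat_lit 189) (nat_lit 5) (nat_lit 190) (nat_lit 4) (nat_lit 482) (nat_lit 416) (nat_lit 122)) (XT.lf (nat_lit 0) (nat_lit 990489716365) (nat_lit 152) (nat_lit 92509304065) (nat_lit 0) (nat_lit 92496561200) (nat_lit 188) (nat_lit 5) (nat_lit 190) (nat_lit 4) (nat_lit 188) (nat_lit 4) (nat_lit 483) (nat_lit 416) (nat_lit 121))) (XT.nd (nat_lit 78) (nat_lit 0) (nat_lit 0) (XT.lf (nat_lit 0) (nat_lit 40830943219) (nat_lit 836) (nat_lit 23012905356) (nat_lit 836) (nat_lit 23012905356) (nat_lit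 292) (nat_lit 3) (nat_lit 303) (nat_lit 3) (nat_lit 303) (nat_lit 5) (nat_lit 417) (nat_lit 417) (nat_lit 186)) (XT.lf (nat_lit 76) (nat_lit 42180998600) (nat_lit 0) (nat_lit 42183134723) (nat_lit 836) (nat_lit 93659177252) (nat_lit 293) (nat_lit 5) (nat_lit 292) (nat_lit 3) (nat_lit 303) (nat_lit 5) (nat_lit 418) (nat_lit 417) (nat_lit 185)))) (XT.nd (nat_lit 156) (nat_lit 0) (nat_lit 76) (XT.nd (nat_lit 78) (nat_lit 0) (nat_lit 0) (XT.lf (nat_lit 0) (nat_lit 88736720399) (nat_lit 760) (nat_lit 46869546779) (nat_lit 836) (nat_lit 46865574850) (nat_lit 293) (nat_lit 5) (nat_lit 303) (nat_lit 5) (nat_lit 304) (nat_lit 5) (nat_lit 419) (nat_lit 417) (nat_lit 184)) (XT.lf (nat_lit 76) (nat_lit 47376598766) (nat_lit 0) (nat_lit 47382415958) (nat_lit 836) (nat_lit 92312231436) (nat_lit 294) (nat_lit 5) (nat_lit 293) (nat_lit 5) (nat_lit 304) (nat_lit 5) (nat_lit 420) (nat_lit 417) (nat_lit 183))) (XT.nd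 (nat_lit 78) (nat_lit 0) (nat_lit 0) (XT.lf (nat_lit 0) (nat_lit 102595590377) (nat_lit 760) (nat_lit 44618292841) (nat_lit 836) (nat_lit 44611078949) (nat_lit 294) (nat_lit 5) (nat_lit 304) (nat_lit 5) (nat_lit 305) (nat_lit 5) (nat_lit 421) (nat_lit 417) (nat_lit 182)) (XT.lf (nat_lit 76) (nat_lit 56234906820) (nat_lit 0) (nat_lit 56243714720) (nat_lit 836) (nat_lit 84255011098) (nat_lit 295) (nat_lit 5) (nat_lit 294) (nat_lit 5) (nat_lit 305) (nat_lit 5) (nat_lit 422) (nat_lit 417) (nat_lit 181))))) (XT.nd (nat_lit 312) (nat_lit 1140) (nat_lit 0) (XT.nd (nat_lit 156) (nat_lit 0) (nat_lit 76) (XT.nd (nat_lit 78) (nat_lit 0) (nat_lit 0) (XT.lf (nat_lit 0) (nat_lit 124236902584) (nat_lit 760) (nat_lit 38795806711) (nat_lit 836) (nat_lit 38785972423) (nat_lit 295) (nat_lit 5) (nat_lit 305) (nat_lit 5) (nat_lit 306) (nat_lit 5) (nat_lit 423) (nat_lit 417) (nat_lit 180)) (XT.lf (nat_lit 76) (nat_lit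 69287791425) (nat_lit 0) (nat_lit 69299002678) (nat_lit 836) (nat_lit 68471004327) (nat_lit 296) (nat_lit 5) (nat_lit 295) (nat_lit 5) (nat_lit 306) (nat_lit 5) (nat_lit 424) (nat_lit 417) (nat_lit 179))) (XT.nd (nat_lit 78) (nat_lit 0) (nat_lit 0) (XT.lf (nat_lit 0) (nat_lit 154776539386) (nat_lit 760) (nat_lit 28869069981) (nat_lit 836) (nat_lit 28857143651) (nat_lit 296) (nat_lit 5) (nat_lit 306) (nat_lit 5) (nat_lit 307) (nat_lit 5) (nat_lit 425) (nat_lit 417) (nat_lit 178)) (XT.lf (nat_lit 76) (nat_lit 87129470769) (nat_lit 0) (nat_lit 87142586572) (nat_lit 836) (nat_lit 43823083724) (nat_lit 297) (nat_lit 5) (nat_lit 296) (nat_lit 5) (nat_lit 307) (nat_lit 5) (nat_lit 426) (nat_lit 417) (nat_lit 177)))) (XT.nd (nat_lit 156) (nat_lit 532) (nat_lit 0) (XT.nd (nat_lit 78) (nat_lit 760) (nat_lit 0) (XT.lf (nat_lit 0) (nat_lit 195460659265) (nat_lit 760) (nat_lit 14242071987) (nat_lit 76) (nat_lit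 14228501859) (nat_lit 297) (nat_lit 5) (nat_lit 307) (nat_lit 5) (nat_lit 298) (nat_lit 5) (nat_lit 427) (nat_lit 417) (nat_lit 176)) (XT.lf (nat_lit 0) (nat_lit 110423293465) (nat_lit 760) (nat_lit 110437891105) (nat_lit 836) (nat_lit 9040320524) (nat_lit 287) (nat_lit 5) (nat_lit 297) (nat_lit 5) (nat_lit 298) (nat_lit 5) (nat_lit 428) (nat_lit 417) (nat_lit 175))) (XT.nd (nat_lit 78) (nat_lit 0) (nat_lit 0) (XT.lf (nat_lit 0) (nat_lit 5657813824) (nat_lit 456) (nat_lit 5673390046) (nat_lit 532) (nat_lit 224813547826) (nat_lit 280) (nat_lit 5) (nat_lit 286) (nat_lit 5) (nat_lit 287) (nat_lit 5) (nat_lit 429) (nat_lit 417) (nat_lit 174)) (XT.lf (nat_lit 0) (nat_lit 36102869844) (nat_lit 532) (nat_lit 103210666908) (nat_lit 76) (nat_lit 103194944807) (nat_lit 280) (nat_lit 5) (nat_lit 287) (nat_lit 5) (nat_lit 281) (nat_lit 5) (nat_lit 430) (nat_lit 417) (nat_lit 173)))))) (XT.nd (nat_lit 624)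 (nat_lit 1368) (nat_lit 0) (XT.nd (nat_lit 312) (nat_lit 988) (nat_lit 0) (XT.nd (nat_lit 156) (nat_lit 380) (nat_lit 0) (XT.nd (nat_lit 78) (nat_lit 0) (nat_lit 0) (XT.lf (nat_lit 0) (nat_lit 31339385868) (nat_lit 380) (nat_lit 31355953306) (nat_lit 456) (nat_lit 186465947738) (nat_lit 275) (nat_lit 5) (nat_lit 280) (nat_lit 5) (nat_lit 281) (nat_lit 5) (nat_lit 431) (nat_lit 417) (nat_lit 172)) (XT.lf (nat_lit 0) (nat_lit 93674171832) (nat_lit 456) (nat_lit 81168134482) (nat_lit 76) (nat_lit 81151589225) (nat_lit 275) (nat_lit 5) (nat_lit 281) (nat_lit 5) (nat_lit 276) (nat_lit 5) (nat_lit 432) (nat_lit 417) (nat_lit 171))) (XT.nd (nat_lit 78) (nat_lit 0) (nat_lit 0) (XT.lf (nat_lit 0) (nat_lit 63847734582) (nat_lit 380) (nat_lit 63865010072) (nat_lit 456) (nat_lit 135379850018) (nat_lit 270) (nat_lit 5) (nat_lit 275) (nat_lit 5) (nat_lit 276) (nat_lit 5) (nat_lit 433) (nat_lit 417) (nat_lit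 170)) (XT.lf (nat_lit 0) (nat_lit 165672517405) (nat_lit 456) (nat_lit 52389931492) (nat_lit 76) (nat_lit 52372816301) (nat_lit 270) (nat_lit 5) (nat_lit 276) (nat_lit 5) (nat_lit 271) (nat_lit 5) (nat_lit 434) (nat_lit 417) (nat_lit 169)))) (XT.nd (nat_lit 156) (nat_lit 684) (nat_lit 0) (XT.nd (nat_lit 78) (nat_lit 0) (nat_lit 0) (XT.lf (nat_lit 0) (nat_lit 104092301466) (nat_lit 304) (nat_lit 104110047460) (nat_lit 380) (nat_lit 69809116815) (nat_lit 266) (nat_lit 5) (nat_lit 270) (nat_lit 5) (nat_lit 271) (nat_lit 5) (nat_lit 435) (nat_lit 417) (nat_lit 168)) (XT.lf (nat_lit 0) (nat_lit 254003020656) (nat_lit 380) (nat_lit 15961855665) (nat_lit 76) (nat_lit 15944382561) (nat_lit 266) (nat_lit 5) (nat_lit 271) (nat_lit 5) (nat_lit 267) (nat_lit 5) (nat_lit 436) (nat_lit 417) (nat_lit 167))) (XT.nd (nat_lit 78) (nat_lit 304) (nat_lit 0) (XT.lf (nat_lit 0) (nat_lit 11803120612) (nat_lit 380) (nat_lit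 141101241152) (nat_lit 76) (nat_lit 141083223136) (nat_lit 261) (nat_lit 5) (nat_lit 266) (nat_lit 5) (nat_lit 262) (nat_lit 5) (nat_lit 437) (nat_lit 417) (nat_lit 166)) (XT.lf (nat_lit 0) (nat_lit 28664688624) (nat_lit 304) (nat_lit 28683225602) (nat_lit 380) (nat_lit 245059649055) (nat_lit 257) (nat_lit 5) (nat_lit 261) (nat_lit 5) (nat_lit 262) (nat_lit 5) (nat_lit 438) (nat_lit 417) (nat_lit 165))))) (XT.nd (nat_lit 312) (nat_lit 836) (nat_lit 0) (XT.nd (nat_lit 156) (nat_lit 228) (nat_lit 0) (XT.nd (nat_lit 78) (nat_lit 304) (nat_lit 0) (XT.lf (nat_lit 0) (nat_lit 109187263816) (nat_lit 380) (nat_lit 100939267966) (nat_lit 76) (nat_lit 100921142986) (nat_lit 257) (nat_lit 5) (nat_lit 262) (nat_lit 5) (nat_lit 258) (nat_lit 5) (nat_lit 439) (nat_lit 417) (nat_lit 164)) (XT.lf (nat_lit 0) (nat_lit 82680519954) (nat_lit 304) (nat_lit 82699093234) (nat_lit 380) (nat_lit 154652127025) (nat_lit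 253) (nat_lit 5) (nat_lit 257) (nat_lit 5) (nat_lit 258) (nat_lit 5) (nat_lit 440) (nat_lit 417) (nat_lit 163))) (XT.nd (nat_lit 78) (nat_lit 228) (nat_lit 0) (XT.lf (nat_lit 0) (nat_lit 226916811290) (nat_lit 380) (nat_lit 51219765769) (nat_lit 76) (nat_lit 51201670309) (nat_lit 253) (nat_lit 5) (nat_lit 258) (nat_lit 5) (nat_lit 254) (nat_lit 5) (nat_lit 441) (nat_lit 417) (nat_lit 162)) (XT.lf (nat_lit 0) (nat_lit 147586143873) (nat_lit 228) (nat_lit 147604626591) (nat_lit 304) (nat_lit 43736314358) (nat_lit 250) (nat_lit 5) (nat_lit 253) (nat_lit 5) (nat_lit 254) (nat_lit 5) (nat_lit 442) (nat_lit 417) (nat_lit 161)))) (XT.nd (nat_lit 156) (nat_lit 456) (nat_lit 0) (XT.nd (nat_lit 78) (nat_lit 0) (nat_lit 0) (XT.lf (nat_lit 0) (nat_lit 9158212450) (nat_lit 304) (nat_lit 9177063985) (nat_lit 380) (nat_lit 330594898343) (nat_lit 245) (nat_lit 5) (nat_lit 249) (nat_lit 5) (nat_lit 250) (nat_lit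 5) (nat_lit 443) (nat_lit 417) (nat_lit 160)) (XT.lf (nat_lit 0) (nat_lit 87460164788) (nat_lit 380) (nat_lit 135842358064) (nat_lit 76) (nat_lit 135824069692) (nat_lit 245) (nat_lit 5) (nat_lit 250) (nat_lit 5) (nat_lit 246) (nat_lit 5) (nat_lit 444) (nat_lit 417) (nat_lit 159))) (XT.nd (nat_lit 78) (nat_lit 228) (nat_lit 0) (XT.lf (nat_lit 0) (nat_lit 80716648334) (nat_lit 228) (nat_lit 80735255303) (nat_lit 304) (nat_lit 208310397257) (nat_lit 242) (nat_lit 5) (nat_lit 245) (nat_lit 5) (nat_lit 246) (nat_lit 5) (nat_lit 445) (nat_lit 417) (nat_lit 158)) (XT.nd (nat_lit 78) (nat_lit 228) (nat_lit 0) (XT.lf (nat_lit 0) (nat_lit 242558114567) (nat_lit 304) (nat_lit 69109472870) (nat_lit 76) (nat_lit 69091462968) (nat_lit 242) (nat_lit 5) (nat_lit 246) (nat_lit 5) (nat_lit 243) (nat_lit 5) (nat_lit 446) (nat_lit 417) (nat_lit 157)) (XT.lf (nat_lit 0) (nat_lit 165806770369) (nat_lit 228) (nat_lit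 165825055488) (nat_lit 304) (nat_lit 60478202044) (nat_lit 239) (nat_lit 5) (nat_lit 242) (nat_lit 5) (nat_lit 243) (nat_lit 5) (nat_lit 447) (nat_lit 417) (nat_lit 156))))))))
noncomputable def xc313 : XT := (XT.nd (nat_lit 2496) (nat_lit 304) (nat_lit 0) (XT.nd (nat_lit 1248) (nat_lit 1520) (nat_lit 0) (XT.nd (nat_lit 624) (nat_lit 912) (nat_lit 0) (XT.nd (nat_lit 312) (nat_lit 608) (nat_lit 0) (XT.nd (nat_lit 156) (nat_lit 228) (nat_lit 0) (XT.nd (nat_lit 78) (nat_lit 0) (nat_lit 0) (XT.lf (nat_lit 0) (nat_lit 10897747319) (nat_lit 228) (nat_lit 10916294550) (nat_lit 304) (nat_lit 382130032614) (nat_lit 235) (nat_lit 5) (nat_lit 238) (nat_lit 5) (nat_lit 239) (nat_lit 5) (nat_lit 448) (nat_lit 417) (nat_lit 155)) (XT.lf (nat_lit 0) (nat_lit 112452825628) (nat_lit 304) (nat_lit 151786053827) (nat_lit 76) (nat_lit 151768152055) (nat_lit 235) (nat_lit 5) (nat_lit 239) (nat_lit 5) (nat_lit 236)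 (nat_lit 5) (nat_lit 449) (nat_lit 417) (nat_lit 154))) (XT.nd (nat_lit 78) (nat_lit 0) (nat_lit 0) (XT.lf (nat_lit 0) (nat_lit 104709571006) (nat_lit 228) (nat_lit 104727699200) (nat_lit 304) (nat_lit 219145180098) (nat_lit 232) (nat_lit 5) (nat_lit 235) (nat_lit 5) (nat_lit 236) (nat_lit 5) (nat_lit 450) (nat_lit 417) (nat_lit 153)) (XT.lf (nat_lit 0) (nat_lit 314863449115) (nat_lit 304) (nat_lit 63380517819) (nat_lit 76) (nat_lit 63363047500) (nat_lit 232) (nat_lit 5) (nat_lit 236) (nat_lit 5) (nat_lit 233) (nat_lit 5) (nat_lit 451) (nat_lit 417) (nat_lit 152)))) (XT.nd (nat_lit 156) (nat_lit 152) (nat_lit 0) (XT.nd (nat_lit 78) (nat_lit 304) (nat_lit 0) (XT.lf (nat_lit 0) (nat_lit 215310841563) (nat_lit 152) (nat_lit 215328507473) (nat_lit 228) (nat_lit 24389537130) (nat_lit 230) (nat_lit 5) (nat_lit 232) (nat_lit 5) (nat_lit 233) (nat_lit 5) (nat_lit 452) (nat_lit 417) (nat_lit 151)) (XT.lf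 (nat_lit 0) (nat_lit 41068661751) (nat_lit 228) (nat_lit 41086513939) (nat_lit 304) (nat_lit 386815211890) (nat_lit 226) (nat_lit 5) (nat_lit 229) (nat_lit 5) (nat_lit 230) (nat_lit 5) (nat_lit 453) (nat_lit 417) (nat_lit 150))) (XT.nd (nat_lit 78) (nat_lit 152) (nat_lit 0) (XT.lf (nat_lit 0) (nat_lit 199548680272) (nat_lit 304) (nat_lit 141870201594) (nat_lit 76) (nat_lit 141853030551) (nat_lit 226) (nat_lit 5) (nat_lit 230) (nat_lit 5) (nat_lit 227) (nat_lit 5) (nat_lit 454) (nat_lit 417) (nat_lit 149)) (XT.lf (nat_lit 0) (nat_lit 163006513873) (nat_lit 152) (nat_lit 163023845830) (nat_lit 228) (nat_lit 172097228811) (nat_lit 224) (nat_lit 5) (nat_lit 226) (nat_lit 5) (nat_lit 227) (nat_lit 5) (nat_lit 455) (nat_lit 417) (nat_lit 148))))) (XT.nd (nat_lit 312) (nat_lit 532) (nat_lit 0) (XT.nd (nat_lit 156) (nat_lit 152) (nat_lit 0) (XT.nd (nat_lit 78) (nat_lit 228) (nat_lit 0) (XT.lf (nat_lit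 0) (nat_lit 461657363055) (nat_lit 228) (nat_lit 25972137971) (nat_lit 76) (nat_lit 25955485392) (nat_lit 224) (nat_lit 5) (nat_lit 227) (nat_lit 5) (nat_lit 225) (nat_lit 5) (nat_lit 456) (nat_lit 417) (nat_lit 147)) (XT.lf (nat_lit 0) (nat_lit 79442111730) (nat_lit 228) (nat_lit 224976782393) (nat_lit 76) (nat_lit 224959990810) (nat_lit 221) (nat_lit 5) (nat_lit 224) (nat_lit 5) (nat_lit 222) (nat_lit 5) (nat_lit 457) (nat_lit 417) (nat_lit 146))) (XT.nd (nat_lit 78) (nat_lit 0) (nat_lit 0) (XT.lf (nat_lit 0) (nat_lit 108882644905) (nat_lit 152) (nat_lit 108899568872) (nat_lit 228) (nat_lit 328030351530) (nat_lit 219) (nat_lit 5) (nat_lit 221) (nat_lit 5) (nat_lit 222) (nat_lit 5) (nat_lit 458) (nat_lit 417) (nat_lit 145)) (XT.lf (nat_lit 0) (nat_lit 368416844123) (nat_lit 228) (nat_lit 97199223778) (nat_lit 76) (nat_lit 97182985638) (nat_lit 219) (nat_lit 5) (nat_lit 222) (nat_lit 5) (nat_lit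 220) (nat_lit 5) (nat_lit 459) (nat_lit 417) (nat_lit 144)))) (XT.nd (nat_lit 156) (nat_lit 152) (nat_lit 0) (XT.nd (nat_lit 78) (nat_lit 228) (nat_lit 0) (XT.lf (nat_lit 0) (nat_lit 266254518933) (nat_lit 152) (nat_lit 266270871432) (nat_lit 228) (nat_lit 47812366599) (nat_lit 217) (nat_lit 5) (nat_lit 219) (nat_lit 5) (nat_lit 220) (nat_lit 5) (nat_lit 460) (nat_lit 417) (nat_lit 143)) (XT.lf (nat_lit 0) (nat_lit 52584073045) (nat_lit 152) (nat_lit 52600534457) (nat_lit 228) (nat_lit 493361270462) (nat_lit 214) (nat_lit 5) (nat_lit 216) (nat_lit 5) (nat_lit 217) (nat_lit 5) (nat_lit 461) (nat_lit 417) (nat_lit 142))) (XT.nd (nat_lit 78) (nat_lit 152) (nat_lit 0) (XT.lf (nat_lit 0) (nat_lit 272312489591) (nat_lit 228) (nat_lit 172462053932) (nat_lit 76) (nat_lit 172446277610) (nat_lit 214) (nat_lit 5) (nat_lit 217) (nat_lit 5) (nat_lit 215) (nat_lit 5) (nat_lit 462) (nat_lit 417) (nat_lit 141))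 (XT.lf (nat_lit 0) (nat_lit 226086505807) (nat_lit 152) (nat_lit 226102376212) (nat_lit 228) (nat_lit 184421023630) (nat_lit 212) (nat_lit 5) (nat_lit 214) (nat_lit 5) (nat_lit 215) (nat_lit 5) (nat_lit 463) (nat_lit 417) (nat_lit 140)))))) (XT.nd (nat_lit 624) (nat_lit 836) (nat_lit 0) (XT.nd (nat_lit 312) (nat_lit 380) (nat_lit 0) (XT.nd (nat_lit 156) (nat_lit 152) (nat_lit 0) (XT.nd (nat_lit 78) (nat_lit 152) (nat_lit 0) (XT.lf (nat_lit 0) (nat_lit 644082369802) (nat_lit 228) (nat_lit 6375055405) (nat_lit 76) (nat_lit 6359855397) (nat_lit 212) (nat_lit 5) (nat_lit 215) (nat_lit 5) (nat_lit 213) (nat_lit 4) (nat_lit 464) (nat_lit 417) (nat_lit 139)) (XT.lf (nat_lit 0) (nat_lit 172732033057) (nat_lit 152) (nat_lit 252329776097) (nat_lit 76) (nat_lit 252314494817) (nat_lit 210) (nat_lit 5) (nat_lit 212) (nat_lit 5) (nat_lit 211) (nat_lit 5) (nat_lit 465) (nat_lit 417) (nat_lit 138))) (XT.nd (nat_lit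 78) (nat_lit 0) (nat_lit 0) (XT.lf (nat_lit 0) (nat_lit 185013637602) (nat_lit 152) (nat_lit 185028996284) (nat_lit 228) (nat_lit 328760291855) (nat_lit 208) (nat_lit 5) (nat_lit 210) (nat_lit 5) (nat_lit 211) (nat_lit 5) (nat_lit 466) (nat_lit 417) (nat_lit 137)) (XT.lf (nat_lit 0) (nat_lit 582608259704) (nat_lit 228) (nat_lit 69218920835) (nat_lit 76) (nat_lit 69204223313) (nat_lit 208) (nat_lit 5) (nat_lit 211) (nat_lit 5) (nat_lit 209) (nat_lit 4) (nat_lit 467) (nat_lit 417) (nat_lit 136)))) (XT.nd (nat_lit 156) (nat_lit 76) (nat_lit 0) (XT.nd (nat_lit 78) (nat_lit 152) (nat_lit 0) (XT.lf (nat_lit 0) (nat_lit 69015627021) (nat_lit 152) (nat_lit 337422470487) (nat_lit 76) (nat_lit 337407706102) (nat_lit 206) (nat_lit 5) (nat_lit 208) (nat_lit 5) (nat_lit 207) (nat_lit 5) (nat_lit 468) (nat_lit 417) (nat_lit 135)) (XT.lf (nat_lit 0) (nat_lit 142790191867) (nat_lit 152) (nat_lit 142805019931)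 (nat_lit 228) (nat_lit 481921209945) (nat_lit 204) (nat_lit 5) (nat_lit 206) (nat_lit 5) (nat_lit 207) (nat_lit 5) (nat_lit 469) (nat_lit 417) (nat_lit 134))) (XT.nd (nat_lit 78) (nat_lit 76) (nat_lit 0) (XT.lf (nat_lit 0) (nat_lit 520904106970) (nat_lit 228) (nat_lit 135542813490) (nat_lit 76) (nat_lit 135528633765) (nat_lit 204) (nat_lit 5) (nat_lit 207) (nat_lit 5) (nat_lit 205) (nat_lit 4) (nat_lit 470) (nat_lit 417) (nat_lit 133)) (XT.lf (nat_lit 0) (nat_lit 388182937607) (nat_lit 76) (nat_lit 388197172341) (nat_lit 152) (nat_lit 40857450231) (nat_lit 203) (nat_lit 5) (nat_lit 204) (nat_lit 5) (nat_lit 205) (nat_lit 4) (nat_lit 471) (nat_lit 417) (nat_lit 132))))) (XT.nd (nat_lit 312) (nat_lit 304) (nat_lit 0) (XT.nd (nat_lit 156) (nat_lit 304) (nat_lit 0) (XT.nd (nat_lit 78) (nat_lit 0) (nat_lit 0) (XT.lf (nat_lit 0) (nat_lit 99152544996) (nat_lit 152) (nat_lit 99166832119) (nat_lit 228)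 (nat_lit 645092427443) (nat_lit 200) (nat_lit 5) (nat_lit 202) (nat_lit 5) (nat_lit 203) (nat_lit 5) (nat_lit 472) (nat_lit 417) (nat_lit 131)) (XT.lf (nat_lit 0) (nat_lit 458657238036) (nat_lit 228) (nat_lit 205844462093) (nat_lit 76) (nat_lit 205830807791) (nat_lit 200) (nat_lit 5) (nat_lit 203) (nat_lit 5) (nat_lit 201) (nat_lit 4) (nat_lit 473) (nat_lit 417) (nat_lit 130))) (XT.nd (nat_lit 78) (nat_lit 228) (nat_lit 0) (XT.lf (nat_lit 0) (nat_lit 369697987493) (nat_lit 76) (nat_lit 369711687051) (nat_lit 152) (nat_lit 158819687778) (nat_lit 199) (nat_lit 5) (nat_lit 200) (nat_lit 5) (nat_lit 201) (nat_lit 4) (nat_lit 474) (nat_lit 417) (nat_lit 129)) (XT.lf (nat_lit 0) (nat_lit 53816990285) (nat_lit 152) (nat_lit 53830732943) (nat_lit 228) (nat_lit 819570886886) (nat_lit 196) (nat_lit 5) (nat_lit 198) (nat_lit 5) (nat_lit 199) (nat_lit 5) (nat_lit 475) (nat_lit 417) (nat_lit 128)))) (XT.nd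 (nat_lit 156) (nat_lit 228) (nat_lit 0) (XT.nd (nat_lit 78) (nat_lit 76) (nat_lit 0) (XT.lf (nat_lit 0) (nat_lit 395536696051) (nat_lit 228) (nat_lit 280665896400) (nat_lit 76) (nat_lit 280652769061) (nat_lit 196) (nat_lit 5) (nat_lit 199) (nat_lit 5) (nat_lit 197) (nat_lit 4) (nat_lit 476) (nat_lit 417) (nat_lit 127)) (XT.lf (nat_lit 0) (nat_lit 352093281667) (nat_lit 76) (nat_lit 352106446237) (nat_lit 152) (nat_lit 283455242057) (nat_lit 195) (nat_lit 5) (nat_lit 196) (nat_lit 5) (nat_lit 197) (nat_lit 4) (nat_lit 477) (nat_lit 417) (nat_lit 126))) (XT.nd (nat_lit 78) (nat_lit 0) (nat_lit 0) (XT.lf (nat_lit 0) (nat_lit 6477348882) (nat_lit 152) (nat_lit 6490548911) (nat_lit 228) (nat_lit 1006773568651) (nat_lit 192) (nat_lit 5) (nat_lit 194) (nat_lit 5) (nat_lit 195) (nat_lit 5) (nat_lit 478) (nat_lit 417) (nat_lit 125)) (XT.lf (nat_lit 0) (nat_lit 331190711440) (nat_lit 228) (nat_lit 360598307992)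 (nat_lit 76) (nat_lit 360585704373) (nat_lit 192) (nat_lit 5) (nat_lit 195) (nat_lit 5) (nat_lit 193) (nat_lit 4) (nat_lit 479) (nat_lit 417) (nat_lit 124))))))) (XT.nd (nat_lit 49218) (nat_lit 0) (nat_lit 4332) (XT.nd (nat_lit 48594) (nat_lit 0) (nat_lit 7524) (XT.nd (nat_lit 48282) (nat_lit 0) (nat_lit 7904) (XT.nd (nat_lit 156) (nat_lit 228) (nat_lit 0) (XT.nd (nat_lit 78) (nat_lit 0) (nat_lit 0) (XT.lf (nat_lit 0) (nat_lit 335326902214) (nat_lit 76) (nat_lit 335339536463) (nat_lit 152) (nat_lit 415706116712) (nat_lit 191) (nat_lit 5) (nat_lit 192) (nat_lit 5) (nat_lit 193) (nat_lit 4) (nat_lit 480) (nat_lit 417) (nat_lit 123)) (XT.lf (nat_lit 0) (nat_lit 1033930794395) (nat_lit 152) (nat_lit 43905401227) (nat_lit 0) (nat_lit 43893340825) (nat_lit 191) (nat_lit 5) (nat_lit 193) (nat_lit 4) (nat_lit 191) (nat_lit 4) (nat_lit 481) (nat_lit 417) (nat_lit 122))) (XT.nd (nat_lit 78) (nat_lit 76)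 (nat_lit 0) (XT.lf (nat_lit 0) (nat_lit 265243944388) (nat_lit 152) (nat_lit 446287394032) (nat_lit 76) (nat_lit 446275307171) (nat_lit 189) (nat_lit 5) (nat_lit 191) (nat_lit 5) (nat_lit 190) (nat_lit 4) (nat_lit 482) (nat_lit 417) (nat_lit 121)) (XT.lf (nat_lit 0) (nat_lit 319358927581) (nat_lit 76) (nat_lit 319371039643) (nat_lit 152) (nat_lit 556598586011) (nat_lit 188) (nat_lit 5) (nat_lit 189) (nat_lit 5) (nat_lit 190) (nat_lit 4) (nat_lit 483) (nat_lit 417) (nat_lit 120)))) (XT.nd (nat_lit 156) (nat_lit 0) (nat_lit 76) (XT.nd (nat_lit 78) (nat_lit 0) (nat_lit 0) (XT.lf (nat_lit 0) (nat_lit 42874593152) (nat_lit 836) (nat_lit 24162446668) (nat_lit 836) (nat_lit 24162446668) (nat_lit 292) (nat_lit 3) (nat_lit 303) (nat_lit 3) (nat_lit 303) (nat_lit 5) (nat_lit 418) (nat_lit 418) (nat_lit 184)) (XT.lf (nat_lit 76) (nat_lit 44292220829) (nat_lit 0) (nat_lit 44294158356) (nat_lit 836) (nat_lit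 98337894959) (nat_lit 293) (nat_lit 5) (nat_lit 292) (nat_lit 3) (nat_lit 303) (nat_lit 5) (nat_lit 419) (nat_lit 418) (nat_lit 183))) (XT.nd (nat_lit 78) (nat_lit 0) (nat_lit 0) (XT.lf (nat_lit 0) (nat_lit 93177375513) (nat_lit 760) (nat_lit 49210735160) (nat_lit 836) (nat_lit 49207132503) (nat_lit 293) (nat_lit 5) (nat_lit 303) (nat_lit 5) (nat_lit 304) (nat_lit 5) (nat_lit 420) (nat_lit 418) (nat_lit 182)) (XT.lf (nat_lit 76) (nat_lit 49747680744) (nat_lit 0) (nat_lit 49752957109) (nat_lit 836) (nat_lit 96923986995) (nat_lit 294) (nat_lit 5) (nat_lit 293) (nat_lit 5) (nat_lit 304) (nat_lit 5) (nat_lit 421) (nat_lit 418) (nat_lit 181))))) (XT.nd (nat_lit 312) (nat_lit 532) (nat_lit 0) (XT.nd (nat_lit 156) (nat_lit 0) (nat_lit 76) (XT.nd (nat_lit 78) (nat_lit 0) (nat_lit 0) (XT.lf (nat_lit 0) (nat_lit 107728846294) (nat_lit 760) (nat_lit 46846866688) (nat_lit 836) (nat_lit 46840323475) (nat_lit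 294) (nat_lit 5) (nat_lit 304) (nat_lit 5) (nat_lit 305) (nat_lit 5) (nat_lit 422) (nat_lit 418) (nat_lit 180)) (XT.lf (nat_lit 76) (nat_lit 59048955202) (nat_lit 0) (nat_lit 59056944227) (nat_lit 836) (nat_lit 88464247501) (nat_lit 295) (nat_lit 5) (nat_lit 294) (nat_lit 5) (nat_lit 305) (nat_lit 5) (nat_lit 423) (nat_lit 418) (nat_lit 179))) (XT.nd (nat_lit 78) (nat_lit 0) (nat_lit 0) (XT.lf (nat_lit 0) (nat_lit 130451919632) (nat_lit 760) (nat_lit 40733228782) (nat_lit 836) (nat_lit 40724308793) (nat_lit 295) (nat_lit 5) (nat_lit 305) (nat_lit 5) (nat_lit 306) (nat_lit 5) (nat_lit 424) (nat_lit 418) (nat_lit 178)) (XT.lf (nat_lit 76) (nat_lit 72754511063) (nat_lit 0) (nat_lit 72764679999) (nat_lit 836) (nat_lit 71891344426) (nat_lit 296) (nat_lit 5) (nat_lit 295) (nat_lit 5) (nat_lit 306) (nat_lit 5) (nat_lit 425) (nat_lit 418) (nat_lit 177)))) (XT.nd (nat_lit 156) (nat_lit 684) (nat_lit 0)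 (XT.nd (nat_lit 78) (nat_lit 0) (nat_lit 0) (XT.lf (nat_lit 0) (nat_lit 162518267213) (nat_lit 760) (nat_lit 30310147973) (nat_lit 836) (nat_lit 30299330440) (nat_lit 296) (nat_lit 5) (nat_lit 306) (nat_lit 5) (nat_lit 307) (nat_lit 5) (nat_lit 426) (nat_lit 418) (nat_lit 176)) (XT.lf (nat_lit 76) (nat_lit 91488281500) (nat_lit 0) (nat_lit 91500177920) (nat_lit 836) (nat_lit 46011298738) (nat_lit 297) (nat_lit 5) (nat_lit 296) (nat_lit 5) (nat_lit 307) (nat_lit 5) (nat_lit 427) (nat_lit 418) (nat_lit 175))) (XT.nd (nat_lit 78) (nat_lit 760) (nat_lit 0) (XT.lf (nat_lit 0) (nat_lit 205236351274) (nat_lit 760) (nat_lit 14951809523) (nat_lit 76) (nat_lit 14939501016) (nat_lit 297) (nat_lit 5) (nat_lit 307) (nat_lit 5) (nat_lit 298) (nat_lit 5) (nat_lit 428) (nat_lit 418) (nat_lit 174)) (XT.lf (nat_lit 0) (nat_lit 115946786040) (nat_lit 760) (nat_lit 115960026530) (nat_lit 836) (nat_lit 9489639341)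 (nat_lit 287) (nat_lit 5) (nat_lit 297) (nat_lit 5) (nat_lit 298) (nat_lit 5) (nat_lit 429) (nat_lit 418) (nat_lit 173)))))) (XT.nd (nat_lit 624) (nat_lit 1596) (nat_lit 0) (XT.nd (nat_lit 312) (nat_lit 684) (nat_lit 0) (XT.nd (nat_lit 156) (nat_lit 380) (nat_lit 0) (XT.nd (nat_lit 78) (nat_lit 0) (nat_lit 0) (XT.lf (nat_lit 0) (nat_lit 5943079804) (nat_lit 456) (nat_lit 5957207897) (nat_lit 532) (nat_lit 236051575397) (nat_lit 280) (nat_lit 5) (nat_lit 286) (nat_lit 5) (nat_lit 287) (nat_lit 5) (nat_lit 430) (nat_lit 418) (nat_lit 172)) (XT.lf (nat_lit 0) (nat_lit 37910414596) (nat_lit 532) (nat_lit 108368815694) (nat_lit 76) (nat_lit 108354555285) (nat_lit 280) (nat_lit 5) (nat_lit 287) (nat_lit 5) (nat_lit 281) (nat_lit 5) (nat_lit 431) (nat_lit 418) (nat_lit 171))) (XT.nd (nat_lit 78) (nat_lit 0) (nat_lit 0) (XT.lf (nat_lit 0) (nat_lit 32908701261) (nat_lit 380) (nat_lit 32923728415) (nat_lit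 456) (nat_lit 195786805405) (nat_lit 275) (nat_lit 5) (nat_lit 280) (nat_lit 5) (nat_lit 281) (nat_lit 5) (nat_lit 432) (nat_lit 418) (nat_lit 170)) (XT.lf (nat_lit 0) (nat_lit 98360093657) (nat_lit 456) (nat_lit 85224196517) (nat_lit 76) (nat_lit 85209189481) (nat_lit 275) (nat_lit 5) (nat_lit 281) (nat_lit 5) (nat_lit 276) (nat_lit 5) (nat_lit 433) (nat_lit 418) (nat_lit 169)))) (XT.nd (nat_lit 156) (nat_lit 304) (nat_lit 0) (XT.nd (nat_lit 78) (nat_lit 0) (nat_lit 0) (XT.lf (nat_lit 0) (nat_lit 67042428183) (nat_lit 380) (nat_lit 67058097562) (nat_lit 456) (nat_lit 142146591468) (nat_lit 270) (nat_lit 5) (nat_lit 275) (nat_lit 5) (nat_lit 276) (nat_lit 5) (nat_lit 434) (nat_lit 418) (nat_lit 168)) (XT.lf (nat_lit 0) (nat_lit 173958187468) (nat_lit 456) (nat_lit 55007131381) (nat_lit 76) (nat_lit 54991607398) (nat_lit 270) (nat_lit 5) (nat_lit 276) (nat_lit 5) (nat_lit 271) (nat_lit 5) (nat_lit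 435) (nat_lit 418) (nat_lit 167))) (XT.nd (nat_lit 78) (nat_lit 0) (nat_lit 0) (XT.lf (nat_lit 0) (nat_lit 109299176181) (nat_lit 304) (nat_lit 109315272321) (nat_lit 380) (nat_lit 73297491419) (nat_lit 266) (nat_lit 5) (nat_lit 270) (nat_lit 5) (nat_lit 271) (nat_lit 5) (nat_lit 436) (nat_lit 418) (nat_lit 166)) (XT.lf (nat_lit 0) (nat_lit 266705063558) (nat_lit 380) (nat_lit 16757706147) (nat_lit 76) (nat_lit 16741857527) (nat_lit 266) (nat_lit 5) (nat_lit 271) (nat_lit 5) (nat_lit 267) (nat_lit 5) (nat_lit 437) (nat_lit 418) (nat_lit 165))))) (XT.nd (nat_lit 312) (nat_lit 608) (nat_lit 0) (XT.nd (nat_lit 156) (nat_lit 304) (nat_lit 0) (XT.nd (nat_lit 78) (nat_lit 304) (nat_lit 0) (XT.lf (nat_lit 0) (nat_lit 12395142969) (nat_lit 380) (nat_lit 148154035365) (nat_lit 76) (nat_lit 148137692494) (nat_lit 261) (nat_lit 5) (nat_lit 266) (nat_lit 5) (nat_lit 262) (nat_lit 5) (nat_lit 438) (nat_lit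 418) (nat_lit 164)) (XT.lf (nat_lit 0) (nat_lit 30100154321) (nat_lit 304) (nat_lit 30116967907) (nat_lit 380) (nat_lit 257310728604) (nat_lit 257) (nat_lit 5) (nat_lit 261) (nat_lit 5) (nat_lit 262) (nat_lit 5) (nat_lit 439) (nat_lit 418) (nat_lit 163))) (XT.nd (nat_lit 78) (nat_lit 304) (nat_lit 0) (XT.lf (nat_lit 0) (nat_lit 114648359227) (nat_lit 380) (nat_lit 105984026280) (nat_lit 76) (nat_lit 105967586388) (nat_lit 257) (nat_lit 5) (nat_lit 262) (nat_lit 5) (nat_lit 258) (nat_lit 5) (nat_lit 440) (nat_lit 418) (nat_lit 162)) (XT.lf (nat_lit 0) (nat_lit 86816715471) (nat_lit 304) (nat_lit 86833561983) (nat_lit 380) (nat_lit 162382965590) (nat_lit 253) (nat_lit 5) (nat_lit 257) (nat_lit 5) (nat_lit 258) (nat_lit 5) (nat_lit 441) (nat_lit 418) (nat_lit 161)))) (XT.nd (nat_lit 156) (nat_lit 380) (nat_lit 0) (XT.nd (nat_lit 78) (nat_lit 228) (nat_lit 0) (XT.lf (nat_lit 0) (nat_lit 238264262514)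 (nat_lit 380) (nat_lit 53778614902) (nat_lit 76) (nat_lit 53762201787) (nat_lit 253) (nat_lit 5) (nat_lit 258) (nat_lit 5) (nat_lit 254) (nat_lit 5) (nat_lit 442) (nat_lit 418) (nat_lit 160)) (XT.lf (nat_lit 0) (nat_lit 154967555719) (nat_lit 228) (nat_lit 154984320089) (nat_lit 304) (nat_lit 45921484914) (nat_lit 250) (nat_lit 5) (nat_lit 253) (nat_lit 5) (nat_lit 254) (nat_lit 5) (nat_lit 443) (nat_lit 418) (nat_lit 159))) (XT.nd (nat_lit 78) (nat_lit 0) (nat_lit 0) (XT.lf (nat_lit 0) (nat_lit 9618245585) (nat_lit 304) (nat_lit 9635344483) (nat_lit 380) (nat_lit 347123015958) (nat_lit 245) (nat_lit 5) (nat_lit 249) (nat_lit 5) (nat_lit 250) (nat_lit 5) (nat_lit 444) (nat_lit 418) (nat_lit 158)) (XT.lf (nat_lit 0) (nat_lit 91834657554) (nat_lit 380) (nat_lit 142632389241) (nat_lit 76) (nat_lit 142615801149) (nat_lit 245) (nat_lit 5) (nat_lit 250) (nat_lit 5) (nat_lit 246) (nat_lit 5) (nat_lit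 445) (nat_lit 418) (nat_lit 157))))))))
noncomputable def xc314 : XT := (XT.nd (nat_lit 1248) (nat_lit 1596) (nat_lit 0) (XT.nd (nat_lit 624) (nat_lit 988) (nat_lit 0) (XT.nd (nat_lit 312) (nat_lit 380) (nat_lit 0) (XT.nd (nat_lit 156) (nat_lit 532) (nat_lit 0) (XT.nd (nat_lit 78) (nat_lit 0) (nat_lit 0) (XT.lf (nat_lit 0) (nat_lit 84754533819) (nat_lit 228) (nat_lit 84771410889) (nat_lit 304) (nat_lit 218724398936) (nat_lit 242) (nat_lit 5) (nat_lit 245) (nat_lit 5) (nat_lit 246) (nat_lit 5) (nat_lit 446) (nat_lit 418) (nat_lit 156)) (XT.lf (nat_lit 0) (nat_lit 254687406360) (nat_lit 304) (nat_lit 72562931387) (nat_lit 76) (nat_lit 72546595875) (nat_lit 242) (nat_lit 5) (nat_lit 246) (nat_lit 5) (nat_lit 243) (nat_lit 5) (nat_lit 447) (nat_lit 418) (nat_lit 155))) (XT.nd (nat_lit 78) (nat_lit 304) (nat_lit 0) (XT.lf (nat_lit 0) (nat_lit 174099091512) (nat_lit 228) (nat_lit 174115676654) (nat_lit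 304) (nat_lit 63500693579) (nat_lit 239) (nat_lit 5) (nat_lit 242) (nat_lit 5) (nat_lit 243) (nat_lit 5) (nat_lit 448) (nat_lit 418) (nat_lit 154)) (XT.lf (nat_lit 0) (nat_lit 11444630003) (nat_lit 228) (nat_lit 11461452888) (nat_lit 304) (nat_lit 401235128371) (nat_lit 235) (nat_lit 5) (nat_lit 238) (nat_lit 5) (nat_lit 239) (nat_lit 5) (nat_lit 449) (nat_lit 418) (nat_lit 153)))) (XT.nd (nat_lit 156) (nat_lit 152) (nat_lit 0) (XT.nd (nat_lit 78) (nat_lit 228) (nat_lit 0) (XT.lf (nat_lit 0) (nat_lit 118076751839) (nat_lit 304) (nat_lit 159373402217) (nat_lit 76) (nat_lit 159357164782) (nat_lit 235) (nat_lit 5) (nat_lit 239) (nat_lit 5) (nat_lit 236) (nat_lit 5) (nat_lit 450) (nat_lit 418) (nat_lit 152)) (XT.lf (nat_lit 0) (nat_lit 109946972336) (nat_lit 228) (nat_lit 109963415143) (nat_lit 304) (nat_lit 230101122652) (nat_lit 232) (nat_lit 5) (nat_lit 235) (nat_lit 5) (nat_lit 236) (nat_lit 5)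 (nat_lit 451) (nat_lit 418) (nat_lit 151))) (XT.nd (nat_lit 78) (nat_lit 152) (nat_lit 0) (XT.lf (nat_lit 0) (nat_lit 330607825578) (nat_lit 304) (nat_lit 66547662735) (nat_lit 76) (nat_lit 66531816642) (nat_lit 232) (nat_lit 5) (nat_lit 236) (nat_lit 5) (nat_lit 233) (nat_lit 5) (nat_lit 452) (nat_lit 418) (nat_lit 150)) (XT.lf (nat_lit 0) (nat_lit 226078234277) (nat_lit 152) (nat_lit 226094257779) (nat_lit 228) (nat_lit 25607779641) (nat_lit 230) (nat_lit 5) (nat_lit 232) (nat_lit 5) (nat_lit 233) (nat_lit 5) (nat_lit 453) (nat_lit 418) (nat_lit 149))))) (XT.nd (nat_lit 312) (nat_lit 532) (nat_lit 0) (XT.nd (nat_lit 156) (nat_lit 152) (nat_lit 0) (XT.nd (nat_lit 78) (nat_lit 0) (nat_lit 0) (XT.lf (nat_lit 0) (nat_lit 43123954495) (nat_lit 228) (nat_lit 43140146956) (nat_lit 304) (nat_lit 406154747160) (nat_lit 226) (nat_lit 5) (nat_lit 229) (nat_lit 5) (nat_lit 230) (nat_lit 5) (nat_lit 454)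 (nat_lit 418) (nat_lit 148)) (XT.lf (nat_lit 0) (nat_lit 209527235991) (nat_lit 304) (nat_lit 148961895302) (nat_lit 76) (nat_lit 148946320659) (nat_lit 226) (nat_lit 5) (nat_lit 230) (nat_lit 5) (nat_lit 227) (nat_lit 5) (nat_lit 455) (nat_lit 418) (nat_lit 147))) (XT.nd (nat_lit 78) (nat_lit 0) (nat_lit 0) (XT.lf (nat_lit 0) (nat_lit 171158626642) (nat_lit 152) (nat_lit 171174347238) (nat_lit 228) (nat_lit 180700939250) (nat_lit 224) (nat_lit 5) (nat_lit 226) (nat_lit 5) (nat_lit 227) (nat_lit 5) (nat_lit 456) (nat_lit 418) (nat_lit 146)) (XT.lf (nat_lit 0) (nat_lit 484741285473) (nat_lit 228) (nat_lit 27269000967) (nat_lit 76) (nat_lit 27253896586) (nat_lit 224) (nat_lit 5) (nat_lit 227) (nat_lit 5) (nat_lit 225) (nat_lit 5) (nat_lit 457) (nat_lit 418) (nat_lit 145)))) (XT.nd (nat_lit 156) (nat_lit 152) (nat_lit 0) (XT.nd (nat_lit 78) (nat_lit 152) (nat_lit 0) (XT.lf (nat_lit 0) (nat_lit 83415265066)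 (nat_lit 228) (nat_lit 236223871094) (nat_lit 76) (nat_lit 236208640633) (nat_lit 221) (nat_lit 5) (nat_lit 224) (nat_lit 5) (nat_lit 222) (nat_lit 5) (nat_lit 458) (nat_lit 418) (nat_lit 144)) (XT.lf (nat_lit 0) (nat_lit 114328499337) (nat_lit 152) (nat_lit 114343849874) (nat_lit 228) (nat_lit 344430793124) (nat_lit 219) (nat_lit 5) (nat_lit 221) (nat_lit 5) (nat_lit 222) (nat_lit 5) (nat_lit 459) (nat_lit 418) (nat_lit 143))) (XT.nd (nat_lit 78) (nat_lit 152) (nat_lit 0) (XT.lf (nat_lit 0) (nat_lit 386838672647) (nat_lit 228) (nat_lit 102057506362) (nat_lit 76) (nat_lit 102042777890) (nat_lit 219) (nat_lit 5) (nat_lit 222) (nat_lit 5) (nat_lit 220) (nat_lit 5) (nat_lit 460) (nat_lit 418) (nat_lit 142)) (XT.lf (nat_lit 0) (nat_lit 279568896410) (nat_lit 152) (nat_lit 279583728609) (nat_lit 228) (nat_lit 50201971536) (nat_lit 217) (nat_lit 5) (nat_lit 219) (nat_lit 5) (nat_lit 220) (nat_lit 5)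 (nat_lit 461) (nat_lit 418) (nat_lit 141)))))) (XT.nd (nat_lit 624) (nat_lit 760) (nat_lit 0) (XT.nd (nat_lit 312) (nat_lit 456) (nat_lit 0) (XT.nd (nat_lit 156) (nat_lit 152) (nat_lit 0) (XT.nd (nat_lit 78) (nat_lit 0) (nat_lit 0) (XT.lf (nat_lit 0) (nat_lit 55214933502) (nat_lit 152) (nat_lit 55229864488) (nat_lit 228) (nat_lit 518028325866) (nat_lit 214) (nat_lit 5) (nat_lit 216) (nat_lit 5) (nat_lit 217) (nat_lit 5) (nat_lit 462) (nat_lit 418) (nat_lit 140)) (XT.lf (nat_lit 0) (nat_lit 285929038823) (nat_lit 228) (nat_lit 181083543359) (nat_lit 76) (nat_lit 181069233770) (nat_lit 214) (nat_lit 5) (nat_lit 217) (nat_lit 5) (nat_lit 215) (nat_lit 5) (nat_lit 463) (nat_lit 418) (nat_lit 139))) (XT.nd (nat_lit 78) (nat_lit 0) (nat_lit 0) (XT.lf (nat_lit 0) (nat_lit 237392418346) (nat_lit 152) (nat_lit 237406813272) (nat_lit 228) (nat_lit 193641124038) (nat_lit 212) (nat_lit 5) (nat_lit 214) (nat_lit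 5) (nat_lit 215) (nat_lit 5) (nat_lit 464) (nat_lit 418) (nat_lit 138)) (XT.lf (nat_lit 0) (nat_lit 676287360808) (nat_lit 228) (nat_lit 6692263527) (nat_lit 76) (nat_lit 6678476672) (nat_lit 212) (nat_lit 5) (nat_lit 215) (nat_lit 5) (nat_lit 213) (nat_lit 4) (nat_lit 465) (nat_lit 418) (nat_lit 137)))) (XT.nd (nat_lit 156) (nat_lit 152) (nat_lit 0) (XT.nd (nat_lit 78) (nat_lit 152) (nat_lit 0) (XT.lf (nat_lit 0) (nat_lit 181369503417) (nat_lit 152) (nat_lit 264944716444) (nat_lit 76) (nat_lit 264930855873) (nat_lit 210) (nat_lit 5) (nat_lit 212) (nat_lit 5) (nat_lit 211) (nat_lit 5) (nat_lit 466) (nat_lit 418) (nat_lit 136)) (XT.lf (nat_lit 0) (nat_lit 194265842964) (nat_lit 152) (nat_lit 194279773742) (nat_lit 228) (nat_lit 345197412766) (nat_lit 208) (nat_lit 5) (nat_lit 210) (nat_lit 5) (nat_lit 211) (nat_lit 5) (nat_lit 467) (nat_lit 418) (nat_lit 135))) (XT.nd (nat_lit 78) (nat_lit 152)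 (nat_lit 0) (XT.lf (nat_lit 0) (nat_lit 611739493282) (nat_lit 228) (nat_lit 72678385410) (nat_lit 76) (nat_lit 72665054323) (nat_lit 208) (nat_lit 5) (nat_lit 211) (nat_lit 5) (nat_lit 209) (nat_lit 4) (nat_lit 468) (nat_lit 418) (nat_lit 134)) (XT.lf (nat_lit 0) (nat_lit 72467225831) (nat_lit 152) (nat_lit 354292109410) (nat_lit 76) (nat_lit 354278717677) (nat_lit 206) (nat_lit 5) (nat_lit 208) (nat_lit 5) (nat_lit 207) (nat_lit 5) (nat_lit 469) (nat_lit 418) (nat_lit 133))))) (XT.nd (nat_lit 312) (nat_lit 304) (nat_lit 0) (XT.nd (nat_lit 156) (nat_lit 304) (nat_lit 0) (XT.nd (nat_lit 78) (nat_lit 0) (nat_lit 0) (XT.lf (nat_lit 0) (nat_lit 149931162117) (nat_lit 152) (nat_lit 149944611608) (nat_lit 228) (nat_lit 506016429039) (nat_lit 204) (nat_lit 5) (nat_lit 206) (nat_lit 5) (nat_lit 207) (nat_lit 5) (nat_lit 470) (nat_lit 418) (nat_lit 132)) (XT.lf (nat_lit 0) (nat_lit 546950085300) (nat_lit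 228) (nat_lit 142318534708) (nat_lit 76) (nat_lit 142305673279) (nat_lit 204) (nat_lit 5) (nat_lit 207) (nat_lit 5) (nat_lit 205) (nat_lit 4) (nat_lit 471) (nat_lit 418) (nat_lit 131))) (XT.nd (nat_lit 78) (nat_lit 228) (nat_lit 0) (XT.lf (nat_lit 0) (nat_lit 407593481050) (nat_lit 76) (nat_lit 407606392373) (nat_lit 152) (nat_lit 42899526866) (nat_lit 203) (nat_lit 5) (nat_lit 204) (nat_lit 5) (nat_lit 205) (nat_lit 4) (nat_lit 472) (nat_lit 418) (nat_lit 130)) (XT.lf (nat_lit 0) (nat_lit 104111571345) (nat_lit 152) (nat_lit 104124530187) (nat_lit 228) (nat_lit 677346255475) (nat_lit 200) (nat_lit 5) (nat_lit 202) (nat_lit 5) (nat_lit 203) (nat_lit 5) (nat_lit 473) (nat_lit 418) (nat_lit 129)))) (XT.nd (nat_lit 156) (nat_lit 228) (nat_lit 0) (XT.nd (nat_lit 78) (nat_lit 76) (nat_lit 0) (XT.lf (nat_lit 0) (nat_lit 481590829089) (nat_lit 228) (nat_lit 216135326312) (nat_lit 76) (nat_lit 216122941457)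 (nat_lit 200) (nat_lit 5) (nat_lit 203) (nat_lit 5) (nat_lit 201) (nat_lit 4) (nat_lit 474) (nat_lit 418) (nat_lit 128)) (XT.lf (nat_lit 0) (nat_lit 388184223836) (nat_lit 76) (nat_lit 388196649738) (nat_lit 152) (nat_lit 166759921098) (nat_lit 199) (nat_lit 5) (nat_lit 200) (nat_lit 5) (nat_lit 201) (nat_lit 4) (nat_lit 475) (nat_lit 418) (nat_lit 127))) (XT.nd (nat_lit 78) (nat_lit 0) (nat_lit 0) (XT.lf (nat_lit 0) (nat_lit 56509178855) (nat_lit 152) (nat_lit 56521643850) (nat_lit 228) (nat_lit 860548682249) (nat_lit 196) (nat_lit 5) (nat_lit 198) (nat_lit 5) (nat_lit 199) (nat_lit 5) (nat_lit 476) (nat_lit 418) (nat_lit 126)) (XT.lf (nat_lit 0) (nat_lit 415314219507) (nat_lit 228) (nat_lit 294697891266) (nat_lit 76) (nat_lit 294685984383) (nat_lit 196) (nat_lit 5) (nat_lit 199) (nat_lit 5) (nat_lit 197) (nat_lit 4) (nat_lit 477) (nat_lit 418) (nat_lit 125)))))))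
noncomputable def xc315 : XT := (XT.nd (nat_lit 49374) (nat_lit 0) (nat_lit 4104) (XT.nd (nat_lit 48750) (nat_lit 0) (nat_lit 7752) (XT.nd (nat_lit 312) (nat_lit 0) (nat_lit 0) (XT.nd (nat_lit 156) (nat_lit 76) (nat_lit 0) (XT.nd (nat_lit 78) (nat_lit 228) (nat_lit 0) (XT.lf (nat_lit 0) (nat_lit 369699224737) (nat_lit 76) (nat_lit 369711165391) (nat_lit 152) (nat_lit 297627294540) (nat_lit 195) (nat_lit 5) (nat_lit 196) (nat_lit 5) (nat_lit 197) (nat_lit 4) (nat_lit 478) (nat_lit 418) (nat_lit 124)) (XT.lf (nat_lit 0) (nat_lit 6802497030) (nat_lit 152) (nat_lit 6814469846) (nat_lit 228) (nat_lit 1057111539181) (nat_lit 192) (nat_lit 5) (nat_lit 194) (nat_lit 5) (nat_lit 195) (nat_lit 5) (nat_lit 479) (nat_lit 418) (nat_lit 123))) (XT.nd (nat_lit 78) (nat_lit 76) (nat_lit 0) (XT.lf (nat_lit 0) (nat_lit 347750898119) (nat_lit 228) (nat_lit 378626980588) (nat_lit 76) (nat_lit 378615548734) (nat_lit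 192) (nat_lit 5) (nat_lit 195) (nat_lit 5) (nat_lit 193) (nat_lit 4) (nat_lit 480) (nat_lit 418) (nat_lit 122)) (XT.lf (nat_lit 0) (nat_lit 352094470083) (nat_lit 76) (nat_lit 352105929720) (nat_lit 152) (nat_lit 436490751395) (nat_lit 191) (nat_lit 5) (nat_lit 192) (nat_lit 5) (nat_lit 193) (nat_lit 4) (nat_lit 481) (nat_lit 418) (nat_lit 121)))) (XT.nd (nat_lit 48282) (nat_lit 0) (nat_lit 7676) (XT.nd (nat_lit 48204) (nat_lit 0) (nat_lit 7676) (XT.lf (nat_lit 0) (nat_lit 1085627951546) (nat_lit 152) (nat_lit 46099484995) (nat_lit 0) (nat_lit 46088545855) (nat_lit 191) (nat_lit 5) (nat_lit 193) (nat_lit 4) (nat_lit 191) (nat_lit 4) (nat_lit 482) (nat_lit 418) (nat_lit 120)) (XT.lf (nat_lit 0) (nat_lit 45020230086) (nat_lit 836) (nat_lit 25369567682) (nat_lit 836) (nat_lit 25369567682) (nat_lit 292) (nat_lit 3) (nat_lit 303) (nat_lit 3) (nat_lit 303) (nat_lit 5) (nat_lit 419) (nat_lit 419) (nat_lit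 182))) (XT.nd (nat_lit 78) (nat_lit 0) (nat_lit 76) (XT.lf (nat_lit 76) (nat_lit 46508802210) (nat_lit 0) (nat_lit 46510559604) (nat_lit 836) (nat_lit 103250942853) (nat_lit 293) (nat_lit 5) (nat_lit 292) (nat_lit 3) (nat_lit 303) (nat_lit 5) (nat_lit 420) (nat_lit 419) (nat_lit 181)) (XT.lf (nat_lit 0) (nat_lit 97839708319) (nat_lit 760) (nat_lit 51669195765) (nat_lit 836) (nat_lit 51665928049) (nat_lit 293) (nat_lit 5) (nat_lit 303) (nat_lit 5) (nat_lit 304) (nat_lit 5) (nat_lit 421) (nat_lit 419) (nat_lit 180))))) (XT.nd (nat_lit 312) (nat_lit 0) (nat_lit 152) (XT.nd (nat_lit 156) (nat_lit 0) (nat_lit 76) (XT.nd (nat_lit 78) (nat_lit 0) (nat_lit 76) (XT.lf (nat_lit 76) (nat_lit 52237107448) (nat_lit 0) (nat_lit 52241893267) (nat_lit 836) (nat_lit 101766688828) (nat_lit 294) (nat_lit 5) (nat_lit 293) (nat_lit 5) (nat_lit 304) (nat_lit 5) (nat_lit 422) (nat_lit 419) (nat_lit 179)) (XT.lf (nat_lit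 0) (nat_lit 113118441803) (nat_lit 760) (nat_lit 49187086851) (nat_lit 836) (nat_lit 49181151965) (nat_lit 294) (nat_lit 5) (nat_lit 304) (nat_lit 5) (nat_lit 305) (nat_lit 5) (nat_lit 423) (nat_lit 419) (nat_lit 178))) (XT.nd (nat_lit 78) (nat_lit 0) (nat_lit 76) (XT.lf (nat_lit 76) (nat_lit 62003491888) (nat_lit 0) (nat_lit 62010738169) (nat_lit 836) (nat_lit 92884272437) (nat_lit 295) (nat_lit 5) (nat_lit 294) (nat_lit 5) (nat_lit 305) (nat_lit 5) (nat_lit 424) (nat_lit 419) (nat_lit 177)) (XT.lf (nat_lit 0) (nat_lit 136977392638) (nat_lit 760) (nat_lit 42767742136) (nat_lit 836) (nat_lit 42759651443) (nat_lit 295) (nat_lit 5) (nat_lit 305) (nat_lit 5) (nat_lit 306) (nat_lit 5) (nat_lit 425) (nat_lit 419) (nat_lit 176)))) (XT.nd (nat_lit 156) (nat_lit 0) (nat_lit 76) (XT.nd (nat_lit 78) (nat_lit 0) (nat_lit 76) (XT.lf (nat_lit 76) (nat_lit 76394350055) (nat_lit 0) (nat_lit 76403573580) (nat_lit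 836) (nat_lit 75482999976) (nat_lit 296) (nat_lit 5) (nat_lit 295) (nat_lit 5) (nat_lit 306) (nat_lit 5) (nat_lit 426) (nat_lit 419) (nat_lit 175)) (XT.lf (nat_lit 0) (nat_lit 170646811738) (nat_lit 760) (nat_lit 31823500716) (nat_lit 836) (nat_lit 31813688895) (nat_lit 296) (nat_lit 5) (nat_lit 306) (nat_lit 5) (nat_lit 307) (nat_lit 5) (nat_lit 427) (nat_lit 419) (nat_lit 174))) (XT.nd (nat_lit 78) (nat_lit 0) (nat_lit 76) (XT.lf (nat_lit 76) (nat_lit 96064815477) (nat_lit 0) (nat_lit 96075605881) (nat_lit 836) (nat_lit 48309197758) (nat_lit 297) (nat_lit 5) (nat_lit 296) (nat_lit 5) (nat_lit 307) (nat_lit 5) (nat_lit 428) (nat_lit 419) (nat_lit 173)) (XT.lf (nat_lit 0) (nat_lit 215500580672) (nat_lit 760) (nat_lit 15697253910) (nat_lit 76) (nat_lit 15686089731) (nat_lit 297) (nat_lit 5) (nat_lit 307) (nat_lit 5) (nat_lit 298) (nat_lit 5) (nat_lit 429) (nat_lit 419) (nat_lit 172)))))) (XT.nd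 (nat_lit 624) (nat_lit 1596) (nat_lit 0) (XT.nd (nat_lit 312) (nat_lit 684) (nat_lit 0) (XT.nd (nat_lit 156) (nat_lit 380) (nat_lit 0) (XT.nd (nat_lit 78) (nat_lit 532) (nat_lit 0) (XT.lf (nat_lit 0) (nat_lit 121746236817) (nat_lit 760) (nat_lit 121758246331) (nat_lit 836) (nat_lit 9961674861) (nat_lit 287) (nat_lit 5) (nat_lit 297) (nat_lit 5) (nat_lit 298) (nat_lit 5) (nat_lit 430) (nat_lit 419) (nat_lit 171)) (XT.lf (nat_lit 0) (nat_lit 6242388252) (nat_lit 456) (nat_lit 6255202849) (nat_lit 532) (nat_lit 247851750702) (nat_lit 280) (nat_lit 5) (nat_lit 286) (nat_lit 5) (nat_lit 287) (nat_lit 5) (nat_lit 431) (nat_lit 419) (nat_lit 170))) (XT.nd (nat_lit 78) (nat_lit 380) (nat_lit 0) (XT.lf (nat_lit 0) (nat_lit 39808113338) (nat_lit 532) (nat_lit 113785093613) (nat_lit 76) (nat_lit 113772159001) (nat_lit 280) (nat_lit 5) (nat_lit 287) (nat_lit 5) (nat_lit 281) (nat_lit 5) (nat_lit 432) (nat_lit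 419) (nat_lit 169)) (XT.lf (nat_lit 0) (nat_lit 34556264305) (nat_lit 380) (nat_lit 34569894377) (nat_lit 456) (nat_lit 205573932777) (nat_lit 275) (nat_lit 5) (nat_lit 280) (nat_lit 5) (nat_lit 281) (nat_lit 5) (nat_lit 433) (nat_lit 419) (nat_lit 168)))) (XT.nd (nat_lit 156) (nat_lit 304) (nat_lit 0) (XT.nd (nat_lit 78) (nat_lit 380) (nat_lit 0) (XT.lf (nat_lit 0) (nat_lit 103280105808) (nat_lit 456) (nat_lit 89483279640) (nat_lit 76) (nat_lit 89469667817) (nat_lit 275) (nat_lit 5) (nat_lit 281) (nat_lit 5) (nat_lit 276) (nat_lit 5) (nat_lit 434) (nat_lit 419) (nat_lit 167)) (XT.lf (nat_lit 0) (nat_lit 70396641993) (nat_lit 380) (nat_lit 70410854582) (nat_lit 456) (nat_lit 149251879272) (nat_lit 270) (nat_lit 5) (nat_lit 275) (nat_lit 5) (nat_lit 276) (nat_lit 5) (nat_lit 435) (nat_lit 419) (nat_lit 166))) (XT.nd (nat_lit 78) (nat_lit 304) (nat_lit 0) (XT.lf (nat_lit 0) (nat_lit 182657950985)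 (nat_lit 456) (nat_lit 57755404789) (nat_lit 76) (nat_lit 57741324079) (nat_lit 270) (nat_lit 5) (nat_lit 276) (nat_lit 5) (nat_lit 271) (nat_lit 5) (nat_lit 436) (nat_lit 419) (nat_lit 165)) (XT.lf (nat_lit 0) (nat_lit 114766184552) (nat_lit 304) (nat_lit 114780784226) (nat_lit 380) (nat_lit 76960478247) (nat_lit 266) (nat_lit 5) (nat_lit 270) (nat_lit 5) (nat_lit 271) (nat_lit 5) (nat_lit 437) (nat_lit 419) (nat_lit 164))))) (XT.nd (nat_lit 312) (nat_lit 912) (nat_lit 0) (XT.nd (nat_lit 156) (nat_lit 304) (nat_lit 0) (XT.nd (nat_lit 78) (nat_lit 380) (nat_lit 0) (XT.lf (nat_lit 0) (nat_lit 280042032717) (nat_lit 380) (nat_lit 17593557621) (nat_lit 76) (nat_lit 17579182456) (nat_lit 266) (nat_lit 5) (nat_lit 271) (nat_lit 5) (nat_lit 267) (nat_lit 5) (nat_lit 438) (nat_lit 419) (nat_lit 163)) (XT.lf (nat_lit 0) (nat_lit 13016592930) (nat_lit 380) (nat_lit 155559680132) (nat_lit 76) (nat_lit 155544856667)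 (nat_lit 261) (nat_lit 5) (nat_lit 266) (nat_lit 5) (nat_lit 262) (nat_lit 5) (nat_lit 439) (nat_lit 419) (nat_lit 162))) (XT.nd (nat_lit 78) (nat_lit 0) (nat_lit 0) (XT.lf (nat_lit 0) (nat_lit 31607185861) (nat_lit 304) (nat_lit 31622436279) (nat_lit 380) (nat_lit 270174539043) (nat_lit 257) (nat_lit 5) (nat_lit 261) (nat_lit 5) (nat_lit 262) (nat_lit 5) (nat_lit 440) (nat_lit 419) (nat_lit 161)) (XT.lf (nat_lit 0) (nat_lit 120382348364) (nat_lit 380) (nat_lit 111281227517) (nat_lit 76) (nat_lit 111266316051) (nat_lit 257) (nat_lit 5) (nat_lit 262) (nat_lit 5) (nat_lit 258) (nat_lit 5) (nat_lit 441) (nat_lit 419) (nat_lit 160)))) (XT.nd (nat_lit 156) (nat_lit 608) (nat_lit 0) (XT.nd (nat_lit 78) (nat_lit 0) (nat_lit 0) (XT.lf (nat_lit 0) (nat_lit 91159519062) (nat_lit 304) (nat_lit 91174799345) (nat_lit 380) (nat_lit 170500510435) (nat_lit 253) (nat_lit 5) (nat_lit 257) (nat_lit 5) (nat_lit 258)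 (nat_lit 5) (nat_lit 442) (nat_lit 419) (nat_lit 159)) (XT.lf (nat_lit 0) (nat_lit 250178936556) (nat_lit 380) (nat_lit 56465605371) (nat_lit 76) (nat_lit 56450718192) (nat_lit 253) (nat_lit 5) (nat_lit 258) (nat_lit 5) (nat_lit 254) (nat_lit 5) (nat_lit 443) (nat_lit 419) (nat_lit 158))) (XT.nd (nat_lit 78) (nat_lit 380) (nat_lit 0) (XT.lf (nat_lit 0) (nat_lit 162717842487) (nat_lit 228) (nat_lit 162733048265) (nat_lit 304) (nat_lit 48216066950) (nat_lit 250) (nat_lit 5) (nat_lit 253) (nat_lit 5) (nat_lit 254) (nat_lit 5) (nat_lit 444) (nat_lit 419) (nat_lit 157)) (XT.nd (nat_lit 78) (nat_lit 0) (nat_lit 0) (XT.lf (nat_lit 0) (nat_lit 10101083046) (nat_lit 304) (nat_lit 10116592250) (nat_lit 380) (nat_lit 364477690745) (nat_lit 245) (nat_lit 5) (nat_lit 249) (nat_lit 5) (nat_lit 250) (nat_lit 5) (nat_lit 445) (nat_lit 419) (nat_lit 156)) (XT.lf (nat_lit 0) (nat_lit 96427736941) (nat_lit 380) (nat_lit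 149762115982) (nat_lit 76) (nat_lit 149747070094) (nat_lit 245) (nat_lit 5) (nat_lit 250) (nat_lit 5) (nat_lit 246) (nat_lit 5) (nat_lit 446) (nat_lit 419) (nat_lit 155))))))))
noncomputable def xc316 : XT := (XT.nd (nat_lit 2496) (nat_lit 380) (nat_lit 0) (XT.nd (nat_lit 1248) (nat_lit 1596) (nat_lit 0) (XT.nd (nat_lit 624) (nat_lit 988) (nat_lit 0) (XT.nd (nat_lit 312) (nat_lit 380) (nat_lit 0) (XT.nd (nat_lit 156) (nat_lit 532) (nat_lit 0) (XT.nd (nat_lit 78) (nat_lit 0) (nat_lit 0) (XT.lf (nat_lit 0) (nat_lit 88994122703) (nat_lit 228) (nat_lit 89009430704) (nat_lit 304) (nat_lit 229659241846) (nat_lit 242) (nat_lit 5) (nat_lit 245) (nat_lit 5) (nat_lit 246) (nat_lit 5) (nat_lit 447) (nat_lit 419) (nat_lit 154)) (XT.lf (nat_lit 0) (nat_lit 267423033881) (nat_lit 304) (nat_lit 76189250176) (nat_lit 76) (nat_lit 76174433386) (nat_lit 242) (nat_lit 5) (nat_lit 246) (nat_lit 5) (nat_lit 243) (nat_lit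 5) (nat_lit 448) (nat_lit 419) (nat_lit 153))) (XT.nd (nat_lit 78) (nat_lit 304) (nat_lit 0) (XT.lf (nat_lit 0) (nat_lit 182805844387) (nat_lit 228) (nat_lit 182820887599) (nat_lit 304) (nat_lit 66674441575) (nat_lit 239) (nat_lit 5) (nat_lit 242) (nat_lit 5) (nat_lit 243) (nat_lit 5) (nat_lit 449) (nat_lit 419) (nat_lit 152)) (XT.lf (nat_lit 0) (nat_lit 12018671315) (nat_lit 228) (nat_lit 12033930168) (nat_lit 304) (nat_lit 421295609620) (nat_lit 235) (nat_lit 5) (nat_lit 238) (nat_lit 5) (nat_lit 239) (nat_lit 5) (nat_lit 450) (nat_lit 419) (nat_lit 151)))) (XT.nd (nat_lit 156) (nat_lit 152) (nat_lit 0) (XT.nd (nat_lit 78) (nat_lit 228) (nat_lit 0) (XT.lf (nat_lit 0) (nat_lit 123981754900) (nat_lit 304) (nat_lit 167340299720) (nat_lit 76) (nat_lit 167325571887) (nat_lit 235) (nat_lit 5) (nat_lit 239) (nat_lit 5) (nat_lit 236) (nat_lit 5) (nat_lit 451) (nat_lit 419) (nat_lit 150)) (XT.lf (nat_lit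 0) (nat_lit 115446064971) (nat_lit 228) (nat_lit 115460979081) (nat_lit 304) (nat_lit 241604984726) (nat_lit 232) (nat_lit 5) (nat_lit 235) (nat_lit 5) (nat_lit 236) (nat_lit 5) (nat_lit 452) (nat_lit 419) (nat_lit 149))) (XT.nd (nat_lit 78) (nat_lit 152) (nat_lit 0) (XT.lf (nat_lit 0) (nat_lit 347139308927) (nat_lit 304) (nat_lit 69873339773) (nat_lit 76) (nat_lit 69858966899) (nat_lit 232) (nat_lit 5) (nat_lit 236) (nat_lit 5) (nat_lit 233) (nat_lit 5) (nat_lit 453) (nat_lit 419) (nat_lit 148)) (XT.lf (nat_lit 0) (nat_lit 237383824572) (nat_lit 152) (nat_lit 237398358360) (nat_lit 228) (nat_lit 26887049035) (nat_lit 230) (nat_lit 5) (nat_lit 232) (nat_lit 5) (nat_lit 233) (nat_lit 5) (nat_lit 454) (nat_lit 419) (nat_lit 147))))) (XT.nd (nat_lit 312) (nat_lit 532) (nat_lit 0) (XT.nd (nat_lit 156) (nat_lit 152) (nat_lit 0) (XT.nd (nat_lit 78) (nat_lit 0) (nat_lit 0) (XT.lf (nat_lit 0) (nat_lit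 45281838983) (nat_lit 228) (nat_lit 45296526023) (nat_lit 304) (nat_lit 426461373112) (nat_lit 226) (nat_lit 5) (nat_lit 229) (nat_lit 5) (nat_lit 230) (nat_lit 5) (nat_lit 455) (nat_lit 419) (nat_lit 146)) (XT.lf (nat_lit 0) (nat_lit 220004615211) (nat_lit 304) (nat_lit 156408342564) (nat_lit 76) (nat_lit 156394215904) (nat_lit 226) (nat_lit 5) (nat_lit 230) (nat_lit 5) (nat_lit 227) (nat_lit 5) (nat_lit 456) (nat_lit 419) (nat_lit 145))) (XT.nd (nat_lit 78) (nat_lit 0) (nat_lit 0) (XT.lf (nat_lit 0) (nat_lit 179718178905) (nat_lit 152) (nat_lit 179732437949) (nat_lit 228) (nat_lit 189734942219) (nat_lit 224) (nat_lit 5) (nat_lit 226) (nat_lit 5) (nat_lit 227) (nat_lit 5) (nat_lit 457) (nat_lit 419) (nat_lit 144)) (XT.lf (nat_lit 0) (nat_lit 508979305997) (nat_lit 228) (nat_lit 28630869243) (nat_lit 76) (nat_lit 28617169125) (nat_lit 224) (nat_lit 5) (nat_lit 227) (nat_lit 5) (nat_lit 225) (nat_lit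 5) (nat_lit 458) (nat_lit 419) (nat_lit 143)))) (XT.nd (nat_lit 156) (nat_lit 152) (nat_lit 0) (XT.nd (nat_lit 78) (nat_lit 152) (nat_lit 0) (XT.lf (nat_lit 0) (nat_lit 87586978660) (nat_lit 228) (nat_lit 248033476966) (nat_lit 76) (nat_lit 248019662490) (nat_lit 221) (nat_lit 5) (nat_lit 224) (nat_lit 5) (nat_lit 222) (nat_lit 5) (nat_lit 459) (nat_lit 419) (nat_lit 142)) (XT.lf (nat_lit 0) (nat_lit 120046486378) (nat_lit 152) (nat_lit 120060409768) (nat_lit 228) (nat_lit 361651356833) (nat_lit 219) (nat_lit 5) (nat_lit 221) (nat_lit 5) (nat_lit 222) (nat_lit 5) (nat_lit 460) (nat_lit 419) (nat_lit 141))) (XT.nd (nat_lit 78) (nat_lit 152) (nat_lit 0) (XT.lf (nat_lit 0) (nat_lit 406181500899) (nat_lit 228) (nat_lit 107158859136) (nat_lit 76) (nat_lit 107145499978) (nat_lit 219) (nat_lit 5) (nat_lit 222) (nat_lit 5) (nat_lit 220) (nat_lit 5) (nat_lit 461) (nat_lit 419) (nat_lit 140)) (XT.lf (nat_lit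 0) (nat_lit 293548839218) (nat_lit 152) (nat_lit 293562292459) (nat_lit 228) (nat_lit 52711150936) (nat_lit 217) (nat_lit 5) (nat_lit 219) (nat_lit 5) (nat_lit 220) (nat_lit 5) (nat_lit 462) (nat_lit 419) (nat_lit 139)))))) (XT.nd (nat_lit 624) (nat_lit 760) (nat_lit 0) (XT.nd (nat_lit 312) (nat_lit 456) (nat_lit 0) (XT.nd (nat_lit 156) (nat_lit 152) (nat_lit 0) (XT.nd (nat_lit 78) (nat_lit 0) (nat_lit 0) (XT.lf (nat_lit 0) (nat_lit 57977182948) (nat_lit 152) (nat_lit 57990725792) (nat_lit 228) (nat_lit 543928827767) (nat_lit 214) (nat_lit 5) (nat_lit 216) (nat_lit 5) (nat_lit 217) (nat_lit 5) (nat_lit 463) (nat_lit 419) (nat_lit 138)) (XT.lf (nat_lit 0) (nat_lit 300226329542) (nat_lit 228) (nat_lit 190136257244) (nat_lit 76) (nat_lit 190123278025) (nat_lit 214) (nat_lit 5) (nat_lit 217) (nat_lit 5) (nat_lit 215) (nat_lit 5) (nat_lit 464) (nat_lit 419) (nat_lit 137))) (XT.nd (nat_lit 78) (nat_lit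 0) (nat_lit 0) (XT.lf (nat_lit 0) (nat_lit 249263478945) (nat_lit 152) (nat_lit 249276535567) (nat_lit 228) (nat_lit 203322317861) (nat_lit 212) (nat_lit 5) (nat_lit 214) (nat_lit 5) (nat_lit 215) (nat_lit 5) (nat_lit 465) (nat_lit 419) (nat_lit 136)) (XT.lf (nat_lit 0) (nat_lit 710102520247) (nat_lit 228) (nat_lit 7025475663) (nat_lit 76) (nat_lit 7012970579) (nat_lit 212) (nat_lit 5) (nat_lit 215) (nat_lit 5) (nat_lit 213) (nat_lit 4) (nat_lit 466) (nat_lit 419) (nat_lit 135)))) (XT.nd (nat_lit 156) (nat_lit 152) (nat_lit 0) (XT.nd (nat_lit 78) (nat_lit 152) (nat_lit 0) (XT.lf (nat_lit 0) (nat_lit 190438766530) (nat_lit 152) (nat_lit 278190547770) (nat_lit 76) (nat_lit 278177975823) (nat_lit 210) (nat_lit 5) (nat_lit 212) (nat_lit 5) (nat_lit 211) (nat_lit 5) (nat_lit 467) (nat_lit 419) (nat_lit 134)) (XT.lf (nat_lit 0) (nat_lit 203980516956) (nat_lit 152) (nat_lit 203993152581) (nat_lit 228)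 (nat_lit 362456472808) (nat_lit 208) (nat_lit 5) (nat_lit 210) (nat_lit 5) (nat_lit 211) (nat_lit 5) (nat_lit 468) (nat_lit 419) (nat_lit 133))) (XT.nd (nat_lit 78) (nat_lit 152) (nat_lit 0) (XT.lf (nat_lit 0) (nat_lit 642327212248) (nat_lit 228) (nat_lit 76310960945) (nat_lit 76) (nat_lit 76298869257) (nat_lit 208) (nat_lit 5) (nat_lit 211) (nat_lit 5) (nat_lit 209) (nat_lit 4) (nat_lit 469) (nat_lit 419) (nat_lit 132)) (XT.lf (nat_lit 0) (nat_lit 76091328582) (nat_lit 152) (nat_lit 372005368303) (nat_lit 76) (nat_lit 371993221606) (nat_lit 206) (nat_lit 5) (nat_lit 208) (nat_lit 5) (nat_lit 207) (nat_lit 5) (nat_lit 470) (nat_lit 419) (nat_lit 131))))) (XT.nd (nat_lit 312) (nat_lit 304) (nat_lit 0) (XT.nd (nat_lit 156) (nat_lit 304) (nat_lit 0) (XT.nd (nat_lit 78) (nat_lit 0) (nat_lit 0) (XT.lf (nat_lit 0) (nat_lit 157429045081) (nat_lit 152) (nat_lit 157441244167) (nat_lit 228) (nat_lit 531316487312)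 (nat_lit 204) (nat_lit 5) (nat_lit 206) (nat_lit 5) (nat_lit 207) (nat_lit 5) (nat_lit 471) (nat_lit 419) (nat_lit 130)) (XT.lf (nat_lit 0) (nat_lit 574298290682) (nat_lit 228) (nat_lit 149433173954) (nat_lit 76) (nat_lit 149421508259) (nat_lit 204) (nat_lit 5) (nat_lit 207) (nat_lit 5) (nat_lit 205) (nat_lit 4) (nat_lit 472) (nat_lit 419) (nat_lit 129))) (XT.nd (nat_lit 78) (nat_lit 228) (nat_lit 0) (XT.lf (nat_lit 0) (nat_lit 427974421826) (nat_lit 76) (nat_lit 427986132776) (nat_lit 152) (nat_lit 45043781326) (nat_lit 203) (nat_lit 5) (nat_lit 204) (nat_lit 5) (nat_lit 205) (nat_lit 4) (nat_lit 473) (nat_lit 419) (nat_lit 128)) (XT.lf (nat_lit 0) (nat_lit 109318418937) (nat_lit 152) (nat_lit 109330172988) (nat_lit 228) (nat_lit 711212848667) (nat_lit 200) (nat_lit 5) (nat_lit 202) (nat_lit 5) (nat_lit 203) (nat_lit 5) (nat_lit 474) (nat_lit 419) (nat_lit 127)))) (XT.nd (nat_lit 156) (nat_lit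 228) (nat_lit 0) (XT.nd (nat_lit 78) (nat_lit 76) (nat_lit 0) (XT.lf (nat_lit 0) (nat_lit 505671031905) (nat_lit 228) (nat_lit 226940860078) (nat_lit 76) (nat_lit 226929626650) (nat_lit 200) (nat_lit 5) (nat_lit 203) (nat_lit 5) (nat_lit 201) (nat_lit 4) (nat_lit 475) (nat_lit 419) (nat_lit 126)) (XT.lf (nat_lit 0) (nat_lit 407594647698) (nat_lit 76) (nat_lit 407605918357) (nat_lit 152) (nat_lit 175097235912) (nat_lit 199) (nat_lit 5) (nat_lit 200) (nat_lit 5) (nat_lit 201) (nat_lit 4) (nat_lit 476) (nat_lit 419) (nat_lit 125))) (XT.nd (nat_lit 78) (nat_lit 0) (nat_lit 0) (XT.lf (nat_lit 0) (nat_lit 59335852360) (nat_lit 152) (nat_lit 59347158479) (nat_lit 228) (nat_lit 903575437013) (nat_lit 196) (nat_lit 5) (nat_lit 198) (nat_lit 5) (nat_lit 199) (nat_lit 5) (nat_lit 477) (nat_lit 419) (nat_lit 124)) (XT.lf (nat_lit 0) (nat_lit 436080555110) (nat_lit 228) (nat_lit 309431606733) (nat_lit 76) (nat_lit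 309420806839) (nat_lit 196) (nat_lit 5) (nat_lit 199) (nat_lit 5) (nat_lit 197) (nat_lit 4) (nat_lit 478) (nat_lit 419) (nat_lit 123))))))) (XT.nd (nat_lit 49452) (nat_lit 0) (nat_lit 4104) (XT.nd (nat_lit 48828) (nat_lit 0) (nat_lit 7296) (XT.nd (nat_lit 48516) (nat_lit 0) (nat_lit 7676) (XT.nd (nat_lit 156) (nat_lit 76) (nat_lit 0) (XT.nd (nat_lit 78) (nat_lit 228) (nat_lit 0) (XT.lf (nat_lit 0) (nat_lit 388185346053) (nat_lit 76) (nat_lit 388196176578) (nat_lit 152) (nat_lit 312508015621) (nat_lit 195) (nat_lit 5) (nat_lit 196) (nat_lit 5) (nat_lit 197) (nat_lit 4) (nat_lit 479) (nat_lit 419) (nat_lit 122)) (XT.lf (nat_lit 0) (nat_lit 7143783518) (nat_lit 152) (nat_lit 7154643215) (nat_lit 228) (nat_lit 1109966474051) (nat_lit 192) (nat_lit 5) (nat_lit 194) (nat_lit 5) (nat_lit 195) (nat_lit 5) (nat_lit 480) (nat_lit 419) (nat_lit 121))) (XT.nd (nat_lit 78) (nat_lit 76) (nat_lit 0) (XT.lf (nat_lit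 0) (nat_lit 365139033598) (nat_lit 228) (nat_lit 397557202357) (nat_lit 76) (nat_lit 397546833328) (nat_lit 192) (nat_lit 5) (nat_lit 195) (nat_lit 5) (nat_lit 193) (nat_lit 4) (nat_lit 481) (nat_lit 419) (nat_lit 120)) (XT.lf (nat_lit 0) (nat_lit 369700302666) (nat_lit 76) (nat_lit 369710696894) (nat_lit 152) (nat_lit 458314680210) (nat_lit 191) (nat_lit 5) (nat_lit 192) (nat_lit 5) (nat_lit 193) (nat_lit 4) (nat_lit 482) (nat_lit 419) (nat_lit 119)))) (XT.nd (nat_lit 156) (nat_lit 0) (nat_lit 76) (XT.nd (nat_lit 78) (nat_lit 0) (nat_lit 0) (XT.lf (nat_lit 0) (nat_lit 47272971547) (nat_lit 836) (nat_lit 26637137839) (nat_lit 836) (nat_lit 26637137839) (nat_lit 292) (nat_lit 3) (nat_lit 303) (nat_lit 3) (nat_lit 303) (nat_lit 5) (nat_lit 420) (nat_lit 420) (nat_lit 180)) (XT.lf (nat_lit 76) (nat_lit 48836029477) (nat_lit 0) (nat_lit 48837623485) (nat_lit 836) (nat_lit 108410000787) (nat_lit 293)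 (nat_lit 5) (nat_lit 292) (nat_lit 3) (nat_lit 303) (nat_lit 5) (nat_lit 421) (nat_lit 420) (nat_lit 179))) (XT.nd (nat_lit 78) (nat_lit 0) (nat_lit 0) (XT.lf (nat_lit 0) (nat_lit 102734835713) (nat_lit 760) (nat_lit 54250772421) (nat_lit 836) (nat_lit 54247808506) (nat_lit 293) (nat_lit 5) (nat_lit 303) (nat_lit 5) (nat_lit 304) (nat_lit 5) (nat_lit 422) (nat_lit 420) (nat_lit 178)) (XT.lf (nat_lit 76) (nat_lit 54850815579) (nat_lit 0) (nat_lit 54855156458) (nat_lit 836) (nat_lit 106851850918) (nat_lit 294) (nat_lit 5) (nat_lit 293) (nat_lit 5) (nat_lit 304) (nat_lit 5) (nat_lit 423) (nat_lit 420) (nat_lit 177))))) (XT.nd (nat_lit 312) (nat_lit 532) (nat_lit 0) (XT.nd (nat_lit 156) (nat_lit 0) (nat_lit 76) (XT.nd (nat_lit 78) (nat_lit 0) (nat_lit 0) (XT.lf (nat_lit 0) (nat_lit 118777223934) (nat_lit 760) (nat_lit 51644515416) (nat_lit 836) (nat_lit 51639132298) (nat_lit 294) (nat_lit 5) (nat_lit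 304) (nat_lit 5) (nat_lit 305) (nat_lit 5) (nat_lit 424) (nat_lit 420) (nat_lit 176)) (XT.lf (nat_lit 76) (nat_lit 65105561200) (nat_lit 0) (nat_lit 65112133791) (nat_lit 836) (nat_lit 97525594957) (nat_lit 295) (nat_lit 5) (nat_lit 294) (nat_lit 5) (nat_lit 305) (nat_lit 5) (nat_lit 425) (nat_lit 420) (nat_lit 175))) (XT.nd (nat_lit 78) (nat_lit 0) (nat_lit 0) (XT.lf (nat_lit 0) (nat_lit 143828871816) (nat_lit 760) (nat_lit 44904180866) (nat_lit 836) (nat_lit 44896842369) (nat_lit 295) (nat_lit 5) (nat_lit 305) (nat_lit 5) (nat_lit 306) (nat_lit 5) (nat_lit 426) (nat_lit 420) (nat_lit 174)) (XT.lf (nat_lit 76) (nat_lit 80215984510) (nat_lit 0) (nat_lit 80224350519) (nat_lit 836) (nat_lit 79254509004) (nat_lit 296) (nat_lit 5) (nat_lit 295) (nat_lit 5) (nat_lit 306) (nat_lit 5) (nat_lit 427) (nat_lit 420) (nat_lit 173)))) (XT.nd (nat_lit 156) (nat_lit 684) (nat_lit 0) (XT.nd (nat_lit 78) (nat_lit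 0) (nat_lit 0) (XT.lf (nat_lit 0) (nat_lit 179181538868) (nat_lit 760) (nat_lit 33412721416) (nat_lit 836) (nat_lit 33403821805) (nat_lit 296) (nat_lit 5) (nat_lit 306) (nat_lit 5) (nat_lit 307) (nat_lit 5) (nat_lit 428) (nat_lit 420) (nat_lit 172)) (XT.lf (nat_lit 76) (nat_lit 100869979066) (nat_lit 0) (nat_lit 100879766280) (nat_lit 836) (nat_lit 50722239581) (nat_lit 297) (nat_lit 5) (nat_lit 296) (nat_lit 5) (nat_lit 307) (nat_lit 5) (nat_lit 429) (nat_lit 420) (nat_lit 171))) (XT.nd (nat_lit 78) (nat_lit 760) (nat_lit 0) (XT.lf (nat_lit 0) (nat_lit 226277797309) (nat_lit 760) (nat_lit 16480170039) (nat_lit 76) (nat_lit 16470043800) (nat_lit 297) (nat_lit 5) (nat_lit 307) (nat_lit 5) (nat_lit 298) (nat_lit 5) (nat_lit 430) (nat_lit 420) (nat_lit 170)) (XT.lf (nat_lit 0) (nat_lit 127835463828) (nat_lit 760) (nat_lit 127846356811) (nat_lit 836) (nat_lit 10457539603) (nat_lit 287) (nat_lit 5)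 (nat_lit 297) (nat_lit 5) (nat_lit 298) (nat_lit 5) (nat_lit 431) (nat_lit 420) (nat_lit 169)))))) (XT.nd (nat_lit 624) (nat_lit 1596) (nat_lit 0) (XT.nd (nat_lit 312) (nat_lit 684) (nat_lit 0) (XT.nd (nat_lit 156) (nat_lit 380) (nat_lit 0) (XT.nd (nat_lit 78) (nat_lit 0) (nat_lit 0) (XT.lf (nat_lit 0) (nat_lit 6556461821) (nat_lit 456) (nat_lit 6568085039) (nat_lit 532) (nat_lit 260242158223) (nat_lit 280) (nat_lit 5) (nat_lit 286) (nat_lit 5) (nat_lit 287) (nat_lit 5) (nat_lit 432) (nat_lit 420) (nat_lit 168)) (XT.lf (nat_lit 0) (nat_lit 41800494527) (nat_lit 532) (nat_lit 119472386510) (nat_lit 76) (nat_lit 119460654436) (nat_lit 280) (nat_lit 5) (nat_lit 287) (nat_lit 5) (nat_lit 281) (nat_lit 5) (nat_lit 433) (nat_lit 420) (nat_lit 167))) (XT.nd (nat_lit 78) (nat_lit 0) (nat_lit 0) (XT.lf (nat_lit 0) (nat_lit 36286007661) (nat_lit 380) (nat_lit 36298370538) (nat_lit 456) (nat_lit 215850622253)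 (nat_lit 275) (nat_lit 5) (nat_lit 280) (nat_lit 5) (nat_lit 281) (nat_lit 5) (nat_lit 434) (nat_lit 420) (nat_lit 166)) (XT.lf (nat_lit 0) (nat_lit 108445931931) (nat_lit 456) (nat_lit 93955514641) (nat_lit 76) (nat_lit 93943168315) (nat_lit 275) (nat_lit 5) (nat_lit 281) (nat_lit 5) (nat_lit 276) (nat_lit 5) (nat_lit 435) (nat_lit 420) (nat_lit 165)))) (XT.nd (nat_lit 156) (nat_lit 304) (nat_lit 0) (XT.nd (nat_lit 78) (nat_lit 0) (nat_lit 0) (XT.lf (nat_lit 0) (nat_lit 73918371962) (nat_lit 380) (nat_lit 73931263199) (nat_lit 456) (nat_lit 156712621290) (nat_lit 270) (nat_lit 5) (nat_lit 275) (nat_lit 5) (nat_lit 276) (nat_lit 5) (nat_lit 436) (nat_lit 420) (nat_lit 164)) (XT.lf (nat_lit 0) (nat_lit 191792530298) (nat_lit 456) (nat_lit 60641285539) (nat_lit 76) (nat_lit 60628513920) (nat_lit 270) (nat_lit 5) (nat_lit 276) (nat_lit 5) (nat_lit 271) (nat_lit 5) (nat_lit 437) (nat_lit 420) (nat_lit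 163))) (XT.nd (nat_lit 78) (nat_lit 0) (nat_lit 0) (XT.lf (nat_lit 0) (nat_lit 120506352793) (nat_lit 304) (nat_lit 120519595127) (nat_lit 380) (nat_lit 80806789921) (nat_lit 266) (nat_lit 5) (nat_lit 270) (nat_lit 5) (nat_lit 271) (nat_lit 5) (nat_lit 438) (nat_lit 420) (nat_lit 162)) (XT.lf (nat_lit 0) (nat_lit 294045690799) (nat_lit 380) (nat_lit 18471390756) (nat_lit 76) (nat_lit 18458352057) (nat_lit 266) (nat_lit 5) (nat_lit 271) (nat_lit 5) (nat_lit 267) (nat_lit 5) (nat_lit 439) (nat_lit 420) (nat_lit 161))))) (XT.nd (nat_lit 312) (nat_lit 608) (nat_lit 0) (XT.nd (nat_lit 156) (nat_lit 304) (nat_lit 0) (XT.nd (nat_lit 78) (nat_lit 304) (nat_lit 0) (XT.lf (nat_lit 0) (nat_lit 13668958008) (nat_lit 380) (nat_lit 163335798378) (nat_lit 76) (nat_lit 163322353058) (nat_lit 261) (nat_lit 5) (nat_lit 266) (nat_lit 5) (nat_lit 262) (nat_lit 5) (nat_lit 440) (nat_lit 420) (nat_lit 160)) (XT.lf (nat_lit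 0) (nat_lit 33189380822) (nat_lit 304) (nat_lit 33203213400) (nat_lit 380) (nat_lit 283681700471) (nat_lit 257) (nat_lit 5) (nat_lit 261) (nat_lit 5) (nat_lit 262) (nat_lit 5) (nat_lit 441) (nat_lit 420) (nat_lit 159))) (XT.nd (nat_lit 78) (nat_lit 304) (nat_lit 0) (XT.lf (nat_lit 0) (nat_lit 126402890884) (nat_lit 380) (nat_lit 116843474764) (nat_lit 76) (nat_lit 116829949625) (nat_lit 257) (nat_lit 5) (nat_lit 262) (nat_lit 5) (nat_lit 258) (nat_lit 5) (nat_lit 442) (nat_lit 420) (nat_lit 158)) (XT.lf (nat_lit 0) (nat_lit 95719279883) (nat_lit 304) (nat_lit 95733139551) (nat_lit 380) (nat_lit 179024081595) (nat_lit 253) (nat_lit 5) (nat_lit 257) (nat_lit 5) (nat_lit 258) (nat_lit 5) (nat_lit 443) (nat_lit 420) (nat_lit 157)))) (XT.nd (nat_lit 156) (nat_lit 380) (nat_lit 0) (XT.nd (nat_lit 78) (nat_lit 228) (nat_lit 0) (XT.lf (nat_lit 0) (nat_lit 262689208477) (nat_lit 380) (nat_lit 59287125752)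 (nat_lit 76) (nat_lit 59273622641) (nat_lit 253) (nat_lit 5) (nat_lit 258) (nat_lit 5) (nat_lit 254) (nat_lit 5) (nat_lit 444) (nat_lit 420) (nat_lit 156)) (XT.lf (nat_lit 0) (nat_lit 170855466114) (nat_lit 228) (nat_lit 170869258203) (nat_lit 304) (nat_lit 50625516818) (nat_lit 250) (nat_lit 5) (nat_lit 253) (nat_lit 5) (nat_lit 254) (nat_lit 5) (nat_lit 445) (nat_lit 420) (nat_lit 155))) (XT.nd (nat_lit 78) (nat_lit 0) (nat_lit 0) (XT.lf (nat_lit 0) (nat_lit 10607883394) (nat_lit 304) (nat_lit 10621950700) (nat_lit 380) (nat_lit 382700236497) (nat_lit 245) (nat_lit 5) (nat_lit 249) (nat_lit 5) (nat_lit 250) (nat_lit 5) (nat_lit 446) (nat_lit 420) (nat_lit 154)) (XT.lf (nat_lit 0) (nat_lit 101250345111) (nat_lit 380) (nat_lit 157248505027) (nat_lit 76) (nat_lit 157234857963) (nat_lit 245) (nat_lit 5) (nat_lit 250) (nat_lit 5) (nat_lit 246) (nat_lit 5) (nat_lit 447) (nat_lit 420) (nat_lit 153))))))))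
noncomputable def xc317 : XT := (XT.nd (nat_lit 1248) (nat_lit 1596) (nat_lit 0) (XT.nd (nat_lit 624) (nat_lit 988) (nat_lit 0) (XT.nd (nat_lit 312) (nat_lit 380) (nat_lit 0) (XT.nd (nat_lit 156) (nat_lit 532) (nat_lit 0) (XT.nd (nat_lit 78) (nat_lit 0) (nat_lit 0) (XT.lf (nat_lit 0) (nat_lit 93445517903) (nat_lit 228) (nat_lit 93459402711) (nat_lit 304) (nat_lit 241140954925) (nat_lit 242) (nat_lit 5) (nat_lit 245) (nat_lit 5) (nat_lit 246) (nat_lit 5) (nat_lit 448) (nat_lit 420) (nat_lit 152)) (XT.lf (nat_lit 0) (nat_lit 280795325894) (nat_lit 304) (nat_lit 79997054835) (nat_lit 76) (nat_lit 79983615569) (nat_lit 242) (nat_lit 5) (nat_lit 246) (nat_lit 5) (nat_lit 243) (nat_lit 5) (nat_lit 449) (nat_lit 420) (nat_lit 151))) (XT.nd (nat_lit 78) (nat_lit 304) (nat_lit 0) (XT.lf (nat_lit 0) (nat_lit 191947767716) (nat_lit 228) (nat_lit 191961412354) (nat_lit 304) (nat_lit 70006996595) (nat_lit 239)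 (nat_lit 5) (nat_lit 242) (nat_lit 5) (nat_lit 243) (nat_lit 5) (nat_lit 450) (nat_lit 420) (nat_lit 150)) (XT.lf (nat_lit 0) (nat_lit 12621246434) (nat_lit 228) (nat_lit 12635086663) (nat_lit 304) (nat_lit 442359233484) (nat_lit 235) (nat_lit 5) (nat_lit 238) (nat_lit 5) (nat_lit 239) (nat_lit 5) (nat_lit 451) (nat_lit 420) (nat_lit 149)))) (XT.nd (nat_lit 156) (nat_lit 152) (nat_lit 0) (XT.nd (nat_lit 78) (nat_lit 228) (nat_lit 0) (XT.lf (nat_lit 0) (nat_lit 130181899760) (nat_lit 304) (nat_lit 175705706897) (nat_lit 76) (nat_lit 175692348319) (nat_lit 235) (nat_lit 5) (nat_lit 239) (nat_lit 5) (nat_lit 236) (nat_lit 5) (nat_lit 452) (nat_lit 420) (nat_lit 148)) (XT.lf (nat_lit 0) (nat_lit 121219950095) (nat_lit 228) (nat_lit 121233477633) (nat_lit 304) (nat_lit 253684150915) (nat_lit 232) (nat_lit 5) (nat_lit 235) (nat_lit 5) (nat_lit 236) (nat_lit 5) (nat_lit 453) (nat_lit 420) (nat_lit 147)))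 (XT.nd (nat_lit 78) (nat_lit 152) (nat_lit 0) (XT.lf (nat_lit 0) (nat_lit 364497264913) (nat_lit 304) (nat_lit 73365459280) (nat_lit 76) (nat_lit 73352422659) (nat_lit 232) (nat_lit 5) (nat_lit 236) (nat_lit 5) (nat_lit 233) (nat_lit 5) (nat_lit 454) (nat_lit 420) (nat_lit 146)) (XT.lf (nat_lit 0) (nat_lit 249254538324) (nat_lit 152) (nat_lit 249267720898) (nat_lit 228) (nat_lit 28230385987) (nat_lit 230) (nat_lit 5) (nat_lit 232) (nat_lit 5) (nat_lit 233) (nat_lit 5) (nat_lit 455) (nat_lit 420) (nat_lit 145))))) (XT.nd (nat_lit 312) (nat_lit 532) (nat_lit 0) (XT.nd (nat_lit 156) (nat_lit 152) (nat_lit 0) (XT.nd (nat_lit 78) (nat_lit 0) (nat_lit 0) (XT.lf (nat_lit 0) (nat_lit 47547460876) (nat_lit 228) (nat_lit 47560782454) (nat_lit 304) (nat_lit 447783433689) (nat_lit 226) (nat_lit 5) (nat_lit 229) (nat_lit 5) (nat_lit 230) (nat_lit 5) (nat_lit 456) (nat_lit 420) (nat_lit 144)) (XT.lf (nat_lit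 0) (nat_lit 231005768802) (nat_lit 304) (nat_lit 164227265358) (nat_lit 76) (nat_lit 164214452062) (nat_lit 226) (nat_lit 5) (nat_lit 230) (nat_lit 5) (nat_lit 227) (nat_lit 5) (nat_lit 457) (nat_lit 420) (nat_lit 143))) (XT.nd (nat_lit 78) (nat_lit 0) (nat_lit 0) (XT.lf (nat_lit 0) (nat_lit 188705558081) (nat_lit 152) (nat_lit 188718491455) (nat_lit 228) (nat_lit 199220742398) (nat_lit 224) (nat_lit 5) (nat_lit 226) (nat_lit 5) (nat_lit 227) (nat_lit 5) (nat_lit 458) (nat_lit 420) (nat_lit 142)) (XT.lf (nat_lit 0) (nat_lit 534429138644) (nat_lit 228) (nat_lit 30060977991) (nat_lit 76) (nat_lit 30048551580) (nat_lit 224) (nat_lit 5) (nat_lit 227) (nat_lit 5) (nat_lit 225) (nat_lit 5) (nat_lit 459) (nat_lit 420) (nat_lit 141)))) (XT.nd (nat_lit 156) (nat_lit 152) (nat_lit 0) (XT.nd (nat_lit 78) (nat_lit 152) (nat_lit 0) (XT.lf (nat_lit 0) (nat_lit 91967189579) (nat_lit 228) (nat_lit 260433710740)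 (nat_lit 76) (nat_lit 260421180603) (nat_lit 221) (nat_lit 5) (nat_lit 224) (nat_lit 5) (nat_lit 222) (nat_lit 5) (nat_lit 460) (nat_lit 420) (nat_lit 140)) (XT.lf (nat_lit 0) (nat_lit 126050227544) (nat_lit 152) (nat_lit 126062856469) (nat_lit 228) (nat_lit 379733039461) (nat_lit 219) (nat_lit 5) (nat_lit 221) (nat_lit 5) (nat_lit 222) (nat_lit 5) (nat_lit 461) (nat_lit 420) (nat_lit 139))) (XT.nd (nat_lit 78) (nat_lit 152) (nat_lit 0) (XT.lf (nat_lit 0) (nat_lit 426491387391) (nat_lit 228) (nat_lit 112515421101) (nat_lit 76) (nat_lit 112503303951) (nat_lit 219) (nat_lit 5) (nat_lit 222) (nat_lit 5) (nat_lit 220) (nat_lit 5) (nat_lit 462) (nat_lit 420) (nat_lit 138)) (XT.lf (nat_lit 0) (nat_lit 308227639897) (nat_lit 152) (nat_lit 308239842383) (nat_lit 228) (nat_lit 55345874762) (nat_lit 217) (nat_lit 5) (nat_lit 219) (nat_lit 5) (nat_lit 220) (nat_lit 5) (nat_lit 463) (nat_lit 420) (nat_lit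 137)))))) (XT.nd (nat_lit 624) (nat_lit 760) (nat_lit 0) (XT.nd (nat_lit 312) (nat_lit 456) (nat_lit 0) (XT.nd (nat_lit 156) (nat_lit 152) (nat_lit 0) (XT.nd (nat_lit 78) (nat_lit 0) (nat_lit 0) (XT.lf (nat_lit 0) (nat_lit 60877405153) (nat_lit 152) (nat_lit 60889688911) (nat_lit 228) (nat_lit 571124439774) (nat_lit 214) (nat_lit 5) (nat_lit 216) (nat_lit 5) (nat_lit 217) (nat_lit 5) (nat_lit 464) (nat_lit 420) (nat_lit 136)) (XT.lf (nat_lit 0) (nat_lit 315238406815) (nat_lit 228) (nat_lit 199641742865) (nat_lit 76) (nat_lit 199629970331) (nat_lit 214) (nat_lit 5) (nat_lit 217) (nat_lit 5) (nat_lit 215) (nat_lit 5) (nat_lit 465) (nat_lit 420) (nat_lit 135))) (XT.nd (nat_lit 78) (nat_lit 0) (nat_lit 0) (XT.lf (nat_lit 0) (nat_lit 261727958726) (nat_lit 152) (nat_lit 261739801467) (nat_lit 228) (nat_lit 213487651551) (nat_lit 212) (nat_lit 5) (nat_lit 214) (nat_lit 5) (nat_lit 215) (nat_lit 5) (nat_lit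 466) (nat_lit 420) (nat_lit 134)) (XT.lf (nat_lit 0) (nat_lit 745608364080) (nat_lit 228) (nat_lit 7375478661) (nat_lit 76) (nat_lit 7364136181) (nat_lit 212) (nat_lit 5) (nat_lit 215) (nat_lit 5) (nat_lit 213) (nat_lit 4) (nat_lit 467) (nat_lit 420) (nat_lit 133)))) (XT.nd (nat_lit 156) (nat_lit 152) (nat_lit 0) (XT.nd (nat_lit 78) (nat_lit 152) (nat_lit 0) (XT.lf (nat_lit 0) (nat_lit 199961419544) (nat_lit 152) (nat_lit 292098801239) (nat_lit 76) (nat_lit 292087398113) (nat_lit 210) (nat_lit 5) (nat_lit 212) (nat_lit 5) (nat_lit 211) (nat_lit 5) (nat_lit 468) (nat_lit 420) (nat_lit 132)) (XT.lf (nat_lit 0) (nat_lit 214180796176) (nat_lit 152) (nat_lit 214192257061) (nat_lit 228) (nat_lit 380578561215) (nat_lit 208) (nat_lit 5) (nat_lit 210) (nat_lit 5) (nat_lit 211) (nat_lit 5) (nat_lit 469) (nat_lit 420) (nat_lit 131))) (XT.nd (nat_lit 78) (nat_lit 152) (nat_lit 0) (XT.lf (nat_lit 0) (nat_lit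 674444247965) (nat_lit 228) (nat_lit 80125290185) (nat_lit 76) (nat_lit 80114322668) (nat_lit 208) (nat_lit 5) (nat_lit 211) (nat_lit 5) (nat_lit 209) (nat_lit 4) (nat_lit 470) (nat_lit 420) (nat_lit 130)) (XT.lf (nat_lit 0) (nat_lit 79896567537) (nat_lit 152) (nat_lit 390604415332) (nat_lit 76) (nat_lit 390593397920) (nat_lit 206) (nat_lit 5) (nat_lit 208) (nat_lit 5) (nat_lit 207) (nat_lit 5) (nat_lit 471) (nat_lit 420) (nat_lit 129))))) (XT.nd (nat_lit 312) (nat_lit 304) (nat_lit 0) (XT.nd (nat_lit 156) (nat_lit 304) (nat_lit 0) (XT.nd (nat_lit 78) (nat_lit 0) (nat_lit 0) (XT.lf (nat_lit 0) (nat_lit 165301699021) (nat_lit 152) (nat_lit 165312763951) (nat_lit 228) (nat_lit 557881619453) (nat_lit 204) (nat_lit 5) (nat_lit 206) (nat_lit 5) (nat_lit 207) (nat_lit 5) (nat_lit 472) (nat_lit 420) (nat_lit 128)) (XT.lf (nat_lit 0) (nat_lit 603013841151) (nat_lit 228) (nat_lit 156903664861) (nat_lit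 76) (nat_lit 156893083732) (nat_lit 204) (nat_lit 5) (nat_lit 207) (nat_lit 5) (nat_lit 205) (nat_lit 4) (nat_lit 473) (nat_lit 420) (nat_lit 127))) (XT.nd (nat_lit 78) (nat_lit 228) (nat_lit 0) (XT.lf (nat_lit 0) (nat_lit 449374291873) (nat_lit 76) (nat_lit 449384914050) (nat_lit 152) (nat_lit 47295315623) (nat_lit 203) (nat_lit 5) (nat_lit 204) (nat_lit 5) (nat_lit 205) (nat_lit 4) (nat_lit 474) (nat_lit 420) (nat_lit 126)) (XT.lf (nat_lit 0) (nat_lit 114785490927) (nat_lit 152) (nat_lit 114796152197) (nat_lit 228) (nat_lit 746772838418) (nat_lit 200) (nat_lit 5) (nat_lit 202) (nat_lit 5) (nat_lit 203) (nat_lit 5) (nat_lit 475) (nat_lit 420) (nat_lit 125)))) (XT.nd (nat_lit 156) (nat_lit 228) (nat_lit 0) (XT.nd (nat_lit 78) (nat_lit 76) (nat_lit 0) (XT.lf (nat_lit 0) (nat_lit 530955183375) (nat_lit 228) (nat_lit 238286785123) (nat_lit 76) (nat_lit 238276596073) (nat_lit 200) (nat_lit 5) (nat_lit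 203) (nat_lit 5) (nat_lit 201) (nat_lit 4) (nat_lit 476) (nat_lit 420) (nat_lit 124)) (XT.lf (nat_lit 0) (nat_lit 427975480010) (nat_lit 76) (nat_lit 427985702830) (nat_lit 152) (nat_lit 183851479801) (nat_lit 199) (nat_lit 5) (nat_lit 200) (nat_lit 5) (nat_lit 201) (nat_lit 4) (nat_lit 477) (nat_lit 420) (nat_lit 123))) (XT.nd (nat_lit 78) (nat_lit 0) (nat_lit 0) (XT.lf (nat_lit 0) (nat_lit 62303746622) (nat_lit 152) (nat_lit 62314001605) (nat_lit 228) (nat_lit 948753592675) (nat_lit 196) (nat_lit 5) (nat_lit 198) (nat_lit 5) (nat_lit 199) (nat_lit 5) (nat_lit 478) (nat_lit 420) (nat_lit 122)) (XT.lf (nat_lit 0) (nat_lit 457885149422) (nat_lit 228) (nat_lit 324902117594) (nat_lit 76) (nat_lit 324892321772) (nat_lit 196) (nat_lit 5) (nat_lit 199) (nat_lit 5) (nat_lit 197) (nat_lit 4) (nat_lit 479) (nat_lit 420) (nat_lit 121)))))))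
noncomputable def xc318 : XT := (XT.nd (nat_lit 49530) (nat_lit 0) (nat_lit 3800) (XT.nd (nat_lit 48906) (nat_lit 0) (nat_lit 6688) (XT.nd (nat_lit 48594) (nat_lit 0) (nat_lit 7600) (XT.nd (nat_lit 156) (nat_lit 0) (nat_lit 0) (XT.nd (nat_lit 78) (nat_lit 228) (nat_lit 0) (XT.lf (nat_lit 0) (nat_lit 407595665581) (nat_lit 76) (nat_lit 407605489186) (nat_lit 152) (nat_lit 328132832596) (nat_lit 195) (nat_lit 5) (nat_lit 196) (nat_lit 5) (nat_lit 197) (nat_lit 4) (nat_lit 480) (nat_lit 420) (nat_lit 120)) (XT.lf (nat_lit 0) (nat_lit 7502026332) (nat_lit 152) (nat_lit 7511876397) (nat_lit 228) (nat_lit 1165464215360) (nat_lit 192) (nat_lit 5) (nat_lit 194) (nat_lit 5) (nat_lit 195) (nat_lit 5) (nat_lit 481) (nat_lit 420) (nat_lit 119))) (XT.nd (nat_lit 48360) (nat_lit 0) (nat_lit 7600) (XT.lf (nat_lit 0) (nat_lit 383396520945) (nat_lit 228) (nat_lit 417434040017) (nat_lit 76) (nat_lit 417424635002)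 (nat_lit 192) (nat_lit 5) (nat_lit 195) (nat_lit 5) (nat_lit 193) (nat_lit 4) (nat_lit 482) (nat_lit 420) (nat_lit 118)) (XT.lf (nat_lit 0) (nat_lit 49638189245) (nat_lit 836) (nat_lit 27968170943) (nat_lit 836) (nat_lit 27968170943) (nat_lit 292) (nat_lit 3) (nat_lit 303) (nat_lit 3) (nat_lit 303) (nat_lit 5) (nat_lit 421) (nat_lit 421) (nat_lit 178)))) (XT.nd (nat_lit 156) (nat_lit 0) (nat_lit 76) (XT.nd (nat_lit 78) (nat_lit 0) (nat_lit 76) (XT.lf (nat_lit 76) (nat_lit 51279451954) (nat_lit 0) (nat_lit 51280897766) (nat_lit 836) (nat_lit 113827336010) (nat_lit 293) (nat_lit 5) (nat_lit 292) (nat_lit 3) (nat_lit 303) (nat_lit 5) (nat_lit 422) (nat_lit 421) (nat_lit 177)) (XT.lf (nat_lit 0) (nat_lit 107874427365) (nat_lit 760) (nat_lit 56961602986) (nat_lit 836) (nat_lit 56958914628) (nat_lit 293) (nat_lit 5) (nat_lit 303) (nat_lit 5) (nat_lit 304) (nat_lit 5) (nat_lit 423) (nat_lit 421) (nat_lit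 176))) (XT.nd (nat_lit 78) (nat_lit 0) (nat_lit 76) (XT.lf (nat_lit 76) (nat_lit 57595036865) (nat_lit 0) (nat_lit 57598974170) (nat_lit 836) (nat_lit 112191566048) (nat_lit 294) (nat_lit 5) (nat_lit 293) (nat_lit 5) (nat_lit 304) (nat_lit 5) (nat_lit 424) (nat_lit 421) (nat_lit 175)) (XT.lf (nat_lit 0) (nat_lit 124718679272) (nat_lit 760) (nat_lit 54224994449) (nat_lit 836) (nat_lit 54220111803) (nat_lit 294) (nat_lit 5) (nat_lit 304) (nat_lit 5) (nat_lit 305) (nat_lit 5) (nat_lit 425) (nat_lit 421) (nat_lit 174))))) (XT.nd (nat_lit 312) (nat_lit 1064) (nat_lit 0) (XT.nd (nat_lit 156) (nat_lit 0) (nat_lit 76) (XT.nd (nat_lit 78) (nat_lit 0) (nat_lit 76) (XT.lf (nat_lit 76) (nat_lit 68362557825) (nat_lit 0) (nat_lit 68368519358) (nat_lit 836) (nat_lit 102399252390) (nat_lit 295) (nat_lit 5) (nat_lit 294) (nat_lit 5) (nat_lit 305) (nat_lit 5) (nat_lit 426) (nat_lit 421) (nat_lit 173)) (XT.lf (nat_lit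 0) (nat_lit 151022682342) (nat_lit 760) (nat_lit 47147622674) (nat_lit 836) (nat_lit 47140966441) (nat_lit 295) (nat_lit 5) (nat_lit 305) (nat_lit 5) (nat_lit 306) (nat_lit 5) (nat_lit 427) (nat_lit 421) (nat_lit 172))) (XT.nd (nat_lit 78) (nat_lit 0) (nat_lit 76) (XT.lf (nat_lit 76) (nat_lit 84228522467) (nat_lit 0) (nat_lit 84236110683) (nat_lit 836) (nat_lit 83214839015) (nat_lit 296) (nat_lit 5) (nat_lit 295) (nat_lit 5) (nat_lit 306) (nat_lit 5) (nat_lit 428) (nat_lit 421) (nat_lit 171)) (XT.lf (nat_lit 0) (nat_lit 188142780476) (nat_lit 760) (nat_lit 35081584847) (nat_lit 836) (nat_lit 35073512637) (nat_lit 296) (nat_lit 5) (nat_lit 306) (nat_lit 5) (nat_lit 307) (nat_lit 5) (nat_lit 429) (nat_lit 421) (nat_lit 170)))) (XT.nd (nat_lit 156) (nat_lit 1216) (nat_lit 0) (XT.nd (nat_lit 78) (nat_lit 0) (nat_lit 76) (XT.lf (nat_lit 76) (nat_lit 105915222068) (nat_lit 0) (nat_lit 105924099360) (nat_lit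 836) (nat_lit 53256158305) (nat_lit 297) (nat_lit 5) (nat_lit 296) (nat_lit 5) (nat_lit 307) (nat_lit 5) (nat_lit 430) (nat_lit 421) (nat_lit 169)) (XT.lf (nat_lit 0) (nat_lit 237593671396) (nat_lit 760) (nat_lit 17302412948) (nat_lit 76) (nat_lit 17293228151) (nat_lit 297) (nat_lit 5) (nat_lit 307) (nat_lit 5) (nat_lit 298) (nat_lit 5) (nat_lit 431) (nat_lit 421) (nat_lit 168))) (XT.nd (nat_lit 78) (nat_lit 532) (nat_lit 0) (XT.lf (nat_lit 0) (nat_lit 134228974135) (nat_lit 760) (nat_lit 134238854392) (nat_lit 836) (nat_lit 10978403885) (nat_lit 287) (nat_lit 5) (nat_lit 297) (nat_lit 5) (nat_lit 298) (nat_lit 5) (nat_lit 432) (nat_lit 421) (nat_lit 167)) (XT.lf (nat_lit 0) (nat_lit 6886057390) (nat_lit 456) (nat_lit 6896599991) (nat_lit 532) (nat_lit 273252288798) (nat_lit 280) (nat_lit 5) (nat_lit 286) (nat_lit 5) (nat_lit 287) (nat_lit 5) (nat_lit 433) (nat_lit 421) (nat_lit 166)))))) (XT.nd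 (nat_lit 624) (nat_lit 1444) (nat_lit 0) (XT.nd (nat_lit 312) (nat_lit 684) (nat_lit 0) (XT.nd (nat_lit 156) (nat_lit 380) (nat_lit 0) (XT.nd (nat_lit 78) (nat_lit 380) (nat_lit 0) (XT.lf (nat_lit 0) (nat_lit 43892311110) (nat_lit 532) (nat_lit 125444226441) (nat_lit 76) (nat_lit 125433585104) (nat_lit 280) (nat_lit 5) (nat_lit 287) (nat_lit 5) (nat_lit 281) (nat_lit 5) (nat_lit 434) (nat_lit 421) (nat_lit 165)) (XT.lf (nat_lit 0) (nat_lit 38102058740) (nat_lit 380) (nat_lit 38113272234) (nat_lit 456) (nat_lit 226641332809) (nat_lit 275) (nat_lit 5) (nat_lit 280) (nat_lit 5) (nat_lit 281) (nat_lit 5) (nat_lit 435) (nat_lit 421) (nat_lit 164))) (XT.nd (nat_lit 78) (nat_lit 380) (nat_lit 0) (XT.lf (nat_lit 0) (nat_lit 113869880076) (nat_lit 456) (nat_lit 98651540729) (nat_lit 76) (nat_lit 98640342248) (nat_lit 275) (nat_lit 5) (nat_lit 281) (nat_lit 5) (nat_lit 276) (nat_lit 5) (nat_lit 436) (nat_lit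 421) (nat_lit 163)) (XT.lf (nat_lit 0) (nat_lit 77616011984) (nat_lit 380) (nat_lit 77627704715) (nat_lit 456) (nat_lit 164546572586) (nat_lit 270) (nat_lit 5) (nat_lit 275) (nat_lit 5) (nat_lit 276) (nat_lit 5) (nat_lit 437) (nat_lit 421) (nat_lit 162)))) (XT.nd (nat_lit 156) (nat_lit 380) (nat_lit 0) (XT.nd (nat_lit 78) (nat_lit 304) (nat_lit 0) (XT.lf (nat_lit 0) (nat_lit 201383682221) (nat_lit 456) (nat_lit 63671635994) (nat_lit 76) (nat_lit 63660051759) (nat_lit 270) (nat_lit 5) (nat_lit 276) (nat_lit 5) (nat_lit 271) (nat_lit 5) (nat_lit 438) (nat_lit 421) (nat_lit 161)) (XT.lf (nat_lit 0) (nat_lit 126533356613) (nat_lit 304) (nat_lit 126545367800) (nat_lit 380) (nat_lit 84845576366) (nat_lit 266) (nat_lit 5) (nat_lit 270) (nat_lit 5) (nat_lit 271) (nat_lit 5) (nat_lit 439) (nat_lit 421) (nat_lit 160))) (XT.nd (nat_lit 78) (nat_lit 380) (nat_lit 0) (XT.lf (nat_lit 0) (nat_lit 308749387081)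 (nat_lit 380) (nat_lit 19393287055) (nat_lit 76) (nat_lit 19381460570) (nat_lit 266) (nat_lit 5) (nat_lit 271) (nat_lit 5) (nat_lit 267) (nat_lit 5) (nat_lit 440) (nat_lit 421) (nat_lit 159)) (XT.lf (nat_lit 0) (nat_lit 14353798590) (nat_lit 380) (nat_lit 171500895997) (nat_lit 76) (nat_lit 171488700695) (nat_lit 261) (nat_lit 5) (nat_lit 266) (nat_lit 5) (nat_lit 262) (nat_lit 5) (nat_lit 441) (nat_lit 421) (nat_lit 158))))) (XT.nd (nat_lit 312) (nat_lit 836) (nat_lit 0) (XT.nd (nat_lit 156) (nat_lit 304) (nat_lit 0) (XT.nd (nat_lit 78) (nat_lit 0) (nat_lit 0) (XT.lf (nat_lit 0) (nat_lit 34850514868) (nat_lit 304) (nat_lit 34863061424) (nat_lit 380) (nat_lit 297864365518) (nat_lit 257) (nat_lit 5) (nat_lit 261) (nat_lit 5) (nat_lit 262) (nat_lit 5) (nat_lit 442) (nat_lit 421) (nat_lit 157)) (XT.lf (nat_lit 0) (nat_lit 132724328038) (nat_lit 380) (nat_lit 122684003034) (nat_lit 76) (nat_lit 122671735334)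 (nat_lit 257) (nat_lit 5) (nat_lit 262) (nat_lit 5) (nat_lit 258) (nat_lit 5) (nat_lit 443) (nat_lit 421) (nat_lit 156))) (XT.nd (nat_lit 78) (nat_lit 0) (nat_lit 0) (XT.lf (nat_lit 0) (nat_lit 100506862806) (nat_lit 304) (nat_lit 100519433933) (nat_lit 380) (nat_lit 187973966525) (nat_lit 253) (nat_lit 5) (nat_lit 257) (nat_lit 5) (nat_lit 258) (nat_lit 5) (nat_lit 444) (nat_lit 421) (nat_lit 155)) (XT.lf (nat_lit 0) (nat_lit 275824870800) (nat_lit 380) (nat_lit 62249885769) (nat_lit 76) (nat_lit 62237638050) (nat_lit 253) (nat_lit 5) (nat_lit 258) (nat_lit 5) (nat_lit 254) (nat_lit 5) (nat_lit 445) (nat_lit 421) (nat_lit 154)))) (XT.nd (nat_lit 156) (nat_lit 228) (nat_lit 0) (XT.nd (nat_lit 78) (nat_lit 380) (nat_lit 0) (XT.lf (nat_lit 0) (nat_lit 179399809944) (nat_lit 228) (nat_lit 179412319775) (nat_lit 304) (nat_lit 53155565014) (nat_lit 250) (nat_lit 5) (nat_lit 253) (nat_lit 5) (nat_lit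 254) (nat_lit 5) (nat_lit 446) (nat_lit 421) (nat_lit 153)) (XT.lf (nat_lit 0) (nat_lit 11139861415) (nat_lit 304) (nat_lit 11152620877) (nat_lit 380) (nat_lit 401834034005) (nat_lit 245) (nat_lit 5) (nat_lit 249) (nat_lit 5) (nat_lit 250) (nat_lit 5) (nat_lit 447) (nat_lit 421) (nat_lit 152))) (XT.nd (nat_lit 78) (nat_lit 228) (nat_lit 0) (XT.lf (nat_lit 0) (nat_lit 106313970143) (nat_lit 380) (nat_lit 165109373132) (nat_lit 76) (nat_lit 165096994842) (nat_lit 245) (nat_lit 5) (nat_lit 250) (nat_lit 5) (nat_lit 246) (nat_lit 5) (nat_lit 448) (nat_lit 421) (nat_lit 151)) (XT.nd (nat_lit 78) (nat_lit 0) (nat_lit 0) (XT.lf (nat_lit 0) (nat_lit 98119325830) (nat_lit 228) (nat_lit 98131919759) (nat_lit 304) (nat_lit 253196869780) (nat_lit 242) (nat_lit 5) (nat_lit 245) (nat_lit 5) (nat_lit 246) (nat_lit 5) (nat_lit 449) (nat_lit 421) (nat_lit 150)) (XT.lf (nat_lit 0) (nat_lit 294836126492) (nat_lit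 304) (nat_lit 83995403859) (nat_lit 76) (nat_lit 83983214048) (nat_lit 242) (nat_lit 5) (nat_lit 246) (nat_lit 5) (nat_lit 243) (nat_lit 5) (nat_lit 450) (nat_lit 421) (nat_lit 149))))))))
noncomputable def xc319 : XT := (XT.nd (nat_lit 50856) (nat_lit 0) (nat_lit 3268) (XT.nd (nat_lit 1248) (nat_lit 1672) (nat_lit 0) (XT.nd (nat_lit 624) (nat_lit 912) (nat_lit 0) (XT.nd (nat_lit 312) (nat_lit 456) (nat_lit 0) (XT.nd (nat_lit 156) (nat_lit 228) (nat_lit 0) (XT.nd (nat_lit 78) (nat_lit 304) (nat_lit 0) (XT.lf (nat_lit 0) (nat_lit 201546635567) (nat_lit 228) (nat_lit 201559011656) (nat_lit 304) (nat_lit 73506287868) (nat_lit 239) (nat_lit 5) (nat_lit 242) (nat_lit 5) (nat_lit 243) (nat_lit 5) (nat_lit 451) (nat_lit 421) (nat_lit 148)) (XT.lf (nat_lit 0) (nat_lit 13253797692) (nat_lit 228) (nat_lit 13266351188) (nat_lit 304) (nat_lit 464476146073) (nat_lit 235) (nat_lit 5) (nat_lit 238) (nat_lit 5)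 (nat_lit 239) (nat_lit 5) (nat_lit 452) (nat_lit 421) (nat_lit 147))) (XT.nd (nat_lit 78) (nat_lit 228) (nat_lit 0) (XT.lf (nat_lit 0) (nat_lit 136691953582) (nat_lit 304) (nat_lit 184489533913) (nat_lit 76) (nat_lit 184477417289) (nat_lit 235) (nat_lit 5) (nat_lit 239) (nat_lit 5) (nat_lit 236) (nat_lit 5) (nat_lit 453) (nat_lit 421) (nat_lit 146)) (XT.lf (nat_lit 0) (nat_lit 127282382408) (nat_lit 228) (nat_lit 127294652284) (nat_lit 304) (nat_lit 266367376105) (nat_lit 232) (nat_lit 5) (nat_lit 235) (nat_lit 5) (nat_lit 236) (nat_lit 5) (nat_lit 454) (nat_lit 421) (nat_lit 145)))) (XT.nd (nat_lit 156) (nat_lit 304) (nat_lit 0) (XT.nd (nat_lit 78) (nat_lit 152) (nat_lit 0) (XT.lf (nat_lit 0) (nat_lit 382723026608) (nat_lit 304) (nat_lit 77032328632) (nat_lit 76) (nat_lit 77020504033) (nat_lit 232) (nat_lit 5) (nat_lit 236) (nat_lit 5) (nat_lit 233) (nat_lit 5) (nat_lit 455) (nat_lit 421) (nat_lit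 144)) (XT.lf (nat_lit 0) (nat_lit 261718646213) (nat_lit 152) (nat_lit 261730603196) (nat_lit 228) (nat_lit 29640984199) (nat_lit 230) (nat_lit 5) (nat_lit 232) (nat_lit 5) (nat_lit 233) (nat_lit 5) (nat_lit 456) (nat_lit 421) (nat_lit 143))) (XT.nd (nat_lit 78) (nat_lit 0) (nat_lit 0) (XT.lf (nat_lit 0) (nat_lit 49926221625) (nat_lit 228) (nat_lit 49938304688) (nat_lit 304) (nat_lit 470171691017) (nat_lit 226) (nat_lit 5) (nat_lit 229) (nat_lit 5) (nat_lit 230) (nat_lit 5) (nat_lit 457) (nat_lit 421) (nat_lit 142)) (XT.lf (nat_lit 0) (nat_lit 242556894276) (nat_lit 304) (nat_lit 172437273222) (nat_lit 76) (nat_lit 172425651184) (nat_lit 226) (nat_lit 5) (nat_lit 230) (nat_lit 5) (nat_lit 227) (nat_lit 5) (nat_lit 458) (nat_lit 421) (nat_lit 141))))) (XT.nd (nat_lit 312) (nat_lit 380) (nat_lit 0) (XT.nd (nat_lit 156) (nat_lit 380) (nat_lit 0) (XT.nd (nat_lit 78) (nat_lit 0) (nat_lit 0) (XT.lf (nat_lit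 0) (nat_lit 198142169529) (nat_lit 152) (nat_lit 198153900480) (nat_lit 228) (nat_lit 209180920623) (nat_lit 224) (nat_lit 5) (nat_lit 226) (nat_lit 5) (nat_lit 227) (nat_lit 5) (nat_lit 459) (nat_lit 421) (nat_lit 140)) (XT.lf (nat_lit 0) (nat_lit 561151382285) (nat_lit 228) (nat_lit 31562725563) (nat_lit 76) (nat_lit 31551454442) (nat_lit 224) (nat_lit 5) (nat_lit 227) (nat_lit 5) (nat_lit 225) (nat_lit 5) (nat_lit 460) (nat_lit 421) (nat_lit 139))) (XT.nd (nat_lit 78) (nat_lit 152) (nat_lit 0) (XT.lf (nat_lit 0) (nat_lit 96566330905) (nat_lit 228) (nat_lit 273454090088) (nat_lit 76) (nat_lit 273442724883) (nat_lit 221) (nat_lit 5) (nat_lit 224) (nat_lit 5) (nat_lit 222) (nat_lit 5) (nat_lit 461) (nat_lit 421) (nat_lit 138)) (XT.lf (nat_lit 0) (nat_lit 132354024044) (nat_lit 152) (nat_lit 132365478851) (nat_lit 228) (nat_lit 398718888519) (nat_lit 219) (nat_lit 5) (nat_lit 221) (nat_lit 5) (nat_lit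 222) (nat_lit 5) (nat_lit 462) (nat_lit 421) (nat_lit 137)))) (XT.nd (nat_lit 156) (nat_lit 228) (nat_lit 0) (XT.nd (nat_lit 78) (nat_lit 152) (nat_lit 0) (XT.lf (nat_lit 0) (nat_lit 447816692766) (nat_lit 228) (nat_lit 118139939555) (nat_lit 76) (nat_lit 118128948943) (nat_lit 219) (nat_lit 5) (nat_lit 222) (nat_lit 5) (nat_lit 220) (nat_lit 5) (nat_lit 463) (nat_lit 421) (nat_lit 136)) (XT.lf (nat_lit 0) (nat_lit 323640254289) (nat_lit 152) (nat_lit 323651322304) (nat_lit 228) (nat_lit 58112412291) (nat_lit 217) (nat_lit 5) (nat_lit 219) (nat_lit 5) (nat_lit 220) (nat_lit 5) (nat_lit 464) (nat_lit 421) (nat_lit 135))) (XT.nd (nat_lit 78) (nat_lit 0) (nat_lit 0) (XT.lf (nat_lit 0) (nat_lit 63922511743) (nat_lit 152) (nat_lit 63933653475) (nat_lit 228) (nat_lit 599679909489) (nat_lit 214) (nat_lit 5) (nat_lit 216) (nat_lit 5) (nat_lit 217) (nat_lit 5) (nat_lit 465) (nat_lit 421) (nat_lit 134))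 (XT.lf (nat_lit 0) (nat_lit 331001017220) (nat_lit 228) (nat_lit 209622626162) (nat_lit 76) (nat_lit 209611948126) (nat_lit 214) (nat_lit 5) (nat_lit 217) (nat_lit 5) (nat_lit 215) (nat_lit 5) (nat_lit 466) (nat_lit 421) (nat_lit 133)))))) (XT.nd (nat_lit 624) (nat_lit 912) (nat_lit 0) (XT.nd (nat_lit 312) (nat_lit 304) (nat_lit 0) (XT.nd (nat_lit 156) (nat_lit 304) (nat_lit 0) (XT.nd (nat_lit 78) (nat_lit 0) (nat_lit 0) (XT.lf (nat_lit 0) (nat_lit 274815541092) (nat_lit 152) (nat_lit 274826282807) (nat_lit 228) (nat_lit 224161324647) (nat_lit 212) (nat_lit 5) (nat_lit 214) (nat_lit 5) (nat_lit 215) (nat_lit 5) (nat_lit 467) (nat_lit 421) (nat_lit 132)) (XT.lf (nat_lit 0) (nat_lit 782889433369) (nat_lit 228) (nat_lit 7743099954) (nat_lit 76) (nat_lit 7732811991) (nat_lit 212) (nat_lit 5) (nat_lit 215) (nat_lit 5) (nat_lit 213) (nat_lit 4) (nat_lit 468) (nat_lit 421) (nat_lit 131))) (XT.nd (nat_lit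 78) (nat_lit 152) (nat_lit 0) (XT.lf (nat_lit 0) (nat_lit 209960138763) (nat_lit 152) (nat_lit 306702585819) (nat_lit 76) (nat_lit 306692242847) (nat_lit 210) (nat_lit 5) (nat_lit 212) (nat_lit 5) (nat_lit 211) (nat_lit 5) (nat_lit 469) (nat_lit 421) (nat_lit 130)) (XT.lf (nat_lit 0) (nat_lit 224890972831) (nat_lit 152) (nat_lit 224901368191) (nat_lit 228) (nat_lit 399606822397) (nat_lit 208) (nat_lit 5) (nat_lit 210) (nat_lit 5) (nat_lit 211) (nat_lit 5) (nat_lit 470) (nat_lit 421) (nat_lit 129)))) (XT.nd (nat_lit 156) (nat_lit 152) (nat_lit 0) (XT.nd (nat_lit 78) (nat_lit 152) (nat_lit 0) (XT.lf (nat_lit 0) (nat_lit 708167072702) (nat_lit 228) (nat_lit 84130449201) (nat_lit 76) (nat_lit 84120501339) (nat_lit 208) (nat_lit 5) (nat_lit 211) (nat_lit 5) (nat_lit 209) (nat_lit 4) (nat_lit 471) (nat_lit 421) (nat_lit 128)) (XT.lf (nat_lit 0) (nat_lit 83892005914) (nat_lit 152) (nat_lit 410133528266)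 (nat_lit 76) (nat_lit 410123535149) (nat_lit 206) (nat_lit 5) (nat_lit 208) (nat_lit 5) (nat_lit 207) (nat_lit 5) (nat_lit 472) (nat_lit 421) (nat_lit 127))) (XT.nd (nat_lit 78) (nat_lit 0) (nat_lit 0) (XT.lf (nat_lit 0) (nat_lit 173567873937) (nat_lit 152) (nat_lit 173577910154) (nat_lit 228) (nat_lit 585775072557) (nat_lit 204) (nat_lit 5) (nat_lit 206) (nat_lit 5) (nat_lit 207) (nat_lit 5) (nat_lit 473) (nat_lit 421) (nat_lit 126)) (XT.lf (nat_lit 0) (nat_lit 633165110019) (nat_lit 228) (nat_lit 164747788884) (nat_lit 76) (nat_lit 164738191488) (nat_lit 204) (nat_lit 5) (nat_lit 207) (nat_lit 5) (nat_lit 205) (nat_lit 4) (nat_lit 474) (nat_lit 421) (nat_lit 125))))) (XT.nd (nat_lit 312) (nat_lit 532) (nat_lit 0) (XT.nd (nat_lit 156) (nat_lit 76) (nat_lit 0) (XT.nd (nat_lit 78) (nat_lit 228) (nat_lit 0) (XT.lf (nat_lit 0) (nat_lit 471844048603) (nat_lit 76) (nat_lit 471853683231) (nat_lit 152)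 (nat_lit 49659487509) (nat_lit 203) (nat_lit 5) (nat_lit 204) (nat_lit 5) (nat_lit 205) (nat_lit 4) (nat_lit 475) (nat_lit 421) (nat_lit 124)) (XT.lf (nat_lit 0) (nat_lit 120525809502) (nat_lit 152) (nat_lit 120535479589) (nat_lit 228) (nat_lit 784110888337) (nat_lit 200) (nat_lit 5) (nat_lit 202) (nat_lit 5) (nat_lit 203) (nat_lit 5) (nat_lit 476) (nat_lit 421) (nat_lit 123))) (XT.nd (nat_lit 78) (nat_lit 76) (nat_lit 0) (XT.lf (nat_lit 0) (nat_lit 557503486648) (nat_lit 228) (nat_lit 250200110358) (nat_lit 76) (nat_lit 250190868589) (nat_lit 200) (nat_lit 5) (nat_lit 203) (nat_lit 5) (nat_lit 201) (nat_lit 4) (nat_lit 477) (nat_lit 421) (nat_lit 122)) (XT.lf (nat_lit 0) (nat_lit 449375251676) (nat_lit 76) (nat_lit 449384524076) (nat_lit 152) (nat_lit 193043493332) (nat_lit 199) (nat_lit 5) (nat_lit 200) (nat_lit 5) (nat_lit 201) (nat_lit 4) (nat_lit 478) (nat_lit 421) (nat_lit 121)))) (XT.nd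 (nat_lit 156) (nat_lit 304) (nat_lit 0) (XT.nd (nat_lit 78) (nat_lit 0) (nat_lit 0) (XT.lf (nat_lit 0) (nat_lit 65419933177) (nat_lit 152) (nat_lit 65429234749) (nat_lit 228) (nat_lit 996190713407) (nat_lit 196) (nat_lit 5) (nat_lit 198) (nat_lit 5) (nat_lit 199) (nat_lit 5) (nat_lit 479) (nat_lit 421) (nat_lit 120)) (XT.lf (nat_lit 0) (nat_lit 480779920776) (nat_lit 228) (nat_lit 341146253428) (nat_lit 76) (nat_lit 341137368329) (nat_lit 196) (nat_lit 5) (nat_lit 199) (nat_lit 5) (nat_lit 197) (nat_lit 4) (nat_lit 480) (nat_lit 421) (nat_lit 119))) (XT.nd (nat_lit 78) (nat_lit 228) (nat_lit 0) (XT.lf (nat_lit 0) (nat_lit 427976403260) (nat_lit 76) (nat_lit 427985313559) (nat_lit 152) (nat_lit 344538944697) (nat_lit 195) (nat_lit 5) (nat_lit 196) (nat_lit 5) (nat_lit 197) (nat_lit 4) (nat_lit 481) (nat_lit 421) (nat_lit 118)) (XT.lf (nat_lit 0) (nat_lit 7878083330) (nat_lit 152) (nat_lit 7887017629)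 (nat_lit 228) (nat_lit 1223736897881) (nat_lit 192) (nat_lit 5) (nat_lit 194) (nat_lit 5) (nat_lit 195) (nat_lit 5) (nat_lit 482) (nat_lit 421) (nat_lit 117))))))) (XT.nd (nat_lit 1248) (nat_lit 3040) (nat_lit 0) (XT.nd (nat_lit 624) (nat_lit 1292) (nat_lit 0) (XT.nd (nat_lit 312) (nat_lit 0) (nat_lit 152) (XT.nd (nat_lit 156) (nat_lit 0) (nat_lit 76) (XT.nd (nat_lit 78) (nat_lit 0) (nat_lit 0) (XT.lf (nat_lit 0) (nat_lit 52121521946) (nat_lit 836) (nat_lit 29365832289) (nat_lit 836) (nat_lit 29365832289) (nat_lit 292) (nat_lit 3) (nat_lit 303) (nat_lit 3) (nat_lit 303) (nat_lit 5) (nat_lit 422) (nat_lit 422) (nat_lit 176)) (XT.lf (nat_lit 76) (nat_lit 53844894849) (nat_lit 0) (nat_lit 53846206243) (nat_lit 836) (nat_lit 119515832230) (nat_lit 293) (nat_lit 5) (nat_lit 292) (nat_lit 3) (nat_lit 303) (nat_lit 5) (nat_lit 423) (nat_lit 422) (nat_lit 175))) (XT.nd (nat_lit 78) (nat_lit 0) (nat_lit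 0) (XT.lf (nat_lit 0) (nat_lit 113270733647) (nat_lit 760) (nat_lit 59808133878) (nat_lit 836) (nat_lit 59805695458) (nat_lit 293) (nat_lit 5) (nat_lit 303) (nat_lit 5) (nat_lit 304) (nat_lit 5) (nat_lit 424) (nat_lit 422) (nat_lit 174)) (XT.lf (nat_lit 76) (nat_lit 60476312977) (nat_lit 0) (nat_lit 60479884229) (nat_lit 836) (nat_lit 117798534450) (nat_lit 294) (nat_lit 5) (nat_lit 293) (nat_lit 5) (nat_lit 304) (nat_lit 5) (nat_lit 425) (nat_lit 422) (nat_lit 173)))) (XT.nd (nat_lit 156) (nat_lit 0) (nat_lit 76) (XT.nd (nat_lit 78) (nat_lit 0) (nat_lit 0) (XT.lf (nat_lit 0) (nat_lit 130956966198) (nat_lit 760) (nat_lit 56934659829) (nat_lit 836) (nat_lit 56930231125) (nat_lit 294) (nat_lit 5) (nat_lit 304) (nat_lit 5) (nat_lit 305) (nat_lit 5) (nat_lit 426) (nat_lit 422) (nat_lit 172)) (XT.lf (nat_lit 76) (nat_lit 71782244504) (nat_lit 0) (nat_lit 71787651791) (nat_lit 836) (nat_lit 107516836493)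 (nat_lit 295) (nat_lit 5) (nat_lit 294) (nat_lit 5) (nat_lit 305) (nat_lit 5) (nat_lit 427) (nat_lit 422) (nat_lit 171))) (XT.nd (nat_lit 78) (nat_lit 0) (nat_lit 0) (XT.lf (nat_lit 0) (nat_lit 158575963339) (nat_lit 760) (nat_lit 49503400873) (nat_lit 836) (nat_lit 49497363473) (nat_lit 295) (nat_lit 5) (nat_lit 305) (nat_lit 5) (nat_lit 306) (nat_lit 5) (nat_lit 428) (nat_lit 422) (nat_lit 170)) (XT.lf (nat_lit 76) (nat_lit 88441525671) (nat_lit 0) (nat_lit 88448408407) (nat_lit 836) (nat_lit 87373408232) (nat_lit 296) (nat_lit 5) (nat_lit 295) (nat_lit 5) (nat_lit 306) (nat_lit 5) (nat_lit 429) (nat_lit 422) (nat_lit 169))))) (XT.nd (nat_lit 312) (nat_lit 912) (nat_lit 0) (XT.nd (nat_lit 156) (nat_lit 684) (nat_lit 0) (XT.nd (nat_lit 78) (nat_lit 0) (nat_lit 0) (XT.lf (nat_lit 0) (nat_lit 197551882915) (nat_lit 760) (nat_lit 36834056253) (nat_lit 836) (nat_lit 36826734521) (nat_lit 296) (nat_lit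 5) (nat_lit 306) (nat_lit 5) (nat_lit 307) (nat_lit 5) (nat_lit 430) (nat_lit 422) (nat_lit 168)) (XT.lf (nat_lit 76) (nat_lit 111212565075) (nat_lit 0) (nat_lit 111220617041) (nat_lit 836) (nat_lit 55916976872) (nat_lit 297) (nat_lit 5) (nat_lit 296) (nat_lit 5) (nat_lit 307) (nat_lit 5) (nat_lit 431) (nat_lit 422) (nat_lit 167))) (XT.nd (nat_lit 78) (nat_lit 760) (nat_lit 0) (XT.lf (nat_lit 0) (nat_lit 249475154713) (nat_lit 760) (nat_lit 18165932150) (nat_lit 76) (nat_lit 18157601269) (nat_lit 297) (nat_lit 5) (nat_lit 307) (nat_lit 5) (nat_lit 298) (nat_lit 5) (nat_lit 432) (nat_lit 422) (nat_lit 166)) (XT.lf (nat_lit 0) (nat_lit 140941998457) (nat_lit 760) (nat_lit 140950960141) (nat_lit 836) (nat_lit 11525498502) (nat_lit 287) (nat_lit 5) (nat_lit 297) (nat_lit 5) (nat_lit 298) (nat_lit 5) (nat_lit 433) (nat_lit 422) (nat_lit 165)))) (XT.nd (nat_lit 156) (nat_lit 380) (nat_lit 0) (XT.nd (nat_lit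 78) (nat_lit 0) (nat_lit 0) (XT.lf (nat_lit 0) (nat_lit 7231967949) (nat_lit 456) (nat_lit 7241530399) (nat_lit 532) (nat_lit 286913109735) (nat_lit 280) (nat_lit 5) (nat_lit 286) (nat_lit 5) (nat_lit 287) (nat_lit 5) (nat_lit 434) (nat_lit 422) (nat_lit 164)) (XT.lf (nat_lit 0) (nat_lit 46088551933) (nat_lit 532) (nat_lit 131714823799) (nat_lit 76) (nat_lit 131705171793) (nat_lit 280) (nat_lit 5) (nat_lit 287) (nat_lit 5) (nat_lit 281) (nat_lit 5) (nat_lit 435) (nat_lit 422) (nat_lit 163))) (XT.nd (nat_lit 78) (nat_lit 0) (nat_lit 0) (XT.lf (nat_lit 0) (nat_lit 40008749609) (nat_lit 380) (nat_lit 40018920578) (nat_lit 456) (nat_lit 237971748151) (nat_lit 275) (nat_lit 5) (nat_lit 280) (nat_lit 5) (nat_lit 281) (nat_lit 5) (nat_lit 436) (nat_lit 422) (nat_lit 162)) (XT.lf (nat_lit 0) (nat_lit 119564872083) (nat_lit 456) (nat_lit 103582530788) (nat_lit 76) (nat_lit 103572373435) (nat_lit 275) (nat_lit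 5) (nat_lit 281) (nat_lit 5) (nat_lit 276) (nat_lit 5) (nat_lit 437) (nat_lit 422) (nat_lit 161)))))) (XT.nd (nat_lit 624) (nat_lit 1368) (nat_lit 0) (XT.nd (nat_lit 312) (nat_lit 988) (nat_lit 0) (XT.nd (nat_lit 156) (nat_lit 304) (nat_lit 0) (XT.nd (nat_lit 78) (nat_lit 0) (nat_lit 0) (XT.lf (nat_lit 0) (nat_lit 81498373964) (nat_lit 380) (nat_lit 81508979617) (nat_lit 456) (nat_lit 172772377615) (nat_lit 270) (nat_lit 5) (nat_lit 275) (nat_lit 5) (nat_lit 276) (nat_lit 5) (nat_lit 438) (nat_lit 422) (nat_lit 160)) (XT.lf (nat_lit 0) (nat_lit 211454249923) (nat_lit 456) (nat_lit 66853663307) (nat_lit 76) (nat_lit 66843156064) (nat_lit 270) (nat_lit 5) (nat_lit 276) (nat_lit 5) (nat_lit 271) (nat_lit 5) (nat_lit 439) (nat_lit 422) (nat_lit 159))) (XT.nd (nat_lit 78) (nat_lit 0) (nat_lit 0) (XT.lf (nat_lit 0) (nat_lit 132861553858) (nat_lit 304) (nat_lit 132872448359) (nat_lit 380) (nat_lit 89086446522)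 (nat_lit 266) (nat_lit 5) (nat_lit 270) (nat_lit 5) (nat_lit 271) (nat_lit 5) (nat_lit 440) (nat_lit 422) (nat_lit 158)) (XT.lf (nat_lit 0) (nat_lit 324188136927) (nat_lit 380) (nat_lit 20361433730) (nat_lit 76) (nat_lit 20350706760) (nat_lit 266) (nat_lit 5) (nat_lit 271) (nat_lit 5) (nat_lit 267) (nat_lit 5) (nat_lit 441) (nat_lit 422) (nat_lit 157)))) (XT.nd (nat_lit 156) (nat_lit 304) (nat_lit 0) (XT.nd (nat_lit 78) (nat_lit 304) (nat_lit 0) (XT.lf (nat_lit 0) (nat_lit 15072751723) (nat_lit 380) (nat_lit 180074405831) (nat_lit 76) (nat_lit 180063344333) (nat_lit 261) (nat_lit 5) (nat_lit 266) (nat_lit 5) (nat_lit 262) (nat_lit 5) (nat_lit 442) (nat_lit 422) (nat_lit 156)) (XT.lf (nat_lit 0) (nat_lit 36594550820) (nat_lit 304) (nat_lit 36605930916) (nat_lit 380) (nat_lit 312756295833) (nat_lit 257) (nat_lit 5) (nat_lit 261) (nat_lit 5) (nat_lit 262) (nat_lit 5) (nat_lit 443) (nat_lit 422) (nat_lit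 155))) (XT.nd (nat_lit 78) (nat_lit 304) (nat_lit 0) (XT.lf (nat_lit 0) (nat_lit 139361716875) (nat_lit 380) (nat_lit 128816710698) (nat_lit 76) (nat_lit 128805583532) (nat_lit 257) (nat_lit 5) (nat_lit 262) (nat_lit 5) (nat_lit 258) (nat_lit 5) (nat_lit 444) (nat_lit 422) (nat_lit 154)) (XT.lf (nat_lit 0) (nat_lit 105533674362) (nat_lit 304) (nat_lit 105545076745) (nat_lit 380) (nat_lit 197371468344) (nat_lit 253) (nat_lit 5) (nat_lit 257) (nat_lit 5) (nat_lit 258) (nat_lit 5) (nat_lit 445) (nat_lit 422) (nat_lit 153))))) (XT.nd (nat_lit 312) (nat_lit 760) (nat_lit 0) (XT.nd (nat_lit 156) (nat_lit 380) (nat_lit 0) (XT.nd (nat_lit 78) (nat_lit 228) (nat_lit 0) (XT.lf (nat_lit 0) (nat_lit 289617204498) (nat_lit 380) (nat_lit 65360932193) (nat_lit 76) (nat_lit 65349823151) (nat_lit 253) (nat_lit 5) (nat_lit 258) (nat_lit 5) (nat_lit 254) (nat_lit 5) (nat_lit 446) (nat_lit 422) (nat_lit 152)) (XT.lf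 (nat_lit 0) (nat_lit 188371224953) (nat_lit 228) (nat_lit 188382571738) (nat_lit 304) (nat_lit 55812229754) (nat_lit 250) (nat_lit 5) (nat_lit 253) (nat_lit 5) (nat_lit 254) (nat_lit 5) (nat_lit 447) (nat_lit 422) (nat_lit 151))) (XT.nd (nat_lit 78) (nat_lit 0) (nat_lit 0) (XT.lf (nat_lit 0) (nat_lit 11698291086) (nat_lit 304) (nat_lit 11709864294) (nat_lit 380) (nat_lit 421924634283) (nat_lit 245) (nat_lit 5) (nat_lit 249) (nat_lit 5) (nat_lit 250) (nat_lit 5) (nat_lit 448) (nat_lit 422) (nat_lit 150)) (XT.lf (nat_lit 0) (nat_lit 111630673436) (nat_lit 380) (nat_lit 173363429411) (nat_lit 76) (nat_lit 173352201937) (nat_lit 245) (nat_lit 5) (nat_lit 250) (nat_lit 5) (nat_lit 246) (nat_lit 5) (nat_lit 449) (nat_lit 422) (nat_lit 149)))) (XT.nd (nat_lit 156) (nat_lit 532) (nat_lit 0) (XT.nd (nat_lit 78) (nat_lit 0) (nat_lit 0) (XT.lf (nat_lit 0) (nat_lit 103026681719) (nat_lit 228) (nat_lit 103038104784)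 (nat_lit 304) (nat_lit 265855685703) (nat_lit 242) (nat_lit 5) (nat_lit 245) (nat_lit 5) (nat_lit 246) (nat_lit 5) (nat_lit 450) (nat_lit 422) (nat_lit 148)) (XT.lf (nat_lit 0) (nat_lit 309578870960) (nat_lit 304) (nat_lit 88193810134) (nat_lit 76) (nat_lit 88182753617) (nat_lit 242) (nat_lit 5) (nat_lit 246) (nat_lit 5) (nat_lit 243) (nat_lit 5) (nat_lit 451) (nat_lit 422) (nat_lit 147))) (XT.nd (nat_lit 78) (nat_lit 304) (nat_lit 0) (XT.lf (nat_lit 0) (nat_lit 211625309264) (nat_lit 228) (nat_lit 211636534741) (nat_lit 304) (nat_lit 77180642119) (nat_lit 239) (nat_lit 5) (nat_lit 242) (nat_lit 5) (nat_lit 243) (nat_lit 5) (nat_lit 452) (nat_lit 422) (nat_lit 146)) (XT.lf (nat_lit 0) (nat_lit 13917838086) (nat_lit 228) (nat_lit 13929224477) (nat_lit 304) (nat_lit 487699001826) (nat_lit 235) (nat_lit 5) (nat_lit 238) (nat_lit 5) (nat_lit 239) (nat_lit 5) (nat_lit 453) (nat_lit 422) (nat_lit 145))))))))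
noncomputable def xc320 : XT := (XT.nd (nat_lit 50934) (nat_lit 0) (nat_lit 2812) (XT.nd (nat_lit 1248) (nat_lit 1292) (nat_lit 0) (XT.nd (nat_lit 624) (nat_lit 912) (nat_lit 0) (XT.nd (nat_lit 312) (nat_lit 456) (nat_lit 0) (XT.nd (nat_lit 156) (nat_lit 152) (nat_lit 0) (XT.nd (nat_lit 78) (nat_lit 228) (nat_lit 0) (XT.lf (nat_lit 0) (nat_lit 143527420952) (nat_lit 304) (nat_lit 193712687861) (nat_lit 76) (nat_lit 193701697725) (nat_lit 235) (nat_lit 5) (nat_lit 239) (nat_lit 5) (nat_lit 236) (nat_lit 5) (nat_lit 454) (nat_lit 422) (nat_lit 144)) (XT.lf (nat_lit 0) (nat_lit 133647802942) (nat_lit 228) (nat_lit 133658932081) (nat_lit 304) (nat_lit 279684853884) (nat_lit 232) (nat_lit 5) (nat_lit 235) (nat_lit 5) (nat_lit 236) (nat_lit 5) (nat_lit 455) (nat_lit 422) (nat_lit 143))) (XT.nd (nat_lit 78) (nat_lit 152) (nat_lit 0) (XT.lf (nat_lit 0) (nat_lit 401859992858) (nat_lit 304) (nat_lit 80882671946)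 (nat_lit 76) (nat_lit 80871946686) (nat_lit 232) (nat_lit 5) (nat_lit 236) (nat_lit 5) (nat_lit 233) (nat_lit 5) (nat_lit 456) (nat_lit 422) (nat_lit 142)) (XT.lf (nat_lit 0) (nat_lit 274805831107) (nat_lit 152) (nat_lit 274816676443) (nat_lit 228) (nat_lit 31122197955) (nat_lit 230) (nat_lit 5) (nat_lit 232) (nat_lit 5) (nat_lit 233) (nat_lit 5) (nat_lit 457) (nat_lit 422) (nat_lit 141)))) (XT.nd (nat_lit 156) (nat_lit 152) (nat_lit 0) (XT.nd (nat_lit 78) (nat_lit 0) (nat_lit 0) (XT.lf (nat_lit 0) (nat_lit 52423791395) (nat_lit 228) (nat_lit 52434751089) (nat_lit 304) (nat_lit 493679446220) (nat_lit 226) (nat_lit 5) (nat_lit 229) (nat_lit 5) (nat_lit 230) (nat_lit 5) (nat_lit 458) (nat_lit 422) (nat_lit 140)) (XT.lf (nat_lit 0) (nat_lit 254685498204) (nat_lit 304) (nat_lit 181057907491) (nat_lit 76) (nat_lit 181047365960) (nat_lit 226) (nat_lit 5) (nat_lit 230) (nat_lit 5) (nat_lit 227) (nat_lit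 5) (nat_lit 459) (nat_lit 422) (nat_lit 139))) (XT.nd (nat_lit 78) (nat_lit 0) (nat_lit 0) (XT.lf (nat_lit 0) (nat_lit 208050487569) (nat_lit 152) (nat_lit 208061127887) (nat_lit 228) (nat_lit 219639187610) (nat_lit 224) (nat_lit 5) (nat_lit 226) (nat_lit 5) (nat_lit 227) (nat_lit 5) (nat_lit 460) (nat_lit 422) (nat_lit 138)) (XT.lf (nat_lit 0) (nat_lit 589209664968) (nat_lit 228) (nat_lit 33139681499) (nat_lit 76) (nat_lit 33129458260) (nat_lit 224) (nat_lit 5) (nat_lit 227) (nat_lit 5) (nat_lit 225) (nat_lit 5) (nat_lit 461) (nat_lit 422) (nat_lit 137))))) (XT.nd (nat_lit 312) (nat_lit 380) (nat_lit 0) (XT.nd (nat_lit 156) (nat_lit 152) (nat_lit 0) (XT.nd (nat_lit 78) (nat_lit 152) (nat_lit 0) (XT.lf (nat_lit 0) (nat_lit 101395356609) (nat_lit 228) (nat_lit 287125609839) (nat_lit 76) (nat_lit 287115301264) (nat_lit 221) (nat_lit 5) (nat_lit 224) (nat_lit 5) (nat_lit 222) (nat_lit 5) (nat_lit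 462) (nat_lit 422) (nat_lit 136)) (XT.lf (nat_lit 0) (nat_lit 138972890890) (nat_lit 152) (nat_lit 138983280738) (nat_lit 228) (nat_lit 418654104678) (nat_lit 219) (nat_lit 5) (nat_lit 221) (nat_lit 5) (nat_lit 222) (nat_lit 5) (nat_lit 463) (nat_lit 422) (nat_lit 135))) (XT.nd (nat_lit 78) (nat_lit 152) (nat_lit 0) (XT.lf (nat_lit 0) (nat_lit 470208194984) (nat_lit 228) (nat_lit 124045800387) (nat_lit 76) (nat_lit 124035831578) (nat_lit 219) (nat_lit 5) (nat_lit 222) (nat_lit 5) (nat_lit 220) (nat_lit 5) (nat_lit 464) (nat_lit 422) (nat_lit 134)) (XT.lf (nat_lit 0) (nat_lit 339823384825) (nat_lit 152) (nat_lit 339833423840) (nat_lit 228) (nat_lit 61017347002) (nat_lit 217) (nat_lit 5) (nat_lit 219) (nat_lit 5) (nat_lit 220) (nat_lit 5) (nat_lit 465) (nat_lit 422) (nat_lit 133)))) (XT.nd (nat_lit 156) (nat_lit 152) (nat_lit 0) (XT.nd (nat_lit 78) (nat_lit 0) (nat_lit 0) (XT.lf (nat_lit 0) (nat_lit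 67119758721) (nat_lit 152) (nat_lit 67129864600) (nat_lit 228) (nat_lit 629663222629) (nat_lit 214) (nat_lit 5) (nat_lit 216) (nat_lit 5) (nat_lit 217) (nat_lit 5) (nat_lit 466) (nat_lit 422) (nat_lit 132)) (XT.lf (nat_lit 0) (nat_lit 347551693990) (nat_lit 228) (nat_lit 220102665546) (nat_lit 76) (nat_lit 220092980253) (nat_lit 214) (nat_lit 5) (nat_lit 217) (nat_lit 5) (nat_lit 215) (nat_lit 5) (nat_lit 467) (nat_lit 422) (nat_lit 131))) (XT.nd (nat_lit 78) (nat_lit 0) (nat_lit 0) (XT.lf (nat_lit 0) (nat_lit 288557392460) (nat_lit 152) (nat_lit 288567135512) (nat_lit 228) (nat_lit 235368747359) (nat_lit 212) (nat_lit 5) (nat_lit 214) (nat_lit 5) (nat_lit 215) (nat_lit 5) (nat_lit 468) (nat_lit 422) (nat_lit 130)) (XT.lf (nat_lit 0) (nat_lit 822034495591) (nat_lit 228) (nat_lit 8129209473) (nat_lit 76) (nat_lit 8119877987) (nat_lit 212) (nat_lit 5) (nat_lit 215) (nat_lit 5) (nat_lit 213) (nat_lit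 4) (nat_lit 469) (nat_lit 422) (nat_lit 129)))))) (XT.nd (nat_lit 624) (nat_lit 380) (nat_lit 0) (XT.nd (nat_lit 312) (nat_lit 456) (nat_lit 0) (XT.nd (nat_lit 156) (nat_lit 152) (nat_lit 0) (XT.nd (nat_lit 78) (nat_lit 152) (nat_lit 0) (XT.lf (nat_lit 0) (nat_lit 220458733676) (nat_lit 152) (nat_lit 322036667053) (nat_lit 76) (nat_lit 322027285672) (nat_lit 210) (nat_lit 5) (nat_lit 212) (nat_lit 5) (nat_lit 211) (nat_lit 5) (nat_lit 470) (nat_lit 422) (nat_lit 128)) (XT.lf (nat_lit 0) (nat_lit 236136552625) (nat_lit 152) (nat_lit 236145981523) (nat_lit 228) (nat_lit 419586558637) (nat_lit 208) (nat_lit 5) (nat_lit 210) (nat_lit 5) (nat_lit 211) (nat_lit 5) (nat_lit 471) (nat_lit 422) (nat_lit 127))) (XT.nd (nat_lit 78) (nat_lit 152) (nat_lit 0) (XT.lf (nat_lit 0) (nat_lit 743575981747) (nat_lit 228) (nat_lit 88335968945) (nat_lit 76) (nat_lit 88326945941) (nat_lit 208) (nat_lit 5) (nat_lit 211)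 (nat_lit 5) (nat_lit 209) (nat_lit 4) (nat_lit 472) (nat_lit 422) (nat_lit 126)) (XT.lf (nat_lit 0) (nat_lit 88087159498) (nat_lit 152) (nat_lit 430639199842) (nat_lit 76) (nat_lit 430630135790) (nat_lit 206) (nat_lit 5) (nat_lit 208) (nat_lit 5) (nat_lit 207) (nat_lit 5) (nat_lit 473) (nat_lit 422) (nat_lit 125)))) (XT.nd (nat_lit 156) (nat_lit 304) (nat_lit 0) (XT.nd (nat_lit 78) (nat_lit 0) (nat_lit 0) (XT.lf (nat_lit 0) (nat_lit 182247256263) (nat_lit 152) (nat_lit 182256359409) (nat_lit 228) (nat_lit 615063256689) (nat_lit 204) (nat_lit 5) (nat_lit 206) (nat_lit 5) (nat_lit 207) (nat_lit 5) (nat_lit 474) (nat_lit 422) (nat_lit 124)) (XT.lf (nat_lit 0) (nat_lit 664823888705) (nat_lit 228) (nat_lit 172984217584) (nat_lit 76) (nat_lit 172975512463) (nat_lit 204) (nat_lit 5) (nat_lit 207) (nat_lit 5) (nat_lit 205) (nat_lit 4) (nat_lit 475) (nat_lit 422) (nat_lit 123))) (XT.nd (nat_lit 78) (nat_lit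 228) (nat_lit 0) (XT.lf (nat_lit 0) (nat_lit 495437196281) (nat_lit 76) (nat_lit 495445935173) (nat_lit 152) (nat_lit 52141923204) (nat_lit 203) (nat_lit 5) (nat_lit 204) (nat_lit 5) (nat_lit 205) (nat_lit 4) (nat_lit 476) (nat_lit 422) (nat_lit 122)) (XT.lf (nat_lit 0) (nat_lit 126553046943) (nat_lit 152) (nat_lit 126561817997) (nat_lit 228) (nat_lit 823315895790) (nat_lit 200) (nat_lit 5) (nat_lit 202) (nat_lit 5) (nat_lit 203) (nat_lit 5) (nat_lit 477) (nat_lit 422) (nat_lit 121))))) (XT.nd (nat_lit 312) (nat_lit 76) (nat_lit 0) (XT.nd (nat_lit 156) (nat_lit 228) (nat_lit 0) (XT.nd (nat_lit 78) (nat_lit 76) (nat_lit 0) (XT.lf (nat_lit 0) (nat_lit 585379154498) (nat_lit 228) (nat_lit 262709196128) (nat_lit 76) (nat_lit 262700813572) (nat_lit 200) (nat_lit 5) (nat_lit 203) (nat_lit 5) (nat_lit 201) (nat_lit 4) (nat_lit 478) (nat_lit 422) (nat_lit 120)) (XT.lf (nat_lit 0) (nat_lit 471844919173)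 (nat_lit 76) (nat_lit 471853329513) (nat_lit 152) (nat_lit 202695159646) (nat_lit 199) (nat_lit 5) (nat_lit 200) (nat_lit 5) (nat_lit 201) (nat_lit 4) (nat_lit 479) (nat_lit 422) (nat_lit 119))) (XT.nd (nat_lit 78) (nat_lit 0) (nat_lit 0) (XT.lf (nat_lit 0) (nat_lit 68691836161) (nat_lit 152) (nat_lit 68700272961) (nat_lit 228) (nat_lit 1045999742137) (nat_lit 196) (nat_lit 5) (nat_lit 198) (nat_lit 5) (nat_lit 199) (nat_lit 5) (nat_lit 480) (nat_lit 422) (nat_lit 118)) (XT.lf (nat_lit 0) (nat_lit 504819382923) (nat_lit 228) (nat_lit 358202686240) (nat_lit 76) (nat_lit 358194627192) (nat_lit 196) (nat_lit 5) (nat_lit 199) (nat_lit 5) (nat_lit 197) (nat_lit 4) (nat_lit 481) (nat_lit 422) (nat_lit 117)))) (XT.nd (nat_lit 48594) (nat_lit 0) (nat_lit 7372) (XT.nd (nat_lit 48516) (nat_lit 0) (nat_lit 7372) (XT.lf (nat_lit 0) (nat_lit 449376089092) (nat_lit 76) (nat_lit 449384170996) (nat_lit 152) (nat_lit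 361765411633) (nat_lit 195) (nat_lit 5) (nat_lit 196) (nat_lit 5) (nat_lit 197) (nat_lit 4) (nat_lit 482) (nat_lit 422) (nat_lit 116)) (XT.lf (nat_lit 0) (nat_lit 54728888963) (nat_lit 836) (nat_lit 30833446171) (nat_lit 836) (nat_lit 30833446171) (nat_lit 292) (nat_lit 3) (nat_lit 303) (nat_lit 3) (nat_lit 303) (nat_lit 5) (nat_lit 423) (nat_lit 423) (nat_lit 174))) (XT.nd (nat_lit 78) (nat_lit 0) (nat_lit 76) (XT.lf (nat_lit 76) (nat_lit 56538473195) (nat_lit 0) (nat_lit 56539662668) (nat_lit 836) (nat_lit 125489020139) (nat_lit 293) (nat_lit 5) (nat_lit 292) (nat_lit 3) (nat_lit 303) (nat_lit 5) (nat_lit 424) (nat_lit 423) (nat_lit 173)) (XT.lf (nat_lit 0) (nat_lit 118936614921) (nat_lit 760) (nat_lit 62797135350) (nat_lit 836) (nat_lit 62794923631) (nat_lit 293) (nat_lit 5) (nat_lit 303) (nat_lit 5) (nat_lit 304) (nat_lit 5) (nat_lit 425) (nat_lit 423) (nat_lit 172))))))) (XT.nd (nat_lit 1248)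 (nat_lit 2584) (nat_lit 0) (XT.nd (nat_lit 624) (nat_lit 2052) (nat_lit 0) (XT.nd (nat_lit 312) (nat_lit 0) (nat_lit 152) (XT.nd (nat_lit 156) (nat_lit 0) (nat_lit 76) (XT.nd (nat_lit 78) (nat_lit 0) (nat_lit 76) (XT.lf (nat_lit 76) (nat_lit 63501511184) (nat_lit 0) (nat_lit 63504750414) (nat_lit 836) (nat_lit 123686093915) (nat_lit 294) (nat_lit 5) (nat_lit 293) (nat_lit 5) (nat_lit 304) (nat_lit 5) (nat_lit 426) (nat_lit 423) (nat_lit 171)) (XT.lf (nat_lit 0) (nat_lit 137506948714) (nat_lit 760) (nat_lit 59779955775) (nat_lit 836) (nat_lit 59775938810) (nat_lit 294) (nat_lit 5) (nat_lit 304) (nat_lit 5) (nat_lit 305) (nat_lit 5) (nat_lit 427) (nat_lit 423) (nat_lit 170))) (XT.nd (nat_lit 78) (nat_lit 0) (nat_lit 76) (XT.lf (nat_lit 76) (nat_lit 75372770597) (nat_lit 0) (nat_lit 75377675165) (nat_lit 836) (nat_lit 112890520933) (nat_lit 295) (nat_lit 5) (nat_lit 294) (nat_lit 5) (nat_lit 305)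 (nat_lit 5) (nat_lit 428) (nat_lit 423) (nat_lit 169)) (XT.lf (nat_lit 0) (nat_lit 166506708789) (nat_lit 760) (nat_lit 51977117008) (nat_lit 836) (nat_lit 51971640908) (nat_lit 295) (nat_lit 5) (nat_lit 305) (nat_lit 5) (nat_lit 306) (nat_lit 5) (nat_lit 429) (nat_lit 423) (nat_lit 168)))) (XT.nd (nat_lit 156) (nat_lit 0) (nat_lit 76) (XT.nd (nat_lit 78) (nat_lit 0) (nat_lit 76) (XT.lf (nat_lit 76) (nat_lit 92865032413) (nat_lit 0) (nat_lit 92871275258) (nat_lit 836) (nat_lit 91740107910) (nat_lit 296) (nat_lit 5) (nat_lit 295) (nat_lit 5) (nat_lit 306) (nat_lit 5) (nat_lit 430) (nat_lit 423) (nat_lit 167)) (XT.lf (nat_lit 0) (nat_lit 207431257936) (nat_lit 760) (nat_lit 38674300710) (nat_lit 836) (nat_lit 38667659683) (nat_lit 296) (nat_lit 5) (nat_lit 306) (nat_lit 5) (nat_lit 307) (nat_lit 5) (nat_lit 431) (nat_lit 423) (nat_lit 166))) (XT.nd (nat_lit 78) (nat_lit 0) (nat_lit 76) (XT.lf (nat_lit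 76) (nat_lit 116774628163) (nat_lit 0) (nat_lit 116781931533) (nat_lit 836) (nat_lit 58711021319) (nat_lit 297) (nat_lit 5) (nat_lit 296) (nat_lit 5) (nat_lit 307) (nat_lit 5) (nat_lit 432) (nat_lit 423) (nat_lit 165)) (XT.lf (nat_lit 0) (nat_lit 261950544873) (nat_lit 760) (nat_lit 19072776200) (nat_lit 76) (nat_lit 19065219845) (nat_lit 297) (nat_lit 5) (nat_lit 307) (nat_lit 5) (nat_lit 298) (nat_lit 5) (nat_lit 433) (nat_lit 423) (nat_lit 164))))) (XT.nd (nat_lit 312) (nat_lit 684) (nat_lit 0) (XT.nd (nat_lit 156) (nat_lit 380) (nat_lit 0) (XT.nd (nat_lit 78) (nat_lit 532) (nat_lit 0) (XT.lf (nat_lit 0) (nat_lit 147990527509) (nat_lit 760) (nat_lit 147998656021) (nat_lit 836) (nat_lit 12100117575) (nat_lit 287) (nat_lit 5) (nat_lit 297) (nat_lit 5) (nat_lit 298) (nat_lit 5) (nat_lit 434) (nat_lit 423) (nat_lit 163)) (XT.lf (nat_lit 0) (nat_lit 7595024568) (nat_lit 456) (nat_lit 7603697992)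 (nat_lit 532) (nat_lit 301257138462) (nat_lit 280) (nat_lit 5) (nat_lit 286) (nat_lit 5) (nat_lit 287) (nat_lit 5) (nat_lit 435) (nat_lit 423) (nat_lit 162))) (XT.nd (nat_lit 78) (nat_lit 380) (nat_lit 0) (XT.lf (nat_lit 0) (nat_lit 48394453694) (nat_lit 532) (nat_lit 138299101076) (nat_lit 76) (nat_lit 138290346422) (nat_lit 280) (nat_lit 5) (nat_lit 287) (nat_lit 5) (nat_lit 281) (nat_lit 5) (nat_lit 436) (nat_lit 423) (nat_lit 161)) (XT.lf (nat_lit 0) (nat_lit 42010627391) (nat_lit 380) (nat_lit 42019852760) (nat_lit 456) (nat_lit 249868837782) (nat_lit 275) (nat_lit 5) (nat_lit 280) (nat_lit 5) (nat_lit 281) (nat_lit 5) (nat_lit 437) (nat_lit 423) (nat_lit 160)))) (XT.nd (nat_lit 156) (nat_lit 304) (nat_lit 0) (XT.nd (nat_lit 78) (nat_lit 380) (nat_lit 0) (XT.lf (nat_lit 0) (nat_lit 125544474421) (nat_lit 456) (nat_lit 108760217891) (nat_lit 76) (nat_lit 108751004873) (nat_lit 275) (nat_lit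 5) (nat_lit 281) (nat_lit 5) (nat_lit 276) (nat_lit 5) (nat_lit 438) (nat_lit 423) (nat_lit 159)) (XT.lf (nat_lit 0) (nat_lit 85574708882) (nat_lit 380) (nat_lit 85584328521) (nat_lit 456) (nat_lit 181409614546) (nat_lit 270) (nat_lit 5) (nat_lit 275) (nat_lit 5) (nat_lit 276) (nat_lit 5) (nat_lit 439) (nat_lit 423) (nat_lit 158))) (XT.nd (nat_lit 78) (nat_lit 304) (nat_lit 0) (XT.lf (nat_lit 0) (nat_lit 222028217376) (nat_lit 456) (nat_lit 70194936507) (nat_lit 76) (nat_lit 70185406128) (nat_lit 270) (nat_lit 5) (nat_lit 276) (nat_lit 5) (nat_lit 271) (nat_lit 5) (nat_lit 440) (nat_lit 423) (nat_lit 157)) (XT.lf (nat_lit 0) (nat_lit 139506018775) (nat_lit 304) (nat_lit 139515900409) (nat_lit 380) (nat_lit 93539491149) (nat_lit 266) (nat_lit 5) (nat_lit 270) (nat_lit 5) (nat_lit 271) (nat_lit 5) (nat_lit 441) (nat_lit 423) (nat_lit 156)))))) (XT.nd (nat_lit 624) (nat_lit 988) (nat_lit 0) (XT.nd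 (nat_lit 312) (nat_lit 912) (nat_lit 0) (XT.nd (nat_lit 156) (nat_lit 304) (nat_lit 0) (XT.nd (nat_lit 78) (nat_lit 380) (nat_lit 0) (XT.lf (nat_lit 0) (nat_lit 340398705217) (nat_lit 380) (nat_lit 21378128838) (nat_lit 76) (nat_lit 21368399160) (nat_lit 266) (nat_lit 5) (nat_lit 271) (nat_lit 5) (nat_lit 267) (nat_lit 5) (nat_lit 442) (nat_lit 423) (nat_lit 155)) (XT.lf (nat_lit 0) (nat_lit 15827535072) (nat_lit 380) (nat_lit 189076733863) (nat_lit 76) (nat_lit 189066700758) (nat_lit 261) (nat_lit 5) (nat_lit 266) (nat_lit 5) (nat_lit 262) (nat_lit 5) (nat_lit 443) (nat_lit 423) (nat_lit 154))) (XT.nd (nat_lit 78) (nat_lit 0) (nat_lit 0) (XT.lf (nat_lit 0) (nat_lit 38425648164) (nat_lit 304) (nat_lit 38435970247) (nat_lit 380) (nat_lit 328392942407) (nat_lit 257) (nat_lit 5) (nat_lit 261) (nat_lit 5) (nat_lit 262) (nat_lit 5) (nat_lit 444) (nat_lit 423) (nat_lit 153)) (XT.lf (nat_lit 0) (nat_lit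 146330866151) (nat_lit 380) (nat_lit 135256192502) (nat_lit 76) (nat_lit 135246099835) (nat_lit 257) (nat_lit 5) (nat_lit 262) (nat_lit 5) (nat_lit 258) (nat_lit 5) (nat_lit 445) (nat_lit 423) (nat_lit 152)))) (XT.nd (nat_lit 156) (nat_lit 608) (nat_lit 0) (XT.nd (nat_lit 78) (nat_lit 0) (nat_lit 0) (XT.lf (nat_lit 0) (nat_lit 110811689976) (nat_lit 304) (nat_lit 110822032274) (nat_lit 380) (nat_lit 207238956494) (nat_lit 253) (nat_lit 5) (nat_lit 257) (nat_lit 5) (nat_lit 258) (nat_lit 5) (nat_lit 446) (nat_lit 423) (nat_lit 151)) (XT.lf (nat_lit 0) (nat_lit 304099053528) (nat_lit 380) (nat_lit 68627665547) (nat_lit 76) (nat_lit 68617589318) (nat_lit 253) (nat_lit 5) (nat_lit 258) (nat_lit 5) (nat_lit 254) (nat_lit 5) (nat_lit 447) (nat_lit 423) (nat_lit 150))) (XT.nd (nat_lit 78) (nat_lit 380) (nat_lit 0) (XT.lf (nat_lit 0) (nat_lit 197791078274) (nat_lit 228) (nat_lit 197801370143) (nat_lit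 304) (nat_lit 58601831255) (nat_lit 250) (nat_lit 5) (nat_lit 253) (nat_lit 5) (nat_lit 254) (nat_lit 5) (nat_lit 448) (nat_lit 423) (nat_lit 149)) (XT.lf (nat_lit 0) (nat_lit 12284508679) (nat_lit 304) (nat_lit 12295005919) (nat_lit 380) (nat_lit 443019866975) (nat_lit 245) (nat_lit 5) (nat_lit 249) (nat_lit 5) (nat_lit 250) (nat_lit 5) (nat_lit 449) (nat_lit 423) (nat_lit 148))))) (XT.nd (nat_lit 312) (nat_lit 532) (nat_lit 0) (XT.nd (nat_lit 156) (nat_lit 228) (nat_lit 0) (XT.nd (nat_lit 78) (nat_lit 228) (nat_lit 0) (XT.lf (nat_lit 0) (nat_lit 117213118479) (nat_lit 380) (nat_lit 182030319813) (nat_lit 76) (nat_lit 182020136163) (nat_lit 245) (nat_lit 5) (nat_lit 250) (nat_lit 5) (nat_lit 246) (nat_lit 5) (nat_lit 450) (nat_lit 423) (nat_lit 147)) (XT.lf (nat_lit 0) (nat_lit 108179276211) (nat_lit 228) (nat_lit 108189637268) (nat_lit 304) (nat_lit 279147537955) (nat_lit 242) (nat_lit 5) (nat_lit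 245) (nat_lit 5) (nat_lit 246) (nat_lit 5) (nat_lit 451) (nat_lit 423) (nat_lit 146))) (XT.nd (nat_lit 78) (nat_lit 228) (nat_lit 0) (XT.lf (nat_lit 0) (nat_lit 325058665432) (nat_lit 304) (nat_lit 92602263528) (nat_lit 76) (nat_lit 92592234941) (nat_lit 242) (nat_lit 5) (nat_lit 246) (nat_lit 5) (nat_lit 243) (nat_lit 5) (nat_lit 452) (nat_lit 423) (nat_lit 145)) (XT.lf (nat_lit 0) (nat_lit 222207791887) (nat_lit 228) (nat_lit 222217973725) (nat_lit 304) (nat_lit 81038803348) (nat_lit 239) (nat_lit 5) (nat_lit 242) (nat_lit 5) (nat_lit 243) (nat_lit 5) (nat_lit 453) (nat_lit 423) (nat_lit 144)))) (XT.nd (nat_lit 156) (nat_lit 228) (nat_lit 0) (XT.nd (nat_lit 78) (nat_lit 0) (nat_lit 0) (XT.lf (nat_lit 0) (nat_lit 14614954943) (nat_lit 228) (nat_lit 14625282735) (nat_lit 304) (nat_lit 512083088832) (nat_lit 235) (nat_lit 5) (nat_lit 238) (nat_lit 5) (nat_lit 239) (nat_lit 5) (nat_lit 454) (nat_lit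 423) (nat_lit 143)) (XT.lf (nat_lit 0) (nat_lit 150704580835) (nat_lit 304) (nat_lit 203397122483) (nat_lit 76) (nat_lit 203387154106) (nat_lit 235) (nat_lit 5) (nat_lit 239) (nat_lit 5) (nat_lit 236) (nat_lit 5) (nat_lit 455) (nat_lit 423) (nat_lit 142))) (XT.nd (nat_lit 78) (nat_lit 0) (nat_lit 0) (XT.lf (nat_lit 0) (nat_lit 140331373509) (nat_lit 228) (nat_lit 140341467966) (nat_lit 304) (nat_lit 293668288392) (nat_lit 232) (nat_lit 5) (nat_lit 235) (nat_lit 5) (nat_lit 236) (nat_lit 5) (nat_lit 456) (nat_lit 423) (nat_lit 141)) (XT.lf (nat_lit 0) (nat_lit 421953731657) (nat_lit 304) (nat_lit 84925650789) (nat_lit 76) (nat_lit 84915922662) (nat_lit 232) (nat_lit 5) (nat_lit 236) (nat_lit 5) (nat_lit 233) (nat_lit 5) (nat_lit 457) (nat_lit 423) (nat_lit 140))))))))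
noncomputable def xc321 : XT := (XT.nd (nat_lit 51090) (nat_lit 0) (nat_lit 2128) (XT.nd (nat_lit 1248) (nat_lit 912) (nat_lit 0) (XT.nd (nat_lit 624) (nat_lit 836) (nat_lit 0) (XT.nd (nat_lit 312) (nat_lit 380) (nat_lit 0) (XT.nd (nat_lit 156) (nat_lit 152) (nat_lit 0) (XT.nd (nat_lit 78) (nat_lit 304) (nat_lit 0) (XT.lf (nat_lit 0) (nat_lit 288547258792) (nat_lit 152) (nat_lit 288557095832) (nat_lit 228) (nat_lit 32677550072) (nat_lit 230) (nat_lit 5) (nat_lit 232) (nat_lit 5) (nat_lit 233) (nat_lit 5) (nat_lit 458) (nat_lit 423) (nat_lit 139)) (XT.lf (nat_lit 0) (nat_lit 55046122632) (nat_lit 228) (nat_lit 55056063398) (nat_lit 304) (nat_lit 518362666288) (nat_lit 226) (nat_lit 5) (nat_lit 229) (nat_lit 5) (nat_lit 230) (nat_lit 5) (nat_lit 459) (nat_lit 423) (nat_lit 138))) (XT.nd (nat_lit 78) (nat_lit 152) (nat_lit 0) (XT.lf (nat_lit 0) (nat_lit 267420461744) (nat_lit 304) (nat_lit 190109687770)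 (nat_lit 76) (nat_lit 190100126291) (nat_lit 226) (nat_lit 5) (nat_lit 230) (nat_lit 5) (nat_lit 227) (nat_lit 5) (nat_lit 460) (nat_lit 423) (nat_lit 137)) (XT.lf (nat_lit 0) (nat_lit 218454109056) (nat_lit 152) (nat_lit 218463760139) (nat_lit 228) (nat_lit 230620440375) (nat_lit 224) (nat_lit 5) (nat_lit 226) (nat_lit 5) (nat_lit 227) (nat_lit 5) (nat_lit 461) (nat_lit 423) (nat_lit 136)))) (XT.nd (nat_lit 156) (nat_lit 152) (nat_lit 0) (XT.nd (nat_lit 78) (nat_lit 228) (nat_lit 0) (XT.lf (nat_lit 0) (nat_lit 618670795444) (nat_lit 228) (nat_lit 34795594969) (nat_lit 76) (nat_lit 34786322189) (nat_lit 224) (nat_lit 5) (nat_lit 227) (nat_lit 5) (nat_lit 225) (nat_lit 5) (nat_lit 462) (nat_lit 423) (nat_lit 135)) (XT.lf (nat_lit 0) (nat_lit 106465767667) (nat_lit 228) (nat_lit 301480815726) (nat_lit 76) (nat_lit 301471465544) (nat_lit 221) (nat_lit 5) (nat_lit 224) (nat_lit 5) (nat_lit 222) (nat_lit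 5) (nat_lit 463) (nat_lit 423) (nat_lit 134))) (XT.nd (nat_lit 78) (nat_lit 0) (nat_lit 0) (XT.lf (nat_lit 0) (nat_lit 145922592708) (nat_lit 152) (nat_lit 145932016606) (nat_lit 228) (nat_lit 439586149352) (nat_lit 219) (nat_lit 5) (nat_lit 221) (nat_lit 5) (nat_lit 222) (nat_lit 5) (nat_lit 464) (nat_lit 423) (nat_lit 133)) (XT.lf (nat_lit 0) (nat_lit 493719210247) (nat_lit 228) (nat_lit 130247059889) (nat_lit 76) (nat_lit 130238017885) (nat_lit 219) (nat_lit 5) (nat_lit 222) (nat_lit 5) (nat_lit 220) (nat_lit 5) (nat_lit 465) (nat_lit 423) (nat_lit 132))))) (XT.nd (nat_lit 312) (nat_lit 304) (nat_lit 0) (XT.nd (nat_lit 156) (nat_lit 152) (nat_lit 0) (XT.nd (nat_lit 78) (nat_lit 228) (nat_lit 0) (XT.lf (nat_lit 0) (nat_lit 356815567962) (nat_lit 152) (nat_lit 356824673645) (nat_lit 228) (nat_lit 64067592217) (nat_lit 217) (nat_lit 5) (nat_lit 219) (nat_lit 5) (nat_lit 220) (nat_lit 5) (nat_lit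 466) (nat_lit 423) (nat_lit 131)) (XT.lf (nat_lit 0) (nat_lit 70476763792) (nat_lit 152) (nat_lit 70485930122) (nat_lit 228) (nat_lit 661145764863) (nat_lit 214) (nat_lit 5) (nat_lit 216) (nat_lit 5) (nat_lit 217) (nat_lit 5) (nat_lit 467) (nat_lit 423) (nat_lit 130))) (XT.nd (nat_lit 78) (nat_lit 152) (nat_lit 0) (XT.lf (nat_lit 0) (nat_lit 364929846407) (nat_lit 228) (nat_lit 231106808416) (nat_lit 76) (nat_lit 231098023569) (nat_lit 214) (nat_lit 5) (nat_lit 217) (nat_lit 5) (nat_lit 215) (nat_lit 5) (nat_lit 468) (nat_lit 423) (nat_lit 129)) (XT.lf (nat_lit 0) (nat_lit 302986236516) (nat_lit 152) (nat_lit 302995073751) (nat_lit 228) (nat_lit 247136601035) (nat_lit 212) (nat_lit 5) (nat_lit 214) (nat_lit 5) (nat_lit 215) (nat_lit 5) (nat_lit 469) (nat_lit 423) (nat_lit 128)))) (XT.nd (nat_lit 156) (nat_lit 152) (nat_lit 0) (XT.nd (nat_lit 78) (nat_lit 152) (nat_lit 0) (XT.lf (nat_lit 0) (nat_lit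 863136756020) (nat_lit 228) (nat_lit 8534721668) (nat_lit 76) (nat_lit 8526257735) (nat_lit 212) (nat_lit 5) (nat_lit 215) (nat_lit 5) (nat_lit 213) (nat_lit 4) (nat_lit 470) (nat_lit 423) (nat_lit 127)) (XT.lf (nat_lit 0) (nat_lit 231482203670) (nat_lit 152) (nat_lit 338137549787) (nat_lit 76) (nat_lit 338129040599) (nat_lit 210) (nat_lit 5) (nat_lit 212) (nat_lit 5) (nat_lit 211) (nat_lit 5) (nat_lit 471) (nat_lit 423) (nat_lit 126))) (XT.nd (nat_lit 78) (nat_lit 0) (nat_lit 0) (XT.lf (nat_lit 0) (nat_lit 247944315542) (nat_lit 152) (nat_lit 247952867831) (nat_lit 228) (nat_lit 440565337926) (nat_lit 208) (nat_lit 5) (nat_lit 210) (nat_lit 5) (nat_lit 211) (nat_lit 5) (nat_lit 472) (nat_lit 423) (nat_lit 125)) (XT.lf (nat_lit 0) (nat_lit 780755284608) (nat_lit 228) (nat_lit 92751857900) (nat_lit 76) (nat_lit 92743673769) (nat_lit 208) (nat_lit 5) (nat_lit 211) (nat_lit 5) (nat_lit 209) (nat_lit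 4) (nat_lit 473) (nat_lit 423) (nat_lit 124)))))) (XT.nd (nat_lit 49218) (nat_lit 0) (nat_lit 7296) (XT.nd (nat_lit 312) (nat_lit 532) (nat_lit 0) (XT.nd (nat_lit 156) (nat_lit 76) (nat_lit 0) (XT.nd (nat_lit 78) (nat_lit 152) (nat_lit 0) (XT.lf (nat_lit 0) (nat_lit 92492019322) (nat_lit 152) (nat_lit 452170248418) (nat_lit 76) (nat_lit 452162027055) (nat_lit 206) (nat_lit 5) (nat_lit 208) (nat_lit 5) (nat_lit 207) (nat_lit 5) (nat_lit 474) (nat_lit 423) (nat_lit 123)) (XT.lf (nat_lit 0) (nat_lit 191360515793) (nat_lit 152) (nat_lit 191368772614) (nat_lit 228) (nat_lit 645815902974) (nat_lit 204) (nat_lit 5) (nat_lit 206) (nat_lit 5) (nat_lit 207) (nat_lit 5) (nat_lit 475) (nat_lit 423) (nat_lit 122))) (XT.nd (nat_lit 78) (nat_lit 76) (nat_lit 0) (XT.lf (nat_lit 0) (nat_lit 698065557684) (nat_lit 228) (nat_lit 181632557040) (nat_lit 76) (nat_lit 181624661238) (nat_lit 204) (nat_lit 5) (nat_lit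 207) (nat_lit 5) (nat_lit 205) (nat_lit 4) (nat_lit 476) (nat_lit 423) (nat_lit 121)) (XT.lf (nat_lit 0) (nat_lit 520209913463) (nat_lit 76) (nat_lit 520217839896) (nat_lit 152) (nat_lit 54748530765) (nat_lit 203) (nat_lit 5) (nat_lit 204) (nat_lit 5) (nat_lit 205) (nat_lit 4) (nat_lit 477) (nat_lit 423) (nat_lit 120)))) (XT.nd (nat_lit 156) (nat_lit 304) (nat_lit 0) (XT.nd (nat_lit 78) (nat_lit 0) (nat_lit 0) (XT.lf (nat_lit 0) (nat_lit 132881558216) (nat_lit 152) (nat_lit 132889513820) (nat_lit 228) (nat_lit 864481203538) (nat_lit 200) (nat_lit 5) (nat_lit 202) (nat_lit 5) (nat_lit 203) (nat_lit 5) (nat_lit 478) (nat_lit 423) (nat_lit 119)) (XT.lf (nat_lit 0) (nat_lit 614648559859) (nat_lit 228) (nat_lit 275843821697) (nat_lit 76) (nat_lit 275836218471) (nat_lit 200) (nat_lit 5) (nat_lit 203) (nat_lit 5) (nat_lit 201) (nat_lit 4) (nat_lit 479) (nat_lit 423) (nat_lit 118))) (XT.nd (nat_lit 78)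 (nat_lit 228) (nat_lit 0) (XT.lf (nat_lit 0) (nat_lit 495437985914) (nat_lit 76) (nat_lit 495445614340) (nat_lit 152) (nat_lit 212829456537) (nat_lit 199) (nat_lit 5) (nat_lit 200) (nat_lit 5) (nat_lit 201) (nat_lit 4) (nat_lit 480) (nat_lit 423) (nat_lit 117)) (XT.lf (nat_lit 0) (nat_lit 72127250033) (nat_lit 152) (nat_lit 72134902459) (nat_lit 228) (nat_lit 1098299269434) (nat_lit 196) (nat_lit 5) (nat_lit 198) (nat_lit 5) (nat_lit 199) (nat_lit 5) (nat_lit 481) (nat_lit 423) (nat_lit 116))))) (XT.nd (nat_lit 312) (nat_lit 0) (nat_lit 152) (XT.nd (nat_lit 156) (nat_lit 0) (nat_lit 76) (XT.nd (nat_lit 78) (nat_lit 0) (nat_lit 0) (XT.lf (nat_lit 0) (nat_lit 57466504314) (nat_lit 836) (nat_lit 32374503756) (nat_lit 836) (nat_lit 32374503756) (nat_lit 292) (nat_lit 3) (nat_lit 303) (nat_lit 3) (nat_lit 303) (nat_lit 5) (nat_lit 424) (nat_lit 424) (nat_lit 172)) (XT.lf (nat_lit 76) (nat_lit 59366606472)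 (nat_lit 0) (nat_lit 59367685360) (nat_lit 836) (nat_lit 131761109512) (nat_lit 293) (nat_lit 5) (nat_lit 292) (nat_lit 3) (nat_lit 303) (nat_lit 5) (nat_lit 425) (nat_lit 424) (nat_lit 171))) (XT.nd (nat_lit 78) (nat_lit 0) (nat_lit 0) (XT.lf (nat_lit 0) (nat_lit 124885572282) (nat_lit 760) (nat_lit 65935717539) (nat_lit 836) (nat_lit 65933711445) (nat_lit 293) (nat_lit 5) (nat_lit 303) (nat_lit 5) (nat_lit 304) (nat_lit 5) (nat_lit 426) (nat_lit 424) (nat_lit 170)) (XT.lf (nat_lit 76) (nat_lit 66677840763) (nat_lit 0) (nat_lit 66680778841) (nat_lit 836) (nat_lit 129868251439) (nat_lit 294) (nat_lit 5) (nat_lit 293) (nat_lit 5) (nat_lit 304) (nat_lit 5) (nat_lit 427) (nat_lit 424) (nat_lit 169)))) (XT.nd (nat_lit 156) (nat_lit 0) (nat_lit 76) (XT.nd (nat_lit 78) (nat_lit 0) (nat_lit 0) (XT.lf (nat_lit 0) (nat_lit 144384231938) (nat_lit 760) (nat_lit 62767650121) (nat_lit 836) (nat_lit 62764006615)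 (nat_lit 294) (nat_lit 5) (nat_lit 304) (nat_lit 5) (nat_lit 305) (nat_lit 5) (nat_lit 428) (nat_lit 424) (nat_lit 168)) (XT.lf (nat_lit 76) (nat_lit 79142691546) (nat_lit 0) (nat_lit 79147140134) (nat_lit 836) (nat_lit 118533090169) (nat_lit 295) (nat_lit 5) (nat_lit 294) (nat_lit 5) (nat_lit 305) (nat_lit 5) (nat_lit 429) (nat_lit 424) (nat_lit 167))) (XT.nd (nat_lit 78) (nat_lit 0) (nat_lit 0) (XT.lf (nat_lit 0) (nat_lit 174833810472) (nat_lit 760) (nat_lit 54574654120) (nat_lit 836) (nat_lit 54569687136) (nat_lit 295) (nat_lit 5) (nat_lit 305) (nat_lit 5) (nat_lit 306) (nat_lit 5) (nat_lit 430) (nat_lit 424) (nat_lit 166)) (XT.lf (nat_lit 76) (nat_lit 97509581502) (nat_lit 0) (nat_lit 97515243946) (nat_lit 836) (nat_lit 96325325793) (nat_lit 296) (nat_lit 5) (nat_lit 295) (nat_lit 5) (nat_lit 306) (nat_lit 5) (nat_lit 431) (nat_lit 424) (nat_lit 165))))))) (XT.nd (nat_lit 1248) (nat_lit 2204)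 (nat_lit 0) (XT.nd (nat_lit 624) (nat_lit 1672) (nat_lit 0) (XT.nd (nat_lit 312) (nat_lit 912) (nat_lit 0) (XT.nd (nat_lit 156) (nat_lit 684) (nat_lit 0) (XT.nd (nat_lit 78) (nat_lit 0) (nat_lit 0) (XT.lf (nat_lit 0) (nat_lit 217804436139) (nat_lit 760) (nat_lit 40606692974) (nat_lit 836) (nat_lit 40600669367) (nat_lit 296) (nat_lit 5) (nat_lit 306) (nat_lit 5) (nat_lit 307) (nat_lit 5) (nat_lit 432) (nat_lit 424) (nat_lit 164)) (XT.lf (nat_lit 76) (nat_lit 122614661007) (nat_lit 0) (nat_lit 122621285379) (nat_lit 836) (nat_lit 61644935743) (nat_lit 297) (nat_lit 5) (nat_lit 296) (nat_lit 5) (nat_lit 307) (nat_lit 5) (nat_lit 433) (nat_lit 424) (nat_lit 163))) (XT.nd (nat_lit 78) (nat_lit 760) (nat_lit 0) (XT.lf (nat_lit 0) (nat_lit 275049552773) (nat_lit 760) (nat_lit 20025097497) (nat_lit 76) (nat_lit 20018243660) (nat_lit 297) (nat_lit 5) (nat_lit 307) (nat_lit 5) (nat_lit 298) (nat_lit 5) (nat_lit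 434) (nat_lit 424) (nat_lit 162)) (XT.lf (nat_lit 0) (nat_lit 155391350147) (nat_lit 760) (nat_lit 155398722947) (nat_lit 836) (nat_lit 12703621547) (nat_lit 287) (nat_lit 5) (nat_lit 297) (nat_lit 5) (nat_lit 298) (nat_lit 5) (nat_lit 435) (nat_lit 424) (nat_lit 161)))) (XT.nd (nat_lit 156) (nat_lit 380) (nat_lit 0) (XT.nd (nat_lit 78) (nat_lit 0) (nat_lit 0) (XT.lf (nat_lit 0) (nat_lit 7976098447) (nat_lit 456) (nat_lit 7983965498) (nat_lit 532) (nat_lit 316318519866) (nat_lit 280) (nat_lit 5) (nat_lit 286) (nat_lit 5) (nat_lit 287) (nat_lit 5) (nat_lit 436) (nat_lit 424) (nat_lit 160)) (XT.lf (nat_lit 0) (nat_lit 50815513490) (nat_lit 532) (nat_lit 145212728318) (nat_lit 76) (nat_lit 145204787588) (nat_lit 280) (nat_lit 5) (nat_lit 287) (nat_lit 5) (nat_lit 281) (nat_lit 5) (nat_lit 437) (nat_lit 424) (nat_lit 159))) (XT.nd (nat_lit 78) (nat_lit 0) (nat_lit 0) (XT.lf (nat_lit 0) (nat_lit 44112465156)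 (nat_lit 380) (nat_lit 44120832838) (nat_lit 456) (nat_lit 262360921143) (nat_lit 275) (nat_lit 5) (nat_lit 280) (nat_lit 5) (nat_lit 281) (nat_lit 5) (nat_lit 438) (nat_lit 424) (nat_lit 158)) (XT.lf (nat_lit 0) (nat_lit 131822930553) (nat_lit 456) (nat_lit 114196923175) (nat_lit 76) (nat_lit 114188566696) (nat_lit 275) (nat_lit 5) (nat_lit 281) (nat_lit 5) (nat_lit 276) (nat_lit 5) (nat_lit 439) (nat_lit 424) (nat_lit 157))))) (XT.nd (nat_lit 312) (nat_lit 988) (nat_lit 0) (XT.nd (nat_lit 156) (nat_lit 304) (nat_lit 0) (XT.nd (nat_lit 78) (nat_lit 0) (nat_lit 0) (XT.lf (nat_lit 0) (nat_lit 89854728879) (nat_lit 380) (nat_lit 89863454175) (nat_lit 456) (nat_lit 190478841804) (nat_lit 270) (nat_lit 5) (nat_lit 275) (nat_lit 5) (nat_lit 276) (nat_lit 5) (nat_lit 440) (nat_lit 424) (nat_lit 156)) (XT.lf (nat_lit 0) (nat_lit 233130766529) (nat_lit 456) (nat_lit 73703404452) (nat_lit 76) (nat_lit 73694760117)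 (nat_lit 270) (nat_lit 5) (nat_lit 276) (nat_lit 5) (nat_lit 271) (nat_lit 5) (nat_lit 441) (nat_lit 424) (nat_lit 155))) (XT.nd (nat_lit 78) (nat_lit 0) (nat_lit 0) (XT.lf (nat_lit 0) (nat_lit 146482577967) (nat_lit 304) (nat_lit 146491540900) (nat_lit 380) (nat_lit 98215306796) (nat_lit 266) (nat_lit 5) (nat_lit 270) (nat_lit 5) (nat_lit 271) (nat_lit 5) (nat_lit 442) (nat_lit 424) (nat_lit 154)) (XT.lf (nat_lit 0) (nat_lit 357419693942) (nat_lit 380) (nat_lit 22445786683) (nat_lit 76) (nat_lit 22436961578) (nat_lit 266) (nat_lit 5) (nat_lit 271) (nat_lit 5) (nat_lit 267) (nat_lit 5) (nat_lit 443) (nat_lit 424) (nat_lit 153)))) (XT.nd (nat_lit 156) (nat_lit 304) (nat_lit 0) (XT.nd (nat_lit 78) (nat_lit 304) (nat_lit 0) (XT.lf (nat_lit 0) (nat_lit 16619951066) (nat_lit 380) (nat_lit 198529307736) (nat_lit 76) (nat_lit 198520207414) (nat_lit 261) (nat_lit 5) (nat_lit 266) (nat_lit 5) (nat_lit 262)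 (nat_lit 5) (nat_lit 444) (nat_lit 424) (nat_lit 152)) (XT.lf (nat_lit 0) (nat_lit 40348173025) (nat_lit 304) (nat_lit 40357535459) (nat_lit 380) (nat_lit 344811529919) (nat_lit 257) (nat_lit 5) (nat_lit 261) (nat_lit 5) (nat_lit 262) (nat_lit 5) (nat_lit 445) (nat_lit 424) (nat_lit 151))) (XT.nd (nat_lit 78) (nat_lit 304) (nat_lit 0) (XT.lf (nat_lit 0) (nat_lit 153648374024) (nat_lit 380) (nat_lit 142017774254) (nat_lit 76) (nat_lit 142008619907) (nat_lit 257) (nat_lit 5) (nat_lit 262) (nat_lit 5) (nat_lit 258) (nat_lit 5) (nat_lit 446) (nat_lit 424) (nat_lit 150)) (XT.lf (nat_lit 0) (nat_lit 116353482545) (nat_lit 304) (nat_lit 116362863313) (nat_lit 380) (nat_lit 217599919949) (nat_lit 253) (nat_lit 5) (nat_lit 257) (nat_lit 5) (nat_lit 258) (nat_lit 5) (nat_lit 447) (nat_lit 424) (nat_lit 149)))))) (XT.nd (nat_lit 624) (nat_lit 836) (nat_lit 0) (XT.nd (nat_lit 312) (nat_lit 760) (nat_lit 0)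 (XT.nd (nat_lit 156) (nat_lit 380) (nat_lit 0) (XT.nd (nat_lit 78) (nat_lit 228) (nat_lit 0) (XT.lf (nat_lit 0) (nat_lit 319304903080) (nat_lit 380) (nat_lit 72057857663) (nat_lit 76) (nat_lit 72048718227) (nat_lit 253) (nat_lit 5) (nat_lit 258) (nat_lit 5) (nat_lit 254) (nat_lit 5) (nat_lit 448) (nat_lit 424) (nat_lit 148)) (XT.lf (nat_lit 0) (nat_lit 207681804137) (nat_lit 228) (nat_lit 207691139166) (nat_lit 304) (nat_lit 61531006730) (nat_lit 250) (nat_lit 5) (nat_lit 253) (nat_lit 5) (nat_lit 254) (nat_lit 5) (nat_lit 449) (nat_lit 424) (nat_lit 147))) (XT.nd (nat_lit 78) (nat_lit 0) (nat_lit 0) (XT.lf (nat_lit 0) (nat_lit 12899916008) (nat_lit 304) (nat_lit 12909437314) (nat_lit 380) (nat_lit 465169954181) (nat_lit 245) (nat_lit 5) (nat_lit 249) (nat_lit 5) (nat_lit 250) (nat_lit 5) (nat_lit 450) (nat_lit 424) (nat_lit 146)) (XT.lf (nat_lit 0) (nat_lit 123074601042) (nat_lit 380) (nat_lit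 191130673837) (nat_lit 76) (nat_lit 191121436966) (nat_lit 245) (nat_lit 5) (nat_lit 250) (nat_lit 5) (nat_lit 246) (nat_lit 5) (nat_lit 451) (nat_lit 424) (nat_lit 145)))) (XT.nd (nat_lit 156) (nat_lit 532) (nat_lit 0) (XT.nd (nat_lit 78) (nat_lit 0) (nat_lit 0) (XT.lf (nat_lit 0) (nat_lit 113589383247) (nat_lit 228) (nat_lit 113598781031) (nat_lit 304) (nat_lit 293104069471) (nat_lit 242) (nat_lit 5) (nat_lit 245) (nat_lit 5) (nat_lit 246) (nat_lit 5) (nat_lit 452) (nat_lit 424) (nat_lit 144)) (XT.lf (nat_lit 0) (nat_lit 341312370517) (nat_lit 304) (nat_lit 97231254606) (nat_lit 76) (nat_lit 97222158382) (nat_lit 242) (nat_lit 5) (nat_lit 246) (nat_lit 5) (nat_lit 243) (nat_lit 5) (nat_lit 453) (nat_lit 424) (nat_lit 143))) (XT.nd (nat_lit 78) (nat_lit 304) (nat_lit 0) (XT.lf (nat_lit 0) (nat_lit 233319285481) (nat_lit 228) (nat_lit 233328520709) (nat_lit 304) (nat_lit 85089953604) (nat_lit 239)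 (nat_lit 5) (nat_lit 242) (nat_lit 5) (nat_lit 243) (nat_lit 5) (nat_lit 454) (nat_lit 424) (nat_lit 142)) (XT.lf (nat_lit 0) (nat_lit 15346813757) (nat_lit 228) (nat_lit 15356181369) (nat_lit 304) (nat_lit 537686460430) (nat_lit 235) (nat_lit 5) (nat_lit 238) (nat_lit 5) (nat_lit 239) (nat_lit 5) (nat_lit 455) (nat_lit 424) (nat_lit 141))))) (XT.nd (nat_lit 312) (nat_lit 456) (nat_lit 0) (XT.nd (nat_lit 156) (nat_lit 152) (nat_lit 0) (XT.nd (nat_lit 78) (nat_lit 228) (nat_lit 0) (XT.lf (nat_lit 0) (nat_lit 158240525374) (nat_lit 304) (nat_lit 213565890379) (nat_lit 76) (nat_lit 213556848767) (nat_lit 235) (nat_lit 5) (nat_lit 239) (nat_lit 5) (nat_lit 236) (nat_lit 5) (nat_lit 456) (nat_lit 424) (nat_lit 140)) (XT.lf (nat_lit 0) (nat_lit 147349012860) (nat_lit 228) (nat_lit 147358168830) (nat_lit 304) (nat_lit 308350969763) (nat_lit 232) (nat_lit 5) (nat_lit 235) (nat_lit 5) (nat_lit 236) (nat_lit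 5) (nat_lit 457) (nat_lit 424) (nat_lit 139))) (XT.nd (nat_lit 78) (nat_lit 152) (nat_lit 0) (XT.lf (nat_lit 0) (nat_lit 443052088676) (nat_lit 304) (nat_lit 89170885931) (nat_lit 76) (nat_lit 89162062233) (nat_lit 232) (nat_lit 5) (nat_lit 236) (nat_lit 5) (nat_lit 233) (nat_lit 5) (nat_lit 458) (nat_lit 424) (nat_lit 138)) (XT.lf (nat_lit 0) (nat_lit 302975652235) (nat_lit 152) (nat_lit 302984574720) (nat_lit 228) (nat_lit 34310740245) (nat_lit 230) (nat_lit 5) (nat_lit 232) (nat_lit 5) (nat_lit 233) (nat_lit 5) (nat_lit 459) (nat_lit 424) (nat_lit 137)))) (XT.nd (nat_lit 156) (nat_lit 152) (nat_lit 0) (XT.nd (nat_lit 78) (nat_lit 0) (nat_lit 0) (XT.lf (nat_lit 0) (nat_lit 57799464290) (nat_lit 228) (nat_lit 57808480858) (nat_lit 304) (nat_lit 544280117295) (nat_lit 226) (nat_lit 5) (nat_lit 229) (nat_lit 5) (nat_lit 230) (nat_lit 5) (nat_lit 460) (nat_lit 424) (nat_lit 136)) (XT.lf (nat_lit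 0) (nat_lit 280792109439) (nat_lit 304) (nat_lit 199614160735) (nat_lit 76) (nat_lit 199605488191) (nat_lit 226) (nat_lit 5) (nat_lit 230) (nat_lit 5) (nat_lit 227) (nat_lit 5) (nat_lit 461) (nat_lit 424) (nat_lit 135))) (XT.nd (nat_lit 78) (nat_lit 0) (nat_lit 0) (XT.lf (nat_lit 0) (nat_lit 229377809620) (nat_lit 152) (nat_lit 229386563436) (nat_lit 228) (nat_lit 242150821473) (nat_lit 224) (nat_lit 5) (nat_lit 226) (nat_lit 5) (nat_lit 227) (nat_lit 5) (nat_lit 462) (nat_lit 424) (nat_lit 134)) (XT.lf (nat_lit 0) (nat_lit 649604922271) (nat_lit 228) (nat_lit 36534403646) (nat_lit 76) (nat_lit 36525992962) (nat_lit 224) (nat_lit 5) (nat_lit 227) (nat_lit 5) (nat_lit 225) (nat_lit 5) (nat_lit 463) (nat_lit 424) (nat_lit 133))))))))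
noncomputable def xc322 : XT := (XT.nd (nat_lit 1248) (nat_lit 76) (nat_lit 0) (XT.nd (nat_lit 624) (nat_lit 912) (nat_lit 0) (XT.nd (nat_lit 312) (nat_lit 380) (nat_lit 0) (XT.nd (nat_lit 156) (nat_lit 152) (nat_lit 0) (XT.nd (nat_lit 78) (nat_lit 152) (nat_lit 0) (XT.lf (nat_lit 0) (nat_lit 111789639477) (nat_lit 228) (nat_lit 316553881813) (nat_lit 76) (nat_lit 316545400923) (nat_lit 221) (nat_lit 5) (nat_lit 224) (nat_lit 5) (nat_lit 222) (nat_lit 5) (nat_lit 464) (nat_lit 424) (nat_lit 132)) (XT.lf (nat_lit 0) (nat_lit 153219681321) (nat_lit 152) (nat_lit 153228229075) (nat_lit 228) (nat_lit 461564857672) (nat_lit 219) (nat_lit 5) (nat_lit 221) (nat_lit 5) (nat_lit 222) (nat_lit 5) (nat_lit 465) (nat_lit 424) (nat_lit 131))) (XT.nd (nat_lit 78) (nat_lit 152) (nat_lit 0) (XT.lf (nat_lit 0) (nat_lit 518405719978) (nat_lit 228) (nat_lit 136758478174) (nat_lit 76) (nat_lit 136750276809) (nat_lit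 219) (nat_lit 5) (nat_lit 222) (nat_lit 5) (nat_lit 220) (nat_lit 5) (nat_lit 466) (nat_lit 424) (nat_lit 130)) (XT.lf (nat_lit 0) (nat_lit 374657265994) (nat_lit 152) (nat_lit 374665525117) (nat_lit 228) (nat_lit 67270407533) (nat_lit 217) (nat_lit 5) (nat_lit 219) (nat_lit 5) (nat_lit 220) (nat_lit 5) (nat_lit 467) (nat_lit 424) (nat_lit 129)))) (XT.nd (nat_lit 156) (nat_lit 152) (nat_lit 0) (XT.nd (nat_lit 78) (nat_lit 0) (nat_lit 0) (XT.lf (nat_lit 0) (nat_lit 74001524552) (nat_lit 152) (nat_lit 74009838684) (nat_lit 228) (nat_lit 694202491748) (nat_lit 214) (nat_lit 5) (nat_lit 216) (nat_lit 5) (nat_lit 217) (nat_lit 5) (nat_lit 468) (nat_lit 424) (nat_lit 128)) (XT.lf (nat_lit 0) (nat_lit 383176853665) (nat_lit 228) (nat_lit 242661250508) (nat_lit 76) (nat_lit 242653282393) (nat_lit 214) (nat_lit 5) (nat_lit 217) (nat_lit 5) (nat_lit 215) (nat_lit 5) (nat_lit 469) (nat_lit 424) (nat_lit 127)))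 (XT.nd (nat_lit 78) (nat_lit 0) (nat_lit 0) (XT.lf (nat_lit 0) (nat_lit 318136432181) (nat_lit 152) (nat_lit 318144447814) (nat_lit 228) (nat_lit 259492901660) (nat_lit 212) (nat_lit 5) (nat_lit 214) (nat_lit 5) (nat_lit 215) (nat_lit 5) (nat_lit 470) (nat_lit 424) (nat_lit 126)) (XT.lf (nat_lit 0) (nat_lit 906294079671) (nat_lit 228) (nat_lit 8960597633) (nat_lit 76) (nat_lit 8952920597) (nat_lit 212) (nat_lit 5) (nat_lit 215) (nat_lit 5) (nat_lit 213) (nat_lit 4) (nat_lit 471) (nat_lit 424) (nat_lit 125))))) (XT.nd (nat_lit 312) (nat_lit 456) (nat_lit 0) (XT.nd (nat_lit 156) (nat_lit 152) (nat_lit 0) (XT.nd (nat_lit 78) (nat_lit 152) (nat_lit 0) (XT.lf (nat_lit 0) (nat_lit 243056797582) (nat_lit 152) (nat_lit 355043565037) (nat_lit 76) (nat_lit 355035846953) (nat_lit 210) (nat_lit 5) (nat_lit 212) (nat_lit 5) (nat_lit 211) (nat_lit 5) (nat_lit 472) (nat_lit 424) (nat_lit 124)) (XT.lf (nat_lit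 0) (nat_lit 260342379651) (nat_lit 152) (nat_lit 260350136829) (nat_lit 228) (nat_lit 462593107187) (nat_lit 208) (nat_lit 5) (nat_lit 210) (nat_lit 5) (nat_lit 211) (nat_lit 5) (nat_lit 473) (nat_lit 424) (nat_lit 123))) (XT.nd (nat_lit 78) (nat_lit 152) (nat_lit 0) (XT.lf (nat_lit 0) (nat_lit 819793505775) (nat_lit 228) (nat_lit 97388625858) (nat_lit 76) (nat_lit 97381202611) (nat_lit 208) (nat_lit 5) (nat_lit 211) (nat_lit 5) (nat_lit 209) (nat_lit 4) (nat_lit 474) (nat_lit 424) (nat_lit 122)) (XT.lf (nat_lit 0) (nat_lit 97117075479) (nat_lit 152) (nat_lit 474777934157) (nat_lit 76) (nat_lit 474770477139) (nat_lit 206) (nat_lit 5) (nat_lit 208) (nat_lit 5) (nat_lit 207) (nat_lit 5) (nat_lit 475) (nat_lit 424) (nat_lit 121)))) (XT.nd (nat_lit 156) (nat_lit 304) (nat_lit 0) (XT.nd (nat_lit 78) (nat_lit 0) (nat_lit 0) (XT.lf (nat_lit 0) (nat_lit 200929354931) (nat_lit 152) (nat_lit 200936844111)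 (nat_lit 228) (nat_lit 678106229598) (nat_lit 204) (nat_lit 5) (nat_lit 206) (nat_lit 5) (nat_lit 207) (nat_lit 5) (nat_lit 476) (nat_lit 424) (nat_lit 120)) (XT.lf (nat_lit 0) (nat_lit 732969265993) (nat_lit 228) (nat_lit 190713394485) (nat_lit 76) (nat_lit 190706232760) (nat_lit 204) (nat_lit 5) (nat_lit 207) (nat_lit 5) (nat_lit 205) (nat_lit 4) (nat_lit 477) (nat_lit 424) (nat_lit 119))) (XT.nd (nat_lit 78) (nat_lit 228) (nat_lit 0) (XT.lf (nat_lit 0) (nat_lit 546221186795) (nat_lit 76) (nat_lit 546228376302) (nat_lit 152) (nat_lit 57485514129) (nat_lit 203) (nat_lit 5) (nat_lit 204) (nat_lit 5) (nat_lit 205) (nat_lit 4) (nat_lit 478) (nat_lit 424) (nat_lit 118)) (XT.lf (nat_lit 0) (nat_lit 139526415198) (nat_lit 152) (nat_lit 139533631165) (nat_lit 228) (nat_lit 907704821954) (nat_lit 200) (nat_lit 5) (nat_lit 202) (nat_lit 5) (nat_lit 203) (nat_lit 5) (nat_lit 479) (nat_lit 424) (nat_lit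 117)))))) (XT.nd (nat_lit 49296) (nat_lit 0) (nat_lit 6156) (XT.nd (nat_lit 48984) (nat_lit 0) (nat_lit 7144) (XT.nd (nat_lit 48828) (nat_lit 0) (nat_lit 7068) (XT.nd (nat_lit 78) (nat_lit 76) (nat_lit 0) (XT.lf (nat_lit 0) (nat_lit 645381393870) (nat_lit 228) (nat_lit 289635256103) (nat_lit 76) (nat_lit 289628359753) (nat_lit 200) (nat_lit 5) (nat_lit 203) (nat_lit 5) (nat_lit 201) (nat_lit 4) (nat_lit 480) (nat_lit 424) (nat_lit 116)) (XT.lf (nat_lit 0) (nat_lit 520210629684) (nat_lit 76) (nat_lit 520217548891) (nat_lit 152) (nat_lit 223470511141) (nat_lit 199) (nat_lit 5) (nat_lit 200) (nat_lit 5) (nat_lit 201) (nat_lit 4) (nat_lit 481) (nat_lit 424) (nat_lit 115))) (XT.nd (nat_lit 78) (nat_lit 0) (nat_lit 0) (XT.lf (nat_lit 0) (nat_lit 60340891572) (nat_lit 836) (nat_lit 33992671371) (nat_lit 836) (nat_lit 33992671371) (nat_lit 292) (nat_lit 3) (nat_lit 303) (nat_lit 3) (nat_lit 303) (nat_lit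 5) (nat_lit 425) (nat_lit 425) (nat_lit 170)) (XT.lf (nat_lit 76) (nat_lit 62336033955) (nat_lit 0) (nat_lit 62337012537) (nat_lit 836) (nat_lit 138347022916) (nat_lit 293) (nat_lit 5) (nat_lit 292) (nat_lit 3) (nat_lit 303) (nat_lit 5) (nat_lit 426) (nat_lit 425) (nat_lit 169)))) (XT.nd (nat_lit 156) (nat_lit 0) (nat_lit 76) (XT.nd (nat_lit 78) (nat_lit 0) (nat_lit 0) (XT.lf (nat_lit 0) (nat_lit 131131779798) (nat_lit 760) (nat_lit 69231347337) (nat_lit 836) (nat_lit 69229527750) (nat_lit 293) (nat_lit 5) (nat_lit 303) (nat_lit 5) (nat_lit 304) (nat_lit 5) (nat_lit 427) (nat_lit 425) (nat_lit 168)) (XT.lf (nat_lit 76) (nat_lit 70012870234) (nat_lit 0) (nat_lit 70015535157) (nat_lit 836) (nat_lit 136359716462) (nat_lit 294) (nat_lit 5) (nat_lit 293) (nat_lit 5) (nat_lit 304) (nat_lit 5) (nat_lit 428) (nat_lit 425) (nat_lit 167))) (XT.nd (nat_lit 78) (nat_lit 0) (nat_lit 0) (XT.lf (nat_lit 0) (nat_lit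 151605199352) (nat_lit 760) (nat_lit 65904850366) (nat_lit 836) (nat_lit 65901545599) (nat_lit 294) (nat_lit 5) (nat_lit 304) (nat_lit 5) (nat_lit 305) (nat_lit 5) (nat_lit 429) (nat_lit 425) (nat_lit 166)) (XT.lf (nat_lit 76) (nat_lit 83100989316) (nat_lit 0) (nat_lit 83105024316) (nat_lit 836) (nat_lit 124457969792) (nat_lit 295) (nat_lit 5) (nat_lit 294) (nat_lit 5) (nat_lit 305) (nat_lit 5) (nat_lit 430) (nat_lit 425) (nat_lit 165))))) (XT.nd (nat_lit 312) (nat_lit 1140) (nat_lit 0) (XT.nd (nat_lit 156) (nat_lit 0) (nat_lit 76) (XT.nd (nat_lit 78) (nat_lit 0) (nat_lit 0) (XT.lf (nat_lit 0) (nat_lit 183577103031) (nat_lit 760) (nat_lit 57302190692) (nat_lit 836) (nat_lit 57297685491) (nat_lit 295) (nat_lit 5) (nat_lit 305) (nat_lit 5) (nat_lit 306) (nat_lit 5) (nat_lit 431) (nat_lit 425) (nat_lit 164)) (XT.lf (nat_lit 76) (nat_lit 102386237419) (nat_lit 0) (nat_lit 102391373423) (nat_lit 836)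 (nat_lit 101139970755) (nat_lit 296) (nat_lit 5) (nat_lit 295) (nat_lit 5) (nat_lit 306) (nat_lit 5) (nat_lit 432) (nat_lit 425) (nat_lit 163))) (XT.nd (nat_lit 78) (nat_lit 0) (nat_lit 0) (XT.lf (nat_lit 0) (nat_lit 228696123076) (nat_lit 760) (nat_lit 42635827830) (nat_lit 836) (nat_lit 42630364241) (nat_lit 296) (nat_lit 5) (nat_lit 306) (nat_lit 5) (nat_lit 307) (nat_lit 5) (nat_lit 433) (nat_lit 425) (nat_lit 162)) (XT.lf (nat_lit 76) (nat_lit 128746574499) (nat_lit 0) (nat_lit 128752582999) (nat_lit 836) (nat_lit 64725698048) (nat_lit 297) (nat_lit 5) (nat_lit 296) (nat_lit 5) (nat_lit 307) (nat_lit 5) (nat_lit 434) (nat_lit 425) (nat_lit 161)))) (XT.nd (nat_lit 156) (nat_lit 532) (nat_lit 0) (XT.nd (nat_lit 78) (nat_lit 760) (nat_lit 0) (XT.lf (nat_lit 0) (nat_lit 288803373411) (nat_lit 760) (nat_lit 21025157349) (nat_lit 76) (nat_lit 21018940717) (nat_lit 297) (nat_lit 5) (nat_lit 307)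 (nat_lit 5) (nat_lit 298) (nat_lit 5) (nat_lit 435) (nat_lit 425) (nat_lit 160)) (XT.lf (nat_lit 0) (nat_lit 163162093403) (nat_lit 760) (nat_lit 163168780750) (nat_lit 836) (nat_lit 13337440351) (nat_lit 287) (nat_lit 5) (nat_lit 297) (nat_lit 5) (nat_lit 298) (nat_lit 5) (nat_lit 436) (nat_lit 425) (nat_lit 159))) (XT.nd (nat_lit 78) (nat_lit 0) (nat_lit 0) (XT.lf (nat_lit 0) (nat_lit 8376103052) (nat_lit 456) (nat_lit 8383238699) (nat_lit 532) (nat_lit 332133107520) (nat_lit 280) (nat_lit 5) (nat_lit 286) (nat_lit 5) (nat_lit 287) (nat_lit 5) (nat_lit 437) (nat_lit 425) (nat_lit 158)) (XT.lf (nat_lit 0) (nat_lit 53357501964) (nat_lit 532) (nat_lit 152472160369) (nat_lit 76) (nat_lit 152464957893) (nat_lit 280) (nat_lit 5) (nat_lit 287) (nat_lit 5) (nat_lit 281) (nat_lit 5) (nat_lit 438) (nat_lit 425) (nat_lit 157)))))))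
noncomputable def xc323 : XT := (XT.nd (nat_lit 1248) (nat_lit 2280) (nat_lit 0) (XT.nd (nat_lit 624) (nat_lit 1140) (nat_lit 0) (XT.nd (nat_lit 312) (nat_lit 988) (nat_lit 0) (XT.nd (nat_lit 156) (nat_lit 380) (nat_lit 0) (XT.nd (nat_lit 78) (nat_lit 0) (nat_lit 0) (XT.lf (nat_lit 0) (nat_lit 46319273353) (nat_lit 380) (nat_lit 46326863087) (nat_lit 456) (nat_lit 275477734976) (nat_lit 275) (nat_lit 5) (nat_lit 280) (nat_lit 5) (nat_lit 281) (nat_lit 5) (nat_lit 439) (nat_lit 425) (nat_lit 156)) (XT.lf (nat_lit 0) (nat_lit 138415194914) (nat_lit 456) (nat_lit 119905585106) (nat_lit 76) (nat_lit 119898005533) (nat_lit 275) (nat_lit 5) (nat_lit 281) (nat_lit 5) (nat_lit 276) (nat_lit 5) (nat_lit 440) (nat_lit 425) (nat_lit 155))) (XT.nd (nat_lit 78) (nat_lit 0) (nat_lit 0) (XT.lf (nat_lit 0) (nat_lit 94348630450) (nat_lit 380) (nat_lit 94356544551) (nat_lit 456) (nat_lit 200001646961) (nat_lit 270)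 (nat_lit 5) (nat_lit 275) (nat_lit 5) (nat_lit 276) (nat_lit 5) (nat_lit 441) (nat_lit 425) (nat_lit 154)) (XT.lf (nat_lit 0) (nat_lit 244788337312) (nat_lit 456) (nat_lit 77387414692) (nat_lit 76) (nat_lit 77379574026) (nat_lit 270) (nat_lit 5) (nat_lit 276) (nat_lit 5) (nat_lit 271) (nat_lit 5) (nat_lit 442) (nat_lit 425) (nat_lit 153)))) (XT.nd (nat_lit 156) (nat_lit 684) (nat_lit 0) (XT.nd (nat_lit 78) (nat_lit 0) (nat_lit 0) (XT.lf (nat_lit 0) (nat_lit 153807848139) (nat_lit 304) (nat_lit 153815977783) (nat_lit 380) (nat_lit 103125020970) (nat_lit 266) (nat_lit 5) (nat_lit 270) (nat_lit 5) (nat_lit 271) (nat_lit 5) (nat_lit 443) (nat_lit 425) (nat_lit 152)) (XT.lf (nat_lit 0) (nat_lit 375291634161) (nat_lit 380) (nat_lit 23566943503) (nat_lit 76) (nat_lit 23558938873) (nat_lit 266) (nat_lit 5) (nat_lit 271) (nat_lit 5) (nat_lit 267) (nat_lit 5) (nat_lit 444) (nat_lit 425) (nat_lit 151))) (XT.nd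 (nat_lit 78) (nat_lit 304) (nat_lit 0) (XT.lf (nat_lit 0) (nat_lit 17451891241) (nat_lit 380) (nat_lit 208454627707) (nat_lit 76) (nat_lit 208446373447) (nat_lit 261) (nat_lit 5) (nat_lit 266) (nat_lit 5) (nat_lit 262) (nat_lit 5) (nat_lit 445) (nat_lit 425) (nat_lit 150)) (XT.lf (nat_lit 0) (nat_lit 42366708617) (nat_lit 304) (nat_lit 42375200620) (nat_lit 380) (nat_lit 362051145318) (nat_lit 257) (nat_lit 5) (nat_lit 261) (nat_lit 5) (nat_lit 262) (nat_lit 5) (nat_lit 446) (nat_lit 425) (nat_lit 149))))) (XT.nd (nat_lit 312) (nat_lit 608) (nat_lit 0) (XT.nd (nat_lit 156) (nat_lit 228) (nat_lit 0) (XT.nd (nat_lit 78) (nat_lit 304) (nat_lit 0) (XT.lf (nat_lit 0) (nat_lit 161331667614) (nat_lit 380) (nat_lit 149117549249) (nat_lit 76) (nat_lit 149109245987) (nat_lit 257) (nat_lit 5) (nat_lit 262) (nat_lit 5) (nat_lit 258) (nat_lit 5) (nat_lit 447) (nat_lit 425) (nat_lit 148)) (XT.lf (nat_lit 0)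 (nat_lit 122172252426) (nat_lit 304) (nat_lit 122180761060) (nat_lit 380) (nat_lit 228479023094) (nat_lit 253) (nat_lit 5) (nat_lit 257) (nat_lit 5) (nat_lit 258) (nat_lit 5) (nat_lit 448) (nat_lit 425) (nat_lit 147))) (XT.nd (nat_lit 78) (nat_lit 228) (nat_lit 0) (XT.lf (nat_lit 0) (nat_lit 335270961726) (nat_lit 380) (nat_lit 75659670128) (nat_lit 76) (nat_lit 75651380389) (nat_lit 253) (nat_lit 5) (nat_lit 258) (nat_lit 5) (nat_lit 254) (nat_lit 5) (nat_lit 449) (nat_lit 425) (nat_lit 146)) (XT.lf (nat_lit 0) (nat_lit 218066957337) (nat_lit 228) (nat_lit 218075424482) (nat_lit 304) (nat_lit 64606726148) (nat_lit 250) (nat_lit 5) (nat_lit 253) (nat_lit 5) (nat_lit 254) (nat_lit 5) (nat_lit 450) (nat_lit 425) (nat_lit 145)))) (XT.nd (nat_lit 156) (nat_lit 228) (nat_lit 0) (XT.nd (nat_lit 78) (nat_lit 0) (nat_lit 0) (XT.lf (nat_lit 0) (nat_lit 13545983821) (nat_lit 304) (nat_lit 13554619927) (nat_lit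 380) (nat_lit 488427629992) (nat_lit 245) (nat_lit 5) (nat_lit 249) (nat_lit 5) (nat_lit 250) (nat_lit 5) (nat_lit 451) (nat_lit 425) (nat_lit 144)) (XT.lf (nat_lit 0) (nat_lit 129229080881) (nat_lit 380) (nat_lit 200686153590) (nat_lit 76) (nat_lit 200677775477) (nat_lit 245) (nat_lit 5) (nat_lit 250) (nat_lit 5) (nat_lit 246) (nat_lit 5) (nat_lit 452) (nat_lit 425) (nat_lit 143))) (XT.nd (nat_lit 78) (nat_lit 0) (nat_lit 0) (XT.lf (nat_lit 0) (nat_lit 119269889348) (nat_lit 228) (nat_lit 119278413415) (nat_lit 304) (nat_lit 307758506159) (nat_lit 242) (nat_lit 5) (nat_lit 245) (nat_lit 5) (nat_lit 246) (nat_lit 5) (nat_lit 453) (nat_lit 425) (nat_lit 142)) (XT.lf (nat_lit 0) (nat_lit 358378689100) (nat_lit 304) (nat_lit 102091799561) (nat_lit 76) (nat_lit 102083549017) (nat_lit 242) (nat_lit 5) (nat_lit 246) (nat_lit 5) (nat_lit 243) (nat_lit 5) (nat_lit 454) (nat_lit 425) (nat_lit 141))))))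 (XT.nd (nat_lit 624) (nat_lit 1064) (nat_lit 0) (XT.nd (nat_lit 312) (nat_lit 456) (nat_lit 0) (XT.nd (nat_lit 156) (nat_lit 228) (nat_lit 0) (XT.nd (nat_lit 78) (nat_lit 304) (nat_lit 0) (XT.lf (nat_lit 0) (nat_lit 244986251115) (nat_lit 228) (nat_lit 244994627739) (nat_lit 304) (nat_lit 89343734811) (nat_lit 239) (nat_lit 5) (nat_lit 242) (nat_lit 5) (nat_lit 243) (nat_lit 5) (nat_lit 455) (nat_lit 425) (nat_lit 140)) (XT.lf (nat_lit 0) (nat_lit 16115162216) (nat_lit 228) (nat_lit 16123658916) (nat_lit 304) (nat_lit 564570073390) (nat_lit 235) (nat_lit 5) (nat_lit 238) (nat_lit 5) (nat_lit 239) (nat_lit 5) (nat_lit 456) (nat_lit 425) (nat_lit 139))) (XT.nd (nat_lit 78) (nat_lit 228) (nat_lit 0) (XT.lf (nat_lit 0) (nat_lit 166153200619) (nat_lit 304) (nat_lit 224243197843) (nat_lit 76) (nat_lit 224234996835) (nat_lit 235) (nat_lit 5) (nat_lit 239) (nat_lit 5) (nat_lit 236) (nat_lit 5) (nat_lit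 457) (nat_lit 425) (nat_lit 138)) (XT.lf (nat_lit 0) (nat_lit 154717434638) (nat_lit 228) (nat_lit 154725739373) (nat_lit 304) (nat_lit 323767853354) (nat_lit 232) (nat_lit 5) (nat_lit 235) (nat_lit 5) (nat_lit 236) (nat_lit 5) (nat_lit 458) (nat_lit 425) (nat_lit 137)))) (XT.nd (nat_lit 156) (nat_lit 304) (nat_lit 0) (XT.nd (nat_lit 78) (nat_lit 152) (nat_lit 0) (XT.lf (nat_lit 0) (nat_lit 465205301216) (nat_lit 304) (nat_lit 93628480208) (nat_lit 76) (nat_lit 93620476854) (nat_lit 232) (nat_lit 5) (nat_lit 236) (nat_lit 5) (nat_lit 233) (nat_lit 5) (nat_lit 459) (nat_lit 425) (nat_lit 136)) (XT.lf (nat_lit 0) (nat_lit 318125369544) (nat_lit 152) (nat_lit 318133462501) (nat_lit 228) (nat_lit 36025653829) (nat_lit 230) (nat_lit 5) (nat_lit 232) (nat_lit 5) (nat_lit 233) (nat_lit 5) (nat_lit 460) (nat_lit 425) (nat_lit 135))) (XT.nd (nat_lit 78) (nat_lit 0) (nat_lit 0) (XT.lf (nat_lit 0) (nat_lit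 60690376757) (nat_lit 228) (nat_lit 60698555050) (nat_lit 304) (nat_lit 571493504287) (nat_lit 226) (nat_lit 5) (nat_lit 229) (nat_lit 5) (nat_lit 230) (nat_lit 5) (nat_lit 461) (nat_lit 425) (nat_lit 134)) (XT.lf (nat_lit 0) (nat_lit 294832281449) (nat_lit 304) (nat_lit 209593951381) (nat_lit 76) (nat_lit 209586085128) (nat_lit 226) (nat_lit 5) (nat_lit 230) (nat_lit 5) (nat_lit 227) (nat_lit 5) (nat_lit 462) (nat_lit 425) (nat_lit 133))))) (XT.nd (nat_lit 312) (nat_lit 532) (nat_lit 0) (XT.nd (nat_lit 156) (nat_lit 380) (nat_lit 0) (XT.nd (nat_lit 78) (nat_lit 0) (nat_lit 0) (XT.lf (nat_lit 0) (nat_lit 240847602696) (nat_lit 152) (nat_lit 240855542665) (nat_lit 228) (nat_lit 254257781213) (nat_lit 224) (nat_lit 5) (nat_lit 226) (nat_lit 5) (nat_lit 227) (nat_lit 5) (nat_lit 463) (nat_lit 425) (nat_lit 132)) (XT.lf (nat_lit 0) (nat_lit 682085700861) (nat_lit 228) (nat_lit 38360243039) (nat_lit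 76) (nat_lit 38352614300) (nat_lit 224) (nat_lit 5) (nat_lit 227) (nat_lit 5) (nat_lit 225) (nat_lit 5) (nat_lit 464) (nat_lit 425) (nat_lit 131))) (XT.nd (nat_lit 78) (nat_lit 152) (nat_lit 0) (XT.lf (nat_lit 0) (nat_lit 117379650635) (nat_lit 228) (nat_lit 332380691823) (nat_lit 76) (nat_lit 332372999405) (nat_lit 221) (nat_lit 5) (nat_lit 224) (nat_lit 5) (nat_lit 222) (nat_lit 5) (nat_lit 465) (nat_lit 425) (nat_lit 130)) (XT.lf (nat_lit 0) (nat_lit 160881535209) (nat_lit 152) (nat_lit 160889288273) (nat_lit 228) (nat_lit 484642557112) (nat_lit 219) (nat_lit 5) (nat_lit 221) (nat_lit 5) (nat_lit 222) (nat_lit 5) (nat_lit 466) (nat_lit 425) (nat_lit 129)))) (XT.nd (nat_lit 156) (nat_lit 380) (nat_lit 0) (XT.nd (nat_lit 78) (nat_lit 152) (nat_lit 0) (XT.lf (nat_lit 0) (nat_lit 544326504135) (nat_lit 228) (nat_lit 143595554273) (nat_lit 76) (nat_lit 143588115394) (nat_lit 219) (nat_lit 5) (nat_lit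 222) (nat_lit 5) (nat_lit 220) (nat_lit 5) (nat_lit 467) (nat_lit 425) (nat_lit 128)) (XT.lf (nat_lit 0) (nat_lit 393390963429) (nat_lit 152) (nat_lit 393398454697) (nat_lit 228) (nat_lit 70633416078) (nat_lit 217) (nat_lit 5) (nat_lit 219) (nat_lit 5) (nat_lit 220) (nat_lit 5) (nat_lit 468) (nat_lit 425) (nat_lit 127))) (XT.nd (nat_lit 78) (nat_lit 152) (nat_lit 0) (XT.lf (nat_lit 0) (nat_lit 77702437579) (nat_lit 152) (nat_lit 77709978741) (nat_lit 228) (nat_lit 728912107168) (nat_lit 214) (nat_lit 5) (nat_lit 216) (nat_lit 5) (nat_lit 217) (nat_lit 5) (nat_lit 469) (nat_lit 425) (nat_lit 126)) (XT.nd (nat_lit 78) (nat_lit 152) (nat_lit 0) (XT.lf (nat_lit 0) (nat_lit 402336163411) (nat_lit 228) (nat_lit 254793498222) (nat_lit 76) (nat_lit 254786270907) (nat_lit 214) (nat_lit 5) (nat_lit 217) (nat_lit 5) (nat_lit 215) (nat_lit 5) (nat_lit 470) (nat_lit 425) (nat_lit 125)) (XT.lf (nat_lit 0) (nat_lit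 334044055459) (nat_lit 152) (nat_lit 334051325875) (nat_lit 228) (nat_lit 272467066539) (nat_lit 212) (nat_lit 5) (nat_lit 214) (nat_lit 5) (nat_lit 215) (nat_lit 5) (nat_lit 471) (nat_lit 425) (nat_lit 124))))))))
noncomputable def xc324 : XT := (XT.nd (nat_lit 51246) (nat_lit 0) (nat_lit 304) (XT.nd (nat_lit 49998) (nat_lit 0) (nat_lit 4332) (XT.nd (nat_lit 624) (nat_lit 228) (nat_lit 0) (XT.nd (nat_lit 312) (nat_lit 380) (nat_lit 0) (XT.nd (nat_lit 156) (nat_lit 152) (nat_lit 0) (XT.nd (nat_lit 78) (nat_lit 152) (nat_lit 0) (XT.lf (nat_lit 0) (nat_lit 951609224334) (nat_lit 228) (nat_lit 9407847363) (nat_lit 76) (nat_lit 9400884065) (nat_lit 212) (nat_lit 5) (nat_lit 215) (nat_lit 5) (nat_lit 213) (nat_lit 4) (nat_lit 472) (nat_lit 425) (nat_lit 123)) (XT.lf (nat_lit 0) (nat_lit 255210076217) (nat_lit 152) (nat_lit 372794961213) (nat_lit 76) (nat_lit 372787960683) (nat_lit 210) (nat_lit 5) (nat_lit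 212) (nat_lit 5) (nat_lit 211) (nat_lit 5) (nat_lit 473) (nat_lit 425) (nat_lit 122))) (XT.nd (nat_lit 78) (nat_lit 0) (nat_lit 0) (XT.lf (nat_lit 0) (nat_lit 273360268095) (nat_lit 152) (nat_lit 273367304085) (nat_lit 228) (nat_lit 485722311177) (nat_lit 208) (nat_lit 5) (nat_lit 210) (nat_lit 5) (nat_lit 211) (nat_lit 5) (nat_lit 474) (nat_lit 425) (nat_lit 121)) (XT.lf (nat_lit 0) (nat_lit 860783595519) (nat_lit 228) (nat_lit 102257308909) (nat_lit 76) (nat_lit 102250575805) (nat_lit 208) (nat_lit 5) (nat_lit 211) (nat_lit 5) (nat_lit 209) (nat_lit 4) (nat_lit 475) (nat_lit 425) (nat_lit 120)))) (XT.nd (nat_lit 156) (nat_lit 76) (nat_lit 0) (XT.nd (nat_lit 78) (nat_lit 152) (nat_lit 0) (XT.lf (nat_lit 0) (nat_lit 101973342126) (nat_lit 152) (nat_lit 498516081040) (nat_lit 76) (nat_lit 498509317305) (nat_lit 206) (nat_lit 5) (nat_lit 208) (nat_lit 5) (nat_lit 207) (nat_lit 5) (nat_lit 476) (nat_lit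 425) (nat_lit 119)) (XT.lf (nat_lit 0) (nat_lit 210976560409) (nat_lit 152) (nat_lit 210983353316) (nat_lit 228) (nat_lit 712011116112) (nat_lit 204) (nat_lit 5) (nat_lit 206) (nat_lit 5) (nat_lit 207) (nat_lit 5) (nat_lit 477) (nat_lit 425) (nat_lit 118))) (XT.nd (nat_lit 78) (nat_lit 76) (nat_lit 0) (XT.lf (nat_lit 0) (nat_lit 769618119702) (nat_lit 228) (nat_lit 200248347287) (nat_lit 76) (nat_lit 200241851392) (nat_lit 204) (nat_lit 5) (nat_lit 207) (nat_lit 5) (nat_lit 205) (nat_lit 4) (nat_lit 478) (nat_lit 425) (nat_lit 117)) (XT.lf (nat_lit 0) (nat_lit 573532951493) (nat_lit 76) (nat_lit 573539472589) (nat_lit 152) (nat_lit 60359387864) (nat_lit 203) (nat_lit 5) (nat_lit 204) (nat_lit 5) (nat_lit 205) (nat_lit 4) (nat_lit 479) (nat_lit 425) (nat_lit 116))))) (XT.nd (nat_lit 49062) (nat_lit 0) (nat_lit 7068) (XT.nd (nat_lit 48906) (nat_lit 0) (nat_lit 6992) (XT.nd (nat_lit 78) (nat_lit 0)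 (nat_lit 0) (XT.lf (nat_lit 0) (nat_lit 146503442598) (nat_lit 152) (nat_lit 146509987693) (nat_lit 228) (nat_lit 953089662361) (nat_lit 200) (nat_lit 5) (nat_lit 202) (nat_lit 5) (nat_lit 203) (nat_lit 5) (nat_lit 480) (nat_lit 425) (nat_lit 115)) (XT.lf (nat_lit 0) (nat_lit 677650831835) (nat_lit 228) (nat_lit 304116332579) (nat_lit 76) (nat_lit 304110077386) (nat_lit 200) (nat_lit 5) (nat_lit 203) (nat_lit 5) (nat_lit 201) (nat_lit 4) (nat_lit 481) (nat_lit 425) (nat_lit 114))) (XT.nd (nat_lit 78) (nat_lit 0) (nat_lit 0) (XT.lf (nat_lit 0) (nat_lit 63358899455) (nat_lit 836) (nat_lit 35691799205) (nat_lit 836) (nat_lit 35691799205) (nat_lit 292) (nat_lit 3) (nat_lit 303) (nat_lit 3) (nat_lit 303) (nat_lit 5) (nat_lit 426) (nat_lit 426) (nat_lit 168)) (XT.lf (nat_lit 76) (nat_lit 65453830808) (nat_lit 0) (nat_lit 65454718411) (nat_lit 836) (nat_lit 145262431139) (nat_lit 293) (nat_lit 5) (nat_lit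 292) (nat_lit 3) (nat_lit 303) (nat_lit 5) (nat_lit 427) (nat_lit 426) (nat_lit 167)))) (XT.nd (nat_lit 156) (nat_lit 0) (nat_lit 76) (XT.nd (nat_lit 78) (nat_lit 0) (nat_lit 0) (XT.lf (nat_lit 0) (nat_lit 137690118359) (nat_lit 760) (nat_lit 72691866105) (nat_lit 836) (nat_lit 72690215687) (nat_lit 293) (nat_lit 5) (nat_lit 303) (nat_lit 5) (nat_lit 304) (nat_lit 5) (nat_lit 428) (nat_lit 426) (nat_lit 166)) (XT.lf (nat_lit 76) (nat_lit 73514545431) (nat_lit 0) (nat_lit 73516962595) (nat_lit 836) (nat_lit 143175935802) (nat_lit 294) (nat_lit 5) (nat_lit 293) (nat_lit 5) (nat_lit 304) (nat_lit 5) (nat_lit 429) (nat_lit 426) (nat_lit 165))) (XT.nd (nat_lit 78) (nat_lit 0) (nat_lit 0) (XT.lf (nat_lit 0) (nat_lit 159187051897) (nat_lit 760) (nat_lit 69199020539) (nat_lit 836) (nat_lit 69196023018) (nat_lit 294) (nat_lit 5) (nat_lit 304) (nat_lit 5) (nat_lit 305) (nat_lit 5) (nat_lit 430) (nat_lit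 426) (nat_lit 164)) (XT.lf (nat_lit 76) (nat_lit 87257093831) (nat_lit 0) (nat_lit 87260753695) (nat_lit 836) (nat_lit 130679258408) (nat_lit 295) (nat_lit 5) (nat_lit 294) (nat_lit 5) (nat_lit 305) (nat_lit 5) (nat_lit 431) (nat_lit 426) (nat_lit 163)))))) (XT.nd (nat_lit 624) (nat_lit 1748) (nat_lit 0) (XT.nd (nat_lit 312) (nat_lit 1140) (nat_lit 0) (XT.nd (nat_lit 156) (nat_lit 0) (nat_lit 76) (XT.nd (nat_lit 78) (nat_lit 0) (nat_lit 0) (XT.lf (nat_lit 0) (nat_lit 192757411275) (nat_lit 760) (nat_lit 60166215297) (nat_lit 836) (nat_lit 60162128948) (nat_lit 295) (nat_lit 5) (nat_lit 305) (nat_lit 5) (nat_lit 306) (nat_lit 5) (nat_lit 432) (nat_lit 426) (nat_lit 162)) (XT.lf (nat_lit 76) (nat_lit 107506616720) (nat_lit 0) (nat_lit 107511275227) (nat_lit 836) (nat_lit 106195498701) (nat_lit 296) (nat_lit 5) (nat_lit 295) (nat_lit 5) (nat_lit 306) (nat_lit 5) (nat_lit 433) (nat_lit 426) (nat_lit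 161))) (XT.nd (nat_lit 78) (nat_lit 0) (nat_lit 0) (XT.lf (nat_lit 0) (nat_lit 240132258147) (nat_lit 760) (nat_lit 44766530974) (nat_lit 836) (nat_lit 44761575338) (nat_lit 296) (nat_lit 5) (nat_lit 306) (nat_lit 5) (nat_lit 307) (nat_lit 5) (nat_lit 434) (nat_lit 426) (nat_lit 160)) (XT.lf (nat_lit 76) (nat_lit 135184973919) (nat_lit 0) (nat_lit 135190423806) (nat_lit 836) (nat_lit 67960636482) (nat_lit 297) (nat_lit 5) (nat_lit 296) (nat_lit 5) (nat_lit 307) (nat_lit 5) (nat_lit 435) (nat_lit 426) (nat_lit 159)))) (XT.nd (nat_lit 156) (nat_lit 532) (nat_lit 0) (XT.nd (nat_lit 78) (nat_lit 760) (nat_lit 0) (XT.lf (nat_lit 0) (nat_lit 303244760221) (nat_lit 760) (nat_lit 22075331296) (nat_lit 76) (nat_lit 22069692627) (nat_lit 297) (nat_lit 5) (nat_lit 307) (nat_lit 5) (nat_lit 298) (nat_lit 5) (nat_lit 436) (nat_lit 426) (nat_lit 158)) (XT.lf (nat_lit 0) (nat_lit 171321264511) (nat_lit 760) (nat_lit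 171327330132) (nat_lit 836) (nat_lit 14003076746) (nat_lit 287) (nat_lit 5) (nat_lit 297) (nat_lit 5) (nat_lit 298) (nat_lit 5) (nat_lit 437) (nat_lit 426) (nat_lit 157))) (XT.nd (nat_lit 78) (nat_lit 0) (nat_lit 0) (XT.lf (nat_lit 0) (nat_lit 8795996352) (nat_lit 456) (nat_lit 8802468594) (nat_lit 532) (nat_lit 348738548983) (nat_lit 280) (nat_lit 5) (nat_lit 286) (nat_lit 5) (nat_lit 287) (nat_lit 5) (nat_lit 438) (nat_lit 426) (nat_lit 156)) (XT.lf (nat_lit 0) (nat_lit 56026477106) (nat_lit 532) (nat_lit 160094675993) (nat_lit 76) (nat_lit 160088143136) (nat_lit 280) (nat_lit 5) (nat_lit 287) (nat_lit 5) (nat_lit 281) (nat_lit 5) (nat_lit 439) (nat_lit 426) (nat_lit 155))))) (XT.nd (nat_lit 312) (nat_lit 988) (nat_lit 0) (XT.nd (nat_lit 156) (nat_lit 380) (nat_lit 0) (XT.nd (nat_lit 78) (nat_lit 0) (nat_lit 0) (XT.lf (nat_lit 0) (nat_lit 48636311796) (nat_lit 380) (nat_lit 48643195908) (nat_lit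 456) (nat_lit 289250504061) (nat_lit 275) (nat_lit 5) (nat_lit 280) (nat_lit 5) (nat_lit 281) (nat_lit 5) (nat_lit 440) (nat_lit 426) (nat_lit 154)) (XT.lf (nat_lit 0) (nat_lit 145336968567) (nat_lit 456) (nat_lit 125899790232) (nat_lit 76) (nat_lit 125892915336) (nat_lit 275) (nat_lit 5) (nat_lit 281) (nat_lit 5) (nat_lit 276) (nat_lit 5) (nat_lit 441) (nat_lit 426) (nat_lit 153))) (XT.nd (nat_lit 78) (nat_lit 0) (nat_lit 0) (XT.lf (nat_lit 0) (nat_lit 99067118777) (nat_lit 380) (nat_lit 99074297100) (nat_lit 456) (nat_lit 210000698076) (nat_lit 270) (nat_lit 5) (nat_lit 275) (nat_lit 5) (nat_lit 276) (nat_lit 5) (nat_lit 442) (nat_lit 426) (nat_lit 152)) (XT.lf (nat_lit 0) (nat_lit 257028690646) (nat_lit 456) (nat_lit 81255733288) (nat_lit 76) (nat_lit 81248621573) (nat_lit 270) (nat_lit 5) (nat_lit 276) (nat_lit 5) (nat_lit 271) (nat_lit 5) (nat_lit 443) (nat_lit 426) (nat_lit 151)))) (XT.nd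 (nat_lit 156) (nat_lit 684) (nat_lit 0) (XT.nd (nat_lit 78) (nat_lit 0) (nat_lit 0) (XT.lf (nat_lit 0) (nat_lit 161499275714) (nat_lit 304) (nat_lit 161506649541) (nat_lit 380) (nat_lit 108280318580) (nat_lit 266) (nat_lit 5) (nat_lit 270) (nat_lit 5) (nat_lit 271) (nat_lit 5) (nat_lit 444) (nat_lit 426) (nat_lit 150)) (XT.lf (nat_lit 0) (nat_lit 394057082557) (nat_lit 380) (nat_lit 24744263454) (nat_lit 76) (nat_lit 24737003019) (nat_lit 266) (nat_lit 5) (nat_lit 271) (nat_lit 5) (nat_lit 267) (nat_lit 5) (nat_lit 445) (nat_lit 426) (nat_lit 149))) (XT.nd (nat_lit 78) (nat_lit 304) (nat_lit 0) (XT.lf (nat_lit 0) (nat_lit 18325340788) (nat_lit 380) (nat_lit 218876320167) (nat_lit 76) (nat_lit 218868833310) (nat_lit 261) (nat_lit 5) (nat_lit 266) (nat_lit 5) (nat_lit 262) (nat_lit 5) (nat_lit 446) (nat_lit 426) (nat_lit 148)) (XT.lf (nat_lit 0) (nat_lit 44486066216) (nat_lit 304) (nat_lit 44493768714)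 (nat_lit 380) (nat_lit 380152830842) (nat_lit 257) (nat_lit 5) (nat_lit 261) (nat_lit 5) (nat_lit 262) (nat_lit 5) (nat_lit 447) (nat_lit 426) (nat_lit 147))))))) (XT.nd (nat_lit 1248) (nat_lit 1672) (nat_lit 0) (XT.nd (nat_lit 624) (nat_lit 1216) (nat_lit 0) (XT.nd (nat_lit 312) (nat_lit 608) (nat_lit 0) (XT.nd (nat_lit 156) (nat_lit 228) (nat_lit 0) (XT.nd (nat_lit 78) (nat_lit 304) (nat_lit 0) (XT.lf (nat_lit 0) (nat_lit 169399044545) (nat_lit 380) (nat_lit 156572416537) (nat_lit 76) (nat_lit 156564885233) (nat_lit 257) (nat_lit 5) (nat_lit 262) (nat_lit 5) (nat_lit 258) (nat_lit 5) (nat_lit 448) (nat_lit 426) (nat_lit 146)) (XT.lf (nat_lit 0) (nat_lit 128281858929) (nat_lit 304) (nat_lit 128289576511) (nat_lit 380) (nat_lit 239902164405) (nat_lit 253) (nat_lit 5) (nat_lit 257) (nat_lit 5) (nat_lit 258) (nat_lit 5) (nat_lit 449) (nat_lit 426) (nat_lit 145))) (XT.nd (nat_lit 78) (nat_lit 228)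 (nat_lit 0) (XT.lf (nat_lit 0) (nat_lit 352035247674) (nat_lit 380) (nat_lit 79441673663) (nat_lit 76) (nat_lit 79434154626) (nat_lit 253) (nat_lit 5) (nat_lit 258) (nat_lit 5) (nat_lit 254) (nat_lit 5) (nat_lit 450) (nat_lit 426) (nat_lit 144)) (XT.lf (nat_lit 0) (nat_lit 228971269369) (nat_lit 228) (nat_lit 228978949320) (nat_lit 304) (nat_lit 67836308788) (nat_lit 250) (nat_lit 5) (nat_lit 253) (nat_lit 5) (nat_lit 254) (nat_lit 5) (nat_lit 451) (nat_lit 426) (nat_lit 143)))) (XT.nd (nat_lit 156) (nat_lit 228) (nat_lit 0) (XT.nd (nat_lit 78) (nat_lit 0) (nat_lit 0) (XT.lf (nat_lit 0) (nat_lit 14224255360) (nat_lit 304) (nat_lit 14232088562) (nat_lit 380) (nat_lit 512848266006) (nat_lit 245) (nat_lit 5) (nat_lit 249) (nat_lit 5) (nat_lit 250) (nat_lit 5) (nat_lit 452) (nat_lit 426) (nat_lit 142)) (XT.lf (nat_lit 0) (nat_lit 135691215004) (nat_lit 380) (nat_lit 210719505317) (nat_lit 76) (nat_lit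 210711906121) (nat_lit 245) (nat_lit 5) (nat_lit 250) (nat_lit 5) (nat_lit 246) (nat_lit 5) (nat_lit 453) (nat_lit 426) (nat_lit 141))) (XT.nd (nat_lit 78) (nat_lit 0) (nat_lit 0) (XT.lf (nat_lit 0) (nat_lit 125234324350) (nat_lit 228) (nat_lit 125242055930) (nat_lit 304) (nat_lit 323145735970) (nat_lit 242) (nat_lit 5) (nat_lit 245) (nat_lit 5) (nat_lit 246) (nat_lit 5) (nat_lit 454) (nat_lit 426) (nat_lit 140)) (XT.lf (nat_lit 0) (nat_lit 376298258527) (nat_lit 304) (nat_lit 107195466386) (nat_lit 76) (nat_lit 107187982900) (nat_lit 242) (nat_lit 5) (nat_lit 246) (nat_lit 5) (nat_lit 243) (nat_lit 5) (nat_lit 455) (nat_lit 426) (nat_lit 139))))) (XT.nd (nat_lit 312) (nat_lit 456) (nat_lit 0) (XT.nd (nat_lit 156) (nat_lit 228) (nat_lit 0) (XT.nd (nat_lit 78) (nat_lit 304) (nat_lit 0) (XT.lf (nat_lit 0) (nat_lit 257236471934) (nat_lit 228) (nat_lit 257244069779) (nat_lit 304) (nat_lit 93810271690)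 (nat_lit 239) (nat_lit 5) (nat_lit 242) (nat_lit 5) (nat_lit 243) (nat_lit 5) (nat_lit 456) (nat_lit 426) (nat_lit 138)) (XT.lf (nat_lit 0) (nat_lit 16921834405) (nat_lit 228) (nat_lit 16929541163) (nat_lit 304) (nat_lit 592797933012) (nat_lit 235) (nat_lit 5) (nat_lit 238) (nat_lit 5) (nat_lit 239) (nat_lit 5) (nat_lit 457) (nat_lit 426) (nat_lit 137))) (XT.nd (nat_lit 78) (nat_lit 228) (nat_lit 0) (XT.lf (nat_lit 0) (nat_lit 174461449291) (nat_lit 304) (nat_lit 235454462447) (nat_lit 76) (nat_lit 235447023891) (nat_lit 235) (nat_lit 5) (nat_lit 239) (nat_lit 5) (nat_lit 236) (nat_lit 5) (nat_lit 458) (nat_lit 426) (nat_lit 136)) (XT.lf (nat_lit 0) (nat_lit 162454187218) (nat_lit 228) (nat_lit 162461719857) (nat_lit 304) (nat_lit 339955642940) (nat_lit 232) (nat_lit 5) (nat_lit 235) (nat_lit 5) (nat_lit 236) (nat_lit 5) (nat_lit 459) (nat_lit 426) (nat_lit 135)))) (XT.nd (nat_lit 156) (nat_lit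 304) (nat_lit 0) (XT.nd (nat_lit 78) (nat_lit 152) (nat_lit 0) (XT.lf (nat_lit 0) (nat_lit 488466117846) (nat_lit 304) (nat_lit 98309042523) (nat_lit 76) (nat_lit 98301783245) (nat_lit 232) (nat_lit 5) (nat_lit 236) (nat_lit 5) (nat_lit 233) (nat_lit 5) (nat_lit 460) (nat_lit 426) (nat_lit 134)) (XT.lf (nat_lit 0) (nat_lit 334032485819) (nat_lit 152) (nat_lit 334039826369) (nat_lit 228) (nat_lit 37826371053) (nat_lit 230) (nat_lit 5) (nat_lit 232) (nat_lit 5) (nat_lit 233) (nat_lit 5) (nat_lit 461) (nat_lit 426) (nat_lit 133))) (XT.nd (nat_lit 78) (nat_lit 0) (nat_lit 0) (XT.lf (nat_lit 0) (nat_lit 63725747525) (nat_lit 228) (nat_lit 63733165478) (nat_lit 304) (nat_lit 600067618166) (nat_lit 226) (nat_lit 5) (nat_lit 229) (nat_lit 5) (nat_lit 230) (nat_lit 5) (nat_lit 462) (nat_lit 426) (nat_lit 132)) (XT.lf (nat_lit 0) (nat_lit 309574409388) (nat_lit 304) (nat_lit 220072816849) (nat_lit 76) (nat_lit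 220065681926) (nat_lit 226) (nat_lit 5) (nat_lit 230) (nat_lit 5) (nat_lit 227) (nat_lit 5) (nat_lit 463) (nat_lit 426) (nat_lit 131)))))) (XT.nd (nat_lit 624) (nat_lit 760) (nat_lit 0) (XT.nd (nat_lit 312) (nat_lit 380) (nat_lit 0) (XT.nd (nat_lit 156) (nat_lit 380) (nat_lit 0) (XT.nd (nat_lit 78) (nat_lit 0) (nat_lit 0) (XT.lf (nat_lit 0) (nat_lit 252890801510) (nat_lit 152) (nat_lit 252898003297) (nat_lit 228) (nat_lit 266970142986) (nat_lit 224) (nat_lit 5) (nat_lit 226) (nat_lit 5) (nat_lit 227) (nat_lit 5) (nat_lit 464) (nat_lit 426) (nat_lit 130)) (XT.lf (nat_lit 0) (nat_lit 716190468875) (nat_lit 228) (nat_lit 40277456289) (nat_lit 76) (nat_lit 40270536798) (nat_lit 224) (nat_lit 5) (nat_lit 227) (nat_lit 5) (nat_lit 225) (nat_lit 5) (nat_lit 465) (nat_lit 426) (nat_lit 129))) (XT.nd (nat_lit 78) (nat_lit 152) (nat_lit 0) (XT.lf (nat_lit 0) (nat_lit 123249113153) (nat_lit 228) (nat_lit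 348998924527) (nat_lit 76) (nat_lit 348991947277) (nat_lit 221) (nat_lit 5) (nat_lit 224) (nat_lit 5) (nat_lit 222) (nat_lit 5) (nat_lit 466) (nat_lit 426) (nat_lit 128)) (XT.lf (nat_lit 0) (nat_lit 168926400923) (nat_lit 152) (nat_lit 168933433181) (nat_lit 228) (nat_lit 508874192047) (nat_lit 219) (nat_lit 5) (nat_lit 221) (nat_lit 5) (nat_lit 222) (nat_lit 5) (nat_lit 467) (nat_lit 426) (nat_lit 127)))) (XT.nd (nat_lit 156) (nat_lit 228) (nat_lit 0) (XT.nd (nat_lit 78) (nat_lit 152) (nat_lit 0) (XT.lf (nat_lit 0) (nat_lit 571543281185) (nat_lit 228) (nat_lit 150774562998) (nat_lit 76) (nat_lit 150767815715) (nat_lit 219) (nat_lit 5) (nat_lit 222) (nat_lit 5) (nat_lit 220) (nat_lit 5) (nat_lit 468) (nat_lit 426) (nat_lit 126)) (XT.lf (nat_lit 0) (nat_lit 413061268186) (nat_lit 152) (nat_lit 413068062987) (nat_lit 228) (nat_lit 74164622635) (nat_lit 217) (nat_lit 5) (nat_lit 219) (nat_lit 5) (nat_lit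 220) (nat_lit 5) (nat_lit 469) (nat_lit 426) (nat_lit 125))) (XT.nd (nat_lit 78) (nat_lit 0) (nat_lit 0) (XT.lf (nat_lit 0) (nat_lit 81588318459) (nat_lit 152) (nat_lit 81595158515) (nat_lit 228) (nat_lit 765357250695) (nat_lit 214) (nat_lit 5) (nat_lit 216) (nat_lit 5) (nat_lit 217) (nat_lit 5) (nat_lit 470) (nat_lit 426) (nat_lit 124)) (XT.lf (nat_lit 0) (nat_lit 422453395221) (nat_lit 228) (nat_lit 267532434076) (nat_lit 76) (nat_lit 267525878688) (nat_lit 214) (nat_lit 5) (nat_lit 217) (nat_lit 5) (nat_lit 215) (nat_lit 5) (nat_lit 471) (nat_lit 426) (nat_lit 123))))) (XT.nd (nat_lit 312) (nat_lit 304) (nat_lit 0) (XT.nd (nat_lit 156) (nat_lit 304) (nat_lit 0) (XT.nd (nat_lit 78) (nat_lit 0) (nat_lit 0) (XT.lf (nat_lit 0) (nat_lit 350746985369) (nat_lit 152) (nat_lit 350753579850) (nat_lit 228) (nat_lit 286089984306) (nat_lit 212) (nat_lit 5) (nat_lit 214) (nat_lit 5) (nat_lit 215) (nat_lit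 5) (nat_lit 472) (nat_lit 426) (nat_lit 122)) (XT.lf (nat_lit 0) (nat_lit 999190085261) (nat_lit 228) (nat_lit 9877532111) (nat_lit 76) (nat_lit 9871216193) (nat_lit 212) (nat_lit 5) (nat_lit 215) (nat_lit 5) (nat_lit 213) (nat_lit 4) (nat_lit 473) (nat_lit 426) (nat_lit 121))) (XT.nd (nat_lit 78) (nat_lit 152) (nat_lit 0) (XT.lf (nat_lit 0) (nat_lit 267970977993) (nat_lit 152) (nat_lit 391433999908) (nat_lit 76) (nat_lit 391427650220) (nat_lit 210) (nat_lit 5) (nat_lit 212) (nat_lit 5) (nat_lit 211) (nat_lit 5) (nat_lit 474) (nat_lit 426) (nat_lit 120)) (XT.lf (nat_lit 0) (nat_lit 287028979425) (nat_lit 152) (nat_lit 287035361275) (nat_lit 228) (nat_lit 510008017330) (nat_lit 208) (nat_lit 5) (nat_lit 210) (nat_lit 5) (nat_lit 211) (nat_lit 5) (nat_lit 475) (nat_lit 426) (nat_lit 119)))) (XT.nd (nat_lit 156) (nat_lit 152) (nat_lit 0) (XT.nd (nat_lit 78) (nat_lit 152) (nat_lit 0) (XT.lf (nat_lit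 0) (nat_lit 903823151218) (nat_lit 228) (nat_lit 107369495678) (nat_lit 76) (nat_lit 107363388553) (nat_lit 208) (nat_lit 5) (nat_lit 211) (nat_lit 5) (nat_lit 209) (nat_lit 4) (nat_lit 476) (nat_lit 426) (nat_lit 118)) (XT.lf (nat_lit 0) (nat_lit 107072383719) (nat_lit 152) (nat_lit 523441204979) (nat_lit 76) (nat_lit 523435070071) (nat_lit 206) (nat_lit 5) (nat_lit 208) (nat_lit 5) (nat_lit 207) (nat_lit 5) (nat_lit 477) (nat_lit 426) (nat_lit 117))) (XT.nd (nat_lit 78) (nat_lit 0) (nat_lit 0) (XT.lf (nat_lit 0) (nat_lit 221526057573) (nat_lit 152) (nat_lit 221532218940) (nat_lit 228) (nat_lit 747611286460) (nat_lit 204) (nat_lit 5) (nat_lit 206) (nat_lit 5) (nat_lit 207) (nat_lit 5) (nat_lit 478) (nat_lit 426) (nat_lit 116)) (XT.lf (nat_lit 0) (nat_lit 808099379799) (nat_lit 228) (nat_lit 210260114382) (nat_lit 76) (nat_lit 210254222413) (nat_lit 204) (nat_lit 5) (nat_lit 207) (nat_lit 5) (nat_lit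 205) (nat_lit 4) (nat_lit 479) (nat_lit 426) (nat_lit 115))))))))
noncomputable def xc325 : XT := (XT.nd (nat_lit 50076) (nat_lit 0) (nat_lit 3192) (XT.nd (nat_lit 49452) (nat_lit 0) (nat_lit 6080) (XT.nd (nat_lit 49140) (nat_lit 0) (nat_lit 7068) (XT.nd (nat_lit 48984) (nat_lit 0) (nat_lit 6992) (XT.nd (nat_lit 78) (nat_lit 228) (nat_lit 0) (XT.lf (nat_lit 0) (nat_lit 602210238849) (nat_lit 76) (nat_lit 602216153675) (nat_lit 152) (nat_lit 63376992657) (nat_lit 203) (nat_lit 5) (nat_lit 204) (nat_lit 5) (nat_lit 205) (nat_lit 4) (nat_lit 480) (nat_lit 426) (nat_lit 114)) (XT.lf (nat_lit 0) (nat_lit 153829255671) (nat_lit 152) (nat_lit 153835192266) (nat_lit 228) (nat_lit 1000743782041) (nat_lit 200) (nat_lit 5) (nat_lit 202) (nat_lit 5) (nat_lit 203) (nat_lit 5) (nat_lit 481) (nat_lit 426) (nat_lit 113))) (XT.nd (nat_lit 78) (nat_lit 0) (nat_lit 0) (XT.lf (nat_lit 0) (nat_lit 66527718173) (nat_lit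 836) (nat_lit 37475930449) (nat_lit 836) (nat_lit 37475930449) (nat_lit 292) (nat_lit 3) (nat_lit 303) (nat_lit 3) (nat_lit 303) (nat_lit 5) (nat_lit 427) (nat_lit 427) (nat_lit 166)) (XT.lf (nat_lit 76) (nat_lit 68727424984) (nat_lit 0) (nat_lit 68728230066) (nat_lit 836) (nat_lit 152523790408) (nat_lit 293) (nat_lit 5) (nat_lit 292) (nat_lit 3) (nat_lit 303) (nat_lit 5) (nat_lit 428) (nat_lit 427) (nat_lit 165)))) (XT.nd (nat_lit 156) (nat_lit 0) (nat_lit 76) (XT.nd (nat_lit 78) (nat_lit 0) (nat_lit 0) (XT.lf (nat_lit 0) (nat_lit 144576211189) (nat_lit 760) (nat_lit 76325508301) (nat_lit 836) (nat_lit 76324011323) (nat_lit 293) (nat_lit 5) (nat_lit 303) (nat_lit 5) (nat_lit 304) (nat_lit 5) (nat_lit 429) (nat_lit 427) (nat_lit 164)) (XT.lf (nat_lit 76) (nat_lit 77191208472) (nat_lit 0) (nat_lit 77193400911) (nat_lit 836) (nat_lit 150333130339) (nat_lit 294) (nat_lit 5) (nat_lit 293) (nat_lit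 5) (nat_lit 304) (nat_lit 5) (nat_lit 430) (nat_lit 427) (nat_lit 163))) (XT.nd (nat_lit 78) (nat_lit 0) (nat_lit 0) (XT.lf (nat_lit 0) (nat_lit 167147849007) (nat_lit 760) (nat_lit 72657998917) (nat_lit 836) (nat_lit 72655280077) (nat_lit 294) (nat_lit 5) (nat_lit 304) (nat_lit 5) (nat_lit 305) (nat_lit 5) (nat_lit 431) (nat_lit 427) (nat_lit 162)) (XT.lf (nat_lit 76) (nat_lit 91620905483) (nat_lit 0) (nat_lit 91624225088) (nat_lit 836) (nat_lit 137211761125) (nat_lit 295) (nat_lit 5) (nat_lit 294) (nat_lit 5) (nat_lit 305) (nat_lit 5) (nat_lit 432) (nat_lit 427) (nat_lit 161))))) (XT.nd (nat_lit 312) (nat_lit 1140) (nat_lit 0) (XT.nd (nat_lit 156) (nat_lit 0) (nat_lit 76) (XT.nd (nat_lit 78) (nat_lit 0) (nat_lit 0) (XT.lf (nat_lit 0) (nat_lit 202396599837) (nat_lit 760) (nat_lit 63173542000) (nat_lit 836) (nat_lit 63169835560) (nat_lit 295) (nat_lit 5) (nat_lit 305) (nat_lit 5) (nat_lit 306)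 (nat_lit 5) (nat_lit 433) (nat_lit 427) (nat_lit 160)) (XT.lf (nat_lit 76) (nat_lit 112882915747) (nat_lit 0) (nat_lit 112887141150) (nat_lit 836) (nat_lit 111503939766) (nat_lit 296) (nat_lit 5) (nat_lit 295) (nat_lit 5) (nat_lit 306) (nat_lit 5) (nat_lit 434) (nat_lit 427) (nat_lit 159))) (XT.nd (nat_lit 78) (nat_lit 0) (nat_lit 0) (XT.lf (nat_lit 0) (nat_lit 252140076421) (nat_lit 760) (nat_lit 47003870451) (nat_lit 836) (nat_lit 46999375542) (nat_lit 296) (nat_lit 5) (nat_lit 306) (nat_lit 5) (nat_lit 307) (nat_lit 5) (nat_lit 435) (nat_lit 427) (nat_lit 158)) (XT.lf (nat_lit 76) (nat_lit 141945193766) (nat_lit 0) (nat_lit 141950136975) (nat_lit 836) (nat_lit 71357447019) (nat_lit 297) (nat_lit 5) (nat_lit 296) (nat_lit 5) (nat_lit 307) (nat_lit 5) (nat_lit 436) (nat_lit 427) (nat_lit 157)))) (XT.nd (nat_lit 156) (nat_lit 532) (nat_lit 0) (XT.nd (nat_lit 78) (nat_lit 760) (nat_lit 0) (XT.lf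 (nat_lit 0) (nat_lit 318408103121) (nat_lit 760) (nat_lit 23178114713) (nat_lit 76) (nat_lit 23173000274) (nat_lit 297) (nat_lit 5) (nat_lit 307) (nat_lit 5) (nat_lit 298) (nat_lit 5) (nat_lit 437) (nat_lit 427) (nat_lit 156)) (XT.lf (nat_lit 0) (nat_lit 179888295028) (nat_lit 760) (nat_lit 179893796725) (nat_lit 836) (nat_lit 14702109837) (nat_lit 287) (nat_lit 5) (nat_lit 297) (nat_lit 5) (nat_lit 298) (nat_lit 5) (nat_lit 438) (nat_lit 427) (nat_lit 155))) (XT.nd (nat_lit 78) (nat_lit 0) (nat_lit 0) (XT.lf (nat_lit 0) (nat_lit 9236783152) (nat_lit 456) (nat_lit 9242653666) (nat_lit 532) (nat_lit 366174375377) (nat_lit 280) (nat_lit 5) (nat_lit 286) (nat_lit 5) (nat_lit 287) (nat_lit 5) (nat_lit 439) (nat_lit 427) (nat_lit 154)) (XT.lf (nat_lit 0) (nat_lit 58828798735) (nat_lit 532) (nat_lit 168098418959) (nat_lit 76) (nat_lit 168092493465) (nat_lit 280) (nat_lit 5) (nat_lit 287) (nat_lit 5)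 (nat_lit 281) (nat_lit 5) (nat_lit 440) (nat_lit 427) (nat_lit 153)))))) (XT.nd (nat_lit 624) (nat_lit 1140) (nat_lit 0) (XT.nd (nat_lit 312) (nat_lit 988) (nat_lit 0) (XT.nd (nat_lit 156) (nat_lit 380) (nat_lit 0) (XT.nd (nat_lit 78) (nat_lit 0) (nat_lit 0) (XT.lf (nat_lit 0) (nat_lit 51069102238) (nat_lit 380) (nat_lit 51075346331) (nat_lit 456) (nat_lit 303712015510) (nat_lit 275) (nat_lit 5) (nat_lit 280) (nat_lit 5) (nat_lit 281) (nat_lit 5) (nat_lit 441) (nat_lit 427) (nat_lit 152)) (XT.lf (nat_lit 0) (nat_lit 152604736640) (nat_lit 456) (nat_lit 132193805477) (nat_lit 76) (nat_lit 132187569743) (nat_lit 275) (nat_lit 5) (nat_lit 281) (nat_lit 5) (nat_lit 276) (nat_lit 5) (nat_lit 442) (nat_lit 427) (nat_lit 151))) (XT.nd (nat_lit 78) (nat_lit 0) (nat_lit 0) (XT.lf (nat_lit 0) (nat_lit 104021433269) (nat_lit 380) (nat_lit 104027944219) (nat_lit 456) (nat_lit 220499797622) (nat_lit 270) (nat_lit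 5) (nat_lit 275) (nat_lit 5) (nat_lit 276) (nat_lit 5) (nat_lit 443) (nat_lit 427) (nat_lit 150)) (XT.lf (nat_lit 0) (nat_lit 269880974583) (nat_lit 456) (nat_lit 85317565633) (nat_lit 76) (nat_lit 85311115097) (nat_lit 270) (nat_lit 5) (nat_lit 276) (nat_lit 5) (nat_lit 271) (nat_lit 5) (nat_lit 444) (nat_lit 427) (nat_lit 149)))) (XT.nd (nat_lit 156) (nat_lit 684) (nat_lit 0) (XT.nd (nat_lit 78) (nat_lit 0) (nat_lit 0) (XT.lf (nat_lit 0) (nat_lit 169575178427) (nat_lit 304) (nat_lit 169581866706) (nat_lit 380) (nat_lit 113693469712) (nat_lit 266) (nat_lit 5) (nat_lit 270) (nat_lit 5) (nat_lit 271) (nat_lit 5) (nat_lit 445) (nat_lit 427) (nat_lit 148)) (XT.lf (nat_lit 0) (nat_lit 413760722795) (nat_lit 380) (nat_lit 25980544905) (nat_lit 76) (nat_lit 25973959476) (nat_lit 266) (nat_lit 5) (nat_lit 271) (nat_lit 5) (nat_lit 267) (nat_lit 5) (nat_lit 446) (nat_lit 427) (nat_lit 147))) (XT.nd (nat_lit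 78) (nat_lit 304) (nat_lit 0) (XT.lf (nat_lit 0) (nat_lit 19242383325) (nat_lit 380) (nat_lit 229819193840) (nat_lit 76) (nat_lit 229812403039) (nat_lit 261) (nat_lit 5) (nat_lit 266) (nat_lit 5) (nat_lit 262) (nat_lit 5) (nat_lit 447) (nat_lit 427) (nat_lit 146)) (XT.lf (nat_lit 0) (nat_lit 46711296664) (nat_lit 304) (nat_lit 46718283056) (nat_lit 380) (nat_lit 399159681688) (nat_lit 257) (nat_lit 5) (nat_lit 261) (nat_lit 5) (nat_lit 262) (nat_lit 5) (nat_lit 448) (nat_lit 427) (nat_lit 145))))) (XT.nd (nat_lit 312) (nat_lit 608) (nat_lit 0) (XT.nd (nat_lit 156) (nat_lit 228) (nat_lit 0) (XT.nd (nat_lit 78) (nat_lit 304) (nat_lit 0) (XT.lf (nat_lit 0) (nat_lit 177869716546) (nat_lit 380) (nat_lit 164400121105) (nat_lit 76) (nat_lit 164393289991) (nat_lit 257) (nat_lit 5) (nat_lit 262) (nat_lit 5) (nat_lit 258) (nat_lit 5) (nat_lit 449) (nat_lit 427) (nat_lit 144)) (XT.lf (nat_lit 0) (nat_lit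 134696853355) (nat_lit 304) (nat_lit 134703853429) (nat_lit 380) (nat_lit 251896538074) (nat_lit 253) (nat_lit 5) (nat_lit 257) (nat_lit 5) (nat_lit 258) (nat_lit 5) (nat_lit 450) (nat_lit 427) (nat_lit 143))) (XT.nd (nat_lit 78) (nat_lit 228) (nat_lit 0) (XT.lf (nat_lit 0) (nat_lit 369637679320) (nat_lit 380) (nat_lit 83412868483) (nat_lit 76) (nat_lit 83406048495) (nat_lit 253) (nat_lit 5) (nat_lit 258) (nat_lit 5) (nat_lit 254) (nat_lit 5) (nat_lit 451) (nat_lit 427) (nat_lit 142)) (XT.lf (nat_lit 0) (nat_lit 240420707364) (nat_lit 228) (nat_lit 240427673306) (nat_lit 304) (nat_lit 71227440629) (nat_lit 250) (nat_lit 5) (nat_lit 253) (nat_lit 5) (nat_lit 254) (nat_lit 5) (nat_lit 452) (nat_lit 427) (nat_lit 141)))) (XT.nd (nat_lit 156) (nat_lit 228) (nat_lit 0) (XT.nd (nat_lit 78) (nat_lit 0) (nat_lit 0) (XT.lf (nat_lit 0) (nat_lit 14936350075) (nat_lit 304) (nat_lit 14943455021) (nat_lit 380)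 (nat_lit 538490003129) (nat_lit 245) (nat_lit 5) (nat_lit 249) (nat_lit 5) (nat_lit 250) (nat_lit 5) (nat_lit 453) (nat_lit 427) (nat_lit 140)) (XT.lf (nat_lit 0) (nat_lit 142476392606) (nat_lit 380) (nat_lit 221254613505) (nat_lit 76) (nat_lit 221247720810) (nat_lit 245) (nat_lit 5) (nat_lit 250) (nat_lit 5) (nat_lit 246) (nat_lit 5) (nat_lit 454) (nat_lit 427) (nat_lit 139))) (XT.nd (nat_lit 78) (nat_lit 0) (nat_lit 0) (XT.lf (nat_lit 0) (nat_lit 131496893660) (nat_lit 228) (nat_lit 131503906431) (nat_lit 304) (nat_lit 339302391932) (nat_lit 242) (nat_lit 5) (nat_lit 245) (nat_lit 5) (nat_lit 246) (nat_lit 5) (nat_lit 455) (nat_lit 427) (nat_lit 138)) (XT.lf (nat_lit 0) (nat_lit 395113747393) (nat_lit 304) (nat_lit 112554402379) (nat_lit 76) (nat_lit 112547614636) (nat_lit 242) (nat_lit 5) (nat_lit 246) (nat_lit 5) (nat_lit 243) (nat_lit 5) (nat_lit 456) (nat_lit 427) (nat_lit 137)))))))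
noncomputable def xc326 : XT := (XT.nd (nat_lit 1248) (nat_lit 836) (nat_lit 0) (XT.nd (nat_lit 624) (nat_lit 912) (nat_lit 0) (XT.nd (nat_lit 312) (nat_lit 456) (nat_lit 0) (XT.nd (nat_lit 156) (nat_lit 228) (nat_lit 0) (XT.nd (nat_lit 78) (nat_lit 304) (nat_lit 0) (XT.lf (nat_lit 0) (nat_lit 270099119353) (nat_lit 228) (nat_lit 270106010822) (nat_lit 304) (nat_lit 98500195830) (nat_lit 239) (nat_lit 5) (nat_lit 242) (nat_lit 5) (nat_lit 243) (nat_lit 5) (nat_lit 457) (nat_lit 427) (nat_lit 136)) (XT.lf (nat_lit 0) (nat_lit 17768755221) (nat_lit 228) (nat_lit 17775745477) (nat_lit 304) (nat_lit 622437245492) (nat_lit 235) (nat_lit 5) (nat_lit 238) (nat_lit 5) (nat_lit 239) (nat_lit 5) (nat_lit 458) (nat_lit 427) (nat_lit 135))) (XT.nd (nat_lit 78) (nat_lit 228) (nat_lit 0) (XT.lf (nat_lit 0) (nat_lit 183185055671) (nat_lit 304) (nat_lit 247226373517) (nat_lit 76) (nat_lit 247219626528) (nat_lit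 235) (nat_lit 5) (nat_lit 239) (nat_lit 5) (nat_lit 236) (nat_lit 5) (nat_lit 459) (nat_lit 427) (nat_lit 134)) (XT.lf (nat_lit 0) (nat_lit 170577695533) (nat_lit 228) (nat_lit 170584527859) (nat_lit 304) (nat_lit 356952878075) (nat_lit 232) (nat_lit 5) (nat_lit 235) (nat_lit 5) (nat_lit 236) (nat_lit 5) (nat_lit 460) (nat_lit 427) (nat_lit 133)))) (XT.nd (nat_lit 156) (nat_lit 304) (nat_lit 0) (XT.nd (nat_lit 78) (nat_lit 152) (nat_lit 0) (XT.lf (nat_lit 0) (nat_lit 512889924028) (nat_lit 304) (nat_lit 103223713065) (nat_lit 76) (nat_lit 103217128686) (nat_lit 232) (nat_lit 5) (nat_lit 236) (nat_lit 5) (nat_lit 233) (nat_lit 5) (nat_lit 461) (nat_lit 427) (nat_lit 132)) (XT.lf (nat_lit 0) (nat_lit 350734879087) (nat_lit 152) (nat_lit 350741537183) (nat_lit 228) (nat_lit 39717176709) (nat_lit 230) (nat_lit 5) (nat_lit 232) (nat_lit 5) (nat_lit 233) (nat_lit 5) (nat_lit 462) (nat_lit 427) (nat_lit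 131))) (XT.nd (nat_lit 78) (nat_lit 0) (nat_lit 0) (XT.lf (nat_lit 0) (nat_lit 66912807627) (nat_lit 228) (nat_lit 66919535929) (nat_lit 304) (nat_lit 630070489927) (nat_lit 226) (nat_lit 5) (nat_lit 229) (nat_lit 5) (nat_lit 230) (nat_lit 5) (nat_lit 463) (nat_lit 427) (nat_lit 130)) (XT.lf (nat_lit 0) (nat_lit 325053595949) (nat_lit 304) (nat_lit 231075702951) (nat_lit 76) (nat_lit 231069231365) (nat_lit 226) (nat_lit 5) (nat_lit 230) (nat_lit 5) (nat_lit 227) (nat_lit 5) (nat_lit 464) (nat_lit 427) (nat_lit 129))))) (XT.nd (nat_lit 312) (nat_lit 380) (nat_lit 0) (XT.nd (nat_lit 156) (nat_lit 380) (nat_lit 0) (XT.nd (nat_lit 78) (nat_lit 0) (nat_lit 0) (XT.lf (nat_lit 0) (nat_lit 265536084153) (nat_lit 152) (nat_lit 265542616385) (nat_lit 228) (nat_lit 280318171870) (nat_lit 224) (nat_lit 5) (nat_lit 226) (nat_lit 5) (nat_lit 227) (nat_lit 5) (nat_lit 465) (nat_lit 427) (nat_lit 128)) (XT.lf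 (nat_lit 0) (nat_lit 752000430388) (nat_lit 228) (nat_lit 42290604475) (nat_lit 76) (nat_lit 42284328293) (nat_lit 224) (nat_lit 5) (nat_lit 227) (nat_lit 5) (nat_lit 225) (nat_lit 5) (nat_lit 466) (nat_lit 427) (nat_lit 127))) (XT.nd (nat_lit 78) (nat_lit 152) (nat_lit 0) (XT.lf (nat_lit 0) (nat_lit 129412004173) (nat_lit 228) (nat_lit 366448143418) (nat_lit 76) (nat_lit 366441814847) (nat_lit 221) (nat_lit 5) (nat_lit 224) (nat_lit 5) (nat_lit 222) (nat_lit 5) (nat_lit 467) (nat_lit 427) (nat_lit 126)) (XT.lf (nat_lit 0) (nat_lit 177373436573) (nat_lit 152) (nat_lit 177379815038) (nat_lit 228) (nat_lit 534317454557) (nat_lit 219) (nat_lit 5) (nat_lit 221) (nat_lit 5) (nat_lit 222) (nat_lit 5) (nat_lit 468) (nat_lit 427) (nat_lit 125)))) (XT.nd (nat_lit 156) (nat_lit 228) (nat_lit 0) (XT.nd (nat_lit 78) (nat_lit 152) (nat_lit 0) (XT.lf (nat_lit 0) (nat_lit 600120855080) (nat_lit 228) (nat_lit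 158312593653) (nat_lit 76) (nat_lit 158306473669) (nat_lit 219) (nat_lit 5) (nat_lit 222) (nat_lit 5) (nat_lit 220) (nat_lit 5) (nat_lit 469) (nat_lit 427) (nat_lit 124)) (XT.lf (nat_lit 0) (nat_lit 433715017840) (nat_lit 152) (nat_lit 433721180925) (nat_lit 228) (nat_lit 77872432681) (nat_lit 217) (nat_lit 5) (nat_lit 219) (nat_lit 5) (nat_lit 220) (nat_lit 5) (nat_lit 470) (nat_lit 427) (nat_lit 123))) (XT.nd (nat_lit 78) (nat_lit 0) (nat_lit 0) (XT.lf (nat_lit 0) (nat_lit 85668422818) (nat_lit 152) (nat_lit 85674626951) (nat_lit 228) (nat_lit 803624694336) (nat_lit 214) (nat_lit 5) (nat_lit 216) (nat_lit 5) (nat_lit 217) (nat_lit 5) (nat_lit 471) (nat_lit 427) (nat_lit 122)) (XT.lf (nat_lit 0) (nat_lit 443576449236) (nat_lit 228) (nat_lit 280908385433) (nat_lit 76) (nat_lit 280902439503) (nat_lit 214) (nat_lit 5) (nat_lit 217) (nat_lit 5) (nat_lit 215) (nat_lit 5) (nat_lit 472) (nat_lit 427)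 (nat_lit 121)))))) (XT.nd (nat_lit 624) (nat_lit 76) (nat_lit 0) (XT.nd (nat_lit 312) (nat_lit 304) (nat_lit 0) (XT.nd (nat_lit 156) (nat_lit 304) (nat_lit 0) (XT.nd (nat_lit 78) (nat_lit 0) (nat_lit 0) (XT.lf (nat_lit 0) (nat_lit 368284994173) (nat_lit 152) (nat_lit 368290975561) (nat_lit 228) (nat_lit 300394088455) (nat_lit 212) (nat_lit 5) (nat_lit 214) (nat_lit 5) (nat_lit 215) (nat_lit 5) (nat_lit 473) (nat_lit 427) (nat_lit 120)) (XT.lf (nat_lit 0) (nat_lit 1049149952072) (nat_lit 228) (nat_lit 10370766883) (nat_lit 76) (nat_lit 10365038160) (nat_lit 212) (nat_lit 5) (nat_lit 215) (nat_lit 5) (nat_lit 213) (nat_lit 4) (nat_lit 474) (nat_lit 427) (nat_lit 119))) (XT.nd (nat_lit 78) (nat_lit 152) (nat_lit 0) (XT.lf (nat_lit 0) (nat_lit 281369887858) (nat_lit 152) (nat_lit 411005056487) (nat_lit 76) (nat_lit 410999297134) (nat_lit 210) (nat_lit 5) (nat_lit 212) (nat_lit 5) (nat_lit 211) (nat_lit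 5) (nat_lit 475) (nat_lit 427) (nat_lit 118)) (XT.lf (nat_lit 0) (nat_lit 301381061434) (nat_lit 152) (nat_lit 301386849960) (nat_lit 228) (nat_lit 535508046853) (nat_lit 208) (nat_lit 5) (nat_lit 210) (nat_lit 5) (nat_lit 211) (nat_lit 5) (nat_lit 476) (nat_lit 427) (nat_lit 117)))) (XT.nd (nat_lit 156) (nat_lit 152) (nat_lit 0) (XT.nd (nat_lit 78) (nat_lit 152) (nat_lit 0) (XT.lf (nat_lit 0) (nat_lit 949014649752) (nat_lit 228) (nat_lit 112737354881) (nat_lit 76) (nat_lit 112731815539) (nat_lit 208) (nat_lit 5) (nat_lit 211) (nat_lit 5) (nat_lit 209) (nat_lit 4) (nat_lit 477) (nat_lit 427) (nat_lit 116)) (XT.lf (nat_lit 0) (nat_lit 112426342576) (nat_lit 152) (nat_lit 549612648345) (nat_lit 76) (nat_lit 549607083803) (nat_lit 206) (nat_lit 5) (nat_lit 208) (nat_lit 5) (nat_lit 207) (nat_lit 5) (nat_lit 478) (nat_lit 427) (nat_lit 115))) (XT.nd (nat_lit 78) (nat_lit 0) (nat_lit 0) (XT.lf (nat_lit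 0) (nat_lit 232602967384) (nat_lit 152) (nat_lit 232608555926) (nat_lit 228) (nat_lit 784991501163) (nat_lit 204) (nat_lit 5) (nat_lit 206) (nat_lit 5) (nat_lit 207) (nat_lit 5) (nat_lit 479) (nat_lit 427) (nat_lit 114)) (XT.lf (nat_lit 0) (nat_lit 848504669979) (nat_lit 228) (nat_lit 220772530287) (nat_lit 76) (nat_lit 220767186098) (nat_lit 204) (nat_lit 5) (nat_lit 207) (nat_lit 5) (nat_lit 205) (nat_lit 4) (nat_lit 480) (nat_lit 427) (nat_lit 113))))) (XT.nd (nat_lit 49218) (nat_lit 0) (nat_lit 6840) (XT.nd (nat_lit 49062) (nat_lit 0) (nat_lit 6764) (XT.nd (nat_lit 48984) (nat_lit 0) (nat_lit 6764) (XT.lf (nat_lit 0) (nat_lit 632321331092) (nat_lit 76) (nat_lit 632326696014) (nat_lit 152) (nat_lit 66545511587) (nat_lit 203) (nat_lit 5) (nat_lit 204) (nat_lit 5) (nat_lit 205) (nat_lit 4) (nat_lit 481) (nat_lit 427) (nat_lit 112)) (XT.lf (nat_lit 0) (nat_lit 69854896594) (nat_lit 836) (nat_lit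 39349310902) (nat_lit 836) (nat_lit 39349310902) (nat_lit 292) (nat_lit 3) (nat_lit 303) (nat_lit 3) (nat_lit 303) (nat_lit 5) (nat_lit 428) (nat_lit 428) (nat_lit 164))) (XT.nd (nat_lit 78) (nat_lit 0) (nat_lit 76) (XT.lf (nat_lit 76) (nat_lit 72164614950) (nat_lit 0) (nat_lit 72165345183) (nat_lit 836) (nat_lit 160148381482) (nat_lit 293) (nat_lit 5) (nat_lit 292) (nat_lit 3) (nat_lit 303) (nat_lit 5) (nat_lit 429) (nat_lit 428) (nat_lit 163)) (XT.lf (nat_lit 0) (nat_lit 151806461125) (nat_lit 760) (nat_lit 80140921032) (nat_lit 836) (nat_lit 80139563228) (nat_lit 293) (nat_lit 5) (nat_lit 303) (nat_lit 5) (nat_lit 304) (nat_lit 5) (nat_lit 430) (nat_lit 428) (nat_lit 162)))) (XT.nd (nat_lit 156) (nat_lit 0) (nat_lit 76) (XT.nd (nat_lit 78) (nat_lit 0) (nat_lit 76) (XT.lf (nat_lit 76) (nat_lit 81051617666) (nat_lit 0) (nat_lit 81053606273) (nat_lit 836) (nat_lit 157848333565) (nat_lit 294) (nat_lit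 5) (nat_lit 293) (nat_lit 5) (nat_lit 304) (nat_lit 5) (nat_lit 431) (nat_lit 428) (nat_lit 161)) (XT.lf (nat_lit 0) (nat_lit 175506551675) (nat_lit 760) (nat_lit 76290016642) (nat_lit 836) (nat_lit 76287550574) (nat_lit 294) (nat_lit 5) (nat_lit 304) (nat_lit 5) (nat_lit 305) (nat_lit 5) (nat_lit 432) (nat_lit 428) (nat_lit 160))) (XT.nd (nat_lit 78) (nat_lit 0) (nat_lit 76) (XT.lf (nat_lit 76) (nat_lit 96202818749) (nat_lit 0) (nat_lit 96205829729) (nat_lit 836) (nat_lit 144071024735) (nat_lit 295) (nat_lit 5) (nat_lit 294) (nat_lit 5) (nat_lit 305) (nat_lit 5) (nat_lit 433) (nat_lit 428) (nat_lit 159)) (XT.nd (nat_lit 78) (nat_lit 0) (nat_lit 0) (XT.lf (nat_lit 0) (nat_lit 212517625292) (nat_lit 760) (nat_lit 66331326526) (nat_lit 836) (nat_lit 66327964675) (nat_lit 295) (nat_lit 5) (nat_lit 305) (nat_lit 5) (nat_lit 306) (nat_lit 5) (nat_lit 434) (nat_lit 428) (nat_lit 158)) (XT.lf (nat_lit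 76) (nat_lit 118527939712) (nat_lit 0) (nat_lit 118531772277) (nat_lit 836) (nat_lit 117077926895) (nat_lit 296) (nat_lit 5) (nat_lit 295) (nat_lit 5) (nat_lit 306) (nat_lit 5) (nat_lit 435) (nat_lit 428) (nat_lit 157))))))))
noncomputable def xc327 : XT := (XT.nd (nat_lit 2496) (nat_lit 1520) (nat_lit 0) (XT.nd (nat_lit 1248) (nat_lit 2204) (nat_lit 0) (XT.nd (nat_lit 624) (nat_lit 1672) (nat_lit 0) (XT.nd (nat_lit 312) (nat_lit 912) (nat_lit 0) (XT.nd (nat_lit 156) (nat_lit 684) (nat_lit 0) (XT.nd (nat_lit 78) (nat_lit 0) (nat_lit 0) (XT.lf (nat_lit 0) (nat_lit 264748173545) (nat_lit 760) (nat_lit 49353168670) (nat_lit 836) (nat_lit 49349091655) (nat_lit 296) (nat_lit 5) (nat_lit 306) (nat_lit 5) (nat_lit 307) (nat_lit 5) (nat_lit 436) (nat_lit 428) (nat_lit 156)) (XT.lf (nat_lit 76) (nat_lit 149043334318) (nat_lit 0) (nat_lit 149047817954) (nat_lit 836) (nat_lit 74924211627) (nat_lit 297) (nat_lit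 5) (nat_lit 296) (nat_lit 5) (nat_lit 307) (nat_lit 5) (nat_lit 437) (nat_lit 428) (nat_lit 155))) (XT.nd (nat_lit 78) (nat_lit 760) (nat_lit 0) (XT.lf (nat_lit 0) (nat_lit 334329510443) (nat_lit 760) (nat_lit 24336128704) (nat_lit 76) (nat_lit 24331489757) (nat_lit 297) (nat_lit 5) (nat_lit 307) (nat_lit 5) (nat_lit 298) (nat_lit 5) (nat_lit 438) (nat_lit 428) (nat_lit 154)) (XT.lf (nat_lit 0) (nat_lit 188883587141) (nat_lit 760) (nat_lit 188888577342) (nat_lit 836) (nat_lit 15436198780) (nat_lit 287) (nat_lit 5) (nat_lit 297) (nat_lit 5) (nat_lit 298) (nat_lit 5) (nat_lit 439) (nat_lit 428) (nat_lit 153)))) (XT.nd (nat_lit 156) (nat_lit 380) (nat_lit 0) (XT.nd (nat_lit 78) (nat_lit 0) (nat_lit 0) (XT.lf (nat_lit 0) (nat_lit 9699517531) (nat_lit 456) (nat_lit 9704842261) (nat_lit 532) (nat_lit 384482095456) (nat_lit 280) (nat_lit 5) (nat_lit 286) (nat_lit 5) (nat_lit 287) (nat_lit 5) (nat_lit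 440) (nat_lit 428) (nat_lit 152)) (XT.lf (nat_lit 0) (nat_lit 61771143681) (nat_lit 532) (nat_lit 176502441192) (nat_lit 76) (nat_lit 176497066594) (nat_lit 280) (nat_lit 5) (nat_lit 287) (nat_lit 5) (nat_lit 281) (nat_lit 5) (nat_lit 441) (nat_lit 428) (nat_lit 151))) (XT.nd (nat_lit 78) (nat_lit 0) (nat_lit 0) (XT.lf (nat_lit 0) (nat_lit 53623441570) (nat_lit 380) (nat_lit 53629105147) (nat_lit 456) (nat_lit 318896696781) (nat_lit 275) (nat_lit 5) (nat_lit 280) (nat_lit 5) (nat_lit 281) (nat_lit 5) (nat_lit 442) (nat_lit 428) (nat_lit 150)) (XT.lf (nat_lit 0) (nat_lit 160235807616) (nat_lit 456) (nat_lit 138802612062) (nat_lit 76) (nat_lit 138796956068) (nat_lit 275) (nat_lit 5) (nat_lit 281) (nat_lit 5) (nat_lit 276) (nat_lit 5) (nat_lit 443) (nat_lit 428) (nat_lit 149))))) (XT.nd (nat_lit 312) (nat_lit 988) (nat_lit 0) (XT.nd (nat_lit 156) (nat_lit 304) (nat_lit 0) (XT.nd (nat_lit 78) (nat_lit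 0) (nat_lit 0) (XT.lf (nat_lit 0) (nat_lit 109223374368) (nat_lit 380) (nat_lit 109229279992) (nat_lit 456) (nat_lit 231523939106) (nat_lit 270) (nat_lit 5) (nat_lit 275) (nat_lit 5) (nat_lit 276) (nat_lit 5) (nat_lit 444) (nat_lit 428) (nat_lit 148)) (XT.lf (nat_lit 0) (nat_lit 283375793747) (nat_lit 456) (nat_lit 89582578318) (nat_lit 76) (nat_lit 89576727492) (nat_lit 270) (nat_lit 5) (nat_lit 276) (nat_lit 5) (nat_lit 271) (nat_lit 5) (nat_lit 445) (nat_lit 428) (nat_lit 147))) (XT.nd (nat_lit 78) (nat_lit 0) (nat_lit 0) (XT.lf (nat_lit 0) (nat_lit 178054788984) (nat_lit 304) (nat_lit 178060855450) (nat_lit 380) (nat_lit 119377358801) (nat_lit 266) (nat_lit 5) (nat_lit 270) (nat_lit 5) (nat_lit 271) (nat_lit 5) (nat_lit 446) (nat_lit 428) (nat_lit 146)) (XT.lf (nat_lit 0) (nat_lit 434449471961) (nat_lit 380) (nat_lit 27278727050) (nat_lit 76) (nat_lit 27272753872) (nat_lit 266) (nat_lit 5)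 (nat_lit 271) (nat_lit 5) (nat_lit 267) (nat_lit 5) (nat_lit 447) (nat_lit 428) (nat_lit 145)))) (XT.nd (nat_lit 156) (nat_lit 304) (nat_lit 0) (XT.nd (nat_lit 78) (nat_lit 304) (nat_lit 0) (XT.lf (nat_lit 0) (nat_lit 20205205890) (nat_lit 380) (nat_lit 241309298805) (nat_lit 76) (nat_lit 241303139349) (nat_lit 261) (nat_lit 5) (nat_lit 266) (nat_lit 5) (nat_lit 262) (nat_lit 5) (nat_lit 448) (nat_lit 428) (nat_lit 144)) (XT.lf (nat_lit 0) (nat_lit 49047702438) (nat_lit 304) (nat_lit 49054039302) (nat_lit 380) (nat_lit 419116948587) (nat_lit 257) (nat_lit 5) (nat_lit 261) (nat_lit 5) (nat_lit 262) (nat_lit 5) (nat_lit 449) (nat_lit 428) (nat_lit 143))) (XT.nd (nat_lit 78) (nat_lit 304) (nat_lit 0) (XT.lf (nat_lit 0) (nat_lit 186763855229) (nat_lit 380) (nat_lit 172619296087) (nat_lit 76) (nat_lit 172613100065) (nat_lit 257) (nat_lit 5) (nat_lit 262) (nat_lit 5) (nat_lit 258) (nat_lit 5) (nat_lit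 450) (nat_lit 428) (nat_lit 142)) (XT.lf (nat_lit 0) (nat_lit 141432513692) (nat_lit 304) (nat_lit 141438862965) (nat_lit 380) (nat_lit 264490698718) (nat_lit 253) (nat_lit 5) (nat_lit 257) (nat_lit 5) (nat_lit 258) (nat_lit 5) (nat_lit 451) (nat_lit 428) (nat_lit 141)))))) (XT.nd (nat_lit 624) (nat_lit 836) (nat_lit 0) (XT.nd (nat_lit 312) (nat_lit 760) (nat_lit 0) (XT.nd (nat_lit 156) (nat_lit 380) (nat_lit 0) (XT.nd (nat_lit 78) (nat_lit 228) (nat_lit 0) (XT.lf (nat_lit 0) (nat_lit 388120170327) (nat_lit 380) (nat_lit 87582705682) (nat_lit 76) (nat_lit 87576519752) (nat_lit 253) (nat_lit 5) (nat_lit 258) (nat_lit 5) (nat_lit 254) (nat_lit 5) (nat_lit 452) (nat_lit 428) (nat_lit 140)) (XT.lf (nat_lit 0) (nat_lit 252442535953) (nat_lit 228) (nat_lit 252448854268) (nat_lit 304) (nat_lit 74788192616) (nat_lit 250) (nat_lit 5) (nat_lit 253) (nat_lit 5) (nat_lit 254) (nat_lit 5) (nat_lit 453) (nat_lit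 428) (nat_lit 139))) (XT.nd (nat_lit 78) (nat_lit 0) (nat_lit 0) (XT.lf (nat_lit 0) (nat_lit 15683967532) (nat_lit 304) (nat_lit 15690411927) (nat_lit 380) (nat_lit 565413889972) (nat_lit 245) (nat_lit 5) (nat_lit 249) (nat_lit 5) (nat_lit 250) (nat_lit 5) (nat_lit 454) (nat_lit 428) (nat_lit 138)) (XT.lf (nat_lit 0) (nat_lit 149600771738) (nat_lit 380) (nat_lit 232316557716) (nat_lit 76) (nat_lit 232310305838) (nat_lit 245) (nat_lit 5) (nat_lit 250) (nat_lit 5) (nat_lit 246) (nat_lit 5) (nat_lit 455) (nat_lit 428) (nat_lit 137)))) (XT.nd (nat_lit 156) (nat_lit 532) (nat_lit 0) (XT.nd (nat_lit 78) (nat_lit 0) (nat_lit 0) (XT.lf (nat_lit 0) (nat_lit 138072512123) (nat_lit 228) (nat_lit 138078872913) (nat_lit 304) (nat_lit 356266939341) (nat_lit 242) (nat_lit 5) (nat_lit 245) (nat_lit 5) (nat_lit 246) (nat_lit 5) (nat_lit 456) (nat_lit 428) (nat_lit 136)) (XT.lf (nat_lit 0) (nat_lit 414869957156)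 (nat_lit 304) (nat_lit 118181363017) (nat_lit 76) (nat_lit 118175206335) (nat_lit 242) (nat_lit 5) (nat_lit 246) (nat_lit 5) (nat_lit 243) (nat_lit 5) (nat_lit 457) (nat_lit 428) (nat_lit 135))) (XT.nd (nat_lit 78) (nat_lit 304) (nat_lit 0) (XT.lf (nat_lit 0) (nat_lit 283604822551) (nat_lit 228) (nat_lit 283611073316) (nat_lit 304) (nat_lit 103424670979) (nat_lit 239) (nat_lit 5) (nat_lit 242) (nat_lit 5) (nat_lit 243) (nat_lit 5) (nat_lit 458) (nat_lit 428) (nat_lit 134)) (XT.lf (nat_lit 0) (nat_lit 18657944996) (nat_lit 228) (nat_lit 18664285365) (nat_lit 304) (nat_lit 653558577908) (nat_lit 235) (nat_lit 5) (nat_lit 238) (nat_lit 5) (nat_lit 239) (nat_lit 5) (nat_lit 459) (nat_lit 428) (nat_lit 133))))) (XT.nd (nat_lit 312) (nat_lit 456) (nat_lit 0) (XT.nd (nat_lit 156) (nat_lit 152) (nat_lit 0) (XT.nd (nat_lit 78) (nat_lit 228) (nat_lit 0) (XT.lf (nat_lit 0) (nat_lit 192344792731) (nat_lit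 304) (nat_lit 259586955638) (nat_lit 76) (nat_lit 259580835919) (nat_lit 235) (nat_lit 5) (nat_lit 239) (nat_lit 5) (nat_lit 236) (nat_lit 5) (nat_lit 460) (nat_lit 428) (nat_lit 132)) (XT.lf (nat_lit 0) (nat_lit 179107304985) (nat_lit 228) (nat_lit 179113502106) (nat_lit 304) (nat_lit 374800025822) (nat_lit 232) (nat_lit 5) (nat_lit 235) (nat_lit 5) (nat_lit 236) (nat_lit 5) (nat_lit 461) (nat_lit 428) (nat_lit 131))) (XT.nd (nat_lit 78) (nat_lit 152) (nat_lit 0) (XT.lf (nat_lit 0) (nat_lit 538534874007) (nat_lit 304) (nat_lit 108384189799) (nat_lit 76) (nat_lit 108378217573) (nat_lit 232) (nat_lit 5) (nat_lit 236) (nat_lit 5) (nat_lit 233) (nat_lit 5) (nat_lit 462) (nat_lit 428) (nat_lit 130)) (XT.lf (nat_lit 0) (nat_lit 368272320526) (nat_lit 152) (nat_lit 368278359616) (nat_lit 228) (nat_lit 41702570333) (nat_lit 230) (nat_lit 5) (nat_lit 232) (nat_lit 5) (nat_lit 233) (nat_lit 5) (nat_lit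 463) (nat_lit 428) (nat_lit 129)))) (XT.nd (nat_lit 156) (nat_lit 152) (nat_lit 0) (XT.nd (nat_lit 78) (nat_lit 0) (nat_lit 0) (XT.lf (nat_lit 0) (nat_lit 70259148894) (nat_lit 228) (nat_lit 70265251662) (nat_lit 304) (nat_lit 661573552611) (nat_lit 226) (nat_lit 5) (nat_lit 229) (nat_lit 5) (nat_lit 230) (nat_lit 5) (nat_lit 464) (nat_lit 428) (nat_lit 128)) (XT.lf (nat_lit 0) (nat_lit 341306698505) (nat_lit 304) (nat_lit 242628803527) (nat_lit 76) (nat_lit 242622933608) (nat_lit 226) (nat_lit 5) (nat_lit 230) (nat_lit 5) (nat_lit 227) (nat_lit 5) (nat_lit 465) (nat_lit 428) (nat_lit 127))) (XT.nd (nat_lit 78) (nat_lit 0) (nat_lit 0) (XT.lf (nat_lit 0) (nat_lit 278813561890) (nat_lit 152) (nat_lit 278819486818) (nat_lit 228) (nat_lit 294333646663) (nat_lit 224) (nat_lit 5) (nat_lit 226) (nat_lit 5) (nat_lit 227) (nat_lit 5) (nat_lit 466) (nat_lit 428) (nat_lit 126)) (XT.lf (nat_lit 0) (nat_lit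 789600849249) (nat_lit 228) (nat_lit 44404477440) (nat_lit 76) (nat_lit 44398784758) (nat_lit 224) (nat_lit 5) (nat_lit 227) (nat_lit 5) (nat_lit 225) (nat_lit 5) (nat_lit 467) (nat_lit 428) (nat_lit 125))))))) (XT.nd (nat_lit 50310) (nat_lit 0) (nat_lit 4712) (XT.nd (nat_lit 624) (nat_lit 608) (nat_lit 0) (XT.nd (nat_lit 312) (nat_lit 380) (nat_lit 0) (XT.nd (nat_lit 156) (nat_lit 152) (nat_lit 0) (XT.nd (nat_lit 78) (nat_lit 152) (nat_lit 0) (XT.lf (nat_lit 0) (nat_lit 135882999267) (nat_lit 228) (nat_lit 384769890874) (nat_lit 76) (nat_lit 384764150674) (nat_lit 221) (nat_lit 5) (nat_lit 224) (nat_lit 5) (nat_lit 222) (nat_lit 5) (nat_lit 468) (nat_lit 428) (nat_lit 124)) (XT.lf (nat_lit 0) (nat_lit 186242757476) (nat_lit 152) (nat_lit 186248542932) (nat_lit 228) (nat_lit 561032921758) (nat_lit 219) (nat_lit 5) (nat_lit 221) (nat_lit 5) (nat_lit 222) (nat_lit 5) (nat_lit 469) (nat_lit 428) (nat_lit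 123))) (XT.nd (nat_lit 78) (nat_lit 152) (nat_lit 0) (XT.lf (nat_lit 0) (nat_lit 630127269567) (nat_lit 228) (nat_lit 166227590687) (nat_lit 76) (nat_lit 166222039681) (nat_lit 219) (nat_lit 5) (nat_lit 222) (nat_lit 5) (nat_lit 220) (nat_lit 5) (nat_lit 470) (nat_lit 428) (nat_lit 122)) (XT.lf (nat_lit 0) (nat_lit 455401391177) (nat_lit 152) (nat_lit 455406981276) (nat_lit 228) (nat_lit 81765672378) (nat_lit 217) (nat_lit 5) (nat_lit 219) (nat_lit 5) (nat_lit 220) (nat_lit 5) (nat_lit 471) (nat_lit 428) (nat_lit 121)))) (XT.nd (nat_lit 156) (nat_lit 152) (nat_lit 0) (XT.nd (nat_lit 78) (nat_lit 0) (nat_lit 0) (XT.lf (nat_lit 0) (nat_lit 89952468392) (nat_lit 152) (nat_lit 89958095723) (nat_lit 228) (nat_lit 843805549104) (nat_lit 214) (nat_lit 5) (nat_lit 216) (nat_lit 5) (nat_lit 217) (nat_lit 5) (nat_lit 472) (nat_lit 428) (nat_lit 120)) (XT.lf (nat_lit 0) (nat_lit 465755620227) (nat_lit 228)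 (nat_lit 294953196680) (nat_lit 76) (nat_lit 294947803547) (nat_lit 214) (nat_lit 5) (nat_lit 217) (nat_lit 5) (nat_lit 215) (nat_lit 5) (nat_lit 473) (nat_lit 428) (nat_lit 119))) (XT.nd (nat_lit 78) (nat_lit 0) (nat_lit 0) (XT.lf (nat_lit 0) (nat_lit 386699842099) (nat_lit 152) (nat_lit 386705267395) (nat_lit 228) (nat_lit 315413434542) (nat_lit 212) (nat_lit 5) (nat_lit 214) (nat_lit 5) (nat_lit 215) (nat_lit 5) (nat_lit 474) (nat_lit 428) (nat_lit 118)) (XT.lf (nat_lit 0) (nat_lit 1101607778518) (nat_lit 228) (nat_lit 10888723066) (nat_lit 76) (nat_lit 10883526945) (nat_lit 212) (nat_lit 5) (nat_lit 215) (nat_lit 5) (nat_lit 213) (nat_lit 4) (nat_lit 475) (nat_lit 428) (nat_lit 117))))) (XT.nd (nat_lit 312) (nat_lit 152) (nat_lit 0) (XT.nd (nat_lit 156) (nat_lit 152) (nat_lit 0) (XT.nd (nat_lit 78) (nat_lit 152) (nat_lit 0) (XT.lf (nat_lit 0) (nat_lit 295438709657) (nat_lit 152) (nat_lit 431554725714)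 (nat_lit 76) (nat_lit 431549501811) (nat_lit 210) (nat_lit 5) (nat_lit 212) (nat_lit 5) (nat_lit 211) (nat_lit 5) (nat_lit 476) (nat_lit 428) (nat_lit 116)) (XT.lf (nat_lit 0) (nat_lit 316450688691) (nat_lit 152) (nat_lit 316455939054) (nat_lit 228) (nat_lit 562283112376) (nat_lit 208) (nat_lit 5) (nat_lit 210) (nat_lit 5) (nat_lit 211) (nat_lit 5) (nat_lit 477) (nat_lit 428) (nat_lit 115))) (XT.nd (nat_lit 78) (nat_lit 152) (nat_lit 0) (XT.lf (nat_lit 0) (nat_lit 996465691513) (nat_lit 228) (nat_lit 118373664276) (nat_lit 76) (nat_lit 118368639929) (nat_lit 208) (nat_lit 5) (nat_lit 211) (nat_lit 5) (nat_lit 209) (nat_lit 4) (nat_lit 478) (nat_lit 428) (nat_lit 114)) (XT.lf (nat_lit 0) (nat_lit 118047967797) (nat_lit 152) (nat_lit 577092721231) (nat_lit 76) (nat_lit 577087674028) (nat_lit 206) (nat_lit 5) (nat_lit 208) (nat_lit 5) (nat_lit 207) (nat_lit 5) (nat_lit 479) (nat_lit 428) (nat_lit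 113)))) (XT.nd (nat_lit 49218) (nat_lit 0) (nat_lit 6688) (XT.nd (nat_lit 49140) (nat_lit 0) (nat_lit 6688) (XT.lf (nat_lit 0) (nat_lit 244233666260) (nat_lit 152) (nat_lit 244238735232) (nat_lit 228) (nat_lit 824240759104) (nat_lit 204) (nat_lit 5) (nat_lit 206) (nat_lit 5) (nat_lit 207) (nat_lit 5) (nat_lit 480) (nat_lit 428) (nat_lit 112)) (XT.lf (nat_lit 0) (nat_lit 73348360257) (nat_lit 836) (nat_lit 41316399061) (nat_lit 836) (nat_lit 41316399061) (nat_lit 292) (nat_lit 3) (nat_lit 303) (nat_lit 3) (nat_lit 303) (nat_lit 5) (nat_lit 429) (nat_lit 429) (nat_lit 162))) (XT.nd (nat_lit 78) (nat_lit 0) (nat_lit 76) (XT.lf (nat_lit 76) (nat_lit 75773588297) (nat_lit 0) (nat_lit 75774250640) (nat_lit 836) (nat_lit 168154350717) (nat_lit 293) (nat_lit 5) (nat_lit 292) (nat_lit 3) (nat_lit 303) (nat_lit 5) (nat_lit 430) (nat_lit 429) (nat_lit 161)) (XT.lf (nat_lit 0) (nat_lit 159398089738) (nat_lit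 760) (nat_lit 84147184603) (nat_lit 836) (nat_lit 84145953035) (nat_lit 293) (nat_lit 5) (nat_lit 303) (nat_lit 5) (nat_lit 304) (nat_lit 5) (nat_lit 431) (nat_lit 429) (nat_lit 160)))))) (XT.nd (nat_lit 624) (nat_lit 2052) (nat_lit 0) (XT.nd (nat_lit 312) (nat_lit 0) (nat_lit 152) (XT.nd (nat_lit 156) (nat_lit 0) (nat_lit 76) (XT.nd (nat_lit 78) (nat_lit 0) (nat_lit 76) (XT.lf (nat_lit 76) (nat_lit 85104968409) (nat_lit 0) (nat_lit 85106772134) (nat_lit 836) (nat_lit 165739432066) (nat_lit 294) (nat_lit 5) (nat_lit 293) (nat_lit 5) (nat_lit 304) (nat_lit 5) (nat_lit 432) (nat_lit 429) (nat_lit 159)) (XT.lf (nat_lit 0) (nat_lit 184283067665) (nat_lit 760) (nat_lit 80103717273) (nat_lit 836) (nat_lit 80101480477) (nat_lit 294) (nat_lit 5) (nat_lit 304) (nat_lit 5) (nat_lit 305) (nat_lit 5) (nat_lit 433) (nat_lit 429) (nat_lit 158))) (XT.nd (nat_lit 78) (nat_lit 0) (nat_lit 76) (XT.lf (nat_lit 76)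 (nat_lit 101013746981) (nat_lit 0) (nat_lit 101016478028) (nat_lit 836) (nat_lit 151273374659) (nat_lit 295) (nat_lit 5) (nat_lit 294) (nat_lit 5) (nat_lit 305) (nat_lit 5) (nat_lit 434) (nat_lit 429) (nat_lit 157)) (XT.lf (nat_lit 0) (nat_lit 223144590876) (nat_lit 760) (nat_lit 69647083261) (nat_lit 836) (nat_lit 69644033964) (nat_lit 295) (nat_lit 5) (nat_lit 305) (nat_lit 5) (nat_lit 306) (nat_lit 5) (nat_lit 435) (nat_lit 429) (nat_lit 156)))) (XT.nd (nat_lit 156) (nat_lit 0) (nat_lit 76) (XT.nd (nat_lit 78) (nat_lit 0) (nat_lit 76) (XT.lf (nat_lit 76) (nat_lit 124455133231) (nat_lit 0) (nat_lit 124458609480) (nat_lit 836) (nat_lit 122930725862) (nat_lit 296) (nat_lit 5) (nat_lit 295) (nat_lit 5) (nat_lit 306) (nat_lit 5) (nat_lit 436) (nat_lit 429) (nat_lit 155)) (XT.lf (nat_lit 0) (nat_lit 277986573880) (nat_lit 760) (nat_lit 51820015036) (nat_lit 836) (nat_lit 51816317064) (nat_lit 296)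 (nat_lit 5) (nat_lit 306) (nat_lit 5) (nat_lit 307) (nat_lit 5) (nat_lit 437) (nat_lit 429) (nat_lit 154))) (XT.nd (nat_lit 78) (nat_lit 0) (nat_lit 76) (XT.lf (nat_lit 76) (nat_lit 156496300003) (nat_lit 0) (nat_lit 156500366793) (nat_lit 836) (nat_lit 78669417452) (nat_lit 297) (nat_lit 5) (nat_lit 296) (nat_lit 5) (nat_lit 307) (nat_lit 5) (nat_lit 438) (nat_lit 429) (nat_lit 153)) (XT.lf (nat_lit 0) (nat_lit 351046894960) (nat_lit 760) (nat_lit 25552126300) (nat_lit 76) (nat_lit 25547918639) (nat_lit 297) (nat_lit 5) (nat_lit 307) (nat_lit 5) (nat_lit 298) (nat_lit 5) (nat_lit 439) (nat_lit 429) (nat_lit 152))))) (XT.nd (nat_lit 312) (nat_lit 684) (nat_lit 0) (XT.nd (nat_lit 156) (nat_lit 380) (nat_lit 0) (XT.nd (nat_lit 78) (nat_lit 532) (nat_lit 0) (XT.lf (nat_lit 0) (nat_lit 198328562290) (nat_lit 760) (nat_lit 198333088550) (nat_lit 836) (nat_lit 16207086678) (nat_lit 287) (nat_lit 5) (nat_lit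 297) (nat_lit 5) (nat_lit 298) (nat_lit 5) (nat_lit 440) (nat_lit 429) (nat_lit 151)) (XT.lf (nat_lit 0) (nat_lit 10185305400) (nat_lit 456) (nat_lit 10190135087) (nat_lit 532) (nat_lit 403705294388) (nat_lit 280) (nat_lit 5) (nat_lit 286) (nat_lit 5) (nat_lit 287) (nat_lit 5) (nat_lit 441) (nat_lit 429) (nat_lit 150))) (XT.nd (nat_lit 78) (nat_lit 380) (nat_lit 0) (XT.lf (nat_lit 0) (nat_lit 64860521735) (nat_lit 532) (nat_lit 185326748090) (nat_lit 76) (nat_lit 185321873171) (nat_lit 280) (nat_lit 5) (nat_lit 287) (nat_lit 5) (nat_lit 281) (nat_lit 5) (nat_lit 442) (nat_lit 429) (nat_lit 149)) (XT.lf (nat_lit 0) (nat_lit 56305415662) (nat_lit 380) (nat_lit 56310552693) (nat_lit 456) (nat_lit 334840697602) (nat_lit 275) (nat_lit 5) (nat_lit 280) (nat_lit 5) (nat_lit 281) (nat_lit 5) (nat_lit 443) (nat_lit 429) (nat_lit 148)))) (XT.nd (nat_lit 156) (nat_lit 304) (nat_lit 0) (XT.nd (nat_lit 78)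 (nat_lit 380) (nat_lit 0) (XT.lf (nat_lit 0) (nat_lit 168248354590) (nat_lit 456) (nat_lit 145741941133) (nat_lit 76) (nat_lit 145736810980) (nat_lit 275) (nat_lit 5) (nat_lit 281) (nat_lit 5) (nat_lit 276) (nat_lit 5) (nat_lit 444) (nat_lit 429) (nat_lit 147)) (XT.lf (nat_lit 0) (nat_lit 114685331690) (nat_lit 380) (nat_lit 114690688265) (nat_lit 456) (nat_lit 243099366540) (nat_lit 270) (nat_lit 5) (nat_lit 275) (nat_lit 5) (nat_lit 276) (nat_lit 5) (nat_lit 445) (nat_lit 429) (nat_lit 146))) (XT.nd (nat_lit 78) (nat_lit 304) (nat_lit 0) (XT.lf (nat_lit 0) (nat_lit 297545282242) (nat_lit 456) (nat_lit 94060922112) (nat_lit 76) (nat_lit 94055615240) (nat_lit 270) (nat_lit 5) (nat_lit 276) (nat_lit 5) (nat_lit 271) (nat_lit 5) (nat_lit 446) (nat_lit 429) (nat_lit 145)) (XT.lf (nat_lit 0) (nat_lit 186958300892) (nat_lit 304) (nat_lit 186963803355) (nat_lit 380) (nat_lit 125345515271) (nat_lit 266)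 (nat_lit 5) (nat_lit 270) (nat_lit 5) (nat_lit 271) (nat_lit 5) (nat_lit 447) (nat_lit 429) (nat_lit 144))))))))
noncomputable def xc328 : XT := (XT.nd (nat_lit 1248) (nat_lit 1824) (nat_lit 0) (XT.nd (nat_lit 624) (nat_lit 988) (nat_lit 0) (XT.nd (nat_lit 312) (nat_lit 912) (nat_lit 0) (XT.nd (nat_lit 156) (nat_lit 304) (nat_lit 0) (XT.nd (nat_lit 78) (nat_lit 380) (nat_lit 0) (XT.lf (nat_lit 0) (nat_lit 456172592294) (nat_lit 380) (nat_lit 28641896872) (nat_lit 76) (nat_lit 28636479024) (nat_lit 266) (nat_lit 5) (nat_lit 271) (nat_lit 5) (nat_lit 267) (nat_lit 5) (nat_lit 448) (nat_lit 429) (nat_lit 143)) (XT.lf (nat_lit 0) (nat_lit 21216104188) (nat_lit 380) (nat_lit 253373988483) (nat_lit 76) (nat_lit 253368401675) (nat_lit 261) (nat_lit 5) (nat_lit 266) (nat_lit 5) (nat_lit 262) (nat_lit 5) (nat_lit 449) (nat_lit 429) (nat_lit 142))) (XT.nd (nat_lit 78) (nat_lit 0) (nat_lit 0) (XT.lf (nat_lit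 0) (nat_lit 51500850318) (nat_lit 304) (nat_lit 51506598040) (nat_lit 380) (nat_lit 440072145509) (nat_lit 257) (nat_lit 5) (nat_lit 261) (nat_lit 5) (nat_lit 262) (nat_lit 5) (nat_lit 450) (nat_lit 429) (nat_lit 141)) (XT.lf (nat_lit 0) (nat_lit 196102640150) (nat_lit 380) (nat_lit 181249507084) (nat_lit 76) (nat_lit 181243887109) (nat_lit 257) (nat_lit 5) (nat_lit 262) (nat_lit 5) (nat_lit 258) (nat_lit 5) (nat_lit 451) (nat_lit 429) (nat_lit 140)))) (XT.nd (nat_lit 156) (nat_lit 608) (nat_lit 0) (XT.nd (nat_lit 78) (nat_lit 0) (nat_lit 0) (XT.lf (nat_lit 0) (nat_lit 148504881026) (nat_lit 304) (nat_lit 148510640005) (nat_lit 380) (nat_lit 277714629336) (nat_lit 253) (nat_lit 5) (nat_lit 257) (nat_lit 5) (nat_lit 258) (nat_lit 5) (nat_lit 452) (nat_lit 429) (nat_lit 139)) (XT.lf (nat_lit 0) (nat_lit 407526729447) (nat_lit 380) (nat_lit 91961109696) (nat_lit 76) (nat_lit 91955498875) (nat_lit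 253) (nat_lit 5) (nat_lit 258) (nat_lit 5) (nat_lit 254) (nat_lit 5) (nat_lit 453) (nat_lit 429) (nat_lit 138))) (XT.nd (nat_lit 78) (nat_lit 380) (nat_lit 0) (XT.lf (nat_lit 0) (nat_lit 265065382226) (nat_lit 228) (nat_lit 265071113124) (nat_lit 304) (nat_lit 78527039848) (nat_lit 250) (nat_lit 5) (nat_lit 253) (nat_lit 5) (nat_lit 254) (nat_lit 5) (nat_lit 454) (nat_lit 429) (nat_lit 137)) (XT.lf (nat_lit 0) (nat_lit 16468891489) (nat_lit 304) (nat_lit 16474736745) (nat_lit 380) (nat_lit 593684028178) (nat_lit 245) (nat_lit 5) (nat_lit 249) (nat_lit 5) (nat_lit 250) (nat_lit 5) (nat_lit 455) (nat_lit 429) (nat_lit 136))))) (XT.nd (nat_lit 312) (nat_lit 532) (nat_lit 0) (XT.nd (nat_lit 156) (nat_lit 228) (nat_lit 0) (XT.nd (nat_lit 78) (nat_lit 228) (nat_lit 0) (XT.lf (nat_lit 0) (nat_lit 157081317810) (nat_lit 380) (nat_lit 243931672255) (nat_lit 76) (nat_lit 243926001618) (nat_lit 245) (nat_lit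 5) (nat_lit 250) (nat_lit 5) (nat_lit 246) (nat_lit 5) (nat_lit 456) (nat_lit 429) (nat_lit 135)) (XT.lf (nat_lit 0) (nat_lit 144976839570) (nat_lit 228) (nat_lit 144982608994) (nat_lit 304) (nat_lit 374079767318) (nat_lit 242) (nat_lit 5) (nat_lit 245) (nat_lit 5) (nat_lit 246) (nat_lit 5) (nat_lit 457) (nat_lit 429) (nat_lit 134))) (XT.nd (nat_lit 78) (nat_lit 228) (nat_lit 0) (XT.lf (nat_lit 0) (nat_lit 435613928840) (nat_lit 304) (nat_lit 124089742297) (nat_lit 76) (nat_lit 124084158005) (nat_lit 242) (nat_lit 5) (nat_lit 246) (nat_lit 5) (nat_lit 243) (nat_lit 5) (nat_lit 458) (nat_lit 429) (nat_lit 133)) (XT.lf (nat_lit 0) (nat_lit 297785741438) (nat_lit 228) (nat_lit 297791411067) (nat_lit 304) (nat_lit 108595419591) (nat_lit 239) (nat_lit 5) (nat_lit 242) (nat_lit 5) (nat_lit 243) (nat_lit 5) (nat_lit 459) (nat_lit 429) (nat_lit 132)))) (XT.nd (nat_lit 156) (nat_lit 228) (nat_lit 0) (XT.nd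 (nat_lit 78) (nat_lit 0) (nat_lit 0) (XT.lf (nat_lit 0) (nat_lit 19591524345) (nat_lit 228) (nat_lit 19597275246) (nat_lit 304) (nat_lit 686236026205) (nat_lit 235) (nat_lit 5) (nat_lit 238) (nat_lit 5) (nat_lit 239) (nat_lit 5) (nat_lit 460) (nat_lit 429) (nat_lit 131)) (XT.lf (nat_lit 0) (nat_lit 201962471620) (nat_lit 304) (nat_lit 272565635342) (nat_lit 76) (nat_lit 272560084577) (nat_lit 235) (nat_lit 5) (nat_lit 239) (nat_lit 5) (nat_lit 236) (nat_lit 5) (nat_lit 461) (nat_lit 429) (nat_lit 130))) (XT.nd (nat_lit 78) (nat_lit 0) (nat_lit 0) (XT.lf (nat_lit 0) (nat_lit 188063327537) (nat_lit 228) (nat_lit 188068948508) (nat_lit 304) (nat_lit 393539577085) (nat_lit 232) (nat_lit 5) (nat_lit 235) (nat_lit 5) (nat_lit 236) (nat_lit 5) (nat_lit 462) (nat_lit 429) (nat_lit 129)) (XT.lf (nat_lit 0) (nat_lit 565462029298) (nat_lit 304) (nat_lit 113802756278) (nat_lit 76) (nat_lit 113797339293) (nat_lit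 232) (nat_lit 5) (nat_lit 236) (nat_lit 5) (nat_lit 233) (nat_lit 5) (nat_lit 463) (nat_lit 429) (nat_lit 128)))))) (XT.nd (nat_lit 624) (nat_lit 836) (nat_lit 0) (XT.nd (nat_lit 312) (nat_lit 380) (nat_lit 0) (XT.nd (nat_lit 156) (nat_lit 152) (nat_lit 0) (XT.nd (nat_lit 78) (nat_lit 304) (nat_lit 0) (XT.lf (nat_lit 0) (nat_lit 386686569192) (nat_lit 152) (nat_lit 386692046824) (nat_lit 228) (nat_lit 43787276888) (nat_lit 230) (nat_lit 5) (nat_lit 232) (nat_lit 5) (nat_lit 233) (nat_lit 5) (nat_lit 464) (nat_lit 429) (nat_lit 127)) (XT.lf (nat_lit 0) (nat_lit 73772742062) (nat_lit 228) (nat_lit 73778277452) (nat_lit 304) (nat_lit 694651811364) (nat_lit 226) (nat_lit 5) (nat_lit 229) (nat_lit 5) (nat_lit 230) (nat_lit 5) (nat_lit 465) (nat_lit 429) (nat_lit 126))) (XT.nd (nat_lit 78) (nat_lit 152) (nat_lit 0) (XT.lf (nat_lit 0) (nat_lit 358372416886) (nat_lit 304) (nat_lit 254759622777) (nat_lit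 76) (nat_lit 254754298587) (nat_lit 226) (nat_lit 5) (nat_lit 230) (nat_lit 5) (nat_lit 227) (nat_lit 5) (nat_lit 466) (nat_lit 429) (nat_lit 125)) (XT.lf (nat_lit 0) (nat_lit 292754850897) (nat_lit 152) (nat_lit 292760224980) (nat_lit 228) (nat_lit 309049935527) (nat_lit 224) (nat_lit 5) (nat_lit 226) (nat_lit 5) (nat_lit 227) (nat_lit 5) (nat_lit 467) (nat_lit 429) (nat_lit 124)))) (XT.nd (nat_lit 156) (nat_lit 152) (nat_lit 0) (XT.nd (nat_lit 78) (nat_lit 228) (nat_lit 0) (XT.lf (nat_lit 0) (nat_lit 829081252112) (nat_lit 228) (nat_lit 46624105159) (nat_lit 76) (nat_lit 46618941728) (nat_lit 224) (nat_lit 5) (nat_lit 227) (nat_lit 5) (nat_lit 225) (nat_lit 5) (nat_lit 468) (nat_lit 429) (nat_lit 123)) (XT.lf (nat_lit 0) (nat_lit 142677507404) (nat_lit 228) (nat_lit 404007787037) (nat_lit 76) (nat_lit 404002580506) (nat_lit 221) (nat_lit 5) (nat_lit 224) (nat_lit 5) (nat_lit 222) (nat_lit 5)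 (nat_lit 469) (nat_lit 429) (nat_lit 122))) (XT.nd (nat_lit 78) (nat_lit 0) (nat_lit 0) (XT.lf (nat_lit 0) (nat_lit 195555484079) (nat_lit 152) (nat_lit 195560731658) (nat_lit 228) (nat_lit 589084200022) (nat_lit 219) (nat_lit 5) (nat_lit 221) (nat_lit 5) (nat_lit 222) (nat_lit 5) (nat_lit 470) (nat_lit 429) (nat_lit 121)) (XT.lf (nat_lit 0) (nat_lit 661633970219) (nat_lit 228) (nat_lit 174538396391) (nat_lit 76) (nat_lit 174533361465) (nat_lit 219) (nat_lit 5) (nat_lit 222) (nat_lit 5) (nat_lit 220) (nat_lit 5) (nat_lit 471) (nat_lit 429) (nat_lit 120))))) (XT.nd (nat_lit 312) (nat_lit 304) (nat_lit 0) (XT.nd (nat_lit 156) (nat_lit 152) (nat_lit 0) (XT.nd (nat_lit 78) (nat_lit 228) (nat_lit 0) (XT.lf (nat_lit 0) (nat_lit 478172025311) (nat_lit 152) (nat_lit 478177095696) (nat_lit 228) (nat_lit 85853609569) (nat_lit 217) (nat_lit 5) (nat_lit 219) (nat_lit 5) (nat_lit 220) (nat_lit 5) (nat_lit 472)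 (nat_lit 429) (nat_lit 119)) (XT.lf (nat_lit 0) (nat_lit 94450658190) (nat_lit 152) (nat_lit 94455762345) (nat_lit 228) (nat_lit 885995481934) (nat_lit 214) (nat_lit 5) (nat_lit 216) (nat_lit 5) (nat_lit 217) (nat_lit 5) (nat_lit 473) (nat_lit 429) (nat_lit 118))) (XT.nd (nat_lit 78) (nat_lit 152) (nat_lit 0) (XT.lf (nat_lit 0) (nat_lit 489043717365) (nat_lit 228) (nat_lit 309700305019) (nat_lit 76) (nat_lit 309695413287) (nat_lit 214) (nat_lit 5) (nat_lit 217) (nat_lit 5) (nat_lit 215) (nat_lit 5) (nat_lit 474) (nat_lit 429) (nat_lit 117)) (XT.lf (nat_lit 0) (nat_lit 406035376805) (nat_lit 152) (nat_lit 406040297708) (nat_lit 228) (nat_lit 331183781247) (nat_lit 212) (nat_lit 5) (nat_lit 214) (nat_lit 5) (nat_lit 215) (nat_lit 5) (nat_lit 475) (nat_lit 429) (nat_lit 116)))) (XT.nd (nat_lit 156) (nat_lit 152) (nat_lit 0) (XT.nd (nat_lit 78) (nat_lit 152) (nat_lit 0) (XT.lf (nat_lit 0) (nat_lit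 1156688465714) (nat_lit 228) (nat_lit 11432631182) (nat_lit 76) (nat_lit 11427918147) (nat_lit 212) (nat_lit 5) (nat_lit 215) (nat_lit 5) (nat_lit 213) (nat_lit 4) (nat_lit 476) (nat_lit 429) (nat_lit 115)) (XT.lf (nat_lit 0) (nat_lit 310210942107) (nat_lit 152) (nat_lit 453131932660) (nat_lit 76) (nat_lit 453127194426) (nat_lit 210) (nat_lit 5) (nat_lit 212) (nat_lit 5) (nat_lit 211) (nat_lit 5) (nat_lit 477) (nat_lit 429) (nat_lit 114))) (XT.nd (nat_lit 78) (nat_lit 0) (nat_lit 0) (XT.lf (nat_lit 0) (nat_lit 332273743927) (nat_lit 152) (nat_lit 332278506162) (nat_lit 228) (nat_lit 590396962490) (nat_lit 208) (nat_lit 5) (nat_lit 210) (nat_lit 5) (nat_lit 211) (nat_lit 5) (nat_lit 478) (nat_lit 429) (nat_lit 113)) (XT.lf (nat_lit 0) (nat_lit 1046289256608) (nat_lit 228) (nat_lit 124291841050) (nat_lit 76) (nat_lit 124287283820) (nat_lit 208) (nat_lit 5) (nat_lit 211) (nat_lit 5) (nat_lit 209)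 (nat_lit 4) (nat_lit 479) (nat_lit 429) (nat_lit 112)))))))
noncomputable def xc329 : XT := (XT.nd (nat_lit 50388) (nat_lit 0) (nat_lit 2204) (XT.nd (nat_lit 49764) (nat_lit 0) (nat_lit 5244) (XT.nd (nat_lit 49452) (nat_lit 0) (nat_lit 6612) (XT.nd (nat_lit 49296) (nat_lit 0) (nat_lit 6536) (XT.nd (nat_lit 49218) (nat_lit 0) (nat_lit 6536) (XT.lf (nat_lit 0) (nat_lit 123950645635) (nat_lit 152) (nat_lit 605946849782) (nat_lit 76) (nat_lit 605942271820) (nat_lit 206) (nat_lit 5) (nat_lit 208) (nat_lit 5) (nat_lit 207) (nat_lit 5) (nat_lit 480) (nat_lit 429) (nat_lit 111)) (XT.lf (nat_lit 0) (nat_lit 77016430272) (nat_lit 836) (nat_lit 43381876712) (nat_lit 836) (nat_lit 43381876712) (nat_lit 292) (nat_lit 3) (nat_lit 303) (nat_lit 3) (nat_lit 303) (nat_lit 5) (nat_lit 430) (nat_lit 430) (nat_lit 160))) (XT.nd (nat_lit 78) (nat_lit 0) (nat_lit 76) (XT.lf (nat_lit 76) (nat_lit 79562941272) (nat_lit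 0) (nat_lit 79563542037) (nat_lit 836) (nat_lit 176560753207) (nat_lit 293) (nat_lit 5) (nat_lit 292) (nat_lit 3) (nat_lit 303) (nat_lit 5) (nat_lit 431) (nat_lit 430) (nat_lit 159)) (XT.lf (nat_lit 0) (nat_lit 167369178403) (nat_lit 760) (nat_lit 88353834100) (nat_lit 836) (nat_lit 88352717032) (nat_lit 293) (nat_lit 5) (nat_lit 303) (nat_lit 5) (nat_lit 304) (nat_lit 5) (nat_lit 432) (nat_lit 430) (nat_lit 158)))) (XT.nd (nat_lit 156) (nat_lit 0) (nat_lit 76) (XT.nd (nat_lit 78) (nat_lit 0) (nat_lit 76) (XT.lf (nat_lit 76) (nat_lit 89360915115) (nat_lit 0) (nat_lit 89362551146) (nat_lit 836) (nat_lit 174025208044) (nat_lit 294) (nat_lit 5) (nat_lit 293) (nat_lit 5) (nat_lit 304) (nat_lit 5) (nat_lit 433) (nat_lit 430) (nat_lit 157)) (XT.lf (nat_lit 0) (nat_lit 193498298967) (nat_lit 760) (nat_lit 84108177331) (nat_lit 836) (nat_lit 84106148491) (nat_lit 294) (nat_lit 5) (nat_lit 304) (nat_lit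 5) (nat_lit 305) (nat_lit 5) (nat_lit 434) (nat_lit 430) (nat_lit 156))) (XT.nd (nat_lit 78) (nat_lit 0) (nat_lit 76) (XT.lf (nat_lit 76) (nat_lit 106065148429) (nat_lit 0) (nat_lit 106067625569) (nat_lit 836) (nat_lit 158835953766) (nat_lit 295) (nat_lit 5) (nat_lit 294) (nat_lit 5) (nat_lit 305) (nat_lit 5) (nat_lit 435) (nat_lit 430) (nat_lit 155)) (XT.lf (nat_lit 0) (nat_lit 234302803931) (nat_lit 760) (nat_lit 73128703101) (nat_lit 836) (nat_lit 73125937299) (nat_lit 295) (nat_lit 5) (nat_lit 305) (nat_lit 5) (nat_lit 306) (nat_lit 5) (nat_lit 436) (nat_lit 430) (nat_lit 154))))) (XT.nd (nat_lit 312) (nat_lit 1520) (nat_lit 0) (XT.nd (nat_lit 156) (nat_lit 0) (nat_lit 76) (XT.nd (nat_lit 78) (nat_lit 0) (nat_lit 76) (XT.lf (nat_lit 76) (nat_lit 130678612371) (nat_lit 0) (nat_lit 130681765432) (nat_lit 836) (nat_lit 129076266800) (nat_lit 296) (nat_lit 5) (nat_lit 295) (nat_lit 5) (nat_lit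 306) (nat_lit 5) (nat_lit 437) (nat_lit 430) (nat_lit 153)) (XT.lf (nat_lit 0) (nat_lit 291886802037) (nat_lit 760) (nat_lit 54410279219) (nat_lit 836) (nat_lit 54406925050) (nat_lit 296) (nat_lit 5) (nat_lit 306) (nat_lit 5) (nat_lit 307) (nat_lit 5) (nat_lit 438) (nat_lit 430) (nat_lit 152))) (XT.nd (nat_lit 78) (nat_lit 0) (nat_lit 76) (XT.lf (nat_lit 76) (nat_lit 164321839692) (nat_lit 0) (nat_lit 164325528390) (nat_lit 836) (nat_lit 82601976982) (nat_lit 297) (nat_lit 5) (nat_lit 296) (nat_lit 5) (nat_lit 307) (nat_lit 5) (nat_lit 439) (nat_lit 430) (nat_lit 151)) (XT.lf (nat_lit 0) (nat_lit 368600064193) (nat_lit 760) (nat_lit 26828998975) (nat_lit 76) (nat_lit 26825182502) (nat_lit 297) (nat_lit 5) (nat_lit 307) (nat_lit 5) (nat_lit 298) (nat_lit 5) (nat_lit 440) (nat_lit 430) (nat_lit 150)))) (XT.nd (nat_lit 156) (nat_lit 380) (nat_lit 0) (XT.nd (nat_lit 78) (nat_lit 532) (nat_lit 0) (XT.lf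 (nat_lit 0) (nat_lit 208245712212) (nat_lit 760) (nat_lit 208249817663) (nat_lit 836) (nat_lit 17016604694) (nat_lit 287) (nat_lit 5) (nat_lit 297) (nat_lit 5) (nat_lit 298) (nat_lit 5) (nat_lit 441) (nat_lit 430) (nat_lit 149)) (XT.lf (nat_lit 0) (nat_lit 10695307171) (nat_lit 456) (nat_lit 10699687839) (nat_lit 532) (nat_lit 423889737484) (nat_lit 280) (nat_lit 5) (nat_lit 286) (nat_lit 5) (nat_lit 287) (nat_lit 5) (nat_lit 442) (nat_lit 430) (nat_lit 148))) (XT.nd (nat_lit 78) (nat_lit 380) (nat_lit 0) (XT.lf (nat_lit 0) (nat_lit 68104292375) (nat_lit 532) (nat_lit 194592346119) (nat_lit 76) (nat_lit 194587924424) (nat_lit 280) (nat_lit 5) (nat_lit 287) (nat_lit 5) (nat_lit 281) (nat_lit 5) (nat_lit 443) (nat_lit 430) (nat_lit 147)) (XT.lf (nat_lit 0) (nat_lit 59121413896) (nat_lit 380) (nat_lit 59126073334) (nat_lit 456) (nat_lit 351581976003) (nat_lit 275) (nat_lit 5) (nat_lit 280) (nat_lit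 5) (nat_lit 281) (nat_lit 5) (nat_lit 444) (nat_lit 430) (nat_lit 146)))))) (XT.nd (nat_lit 624) (nat_lit 1672) (nat_lit 0) (XT.nd (nat_lit 312) (nat_lit 684) (nat_lit 0) (XT.nd (nat_lit 156) (nat_lit 304) (nat_lit 0) (XT.nd (nat_lit 78) (nat_lit 380) (nat_lit 0) (XT.lf (nat_lit 0) (nat_lit 176661458573) (nat_lit 456) (nat_lit 153028311177) (nat_lit 76) (nat_lit 153023657977) (nat_lit 275) (nat_lit 5) (nat_lit 281) (nat_lit 5) (nat_lit 276) (nat_lit 5) (nat_lit 445) (nat_lit 430) (nat_lit 145)) (XT.lf (nat_lit 0) (nat_lit 120420313562) (nat_lit 380) (nat_lit 120425172133) (nat_lit 456) (nat_lit 255253636888) (nat_lit 270) (nat_lit 5) (nat_lit 275) (nat_lit 5) (nat_lit 276) (nat_lit 5) (nat_lit 446) (nat_lit 430) (nat_lit 144))) (XT.nd (nat_lit 78) (nat_lit 304) (nat_lit 0) (XT.lf (nat_lit 0) (nat_lit 312423180193) (nat_lit 456) (nat_lit 98763256089) (nat_lit 76) (nat_lit 98758442600) (nat_lit 270)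 (nat_lit 5) (nat_lit 276) (nat_lit 5) (nat_lit 271) (nat_lit 5) (nat_lit 447) (nat_lit 430) (nat_lit 143)) (XT.lf (nat_lit 0) (nat_lit 196306916579) (nat_lit 304) (nat_lit 196311907475) (nat_lit 380) (nat_lit 131612145710) (nat_lit 266) (nat_lit 5) (nat_lit 270) (nat_lit 5) (nat_lit 271) (nat_lit 5) (nat_lit 448) (nat_lit 430) (nat_lit 142)))) (XT.nd (nat_lit 156) (nat_lit 304) (nat_lit 0) (XT.nd (nat_lit 78) (nat_lit 380) (nat_lit 0) (XT.lf (nat_lit 0) (nat_lit 478981808517) (nat_lit 380) (nat_lit 30073296451) (nat_lit 76) (nat_lit 30068382302) (nat_lit 266) (nat_lit 5) (nat_lit 271) (nat_lit 5) (nat_lit 267) (nat_lit 5) (nat_lit 449) (nat_lit 430) (nat_lit 141)) (XT.lf (nat_lit 0) (nat_lit 22277488086) (nat_lit 380) (nat_lit 266041984722) (nat_lit 76) (nat_lit 266036917322) (nat_lit 261) (nat_lit 5) (nat_lit 266) (nat_lit 5) (nat_lit 262) (nat_lit 5) (nat_lit 450) (nat_lit 430) (nat_lit 140)))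 (XT.nd (nat_lit 78) (nat_lit 0) (nat_lit 0) (XT.lf (nat_lit 0) (nat_lit 54076584678) (nat_lit 304) (nat_lit 54081798031) (nat_lit 380) (nat_lit 462075162755) (nat_lit 257) (nat_lit 5) (nat_lit 261) (nat_lit 5) (nat_lit 262) (nat_lit 5) (nat_lit 451) (nat_lit 430) (nat_lit 139)) (XT.lf (nat_lit 0) (nat_lit 205908309263) (nat_lit 380) (nat_lit 190311298712) (nat_lit 76) (nat_lit 190306201229) (nat_lit 257) (nat_lit 5) (nat_lit 262) (nat_lit 5) (nat_lit 258) (nat_lit 5) (nat_lit 452) (nat_lit 430) (nat_lit 138))))) (XT.nd (nat_lit 312) (nat_lit 760) (nat_lit 0) (XT.nd (nat_lit 156) (nat_lit 608) (nat_lit 0) (XT.nd (nat_lit 78) (nat_lit 0) (nat_lit 0) (XT.lf (nat_lit 0) (nat_lit 155930797776) (nat_lit 304) (nat_lit 155936021339) (nat_lit 380) (nat_lit 291599812669) (nat_lit 253) (nat_lit 5) (nat_lit 257) (nat_lit 5) (nat_lit 258) (nat_lit 5) (nat_lit 453) (nat_lit 430) (nat_lit 137)) (XT.lf (nat_lit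 0) (nat_lit 427903565333) (nat_lit 380) (nat_lit 96558501898) (nat_lit 76) (nat_lit 96553412718) (nat_lit 253) (nat_lit 5) (nat_lit 258) (nat_lit 5) (nat_lit 254) (nat_lit 5) (nat_lit 454) (nat_lit 430) (nat_lit 136))) (XT.nd (nat_lit 78) (nat_lit 380) (nat_lit 0) (XT.lf (nat_lit 0) (nat_lit 278319303923) (nat_lit 228) (nat_lit 278324502016) (nat_lit 304) (nat_lit 82452881729) (nat_lit 250) (nat_lit 5) (nat_lit 253) (nat_lit 5) (nat_lit 254) (nat_lit 5) (nat_lit 455) (nat_lit 430) (nat_lit 135)) (XT.lf (nat_lit 0) (nat_lit 17292994187) (nat_lit 304) (nat_lit 17298296006) (nat_lit 380) (nat_lit 623367725013) (nat_lit 245) (nat_lit 5) (nat_lit 249) (nat_lit 5) (nat_lit 250) (nat_lit 5) (nat_lit 456) (nat_lit 430) (nat_lit 134)))) (XT.nd (nat_lit 156) (nat_lit 532) (nat_lit 0) (XT.nd (nat_lit 78) (nat_lit 228) (nat_lit 0) (XT.lf (nat_lit 0) (nat_lit 164935844005) (nat_lit 380) (nat_lit 256127608841)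 (nat_lit 76) (nat_lit 256122465406) (nat_lit 245) (nat_lit 5) (nat_lit 250) (nat_lit 5) (nat_lit 246) (nat_lit 5) (nat_lit 457) (nat_lit 430) (nat_lit 133)) (XT.lf (nat_lit 0) (nat_lit 152226318139) (nat_lit 228) (nat_lit 152231551177) (nat_lit 304) (nat_lit 392783284944) (nat_lit 242) (nat_lit 5) (nat_lit 245) (nat_lit 5) (nat_lit 246) (nat_lit 5) (nat_lit 458) (nat_lit 430) (nat_lit 132))) (XT.nd (nat_lit 78) (nat_lit 532) (nat_lit 0) (XT.lf (nat_lit 0) (nat_lit 457395055056) (nat_lit 304) (nat_lit 130293604586) (nat_lit 76) (nat_lit 130288539468) (nat_lit 242) (nat_lit 5) (nat_lit 246) (nat_lit 5) (nat_lit 243) (nat_lit 5) (nat_lit 459) (nat_lit 430) (nat_lit 131)) (XT.nd (nat_lit 78) (nat_lit 304) (nat_lit 0) (XT.lf (nat_lit 0) (nat_lit 312675643259) (nat_lit 228) (nat_lit 312680785779) (nat_lit 304) (nat_lit 114024750718) (nat_lit 239) (nat_lit 5) (nat_lit 242) (nat_lit 5) (nat_lit 243) (nat_lit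 5) (nat_lit 460) (nat_lit 430) (nat_lit 130)) (XT.lf (nat_lit 0) (nat_lit 20571719247) (nat_lit 228) (nat_lit 20576935483) (nat_lit 304) (nat_lit 720547391599) (nat_lit 235) (nat_lit 5) (nat_lit 238) (nat_lit 5) (nat_lit 239) (nat_lit 5) (nat_lit 461) (nat_lit 430) (nat_lit 129))))))))
noncomputable def xc330 : XT := (XT.nd (nat_lit 51714) (nat_lit 0) (nat_lit 456) (XT.nd (nat_lit 1248) (nat_lit 304) (nat_lit 0) (XT.nd (nat_lit 624) (nat_lit 912) (nat_lit 0) (XT.nd (nat_lit 312) (nat_lit 456) (nat_lit 0) (XT.nd (nat_lit 156) (nat_lit 152) (nat_lit 0) (XT.nd (nat_lit 78) (nat_lit 228) (nat_lit 0) (XT.lf (nat_lit 0) (nat_lit 212060993617) (nat_lit 304) (nat_lit 286193311143) (nat_lit 76) (nat_lit 286188276436) (nat_lit 235) (nat_lit 5) (nat_lit 239) (nat_lit 5) (nat_lit 236) (nat_lit 5) (nat_lit 462) (nat_lit 430) (nat_lit 128)) (XT.lf (nat_lit 0) (nat_lit 197467090106) (nat_lit 228) (nat_lit 197472188493)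 (nat_lit 304) (nat_lit 413216147750) (nat_lit 232) (nat_lit 5) (nat_lit 235) (nat_lit 5) (nat_lit 236) (nat_lit 5) (nat_lit 463) (nat_lit 430) (nat_lit 127))) (XT.nd (nat_lit 78) (nat_lit 152) (nat_lit 0) (XT.lf (nat_lit 0) (nat_lit 593735504087) (nat_lit 304) (nat_lit 119492310863) (nat_lit 76) (nat_lit 119487397497) (nat_lit 232) (nat_lit 5) (nat_lit 236) (nat_lit 5) (nat_lit 233) (nat_lit 5) (nat_lit 464) (nat_lit 430) (nat_lit 126)) (XT.lf (nat_lit 0) (nat_lit 406021471475) (nat_lit 152) (nat_lit 406026439848) (nat_lit 228) (nat_lit 45976258002) (nat_lit 230) (nat_lit 5) (nat_lit 232) (nat_lit 5) (nat_lit 233) (nat_lit 5) (nat_lit 465) (nat_lit 430) (nat_lit 125)))) (XT.nd (nat_lit 156) (nat_lit 152) (nat_lit 0) (XT.nd (nat_lit 78) (nat_lit 0) (nat_lit 0) (XT.lf (nat_lit 0) (nat_lit 77461955785) (nat_lit 228) (nat_lit 77466976547) (nat_lit 304) (nat_lit 729384021998) (nat_lit 226) (nat_lit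 5) (nat_lit 229) (nat_lit 5) (nat_lit 230) (nat_lit 5) (nat_lit 466) (nat_lit 430) (nat_lit 124)) (XT.lf (nat_lit 0) (nat_lit 376291385535) (nat_lit 304) (nat_lit 267497040717) (nat_lit 76) (nat_lit 267492211520) (nat_lit 226) (nat_lit 5) (nat_lit 230) (nat_lit 5) (nat_lit 227) (nat_lit 5) (nat_lit 467) (nat_lit 430) (nat_lit 123))) (XT.nd (nat_lit 78) (nat_lit 0) (nat_lit 0) (XT.lf (nat_lit 0) (nat_lit 307393147556) (nat_lit 152) (nat_lit 307398022009) (nat_lit 228) (nat_lit 324502075414) (nat_lit 224) (nat_lit 5) (nat_lit 226) (nat_lit 5) (nat_lit 227) (nat_lit 5) (nat_lit 468) (nat_lit 430) (nat_lit 122)) (XT.lf (nat_lit 0) (nat_lit 870535641612) (nat_lit 228) (nat_lit 48954769688) (nat_lit 76) (nat_lit 48950086305) (nat_lit 224) (nat_lit 5) (nat_lit 227) (nat_lit 5) (nat_lit 225) (nat_lit 5) (nat_lit 469) (nat_lit 430) (nat_lit 121))))) (XT.nd (nat_lit 312) (nat_lit 380) (nat_lit 0) (XT.nd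 (nat_lit 156) (nat_lit 152) (nat_lit 0) (XT.nd (nat_lit 78) (nat_lit 152) (nat_lit 0) (XT.lf (nat_lit 0) (nat_lit 149811707648) (nat_lit 228) (nat_lit 424207633640) (nat_lit 76) (nat_lit 424202911163) (nat_lit 221) (nat_lit 5) (nat_lit 224) (nat_lit 5) (nat_lit 222) (nat_lit 5) (nat_lit 470) (nat_lit 430) (nat_lit 120)) (XT.lf (nat_lit 0) (nat_lit 205333792278) (nat_lit 152) (nat_lit 205338551987) (nat_lit 228) (nat_lit 618538076395) (nat_lit 219) (nat_lit 5) (nat_lit 221) (nat_lit 5) (nat_lit 222) (nat_lit 5) (nat_lit 471) (nat_lit 430) (nat_lit 119))) (XT.nd (nat_lit 78) (nat_lit 152) (nat_lit 0) (XT.lf (nat_lit 0) (nat_lit 694715974555) (nat_lit 228) (nat_lit 183264795729) (nat_lit 76) (nat_lit 183260228902) (nat_lit 219) (nat_lit 5) (nat_lit 222) (nat_lit 5) (nat_lit 220) (nat_lit 5) (nat_lit 472) (nat_lit 430) (nat_lit 118)) (XT.lf (nat_lit 0) (nat_lit 502081138663) (nat_lit 152) (nat_lit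 502085737652) (nat_lit 228) (nat_lit 90145975827) (nat_lit 217) (nat_lit 5) (nat_lit 219) (nat_lit 5) (nat_lit 220) (nat_lit 5) (nat_lit 473) (nat_lit 430) (nat_lit 117)))) (XT.nd (nat_lit 156) (nat_lit 152) (nat_lit 0) (XT.nd (nat_lit 78) (nat_lit 0) (nat_lit 0) (XT.lf (nat_lit 0) (nat_lit 99173704821) (nat_lit 152) (nat_lit 99178334441) (nat_lit 228) (nat_lit 930294943445) (nat_lit 214) (nat_lit 5) (nat_lit 216) (nat_lit 5) (nat_lit 217) (nat_lit 5) (nat_lit 474) (nat_lit 430) (nat_lit 116)) (XT.lf (nat_lit 0) (nat_lit 513496189969) (nat_lit 228) (nat_lit 325184820046) (nat_lit 76) (nat_lit 325180383102) (nat_lit 214) (nat_lit 5) (nat_lit 217) (nat_lit 5) (nat_lit 215) (nat_lit 5) (nat_lit 475) (nat_lit 430) (nat_lit 115))) (XT.nd (nat_lit 78) (nat_lit 0) (nat_lit 0) (XT.lf (nat_lit 0) (nat_lit 426337637800) (nat_lit 152) (nat_lit 426342101204) (nat_lit 228) (nat_lit 347742675505) (nat_lit 212)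 (nat_lit 5) (nat_lit 214) (nat_lit 5) (nat_lit 215) (nat_lit 5) (nat_lit 476) (nat_lit 430) (nat_lit 114)) (XT.lf (nat_lit 0) (nat_lit 1214523159539) (nat_lit 228) (nat_lit 12003783795) (nat_lit 76) (nat_lit 11999508934) (nat_lit 212) (nat_lit 5) (nat_lit 215) (nat_lit 5) (nat_lit 213) (nat_lit 4) (nat_lit 477) (nat_lit 430) (nat_lit 113)))))) (XT.nd (nat_lit 49842) (nat_lit 0) (nat_lit 5472) (XT.nd (nat_lit 49530) (nat_lit 0) (nat_lit 6384) (XT.nd (nat_lit 156) (nat_lit 0) (nat_lit 0) (XT.nd (nat_lit 78) (nat_lit 152) (nat_lit 0) (XT.lf (nat_lit 0) (nat_lit 325721758571) (nat_lit 152) (nat_lit 475788049166) (nat_lit 76) (nat_lit 475783751448) (nat_lit 210) (nat_lit 5) (nat_lit 212) (nat_lit 5) (nat_lit 211) (nat_lit 5) (nat_lit 478) (nat_lit 430) (nat_lit 112)) (XT.lf (nat_lit 0) (nat_lit 348887903507) (nat_lit 152) (nat_lit 348892222994) (nat_lit 228) (nat_lit 619916533513) (nat_lit 208) (nat_lit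 5) (nat_lit 210) (nat_lit 5) (nat_lit 211) (nat_lit 5) (nat_lit 479) (nat_lit 430) (nat_lit 111))) (XT.nd (nat_lit 49296) (nat_lit 0) (nat_lit 6384) (XT.lf (nat_lit 0) (nat_lit 1098603973878) (nat_lit 228) (nat_lit 130505973747) (nat_lit 76) (nat_lit 130501840205) (nat_lit 208) (nat_lit 5) (nat_lit 211) (nat_lit 5) (nat_lit 209) (nat_lit 4) (nat_lit 480) (nat_lit 430) (nat_lit 110)) (XT.lf (nat_lit 0) (nat_lit 80867843170) (nat_lit 836) (nat_lit 45550660071) (nat_lit 836) (nat_lit 45550660071) (nat_lit 292) (nat_lit 3) (nat_lit 303) (nat_lit 3) (nat_lit 303) (nat_lit 5) (nat_lit 431) (nat_lit 431) (nat_lit 158)))) (XT.nd (nat_lit 156) (nat_lit 0) (nat_lit 76) (XT.nd (nat_lit 78) (nat_lit 0) (nat_lit 76) (XT.lf (nat_lit 76) (nat_lit 83541699275) (nat_lit 0) (nat_lit 83542244187) (nat_lit 836) (nat_lit 185387598081) (nat_lit 293) (nat_lit 5) (nat_lit 292) (nat_lit 3) (nat_lit 303) (nat_lit 5) (nat_lit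 432) (nat_lit 431) (nat_lit 157)) (XT.lf (nat_lit 0) (nat_lit 175738711408) (nat_lit 760) (nat_lit 92770882057) (nat_lit 836) (nat_lit 92769868843) (nat_lit 293) (nat_lit 5) (nat_lit 303) (nat_lit 5) (nat_lit 304) (nat_lit 5) (nat_lit 433) (nat_lit 431) (nat_lit 156))) (XT.nd (nat_lit 78) (nat_lit 0) (nat_lit 76) (XT.lf (nat_lit 76) (nat_lit 93829594236) (nat_lit 0) (nat_lit 93831078165) (nat_lit 836) (nat_lit 182725383978) (nat_lit 294) (nat_lit 5) (nat_lit 293) (nat_lit 5) (nat_lit 304) (nat_lit 5) (nat_lit 434) (nat_lit 431) (nat_lit 155)) (XT.lf (nat_lit 0) (nat_lit 203174191620) (nat_lit 760) (nat_lit 88312927871) (nat_lit 836) (nat_lit 88311087653) (nat_lit 294) (nat_lit 5) (nat_lit 304) (nat_lit 5) (nat_lit 305) (nat_lit 5) (nat_lit 435) (nat_lit 431) (nat_lit 154))))) (XT.nd (nat_lit 312) (nat_lit 1064) (nat_lit 0) (XT.nd (nat_lit 156) (nat_lit 0) (nat_lit 76) (XT.nd (nat_lit 78) (nat_lit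 0) (nat_lit 76) (XT.lf (nat_lit 76) (nat_lit 111369053560) (nat_lit 0) (nat_lit 111371300399) (nat_lit 836) (nat_lit 166776763132) (nat_lit 295) (nat_lit 5) (nat_lit 294) (nat_lit 5) (nat_lit 305) (nat_lit 5) (nat_lit 436) (nat_lit 431) (nat_lit 153)) (XT.lf (nat_lit 0) (nat_lit 246018836200) (nat_lit 760) (nat_lit 76784472204) (nat_lit 836) (nat_lit 76781963540) (nat_lit 295) (nat_lit 5) (nat_lit 305) (nat_lit 5) (nat_lit 306) (nat_lit 5) (nat_lit 437) (nat_lit 431) (nat_lit 152))) (XT.nd (nat_lit 78) (nat_lit 0) (nat_lit 76) (XT.lf (nat_lit 76) (nat_lit 137213198299) (nat_lit 0) (nat_lit 137216058218) (nat_lit 836) (nat_lit 135529177325) (nat_lit 296) (nat_lit 5) (nat_lit 295) (nat_lit 5) (nat_lit 306) (nat_lit 5) (nat_lit 438) (nat_lit 431) (nat_lit 151)) (XT.lf (nat_lit 0) (nat_lit 306481957978) (nat_lit 760) (nat_lit 57130125091) (nat_lit 836) (nat_lit 57127082760) (nat_lit 296) (nat_lit 5)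 (nat_lit 306) (nat_lit 5) (nat_lit 307) (nat_lit 5) (nat_lit 439) (nat_lit 431) (nat_lit 150)))) (XT.nd (nat_lit 156) (nat_lit 1216) (nat_lit 0) (XT.nd (nat_lit 78) (nat_lit 0) (nat_lit 76) (XT.lf (nat_lit 76) (nat_lit 172538588990) (nat_lit 0) (nat_lit 172541934748) (nat_lit 836) (nat_lit 86731249216) (nat_lit 297) (nat_lit 5) (nat_lit 296) (nat_lit 5) (nat_lit 307) (nat_lit 5) (nat_lit 440) (nat_lit 431) (nat_lit 149)) (XT.lf (nat_lit 0) (nat_lit 387030815235) (nat_lit 760) (nat_lit 28169783491) (nat_lit 76) (nat_lit 28166321837) (nat_lit 297) (nat_lit 5) (nat_lit 307) (nat_lit 5) (nat_lit 298) (nat_lit 5) (nat_lit 441) (nat_lit 431) (nat_lit 148))) (XT.nd (nat_lit 78) (nat_lit 532) (nat_lit 0) (XT.lf (nat_lit 0) (nat_lit 218658652524) (nat_lit 760) (nat_lit 218662376289) (nat_lit 836) (nat_lit 17866676364) (nat_lit 287) (nat_lit 5) (nat_lit 297) (nat_lit 5) (nat_lit 298) (nat_lit 5) (nat_lit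 442) (nat_lit 431) (nat_lit 147)) (XT.lf (nat_lit 0) (nat_lit 11230740558) (nat_lit 456) (nat_lit 11234713953) (nat_lit 532) (nat_lit 445083479120) (nat_lit 280) (nat_lit 5) (nat_lit 286) (nat_lit 5) (nat_lit 287) (nat_lit 5) (nat_lit 443) (nat_lit 431) (nat_lit 146))))))) (XT.nd (nat_lit 1248) (nat_lit 2128) (nat_lit 0) (XT.nd (nat_lit 624) (nat_lit 1444) (nat_lit 0) (XT.nd (nat_lit 312) (nat_lit 684) (nat_lit 0) (XT.nd (nat_lit 156) (nat_lit 380) (nat_lit 0) (XT.nd (nat_lit 78) (nat_lit 380) (nat_lit 0) (XT.lf (nat_lit 0) (nat_lit 71510182326) (nat_lit 532) (nat_lit 204321292790) (nat_lit 76) (nat_lit 204317282182) (nat_lit 280) (nat_lit 5) (nat_lit 287) (nat_lit 5) (nat_lit 281) (nat_lit 5) (nat_lit 444) (nat_lit 431) (nat_lit 145)) (XT.lf (nat_lit 0) (nat_lit 62078144409) (nat_lit 380) (nat_lit 62082370657) (nat_lit 456) (nat_lit 369160388655) (nat_lit 275) (nat_lit 5) (nat_lit 280) (nat_lit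 5) (nat_lit 281) (nat_lit 5) (nat_lit 445) (nat_lit 431) (nat_lit 144))) (XT.nd (nat_lit 78) (nat_lit 380) (nat_lit 0) (XT.lf (nat_lit 0) (nat_lit 185495153953) (nat_lit 456) (nat_lit 160679067313) (nat_lit 76) (nat_lit 160674846724) (nat_lit 275) (nat_lit 5) (nat_lit 281) (nat_lit 5) (nat_lit 276) (nat_lit 5) (nat_lit 446) (nat_lit 431) (nat_lit 143)) (XT.lf (nat_lit 0) (nat_lit 126441978026) (nat_lit 380) (nat_lit 126446384894) (nat_lit 456) (nat_lit 268015685645) (nat_lit 270) (nat_lit 5) (nat_lit 275) (nat_lit 5) (nat_lit 276) (nat_lit 5) (nat_lit 447) (nat_lit 431) (nat_lit 142)))) (XT.nd (nat_lit 156) (nat_lit 380) (nat_lit 0) (XT.nd (nat_lit 78) (nat_lit 304) (nat_lit 0) (XT.lf (nat_lit 0) (nat_lit 328044914113) (nat_lit 456) (nat_lit 103700772972) (nat_lit 76) (nat_lit 103696406996) (nat_lit 270) (nat_lit 5) (nat_lit 276) (nat_lit 5) (nat_lit 271) (nat_lit 5) (nat_lit 448) (nat_lit 431)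 (nat_lit 141)) (XT.lf (nat_lit 0) (nat_lit 206122897911) (nat_lit 304) (nat_lit 206127424801) (nat_lit 380) (nat_lit 138192167667) (nat_lit 266) (nat_lit 5) (nat_lit 270) (nat_lit 5) (nat_lit 271) (nat_lit 5) (nat_lit 449) (nat_lit 431) (nat_lit 140))) (XT.nd (nat_lit 78) (nat_lit 380) (nat_lit 0) (XT.lf (nat_lit 0) (nat_lit 502931431014) (nat_lit 380) (nat_lit 31576330647) (nat_lit 76) (nat_lit 31571873369) (nat_lit 266) (nat_lit 5) (nat_lit 271) (nat_lit 5) (nat_lit 267) (nat_lit 5) (nat_lit 450) (nat_lit 431) (nat_lit 139)) (XT.lf (nat_lit 0) (nat_lit 23391887377) (nat_lit 380) (nat_lit 279343446148) (nat_lit 76) (nat_lit 279338849867) (nat_lit 261) (nat_lit 5) (nat_lit 266) (nat_lit 5) (nat_lit 262) (nat_lit 5) (nat_lit 451) (nat_lit 431) (nat_lit 138))))) (XT.nd (nat_lit 312) (nat_lit 836) (nat_lit 0) (XT.nd (nat_lit 156) (nat_lit 304) (nat_lit 0) (XT.nd (nat_lit 78) (nat_lit 0) (nat_lit 0)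 (XT.lf (nat_lit 0) (nat_lit 56781041434) (nat_lit 304) (nat_lit 56785770100) (nat_lit 380) (nat_lit 485178385718) (nat_lit 257) (nat_lit 5) (nat_lit 261) (nat_lit 5) (nat_lit 262) (nat_lit 5) (nat_lit 452) (nat_lit 431) (nat_lit 137)) (XT.lf (nat_lit 0) (nat_lit 216204211897) (nat_lit 380) (nat_lit 199826243488) (nat_lit 76) (nat_lit 199821619921) (nat_lit 257) (nat_lit 5) (nat_lit 262) (nat_lit 5) (nat_lit 258) (nat_lit 5) (nat_lit 453) (nat_lit 431) (nat_lit 136))) (XT.nd (nat_lit 78) (nat_lit 0) (nat_lit 0) (XT.lf (nat_lit 0) (nat_lit 163727947822) (nat_lit 304) (nat_lit 163732685747) (nat_lit 380) (nat_lit 306179306129) (nat_lit 253) (nat_lit 5) (nat_lit 257) (nat_lit 5) (nat_lit 258) (nat_lit 5) (nat_lit 454) (nat_lit 431) (nat_lit 135)) (XT.lf (nat_lit 0) (nat_lit 449299196583) (nat_lit 380) (nat_lit 101385825375) (nat_lit 76) (nat_lit 101381209339) (nat_lit 253) (nat_lit 5) (nat_lit 258)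 (nat_lit 5) (nat_lit 254) (nat_lit 5) (nat_lit 455) (nat_lit 431) (nat_lit 134)))) (XT.nd (nat_lit 156) (nat_lit 228) (nat_lit 0) (XT.nd (nat_lit 78) (nat_lit 380) (nat_lit 0) (XT.lf (nat_lit 0) (nat_lit 292235861033) (nat_lit 228) (nat_lit 292240575857) (nat_lit 304) (nat_lit 86575063129) (nat_lit 250) (nat_lit 5) (nat_lit 253) (nat_lit 5) (nat_lit 254) (nat_lit 5) (nat_lit 456) (nat_lit 431) (nat_lit 133)) (XT.lf (nat_lit 0) (nat_lit 18158240833) (nat_lit 304) (nat_lit 18163049740) (nat_lit 380) (nat_lit 654535653600) (nat_lit 245) (nat_lit 5) (nat_lit 249) (nat_lit 5) (nat_lit 250) (nat_lit 5) (nat_lit 457) (nat_lit 431) (nat_lit 132))) (XT.nd (nat_lit 78) (nat_lit 228) (nat_lit 0) (XT.lf (nat_lit 0) (nat_lit 173183053715) (nat_lit 380) (nat_lit 268933402411) (nat_lit 76) (nat_lit 268928737164) (nat_lit 245) (nat_lit 5) (nat_lit 250) (nat_lit 5) (nat_lit 246) (nat_lit 5) (nat_lit 458) (nat_lit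 431) (nat_lit 131)) (XT.lf (nat_lit 0) (nat_lit 159838211453) (nat_lit 228) (nat_lit 159842957972) (nat_lit 304) (nat_lit 412422022216) (nat_lit 242) (nat_lit 5) (nat_lit 245) (nat_lit 5) (nat_lit 246) (nat_lit 5) (nat_lit 459) (nat_lit 431) (nat_lit 130)))))) (XT.nd (nat_lit 624) (nat_lit 912) (nat_lit 0) (XT.nd (nat_lit 312) (nat_lit 684) (nat_lit 0) (XT.nd (nat_lit 156) (nat_lit 304) (nat_lit 0) (XT.nd (nat_lit 78) (nat_lit 228) (nat_lit 0) (XT.lf (nat_lit 0) (nat_lit 480265197627) (nat_lit 304) (nat_lit 136807718080) (nat_lit 76) (nat_lit 136803123868) (nat_lit 242) (nat_lit 5) (nat_lit 246) (nat_lit 5) (nat_lit 243) (nat_lit 5) (nat_lit 460) (nat_lit 431) (nat_lit 129)) (XT.lf (nat_lit 0) (nat_lit 328309983016) (nat_lit 228) (nat_lit 328314647434) (nat_lit 304) (nat_lit 119725589295) (nat_lit 239) (nat_lit 5) (nat_lit 242) (nat_lit 5) (nat_lit 243) (nat_lit 5) (nat_lit 461) (nat_lit 431) (nat_lit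 128))) (XT.nd (nat_lit 78) (nat_lit 0) (nat_lit 0) (XT.lf (nat_lit 0) (nat_lit 21600866374) (nat_lit 228) (nat_lit 21605597654) (nat_lit 304) (nat_lit 756574365790) (nat_lit 235) (nat_lit 5) (nat_lit 238) (nat_lit 5) (nat_lit 239) (nat_lit 5) (nat_lit 462) (nat_lit 431) (nat_lit 127)) (XT.lf (nat_lit 0) (nat_lit 222664404672) (nat_lit 304) (nat_lit 300502427071) (nat_lit 76) (nat_lit 300497860443) (nat_lit 235) (nat_lit 5) (nat_lit 239) (nat_lit 5) (nat_lit 236) (nat_lit 5) (nat_lit 463) (nat_lit 431) (nat_lit 126)))) (XT.nd (nat_lit 156) (nat_lit 456) (nat_lit 0) (XT.nd (nat_lit 78) (nat_lit 0) (nat_lit 0) (XT.lf (nat_lit 0) (nat_lit 207340985375) (nat_lit 228) (nat_lit 207345609762) (nat_lit 304) (nat_lit 433876584898) (nat_lit 232) (nat_lit 5) (nat_lit 235) (nat_lit 5) (nat_lit 236) (nat_lit 5) (nat_lit 464) (nat_lit 431) (nat_lit 125)) (XT.lf (nat_lit 0) (nat_lit 623422617907) (nat_lit 304)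 (nat_lit 125466397399) (nat_lit 76) (nat_lit 125461940832) (nat_lit 232) (nat_lit 5) (nat_lit 236) (nat_lit 5) (nat_lit 233) (nat_lit 5) (nat_lit 465) (nat_lit 431) (nat_lit 124))) (XT.nd (nat_lit 78) (nat_lit 304) (nat_lit 0) (XT.lf (nat_lit 0) (nat_lit 426323065523) (nat_lit 152) (nat_lit 426327571984) (nat_lit 228) (nat_lit 48274723754) (nat_lit 230) (nat_lit 5) (nat_lit 232) (nat_lit 5) (nat_lit 233) (nat_lit 5) (nat_lit 466) (nat_lit 431) (nat_lit 123)) (XT.lf (nat_lit 0) (nat_lit 81335576585) (nat_lit 228) (nat_lit 81340130565) (nat_lit 304) (nat_lit 765852878487) (nat_lit 226) (nat_lit 5) (nat_lit 229) (nat_lit 5) (nat_lit 230) (nat_lit 5) (nat_lit 467) (nat_lit 431) (nat_lit 122))))) (XT.nd (nat_lit 312) (nat_lit 532) (nat_lit 0) (XT.nd (nat_lit 156) (nat_lit 228) (nat_lit 0) (XT.nd (nat_lit 78) (nat_lit 152) (nat_lit 0) (XT.lf (nat_lit 0) (nat_lit 395106270281) (nat_lit 304) (nat_lit 280871381915)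 (nat_lit 76) (nat_lit 280867001691) (nat_lit 226) (nat_lit 5) (nat_lit 230) (nat_lit 5) (nat_lit 227) (nat_lit 5) (nat_lit 468) (nat_lit 431) (nat_lit 121)) (XT.lf (nat_lit 0) (nat_lit 322763307533) (nat_lit 152) (nat_lit 322767728805) (nat_lit 228) (nat_lit 340726855476) (nat_lit 224) (nat_lit 5) (nat_lit 226) (nat_lit 5) (nat_lit 227) (nat_lit 5) (nat_lit 469) (nat_lit 431) (nat_lit 120))) (XT.nd (nat_lit 78) (nat_lit 228) (nat_lit 0) (XT.lf (nat_lit 0) (nat_lit 914062720195) (nat_lit 228) (nat_lit 51402017716) (nat_lit 76) (nat_lit 51397769749) (nat_lit 224) (nat_lit 5) (nat_lit 227) (nat_lit 5) (nat_lit 225) (nat_lit 5) (nat_lit 470) (nat_lit 431) (nat_lit 119)) (XT.lf (nat_lit 0) (nat_lit 157302587700) (nat_lit 228) (nat_lit 445417523033) (nat_lit 76) (nat_lit 445413239607) (nat_lit 221) (nat_lit 5) (nat_lit 224) (nat_lit 5) (nat_lit 222) (nat_lit 5) (nat_lit 471) (nat_lit 431) (nat_lit 118))))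 (XT.nd (nat_lit 156) (nat_lit 380) (nat_lit 0) (XT.nd (nat_lit 78) (nat_lit 0) (nat_lit 0) (XT.lf (nat_lit 0) (nat_lit 215600966241) (nat_lit 152) (nat_lit 215605283437) (nat_lit 228) (nat_lit 649464677605) (nat_lit 219) (nat_lit 5) (nat_lit 221) (nat_lit 5) (nat_lit 222) (nat_lit 5) (nat_lit 472) (nat_lit 431) (nat_lit 117)) (XT.lf (nat_lit 0) (nat_lit 729452050676) (nat_lit 228) (nat_lit 192427563423) (nat_lit 76) (nat_lit 192423421177) (nat_lit 219) (nat_lit 5) (nat_lit 222) (nat_lit 5) (nat_lit 220) (nat_lit 5) (nat_lit 473) (nat_lit 431) (nat_lit 116))) (XT.nd (nat_lit 78) (nat_lit 228) (nat_lit 0) (XT.lf (nat_lit 0) (nat_lit 527185660074) (nat_lit 152) (nat_lit 527189831493) (nat_lit 228) (nat_lit 94652989611) (nat_lit 217) (nat_lit 5) (nat_lit 219) (nat_lit 5) (nat_lit 220) (nat_lit 5) (nat_lit 474) (nat_lit 431) (nat_lit 115)) (XT.lf (nat_lit 0) (nat_lit 104132856023) (nat_lit 152) (nat_lit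 104137055225) (nat_lit 228) (nat_lit 976809407094) (nat_lit 214) (nat_lit 5) (nat_lit 216) (nat_lit 5) (nat_lit 217) (nat_lit 5) (nat_lit 475) (nat_lit 431) (nat_lit 114))))))))
noncomputable def xc331 : XT := (XT.nd (nat_lit 51792) (nat_lit 0) (nat_lit 152) (XT.nd (nat_lit 50544) (nat_lit 0) (nat_lit 2812) (XT.nd (nat_lit 49920) (nat_lit 0) (nat_lit 6460) (XT.nd (nat_lit 312) (nat_lit 152) (nat_lit 0) (XT.nd (nat_lit 156) (nat_lit 152) (nat_lit 0) (XT.nd (nat_lit 78) (nat_lit 152) (nat_lit 0) (XT.lf (nat_lit 0) (nat_lit 539171259546) (nat_lit 228) (nat_lit 341443607332) (nat_lit 76) (nat_lit 341439582892) (nat_lit 214) (nat_lit 5) (nat_lit 217) (nat_lit 5) (nat_lit 215) (nat_lit 5) (nat_lit 476) (nat_lit 431) (nat_lit 113)) (XT.lf (nat_lit 0) (nat_lit 447654966089) (nat_lit 152) (nat_lit 447659014528) (nat_lit 228) (nat_lit 365129541884) (nat_lit 212) (nat_lit 5) (nat_lit 214) (nat_lit 5) (nat_lit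 215) (nat_lit 5) (nat_lit 477) (nat_lit 431) (nat_lit 112))) (XT.nd (nat_lit 78) (nat_lit 152) (nat_lit 0) (XT.lf (nat_lit 0) (nat_lit 1275249562903) (nat_lit 228) (nat_lit 12603538567) (nat_lit 76) (nat_lit 12599661142) (nat_lit 212) (nat_lit 5) (nat_lit 215) (nat_lit 5) (nat_lit 213) (nat_lit 4) (nat_lit 478) (nat_lit 431) (nat_lit 111)) (XT.lf (nat_lit 0) (nat_lit 342008090815) (nat_lit 152) (nat_lit 499577016135) (nat_lit 76) (nat_lit 499573117978) (nat_lit 210) (nat_lit 5) (nat_lit 212) (nat_lit 5) (nat_lit 211) (nat_lit 5) (nat_lit 479) (nat_lit 431) (nat_lit 110)))) (XT.nd (nat_lit 49452) (nat_lit 0) (nat_lit 6384) (XT.nd (nat_lit 49374) (nat_lit 0) (nat_lit 6384) (XT.lf (nat_lit 0) (nat_lit 366332727147) (nat_lit 152) (nat_lit 366336645049) (nat_lit 228) (nat_lit 650912108849) (nat_lit 208) (nat_lit 5) (nat_lit 210) (nat_lit 5) (nat_lit 211) (nat_lit 5) (nat_lit 480) (nat_lit 431) (nat_lit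 109)) (XT.lf (nat_lit 0) (nat_lit 84911771733) (nat_lit 836) (nat_lit 47827911462) (nat_lit 836) (nat_lit 47827911462) (nat_lit 292) (nat_lit 3) (nat_lit 303) (nat_lit 3) (nat_lit 303) (nat_lit 5) (nat_lit 432) (nat_lit 432) (nat_lit 156))) (XT.nd (nat_lit 78) (nat_lit 0) (nat_lit 76) (XT.lf (nat_lit 76) (nat_lit 87719338379) (nat_lit 0) (nat_lit 87719832629) (nat_lit 836) (nat_lit 194655896094) (nat_lit 293) (nat_lit 5) (nat_lit 292) (nat_lit 3) (nat_lit 303) (nat_lit 5) (nat_lit 433) (nat_lit 432) (nat_lit 155)) (XT.lf (nat_lit 0) (nat_lit 184526621205) (nat_lit 760) (nat_lit 97408842261) (nat_lit 836) (nat_lit 97407923246) (nat_lit 293) (nat_lit 5) (nat_lit 303) (nat_lit 5) (nat_lit 304) (nat_lit 5) (nat_lit 434) (nat_lit 432) (nat_lit 154))))) (XT.nd (nat_lit 312) (nat_lit 0) (nat_lit 152) (XT.nd (nat_lit 156) (nat_lit 0) (nat_lit 76) (XT.nd (nat_lit 78) (nat_lit 0) (nat_lit 76) (XT.lf (nat_lit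 76) (nat_lit 98521648429) (nat_lit 0) (nat_lit 98522994396) (nat_lit 836) (nat_lit 191860669533) (nat_lit 294) (nat_lit 5) (nat_lit 293) (nat_lit 5) (nat_lit 304) (nat_lit 5) (nat_lit 435) (nat_lit 432) (nat_lit 153)) (XT.lf (nat_lit 0) (nat_lit 213333788008) (nat_lit 760) (nat_lit 92727977143) (nat_lit 836) (nat_lit 92726308011) (nat_lit 294) (nat_lit 5) (nat_lit 304) (nat_lit 5) (nat_lit 305) (nat_lit 5) (nat_lit 436) (nat_lit 432) (nat_lit 152))) (XT.nd (nat_lit 78) (nat_lit 0) (nat_lit 76) (XT.lf (nat_lit 76) (nat_lit 116938093729) (nat_lit 0) (nat_lit 116940131678) (nat_lit 836) (nat_lit 175114704851) (nat_lit 295) (nat_lit 5) (nat_lit 294) (nat_lit 5) (nat_lit 305) (nat_lit 5) (nat_lit 437) (nat_lit 432) (nat_lit 151)) (XT.lf (nat_lit 0) (nat_lit 258320587147) (nat_lit 760) (nat_lit 80623091685) (nat_lit 836) (nat_lit 80620816253) (nat_lit 295) (nat_lit 5) (nat_lit 305) (nat_lit 5) (nat_lit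 306) (nat_lit 5) (nat_lit 438) (nat_lit 432) (nat_lit 150)))) (XT.nd (nat_lit 156) (nat_lit 0) (nat_lit 76) (XT.nd (nat_lit 78) (nat_lit 0) (nat_lit 76) (XT.lf (nat_lit 76) (nat_lit 144074452599) (nat_lit 0) (nat_lit 144077046630) (nat_lit 836) (nat_lit 142304817311) (nat_lit 296) (nat_lit 5) (nat_lit 295) (nat_lit 5) (nat_lit 306) (nat_lit 5) (nat_lit 439) (nat_lit 432) (nat_lit 149)) (XT.lf (nat_lit 0) (nat_lit 321806795867) (nat_lit 760) (nat_lit 59986025369) (nat_lit 836) (nat_lit 59983265885) (nat_lit 296) (nat_lit 5) (nat_lit 306) (nat_lit 5) (nat_lit 307) (nat_lit 5) (nat_lit 440) (nat_lit 432) (nat_lit 148))) (XT.nd (nat_lit 78) (nat_lit 0) (nat_lit 76) (XT.lf (nat_lit 76) (nat_lit 181166114643) (nat_lit 0) (nat_lit 181169149344) (nat_lit 836) (nat_lit 91067061912) (nat_lit 297) (nat_lit 5) (nat_lit 296) (nat_lit 5) (nat_lit 307) (nat_lit 5) (nat_lit 441) (nat_lit 432) (nat_lit 147)) (XT.lf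 (nat_lit 0) (nat_lit 406383034303) (nat_lit 760) (nat_lit 29577669097) (nat_lit 76) (nat_lit 29574529276) (nat_lit 297) (nat_lit 5) (nat_lit 307) (nat_lit 5) (nat_lit 298) (nat_lit 5) (nat_lit 442) (nat_lit 432) (nat_lit 146)))))) (XT.nd (nat_lit 624) (nat_lit 1596) (nat_lit 0) (XT.nd (nat_lit 312) (nat_lit 684) (nat_lit 0) (XT.nd (nat_lit 156) (nat_lit 380) (nat_lit 0) (XT.nd (nat_lit 78) (nat_lit 532) (nat_lit 0) (XT.lf (nat_lit 0) (nat_lit 229592178983) (nat_lit 760) (nat_lit 229595556547) (nat_lit 836) (nat_lit 18759322141) (nat_lit 287) (nat_lit 5) (nat_lit 297) (nat_lit 5) (nat_lit 298) (nat_lit 5) (nat_lit 443) (nat_lit 432) (nat_lit 145)) (XT.lf (nat_lit 0) (nat_lit 11792883507) (nat_lit 456) (nat_lit 11796487494) (nat_lit 532) (nat_lit 467336977124) (nat_lit 280) (nat_lit 5) (nat_lit 286) (nat_lit 5) (nat_lit 287) (nat_lit 5) (nat_lit 444) (nat_lit 432) (nat_lit 144))) (XT.nd (nat_lit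 78) (nat_lit 380) (nat_lit 0) (XT.lf (nat_lit 0) (nat_lit 75086303988) (nat_lit 532) (nat_lit 214536749143) (nat_lit 76) (nat_lit 214533111404) (nat_lit 280) (nat_lit 5) (nat_lit 287) (nat_lit 5) (nat_lit 281) (nat_lit 5) (nat_lit 445) (nat_lit 432) (nat_lit 143)) (XT.lf (nat_lit 0) (nat_lit 65182650104) (nat_lit 380) (nat_lit 65186483436) (nat_lit 456) (nat_lit 387617785731) (nat_lit 275) (nat_lit 5) (nat_lit 280) (nat_lit 5) (nat_lit 281) (nat_lit 5) (nat_lit 446) (nat_lit 432) (nat_lit 142)))) (XT.nd (nat_lit 156) (nat_lit 304) (nat_lit 0) (XT.nd (nat_lit 78) (nat_lit 380) (nat_lit 0) (XT.lf (nat_lit 0) (nat_lit 194770476232) (nat_lit 456) (nat_lit 168712422564) (nat_lit 76) (nat_lit 168708594364) (nat_lit 275) (nat_lit 5) (nat_lit 281) (nat_lit 5) (nat_lit 276) (nat_lit 5) (nat_lit 447) (nat_lit 432) (nat_lit 141)) (XT.lf (nat_lit 0) (nat_lit 132764665396) (nat_lit 380) (nat_lit 132768662555)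 (nat_lit 456) (nat_lit 281415895699) (nat_lit 270) (nat_lit 5) (nat_lit 275) (nat_lit 5) (nat_lit 276) (nat_lit 5) (nat_lit 448) (nat_lit 432) (nat_lit 140))) (XT.nd (nat_lit 78) (nat_lit 304) (nat_lit 0) (XT.lf (nat_lit 0) (nat_lit 344447681279) (nat_lit 456) (nat_lit 108885225751) (nat_lit 76) (nat_lit 108881265682) (nat_lit 270) (nat_lit 5) (nat_lit 276) (nat_lit 5) (nat_lit 271) (nat_lit 5) (nat_lit 449) (nat_lit 432) (nat_lit 139)) (XT.lf (nat_lit 0) (nat_lit 216429619227) (nat_lit 304) (nat_lit 216433725250) (nat_lit 380) (nat_lit 145101245140) (nat_lit 266) (nat_lit 5) (nat_lit 270) (nat_lit 5) (nat_lit 271) (nat_lit 5) (nat_lit 450) (nat_lit 432) (nat_lit 138))))) (XT.nd (nat_lit 312) (nat_lit 912) (nat_lit 0) (XT.nd (nat_lit 156) (nat_lit 304) (nat_lit 0) (XT.nd (nat_lit 78) (nat_lit 380) (nat_lit 0) (XT.lf (nat_lit 0) (nat_lit 528078485168) (nat_lit 380) (nat_lit 33154575182) (nat_lit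 76) (nat_lit 33150532300) (nat_lit 266) (nat_lit 5) (nat_lit 271) (nat_lit 5) (nat_lit 267) (nat_lit 5) (nat_lit 451) (nat_lit 432) (nat_lit 137)) (XT.lf (nat_lit 0) (nat_lit 24561957834) (nat_lit 380) (nat_lit 293310039943) (nat_lit 76) (nat_lit 293305870980) (nat_lit 261) (nat_lit 5) (nat_lit 266) (nat_lit 5) (nat_lit 262) (nat_lit 5) (nat_lit 452) (nat_lit 432) (nat_lit 136))) (XT.nd (nat_lit 78) (nat_lit 0) (nat_lit 0) (XT.lf (nat_lit 0) (nat_lit 59620662688) (nat_lit 304) (nat_lit 59624951727) (nat_lit 380) (nat_lit 509436819586) (nat_lit 257) (nat_lit 5) (nat_lit 261) (nat_lit 5) (nat_lit 262) (nat_lit 5) (nat_lit 453) (nat_lit 432) (nat_lit 135)) (XT.lf (nat_lit 0) (nat_lit 227014864371) (nat_lit 380) (nat_lit 209816993159) (nat_lit 76) (nat_lit 209812799448) (nat_lit 257) (nat_lit 5) (nat_lit 262) (nat_lit 5) (nat_lit 258) (nat_lit 5) (nat_lit 454) (nat_lit 432) (nat_lit 134)))) (XT.nd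 (nat_lit 156) (nat_lit 608) (nat_lit 0) (XT.nd (nat_lit 78) (nat_lit 0) (nat_lit 0) (XT.lf (nat_lit 0) (nat_lit 171914898643) (nat_lit 304) (nat_lit 171919196082) (nat_lit 380) (nat_lit 321487820484) (nat_lit 253) (nat_lit 5) (nat_lit 257) (nat_lit 5) (nat_lit 258) (nat_lit 5) (nat_lit 455) (nat_lit 432) (nat_lit 133)) (XT.lf (nat_lit 0) (nat_lit 471764567281) (nat_lit 380) (nat_lit 106454570959) (nat_lit 76) (nat_lit 106450384078) (nat_lit 253) (nat_lit 5) (nat_lit 258) (nat_lit 5) (nat_lit 254) (nat_lit 5) (nat_lit 456) (nat_lit 432) (nat_lit 132))) (XT.nd (nat_lit 78) (nat_lit 380) (nat_lit 0) (XT.lf (nat_lit 0) (nat_lit 306848190968) (nat_lit 228) (nat_lit 306852467452) (nat_lit 304) (nat_lit 90903396615) (nat_lit 250) (nat_lit 5) (nat_lit 253) (nat_lit 5) (nat_lit 254) (nat_lit 5) (nat_lit 457) (nat_lit 432) (nat_lit 131)) (XT.lf (nat_lit 0) (nat_lit 19066694314) (nat_lit 304) (nat_lit 19071056134)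 (nat_lit 380) (nat_lit 687262021166) (nat_lit 245) (nat_lit 5) (nat_lit 249) (nat_lit 5) (nat_lit 250) (nat_lit 5) (nat_lit 458) (nat_lit 432) (nat_lit 130))))))) (XT.nd (nat_lit 1248) (nat_lit 684) (nat_lit 0) (XT.nd (nat_lit 624) (nat_lit 988) (nat_lit 0) (XT.nd (nat_lit 312) (nat_lit 532) (nat_lit 0) (XT.nd (nat_lit 156) (nat_lit 228) (nat_lit 0) (XT.nd (nat_lit 78) (nat_lit 228) (nat_lit 0) (XT.lf (nat_lit 0) (nat_lit 181842585094) (nat_lit 380) (nat_lit 282379540221) (nat_lit 76) (nat_lit 282375308704) (nat_lit 245) (nat_lit 5) (nat_lit 250) (nat_lit 5) (nat_lit 246) (nat_lit 5) (nat_lit 459) (nat_lit 432) (nat_lit 129)) (XT.lf (nat_lit 0) (nat_lit 167830645750) (nat_lit 228) (nat_lit 167834950983) (nat_lit 304) (nat_lit 433042736048) (nat_lit 242) (nat_lit 5) (nat_lit 245) (nat_lit 5) (nat_lit 246) (nat_lit 5) (nat_lit 460) (nat_lit 432) (nat_lit 128))) (XT.nd (nat_lit 78) (nat_lit 228) (nat_lit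 0) (XT.lf (nat_lit 0) (nat_lit 504278811085) (nat_lit 304) (nat_lit 143647589938) (nat_lit 76) (nat_lit 143643422853) (nat_lit 242) (nat_lit 5) (nat_lit 246) (nat_lit 5) (nat_lit 243) (nat_lit 5) (nat_lit 461) (nat_lit 432) (nat_lit 127)) (XT.lf (nat_lit 0) (nat_lit 344725987922) (nat_lit 228) (nat_lit 344730218686) (nat_lit 304) (nat_lit 125711506892) (nat_lit 239) (nat_lit 5) (nat_lit 242) (nat_lit 5) (nat_lit 243) (nat_lit 5) (nat_lit 462) (nat_lit 432) (nat_lit 126)))) (XT.nd (nat_lit 156) (nat_lit 228) (nat_lit 0) (XT.nd (nat_lit 78) (nat_lit 0) (nat_lit 0) (XT.lf (nat_lit 0) (nat_lit 22681418685) (nat_lit 228) (nat_lit 22685710096) (nat_lit 304) (nat_lit 794402725450) (nat_lit 235) (nat_lit 5) (nat_lit 238) (nat_lit 5) (nat_lit 239) (nat_lit 5) (nat_lit 463) (nat_lit 432) (nat_lit 125)) (XT.lf (nat_lit 0) (nat_lit 233797952683) (nat_lit 304) (nat_lit 315527049895) (nat_lit 76) (nat_lit 315522907829)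 (nat_lit 235) (nat_lit 5) (nat_lit 239) (nat_lit 5) (nat_lit 236) (nat_lit 5) (nat_lit 464) (nat_lit 432) (nat_lit 124))) (XT.nd (nat_lit 78) (nat_lit 0) (nat_lit 0) (XT.lf (nat_lit 0) (nat_lit 217708525133) (nat_lit 228) (nat_lit 217712719589) (nat_lit 304) (nat_lit 455570078325) (nat_lit 232) (nat_lit 5) (nat_lit 235) (nat_lit 5) (nat_lit 236) (nat_lit 5) (nat_lit 465) (nat_lit 432) (nat_lit 123)) (XT.lf (nat_lit 0) (nat_lit 654594055937) (nat_lit 304) (nat_lit 131739237445) (nat_lit 76) (nat_lit 131735195207) (nat_lit 232) (nat_lit 5) (nat_lit 236) (nat_lit 5) (nat_lit 233) (nat_lit 5) (nat_lit 466) (nat_lit 432) (nat_lit 122))))) (XT.nd (nat_lit 312) (nat_lit 380) (nat_lit 0) (XT.nd (nat_lit 156) (nat_lit 152) (nat_lit 0) (XT.nd (nat_lit 78) (nat_lit 304) (nat_lit 0) (XT.lf (nat_lit 0) (nat_lit 447639690884) (nat_lit 152) (nat_lit 447643778378) (nat_lit 228) (nat_lit 50688145068) (nat_lit 230)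 (nat_lit 5) (nat_lit 232) (nat_lit 5) (nat_lit 233) (nat_lit 5) (nat_lit 467) (nat_lit 432) (nat_lit 121)) (XT.lf (nat_lit 0) (nat_lit 85402829801) (nat_lit 228) (nat_lit 85406960394) (nat_lit 304) (nat_lit 804145209839) (nat_lit 226) (nat_lit 5) (nat_lit 229) (nat_lit 5) (nat_lit 230) (nat_lit 5) (nat_lit 468) (nat_lit 432) (nat_lit 120))) (XT.nd (nat_lit 78) (nat_lit 152) (nat_lit 0) (XT.lf (nat_lit 0) (nat_lit 414861869935) (nat_lit 304) (nat_lit 294914487666) (nat_lit 76) (nat_lit 294910514674) (nat_lit 226) (nat_lit 5) (nat_lit 230) (nat_lit 5) (nat_lit 227) (nat_lit 5) (nat_lit 469) (nat_lit 432) (nat_lit 119)) (XT.lf (nat_lit 0) (nat_lit 338901928781) (nat_lit 152) (nat_lit 338905939005) (nat_lit 228) (nat_lit 357762904637) (nat_lit 224) (nat_lit 5) (nat_lit 226) (nat_lit 5) (nat_lit 227) (nat_lit 5) (nat_lit 470) (nat_lit 432) (nat_lit 118)))) (XT.nd (nat_lit 156) (nat_lit 152) (nat_lit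 0) (XT.nd (nat_lit 78) (nat_lit 228) (nat_lit 0) (XT.lf (nat_lit 0) (nat_lit 959766125141) (nat_lit 228) (nat_lit 53971673743) (nat_lit 76) (nat_lit 53967820712) (nat_lit 224) (nat_lit 5) (nat_lit 227) (nat_lit 5) (nat_lit 225) (nat_lit 5) (nat_lit 471) (nat_lit 432) (nat_lit 117)) (XT.lf (nat_lit 0) (nat_lit 165167984359) (nat_lit 228) (nat_lit 467687952664) (nat_lit 76) (nat_lit 467684067470) (nat_lit 221) (nat_lit 5) (nat_lit 224) (nat_lit 5) (nat_lit 222) (nat_lit 5) (nat_lit 472) (nat_lit 432) (nat_lit 116))) (XT.nd (nat_lit 78) (nat_lit 0) (nat_lit 0) (XT.lf (nat_lit 0) (nat_lit 226381453872) (nat_lit 152) (nat_lit 226385369696) (nat_lit 228) (nat_lit 681937637009) (nat_lit 219) (nat_lit 5) (nat_lit 221) (nat_lit 5) (nat_lit 222) (nat_lit 5) (nat_lit 473) (nat_lit 432) (nat_lit 115)) (XT.lf (nat_lit 0) (nat_lit 765924904813) (nat_lit 228) (nat_lit 202048513393) (nat_lit 76) (nat_lit 202044756254)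 (nat_lit 219) (nat_lit 5) (nat_lit 222) (nat_lit 5) (nat_lit 220) (nat_lit 5) (nat_lit 474) (nat_lit 432) (nat_lit 114)))))) (XT.nd (nat_lit 49998) (nat_lit 0) (nat_lit 6308) (XT.nd (nat_lit 312) (nat_lit 152) (nat_lit 0) (XT.nd (nat_lit 156) (nat_lit 152) (nat_lit 0) (XT.nd (nat_lit 78) (nat_lit 228) (nat_lit 0) (XT.lf (nat_lit 0) (nat_lit 553545364373) (nat_lit 152) (nat_lit 553549147972) (nat_lit 228) (nat_lit 99385380581) (nat_lit 217) (nat_lit 5) (nat_lit 219) (nat_lit 5) (nat_lit 220) (nat_lit 5) (nat_lit 475) (nat_lit 432) (nat_lit 113)) (XT.lf (nat_lit 0) (nat_lit 109339921465) (nat_lit 152) (nat_lit 109343730264) (nat_lit 228) (nat_lit 1025649620284) (nat_lit 214) (nat_lit 5) (nat_lit 216) (nat_lit 5) (nat_lit 217) (nat_lit 5) (nat_lit 476) (nat_lit 432) (nat_lit 112))) (XT.nd (nat_lit 78) (nat_lit 152) (nat_lit 0) (XT.lf (nat_lit 0) (nat_lit 566130058422) (nat_lit 228) (nat_lit 358515376163)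 (nat_lit 76) (nat_lit 358511725878) (nat_lit 214) (nat_lit 5) (nat_lit 217) (nat_lit 5) (nat_lit 215) (nat_lit 5) (nat_lit 477) (nat_lit 432) (nat_lit 111)) (XT.lf (nat_lit 0) (nat_lit 470038119290) (nat_lit 152) (nat_lit 470041791344) (nat_lit 228) (nat_lit 383385776443) (nat_lit 212) (nat_lit 5) (nat_lit 214) (nat_lit 5) (nat_lit 215) (nat_lit 5) (nat_lit 478) (nat_lit 432) (nat_lit 110)))) (XT.nd (nat_lit 49530) (nat_lit 0) (nat_lit 6232) (XT.nd (nat_lit 78) (nat_lit 152) (nat_lit 0) (XT.lf (nat_lit 0) (nat_lit 1339012263621) (nat_lit 228) (nat_lit 13233321466) (nat_lit 76) (nat_lit 13229804527) (nat_lit 212) (nat_lit 5) (nat_lit 215) (nat_lit 5) (nat_lit 213) (nat_lit 4) (nat_lit 479) (nat_lit 432) (nat_lit 109)) (XT.lf (nat_lit 0) (nat_lit 359108716957) (nat_lit 152) (nat_lit 524555471941) (nat_lit 76) (nat_lit 524551936197) (nat_lit 210) (nat_lit 5) (nat_lit 212) (nat_lit 5) (nat_lit 211)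 (nat_lit 5) (nat_lit 480) (nat_lit 432) (nat_lit 108))) (XT.nd (nat_lit 78) (nat_lit 0) (nat_lit 0) (XT.lf (nat_lit 0) (nat_lit 89157846853) (nat_lit 836) (nat_lit 50219051605) (nat_lit 836) (nat_lit 50219051605) (nat_lit 292) (nat_lit 3) (nat_lit 303) (nat_lit 3) (nat_lit 303) (nat_lit 5) (nat_lit 433) (nat_lit 433) (nat_lit 154)) (XT.lf (nat_lit 76) (nat_lit 92105807919) (nat_lit 0) (nat_lit 92106256219) (nat_lit 836) (nat_lit 204387709591) (nat_lit 293) (nat_lit 5) (nat_lit 292) (nat_lit 3) (nat_lit 303) (nat_lit 5) (nat_lit 434) (nat_lit 433) (nat_lit 153))))) (XT.nd (nat_lit 312) (nat_lit 0) (nat_lit 152) (XT.nd (nat_lit 156) (nat_lit 0) (nat_lit 76) (XT.nd (nat_lit 78) (nat_lit 0) (nat_lit 0) (XT.lf (nat_lit 0) (nat_lit 193753835917) (nat_lit 760) (nat_lit 102278754761) (nat_lit 836) (nat_lit 102277921187) (nat_lit 293) (nat_lit 5) (nat_lit 303) (nat_lit 5) (nat_lit 304) (nat_lit 5) (nat_lit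 435) (nat_lit 433) (nat_lit 152)) (XT.lf (nat_lit 76) (nat_lit 103448251922) (nat_lit 0) (nat_lit 103449472753) (nat_lit 836) (nat_lit 201452810815) (nat_lit 294) (nat_lit 5) (nat_lit 293) (nat_lit 5) (nat_lit 304) (nat_lit 5) (nat_lit 436) (nat_lit 433) (nat_lit 151))) (XT.nd (nat_lit 78) (nat_lit 0) (nat_lit 0) (XT.lf (nat_lit 0) (nat_lit 224001281769) (nat_lit 760) (nat_lit 97363834392) (nat_lit 836) (nat_lit 97362320441) (nat_lit 294) (nat_lit 5) (nat_lit 304) (nat_lit 5) (nat_lit 305) (nat_lit 5) (nat_lit 437) (nat_lit 433) (nat_lit 150)) (XT.lf (nat_lit 76) (nat_lit 122785531287) (nat_lit 0) (nat_lit 122787379767) (nat_lit 836) (nat_lit 183869626998) (nat_lit 295) (nat_lit 5) (nat_lit 294) (nat_lit 5) (nat_lit 305) (nat_lit 5) (nat_lit 438) (nat_lit 433) (nat_lit 149)))) (XT.nd (nat_lit 156) (nat_lit 0) (nat_lit 76) (XT.nd (nat_lit 78) (nat_lit 0) (nat_lit 0) (XT.lf (nat_lit 0) (nat_lit 271237350415)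 (nat_lit 760) (nat_lit 84653698306) (nat_lit 836) (nat_lit 84651634422) (nat_lit 295) (nat_lit 5) (nat_lit 305) (nat_lit 5) (nat_lit 306) (nat_lit 5) (nat_lit 439) (nat_lit 433) (nat_lit 148)) (XT.lf (nat_lit 76) (nat_lit 151278714354) (nat_lit 0) (nat_lit 151281067217) (nat_lit 836) (nat_lit 149419315427) (nat_lit 296) (nat_lit 5) (nat_lit 295) (nat_lit 5) (nat_lit 306) (nat_lit 5) (nat_lit 440) (nat_lit 433) (nat_lit 147))) (XT.nd (nat_lit 78) (nat_lit 0) (nat_lit 0) (XT.lf (nat_lit 0) (nat_lit 337897806854) (nat_lit 760) (nat_lit 62984776998) (nat_lit 836) (nat_lit 62982274065) (nat_lit 296) (nat_lit 5) (nat_lit 306) (nat_lit 5) (nat_lit 307) (nat_lit 5) (nat_lit 441) (nat_lit 433) (nat_lit 146)) (XT.lf (nat_lit 76) (nat_lit 190224961148) (nat_lit 0) (nat_lit 190227713712) (nat_lit 836) (nat_lit 95619734950) (nat_lit 297) (nat_lit 5) (nat_lit 296) (nat_lit 5) (nat_lit 307) (nat_lit 5) (nat_lit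 442) (nat_lit 433) (nat_lit 145))))))))
noncomputable def xc332 : XT := (XT.nd (nat_lit 2496) (nat_lit 532) (nat_lit 0) (XT.nd (nat_lit 1248) (nat_lit 2356) (nat_lit 0) (XT.nd (nat_lit 624) (nat_lit 1520) (nat_lit 0) (XT.nd (nat_lit 312) (nat_lit 760) (nat_lit 0) (XT.nd (nat_lit 156) (nat_lit 532) (nat_lit 0) (XT.nd (nat_lit 78) (nat_lit 760) (nat_lit 0) (XT.lf (nat_lit 0) (nat_lit 426702801261) (nat_lit 760) (nat_lit 31056005098) (nat_lit 76) (nat_lit 31053157188) (nat_lit 297) (nat_lit 5) (nat_lit 307) (nat_lit 5) (nat_lit 298) (nat_lit 5) (nat_lit 443) (nat_lit 433) (nat_lit 144)) (XT.lf (nat_lit 0) (nat_lit 241072326556) (nat_lit 760) (nat_lit 241075390106) (nat_lit 836) (nat_lit 19696664175) (nat_lit 287) (nat_lit 5) (nat_lit 297) (nat_lit 5) (nat_lit 298) (nat_lit 5) (nat_lit 444) (nat_lit 433) (nat_lit 143))) (XT.nd (nat_lit 78) (nat_lit 0) (nat_lit 0) (XT.lf (nat_lit 0) (nat_lit 12383077271)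 (nat_lit 456) (nat_lit 12386346193) (nat_lit 532) (nat_lit 490703212872) (nat_lit 280) (nat_lit 5) (nat_lit 286) (nat_lit 5) (nat_lit 287) (nat_lit 5) (nat_lit 445) (nat_lit 433) (nat_lit 142)) (XT.lf (nat_lit 0) (nat_lit 78841174785) (nat_lit 532) (nat_lit 225263034867) (nat_lit 76) (nat_lit 225259735330) (nat_lit 280) (nat_lit 5) (nat_lit 287) (nat_lit 5) (nat_lit 281) (nat_lit 5) (nat_lit 446) (nat_lit 433) (nat_lit 141)))) (XT.nd (nat_lit 156) (nat_lit 380) (nat_lit 0) (XT.nd (nat_lit 78) (nat_lit 0) (nat_lit 0) (XT.lf (nat_lit 0) (nat_lit 68442325444) (nat_lit 380) (nat_lit 68445802389) (nat_lit 456) (nat_lit 406998110521) (nat_lit 275) (nat_lit 5) (nat_lit 280) (nat_lit 5) (nat_lit 281) (nat_lit 5) (nat_lit 447) (nat_lit 433) (nat_lit 140)) (XT.lf (nat_lit 0) (nat_lit 204509512136) (nat_lit 456) (nat_lit 177147501184) (nat_lit 76) (nat_lit 177144028894) (nat_lit 275) (nat_lit 5) (nat_lit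 281) (nat_lit 5) (nat_lit 276) (nat_lit 5) (nat_lit 448) (nat_lit 433) (nat_lit 139))) (XT.nd (nat_lit 78) (nat_lit 0) (nat_lit 0) (XT.lf (nat_lit 0) (nat_lit 139403432424) (nat_lit 380) (nat_lit 139407057965) (nat_lit 456) (nat_lit 295486169641) (nat_lit 270) (nat_lit 5) (nat_lit 275) (nat_lit 5) (nat_lit 276) (nat_lit 5) (nat_lit 449) (nat_lit 433) (nat_lit 138)) (XT.lf (nat_lit 0) (nat_lit 361670538323) (nat_lit 456) (nat_lit 114328955637) (nat_lit 76) (nat_lit 114325363738) (nat_lit 270) (nat_lit 5) (nat_lit 276) (nat_lit 5) (nat_lit 271) (nat_lit 5) (nat_lit 450) (nat_lit 433) (nat_lit 137))))) (XT.nd (nat_lit 312) (nat_lit 532) (nat_lit 0) (XT.nd (nat_lit 156) (nat_lit 684) (nat_lit 0) (XT.nd (nat_lit 78) (nat_lit 0) (nat_lit 0) (XT.lf (nat_lit 0) (nat_lit 227251623019) (nat_lit 304) (nat_lit 227255347302) (nat_lit 380) (nat_lit 152355825846) (nat_lit 266) (nat_lit 5) (nat_lit 270) (nat_lit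 5) (nat_lit 271) (nat_lit 5) (nat_lit 451) (nat_lit 433) (nat_lit 136)) (XT.lf (nat_lit 0) (nat_lit 554482847163) (nat_lit 380) (nat_lit 34811785124) (nat_lit 76) (nat_lit 34808118110) (nat_lit 266) (nat_lit 5) (nat_lit 271) (nat_lit 5) (nat_lit 267) (nat_lit 5) (nat_lit 452) (nat_lit 433) (nat_lit 135))) (XT.nd (nat_lit 78) (nat_lit 304) (nat_lit 0) (XT.lf (nat_lit 0) (nat_lit 25790487551) (nat_lit 380) (nat_lit 307975017212) (nat_lit 76) (nat_lit 307971235840) (nat_lit 261) (nat_lit 5) (nat_lit 266) (nat_lit 5) (nat_lit 262) (nat_lit 5) (nat_lit 453) (nat_lit 433) (nat_lit 134)) (XT.lf (nat_lit 0) (nat_lit 62602212087) (nat_lit 304) (nat_lit 62606102371) (nat_lit 380) (nat_lit 534908220276) (nat_lit 257) (nat_lit 5) (nat_lit 261) (nat_lit 5) (nat_lit 262) (nat_lit 5) (nat_lit 454) (nat_lit 433) (nat_lit 133)))) (XT.nd (nat_lit 156) (nat_lit 228) (nat_lit 0) (XT.nd (nat_lit 78) (nat_lit 304) (nat_lit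 0) (XT.lf (nat_lit 0) (nat_lit 238366008386) (nat_lit 380) (nat_lit 220307332610) (nat_lit 76) (nat_lit 220303528790) (nat_lit 257) (nat_lit 5) (nat_lit 262) (nat_lit 5) (nat_lit 258) (nat_lit 5) (nat_lit 455) (nat_lit 433) (nat_lit 132)) (XT.lf (nat_lit 0) (nat_lit 180511145553) (nat_lit 304) (nat_lit 180515043456) (nat_lit 380) (nat_lit 337561802483) (nat_lit 253) (nat_lit 5) (nat_lit 257) (nat_lit 5) (nat_lit 258) (nat_lit 5) (nat_lit 456) (nat_lit 433) (nat_lit 131))) (XT.nd (nat_lit 78) (nat_lit 228) (nat_lit 0) (XT.lf (nat_lit 0) (nat_lit 495353168315) (nat_lit 380) (nat_lit 111776804555) (nat_lit 76) (nat_lit 111773006930) (nat_lit 253) (nat_lit 5) (nat_lit 258) (nat_lit 5) (nat_lit 254) (nat_lit 5) (nat_lit 457) (nat_lit 433) (nat_lit 130)) (XT.lf (nat_lit 0) (nat_lit 322191087486) (nat_lit 228) (nat_lit 322194966383) (nat_lit 304) (nat_lit 95448185792) (nat_lit 250) (nat_lit 5) (nat_lit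 253) (nat_lit 5) (nat_lit 254) (nat_lit 5) (nat_lit 458) (nat_lit 433) (nat_lit 129)))))) (XT.nd (nat_lit 624) (nat_lit 988) (nat_lit 0) (XT.nd (nat_lit 312) (nat_lit 760) (nat_lit 0) (XT.nd (nat_lit 156) (nat_lit 228) (nat_lit 0) (XT.nd (nat_lit 78) (nat_lit 0) (nat_lit 0) (XT.lf (nat_lit 0) (nat_lit 20020520131) (nat_lit 304) (nat_lit 20024476431) (nat_lit 380) (nat_lit 721624745703) (nat_lit 245) (nat_lit 5) (nat_lit 249) (nat_lit 5) (nat_lit 250) (nat_lit 5) (nat_lit 459) (nat_lit 433) (nat_lit 128)) (XT.lf (nat_lit 0) (nat_lit 190935057834) (nat_lit 380) (nat_lit 296498034411) (nat_lit 76) (nat_lit 296494196301) (nat_lit 245) (nat_lit 5) (nat_lit 250) (nat_lit 5) (nat_lit 246) (nat_lit 5) (nat_lit 460) (nat_lit 433) (nat_lit 127))) (XT.nd (nat_lit 78) (nat_lit 0) (nat_lit 0) (XT.lf (nat_lit 0) (nat_lit 176222653071) (nat_lit 228) (nat_lit 176226558045) (nat_lit 304) (nat_lit 454694521577)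 (nat_lit 242) (nat_lit 5) (nat_lit 245) (nat_lit 5) (nat_lit 246) (nat_lit 5) (nat_lit 461) (nat_lit 433) (nat_lit 126)) (XT.lf (nat_lit 0) (nat_lit 529493072343) (nat_lit 304) (nat_lit 150829503180) (nat_lit 76) (nat_lit 150825723511) (nat_lit 242) (nat_lit 5) (nat_lit 246) (nat_lit 5) (nat_lit 243) (nat_lit 5) (nat_lit 462) (nat_lit 433) (nat_lit 125)))) (XT.nd (nat_lit 156) (nat_lit 228) (nat_lit 0) (XT.nd (nat_lit 78) (nat_lit 304) (nat_lit 0) (XT.lf (nat_lit 0) (nat_lit 361962746053) (nat_lit 228) (nat_lit 361966583481) (nat_lit 304) (nat_lit 131996754012) (nat_lit 239) (nat_lit 5) (nat_lit 242) (nat_lit 5) (nat_lit 243) (nat_lit 5) (nat_lit 463) (nat_lit 433) (nat_lit 124)) (XT.lf (nat_lit 0) (nat_lit 23815951291) (nat_lit 228) (nat_lit 23819843727) (nat_lit 304) (nat_lit 834122536434) (nat_lit 235) (nat_lit 5) (nat_lit 238) (nat_lit 5) (nat_lit 239) (nat_lit 5) (nat_lit 464) (nat_lit 433)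 (nat_lit 123))) (XT.nd (nat_lit 78) (nat_lit 228) (nat_lit 0) (XT.lf (nat_lit 0) (nat_lit 245488147621) (nat_lit 304) (nat_lit 331302950209) (nat_lit 76) (nat_lit 331299193233) (nat_lit 235) (nat_lit 5) (nat_lit 239) (nat_lit 5) (nat_lit 236) (nat_lit 5) (nat_lit 465) (nat_lit 433) (nat_lit 122)) (XT.lf (nat_lit 0) (nat_lit 228594396278) (nat_lit 228) (nat_lit 228598200772) (nat_lit 304) (nat_lit 478348277644) (nat_lit 232) (nat_lit 5) (nat_lit 235) (nat_lit 5) (nat_lit 236) (nat_lit 5) (nat_lit 466) (nat_lit 433) (nat_lit 121))))) (XT.nd (nat_lit 312) (nat_lit 532) (nat_lit 0) (XT.nd (nat_lit 156) (nat_lit 304) (nat_lit 0) (XT.nd (nat_lit 78) (nat_lit 152) (nat_lit 0) (XT.lf (nat_lit 0) (nat_lit 687324037314) (nat_lit 304) (nat_lit 138325764102) (nat_lit 76) (nat_lit 138322097673) (nat_lit 232) (nat_lit 5) (nat_lit 236) (nat_lit 5) (nat_lit 233) (nat_lit 5) (nat_lit 467) (nat_lit 433) (nat_lit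 120)) (XT.lf (nat_lit 0) (nat_lit 470022103624) (nat_lit 152) (nat_lit 470025811101) (nat_lit 228) (nat_lit 53222266721) (nat_lit 230) (nat_lit 5) (nat_lit 232) (nat_lit 5) (nat_lit 233) (nat_lit 5) (nat_lit 468) (nat_lit 433) (nat_lit 119))) (XT.nd (nat_lit 78) (nat_lit 0) (nat_lit 0) (XT.lf (nat_lit 0) (nat_lit 89673401573) (nat_lit 228) (nat_lit 89677148144) (nat_lit 304) (nat_lit 844352186818) (nat_lit 226) (nat_lit 5) (nat_lit 229) (nat_lit 5) (nat_lit 230) (nat_lit 5) (nat_lit 469) (nat_lit 433) (nat_lit 118)) (XT.lf (nat_lit 0) (nat_lit 435605222969) (nat_lit 304) (nat_lit 309659791782) (nat_lit 76) (nat_lit 309656188161) (nat_lit 226) (nat_lit 5) (nat_lit 230) (nat_lit 5) (nat_lit 227) (nat_lit 5) (nat_lit 470) (nat_lit 433) (nat_lit 117)))) (XT.nd (nat_lit 156) (nat_lit 380) (nat_lit 0) (XT.nd (nat_lit 78) (nat_lit 0) (nat_lit 0) (XT.lf (nat_lit 0) (nat_lit 355847438709) (nat_lit 152)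 (nat_lit 355851076100) (nat_lit 228) (nat_lit 375650783553) (nat_lit 224) (nat_lit 5) (nat_lit 226) (nat_lit 5) (nat_lit 227) (nat_lit 5) (nat_lit 471) (nat_lit 433) (nat_lit 116)) (XT.lf (nat_lit 0) (nat_lit 1007754675331) (nat_lit 228) (nat_lit 56669853930) (nat_lit 76) (nat_lit 56666359117) (nat_lit 224) (nat_lit 5) (nat_lit 227) (nat_lit 5) (nat_lit 225) (nat_lit 5) (nat_lit 472) (nat_lit 433) (nat_lit 115))) (XT.nd (nat_lit 78) (nat_lit 152) (nat_lit 0) (XT.lf (nat_lit 0) (nat_lit 173426626003) (nat_lit 228) (nat_lit 491071945289) (nat_lit 76) (nat_lit 491068421304) (nat_lit 221) (nat_lit 5) (nat_lit 224) (nat_lit 5) (nat_lit 222) (nat_lit 5) (nat_lit 473) (nat_lit 433) (nat_lit 114)) (XT.lf (nat_lit 0) (nat_lit 237700925040) (nat_lit 152) (nat_lit 237704476809) (nat_lit 228) (nat_lit 716034269901) (nat_lit 219) (nat_lit 5) (nat_lit 221) (nat_lit 5) (nat_lit 222) (nat_lit 5) (nat_lit 474)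 (nat_lit 433) (nat_lit 113))))))) (XT.nd (nat_lit 50778) (nat_lit 0) (nat_lit 2508) (XT.nd (nat_lit 50154) (nat_lit 0) (nat_lit 6156) (XT.nd (nat_lit 312) (nat_lit 152) (nat_lit 0) (XT.nd (nat_lit 156) (nat_lit 228) (nat_lit 0) (XT.nd (nat_lit 78) (nat_lit 152) (nat_lit 0) (XT.lf (nat_lit 0) (nat_lit 804221378266) (nat_lit 228) (nat_lit 212150550672) (nat_lit 76) (nat_lit 212147142835) (nat_lit 219) (nat_lit 5) (nat_lit 222) (nat_lit 5) (nat_lit 220) (nat_lit 5) (nat_lit 475) (nat_lit 433) (nat_lit 112)) (XT.lf (nat_lit 0) (nat_lit 581223014718) (nat_lit 152) (nat_lit 581226446555) (nat_lit 228) (nat_lit 104354415134) (nat_lit 217) (nat_lit 5) (nat_lit 219) (nat_lit 5) (nat_lit 220) (nat_lit 5) (nat_lit 476) (nat_lit 433) (nat_lit 111))) (XT.nd (nat_lit 78) (nat_lit 0) (nat_lit 0) (XT.lf (nat_lit 0) (nat_lit 114807300885) (nat_lit 152) (nat_lit 114810755579) (nat_lit 228) (nat_lit 1076931868042)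 (nat_lit 214) (nat_lit 5) (nat_lit 216) (nat_lit 5) (nat_lit 217) (nat_lit 5) (nat_lit 477) (nat_lit 433) (nat_lit 110)) (XT.lf (nat_lit 0) (nat_lit 594436775310) (nat_lit 228) (nat_lit 376440771697) (nat_lit 76) (nat_lit 376437460781) (nat_lit 214) (nat_lit 5) (nat_lit 217) (nat_lit 5) (nat_lit 215) (nat_lit 5) (nat_lit 478) (nat_lit 433) (nat_lit 109)))) (XT.nd (nat_lit 49686) (nat_lit 0) (nat_lit 6080) (XT.nd (nat_lit 49608) (nat_lit 0) (nat_lit 6080) (XT.lf (nat_lit 0) (nat_lit 493540392509) (nat_lit 152) (nat_lit 493543723170) (nat_lit 228) (nat_lit 402554845277) (nat_lit 212) (nat_lit 5) (nat_lit 214) (nat_lit 5) (nat_lit 215) (nat_lit 5) (nat_lit 479) (nat_lit 433) (nat_lit 108)) (XT.lf (nat_lit 0) (nat_lit 93616180497) (nat_lit 836) (nat_lit 52729772503) (nat_lit 836) (nat_lit 52729772503) (nat_lit 292) (nat_lit 3) (nat_lit 303) (nat_lit 3) (nat_lit 303) (nat_lit 5) (nat_lit 434) (nat_lit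 434) (nat_lit 152))) (XT.nd (nat_lit 78) (nat_lit 0) (nat_lit 76) (XT.lf (nat_lit 76) (nat_lit 96711554207) (nat_lit 0) (nat_lit 96711960828) (nat_lit 836) (nat_lit 214606204995) (nat_lit 293) (nat_lit 5) (nat_lit 292) (nat_lit 3) (nat_lit 303) (nat_lit 5) (nat_lit 435) (nat_lit 434) (nat_lit 151)) (XT.lf (nat_lit 0) (nat_lit 203442329212) (nat_lit 760) (nat_lit 107392212124) (nat_lit 836) (nat_lit 107391456048) (nat_lit 293) (nat_lit 5) (nat_lit 303) (nat_lit 5) (nat_lit 304) (nat_lit 5) (nat_lit 436) (nat_lit 434) (nat_lit 150))))) (XT.nd (nat_lit 312) (nat_lit 0) (nat_lit 152) (XT.nd (nat_lit 156) (nat_lit 0) (nat_lit 76) (XT.nd (nat_lit 78) (nat_lit 0) (nat_lit 76) (XT.lf (nat_lit 76) (nat_lit 108621137145) (nat_lit 0) (nat_lit 108622244475) (nat_lit 836) (nat_lit 211524642110) (nat_lit 294) (nat_lit 5) (nat_lit 293) (nat_lit 5) (nat_lit 304) (nat_lit 5) (nat_lit 437) (nat_lit 434) (nat_lit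 149)) (XT.lf (nat_lit 0) (nat_lit 235202075435) (nat_lit 760) (nat_lit 102231534858) (nat_lit 836) (nat_lit 102230161659) (nat_lit 294) (nat_lit 5) (nat_lit 304) (nat_lit 5) (nat_lit 305) (nat_lit 5) (nat_lit 438) (nat_lit 434) (nat_lit 148))) (XT.nd (nat_lit 78) (nat_lit 0) (nat_lit 76) (XT.lf (nat_lit 76) (nat_lit 128925291182) (nat_lit 0) (nat_lit 128926967808) (nat_lit 836) (nat_lit 193062370846) (nat_lit 295) (nat_lit 5) (nat_lit 294) (nat_lit 5) (nat_lit 305) (nat_lit 5) (nat_lit 439) (nat_lit 434) (nat_lit 147)) (XT.lf (nat_lit 0) (nat_lit 284799883614) (nat_lit 760) (nat_lit 88885886203) (nat_lit 836) (nat_lit 88884014199) (nat_lit 295) (nat_lit 5) (nat_lit 305) (nat_lit 5) (nat_lit 306) (nat_lit 5) (nat_lit 440) (nat_lit 434) (nat_lit 146)))) (XT.nd (nat_lit 156) (nat_lit 0) (nat_lit 76) (XT.nd (nat_lit 78) (nat_lit 0) (nat_lit 76) (XT.lf (nat_lit 76) (nat_lit 158843139074) (nat_lit 0)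 (nat_lit 158845273190) (nat_lit 836) (nat_lit 156889607504) (nat_lit 296) (nat_lit 5) (nat_lit 295) (nat_lit 5) (nat_lit 306) (nat_lit 5) (nat_lit 441) (nat_lit 434) (nat_lit 145)) (XT.lf (nat_lit 0) (nat_lit 354793305989) (nat_lit 760) (nat_lit 66133517310) (nat_lit 836) (nat_lit 66131247076) (nat_lit 296) (nat_lit 5) (nat_lit 306) (nat_lit 5) (nat_lit 307) (nat_lit 5) (nat_lit 442) (nat_lit 434) (nat_lit 144))) (XT.nd (nat_lit 78) (nat_lit 0) (nat_lit 76) (XT.lf (nat_lit 76) (nat_lit 199736699704) (nat_lit 0) (nat_lit 199739196360) (nat_lit 836) (nat_lit 100400104864) (nat_lit 297) (nat_lit 5) (nat_lit 296) (nat_lit 5) (nat_lit 307) (nat_lit 5) (nat_lit 443) (nat_lit 434) (nat_lit 143)) (XT.lf (nat_lit 0) (nat_lit 448038499368) (nat_lit 760) (nat_lit 32608308797) (nat_lit 76) (nat_lit 32605725658) (nat_lit 297) (nat_lit 5) (nat_lit 307) (nat_lit 5) (nat_lit 298) (nat_lit 5) (nat_lit 444) (nat_lit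 434) (nat_lit 142)))))) (XT.nd (nat_lit 624) (nat_lit 1596) (nat_lit 0) (XT.nd (nat_lit 312) (nat_lit 684) (nat_lit 0) (XT.nd (nat_lit 156) (nat_lit 380) (nat_lit 0) (XT.nd (nat_lit 78) (nat_lit 532) (nat_lit 0) (XT.lf (nat_lit 0) (nat_lit 253126431431) (nat_lit 760) (nat_lit 253129210162) (nat_lit 836) (nat_lit 20680931331) (nat_lit 287) (nat_lit 5) (nat_lit 297) (nat_lit 5) (nat_lit 298) (nat_lit 5) (nat_lit 445) (nat_lit 434) (nat_lit 141)) (XT.lf (nat_lit 0) (nat_lit 13002729627) (nat_lit 456) (nat_lit 13005694636) (nat_lit 532) (nat_lit 515237817408) (nat_lit 280) (nat_lit 5) (nat_lit 286) (nat_lit 5) (nat_lit 287) (nat_lit 5) (nat_lit 446) (nat_lit 434) (nat_lit 140))) (XT.nd (nat_lit 78) (nat_lit 380) (nat_lit 0) (XT.lf (nat_lit 0) (nat_lit 82783737467) (nat_lit 532) (nat_lit 236525686172) (nat_lit 76) (nat_lit 236522693395) (nat_lit 280) (nat_lit 5) (nat_lit 287) (nat_lit 5) (nat_lit 281)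 (nat_lit 5) (nat_lit 447) (nat_lit 434) (nat_lit 139)) (XT.lf (nat_lit 0) (nat_lit 71864934083) (nat_lit 380) (nat_lit 71868087774) (nat_lit 456) (nat_lit 427347504033) (nat_lit 275) (nat_lit 5) (nat_lit 280) (nat_lit 5) (nat_lit 281) (nat_lit 5) (nat_lit 448) (nat_lit 434) (nat_lit 138)))) (XT.nd (nat_lit 156) (nat_lit 304) (nat_lit 0) (XT.nd (nat_lit 78) (nat_lit 380) (nat_lit 0) (XT.lf (nat_lit 0) (nat_lit 214735452226) (nat_lit 456) (nat_lit 186004384172) (nat_lit 76) (nat_lit 186001234703) (nat_lit 275) (nat_lit 5) (nat_lit 281) (nat_lit 5) (nat_lit 276) (nat_lit 5) (nat_lit 449) (nat_lit 434) (nat_lit 137)) (XT.lf (nat_lit 0) (nat_lit 146374088179) (nat_lit 380) (nat_lit 146377376652) (nat_lit 456) (nat_lit 310260005704) (nat_lit 270) (nat_lit 5) (nat_lit 275) (nat_lit 5) (nat_lit 276) (nat_lit 5) (nat_lit 450) (nat_lit 434) (nat_lit 136))) (XT.nd (nat_lit 78) (nat_lit 304) (nat_lit 0) (XT.lf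 (nat_lit 0) (nat_lit 379754494247) (nat_lit 456) (nat_lit 120044921423) (nat_lit 76) (nat_lit 120041663464) (nat_lit 270) (nat_lit 5) (nat_lit 276) (nat_lit 5) (nat_lit 271) (nat_lit 5) (nat_lit 451) (nat_lit 434) (nat_lit 135)) (XT.lf (nat_lit 0) (nat_lit 238614678392) (nat_lit 304) (nat_lit 238618056427) (nat_lit 380) (nat_lit 159973180357) (nat_lit 266) (nat_lit 5) (nat_lit 270) (nat_lit 5) (nat_lit 271) (nat_lit 5) (nat_lit 452) (nat_lit 434) (nat_lit 134))))) (XT.nd (nat_lit 312) (nat_lit 912) (nat_lit 0) (XT.nd (nat_lit 156) (nat_lit 304) (nat_lit 0) (XT.nd (nat_lit 78) (nat_lit 380) (nat_lit 0) (XT.lf (nat_lit 0) (nat_lit 582207386560) (nat_lit 380) (nat_lit 36551903797) (nat_lit 76) (nat_lit 36548577708) (nat_lit 266) (nat_lit 5) (nat_lit 271) (nat_lit 5) (nat_lit 267) (nat_lit 5) (nat_lit 453) (nat_lit 434) (nat_lit 133)) (XT.lf (nat_lit 0) (nat_lit 27080403608) (nat_lit 380) (nat_lit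 323373292129) (nat_lit 76) (nat_lit 323369862313) (nat_lit 261) (nat_lit 5) (nat_lit 266) (nat_lit 5) (nat_lit 262) (nat_lit 5) (nat_lit 454) (nat_lit 434) (nat_lit 132))) (XT.nd (nat_lit 78) (nat_lit 0) (nat_lit 0) (XT.lf (nat_lit 0) (nat_lit 65732790958) (nat_lit 304) (nat_lit 65736319561) (nat_lit 380) (nat_lit 561653231934) (nat_lit 257) (nat_lit 5) (nat_lit 261) (nat_lit 5) (nat_lit 262) (nat_lit 5) (nat_lit 455) (nat_lit 434) (nat_lit 131)) (XT.lf (nat_lit 0) (nat_lit 250284672340) (nat_lit 380) (nat_lit 231322236468) (nat_lit 76) (nat_lit 231318786291) (nat_lit 257) (nat_lit 5) (nat_lit 262) (nat_lit 5) (nat_lit 258) (nat_lit 5) (nat_lit 456) (nat_lit 434) (nat_lit 130)))) (XT.nd (nat_lit 156) (nat_lit 608) (nat_lit 0) (XT.nd (nat_lit 78) (nat_lit 0) (nat_lit 0) (XT.lf (nat_lit 0) (nat_lit 189537158140) (nat_lit 304) (nat_lit 189540693653) (nat_lit 380) (nat_lit 354439521608) (nat_lit 253)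 (nat_lit 5) (nat_lit 257) (nat_lit 5) (nat_lit 258) (nat_lit 5) (nat_lit 457) (nat_lit 434) (nat_lit 129)) (XT.lf (nat_lit 0) (nat_lit 520121164754) (nat_lit 380) (nat_lit 117365195847) (nat_lit 76) (nat_lit 117361751289) (nat_lit 253) (nat_lit 5) (nat_lit 258) (nat_lit 5) (nat_lit 254) (nat_lit 5) (nat_lit 458) (nat_lit 434) (nat_lit 128))) (XT.nd (nat_lit 78) (nat_lit 380) (nat_lit 0) (XT.lf (nat_lit 0) (nat_lit 338301083555) (nat_lit 228) (nat_lit 338304601829) (nat_lit 304) (nat_lit 100220249818) (nat_lit 250) (nat_lit 5) (nat_lit 253) (nat_lit 5) (nat_lit 254) (nat_lit 5) (nat_lit 459) (nat_lit 434) (nat_lit 127)) (XT.lf (nat_lit 0) (nat_lit 21021991582) (nat_lit 304) (nat_lit 21025580062) (nat_lit 380) (nat_lit 757705641473) (nat_lit 245) (nat_lit 5) (nat_lit 249) (nat_lit 5) (nat_lit 250) (nat_lit 5) (nat_lit 460) (nat_lit 434) (nat_lit 126))))))))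
noncomputable def xc333 : XT := (XT.nd (nat_lit 1248) (nat_lit 380) (nat_lit 0) (XT.nd (nat_lit 624) (nat_lit 988) (nat_lit 0) (XT.nd (nat_lit 312) (nat_lit 532) (nat_lit 0) (XT.nd (nat_lit 156) (nat_lit 228) (nat_lit 0) (XT.nd (nat_lit 78) (nat_lit 228) (nat_lit 0) (XT.lf (nat_lit 0) (nat_lit 200482122278) (nat_lit 380) (nat_lit 311322498198) (nat_lit 76) (nat_lit 311319016919) (nat_lit 245) (nat_lit 5) (nat_lit 250) (nat_lit 5) (nat_lit 246) (nat_lit 5) (nat_lit 461) (nat_lit 434) (nat_lit 125)) (XT.lf (nat_lit 0) (nat_lit 185034216595) (nat_lit 228) (nat_lit 185037758521) (nat_lit 304) (nat_lit 477428929040) (nat_lit 242) (nat_lit 5) (nat_lit 245) (nat_lit 5) (nat_lit 246) (nat_lit 5) (nat_lit 462) (nat_lit 434) (nat_lit 124))) (XT.nd (nat_lit 78) (nat_lit 228) (nat_lit 0) (XT.lf (nat_lit 0) (nat_lit 555968016849) (nat_lit 304) (nat_lit 158370555432) (nat_lit 76) (nat_lit 158367127160) (nat_lit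 242) (nat_lit 5) (nat_lit 246) (nat_lit 5) (nat_lit 243) (nat_lit 5) (nat_lit 463) (nat_lit 434) (nat_lit 123)) (XT.lf (nat_lit 0) (nat_lit 380061299441) (nat_lit 228) (nat_lit 380064780102) (nat_lit 304) (nat_lit 138596294004) (nat_lit 239) (nat_lit 5) (nat_lit 242) (nat_lit 5) (nat_lit 243) (nat_lit 5) (nat_lit 464) (nat_lit 434) (nat_lit 122)))) (XT.nd (nat_lit 156) (nat_lit 228) (nat_lit 0) (XT.nd (nat_lit 78) (nat_lit 0) (nat_lit 0) (XT.lf (nat_lit 0) (nat_lit 25007167605) (nat_lit 228) (nat_lit 25010698159) (nat_lit 304) (nat_lit 875828368211) (nat_lit 235) (nat_lit 5) (nat_lit 238) (nat_lit 5) (nat_lit 239) (nat_lit 5) (nat_lit 465) (nat_lit 434) (nat_lit 121)) (XT.lf (nat_lit 0) (nat_lit 257762824666) (nat_lit 304) (nat_lit 347867687578) (nat_lit 76) (nat_lit 347864279890) (nat_lit 235) (nat_lit 5) (nat_lit 239) (nat_lit 5) (nat_lit 236) (nat_lit 5) (nat_lit 466) (nat_lit 434) (nat_lit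 120))) (XT.nd (nat_lit 78) (nat_lit 0) (nat_lit 0) (XT.lf (nat_lit 0) (nat_lit 240024519618) (nat_lit 228) (nat_lit 240027970407) (nat_lit 304) (nat_lit 502265415248) (nat_lit 232) (nat_lit 5) (nat_lit 235) (nat_lit 5) (nat_lit 236) (nat_lit 5) (nat_lit 467) (nat_lit 434) (nat_lit 119)) (XT.lf (nat_lit 0) (nat_lit 721690491860) (nat_lit 304) (nat_lit 145241657554) (nat_lit 76) (nat_lit 145238331995) (nat_lit 232) (nat_lit 5) (nat_lit 236) (nat_lit 5) (nat_lit 233) (nat_lit 5) (nat_lit 468) (nat_lit 434) (nat_lit 118))))) (XT.nd (nat_lit 312) (nat_lit 380) (nat_lit 0) (XT.nd (nat_lit 156) (nat_lit 152) (nat_lit 0) (XT.nd (nat_lit 78) (nat_lit 304) (nat_lit 0) (XT.lf (nat_lit 0) (nat_lit 493523597191) (nat_lit 152) (nat_lit 493526959982) (nat_lit 228) (nat_lit 55883121010) (nat_lit 230) (nat_lit 5) (nat_lit 232) (nat_lit 5) (nat_lit 233) (nat_lit 5) (nat_lit 469) (nat_lit 434) (nat_lit 117)) (XT.lf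 (nat_lit 0) (nat_lit 94157461931) (nat_lit 228) (nat_lit 94160860181) (nat_lit 304) (nat_lit 886569539005) (nat_lit 226) (nat_lit 5) (nat_lit 229) (nat_lit 5) (nat_lit 230) (nat_lit 5) (nat_lit 470) (nat_lit 434) (nat_lit 116))) (XT.nd (nat_lit 78) (nat_lit 152) (nat_lit 0) (XT.lf (nat_lit 0) (nat_lit 457385719526) (nat_lit 304) (nat_lit 325142400176) (nat_lit 76) (nat_lit 325139131586) (nat_lit 226) (nat_lit 5) (nat_lit 230) (nat_lit 5) (nat_lit 227) (nat_lit 5) (nat_lit 471) (nat_lit 434) (nat_lit 115)) (XT.lf (nat_lit 0) (nat_lit 373640185691) (nat_lit 152) (nat_lit 373643484912) (nat_lit 228) (nat_lit 394433081174) (nat_lit 224) (nat_lit 5) (nat_lit 226) (nat_lit 5) (nat_lit 227) (nat_lit 5) (nat_lit 472) (nat_lit 434) (nat_lit 114)))) (XT.nd (nat_lit 156) (nat_lit 152) (nat_lit 0) (XT.nd (nat_lit 78) (nat_lit 228) (nat_lit 0) (XT.lf (nat_lit 0) (nat_lit 1058142630353) (nat_lit 228) (nat_lit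 59502980641) (nat_lit 76) (nat_lit 59499810742) (nat_lit 224) (nat_lit 5) (nat_lit 227) (nat_lit 5) (nat_lit 225) (nat_lit 5) (nat_lit 473) (nat_lit 434) (nat_lit 113)) (XT.lf (nat_lit 0) (nat_lit 182098177190) (nat_lit 228) (nat_lit 515625175200) (nat_lit 76) (nat_lit 515621978842) (nat_lit 221) (nat_lit 5) (nat_lit 224) (nat_lit 5) (nat_lit 222) (nat_lit 5) (nat_lit 474) (nat_lit 434) (nat_lit 112))) (XT.nd (nat_lit 78) (nat_lit 0) (nat_lit 0) (XT.lf (nat_lit 0) (nat_lit 249586332721) (nat_lit 152) (nat_lit 249589554280) (nat_lit 228) (nat_lit 751835757584) (nat_lit 219) (nat_lit 5) (nat_lit 221) (nat_lit 5) (nat_lit 222) (nat_lit 5) (nat_lit 475) (nat_lit 434) (nat_lit 111)) (XT.lf (nat_lit 0) (nat_lit 844432654174) (nat_lit 228) (nat_lit 222757725923) (nat_lit 76) (nat_lit 222754634915) (nat_lit 219) (nat_lit 5) (nat_lit 222) (nat_lit 5) (nat_lit 220) (nat_lit 5) (nat_lit 476) (nat_lit 434)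 (nat_lit 110)))))) (XT.nd (nat_lit 50232) (nat_lit 0) (nat_lit 5016) (XT.nd (nat_lit 49920) (nat_lit 0) (nat_lit 5928) (XT.nd (nat_lit 156) (nat_lit 0) (nat_lit 0) (XT.nd (nat_lit 78) (nat_lit 228) (nat_lit 0) (XT.lf (nat_lit 0) (nat_lit 610284512055) (nat_lit 152) (nat_lit 610287624831) (nat_lit 228) (nat_lit 109571923214) (nat_lit 217) (nat_lit 5) (nat_lit 219) (nat_lit 5) (nat_lit 220) (nat_lit 5) (nat_lit 477) (nat_lit 434) (nat_lit 109)) (XT.lf (nat_lit 0) (nat_lit 120548013637) (nat_lit 152) (nat_lit 120551147145) (nat_lit 228) (nat_lit 1130778249874) (nat_lit 214) (nat_lit 5) (nat_lit 216) (nat_lit 5) (nat_lit 217) (nat_lit 5) (nat_lit 478) (nat_lit 434) (nat_lit 108))) (XT.nd (nat_lit 49686) (nat_lit 0) (nat_lit 5928) (XT.lf (nat_lit 0) (nat_lit 624158808149) (nat_lit 228) (nat_lit 395262471712) (nat_lit 76) (nat_lit 395259468613) (nat_lit 214) (nat_lit 5) (nat_lit 217) (nat_lit 5) (nat_lit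 215) (nat_lit 5) (nat_lit 479) (nat_lit 434) (nat_lit 107)) (XT.lf (nat_lit 0) (nat_lit 98297389794) (nat_lit 836) (nat_lit 55366050985) (nat_lit 836) (nat_lit 55366050985) (nat_lit 292) (nat_lit 3) (nat_lit 303) (nat_lit 3) (nat_lit 303) (nat_lit 5) (nat_lit 435) (nat_lit 435) (nat_lit 150)))) (XT.nd (nat_lit 156) (nat_lit 0) (nat_lit 76) (XT.nd (nat_lit 78) (nat_lit 0) (nat_lit 76) (XT.lf (nat_lit 76) (nat_lit 101547545425) (nat_lit 0) (nat_lit 101547914242) (nat_lit 836) (nat_lit 225335707920) (nat_lit 293) (nat_lit 5) (nat_lit 292) (nat_lit 3) (nat_lit 303) (nat_lit 5) (nat_lit 436) (nat_lit 435) (nat_lit 149)) (XT.lf (nat_lit 0) (nat_lit 213615172655) (nat_lit 760) (nat_lit 112761387016) (nat_lit 836) (nat_lit 112760701233) (nat_lit 293) (nat_lit 5) (nat_lit 303) (nat_lit 5) (nat_lit 304) (nat_lit 5) (nat_lit 437) (nat_lit 435) (nat_lit 148))) (XT.nd (nat_lit 78) (nat_lit 0) (nat_lit 76) (XT.lf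 (nat_lit 76) (nat_lit 114052622688) (nat_lit 0) (nat_lit 114053627070) (nat_lit 836) (nat_lit 222100140205) (nat_lit 294) (nat_lit 5) (nat_lit 293) (nat_lit 5) (nat_lit 304) (nat_lit 5) (nat_lit 438) (nat_lit 435) (nat_lit 147)) (XT.lf (nat_lit 0) (nat_lit 246962840956) (nat_lit 760) (nat_lit 107342666020) (nat_lit 836) (nat_lit 107341420488) (nat_lit 294) (nat_lit 5) (nat_lit 304) (nat_lit 5) (nat_lit 305) (nat_lit 5) (nat_lit 439) (nat_lit 435) (nat_lit 146))))) (XT.nd (nat_lit 312) (nat_lit 1064) (nat_lit 0) (XT.nd (nat_lit 156) (nat_lit 0) (nat_lit 76) (XT.nd (nat_lit 78) (nat_lit 0) (nat_lit 76) (XT.lf (nat_lit 76) (nat_lit 135371994135) (nat_lit 0) (nat_lit 135373514885) (nat_lit 836) (nat_lit 202714820452) (nat_lit 295) (nat_lit 5) (nat_lit 294) (nat_lit 5) (nat_lit 305) (nat_lit 5) (nat_lit 440) (nat_lit 435) (nat_lit 145)) (XT.lf (nat_lit 0) (nat_lit 299040481585) (nat_lit 760) (nat_lit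 93329729703) (nat_lit 836) (nat_lit 93328031740) (nat_lit 295) (nat_lit 5) (nat_lit 305) (nat_lit 5) (nat_lit 306) (nat_lit 5) (nat_lit 441) (nat_lit 435) (nat_lit 144))) (XT.nd (nat_lit 78) (nat_lit 0) (nat_lit 76) (XT.lf (nat_lit 76) (nat_lit 166785739567) (nat_lit 0) (nat_lit 166787675273) (nat_lit 836) (nat_lit 164733476818) (nat_lit 296) (nat_lit 5) (nat_lit 295) (nat_lit 5) (nat_lit 306) (nat_lit 5) (nat_lit 442) (nat_lit 435) (nat_lit 143)) (XT.lf (nat_lit 0) (nat_lit 372533523480) (nat_lit 760) (nat_lit 69439740986) (nat_lit 836) (nat_lit 69437681817) (nat_lit 296) (nat_lit 5) (nat_lit 306) (nat_lit 5) (nat_lit 307) (nat_lit 5) (nat_lit 443) (nat_lit 435) (nat_lit 142)))) (XT.nd (nat_lit 156) (nat_lit 1216) (nat_lit 0) (XT.nd (nat_lit 78) (nat_lit 0) (nat_lit 76) (XT.lf (nat_lit 76) (nat_lit 209723979585) (nat_lit 0) (nat_lit 209726244125) (nat_lit 836) (nat_lit 105419550622) (nat_lit 297)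 (nat_lit 5) (nat_lit 296) (nat_lit 5) (nat_lit 307) (nat_lit 5) (nat_lit 444) (nat_lit 435) (nat_lit 141)) (XT.lf (nat_lit 0) (nat_lit 470440930499) (nat_lit 760) (nat_lit 34238273845) (nat_lit 76) (nat_lit 34235930862) (nat_lit 297) (nat_lit 5) (nat_lit 307) (nat_lit 5) (nat_lit 298) (nat_lit 5) (nat_lit 445) (nat_lit 435) (nat_lit 140))) (XT.nd (nat_lit 78) (nat_lit 532) (nat_lit 0) (XT.lf (nat_lit 0) (nat_lit 265783196130) (nat_lit 760) (nat_lit 265785716521) (nat_lit 836) (nat_lit 21714464471) (nat_lit 287) (nat_lit 5) (nat_lit 297) (nat_lit 5) (nat_lit 298) (nat_lit 5) (nat_lit 446) (nat_lit 435) (nat_lit 139)) (XT.lf (nat_lit 0) (nat_lit 13653318256) (nat_lit 456) (nat_lit 13656007607) (nat_lit 532) (nat_lit 540999203872) (nat_lit 280) (nat_lit 5) (nat_lit 286) (nat_lit 5) (nat_lit 287) (nat_lit 5) (nat_lit 447) (nat_lit 435) (nat_lit 138)))))))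
noncomputable def xc334 : XT := (XT.nd (nat_lit 1248) (nat_lit 2128) (nat_lit 0) (XT.nd (nat_lit 624) (nat_lit 1444) (nat_lit 0) (XT.nd (nat_lit 312) (nat_lit 684) (nat_lit 0) (XT.nd (nat_lit 156) (nat_lit 380) (nat_lit 0) (XT.nd (nat_lit 78) (nat_lit 380) (nat_lit 0) (XT.lf (nat_lit 0) (nat_lit 86923381432) (nat_lit 532) (nat_lit 248351516568) (nat_lit 76) (nat_lit 248348802031) (nat_lit 280) (nat_lit 5) (nat_lit 287) (nat_lit 5) (nat_lit 281) (nat_lit 5) (nat_lit 448) (nat_lit 435) (nat_lit 137)) (XT.lf (nat_lit 0) (nat_lit 75458627378) (nat_lit 380) (nat_lit 75461487869) (nat_lit 456) (nat_lit 448714414822) (nat_lit 275) (nat_lit 5) (nat_lit 280) (nat_lit 5) (nat_lit 281) (nat_lit 5) (nat_lit 449) (nat_lit 435) (nat_lit 136))) (XT.nd (nat_lit 78) (nat_lit 380) (nat_lit 0) (XT.lf (nat_lit 0) (nat_lit 225472646136) (nat_lit 456) (nat_lit 195304157058) (nat_lit 76) (nat_lit 195301300396) (nat_lit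 275) (nat_lit 5) (nat_lit 281) (nat_lit 5) (nat_lit 276) (nat_lit 5) (nat_lit 450) (nat_lit 435) (nat_lit 135)) (XT.lf (nat_lit 0) (nat_lit 153693231713) (nat_lit 380) (nat_lit 153696214454) (nat_lit 456) (nat_lit 325772577491) (nat_lit 270) (nat_lit 5) (nat_lit 275) (nat_lit 5) (nat_lit 276) (nat_lit 5) (nat_lit 451) (nat_lit 435) (nat_lit 134)))) (XT.nd (nat_lit 156) (nat_lit 380) (nat_lit 0) (XT.nd (nat_lit 78) (nat_lit 304) (nat_lit 0) (XT.lf (nat_lit 0) (nat_lit 398742608081) (nat_lit 456) (nat_lit 126046730309) (nat_lit 76) (nat_lit 126043775244) (nat_lit 270) (nat_lit 5) (nat_lit 276) (nat_lit 5) (nat_lit 271) (nat_lit 5) (nat_lit 452) (nat_lit 435) (nat_lit 133)) (XT.lf (nat_lit 0) (nat_lit 250545842445) (nat_lit 304) (nat_lit 250548906423) (nat_lit 380) (nat_lit 167971443201) (nat_lit 266) (nat_lit 5) (nat_lit 270) (nat_lit 5) (nat_lit 271) (nat_lit 5) (nat_lit 453) (nat_lit 435) (nat_lit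 132))) (XT.nd (nat_lit 78) (nat_lit 380) (nat_lit 0) (XT.lf (nat_lit 0) (nat_lit 611318116015) (nat_lit 380) (nat_lit 38379072154) (nat_lit 76) (nat_lit 38376055293) (nat_lit 266) (nat_lit 5) (nat_lit 271) (nat_lit 5) (nat_lit 267) (nat_lit 5) (nat_lit 454) (nat_lit 435) (nat_lit 131)) (XT.lf (nat_lit 0) (nat_lit 28434779052) (nat_lit 380) (nat_lit 339541525041) (nat_lit 76) (nat_lit 339538414097) (nat_lit 261) (nat_lit 5) (nat_lit 266) (nat_lit 5) (nat_lit 262) (nat_lit 5) (nat_lit 455) (nat_lit 435) (nat_lit 130))))) (XT.nd (nat_lit 312) (nat_lit 836) (nat_lit 0) (XT.nd (nat_lit 156) (nat_lit 304) (nat_lit 0) (XT.nd (nat_lit 78) (nat_lit 0) (nat_lit 0) (XT.lf (nat_lit 0) (nat_lit 69019855239) (nat_lit 304) (nat_lit 69023055785) (nat_lit 380) (nat_lit 589735531304) (nat_lit 257) (nat_lit 5) (nat_lit 261) (nat_lit 5) (nat_lit 262) (nat_lit 5) (nat_lit 456) (nat_lit 435) (nat_lit 129)) (XT.lf (nat_lit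 0) (nat_lit 262799235693) (nat_lit 380) (nat_lit 242887928543) (nat_lit 76) (nat_lit 242884799131) (nat_lit 257) (nat_lit 5) (nat_lit 262) (nat_lit 5) (nat_lit 258) (nat_lit 5) (nat_lit 457) (nat_lit 435) (nat_lit 128))) (XT.nd (nat_lit 78) (nat_lit 0) (nat_lit 0) (XT.lf (nat_lit 0) (nat_lit 199014429025) (nat_lit 304) (nat_lit 199017635839) (nat_lit 380) (nat_lit 372161161182) (nat_lit 253) (nat_lit 5) (nat_lit 257) (nat_lit 5) (nat_lit 258) (nat_lit 5) (nat_lit 458) (nat_lit 435) (nat_lit 127)) (XT.lf (nat_lit 0) (nat_lit 546127529588) (nat_lit 380) (nat_lit 123233048441) (nat_lit 76) (nat_lit 123229924125) (nat_lit 253) (nat_lit 5) (nat_lit 258) (nat_lit 5) (nat_lit 254) (nat_lit 5) (nat_lit 459) (nat_lit 435) (nat_lit 126)))) (XT.nd (nat_lit 156) (nat_lit 228) (nat_lit 0) (XT.nd (nat_lit 78) (nat_lit 380) (nat_lit 0) (XT.lf (nat_lit 0) (nat_lit 355216538364) (nat_lit 228) (nat_lit 355219729542)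 (nat_lit 304) (nat_lit 105230949144) (nat_lit 250) (nat_lit 5) (nat_lit 253) (nat_lit 5) (nat_lit 254) (nat_lit 5) (nat_lit 460) (nat_lit 435) (nat_lit 125)) (XT.lf (nat_lit 0) (nat_lit 22073495191) (nat_lit 304) (nat_lit 22076750048) (nat_lit 380) (nat_lit 795590613782) (nat_lit 245) (nat_lit 5) (nat_lit 249) (nat_lit 5) (nat_lit 250) (nat_lit 5) (nat_lit 461) (nat_lit 435) (nat_lit 124))) (XT.nd (nat_lit 78) (nat_lit 228) (nat_lit 0) (XT.lf (nat_lit 0) (nat_lit 210506510979) (nat_lit 380) (nat_lit 326888225890) (nat_lit 76) (nat_lit 326885068267) (nat_lit 245) (nat_lit 5) (nat_lit 250) (nat_lit 5) (nat_lit 246) (nat_lit 5) (nat_lit 462) (nat_lit 435) (nat_lit 123)) (XT.lf (nat_lit 0) (nat_lit 194286318236) (nat_lit 228) (nat_lit 194289530867) (nat_lit 304) (nat_lit 501300086499) (nat_lit 242) (nat_lit 5) (nat_lit 245) (nat_lit 5) (nat_lit 246) (nat_lit 5) (nat_lit 463) (nat_lit 435) (nat_lit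 122)))))) (XT.nd (nat_lit 624) (nat_lit 912) (nat_lit 0) (XT.nd (nat_lit 312) (nat_lit 684) (nat_lit 0) (XT.nd (nat_lit 156) (nat_lit 304) (nat_lit 0) (XT.nd (nat_lit 78) (nat_lit 228) (nat_lit 0) (XT.lf (nat_lit 0) (nat_lit 583766681535) (nat_lit 304) (nat_lit 166288699614) (nat_lit 76) (nat_lit 166285590071) (nat_lit 242) (nat_lit 5) (nat_lit 246) (nat_lit 5) (nat_lit 243) (nat_lit 5) (nat_lit 464) (nat_lit 435) (nat_lit 121)) (XT.lf (nat_lit 0) (nat_lit 399064741816) (nat_lit 228) (nat_lit 399067898877) (nat_lit 304) (nat_lit 145525838673) (nat_lit 239) (nat_lit 5) (nat_lit 242) (nat_lit 5) (nat_lit 243) (nat_lit 5) (nat_lit 465) (nat_lit 435) (nat_lit 120))) (XT.nd (nat_lit 78) (nat_lit 0) (nat_lit 0) (XT.lf (nat_lit 0) (nat_lit 26257905804) (nat_lit 228) (nat_lit 26261108121) (nat_lit 304) (nat_lit 919619519006) (nat_lit 235) (nat_lit 5) (nat_lit 238) (nat_lit 5) (nat_lit 239) (nat_lit 5)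 (nat_lit 466) (nat_lit 435) (nat_lit 119)) (XT.lf (nat_lit 0) (nat_lit 270651210491) (nat_lit 304) (nat_lit 365260699946) (nat_lit 76) (nat_lit 365257609072) (nat_lit 235) (nat_lit 5) (nat_lit 239) (nat_lit 5) (nat_lit 236) (nat_lit 5) (nat_lit 467) (nat_lit 435) (nat_lit 118)))) (XT.nd (nat_lit 156) (nat_lit 456) (nat_lit 0) (XT.nd (nat_lit 78) (nat_lit 0) (nat_lit 0) (XT.lf (nat_lit 0) (nat_lit 252026111610) (nat_lit 228) (nat_lit 252029241577) (nat_lit 304) (nat_lit 527378435417) (nat_lit 232) (nat_lit 5) (nat_lit 235) (nat_lit 5) (nat_lit 236) (nat_lit 5) (nat_lit 468) (nat_lit 435) (nat_lit 117)) (XT.lf (nat_lit 0) (nat_lit 757775245642) (nat_lit 304) (nat_lit 152503382379) (nat_lit 76) (nat_lit 152500365999) (nat_lit 232) (nat_lit 5) (nat_lit 236) (nat_lit 5) (nat_lit 233) (nat_lit 5) (nat_lit 469) (nat_lit 435) (nat_lit 116))) (XT.nd (nat_lit 78) (nat_lit 304) (nat_lit 0) (XT.lf (nat_lit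 0) (nat_lit 518200129328) (nat_lit 152) (nat_lit 518203179479) (nat_lit 228) (nat_lit 58677042097) (nat_lit 230) (nat_lit 5) (nat_lit 232) (nat_lit 5) (nat_lit 233) (nat_lit 5) (nat_lit 470) (nat_lit 435) (nat_lit 115)) (XT.lf (nat_lit 0) (nat_lit 98865689022) (nat_lit 228) (nat_lit 98868771335) (nat_lit 304) (nat_lit 930897782709) (nat_lit 226) (nat_lit 5) (nat_lit 229) (nat_lit 5) (nat_lit 230) (nat_lit 5) (nat_lit 471) (nat_lit 435) (nat_lit 114))))) (XT.nd (nat_lit 390) (nat_lit 380) (nat_lit 0) (XT.nd (nat_lit 156) (nat_lit 380) (nat_lit 0) (XT.nd (nat_lit 78) (nat_lit 152) (nat_lit 0) (XT.lf (nat_lit 0) (nat_lit 480255219024) (nat_lit 304) (nat_lit 341399174430) (nat_lit 76) (nat_lit 341396209722) (nat_lit 226) (nat_lit 5) (nat_lit 230) (nat_lit 5) (nat_lit 227) (nat_lit 5) (nat_lit 472) (nat_lit 435) (nat_lit 113)) (XT.lf (nat_lit 0) (nat_lit 392322535154) (nat_lit 152) (nat_lit 392325527645)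 (nat_lit 228) (nat_lit 414154516134) (nat_lit 224) (nat_lit 5) (nat_lit 226) (nat_lit 5) (nat_lit 227) (nat_lit 5) (nat_lit 473) (nat_lit 435) (nat_lit 112))) (XT.nd (nat_lit 156) (nat_lit 380) (nat_lit 0) (XT.lf (nat_lit 0) (nat_lit 1111049962555) (nat_lit 228) (nat_lit 62477797712) (nat_lit 76) (nat_lit 62474922521) (nat_lit 224) (nat_lit 5) (nat_lit 227) (nat_lit 5) (nat_lit 225) (nat_lit 5) (nat_lit 474) (nat_lit 435) (nat_lit 111)) (XT.lf (nat_lit 0) (nat_lit 262065977184) (nat_lit 152) (nat_lit 262068899232) (nat_lit 228) (nat_lit 789427340645) (nat_lit 219) (nat_lit 5) (nat_lit 221) (nat_lit 5) (nat_lit 222) (nat_lit 5) (nat_lit 476) (nat_lit 435) (nat_lit 109)))) (XT.nd (nat_lit 156) (nat_lit 228) (nat_lit 0) (XT.nd (nat_lit 78) (nat_lit 152) (nat_lit 0) (XT.lf (nat_lit 0) (nat_lit 886654474633) (nat_lit 228) (nat_lit 233895292689) (nat_lit 76) (nat_lit 233892489053) (nat_lit 219) (nat_lit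 5) (nat_lit 222) (nat_lit 5) (nat_lit 220) (nat_lit 5) (nat_lit 477) (nat_lit 435) (nat_lit 108)) (XT.lf (nat_lit 0) (nat_lit 640799052034) (nat_lit 152) (nat_lit 640801875414) (nat_lit 228) (nat_lit 115050326471) (nat_lit 217) (nat_lit 5) (nat_lit 219) (nat_lit 5) (nat_lit 220) (nat_lit 5) (nat_lit 478) (nat_lit 435) (nat_lit 107))) (XT.nd (nat_lit 49764) (nat_lit 0) (nat_lit 5928) (XT.lf (nat_lit 0) (nat_lit 126575729699) (nat_lit 152) (nat_lit 126578571884) (nat_lit 228) (nat_lit 1187316970468) (nat_lit 214) (nat_lit 5) (nat_lit 216) (nat_lit 5) (nat_lit 217) (nat_lit 5) (nat_lit 479) (nat_lit 435) (nat_lit 106)) (XT.nd (nat_lit 78) (nat_lit 0) (nat_lit 0) (XT.lf (nat_lit 0) (nat_lit 103212622343) (nat_lit 836) (nat_lit 58134162928) (nat_lit 836) (nat_lit 58134162928) (nat_lit 292) (nat_lit 3) (nat_lit 303) (nat_lit 3) (nat_lit 303) (nat_lit 5) (nat_lit 436) (nat_lit 436) (nat_lit 148)) (XT.lf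 (nat_lit 76) (nat_lit 106625297760) (nat_lit 0) (nat_lit 106625632288) (nat_lit 836) (nat_lit 236601761050) (nat_lit 293) (nat_lit 5) (nat_lit 292) (nat_lit 3) (nat_lit 303) (nat_lit 5) (nat_lit 437) (nat_lit 436) (nat_lit 147))))))))
noncomputable def xc335 : XT := (XT.nd (nat_lit 2496) (nat_lit 1140) (nat_lit 0) (XT.nd (nat_lit 1248) (nat_lit 2888) (nat_lit 0) (XT.nd (nat_lit 624) (nat_lit 1748) (nat_lit 0) (XT.nd (nat_lit 312) (nat_lit 0) (nat_lit 152) (XT.nd (nat_lit 156) (nat_lit 0) (nat_lit 76) (XT.nd (nat_lit 78) (nat_lit 0) (nat_lit 0) (XT.lf (nat_lit 0) (nat_lit 224296590683) (nat_lit 760) (nat_lit 118399061161) (nat_lit 836) (nat_lit 118398439136) (nat_lit 293) (nat_lit 5) (nat_lit 303) (nat_lit 5) (nat_lit 304) (nat_lit 5) (nat_lit 438) (nat_lit 436) (nat_lit 146)) (XT.lf (nat_lit 76) (nat_lit 119755642654) (nat_lit 0) (nat_lit 119756553658) (nat_lit 836) (nat_lit 233204481446) (nat_lit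 294) (nat_lit 5) (nat_lit 293) (nat_lit 5) (nat_lit 304) (nat_lit 5) (nat_lit 439) (nat_lit 436) (nat_lit 145))) (XT.nd (nat_lit 78) (nat_lit 0) (nat_lit 0) (XT.lf (nat_lit 0) (nat_lit 259311583229) (nat_lit 760) (nat_lit 112709395165) (nat_lit 836) (nat_lit 112708265431) (nat_lit 294) (nat_lit 5) (nat_lit 304) (nat_lit 5) (nat_lit 305) (nat_lit 5) (nat_lit 440) (nat_lit 436) (nat_lit 144)) (XT.lf (nat_lit 76) (nat_lit 142140991479) (nat_lit 0) (nat_lit 142142370844) (nat_lit 836) (nat_lit 212849954731) (nat_lit 295) (nat_lit 5) (nat_lit 294) (nat_lit 5) (nat_lit 305) (nat_lit 5) (nat_lit 441) (nat_lit 436) (nat_lit 143)))) (XT.nd (nat_lit 156) (nat_lit 0) (nat_lit 76) (XT.nd (nat_lit 78) (nat_lit 0) (nat_lit 0) (XT.lf (nat_lit 0) (nat_lit 313993053319) (nat_lit 760) (nat_lit 97995807290) (nat_lit 836) (nat_lit 97994267187) (nat_lit 295) (nat_lit 5) (nat_lit 305) (nat_lit 5) (nat_lit 306) (nat_lit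 5) (nat_lit 442) (nat_lit 436) (nat_lit 142)) (XT.lf (nat_lit 76) (nat_lit 175125428849) (nat_lit 0) (nat_lit 175127184591) (nat_lit 836) (nat_lit 172969596408) (nat_lit 296) (nat_lit 5) (nat_lit 295) (nat_lit 5) (nat_lit 306) (nat_lit 5) (nat_lit 443) (nat_lit 436) (nat_lit 141))) (XT.nd (nat_lit 78) (nat_lit 0) (nat_lit 0) (XT.lf (nat_lit 0) (nat_lit 391160700509) (nat_lit 760) (nat_lit 72911317886) (nat_lit 836) (nat_lit 72909450159) (nat_lit 296) (nat_lit 5) (nat_lit 306) (nat_lit 5) (nat_lit 307) (nat_lit 5) (nat_lit 444) (nat_lit 436) (nat_lit 140)) (XT.lf (nat_lit 76) (nat_lit 220210582098) (nat_lit 0) (nat_lit 220212636103) (nat_lit 836) (nat_lit 110690020683) (nat_lit 297) (nat_lit 5) (nat_lit 296) (nat_lit 5) (nat_lit 307) (nat_lit 5) (nat_lit 445) (nat_lit 436) (nat_lit 139))))) (XT.nd (nat_lit 312) (nat_lit 760) (nat_lit 0) (XT.nd (nat_lit 156) (nat_lit 532) (nat_lit 0) (XT.nd (nat_lit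 78) (nat_lit 760) (nat_lit 0) (XT.lf (nat_lit 0) (nat_lit 493963436128) (nat_lit 760) (nat_lit 35949779019) (nat_lit 76) (nat_lit 35947653864) (nat_lit 297) (nat_lit 5) (nat_lit 307) (nat_lit 5) (nat_lit 298) (nat_lit 5) (nat_lit 446) (nat_lit 436) (nat_lit 138)) (XT.lf (nat_lit 0) (nat_lit 279072757866) (nat_lit 760) (nat_lit 279075043935) (nat_lit 836) (nat_lit 22799722002) (nat_lit 287) (nat_lit 5) (nat_lit 297) (nat_lit 5) (nat_lit 298) (nat_lit 5) (nat_lit 447) (nat_lit 436) (nat_lit 137))) (XT.nd (nat_lit 78) (nat_lit 0) (nat_lit 0) (XT.lf (nat_lit 0) (nat_lit 14336394280) (nat_lit 456) (nat_lit 14338833601) (nat_lit 532) (nat_lit 568048706554) (nat_lit 280) (nat_lit 5) (nat_lit 286) (nat_lit 5) (nat_lit 287) (nat_lit 5) (nat_lit 448) (nat_lit 436) (nat_lit 136)) (XT.lf (nat_lit 0) (nat_lit 91269965099) (nat_lit 532) (nat_lit 260768680685) (nat_lit 76) (nat_lit 260766218520) (nat_lit 280)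 (nat_lit 5) (nat_lit 287) (nat_lit 5) (nat_lit 281) (nat_lit 5) (nat_lit 449) (nat_lit 436) (nat_lit 135)))) (XT.nd (nat_lit 156) (nat_lit 380) (nat_lit 0) (XT.nd (nat_lit 78) (nat_lit 0) (nat_lit 0) (XT.lf (nat_lit 0) (nat_lit 79231963819) (nat_lit 380) (nat_lit 79234558368) (nat_lit 456) (nat_lit 471149714327) (nat_lit 275) (nat_lit 5) (nat_lit 280) (nat_lit 5) (nat_lit 281) (nat_lit 5) (nat_lit 450) (nat_lit 436) (nat_lit 134)) (XT.lf (nat_lit 0) (nat_lit 236746660574) (nat_lit 456) (nat_lit 205068960082) (nat_lit 76) (nat_lit 205066369006) (nat_lit 275) (nat_lit 5) (nat_lit 281) (nat_lit 5) (nat_lit 276) (nat_lit 5) (nat_lit 451) (nat_lit 436) (nat_lit 133))) (XT.nd (nat_lit 78) (nat_lit 0) (nat_lit 0) (XT.lf (nat_lit 0) (nat_lit 161378291597) (nat_lit 380) (nat_lit 161380997031) (nat_lit 456) (nat_lit 342060817705) (nat_lit 270) (nat_lit 5) (nat_lit 275) (nat_lit 5) (nat_lit 276) (nat_lit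 5) (nat_lit 452) (nat_lit 436) (nat_lit 132)) (XT.lf (nat_lit 0) (nat_lit 418680091430) (nat_lit 456) (nat_lit 132348670284) (nat_lit 76) (nat_lit 132345989954) (nat_lit 270) (nat_lit 5) (nat_lit 276) (nat_lit 5) (nat_lit 271) (nat_lit 5) (nat_lit 453) (nat_lit 436) (nat_lit 131)))))) (XT.nd (nat_lit 624) (nat_lit 1368) (nat_lit 0) (XT.nd (nat_lit 312) (nat_lit 532) (nat_lit 0) (XT.nd (nat_lit 156) (nat_lit 684) (nat_lit 0) (XT.nd (nat_lit 78) (nat_lit 0) (nat_lit 0) (XT.lf (nat_lit 0) (nat_lit 263073524712) (nat_lit 304) (nat_lit 263076303830) (nat_lit 380) (nat_lit 176369656020) (nat_lit 266) (nat_lit 5) (nat_lit 270) (nat_lit 5) (nat_lit 271) (nat_lit 5) (nat_lit 454) (nat_lit 436) (nat_lit 130)) (XT.lf (nat_lit 0) (nat_lit 641884348461) (nat_lit 380) (nat_lit 40297638612) (nat_lit 76) (nat_lit 40294902230) (nat_lit 266) (nat_lit 5) (nat_lit 271) (nat_lit 5) (nat_lit 267) (nat_lit 5) (nat_lit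 455) (nat_lit 436) (nat_lit 129))) (XT.nd (nat_lit 78) (nat_lit 304) (nat_lit 0) (XT.lf (nat_lit 0) (nat_lit 29856840240) (nat_lit 380) (nat_lit 356518209733) (nat_lit 76) (nat_lit 356515388015) (nat_lit 261) (nat_lit 5) (nat_lit 266) (nat_lit 5) (nat_lit 262) (nat_lit 5) (nat_lit 456) (nat_lit 436) (nat_lit 128)) (XT.lf (nat_lit 0) (nat_lit 72471233245) (nat_lit 304) (nat_lit 72474136235) (nat_lit 380) (nat_lit 619221979319) (nat_lit 257) (nat_lit 5) (nat_lit 261) (nat_lit 5) (nat_lit 262) (nat_lit 5) (nat_lit 457) (nat_lit 436) (nat_lit 127)))) (XT.nd (nat_lit 156) (nat_lit 228) (nat_lit 0) (XT.nd (nat_lit 78) (nat_lit 304) (nat_lit 0) (XT.lf (nat_lit 0) (nat_lit 275939496559) (nat_lit 380) (nat_lit 255031944246) (nat_lit 76) (nat_lit 255029105777) (nat_lit 257) (nat_lit 5) (nat_lit 262) (nat_lit 5) (nat_lit 258) (nat_lit 5) (nat_lit 458) (nat_lit 436) (nat_lit 126)) (XT.lf (nat_lit 0) (nat_lit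 208965525060) (nat_lit 304) (nat_lit 208968433735) (nat_lit 380) (nat_lit 390768914020) (nat_lit 253) (nat_lit 5) (nat_lit 257) (nat_lit 5) (nat_lit 258) (nat_lit 5) (nat_lit 459) (nat_lit 436) (nat_lit 125))) (XT.nd (nat_lit 78) (nat_lit 228) (nat_lit 0) (XT.lf (nat_lit 0) (nat_lit 573434184160) (nat_lit 380) (nat_lit 129394331522) (nat_lit 76) (nat_lit 129391497676) (nat_lit 253) (nat_lit 5) (nat_lit 258) (nat_lit 5) (nat_lit 254) (nat_lit 5) (nat_lit 460) (nat_lit 436) (nat_lit 124)) (XT.lf (nat_lit 0) (nat_lit 372977728666) (nat_lit 228) (nat_lit 372980623158) (nat_lit 304) (nat_lit 110492212552) (nat_lit 250) (nat_lit 5) (nat_lit 253) (nat_lit 5) (nat_lit 254) (nat_lit 5) (nat_lit 461) (nat_lit 436) (nat_lit 123))))) (XT.nd (nat_lit 312) (nat_lit 760) (nat_lit 0) (XT.nd (nat_lit 156) (nat_lit 228) (nat_lit 0) (XT.nd (nat_lit 78) (nat_lit 0) (nat_lit 0) (XT.lf (nat_lit 0) (nat_lit 23177536418)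 (nat_lit 304) (nat_lit 23180488670) (nat_lit 380) (nat_lit 835369863505) (nat_lit 245) (nat_lit 5) (nat_lit 249) (nat_lit 5) (nat_lit 250) (nat_lit 5) (nat_lit 462) (nat_lit 436) (nat_lit 122)) (XT.lf (nat_lit 0) (nat_lit 221032092842) (nat_lit 380) (nat_lit 343232276896) (nat_lit 76) (nat_lit 343229412839) (nat_lit 245) (nat_lit 5) (nat_lit 250) (nat_lit 5) (nat_lit 246) (nat_lit 5) (nat_lit 463) (nat_lit 436) (nat_lit 121))) (XT.nd (nat_lit 78) (nat_lit 0) (nat_lit 0) (XT.lf (nat_lit 0) (nat_lit 204000988625) (nat_lit 228) (nat_lit 204003902576) (nat_lit 304) (nat_lit 526364828698) (nat_lit 242) (nat_lit 5) (nat_lit 245) (nat_lit 5) (nat_lit 246) (nat_lit 5) (nat_lit 464) (nat_lit 436) (nat_lit 120)) (XT.lf (nat_lit 0) (nat_lit 612955254927) (nat_lit 304) (nat_lit 174602786668) (nat_lit 76) (nat_lit 174599966221) (nat_lit 242) (nat_lit 5) (nat_lit 246) (nat_lit 5) (nat_lit 243) (nat_lit 5) (nat_lit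 465) (nat_lit 436) (nat_lit 119)))) (XT.nd (nat_lit 156) (nat_lit 228) (nat_lit 0) (XT.nd (nat_lit 78) (nat_lit 304) (nat_lit 0) (XT.lf (nat_lit 0) (nat_lit 419018321221) (nat_lit 228) (nat_lit 419021184769) (nat_lit 304) (nat_lit 152801885680) (nat_lit 239) (nat_lit 5) (nat_lit 242) (nat_lit 5) (nat_lit 243) (nat_lit 5) (nat_lit 466) (nat_lit 436) (nat_lit 118)) (XT.lf (nat_lit 0) (nat_lit 27571145600) (nat_lit 228) (nat_lit 27574050196) (nat_lit 304) (nat_lit 965600252222) (nat_lit 235) (nat_lit 5) (nat_lit 238) (nat_lit 5) (nat_lit 239) (nat_lit 5) (nat_lit 467) (nat_lit 436) (nat_lit 117))) (XT.nd (nat_lit 78) (nat_lit 228) (nat_lit 0) (XT.lf (nat_lit 0) (nat_lit 284183992869) (nat_lit 304) (nat_lit 383523397519) (nat_lit 76) (nat_lit 383520594005) (nat_lit 235) (nat_lit 5) (nat_lit 239) (nat_lit 5) (nat_lit 236) (nat_lit 5) (nat_lit 468) (nat_lit 436) (nat_lit 116)) (XT.lf (nat_lit 0) (nat_lit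 264627749172) (nat_lit 228) (nat_lit 264630588145) (nat_lit 304) (nat_lit 553747129893) (nat_lit 232) (nat_lit 5) (nat_lit 235) (nat_lit 5) (nat_lit 236) (nat_lit 5) (nat_lit 469) (nat_lit 436) (nat_lit 115))))))) (XT.nd (nat_lit 51090) (nat_lit 0) (nat_lit 3040) (XT.nd (nat_lit 702) (nat_lit 152) (nat_lit 0) (XT.nd (nat_lit 312) (nat_lit 532) (nat_lit 0) (XT.nd (nat_lit 156) (nat_lit 304) (nat_lit 0) (XT.nd (nat_lit 78) (nat_lit 152) (nat_lit 0) (XT.lf (nat_lit 0) (nat_lit 795664215805) (nat_lit 304) (nat_lit 160128226734) (nat_lit 76) (nat_lit 160125490789) (nat_lit 232) (nat_lit 5) (nat_lit 236) (nat_lit 5) (nat_lit 233) (nat_lit 5) (nat_lit 470) (nat_lit 436) (nat_lit 114)) (XT.lf (nat_lit 0) (nat_lit 544110455321) (nat_lit 152) (nat_lit 544113221897) (nat_lit 228) (nat_lit 61610681083) (nat_lit 230) (nat_lit 5) (nat_lit 232) (nat_lit 5) (nat_lit 233) (nat_lit 5) (nat_lit 471) (nat_lit 436)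 (nat_lit 113))) (XT.nd (nat_lit 78) (nat_lit 0) (nat_lit 0) (XT.lf (nat_lit 0) (nat_lit 103809294557) (nat_lit 228) (nat_lit 103812090305) (nat_lit 304) (nat_lit 977442460283) (nat_lit 226) (nat_lit 5) (nat_lit 229) (nat_lit 5) (nat_lit 230) (nat_lit 5) (nat_lit 472) (nat_lit 436) (nat_lit 112)) (XT.lf (nat_lit 0) (nat_lit 504268173646) (nat_lit 304) (nat_lit 358468819541) (nat_lit 76) (nat_lit 358466130464) (nat_lit 226) (nat_lit 5) (nat_lit 230) (nat_lit 5) (nat_lit 227) (nat_lit 5) (nat_lit 473) (nat_lit 436) (nat_lit 111)))) (XT.nd (nat_lit 234) (nat_lit 152) (nat_lit 0) (XT.nd (nat_lit 156) (nat_lit 228) (nat_lit 0) (XT.lf (nat_lit 0) (nat_lit 411938970464) (nat_lit 152) (nat_lit 411941684741) (nat_lit 228) (nat_lit 434862043212) (nat_lit 224) (nat_lit 5) (nat_lit 226) (nat_lit 5) (nat_lit 227) (nat_lit 5) (nat_lit 474) (nat_lit 436) (nat_lit 110)) (XT.lf (nat_lit 0) (nat_lit 200763630671)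 (nat_lit 228) (nat_lit 568476103575) (nat_lit 76) (nat_lit 568473473923) (nat_lit 221) (nat_lit 5) (nat_lit 224) (nat_lit 5) (nat_lit 222) (nat_lit 5) (nat_lit 476) (nat_lit 436) (nat_lit 108))) (XT.nd (nat_lit 78) (nat_lit 0) (nat_lit 0) (XT.lf (nat_lit 0) (nat_lit 275169573391) (nat_lit 152) (nat_lit 275172223775) (nat_lit 228) (nat_lit 828898521901) (nat_lit 219) (nat_lit 5) (nat_lit 221) (nat_lit 5) (nat_lit 222) (nat_lit 5) (nat_lit 477) (nat_lit 436) (nat_lit 107)) (XT.lf (nat_lit 0) (nat_lit 930987368660) (nat_lit 228) (nat_lit 245589767499) (nat_lit 76) (nat_lit 245587224520) (nat_lit 219) (nat_lit 5) (nat_lit 222) (nat_lit 5) (nat_lit 220) (nat_lit 5) (nat_lit 478) (nat_lit 436) (nat_lit 106))))) (XT.nd (nat_lit 50076) (nat_lit 0) (nat_lit 5776) (XT.nd (nat_lit 49920) (nat_lit 0) (nat_lit 5700) (XT.nd (nat_lit 49842) (nat_lit 0) (nat_lit 5700) (XT.lf (nat_lit 0) (nat_lit 672839289785)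 (nat_lit 152) (nat_lit 672841850674) (nat_lit 228) (nat_lit 120802667825) (nat_lit 217) (nat_lit 5) (nat_lit 219) (nat_lit 5) (nat_lit 220) (nat_lit 5) (nat_lit 479) (nat_lit 436) (nat_lit 105)) (XT.lf (nat_lit 0) (nat_lit 108373582766) (nat_lit 836) (nat_lit 61040698189) (nat_lit 836) (nat_lit 61040698189) (nat_lit 292) (nat_lit 3) (nat_lit 303) (nat_lit 3) (nat_lit 303) (nat_lit 5) (nat_lit 437) (nat_lit 437) (nat_lit 146))) (XT.nd (nat_lit 78) (nat_lit 0) (nat_lit 76) (XT.lf (nat_lit 76) (nat_lit 111956902841) (nat_lit 0) (nat_lit 111957206268) (nat_lit 836) (nat_lit 248431184914) (nat_lit 293) (nat_lit 5) (nat_lit 292) (nat_lit 3) (nat_lit 303) (nat_lit 5) (nat_lit 438) (nat_lit 437) (nat_lit 145)) (XT.lf (nat_lit 0) (nat_lit 235512018308) (nat_lit 760) (nat_lit 124318655756) (nat_lit 836) (nat_lit 124318091560) (nat_lit 293) (nat_lit 5) (nat_lit 303) (nat_lit 5) (nat_lit 304) (nat_lit 5) (nat_lit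 439) (nat_lit 437) (nat_lit 144)))) (XT.nd (nat_lit 156) (nat_lit 0) (nat_lit 76) (XT.nd (nat_lit 78) (nat_lit 0) (nat_lit 76) (XT.lf (nat_lit 76) (nat_lit 125743777469) (nat_lit 0) (nat_lit 125744603776) (nat_lit 836) (nat_lit 244864101646) (nat_lit 294) (nat_lit 5) (nat_lit 293) (nat_lit 5) (nat_lit 304) (nat_lit 5) (nat_lit 440) (nat_lit 437) (nat_lit 143)) (XT.lf (nat_lit 0) (nat_lit 272277706813) (nat_lit 760) (nat_lit 118344498342) (nat_lit 836) (nat_lit 118343473640) (nat_lit 294) (nat_lit 5) (nat_lit 304) (nat_lit 5) (nat_lit 305) (nat_lit 5) (nat_lit 441) (nat_lit 437) (nat_lit 142))) (XT.nd (nat_lit 78) (nat_lit 0) (nat_lit 76) (XT.lf (nat_lit 76) (nat_lit 149248401722) (nat_lit 0) (nat_lit 149249652846) (nat_lit 836) (nat_lit 223491902132) (nat_lit 295) (nat_lit 5) (nat_lit 294) (nat_lit 5) (nat_lit 305) (nat_lit 5) (nat_lit 442) (nat_lit 437) (nat_lit 141)) (XT.lf (nat_lit 0) (nat_lit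 329693202725) (nat_lit 760) (nat_lit 102895226771) (nat_lit 836) (nat_lit 102893829853) (nat_lit 295) (nat_lit 5) (nat_lit 305) (nat_lit 5) (nat_lit 306) (nat_lit 5) (nat_lit 443) (nat_lit 437) (nat_lit 140)))))) (XT.nd (nat_lit 624) (nat_lit 1368) (nat_lit 0) (XT.nd (nat_lit 312) (nat_lit 1520) (nat_lit 0) (XT.nd (nat_lit 156) (nat_lit 0) (nat_lit 76) (XT.nd (nat_lit 78) (nat_lit 0) (nat_lit 76) (XT.lf (nat_lit 76) (nat_lit 183882065192) (nat_lit 0) (nat_lit 183883657702) (nat_lit 836) (nat_lit 181617573507) (nat_lit 296) (nat_lit 5) (nat_lit 295) (nat_lit 5) (nat_lit 306) (nat_lit 5) (nat_lit 444) (nat_lit 437) (nat_lit 139)) (XT.lf (nat_lit 0) (nat_lit 410719189825) (nat_lit 760) (nat_lit 76556511764) (nat_lit 836) (nat_lit 76554817680) (nat_lit 296) (nat_lit 5) (nat_lit 306) (nat_lit 5) (nat_lit 307) (nat_lit 5) (nat_lit 445) (nat_lit 437) (nat_lit 138))) (XT.nd (nat_lit 78) (nat_lit 0) (nat_lit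 76) (XT.lf (nat_lit 76) (nat_lit 231221477219) (nat_lit 0) (nat_lit 231223340263) (nat_lit 836) (nat_lit 116224061427) (nat_lit 297) (nat_lit 5) (nat_lit 296) (nat_lit 5) (nat_lit 307) (nat_lit 5) (nat_lit 446) (nat_lit 437) (nat_lit 137)) (XT.lf (nat_lit 0) (nat_lit 518662024355) (nat_lit 760) (nat_lit 37746897432) (nat_lit 76) (nat_lit 37744969854) (nat_lit 297) (nat_lit 5) (nat_lit 307) (nat_lit 5) (nat_lit 298) (nat_lit 5) (nat_lit 447) (nat_lit 437) (nat_lit 136)))) (XT.nd (nat_lit 156) (nat_lit 380) (nat_lit 0) (XT.nd (nat_lit 78) (nat_lit 532) (nat_lit 0) (XT.lf (nat_lit 0) (nat_lit 293026760321) (nat_lit 760) (nat_lit 293028833853) (nat_lit 836) (nat_lit 23939285704) (nat_lit 287) (nat_lit 5) (nat_lit 297) (nat_lit 5) (nat_lit 298) (nat_lit 5) (nat_lit 448) (nat_lit 437) (nat_lit 135)) (XT.lf (nat_lit 0) (nat_lit 15053585978) (nat_lit 456) (nat_lit 15055798513) (nat_lit 532) (nat_lit 596450726906)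 (nat_lit 280) (nat_lit 5) (nat_lit 286) (nat_lit 5) (nat_lit 287) (nat_lit 5) (nat_lit 449) (nat_lit 437) (nat_lit 134))) (XT.nd (nat_lit 78) (nat_lit 380) (nat_lit 0) (XT.lf (nat_lit 0) (nat_lit 95833839404) (nat_lit 532) (nat_lit 273806741284) (nat_lit 76) (nat_lit 273804508028) (nat_lit 280) (nat_lit 5) (nat_lit 287) (nat_lit 5) (nat_lit 281) (nat_lit 5) (nat_lit 450) (nat_lit 437) (nat_lit 133)) (XT.lf (nat_lit 0) (nat_lit 83193929421) (nat_lit 380) (nat_lit 83196282754) (nat_lit 456) (nat_lit 494706817970) (nat_lit 275) (nat_lit 5) (nat_lit 280) (nat_lit 5) (nat_lit 281) (nat_lit 5) (nat_lit 451) (nat_lit 437) (nat_lit 132))))) (XT.nd (nat_lit 312) (nat_lit 684) (nat_lit 0) (XT.nd (nat_lit 156) (nat_lit 304) (nat_lit 0) (XT.nd (nat_lit 78) (nat_lit 380) (nat_lit 0) (XT.lf (nat_lit 0) (nat_lit 248584340207) (nat_lit 456) (nat_lit 215322040896) (nat_lit 76) (nat_lit 215319690713) (nat_lit 275)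 (nat_lit 5) (nat_lit 281) (nat_lit 5) (nat_lit 276) (nat_lit 5) (nat_lit 452) (nat_lit 437) (nat_lit 131)) (XT.lf (nat_lit 0) (nat_lit 169447567445) (nat_lit 380) (nat_lit 169450021354) (nat_lit 456) (nat_lit 359163506063) (nat_lit 270) (nat_lit 5) (nat_lit 275) (nat_lit 5) (nat_lit 276) (nat_lit 5) (nat_lit 453) (nat_lit 437) (nat_lit 130))) (XT.nd (nat_lit 78) (nat_lit 304) (nat_lit 0) (XT.lf (nat_lit 0) (nat_lit 439614416133) (nat_lit 456) (nat_lit 138965744125) (nat_lit 76) (nat_lit 138963312986) (nat_lit 270) (nat_lit 5) (nat_lit 276) (nat_lit 5) (nat_lit 271) (nat_lit 5) (nat_lit 454) (nat_lit 437) (nat_lit 129)) (XT.lf (nat_lit 0) (nat_lit 276227554819) (nat_lit 304) (nat_lit 276230075561) (nat_lit 380) (nat_lit 185187812889) (nat_lit 266) (nat_lit 5) (nat_lit 270) (nat_lit 5) (nat_lit 271) (nat_lit 5) (nat_lit 455) (nat_lit 437) (nat_lit 128)))) (XT.nd (nat_lit 156) (nat_lit 304) (nat_lit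 0) (XT.nd (nat_lit 78) (nat_lit 380) (nat_lit 0) (XT.lf (nat_lit 0) (nat_lit 673978862161) (nat_lit 380) (nat_lit 42312169386) (nat_lit 76) (nat_lit 42309687407) (nat_lit 266) (nat_lit 5) (nat_lit 271) (nat_lit 5) (nat_lit 267) (nat_lit 5) (nat_lit 456) (nat_lit 437) (nat_lit 127)) (XT.lf (nat_lit 0) (nat_lit 31349974529) (nat_lit 380) (nat_lit 374343765063) (nat_lit 76) (nat_lit 374341205681) (nat_lit 261) (nat_lit 5) (nat_lit 266) (nat_lit 5) (nat_lit 262) (nat_lit 5) (nat_lit 457) (nat_lit 437) (nat_lit 126))) (XT.nd (nat_lit 78) (nat_lit 0) (nat_lit 0) (XT.lf (nat_lit 0) (nat_lit 76095144335) (nat_lit 304) (nat_lit 76097777433) (nat_lit 380) (nat_lit 650182780279) (nat_lit 257) (nat_lit 5) (nat_lit 261) (nat_lit 5) (nat_lit 262) (nat_lit 5) (nat_lit 458) (nat_lit 437) (nat_lit 125)) (XT.lf (nat_lit 0) (nat_lit 289736742662) (nat_lit 380) (nat_lit 267783196131) (nat_lit 76) (nat_lit 267780621555)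 (nat_lit 257) (nat_lit 5) (nat_lit 262) (nat_lit 5) (nat_lit 258) (nat_lit 5) (nat_lit 459) (nat_lit 437) (nat_lit 124))))))))
noncomputable def xc336 : XT := (XT.nd (nat_lit 1326) (nat_lit 380) (nat_lit 0) (XT.nd (nat_lit 624) (nat_lit 1140) (nat_lit 0) (XT.nd (nat_lit 312) (nat_lit 456) (nat_lit 0) (XT.nd (nat_lit 156) (nat_lit 608) (nat_lit 0) (XT.nd (nat_lit 78) (nat_lit 0) (nat_lit 0) (XT.lf (nat_lit 0) (nat_lit 219414141071) (nat_lit 304) (nat_lit 219416779325) (nat_lit 380) (nat_lit 410307082876) (nat_lit 253) (nat_lit 5) (nat_lit 257) (nat_lit 5) (nat_lit 258) (nat_lit 5) (nat_lit 460) (nat_lit 437) (nat_lit 123)) (XT.lf (nat_lit 0) (nat_lit 602106145606) (nat_lit 380) (nat_lit 135863713095) (nat_lit 76) (nat_lit 135861142713) (nat_lit 253) (nat_lit 5) (nat_lit 258) (nat_lit 5) (nat_lit 254) (nat_lit 5) (nat_lit 461) (nat_lit 437) (nat_lit 122))) (XT.nd (nat_lit 78) (nat_lit 380) (nat_lit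 0) (XT.lf (nat_lit 0) (nat_lit 391626944699) (nat_lit 228) (nat_lit 391629570089) (nat_lit 304) (nat_lit 116016565539) (nat_lit 250) (nat_lit 5) (nat_lit 253) (nat_lit 5) (nat_lit 254) (nat_lit 5) (nat_lit 462) (nat_lit 437) (nat_lit 121)) (XT.lf (nat_lit 0) (nat_lit 24336745636) (nat_lit 304) (nat_lit 24339423415) (nat_lit 380) (nat_lit 877138101836) (nat_lit 245) (nat_lit 5) (nat_lit 249) (nat_lit 5) (nat_lit 250) (nat_lit 5) (nat_lit 463) (nat_lit 437) (nat_lit 120)))) (XT.nd (nat_lit 156) (nat_lit 228) (nat_lit 0) (XT.nd (nat_lit 78) (nat_lit 228) (nat_lit 0) (XT.lf (nat_lit 0) (nat_lit 232083929969) (nat_lit 380) (nat_lit 360393563949) (nat_lit 76) (nat_lit 360390966164) (nat_lit 245) (nat_lit 5) (nat_lit 250) (nat_lit 5) (nat_lit 246) (nat_lit 5) (nat_lit 464) (nat_lit 437) (nat_lit 119)) (XT.lf (nat_lit 0) (nat_lit 214201359578) (nat_lit 228) (nat_lit 214204002618) (nat_lit 304) (nat_lit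 552682832378) (nat_lit 242) (nat_lit 5) (nat_lit 245) (nat_lit 5) (nat_lit 246) (nat_lit 5) (nat_lit 465) (nat_lit 437) (nat_lit 118))) (XT.nd (nat_lit 78) (nat_lit 228) (nat_lit 0) (XT.lf (nat_lit 0) (nat_lit 643603234738) (nat_lit 304) (nat_lit 183332610422) (nat_lit 76) (nat_lit 183330052193) (nat_lit 242) (nat_lit 5) (nat_lit 246) (nat_lit 5) (nat_lit 243) (nat_lit 5) (nat_lit 466) (nat_lit 437) (nat_lit 117)) (XT.lf (nat_lit 0) (nat_lit 439969547772) (nat_lit 228) (nat_lit 439972145094) (nat_lit 304) (nat_lit 160441757809) (nat_lit 239) (nat_lit 5) (nat_lit 242) (nat_lit 5) (nat_lit 243) (nat_lit 5) (nat_lit 467) (nat_lit 437) (nat_lit 116))))) (XT.nd (nat_lit 312) (nat_lit 608) (nat_lit 0) (XT.nd (nat_lit 156) (nat_lit 228) (nat_lit 0) (XT.nd (nat_lit 78) (nat_lit 0) (nat_lit 0) (XT.lf (nat_lit 0) (nat_lit 28950015358) (nat_lit 228) (nat_lit 28952649912) (nat_lit 304) (nat_lit 1013880044666)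 (nat_lit 235) (nat_lit 5) (nat_lit 238) (nat_lit 5) (nat_lit 239) (nat_lit 5) (nat_lit 468) (nat_lit 437) (nat_lit 115)) (XT.lf (nat_lit 0) (nat_lit 298393393739) (nat_lit 304) (nat_lit 402699261341) (nat_lit 76) (nat_lit 402696718471) (nat_lit 235) (nat_lit 5) (nat_lit 239) (nat_lit 5) (nat_lit 236) (nat_lit 5) (nat_lit 469) (nat_lit 437) (nat_lit 114))) (XT.nd (nat_lit 78) (nat_lit 0) (nat_lit 0) (XT.lf (nat_lit 0) (nat_lit 277859437749) (nat_lit 228) (nat_lit 277862012780) (nat_lit 304) (nat_lit 581434280225) (nat_lit 232) (nat_lit 5) (nat_lit 235) (nat_lit 5) (nat_lit 236) (nat_lit 5) (nat_lit 470) (nat_lit 437) (nat_lit 113)) (XT.lf (nat_lit 0) (nat_lit 835447615149) (nat_lit 304) (nat_lit 168134343500) (nat_lit 76) (nat_lit 168131861917) (nat_lit 232) (nat_lit 5) (nat_lit 236) (nat_lit 5) (nat_lit 233) (nat_lit 5) (nat_lit 471) (nat_lit 437) (nat_lit 112)))) (XT.nd (nat_lit 156) (nat_lit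 152) (nat_lit 0) (XT.nd (nat_lit 78) (nat_lit 304) (nat_lit 0) (XT.lf (nat_lit 0) (nat_lit 571316267906) (nat_lit 152) (nat_lit 571318777272) (nat_lit 228) (nat_lit 64691021832) (nat_lit 230) (nat_lit 5) (nat_lit 232) (nat_lit 5) (nat_lit 233) (nat_lit 5) (nat_lit 472) (nat_lit 437) (nat_lit 111)) (XT.lf (nat_lit 0) (nat_lit 109000050517) (nat_lit 228) (nat_lit 109002586343) (nat_lit 304) (nat_lit 1026314391404) (nat_lit 226) (nat_lit 5) (nat_lit 229) (nat_lit 5) (nat_lit 230) (nat_lit 5) (nat_lit 473) (nat_lit 437) (nat_lit 110))) (XT.nd (nat_lit 156) (nat_lit 152) (nat_lit 0) (XT.lf (nat_lit 0) (nat_lit 529481757994) (nat_lit 304) (nat_lit 376391976065) (nat_lit 76) (nat_lit 376389536992) (nat_lit 226) (nat_lit 5) (nat_lit 230) (nat_lit 5) (nat_lit 227) (nat_lit 5) (nat_lit 474) (nat_lit 437) (nat_lit 109)) (XT.lf (nat_lit 0) (nat_lit 1224932939949) (nat_lit 228) (nat_lit 68881182720) (nat_lit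 76) (nat_lit 68878817293) (nat_lit 224) (nat_lit 5) (nat_lit 227) (nat_lit 5) (nat_lit 225) (nat_lit 5) (nat_lit 476) (nat_lit 437) (nat_lit 107)))))) (XT.nd (nat_lit 50466) (nat_lit 0) (nat_lit 4636) (XT.nd (nat_lit 50154) (nat_lit 0) (nat_lit 5548) (XT.nd (nat_lit 156) (nat_lit 0) (nat_lit 0) (XT.nd (nat_lit 78) (nat_lit 152) (nat_lit 0) (XT.lf (nat_lit 0) (nat_lit 210801976288) (nat_lit 228) (nat_lit 596899634628) (nat_lit 76) (nat_lit 596897249456) (nat_lit 221) (nat_lit 5) (nat_lit 224) (nat_lit 5) (nat_lit 222) (nat_lit 5) (nat_lit 477) (nat_lit 437) (nat_lit 106)) (XT.lf (nat_lit 0) (nat_lit 288928321765) (nat_lit 152) (nat_lit 288930725741) (nat_lit 228) (nat_lit 870343279491) (nat_lit 219) (nat_lit 5) (nat_lit 221) (nat_lit 5) (nat_lit 222) (nat_lit 5) (nat_lit 478) (nat_lit 437) (nat_lit 105))) (XT.nd (nat_lit 49920) (nat_lit 0) (nat_lit 5548) (XT.lf (nat_lit 0) (nat_lit 977536891555)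 (nat_lit 228) (nat_lit 257868992996) (nat_lit 76) (nat_lit 257866686438) (nat_lit 219) (nat_lit 5) (nat_lit 222) (nat_lit 5) (nat_lit 220) (nat_lit 5) (nat_lit 479) (nat_lit 437) (nat_lit 104)) (XT.lf (nat_lit 0) (nat_lit 113792560594) (nat_lit 836) (nat_lit 64092576286) (nat_lit 836) (nat_lit 64092576286) (nat_lit 292) (nat_lit 3) (nat_lit 303) (nat_lit 3) (nat_lit 303) (nat_lit 5) (nat_lit 438) (nat_lit 438) (nat_lit 144)))) (XT.nd (nat_lit 156) (nat_lit 0) (nat_lit 76) (XT.nd (nat_lit 78) (nat_lit 0) (nat_lit 76) (XT.lf (nat_lit 76) (nat_lit 117555056549) (nat_lit 0) (nat_lit 117555331766) (nat_lit 836) (nat_lit 260852141722) (nat_lit 293) (nat_lit 5) (nat_lit 292) (nat_lit 3) (nat_lit 303) (nat_lit 5) (nat_lit 439) (nat_lit 438) (nat_lit 143)) (XT.lf (nat_lit 0) (nat_lit 247288161709) (nat_lit 760) (nat_lit 130534263407) (nat_lit 836) (nat_lit 130533751665) (nat_lit 293) (nat_lit 5) (nat_lit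 303) (nat_lit 5) (nat_lit 304) (nat_lit 5) (nat_lit 440) (nat_lit 438) (nat_lit 142))) (XT.nd (nat_lit 78) (nat_lit 0) (nat_lit 76) (XT.lf (nat_lit 76) (nat_lit 132031286235) (nat_lit 0) (nat_lit 132032035720) (nat_lit 836) (nat_lit 257106758998) (nat_lit 294) (nat_lit 5) (nat_lit 293) (nat_lit 5) (nat_lit 304) (nat_lit 5) (nat_lit 441) (nat_lit 438) (nat_lit 141)) (XT.lf (nat_lit 0) (nat_lit 285892085961) (nat_lit 760) (nat_lit 124261390759) (nat_lit 836) (nat_lit 124260461324) (nat_lit 294) (nat_lit 5) (nat_lit 304) (nat_lit 5) (nat_lit 305) (nat_lit 5) (nat_lit 442) (nat_lit 438) (nat_lit 140))))) (XT.nd (nat_lit 312) (nat_lit 1064) (nat_lit 0) (XT.nd (nat_lit 156) (nat_lit 0) (nat_lit 76) (XT.nd (nat_lit 78) (nat_lit 0) (nat_lit 76) (XT.lf (nat_lit 76) (nat_lit 156711148945) (nat_lit 0) (nat_lit 156712283751) (nat_lit 836) (nat_lit 234665998069) (nat_lit 295) (nat_lit 5) (nat_lit 294) (nat_lit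 5) (nat_lit 305) (nat_lit 5) (nat_lit 443) (nat_lit 438) (nat_lit 139)) (XT.lf (nat_lit 0) (nat_lit 346178313419) (nat_lit 760) (nat_lit 108039651708) (nat_lit 836) (nat_lit 108038384662) (nat_lit 295) (nat_lit 5) (nat_lit 305) (nat_lit 5) (nat_lit 306) (nat_lit 5) (nat_lit 444) (nat_lit 438) (nat_lit 138))) (XT.nd (nat_lit 78) (nat_lit 0) (nat_lit 76) (XT.lf (nat_lit 76) (nat_lit 193076499428) (nat_lit 0) (nat_lit 193077943881) (nat_lit 836) (nat_lit 190697996199) (nat_lit 296) (nat_lit 5) (nat_lit 295) (nat_lit 5) (nat_lit 306) (nat_lit 5) (nat_lit 445) (nat_lit 438) (nat_lit 137)) (XT.lf (nat_lit 0) (nat_lit 431255561370) (nat_lit 760) (nat_lit 80383999921) (nat_lit 836) (nat_lit 80382463337) (nat_lit 296) (nat_lit 5) (nat_lit 306) (nat_lit 5) (nat_lit 307) (nat_lit 5) (nat_lit 446) (nat_lit 438) (nat_lit 136)))) (XT.nd (nat_lit 156) (nat_lit 1216) (nat_lit 0) (XT.nd (nat_lit 78) (nat_lit 0)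 (nat_lit 76) (XT.lf (nat_lit 76) (nat_lit 242782883068) (nat_lit 0) (nat_lit 242784572904) (nat_lit 836) (nat_lit 122034847002) (nat_lit 297) (nat_lit 5) (nat_lit 296) (nat_lit 5) (nat_lit 307) (nat_lit 5) (nat_lit 447) (nat_lit 438) (nat_lit 135)) (XT.lf (nat_lit 0) (nat_lit 544595503279) (nat_lit 760) (nat_lit 39633906214) (nat_lit 76) (nat_lit 39632157844) (nat_lit 297) (nat_lit 5) (nat_lit 307) (nat_lit 5) (nat_lit 298) (nat_lit 5) (nat_lit 448) (nat_lit 438) (nat_lit 134))) (XT.nd (nat_lit 78) (nat_lit 532) (nat_lit 0) (XT.lf (nat_lit 0) (nat_lit 307678429005) (nat_lit 760) (nat_lit 307680309760) (nat_lit 836) (nat_lit 25135866863) (nat_lit 287) (nat_lit 5) (nat_lit 297) (nat_lit 5) (nat_lit 298) (nat_lit 5) (nat_lit 449) (nat_lit 438) (nat_lit 133)) (XT.lf (nat_lit 0) (nat_lit 15806602676) (nat_lit 456) (nat_lit 15808609511) (nat_lit 532) (nat_lit 626272886856) (nat_lit 280) (nat_lit 5) (nat_lit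 286) (nat_lit 5) (nat_lit 287) (nat_lit 5) (nat_lit 450) (nat_lit 438) (nat_lit 132)))))))
noncomputable def xc337 : XT := (XT.nd (nat_lit 1248) (nat_lit 1596) (nat_lit 0) (XT.nd (nat_lit 624) (nat_lit 1444) (nat_lit 0) (XT.nd (nat_lit 312) (nat_lit 684) (nat_lit 0) (XT.nd (nat_lit 156) (nat_lit 380) (nat_lit 0) (XT.nd (nat_lit 78) (nat_lit 380) (nat_lit 0) (XT.lf (nat_lit 0) (nat_lit 100625872463) (nat_lit 532) (nat_lit 287496739632) (nat_lit 76) (nat_lit 287494714003) (nat_lit 280) (nat_lit 5) (nat_lit 287) (nat_lit 5) (nat_lit 281) (nat_lit 5) (nat_lit 451) (nat_lit 438) (nat_lit 131)) (XT.lf (nat_lit 0) (nat_lit 87353959146) (nat_lit 380) (nat_lit 87356093688) (nat_lit 456) (nat_lit 519441812317) (nat_lit 275) (nat_lit 5) (nat_lit 280) (nat_lit 5) (nat_lit 281) (nat_lit 5) (nat_lit 452) (nat_lit 438) (nat_lit 130))) (XT.nd (nat_lit 78) (nat_lit 380) (nat_lit 0) (XT.lf (nat_lit 0) (nat_lit 261013871598)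 (nat_lit 456) (nat_lit 226087809887) (nat_lit 76) (nat_lit 226085678203) (nat_lit 275) (nat_lit 5) (nat_lit 281) (nat_lit 5) (nat_lit 276) (nat_lit 5) (nat_lit 453) (nat_lit 438) (nat_lit 129)) (XT.lf (nat_lit 0) (nat_lit 177920273499) (nat_lit 380) (nat_lit 177922499266) (nat_lit 456) (nat_lit 377121361615) (nat_lit 270) (nat_lit 5) (nat_lit 275) (nat_lit 5) (nat_lit 276) (nat_lit 5) (nat_lit 454) (nat_lit 438) (nat_lit 128)))) (XT.nd (nat_lit 156) (nat_lit 380) (nat_lit 0) (XT.nd (nat_lit 78) (nat_lit 304) (nat_lit 0) (XT.lf (nat_lit 0) (nat_lit 461595427309) (nat_lit 456) (nat_lit 145913705097) (nat_lit 76) (nat_lit 145911499983) (nat_lit 270) (nat_lit 5) (nat_lit 276) (nat_lit 5) (nat_lit 271) (nat_lit 5) (nat_lit 455) (nat_lit 438) (nat_lit 127)) (XT.lf (nat_lit 0) (nat_lit 290039253533) (nat_lit 304) (nat_lit 290041539920) (nat_lit 380) (nat_lit 194446907902) (nat_lit 266) (nat_lit 5) (nat_lit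 270) (nat_lit 5) (nat_lit 271) (nat_lit 5) (nat_lit 456) (nat_lit 438) (nat_lit 126))) (XT.nd (nat_lit 78) (nat_lit 380) (nat_lit 0) (XT.lf (nat_lit 0) (nat_lit 707678074001) (nat_lit 380) (nat_lit 44427459346) (nat_lit 76) (nat_lit 44425208118) (nat_lit 266) (nat_lit 5) (nat_lit 271) (nat_lit 5) (nat_lit 267) (nat_lit 5) (nat_lit 457) (nat_lit 438) (nat_lit 125)) (XT.lf (nat_lit 0) (nat_lit 32917738359) (nat_lit 380) (nat_lit 393060631178) (nat_lit 76) (nat_lit 393058309744) (nat_lit 261) (nat_lit 5) (nat_lit 266) (nat_lit 5) (nat_lit 262) (nat_lit 5) (nat_lit 458) (nat_lit 438) (nat_lit 124))))) (XT.nd (nat_lit 312) (nat_lit 836) (nat_lit 0) (XT.nd (nat_lit 156) (nat_lit 304) (nat_lit 0) (XT.nd (nat_lit 78) (nat_lit 0) (nat_lit 0) (XT.lf (nat_lit 0) (nat_lit 79900218494) (nat_lit 304) (nat_lit 79902606791) (nat_lit 380) (nat_lit 682691648994) (nat_lit 257) (nat_lit 5) (nat_lit 261) (nat_lit 5)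 (nat_lit 262) (nat_lit 5) (nat_lit 459) (nat_lit 438) (nat_lit 123)) (XT.lf (nat_lit 0) (nat_lit 304223825849) (nat_lit 380) (nat_lit 281172042714) (nat_lit 76) (nat_lit 281169707499) (nat_lit 257) (nat_lit 5) (nat_lit 262) (nat_lit 5) (nat_lit 258) (nat_lit 5) (nat_lit 460) (nat_lit 438) (nat_lit 122))) (XT.nd (nat_lit 78) (nat_lit 0) (nat_lit 0) (XT.lf (nat_lit 0) (nat_lit 230385156295) (nat_lit 304) (nat_lit 230387549270) (nat_lit 380) (nat_lit 430822185914) (nat_lit 253) (nat_lit 5) (nat_lit 257) (nat_lit 5) (nat_lit 258) (nat_lit 5) (nat_lit 461) (nat_lit 438) (nat_lit 121)) (XT.lf (nat_lit 0) (nat_lit 632211681674) (nat_lit 380) (nat_lit 142656594892) (nat_lit 76) (nat_lit 142654263480) (nat_lit 253) (nat_lit 5) (nat_lit 258) (nat_lit 5) (nat_lit 254) (nat_lit 5) (nat_lit 462) (nat_lit 438) (nat_lit 120)))) (XT.nd (nat_lit 156) (nat_lit 228) (nat_lit 0) (XT.nd (nat_lit 78) (nat_lit 380) (nat_lit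 0) (XT.lf (nat_lit 0) (nat_lit 411208590891) (nat_lit 228) (nat_lit 411210972197) (nat_lit 304) (nat_lit 121817160128) (nat_lit 250) (nat_lit 5) (nat_lit 253) (nat_lit 5) (nat_lit 254) (nat_lit 5) (nat_lit 463) (nat_lit 438) (nat_lit 119)) (XT.lf (nat_lit 0) (nat_lit 25553884412) (nat_lit 304) (nat_lit 25556313236) (nat_lit 380) (nat_lit 920994775777) (nat_lit 245) (nat_lit 5) (nat_lit 249) (nat_lit 5) (nat_lit 250) (nat_lit 5) (nat_lit 464) (nat_lit 438) (nat_lit 118))) (XT.nd (nat_lit 78) (nat_lit 228) (nat_lit 0) (XT.lf (nat_lit 0) (nat_lit 243688337338) (nat_lit 380) (nat_lit 378412945736) (nat_lit 76) (nat_lit 378410589469) (nat_lit 245) (nat_lit 5) (nat_lit 250) (nat_lit 5) (nat_lit 246) (nat_lit 5) (nat_lit 465) (nat_lit 438) (nat_lit 117)) (XT.lf (nat_lit 0) (nat_lit 224911719186) (nat_lit 228) (nat_lit 224914116501) (nat_lit 304) (nat_lit 580316758345) (nat_lit 242) (nat_lit 5) (nat_lit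 245) (nat_lit 5) (nat_lit 246) (nat_lit 5) (nat_lit 466) (nat_lit 438) (nat_lit 116)))))) (XT.nd (nat_lit 624) (nat_lit 380) (nat_lit 0) (XT.nd (nat_lit 312) (nat_lit 684) (nat_lit 0) (XT.nd (nat_lit 156) (nat_lit 304) (nat_lit 0) (XT.nd (nat_lit 78) (nat_lit 228) (nat_lit 0) (XT.lf (nat_lit 0) (nat_lit 675783593360) (nat_lit 304) (nat_lit 192498954703) (nat_lit 76) (nat_lit 192496634314) (nat_lit 242) (nat_lit 5) (nat_lit 246) (nat_lit 5) (nat_lit 243) (nat_lit 5) (nat_lit 467) (nat_lit 438) (nat_lit 115)) (XT.lf (nat_lit 0) (nat_lit 461968306784) (nat_lit 228) (nat_lit 461970662632) (nat_lit 304) (nat_lit 168463644198) (nat_lit 239) (nat_lit 5) (nat_lit 242) (nat_lit 5) (nat_lit 243) (nat_lit 5) (nat_lit 468) (nat_lit 438) (nat_lit 114))) (XT.nd (nat_lit 78) (nat_lit 0) (nat_lit 0) (XT.lf (nat_lit 0) (nat_lit 30397799552) (nat_lit 228) (nat_lit 30400189170) (nat_lit 304) (nat_lit 1064573847201)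 (nat_lit 235) (nat_lit 5) (nat_lit 238) (nat_lit 5) (nat_lit 239) (nat_lit 5) (nat_lit 469) (nat_lit 438) (nat_lit 113)) (XT.lf (nat_lit 0) (nat_lit 313313245945) (nat_lit 304) (nat_lit 422833946808) (nat_lit 76) (nat_lit 422831640350) (nat_lit 235) (nat_lit 5) (nat_lit 239) (nat_lit 5) (nat_lit 236) (nat_lit 5) (nat_lit 470) (nat_lit 438) (nat_lit 112)))) (XT.nd (nat_lit 156) (nat_lit 456) (nat_lit 0) (XT.nd (nat_lit 78) (nat_lit 0) (nat_lit 0) (XT.lf (nat_lit 0) (nat_lit 291752682759) (nat_lit 228) (nat_lit 291755018388) (nat_lit 304) (nat_lit 610505807240) (nat_lit 232) (nat_lit 5) (nat_lit 235) (nat_lit 5) (nat_lit 236) (nat_lit 5) (nat_lit 471) (nat_lit 438) (nat_lit 111)) (XT.lf (nat_lit 0) (nat_lit 877220166930) (nat_lit 304) (nat_lit 176540793491) (nat_lit 76) (nat_lit 176538542622) (nat_lit 232) (nat_lit 5) (nat_lit 236) (nat_lit 5) (nat_lit 233) (nat_lit 5) (nat_lit 472) (nat_lit 438)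 (nat_lit 110))) (XT.nd (nat_lit 78) (nat_lit 304) (nat_lit 0) (XT.lf (nat_lit 0) (nat_lit 599882344176) (nat_lit 152) (nat_lit 599884620245) (nat_lit 228) (nat_lit 67925397590) (nat_lit 230) (nat_lit 5) (nat_lit 232) (nat_lit 5) (nat_lit 233) (nat_lit 5) (nat_lit 473) (nat_lit 438) (nat_lit 109)) (XT.lf (nat_lit 0) (nat_lit 114450317199) (nat_lit 228) (nat_lit 114452617268) (nat_lit 304) (nat_lit 1077629936922) (nat_lit 226) (nat_lit 5) (nat_lit 229) (nat_lit 5) (nat_lit 230) (nat_lit 5) (nat_lit 474) (nat_lit 438) (nat_lit 108))))) (XT.nd (nat_lit 50310) (nat_lit 0) (nat_lit 5396) (XT.nd (nat_lit 156) (nat_lit 228) (nat_lit 0) (XT.nd (nat_lit 78) (nat_lit 152) (nat_lit 0) (XT.lf (nat_lit 0) (nat_lit 555956005227) (nat_lit 304) (nat_lit 395211316860) (nat_lit 76) (nat_lit 395209104549) (nat_lit 226) (nat_lit 5) (nat_lit 230) (nat_lit 5) (nat_lit 227) (nat_lit 5) (nat_lit 475) (nat_lit 438) (nat_lit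 107)) (XT.lf (nat_lit 0) (nat_lit 454163262642) (nat_lit 152) (nat_lit 454165495684) (nat_lit 228) (nat_lit 479435049880) (nat_lit 224) (nat_lit 5) (nat_lit 226) (nat_lit 5) (nat_lit 227) (nat_lit 5) (nat_lit 476) (nat_lit 438) (nat_lit 106))) (XT.nd (nat_lit 78) (nat_lit 228) (nat_lit 0) (XT.lf (nat_lit 0) (nat_lit 1286179736700) (nat_lit 228) (nat_lit 72324994143) (nat_lit 76) (nat_lit 72322848631) (nat_lit 224) (nat_lit 5) (nat_lit 227) (nat_lit 5) (nat_lit 225) (nat_lit 5) (nat_lit 477) (nat_lit 438) (nat_lit 105)) (XT.lf (nat_lit 0) (nat_lit 221342223930) (nat_lit 228) (nat_lit 626744367720) (nat_lit 76) (nat_lit 626742204299) (nat_lit 221) (nat_lit 5) (nat_lit 224) (nat_lit 5) (nat_lit 222) (nat_lit 5) (nat_lit 478) (nat_lit 438) (nat_lit 104)))) (XT.nd (nat_lit 156) (nat_lit 0) (nat_lit 76) (XT.nd (nat_lit 78) (nat_lit 0) (nat_lit 0) (XT.lf (nat_lit 0) (nat_lit 119482459544) (nat_lit 836)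 (nat_lit 67297062867) (nat_lit 836) (nat_lit 67297062867) (nat_lit 292) (nat_lit 3) (nat_lit 303) (nat_lit 3) (nat_lit 303) (nat_lit 5) (nat_lit 439) (nat_lit 439) (nat_lit 142)) (XT.lf (nat_lit 76) (nat_lit 123433089255) (nat_lit 0) (nat_lit 123433338885) (nat_lit 836) (nat_lit 273894202379) (nat_lit 293) (nat_lit 5) (nat_lit 292) (nat_lit 3) (nat_lit 303) (nat_lit 5) (nat_lit 440) (nat_lit 439) (nat_lit 141))) (XT.nd (nat_lit 78) (nat_lit 0) (nat_lit 0) (XT.lf (nat_lit 0) (nat_lit 259653061845) (nat_lit 760) (nat_lit 137060681669) (nat_lit 836) (nat_lit 137060217504) (nat_lit 293) (nat_lit 5) (nat_lit 303) (nat_lit 5) (nat_lit 304) (nat_lit 5) (nat_lit 441) (nat_lit 439) (nat_lit 140)) (XT.nd (nat_lit 78) (nat_lit 0) (nat_lit 76) (XT.lf (nat_lit 76) (nat_lit 138633140698) (nat_lit 0) (nat_lit 138633820503) (nat_lit 836) (nat_lit 269961600141) (nat_lit 294) (nat_lit 5) (nat_lit 293) (nat_lit 5)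 (nat_lit 304) (nat_lit 5) (nat_lit 442) (nat_lit 439) (nat_lit 139)) (XT.lf (nat_lit 0) (nat_lit 300187138157) (nat_lit 760) (nat_lit 130474158710) (nat_lit 836) (nat_lit 130473315685) (nat_lit 294) (nat_lit 5) (nat_lit 304) (nat_lit 5) (nat_lit 305) (nat_lit 5) (nat_lit 443) (nat_lit 439) (nat_lit 138))))))))
noncomputable def xc338 : XT := (XT.nd (nat_lit 2496) (nat_lit 152) (nat_lit 0) (XT.nd (nat_lit 1248) (nat_lit 2660) (nat_lit 0) (XT.nd (nat_lit 624) (nat_lit 1444) (nat_lit 0) (XT.nd (nat_lit 312) (nat_lit 1064) (nat_lit 0) (XT.nd (nat_lit 156) (nat_lit 0) (nat_lit 76) (XT.nd (nat_lit 78) (nat_lit 0) (nat_lit 76) (XT.lf (nat_lit 76) (nat_lit 164547003115) (nat_lit 0) (nat_lit 164548032418) (nat_lit 836) (nat_lit 246398845210) (nat_lit 295) (nat_lit 5) (nat_lit 294) (nat_lit 5) (nat_lit 305) (nat_lit 5) (nat_lit 444) (nat_lit 439) (nat_lit 137)) (XT.lf (nat_lit 0) (nat_lit 363487637759) (nat_lit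 760) (nat_lit 113441329167) (nat_lit 836) (nat_lit 113440179919) (nat_lit 295) (nat_lit 5) (nat_lit 305) (nat_lit 5) (nat_lit 306) (nat_lit 5) (nat_lit 445) (nat_lit 439) (nat_lit 136))) (XT.nd (nat_lit 78) (nat_lit 0) (nat_lit 76) (XT.lf (nat_lit 76) (nat_lit 202730624604) (nat_lit 0) (nat_lit 202731934766) (nat_lit 836) (nat_lit 200232482419) (nat_lit 296) (nat_lit 5) (nat_lit 295) (nat_lit 5) (nat_lit 306) (nat_lit 5) (nat_lit 446) (nat_lit 439) (nat_lit 135)) (XT.lf (nat_lit 0) (nat_lit 452818713184) (nat_lit 760) (nat_lit 84402893858) (nat_lit 836) (nat_lit 84401500131) (nat_lit 296) (nat_lit 5) (nat_lit 306) (nat_lit 5) (nat_lit 307) (nat_lit 5) (nat_lit 447) (nat_lit 439) (nat_lit 134)))) (XT.nd (nat_lit 156) (nat_lit 1216) (nat_lit 0) (XT.nd (nat_lit 78) (nat_lit 0) (nat_lit 76) (XT.lf (nat_lit 76) (nat_lit 254922328345) (nat_lit 0) (nat_lit 254923861075) (nat_lit 836) (nat_lit 128136210670)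 (nat_lit 297) (nat_lit 5) (nat_lit 296) (nat_lit 5) (nat_lit 307) (nat_lit 5) (nat_lit 448) (nat_lit 439) (nat_lit 133)) (XT.lf (nat_lit 0) (nat_lit 571825621034) (nat_lit 760) (nat_lit 41615296682) (nat_lit 76) (nat_lit 41613710859) (nat_lit 297) (nat_lit 5) (nat_lit 307) (nat_lit 5) (nat_lit 298) (nat_lit 5) (nat_lit 449) (nat_lit 439) (nat_lit 132))) (XT.nd (nat_lit 78) (nat_lit 532) (nat_lit 0) (XT.lf (nat_lit 0) (nat_lit 323062650382) (nat_lit 760) (nat_lit 323064356281) (nat_lit 836) (nat_lit 26392312699) (nat_lit 287) (nat_lit 5) (nat_lit 297) (nat_lit 5) (nat_lit 298) (nat_lit 5) (nat_lit 450) (nat_lit 439) (nat_lit 131)) (XT.lf (nat_lit 0) (nat_lit 16597238841) (nat_lit 456) (nat_lit 16599059100) (nat_lit 532) (nat_lit 657586189797) (nat_lit 280) (nat_lit 5) (nat_lit 286) (nat_lit 5) (nat_lit 287) (nat_lit 5) (nat_lit 451) (nat_lit 439) (nat_lit 130))))) (XT.nd (nat_lit 312) (nat_lit 684)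 (nat_lit 0) (XT.nd (nat_lit 156) (nat_lit 380) (nat_lit 0) (XT.nd (nat_lit 78) (nat_lit 380) (nat_lit 0) (XT.lf (nat_lit 0) (nat_lit 105657475463) (nat_lit 532) (nat_lit 301871269388) (nat_lit 76) (nat_lit 301869432082) (nat_lit 280) (nat_lit 5) (nat_lit 287) (nat_lit 5) (nat_lit 281) (nat_lit 5) (nat_lit 452) (nat_lit 439) (nat_lit 129)) (XT.lf (nat_lit 0) (nat_lit 91721959374) (nat_lit 380) (nat_lit 91723895466) (nat_lit 456) (nat_lit 545413588601) (nat_lit 275) (nat_lit 5) (nat_lit 280) (nat_lit 5) (nat_lit 281) (nat_lit 5) (nat_lit 453) (nat_lit 439) (nat_lit 128))) (XT.nd (nat_lit 78) (nat_lit 380) (nat_lit 0) (XT.lf (nat_lit 0) (nat_lit 274064850330) (nat_lit 456) (nat_lit 237391898293) (nat_lit 76) (nat_lit 237389964792) (nat_lit 275) (nat_lit 5) (nat_lit 281) (nat_lit 5) (nat_lit 276) (nat_lit 5) (nat_lit 454) (nat_lit 439) (nat_lit 127)) (XT.lf (nat_lit 0) (nat_lit 186816584390) (nat_lit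 380) (nat_lit 186818603227) (nat_lit 456) (nat_lit 395977139671) (nat_lit 270) (nat_lit 5) (nat_lit 275) (nat_lit 5) (nat_lit 276) (nat_lit 5) (nat_lit 455) (nat_lit 439) (nat_lit 126)))) (XT.nd (nat_lit 156) (nat_lit 380) (nat_lit 0) (XT.nd (nat_lit 78) (nat_lit 304) (nat_lit 0) (XT.lf (nat_lit 0) (nat_lit 484675462047) (nat_lit 456) (nat_lit 153209094448) (nat_lit 76) (nat_lit 153207094344) (nat_lit 270) (nat_lit 5) (nat_lit 276) (nat_lit 5) (nat_lit 271) (nat_lit 5) (nat_lit 456) (nat_lit 439) (nat_lit 125)) (XT.lf (nat_lit 0) (nat_lit 304541507341) (nat_lit 304) (nat_lit 304543581162) (nat_lit 380) (nat_lit 204168985152) (nat_lit 266) (nat_lit 5) (nat_lit 270) (nat_lit 5) (nat_lit 271) (nat_lit 5) (nat_lit 457) (nat_lit 439) (nat_lit 124))) (XT.nd (nat_lit 78) (nat_lit 380) (nat_lit 0) (XT.lf (nat_lit 0) (nat_lit 743062221448) (nat_lit 380) (nat_lit 46648543416) (nat_lit 76) (nat_lit 46646501486)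 (nat_lit 266) (nat_lit 5) (nat_lit 271) (nat_lit 5) (nat_lit 267) (nat_lit 5) (nat_lit 458) (nat_lit 439) (nat_lit 123)) (XT.lf (nat_lit 0) (nat_lit 34563865734) (nat_lit 380) (nat_lit 412713370549) (nat_lit 76) (nat_lit 412711264940) (nat_lit 261) (nat_lit 5) (nat_lit 266) (nat_lit 5) (nat_lit 262) (nat_lit 5) (nat_lit 459) (nat_lit 439) (nat_lit 122)))))) (XT.nd (nat_lit 624) (nat_lit 1216) (nat_lit 0) (XT.nd (nat_lit 312) (nat_lit 836) (nat_lit 0) (XT.nd (nat_lit 156) (nat_lit 304) (nat_lit 0) (XT.nd (nat_lit 78) (nat_lit 0) (nat_lit 0) (XT.lf (nat_lit 0) (nat_lit 83895516894) (nat_lit 304) (nat_lit 83897683150) (nat_lit 380) (nat_lit 716825986274) (nat_lit 257) (nat_lit 5) (nat_lit 261) (nat_lit 5) (nat_lit 262) (nat_lit 5) (nat_lit 460) (nat_lit 439) (nat_lit 121)) (XT.lf (nat_lit 0) (nat_lit 319435240320) (nat_lit 380) (nat_lit 295230360748) (nat_lit 76) (nat_lit 295228242638) (nat_lit 257)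 (nat_lit 5) (nat_lit 262) (nat_lit 5) (nat_lit 258) (nat_lit 5) (nat_lit 461) (nat_lit 439) (nat_lit 120))) (XT.nd (nat_lit 78) (nat_lit 0) (nat_lit 0) (XT.lf (nat_lit 0) (nat_lit 241904693630) (nat_lit 304) (nat_lit 241906864128) (nat_lit 380) (nat_lit 452363067448) (nat_lit 253) (nat_lit 5) (nat_lit 257) (nat_lit 5) (nat_lit 258) (nat_lit 5) (nat_lit 462) (nat_lit 439) (nat_lit 119)) (XT.lf (nat_lit 0) (nat_lit 663822473274) (nat_lit 380) (nat_lit 149789149029) (nat_lit 76) (nat_lit 149787034369) (nat_lit 253) (nat_lit 5) (nat_lit 258) (nat_lit 5) (nat_lit 254) (nat_lit 5) (nat_lit 463) (nat_lit 439) (nat_lit 118)))) (XT.nd (nat_lit 156) (nat_lit 228) (nat_lit 0) (XT.nd (nat_lit 78) (nat_lit 380) (nat_lit 0) (XT.lf (nat_lit 0) (nat_lit 431769291598) (nat_lit 228) (nat_lit 431771451513) (nat_lit 304) (nat_lit 127907806172) (nat_lit 250) (nat_lit 5) (nat_lit 253) (nat_lit 5) (nat_lit 254) (nat_lit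 5) (nat_lit 464) (nat_lit 439) (nat_lit 117)) (XT.lf (nat_lit 0) (nat_lit 26831852096) (nat_lit 304) (nat_lit 26834055111) (nat_lit 380) (nat_lit 967044304905) (nat_lit 245) (nat_lit 5) (nat_lit 249) (nat_lit 5) (nat_lit 250) (nat_lit 5) (nat_lit 465) (nat_lit 439) (nat_lit 116))) (XT.nd (nat_lit 78) (nat_lit 228) (nat_lit 0) (XT.lf (nat_lit 0) (nat_lit 255872945471) (nat_lit 380) (nat_lit 397333324170) (nat_lit 76) (nat_lit 397331186966) (nat_lit 245) (nat_lit 5) (nat_lit 250) (nat_lit 5) (nat_lit 246) (nat_lit 5) (nat_lit 466) (nat_lit 439) (nat_lit 115)) (XT.lf (nat_lit 0) (nat_lit 236157569662) (nat_lit 228) (nat_lit 236159744098) (nat_lit 304) (nat_lit 609332400660) (nat_lit 242) (nat_lit 5) (nat_lit 245) (nat_lit 5) (nat_lit 246) (nat_lit 5) (nat_lit 467) (nat_lit 439) (nat_lit 114))))) (XT.nd (nat_lit 312) (nat_lit 684) (nat_lit 0) (XT.nd (nat_lit 156) (nat_lit 304) (nat_lit 0) (XT.nd (nat_lit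 78) (nat_lit 228) (nat_lit 0) (XT.lf (nat_lit 0) (nat_lit 709572951608) (nat_lit 304) (nat_lit 202123642810) (nat_lit 76) (nat_lit 202121538149) (nat_lit 242) (nat_lit 5) (nat_lit 246) (nat_lit 5) (nat_lit 243) (nat_lit 5) (nat_lit 468) (nat_lit 439) (nat_lit 113)) (XT.lf (nat_lit 0) (nat_lit 485066977564) (nat_lit 228) (nat_lit 485069114387) (nat_lit 304) (nat_lit 176886643641) (nat_lit 239) (nat_lit 5) (nat_lit 242) (nat_lit 5) (nat_lit 243) (nat_lit 5) (nat_lit 469) (nat_lit 439) (nat_lit 112))) (XT.nd (nat_lit 78) (nat_lit 0) (nat_lit 0) (XT.lf (nat_lit 0) (nat_lit 31917946606) (nat_lit 228) (nat_lit 31920114060) (nat_lit 304) (nat_lit 1117802358428) (nat_lit 235) (nat_lit 5) (nat_lit 238) (nat_lit 5) (nat_lit 239) (nat_lit 5) (nat_lit 470) (nat_lit 439) (nat_lit 111)) (XT.lf (nat_lit 0) (nat_lit 328979073792) (nat_lit 304) (nat_lit 443975392357) (nat_lit 76) (nat_lit 443973300332) (nat_lit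 235) (nat_lit 5) (nat_lit 239) (nat_lit 5) (nat_lit 236) (nat_lit 5) (nat_lit 471) (nat_lit 439) (nat_lit 110)))) (XT.nd (nat_lit 156) (nat_lit 456) (nat_lit 0) (XT.nd (nat_lit 78) (nat_lit 0) (nat_lit 0) (XT.lf (nat_lit 0) (nat_lit 306340564627) (nat_lit 228) (nat_lit 306342683112) (nat_lit 304) (nat_lit 641030927991) (nat_lit 232) (nat_lit 5) (nat_lit 235) (nat_lit 5) (nat_lit 236) (nat_lit 5) (nat_lit 472) (nat_lit 439) (nat_lit 109)) (XT.lf (nat_lit 0) (nat_lit 921081330401) (nat_lit 304) (nat_lit 185367590822) (nat_lit 76) (nat_lit 185365549217) (nat_lit 232) (nat_lit 5) (nat_lit 236) (nat_lit 5) (nat_lit 233) (nat_lit 5) (nat_lit 473) (nat_lit 439) (nat_lit 108))) (XT.nd (nat_lit 78) (nat_lit 304) (nat_lit 0) (XT.lf (nat_lit 0) (nat_lit 629876699820) (nat_lit 152) (nat_lit 629878764282) (nat_lit 228) (nat_lit 71321508437) (nat_lit 230) (nat_lit 5) (nat_lit 232) (nat_lit 5) (nat_lit 233) (nat_lit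 5) (nat_lit 474) (nat_lit 439) (nat_lit 107)) (XT.lf (nat_lit 0) (nat_lit 120173072656) (nat_lit 228) (nat_lit 120175158887) (nat_lit 304) (nat_lit 1131511275898) (nat_lit 226) (nat_lit 5) (nat_lit 229) (nat_lit 5) (nat_lit 230) (nat_lit 5) (nat_lit 475) (nat_lit 439) (nat_lit 106))))))) (XT.nd (nat_lit 51324) (nat_lit 0) (nat_lit 1368) (XT.nd (nat_lit 50700) (nat_lit 0) (nat_lit 4256) (XT.nd (nat_lit 50388) (nat_lit 0) (nat_lit 5168) (XT.nd (nat_lit 156) (nat_lit 0) (nat_lit 0) (XT.nd (nat_lit 78) (nat_lit 152) (nat_lit 0) (XT.lf (nat_lit 0) (nat_lit 583753950008) (nat_lit 304) (nat_lit 414971648682) (nat_lit 76) (nat_lit 414969642051) (nat_lit 226) (nat_lit 5) (nat_lit 230) (nat_lit 5) (nat_lit 227) (nat_lit 5) (nat_lit 476) (nat_lit 439) (nat_lit 105)) (XT.lf (nat_lit 0) (nat_lit 476871656020) (nat_lit 152) (nat_lit 476873681455) (nat_lit 228) (nat_lit 503406654080) (nat_lit 224) (nat_lit 5)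 (nat_lit 226) (nat_lit 5) (nat_lit 227) (nat_lit 5) (nat_lit 477) (nat_lit 439) (nat_lit 104))) (XT.nd (nat_lit 50154) (nat_lit 0) (nat_lit 5168) (XT.lf (nat_lit 0) (nat_lit 1350488859366) (nat_lit 228) (nat_lit 75941019166) (nat_lit 76) (nat_lit 75939073123) (nat_lit 224) (nat_lit 5) (nat_lit 227) (nat_lit 5) (nat_lit 225) (nat_lit 5) (nat_lit 478) (nat_lit 439) (nat_lit 103)) (XT.lf (nat_lit 0) (nat_lit 125456828254) (nat_lit 836) (nat_lit 70661787001) (nat_lit 836) (nat_lit 70661787001) (nat_lit 292) (nat_lit 3) (nat_lit 303) (nat_lit 3) (nat_lit 303) (nat_lit 5) (nat_lit 440) (nat_lit 440) (nat_lit 140)))) (XT.nd (nat_lit 156) (nat_lit 0) (nat_lit 76) (XT.nd (nat_lit 78) (nat_lit 0) (nat_lit 76) (XT.lf (nat_lit 76) (nat_lit 129604997575) (nat_lit 0) (nat_lit 129605223997) (nat_lit 836) (nat_lit 287588416871) (nat_lit 293) (nat_lit 5) (nat_lit 292) (nat_lit 3) (nat_lit 303) (nat_lit 5) (nat_lit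 441) (nat_lit 440) (nat_lit 139)) (XT.lf (nat_lit 0) (nat_lit 272636161242) (nat_lit 760) (nat_lit 143913448262) (nat_lit 836) (nat_lit 143913027250) (nat_lit 293) (nat_lit 5) (nat_lit 303) (nat_lit 5) (nat_lit 304) (nat_lit 5) (nat_lit 442) (nat_lit 440) (nat_lit 138))) (XT.nd (nat_lit 78) (nat_lit 0) (nat_lit 76) (XT.lf (nat_lit 76) (nat_lit 145565060910) (nat_lit 0) (nat_lit 145565677513) (nat_lit 836) (nat_lit 283459229529) (nat_lit 294) (nat_lit 5) (nat_lit 293) (nat_lit 5) (nat_lit 304) (nat_lit 5) (nat_lit 443) (nat_lit 440) (nat_lit 137)) (XT.lf (nat_lit 0) (nat_lit 315196901321) (nat_lit 760) (nat_lit 136997593097) (nat_lit 836) (nat_lit 136996828448) (nat_lit 294) (nat_lit 5) (nat_lit 304) (nat_lit 5) (nat_lit 305) (nat_lit 5) (nat_lit 444) (nat_lit 440) (nat_lit 136))))) (XT.nd (nat_lit 312) (nat_lit 1064) (nat_lit 0) (XT.nd (nat_lit 156) (nat_lit 0) (nat_lit 76) (XT.nd (nat_lit 78)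 (nat_lit 0) (nat_lit 76) (XT.lf (nat_lit 76) (nat_lit 172774622407) (nat_lit 0) (nat_lit 172775556015) (nat_lit 836) (nat_lit 258718376802) (nat_lit 295) (nat_lit 5) (nat_lit 294) (nat_lit 5) (nat_lit 305) (nat_lit 5) (nat_lit 445) (nat_lit 440) (nat_lit 135)) (XT.lf (nat_lit 0) (nat_lit 381662390321) (nat_lit 760) (nat_lit 119113118867) (nat_lit 836) (nat_lit 119112076465) (nat_lit 295) (nat_lit 5) (nat_lit 305) (nat_lit 5) (nat_lit 306) (nat_lit 5) (nat_lit 446) (nat_lit 440) (nat_lit 134))) (XT.nd (nat_lit 78) (nat_lit 0) (nat_lit 76) (XT.lf (nat_lit 76) (nat_lit 212867428129) (nat_lit 0) (nat_lit 212868616484) (nat_lit 836) (nat_lit 210243731401) (nat_lit 296) (nat_lit 5) (nat_lit 295) (nat_lit 5) (nat_lit 306) (nat_lit 5) (nat_lit 447) (nat_lit 440) (nat_lit 133)) (XT.lf (nat_lit 0) (nat_lit 475459987842) (nat_lit 760) (nat_lit 88622760946) (nat_lit 836) (nat_lit 88621496795) (nat_lit 296)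 (nat_lit 5) (nat_lit 306) (nat_lit 5) (nat_lit 307) (nat_lit 5) (nat_lit 448) (nat_lit 440) (nat_lit 132)))) (XT.nd (nat_lit 156) (nat_lit 1216) (nat_lit 0) (XT.nd (nat_lit 78) (nat_lit 0) (nat_lit 76) (XT.lf (nat_lit 76) (nat_lit 267668717890) (nat_lit 0) (nat_lit 267670108121) (nat_lit 836) (nat_lit 134542677728) (nat_lit 297) (nat_lit 5) (nat_lit 296) (nat_lit 5) (nat_lit 307) (nat_lit 5) (nat_lit 449) (nat_lit 440) (nat_lit 131)) (XT.lf (nat_lit 0) (nat_lit 600417212825) (nat_lit 760) (nat_lit 43695785015) (nat_lit 76) (nat_lit 43694346626) (nat_lit 297) (nat_lit 5) (nat_lit 307) (nat_lit 5) (nat_lit 298) (nat_lit 5) (nat_lit 450) (nat_lit 440) (nat_lit 130))) (XT.nd (nat_lit 78) (nat_lit 532) (nat_lit 0) (XT.lf (nat_lit 0) (nat_lit 339216054942) (nat_lit 760) (nat_lit 339217602244) (nat_lit 836) (nat_lit 27711613134) (nat_lit 287) (nat_lit 5) (nat_lit 297) (nat_lit 5) (nat_lit 298) (nat_lit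 5) (nat_lit 451) (nat_lit 440) (nat_lit 129)) (XT.lf (nat_lit 0) (nat_lit 17427378363) (nat_lit 456) (nat_lit 17429029391) (nat_lit 532) (nat_lit 690465189625) (nat_lit 280) (nat_lit 5) (nat_lit 286) (nat_lit 5) (nat_lit 287) (nat_lit 5) (nat_lit 452) (nat_lit 440) (nat_lit 128)))))) (XT.nd (nat_lit 624) (nat_lit 1444) (nat_lit 0) (XT.nd (nat_lit 312) (nat_lit 684) (nat_lit 0) (XT.nd (nat_lit 156) (nat_lit 380) (nat_lit 0) (XT.nd (nat_lit 78) (nat_lit 380) (nat_lit 0) (XT.lf (nat_lit 0) (nat_lit 110940629851) (nat_lit 532) (nat_lit 316964554195) (nat_lit 76) (nat_lit 316962887704) (nat_lit 280) (nat_lit 5) (nat_lit 287) (nat_lit 5) (nat_lit 281) (nat_lit 5) (nat_lit 453) (nat_lit 440) (nat_lit 127)) (XT.lf (nat_lit 0) (nat_lit 96308331510) (nat_lit 380) (nat_lit 96310087604) (nat_lit 456) (nat_lit 572683982922) (nat_lit 275) (nat_lit 5) (nat_lit 280) (nat_lit 5) (nat_lit 281) (nat_lit 5) (nat_lit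 454) (nat_lit 440) (nat_lit 126))) (XT.nd (nat_lit 78) (nat_lit 380) (nat_lit 0) (XT.lf (nat_lit 0) (nat_lit 287768351488) (nat_lit 456) (nat_lit 249261219204) (nat_lit 76) (nat_lit 249259465462) (nat_lit 275) (nat_lit 5) (nat_lit 281) (nat_lit 5) (nat_lit 276) (nat_lit 5) (nat_lit 455) (nat_lit 440) (nat_lit 125)) (XT.lf (nat_lit 0) (nat_lit 196157683194) (nat_lit 380) (nat_lit 196159514338) (nat_lit 456) (nat_lit 415775733593) (nat_lit 270) (nat_lit 5) (nat_lit 275) (nat_lit 5) (nat_lit 276) (nat_lit 5) (nat_lit 456) (nat_lit 440) (nat_lit 124)))) (XT.nd (nat_lit 156) (nat_lit 380) (nat_lit 0) (XT.nd (nat_lit 78) (nat_lit 304) (nat_lit 0) (XT.lf (nat_lit 0) (nat_lit 508909474037) (nat_lit 456) (nat_lit 160869280777) (nat_lit 76) (nat_lit 160867466624) (nat_lit 270) (nat_lit 5) (nat_lit 276) (nat_lit 5) (nat_lit 271) (nat_lit 5) (nat_lit 457) (nat_lit 440) (nat_lit 123)) (XT.lf (nat_lit 0) (nat_lit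 319768846773) (nat_lit 304) (nat_lit 319770727789) (nat_lit 380) (nat_lit 214377191193) (nat_lit 266) (nat_lit 5) (nat_lit 270) (nat_lit 5) (nat_lit 271) (nat_lit 5) (nat_lit 458) (nat_lit 440) (nat_lit 122))) (XT.nd (nat_lit 78) (nat_lit 380) (nat_lit 0) (XT.lf (nat_lit 0) (nat_lit 780215553607) (nat_lit 380) (nat_lit 48980708549) (nat_lit 76) (nat_lit 48978856458) (nat_lit 266) (nat_lit 5) (nat_lit 271) (nat_lit 5) (nat_lit 267) (nat_lit 5) (nat_lit 459) (nat_lit 440) (nat_lit 121)) (XT.lf (nat_lit 0) (nat_lit 36292277122) (nat_lit 380) (nat_lit 433348774053) (nat_lit 76) (nat_lit 433346864204) (nat_lit 261) (nat_lit 5) (nat_lit 266) (nat_lit 5) (nat_lit 262) (nat_lit 5) (nat_lit 460) (nat_lit 440) (nat_lit 120))))) (XT.nd (nat_lit 312) (nat_lit 836) (nat_lit 0) (XT.nd (nat_lit 156) (nat_lit 304) (nat_lit 0) (XT.nd (nat_lit 78) (nat_lit 0) (nat_lit 0) (XT.lf (nat_lit 0) (nat_lit 88090553488)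 (nat_lit 304) (nat_lit 88092518346) (nat_lit 380) (nat_lit 752667063212) (nat_lit 257) (nat_lit 5) (nat_lit 261) (nat_lit 5) (nat_lit 262) (nat_lit 5) (nat_lit 461) (nat_lit 440) (nat_lit 119)) (XT.lf (nat_lit 0) (nat_lit 335407204766) (nat_lit 380) (nat_lit 309991621096) (nat_lit 76) (nat_lit 309989699908) (nat_lit 257) (nat_lit 5) (nat_lit 262) (nat_lit 5) (nat_lit 258) (nat_lit 5) (nat_lit 462) (nat_lit 440) (nat_lit 118))) (XT.nd (nat_lit 78) (nat_lit 0) (nat_lit 0) (XT.lf (nat_lit 0) (nat_lit 254000181844) (nat_lit 304) (nat_lit 254002150550) (nat_lit 380) (nat_lit 474981014235) (nat_lit 253) (nat_lit 5) (nat_lit 257) (nat_lit 5) (nat_lit 258) (nat_lit 5) (nat_lit 463) (nat_lit 440) (nat_lit 117)) (XT.lf (nat_lit 0) (nat_lit 697013785162) (nat_lit 380) (nat_lit 157278356495) (nat_lit 76) (nat_lit 157276438437) (nat_lit 253) (nat_lit 5) (nat_lit 258) (nat_lit 5) (nat_lit 254) (nat_lit 5) (nat_lit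 464) (nat_lit 440) (nat_lit 116)))) (XT.nd (nat_lit 156) (nat_lit 228) (nat_lit 0) (XT.nd (nat_lit 78) (nat_lit 380) (nat_lit 0) (XT.lf (nat_lit 0) (nat_lit 453358002130) (nat_lit 228) (nat_lit 453359961237) (nat_lit 304) (nat_lit 134303004225) (nat_lit 250) (nat_lit 5) (nat_lit 253) (nat_lit 5) (nat_lit 254) (nat_lit 5) (nat_lit 465) (nat_lit 440) (nat_lit 115)) (XT.lf (nat_lit 0) (nat_lit 28173692740) (nat_lit 304) (nat_lit 28175690940) (nat_lit 380) (nat_lit 1015396329981) (nat_lit 245) (nat_lit 5) (nat_lit 249) (nat_lit 5) (nat_lit 250) (nat_lit 5) (nat_lit 466) (nat_lit 440) (nat_lit 114))) (XT.nd (nat_lit 78) (nat_lit 228) (nat_lit 0) (XT.lf (nat_lit 0) (nat_lit 268666766228) (nat_lit 380) (nat_lit 417199746521) (nat_lit 76) (nat_lit 417197808014) (nat_lit 245) (nat_lit 5) (nat_lit 250) (nat_lit 5) (nat_lit 246) (nat_lit 5) (nat_lit 467) (nat_lit 440) (nat_lit 113)) (XT.lf (nat_lit 0) (nat_lit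 247965688070) (nat_lit 228) (nat_lit 247967660347) (nat_lit 304) (nat_lit 639798843276) (nat_lit 242) (nat_lit 5) (nat_lit 245) (nat_lit 5) (nat_lit 246) (nat_lit 5) (nat_lit 468) (nat_lit 440) (nat_lit 112))))))))
noncomputable def xc339 : XT := (XT.nd (nat_lit 51480) (nat_lit 0) (nat_lit 2508) (XT.nd (nat_lit 702) (nat_lit 152) (nat_lit 0) (XT.nd (nat_lit 312) (nat_lit 684) (nat_lit 0) (XT.nd (nat_lit 156) (nat_lit 304) (nat_lit 0) (XT.nd (nat_lit 78) (nat_lit 228) (nat_lit 0) (XT.lf (nat_lit 0) (nat_lit 745051761166) (nat_lit 304) (nat_lit 212229589460) (nat_lit 76) (nat_lit 212227680471) (nat_lit 242) (nat_lit 5) (nat_lit 246) (nat_lit 5) (nat_lit 243) (nat_lit 5) (nat_lit 469) (nat_lit 440) (nat_lit 111)) (XT.lf (nat_lit 0) (nat_lit 509320558134) (nat_lit 228) (nat_lit 509322496296) (nat_lit 304) (nat_lit 185730810047) (nat_lit 239) (nat_lit 5) (nat_lit 242) (nat_lit 5) (nat_lit 243) (nat_lit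 5) (nat_lit 470) (nat_lit 440) (nat_lit 110))) (XT.nd (nat_lit 78) (nat_lit 0) (nat_lit 0) (XT.lf (nat_lit 0) (nat_lit 33514077111) (nat_lit 228) (nat_lit 33516043056) (nat_lit 304) (nat_lit 1173692312057) (nat_lit 235) (nat_lit 5) (nat_lit 238) (nat_lit 5) (nat_lit 239) (nat_lit 5) (nat_lit 471) (nat_lit 440) (nat_lit 109)) (XT.lf (nat_lit 0) (nat_lit 345428177640) (nat_lit 304) (nat_lit 466173933593) (nat_lit 76) (nat_lit 466172036064) (nat_lit 235) (nat_lit 5) (nat_lit 239) (nat_lit 5) (nat_lit 236) (nat_lit 5) (nat_lit 472) (nat_lit 440) (nat_lit 108)))) (XT.nd (nat_lit 234) (nat_lit 304) (nat_lit 0) (XT.nd (nat_lit 156) (nat_lit 152) (nat_lit 0) (XT.lf (nat_lit 0) (nat_lit 321657817557) (nat_lit 228) (nat_lit 321659739085) (nat_lit 304) (nat_lit 673082320548) (nat_lit 232) (nat_lit 5) (nat_lit 235) (nat_lit 5) (nat_lit 236) (nat_lit 5) (nat_lit 473) (nat_lit 440) (nat_lit 107)) (XT.lf (nat_lit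 0) (nat_lit 661370751079) (nat_lit 152) (nat_lit 661372623607) (nat_lit 228) (nat_lit 74887439612) (nat_lit 230) (nat_lit 5) (nat_lit 232) (nat_lit 5) (nat_lit 233) (nat_lit 5) (nat_lit 475) (nat_lit 440) (nat_lit 105))) (XT.nd (nat_lit 78) (nat_lit 0) (nat_lit 0) (XT.lf (nat_lit 0) (nat_lit 126181943611) (nat_lit 228) (nat_lit 126183835884) (nat_lit 304) (nat_lit 1188086696500) (nat_lit 226) (nat_lit 5) (nat_lit 229) (nat_lit 5) (nat_lit 230) (nat_lit 5) (nat_lit 476) (nat_lit 440) (nat_lit 104)) (XT.lf (nat_lit 0) (nat_lit 612941778593) (nat_lit 304) (nat_lit 435720018853) (nat_lit 76) (nat_lit 435718198779) (nat_lit 226) (nat_lit 5) (nat_lit 230) (nat_lit 5) (nat_lit 227) (nat_lit 5) (nat_lit 477) (nat_lit 440) (nat_lit 103))))) (XT.nd (nat_lit 50466) (nat_lit 0) (nat_lit 5244) (XT.nd (nat_lit 50310) (nat_lit 0) (nat_lit 5168) (XT.nd (nat_lit 50232) (nat_lit 0) (nat_lit 5168) (XT.lf (nat_lit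 0) (nat_lit 500715447661) (nat_lit 152) (nat_lit 500717284791) (nat_lit 228) (nat_lit 528576852276) (nat_lit 224) (nat_lit 5) (nat_lit 226) (nat_lit 5) (nat_lit 227) (nat_lit 5) (nat_lit 478) (nat_lit 440) (nat_lit 102)) (XT.lf (nat_lit 0) (nat_lit 131729892554) (nat_lit 836) (nat_lit 74194759335) (nat_lit 836) (nat_lit 74194759335) (nat_lit 292) (nat_lit 3) (nat_lit 303) (nat_lit 3) (nat_lit 303) (nat_lit 5) (nat_lit 441) (nat_lit 441) (nat_lit 138))) (XT.nd (nat_lit 78) (nat_lit 0) (nat_lit 76) (XT.lf (nat_lit 76) (nat_lit 136085477711) (nat_lit 0) (nat_lit 136085683082) (nat_lit 836) (nat_lit 301967388166) (nat_lit 293) (nat_lit 5) (nat_lit 292) (nat_lit 3) (nat_lit 303) (nat_lit 5) (nat_lit 442) (nat_lit 441) (nat_lit 137)) (XT.lf (nat_lit 0) (nat_lit 286268374115) (nat_lit 760) (nat_lit 151108878053) (nat_lit 836) (nat_lit 151108496183) (nat_lit 293) (nat_lit 5) (nat_lit 303) (nat_lit 5) (nat_lit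 304) (nat_lit 5) (nat_lit 443) (nat_lit 441) (nat_lit 136)))) (XT.nd (nat_lit 156) (nat_lit 0) (nat_lit 76) (XT.nd (nat_lit 78) (nat_lit 0) (nat_lit 76) (XT.lf (nat_lit 76) (nat_lit 152843552664) (nat_lit 0) (nat_lit 152844111941) (nat_lit 836) (nat_lit 297631782281) (nat_lit 294) (nat_lit 5) (nat_lit 293) (nat_lit 5) (nat_lit 304) (nat_lit 5) (nat_lit 444) (nat_lit 441) (nat_lit 135)) (XT.lf (nat_lit 0) (nat_lit 330957114874) (nat_lit 760) (nat_lit 143847224635) (nat_lit 836) (nat_lit 143846531077) (nat_lit 294) (nat_lit 5) (nat_lit 304) (nat_lit 5) (nat_lit 305) (nat_lit 5) (nat_lit 445) (nat_lit 441) (nat_lit 134))) (XT.nd (nat_lit 78) (nat_lit 0) (nat_lit 76) (XT.lf (nat_lit 76) (nat_lit 181413597642) (nat_lit 0) (nat_lit 181414444453) (nat_lit 836) (nat_lit 271653923154) (nat_lit 295) (nat_lit 5) (nat_lit 294) (nat_lit 5) (nat_lit 305) (nat_lit 5) (nat_lit 446) (nat_lit 441) (nat_lit 133))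 (XT.lf (nat_lit 0) (nat_lit 400745846050) (nat_lit 760) (nat_lit 125068523783) (nat_lit 836) (nat_lit 125067578293) (nat_lit 295) (nat_lit 5) (nat_lit 305) (nat_lit 5) (nat_lit 306) (nat_lit 5) (nat_lit 447) (nat_lit 441) (nat_lit 132)))))) (XT.nd (nat_lit 624) (nat_lit 1368) (nat_lit 0) (XT.nd (nat_lit 312) (nat_lit 1520) (nat_lit 0) (XT.nd (nat_lit 156) (nat_lit 0) (nat_lit 76) (XT.nd (nat_lit 78) (nat_lit 0) (nat_lit 76) (XT.lf (nat_lit 76) (nat_lit 223511046515) (nat_lit 0) (nat_lit 223512124388) (nat_lit 836) (nat_lit 220755577710) (nat_lit 296) (nat_lit 5) (nat_lit 295) (nat_lit 5) (nat_lit 306) (nat_lit 5) (nat_lit 448) (nat_lit 441) (nat_lit 131)) (XT.lf (nat_lit 0) (nat_lit 499233294715) (nat_lit 760) (nat_lit 93053647197) (nat_lit 836) (nat_lit 93052500575) (nat_lit 296) (nat_lit 5) (nat_lit 306) (nat_lit 5) (nat_lit 307) (nat_lit 5) (nat_lit 449) (nat_lit 441) (nat_lit 130))) (XT.nd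 (nat_lit 78) (nat_lit 0) (nat_lit 76) (XT.lf (nat_lit 76) (nat_lit 281052401519) (nat_lit 0) (nat_lit 281053662500) (nat_lit 836) (nat_lit 141269500072) (nat_lit 297) (nat_lit 5) (nat_lit 296) (nat_lit 5) (nat_lit 307) (nat_lit 5) (nat_lit 450) (nat_lit 441) (nat_lit 129)) (XT.lf (nat_lit 0) (nat_lit 630438355316) (nat_lit 760) (nat_lit 45880323471) (nat_lit 76) (nat_lit 45879018810) (nat_lit 297) (nat_lit 5) (nat_lit 307) (nat_lit 5) (nat_lit 298) (nat_lit 5) (nat_lit 451) (nat_lit 441) (nat_lit 128)))) (XT.nd (nat_lit 156) (nat_lit 380) (nat_lit 0) (XT.nd (nat_lit 78) (nat_lit 532) (nat_lit 0) (XT.lf (nat_lit 0) (nat_lit 356177104439) (nat_lit 760) (nat_lit 356178507887) (nat_lit 836) (nat_lit 29096907896) (nat_lit 287) (nat_lit 5) (nat_lit 297) (nat_lit 5) (nat_lit 298) (nat_lit 5) (nat_lit 452) (nat_lit 441) (nat_lit 127)) (XT.lf (nat_lit 0) (nat_lit 18298999054) (nat_lit 456) (nat_lit 18300496585)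 (nat_lit 532) (nat_lit 724988168234) (nat_lit 280) (nat_lit 5) (nat_lit 286) (nat_lit 5) (nat_lit 287) (nat_lit 5) (nat_lit 453) (nat_lit 441) (nat_lit 126))) (XT.nd (nat_lit 78) (nat_lit 380) (nat_lit 0) (XT.lf (nat_lit 0) (nat_lit 116487915869) (nat_lit 532) (nat_lit 332812529149) (nat_lit 76) (nat_lit 332811017593) (nat_lit 280) (nat_lit 5) (nat_lit 287) (nat_lit 5) (nat_lit 281) (nat_lit 5) (nat_lit 454) (nat_lit 441) (nat_lit 125)) (XT.lf (nat_lit 0) (nat_lit 101123996765) (nat_lit 380) (nat_lit 101125589593) (nat_lit 456) (nat_lit 601317923466) (nat_lit 275) (nat_lit 5) (nat_lit 280) (nat_lit 5) (nat_lit 281) (nat_lit 5) (nat_lit 455) (nat_lit 441) (nat_lit 124))))) (XT.nd (nat_lit 312) (nat_lit 684) (nat_lit 0) (XT.nd (nat_lit 156) (nat_lit 304) (nat_lit 0) (XT.nd (nat_lit 78) (nat_lit 380) (nat_lit 0) (XT.lf (nat_lit 0) (nat_lit 302157003658) (nat_lit 456) (nat_lit 261724031635) (nat_lit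 76) (nat_lit 261722440939) (nat_lit 275) (nat_lit 5) (nat_lit 281) (nat_lit 5) (nat_lit 276) (nat_lit 5) (nat_lit 456) (nat_lit 441) (nat_lit 123)) (XT.lf (nat_lit 0) (nat_lit 205965811874) (nat_lit 380) (nat_lit 205967472776) (nat_lit 456) (nat_lit 436564281669) (nat_lit 270) (nat_lit 5) (nat_lit 275) (nat_lit 5) (nat_lit 276) (nat_lit 5) (nat_lit 457) (nat_lit 441) (nat_lit 122))) (XT.nd (nat_lit 78) (nat_lit 304) (nat_lit 0) (XT.lf (nat_lit 0) (nat_lit 534355164417) (nat_lit 456) (nat_lit 168912501375) (nat_lit 76) (nat_lit 168910855884) (nat_lit 270) (nat_lit 5) (nat_lit 276) (nat_lit 5) (nat_lit 271) (nat_lit 5) (nat_lit 458) (nat_lit 441) (nat_lit 121)) (XT.lf (nat_lit 0) (nat_lit 335757528626) (nat_lit 304) (nat_lit 335759234763) (nat_lit 380) (nat_lit 225095830149) (nat_lit 266) (nat_lit 5) (nat_lit 270) (nat_lit 5) (nat_lit 271) (nat_lit 5) (nat_lit 459) (nat_lit 441) (nat_lit 120))))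 (XT.nd (nat_lit 156) (nat_lit 304) (nat_lit 0) (XT.nd (nat_lit 78) (nat_lit 380) (nat_lit 0) (XT.lf (nat_lit 0) (nat_lit 819226531820) (nat_lit 380) (nat_lit 51429506300) (nat_lit 76) (nat_lit 51427826399) (nat_lit 266) (nat_lit 5) (nat_lit 271) (nat_lit 5) (nat_lit 267) (nat_lit 5) (nat_lit 460) (nat_lit 441) (nat_lit 119)) (XT.lf (nat_lit 0) (nat_lit 38107088802) (nat_lit 380) (nat_lit 455015972372) (nat_lit 76) (nat_lit 455014240082) (nat_lit 261) (nat_lit 5) (nat_lit 266) (nat_lit 5) (nat_lit 262) (nat_lit 5) (nat_lit 461) (nat_lit 441) (nat_lit 118))) (XT.nd (nat_lit 78) (nat_lit 0) (nat_lit 0) (XT.lf (nat_lit 0) (nat_lit 92495317669) (nat_lit 304) (nat_lit 92497099853) (nat_lit 380) (nat_lit 790300214671) (nat_lit 257) (nat_lit 5) (nat_lit 261) (nat_lit 5) (nat_lit 262) (nat_lit 5) (nat_lit 462) (nat_lit 441) (nat_lit 117)) (XT.lf (nat_lit 0) (nat_lit 352177748614) (nat_lit 380) (nat_lit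 325490968419) (nat_lit 76) (nat_lit 325489225845) (nat_lit 257) (nat_lit 5) (nat_lit 262) (nat_lit 5) (nat_lit 258) (nat_lit 5) (nat_lit 463) (nat_lit 441) (nat_lit 116)))))))
noncomputable def xc340 : XT := (XT.nd (nat_lit 51558) (nat_lit 0) (nat_lit 3040) (XT.nd (nat_lit 624) (nat_lit 988) (nat_lit 0) (XT.nd (nat_lit 312) (nat_lit 456) (nat_lit 0) (XT.nd (nat_lit 156) (nat_lit 608) (nat_lit 0) (XT.nd (nat_lit 78) (nat_lit 0) (nat_lit 0) (XT.lf (nat_lit 0) (nat_lit 266700420898) (nat_lit 304) (nat_lit 266702206573) (nat_lit 380) (nat_lit 498729877567) (nat_lit 253) (nat_lit 5) (nat_lit 257) (nat_lit 5) (nat_lit 258) (nat_lit 5) (nat_lit 464) (nat_lit 441) (nat_lit 115)) (XT.lf (nat_lit 0) (nat_lit 731864645144) (nat_lit 380) (nat_lit 165142047577) (nat_lit 76) (nat_lit 165140307841) (nat_lit 253) (nat_lit 5) (nat_lit 258) (nat_lit 5) (nat_lit 254) (nat_lit 5) (nat_lit 465) (nat_lit 441) (nat_lit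 114))) (XT.nd (nat_lit 78) (nat_lit 380) (nat_lit 0) (XT.lf (nat_lit 0) (nat_lit 476026125323) (nat_lit 228) (nat_lit 476027902290) (nat_lit 304) (nat_lit 141017980054) (nat_lit 250) (nat_lit 5) (nat_lit 253) (nat_lit 5) (nat_lit 254) (nat_lit 5) (nat_lit 466) (nat_lit 441) (nat_lit 113)) (XT.lf (nat_lit 0) (nat_lit 29582602357) (nat_lit 304) (nat_lit 29584414783) (nat_lit 380) (nat_lit 1066165973992) (nat_lit 245) (nat_lit 5) (nat_lit 249) (nat_lit 5) (nat_lit 250) (nat_lit 5) (nat_lit 467) (nat_lit 441) (nat_lit 112)))) (XT.nd (nat_lit 156) (nat_lit 228) (nat_lit 0) (XT.nd (nat_lit 78) (nat_lit 228) (nat_lit 0) (XT.lf (nat_lit 0) (nat_lit 282100261894) (nat_lit 380) (nat_lit 438059512661) (nat_lit 76) (nat_lit 438057754378) (nat_lit 245) (nat_lit 5) (nat_lit 250) (nat_lit 5) (nat_lit 246) (nat_lit 5) (nat_lit 468) (nat_lit 441) (nat_lit 111)) (XT.lf (nat_lit 0) (nat_lit 260364190092) (nat_lit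 228) (nat_lit 260365979005) (nat_lit 304) (nat_lit 671788624518) (nat_lit 242) (nat_lit 5) (nat_lit 245) (nat_lit 5) (nat_lit 246) (nat_lit 5) (nat_lit 469) (nat_lit 441) (nat_lit 110))) (XT.nd (nat_lit 78) (nat_lit 228) (nat_lit 0) (XT.lf (nat_lit 0) (nat_lit 782304496143) (nat_lit 304) (nat_lit 222840855337) (nat_lit 76) (nat_lit 222839123827) (nat_lit 242) (nat_lit 5) (nat_lit 246) (nat_lit 5) (nat_lit 243) (nat_lit 5) (nat_lit 470) (nat_lit 441) (nat_lit 109)) (XT.lf (nat_lit 0) (nat_lit 534786796193) (nat_lit 228) (nat_lit 534788554163) (nat_lit 304) (nat_lit 195017200186) (nat_lit 239) (nat_lit 5) (nat_lit 242) (nat_lit 5) (nat_lit 243) (nat_lit 5) (nat_lit 471) (nat_lit 441) (nat_lit 108))))) (XT.nd (nat_lit 390) (nat_lit 304) (nat_lit 0) (XT.nd (nat_lit 234) (nat_lit 380) (nat_lit 0) (XT.nd (nat_lit 78) (nat_lit 0) (nat_lit 0) (XT.lf (nat_lit 0) (nat_lit 35189992464) (nat_lit 228) (nat_lit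 35191775634) (nat_lit 304) (nat_lit 1232376778642) (nat_lit 235) (nat_lit 5) (nat_lit 238) (nat_lit 5) (nat_lit 239) (nat_lit 5) (nat_lit 472) (nat_lit 441) (nat_lit 107)) (XT.lf (nat_lit 0) (nat_lit 362699722720) (nat_lit 304) (nat_lit 489482423123) (nat_lit 76) (nat_lit 489480702009) (nat_lit 235) (nat_lit 5) (nat_lit 239) (nat_lit 5) (nat_lit 236) (nat_lit 5) (nat_lit 473) (nat_lit 441) (nat_lit 106))) (XT.nd (nat_lit 78) (nat_lit 152) (nat_lit 0) (XT.lf (nat_lit 0) (nat_lit 1015492442125) (nat_lit 304) (nat_lit 204367338700) (nat_lit 76) (nat_lit 204365659067) (nat_lit 232) (nat_lit 5) (nat_lit 236) (nat_lit 5) (nat_lit 233) (nat_lit 5) (nat_lit 475) (nat_lit 441) (nat_lit 104)) (XT.lf (nat_lit 0) (nat_lit 694439484794) (nat_lit 152) (nat_lit 694441183232) (nat_lit 228) (nat_lit 78631680756) (nat_lit 230) (nat_lit 5) (nat_lit 232) (nat_lit 5) (nat_lit 233) (nat_lit 5) (nat_lit 476) (nat_lit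 441) (nat_lit 103)))) (XT.nd (nat_lit 50388) (nat_lit 0) (nat_lit 5016) (XT.nd (nat_lit 78) (nat_lit 0) (nat_lit 0) (XT.lf (nat_lit 0) (nat_lit 132491237909) (nat_lit 228) (nat_lit 132492954256) (nat_lit 304) (nat_lit 1247490901444) (nat_lit 226) (nat_lit 5) (nat_lit 229) (nat_lit 5) (nat_lit 230) (nat_lit 5) (nat_lit 477) (nat_lit 441) (nat_lit 102)) (XT.lf (nat_lit 0) (nat_lit 643588986420) (nat_lit 304) (nat_lit 457505827266) (nat_lit 76) (nat_lit 457504176406) (nat_lit 226) (nat_lit 5) (nat_lit 230) (nat_lit 5) (nat_lit 227) (nat_lit 5) (nat_lit 478) (nat_lit 441) (nat_lit 101))) (XT.nd (nat_lit 78) (nat_lit 0) (nat_lit 0) (XT.lf (nat_lit 0) (nat_lit 138316589346) (nat_lit 836) (nat_lit 77904391166) (nat_lit 836) (nat_lit 77904391166) (nat_lit 292) (nat_lit 3) (nat_lit 303) (nat_lit 3) (nat_lit 303) (nat_lit 5) (nat_lit 442) (nat_lit 442) (nat_lit 136)) (XT.lf (nat_lit 76) (nat_lit 142889960446)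 (nat_lit 0) (nat_lit 142890146724) (nat_lit 836) (nat_lit 317065349821) (nat_lit 293) (nat_lit 5) (nat_lit 292) (nat_lit 3) (nat_lit 303) (nat_lit 5) (nat_lit 443) (nat_lit 442) (nat_lit 135)))))) (XT.nd (nat_lit 624) (nat_lit 2052) (nat_lit 0) (XT.nd (nat_lit 312) (nat_lit 0) (nat_lit 152) (XT.nd (nat_lit 156) (nat_lit 0) (nat_lit 76) (XT.nd (nat_lit 78) (nat_lit 0) (nat_lit 0) (XT.lf (nat_lit 0) (nat_lit 300582159996) (nat_lit 760) (nat_lit 158664101890) (nat_lit 836) (nat_lit 158663755523) (nat_lit 293) (nat_lit 5) (nat_lit 303) (nat_lit 5) (nat_lit 304) (nat_lit 5) (nat_lit 444) (nat_lit 442) (nat_lit 134)) (XT.lf (nat_lit 76) (nat_lit 160485946813) (nat_lit 0) (nat_lit 160486454094) (nat_lit 836) (nat_lit 312513000670) (nat_lit 294) (nat_lit 5) (nat_lit 293) (nat_lit 5) (nat_lit 304) (nat_lit 5) (nat_lit 445) (nat_lit 442) (nat_lit 133))) (XT.nd (nat_lit 78) (nat_lit 0) (nat_lit 0) (XT.lf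 (nat_lit 0) (nat_lit 347505304846) (nat_lit 760) (nat_lit 151039360818) (nat_lit 836) (nat_lit 151038731740) (nat_lit 294) (nat_lit 5) (nat_lit 304) (nat_lit 5) (nat_lit 305) (nat_lit 5) (nat_lit 446) (nat_lit 442) (nat_lit 132)) (XT.lf (nat_lit 76) (nat_lit 190484498944) (nat_lit 0) (nat_lit 190485267025) (nat_lit 836) (nat_lit 285236281454) (nat_lit 295) (nat_lit 5) (nat_lit 294) (nat_lit 5) (nat_lit 305) (nat_lit 5) (nat_lit 447) (nat_lit 442) (nat_lit 131)))) (XT.nd (nat_lit 156) (nat_lit 0) (nat_lit 76) (XT.nd (nat_lit 78) (nat_lit 0) (nat_lit 0) (XT.lf (nat_lit 0) (nat_lit 420783443308) (nat_lit 760) (nat_lit 131321722282) (nat_lit 836) (nat_lit 131320864695) (nat_lit 295) (nat_lit 5) (nat_lit 305) (nat_lit 5) (nat_lit 306) (nat_lit 5) (nat_lit 448) (nat_lit 442) (nat_lit 130)) (XT.lf (nat_lit 76) (nat_lit 234686822858) (nat_lit 0) (nat_lit 234687800521) (nat_lit 836) (nat_lit 231793047968)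 (nat_lit 296) (nat_lit 5) (nat_lit 295) (nat_lit 5) (nat_lit 306) (nat_lit 5) (nat_lit 449) (nat_lit 442) (nat_lit 129))) (XT.nd (nat_lit 78) (nat_lit 0) (nat_lit 0) (XT.lf (nat_lit 0) (nat_lit 524195238345) (nat_lit 760) (nat_lit 97706101171) (nat_lit 836) (nat_lit 97705061150) (nat_lit 296) (nat_lit 5) (nat_lit 306) (nat_lit 5) (nat_lit 307) (nat_lit 5) (nat_lit 450) (nat_lit 442) (nat_lit 128)) (XT.lf (nat_lit 76) (nat_lit 295105246297) (nat_lit 0) (nat_lit 295106390044) (nat_lit 836) (nat_lit 148332692497) (nat_lit 297) (nat_lit 5) (nat_lit 296) (nat_lit 5) (nat_lit 307) (nat_lit 5) (nat_lit 451) (nat_lit 442) (nat_lit 127))))) (XT.nd (nat_lit 312) (nat_lit 1064) (nat_lit 0) (XT.nd (nat_lit 156) (nat_lit 532) (nat_lit 0) (XT.nd (nat_lit 78) (nat_lit 760) (nat_lit 0) (XT.lf (nat_lit 0) (nat_lit 661960528729) (nat_lit 760) (nat_lit 48174112166) (nat_lit 76) (nat_lit 48172928800) (nat_lit 297)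 (nat_lit 5) (nat_lit 307) (nat_lit 5) (nat_lit 298) (nat_lit 5) (nat_lit 452) (nat_lit 442) (nat_lit 126)) (XT.lf (nat_lit 0) (nat_lit 373986183471) (nat_lit 760) (nat_lit 373987456439) (nat_lit 836) (nat_lit 30551493975) (nat_lit 287) (nat_lit 5) (nat_lit 297) (nat_lit 5) (nat_lit 298) (nat_lit 5) (nat_lit 453) (nat_lit 442) (nat_lit 125))) (XT.nd (nat_lit 78) (nat_lit 0) (nat_lit 0) (XT.lf (nat_lit 0) (nat_lit 19214177372) (nat_lit 456) (nat_lit 19215535677) (nat_lit 532) (nat_lit 761237321887) (nat_lit 280) (nat_lit 5) (nat_lit 286) (nat_lit 5) (nat_lit 287) (nat_lit 5) (nat_lit 454) (nat_lit 442) (nat_lit 124)) (XT.lf (nat_lit 0) (nat_lit 122312542524) (nat_lit 532) (nat_lit 349452926350) (nat_lit 76) (nat_lit 349451555324) (nat_lit 280) (nat_lit 5) (nat_lit 287) (nat_lit 5) (nat_lit 281) (nat_lit 5) (nat_lit 455) (nat_lit 442) (nat_lit 123)))) (XT.nd (nat_lit 156) (nat_lit 684) (nat_lit 0)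 (XT.nd (nat_lit 78) (nat_lit 0) (nat_lit 0) (XT.lf (nat_lit 0) (nat_lit 106180422162) (nat_lit 380) (nat_lit 106181866904) (nat_lit 456) (nat_lit 631383585079) (nat_lit 275) (nat_lit 5) (nat_lit 280) (nat_lit 5) (nat_lit 281) (nat_lit 5) (nat_lit 456) (nat_lit 442) (nat_lit 122)) (XT.lf (nat_lit 0) (nat_lit 317265066626) (nat_lit 456) (nat_lit 274810007793) (nat_lit 76) (nat_lit 274808564985) (nat_lit 275) (nat_lit 5) (nat_lit 281) (nat_lit 5) (nat_lit 276) (nat_lit 5) (nat_lit 457) (nat_lit 442) (nat_lit 121))) (XT.nd (nat_lit 78) (nat_lit 304) (nat_lit 0) (XT.lf (nat_lit 0) (nat_lit 216264324255) (nat_lit 380) (nat_lit 216265830743) (nat_lit 456) (nat_lit 458392279332) (nat_lit 270) (nat_lit 5) (nat_lit 275) (nat_lit 5) (nat_lit 276) (nat_lit 5) (nat_lit 458) (nat_lit 442) (nat_lit 120)) (XT.nd (nat_lit 78) (nat_lit 304) (nat_lit 0) (XT.lf (nat_lit 0) (nat_lit 561073119171) (nat_lit 456) (nat_lit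 177357905635) (nat_lit 76) (nat_lit 177356413127) (nat_lit 270) (nat_lit 5) (nat_lit 276) (nat_lit 5) (nat_lit 271) (nat_lit 5) (nat_lit 459) (nat_lit 442) (nat_lit 119)) (XT.lf (nat_lit 0) (nat_lit 352545622304) (nat_lit 304) (nat_lit 352547169821) (nat_lit 380) (nat_lit 236350421562) (nat_lit 266) (nat_lit 5) (nat_lit 270) (nat_lit 5) (nat_lit 271) (nat_lit 5) (nat_lit 460) (nat_lit 442) (nat_lit 118))))))))
noncomputable def xc341 : XT := (XT.nd (nat_lit 52962) (nat_lit 0) (nat_lit 152) (XT.nd (nat_lit 51714) (nat_lit 0) (nat_lit 3420) (XT.nd (nat_lit 624) (nat_lit 1140) (nat_lit 0) (XT.nd (nat_lit 312) (nat_lit 912) (nat_lit 0) (XT.nd (nat_lit 156) (nat_lit 304) (nat_lit 0) (XT.nd (nat_lit 78) (nat_lit 380) (nat_lit 0) (XT.lf (nat_lit 0) (nat_lit 860188040299) (nat_lit 380) (nat_lit 54000766036) (nat_lit 76) (nat_lit 53999242316) (nat_lit 266) (nat_lit 5) (nat_lit 271) (nat_lit 5) (nat_lit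 267) (nat_lit 5) (nat_lit 461) (nat_lit 442) (nat_lit 117)) (XT.lf (nat_lit 0) (nat_lit 40012622675) (nat_lit 380) (nat_lit 477766552956) (nat_lit 76) (nat_lit 477764981717) (nat_lit 261) (nat_lit 5) (nat_lit 266) (nat_lit 5) (nat_lit 262) (nat_lit 5) (nat_lit 462) (nat_lit 442) (nat_lit 116))) (XT.nd (nat_lit 78) (nat_lit 0) (nat_lit 0) (XT.lf (nat_lit 0) (nat_lit 97120298071) (nat_lit 304) (nat_lit 97121914564) (nat_lit 380) (nat_lit 829815042455) (nat_lit 257) (nat_lit 5) (nat_lit 261) (nat_lit 5) (nat_lit 262) (nat_lit 5) (nat_lit 463) (nat_lit 442) (nat_lit 115)) (XT.lf (nat_lit 0) (nat_lit 369786802584) (nat_lit 380) (nat_lit 341765304839) (nat_lit 76) (nat_lit 341763724273) (nat_lit 257) (nat_lit 5) (nat_lit 262) (nat_lit 5) (nat_lit 258) (nat_lit 5) (nat_lit 464) (nat_lit 442) (nat_lit 114)))) (XT.nd (nat_lit 156) (nat_lit 608) (nat_lit 0) (XT.nd (nat_lit 78) (nat_lit 0) (nat_lit 0) (XT.lf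 (nat_lit 0) (nat_lit 280035650526) (nat_lit 304) (nat_lit 280037270185) (nat_lit 380) (nat_lit 523666201487) (nat_lit 253) (nat_lit 5) (nat_lit 257) (nat_lit 5) (nat_lit 258) (nat_lit 5) (nat_lit 465) (nat_lit 442) (nat_lit 113)) (XT.lf (nat_lit 0) (nat_lit 768458032254) (nat_lit 380) (nat_lit 173398944293) (nat_lit 76) (nat_lit 173397366301) (nat_lit 253) (nat_lit 5) (nat_lit 258) (nat_lit 5) (nat_lit 254) (nat_lit 5) (nat_lit 466) (nat_lit 442) (nat_lit 112))) (XT.nd (nat_lit 78) (nat_lit 380) (nat_lit 0) (XT.lf (nat_lit 0) (nat_lit 499827633935) (nat_lit 228) (nat_lit 499829245697) (nat_lit 304) (nat_lit 148068720888) (nat_lit 250) (nat_lit 5) (nat_lit 253) (nat_lit 5) (nat_lit 254) (nat_lit 5) (nat_lit 467) (nat_lit 442) (nat_lit 111)) (XT.lf (nat_lit 0) (nat_lit 31061936537) (nat_lit 304) (nat_lit 31063580461) (nat_lit 380) (nat_lit 1119474116239) (nat_lit 245) (nat_lit 5) (nat_lit 249) (nat_lit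 5) (nat_lit 250) (nat_lit 5) (nat_lit 468) (nat_lit 442) (nat_lit 110))))) (XT.nd (nat_lit 312) (nat_lit 684) (nat_lit 0) (XT.nd (nat_lit 156) (nat_lit 228) (nat_lit 0) (XT.nd (nat_lit 78) (nat_lit 228) (nat_lit 0) (XT.lf (nat_lit 0) (nat_lit 296205417714) (nat_lit 380) (nat_lit 459962287672) (nat_lit 76) (nat_lit 459960692858) (nat_lit 245) (nat_lit 5) (nat_lit 250) (nat_lit 5) (nat_lit 246) (nat_lit 5) (nat_lit 469) (nat_lit 442) (nat_lit 109)) (XT.lf (nat_lit 0) (nat_lit 273382596983) (nat_lit 228) (nat_lit 273384219580) (nat_lit 304) (nat_lit 705377909782) (nat_lit 242) (nat_lit 5) (nat_lit 245) (nat_lit 5) (nat_lit 246) (nat_lit 5) (nat_lit 470) (nat_lit 442) (nat_lit 108))) (XT.nd (nat_lit 78) (nat_lit 228) (nat_lit 0) (XT.lf (nat_lit 0) (nat_lit 821419854209) (nat_lit 304) (nat_lit 233982704365) (nat_lit 76) (nat_lit 233981133834) (nat_lit 242) (nat_lit 5) (nat_lit 246) (nat_lit 5) (nat_lit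 243) (nat_lit 5) (nat_lit 471) (nat_lit 442) (nat_lit 107)) (XT.lf (nat_lit 0) (nat_lit 561526326616) (nat_lit 228) (nat_lit 561527921147) (nat_lit 304) (nat_lit 204767923811) (nat_lit 239) (nat_lit 5) (nat_lit 242) (nat_lit 5) (nat_lit 243) (nat_lit 5) (nat_lit 472) (nat_lit 442) (nat_lit 106)))) (XT.nd (nat_lit 234) (nat_lit 152) (nat_lit 0) (XT.nd (nat_lit 156) (nat_lit 228) (nat_lit 0) (XT.lf (nat_lit 0) (nat_lit 36949683921) (nat_lit 228) (nat_lit 36951301309) (nat_lit 304) (nat_lit 1293995482411) (nat_lit 235) (nat_lit 5) (nat_lit 238) (nat_lit 5) (nat_lit 239) (nat_lit 5) (nat_lit 473) (nat_lit 442) (nat_lit 105)) (XT.lf (nat_lit 0) (nat_lit 354628142715) (nat_lit 228) (nat_lit 354629723561) (nat_lit 304) (nat_lit 742072985322) (nat_lit 232) (nat_lit 5) (nat_lit 235) (nat_lit 5) (nat_lit 236) (nat_lit 5) (nat_lit 475) (nat_lit 442) (nat_lit 103))) (XT.nd (nat_lit 78) (nat_lit 152) (nat_lit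 0) (XT.lf (nat_lit 0) (nat_lit 1066267179987) (nat_lit 304) (nat_lit 214585524794) (nat_lit 76) (nat_lit 214584001317) (nat_lit 232) (nat_lit 5) (nat_lit 236) (nat_lit 5) (nat_lit 233) (nat_lit 5) (nat_lit 476) (nat_lit 442) (nat_lit 102)) (XT.lf (nat_lit 0) (nat_lit 729161636958) (nat_lit 152) (nat_lit 729163177491) (nat_lit 228) (nat_lit 82563146121) (nat_lit 230) (nat_lit 5) (nat_lit 232) (nat_lit 5) (nat_lit 233) (nat_lit 5) (nat_lit 477) (nat_lit 442) (nat_lit 101)))))) (XT.nd (nat_lit 624) (nat_lit 1292) (nat_lit 0) (XT.nd (nat_lit 312) (nat_lit 0) (nat_lit 152) (XT.nd (nat_lit 156) (nat_lit 0) (nat_lit 76) (XT.nd (nat_lit 78) (nat_lit 0) (nat_lit 0) (XT.lf (nat_lit 0) (nat_lit 145232602183) (nat_lit 836) (nat_lit 81799514455) (nat_lit 836) (nat_lit 81799514455) (nat_lit 292) (nat_lit 3) (nat_lit 303) (nat_lit 3) (nat_lit 303) (nat_lit 5) (nat_lit 443) (nat_lit 443) (nat_lit 134)) (XT.lf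 (nat_lit 76) (nat_lit 150034647901) (nat_lit 0) (nat_lit 150034816860) (nat_lit 836) (nat_lit 332918247468) (nat_lit 293) (nat_lit 5) (nat_lit 292) (nat_lit 3) (nat_lit 303) (nat_lit 5) (nat_lit 444) (nat_lit 443) (nat_lit 133))) (XT.nd (nat_lit 78) (nat_lit 0) (nat_lit 0) (XT.lf (nat_lit 0) (nat_lit 315611601036) (nat_lit 760) (nat_lit 166597107379) (nat_lit 836) (nat_lit 166596793214) (nat_lit 293) (nat_lit 5) (nat_lit 303) (nat_lit 5) (nat_lit 304) (nat_lit 5) (nat_lit 445) (nat_lit 443) (nat_lit 132)) (XT.lf (nat_lit 76) (nat_lit 168510440540) (nat_lit 0) (nat_lit 168510900659) (nat_lit 836) (nat_lit 328138314445) (nat_lit 294) (nat_lit 5) (nat_lit 293) (nat_lit 5) (nat_lit 304) (nat_lit 5) (nat_lit 446) (nat_lit 443) (nat_lit 131)))) (XT.nd (nat_lit 156) (nat_lit 0) (nat_lit 76) (XT.nd (nat_lit 78) (nat_lit 0) (nat_lit 0) (XT.lf (nat_lit 0) (nat_lit 364880873243) (nat_lit 760) (nat_lit 158591124733)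 (nat_lit 836) (nat_lit 158590554140) (nat_lit 294) (nat_lit 5) (nat_lit 304) (nat_lit 5) (nat_lit 305) (nat_lit 5) (nat_lit 447) (nat_lit 443) (nat_lit 130)) (XT.lf (nat_lit 76) (nat_lit 200008924725) (nat_lit 0) (nat_lit 200009621397) (nat_lit 836) (nat_lit 299497789079) (nat_lit 295) (nat_lit 5) (nat_lit 294) (nat_lit 5) (nat_lit 305) (nat_lit 5) (nat_lit 448) (nat_lit 443) (nat_lit 129))) (XT.nd (nat_lit 78) (nat_lit 0) (nat_lit 0) (XT.lf (nat_lit 0) (nat_lit 441822892076) (nat_lit 760) (nat_lit 137887601874) (nat_lit 836) (nat_lit 137886824018) (nat_lit 295) (nat_lit 5) (nat_lit 305) (nat_lit 5) (nat_lit 306) (nat_lit 5) (nat_lit 449) (nat_lit 443) (nat_lit 128)) (XT.lf (nat_lit 76) (nat_lit 246421367191) (nat_lit 0) (nat_lit 246422253960) (nat_lit 836) (nat_lit 243382420432) (nat_lit 296) (nat_lit 5) (nat_lit 295) (nat_lit 5) (nat_lit 306) (nat_lit 5) (nat_lit 450) (nat_lit 443) (nat_lit 127)))))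 (XT.nd (nat_lit 312) (nat_lit 912) (nat_lit 0) (XT.nd (nat_lit 156) (nat_lit 684) (nat_lit 0) (XT.nd (nat_lit 78) (nat_lit 0) (nat_lit 0) (XT.lf (nat_lit 0) (nat_lit 550405253228) (nat_lit 760) (nat_lit 102591199076) (nat_lit 836) (nat_lit 102590255747) (nat_lit 296) (nat_lit 5) (nat_lit 306) (nat_lit 5) (nat_lit 307) (nat_lit 5) (nat_lit 451) (nat_lit 443) (nat_lit 126)) (XT.lf (nat_lit 76) (nat_lit 309860712424) (nat_lit 0) (nat_lit 309861749836) (nat_lit 836) (nat_lit 155749070815) (nat_lit 297) (nat_lit 5) (nat_lit 296) (nat_lit 5) (nat_lit 307) (nat_lit 5) (nat_lit 452) (nat_lit 443) (nat_lit 125))) (XT.nd (nat_lit 78) (nat_lit 760) (nat_lit 0) (XT.lf (nat_lit 0) (nat_lit 695058787044) (nat_lit 760) (nat_lit 50582611445) (nat_lit 76) (nat_lit 50581538097) (nat_lit 297) (nat_lit 5) (nat_lit 307) (nat_lit 5) (nat_lit 298) (nat_lit 5) (nat_lit 453) (nat_lit 443) (nat_lit 124)) (XT.lf (nat_lit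 0) (nat_lit 392685695646) (nat_lit 760) (nat_lit 392686850266) (nat_lit 836) (nat_lit 32078833467) (nat_lit 287) (nat_lit 5) (nat_lit 297) (nat_lit 5) (nat_lit 298) (nat_lit 5) (nat_lit 454) (nat_lit 443) (nat_lit 123)))) (XT.nd (nat_lit 156) (nat_lit 380) (nat_lit 0) (XT.nd (nat_lit 78) (nat_lit 0) (nat_lit 0) (XT.lf (nat_lit 0) (nat_lit 20175093375) (nat_lit 456) (nat_lit 20176325397) (nat_lit 532) (nat_lit 799298956907) (nat_lit 280) (nat_lit 5) (nat_lit 286) (nat_lit 5) (nat_lit 287) (nat_lit 5) (nat_lit 455) (nat_lit 443) (nat_lit 122)) (XT.lf (nat_lit 0) (nat_lit 128428379049) (nat_lit 532) (nat_lit 366925364725) (nat_lit 76) (nat_lit 366924121164) (nat_lit 280) (nat_lit 5) (nat_lit 287) (nat_lit 5) (nat_lit 281) (nat_lit 5) (nat_lit 456) (nat_lit 443) (nat_lit 121))) (XT.nd (nat_lit 78) (nat_lit 0) (nat_lit 0) (XT.lf (nat_lit 0) (nat_lit 111489647859) (nat_lit 380) (nat_lit 111490958282)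 (nat_lit 456) (nat_lit 662952551580) (nat_lit 275) (nat_lit 5) (nat_lit 280) (nat_lit 5) (nat_lit 281) (nat_lit 5) (nat_lit 457) (nat_lit 443) (nat_lit 120)) (XT.lf (nat_lit 0) (nat_lit 333128512959) (nat_lit 456) (nat_lit 288550303717) (nat_lit 76) (nat_lit 288548995048) (nat_lit 275) (nat_lit 5) (nat_lit 281) (nat_lit 5) (nat_lit 276) (nat_lit 5) (nat_lit 458) (nat_lit 443) (nat_lit 119))))))) (XT.nd (nat_lit 1326) (nat_lit 228) (nat_lit 0) (XT.nd (nat_lit 624) (nat_lit 1368) (nat_lit 0) (XT.nd (nat_lit 312) (nat_lit 988) (nat_lit 0) (XT.nd (nat_lit 156) (nat_lit 304) (nat_lit 0) (XT.nd (nat_lit 78) (nat_lit 0) (nat_lit 0) (XT.lf (nat_lit 0) (nat_lit 227077741636) (nat_lit 380) (nat_lit 227079108064) (nat_lit 456) (nat_lit 481311696999) (nat_lit 270) (nat_lit 5) (nat_lit 275) (nat_lit 5) (nat_lit 276) (nat_lit 5) (nat_lit 459) (nat_lit 443) (nat_lit 118)) (XT.lf (nat_lit 0) (nat_lit 589126953390)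 (nat_lit 456) (nat_lit 186225600638) (nat_lit 76) (nat_lit 186224246888) (nat_lit 270) (nat_lit 5) (nat_lit 276) (nat_lit 5) (nat_lit 271) (nat_lit 5) (nat_lit 460) (nat_lit 443) (nat_lit 117))) (XT.nd (nat_lit 78) (nat_lit 0) (nat_lit 0) (XT.lf (nat_lit 0) (nat_lit 370173100469) (nat_lit 304) (nat_lit 370174504112) (nat_lit 380) (nat_lit 248167761148) (nat_lit 266) (nat_lit 5) (nat_lit 270) (nat_lit 5) (nat_lit 271) (nat_lit 5) (nat_lit 461) (nat_lit 443) (nat_lit 116)) (XT.lf (nat_lit 0) (nat_lit 903197607292) (nat_lit 380) (nat_lit 56700608800) (nat_lit 76) (nat_lit 56699226742) (nat_lit 266) (nat_lit 5) (nat_lit 271) (nat_lit 5) (nat_lit 267) (nat_lit 5) (nat_lit 462) (nat_lit 443) (nat_lit 115)))) (XT.nd (nat_lit 156) (nat_lit 304) (nat_lit 0) (XT.nd (nat_lit 78) (nat_lit 304) (nat_lit 0) (XT.lf (nat_lit 0) (nat_lit 42013416559) (nat_lit 380) (nat_lit 501654682839) (nat_lit 76) (nat_lit 501653257680)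 (nat_lit 261) (nat_lit 5) (nat_lit 266) (nat_lit 5) (nat_lit 262) (nat_lit 5) (nat_lit 463) (nat_lit 443) (nat_lit 114)) (XT.lf (nat_lit 0) (nat_lit 101976507549) (nat_lit 304) (nat_lit 101977973756) (nat_lit 380) (nat_lit 871305628638) (nat_lit 257) (nat_lit 5) (nat_lit 261) (nat_lit 5) (nat_lit 262) (nat_lit 5) (nat_lit 464) (nat_lit 443) (nat_lit 113))) (XT.nd (nat_lit 78) (nat_lit 304) (nat_lit 0) (XT.lf (nat_lit 0) (nat_lit 388276293769) (nat_lit 380) (nat_lit 358853377789) (nat_lit 76) (nat_lit 358851944169) (nat_lit 257) (nat_lit 5) (nat_lit 262) (nat_lit 5) (nat_lit 258) (nat_lit 5) (nat_lit 465) (nat_lit 443) (nat_lit 112)) (XT.lf (nat_lit 0) (nat_lit 294037622242) (nat_lit 304) (nat_lit 294039091321) (nat_lit 380) (nat_lit 549849357404) (nat_lit 253) (nat_lit 5) (nat_lit 257) (nat_lit 5) (nat_lit 258) (nat_lit 5) (nat_lit 466) (nat_lit 443) (nat_lit 111))))) (XT.nd (nat_lit 312) (nat_lit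 760) (nat_lit 0) (XT.nd (nat_lit 156) (nat_lit 380) (nat_lit 0) (XT.nd (nat_lit 78) (nat_lit 228) (nat_lit 0) (XT.lf (nat_lit 0) (nat_lit 806881074322) (nat_lit 380) (nat_lit 182068704965) (nat_lit 76) (nat_lit 182067273681) (nat_lit 253) (nat_lit 5) (nat_lit 258) (nat_lit 5) (nat_lit 254) (nat_lit 5) (nat_lit 467) (nat_lit 443) (nat_lit 110)) (XT.lf (nat_lit 0) (nat_lit 524819199165) (nat_lit 228) (nat_lit 524820661081) (nat_lit 304) (nat_lit 155472013468) (nat_lit 250) (nat_lit 5) (nat_lit 253) (nat_lit 5) (nat_lit 254) (nat_lit 5) (nat_lit 468) (nat_lit 443) (nat_lit 109))) (XT.nd (nat_lit 78) (nat_lit 0) (nat_lit 0) (XT.lf (nat_lit 0) (nat_lit 32615218455) (nat_lit 304) (nat_lit 32616709543) (nat_lit 380) (nat_lit 1175447680144) (nat_lit 245) (nat_lit 5) (nat_lit 249) (nat_lit 5) (nat_lit 250) (nat_lit 5) (nat_lit 469) (nat_lit 443) (nat_lit 108)) (XT.lf (nat_lit 0) (nat_lit 311015818056) (nat_lit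 380) (nat_lit 482960220085) (nat_lit 76) (nat_lit 482958773542) (nat_lit 245) (nat_lit 5) (nat_lit 250) (nat_lit 5) (nat_lit 246) (nat_lit 5) (nat_lit 470) (nat_lit 443) (nat_lit 107)))) (XT.nd (nat_lit 156) (nat_lit 532) (nat_lit 0) (XT.nd (nat_lit 78) (nat_lit 0) (nat_lit 0) (XT.lf (nat_lit 0) (nat_lit 287051905867) (nat_lit 228) (nat_lit 287053377610) (nat_lit 304) (nat_lit 740646672880) (nat_lit 242) (nat_lit 5) (nat_lit 245) (nat_lit 5) (nat_lit 246) (nat_lit 5) (nat_lit 471) (nat_lit 443) (nat_lit 106)) (XT.lf (nat_lit 0) (nat_lit 862490967789) (nat_lit 304) (nat_lit 245681663857) (nat_lit 76) (nat_lit 245680239339) (nat_lit 242) (nat_lit 5) (nat_lit 246) (nat_lit 5) (nat_lit 243) (nat_lit 5) (nat_lit 472) (nat_lit 443) (nat_lit 105))) (XT.nd (nat_lit 156) (nat_lit 304) (nat_lit 0) (XT.lf (nat_lit 0) (nat_lit 589602815839) (nat_lit 228) (nat_lit 589604262125) (nat_lit 304) (nat_lit 215006196297)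 (nat_lit 239) (nat_lit 5) (nat_lit 242) (nat_lit 5) (nat_lit 243) (nat_lit 5) (nat_lit 473) (nat_lit 443) (nat_lit 104)) (XT.lf (nat_lit 0) (nat_lit 399876686063) (nat_lit 304) (nat_lit 539654003786) (nat_lit 76) (nat_lit 539652587821) (nat_lit 235) (nat_lit 5) (nat_lit 239) (nat_lit 5) (nat_lit 236) (nat_lit 5) (nat_lit 475) (nat_lit 443) (nat_lit 102)))))) (XT.nd (nat_lit 51090) (nat_lit 0) (nat_lit 3648) (XT.nd (nat_lit 50778) (nat_lit 0) (nat_lit 4636) (XT.nd (nat_lit 50622) (nat_lit 0) (nat_lit 4560) (XT.nd (nat_lit 78) (nat_lit 0) (nat_lit 0) (XT.lf (nat_lit 0) (nat_lit 372359717525) (nat_lit 228) (nat_lit 372361151399) (nat_lit 304) (nat_lit 779176519788) (nat_lit 232) (nat_lit 5) (nat_lit 235) (nat_lit 5) (nat_lit 236) (nat_lit 5) (nat_lit 476) (nat_lit 443) (nat_lit 101)) (XT.lf (nat_lit 0) (nat_lit 1119580643980) (nat_lit 304) (nat_lit 225314637006) (nat_lit 76) (nat_lit 225313255168)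 (nat_lit 232) (nat_lit 5) (nat_lit 236) (nat_lit 5) (nat_lit 233) (nat_lit 5) (nat_lit 477) (nat_lit 443) (nat_lit 100))) (XT.nd (nat_lit 78) (nat_lit 0) (nat_lit 0) (XT.lf (nat_lit 0) (nat_lit 152494398614) (nat_lit 836) (nat_lit 85889402859) (nat_lit 836) (nat_lit 85889402859) (nat_lit 292) (nat_lit 3) (nat_lit 303) (nat_lit 3) (nat_lit 303) (nat_lit 5) (nat_lit 444) (nat_lit 444) (nat_lit 132)) (XT.lf (nat_lit 76) (nat_lit 157536552117) (nat_lit 0) (nat_lit 157536705368) (nat_lit 836) (nat_lit 349563824381) (nat_lit 293) (nat_lit 5) (nat_lit 292) (nat_lit 3) (nat_lit 303) (nat_lit 5) (nat_lit 445) (nat_lit 444) (nat_lit 131)))) (XT.nd (nat_lit 156) (nat_lit 0) (nat_lit 76) (XT.nd (nat_lit 78) (nat_lit 0) (nat_lit 0) (XT.lf (nat_lit 0) (nat_lit 331392483164) (nat_lit 760) (nat_lit 174926781699) (nat_lit 836) (nat_lit 174926496742) (nat_lit 293) (nat_lit 5) (nat_lit 303) (nat_lit 5) (nat_lit 304)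 (nat_lit 5) (nat_lit 446) (nat_lit 444) (nat_lit 130)) (XT.lf (nat_lit 76) (nat_lit 176936140695) (nat_lit 0) (nat_lit 176936558036) (nat_lit 836) (nat_lit 344544925171) (nat_lit 294) (nat_lit 5) (nat_lit 293) (nat_lit 5) (nat_lit 304) (nat_lit 5) (nat_lit 447) (nat_lit 444) (nat_lit 129))) (XT.nd (nat_lit 78) (nat_lit 0) (nat_lit 0) (XT.lf (nat_lit 0) (nat_lit 383125191876) (nat_lit 760) (nat_lit 166520495821) (nat_lit 836) (nat_lit 166519978277) (nat_lit 294) (nat_lit 5) (nat_lit 304) (nat_lit 5) (nat_lit 305) (nat_lit 5) (nat_lit 448) (nat_lit 444) (nat_lit 128)) (XT.lf (nat_lit 76) (nat_lit 210009553123) (nat_lit 0) (nat_lit 210010185026) (nat_lit 836) (nat_lit 314472400576) (nat_lit 295) (nat_lit 5) (nat_lit 294) (nat_lit 5) (nat_lit 305) (nat_lit 5) (nat_lit 449) (nat_lit 444) (nat_lit 127))))) (XT.nd (nat_lit 312) (nat_lit 1140) (nat_lit 0) (XT.nd (nat_lit 156) (nat_lit 0) (nat_lit 76) (XT.nd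 (nat_lit 78) (nat_lit 0) (nat_lit 0) (XT.lf (nat_lit 0) (nat_lit 463914287567) (nat_lit 760) (nat_lit 144781794647) (nat_lit 836) (nat_lit 144781089108) (nat_lit 295) (nat_lit 5) (nat_lit 305) (nat_lit 5) (nat_lit 306) (nat_lit 5) (nat_lit 450) (nat_lit 444) (nat_lit 126)) (XT.lf (nat_lit 76) (nat_lit 258742619851) (nat_lit 0) (nat_lit 258743424176) (nat_lit 836) (nat_lit 255551287545) (nat_lit 296) (nat_lit 5) (nat_lit 295) (nat_lit 5) (nat_lit 306) (nat_lit 5) (nat_lit 451) (nat_lit 444) (nat_lit 125))) (XT.nd (nat_lit 78) (nat_lit 0) (nat_lit 0) (XT.lf (nat_lit 0) (nat_lit 577925745337) (nat_lit 760) (nat_lit 107720571136) (nat_lit 836) (nat_lit 107719715509) (nat_lit 296) (nat_lit 5) (nat_lit 306) (nat_lit 5) (nat_lit 307) (nat_lit 5) (nat_lit 452) (nat_lit 444) (nat_lit 124)) (XT.lf (nat_lit 76) (nat_lit 325353932909) (nat_lit 0) (nat_lit 325354873872) (nat_lit 836) (nat_lit 163536291878)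 (nat_lit 297) (nat_lit 5) (nat_lit 296) (nat_lit 5) (nat_lit 307) (nat_lit 5) (nat_lit 453) (nat_lit 444) (nat_lit 123)))) (XT.nd (nat_lit 156) (nat_lit 532) (nat_lit 0) (XT.nd (nat_lit 78) (nat_lit 760) (nat_lit 0) (XT.lf (nat_lit 0) (nat_lit 729811936717) (nat_lit 760) (nat_lit 53111554870) (nat_lit 76) (nat_lit 53110581312) (nat_lit 297) (nat_lit 5) (nat_lit 307) (nat_lit 5) (nat_lit 298) (nat_lit 5) (nat_lit 454) (nat_lit 444) (nat_lit 122)) (XT.lf (nat_lit 0) (nat_lit 412320164557) (nat_lit 760) (nat_lit 412321211831) (nat_lit 836) (nat_lit 33682561802) (nat_lit 287) (nat_lit 5) (nat_lit 297) (nat_lit 5) (nat_lit 298) (nat_lit 5) (nat_lit 455) (nat_lit 444) (nat_lit 121))) (XT.nd (nat_lit 78) (nat_lit 0) (nat_lit 0) (XT.lf (nat_lit 0) (nat_lit 21184035920) (nat_lit 456) (nat_lit 21185153401) (nat_lit 532) (nat_lit 839263695161) (nat_lit 280) (nat_lit 5) (nat_lit 286) (nat_lit 5) (nat_lit 287)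 (nat_lit 5) (nat_lit 456) (nat_lit 444) (nat_lit 120)) (XT.lf (nat_lit 0) (nat_lit 134849987933) (nat_lit 532) (nat_lit 385271444351) (nat_lit 76) (nat_lit 385270316405) (nat_lit 280) (nat_lit 5) (nat_lit 287) (nat_lit 5) (nat_lit 281) (nat_lit 5) (nat_lit 457) (nat_lit 444) (nat_lit 119))))))))
noncomputable def xc342 : XT := (XT.nd (nat_lit 53118) (nat_lit 0) (nat_lit 228) (XT.nd (nat_lit 1326) (nat_lit 532) (nat_lit 0) (XT.nd (nat_lit 624) (nat_lit 1368) (nat_lit 0) (XT.nd (nat_lit 312) (nat_lit 988) (nat_lit 0) (XT.nd (nat_lit 156) (nat_lit 380) (nat_lit 0) (XT.nd (nat_lit 78) (nat_lit 0) (nat_lit 0) (XT.lf (nat_lit 0) (nat_lit 117064315819) (nat_lit 380) (nat_lit 117065504412) (nat_lit 456) (nat_lit 696099986186) (nat_lit 275) (nat_lit 5) (nat_lit 280) (nat_lit 5) (nat_lit 281) (nat_lit 5) (nat_lit 458) (nat_lit 444) (nat_lit 118)) (XT.lf (nat_lit 0) (nat_lit 349785113666) (nat_lit 456) (nat_lit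 302977633447) (nat_lit 76) (nat_lit 302976446445) (nat_lit 275) (nat_lit 5) (nat_lit 281) (nat_lit 5) (nat_lit 276) (nat_lit 5) (nat_lit 459) (nat_lit 444) (nat_lit 117))) (XT.nd (nat_lit 78) (nat_lit 0) (nat_lit 0) (XT.lf (nat_lit 0) (nat_lit 238431811183) (nat_lit 380) (nat_lit 238433050574) (nat_lit 456) (nat_lit 505377103799) (nat_lit 270) (nat_lit 5) (nat_lit 275) (nat_lit 5) (nat_lit 276) (nat_lit 5) (nat_lit 460) (nat_lit 444) (nat_lit 116)) (XT.lf (nat_lit 0) (nat_lit 618583462748) (nat_lit 456) (nat_lit 195536699010) (nat_lit 76) (nat_lit 195535471120) (nat_lit 270) (nat_lit 5) (nat_lit 276) (nat_lit 5) (nat_lit 271) (nat_lit 5) (nat_lit 461) (nat_lit 444) (nat_lit 115)))) (XT.nd (nat_lit 156) (nat_lit 684) (nat_lit 0) (XT.nd (nat_lit 78) (nat_lit 0) (nat_lit 0) (XT.lf (nat_lit 0) (nat_lit 388681934221) (nat_lit 304) (nat_lit 388683207367) (nat_lit 380) (nat_lit 260575984588) (nat_lit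 266) (nat_lit 5) (nat_lit 270) (nat_lit 5) (nat_lit 271) (nat_lit 5) (nat_lit 462) (nat_lit 444) (nat_lit 114)) (XT.lf (nat_lit 0) (nat_lit 948357637297) (nat_lit 380) (nat_lit 59535461883) (nat_lit 76) (nat_lit 59534208315) (nat_lit 266) (nat_lit 5) (nat_lit 271) (nat_lit 5) (nat_lit 267) (nat_lit 5) (nat_lit 463) (nat_lit 444) (nat_lit 113))) (XT.nd (nat_lit 78) (nat_lit 304) (nat_lit 0) (XT.lf (nat_lit 0) (nat_lit 44114235007) (nat_lit 380) (nat_lit 526737237603) (nat_lit 76) (nat_lit 526735944941) (nat_lit 261) (nat_lit 5) (nat_lit 266) (nat_lit 5) (nat_lit 262) (nat_lit 5) (nat_lit 464) (nat_lit 444) (nat_lit 112)) (XT.lf (nat_lit 0) (nat_lit 107075509411) (nat_lit 304) (nat_lit 107076839305) (nat_lit 380) (nat_lit 914870759557) (nat_lit 257) (nat_lit 5) (nat_lit 261) (nat_lit 5) (nat_lit 262) (nat_lit 5) (nat_lit 465) (nat_lit 444) (nat_lit 111))))) (XT.nd (nat_lit 312) (nat_lit 836) (nat_lit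 0) (XT.nd (nat_lit 156) (nat_lit 228) (nat_lit 0) (XT.nd (nat_lit 78) (nat_lit 304) (nat_lit 0) (XT.lf (nat_lit 0) (nat_lit 407690245470) (nat_lit 380) (nat_lit 376795872265) (nat_lit 76) (nat_lit 376794571929) (nat_lit 257) (nat_lit 5) (nat_lit 262) (nat_lit 5) (nat_lit 258) (nat_lit 5) (nat_lit 466) (nat_lit 444) (nat_lit 110)) (XT.lf (nat_lit 0) (nat_lit 308739674955) (nat_lit 304) (nat_lit 308741007453) (nat_lit 380) (nat_lit 577341685449) (nat_lit 253) (nat_lit 5) (nat_lit 257) (nat_lit 5) (nat_lit 258) (nat_lit 5) (nat_lit 467) (nat_lit 444) (nat_lit 109))) (XT.nd (nat_lit 78) (nat_lit 228) (nat_lit 0) (XT.lf (nat_lit 0) (nat_lit 847225255436) (nat_lit 380) (nat_lit 191171971014) (nat_lit 76) (nat_lit 191170672797) (nat_lit 253) (nat_lit 5) (nat_lit 258) (nat_lit 5) (nat_lit 254) (nat_lit 5) (nat_lit 468) (nat_lit 444) (nat_lit 108)) (XT.lf (nat_lit 0) (nat_lit 551060325594) (nat_lit 228)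 (nat_lit 551061651594) (nat_lit 304) (nat_lit 163245484015) (nat_lit 250) (nat_lit 5) (nat_lit 253) (nat_lit 5) (nat_lit 254) (nat_lit 5) (nat_lit 469) (nat_lit 444) (nat_lit 107)))) (XT.nd (nat_lit 156) (nat_lit 456) (nat_lit 0) (XT.nd (nat_lit 78) (nat_lit 0) (nat_lit 0) (XT.lf (nat_lit 0) (nat_lit 34246147261) (nat_lit 304) (nat_lit 34247499721) (nat_lit 380) (nat_lit 1234219935438) (nat_lit 245) (nat_lit 5) (nat_lit 249) (nat_lit 5) (nat_lit 250) (nat_lit 5) (nat_lit 470) (nat_lit 444) (nat_lit 106)) (XT.lf (nat_lit 0) (nat_lit 326566726380) (nat_lit 380) (nat_lit 507108066037) (nat_lit 76) (nat_lit 507106753979) (nat_lit 245) (nat_lit 5) (nat_lit 250) (nat_lit 5) (nat_lit 246) (nat_lit 5) (nat_lit 471) (nat_lit 444) (nat_lit 105))) (XT.nd (nat_lit 156) (nat_lit 228) (nat_lit 0) (XT.lf (nat_lit 0) (nat_lit 301404663551) (nat_lit 228) (nat_lit 301405998465) (nat_lit 304) (nat_lit 777678886442)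 (nat_lit 242) (nat_lit 5) (nat_lit 245) (nat_lit 5) (nat_lit 246) (nat_lit 5) (nat_lit 472) (nat_lit 444) (nat_lit 104)) (XT.lf (nat_lit 0) (nat_lit 619083113450) (nat_lit 228) (nat_lit 619084425274) (nat_lit 304) (nat_lit 225756393909) (nat_lit 239) (nat_lit 5) (nat_lit 242) (nat_lit 5) (nat_lit 243) (nat_lit 5) (nat_lit 474) (nat_lit 444) (nat_lit 102)))))) (XT.nd (nat_lit 51168) (nat_lit 0) (nat_lit 3648) (XT.nd (nat_lit 50856) (nat_lit 0) (nat_lit 4560) (XT.nd (nat_lit 156) (nat_lit 228) (nat_lit 0) (XT.nd (nat_lit 78) (nat_lit 0) (nat_lit 0) (XT.lf (nat_lit 0) (nat_lit 40737367045) (nat_lit 228) (nat_lit 40738697673) (nat_lit 304) (nat_lit 1426629779431) (nat_lit 235) (nat_lit 5) (nat_lit 238) (nat_lit 5) (nat_lit 239) (nat_lit 5) (nat_lit 475) (nat_lit 444) (nat_lit 101)) (XT.lf (nat_lit 0) (nat_lit 419870621999) (nat_lit 304) (nat_lit 566636549397) (nat_lit 76) (nat_lit 566635265075) (nat_lit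 235) (nat_lit 5) (nat_lit 239) (nat_lit 5) (nat_lit 236) (nat_lit 5) (nat_lit 476) (nat_lit 444) (nat_lit 100))) (XT.nd (nat_lit 50622) (nat_lit 0) (nat_lit 4560) (XT.lf (nat_lit 0) (nat_lit 390977855486) (nat_lit 228) (nat_lit 390979156052) (nat_lit 304) (nat_lit 818135241651) (nat_lit 232) (nat_lit 5) (nat_lit 235) (nat_lit 5) (nat_lit 236) (nat_lit 5) (nat_lit 477) (nat_lit 444) (nat_lit 99)) (XT.lf (nat_lit 0) (nat_lit 160119269403) (nat_lit 836) (nat_lit 90183793801) (nat_lit 836) (nat_lit 90183793801) (nat_lit 292) (nat_lit 3) (nat_lit 303) (nat_lit 3) (nat_lit 303) (nat_lit 5) (nat_lit 445) (nat_lit 445) (nat_lit 130)))) (XT.nd (nat_lit 156) (nat_lit 0) (nat_lit 76) (XT.nd (nat_lit 78) (nat_lit 0) (nat_lit 76) (XT.lf (nat_lit 76) (nat_lit 165413535569) (nat_lit 0) (nat_lit 165413674573) (nat_lit 836) (nat_lit 367041711328) (nat_lit 293) (nat_lit 5) (nat_lit 292) (nat_lit 3) (nat_lit 303)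 (nat_lit 5) (nat_lit 446) (nat_lit 445) (nat_lit 129)) (XT.lf (nat_lit 0) (nat_lit 347962381314) (nat_lit 760) (nat_lit 183672956568) (nat_lit 836) (nat_lit 183672698104) (nat_lit 293) (nat_lit 5) (nat_lit 303) (nat_lit 5) (nat_lit 304) (nat_lit 5) (nat_lit 447) (nat_lit 445) (nat_lit 128))) (XT.nd (nat_lit 78) (nat_lit 0) (nat_lit 76) (XT.lf (nat_lit 76) (nat_lit 185783109297) (nat_lit 0) (nat_lit 185783487838) (nat_lit 836) (nat_lit 361771894788) (nat_lit 294) (nat_lit 5) (nat_lit 293) (nat_lit 5) (nat_lit 304) (nat_lit 5) (nat_lit 448) (nat_lit 445) (nat_lit 127)) (XT.lf (nat_lit 0) (nat_lit 402281700876) (nat_lit 760) (nat_lit 174846352677) (nat_lit 836) (nat_lit 174845883249) (nat_lit 294) (nat_lit 5) (nat_lit 304) (nat_lit 5) (nat_lit 305) (nat_lit 5) (nat_lit 449) (nat_lit 445) (nat_lit 126))))) (XT.nd (nat_lit 312) (nat_lit 1064) (nat_lit 0) (XT.nd (nat_lit 156) (nat_lit 0) (nat_lit 76)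 (XT.nd (nat_lit 78) (nat_lit 0) (nat_lit 76) (XT.lf (nat_lit 76) (nat_lit 220510196006) (nat_lit 0) (nat_lit 220510769160) (nat_lit 836) (nat_lit 330195768490) (nat_lit 295) (nat_lit 5) (nat_lit 294) (nat_lit 5) (nat_lit 305) (nat_lit 5) (nat_lit 450) (nat_lit 445) (nat_lit 125)) (XT.lf (nat_lit 0) (nat_lit 487110229508) (nat_lit 760) (nat_lit 152020714474) (nat_lit 836) (nat_lit 152020074529) (nat_lit 295) (nat_lit 5) (nat_lit 305) (nat_lit 5) (nat_lit 306) (nat_lit 5) (nat_lit 451) (nat_lit 445) (nat_lit 124))) (XT.nd (nat_lit 78) (nat_lit 0) (nat_lit 76) (XT.lf (nat_lit 76) (nat_lit 271679918009) (nat_lit 0) (nat_lit 271680647556) (nat_lit 836) (nat_lit 268328621620) (nat_lit 296) (nat_lit 5) (nat_lit 295) (nat_lit 5) (nat_lit 306) (nat_lit 5) (nat_lit 452) (nat_lit 445) (nat_lit 123)) (XT.lf (nat_lit 0) (nat_lit 606822240719) (nat_lit 760) (nat_lit 113106429268) (nat_lit 836) (nat_lit 113105653188)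 (nat_lit 296) (nat_lit 5) (nat_lit 306) (nat_lit 5) (nat_lit 307) (nat_lit 5) (nat_lit 453) (nat_lit 445) (nat_lit 122)))) (XT.nd (nat_lit 156) (nat_lit 1216) (nat_lit 0) (XT.nd (nat_lit 78) (nat_lit 0) (nat_lit 76) (XT.lf (nat_lit 76) (nat_lit 341621797231) (nat_lit 0) (nat_lit 341622650712) (nat_lit 836) (nat_lit 171712895608) (nat_lit 297) (nat_lit 5) (nat_lit 296) (nat_lit 5) (nat_lit 307) (nat_lit 5) (nat_lit 454) (nat_lit 445) (nat_lit 121)) (XT.lf (nat_lit 0) (nat_lit 766302724320) (nat_lit 760) (nat_lit 55766962866) (nat_lit 76) (nat_lit 55766079820) (nat_lit 297) (nat_lit 5) (nat_lit 307) (nat_lit 5) (nat_lit 298) (nat_lit 5) (nat_lit 455) (nat_lit 445) (nat_lit 120))) (XT.nd (nat_lit 78) (nat_lit 532) (nat_lit 0) (XT.lf (nat_lit 0) (nat_lit 432936339794) (nat_lit 760) (nat_lit 432937289703) (nat_lit 836) (nat_lit 35366496387) (nat_lit 287) (nat_lit 5) (nat_lit 297) (nat_lit 5) (nat_lit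 298) (nat_lit 5) (nat_lit 456) (nat_lit 445) (nat_lit 119)) (XT.lf (nat_lit 0) (nat_lit 22243408126) (nat_lit 456) (nat_lit 22244421714) (nat_lit 532) (nat_lit 881226689814) (nat_lit 280) (nat_lit 5) (nat_lit 286) (nat_lit 5) (nat_lit 287) (nat_lit 5) (nat_lit 457) (nat_lit 445) (nat_lit 118))))))) (XT.nd (nat_lit 1326) (nat_lit 532) (nat_lit 0) (XT.nd (nat_lit 624) (nat_lit 1444) (nat_lit 0) (XT.nd (nat_lit 312) (nat_lit 684) (nat_lit 0) (XT.nd (nat_lit 156) (nat_lit 380) (nat_lit 0) (XT.nd (nat_lit 78) (nat_lit 380) (nat_lit 0) (XT.lf (nat_lit 0) (nat_lit 141592659602) (nat_lit 532) (nat_lit 404534845494) (nat_lit 76) (nat_lit 404533822414) (nat_lit 280) (nat_lit 5) (nat_lit 287) (nat_lit 5) (nat_lit 281) (nat_lit 5) (nat_lit 458) (nat_lit 445) (nat_lit 117)) (XT.lf (nat_lit 0) (nat_lit 122917699926) (nat_lit 380) (nat_lit 122918778015) (nat_lit 456) (nat_lit 730904810464) (nat_lit 275) (nat_lit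 5) (nat_lit 280) (nat_lit 5) (nat_lit 281) (nat_lit 5) (nat_lit 459) (nat_lit 445) (nat_lit 116))) (XT.nd (nat_lit 78) (nat_lit 380) (nat_lit 0) (XT.lf (nat_lit 0) (nat_lit 367274528133) (nat_lit 456) (nat_lit 318126346905) (nat_lit 76) (nat_lit 318125270259) (nat_lit 275) (nat_lit 5) (nat_lit 281) (nat_lit 5) (nat_lit 276) (nat_lit 5) (nat_lit 460) (nat_lit 445) (nat_lit 115)) (XT.lf (nat_lit 0) (nat_lit 250353567243) (nat_lit 380) (nat_lit 250354691407) (nat_lit 456) (nat_lit 530645797492) (nat_lit 270) (nat_lit 5) (nat_lit 275) (nat_lit 5) (nat_lit 276) (nat_lit 5) (nat_lit 461) (nat_lit 445) (nat_lit 114)))) (XT.nd (nat_lit 156) (nat_lit 380) (nat_lit 0) (XT.nd (nat_lit 78) (nat_lit 304) (nat_lit 0) (XT.lf (nat_lit 0) (nat_lit 649512782542) (nat_lit 456) (nat_lit 205313369190) (nat_lit 76) (nat_lit 205312255457) (nat_lit 270) (nat_lit 5) (nat_lit 276) (nat_lit 5) (nat_lit 271) (nat_lit 5) (nat_lit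 462) (nat_lit 445) (nat_lit 113)) (XT.lf (nat_lit 0) (nat_lit 408116193045) (nat_lit 304) (nat_lit 408117347826) (nat_lit 380) (nat_lit 273604634503) (nat_lit 266) (nat_lit 5) (nat_lit 270) (nat_lit 5) (nat_lit 271) (nat_lit 5) (nat_lit 463) (nat_lit 445) (nat_lit 112))) (XT.nd (nat_lit 78) (nat_lit 380) (nat_lit 0) (XT.lf (nat_lit 0) (nat_lit 995775654889) (nat_lit 380) (nat_lit 62512074108) (nat_lit 76) (nat_lit 62510937085) (nat_lit 266) (nat_lit 5) (nat_lit 271) (nat_lit 5) (nat_lit 267) (nat_lit 5) (nat_lit 464) (nat_lit 445) (nat_lit 111)) (XT.lf (nat_lit 0) (nat_lit 46320080653) (nat_lit 380) (nat_lit 553073936782) (nat_lit 76) (nat_lit 553072764299) (nat_lit 261) (nat_lit 5) (nat_lit 266) (nat_lit 5) (nat_lit 262) (nat_lit 5) (nat_lit 465) (nat_lit 445) (nat_lit 110))))) (XT.nd (nat_lit 312) (nat_lit 836) (nat_lit 0) (XT.nd (nat_lit 156) (nat_lit 304) (nat_lit 0) (XT.nd (nat_lit 78) (nat_lit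 0) (nat_lit 0) (XT.lf (nat_lit 0) (nat_lit 112429444959) (nat_lit 304) (nat_lit 112430651212) (nat_lit 380) (nat_lit 960614161015) (nat_lit 257) (nat_lit 5) (nat_lit 261) (nat_lit 5) (nat_lit 262) (nat_lit 5) (nat_lit 466) (nat_lit 445) (nat_lit 109)) (XT.lf (nat_lit 0) (nat_lit 428074882018) (nat_lit 380) (nat_lit 395635507679) (nat_lit 76) (nat_lit 395634328236) (nat_lit 257) (nat_lit 5) (nat_lit 262) (nat_lit 5) (nat_lit 258) (nat_lit 5) (nat_lit 467) (nat_lit 445) (nat_lit 108))) (XT.nd (nat_lit 78) (nat_lit 0) (nat_lit 0) (XT.lf (nat_lit 0) (nat_lit 324176814350) (nat_lit 304) (nat_lit 324178022965) (nat_lit 380) (nat_lit 606208642895) (nat_lit 253) (nat_lit 5) (nat_lit 257) (nat_lit 5) (nat_lit 258) (nat_lit 5) (nat_lit 468) (nat_lit 445) (nat_lit 107)) (XT.lf (nat_lit 0) (nat_lit 889586633760) (nat_lit 380) (nat_lit 200730416096) (nat_lit 76) (nat_lit 200729238575) (nat_lit 253) (nat_lit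 5) (nat_lit 258) (nat_lit 5) (nat_lit 254) (nat_lit 5) (nat_lit 469) (nat_lit 445) (nat_lit 106)))) (XT.nd (nat_lit 156) (nat_lit 228) (nat_lit 0) (XT.nd (nat_lit 78) (nat_lit 380) (nat_lit 0) (XT.lf (nat_lit 0) (nat_lit 578613492867) (nat_lit 228) (nat_lit 578614695588) (nat_lit 304) (nat_lit 171407640187) (nat_lit 250) (nat_lit 5) (nat_lit 253) (nat_lit 5) (nat_lit 254) (nat_lit 5) (nat_lit 470) (nat_lit 445) (nat_lit 105)) (XT.lf (nat_lit 0) (nat_lit 35958606899) (nat_lit 304) (nat_lit 35959833620) (nat_lit 380) (nat_lit 1295930815463) (nat_lit 245) (nat_lit 5) (nat_lit 249) (nat_lit 5) (nat_lit 250) (nat_lit 5) (nat_lit 471) (nat_lit 445) (nat_lit 104))) (XT.nd (nat_lit 156) (nat_lit 228) (nat_lit 0) (XT.lf (nat_lit 0) (nat_lit 342895169203) (nat_lit 380) (nat_lit 532463319631) (nat_lit 76) (nat_lit 532462129557) (nat_lit 245) (nat_lit 5) (nat_lit 250) (nat_lit 5) (nat_lit 246) (nat_lit 5)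 (nat_lit 472) (nat_lit 445) (nat_lit 103)) (XT.lf (nat_lit 0) (nat_lit 950896506542) (nat_lit 304) (nat_lit 270863722473) (nat_lit 76) (nat_lit 270862550519) (nat_lit 242) (nat_lit 5) (nat_lit 246) (nat_lit 5) (nat_lit 243) (nat_lit 5) (nat_lit 474) (nat_lit 445) (nat_lit 101)))))) (XT.nd (nat_lit 51246) (nat_lit 0) (nat_lit 3420) (XT.nd (nat_lit 50934) (nat_lit 0) (nat_lit 4332) (XT.nd (nat_lit 156) (nat_lit 0) (nat_lit 0) (XT.nd (nat_lit 78) (nat_lit 304) (nat_lit 0) (XT.lf (nat_lit 0) (nat_lit 650037411361) (nat_lit 228) (nat_lit 650038601224) (nat_lit 304) (nat_lit 237044111832) (nat_lit 239) (nat_lit 5) (nat_lit 242) (nat_lit 5) (nat_lit 243) (nat_lit 5) (nat_lit 475) (nat_lit 445) (nat_lit 100)) (XT.lf (nat_lit 0) (nat_lit 42774378546) (nat_lit 228) (nat_lit 42775585466) (nat_lit 304) (nat_lit 1497961167541) (nat_lit 235) (nat_lit 5) (nat_lit 238) (nat_lit 5) (nat_lit 239) (nat_lit 5) (nat_lit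 476) (nat_lit 445) (nat_lit 99))) (XT.nd (nat_lit 50700) (nat_lit 0) (nat_lit 4332) (XT.lf (nat_lit 0) (nat_lit 440864245283) (nat_lit 304) (nat_lit 594968236660) (nat_lit 76) (nat_lit 594967071742) (nat_lit 235) (nat_lit 5) (nat_lit 239) (nat_lit 5) (nat_lit 236) (nat_lit 5) (nat_lit 477) (nat_lit 445) (nat_lit 98)) (XT.lf (nat_lit 0) (nat_lit 168125369707) (nat_lit 836) (nat_lit 94692911654) (nat_lit 836) (nat_lit 94692911654) (nat_lit 292) (nat_lit 3) (nat_lit 303) (nat_lit 3) (nat_lit 303) (nat_lit 5) (nat_lit 446) (nat_lit 446) (nat_lit 128)))) (XT.nd (nat_lit 156) (nat_lit 0) (nat_lit 76) (XT.nd (nat_lit 78) (nat_lit 0) (nat_lit 76) (XT.lf (nat_lit 76) (nat_lit 173684353705) (nat_lit 0) (nat_lit 173684479785) (nat_lit 836) (nat_lit 385393520911) (nat_lit 293) (nat_lit 5) (nat_lit 292) (nat_lit 3) (nat_lit 303) (nat_lit 5) (nat_lit 447) (nat_lit 446) (nat_lit 127)) (XT.lf (nat_lit 0) (nat_lit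 365360748899) (nat_lit 760) (nat_lit 192856455448) (nat_lit 836) (nat_lit 192856221013) (nat_lit 293) (nat_lit 5) (nat_lit 303) (nat_lit 5) (nat_lit 304) (nat_lit 5) (nat_lit 448) (nat_lit 446) (nat_lit 126))) (XT.nd (nat_lit 78) (nat_lit 0) (nat_lit 76) (XT.lf (nat_lit 76) (nat_lit 195072411309) (nat_lit 0) (nat_lit 195072754657) (nat_lit 836) (nat_lit 379860238606) (nat_lit 294) (nat_lit 5) (nat_lit 293) (nat_lit 5) (nat_lit 304) (nat_lit 5) (nat_lit 449) (nat_lit 446) (nat_lit 125)) (XT.lf (nat_lit 0) (nat_lit 422396012138) (nat_lit 760) (nat_lit 183588517989) (nat_lit 836) (nat_lit 183588092204) (nat_lit 294) (nat_lit 5) (nat_lit 304) (nat_lit 5) (nat_lit 305) (nat_lit 5) (nat_lit 450) (nat_lit 446) (nat_lit 124))))) (XT.nd (nat_lit 312) (nat_lit 1064) (nat_lit 0) (XT.nd (nat_lit 156) (nat_lit 0) (nat_lit 76) (XT.nd (nat_lit 78) (nat_lit 0) (nat_lit 76) (XT.lf (nat_lit 76) (nat_lit 231535855671)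 (nat_lit 0) (nat_lit 231536375539) (nat_lit 836) (nat_lit 346705328239) (nat_lit 295) (nat_lit 5) (nat_lit 294) (nat_lit 5) (nat_lit 305) (nat_lit 5) (nat_lit 451) (nat_lit 446) (nat_lit 123)) (XT.lf (nat_lit 0) (nat_lit 511465947389) (nat_lit 760) (nat_lit 159621596088) (nat_lit 836) (nat_lit 159621015640) (nat_lit 295) (nat_lit 5) (nat_lit 305) (nat_lit 5) (nat_lit 306) (nat_lit 5) (nat_lit 452) (nat_lit 446) (nat_lit 122))) (XT.nd (nat_lit 78) (nat_lit 0) (nat_lit 76) (XT.lf (nat_lit 76) (nat_lit 285264065533) (nat_lit 0) (nat_lit 285264727254) (nat_lit 836) (nat_lit 281744843809) (nat_lit 296) (nat_lit 5) (nat_lit 295) (nat_lit 5) (nat_lit 306) (nat_lit 5) (nat_lit 453) (nat_lit 446) (nat_lit 121)) (XT.lf (nat_lit 0) (nat_lit 637163541522) (nat_lit 760) (nat_lit 118761596150) (nat_lit 836) (nat_lit 118760892224) (nat_lit 296) (nat_lit 5) (nat_lit 306) (nat_lit 5) (nat_lit 307) (nat_lit 5) (nat_lit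 454) (nat_lit 446) (nat_lit 120)))) (XT.nd (nat_lit 156) (nat_lit 1216) (nat_lit 0) (XT.nd (nat_lit 78) (nat_lit 0) (nat_lit 76) (XT.lf (nat_lit 76) (nat_lit 358703039180) (nat_lit 0) (nat_lit 358703813313) (nat_lit 836) (nat_lit 180298349128) (nat_lit 297) (nat_lit 5) (nat_lit 296) (nat_lit 5) (nat_lit 307) (nat_lit 5) (nat_lit 455) (nat_lit 446) (nat_lit 119)) (XT.lf (nat_lit 0) (nat_lit 804618033567) (nat_lit 760) (nat_lit 58555157043) (nat_lit 76) (nat_lit 58554356094) (nat_lit 297) (nat_lit 5) (nat_lit 307) (nat_lit 5) (nat_lit 298) (nat_lit 5) (nat_lit 456) (nat_lit 446) (nat_lit 118))) (XT.nd (nat_lit 78) (nat_lit 532) (nat_lit 0) (XT.lf (nat_lit 0) (nat_lit 454583308267) (nat_lit 760) (nat_lit 454584169862) (nat_lit 836) (nat_lit 37134645691) (nat_lit 287) (nat_lit 5) (nat_lit 297) (nat_lit 5) (nat_lit 298) (nat_lit 5) (nat_lit 457) (nat_lit 446) (nat_lit 117)) (XT.lf (nat_lit 0) (nat_lit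 23355733099) (nat_lit 456) (nat_lit 23356652453) (nat_lit 532) (nat_lit 925287851874) (nat_lit 280) (nat_lit 5) (nat_lit 286) (nat_lit 5) (nat_lit 287) (nat_lit 5) (nat_lit 458) (nat_lit 446) (nat_lit 116))))))))
noncomputable def xc343 : XT := (XT.nd (nat_lit 53352) (nat_lit 0) (nat_lit 228) (XT.nd (nat_lit 1326) (nat_lit 228) (nat_lit 0) (XT.nd (nat_lit 624) (nat_lit 1444) (nat_lit 0) (XT.nd (nat_lit 312) (nat_lit 684) (nat_lit 0) (XT.nd (nat_lit 156) (nat_lit 380) (nat_lit 0) (XT.nd (nat_lit 78) (nat_lit 380) (nat_lit 0) (XT.lf (nat_lit 0) (nat_lit 148672448839) (nat_lit 532) (nat_lit 424761432599) (nat_lit 76) (nat_lit 424760504635) (nat_lit 280) (nat_lit 5) (nat_lit 287) (nat_lit 5) (nat_lit 281) (nat_lit 5) (nat_lit 459) (nat_lit 446) (nat_lit 115)) (XT.lf (nat_lit 0) (nat_lit 129063737589) (nat_lit 380) (nat_lit 129064715448) (nat_lit 456) (nat_lit 767449892228) (nat_lit 275) (nat_lit 5)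 (nat_lit 280) (nat_lit 5) (nat_lit 281) (nat_lit 5) (nat_lit 460) (nat_lit 446) (nat_lit 114))) (XT.nd (nat_lit 78) (nat_lit 380) (nat_lit 0) (XT.lf (nat_lit 0) (nat_lit 385638398560) (nat_lit 456) (nat_lit 334032511675) (nat_lit 76) (nat_lit 334031535125) (nat_lit 275) (nat_lit 5) (nat_lit 281) (nat_lit 5) (nat_lit 276) (nat_lit 5) (nat_lit 461) (nat_lit 446) (nat_lit 113)) (XT.lf (nat_lit 0) (nat_lit 262871395720) (nat_lit 380) (nat_lit 262872415370) (nat_lit 456) (nat_lit 557177940885) (nat_lit 270) (nat_lit 5) (nat_lit 275) (nat_lit 5) (nat_lit 276) (nat_lit 5) (nat_lit 462) (nat_lit 446) (nat_lit 112)))) (XT.nd (nat_lit 156) (nat_lit 380) (nat_lit 0) (XT.nd (nat_lit 78) (nat_lit 304) (nat_lit 0) (XT.lf (nat_lit 0) (nat_lit 681988554690) (nat_lit 456) (nat_lit 215578888198) (nat_lit 76) (nat_lit 215577878010) (nat_lit 270) (nat_lit 5) (nat_lit 276) (nat_lit 5) (nat_lit 271) (nat_lit 5) (nat_lit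 463) (nat_lit 446) (nat_lit 111)) (XT.lf (nat_lit 0) (nat_lit 428522149739) (nat_lit 304) (nat_lit 428523197159) (nat_lit 380) (nat_lit 287284730797) (nat_lit 266) (nat_lit 5) (nat_lit 270) (nat_lit 5) (nat_lit 271) (nat_lit 5) (nat_lit 464) (nat_lit 446) (nat_lit 110))) (XT.nd (nat_lit 78) (nat_lit 380) (nat_lit 0) (XT.lf (nat_lit 0) (nat_lit 1045564560743) (nat_lit 380) (nat_lit 65637531901) (nat_lit 76) (nat_lit 65636500587) (nat_lit 266) (nat_lit 5) (nat_lit 271) (nat_lit 5) (nat_lit 267) (nat_lit 5) (nat_lit 465) (nat_lit 446) (nat_lit 109)) (XT.lf (nat_lit 0) (nat_lit 48636206132) (nat_lit 380) (nat_lit 580727486046) (nat_lit 76) (nat_lit 580726422570) (nat_lit 261) (nat_lit 5) (nat_lit 266) (nat_lit 5) (nat_lit 262) (nat_lit 5) (nat_lit 466) (nat_lit 446) (nat_lit 108))))) (XT.nd (nat_lit 312) (nat_lit 836) (nat_lit 0) (XT.nd (nat_lit 156) (nat_lit 304) (nat_lit 0) (XT.nd (nat_lit 78) (nat_lit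 0) (nat_lit 0) (XT.lf (nat_lit 0) (nat_lit 118051062402) (nat_lit 304) (nat_lit 118052156508) (nat_lit 380) (nat_lit 1008644745239) (nat_lit 257) (nat_lit 5) (nat_lit 261) (nat_lit 5) (nat_lit 262) (nat_lit 5) (nat_lit 467) (nat_lit 446) (nat_lit 107)) (XT.lf (nat_lit 0) (nat_lit 449478738839) (nat_lit 380) (nat_lit 415417139572) (nat_lit 76) (nat_lit 415416069783) (nat_lit 257) (nat_lit 5) (nat_lit 262) (nat_lit 5) (nat_lit 258) (nat_lit 5) (nat_lit 468) (nat_lit 446) (nat_lit 106))) (XT.nd (nat_lit 78) (nat_lit 0) (nat_lit 0) (XT.lf (nat_lit 0) (nat_lit 340385796244) (nat_lit 304) (nat_lit 340386892493) (nat_lit 380) (nat_lit 636518960005) (nat_lit 253) (nat_lit 5) (nat_lit 257) (nat_lit 5) (nat_lit 258) (nat_lit 5) (nat_lit 469) (nat_lit 446) (nat_lit 105)) (XT.lf (nat_lit 0) (nat_lit 934066070259) (nat_lit 380) (nat_lit 210766797700) (nat_lit 76) (nat_lit 210765729654) (nat_lit 253) (nat_lit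 5) (nat_lit 258) (nat_lit 5) (nat_lit 254) (nat_lit 5) (nat_lit 470) (nat_lit 446) (nat_lit 104)))) (XT.nd (nat_lit 234) (nat_lit 228) (nat_lit 0) (XT.nd (nat_lit 78) (nat_lit 380) (nat_lit 0) (XT.lf (nat_lit 0) (nat_lit 607544304466) (nat_lit 228) (nat_lit 607545395370) (nat_lit 304) (nat_lit 179977915141) (nat_lit 250) (nat_lit 5) (nat_lit 253) (nat_lit 5) (nat_lit 254) (nat_lit 5) (nat_lit 471) (nat_lit 446) (nat_lit 103)) (XT.lf (nat_lit 0) (nat_lit 37756675362) (nat_lit 304) (nat_lit 37757788034) (nat_lit 380) (nat_lit 1360727250343) (nat_lit 245) (nat_lit 5) (nat_lit 249) (nat_lit 5) (nat_lit 250) (nat_lit 5) (nat_lit 472) (nat_lit 446) (nat_lit 102))) (XT.nd (nat_lit 78) (nat_lit 0) (nat_lit 0) (XT.lf (nat_lit 0) (nat_lit 332298929821) (nat_lit 228) (nat_lit 332300028058) (nat_lit 304) (nat_lit 857390759145) (nat_lit 242) (nat_lit 5) (nat_lit 245) (nat_lit 5) (nat_lit 246) (nat_lit 5) (nat_lit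 474) (nat_lit 446) (nat_lit 100)) (XT.lf (nat_lit 0) (nat_lit 998441422065) (nat_lit 304) (nat_lit 284406777467) (nat_lit 76) (nat_lit 284405714470) (nat_lit 242) (nat_lit 5) (nat_lit 246) (nat_lit 5) (nat_lit 243) (nat_lit 5) (nat_lit 475) (nat_lit 446) (nat_lit 99)))))) (XT.nd (nat_lit 51402) (nat_lit 0) (nat_lit 2736) (XT.nd (nat_lit 51090) (nat_lit 0) (nat_lit 4104) (XT.nd (nat_lit 50934) (nat_lit 0) (nat_lit 4028) (XT.nd (nat_lit 50856) (nat_lit 0) (nat_lit 4028) (XT.lf (nat_lit 0) (nat_lit 682539410944) (nat_lit 228) (nat_lit 682540490185) (nat_lit 304) (nat_lit 248896225114) (nat_lit 239) (nat_lit 5) (nat_lit 242) (nat_lit 5) (nat_lit 243) (nat_lit 5) (nat_lit 476) (nat_lit 446) (nat_lit 98)) (XT.lf (nat_lit 0) (nat_lit 176531762304) (nat_lit 836) (nat_lit 99427492078) (nat_lit 836) (nat_lit 99427492078) (nat_lit 292) (nat_lit 3) (nat_lit 303) (nat_lit 3) (nat_lit 303) (nat_lit 5) (nat_lit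 447) (nat_lit 447) (nat_lit 126))) (XT.nd (nat_lit 78) (nat_lit 0) (nat_lit 76) (XT.lf (nat_lit 76) (nat_lit 182368699606) (nat_lit 0) (nat_lit 182368813964) (nat_lit 836) (nat_lit 404662946631) (nat_lit 293) (nat_lit 5) (nat_lit 292) (nat_lit 3) (nat_lit 303) (nat_lit 5) (nat_lit 448) (nat_lit 447) (nat_lit 125)) (XT.lf (nat_lit 0) (nat_lit 383629011758) (nat_lit 760) (nat_lit 202499143119) (nat_lit 836) (nat_lit 202498930480) (nat_lit 293) (nat_lit 5) (nat_lit 303) (nat_lit 5) (nat_lit 304) (nat_lit 5) (nat_lit 449) (nat_lit 447) (nat_lit 124)))) (XT.nd (nat_lit 156) (nat_lit 0) (nat_lit 76) (XT.nd (nat_lit 78) (nat_lit 0) (nat_lit 76) (XT.lf (nat_lit 76) (nat_lit 204826164796) (nat_lit 0) (nat_lit 204826476223) (nat_lit 836) (nat_lit 398853022944) (nat_lit 294) (nat_lit 5) (nat_lit 293) (nat_lit 5) (nat_lit 304) (nat_lit 5) (nat_lit 450) (nat_lit 447) (nat_lit 123)) (XT.lf (nat_lit 0) (nat_lit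 443516017932) (nat_lit 760) (nat_lit 192767805728) (nat_lit 836) (nat_lit 192767419529) (nat_lit 294) (nat_lit 5) (nat_lit 304) (nat_lit 5) (nat_lit 305) (nat_lit 5) (nat_lit 451) (nat_lit 447) (nat_lit 122))) (XT.nd (nat_lit 78) (nat_lit 0) (nat_lit 76) (XT.lf (nat_lit 76) (nat_lit 243112784387) (nat_lit 0) (nat_lit 243113255923) (nat_lit 836) (nat_lit 364040387236) (nat_lit 295) (nat_lit 5) (nat_lit 294) (nat_lit 5) (nat_lit 305) (nat_lit 5) (nat_lit 452) (nat_lit 447) (nat_lit 121)) (XT.lf (nat_lit 0) (nat_lit 537039431974) (nat_lit 760) (nat_lit 167602536111) (nat_lit 836) (nat_lit 167602009627) (nat_lit 295) (nat_lit 5) (nat_lit 305) (nat_lit 5) (nat_lit 306) (nat_lit 5) (nat_lit 453) (nat_lit 447) (nat_lit 120))))) (XT.nd (nat_lit 312) (nat_lit 1520) (nat_lit 0) (XT.nd (nat_lit 156) (nat_lit 0) (nat_lit 76) (XT.nd (nat_lit 78) (nat_lit 0) (nat_lit 76) (XT.lf (nat_lit 76) (nat_lit 299527406337)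 (nat_lit 0) (nat_lit 299528006537) (nat_lit 836) (nat_lit 295831896529) (nat_lit 296) (nat_lit 5) (nat_lit 295) (nat_lit 5) (nat_lit 306) (nat_lit 5) (nat_lit 454) (nat_lit 447) (nat_lit 119)) (XT.lf (nat_lit 0) (nat_lit 669021889815) (nat_lit 760) (nat_lit 124699535748) (nat_lit 836) (nat_lit 124698897266) (nat_lit 296) (nat_lit 5) (nat_lit 306) (nat_lit 5) (nat_lit 307) (nat_lit 5) (nat_lit 455) (nat_lit 447) (nat_lit 118))) (XT.nd (nat_lit 78) (nat_lit 0) (nat_lit 76) (XT.lf (nat_lit 76) (nat_lit 376638329087) (nat_lit 0) (nat_lit 376639031248) (nat_lit 836) (nat_lit 189313093106) (nat_lit 297) (nat_lit 5) (nat_lit 296) (nat_lit 5) (nat_lit 307) (nat_lit 5) (nat_lit 456) (nat_lit 447) (nat_lit 117)) (XT.lf (nat_lit 0) (nat_lit 844849092191) (nat_lit 760) (nat_lit 61482775243) (nat_lit 76) (nat_lit 61482048759) (nat_lit 297) (nat_lit 5) (nat_lit 307) (nat_lit 5) (nat_lit 298) (nat_lit 5) (nat_lit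 457) (nat_lit 447) (nat_lit 116)))) (XT.nd (nat_lit 156) (nat_lit 380) (nat_lit 0) (XT.nd (nat_lit 78) (nat_lit 532) (nat_lit 0) (XT.lf (nat_lit 0) (nat_lit 477312611080) (nat_lit 760) (nat_lit 477313392572) (nat_lit 836) (nat_lit 38991218778) (nat_lit 287) (nat_lit 5) (nat_lit 297) (nat_lit 5) (nat_lit 298) (nat_lit 5) (nat_lit 458) (nat_lit 447) (nat_lit 115)) (XT.lf (nat_lit 0) (nat_lit 24523659950) (nat_lit 456) (nat_lit 24524493832) (nat_lit 532) (nat_lit 971552088067) (nat_lit 280) (nat_lit 5) (nat_lit 286) (nat_lit 5) (nat_lit 287) (nat_lit 5) (nat_lit 459) (nat_lit 447) (nat_lit 114))) (XT.nd (nat_lit 78) (nat_lit 380) (nat_lit 0) (XT.lf (nat_lit 0) (nat_lit 156106213010) (nat_lit 532) (nat_lit 445999363485) (nat_lit 76) (nat_lit 445998521794) (nat_lit 280) (nat_lit 5) (nat_lit 287) (nat_lit 5) (nat_lit 281) (nat_lit 5) (nat_lit 460) (nat_lit 447) (nat_lit 113)) (XT.lf (nat_lit 0) (nat_lit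 135517062942) (nat_lit 380) (nat_lit 135517949889) (nat_lit 456) (nat_lit 805822242840) (nat_lit 275) (nat_lit 5) (nat_lit 280) (nat_lit 5) (nat_lit 281) (nat_lit 5) (nat_lit 461) (nat_lit 447) (nat_lit 112))))))) (XT.nd (nat_lit 52182) (nat_lit 0) (nat_lit 2128) (XT.nd (nat_lit 624) (nat_lit 1140) (nat_lit 0) (XT.nd (nat_lit 312) (nat_lit 684) (nat_lit 0) (XT.nd (nat_lit 156) (nat_lit 304) (nat_lit 0) (XT.nd (nat_lit 78) (nat_lit 380) (nat_lit 0) (XT.lf (nat_lit 0) (nat_lit 404920449120) (nat_lit 456) (nat_lit 350733998868) (nat_lit 76) (nat_lit 350733113109) (nat_lit 275) (nat_lit 5) (nat_lit 281) (nat_lit 5) (nat_lit 276) (nat_lit 5) (nat_lit 462) (nat_lit 447) (nat_lit 111)) (XT.lf (nat_lit 0) (nat_lit 276015101665) (nat_lit 380) (nat_lit 276016026517) (nat_lit 456) (nat_lit 585036705065) (nat_lit 270) (nat_lit 5) (nat_lit 275) (nat_lit 5) (nat_lit 276) (nat_lit 5) (nat_lit 463) (nat_lit 447)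 (nat_lit 110))) (XT.nd (nat_lit 78) (nat_lit 304) (nat_lit 0) (XT.lf (nat_lit 0) (nat_lit 716088103079) (nat_lit 456) (nat_lit 226357697051) (nat_lit 76) (nat_lit 226356780780) (nat_lit 270) (nat_lit 5) (nat_lit 276) (nat_lit 5) (nat_lit 271) (nat_lit 5) (nat_lit 464) (nat_lit 447) (nat_lit 109)) (XT.lf (nat_lit 0) (nat_lit 449948390597) (nat_lit 304) (nat_lit 449949340638) (nat_lit 380) (nat_lit 301648844496) (nat_lit 266) (nat_lit 5) (nat_lit 270) (nat_lit 5) (nat_lit 271) (nat_lit 5) (nat_lit 465) (nat_lit 447) (nat_lit 108)))) (XT.nd (nat_lit 156) (nat_lit 304) (nat_lit 0) (XT.nd (nat_lit 78) (nat_lit 380) (nat_lit 0) (XT.lf (nat_lit 0) (nat_lit 1097842900444) (nat_lit 380) (nat_lit 68919276149) (nat_lit 76) (nat_lit 68918340717) (nat_lit 266) (nat_lit 5) (nat_lit 271) (nat_lit 5) (nat_lit 267) (nat_lit 5) (nat_lit 466) (nat_lit 447) (nat_lit 107)) (XT.lf (nat_lit 0) (nat_lit 51068126595) (nat_lit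 380) (nat_lit 609763726493) (nat_lit 76) (nat_lit 609762761889) (nat_lit 261) (nat_lit 5) (nat_lit 266) (nat_lit 5) (nat_lit 262) (nat_lit 5) (nat_lit 467) (nat_lit 447) (nat_lit 106))) (XT.nd (nat_lit 78) (nat_lit 0) (nat_lit 0) (XT.lf (nat_lit 0) (nat_lit 123953747218) (nat_lit 304) (nat_lit 123954739605) (nat_lit 380) (nat_lit 1059076870186) (nat_lit 257) (nat_lit 5) (nat_lit 261) (nat_lit 5) (nat_lit 262) (nat_lit 5) (nat_lit 468) (nat_lit 447) (nat_lit 105)) (XT.lf (nat_lit 0) (nat_lit 471952778022) (nat_lit 380) (nat_lit 436187866400) (nat_lit 76) (nat_lit 436186896070) (nat_lit 257) (nat_lit 5) (nat_lit 262) (nat_lit 5) (nat_lit 258) (nat_lit 5) (nat_lit 469) (nat_lit 447) (nat_lit 104))))) (XT.nd (nat_lit 390) (nat_lit 228) (nat_lit 0) (XT.nd (nat_lit 156) (nat_lit 608) (nat_lit 0) (XT.nd (nat_lit 78) (nat_lit 0) (nat_lit 0) (XT.lf (nat_lit 0) (nat_lit 357405214108) (nat_lit 304) (nat_lit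 357406208438) (nat_lit 380) (nat_lit 668344803666) (nat_lit 253) (nat_lit 5) (nat_lit 257) (nat_lit 5) (nat_lit 258) (nat_lit 5) (nat_lit 470) (nat_lit 447) (nat_lit 103)) (XT.lf (nat_lit 0) (nat_lit 980769468837) (nat_lit 380) (nat_lit 221305011326) (nat_lit 76) (nat_lit 221304042576) (nat_lit 253) (nat_lit 5) (nat_lit 258) (nat_lit 5) (nat_lit 254) (nat_lit 5) (nat_lit 471) (nat_lit 447) (nat_lit 102))) (XT.nd (nat_lit 156) (nat_lit 380) (nat_lit 0) (XT.lf (nat_lit 0) (nat_lit 637921643912) (nat_lit 228) (nat_lit 637922633394) (nat_lit 304) (nat_lit 188976713796) (nat_lit 250) (nat_lit 5) (nat_lit 253) (nat_lit 5) (nat_lit 254) (nat_lit 5) (nat_lit 472) (nat_lit 447) (nat_lit 101)) (XT.lf (nat_lit 0) (nat_lit 378042113100) (nat_lit 380) (nat_lit 587040544151) (nat_lit 76) (nat_lit 587039565073) (nat_lit 245) (nat_lit 5) (nat_lit 250) (nat_lit 5) (nat_lit 246) (nat_lit 5) (nat_lit 474) (nat_lit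 447) (nat_lit 99)))) (XT.nd (nat_lit 51012) (nat_lit 0) (nat_lit 3800) (XT.nd (nat_lit 78) (nat_lit 0) (nat_lit 0) (XT.lf (nat_lit 0) (nat_lit 348913997490) (nat_lit 228) (nat_lit 348914993624) (nat_lit 304) (nat_lit 900260207495) (nat_lit 242) (nat_lit 5) (nat_lit 245) (nat_lit 5) (nat_lit 246) (nat_lit 5) (nat_lit 475) (nat_lit 447) (nat_lit 98)) (XT.lf (nat_lit 0) (nat_lit 1048363574977) (nat_lit 304) (nat_lit 298626997401) (nat_lit 76) (nat_lit 298626033232) (nat_lit 242) (nat_lit 5) (nat_lit 246) (nat_lit 5) (nat_lit 243) (nat_lit 5) (nat_lit 476) (nat_lit 447) (nat_lit 97))) (XT.nd (nat_lit 78) (nat_lit 0) (nat_lit 0) (XT.lf (nat_lit 0) (nat_lit 185358462992) (nat_lit 836) (nat_lit 104398807581) (nat_lit 836) (nat_lit 104398807581) (nat_lit 292) (nat_lit 3) (nat_lit 303) (nat_lit 3) (nat_lit 303) (nat_lit 5) (nat_lit 448) (nat_lit 448) (nat_lit 124)) (XT.lf (nat_lit 76) (nat_lit 191487250881)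 (nat_lit 0) (nat_lit 191487354608) (nat_lit 836) (nat_lit 424895866910) (nat_lit 293) (nat_lit 5) (nat_lit 292) (nat_lit 3) (nat_lit 303) (nat_lit 5) (nat_lit 449) (nat_lit 448) (nat_lit 123)))))) (XT.nd (nat_lit 624) (nat_lit 1748) (nat_lit 0) (XT.nd (nat_lit 312) (nat_lit 0) (nat_lit 152) (XT.nd (nat_lit 156) (nat_lit 0) (nat_lit 76) (XT.nd (nat_lit 78) (nat_lit 0) (nat_lit 0) (XT.lf (nat_lit 0) (nat_lit 402810666803) (nat_lit 760) (nat_lit 212623977735) (nat_lit 836) (nat_lit 212623784865) (nat_lit 293) (nat_lit 5) (nat_lit 303) (nat_lit 5) (nat_lit 304) (nat_lit 5) (nat_lit 450) (nat_lit 448) (nat_lit 122)) (XT.lf (nat_lit 76) (nat_lit 215067593600) (nat_lit 0) (nat_lit 215067876073) (nat_lit 836) (nat_lit 418795467657) (nat_lit 294) (nat_lit 5) (nat_lit 293) (nat_lit 5) (nat_lit 304) (nat_lit 5) (nat_lit 451) (nat_lit 448) (nat_lit 121))) (XT.nd (nat_lit 78) (nat_lit 0) (nat_lit 0) (XT.lf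 (nat_lit 0) (nat_lit 465692004940) (nat_lit 760) (nat_lit 202406070699) (nat_lit 836) (nat_lit 202405720404) (nat_lit 294) (nat_lit 5) (nat_lit 304) (nat_lit 5) (nat_lit 305) (nat_lit 5) (nat_lit 452) (nat_lit 448) (nat_lit 120)) (XT.lf (nat_lit 76) (nat_lit 255268546901) (nat_lit 0) (nat_lit 255268974598) (nat_lit 836) (nat_lit 382242218466) (nat_lit 295) (nat_lit 5) (nat_lit 294) (nat_lit 5) (nat_lit 305) (nat_lit 5) (nat_lit 453) (nat_lit 448) (nat_lit 119)))) (XT.nd (nat_lit 156) (nat_lit 0) (nat_lit 76) (XT.nd (nat_lit 78) (nat_lit 0) (nat_lit 0) (XT.lf (nat_lit 0) (nat_lit 563891573384) (nat_lit 760) (nat_lit 175982536130) (nat_lit 836) (nat_lit 175982058593) (nat_lit 295) (nat_lit 5) (nat_lit 305) (nat_lit 5) (nat_lit 306) (nat_lit 5) (nat_lit 454) (nat_lit 448) (nat_lit 118)) (XT.lf (nat_lit 76) (nat_lit 314503901395) (nat_lit 0) (nat_lit 314504445794) (nat_lit 836) (nat_lit 310623319501)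 (nat_lit 296) (nat_lit 5) (nat_lit 295) (nat_lit 5) (nat_lit 306) (nat_lit 5) (nat_lit 455) (nat_lit 448) (nat_lit 117))) (XT.nd (nat_lit 78) (nat_lit 0) (nat_lit 0) (XT.lf (nat_lit 0) (nat_lit 702473139605) (nat_lit 760) (nat_lit 130934385362) (nat_lit 836) (nat_lit 130933806240) (nat_lit 296) (nat_lit 5) (nat_lit 306) (nat_lit 5) (nat_lit 307) (nat_lit 5) (nat_lit 456) (nat_lit 448) (nat_lit 116)) (XT.lf (nat_lit 76) (nat_lit 395470370664) (nat_lit 0) (nat_lit 395471007545) (nat_lit 836) (nat_lit 198778590411) (nat_lit 297) (nat_lit 5) (nat_lit 296) (nat_lit 5) (nat_lit 307) (nat_lit 5) (nat_lit 457) (nat_lit 448) (nat_lit 115))))) (XT.nd (nat_lit 312) (nat_lit 760) (nat_lit 0) (XT.nd (nat_lit 156) (nat_lit 532) (nat_lit 0) (XT.nd (nat_lit 78) (nat_lit 760) (nat_lit 0) (XT.lf (nat_lit 0) (nat_lit 887091689154) (nat_lit 760) (nat_lit 64556787337) (nat_lit 76) (nat_lit 64556128394) (nat_lit 297)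 (nat_lit 5) (nat_lit 307) (nat_lit 5) (nat_lit 298) (nat_lit 5) (nat_lit 458) (nat_lit 448) (nat_lit 114)) (XT.lf (nat_lit 0) (nat_lit 501178366260) (nat_lit 760) (nat_lit 501179075096) (nat_lit 836) (nat_lit 40940635321) (nat_lit 287) (nat_lit 5) (nat_lit 297) (nat_lit 5) (nat_lit 298) (nat_lit 5) (nat_lit 459) (nat_lit 448) (nat_lit 113))) (XT.nd (nat_lit 78) (nat_lit 0) (nat_lit 0) (XT.lf (nat_lit 0) (nat_lit 25749970110) (nat_lit 456) (nat_lit 25750726465) (nat_lit 532) (nat_lit 1020129550611) (nat_lit 280) (nat_lit 5) (nat_lit 286) (nat_lit 5) (nat_lit 287) (nat_lit 5) (nat_lit 460) (nat_lit 448) (nat_lit 112)) (XT.lf (nat_lit 0) (nat_lit 163911652214) (nat_lit 532) (nat_lit 468299204001) (nat_lit 76) (nat_lit 468298440562) (nat_lit 280) (nat_lit 5) (nat_lit 287) (nat_lit 5) (nat_lit 281) (nat_lit 5) (nat_lit 461) (nat_lit 448) (nat_lit 111)))) (XT.nd (nat_lit 156) (nat_lit 380) (nat_lit 0)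 (XT.nd (nat_lit 78) (nat_lit 0) (nat_lit 0) (XT.lf (nat_lit 0) (nat_lit 142293041689) (nat_lit 380) (nat_lit 142293846176) (nat_lit 456) (nat_lit 846113224370) (nat_lit 275) (nat_lit 5) (nat_lit 280) (nat_lit 5) (nat_lit 281) (nat_lit 5) (nat_lit 462) (nat_lit 448) (nat_lit 110)) (XT.lf (nat_lit 0) (nat_lit 425166590063) (nat_lit 456) (nat_lit 368270573287) (nat_lit 76) (nat_lit 368269769878) (nat_lit 275) (nat_lit 5) (nat_lit 281) (nat_lit 5) (nat_lit 276) (nat_lit 5) (nat_lit 463) (nat_lit 448) (nat_lit 109))) (XT.nd (nat_lit 78) (nat_lit 0) (nat_lit 0) (XT.lf (nat_lit 0) (nat_lit 289815980247) (nat_lit 380) (nat_lit 289816819116) (nat_lit 456) (nat_lit 614288419807) (nat_lit 270) (nat_lit 5) (nat_lit 275) (nat_lit 5) (nat_lit 276) (nat_lit 5) (nat_lit 464) (nat_lit 448) (nat_lit 108)) (XT.lf (nat_lit 0) (nat_lit 751892617670) (nat_lit 456) (nat_lit 237675458949) (nat_lit 76) (nat_lit 237674627865)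 (nat_lit 270) (nat_lit 5) (nat_lit 276) (nat_lit 5) (nat_lit 271) (nat_lit 5) (nat_lit 465) (nat_lit 448) (nat_lit 107))))))))
noncomputable def xc344 : XT := (XT.nd (nat_lit 52182) (nat_lit 0) (nat_lit 1444) (XT.nd (nat_lit 624) (nat_lit 608) (nat_lit 0) (XT.nd (nat_lit 312) (nat_lit 532) (nat_lit 0) (XT.nd (nat_lit 156) (nat_lit 684) (nat_lit 0) (XT.nd (nat_lit 78) (nat_lit 0) (nat_lit 0) (XT.lf (nat_lit 0) (nat_lit 472445931098) (nat_lit 304) (nat_lit 472446792813) (nat_lit 380) (nat_lit 316731175301) (nat_lit 266) (nat_lit 5) (nat_lit 270) (nat_lit 5) (nat_lit 271) (nat_lit 5) (nat_lit 466) (nat_lit 448) (nat_lit 106)) (XT.lf (nat_lit 0) (nat_lit 1152735146748) (nat_lit 380) (nat_lit 72365119913) (nat_lit 76) (nat_lit 72364271449) (nat_lit 266) (nat_lit 5) (nat_lit 271) (nat_lit 5) (nat_lit 267) (nat_lit 5) (nat_lit 467) (nat_lit 448) (nat_lit 105))) (XT.nd (nat_lit 78) (nat_lit 304) (nat_lit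 0) (XT.lf (nat_lit 0) (nat_lit 53621632840) (nat_lit 380) (nat_lit 640251791408) (nat_lit 76) (nat_lit 640250916484) (nat_lit 261) (nat_lit 5) (nat_lit 266) (nat_lit 5) (nat_lit 262) (nat_lit 5) (nat_lit 468) (nat_lit 448) (nat_lit 104)) (XT.lf (nat_lit 0) (nat_lit 130151554031) (nat_lit 304) (nat_lit 130152454155) (nat_lit 380) (nat_lit 1112030611822) (nat_lit 257) (nat_lit 5) (nat_lit 261) (nat_lit 5) (nat_lit 262) (nat_lit 5) (nat_lit 469) (nat_lit 448) (nat_lit 103)))) (XT.nd (nat_lit 156) (nat_lit 228) (nat_lit 0) (XT.nd (nat_lit 78) (nat_lit 304) (nat_lit 0) (XT.lf (nat_lit 0) (nat_lit 495550509658) (nat_lit 380) (nat_lit 457997141670) (nat_lit 76) (nat_lit 457996261552) (nat_lit 257) (nat_lit 5) (nat_lit 262) (nat_lit 5) (nat_lit 258) (nat_lit 5) (nat_lit 470) (nat_lit 448) (nat_lit 102)) (XT.lf (nat_lit 0) (nat_lit 375275590959) (nat_lit 304) (nat_lit 375276492846) (nat_lit 380) (nat_lit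 701761949210) (nat_lit 253) (nat_lit 5) (nat_lit 257) (nat_lit 5) (nat_lit 258) (nat_lit 5) (nat_lit 471) (nat_lit 448) (nat_lit 101))) (XT.nd (nat_lit 78) (nat_lit 228) (nat_lit 0) (XT.lf (nat_lit 0) (nat_lit 1029808028507) (nat_lit 380) (nat_lit 232370147372) (nat_lit 76) (nat_lit 232369268687) (nat_lit 253) (nat_lit 5) (nat_lit 258) (nat_lit 5) (nat_lit 254) (nat_lit 5) (nat_lit 472) (nat_lit 448) (nat_lit 100)) (XT.lf (nat_lit 0) (nat_lit 669817838781) (nat_lit 228) (nat_lit 669818736270) (nat_lit 304) (nat_lit 198425461412) (nat_lit 250) (nat_lit 5) (nat_lit 253) (nat_lit 5) (nat_lit 254) (nat_lit 5) (nat_lit 473) (nat_lit 448) (nat_lit 99))))) (XT.nd (nat_lit 51246) (nat_lit 0) (nat_lit 3800) (XT.nd (nat_lit 156) (nat_lit 228) (nat_lit 0) (XT.nd (nat_lit 78) (nat_lit 0) (nat_lit 0) (XT.lf (nat_lit 0) (nat_lit 41626979757) (nat_lit 304) (nat_lit 41627895155) (nat_lit 380) (nat_lit 1500201605534)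 (nat_lit 245) (nat_lit 5) (nat_lit 249) (nat_lit 5) (nat_lit 250) (nat_lit 5) (nat_lit 474) (nat_lit 448) (nat_lit 98)) (XT.lf (nat_lit 0) (nat_lit 396944298230) (nat_lit 380) (nat_lit 616392459644) (nat_lit 76) (nat_lit 616391571592) (nat_lit 245) (nat_lit 5) (nat_lit 250) (nat_lit 5) (nat_lit 246) (nat_lit 5) (nat_lit 475) (nat_lit 448) (nat_lit 97))) (XT.nd (nat_lit 51012) (nat_lit 0) (nat_lit 3800) (XT.lf (nat_lit 0) (nat_lit 366359807277) (nat_lit 228) (nat_lit 366360710799) (nat_lit 304) (nat_lit 945273136593) (nat_lit 242) (nat_lit 5) (nat_lit 245) (nat_lit 5) (nat_lit 246) (nat_lit 5) (nat_lit 476) (nat_lit 448) (nat_lit 96)) (XT.lf (nat_lit 0) (nat_lit 194626488249) (nat_lit 836) (nat_lit 109618694354) (nat_lit 836) (nat_lit 109618694354) (nat_lit 292) (nat_lit 3) (nat_lit 303) (nat_lit 3) (nat_lit 303) (nat_lit 5) (nat_lit 449) (nat_lit 449) (nat_lit 122)))) (XT.nd (nat_lit 156) (nat_lit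 0) (nat_lit 76) (XT.nd (nat_lit 78) (nat_lit 0) (nat_lit 76) (XT.lf (nat_lit 76) (nat_lit 201061718909) (nat_lit 0) (nat_lit 201061812992) (nat_lit 836) (nat_lit 446140454312) (nat_lit 293) (nat_lit 5) (nat_lit 292) (nat_lit 3) (nat_lit 303) (nat_lit 5) (nat_lit 450) (nat_lit 449) (nat_lit 121)) (XT.lf (nat_lit 0) (nat_lit 422951385592) (nat_lit 760) (nat_lit 223255065474) (nat_lit 836) (nat_lit 223254890535) (nat_lit 293) (nat_lit 5) (nat_lit 303) (nat_lit 5) (nat_lit 304) (nat_lit 5) (nat_lit 451) (nat_lit 449) (nat_lit 120))) (XT.nd (nat_lit 78) (nat_lit 0) (nat_lit 76) (XT.lf (nat_lit 76) (nat_lit 225821082636) (nat_lit 0) (nat_lit 225821338847) (nat_lit 836) (nat_lit 439735053799) (nat_lit 294) (nat_lit 5) (nat_lit 293) (nat_lit 5) (nat_lit 304) (nat_lit 5) (nat_lit 452) (nat_lit 449) (nat_lit 119)) (XT.lf (nat_lit 0) (nat_lit 488976773995) (nat_lit 760) (nat_lit 212526260569) (nat_lit 836)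 (nat_lit 212525942841) (nat_lit 294) (nat_lit 5) (nat_lit 304) (nat_lit 5) (nat_lit 305) (nat_lit 5) (nat_lit 453) (nat_lit 449) (nat_lit 118)))))) (XT.nd (nat_lit 624) (nat_lit 1444) (nat_lit 0) (XT.nd (nat_lit 312) (nat_lit 1064) (nat_lit 0) (XT.nd (nat_lit 156) (nat_lit 0) (nat_lit 76) (XT.nd (nat_lit 78) (nat_lit 0) (nat_lit 76) (XT.lf (nat_lit 76) (nat_lit 268032086078) (nat_lit 0) (nat_lit 268032474011) (nat_lit 836) (nat_lit 401354158748) (nat_lit 295) (nat_lit 5) (nat_lit 294) (nat_lit 5) (nat_lit 305) (nat_lit 5) (nat_lit 454) (nat_lit 449) (nat_lit 117)) (XT.lf (nat_lit 0) (nat_lit 592086306076) (nat_lit 760) (nat_lit 184781547937) (nat_lit 836) (nat_lit 184781114798) (nat_lit 295) (nat_lit 5) (nat_lit 305) (nat_lit 5) (nat_lit 306) (nat_lit 5) (nat_lit 455) (nat_lit 449) (nat_lit 116))) (XT.nd (nat_lit 78) (nat_lit 0) (nat_lit 76) (XT.lf (nat_lit 76) (nat_lit 330229209609) (nat_lit 0)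 (nat_lit 330229703395) (nat_lit 836) (nat_lit 326154329598) (nat_lit 296) (nat_lit 5) (nat_lit 295) (nat_lit 5) (nat_lit 306) (nat_lit 5) (nat_lit 456) (nat_lit 449) (nat_lit 115)) (XT.lf (nat_lit 0) (nat_lit 737596937446) (nat_lit 760) (nat_lit 137480989279) (nat_lit 836) (nat_lit 137480463998) (nat_lit 296) (nat_lit 5) (nat_lit 306) (nat_lit 5) (nat_lit 307) (nat_lit 5) (nat_lit 457) (nat_lit 449) (nat_lit 114)))) (XT.nd (nat_lit 156) (nat_lit 1216) (nat_lit 0) (XT.nd (nat_lit 78) (nat_lit 0) (nat_lit 76) (XT.lf (nat_lit 76) (nat_lit 415244002688) (nat_lit 0) (nat_lit 415244580357) (nat_lit 836) (nat_lit 208717377210) (nat_lit 297) (nat_lit 5) (nat_lit 296) (nat_lit 5) (nat_lit 307) (nat_lit 5) (nat_lit 458) (nat_lit 449) (nat_lit 113)) (XT.lf (nat_lit 0) (nat_lit 931446402730) (nat_lit 760) (nat_lit 67784511812) (nat_lit 76) (nat_lit 67783914132) (nat_lit 297) (nat_lit 5) (nat_lit 307) (nat_lit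 5) (nat_lit 298) (nat_lit 5) (nat_lit 459) (nat_lit 449) (nat_lit 112))) (XT.nd (nat_lit 78) (nat_lit 532) (nat_lit 0) (XT.lf (nat_lit 0) (nat_lit 526237397611) (nat_lit 760) (nat_lit 526238040547) (nat_lit 836) (nat_lit 42987536115) (nat_lit 287) (nat_lit 5) (nat_lit 297) (nat_lit 5) (nat_lit 298) (nat_lit 5) (nat_lit 460) (nat_lit 449) (nat_lit 111)) (XT.lf (nat_lit 0) (nat_lit 27037583956) (nat_lit 456) (nat_lit 27038269992) (nat_lit 532) (nat_lit 1071135899471) (nat_lit 280) (nat_lit 5) (nat_lit 286) (nat_lit 5) (nat_lit 287) (nat_lit 5) (nat_lit 461) (nat_lit 449) (nat_lit 110))))) (XT.nd (nat_lit 312) (nat_lit 684) (nat_lit 0) (XT.nd (nat_lit 156) (nat_lit 380) (nat_lit 0) (XT.nd (nat_lit 78) (nat_lit 380) (nat_lit 0) (XT.lf (nat_lit 0) (nat_lit 172107351425) (nat_lit 532) (nat_lit 491714048411) (nat_lit 76) (nat_lit 491713355950) (nat_lit 280) (nat_lit 5) (nat_lit 287) (nat_lit 5) (nat_lit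 281) (nat_lit 5) (nat_lit 462) (nat_lit 449) (nat_lit 109)) (XT.lf (nat_lit 0) (nat_lit 149407807696) (nat_lit 380) (nat_lit 149408537389) (nat_lit 456) (nat_lit 888418767120) (nat_lit 275) (nat_lit 5) (nat_lit 280) (nat_lit 5) (nat_lit 281) (nat_lit 5) (nat_lit 463) (nat_lit 449) (nat_lit 108))) (XT.nd (nat_lit 78) (nat_lit 380) (nat_lit 0) (XT.lf (nat_lit 0) (nat_lit 446425027037) (nat_lit 456) (nat_lit 386683988098) (nat_lit 76) (nat_lit 386683259381) (nat_lit 275) (nat_lit 5) (nat_lit 281) (nat_lit 5) (nat_lit 276) (nat_lit 5) (nat_lit 464) (nat_lit 449) (nat_lit 107)) (XT.lf (nat_lit 0) (nat_lit 304306891278) (nat_lit 380) (nat_lit 304307652156) (nat_lit 456) (nat_lit 645002731491) (nat_lit 270) (nat_lit 5) (nat_lit 275) (nat_lit 5) (nat_lit 276) (nat_lit 5) (nat_lit 465) (nat_lit 449) (nat_lit 106)))) (XT.nd (nat_lit 156) (nat_lit 380) (nat_lit 0) (XT.nd (nat_lit 78) (nat_lit 304) (nat_lit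 0) (XT.lf (nat_lit 0) (nat_lit 789487347816) (nat_lit 456) (nat_lit 249559120373) (nat_lit 76) (nat_lit 249558366555) (nat_lit 270) (nat_lit 5) (nat_lit 276) (nat_lit 5) (nat_lit 271) (nat_lit 5) (nat_lit 466) (nat_lit 449) (nat_lit 105)) (XT.lf (nat_lit 0) (nat_lit 496068337377) (nat_lit 304) (nat_lit 496069118978) (nat_lit 380) (nat_lit 332567633004) (nat_lit 266) (nat_lit 5) (nat_lit 270) (nat_lit 5) (nat_lit 271) (nat_lit 5) (nat_lit 467) (nat_lit 449) (nat_lit 104))) (XT.nd (nat_lit 78) (nat_lit 380) (nat_lit 0) (XT.lf (nat_lit 0) (nat_lit 1210371995952) (nat_lit 380) (nat_lit 75983267027) (nat_lit 76) (nat_lit 75982497445) (nat_lit 266) (nat_lit 5) (nat_lit 271) (nat_lit 5) (nat_lit 267) (nat_lit 5) (nat_lit 468) (nat_lit 449) (nat_lit 103)) (XT.lf (nat_lit 0) (nat_lit 56302805107) (nat_lit 380) (nat_lit 672264270856) (nat_lit 76) (nat_lit 672263477274) (nat_lit 261) (nat_lit 5) (nat_lit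 266) (nat_lit 5) (nat_lit 262) (nat_lit 5) (nat_lit 469) (nat_lit 449) (nat_lit 102)))))))
noncomputable def xc345 : XT := (XT.nd (nat_lit 52338) (nat_lit 0) (nat_lit 0) (XT.nd (nat_lit 51714) (nat_lit 0) (nat_lit 3648) (XT.nd (nat_lit 390) (nat_lit 380) (nat_lit 0) (XT.nd (nat_lit 234) (nat_lit 532) (nat_lit 0) (XT.nd (nat_lit 78) (nat_lit 0) (nat_lit 0) (XT.lf (nat_lit 0) (nat_lit 136659240079) (nat_lit 304) (nat_lit 136660056518) (nat_lit 380) (nat_lit 1167632050011) (nat_lit 257) (nat_lit 5) (nat_lit 261) (nat_lit 5) (nat_lit 262) (nat_lit 5) (nat_lit 470) (nat_lit 449) (nat_lit 101)) (XT.lf (nat_lit 0) (nat_lit 520328119255) (nat_lit 380) (nat_lit 480896891678) (nat_lit 76) (nat_lit 480896093385) (nat_lit 257) (nat_lit 5) (nat_lit 262) (nat_lit 5) (nat_lit 258) (nat_lit 5) (nat_lit 471) (nat_lit 449) (nat_lit 100))) (XT.nd (nat_lit 78) (nat_lit 228) (nat_lit 0) (XT.lf (nat_lit 0) (nat_lit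 1081298508143) (nat_lit 380) (nat_lit 243988550867) (nat_lit 76) (nat_lit 243987753874) (nat_lit 253) (nat_lit 5) (nat_lit 258) (nat_lit 5) (nat_lit 254) (nat_lit 5) (nat_lit 473) (nat_lit 449) (nat_lit 98)) (XT.lf (nat_lit 0) (nat_lit 703308832918) (nat_lit 228) (nat_lit 703309646968) (nat_lit 304) (nat_lit 208346654596) (nat_lit 250) (nat_lit 5) (nat_lit 253) (nat_lit 5) (nat_lit 254) (nat_lit 5) (nat_lit 474) (nat_lit 449) (nat_lit 97)))) (XT.nd (nat_lit 51168) (nat_lit 0) (nat_lit 3572) (XT.nd (nat_lit 78) (nat_lit 0) (nat_lit 0) (XT.lf (nat_lit 0) (nat_lit 43708431810) (nat_lit 304) (nat_lit 43709262104) (nat_lit 380) (nat_lit 1575211606792) (nat_lit 245) (nat_lit 5) (nat_lit 249) (nat_lit 5) (nat_lit 250) (nat_lit 5) (nat_lit 475) (nat_lit 449) (nat_lit 96)) (XT.lf (nat_lit 0) (nat_lit 416791585227) (nat_lit 380) (nat_lit 647211981299) (nat_lit 76) (nat_lit 647211175809) (nat_lit 245) (nat_lit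 5) (nat_lit 250) (nat_lit 5) (nat_lit 246) (nat_lit 5) (nat_lit 476) (nat_lit 449) (nat_lit 95))) (XT.nd (nat_lit 78) (nat_lit 0) (nat_lit 0) (XT.lf (nat_lit 0) (nat_lit 204357905275) (nat_lit 836) (nat_lit 115099580449) (nat_lit 836) (nat_lit 115099580449) (nat_lit 292) (nat_lit 3) (nat_lit 303) (nat_lit 3) (nat_lit 303) (nat_lit 5) (nat_lit 450) (nat_lit 450) (nat_lit 120)) (XT.lf (nat_lit 76) (nat_lit 211114900530) (nat_lit 0) (nat_lit 211114985867) (nat_lit 836) (nat_lit 468447290231) (nat_lit 293) (nat_lit 5) (nat_lit 292) (nat_lit 3) (nat_lit 303) (nat_lit 5) (nat_lit 451) (nat_lit 450) (nat_lit 119))))) (XT.nd (nat_lit 312) (nat_lit 0) (nat_lit 152) (XT.nd (nat_lit 156) (nat_lit 0) (nat_lit 76) (XT.nd (nat_lit 78) (nat_lit 0) (nat_lit 0) (XT.lf (nat_lit 0) (nat_lit 444099123079) (nat_lit 760) (nat_lit 234417717933) (nat_lit 836) (nat_lit 234417559258) (nat_lit 293) (nat_lit 5) (nat_lit 303)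 (nat_lit 5) (nat_lit 304) (nat_lit 5) (nat_lit 452) (nat_lit 450) (nat_lit 118)) (XT.lf (nat_lit 76) (nat_lit 237112235956) (nat_lit 0) (nat_lit 237112468347) (nat_lit 836) (nat_lit 461721636655) (nat_lit 294) (nat_lit 5) (nat_lit 293) (nat_lit 5) (nat_lit 304) (nat_lit 5) (nat_lit 453) (nat_lit 450) (nat_lit 117))) (XT.nd (nat_lit 78) (nat_lit 0) (nat_lit 0) (XT.lf (nat_lit 0) (nat_lit 513425765808) (nat_lit 760) (nat_lit 223152470500) (nat_lit 836) (nat_lit 223152182312) (nat_lit 294) (nat_lit 5) (nat_lit 304) (nat_lit 5) (nat_lit 305) (nat_lit 5) (nat_lit 454) (nat_lit 450) (nat_lit 116)) (XT.lf (nat_lit 76) (nat_lit 281433791816) (nat_lit 0) (nat_lit 281434143683) (nat_lit 836) (nat_lit 421421711909) (nat_lit 295) (nat_lit 5) (nat_lit 294) (nat_lit 5) (nat_lit 305) (nat_lit 5) (nat_lit 455) (nat_lit 450) (nat_lit 115)))) (XT.nd (nat_lit 156) (nat_lit 0) (nat_lit 76) (XT.nd (nat_lit 78) (nat_lit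 0) (nat_lit 0) (XT.lf (nat_lit 0) (nat_lit 621690761083) (nat_lit 760) (nat_lit 194020521027) (nat_lit 836) (nat_lit 194020128157) (nat_lit 295) (nat_lit 5) (nat_lit 305) (nat_lit 5) (nat_lit 306) (nat_lit 5) (nat_lit 456) (nat_lit 450) (nat_lit 114)) (XT.lf (nat_lit 76) (nat_lit 346740772714) (nat_lit 0) (nat_lit 346741220593) (nat_lit 836) (nat_lit 342461904692) (nat_lit 296) (nat_lit 5) (nat_lit 295) (nat_lit 5) (nat_lit 306) (nat_lit 5) (nat_lit 457) (nat_lit 450) (nat_lit 113))) (XT.nd (nat_lit 78) (nat_lit 0) (nat_lit 0) (XT.lf (nat_lit 0) (nat_lit 774476912083) (nat_lit 760) (nat_lit 144354934117) (nat_lit 836) (nat_lit 144354457672) (nat_lit 296) (nat_lit 5) (nat_lit 306) (nat_lit 5) (nat_lit 307) (nat_lit 5) (nat_lit 458) (nat_lit 450) (nat_lit 112)) (XT.lf (nat_lit 76) (nat_lit 436006305761) (nat_lit 0) (nat_lit 436006829724) (nat_lit 836) (nat_lit 219153116619) (nat_lit 297) (nat_lit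 5) (nat_lit 296) (nat_lit 5) (nat_lit 307) (nat_lit 5) (nat_lit 459) (nat_lit 450) (nat_lit 111)))))) (XT.nd (nat_lit 624) (nat_lit 1900) (nat_lit 0) (XT.nd (nat_lit 312) (nat_lit 760) (nat_lit 0) (XT.nd (nat_lit 156) (nat_lit 532) (nat_lit 0) (XT.nd (nat_lit 78) (nat_lit 760) (nat_lit 0) (XT.lf (nat_lit 0) (nat_lit 978018839981) (nat_lit 760) (nat_lit 71173633192) (nat_lit 76) (nat_lit 71173091078) (nat_lit 297) (nat_lit 5) (nat_lit 307) (nat_lit 5) (nat_lit 298) (nat_lit 5) (nat_lit 460) (nat_lit 450) (nat_lit 110)) (XT.lf (nat_lit 0) (nat_lit 552549370022) (nat_lit 760) (nat_lit 552549953183) (nat_lit 836) (nat_lit 45136794126) (nat_lit 287) (nat_lit 5) (nat_lit 297) (nat_lit 5) (nat_lit 298) (nat_lit 5) (nat_lit 461) (nat_lit 450) (nat_lit 109))) (XT.nd (nat_lit 78) (nat_lit 0) (nat_lit 0) (XT.lf (nat_lit 0) (nat_lit 28389567771) (nat_lit 456) (nat_lit 28390190026) (nat_lit 532) (nat_lit 1124692577736)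 (nat_lit 280) (nat_lit 5) (nat_lit 286) (nat_lit 5) (nat_lit 287) (nat_lit 5) (nat_lit 462) (nat_lit 450) (nat_lit 108)) (XT.lf (nat_lit 0) (nat_lit 180712824757) (nat_lit 532) (nat_lit 516299645806) (nat_lit 76) (nat_lit 516299017724) (nat_lit 280) (nat_lit 5) (nat_lit 287) (nat_lit 5) (nat_lit 281) (nat_lit 5) (nat_lit 463) (nat_lit 450) (nat_lit 107)))) (XT.nd (nat_lit 156) (nat_lit 380) (nat_lit 0) (XT.nd (nat_lit 78) (nat_lit 0) (nat_lit 0) (XT.lf (nat_lit 0) (nat_lit 156878301412) (nat_lit 380) (nat_lit 156878963265) (nat_lit 456) (nat_lit 932839598021) (nat_lit 275) (nat_lit 5) (nat_lit 280) (nat_lit 5) (nat_lit 281) (nat_lit 5) (nat_lit 464) (nat_lit 450) (nat_lit 106)) (XT.lf (nat_lit 0) (nat_lit 468746375868) (nat_lit 456) (nat_lit 406018084233) (nat_lit 76) (nat_lit 406017423266) (nat_lit 275) (nat_lit 5) (nat_lit 281) (nat_lit 5) (nat_lit 276) (nat_lit 5) (nat_lit 465) (nat_lit 450)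 (nat_lit 105))) (XT.nd (nat_lit 78) (nat_lit 0) (nat_lit 0) (XT.lf (nat_lit 0) (nat_lit 319522337445) (nat_lit 380) (nat_lit 319523027584) (nat_lit 456) (nat_lit 677252768920) (nat_lit 270) (nat_lit 5) (nat_lit 275) (nat_lit 5) (nat_lit 276) (nat_lit 5) (nat_lit 466) (nat_lit 450) (nat_lit 104)) (XT.lf (nat_lit 0) (nat_lit 828961805241) (nat_lit 456) (nat_lit 262036975237) (nat_lit 76) (nat_lit 262036291502) (nat_lit 270) (nat_lit 5) (nat_lit 276) (nat_lit 5) (nat_lit 271) (nat_lit 5) (nat_lit 467) (nat_lit 450) (nat_lit 103))))) (XT.nd (nat_lit 390) (nat_lit 912) (nat_lit 0) (XT.nd (nat_lit 156) (nat_lit 684) (nat_lit 0) (XT.nd (nat_lit 78) (nat_lit 0) (nat_lit 0) (XT.lf (nat_lit 0) (nat_lit 520871853769) (nat_lit 304) (nat_lit 520872562704) (nat_lit 380) (nat_lit 349195922989) (nat_lit 266) (nat_lit 5) (nat_lit 270) (nat_lit 5) (nat_lit 271) (nat_lit 5) (nat_lit 468) (nat_lit 450) (nat_lit 102))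 (XT.lf (nat_lit 0) (nat_lit 1270890679074) (nat_lit 380) (nat_lit 79782331619) (nat_lit 76) (nat_lit 79781633585) (nat_lit 266) (nat_lit 5) (nat_lit 271) (nat_lit 5) (nat_lit 267) (nat_lit 5) (nat_lit 469) (nat_lit 450) (nat_lit 101))) (XT.nd (nat_lit 78) (nat_lit 304) (nat_lit 0) (XT.lf (nat_lit 0) (nat_lit 59118027563) (nat_lit 380) (nat_lit 705877384514) (nat_lit 76) (nat_lit 705876664712) (nat_lit 261) (nat_lit 5) (nat_lit 266) (nat_lit 5) (nat_lit 262) (nat_lit 5) (nat_lit 470) (nat_lit 450) (nat_lit 100)) (XT.lf (nat_lit 0) (nat_lit 143492300356) (nat_lit 304) (nat_lit 143493040890) (nat_lit 380) (nat_lit 1226013568701) (nat_lit 257) (nat_lit 5) (nat_lit 261) (nat_lit 5) (nat_lit 262) (nat_lit 5) (nat_lit 471) (nat_lit 450) (nat_lit 99)))) (XT.nd (nat_lit 156) (nat_lit 608) (nat_lit 0) (XT.nd (nat_lit 78) (nat_lit 0) (nat_lit 0) (XT.lf (nat_lit 0) (nat_lit 413741545202) (nat_lit 304) (nat_lit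 413742287187) (nat_lit 380) (nat_lit 773692381011) (nat_lit 253) (nat_lit 5) (nat_lit 257) (nat_lit 5) (nat_lit 258) (nat_lit 5) (nat_lit 473) (nat_lit 450) (nat_lit 97)) (XT.lf (nat_lit 0) (nat_lit 1135363504490) (nat_lit 380) (nat_lit 256187884194) (nat_lit 76) (nat_lit 256187161297) (nat_lit 253) (nat_lit 5) (nat_lit 258) (nat_lit 5) (nat_lit 254) (nat_lit 5) (nat_lit 474) (nat_lit 450) (nat_lit 96))) (XT.nd (nat_lit 78) (nat_lit 380) (nat_lit 0) (XT.lf (nat_lit 0) (nat_lit 738474367261) (nat_lit 228) (nat_lit 738475105628) (nat_lit 304) (nat_lit 218763914866) (nat_lit 250) (nat_lit 5) (nat_lit 253) (nat_lit 5) (nat_lit 254) (nat_lit 5) (nat_lit 475) (nat_lit 450) (nat_lit 95)) (XT.nd (nat_lit 51168) (nat_lit 0) (nat_lit 3572) (XT.lf (nat_lit 0) (nat_lit 45893946884) (nat_lit 304) (nat_lit 45894699985) (nat_lit 380) (nat_lit 1653972115459) (nat_lit 245) (nat_lit 5) (nat_lit 249) (nat_lit 5)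 (nat_lit 250) (nat_lit 5) (nat_lit 476) (nat_lit 450) (nat_lit 94)) (XT.lf (nat_lit 0) (nat_lit 214575884543) (nat_lit 836) (nat_lit 120854515370) (nat_lit 836) (nat_lit 120854515370) (nat_lit 292) (nat_lit 3) (nat_lit 303) (nat_lit 3) (nat_lit 303) (nat_lit 5) (nat_lit 451) (nat_lit 451) (nat_lit 118))))))))
noncomputable def xc346 : XT := (XT.nd (nat_lit 53742) (nat_lit 0) (nat_lit 0) (XT.nd (nat_lit 1248) (nat_lit 1292) (nat_lit 0) (XT.nd (nat_lit 624) (nat_lit 1672) (nat_lit 0) (XT.nd (nat_lit 312) (nat_lit 0) (nat_lit 152) (XT.nd (nat_lit 156) (nat_lit 0) (nat_lit 76) (XT.nd (nat_lit 78) (nat_lit 0) (nat_lit 76) (XT.lf (nat_lit 76) (nat_lit 221670732338) (nat_lit 0) (nat_lit 221670809741) (nat_lit 836) (nat_lit 491869485313) (nat_lit 293) (nat_lit 5) (nat_lit 292) (nat_lit 3) (nat_lit 303) (nat_lit 5) (nat_lit 452) (nat_lit 451) (nat_lit 117)) (XT.lf (nat_lit 0) (nat_lit 466304231802) (nat_lit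 760) (nat_lit 246138512388) (nat_lit 836) (nat_lit 246138368465) (nat_lit 293) (nat_lit 5) (nat_lit 303) (nat_lit 5) (nat_lit 304) (nat_lit 5) (nat_lit 453) (nat_lit 451) (nat_lit 116))) (XT.nd (nat_lit 78) (nat_lit 0) (nat_lit 76) (XT.lf (nat_lit 76) (nat_lit 248967937720) (nat_lit 0) (nat_lit 248968148506) (nat_lit 836) (nat_lit 484807564444) (nat_lit 294) (nat_lit 5) (nat_lit 293) (nat_lit 5) (nat_lit 304) (nat_lit 5) (nat_lit 454) (nat_lit 451) (nat_lit 115)) (XT.lf (nat_lit 0) (nat_lit 539097192977) (nat_lit 760) (nat_lit 234310000512) (nat_lit 836) (nat_lit 234309739117) (nat_lit 294) (nat_lit 5) (nat_lit 304) (nat_lit 5) (nat_lit 305) (nat_lit 5) (nat_lit 455) (nat_lit 451) (nat_lit 114)))) (XT.nd (nat_lit 156) (nat_lit 0) (nat_lit 76) (XT.nd (nat_lit 78) (nat_lit 0) (nat_lit 76) (XT.lf (nat_lit 76) (nat_lit 295505573411) (nat_lit 0) (nat_lit 295505892565) (nat_lit 836) (nat_lit 442492657117)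 (nat_lit 295) (nat_lit 5) (nat_lit 294) (nat_lit 5) (nat_lit 305) (nat_lit 5) (nat_lit 456) (nat_lit 451) (nat_lit 113)) (XT.lf (nat_lit 0) (nat_lit 652775425852) (nat_lit 760) (nat_lit 203721452468) (nat_lit 836) (nat_lit 203721096123) (nat_lit 295) (nat_lit 5) (nat_lit 305) (nat_lit 5) (nat_lit 306) (nat_lit 5) (nat_lit 457) (nat_lit 451) (nat_lit 112))) (XT.nd (nat_lit 78) (nat_lit 0) (nat_lit 76) (XT.lf (nat_lit 76) (nat_lit 364077904434) (nat_lit 0) (nat_lit 364078310673) (nat_lit 836) (nat_lit 359584871686) (nat_lit 296) (nat_lit 5) (nat_lit 295) (nat_lit 5) (nat_lit 306) (nat_lit 5) (nat_lit 458) (nat_lit 451) (nat_lit 111)) (XT.lf (nat_lit 0) (nat_lit 813200873574) (nat_lit 760) (nat_lit 151572585924) (nat_lit 836) (nat_lit 151572153774) (nat_lit 296) (nat_lit 5) (nat_lit 306) (nat_lit 5) (nat_lit 307) (nat_lit 5) (nat_lit 459) (nat_lit 451) (nat_lit 110))))) (XT.nd (nat_lit 312) (nat_lit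 760) (nat_lit 0) (XT.nd (nat_lit 156) (nat_lit 1216) (nat_lit 0) (XT.nd (nat_lit 78) (nat_lit 0) (nat_lit 76) (XT.lf (nat_lit 76) (nat_lit 457806714417) (nat_lit 0) (nat_lit 457807189668) (nat_lit 836) (nat_lit 230110655032) (nat_lit 297) (nat_lit 5) (nat_lit 296) (nat_lit 5) (nat_lit 307) (nat_lit 5) (nat_lit 460) (nat_lit 451) (nat_lit 109)) (XT.lf (nat_lit 0) (nat_lit 1026919888206) (nat_lit 760) (nat_lit 74732220329) (nat_lit 76) (nat_lit 74731728617) (nat_lit 297) (nat_lit 5) (nat_lit 307) (nat_lit 5) (nat_lit 298) (nat_lit 5) (nat_lit 461) (nat_lit 451) (nat_lit 108))) (XT.nd (nat_lit 78) (nat_lit 532) (nat_lit 0) (XT.lf (nat_lit 0) (nat_lit 580176931520) (nat_lit 760) (nat_lit 580177460465) (nat_lit 836) (nat_lit 47393526081) (nat_lit 287) (nat_lit 5) (nat_lit 297) (nat_lit 5) (nat_lit 298) (nat_lit 5) (nat_lit 462) (nat_lit 451) (nat_lit 107)) (XT.lf (nat_lit 0) (nat_lit 29809141050) (nat_lit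 456) (nat_lit 29809705453) (nat_lit 532) (nat_lit 1180927100765) (nat_lit 280) (nat_lit 5) (nat_lit 286) (nat_lit 5) (nat_lit 287) (nat_lit 5) (nat_lit 463) (nat_lit 451) (nat_lit 106)))) (XT.nd (nat_lit 156) (nat_lit 380) (nat_lit 0) (XT.nd (nat_lit 78) (nat_lit 380) (nat_lit 0) (XT.lf (nat_lit 0) (nat_lit 189748561923) (nat_lit 532) (nat_lit 542114532836) (nat_lit 76) (nat_lit 542113963146) (nat_lit 280) (nat_lit 5) (nat_lit 287) (nat_lit 5) (nat_lit 281) (nat_lit 5) (nat_lit 464) (nat_lit 451) (nat_lit 105)) (XT.lf (nat_lit 0) (nat_lit 164722310207) (nat_lit 380) (nat_lit 164722910528) (nat_lit 456) (nat_lit 979481480458) (nat_lit 275) (nat_lit 5) (nat_lit 280) (nat_lit 5) (nat_lit 281) (nat_lit 5) (nat_lit 465) (nat_lit 451) (nat_lit 104))) (XT.nd (nat_lit 78) (nat_lit 380) (nat_lit 0) (XT.lf (nat_lit 0) (nat_lit 492183783078) (nat_lit 456) (nat_lit 426318894777) (nat_lit 76) (nat_lit 426318295261)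 (nat_lit 275) (nat_lit 5) (nat_lit 281) (nat_lit 5) (nat_lit 276) (nat_lit 5) (nat_lit 466) (nat_lit 451) (nat_lit 103)) (XT.lf (nat_lit 0) (nat_lit 335498546474) (nat_lit 380) (nat_lit 335499172451) (nat_lit 456) (nat_lit 711115317439) (nat_lit 270) (nat_lit 5) (nat_lit 275) (nat_lit 5) (nat_lit 276) (nat_lit 5) (nat_lit 467) (nat_lit 451) (nat_lit 102)))))) (XT.nd (nat_lit 51870) (nat_lit 0) (nat_lit 2964) (XT.nd (nat_lit 312) (nat_lit 608) (nat_lit 0) (XT.nd (nat_lit 156) (nat_lit 380) (nat_lit 0) (XT.nd (nat_lit 78) (nat_lit 304) (nat_lit 0) (XT.lf (nat_lit 0) (nat_lit 870409977166) (nat_lit 456) (nat_lit 275138732249) (nat_lit 76) (nat_lit 275138112081) (nat_lit 270) (nat_lit 5) (nat_lit 276) (nat_lit 5) (nat_lit 271) (nat_lit 5) (nat_lit 468) (nat_lit 451) (nat_lit 101)) (XT.lf (nat_lit 0) (nat_lit 546915536728) (nat_lit 304) (nat_lit 546916179753) (nat_lit 380) (nat_lit 366655635995) (nat_lit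 266) (nat_lit 5) (nat_lit 270) (nat_lit 5) (nat_lit 271) (nat_lit 5) (nat_lit 469) (nat_lit 451) (nat_lit 100))) (XT.nd (nat_lit 78) (nat_lit 380) (nat_lit 0) (XT.lf (nat_lit 0) (nat_lit 1334435288606) (nat_lit 380) (nat_lit 83771358622) (nat_lit 76) (nat_lit 83770725485) (nat_lit 266) (nat_lit 5) (nat_lit 271) (nat_lit 5) (nat_lit 267) (nat_lit 5) (nat_lit 470) (nat_lit 451) (nat_lit 99)) (XT.lf (nat_lit 0) (nat_lit 62074003499) (nat_lit 380) (nat_lit 741171163141) (nat_lit 76) (nat_lit 741170510260) (nat_lit 261) (nat_lit 5) (nat_lit 266) (nat_lit 5) (nat_lit 262) (nat_lit 5) (nat_lit 471) (nat_lit 451) (nat_lit 98)))) (XT.nd (nat_lit 156) (nat_lit 304) (nat_lit 0) (XT.nd (nat_lit 78) (nat_lit 0) (nat_lit 0) (XT.lf (nat_lit 0) (nat_lit 150667004511) (nat_lit 304) (nat_lit 150667676197) (nat_lit 380) (nat_lit 1287314171117) (nat_lit 257) (nat_lit 5) (nat_lit 261) (nat_lit 5) (nat_lit 262) (nat_lit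 5) (nat_lit 472) (nat_lit 451) (nat_lit 97)) (XT.lf (nat_lit 0) (nat_lit 573661900787) (nat_lit 380) (nat_lit 530188633008) (nat_lit 76) (nat_lit 530187976250) (nat_lit 257) (nat_lit 5) (nat_lit 262) (nat_lit 5) (nat_lit 258) (nat_lit 5) (nat_lit 473) (nat_lit 451) (nat_lit 96))) (XT.nd (nat_lit 78) (nat_lit 0) (nat_lit 0) (XT.lf (nat_lit 0) (nat_lit 434428709133) (nat_lit 304) (nat_lit 434429382134) (nat_lit 380) (nat_lit 812376929440) (nat_lit 253) (nat_lit 5) (nat_lit 257) (nat_lit 5) (nat_lit 258) (nat_lit 5) (nat_lit 474) (nat_lit 451) (nat_lit 95)) (XT.lf (nat_lit 0) (nat_lit 1192131744059) (nat_lit 380) (nat_lit 268997192946) (nat_lit 76) (nat_lit 268996537258) (nat_lit 253) (nat_lit 5) (nat_lit 258) (nat_lit 5) (nat_lit 254) (nat_lit 5) (nat_lit 475) (nat_lit 451) (nat_lit 94))))) (XT.nd (nat_lit 312) (nat_lit 0) (nat_lit 152) (XT.nd (nat_lit 156) (nat_lit 0) (nat_lit 76) (XT.nd (nat_lit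 78) (nat_lit 0) (nat_lit 0) (XT.lf (nat_lit 0) (nat_lit 225304754964) (nat_lit 836) (nat_lit 126897201136) (nat_lit 836) (nat_lit 126897201136) (nat_lit 292) (nat_lit 3) (nat_lit 303) (nat_lit 3) (nat_lit 303) (nat_lit 5) (nat_lit 452) (nat_lit 452) (nat_lit 116)) (XT.lf (nat_lit 76) (nat_lit 232754347668) (nat_lit 0) (nat_lit 232754417875) (nat_lit 836) (nat_lit 516462805900) (nat_lit 293) (nat_lit 5) (nat_lit 292) (nat_lit 3) (nat_lit 303) (nat_lit 5) (nat_lit 453) (nat_lit 452) (nat_lit 115))) (XT.nd (nat_lit 78) (nat_lit 0) (nat_lit 0) (XT.lf (nat_lit 0) (nat_lit 489619581777) (nat_lit 760) (nat_lit 258445355067) (nat_lit 836) (nat_lit 258445224525) (nat_lit 293) (nat_lit 5) (nat_lit 303) (nat_lit 5) (nat_lit 304) (nat_lit 5) (nat_lit 454) (nat_lit 452) (nat_lit 114)) (XT.lf (nat_lit 76) (nat_lit 261416416209) (nat_lit 0) (nat_lit 261416607398) (nat_lit 836) (nat_lit 509047802944) (nat_lit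 294) (nat_lit 5) (nat_lit 293) (nat_lit 5) (nat_lit 304) (nat_lit 5) (nat_lit 455) (nat_lit 452) (nat_lit 113)))) (XT.nd (nat_lit 156) (nat_lit 0) (nat_lit 76) (XT.nd (nat_lit 78) (nat_lit 0) (nat_lit 0) (XT.lf (nat_lit 0) (nat_lit 566052178593) (nat_lit 760) (nat_lit 246025415719) (nat_lit 836) (nat_lit 246025178626) (nat_lit 294) (nat_lit 5) (nat_lit 304) (nat_lit 5) (nat_lit 305) (nat_lit 5) (nat_lit 456) (nat_lit 452) (nat_lit 112)) (XT.lf (nat_lit 76) (nat_lit 310280935533) (nat_lit 0) (nat_lit 310281225014) (nat_lit 836) (nat_lit 464617162638) (nat_lit 295) (nat_lit 5) (nat_lit 294) (nat_lit 5) (nat_lit 305) (nat_lit 5) (nat_lit 457) (nat_lit 452) (nat_lit 111))) (XT.nd (nat_lit 78) (nat_lit 0) (nat_lit 0) (XT.lf (nat_lit 0) (nat_lit 685414312079) (nat_lit 760) (nat_lit 213907439278) (nat_lit 836) (nat_lit 213907116063) (nat_lit 295) (nat_lit 5) (nat_lit 305) (nat_lit 5) (nat_lit 306) (nat_lit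 5) (nat_lit 458) (nat_lit 452) (nat_lit 110)) (XT.lf (nat_lit 76) (nat_lit 382281884086) (nat_lit 0) (nat_lit 382282252556) (nat_lit 836) (nat_lit 377563998951) (nat_lit 296) (nat_lit 5) (nat_lit 295) (nat_lit 5) (nat_lit 306) (nat_lit 5) (nat_lit 459) (nat_lit 452) (nat_lit 109))))))) (XT.nd (nat_lit 52572) (nat_lit 0) (nat_lit 1672) (XT.nd (nat_lit 624) (nat_lit 1672) (nat_lit 0) (XT.nd (nat_lit 312) (nat_lit 912) (nat_lit 0) (XT.nd (nat_lit 156) (nat_lit 684) (nat_lit 0) (XT.nd (nat_lit 78) (nat_lit 0) (nat_lit 0) (XT.lf (nat_lit 0) (nat_lit 853861022365) (nat_lit 760) (nat_lit 159151129144) (nat_lit 836) (nat_lit 159150737171) (nat_lit 296) (nat_lit 5) (nat_lit 306) (nat_lit 5) (nat_lit 307) (nat_lit 5) (nat_lit 460) (nat_lit 452) (nat_lit 108)) (XT.lf (nat_lit 76) (nat_lit 480697134826) (nat_lit 0) (nat_lit 480697565893) (nat_lit 836) (nat_lit 241616081283) (nat_lit 297) (nat_lit 5) (nat_lit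 296) (nat_lit 5) (nat_lit 307) (nat_lit 5) (nat_lit 461) (nat_lit 452) (nat_lit 107))) (XT.nd (nat_lit 78) (nat_lit 760) (nat_lit 0) (XT.lf (nat_lit 0) (nat_lit 1078265978967) (nat_lit 760) (nat_lit 78468745612) (nat_lit 76) (nat_lit 78468299614) (nat_lit 297) (nat_lit 5) (nat_lit 307) (nat_lit 5) (nat_lit 298) (nat_lit 5) (nat_lit 462) (nat_lit 452) (nat_lit 106)) (XT.lf (nat_lit 0) (nat_lit 609185862448) (nat_lit 760) (nat_lit 609186342216) (nat_lit 836) (nat_lit 49763104652) (nat_lit 287) (nat_lit 5) (nat_lit 297) (nat_lit 5) (nat_lit 298) (nat_lit 5) (nat_lit 463) (nat_lit 452) (nat_lit 105)))) (XT.nd (nat_lit 156) (nat_lit 380) (nat_lit 0) (XT.nd (nat_lit 78) (nat_lit 0) (nat_lit 0) (XT.lf (nat_lit 0) (nat_lit 31299684171) (nat_lit 456) (nat_lit 31300196101) (nat_lit 532) (nat_lit 1239973359787) (nat_lit 280) (nat_lit 5) (nat_lit 286) (nat_lit 5) (nat_lit 287) (nat_lit 5) (nat_lit 464) (nat_lit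 452) (nat_lit 104)) (XT.lf (nat_lit 0) (nat_lit 199236077029) (nat_lit 532) (nat_lit 569220173073) (nat_lit 76) (nat_lit 569219656348) (nat_lit 280) (nat_lit 5) (nat_lit 287) (nat_lit 5) (nat_lit 281) (nat_lit 5) (nat_lit 465) (nat_lit 452) (nat_lit 103))) (XT.nd (nat_lit 78) (nat_lit 0) (nat_lit 0) (XT.lf (nat_lit 0) (nat_lit 172958510729) (nat_lit 380) (nat_lit 172959055237) (nat_lit 456) (nat_lit 1028455466078) (nat_lit 275) (nat_lit 5) (nat_lit 280) (nat_lit 5) (nat_lit 281) (nat_lit 5) (nat_lit 466) (nat_lit 452) (nat_lit 102)) (XT.lf (nat_lit 0) (nat_lit 516793052428) (nat_lit 456) (nat_lit 447634754556) (nat_lit 76) (nat_lit 447634210777) (nat_lit 275) (nat_lit 5) (nat_lit 281) (nat_lit 5) (nat_lit 276) (nat_lit 5) (nat_lit 467) (nat_lit 452) (nat_lit 101))))) (XT.nd (nat_lit 312) (nat_lit 988) (nat_lit 0) (XT.nd (nat_lit 156) (nat_lit 304) (nat_lit 0) (XT.nd (nat_lit 78) (nat_lit 0) (nat_lit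 0) (XT.lf (nat_lit 0) (nat_lit 352273557388) (nat_lit 380) (nat_lit 352274125167) (nat_lit 456) (nat_lit 746671001744) (nat_lit 270) (nat_lit 5) (nat_lit 275) (nat_lit 5) (nat_lit 276) (nat_lit 5) (nat_lit 468) (nat_lit 452) (nat_lit 100)) (XT.lf (nat_lit 0) (nat_lit 913930550096) (nat_lit 456) (nat_lit 288895585641) (nat_lit 76) (nat_lit 288895023130) (nat_lit 270) (nat_lit 5) (nat_lit 276) (nat_lit 5) (nat_lit 271) (nat_lit 5) (nat_lit 469) (nat_lit 452) (nat_lit 99))) (XT.nd (nat_lit 78) (nat_lit 0) (nat_lit 0) (XT.lf (nat_lit 0) (nat_lit 574261395442) (nat_lit 304) (nat_lit 574261978685) (nat_lit 380) (nat_lit 384988342381) (nat_lit 266) (nat_lit 5) (nat_lit 270) (nat_lit 5) (nat_lit 271) (nat_lit 5) (nat_lit 470) (nat_lit 452) (nat_lit 98)) (XT.lf (nat_lit 0) (nat_lit 1401157121589) (nat_lit 380) (nat_lit 87959845303) (nat_lit 76) (nat_lit 87959271029) (nat_lit 266) (nat_lit 5) (nat_lit 271)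 (nat_lit 5) (nat_lit 267) (nat_lit 5) (nat_lit 471) (nat_lit 452) (nat_lit 97)))) (XT.nd (nat_lit 156) (nat_lit 304) (nat_lit 0) (XT.nd (nat_lit 78) (nat_lit 304) (nat_lit 0) (XT.lf (nat_lit 0) (nat_lit 65177771300) (nat_lit 380) (nat_lit 778229639123) (nat_lit 76) (nat_lit 778229046940) (nat_lit 261) (nat_lit 5) (nat_lit 266) (nat_lit 5) (nat_lit 262) (nat_lit 5) (nat_lit 472) (nat_lit 452) (nat_lit 96)) (XT.lf (nat_lit 0) (nat_lit 158200435586) (nat_lit 304) (nat_lit 158201044826) (nat_lit 380) (nat_lit 1351679810721) (nat_lit 257) (nat_lit 5) (nat_lit 261) (nat_lit 5) (nat_lit 262) (nat_lit 5) (nat_lit 473) (nat_lit 452) (nat_lit 95))) (XT.nd (nat_lit 78) (nat_lit 304) (nat_lit 0) (XT.lf (nat_lit 0) (nat_lit 602345058594) (nat_lit 380) (nat_lit 556697984757) (nat_lit 76) (nat_lit 556697389058) (nat_lit 257) (nat_lit 5) (nat_lit 262) (nat_lit 5) (nat_lit 258) (nat_lit 5) (nat_lit 474) (nat_lit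 452) (nat_lit 94)) (XT.lf (nat_lit 0) (nat_lit 456150223202) (nat_lit 304) (nat_lit 456150833634) (nat_lit 380) (nat_lit 852995711857) (nat_lit 253) (nat_lit 5) (nat_lit 257) (nat_lit 5) (nat_lit 258) (nat_lit 5) (nat_lit 475) (nat_lit 452) (nat_lit 93)))))) (XT.nd (nat_lit 624) (nat_lit 1292) (nat_lit 0) (XT.nd (nat_lit 312) (nat_lit 0) (nat_lit 152) (XT.nd (nat_lit 156) (nat_lit 0) (nat_lit 76) (XT.nd (nat_lit 78) (nat_lit 0) (nat_lit 0) (XT.lf (nat_lit 0) (nat_lit 236570061822) (nat_lit 836) (nat_lit 133242024910) (nat_lit 836) (nat_lit 133242024910) (nat_lit 292) (nat_lit 3) (nat_lit 303) (nat_lit 3) (nat_lit 303) (nat_lit 5) (nat_lit 453) (nat_lit 453) (nat_lit 114)) (XT.lf (nat_lit 76) (nat_lit 244392136447) (nat_lit 0) (nat_lit 244392200126) (nat_lit 836) (nat_lit 542285806805) (nat_lit 293) (nat_lit 5) (nat_lit 292) (nat_lit 3) (nat_lit 303) (nat_lit 5) (nat_lit 454) (nat_lit 453) (nat_lit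 113))) (XT.nd (nat_lit 78) (nat_lit 0) (nat_lit 0) (XT.lf (nat_lit 0) (nat_lit 514100686385) (nat_lit 760) (nat_lit 271367547591) (nat_lit 836) (nat_lit 271367429185) (nat_lit 293) (nat_lit 5) (nat_lit 303) (nat_lit 5) (nat_lit 304) (nat_lit 5) (nat_lit 455) (nat_lit 453) (nat_lit 112)) (XT.lf (nat_lit 76) (nat_lit 274487311035) (nat_lit 0) (nat_lit 274487484449) (nat_lit 836) (nat_lit 534500066359) (nat_lit 294) (nat_lit 5) (nat_lit 293) (nat_lit 5) (nat_lit 304) (nat_lit 5) (nat_lit 456) (nat_lit 453) (nat_lit 111)))) (XT.nd (nat_lit 156) (nat_lit 0) (nat_lit 76) (XT.nd (nat_lit 78) (nat_lit 0) (nat_lit 0) (XT.lf (nat_lit 0) (nat_lit 594354901779) (nat_lit 760) (nat_lit 258326609572) (nat_lit 836) (nat_lit 258326394522) (nat_lit 294) (nat_lit 5) (nat_lit 304) (nat_lit 5) (nat_lit 305) (nat_lit 5) (nat_lit 457) (nat_lit 453) (nat_lit 110)) (XT.lf (nat_lit 76) (nat_lit 325795058001) (nat_lit 0)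 (nat_lit 325795320570) (nat_lit 836) (nat_lit 487847905273) (nat_lit 295) (nat_lit 5) (nat_lit 294) (nat_lit 5) (nat_lit 305) (nat_lit 5) (nat_lit 458) (nat_lit 453) (nat_lit 109))) (XT.nd (nat_lit 78) (nat_lit 0) (nat_lit 0) (XT.lf (nat_lit 0) (nat_lit 719685131932) (nat_lit 760) (nat_lit 224602733406) (nat_lit 836) (nat_lit 224602440240) (nat_lit 295) (nat_lit 5) (nat_lit 305) (nat_lit 5) (nat_lit 306) (nat_lit 5) (nat_lit 459) (nat_lit 453) (nat_lit 108)) (XT.lf (nat_lit 76) (nat_lit 401396054870) (nat_lit 0) (nat_lit 401396389084) (nat_lit 836) (nat_lit 396442093395) (nat_lit 296) (nat_lit 5) (nat_lit 295) (nat_lit 5) (nat_lit 306) (nat_lit 5) (nat_lit 460) (nat_lit 453) (nat_lit 107))))) (XT.nd (nat_lit 312) (nat_lit 912) (nat_lit 0) (XT.nd (nat_lit 156) (nat_lit 684) (nat_lit 0) (XT.nd (nat_lit 78) (nat_lit 0) (nat_lit 0) (XT.lf (nat_lit 0) (nat_lit 896554168824) (nat_lit 760) (nat_lit 167108607527)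 (nat_lit 836) (nat_lit 167108251996) (nat_lit 296) (nat_lit 5) (nat_lit 306) (nat_lit 5) (nat_lit 307) (nat_lit 5) (nat_lit 461) (nat_lit 453) (nat_lit 106)) (XT.lf (nat_lit 76) (nat_lit 504732068382) (nat_lit 0) (nat_lit 504732459372) (nat_lit 836) (nat_lit 253696788748) (nat_lit 297) (nat_lit 5) (nat_lit 296) (nat_lit 5) (nat_lit 307) (nat_lit 5) (nat_lit 462) (nat_lit 453) (nat_lit 105))) (XT.nd (nat_lit 78) (nat_lit 760) (nat_lit 0) (XT.lf (nat_lit 0) (nat_lit 1132179365308) (nat_lit 760) (nat_lit 82392105129) (nat_lit 76) (nat_lit 82391700596) (nat_lit 297) (nat_lit 5) (nat_lit 307) (nat_lit 5) (nat_lit 298) (nat_lit 5) (nat_lit 463) (nat_lit 453) (nat_lit 104)) (XT.lf (nat_lit 0) (nat_lit 639645232079) (nat_lit 760) (nat_lit 639645667243) (nat_lit 836) (nat_lit 52251171238) (nat_lit 287) (nat_lit 5) (nat_lit 297) (nat_lit 5) (nat_lit 298) (nat_lit 5) (nat_lit 464) (nat_lit 453) (nat_lit 103))))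 (XT.nd (nat_lit 156) (nat_lit 380) (nat_lit 0) (XT.nd (nat_lit 78) (nat_lit 0) (nat_lit 0) (XT.lf (nat_lit 0) (nat_lit 32864746446) (nat_lit 456) (nat_lit 32865210782) (nat_lit 532) (nat_lit 1301971940687) (nat_lit 280) (nat_lit 5) (nat_lit 286) (nat_lit 5) (nat_lit 287) (nat_lit 5) (nat_lit 465) (nat_lit 453) (nat_lit 102)) (XT.lf (nat_lit 0) (nat_lit 209197959800) (nat_lit 532) (nat_lit 597681103356) (nat_lit 76) (nat_lit 597680634671) (nat_lit 280) (nat_lit 5) (nat_lit 287) (nat_lit 5) (nat_lit 281) (nat_lit 5) (nat_lit 466) (nat_lit 453) (nat_lit 101))) (XT.nd (nat_lit 78) (nat_lit 0) (nat_lit 0) (XT.lf (nat_lit 0) (nat_lit 181606513372) (nat_lit 380) (nat_lit 181607007257) (nat_lit 456) (nat_lit 1079878159197) (nat_lit 275) (nat_lit 5) (nat_lit 280) (nat_lit 5) (nat_lit 281) (nat_lit 5) (nat_lit 467) (nat_lit 453) (nat_lit 100)) (XT.lf (nat_lit 0) (nat_lit 542632777790) (nat_lit 456) (nat_lit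 470016415223) (nat_lit 76) (nat_lit 470015921999) (nat_lit 275) (nat_lit 5) (nat_lit 281) (nat_lit 5) (nat_lit 276) (nat_lit 5) (nat_lit 468) (nat_lit 453) (nat_lit 99))))))))
noncomputable def xc347 : XT := (XT.nd (nat_lit 52650) (nat_lit 0) (nat_lit 0) (XT.nd (nat_lit 52026) (nat_lit 0) (nat_lit 2660) (XT.nd (nat_lit 312) (nat_lit 684) (nat_lit 0) (XT.nd (nat_lit 156) (nat_lit 304) (nat_lit 0) (XT.nd (nat_lit 78) (nat_lit 0) (nat_lit 0) (XT.lf (nat_lit 0) (nat_lit 369887311075) (nat_lit 380) (nat_lit 369887826067) (nat_lit 456) (nat_lit 784004477848) (nat_lit 270) (nat_lit 5) (nat_lit 275) (nat_lit 5) (nat_lit 276) (nat_lit 5) (nat_lit 469) (nat_lit 453) (nat_lit 98)) (XT.lf (nat_lit 0) (nat_lit 959627144785) (nat_lit 456) (nat_lit 303340289440) (nat_lit 76) (nat_lit 303339779226) (nat_lit 270) (nat_lit 5) (nat_lit 276) (nat_lit 5) (nat_lit 271) (nat_lit 5) (nat_lit 470) (nat_lit 453) (nat_lit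 97))) (XT.nd (nat_lit 78) (nat_lit 0) (nat_lit 0) (XT.lf (nat_lit 0) (nat_lit 602974539480) (nat_lit 304) (nat_lit 602975068499) (nat_lit 380) (nat_lit 404237691098) (nat_lit 266) (nat_lit 5) (nat_lit 270) (nat_lit 5) (nat_lit 271) (nat_lit 5) (nat_lit 471) (nat_lit 453) (nat_lit 96)) (XT.lf (nat_lit 0) (nat_lit 1471215039846) (nat_lit 380) (nat_lit 92357763873) (nat_lit 76) (nat_lit 92357242989) (nat_lit 266) (nat_lit 5) (nat_lit 271) (nat_lit 5) (nat_lit 267) (nat_lit 5) (nat_lit 472) (nat_lit 453) (nat_lit 95)))) (XT.nd (nat_lit 156) (nat_lit 0) (nat_lit 0) (XT.nd (nat_lit 78) (nat_lit 304) (nat_lit 0) (XT.lf (nat_lit 0) (nat_lit 68436721204) (nat_lit 380) (nat_lit 817141046544) (nat_lit 76) (nat_lit 817140509417) (nat_lit 261) (nat_lit 5) (nat_lit 266) (nat_lit 5) (nat_lit 262) (nat_lit 5) (nat_lit 473) (nat_lit 453) (nat_lit 94)) (XT.lf (nat_lit 0) (nat_lit 166110530699) (nat_lit 304) (nat_lit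 166111083297) (nat_lit 380) (nat_lit 1419263738716) (nat_lit 257) (nat_lit 5) (nat_lit 261) (nat_lit 5) (nat_lit 262) (nat_lit 5) (nat_lit 474) (nat_lit 453) (nat_lit 93))) (XT.nd (nat_lit 51480) (nat_lit 0) (nat_lit 2660) (XT.lf (nat_lit 0) (nat_lit 632462368455) (nat_lit 380) (nat_lit 584532811522) (nat_lit 76) (nat_lit 584532271206) (nat_lit 257) (nat_lit 5) (nat_lit 262) (nat_lit 5) (nat_lit 258) (nat_lit 5) (nat_lit 475) (nat_lit 453) (nat_lit 92)) (XT.lf (nat_lit 0) (nat_lit 248398627598) (nat_lit 836) (nat_lit 139904093246) (nat_lit 836) (nat_lit 139904093246) (nat_lit 292) (nat_lit 3) (nat_lit 303) (nat_lit 3) (nat_lit 303) (nat_lit 5) (nat_lit 454) (nat_lit 454) (nat_lit 112))))) (XT.nd (nat_lit 312) (nat_lit 0) (nat_lit 152) (XT.nd (nat_lit 156) (nat_lit 0) (nat_lit 76) (XT.nd (nat_lit 78) (nat_lit 0) (nat_lit 76) (XT.lf (nat_lit 76) (nat_lit 256611808027) (nat_lit 0) (nat_lit 256611865786)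 (nat_lit 836) (nat_lit 569399970714) (nat_lit 293) (nat_lit 5) (nat_lit 292) (nat_lit 3) (nat_lit 303) (nat_lit 5) (nat_lit 455) (nat_lit 454) (nat_lit 111)) (XT.lf (nat_lit 0) (nat_lit 539805834553) (nat_lit 760) (nat_lit 284935856735) (nat_lit 836) (nat_lit 284935749338) (nat_lit 293) (nat_lit 5) (nat_lit 303) (nat_lit 5) (nat_lit 304) (nat_lit 5) (nat_lit 456) (nat_lit 454) (nat_lit 110))) (XT.nd (nat_lit 78) (nat_lit 0) (nat_lit 76) (XT.lf (nat_lit 76) (nat_lit 288211743722) (nat_lit 0) (nat_lit 288211901013) (nat_lit 836) (nat_lit 561224954727) (nat_lit 294) (nat_lit 5) (nat_lit 293) (nat_lit 5) (nat_lit 304) (nat_lit 5) (nat_lit 457) (nat_lit 454) (nat_lit 109)) (XT.lf (nat_lit 0) (nat_lit 624072750501) (nat_lit 760) (nat_lit 271242870270) (nat_lit 836) (nat_lit 271242675213) (nat_lit 294) (nat_lit 5) (nat_lit 304) (nat_lit 5) (nat_lit 305) (nat_lit 5) (nat_lit 458) (nat_lit 454) (nat_lit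 108)))) (XT.nd (nat_lit 156) (nat_lit 0) (nat_lit 76) (XT.nd (nat_lit 78) (nat_lit 0) (nat_lit 76) (XT.lf (nat_lit 76) (nat_lit 342084879556) (nat_lit 0) (nat_lit 342085117714) (nat_lit 836) (nat_lit 512240195778) (nat_lit 295) (nat_lit 5) (nat_lit 294) (nat_lit 5) (nat_lit 305) (nat_lit 5) (nat_lit 459) (nat_lit 454) (nat_lit 107)) (XT.lf (nat_lit 0) (nat_lit 755669483085) (nat_lit 760) (nat_lit 235832799477) (nat_lit 836) (nat_lit 235832533567) (nat_lit 295) (nat_lit 5) (nat_lit 305) (nat_lit 5) (nat_lit 306) (nat_lit 5) (nat_lit 460) (nat_lit 454) (nat_lit 106))) (XT.nd (nat_lit 78) (nat_lit 0) (nat_lit 76) (XT.lf (nat_lit 76) (nat_lit 421465927074) (nat_lit 0) (nat_lit 421466230216) (nat_lit 836) (nat_lit 416264102369) (nat_lit 296) (nat_lit 5) (nat_lit 295) (nat_lit 5) (nat_lit 306) (nat_lit 5) (nat_lit 461) (nat_lit 454) (nat_lit 105)) (XT.lf (nat_lit 0) (nat_lit 941381963741) (nat_lit 760)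 (nat_lit 175463967088) (nat_lit 836) (nat_lit 175463644611) (nat_lit 296) (nat_lit 5) (nat_lit 306) (nat_lit 5) (nat_lit 307) (nat_lit 5) (nat_lit 462) (nat_lit 454) (nat_lit 104)))))) (XT.nd (nat_lit 624) (nat_lit 988) (nat_lit 0) (XT.nd (nat_lit 312) (nat_lit 760) (nat_lit 0) (XT.nd (nat_lit 156) (nat_lit 1216) (nat_lit 0) (XT.nd (nat_lit 78) (nat_lit 0) (nat_lit 76) (XT.lf (nat_lit 76) (nat_lit 529968741475) (nat_lit 0) (nat_lit 529969096114) (nat_lit 836) (nat_lit 266381540567) (nat_lit 297) (nat_lit 5) (nat_lit 296) (nat_lit 5) (nat_lit 307) (nat_lit 5) (nat_lit 463) (nat_lit 454) (nat_lit 103)) (XT.lf (nat_lit 0) (nat_lit 1188788412841) (nat_lit 760) (nat_lit 86511639852) (nat_lit 76) (nat_lit 86511272928) (nat_lit 297) (nat_lit 5) (nat_lit 307) (nat_lit 5) (nat_lit 298) (nat_lit 5) (nat_lit 464) (nat_lit 454) (nat_lit 102))) (XT.nd (nat_lit 78) (nat_lit 532) (nat_lit 0) (XT.lf (nat_lit 0)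 (nat_lit 671627563079) (nat_lit 760) (nat_lit 671627957786) (nat_lit 836) (nat_lit 54863649394) (nat_lit 287) (nat_lit 5) (nat_lit 297) (nat_lit 5) (nat_lit 298) (nat_lit 5) (nat_lit 465) (nat_lit 454) (nat_lit 101)) (XT.lf (nat_lit 0) (nat_lit 34508054577) (nat_lit 456) (nat_lit 34508475744) (nat_lit 532) (nat_lit 1367070458729) (nat_lit 280) (nat_lit 5) (nat_lit 286) (nat_lit 5) (nat_lit 287) (nat_lit 5) (nat_lit 466) (nat_lit 454) (nat_lit 100)))) (XT.nd (nat_lit 156) (nat_lit 380) (nat_lit 0) (XT.nd (nat_lit 78) (nat_lit 380) (nat_lit 0) (XT.lf (nat_lit 0) (nat_lit 219657929373) (nat_lit 532) (nat_lit 627565087438) (nat_lit 76) (nat_lit 627564662327) (nat_lit 280) (nat_lit 5) (nat_lit 287) (nat_lit 5) (nat_lit 281) (nat_lit 5) (nat_lit 467) (nat_lit 454) (nat_lit 99)) (XT.lf (nat_lit 0) (nat_lit 190686908979) (nat_lit 380) (nat_lit 190687356948) (nat_lit 456) (nat_lit 1133871994428) (nat_lit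 275) (nat_lit 5) (nat_lit 280) (nat_lit 5) (nat_lit 281) (nat_lit 5) (nat_lit 468) (nat_lit 454) (nat_lit 98))) (XT.nd (nat_lit 78) (nat_lit 380) (nat_lit 0) (XT.lf (nat_lit 0) (nat_lit 569764482657) (nat_lit 456) (nat_lit 493517166088) (nat_lit 76) (nat_lit 493516718719) (nat_lit 275) (nat_lit 5) (nat_lit 281) (nat_lit 5) (nat_lit 276) (nat_lit 5) (nat_lit 469) (nat_lit 454) (nat_lit 97)) (XT.lf (nat_lit 0) (nat_lit 388381745398) (nat_lit 380) (nat_lit 388382212511) (nat_lit 456) (nat_lit 823204634635) (nat_lit 270) (nat_lit 5) (nat_lit 275) (nat_lit 5) (nat_lit 276) (nat_lit 5) (nat_lit 470) (nat_lit 454) (nat_lit 96))))) (XT.nd (nat_lit 312) (nat_lit 304) (nat_lit 0) (XT.nd (nat_lit 156) (nat_lit 380) (nat_lit 0) (XT.nd (nat_lit 78) (nat_lit 304) (nat_lit 0) (XT.lf (nat_lit 0) (nat_lit 1007608562963) (nat_lit 456) (nat_lit 318507235446) (nat_lit 76) (nat_lit 318506772667) (nat_lit 270) (nat_lit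 5) (nat_lit 276) (nat_lit 5) (nat_lit 271) (nat_lit 5) (nat_lit 471) (nat_lit 454) (nat_lit 95)) (XT.lf (nat_lit 0) (nat_lit 633123333816) (nat_lit 304) (nat_lit 633123813651) (nat_lit 380) (nat_lit 424449513610) (nat_lit 266) (nat_lit 5) (nat_lit 270) (nat_lit 5) (nat_lit 271) (nat_lit 5) (nat_lit 472) (nat_lit 454) (nat_lit 94))) (XT.nd (nat_lit 78) (nat_lit 380) (nat_lit 0) (XT.lf (nat_lit 0) (nat_lit 1544775848237) (nat_lit 380) (nat_lit 96975585222) (nat_lit 76) (nat_lit 96975112765) (nat_lit 266) (nat_lit 5) (nat_lit 271) (nat_lit 5) (nat_lit 267) (nat_lit 5) (nat_lit 473) (nat_lit 454) (nat_lit 93)) (XT.lf (nat_lit 0) (nat_lit 71858612901) (nat_lit 380) (nat_lit 857998031266) (nat_lit 76) (nat_lit 857997544075) (nat_lit 261) (nat_lit 5) (nat_lit 266) (nat_lit 5) (nat_lit 262) (nat_lit 5) (nat_lit 474) (nat_lit 454) (nat_lit 92)))) (XT.nd (nat_lit 51636) (nat_lit 0) (nat_lit 2660) (XT.nd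 (nat_lit 51558) (nat_lit 0) (nat_lit 2660) (XT.lf (nat_lit 0) (nat_lit 174416123749) (nat_lit 304) (nat_lit 174416624972) (nat_lit 380) (nat_lit 1490226868925) (nat_lit 257) (nat_lit 5) (nat_lit 261) (nat_lit 5) (nat_lit 262) (nat_lit 5) (nat_lit 475) (nat_lit 454) (nat_lit 91)) (XT.lf (nat_lit 0) (nat_lit 260818615835) (nat_lit 836) (nat_lit 146899268059) (nat_lit 836) (nat_lit 146899268059) (nat_lit 292) (nat_lit 3) (nat_lit 303) (nat_lit 3) (nat_lit 303) (nat_lit 5) (nat_lit 455) (nat_lit 455) (nat_lit 110))) (XT.nd (nat_lit 78) (nat_lit 0) (nat_lit 76) (XT.lf (nat_lit 76) (nat_lit 269442457165) (nat_lit 0) (nat_lit 269442509554) (nat_lit 836) (nat_lit 597869854573) (nat_lit 293) (nat_lit 5) (nat_lit 292) (nat_lit 3) (nat_lit 303) (nat_lit 5) (nat_lit 456) (nat_lit 455) (nat_lit 109)) (XT.lf (nat_lit 0) (nat_lit 566796229546) (nat_lit 760) (nat_lit 299182587681) (nat_lit 836) (nat_lit 299182490268)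 (nat_lit 293) (nat_lit 5) (nat_lit 303) (nat_lit 5) (nat_lit 304) (nat_lit 5) (nat_lit 457) (nat_lit 455) (nat_lit 108)))))))
noncomputable def xc348 : XT := (XT.nd (nat_lit 1248) (nat_lit 0) (nat_lit 0) (XT.nd (nat_lit 624) (nat_lit 2052) (nat_lit 0) (XT.nd (nat_lit 312) (nat_lit 0) (nat_lit 152) (XT.nd (nat_lit 156) (nat_lit 0) (nat_lit 76) (XT.nd (nat_lit 78) (nat_lit 0) (nat_lit 76) (XT.lf (nat_lit 76) (nat_lit 302622391801) (nat_lit 0) (nat_lit 302622534469) (nat_lit 836) (nat_lit 589286098200) (nat_lit 294) (nat_lit 5) (nat_lit 293) (nat_lit 5) (nat_lit 304) (nat_lit 5) (nat_lit 458) (nat_lit 455) (nat_lit 107)) (XT.lf (nat_lit 0) (nat_lit 655276482025) (nat_lit 760) (nat_lit 284804950491) (nat_lit 836) (nat_lit 284804773568) (nat_lit 294) (nat_lit 5) (nat_lit 304) (nat_lit 5) (nat_lit 305) (nat_lit 5) (nat_lit 459) (nat_lit 455) (nat_lit 106))) (XT.nd (nat_lit 78) (nat_lit 0) (nat_lit 76)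 (XT.lf (nat_lit 76) (nat_lit 359189185806) (nat_lit 0) (nat_lit 359189401822) (nat_lit 836) (nat_lit 537852110547) (nat_lit 295) (nat_lit 5) (nat_lit 294) (nat_lit 5) (nat_lit 305) (nat_lit 5) (nat_lit 460) (nat_lit 455) (nat_lit 105)) (XT.lf (nat_lit 0) (nat_lit 793453043005) (nat_lit 760) (nat_lit 247624375415) (nat_lit 836) (nat_lit 247624134227) (nat_lit 295) (nat_lit 5) (nat_lit 305) (nat_lit 5) (nat_lit 306) (nat_lit 5) (nat_lit 461) (nat_lit 455) (nat_lit 104)))) (XT.nd (nat_lit 156) (nat_lit 0) (nat_lit 76) (XT.nd (nat_lit 78) (nat_lit 0) (nat_lit 76) (XT.lf (nat_lit 76) (nat_lit 442539286431) (nat_lit 0) (nat_lit 442539561390) (nat_lit 836) (nat_lit 437077220689) (nat_lit 296) (nat_lit 5) (nat_lit 295) (nat_lit 5) (nat_lit 306) (nat_lit 5) (nat_lit 462) (nat_lit 455) (nat_lit 103)) (XT.lf (nat_lit 0) (nat_lit 988451140365) (nat_lit 760) (nat_lit 184237101211) (nat_lit 836) (nat_lit 184236808715)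 (nat_lit 296) (nat_lit 5) (nat_lit 306) (nat_lit 5) (nat_lit 307) (nat_lit 5) (nat_lit 463) (nat_lit 455) (nat_lit 102))) (XT.nd (nat_lit 78) (nat_lit 0) (nat_lit 76) (XT.lf (nat_lit 76) (nat_lit 556467241744) (nat_lit 0) (nat_lit 556467563412) (nat_lit 836) (nat_lit 279700538123) (nat_lit 297) (nat_lit 5) (nat_lit 296) (nat_lit 5) (nat_lit 307) (nat_lit 5) (nat_lit 464) (nat_lit 455) (nat_lit 101)) (XT.lf (nat_lit 0) (nat_lit 1248227905382) (nat_lit 760) (nat_lit 90837157868) (nat_lit 76) (nat_lit 90836825057) (nat_lit 297) (nat_lit 5) (nat_lit 307) (nat_lit 5) (nat_lit 298) (nat_lit 5) (nat_lit 465) (nat_lit 455) (nat_lit 100))))) (XT.nd (nat_lit 312) (nat_lit 684) (nat_lit 0) (XT.nd (nat_lit 156) (nat_lit 380) (nat_lit 0) (XT.nd (nat_lit 78) (nat_lit 532) (nat_lit 0) (XT.lf (nat_lit 0) (nat_lit 705209004178) (nat_lit 760) (nat_lit 705209362188) (nat_lit 836) (nat_lit 57606758934) (nat_lit 287)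 (nat_lit 5) (nat_lit 297) (nat_lit 5) (nat_lit 298) (nat_lit 5) (nat_lit 466) (nat_lit 455) (nat_lit 99)) (XT.lf (nat_lit 0) (nat_lit 36233521531) (nat_lit 456) (nat_lit 36233903542) (nat_lit 532) (nat_lit 1435423910017) (nat_lit 280) (nat_lit 5) (nat_lit 286) (nat_lit 5) (nat_lit 287) (nat_lit 5) (nat_lit 467) (nat_lit 455) (nat_lit 98))) (XT.nd (nat_lit 78) (nat_lit 380) (nat_lit 0) (XT.lf (nat_lit 0) (nat_lit 230640890770) (nat_lit 532) (nat_lit 658943277334) (nat_lit 76) (nat_lit 658942891746) (nat_lit 280) (nat_lit 5) (nat_lit 287) (nat_lit 5) (nat_lit 281) (nat_lit 5) (nat_lit 468) (nat_lit 455) (nat_lit 97)) (XT.lf (nat_lit 0) (nat_lit 200221317865) (nat_lit 380) (nat_lit 200221724185) (nat_lit 456) (nat_lit 1190565528181) (nat_lit 275) (nat_lit 5) (nat_lit 280) (nat_lit 5) (nat_lit 281) (nat_lit 5) (nat_lit 469) (nat_lit 455) (nat_lit 96)))) (XT.nd (nat_lit 156) (nat_lit 304) (nat_lit 0)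 (XT.nd (nat_lit 78) (nat_lit 380) (nat_lit 0) (XT.lf (nat_lit 0) (nat_lit 598252766634) (nat_lit 456) (nat_lit 518192960994) (nat_lit 76) (nat_lit 518192555218) (nat_lit 275) (nat_lit 5) (nat_lit 281) (nat_lit 5) (nat_lit 276) (nat_lit 5) (nat_lit 470) (nat_lit 455) (nat_lit 95)) (XT.lf (nat_lit 0) (nat_lit 407800895044) (nat_lit 380) (nat_lit 407801318729) (nat_lit 456) (nat_lit 864364805501) (nat_lit 270) (nat_lit 5) (nat_lit 275) (nat_lit 5) (nat_lit 276) (nat_lit 5) (nat_lit 471) (nat_lit 455) (nat_lit 94))) (XT.nd (nat_lit 78) (nat_lit 304) (nat_lit 0) (XT.lf (nat_lit 0) (nat_lit 1057989046385) (nat_lit 456) (nat_lit 334432535119) (nat_lit 76) (nat_lit 334432115364) (nat_lit 270) (nat_lit 5) (nat_lit 276) (nat_lit 5) (nat_lit 271) (nat_lit 5) (nat_lit 472) (nat_lit 455) (nat_lit 93)) (XT.lf (nat_lit 0) (nat_lit 664779561605) (nat_lit 304) (nat_lit 664779996830) (nat_lit 380) (nat_lit 445671933016)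 (nat_lit 266) (nat_lit 5) (nat_lit 270) (nat_lit 5) (nat_lit 271) (nat_lit 5) (nat_lit 473) (nat_lit 455) (nat_lit 92)))))) (XT.nd (nat_lit 52260) (nat_lit 0) (nat_lit 684) (XT.nd (nat_lit 51948) (nat_lit 0) (nat_lit 2052) (XT.nd (nat_lit 51792) (nat_lit 0) (nat_lit 1976) (XT.nd (nat_lit 51714) (nat_lit 0) (nat_lit 1976) (XT.lf (nat_lit 0) (nat_lit 1622014691803) (nat_lit 380) (nat_lit 101824303853) (nat_lit 76) (nat_lit 101823875321) (nat_lit 266) (nat_lit 5) (nat_lit 271) (nat_lit 5) (nat_lit 267) (nat_lit 5) (nat_lit 474) (nat_lit 455) (nat_lit 91)) (XT.lf (nat_lit 0) (nat_lit 273859598198) (nat_lit 836) (nat_lit 154244204387) (nat_lit 836) (nat_lit 154244204387) (nat_lit 292) (nat_lit 3) (nat_lit 303) (nat_lit 3) (nat_lit 303) (nat_lit 5) (nat_lit 456) (nat_lit 456) (nat_lit 108))) (XT.nd (nat_lit 78) (nat_lit 0) (nat_lit 76) (XT.lf (nat_lit 76) (nat_lit 282914633300) (nat_lit 0) (nat_lit 282914680818)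 (nat_lit 836) (nat_lit 627763243286) (nat_lit 293) (nat_lit 5) (nat_lit 292) (nat_lit 3) (nat_lit 303) (nat_lit 5) (nat_lit 457) (nat_lit 456) (nat_lit 107)) (XT.lf (nat_lit 0) (nat_lit 595136134687) (nat_lit 760) (nat_lit 314141660928) (nat_lit 836) (nat_lit 314141572572) (nat_lit 293) (nat_lit 5) (nat_lit 303) (nat_lit 5) (nat_lit 304) (nat_lit 5) (nat_lit 458) (nat_lit 456) (nat_lit 106)))) (XT.nd (nat_lit 156) (nat_lit 0) (nat_lit 76) (XT.nd (nat_lit 78) (nat_lit 0) (nat_lit 76) (XT.lf (nat_lit 76) (nat_lit 317753566623) (nat_lit 0) (nat_lit 317753696027) (nat_lit 836) (nat_lit 618750308540) (nat_lit 294) (nat_lit 5) (nat_lit 293) (nat_lit 5) (nat_lit 304) (nat_lit 5) (nat_lit 459) (nat_lit 456) (nat_lit 105)) (XT.lf (nat_lit 0) (nat_lit 688040391386) (nat_lit 760) (nat_lit 299045140607) (nat_lit 836) (nat_lit 299044980133) (nat_lit 294) (nat_lit 5) (nat_lit 304) (nat_lit 5) (nat_lit 305) (nat_lit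 5) (nat_lit 460) (nat_lit 456) (nat_lit 104))) (XT.nd (nat_lit 78) (nat_lit 0) (nat_lit 76) (XT.lf (nat_lit 76) (nat_lit 377148701579) (nat_lit 0) (nat_lit 377148897512) (nat_lit 836) (nat_lit 564744629889) (nat_lit 295) (nat_lit 5) (nat_lit 294) (nat_lit 5) (nat_lit 305) (nat_lit 5) (nat_lit 461) (nat_lit 456) (nat_lit 103)) (XT.lf (nat_lit 0) (nat_lit 833125772948) (nat_lit 760) (nat_lit 260005536104) (nat_lit 836) (nat_lit 260005317339) (nat_lit 295) (nat_lit 5) (nat_lit 305) (nat_lit 5) (nat_lit 306) (nat_lit 5) (nat_lit 462) (nat_lit 456) (nat_lit 102))))) (XT.nd (nat_lit 312) (nat_lit 1520) (nat_lit 0) (XT.nd (nat_lit 156) (nat_lit 0) (nat_lit 76) (XT.nd (nat_lit 78) (nat_lit 0) (nat_lit 76) (XT.lf (nat_lit 76) (nat_lit 464666307898) (nat_lit 0) (nat_lit 464666557294) (nat_lit 836) (nat_lit 458931002995) (nat_lit 296) (nat_lit 5) (nat_lit 295) (nat_lit 5) (nat_lit 306) (nat_lit 5) (nat_lit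 463) (nat_lit 456) (nat_lit 101)) (XT.lf (nat_lit 0) (nat_lit 1037873768527) (nat_lit 760) (nat_lit 193448898012) (nat_lit 836) (nat_lit 193448632709) (nat_lit 296) (nat_lit 5) (nat_lit 306) (nat_lit 5) (nat_lit 307) (nat_lit 5) (nat_lit 464) (nat_lit 456) (nat_lit 100))) (XT.nd (nat_lit 78) (nat_lit 0) (nat_lit 76) (XT.lf (nat_lit 76) (nat_lit 584290661151) (nat_lit 0) (nat_lit 584290952914) (nat_lit 836) (nat_lit 293685492945) (nat_lit 297) (nat_lit 5) (nat_lit 296) (nat_lit 5) (nat_lit 307) (nat_lit 5) (nat_lit 465) (nat_lit 456) (nat_lit 99)) (XT.lf (nat_lit 0) (nat_lit 1310639365865) (nat_lit 760) (nat_lit 95378957733) (nat_lit 76) (nat_lit 95378655864) (nat_lit 297) (nat_lit 5) (nat_lit 307) (nat_lit 5) (nat_lit 298) (nat_lit 5) (nat_lit 466) (nat_lit 456) (nat_lit 98)))) (XT.nd (nat_lit 156) (nat_lit 380) (nat_lit 0) (XT.nd (nat_lit 78) (nat_lit 532) (nat_lit 0) (XT.lf (nat_lit 0) (nat_lit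 740469511479) (nat_lit 760) (nat_lit 740469836205) (nat_lit 836) (nat_lit 60487030731) (nat_lit 287) (nat_lit 5) (nat_lit 297) (nat_lit 5) (nat_lit 298) (nat_lit 5) (nat_lit 467) (nat_lit 456) (nat_lit 97)) (XT.lf (nat_lit 0) (nat_lit 38045255863) (nat_lit 456) (nat_lit 38045602358) (nat_lit 532) (nat_lit 1507195040530) (nat_lit 280) (nat_lit 5) (nat_lit 286) (nat_lit 5) (nat_lit 287) (nat_lit 5) (nat_lit 468) (nat_lit 456) (nat_lit 96))) (XT.nd (nat_lit 78) (nat_lit 380) (nat_lit 0) (XT.lf (nat_lit 0) (nat_lit 242172994200) (nat_lit 532) (nat_lit 691890382719) (nat_lit 76) (nat_lit 691890032979) (nat_lit 280) (nat_lit 5) (nat_lit 287) (nat_lit 5) (nat_lit 281) (nat_lit 5) (nat_lit 469) (nat_lit 456) (nat_lit 95)) (XT.nd (nat_lit 78) (nat_lit 0) (nat_lit 0) (XT.lf (nat_lit 0) (nat_lit 210232441297) (nat_lit 380) (nat_lit 210232809841) (nat_lit 456) (nat_lit 1250093744756) (nat_lit 275) (nat_lit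 5) (nat_lit 280) (nat_lit 5) (nat_lit 281) (nat_lit 5) (nat_lit 470) (nat_lit 456) (nat_lit 94)) (XT.lf (nat_lit 0) (nat_lit 628165459246) (nat_lit 456) (nat_lit 544102551540) (nat_lit 76) (nat_lit 544102183488) (nat_lit 275) (nat_lit 5) (nat_lit 281) (nat_lit 5) (nat_lit 276) (nat_lit 5) (nat_lit 471) (nat_lit 456) (nat_lit 93))))))))
noncomputable def xc349 : XT := (XT.nd (nat_lit 106002) (nat_lit 0) (nat_lit 684) (XT.nd (nat_lit 52962) (nat_lit 0) (nat_lit 304) (XT.nd (nat_lit 52338) (nat_lit 0) (nat_lit 1064) (XT.nd (nat_lit 52026) (nat_lit 0) (nat_lit 1976) (XT.nd (nat_lit 156) (nat_lit 304) (nat_lit 0) (XT.nd (nat_lit 78) (nat_lit 0) (nat_lit 0) (XT.lf (nat_lit 0) (nat_lit 428190996372) (nat_lit 380) (nat_lit 428191380668) (nat_lit 456) (nat_lit 907582990568) (nat_lit 270) (nat_lit 5) (nat_lit 275) (nat_lit 5) (nat_lit 276) (nat_lit 5) (nat_lit 472) (nat_lit 456) (nat_lit 92)) (XT.lf (nat_lit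 0) (nat_lit 1110888548838) (nat_lit 456) (nat_lit 351154105548) (nat_lit 76) (nat_lit 351153724818) (nat_lit 270) (nat_lit 5) (nat_lit 276) (nat_lit 5) (nat_lit 271) (nat_lit 5) (nat_lit 473) (nat_lit 456) (nat_lit 91))) (XT.nd (nat_lit 51792) (nat_lit 0) (nat_lit 1976) (XT.lf (nat_lit 0) (nat_lit 698018595103) (nat_lit 304) (nat_lit 698018989865) (nat_lit 380) (nat_lit 467955478624) (nat_lit 266) (nat_lit 5) (nat_lit 270) (nat_lit 5) (nat_lit 271) (nat_lit 5) (nat_lit 474) (nat_lit 456) (nat_lit 90)) (XT.lf (nat_lit 0) (nat_lit 287552624884) (nat_lit 836) (nat_lit 161956390049) (nat_lit 836) (nat_lit 161956390049) (nat_lit 292) (nat_lit 3) (nat_lit 303) (nat_lit 3) (nat_lit 303) (nat_lit 5) (nat_lit 457) (nat_lit 457) (nat_lit 106)))) (XT.nd (nat_lit 156) (nat_lit 0) (nat_lit 76) (XT.nd (nat_lit 78) (nat_lit 0) (nat_lit 76) (XT.lf (nat_lit 76) (nat_lit 297060413288) (nat_lit 0) (nat_lit 297060456388)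 (nat_lit 836) (nat_lit 659151311105) (nat_lit 293) (nat_lit 5) (nat_lit 292) (nat_lit 3) (nat_lit 303) (nat_lit 5) (nat_lit 458) (nat_lit 457) (nat_lit 105)) (XT.lf (nat_lit 0) (nat_lit 624893026378) (nat_lit 760) (nat_lit 329848693056) (nat_lit 836) (nat_lit 329848612914) (nat_lit 293) (nat_lit 5) (nat_lit 303) (nat_lit 5) (nat_lit 304) (nat_lit 5) (nat_lit 459) (nat_lit 457) (nat_lit 104))) (XT.nd (nat_lit 78) (nat_lit 0) (nat_lit 76) (XT.lf (nat_lit 76) (nat_lit 333641295051) (nat_lit 0) (nat_lit 333641412424) (nat_lit 836) (nat_lit 649687738190) (nat_lit 294) (nat_lit 5) (nat_lit 293) (nat_lit 5) (nat_lit 304) (nat_lit 5) (nat_lit 460) (nat_lit 457) (nat_lit 103)) (XT.lf (nat_lit 0) (nat_lit 722442488288) (nat_lit 760) (nat_lit 313997345566) (nat_lit 836) (nat_lit 313997200011) (nat_lit 294) (nat_lit 5) (nat_lit 304) (nat_lit 5) (nat_lit 305) (nat_lit 5) (nat_lit 461) (nat_lit 457) (nat_lit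 102))))) (XT.nd (nat_lit 312) (nat_lit 1064) (nat_lit 0) (XT.nd (nat_lit 156) (nat_lit 0) (nat_lit 76) (XT.nd (nat_lit 78) (nat_lit 0) (nat_lit 76) (XT.lf (nat_lit 76) (nat_lit 396006187890) (nat_lit 0) (nat_lit 396006365607) (nat_lit 836) (nat_lit 592981783211) (nat_lit 295) (nat_lit 5) (nat_lit 294) (nat_lit 5) (nat_lit 305) (nat_lit 5) (nat_lit 462) (nat_lit 457) (nat_lit 101)) (XT.lf (nat_lit 0) (nat_lit 874782132155) (nat_lit 760) (nat_lit 273005760227) (nat_lit 836) (nat_lit 273005561801) (nat_lit 295) (nat_lit 5) (nat_lit 305) (nat_lit 5) (nat_lit 306) (nat_lit 5) (nat_lit 463) (nat_lit 457) (nat_lit 100))) (XT.nd (nat_lit 78) (nat_lit 0) (nat_lit 76) (XT.lf (nat_lit 76) (nat_lit 487899675126) (nat_lit 0) (nat_lit 487899901335) (nat_lit 836) (nat_lit 481877481735) (nat_lit 296) (nat_lit 5) (nat_lit 295) (nat_lit 5) (nat_lit 306) (nat_lit 5) (nat_lit 464) (nat_lit 457) (nat_lit 99)) (XT.lf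 (nat_lit 0) (nat_lit 1089767521483) (nat_lit 760) (nat_lit 203121290069) (nat_lit 836) (nat_lit 203121049431) (nat_lit 296) (nat_lit 5) (nat_lit 306) (nat_lit 5) (nat_lit 307) (nat_lit 5) (nat_lit 465) (nat_lit 457) (nat_lit 98)))) (XT.nd (nat_lit 156) (nat_lit 1216) (nat_lit 0) (XT.nd (nat_lit 78) (nat_lit 0) (nat_lit 76) (XT.lf (nat_lit 76) (nat_lit 613505246200) (nat_lit 0) (nat_lit 613505510837) (nat_lit 836) (nat_lit 308369702210) (nat_lit 297) (nat_lit 5) (nat_lit 296) (nat_lit 5) (nat_lit 307) (nat_lit 5) (nat_lit 466) (nat_lit 457) (nat_lit 97)) (XT.lf (nat_lit 0) (nat_lit 1376171393309) (nat_lit 760) (nat_lit 100147852987) (nat_lit 76) (nat_lit 100147579182) (nat_lit 297) (nat_lit 5) (nat_lit 307) (nat_lit 5) (nat_lit 298) (nat_lit 5) (nat_lit 467) (nat_lit 457) (nat_lit 96))) (XT.nd (nat_lit 78) (nat_lit 532) (nat_lit 0) (XT.lf (nat_lit 0) (nat_lit 777493038837) (nat_lit 760) (nat_lit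 777493333373) (nat_lit 836) (nat_lit 63511322268) (nat_lit 287) (nat_lit 5) (nat_lit 297) (nat_lit 5) (nat_lit 298) (nat_lit 5) (nat_lit 468) (nat_lit 457) (nat_lit 95)) (XT.lf (nat_lit 0) (nat_lit 39947571494) (nat_lit 456) (nat_lit 39947885775) (nat_lit 532) (nat_lit 1582554733611) (nat_lit 280) (nat_lit 5) (nat_lit 286) (nat_lit 5) (nat_lit 287) (nat_lit 5) (nat_lit 469) (nat_lit 457) (nat_lit 94)))))) (XT.nd (nat_lit 52416) (nat_lit 0) (nat_lit 1748) (XT.nd (nat_lit 312) (nat_lit 0) (nat_lit 0) (XT.nd (nat_lit 156) (nat_lit 380) (nat_lit 0) (XT.nd (nat_lit 78) (nat_lit 380) (nat_lit 0) (XT.lf (nat_lit 0) (nat_lit 254281697326) (nat_lit 532) (nat_lit 726484848810) (nat_lit 76) (nat_lit 726484531585) (nat_lit 280) (nat_lit 5) (nat_lit 287) (nat_lit 5) (nat_lit 281) (nat_lit 5) (nat_lit 470) (nat_lit 457) (nat_lit 93)) (XT.lf (nat_lit 0) (nat_lit 220744115551) (nat_lit 380) (nat_lit 220744449832)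 (nat_lit 456) (nat_lit 1312598377722) (nat_lit 275) (nat_lit 5) (nat_lit 280) (nat_lit 5) (nat_lit 281) (nat_lit 5) (nat_lit 471) (nat_lit 457) (nat_lit 92))) (XT.nd (nat_lit 78) (nat_lit 380) (nat_lit 0) (XT.lf (nat_lit 0) (nat_lit 659573781442) (nat_lit 456) (nat_lit 571307626959) (nat_lit 76) (nat_lit 571307293125) (nat_lit 275) (nat_lit 5) (nat_lit 281) (nat_lit 5) (nat_lit 276) (nat_lit 5) (nat_lit 472) (nat_lit 457) (nat_lit 91)) (XT.lf (nat_lit 0) (nat_lit 449600597508) (nat_lit 380) (nat_lit 449600946075) (nat_lit 456) (nat_lit 952962090022) (nat_lit 270) (nat_lit 5) (nat_lit 275) (nat_lit 5) (nat_lit 276) (nat_lit 5) (nat_lit 473) (nat_lit 457) (nat_lit 90)))) (XT.nd (nat_lit 51948) (nat_lit 0) (nat_lit 1672) (XT.nd (nat_lit 51870) (nat_lit 0) (nat_lit 1672) (XT.lf (nat_lit 0) (nat_lit 1166433021753) (nat_lit 456) (nat_lit 368711759735) (nat_lit 76) (nat_lit 368711414402) (nat_lit 270)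 (nat_lit 5) (nat_lit 276) (nat_lit 5) (nat_lit 271) (nat_lit 5) (nat_lit 474) (nat_lit 457) (nat_lit 89)) (XT.lf (nat_lit 0) (nat_lit 301930298556) (nat_lit 836) (nat_lit 170054187277) (nat_lit 836) (nat_lit 170054187277) (nat_lit 292) (nat_lit 3) (nat_lit 303) (nat_lit 3) (nat_lit 303) (nat_lit 5) (nat_lit 458) (nat_lit 458) (nat_lit 104))) (XT.nd (nat_lit 78) (nat_lit 0) (nat_lit 76) (XT.lf (nat_lit 76) (nat_lit 311913477783) (nat_lit 0) (nat_lit 311913516876) (nat_lit 836) (nat_lit 692108791087) (nat_lit 293) (nat_lit 5) (nat_lit 292) (nat_lit 3) (nat_lit 303) (nat_lit 5) (nat_lit 459) (nat_lit 458) (nat_lit 103)) (XT.lf (nat_lit 0) (nat_lit 656137754754) (nat_lit 760) (nat_lit 346341081524) (nat_lit 836) (nat_lit 346341008834) (nat_lit 293) (nat_lit 5) (nat_lit 303) (nat_lit 5) (nat_lit 304) (nat_lit 5) (nat_lit 460) (nat_lit 458) (nat_lit 102))))) (XT.nd (nat_lit 312) (nat_lit 0) (nat_lit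 152) (XT.nd (nat_lit 156) (nat_lit 0) (nat_lit 76) (XT.nd (nat_lit 78) (nat_lit 0) (nat_lit 76) (XT.lf (nat_lit 76) (nat_lit 350323405243) (nat_lit 0) (nat_lit 350323511704) (nat_lit 836) (nat_lit 682172047297) (nat_lit 294) (nat_lit 5) (nat_lit 293) (nat_lit 5) (nat_lit 304) (nat_lit 5) (nat_lit 461) (nat_lit 458) (nat_lit 101)) (XT.lf (nat_lit 0) (nat_lit 758564682845) (nat_lit 760) (nat_lit 329697165614) (nat_lit 836) (nat_lit 329697033592) (nat_lit 294) (nat_lit 5) (nat_lit 304) (nat_lit 5) (nat_lit 305) (nat_lit 5) (nat_lit 462) (nat_lit 458) (nat_lit 100))) (XT.nd (nat_lit 78) (nat_lit 0) (nat_lit 76) (XT.lf (nat_lit 76) (nat_lit 415806543753) (nat_lit 0) (nat_lit 415806704947) (nat_lit 836) (nat_lit 622630801467) (nat_lit 295) (nat_lit 5) (nat_lit 294) (nat_lit 5) (nat_lit 305) (nat_lit 5) (nat_lit 463) (nat_lit 458) (nat_lit 99)) (XT.lf (nat_lit 0) (nat_lit 918521302763) (nat_lit 760) (nat_lit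 286656000454) (nat_lit 836) (nat_lit 286655820475) (nat_lit 295) (nat_lit 5) (nat_lit 305) (nat_lit 5) (nat_lit 306) (nat_lit 5) (nat_lit 464) (nat_lit 458) (nat_lit 98)))) (XT.nd (nat_lit 156) (nat_lit 0) (nat_lit 76) (XT.nd (nat_lit 78) (nat_lit 0) (nat_lit 76) (XT.lf (nat_lit 76) (nat_lit 512294705896) (nat_lit 0) (nat_lit 512294911074) (nat_lit 836) (nat_lit 505971291051) (nat_lit 296) (nat_lit 5) (nat_lit 295) (nat_lit 5) (nat_lit 306) (nat_lit 5) (nat_lit 465) (nat_lit 458) (nat_lit 97)) (XT.lf (nat_lit 0) (nat_lit 1144255956088) (nat_lit 760) (nat_lit 213277306642) (nat_lit 836) (nat_lit 213277088377) (nat_lit 296) (nat_lit 5) (nat_lit 306) (nat_lit 5) (nat_lit 307) (nat_lit 5) (nat_lit 466) (nat_lit 458) (nat_lit 96))) (XT.nd (nat_lit 78) (nat_lit 0) (nat_lit 76) (XT.lf (nat_lit 76) (nat_lit 644180555667) (nat_lit 0) (nat_lit 644180795701) (nat_lit 836) (nat_lit 323788128017) (nat_lit 297)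 (nat_lit 5) (nat_lit 296) (nat_lit 5) (nat_lit 307) (nat_lit 5) (nat_lit 467) (nat_lit 458) (nat_lit 95)) (XT.lf (nat_lit 0) (nat_lit 1444980016626) (nat_lit 760) (nat_lit 105155197896) (nat_lit 76) (nat_lit 105154949548) (nat_lit 297) (nat_lit 5) (nat_lit 307) (nat_lit 5) (nat_lit 298) (nat_lit 5) (nat_lit 468) (nat_lit 458) (nat_lit 94))))))) (XT.nd (nat_lit 53196) (nat_lit 0) (nat_lit 0) (XT.nd (nat_lit 52572) (nat_lit 0) (nat_lit 1368) (XT.nd (nat_lit 312) (nat_lit 0) (nat_lit 0) (XT.nd (nat_lit 156) (nat_lit 380) (nat_lit 0) (XT.nd (nat_lit 78) (nat_lit 532) (nat_lit 0) (XT.lf (nat_lit 0) (nat_lit 816367737749) (nat_lit 760) (nat_lit 816368004902) (nat_lit 836) (nat_lit 66686833960) (nat_lit 287) (nat_lit 5) (nat_lit 297) (nat_lit 5) (nat_lit 298) (nat_lit 5) (nat_lit 469) (nat_lit 458) (nat_lit 93)) (XT.lf (nat_lit 0) (nat_lit 41944997995) (nat_lit 456) (nat_lit 41945283057) (nat_lit 532)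 (nat_lit 1661682416827) (nat_lit 280) (nat_lit 5) (nat_lit 286) (nat_lit 5) (nat_lit 287) (nat_lit 5) (nat_lit 470) (nat_lit 458) (nat_lit 92))) (XT.nd (nat_lit 78) (nat_lit 380) (nat_lit 0) (XT.lf (nat_lit 0) (nat_lit 266995830643) (nat_lit 532) (nat_lit 762809043137) (nat_lit 76) (nat_lit 762808755405) (nat_lit 280) (nat_lit 5) (nat_lit 287) (nat_lit 5) (nat_lit 281) (nat_lit 5) (nat_lit 471) (nat_lit 458) (nat_lit 91)) (XT.lf (nat_lit 0) (nat_lit 231781368666) (nat_lit 380) (nat_lit 231781671868) (nat_lit 456) (nat_lit 1378228247382) (nat_lit 275) (nat_lit 5) (nat_lit 280) (nat_lit 5) (nat_lit 281) (nat_lit 5) (nat_lit 472) (nat_lit 458) (nat_lit 90)))) (XT.nd (nat_lit 52104) (nat_lit 0) (nat_lit 1292) (XT.nd (nat_lit 52026) (nat_lit 0) (nat_lit 1292) (XT.lf (nat_lit 0) (nat_lit 692552515170) (nat_lit 456) (nat_lit 599872960998) (nat_lit 76) (nat_lit 599872658201) (nat_lit 275) (nat_lit 5) (nat_lit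 281) (nat_lit 5) (nat_lit 276) (nat_lit 5) (nat_lit 473) (nat_lit 458) (nat_lit 89)) (XT.lf (nat_lit 0) (nat_lit 317026851967) (nat_lit 836) (nat_lit 178556876437) (nat_lit 836) (nat_lit 178556876437) (nat_lit 292) (nat_lit 3) (nat_lit 303) (nat_lit 3) (nat_lit 303) (nat_lit 5) (nat_lit 459) (nat_lit 459) (nat_lit 102))) (XT.nd (nat_lit 78) (nat_lit 0) (nat_lit 76) (XT.lf (nat_lit 76) (nat_lit 327509191427) (nat_lit 0) (nat_lit 327509226886) (nat_lit 836) (nat_lit 726714153023) (nat_lit 293) (nat_lit 5) (nat_lit 292) (nat_lit 3) (nat_lit 303) (nat_lit 5) (nat_lit 460) (nat_lit 459) (nat_lit 101)) (XT.lf (nat_lit 0) (nat_lit 688944712386) (nat_lit 760) (nat_lit 363658093710) (nat_lit 836) (nat_lit 363658027778) (nat_lit 293) (nat_lit 5) (nat_lit 303) (nat_lit 5) (nat_lit 304) (nat_lit 5) (nat_lit 461) (nat_lit 459) (nat_lit 100))))) (XT.nd (nat_lit 312) (nat_lit 0) (nat_lit 152) (XT.nd (nat_lit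 156) (nat_lit 0) (nat_lit 76) (XT.nd (nat_lit 78) (nat_lit 0) (nat_lit 76) (XT.lf (nat_lit 76) (nat_lit 367839616720) (nat_lit 0) (nat_lit 367839713283) (nat_lit 836) (nat_lit 716280579092) (nat_lit 294) (nat_lit 5) (nat_lit 293) (nat_lit 5) (nat_lit 304) (nat_lit 5) (nat_lit 462) (nat_lit 459) (nat_lit 99)) (XT.lf (nat_lit 0) (nat_lit 796492980610) (nat_lit 760) (nat_lit 346181981056) (nat_lit 836) (nat_lit 346181861308) (nat_lit 294) (nat_lit 5) (nat_lit 304) (nat_lit 5) (nat_lit 305) (nat_lit 5) (nat_lit 463) (nat_lit 459) (nat_lit 98))) (XT.nd (nat_lit 78) (nat_lit 0) (nat_lit 76) (XT.lf (nat_lit 76) (nat_lit 436596913089) (nat_lit 0) (nat_lit 436597059297) (nat_lit 836) (nat_lit 653762277227) (nat_lit 295) (nat_lit 5) (nat_lit 294) (nat_lit 5) (nat_lit 305) (nat_lit 5) (nat_lit 464) (nat_lit 459) (nat_lit 97)) (XT.lf (nat_lit 0) (nat_lit 964447425950) (nat_lit 760) (nat_lit 300988757134) (nat_lit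 836) (nat_lit 300988593889) (nat_lit 295) (nat_lit 5) (nat_lit 305) (nat_lit 5) (nat_lit 306) (nat_lit 5) (nat_lit 465) (nat_lit 459) (nat_lit 96)))) (XT.nd (nat_lit 156) (nat_lit 0) (nat_lit 76) (XT.nd (nat_lit 78) (nat_lit 0) (nat_lit 76) (XT.lf (nat_lit 76) (nat_lit 537909483833) (nat_lit 0) (nat_lit 537909669936) (nat_lit 836) (nat_lit 531269796855) (nat_lit 296) (nat_lit 5) (nat_lit 295) (nat_lit 5) (nat_lit 306) (nat_lit 5) (nat_lit 466) (nat_lit 459) (nat_lit 95)) (XT.lf (nat_lit 0) (nat_lit 1201468806981) (nat_lit 760) (nat_lit 223941128499) (nat_lit 836) (nat_lit 223940930526) (nat_lit 296) (nat_lit 5) (nat_lit 306) (nat_lit 5) (nat_lit 307) (nat_lit 5) (nat_lit 467) (nat_lit 459) (nat_lit 94))) (XT.nd (nat_lit 78) (nat_lit 0) (nat_lit 76) (XT.lf (nat_lit 76) (nat_lit 676389626224) (nat_lit 0) (nat_lit 676389843942) (nat_lit 836) (nat_lit 339977480628) (nat_lit 297) (nat_lit 5) (nat_lit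 296) (nat_lit 5) (nat_lit 307) (nat_lit 5) (nat_lit 468) (nat_lit 459) (nat_lit 93)) (XT.lf (nat_lit 0) (nat_lit 1517229066120) (nat_lit 760) (nat_lit 110412914489) (nat_lit 76) (nat_lit 110412689230) (nat_lit 297) (nat_lit 5) (nat_lit 307) (nat_lit 5) (nat_lit 298) (nat_lit 5) (nat_lit 469) (nat_lit 459) (nat_lit 92)))))) (XT.nd (nat_lit 52650) (nat_lit 0) (nat_lit 912) (XT.nd (nat_lit 52338) (nat_lit 0) (nat_lit 1292) (XT.nd (nat_lit 156) (nat_lit 380) (nat_lit 0) (XT.nd (nat_lit 78) (nat_lit 532) (nat_lit 0) (XT.lf (nat_lit 0) (nat_lit 857186167240) (nat_lit 760) (nat_lit 857186409555) (nat_lit 836) (nat_lit 70021126296) (nat_lit 287) (nat_lit 5) (nat_lit 297) (nat_lit 5) (nat_lit 298) (nat_lit 5) (nat_lit 470) (nat_lit 459) (nat_lit 91)) (XT.lf (nat_lit 0) (nat_lit 44042291366) (nat_lit 456) (nat_lit 44042549925) (nat_lit 532) (nat_lit 1744766489173) (nat_lit 280) (nat_lit 5) (nat_lit 286)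 (nat_lit 5) (nat_lit 287) (nat_lit 5) (nat_lit 471) (nat_lit 459) (nat_lit 90))) (XT.nd (nat_lit 78) (nat_lit 380) (nat_lit 0) (XT.lf (nat_lit 0) (nat_lit 280345666121) (nat_lit 532) (nat_lit 800949451654) (nat_lit 76) (nat_lit 800949190673) (nat_lit 280) (nat_lit 5) (nat_lit 287) (nat_lit 5) (nat_lit 281) (nat_lit 5) (nat_lit 472) (nat_lit 459) (nat_lit 89)) (XT.lf (nat_lit 0) (nat_lit 243370480035) (nat_lit 380) (nat_lit 243370755049) (nat_lit 456) (nat_lit 1447139615101) (nat_lit 275) (nat_lit 5) (nat_lit 280) (nat_lit 5) (nat_lit 281) (nat_lit 5) (nat_lit 473) (nat_lit 459) (nat_lit 88)))) (XT.nd (nat_lit 156) (nat_lit 0) (nat_lit 76) (XT.nd (nat_lit 78) (nat_lit 0) (nat_lit 0) (XT.lf (nat_lit 0) (nat_lit 332878229471) (nat_lit 836) (nat_lit 187484701934) (nat_lit 836) (nat_lit 187484701934) (nat_lit 292) (nat_lit 3) (nat_lit 303) (nat_lit 3) (nat_lit 303) (nat_lit 5) (nat_lit 460) (nat_lit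 460) (nat_lit 100)) (XT.lf (nat_lit 76) (nat_lit 343884687058) (nat_lit 0) (nat_lit 343884719220) (nat_lit 836) (nat_lit 763049790273) (nat_lit 293) (nat_lit 5) (nat_lit 292) (nat_lit 3) (nat_lit 303) (nat_lit 5) (nat_lit 461) (nat_lit 460) (nat_lit 99))) (XT.nd (nat_lit 78) (nat_lit 0) (nat_lit 0) (XT.lf (nat_lit 0) (nat_lit 723392011401) (nat_lit 760) (nat_lit 381840960400) (nat_lit 836) (nat_lit 381840900597) (nat_lit 293) (nat_lit 5) (nat_lit 303) (nat_lit 5) (nat_lit 304) (nat_lit 5) (nat_lit 462) (nat_lit 460) (nat_lit 98)) (XT.lf (nat_lit 76) (nat_lit 386231634939) (nat_lit 0) (nat_lit 386231722525) (nat_lit 836) (nat_lit 752094544038) (nat_lit 294) (nat_lit 5) (nat_lit 293) (nat_lit 5) (nat_lit 304) (nat_lit 5) (nat_lit 463) (nat_lit 460) (nat_lit 97))))) (XT.nd (nat_lit 312) (nat_lit 532) (nat_lit 0) (XT.nd (nat_lit 156) (nat_lit 0) (nat_lit 76) (XT.nd (nat_lit 78) (nat_lit 0) (nat_lit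 0) (XT.lf (nat_lit 0) (nat_lit 836317687347) (nat_lit 760) (nat_lit 363491041252) (nat_lit 836) (nat_lit 363490932637) (nat_lit 294) (nat_lit 5) (nat_lit 304) (nat_lit 5) (nat_lit 305) (nat_lit 5) (nat_lit 464) (nat_lit 460) (nat_lit 96)) (XT.lf (nat_lit 76) (nat_lit 458426796973) (nat_lit 0) (nat_lit 458426929588) (nat_lit 836) (nat_lit 686450332755) (nat_lit 295) (nat_lit 5) (nat_lit 294) (nat_lit 5) (nat_lit 305) (nat_lit 5) (nat_lit 465) (nat_lit 460) (nat_lit 95))) (XT.nd (nat_lit 78) (nat_lit 0) (nat_lit 0) (XT.lf (nat_lit 0) (nat_lit 1012669849901) (nat_lit 760) (nat_lit 316038155679) (nat_lit 836) (nat_lit 316038007610) (nat_lit 295) (nat_lit 5) (nat_lit 305) (nat_lit 5) (nat_lit 306) (nat_lit 5) (nat_lit 466) (nat_lit 460) (nat_lit 94)) (XT.lf (nat_lit 76) (nat_lit 564804996703) (nat_lit 0) (nat_lit 564805165504) (nat_lit 836) (nat_lit 557833233411) (nat_lit 296) (nat_lit 5) (nat_lit 295)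 (nat_lit 5) (nat_lit 306) (nat_lit 5) (nat_lit 467) (nat_lit 460) (nat_lit 93)))) (XT.nd (nat_lit 156) (nat_lit 684) (nat_lit 0) (XT.nd (nat_lit 78) (nat_lit 0) (nat_lit 0) (XT.lf (nat_lit 0) (nat_lit 1261542295484) (nat_lit 760) (nat_lit 235138145492) (nat_lit 836) (nat_lit 235137965925) (nat_lit 296) (nat_lit 5) (nat_lit 306) (nat_lit 5) (nat_lit 307) (nat_lit 5) (nat_lit 468) (nat_lit 460) (nat_lit 92)) (XT.lf (nat_lit 76) (nat_lit 710209146332) (nat_lit 0) (nat_lit 710209343808) (nat_lit 836) (nat_lit 356976305870) (nat_lit 297) (nat_lit 5) (nat_lit 296) (nat_lit 5) (nat_lit 307) (nat_lit 5) (nat_lit 469) (nat_lit 460) (nat_lit 91))) (XT.nd (nat_lit 78) (nat_lit 760) (nat_lit 0) (XT.lf (nat_lit 0) (nat_lit 1593090563566) (nat_lit 760) (nat_lit 115933520938) (nat_lit 76) (nat_lit 115933316621) (nat_lit 297) (nat_lit 5) (nat_lit 307) (nat_lit 5) (nat_lit 298) (nat_lit 5) (nat_lit 470) (nat_lit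 460) (nat_lit 90)) (XT.lf (nat_lit 0) (nat_lit 900045514244) (nat_lit 760) (nat_lit 900045734032) (nat_lit 836) (nat_lit 73522137838) (nat_lit 287) (nat_lit 5) (nat_lit 297) (nat_lit 5) (nat_lit 298) (nat_lit 5) (nat_lit 471) (nat_lit 460) (nat_lit 89))))))))
noncomputable def xc350 : XT := (XT.nd (nat_lit 105534) (nat_lit 0) (nat_lit 912) (XT.nd (nat_lit 52728) (nat_lit 0) (nat_lit 0) (XT.nd (nat_lit 52416) (nat_lit 0) (nat_lit 988) (XT.nd (nat_lit 52260) (nat_lit 0) (nat_lit 912) (XT.nd (nat_lit 78) (nat_lit 0) (nat_lit 0) (XT.lf (nat_lit 0) (nat_lit 46244445363) (nat_lit 456) (nat_lit 46244679884) (nat_lit 532) (nat_lit 1832004769646) (nat_lit 280) (nat_lit 5) (nat_lit 286) (nat_lit 5) (nat_lit 287) (nat_lit 5) (nat_lit 472) (nat_lit 460) (nat_lit 88)) (XT.lf (nat_lit 0) (nat_lit 294362989287) (nat_lit 532) (nat_lit 840996884654) (nat_lit 76) (nat_lit 840996647936) (nat_lit 280) (nat_lit 5)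 (nat_lit 287) (nat_lit 5) (nat_lit 281) (nat_lit 5) (nat_lit 473) (nat_lit 460) (nat_lit 87))) (XT.nd (nat_lit 78) (nat_lit 0) (nat_lit 0) (XT.lf (nat_lit 0) (nat_lit 349522172604) (nat_lit 836) (nat_lit 196858920409) (nat_lit 836) (nat_lit 196858920409) (nat_lit 292) (nat_lit 3) (nat_lit 303) (nat_lit 3) (nat_lit 303) (nat_lit 5) (nat_lit 461) (nat_lit 461) (nat_lit 98)) (XT.lf (nat_lit 76) (nat_lit 361078954118) (nat_lit 0) (nat_lit 361078983290) (nat_lit 836) (nat_lit 801202215930) (nat_lit 293) (nat_lit 5) (nat_lit 292) (nat_lit 3) (nat_lit 303) (nat_lit 5) (nat_lit 462) (nat_lit 461) (nat_lit 97)))) (XT.nd (nat_lit 156) (nat_lit 0) (nat_lit 76) (XT.nd (nat_lit 78) (nat_lit 0) (nat_lit 0) (XT.lf (nat_lit 0) (nat_lit 759561669473) (nat_lit 760) (nat_lit 400932973956) (nat_lit 836) (nat_lit 400932919713) (nat_lit 293) (nat_lit 5) (nat_lit 303) (nat_lit 5) (nat_lit 304) (nat_lit 5) (nat_lit 463)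 (nat_lit 461) (nat_lit 96)) (XT.lf (nat_lit 76) (nat_lit 405543250593) (nat_lit 0) (nat_lit 405543330036) (nat_lit 836) (nat_lit 789699213183) (nat_lit 294) (nat_lit 5) (nat_lit 293) (nat_lit 5) (nat_lit 304) (nat_lit 5) (nat_lit 464) (nat_lit 461) (nat_lit 95))) (XT.nd (nat_lit 78) (nat_lit 0) (nat_lit 0) (XT.lf (nat_lit 0) (nat_lit 878133624056) (nat_lit 760) (nat_lit 381665558071) (nat_lit 836) (nat_lit 381665459554) (nat_lit 294) (nat_lit 5) (nat_lit 304) (nat_lit 5) (nat_lit 305) (nat_lit 5) (nat_lit 465) (nat_lit 461) (nat_lit 94)) (XT.lf (nat_lit 76) (nat_lit 481348171497) (nat_lit 0) (nat_lit 481348291782) (nat_lit 836) (nat_lit 720772796482) (nat_lit 295) (nat_lit 5) (nat_lit 294) (nat_lit 5) (nat_lit 305) (nat_lit 5) (nat_lit 466) (nat_lit 461) (nat_lit 93))))) (XT.nd (nat_lit 312) (nat_lit 1140) (nat_lit 0) (XT.nd (nat_lit 156) (nat_lit 0) (nat_lit 76) (XT.nd (nat_lit 78) (nat_lit 0)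 (nat_lit 0) (XT.lf (nat_lit 0) (nat_lit 1063303390153) (nat_lit 760) (nat_lit 331840027805) (nat_lit 836) (nat_lit 331839893503) (nat_lit 295) (nat_lit 5) (nat_lit 305) (nat_lit 5) (nat_lit 306) (nat_lit 5) (nat_lit 467) (nat_lit 461) (nat_lit 92)) (XT.lf (nat_lit 76) (nat_lit 593045281621) (nat_lit 0) (nat_lit 593045434728) (nat_lit 836) (nat_lit 585724846749) (nat_lit 296) (nat_lit 5) (nat_lit 295) (nat_lit 5) (nat_lit 306) (nat_lit 5) (nat_lit 468) (nat_lit 461) (nat_lit 91))) (XT.nd (nat_lit 78) (nat_lit 0) (nat_lit 0) (XT.lf (nat_lit 0) (nat_lit 1324619453934) (nat_lit 760) (nat_lit 246895017000) (nat_lit 836) (nat_lit 246894854127) (nat_lit 296) (nat_lit 5) (nat_lit 306) (nat_lit 5) (nat_lit 307) (nat_lit 5) (nat_lit 469) (nat_lit 461) (nat_lit 90)) (XT.lf (nat_lit 76) (nat_lit 745719638838) (nat_lit 0) (nat_lit 745719817955) (nat_lit 836) (nat_lit 374825076910) (nat_lit 297) (nat_lit 5)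 (nat_lit 296) (nat_lit 5) (nat_lit 307) (nat_lit 5) (nat_lit 470) (nat_lit 461) (nat_lit 89)))) (XT.nd (nat_lit 156) (nat_lit 532) (nat_lit 0) (XT.nd (nat_lit 78) (nat_lit 760) (nat_lit 0) (XT.lf (nat_lit 0) (nat_lit 1672745131780) (nat_lit 760) (nat_lit 121730161360) (nat_lit 76) (nat_lit 121729976039) (nat_lit 297) (nat_lit 5) (nat_lit 307) (nat_lit 5) (nat_lit 298) (nat_lit 5) (nat_lit 471) (nat_lit 461) (nat_lit 88)) (XT.lf (nat_lit 0) (nat_lit 945047825006) (nat_lit 760) (nat_lit 945048024360) (nat_lit 836) (nat_lit 77198204120) (nat_lit 287) (nat_lit 5) (nat_lit 297) (nat_lit 5) (nat_lit 298) (nat_lit 5) (nat_lit 472) (nat_lit 461) (nat_lit 87))) (XT.nd (nat_lit 52260) (nat_lit 0) (nat_lit 912) (XT.lf (nat_lit 0) (nat_lit 48556703394) (nat_lit 456) (nat_lit 48556916112) (nat_lit 532) (nat_lit 1923604968231) (nat_lit 280) (nat_lit 5) (nat_lit 286) (nat_lit 5) (nat_lit 287) (nat_lit 5) (nat_lit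 473) (nat_lit 461) (nat_lit 86)) (XT.lf (nat_lit 0) (nat_lit 366998309951) (nat_lit 836) (nat_lit 206701851353) (nat_lit 836) (nat_lit 206701851353) (nat_lit 292) (nat_lit 3) (nat_lit 303) (nat_lit 3) (nat_lit 303) (nat_lit 5) (nat_lit 462) (nat_lit 462) (nat_lit 96)))))) (XT.nd (nat_lit 624) (nat_lit 0) (nat_lit 0) (XT.nd (nat_lit 312) (nat_lit 0) (nat_lit 152) (XT.nd (nat_lit 156) (nat_lit 0) (nat_lit 76) (XT.nd (nat_lit 78) (nat_lit 0) (nat_lit 76) (XT.lf (nat_lit 76) (nat_lit 379132931490) (nat_lit 0) (nat_lit 379132957950) (nat_lit 836) (nat_lit 841262268807) (nat_lit 293) (nat_lit 5) (nat_lit 292) (nat_lit 3) (nat_lit 303) (nat_lit 5) (nat_lit 463) (nat_lit 462) (nat_lit 95)) (XT.lf (nat_lit 0) (nat_lit 797539805102) (nat_lit 760) (nat_lit 420979591395) (nat_lit 836) (nat_lit 420979542195) (nat_lit 293) (nat_lit 5) (nat_lit 303) (nat_lit 5) (nat_lit 304) (nat_lit 5) (nat_lit 464) (nat_lit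 462) (nat_lit 94))) (XT.nd (nat_lit 78) (nat_lit 0) (nat_lit 76) (XT.lf (nat_lit 76) (nat_lit 425820443878) (nat_lit 0) (nat_lit 425820515935) (nat_lit 836) (nat_lit 829184121182) (nat_lit 294) (nat_lit 5) (nat_lit 293) (nat_lit 5) (nat_lit 304) (nat_lit 5) (nat_lit 465) (nat_lit 462) (nat_lit 93)) (XT.lf (nat_lit 0) (nat_lit 922040352735) (nat_lit 760) (nat_lit 400748804007) (nat_lit 836) (nat_lit 400748714649) (nat_lit 294) (nat_lit 5) (nat_lit 304) (nat_lit 5) (nat_lit 305) (nat_lit 5) (nat_lit 466) (nat_lit 462) (nat_lit 92)))) (XT.nd (nat_lit 156) (nat_lit 0) (nat_lit 76) (XT.nd (nat_lit 78) (nat_lit 0) (nat_lit 76) (XT.lf (nat_lit 76) (nat_lit 505415611523) (nat_lit 0) (nat_lit 505415720626) (nat_lit 836) (nat_lit 756811388315) (nat_lit 295) (nat_lit 5) (nat_lit 294) (nat_lit 5) (nat_lit 305) (nat_lit 5) (nat_lit 467) (nat_lit 462) (nat_lit 91)) (XT.lf (nat_lit 0) (nat_lit 1116468602978)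 (nat_lit 760) (nat_lit 348431996853) (nat_lit 836) (nat_lit 348431875037) (nat_lit 295) (nat_lit 5) (nat_lit 305) (nat_lit 5) (nat_lit 306) (nat_lit 5) (nat_lit 468) (nat_lit 462) (nat_lit 90))) (XT.nd (nat_lit 78) (nat_lit 0) (nat_lit 76) (XT.lf (nat_lit 76) (nat_lit 622697577522) (nat_lit 0) (nat_lit 622697716395) (nat_lit 836) (nat_lit 615011045247) (nat_lit 296) (nat_lit 5) (nat_lit 295) (nat_lit 5) (nat_lit 306) (nat_lit 5) (nat_lit 469) (nat_lit 462) (nat_lit 89)) (XT.lf (nat_lit 0) (nat_lit 1390850466247) (nat_lit 760) (nat_lit 259239735409) (nat_lit 836) (nat_lit 259239587678) (nat_lit 296) (nat_lit 5) (nat_lit 306) (nat_lit 5) (nat_lit 307) (nat_lit 5) (nat_lit 470) (nat_lit 462) (nat_lit 88))))) (XT.nd (nat_lit 52650) (nat_lit 0) (nat_lit 76) (XT.nd (nat_lit 52494) (nat_lit 304) (nat_lit 0) (XT.nd (nat_lit 78) (nat_lit 0) (nat_lit 76) (XT.lf (nat_lit 76) (nat_lit 783005652698) (nat_lit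 0) (nat_lit 783005815162) (nat_lit 836) (nat_lit 393566290617) (nat_lit 297) (nat_lit 5) (nat_lit 296) (nat_lit 5) (nat_lit 307) (nat_lit 5) (nat_lit 471) (nat_lit 462) (nat_lit 87)) (XT.lf (nat_lit 0) (nat_lit 1756382424682) (nat_lit 760) (nat_lit 127816637116) (nat_lit 76) (nat_lit 127816469024) (nat_lit 297) (nat_lit 5) (nat_lit 307) (nat_lit 5) (nat_lit 298) (nat_lit 5) (nat_lit 472) (nat_lit 462) (nat_lit 86))) (XT.nd (nat_lit 78) (nat_lit 0) (nat_lit 0) (XT.lf (nat_lit 0) (nat_lit 385348251496) (nat_lit 836) (nat_lit 217036930246) (nat_lit 836) (nat_lit 217036930246) (nat_lit 292) (nat_lit 3) (nat_lit 303) (nat_lit 3) (nat_lit 303) (nat_lit 5) (nat_lit 463) (nat_lit 463) (nat_lit 94)) (XT.lf (nat_lit 76) (nat_lit 398089604972) (nat_lit 0) (nat_lit 398089628972) (nat_lit 836) (nat_lit 883325329712) (nat_lit 293) (nat_lit 5) (nat_lit 292) (nat_lit 3) (nat_lit 303) (nat_lit 5) (nat_lit 464)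 (nat_lit 463) (nat_lit 93)))) (XT.nd (nat_lit 156) (nat_lit 0) (nat_lit 76) (XT.nd (nat_lit 78) (nat_lit 0) (nat_lit 0) (XT.lf (nat_lit 0) (nat_lit 837416842664) (nat_lit 760) (nat_lit 442028542612) (nat_lit 836) (nat_lit 442028497986) (nat_lit 293) (nat_lit 5) (nat_lit 303) (nat_lit 5) (nat_lit 304) (nat_lit 5) (nat_lit 465) (nat_lit 463) (nat_lit 92)) (XT.lf (nat_lit 76) (nat_lit 447111493968) (nat_lit 0) (nat_lit 447111559326) (nat_lit 836) (nat_lit 870643279477) (nat_lit 294) (nat_lit 5) (nat_lit 293) (nat_lit 5) (nat_lit 304) (nat_lit 5) (nat_lit 466) (nat_lit 463) (nat_lit 91))) (XT.nd (nat_lit 78) (nat_lit 0) (nat_lit 0) (XT.lf (nat_lit 0) (nat_lit 968142413434) (nat_lit 760) (nat_lit 420786215212) (nat_lit 836) (nat_lit 420786134162) (nat_lit 294) (nat_lit 5) (nat_lit 304) (nat_lit 5) (nat_lit 305) (nat_lit 5) (nat_lit 467) (nat_lit 463) (nat_lit 90)) (XT.lf (nat_lit 76) (nat_lit 530686420627)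 (nat_lit 0) (nat_lit 530686519586) (nat_lit 836) (nat_lit 794651914201) (nat_lit 295) (nat_lit 5) (nat_lit 294) (nat_lit 5) (nat_lit 305) (nat_lit 5) (nat_lit 468) (nat_lit 463) (nat_lit 89)))))))
noncomputable def xc351 : XT := (XT.nd (nat_lit 106236) (nat_lit 0) (nat_lit 0) (XT.nd (nat_lit 53040) (nat_lit 0) (nat_lit 0) (XT.nd (nat_lit 52728) (nat_lit 228) (nat_lit 0) (XT.nd (nat_lit 156) (nat_lit 0) (nat_lit 76) (XT.nd (nat_lit 78) (nat_lit 0) (nat_lit 0) (XT.lf (nat_lit 0) (nat_lit 1172292072418) (nat_lit 760) (nat_lit 365853567361) (nat_lit 836) (nat_lit 365853456869) (nat_lit 295) (nat_lit 5) (nat_lit 305) (nat_lit 5) (nat_lit 306) (nat_lit 5) (nat_lit 469) (nat_lit 463) (nat_lit 88)) (XT.lf (nat_lit 76) (nat_lit 653832485261) (nat_lit 0) (nat_lit 653832611223) (nat_lit 836) (nat_lit 645761557746) (nat_lit 296) (nat_lit 5) (nat_lit 295) (nat_lit 5) (nat_lit 306) (nat_lit 5) (nat_lit 470)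 (nat_lit 463) (nat_lit 87))) (XT.nd (nat_lit 78) (nat_lit 0) (nat_lit 0) (XT.lf (nat_lit 0) (nat_lit 1460393025492) (nat_lit 760) (nat_lit 272201692754) (nat_lit 836) (nat_lit 272201558758) (nat_lit 296) (nat_lit 5) (nat_lit 306) (nat_lit 5) (nat_lit 307) (nat_lit 5) (nat_lit 471) (nat_lit 463) (nat_lit 86)) (XT.lf (nat_lit 76) (nat_lit 822155964284) (nat_lit 0) (nat_lit 822156111644) (nat_lit 836) (nat_lit 413244568741) (nat_lit 297) (nat_lit 5) (nat_lit 296) (nat_lit 5) (nat_lit 307) (nat_lit 5) (nat_lit 472) (nat_lit 463) (nat_lit 85)))) (XT.nd (nat_lit 156) (nat_lit 0) (nat_lit 76) (XT.nd (nat_lit 78) (nat_lit 0) (nat_lit 0) (XT.lf (nat_lit 0) (nat_lit 404615687696) (nat_lit 836) (nat_lit 227888764355) (nat_lit 836) (nat_lit 227888764355) (nat_lit 292) (nat_lit 3) (nat_lit 303) (nat_lit 3) (nat_lit 303) (nat_lit 5) (nat_lit 464) (nat_lit 464) (nat_lit 92)) (XT.lf (nat_lit 76) (nat_lit 417994109628)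 (nat_lit 0) (nat_lit 417994131396) (nat_lit 836) (nat_lit 927491548547) (nat_lit 293) (nat_lit 5) (nat_lit 292) (nat_lit 3) (nat_lit 303) (nat_lit 5) (nat_lit 465) (nat_lit 464) (nat_lit 91))) (XT.nd (nat_lit 78) (nat_lit 0) (nat_lit 0) (XT.lf (nat_lit 0) (nat_lit 879287727706) (nat_lit 760) (nat_lit 464129944025) (nat_lit 836) (nat_lit 464129903548) (nat_lit 293) (nat_lit 5) (nat_lit 303) (nat_lit 5) (nat_lit 304) (nat_lit 5) (nat_lit 466) (nat_lit 464) (nat_lit 90)) (XT.lf (nat_lit 76) (nat_lit 469467093969) (nat_lit 0) (nat_lit 469467153250) (nat_lit 836) (nat_lit 914175400128) (nat_lit 294) (nat_lit 5) (nat_lit 293) (nat_lit 5) (nat_lit 304) (nat_lit 5) (nat_lit 467) (nat_lit 464) (nat_lit 89))))) (XT.nd (nat_lit 52884) (nat_lit 152) (nat_lit 0) (XT.nd (nat_lit 156) (nat_lit 0) (nat_lit 76) (XT.nd (nat_lit 78) (nat_lit 0) (nat_lit 0) (XT.lf (nat_lit 0) (nat_lit 1016549573164) (nat_lit 760)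 (nat_lit 441825499673) (nat_lit 836) (nat_lit 441825426158) (nat_lit 294) (nat_lit 5) (nat_lit 304) (nat_lit 5) (nat_lit 305) (nat_lit 5) (nat_lit 468) (nat_lit 464) (nat_lit 88)) (XT.lf (nat_lit 76) (nat_lit 557220767534) (nat_lit 0) (nat_lit 557220857293) (nat_lit 836) (nat_lit 834384470429) (nat_lit 295) (nat_lit 5) (nat_lit 294) (nat_lit 5) (nat_lit 305) (nat_lit 5) (nat_lit 469) (nat_lit 464) (nat_lit 87))) (XT.nd (nat_lit 78) (nat_lit 0) (nat_lit 0) (XT.lf (nat_lit 0) (nat_lit 1230906711676) (nat_lit 760) (nat_lit 384146219120) (nat_lit 836) (nat_lit 384146118902) (nat_lit 295) (nat_lit 5) (nat_lit 305) (nat_lit 5) (nat_lit 306) (nat_lit 5) (nat_lit 470) (nat_lit 464) (nat_lit 86)) (XT.lf (nat_lit 76) (nat_lit 686524135703) (nat_lit 0) (nat_lit 686524249954) (nat_lit 836) (nat_lit 678049599567) (nat_lit 296) (nat_lit 5) (nat_lit 295) (nat_lit 5) (nat_lit 306) (nat_lit 5) (nat_lit 471) (nat_lit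 464) (nat_lit 85)))) (XT.nd (nat_lit 156) (nat_lit 0) (nat_lit 76) (XT.nd (nat_lit 78) (nat_lit 0) (nat_lit 0) (XT.lf (nat_lit 0) (nat_lit 424846493509) (nat_lit 836) (nat_lit 239283191323) (nat_lit 836) (nat_lit 239283191323) (nat_lit 292) (nat_lit 3) (nat_lit 303) (nat_lit 3) (nat_lit 303) (nat_lit 5) (nat_lit 465) (nat_lit 465) (nat_lit 90)) (XT.lf (nat_lit 76) (nat_lit 438893837246) (nat_lit 0) (nat_lit 438893856991) (nat_lit 836) (nat_lit 973866082754) (nat_lit 293) (nat_lit 5) (nat_lit 292) (nat_lit 3) (nat_lit 303) (nat_lit 5) (nat_lit 466) (nat_lit 465) (nat_lit 89))) (XT.nd (nat_lit 78) (nat_lit 0) (nat_lit 0) (XT.lf (nat_lit 0) (nat_lit 923252153010) (nat_lit 760) (nat_lit 487336417900) (nat_lit 836) (nat_lit 487336381186) (nat_lit 293) (nat_lit 5) (nat_lit 303) (nat_lit 5) (nat_lit 304) (nat_lit 5) (nat_lit 467) (nat_lit 465) (nat_lit 88)) (XT.lf (nat_lit 76) (nat_lit 492940471617) (nat_lit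 0) (nat_lit 492940525387) (nat_lit 836) (nat_lit 959884130838) (nat_lit 294) (nat_lit 5) (nat_lit 293) (nat_lit 5) (nat_lit 304) (nat_lit 5) (nat_lit 468) (nat_lit 465) (nat_lit 87)))))) (XT.nd (nat_lit 53274) (nat_lit 0) (nat_lit 0) (XT.nd (nat_lit 52962) (nat_lit 0) (nat_lit 0) (XT.nd (nat_lit 156) (nat_lit 152) (nat_lit 0) (XT.nd (nat_lit 78) (nat_lit 0) (nat_lit 0) (XT.lf (nat_lit 0) (nat_lit 1067377087249) (nat_lit 760) (nat_lit 463916750803) (nat_lit 836) (nat_lit 463916684122) (nat_lit 294) (nat_lit 5) (nat_lit 304) (nat_lit 5) (nat_lit 305) (nat_lit 5) (nat_lit 469) (nat_lit 465) (nat_lit 86)) (XT.lf (nat_lit 76) (nat_lit 585081829380) (nat_lit 0) (nat_lit 585081910794) (nat_lit 836) (nat_lit 876103658139) (nat_lit 295) (nat_lit 5) (nat_lit 294) (nat_lit 5) (nat_lit 305) (nat_lit 5) (nat_lit 470) (nat_lit 465) (nat_lit 85))) (XT.nd (nat_lit 52728) (nat_lit 228) (nat_lit 0) (XT.lf (nat_lit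 0) (nat_lit 1292452079584) (nat_lit 760) (nat_lit 403353505942) (nat_lit 836) (nat_lit 403353415041) (nat_lit 295) (nat_lit 5) (nat_lit 305) (nat_lit 5) (nat_lit 306) (nat_lit 5) (nat_lit 471) (nat_lit 465) (nat_lit 84)) (XT.lf (nat_lit 0) (nat_lit 446088837621) (nat_lit 836) (nat_lit 251247340685) (nat_lit 836) (nat_lit 251247340685) (nat_lit 292) (nat_lit 3) (nat_lit 303) (nat_lit 3) (nat_lit 303) (nat_lit 5) (nat_lit 466) (nat_lit 466) (nat_lit 88)))) (XT.nd (nat_lit 156) (nat_lit 0) (nat_lit 76) (XT.nd (nat_lit 78) (nat_lit 0) (nat_lit 76) (XT.lf (nat_lit 76) (nat_lit 460838549188) (nat_lit 0) (nat_lit 460838567097) (nat_lit 836) (nat_lit 1022559347690) (nat_lit 293) (nat_lit 5) (nat_lit 292) (nat_lit 3) (nat_lit 303) (nat_lit 5) (nat_lit 467) (nat_lit 466) (nat_lit 87)) (XT.lf (nat_lit 0) (nat_lit 969414795962) (nat_lit 760) (nat_lit 511703217638) (nat_lit 836) (nat_lit 511703184337) (nat_lit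 293) (nat_lit 5) (nat_lit 303) (nat_lit 5) (nat_lit 304) (nat_lit 5) (nat_lit 468) (nat_lit 466) (nat_lit 86))) (XT.nd (nat_lit 78) (nat_lit 0) (nat_lit 76) (XT.lf (nat_lit 76) (nat_lit 517587516014) (nat_lit 0) (nat_lit 517587564785) (nat_lit 836) (nat_lit 1007878301738) (nat_lit 294) (nat_lit 5) (nat_lit 293) (nat_lit 5) (nat_lit 304) (nat_lit 5) (nat_lit 469) (nat_lit 466) (nat_lit 85)) (XT.lf (nat_lit 0) (nat_lit 1120745973745) (nat_lit 760) (nat_lit 487112566706) (nat_lit 836) (nat_lit 487112506225) (nat_lit 294) (nat_lit 5) (nat_lit 304) (nat_lit 5) (nat_lit 305) (nat_lit 5) (nat_lit 470) (nat_lit 466) (nat_lit 84))))) (XT.nd (nat_lit 53040) (nat_lit 0) (nat_lit 0) (XT.nd (nat_lit 52884) (nat_lit 0) (nat_lit 0) (XT.nd (nat_lit 52806) (nat_lit 152) (nat_lit 0) (XT.lf (nat_lit 76) (nat_lit 614335942137) (nat_lit 0) (nat_lit 614336015982) (nat_lit 836) (nat_lit 919908808563) (nat_lit 295) (nat_lit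 5) (nat_lit 294) (nat_lit 5) (nat_lit 305) (nat_lit 5) (nat_lit 471) (nat_lit 466) (nat_lit 83)) (XT.lf (nat_lit 0) (nat_lit 468393297132) (nat_lit 836) (nat_lit 263809698463) (nat_lit 836) (nat_lit 263809698463) (nat_lit 292) (nat_lit 3) (nat_lit 303) (nat_lit 3) (nat_lit 303) (nat_lit 5) (nat_lit 467) (nat_lit 467) (nat_lit 86))) (XT.nd (nat_lit 78) (nat_lit 0) (nat_lit 76) (XT.lf (nat_lit 76) (nat_lit 483880494860) (nat_lit 0) (nat_lit 483880511104) (nat_lit 836) (nat_lit 1073687279517) (nat_lit 293) (nat_lit 5) (nat_lit 292) (nat_lit 3) (nat_lit 303) (nat_lit 5) (nat_lit 468) (nat_lit 467) (nat_lit 85)) (XT.lf (nat_lit 0) (nat_lit 1017885567779) (nat_lit 760) (nat_lit 537288359329) (nat_lit 836) (nat_lit 537288329124) (nat_lit 293) (nat_lit 5) (nat_lit 303) (nat_lit 5) (nat_lit 304) (nat_lit 5) (nat_lit 469) (nat_lit 467) (nat_lit 84)))) (XT.nd (nat_lit 53118) (nat_lit 0) (nat_lit 0) (XT.nd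 (nat_lit 53040) (nat_lit 76) (nat_lit 0) (XT.lf (nat_lit 76) (nat_lit 543466910696) (nat_lit 0) (nat_lit 543466954933) (nat_lit 836) (nat_lit 1058272184496) (nat_lit 294) (nat_lit 5) (nat_lit 293) (nat_lit 5) (nat_lit 304) (nat_lit 5) (nat_lit 470) (nat_lit 467) (nat_lit 83)) (XT.lf (nat_lit 76) (nat_lit 508074536122) (nat_lit 0) (nat_lit 508074550856) (nat_lit 836) (nat_lit 1127371611241) (nat_lit 293) (nat_lit 5) (nat_lit 292) (nat_lit 3) (nat_lit 303) (nat_lit 5) (nat_lit 469) (nat_lit 468) (nat_lit 83))) (XT.nd (nat_lit 53118) (nat_lit 76) (nat_lit 0) (XT.lf (nat_lit 0) (nat_lit 1068779875210) (nat_lit 760) (nat_lit 564152759889) (nat_lit 836) (nat_lit 564152732493) (nat_lit 293) (nat_lit 5) (nat_lit 303) (nat_lit 5) (nat_lit 304) (nat_lit 5) (nat_lit 470) (nat_lit 468) (nat_lit 82)) (XT.nd (nat_lit 53196) (nat_lit 0) (nat_lit 0) (XT.lf (nat_lit 76) (nat_lit 533478277912) (nat_lit 0) (nat_lit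 533478291276) (nat_lit 836) (nat_lit 1183740162549) (nat_lit 293) (nat_lit 5) (nat_lit 292) (nat_lit 3) (nat_lit 303) (nat_lit 5) (nat_lit 470) (nat_lit 469) (nat_lit 81)) (XT.lf (nat_lit 76) (nat_lit 560152205398) (nat_lit 0) (nat_lit 560152217519) (nat_lit 836) (nat_lit 1242927144143) (nat_lit 293) (nat_lit 5) (nat_lit 292) (nat_lit 3) (nat_lit 303) (nat_lit 5) (nat_lit 471) (nat_lit 470) (nat_lit 79))))))))
noncomputable def ec0 : XT := (XT.nd (nat_lit 159510) (nat_lit 380) (nat_lit 0) (XT.nd (nat_lit 106158) (nat_lit 0) (nat_lit 0) (XT.nd (nat_lit 53196) (nat_lit 0) (nat_lit 0) (XT.nd (nat_lit 52962) (nat_lit 0) (nat_lit 0) (XT.nd (nat_lit 78) (nat_lit 0) (nat_lit 0) (XT.lf (nat_lit 836) (nat_lit 181627866) (nat_lit 76) (nat_lit 81854580) (nat_lit 0) (nat_lit 81854580) (nat_lit 303) (nat_lit 1) (nat_lit 293) (nat_lit 1) (nat_lit 292) (nat_lit 0) (nat_lit 441) (nat_lit 290) (nat_lit 289)) (XT.nd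 (nat_lit 52806) (nat_lit 76) (nat_lit 0) (XT.lf (nat_lit 836) (nat_lit 86561106) (nat_lit 0) (nat_lit 163988921) (nat_lit 760) (nat_lit 86561106) (nat_lit 304) (nat_lit 1) (nat_lit 293) (nat_lit 1) (nat_lit 303) (nat_lit 1) (nat_lit 442) (nat_lit 290) (nat_lit 288)) (XT.lf (nat_lit 836) (nat_lit 49201010) (nat_lit 0) (nat_lit 87356281) (nat_lit 836) (nat_lit 49201010) (nat_lit 303) (nat_lit 1) (nat_lit 292) (nat_lit 0) (nat_lit 303) (nat_lit 0) (nat_lit 438) (nat_lit 291) (nat_lit 291)))) (XT.nd (nat_lit 78) (nat_lit 0) (nat_lit 76) (XT.lf (nat_lit 836) (nat_lit 190709260) (nat_lit 76) (nat_lit 85947309) (nat_lit 0) (nat_lit 85947309) (nat_lit 303) (nat_lit 1) (nat_lit 293) (nat_lit 1) (nat_lit 292) (nat_lit 0) (nat_lit 439) (nat_lit 291) (nat_lit 290)) (XT.nd (nat_lit 78) (nat_lit 0) (nat_lit 0) (XT.lf (nat_lit 836) (nat_lit 90889161) (nat_lit 0) (nat_lit 172188367) (nat_lit 760) (nat_lit 90889161)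 (nat_lit 304) (nat_lit 1) (nat_lit 293) (nat_lit 1) (nat_lit 303) (nat_lit 1) (nat_lit 440) (nat_lit 291) (nat_lit 289)) (XT.lf (nat_lit 836) (nat_lit 170495438) (nat_lit 76) (nat_lit 87556555) (nat_lit 0) (nat_lit 87556555) (nat_lit 304) (nat_lit 1) (nat_lit 294) (nat_lit 1) (nat_lit 293) (nat_lit 1) (nat_lit 441) (nat_lit 291) (nat_lit 288))))) (XT.nd (nat_lit 52728) (nat_lit 0) (nat_lit 0) (XT.nd (nat_lit 78) (nat_lit 152) (nat_lit 0) (XT.lf (nat_lit 836) (nat_lit 78477412) (nat_lit 0) (nat_lit 180560493) (nat_lit 760) (nat_lit 78477412) (nat_lit 305) (nat_lit 1) (nat_lit 294) (nat_lit 1) (nat_lit 304) (nat_lit 1) (nat_lit 442) (nat_lit 291) (nat_lit 287)) (XT.nd (nat_lit 52572) (nat_lit 152) (nat_lit 0) (XT.lf (nat_lit 836) (nat_lit 141146738) (nat_lit 76) (nat_lit 94261031) (nat_lit 0) (nat_lit 94261031) (nat_lit 305) (nat_lit 1) (nat_lit 295) (nat_lit 1) (nat_lit 294) (nat_lit 1) (nat_lit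 443) (nat_lit 291) (nat_lit 286)) (XT.lf (nat_lit 836) (nat_lit 51661061) (nat_lit 0) (nat_lit 91724095) (nat_lit 836) (nat_lit 51661061) (nat_lit 303) (nat_lit 1) (nat_lit 292) (nat_lit 0) (nat_lit 303) (nat_lit 0) (nat_lit 436) (nat_lit 292) (nat_lit 292)))) (XT.nd (nat_lit 78) (nat_lit 0) (nat_lit 76) (XT.lf (nat_lit 836) (nat_lit 200244723) (nat_lit 76) (nat_lit 90244674) (nat_lit 0) (nat_lit 90244674) (nat_lit 303) (nat_lit 1) (nat_lit 293) (nat_lit 1) (nat_lit 292) (nat_lit 0) (nat_lit 437) (nat_lit 292) (nat_lit 291)) (XT.nd (nat_lit 78) (nat_lit 0) (nat_lit 0) (XT.lf (nat_lit 836) (nat_lit 95433619) (nat_lit 0) (nat_lit 180797786) (nat_lit 760) (nat_lit 95433619) (nat_lit 304) (nat_lit 1) (nat_lit 293) (nat_lit 1) (nat_lit 303) (nat_lit 1) (nat_lit 438) (nat_lit 292) (nat_lit 290)) (XT.lf (nat_lit 836) (nat_lit 179020210) (nat_lit 76) (nat_lit 91934383) (nat_lit 0) (nat_lit 91934383) (nat_lit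 304) (nat_lit 1) (nat_lit 294) (nat_lit 1) (nat_lit 293) (nat_lit 1) (nat_lit 439) (nat_lit 292) (nat_lit 289)))))) (XT.nd (nat_lit 52806) (nat_lit 0) (nat_lit 76) (XT.nd (nat_lit 234) (nat_lit 152) (nat_lit 0) (XT.nd (nat_lit 78) (nat_lit 0) (nat_lit 0) (XT.lf (nat_lit 836) (nat_lit 82401283) (nat_lit 0) (nat_lit 189588518) (nat_lit 760) (nat_lit 82401283) (nat_lit 305) (nat_lit 1) (nat_lit 294) (nat_lit 1) (nat_lit 304) (nat_lit 1) (nat_lit 440) (nat_lit 292) (nat_lit 288)) (XT.nd (nat_lit 78) (nat_lit 0) (nat_lit 76) (XT.lf (nat_lit 836) (nat_lit 148204075) (nat_lit 76) (nat_lit 98974083) (nat_lit 0) (nat_lit 98974083) (nat_lit 305) (nat_lit 1) (nat_lit 295) (nat_lit 1) (nat_lit 294) (nat_lit 1) (nat_lit 441) (nat_lit 292) (nat_lit 287)) (XT.lf (nat_lit 836) (nat_lit 64983206) (nat_lit 0) (nat_lit 208223616) (nat_lit 760) (nat_lit 64983206) (nat_lit 306) (nat_lit 1) (nat_lit 295) (nat_lit 1)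 (nat_lit 305) (nat_lit 1) (nat_lit 442) (nat_lit 292) (nat_lit 286)))) (XT.nd (nat_lit 52416) (nat_lit 228) (nat_lit 0) (XT.lf (nat_lit 836) (nat_lit 109238765) (nat_lit 76) (nat_lit 110604139) (nat_lit 0) (nat_lit 110604139) (nat_lit 306) (nat_lit 1) (nat_lit 296) (nat_lit 1) (nat_lit 295) (nat_lit 1) (nat_lit 443) (nat_lit 292) (nat_lit 285)) (XT.nd (nat_lit 78) (nat_lit 0) (nat_lit 0) (XT.lf (nat_lit 836) (nat_lit 54244114) (nat_lit 0) (nat_lit 96310300) (nat_lit 836) (nat_lit 54244114) (nat_lit 303) (nat_lit 1) (nat_lit 292) (nat_lit 0) (nat_lit 303) (nat_lit 0) (nat_lit 434) (nat_lit 293) (nat_lit 293)) (XT.lf (nat_lit 836) (nat_lit 210256959) (nat_lit 76) (nat_lit 94756908) (nat_lit 0) (nat_lit 94756908) (nat_lit 303) (nat_lit 1) (nat_lit 293) (nat_lit 1) (nat_lit 292) (nat_lit 0) (nat_lit 435) (nat_lit 293) (nat_lit 292))))) (XT.nd (nat_lit 234) (nat_lit 0) (nat_lit 76) (XT.nd (nat_lit 78)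 (nat_lit 0) (nat_lit 0) (XT.lf (nat_lit 836) (nat_lit 100205300) (nat_lit 0) (nat_lit 189837675) (nat_lit 760) (nat_lit 100205300) (nat_lit 304) (nat_lit 1) (nat_lit 293) (nat_lit 1) (nat_lit 303) (nat_lit 1) (nat_lit 436) (nat_lit 293) (nat_lit 291)) (XT.nd (nat_lit 78) (nat_lit 0) (nat_lit 76) (XT.lf (nat_lit 836) (nat_lit 187971220) (nat_lit 76) (nat_lit 96531102) (nat_lit 0) (nat_lit 96531102) (nat_lit 304) (nat_lit 1) (nat_lit 294) (nat_lit 1) (nat_lit 293) (nat_lit 1) (nat_lit 437) (nat_lit 293) (nat_lit 290)) (XT.lf (nat_lit 836) (nat_lit 86521347) (nat_lit 0) (nat_lit 199067943) (nat_lit 760) (nat_lit 86521347) (nat_lit 305) (nat_lit 1) (nat_lit 294) (nat_lit 1) (nat_lit 304) (nat_lit 1) (nat_lit 438) (nat_lit 293) (nat_lit 289)))) (XT.nd (nat_lit 156) (nat_lit 0) (nat_lit 76) (XT.nd (nat_lit 78) (nat_lit 0) (nat_lit 76) (XT.lf (nat_lit 836) (nat_lit 155614279) (nat_lit 76) (nat_lit 103922787)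 (nat_lit 0) (nat_lit 103922787) (nat_lit 305) (nat_lit 1) (nat_lit 295) (nat_lit 1) (nat_lit 294) (nat_lit 1) (nat_lit 439) (nat_lit 293) (nat_lit 288)) (XT.lf (nat_lit 836) (nat_lit 68232366) (nat_lit 0) (nat_lit 218634797) (nat_lit 760) (nat_lit 68232366) (nat_lit 306) (nat_lit 1) (nat_lit 295) (nat_lit 1) (nat_lit 305) (nat_lit 1) (nat_lit 440) (nat_lit 293) (nat_lit 287))) (XT.nd (nat_lit 78) (nat_lit 0) (nat_lit 76) (XT.lf (nat_lit 836) (nat_lit 114700703) (nat_lit 76) (nat_lit 116134346) (nat_lit 0) (nat_lit 116134346) (nat_lit 306) (nat_lit 1) (nat_lit 296) (nat_lit 1) (nat_lit 295) (nat_lit 1) (nat_lit 441) (nat_lit 293) (nat_lit 286)) (XT.lf (nat_lit 836) (nat_lit 46046358) (nat_lit 0) (nat_lit 247044155) (nat_lit 760) (nat_lit 46046358) (nat_lit 307) (nat_lit 1) (nat_lit 296) (nat_lit 1) (nat_lit 306) (nat_lit 1) (nat_lit 442) (nat_lit 293) (nat_lit 285))))))) (XT.nd (nat_lit 53118) (nat_lit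 380) (nat_lit 0) (XT.nd (nat_lit 52650) (nat_lit 0) (nat_lit 152) (XT.nd (nat_lit 52416) (nat_lit 0) (nat_lit 76) (XT.nd (nat_lit 52260) (nat_lit 304) (nat_lit 0) (XT.lf (nat_lit 836) (nat_lit 66576717) (nat_lit 76) (nat_lit 132455432) (nat_lit 0) (nat_lit 132455432) (nat_lit 307) (nat_lit 1) (nat_lit 297) (nat_lit 1) (nat_lit 296) (nat_lit 1) (nat_lit 443) (nat_lit 293) (nat_lit 284)) (XT.nd (nat_lit 78) (nat_lit 0) (nat_lit 0) (XT.lf (nat_lit 836) (nat_lit 56956320) (nat_lit 0) (nat_lit 101125815) (nat_lit 836) (nat_lit 56956320) (nat_lit 303) (nat_lit 1) (nat_lit 292) (nat_lit 0) (nat_lit 303) (nat_lit 0) (nat_lit 432) (nat_lit 294) (nat_lit 294)) (XT.lf (nat_lit 836) (nat_lit 220769807) (nat_lit 76) (nat_lit 99494753) (nat_lit 0) (nat_lit 99494753) (nat_lit 303) (nat_lit 1) (nat_lit 293) (nat_lit 1) (nat_lit 292) (nat_lit 0) (nat_lit 433) (nat_lit 294) (nat_lit 293)))) (XT.nd (nat_lit 78) (nat_lit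 0) (nat_lit 0) (XT.lf (nat_lit 836) (nat_lit 105215565) (nat_lit 0) (nat_lit 199329559) (nat_lit 760) (nat_lit 105215565) (nat_lit 304) (nat_lit 1) (nat_lit 293) (nat_lit 1) (nat_lit 303) (nat_lit 1) (nat_lit 434) (nat_lit 294) (nat_lit 292)) (XT.nd (nat_lit 78) (nat_lit 0) (nat_lit 76) (XT.lf (nat_lit 836) (nat_lit 197369781) (nat_lit 76) (nat_lit 101357657) (nat_lit 0) (nat_lit 101357657) (nat_lit 304) (nat_lit 1) (nat_lit 294) (nat_lit 1) (nat_lit 293) (nat_lit 1) (nat_lit 435) (nat_lit 294) (nat_lit 291)) (XT.lf (nat_lit 836) (nat_lit 90847415) (nat_lit 0) (nat_lit 209021341) (nat_lit 760) (nat_lit 90847415) (nat_lit 305) (nat_lit 1) (nat_lit 294) (nat_lit 1) (nat_lit 304) (nat_lit 1) (nat_lit 436) (nat_lit 294) (nat_lit 290))))) (XT.nd (nat_lit 234) (nat_lit 0) (nat_lit 152) (XT.nd (nat_lit 78) (nat_lit 0) (nat_lit 76) (XT.lf (nat_lit 836) (nat_lit 163394993) (nat_lit 76) (nat_lit 109118926)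 (nat_lit 0) (nat_lit 109118926) (nat_lit 305) (nat_lit 1) (nat_lit 295) (nat_lit 1) (nat_lit 294) (nat_lit 1) (nat_lit 437) (nat_lit 294) (nat_lit 289)) (XT.nd (nat_lit 78) (nat_lit 0) (nat_lit 0) (XT.lf (nat_lit 836) (nat_lit 71643985) (nat_lit 0) (nat_lit 229566537) (nat_lit 760) (nat_lit 71643985) (nat_lit 306) (nat_lit 1) (nat_lit 295) (nat_lit 1) (nat_lit 305) (nat_lit 1) (nat_lit 438) (nat_lit 294) (nat_lit 288)) (XT.lf (nat_lit 836) (nat_lit 120435739) (nat_lit 76) (nat_lit 121941063) (nat_lit 0) (nat_lit 121941063) (nat_lit 306) (nat_lit 1) (nat_lit 296) (nat_lit 1) (nat_lit 295) (nat_lit 1) (nat_lit 439) (nat_lit 294) (nat_lit 287)))) (XT.nd (nat_lit 78) (nat_lit 0) (nat_lit 0) (XT.lf (nat_lit 836) (nat_lit 48348676) (nat_lit 0) (nat_lit 259396363) (nat_lit 760) (nat_lit 48348676) (nat_lit 307) (nat_lit 1) (nat_lit 296) (nat_lit 1) (nat_lit 306) (nat_lit 1) (nat_lit 440) (nat_lit 294)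 (nat_lit 286)) (XT.nd (nat_lit 78) (nat_lit 0) (nat_lit 76) (XT.lf (nat_lit 836) (nat_lit 69905553) (nat_lit 76) (nat_lit 139078204) (nat_lit 0) (nat_lit 139078204) (nat_lit 307) (nat_lit 1) (nat_lit 297) (nat_lit 1) (nat_lit 296) (nat_lit 1) (nat_lit 441) (nat_lit 294) (nat_lit 285)) (XT.lf (nat_lit 76) (nat_lit 21621780) (nat_lit 0) (nat_lit 297114539) (nat_lit 760) (nat_lit 21621780) (nat_lit 298) (nat_lit 1) (nat_lit 297) (nat_lit 1) (nat_lit 307) (nat_lit 1) (nat_lit 442) (nat_lit 294) (nat_lit 284)))))) (XT.nd (nat_lit 52494) (nat_lit 0) (nat_lit 0) (XT.nd (nat_lit 52260) (nat_lit 0) (nat_lit 456) (XT.nd (nat_lit 52104) (nat_lit 0) (nat_lit 380) (XT.lf (nat_lit 836) (nat_lit 13059017) (nat_lit 0) (nat_lit 159866937) (nat_lit 760) (nat_lit 159866937) (nat_lit 298) (nat_lit 1) (nat_lit 287) (nat_lit 1) (nat_lit 297) (nat_lit 1) (nat_lit 443) (nat_lit 294) (nat_lit 283)) (XT.nd (nat_lit 78)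 (nat_lit 0) (nat_lit 0) (XT.lf (nat_lit 836) (nat_lit 59804136) (nat_lit 0) (nat_lit 106182106) (nat_lit 836) (nat_lit 59804136) (nat_lit 303) (nat_lit 1) (nat_lit 292) (nat_lit 0) (nat_lit 303) (nat_lit 0) (nat_lit 430) (nat_lit 295) (nat_lit 295)) (XT.lf (nat_lit 836) (nat_lit 231808297) (nat_lit 76) (nat_lit 104469491) (nat_lit 0) (nat_lit 104469491) (nat_lit 303) (nat_lit 1) (nat_lit 293) (nat_lit 1) (nat_lit 292) (nat_lit 0) (nat_lit 431) (nat_lit 295) (nat_lit 294)))) (XT.nd (nat_lit 78) (nat_lit 0) (nat_lit 0) (XT.lf (nat_lit 836) (nat_lit 110476344) (nat_lit 0) (nat_lit 209296037) (nat_lit 760) (nat_lit 110476344) (nat_lit 304) (nat_lit 1) (nat_lit 293) (nat_lit 1) (nat_lit 303) (nat_lit 1) (nat_lit 432) (nat_lit 295) (nat_lit 293)) (XT.nd (nat_lit 78) (nat_lit 0) (nat_lit 76) (XT.lf (nat_lit 836) (nat_lit 207238270) (nat_lit 76) (nat_lit 106425540) (nat_lit 0) (nat_lit 106425540) (nat_lit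 304) (nat_lit 1) (nat_lit 294) (nat_lit 1) (nat_lit 293) (nat_lit 1) (nat_lit 433) (nat_lit 295) (nat_lit 292)) (XT.lf (nat_lit 836) (nat_lit 95389785) (nat_lit 0) (nat_lit 219472408) (nat_lit 760) (nat_lit 95389785) (nat_lit 305) (nat_lit 1) (nat_lit 294) (nat_lit 1) (nat_lit 304) (nat_lit 1) (nat_lit 434) (nat_lit 295) (nat_lit 291))))) (XT.nd (nat_lit 234) (nat_lit 532) (nat_lit 0) (XT.nd (nat_lit 78) (nat_lit 0) (nat_lit 76) (XT.lf (nat_lit 836) (nat_lit 171564742) (nat_lit 76) (nat_lit 114574872) (nat_lit 0) (nat_lit 114574872) (nat_lit 305) (nat_lit 1) (nat_lit 295) (nat_lit 1) (nat_lit 294) (nat_lit 1) (nat_lit 435) (nat_lit 295) (nat_lit 290)) (XT.nd (nat_lit 78) (nat_lit 0) (nat_lit 0) (XT.lf (nat_lit 836) (nat_lit 75226184) (nat_lit 0) (nat_lit 241044863) (nat_lit 760) (nat_lit 75226184) (nat_lit 306) (nat_lit 1) (nat_lit 295) (nat_lit 1) (nat_lit 305) (nat_lit 1) (nat_lit 436) (nat_lit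 295) (nat_lit 289)) (XT.lf (nat_lit 836) (nat_lit 126457525) (nat_lit 76) (nat_lit 128038117) (nat_lit 0) (nat_lit 128038117) (nat_lit 306) (nat_lit 1) (nat_lit 296) (nat_lit 1) (nat_lit 295) (nat_lit 1) (nat_lit 437) (nat_lit 295) (nat_lit 288)))) (XT.nd (nat_lit 156) (nat_lit 684) (nat_lit 0) (XT.nd (nat_lit 78) (nat_lit 0) (nat_lit 0) (XT.lf (nat_lit 836) (nat_lit 50766110) (nat_lit 0) (nat_lit 272366181) (nat_lit 760) (nat_lit 50766110) (nat_lit 307) (nat_lit 1) (nat_lit 296) (nat_lit 1) (nat_lit 306) (nat_lit 1) (nat_lit 438) (nat_lit 295) (nat_lit 287)) (XT.lf (nat_lit 836) (nat_lit 73400830) (nat_lit 76) (nat_lit 146032114) (nat_lit 0) (nat_lit 146032114) (nat_lit 307) (nat_lit 1) (nat_lit 297) (nat_lit 1) (nat_lit 296) (nat_lit 1) (nat_lit 439) (nat_lit 295) (nat_lit 286))) (XT.nd (nat_lit 78) (nat_lit 760) (nat_lit 0) (XT.lf (nat_lit 76) (nat_lit 22702869) (nat_lit 0) (nat_lit 311970266)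 (nat_lit 760) (nat_lit 22702869) (nat_lit 298) (nat_lit 1) (nat_lit 297) (nat_lit 1) (nat_lit 307) (nat_lit 1) (nat_lit 440) (nat_lit 295) (nat_lit 285)) (XT.lf (nat_lit 836) (nat_lit 13711968) (nat_lit 0) (nat_lit 167860284) (nat_lit 760) (nat_lit 167860284) (nat_lit 298) (nat_lit 1) (nat_lit 287) (nat_lit 1) (nat_lit 297) (nat_lit 1) (nat_lit 441) (nat_lit 295) (nat_lit 284))))))))
noncomputable def ec1 : XT := (XT.nd (nat_lit 105534) (nat_lit 380) (nat_lit 0) (XT.nd (nat_lit 52806) (nat_lit 380) (nat_lit 0) (XT.nd (nat_lit 52338) (nat_lit 0) (nat_lit 1064) (XT.nd (nat_lit 52104) (nat_lit 0) (nat_lit 912) (XT.nd (nat_lit 78) (nat_lit 0) (nat_lit 0) (XT.lf (nat_lit 532) (nat_lit 325402285) (nat_lit 0) (nat_lit 8214024) (nat_lit 456) (nat_lit 8214024) (nat_lit 287) (nat_lit 1) (nat_lit 280) (nat_lit 1) (nat_lit 286) (nat_lit 1) (nat_lit 442) (nat_lit 295) (nat_lit 283)) (XT.nd (nat_lit 51948) (nat_lit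 0) (nat_lit 912) (XT.lf (nat_lit 76) (nat_lit 142265312) (nat_lit 0) (nat_lit 49795298) (nat_lit 532) (nat_lit 142265312) (nat_lit 281) (nat_lit 1) (nat_lit 280) (nat_lit 1) (nat_lit 287) (nat_lit 1) (nat_lit 443) (nat_lit 295) (nat_lit 282)) (XT.lf (nat_lit 836) (nat_lit 62794342) (nat_lit 0) (nat_lit 111491211) (nat_lit 836) (nat_lit 62794342) (nat_lit 303) (nat_lit 1) (nat_lit 292) (nat_lit 0) (nat_lit 303) (nat_lit 0) (nat_lit 428) (nat_lit 296) (nat_lit 296)))) (XT.nd (nat_lit 78) (nat_lit 0) (nat_lit 76) (XT.lf (nat_lit 836) (nat_lit 243398712) (nat_lit 76) (nat_lit 109692966) (nat_lit 0) (nat_lit 109692966) (nat_lit 303) (nat_lit 1) (nat_lit 293) (nat_lit 1) (nat_lit 292) (nat_lit 0) (nat_lit 429) (nat_lit 296) (nat_lit 295)) (XT.nd (nat_lit 78) (nat_lit 0) (nat_lit 0) (XT.lf (nat_lit 836) (nat_lit 116000161) (nat_lit 0) (nat_lit 219760838) (nat_lit 760) (nat_lit 116000161) (nat_lit 304)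 (nat_lit 1) (nat_lit 293) (nat_lit 1) (nat_lit 303) (nat_lit 1) (nat_lit 430) (nat_lit 296) (nat_lit 294)) (XT.lf (nat_lit 836) (nat_lit 217600184) (nat_lit 76) (nat_lit 111746817) (nat_lit 0) (nat_lit 111746817) (nat_lit 304) (nat_lit 1) (nat_lit 294) (nat_lit 1) (nat_lit 293) (nat_lit 1) (nat_lit 431) (nat_lit 296) (nat_lit 293))))) (XT.nd (nat_lit 234) (nat_lit 0) (nat_lit 76) (XT.nd (nat_lit 78) (nat_lit 0) (nat_lit 0) (XT.lf (nat_lit 836) (nat_lit 100159275) (nat_lit 0) (nat_lit 230446028) (nat_lit 760) (nat_lit 100159275) (nat_lit 305) (nat_lit 1) (nat_lit 294) (nat_lit 1) (nat_lit 304) (nat_lit 1) (nat_lit 432) (nat_lit 296) (nat_lit 292)) (XT.nd (nat_lit 78) (nat_lit 0) (nat_lit 76) (XT.lf (nat_lit 836) (nat_lit 180142980) (nat_lit 76) (nat_lit 120303616) (nat_lit 0) (nat_lit 120303616) (nat_lit 305) (nat_lit 1) (nat_lit 295) (nat_lit 1) (nat_lit 294) (nat_lit 1) (nat_lit 433) (nat_lit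 296) (nat_lit 291)) (XT.lf (nat_lit 836) (nat_lit 78987493) (nat_lit 0) (nat_lit 253097107) (nat_lit 760) (nat_lit 78987493) (nat_lit 306) (nat_lit 1) (nat_lit 295) (nat_lit 1) (nat_lit 305) (nat_lit 1) (nat_lit 434) (nat_lit 296) (nat_lit 290)))) (XT.nd (nat_lit 78) (nat_lit 0) (nat_lit 76) (XT.lf (nat_lit 836) (nat_lit 132780402) (nat_lit 76) (nat_lit 134440022) (nat_lit 0) (nat_lit 134440022) (nat_lit 306) (nat_lit 1) (nat_lit 296) (nat_lit 1) (nat_lit 295) (nat_lit 1) (nat_lit 435) (nat_lit 296) (nat_lit 289)) (XT.nd (nat_lit 78) (nat_lit 0) (nat_lit 0) (XT.lf (nat_lit 836) (nat_lit 53304415) (nat_lit 0) (nat_lit 285984490) (nat_lit 760) (nat_lit 53304415) (nat_lit 307) (nat_lit 1) (nat_lit 296) (nat_lit 1) (nat_lit 306) (nat_lit 1) (nat_lit 436) (nat_lit 296) (nat_lit 288)) (XT.lf (nat_lit 836) (nat_lit 77070872) (nat_lit 76) (nat_lit 153333720) (nat_lit 0) (nat_lit 153333720) (nat_lit 307)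 (nat_lit 1) (nat_lit 297) (nat_lit 1) (nat_lit 296) (nat_lit 1) (nat_lit 437) (nat_lit 296) (nat_lit 287)))))) (XT.nd (nat_lit 52182) (nat_lit 0) (nat_lit 1292) (XT.nd (nat_lit 234) (nat_lit 380) (nat_lit 0) (XT.nd (nat_lit 78) (nat_lit 1292) (nat_lit 0) (XT.lf (nat_lit 76) (nat_lit 23838013) (nat_lit 0) (nat_lit 327568780) (nat_lit 760) (nat_lit 23838013) (nat_lit 298) (nat_lit 1) (nat_lit 297) (nat_lit 1) (nat_lit 307) (nat_lit 1) (nat_lit 438) (nat_lit 296) (nat_lit 286)) (XT.nd (nat_lit 78) (nat_lit 532) (nat_lit 0) (XT.lf (nat_lit 836) (nat_lit 14397567) (nat_lit 0) (nat_lit 176253298) (nat_lit 760) (nat_lit 176253298) (nat_lit 298) (nat_lit 1) (nat_lit 287) (nat_lit 1) (nat_lit 297) (nat_lit 1) (nat_lit 439) (nat_lit 296) (nat_lit 285)) (XT.lf (nat_lit 532) (nat_lit 341672399) (nat_lit 0) (nat_lit 8624725) (nat_lit 456) (nat_lit 8624725) (nat_lit 287) (nat_lit 1) (nat_lit 280) (nat_lit 1)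 (nat_lit 286) (nat_lit 1) (nat_lit 440) (nat_lit 296) (nat_lit 284)))) (XT.nd (nat_lit 78) (nat_lit 380) (nat_lit 0) (XT.lf (nat_lit 76) (nat_lit 149378578) (nat_lit 0) (nat_lit 52285063) (nat_lit 532) (nat_lit 149378578) (nat_lit 281) (nat_lit 1) (nat_lit 280) (nat_lit 1) (nat_lit 287) (nat_lit 1) (nat_lit 441) (nat_lit 296) (nat_lit 283)) (XT.nd (nat_lit 78) (nat_lit 0) (nat_lit 0) (XT.lf (nat_lit 456) (nat_lit 257042189) (nat_lit 0) (nat_lit 43227731) (nat_lit 380) (nat_lit 43227731) (nat_lit 281) (nat_lit 1) (nat_lit 275) (nat_lit 1) (nat_lit 280) (nat_lit 1) (nat_lit 442) (nat_lit 296) (nat_lit 282)) (XT.lf (nat_lit 76) (nat_lit 106549921) (nat_lit 0) (nat_lit 123011850) (nat_lit 456) (nat_lit 106549921) (nat_lit 276) (nat_lit 1) (nat_lit 275) (nat_lit 1) (nat_lit 281) (nat_lit 1) (nat_lit 443) (nat_lit 296) (nat_lit 281))))) (XT.nd (nat_lit 234) (nat_lit 0) (nat_lit 76) (XT.nd (nat_lit 78)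 (nat_lit 0) (nat_lit 0) (XT.lf (nat_lit 836) (nat_lit 65934059) (nat_lit 0) (nat_lit 117065771) (nat_lit 836) (nat_lit 65934059) (nat_lit 303) (nat_lit 1) (nat_lit 292) (nat_lit 0) (nat_lit 303) (nat_lit 0) (nat_lit 426) (nat_lit 297) (nat_lit 297)) (XT.nd (nat_lit 78) (nat_lit 0) (nat_lit 76) (XT.lf (nat_lit 836) (nat_lit 255568648) (nat_lit 76) (nat_lit 115177614) (nat_lit 0) (nat_lit 115177614) (nat_lit 303) (nat_lit 1) (nat_lit 293) (nat_lit 1) (nat_lit 292) (nat_lit 0) (nat_lit 427) (nat_lit 297) (nat_lit 296)) (XT.lf (nat_lit 836) (nat_lit 121800169) (nat_lit 0) (nat_lit 230748880) (nat_lit 760) (nat_lit 121800169) (nat_lit 304) (nat_lit 1) (nat_lit 293) (nat_lit 1) (nat_lit 303) (nat_lit 1) (nat_lit 428) (nat_lit 297) (nat_lit 295)))) (XT.nd (nat_lit 156) (nat_lit 0) (nat_lit 76) (XT.nd (nat_lit 78) (nat_lit 0) (nat_lit 76) (XT.lf (nat_lit 836) (nat_lit 228480193) (nat_lit 76) (nat_lit 117334158)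 (nat_lit 0) (nat_lit 117334158) (nat_lit 304) (nat_lit 1) (nat_lit 294) (nat_lit 1) (nat_lit 293) (nat_lit 1) (nat_lit 429) (nat_lit 297) (nat_lit 294)) (XT.lf (nat_lit 836) (nat_lit 105167238) (nat_lit 0) (nat_lit 241968330) (nat_lit 760) (nat_lit 105167238) (nat_lit 305) (nat_lit 1) (nat_lit 294) (nat_lit 1) (nat_lit 304) (nat_lit 1) (nat_lit 430) (nat_lit 297) (nat_lit 293))) (XT.nd (nat_lit 78) (nat_lit 0) (nat_lit 76) (XT.lf (nat_lit 836) (nat_lit 189150129) (nat_lit 76) (nat_lit 126318797) (nat_lit 0) (nat_lit 126318797) (nat_lit 305) (nat_lit 1) (nat_lit 295) (nat_lit 1) (nat_lit 294) (nat_lit 1) (nat_lit 431) (nat_lit 297) (nat_lit 292)) (XT.lf (nat_lit 836) (nat_lit 82936868) (nat_lit 0) (nat_lit 265751962) (nat_lit 760) (nat_lit 82936868) (nat_lit 306) (nat_lit 1) (nat_lit 295) (nat_lit 1) (nat_lit 305) (nat_lit 1) (nat_lit 432) (nat_lit 297) (nat_lit 291))))))) (XT.nd (nat_lit 52494)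 (nat_lit 0) (nat_lit 760) (XT.nd (nat_lit 468) (nat_lit 760) (nat_lit 0) (XT.nd (nat_lit 234) (nat_lit 1140) (nat_lit 0) (XT.nd (nat_lit 78) (nat_lit 0) (nat_lit 76) (XT.lf (nat_lit 836) (nat_lit 139419422) (nat_lit 76) (nat_lit 141162024) (nat_lit 0) (nat_lit 141162024) (nat_lit 306) (nat_lit 1) (nat_lit 296) (nat_lit 1) (nat_lit 295) (nat_lit 1) (nat_lit 433) (nat_lit 297) (nat_lit 290)) (XT.nd (nat_lit 78) (nat_lit 0) (nat_lit 0) (XT.lf (nat_lit 836) (nat_lit 55969636) (nat_lit 0) (nat_lit 300283714) (nat_lit 760) (nat_lit 55969636) (nat_lit 307) (nat_lit 1) (nat_lit 296) (nat_lit 1) (nat_lit 306) (nat_lit 1) (nat_lit 434) (nat_lit 297) (nat_lit 289)) (XT.lf (nat_lit 836) (nat_lit 80924416) (nat_lit 76) (nat_lit 161000406) (nat_lit 0) (nat_lit 161000406) (nat_lit 307) (nat_lit 1) (nat_lit 297) (nat_lit 1) (nat_lit 296) (nat_lit 1) (nat_lit 435) (nat_lit 297) (nat_lit 288)))) (XT.nd (nat_lit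 78) (nat_lit 1292) (nat_lit 0) (XT.lf (nat_lit 76) (nat_lit 25029913) (nat_lit 0) (nat_lit 343947219) (nat_lit 760) (nat_lit 25029913) (nat_lit 298) (nat_lit 1) (nat_lit 297) (nat_lit 1) (nat_lit 307) (nat_lit 1) (nat_lit 436) (nat_lit 297) (nat_lit 287)) (XT.nd (nat_lit 78) (nat_lit 532) (nat_lit 0) (XT.lf (nat_lit 836) (nat_lit 15117445) (nat_lit 0) (nat_lit 185065963) (nat_lit 760) (nat_lit 185065963) (nat_lit 298) (nat_lit 1) (nat_lit 287) (nat_lit 1) (nat_lit 297) (nat_lit 1) (nat_lit 437) (nat_lit 297) (nat_lit 286)) (XT.lf (nat_lit 532) (nat_lit 358756019) (nat_lit 0) (nat_lit 9055961) (nat_lit 456) (nat_lit 9055961) (nat_lit 287) (nat_lit 1) (nat_lit 280) (nat_lit 1) (nat_lit 286) (nat_lit 1) (nat_lit 438) (nat_lit 297) (nat_lit 285))))) (XT.nd (nat_lit 234) (nat_lit 380) (nat_lit 0) (XT.nd (nat_lit 78) (nat_lit 380) (nat_lit 0) (XT.lf (nat_lit 76) (nat_lit 156847507) (nat_lit 0) (nat_lit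 54899316) (nat_lit 532) (nat_lit 156847507) (nat_lit 281) (nat_lit 1) (nat_lit 280) (nat_lit 1) (nat_lit 287) (nat_lit 1) (nat_lit 439) (nat_lit 297) (nat_lit 284)) (XT.nd (nat_lit 78) (nat_lit 0) (nat_lit 0) (XT.lf (nat_lit 456) (nat_lit 269894299) (nat_lit 0) (nat_lit 45389118) (nat_lit 380) (nat_lit 45389118) (nat_lit 281) (nat_lit 1) (nat_lit 275) (nat_lit 1) (nat_lit 280) (nat_lit 1) (nat_lit 440) (nat_lit 297) (nat_lit 283)) (XT.lf (nat_lit 76) (nat_lit 111877417) (nat_lit 0) (nat_lit 129162443) (nat_lit 456) (nat_lit 111877417) (nat_lit 276) (nat_lit 1) (nat_lit 275) (nat_lit 1) (nat_lit 281) (nat_lit 1) (nat_lit 441) (nat_lit 297) (nat_lit 282)))) (XT.nd (nat_lit 78) (nat_lit 0) (nat_lit 0) (XT.lf (nat_lit 456) (nat_lit 177729223) (nat_lit 0) (nat_lit 83851446) (nat_lit 380) (nat_lit 83851446) (nat_lit 276) (nat_lit 1) (nat_lit 270) (nat_lit 1) (nat_lit 275) (nat_lit 1) (nat_lit 442) (nat_lit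 297) (nat_lit 281)) (XT.nd (nat_lit 51636) (nat_lit 0) (nat_lit 1672) (XT.lf (nat_lit 76) (nat_lit 65490856) (nat_lit 0) (nat_lit 207182933) (nat_lit 456) (nat_lit 65490856) (nat_lit 271) (nat_lit 1) (nat_lit 270) (nat_lit 1) (nat_lit 276) (nat_lit 1) (nat_lit 443) (nat_lit 297) (nat_lit 280)) (XT.lf (nat_lit 836) (nat_lit 69230762) (nat_lit 0) (nat_lit 122919060) (nat_lit 836) (nat_lit 69230762) (nat_lit 303) (nat_lit 1) (nat_lit 292) (nat_lit 0) (nat_lit 303) (nat_lit 0) (nat_lit 424) (nat_lit 298) (nat_lit 298)))))) (XT.nd (nat_lit 468) (nat_lit 912) (nat_lit 0) (XT.nd (nat_lit 234) (nat_lit 0) (nat_lit 152) (XT.nd (nat_lit 78) (nat_lit 0) (nat_lit 76) (XT.lf (nat_lit 836) (nat_lit 268347080) (nat_lit 76) (nat_lit 120936495) (nat_lit 0) (nat_lit 120936495) (nat_lit 303) (nat_lit 1) (nat_lit 293) (nat_lit 1) (nat_lit 292) (nat_lit 0) (nat_lit 425) (nat_lit 298) (nat_lit 297)) (XT.nd (nat_lit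 78) (nat_lit 0) (nat_lit 0) (XT.lf (nat_lit 836) (nat_lit 127890178) (nat_lit 0) (nat_lit 242286324) (nat_lit 760) (nat_lit 127890178) (nat_lit 304) (nat_lit 1) (nat_lit 293) (nat_lit 1) (nat_lit 303) (nat_lit 1) (nat_lit 426) (nat_lit 298) (nat_lit 296)) (XT.lf (nat_lit 836) (nat_lit 239904203) (nat_lit 76) (nat_lit 123200866) (nat_lit 0) (nat_lit 123200866) (nat_lit 304) (nat_lit 1) (nat_lit 294) (nat_lit 1) (nat_lit 293) (nat_lit 1) (nat_lit 427) (nat_lit 298) (nat_lit 295)))) (XT.nd (nat_lit 78) (nat_lit 0) (nat_lit 0) (XT.lf (nat_lit 836) (nat_lit 110425600) (nat_lit 0) (nat_lit 254066746) (nat_lit 760) (nat_lit 110425600) (nat_lit 305) (nat_lit 1) (nat_lit 294) (nat_lit 1) (nat_lit 304) (nat_lit 1) (nat_lit 428) (nat_lit 298) (nat_lit 294)) (XT.nd (nat_lit 78) (nat_lit 0) (nat_lit 76) (XT.lf (nat_lit 836) (nat_lit 198607635) (nat_lit 76) (nat_lit 132634737) (nat_lit 0) (nat_lit 132634737)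 (nat_lit 305) (nat_lit 1) (nat_lit 295) (nat_lit 1) (nat_lit 294) (nat_lit 1) (nat_lit 429) (nat_lit 298) (nat_lit 293)) (XT.lf (nat_lit 836) (nat_lit 87083711) (nat_lit 0) (nat_lit 279039560) (nat_lit 760) (nat_lit 87083711) (nat_lit 306) (nat_lit 1) (nat_lit 295) (nat_lit 1) (nat_lit 305) (nat_lit 1) (nat_lit 430) (nat_lit 298) (nat_lit 292))))) (XT.nd (nat_lit 234) (nat_lit 1140) (nat_lit 0) (XT.nd (nat_lit 78) (nat_lit 0) (nat_lit 76) (XT.lf (nat_lit 836) (nat_lit 146390393) (nat_lit 76) (nat_lit 148220125) (nat_lit 0) (nat_lit 148220125) (nat_lit 306) (nat_lit 1) (nat_lit 296) (nat_lit 1) (nat_lit 295) (nat_lit 1) (nat_lit 431) (nat_lit 298) (nat_lit 291)) (XT.nd (nat_lit 78) (nat_lit 0) (nat_lit 0) (XT.lf (nat_lit 836) (nat_lit 58768118) (nat_lit 0) (nat_lit 315297900) (nat_lit 760) (nat_lit 58768118) (nat_lit 307) (nat_lit 1) (nat_lit 296) (nat_lit 1) (nat_lit 306) (nat_lit 1) (nat_lit 432)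 (nat_lit 298) (nat_lit 290)) (XT.lf (nat_lit 836) (nat_lit 84970636) (nat_lit 76) (nat_lit 169050426) (nat_lit 0) (nat_lit 169050426) (nat_lit 307) (nat_lit 1) (nat_lit 297) (nat_lit 1) (nat_lit 296) (nat_lit 1) (nat_lit 433) (nat_lit 298) (nat_lit 289)))) (XT.nd (nat_lit 156) (nat_lit 532) (nat_lit 0) (XT.nd (nat_lit 78) (nat_lit 760) (nat_lit 0) (XT.lf (nat_lit 76) (nat_lit 26281409) (nat_lit 0) (nat_lit 361144580) (nat_lit 760) (nat_lit 26281409) (nat_lit 298) (nat_lit 1) (nat_lit 297) (nat_lit 1) (nat_lit 307) (nat_lit 1) (nat_lit 434) (nat_lit 298) (nat_lit 288)) (XT.lf (nat_lit 836) (nat_lit 15873317) (nat_lit 0) (nat_lit 194319261) (nat_lit 760) (nat_lit 194319261) (nat_lit 298) (nat_lit 1) (nat_lit 287) (nat_lit 1) (nat_lit 297) (nat_lit 1) (nat_lit 435) (nat_lit 298) (nat_lit 287))) (XT.nd (nat_lit 78) (nat_lit 0) (nat_lit 0) (XT.lf (nat_lit 532) (nat_lit 376693820) (nat_lit 0) (nat_lit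 9508760) (nat_lit 456) (nat_lit 9508760) (nat_lit 287) (nat_lit 1) (nat_lit 280) (nat_lit 1) (nat_lit 286) (nat_lit 1) (nat_lit 436) (nat_lit 298) (nat_lit 286)) (XT.lf (nat_lit 76) (nat_lit 164689882) (nat_lit 0) (nat_lit 57644282) (nat_lit 532) (nat_lit 164689882) (nat_lit 281) (nat_lit 1) (nat_lit 280) (nat_lit 1) (nat_lit 287) (nat_lit 1) (nat_lit 437) (nat_lit 298) (nat_lit 285))))))))
noncomputable def ec2 : XT := (XT.nd (nat_lit 53352) (nat_lit 684) (nat_lit 0) (XT.nd (nat_lit 52338) (nat_lit 0) (nat_lit 0) (XT.nd (nat_lit 51870) (nat_lit 0) (nat_lit 1976) (XT.nd (nat_lit 234) (nat_lit 304) (nat_lit 0) (XT.nd (nat_lit 78) (nat_lit 380) (nat_lit 0) (XT.lf (nat_lit 456) (nat_lit 283389013) (nat_lit 0) (nat_lit 47658574) (nat_lit 380) (nat_lit 47658574) (nat_lit 281) (nat_lit 1) (nat_lit 275) (nat_lit 1) (nat_lit 280) (nat_lit 1) (nat_lit 438) (nat_lit 298) (nat_lit 284)) (XT.nd (nat_lit 78)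 (nat_lit 380) (nat_lit 0) (XT.lf (nat_lit 76) (nat_lit 117471288) (nat_lit 0) (nat_lit 135620565) (nat_lit 456) (nat_lit 117471288) (nat_lit 276) (nat_lit 1) (nat_lit 275) (nat_lit 1) (nat_lit 281) (nat_lit 1) (nat_lit 439) (nat_lit 298) (nat_lit 283)) (XT.lf (nat_lit 456) (nat_lit 186615684) (nat_lit 0) (nat_lit 88044018) (nat_lit 380) (nat_lit 88044018) (nat_lit 276) (nat_lit 1) (nat_lit 270) (nat_lit 1) (nat_lit 275) (nat_lit 1) (nat_lit 440) (nat_lit 298) (nat_lit 282)))) (XT.nd (nat_lit 78) (nat_lit 304) (nat_lit 0) (XT.lf (nat_lit 76) (nat_lit 68765399) (nat_lit 0) (nat_lit 217542080) (nat_lit 456) (nat_lit 68765399) (nat_lit 271) (nat_lit 1) (nat_lit 270) (nat_lit 1) (nat_lit 276) (nat_lit 1) (nat_lit 441) (nat_lit 298) (nat_lit 281)) (XT.nd (nat_lit 78) (nat_lit 0) (nat_lit 0) (XT.lf (nat_lit 380) (nat_lit 87274546) (nat_lit 0) (nat_lit 130181890) (nat_lit 304) (nat_lit 130181890) (nat_lit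 271) (nat_lit 1) (nat_lit 266) (nat_lit 1) (nat_lit 270) (nat_lit 1) (nat_lit 442) (nat_lit 298) (nat_lit 280)) (XT.lf (nat_lit 76) (nat_lit 18990358) (nat_lit 0) (nat_lit 302508954) (nat_lit 380) (nat_lit 18990358) (nat_lit 267) (nat_lit 1) (nat_lit 266) (nat_lit 1) (nat_lit 271) (nat_lit 1) (nat_lit 443) (nat_lit 298) (nat_lit 279))))) (XT.nd (nat_lit 234) (nat_lit 0) (nat_lit 76) (XT.nd (nat_lit 78) (nat_lit 0) (nat_lit 0) (XT.lf (nat_lit 836) (nat_lit 72692301) (nat_lit 0) (nat_lit 129065013) (nat_lit 836) (nat_lit 72692301) (nat_lit 303) (nat_lit 1) (nat_lit 292) (nat_lit 0) (nat_lit 303) (nat_lit 0) (nat_lit 422) (nat_lit 299) (nat_lit 299)) (XT.nd (nat_lit 78) (nat_lit 0) (nat_lit 76) (XT.lf (nat_lit 836) (nat_lit 281764434) (nat_lit 76) (nat_lit 126983319) (nat_lit 0) (nat_lit 126983319) (nat_lit 303) (nat_lit 1) (nat_lit 293) (nat_lit 1) (nat_lit 292) (nat_lit 0) (nat_lit 423) (nat_lit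 299) (nat_lit 298)) (XT.lf (nat_lit 836) (nat_lit 134284686) (nat_lit 0) (nat_lit 254400641) (nat_lit 760) (nat_lit 134284686) (nat_lit 304) (nat_lit 1) (nat_lit 293) (nat_lit 1) (nat_lit 303) (nat_lit 1) (nat_lit 424) (nat_lit 299) (nat_lit 297)))) (XT.nd (nat_lit 78) (nat_lit 0) (nat_lit 76) (XT.lf (nat_lit 836) (nat_lit 251899413) (nat_lit 76) (nat_lit 129360909) (nat_lit 0) (nat_lit 129360909) (nat_lit 304) (nat_lit 1) (nat_lit 294) (nat_lit 1) (nat_lit 293) (nat_lit 1) (nat_lit 425) (nat_lit 299) (nat_lit 296)) (XT.nd (nat_lit 78) (nat_lit 0) (nat_lit 0) (XT.lf (nat_lit 836) (nat_lit 115946880) (nat_lit 0) (nat_lit 266770083) (nat_lit 760) (nat_lit 115946880) (nat_lit 305) (nat_lit 1) (nat_lit 294) (nat_lit 1) (nat_lit 304) (nat_lit 1) (nat_lit 426) (nat_lit 299) (nat_lit 295)) (XT.lf (nat_lit 836) (nat_lit 208538017) (nat_lit 76) (nat_lit 139266474) (nat_lit 0) (nat_lit 139266474) (nat_lit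 305) (nat_lit 1) (nat_lit 295) (nat_lit 1) (nat_lit 294) (nat_lit 1) (nat_lit 427) (nat_lit 299) (nat_lit 294)))))) (XT.nd (nat_lit 468) (nat_lit 1596) (nat_lit 0) (XT.nd (nat_lit 234) (nat_lit 608) (nat_lit 0) (XT.nd (nat_lit 78) (nat_lit 0) (nat_lit 0) (XT.lf (nat_lit 836) (nat_lit 91437897) (nat_lit 0) (nat_lit 292991538) (nat_lit 760) (nat_lit 91437897) (nat_lit 306) (nat_lit 1) (nat_lit 295) (nat_lit 1) (nat_lit 305) (nat_lit 1) (nat_lit 428) (nat_lit 299) (nat_lit 293)) (XT.nd (nat_lit 78) (nat_lit 0) (nat_lit 76) (XT.lf (nat_lit 836) (nat_lit 153709913) (nat_lit 76) (nat_lit 155631131) (nat_lit 0) (nat_lit 155631131) (nat_lit 306) (nat_lit 1) (nat_lit 296) (nat_lit 1) (nat_lit 295) (nat_lit 1) (nat_lit 429) (nat_lit 299) (nat_lit 292)) (XT.lf (nat_lit 836) (nat_lit 61706524) (nat_lit 0) (nat_lit 331062795) (nat_lit 760) (nat_lit 61706524) (nat_lit 307) (nat_lit 1) (nat_lit 296) (nat_lit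 1) (nat_lit 306) (nat_lit 1) (nat_lit 430) (nat_lit 299) (nat_lit 291)))) (XT.nd (nat_lit 78) (nat_lit 684) (nat_lit 0) (XT.lf (nat_lit 836) (nat_lit 89219168) (nat_lit 76) (nat_lit 177502947) (nat_lit 0) (nat_lit 177502947) (nat_lit 307) (nat_lit 1) (nat_lit 297) (nat_lit 1) (nat_lit 296) (nat_lit 1) (nat_lit 431) (nat_lit 299) (nat_lit 290)) (XT.nd (nat_lit 78) (nat_lit 760) (nat_lit 0) (XT.lf (nat_lit 76) (nat_lit 27595479) (nat_lit 0) (nat_lit 379201809) (nat_lit 760) (nat_lit 27595479) (nat_lit 298) (nat_lit 1) (nat_lit 297) (nat_lit 1) (nat_lit 307) (nat_lit 1) (nat_lit 432) (nat_lit 299) (nat_lit 289)) (XT.lf (nat_lit 836) (nat_lit 16666983) (nat_lit 0) (nat_lit 204035224) (nat_lit 760) (nat_lit 204035224) (nat_lit 298) (nat_lit 1) (nat_lit 287) (nat_lit 1) (nat_lit 297) (nat_lit 1) (nat_lit 433) (nat_lit 299) (nat_lit 288))))) (XT.nd (nat_lit 234) (nat_lit 684) (nat_lit 0) (XT.nd (nat_lit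 78) (nat_lit 380) (nat_lit 0) (XT.lf (nat_lit 532) (nat_lit 395528511) (nat_lit 0) (nat_lit 9984198) (nat_lit 456) (nat_lit 9984198) (nat_lit 287) (nat_lit 1) (nat_lit 280) (nat_lit 1) (nat_lit 286) (nat_lit 1) (nat_lit 434) (nat_lit 299) (nat_lit 287)) (XT.nd (nat_lit 78) (nat_lit 380) (nat_lit 0) (XT.lf (nat_lit 76) (nat_lit 172924376) (nat_lit 0) (nat_lit 60526496) (nat_lit 532) (nat_lit 172924376) (nat_lit 281) (nat_lit 1) (nat_lit 280) (nat_lit 1) (nat_lit 287) (nat_lit 1) (nat_lit 435) (nat_lit 299) (nat_lit 286)) (XT.lf (nat_lit 456) (nat_lit 297558464) (nat_lit 0) (nat_lit 50041503) (nat_lit 380) (nat_lit 50041503) (nat_lit 281) (nat_lit 1) (nat_lit 275) (nat_lit 1) (nat_lit 280) (nat_lit 1) (nat_lit 436) (nat_lit 299) (nat_lit 285)))) (XT.nd (nat_lit 156) (nat_lit 304) (nat_lit 0) (XT.nd (nat_lit 78) (nat_lit 380) (nat_lit 0) (XT.lf (nat_lit 76) (nat_lit 123344852) (nat_lit 0) (nat_lit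 142401593) (nat_lit 456) (nat_lit 123344852) (nat_lit 276) (nat_lit 1) (nat_lit 275) (nat_lit 1) (nat_lit 281) (nat_lit 1) (nat_lit 437) (nat_lit 299) (nat_lit 284)) (XT.lf (nat_lit 456) (nat_lit 195946468) (nat_lit 0) (nat_lit 92446219) (nat_lit 380) (nat_lit 92446219) (nat_lit 276) (nat_lit 1) (nat_lit 270) (nat_lit 1) (nat_lit 275) (nat_lit 1) (nat_lit 438) (nat_lit 299) (nat_lit 283))) (XT.nd (nat_lit 78) (nat_lit 304) (nat_lit 0) (XT.lf (nat_lit 76) (nat_lit 72203669) (nat_lit 0) (nat_lit 228419184) (nat_lit 456) (nat_lit 72203669) (nat_lit 271) (nat_lit 1) (nat_lit 270) (nat_lit 1) (nat_lit 276) (nat_lit 1) (nat_lit 439) (nat_lit 299) (nat_lit 282)) (XT.lf (nat_lit 380) (nat_lit 91638273) (nat_lit 0) (nat_lit 136690985) (nat_lit 304) (nat_lit 136690985) (nat_lit 271) (nat_lit 1) (nat_lit 266) (nat_lit 1) (nat_lit 270) (nat_lit 1) (nat_lit 440) (nat_lit 299) (nat_lit 281))))))) (XT.nd (nat_lit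 52182) (nat_lit 0) (nat_lit 0) (XT.nd (nat_lit 51714) (nat_lit 0) (nat_lit 2736) (XT.nd (nat_lit 51480) (nat_lit 0) (nat_lit 2660) (XT.nd (nat_lit 78) (nat_lit 684) (nat_lit 0) (XT.lf (nat_lit 76) (nat_lit 19939876) (nat_lit 0) (nat_lit 317634401) (nat_lit 380) (nat_lit 19939876) (nat_lit 267) (nat_lit 1) (nat_lit 266) (nat_lit 1) (nat_lit 271) (nat_lit 1) (nat_lit 441) (nat_lit 299) (nat_lit 280)) (XT.nd (nat_lit 78) (nat_lit 304) (nat_lit 0) (XT.lf (nat_lit 76) (nat_lit 168019132) (nat_lit 0) (nat_lit 14071928) (nat_lit 380) (nat_lit 168019132) (nat_lit 262) (nat_lit 1) (nat_lit 261) (nat_lit 1) (nat_lit 266) (nat_lit 1) (nat_lit 442) (nat_lit 299) (nat_lit 279)) (XT.lf (nat_lit 380) (nat_lit 277930141) (nat_lit 0) (nat_lit 32529024) (nat_lit 304) (nat_lit 32529024) (nat_lit 262) (nat_lit 1) (nat_lit 257) (nat_lit 1) (nat_lit 261) (nat_lit 1) (nat_lit 443) (nat_lit 299) (nat_lit 278)))) (XT.nd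 (nat_lit 78) (nat_lit 0) (nat_lit 0) (XT.lf (nat_lit 836) (nat_lit 76326916) (nat_lit 0) (nat_lit 135518264) (nat_lit 836) (nat_lit 76326916) (nat_lit 303) (nat_lit 1) (nat_lit 292) (nat_lit 0) (nat_lit 303) (nat_lit 0) (nat_lit 420) (nat_lit 300) (nat_lit 300)) (XT.nd (nat_lit 78) (nat_lit 0) (nat_lit 76) (XT.lf (nat_lit 836) (nat_lit 295852656) (nat_lit 76) (nat_lit 133332485) (nat_lit 0) (nat_lit 133332485) (nat_lit 303) (nat_lit 1) (nat_lit 293) (nat_lit 1) (nat_lit 292) (nat_lit 0) (nat_lit 421) (nat_lit 300) (nat_lit 299)) (XT.lf (nat_lit 836) (nat_lit 140998921) (nat_lit 0) (nat_lit 267120673) (nat_lit 760) (nat_lit 140998921) (nat_lit 304) (nat_lit 1) (nat_lit 293) (nat_lit 1) (nat_lit 303) (nat_lit 1) (nat_lit 422) (nat_lit 300) (nat_lit 298))))) (XT.nd (nat_lit 234) (nat_lit 0) (nat_lit 152) (XT.nd (nat_lit 78) (nat_lit 0) (nat_lit 76) (XT.lf (nat_lit 836) (nat_lit 264494384) (nat_lit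 76) (nat_lit 135828955) (nat_lit 0) (nat_lit 135828955) (nat_lit 304) (nat_lit 1) (nat_lit 294) (nat_lit 1) (nat_lit 293) (nat_lit 1) (nat_lit 423) (nat_lit 300) (nat_lit 297)) (XT.nd (nat_lit 78) (nat_lit 0) (nat_lit 0) (XT.lf (nat_lit 836) (nat_lit 121744225) (nat_lit 0) (nat_lit 280108588) (nat_lit 760) (nat_lit 121744225) (nat_lit 305) (nat_lit 1) (nat_lit 294) (nat_lit 1) (nat_lit 304) (nat_lit 1) (nat_lit 424) (nat_lit 300) (nat_lit 296)) (XT.lf (nat_lit 836) (nat_lit 218964918) (nat_lit 76) (nat_lit 146229797) (nat_lit 0) (nat_lit 146229797) (nat_lit 305) (nat_lit 1) (nat_lit 295) (nat_lit 1) (nat_lit 294) (nat_lit 1) (nat_lit 425) (nat_lit 300) (nat_lit 295)))) (XT.nd (nat_lit 78) (nat_lit 0) (nat_lit 0) (XT.lf (nat_lit 836) (nat_lit 96009792) (nat_lit 0) (nat_lit 307641115) (nat_lit 760) (nat_lit 96009792) (nat_lit 306) (nat_lit 1) (nat_lit 295) (nat_lit 1) (nat_lit 305) (nat_lit 1) (nat_lit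 426) (nat_lit 300) (nat_lit 294)) (XT.nd (nat_lit 78) (nat_lit 0) (nat_lit 76) (XT.lf (nat_lit 836) (nat_lit 161395408) (nat_lit 76) (nat_lit 163412688) (nat_lit 0) (nat_lit 163412688) (nat_lit 306) (nat_lit 1) (nat_lit 296) (nat_lit 1) (nat_lit 295) (nat_lit 1) (nat_lit 427) (nat_lit 300) (nat_lit 293)) (XT.lf (nat_lit 836) (nat_lit 64791850) (nat_lit 0) (nat_lit 347615935) (nat_lit 760) (nat_lit 64791850) (nat_lit 307) (nat_lit 1) (nat_lit 296) (nat_lit 1) (nat_lit 306) (nat_lit 1) (nat_lit 428) (nat_lit 300) (nat_lit 292)))))) (XT.nd (nat_lit 468) (nat_lit 1368) (nat_lit 0) (XT.nd (nat_lit 234) (nat_lit 912) (nat_lit 0) (XT.nd (nat_lit 78) (nat_lit 684) (nat_lit 0) (XT.lf (nat_lit 836) (nat_lit 93680127) (nat_lit 76) (nat_lit 186378095) (nat_lit 0) (nat_lit 186378095) (nat_lit 307) (nat_lit 1) (nat_lit 297) (nat_lit 1) (nat_lit 296) (nat_lit 1) (nat_lit 429) (nat_lit 300) (nat_lit 291)) (XT.nd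 (nat_lit 78) (nat_lit 760) (nat_lit 0) (XT.lf (nat_lit 76) (nat_lit 28975253) (nat_lit 0) (nat_lit 398161899) (nat_lit 760) (nat_lit 28975253) (nat_lit 298) (nat_lit 1) (nat_lit 297) (nat_lit 1) (nat_lit 307) (nat_lit 1) (nat_lit 430) (nat_lit 300) (nat_lit 290)) (XT.lf (nat_lit 836) (nat_lit 17500332) (nat_lit 0) (nat_lit 214236985) (nat_lit 760) (nat_lit 214236985) (nat_lit 298) (nat_lit 1) (nat_lit 287) (nat_lit 1) (nat_lit 297) (nat_lit 1) (nat_lit 431) (nat_lit 300) (nat_lit 289)))) (XT.nd (nat_lit 78) (nat_lit 380) (nat_lit 0) (XT.lf (nat_lit 532) (nat_lit 415304936) (nat_lit 0) (nat_lit 10483407) (nat_lit 456) (nat_lit 10483407) (nat_lit 287) (nat_lit 1) (nat_lit 280) (nat_lit 1) (nat_lit 286) (nat_lit 1) (nat_lit 432) (nat_lit 300) (nat_lit 288)) (XT.nd (nat_lit 78) (nat_lit 380) (nat_lit 0) (XT.lf (nat_lit 76) (nat_lit 181570595) (nat_lit 0) (nat_lit 63552821) (nat_lit 532) (nat_lit 181570595)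 (nat_lit 281) (nat_lit 1) (nat_lit 280) (nat_lit 1) (nat_lit 287) (nat_lit 1) (nat_lit 433) (nat_lit 300) (nat_lit 287)) (XT.lf (nat_lit 456) (nat_lit 312436387) (nat_lit 0) (nat_lit 52543578) (nat_lit 380) (nat_lit 52543578) (nat_lit 281) (nat_lit 1) (nat_lit 275) (nat_lit 1) (nat_lit 280) (nat_lit 1) (nat_lit 434) (nat_lit 300) (nat_lit 286))))) (XT.nd (nat_lit 234) (nat_lit 988) (nat_lit 0) (XT.nd (nat_lit 78) (nat_lit 380) (nat_lit 0) (XT.lf (nat_lit 76) (nat_lit 129512095) (nat_lit 0) (nat_lit 149521673) (nat_lit 456) (nat_lit 129512095) (nat_lit 276) (nat_lit 1) (nat_lit 275) (nat_lit 1) (nat_lit 281) (nat_lit 1) (nat_lit 435) (nat_lit 300) (nat_lit 285)) (XT.nd (nat_lit 78) (nat_lit 0) (nat_lit 0) (XT.lf (nat_lit 456) (nat_lit 205743792) (nat_lit 0) (nat_lit 97068530) (nat_lit 380) (nat_lit 97068530) (nat_lit 276) (nat_lit 1) (nat_lit 270) (nat_lit 1) (nat_lit 275) (nat_lit 1) (nat_lit 436)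 (nat_lit 300) (nat_lit 284)) (XT.lf (nat_lit 76) (nat_lit 75813853) (nat_lit 0) (nat_lit 239840143) (nat_lit 456) (nat_lit 75813853) (nat_lit 271) (nat_lit 1) (nat_lit 270) (nat_lit 1) (nat_lit 276) (nat_lit 1) (nat_lit 437) (nat_lit 300) (nat_lit 283)))) (XT.nd (nat_lit 156) (nat_lit 684) (nat_lit 0) (XT.nd (nat_lit 78) (nat_lit 0) (nat_lit 0) (XT.lf (nat_lit 380) (nat_lit 96220187) (nat_lit 0) (nat_lit 143525534) (nat_lit 304) (nat_lit 143525534) (nat_lit 271) (nat_lit 1) (nat_lit 266) (nat_lit 1) (nat_lit 270) (nat_lit 1) (nat_lit 438) (nat_lit 300) (nat_lit 282)) (XT.lf (nat_lit 76) (nat_lit 20936870) (nat_lit 0) (nat_lit 333516122) (nat_lit 380) (nat_lit 20936870) (nat_lit 267) (nat_lit 1) (nat_lit 266) (nat_lit 1) (nat_lit 271) (nat_lit 1) (nat_lit 439) (nat_lit 300) (nat_lit 281))) (XT.nd (nat_lit 78) (nat_lit 304) (nat_lit 0) (XT.lf (nat_lit 76) (nat_lit 176420088) (nat_lit 0) (nat_lit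 14775525) (nat_lit 380) (nat_lit 176420088) (nat_lit 262) (nat_lit 1) (nat_lit 261) (nat_lit 1) (nat_lit 266) (nat_lit 1) (nat_lit 440) (nat_lit 300) (nat_lit 280)) (XT.lf (nat_lit 380) (nat_lit 291826648) (nat_lit 0) (nat_lit 34155476) (nat_lit 304) (nat_lit 34155476) (nat_lit 262) (nat_lit 1) (nat_lit 257) (nat_lit 1) (nat_lit 261) (nat_lit 1) (nat_lit 441) (nat_lit 300) (nat_lit 279))))))))
noncomputable def ec3 : XT := (XT.nd (nat_lit 53040) (nat_lit 228) (nat_lit 0) (XT.nd (nat_lit 52026) (nat_lit 0) (nat_lit 304) (XT.nd (nat_lit 51558) (nat_lit 0) (nat_lit 3116) (XT.nd (nat_lit 51324) (nat_lit 0) (nat_lit 2964) (XT.nd (nat_lit 78) (nat_lit 304) (nat_lit 0) (XT.lf (nat_lit 76) (nat_lit 114467241) (nat_lit 0) (nat_lit 123853305) (nat_lit 380) (nat_lit 114467241) (nat_lit 258) (nat_lit 1) (nat_lit 257) (nat_lit 1) (nat_lit 262) (nat_lit 1) (nat_lit 442) (nat_lit 300) (nat_lit 278)) (XT.nd (nat_lit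 51168) (nat_lit 0) (nat_lit 2964) (XT.lf (nat_lit 380) (nat_lit 167039547) (nat_lit 0) (nat_lit 89326646) (nat_lit 304) (nat_lit 89326646) (nat_lit 258) (nat_lit 1) (nat_lit 253) (nat_lit 1) (nat_lit 257) (nat_lit 1) (nat_lit 443) (nat_lit 300) (nat_lit 277)) (XT.lf (nat_lit 836) (nat_lit 80143262) (nat_lit 0) (nat_lit 142294177) (nat_lit 836) (nat_lit 80143262) (nat_lit 303) (nat_lit 1) (nat_lit 292) (nat_lit 0) (nat_lit 303) (nat_lit 0) (nat_lit 418) (nat_lit 301) (nat_lit 301)))) (XT.nd (nat_lit 78) (nat_lit 0) (nat_lit 76) (XT.lf (nat_lit 836) (nat_lit 310645289) (nat_lit 76) (nat_lit 139999110) (nat_lit 0) (nat_lit 139999110) (nat_lit 303) (nat_lit 1) (nat_lit 293) (nat_lit 1) (nat_lit 292) (nat_lit 0) (nat_lit 419) (nat_lit 301) (nat_lit 300)) (XT.nd (nat_lit 78) (nat_lit 0) (nat_lit 0) (XT.lf (nat_lit 836) (nat_lit 148048867) (nat_lit 0) (nat_lit 280476706) (nat_lit 760) (nat_lit 148048867)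 (nat_lit 304) (nat_lit 1) (nat_lit 293) (nat_lit 1) (nat_lit 303) (nat_lit 1) (nat_lit 420) (nat_lit 301) (nat_lit 299)) (XT.lf (nat_lit 836) (nat_lit 277719103) (nat_lit 76) (nat_lit 142620403) (nat_lit 0) (nat_lit 142620403) (nat_lit 304) (nat_lit 1) (nat_lit 294) (nat_lit 1) (nat_lit 293) (nat_lit 1) (nat_lit 421) (nat_lit 301) (nat_lit 298))))) (XT.nd (nat_lit 234) (nat_lit 0) (nat_lit 76) (XT.nd (nat_lit 78) (nat_lit 0) (nat_lit 0) (XT.lf (nat_lit 836) (nat_lit 127831436) (nat_lit 0) (nat_lit 294114017) (nat_lit 760) (nat_lit 127831436) (nat_lit 305) (nat_lit 1) (nat_lit 294) (nat_lit 1) (nat_lit 304) (nat_lit 1) (nat_lit 422) (nat_lit 301) (nat_lit 297)) (XT.nd (nat_lit 78) (nat_lit 0) (nat_lit 76) (XT.lf (nat_lit 836) (nat_lit 229913164) (nat_lit 76) (nat_lit 153541287) (nat_lit 0) (nat_lit 153541287) (nat_lit 305) (nat_lit 1) (nat_lit 295) (nat_lit 1) (nat_lit 294) (nat_lit 1) (nat_lit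 423) (nat_lit 301) (nat_lit 296)) (XT.lf (nat_lit 836) (nat_lit 100810281) (nat_lit 0) (nat_lit 323023171) (nat_lit 760) (nat_lit 100810281) (nat_lit 306) (nat_lit 1) (nat_lit 295) (nat_lit 1) (nat_lit 305) (nat_lit 1) (nat_lit 424) (nat_lit 301) (nat_lit 295)))) (XT.nd (nat_lit 78) (nat_lit 0) (nat_lit 76) (XT.lf (nat_lit 836) (nat_lit 169465179) (nat_lit 76) (nat_lit 171583322) (nat_lit 0) (nat_lit 171583322) (nat_lit 306) (nat_lit 1) (nat_lit 296) (nat_lit 1) (nat_lit 295) (nat_lit 1) (nat_lit 425) (nat_lit 301) (nat_lit 294)) (XT.nd (nat_lit 78) (nat_lit 0) (nat_lit 0) (XT.lf (nat_lit 836) (nat_lit 68031442) (nat_lit 0) (nat_lit 364996732) (nat_lit 760) (nat_lit 68031442) (nat_lit 307) (nat_lit 1) (nat_lit 296) (nat_lit 1) (nat_lit 306) (nat_lit 1) (nat_lit 426) (nat_lit 301) (nat_lit 293)) (XT.lf (nat_lit 836) (nat_lit 98364133) (nat_lit 76) (nat_lit 195696999) (nat_lit 0) (nat_lit 195696999)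 (nat_lit 307) (nat_lit 1) (nat_lit 297) (nat_lit 1) (nat_lit 296) (nat_lit 1) (nat_lit 427) (nat_lit 301) (nat_lit 292)))))) (XT.nd (nat_lit 468) (nat_lit 1368) (nat_lit 0) (XT.nd (nat_lit 234) (nat_lit 380) (nat_lit 0) (XT.nd (nat_lit 78) (nat_lit 1292) (nat_lit 0) (XT.lf (nat_lit 76) (nat_lit 30424016) (nat_lit 0) (nat_lit 418069994) (nat_lit 760) (nat_lit 30424016) (nat_lit 298) (nat_lit 1) (nat_lit 297) (nat_lit 1) (nat_lit 307) (nat_lit 1) (nat_lit 428) (nat_lit 301) (nat_lit 291)) (XT.nd (nat_lit 78) (nat_lit 532) (nat_lit 0) (XT.lf (nat_lit 836) (nat_lit 18375349) (nat_lit 0) (nat_lit 224948834) (nat_lit 760) (nat_lit 224948834) (nat_lit 298) (nat_lit 1) (nat_lit 287) (nat_lit 1) (nat_lit 297) (nat_lit 1) (nat_lit 429) (nat_lit 301) (nat_lit 290)) (XT.lf (nat_lit 532) (nat_lit 436070183) (nat_lit 0) (nat_lit 11007578) (nat_lit 456) (nat_lit 11007578) (nat_lit 287) (nat_lit 1) (nat_lit 280)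 (nat_lit 1) (nat_lit 286) (nat_lit 1) (nat_lit 430) (nat_lit 301) (nat_lit 289)))) (XT.nd (nat_lit 78) (nat_lit 380) (nat_lit 0) (XT.lf (nat_lit 76) (nat_lit 190649125) (nat_lit 0) (nat_lit 66730462) (nat_lit 532) (nat_lit 190649125) (nat_lit 281) (nat_lit 1) (nat_lit 280) (nat_lit 1) (nat_lit 287) (nat_lit 1) (nat_lit 431) (nat_lit 301) (nat_lit 288)) (XT.nd (nat_lit 78) (nat_lit 0) (nat_lit 0) (XT.lf (nat_lit 456) (nat_lit 328058207) (nat_lit 0) (nat_lit 55170757) (nat_lit 380) (nat_lit 55170757) (nat_lit 281) (nat_lit 1) (nat_lit 275) (nat_lit 1) (nat_lit 280) (nat_lit 1) (nat_lit 432) (nat_lit 301) (nat_lit 287)) (XT.lf (nat_lit 76) (nat_lit 135987700) (nat_lit 0) (nat_lit 156997757) (nat_lit 456) (nat_lit 135987700) (nat_lit 276) (nat_lit 1) (nat_lit 275) (nat_lit 1) (nat_lit 281) (nat_lit 1) (nat_lit 433) (nat_lit 301) (nat_lit 286))))) (XT.nd (nat_lit 234) (nat_lit 684) (nat_lit 0) (XT.nd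 (nat_lit 78) (nat_lit 304) (nat_lit 0) (XT.lf (nat_lit 456) (nat_lit 216030981) (nat_lit 0) (nat_lit 101921957) (nat_lit 380) (nat_lit 101921957) (nat_lit 276) (nat_lit 1) (nat_lit 270) (nat_lit 1) (nat_lit 275) (nat_lit 1) (nat_lit 434) (nat_lit 301) (nat_lit 285)) (XT.nd (nat_lit 78) (nat_lit 304) (nat_lit 0) (XT.lf (nat_lit 76) (nat_lit 79604545) (nat_lit 0) (nat_lit 251832150) (nat_lit 456) (nat_lit 79604545) (nat_lit 271) (nat_lit 1) (nat_lit 270) (nat_lit 1) (nat_lit 276) (nat_lit 1) (nat_lit 435) (nat_lit 301) (nat_lit 284)) (XT.lf (nat_lit 380) (nat_lit 101031196) (nat_lit 0) (nat_lit 150701811) (nat_lit 304) (nat_lit 150701811) (nat_lit 271) (nat_lit 1) (nat_lit 266) (nat_lit 1) (nat_lit 270) (nat_lit 1) (nat_lit 436) (nat_lit 301) (nat_lit 283)))) (XT.nd (nat_lit 156) (nat_lit 304) (nat_lit 0) (XT.nd (nat_lit 78) (nat_lit 380) (nat_lit 0) (XT.lf (nat_lit 76) (nat_lit 21983714) (nat_lit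 0) (nat_lit 350191928) (nat_lit 380) (nat_lit 21983714) (nat_lit 267) (nat_lit 1) (nat_lit 266) (nat_lit 1) (nat_lit 271) (nat_lit 1) (nat_lit 437) (nat_lit 301) (nat_lit 282)) (XT.lf (nat_lit 76) (nat_lit 185241093) (nat_lit 0) (nat_lit 15514301) (nat_lit 380) (nat_lit 185241093) (nat_lit 262) (nat_lit 1) (nat_lit 261) (nat_lit 1) (nat_lit 266) (nat_lit 1) (nat_lit 438) (nat_lit 301) (nat_lit 281))) (XT.nd (nat_lit 78) (nat_lit 0) (nat_lit 0) (XT.lf (nat_lit 380) (nat_lit 306417980) (nat_lit 0) (nat_lit 35863249) (nat_lit 304) (nat_lit 35863249) (nat_lit 262) (nat_lit 1) (nat_lit 257) (nat_lit 1) (nat_lit 261) (nat_lit 1) (nat_lit 439) (nat_lit 301) (nat_lit 280)) (XT.lf (nat_lit 76) (nat_lit 120190603) (nat_lit 0) (nat_lit 130045970) (nat_lit 380) (nat_lit 120190603) (nat_lit 258) (nat_lit 1) (nat_lit 257) (nat_lit 1) (nat_lit 262) (nat_lit 1) (nat_lit 440) (nat_lit 301) (nat_lit 279))))))) (XT.nd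 (nat_lit 51948) (nat_lit 0) (nat_lit 532) (XT.nd (nat_lit 51402) (nat_lit 0) (nat_lit 3268) (XT.nd (nat_lit 51168) (nat_lit 0) (nat_lit 3192) (XT.nd (nat_lit 78) (nat_lit 228) (nat_lit 0) (XT.lf (nat_lit 380) (nat_lit 175391524) (nat_lit 0) (nat_lit 93792978) (nat_lit 304) (nat_lit 93792978) (nat_lit 258) (nat_lit 1) (nat_lit 253) (nat_lit 1) (nat_lit 257) (nat_lit 1) (nat_lit 441) (nat_lit 301) (nat_lit 278)) (XT.nd (nat_lit 78) (nat_lit 228) (nat_lit 0) (XT.lf (nat_lit 76) (nat_lit 55310659) (nat_lit 0) (nat_lit 245124298) (nat_lit 380) (nat_lit 55310659) (nat_lit 254) (nat_lit 1) (nat_lit 253) (nat_lit 1) (nat_lit 258) (nat_lit 1) (nat_lit 442) (nat_lit 301) (nat_lit 277)) (XT.lf (nat_lit 304) (nat_lit 44981790) (nat_lit 0) (nat_lit 151844034) (nat_lit 228) (nat_lit 151844034) (nat_lit 254) (nat_lit 1) (nat_lit 250) (nat_lit 1) (nat_lit 253) (nat_lit 1) (nat_lit 443) (nat_lit 301) (nat_lit 276))))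 (XT.nd (nat_lit 78) (nat_lit 0) (nat_lit 0) (XT.lf (nat_lit 836) (nat_lit 84150425) (nat_lit 0) (nat_lit 149408886) (nat_lit 836) (nat_lit 84150425) (nat_lit 303) (nat_lit 1) (nat_lit 292) (nat_lit 0) (nat_lit 303) (nat_lit 0) (nat_lit 416) (nat_lit 302) (nat_lit 302)) (XT.nd (nat_lit 78) (nat_lit 0) (nat_lit 76) (XT.lf (nat_lit 836) (nat_lit 326177553) (nat_lit 76) (nat_lit 146999065) (nat_lit 0) (nat_lit 146999065) (nat_lit 303) (nat_lit 1) (nat_lit 293) (nat_lit 1) (nat_lit 292) (nat_lit 0) (nat_lit 417) (nat_lit 302) (nat_lit 301)) (XT.lf (nat_lit 836) (nat_lit 155451310) (nat_lit 0) (nat_lit 294500542) (nat_lit 760) (nat_lit 155451310) (nat_lit 304) (nat_lit 1) (nat_lit 293) (nat_lit 1) (nat_lit 303) (nat_lit 1) (nat_lit 418) (nat_lit 302) (nat_lit 300))))) (XT.nd (nat_lit 234) (nat_lit 0) (nat_lit 152) (XT.nd (nat_lit 78) (nat_lit 0) (nat_lit 76) (XT.lf (nat_lit 836) (nat_lit 291605058) (nat_lit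 76) (nat_lit 149751423) (nat_lit 0) (nat_lit 149751423) (nat_lit 304) (nat_lit 1) (nat_lit 294) (nat_lit 1) (nat_lit 293) (nat_lit 1) (nat_lit 419) (nat_lit 302) (nat_lit 299)) (XT.nd (nat_lit 78) (nat_lit 0) (nat_lit 0) (XT.lf (nat_lit 836) (nat_lit 134223008) (nat_lit 0) (nat_lit 308819718) (nat_lit 760) (nat_lit 134223008) (nat_lit 305) (nat_lit 1) (nat_lit 294) (nat_lit 1) (nat_lit 304) (nat_lit 1) (nat_lit 420) (nat_lit 302) (nat_lit 298)) (XT.lf (nat_lit 836) (nat_lit 241408822) (nat_lit 76) (nat_lit 161218351) (nat_lit 0) (nat_lit 161218351) (nat_lit 305) (nat_lit 1) (nat_lit 295) (nat_lit 1) (nat_lit 294) (nat_lit 1) (nat_lit 421) (nat_lit 302) (nat_lit 297)))) (XT.nd (nat_lit 156) (nat_lit 0) (nat_lit 76) (XT.nd (nat_lit 78) (nat_lit 0) (nat_lit 0) (XT.lf (nat_lit 836) (nat_lit 105850796) (nat_lit 0) (nat_lit 339174329) (nat_lit 760) (nat_lit 105850796) (nat_lit 306) (nat_lit 1) (nat_lit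 295) (nat_lit 1) (nat_lit 305) (nat_lit 1) (nat_lit 422) (nat_lit 302) (nat_lit 296)) (XT.lf (nat_lit 836) (nat_lit 177938438) (nat_lit 76) (nat_lit 180162488) (nat_lit 0) (nat_lit 180162488) (nat_lit 306) (nat_lit 1) (nat_lit 296) (nat_lit 1) (nat_lit 295) (nat_lit 1) (nat_lit 423) (nat_lit 302) (nat_lit 295))) (XT.nd (nat_lit 78) (nat_lit 0) (nat_lit 0) (XT.lf (nat_lit 836) (nat_lit 71433015) (nat_lit 0) (nat_lit 383246568) (nat_lit 760) (nat_lit 71433015) (nat_lit 307) (nat_lit 1) (nat_lit 296) (nat_lit 1) (nat_lit 306) (nat_lit 1) (nat_lit 424) (nat_lit 302) (nat_lit 294)) (XT.lf (nat_lit 836) (nat_lit 103282340) (nat_lit 76) (nat_lit 205481849) (nat_lit 0) (nat_lit 205481849) (nat_lit 307) (nat_lit 1) (nat_lit 297) (nat_lit 1) (nat_lit 296) (nat_lit 1) (nat_lit 425) (nat_lit 302) (nat_lit 293)))))) (XT.nd (nat_lit 468) (nat_lit 1368) (nat_lit 0) (XT.nd (nat_lit 234) (nat_lit 380) (nat_lit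 0) (XT.nd (nat_lit 78) (nat_lit 1292) (nat_lit 0) (XT.lf (nat_lit 76) (nat_lit 31945217) (nat_lit 0) (nat_lit 438973494) (nat_lit 760) (nat_lit 31945217) (nat_lit 298) (nat_lit 1) (nat_lit 297) (nat_lit 1) (nat_lit 307) (nat_lit 1) (nat_lit 426) (nat_lit 302) (nat_lit 292)) (XT.nd (nat_lit 78) (nat_lit 532) (nat_lit 0) (XT.lf (nat_lit 836) (nat_lit 19294116) (nat_lit 0) (nat_lit 236196276) (nat_lit 760) (nat_lit 236196276) (nat_lit 298) (nat_lit 1) (nat_lit 287) (nat_lit 1) (nat_lit 297) (nat_lit 1) (nat_lit 427) (nat_lit 302) (nat_lit 291)) (XT.lf (nat_lit 532) (nat_lit 457873693) (nat_lit 0) (nat_lit 11557957) (nat_lit 456) (nat_lit 11557957) (nat_lit 287) (nat_lit 1) (nat_lit 280) (nat_lit 1) (nat_lit 286) (nat_lit 1) (nat_lit 428) (nat_lit 302) (nat_lit 290)))) (XT.nd (nat_lit 78) (nat_lit 380) (nat_lit 0) (XT.lf (nat_lit 76) (nat_lit 200181581) (nat_lit 0) (nat_lit 70066986) (nat_lit 532)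 (nat_lit 200181581) (nat_lit 281) (nat_lit 1) (nat_lit 280) (nat_lit 1) (nat_lit 287) (nat_lit 1) (nat_lit 429) (nat_lit 302) (nat_lit 289)) (XT.nd (nat_lit 78) (nat_lit 0) (nat_lit 0) (XT.lf (nat_lit 456) (nat_lit 344461117) (nat_lit 0) (nat_lit 57929295) (nat_lit 380) (nat_lit 57929295) (nat_lit 281) (nat_lit 1) (nat_lit 275) (nat_lit 1) (nat_lit 280) (nat_lit 1) (nat_lit 430) (nat_lit 302) (nat_lit 288)) (XT.lf (nat_lit 76) (nat_lit 142787085) (nat_lit 0) (nat_lit 164847645) (nat_lit 456) (nat_lit 142787085) (nat_lit 276) (nat_lit 1) (nat_lit 275) (nat_lit 1) (nat_lit 281) (nat_lit 1) (nat_lit 431) (nat_lit 302) (nat_lit 287))))) (XT.nd (nat_lit 234) (nat_lit 684) (nat_lit 0) (XT.nd (nat_lit 78) (nat_lit 304) (nat_lit 0) (XT.lf (nat_lit 456) (nat_lit 226832530) (nat_lit 0) (nat_lit 107018054) (nat_lit 380) (nat_lit 107018054) (nat_lit 276) (nat_lit 1) (nat_lit 270) (nat_lit 1) (nat_lit 275)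 (nat_lit 1) (nat_lit 432) (nat_lit 302) (nat_lit 286)) (XT.nd (nat_lit 78) (nat_lit 304) (nat_lit 0) (XT.lf (nat_lit 76) (nat_lit 83584773) (nat_lit 0) (nat_lit 264423758) (nat_lit 456) (nat_lit 83584773) (nat_lit 271) (nat_lit 1) (nat_lit 270) (nat_lit 1) (nat_lit 276) (nat_lit 1) (nat_lit 433) (nat_lit 302) (nat_lit 285)) (XT.lf (nat_lit 380) (nat_lit 106082756) (nat_lit 0) (nat_lit 158236901) (nat_lit 304) (nat_lit 158236901) (nat_lit 271) (nat_lit 1) (nat_lit 266) (nat_lit 1) (nat_lit 270) (nat_lit 1) (nat_lit 434) (nat_lit 302) (nat_lit 284)))) (XT.nd (nat_lit 156) (nat_lit 304) (nat_lit 0) (XT.nd (nat_lit 78) (nat_lit 380) (nat_lit 0) (XT.lf (nat_lit 76) (nat_lit 23082899) (nat_lit 0) (nat_lit 367701524) (nat_lit 380) (nat_lit 23082899) (nat_lit 267) (nat_lit 1) (nat_lit 266) (nat_lit 1) (nat_lit 271) (nat_lit 1) (nat_lit 435) (nat_lit 302) (nat_lit 283)) (XT.lf (nat_lit 76) (nat_lit 194503147)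 (nat_lit 0) (nat_lit 16290016) (nat_lit 380) (nat_lit 194503147) (nat_lit 262) (nat_lit 1) (nat_lit 261) (nat_lit 1) (nat_lit 266) (nat_lit 1) (nat_lit 436) (nat_lit 302) (nat_lit 282))) (XT.nd (nat_lit 78) (nat_lit 0) (nat_lit 0) (XT.lf (nat_lit 380) (nat_lit 321738879) (nat_lit 0) (nat_lit 37656412) (nat_lit 304) (nat_lit 37656412) (nat_lit 262) (nat_lit 1) (nat_lit 257) (nat_lit 1) (nat_lit 261) (nat_lit 1) (nat_lit 437) (nat_lit 302) (nat_lit 281)) (XT.lf (nat_lit 76) (nat_lit 126200133) (nat_lit 0) (nat_lit 136548268) (nat_lit 380) (nat_lit 126200133) (nat_lit 258) (nat_lit 1) (nat_lit 257) (nat_lit 1) (nat_lit 262) (nat_lit 1) (nat_lit 438) (nat_lit 302) (nat_lit 280))))))))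
noncomputable def ec4 : XT := (XT.nd (nat_lit 52728) (nat_lit 228) (nat_lit 0) (XT.nd (nat_lit 51714) (nat_lit 0) (nat_lit 1596) (XT.nd (nat_lit 51246) (nat_lit 0) (nat_lit 3572) (XT.nd (nat_lit 234) (nat_lit 380) (nat_lit 0) (XT.nd (nat_lit 78) (nat_lit 228) (nat_lit 0) (XT.lf (nat_lit 380) (nat_lit 184161100) (nat_lit 0) (nat_lit 98482627) (nat_lit 304) (nat_lit 98482627) (nat_lit 258) (nat_lit 1) (nat_lit 253) (nat_lit 1) (nat_lit 257) (nat_lit 1) (nat_lit 439) (nat_lit 302) (nat_lit 279)) (XT.nd (nat_lit 78) (nat_lit 228) (nat_lit 0) (XT.lf (nat_lit 76) (nat_lit 58076192) (nat_lit 0) (nat_lit 257380512) (nat_lit 380) (nat_lit 58076192) (nat_lit 254) (nat_lit 1) (nat_lit 253) (nat_lit 1) (nat_lit 258) (nat_lit 1) (nat_lit 440) (nat_lit 302) (nat_lit 278)) (XT.lf (nat_lit 304) (nat_lit 47230879) (nat_lit 0) (nat_lit 159436235) (nat_lit 228) (nat_lit 159436235) (nat_lit 254) (nat_lit 1) (nat_lit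 250) (nat_lit 1) (nat_lit 253) (nat_lit 1) (nat_lit 441) (nat_lit 302) (nat_lit 277)))) (XT.nd (nat_lit 78) (nat_lit 0) (nat_lit 0) (XT.lf (nat_lit 380) (nat_lit 340086995) (nat_lit 0) (nat_lit 9436761) (nat_lit 304) (nat_lit 9436761) (nat_lit 250) (nat_lit 1) (nat_lit 245) (nat_lit 1) (nat_lit 249) (nat_lit 1) (nat_lit 442) (nat_lit 302) (nat_lit 276)) (XT.nd (nat_lit 50856) (nat_lit 0) (nat_lit 3572) (XT.lf (nat_lit 76) (nat_lit 133078555) (nat_lit 0) (nat_lit 85700110) (nat_lit 380) (nat_lit 133078555) (nat_lit 246) (nat_lit 1) (nat_lit 245) (nat_lit 1) (nat_lit 250) (nat_lit 1) (nat_lit 443) (nat_lit 302) (nat_lit 275)) (XT.lf (nat_lit 836) (nat_lit 88357946) (nat_lit 0) (nat_lit 156879330) (nat_lit 836) (nat_lit 88357946) (nat_lit 303) (nat_lit 1) (nat_lit 292) (nat_lit 0) (nat_lit 303) (nat_lit 0) (nat_lit 414) (nat_lit 303) (nat_lit 303))))) (XT.nd (nat_lit 234) (nat_lit 0) (nat_lit 152)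 (XT.nd (nat_lit 78) (nat_lit 0) (nat_lit 76) (XT.lf (nat_lit 836) (nat_lit 342486431) (nat_lit 76) (nat_lit 154349018) (nat_lit 0) (nat_lit 154349018) (nat_lit 303) (nat_lit 1) (nat_lit 293) (nat_lit 1) (nat_lit 292) (nat_lit 0) (nat_lit 415) (nat_lit 303) (nat_lit 302)) (XT.nd (nat_lit 78) (nat_lit 0) (nat_lit 0) (XT.lf (nat_lit 836) (nat_lit 163223876) (nat_lit 0) (nat_lit 309225569) (nat_lit 760) (nat_lit 163223876) (nat_lit 304) (nat_lit 1) (nat_lit 293) (nat_lit 1) (nat_lit 303) (nat_lit 1) (nat_lit 416) (nat_lit 303) (nat_lit 301)) (XT.lf (nat_lit 836) (nat_lit 306185311) (nat_lit 76) (nat_lit 157238994) (nat_lit 0) (nat_lit 157238994) (nat_lit 304) (nat_lit 1) (nat_lit 294) (nat_lit 1) (nat_lit 293) (nat_lit 1) (nat_lit 417) (nat_lit 303) (nat_lit 300)))) (XT.nd (nat_lit 78) (nat_lit 0) (nat_lit 0) (XT.lf (nat_lit 836) (nat_lit 140934158) (nat_lit 0) (nat_lit 324260704) (nat_lit 760) (nat_lit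 140934158) (nat_lit 305) (nat_lit 1) (nat_lit 294) (nat_lit 1) (nat_lit 304) (nat_lit 1) (nat_lit 418) (nat_lit 303) (nat_lit 299)) (XT.nd (nat_lit 78) (nat_lit 0) (nat_lit 76) (XT.lf (nat_lit 836) (nat_lit 253479263) (nat_lit 76) (nat_lit 169279269) (nat_lit 0) (nat_lit 169279269) (nat_lit 305) (nat_lit 1) (nat_lit 295) (nat_lit 1) (nat_lit 294) (nat_lit 1) (nat_lit 419) (nat_lit 303) (nat_lit 298)) (XT.lf (nat_lit 836) (nat_lit 111143335) (nat_lit 0) (nat_lit 356133046) (nat_lit 760) (nat_lit 111143335) (nat_lit 306) (nat_lit 1) (nat_lit 295) (nat_lit 1) (nat_lit 305) (nat_lit 1) (nat_lit 420) (nat_lit 303) (nat_lit 297)))))) (XT.nd (nat_lit 468) (nat_lit 1064) (nat_lit 0) (XT.nd (nat_lit 234) (nat_lit 1140) (nat_lit 0) (XT.nd (nat_lit 78) (nat_lit 0) (nat_lit 76) (XT.lf (nat_lit 836) (nat_lit 186835360) (nat_lit 76) (nat_lit 189170613) (nat_lit 0) (nat_lit 189170613) (nat_lit 306) (nat_lit 1)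 (nat_lit 296) (nat_lit 1) (nat_lit 295) (nat_lit 1) (nat_lit 421) (nat_lit 303) (nat_lit 296)) (XT.nd (nat_lit 78) (nat_lit 0) (nat_lit 0) (XT.lf (nat_lit 836) (nat_lit 75004665) (nat_lit 0) (nat_lit 402408897) (nat_lit 760) (nat_lit 75004665) (nat_lit 307) (nat_lit 1) (nat_lit 296) (nat_lit 1) (nat_lit 306) (nat_lit 1) (nat_lit 422) (nat_lit 303) (nat_lit 295)) (XT.lf (nat_lit 836) (nat_lit 108446457) (nat_lit 76) (nat_lit 215755942) (nat_lit 0) (nat_lit 215755942) (nat_lit 307) (nat_lit 1) (nat_lit 297) (nat_lit 1) (nat_lit 296) (nat_lit 1) (nat_lit 423) (nat_lit 303) (nat_lit 294)))) (XT.nd (nat_lit 78) (nat_lit 1292) (nat_lit 0) (XT.lf (nat_lit 76) (nat_lit 33542478) (nat_lit 0) (nat_lit 460922168) (nat_lit 760) (nat_lit 33542478) (nat_lit 298) (nat_lit 1) (nat_lit 297) (nat_lit 1) (nat_lit 307) (nat_lit 1) (nat_lit 424) (nat_lit 303) (nat_lit 293)) (XT.nd (nat_lit 78) (nat_lit 532) (nat_lit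 0) (XT.lf (nat_lit 836) (nat_lit 20258822) (nat_lit 0) (nat_lit 248006090) (nat_lit 760) (nat_lit 248006090) (nat_lit 298) (nat_lit 1) (nat_lit 287) (nat_lit 1) (nat_lit 297) (nat_lit 1) (nat_lit 425) (nat_lit 303) (nat_lit 292)) (XT.lf (nat_lit 532) (nat_lit 480767377) (nat_lit 0) (nat_lit 12135855) (nat_lit 456) (nat_lit 12135855) (nat_lit 287) (nat_lit 1) (nat_lit 280) (nat_lit 1) (nat_lit 286) (nat_lit 1) (nat_lit 426) (nat_lit 303) (nat_lit 291))))) (XT.nd (nat_lit 234) (nat_lit 684) (nat_lit 0) (XT.nd (nat_lit 78) (nat_lit 380) (nat_lit 0) (XT.lf (nat_lit 76) (nat_lit 210190660) (nat_lit 0) (nat_lit 73570335) (nat_lit 532) (nat_lit 210190660) (nat_lit 281) (nat_lit 1) (nat_lit 280) (nat_lit 1) (nat_lit 287) (nat_lit 1) (nat_lit 427) (nat_lit 303) (nat_lit 290)) (XT.nd (nat_lit 78) (nat_lit 0) (nat_lit 0) (XT.lf (nat_lit 456) (nat_lit 361684173) (nat_lit 0) (nat_lit 60825759) (nat_lit 380)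 (nat_lit 60825759) (nat_lit 281) (nat_lit 1) (nat_lit 275) (nat_lit 1) (nat_lit 280) (nat_lit 1) (nat_lit 428) (nat_lit 303) (nat_lit 289)) (XT.lf (nat_lit 76) (nat_lit 149926439) (nat_lit 0) (nat_lit 173090027) (nat_lit 456) (nat_lit 149926439) (nat_lit 276) (nat_lit 1) (nat_lit 275) (nat_lit 1) (nat_lit 281) (nat_lit 1) (nat_lit 429) (nat_lit 303) (nat_lit 288)))) (XT.nd (nat_lit 156) (nat_lit 304) (nat_lit 0) (XT.nd (nat_lit 78) (nat_lit 0) (nat_lit 0) (XT.lf (nat_lit 456) (nat_lit 238174157) (nat_lit 0) (nat_lit 112368957) (nat_lit 380) (nat_lit 112368957) (nat_lit 276) (nat_lit 1) (nat_lit 270) (nat_lit 1) (nat_lit 275) (nat_lit 1) (nat_lit 430) (nat_lit 303) (nat_lit 287)) (XT.lf (nat_lit 76) (nat_lit 87764011) (nat_lit 0) (nat_lit 277644946) (nat_lit 456) (nat_lit 87764011) (nat_lit 271) (nat_lit 1) (nat_lit 270) (nat_lit 1) (nat_lit 276) (nat_lit 1) (nat_lit 431) (nat_lit 303) (nat_lit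 286))) (XT.nd (nat_lit 78) (nat_lit 0) (nat_lit 0) (XT.lf (nat_lit 380) (nat_lit 111386894) (nat_lit 0) (nat_lit 166148746) (nat_lit 304) (nat_lit 166148746) (nat_lit 271) (nat_lit 1) (nat_lit 266) (nat_lit 1) (nat_lit 270) (nat_lit 1) (nat_lit 432) (nat_lit 303) (nat_lit 285)) (XT.lf (nat_lit 76) (nat_lit 24237044) (nat_lit 0) (nat_lit 386086600) (nat_lit 380) (nat_lit 24237044) (nat_lit 267) (nat_lit 1) (nat_lit 266) (nat_lit 1) (nat_lit 271) (nat_lit 1) (nat_lit 433) (nat_lit 303) (nat_lit 284))))))) (XT.nd (nat_lit 51558) (nat_lit 0) (nat_lit 2508) (XT.nd (nat_lit 468) (nat_lit 608) (nat_lit 0) (XT.nd (nat_lit 234) (nat_lit 532) (nat_lit 0) (XT.nd (nat_lit 78) (nat_lit 304) (nat_lit 0) (XT.lf (nat_lit 76) (nat_lit 204228305) (nat_lit 0) (nat_lit 17104517) (nat_lit 380) (nat_lit 204228305) (nat_lit 262) (nat_lit 1) (nat_lit 261) (nat_lit 1) (nat_lit 266) (nat_lit 1) (nat_lit 434) (nat_lit 303)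 (nat_lit 283)) (XT.nd (nat_lit 78) (nat_lit 0) (nat_lit 0) (XT.lf (nat_lit 380) (nat_lit 337825823) (nat_lit 0) (nat_lit 39539233) (nat_lit 304) (nat_lit 39539233) (nat_lit 262) (nat_lit 1) (nat_lit 257) (nat_lit 1) (nat_lit 261) (nat_lit 1) (nat_lit 435) (nat_lit 303) (nat_lit 282)) (XT.lf (nat_lit 76) (nat_lit 132510139) (nat_lit 0) (nat_lit 143375682) (nat_lit 380) (nat_lit 132510139) (nat_lit 258) (nat_lit 1) (nat_lit 257) (nat_lit 1) (nat_lit 262) (nat_lit 1) (nat_lit 436) (nat_lit 303) (nat_lit 281)))) (XT.nd (nat_lit 78) (nat_lit 228) (nat_lit 0) (XT.lf (nat_lit 380) (nat_lit 193369155) (nat_lit 0) (nat_lit 103406758) (nat_lit 304) (nat_lit 103406758) (nat_lit 258) (nat_lit 1) (nat_lit 253) (nat_lit 1) (nat_lit 257) (nat_lit 1) (nat_lit 437) (nat_lit 303) (nat_lit 280)) (XT.nd (nat_lit 78) (nat_lit 228) (nat_lit 0) (XT.lf (nat_lit 76) (nat_lit 60980001) (nat_lit 0) (nat_lit 270249538) (nat_lit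 380) (nat_lit 60980001) (nat_lit 254) (nat_lit 1) (nat_lit 253) (nat_lit 1) (nat_lit 258) (nat_lit 1) (nat_lit 438) (nat_lit 303) (nat_lit 279)) (XT.lf (nat_lit 304) (nat_lit 49592423) (nat_lit 0) (nat_lit 167408047) (nat_lit 228) (nat_lit 167408047) (nat_lit 254) (nat_lit 1) (nat_lit 250) (nat_lit 1) (nat_lit 253) (nat_lit 1) (nat_lit 439) (nat_lit 303) (nat_lit 278))))) (XT.nd (nat_lit 234) (nat_lit 0) (nat_lit 0) (XT.nd (nat_lit 78) (nat_lit 228) (nat_lit 0) (XT.lf (nat_lit 380) (nat_lit 357091345) (nat_lit 0) (nat_lit 9908599) (nat_lit 304) (nat_lit 9908599) (nat_lit 250) (nat_lit 1) (nat_lit 245) (nat_lit 1) (nat_lit 249) (nat_lit 1) (nat_lit 440) (nat_lit 303) (nat_lit 277)) (XT.nd (nat_lit 78) (nat_lit 228) (nat_lit 0) (XT.lf (nat_lit 76) (nat_lit 139732483) (nat_lit 0) (nat_lit 89985115) (nat_lit 380) (nat_lit 139732483) (nat_lit 246) (nat_lit 1) (nat_lit 245) (nat_lit 1) (nat_lit 250)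 (nat_lit 1) (nat_lit 441) (nat_lit 303) (nat_lit 276)) (XT.lf (nat_lit 304) (nat_lit 204083709) (nat_lit 0) (nat_lit 79096981) (nat_lit 228) (nat_lit 79096981) (nat_lit 246) (nat_lit 1) (nat_lit 242) (nat_lit 1) (nat_lit 245) (nat_lit 1) (nat_lit 442) (nat_lit 303) (nat_lit 275)))) (XT.nd (nat_lit 50700) (nat_lit 0) (nat_lit 3800) (XT.lf (nat_lit 76) (nat_lit 64473200) (nat_lit 0) (nat_lit 226341087) (nat_lit 304) (nat_lit 64473200) (nat_lit 243) (nat_lit 1) (nat_lit 242) (nat_lit 1) (nat_lit 246) (nat_lit 1) (nat_lit 443) (nat_lit 303) (nat_lit 274)) (XT.nd (nat_lit 78) (nat_lit 0) (nat_lit 0) (XT.lf (nat_lit 836) (nat_lit 92775843) (nat_lit 0) (nat_lit 164723297) (nat_lit 836) (nat_lit 92775843) (nat_lit 303) (nat_lit 1) (nat_lit 292) (nat_lit 0) (nat_lit 303) (nat_lit 0) (nat_lit 412) (nat_lit 304) (nat_lit 304)) (XT.lf (nat_lit 836) (nat_lit 359610752) (nat_lit 76) (nat_lit 162066469) (nat_lit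 0) (nat_lit 162066469) (nat_lit 303) (nat_lit 1) (nat_lit 293) (nat_lit 1) (nat_lit 292) (nat_lit 0) (nat_lit 413) (nat_lit 304) (nat_lit 303)))))) (XT.nd (nat_lit 468) (nat_lit 1368) (nat_lit 0) (XT.nd (nat_lit 234) (nat_lit 0) (nat_lit 76) (XT.nd (nat_lit 78) (nat_lit 0) (nat_lit 0) (XT.lf (nat_lit 836) (nat_lit 171385070) (nat_lit 0) (nat_lit 324686847) (nat_lit 760) (nat_lit 171385070) (nat_lit 304) (nat_lit 1) (nat_lit 293) (nat_lit 1) (nat_lit 303) (nat_lit 1) (nat_lit 414) (nat_lit 304) (nat_lit 302)) (XT.nd (nat_lit 78) (nat_lit 0) (nat_lit 76) (XT.lf (nat_lit 836) (nat_lit 321494576) (nat_lit 76) (nat_lit 165100944) (nat_lit 0) (nat_lit 165100944) (nat_lit 304) (nat_lit 1) (nat_lit 294) (nat_lit 1) (nat_lit 293) (nat_lit 1) (nat_lit 415) (nat_lit 304) (nat_lit 301)) (XT.lf (nat_lit 836) (nat_lit 147980866) (nat_lit 0) (nat_lit 340473739) (nat_lit 760) (nat_lit 147980866) (nat_lit 305)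 (nat_lit 1) (nat_lit 294) (nat_lit 1) (nat_lit 304) (nat_lit 1) (nat_lit 416) (nat_lit 304) (nat_lit 300)))) (XT.nd (nat_lit 78) (nat_lit 0) (nat_lit 76) (XT.lf (nat_lit 836) (nat_lit 266153226) (nat_lit 76) (nat_lit 177743233) (nat_lit 0) (nat_lit 177743233) (nat_lit 305) (nat_lit 1) (nat_lit 295) (nat_lit 1) (nat_lit 294) (nat_lit 1) (nat_lit 417) (nat_lit 304) (nat_lit 299)) (XT.nd (nat_lit 78) (nat_lit 0) (nat_lit 0) (XT.lf (nat_lit 836) (nat_lit 116700502) (nat_lit 0) (nat_lit 373939698) (nat_lit 760) (nat_lit 116700502) (nat_lit 306) (nat_lit 1) (nat_lit 295) (nat_lit 1) (nat_lit 305) (nat_lit 1) (nat_lit 418) (nat_lit 304) (nat_lit 298)) (XT.lf (nat_lit 836) (nat_lit 196177128) (nat_lit 76) (nat_lit 198629143) (nat_lit 0) (nat_lit 198629143) (nat_lit 306) (nat_lit 1) (nat_lit 296) (nat_lit 1) (nat_lit 295) (nat_lit 1) (nat_lit 419) (nat_lit 304) (nat_lit 297))))) (XT.nd (nat_lit 234) (nat_lit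 1596) (nat_lit 0) (XT.nd (nat_lit 78) (nat_lit 0) (nat_lit 0) (XT.lf (nat_lit 836) (nat_lit 78754899) (nat_lit 0) (nat_lit 422529341) (nat_lit 760) (nat_lit 78754899) (nat_lit 307) (nat_lit 1) (nat_lit 296) (nat_lit 1) (nat_lit 306) (nat_lit 1) (nat_lit 420) (nat_lit 304) (nat_lit 296)) (XT.nd (nat_lit 78) (nat_lit 0) (nat_lit 76) (XT.lf (nat_lit 836) (nat_lit 113868780) (nat_lit 76) (nat_lit 226543739) (nat_lit 0) (nat_lit 226543739) (nat_lit 307) (nat_lit 1) (nat_lit 297) (nat_lit 1) (nat_lit 296) (nat_lit 1) (nat_lit 421) (nat_lit 304) (nat_lit 295)) (XT.lf (nat_lit 76) (nat_lit 35219602) (nat_lit 0) (nat_lit 483968277) (nat_lit 760) (nat_lit 35219602) (nat_lit 298) (nat_lit 1) (nat_lit 297) (nat_lit 1) (nat_lit 307) (nat_lit 1) (nat_lit 422) (nat_lit 304) (nat_lit 294)))) (XT.nd (nat_lit 156) (nat_lit 380) (nat_lit 0) (XT.nd (nat_lit 78) (nat_lit 532) (nat_lit 0) (XT.lf (nat_lit 836) (nat_lit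 21271763) (nat_lit 0) (nat_lit 260406395) (nat_lit 760) (nat_lit 260406395) (nat_lit 298) (nat_lit 1) (nat_lit 287) (nat_lit 1) (nat_lit 297) (nat_lit 1) (nat_lit 423) (nat_lit 304) (nat_lit 293)) (XT.lf (nat_lit 532) (nat_lit 504805746) (nat_lit 0) (nat_lit 12742647) (nat_lit 456) (nat_lit 12742647) (nat_lit 287) (nat_lit 1) (nat_lit 280) (nat_lit 1) (nat_lit 286) (nat_lit 1) (nat_lit 424) (nat_lit 304) (nat_lit 292))) (XT.nd (nat_lit 78) (nat_lit 380) (nat_lit 0) (XT.lf (nat_lit 76) (nat_lit 220700193) (nat_lit 0) (nat_lit 77248852) (nat_lit 532) (nat_lit 220700193) (nat_lit 281) (nat_lit 1) (nat_lit 280) (nat_lit 1) (nat_lit 287) (nat_lit 1) (nat_lit 425) (nat_lit 304) (nat_lit 291)) (XT.lf (nat_lit 456) (nat_lit 379768382) (nat_lit 0) (nat_lit 63867047) (nat_lit 380) (nat_lit 63867047) (nat_lit 281) (nat_lit 1) (nat_lit 275) (nat_lit 1) (nat_lit 280) (nat_lit 1) (nat_lit 426) (nat_lit 304)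 (nat_lit 290))))))))
noncomputable def ec5 : XT := (XT.nd (nat_lit 52338) (nat_lit 0) (nat_lit 0) (XT.nd (nat_lit 936) (nat_lit 760) (nat_lit 0) (XT.nd (nat_lit 468) (nat_lit 1216) (nat_lit 0) (XT.nd (nat_lit 234) (nat_lit 684) (nat_lit 0) (XT.nd (nat_lit 78) (nat_lit 380) (nat_lit 0) (XT.lf (nat_lit 76) (nat_lit 157422761) (nat_lit 0) (nat_lit 181744528) (nat_lit 456) (nat_lit 157422761) (nat_lit 276) (nat_lit 1) (nat_lit 275) (nat_lit 1) (nat_lit 281) (nat_lit 1) (nat_lit 427) (nat_lit 304) (nat_lit 289)) (XT.nd (nat_lit 78) (nat_lit 0) (nat_lit 0) (XT.lf (nat_lit 456) (nat_lit 250082865) (nat_lit 0) (nat_lit 117987405) (nat_lit 380) (nat_lit 117987405) (nat_lit 276) (nat_lit 1) (nat_lit 270) (nat_lit 1) (nat_lit 275) (nat_lit 1) (nat_lit 428) (nat_lit 304) (nat_lit 288)) (XT.lf (nat_lit 76) (nat_lit 92152212) (nat_lit 0) (nat_lit 291527193) (nat_lit 456) (nat_lit 92152212) (nat_lit 271) (nat_lit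 1) (nat_lit 270) (nat_lit 1) (nat_lit 276) (nat_lit 1) (nat_lit 429) (nat_lit 304) (nat_lit 287)))) (XT.nd (nat_lit 78) (nat_lit 380) (nat_lit 0) (XT.lf (nat_lit 380) (nat_lit 116956238) (nat_lit 0) (nat_lit 174456184) (nat_lit 304) (nat_lit 174456184) (nat_lit 271) (nat_lit 1) (nat_lit 266) (nat_lit 1) (nat_lit 270) (nat_lit 1) (nat_lit 430) (nat_lit 304) (nat_lit 286)) (XT.nd (nat_lit 78) (nat_lit 380) (nat_lit 0) (XT.lf (nat_lit 76) (nat_lit 25448897) (nat_lit 0) (nat_lit 405390930) (nat_lit 380) (nat_lit 25448897) (nat_lit 267) (nat_lit 1) (nat_lit 266) (nat_lit 1) (nat_lit 271) (nat_lit 1) (nat_lit 431) (nat_lit 304) (nat_lit 285)) (XT.lf (nat_lit 76) (nat_lit 214439720) (nat_lit 0) (nat_lit 17959743) (nat_lit 380) (nat_lit 214439720) (nat_lit 262) (nat_lit 1) (nat_lit 261) (nat_lit 1) (nat_lit 266) (nat_lit 1) (nat_lit 432) (nat_lit 304) (nat_lit 284))))) (XT.nd (nat_lit 234) (nat_lit 608)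 (nat_lit 0) (XT.nd (nat_lit 78) (nat_lit 304) (nat_lit 0) (XT.lf (nat_lit 380) (nat_lit 354717115) (nat_lit 0) (nat_lit 41516194) (nat_lit 304) (nat_lit 41516194) (nat_lit 262) (nat_lit 1) (nat_lit 257) (nat_lit 1) (nat_lit 261) (nat_lit 1) (nat_lit 433) (nat_lit 304) (nat_lit 283)) (XT.nd (nat_lit 78) (nat_lit 304) (nat_lit 0) (XT.lf (nat_lit 76) (nat_lit 139135646) (nat_lit 0) (nat_lit 150544466) (nat_lit 380) (nat_lit 139135646) (nat_lit 258) (nat_lit 1) (nat_lit 257) (nat_lit 1) (nat_lit 262) (nat_lit 1) (nat_lit 434) (nat_lit 304) (nat_lit 282)) (XT.lf (nat_lit 380) (nat_lit 203037613) (nat_lit 0) (nat_lit 108577096) (nat_lit 304) (nat_lit 108577096) (nat_lit 258) (nat_lit 1) (nat_lit 253) (nat_lit 1) (nat_lit 257) (nat_lit 1) (nat_lit 435) (nat_lit 304) (nat_lit 281)))) (XT.nd (nat_lit 78) (nat_lit 608) (nat_lit 0) (XT.lf (nat_lit 76) (nat_lit 64029001) (nat_lit 0) (nat_lit 283762015) (nat_lit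 380) (nat_lit 64029001) (nat_lit 254) (nat_lit 1) (nat_lit 253) (nat_lit 1) (nat_lit 258) (nat_lit 1) (nat_lit 436) (nat_lit 304) (nat_lit 280)) (XT.nd (nat_lit 78) (nat_lit 380) (nat_lit 0) (XT.lf (nat_lit 304) (nat_lit 52072044) (nat_lit 0) (nat_lit 175778449) (nat_lit 228) (nat_lit 175778449) (nat_lit 254) (nat_lit 1) (nat_lit 250) (nat_lit 1) (nat_lit 253) (nat_lit 1) (nat_lit 437) (nat_lit 304) (nat_lit 279)) (XT.lf (nat_lit 380) (nat_lit 374945912) (nat_lit 0) (nat_lit 10404029) (nat_lit 304) (nat_lit 10404029) (nat_lit 250) (nat_lit 1) (nat_lit 245) (nat_lit 1) (nat_lit 249) (nat_lit 1) (nat_lit 438) (nat_lit 304) (nat_lit 278)))))) (XT.nd (nat_lit 50856) (nat_lit 0) (nat_lit 4332) (XT.nd (nat_lit 234) (nat_lit 532) (nat_lit 0) (XT.nd (nat_lit 78) (nat_lit 228) (nat_lit 0) (XT.lf (nat_lit 76) (nat_lit 146719107) (nat_lit 0) (nat_lit 94484371) (nat_lit 380) (nat_lit 146719107) (nat_lit 246)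 (nat_lit 1) (nat_lit 245) (nat_lit 1) (nat_lit 250) (nat_lit 1) (nat_lit 439) (nat_lit 304) (nat_lit 277)) (XT.nd (nat_lit 78) (nat_lit 0) (nat_lit 0) (XT.lf (nat_lit 304) (nat_lit 214287895) (nat_lit 0) (nat_lit 83051830) (nat_lit 228) (nat_lit 83051830) (nat_lit 246) (nat_lit 1) (nat_lit 242) (nat_lit 1) (nat_lit 245) (nat_lit 1) (nat_lit 440) (nat_lit 304) (nat_lit 276)) (XT.lf (nat_lit 76) (nat_lit 67696860) (nat_lit 0) (nat_lit 237658142) (nat_lit 304) (nat_lit 67696860) (nat_lit 243) (nat_lit 1) (nat_lit 242) (nat_lit 1) (nat_lit 246) (nat_lit 1) (nat_lit 441) (nat_lit 304) (nat_lit 275)))) (XT.nd (nat_lit 78) (nat_lit 304) (nat_lit 0) (XT.lf (nat_lit 304) (nat_lit 56423217) (nat_lit 0) (nat_lit 154727965) (nat_lit 228) (nat_lit 154727965) (nat_lit 243) (nat_lit 1) (nat_lit 239) (nat_lit 1) (nat_lit 242) (nat_lit 1) (nat_lit 442) (nat_lit 304) (nat_lit 274)) (XT.nd (nat_lit 78) (nat_lit 0)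 (nat_lit 0) (XT.lf (nat_lit 304) (nat_lit 339579081) (nat_lit 0) (nat_lit 9696912) (nat_lit 228) (nat_lit 9696912) (nat_lit 239) (nat_lit 1) (nat_lit 235) (nat_lit 1) (nat_lit 238) (nat_lit 1) (nat_lit 443) (nat_lit 304) (nat_lit 273)) (XT.lf (nat_lit 76) (nat_lit 128453041) (nat_lit 0) (nat_lit 95182414) (nat_lit 304) (nat_lit 128453041) (nat_lit 236) (nat_lit 1) (nat_lit 235) (nat_lit 1) (nat_lit 239) (nat_lit 1) (nat_lit 444) (nat_lit 304) (nat_lit 272))))) (XT.nd (nat_lit 234) (nat_lit 0) (nat_lit 76) (XT.nd (nat_lit 78) (nat_lit 0) (nat_lit 0) (XT.lf (nat_lit 836) (nat_lit 97414635) (nat_lit 0) (nat_lit 172959462) (nat_lit 836) (nat_lit 97414635) (nat_lit 303) (nat_lit 1) (nat_lit 292) (nat_lit 0) (nat_lit 303) (nat_lit 0) (nat_lit 410) (nat_lit 305) (nat_lit 305)) (XT.nd (nat_lit 78) (nat_lit 0) (nat_lit 76) (XT.lf (nat_lit 836) (nat_lit 377591290) (nat_lit 76) (nat_lit 170169793) (nat_lit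 0) (nat_lit 170169793) (nat_lit 303) (nat_lit 1) (nat_lit 293) (nat_lit 1) (nat_lit 292) (nat_lit 0) (nat_lit 411) (nat_lit 305) (nat_lit 304)) (XT.lf (nat_lit 836) (nat_lit 179954323) (nat_lit 0) (nat_lit 340921190) (nat_lit 760) (nat_lit 179954323) (nat_lit 304) (nat_lit 1) (nat_lit 293) (nat_lit 1) (nat_lit 303) (nat_lit 1) (nat_lit 412) (nat_lit 305) (nat_lit 303)))) (XT.nd (nat_lit 156) (nat_lit 0) (nat_lit 76) (XT.nd (nat_lit 78) (nat_lit 0) (nat_lit 76) (XT.lf (nat_lit 836) (nat_lit 337569305) (nat_lit 76) (nat_lit 173355991) (nat_lit 0) (nat_lit 173355991) (nat_lit 304) (nat_lit 1) (nat_lit 294) (nat_lit 1) (nat_lit 293) (nat_lit 1) (nat_lit 413) (nat_lit 305) (nat_lit 302)) (XT.lf (nat_lit 836) (nat_lit 155379909) (nat_lit 0) (nat_lit 357497426) (nat_lit 760) (nat_lit 155379909) (nat_lit 305) (nat_lit 1) (nat_lit 294) (nat_lit 1) (nat_lit 304) (nat_lit 1) (nat_lit 414) (nat_lit 305) (nat_lit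 301))) (XT.nd (nat_lit 78) (nat_lit 0) (nat_lit 76) (XT.lf (nat_lit 836) (nat_lit 279460887) (nat_lit 76) (nat_lit 186630394) (nat_lit 0) (nat_lit 186630394) (nat_lit 305) (nat_lit 1) (nat_lit 295) (nat_lit 1) (nat_lit 294) (nat_lit 1) (nat_lit 415) (nat_lit 305) (nat_lit 300)) (XT.lf (nat_lit 836) (nat_lit 122535527) (nat_lit 0) (nat_lit 392636683) (nat_lit 760) (nat_lit 122535527) (nat_lit 306) (nat_lit 1) (nat_lit 295) (nat_lit 1) (nat_lit 305) (nat_lit 1) (nat_lit 416) (nat_lit 305) (nat_lit 299))))))) (XT.nd (nat_lit 1014) (nat_lit 2356) (nat_lit 0) (XT.nd (nat_lit 468) (nat_lit 1064) (nat_lit 0) (XT.nd (nat_lit 234) (nat_lit 1140) (nat_lit 0) (XT.nd (nat_lit 78) (nat_lit 0) (nat_lit 76) (XT.lf (nat_lit 836) (nat_lit 205985984) (nat_lit 76) (nat_lit 208560600) (nat_lit 0) (nat_lit 208560600) (nat_lit 306) (nat_lit 1) (nat_lit 296) (nat_lit 1) (nat_lit 295) (nat_lit 1) (nat_lit 417) (nat_lit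 305) (nat_lit 298)) (XT.nd (nat_lit 78) (nat_lit 0) (nat_lit 0) (XT.lf (nat_lit 836) (nat_lit 82692643) (nat_lit 0) (nat_lit 443655809) (nat_lit 760) (nat_lit 82692643) (nat_lit 307) (nat_lit 1) (nat_lit 296) (nat_lit 1) (nat_lit 306) (nat_lit 1) (nat_lit 418) (nat_lit 305) (nat_lit 297)) (XT.lf (nat_lit 836) (nat_lit 119562219) (nat_lit 76) (nat_lit 237870926) (nat_lit 0) (nat_lit 237870926) (nat_lit 307) (nat_lit 1) (nat_lit 297) (nat_lit 1) (nat_lit 296) (nat_lit 1) (nat_lit 419) (nat_lit 305) (nat_lit 296)))) (XT.nd (nat_lit 78) (nat_lit 1292) (nat_lit 0) (XT.lf (nat_lit 76) (nat_lit 36980582) (nat_lit 0) (nat_lit 508166691) (nat_lit 760) (nat_lit 36980582) (nat_lit 298) (nat_lit 1) (nat_lit 297) (nat_lit 1) (nat_lit 307) (nat_lit 1) (nat_lit 420) (nat_lit 305) (nat_lit 295)) (XT.nd (nat_lit 78) (nat_lit 532) (nat_lit 0) (XT.lf (nat_lit 836) (nat_lit 22335352) (nat_lit 0) (nat_lit 273426714)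 (nat_lit 760) (nat_lit 273426714) (nat_lit 298) (nat_lit 1) (nat_lit 287) (nat_lit 1) (nat_lit 297) (nat_lit 1) (nat_lit 421) (nat_lit 305) (nat_lit 294)) (XT.lf (nat_lit 532) (nat_lit 530046033) (nat_lit 0) (nat_lit 13379780) (nat_lit 456) (nat_lit 13379780) (nat_lit 287) (nat_lit 1) (nat_lit 280) (nat_lit 1) (nat_lit 286) (nat_lit 1) (nat_lit 422) (nat_lit 305) (nat_lit 293))))) (XT.nd (nat_lit 234) (nat_lit 684) (nat_lit 0) (XT.nd (nat_lit 78) (nat_lit 380) (nat_lit 0) (XT.lf (nat_lit 76) (nat_lit 231735203) (nat_lit 0) (nat_lit 81111294) (nat_lit 532) (nat_lit 231735203) (nat_lit 281) (nat_lit 1) (nat_lit 280) (nat_lit 1) (nat_lit 287) (nat_lit 1) (nat_lit 423) (nat_lit 305) (nat_lit 292)) (XT.nd (nat_lit 78) (nat_lit 0) (nat_lit 0) (XT.lf (nat_lit 456) (nat_lit 398756801) (nat_lit 0) (nat_lit 67060400) (nat_lit 380) (nat_lit 67060400) (nat_lit 281) (nat_lit 1) (nat_lit 275) (nat_lit 1) (nat_lit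 280) (nat_lit 1) (nat_lit 424) (nat_lit 305) (nat_lit 291)) (XT.lf (nat_lit 76) (nat_lit 165293899) (nat_lit 0) (nat_lit 190831755) (nat_lit 456) (nat_lit 165293899) (nat_lit 276) (nat_lit 1) (nat_lit 275) (nat_lit 1) (nat_lit 281) (nat_lit 1) (nat_lit 425) (nat_lit 305) (nat_lit 290)))) (XT.nd (nat_lit 156) (nat_lit 304) (nat_lit 0) (XT.nd (nat_lit 78) (nat_lit 0) (nat_lit 0) (XT.lf (nat_lit 456) (nat_lit 262587008) (nat_lit 0) (nat_lit 123886775) (nat_lit 380) (nat_lit 123886775) (nat_lit 276) (nat_lit 1) (nat_lit 270) (nat_lit 1) (nat_lit 275) (nat_lit 1) (nat_lit 426) (nat_lit 305) (nat_lit 289)) (XT.lf (nat_lit 76) (nat_lit 96759822) (nat_lit 0) (nat_lit 306103553) (nat_lit 456) (nat_lit 96759822) (nat_lit 271) (nat_lit 1) (nat_lit 270) (nat_lit 1) (nat_lit 276) (nat_lit 1) (nat_lit 427) (nat_lit 305) (nat_lit 288))) (XT.nd (nat_lit 78) (nat_lit 0) (nat_lit 0) (XT.lf (nat_lit 380) (nat_lit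 122804050) (nat_lit 0) (nat_lit 183178993) (nat_lit 304) (nat_lit 183178993) (nat_lit 271) (nat_lit 1) (nat_lit 266) (nat_lit 1) (nat_lit 270) (nat_lit 1) (nat_lit 428) (nat_lit 305) (nat_lit 287)) (XT.lf (nat_lit 76) (nat_lit 26721342) (nat_lit 0) (nat_lit 425660477) (nat_lit 380) (nat_lit 26721342) (nat_lit 267) (nat_lit 1) (nat_lit 266) (nat_lit 1) (nat_lit 271) (nat_lit 1) (nat_lit 429) (nat_lit 305) (nat_lit 286)))))) (XT.nd (nat_lit 468) (nat_lit 1140) (nat_lit 0) (XT.nd (nat_lit 234) (nat_lit 532) (nat_lit 0) (XT.nd (nat_lit 78) (nat_lit 304) (nat_lit 0) (XT.lf (nat_lit 76) (nat_lit 225161706) (nat_lit 0) (nat_lit 18857730) (nat_lit 380) (nat_lit 225161706) (nat_lit 262) (nat_lit 1) (nat_lit 261) (nat_lit 1) (nat_lit 266) (nat_lit 1) (nat_lit 430) (nat_lit 305) (nat_lit 285)) (XT.nd (nat_lit 78) (nat_lit 0) (nat_lit 0) (XT.lf (nat_lit 380) (nat_lit 372452970) (nat_lit 0) (nat_lit 43592004)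 (nat_lit 304) (nat_lit 43592004) (nat_lit 262) (nat_lit 1) (nat_lit 257) (nat_lit 1) (nat_lit 261) (nat_lit 1) (nat_lit 431) (nat_lit 305) (nat_lit 284)) (XT.lf (nat_lit 76) (nat_lit 146092429) (nat_lit 0) (nat_lit 158071689) (nat_lit 380) (nat_lit 146092429) (nat_lit 258) (nat_lit 1) (nat_lit 257) (nat_lit 1) (nat_lit 262) (nat_lit 1) (nat_lit 432) (nat_lit 305) (nat_lit 283)))) (XT.nd (nat_lit 78) (nat_lit 228) (nat_lit 0) (XT.lf (nat_lit 380) (nat_lit 213189494) (nat_lit 0) (nat_lit 114005951) (nat_lit 304) (nat_lit 114005951) (nat_lit 258) (nat_lit 1) (nat_lit 253) (nat_lit 1) (nat_lit 257) (nat_lit 1) (nat_lit 433) (nat_lit 305) (nat_lit 282)) (XT.nd (nat_lit 78) (nat_lit 228) (nat_lit 0) (XT.lf (nat_lit 76) (nat_lit 67230451) (nat_lit 0) (nat_lit 297950116) (nat_lit 380) (nat_lit 67230451) (nat_lit 254) (nat_lit 1) (nat_lit 253) (nat_lit 1) (nat_lit 258) (nat_lit 1) (nat_lit 434) (nat_lit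 305) (nat_lit 281)) (XT.lf (nat_lit 304) (nat_lit 54675647) (nat_lit 0) (nat_lit 184567372) (nat_lit 228) (nat_lit 184567372) (nat_lit 254) (nat_lit 1) (nat_lit 250) (nat_lit 1) (nat_lit 253) (nat_lit 1) (nat_lit 435) (nat_lit 305) (nat_lit 280))))) (XT.nd (nat_lit 234) (nat_lit 532) (nat_lit 0) (XT.nd (nat_lit 78) (nat_lit 228) (nat_lit 0) (XT.lf (nat_lit 380) (nat_lit 393693208) (nat_lit 0) (nat_lit 10924231) (nat_lit 304) (nat_lit 10924231) (nat_lit 250) (nat_lit 1) (nat_lit 245) (nat_lit 1) (nat_lit 249) (nat_lit 1) (nat_lit 436) (nat_lit 305) (nat_lit 279)) (XT.nd (nat_lit 78) (nat_lit 228) (nat_lit 0) (XT.lf (nat_lit 76) (nat_lit 154055063) (nat_lit 0) (nat_lit 99208590) (nat_lit 380) (nat_lit 154055063) (nat_lit 246) (nat_lit 1) (nat_lit 245) (nat_lit 1) (nat_lit 250) (nat_lit 1) (nat_lit 437) (nat_lit 305) (nat_lit 278)) (XT.lf (nat_lit 304) (nat_lit 225002289) (nat_lit 0) (nat_lit 87204421)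 (nat_lit 228) (nat_lit 87204421) (nat_lit 246) (nat_lit 1) (nat_lit 242) (nat_lit 1) (nat_lit 245) (nat_lit 1) (nat_lit 438) (nat_lit 305) (nat_lit 277)))) (XT.nd (nat_lit 156) (nat_lit 304) (nat_lit 0) (XT.nd (nat_lit 78) (nat_lit 228) (nat_lit 0) (XT.lf (nat_lit 76) (nat_lit 71081703) (nat_lit 0) (nat_lit 249541049) (nat_lit 304) (nat_lit 71081703) (nat_lit 243) (nat_lit 1) (nat_lit 242) (nat_lit 1) (nat_lit 246) (nat_lit 1) (nat_lit 439) (nat_lit 305) (nat_lit 276)) (XT.lf (nat_lit 304) (nat_lit 59244378) (nat_lit 0) (nat_lit 162464363) (nat_lit 228) (nat_lit 162464363) (nat_lit 243) (nat_lit 1) (nat_lit 239) (nat_lit 1) (nat_lit 242) (nat_lit 1) (nat_lit 440) (nat_lit 305) (nat_lit 275))) (XT.nd (nat_lit 78) (nat_lit 0) (nat_lit 0) (XT.lf (nat_lit 304) (nat_lit 356558035) (nat_lit 0) (nat_lit 10181758) (nat_lit 228) (nat_lit 10181758) (nat_lit 239) (nat_lit 1) (nat_lit 235) (nat_lit 1) (nat_lit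 238) (nat_lit 1) (nat_lit 441) (nat_lit 305) (nat_lit 274)) (XT.lf (nat_lit 76) (nat_lit 134875693) (nat_lit 0) (nat_lit 99941534) (nat_lit 304) (nat_lit 134875693) (nat_lit 236) (nat_lit 1) (nat_lit 235) (nat_lit 1) (nat_lit 239) (nat_lit 1) (nat_lit 442) (nat_lit 305) (nat_lit 273))))))))
noncomputable def ec6 : XT := (XT.nd (nat_lit 52182) (nat_lit 456) (nat_lit 0) (XT.nd (nat_lit 51168) (nat_lit 0) (nat_lit 1900) (XT.nd (nat_lit 50700) (nat_lit 0) (nat_lit 4712) (XT.nd (nat_lit 50466) (nat_lit 0) (nat_lit 4560) (XT.nd (nat_lit 78) (nat_lit 0) (nat_lit 0) (XT.lf (nat_lit 304) (nat_lit 185466428) (nat_lit 0) (nat_lit 88632661) (nat_lit 228) (nat_lit 88632661) (nat_lit 236) (nat_lit 1) (nat_lit 232) (nat_lit 1) (nat_lit 235) (nat_lit 1) (nat_lit 443) (nat_lit 305) (nat_lit 272)) (XT.nd (nat_lit 50310) (nat_lit 0) (nat_lit 4560) (XT.lf (nat_lit 76) (nat_lit 51077303) (nat_lit 0) (nat_lit 253802677)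 (nat_lit 304) (nat_lit 51077303) (nat_lit 233) (nat_lit 1) (nat_lit 232) (nat_lit 1) (nat_lit 236) (nat_lit 1) (nat_lit 444) (nat_lit 305) (nat_lit 271)) (XT.lf (nat_lit 836) (nat_lit 102285367) (nat_lit 0) (nat_lit 181607435) (nat_lit 836) (nat_lit 102285367) (nat_lit 303) (nat_lit 1) (nat_lit 292) (nat_lit 0) (nat_lit 303) (nat_lit 0) (nat_lit 408) (nat_lit 306) (nat_lit 306)))) (XT.nd (nat_lit 78) (nat_lit 0) (nat_lit 76) (XT.lf (nat_lit 836) (nat_lit 396470854) (nat_lit 76) (nat_lit 178678283) (nat_lit 0) (nat_lit 178678283) (nat_lit 303) (nat_lit 1) (nat_lit 293) (nat_lit 1) (nat_lit 292) (nat_lit 0) (nat_lit 409) (nat_lit 306) (nat_lit 305)) (XT.nd (nat_lit 78) (nat_lit 0) (nat_lit 0) (XT.lf (nat_lit 836) (nat_lit 188952039) (nat_lit 0) (nat_lit 357967249) (nat_lit 760) (nat_lit 188952039) (nat_lit 304) (nat_lit 1) (nat_lit 293) (nat_lit 1) (nat_lit 303) (nat_lit 1) (nat_lit 410) (nat_lit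 306) (nat_lit 304)) (XT.lf (nat_lit 836) (nat_lit 354447771) (nat_lit 76) (nat_lit 182023791) (nat_lit 0) (nat_lit 182023791) (nat_lit 304) (nat_lit 1) (nat_lit 294) (nat_lit 1) (nat_lit 293) (nat_lit 1) (nat_lit 411) (nat_lit 306) (nat_lit 303))))) (XT.nd (nat_lit 234) (nat_lit 0) (nat_lit 76) (XT.nd (nat_lit 78) (nat_lit 0) (nat_lit 0) (XT.lf (nat_lit 836) (nat_lit 163148905) (nat_lit 0) (nat_lit 375372297) (nat_lit 760) (nat_lit 163148905) (nat_lit 305) (nat_lit 1) (nat_lit 294) (nat_lit 1) (nat_lit 304) (nat_lit 1) (nat_lit 412) (nat_lit 306) (nat_lit 302)) (XT.nd (nat_lit 78) (nat_lit 0) (nat_lit 76) (XT.lf (nat_lit 836) (nat_lit 293433932) (nat_lit 76) (nat_lit 195961914) (nat_lit 0) (nat_lit 195961914) (nat_lit 305) (nat_lit 1) (nat_lit 295) (nat_lit 1) (nat_lit 294) (nat_lit 1) (nat_lit 413) (nat_lit 306) (nat_lit 301)) (XT.lf (nat_lit 836) (nat_lit 128662304) (nat_lit 0) (nat_lit 412268517)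 (nat_lit 760) (nat_lit 128662304) (nat_lit 306) (nat_lit 1) (nat_lit 295) (nat_lit 1) (nat_lit 305) (nat_lit 1) (nat_lit 414) (nat_lit 306) (nat_lit 300)))) (XT.nd (nat_lit 78) (nat_lit 0) (nat_lit 76) (XT.lf (nat_lit 836) (nat_lit 216285283) (nat_lit 76) (nat_lit 218988630) (nat_lit 0) (nat_lit 218988630) (nat_lit 306) (nat_lit 1) (nat_lit 296) (nat_lit 1) (nat_lit 295) (nat_lit 1) (nat_lit 415) (nat_lit 306) (nat_lit 299)) (XT.nd (nat_lit 78) (nat_lit 0) (nat_lit 0) (XT.lf (nat_lit 836) (nat_lit 86827276) (nat_lit 0) (nat_lit 465838599) (nat_lit 760) (nat_lit 86827276) (nat_lit 307) (nat_lit 1) (nat_lit 296) (nat_lit 1) (nat_lit 306) (nat_lit 1) (nat_lit 416) (nat_lit 306) (nat_lit 298)) (XT.lf (nat_lit 836) (nat_lit 125540330) (nat_lit 76) (nat_lit 249764472) (nat_lit 0) (nat_lit 249764472) (nat_lit 307) (nat_lit 1) (nat_lit 297) (nat_lit 1) (nat_lit 296) (nat_lit 1) (nat_lit 417) (nat_lit 306)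 (nat_lit 297)))))) (XT.nd (nat_lit 468) (nat_lit 1368) (nat_lit 0) (XT.nd (nat_lit 234) (nat_lit 380) (nat_lit 0) (XT.nd (nat_lit 78) (nat_lit 1292) (nat_lit 0) (XT.lf (nat_lit 76) (nat_lit 38829611) (nat_lit 0) (nat_lit 533575025) (nat_lit 760) (nat_lit 38829611) (nat_lit 298) (nat_lit 1) (nat_lit 297) (nat_lit 1) (nat_lit 307) (nat_lit 1) (nat_lit 418) (nat_lit 306) (nat_lit 296)) (XT.nd (nat_lit 78) (nat_lit 532) (nat_lit 0) (XT.lf (nat_lit 836) (nat_lit 23452119) (nat_lit 0) (nat_lit 287098050) (nat_lit 760) (nat_lit 287098050) (nat_lit 298) (nat_lit 1) (nat_lit 287) (nat_lit 1) (nat_lit 297) (nat_lit 1) (nat_lit 419) (nat_lit 306) (nat_lit 295)) (XT.lf (nat_lit 532) (nat_lit 556548335) (nat_lit 0) (nat_lit 14048769) (nat_lit 456) (nat_lit 14048769) (nat_lit 287) (nat_lit 1) (nat_lit 280) (nat_lit 1) (nat_lit 286) (nat_lit 1) (nat_lit 420) (nat_lit 306) (nat_lit 294)))) (XT.nd (nat_lit 78)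 (nat_lit 380) (nat_lit 0) (XT.lf (nat_lit 76) (nat_lit 243321963) (nat_lit 0) (nat_lit 85166859) (nat_lit 532) (nat_lit 243321963) (nat_lit 281) (nat_lit 1) (nat_lit 280) (nat_lit 1) (nat_lit 287) (nat_lit 1) (nat_lit 421) (nat_lit 306) (nat_lit 293)) (XT.nd (nat_lit 78) (nat_lit 0) (nat_lit 0) (XT.lf (nat_lit 456) (nat_lit 418694641) (nat_lit 0) (nat_lit 70413420) (nat_lit 380) (nat_lit 70413420) (nat_lit 281) (nat_lit 1) (nat_lit 275) (nat_lit 1) (nat_lit 280) (nat_lit 1) (nat_lit 422) (nat_lit 306) (nat_lit 292)) (XT.lf (nat_lit 76) (nat_lit 173558594) (nat_lit 0) (nat_lit 200373342) (nat_lit 456) (nat_lit 173558594) (nat_lit 276) (nat_lit 1) (nat_lit 275) (nat_lit 1) (nat_lit 281) (nat_lit 1) (nat_lit 423) (nat_lit 306) (nat_lit 291))))) (XT.nd (nat_lit 234) (nat_lit 684) (nat_lit 0) (XT.nd (nat_lit 78) (nat_lit 304) (nat_lit 0) (XT.lf (nat_lit 456) (nat_lit 275716359) (nat_lit 0) (nat_lit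 130081114) (nat_lit 380) (nat_lit 130081114) (nat_lit 276) (nat_lit 1) (nat_lit 270) (nat_lit 1) (nat_lit 275) (nat_lit 1) (nat_lit 424) (nat_lit 306) (nat_lit 290)) (XT.nd (nat_lit 78) (nat_lit 304) (nat_lit 0) (XT.lf (nat_lit 76) (nat_lit 101597814) (nat_lit 0) (nat_lit 321408730) (nat_lit 456) (nat_lit 101597814) (nat_lit 271) (nat_lit 1) (nat_lit 270) (nat_lit 1) (nat_lit 276) (nat_lit 1) (nat_lit 425) (nat_lit 306) (nat_lit 289)) (XT.lf (nat_lit 380) (nat_lit 128944253) (nat_lit 0) (nat_lit 192337943) (nat_lit 304) (nat_lit 192337943) (nat_lit 271) (nat_lit 1) (nat_lit 266) (nat_lit 1) (nat_lit 270) (nat_lit 1) (nat_lit 426) (nat_lit 306) (nat_lit 288)))) (XT.nd (nat_lit 156) (nat_lit 304) (nat_lit 0) (XT.nd (nat_lit 78) (nat_lit 380) (nat_lit 0) (XT.lf (nat_lit 76) (nat_lit 28057409) (nat_lit 0) (nat_lit 446943501) (nat_lit 380) (nat_lit 28057409) (nat_lit 267) (nat_lit 1) (nat_lit 266) (nat_lit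 1) (nat_lit 271) (nat_lit 1) (nat_lit 427) (nat_lit 306) (nat_lit 287)) (XT.lf (nat_lit 76) (nat_lit 236419791) (nat_lit 0) (nat_lit 19800616) (nat_lit 380) (nat_lit 236419791) (nat_lit 262) (nat_lit 1) (nat_lit 261) (nat_lit 1) (nat_lit 266) (nat_lit 1) (nat_lit 428) (nat_lit 306) (nat_lit 286))) (XT.nd (nat_lit 78) (nat_lit 0) (nat_lit 0) (XT.lf (nat_lit 380) (nat_lit 391075619) (nat_lit 0) (nat_lit 45771604) (nat_lit 304) (nat_lit 45771604) (nat_lit 262) (nat_lit 1) (nat_lit 257) (nat_lit 1) (nat_lit 261) (nat_lit 1) (nat_lit 429) (nat_lit 306) (nat_lit 285)) (XT.lf (nat_lit 76) (nat_lit 153397050) (nat_lit 0) (nat_lit 165975274) (nat_lit 380) (nat_lit 153397050) (nat_lit 258) (nat_lit 1) (nat_lit 257) (nat_lit 1) (nat_lit 262) (nat_lit 1) (nat_lit 430) (nat_lit 306) (nat_lit 284))))))) (XT.nd (nat_lit 936) (nat_lit 456) (nat_lit 0) (XT.nd (nat_lit 468) (nat_lit 760) (nat_lit 0) (XT.nd (nat_lit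 234) (nat_lit 608) (nat_lit 0) (XT.nd (nat_lit 78) (nat_lit 228) (nat_lit 0) (XT.lf (nat_lit 380) (nat_lit 223848968) (nat_lit 0) (nat_lit 119706249) (nat_lit 304) (nat_lit 119706249) (nat_lit 258) (nat_lit 1) (nat_lit 253) (nat_lit 1) (nat_lit 257) (nat_lit 1) (nat_lit 431) (nat_lit 306) (nat_lit 283)) (XT.nd (nat_lit 78) (nat_lit 228) (nat_lit 0) (XT.lf (nat_lit 76) (nat_lit 70591974) (nat_lit 0) (nat_lit 312847622) (nat_lit 380) (nat_lit 70591974) (nat_lit 254) (nat_lit 1) (nat_lit 253) (nat_lit 1) (nat_lit 258) (nat_lit 1) (nat_lit 432) (nat_lit 306) (nat_lit 282)) (XT.lf (nat_lit 304) (nat_lit 57409429) (nat_lit 0) (nat_lit 193795740) (nat_lit 228) (nat_lit 193795740) (nat_lit 254) (nat_lit 1) (nat_lit 250) (nat_lit 1) (nat_lit 253) (nat_lit 1) (nat_lit 433) (nat_lit 306) (nat_lit 281)))) (XT.nd (nat_lit 78) (nat_lit 228) (nat_lit 0) (XT.lf (nat_lit 380) (nat_lit 413377869) (nat_lit 0) (nat_lit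 11470442) (nat_lit 304) (nat_lit 11470442) (nat_lit 250) (nat_lit 1) (nat_lit 245) (nat_lit 1) (nat_lit 249) (nat_lit 1) (nat_lit 434) (nat_lit 306) (nat_lit 280)) (XT.nd (nat_lit 78) (nat_lit 228) (nat_lit 0) (XT.lf (nat_lit 76) (nat_lit 161757816) (nat_lit 0) (nat_lit 104169019) (nat_lit 380) (nat_lit 161757816) (nat_lit 246) (nat_lit 1) (nat_lit 245) (nat_lit 1) (nat_lit 250) (nat_lit 1) (nat_lit 435) (nat_lit 306) (nat_lit 279)) (XT.lf (nat_lit 304) (nat_lit 236252404) (nat_lit 0) (nat_lit 91564643) (nat_lit 228) (nat_lit 91564643) (nat_lit 246) (nat_lit 1) (nat_lit 242) (nat_lit 1) (nat_lit 245) (nat_lit 1) (nat_lit 436) (nat_lit 306) (nat_lit 278))))) (XT.nd (nat_lit 234) (nat_lit 228) (nat_lit 0) (XT.nd (nat_lit 78) (nat_lit 532) (nat_lit 0) (XT.lf (nat_lit 76) (nat_lit 74635789) (nat_lit 0) (nat_lit 262018101) (nat_lit 304) (nat_lit 74635789) (nat_lit 243) (nat_lit 1) (nat_lit 242) (nat_lit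 1) (nat_lit 246) (nat_lit 1) (nat_lit 437) (nat_lit 306) (nat_lit 277)) (XT.nd (nat_lit 78) (nat_lit 304) (nat_lit 0) (XT.lf (nat_lit 304) (nat_lit 62206597) (nat_lit 0) (nat_lit 170587581) (nat_lit 228) (nat_lit 170587581) (nat_lit 243) (nat_lit 1) (nat_lit 239) (nat_lit 1) (nat_lit 242) (nat_lit 1) (nat_lit 438) (nat_lit 306) (nat_lit 276)) (XT.lf (nat_lit 304) (nat_lit 374385937) (nat_lit 0) (nat_lit 10690846) (nat_lit 228) (nat_lit 10690846) (nat_lit 239) (nat_lit 1) (nat_lit 235) (nat_lit 1) (nat_lit 238) (nat_lit 1) (nat_lit 439) (nat_lit 306) (nat_lit 275)))) (XT.nd (nat_lit 78) (nat_lit 228) (nat_lit 0) (XT.lf (nat_lit 76) (nat_lit 141619478) (nat_lit 0) (nat_lit 104938611) (nat_lit 304) (nat_lit 141619478) (nat_lit 236) (nat_lit 1) (nat_lit 235) (nat_lit 1) (nat_lit 239) (nat_lit 1) (nat_lit 440) (nat_lit 306) (nat_lit 274)) (XT.nd (nat_lit 78) (nat_lit 0) (nat_lit 0) (XT.lf (nat_lit 304)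 (nat_lit 194739750) (nat_lit 0) (nat_lit 93064294) (nat_lit 228) (nat_lit 93064294) (nat_lit 236) (nat_lit 1) (nat_lit 232) (nat_lit 1) (nat_lit 235) (nat_lit 1) (nat_lit 441) (nat_lit 306) (nat_lit 273)) (XT.lf (nat_lit 76) (nat_lit 53631168) (nat_lit 0) (nat_lit 266492811) (nat_lit 304) (nat_lit 53631168) (nat_lit 233) (nat_lit 1) (nat_lit 232) (nat_lit 1) (nat_lit 236) (nat_lit 1) (nat_lit 442) (nat_lit 306) (nat_lit 272)))))) (XT.nd (nat_lit 50544) (nat_lit 0) (nat_lit 5168) (XT.nd (nat_lit 50310) (nat_lit 0) (nat_lit 5016) (XT.nd (nat_lit 78) (nat_lit 304) (nat_lit 0) (XT.lf (nat_lit 228) (nat_lit 19652243) (nat_lit 0) (nat_lit 173561878) (nat_lit 152) (nat_lit 173561878) (nat_lit 233) (nat_lit 1) (nat_lit 230) (nat_lit 1) (nat_lit 232) (nat_lit 1) (nat_lit 443) (nat_lit 306) (nat_lit 271)) (XT.nd (nat_lit 50154) (nat_lit 0) (nat_lit 5016) (XT.lf (nat_lit 304) (nat_lit 296938806) (nat_lit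 0) (nat_lit 31537053) (nat_lit 228) (nat_lit 31537053) (nat_lit 230) (nat_lit 1) (nat_lit 226) (nat_lit 1) (nat_lit 229) (nat_lit 1) (nat_lit 444) (nat_lit 306) (nat_lit 270)) (XT.lf (nat_lit 836) (nat_lit 107399636) (nat_lit 0) (nat_lit 190687806) (nat_lit 836) (nat_lit 107399636) (nat_lit 303) (nat_lit 1) (nat_lit 292) (nat_lit 0) (nat_lit 303) (nat_lit 0) (nat_lit 406) (nat_lit 307) (nat_lit 307)))) (XT.nd (nat_lit 78) (nat_lit 0) (nat_lit 76) (XT.lf (nat_lit 836) (nat_lit 416294397) (nat_lit 76) (nat_lit 187612197) (nat_lit 0) (nat_lit 187612197) (nat_lit 303) (nat_lit 1) (nat_lit 293) (nat_lit 1) (nat_lit 292) (nat_lit 0) (nat_lit 407) (nat_lit 307) (nat_lit 306)) (XT.nd (nat_lit 78) (nat_lit 0) (nat_lit 0) (XT.lf (nat_lit 836) (nat_lit 198399641) (nat_lit 0) (nat_lit 375865612) (nat_lit 760) (nat_lit 198399641) (nat_lit 304) (nat_lit 1) (nat_lit 293) (nat_lit 1) (nat_lit 303) (nat_lit 1)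 (nat_lit 408) (nat_lit 307) (nat_lit 305)) (XT.lf (nat_lit 836) (nat_lit 372170159) (nat_lit 76) (nat_lit 191124980) (nat_lit 0) (nat_lit 191124980) (nat_lit 304) (nat_lit 1) (nat_lit 294) (nat_lit 1) (nat_lit 293) (nat_lit 1) (nat_lit 409) (nat_lit 307) (nat_lit 304))))) (XT.nd (nat_lit 234) (nat_lit 0) (nat_lit 76) (XT.nd (nat_lit 78) (nat_lit 0) (nat_lit 0) (XT.lf (nat_lit 836) (nat_lit 171306350) (nat_lit 0) (nat_lit 394140912) (nat_lit 760) (nat_lit 171306350) (nat_lit 305) (nat_lit 1) (nat_lit 294) (nat_lit 1) (nat_lit 304) (nat_lit 1) (nat_lit 410) (nat_lit 307) (nat_lit 303)) (XT.nd (nat_lit 78) (nat_lit 0) (nat_lit 76) (XT.lf (nat_lit 836) (nat_lit 308105628) (nat_lit 76) (nat_lit 205760010) (nat_lit 0) (nat_lit 205760010) (nat_lit 305) (nat_lit 1) (nat_lit 295) (nat_lit 1) (nat_lit 294) (nat_lit 1) (nat_lit 411) (nat_lit 307) (nat_lit 302)) (XT.lf (nat_lit 836) (nat_lit 135095419) (nat_lit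 0) (nat_lit 432881943) (nat_lit 760) (nat_lit 135095419) (nat_lit 306) (nat_lit 1) (nat_lit 295) (nat_lit 1) (nat_lit 305) (nat_lit 1) (nat_lit 412) (nat_lit 307) (nat_lit 301)))) (XT.nd (nat_lit 156) (nat_lit 0) (nat_lit 76) (XT.nd (nat_lit 78) (nat_lit 0) (nat_lit 76) (XT.lf (nat_lit 836) (nat_lit 227099547) (nat_lit 76) (nat_lit 229938062) (nat_lit 0) (nat_lit 229938062) (nat_lit 306) (nat_lit 1) (nat_lit 296) (nat_lit 1) (nat_lit 295) (nat_lit 1) (nat_lit 413) (nat_lit 307) (nat_lit 300)) (XT.lf (nat_lit 836) (nat_lit 91168640) (nat_lit 0) (nat_lit 489130529) (nat_lit 760) (nat_lit 91168640) (nat_lit 307) (nat_lit 1) (nat_lit 296) (nat_lit 1) (nat_lit 306) (nat_lit 1) (nat_lit 414) (nat_lit 307) (nat_lit 299))) (XT.nd (nat_lit 78) (nat_lit 0) (nat_lit 76) (XT.lf (nat_lit 836) (nat_lit 131817346) (nat_lit 76) (nat_lit 262252696) (nat_lit 0) (nat_lit 262252696) (nat_lit 307) (nat_lit 1) (nat_lit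 297) (nat_lit 1) (nat_lit 296) (nat_lit 1) (nat_lit 415) (nat_lit 307) (nat_lit 298)) (XT.lf (nat_lit 76) (nat_lit 40771092) (nat_lit 0) (nat_lit 560253777) (nat_lit 760) (nat_lit 40771092) (nat_lit 298) (nat_lit 1) (nat_lit 297) (nat_lit 1) (nat_lit 307) (nat_lit 1) (nat_lit 416) (nat_lit 307) (nat_lit 297))))))))
noncomputable def ec7 : XT := (XT.nd (nat_lit 1950) (nat_lit 456) (nat_lit 0) (XT.nd (nat_lit 936) (nat_lit 2052) (nat_lit 0) (XT.nd (nat_lit 468) (nat_lit 988) (nat_lit 0) (XT.nd (nat_lit 234) (nat_lit 760) (nat_lit 0) (XT.nd (nat_lit 78) (nat_lit 532) (nat_lit 0) (XT.lf (nat_lit 836) (nat_lit 24624725) (nat_lit 0) (nat_lit 301452953) (nat_lit 760) (nat_lit 301452953) (nat_lit 298) (nat_lit 1) (nat_lit 287) (nat_lit 1) (nat_lit 297) (nat_lit 1) (nat_lit 417) (nat_lit 307) (nat_lit 296)) (XT.nd (nat_lit 78) (nat_lit 0) (nat_lit 0) (XT.lf (nat_lit 532) (nat_lit 584375752) (nat_lit 0)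 (nat_lit 14751207) (nat_lit 456) (nat_lit 14751207) (nat_lit 287) (nat_lit 1) (nat_lit 280) (nat_lit 1) (nat_lit 286) (nat_lit 1) (nat_lit 418) (nat_lit 307) (nat_lit 295)) (XT.lf (nat_lit 76) (nat_lit 255488061) (nat_lit 0) (nat_lit 89425202) (nat_lit 532) (nat_lit 255488061) (nat_lit 281) (nat_lit 1) (nat_lit 280) (nat_lit 1) (nat_lit 287) (nat_lit 1) (nat_lit 419) (nat_lit 307) (nat_lit 294)))) (XT.nd (nat_lit 78) (nat_lit 380) (nat_lit 0) (XT.lf (nat_lit 456) (nat_lit 439629373) (nat_lit 0) (nat_lit 73934091) (nat_lit 380) (nat_lit 73934091) (nat_lit 281) (nat_lit 1) (nat_lit 275) (nat_lit 1) (nat_lit 280) (nat_lit 1) (nat_lit 420) (nat_lit 307) (nat_lit 293)) (XT.nd (nat_lit 78) (nat_lit 380) (nat_lit 0) (XT.lf (nat_lit 76) (nat_lit 182236524) (nat_lit 0) (nat_lit 210392010) (nat_lit 456) (nat_lit 182236524) (nat_lit 276) (nat_lit 1) (nat_lit 275) (nat_lit 1) (nat_lit 281) (nat_lit 1) (nat_lit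 421) (nat_lit 307) (nat_lit 292)) (XT.lf (nat_lit 456) (nat_lit 289502176) (nat_lit 0) (nat_lit 136585170) (nat_lit 380) (nat_lit 136585170) (nat_lit 276) (nat_lit 1) (nat_lit 270) (nat_lit 1) (nat_lit 275) (nat_lit 1) (nat_lit 422) (nat_lit 307) (nat_lit 291))))) (XT.nd (nat_lit 234) (nat_lit 684) (nat_lit 0) (XT.nd (nat_lit 78) (nat_lit 304) (nat_lit 0) (XT.lf (nat_lit 76) (nat_lit 106677704) (nat_lit 0) (nat_lit 337479167) (nat_lit 456) (nat_lit 106677704) (nat_lit 271) (nat_lit 1) (nat_lit 270) (nat_lit 1) (nat_lit 276) (nat_lit 1) (nat_lit 423) (nat_lit 307) (nat_lit 290)) (XT.nd (nat_lit 78) (nat_lit 0) (nat_lit 0) (XT.lf (nat_lit 380) (nat_lit 135391466) (nat_lit 0) (nat_lit 201954840) (nat_lit 304) (nat_lit 201954840) (nat_lit 271) (nat_lit 1) (nat_lit 266) (nat_lit 1) (nat_lit 270) (nat_lit 1) (nat_lit 424) (nat_lit 307) (nat_lit 289)) (XT.lf (nat_lit 76) (nat_lit 29460279) (nat_lit 0)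 (nat_lit 469290676) (nat_lit 380) (nat_lit 29460279) (nat_lit 267) (nat_lit 1) (nat_lit 266) (nat_lit 1) (nat_lit 271) (nat_lit 1) (nat_lit 425) (nat_lit 307) (nat_lit 288)))) (XT.nd (nat_lit 78) (nat_lit 304) (nat_lit 0) (XT.lf (nat_lit 76) (nat_lit 248240781) (nat_lit 0) (nat_lit 20790647) (nat_lit 380) (nat_lit 248240781) (nat_lit 262) (nat_lit 1) (nat_lit 261) (nat_lit 1) (nat_lit 266) (nat_lit 1) (nat_lit 426) (nat_lit 307) (nat_lit 287)) (XT.nd (nat_lit 78) (nat_lit 0) (nat_lit 0) (XT.lf (nat_lit 380) (nat_lit 410629400) (nat_lit 0) (nat_lit 48060184) (nat_lit 304) (nat_lit 48060184) (nat_lit 262) (nat_lit 1) (nat_lit 257) (nat_lit 1) (nat_lit 261) (nat_lit 1) (nat_lit 427) (nat_lit 307) (nat_lit 286)) (XT.lf (nat_lit 76) (nat_lit 161066903) (nat_lit 0) (nat_lit 174274038) (nat_lit 380) (nat_lit 161066903) (nat_lit 258) (nat_lit 1) (nat_lit 257) (nat_lit 1) (nat_lit 262) (nat_lit 1) (nat_lit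 428) (nat_lit 307) (nat_lit 285)))))) (XT.nd (nat_lit 468) (nat_lit 912) (nat_lit 0) (XT.nd (nat_lit 234) (nat_lit 608) (nat_lit 0) (XT.nd (nat_lit 78) (nat_lit 228) (nat_lit 0) (XT.lf (nat_lit 380) (nat_lit 235041417) (nat_lit 0) (nat_lit 125691561) (nat_lit 304) (nat_lit 125691561) (nat_lit 258) (nat_lit 1) (nat_lit 253) (nat_lit 1) (nat_lit 257) (nat_lit 1) (nat_lit 429) (nat_lit 307) (nat_lit 284)) (XT.nd (nat_lit 78) (nat_lit 228) (nat_lit 0) (XT.lf (nat_lit 76) (nat_lit 74121573) (nat_lit 0) (nat_lit 328490003) (nat_lit 380) (nat_lit 74121573) (nat_lit 254) (nat_lit 1) (nat_lit 253) (nat_lit 1) (nat_lit 258) (nat_lit 1) (nat_lit 430) (nat_lit 307) (nat_lit 283)) (XT.lf (nat_lit 304) (nat_lit 60279900) (nat_lit 0) (nat_lit 203485528) (nat_lit 228) (nat_lit 203485528) (nat_lit 254) (nat_lit 1) (nat_lit 250) (nat_lit 1) (nat_lit 253) (nat_lit 1) (nat_lit 431) (nat_lit 307) (nat_lit 282)))) (XT.nd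 (nat_lit 78) (nat_lit 228) (nat_lit 0) (XT.lf (nat_lit 380) (nat_lit 434046762) (nat_lit 0) (nat_lit 12043964) (nat_lit 304) (nat_lit 12043964) (nat_lit 250) (nat_lit 1) (nat_lit 245) (nat_lit 1) (nat_lit 249) (nat_lit 1) (nat_lit 432) (nat_lit 307) (nat_lit 281)) (XT.nd (nat_lit 78) (nat_lit 228) (nat_lit 0) (XT.lf (nat_lit 76) (nat_lit 169845707) (nat_lit 0) (nat_lit 109377470) (nat_lit 380) (nat_lit 169845707) (nat_lit 246) (nat_lit 1) (nat_lit 245) (nat_lit 1) (nat_lit 250) (nat_lit 1) (nat_lit 433) (nat_lit 307) (nat_lit 280)) (XT.lf (nat_lit 304) (nat_lit 248065024) (nat_lit 0) (nat_lit 96142875) (nat_lit 228) (nat_lit 96142875) (nat_lit 246) (nat_lit 1) (nat_lit 242) (nat_lit 1) (nat_lit 245) (nat_lit 1) (nat_lit 434) (nat_lit 307) (nat_lit 279))))) (XT.nd (nat_lit 234) (nat_lit 380) (nat_lit 0) (XT.nd (nat_lit 78) (nat_lit 532) (nat_lit 0) (XT.lf (nat_lit 76) (nat_lit 78367578) (nat_lit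 0) (nat_lit 275119007) (nat_lit 304) (nat_lit 78367578) (nat_lit 243) (nat_lit 1) (nat_lit 242) (nat_lit 1) (nat_lit 246) (nat_lit 1) (nat_lit 435) (nat_lit 307) (nat_lit 278)) (XT.nd (nat_lit 78) (nat_lit 304) (nat_lit 0) (XT.lf (nat_lit 304) (nat_lit 65316927) (nat_lit 0) (nat_lit 179116960) (nat_lit 228) (nat_lit 179116960) (nat_lit 243) (nat_lit 1) (nat_lit 239) (nat_lit 1) (nat_lit 242) (nat_lit 1) (nat_lit 436) (nat_lit 307) (nat_lit 277)) (XT.lf (nat_lit 304) (nat_lit 393105234) (nat_lit 0) (nat_lit 11225388) (nat_lit 228) (nat_lit 11225388) (nat_lit 239) (nat_lit 1) (nat_lit 235) (nat_lit 1) (nat_lit 238) (nat_lit 1) (nat_lit 437) (nat_lit 307) (nat_lit 276)))) (XT.nd (nat_lit 156) (nat_lit 152) (nat_lit 0) (XT.nd (nat_lit 78) (nat_lit 228) (nat_lit 0) (XT.lf (nat_lit 76) (nat_lit 148700452) (nat_lit 0) (nat_lit 110185542) (nat_lit 304) (nat_lit 148700452) (nat_lit 236) (nat_lit 1) (nat_lit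 235) (nat_lit 1) (nat_lit 239) (nat_lit 1) (nat_lit 438) (nat_lit 307) (nat_lit 275)) (XT.lf (nat_lit 304) (nat_lit 204476737) (nat_lit 0) (nat_lit 97717509) (nat_lit 228) (nat_lit 97717509) (nat_lit 236) (nat_lit 1) (nat_lit 232) (nat_lit 1) (nat_lit 235) (nat_lit 1) (nat_lit 439) (nat_lit 307) (nat_lit 274))) (XT.nd (nat_lit 78) (nat_lit 152) (nat_lit 0) (XT.lf (nat_lit 76) (nat_lit 56312726) (nat_lit 0) (nat_lit 279817452) (nat_lit 304) (nat_lit 56312726) (nat_lit 233) (nat_lit 1) (nat_lit 232) (nat_lit 1) (nat_lit 236) (nat_lit 1) (nat_lit 440) (nat_lit 307) (nat_lit 273)) (XT.lf (nat_lit 228) (nat_lit 20634855) (nat_lit 0) (nat_lit 182239972) (nat_lit 152) (nat_lit 182239972) (nat_lit 233) (nat_lit 1) (nat_lit 230) (nat_lit 1) (nat_lit 232) (nat_lit 1) (nat_lit 441) (nat_lit 307) (nat_lit 272))))))) (XT.nd (nat_lit 50934) (nat_lit 0) (nat_lit 2508) (XT.nd (nat_lit 50388) (nat_lit 0) (nat_lit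 5244) (XT.nd (nat_lit 50154) (nat_lit 0) (nat_lit 5168) (XT.nd (nat_lit 78) (nat_lit 152) (nat_lit 0) (XT.lf (nat_lit 304) (nat_lit 311785747) (nat_lit 0) (nat_lit 33113906) (nat_lit 228) (nat_lit 33113906) (nat_lit 230) (nat_lit 1) (nat_lit 226) (nat_lit 1) (nat_lit 229) (nat_lit 1) (nat_lit 442) (nat_lit 307) (nat_lit 271)) (XT.nd (nat_lit 78) (nat_lit 152) (nat_lit 0) (XT.lf (nat_lit 76) (nat_lit 108899360) (nat_lit 0) (nat_lit 153193017) (nat_lit 304) (nat_lit 108899360) (nat_lit 227) (nat_lit 1) (nat_lit 226) (nat_lit 1) (nat_lit 230) (nat_lit 1) (nat_lit 443) (nat_lit 307) (nat_lit 270)) (XT.lf (nat_lit 228) (nat_lit 125816412) (nat_lit 0) (nat_lit 119185109) (nat_lit 152) (nat_lit 119185109) (nat_lit 227) (nat_lit 1) (nat_lit 224) (nat_lit 1) (nat_lit 226) (nat_lit 1) (nat_lit 444) (nat_lit 307) (nat_lit 269)))) (XT.nd (nat_lit 78) (nat_lit 0) (nat_lit 0) (XT.lf (nat_lit 836) (nat_lit 112769617)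 (nat_lit 0) (nat_lit 200222197) (nat_lit 836) (nat_lit 112769617) (nat_lit 303) (nat_lit 1) (nat_lit 292) (nat_lit 0) (nat_lit 303) (nat_lit 0) (nat_lit 404) (nat_lit 308) (nat_lit 308)) (XT.nd (nat_lit 78) (nat_lit 0) (nat_lit 76) (XT.lf (nat_lit 836) (nat_lit 437109117) (nat_lit 76) (nat_lit 196992807) (nat_lit 0) (nat_lit 196992807) (nat_lit 303) (nat_lit 1) (nat_lit 293) (nat_lit 1) (nat_lit 292) (nat_lit 0) (nat_lit 405) (nat_lit 308) (nat_lit 307)) (XT.lf (nat_lit 836) (nat_lit 208319623) (nat_lit 0) (nat_lit 394658892) (nat_lit 760) (nat_lit 208319623) (nat_lit 304) (nat_lit 1) (nat_lit 293) (nat_lit 1) (nat_lit 303) (nat_lit 1) (nat_lit 406) (nat_lit 308) (nat_lit 306))))) (XT.nd (nat_lit 234) (nat_lit 0) (nat_lit 152) (XT.nd (nat_lit 78) (nat_lit 0) (nat_lit 76) (XT.lf (nat_lit 836) (nat_lit 390778667) (nat_lit 76) (nat_lit 200681229) (nat_lit 0) (nat_lit 200681229) (nat_lit 304) (nat_lit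 1) (nat_lit 294) (nat_lit 1) (nat_lit 293) (nat_lit 1) (nat_lit 407) (nat_lit 308) (nat_lit 305)) (XT.nd (nat_lit 78) (nat_lit 0) (nat_lit 0) (XT.lf (nat_lit 836) (nat_lit 179871668) (nat_lit 0) (nat_lit 413847958) (nat_lit 760) (nat_lit 179871668) (nat_lit 305) (nat_lit 1) (nat_lit 294) (nat_lit 1) (nat_lit 304) (nat_lit 1) (nat_lit 408) (nat_lit 308) (nat_lit 304)) (XT.lf (nat_lit 836) (nat_lit 323510910) (nat_lit 76) (nat_lit 216048010) (nat_lit 0) (nat_lit 216048010) (nat_lit 305) (nat_lit 1) (nat_lit 295) (nat_lit 1) (nat_lit 294) (nat_lit 1) (nat_lit 409) (nat_lit 308) (nat_lit 303)))) (XT.nd (nat_lit 156) (nat_lit 0) (nat_lit 76) (XT.nd (nat_lit 78) (nat_lit 0) (nat_lit 0) (XT.lf (nat_lit 836) (nat_lit 141850190) (nat_lit 0) (nat_lit 454526041) (nat_lit 760) (nat_lit 141850190) (nat_lit 306) (nat_lit 1) (nat_lit 295) (nat_lit 1) (nat_lit 305) (nat_lit 1) (nat_lit 410) (nat_lit 308) (nat_lit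 302)) (XT.lf (nat_lit 836) (nat_lit 238454525) (nat_lit 76) (nat_lit 241434965) (nat_lit 0) (nat_lit 241434965) (nat_lit 306) (nat_lit 1) (nat_lit 296) (nat_lit 1) (nat_lit 295) (nat_lit 1) (nat_lit 411) (nat_lit 308) (nat_lit 301))) (XT.nd (nat_lit 78) (nat_lit 0) (nat_lit 0) (XT.lf (nat_lit 836) (nat_lit 95727072) (nat_lit 0) (nat_lit 513587055) (nat_lit 760) (nat_lit 95727072) (nat_lit 307) (nat_lit 1) (nat_lit 296) (nat_lit 1) (nat_lit 306) (nat_lit 1) (nat_lit 412) (nat_lit 308) (nat_lit 300)) (XT.lf (nat_lit 836) (nat_lit 138408213) (nat_lit 76) (nat_lit 275365331) (nat_lit 0) (nat_lit 275365331) (nat_lit 307) (nat_lit 1) (nat_lit 297) (nat_lit 1) (nat_lit 296) (nat_lit 1) (nat_lit 413) (nat_lit 308) (nat_lit 299)))))) (XT.nd (nat_lit 468) (nat_lit 1368) (nat_lit 0) (XT.nd (nat_lit 234) (nat_lit 380) (nat_lit 0) (XT.nd (nat_lit 78) (nat_lit 1292) (nat_lit 0) (XT.lf (nat_lit 76) (nat_lit 42809646)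 (nat_lit 0) (nat_lit 588266465) (nat_lit 760) (nat_lit 42809646) (nat_lit 298) (nat_lit 1) (nat_lit 297) (nat_lit 1) (nat_lit 307) (nat_lit 1) (nat_lit 414) (nat_lit 308) (nat_lit 298)) (XT.nd (nat_lit 78) (nat_lit 532) (nat_lit 0) (XT.lf (nat_lit 836) (nat_lit 25855961) (nat_lit 0) (nat_lit 316525600) (nat_lit 760) (nat_lit 316525600) (nat_lit 298) (nat_lit 1) (nat_lit 287) (nat_lit 1) (nat_lit 297) (nat_lit 1) (nat_lit 415) (nat_lit 308) (nat_lit 297)) (XT.lf (nat_lit 532) (nat_lit 613594539) (nat_lit 0) (nat_lit 15488768) (nat_lit 456) (nat_lit 15488768) (nat_lit 287) (nat_lit 1) (nat_lit 280) (nat_lit 1) (nat_lit 286) (nat_lit 1) (nat_lit 416) (nat_lit 308) (nat_lit 296)))) (XT.nd (nat_lit 78) (nat_lit 380) (nat_lit 0) (XT.lf (nat_lit 76) (nat_lit 268262464) (nat_lit 0) (nat_lit 93896462) (nat_lit 532) (nat_lit 268262464) (nat_lit 281) (nat_lit 1) (nat_lit 280) (nat_lit 1) (nat_lit 287) (nat_lit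 1) (nat_lit 417) (nat_lit 308) (nat_lit 295)) (XT.nd (nat_lit 78) (nat_lit 0) (nat_lit 0) (XT.lf (nat_lit 456) (nat_lit 461610842) (nat_lit 0) (nat_lit 77630795) (nat_lit 380) (nat_lit 77630795) (nat_lit 281) (nat_lit 1) (nat_lit 275) (nat_lit 1) (nat_lit 280) (nat_lit 1) (nat_lit 418) (nat_lit 308) (nat_lit 294)) (XT.lf (nat_lit 76) (nat_lit 191348350) (nat_lit 0) (nat_lit 220911610) (nat_lit 456) (nat_lit 191348350) (nat_lit 276) (nat_lit 1) (nat_lit 275) (nat_lit 1) (nat_lit 281) (nat_lit 1) (nat_lit 419) (nat_lit 308) (nat_lit 293))))) (XT.nd (nat_lit 234) (nat_lit 684) (nat_lit 0) (XT.nd (nat_lit 78) (nat_lit 304) (nat_lit 0) (XT.lf (nat_lit 456) (nat_lit 303977285) (nat_lit 0) (nat_lit 143414428) (nat_lit 380) (nat_lit 143414428) (nat_lit 276) (nat_lit 1) (nat_lit 270) (nat_lit 1) (nat_lit 275) (nat_lit 1) (nat_lit 420) (nat_lit 308) (nat_lit 292)) (XT.nd (nat_lit 78) (nat_lit 304) (nat_lit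 0) (XT.lf (nat_lit 76) (nat_lit 112011589) (nat_lit 0) (nat_lit 354353125) (nat_lit 456) (nat_lit 112011589) (nat_lit 271) (nat_lit 1) (nat_lit 270) (nat_lit 1) (nat_lit 276) (nat_lit 1) (nat_lit 421) (nat_lit 308) (nat_lit 291)) (XT.lf (nat_lit 380) (nat_lit 142161039) (nat_lit 0) (nat_lit 212052582) (nat_lit 304) (nat_lit 212052582) (nat_lit 271) (nat_lit 1) (nat_lit 266) (nat_lit 1) (nat_lit 270) (nat_lit 1) (nat_lit 422) (nat_lit 308) (nat_lit 290)))) (XT.nd (nat_lit 156) (nat_lit 304) (nat_lit 0) (XT.nd (nat_lit 78) (nat_lit 380) (nat_lit 0) (XT.lf (nat_lit 76) (nat_lit 30933293) (nat_lit 0) (nat_lit 492755210) (nat_lit 380) (nat_lit 30933293) (nat_lit 267) (nat_lit 1) (nat_lit 266) (nat_lit 1) (nat_lit 271) (nat_lit 1) (nat_lit 423) (nat_lit 308) (nat_lit 289)) (XT.lf (nat_lit 76) (nat_lit 260652820) (nat_lit 0) (nat_lit 21830180) (nat_lit 380) (nat_lit 260652820) (nat_lit 262) (nat_lit 1)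 (nat_lit 261) (nat_lit 1) (nat_lit 266) (nat_lit 1) (nat_lit 424) (nat_lit 308) (nat_lit 288))) (XT.nd (nat_lit 78) (nat_lit 0) (nat_lit 0) (XT.lf (nat_lit 380) (nat_lit 431160870) (nat_lit 0) (nat_lit 50463194) (nat_lit 304) (nat_lit 50463194) (nat_lit 262) (nat_lit 1) (nat_lit 257) (nat_lit 1) (nat_lit 261) (nat_lit 1) (nat_lit 425) (nat_lit 308) (nat_lit 287)) (XT.lf (nat_lit 76) (nat_lit 169120248) (nat_lit 0) (nat_lit 182987740) (nat_lit 380) (nat_lit 169120248) (nat_lit 258) (nat_lit 1) (nat_lit 257) (nat_lit 1) (nat_lit 262) (nat_lit 1) (nat_lit 426) (nat_lit 308) (nat_lit 286))))))))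
noncomputable def ec8 : XT := (XT.nd (nat_lit 51714) (nat_lit 0) (nat_lit 1064) (XT.nd (nat_lit 936) (nat_lit 836) (nat_lit 0) (XT.nd (nat_lit 468) (nat_lit 760) (nat_lit 0) (XT.nd (nat_lit 234) (nat_lit 608) (nat_lit 0) (XT.nd (nat_lit 78) (nat_lit 228) (nat_lit 0) (XT.lf (nat_lit 380) (nat_lit 246793488) (nat_lit 0) (nat_lit 131976139) (nat_lit 304) (nat_lit 131976139) (nat_lit 258) (nat_lit 1) (nat_lit 253) (nat_lit 1) (nat_lit 257) (nat_lit 1) (nat_lit 427) (nat_lit 308) (nat_lit 285)) (XT.nd (nat_lit 78) (nat_lit 228) (nat_lit 0) (XT.lf (nat_lit 76) (nat_lit 77827651) (nat_lit 0) (nat_lit 344914503) (nat_lit 380) (nat_lit 77827651) (nat_lit 254) (nat_lit 1) (nat_lit 253) (nat_lit 1) (nat_lit 258) (nat_lit 1) (nat_lit 428) (nat_lit 308) (nat_lit 284)) (XT.lf (nat_lit 304) (nat_lit 63293896) (nat_lit 0) (nat_lit 213659804) (nat_lit 228) (nat_lit 213659804) (nat_lit 254) (nat_lit 1) (nat_lit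 250) (nat_lit 1) (nat_lit 253) (nat_lit 1) (nat_lit 429) (nat_lit 308) (nat_lit 283)))) (XT.nd (nat_lit 78) (nat_lit 228) (nat_lit 0) (XT.lf (nat_lit 380) (nat_lit 455749100) (nat_lit 0) (nat_lit 12646163) (nat_lit 304) (nat_lit 12646163) (nat_lit 250) (nat_lit 1) (nat_lit 245) (nat_lit 1) (nat_lit 249) (nat_lit 1) (nat_lit 430) (nat_lit 308) (nat_lit 282)) (XT.nd (nat_lit 78) (nat_lit 228) (nat_lit 0) (XT.lf (nat_lit 76) (nat_lit 178337992) (nat_lit 0) (nat_lit 114846344) (nat_lit 380) (nat_lit 178337992) (nat_lit 246) (nat_lit 1) (nat_lit 245) (nat_lit 1) (nat_lit 250) (nat_lit 1) (nat_lit 431) (nat_lit 308) (nat_lit 281)) (XT.lf (nat_lit 304) (nat_lit 260468275) (nat_lit 0) (nat_lit 100950018) (nat_lit 228) (nat_lit 100950018) (nat_lit 246) (nat_lit 1) (nat_lit 242) (nat_lit 1) (nat_lit 245) (nat_lit 1) (nat_lit 432) (nat_lit 308) (nat_lit 280))))) (XT.nd (nat_lit 234) (nat_lit 228) (nat_lit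 0) (XT.nd (nat_lit 78) (nat_lit 532) (nat_lit 0) (XT.lf (nat_lit 76) (nat_lit 82285957) (nat_lit 0) (nat_lit 288874957) (nat_lit 304) (nat_lit 82285957) (nat_lit 243) (nat_lit 1) (nat_lit 242) (nat_lit 1) (nat_lit 246) (nat_lit 1) (nat_lit 433) (nat_lit 308) (nat_lit 279)) (XT.nd (nat_lit 78) (nat_lit 304) (nat_lit 0) (XT.lf (nat_lit 304) (nat_lit 68582773) (nat_lit 0) (nat_lit 188072808) (nat_lit 228) (nat_lit 188072808) (nat_lit 243) (nat_lit 1) (nat_lit 239) (nat_lit 1) (nat_lit 242) (nat_lit 1) (nat_lit 434) (nat_lit 308) (nat_lit 278)) (XT.lf (nat_lit 304) (nat_lit 412760496) (nat_lit 0) (nat_lit 11786658) (nat_lit 228) (nat_lit 11786658) (nat_lit 239) (nat_lit 1) (nat_lit 235) (nat_lit 1) (nat_lit 238) (nat_lit 1) (nat_lit 435) (nat_lit 308) (nat_lit 277)))) (XT.nd (nat_lit 78) (nat_lit 228) (nat_lit 0) (XT.lf (nat_lit 76) (nat_lit 156135474) (nat_lit 0) (nat_lit 115694819) (nat_lit 304)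 (nat_lit 156135474) (nat_lit 236) (nat_lit 1) (nat_lit 235) (nat_lit 1) (nat_lit 239) (nat_lit 1) (nat_lit 436) (nat_lit 308) (nat_lit 276)) (XT.nd (nat_lit 78) (nat_lit 0) (nat_lit 0) (XT.lf (nat_lit 304) (nat_lit 214700574) (nat_lit 0) (nat_lit 102603385) (nat_lit 228) (nat_lit 102603385) (nat_lit 236) (nat_lit 1) (nat_lit 232) (nat_lit 1) (nat_lit 235) (nat_lit 1) (nat_lit 437) (nat_lit 308) (nat_lit 275)) (XT.lf (nat_lit 76) (nat_lit 59128363) (nat_lit 0) (nat_lit 293808324) (nat_lit 304) (nat_lit 59128363) (nat_lit 233) (nat_lit 1) (nat_lit 232) (nat_lit 1) (nat_lit 236) (nat_lit 1) (nat_lit 438) (nat_lit 308) (nat_lit 274)))))) (XT.nd (nat_lit 50232) (nat_lit 0) (nat_lit 5396) (XT.nd (nat_lit 234) (nat_lit 380) (nat_lit 0) (XT.nd (nat_lit 78) (nat_lit 304) (nat_lit 0) (XT.lf (nat_lit 228) (nat_lit 21666598) (nat_lit 0) (nat_lit 191351971) (nat_lit 152) (nat_lit 191351971) (nat_lit 233) (nat_lit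 1) (nat_lit 230) (nat_lit 1) (nat_lit 232) (nat_lit 1) (nat_lit 439) (nat_lit 308) (nat_lit 273)) (XT.nd (nat_lit 78) (nat_lit 0) (nat_lit 0) (XT.lf (nat_lit 304) (nat_lit 327375034) (nat_lit 0) (nat_lit 34769601) (nat_lit 228) (nat_lit 34769601) (nat_lit 230) (nat_lit 1) (nat_lit 226) (nat_lit 1) (nat_lit 229) (nat_lit 1) (nat_lit 440) (nat_lit 308) (nat_lit 272)) (XT.lf (nat_lit 76) (nat_lit 114344328) (nat_lit 0) (nat_lit 160852668) (nat_lit 304) (nat_lit 114344328) (nat_lit 227) (nat_lit 1) (nat_lit 226) (nat_lit 1) (nat_lit 230) (nat_lit 1) (nat_lit 441) (nat_lit 308) (nat_lit 271)))) (XT.nd (nat_lit 78) (nat_lit 228) (nat_lit 0) (XT.lf (nat_lit 228) (nat_lit 132107233) (nat_lit 0) (nat_lit 125144364) (nat_lit 152) (nat_lit 125144364) (nat_lit 227) (nat_lit 1) (nat_lit 224) (nat_lit 1) (nat_lit 226) (nat_lit 1) (nat_lit 442) (nat_lit 308) (nat_lit 270)) (XT.nd (nat_lit 78) (nat_lit 228) (nat_lit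 0) (XT.lf (nat_lit 76) (nat_lit 18979616) (nat_lit 0) (nat_lit 337528493) (nat_lit 228) (nat_lit 18979616) (nat_lit 225) (nat_lit 1) (nat_lit 224) (nat_lit 1) (nat_lit 227) (nat_lit 1) (nat_lit 443) (nat_lit 308) (nat_lit 269)) (XT.lf (nat_lit 76) (nat_lit 156642102) (nat_lit 0) (nat_lit 55320395) (nat_lit 228) (nat_lit 156642102) (nat_lit 222) (nat_lit 1) (nat_lit 221) (nat_lit 1) (nat_lit 224) (nat_lit 1) (nat_lit 444) (nat_lit 308) (nat_lit 268))))) (XT.nd (nat_lit 234) (nat_lit 0) (nat_lit 76) (XT.nd (nat_lit 78) (nat_lit 0) (nat_lit 0) (XT.lf (nat_lit 836) (nat_lit 118408098) (nat_lit 0) (nat_lit 210233307) (nat_lit 836) (nat_lit 118408098) (nat_lit 303) (nat_lit 1) (nat_lit 292) (nat_lit 0) (nat_lit 303) (nat_lit 0) (nat_lit 402) (nat_lit 309) (nat_lit 309)) (XT.nd (nat_lit 78) (nat_lit 0) (nat_lit 76) (XT.lf (nat_lit 836) (nat_lit 458964573) (nat_lit 76) (nat_lit 206842447) (nat_lit 0) (nat_lit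 206842447) (nat_lit 303) (nat_lit 1) (nat_lit 293) (nat_lit 1) (nat_lit 292) (nat_lit 0) (nat_lit 403) (nat_lit 309) (nat_lit 308)) (XT.lf (nat_lit 836) (nat_lit 218735605) (nat_lit 0) (nat_lit 414391837) (nat_lit 760) (nat_lit 218735605) (nat_lit 304) (nat_lit 1) (nat_lit 293) (nat_lit 1) (nat_lit 303) (nat_lit 1) (nat_lit 404) (nat_lit 309) (nat_lit 307)))) (XT.nd (nat_lit 156) (nat_lit 0) (nat_lit 76) (XT.nd (nat_lit 78) (nat_lit 0) (nat_lit 76) (XT.lf (nat_lit 836) (nat_lit 410317601) (nat_lit 76) (nat_lit 210715291) (nat_lit 0) (nat_lit 210715291) (nat_lit 304) (nat_lit 1) (nat_lit 294) (nat_lit 1) (nat_lit 293) (nat_lit 1) (nat_lit 405) (nat_lit 309) (nat_lit 306)) (XT.lf (nat_lit 836) (nat_lit 188865251) (nat_lit 0) (nat_lit 434540356) (nat_lit 760) (nat_lit 188865251) (nat_lit 305) (nat_lit 1) (nat_lit 294) (nat_lit 1) (nat_lit 304) (nat_lit 1) (nat_lit 406) (nat_lit 309) (nat_lit 305)))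 (XT.nd (nat_lit 78) (nat_lit 0) (nat_lit 76) (XT.lf (nat_lit 836) (nat_lit 339686455) (nat_lit 76) (nat_lit 226850411) (nat_lit 0) (nat_lit 226850411) (nat_lit 305) (nat_lit 1) (nat_lit 295) (nat_lit 1) (nat_lit 294) (nat_lit 1) (nat_lit 407) (nat_lit 309) (nat_lit 304)) (XT.lf (nat_lit 836) (nat_lit 148942699) (nat_lit 0) (nat_lit 477252343) (nat_lit 760) (nat_lit 148942699) (nat_lit 306) (nat_lit 1) (nat_lit 295) (nat_lit 1) (nat_lit 305) (nat_lit 1) (nat_lit 408) (nat_lit 309) (nat_lit 303))))))) (XT.nd (nat_lit 936) (nat_lit 2356) (nat_lit 0) (XT.nd (nat_lit 468) (nat_lit 1064) (nat_lit 0) (XT.nd (nat_lit 234) (nat_lit 1140) (nat_lit 0) (XT.nd (nat_lit 78) (nat_lit 0) (nat_lit 76) (XT.lf (nat_lit 836) (nat_lit 250377251) (nat_lit 76) (nat_lit 253506713) (nat_lit 0) (nat_lit 253506713) (nat_lit 306) (nat_lit 1) (nat_lit 296) (nat_lit 1) (nat_lit 295) (nat_lit 1) (nat_lit 409) (nat_lit 309) (nat_lit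 302)) (XT.nd (nat_lit 78) (nat_lit 0) (nat_lit 0) (XT.lf (nat_lit 836) (nat_lit 100513425) (nat_lit 0) (nat_lit 539266408) (nat_lit 760) (nat_lit 100513425) (nat_lit 307) (nat_lit 1) (nat_lit 296) (nat_lit 1) (nat_lit 306) (nat_lit 1) (nat_lit 410) (nat_lit 309) (nat_lit 301)) (XT.lf (nat_lit 836) (nat_lit 145328624) (nat_lit 76) (nat_lit 289133597) (nat_lit 0) (nat_lit 289133597) (nat_lit 307) (nat_lit 1) (nat_lit 297) (nat_lit 1) (nat_lit 296) (nat_lit 1) (nat_lit 411) (nat_lit 309) (nat_lit 300)))) (XT.nd (nat_lit 78) (nat_lit 1292) (nat_lit 0) (XT.lf (nat_lit 76) (nat_lit 44950128) (nat_lit 0) (nat_lit 617679789) (nat_lit 760) (nat_lit 44950128) (nat_lit 298) (nat_lit 1) (nat_lit 297) (nat_lit 1) (nat_lit 307) (nat_lit 1) (nat_lit 412) (nat_lit 309) (nat_lit 299)) (XT.nd (nat_lit 78) (nat_lit 532) (nat_lit 0) (XT.lf (nat_lit 836) (nat_lit 27148760) (nat_lit 0) (nat_lit 332351880) (nat_lit 760)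 (nat_lit 332351880) (nat_lit 298) (nat_lit 1) (nat_lit 287) (nat_lit 1) (nat_lit 297) (nat_lit 1) (nat_lit 413) (nat_lit 309) (nat_lit 298)) (XT.lf (nat_lit 532) (nat_lit 644274266) (nat_lit 0) (nat_lit 16263206) (nat_lit 456) (nat_lit 16263206) (nat_lit 287) (nat_lit 1) (nat_lit 280) (nat_lit 1) (nat_lit 286) (nat_lit 1) (nat_lit 414) (nat_lit 309) (nat_lit 297))))) (XT.nd (nat_lit 234) (nat_lit 684) (nat_lit 0) (XT.nd (nat_lit 78) (nat_lit 380) (nat_lit 0) (XT.lf (nat_lit 76) (nat_lit 281675588) (nat_lit 0) (nat_lit 98591285) (nat_lit 532) (nat_lit 281675588) (nat_lit 281) (nat_lit 1) (nat_lit 280) (nat_lit 1) (nat_lit 287) (nat_lit 1) (nat_lit 415) (nat_lit 309) (nat_lit 296)) (XT.nd (nat_lit 78) (nat_lit 0) (nat_lit 0) (XT.lf (nat_lit 456) (nat_lit 484691384) (nat_lit 0) (nat_lit 81512335) (nat_lit 380) (nat_lit 81512335) (nat_lit 281) (nat_lit 1) (nat_lit 275) (nat_lit 1) (nat_lit 280) (nat_lit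 1) (nat_lit 416) (nat_lit 309) (nat_lit 295)) (XT.lf (nat_lit 76) (nat_lit 200915768) (nat_lit 0) (nat_lit 231957191) (nat_lit 456) (nat_lit 200915768) (nat_lit 276) (nat_lit 1) (nat_lit 275) (nat_lit 1) (nat_lit 281) (nat_lit 1) (nat_lit 417) (nat_lit 309) (nat_lit 294)))) (XT.nd (nat_lit 78) (nat_lit 304) (nat_lit 0) (XT.lf (nat_lit 456) (nat_lit 319176150) (nat_lit 0) (nat_lit 150585150) (nat_lit 380) (nat_lit 150585150) (nat_lit 276) (nat_lit 1) (nat_lit 270) (nat_lit 1) (nat_lit 275) (nat_lit 1) (nat_lit 418) (nat_lit 309) (nat_lit 293)) (XT.nd (nat_lit 78) (nat_lit 304) (nat_lit 0) (XT.lf (nat_lit 76) (nat_lit 117612169) (nat_lit 0) (nat_lit 372070781) (nat_lit 456) (nat_lit 117612169) (nat_lit 271) (nat_lit 1) (nat_lit 270) (nat_lit 1) (nat_lit 276) (nat_lit 1) (nat_lit 419) (nat_lit 309) (nat_lit 292)) (XT.lf (nat_lit 380) (nat_lit 149269091) (nat_lit 0) (nat_lit 222655211) (nat_lit 304)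 (nat_lit 222655211) (nat_lit 271) (nat_lit 1) (nat_lit 266) (nat_lit 1) (nat_lit 270) (nat_lit 1) (nat_lit 420) (nat_lit 309) (nat_lit 291)))))) (XT.nd (nat_lit 468) (nat_lit 1368) (nat_lit 0) (XT.nd (nat_lit 234) (nat_lit 304) (nat_lit 0) (XT.nd (nat_lit 78) (nat_lit 684) (nat_lit 0) (XT.lf (nat_lit 76) (nat_lit 32479958) (nat_lit 0) (nat_lit 517392970) (nat_lit 380) (nat_lit 32479958) (nat_lit 267) (nat_lit 1) (nat_lit 266) (nat_lit 1) (nat_lit 271) (nat_lit 1) (nat_lit 421) (nat_lit 309) (nat_lit 290)) (XT.nd (nat_lit 78) (nat_lit 304) (nat_lit 0) (XT.lf (nat_lit 76) (nat_lit 273685461) (nat_lit 0) (nat_lit 22921689) (nat_lit 380) (nat_lit 273685461) (nat_lit 262) (nat_lit 1) (nat_lit 261) (nat_lit 1) (nat_lit 266) (nat_lit 1) (nat_lit 422) (nat_lit 309) (nat_lit 289)) (XT.lf (nat_lit 380) (nat_lit 452718913) (nat_lit 0) (nat_lit 52986353) (nat_lit 304) (nat_lit 52986353) (nat_lit 262) (nat_lit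 1) (nat_lit 257) (nat_lit 1) (nat_lit 261) (nat_lit 1) (nat_lit 423) (nat_lit 309) (nat_lit 288)))) (XT.nd (nat_lit 78) (nat_lit 304) (nat_lit 0) (XT.lf (nat_lit 76) (nat_lit 177576260) (nat_lit 0) (nat_lit 192137127) (nat_lit 380) (nat_lit 177576260) (nat_lit 258) (nat_lit 1) (nat_lit 257) (nat_lit 1) (nat_lit 262) (nat_lit 1) (nat_lit 424) (nat_lit 309) (nat_lit 287)) (XT.nd (nat_lit 78) (nat_lit 0) (nat_lit 0) (XT.lf (nat_lit 380) (nat_lit 259133162) (nat_lit 0) (nat_lit 138574946) (nat_lit 304) (nat_lit 138574946) (nat_lit 258) (nat_lit 1) (nat_lit 253) (nat_lit 1) (nat_lit 257) (nat_lit 1) (nat_lit 425) (nat_lit 309) (nat_lit 286)) (XT.lf (nat_lit 76) (nat_lit 81719034) (nat_lit 0) (nat_lit 362160228) (nat_lit 380) (nat_lit 81719034) (nat_lit 254) (nat_lit 1) (nat_lit 253) (nat_lit 1) (nat_lit 258) (nat_lit 1) (nat_lit 426) (nat_lit 309) (nat_lit 285))))) (XT.nd (nat_lit 234) (nat_lit 760)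 (nat_lit 0) (XT.nd (nat_lit 78) (nat_lit 380) (nat_lit 0) (XT.lf (nat_lit 304) (nat_lit 66458590) (nat_lit 0) (nat_lit 224342794) (nat_lit 228) (nat_lit 224342794) (nat_lit 254) (nat_lit 1) (nat_lit 250) (nat_lit 1) (nat_lit 253) (nat_lit 1) (nat_lit 427) (nat_lit 309) (nat_lit 284)) (XT.nd (nat_lit 78) (nat_lit 0) (nat_lit 0) (XT.lf (nat_lit 380) (nat_lit 478536555) (nat_lit 0) (nat_lit 13278471) (nat_lit 304) (nat_lit 13278471) (nat_lit 250) (nat_lit 1) (nat_lit 245) (nat_lit 1) (nat_lit 249) (nat_lit 1) (nat_lit 428) (nat_lit 309) (nat_lit 283)) (XT.lf (nat_lit 76) (nat_lit 187254891) (nat_lit 0) (nat_lit 120588661) (nat_lit 380) (nat_lit 187254891) (nat_lit 246) (nat_lit 1) (nat_lit 245) (nat_lit 1) (nat_lit 250) (nat_lit 1) (nat_lit 429) (nat_lit 309) (nat_lit 282)))) (XT.nd (nat_lit 156) (nat_lit 532) (nat_lit 0) (XT.nd (nat_lit 78) (nat_lit 0) (nat_lit 0) (XT.lf (nat_lit 304) (nat_lit 273491689)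 (nat_lit 0) (nat_lit 105997519) (nat_lit 228) (nat_lit 105997519) (nat_lit 246) (nat_lit 1) (nat_lit 242) (nat_lit 1) (nat_lit 245) (nat_lit 1) (nat_lit 430) (nat_lit 309) (nat_lit 281)) (XT.lf (nat_lit 76) (nat_lit 86400255) (nat_lit 0) (nat_lit 303318705) (nat_lit 304) (nat_lit 86400255) (nat_lit 243) (nat_lit 1) (nat_lit 242) (nat_lit 1) (nat_lit 246) (nat_lit 1) (nat_lit 431) (nat_lit 309) (nat_lit 280))) (XT.nd (nat_lit 78) (nat_lit 304) (nat_lit 0) (XT.lf (nat_lit 304) (nat_lit 72011912) (nat_lit 0) (nat_lit 197476449) (nat_lit 228) (nat_lit 197476449) (nat_lit 243) (nat_lit 1) (nat_lit 239) (nat_lit 1) (nat_lit 242) (nat_lit 1) (nat_lit 432) (nat_lit 309) (nat_lit 279)) (XT.lf (nat_lit 304) (nat_lit 433398520) (nat_lit 0) (nat_lit 12375990) (nat_lit 228) (nat_lit 12375990) (nat_lit 239) (nat_lit 1) (nat_lit 235) (nat_lit 1) (nat_lit 238) (nat_lit 1) (nat_lit 433) (nat_lit 309) (nat_lit 278))))))))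
noncomputable def ec9 : XT := (XT.nd (nat_lit 51558) (nat_lit 0) (nat_lit 380) (XT.nd (nat_lit 50544) (nat_lit 0) (nat_lit 4636) (XT.nd (nat_lit 468) (nat_lit 532) (nat_lit 0) (XT.nd (nat_lit 234) (nat_lit 456) (nat_lit 0) (XT.nd (nat_lit 78) (nat_lit 228) (nat_lit 0) (XT.lf (nat_lit 76) (nat_lit 163942248) (nat_lit 0) (nat_lit 121479560) (nat_lit 304) (nat_lit 163942248) (nat_lit 236) (nat_lit 1) (nat_lit 235) (nat_lit 1) (nat_lit 239) (nat_lit 1) (nat_lit 434) (nat_lit 309) (nat_lit 277)) (XT.nd (nat_lit 78) (nat_lit 0) (nat_lit 0) (XT.lf (nat_lit 304) (nat_lit 225435603) (nat_lit 0) (nat_lit 107733554) (nat_lit 228) (nat_lit 107733554) (nat_lit 236) (nat_lit 1) (nat_lit 232) (nat_lit 1) (nat_lit 235) (nat_lit 1) (nat_lit 435) (nat_lit 309) (nat_lit 276)) (XT.lf (nat_lit 76) (nat_lit 62084781) (nat_lit 0) (nat_lit 308498741) (nat_lit 304) (nat_lit 62084781) (nat_lit 233) (nat_lit 1) (nat_lit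 232) (nat_lit 1) (nat_lit 236) (nat_lit 1) (nat_lit 436) (nat_lit 309) (nat_lit 275)))) (XT.nd (nat_lit 78) (nat_lit 304) (nat_lit 0) (XT.lf (nat_lit 228) (nat_lit 22749928) (nat_lit 0) (nat_lit 200919569) (nat_lit 152) (nat_lit 200919569) (nat_lit 233) (nat_lit 1) (nat_lit 230) (nat_lit 1) (nat_lit 232) (nat_lit 1) (nat_lit 437) (nat_lit 309) (nat_lit 274)) (XT.nd (nat_lit 78) (nat_lit 0) (nat_lit 0) (XT.lf (nat_lit 304) (nat_lit 343743786) (nat_lit 0) (nat_lit 36508081) (nat_lit 228) (nat_lit 36508081) (nat_lit 230) (nat_lit 1) (nat_lit 226) (nat_lit 1) (nat_lit 229) (nat_lit 1) (nat_lit 438) (nat_lit 309) (nat_lit 273)) (XT.lf (nat_lit 76) (nat_lit 120061545) (nat_lit 0) (nat_lit 168895302) (nat_lit 304) (nat_lit 120061545) (nat_lit 227) (nat_lit 1) (nat_lit 226) (nat_lit 1) (nat_lit 230) (nat_lit 1) (nat_lit 439) (nat_lit 309) (nat_lit 272))))) (XT.nd (nat_lit 234) (nat_lit 152) (nat_lit 0)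 (XT.nd (nat_lit 78) (nat_lit 228) (nat_lit 0) (XT.lf (nat_lit 228) (nat_lit 138712594) (nat_lit 0) (nat_lit 131401582) (nat_lit 152) (nat_lit 131401582) (nat_lit 227) (nat_lit 1) (nat_lit 224) (nat_lit 1) (nat_lit 226) (nat_lit 1) (nat_lit 440) (nat_lit 309) (nat_lit 271)) (XT.nd (nat_lit 78) (nat_lit 228) (nat_lit 0) (XT.lf (nat_lit 76) (nat_lit 19928597) (nat_lit 0) (nat_lit 354404918) (nat_lit 228) (nat_lit 19928597) (nat_lit 225) (nat_lit 1) (nat_lit 224) (nat_lit 1) (nat_lit 227) (nat_lit 1) (nat_lit 441) (nat_lit 309) (nat_lit 270)) (XT.lf (nat_lit 76) (nat_lit 164474208) (nat_lit 0) (nat_lit 58086415) (nat_lit 228) (nat_lit 164474208) (nat_lit 222) (nat_lit 1) (nat_lit 221) (nat_lit 1) (nat_lit 224) (nat_lit 1) (nat_lit 442) (nat_lit 309) (nat_lit 269)))) (XT.nd (nat_lit 78) (nat_lit 0) (nat_lit 0) (XT.lf (nat_lit 228) (nat_lit 228401264) (nat_lit 0) (nat_lit 75823031) (nat_lit 152) (nat_lit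 75823031) (nat_lit 222) (nat_lit 1) (nat_lit 219) (nat_lit 1) (nat_lit 221) (nat_lit 1) (nat_lit 443) (nat_lit 309) (nat_lit 268)) (XT.nd (nat_lit 49686) (nat_lit 0) (nat_lit 5548) (XT.lf (nat_lit 76) (nat_lit 64448894) (nat_lit 0) (nat_lit 244316472) (nat_lit 228) (nat_lit 64448894) (nat_lit 220) (nat_lit 1) (nat_lit 219) (nat_lit 1) (nat_lit 222) (nat_lit 1) (nat_lit 444) (nat_lit 309) (nat_lit 267)) (XT.lf (nat_lit 836) (nat_lit 124328503) (nat_lit 0) (nat_lit 220744972) (nat_lit 836) (nat_lit 124328503) (nat_lit 303) (nat_lit 1) (nat_lit 292) (nat_lit 0) (nat_lit 303) (nat_lit 0) (nat_lit 400) (nat_lit 310) (nat_lit 310)))))) (XT.nd (nat_lit 468) (nat_lit 912) (nat_lit 0) (XT.nd (nat_lit 234) (nat_lit 0) (nat_lit 152) (XT.nd (nat_lit 78) (nat_lit 0) (nat_lit 76) (XT.lf (nat_lit 836) (nat_lit 481912802) (nat_lit 76) (nat_lit 217184569) (nat_lit 0) (nat_lit 217184569) (nat_lit 303) (nat_lit 1)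 (nat_lit 293) (nat_lit 1) (nat_lit 292) (nat_lit 0) (nat_lit 401) (nat_lit 310) (nat_lit 309)) (XT.nd (nat_lit 78) (nat_lit 0) (nat_lit 0) (XT.lf (nat_lit 836) (nat_lit 229672385) (nat_lit 0) (nat_lit 435111429) (nat_lit 760) (nat_lit 229672385) (nat_lit 304) (nat_lit 1) (nat_lit 293) (nat_lit 1) (nat_lit 303) (nat_lit 1) (nat_lit 402) (nat_lit 310) (nat_lit 308)) (XT.lf (nat_lit 836) (nat_lit 430833481) (nat_lit 76) (nat_lit 221251055) (nat_lit 0) (nat_lit 221251055) (nat_lit 304) (nat_lit 1) (nat_lit 294) (nat_lit 1) (nat_lit 293) (nat_lit 1) (nat_lit 403) (nat_lit 310) (nat_lit 307)))) (XT.nd (nat_lit 78) (nat_lit 0) (nat_lit 0) (XT.lf (nat_lit 836) (nat_lit 198308514) (nat_lit 0) (nat_lit 456267374) (nat_lit 760) (nat_lit 198308514) (nat_lit 305) (nat_lit 1) (nat_lit 294) (nat_lit 1) (nat_lit 304) (nat_lit 1) (nat_lit 404) (nat_lit 310) (nat_lit 306)) (XT.nd (nat_lit 78) (nat_lit 0) (nat_lit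 76) (XT.lf (nat_lit 836) (nat_lit 356670778) (nat_lit 76) (nat_lit 238192931) (nat_lit 0) (nat_lit 238192931) (nat_lit 305) (nat_lit 1) (nat_lit 295) (nat_lit 1) (nat_lit 294) (nat_lit 1) (nat_lit 405) (nat_lit 310) (nat_lit 305)) (XT.lf (nat_lit 836) (nat_lit 156389834) (nat_lit 0) (nat_lit 501114960) (nat_lit 760) (nat_lit 156389834) (nat_lit 306) (nat_lit 1) (nat_lit 295) (nat_lit 1) (nat_lit 305) (nat_lit 1) (nat_lit 406) (nat_lit 310) (nat_lit 304))))) (XT.nd (nat_lit 234) (nat_lit 1140) (nat_lit 0) (XT.nd (nat_lit 78) (nat_lit 0) (nat_lit 76) (XT.lf (nat_lit 836) (nat_lit 262896114) (nat_lit 76) (nat_lit 266182049) (nat_lit 0) (nat_lit 266182049) (nat_lit 306) (nat_lit 1) (nat_lit 296) (nat_lit 1) (nat_lit 295) (nat_lit 1) (nat_lit 407) (nat_lit 310) (nat_lit 303)) (XT.nd (nat_lit 78) (nat_lit 0) (nat_lit 0) (XT.lf (nat_lit 836) (nat_lit 105539096) (nat_lit 0) (nat_lit 566229729) (nat_lit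 760) (nat_lit 105539096) (nat_lit 307) (nat_lit 1) (nat_lit 296) (nat_lit 1) (nat_lit 306) (nat_lit 1) (nat_lit 408) (nat_lit 310) (nat_lit 302)) (XT.lf (nat_lit 836) (nat_lit 152595055) (nat_lit 76) (nat_lit 303590277) (nat_lit 0) (nat_lit 303590277) (nat_lit 307) (nat_lit 1) (nat_lit 297) (nat_lit 1) (nat_lit 296) (nat_lit 1) (nat_lit 409) (nat_lit 310) (nat_lit 301)))) (XT.nd (nat_lit 156) (nat_lit 532) (nat_lit 0) (XT.nd (nat_lit 78) (nat_lit 760) (nat_lit 0) (XT.lf (nat_lit 76) (nat_lit 47197635) (nat_lit 0) (nat_lit 648563778) (nat_lit 760) (nat_lit 47197635) (nat_lit 298) (nat_lit 1) (nat_lit 297) (nat_lit 1) (nat_lit 307) (nat_lit 1) (nat_lit 410) (nat_lit 310) (nat_lit 300)) (XT.lf (nat_lit 836) (nat_lit 28506198) (nat_lit 0) (nat_lit 348969474) (nat_lit 760) (nat_lit 348969474) (nat_lit 298) (nat_lit 1) (nat_lit 287) (nat_lit 1) (nat_lit 297) (nat_lit 1) (nat_lit 411) (nat_lit 310) (nat_lit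 299))) (XT.nd (nat_lit 78) (nat_lit 0) (nat_lit 0) (XT.lf (nat_lit 532) (nat_lit 676487980) (nat_lit 0) (nat_lit 17076366) (nat_lit 456) (nat_lit 17076366) (nat_lit 287) (nat_lit 1) (nat_lit 280) (nat_lit 1) (nat_lit 286) (nat_lit 1) (nat_lit 412) (nat_lit 310) (nat_lit 298)) (XT.lf (nat_lit 76) (nat_lit 295759367) (nat_lit 0) (nat_lit 103520849) (nat_lit 532) (nat_lit 295759367) (nat_lit 281) (nat_lit 1) (nat_lit 280) (nat_lit 1) (nat_lit 287) (nat_lit 1) (nat_lit 413) (nat_lit 310) (nat_lit 297))))))) (XT.nd (nat_lit 936) (nat_lit 1976) (nat_lit 0) (XT.nd (nat_lit 468) (nat_lit 1216) (nat_lit 0) (XT.nd (nat_lit 234) (nat_lit 304) (nat_lit 0) (XT.nd (nat_lit 78) (nat_lit 380) (nat_lit 0) (XT.lf (nat_lit 456) (nat_lit 508925953) (nat_lit 0) (nat_lit 85587952) (nat_lit 380) (nat_lit 85587952) (nat_lit 281) (nat_lit 1) (nat_lit 275) (nat_lit 1) (nat_lit 280) (nat_lit 1) (nat_lit 414) (nat_lit 310)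 (nat_lit 296)) (XT.nd (nat_lit 78) (nat_lit 380) (nat_lit 0) (XT.lf (nat_lit 76) (nat_lit 210961556) (nat_lit 0) (nat_lit 243555050) (nat_lit 456) (nat_lit 210961556) (nat_lit 276) (nat_lit 1) (nat_lit 275) (nat_lit 1) (nat_lit 281) (nat_lit 1) (nat_lit 415) (nat_lit 310) (nat_lit 295)) (XT.lf (nat_lit 456) (nat_lit 335134957) (nat_lit 0) (nat_lit 158114407) (nat_lit 380) (nat_lit 158114407) (nat_lit 276) (nat_lit 1) (nat_lit 270) (nat_lit 1) (nat_lit 275) (nat_lit 1) (nat_lit 416) (nat_lit 310) (nat_lit 294)))) (XT.nd (nat_lit 78) (nat_lit 304) (nat_lit 0) (XT.lf (nat_lit 76) (nat_lit 123492777) (nat_lit 0) (nat_lit 390674320) (nat_lit 456) (nat_lit 123492777) (nat_lit 271) (nat_lit 1) (nat_lit 270) (nat_lit 1) (nat_lit 276) (nat_lit 1) (nat_lit 417) (nat_lit 310) (nat_lit 293)) (XT.nd (nat_lit 78) (nat_lit 0) (nat_lit 0) (XT.lf (nat_lit 380) (nat_lit 156732545) (nat_lit 0) (nat_lit 233787971)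 (nat_lit 304) (nat_lit 233787971) (nat_lit 271) (nat_lit 1) (nat_lit 266) (nat_lit 1) (nat_lit 270) (nat_lit 1) (nat_lit 418) (nat_lit 310) (nat_lit 292)) (XT.lf (nat_lit 76) (nat_lit 34103956) (nat_lit 0) (nat_lit 543262619) (nat_lit 380) (nat_lit 34103956) (nat_lit 267) (nat_lit 1) (nat_lit 266) (nat_lit 1) (nat_lit 271) (nat_lit 1) (nat_lit 419) (nat_lit 310) (nat_lit 291))))) (XT.nd (nat_lit 234) (nat_lit 532) (nat_lit 0) (XT.nd (nat_lit 78) (nat_lit 304) (nat_lit 0) (XT.lf (nat_lit 76) (nat_lit 287369734) (nat_lit 0) (nat_lit 24067773) (nat_lit 380) (nat_lit 287369734) (nat_lit 262) (nat_lit 1) (nat_lit 261) (nat_lit 1) (nat_lit 266) (nat_lit 1) (nat_lit 420) (nat_lit 310) (nat_lit 290)) (XT.nd (nat_lit 78) (nat_lit 0) (nat_lit 0) (XT.lf (nat_lit 380) (nat_lit 475354859) (nat_lit 0) (nat_lit 55635671) (nat_lit 304) (nat_lit 55635671) (nat_lit 262) (nat_lit 1) (nat_lit 257) (nat_lit 1) (nat_lit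 261) (nat_lit 1) (nat_lit 421) (nat_lit 310) (nat_lit 289)) (XT.lf (nat_lit 76) (nat_lit 186455073) (nat_lit 0) (nat_lit 201743983) (nat_lit 380) (nat_lit 186455073) (nat_lit 258) (nat_lit 1) (nat_lit 257) (nat_lit 1) (nat_lit 262) (nat_lit 1) (nat_lit 422) (nat_lit 310) (nat_lit 288)))) (XT.nd (nat_lit 78) (nat_lit 228) (nat_lit 0) (XT.lf (nat_lit 380) (nat_lit 272089820) (nat_lit 0) (nat_lit 145503694) (nat_lit 304) (nat_lit 145503694) (nat_lit 258) (nat_lit 1) (nat_lit 253) (nat_lit 1) (nat_lit 257) (nat_lit 1) (nat_lit 423) (nat_lit 310) (nat_lit 287)) (XT.nd (nat_lit 78) (nat_lit 228) (nat_lit 0) (XT.lf (nat_lit 76) (nat_lit 85804986) (nat_lit 0) (nat_lit 380268240) (nat_lit 380) (nat_lit 85804986) (nat_lit 254) (nat_lit 1) (nat_lit 253) (nat_lit 1) (nat_lit 258) (nat_lit 1) (nat_lit 424) (nat_lit 310) (nat_lit 286)) (XT.lf (nat_lit 304) (nat_lit 69781520) (nat_lit 0) (nat_lit 235559934) (nat_lit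 228) (nat_lit 235559934) (nat_lit 254) (nat_lit 1) (nat_lit 250) (nat_lit 1) (nat_lit 253) (nat_lit 1) (nat_lit 425) (nat_lit 310) (nat_lit 285)))))) (XT.nd (nat_lit 468) (nat_lit 836) (nat_lit 0) (XT.nd (nat_lit 234) (nat_lit 532) (nat_lit 0) (XT.nd (nat_lit 78) (nat_lit 228) (nat_lit 0) (XT.lf (nat_lit 380) (nat_lit 502463383) (nat_lit 0) (nat_lit 13942394) (nat_lit 304) (nat_lit 13942394) (nat_lit 250) (nat_lit 1) (nat_lit 245) (nat_lit 1) (nat_lit 249) (nat_lit 1) (nat_lit 426) (nat_lit 310) (nat_lit 284)) (XT.nd (nat_lit 78) (nat_lit 228) (nat_lit 0) (XT.lf (nat_lit 76) (nat_lit 196617636) (nat_lit 0) (nat_lit 126618094) (nat_lit 380) (nat_lit 196617636) (nat_lit 246) (nat_lit 1) (nat_lit 245) (nat_lit 1) (nat_lit 250) (nat_lit 1) (nat_lit 427) (nat_lit 310) (nat_lit 283)) (XT.lf (nat_lit 304) (nat_lit 287166274) (nat_lit 0) (nat_lit 111297395) (nat_lit 228) (nat_lit 111297395) (nat_lit 246)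 (nat_lit 1) (nat_lit 242) (nat_lit 1) (nat_lit 245) (nat_lit 1) (nat_lit 428) (nat_lit 310) (nat_lit 282)))) (XT.nd (nat_lit 78) (nat_lit 532) (nat_lit 0) (XT.lf (nat_lit 76) (nat_lit 90720268) (nat_lit 0) (nat_lit 318484640) (nat_lit 304) (nat_lit 90720268) (nat_lit 243) (nat_lit 1) (nat_lit 242) (nat_lit 1) (nat_lit 246) (nat_lit 1) (nat_lit 429) (nat_lit 310) (nat_lit 281)) (XT.nd (nat_lit 78) (nat_lit 304) (nat_lit 0) (XT.lf (nat_lit 304) (nat_lit 75612507) (nat_lit 0) (nat_lit 207350271) (nat_lit 228) (nat_lit 207350271) (nat_lit 243) (nat_lit 1) (nat_lit 239) (nat_lit 1) (nat_lit 242) (nat_lit 1) (nat_lit 430) (nat_lit 310) (nat_lit 280)) (XT.lf (nat_lit 304) (nat_lit 455068446) (nat_lit 0) (nat_lit 12994790) (nat_lit 228) (nat_lit 12994790) (nat_lit 239) (nat_lit 1) (nat_lit 235) (nat_lit 1) (nat_lit 238) (nat_lit 1) (nat_lit 431) (nat_lit 310) (nat_lit 279))))) (XT.nd (nat_lit 234) (nat_lit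 608) (nat_lit 0) (XT.nd (nat_lit 78) (nat_lit 228) (nat_lit 0) (XT.lf (nat_lit 76) (nat_lit 172139361) (nat_lit 0) (nat_lit 127553538) (nat_lit 304) (nat_lit 172139361) (nat_lit 236) (nat_lit 1) (nat_lit 235) (nat_lit 1) (nat_lit 239) (nat_lit 1) (nat_lit 432) (nat_lit 310) (nat_lit 278)) (XT.nd (nat_lit 78) (nat_lit 0) (nat_lit 0) (XT.lf (nat_lit 304) (nat_lit 236707383) (nat_lit 0) (nat_lit 113120232) (nat_lit 228) (nat_lit 113120232) (nat_lit 236) (nat_lit 1) (nat_lit 232) (nat_lit 1) (nat_lit 235) (nat_lit 1) (nat_lit 433) (nat_lit 310) (nat_lit 277)) (XT.lf (nat_lit 76) (nat_lit 65189020) (nat_lit 0) (nat_lit 323923678) (nat_lit 304) (nat_lit 65189020) (nat_lit 233) (nat_lit 1) (nat_lit 232) (nat_lit 1) (nat_lit 236) (nat_lit 1) (nat_lit 434) (nat_lit 310) (nat_lit 276)))) (XT.nd (nat_lit 156) (nat_lit 152) (nat_lit 0) (XT.nd (nat_lit 78) (nat_lit 304) (nat_lit 0) (XT.lf (nat_lit 228) (nat_lit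 23887424) (nat_lit 0) (nat_lit 210965548) (nat_lit 152) (nat_lit 210965548) (nat_lit 233) (nat_lit 1) (nat_lit 230) (nat_lit 1) (nat_lit 232) (nat_lit 1) (nat_lit 435) (nat_lit 310) (nat_lit 275)) (XT.lf (nat_lit 304) (nat_lit 360930975) (nat_lit 0) (nat_lit 38333485) (nat_lit 228) (nat_lit 38333485) (nat_lit 230) (nat_lit 1) (nat_lit 226) (nat_lit 1) (nat_lit 229) (nat_lit 1) (nat_lit 436) (nat_lit 310) (nat_lit 274))) (XT.nd (nat_lit 78) (nat_lit 152) (nat_lit 0) (XT.lf (nat_lit 76) (nat_lit 126064622) (nat_lit 0) (nat_lit 177340067) (nat_lit 304) (nat_lit 126064622) (nat_lit 227) (nat_lit 1) (nat_lit 226) (nat_lit 1) (nat_lit 230) (nat_lit 1) (nat_lit 437) (nat_lit 310) (nat_lit 273)) (XT.lf (nat_lit 228) (nat_lit 145648224) (nat_lit 0) (nat_lit 137971661) (nat_lit 152) (nat_lit 137971661) (nat_lit 227) (nat_lit 1) (nat_lit 224) (nat_lit 1) (nat_lit 226) (nat_lit 1) (nat_lit 438) (nat_lit 310)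 (nat_lit 272))))))))
noncomputable def ec10 : XT := (XT.nd (nat_lit 51402) (nat_lit 0) (nat_lit 228) (XT.nd (nat_lit 50388) (nat_lit 0) (nat_lit 3952) (XT.nd (nat_lit 49920) (nat_lit 0) (nat_lit 5928) (XT.nd (nat_lit 234) (nat_lit 380) (nat_lit 0) (XT.nd (nat_lit 78) (nat_lit 380) (nat_lit 0) (XT.lf (nat_lit 76) (nat_lit 20925026) (nat_lit 0) (nat_lit 372125164) (nat_lit 228) (nat_lit 20925026) (nat_lit 225) (nat_lit 1) (nat_lit 224) (nat_lit 1) (nat_lit 227) (nat_lit 1) (nat_lit 439) (nat_lit 310) (nat_lit 271)) (XT.nd (nat_lit 78) (nat_lit 152) (nat_lit 0) (XT.lf (nat_lit 76) (nat_lit 172697918) (nat_lit 0) (nat_lit 60990736) (nat_lit 228) (nat_lit 172697918) (nat_lit 222) (nat_lit 1) (nat_lit 221) (nat_lit 1) (nat_lit 224) (nat_lit 1) (nat_lit 440) (nat_lit 310) (nat_lit 270)) (XT.lf (nat_lit 228) (nat_lit 239821327) (nat_lit 0) (nat_lit 79614183) (nat_lit 152) (nat_lit 79614183) (nat_lit 222)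 (nat_lit 1) (nat_lit 219) (nat_lit 1) (nat_lit 221) (nat_lit 1) (nat_lit 441) (nat_lit 310) (nat_lit 269)))) (XT.nd (nat_lit 78) (nat_lit 380) (nat_lit 0) (XT.lf (nat_lit 76) (nat_lit 67671339) (nat_lit 0) (nat_lit 256532296) (nat_lit 228) (nat_lit 67671339) (nat_lit 220) (nat_lit 1) (nat_lit 219) (nat_lit 1) (nat_lit 222) (nat_lit 1) (nat_lit 442) (nat_lit 310) (nat_lit 268)) (XT.nd (nat_lit 78) (nat_lit 228) (nat_lit 0) (XT.lf (nat_lit 228) (nat_lit 31701586) (nat_lit 0) (nat_lit 176571647) (nat_lit 152) (nat_lit 176571647) (nat_lit 220) (nat_lit 1) (nat_lit 217) (nat_lit 1) (nat_lit 219) (nat_lit 1) (nat_lit 443) (nat_lit 310) (nat_lit 267)) (XT.lf (nat_lit 228) (nat_lit 311583669) (nat_lit 0) (nat_lit 33217409) (nat_lit 152) (nat_lit 33217409) (nat_lit 217) (nat_lit 1) (nat_lit 214) (nat_lit 1) (nat_lit 216) (nat_lit 1) (nat_lit 444) (nat_lit 310) (nat_lit 266))))) (XT.nd (nat_lit 234) (nat_lit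 0) (nat_lit 76) (XT.nd (nat_lit 78) (nat_lit 0) (nat_lit 0) (XT.lf (nat_lit 836) (nat_lit 130544928) (nat_lit 0) (nat_lit 231782221) (nat_lit 836) (nat_lit 130544928) (nat_lit 303) (nat_lit 1) (nat_lit 292) (nat_lit 0) (nat_lit 303) (nat_lit 0) (nat_lit 398) (nat_lit 311) (nat_lit 311)) (XT.nd (nat_lit 78) (nat_lit 0) (nat_lit 76) (XT.lf (nat_lit 836) (nat_lit 506008442) (nat_lit 76) (nat_lit 228043798) (nat_lit 0) (nat_lit 228043798) (nat_lit 303) (nat_lit 1) (nat_lit 293) (nat_lit 1) (nat_lit 292) (nat_lit 0) (nat_lit 399) (nat_lit 311) (nat_lit 310)) (XT.lf (nat_lit 836) (nat_lit 241156004) (nat_lit 0) (nat_lit 456867000) (nat_lit 760) (nat_lit 241156004) (nat_lit 304) (nat_lit 1) (nat_lit 293) (nat_lit 1) (nat_lit 303) (nat_lit 1) (nat_lit 400) (nat_lit 311) (nat_lit 309)))) (XT.nd (nat_lit 78) (nat_lit 0) (nat_lit 76) (XT.lf (nat_lit 836) (nat_lit 452375155) (nat_lit 76) (nat_lit 232313608)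 (nat_lit 0) (nat_lit 232313608) (nat_lit 304) (nat_lit 1) (nat_lit 294) (nat_lit 1) (nat_lit 293) (nat_lit 1) (nat_lit 401) (nat_lit 311) (nat_lit 308)) (XT.nd (nat_lit 78) (nat_lit 0) (nat_lit 0) (XT.lf (nat_lit 836) (nat_lit 208223939) (nat_lit 0) (nat_lit 479080742) (nat_lit 760) (nat_lit 208223939) (nat_lit 305) (nat_lit 1) (nat_lit 294) (nat_lit 1) (nat_lit 304) (nat_lit 1) (nat_lit 402) (nat_lit 311) (nat_lit 307)) (XT.lf (nat_lit 836) (nat_lit 374504317) (nat_lit 76) (nat_lit 250102578) (nat_lit 0) (nat_lit 250102578) (nat_lit 305) (nat_lit 1) (nat_lit 295) (nat_lit 1) (nat_lit 294) (nat_lit 1) (nat_lit 403) (nat_lit 311) (nat_lit 306)))))) (XT.nd (nat_lit 468) (nat_lit 1596) (nat_lit 0) (XT.nd (nat_lit 234) (nat_lit 608) (nat_lit 0) (XT.nd (nat_lit 78) (nat_lit 0) (nat_lit 0) (XT.lf (nat_lit 836) (nat_lit 164209326) (nat_lit 0) (nat_lit 526170708) (nat_lit 760) (nat_lit 164209326) (nat_lit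 306) (nat_lit 1) (nat_lit 295) (nat_lit 1) (nat_lit 305) (nat_lit 1) (nat_lit 404) (nat_lit 311) (nat_lit 305)) (XT.nd (nat_lit 78) (nat_lit 0) (nat_lit 76) (XT.lf (nat_lit 836) (nat_lit 276040919) (nat_lit 76) (nat_lit 279491152) (nat_lit 0) (nat_lit 279491152) (nat_lit 306) (nat_lit 1) (nat_lit 296) (nat_lit 1) (nat_lit 295) (nat_lit 1) (nat_lit 405) (nat_lit 311) (nat_lit 304)) (XT.lf (nat_lit 836) (nat_lit 110816051) (nat_lit 0) (nat_lit 594541215) (nat_lit 760) (nat_lit 110816051) (nat_lit 307) (nat_lit 1) (nat_lit 296) (nat_lit 1) (nat_lit 306) (nat_lit 1) (nat_lit 406) (nat_lit 311) (nat_lit 303)))) (XT.nd (nat_lit 78) (nat_lit 684) (nat_lit 0) (XT.lf (nat_lit 836) (nat_lit 160224808) (nat_lit 76) (nat_lit 318769791) (nat_lit 0) (nat_lit 318769791) (nat_lit 307) (nat_lit 1) (nat_lit 297) (nat_lit 1) (nat_lit 296) (nat_lit 1) (nat_lit 407) (nat_lit 311) (nat_lit 302)) (XT.nd (nat_lit 78)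 (nat_lit 760) (nat_lit 0) (XT.lf (nat_lit 76) (nat_lit 49557517) (nat_lit 0) (nat_lit 680991967) (nat_lit 760) (nat_lit 49557517) (nat_lit 298) (nat_lit 1) (nat_lit 297) (nat_lit 1) (nat_lit 307) (nat_lit 1) (nat_lit 408) (nat_lit 311) (nat_lit 301)) (XT.lf (nat_lit 836) (nat_lit 29931507) (nat_lit 0) (nat_lit 366417948) (nat_lit 760) (nat_lit 366417948) (nat_lit 298) (nat_lit 1) (nat_lit 287) (nat_lit 1) (nat_lit 297) (nat_lit 1) (nat_lit 409) (nat_lit 311) (nat_lit 300))))) (XT.nd (nat_lit 234) (nat_lit 684) (nat_lit 0) (XT.nd (nat_lit 78) (nat_lit 380) (nat_lit 0) (XT.lf (nat_lit 532) (nat_lit 710312379) (nat_lit 0) (nat_lit 17930185) (nat_lit 456) (nat_lit 17930185) (nat_lit 287) (nat_lit 1) (nat_lit 280) (nat_lit 1) (nat_lit 286) (nat_lit 1) (nat_lit 410) (nat_lit 311) (nat_lit 299)) (XT.nd (nat_lit 78) (nat_lit 380) (nat_lit 0) (XT.lf (nat_lit 76) (nat_lit 310547335) (nat_lit 0) (nat_lit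 108696892) (nat_lit 532) (nat_lit 310547335) (nat_lit 281) (nat_lit 1) (nat_lit 280) (nat_lit 1) (nat_lit 287) (nat_lit 1) (nat_lit 411) (nat_lit 311) (nat_lit 298)) (XT.lf (nat_lit 456) (nat_lit 534372251) (nat_lit 0) (nat_lit 89867350) (nat_lit 380) (nat_lit 89867350) (nat_lit 281) (nat_lit 1) (nat_lit 275) (nat_lit 1) (nat_lit 280) (nat_lit 1) (nat_lit 412) (nat_lit 311) (nat_lit 297)))) (XT.nd (nat_lit 156) (nat_lit 304) (nat_lit 0) (XT.nd (nat_lit 78) (nat_lit 380) (nat_lit 0) (XT.lf (nat_lit 76) (nat_lit 221509634) (nat_lit 0) (nat_lit 255732803) (nat_lit 456) (nat_lit 221509634) (nat_lit 276) (nat_lit 1) (nat_lit 275) (nat_lit 1) (nat_lit 281) (nat_lit 1) (nat_lit 413) (nat_lit 311) (nat_lit 296)) (XT.lf (nat_lit 456) (nat_lit 351891705) (nat_lit 0) (nat_lit 166020128) (nat_lit 380) (nat_lit 166020128) (nat_lit 276) (nat_lit 1) (nat_lit 270) (nat_lit 1) (nat_lit 275) (nat_lit 1) (nat_lit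 414) (nat_lit 311) (nat_lit 295))) (XT.nd (nat_lit 78) (nat_lit 304) (nat_lit 0) (XT.lf (nat_lit 76) (nat_lit 129667416) (nat_lit 0) (nat_lit 410208037) (nat_lit 456) (nat_lit 129667416) (nat_lit 271) (nat_lit 1) (nat_lit 270) (nat_lit 1) (nat_lit 276) (nat_lit 1) (nat_lit 415) (nat_lit 311) (nat_lit 294)) (XT.lf (nat_lit 380) (nat_lit 164569173) (nat_lit 0) (nat_lit 245477370) (nat_lit 304) (nat_lit 245477370) (nat_lit 271) (nat_lit 1) (nat_lit 266) (nat_lit 1) (nat_lit 270) (nat_lit 1) (nat_lit 416) (nat_lit 311) (nat_lit 293))))))) (XT.nd (nat_lit 936) (nat_lit 1672) (nat_lit 0) (XT.nd (nat_lit 468) (nat_lit 1064) (nat_lit 0) (XT.nd (nat_lit 234) (nat_lit 304) (nat_lit 0) (XT.nd (nat_lit 78) (nat_lit 684) (nat_lit 0) (XT.lf (nat_lit 76) (nat_lit 35809153) (nat_lit 0) (nat_lit 570425750) (nat_lit 380) (nat_lit 35809153) (nat_lit 267) (nat_lit 1) (nat_lit 266) (nat_lit 1) (nat_lit 271) (nat_lit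 1) (nat_lit 417) (nat_lit 311) (nat_lit 292)) (XT.nd (nat_lit 78) (nat_lit 304) (nat_lit 0) (XT.lf (nat_lit 76) (nat_lit 301738221) (nat_lit 0) (nat_lit 25271162) (nat_lit 380) (nat_lit 301738221) (nat_lit 262) (nat_lit 1) (nat_lit 261) (nat_lit 1) (nat_lit 266) (nat_lit 1) (nat_lit 418) (nat_lit 311) (nat_lit 291)) (XT.lf (nat_lit 380) (nat_lit 499122602) (nat_lit 0) (nat_lit 58417455) (nat_lit 304) (nat_lit 58417455) (nat_lit 262) (nat_lit 1) (nat_lit 257) (nat_lit 1) (nat_lit 261) (nat_lit 1) (nat_lit 419) (nat_lit 311) (nat_lit 290)))) (XT.nd (nat_lit 78) (nat_lit 304) (nat_lit 0) (XT.lf (nat_lit 76) (nat_lit 195777827) (nat_lit 0) (nat_lit 211831182) (nat_lit 380) (nat_lit 195777827) (nat_lit 258) (nat_lit 1) (nat_lit 257) (nat_lit 1) (nat_lit 262) (nat_lit 1) (nat_lit 420) (nat_lit 311) (nat_lit 289)) (XT.nd (nat_lit 78) (nat_lit 0) (nat_lit 0) (XT.lf (nat_lit 380) (nat_lit 285694311) (nat_lit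 0) (nat_lit 152778878) (nat_lit 304) (nat_lit 152778878) (nat_lit 258) (nat_lit 1) (nat_lit 253) (nat_lit 1) (nat_lit 257) (nat_lit 1) (nat_lit 421) (nat_lit 311) (nat_lit 288)) (XT.lf (nat_lit 76) (nat_lit 90095235) (nat_lit 0) (nat_lit 399281652) (nat_lit 380) (nat_lit 90095235) (nat_lit 254) (nat_lit 1) (nat_lit 253) (nat_lit 1) (nat_lit 258) (nat_lit 1) (nat_lit 422) (nat_lit 311) (nat_lit 287))))) (XT.nd (nat_lit 234) (nat_lit 456) (nat_lit 0) (XT.nd (nat_lit 78) (nat_lit 380) (nat_lit 0) (XT.lf (nat_lit 304) (nat_lit 73270596) (nat_lit 0) (nat_lit 247337931) (nat_lit 228) (nat_lit 247337931) (nat_lit 254) (nat_lit 1) (nat_lit 250) (nat_lit 1) (nat_lit 253) (nat_lit 1) (nat_lit 423) (nat_lit 311) (nat_lit 286)) (XT.nd (nat_lit 78) (nat_lit 0) (nat_lit 0) (XT.lf (nat_lit 380) (nat_lit 527586552) (nat_lit 0) (nat_lit 14639514) (nat_lit 304) (nat_lit 14639514) (nat_lit 250) (nat_lit 1) (nat_lit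 245) (nat_lit 1) (nat_lit 249) (nat_lit 1) (nat_lit 424) (nat_lit 311) (nat_lit 285)) (XT.lf (nat_lit 76) (nat_lit 206448518) (nat_lit 0) (nat_lit 132948999) (nat_lit 380) (nat_lit 206448518) (nat_lit 246) (nat_lit 1) (nat_lit 245) (nat_lit 1) (nat_lit 250) (nat_lit 1) (nat_lit 425) (nat_lit 311) (nat_lit 284)))) (XT.nd (nat_lit 78) (nat_lit 228) (nat_lit 0) (XT.lf (nat_lit 304) (nat_lit 301524587) (nat_lit 0) (nat_lit 116862265) (nat_lit 228) (nat_lit 116862265) (nat_lit 246) (nat_lit 1) (nat_lit 242) (nat_lit 1) (nat_lit 245) (nat_lit 1) (nat_lit 426) (nat_lit 311) (nat_lit 283)) (XT.nd (nat_lit 78) (nat_lit 228) (nat_lit 0) (XT.lf (nat_lit 76) (nat_lit 95256281) (nat_lit 0) (nat_lit 334408872) (nat_lit 304) (nat_lit 95256281) (nat_lit 243) (nat_lit 1) (nat_lit 242) (nat_lit 1) (nat_lit 246) (nat_lit 1) (nat_lit 427) (nat_lit 311) (nat_lit 282)) (XT.lf (nat_lit 304) (nat_lit 79393133) (nat_lit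 0) (nat_lit 217717785) (nat_lit 228) (nat_lit 217717785) (nat_lit 243) (nat_lit 1) (nat_lit 239) (nat_lit 1) (nat_lit 242) (nat_lit 1) (nat_lit 428) (nat_lit 311) (nat_lit 281)))))) (XT.nd (nat_lit 468) (nat_lit 684) (nat_lit 0) (XT.nd (nat_lit 234) (nat_lit 456) (nat_lit 0) (XT.nd (nat_lit 78) (nat_lit 228) (nat_lit 0) (XT.lf (nat_lit 304) (nat_lit 477821869) (nat_lit 0) (nat_lit 13644530) (nat_lit 228) (nat_lit 13644530) (nat_lit 239) (nat_lit 1) (nat_lit 235) (nat_lit 1) (nat_lit 238) (nat_lit 1) (nat_lit 429) (nat_lit 311) (nat_lit 280)) (XT.nd (nat_lit 78) (nat_lit 228) (nat_lit 0) (XT.lf (nat_lit 76) (nat_lit 180746329) (nat_lit 0) (nat_lit 133931215) (nat_lit 304) (nat_lit 180746329) (nat_lit 236) (nat_lit 1) (nat_lit 235) (nat_lit 1) (nat_lit 239) (nat_lit 1) (nat_lit 430) (nat_lit 311) (nat_lit 279)) (XT.lf (nat_lit 304) (nat_lit 248542752) (nat_lit 0) (nat_lit 118776243) (nat_lit 228)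 (nat_lit 118776243) (nat_lit 236) (nat_lit 1) (nat_lit 232) (nat_lit 1) (nat_lit 235) (nat_lit 1) (nat_lit 431) (nat_lit 311) (nat_lit 278)))) (XT.nd (nat_lit 78) (nat_lit 456) (nat_lit 0) (XT.lf (nat_lit 76) (nat_lit 68448471) (nat_lit 0) (nat_lit 340119862) (nat_lit 304) (nat_lit 68448471) (nat_lit 233) (nat_lit 1) (nat_lit 232) (nat_lit 1) (nat_lit 236) (nat_lit 1) (nat_lit 432) (nat_lit 311) (nat_lit 277)) (XT.nd (nat_lit 78) (nat_lit 304) (nat_lit 0) (XT.lf (nat_lit 228) (nat_lit 25081795) (nat_lit 0) (nat_lit 221513825) (nat_lit 152) (nat_lit 221513825) (nat_lit 233) (nat_lit 1) (nat_lit 230) (nat_lit 1) (nat_lit 232) (nat_lit 1) (nat_lit 433) (nat_lit 311) (nat_lit 276)) (XT.lf (nat_lit 304) (nat_lit 378977524) (nat_lit 0) (nat_lit 40250160) (nat_lit 228) (nat_lit 40250160) (nat_lit 230) (nat_lit 1) (nat_lit 226) (nat_lit 1) (nat_lit 229) (nat_lit 1) (nat_lit 434) (nat_lit 311) (nat_lit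 275))))) (XT.nd (nat_lit 234) (nat_lit 532) (nat_lit 0) (XT.nd (nat_lit 78) (nat_lit 152) (nat_lit 0) (XT.lf (nat_lit 76) (nat_lit 132367853) (nat_lit 0) (nat_lit 186207070) (nat_lit 304) (nat_lit 132367853) (nat_lit 227) (nat_lit 1) (nat_lit 226) (nat_lit 1) (nat_lit 230) (nat_lit 1) (nat_lit 435) (nat_lit 311) (nat_lit 274)) (XT.nd (nat_lit 78) (nat_lit 0) (nat_lit 0) (XT.lf (nat_lit 228) (nat_lit 152930635) (nat_lit 0) (nat_lit 144870244) (nat_lit 152) (nat_lit 144870244) (nat_lit 227) (nat_lit 1) (nat_lit 224) (nat_lit 1) (nat_lit 226) (nat_lit 1) (nat_lit 436) (nat_lit 311) (nat_lit 273)) (XT.lf (nat_lit 76) (nat_lit 21971278) (nat_lit 0) (nat_lit 390731422) (nat_lit 228) (nat_lit 21971278) (nat_lit 225) (nat_lit 1) (nat_lit 224) (nat_lit 1) (nat_lit 227) (nat_lit 1) (nat_lit 437) (nat_lit 311) (nat_lit 272)))) (XT.nd (nat_lit 156) (nat_lit 152) (nat_lit 0) (XT.nd (nat_lit 78) (nat_lit 152)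 (nat_lit 0) (XT.lf (nat_lit 76) (nat_lit 181332814) (nat_lit 0) (nat_lit 64040273) (nat_lit 228) (nat_lit 181332814) (nat_lit 222) (nat_lit 1) (nat_lit 221) (nat_lit 1) (nat_lit 224) (nat_lit 1) (nat_lit 438) (nat_lit 311) (nat_lit 271)) (XT.lf (nat_lit 228) (nat_lit 251812394) (nat_lit 0) (nat_lit 83594892) (nat_lit 152) (nat_lit 83594892) (nat_lit 222) (nat_lit 1) (nat_lit 219) (nat_lit 1) (nat_lit 221) (nat_lit 1) (nat_lit 439) (nat_lit 311) (nat_lit 270))) (XT.nd (nat_lit 78) (nat_lit 152) (nat_lit 0) (XT.lf (nat_lit 76) (nat_lit 71054906) (nat_lit 0) (nat_lit 269358911) (nat_lit 228) (nat_lit 71054906) (nat_lit 220) (nat_lit 1) (nat_lit 219) (nat_lit 1) (nat_lit 222) (nat_lit 1) (nat_lit 440) (nat_lit 311) (nat_lit 269)) (XT.lf (nat_lit 228) (nat_lit 33286665) (nat_lit 0) (nat_lit 185400229) (nat_lit 152) (nat_lit 185400229) (nat_lit 220) (nat_lit 1) (nat_lit 217) (nat_lit 1) (nat_lit 219)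 (nat_lit 1) (nat_lit 441) (nat_lit 311) (nat_lit 268))))))))
noncomputable def ec11 : XT := (XT.nd (nat_lit 51246) (nat_lit 0) (nat_lit 0) (XT.nd (nat_lit 50232) (nat_lit 0) (nat_lit 3420) (XT.nd (nat_lit 49764) (nat_lit 0) (nat_lit 6156) (XT.nd (nat_lit 49530) (nat_lit 0) (nat_lit 6080) (XT.nd (nat_lit 78) (nat_lit 152) (nat_lit 0) (XT.lf (nat_lit 228) (nat_lit 327162852) (nat_lit 0) (nat_lit 34878280) (nat_lit 152) (nat_lit 34878280) (nat_lit 217) (nat_lit 1) (nat_lit 214) (nat_lit 1) (nat_lit 216) (nat_lit 1) (nat_lit 442) (nat_lit 311) (nat_lit 267)) (XT.nd (nat_lit 78) (nat_lit 152) (nat_lit 0) (XT.lf (nat_lit 76) (nat_lit 108913315) (nat_lit 0) (nat_lit 171986245) (nat_lit 228) (nat_lit 108913315) (nat_lit 215) (nat_lit 1) (nat_lit 214) (nat_lit 1) (nat_lit 217) (nat_lit 1) (nat_lit 443) (nat_lit 311) (nat_lit 266)) (XT.lf (nat_lit 228) (nat_lit 110922923) (nat_lit 0) (nat_lit 135994864)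 (nat_lit 152) (nat_lit 135994864) (nat_lit 215) (nat_lit 1) (nat_lit 212) (nat_lit 1) (nat_lit 214) (nat_lit 1) (nat_lit 444) (nat_lit 311) (nat_lit 265)))) (XT.nd (nat_lit 78) (nat_lit 0) (nat_lit 0) (XT.lf (nat_lit 836) (nat_lit 137072175) (nat_lit 0) (nat_lit 243371332) (nat_lit 836) (nat_lit 137072175) (nat_lit 303) (nat_lit 1) (nat_lit 292) (nat_lit 0) (nat_lit 303) (nat_lit 0) (nat_lit 396) (nat_lit 312) (nat_lit 312)) (XT.nd (nat_lit 78) (nat_lit 0) (nat_lit 76) (XT.lf (nat_lit 836) (nat_lit 531308864) (nat_lit 76) (nat_lit 239445988) (nat_lit 0) (nat_lit 239445988) (nat_lit 303) (nat_lit 1) (nat_lit 293) (nat_lit 1) (nat_lit 292) (nat_lit 0) (nat_lit 397) (nat_lit 312) (nat_lit 311)) (XT.lf (nat_lit 836) (nat_lit 253213804) (nat_lit 0) (nat_lit 479710350) (nat_lit 760) (nat_lit 253213804) (nat_lit 304) (nat_lit 1) (nat_lit 293) (nat_lit 1) (nat_lit 303) (nat_lit 1) (nat_lit 398) (nat_lit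 312) (nat_lit 310))))) (XT.nd (nat_lit 234) (nat_lit 0) (nat_lit 152) (XT.nd (nat_lit 78) (nat_lit 0) (nat_lit 76) (XT.lf (nat_lit 836) (nat_lit 474993912) (nat_lit 76) (nat_lit 243929288) (nat_lit 0) (nat_lit 243929288) (nat_lit 304) (nat_lit 1) (nat_lit 294) (nat_lit 1) (nat_lit 293) (nat_lit 1) (nat_lit 399) (nat_lit 312) (nat_lit 309)) (XT.nd (nat_lit 78) (nat_lit 0) (nat_lit 0) (XT.lf (nat_lit 836) (nat_lit 218635136) (nat_lit 0) (nat_lit 503034779) (nat_lit 760) (nat_lit 218635136) (nat_lit 305) (nat_lit 1) (nat_lit 294) (nat_lit 1) (nat_lit 304) (nat_lit 1) (nat_lit 400) (nat_lit 312) (nat_lit 308)) (XT.lf (nat_lit 836) (nat_lit 393229533) (nat_lit 76) (nat_lit 262607707) (nat_lit 0) (nat_lit 262607707) (nat_lit 305) (nat_lit 1) (nat_lit 295) (nat_lit 1) (nat_lit 294) (nat_lit 1) (nat_lit 401) (nat_lit 312) (nat_lit 307)))) (XT.nd (nat_lit 78) (nat_lit 0) (nat_lit 0) (XT.lf (nat_lit 836)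 (nat_lit 172419792) (nat_lit 0) (nat_lit 552479243) (nat_lit 760) (nat_lit 172419792) (nat_lit 306) (nat_lit 1) (nat_lit 295) (nat_lit 1) (nat_lit 305) (nat_lit 1) (nat_lit 402) (nat_lit 312) (nat_lit 306)) (XT.nd (nat_lit 78) (nat_lit 0) (nat_lit 76) (XT.lf (nat_lit 836) (nat_lit 289842965) (nat_lit 76) (nat_lit 293465709) (nat_lit 0) (nat_lit 293465709) (nat_lit 306) (nat_lit 1) (nat_lit 296) (nat_lit 1) (nat_lit 295) (nat_lit 1) (nat_lit 403) (nat_lit 312) (nat_lit 305)) (XT.lf (nat_lit 836) (nat_lit 116356854) (nat_lit 0) (nat_lit 624268276) (nat_lit 760) (nat_lit 116356854) (nat_lit 307) (nat_lit 1) (nat_lit 296) (nat_lit 1) (nat_lit 306) (nat_lit 1) (nat_lit 404) (nat_lit 312) (nat_lit 304)))))) (XT.nd (nat_lit 468) (nat_lit 1368) (nat_lit 0) (XT.nd (nat_lit 234) (nat_lit 912) (nat_lit 0) (XT.nd (nat_lit 78) (nat_lit 684) (nat_lit 0) (XT.lf (nat_lit 836) (nat_lit 168236048) (nat_lit 76) (nat_lit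 334708281) (nat_lit 0) (nat_lit 334708281) (nat_lit 307) (nat_lit 1) (nat_lit 297) (nat_lit 1) (nat_lit 296) (nat_lit 1) (nat_lit 405) (nat_lit 312) (nat_lit 303)) (XT.nd (nat_lit 78) (nat_lit 760) (nat_lit 0) (XT.lf (nat_lit 76) (nat_lit 52035393) (nat_lit 0) (nat_lit 715041565) (nat_lit 760) (nat_lit 52035393) (nat_lit 298) (nat_lit 1) (nat_lit 297) (nat_lit 1) (nat_lit 307) (nat_lit 1) (nat_lit 406) (nat_lit 312) (nat_lit 302)) (XT.lf (nat_lit 836) (nat_lit 31428083) (nat_lit 0) (nat_lit 384738845) (nat_lit 760) (nat_lit 384738845) (nat_lit 298) (nat_lit 1) (nat_lit 287) (nat_lit 1) (nat_lit 297) (nat_lit 1) (nat_lit 407) (nat_lit 312) (nat_lit 301)))) (XT.nd (nat_lit 78) (nat_lit 380) (nat_lit 0) (XT.lf (nat_lit 532) (nat_lit 745827998) (nat_lit 0) (nat_lit 18826694) (nat_lit 456) (nat_lit 18826694) (nat_lit 287) (nat_lit 1) (nat_lit 280) (nat_lit 1) (nat_lit 286) (nat_lit 1) (nat_lit 408)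 (nat_lit 312) (nat_lit 300)) (XT.nd (nat_lit 78) (nat_lit 380) (nat_lit 0) (XT.lf (nat_lit 76) (nat_lit 326074702) (nat_lit 0) (nat_lit 114131737) (nat_lit 532) (nat_lit 326074702) (nat_lit 281) (nat_lit 1) (nat_lit 280) (nat_lit 1) (nat_lit 287) (nat_lit 1) (nat_lit 409) (nat_lit 312) (nat_lit 299)) (XT.lf (nat_lit 456) (nat_lit 561090863) (nat_lit 0) (nat_lit 94360717) (nat_lit 380) (nat_lit 94360717) (nat_lit 281) (nat_lit 1) (nat_lit 275) (nat_lit 1) (nat_lit 280) (nat_lit 1) (nat_lit 410) (nat_lit 312) (nat_lit 298))))) (XT.nd (nat_lit 234) (nat_lit 988) (nat_lit 0) (XT.nd (nat_lit 78) (nat_lit 380) (nat_lit 0) (XT.lf (nat_lit 76) (nat_lit 232585116) (nat_lit 0) (nat_lit 268519443) (nat_lit 456) (nat_lit 232585116) (nat_lit 276) (nat_lit 1) (nat_lit 275) (nat_lit 1) (nat_lit 281) (nat_lit 1) (nat_lit 411) (nat_lit 312) (nat_lit 297)) (XT.nd (nat_lit 78) (nat_lit 0) (nat_lit 0) (XT.lf (nat_lit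 456) (nat_lit 369486290) (nat_lit 0) (nat_lit 174321134) (nat_lit 380) (nat_lit 174321134) (nat_lit 276) (nat_lit 1) (nat_lit 270) (nat_lit 1) (nat_lit 275) (nat_lit 1) (nat_lit 412) (nat_lit 312) (nat_lit 296)) (XT.lf (nat_lit 76) (nat_lit 136150787) (nat_lit 0) (nat_lit 430718438) (nat_lit 456) (nat_lit 136150787) (nat_lit 271) (nat_lit 1) (nat_lit 270) (nat_lit 1) (nat_lit 276) (nat_lit 1) (nat_lit 413) (nat_lit 312) (nat_lit 295)))) (XT.nd (nat_lit 156) (nat_lit 684) (nat_lit 0) (XT.nd (nat_lit 78) (nat_lit 0) (nat_lit 0) (XT.lf (nat_lit 380) (nat_lit 172797631) (nat_lit 0) (nat_lit 257751239) (nat_lit 304) (nat_lit 257751239) (nat_lit 271) (nat_lit 1) (nat_lit 266) (nat_lit 1) (nat_lit 270) (nat_lit 1) (nat_lit 414) (nat_lit 312) (nat_lit 294)) (XT.lf (nat_lit 76) (nat_lit 37599611) (nat_lit 0) (nat_lit 598947037) (nat_lit 380) (nat_lit 37599611) (nat_lit 267) (nat_lit 1) (nat_lit 266) (nat_lit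 1) (nat_lit 271) (nat_lit 1) (nat_lit 415) (nat_lit 312) (nat_lit 293))) (XT.nd (nat_lit 78) (nat_lit 304) (nat_lit 0) (XT.lf (nat_lit 76) (nat_lit 316825132) (nat_lit 0) (nat_lit 26534720) (nat_lit 380) (nat_lit 316825132) (nat_lit 262) (nat_lit 1) (nat_lit 261) (nat_lit 1) (nat_lit 266) (nat_lit 1) (nat_lit 416) (nat_lit 312) (nat_lit 292)) (XT.lf (nat_lit 380) (nat_lit 524078732) (nat_lit 0) (nat_lit 61338327) (nat_lit 304) (nat_lit 61338327) (nat_lit 262) (nat_lit 1) (nat_lit 257) (nat_lit 1) (nat_lit 261) (nat_lit 1) (nat_lit 417) (nat_lit 312) (nat_lit 291))))))) (XT.nd (nat_lit 1014) (nat_lit 1520) (nat_lit 0) (XT.nd (nat_lit 468) (nat_lit 988) (nat_lit 0) (XT.nd (nat_lit 234) (nat_lit 608) (nat_lit 0) (XT.nd (nat_lit 78) (nat_lit 304) (nat_lit 0) (XT.lf (nat_lit 76) (nat_lit 205566719) (nat_lit 0) (nat_lit 222422741) (nat_lit 380) (nat_lit 205566719) (nat_lit 258) (nat_lit 1) (nat_lit 257)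 (nat_lit 1) (nat_lit 262) (nat_lit 1) (nat_lit 418) (nat_lit 312) (nat_lit 290)) (XT.nd (nat_lit 78) (nat_lit 0) (nat_lit 0) (XT.lf (nat_lit 380) (nat_lit 299979027) (nat_lit 0) (nat_lit 160417822) (nat_lit 304) (nat_lit 160417822) (nat_lit 258) (nat_lit 1) (nat_lit 253) (nat_lit 1) (nat_lit 257) (nat_lit 1) (nat_lit 419) (nat_lit 312) (nat_lit 289)) (XT.lf (nat_lit 76) (nat_lit 94599997) (nat_lit 0) (nat_lit 419245734) (nat_lit 380) (nat_lit 94599997) (nat_lit 254) (nat_lit 1) (nat_lit 253) (nat_lit 1) (nat_lit 258) (nat_lit 1) (nat_lit 420) (nat_lit 312) (nat_lit 288)))) (XT.nd (nat_lit 78) (nat_lit 380) (nat_lit 0) (XT.lf (nat_lit 304) (nat_lit 76934126) (nat_lit 0) (nat_lit 259704827) (nat_lit 228) (nat_lit 259704827) (nat_lit 254) (nat_lit 1) (nat_lit 250) (nat_lit 1) (nat_lit 253) (nat_lit 1) (nat_lit 421) (nat_lit 312) (nat_lit 287)) (XT.nd (nat_lit 78) (nat_lit 0) (nat_lit 0) (XT.lf (nat_lit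 380) (nat_lit 553965880) (nat_lit 0) (nat_lit 15371490) (nat_lit 304) (nat_lit 15371490) (nat_lit 250) (nat_lit 1) (nat_lit 245) (nat_lit 1) (nat_lit 249) (nat_lit 1) (nat_lit 422) (nat_lit 312) (nat_lit 286)) (XT.lf (nat_lit 76) (nat_lit 216770944) (nat_lit 0) (nat_lit 139596449) (nat_lit 380) (nat_lit 216770944) (nat_lit 246) (nat_lit 1) (nat_lit 245) (nat_lit 1) (nat_lit 250) (nat_lit 1) (nat_lit 423) (nat_lit 312) (nat_lit 285))))) (XT.nd (nat_lit 234) (nat_lit 532) (nat_lit 0) (XT.nd (nat_lit 78) (nat_lit 228) (nat_lit 0) (XT.lf (nat_lit 304) (nat_lit 316600817) (nat_lit 0) (nat_lit 122705378) (nat_lit 228) (nat_lit 122705378) (nat_lit 246) (nat_lit 1) (nat_lit 242) (nat_lit 1) (nat_lit 245) (nat_lit 1) (nat_lit 424) (nat_lit 312) (nat_lit 284)) (XT.nd (nat_lit 78) (nat_lit 228) (nat_lit 0) (XT.lf (nat_lit 76) (nat_lit 100019095) (nat_lit 0) (nat_lit 351129316) (nat_lit 304) (nat_lit 100019095)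 (nat_lit 243) (nat_lit 1) (nat_lit 242) (nat_lit 1) (nat_lit 246) (nat_lit 1) (nat_lit 425) (nat_lit 312) (nat_lit 283)) (XT.lf (nat_lit 304) (nat_lit 83362789) (nat_lit 0) (nat_lit 228603674) (nat_lit 228) (nat_lit 228603674) (nat_lit 243) (nat_lit 1) (nat_lit 239) (nat_lit 1) (nat_lit 242) (nat_lit 1) (nat_lit 426) (nat_lit 312) (nat_lit 282)))) (XT.nd (nat_lit 156) (nat_lit 228) (nat_lit 0) (XT.nd (nat_lit 78) (nat_lit 0) (nat_lit 0) (XT.lf (nat_lit 304) (nat_lit 501712962) (nat_lit 0) (nat_lit 14326756) (nat_lit 228) (nat_lit 14326756) (nat_lit 239) (nat_lit 1) (nat_lit 235) (nat_lit 1) (nat_lit 238) (nat_lit 1) (nat_lit 427) (nat_lit 312) (nat_lit 281)) (XT.lf (nat_lit 76) (nat_lit 189783645) (nat_lit 0) (nat_lit 140627775) (nat_lit 304) (nat_lit 189783645) (nat_lit 236) (nat_lit 1) (nat_lit 235) (nat_lit 1) (nat_lit 239) (nat_lit 1) (nat_lit 428) (nat_lit 312) (nat_lit 280))) (XT.nd (nat_lit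 78) (nat_lit 0) (nat_lit 0) (XT.lf (nat_lit 304) (nat_lit 260969890) (nat_lit 0) (nat_lit 124715055) (nat_lit 228) (nat_lit 124715055) (nat_lit 236) (nat_lit 1) (nat_lit 232) (nat_lit 1) (nat_lit 235) (nat_lit 1) (nat_lit 429) (nat_lit 312) (nat_lit 279)) (XT.lf (nat_lit 76) (nat_lit 71870895) (nat_lit 0) (nat_lit 357125855) (nat_lit 304) (nat_lit 71870895) (nat_lit 233) (nat_lit 1) (nat_lit 232) (nat_lit 1) (nat_lit 236) (nat_lit 1) (nat_lit 430) (nat_lit 312) (nat_lit 278)))))) (XT.nd (nat_lit 468) (nat_lit 684) (nat_lit 0) (XT.nd (nat_lit 234) (nat_lit 380) (nat_lit 0) (XT.nd (nat_lit 78) (nat_lit 304) (nat_lit 0) (XT.lf (nat_lit 228) (nat_lit 26335885) (nat_lit 0) (nat_lit 232589517) (nat_lit 152) (nat_lit 232589517) (nat_lit 233) (nat_lit 1) (nat_lit 230) (nat_lit 1) (nat_lit 232) (nat_lit 1) (nat_lit 431) (nat_lit 312) (nat_lit 277)) (XT.nd (nat_lit 78) (nat_lit 0) (nat_lit 0) (XT.lf (nat_lit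 304) (nat_lit 397926400) (nat_lit 0) (nat_lit 42262668) (nat_lit 228) (nat_lit 42262668) (nat_lit 230) (nat_lit 1) (nat_lit 226) (nat_lit 1) (nat_lit 229) (nat_lit 1) (nat_lit 432) (nat_lit 312) (nat_lit 276)) (XT.lf (nat_lit 76) (nat_lit 138986246) (nat_lit 0) (nat_lit 195517424) (nat_lit 304) (nat_lit 138986246) (nat_lit 227) (nat_lit 1) (nat_lit 226) (nat_lit 1) (nat_lit 230) (nat_lit 1) (nat_lit 433) (nat_lit 312) (nat_lit 275)))) (XT.nd (nat_lit 78) (nat_lit 228) (nat_lit 0) (XT.lf (nat_lit 228) (nat_lit 160577167) (nat_lit 0) (nat_lit 152113757) (nat_lit 152) (nat_lit 152113757) (nat_lit 227) (nat_lit 1) (nat_lit 224) (nat_lit 1) (nat_lit 226) (nat_lit 1) (nat_lit 434) (nat_lit 312) (nat_lit 274)) (XT.nd (nat_lit 78) (nat_lit 228) (nat_lit 0) (XT.lf (nat_lit 76) (nat_lit 23069842) (nat_lit 0) (nat_lit 410267993) (nat_lit 228) (nat_lit 23069842) (nat_lit 225) (nat_lit 1) (nat_lit 224) (nat_lit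 1) (nat_lit 227) (nat_lit 1) (nat_lit 435) (nat_lit 312) (nat_lit 273)) (XT.lf (nat_lit 76) (nat_lit 190399455) (nat_lit 0) (nat_lit 67242287) (nat_lit 228) (nat_lit 190399455) (nat_lit 222) (nat_lit 1) (nat_lit 221) (nat_lit 1) (nat_lit 224) (nat_lit 1) (nat_lit 436) (nat_lit 312) (nat_lit 272))))) (XT.nd (nat_lit 234) (nat_lit 380) (nat_lit 0) (XT.nd (nat_lit 78) (nat_lit 152) (nat_lit 0) (XT.lf (nat_lit 228) (nat_lit 264403013) (nat_lit 0) (nat_lit 87774636) (nat_lit 152) (nat_lit 87774636) (nat_lit 222) (nat_lit 1) (nat_lit 219) (nat_lit 1) (nat_lit 221) (nat_lit 1) (nat_lit 437) (nat_lit 312) (nat_lit 271)) (XT.nd (nat_lit 78) (nat_lit 152) (nat_lit 0) (XT.lf (nat_lit 76) (nat_lit 74607651) (nat_lit 0) (nat_lit 282826856) (nat_lit 228) (nat_lit 74607651) (nat_lit 220) (nat_lit 1) (nat_lit 219) (nat_lit 1) (nat_lit 222) (nat_lit 1) (nat_lit 438) (nat_lit 312) (nat_lit 270)) (XT.lf (nat_lit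 228) (nat_lit 34950998) (nat_lit 0) (nat_lit 194670241) (nat_lit 152) (nat_lit 194670241) (nat_lit 220) (nat_lit 1) (nat_lit 217) (nat_lit 1) (nat_lit 219) (nat_lit 1) (nat_lit 439) (nat_lit 312) (nat_lit 269)))) (XT.nd (nat_lit 156) (nat_lit 152) (nat_lit 0) (XT.nd (nat_lit 78) (nat_lit 0) (nat_lit 0) (XT.lf (nat_lit 228) (nat_lit 343520995) (nat_lit 0) (nat_lit 36622194) (nat_lit 152) (nat_lit 36622194) (nat_lit 217) (nat_lit 1) (nat_lit 214) (nat_lit 1) (nat_lit 216) (nat_lit 1) (nat_lit 440) (nat_lit 312) (nat_lit 268)) (XT.lf (nat_lit 76) (nat_lit 114358981) (nat_lit 0) (nat_lit 180585558) (nat_lit 228) (nat_lit 114358981) (nat_lit 215) (nat_lit 1) (nat_lit 214) (nat_lit 1) (nat_lit 217) (nat_lit 1) (nat_lit 441) (nat_lit 312) (nat_lit 267))) (XT.nd (nat_lit 78) (nat_lit 0) (nat_lit 0) (XT.lf (nat_lit 228) (nat_lit 116469070) (nat_lit 0) (nat_lit 142794607) (nat_lit 152) (nat_lit 142794607)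 (nat_lit 215) (nat_lit 1) (nat_lit 212) (nat_lit 1) (nat_lit 214) (nat_lit 1) (nat_lit 442) (nat_lit 312) (nat_lit 266)) (XT.lf (nat_lit 76) (nat_lit 3828017) (nat_lit 0) (nat_lit 387411107) (nat_lit 228) (nat_lit 3828017) (nat_lit 213) (nat_lit 1) (nat_lit 212) (nat_lit 1) (nat_lit 215) (nat_lit 1) (nat_lit 443) (nat_lit 312) (nat_lit 265))))))))
noncomputable def ec12 : XT := (XT.nd (nat_lit 50934) (nat_lit 0) (nat_lit 304) (XT.nd (nat_lit 49920) (nat_lit 0) (nat_lit 3724) (XT.nd (nat_lit 49452) (nat_lit 0) (nat_lit 6460) (XT.nd (nat_lit 49218) (nat_lit 0) (nat_lit 6384) (XT.nd (nat_lit 78) (nat_lit 152) (nat_lit 0) (XT.lf (nat_lit 76) (nat_lit 144539684) (nat_lit 0) (nat_lit 98952188) (nat_lit 152) (nat_lit 144539684) (nat_lit 211) (nat_lit 1) (nat_lit 210) (nat_lit 1) (nat_lit 212) (nat_lit 1) (nat_lit 444) (nat_lit 312) (nat_lit 264)) (XT.nd (nat_lit 78) (nat_lit 0) (nat_lit 0) (XT.lf (nat_lit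 228) (nat_lit 179357294) (nat_lit 0) (nat_lit 100943113) (nat_lit 152) (nat_lit 100943113) (nat_lit 211) (nat_lit 1) (nat_lit 208) (nat_lit 1) (nat_lit 210) (nat_lit 1) (nat_lit 445) (nat_lit 312) (nat_lit 263)) (XT.lf (nat_lit 76) (nat_lit 35959897) (nat_lit 0) (nat_lit 302718916) (nat_lit 228) (nat_lit 35959897) (nat_lit 209) (nat_lit 1) (nat_lit 208) (nat_lit 1) (nat_lit 211) (nat_lit 1) (nat_lit 446) (nat_lit 312) (nat_lit 262)))) (XT.nd (nat_lit 78) (nat_lit 0) (nat_lit 0) (XT.lf (nat_lit 836) (nat_lit 143925784) (nat_lit 0) (nat_lit 255539898) (nat_lit 836) (nat_lit 143925784) (nat_lit 303) (nat_lit 1) (nat_lit 292) (nat_lit 0) (nat_lit 303) (nat_lit 0) (nat_lit 394) (nat_lit 313) (nat_lit 313)) (XT.nd (nat_lit 78) (nat_lit 0) (nat_lit 76) (XT.lf (nat_lit 836) (nat_lit 557874307) (nat_lit 76) (nat_lit 251418287) (nat_lit 0) (nat_lit 251418287) (nat_lit 303) (nat_lit 1) (nat_lit 293) (nat_lit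 1) (nat_lit 292) (nat_lit 0) (nat_lit 395) (nat_lit 313) (nat_lit 312)) (XT.lf (nat_lit 836) (nat_lit 265874495) (nat_lit 0) (nat_lit 503695868) (nat_lit 760) (nat_lit 265874495) (nat_lit 304) (nat_lit 1) (nat_lit 293) (nat_lit 1) (nat_lit 303) (nat_lit 1) (nat_lit 396) (nat_lit 313) (nat_lit 311))))) (XT.nd (nat_lit 234) (nat_lit 0) (nat_lit 152) (XT.nd (nat_lit 78) (nat_lit 0) (nat_lit 76) (XT.lf (nat_lit 836) (nat_lit 498743608) (nat_lit 76) (nat_lit 256125753) (nat_lit 0) (nat_lit 256125753) (nat_lit 304) (nat_lit 1) (nat_lit 294) (nat_lit 1) (nat_lit 293) (nat_lit 1) (nat_lit 397) (nat_lit 313) (nat_lit 310)) (XT.nd (nat_lit 78) (nat_lit 0) (nat_lit 0) (XT.lf (nat_lit 836) (nat_lit 229566893) (nat_lit 0) (nat_lit 528186518) (nat_lit 760) (nat_lit 229566893) (nat_lit 305) (nat_lit 1) (nat_lit 294) (nat_lit 1) (nat_lit 304) (nat_lit 1) (nat_lit 398) (nat_lit 313) (nat_lit 309)) (XT.lf (nat_lit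 836) (nat_lit 412891010) (nat_lit 76) (nat_lit 275738092) (nat_lit 0) (nat_lit 275738092) (nat_lit 305) (nat_lit 1) (nat_lit 295) (nat_lit 1) (nat_lit 294) (nat_lit 1) (nat_lit 399) (nat_lit 313) (nat_lit 308)))) (XT.nd (nat_lit 78) (nat_lit 0) (nat_lit 0) (XT.lf (nat_lit 836) (nat_lit 181040782) (nat_lit 0) (nat_lit 580103205) (nat_lit 760) (nat_lit 181040782) (nat_lit 306) (nat_lit 1) (nat_lit 295) (nat_lit 1) (nat_lit 305) (nat_lit 1) (nat_lit 400) (nat_lit 313) (nat_lit 307)) (XT.nd (nat_lit 78) (nat_lit 0) (nat_lit 76) (XT.lf (nat_lit 836) (nat_lit 304335114) (nat_lit 76) (nat_lit 308138995) (nat_lit 0) (nat_lit 308138995) (nat_lit 306) (nat_lit 1) (nat_lit 296) (nat_lit 1) (nat_lit 295) (nat_lit 1) (nat_lit 401) (nat_lit 313) (nat_lit 306)) (XT.lf (nat_lit 836) (nat_lit 122174697) (nat_lit 0) (nat_lit 655481690) (nat_lit 760) (nat_lit 122174697) (nat_lit 307) (nat_lit 1) (nat_lit 296) (nat_lit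 1) (nat_lit 306) (nat_lit 1) (nat_lit 402) (nat_lit 313) (nat_lit 305)))))) (XT.nd (nat_lit 468) (nat_lit 1368) (nat_lit 0) (XT.nd (nat_lit 234) (nat_lit 912) (nat_lit 0) (XT.nd (nat_lit 78) (nat_lit 684) (nat_lit 0) (XT.lf (nat_lit 836) (nat_lit 176647851) (nat_lit 76) (nat_lit 351443695) (nat_lit 0) (nat_lit 351443695) (nat_lit 307) (nat_lit 1) (nat_lit 297) (nat_lit 1) (nat_lit 296) (nat_lit 1) (nat_lit 403) (nat_lit 313) (nat_lit 304)) (XT.nd (nat_lit 78) (nat_lit 760) (nat_lit 0) (XT.lf (nat_lit 76) (nat_lit 54637162) (nat_lit 0) (nat_lit 750793644) (nat_lit 760) (nat_lit 54637162) (nat_lit 298) (nat_lit 1) (nat_lit 297) (nat_lit 1) (nat_lit 307) (nat_lit 1) (nat_lit 404) (nat_lit 313) (nat_lit 303)) (XT.lf (nat_lit 836) (nat_lit 32999487) (nat_lit 0) (nat_lit 403975788) (nat_lit 760) (nat_lit 403975788) (nat_lit 298) (nat_lit 1) (nat_lit 287) (nat_lit 1) (nat_lit 297) (nat_lit 1) (nat_lit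 405) (nat_lit 313) (nat_lit 302)))) (XT.nd (nat_lit 78) (nat_lit 380) (nat_lit 0) (XT.lf (nat_lit 532) (nat_lit 783119398) (nat_lit 0) (nat_lit 19768029) (nat_lit 456) (nat_lit 19768029) (nat_lit 287) (nat_lit 1) (nat_lit 280) (nat_lit 1) (nat_lit 286) (nat_lit 1) (nat_lit 406) (nat_lit 313) (nat_lit 301)) (XT.nd (nat_lit 78) (nat_lit 380) (nat_lit 0) (XT.lf (nat_lit 76) (nat_lit 342378437) (nat_lit 0) (nat_lit 119838323) (nat_lit 532) (nat_lit 342378437) (nat_lit 281) (nat_lit 1) (nat_lit 280) (nat_lit 1) (nat_lit 287) (nat_lit 1) (nat_lit 407) (nat_lit 313) (nat_lit 300)) (XT.lf (nat_lit 456) (nat_lit 589145406) (nat_lit 0) (nat_lit 99078753) (nat_lit 380) (nat_lit 99078753) (nat_lit 281) (nat_lit 1) (nat_lit 275) (nat_lit 1) (nat_lit 280) (nat_lit 1) (nat_lit 408) (nat_lit 313) (nat_lit 299))))) (XT.nd (nat_lit 234) (nat_lit 988) (nat_lit 0) (XT.nd (nat_lit 78) (nat_lit 380) (nat_lit 0) (XT.lf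 (nat_lit 76) (nat_lit 244214371) (nat_lit 0) (nat_lit 281945415) (nat_lit 456) (nat_lit 244214371) (nat_lit 276) (nat_lit 1) (nat_lit 275) (nat_lit 1) (nat_lit 281) (nat_lit 1) (nat_lit 409) (nat_lit 313) (nat_lit 298)) (XT.nd (nat_lit 78) (nat_lit 0) (nat_lit 0) (XT.lf (nat_lit 456) (nat_lit 387960605) (nat_lit 0) (nat_lit 183037191) (nat_lit 380) (nat_lit 183037191) (nat_lit 276) (nat_lit 1) (nat_lit 270) (nat_lit 1) (nat_lit 275) (nat_lit 1) (nat_lit 410) (nat_lit 313) (nat_lit 297)) (XT.lf (nat_lit 76) (nat_lit 142958327) (nat_lit 0) (nat_lit 452254360) (nat_lit 456) (nat_lit 142958327) (nat_lit 271) (nat_lit 1) (nat_lit 270) (nat_lit 1) (nat_lit 276) (nat_lit 1) (nat_lit 411) (nat_lit 313) (nat_lit 296)))) (XT.nd (nat_lit 156) (nat_lit 684) (nat_lit 0) (XT.nd (nat_lit 78) (nat_lit 0) (nat_lit 0) (XT.lf (nat_lit 380) (nat_lit 181437513) (nat_lit 0) (nat_lit 270638801) (nat_lit 304) (nat_lit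 270638801) (nat_lit 271) (nat_lit 1) (nat_lit 266) (nat_lit 1) (nat_lit 270) (nat_lit 1) (nat_lit 412) (nat_lit 313) (nat_lit 295)) (XT.lf (nat_lit 76) (nat_lit 39479592) (nat_lit 0) (nat_lit 628894389) (nat_lit 380) (nat_lit 39479592) (nat_lit 267) (nat_lit 1) (nat_lit 266) (nat_lit 1) (nat_lit 271) (nat_lit 1) (nat_lit 413) (nat_lit 313) (nat_lit 294))) (XT.nd (nat_lit 78) (nat_lit 304) (nat_lit 0) (XT.lf (nat_lit 76) (nat_lit 332666388) (nat_lit 0) (nat_lit 27861456) (nat_lit 380) (nat_lit 332666388) (nat_lit 262) (nat_lit 1) (nat_lit 261) (nat_lit 1) (nat_lit 266) (nat_lit 1) (nat_lit 414) (nat_lit 313) (nat_lit 293)) (XT.lf (nat_lit 380) (nat_lit 550282669) (nat_lit 0) (nat_lit 64405244) (nat_lit 304) (nat_lit 64405244) (nat_lit 262) (nat_lit 1) (nat_lit 257) (nat_lit 1) (nat_lit 261) (nat_lit 1) (nat_lit 415) (nat_lit 313) (nat_lit 292))))))) (XT.nd (nat_lit 936) (nat_lit 1520) (nat_lit 0)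 (XT.nd (nat_lit 468) (nat_lit 988) (nat_lit 0) (XT.nd (nat_lit 234) (nat_lit 608) (nat_lit 0) (XT.nd (nat_lit 78) (nat_lit 304) (nat_lit 0) (XT.lf (nat_lit 76) (nat_lit 215845055) (nat_lit 0) (nat_lit 233543878) (nat_lit 380) (nat_lit 215845055) (nat_lit 258) (nat_lit 1) (nat_lit 257) (nat_lit 1) (nat_lit 262) (nat_lit 1) (nat_lit 416) (nat_lit 313) (nat_lit 291)) (XT.nd (nat_lit 78) (nat_lit 0) (nat_lit 0) (XT.lf (nat_lit 380) (nat_lit 314977978) (nat_lit 0) (nat_lit 168438714) (nat_lit 304) (nat_lit 168438714) (nat_lit 258) (nat_lit 1) (nat_lit 253) (nat_lit 1) (nat_lit 257) (nat_lit 1) (nat_lit 417) (nat_lit 313) (nat_lit 290)) (XT.lf (nat_lit 76) (nat_lit 99329997) (nat_lit 0) (nat_lit 440208021) (nat_lit 380) (nat_lit 99329997) (nat_lit 254) (nat_lit 1) (nat_lit 253) (nat_lit 1) (nat_lit 258) (nat_lit 1) (nat_lit 418) (nat_lit 313) (nat_lit 289)))) (XT.nd (nat_lit 78) (nat_lit 380) (nat_lit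 0) (XT.lf (nat_lit 304) (nat_lit 80780832) (nat_lit 0) (nat_lit 272690069) (nat_lit 228) (nat_lit 272690069) (nat_lit 254) (nat_lit 1) (nat_lit 250) (nat_lit 1) (nat_lit 253) (nat_lit 1) (nat_lit 419) (nat_lit 313) (nat_lit 288)) (XT.nd (nat_lit 78) (nat_lit 0) (nat_lit 0) (XT.lf (nat_lit 380) (nat_lit 581664174) (nat_lit 0) (nat_lit 16140064) (nat_lit 304) (nat_lit 16140064) (nat_lit 250) (nat_lit 1) (nat_lit 245) (nat_lit 1) (nat_lit 249) (nat_lit 1) (nat_lit 420) (nat_lit 313) (nat_lit 287)) (XT.lf (nat_lit 76) (nat_lit 227609491) (nat_lit 0) (nat_lit 146576271) (nat_lit 380) (nat_lit 227609491) (nat_lit 246) (nat_lit 1) (nat_lit 245) (nat_lit 1) (nat_lit 250) (nat_lit 1) (nat_lit 421) (nat_lit 313) (nat_lit 286))))) (XT.nd (nat_lit 234) (nat_lit 532) (nat_lit 0) (XT.nd (nat_lit 78) (nat_lit 228) (nat_lit 0) (XT.lf (nat_lit 304) (nat_lit 332430858) (nat_lit 0) (nat_lit 128840647) (nat_lit 228)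 (nat_lit 128840647) (nat_lit 246) (nat_lit 1) (nat_lit 242) (nat_lit 1) (nat_lit 245) (nat_lit 1) (nat_lit 422) (nat_lit 313) (nat_lit 285)) (XT.nd (nat_lit 78) (nat_lit 228) (nat_lit 0) (XT.lf (nat_lit 76) (nat_lit 105020050) (nat_lit 0) (nat_lit 368685781) (nat_lit 304) (nat_lit 105020050) (nat_lit 243) (nat_lit 1) (nat_lit 242) (nat_lit 1) (nat_lit 246) (nat_lit 1) (nat_lit 423) (nat_lit 313) (nat_lit 284)) (XT.lf (nat_lit 304) (nat_lit 87530929) (nat_lit 0) (nat_lit 240033858) (nat_lit 228) (nat_lit 240033858) (nat_lit 243) (nat_lit 1) (nat_lit 239) (nat_lit 1) (nat_lit 242) (nat_lit 1) (nat_lit 424) (nat_lit 313) (nat_lit 283)))) (XT.nd (nat_lit 78) (nat_lit 228) (nat_lit 0) (XT.lf (nat_lit 304) (nat_lit 526798610) (nat_lit 0) (nat_lit 15043094) (nat_lit 228) (nat_lit 15043094) (nat_lit 239) (nat_lit 1) (nat_lit 235) (nat_lit 1) (nat_lit 238) (nat_lit 1) (nat_lit 425) (nat_lit 313) (nat_lit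 282)) (XT.nd (nat_lit 78) (nat_lit 228) (nat_lit 0) (XT.lf (nat_lit 76) (nat_lit 199272827) (nat_lit 0) (nat_lit 147659164) (nat_lit 304) (nat_lit 199272827) (nat_lit 236) (nat_lit 1) (nat_lit 235) (nat_lit 1) (nat_lit 239) (nat_lit 1) (nat_lit 426) (nat_lit 313) (nat_lit 281)) (XT.lf (nat_lit 304) (nat_lit 274018385) (nat_lit 0) (nat_lit 130950808) (nat_lit 228) (nat_lit 130950808) (nat_lit 236) (nat_lit 1) (nat_lit 232) (nat_lit 1) (nat_lit 235) (nat_lit 1) (nat_lit 427) (nat_lit 313) (nat_lit 280)))))) (XT.nd (nat_lit 468) (nat_lit 912) (nat_lit 0) (XT.nd (nat_lit 234) (nat_lit 152) (nat_lit 0) (XT.nd (nat_lit 78) (nat_lit 456) (nat_lit 0) (XT.lf (nat_lit 76) (nat_lit 75464439) (nat_lit 0) (nat_lit 374982147) (nat_lit 304) (nat_lit 75464439) (nat_lit 233) (nat_lit 1) (nat_lit 232) (nat_lit 1) (nat_lit 236) (nat_lit 1) (nat_lit 428) (nat_lit 313) (nat_lit 279)) (XT.nd (nat_lit 78) (nat_lit 304)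 (nat_lit 0) (XT.lf (nat_lit 228) (nat_lit 27652679) (nat_lit 0) (nat_lit 244218992) (nat_lit 152) (nat_lit 244218992) (nat_lit 233) (nat_lit 1) (nat_lit 230) (nat_lit 1) (nat_lit 232) (nat_lit 1) (nat_lit 429) (nat_lit 313) (nat_lit 278)) (XT.lf (nat_lit 304) (nat_lit 417822720) (nat_lit 0) (nat_lit 44375801) (nat_lit 228) (nat_lit 44375801) (nat_lit 230) (nat_lit 1) (nat_lit 226) (nat_lit 1) (nat_lit 229) (nat_lit 1) (nat_lit 430) (nat_lit 313) (nat_lit 277)))) (XT.nd (nat_lit 78) (nat_lit 152) (nat_lit 0) (XT.lf (nat_lit 76) (nat_lit 145935558) (nat_lit 0) (nat_lit 205293295) (nat_lit 304) (nat_lit 145935558) (nat_lit 227) (nat_lit 1) (nat_lit 226) (nat_lit 1) (nat_lit 230) (nat_lit 1) (nat_lit 431) (nat_lit 313) (nat_lit 276)) (XT.nd (nat_lit 78) (nat_lit 0) (nat_lit 0) (XT.lf (nat_lit 228) (nat_lit 168606026) (nat_lit 0) (nat_lit 159719445) (nat_lit 152) (nat_lit 159719445) (nat_lit 227) (nat_lit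 1) (nat_lit 224) (nat_lit 1) (nat_lit 226) (nat_lit 1) (nat_lit 432) (nat_lit 313) (nat_lit 275)) (XT.lf (nat_lit 76) (nat_lit 24223334) (nat_lit 0) (nat_lit 430781393) (nat_lit 228) (nat_lit 24223334) (nat_lit 225) (nat_lit 1) (nat_lit 224) (nat_lit 1) (nat_lit 227) (nat_lit 1) (nat_lit 433) (nat_lit 313) (nat_lit 274))))) (XT.nd (nat_lit 234) (nat_lit 532) (nat_lit 0) (XT.nd (nat_lit 78) (nat_lit 152) (nat_lit 0) (XT.lf (nat_lit 76) (nat_lit 199919427) (nat_lit 0) (nat_lit 70604401) (nat_lit 228) (nat_lit 199919427) (nat_lit 222) (nat_lit 1) (nat_lit 221) (nat_lit 1) (nat_lit 224) (nat_lit 1) (nat_lit 434) (nat_lit 313) (nat_lit 273)) (XT.nd (nat_lit 78) (nat_lit 0) (nat_lit 0) (XT.lf (nat_lit 228) (nat_lit 277623164) (nat_lit 0) (nat_lit 92163368) (nat_lit 152) (nat_lit 92163368) (nat_lit 222) (nat_lit 1) (nat_lit 219) (nat_lit 1) (nat_lit 221) (nat_lit 1) (nat_lit 435) (nat_lit 313) (nat_lit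 272)) (XT.lf (nat_lit 76) (nat_lit 78338034) (nat_lit 0) (nat_lit 296968199) (nat_lit 228) (nat_lit 78338034) (nat_lit 220) (nat_lit 1) (nat_lit 219) (nat_lit 1) (nat_lit 222) (nat_lit 1) (nat_lit 436) (nat_lit 313) (nat_lit 271)))) (XT.nd (nat_lit 156) (nat_lit 152) (nat_lit 0) (XT.nd (nat_lit 78) (nat_lit 228) (nat_lit 0) (XT.lf (nat_lit 228) (nat_lit 36698548) (nat_lit 0) (nat_lit 204403753) (nat_lit 152) (nat_lit 204403753) (nat_lit 220) (nat_lit 1) (nat_lit 217) (nat_lit 1) (nat_lit 219) (nat_lit 1) (nat_lit 437) (nat_lit 313) (nat_lit 270)) (XT.lf (nat_lit 228) (nat_lit 360697044) (nat_lit 0) (nat_lit 38453303) (nat_lit 152) (nat_lit 38453303) (nat_lit 217) (nat_lit 1) (nat_lit 214) (nat_lit 1) (nat_lit 216) (nat_lit 1) (nat_lit 438) (nat_lit 313) (nat_lit 269))) (XT.nd (nat_lit 78) (nat_lit 152) (nat_lit 0) (XT.lf (nat_lit 76) (nat_lit 120076930) (nat_lit 0) (nat_lit 189614836) (nat_lit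 228) (nat_lit 120076930) (nat_lit 215) (nat_lit 1) (nat_lit 214) (nat_lit 1) (nat_lit 217) (nat_lit 1) (nat_lit 439) (nat_lit 313) (nat_lit 268)) (XT.lf (nat_lit 228) (nat_lit 122292523) (nat_lit 0) (nat_lit 149934338) (nat_lit 152) (nat_lit 149934338) (nat_lit 215) (nat_lit 1) (nat_lit 212) (nat_lit 1) (nat_lit 214) (nat_lit 1) (nat_lit 440) (nat_lit 313) (nat_lit 267))))))))
noncomputable def ec13 : XT := (XT.nd (nat_lit 50778) (nat_lit 0) (nat_lit 760) (XT.nd (nat_lit 49764) (nat_lit 0) (nat_lit 4712) (XT.nd (nat_lit 49296) (nat_lit 0) (nat_lit 6688) (XT.nd (nat_lit 234) (nat_lit 304) (nat_lit 0) (XT.nd (nat_lit 78) (nat_lit 304) (nat_lit 0) (XT.lf (nat_lit 76) (nat_lit 4019417) (nat_lit 0) (nat_lit 406781662) (nat_lit 228) (nat_lit 4019417) (nat_lit 213) (nat_lit 1) (nat_lit 212) (nat_lit 1) (nat_lit 215) (nat_lit 1) (nat_lit 441) (nat_lit 313) (nat_lit 266)) (XT.nd (nat_lit 78) (nat_lit 152)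 (nat_lit 0) (XT.lf (nat_lit 76) (nat_lit 151766669) (nat_lit 0) (nat_lit 103899797) (nat_lit 152) (nat_lit 151766669) (nat_lit 211) (nat_lit 1) (nat_lit 210) (nat_lit 1) (nat_lit 212) (nat_lit 1) (nat_lit 442) (nat_lit 313) (nat_lit 265)) (XT.lf (nat_lit 228) (nat_lit 188325158) (nat_lit 0) (nat_lit 105990269) (nat_lit 152) (nat_lit 105990269) (nat_lit 211) (nat_lit 1) (nat_lit 208) (nat_lit 1) (nat_lit 210) (nat_lit 1) (nat_lit 443) (nat_lit 313) (nat_lit 264)))) (XT.nd (nat_lit 78) (nat_lit 304) (nat_lit 0) (XT.lf (nat_lit 76) (nat_lit 37757892) (nat_lit 0) (nat_lit 317854862) (nat_lit 228) (nat_lit 37757892) (nat_lit 209) (nat_lit 1) (nat_lit 208) (nat_lit 1) (nat_lit 211) (nat_lit 1) (nat_lit 444) (nat_lit 313) (nat_lit 263)) (XT.nd (nat_lit 78) (nat_lit 152) (nat_lit 0) (XT.lf (nat_lit 76) (nat_lit 175315082) (nat_lit 0) (nat_lit 35862623) (nat_lit 152) (nat_lit 175315082) (nat_lit 207) (nat_lit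 1) (nat_lit 206) (nat_lit 1) (nat_lit 208) (nat_lit 1) (nat_lit 445) (nat_lit 313) (nat_lit 262)) (XT.lf (nat_lit 228) (nat_lit 238473476) (nat_lit 0) (nat_lit 70664093) (nat_lit 152) (nat_lit 70664093) (nat_lit 207) (nat_lit 1) (nat_lit 204) (nat_lit 1) (nat_lit 206) (nat_lit 1) (nat_lit 446) (nat_lit 313) (nat_lit 261))))) (XT.nd (nat_lit 234) (nat_lit 0) (nat_lit 76) (XT.nd (nat_lit 78) (nat_lit 0) (nat_lit 0) (XT.lf (nat_lit 836) (nat_lit 151122073) (nat_lit 0) (nat_lit 268316893) (nat_lit 836) (nat_lit 151122073) (nat_lit 303) (nat_lit 1) (nat_lit 292) (nat_lit 0) (nat_lit 303) (nat_lit 0) (nat_lit 392) (nat_lit 314) (nat_lit 314)) (XT.nd (nat_lit 78) (nat_lit 0) (nat_lit 76) (XT.lf (nat_lit 836) (nat_lit 585768022) (nat_lit 76) (nat_lit 263989201) (nat_lit 0) (nat_lit 263989201) (nat_lit 303) (nat_lit 1) (nat_lit 293) (nat_lit 1) (nat_lit 292) (nat_lit 0) (nat_lit 393) (nat_lit 314) (nat_lit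 313)) (XT.lf (nat_lit 836) (nat_lit 279168219) (nat_lit 0) (nat_lit 528880661) (nat_lit 760) (nat_lit 279168219) (nat_lit 304) (nat_lit 1) (nat_lit 293) (nat_lit 1) (nat_lit 303) (nat_lit 1) (nat_lit 394) (nat_lit 314) (nat_lit 312)))) (XT.nd (nat_lit 78) (nat_lit 0) (nat_lit 76) (XT.lf (nat_lit 836) (nat_lit 523680788) (nat_lit 76) (nat_lit 268932040) (nat_lit 0) (nat_lit 268932040) (nat_lit 304) (nat_lit 1) (nat_lit 294) (nat_lit 1) (nat_lit 293) (nat_lit 1) (nat_lit 395) (nat_lit 314) (nat_lit 311)) (XT.nd (nat_lit 78) (nat_lit 0) (nat_lit 0) (XT.lf (nat_lit 836) (nat_lit 241045238) (nat_lit 0) (nat_lit 554595844) (nat_lit 760) (nat_lit 241045238) (nat_lit 305) (nat_lit 1) (nat_lit 294) (nat_lit 1) (nat_lit 304) (nat_lit 1) (nat_lit 396) (nat_lit 314) (nat_lit 310)) (XT.lf (nat_lit 836) (nat_lit 433535560) (nat_lit 76) (nat_lit 289524997) (nat_lit 0) (nat_lit 289524997) (nat_lit 305) (nat_lit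 1) (nat_lit 295) (nat_lit 1) (nat_lit 294) (nat_lit 1) (nat_lit 397) (nat_lit 314) (nat_lit 309)))))) (XT.nd (nat_lit 468) (nat_lit 1596) (nat_lit 0) (XT.nd (nat_lit 234) (nat_lit 608) (nat_lit 0) (XT.nd (nat_lit 78) (nat_lit 0) (nat_lit 0) (XT.lf (nat_lit 836) (nat_lit 190092821) (nat_lit 0) (nat_lit 609108366) (nat_lit 760) (nat_lit 190092821) (nat_lit 306) (nat_lit 1) (nat_lit 295) (nat_lit 1) (nat_lit 305) (nat_lit 1) (nat_lit 398) (nat_lit 314) (nat_lit 308)) (XT.nd (nat_lit 78) (nat_lit 0) (nat_lit 76) (XT.lf (nat_lit 836) (nat_lit 319551869) (nat_lit 76) (nat_lit 323545944) (nat_lit 0) (nat_lit 323545944) (nat_lit 306) (nat_lit 1) (nat_lit 296) (nat_lit 1) (nat_lit 295) (nat_lit 1) (nat_lit 399) (nat_lit 314) (nat_lit 307)) (XT.lf (nat_lit 836) (nat_lit 128283431) (nat_lit 0) (nat_lit 688255774) (nat_lit 760) (nat_lit 128283431) (nat_lit 307) (nat_lit 1) (nat_lit 296) (nat_lit 1) (nat_lit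 306) (nat_lit 1) (nat_lit 400) (nat_lit 314) (nat_lit 306)))) (XT.nd (nat_lit 78) (nat_lit 684) (nat_lit 0) (XT.lf (nat_lit 836) (nat_lit 185480244) (nat_lit 76) (nat_lit 369015879) (nat_lit 0) (nat_lit 369015879) (nat_lit 307) (nat_lit 1) (nat_lit 297) (nat_lit 1) (nat_lit 296) (nat_lit 1) (nat_lit 401) (nat_lit 314) (nat_lit 305)) (XT.nd (nat_lit 78) (nat_lit 760) (nat_lit 0) (XT.lf (nat_lit 76) (nat_lit 57369020) (nat_lit 0) (nat_lit 788333326) (nat_lit 760) (nat_lit 57369020) (nat_lit 298) (nat_lit 1) (nat_lit 297) (nat_lit 1) (nat_lit 307) (nat_lit 1) (nat_lit 402) (nat_lit 314) (nat_lit 304)) (XT.lf (nat_lit 836) (nat_lit 34649461) (nat_lit 0) (nat_lit 424174577) (nat_lit 760) (nat_lit 424174577) (nat_lit 298) (nat_lit 1) (nat_lit 287) (nat_lit 1) (nat_lit 297) (nat_lit 1) (nat_lit 403) (nat_lit 314) (nat_lit 303))))) (XT.nd (nat_lit 234) (nat_lit 684) (nat_lit 0) (XT.nd (nat_lit 78) (nat_lit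 380) (nat_lit 0) (XT.lf (nat_lit 532) (nat_lit 822275368) (nat_lit 0) (nat_lit 20756430) (nat_lit 456) (nat_lit 20756430) (nat_lit 287) (nat_lit 1) (nat_lit 280) (nat_lit 1) (nat_lit 286) (nat_lit 1) (nat_lit 404) (nat_lit 314) (nat_lit 302)) (XT.nd (nat_lit 78) (nat_lit 380) (nat_lit 0) (XT.lf (nat_lit 76) (nat_lit 359497359) (nat_lit 0) (nat_lit 125830240) (nat_lit 532) (nat_lit 359497359) (nat_lit 281) (nat_lit 1) (nat_lit 280) (nat_lit 1) (nat_lit 287) (nat_lit 1) (nat_lit 405) (nat_lit 314) (nat_lit 301)) (XT.lf (nat_lit 456) (nat_lit 618602677) (nat_lit 0) (nat_lit 104032691) (nat_lit 380) (nat_lit 104032691) (nat_lit 281) (nat_lit 1) (nat_lit 275) (nat_lit 1) (nat_lit 280) (nat_lit 1) (nat_lit 406) (nat_lit 314) (nat_lit 300)))) (XT.nd (nat_lit 156) (nat_lit 304) (nat_lit 0) (XT.nd (nat_lit 78) (nat_lit 380) (nat_lit 0) (XT.lf (nat_lit 76) (nat_lit 256425090) (nat_lit 0) (nat_lit 296042686)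 (nat_lit 456) (nat_lit 256425090) (nat_lit 276) (nat_lit 1) (nat_lit 275) (nat_lit 1) (nat_lit 281) (nat_lit 1) (nat_lit 407) (nat_lit 314) (nat_lit 299)) (XT.lf (nat_lit 456) (nat_lit 407358635) (nat_lit 0) (nat_lit 192189050) (nat_lit 380) (nat_lit 192189050) (nat_lit 276) (nat_lit 1) (nat_lit 270) (nat_lit 1) (nat_lit 275) (nat_lit 1) (nat_lit 408) (nat_lit 314) (nat_lit 298))) (XT.nd (nat_lit 78) (nat_lit 304) (nat_lit 0) (XT.lf (nat_lit 76) (nat_lit 150106243) (nat_lit 0) (nat_lit 474867078) (nat_lit 456) (nat_lit 150106243) (nat_lit 271) (nat_lit 1) (nat_lit 270) (nat_lit 1) (nat_lit 276) (nat_lit 1) (nat_lit 409) (nat_lit 314) (nat_lit 297)) (XT.lf (nat_lit 380) (nat_lit 190509389) (nat_lit 0) (nat_lit 284170741) (nat_lit 304) (nat_lit 284170741) (nat_lit 271) (nat_lit 1) (nat_lit 266) (nat_lit 1) (nat_lit 270) (nat_lit 1) (nat_lit 410) (nat_lit 314) (nat_lit 296))))))) (XT.nd (nat_lit 1014)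 (nat_lit 1596) (nat_lit 0) (XT.nd (nat_lit 468) (nat_lit 1368) (nat_lit 0) (XT.nd (nat_lit 234) (nat_lit 304) (nat_lit 0) (XT.nd (nat_lit 78) (nat_lit 684) (nat_lit 0) (XT.lf (nat_lit 76) (nat_lit 41453571) (nat_lit 0) (nat_lit 660339108) (nat_lit 380) (nat_lit 41453571) (nat_lit 267) (nat_lit 1) (nat_lit 266) (nat_lit 1) (nat_lit 271) (nat_lit 1) (nat_lit 411) (nat_lit 314) (nat_lit 295)) (XT.nd (nat_lit 78) (nat_lit 304) (nat_lit 0) (XT.lf (nat_lit 76) (nat_lit 349299708) (nat_lit 0) (nat_lit 29254529) (nat_lit 380) (nat_lit 349299708) (nat_lit 262) (nat_lit 1) (nat_lit 261) (nat_lit 1) (nat_lit 266) (nat_lit 1) (nat_lit 412) (nat_lit 314) (nat_lit 294)) (XT.lf (nat_lit 380) (nat_lit 577796802) (nat_lit 0) (nat_lit 67625506) (nat_lit 304) (nat_lit 67625506) (nat_lit 262) (nat_lit 1) (nat_lit 257) (nat_lit 1) (nat_lit 261) (nat_lit 1) (nat_lit 413) (nat_lit 314) (nat_lit 293)))) (XT.nd (nat_lit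 78) (nat_lit 304) (nat_lit 0) (XT.lf (nat_lit 76) (nat_lit 226637307) (nat_lit 0) (nat_lit 245221072) (nat_lit 380) (nat_lit 226637307) (nat_lit 258) (nat_lit 1) (nat_lit 257) (nat_lit 1) (nat_lit 262) (nat_lit 1) (nat_lit 414) (nat_lit 314) (nat_lit 292)) (XT.nd (nat_lit 78) (nat_lit 0) (nat_lit 0) (XT.lf (nat_lit 380) (nat_lit 330726877) (nat_lit 0) (nat_lit 176860649) (nat_lit 304) (nat_lit 176860649) (nat_lit 258) (nat_lit 1) (nat_lit 253) (nat_lit 1) (nat_lit 257) (nat_lit 1) (nat_lit 415) (nat_lit 314) (nat_lit 291)) (XT.lf (nat_lit 76) (nat_lit 104296497) (nat_lit 0) (nat_lit 462218422) (nat_lit 380) (nat_lit 104296497) (nat_lit 254) (nat_lit 1) (nat_lit 253) (nat_lit 1) (nat_lit 258) (nat_lit 1) (nat_lit 416) (nat_lit 314) (nat_lit 290))))) (XT.nd (nat_lit 234) (nat_lit 760) (nat_lit 0) (XT.nd (nat_lit 78) (nat_lit 380) (nat_lit 0) (XT.lf (nat_lit 304) (nat_lit 84819874) (nat_lit 0) (nat_lit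 286324572) (nat_lit 228) (nat_lit 286324572) (nat_lit 254) (nat_lit 1) (nat_lit 250) (nat_lit 1) (nat_lit 253) (nat_lit 1) (nat_lit 417) (nat_lit 314) (nat_lit 289)) (XT.nd (nat_lit 78) (nat_lit 0) (nat_lit 0) (XT.lf (nat_lit 380) (nat_lit 610747382) (nat_lit 0) (nat_lit 16947067) (nat_lit 304) (nat_lit 16947067) (nat_lit 250) (nat_lit 1) (nat_lit 245) (nat_lit 1) (nat_lit 249) (nat_lit 1) (nat_lit 418) (nat_lit 314) (nat_lit 288)) (XT.lf (nat_lit 76) (nat_lit 238989966) (nat_lit 0) (nat_lit 153905085) (nat_lit 380) (nat_lit 238989966) (nat_lit 246) (nat_lit 1) (nat_lit 245) (nat_lit 1) (nat_lit 250) (nat_lit 1) (nat_lit 419) (nat_lit 314) (nat_lit 287)))) (XT.nd (nat_lit 156) (nat_lit 532) (nat_lit 0) (XT.nd (nat_lit 78) (nat_lit 0) (nat_lit 0) (XT.lf (nat_lit 304) (nat_lit 349052401) (nat_lit 0) (nat_lit 135282680) (nat_lit 228) (nat_lit 135282680) (nat_lit 246) (nat_lit 1) (nat_lit 242) (nat_lit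 1) (nat_lit 245) (nat_lit 1) (nat_lit 420) (nat_lit 314) (nat_lit 286)) (XT.lf (nat_lit 76) (nat_lit 110271052) (nat_lit 0) (nat_lit 387120071) (nat_lit 304) (nat_lit 110271052) (nat_lit 243) (nat_lit 1) (nat_lit 242) (nat_lit 1) (nat_lit 246) (nat_lit 1) (nat_lit 421) (nat_lit 314) (nat_lit 285))) (XT.nd (nat_lit 78) (nat_lit 304) (nat_lit 0) (XT.lf (nat_lit 304) (nat_lit 91907475) (nat_lit 0) (nat_lit 252035551) (nat_lit 228) (nat_lit 252035551) (nat_lit 243) (nat_lit 1) (nat_lit 239) (nat_lit 1) (nat_lit 242) (nat_lit 1) (nat_lit 422) (nat_lit 314) (nat_lit 284)) (XT.lf (nat_lit 304) (nat_lit 553138541) (nat_lit 0) (nat_lit 15795249) (nat_lit 228) (nat_lit 15795249) (nat_lit 239) (nat_lit 1) (nat_lit 235) (nat_lit 1) (nat_lit 238) (nat_lit 1) (nat_lit 423) (nat_lit 314) (nat_lit 283)))))) (XT.nd (nat_lit 468) (nat_lit 912) (nat_lit 0) (XT.nd (nat_lit 234) (nat_lit 456) (nat_lit 0) (XT.nd (nat_lit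 78) (nat_lit 228) (nat_lit 0) (XT.lf (nat_lit 76) (nat_lit 209236469) (nat_lit 0) (nat_lit 155042122) (nat_lit 304) (nat_lit 209236469) (nat_lit 236) (nat_lit 1) (nat_lit 235) (nat_lit 1) (nat_lit 239) (nat_lit 1) (nat_lit 424) (nat_lit 314) (nat_lit 282)) (XT.nd (nat_lit 78) (nat_lit 0) (nat_lit 0) (XT.lf (nat_lit 304) (nat_lit 287719304) (nat_lit 0) (nat_lit 137498349) (nat_lit 228) (nat_lit 137498349) (nat_lit 236) (nat_lit 1) (nat_lit 232) (nat_lit 1) (nat_lit 235) (nat_lit 1) (nat_lit 425) (nat_lit 314) (nat_lit 281)) (XT.lf (nat_lit 76) (nat_lit 79237661) (nat_lit 0) (nat_lit 393731255) (nat_lit 304) (nat_lit 79237661) (nat_lit 233) (nat_lit 1) (nat_lit 232) (nat_lit 1) (nat_lit 236) (nat_lit 1) (nat_lit 426) (nat_lit 314) (nat_lit 280)))) (XT.nd (nat_lit 78) (nat_lit 304) (nat_lit 0) (XT.lf (nat_lit 228) (nat_lit 29035313) (nat_lit 0) (nat_lit 256429942) (nat_lit 152) (nat_lit 256429942)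 (nat_lit 233) (nat_lit 1) (nat_lit 230) (nat_lit 1) (nat_lit 232) (nat_lit 1) (nat_lit 427) (nat_lit 314) (nat_lit 279)) (XT.nd (nat_lit 78) (nat_lit 0) (nat_lit 0) (XT.lf (nat_lit 304) (nat_lit 438713856) (nat_lit 0) (nat_lit 46594591) (nat_lit 228) (nat_lit 46594591) (nat_lit 230) (nat_lit 1) (nat_lit 226) (nat_lit 1) (nat_lit 229) (nat_lit 1) (nat_lit 428) (nat_lit 314) (nat_lit 278)) (XT.lf (nat_lit 76) (nat_lit 153232336) (nat_lit 0) (nat_lit 215557960) (nat_lit 304) (nat_lit 153232336) (nat_lit 227) (nat_lit 1) (nat_lit 226) (nat_lit 1) (nat_lit 230) (nat_lit 1) (nat_lit 429) (nat_lit 314) (nat_lit 277))))) (XT.nd (nat_lit 234) (nat_lit 532) (nat_lit 0) (XT.nd (nat_lit 78) (nat_lit 228) (nat_lit 0) (XT.lf (nat_lit 228) (nat_lit 177036327) (nat_lit 0) (nat_lit 167705417) (nat_lit 152) (nat_lit 167705417) (nat_lit 227) (nat_lit 1) (nat_lit 224) (nat_lit 1) (nat_lit 226) (nat_lit 1) (nat_lit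 430) (nat_lit 314) (nat_lit 276)) (XT.nd (nat_lit 78) (nat_lit 228) (nat_lit 0) (XT.lf (nat_lit 76) (nat_lit 25434501) (nat_lit 0) (nat_lit 452320462) (nat_lit 228) (nat_lit 25434501) (nat_lit 225) (nat_lit 1) (nat_lit 224) (nat_lit 1) (nat_lit 227) (nat_lit 1) (nat_lit 431) (nat_lit 314) (nat_lit 275)) (XT.lf (nat_lit 76) (nat_lit 209915399) (nat_lit 0) (nat_lit 74134621) (nat_lit 228) (nat_lit 209915399) (nat_lit 222) (nat_lit 1) (nat_lit 221) (nat_lit 1) (nat_lit 224) (nat_lit 1) (nat_lit 432) (nat_lit 314) (nat_lit 274)))) (XT.nd (nat_lit 156) (nat_lit 380) (nat_lit 0) (XT.nd (nat_lit 78) (nat_lit 0) (nat_lit 0) (XT.lf (nat_lit 228) (nat_lit 291504322) (nat_lit 0) (nat_lit 96771537) (nat_lit 152) (nat_lit 96771537) (nat_lit 222) (nat_lit 1) (nat_lit 219) (nat_lit 1) (nat_lit 221) (nat_lit 1) (nat_lit 433) (nat_lit 314) (nat_lit 273)) (XT.lf (nat_lit 76) (nat_lit 82254936) (nat_lit 0) (nat_lit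 311816609) (nat_lit 228) (nat_lit 82254936) (nat_lit 220) (nat_lit 1) (nat_lit 219) (nat_lit 1) (nat_lit 222) (nat_lit 1) (nat_lit 434) (nat_lit 314) (nat_lit 272))) (XT.nd (nat_lit 78) (nat_lit 228) (nat_lit 0) (XT.lf (nat_lit 228) (nat_lit 38533476) (nat_lit 0) (nat_lit 214623940) (nat_lit 152) (nat_lit 214623940) (nat_lit 220) (nat_lit 1) (nat_lit 217) (nat_lit 1) (nat_lit 219) (nat_lit 1) (nat_lit 435) (nat_lit 314) (nat_lit 271)) (XT.lf (nat_lit 228) (nat_lit 378731897) (nat_lit 0) (nat_lit 40375968) (nat_lit 152) (nat_lit 40375968) (nat_lit 217) (nat_lit 1) (nat_lit 214) (nat_lit 1) (nat_lit 216) (nat_lit 1) (nat_lit 436) (nat_lit 314) (nat_lit 270))))))))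
noncomputable def ec14 : XT := (XT.nd (nat_lit 50700) (nat_lit 0) (nat_lit 1292) (XT.nd (nat_lit 49686) (nat_lit 0) (nat_lit 5396) (XT.nd (nat_lit 468) (nat_lit 304) (nat_lit 0) (XT.nd (nat_lit 234) (nat_lit 304) (nat_lit 0) (XT.nd (nat_lit 78) (nat_lit 152) (nat_lit 0) (XT.lf (nat_lit 76) (nat_lit 126080776) (nat_lit 0) (nat_lit 199095577) (nat_lit 228) (nat_lit 126080776) (nat_lit 215) (nat_lit 1) (nat_lit 214) (nat_lit 1) (nat_lit 217) (nat_lit 1) (nat_lit 437) (nat_lit 314) (nat_lit 269)) (XT.nd (nat_lit 78) (nat_lit 0) (nat_lit 0) (XT.lf (nat_lit 228) (nat_lit 128407149) (nat_lit 0) (nat_lit 157431055) (nat_lit 152) (nat_lit 157431055) (nat_lit 215) (nat_lit 1) (nat_lit 212) (nat_lit 1) (nat_lit 214) (nat_lit 1) (nat_lit 438) (nat_lit 314) (nat_lit 268)) (XT.lf (nat_lit 76) (nat_lit 4220388) (nat_lit 0) (nat_lit 427120745) (nat_lit 228) (nat_lit 4220388) (nat_lit 213) (nat_lit 1) (nat_lit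 212) (nat_lit 1) (nat_lit 215) (nat_lit 1) (nat_lit 439) (nat_lit 314) (nat_lit 267)))) (XT.nd (nat_lit 78) (nat_lit 152) (nat_lit 0) (XT.lf (nat_lit 76) (nat_lit 159355002) (nat_lit 0) (nat_lit 109094787) (nat_lit 152) (nat_lit 159355002) (nat_lit 211) (nat_lit 1) (nat_lit 210) (nat_lit 1) (nat_lit 212) (nat_lit 1) (nat_lit 440) (nat_lit 314) (nat_lit 266)) (XT.nd (nat_lit 78) (nat_lit 0) (nat_lit 0) (XT.lf (nat_lit 228) (nat_lit 197741416) (nat_lit 0) (nat_lit 111289783) (nat_lit 152) (nat_lit 111289783) (nat_lit 211) (nat_lit 1) (nat_lit 208) (nat_lit 1) (nat_lit 210) (nat_lit 1) (nat_lit 441) (nat_lit 314) (nat_lit 265)) (XT.lf (nat_lit 76) (nat_lit 39645787) (nat_lit 0) (nat_lit 333747605) (nat_lit 228) (nat_lit 39645787) (nat_lit 209) (nat_lit 1) (nat_lit 208) (nat_lit 1) (nat_lit 211) (nat_lit 1) (nat_lit 442) (nat_lit 314) (nat_lit 264))))) (XT.nd (nat_lit 48984) (nat_lit 0) (nat_lit 6688)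 (XT.nd (nat_lit 78) (nat_lit 152) (nat_lit 0) (XT.lf (nat_lit 76) (nat_lit 184080836) (nat_lit 0) (nat_lit 37655754) (nat_lit 152) (nat_lit 184080836) (nat_lit 207) (nat_lit 1) (nat_lit 206) (nat_lit 1) (nat_lit 208) (nat_lit 1) (nat_lit 443) (nat_lit 314) (nat_lit 263)) (XT.nd (nat_lit 78) (nat_lit 0) (nat_lit 0) (XT.lf (nat_lit 228) (nat_lit 250397149) (nat_lit 0) (nat_lit 74197298) (nat_lit 152) (nat_lit 74197298) (nat_lit 207) (nat_lit 1) (nat_lit 204) (nat_lit 1) (nat_lit 206) (nat_lit 1) (nat_lit 444) (nat_lit 314) (nat_lit 262)) (XT.lf (nat_lit 76) (nat_lit 67067795) (nat_lit 0) (nat_lit 257769562) (nat_lit 228) (nat_lit 67067795) (nat_lit 205) (nat_lit 1) (nat_lit 204) (nat_lit 1) (nat_lit 207) (nat_lit 1) (nat_lit 445) (nat_lit 314) (nat_lit 261)))) (XT.nd (nat_lit 78) (nat_lit 0) (nat_lit 0) (XT.lf (nat_lit 836) (nat_lit 158678176) (nat_lit 0) (nat_lit 281732738) (nat_lit 836) (nat_lit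 158678176) (nat_lit 303) (nat_lit 1) (nat_lit 292) (nat_lit 0) (nat_lit 303) (nat_lit 0) (nat_lit 390) (nat_lit 315) (nat_lit 315)) (XT.nd (nat_lit 78) (nat_lit 0) (nat_lit 76) (XT.lf (nat_lit 836) (nat_lit 615056424) (nat_lit 76) (nat_lit 277188662) (nat_lit 0) (nat_lit 277188662) (nat_lit 303) (nat_lit 1) (nat_lit 293) (nat_lit 1) (nat_lit 292) (nat_lit 0) (nat_lit 391) (nat_lit 315) (nat_lit 314)) (XT.lf (nat_lit 836) (nat_lit 293126630) (nat_lit 0) (nat_lit 555324694) (nat_lit 760) (nat_lit 293126630) (nat_lit 304) (nat_lit 1) (nat_lit 293) (nat_lit 1) (nat_lit 303) (nat_lit 1) (nat_lit 392) (nat_lit 315) (nat_lit 313)))))) (XT.nd (nat_lit 468) (nat_lit 1368) (nat_lit 0) (XT.nd (nat_lit 234) (nat_lit 0) (nat_lit 152) (XT.nd (nat_lit 78) (nat_lit 0) (nat_lit 76) (XT.lf (nat_lit 836) (nat_lit 549864828) (nat_lit 76) (nat_lit 282378642) (nat_lit 0) (nat_lit 282378642) (nat_lit 304) (nat_lit 1)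 (nat_lit 294) (nat_lit 1) (nat_lit 293) (nat_lit 1) (nat_lit 393) (nat_lit 315) (nat_lit 312)) (XT.nd (nat_lit 78) (nat_lit 0) (nat_lit 0) (XT.lf (nat_lit 836) (nat_lit 253097500) (nat_lit 0) (nat_lit 582325637) (nat_lit 760) (nat_lit 253097500) (nat_lit 305) (nat_lit 1) (nat_lit 294) (nat_lit 1) (nat_lit 304) (nat_lit 1) (nat_lit 394) (nat_lit 315) (nat_lit 311)) (XT.lf (nat_lit 836) (nat_lit 455212338) (nat_lit 76) (nat_lit 304001247) (nat_lit 0) (nat_lit 304001247) (nat_lit 305) (nat_lit 1) (nat_lit 295) (nat_lit 1) (nat_lit 294) (nat_lit 1) (nat_lit 395) (nat_lit 315) (nat_lit 310)))) (XT.nd (nat_lit 78) (nat_lit 0) (nat_lit 0) (XT.lf (nat_lit 836) (nat_lit 199597462) (nat_lit 0) (nat_lit 639563784) (nat_lit 760) (nat_lit 199597462) (nat_lit 306) (nat_lit 1) (nat_lit 295) (nat_lit 1) (nat_lit 305) (nat_lit 1) (nat_lit 396) (nat_lit 315) (nat_lit 309)) (XT.nd (nat_lit 78) (nat_lit 0) (nat_lit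 76) (XT.lf (nat_lit 836) (nat_lit 335529463) (nat_lit 76) (nat_lit 339723242) (nat_lit 0) (nat_lit 339723242) (nat_lit 306) (nat_lit 1) (nat_lit 296) (nat_lit 1) (nat_lit 295) (nat_lit 1) (nat_lit 397) (nat_lit 315) (nat_lit 308)) (XT.lf (nat_lit 836) (nat_lit 134697603) (nat_lit 0) (nat_lit 722668563) (nat_lit 760) (nat_lit 134697603) (nat_lit 307) (nat_lit 1) (nat_lit 296) (nat_lit 1) (nat_lit 306) (nat_lit 1) (nat_lit 398) (nat_lit 315) (nat_lit 307))))) (XT.nd (nat_lit 234) (nat_lit 912) (nat_lit 0) (XT.nd (nat_lit 78) (nat_lit 684) (nat_lit 0) (XT.lf (nat_lit 836) (nat_lit 194754256) (nat_lit 76) (nat_lit 387466673) (nat_lit 0) (nat_lit 387466673) (nat_lit 307) (nat_lit 1) (nat_lit 297) (nat_lit 1) (nat_lit 296) (nat_lit 1) (nat_lit 399) (nat_lit 315) (nat_lit 306)) (XT.nd (nat_lit 78) (nat_lit 760) (nat_lit 0) (XT.lf (nat_lit 76) (nat_lit 60237471) (nat_lit 0) (nat_lit 827749992) (nat_lit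 760) (nat_lit 60237471) (nat_lit 298) (nat_lit 1) (nat_lit 297) (nat_lit 1) (nat_lit 307) (nat_lit 1) (nat_lit 400) (nat_lit 315) (nat_lit 305)) (XT.lf (nat_lit 836) (nat_lit 36381935) (nat_lit 0) (nat_lit 445383306) (nat_lit 760) (nat_lit 445383306) (nat_lit 298) (nat_lit 1) (nat_lit 287) (nat_lit 1) (nat_lit 297) (nat_lit 1) (nat_lit 401) (nat_lit 315) (nat_lit 304)))) (XT.nd (nat_lit 156) (nat_lit 380) (nat_lit 0) (XT.nd (nat_lit 78) (nat_lit 0) (nat_lit 0) (XT.lf (nat_lit 532) (nat_lit 863389136) (nat_lit 0) (nat_lit 21794252) (nat_lit 456) (nat_lit 21794252) (nat_lit 287) (nat_lit 1) (nat_lit 280) (nat_lit 1) (nat_lit 286) (nat_lit 1) (nat_lit 402) (nat_lit 315) (nat_lit 303)) (XT.lf (nat_lit 76) (nat_lit 377472227) (nat_lit 0) (nat_lit 132121752) (nat_lit 532) (nat_lit 377472227) (nat_lit 281) (nat_lit 1) (nat_lit 280) (nat_lit 1) (nat_lit 287) (nat_lit 1) (nat_lit 403) (nat_lit 315) (nat_lit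 302))) (XT.nd (nat_lit 78) (nat_lit 0) (nat_lit 0) (XT.lf (nat_lit 456) (nat_lit 649532811) (nat_lit 0) (nat_lit 109234325) (nat_lit 380) (nat_lit 109234325) (nat_lit 281) (nat_lit 1) (nat_lit 275) (nat_lit 1) (nat_lit 280) (nat_lit 1) (nat_lit 404) (nat_lit 315) (nat_lit 301)) (XT.lf (nat_lit 76) (nat_lit 269246344) (nat_lit 0) (nat_lit 310844820) (nat_lit 456) (nat_lit 269246344) (nat_lit 276) (nat_lit 1) (nat_lit 275) (nat_lit 1) (nat_lit 281) (nat_lit 1) (nat_lit 405) (nat_lit 315) (nat_lit 300))))))) (XT.nd (nat_lit 936) (nat_lit 1824) (nat_lit 0) (XT.nd (nat_lit 468) (nat_lit 912) (nat_lit 0) (XT.nd (nat_lit 234) (nat_lit 684) (nat_lit 0) (XT.nd (nat_lit 78) (nat_lit 304) (nat_lit 0) (XT.lf (nat_lit 456) (nat_lit 427726567) (nat_lit 0) (nat_lit 201798503) (nat_lit 380) (nat_lit 201798503) (nat_lit 276) (nat_lit 1) (nat_lit 270) (nat_lit 1) (nat_lit 275) (nat_lit 1) (nat_lit 406) (nat_lit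 315) (nat_lit 299)) (XT.nd (nat_lit 78) (nat_lit 304) (nat_lit 0) (XT.lf (nat_lit 76) (nat_lit 157611555) (nat_lit 0) (nat_lit 498610432) (nat_lit 456) (nat_lit 157611555) (nat_lit 271) (nat_lit 1) (nat_lit 270) (nat_lit 1) (nat_lit 276) (nat_lit 1) (nat_lit 407) (nat_lit 315) (nat_lit 298)) (XT.lf (nat_lit 380) (nat_lit 200034858) (nat_lit 0) (nat_lit 298379278) (nat_lit 304) (nat_lit 298379278) (nat_lit 271) (nat_lit 1) (nat_lit 266) (nat_lit 1) (nat_lit 270) (nat_lit 1) (nat_lit 408) (nat_lit 315) (nat_lit 297)))) (XT.nd (nat_lit 78) (nat_lit 684) (nat_lit 0) (XT.lf (nat_lit 76) (nat_lit 43526250) (nat_lit 0) (nat_lit 693356064) (nat_lit 380) (nat_lit 43526250) (nat_lit 267) (nat_lit 1) (nat_lit 266) (nat_lit 1) (nat_lit 271) (nat_lit 1) (nat_lit 409) (nat_lit 315) (nat_lit 296)) (XT.nd (nat_lit 78) (nat_lit 304) (nat_lit 0) (XT.lf (nat_lit 76) (nat_lit 366764693) (nat_lit 0) (nat_lit 30717255)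 (nat_lit 380) (nat_lit 366764693) (nat_lit 262) (nat_lit 1) (nat_lit 261) (nat_lit 1) (nat_lit 266) (nat_lit 1) (nat_lit 410) (nat_lit 315) (nat_lit 295)) (XT.lf (nat_lit 380) (nat_lit 606686642) (nat_lit 0) (nat_lit 71006781) (nat_lit 304) (nat_lit 71006781) (nat_lit 262) (nat_lit 1) (nat_lit 257) (nat_lit 1) (nat_lit 261) (nat_lit 1) (nat_lit 411) (nat_lit 315) (nat_lit 294))))) (XT.nd (nat_lit 234) (nat_lit 608) (nat_lit 0) (XT.nd (nat_lit 78) (nat_lit 304) (nat_lit 0) (XT.lf (nat_lit 76) (nat_lit 237969173) (nat_lit 0) (nat_lit 257482126) (nat_lit 380) (nat_lit 237969173) (nat_lit 258) (nat_lit 1) (nat_lit 257) (nat_lit 1) (nat_lit 262) (nat_lit 1) (nat_lit 412) (nat_lit 315) (nat_lit 293)) (XT.nd (nat_lit 78) (nat_lit 0) (nat_lit 0) (XT.lf (nat_lit 380) (nat_lit 347263221) (nat_lit 0) (nat_lit 185703682) (nat_lit 304) (nat_lit 185703682) (nat_lit 258) (nat_lit 1) (nat_lit 253) (nat_lit 1)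 (nat_lit 257) (nat_lit 1) (nat_lit 413) (nat_lit 315) (nat_lit 292)) (XT.lf (nat_lit 76) (nat_lit 109511321) (nat_lit 0) (nat_lit 485329343) (nat_lit 380) (nat_lit 109511321) (nat_lit 254) (nat_lit 1) (nat_lit 253) (nat_lit 1) (nat_lit 258) (nat_lit 1) (nat_lit 414) (nat_lit 315) (nat_lit 291)))) (XT.nd (nat_lit 78) (nat_lit 380) (nat_lit 0) (XT.lf (nat_lit 304) (nat_lit 89060867) (nat_lit 0) (nat_lit 300640801) (nat_lit 228) (nat_lit 300640801) (nat_lit 254) (nat_lit 1) (nat_lit 250) (nat_lit 1) (nat_lit 253) (nat_lit 1) (nat_lit 415) (nat_lit 315) (nat_lit 290)) (XT.nd (nat_lit 78) (nat_lit 0) (nat_lit 0) (XT.lf (nat_lit 380) (nat_lit 641284752) (nat_lit 0) (nat_lit 17794421) (nat_lit 304) (nat_lit 17794421) (nat_lit 250) (nat_lit 1) (nat_lit 245) (nat_lit 1) (nat_lit 249) (nat_lit 1) (nat_lit 416) (nat_lit 315) (nat_lit 289)) (XT.lf (nat_lit 76) (nat_lit 250939464) (nat_lit 0) (nat_lit 161600339)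 (nat_lit 380) (nat_lit 250939464) (nat_lit 246) (nat_lit 1) (nat_lit 245) (nat_lit 1) (nat_lit 250) (nat_lit 1) (nat_lit 417) (nat_lit 315) (nat_lit 288)))))) (XT.nd (nat_lit 468) (nat_lit 836) (nat_lit 0) (XT.nd (nat_lit 234) (nat_lit 532) (nat_lit 0) (XT.nd (nat_lit 78) (nat_lit 228) (nat_lit 0) (XT.lf (nat_lit 304) (nat_lit 366505021) (nat_lit 0) (nat_lit 142046814) (nat_lit 228) (nat_lit 142046814) (nat_lit 246) (nat_lit 1) (nat_lit 242) (nat_lit 1) (nat_lit 245) (nat_lit 1) (nat_lit 418) (nat_lit 315) (nat_lit 287)) (XT.nd (nat_lit 78) (nat_lit 228) (nat_lit 0) (XT.lf (nat_lit 76) (nat_lit 115784605) (nat_lit 0) (nat_lit 406476074) (nat_lit 304) (nat_lit 115784605) (nat_lit 243) (nat_lit 1) (nat_lit 242) (nat_lit 1) (nat_lit 246) (nat_lit 1) (nat_lit 419) (nat_lit 315) (nat_lit 286)) (XT.lf (nat_lit 304) (nat_lit 96502849) (nat_lit 0) (nat_lit 264637328) (nat_lit 228) (nat_lit 264637328) (nat_lit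 243) (nat_lit 1) (nat_lit 239) (nat_lit 1) (nat_lit 242) (nat_lit 1) (nat_lit 420) (nat_lit 315) (nat_lit 285)))) (XT.nd (nat_lit 78) (nat_lit 228) (nat_lit 0) (XT.lf (nat_lit 304) (nat_lit 580795468) (nat_lit 0) (nat_lit 16585011) (nat_lit 228) (nat_lit 16585011) (nat_lit 239) (nat_lit 1) (nat_lit 235) (nat_lit 1) (nat_lit 238) (nat_lit 1) (nat_lit 421) (nat_lit 315) (nat_lit 284)) (XT.nd (nat_lit 78) (nat_lit 228) (nat_lit 0) (XT.lf (nat_lit 76) (nat_lit 219698292) (nat_lit 0) (nat_lit 162794228) (nat_lit 304) (nat_lit 219698292) (nat_lit 236) (nat_lit 1) (nat_lit 235) (nat_lit 1) (nat_lit 239) (nat_lit 1) (nat_lit 422) (nat_lit 315) (nat_lit 283)) (XT.lf (nat_lit 304) (nat_lit 302105269) (nat_lit 0) (nat_lit 144373266) (nat_lit 228) (nat_lit 144373266) (nat_lit 236) (nat_lit 1) (nat_lit 232) (nat_lit 1) (nat_lit 235) (nat_lit 1) (nat_lit 423) (nat_lit 315) (nat_lit 282))))) (XT.nd (nat_lit 234)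 (nat_lit 380) (nat_lit 0) (XT.nd (nat_lit 78) (nat_lit 456) (nat_lit 0) (XT.lf (nat_lit 76) (nat_lit 83199544) (nat_lit 0) (nat_lit 413417818) (nat_lit 304) (nat_lit 83199544) (nat_lit 233) (nat_lit 1) (nat_lit 232) (nat_lit 1) (nat_lit 236) (nat_lit 1) (nat_lit 424) (nat_lit 315) (nat_lit 281)) (XT.nd (nat_lit 78) (nat_lit 304) (nat_lit 0) (XT.lf (nat_lit 228) (nat_lit 30487079) (nat_lit 0) (nat_lit 269251439) (nat_lit 152) (nat_lit 269251439) (nat_lit 233) (nat_lit 1) (nat_lit 230) (nat_lit 1) (nat_lit 232) (nat_lit 1) (nat_lit 425) (nat_lit 315) (nat_lit 280)) (XT.lf (nat_lit 304) (nat_lit 460649549) (nat_lit 0) (nat_lit 48924321) (nat_lit 228) (nat_lit 48924321) (nat_lit 230) (nat_lit 1) (nat_lit 226) (nat_lit 1) (nat_lit 229) (nat_lit 1) (nat_lit 426) (nat_lit 315) (nat_lit 279)))) (XT.nd (nat_lit 156) (nat_lit 228) (nat_lit 0) (XT.nd (nat_lit 78) (nat_lit 152) (nat_lit 0) (XT.lf (nat_lit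 76) (nat_lit 160893953) (nat_lit 0) (nat_lit 226335858) (nat_lit 304) (nat_lit 160893953) (nat_lit 227) (nat_lit 1) (nat_lit 226) (nat_lit 1) (nat_lit 230) (nat_lit 1) (nat_lit 427) (nat_lit 315) (nat_lit 278)) (XT.lf (nat_lit 228) (nat_lit 185888143) (nat_lit 0) (nat_lit 176090688) (nat_lit 152) (nat_lit 176090688) (nat_lit 227) (nat_lit 1) (nat_lit 224) (nat_lit 1) (nat_lit 226) (nat_lit 1) (nat_lit 428) (nat_lit 315) (nat_lit 277))) (XT.nd (nat_lit 78) (nat_lit 228) (nat_lit 0) (XT.lf (nat_lit 76) (nat_lit 26706226) (nat_lit 0) (nat_lit 474936485) (nat_lit 228) (nat_lit 26706226) (nat_lit 225) (nat_lit 1) (nat_lit 224) (nat_lit 1) (nat_lit 227) (nat_lit 1) (nat_lit 429) (nat_lit 315) (nat_lit 276)) (XT.lf (nat_lit 76) (nat_lit 220411169) (nat_lit 0) (nat_lit 77841352) (nat_lit 228) (nat_lit 220411169) (nat_lit 222) (nat_lit 1) (nat_lit 221) (nat_lit 1) (nat_lit 224) (nat_lit 1) (nat_lit 430)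 (nat_lit 315) (nat_lit 275))))))))
noncomputable def ec15 : XT := (XT.nd (nat_lit 50544) (nat_lit 0) (nat_lit 2280) (XT.nd (nat_lit 936) (nat_lit 304) (nat_lit 0) (XT.nd (nat_lit 468) (nat_lit 608) (nat_lit 0) (XT.nd (nat_lit 234) (nat_lit 380) (nat_lit 0) (XT.nd (nat_lit 78) (nat_lit 152) (nat_lit 0) (XT.lf (nat_lit 228) (nat_lit 306079538) (nat_lit 0) (nat_lit 101610113) (nat_lit 152) (nat_lit 101610113) (nat_lit 222) (nat_lit 1) (nat_lit 219) (nat_lit 1) (nat_lit 221) (nat_lit 1) (nat_lit 431) (nat_lit 315) (nat_lit 274)) (XT.nd (nat_lit 78) (nat_lit 152) (nat_lit 0) (XT.lf (nat_lit 76) (nat_lit 86367682) (nat_lit 0) (nat_lit 327407440) (nat_lit 228) (nat_lit 86367682) (nat_lit 220) (nat_lit 1) (nat_lit 219) (nat_lit 1) (nat_lit 222) (nat_lit 1) (nat_lit 432) (nat_lit 315) (nat_lit 273)) (XT.lf (nat_lit 228) (nat_lit 40460149) (nat_lit 0) (nat_lit 225355137) (nat_lit 152) (nat_lit 225355137)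 (nat_lit 220) (nat_lit 1) (nat_lit 217) (nat_lit 1) (nat_lit 219) (nat_lit 1) (nat_lit 433) (nat_lit 315) (nat_lit 272)))) (XT.nd (nat_lit 78) (nat_lit 152) (nat_lit 0) (XT.lf (nat_lit 228) (nat_lit 397668492) (nat_lit 0) (nat_lit 42394767) (nat_lit 152) (nat_lit 42394767) (nat_lit 217) (nat_lit 1) (nat_lit 214) (nat_lit 1) (nat_lit 216) (nat_lit 1) (nat_lit 434) (nat_lit 315) (nat_lit 271)) (XT.nd (nat_lit 78) (nat_lit 152) (nat_lit 0) (XT.lf (nat_lit 76) (nat_lit 132384815) (nat_lit 0) (nat_lit 209050356) (nat_lit 228) (nat_lit 132384815) (nat_lit 215) (nat_lit 1) (nat_lit 214) (nat_lit 1) (nat_lit 217) (nat_lit 1) (nat_lit 435) (nat_lit 315) (nat_lit 270)) (XT.lf (nat_lit 228) (nat_lit 134827507) (nat_lit 0) (nat_lit 165302607) (nat_lit 152) (nat_lit 165302607) (nat_lit 215) (nat_lit 1) (nat_lit 212) (nat_lit 1) (nat_lit 214) (nat_lit 1) (nat_lit 436) (nat_lit 315) (nat_lit 269))))) (XT.nd (nat_lit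 234) (nat_lit 304) (nat_lit 0) (XT.nd (nat_lit 78) (nat_lit 304) (nat_lit 0) (XT.lf (nat_lit 76) (nat_lit 4431408) (nat_lit 0) (nat_lit 448476782) (nat_lit 228) (nat_lit 4431408) (nat_lit 213) (nat_lit 1) (nat_lit 212) (nat_lit 1) (nat_lit 215) (nat_lit 1) (nat_lit 437) (nat_lit 315) (nat_lit 268)) (XT.nd (nat_lit 78) (nat_lit 152) (nat_lit 0) (XT.lf (nat_lit 76) (nat_lit 167322752) (nat_lit 0) (nat_lit 114549527) (nat_lit 152) (nat_lit 167322752) (nat_lit 211) (nat_lit 1) (nat_lit 210) (nat_lit 1) (nat_lit 212) (nat_lit 1) (nat_lit 438) (nat_lit 315) (nat_lit 267)) (XT.lf (nat_lit 228) (nat_lit 207628487) (nat_lit 0) (nat_lit 116854272) (nat_lit 152) (nat_lit 116854272) (nat_lit 211) (nat_lit 1) (nat_lit 208) (nat_lit 1) (nat_lit 210) (nat_lit 1) (nat_lit 439) (nat_lit 315) (nat_lit 266)))) (XT.nd (nat_lit 78) (nat_lit 304) (nat_lit 0) (XT.lf (nat_lit 76) (nat_lit 41628076) (nat_lit 0) (nat_lit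 350434985) (nat_lit 228) (nat_lit 41628076) (nat_lit 209) (nat_lit 1) (nat_lit 208) (nat_lit 1) (nat_lit 211) (nat_lit 1) (nat_lit 440) (nat_lit 315) (nat_lit 265)) (XT.nd (nat_lit 78) (nat_lit 152) (nat_lit 0) (XT.lf (nat_lit 76) (nat_lit 193284878) (nat_lit 0) (nat_lit 39538542) (nat_lit 152) (nat_lit 193284878) (nat_lit 207) (nat_lit 1) (nat_lit 206) (nat_lit 1) (nat_lit 208) (nat_lit 1) (nat_lit 441) (nat_lit 315) (nat_lit 264)) (XT.lf (nat_lit 228) (nat_lit 262917007) (nat_lit 0) (nat_lit 77907163) (nat_lit 152) (nat_lit 77907163) (nat_lit 207) (nat_lit 1) (nat_lit 204) (nat_lit 1) (nat_lit 206) (nat_lit 1) (nat_lit 442) (nat_lit 315) (nat_lit 263)))))) (XT.nd (nat_lit 49062) (nat_lit 0) (nat_lit 7068) (XT.nd (nat_lit 48828) (nat_lit 0) (nat_lit 6992) (XT.nd (nat_lit 78) (nat_lit 304) (nat_lit 0) (XT.lf (nat_lit 76) (nat_lit 70421184) (nat_lit 0) (nat_lit 270658040) (nat_lit 228) (nat_lit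 70421184) (nat_lit 205) (nat_lit 1) (nat_lit 204) (nat_lit 1) (nat_lit 207) (nat_lit 1) (nat_lit 443) (nat_lit 315) (nat_lit 262)) (XT.nd (nat_lit 78) (nat_lit 228) (nat_lit 0) (XT.lf (nat_lit 152) (nat_lit 20215357) (nat_lit 0) (nat_lit 192095289) (nat_lit 76) (nat_lit 192095289) (nat_lit 205) (nat_lit 1) (nat_lit 203) (nat_lit 1) (nat_lit 204) (nat_lit 1) (nat_lit 444) (nat_lit 315) (nat_lit 261)) (XT.lf (nat_lit 228) (nat_lit 304017269) (nat_lit 0) (nat_lit 46733334) (nat_lit 152) (nat_lit 46733334) (nat_lit 203) (nat_lit 1) (nat_lit 200) (nat_lit 1) (nat_lit 202) (nat_lit 1) (nat_lit 445) (nat_lit 315) (nat_lit 260)))) (XT.nd (nat_lit 78) (nat_lit 0) (nat_lit 0) (XT.lf (nat_lit 836) (nat_lit 166612085) (nat_lit 0) (nat_lit 295819375) (nat_lit 836) (nat_lit 166612085) (nat_lit 303) (nat_lit 1) (nat_lit 292) (nat_lit 0) (nat_lit 303) (nat_lit 0) (nat_lit 388) (nat_lit 316) (nat_lit 316)) (XT.nd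 (nat_lit 78) (nat_lit 0) (nat_lit 76) (XT.lf (nat_lit 836) (nat_lit 645809245) (nat_lit 76) (nat_lit 291048095) (nat_lit 0) (nat_lit 291048095) (nat_lit 303) (nat_lit 1) (nat_lit 293) (nat_lit 1) (nat_lit 292) (nat_lit 0) (nat_lit 389) (nat_lit 316) (nat_lit 315)) (XT.lf (nat_lit 836) (nat_lit 307782962) (nat_lit 0) (nat_lit 583090929) (nat_lit 760) (nat_lit 307782962) (nat_lit 304) (nat_lit 1) (nat_lit 293) (nat_lit 1) (nat_lit 303) (nat_lit 1) (nat_lit 390) (nat_lit 316) (nat_lit 314))))) (XT.nd (nat_lit 234) (nat_lit 0) (nat_lit 152) (XT.nd (nat_lit 78) (nat_lit 0) (nat_lit 76) (XT.lf (nat_lit 836) (nat_lit 577358069) (nat_lit 76) (nat_lit 296497575) (nat_lit 0) (nat_lit 296497575) (nat_lit 304) (nat_lit 1) (nat_lit 294) (nat_lit 1) (nat_lit 293) (nat_lit 1) (nat_lit 391) (nat_lit 316) (nat_lit 313)) (XT.nd (nat_lit 78) (nat_lit 0) (nat_lit 0) (XT.lf (nat_lit 836) (nat_lit 265752375) (nat_lit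 0) (nat_lit 611441918) (nat_lit 760) (nat_lit 265752375) (nat_lit 305) (nat_lit 1) (nat_lit 294) (nat_lit 1) (nat_lit 304) (nat_lit 1) (nat_lit 392) (nat_lit 316) (nat_lit 312)) (XT.lf (nat_lit 836) (nat_lit 477972955) (nat_lit 76) (nat_lit 319201309) (nat_lit 0) (nat_lit 319201309) (nat_lit 305) (nat_lit 1) (nat_lit 295) (nat_lit 1) (nat_lit 294) (nat_lit 1) (nat_lit 393) (nat_lit 316) (nat_lit 311)))) (XT.nd (nat_lit 156) (nat_lit 0) (nat_lit 76) (XT.nd (nat_lit 78) (nat_lit 0) (nat_lit 0) (XT.lf (nat_lit 836) (nat_lit 209577335) (nat_lit 0) (nat_lit 671541973) (nat_lit 760) (nat_lit 209577335) (nat_lit 306) (nat_lit 1) (nat_lit 295) (nat_lit 1) (nat_lit 305) (nat_lit 1) (nat_lit 394) (nat_lit 316) (nat_lit 310)) (XT.lf (nat_lit 836) (nat_lit 352305936) (nat_lit 76) (nat_lit 356709404) (nat_lit 0) (nat_lit 356709404) (nat_lit 306) (nat_lit 1) (nat_lit 296) (nat_lit 1) (nat_lit 295) (nat_lit 1)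 (nat_lit 395) (nat_lit 316) (nat_lit 309))) (XT.nd (nat_lit 78) (nat_lit 0) (nat_lit 0) (XT.lf (nat_lit 836) (nat_lit 141432483) (nat_lit 0) (nat_lit 758801991) (nat_lit 760) (nat_lit 141432483) (nat_lit 307) (nat_lit 1) (nat_lit 296) (nat_lit 1) (nat_lit 306) (nat_lit 1) (nat_lit 396) (nat_lit 316) (nat_lit 308)) (XT.lf (nat_lit 836) (nat_lit 204491969) (nat_lit 76) (nat_lit 406840007) (nat_lit 0) (nat_lit 406840007) (nat_lit 307) (nat_lit 1) (nat_lit 297) (nat_lit 1) (nat_lit 296) (nat_lit 1) (nat_lit 397) (nat_lit 316) (nat_lit 307))))))) (XT.nd (nat_lit 1014) (nat_lit 2052) (nat_lit 0) (XT.nd (nat_lit 468) (nat_lit 1368) (nat_lit 0) (XT.nd (nat_lit 234) (nat_lit 380) (nat_lit 0) (XT.nd (nat_lit 78) (nat_lit 1292) (nat_lit 0) (XT.lf (nat_lit 76) (nat_lit 63249345) (nat_lit 0) (nat_lit 869137492) (nat_lit 760) (nat_lit 63249345) (nat_lit 298) (nat_lit 1) (nat_lit 297) (nat_lit 1) (nat_lit 307)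 (nat_lit 1) (nat_lit 398) (nat_lit 316) (nat_lit 306)) (XT.nd (nat_lit 78) (nat_lit 532) (nat_lit 0) (XT.lf (nat_lit 836) (nat_lit 38201031) (nat_lit 0) (nat_lit 467652471) (nat_lit 760) (nat_lit 467652471) (nat_lit 298) (nat_lit 1) (nat_lit 287) (nat_lit 1) (nat_lit 297) (nat_lit 1) (nat_lit 399) (nat_lit 316) (nat_lit 305)) (XT.lf (nat_lit 532) (nat_lit 906558593) (nat_lit 0) (nat_lit 22883964) (nat_lit 456) (nat_lit 22883964) (nat_lit 287) (nat_lit 1) (nat_lit 280) (nat_lit 1) (nat_lit 286) (nat_lit 1) (nat_lit 400) (nat_lit 316) (nat_lit 304)))) (XT.nd (nat_lit 78) (nat_lit 380) (nat_lit 0) (XT.lf (nat_lit 76) (nat_lit 396345839) (nat_lit 0) (nat_lit 138727839) (nat_lit 532) (nat_lit 396345839) (nat_lit 281) (nat_lit 1) (nat_lit 280) (nat_lit 1) (nat_lit 287) (nat_lit 1) (nat_lit 401) (nat_lit 316) (nat_lit 303)) (XT.nd (nat_lit 78) (nat_lit 0) (nat_lit 0) (XT.lf (nat_lit 456) (nat_lit 682009451)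 (nat_lit 0) (nat_lit 114696041) (nat_lit 380) (nat_lit 114696041) (nat_lit 281) (nat_lit 1) (nat_lit 275) (nat_lit 1) (nat_lit 280) (nat_lit 1) (nat_lit 402) (nat_lit 316) (nat_lit 302)) (XT.lf (nat_lit 76) (nat_lit 282708662) (nat_lit 0) (nat_lit 326387061) (nat_lit 456) (nat_lit 282708662) (nat_lit 276) (nat_lit 1) (nat_lit 275) (nat_lit 1) (nat_lit 281) (nat_lit 1) (nat_lit 403) (nat_lit 316) (nat_lit 301))))) (XT.nd (nat_lit 234) (nat_lit 684) (nat_lit 0) (XT.nd (nat_lit 78) (nat_lit 304) (nat_lit 0) (XT.lf (nat_lit 456) (nat_lit 449112895) (nat_lit 0) (nat_lit 211888428) (nat_lit 380) (nat_lit 211888428) (nat_lit 276) (nat_lit 1) (nat_lit 270) (nat_lit 1) (nat_lit 275) (nat_lit 1) (nat_lit 404) (nat_lit 316) (nat_lit 300)) (XT.nd (nat_lit 78) (nat_lit 304) (nat_lit 0) (XT.lf (nat_lit 76) (nat_lit 165492133) (nat_lit 0) (nat_lit 523540954) (nat_lit 456) (nat_lit 165492133) (nat_lit 271) (nat_lit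 1) (nat_lit 270) (nat_lit 1) (nat_lit 276) (nat_lit 1) (nat_lit 405) (nat_lit 316) (nat_lit 299)) (XT.lf (nat_lit 380) (nat_lit 210036601) (nat_lit 0) (nat_lit 313298242) (nat_lit 304) (nat_lit 313298242) (nat_lit 271) (nat_lit 1) (nat_lit 266) (nat_lit 1) (nat_lit 270) (nat_lit 1) (nat_lit 406) (nat_lit 316) (nat_lit 298)))) (XT.nd (nat_lit 156) (nat_lit 304) (nat_lit 0) (XT.nd (nat_lit 78) (nat_lit 380) (nat_lit 0) (XT.lf (nat_lit 76) (nat_lit 45702563) (nat_lit 0) (nat_lit 728023867) (nat_lit 380) (nat_lit 45702563) (nat_lit 267) (nat_lit 1) (nat_lit 266) (nat_lit 1) (nat_lit 271) (nat_lit 1) (nat_lit 407) (nat_lit 316) (nat_lit 297)) (XT.lf (nat_lit 76) (nat_lit 385102928) (nat_lit 0) (nat_lit 32253118) (nat_lit 380) (nat_lit 385102928) (nat_lit 262) (nat_lit 1) (nat_lit 261) (nat_lit 1) (nat_lit 266) (nat_lit 1) (nat_lit 408) (nat_lit 316) (nat_lit 296))) (XT.nd (nat_lit 78) (nat_lit 0) (nat_lit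 0) (XT.lf (nat_lit 380) (nat_lit 637020975) (nat_lit 0) (nat_lit 74557120) (nat_lit 304) (nat_lit 74557120) (nat_lit 262) (nat_lit 1) (nat_lit 257) (nat_lit 1) (nat_lit 261) (nat_lit 1) (nat_lit 409) (nat_lit 316) (nat_lit 295)) (XT.lf (nat_lit 76) (nat_lit 249867631) (nat_lit 0) (nat_lit 270356232) (nat_lit 380) (nat_lit 249867631) (nat_lit 258) (nat_lit 1) (nat_lit 257) (nat_lit 1) (nat_lit 262) (nat_lit 1) (nat_lit 410) (nat_lit 316) (nat_lit 294)))))) (XT.nd (nat_lit 468) (nat_lit 912) (nat_lit 0) (XT.nd (nat_lit 234) (nat_lit 608) (nat_lit 0) (XT.nd (nat_lit 78) (nat_lit 228) (nat_lit 0) (XT.lf (nat_lit 380) (nat_lit 364626382) (nat_lit 0) (nat_lit 194988866) (nat_lit 304) (nat_lit 194988866) (nat_lit 258) (nat_lit 1) (nat_lit 253) (nat_lit 1) (nat_lit 257) (nat_lit 1) (nat_lit 411) (nat_lit 316) (nat_lit 293)) (XT.nd (nat_lit 78) (nat_lit 228) (nat_lit 0) (XT.lf (nat_lit 76) (nat_lit 114986888)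 (nat_lit 0) (nat_lit 509595810) (nat_lit 380) (nat_lit 114986888) (nat_lit 254) (nat_lit 1) (nat_lit 253) (nat_lit 1) (nat_lit 258) (nat_lit 1) (nat_lit 412) (nat_lit 316) (nat_lit 292)) (XT.lf (nat_lit 304) (nat_lit 93513911) (nat_lit 0) (nat_lit 315672841) (nat_lit 228) (nat_lit 315672841) (nat_lit 254) (nat_lit 1) (nat_lit 250) (nat_lit 1) (nat_lit 253) (nat_lit 1) (nat_lit 413) (nat_lit 316) (nat_lit 291)))) (XT.nd (nat_lit 78) (nat_lit 228) (nat_lit 0) (XT.lf (nat_lit 380) (nat_lit 673348989) (nat_lit 0) (nat_lit 18684142) (nat_lit 304) (nat_lit 18684142) (nat_lit 250) (nat_lit 1) (nat_lit 245) (nat_lit 1) (nat_lit 249) (nat_lit 1) (nat_lit 414) (nat_lit 316) (nat_lit 290)) (XT.nd (nat_lit 78) (nat_lit 228) (nat_lit 0) (XT.lf (nat_lit 76) (nat_lit 263486437) (nat_lit 0) (nat_lit 169680356) (nat_lit 380) (nat_lit 263486437) (nat_lit 246) (nat_lit 1) (nat_lit 245) (nat_lit 1) (nat_lit 250) (nat_lit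 1) (nat_lit 415) (nat_lit 316) (nat_lit 289)) (XT.lf (nat_lit 304) (nat_lit 384830272) (nat_lit 0) (nat_lit 149149155) (nat_lit 228) (nat_lit 149149155) (nat_lit 246) (nat_lit 1) (nat_lit 242) (nat_lit 1) (nat_lit 245) (nat_lit 1) (nat_lit 416) (nat_lit 316) (nat_lit 288))))) (XT.nd (nat_lit 234) (nat_lit 380) (nat_lit 0) (XT.nd (nat_lit 78) (nat_lit 532) (nat_lit 0) (XT.lf (nat_lit 76) (nat_lit 121573835) (nat_lit 0) (nat_lit 426799878) (nat_lit 304) (nat_lit 121573835) (nat_lit 243) (nat_lit 1) (nat_lit 242) (nat_lit 1) (nat_lit 246) (nat_lit 1) (nat_lit 417) (nat_lit 316) (nat_lit 287)) (XT.nd (nat_lit 78) (nat_lit 304) (nat_lit 0) (XT.lf (nat_lit 304) (nat_lit 101327992) (nat_lit 0) (nat_lit 277869195) (nat_lit 228) (nat_lit 277869195) (nat_lit 243) (nat_lit 1) (nat_lit 239) (nat_lit 1) (nat_lit 242) (nat_lit 1) (nat_lit 418) (nat_lit 316) (nat_lit 286)) (XT.lf (nat_lit 304) (nat_lit 609835241)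 (nat_lit 0) (nat_lit 17414262) (nat_lit 228) (nat_lit 17414262) (nat_lit 239) (nat_lit 1) (nat_lit 235) (nat_lit 1) (nat_lit 238) (nat_lit 1) (nat_lit 419) (nat_lit 316) (nat_lit 285)))) (XT.nd (nat_lit 156) (nat_lit 152) (nat_lit 0) (XT.nd (nat_lit 78) (nat_lit 228) (nat_lit 0) (XT.lf (nat_lit 76) (nat_lit 230683207) (nat_lit 0) (nat_lit 170933940) (nat_lit 304) (nat_lit 230683207) (nat_lit 236) (nat_lit 1) (nat_lit 235) (nat_lit 1) (nat_lit 239) (nat_lit 1) (nat_lit 420) (nat_lit 316) (nat_lit 284)) (XT.lf (nat_lit 304) (nat_lit 317210532) (nat_lit 0) (nat_lit 151591929) (nat_lit 228) (nat_lit 151591929) (nat_lit 236) (nat_lit 1) (nat_lit 232) (nat_lit 1) (nat_lit 235) (nat_lit 1) (nat_lit 421) (nat_lit 316) (nat_lit 283))) (XT.nd (nat_lit 78) (nat_lit 152) (nat_lit 0) (XT.lf (nat_lit 76) (nat_lit 87359522) (nat_lit 0) (nat_lit 434088708) (nat_lit 304) (nat_lit 87359522) (nat_lit 233) (nat_lit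 1) (nat_lit 232) (nat_lit 1) (nat_lit 236) (nat_lit 1) (nat_lit 422) (nat_lit 316) (nat_lit 282)) (XT.lf (nat_lit 228) (nat_lit 32011433) (nat_lit 0) (nat_lit 282714011) (nat_lit 152) (nat_lit 282714011) (nat_lit 233) (nat_lit 1) (nat_lit 230) (nat_lit 1) (nat_lit 232) (nat_lit 1) (nat_lit 423) (nat_lit 316) (nat_lit 281))))))))
noncomputable def ec16 : XT := (XT.nd (nat_lit 50388) (nat_lit 0) (nat_lit 3496) (XT.nd (nat_lit 936) (nat_lit 988) (nat_lit 0) (XT.nd (nat_lit 468) (nat_lit 532) (nat_lit 0) (XT.nd (nat_lit 234) (nat_lit 380) (nat_lit 0) (XT.nd (nat_lit 78) (nat_lit 152) (nat_lit 0) (XT.lf (nat_lit 304) (nat_lit 483682026) (nat_lit 0) (nat_lit 51370537) (nat_lit 228) (nat_lit 51370537) (nat_lit 230) (nat_lit 1) (nat_lit 226) (nat_lit 1) (nat_lit 229) (nat_lit 1) (nat_lit 424) (nat_lit 316) (nat_lit 280)) (XT.nd (nat_lit 78) (nat_lit 152) (nat_lit 0) (XT.lf (nat_lit 76) (nat_lit 168938650)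 (nat_lit 0) (nat_lit 237652651) (nat_lit 304) (nat_lit 168938650) (nat_lit 227) (nat_lit 1) (nat_lit 226) (nat_lit 1) (nat_lit 230) (nat_lit 1) (nat_lit 425) (nat_lit 316) (nat_lit 279)) (XT.lf (nat_lit 228) (nat_lit 195182551) (nat_lit 0) (nat_lit 184895222) (nat_lit 152) (nat_lit 184895222) (nat_lit 227) (nat_lit 1) (nat_lit 224) (nat_lit 1) (nat_lit 226) (nat_lit 1) (nat_lit 426) (nat_lit 316) (nat_lit 278)))) (XT.nd (nat_lit 78) (nat_lit 380) (nat_lit 0) (XT.lf (nat_lit 76) (nat_lit 28041537) (nat_lit 0) (nat_lit 498683310) (nat_lit 228) (nat_lit 28041537) (nat_lit 225) (nat_lit 1) (nat_lit 224) (nat_lit 1) (nat_lit 227) (nat_lit 1) (nat_lit 427) (nat_lit 316) (nat_lit 277)) (XT.nd (nat_lit 78) (nat_lit 152) (nat_lit 0) (XT.lf (nat_lit 76) (nat_lit 231431727) (nat_lit 0) (nat_lit 81733420) (nat_lit 228) (nat_lit 231431727) (nat_lit 222) (nat_lit 1) (nat_lit 221) (nat_lit 1) (nat_lit 224) (nat_lit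 1) (nat_lit 428) (nat_lit 316) (nat_lit 276)) (XT.lf (nat_lit 228) (nat_lit 321383515) (nat_lit 0) (nat_lit 106690619) (nat_lit 152) (nat_lit 106690619) (nat_lit 222) (nat_lit 1) (nat_lit 219) (nat_lit 1) (nat_lit 221) (nat_lit 1) (nat_lit 429) (nat_lit 316) (nat_lit 275))))) (XT.nd (nat_lit 234) (nat_lit 152) (nat_lit 0) (XT.nd (nat_lit 78) (nat_lit 380) (nat_lit 0) (XT.lf (nat_lit 76) (nat_lit 90686066) (nat_lit 0) (nat_lit 343777812) (nat_lit 228) (nat_lit 90686066) (nat_lit 220) (nat_lit 1) (nat_lit 219) (nat_lit 1) (nat_lit 222) (nat_lit 1) (nat_lit 430) (nat_lit 316) (nat_lit 274)) (XT.nd (nat_lit 78) (nat_lit 228) (nat_lit 0) (XT.lf (nat_lit 228) (nat_lit 42483157) (nat_lit 0) (nat_lit 236622894) (nat_lit 152) (nat_lit 236622894) (nat_lit 220) (nat_lit 1) (nat_lit 217) (nat_lit 1) (nat_lit 219) (nat_lit 1) (nat_lit 431) (nat_lit 316) (nat_lit 273)) (XT.lf (nat_lit 228) (nat_lit 417551916)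 (nat_lit 0) (nat_lit 44514505) (nat_lit 152) (nat_lit 44514505) (nat_lit 217) (nat_lit 1) (nat_lit 214) (nat_lit 1) (nat_lit 216) (nat_lit 1) (nat_lit 432) (nat_lit 316) (nat_lit 272)))) (XT.nd (nat_lit 78) (nat_lit 152) (nat_lit 0) (XT.lf (nat_lit 76) (nat_lit 139004056) (nat_lit 0) (nat_lit 219502874) (nat_lit 228) (nat_lit 139004056) (nat_lit 215) (nat_lit 1) (nat_lit 214) (nat_lit 1) (nat_lit 217) (nat_lit 1) (nat_lit 433) (nat_lit 316) (nat_lit 271)) (XT.nd (nat_lit 78) (nat_lit 0) (nat_lit 0) (XT.lf (nat_lit 228) (nat_lit 141568882) (nat_lit 0) (nat_lit 173567738) (nat_lit 152) (nat_lit 173567738) (nat_lit 215) (nat_lit 1) (nat_lit 212) (nat_lit 1) (nat_lit 214) (nat_lit 1) (nat_lit 434) (nat_lit 316) (nat_lit 270)) (XT.lf (nat_lit 76) (nat_lit 4652978) (nat_lit 0) (nat_lit 470900622) (nat_lit 228) (nat_lit 4652978) (nat_lit 213) (nat_lit 1) (nat_lit 212) (nat_lit 1) (nat_lit 215) (nat_lit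 1) (nat_lit 435) (nat_lit 316) (nat_lit 269)))))) (XT.nd (nat_lit 468) (nat_lit 380) (nat_lit 0) (XT.nd (nat_lit 234) (nat_lit 304) (nat_lit 0) (XT.nd (nat_lit 78) (nat_lit 152) (nat_lit 0) (XT.lf (nat_lit 76) (nat_lit 175688890) (nat_lit 0) (nat_lit 120277003) (nat_lit 152) (nat_lit 175688890) (nat_lit 211) (nat_lit 1) (nat_lit 210) (nat_lit 1) (nat_lit 212) (nat_lit 1) (nat_lit 436) (nat_lit 316) (nat_lit 268)) (XT.nd (nat_lit 78) (nat_lit 0) (nat_lit 0) (XT.lf (nat_lit 228) (nat_lit 218009911) (nat_lit 0) (nat_lit 122696985) (nat_lit 152) (nat_lit 122696985) (nat_lit 211) (nat_lit 1) (nat_lit 208) (nat_lit 1) (nat_lit 210) (nat_lit 1) (nat_lit 437) (nat_lit 316) (nat_lit 267)) (XT.lf (nat_lit 76) (nat_lit 43709480) (nat_lit 0) (nat_lit 367956734) (nat_lit 228) (nat_lit 43709480) (nat_lit 209) (nat_lit 1) (nat_lit 208) (nat_lit 1) (nat_lit 211) (nat_lit 1) (nat_lit 438) (nat_lit 316) (nat_lit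 266)))) (XT.nd (nat_lit 78) (nat_lit 152) (nat_lit 0) (XT.lf (nat_lit 76) (nat_lit 202949122) (nat_lit 0) (nat_lit 41515469) (nat_lit 152) (nat_lit 202949122) (nat_lit 207) (nat_lit 1) (nat_lit 206) (nat_lit 1) (nat_lit 208) (nat_lit 1) (nat_lit 439) (nat_lit 316) (nat_lit 265)) (XT.nd (nat_lit 78) (nat_lit 0) (nat_lit 0) (XT.lf (nat_lit 228) (nat_lit 276062857) (nat_lit 0) (nat_lit 81802521) (nat_lit 152) (nat_lit 81802521) (nat_lit 207) (nat_lit 1) (nat_lit 204) (nat_lit 1) (nat_lit 206) (nat_lit 1) (nat_lit 440) (nat_lit 316) (nat_lit 264)) (XT.lf (nat_lit 76) (nat_lit 73942244) (nat_lit 0) (nat_lit 284190942) (nat_lit 228) (nat_lit 73942244) (nat_lit 205) (nat_lit 1) (nat_lit 204) (nat_lit 1) (nat_lit 207) (nat_lit 1) (nat_lit 441) (nat_lit 316) (nat_lit 263))))) (XT.nd (nat_lit 234) (nat_lit 76) (nat_lit 0) (XT.nd (nat_lit 78) (nat_lit 228) (nat_lit 0) (XT.lf (nat_lit 152) (nat_lit 21226125)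 (nat_lit 0) (nat_lit 201700054) (nat_lit 76) (nat_lit 201700054) (nat_lit 205) (nat_lit 1) (nat_lit 203) (nat_lit 1) (nat_lit 204) (nat_lit 1) (nat_lit 442) (nat_lit 316) (nat_lit 262)) (XT.nd (nat_lit 78) (nat_lit 0) (nat_lit 0) (XT.lf (nat_lit 228) (nat_lit 319218132) (nat_lit 0) (nat_lit 49070001) (nat_lit 152) (nat_lit 49070001) (nat_lit 203) (nat_lit 1) (nat_lit 200) (nat_lit 1) (nat_lit 202) (nat_lit 1) (nat_lit 443) (nat_lit 316) (nat_lit 261)) (XT.lf (nat_lit 76) (nat_lit 97006130) (nat_lit 0) (nat_lit 216158902) (nat_lit 228) (nat_lit 97006130) (nat_lit 201) (nat_lit 1) (nat_lit 200) (nat_lit 1) (nat_lit 203) (nat_lit 1) (nat_lit 444) (nat_lit 316) (nat_lit 260)))) (XT.nd (nat_lit 48594) (nat_lit 0) (nat_lit 7068) (XT.nd (nat_lit 48516) (nat_lit 0) (nat_lit 7068) (XT.lf (nat_lit 152) (nat_lit 71282138) (nat_lit 0) (nat_lit 165939133) (nat_lit 76) (nat_lit 165939133) (nat_lit 201) (nat_lit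 1) (nat_lit 199) (nat_lit 1) (nat_lit 200) (nat_lit 1) (nat_lit 445) (nat_lit 316) (nat_lit 259)) (XT.lf (nat_lit 836) (nat_lit 174942690) (nat_lit 0) (nat_lit 310610344) (nat_lit 836) (nat_lit 174942690) (nat_lit 303) (nat_lit 1) (nat_lit 292) (nat_lit 0) (nat_lit 303) (nat_lit 0) (nat_lit 386) (nat_lit 317) (nat_lit 317))) (XT.nd (nat_lit 78) (nat_lit 0) (nat_lit 76) (XT.lf (nat_lit 836) (nat_lit 678099707) (nat_lit 76) (nat_lit 305600499) (nat_lit 0) (nat_lit 305600499) (nat_lit 303) (nat_lit 1) (nat_lit 293) (nat_lit 1) (nat_lit 292) (nat_lit 0) (nat_lit 387) (nat_lit 317) (nat_lit 316)) (XT.lf (nat_lit 836) (nat_lit 323172110) (nat_lit 0) (nat_lit 612245476) (nat_lit 760) (nat_lit 323172110) (nat_lit 304) (nat_lit 1) (nat_lit 293) (nat_lit 1) (nat_lit 303) (nat_lit 1) (nat_lit 388) (nat_lit 317) (nat_lit 315))))))) (XT.nd (nat_lit 936) (nat_lit 2280) (nat_lit 0) (XT.nd (nat_lit 468) (nat_lit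 1368) (nat_lit 0) (XT.nd (nat_lit 234) (nat_lit 0) (nat_lit 152) (XT.nd (nat_lit 78) (nat_lit 0) (nat_lit 76) (XT.lf (nat_lit 836) (nat_lit 606225973) (nat_lit 76) (nat_lit 311322453) (nat_lit 0) (nat_lit 311322453) (nat_lit 304) (nat_lit 1) (nat_lit 294) (nat_lit 1) (nat_lit 293) (nat_lit 1) (nat_lit 389) (nat_lit 317) (nat_lit 314)) (XT.nd (nat_lit 78) (nat_lit 0) (nat_lit 0) (XT.lf (nat_lit 836) (nat_lit 279039993) (nat_lit 0) (nat_lit 642014014) (nat_lit 760) (nat_lit 279039993) (nat_lit 305) (nat_lit 1) (nat_lit 294) (nat_lit 1) (nat_lit 304) (nat_lit 1) (nat_lit 390) (nat_lit 317) (nat_lit 313)) (XT.lf (nat_lit 836) (nat_lit 501871603) (nat_lit 76) (nat_lit 335161375) (nat_lit 0) (nat_lit 335161375) (nat_lit 305) (nat_lit 1) (nat_lit 295) (nat_lit 1) (nat_lit 294) (nat_lit 1) (nat_lit 391) (nat_lit 317) (nat_lit 312)))) (XT.nd (nat_lit 78) (nat_lit 0) (nat_lit 0) (XT.lf (nat_lit 836) (nat_lit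 220056202) (nat_lit 0) (nat_lit 705119072) (nat_lit 760) (nat_lit 220056202) (nat_lit 306) (nat_lit 1) (nat_lit 295) (nat_lit 1) (nat_lit 305) (nat_lit 1) (nat_lit 392) (nat_lit 317) (nat_lit 311)) (XT.nd (nat_lit 78) (nat_lit 0) (nat_lit 76) (XT.lf (nat_lit 836) (nat_lit 369921233) (nat_lit 76) (nat_lit 374544874) (nat_lit 0) (nat_lit 374544874) (nat_lit 306) (nat_lit 1) (nat_lit 296) (nat_lit 1) (nat_lit 295) (nat_lit 1) (nat_lit 393) (nat_lit 317) (nat_lit 310)) (XT.lf (nat_lit 836) (nat_lit 148504107) (nat_lit 0) (nat_lit 796742091) (nat_lit 760) (nat_lit 148504107) (nat_lit 307) (nat_lit 1) (nat_lit 296) (nat_lit 1) (nat_lit 306) (nat_lit 1) (nat_lit 394) (nat_lit 317) (nat_lit 309))))) (XT.nd (nat_lit 234) (nat_lit 912) (nat_lit 0) (XT.nd (nat_lit 78) (nat_lit 684) (nat_lit 0) (XT.lf (nat_lit 836) (nat_lit 214716567) (nat_lit 76) (nat_lit 427182008) (nat_lit 0) (nat_lit 427182008) (nat_lit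 307) (nat_lit 1) (nat_lit 297) (nat_lit 1) (nat_lit 296) (nat_lit 1) (nat_lit 395) (nat_lit 317) (nat_lit 308)) (XT.nd (nat_lit 78) (nat_lit 760) (nat_lit 0) (XT.lf (nat_lit 76) (nat_lit 66411812) (nat_lit 0) (nat_lit 912594367) (nat_lit 760) (nat_lit 66411812) (nat_lit 298) (nat_lit 1) (nat_lit 297) (nat_lit 1) (nat_lit 307) (nat_lit 1) (nat_lit 396) (nat_lit 317) (nat_lit 307)) (XT.lf (nat_lit 836) (nat_lit 40111083) (nat_lit 0) (nat_lit 491035095) (nat_lit 760) (nat_lit 491035095) (nat_lit 298) (nat_lit 1) (nat_lit 287) (nat_lit 1) (nat_lit 297) (nat_lit 1) (nat_lit 397) (nat_lit 317) (nat_lit 306)))) (XT.nd (nat_lit 78) (nat_lit 380) (nat_lit 0) (XT.lf (nat_lit 532) (nat_lit 951886522) (nat_lit 0) (nat_lit 24028162) (nat_lit 456) (nat_lit 24028162) (nat_lit 287) (nat_lit 1) (nat_lit 280) (nat_lit 1) (nat_lit 286) (nat_lit 1) (nat_lit 398) (nat_lit 317) (nat_lit 305)) (XT.nd (nat_lit 78) (nat_lit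 380) (nat_lit 0) (XT.lf (nat_lit 76) (nat_lit 416163131) (nat_lit 0) (nat_lit 145664231) (nat_lit 532) (nat_lit 416163131) (nat_lit 281) (nat_lit 1) (nat_lit 280) (nat_lit 1) (nat_lit 287) (nat_lit 1) (nat_lit 399) (nat_lit 317) (nat_lit 304)) (XT.lf (nat_lit 456) (nat_lit 716109924) (nat_lit 0) (nat_lit 120430843) (nat_lit 380) (nat_lit 120430843) (nat_lit 281) (nat_lit 1) (nat_lit 275) (nat_lit 1) (nat_lit 280) (nat_lit 1) (nat_lit 400) (nat_lit 317) (nat_lit 303)))))) (XT.nd (nat_lit 468) (nat_lit 1216) (nat_lit 0) (XT.nd (nat_lit 234) (nat_lit 684) (nat_lit 0) (XT.nd (nat_lit 78) (nat_lit 380) (nat_lit 0) (XT.lf (nat_lit 76) (nat_lit 296844095) (nat_lit 0) (nat_lit 342706414) (nat_lit 456) (nat_lit 296844095) (nat_lit 276) (nat_lit 1) (nat_lit 275) (nat_lit 1) (nat_lit 281) (nat_lit 1) (nat_lit 401) (nat_lit 317) (nat_lit 302)) (XT.nd (nat_lit 78) (nat_lit 0) (nat_lit 0) (XT.lf (nat_lit 456)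 (nat_lit 471568540) (nat_lit 0) (nat_lit 222482850) (nat_lit 380) (nat_lit 222482850) (nat_lit 276) (nat_lit 1) (nat_lit 270) (nat_lit 1) (nat_lit 275) (nat_lit 1) (nat_lit 402) (nat_lit 317) (nat_lit 301)) (XT.lf (nat_lit 76) (nat_lit 173766740) (nat_lit 0) (nat_lit 549718002) (nat_lit 456) (nat_lit 173766740) (nat_lit 271) (nat_lit 1) (nat_lit 270) (nat_lit 1) (nat_lit 276) (nat_lit 1) (nat_lit 403) (nat_lit 317) (nat_lit 300)))) (XT.nd (nat_lit 78) (nat_lit 380) (nat_lit 0) (XT.lf (nat_lit 380) (nat_lit 220538431) (nat_lit 0) (nat_lit 328963154) (nat_lit 304) (nat_lit 328963154) (nat_lit 271) (nat_lit 1) (nat_lit 266) (nat_lit 1) (nat_lit 270) (nat_lit 1) (nat_lit 404) (nat_lit 317) (nat_lit 299)) (XT.nd (nat_lit 78) (nat_lit 380) (nat_lit 0) (XT.lf (nat_lit 76) (nat_lit 47987691) (nat_lit 0) (nat_lit 764425060) (nat_lit 380) (nat_lit 47987691) (nat_lit 267) (nat_lit 1) (nat_lit 266) (nat_lit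 1) (nat_lit 271) (nat_lit 1) (nat_lit 405) (nat_lit 317) (nat_lit 298)) (XT.lf (nat_lit 76) (nat_lit 404358074) (nat_lit 0) (nat_lit 33865774) (nat_lit 380) (nat_lit 404358074) (nat_lit 262) (nat_lit 1) (nat_lit 261) (nat_lit 1) (nat_lit 266) (nat_lit 1) (nat_lit 406) (nat_lit 317) (nat_lit 297))))) (XT.nd (nat_lit 234) (nat_lit 608) (nat_lit 0) (XT.nd (nat_lit 78) (nat_lit 304) (nat_lit 0) (XT.lf (nat_lit 380) (nat_lit 668872023) (nat_lit 0) (nat_lit 78284976) (nat_lit 304) (nat_lit 78284976) (nat_lit 262) (nat_lit 1) (nat_lit 257) (nat_lit 1) (nat_lit 261) (nat_lit 1) (nat_lit 407) (nat_lit 317) (nat_lit 296)) (XT.nd (nat_lit 78) (nat_lit 304) (nat_lit 0) (XT.lf (nat_lit 76) (nat_lit 262361013) (nat_lit 0) (nat_lit 283874044) (nat_lit 380) (nat_lit 262361013) (nat_lit 258) (nat_lit 1) (nat_lit 257) (nat_lit 1) (nat_lit 262) (nat_lit 1) (nat_lit 408) (nat_lit 317) (nat_lit 295)) (XT.lf (nat_lit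 380) (nat_lit 382857701) (nat_lit 0) (nat_lit 204738309) (nat_lit 304) (nat_lit 204738309) (nat_lit 258) (nat_lit 1) (nat_lit 253) (nat_lit 1) (nat_lit 257) (nat_lit 1) (nat_lit 409) (nat_lit 317) (nat_lit 294)))) (XT.nd (nat_lit 156) (nat_lit 380) (nat_lit 0) (XT.nd (nat_lit 78) (nat_lit 228) (nat_lit 0) (XT.lf (nat_lit 76) (nat_lit 120736232) (nat_lit 0) (nat_lit 535075601) (nat_lit 380) (nat_lit 120736232) (nat_lit 254) (nat_lit 1) (nat_lit 253) (nat_lit 1) (nat_lit 258) (nat_lit 1) (nat_lit 410) (nat_lit 317) (nat_lit 293)) (XT.lf (nat_lit 304) (nat_lit 98189606) (nat_lit 0) (nat_lit 331456483) (nat_lit 228) (nat_lit 331456483) (nat_lit 254) (nat_lit 1) (nat_lit 250) (nat_lit 1) (nat_lit 253) (nat_lit 1) (nat_lit 411) (nat_lit 317) (nat_lit 292))) (XT.nd (nat_lit 78) (nat_lit 0) (nat_lit 0) (XT.lf (nat_lit 380) (nat_lit 707016439) (nat_lit 0) (nat_lit 19618349) (nat_lit 304) (nat_lit 19618349)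 (nat_lit 250) (nat_lit 1) (nat_lit 245) (nat_lit 1) (nat_lit 249) (nat_lit 1) (nat_lit 412) (nat_lit 317) (nat_lit 291)) (XT.lf (nat_lit 76) (nat_lit 276660759) (nat_lit 0) (nat_lit 178164374) (nat_lit 380) (nat_lit 276660759) (nat_lit 246) (nat_lit 1) (nat_lit 245) (nat_lit 1) (nat_lit 250) (nat_lit 1) (nat_lit 413) (nat_lit 317) (nat_lit 290))))))))
noncomputable def ec17 : XT := (XT.nd (nat_lit 1950) (nat_lit 608) (nat_lit 0) (XT.nd (nat_lit 936) (nat_lit 1520) (nat_lit 0) (XT.nd (nat_lit 468) (nat_lit 608) (nat_lit 0) (XT.nd (nat_lit 234) (nat_lit 532) (nat_lit 0) (XT.nd (nat_lit 78) (nat_lit 228) (nat_lit 0) (XT.lf (nat_lit 304) (nat_lit 404071785) (nat_lit 0) (nat_lit 156606612) (nat_lit 228) (nat_lit 156606612) (nat_lit 246) (nat_lit 1) (nat_lit 242) (nat_lit 1) (nat_lit 245) (nat_lit 1) (nat_lit 414) (nat_lit 317) (nat_lit 289)) (XT.nd (nat_lit 78) (nat_lit 228) (nat_lit 0) (XT.lf (nat_lit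 76) (nat_lit 127652527) (nat_lit 0) (nat_lit 448139872) (nat_lit 304) (nat_lit 127652527) (nat_lit 243) (nat_lit 1) (nat_lit 242) (nat_lit 1) (nat_lit 246) (nat_lit 1) (nat_lit 415) (nat_lit 317) (nat_lit 288)) (XT.lf (nat_lit 304) (nat_lit 106394391) (nat_lit 0) (nat_lit 291762654) (nat_lit 228) (nat_lit 291762654) (nat_lit 243) (nat_lit 1) (nat_lit 239) (nat_lit 1) (nat_lit 242) (nat_lit 1) (nat_lit 416) (nat_lit 317) (nat_lit 287)))) (XT.nd (nat_lit 78) (nat_lit 228) (nat_lit 0) (XT.lf (nat_lit 304) (nat_lit 640327004) (nat_lit 0) (nat_lit 18284975) (nat_lit 228) (nat_lit 18284975) (nat_lit 239) (nat_lit 1) (nat_lit 235) (nat_lit 1) (nat_lit 238) (nat_lit 1) (nat_lit 417) (nat_lit 317) (nat_lit 286)) (XT.nd (nat_lit 78) (nat_lit 228) (nat_lit 0) (XT.lf (nat_lit 76) (nat_lit 242217367) (nat_lit 0) (nat_lit 179480637) (nat_lit 304) (nat_lit 242217367) (nat_lit 236) (nat_lit 1) (nat_lit 235) (nat_lit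 1) (nat_lit 239) (nat_lit 1) (nat_lit 418) (nat_lit 317) (nat_lit 285)) (XT.lf (nat_lit 304) (nat_lit 333071059) (nat_lit 0) (nat_lit 159171526) (nat_lit 228) (nat_lit 159171526) (nat_lit 236) (nat_lit 1) (nat_lit 232) (nat_lit 1) (nat_lit 235) (nat_lit 1) (nat_lit 419) (nat_lit 317) (nat_lit 284))))) (XT.nd (nat_lit 234) (nat_lit 152) (nat_lit 0) (XT.nd (nat_lit 78) (nat_lit 456) (nat_lit 0) (XT.lf (nat_lit 76) (nat_lit 91727498) (nat_lit 0) (nat_lit 455793144) (nat_lit 304) (nat_lit 91727498) (nat_lit 233) (nat_lit 1) (nat_lit 232) (nat_lit 1) (nat_lit 236) (nat_lit 1) (nat_lit 420) (nat_lit 317) (nat_lit 283)) (XT.nd (nat_lit 78) (nat_lit 304) (nat_lit 0) (XT.lf (nat_lit 228) (nat_lit 33612005) (nat_lit 0) (nat_lit 296849712) (nat_lit 152) (nat_lit 296849712) (nat_lit 233) (nat_lit 1) (nat_lit 230) (nat_lit 1) (nat_lit 232) (nat_lit 1) (nat_lit 421) (nat_lit 317) (nat_lit 282)) (XT.lf (nat_lit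 304) (nat_lit 507866128) (nat_lit 0) (nat_lit 53939063) (nat_lit 228) (nat_lit 53939063) (nat_lit 230) (nat_lit 1) (nat_lit 226) (nat_lit 1) (nat_lit 229) (nat_lit 1) (nat_lit 422) (nat_lit 317) (nat_lit 281)))) (XT.nd (nat_lit 78) (nat_lit 152) (nat_lit 0) (XT.lf (nat_lit 76) (nat_lit 177385583) (nat_lit 0) (nat_lit 249535283) (nat_lit 304) (nat_lit 177385583) (nat_lit 227) (nat_lit 1) (nat_lit 226) (nat_lit 1) (nat_lit 230) (nat_lit 1) (nat_lit 423) (nat_lit 317) (nat_lit 280)) (XT.nd (nat_lit 78) (nat_lit 0) (nat_lit 0) (XT.lf (nat_lit 228) (nat_lit 204941678) (nat_lit 0) (nat_lit 194139983) (nat_lit 152) (nat_lit 194139983) (nat_lit 227) (nat_lit 1) (nat_lit 224) (nat_lit 1) (nat_lit 226) (nat_lit 1) (nat_lit 424) (nat_lit 317) (nat_lit 279)) (XT.lf (nat_lit 76) (nat_lit 29443614) (nat_lit 0) (nat_lit 523617475) (nat_lit 228) (nat_lit 29443614) (nat_lit 225) (nat_lit 1) (nat_lit 224) (nat_lit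 1) (nat_lit 227) (nat_lit 1) (nat_lit 425) (nat_lit 317) (nat_lit 278)))))) (XT.nd (nat_lit 468) (nat_lit 760) (nat_lit 0) (XT.nd (nat_lit 234) (nat_lit 380) (nat_lit 0) (XT.nd (nat_lit 78) (nat_lit 152) (nat_lit 0) (XT.lf (nat_lit 76) (nat_lit 243003314) (nat_lit 0) (nat_lit 85820091) (nat_lit 228) (nat_lit 243003314) (nat_lit 222) (nat_lit 1) (nat_lit 221) (nat_lit 1) (nat_lit 224) (nat_lit 1) (nat_lit 426) (nat_lit 317) (nat_lit 277)) (XT.nd (nat_lit 78) (nat_lit 0) (nat_lit 0) (XT.lf (nat_lit 228) (nat_lit 337452691) (nat_lit 0) (nat_lit 112025150) (nat_lit 152) (nat_lit 112025150) (nat_lit 222) (nat_lit 1) (nat_lit 219) (nat_lit 1) (nat_lit 221) (nat_lit 1) (nat_lit 427) (nat_lit 317) (nat_lit 276)) (XT.lf (nat_lit 76) (nat_lit 95220370) (nat_lit 0) (nat_lit 360966702) (nat_lit 228) (nat_lit 95220370) (nat_lit 220) (nat_lit 1) (nat_lit 219) (nat_lit 1) (nat_lit 222) (nat_lit 1) (nat_lit 428)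 (nat_lit 317) (nat_lit 275)))) (XT.nd (nat_lit 78) (nat_lit 228) (nat_lit 0) (XT.lf (nat_lit 228) (nat_lit 44607315) (nat_lit 0) (nat_lit 248454039) (nat_lit 152) (nat_lit 248454039) (nat_lit 220) (nat_lit 1) (nat_lit 217) (nat_lit 1) (nat_lit 219) (nat_lit 1) (nat_lit 429) (nat_lit 317) (nat_lit 274)) (XT.nd (nat_lit 78) (nat_lit 0) (nat_lit 0) (XT.lf (nat_lit 228) (nat_lit 438429512) (nat_lit 0) (nat_lit 46740231) (nat_lit 152) (nat_lit 46740231) (nat_lit 217) (nat_lit 1) (nat_lit 214) (nat_lit 1) (nat_lit 216) (nat_lit 1) (nat_lit 430) (nat_lit 317) (nat_lit 273)) (XT.lf (nat_lit 76) (nat_lit 145954259) (nat_lit 0) (nat_lit 230478018) (nat_lit 228) (nat_lit 145954259) (nat_lit 215) (nat_lit 1) (nat_lit 214) (nat_lit 1) (nat_lit 217) (nat_lit 1) (nat_lit 431) (nat_lit 317) (nat_lit 272))))) (XT.nd (nat_lit 234) (nat_lit 456) (nat_lit 0) (XT.nd (nat_lit 78) (nat_lit 152) (nat_lit 0) (XT.lf (nat_lit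 228) (nat_lit 148647326) (nat_lit 0) (nat_lit 182246125) (nat_lit 152) (nat_lit 182246125) (nat_lit 215) (nat_lit 1) (nat_lit 212) (nat_lit 1) (nat_lit 214) (nat_lit 1) (nat_lit 432) (nat_lit 317) (nat_lit 271)) (XT.nd (nat_lit 78) (nat_lit 152) (nat_lit 0) (XT.lf (nat_lit 76) (nat_lit 4885627) (nat_lit 0) (nat_lit 494445653) (nat_lit 228) (nat_lit 4885627) (nat_lit 213) (nat_lit 1) (nat_lit 212) (nat_lit 1) (nat_lit 215) (nat_lit 1) (nat_lit 433) (nat_lit 317) (nat_lit 270)) (XT.lf (nat_lit 76) (nat_lit 184473334) (nat_lit 0) (nat_lit 126290853) (nat_lit 152) (nat_lit 184473334) (nat_lit 211) (nat_lit 1) (nat_lit 210) (nat_lit 1) (nat_lit 212) (nat_lit 1) (nat_lit 434) (nat_lit 317) (nat_lit 269)))) (XT.nd (nat_lit 156) (nat_lit 304) (nat_lit 0) (XT.nd (nat_lit 78) (nat_lit 0) (nat_lit 0) (XT.lf (nat_lit 228) (nat_lit 228910407) (nat_lit 0) (nat_lit 128831835) (nat_lit 152) (nat_lit 128831835)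 (nat_lit 211) (nat_lit 1) (nat_lit 208) (nat_lit 1) (nat_lit 210) (nat_lit 1) (nat_lit 435) (nat_lit 317) (nat_lit 268)) (XT.lf (nat_lit 76) (nat_lit 45894954) (nat_lit 0) (nat_lit 386354571) (nat_lit 228) (nat_lit 45894954) (nat_lit 209) (nat_lit 1) (nat_lit 208) (nat_lit 1) (nat_lit 211) (nat_lit 1) (nat_lit 436) (nat_lit 317) (nat_lit 267))) (XT.nd (nat_lit 78) (nat_lit 152) (nat_lit 0) (XT.lf (nat_lit 76) (nat_lit 213096578) (nat_lit 0) (nat_lit 43591243) (nat_lit 152) (nat_lit 213096578) (nat_lit 207) (nat_lit 1) (nat_lit 206) (nat_lit 1) (nat_lit 208) (nat_lit 1) (nat_lit 437) (nat_lit 317) (nat_lit 266)) (XT.lf (nat_lit 228) (nat_lit 289866000) (nat_lit 0) (nat_lit 85892647) (nat_lit 152) (nat_lit 85892647) (nat_lit 207) (nat_lit 1) (nat_lit 204) (nat_lit 1) (nat_lit 206) (nat_lit 1) (nat_lit 438) (nat_lit 317) (nat_lit 265))))))) (XT.nd (nat_lit 49218) (nat_lit 0) (nat_lit 5624) (XT.nd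 (nat_lit 468) (nat_lit 0) (nat_lit 0) (XT.nd (nat_lit 234) (nat_lit 304) (nat_lit 0) (XT.nd (nat_lit 78) (nat_lit 304) (nat_lit 0) (XT.lf (nat_lit 76) (nat_lit 77639356) (nat_lit 0) (nat_lit 298400489) (nat_lit 228) (nat_lit 77639356) (nat_lit 205) (nat_lit 1) (nat_lit 204) (nat_lit 1) (nat_lit 207) (nat_lit 1) (nat_lit 439) (nat_lit 317) (nat_lit 264)) (XT.nd (nat_lit 78) (nat_lit 228) (nat_lit 0) (XT.lf (nat_lit 152) (nat_lit 22287431) (nat_lit 0) (nat_lit 211785056) (nat_lit 76) (nat_lit 211785056) (nat_lit 205) (nat_lit 1) (nat_lit 203) (nat_lit 1) (nat_lit 204) (nat_lit 1) (nat_lit 440) (nat_lit 317) (nat_lit 263)) (XT.lf (nat_lit 228) (nat_lit 335179039) (nat_lit 0) (nat_lit 51523501) (nat_lit 152) (nat_lit 51523501) (nat_lit 203) (nat_lit 1) (nat_lit 200) (nat_lit 1) (nat_lit 202) (nat_lit 1) (nat_lit 441) (nat_lit 317) (nat_lit 262)))) (XT.nd (nat_lit 78) (nat_lit 304) (nat_lit 0) (XT.lf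 (nat_lit 76) (nat_lit 101856436) (nat_lit 0) (nat_lit 226966847) (nat_lit 228) (nat_lit 101856436) (nat_lit 201) (nat_lit 1) (nat_lit 200) (nat_lit 1) (nat_lit 203) (nat_lit 1) (nat_lit 442) (nat_lit 317) (nat_lit 261)) (XT.nd (nat_lit 78) (nat_lit 228) (nat_lit 0) (XT.lf (nat_lit 152) (nat_lit 74846245) (nat_lit 0) (nat_lit 174236090) (nat_lit 76) (nat_lit 174236090) (nat_lit 201) (nat_lit 1) (nat_lit 199) (nat_lit 1) (nat_lit 200) (nat_lit 1) (nat_lit 443) (nat_lit 317) (nat_lit 260)) (XT.lf (nat_lit 228) (nat_lit 367853162) (nat_lit 0) (nat_lit 24159376) (nat_lit 152) (nat_lit 24159376) (nat_lit 199) (nat_lit 1) (nat_lit 196) (nat_lit 1) (nat_lit 198) (nat_lit 1) (nat_lit 444) (nat_lit 317) (nat_lit 259))))) (XT.nd (nat_lit 48516) (nat_lit 0) (nat_lit 7372) (XT.nd (nat_lit 48360) (nat_lit 0) (nat_lit 7296) (XT.lf (nat_lit 76) (nat_lit 119971205) (nat_lit 0) (nat_lit 169080497) (nat_lit 228)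 (nat_lit 119971205) (nat_lit 197) (nat_lit 1) (nat_lit 196) (nat_lit 1) (nat_lit 199) (nat_lit 1) (nat_lit 445) (nat_lit 317) (nat_lit 258)) (XT.nd (nat_lit 78) (nat_lit 0) (nat_lit 0) (XT.lf (nat_lit 836) (nat_lit 183689824) (nat_lit 0) (nat_lit 326140861) (nat_lit 836) (nat_lit 183689824) (nat_lit 303) (nat_lit 1) (nat_lit 292) (nat_lit 0) (nat_lit 303) (nat_lit 0) (nat_lit 384) (nat_lit 318) (nat_lit 318)) (XT.lf (nat_lit 836) (nat_lit 712004692) (nat_lit 76) (nat_lit 320880524) (nat_lit 0) (nat_lit 320880524) (nat_lit 303) (nat_lit 1) (nat_lit 293) (nat_lit 1) (nat_lit 292) (nat_lit 0) (nat_lit 385) (nat_lit 318) (nat_lit 317)))) (XT.nd (nat_lit 78) (nat_lit 0) (nat_lit 0) (XT.lf (nat_lit 836) (nat_lit 339330715) (nat_lit 0) (nat_lit 642857749) (nat_lit 760) (nat_lit 339330715) (nat_lit 304) (nat_lit 1) (nat_lit 293) (nat_lit 1) (nat_lit 303) (nat_lit 1) (nat_lit 386) (nat_lit 318) (nat_lit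 316)) (XT.nd (nat_lit 78) (nat_lit 0) (nat_lit 76) (XT.lf (nat_lit 836) (nat_lit 636537271) (nat_lit 76) (nat_lit 326888576) (nat_lit 0) (nat_lit 326888576) (nat_lit 304) (nat_lit 1) (nat_lit 294) (nat_lit 1) (nat_lit 293) (nat_lit 1) (nat_lit 387) (nat_lit 318) (nat_lit 315)) (XT.lf (nat_lit 836) (nat_lit 292991993) (nat_lit 0) (nat_lit 674114715) (nat_lit 760) (nat_lit 292991993) (nat_lit 305) (nat_lit 1) (nat_lit 294) (nat_lit 1) (nat_lit 304) (nat_lit 1) (nat_lit 388) (nat_lit 318) (nat_lit 314)))))) (XT.nd (nat_lit 468) (nat_lit 1824) (nat_lit 0) (XT.nd (nat_lit 234) (nat_lit 0) (nat_lit 152) (XT.nd (nat_lit 78) (nat_lit 0) (nat_lit 76) (XT.lf (nat_lit 836) (nat_lit 526965183) (nat_lit 76) (nat_lit 351919443) (nat_lit 0) (nat_lit 351919443) (nat_lit 305) (nat_lit 1) (nat_lit 295) (nat_lit 1) (nat_lit 294) (nat_lit 1) (nat_lit 389) (nat_lit 318) (nat_lit 313)) (XT.nd (nat_lit 78) (nat_lit 0)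 (nat_lit 0) (XT.lf (nat_lit 836) (nat_lit 231059012) (nat_lit 0) (nat_lit 740375025) (nat_lit 760) (nat_lit 231059012) (nat_lit 306) (nat_lit 1) (nat_lit 295) (nat_lit 1) (nat_lit 305) (nat_lit 1) (nat_lit 390) (nat_lit 318) (nat_lit 312)) (XT.lf (nat_lit 836) (nat_lit 388417295) (nat_lit 76) (nat_lit 393272118) (nat_lit 0) (nat_lit 393272118) (nat_lit 306) (nat_lit 1) (nat_lit 296) (nat_lit 1) (nat_lit 295) (nat_lit 1) (nat_lit 391) (nat_lit 318) (nat_lit 311)))) (XT.nd (nat_lit 78) (nat_lit 0) (nat_lit 0) (XT.lf (nat_lit 836) (nat_lit 155929313) (nat_lit 0) (nat_lit 836579195) (nat_lit 760) (nat_lit 155929313) (nat_lit 307) (nat_lit 1) (nat_lit 296) (nat_lit 1) (nat_lit 306) (nat_lit 1) (nat_lit 392) (nat_lit 318) (nat_lit 310)) (XT.nd (nat_lit 78) (nat_lit 0) (nat_lit 76) (XT.lf (nat_lit 836) (nat_lit 225452395) (nat_lit 76) (nat_lit 448541108) (nat_lit 0) (nat_lit 448541108) (nat_lit 307) (nat_lit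 1) (nat_lit 297) (nat_lit 1) (nat_lit 296) (nat_lit 1) (nat_lit 393) (nat_lit 318) (nat_lit 309)) (XT.lf (nat_lit 76) (nat_lit 69732403) (nat_lit 0) (nat_lit 958224085) (nat_lit 760) (nat_lit 69732403) (nat_lit 298) (nat_lit 1) (nat_lit 297) (nat_lit 1) (nat_lit 307) (nat_lit 1) (nat_lit 394) (nat_lit 318) (nat_lit 308))))) (XT.nd (nat_lit 234) (nat_lit 760) (nat_lit 0) (XT.nd (nat_lit 78) (nat_lit 532) (nat_lit 0) (XT.lf (nat_lit 836) (nat_lit 42116637) (nat_lit 0) (nat_lit 515586850) (nat_lit 760) (nat_lit 515586850) (nat_lit 298) (nat_lit 1) (nat_lit 287) (nat_lit 1) (nat_lit 297) (nat_lit 1) (nat_lit 395) (nat_lit 318) (nat_lit 307)) (XT.nd (nat_lit 78) (nat_lit 0) (nat_lit 0) (XT.lf (nat_lit 532) (nat_lit 999480849) (nat_lit 0) (nat_lit 25229571) (nat_lit 456) (nat_lit 25229571) (nat_lit 287) (nat_lit 1) (nat_lit 280) (nat_lit 1) (nat_lit 286) (nat_lit 1) (nat_lit 396) (nat_lit 318) (nat_lit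 306)) (XT.lf (nat_lit 76) (nat_lit 436971287) (nat_lit 0) (nat_lit 152947443) (nat_lit 532) (nat_lit 436971287) (nat_lit 281) (nat_lit 1) (nat_lit 280) (nat_lit 1) (nat_lit 287) (nat_lit 1) (nat_lit 397) (nat_lit 318) (nat_lit 305)))) (XT.nd (nat_lit 156) (nat_lit 380) (nat_lit 0) (XT.nd (nat_lit 78) (nat_lit 0) (nat_lit 0) (XT.lf (nat_lit 456) (nat_lit 751915420) (nat_lit 0) (nat_lit 126452386) (nat_lit 380) (nat_lit 126452386) (nat_lit 281) (nat_lit 1) (nat_lit 275) (nat_lit 1) (nat_lit 280) (nat_lit 1) (nat_lit 398) (nat_lit 318) (nat_lit 304)) (XT.lf (nat_lit 76) (nat_lit 311686300) (nat_lit 0) (nat_lit 359841735) (nat_lit 456) (nat_lit 311686300) (nat_lit 276) (nat_lit 1) (nat_lit 275) (nat_lit 1) (nat_lit 281) (nat_lit 1) (nat_lit 399) (nat_lit 318) (nat_lit 303))) (XT.nd (nat_lit 78) (nat_lit 0) (nat_lit 0) (XT.lf (nat_lit 456) (nat_lit 495146967) (nat_lit 0) (nat_lit 233606992) (nat_lit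 380) (nat_lit 233606992) (nat_lit 276) (nat_lit 1) (nat_lit 270) (nat_lit 1) (nat_lit 275) (nat_lit 1) (nat_lit 400) (nat_lit 318) (nat_lit 302)) (XT.lf (nat_lit 76) (nat_lit 182455077) (nat_lit 0) (nat_lit 577203902) (nat_lit 456) (nat_lit 182455077) (nat_lit 271) (nat_lit 1) (nat_lit 270) (nat_lit 1) (nat_lit 276) (nat_lit 1) (nat_lit 401) (nat_lit 318) (nat_lit 301))))))))
noncomputable def ec18 : XT := (XT.nd (nat_lit 1950) (nat_lit 2052) (nat_lit 0) (XT.nd (nat_lit 936) (nat_lit 1748) (nat_lit 0) (XT.nd (nat_lit 468) (nat_lit 836) (nat_lit 0) (XT.nd (nat_lit 234) (nat_lit 608) (nat_lit 0) (XT.nd (nat_lit 78) (nat_lit 380) (nat_lit 0) (XT.lf (nat_lit 380) (nat_lit 231565353) (nat_lit 0) (nat_lit 345411311) (nat_lit 304) (nat_lit 345411311) (nat_lit 271) (nat_lit 1) (nat_lit 266) (nat_lit 1) (nat_lit 270) (nat_lit 1) (nat_lit 402) (nat_lit 318) (nat_lit 300)) (XT.nd (nat_lit 78) (nat_lit 380)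 (nat_lit 0) (XT.lf (nat_lit 76) (nat_lit 50387075) (nat_lit 0) (nat_lit 802646313) (nat_lit 380) (nat_lit 50387075) (nat_lit 267) (nat_lit 1) (nat_lit 266) (nat_lit 1) (nat_lit 271) (nat_lit 1) (nat_lit 403) (nat_lit 318) (nat_lit 299)) (XT.lf (nat_lit 76) (nat_lit 424575978) (nat_lit 0) (nat_lit 35559062) (nat_lit 380) (nat_lit 424575978) (nat_lit 262) (nat_lit 1) (nat_lit 261) (nat_lit 1) (nat_lit 266) (nat_lit 1) (nat_lit 404) (nat_lit 318) (nat_lit 298)))) (XT.nd (nat_lit 78) (nat_lit 304) (nat_lit 0) (XT.lf (nat_lit 380) (nat_lit 702315625) (nat_lit 0) (nat_lit 82199225) (nat_lit 304) (nat_lit 82199225) (nat_lit 262) (nat_lit 1) (nat_lit 257) (nat_lit 1) (nat_lit 261) (nat_lit 1) (nat_lit 405) (nat_lit 318) (nat_lit 297)) (XT.nd (nat_lit 78) (nat_lit 304) (nat_lit 0) (XT.lf (nat_lit 76) (nat_lit 275479064) (nat_lit 0) (nat_lit 298067746) (nat_lit 380) (nat_lit 275479064) (nat_lit 258) (nat_lit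 1) (nat_lit 257) (nat_lit 1) (nat_lit 262) (nat_lit 1) (nat_lit 406) (nat_lit 318) (nat_lit 296)) (XT.lf (nat_lit 380) (nat_lit 402000586) (nat_lit 0) (nat_lit 214975225) (nat_lit 304) (nat_lit 214975225) (nat_lit 258) (nat_lit 1) (nat_lit 253) (nat_lit 1) (nat_lit 257) (nat_lit 1) (nat_lit 407) (nat_lit 318) (nat_lit 295))))) (XT.nd (nat_lit 234) (nat_lit 228) (nat_lit 0) (XT.nd (nat_lit 78) (nat_lit 608) (nat_lit 0) (XT.lf (nat_lit 76) (nat_lit 126773044) (nat_lit 0) (nat_lit 561829381) (nat_lit 380) (nat_lit 126773044) (nat_lit 254) (nat_lit 1) (nat_lit 253) (nat_lit 1) (nat_lit 258) (nat_lit 1) (nat_lit 408) (nat_lit 318) (nat_lit 294)) (XT.nd (nat_lit 78) (nat_lit 380) (nat_lit 0) (XT.lf (nat_lit 304) (nat_lit 103099087) (nat_lit 0) (nat_lit 348029307) (nat_lit 228) (nat_lit 348029307) (nat_lit 254) (nat_lit 1) (nat_lit 250) (nat_lit 1) (nat_lit 253) (nat_lit 1) (nat_lit 409) (nat_lit 318)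 (nat_lit 293)) (XT.lf (nat_lit 380) (nat_lit 742367261) (nat_lit 0) (nat_lit 20599267) (nat_lit 304) (nat_lit 20599267) (nat_lit 250) (nat_lit 1) (nat_lit 245) (nat_lit 1) (nat_lit 249) (nat_lit 1) (nat_lit 410) (nat_lit 318) (nat_lit 292)))) (XT.nd (nat_lit 78) (nat_lit 228) (nat_lit 0) (XT.lf (nat_lit 76) (nat_lit 290493797) (nat_lit 0) (nat_lit 187072592) (nat_lit 380) (nat_lit 290493797) (nat_lit 246) (nat_lit 1) (nat_lit 245) (nat_lit 1) (nat_lit 250) (nat_lit 1) (nat_lit 411) (nat_lit 318) (nat_lit 291)) (XT.nd (nat_lit 78) (nat_lit 0) (nat_lit 0) (XT.lf (nat_lit 304) (nat_lit 424275375) (nat_lit 0) (nat_lit 164436943) (nat_lit 228) (nat_lit 164436943) (nat_lit 246) (nat_lit 1) (nat_lit 242) (nat_lit 1) (nat_lit 245) (nat_lit 1) (nat_lit 412) (nat_lit 318) (nat_lit 290)) (XT.lf (nat_lit 76) (nat_lit 134035153) (nat_lit 0) (nat_lit 470546865) (nat_lit 304) (nat_lit 134035153) (nat_lit 243)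 (nat_lit 1) (nat_lit 242) (nat_lit 1) (nat_lit 246) (nat_lit 1) (nat_lit 413) (nat_lit 318) (nat_lit 289)))))) (XT.nd (nat_lit 468) (nat_lit 836) (nat_lit 0) (XT.nd (nat_lit 234) (nat_lit 380) (nat_lit 0) (XT.nd (nat_lit 78) (nat_lit 304) (nat_lit 0) (XT.lf (nat_lit 304) (nat_lit 111714111) (nat_lit 0) (nat_lit 306350787) (nat_lit 228) (nat_lit 306350787) (nat_lit 243) (nat_lit 1) (nat_lit 239) (nat_lit 1) (nat_lit 242) (nat_lit 1) (nat_lit 414) (nat_lit 318) (nat_lit 288)) (XT.nd (nat_lit 78) (nat_lit 0) (nat_lit 0) (XT.lf (nat_lit 304) (nat_lit 672343354) (nat_lit 0) (nat_lit 19199224) (nat_lit 228) (nat_lit 19199224) (nat_lit 239) (nat_lit 1) (nat_lit 235) (nat_lit 1) (nat_lit 238) (nat_lit 1) (nat_lit 415) (nat_lit 318) (nat_lit 287)) (XT.lf (nat_lit 76) (nat_lit 254328236) (nat_lit 0) (nat_lit 188454669) (nat_lit 304) (nat_lit 254328236) (nat_lit 236) (nat_lit 1) (nat_lit 235) (nat_lit 1)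 (nat_lit 239) (nat_lit 1) (nat_lit 416) (nat_lit 318) (nat_lit 286)))) (XT.nd (nat_lit 78) (nat_lit 152) (nat_lit 0) (XT.lf (nat_lit 304) (nat_lit 349724612) (nat_lit 0) (nat_lit 167130102) (nat_lit 228) (nat_lit 167130102) (nat_lit 236) (nat_lit 1) (nat_lit 232) (nat_lit 1) (nat_lit 235) (nat_lit 1) (nat_lit 417) (nat_lit 318) (nat_lit 285)) (XT.nd (nat_lit 78) (nat_lit 152) (nat_lit 0) (XT.lf (nat_lit 76) (nat_lit 96313873) (nat_lit 0) (nat_lit 478582801) (nat_lit 304) (nat_lit 96313873) (nat_lit 233) (nat_lit 1) (nat_lit 232) (nat_lit 1) (nat_lit 236) (nat_lit 1) (nat_lit 418) (nat_lit 318) (nat_lit 284)) (XT.lf (nat_lit 228) (nat_lit 35292605) (nat_lit 0) (nat_lit 311692197) (nat_lit 152) (nat_lit 311692197) (nat_lit 233) (nat_lit 1) (nat_lit 230) (nat_lit 1) (nat_lit 232) (nat_lit 1) (nat_lit 419) (nat_lit 318) (nat_lit 283))))) (XT.nd (nat_lit 234) (nat_lit 380) (nat_lit 0) (XT.nd (nat_lit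 78) (nat_lit 152) (nat_lit 0) (XT.lf (nat_lit 304) (nat_lit 533259434) (nat_lit 0) (nat_lit 56636017) (nat_lit 228) (nat_lit 56636017) (nat_lit 230) (nat_lit 1) (nat_lit 226) (nat_lit 1) (nat_lit 229) (nat_lit 1) (nat_lit 420) (nat_lit 318) (nat_lit 282)) (XT.nd (nat_lit 78) (nat_lit 152) (nat_lit 0) (XT.lf (nat_lit 76) (nat_lit 186254862) (nat_lit 0) (nat_lit 262012047) (nat_lit 304) (nat_lit 186254862) (nat_lit 227) (nat_lit 1) (nat_lit 226) (nat_lit 1) (nat_lit 230) (nat_lit 1) (nat_lit 421) (nat_lit 318) (nat_lit 281)) (XT.lf (nat_lit 228) (nat_lit 215188762) (nat_lit 0) (nat_lit 203846982) (nat_lit 152) (nat_lit 203846982) (nat_lit 227) (nat_lit 1) (nat_lit 224) (nat_lit 1) (nat_lit 226) (nat_lit 1) (nat_lit 422) (nat_lit 318) (nat_lit 280)))) (XT.nd (nat_lit 156) (nat_lit 152) (nat_lit 0) (XT.nd (nat_lit 78) (nat_lit 228) (nat_lit 0) (XT.lf (nat_lit 76) (nat_lit 30915794) (nat_lit 0) (nat_lit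 549798349) (nat_lit 228) (nat_lit 30915794) (nat_lit 225) (nat_lit 1) (nat_lit 224) (nat_lit 1) (nat_lit 227) (nat_lit 1) (nat_lit 423) (nat_lit 318) (nat_lit 279)) (XT.lf (nat_lit 76) (nat_lit 255153479) (nat_lit 0) (nat_lit 90111095) (nat_lit 228) (nat_lit 255153479) (nat_lit 222) (nat_lit 1) (nat_lit 221) (nat_lit 1) (nat_lit 224) (nat_lit 1) (nat_lit 424) (nat_lit 318) (nat_lit 278))) (XT.nd (nat_lit 78) (nat_lit 0) (nat_lit 0) (XT.lf (nat_lit 228) (nat_lit 354325326) (nat_lit 0) (nat_lit 117626408) (nat_lit 152) (nat_lit 117626408) (nat_lit 222) (nat_lit 1) (nat_lit 219) (nat_lit 1) (nat_lit 221) (nat_lit 1) (nat_lit 425) (nat_lit 318) (nat_lit 277)) (XT.lf (nat_lit 76) (nat_lit 99981388) (nat_lit 0) (nat_lit 379015037) (nat_lit 228) (nat_lit 99981388) (nat_lit 220) (nat_lit 1) (nat_lit 219) (nat_lit 1) (nat_lit 222) (nat_lit 1) (nat_lit 426) (nat_lit 318) (nat_lit 276))))))) (XT.nd (nat_lit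 936) (nat_lit 836) (nat_lit 0) (XT.nd (nat_lit 468) (nat_lit 532) (nat_lit 0) (XT.nd (nat_lit 234) (nat_lit 304) (nat_lit 0) (XT.nd (nat_lit 78) (nat_lit 228) (nat_lit 0) (XT.lf (nat_lit 228) (nat_lit 46837681) (nat_lit 0) (nat_lit 260876741) (nat_lit 152) (nat_lit 260876741) (nat_lit 220) (nat_lit 1) (nat_lit 217) (nat_lit 1) (nat_lit 219) (nat_lit 1) (nat_lit 427) (nat_lit 318) (nat_lit 275)) (XT.nd (nat_lit 78) (nat_lit 0) (nat_lit 0) (XT.lf (nat_lit 228) (nat_lit 460350988) (nat_lit 0) (nat_lit 49077242) (nat_lit 152) (nat_lit 49077242) (nat_lit 217) (nat_lit 1) (nat_lit 214) (nat_lit 1) (nat_lit 216) (nat_lit 1) (nat_lit 428) (nat_lit 318) (nat_lit 274)) (XT.lf (nat_lit 76) (nat_lit 153251972) (nat_lit 0) (nat_lit 242001919) (nat_lit 228) (nat_lit 153251972) (nat_lit 215) (nat_lit 1) (nat_lit 214) (nat_lit 1) (nat_lit 217) (nat_lit 1) (nat_lit 429) (nat_lit 318) (nat_lit 273)))) (XT.nd (nat_lit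 78) (nat_lit 152) (nat_lit 0) (XT.lf (nat_lit 228) (nat_lit 156079693) (nat_lit 0) (nat_lit 191358431) (nat_lit 152) (nat_lit 191358431) (nat_lit 215) (nat_lit 1) (nat_lit 212) (nat_lit 1) (nat_lit 214) (nat_lit 1) (nat_lit 430) (nat_lit 318) (nat_lit 272)) (XT.nd (nat_lit 78) (nat_lit 152) (nat_lit 0) (XT.lf (nat_lit 76) (nat_lit 5129909) (nat_lit 0) (nat_lit 519167935) (nat_lit 228) (nat_lit 5129909) (nat_lit 213) (nat_lit 1) (nat_lit 212) (nat_lit 1) (nat_lit 215) (nat_lit 1) (nat_lit 431) (nat_lit 318) (nat_lit 271)) (XT.lf (nat_lit 76) (nat_lit 193697001) (nat_lit 0) (nat_lit 132605396) (nat_lit 152) (nat_lit 193697001) (nat_lit 211) (nat_lit 1) (nat_lit 210) (nat_lit 1) (nat_lit 212) (nat_lit 1) (nat_lit 432) (nat_lit 318) (nat_lit 270))))) (XT.nd (nat_lit 234) (nat_lit 228) (nat_lit 0) (XT.nd (nat_lit 78) (nat_lit 152) (nat_lit 0) (XT.lf (nat_lit 228) (nat_lit 240355927) (nat_lit 0) (nat_lit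 135273426) (nat_lit 152) (nat_lit 135273426) (nat_lit 211) (nat_lit 1) (nat_lit 208) (nat_lit 1) (nat_lit 210) (nat_lit 1) (nat_lit 433) (nat_lit 318) (nat_lit 269)) (XT.nd (nat_lit 78) (nat_lit 152) (nat_lit 0) (XT.lf (nat_lit 76) (nat_lit 48189702) (nat_lit 0) (nat_lit 405672300) (nat_lit 228) (nat_lit 48189702) (nat_lit 209) (nat_lit 1) (nat_lit 208) (nat_lit 1) (nat_lit 211) (nat_lit 1) (nat_lit 434) (nat_lit 318) (nat_lit 268)) (XT.lf (nat_lit 76) (nat_lit 223751407) (nat_lit 0) (nat_lit 45770805) (nat_lit 152) (nat_lit 223751407) (nat_lit 207) (nat_lit 1) (nat_lit 206) (nat_lit 1) (nat_lit 208) (nat_lit 1) (nat_lit 435) (nat_lit 318) (nat_lit 267)))) (XT.nd (nat_lit 78) (nat_lit 76) (nat_lit 0) (XT.lf (nat_lit 228) (nat_lit 304359300) (nat_lit 0) (nat_lit 90187280) (nat_lit 152) (nat_lit 90187280) (nat_lit 207) (nat_lit 1) (nat_lit 204) (nat_lit 1) (nat_lit 206) (nat_lit 1) (nat_lit 436)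 (nat_lit 318) (nat_lit 266)) (XT.nd (nat_lit 78) (nat_lit 76) (nat_lit 0) (XT.lf (nat_lit 76) (nat_lit 81521324) (nat_lit 0) (nat_lit 313320514) (nat_lit 228) (nat_lit 81521324) (nat_lit 205) (nat_lit 1) (nat_lit 204) (nat_lit 1) (nat_lit 207) (nat_lit 1) (nat_lit 437) (nat_lit 318) (nat_lit 265)) (XT.lf (nat_lit 152) (nat_lit 23401803) (nat_lit 0) (nat_lit 222374309) (nat_lit 76) (nat_lit 222374309) (nat_lit 205) (nat_lit 1) (nat_lit 203) (nat_lit 1) (nat_lit 204) (nat_lit 1) (nat_lit 438) (nat_lit 318) (nat_lit 264)))))) (XT.nd (nat_lit 468) (nat_lit 228) (nat_lit 0) (XT.nd (nat_lit 234) (nat_lit 304) (nat_lit 0) (XT.nd (nat_lit 78) (nat_lit 76) (nat_lit 0) (XT.lf (nat_lit 228) (nat_lit 351937991) (nat_lit 0) (nat_lit 54099676) (nat_lit 152) (nat_lit 54099676) (nat_lit 203) (nat_lit 1) (nat_lit 200) (nat_lit 1) (nat_lit 202) (nat_lit 1) (nat_lit 439) (nat_lit 318) (nat_lit 263)) (XT.nd (nat_lit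 78) (nat_lit 76) (nat_lit 0) (XT.lf (nat_lit 76) (nat_lit 106949258) (nat_lit 0) (nat_lit 238315189) (nat_lit 228) (nat_lit 106949258) (nat_lit 201) (nat_lit 1) (nat_lit 200) (nat_lit 1) (nat_lit 203) (nat_lit 1) (nat_lit 440) (nat_lit 318) (nat_lit 262)) (XT.lf (nat_lit 152) (nat_lit 78588557) (nat_lit 0) (nat_lit 182947894) (nat_lit 76) (nat_lit 182947894) (nat_lit 201) (nat_lit 1) (nat_lit 199) (nat_lit 1) (nat_lit 200) (nat_lit 1) (nat_lit 441) (nat_lit 318) (nat_lit 261)))) (XT.nd (nat_lit 78) (nat_lit 76) (nat_lit 0) (XT.lf (nat_lit 228) (nat_lit 386245820) (nat_lit 0) (nat_lit 25367345) (nat_lit 152) (nat_lit 25367345) (nat_lit 199) (nat_lit 1) (nat_lit 196) (nat_lit 1) (nat_lit 198) (nat_lit 1) (nat_lit 442) (nat_lit 318) (nat_lit 260)) (XT.nd (nat_lit 78) (nat_lit 76) (nat_lit 0) (XT.lf (nat_lit 76) (nat_lit 125969765) (nat_lit 0) (nat_lit 177534522) (nat_lit 228) (nat_lit 125969765) (nat_lit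 197) (nat_lit 1) (nat_lit 196) (nat_lit 1) (nat_lit 199) (nat_lit 1) (nat_lit 443) (nat_lit 318) (nat_lit 259)) (XT.lf (nat_lit 152) (nat_lit 121165320) (nat_lit 0) (nat_lit 150511685) (nat_lit 76) (nat_lit 150511685) (nat_lit 197) (nat_lit 1) (nat_lit 195) (nat_lit 1) (nat_lit 196) (nat_lit 1) (nat_lit 444) (nat_lit 318) (nat_lit 258))))) (XT.nd (nat_lit 48360) (nat_lit 0) (nat_lit 7676) (XT.nd (nat_lit 48204) (nat_lit 0) (nat_lit 7600) (XT.lf (nat_lit 228) (nat_lit 409865929) (nat_lit 0) (nat_lit 2640642) (nat_lit 152) (nat_lit 2640642) (nat_lit 195) (nat_lit 1) (nat_lit 192) (nat_lit 1) (nat_lit 194) (nat_lit 1) (nat_lit 445) (nat_lit 318) (nat_lit 257)) (XT.nd (nat_lit 78) (nat_lit 0) (nat_lit 0) (XT.lf (nat_lit 836) (nat_lit 192874315) (nat_lit 0) (nat_lit 342447904) (nat_lit 836) (nat_lit 192874315) (nat_lit 303) (nat_lit 1) (nat_lit 292) (nat_lit 0) (nat_lit 303) (nat_lit 0) (nat_lit 382)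 (nat_lit 319) (nat_lit 319)) (XT.lf (nat_lit 836) (nat_lit 747604927) (nat_lit 76) (nat_lit 336924551) (nat_lit 0) (nat_lit 336924551) (nat_lit 303) (nat_lit 1) (nat_lit 293) (nat_lit 1) (nat_lit 292) (nat_lit 0) (nat_lit 383) (nat_lit 319) (nat_lit 318)))) (XT.nd (nat_lit 156) (nat_lit 0) (nat_lit 76) (XT.nd (nat_lit 78) (nat_lit 0) (nat_lit 0) (XT.lf (nat_lit 836) (nat_lit 356297251) (nat_lit 0) (nat_lit 675000637) (nat_lit 760) (nat_lit 356297251) (nat_lit 304) (nat_lit 1) (nat_lit 293) (nat_lit 1) (nat_lit 303) (nat_lit 1) (nat_lit 384) (nat_lit 319) (nat_lit 317)) (XT.lf (nat_lit 836) (nat_lit 668364135) (nat_lit 76) (nat_lit 343233005) (nat_lit 0) (nat_lit 343233005) (nat_lit 304) (nat_lit 1) (nat_lit 294) (nat_lit 1) (nat_lit 293) (nat_lit 1) (nat_lit 385) (nat_lit 319) (nat_lit 316))) (XT.nd (nat_lit 78) (nat_lit 0) (nat_lit 0) (XT.lf (nat_lit 836) (nat_lit 307641593) (nat_lit 0) (nat_lit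 707820451) (nat_lit 760) (nat_lit 307641593) (nat_lit 305) (nat_lit 1) (nat_lit 294) (nat_lit 1) (nat_lit 304) (nat_lit 1) (nat_lit 386) (nat_lit 319) (nat_lit 315)) (XT.lf (nat_lit 836) (nat_lit 553313442) (nat_lit 76) (nat_lit 369515415) (nat_lit 0) (nat_lit 369515415) (nat_lit 305) (nat_lit 1) (nat_lit 295) (nat_lit 1) (nat_lit 294) (nat_lit 1) (nat_lit 387) (nat_lit 319) (nat_lit 314))))))))
noncomputable def ec19 : XT := (XT.nd (nat_lit 1950) (nat_lit 2964) (nat_lit 0) (XT.nd (nat_lit 936) (nat_lit 2356) (nat_lit 0) (XT.nd (nat_lit 468) (nat_lit 1292) (nat_lit 0) (XT.nd (nat_lit 234) (nat_lit 608) (nat_lit 0) (XT.nd (nat_lit 78) (nat_lit 0) (nat_lit 0) (XT.lf (nat_lit 836) (nat_lit 242611963) (nat_lit 0) (nat_lit 777393777) (nat_lit 760) (nat_lit 242611963) (nat_lit 306) (nat_lit 1) (nat_lit 295) (nat_lit 1) (nat_lit 305) (nat_lit 1) (nat_lit 388) (nat_lit 319) (nat_lit 313)) (XT.nd (nat_lit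 78) (nat_lit 0) (nat_lit 76) (XT.lf (nat_lit 836) (nat_lit 407838159) (nat_lit 76) (nat_lit 412935724) (nat_lit 0) (nat_lit 412935724) (nat_lit 306) (nat_lit 1) (nat_lit 296) (nat_lit 1) (nat_lit 295) (nat_lit 1) (nat_lit 389) (nat_lit 319) (nat_lit 312)) (XT.lf (nat_lit 836) (nat_lit 163725778) (nat_lit 0) (nat_lit 878408155) (nat_lit 760) (nat_lit 163725778) (nat_lit 307) (nat_lit 1) (nat_lit 296) (nat_lit 1) (nat_lit 306) (nat_lit 1) (nat_lit 390) (nat_lit 319) (nat_lit 311)))) (XT.nd (nat_lit 78) (nat_lit 684) (nat_lit 0) (XT.lf (nat_lit 836) (nat_lit 236725015) (nat_lit 76) (nat_lit 470968163) (nat_lit 0) (nat_lit 470968163) (nat_lit 307) (nat_lit 1) (nat_lit 297) (nat_lit 1) (nat_lit 296) (nat_lit 1) (nat_lit 391) (nat_lit 319) (nat_lit 310)) (XT.nd (nat_lit 78) (nat_lit 760) (nat_lit 0) (XT.lf (nat_lit 76) (nat_lit 73219023) (nat_lit 0) (nat_lit 1006135289) (nat_lit 760) (nat_lit 73219023)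 (nat_lit 298) (nat_lit 1) (nat_lit 297) (nat_lit 1) (nat_lit 307) (nat_lit 1) (nat_lit 392) (nat_lit 319) (nat_lit 309)) (XT.lf (nat_lit 836) (nat_lit 44222469) (nat_lit 0) (nat_lit 541366192) (nat_lit 760) (nat_lit 541366192) (nat_lit 298) (nat_lit 1) (nat_lit 287) (nat_lit 1) (nat_lit 297) (nat_lit 1) (nat_lit 393) (nat_lit 319) (nat_lit 308))))) (XT.nd (nat_lit 234) (nat_lit 380) (nat_lit 0) (XT.nd (nat_lit 78) (nat_lit 380) (nat_lit 0) (XT.lf (nat_lit 532) (nat_lit 1049454891) (nat_lit 0) (nat_lit 26491049) (nat_lit 456) (nat_lit 26491049) (nat_lit 287) (nat_lit 1) (nat_lit 280) (nat_lit 1) (nat_lit 286) (nat_lit 1) (nat_lit 394) (nat_lit 319) (nat_lit 307)) (XT.nd (nat_lit 78) (nat_lit 380) (nat_lit 0) (XT.lf (nat_lit 76) (nat_lit 458819852) (nat_lit 0) (nat_lit 160594815) (nat_lit 532) (nat_lit 458819852) (nat_lit 281) (nat_lit 1) (nat_lit 280) (nat_lit 1) (nat_lit 287) (nat_lit 1) (nat_lit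 395) (nat_lit 319) (nat_lit 306)) (XT.lf (nat_lit 456) (nat_lit 789511191) (nat_lit 0) (nat_lit 132775005) (nat_lit 380) (nat_lit 132775005) (nat_lit 281) (nat_lit 1) (nat_lit 275) (nat_lit 1) (nat_lit 280) (nat_lit 1) (nat_lit 396) (nat_lit 319) (nat_lit 305)))) (XT.nd (nat_lit 78) (nat_lit 380) (nat_lit 0) (XT.lf (nat_lit 76) (nat_lit 327270615) (nat_lit 0) (nat_lit 377833822) (nat_lit 456) (nat_lit 327270615) (nat_lit 276) (nat_lit 1) (nat_lit 275) (nat_lit 1) (nat_lit 281) (nat_lit 1) (nat_lit 397) (nat_lit 319) (nat_lit 304)) (XT.nd (nat_lit 78) (nat_lit 0) (nat_lit 0) (XT.lf (nat_lit 456) (nat_lit 519904315) (nat_lit 0) (nat_lit 245287342) (nat_lit 380) (nat_lit 245287342) (nat_lit 276) (nat_lit 1) (nat_lit 270) (nat_lit 1) (nat_lit 275) (nat_lit 1) (nat_lit 398) (nat_lit 319) (nat_lit 303)) (XT.lf (nat_lit 76) (nat_lit 191577830) (nat_lit 0) (nat_lit 606064097) (nat_lit 456) (nat_lit 191577830)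 (nat_lit 271) (nat_lit 1) (nat_lit 270) (nat_lit 1) (nat_lit 276) (nat_lit 1) (nat_lit 399) (nat_lit 319) (nat_lit 302)))))) (XT.nd (nat_lit 468) (nat_lit 1064) (nat_lit 0) (XT.nd (nat_lit 234) (nat_lit 608) (nat_lit 0) (XT.nd (nat_lit 78) (nat_lit 380) (nat_lit 0) (XT.lf (nat_lit 380) (nat_lit 243143620) (nat_lit 0) (nat_lit 362681877) (nat_lit 304) (nat_lit 362681877) (nat_lit 271) (nat_lit 1) (nat_lit 266) (nat_lit 1) (nat_lit 270) (nat_lit 1) (nat_lit 400) (nat_lit 319) (nat_lit 301)) (XT.nd (nat_lit 78) (nat_lit 380) (nat_lit 0) (XT.lf (nat_lit 76) (nat_lit 52906429) (nat_lit 0) (nat_lit 842778629) (nat_lit 380) (nat_lit 52906429) (nat_lit 267) (nat_lit 1) (nat_lit 266) (nat_lit 1) (nat_lit 271) (nat_lit 1) (nat_lit 401) (nat_lit 319) (nat_lit 300)) (XT.lf (nat_lit 76) (nat_lit 445804777) (nat_lit 0) (nat_lit 37337016) (nat_lit 380) (nat_lit 445804777) (nat_lit 262) (nat_lit 1) (nat_lit 261)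 (nat_lit 1) (nat_lit 266) (nat_lit 1) (nat_lit 402) (nat_lit 319) (nat_lit 299)))) (XT.nd (nat_lit 78) (nat_lit 304) (nat_lit 0) (XT.lf (nat_lit 380) (nat_lit 737431406) (nat_lit 0) (nat_lit 86309187) (nat_lit 304) (nat_lit 86309187) (nat_lit 262) (nat_lit 1) (nat_lit 257) (nat_lit 1) (nat_lit 261) (nat_lit 1) (nat_lit 403) (nat_lit 319) (nat_lit 298)) (XT.nd (nat_lit 78) (nat_lit 304) (nat_lit 0) (XT.lf (nat_lit 76) (nat_lit 289253017) (nat_lit 0) (nat_lit 312971133) (nat_lit 380) (nat_lit 289253017) (nat_lit 258) (nat_lit 1) (nat_lit 257) (nat_lit 1) (nat_lit 262) (nat_lit 1) (nat_lit 404) (nat_lit 319) (nat_lit 297)) (XT.lf (nat_lit 380) (nat_lit 422100616) (nat_lit 0) (nat_lit 225723986) (nat_lit 304) (nat_lit 225723986) (nat_lit 258) (nat_lit 1) (nat_lit 253) (nat_lit 1) (nat_lit 257) (nat_lit 1) (nat_lit 405) (nat_lit 319) (nat_lit 296))))) (XT.nd (nat_lit 234) (nat_lit 456) (nat_lit 0) (XT.nd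 (nat_lit 78) (nat_lit 608) (nat_lit 0) (XT.lf (nat_lit 76) (nat_lit 133111696) (nat_lit 0) (nat_lit 589920850) (nat_lit 380) (nat_lit 133111696) (nat_lit 254) (nat_lit 1) (nat_lit 253) (nat_lit 1) (nat_lit 258) (nat_lit 1) (nat_lit 406) (nat_lit 319) (nat_lit 295)) (XT.nd (nat_lit 78) (nat_lit 380) (nat_lit 0) (XT.lf (nat_lit 304) (nat_lit 108254041) (nat_lit 0) (nat_lit 365430772) (nat_lit 228) (nat_lit 365430772) (nat_lit 254) (nat_lit 1) (nat_lit 250) (nat_lit 1) (nat_lit 253) (nat_lit 1) (nat_lit 407) (nat_lit 319) (nat_lit 294)) (XT.lf (nat_lit 380) (nat_lit 779485624) (nat_lit 0) (nat_lit 21629230) (nat_lit 304) (nat_lit 21629230) (nat_lit 250) (nat_lit 1) (nat_lit 245) (nat_lit 1) (nat_lit 249) (nat_lit 1) (nat_lit 408) (nat_lit 319) (nat_lit 293)))) (XT.nd (nat_lit 156) (nat_lit 228) (nat_lit 0) (XT.nd (nat_lit 78) (nat_lit 228) (nat_lit 0) (XT.lf (nat_lit 76) (nat_lit 305018487) (nat_lit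 0) (nat_lit 196426222) (nat_lit 380) (nat_lit 305018487) (nat_lit 246) (nat_lit 1) (nat_lit 245) (nat_lit 1) (nat_lit 250) (nat_lit 1) (nat_lit 409) (nat_lit 319) (nat_lit 292)) (XT.lf (nat_lit 304) (nat_lit 445489143) (nat_lit 0) (nat_lit 172658790) (nat_lit 228) (nat_lit 172658790) (nat_lit 246) (nat_lit 1) (nat_lit 242) (nat_lit 1) (nat_lit 245) (nat_lit 1) (nat_lit 410) (nat_lit 319) (nat_lit 291))) (XT.nd (nat_lit 78) (nat_lit 228) (nat_lit 0) (XT.lf (nat_lit 76) (nat_lit 140736911) (nat_lit 0) (nat_lit 494074209) (nat_lit 304) (nat_lit 140736911) (nat_lit 243) (nat_lit 1) (nat_lit 242) (nat_lit 1) (nat_lit 246) (nat_lit 1) (nat_lit 411) (nat_lit 319) (nat_lit 290)) (XT.lf (nat_lit 304) (nat_lit 117299816) (nat_lit 0) (nat_lit 321668326) (nat_lit 228) (nat_lit 321668326) (nat_lit 243) (nat_lit 1) (nat_lit 239) (nat_lit 1) (nat_lit 242) (nat_lit 1) (nat_lit 412) (nat_lit 319) (nat_lit 289)))))))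 (XT.nd (nat_lit 1014) (nat_lit 1292) (nat_lit 0) (XT.nd (nat_lit 468) (nat_lit 684) (nat_lit 0) (XT.nd (nat_lit 234) (nat_lit 456) (nat_lit 0) (XT.nd (nat_lit 78) (nat_lit 228) (nat_lit 0) (XT.lf (nat_lit 304) (nat_lit 705960522) (nat_lit 0) (nat_lit 20159185) (nat_lit 228) (nat_lit 20159185) (nat_lit 239) (nat_lit 1) (nat_lit 235) (nat_lit 1) (nat_lit 238) (nat_lit 1) (nat_lit 413) (nat_lit 319) (nat_lit 288)) (XT.nd (nat_lit 78) (nat_lit 228) (nat_lit 0) (XT.lf (nat_lit 76) (nat_lit 267044648) (nat_lit 0) (nat_lit 197877402) (nat_lit 304) (nat_lit 267044648) (nat_lit 236) (nat_lit 1) (nat_lit 235) (nat_lit 1) (nat_lit 239) (nat_lit 1) (nat_lit 414) (nat_lit 319) (nat_lit 287)) (XT.lf (nat_lit 304) (nat_lit 367210843) (nat_lit 0) (nat_lit 175486607) (nat_lit 228) (nat_lit 175486607) (nat_lit 236) (nat_lit 1) (nat_lit 232) (nat_lit 1) (nat_lit 235) (nat_lit 1) (nat_lit 415) (nat_lit 319) (nat_lit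 286)))) (XT.nd (nat_lit 78) (nat_lit 456) (nat_lit 0) (XT.lf (nat_lit 76) (nat_lit 101129566) (nat_lit 0) (nat_lit 502511941) (nat_lit 304) (nat_lit 101129566) (nat_lit 233) (nat_lit 1) (nat_lit 232) (nat_lit 1) (nat_lit 236) (nat_lit 1) (nat_lit 416) (nat_lit 319) (nat_lit 285)) (XT.nd (nat_lit 78) (nat_lit 304) (nat_lit 0) (XT.lf (nat_lit 228) (nat_lit 37057235) (nat_lit 0) (nat_lit 327276807) (nat_lit 152) (nat_lit 327276807) (nat_lit 233) (nat_lit 1) (nat_lit 230) (nat_lit 1) (nat_lit 232) (nat_lit 1) (nat_lit 417) (nat_lit 319) (nat_lit 284)) (XT.lf (nat_lit 304) (nat_lit 559922406) (nat_lit 0) (nat_lit 59467818) (nat_lit 228) (nat_lit 59467818) (nat_lit 230) (nat_lit 1) (nat_lit 226) (nat_lit 1) (nat_lit 229) (nat_lit 1) (nat_lit 418) (nat_lit 319) (nat_lit 283))))) (XT.nd (nat_lit 234) (nat_lit 532) (nat_lit 0) (XT.nd (nat_lit 78) (nat_lit 152) (nat_lit 0) (XT.lf (nat_lit 76) (nat_lit 195567605)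 (nat_lit 0) (nat_lit 275112650) (nat_lit 304) (nat_lit 195567605) (nat_lit 227) (nat_lit 1) (nat_lit 226) (nat_lit 1) (nat_lit 230) (nat_lit 1) (nat_lit 419) (nat_lit 319) (nat_lit 282)) (XT.nd (nat_lit 78) (nat_lit 0) (nat_lit 0) (XT.lf (nat_lit 228) (nat_lit 225948200) (nat_lit 0) (nat_lit 214039332) (nat_lit 152) (nat_lit 214039332) (nat_lit 227) (nat_lit 1) (nat_lit 224) (nat_lit 1) (nat_lit 226) (nat_lit 1) (nat_lit 420) (nat_lit 319) (nat_lit 281)) (XT.lf (nat_lit 76) (nat_lit 32461584) (nat_lit 0) (nat_lit 577288267) (nat_lit 228) (nat_lit 32461584) (nat_lit 225) (nat_lit 1) (nat_lit 224) (nat_lit 1) (nat_lit 227) (nat_lit 1) (nat_lit 421) (nat_lit 319) (nat_lit 280)))) (XT.nd (nat_lit 156) (nat_lit 152) (nat_lit 0) (XT.nd (nat_lit 78) (nat_lit 152) (nat_lit 0) (XT.lf (nat_lit 76) (nat_lit 267911153) (nat_lit 0) (nat_lit 94616650) (nat_lit 228) (nat_lit 267911153) (nat_lit 222) (nat_lit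 1) (nat_lit 221) (nat_lit 1) (nat_lit 224) (nat_lit 1) (nat_lit 422) (nat_lit 319) (nat_lit 279)) (XT.lf (nat_lit 228) (nat_lit 372041592) (nat_lit 0) (nat_lit 123507728) (nat_lit 152) (nat_lit 123507728) (nat_lit 222) (nat_lit 1) (nat_lit 219) (nat_lit 1) (nat_lit 221) (nat_lit 1) (nat_lit 423) (nat_lit 319) (nat_lit 278))) (XT.nd (nat_lit 78) (nat_lit 152) (nat_lit 0) (XT.lf (nat_lit 76) (nat_lit 104980458) (nat_lit 0) (nat_lit 397965789) (nat_lit 228) (nat_lit 104980458) (nat_lit 220) (nat_lit 1) (nat_lit 219) (nat_lit 1) (nat_lit 222) (nat_lit 1) (nat_lit 424) (nat_lit 319) (nat_lit 277)) (XT.lf (nat_lit 228) (nat_lit 49179565) (nat_lit 0) (nat_lit 273920578) (nat_lit 152) (nat_lit 273920578) (nat_lit 220) (nat_lit 1) (nat_lit 217) (nat_lit 1) (nat_lit 219) (nat_lit 1) (nat_lit 425) (nat_lit 319) (nat_lit 276)))))) (XT.nd (nat_lit 468) (nat_lit 608) (nat_lit 0) (XT.nd (nat_lit 234) (nat_lit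 304) (nat_lit 0) (XT.nd (nat_lit 78) (nat_lit 152) (nat_lit 0) (XT.lf (nat_lit 228) (nat_lit 483368537) (nat_lit 0) (nat_lit 51531104) (nat_lit 152) (nat_lit 51531104) (nat_lit 217) (nat_lit 1) (nat_lit 214) (nat_lit 1) (nat_lit 216) (nat_lit 1) (nat_lit 426) (nat_lit 319) (nat_lit 275)) (XT.nd (nat_lit 78) (nat_lit 152) (nat_lit 0) (XT.lf (nat_lit 76) (nat_lit 160914570) (nat_lit 0) (nat_lit 254102015) (nat_lit 228) (nat_lit 160914570) (nat_lit 215) (nat_lit 1) (nat_lit 214) (nat_lit 1) (nat_lit 217) (nat_lit 1) (nat_lit 427) (nat_lit 319) (nat_lit 274)) (XT.lf (nat_lit 228) (nat_lit 163883677) (nat_lit 0) (nat_lit 200926352) (nat_lit 152) (nat_lit 200926352) (nat_lit 215) (nat_lit 1) (nat_lit 212) (nat_lit 1) (nat_lit 214) (nat_lit 1) (nat_lit 428) (nat_lit 319) (nat_lit 273)))) (XT.nd (nat_lit 78) (nat_lit 304) (nat_lit 0) (XT.lf (nat_lit 76) (nat_lit 5386404) (nat_lit 0) (nat_lit 545126332)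 (nat_lit 228) (nat_lit 5386404) (nat_lit 213) (nat_lit 1) (nat_lit 212) (nat_lit 1) (nat_lit 215) (nat_lit 1) (nat_lit 429) (nat_lit 319) (nat_lit 272)) (XT.nd (nat_lit 78) (nat_lit 152) (nat_lit 0) (XT.lf (nat_lit 76) (nat_lit 203381851) (nat_lit 0) (nat_lit 139235666) (nat_lit 152) (nat_lit 203381851) (nat_lit 211) (nat_lit 1) (nat_lit 210) (nat_lit 1) (nat_lit 212) (nat_lit 1) (nat_lit 430) (nat_lit 319) (nat_lit 271)) (XT.lf (nat_lit 228) (nat_lit 252373724) (nat_lit 0) (nat_lit 142037098) (nat_lit 152) (nat_lit 142037098) (nat_lit 211) (nat_lit 1) (nat_lit 208) (nat_lit 1) (nat_lit 210) (nat_lit 1) (nat_lit 431) (nat_lit 319) (nat_lit 270))))) (XT.nd (nat_lit 234) (nat_lit 304) (nat_lit 0) (XT.nd (nat_lit 78) (nat_lit 304) (nat_lit 0) (XT.lf (nat_lit 76) (nat_lit 50599187) (nat_lit 0) (nat_lit 425955915) (nat_lit 228) (nat_lit 50599187) (nat_lit 209) (nat_lit 1) (nat_lit 208) (nat_lit 1) (nat_lit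 211) (nat_lit 1) (nat_lit 432) (nat_lit 319) (nat_lit 269)) (XT.nd (nat_lit 78) (nat_lit 152) (nat_lit 0) (XT.lf (nat_lit 76) (nat_lit 234938977) (nat_lit 0) (nat_lit 48059345) (nat_lit 152) (nat_lit 234938977) (nat_lit 207) (nat_lit 1) (nat_lit 206) (nat_lit 1) (nat_lit 208) (nat_lit 1) (nat_lit 433) (nat_lit 319) (nat_lit 268)) (XT.lf (nat_lit 228) (nat_lit 319577265) (nat_lit 0) (nat_lit 94696644) (nat_lit 152) (nat_lit 94696644) (nat_lit 207) (nat_lit 1) (nat_lit 204) (nat_lit 1) (nat_lit 206) (nat_lit 1) (nat_lit 434) (nat_lit 319) (nat_lit 267)))) (XT.nd (nat_lit 156) (nat_lit 228) (nat_lit 0) (XT.nd (nat_lit 78) (nat_lit 76) (nat_lit 0) (XT.lf (nat_lit 76) (nat_lit 85597390) (nat_lit 0) (nat_lit 328986539) (nat_lit 228) (nat_lit 85597390) (nat_lit 205) (nat_lit 1) (nat_lit 204) (nat_lit 1) (nat_lit 207) (nat_lit 1) (nat_lit 435) (nat_lit 319) (nat_lit 266)) (XT.lf (nat_lit 152) (nat_lit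 24571893) (nat_lit 0) (nat_lit 233493025) (nat_lit 76) (nat_lit 233493025) (nat_lit 205) (nat_lit 1) (nat_lit 203) (nat_lit 1) (nat_lit 204) (nat_lit 1) (nat_lit 436) (nat_lit 319) (nat_lit 265))) (XT.nd (nat_lit 78) (nat_lit 0) (nat_lit 0) (XT.lf (nat_lit 228) (nat_lit 369534891) (nat_lit 0) (nat_lit 56804660) (nat_lit 152) (nat_lit 56804660) (nat_lit 203) (nat_lit 1) (nat_lit 200) (nat_lit 1) (nat_lit 202) (nat_lit 1) (nat_lit 437) (nat_lit 319) (nat_lit 264)) (XT.lf (nat_lit 76) (nat_lit 112296721) (nat_lit 0) (nat_lit 250230949) (nat_lit 228) (nat_lit 112296721) (nat_lit 201) (nat_lit 1) (nat_lit 200) (nat_lit 1) (nat_lit 203) (nat_lit 1) (nat_lit 438) (nat_lit 319) (nat_lit 263))))))))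
noncomputable def ec20 : XT := (XT.nd (nat_lit 49920) (nat_lit 0) (nat_lit 2128) (XT.nd (nat_lit 48906) (nat_lit 0) (nat_lit 6004) (XT.nd (nat_lit 468) (nat_lit 76) (nat_lit 0) (XT.nd (nat_lit 234) (nat_lit 304) (nat_lit 0) (XT.nd (nat_lit 78) (nat_lit 228) (nat_lit 0) (XT.lf (nat_lit 152) (nat_lit 82517985) (nat_lit 0) (nat_lit 192095289) (nat_lit 76) (nat_lit 192095289) (nat_lit 201) (nat_lit 1) (nat_lit 199) (nat_lit 1) (nat_lit 200) (nat_lit 1) (nat_lit 439) (nat_lit 319) (nat_lit 262)) (XT.nd (nat_lit 78) (nat_lit 0) (nat_lit 0) (XT.lf (nat_lit 228) (nat_lit 405558111) (nat_lit 0) (nat_lit 26635712) (nat_lit 152) (nat_lit 26635712) (nat_lit 199) (nat_lit 1) (nat_lit 196) (nat_lit 1) (nat_lit 198) (nat_lit 1) (nat_lit 440) (nat_lit 319) (nat_lit 261)) (XT.lf (nat_lit 76) (nat_lit 132268254) (nat_lit 0) (nat_lit 186411248) (nat_lit 228) (nat_lit 132268254) (nat_lit 197) (nat_lit 1) (nat_lit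 196) (nat_lit 1) (nat_lit 199) (nat_lit 1) (nat_lit 441) (nat_lit 319) (nat_lit 260)))) (XT.nd (nat_lit 78) (nat_lit 228) (nat_lit 0) (XT.lf (nat_lit 152) (nat_lit 127223586) (nat_lit 0) (nat_lit 158037270) (nat_lit 76) (nat_lit 158037270) (nat_lit 197) (nat_lit 1) (nat_lit 195) (nat_lit 1) (nat_lit 196) (nat_lit 1) (nat_lit 442) (nat_lit 319) (nat_lit 259)) (XT.nd (nat_lit 78) (nat_lit 0) (nat_lit 0) (XT.lf (nat_lit 228) (nat_lit 430359225) (nat_lit 0) (nat_lit 2772674) (nat_lit 152) (nat_lit 2772674) (nat_lit 195) (nat_lit 1) (nat_lit 192) (nat_lit 1) (nat_lit 194) (nat_lit 1) (nat_lit 443) (nat_lit 319) (nat_lit 258)) (XT.lf (nat_lit 76) (nat_lit 146799766) (nat_lit 0) (nat_lit 134833022) (nat_lit 228) (nat_lit 146799766) (nat_lit 193) (nat_lit 1) (nat_lit 192) (nat_lit 1) (nat_lit 195) (nat_lit 1) (nat_lit 444) (nat_lit 319) (nat_lit 257))))) (XT.nd (nat_lit 48204) (nat_lit 0) (nat_lit 7752)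 (XT.nd (nat_lit 48048) (nat_lit 0) (nat_lit 7676) (XT.lf (nat_lit 152) (nat_lit 161177479) (nat_lit 0) (nat_lit 130017653) (nat_lit 76) (nat_lit 130017653) (nat_lit 193) (nat_lit 1) (nat_lit 191) (nat_lit 1) (nat_lit 192) (nat_lit 1) (nat_lit 445) (nat_lit 319) (nat_lit 256)) (XT.nd (nat_lit 78) (nat_lit 0) (nat_lit 0) (XT.lf (nat_lit 836) (nat_lit 202518031) (nat_lit 0) (nat_lit 359570299) (nat_lit 836) (nat_lit 202518031) (nat_lit 303) (nat_lit 1) (nat_lit 292) (nat_lit 0) (nat_lit 303) (nat_lit 0) (nat_lit 380) (nat_lit 320) (nat_lit 320)) (XT.lf (nat_lit 836) (nat_lit 784985173) (nat_lit 76) (nat_lit 353770778) (nat_lit 0) (nat_lit 353770778) (nat_lit 303) (nat_lit 1) (nat_lit 293) (nat_lit 1) (nat_lit 292) (nat_lit 0) (nat_lit 381) (nat_lit 320) (nat_lit 319)))) (XT.nd (nat_lit 78) (nat_lit 0) (nat_lit 0) (XT.lf (nat_lit 836) (nat_lit 374112114) (nat_lit 0) (nat_lit 708750669) (nat_lit 760)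 (nat_lit 374112114) (nat_lit 304) (nat_lit 1) (nat_lit 293) (nat_lit 1) (nat_lit 303) (nat_lit 1) (nat_lit 382) (nat_lit 320) (nat_lit 318)) (XT.nd (nat_lit 78) (nat_lit 0) (nat_lit 76) (XT.lf (nat_lit 836) (nat_lit 701782342) (nat_lit 76) (nat_lit 360394655) (nat_lit 0) (nat_lit 360394655) (nat_lit 304) (nat_lit 1) (nat_lit 294) (nat_lit 1) (nat_lit 293) (nat_lit 1) (nat_lit 383) (nat_lit 320) (nat_lit 317)) (XT.lf (nat_lit 836) (nat_lit 323023672) (nat_lit 0) (nat_lit 743211474) (nat_lit 760) (nat_lit 323023672) (nat_lit 305) (nat_lit 1) (nat_lit 294) (nat_lit 1) (nat_lit 304) (nat_lit 1) (nat_lit 384) (nat_lit 320) (nat_lit 316)))))) (XT.nd (nat_lit 468) (nat_lit 1824) (nat_lit 0) (XT.nd (nat_lit 234) (nat_lit 0) (nat_lit 152) (XT.nd (nat_lit 78) (nat_lit 0) (nat_lit 76) (XT.lf (nat_lit 836) (nat_lit 580979114) (nat_lit 76) (nat_lit 387991186) (nat_lit 0) (nat_lit 387991186) (nat_lit 305) (nat_lit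 1) (nat_lit 295) (nat_lit 1) (nat_lit 294) (nat_lit 1) (nat_lit 385) (nat_lit 320) (nat_lit 315)) (XT.nd (nat_lit 78) (nat_lit 0) (nat_lit 0) (XT.lf (nat_lit 836) (nat_lit 254742561) (nat_lit 0) (nat_lit 816263466) (nat_lit 760) (nat_lit 254742561) (nat_lit 306) (nat_lit 1) (nat_lit 295) (nat_lit 1) (nat_lit 305) (nat_lit 1) (nat_lit 386) (nat_lit 320) (nat_lit 314)) (XT.lf (nat_lit 836) (nat_lit 428230067) (nat_lit 76) (nat_lit 433582510) (nat_lit 0) (nat_lit 433582510) (nat_lit 306) (nat_lit 1) (nat_lit 296) (nat_lit 1) (nat_lit 295) (nat_lit 1) (nat_lit 387) (nat_lit 320) (nat_lit 313)))) (XT.nd (nat_lit 78) (nat_lit 0) (nat_lit 0) (XT.lf (nat_lit 836) (nat_lit 171912067) (nat_lit 0) (nat_lit 922328563) (nat_lit 760) (nat_lit 171912067) (nat_lit 307) (nat_lit 1) (nat_lit 296) (nat_lit 1) (nat_lit 306) (nat_lit 1) (nat_lit 388) (nat_lit 320) (nat_lit 312)) (XT.nd (nat_lit 78) (nat_lit 0) (nat_lit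 76) (XT.lf (nat_lit 836) (nat_lit 248561266) (nat_lit 76) (nat_lit 494516572) (nat_lit 0) (nat_lit 494516572) (nat_lit 307) (nat_lit 1) (nat_lit 297) (nat_lit 1) (nat_lit 296) (nat_lit 1) (nat_lit 389) (nat_lit 320) (nat_lit 311)) (XT.lf (nat_lit 76) (nat_lit 76879974) (nat_lit 0) (nat_lit 1056442054) (nat_lit 760) (nat_lit 76879974) (nat_lit 298) (nat_lit 1) (nat_lit 297) (nat_lit 1) (nat_lit 307) (nat_lit 1) (nat_lit 390) (nat_lit 320) (nat_lit 310))))) (XT.nd (nat_lit 234) (nat_lit 760) (nat_lit 0) (XT.nd (nat_lit 78) (nat_lit 532) (nat_lit 0) (XT.lf (nat_lit 836) (nat_lit 46433592) (nat_lit 0) (nat_lit 568434502) (nat_lit 760) (nat_lit 568434502) (nat_lit 298) (nat_lit 1) (nat_lit 287) (nat_lit 1) (nat_lit 297) (nat_lit 1) (nat_lit 391) (nat_lit 320) (nat_lit 309)) (XT.nd (nat_lit 78) (nat_lit 0) (nat_lit 0) (XT.lf (nat_lit 532) (nat_lit 1101927636) (nat_lit 0) (nat_lit 27815602) (nat_lit 456)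 (nat_lit 27815602) (nat_lit 287) (nat_lit 1) (nat_lit 280) (nat_lit 1) (nat_lit 286) (nat_lit 1) (nat_lit 392) (nat_lit 320) (nat_lit 308)) (XT.lf (nat_lit 76) (nat_lit 481760844) (nat_lit 0) (nat_lit 168624556) (nat_lit 532) (nat_lit 481760844) (nat_lit 281) (nat_lit 1) (nat_lit 280) (nat_lit 1) (nat_lit 287) (nat_lit 1) (nat_lit 393) (nat_lit 320) (nat_lit 307)))) (XT.nd (nat_lit 156) (nat_lit 380) (nat_lit 0) (XT.nd (nat_lit 78) (nat_lit 0) (nat_lit 0) (XT.lf (nat_lit 456) (nat_lit 828986751) (nat_lit 0) (nat_lit 139413755) (nat_lit 380) (nat_lit 139413755) (nat_lit 281) (nat_lit 1) (nat_lit 275) (nat_lit 1) (nat_lit 280) (nat_lit 1) (nat_lit 394) (nat_lit 320) (nat_lit 306)) (XT.lf (nat_lit 76) (nat_lit 343634145) (nat_lit 0) (nat_lit 396725513) (nat_lit 456) (nat_lit 343634145) (nat_lit 276) (nat_lit 1) (nat_lit 275) (nat_lit 1) (nat_lit 281) (nat_lit 1) (nat_lit 395) (nat_lit 320) (nat_lit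 305))) (XT.nd (nat_lit 78) (nat_lit 0) (nat_lit 0) (XT.lf (nat_lit 456) (nat_lit 545899531) (nat_lit 0) (nat_lit 257551709) (nat_lit 380) (nat_lit 257551709) (nat_lit 276) (nat_lit 1) (nat_lit 270) (nat_lit 1) (nat_lit 275) (nat_lit 1) (nat_lit 396) (nat_lit 320) (nat_lit 304)) (XT.lf (nat_lit 76) (nat_lit 201156722) (nat_lit 0) (nat_lit 636367302) (nat_lit 456) (nat_lit 201156722) (nat_lit 271) (nat_lit 1) (nat_lit 270) (nat_lit 1) (nat_lit 276) (nat_lit 1) (nat_lit 397) (nat_lit 320) (nat_lit 303))))))) (XT.nd (nat_lit 936) (nat_lit 1748) (nat_lit 0) (XT.nd (nat_lit 468) (nat_lit 836) (nat_lit 0) (XT.nd (nat_lit 234) (nat_lit 608) (nat_lit 0) (XT.nd (nat_lit 78) (nat_lit 380) (nat_lit 0) (XT.lf (nat_lit 380) (nat_lit 255300801) (nat_lit 0) (nat_lit 380815971) (nat_lit 304) (nat_lit 380815971) (nat_lit 271) (nat_lit 1) (nat_lit 266) (nat_lit 1) (nat_lit 270) (nat_lit 1) (nat_lit 398) (nat_lit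 320) (nat_lit 302)) (XT.nd (nat_lit 78) (nat_lit 380) (nat_lit 0) (XT.lf (nat_lit 76) (nat_lit 55551750) (nat_lit 0) (nat_lit 884917561) (nat_lit 380) (nat_lit 55551750) (nat_lit 267) (nat_lit 1) (nat_lit 266) (nat_lit 1) (nat_lit 271) (nat_lit 1) (nat_lit 399) (nat_lit 320) (nat_lit 301)) (XT.lf (nat_lit 76) (nat_lit 468095016) (nat_lit 0) (nat_lit 39203866) (nat_lit 380) (nat_lit 468095016) (nat_lit 262) (nat_lit 1) (nat_lit 261) (nat_lit 1) (nat_lit 266) (nat_lit 1) (nat_lit 400) (nat_lit 320) (nat_lit 300)))) (XT.nd (nat_lit 78) (nat_lit 304) (nat_lit 0) (XT.lf (nat_lit 380) (nat_lit 774302976) (nat_lit 0) (nat_lit 90624646) (nat_lit 304) (nat_lit 90624646) (nat_lit 262) (nat_lit 1) (nat_lit 257) (nat_lit 1) (nat_lit 261) (nat_lit 1) (nat_lit 401) (nat_lit 320) (nat_lit 299)) (XT.nd (nat_lit 78) (nat_lit 304) (nat_lit 0) (XT.lf (nat_lit 76) (nat_lit 303715668) (nat_lit 0) (nat_lit 328619690)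 (nat_lit 380) (nat_lit 303715668) (nat_lit 258) (nat_lit 1) (nat_lit 257) (nat_lit 1) (nat_lit 262) (nat_lit 1) (nat_lit 402) (nat_lit 320) (nat_lit 298)) (XT.lf (nat_lit 380) (nat_lit 443205646) (nat_lit 0) (nat_lit 237010185) (nat_lit 304) (nat_lit 237010185) (nat_lit 258) (nat_lit 1) (nat_lit 253) (nat_lit 1) (nat_lit 257) (nat_lit 1) (nat_lit 403) (nat_lit 320) (nat_lit 297))))) (XT.nd (nat_lit 234) (nat_lit 228) (nat_lit 0) (XT.nd (nat_lit 78) (nat_lit 608) (nat_lit 0) (XT.lf (nat_lit 76) (nat_lit 139767281) (nat_lit 0) (nat_lit 619416892) (nat_lit 380) (nat_lit 139767281) (nat_lit 254) (nat_lit 1) (nat_lit 253) (nat_lit 1) (nat_lit 258) (nat_lit 1) (nat_lit 404) (nat_lit 320) (nat_lit 296)) (XT.nd (nat_lit 78) (nat_lit 380) (nat_lit 0) (XT.lf (nat_lit 304) (nat_lit 113666743) (nat_lit 0) (nat_lit 383702311) (nat_lit 228) (nat_lit 383702311) (nat_lit 254) (nat_lit 1) (nat_lit 250) (nat_lit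 1) (nat_lit 253) (nat_lit 1) (nat_lit 405) (nat_lit 320) (nat_lit 295)) (XT.lf (nat_lit 380) (nat_lit 818459905) (nat_lit 0) (nat_lit 22710691) (nat_lit 304) (nat_lit 22710691) (nat_lit 250) (nat_lit 1) (nat_lit 245) (nat_lit 1) (nat_lit 249) (nat_lit 1) (nat_lit 406) (nat_lit 320) (nat_lit 294)))) (XT.nd (nat_lit 78) (nat_lit 228) (nat_lit 0) (XT.lf (nat_lit 76) (nat_lit 320269411) (nat_lit 0) (nat_lit 206247533) (nat_lit 380) (nat_lit 320269411) (nat_lit 246) (nat_lit 1) (nat_lit 245) (nat_lit 1) (nat_lit 250) (nat_lit 1) (nat_lit 407) (nat_lit 320) (nat_lit 293)) (XT.nd (nat_lit 78) (nat_lit 0) (nat_lit 0) (XT.lf (nat_lit 304) (nat_lit 467763600) (nat_lit 0) (nat_lit 181291730) (nat_lit 228) (nat_lit 181291730) (nat_lit 246) (nat_lit 1) (nat_lit 242) (nat_lit 1) (nat_lit 245) (nat_lit 1) (nat_lit 408) (nat_lit 320) (nat_lit 292)) (XT.lf (nat_lit 76) (nat_lit 147773757) (nat_lit 0) (nat_lit 518777919)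 (nat_lit 304) (nat_lit 147773757) (nat_lit 243) (nat_lit 1) (nat_lit 242) (nat_lit 1) (nat_lit 246) (nat_lit 1) (nat_lit 409) (nat_lit 320) (nat_lit 291)))))) (XT.nd (nat_lit 468) (nat_lit 836) (nat_lit 0) (XT.nd (nat_lit 234) (nat_lit 380) (nat_lit 0) (XT.nd (nat_lit 78) (nat_lit 304) (nat_lit 0) (XT.lf (nat_lit 304) (nat_lit 123164807) (nat_lit 0) (nat_lit 337751743) (nat_lit 228) (nat_lit 337751743) (nat_lit 243) (nat_lit 1) (nat_lit 239) (nat_lit 1) (nat_lit 242) (nat_lit 1) (nat_lit 410) (nat_lit 320) (nat_lit 290)) (XT.nd (nat_lit 78) (nat_lit 0) (nat_lit 0) (XT.lf (nat_lit 304) (nat_lit 741258548) (nat_lit 0) (nat_lit 21167144) (nat_lit 228) (nat_lit 21167144) (nat_lit 239) (nat_lit 1) (nat_lit 235) (nat_lit 1) (nat_lit 238) (nat_lit 1) (nat_lit 411) (nat_lit 320) (nat_lit 289)) (XT.lf (nat_lit 76) (nat_lit 280396880) (nat_lit 0) (nat_lit 207771272) (nat_lit 304) (nat_lit 280396880) (nat_lit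 236) (nat_lit 1) (nat_lit 235) (nat_lit 1) (nat_lit 239) (nat_lit 1) (nat_lit 412) (nat_lit 320) (nat_lit 288)))) (XT.nd (nat_lit 78) (nat_lit 152) (nat_lit 0) (XT.lf (nat_lit 304) (nat_lit 385571385) (nat_lit 0) (nat_lit 184260938) (nat_lit 228) (nat_lit 184260938) (nat_lit 236) (nat_lit 1) (nat_lit 232) (nat_lit 1) (nat_lit 235) (nat_lit 1) (nat_lit 413) (nat_lit 320) (nat_lit 287)) (XT.nd (nat_lit 78) (nat_lit 152) (nat_lit 0) (XT.lf (nat_lit 76) (nat_lit 106186045) (nat_lit 0) (nat_lit 527637538) (nat_lit 304) (nat_lit 106186045) (nat_lit 233) (nat_lit 1) (nat_lit 232) (nat_lit 1) (nat_lit 236) (nat_lit 1) (nat_lit 414) (nat_lit 320) (nat_lit 286)) (XT.lf (nat_lit 228) (nat_lit 38910097) (nat_lit 0) (nat_lit 343640648) (nat_lit 152) (nat_lit 343640648) (nat_lit 233) (nat_lit 1) (nat_lit 230) (nat_lit 1) (nat_lit 232) (nat_lit 1) (nat_lit 415) (nat_lit 320) (nat_lit 285))))) (XT.nd (nat_lit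 234) (nat_lit 380) (nat_lit 0) (XT.nd (nat_lit 78) (nat_lit 152) (nat_lit 0) (XT.lf (nat_lit 304) (nat_lit 587918526) (nat_lit 0) (nat_lit 62441208) (nat_lit 228) (nat_lit 62441208) (nat_lit 230) (nat_lit 1) (nat_lit 226) (nat_lit 1) (nat_lit 229) (nat_lit 1) (nat_lit 416) (nat_lit 320) (nat_lit 284)) (XT.nd (nat_lit 78) (nat_lit 152) (nat_lit 0) (XT.lf (nat_lit 76) (nat_lit 205345985) (nat_lit 0) (nat_lit 288868282) (nat_lit 304) (nat_lit 205345985) (nat_lit 227) (nat_lit 1) (nat_lit 226) (nat_lit 1) (nat_lit 230) (nat_lit 1) (nat_lit 417) (nat_lit 320) (nat_lit 283)) (XT.lf (nat_lit 228) (nat_lit 237245610) (nat_lit 0) (nat_lit 224741298) (nat_lit 152) (nat_lit 224741298) (nat_lit 227) (nat_lit 1) (nat_lit 224) (nat_lit 1) (nat_lit 226) (nat_lit 1) (nat_lit 418) (nat_lit 320) (nat_lit 282)))) (XT.nd (nat_lit 156) (nat_lit 152) (nat_lit 0) (XT.nd (nat_lit 78) (nat_lit 228) (nat_lit 0) (XT.lf (nat_lit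 76) (nat_lit 34084663) (nat_lit 0) (nat_lit 606152680) (nat_lit 228) (nat_lit 34084663) (nat_lit 225) (nat_lit 1) (nat_lit 224) (nat_lit 1) (nat_lit 227) (nat_lit 1) (nat_lit 419) (nat_lit 320) (nat_lit 281)) (XT.lf (nat_lit 76) (nat_lit 281306711) (nat_lit 0) (nat_lit 99347483) (nat_lit 228) (nat_lit 281306711) (nat_lit 222) (nat_lit 1) (nat_lit 221) (nat_lit 1) (nat_lit 224) (nat_lit 1) (nat_lit 420) (nat_lit 320) (nat_lit 280))) (XT.nd (nat_lit 78) (nat_lit 0) (nat_lit 0) (XT.lf (nat_lit 228) (nat_lit 390643672) (nat_lit 0) (nat_lit 129683115) (nat_lit 152) (nat_lit 129683115) (nat_lit 222) (nat_lit 1) (nat_lit 219) (nat_lit 1) (nat_lit 221) (nat_lit 1) (nat_lit 421) (nat_lit 320) (nat_lit 279)) (XT.lf (nat_lit 76) (nat_lit 110229481) (nat_lit 0) (nat_lit 417864079) (nat_lit 228) (nat_lit 110229481) (nat_lit 220) (nat_lit 1) (nat_lit 219) (nat_lit 1) (nat_lit 222) (nat_lit 1) (nat_lit 422) (nat_lit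 320) (nat_lit 278))))))))
noncomputable def ec21 : XT := (XT.nd (nat_lit 49686) (nat_lit 0) (nat_lit 4332) (XT.nd (nat_lit 936) (nat_lit 1140) (nat_lit 0) (XT.nd (nat_lit 468) (nat_lit 532) (nat_lit 0) (XT.nd (nat_lit 234) (nat_lit 304) (nat_lit 0) (XT.nd (nat_lit 78) (nat_lit 228) (nat_lit 0) (XT.lf (nat_lit 228) (nat_lit 51638543) (nat_lit 0) (nat_lit 287616607) (nat_lit 152) (nat_lit 287616607) (nat_lit 220) (nat_lit 1) (nat_lit 217) (nat_lit 1) (nat_lit 219) (nat_lit 1) (nat_lit 423) (nat_lit 320) (nat_lit 277)) (XT.nd (nat_lit 78) (nat_lit 0) (nat_lit 0) (XT.lf (nat_lit 228) (nat_lit 507536964) (nat_lit 0) (nat_lit 54107660) (nat_lit 152) (nat_lit 54107660) (nat_lit 217) (nat_lit 1) (nat_lit 214) (nat_lit 1) (nat_lit 216) (nat_lit 1) (nat_lit 424) (nat_lit 320) (nat_lit 276)) (XT.lf (nat_lit 76) (nat_lit 168960299) (nat_lit 0) (nat_lit 266807115) (nat_lit 228) (nat_lit 168960299) (nat_lit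 215) (nat_lit 1) (nat_lit 214) (nat_lit 1) (nat_lit 217) (nat_lit 1) (nat_lit 425) (nat_lit 320) (nat_lit 275)))) (XT.nd (nat_lit 78) (nat_lit 152) (nat_lit 0) (XT.lf (nat_lit 228) (nat_lit 172077861) (nat_lit 0) (nat_lit 210972670) (nat_lit 152) (nat_lit 210972670) (nat_lit 215) (nat_lit 1) (nat_lit 212) (nat_lit 1) (nat_lit 214) (nat_lit 1) (nat_lit 426) (nat_lit 320) (nat_lit 274)) (XT.nd (nat_lit 78) (nat_lit 152) (nat_lit 0) (XT.lf (nat_lit 76) (nat_lit 5655724) (nat_lit 0) (nat_lit 572382649) (nat_lit 228) (nat_lit 5655724) (nat_lit 213) (nat_lit 1) (nat_lit 212) (nat_lit 1) (nat_lit 215) (nat_lit 1) (nat_lit 427) (nat_lit 320) (nat_lit 273)) (XT.lf (nat_lit 76) (nat_lit 213550944) (nat_lit 0) (nat_lit 146197449) (nat_lit 152) (nat_lit 213550944) (nat_lit 211) (nat_lit 1) (nat_lit 210) (nat_lit 1) (nat_lit 212) (nat_lit 1) (nat_lit 428) (nat_lit 320) (nat_lit 272))))) (XT.nd (nat_lit 234)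 (nat_lit 228) (nat_lit 0) (XT.nd (nat_lit 78) (nat_lit 152) (nat_lit 0) (XT.lf (nat_lit 228) (nat_lit 264992410) (nat_lit 0) (nat_lit 149138953) (nat_lit 152) (nat_lit 149138953) (nat_lit 211) (nat_lit 1) (nat_lit 208) (nat_lit 1) (nat_lit 210) (nat_lit 1) (nat_lit 429) (nat_lit 320) (nat_lit 271)) (XT.nd (nat_lit 78) (nat_lit 152) (nat_lit 0) (XT.lf (nat_lit 76) (nat_lit 53129146) (nat_lit 0) (nat_lit 447253710) (nat_lit 228) (nat_lit 53129146) (nat_lit 209) (nat_lit 1) (nat_lit 208) (nat_lit 1) (nat_lit 211) (nat_lit 1) (nat_lit 430) (nat_lit 320) (nat_lit 270)) (XT.lf (nat_lit 76) (nat_lit 246685926) (nat_lit 0) (nat_lit 50462313) (nat_lit 152) (nat_lit 246685926) (nat_lit 207) (nat_lit 1) (nat_lit 206) (nat_lit 1) (nat_lit 208) (nat_lit 1) (nat_lit 431) (nat_lit 320) (nat_lit 269)))) (XT.nd (nat_lit 78) (nat_lit 76) (nat_lit 0) (XT.lf (nat_lit 228) (nat_lit 335556128) (nat_lit 0) (nat_lit 99431476)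 (nat_lit 152) (nat_lit 99431476) (nat_lit 207) (nat_lit 1) (nat_lit 204) (nat_lit 1) (nat_lit 206) (nat_lit 1) (nat_lit 432) (nat_lit 320) (nat_lit 268)) (XT.nd (nat_lit 78) (nat_lit 76) (nat_lit 0) (XT.lf (nat_lit 76) (nat_lit 89877259) (nat_lit 0) (nat_lit 345435866) (nat_lit 228) (nat_lit 89877259) (nat_lit 205) (nat_lit 1) (nat_lit 204) (nat_lit 1) (nat_lit 207) (nat_lit 1) (nat_lit 433) (nat_lit 320) (nat_lit 267)) (XT.lf (nat_lit 152) (nat_lit 25800488) (nat_lit 0) (nat_lit 245167676) (nat_lit 76) (nat_lit 245167676) (nat_lit 205) (nat_lit 1) (nat_lit 203) (nat_lit 1) (nat_lit 204) (nat_lit 1) (nat_lit 434) (nat_lit 320) (nat_lit 266)))))) (XT.nd (nat_lit 468) (nat_lit 532) (nat_lit 0) (XT.nd (nat_lit 234) (nat_lit 304) (nat_lit 0) (XT.nd (nat_lit 78) (nat_lit 76) (nat_lit 0) (XT.lf (nat_lit 228) (nat_lit 388011635) (nat_lit 0) (nat_lit 59644893) (nat_lit 152) (nat_lit 59644893) (nat_lit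 203) (nat_lit 1) (nat_lit 200) (nat_lit 1) (nat_lit 202) (nat_lit 1) (nat_lit 435) (nat_lit 320) (nat_lit 265)) (XT.nd (nat_lit 78) (nat_lit 76) (nat_lit 0) (XT.lf (nat_lit 76) (nat_lit 117911557) (nat_lit 0) (nat_lit 262742496) (nat_lit 228) (nat_lit 117911557) (nat_lit 201) (nat_lit 1) (nat_lit 200) (nat_lit 1) (nat_lit 203) (nat_lit 1) (nat_lit 436) (nat_lit 320) (nat_lit 264)) (XT.lf (nat_lit 152) (nat_lit 86643884) (nat_lit 0) (nat_lit 201700054) (nat_lit 76) (nat_lit 201700054) (nat_lit 201) (nat_lit 1) (nat_lit 199) (nat_lit 1) (nat_lit 200) (nat_lit 1) (nat_lit 437) (nat_lit 320) (nat_lit 263)))) (XT.nd (nat_lit 78) (nat_lit 76) (nat_lit 0) (XT.lf (nat_lit 228) (nat_lit 425836016) (nat_lit 0) (nat_lit 27967498) (nat_lit 152) (nat_lit 27967498) (nat_lit 199) (nat_lit 1) (nat_lit 196) (nat_lit 1) (nat_lit 198) (nat_lit 1) (nat_lit 438) (nat_lit 320) (nat_lit 262)) (XT.nd (nat_lit 78) (nat_lit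 76) (nat_lit 0) (XT.lf (nat_lit 76) (nat_lit 138881666) (nat_lit 0) (nat_lit 195731811) (nat_lit 228) (nat_lit 138881666) (nat_lit 197) (nat_lit 1) (nat_lit 196) (nat_lit 1) (nat_lit 199) (nat_lit 1) (nat_lit 439) (nat_lit 320) (nat_lit 261)) (XT.lf (nat_lit 152) (nat_lit 133584766) (nat_lit 0) (nat_lit 165939133) (nat_lit 76) (nat_lit 165939133) (nat_lit 197) (nat_lit 1) (nat_lit 195) (nat_lit 1) (nat_lit 196) (nat_lit 1) (nat_lit 440) (nat_lit 320) (nat_lit 260))))) (XT.nd (nat_lit 234) (nat_lit 228) (nat_lit 0) (XT.nd (nat_lit 78) (nat_lit 76) (nat_lit 0) (XT.lf (nat_lit 228) (nat_lit 451877186) (nat_lit 0) (nat_lit 2911308) (nat_lit 152) (nat_lit 2911308) (nat_lit 195) (nat_lit 1) (nat_lit 192) (nat_lit 1) (nat_lit 194) (nat_lit 1) (nat_lit 441) (nat_lit 320) (nat_lit 259)) (XT.nd (nat_lit 78) (nat_lit 76) (nat_lit 0) (XT.lf (nat_lit 76) (nat_lit 154139754) (nat_lit 0) (nat_lit 141574673) (nat_lit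 228) (nat_lit 154139754) (nat_lit 193) (nat_lit 1) (nat_lit 192) (nat_lit 1) (nat_lit 195) (nat_lit 1) (nat_lit 442) (nat_lit 320) (nat_lit 258)) (XT.lf (nat_lit 152) (nat_lit 169236353) (nat_lit 0) (nat_lit 136518535) (nat_lit 76) (nat_lit 136518535) (nat_lit 193) (nat_lit 1) (nat_lit 191) (nat_lit 1) (nat_lit 192) (nat_lit 1) (nat_lit 443) (nat_lit 320) (nat_lit 257)))) (XT.nd (nat_lit 156) (nat_lit 76) (nat_lit 0) (XT.nd (nat_lit 78) (nat_lit 152) (nat_lit 0) (XT.lf (nat_lit 0) (nat_lit 17019967) (nat_lit 0) (nat_lit 400881610) (nat_lit 152) (nat_lit 17019967) (nat_lit 191) (nat_lit 3) (nat_lit 191) (nat_lit 1) (nat_lit 193) (nat_lit 1) (nat_lit 444) (nat_lit 320) (nat_lit 256)) (XT.lf (nat_lit 76) (nat_lit 164793503) (nat_lit 0) (nat_lit 97945860) (nat_lit 152) (nat_lit 164793503) (nat_lit 190) (nat_lit 1) (nat_lit 189) (nat_lit 1) (nat_lit 191) (nat_lit 1) (nat_lit 445) (nat_lit 320) (nat_lit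 255))) (XT.nd (nat_lit 47814) (nat_lit 0) (nat_lit 7904) (XT.lf (nat_lit 152) (nat_lit 195741486) (nat_lit 0) (nat_lit 112314137) (nat_lit 76) (nat_lit 112314137) (nat_lit 190) (nat_lit 1) (nat_lit 188) (nat_lit 1) (nat_lit 189) (nat_lit 1) (nat_lit 446) (nat_lit 320) (nat_lit 254)) (XT.lf (nat_lit 836) (nat_lit 212643933) (nat_lit 0) (nat_lit 377548814) (nat_lit 836) (nat_lit 212643933) (nat_lit 303) (nat_lit 1) (nat_lit 292) (nat_lit 0) (nat_lit 303) (nat_lit 0) (nat_lit 378) (nat_lit 321) (nat_lit 321))))))) (XT.nd (nat_lit 1014) (nat_lit 2660) (nat_lit 0) (XT.nd (nat_lit 468) (nat_lit 912) (nat_lit 0) (XT.nd (nat_lit 234) (nat_lit 0) (nat_lit 152) (XT.nd (nat_lit 78) (nat_lit 0) (nat_lit 76) (XT.lf (nat_lit 836) (nat_lit 824234432) (nat_lit 76) (nat_lit 371459317) (nat_lit 0) (nat_lit 371459317) (nat_lit 303) (nat_lit 1) (nat_lit 293) (nat_lit 1) (nat_lit 292) (nat_lit 0) (nat_lit 379) (nat_lit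 321) (nat_lit 320)) (XT.nd (nat_lit 78) (nat_lit 0) (nat_lit 0) (XT.lf (nat_lit 836) (nat_lit 392817720) (nat_lit 0) (nat_lit 744188202) (nat_lit 760) (nat_lit 392817720) (nat_lit 304) (nat_lit 1) (nat_lit 293) (nat_lit 1) (nat_lit 303) (nat_lit 1) (nat_lit 380) (nat_lit 321) (nat_lit 319)) (XT.lf (nat_lit 836) (nat_lit 736871459) (nat_lit 76) (nat_lit 378414388) (nat_lit 0) (nat_lit 378414388) (nat_lit 304) (nat_lit 1) (nat_lit 294) (nat_lit 1) (nat_lit 293) (nat_lit 1) (nat_lit 381) (nat_lit 321) (nat_lit 318)))) (XT.nd (nat_lit 78) (nat_lit 0) (nat_lit 0) (XT.lf (nat_lit 836) (nat_lit 339174856) (nat_lit 0) (nat_lit 780372047) (nat_lit 760) (nat_lit 339174856) (nat_lit 305) (nat_lit 1) (nat_lit 294) (nat_lit 1) (nat_lit 304) (nat_lit 1) (nat_lit 382) (nat_lit 321) (nat_lit 317)) (XT.nd (nat_lit 78) (nat_lit 0) (nat_lit 76) (XT.lf (nat_lit 836) (nat_lit 610028070) (nat_lit 76) (nat_lit 407390746)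 (nat_lit 0) (nat_lit 407390746) (nat_lit 305) (nat_lit 1) (nat_lit 295) (nat_lit 1) (nat_lit 294) (nat_lit 1) (nat_lit 383) (nat_lit 321) (nat_lit 316)) (XT.lf (nat_lit 836) (nat_lit 267479689) (nat_lit 0) (nat_lit 857076639) (nat_lit 760) (nat_lit 267479689) (nat_lit 306) (nat_lit 1) (nat_lit 295) (nat_lit 1) (nat_lit 305) (nat_lit 1) (nat_lit 384) (nat_lit 321) (nat_lit 315))))) (XT.nd (nat_lit 234) (nat_lit 1140) (nat_lit 0) (XT.nd (nat_lit 78) (nat_lit 0) (nat_lit 76) (XT.lf (nat_lit 836) (nat_lit 449641571) (nat_lit 76) (nat_lit 455261635) (nat_lit 0) (nat_lit 455261635) (nat_lit 306) (nat_lit 1) (nat_lit 296) (nat_lit 1) (nat_lit 295) (nat_lit 1) (nat_lit 385) (nat_lit 321) (nat_lit 314)) (XT.nd (nat_lit 78) (nat_lit 0) (nat_lit 0) (XT.lf (nat_lit 836) (nat_lit 180507671) (nat_lit 0) (nat_lit 968444991) (nat_lit 760) (nat_lit 180507671) (nat_lit 307) (nat_lit 1) (nat_lit 296) (nat_lit 1)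 (nat_lit 306) (nat_lit 1) (nat_lit 386) (nat_lit 321) (nat_lit 313)) (XT.lf (nat_lit 836) (nat_lit 260989329) (nat_lit 76) (nat_lit 519242400) (nat_lit 0) (nat_lit 519242400) (nat_lit 307) (nat_lit 1) (nat_lit 297) (nat_lit 1) (nat_lit 296) (nat_lit 1) (nat_lit 387) (nat_lit 321) (nat_lit 312)))) (XT.nd (nat_lit 156) (nat_lit 532) (nat_lit 0) (XT.nd (nat_lit 78) (nat_lit 760) (nat_lit 0) (XT.lf (nat_lit 76) (nat_lit 80723973) (nat_lit 0) (nat_lit 1109264156) (nat_lit 760) (nat_lit 80723973) (nat_lit 298) (nat_lit 1) (nat_lit 297) (nat_lit 1) (nat_lit 307) (nat_lit 1) (nat_lit 388) (nat_lit 321) (nat_lit 311)) (XT.lf (nat_lit 836) (nat_lit 48755272) (nat_lit 0) (nat_lit 596856227) (nat_lit 760) (nat_lit 596856227) (nat_lit 298) (nat_lit 1) (nat_lit 287) (nat_lit 1) (nat_lit 297) (nat_lit 1) (nat_lit 389) (nat_lit 321) (nat_lit 310))) (XT.nd (nat_lit 78) (nat_lit 0) (nat_lit 0) (XT.lf (nat_lit 532)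 (nat_lit 1157024017) (nat_lit 0) (nat_lit 29206382) (nat_lit 456) (nat_lit 29206382) (nat_lit 287) (nat_lit 1) (nat_lit 280) (nat_lit 1) (nat_lit 286) (nat_lit 1) (nat_lit 390) (nat_lit 321) (nat_lit 309)) (XT.lf (nat_lit 76) (nat_lit 505848886) (nat_lit 0) (nat_lit 177055784) (nat_lit 532) (nat_lit 505848886) (nat_lit 281) (nat_lit 1) (nat_lit 280) (nat_lit 1) (nat_lit 287) (nat_lit 1) (nat_lit 391) (nat_lit 321) (nat_lit 308)))))) (XT.nd (nat_lit 468) (nat_lit 1596) (nat_lit 0) (XT.nd (nat_lit 234) (nat_lit 304) (nat_lit 0) (XT.nd (nat_lit 78) (nat_lit 380) (nat_lit 0) (XT.lf (nat_lit 456) (nat_lit 870436088) (nat_lit 0) (nat_lit 146384443) (nat_lit 380) (nat_lit 146384443) (nat_lit 281) (nat_lit 1) (nat_lit 275) (nat_lit 1) (nat_lit 280) (nat_lit 1) (nat_lit 392) (nat_lit 321) (nat_lit 307)) (XT.nd (nat_lit 78) (nat_lit 380) (nat_lit 0) (XT.lf (nat_lit 76) (nat_lit 360815853) (nat_lit 0) (nat_lit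 416561789) (nat_lit 456) (nat_lit 360815853) (nat_lit 276) (nat_lit 1) (nat_lit 275) (nat_lit 1) (nat_lit 281) (nat_lit 1) (nat_lit 393) (nat_lit 321) (nat_lit 306)) (XT.lf (nat_lit 456) (nat_lit 573194508) (nat_lit 0) (nat_lit 270429294) (nat_lit 380) (nat_lit 270429294) (nat_lit 276) (nat_lit 1) (nat_lit 270) (nat_lit 1) (nat_lit 275) (nat_lit 1) (nat_lit 394) (nat_lit 321) (nat_lit 305)))) (XT.nd (nat_lit 78) (nat_lit 304) (nat_lit 0) (XT.lf (nat_lit 76) (nat_lit 211214558) (nat_lit 0) (nat_lit 668185667) (nat_lit 456) (nat_lit 211214558) (nat_lit 271) (nat_lit 1) (nat_lit 270) (nat_lit 1) (nat_lit 276) (nat_lit 1) (nat_lit 395) (nat_lit 321) (nat_lit 304)) (XT.nd (nat_lit 78) (nat_lit 0) (nat_lit 0) (XT.lf (nat_lit 380) (nat_lit 268065841) (nat_lit 0) (nat_lit 399856769) (nat_lit 304) (nat_lit 399856769) (nat_lit 271) (nat_lit 1) (nat_lit 266) (nat_lit 1) (nat_lit 270) (nat_lit 1) (nat_lit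 396) (nat_lit 321) (nat_lit 303)) (XT.lf (nat_lit 76) (nat_lit 58329338) (nat_lit 0) (nat_lit 929163439) (nat_lit 380) (nat_lit 58329338) (nat_lit 267) (nat_lit 1) (nat_lit 266) (nat_lit 1) (nat_lit 271) (nat_lit 1) (nat_lit 397) (nat_lit 321) (nat_lit 302))))) (XT.nd (nat_lit 234) (nat_lit 912) (nat_lit 0) (XT.nd (nat_lit 78) (nat_lit 304) (nat_lit 0) (XT.lf (nat_lit 76) (nat_lit 491499767) (nat_lit 0) (nat_lit 41164060) (nat_lit 380) (nat_lit 491499767) (nat_lit 262) (nat_lit 1) (nat_lit 261) (nat_lit 1) (nat_lit 266) (nat_lit 1) (nat_lit 398) (nat_lit 321) (nat_lit 301)) (XT.nd (nat_lit 78) (nat_lit 0) (nat_lit 0) (XT.lf (nat_lit 380) (nat_lit 813018125) (nat_lit 0) (nat_lit 95155878) (nat_lit 304) (nat_lit 95155878) (nat_lit 262) (nat_lit 1) (nat_lit 257) (nat_lit 1) (nat_lit 261) (nat_lit 1) (nat_lit 399) (nat_lit 321) (nat_lit 300)) (XT.lf (nat_lit 76) (nat_lit 318901451) (nat_lit 0) (nat_lit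 345050674) (nat_lit 380) (nat_lit 318901451) (nat_lit 258) (nat_lit 1) (nat_lit 257) (nat_lit 1) (nat_lit 262) (nat_lit 1) (nat_lit 400) (nat_lit 321) (nat_lit 299)))) (XT.nd (nat_lit 156) (nat_lit 608) (nat_lit 0) (XT.nd (nat_lit 78) (nat_lit 0) (nat_lit 0) (XT.lf (nat_lit 380) (nat_lit 465365929) (nat_lit 0) (nat_lit 248860695) (nat_lit 304) (nat_lit 248860695) (nat_lit 258) (nat_lit 1) (nat_lit 253) (nat_lit 1) (nat_lit 257) (nat_lit 1) (nat_lit 401) (nat_lit 321) (nat_lit 298)) (XT.lf (nat_lit 76) (nat_lit 146755645) (nat_lit 0) (nat_lit 650387737) (nat_lit 380) (nat_lit 146755645) (nat_lit 254) (nat_lit 1) (nat_lit 253) (nat_lit 1) (nat_lit 258) (nat_lit 1) (nat_lit 402) (nat_lit 321) (nat_lit 297))) (XT.nd (nat_lit 78) (nat_lit 380) (nat_lit 0) (XT.lf (nat_lit 304) (nat_lit 119350080) (nat_lit 0) (nat_lit 402887426) (nat_lit 228) (nat_lit 402887426) (nat_lit 254) (nat_lit 1) (nat_lit 250)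 (nat_lit 1) (nat_lit 253) (nat_lit 1) (nat_lit 403) (nat_lit 321) (nat_lit 296)) (XT.lf (nat_lit 380) (nat_lit 859382900) (nat_lit 0) (nat_lit 23846226) (nat_lit 304) (nat_lit 23846226) (nat_lit 250) (nat_lit 1) (nat_lit 245) (nat_lit 1) (nat_lit 249) (nat_lit 1) (nat_lit 404) (nat_lit 321) (nat_lit 295))))))))
noncomputable def ec22 : XT := (XT.nd (nat_lit 1950) (nat_lit 1596) (nat_lit 0) (XT.nd (nat_lit 936) (nat_lit 1368) (nat_lit 0) (XT.nd (nat_lit 468) (nat_lit 836) (nat_lit 0) (XT.nd (nat_lit 234) (nat_lit 532) (nat_lit 0) (XT.nd (nat_lit 78) (nat_lit 228) (nat_lit 0) (XT.lf (nat_lit 76) (nat_lit 336282882) (nat_lit 0) (nat_lit 216559910) (nat_lit 380) (nat_lit 336282882) (nat_lit 246) (nat_lit 1) (nat_lit 245) (nat_lit 1) (nat_lit 250) (nat_lit 1) (nat_lit 405) (nat_lit 321) (nat_lit 294)) (XT.nd (nat_lit 78) (nat_lit 0) (nat_lit 0) (XT.lf (nat_lit 304) (nat_lit 491151781) (nat_lit 0) (nat_lit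 190356316) (nat_lit 228) (nat_lit 190356316) (nat_lit 246) (nat_lit 1) (nat_lit 242) (nat_lit 1) (nat_lit 245) (nat_lit 1) (nat_lit 406) (nat_lit 321) (nat_lit 293)) (XT.lf (nat_lit 76) (nat_lit 155162444) (nat_lit 0) (nat_lit 544716815) (nat_lit 304) (nat_lit 155162444) (nat_lit 243) (nat_lit 1) (nat_lit 242) (nat_lit 1) (nat_lit 246) (nat_lit 1) (nat_lit 407) (nat_lit 321) (nat_lit 292)))) (XT.nd (nat_lit 78) (nat_lit 304) (nat_lit 0) (XT.lf (nat_lit 304) (nat_lit 129323048) (nat_lit 0) (nat_lit 354639330) (nat_lit 228) (nat_lit 354639330) (nat_lit 243) (nat_lit 1) (nat_lit 239) (nat_lit 1) (nat_lit 242) (nat_lit 1) (nat_lit 408) (nat_lit 321) (nat_lit 291)) (XT.nd (nat_lit 78) (nat_lit 0) (nat_lit 0) (XT.lf (nat_lit 304) (nat_lit 778321475) (nat_lit 0) (nat_lit 22225501) (nat_lit 228) (nat_lit 22225501) (nat_lit 239) (nat_lit 1) (nat_lit 235) (nat_lit 1) (nat_lit 238) (nat_lit 1) (nat_lit 409)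 (nat_lit 321) (nat_lit 290)) (XT.lf (nat_lit 76) (nat_lit 294416724) (nat_lit 0) (nat_lit 218159836) (nat_lit 304) (nat_lit 294416724) (nat_lit 236) (nat_lit 1) (nat_lit 235) (nat_lit 1) (nat_lit 239) (nat_lit 1) (nat_lit 410) (nat_lit 321) (nat_lit 289))))) (XT.nd (nat_lit 234) (nat_lit 456) (nat_lit 0) (XT.nd (nat_lit 78) (nat_lit 152) (nat_lit 0) (XT.lf (nat_lit 304) (nat_lit 404849954) (nat_lit 0) (nat_lit 193473985) (nat_lit 228) (nat_lit 193473985) (nat_lit 236) (nat_lit 1) (nat_lit 232) (nat_lit 1) (nat_lit 235) (nat_lit 1) (nat_lit 411) (nat_lit 321) (nat_lit 288)) (XT.nd (nat_lit 78) (nat_lit 152) (nat_lit 0) (XT.lf (nat_lit 76) (nat_lit 111495347) (nat_lit 0) (nat_lit 554019415) (nat_lit 304) (nat_lit 111495347) (nat_lit 233) (nat_lit 1) (nat_lit 232) (nat_lit 1) (nat_lit 236) (nat_lit 1) (nat_lit 412) (nat_lit 321) (nat_lit 287)) (XT.lf (nat_lit 228) (nat_lit 40855602) (nat_lit 0) (nat_lit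 360822680) (nat_lit 152) (nat_lit 360822680) (nat_lit 233) (nat_lit 1) (nat_lit 230) (nat_lit 1) (nat_lit 232) (nat_lit 1) (nat_lit 413) (nat_lit 321) (nat_lit 286)))) (XT.nd (nat_lit 78) (nat_lit 152) (nat_lit 0) (XT.lf (nat_lit 304) (nat_lit 617314452) (nat_lit 0) (nat_lit 65563269) (nat_lit 228) (nat_lit 65563269) (nat_lit 230) (nat_lit 1) (nat_lit 226) (nat_lit 1) (nat_lit 229) (nat_lit 1) (nat_lit 414) (nat_lit 321) (nat_lit 285)) (XT.nd (nat_lit 78) (nat_lit 152) (nat_lit 0) (XT.lf (nat_lit 76) (nat_lit 215613285) (nat_lit 0) (nat_lit 303311696) (nat_lit 304) (nat_lit 215613285) (nat_lit 227) (nat_lit 1) (nat_lit 226) (nat_lit 1) (nat_lit 230) (nat_lit 1) (nat_lit 415) (nat_lit 321) (nat_lit 284)) (XT.lf (nat_lit 228) (nat_lit 249107891) (nat_lit 0) (nat_lit 235978363) (nat_lit 152) (nat_lit 235978363) (nat_lit 227) (nat_lit 1) (nat_lit 224) (nat_lit 1) (nat_lit 226) (nat_lit 1) (nat_lit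 416) (nat_lit 321) (nat_lit 283)))))) (XT.nd (nat_lit 468) (nat_lit 608) (nat_lit 0) (XT.nd (nat_lit 234) (nat_lit 380) (nat_lit 0) (XT.nd (nat_lit 78) (nat_lit 380) (nat_lit 0) (XT.lf (nat_lit 76) (nat_lit 35788897) (nat_lit 0) (nat_lit 636460314) (nat_lit 228) (nat_lit 35788897) (nat_lit 225) (nat_lit 1) (nat_lit 224) (nat_lit 1) (nat_lit 227) (nat_lit 1) (nat_lit 417) (nat_lit 321) (nat_lit 282)) (XT.nd (nat_lit 78) (nat_lit 152) (nat_lit 0) (XT.lf (nat_lit 76) (nat_lit 295372047) (nat_lit 0) (nat_lit 104314857) (nat_lit 228) (nat_lit 295372047) (nat_lit 222) (nat_lit 1) (nat_lit 221) (nat_lit 1) (nat_lit 224) (nat_lit 1) (nat_lit 418) (nat_lit 321) (nat_lit 281)) (XT.lf (nat_lit 228) (nat_lit 410175855) (nat_lit 0) (nat_lit 136167270) (nat_lit 152) (nat_lit 136167270) (nat_lit 222) (nat_lit 1) (nat_lit 219) (nat_lit 1) (nat_lit 221) (nat_lit 1) (nat_lit 419) (nat_lit 321) (nat_lit 280)))) (XT.nd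 (nat_lit 78) (nat_lit 380) (nat_lit 0) (XT.lf (nat_lit 76) (nat_lit 115740955) (nat_lit 0) (nat_lit 438757283) (nat_lit 228) (nat_lit 115740955) (nat_lit 220) (nat_lit 1) (nat_lit 219) (nat_lit 1) (nat_lit 222) (nat_lit 1) (nat_lit 420) (nat_lit 321) (nat_lit 279)) (XT.nd (nat_lit 78) (nat_lit 228) (nat_lit 0) (XT.lf (nat_lit 228) (nat_lit 54220470) (nat_lit 0) (nat_lit 301997437) (nat_lit 152) (nat_lit 301997437) (nat_lit 220) (nat_lit 1) (nat_lit 217) (nat_lit 1) (nat_lit 219) (nat_lit 1) (nat_lit 421) (nat_lit 321) (nat_lit 278)) (XT.lf (nat_lit 228) (nat_lit 532913812) (nat_lit 0) (nat_lit 56813043) (nat_lit 152) (nat_lit 56813043) (nat_lit 217) (nat_lit 1) (nat_lit 214) (nat_lit 1) (nat_lit 216) (nat_lit 1) (nat_lit 422) (nat_lit 321) (nat_lit 277))))) (XT.nd (nat_lit 234) (nat_lit 456) (nat_lit 0) (XT.nd (nat_lit 78) (nat_lit 152) (nat_lit 0) (XT.lf (nat_lit 76) (nat_lit 177408314) (nat_lit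 0) (nat_lit 280147471) (nat_lit 228) (nat_lit 177408314) (nat_lit 215) (nat_lit 1) (nat_lit 214) (nat_lit 1) (nat_lit 217) (nat_lit 1) (nat_lit 423) (nat_lit 321) (nat_lit 276)) (XT.nd (nat_lit 78) (nat_lit 0) (nat_lit 0) (XT.lf (nat_lit 228) (nat_lit 180681754) (nat_lit 0) (nat_lit 221521304) (nat_lit 152) (nat_lit 221521304) (nat_lit 215) (nat_lit 1) (nat_lit 212) (nat_lit 1) (nat_lit 214) (nat_lit 1) (nat_lit 424) (nat_lit 321) (nat_lit 275)) (XT.lf (nat_lit 76) (nat_lit 5938510) (nat_lit 0) (nat_lit 601001781) (nat_lit 228) (nat_lit 5938510) (nat_lit 213) (nat_lit 1) (nat_lit 212) (nat_lit 1) (nat_lit 215) (nat_lit 1) (nat_lit 425) (nat_lit 321) (nat_lit 274)))) (XT.nd (nat_lit 156) (nat_lit 152) (nat_lit 0) (XT.nd (nat_lit 78) (nat_lit 152) (nat_lit 0) (XT.lf (nat_lit 76) (nat_lit 224228491) (nat_lit 0) (nat_lit 153507322) (nat_lit 152) (nat_lit 224228491) (nat_lit 211) (nat_lit 1) (nat_lit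 210) (nat_lit 1) (nat_lit 212) (nat_lit 1) (nat_lit 426) (nat_lit 321) (nat_lit 273)) (XT.lf (nat_lit 228) (nat_lit 278242030) (nat_lit 0) (nat_lit 156595900) (nat_lit 152) (nat_lit 156595900) (nat_lit 211) (nat_lit 1) (nat_lit 208) (nat_lit 1) (nat_lit 210) (nat_lit 1) (nat_lit 427) (nat_lit 321) (nat_lit 272))) (XT.nd (nat_lit 78) (nat_lit 152) (nat_lit 0) (XT.lf (nat_lit 76) (nat_lit 55785604) (nat_lit 0) (nat_lit 469616396) (nat_lit 228) (nat_lit 55785604) (nat_lit 209) (nat_lit 1) (nat_lit 208) (nat_lit 1) (nat_lit 211) (nat_lit 1) (nat_lit 428) (nat_lit 321) (nat_lit 271)) (XT.lf (nat_lit 76) (nat_lit 259020222) (nat_lit 0) (nat_lit 52985428) (nat_lit 152) (nat_lit 259020222) (nat_lit 207) (nat_lit 1) (nat_lit 206) (nat_lit 1) (nat_lit 208) (nat_lit 1) (nat_lit 429) (nat_lit 321) (nat_lit 270))))))) (XT.nd (nat_lit 936) (nat_lit 456) (nat_lit 0) (XT.nd (nat_lit 468) (nat_lit 608) (nat_lit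 0) (XT.nd (nat_lit 234) (nat_lit 304) (nat_lit 0) (XT.nd (nat_lit 78) (nat_lit 76) (nat_lit 0) (XT.lf (nat_lit 228) (nat_lit 352333935) (nat_lit 0) (nat_lit 104403050) (nat_lit 152) (nat_lit 104403050) (nat_lit 207) (nat_lit 1) (nat_lit 204) (nat_lit 1) (nat_lit 206) (nat_lit 1) (nat_lit 430) (nat_lit 321) (nat_lit 269)) (XT.nd (nat_lit 78) (nat_lit 76) (nat_lit 0) (XT.lf (nat_lit 76) (nat_lit 94371122) (nat_lit 0) (nat_lit 362707660) (nat_lit 228) (nat_lit 94371122) (nat_lit 205) (nat_lit 1) (nat_lit 204) (nat_lit 1) (nat_lit 207) (nat_lit 1) (nat_lit 431) (nat_lit 321) (nat_lit 268)) (XT.lf (nat_lit 152) (nat_lit 27090512) (nat_lit 0) (nat_lit 257426060) (nat_lit 76) (nat_lit 257426060) (nat_lit 205) (nat_lit 1) (nat_lit 203) (nat_lit 1) (nat_lit 204) (nat_lit 1) (nat_lit 432) (nat_lit 321) (nat_lit 267)))) (XT.nd (nat_lit 78) (nat_lit 76) (nat_lit 0) (XT.lf (nat_lit 228) (nat_lit 407412217)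 (nat_lit 0) (nat_lit 62627138) (nat_lit 152) (nat_lit 62627138) (nat_lit 203) (nat_lit 1) (nat_lit 200) (nat_lit 1) (nat_lit 202) (nat_lit 1) (nat_lit 433) (nat_lit 321) (nat_lit 266)) (XT.nd (nat_lit 78) (nat_lit 76) (nat_lit 0) (XT.lf (nat_lit 76) (nat_lit 123807135) (nat_lit 0) (nat_lit 275879621) (nat_lit 228) (nat_lit 123807135) (nat_lit 201) (nat_lit 1) (nat_lit 200) (nat_lit 1) (nat_lit 203) (nat_lit 1) (nat_lit 434) (nat_lit 321) (nat_lit 265)) (XT.lf (nat_lit 152) (nat_lit 90976078) (nat_lit 0) (nat_lit 211785056) (nat_lit 76) (nat_lit 211785056) (nat_lit 201) (nat_lit 1) (nat_lit 199) (nat_lit 1) (nat_lit 200) (nat_lit 1) (nat_lit 435) (nat_lit 321) (nat_lit 264))))) (XT.nd (nat_lit 234) (nat_lit 304) (nat_lit 0) (XT.nd (nat_lit 78) (nat_lit 76) (nat_lit 0) (XT.lf (nat_lit 228) (nat_lit 447127817) (nat_lit 0) (nat_lit 29365873) (nat_lit 152) (nat_lit 29365873) (nat_lit 199) (nat_lit 1)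 (nat_lit 196) (nat_lit 1) (nat_lit 198) (nat_lit 1) (nat_lit 436) (nat_lit 321) (nat_lit 263)) (XT.nd (nat_lit 78) (nat_lit 76) (nat_lit 0) (XT.lf (nat_lit 76) (nat_lit 145825750) (nat_lit 0) (nat_lit 205518401) (nat_lit 228) (nat_lit 145825750) (nat_lit 197) (nat_lit 1) (nat_lit 196) (nat_lit 1) (nat_lit 199) (nat_lit 1) (nat_lit 437) (nat_lit 321) (nat_lit 262)) (XT.lf (nat_lit 152) (nat_lit 140264004) (nat_lit 0) (nat_lit 174236090) (nat_lit 76) (nat_lit 174236090) (nat_lit 197) (nat_lit 1) (nat_lit 195) (nat_lit 1) (nat_lit 196) (nat_lit 1) (nat_lit 438) (nat_lit 321) (nat_lit 261)))) (XT.nd (nat_lit 78) (nat_lit 76) (nat_lit 0) (XT.lf (nat_lit 228) (nat_lit 474471046) (nat_lit 0) (nat_lit 3056873) (nat_lit 152) (nat_lit 3056873) (nat_lit 195) (nat_lit 1) (nat_lit 192) (nat_lit 1) (nat_lit 194) (nat_lit 1) (nat_lit 439) (nat_lit 321) (nat_lit 260)) (XT.nd (nat_lit 78) (nat_lit 76) (nat_lit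 0) (XT.lf (nat_lit 76) (nat_lit 161846742) (nat_lit 0) (nat_lit 148653406) (nat_lit 228) (nat_lit 161846742) (nat_lit 193) (nat_lit 1) (nat_lit 192) (nat_lit 1) (nat_lit 195) (nat_lit 1) (nat_lit 440) (nat_lit 321) (nat_lit 259)) (XT.lf (nat_lit 152) (nat_lit 177698171) (nat_lit 0) (nat_lit 143344462) (nat_lit 76) (nat_lit 143344462) (nat_lit 193) (nat_lit 1) (nat_lit 191) (nat_lit 1) (nat_lit 192) (nat_lit 1) (nat_lit 441) (nat_lit 321) (nat_lit 258)))))) (XT.nd (nat_lit 468) (nat_lit 0) (nat_lit 0) (XT.nd (nat_lit 234) (nat_lit 228) (nat_lit 0) (XT.nd (nat_lit 78) (nat_lit 228) (nat_lit 0) (XT.lf (nat_lit 0) (nat_lit 17870965) (nat_lit 0) (nat_lit 420925690) (nat_lit 152) (nat_lit 17870965) (nat_lit 191) (nat_lit 3) (nat_lit 191) (nat_lit 1) (nat_lit 193) (nat_lit 1) (nat_lit 442) (nat_lit 321) (nat_lit 257)) (XT.nd (nat_lit 78) (nat_lit 76) (nat_lit 0) (XT.lf (nat_lit 76) (nat_lit 173033178)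 (nat_lit 0) (nat_lit 102843153) (nat_lit 152) (nat_lit 173033178) (nat_lit 190) (nat_lit 1) (nat_lit 189) (nat_lit 1) (nat_lit 191) (nat_lit 1) (nat_lit 443) (nat_lit 321) (nat_lit 256)) (XT.lf (nat_lit 152) (nat_lit 205528561) (nat_lit 0) (nat_lit 117929844) (nat_lit 76) (nat_lit 117929844) (nat_lit 190) (nat_lit 1) (nat_lit 188) (nat_lit 1) (nat_lit 189) (nat_lit 1) (nat_lit 444) (nat_lit 321) (nat_lit 255)))) (XT.nd (nat_lit 78) (nat_lit 228) (nat_lit 0) (XT.lf (nat_lit 0) (nat_lit 34156859) (nat_lit 0) (nat_lit 365750979) (nat_lit 152) (nat_lit 34156859) (nat_lit 188) (nat_lit 3) (nat_lit 188) (nat_lit 1) (nat_lit 190) (nat_lit 1) (nat_lit 445) (nat_lit 321) (nat_lit 254)) (XT.nd (nat_lit 78) (nat_lit 76) (nat_lit 0) (XT.lf (nat_lit 76) (nat_lit 180337170) (nat_lit 0) (nat_lit 66081342) (nat_lit 152) (nat_lit 180337170) (nat_lit 187) (nat_lit 1) (nat_lit 186) (nat_lit 1) (nat_lit 188) (nat_lit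 1) (nat_lit 446) (nat_lit 321) (nat_lit 253)) (XT.lf (nat_lit 152) (nat_lit 225599175) (nat_lit 0) (nat_lit 97021174) (nat_lit 76) (nat_lit 97021174) (nat_lit 187) (nat_lit 1) (nat_lit 185) (nat_lit 1) (nat_lit 186) (nat_lit 1) (nat_lit 447) (nat_lit 321) (nat_lit 252))))) (XT.nd (nat_lit 47658) (nat_lit 0) (nat_lit 8208) (XT.nd (nat_lit 47502) (nat_lit 0) (nat_lit 8132) (XT.lf (nat_lit 0) (nat_lit 46628906) (nat_lit 0) (nat_lit 319432210) (nat_lit 152) (nat_lit 46628906) (nat_lit 185) (nat_lit 3) (nat_lit 185) (nat_lit 1) (nat_lit 187) (nat_lit 1) (nat_lit 448) (nat_lit 321) (nat_lit 251)) (XT.nd (nat_lit 78) (nat_lit 0) (nat_lit 0) (XT.lf (nat_lit 836) (nat_lit 223276129) (nat_lit 0) (nat_lit 396426255) (nat_lit 836) (nat_lit 223276129) (nat_lit 303) (nat_lit 1) (nat_lit 292) (nat_lit 0) (nat_lit 303) (nat_lit 0) (nat_lit 376) (nat_lit 322) (nat_lit 322)) (XT.lf (nat_lit 836) (nat_lit 865446154)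 (nat_lit 76) (nat_lit 390032283) (nat_lit 0) (nat_lit 390032283) (nat_lit 303) (nat_lit 1) (nat_lit 293) (nat_lit 1) (nat_lit 292) (nat_lit 0) (nat_lit 377) (nat_lit 322) (nat_lit 321)))) (XT.nd (nat_lit 156) (nat_lit 0) (nat_lit 76) (XT.nd (nat_lit 78) (nat_lit 0) (nat_lit 0) (XT.lf (nat_lit 836) (nat_lit 412458606) (nat_lit 0) (nat_lit 781397612) (nat_lit 760) (nat_lit 412458606) (nat_lit 304) (nat_lit 1) (nat_lit 293) (nat_lit 1) (nat_lit 303) (nat_lit 1) (nat_lit 378) (nat_lit 322) (nat_lit 320)) (XT.lf (nat_lit 836) (nat_lit 773715032) (nat_lit 76) (nat_lit 397335107) (nat_lit 0) (nat_lit 397335107) (nat_lit 304) (nat_lit 1) (nat_lit 294) (nat_lit 1) (nat_lit 293) (nat_lit 1) (nat_lit 379) (nat_lit 322) (nat_lit 319))) (XT.nd (nat_lit 78) (nat_lit 0) (nat_lit 0) (XT.lf (nat_lit 836) (nat_lit 356133599) (nat_lit 0) (nat_lit 819390650) (nat_lit 760) (nat_lit 356133599) (nat_lit 305) (nat_lit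 1) (nat_lit 294) (nat_lit 1) (nat_lit 304) (nat_lit 1) (nat_lit 380) (nat_lit 322) (nat_lit 318)) (XT.lf (nat_lit 836) (nat_lit 640529474) (nat_lit 76) (nat_lit 427760283) (nat_lit 0) (nat_lit 427760283) (nat_lit 305) (nat_lit 1) (nat_lit 295) (nat_lit 1) (nat_lit 294) (nat_lit 1) (nat_lit 381) (nat_lit 322) (nat_lit 317))))))))
noncomputable def ec23 : XT := (XT.nd (nat_lit 1950) (nat_lit 2964) (nat_lit 0) (XT.nd (nat_lit 936) (nat_lit 2356) (nat_lit 0) (XT.nd (nat_lit 468) (nat_lit 1292) (nat_lit 0) (XT.nd (nat_lit 234) (nat_lit 608) (nat_lit 0) (XT.nd (nat_lit 78) (nat_lit 0) (nat_lit 0) (XT.lf (nat_lit 836) (nat_lit 280853674) (nat_lit 0) (nat_lit 899930471) (nat_lit 760) (nat_lit 280853674) (nat_lit 306) (nat_lit 1) (nat_lit 295) (nat_lit 1) (nat_lit 305) (nat_lit 1) (nat_lit 382) (nat_lit 322) (nat_lit 316)) (XT.nd (nat_lit 78) (nat_lit 0) (nat_lit 76) (XT.lf (nat_lit 836) (nat_lit 472123649)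 (nat_lit 76) (nat_lit 478024717) (nat_lit 0) (nat_lit 478024717) (nat_lit 306) (nat_lit 1) (nat_lit 296) (nat_lit 1) (nat_lit 295) (nat_lit 1) (nat_lit 383) (nat_lit 322) (nat_lit 315)) (XT.lf (nat_lit 836) (nat_lit 189533054) (nat_lit 0) (nat_lit 1016867241) (nat_lit 760) (nat_lit 189533054) (nat_lit 307) (nat_lit 1) (nat_lit 296) (nat_lit 1) (nat_lit 306) (nat_lit 1) (nat_lit 384) (nat_lit 322) (nat_lit 314)))) (XT.nd (nat_lit 78) (nat_lit 684) (nat_lit 0) (XT.lf (nat_lit 836) (nat_lit 274038796) (nat_lit 76) (nat_lit 545204520) (nat_lit 0) (nat_lit 545204520) (nat_lit 307) (nat_lit 1) (nat_lit 297) (nat_lit 1) (nat_lit 296) (nat_lit 1) (nat_lit 385) (nat_lit 322) (nat_lit 313)) (XT.nd (nat_lit 78) (nat_lit 760) (nat_lit 0) (XT.lf (nat_lit 76) (nat_lit 84760172) (nat_lit 0) (nat_lit 1164727364) (nat_lit 760) (nat_lit 84760172) (nat_lit 298) (nat_lit 1) (nat_lit 297) (nat_lit 1) (nat_lit 307)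 (nat_lit 1) (nat_lit 386) (nat_lit 322) (nat_lit 312)) (XT.lf (nat_lit 836) (nat_lit 51193036) (nat_lit 0) (nat_lit 626699038) (nat_lit 760) (nat_lit 626699038) (nat_lit 298) (nat_lit 1) (nat_lit 287) (nat_lit 1) (nat_lit 297) (nat_lit 1) (nat_lit 387) (nat_lit 322) (nat_lit 311))))) (XT.nd (nat_lit 234) (nat_lit 380) (nat_lit 0) (XT.nd (nat_lit 78) (nat_lit 380) (nat_lit 0) (XT.lf (nat_lit 532) (nat_lit 1214875218) (nat_lit 0) (nat_lit 30666701) (nat_lit 456) (nat_lit 30666701) (nat_lit 287) (nat_lit 1) (nat_lit 280) (nat_lit 1) (nat_lit 286) (nat_lit 1) (nat_lit 388) (nat_lit 322) (nat_lit 310)) (XT.nd (nat_lit 78) (nat_lit 380) (nat_lit 0) (XT.lf (nat_lit 76) (nat_lit 531141331) (nat_lit 0) (nat_lit 185908573) (nat_lit 532) (nat_lit 531141331) (nat_lit 281) (nat_lit 1) (nat_lit 280) (nat_lit 1) (nat_lit 287) (nat_lit 1) (nat_lit 389) (nat_lit 322) (nat_lit 309)) (XT.lf (nat_lit 456) (nat_lit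 913957893) (nat_lit 0) (nat_lit 153703665) (nat_lit 380) (nat_lit 153703665) (nat_lit 281) (nat_lit 1) (nat_lit 275) (nat_lit 1) (nat_lit 280) (nat_lit 1) (nat_lit 390) (nat_lit 322) (nat_lit 308)))) (XT.nd (nat_lit 78) (nat_lit 380) (nat_lit 0) (XT.lf (nat_lit 76) (nat_lit 378856645) (nat_lit 0) (nat_lit 437389878) (nat_lit 456) (nat_lit 378856645) (nat_lit 276) (nat_lit 1) (nat_lit 275) (nat_lit 1) (nat_lit 281) (nat_lit 1) (nat_lit 391) (nat_lit 322) (nat_lit 307)) (XT.nd (nat_lit 78) (nat_lit 0) (nat_lit 0) (XT.lf (nat_lit 456) (nat_lit 601854233) (nat_lit 0) (nat_lit 283950759) (nat_lit 380) (nat_lit 283950759) (nat_lit 276) (nat_lit 1) (nat_lit 270) (nat_lit 1) (nat_lit 275) (nat_lit 1) (nat_lit 392) (nat_lit 322) (nat_lit 306)) (XT.lf (nat_lit 76) (nat_lit 221775286) (nat_lit 0) (nat_lit 701594950) (nat_lit 456) (nat_lit 221775286) (nat_lit 271) (nat_lit 1) (nat_lit 270) (nat_lit 1) (nat_lit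 276) (nat_lit 1) (nat_lit 393) (nat_lit 322) (nat_lit 305)))))) (XT.nd (nat_lit 468) (nat_lit 1064) (nat_lit 0) (XT.nd (nat_lit 234) (nat_lit 608) (nat_lit 0) (XT.nd (nat_lit 78) (nat_lit 380) (nat_lit 0) (XT.lf (nat_lit 380) (nat_lit 281469134) (nat_lit 0) (nat_lit 419849608) (nat_lit 304) (nat_lit 419849608) (nat_lit 271) (nat_lit 1) (nat_lit 266) (nat_lit 1) (nat_lit 270) (nat_lit 1) (nat_lit 394) (nat_lit 322) (nat_lit 304)) (XT.nd (nat_lit 78) (nat_lit 380) (nat_lit 0) (XT.lf (nat_lit 76) (nat_lit 61245805) (nat_lit 0) (nat_lit 975621611) (nat_lit 380) (nat_lit 61245805) (nat_lit 267) (nat_lit 1) (nat_lit 266) (nat_lit 1) (nat_lit 271) (nat_lit 1) (nat_lit 395) (nat_lit 322) (nat_lit 303)) (XT.lf (nat_lit 76) (nat_lit 516074755) (nat_lit 0) (nat_lit 43222263) (nat_lit 380) (nat_lit 516074755) (nat_lit 262) (nat_lit 1) (nat_lit 261) (nat_lit 1) (nat_lit 266) (nat_lit 1) (nat_lit 396) (nat_lit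 322) (nat_lit 302)))) (XT.nd (nat_lit 78) (nat_lit 304) (nat_lit 0) (XT.lf (nat_lit 380) (nat_lit 853669031) (nat_lit 0) (nat_lit 99913672) (nat_lit 304) (nat_lit 99913672) (nat_lit 262) (nat_lit 1) (nat_lit 257) (nat_lit 1) (nat_lit 261) (nat_lit 1) (nat_lit 397) (nat_lit 322) (nat_lit 301)) (XT.nd (nat_lit 78) (nat_lit 304) (nat_lit 0) (XT.lf (nat_lit 76) (nat_lit 334846524) (nat_lit 0) (nat_lit 362303208) (nat_lit 380) (nat_lit 334846524) (nat_lit 258) (nat_lit 1) (nat_lit 257) (nat_lit 1) (nat_lit 262) (nat_lit 1) (nat_lit 398) (nat_lit 322) (nat_lit 300)) (XT.lf (nat_lit 380) (nat_lit 488634225) (nat_lit 0) (nat_lit 261303729) (nat_lit 304) (nat_lit 261303729) (nat_lit 258) (nat_lit 1) (nat_lit 253) (nat_lit 1) (nat_lit 257) (nat_lit 1) (nat_lit 399) (nat_lit 322) (nat_lit 299))))) (XT.nd (nat_lit 234) (nat_lit 456) (nat_lit 0) (XT.nd (nat_lit 78) (nat_lit 608) (nat_lit 0) (XT.lf (nat_lit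 76) (nat_lit 154093427) (nat_lit 0) (nat_lit 682907124) (nat_lit 380) (nat_lit 154093427) (nat_lit 254) (nat_lit 1) (nat_lit 253) (nat_lit 1) (nat_lit 258) (nat_lit 1) (nat_lit 400) (nat_lit 322) (nat_lit 298)) (XT.nd (nat_lit 78) (nat_lit 380) (nat_lit 0) (XT.lf (nat_lit 304) (nat_lit 125317584) (nat_lit 0) (nat_lit 423031798) (nat_lit 228) (nat_lit 423031798) (nat_lit 254) (nat_lit 1) (nat_lit 250) (nat_lit 1) (nat_lit 253) (nat_lit 1) (nat_lit 401) (nat_lit 322) (nat_lit 297)) (XT.lf (nat_lit 380) (nat_lit 902352045) (nat_lit 0) (nat_lit 25038537) (nat_lit 304) (nat_lit 25038537) (nat_lit 250) (nat_lit 1) (nat_lit 245) (nat_lit 1) (nat_lit 249) (nat_lit 1) (nat_lit 402) (nat_lit 322) (nat_lit 296)))) (XT.nd (nat_lit 156) (nat_lit 228) (nat_lit 0) (XT.nd (nat_lit 78) (nat_lit 228) (nat_lit 0) (XT.lf (nat_lit 76) (nat_lit 353097026) (nat_lit 0) (nat_lit 227387905) (nat_lit 380) (nat_lit 353097026)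 (nat_lit 246) (nat_lit 1) (nat_lit 245) (nat_lit 1) (nat_lit 250) (nat_lit 1) (nat_lit 403) (nat_lit 322) (nat_lit 295)) (XT.lf (nat_lit 304) (nat_lit 515709370) (nat_lit 0) (nat_lit 199874132) (nat_lit 228) (nat_lit 199874132) (nat_lit 246) (nat_lit 1) (nat_lit 242) (nat_lit 1) (nat_lit 245) (nat_lit 1) (nat_lit 404) (nat_lit 322) (nat_lit 294))) (XT.nd (nat_lit 78) (nat_lit 228) (nat_lit 0) (XT.lf (nat_lit 76) (nat_lit 162920567) (nat_lit 0) (nat_lit 571952656) (nat_lit 304) (nat_lit 162920567) (nat_lit 243) (nat_lit 1) (nat_lit 242) (nat_lit 1) (nat_lit 246) (nat_lit 1) (nat_lit 405) (nat_lit 322) (nat_lit 293)) (XT.lf (nat_lit 304) (nat_lit 135789200) (nat_lit 0) (nat_lit 372371296) (nat_lit 228) (nat_lit 372371296) (nat_lit 243) (nat_lit 1) (nat_lit 239) (nat_lit 1) (nat_lit 242) (nat_lit 1) (nat_lit 406) (nat_lit 322) (nat_lit 292))))))) (XT.nd (nat_lit 1014) (nat_lit 1292) (nat_lit 0) (XT.nd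 (nat_lit 468) (nat_lit 684) (nat_lit 0) (XT.nd (nat_lit 234) (nat_lit 456) (nat_lit 0) (XT.nd (nat_lit 78) (nat_lit 228) (nat_lit 0) (XT.lf (nat_lit 304) (nat_lit 817237549) (nat_lit 0) (nat_lit 23336776) (nat_lit 228) (nat_lit 23336776) (nat_lit 239) (nat_lit 1) (nat_lit 235) (nat_lit 1) (nat_lit 238) (nat_lit 1) (nat_lit 407) (nat_lit 322) (nat_lit 291)) (XT.nd (nat_lit 78) (nat_lit 228) (nat_lit 0) (XT.lf (nat_lit 76) (nat_lit 309137560) (nat_lit 0) (nat_lit 229067828) (nat_lit 304) (nat_lit 309137560) (nat_lit 236) (nat_lit 1) (nat_lit 235) (nat_lit 1) (nat_lit 239) (nat_lit 1) (nat_lit 408) (nat_lit 322) (nat_lit 290)) (XT.lf (nat_lit 304) (nat_lit 425092452) (nat_lit 0) (nat_lit 203147684) (nat_lit 228) (nat_lit 203147684) (nat_lit 236) (nat_lit 1) (nat_lit 232) (nat_lit 1) (nat_lit 235) (nat_lit 1) (nat_lit 409) (nat_lit 322) (nat_lit 289)))) (XT.nd (nat_lit 78) (nat_lit 456) (nat_lit 0)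 (XT.lf (nat_lit 76) (nat_lit 117070114) (nat_lit 0) (nat_lit 581720386) (nat_lit 304) (nat_lit 117070114) (nat_lit 233) (nat_lit 1) (nat_lit 232) (nat_lit 1) (nat_lit 236) (nat_lit 1) (nat_lit 410) (nat_lit 322) (nat_lit 288)) (XT.nd (nat_lit 78) (nat_lit 304) (nat_lit 0) (XT.lf (nat_lit 228) (nat_lit 42898382) (nat_lit 0) (nat_lit 378863814) (nat_lit 152) (nat_lit 378863814) (nat_lit 233) (nat_lit 1) (nat_lit 230) (nat_lit 1) (nat_lit 232) (nat_lit 1) (nat_lit 411) (nat_lit 322) (nat_lit 287)) (XT.lf (nat_lit 304) (nat_lit 648180175) (nat_lit 0) (nat_lit 68841432) (nat_lit 228) (nat_lit 68841432) (nat_lit 230) (nat_lit 1) (nat_lit 226) (nat_lit 1) (nat_lit 229) (nat_lit 1) (nat_lit 412) (nat_lit 322) (nat_lit 286))))) (XT.nd (nat_lit 234) (nat_lit 532) (nat_lit 0) (XT.nd (nat_lit 78) (nat_lit 152) (nat_lit 0) (XT.lf (nat_lit 76) (nat_lit 226393949) (nat_lit 0) (nat_lit 318477281) (nat_lit 304)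 (nat_lit 226393949) (nat_lit 227) (nat_lit 1) (nat_lit 226) (nat_lit 1) (nat_lit 230) (nat_lit 1) (nat_lit 413) (nat_lit 322) (nat_lit 285)) (XT.nd (nat_lit 78) (nat_lit 0) (nat_lit 0) (XT.lf (nat_lit 228) (nat_lit 261563285) (nat_lit 0) (nat_lit 247777281) (nat_lit 152) (nat_lit 247777281) (nat_lit 227) (nat_lit 1) (nat_lit 224) (nat_lit 1) (nat_lit 226) (nat_lit 1) (nat_lit 414) (nat_lit 322) (nat_lit 284)) (XT.lf (nat_lit 76) (nat_lit 37578341) (nat_lit 0) (nat_lit 668283330) (nat_lit 228) (nat_lit 37578341) (nat_lit 225) (nat_lit 1) (nat_lit 224) (nat_lit 1) (nat_lit 227) (nat_lit 1) (nat_lit 415) (nat_lit 322) (nat_lit 283)))) (XT.nd (nat_lit 156) (nat_lit 152) (nat_lit 0) (XT.nd (nat_lit 78) (nat_lit 152) (nat_lit 0) (XT.lf (nat_lit 76) (nat_lit 310140649) (nat_lit 0) (nat_lit 109530600) (nat_lit 228) (nat_lit 310140649) (nat_lit 222) (nat_lit 1) (nat_lit 221) (nat_lit 1) (nat_lit 224) (nat_lit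 1) (nat_lit 416) (nat_lit 322) (nat_lit 282)) (XT.lf (nat_lit 228) (nat_lit 430684648) (nat_lit 0) (nat_lit 142975634) (nat_lit 152) (nat_lit 142975634) (nat_lit 222) (nat_lit 1) (nat_lit 219) (nat_lit 1) (nat_lit 221) (nat_lit 1) (nat_lit 417) (nat_lit 322) (nat_lit 281))) (XT.nd (nat_lit 78) (nat_lit 152) (nat_lit 0) (XT.lf (nat_lit 76) (nat_lit 121528003) (nat_lit 0) (nat_lit 460695147) (nat_lit 228) (nat_lit 121528003) (nat_lit 220) (nat_lit 1) (nat_lit 219) (nat_lit 1) (nat_lit 222) (nat_lit 1) (nat_lit 418) (nat_lit 322) (nat_lit 280)) (XT.lf (nat_lit 228) (nat_lit 56931494) (nat_lit 0) (nat_lit 317097309) (nat_lit 152) (nat_lit 317097309) (nat_lit 220) (nat_lit 1) (nat_lit 217) (nat_lit 1) (nat_lit 219) (nat_lit 1) (nat_lit 419) (nat_lit 322) (nat_lit 279)))))) (XT.nd (nat_lit 468) (nat_lit 608) (nat_lit 0) (XT.nd (nat_lit 234) (nat_lit 304) (nat_lit 0) (XT.nd (nat_lit 78) (nat_lit 152)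 (nat_lit 0) (XT.lf (nat_lit 228) (nat_lit 559559503) (nat_lit 0) (nat_lit 59653695) (nat_lit 152) (nat_lit 59653695) (nat_lit 217) (nat_lit 1) (nat_lit 214) (nat_lit 1) (nat_lit 216) (nat_lit 1) (nat_lit 420) (nat_lit 322) (nat_lit 278)) (XT.nd (nat_lit 78) (nat_lit 152) (nat_lit 0) (XT.lf (nat_lit 76) (nat_lit 186278729) (nat_lit 0) (nat_lit 294154845) (nat_lit 228) (nat_lit 186278729) (nat_lit 215) (nat_lit 1) (nat_lit 214) (nat_lit 1) (nat_lit 217) (nat_lit 1) (nat_lit 421) (nat_lit 322) (nat_lit 277)) (XT.lf (nat_lit 228) (nat_lit 189715842) (nat_lit 0) (nat_lit 232597369) (nat_lit 152) (nat_lit 232597369) (nat_lit 215) (nat_lit 1) (nat_lit 212) (nat_lit 1) (nat_lit 214) (nat_lit 1) (nat_lit 422) (nat_lit 322) (nat_lit 276)))) (XT.nd (nat_lit 78) (nat_lit 304) (nat_lit 0) (XT.lf (nat_lit 76) (nat_lit 6235436) (nat_lit 0) (nat_lit 631051870) (nat_lit 228) (nat_lit 6235436) (nat_lit 213) (nat_lit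 1) (nat_lit 212) (nat_lit 1) (nat_lit 215) (nat_lit 1) (nat_lit 423) (nat_lit 322) (nat_lit 275)) (XT.nd (nat_lit 78) (nat_lit 152) (nat_lit 0) (XT.lf (nat_lit 76) (nat_lit 235439915) (nat_lit 0) (nat_lit 161182688) (nat_lit 152) (nat_lit 235439915) (nat_lit 211) (nat_lit 1) (nat_lit 210) (nat_lit 1) (nat_lit 212) (nat_lit 1) (nat_lit 424) (nat_lit 322) (nat_lit 274)) (XT.lf (nat_lit 228) (nat_lit 292154132) (nat_lit 0) (nat_lit 164425695) (nat_lit 152) (nat_lit 164425695) (nat_lit 211) (nat_lit 1) (nat_lit 208) (nat_lit 1) (nat_lit 210) (nat_lit 1) (nat_lit 425) (nat_lit 322) (nat_lit 273))))) (XT.nd (nat_lit 234) (nat_lit 304) (nat_lit 0) (XT.nd (nat_lit 78) (nat_lit 304) (nat_lit 0) (XT.lf (nat_lit 76) (nat_lit 58574884) (nat_lit 0) (nat_lit 493097216) (nat_lit 228) (nat_lit 58574884) (nat_lit 209) (nat_lit 1) (nat_lit 208) (nat_lit 1) (nat_lit 211) (nat_lit 1) (nat_lit 426) (nat_lit 322) (nat_lit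 272)) (XT.nd (nat_lit 78) (nat_lit 152) (nat_lit 0) (XT.lf (nat_lit 76) (nat_lit 271971233) (nat_lit 0) (nat_lit 55634700) (nat_lit 152) (nat_lit 271971233) (nat_lit 207) (nat_lit 1) (nat_lit 206) (nat_lit 1) (nat_lit 208) (nat_lit 1) (nat_lit 427) (nat_lit 322) (nat_lit 271)) (XT.lf (nat_lit 228) (nat_lit 369950632) (nat_lit 0) (nat_lit 109623202) (nat_lit 152) (nat_lit 109623202) (nat_lit 207) (nat_lit 1) (nat_lit 204) (nat_lit 1) (nat_lit 206) (nat_lit 1) (nat_lit 428) (nat_lit 322) (nat_lit 270)))) (XT.nd (nat_lit 156) (nat_lit 228) (nat_lit 0) (XT.nd (nat_lit 78) (nat_lit 76) (nat_lit 0) (XT.lf (nat_lit 76) (nat_lit 99089678) (nat_lit 0) (nat_lit 380843043) (nat_lit 228) (nat_lit 99089678) (nat_lit 205) (nat_lit 1) (nat_lit 204) (nat_lit 1) (nat_lit 207) (nat_lit 1) (nat_lit 429) (nat_lit 322) (nat_lit 269)) (XT.lf (nat_lit 152) (nat_lit 28445038) (nat_lit 0) (nat_lit 270297363) (nat_lit 76)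 (nat_lit 270297363) (nat_lit 205) (nat_lit 1) (nat_lit 203) (nat_lit 1) (nat_lit 204) (nat_lit 1) (nat_lit 430) (nat_lit 322) (nat_lit 268))) (XT.nd (nat_lit 78) (nat_lit 0) (nat_lit 0) (XT.lf (nat_lit 228) (nat_lit 427782828) (nat_lit 0) (nat_lit 65758495) (nat_lit 152) (nat_lit 65758495) (nat_lit 203) (nat_lit 1) (nat_lit 200) (nat_lit 1) (nat_lit 202) (nat_lit 1) (nat_lit 431) (nat_lit 322) (nat_lit 267)) (XT.lf (nat_lit 76) (nat_lit 129997492) (nat_lit 0) (nat_lit 289673602) (nat_lit 228) (nat_lit 129997492) (nat_lit 201) (nat_lit 1) (nat_lit 200) (nat_lit 1) (nat_lit 203) (nat_lit 1) (nat_lit 432) (nat_lit 322) (nat_lit 266))))))))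
noncomputable def ec24 : XT := (XT.nd (nat_lit 49218) (nat_lit 0) (nat_lit 3800) (XT.nd (nat_lit 936) (nat_lit 304) (nat_lit 0) (XT.nd (nat_lit 468) (nat_lit 456) (nat_lit 0) (XT.nd (nat_lit 234) (nat_lit 304) (nat_lit 0) (XT.nd (nat_lit 78) (nat_lit 228) (nat_lit 0) (XT.lf (nat_lit 152) (nat_lit 95524882) (nat_lit 0) (nat_lit 222374309) (nat_lit 76) (nat_lit 222374309) (nat_lit 201) (nat_lit 1) (nat_lit 199) (nat_lit 1) (nat_lit 200) (nat_lit 1) (nat_lit 433) (nat_lit 322) (nat_lit 265)) (XT.nd (nat_lit 78) (nat_lit 0) (nat_lit 0) (XT.lf (nat_lit 228) (nat_lit 469484208) (nat_lit 0) (nat_lit 30834167) (nat_lit 152) (nat_lit 30834167) (nat_lit 199) (nat_lit 1) (nat_lit 196) (nat_lit 1) (nat_lit 198) (nat_lit 1) (nat_lit 434) (nat_lit 322) (nat_lit 264)) (XT.lf (nat_lit 76) (nat_lit 153117037) (nat_lit 0) (nat_lit 215794322) (nat_lit 228) (nat_lit 153117037) (nat_lit 197) (nat_lit 1) (nat_lit 196)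 (nat_lit 1) (nat_lit 199) (nat_lit 1) (nat_lit 435) (nat_lit 322) (nat_lit 263)))) (XT.nd (nat_lit 78) (nat_lit 228) (nat_lit 0) (XT.lf (nat_lit 152) (nat_lit 147277204) (nat_lit 0) (nat_lit 182947894) (nat_lit 76) (nat_lit 182947894) (nat_lit 197) (nat_lit 1) (nat_lit 195) (nat_lit 1) (nat_lit 196) (nat_lit 1) (nat_lit 436) (nat_lit 322) (nat_lit 262)) (XT.nd (nat_lit 78) (nat_lit 0) (nat_lit 0) (XT.lf (nat_lit 228) (nat_lit 498194598) (nat_lit 0) (nat_lit 3209717) (nat_lit 152) (nat_lit 3209717) (nat_lit 195) (nat_lit 1) (nat_lit 192) (nat_lit 1) (nat_lit 194) (nat_lit 1) (nat_lit 437) (nat_lit 322) (nat_lit 261)) (XT.lf (nat_lit 76) (nat_lit 169939079) (nat_lit 0) (nat_lit 156086077) (nat_lit 228) (nat_lit 169939079) (nat_lit 193) (nat_lit 1) (nat_lit 192) (nat_lit 1) (nat_lit 195) (nat_lit 1) (nat_lit 438) (nat_lit 322) (nat_lit 260))))) (XT.nd (nat_lit 234) (nat_lit 228) (nat_lit 0) (XT.nd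 (nat_lit 78) (nat_lit 152) (nat_lit 0) (XT.lf (nat_lit 152) (nat_lit 186583079) (nat_lit 0) (nat_lit 150511685) (nat_lit 76) (nat_lit 150511685) (nat_lit 193) (nat_lit 1) (nat_lit 191) (nat_lit 1) (nat_lit 192) (nat_lit 1) (nat_lit 439) (nat_lit 322) (nat_lit 259)) (XT.nd (nat_lit 78) (nat_lit 152) (nat_lit 0) (XT.lf (nat_lit 0) (nat_lit 18764513) (nat_lit 0) (nat_lit 441971975) (nat_lit 152) (nat_lit 18764513) (nat_lit 191) (nat_lit 3) (nat_lit 191) (nat_lit 1) (nat_lit 193) (nat_lit 1) (nat_lit 440) (nat_lit 322) (nat_lit 258)) (XT.lf (nat_lit 76) (nat_lit 181684837) (nat_lit 0) (nat_lit 107985310) (nat_lit 152) (nat_lit 181684837) (nat_lit 190) (nat_lit 1) (nat_lit 189) (nat_lit 1) (nat_lit 191) (nat_lit 1) (nat_lit 441) (nat_lit 322) (nat_lit 257)))) (XT.nd (nat_lit 78) (nat_lit 152) (nat_lit 0) (XT.lf (nat_lit 152) (nat_lit 215804989) (nat_lit 0) (nat_lit 123826336) (nat_lit 76) (nat_lit 123826336)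 (nat_lit 190) (nat_lit 1) (nat_lit 188) (nat_lit 1) (nat_lit 189) (nat_lit 1) (nat_lit 442) (nat_lit 322) (nat_lit 256)) (XT.nd (nat_lit 78) (nat_lit 152) (nat_lit 0) (XT.lf (nat_lit 0) (nat_lit 35864702) (nat_lit 0) (nat_lit 384038528) (nat_lit 152) (nat_lit 35864702) (nat_lit 188) (nat_lit 3) (nat_lit 188) (nat_lit 1) (nat_lit 190) (nat_lit 1) (nat_lit 443) (nat_lit 322) (nat_lit 255)) (XT.lf (nat_lit 76) (nat_lit 189354029) (nat_lit 0) (nat_lit 69385410) (nat_lit 152) (nat_lit 189354029) (nat_lit 187) (nat_lit 1) (nat_lit 186) (nat_lit 1) (nat_lit 188) (nat_lit 1) (nat_lit 444) (nat_lit 322) (nat_lit 254)))))) (XT.nd (nat_lit 47736) (nat_lit 0) (nat_lit 8436) (XT.nd (nat_lit 234) (nat_lit 76) (nat_lit 0) (XT.nd (nat_lit 78) (nat_lit 152) (nat_lit 0) (XT.lf (nat_lit 152) (nat_lit 236879134) (nat_lit 0) (nat_lit 101872233) (nat_lit 76) (nat_lit 101872233) (nat_lit 187) (nat_lit 1) (nat_lit 185)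 (nat_lit 1) (nat_lit 186) (nat_lit 1) (nat_lit 445) (nat_lit 322) (nat_lit 253)) (XT.nd (nat_lit 78) (nat_lit 152) (nat_lit 0) (XT.lf (nat_lit 0) (nat_lit 48960352) (nat_lit 0) (nat_lit 335403820) (nat_lit 152) (nat_lit 48960352) (nat_lit 185) (nat_lit 3) (nat_lit 185) (nat_lit 1) (nat_lit 187) (nat_lit 1) (nat_lit 446) (nat_lit 322) (nat_lit 252)) (XT.lf (nat_lit 76) (nat_lit 193764374) (nat_lit 0) (nat_lit 38555574) (nat_lit 152) (nat_lit 193764374) (nat_lit 184) (nat_lit 1) (nat_lit 183) (nat_lit 1) (nat_lit 185) (nat_lit 1) (nat_lit 447) (nat_lit 322) (nat_lit 251)))) (XT.nd (nat_lit 47346) (nat_lit 0) (nat_lit 8360) (XT.lf (nat_lit 152) (nat_lit 251391370) (nat_lit 0) (nat_lit 83810538) (nat_lit 76) (nat_lit 83810538) (nat_lit 184) (nat_lit 1) (nat_lit 182) (nat_lit 1) (nat_lit 183) (nat_lit 1) (nat_lit 448) (nat_lit 322) (nat_lit 250)) (XT.nd (nat_lit 78) (nat_lit 0) (nat_lit 0) (XT.lf (nat_lit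 836) (nat_lit 234439936) (nat_lit 0) (nat_lit 416247568) (nat_lit 836) (nat_lit 234439936) (nat_lit 303) (nat_lit 1) (nat_lit 292) (nat_lit 0) (nat_lit 303) (nat_lit 0) (nat_lit 374) (nat_lit 323) (nat_lit 323)) (XT.lf (nat_lit 836) (nat_lit 908718461) (nat_lit 76) (nat_lit 409533897) (nat_lit 0) (nat_lit 409533897) (nat_lit 303) (nat_lit 1) (nat_lit 293) (nat_lit 1) (nat_lit 292) (nat_lit 0) (nat_lit 375) (nat_lit 323) (nat_lit 322))))) (XT.nd (nat_lit 234) (nat_lit 0) (nat_lit 76) (XT.nd (nat_lit 78) (nat_lit 0) (nat_lit 0) (XT.lf (nat_lit 836) (nat_lit 433081536) (nat_lit 0) (nat_lit 820467493) (nat_lit 760) (nat_lit 433081536) (nat_lit 304) (nat_lit 1) (nat_lit 293) (nat_lit 1) (nat_lit 303) (nat_lit 1) (nat_lit 376) (nat_lit 323) (nat_lit 321)) (XT.nd (nat_lit 78) (nat_lit 0) (nat_lit 76) (XT.lf (nat_lit 836) (nat_lit 812400784) (nat_lit 76) (nat_lit 417201863) (nat_lit 0) (nat_lit 417201863)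 (nat_lit 304) (nat_lit 1) (nat_lit 294) (nat_lit 1) (nat_lit 293) (nat_lit 1) (nat_lit 377) (nat_lit 323) (nat_lit 320)) (XT.lf (nat_lit 836) (nat_lit 373940279) (nat_lit 0) (nat_lit 860360182) (nat_lit 760) (nat_lit 373940279) (nat_lit 305) (nat_lit 1) (nat_lit 294) (nat_lit 1) (nat_lit 304) (nat_lit 1) (nat_lit 378) (nat_lit 323) (nat_lit 319)))) (XT.nd (nat_lit 156) (nat_lit 0) (nat_lit 76) (XT.nd (nat_lit 78) (nat_lit 0) (nat_lit 76) (XT.lf (nat_lit 836) (nat_lit 672555947) (nat_lit 76) (nat_lit 449148297) (nat_lit 0) (nat_lit 449148297) (nat_lit 305) (nat_lit 1) (nat_lit 295) (nat_lit 1) (nat_lit 294) (nat_lit 1) (nat_lit 379) (nat_lit 323) (nat_lit 318)) (XT.lf (nat_lit 836) (nat_lit 294896357) (nat_lit 0) (nat_lit 944926994) (nat_lit 760) (nat_lit 294896357) (nat_lit 306) (nat_lit 1) (nat_lit 295) (nat_lit 1) (nat_lit 305) (nat_lit 1) (nat_lit 380) (nat_lit 323) (nat_lit 317))) (XT.nd (nat_lit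 78) (nat_lit 0) (nat_lit 76) (XT.lf (nat_lit 836) (nat_lit 495729832) (nat_lit 76) (nat_lit 501925953) (nat_lit 0) (nat_lit 501925953) (nat_lit 306) (nat_lit 1) (nat_lit 296) (nat_lit 1) (nat_lit 295) (nat_lit 1) (nat_lit 381) (nat_lit 323) (nat_lit 316)) (XT.lf (nat_lit 836) (nat_lit 199009707) (nat_lit 0) (nat_lit 1067710603) (nat_lit 760) (nat_lit 199009707) (nat_lit 307) (nat_lit 1) (nat_lit 296) (nat_lit 1) (nat_lit 306) (nat_lit 1) (nat_lit 382) (nat_lit 323) (nat_lit 315))))))) (XT.nd (nat_lit 936) (nat_lit 2204) (nat_lit 0) (XT.nd (nat_lit 468) (nat_lit 1064) (nat_lit 0) (XT.nd (nat_lit 234) (nat_lit 912) (nat_lit 0) (XT.nd (nat_lit 78) (nat_lit 684) (nat_lit 0) (XT.lf (nat_lit 836) (nat_lit 287740736) (nat_lit 76) (nat_lit 572464746) (nat_lit 0) (nat_lit 572464746) (nat_lit 307) (nat_lit 1) (nat_lit 297) (nat_lit 1) (nat_lit 296) (nat_lit 1) (nat_lit 383) (nat_lit 323) (nat_lit 314)) (XT.nd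 (nat_lit 78) (nat_lit 760) (nat_lit 0) (XT.lf (nat_lit 76) (nat_lit 88998180) (nat_lit 0) (nat_lit 1222963732) (nat_lit 760) (nat_lit 88998180) (nat_lit 298) (nat_lit 1) (nat_lit 297) (nat_lit 1) (nat_lit 307) (nat_lit 1) (nat_lit 384) (nat_lit 323) (nat_lit 313)) (XT.lf (nat_lit 836) (nat_lit 53752687) (nat_lit 0) (nat_lit 658033990) (nat_lit 760) (nat_lit 658033990) (nat_lit 298) (nat_lit 1) (nat_lit 287) (nat_lit 1) (nat_lit 297) (nat_lit 1) (nat_lit 385) (nat_lit 323) (nat_lit 312)))) (XT.nd (nat_lit 78) (nat_lit 380) (nat_lit 0) (XT.lf (nat_lit 532) (nat_lit 1275618979) (nat_lit 0) (nat_lit 32200036) (nat_lit 456) (nat_lit 32200036) (nat_lit 287) (nat_lit 1) (nat_lit 280) (nat_lit 1) (nat_lit 286) (nat_lit 1) (nat_lit 386) (nat_lit 323) (nat_lit 311)) (XT.nd (nat_lit 78) (nat_lit 380) (nat_lit 0) (XT.lf (nat_lit 76) (nat_lit 557698397) (nat_lit 0) (nat_lit 195204002) (nat_lit 532) (nat_lit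 557698397) (nat_lit 281) (nat_lit 1) (nat_lit 280) (nat_lit 1) (nat_lit 287) (nat_lit 1) (nat_lit 387) (nat_lit 323) (nat_lit 310)) (XT.lf (nat_lit 456) (nat_lit 959655787) (nat_lit 0) (nat_lit 161388849) (nat_lit 380) (nat_lit 161388849) (nat_lit 281) (nat_lit 1) (nat_lit 275) (nat_lit 1) (nat_lit 280) (nat_lit 1) (nat_lit 388) (nat_lit 323) (nat_lit 309))))) (XT.nd (nat_lit 234) (nat_lit 684) (nat_lit 0) (XT.nd (nat_lit 78) (nat_lit 380) (nat_lit 0) (XT.lf (nat_lit 76) (nat_lit 397799478) (nat_lit 0) (nat_lit 459259372) (nat_lit 456) (nat_lit 397799478) (nat_lit 276) (nat_lit 1) (nat_lit 275) (nat_lit 1) (nat_lit 281) (nat_lit 1) (nat_lit 389) (nat_lit 323) (nat_lit 308)) (XT.nd (nat_lit 78) (nat_lit 0) (nat_lit 0) (XT.lf (nat_lit 456) (nat_lit 631946945) (nat_lit 0) (nat_lit 298148297) (nat_lit 380) (nat_lit 298148297) (nat_lit 276) (nat_lit 1) (nat_lit 270) (nat_lit 1) (nat_lit 275) (nat_lit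 1) (nat_lit 390) (nat_lit 323) (nat_lit 307)) (XT.lf (nat_lit 76) (nat_lit 232864050) (nat_lit 0) (nat_lit 736674698) (nat_lit 456) (nat_lit 232864050) (nat_lit 271) (nat_lit 1) (nat_lit 270) (nat_lit 1) (nat_lit 276) (nat_lit 1) (nat_lit 391) (nat_lit 323) (nat_lit 306)))) (XT.nd (nat_lit 78) (nat_lit 380) (nat_lit 0) (XT.lf (nat_lit 380) (nat_lit 295542590) (nat_lit 0) (nat_lit 440842088) (nat_lit 304) (nat_lit 440842088) (nat_lit 271) (nat_lit 1) (nat_lit 266) (nat_lit 1) (nat_lit 270) (nat_lit 1) (nat_lit 392) (nat_lit 323) (nat_lit 305)) (XT.nd (nat_lit 78) (nat_lit 380) (nat_lit 0) (XT.lf (nat_lit 76) (nat_lit 64308095) (nat_lit 0) (nat_lit 1024402691) (nat_lit 380) (nat_lit 64308095) (nat_lit 267) (nat_lit 1) (nat_lit 266) (nat_lit 1) (nat_lit 271) (nat_lit 1) (nat_lit 393) (nat_lit 323) (nat_lit 304)) (XT.lf (nat_lit 76) (nat_lit 541878493) (nat_lit 0) (nat_lit 45383376) (nat_lit 380) (nat_lit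 541878493) (nat_lit 262) (nat_lit 1) (nat_lit 261) (nat_lit 1) (nat_lit 266) (nat_lit 1) (nat_lit 394) (nat_lit 323) (nat_lit 303)))))) (XT.nd (nat_lit 468) (nat_lit 988) (nat_lit 0) (XT.nd (nat_lit 234) (nat_lit 608) (nat_lit 0) (XT.nd (nat_lit 78) (nat_lit 304) (nat_lit 0) (XT.lf (nat_lit 380) (nat_lit 896352483) (nat_lit 0) (nat_lit 104909356) (nat_lit 304) (nat_lit 104909356) (nat_lit 262) (nat_lit 1) (nat_lit 257) (nat_lit 1) (nat_lit 261) (nat_lit 1) (nat_lit 395) (nat_lit 323) (nat_lit 302)) (XT.nd (nat_lit 78) (nat_lit 304) (nat_lit 0) (XT.lf (nat_lit 76) (nat_lit 351588850) (nat_lit 0) (nat_lit 380418369) (nat_lit 380) (nat_lit 351588850) (nat_lit 258) (nat_lit 1) (nat_lit 257) (nat_lit 1) (nat_lit 262) (nat_lit 1) (nat_lit 396) (nat_lit 323) (nat_lit 301)) (XT.lf (nat_lit 380) (nat_lit 513065937) (nat_lit 0) (nat_lit 274368916) (nat_lit 304) (nat_lit 274368916) (nat_lit 258) (nat_lit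 1) (nat_lit 253) (nat_lit 1) (nat_lit 257) (nat_lit 1) (nat_lit 397) (nat_lit 323) (nat_lit 300)))) (XT.nd (nat_lit 78) (nat_lit 608) (nat_lit 0) (XT.lf (nat_lit 76) (nat_lit 161798098) (nat_lit 0) (nat_lit 717052480) (nat_lit 380) (nat_lit 161798098) (nat_lit 254) (nat_lit 1) (nat_lit 253) (nat_lit 1) (nat_lit 258) (nat_lit 1) (nat_lit 398) (nat_lit 323) (nat_lit 299)) (XT.nd (nat_lit 78) (nat_lit 380) (nat_lit 0) (XT.lf (nat_lit 304) (nat_lit 131583464) (nat_lit 0) (nat_lit 444183388) (nat_lit 228) (nat_lit 444183388) (nat_lit 254) (nat_lit 1) (nat_lit 250) (nat_lit 1) (nat_lit 253) (nat_lit 1) (nat_lit 399) (nat_lit 323) (nat_lit 298)) (XT.lf (nat_lit 380) (nat_lit 947469648) (nat_lit 0) (nat_lit 26290464) (nat_lit 304) (nat_lit 26290464) (nat_lit 250) (nat_lit 1) (nat_lit 245) (nat_lit 1) (nat_lit 249) (nat_lit 1) (nat_lit 400) (nat_lit 323) (nat_lit 297))))) (XT.nd (nat_lit 234) (nat_lit 760)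 (nat_lit 0) (XT.nd (nat_lit 78) (nat_lit 228) (nat_lit 0) (XT.lf (nat_lit 76) (nat_lit 370751877) (nat_lit 0) (nat_lit 238757301) (nat_lit 380) (nat_lit 370751877) (nat_lit 246) (nat_lit 1) (nat_lit 245) (nat_lit 1) (nat_lit 250) (nat_lit 1) (nat_lit 401) (nat_lit 323) (nat_lit 296)) (XT.nd (nat_lit 78) (nat_lit 0) (nat_lit 0) (XT.lf (nat_lit 304) (nat_lit 541494838) (nat_lit 0) (nat_lit 209867839) (nat_lit 228) (nat_lit 209867839) (nat_lit 246) (nat_lit 1) (nat_lit 242) (nat_lit 1) (nat_lit 245) (nat_lit 1) (nat_lit 402) (nat_lit 323) (nat_lit 295)) (XT.lf (nat_lit 76) (nat_lit 171066595) (nat_lit 0) (nat_lit 600550289) (nat_lit 304) (nat_lit 171066595) (nat_lit 243) (nat_lit 1) (nat_lit 242) (nat_lit 1) (nat_lit 246) (nat_lit 1) (nat_lit 403) (nat_lit 323) (nat_lit 294)))) (XT.nd (nat_lit 156) (nat_lit 228) (nat_lit 0) (XT.nd (nat_lit 78) (nat_lit 304) (nat_lit 0) (XT.lf (nat_lit 304) (nat_lit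 142578660) (nat_lit 0) (nat_lit 390989861) (nat_lit 228) (nat_lit 390989861) (nat_lit 243) (nat_lit 1) (nat_lit 239) (nat_lit 1) (nat_lit 242) (nat_lit 1) (nat_lit 404) (nat_lit 323) (nat_lit 293)) (XT.lf (nat_lit 304) (nat_lit 858099426) (nat_lit 0) (nat_lit 24503615) (nat_lit 228) (nat_lit 24503615) (nat_lit 239) (nat_lit 1) (nat_lit 235) (nat_lit 1) (nat_lit 238) (nat_lit 1) (nat_lit 405) (nat_lit 323) (nat_lit 292))) (XT.nd (nat_lit 78) (nat_lit 228) (nat_lit 0) (XT.lf (nat_lit 76) (nat_lit 324594438) (nat_lit 0) (nat_lit 240521219) (nat_lit 304) (nat_lit 324594438) (nat_lit 236) (nat_lit 1) (nat_lit 235) (nat_lit 1) (nat_lit 239) (nat_lit 1) (nat_lit 406) (nat_lit 323) (nat_lit 291)) (XT.lf (nat_lit 304) (nat_lit 446347075) (nat_lit 0) (nat_lit 213305068) (nat_lit 228) (nat_lit 213305068) (nat_lit 236) (nat_lit 1) (nat_lit 232) (nat_lit 1) (nat_lit 235) (nat_lit 1) (nat_lit 407) (nat_lit 323)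 (nat_lit 290))))))))
noncomputable def ec25 : XT := (XT.nd (nat_lit 1950) (nat_lit 1216) (nat_lit 0) (XT.nd (nat_lit 936) (nat_lit 1368) (nat_lit 0) (XT.nd (nat_lit 468) (nat_lit 760) (nat_lit 0) (XT.nd (nat_lit 234) (nat_lit 152) (nat_lit 0) (XT.nd (nat_lit 78) (nat_lit 456) (nat_lit 0) (XT.lf (nat_lit 76) (nat_lit 122923620) (nat_lit 0) (nat_lit 610806405) (nat_lit 304) (nat_lit 122923620) (nat_lit 233) (nat_lit 1) (nat_lit 232) (nat_lit 1) (nat_lit 236) (nat_lit 1) (nat_lit 408) (nat_lit 323) (nat_lit 289)) (XT.nd (nat_lit 78) (nat_lit 304) (nat_lit 0) (XT.lf (nat_lit 228) (nat_lit 45043301) (nat_lit 0) (nat_lit 397807005) (nat_lit 152) (nat_lit 397807005) (nat_lit 233) (nat_lit 1) (nat_lit 230) (nat_lit 1) (nat_lit 232) (nat_lit 1) (nat_lit 409) (nat_lit 323) (nat_lit 288)) (XT.lf (nat_lit 304) (nat_lit 680589184) (nat_lit 0) (nat_lit 72283504) (nat_lit 228) (nat_lit 72283504) (nat_lit 230)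 (nat_lit 1) (nat_lit 226) (nat_lit 1) (nat_lit 229) (nat_lit 1) (nat_lit 410) (nat_lit 323) (nat_lit 287)))) (XT.nd (nat_lit 78) (nat_lit 152) (nat_lit 0) (XT.lf (nat_lit 76) (nat_lit 237713646) (nat_lit 0) (nat_lit 334401145) (nat_lit 304) (nat_lit 237713646) (nat_lit 227) (nat_lit 1) (nat_lit 226) (nat_lit 1) (nat_lit 230) (nat_lit 1) (nat_lit 411) (nat_lit 323) (nat_lit 286)) (XT.nd (nat_lit 78) (nat_lit 0) (nat_lit 0) (XT.lf (nat_lit 228) (nat_lit 274641450) (nat_lit 0) (nat_lit 260166145) (nat_lit 152) (nat_lit 260166145) (nat_lit 227) (nat_lit 1) (nat_lit 224) (nat_lit 1) (nat_lit 226) (nat_lit 1) (nat_lit 412) (nat_lit 323) (nat_lit 285)) (XT.lf (nat_lit 76) (nat_lit 39457259) (nat_lit 0) (nat_lit 701697496) (nat_lit 228) (nat_lit 39457259) (nat_lit 225) (nat_lit 1) (nat_lit 224) (nat_lit 1) (nat_lit 227) (nat_lit 1) (nat_lit 413) (nat_lit 323) (nat_lit 284))))) (XT.nd (nat_lit 234) (nat_lit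 380) (nat_lit 0) (XT.nd (nat_lit 78) (nat_lit 152) (nat_lit 0) (XT.lf (nat_lit 76) (nat_lit 325647681) (nat_lit 0) (nat_lit 115007130) (nat_lit 228) (nat_lit 325647681) (nat_lit 222) (nat_lit 1) (nat_lit 221) (nat_lit 1) (nat_lit 224) (nat_lit 1) (nat_lit 414) (nat_lit 323) (nat_lit 283)) (XT.nd (nat_lit 78) (nat_lit 0) (nat_lit 0) (XT.lf (nat_lit 228) (nat_lit 452218880) (nat_lit 0) (nat_lit 150124416) (nat_lit 152) (nat_lit 150124416) (nat_lit 222) (nat_lit 1) (nat_lit 219) (nat_lit 1) (nat_lit 221) (nat_lit 1) (nat_lit 415) (nat_lit 323) (nat_lit 282)) (XT.lf (nat_lit 76) (nat_lit 127604403) (nat_lit 0) (nat_lit 483729904) (nat_lit 228) (nat_lit 127604403) (nat_lit 220) (nat_lit 1) (nat_lit 219) (nat_lit 1) (nat_lit 222) (nat_lit 1) (nat_lit 416) (nat_lit 323) (nat_lit 281)))) (XT.nd (nat_lit 78) (nat_lit 228) (nat_lit 0) (XT.lf (nat_lit 228) (nat_lit 59778068) (nat_lit 0) (nat_lit 332952175)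 (nat_lit 152) (nat_lit 332952175) (nat_lit 220) (nat_lit 1) (nat_lit 217) (nat_lit 1) (nat_lit 219) (nat_lit 1) (nat_lit 417) (nat_lit 323) (nat_lit 280)) (XT.nd (nat_lit 78) (nat_lit 0) (nat_lit 0) (XT.lf (nat_lit 228) (nat_lit 587537478) (nat_lit 0) (nat_lit 62636379) (nat_lit 152) (nat_lit 62636379) (nat_lit 217) (nat_lit 1) (nat_lit 214) (nat_lit 1) (nat_lit 216) (nat_lit 1) (nat_lit 418) (nat_lit 323) (nat_lit 279)) (XT.lf (nat_lit 76) (nat_lit 195592666) (nat_lit 0) (nat_lit 308862587) (nat_lit 228) (nat_lit 195592666) (nat_lit 215) (nat_lit 1) (nat_lit 214) (nat_lit 1) (nat_lit 217) (nat_lit 1) (nat_lit 419) (nat_lit 323) (nat_lit 278)))))) (XT.nd (nat_lit 468) (nat_lit 760) (nat_lit 0) (XT.nd (nat_lit 234) (nat_lit 304) (nat_lit 0) (XT.nd (nat_lit 78) (nat_lit 152) (nat_lit 0) (XT.lf (nat_lit 228) (nat_lit 199201634) (nat_lit 0) (nat_lit 244227237) (nat_lit 152) (nat_lit 244227237) (nat_lit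 215) (nat_lit 1) (nat_lit 212) (nat_lit 1) (nat_lit 214) (nat_lit 1) (nat_lit 420) (nat_lit 323) (nat_lit 277)) (XT.nd (nat_lit 78) (nat_lit 152) (nat_lit 0) (XT.lf (nat_lit 76) (nat_lit 6547208) (nat_lit 0) (nat_lit 662604464) (nat_lit 228) (nat_lit 6547208) (nat_lit 213) (nat_lit 1) (nat_lit 212) (nat_lit 1) (nat_lit 215) (nat_lit 1) (nat_lit 421) (nat_lit 323) (nat_lit 276)) (XT.lf (nat_lit 76) (nat_lit 247211911) (nat_lit 0) (nat_lit 169241822) (nat_lit 152) (nat_lit 247211911) (nat_lit 211) (nat_lit 1) (nat_lit 210) (nat_lit 1) (nat_lit 212) (nat_lit 1) (nat_lit 422) (nat_lit 323) (nat_lit 275)))) (XT.nd (nat_lit 78) (nat_lit 152) (nat_lit 0) (XT.lf (nat_lit 228) (nat_lit 306761839) (nat_lit 0) (nat_lit 172646980) (nat_lit 152) (nat_lit 172646980) (nat_lit 211) (nat_lit 1) (nat_lit 208) (nat_lit 1) (nat_lit 210) (nat_lit 1) (nat_lit 423) (nat_lit 323) (nat_lit 274)) (XT.nd (nat_lit 78) (nat_lit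 152) (nat_lit 0) (XT.lf (nat_lit 76) (nat_lit 61503628) (nat_lit 0) (nat_lit 517752076) (nat_lit 228) (nat_lit 61503628) (nat_lit 209) (nat_lit 1) (nat_lit 208) (nat_lit 1) (nat_lit 211) (nat_lit 1) (nat_lit 424) (nat_lit 323) (nat_lit 273)) (XT.lf (nat_lit 76) (nat_lit 285569795) (nat_lit 0) (nat_lit 58416435) (nat_lit 152) (nat_lit 285569795) (nat_lit 207) (nat_lit 1) (nat_lit 206) (nat_lit 1) (nat_lit 208) (nat_lit 1) (nat_lit 425) (nat_lit 323) (nat_lit 272))))) (XT.nd (nat_lit 234) (nat_lit 532) (nat_lit 0) (XT.nd (nat_lit 78) (nat_lit 76) (nat_lit 0) (XT.lf (nat_lit 228) (nat_lit 388448163) (nat_lit 0) (nat_lit 115104362) (nat_lit 152) (nat_lit 115104362) (nat_lit 207) (nat_lit 1) (nat_lit 204) (nat_lit 1) (nat_lit 206) (nat_lit 1) (nat_lit 426) (nat_lit 323) (nat_lit 271)) (XT.nd (nat_lit 78) (nat_lit 76) (nat_lit 0) (XT.lf (nat_lit 76) (nat_lit 104044162) (nat_lit 0) (nat_lit 399885195)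 (nat_lit 228) (nat_lit 104044162) (nat_lit 205) (nat_lit 1) (nat_lit 204) (nat_lit 1) (nat_lit 207) (nat_lit 1) (nat_lit 427) (nat_lit 323) (nat_lit 270)) (XT.lf (nat_lit 152) (nat_lit 29867290) (nat_lit 0) (nat_lit 283812231) (nat_lit 76) (nat_lit 283812231) (nat_lit 205) (nat_lit 1) (nat_lit 203) (nat_lit 1) (nat_lit 204) (nat_lit 1) (nat_lit 428) (nat_lit 323) (nat_lit 269)))) (XT.nd (nat_lit 156) (nat_lit 304) (nat_lit 0) (XT.nd (nat_lit 78) (nat_lit 0) (nat_lit 0) (XT.lf (nat_lit 228) (nat_lit 449171969) (nat_lit 0) (nat_lit 69046419) (nat_lit 152) (nat_lit 69046419) (nat_lit 203) (nat_lit 1) (nat_lit 200) (nat_lit 1) (nat_lit 202) (nat_lit 1) (nat_lit 429) (nat_lit 323) (nat_lit 268)) (XT.lf (nat_lit 76) (nat_lit 136497366) (nat_lit 0) (nat_lit 304157283) (nat_lit 228) (nat_lit 136497366) (nat_lit 201) (nat_lit 1) (nat_lit 200) (nat_lit 1) (nat_lit 203) (nat_lit 1) (nat_lit 430) (nat_lit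 323) (nat_lit 267))) (XT.nd (nat_lit 78) (nat_lit 228) (nat_lit 0) (XT.lf (nat_lit 152) (nat_lit 100301127) (nat_lit 0) (nat_lit 233493025) (nat_lit 76) (nat_lit 233493025) (nat_lit 201) (nat_lit 1) (nat_lit 199) (nat_lit 1) (nat_lit 200) (nat_lit 1) (nat_lit 431) (nat_lit 323) (nat_lit 266)) (XT.lf (nat_lit 228) (nat_lit 492958419) (nat_lit 0) (nat_lit 32375875) (nat_lit 152) (nat_lit 32375875) (nat_lit 199) (nat_lit 1) (nat_lit 196) (nat_lit 1) (nat_lit 198) (nat_lit 1) (nat_lit 432) (nat_lit 323) (nat_lit 265))))))) (XT.nd (nat_lit 1014) (nat_lit 228) (nat_lit 0) (XT.nd (nat_lit 468) (nat_lit 608) (nat_lit 0) (XT.nd (nat_lit 234) (nat_lit 76) (nat_lit 0) (XT.nd (nat_lit 78) (nat_lit 304) (nat_lit 0) (XT.lf (nat_lit 76) (nat_lit 160772889) (nat_lit 0) (nat_lit 226584038) (nat_lit 228) (nat_lit 160772889) (nat_lit 197) (nat_lit 1) (nat_lit 196) (nat_lit 1) (nat_lit 199) (nat_lit 1) (nat_lit 433)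 (nat_lit 323) (nat_lit 264)) (XT.nd (nat_lit 78) (nat_lit 228) (nat_lit 0) (XT.lf (nat_lit 152) (nat_lit 154641064) (nat_lit 0) (nat_lit 192095289) (nat_lit 76) (nat_lit 192095289) (nat_lit 197) (nat_lit 1) (nat_lit 195) (nat_lit 1) (nat_lit 196) (nat_lit 1) (nat_lit 434) (nat_lit 323) (nat_lit 263)) (XT.lf (nat_lit 228) (nat_lit 523104328) (nat_lit 0) (nat_lit 3370203) (nat_lit 152) (nat_lit 3370203) (nat_lit 195) (nat_lit 1) (nat_lit 192) (nat_lit 1) (nat_lit 194) (nat_lit 1) (nat_lit 435) (nat_lit 323) (nat_lit 262)))) (XT.nd (nat_lit 78) (nat_lit 76) (nat_lit 0) (XT.lf (nat_lit 76) (nat_lit 178436033) (nat_lit 0) (nat_lit 163890381) (nat_lit 228) (nat_lit 178436033) (nat_lit 193) (nat_lit 1) (nat_lit 192) (nat_lit 1) (nat_lit 195) (nat_lit 1) (nat_lit 436) (nat_lit 323) (nat_lit 261)) (XT.nd (nat_lit 78) (nat_lit 0) (nat_lit 0) (XT.lf (nat_lit 152) (nat_lit 195912233) (nat_lit 0) (nat_lit 158037270)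 (nat_lit 76) (nat_lit 158037270) (nat_lit 193) (nat_lit 1) (nat_lit 191) (nat_lit 1) (nat_lit 192) (nat_lit 1) (nat_lit 437) (nat_lit 323) (nat_lit 260)) (XT.lf (nat_lit 0) (nat_lit 19702739) (nat_lit 0) (nat_lit 464070574) (nat_lit 152) (nat_lit 19702739) (nat_lit 191) (nat_lit 3) (nat_lit 191) (nat_lit 1) (nat_lit 193) (nat_lit 1) (nat_lit 438) (nat_lit 323) (nat_lit 259))))) (XT.nd (nat_lit 234) (nat_lit 380) (nat_lit 0) (XT.nd (nat_lit 78) (nat_lit 76) (nat_lit 0) (XT.lf (nat_lit 76) (nat_lit 190769079) (nat_lit 0) (nat_lit 113384576) (nat_lit 152) (nat_lit 190769079) (nat_lit 190) (nat_lit 1) (nat_lit 189) (nat_lit 1) (nat_lit 191) (nat_lit 1) (nat_lit 439) (nat_lit 323) (nat_lit 258)) (XT.nd (nat_lit 78) (nat_lit 0) (nat_lit 0) (XT.lf (nat_lit 152) (nat_lit 226595238) (nat_lit 0) (nat_lit 130017653) (nat_lit 76) (nat_lit 130017653) (nat_lit 190) (nat_lit 1) (nat_lit 188) (nat_lit 1) (nat_lit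 189) (nat_lit 1) (nat_lit 440) (nat_lit 323) (nat_lit 257)) (XT.lf (nat_lit 0) (nat_lit 37657938) (nat_lit 0) (nat_lit 403240455) (nat_lit 152) (nat_lit 37657938) (nat_lit 188) (nat_lit 3) (nat_lit 188) (nat_lit 1) (nat_lit 190) (nat_lit 1) (nat_lit 441) (nat_lit 323) (nat_lit 256)))) (XT.nd (nat_lit 156) (nat_lit 152) (nat_lit 0) (XT.nd (nat_lit 78) (nat_lit 76) (nat_lit 0) (XT.lf (nat_lit 76) (nat_lit 198821730) (nat_lit 0) (nat_lit 72854680) (nat_lit 152) (nat_lit 198821730) (nat_lit 187) (nat_lit 1) (nat_lit 186) (nat_lit 1) (nat_lit 188) (nat_lit 1) (nat_lit 442) (nat_lit 323) (nat_lit 255)) (XT.lf (nat_lit 152) (nat_lit 248723091) (nat_lit 0) (nat_lit 106965845) (nat_lit 76) (nat_lit 106965845) (nat_lit 187) (nat_lit 1) (nat_lit 185) (nat_lit 1) (nat_lit 186) (nat_lit 1) (nat_lit 443) (nat_lit 323) (nat_lit 254))) (XT.nd (nat_lit 78) (nat_lit 152) (nat_lit 0) (XT.lf (nat_lit 0) (nat_lit 51408369)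 (nat_lit 0) (nat_lit 352174011) (nat_lit 152) (nat_lit 51408369) (nat_lit 185) (nat_lit 3) (nat_lit 185) (nat_lit 1) (nat_lit 187) (nat_lit 1) (nat_lit 444) (nat_lit 323) (nat_lit 253)) (XT.lf (nat_lit 76) (nat_lit 203452593) (nat_lit 0) (nat_lit 40483353) (nat_lit 152) (nat_lit 203452593) (nat_lit 184) (nat_lit 1) (nat_lit 183) (nat_lit 1) (nat_lit 185) (nat_lit 1) (nat_lit 445) (nat_lit 323) (nat_lit 252)))))) (XT.nd (nat_lit 47580) (nat_lit 0) (nat_lit 8588) (XT.nd (nat_lit 47346) (nat_lit 0) (nat_lit 8512) (XT.nd (nat_lit 78) (nat_lit 152) (nat_lit 0) (XT.lf (nat_lit 152) (nat_lit 263960938) (nat_lit 0) (nat_lit 88001065) (nat_lit 76) (nat_lit 88001065) (nat_lit 184) (nat_lit 1) (nat_lit 182) (nat_lit 1) (nat_lit 183) (nat_lit 1) (nat_lit 446) (nat_lit 323) (nat_lit 251)) (XT.nd (nat_lit 78) (nat_lit 152) (nat_lit 0) (XT.lf (nat_lit 0) (nat_lit 61748165) (nat_lit 0) (nat_lit 309188803) (nat_lit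 152) (nat_lit 61748165) (nat_lit 182) (nat_lit 3) (nat_lit 182) (nat_lit 1) (nat_lit 184) (nat_lit 1) (nat_lit 447) (nat_lit 323) (nat_lit 250)) (XT.lf (nat_lit 76) (nat_lit 205363298) (nat_lit 0) (nat_lit 14777781) (nat_lit 152) (nat_lit 205363298) (nat_lit 181) (nat_lit 1) (nat_lit 180) (nat_lit 1) (nat_lit 182) (nat_lit 1) (nat_lit 448) (nat_lit 323) (nat_lit 249)))) (XT.nd (nat_lit 78) (nat_lit 0) (nat_lit 0) (XT.lf (nat_lit 836) (nat_lit 246161933) (nat_lit 0) (nat_lit 437059946) (nat_lit 836) (nat_lit 246161933) (nat_lit 303) (nat_lit 1) (nat_lit 292) (nat_lit 0) (nat_lit 303) (nat_lit 0) (nat_lit 372) (nat_lit 324) (nat_lit 324)) (XT.nd (nat_lit 78) (nat_lit 0) (nat_lit 76) (XT.lf (nat_lit 836) (nat_lit 954154385) (nat_lit 76) (nat_lit 430010592) (nat_lit 0) (nat_lit 430010592) (nat_lit 303) (nat_lit 1) (nat_lit 293) (nat_lit 1) (nat_lit 292) (nat_lit 0) (nat_lit 373) (nat_lit 324) (nat_lit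 323)) (XT.lf (nat_lit 836) (nat_lit 454735613) (nat_lit 0) (nat_lit 861490868) (nat_lit 760) (nat_lit 454735613) (nat_lit 304) (nat_lit 1) (nat_lit 293) (nat_lit 1) (nat_lit 303) (nat_lit 1) (nat_lit 374) (nat_lit 324) (nat_lit 322))))) (XT.nd (nat_lit 234) (nat_lit 0) (nat_lit 152) (XT.nd (nat_lit 78) (nat_lit 0) (nat_lit 76) (XT.lf (nat_lit 836) (nat_lit 853020823) (nat_lit 76) (nat_lit 438061956) (nat_lit 0) (nat_lit 438061956) (nat_lit 304) (nat_lit 1) (nat_lit 294) (nat_lit 1) (nat_lit 293) (nat_lit 1) (nat_lit 375) (nat_lit 324) (nat_lit 321)) (XT.nd (nat_lit 78) (nat_lit 0) (nat_lit 0) (XT.lf (nat_lit 836) (nat_lit 392637293) (nat_lit 0) (nat_lit 903378191) (nat_lit 760) (nat_lit 392637293) (nat_lit 305) (nat_lit 1) (nat_lit 294) (nat_lit 1) (nat_lit 304) (nat_lit 1) (nat_lit 376) (nat_lit 324) (nat_lit 320)) (XT.lf (nat_lit 836) (nat_lit 706183745) (nat_lit 76) (nat_lit 471605712) (nat_lit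 0) (nat_lit 471605712) (nat_lit 305) (nat_lit 1) (nat_lit 295) (nat_lit 1) (nat_lit 294) (nat_lit 1) (nat_lit 377) (nat_lit 324) (nat_lit 319)))) (XT.nd (nat_lit 156) (nat_lit 0) (nat_lit 76) (XT.nd (nat_lit 78) (nat_lit 0) (nat_lit 0) (XT.lf (nat_lit 836) (nat_lit 309641175) (nat_lit 0) (nat_lit 992173344) (nat_lit 760) (nat_lit 309641175) (nat_lit 306) (nat_lit 1) (nat_lit 295) (nat_lit 1) (nat_lit 305) (nat_lit 1) (nat_lit 378) (nat_lit 324) (nat_lit 318)) (XT.lf (nat_lit 836) (nat_lit 520516323) (nat_lit 76) (nat_lit 527022251) (nat_lit 0) (nat_lit 527022251) (nat_lit 306) (nat_lit 1) (nat_lit 296) (nat_lit 1) (nat_lit 295) (nat_lit 1) (nat_lit 379) (nat_lit 324) (nat_lit 317))) (XT.nd (nat_lit 78) (nat_lit 0) (nat_lit 0) (XT.lf (nat_lit 836) (nat_lit 208960192) (nat_lit 0) (nat_lit 1121096133) (nat_lit 760) (nat_lit 208960192) (nat_lit 307) (nat_lit 1) (nat_lit 296) (nat_lit 1) (nat_lit 306)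 (nat_lit 1) (nat_lit 380) (nat_lit 324) (nat_lit 316)) (XT.lf (nat_lit 836) (nat_lit 302127772) (nat_lit 76) (nat_lit 601087984) (nat_lit 0) (nat_lit 601087984) (nat_lit 307) (nat_lit 1) (nat_lit 297) (nat_lit 1) (nat_lit 296) (nat_lit 1) (nat_lit 381) (nat_lit 324) (nat_lit 315))))))))
noncomputable def ec26 : XT := (XT.nd (nat_lit 1950) (nat_lit 2736) (nat_lit 0) (XT.nd (nat_lit 936) (nat_lit 1900) (nat_lit 0) (XT.nd (nat_lit 468) (nat_lit 1368) (nat_lit 0) (XT.nd (nat_lit 234) (nat_lit 380) (nat_lit 0) (XT.nd (nat_lit 78) (nat_lit 1292) (nat_lit 0) (XT.lf (nat_lit 76) (nat_lit 93448089) (nat_lit 0) (nat_lit 1284111919) (nat_lit 760) (nat_lit 93448089) (nat_lit 298) (nat_lit 1) (nat_lit 297) (nat_lit 1) (nat_lit 307) (nat_lit 1) (nat_lit 382) (nat_lit 324) (nat_lit 314)) (XT.nd (nat_lit 78) (nat_lit 532) (nat_lit 0) (XT.lf (nat_lit 836) (nat_lit 56440322) (nat_lit 0) (nat_lit 690935690) (nat_lit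 760) (nat_lit 690935690) (nat_lit 298) (nat_lit 1) (nat_lit 287) (nat_lit 1) (nat_lit 297) (nat_lit 1) (nat_lit 383) (nat_lit 324) (nat_lit 313)) (XT.lf (nat_lit 532) (nat_lit 1339399928) (nat_lit 0) (nat_lit 33810038) (nat_lit 456) (nat_lit 33810038) (nat_lit 287) (nat_lit 1) (nat_lit 280) (nat_lit 1) (nat_lit 286) (nat_lit 1) (nat_lit 384) (nat_lit 324) (nat_lit 312)))) (XT.nd (nat_lit 78) (nat_lit 380) (nat_lit 0) (XT.lf (nat_lit 76) (nat_lit 585583317) (nat_lit 0) (nat_lit 204964202) (nat_lit 532) (nat_lit 585583317) (nat_lit 281) (nat_lit 1) (nat_lit 280) (nat_lit 1) (nat_lit 287) (nat_lit 1) (nat_lit 385) (nat_lit 324) (nat_lit 311)) (XT.nd (nat_lit 78) (nat_lit 0) (nat_lit 0) (XT.lf (nat_lit 456) (nat_lit 1007638577) (nat_lit 0) (nat_lit 169458291) (nat_lit 380) (nat_lit 169458291) (nat_lit 281) (nat_lit 1) (nat_lit 275) (nat_lit 1) (nat_lit 280) (nat_lit 1) (nat_lit 386) (nat_lit 324) (nat_lit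 310)) (XT.lf (nat_lit 76) (nat_lit 417689451) (nat_lit 0) (nat_lit 482222341) (nat_lit 456) (nat_lit 417689451) (nat_lit 276) (nat_lit 1) (nat_lit 275) (nat_lit 1) (nat_lit 281) (nat_lit 1) (nat_lit 387) (nat_lit 324) (nat_lit 309))))) (XT.nd (nat_lit 234) (nat_lit 684) (nat_lit 0) (XT.nd (nat_lit 78) (nat_lit 304) (nat_lit 0) (XT.lf (nat_lit 456) (nat_lit 663544292) (nat_lit 0) (nat_lit 313055712) (nat_lit 380) (nat_lit 313055712) (nat_lit 276) (nat_lit 1) (nat_lit 270) (nat_lit 1) (nat_lit 275) (nat_lit 1) (nat_lit 388) (nat_lit 324) (nat_lit 308)) (XT.nd (nat_lit 78) (nat_lit 304) (nat_lit 0) (XT.lf (nat_lit 76) (nat_lit 244507253) (nat_lit 0) (nat_lit 773508433) (nat_lit 456) (nat_lit 244507253) (nat_lit 271) (nat_lit 1) (nat_lit 270) (nat_lit 1) (nat_lit 276) (nat_lit 1) (nat_lit 389) (nat_lit 324) (nat_lit 307)) (XT.lf (nat_lit 380) (nat_lit 310319720) (nat_lit 0) (nat_lit 462884193) (nat_lit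 304) (nat_lit 462884193) (nat_lit 271) (nat_lit 1) (nat_lit 266) (nat_lit 1) (nat_lit 270) (nat_lit 1) (nat_lit 390) (nat_lit 324) (nat_lit 306)))) (XT.nd (nat_lit 78) (nat_lit 684) (nat_lit 0) (XT.lf (nat_lit 76) (nat_lit 67523500) (nat_lit 0) (nat_lit 1075622826) (nat_lit 380) (nat_lit 67523500) (nat_lit 267) (nat_lit 1) (nat_lit 266) (nat_lit 1) (nat_lit 271) (nat_lit 1) (nat_lit 391) (nat_lit 324) (nat_lit 305)) (XT.nd (nat_lit 78) (nat_lit 304) (nat_lit 0) (XT.lf (nat_lit 76) (nat_lit 568972418) (nat_lit 0) (nat_lit 47652545) (nat_lit 380) (nat_lit 568972418) (nat_lit 262) (nat_lit 1) (nat_lit 261) (nat_lit 1) (nat_lit 266) (nat_lit 1) (nat_lit 392) (nat_lit 324) (nat_lit 304)) (XT.lf (nat_lit 380) (nat_lit 941170107) (nat_lit 0) (nat_lit 110154824) (nat_lit 304) (nat_lit 110154824) (nat_lit 262) (nat_lit 1) (nat_lit 257) (nat_lit 1) (nat_lit 261) (nat_lit 1) (nat_lit 393) (nat_lit 324) (nat_lit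 303)))))) (XT.nd (nat_lit 468) (nat_lit 988) (nat_lit 0) (XT.nd (nat_lit 234) (nat_lit 608) (nat_lit 0) (XT.nd (nat_lit 78) (nat_lit 304) (nat_lit 0) (XT.lf (nat_lit 76) (nat_lit 369168292) (nat_lit 0) (nat_lit 399439287) (nat_lit 380) (nat_lit 369168292) (nat_lit 258) (nat_lit 1) (nat_lit 257) (nat_lit 1) (nat_lit 262) (nat_lit 1) (nat_lit 394) (nat_lit 324) (nat_lit 302)) (XT.nd (nat_lit 78) (nat_lit 0) (nat_lit 0) (XT.lf (nat_lit 380) (nat_lit 538719233) (nat_lit 0) (nat_lit 288087362) (nat_lit 304) (nat_lit 288087362) (nat_lit 258) (nat_lit 1) (nat_lit 253) (nat_lit 1) (nat_lit 257) (nat_lit 1) (nat_lit 395) (nat_lit 324) (nat_lit 301)) (XT.lf (nat_lit 76) (nat_lit 169888003) (nat_lit 0) (nat_lit 752905104) (nat_lit 380) (nat_lit 169888003) (nat_lit 254) (nat_lit 1) (nat_lit 253) (nat_lit 1) (nat_lit 258) (nat_lit 1) (nat_lit 396) (nat_lit 324) (nat_lit 300)))) (XT.nd (nat_lit 78) (nat_lit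 380) (nat_lit 0) (XT.lf (nat_lit 304) (nat_lit 138162637) (nat_lit 0) (nat_lit 466392557) (nat_lit 228) (nat_lit 466392557) (nat_lit 254) (nat_lit 1) (nat_lit 250) (nat_lit 1) (nat_lit 253) (nat_lit 1) (nat_lit 397) (nat_lit 324) (nat_lit 299)) (XT.nd (nat_lit 78) (nat_lit 0) (nat_lit 0) (XT.lf (nat_lit 380) (nat_lit 994843130) (nat_lit 0) (nat_lit 27604987) (nat_lit 304) (nat_lit 27604987) (nat_lit 250) (nat_lit 1) (nat_lit 245) (nat_lit 1) (nat_lit 249) (nat_lit 1) (nat_lit 398) (nat_lit 324) (nat_lit 298)) (XT.lf (nat_lit 76) (nat_lit 389289471) (nat_lit 0) (nat_lit 250695166) (nat_lit 380) (nat_lit 389289471) (nat_lit 246) (nat_lit 1) (nat_lit 245) (nat_lit 1) (nat_lit 250) (nat_lit 1) (nat_lit 399) (nat_lit 324) (nat_lit 297))))) (XT.nd (nat_lit 234) (nat_lit 532) (nat_lit 0) (XT.nd (nat_lit 78) (nat_lit 228) (nat_lit 0) (XT.lf (nat_lit 304) (nat_lit 568569580) (nat_lit 0) (nat_lit 220361231)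 (nat_lit 228) (nat_lit 220361231) (nat_lit 246) (nat_lit 1) (nat_lit 242) (nat_lit 1) (nat_lit 245) (nat_lit 1) (nat_lit 400) (nat_lit 324) (nat_lit 296)) (XT.nd (nat_lit 78) (nat_lit 228) (nat_lit 0) (XT.lf (nat_lit 76) (nat_lit 179619925) (nat_lit 0) (nat_lit 630577803) (nat_lit 304) (nat_lit 179619925) (nat_lit 243) (nat_lit 1) (nat_lit 242) (nat_lit 1) (nat_lit 246) (nat_lit 1) (nat_lit 401) (nat_lit 324) (nat_lit 295)) (XT.lf (nat_lit 304) (nat_lit 149707593) (nat_lit 0) (nat_lit 410539354) (nat_lit 228) (nat_lit 410539354) (nat_lit 243) (nat_lit 1) (nat_lit 239) (nat_lit 1) (nat_lit 242) (nat_lit 1) (nat_lit 402) (nat_lit 324) (nat_lit 294)))) (XT.nd (nat_lit 156) (nat_lit 228) (nat_lit 0) (XT.nd (nat_lit 78) (nat_lit 0) (nat_lit 0) (XT.lf (nat_lit 304) (nat_lit 901004398) (nat_lit 0) (nat_lit 25728796) (nat_lit 228) (nat_lit 25728796) (nat_lit 239) (nat_lit 1) (nat_lit 235) (nat_lit 1) (nat_lit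 238) (nat_lit 1) (nat_lit 403) (nat_lit 324) (nat_lit 293)) (XT.lf (nat_lit 76) (nat_lit 340824160) (nat_lit 0) (nat_lit 252547280) (nat_lit 304) (nat_lit 340824160) (nat_lit 236) (nat_lit 1) (nat_lit 235) (nat_lit 1) (nat_lit 239) (nat_lit 1) (nat_lit 404) (nat_lit 324) (nat_lit 292))) (XT.nd (nat_lit 78) (nat_lit 0) (nat_lit 0) (XT.lf (nat_lit 304) (nat_lit 468664428) (nat_lit 0) (nat_lit 223970321) (nat_lit 228) (nat_lit 223970321) (nat_lit 236) (nat_lit 1) (nat_lit 232) (nat_lit 1) (nat_lit 235) (nat_lit 1) (nat_lit 405) (nat_lit 324) (nat_lit 291)) (XT.lf (nat_lit 76) (nat_lit 129069801) (nat_lit 0) (nat_lit 641346726) (nat_lit 304) (nat_lit 129069801) (nat_lit 233) (nat_lit 1) (nat_lit 232) (nat_lit 1) (nat_lit 236) (nat_lit 1) (nat_lit 406) (nat_lit 324) (nat_lit 290))))))) (XT.nd (nat_lit 936) (nat_lit 1216) (nat_lit 0) (XT.nd (nat_lit 468) (nat_lit 684) (nat_lit 0) (XT.nd (nat_lit 234)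 (nat_lit 380) (nat_lit 0) (XT.nd (nat_lit 78) (nat_lit 304) (nat_lit 0) (XT.lf (nat_lit 228) (nat_lit 47295466) (nat_lit 0) (nat_lit 417697355) (nat_lit 152) (nat_lit 417697355) (nat_lit 233) (nat_lit 1) (nat_lit 230) (nat_lit 1) (nat_lit 232) (nat_lit 1) (nat_lit 407) (nat_lit 324) (nat_lit 289)) (XT.nd (nat_lit 78) (nat_lit 0) (nat_lit 0) (XT.lf (nat_lit 304) (nat_lit 714618643) (nat_lit 0) (nat_lit 75897679) (nat_lit 228) (nat_lit 75897679) (nat_lit 230) (nat_lit 1) (nat_lit 226) (nat_lit 1) (nat_lit 229) (nat_lit 1) (nat_lit 408) (nat_lit 324) (nat_lit 288)) (XT.lf (nat_lit 76) (nat_lit 249599329) (nat_lit 0) (nat_lit 351121202) (nat_lit 304) (nat_lit 249599329) (nat_lit 227) (nat_lit 1) (nat_lit 226) (nat_lit 1) (nat_lit 230) (nat_lit 1) (nat_lit 409) (nat_lit 324) (nat_lit 287)))) (XT.nd (nat_lit 78) (nat_lit 228) (nat_lit 0) (XT.lf (nat_lit 228) (nat_lit 288373522) (nat_lit 0) (nat_lit 273174453)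 (nat_lit 152) (nat_lit 273174453) (nat_lit 227) (nat_lit 1) (nat_lit 224) (nat_lit 1) (nat_lit 226) (nat_lit 1) (nat_lit 410) (nat_lit 324) (nat_lit 286)) (XT.nd (nat_lit 78) (nat_lit 228) (nat_lit 0) (XT.lf (nat_lit 76) (nat_lit 41430122) (nat_lit 0) (nat_lit 736782371) (nat_lit 228) (nat_lit 41430122) (nat_lit 225) (nat_lit 1) (nat_lit 224) (nat_lit 1) (nat_lit 227) (nat_lit 1) (nat_lit 411) (nat_lit 324) (nat_lit 285)) (XT.lf (nat_lit 76) (nat_lit 341930065) (nat_lit 0) (nat_lit 120757486) (nat_lit 228) (nat_lit 341930065) (nat_lit 222) (nat_lit 1) (nat_lit 221) (nat_lit 1) (nat_lit 224) (nat_lit 1) (nat_lit 412) (nat_lit 324) (nat_lit 284))))) (XT.nd (nat_lit 234) (nat_lit 380) (nat_lit 0) (XT.nd (nat_lit 78) (nat_lit 152) (nat_lit 0) (XT.lf (nat_lit 228) (nat_lit 474829824) (nat_lit 0) (nat_lit 157630636) (nat_lit 152) (nat_lit 157630636) (nat_lit 222) (nat_lit 1) (nat_lit 219) (nat_lit 1)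 (nat_lit 221) (nat_lit 1) (nat_lit 413) (nat_lit 324) (nat_lit 283)) (XT.nd (nat_lit 78) (nat_lit 152) (nat_lit 0) (XT.lf (nat_lit 76) (nat_lit 133984623) (nat_lit 0) (nat_lit 507916399) (nat_lit 228) (nat_lit 133984623) (nat_lit 220) (nat_lit 1) (nat_lit 219) (nat_lit 1) (nat_lit 222) (nat_lit 1) (nat_lit 414) (nat_lit 324) (nat_lit 282)) (XT.lf (nat_lit 228) (nat_lit 62766972) (nat_lit 0) (nat_lit 349599783) (nat_lit 152) (nat_lit 349599783) (nat_lit 220) (nat_lit 1) (nat_lit 217) (nat_lit 1) (nat_lit 219) (nat_lit 1) (nat_lit 415) (nat_lit 324) (nat_lit 281)))) (XT.nd (nat_lit 78) (nat_lit 152) (nat_lit 0) (XT.lf (nat_lit 228) (nat_lit 616914352) (nat_lit 0) (nat_lit 65768198) (nat_lit 152) (nat_lit 65768198) (nat_lit 217) (nat_lit 1) (nat_lit 214) (nat_lit 1) (nat_lit 216) (nat_lit 1) (nat_lit 416) (nat_lit 324) (nat_lit 280)) (XT.nd (nat_lit 78) (nat_lit 152) (nat_lit 0) (XT.lf (nat_lit 76)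 (nat_lit 205372299) (nat_lit 0) (nat_lit 324305716) (nat_lit 228) (nat_lit 205372299) (nat_lit 215) (nat_lit 1) (nat_lit 214) (nat_lit 1) (nat_lit 217) (nat_lit 1) (nat_lit 417) (nat_lit 324) (nat_lit 279)) (XT.lf (nat_lit 228) (nat_lit 209161716) (nat_lit 0) (nat_lit 256438599) (nat_lit 152) (nat_lit 256438599) (nat_lit 215) (nat_lit 1) (nat_lit 212) (nat_lit 1) (nat_lit 214) (nat_lit 1) (nat_lit 418) (nat_lit 324) (nat_lit 278)))))) (XT.nd (nat_lit 468) (nat_lit 608) (nat_lit 0) (XT.nd (nat_lit 234) (nat_lit 304) (nat_lit 0) (XT.nd (nat_lit 78) (nat_lit 304) (nat_lit 0) (XT.lf (nat_lit 76) (nat_lit 6874568) (nat_lit 0) (nat_lit 695734687) (nat_lit 228) (nat_lit 6874568) (nat_lit 213) (nat_lit 1) (nat_lit 212) (nat_lit 1) (nat_lit 215) (nat_lit 1) (nat_lit 419) (nat_lit 324) (nat_lit 277)) (XT.nd (nat_lit 78) (nat_lit 152) (nat_lit 0) (XT.lf (nat_lit 76) (nat_lit 259572507) (nat_lit 0) (nat_lit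 177703913) (nat_lit 152) (nat_lit 259572507) (nat_lit 211) (nat_lit 1) (nat_lit 210) (nat_lit 1) (nat_lit 212) (nat_lit 1) (nat_lit 420) (nat_lit 324) (nat_lit 276)) (XT.lf (nat_lit 228) (nat_lit 322099931) (nat_lit 0) (nat_lit 181279329) (nat_lit 152) (nat_lit 181279329) (nat_lit 211) (nat_lit 1) (nat_lit 208) (nat_lit 1) (nat_lit 210) (nat_lit 1) (nat_lit 421) (nat_lit 324) (nat_lit 275)))) (XT.nd (nat_lit 78) (nat_lit 304) (nat_lit 0) (XT.lf (nat_lit 76) (nat_lit 64578810) (nat_lit 0) (nat_lit 543639680) (nat_lit 228) (nat_lit 64578810) (nat_lit 209) (nat_lit 1) (nat_lit 208) (nat_lit 1) (nat_lit 211) (nat_lit 1) (nat_lit 422) (nat_lit 324) (nat_lit 274)) (XT.nd (nat_lit 78) (nat_lit 152) (nat_lit 0) (XT.lf (nat_lit 76) (nat_lit 299848285) (nat_lit 0) (nat_lit 61337256) (nat_lit 152) (nat_lit 299848285) (nat_lit 207) (nat_lit 1) (nat_lit 206) (nat_lit 1) (nat_lit 208) (nat_lit 1) (nat_lit 423)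 (nat_lit 324) (nat_lit 273)) (XT.lf (nat_lit 228) (nat_lit 407870571) (nat_lit 0) (nat_lit 120859580) (nat_lit 152) (nat_lit 120859580) (nat_lit 207) (nat_lit 1) (nat_lit 204) (nat_lit 1) (nat_lit 206) (nat_lit 1) (nat_lit 424) (nat_lit 324) (nat_lit 272))))) (XT.nd (nat_lit 234) (nat_lit 304) (nat_lit 0) (XT.nd (nat_lit 78) (nat_lit 304) (nat_lit 0) (XT.lf (nat_lit 76) (nat_lit 109246371) (nat_lit 0) (nat_lit 419879455) (nat_lit 228) (nat_lit 109246371) (nat_lit 205) (nat_lit 1) (nat_lit 204) (nat_lit 1) (nat_lit 207) (nat_lit 1) (nat_lit 425) (nat_lit 324) (nat_lit 271)) (XT.nd (nat_lit 78) (nat_lit 228) (nat_lit 0) (XT.lf (nat_lit 152) (nat_lit 31360654) (nat_lit 0) (nat_lit 298002843) (nat_lit 76) (nat_lit 298002843) (nat_lit 205) (nat_lit 1) (nat_lit 203) (nat_lit 1) (nat_lit 204) (nat_lit 1) (nat_lit 426) (nat_lit 324) (nat_lit 270)) (XT.lf (nat_lit 228) (nat_lit 471630568) (nat_lit 0) (nat_lit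 72498740) (nat_lit 152) (nat_lit 72498740) (nat_lit 203) (nat_lit 1) (nat_lit 200) (nat_lit 1) (nat_lit 202) (nat_lit 1) (nat_lit 427) (nat_lit 324) (nat_lit 269)))) (XT.nd (nat_lit 156) (nat_lit 228) (nat_lit 0) (XT.nd (nat_lit 78) (nat_lit 76) (nat_lit 0) (XT.lf (nat_lit 76) (nat_lit 143322235) (nat_lit 0) (nat_lit 319365147) (nat_lit 228) (nat_lit 143322235) (nat_lit 201) (nat_lit 1) (nat_lit 200) (nat_lit 1) (nat_lit 203) (nat_lit 1) (nat_lit 428) (nat_lit 324) (nat_lit 268)) (XT.lf (nat_lit 152) (nat_lit 105316183) (nat_lit 0) (nat_lit 245167676) (nat_lit 76) (nat_lit 245167676) (nat_lit 201) (nat_lit 1) (nat_lit 199) (nat_lit 1) (nat_lit 200) (nat_lit 1) (nat_lit 429) (nat_lit 324) (nat_lit 267))) (XT.nd (nat_lit 78) (nat_lit 0) (nat_lit 0) (XT.lf (nat_lit 228) (nat_lit 517606340) (nat_lit 0) (nat_lit 33994669) (nat_lit 152) (nat_lit 33994669) (nat_lit 199) (nat_lit 1) (nat_lit 196) (nat_lit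 1) (nat_lit 198) (nat_lit 1) (nat_lit 430) (nat_lit 324) (nat_lit 266)) (XT.lf (nat_lit 76) (nat_lit 168811534) (nat_lit 0) (nat_lit 237913240) (nat_lit 228) (nat_lit 168811534) (nat_lit 197) (nat_lit 1) (nat_lit 196) (nat_lit 1) (nat_lit 199) (nat_lit 1) (nat_lit 431) (nat_lit 324) (nat_lit 265))))))))
noncomputable def ec27 : XT := (XT.nd (nat_lit 48984) (nat_lit 0) (nat_lit 4028) (XT.nd (nat_lit 936) (nat_lit 304) (nat_lit 0) (XT.nd (nat_lit 468) (nat_lit 456) (nat_lit 0) (XT.nd (nat_lit 234) (nat_lit 228) (nat_lit 0) (XT.nd (nat_lit 78) (nat_lit 228) (nat_lit 0) (XT.lf (nat_lit 152) (nat_lit 162373118) (nat_lit 0) (nat_lit 201700054) (nat_lit 76) (nat_lit 201700054) (nat_lit 197) (nat_lit 1) (nat_lit 195) (nat_lit 1) (nat_lit 196) (nat_lit 1) (nat_lit 432) (nat_lit 324) (nat_lit 264)) (XT.nd (nat_lit 78) (nat_lit 0) (nat_lit 0) (XT.lf (nat_lit 228) (nat_lit 549259544) (nat_lit 0) (nat_lit 3538713)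 (nat_lit 152) (nat_lit 3538713) (nat_lit 195) (nat_lit 1) (nat_lit 192) (nat_lit 1) (nat_lit 194) (nat_lit 1) (nat_lit 433) (nat_lit 324) (nat_lit 263)) (XT.lf (nat_lit 76) (nat_lit 187357835) (nat_lit 0) (nat_lit 172084900) (nat_lit 228) (nat_lit 187357835) (nat_lit 193) (nat_lit 1) (nat_lit 192) (nat_lit 1) (nat_lit 195) (nat_lit 1) (nat_lit 434) (nat_lit 324) (nat_lit 262)))) (XT.nd (nat_lit 78) (nat_lit 152) (nat_lit 0) (XT.lf (nat_lit 152) (nat_lit 205707845) (nat_lit 0) (nat_lit 165939133) (nat_lit 76) (nat_lit 165939133) (nat_lit 193) (nat_lit 1) (nat_lit 191) (nat_lit 1) (nat_lit 192) (nat_lit 1) (nat_lit 435) (nat_lit 324) (nat_lit 261)) (XT.nd (nat_lit 78) (nat_lit 152) (nat_lit 0) (XT.lf (nat_lit 0) (nat_lit 20687876) (nat_lit 0) (nat_lit 487274102) (nat_lit 152) (nat_lit 20687876) (nat_lit 191) (nat_lit 3) (nat_lit 191) (nat_lit 1) (nat_lit 193) (nat_lit 1) (nat_lit 436) (nat_lit 324)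 (nat_lit 260)) (XT.lf (nat_lit 76) (nat_lit 200307533) (nat_lit 0) (nat_lit 119053805) (nat_lit 152) (nat_lit 200307533) (nat_lit 190) (nat_lit 1) (nat_lit 189) (nat_lit 1) (nat_lit 191) (nat_lit 1) (nat_lit 437) (nat_lit 324) (nat_lit 259))))) (XT.nd (nat_lit 234) (nat_lit 228) (nat_lit 0) (XT.nd (nat_lit 78) (nat_lit 152) (nat_lit 0) (XT.lf (nat_lit 152) (nat_lit 237925000) (nat_lit 0) (nat_lit 136518535) (nat_lit 76) (nat_lit 136518535) (nat_lit 190) (nat_lit 1) (nat_lit 188) (nat_lit 1) (nat_lit 189) (nat_lit 1) (nat_lit 438) (nat_lit 324) (nat_lit 258)) (XT.nd (nat_lit 78) (nat_lit 152) (nat_lit 0) (XT.lf (nat_lit 0) (nat_lit 39540835) (nat_lit 0) (nat_lit 423402478) (nat_lit 152) (nat_lit 39540835) (nat_lit 188) (nat_lit 3) (nat_lit 188) (nat_lit 1) (nat_lit 190) (nat_lit 1) (nat_lit 439) (nat_lit 324) (nat_lit 257)) (XT.lf (nat_lit 76) (nat_lit 208762817) (nat_lit 0) (nat_lit 76497414) (nat_lit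 152) (nat_lit 208762817) (nat_lit 187) (nat_lit 1) (nat_lit 186) (nat_lit 1) (nat_lit 188) (nat_lit 1) (nat_lit 440) (nat_lit 324) (nat_lit 256)))) (XT.nd (nat_lit 78) (nat_lit 152) (nat_lit 0) (XT.lf (nat_lit 152) (nat_lit 261159245) (nat_lit 0) (nat_lit 112314137) (nat_lit 76) (nat_lit 112314137) (nat_lit 187) (nat_lit 1) (nat_lit 185) (nat_lit 1) (nat_lit 186) (nat_lit 1) (nat_lit 441) (nat_lit 324) (nat_lit 255)) (XT.nd (nat_lit 78) (nat_lit 152) (nat_lit 0) (XT.lf (nat_lit 0) (nat_lit 53978788) (nat_lit 0) (nat_lit 369782712) (nat_lit 152) (nat_lit 53978788) (nat_lit 185) (nat_lit 3) (nat_lit 185) (nat_lit 1) (nat_lit 187) (nat_lit 1) (nat_lit 442) (nat_lit 324) (nat_lit 254)) (XT.lf (nat_lit 76) (nat_lit 213625223) (nat_lit 0) (nat_lit 42507521) (nat_lit 152) (nat_lit 213625223) (nat_lit 184) (nat_lit 1) (nat_lit 183) (nat_lit 1) (nat_lit 185) (nat_lit 1) (nat_lit 443) (nat_lit 324) (nat_lit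 253)))))) (XT.nd (nat_lit 47502) (nat_lit 0) (nat_lit 8664) (XT.nd (nat_lit 234) (nat_lit 76) (nat_lit 0) (XT.nd (nat_lit 78) (nat_lit 152) (nat_lit 0) (XT.lf (nat_lit 152) (nat_lit 277158985) (nat_lit 0) (nat_lit 92401118) (nat_lit 76) (nat_lit 92401118) (nat_lit 184) (nat_lit 1) (nat_lit 182) (nat_lit 1) (nat_lit 183) (nat_lit 1) (nat_lit 444) (nat_lit 324) (nat_lit 252)) (XT.nd (nat_lit 78) (nat_lit 152) (nat_lit 0) (XT.lf (nat_lit 0) (nat_lit 64835573) (nat_lit 0) (nat_lit 324648243) (nat_lit 152) (nat_lit 64835573) (nat_lit 182) (nat_lit 3) (nat_lit 182) (nat_lit 1) (nat_lit 184) (nat_lit 1) (nat_lit 445) (nat_lit 324) (nat_lit 251)) (XT.lf (nat_lit 76) (nat_lit 215631463) (nat_lit 0) (nat_lit 15516670) (nat_lit 152) (nat_lit 215631463) (nat_lit 181) (nat_lit 1) (nat_lit 180) (nat_lit 1) (nat_lit 182) (nat_lit 1) (nat_lit 446) (nat_lit 324) (nat_lit 250)))) (XT.nd (nat_lit 47112) (nat_lit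 0) (nat_lit 8588) (XT.lf (nat_lit 152) (nat_lit 287355219) (nat_lit 0) (nat_lit 76018629) (nat_lit 76) (nat_lit 76018629) (nat_lit 181) (nat_lit 1) (nat_lit 179) (nat_lit 1) (nat_lit 180) (nat_lit 1) (nat_lit 447) (nat_lit 324) (nat_lit 249)) (XT.nd (nat_lit 78) (nat_lit 0) (nat_lit 0) (XT.lf (nat_lit 836) (nat_lit 258470029) (nat_lit 0) (nat_lit 458912943) (nat_lit 836) (nat_lit 258470029) (nat_lit 303) (nat_lit 1) (nat_lit 292) (nat_lit 0) (nat_lit 303) (nat_lit 0) (nat_lit 370) (nat_lit 325) (nat_lit 325)) (XT.lf (nat_lit 836) (nat_lit 1001862104) (nat_lit 76) (nat_lit 451511122) (nat_lit 0) (nat_lit 451511122) (nat_lit 303) (nat_lit 1) (nat_lit 293) (nat_lit 1) (nat_lit 292) (nat_lit 0) (nat_lit 371) (nat_lit 325) (nat_lit 324))))) (XT.nd (nat_lit 234) (nat_lit 0) (nat_lit 76) (XT.nd (nat_lit 78) (nat_lit 0) (nat_lit 0) (XT.lf (nat_lit 836) (nat_lit 477472393) (nat_lit 0) (nat_lit 904565411)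 (nat_lit 760) (nat_lit 477472393) (nat_lit 304) (nat_lit 1) (nat_lit 293) (nat_lit 1) (nat_lit 303) (nat_lit 1) (nat_lit 372) (nat_lit 325) (nat_lit 323)) (XT.nd (nat_lit 78) (nat_lit 0) (nat_lit 76) (XT.lf (nat_lit 836) (nat_lit 895671864) (nat_lit 76) (nat_lit 459965054) (nat_lit 0) (nat_lit 459965054) (nat_lit 304) (nat_lit 1) (nat_lit 294) (nat_lit 1) (nat_lit 293) (nat_lit 1) (nat_lit 373) (nat_lit 325) (nat_lit 322)) (XT.lf (nat_lit 836) (nat_lit 412269157) (nat_lit 0) (nat_lit 948547101) (nat_lit 760) (nat_lit 412269157) (nat_lit 305) (nat_lit 1) (nat_lit 294) (nat_lit 1) (nat_lit 304) (nat_lit 1) (nat_lit 374) (nat_lit 325) (nat_lit 321)))) (XT.nd (nat_lit 156) (nat_lit 0) (nat_lit 76) (XT.nd (nat_lit 78) (nat_lit 0) (nat_lit 76) (XT.lf (nat_lit 836) (nat_lit 741492932) (nat_lit 76) (nat_lit 495185998) (nat_lit 0) (nat_lit 495185998) (nat_lit 305) (nat_lit 1) (nat_lit 295) (nat_lit 1) (nat_lit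 294) (nat_lit 1) (nat_lit 375) (nat_lit 325) (nat_lit 320)) (XT.lf (nat_lit 836) (nat_lit 325123234) (nat_lit 0) (nat_lit 1041782011) (nat_lit 760) (nat_lit 325123234) (nat_lit 306) (nat_lit 1) (nat_lit 295) (nat_lit 1) (nat_lit 305) (nat_lit 1) (nat_lit 376) (nat_lit 325) (nat_lit 319))) (XT.nd (nat_lit 78) (nat_lit 0) (nat_lit 76) (XT.lf (nat_lit 836) (nat_lit 546542140) (nat_lit 76) (nat_lit 553373363) (nat_lit 0) (nat_lit 553373363) (nat_lit 306) (nat_lit 1) (nat_lit 296) (nat_lit 1) (nat_lit 295) (nat_lit 1) (nat_lit 377) (nat_lit 325) (nat_lit 318)) (XT.lf (nat_lit 836) (nat_lit 219408202) (nat_lit 0) (nat_lit 1177150940) (nat_lit 760) (nat_lit 219408202) (nat_lit 307) (nat_lit 1) (nat_lit 296) (nat_lit 1) (nat_lit 306) (nat_lit 1) (nat_lit 378) (nat_lit 325) (nat_lit 317))))))) (XT.nd (nat_lit 1014) (nat_lit 1900) (nat_lit 0) (XT.nd (nat_lit 468) (nat_lit 1368) (nat_lit 0) (XT.nd (nat_lit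 234) (nat_lit 912) (nat_lit 0) (XT.nd (nat_lit 78) (nat_lit 684) (nat_lit 0) (XT.lf (nat_lit 836) (nat_lit 317234161) (nat_lit 76) (nat_lit 631142383) (nat_lit 0) (nat_lit 631142383) (nat_lit 307) (nat_lit 1) (nat_lit 297) (nat_lit 1) (nat_lit 296) (nat_lit 1) (nat_lit 379) (nat_lit 325) (nat_lit 316)) (XT.nd (nat_lit 78) (nat_lit 760) (nat_lit 0) (XT.lf (nat_lit 76) (nat_lit 98120494) (nat_lit 0) (nat_lit 1348317515) (nat_lit 760) (nat_lit 98120494) (nat_lit 298) (nat_lit 1) (nat_lit 297) (nat_lit 1) (nat_lit 307) (nat_lit 1) (nat_lit 380) (nat_lit 325) (nat_lit 315)) (XT.lf (nat_lit 836) (nat_lit 59262338) (nat_lit 0) (nat_lit 725482474) (nat_lit 760) (nat_lit 725482474) (nat_lit 298) (nat_lit 1) (nat_lit 287) (nat_lit 1) (nat_lit 297) (nat_lit 1) (nat_lit 381) (nat_lit 325) (nat_lit 314)))) (XT.nd (nat_lit 78) (nat_lit 380) (nat_lit 0) (XT.lf (nat_lit 532) (nat_lit 1406369925) (nat_lit 0) (nat_lit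 35500540) (nat_lit 456) (nat_lit 35500540) (nat_lit 287) (nat_lit 1) (nat_lit 280) (nat_lit 1) (nat_lit 286) (nat_lit 1) (nat_lit 382) (nat_lit 325) (nat_lit 313)) (XT.nd (nat_lit 78) (nat_lit 380) (nat_lit 0) (XT.lf (nat_lit 76) (nat_lit 614862483) (nat_lit 0) (nat_lit 215212412) (nat_lit 532) (nat_lit 614862483) (nat_lit 281) (nat_lit 1) (nat_lit 280) (nat_lit 1) (nat_lit 287) (nat_lit 1) (nat_lit 383) (nat_lit 325) (nat_lit 312)) (XT.lf (nat_lit 456) (nat_lit 1058020505) (nat_lit 0) (nat_lit 177931206) (nat_lit 380) (nat_lit 177931206) (nat_lit 281) (nat_lit 1) (nat_lit 275) (nat_lit 1) (nat_lit 280) (nat_lit 1) (nat_lit 384) (nat_lit 325) (nat_lit 311))))) (XT.nd (nat_lit 234) (nat_lit 988) (nat_lit 0) (XT.nd (nat_lit 78) (nat_lit 380) (nat_lit 0) (XT.lf (nat_lit 76) (nat_lit 438573924) (nat_lit 0) (nat_lit 506333458) (nat_lit 456) (nat_lit 438573924) (nat_lit 276) (nat_lit 1) (nat_lit 275)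 (nat_lit 1) (nat_lit 281) (nat_lit 1) (nat_lit 385) (nat_lit 325) (nat_lit 310)) (XT.nd (nat_lit 78) (nat_lit 0) (nat_lit 0) (XT.lf (nat_lit 456) (nat_lit 696721507) (nat_lit 0) (nat_lit 328708497) (nat_lit 380) (nat_lit 328708497) (nat_lit 276) (nat_lit 1) (nat_lit 270) (nat_lit 1) (nat_lit 275) (nat_lit 1) (nat_lit 386) (nat_lit 325) (nat_lit 309)) (XT.lf (nat_lit 76) (nat_lit 256732615) (nat_lit 0) (nat_lit 812183854) (nat_lit 456) (nat_lit 256732615) (nat_lit 271) (nat_lit 1) (nat_lit 270) (nat_lit 1) (nat_lit 276) (nat_lit 1) (nat_lit 387) (nat_lit 325) (nat_lit 308)))) (XT.nd (nat_lit 156) (nat_lit 684) (nat_lit 0) (XT.nd (nat_lit 78) (nat_lit 0) (nat_lit 0) (XT.lf (nat_lit 380) (nat_lit 325835706) (nat_lit 0) (nat_lit 486028402) (nat_lit 304) (nat_lit 486028402) (nat_lit 271) (nat_lit 1) (nat_lit 266) (nat_lit 1) (nat_lit 270) (nat_lit 1) (nat_lit 388) (nat_lit 325) (nat_lit 307)) (XT.lf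 (nat_lit 76) (nat_lit 70899675) (nat_lit 0) (nat_lit 1129403967) (nat_lit 380) (nat_lit 70899675) (nat_lit 267) (nat_lit 1) (nat_lit 266) (nat_lit 1) (nat_lit 271) (nat_lit 1) (nat_lit 389) (nat_lit 325) (nat_lit 306))) (XT.nd (nat_lit 78) (nat_lit 304) (nat_lit 0) (XT.lf (nat_lit 76) (nat_lit 597421039) (nat_lit 0) (nat_lit 50035172) (nat_lit 380) (nat_lit 597421039) (nat_lit 262) (nat_lit 1) (nat_lit 261) (nat_lit 1) (nat_lit 266) (nat_lit 1) (nat_lit 390) (nat_lit 325) (nat_lit 305)) (XT.lf (nat_lit 380) (nat_lit 988228612) (nat_lit 0) (nat_lit 115662565) (nat_lit 304) (nat_lit 115662565) (nat_lit 262) (nat_lit 1) (nat_lit 257) (nat_lit 1) (nat_lit 261) (nat_lit 1) (nat_lit 391) (nat_lit 325) (nat_lit 304)))))) (XT.nd (nat_lit 468) (nat_lit 988) (nat_lit 0) (XT.nd (nat_lit 234) (nat_lit 608) (nat_lit 0) (XT.nd (nat_lit 78) (nat_lit 304) (nat_lit 0) (XT.lf (nat_lit 76) (nat_lit 387626707) (nat_lit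 0) (nat_lit 419411252) (nat_lit 380) (nat_lit 387626707) (nat_lit 258) (nat_lit 1) (nat_lit 257) (nat_lit 1) (nat_lit 262) (nat_lit 1) (nat_lit 392) (nat_lit 325) (nat_lit 303)) (XT.nd (nat_lit 78) (nat_lit 0) (nat_lit 0) (XT.lf (nat_lit 380) (nat_lit 565655195) (nat_lit 0) (nat_lit 302491730) (nat_lit 304) (nat_lit 302491730) (nat_lit 258) (nat_lit 1) (nat_lit 253) (nat_lit 1) (nat_lit 257) (nat_lit 1) (nat_lit 393) (nat_lit 325) (nat_lit 302)) (XT.lf (nat_lit 76) (nat_lit 178382403) (nat_lit 0) (nat_lit 790550359) (nat_lit 380) (nat_lit 178382403) (nat_lit 254) (nat_lit 1) (nat_lit 253) (nat_lit 1) (nat_lit 258) (nat_lit 1) (nat_lit 394) (nat_lit 325) (nat_lit 301)))) (XT.nd (nat_lit 78) (nat_lit 380) (nat_lit 0) (XT.lf (nat_lit 304) (nat_lit 145070769) (nat_lit 0) (nat_lit 489712185) (nat_lit 228) (nat_lit 489712185) (nat_lit 254) (nat_lit 1) (nat_lit 250) (nat_lit 1) (nat_lit 253) (nat_lit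 1) (nat_lit 395) (nat_lit 325) (nat_lit 300)) (XT.nd (nat_lit 78) (nat_lit 0) (nat_lit 0) (XT.lf (nat_lit 380) (nat_lit 1044585286) (nat_lit 0) (nat_lit 28985237) (nat_lit 304) (nat_lit 28985237) (nat_lit 250) (nat_lit 1) (nat_lit 245) (nat_lit 1) (nat_lit 249) (nat_lit 1) (nat_lit 396) (nat_lit 325) (nat_lit 299)) (XT.lf (nat_lit 76) (nat_lit 408753945) (nat_lit 0) (nat_lit 263229924) (nat_lit 380) (nat_lit 408753945) (nat_lit 246) (nat_lit 1) (nat_lit 245) (nat_lit 1) (nat_lit 250) (nat_lit 1) (nat_lit 397) (nat_lit 325) (nat_lit 298))))) (XT.nd (nat_lit 234) (nat_lit 532) (nat_lit 0) (XT.nd (nat_lit 78) (nat_lit 228) (nat_lit 0) (XT.lf (nat_lit 304) (nat_lit 596998059) (nat_lit 0) (nat_lit 231379292) (nat_lit 228) (nat_lit 231379292) (nat_lit 246) (nat_lit 1) (nat_lit 242) (nat_lit 1) (nat_lit 245) (nat_lit 1) (nat_lit 398) (nat_lit 325) (nat_lit 297)) (XT.nd (nat_lit 78) (nat_lit 228) (nat_lit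 0) (XT.lf (nat_lit 76) (nat_lit 188600921) (nat_lit 0) (nat_lit 662106693) (nat_lit 304) (nat_lit 188600921) (nat_lit 243) (nat_lit 1) (nat_lit 242) (nat_lit 1) (nat_lit 246) (nat_lit 1) (nat_lit 399) (nat_lit 325) (nat_lit 296)) (XT.lf (nat_lit 304) (nat_lit 157192973) (nat_lit 0) (nat_lit 431066322) (nat_lit 228) (nat_lit 431066322) (nat_lit 243) (nat_lit 1) (nat_lit 239) (nat_lit 1) (nat_lit 242) (nat_lit 1) (nat_lit 400) (nat_lit 325) (nat_lit 295)))) (XT.nd (nat_lit 156) (nat_lit 228) (nat_lit 0) (XT.nd (nat_lit 78) (nat_lit 0) (nat_lit 0) (XT.lf (nat_lit 304) (nat_lit 946054617) (nat_lit 0) (nat_lit 27015236) (nat_lit 228) (nat_lit 27015236) (nat_lit 239) (nat_lit 1) (nat_lit 235) (nat_lit 1) (nat_lit 238) (nat_lit 1) (nat_lit 401) (nat_lit 325) (nat_lit 294)) (XT.lf (nat_lit 76) (nat_lit 357865368) (nat_lit 0) (nat_lit 265174644) (nat_lit 304) (nat_lit 357865368) (nat_lit 236) (nat_lit 1)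 (nat_lit 235) (nat_lit 1) (nat_lit 239) (nat_lit 1) (nat_lit 402) (nat_lit 325) (nat_lit 293))) (XT.nd (nat_lit 78) (nat_lit 0) (nat_lit 0) (XT.lf (nat_lit 304) (nat_lit 492097650) (nat_lit 0) (nat_lit 235168838) (nat_lit 228) (nat_lit 235168838) (nat_lit 236) (nat_lit 1) (nat_lit 232) (nat_lit 1) (nat_lit 235) (nat_lit 1) (nat_lit 403) (nat_lit 325) (nat_lit 292)) (XT.lf (nat_lit 76) (nat_lit 135523291) (nat_lit 0) (nat_lit 673414062) (nat_lit 304) (nat_lit 135523291) (nat_lit 233) (nat_lit 1) (nat_lit 232) (nat_lit 1) (nat_lit 236) (nat_lit 1) (nat_lit 404) (nat_lit 325) (nat_lit 291))))))))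
noncomputable def ec28 : XT := (XT.nd (nat_lit 1950) (nat_lit 1368) (nat_lit 0) (XT.nd (nat_lit 936) (nat_lit 1216) (nat_lit 0) (XT.nd (nat_lit 468) (nat_lit 684) (nat_lit 0) (XT.nd (nat_lit 234) (nat_lit 380) (nat_lit 0) (XT.nd (nat_lit 78) (nat_lit 304) (nat_lit 0) (XT.lf (nat_lit 228) (nat_lit 49660240) (nat_lit 0) (nat_lit 438582223) (nat_lit 152) (nat_lit 438582223) (nat_lit 233) (nat_lit 1) (nat_lit 230) (nat_lit 1) (nat_lit 232) (nat_lit 1) (nat_lit 405) (nat_lit 325) (nat_lit 290)) (XT.nd (nat_lit 78) (nat_lit 0) (nat_lit 0) (XT.lf (nat_lit 304) (nat_lit 750349575) (nat_lit 0) (nat_lit 79692563) (nat_lit 228) (nat_lit 79692563) (nat_lit 230) (nat_lit 1) (nat_lit 226) (nat_lit 1) (nat_lit 229) (nat_lit 1) (nat_lit 406) (nat_lit 325) (nat_lit 289)) (XT.lf (nat_lit 76) (nat_lit 262079295) (nat_lit 0) (nat_lit 368677263) (nat_lit 304) (nat_lit 262079295) (nat_lit 227) (nat_lit 1) (nat_lit 226)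 (nat_lit 1) (nat_lit 230) (nat_lit 1) (nat_lit 407) (nat_lit 325) (nat_lit 288)))) (XT.nd (nat_lit 78) (nat_lit 228) (nat_lit 0) (XT.lf (nat_lit 228) (nat_lit 302792198) (nat_lit 0) (nat_lit 286833175) (nat_lit 152) (nat_lit 286833175) (nat_lit 227) (nat_lit 1) (nat_lit 224) (nat_lit 1) (nat_lit 226) (nat_lit 1) (nat_lit 408) (nat_lit 325) (nat_lit 287)) (XT.nd (nat_lit 78) (nat_lit 228) (nat_lit 0) (XT.lf (nat_lit 76) (nat_lit 43501628) (nat_lit 0) (nat_lit 773621490) (nat_lit 228) (nat_lit 43501628) (nat_lit 225) (nat_lit 1) (nat_lit 224) (nat_lit 1) (nat_lit 227) (nat_lit 1) (nat_lit 409) (nat_lit 325) (nat_lit 286)) (XT.lf (nat_lit 76) (nat_lit 359026569) (nat_lit 0) (nat_lit 126795360) (nat_lit 228) (nat_lit 359026569) (nat_lit 222) (nat_lit 1) (nat_lit 221) (nat_lit 1) (nat_lit 224) (nat_lit 1) (nat_lit 410) (nat_lit 325) (nat_lit 285))))) (XT.nd (nat_lit 234) (nat_lit 380) (nat_lit 0) (XT.nd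 (nat_lit 78) (nat_lit 152) (nat_lit 0) (XT.lf (nat_lit 228) (nat_lit 498571316) (nat_lit 0) (nat_lit 165512168) (nat_lit 152) (nat_lit 165512168) (nat_lit 222) (nat_lit 1) (nat_lit 219) (nat_lit 1) (nat_lit 221) (nat_lit 1) (nat_lit 411) (nat_lit 325) (nat_lit 284)) (XT.nd (nat_lit 78) (nat_lit 152) (nat_lit 0) (XT.lf (nat_lit 76) (nat_lit 140683854) (nat_lit 0) (nat_lit 533312219) (nat_lit 228) (nat_lit 140683854) (nat_lit 220) (nat_lit 1) (nat_lit 219) (nat_lit 1) (nat_lit 222) (nat_lit 1) (nat_lit 412) (nat_lit 325) (nat_lit 283)) (XT.lf (nat_lit 228) (nat_lit 65905320) (nat_lit 0) (nat_lit 367079773) (nat_lit 152) (nat_lit 367079773) (nat_lit 220) (nat_lit 1) (nat_lit 217) (nat_lit 1) (nat_lit 219) (nat_lit 1) (nat_lit 413) (nat_lit 325) (nat_lit 282)))) (XT.nd (nat_lit 78) (nat_lit 152) (nat_lit 0) (XT.lf (nat_lit 228) (nat_lit 647760069) (nat_lit 0) (nat_lit 69056608) (nat_lit 152) (nat_lit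 69056608) (nat_lit 217) (nat_lit 1) (nat_lit 214) (nat_lit 1) (nat_lit 216) (nat_lit 1) (nat_lit 414) (nat_lit 325) (nat_lit 281)) (XT.nd (nat_lit 78) (nat_lit 152) (nat_lit 0) (XT.lf (nat_lit 76) (nat_lit 215640914) (nat_lit 0) (nat_lit 340521002) (nat_lit 228) (nat_lit 215640914) (nat_lit 215) (nat_lit 1) (nat_lit 214) (nat_lit 1) (nat_lit 217) (nat_lit 1) (nat_lit 415) (nat_lit 325) (nat_lit 280)) (XT.lf (nat_lit 228) (nat_lit 219619802) (nat_lit 0) (nat_lit 269260529) (nat_lit 152) (nat_lit 269260529) (nat_lit 215) (nat_lit 1) (nat_lit 212) (nat_lit 1) (nat_lit 214) (nat_lit 1) (nat_lit 416) (nat_lit 325) (nat_lit 279)))))) (XT.nd (nat_lit 468) (nat_lit 608) (nat_lit 0) (XT.nd (nat_lit 234) (nat_lit 304) (nat_lit 0) (XT.nd (nat_lit 78) (nat_lit 304) (nat_lit 0) (XT.lf (nat_lit 76) (nat_lit 7218297) (nat_lit 0) (nat_lit 730521421) (nat_lit 228) (nat_lit 7218297) (nat_lit 213) (nat_lit 1) (nat_lit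 212) (nat_lit 1) (nat_lit 215) (nat_lit 1) (nat_lit 417) (nat_lit 325) (nat_lit 278)) (XT.nd (nat_lit 78) (nat_lit 152) (nat_lit 0) (XT.lf (nat_lit 76) (nat_lit 272551132) (nat_lit 0) (nat_lit 186589109) (nat_lit 152) (nat_lit 272551132) (nat_lit 211) (nat_lit 1) (nat_lit 210) (nat_lit 1) (nat_lit 212) (nat_lit 1) (nat_lit 418) (nat_lit 325) (nat_lit 277)) (XT.lf (nat_lit 228) (nat_lit 338204927) (nat_lit 0) (nat_lit 190343296) (nat_lit 152) (nat_lit 190343296) (nat_lit 211) (nat_lit 1) (nat_lit 208) (nat_lit 1) (nat_lit 210) (nat_lit 1) (nat_lit 419) (nat_lit 325) (nat_lit 276)))) (XT.nd (nat_lit 78) (nat_lit 304) (nat_lit 0) (XT.lf (nat_lit 76) (nat_lit 67807750) (nat_lit 0) (nat_lit 570821664) (nat_lit 228) (nat_lit 67807750) (nat_lit 209) (nat_lit 1) (nat_lit 208) (nat_lit 1) (nat_lit 211) (nat_lit 1) (nat_lit 420) (nat_lit 325) (nat_lit 275)) (XT.nd (nat_lit 78) (nat_lit 152) (nat_lit 0) (XT.lf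 (nat_lit 76) (nat_lit 314840699) (nat_lit 0) (nat_lit 64404119) (nat_lit 152) (nat_lit 314840699) (nat_lit 207) (nat_lit 1) (nat_lit 206) (nat_lit 1) (nat_lit 208) (nat_lit 1) (nat_lit 421) (nat_lit 325) (nat_lit 274)) (XT.lf (nat_lit 228) (nat_lit 428264100) (nat_lit 0) (nat_lit 126902560) (nat_lit 152) (nat_lit 126902560) (nat_lit 207) (nat_lit 1) (nat_lit 204) (nat_lit 1) (nat_lit 206) (nat_lit 1) (nat_lit 422) (nat_lit 325) (nat_lit 273))))) (XT.nd (nat_lit 234) (nat_lit 304) (nat_lit 0) (XT.nd (nat_lit 78) (nat_lit 304) (nat_lit 0) (XT.lf (nat_lit 76) (nat_lit 114708689) (nat_lit 0) (nat_lit 440873427) (nat_lit 228) (nat_lit 114708689) (nat_lit 205) (nat_lit 1) (nat_lit 204) (nat_lit 1) (nat_lit 207) (nat_lit 1) (nat_lit 423) (nat_lit 325) (nat_lit 272)) (XT.nd (nat_lit 78) (nat_lit 228) (nat_lit 0) (XT.lf (nat_lit 152) (nat_lit 32928687) (nat_lit 0) (nat_lit 312902985) (nat_lit 76) (nat_lit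 312902985) (nat_lit 205) (nat_lit 1) (nat_lit 203) (nat_lit 1) (nat_lit 204) (nat_lit 1) (nat_lit 424) (nat_lit 325) (nat_lit 271)) (XT.lf (nat_lit 228) (nat_lit 495212096) (nat_lit 0) (nat_lit 76123677) (nat_lit 152) (nat_lit 76123677) (nat_lit 203) (nat_lit 1) (nat_lit 200) (nat_lit 1) (nat_lit 202) (nat_lit 1) (nat_lit 425) (nat_lit 325) (nat_lit 270)))) (XT.nd (nat_lit 156) (nat_lit 228) (nat_lit 0) (XT.nd (nat_lit 78) (nat_lit 76) (nat_lit 0) (XT.lf (nat_lit 76) (nat_lit 150488346) (nat_lit 0) (nat_lit 335333404) (nat_lit 228) (nat_lit 150488346) (nat_lit 201) (nat_lit 1) (nat_lit 200) (nat_lit 1) (nat_lit 203) (nat_lit 1) (nat_lit 426) (nat_lit 325) (nat_lit 269)) (XT.lf (nat_lit 152) (nat_lit 110581992) (nat_lit 0) (nat_lit 257426060) (nat_lit 76) (nat_lit 257426060) (nat_lit 201) (nat_lit 1) (nat_lit 199) (nat_lit 1) (nat_lit 200) (nat_lit 1) (nat_lit 427) (nat_lit 325) (nat_lit 268)))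 (XT.nd (nat_lit 78) (nat_lit 0) (nat_lit 0) (XT.lf (nat_lit 228) (nat_lit 543486657) (nat_lit 0) (nat_lit 35694402) (nat_lit 152) (nat_lit 35694402) (nat_lit 199) (nat_lit 1) (nat_lit 196) (nat_lit 1) (nat_lit 198) (nat_lit 1) (nat_lit 428) (nat_lit 325) (nat_lit 267)) (XT.lf (nat_lit 76) (nat_lit 177252110) (nat_lit 0) (nat_lit 249808902) (nat_lit 228) (nat_lit 177252110) (nat_lit 197) (nat_lit 1) (nat_lit 196) (nat_lit 1) (nat_lit 199) (nat_lit 1) (nat_lit 429) (nat_lit 325) (nat_lit 266))))))) (XT.nd (nat_lit 936) (nat_lit 380) (nat_lit 0) (XT.nd (nat_lit 468) (nat_lit 456) (nat_lit 0) (XT.nd (nat_lit 234) (nat_lit 228) (nat_lit 0) (XT.nd (nat_lit 78) (nat_lit 228) (nat_lit 0) (XT.lf (nat_lit 152) (nat_lit 170491773) (nat_lit 0) (nat_lit 211785056) (nat_lit 76) (nat_lit 211785056) (nat_lit 197) (nat_lit 1) (nat_lit 195) (nat_lit 1) (nat_lit 196) (nat_lit 1) (nat_lit 430) (nat_lit 325) (nat_lit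 265)) (XT.nd (nat_lit 78) (nat_lit 0) (nat_lit 0) (XT.lf (nat_lit 228) (nat_lit 576722521) (nat_lit 0) (nat_lit 3715649) (nat_lit 152) (nat_lit 3715649) (nat_lit 195) (nat_lit 1) (nat_lit 192) (nat_lit 1) (nat_lit 194) (nat_lit 1) (nat_lit 431) (nat_lit 325) (nat_lit 264)) (XT.lf (nat_lit 76) (nat_lit 196725726) (nat_lit 0) (nat_lit 180689145) (nat_lit 228) (nat_lit 196725726) (nat_lit 193) (nat_lit 1) (nat_lit 192) (nat_lit 1) (nat_lit 195) (nat_lit 1) (nat_lit 432) (nat_lit 325) (nat_lit 263)))) (XT.nd (nat_lit 78) (nat_lit 152) (nat_lit 0) (XT.lf (nat_lit 152) (nat_lit 215993237) (nat_lit 0) (nat_lit 174236090) (nat_lit 76) (nat_lit 174236090) (nat_lit 193) (nat_lit 1) (nat_lit 191) (nat_lit 1) (nat_lit 192) (nat_lit 1) (nat_lit 433) (nat_lit 325) (nat_lit 262)) (XT.nd (nat_lit 78) (nat_lit 152) (nat_lit 0) (XT.lf (nat_lit 0) (nat_lit 21722270) (nat_lit 0) (nat_lit 511637807) (nat_lit 152) (nat_lit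 21722270) (nat_lit 191) (nat_lit 3) (nat_lit 191) (nat_lit 1) (nat_lit 193) (nat_lit 1) (nat_lit 434) (nat_lit 325) (nat_lit 261)) (XT.lf (nat_lit 76) (nat_lit 210322910) (nat_lit 0) (nat_lit 125006495) (nat_lit 152) (nat_lit 210322910) (nat_lit 190) (nat_lit 1) (nat_lit 189) (nat_lit 1) (nat_lit 191) (nat_lit 1) (nat_lit 435) (nat_lit 325) (nat_lit 260))))) (XT.nd (nat_lit 234) (nat_lit 228) (nat_lit 0) (XT.nd (nat_lit 78) (nat_lit 152) (nat_lit 0) (XT.lf (nat_lit 152) (nat_lit 249821250) (nat_lit 0) (nat_lit 143344462) (nat_lit 76) (nat_lit 143344462) (nat_lit 190) (nat_lit 1) (nat_lit 188) (nat_lit 1) (nat_lit 189) (nat_lit 1) (nat_lit 436) (nat_lit 325) (nat_lit 259)) (XT.nd (nat_lit 78) (nat_lit 152) (nat_lit 0) (XT.lf (nat_lit 0) (nat_lit 41517876) (nat_lit 0) (nat_lit 444572602) (nat_lit 152) (nat_lit 41517876) (nat_lit 188) (nat_lit 3) (nat_lit 188) (nat_lit 1) (nat_lit 190) (nat_lit 1)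 (nat_lit 437) (nat_lit 325) (nat_lit 258)) (XT.lf (nat_lit 76) (nat_lit 219200958) (nat_lit 0) (nat_lit 80322285) (nat_lit 152) (nat_lit 219200958) (nat_lit 187) (nat_lit 1) (nat_lit 186) (nat_lit 1) (nat_lit 188) (nat_lit 1) (nat_lit 438) (nat_lit 325) (nat_lit 257)))) (XT.nd (nat_lit 78) (nat_lit 152) (nat_lit 0) (XT.lf (nat_lit 152) (nat_lit 274217208) (nat_lit 0) (nat_lit 117929844) (nat_lit 76) (nat_lit 117929844) (nat_lit 187) (nat_lit 1) (nat_lit 185) (nat_lit 1) (nat_lit 186) (nat_lit 1) (nat_lit 439) (nat_lit 325) (nat_lit 256)) (XT.nd (nat_lit 78) (nat_lit 152) (nat_lit 0) (XT.lf (nat_lit 0) (nat_lit 56677727) (nat_lit 0) (nat_lit 388271847) (nat_lit 152) (nat_lit 56677727) (nat_lit 185) (nat_lit 3) (nat_lit 185) (nat_lit 1) (nat_lit 187) (nat_lit 1) (nat_lit 440) (nat_lit 325) (nat_lit 255)) (XT.lf (nat_lit 76) (nat_lit 224306484) (nat_lit 0) (nat_lit 44632897) (nat_lit 152) (nat_lit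 224306484) (nat_lit 184) (nat_lit 1) (nat_lit 183) (nat_lit 1) (nat_lit 185) (nat_lit 1) (nat_lit 441) (nat_lit 325) (nat_lit 254)))))) (XT.nd (nat_lit 47346) (nat_lit 0) (nat_lit 8664) (XT.nd (nat_lit 234) (nat_lit 152) (nat_lit 0) (XT.nd (nat_lit 78) (nat_lit 152) (nat_lit 0) (XT.lf (nat_lit 152) (nat_lit 291016934) (nat_lit 0) (nat_lit 97021174) (nat_lit 76) (nat_lit 97021174) (nat_lit 184) (nat_lit 1) (nat_lit 182) (nat_lit 1) (nat_lit 183) (nat_lit 1) (nat_lit 442) (nat_lit 325) (nat_lit 253)) (XT.nd (nat_lit 78) (nat_lit 152) (nat_lit 0) (XT.lf (nat_lit 0) (nat_lit 68077352) (nat_lit 0) (nat_lit 340880655) (nat_lit 152) (nat_lit 68077352) (nat_lit 182) (nat_lit 3) (nat_lit 182) (nat_lit 1) (nat_lit 184) (nat_lit 1) (nat_lit 443) (nat_lit 325) (nat_lit 252)) (XT.lf (nat_lit 76) (nat_lit 226413036) (nat_lit 0) (nat_lit 16292504) (nat_lit 152) (nat_lit 226413036) (nat_lit 181) (nat_lit 1) (nat_lit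 180) (nat_lit 1) (nat_lit 182) (nat_lit 1) (nat_lit 444) (nat_lit 325) (nat_lit 251)))) (XT.nd (nat_lit 78) (nat_lit 76) (nat_lit 0) (XT.lf (nat_lit 152) (nat_lit 301722980) (nat_lit 0) (nat_lit 79819560) (nat_lit 76) (nat_lit 79819560) (nat_lit 181) (nat_lit 1) (nat_lit 179) (nat_lit 1) (nat_lit 180) (nat_lit 1) (nat_lit 445) (nat_lit 325) (nat_lit 250)) (XT.nd (nat_lit 78) (nat_lit 76) (nat_lit 0) (XT.lf (nat_lit 0) (nat_lit 76434497) (nat_lit 0) (nat_lit 300870450) (nat_lit 152) (nat_lit 76434497) (nat_lit 179) (nat_lit 3) (nat_lit 179) (nat_lit 1) (nat_lit 181) (nat_lit 1) (nat_lit 446) (nat_lit 325) (nat_lit 249)) (XT.lf (nat_lit 76) (nat_lit 6250545) (nat_lit 0) (nat_lit 219999071) (nat_lit 76) (nat_lit 219999071) (nat_lit 179) (nat_lit 3) (nat_lit 178) (nat_lit 1) (nat_lit 179) (nat_lit 1) (nat_lit 447) (nat_lit 325) (nat_lit 248))))) (XT.nd (nat_lit 234) (nat_lit 0) (nat_lit 76) (XT.nd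 (nat_lit 78) (nat_lit 0) (nat_lit 0) (XT.lf (nat_lit 836) (nat_lit 271393531) (nat_lit 0) (nat_lit 481858591) (nat_lit 836) (nat_lit 271393531) (nat_lit 303) (nat_lit 1) (nat_lit 292) (nat_lit 0) (nat_lit 303) (nat_lit 0) (nat_lit 368) (nat_lit 326) (nat_lit 326)) (XT.nd (nat_lit 78) (nat_lit 0) (nat_lit 76) (XT.lf (nat_lit 836) (nat_lit 1051955209) (nat_lit 76) (nat_lit 474086678) (nat_lit 0) (nat_lit 474086678) (nat_lit 303) (nat_lit 1) (nat_lit 293) (nat_lit 1) (nat_lit 292) (nat_lit 0) (nat_lit 369) (nat_lit 326) (nat_lit 325)) (XT.lf (nat_lit 836) (nat_lit 501346013) (nat_lit 0) (nat_lit 949793682) (nat_lit 760) (nat_lit 501346013) (nat_lit 304) (nat_lit 1) (nat_lit 293) (nat_lit 1) (nat_lit 303) (nat_lit 1) (nat_lit 370) (nat_lit 326) (nat_lit 324)))) (XT.nd (nat_lit 156) (nat_lit 0) (nat_lit 76) (XT.nd (nat_lit 78) (nat_lit 0) (nat_lit 76) (XT.lf (nat_lit 836) (nat_lit 940455457) (nat_lit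 76) (nat_lit 482963306) (nat_lit 0) (nat_lit 482963306) (nat_lit 304) (nat_lit 1) (nat_lit 294) (nat_lit 1) (nat_lit 293) (nat_lit 1) (nat_lit 371) (nat_lit 326) (nat_lit 323)) (XT.lf (nat_lit 836) (nat_lit 432882615) (nat_lit 0) (nat_lit 995974456) (nat_lit 760) (nat_lit 432882615) (nat_lit 305) (nat_lit 1) (nat_lit 294) (nat_lit 1) (nat_lit 304) (nat_lit 1) (nat_lit 372) (nat_lit 326) (nat_lit 322))) (XT.nd (nat_lit 78) (nat_lit 0) (nat_lit 76) (XT.lf (nat_lit 836) (nat_lit 778567579) (nat_lit 76) (nat_lit 519945297) (nat_lit 0) (nat_lit 519945297) (nat_lit 305) (nat_lit 1) (nat_lit 295) (nat_lit 1) (nat_lit 294) (nat_lit 1) (nat_lit 373) (nat_lit 326) (nat_lit 321)) (XT.lf (nat_lit 836) (nat_lit 341379396) (nat_lit 0) (nat_lit 1093871112) (nat_lit 760) (nat_lit 341379396) (nat_lit 306) (nat_lit 1) (nat_lit 295) (nat_lit 1) (nat_lit 305) (nat_lit 1) (nat_lit 374) (nat_lit 326) (nat_lit 320))))))))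
noncomputable def ec29 : XT := (XT.nd (nat_lit 1950) (nat_lit 2736) (nat_lit 0) (XT.nd (nat_lit 936) (nat_lit 2356) (nat_lit 0) (XT.nd (nat_lit 468) (nat_lit 1064) (nat_lit 0) (XT.nd (nat_lit 234) (nat_lit 1140) (nat_lit 0) (XT.nd (nat_lit 78) (nat_lit 0) (nat_lit 76) (XT.lf (nat_lit 836) (nat_lit 573869247) (nat_lit 76) (nat_lit 581042032) (nat_lit 0) (nat_lit 581042032) (nat_lit 306) (nat_lit 1) (nat_lit 296) (nat_lit 1) (nat_lit 295) (nat_lit 1) (nat_lit 375) (nat_lit 326) (nat_lit 319)) (XT.nd (nat_lit 78) (nat_lit 0) (nat_lit 0) (XT.lf (nat_lit 836) (nat_lit 230378612) (nat_lit 0) (nat_lit 1236008487) (nat_lit 760) (nat_lit 230378612) (nat_lit 307) (nat_lit 1) (nat_lit 296) (nat_lit 1) (nat_lit 306) (nat_lit 1) (nat_lit 376) (nat_lit 326) (nat_lit 318)) (XT.lf (nat_lit 836) (nat_lit 333095869) (nat_lit 76) (nat_lit 662699502) (nat_lit 0) (nat_lit 662699502) (nat_lit 307) (nat_lit 1) (nat_lit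 297) (nat_lit 1) (nat_lit 296) (nat_lit 1) (nat_lit 377) (nat_lit 326) (nat_lit 317)))) (XT.nd (nat_lit 78) (nat_lit 1292) (nat_lit 0) (XT.lf (nat_lit 76) (nat_lit 103026518) (nat_lit 0) (nat_lit 1415733391) (nat_lit 760) (nat_lit 103026518) (nat_lit 298) (nat_lit 1) (nat_lit 297) (nat_lit 1) (nat_lit 307) (nat_lit 1) (nat_lit 378) (nat_lit 326) (nat_lit 316)) (XT.nd (nat_lit 78) (nat_lit 532) (nat_lit 0) (XT.lf (nat_lit 836) (nat_lit 62225455) (nat_lit 0) (nat_lit 761756598) (nat_lit 760) (nat_lit 761756598) (nat_lit 298) (nat_lit 1) (nat_lit 287) (nat_lit 1) (nat_lit 297) (nat_lit 1) (nat_lit 379) (nat_lit 326) (nat_lit 315)) (XT.lf (nat_lit 532) (nat_lit 1476688421) (nat_lit 0) (nat_lit 37275567) (nat_lit 456) (nat_lit 37275567) (nat_lit 287) (nat_lit 1) (nat_lit 280) (nat_lit 1) (nat_lit 286) (nat_lit 1) (nat_lit 380) (nat_lit 326) (nat_lit 314))))) (XT.nd (nat_lit 234) (nat_lit 684) (nat_lit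 0) (XT.nd (nat_lit 78) (nat_lit 380) (nat_lit 0) (XT.lf (nat_lit 76) (nat_lit 645605607) (nat_lit 0) (nat_lit 225973032) (nat_lit 532) (nat_lit 645605607) (nat_lit 281) (nat_lit 1) (nat_lit 280) (nat_lit 1) (nat_lit 287) (nat_lit 1) (nat_lit 381) (nat_lit 326) (nat_lit 313)) (XT.nd (nat_lit 78) (nat_lit 0) (nat_lit 0) (XT.lf (nat_lit 456) (nat_lit 1110921531) (nat_lit 0) (nat_lit 186827766) (nat_lit 380) (nat_lit 186827766) (nat_lit 281) (nat_lit 1) (nat_lit 275) (nat_lit 1) (nat_lit 280) (nat_lit 1) (nat_lit 382) (nat_lit 326) (nat_lit 312)) (XT.lf (nat_lit 76) (nat_lit 460502620) (nat_lit 0) (nat_lit 531650131) (nat_lit 456) (nat_lit 460502620) (nat_lit 276) (nat_lit 1) (nat_lit 275) (nat_lit 1) (nat_lit 281) (nat_lit 1) (nat_lit 383) (nat_lit 326) (nat_lit 311)))) (XT.nd (nat_lit 78) (nat_lit 304) (nat_lit 0) (XT.lf (nat_lit 456) (nat_lit 731557582) (nat_lit 0) (nat_lit 345143922) (nat_lit 380)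 (nat_lit 345143922) (nat_lit 276) (nat_lit 1) (nat_lit 270) (nat_lit 1) (nat_lit 275) (nat_lit 1) (nat_lit 384) (nat_lit 326) (nat_lit 310)) (XT.nd (nat_lit 78) (nat_lit 304) (nat_lit 0) (XT.lf (nat_lit 76) (nat_lit 269569246) (nat_lit 0) (nat_lit 852793047) (nat_lit 456) (nat_lit 269569246) (nat_lit 271) (nat_lit 1) (nat_lit 270) (nat_lit 1) (nat_lit 276) (nat_lit 1) (nat_lit 385) (nat_lit 326) (nat_lit 309)) (XT.lf (nat_lit 380) (nat_lit 342127491) (nat_lit 0) (nat_lit 510329823) (nat_lit 304) (nat_lit 510329823) (nat_lit 271) (nat_lit 1) (nat_lit 266) (nat_lit 1) (nat_lit 270) (nat_lit 1) (nat_lit 386) (nat_lit 326) (nat_lit 308)))))) (XT.nd (nat_lit 468) (nat_lit 1368) (nat_lit 0) (XT.nd (nat_lit 234) (nat_lit 304) (nat_lit 0) (XT.nd (nat_lit 78) (nat_lit 684) (nat_lit 0) (XT.lf (nat_lit 76) (nat_lit 74444659) (nat_lit 0) (nat_lit 1185874166) (nat_lit 380) (nat_lit 74444659) (nat_lit 267) (nat_lit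 1) (nat_lit 266) (nat_lit 1) (nat_lit 271) (nat_lit 1) (nat_lit 387) (nat_lit 326) (nat_lit 307)) (XT.nd (nat_lit 78) (nat_lit 304) (nat_lit 0) (XT.lf (nat_lit 76) (nat_lit 627292090) (nat_lit 0) (nat_lit 52536931) (nat_lit 380) (nat_lit 627292090) (nat_lit 262) (nat_lit 1) (nat_lit 261) (nat_lit 1) (nat_lit 266) (nat_lit 1) (nat_lit 388) (nat_lit 326) (nat_lit 306)) (XT.lf (nat_lit 380) (nat_lit 1037640043) (nat_lit 0) (nat_lit 121445693) (nat_lit 304) (nat_lit 121445693) (nat_lit 262) (nat_lit 1) (nat_lit 257) (nat_lit 1) (nat_lit 261) (nat_lit 1) (nat_lit 389) (nat_lit 326) (nat_lit 305)))) (XT.nd (nat_lit 78) (nat_lit 304) (nat_lit 0) (XT.lf (nat_lit 76) (nat_lit 407008042) (nat_lit 0) (nat_lit 440381814) (nat_lit 380) (nat_lit 407008042) (nat_lit 258) (nat_lit 1) (nat_lit 257) (nat_lit 1) (nat_lit 262) (nat_lit 1) (nat_lit 390) (nat_lit 326) (nat_lit 304)) (XT.nd (nat_lit 78) (nat_lit 0) (nat_lit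 0) (XT.lf (nat_lit 380) (nat_lit 593937955) (nat_lit 0) (nat_lit 317616316) (nat_lit 304) (nat_lit 317616316) (nat_lit 258) (nat_lit 1) (nat_lit 253) (nat_lit 1) (nat_lit 257) (nat_lit 1) (nat_lit 391) (nat_lit 326) (nat_lit 303)) (XT.lf (nat_lit 76) (nat_lit 187301524) (nat_lit 0) (nat_lit 830077877) (nat_lit 380) (nat_lit 187301524) (nat_lit 254) (nat_lit 1) (nat_lit 253) (nat_lit 1) (nat_lit 258) (nat_lit 1) (nat_lit 392) (nat_lit 326) (nat_lit 302))))) (XT.nd (nat_lit 234) (nat_lit 760) (nat_lit 0) (XT.nd (nat_lit 78) (nat_lit 380) (nat_lit 0) (XT.lf (nat_lit 304) (nat_lit 152324307) (nat_lit 0) (nat_lit 514197794) (nat_lit 228) (nat_lit 514197794) (nat_lit 254) (nat_lit 1) (nat_lit 250) (nat_lit 1) (nat_lit 253) (nat_lit 1) (nat_lit 393) (nat_lit 326) (nat_lit 301)) (XT.nd (nat_lit 78) (nat_lit 0) (nat_lit 0) (XT.lf (nat_lit 380) (nat_lit 1096814551) (nat_lit 0) (nat_lit 30434499) (nat_lit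 304) (nat_lit 30434499) (nat_lit 250) (nat_lit 1) (nat_lit 245) (nat_lit 1) (nat_lit 249) (nat_lit 1) (nat_lit 394) (nat_lit 326) (nat_lit 300)) (XT.lf (nat_lit 76) (nat_lit 429191642) (nat_lit 0) (nat_lit 276391420) (nat_lit 380) (nat_lit 429191642) (nat_lit 246) (nat_lit 1) (nat_lit 245) (nat_lit 1) (nat_lit 250) (nat_lit 1) (nat_lit 395) (nat_lit 326) (nat_lit 299)))) (XT.nd (nat_lit 156) (nat_lit 532) (nat_lit 0) (XT.nd (nat_lit 78) (nat_lit 0) (nat_lit 0) (XT.lf (nat_lit 304) (nat_lit 626847962) (nat_lit 0) (nat_lit 242948257) (nat_lit 228) (nat_lit 242948257) (nat_lit 246) (nat_lit 1) (nat_lit 242) (nat_lit 1) (nat_lit 245) (nat_lit 1) (nat_lit 396) (nat_lit 326) (nat_lit 298)) (XT.lf (nat_lit 76) (nat_lit 198030967) (nat_lit 0) (nat_lit 695212028) (nat_lit 304) (nat_lit 198030967) (nat_lit 243) (nat_lit 1) (nat_lit 242) (nat_lit 1) (nat_lit 246) (nat_lit 1) (nat_lit 397) (nat_lit 326) (nat_lit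 297))) (XT.nd (nat_lit 78) (nat_lit 304) (nat_lit 0) (XT.lf (nat_lit 304) (nat_lit 165052621) (nat_lit 0) (nat_lit 452619638) (nat_lit 228) (nat_lit 452619638) (nat_lit 243) (nat_lit 1) (nat_lit 239) (nat_lit 1) (nat_lit 242) (nat_lit 1) (nat_lit 398) (nat_lit 326) (nat_lit 296)) (XT.lf (nat_lit 304) (nat_lit 993357348) (nat_lit 0) (nat_lit 28365998) (nat_lit 228) (nat_lit 28365998) (nat_lit 239) (nat_lit 1) (nat_lit 235) (nat_lit 1) (nat_lit 238) (nat_lit 1) (nat_lit 399) (nat_lit 326) (nat_lit 295))))))) (XT.nd (nat_lit 1014) (nat_lit 1140) (nat_lit 0) (XT.nd (nat_lit 468) (nat_lit 912) (nat_lit 0) (XT.nd (nat_lit 234) (nat_lit 456) (nat_lit 0) (XT.nd (nat_lit 78) (nat_lit 228) (nat_lit 0) (XT.lf (nat_lit 76) (nat_lit 375758637) (nat_lit 0) (nat_lit 278433377) (nat_lit 304) (nat_lit 375758637) (nat_lit 236) (nat_lit 1) (nat_lit 235) (nat_lit 1) (nat_lit 239) (nat_lit 1) (nat_lit 400) (nat_lit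 326) (nat_lit 294)) (XT.nd (nat_lit 78) (nat_lit 0) (nat_lit 0) (XT.lf (nat_lit 304) (nat_lit 516702532) (nat_lit 0) (nat_lit 246927279) (nat_lit 228) (nat_lit 246927279) (nat_lit 236) (nat_lit 1) (nat_lit 232) (nat_lit 1) (nat_lit 235) (nat_lit 1) (nat_lit 401) (nat_lit 326) (nat_lit 293)) (XT.lf (nat_lit 76) (nat_lit 142299456) (nat_lit 0) (nat_lit 707084765) (nat_lit 304) (nat_lit 142299456) (nat_lit 233) (nat_lit 1) (nat_lit 232) (nat_lit 1) (nat_lit 236) (nat_lit 1) (nat_lit 402) (nat_lit 326) (nat_lit 292)))) (XT.nd (nat_lit 78) (nat_lit 304) (nat_lit 0) (XT.lf (nat_lit 228) (nat_lit 52143252) (nat_lit 0) (nat_lit 460511334) (nat_lit 152) (nat_lit 460511334) (nat_lit 233) (nat_lit 1) (nat_lit 230) (nat_lit 1) (nat_lit 232) (nat_lit 1) (nat_lit 403) (nat_lit 326) (nat_lit 291)) (XT.nd (nat_lit 78) (nat_lit 0) (nat_lit 0) (XT.lf (nat_lit 304) (nat_lit 787867054) (nat_lit 0) (nat_lit 83677191)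 (nat_lit 228) (nat_lit 83677191) (nat_lit 230) (nat_lit 1) (nat_lit 226) (nat_lit 1) (nat_lit 229) (nat_lit 1) (nat_lit 404) (nat_lit 326) (nat_lit 290)) (XT.lf (nat_lit 76) (nat_lit 275183260) (nat_lit 0) (nat_lit 387111126) (nat_lit 304) (nat_lit 275183260) (nat_lit 227) (nat_lit 1) (nat_lit 226) (nat_lit 1) (nat_lit 230) (nat_lit 1) (nat_lit 405) (nat_lit 326) (nat_lit 289))))) (XT.nd (nat_lit 234) (nat_lit 532) (nat_lit 0) (XT.nd (nat_lit 78) (nat_lit 228) (nat_lit 0) (XT.lf (nat_lit 228) (nat_lit 317931808) (nat_lit 0) (nat_lit 301174834) (nat_lit 152) (nat_lit 301174834) (nat_lit 227) (nat_lit 1) (nat_lit 224) (nat_lit 1) (nat_lit 226) (nat_lit 1) (nat_lit 406) (nat_lit 326) (nat_lit 288)) (XT.nd (nat_lit 78) (nat_lit 228) (nat_lit 0) (XT.lf (nat_lit 76) (nat_lit 45676709) (nat_lit 0) (nat_lit 812302564) (nat_lit 228) (nat_lit 45676709) (nat_lit 225) (nat_lit 1) (nat_lit 224) (nat_lit 1)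 (nat_lit 227) (nat_lit 1) (nat_lit 407) (nat_lit 326) (nat_lit 287)) (XT.lf (nat_lit 76) (nat_lit 376977897) (nat_lit 0) (nat_lit 133135128) (nat_lit 228) (nat_lit 376977897) (nat_lit 222) (nat_lit 1) (nat_lit 221) (nat_lit 1) (nat_lit 224) (nat_lit 1) (nat_lit 408) (nat_lit 326) (nat_lit 286)))) (XT.nd (nat_lit 156) (nat_lit 380) (nat_lit 0) (XT.nd (nat_lit 78) (nat_lit 0) (nat_lit 0) (XT.lf (nat_lit 228) (nat_lit 523499881) (nat_lit 0) (nat_lit 173787777) (nat_lit 152) (nat_lit 173787777) (nat_lit 222) (nat_lit 1) (nat_lit 219) (nat_lit 1) (nat_lit 221) (nat_lit 1) (nat_lit 409) (nat_lit 326) (nat_lit 285)) (XT.lf (nat_lit 76) (nat_lit 147718047) (nat_lit 0) (nat_lit 559977830) (nat_lit 228) (nat_lit 147718047) (nat_lit 220) (nat_lit 1) (nat_lit 219) (nat_lit 1) (nat_lit 222) (nat_lit 1) (nat_lit 410) (nat_lit 326) (nat_lit 284))) (XT.nd (nat_lit 78) (nat_lit 228) (nat_lit 0) (XT.lf (nat_lit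 228) (nat_lit 69200586) (nat_lit 0) (nat_lit 385433761) (nat_lit 152) (nat_lit 385433761) (nat_lit 220) (nat_lit 1) (nat_lit 217) (nat_lit 1) (nat_lit 219) (nat_lit 1) (nat_lit 411) (nat_lit 326) (nat_lit 283)) (XT.lf (nat_lit 228) (nat_lit 680148073) (nat_lit 0) (nat_lit 72509439) (nat_lit 152) (nat_lit 72509439) (nat_lit 217) (nat_lit 1) (nat_lit 214) (nat_lit 1) (nat_lit 216) (nat_lit 1) (nat_lit 412) (nat_lit 326) (nat_lit 282)))))) (XT.nd (nat_lit 468) (nat_lit 684) (nat_lit 0) (XT.nd (nat_lit 234) (nat_lit 304) (nat_lit 0) (XT.nd (nat_lit 78) (nat_lit 152) (nat_lit 0) (XT.lf (nat_lit 76) (nat_lit 226422960) (nat_lit 0) (nat_lit 357547052) (nat_lit 228) (nat_lit 226422960) (nat_lit 215) (nat_lit 1) (nat_lit 214) (nat_lit 1) (nat_lit 217) (nat_lit 1) (nat_lit 413) (nat_lit 326) (nat_lit 281)) (XT.nd (nat_lit 78) (nat_lit 0) (nat_lit 0) (XT.lf (nat_lit 228) (nat_lit 230600792) (nat_lit 0) (nat_lit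 282723556) (nat_lit 152) (nat_lit 282723556) (nat_lit 215) (nat_lit 1) (nat_lit 212) (nat_lit 1) (nat_lit 214) (nat_lit 1) (nat_lit 414) (nat_lit 326) (nat_lit 280)) (XT.lf (nat_lit 76) (nat_lit 7579212) (nat_lit 0) (nat_lit 767047493) (nat_lit 228) (nat_lit 7579212) (nat_lit 213) (nat_lit 1) (nat_lit 212) (nat_lit 1) (nat_lit 215) (nat_lit 1) (nat_lit 415) (nat_lit 326) (nat_lit 279)))) (XT.nd (nat_lit 78) (nat_lit 152) (nat_lit 0) (XT.lf (nat_lit 76) (nat_lit 286178689) (nat_lit 0) (nat_lit 195918564) (nat_lit 152) (nat_lit 286178689) (nat_lit 211) (nat_lit 1) (nat_lit 210) (nat_lit 1) (nat_lit 212) (nat_lit 1) (nat_lit 416) (nat_lit 326) (nat_lit 278)) (XT.nd (nat_lit 78) (nat_lit 0) (nat_lit 0) (XT.lf (nat_lit 228) (nat_lit 355115174) (nat_lit 0) (nat_lit 199860460) (nat_lit 152) (nat_lit 199860460) (nat_lit 211) (nat_lit 1) (nat_lit 208) (nat_lit 1) (nat_lit 210) (nat_lit 1) (nat_lit 417)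 (nat_lit 326) (nat_lit 277)) (XT.lf (nat_lit 76) (nat_lit 71198138) (nat_lit 0) (nat_lit 599362748) (nat_lit 228) (nat_lit 71198138) (nat_lit 209) (nat_lit 1) (nat_lit 208) (nat_lit 1) (nat_lit 211) (nat_lit 1) (nat_lit 418) (nat_lit 326) (nat_lit 276))))) (XT.nd (nat_lit 234) (nat_lit 380) (nat_lit 0) (XT.nd (nat_lit 78) (nat_lit 152) (nat_lit 0) (XT.lf (nat_lit 76) (nat_lit 330582734) (nat_lit 0) (nat_lit 67624325) (nat_lit 152) (nat_lit 330582734) (nat_lit 207) (nat_lit 1) (nat_lit 206) (nat_lit 1) (nat_lit 208) (nat_lit 1) (nat_lit 419) (nat_lit 326) (nat_lit 275)) (XT.nd (nat_lit 78) (nat_lit 0) (nat_lit 0) (XT.lf (nat_lit 228) (nat_lit 449677305) (nat_lit 0) (nat_lit 133247688) (nat_lit 152) (nat_lit 133247688) (nat_lit 207) (nat_lit 1) (nat_lit 204) (nat_lit 1) (nat_lit 206) (nat_lit 1) (nat_lit 420) (nat_lit 326) (nat_lit 274)) (XT.lf (nat_lit 76) (nat_lit 120444124) (nat_lit 0) (nat_lit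 462917099) (nat_lit 228) (nat_lit 120444124) (nat_lit 205) (nat_lit 1) (nat_lit 204) (nat_lit 1) (nat_lit 207) (nat_lit 1) (nat_lit 421) (nat_lit 326) (nat_lit 273)))) (XT.nd (nat_lit 156) (nat_lit 76) (nat_lit 0) (XT.nd (nat_lit 78) (nat_lit 228) (nat_lit 0) (XT.lf (nat_lit 152) (nat_lit 34575121) (nat_lit 0) (nat_lit 328548134) (nat_lit 76) (nat_lit 328548134) (nat_lit 205) (nat_lit 1) (nat_lit 203) (nat_lit 1) (nat_lit 204) (nat_lit 1) (nat_lit 422) (nat_lit 326) (nat_lit 272)) (XT.lf (nat_lit 228) (nat_lit 519972701) (nat_lit 0) (nat_lit 79929861) (nat_lit 152) (nat_lit 79929861) (nat_lit 203) (nat_lit 1) (nat_lit 200) (nat_lit 1) (nat_lit 202) (nat_lit 1) (nat_lit 423) (nat_lit 326) (nat_lit 271))) (XT.nd (nat_lit 78) (nat_lit 76) (nat_lit 0) (XT.lf (nat_lit 76) (nat_lit 158012764) (nat_lit 0) (nat_lit 352100074) (nat_lit 228) (nat_lit 158012764) (nat_lit 201) (nat_lit 1) (nat_lit 200) (nat_lit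 1) (nat_lit 203) (nat_lit 1) (nat_lit 424) (nat_lit 326) (nat_lit 270)) (XT.lf (nat_lit 152) (nat_lit 116111092) (nat_lit 0) (nat_lit 270297363) (nat_lit 76) (nat_lit 270297363) (nat_lit 201) (nat_lit 1) (nat_lit 199) (nat_lit 1) (nat_lit 200) (nat_lit 1) (nat_lit 425) (nat_lit 326) (nat_lit 269))))))))
noncomputable def ec30 : XT := (XT.nd (nat_lit 48672) (nat_lit 0) (nat_lit 5244) (XT.nd (nat_lit 936) (nat_lit 684) (nat_lit 0) (XT.nd (nat_lit 468) (nat_lit 456) (nat_lit 0) (XT.nd (nat_lit 234) (nat_lit 304) (nat_lit 0) (XT.nd (nat_lit 78) (nat_lit 76) (nat_lit 0) (XT.lf (nat_lit 228) (nat_lit 570660989) (nat_lit 0) (nat_lit 37479122) (nat_lit 152) (nat_lit 37479122) (nat_lit 199) (nat_lit 1) (nat_lit 196) (nat_lit 1) (nat_lit 198) (nat_lit 1) (nat_lit 426) (nat_lit 326) (nat_lit 268)) (XT.nd (nat_lit 78) (nat_lit 76) (nat_lit 0) (XT.lf (nat_lit 76) (nat_lit 186114716) (nat_lit 0) (nat_lit 262299347)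 (nat_lit 228) (nat_lit 186114716) (nat_lit 197) (nat_lit 1) (nat_lit 196) (nat_lit 1) (nat_lit 199) (nat_lit 1) (nat_lit 427) (nat_lit 326) (nat_lit 267)) (XT.lf (nat_lit 152) (nat_lit 179016362) (nat_lit 0) (nat_lit 222374309) (nat_lit 76) (nat_lit 222374309) (nat_lit 197) (nat_lit 1) (nat_lit 195) (nat_lit 1) (nat_lit 196) (nat_lit 1) (nat_lit 428) (nat_lit 326) (nat_lit 266)))) (XT.nd (nat_lit 78) (nat_lit 76) (nat_lit 0) (XT.lf (nat_lit 228) (nat_lit 605558648) (nat_lit 0) (nat_lit 3901431) (nat_lit 152) (nat_lit 3901431) (nat_lit 195) (nat_lit 1) (nat_lit 192) (nat_lit 1) (nat_lit 194) (nat_lit 1) (nat_lit 429) (nat_lit 326) (nat_lit 265)) (XT.nd (nat_lit 78) (nat_lit 76) (nat_lit 0) (XT.lf (nat_lit 76) (nat_lit 206562013) (nat_lit 0) (nat_lit 189723602) (nat_lit 228) (nat_lit 206562013) (nat_lit 193) (nat_lit 1) (nat_lit 192) (nat_lit 1) (nat_lit 195) (nat_lit 1) (nat_lit 430) (nat_lit 326)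 (nat_lit 264)) (XT.lf (nat_lit 152) (nat_lit 226792899) (nat_lit 0) (nat_lit 182947894) (nat_lit 76) (nat_lit 182947894) (nat_lit 193) (nat_lit 1) (nat_lit 191) (nat_lit 1) (nat_lit 192) (nat_lit 1) (nat_lit 431) (nat_lit 326) (nat_lit 263))))) (XT.nd (nat_lit 234) (nat_lit 228) (nat_lit 0) (XT.nd (nat_lit 78) (nat_lit 228) (nat_lit 0) (XT.lf (nat_lit 0) (nat_lit 22808383) (nat_lit 0) (nat_lit 537219698) (nat_lit 152) (nat_lit 22808383) (nat_lit 191) (nat_lit 3) (nat_lit 191) (nat_lit 1) (nat_lit 193) (nat_lit 1) (nat_lit 432) (nat_lit 326) (nat_lit 262)) (XT.nd (nat_lit 78) (nat_lit 76) (nat_lit 0) (XT.lf (nat_lit 76) (nat_lit 220839055) (nat_lit 0) (nat_lit 131256820) (nat_lit 152) (nat_lit 220839055) (nat_lit 190) (nat_lit 1) (nat_lit 189) (nat_lit 1) (nat_lit 191) (nat_lit 1) (nat_lit 433) (nat_lit 326) (nat_lit 261)) (XT.lf (nat_lit 152) (nat_lit 262312313) (nat_lit 0) (nat_lit 150511685)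 (nat_lit 76) (nat_lit 150511685) (nat_lit 190) (nat_lit 1) (nat_lit 188) (nat_lit 1) (nat_lit 189) (nat_lit 1) (nat_lit 434) (nat_lit 326) (nat_lit 260)))) (XT.nd (nat_lit 78) (nat_lit 228) (nat_lit 0) (XT.lf (nat_lit 0) (nat_lit 43593770) (nat_lit 0) (nat_lit 466801232) (nat_lit 152) (nat_lit 43593770) (nat_lit 188) (nat_lit 3) (nat_lit 188) (nat_lit 1) (nat_lit 190) (nat_lit 1) (nat_lit 435) (nat_lit 326) (nat_lit 259)) (XT.nd (nat_lit 78) (nat_lit 76) (nat_lit 0) (XT.lf (nat_lit 76) (nat_lit 230161005) (nat_lit 0) (nat_lit 84338399) (nat_lit 152) (nat_lit 230161005) (nat_lit 187) (nat_lit 1) (nat_lit 186) (nat_lit 1) (nat_lit 188) (nat_lit 1) (nat_lit 436) (nat_lit 326) (nat_lit 258)) (XT.lf (nat_lit 152) (nat_lit 287928068) (nat_lit 0) (nat_lit 123826336) (nat_lit 76) (nat_lit 123826336) (nat_lit 187) (nat_lit 1) (nat_lit 185) (nat_lit 1) (nat_lit 186) (nat_lit 1) (nat_lit 437) (nat_lit 326)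 (nat_lit 257)))))) (XT.nd (nat_lit 468) (nat_lit 228) (nat_lit 0) (XT.nd (nat_lit 234) (nat_lit 228) (nat_lit 0) (XT.nd (nat_lit 78) (nat_lit 228) (nat_lit 0) (XT.lf (nat_lit 0) (nat_lit 59511614) (nat_lit 0) (nat_lit 407685440) (nat_lit 152) (nat_lit 59511614) (nat_lit 185) (nat_lit 3) (nat_lit 185) (nat_lit 1) (nat_lit 187) (nat_lit 1) (nat_lit 438) (nat_lit 326) (nat_lit 256)) (XT.nd (nat_lit 78) (nat_lit 76) (nat_lit 0) (XT.lf (nat_lit 76) (nat_lit 235521808) (nat_lit 0) (nat_lit 46864542) (nat_lit 152) (nat_lit 235521808) (nat_lit 184) (nat_lit 1) (nat_lit 183) (nat_lit 1) (nat_lit 185) (nat_lit 1) (nat_lit 439) (nat_lit 326) (nat_lit 255)) (XT.lf (nat_lit 152) (nat_lit 305567781) (nat_lit 0) (nat_lit 101872233) (nat_lit 76) (nat_lit 101872233) (nat_lit 184) (nat_lit 1) (nat_lit 182) (nat_lit 1) (nat_lit 183) (nat_lit 1) (nat_lit 440) (nat_lit 326) (nat_lit 254)))) (XT.nd (nat_lit 78) (nat_lit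 228) (nat_lit 0) (XT.lf (nat_lit 0) (nat_lit 71481220) (nat_lit 0) (nat_lit 357924688) (nat_lit 152) (nat_lit 71481220) (nat_lit 182) (nat_lit 3) (nat_lit 182) (nat_lit 1) (nat_lit 184) (nat_lit 1) (nat_lit 441) (nat_lit 326) (nat_lit 253)) (XT.nd (nat_lit 78) (nat_lit 76) (nat_lit 0) (XT.lf (nat_lit 76) (nat_lit 237733688) (nat_lit 0) (nat_lit 17107129) (nat_lit 152) (nat_lit 237733688) (nat_lit 181) (nat_lit 1) (nat_lit 180) (nat_lit 1) (nat_lit 182) (nat_lit 1) (nat_lit 442) (nat_lit 326) (nat_lit 252)) (XT.lf (nat_lit 152) (nat_lit 316809129) (nat_lit 0) (nat_lit 83810538) (nat_lit 76) (nat_lit 83810538) (nat_lit 181) (nat_lit 1) (nat_lit 179) (nat_lit 1) (nat_lit 180) (nat_lit 1) (nat_lit 443) (nat_lit 326) (nat_lit 251))))) (XT.nd (nat_lit 234) (nat_lit 0) (nat_lit 0) (XT.nd (nat_lit 78) (nat_lit 228) (nat_lit 0) (XT.lf (nat_lit 0) (nat_lit 80256222) (nat_lit 0) (nat_lit 315913972) (nat_lit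 152) (nat_lit 80256222) (nat_lit 179) (nat_lit 3) (nat_lit 179) (nat_lit 1) (nat_lit 181) (nat_lit 1) (nat_lit 444) (nat_lit 326) (nat_lit 250)) (XT.nd (nat_lit 78) (nat_lit 152) (nat_lit 0) (XT.lf (nat_lit 76) (nat_lit 6563072) (nat_lit 0) (nat_lit 230999025) (nat_lit 76) (nat_lit 230999025) (nat_lit 179) (nat_lit 3) (nat_lit 178) (nat_lit 1) (nat_lit 179) (nat_lit 1) (nat_lit 445) (nat_lit 326) (nat_lit 249)) (XT.lf (nat_lit 152) (nat_lit 322942282) (nat_lit 0) (nat_lit 68951137) (nat_lit 76) (nat_lit 68951137) (nat_lit 178) (nat_lit 1) (nat_lit 176) (nat_lit 1) (nat_lit 177) (nat_lit 1) (nat_lit 446) (nat_lit 326) (nat_lit 248)))) (XT.nd (nat_lit 46878) (nat_lit 0) (nat_lit 8816) (XT.nd (nat_lit 46800) (nat_lit 0) (nat_lit 8816) (XT.lf (nat_lit 0) (nat_lit 86454083) (nat_lit 0) (nat_lit 280330298) (nat_lit 152) (nat_lit 86454083) (nat_lit 176) (nat_lit 3) (nat_lit 176) (nat_lit 1) (nat_lit 178)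 (nat_lit 1) (nat_lit 447) (nat_lit 326) (nat_lit 247)) (XT.lf (nat_lit 836) (nat_lit 284963207) (nat_lit 0) (nat_lit 505951520) (nat_lit 836) (nat_lit 284963207) (nat_lit 303) (nat_lit 1) (nat_lit 292) (nat_lit 0) (nat_lit 303) (nat_lit 0) (nat_lit 366) (nat_lit 327) (nat_lit 327))) (XT.nd (nat_lit 78) (nat_lit 0) (nat_lit 76) (XT.lf (nat_lit 836) (nat_lit 1104552969) (nat_lit 76) (nat_lit 497791012) (nat_lit 0) (nat_lit 497791012) (nat_lit 303) (nat_lit 1) (nat_lit 293) (nat_lit 1) (nat_lit 292) (nat_lit 0) (nat_lit 367) (nat_lit 327) (nat_lit 326)) (XT.lf (nat_lit 836) (nat_lit 526413314) (nat_lit 0) (nat_lit 997283366) (nat_lit 760) (nat_lit 526413314) (nat_lit 304) (nat_lit 1) (nat_lit 293) (nat_lit 1) (nat_lit 303) (nat_lit 1) (nat_lit 368) (nat_lit 327) (nat_lit 325))))))) (XT.nd (nat_lit 936) (nat_lit 2280) (nat_lit 0) (XT.nd (nat_lit 468) (nat_lit 1368) (nat_lit 0) (XT.nd (nat_lit 234)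 (nat_lit 0) (nat_lit 152) (XT.nd (nat_lit 78) (nat_lit 0) (nat_lit 76) (XT.lf (nat_lit 836) (nat_lit 987478230) (nat_lit 76) (nat_lit 507111472) (nat_lit 0) (nat_lit 507111472) (nat_lit 304) (nat_lit 1) (nat_lit 294) (nat_lit 1) (nat_lit 293) (nat_lit 1) (nat_lit 369) (nat_lit 327) (nat_lit 324)) (XT.nd (nat_lit 78) (nat_lit 0) (nat_lit 0) (XT.lf (nat_lit 836) (nat_lit 454526746) (nat_lit 0) (nat_lit 1045773179) (nat_lit 760) (nat_lit 454526746) (nat_lit 305) (nat_lit 1) (nat_lit 294) (nat_lit 1) (nat_lit 304) (nat_lit 1) (nat_lit 370) (nat_lit 327) (nat_lit 323)) (XT.lf (nat_lit 836) (nat_lit 817495958) (nat_lit 76) (nat_lit 545942562) (nat_lit 0) (nat_lit 545942562) (nat_lit 305) (nat_lit 1) (nat_lit 295) (nat_lit 1) (nat_lit 294) (nat_lit 1) (nat_lit 371) (nat_lit 327) (nat_lit 322)))) (XT.nd (nat_lit 78) (nat_lit 0) (nat_lit 0) (XT.lf (nat_lit 836) (nat_lit 358448366) (nat_lit 0) (nat_lit 1148564668)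 (nat_lit 760) (nat_lit 358448366) (nat_lit 306) (nat_lit 1) (nat_lit 295) (nat_lit 1) (nat_lit 305) (nat_lit 1) (nat_lit 372) (nat_lit 327) (nat_lit 321)) (XT.nd (nat_lit 78) (nat_lit 0) (nat_lit 76) (XT.lf (nat_lit 836) (nat_lit 602562709) (nat_lit 76) (nat_lit 610094133) (nat_lit 0) (nat_lit 610094133) (nat_lit 306) (nat_lit 1) (nat_lit 296) (nat_lit 1) (nat_lit 295) (nat_lit 1) (nat_lit 373) (nat_lit 327) (nat_lit 320)) (XT.lf (nat_lit 836) (nat_lit 241897543) (nat_lit 0) (nat_lit 1297808911) (nat_lit 760) (nat_lit 241897543) (nat_lit 307) (nat_lit 1) (nat_lit 296) (nat_lit 1) (nat_lit 306) (nat_lit 1) (nat_lit 374) (nat_lit 327) (nat_lit 319))))) (XT.nd (nat_lit 234) (nat_lit 912) (nat_lit 0) (XT.nd (nat_lit 78) (nat_lit 684) (nat_lit 0) (XT.lf (nat_lit 836) (nat_lit 349750663) (nat_lit 76) (nat_lit 695834477) (nat_lit 0) (nat_lit 695834477) (nat_lit 307) (nat_lit 1) (nat_lit 297) (nat_lit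 1) (nat_lit 296) (nat_lit 1) (nat_lit 375) (nat_lit 327) (nat_lit 318)) (XT.nd (nat_lit 78) (nat_lit 760) (nat_lit 0) (XT.lf (nat_lit 76) (nat_lit 108177844) (nat_lit 0) (nat_lit 1486520060) (nat_lit 760) (nat_lit 108177844) (nat_lit 298) (nat_lit 1) (nat_lit 297) (nat_lit 1) (nat_lit 307) (nat_lit 1) (nat_lit 376) (nat_lit 327) (nat_lit 317)) (XT.lf (nat_lit 836) (nat_lit 65336728) (nat_lit 0) (nat_lit 799844428) (nat_lit 760) (nat_lit 799844428) (nat_lit 298) (nat_lit 1) (nat_lit 287) (nat_lit 1) (nat_lit 297) (nat_lit 1) (nat_lit 377) (nat_lit 327) (nat_lit 316)))) (XT.nd (nat_lit 78) (nat_lit 380) (nat_lit 0) (XT.lf (nat_lit 532) (nat_lit 1550522842) (nat_lit 0) (nat_lit 39139345) (nat_lit 456) (nat_lit 39139345) (nat_lit 287) (nat_lit 1) (nat_lit 280) (nat_lit 1) (nat_lit 286) (nat_lit 1) (nat_lit 378) (nat_lit 327) (nat_lit 315)) (XT.nd (nat_lit 78) (nat_lit 380) (nat_lit 0) (XT.lf (nat_lit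 76) (nat_lit 677885888) (nat_lit 0) (nat_lit 237271684) (nat_lit 532) (nat_lit 677885888) (nat_lit 281) (nat_lit 1) (nat_lit 280) (nat_lit 1) (nat_lit 287) (nat_lit 1) (nat_lit 379) (nat_lit 327) (nat_lit 314)) (XT.lf (nat_lit 456) (nat_lit 1166467607) (nat_lit 0) (nat_lit 196169154) (nat_lit 380) (nat_lit 196169154) (nat_lit 281) (nat_lit 1) (nat_lit 275) (nat_lit 1) (nat_lit 280) (nat_lit 1) (nat_lit 380) (nat_lit 327) (nat_lit 313)))))) (XT.nd (nat_lit 468) (nat_lit 1216) (nat_lit 0) (XT.nd (nat_lit 234) (nat_lit 684) (nat_lit 0) (XT.nd (nat_lit 78) (nat_lit 380) (nat_lit 0) (XT.lf (nat_lit 76) (nat_lit 483527751) (nat_lit 0) (nat_lit 558232637) (nat_lit 456) (nat_lit 483527751) (nat_lit 276) (nat_lit 1) (nat_lit 275) (nat_lit 1) (nat_lit 281) (nat_lit 1) (nat_lit 381) (nat_lit 327) (nat_lit 312)) (XT.nd (nat_lit 78) (nat_lit 0) (nat_lit 0) (XT.lf (nat_lit 456) (nat_lit 768135461) (nat_lit 0)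 (nat_lit 362401119) (nat_lit 380) (nat_lit 362401119) (nat_lit 276) (nat_lit 1) (nat_lit 270) (nat_lit 1) (nat_lit 275) (nat_lit 1) (nat_lit 382) (nat_lit 327) (nat_lit 311)) (XT.lf (nat_lit 76) (nat_lit 283047709) (nat_lit 0) (nat_lit 895432699) (nat_lit 456) (nat_lit 283047709) (nat_lit 271) (nat_lit 1) (nat_lit 270) (nat_lit 1) (nat_lit 276) (nat_lit 1) (nat_lit 383) (nat_lit 327) (nat_lit 310)))) (XT.nd (nat_lit 78) (nat_lit 380) (nat_lit 0) (XT.lf (nat_lit 380) (nat_lit 359233866) (nat_lit 0) (nat_lit 535846314) (nat_lit 304) (nat_lit 535846314) (nat_lit 271) (nat_lit 1) (nat_lit 266) (nat_lit 1) (nat_lit 270) (nat_lit 1) (nat_lit 384) (nat_lit 327) (nat_lit 309)) (XT.nd (nat_lit 78) (nat_lit 380) (nat_lit 0) (XT.lf (nat_lit 76) (nat_lit 78166892) (nat_lit 0) (nat_lit 1245167874) (nat_lit 380) (nat_lit 78166892) (nat_lit 267) (nat_lit 1) (nat_lit 266) (nat_lit 1) (nat_lit 271) (nat_lit 1)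 (nat_lit 385) (nat_lit 327) (nat_lit 308)) (XT.lf (nat_lit 76) (nat_lit 658656695) (nat_lit 0) (nat_lit 55163777) (nat_lit 380) (nat_lit 658656695) (nat_lit 262) (nat_lit 1) (nat_lit 261) (nat_lit 1) (nat_lit 266) (nat_lit 1) (nat_lit 386) (nat_lit 327) (nat_lit 307))))) (XT.nd (nat_lit 234) (nat_lit 608) (nat_lit 0) (XT.nd (nat_lit 78) (nat_lit 304) (nat_lit 0) (XT.lf (nat_lit 380) (nat_lit 1089522045) (nat_lit 0) (nat_lit 127517978) (nat_lit 304) (nat_lit 127517978) (nat_lit 262) (nat_lit 1) (nat_lit 257) (nat_lit 1) (nat_lit 261) (nat_lit 1) (nat_lit 387) (nat_lit 327) (nat_lit 306)) (XT.nd (nat_lit 78) (nat_lit 304) (nat_lit 0) (XT.lf (nat_lit 76) (nat_lit 427358444) (nat_lit 0) (nat_lit 462400905) (nat_lit 380) (nat_lit 427358444) (nat_lit 258) (nat_lit 1) (nat_lit 257) (nat_lit 1) (nat_lit 262) (nat_lit 1) (nat_lit 388) (nat_lit 327) (nat_lit 305)) (XT.lf (nat_lit 380) (nat_lit 623634853)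 (nat_lit 0) (nat_lit 333497132) (nat_lit 304) (nat_lit 333497132) (nat_lit 258) (nat_lit 1) (nat_lit 253) (nat_lit 1) (nat_lit 257) (nat_lit 1) (nat_lit 389) (nat_lit 327) (nat_lit 304)))) (XT.nd (nat_lit 156) (nat_lit 380) (nat_lit 0) (XT.nd (nat_lit 78) (nat_lit 228) (nat_lit 0) (XT.lf (nat_lit 76) (nat_lit 196666600) (nat_lit 0) (nat_lit 871581771) (nat_lit 380) (nat_lit 196666600) (nat_lit 254) (nat_lit 1) (nat_lit 253) (nat_lit 1) (nat_lit 258) (nat_lit 1) (nat_lit 390) (nat_lit 327) (nat_lit 303)) (XT.lf (nat_lit 304) (nat_lit 159940522) (nat_lit 0) (nat_lit 539907684) (nat_lit 228) (nat_lit 539907684) (nat_lit 254) (nat_lit 1) (nat_lit 250) (nat_lit 1) (nat_lit 253) (nat_lit 1) (nat_lit 391) (nat_lit 327) (nat_lit 302))) (XT.nd (nat_lit 78) (nat_lit 0) (nat_lit 0) (XT.lf (nat_lit 380) (nat_lit 1151655278) (nat_lit 0) (nat_lit 31956224) (nat_lit 304) (nat_lit 31956224) (nat_lit 250) (nat_lit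 1) (nat_lit 245) (nat_lit 1) (nat_lit 249) (nat_lit 1) (nat_lit 392) (nat_lit 327) (nat_lit 301)) (XT.lf (nat_lit 76) (nat_lit 450651224) (nat_lit 0) (nat_lit 290210991) (nat_lit 380) (nat_lit 450651224) (nat_lit 246) (nat_lit 1) (nat_lit 245) (nat_lit 1) (nat_lit 250) (nat_lit 1) (nat_lit 393) (nat_lit 327) (nat_lit 300))))))))
noncomputable def ec31 : XT := (XT.nd (nat_lit 1950) (nat_lit 2128) (nat_lit 0) (XT.nd (nat_lit 936) (nat_lit 1520) (nat_lit 0) (XT.nd (nat_lit 468) (nat_lit 608) (nat_lit 0) (XT.nd (nat_lit 234) (nat_lit 532) (nat_lit 0) (XT.nd (nat_lit 78) (nat_lit 228) (nat_lit 0) (XT.lf (nat_lit 304) (nat_lit 658190360) (nat_lit 0) (nat_lit 255095670) (nat_lit 228) (nat_lit 255095670) (nat_lit 246) (nat_lit 1) (nat_lit 242) (nat_lit 1) (nat_lit 245) (nat_lit 1) (nat_lit 394) (nat_lit 327) (nat_lit 299)) (XT.nd (nat_lit 78) (nat_lit 228) (nat_lit 0) (XT.lf (nat_lit 76) (nat_lit 207932516)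 (nat_lit 0) (nat_lit 729972629) (nat_lit 304) (nat_lit 207932516) (nat_lit 243) (nat_lit 1) (nat_lit 242) (nat_lit 1) (nat_lit 246) (nat_lit 1) (nat_lit 395) (nat_lit 327) (nat_lit 298)) (XT.lf (nat_lit 304) (nat_lit 173305252) (nat_lit 0) (nat_lit 475250620) (nat_lit 228) (nat_lit 475250620) (nat_lit 243) (nat_lit 1) (nat_lit 239) (nat_lit 1) (nat_lit 242) (nat_lit 1) (nat_lit 396) (nat_lit 327) (nat_lit 297)))) (XT.nd (nat_lit 78) (nat_lit 228) (nat_lit 0) (XT.lf (nat_lit 304) (nat_lit 1043025216) (nat_lit 0) (nat_lit 29784297) (nat_lit 228) (nat_lit 29784297) (nat_lit 239) (nat_lit 1) (nat_lit 235) (nat_lit 1) (nat_lit 238) (nat_lit 1) (nat_lit 397) (nat_lit 327) (nat_lit 296)) (XT.nd (nat_lit 78) (nat_lit 228) (nat_lit 0) (XT.lf (nat_lit 76) (nat_lit 394546568) (nat_lit 0) (nat_lit 292355045) (nat_lit 304) (nat_lit 394546568) (nat_lit 236) (nat_lit 1) (nat_lit 235) (nat_lit 1) (nat_lit 239)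 (nat_lit 1) (nat_lit 398) (nat_lit 327) (nat_lit 295)) (XT.lf (nat_lit 304) (nat_lit 542537659) (nat_lit 0) (nat_lit 259273643) (nat_lit 228) (nat_lit 259273643) (nat_lit 236) (nat_lit 1) (nat_lit 232) (nat_lit 1) (nat_lit 235) (nat_lit 1) (nat_lit 399) (nat_lit 327) (nat_lit 294))))) (XT.nd (nat_lit 234) (nat_lit 152) (nat_lit 0) (XT.nd (nat_lit 78) (nat_lit 456) (nat_lit 0) (XT.lf (nat_lit 76) (nat_lit 149414428) (nat_lit 0) (nat_lit 742439003) (nat_lit 304) (nat_lit 149414428) (nat_lit 233) (nat_lit 1) (nat_lit 232) (nat_lit 1) (nat_lit 236) (nat_lit 1) (nat_lit 400) (nat_lit 327) (nat_lit 293)) (XT.nd (nat_lit 78) (nat_lit 304) (nat_lit 0) (XT.lf (nat_lit 228) (nat_lit 54750414) (nat_lit 0) (nat_lit 483536901) (nat_lit 152) (nat_lit 483536901) (nat_lit 233) (nat_lit 1) (nat_lit 230) (nat_lit 1) (nat_lit 232) (nat_lit 1) (nat_lit 401) (nat_lit 327) (nat_lit 292)) (XT.lf (nat_lit 304) (nat_lit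 827260407) (nat_lit 0) (nat_lit 87861051) (nat_lit 228) (nat_lit 87861051) (nat_lit 230) (nat_lit 1) (nat_lit 226) (nat_lit 1) (nat_lit 229) (nat_lit 1) (nat_lit 402) (nat_lit 327) (nat_lit 291)))) (XT.nd (nat_lit 78) (nat_lit 152) (nat_lit 0) (XT.lf (nat_lit 76) (nat_lit 288942423) (nat_lit 0) (nat_lit 406466682) (nat_lit 304) (nat_lit 288942423) (nat_lit 227) (nat_lit 1) (nat_lit 226) (nat_lit 1) (nat_lit 230) (nat_lit 1) (nat_lit 403) (nat_lit 327) (nat_lit 290)) (XT.nd (nat_lit 78) (nat_lit 0) (nat_lit 0) (XT.lf (nat_lit 228) (nat_lit 333828399) (nat_lit 0) (nat_lit 316233576) (nat_lit 152) (nat_lit 316233576) (nat_lit 227) (nat_lit 1) (nat_lit 224) (nat_lit 1) (nat_lit 226) (nat_lit 1) (nat_lit 404) (nat_lit 327) (nat_lit 289)) (XT.lf (nat_lit 76) (nat_lit 47960545) (nat_lit 0) (nat_lit 852917692) (nat_lit 228) (nat_lit 47960545) (nat_lit 225) (nat_lit 1) (nat_lit 224) (nat_lit 1) (nat_lit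 227) (nat_lit 1) (nat_lit 405) (nat_lit 327) (nat_lit 288)))))) (XT.nd (nat_lit 468) (nat_lit 760) (nat_lit 0) (XT.nd (nat_lit 234) (nat_lit 380) (nat_lit 0) (XT.nd (nat_lit 78) (nat_lit 152) (nat_lit 0) (XT.lf (nat_lit 76) (nat_lit 395826792) (nat_lit 0) (nat_lit 139791885) (nat_lit 228) (nat_lit 395826792) (nat_lit 222) (nat_lit 1) (nat_lit 221) (nat_lit 1) (nat_lit 224) (nat_lit 1) (nat_lit 406) (nat_lit 327) (nat_lit 287)) (XT.nd (nat_lit 78) (nat_lit 0) (nat_lit 0) (XT.lf (nat_lit 228) (nat_lit 549674876) (nat_lit 0) (nat_lit 182477165) (nat_lit 152) (nat_lit 182477165) (nat_lit 222) (nat_lit 1) (nat_lit 219) (nat_lit 1) (nat_lit 221) (nat_lit 1) (nat_lit 407) (nat_lit 327) (nat_lit 286)) (XT.lf (nat_lit 76) (nat_lit 155103949) (nat_lit 0) (nat_lit 587976722) (nat_lit 228) (nat_lit 155103949) (nat_lit 220) (nat_lit 1) (nat_lit 219) (nat_lit 1) (nat_lit 222) (nat_lit 1) (nat_lit 408) (nat_lit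 327) (nat_lit 285)))) (XT.nd (nat_lit 78) (nat_lit 228) (nat_lit 0) (XT.lf (nat_lit 228) (nat_lit 72660616) (nat_lit 0) (nat_lit 404705449) (nat_lit 152) (nat_lit 404705449) (nat_lit 220) (nat_lit 1) (nat_lit 217) (nat_lit 1) (nat_lit 219) (nat_lit 1) (nat_lit 409) (nat_lit 327) (nat_lit 284)) (XT.nd (nat_lit 78) (nat_lit 0) (nat_lit 0) (XT.lf (nat_lit 228) (nat_lit 714155477) (nat_lit 0) (nat_lit 76134911) (nat_lit 152) (nat_lit 76134911) (nat_lit 217) (nat_lit 1) (nat_lit 214) (nat_lit 1) (nat_lit 216) (nat_lit 1) (nat_lit 410) (nat_lit 327) (nat_lit 283)) (XT.lf (nat_lit 76) (nat_lit 237744108) (nat_lit 0) (nat_lit 375424405) (nat_lit 228) (nat_lit 237744108) (nat_lit 215) (nat_lit 1) (nat_lit 214) (nat_lit 1) (nat_lit 217) (nat_lit 1) (nat_lit 411) (nat_lit 327) (nat_lit 282))))) (XT.nd (nat_lit 234) (nat_lit 456) (nat_lit 0) (XT.nd (nat_lit 78) (nat_lit 152) (nat_lit 0) (XT.lf (nat_lit 228)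 (nat_lit 242130831) (nat_lit 0) (nat_lit 296859733) (nat_lit 152) (nat_lit 296859733) (nat_lit 215) (nat_lit 1) (nat_lit 212) (nat_lit 1) (nat_lit 214) (nat_lit 1) (nat_lit 412) (nat_lit 327) (nat_lit 281)) (XT.nd (nat_lit 78) (nat_lit 152) (nat_lit 0) (XT.lf (nat_lit 76) (nat_lit 7958172) (nat_lit 0) (nat_lit 805399867) (nat_lit 228) (nat_lit 7958172) (nat_lit 213) (nat_lit 1) (nat_lit 212) (nat_lit 1) (nat_lit 215) (nat_lit 1) (nat_lit 413) (nat_lit 327) (nat_lit 280)) (XT.lf (nat_lit 76) (nat_lit 300487623) (nat_lit 0) (nat_lit 205714493) (nat_lit 152) (nat_lit 300487623) (nat_lit 211) (nat_lit 1) (nat_lit 210) (nat_lit 1) (nat_lit 212) (nat_lit 1) (nat_lit 414) (nat_lit 327) (nat_lit 279)))) (XT.nd (nat_lit 156) (nat_lit 304) (nat_lit 0) (XT.nd (nat_lit 78) (nat_lit 0) (nat_lit 0) (XT.lf (nat_lit 228) (nat_lit 372870932) (nat_lit 0) (nat_lit 209853484) (nat_lit 152) (nat_lit 209853484) (nat_lit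 211) (nat_lit 1) (nat_lit 208) (nat_lit 1) (nat_lit 210) (nat_lit 1) (nat_lit 415) (nat_lit 327) (nat_lit 278)) (XT.lf (nat_lit 76) (nat_lit 74758045) (nat_lit 0) (nat_lit 629330885) (nat_lit 228) (nat_lit 74758045) (nat_lit 209) (nat_lit 1) (nat_lit 208) (nat_lit 1) (nat_lit 211) (nat_lit 1) (nat_lit 416) (nat_lit 327) (nat_lit 277))) (XT.nd (nat_lit 78) (nat_lit 152) (nat_lit 0) (XT.lf (nat_lit 76) (nat_lit 347111871) (nat_lit 0) (nat_lit 71005542) (nat_lit 152) (nat_lit 347111871) (nat_lit 207) (nat_lit 1) (nat_lit 206) (nat_lit 1) (nat_lit 208) (nat_lit 1) (nat_lit 417) (nat_lit 327) (nat_lit 276)) (XT.lf (nat_lit 228) (nat_lit 472161170) (nat_lit 0) (nat_lit 139910072) (nat_lit 152) (nat_lit 139910072) (nat_lit 207) (nat_lit 1) (nat_lit 204) (nat_lit 1) (nat_lit 206) (nat_lit 1) (nat_lit 418) (nat_lit 327) (nat_lit 275))))))) (XT.nd (nat_lit 1014) (nat_lit 988) (nat_lit 0) (XT.nd (nat_lit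 468) (nat_lit 532) (nat_lit 0) (XT.nd (nat_lit 234) (nat_lit 304) (nat_lit 0) (XT.nd (nat_lit 78) (nat_lit 304) (nat_lit 0) (XT.lf (nat_lit 76) (nat_lit 126466330) (nat_lit 0) (nat_lit 486062954) (nat_lit 228) (nat_lit 126466330) (nat_lit 205) (nat_lit 1) (nat_lit 204) (nat_lit 1) (nat_lit 207) (nat_lit 1) (nat_lit 419) (nat_lit 327) (nat_lit 274)) (XT.nd (nat_lit 78) (nat_lit 228) (nat_lit 0) (XT.lf (nat_lit 152) (nat_lit 36303877) (nat_lit 0) (nat_lit 344975541) (nat_lit 76) (nat_lit 344975541) (nat_lit 205) (nat_lit 1) (nat_lit 203) (nat_lit 1) (nat_lit 204) (nat_lit 1) (nat_lit 420) (nat_lit 327) (nat_lit 273)) (XT.lf (nat_lit 228) (nat_lit 545971336) (nat_lit 0) (nat_lit 83926354) (nat_lit 152) (nat_lit 83926354) (nat_lit 203) (nat_lit 1) (nat_lit 200) (nat_lit 1) (nat_lit 202) (nat_lit 1) (nat_lit 421) (nat_lit 327) (nat_lit 272)))) (XT.nd (nat_lit 78) (nat_lit 304) (nat_lit 0) (XT.lf (nat_lit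 76) (nat_lit 165913402) (nat_lit 0) (nat_lit 369705078) (nat_lit 228) (nat_lit 165913402) (nat_lit 201) (nat_lit 1) (nat_lit 200) (nat_lit 1) (nat_lit 203) (nat_lit 1) (nat_lit 422) (nat_lit 327) (nat_lit 271)) (XT.nd (nat_lit 78) (nat_lit 228) (nat_lit 0) (XT.lf (nat_lit 152) (nat_lit 121916646) (nat_lit 0) (nat_lit 283812231) (nat_lit 76) (nat_lit 283812231) (nat_lit 201) (nat_lit 1) (nat_lit 199) (nat_lit 1) (nat_lit 200) (nat_lit 1) (nat_lit 423) (nat_lit 327) (nat_lit 270)) (XT.lf (nat_lit 228) (nat_lit 599194039) (nat_lit 0) (nat_lit 39353079) (nat_lit 152) (nat_lit 39353079) (nat_lit 199) (nat_lit 1) (nat_lit 196) (nat_lit 1) (nat_lit 198) (nat_lit 1) (nat_lit 424) (nat_lit 327) (nat_lit 269))))) (XT.nd (nat_lit 234) (nat_lit 228) (nat_lit 0) (XT.nd (nat_lit 78) (nat_lit 304) (nat_lit 0) (XT.lf (nat_lit 76) (nat_lit 195420452) (nat_lit 0) (nat_lit 275414314) (nat_lit 228) (nat_lit 195420452)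 (nat_lit 197) (nat_lit 1) (nat_lit 196) (nat_lit 1) (nat_lit 199) (nat_lit 1) (nat_lit 425) (nat_lit 327) (nat_lit 268)) (XT.nd (nat_lit 78) (nat_lit 228) (nat_lit 0) (XT.lf (nat_lit 152) (nat_lit 187967180) (nat_lit 0) (nat_lit 233493025) (nat_lit 76) (nat_lit 233493025) (nat_lit 197) (nat_lit 1) (nat_lit 195) (nat_lit 1) (nat_lit 196) (nat_lit 1) (nat_lit 426) (nat_lit 327) (nat_lit 267)) (XT.lf (nat_lit 228) (nat_lit 635836580) (nat_lit 0) (nat_lit 4096503) (nat_lit 152) (nat_lit 4096503) (nat_lit 195) (nat_lit 1) (nat_lit 192) (nat_lit 1) (nat_lit 194) (nat_lit 1) (nat_lit 427) (nat_lit 327) (nat_lit 266)))) (XT.nd (nat_lit 156) (nat_lit 152) (nat_lit 0) (XT.nd (nat_lit 78) (nat_lit 76) (nat_lit 0) (XT.lf (nat_lit 76) (nat_lit 216890113) (nat_lit 0) (nat_lit 199209782) (nat_lit 228) (nat_lit 216890113) (nat_lit 193) (nat_lit 1) (nat_lit 192) (nat_lit 1) (nat_lit 195) (nat_lit 1) (nat_lit 428)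 (nat_lit 327) (nat_lit 265)) (XT.lf (nat_lit 152) (nat_lit 238132544) (nat_lit 0) (nat_lit 192095289) (nat_lit 76) (nat_lit 192095289) (nat_lit 193) (nat_lit 1) (nat_lit 191) (nat_lit 1) (nat_lit 192) (nat_lit 1) (nat_lit 429) (nat_lit 327) (nat_lit 264))) (XT.nd (nat_lit 78) (nat_lit 152) (nat_lit 0) (XT.lf (nat_lit 0) (nat_lit 23948802) (nat_lit 0) (nat_lit 564080683) (nat_lit 152) (nat_lit 23948802) (nat_lit 191) (nat_lit 3) (nat_lit 191) (nat_lit 1) (nat_lit 193) (nat_lit 1) (nat_lit 430) (nat_lit 327) (nat_lit 263)) (XT.lf (nat_lit 76) (nat_lit 231881008) (nat_lit 0) (nat_lit 137819661) (nat_lit 152) (nat_lit 231881008) (nat_lit 190) (nat_lit 1) (nat_lit 189) (nat_lit 1) (nat_lit 191) (nat_lit 1) (nat_lit 431) (nat_lit 327) (nat_lit 262)))))) (XT.nd (nat_lit 468) (nat_lit 532) (nat_lit 0) (XT.nd (nat_lit 234) (nat_lit 228) (nat_lit 0) (XT.nd (nat_lit 78) (nat_lit 152) (nat_lit 0) (XT.lf (nat_lit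 152) (nat_lit 275427928) (nat_lit 0) (nat_lit 158037270) (nat_lit 76) (nat_lit 158037270) (nat_lit 190) (nat_lit 1) (nat_lit 188) (nat_lit 1) (nat_lit 189) (nat_lit 1) (nat_lit 432) (nat_lit 327) (nat_lit 261)) (XT.nd (nat_lit 78) (nat_lit 152) (nat_lit 0) (XT.lf (nat_lit 0) (nat_lit 45773459) (nat_lit 0) (nat_lit 490141293) (nat_lit 152) (nat_lit 45773459) (nat_lit 188) (nat_lit 3) (nat_lit 188) (nat_lit 1) (nat_lit 190) (nat_lit 1) (nat_lit 433) (nat_lit 327) (nat_lit 260)) (XT.lf (nat_lit 76) (nat_lit 241669056) (nat_lit 0) (nat_lit 88555319) (nat_lit 152) (nat_lit 241669056) (nat_lit 187) (nat_lit 1) (nat_lit 186) (nat_lit 1) (nat_lit 188) (nat_lit 1) (nat_lit 434) (nat_lit 327) (nat_lit 259)))) (XT.nd (nat_lit 78) (nat_lit 152) (nat_lit 0) (XT.lf (nat_lit 152) (nat_lit 302324472) (nat_lit 0) (nat_lit 130017653) (nat_lit 76) (nat_lit 130017653) (nat_lit 187) (nat_lit 1) (nat_lit 185) (nat_lit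 1) (nat_lit 186) (nat_lit 1) (nat_lit 435) (nat_lit 327) (nat_lit 258)) (XT.nd (nat_lit 78) (nat_lit 152) (nat_lit 0) (XT.lf (nat_lit 0) (nat_lit 62487194) (nat_lit 0) (nat_lit 428069712) (nat_lit 152) (nat_lit 62487194) (nat_lit 185) (nat_lit 3) (nat_lit 185) (nat_lit 1) (nat_lit 187) (nat_lit 1) (nat_lit 436) (nat_lit 327) (nat_lit 257)) (XT.lf (nat_lit 76) (nat_lit 247297898) (nat_lit 0) (nat_lit 49207769) (nat_lit 152) (nat_lit 247297898) (nat_lit 184) (nat_lit 1) (nat_lit 183) (nat_lit 1) (nat_lit 185) (nat_lit 1) (nat_lit 437) (nat_lit 327) (nat_lit 256))))) (XT.nd (nat_lit 234) (nat_lit 304) (nat_lit 0) (XT.nd (nat_lit 78) (nat_lit 152) (nat_lit 0) (XT.lf (nat_lit 152) (nat_lit 320846170) (nat_lit 0) (nat_lit 106965845) (nat_lit 76) (nat_lit 106965845) (nat_lit 184) (nat_lit 1) (nat_lit 182) (nat_lit 1) (nat_lit 183) (nat_lit 1) (nat_lit 438) (nat_lit 327) (nat_lit 255)) (XT.nd (nat_lit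 78) (nat_lit 152) (nat_lit 0) (XT.lf (nat_lit 0) (nat_lit 75055281) (nat_lit 0) (nat_lit 375820922) (nat_lit 152) (nat_lit 75055281) (nat_lit 182) (nat_lit 3) (nat_lit 182) (nat_lit 1) (nat_lit 184) (nat_lit 1) (nat_lit 439) (nat_lit 327) (nat_lit 254)) (XT.lf (nat_lit 76) (nat_lit 249620372) (nat_lit 0) (nat_lit 17962485) (nat_lit 152) (nat_lit 249620372) (nat_lit 181) (nat_lit 1) (nat_lit 180) (nat_lit 1) (nat_lit 182) (nat_lit 1) (nat_lit 440) (nat_lit 327) (nat_lit 253)))) (XT.nd (nat_lit 156) (nat_lit 228) (nat_lit 0) (XT.nd (nat_lit 78) (nat_lit 0) (nat_lit 0) (XT.lf (nat_lit 152) (nat_lit 332649585) (nat_lit 0) (nat_lit 88001065) (nat_lit 76) (nat_lit 88001065) (nat_lit 181) (nat_lit 1) (nat_lit 179) (nat_lit 1) (nat_lit 180) (nat_lit 1) (nat_lit 441) (nat_lit 327) (nat_lit 252)) (XT.lf (nat_lit 0) (nat_lit 84269033) (nat_lit 0) (nat_lit 331709671) (nat_lit 152) (nat_lit 84269033) (nat_lit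 179) (nat_lit 3) (nat_lit 179) (nat_lit 1) (nat_lit 181) (nat_lit 1) (nat_lit 442) (nat_lit 327) (nat_lit 251))) (XT.nd (nat_lit 78) (nat_lit 152) (nat_lit 0) (XT.lf (nat_lit 76) (nat_lit 6891226) (nat_lit 0) (nat_lit 242548976) (nat_lit 76) (nat_lit 242548976) (nat_lit 179) (nat_lit 3) (nat_lit 178) (nat_lit 1) (nat_lit 179) (nat_lit 1) (nat_lit 443) (nat_lit 327) (nat_lit 250)) (XT.lf (nat_lit 152) (nat_lit 339089396) (nat_lit 0) (nat_lit 72398694) (nat_lit 76) (nat_lit 72398694) (nat_lit 178) (nat_lit 1) (nat_lit 176) (nat_lit 1) (nat_lit 177) (nat_lit 1) (nat_lit 444) (nat_lit 327) (nat_lit 249))))))))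
noncomputable def ec32 : XT := (XT.nd (nat_lit 48516) (nat_lit 0) (nat_lit 2964) (XT.nd (nat_lit 47502) (nat_lit 0) (nat_lit 6384) (XT.nd (nat_lit 47034) (nat_lit 0) (nat_lit 9120) (XT.nd (nat_lit 46800) (nat_lit 0) (nat_lit 9044) (XT.nd (nat_lit 78) (nat_lit 228) (nat_lit 0) (XT.lf (nat_lit 0) (nat_lit 90776788) (nat_lit 0) (nat_lit 294346813) (nat_lit 152) (nat_lit 90776788) (nat_lit 176) (nat_lit 3) (nat_lit 176) (nat_lit 1) (nat_lit 178) (nat_lit 1) (nat_lit 445) (nat_lit 327) (nat_lit 248)) (XT.nd (nat_lit 78) (nat_lit 152) (nat_lit 0) (XT.lf (nat_lit 76) (nat_lit 26771931) (nat_lit 0) (nat_lit 220648146) (nat_lit 76) (nat_lit 220648146) (nat_lit 176) (nat_lit 3) (nat_lit 175) (nat_lit 1) (nat_lit 176) (nat_lit 1) (nat_lit 446) (nat_lit 327) (nat_lit 247)) (XT.lf (nat_lit 152) (nat_lit 341272313) (nat_lit 0) (nat_lit 59562585) (nat_lit 76) (nat_lit 59562585) (nat_lit 175) (nat_lit 1) (nat_lit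 173) (nat_lit 1) (nat_lit 174) (nat_lit 1) (nat_lit 447) (nat_lit 327) (nat_lit 246)))) (XT.nd (nat_lit 78) (nat_lit 0) (nat_lit 0) (XT.lf (nat_lit 836) (nat_lit 299211368) (nat_lit 0) (nat_lit 531249096) (nat_lit 836) (nat_lit 299211368) (nat_lit 303) (nat_lit 1) (nat_lit 292) (nat_lit 0) (nat_lit 303) (nat_lit 0) (nat_lit 364) (nat_lit 328) (nat_lit 328)) (XT.nd (nat_lit 78) (nat_lit 0) (nat_lit 76) (XT.lf (nat_lit 836) (nat_lit 1159780618) (nat_lit 76) (nat_lit 522680562) (nat_lit 0) (nat_lit 522680562) (nat_lit 303) (nat_lit 1) (nat_lit 293) (nat_lit 1) (nat_lit 292) (nat_lit 0) (nat_lit 365) (nat_lit 328) (nat_lit 327)) (XT.lf (nat_lit 836) (nat_lit 552733979) (nat_lit 0) (nat_lit 1047147534) (nat_lit 760) (nat_lit 552733979) (nat_lit 304) (nat_lit 1) (nat_lit 293) (nat_lit 1) (nat_lit 303) (nat_lit 1) (nat_lit 366) (nat_lit 328) (nat_lit 326))))) (XT.nd (nat_lit 234) (nat_lit 0) (nat_lit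 152) (XT.nd (nat_lit 78) (nat_lit 0) (nat_lit 76) (XT.lf (nat_lit 836) (nat_lit 1036852142) (nat_lit 76) (nat_lit 532467045) (nat_lit 0) (nat_lit 532467045) (nat_lit 304) (nat_lit 1) (nat_lit 294) (nat_lit 1) (nat_lit 293) (nat_lit 1) (nat_lit 367) (nat_lit 328) (nat_lit 325)) (XT.nd (nat_lit 78) (nat_lit 0) (nat_lit 0) (XT.lf (nat_lit 836) (nat_lit 477253084) (nat_lit 0) (nat_lit 1098061838) (nat_lit 760) (nat_lit 477253084) (nat_lit 305) (nat_lit 1) (nat_lit 294) (nat_lit 1) (nat_lit 304) (nat_lit 1) (nat_lit 368) (nat_lit 328) (nat_lit 324)) (XT.lf (nat_lit 836) (nat_lit 858370756) (nat_lit 76) (nat_lit 573239690) (nat_lit 0) (nat_lit 573239690) (nat_lit 305) (nat_lit 1) (nat_lit 295) (nat_lit 1) (nat_lit 294) (nat_lit 1) (nat_lit 369) (nat_lit 328) (nat_lit 323)))) (XT.nd (nat_lit 78) (nat_lit 0) (nat_lit 0) (XT.lf (nat_lit 836) (nat_lit 376370784) (nat_lit 0) (nat_lit 1205992901) (nat_lit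 760) (nat_lit 376370784) (nat_lit 306) (nat_lit 1) (nat_lit 295) (nat_lit 1) (nat_lit 305) (nat_lit 1) (nat_lit 370) (nat_lit 328) (nat_lit 322)) (XT.nd (nat_lit 78) (nat_lit 0) (nat_lit 76) (XT.lf (nat_lit 836) (nat_lit 632690844) (nat_lit 76) (nat_lit 640598840) (nat_lit 0) (nat_lit 640598840) (nat_lit 306) (nat_lit 1) (nat_lit 296) (nat_lit 1) (nat_lit 295) (nat_lit 1) (nat_lit 371) (nat_lit 328) (nat_lit 321)) (XT.lf (nat_lit 836) (nat_lit 253992420) (nat_lit 0) (nat_lit 1362699356) (nat_lit 760) (nat_lit 253992420) (nat_lit 307) (nat_lit 1) (nat_lit 296) (nat_lit 1) (nat_lit 306) (nat_lit 1) (nat_lit 372) (nat_lit 328) (nat_lit 320)))))) (XT.nd (nat_lit 468) (nat_lit 1368) (nat_lit 0) (XT.nd (nat_lit 234) (nat_lit 912) (nat_lit 0) (XT.nd (nat_lit 78) (nat_lit 684) (nat_lit 0) (XT.lf (nat_lit 836) (nat_lit 367238196) (nat_lit 76) (nat_lit 730626201) (nat_lit 0) (nat_lit 730626201) (nat_lit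 307) (nat_lit 1) (nat_lit 297) (nat_lit 1) (nat_lit 296) (nat_lit 1) (nat_lit 373) (nat_lit 328) (nat_lit 319)) (XT.nd (nat_lit 78) (nat_lit 760) (nat_lit 0) (XT.lf (nat_lit 76) (nat_lit 113586737) (nat_lit 0) (nat_lit 1560846064) (nat_lit 760) (nat_lit 113586737) (nat_lit 298) (nat_lit 1) (nat_lit 297) (nat_lit 1) (nat_lit 307) (nat_lit 1) (nat_lit 374) (nat_lit 328) (nat_lit 318)) (XT.lf (nat_lit 836) (nat_lit 68603564) (nat_lit 0) (nat_lit 839836649) (nat_lit 760) (nat_lit 839836649) (nat_lit 298) (nat_lit 1) (nat_lit 287) (nat_lit 1) (nat_lit 297) (nat_lit 1) (nat_lit 375) (nat_lit 328) (nat_lit 317)))) (XT.nd (nat_lit 78) (nat_lit 380) (nat_lit 0) (XT.lf (nat_lit 532) (nat_lit 1628048984) (nat_lit 0) (nat_lit 41096312) (nat_lit 456) (nat_lit 41096312) (nat_lit 287) (nat_lit 1) (nat_lit 280) (nat_lit 1) (nat_lit 286) (nat_lit 1) (nat_lit 376) (nat_lit 328) (nat_lit 316)) (XT.nd (nat_lit 78)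 (nat_lit 380) (nat_lit 0) (XT.lf (nat_lit 76) (nat_lit 711780182) (nat_lit 0) (nat_lit 249135268) (nat_lit 532) (nat_lit 711780182) (nat_lit 281) (nat_lit 1) (nat_lit 280) (nat_lit 1) (nat_lit 287) (nat_lit 1) (nat_lit 377) (nat_lit 328) (nat_lit 315)) (XT.lf (nat_lit 456) (nat_lit 1224790988) (nat_lit 0) (nat_lit 205977612) (nat_lit 380) (nat_lit 205977612) (nat_lit 281) (nat_lit 1) (nat_lit 275) (nat_lit 1) (nat_lit 280) (nat_lit 1) (nat_lit 378) (nat_lit 328) (nat_lit 314))))) (XT.nd (nat_lit 234) (nat_lit 988) (nat_lit 0) (XT.nd (nat_lit 78) (nat_lit 380) (nat_lit 0) (XT.lf (nat_lit 76) (nat_lit 507704139) (nat_lit 0) (nat_lit 586144269) (nat_lit 456) (nat_lit 507704139) (nat_lit 276) (nat_lit 1) (nat_lit 275) (nat_lit 1) (nat_lit 281) (nat_lit 1) (nat_lit 379) (nat_lit 328) (nat_lit 313)) (XT.nd (nat_lit 78) (nat_lit 0) (nat_lit 0) (XT.lf (nat_lit 456) (nat_lit 806542234) (nat_lit 0) (nat_lit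 380521174) (nat_lit 380) (nat_lit 380521174) (nat_lit 276) (nat_lit 1) (nat_lit 270) (nat_lit 1) (nat_lit 275) (nat_lit 1) (nat_lit 380) (nat_lit 328) (nat_lit 312)) (XT.lf (nat_lit 76) (nat_lit 297200094) (nat_lit 0) (nat_lit 940204334) (nat_lit 456) (nat_lit 297200094) (nat_lit 271) (nat_lit 1) (nat_lit 270) (nat_lit 1) (nat_lit 276) (nat_lit 1) (nat_lit 381) (nat_lit 328) (nat_lit 311)))) (XT.nd (nat_lit 156) (nat_lit 684) (nat_lit 0) (XT.nd (nat_lit 78) (nat_lit 0) (nat_lit 0) (XT.lf (nat_lit 380) (nat_lit 377195559) (nat_lit 0) (nat_lit 562638629) (nat_lit 304) (nat_lit 562638629) (nat_lit 271) (nat_lit 1) (nat_lit 266) (nat_lit 1) (nat_lit 270) (nat_lit 1) (nat_lit 382) (nat_lit 328) (nat_lit 310)) (XT.lf (nat_lit 76) (nat_lit 82075236) (nat_lit 0) (nat_lit 1307426268) (nat_lit 380) (nat_lit 82075236) (nat_lit 267) (nat_lit 1) (nat_lit 266) (nat_lit 1) (nat_lit 271) (nat_lit 1) (nat_lit 383)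 (nat_lit 328) (nat_lit 309))) (XT.nd (nat_lit 78) (nat_lit 304) (nat_lit 0) (XT.lf (nat_lit 76) (nat_lit 691589530) (nat_lit 0) (nat_lit 57921966) (nat_lit 380) (nat_lit 691589530) (nat_lit 262) (nat_lit 1) (nat_lit 261) (nat_lit 1) (nat_lit 266) (nat_lit 1) (nat_lit 384) (nat_lit 328) (nat_lit 308)) (XT.lf (nat_lit 380) (nat_lit 1143998147) (nat_lit 0) (nat_lit 133893877) (nat_lit 304) (nat_lit 133893877) (nat_lit 262) (nat_lit 1) (nat_lit 257) (nat_lit 1) (nat_lit 261) (nat_lit 1) (nat_lit 385) (nat_lit 328) (nat_lit 307))))))) (XT.nd (nat_lit 936) (nat_lit 1520) (nat_lit 0) (XT.nd (nat_lit 468) (nat_lit 988) (nat_lit 0) (XT.nd (nat_lit 234) (nat_lit 608) (nat_lit 0) (XT.nd (nat_lit 78) (nat_lit 304) (nat_lit 0) (XT.lf (nat_lit 76) (nat_lit 448726367) (nat_lit 0) (nat_lit 485520950) (nat_lit 380) (nat_lit 448726367) (nat_lit 258) (nat_lit 1) (nat_lit 257) (nat_lit 1) (nat_lit 262) (nat_lit 1)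 (nat_lit 386) (nat_lit 328) (nat_lit 306)) (XT.nd (nat_lit 78) (nat_lit 0) (nat_lit 0) (XT.lf (nat_lit 380) (nat_lit 654816595) (nat_lit 0) (nat_lit 350171989) (nat_lit 304) (nat_lit 350171989) (nat_lit 258) (nat_lit 1) (nat_lit 253) (nat_lit 1) (nat_lit 257) (nat_lit 1) (nat_lit 387) (nat_lit 328) (nat_lit 305)) (XT.lf (nat_lit 76) (nat_lit 206499930) (nat_lit 0) (nat_lit 915160860) (nat_lit 380) (nat_lit 206499930) (nat_lit 254) (nat_lit 1) (nat_lit 253) (nat_lit 1) (nat_lit 258) (nat_lit 1) (nat_lit 388) (nat_lit 328) (nat_lit 304)))) (XT.nd (nat_lit 78) (nat_lit 380) (nat_lit 0) (XT.lf (nat_lit 304) (nat_lit 167937549) (nat_lit 0) (nat_lit 566903068) (nat_lit 228) (nat_lit 566903068) (nat_lit 254) (nat_lit 1) (nat_lit 250) (nat_lit 1) (nat_lit 253) (nat_lit 1) (nat_lit 389) (nat_lit 328) (nat_lit 303)) (XT.nd (nat_lit 78) (nat_lit 0) (nat_lit 0) (XT.lf (nat_lit 380) (nat_lit 1209238042) (nat_lit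 0) (nat_lit 33554035) (nat_lit 304) (nat_lit 33554035) (nat_lit 250) (nat_lit 1) (nat_lit 245) (nat_lit 1) (nat_lit 249) (nat_lit 1) (nat_lit 390) (nat_lit 328) (nat_lit 302)) (XT.lf (nat_lit 76) (nat_lit 473183785) (nat_lit 0) (nat_lit 304721541) (nat_lit 380) (nat_lit 473183785) (nat_lit 246) (nat_lit 1) (nat_lit 245) (nat_lit 1) (nat_lit 250) (nat_lit 1) (nat_lit 391) (nat_lit 328) (nat_lit 301))))) (XT.nd (nat_lit 234) (nat_lit 532) (nat_lit 0) (XT.nd (nat_lit 78) (nat_lit 228) (nat_lit 0) (XT.lf (nat_lit 304) (nat_lit 691099878) (nat_lit 0) (nat_lit 267850453) (nat_lit 228) (nat_lit 267850453) (nat_lit 246) (nat_lit 1) (nat_lit 242) (nat_lit 1) (nat_lit 245) (nat_lit 1) (nat_lit 392) (nat_lit 328) (nat_lit 300)) (XT.nd (nat_lit 78) (nat_lit 228) (nat_lit 0) (XT.lf (nat_lit 76) (nat_lit 218329141) (nat_lit 0) (nat_lit 766471261) (nat_lit 304) (nat_lit 218329141) (nat_lit 243) (nat_lit 1) (nat_lit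 242) (nat_lit 1) (nat_lit 246) (nat_lit 1) (nat_lit 393) (nat_lit 328) (nat_lit 299)) (XT.lf (nat_lit 304) (nat_lit 181970515) (nat_lit 0) (nat_lit 499013151) (nat_lit 228) (nat_lit 499013151) (nat_lit 243) (nat_lit 1) (nat_lit 239) (nat_lit 1) (nat_lit 242) (nat_lit 1) (nat_lit 394) (nat_lit 328) (nat_lit 298)))) (XT.nd (nat_lit 78) (nat_lit 228) (nat_lit 0) (XT.lf (nat_lit 304) (nat_lit 1095176477) (nat_lit 0) (nat_lit 31273512) (nat_lit 228) (nat_lit 31273512) (nat_lit 239) (nat_lit 1) (nat_lit 235) (nat_lit 1) (nat_lit 238) (nat_lit 1) (nat_lit 395) (nat_lit 328) (nat_lit 297)) (XT.nd (nat_lit 78) (nat_lit 228) (nat_lit 0) (XT.lf (nat_lit 76) (nat_lit 414273897) (nat_lit 0) (nat_lit 306972798) (nat_lit 304) (nat_lit 414273897) (nat_lit 236) (nat_lit 1) (nat_lit 235) (nat_lit 1) (nat_lit 239) (nat_lit 1) (nat_lit 396) (nat_lit 328) (nat_lit 296)) (XT.lf (nat_lit 304) (nat_lit 569664542) (nat_lit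 0) (nat_lit 272237326) (nat_lit 228) (nat_lit 272237326) (nat_lit 236) (nat_lit 1) (nat_lit 232) (nat_lit 1) (nat_lit 235) (nat_lit 1) (nat_lit 397) (nat_lit 328) (nat_lit 295)))))) (XT.nd (nat_lit 468) (nat_lit 912) (nat_lit 0) (XT.nd (nat_lit 234) (nat_lit 152) (nat_lit 0) (XT.nd (nat_lit 78) (nat_lit 456) (nat_lit 0) (XT.lf (nat_lit 76) (nat_lit 156885150) (nat_lit 0) (nat_lit 779560954) (nat_lit 304) (nat_lit 156885150) (nat_lit 233) (nat_lit 1) (nat_lit 232) (nat_lit 1) (nat_lit 236) (nat_lit 1) (nat_lit 398) (nat_lit 328) (nat_lit 294)) (XT.nd (nat_lit 78) (nat_lit 304) (nat_lit 0) (XT.lf (nat_lit 228) (nat_lit 57487935) (nat_lit 0) (nat_lit 507713746) (nat_lit 152) (nat_lit 507713746) (nat_lit 233) (nat_lit 1) (nat_lit 230) (nat_lit 1) (nat_lit 232) (nat_lit 1) (nat_lit 399) (nat_lit 328) (nat_lit 293)) (XT.lf (nat_lit 304) (nat_lit 868623427) (nat_lit 0) (nat_lit 92254104) (nat_lit 228)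 (nat_lit 92254104) (nat_lit 230) (nat_lit 1) (nat_lit 226) (nat_lit 1) (nat_lit 229) (nat_lit 1) (nat_lit 400) (nat_lit 328) (nat_lit 292)))) (XT.nd (nat_lit 78) (nat_lit 152) (nat_lit 0) (XT.lf (nat_lit 76) (nat_lit 303389544) (nat_lit 0) (nat_lit 426790016) (nat_lit 304) (nat_lit 303389544) (nat_lit 227) (nat_lit 1) (nat_lit 226) (nat_lit 1) (nat_lit 230) (nat_lit 1) (nat_lit 401) (nat_lit 328) (nat_lit 291)) (XT.nd (nat_lit 78) (nat_lit 0) (nat_lit 0) (XT.lf (nat_lit 228) (nat_lit 350519818) (nat_lit 0) (nat_lit 332045255) (nat_lit 152) (nat_lit 332045255) (nat_lit 227) (nat_lit 1) (nat_lit 224) (nat_lit 1) (nat_lit 226) (nat_lit 1) (nat_lit 402) (nat_lit 328) (nat_lit 290)) (XT.lf (nat_lit 76) (nat_lit 50358572) (nat_lit 0) (nat_lit 895563577) (nat_lit 228) (nat_lit 50358572) (nat_lit 225) (nat_lit 1) (nat_lit 224) (nat_lit 1) (nat_lit 227) (nat_lit 1) (nat_lit 403) (nat_lit 328) (nat_lit 289)))))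 (XT.nd (nat_lit 234) (nat_lit 532) (nat_lit 0) (XT.nd (nat_lit 78) (nat_lit 152) (nat_lit 0) (XT.lf (nat_lit 76) (nat_lit 415618132) (nat_lit 0) (nat_lit 146781479) (nat_lit 228) (nat_lit 415618132) (nat_lit 222) (nat_lit 1) (nat_lit 221) (nat_lit 1) (nat_lit 224) (nat_lit 1) (nat_lit 404) (nat_lit 328) (nat_lit 288)) (XT.nd (nat_lit 78) (nat_lit 0) (nat_lit 0) (XT.lf (nat_lit 228) (nat_lit 577158619) (nat_lit 0) (nat_lit 191601024) (nat_lit 152) (nat_lit 191601024) (nat_lit 222) (nat_lit 1) (nat_lit 219) (nat_lit 1) (nat_lit 221) (nat_lit 1) (nat_lit 405) (nat_lit 328) (nat_lit 287)) (XT.lf (nat_lit 76) (nat_lit 162859147) (nat_lit 0) (nat_lit 617375558) (nat_lit 228) (nat_lit 162859147) (nat_lit 220) (nat_lit 1) (nat_lit 219) (nat_lit 1) (nat_lit 222) (nat_lit 1) (nat_lit 406) (nat_lit 328) (nat_lit 286)))) (XT.nd (nat_lit 156) (nat_lit 152) (nat_lit 0) (XT.nd (nat_lit 78) (nat_lit 228) (nat_lit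 0) (XT.lf (nat_lit 228) (nat_lit 76293646) (nat_lit 0) (nat_lit 424940722) (nat_lit 152) (nat_lit 424940722) (nat_lit 220) (nat_lit 1) (nat_lit 217) (nat_lit 1) (nat_lit 219) (nat_lit 1) (nat_lit 407) (nat_lit 328) (nat_lit 285)) (XT.lf (nat_lit 228) (nat_lit 749863251) (nat_lit 0) (nat_lit 79941656) (nat_lit 152) (nat_lit 79941656) (nat_lit 217) (nat_lit 1) (nat_lit 214) (nat_lit 1) (nat_lit 216) (nat_lit 1) (nat_lit 408) (nat_lit 328) (nat_lit 284))) (XT.nd (nat_lit 78) (nat_lit 152) (nat_lit 0) (XT.lf (nat_lit 76) (nat_lit 249631313) (nat_lit 0) (nat_lit 394195625) (nat_lit 228) (nat_lit 249631313) (nat_lit 215) (nat_lit 1) (nat_lit 214) (nat_lit 1) (nat_lit 217) (nat_lit 1) (nat_lit 409) (nat_lit 328) (nat_lit 283)) (XT.lf (nat_lit 228) (nat_lit 254237373) (nat_lit 0) (nat_lit 311702720) (nat_lit 152) (nat_lit 311702720) (nat_lit 215) (nat_lit 1) (nat_lit 212) (nat_lit 1) (nat_lit 214) (nat_lit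 1) (nat_lit 410) (nat_lit 328) (nat_lit 282))))))))
noncomputable def ec33 : XT := (XT.nd (nat_lit 1950) (nat_lit 836) (nat_lit 0) (XT.nd (nat_lit 936) (nat_lit 988) (nat_lit 0) (XT.nd (nat_lit 468) (nat_lit 608) (nat_lit 0) (XT.nd (nat_lit 234) (nat_lit 304) (nat_lit 0) (XT.nd (nat_lit 78) (nat_lit 304) (nat_lit 0) (XT.lf (nat_lit 76) (nat_lit 8356081) (nat_lit 0) (nat_lit 845669861) (nat_lit 228) (nat_lit 8356081) (nat_lit 213) (nat_lit 1) (nat_lit 212) (nat_lit 1) (nat_lit 215) (nat_lit 1) (nat_lit 411) (nat_lit 328) (nat_lit 281)) (XT.nd (nat_lit 78) (nat_lit 152) (nat_lit 0) (XT.lf (nat_lit 76) (nat_lit 315512004) (nat_lit 0) (nat_lit 216000217) (nat_lit 152) (nat_lit 315512004) (nat_lit 211) (nat_lit 1) (nat_lit 210) (nat_lit 1) (nat_lit 212) (nat_lit 1) (nat_lit 412) (nat_lit 328) (nat_lit 280)) (XT.lf (nat_lit 228) (nat_lit 391514479) (nat_lit 0) (nat_lit 220346158) (nat_lit 152) (nat_lit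 220346158) (nat_lit 211) (nat_lit 1) (nat_lit 208) (nat_lit 1) (nat_lit 210) (nat_lit 1) (nat_lit 413) (nat_lit 328) (nat_lit 279)))) (XT.nd (nat_lit 78) (nat_lit 304) (nat_lit 0) (XT.lf (nat_lit 76) (nat_lit 78495947) (nat_lit 0) (nat_lit 660797429) (nat_lit 228) (nat_lit 78495947) (nat_lit 209) (nat_lit 1) (nat_lit 208) (nat_lit 1) (nat_lit 211) (nat_lit 1) (nat_lit 414) (nat_lit 328) (nat_lit 278)) (XT.nd (nat_lit 78) (nat_lit 152) (nat_lit 0) (XT.lf (nat_lit 76) (nat_lit 364467464) (nat_lit 0) (nat_lit 74555819) (nat_lit 152) (nat_lit 364467464) (nat_lit 207) (nat_lit 1) (nat_lit 206) (nat_lit 1) (nat_lit 208) (nat_lit 1) (nat_lit 415) (nat_lit 328) (nat_lit 277)) (XT.lf (nat_lit 228) (nat_lit 495769229) (nat_lit 0) (nat_lit 146905576) (nat_lit 152) (nat_lit 146905576) (nat_lit 207) (nat_lit 1) (nat_lit 204) (nat_lit 1) (nat_lit 206) (nat_lit 1) (nat_lit 416) (nat_lit 328) (nat_lit 276)))))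 (XT.nd (nat_lit 234) (nat_lit 304) (nat_lit 0) (XT.nd (nat_lit 78) (nat_lit 304) (nat_lit 0) (XT.lf (nat_lit 76) (nat_lit 132789646) (nat_lit 0) (nat_lit 510366101) (nat_lit 228) (nat_lit 132789646) (nat_lit 205) (nat_lit 1) (nat_lit 204) (nat_lit 1) (nat_lit 207) (nat_lit 1) (nat_lit 417) (nat_lit 328) (nat_lit 275)) (XT.nd (nat_lit 78) (nat_lit 228) (nat_lit 0) (XT.lf (nat_lit 152) (nat_lit 38119071) (nat_lit 0) (nat_lit 362224318) (nat_lit 76) (nat_lit 362224318) (nat_lit 205) (nat_lit 1) (nat_lit 203) (nat_lit 1) (nat_lit 204) (nat_lit 1) (nat_lit 418) (nat_lit 328) (nat_lit 274)) (XT.lf (nat_lit 228) (nat_lit 573269903) (nat_lit 0) (nat_lit 88122672) (nat_lit 152) (nat_lit 88122672) (nat_lit 203) (nat_lit 1) (nat_lit 200) (nat_lit 1) (nat_lit 202) (nat_lit 1) (nat_lit 419) (nat_lit 328) (nat_lit 273)))) (XT.nd (nat_lit 78) (nat_lit 304) (nat_lit 0) (XT.lf (nat_lit 76) (nat_lit 174209072) (nat_lit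 0) (nat_lit 388190332) (nat_lit 228) (nat_lit 174209072) (nat_lit 201) (nat_lit 1) (nat_lit 200) (nat_lit 1) (nat_lit 203) (nat_lit 1) (nat_lit 420) (nat_lit 328) (nat_lit 272)) (XT.nd (nat_lit 78) (nat_lit 228) (nat_lit 0) (XT.lf (nat_lit 152) (nat_lit 128012479) (nat_lit 0) (nat_lit 298002843) (nat_lit 76) (nat_lit 298002843) (nat_lit 201) (nat_lit 1) (nat_lit 199) (nat_lit 1) (nat_lit 200) (nat_lit 1) (nat_lit 421) (nat_lit 328) (nat_lit 271)) (XT.lf (nat_lit 228) (nat_lit 629153741) (nat_lit 0) (nat_lit 41320733) (nat_lit 152) (nat_lit 41320733) (nat_lit 199) (nat_lit 1) (nat_lit 196) (nat_lit 1) (nat_lit 198) (nat_lit 1) (nat_lit 422) (nat_lit 328) (nat_lit 270)))))) (XT.nd (nat_lit 468) (nat_lit 608) (nat_lit 0) (XT.nd (nat_lit 234) (nat_lit 76) (nat_lit 0) (XT.nd (nat_lit 78) (nat_lit 304) (nat_lit 0) (XT.lf (nat_lit 76) (nat_lit 205191474) (nat_lit 0) (nat_lit 289185030) (nat_lit 228) (nat_lit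 205191474) (nat_lit 197) (nat_lit 1) (nat_lit 196) (nat_lit 1) (nat_lit 199) (nat_lit 1) (nat_lit 423) (nat_lit 328) (nat_lit 269)) (XT.nd (nat_lit 78) (nat_lit 228) (nat_lit 0) (XT.lf (nat_lit 152) (nat_lit 197365539) (nat_lit 0) (nat_lit 245167676) (nat_lit 76) (nat_lit 245167676) (nat_lit 197) (nat_lit 1) (nat_lit 195) (nat_lit 1) (nat_lit 196) (nat_lit 1) (nat_lit 424) (nat_lit 328) (nat_lit 268)) (XT.lf (nat_lit 228) (nat_lit 667628409) (nat_lit 0) (nat_lit 4301328) (nat_lit 152) (nat_lit 4301328) (nat_lit 195) (nat_lit 1) (nat_lit 192) (nat_lit 1) (nat_lit 194) (nat_lit 1) (nat_lit 425) (nat_lit 328) (nat_lit 267)))) (XT.nd (nat_lit 78) (nat_lit 76) (nat_lit 0) (XT.lf (nat_lit 76) (nat_lit 227734619) (nat_lit 0) (nat_lit 209170271) (nat_lit 228) (nat_lit 227734619) (nat_lit 193) (nat_lit 1) (nat_lit 192) (nat_lit 1) (nat_lit 195) (nat_lit 1) (nat_lit 426) (nat_lit 328) (nat_lit 266)) (XT.nd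 (nat_lit 78) (nat_lit 0) (nat_lit 0) (XT.lf (nat_lit 152) (nat_lit 250039171) (nat_lit 0) (nat_lit 201700054) (nat_lit 76) (nat_lit 201700054) (nat_lit 193) (nat_lit 1) (nat_lit 191) (nat_lit 1) (nat_lit 192) (nat_lit 1) (nat_lit 427) (nat_lit 328) (nat_lit 265)) (XT.lf (nat_lit 0) (nat_lit 25146243) (nat_lit 0) (nat_lit 592284717) (nat_lit 152) (nat_lit 25146243) (nat_lit 191) (nat_lit 3) (nat_lit 191) (nat_lit 1) (nat_lit 193) (nat_lit 1) (nat_lit 428) (nat_lit 328) (nat_lit 264))))) (XT.nd (nat_lit 234) (nat_lit 380) (nat_lit 0) (XT.nd (nat_lit 78) (nat_lit 76) (nat_lit 0) (XT.lf (nat_lit 76) (nat_lit 243475059) (nat_lit 0) (nat_lit 144710644) (nat_lit 152) (nat_lit 243475059) (nat_lit 190) (nat_lit 1) (nat_lit 189) (nat_lit 1) (nat_lit 191) (nat_lit 1) (nat_lit 429) (nat_lit 328) (nat_lit 263)) (XT.nd (nat_lit 78) (nat_lit 0) (nat_lit 0) (XT.lf (nat_lit 152) (nat_lit 289199325) (nat_lit 0)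 (nat_lit 165939133) (nat_lit 76) (nat_lit 165939133) (nat_lit 190) (nat_lit 1) (nat_lit 188) (nat_lit 1) (nat_lit 189) (nat_lit 1) (nat_lit 430) (nat_lit 328) (nat_lit 262)) (XT.lf (nat_lit 0) (nat_lit 48062132) (nat_lit 0) (nat_lit 514648358) (nat_lit 152) (nat_lit 48062132) (nat_lit 188) (nat_lit 3) (nat_lit 188) (nat_lit 1) (nat_lit 190) (nat_lit 1) (nat_lit 431) (nat_lit 328) (nat_lit 261)))) (XT.nd (nat_lit 156) (nat_lit 152) (nat_lit 0) (XT.nd (nat_lit 78) (nat_lit 76) (nat_lit 0) (XT.lf (nat_lit 76) (nat_lit 253752509) (nat_lit 0) (nat_lit 92983085) (nat_lit 152) (nat_lit 253752509) (nat_lit 187) (nat_lit 1) (nat_lit 186) (nat_lit 1) (nat_lit 188) (nat_lit 1) (nat_lit 432) (nat_lit 328) (nat_lit 260)) (XT.lf (nat_lit 152) (nat_lit 317440695) (nat_lit 0) (nat_lit 136518535) (nat_lit 76) (nat_lit 136518535) (nat_lit 187) (nat_lit 1) (nat_lit 185) (nat_lit 1) (nat_lit 186) (nat_lit 1) (nat_lit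 433) (nat_lit 328) (nat_lit 259))) (XT.nd (nat_lit 78) (nat_lit 152) (nat_lit 0) (XT.lf (nat_lit 0) (nat_lit 65611554) (nat_lit 0) (nat_lit 449473197) (nat_lit 152) (nat_lit 65611554) (nat_lit 185) (nat_lit 3) (nat_lit 185) (nat_lit 1) (nat_lit 187) (nat_lit 1) (nat_lit 434) (nat_lit 328) (nat_lit 258)) (XT.lf (nat_lit 76) (nat_lit 259662793) (nat_lit 0) (nat_lit 51668157) (nat_lit 152) (nat_lit 259662793) (nat_lit 184) (nat_lit 1) (nat_lit 183) (nat_lit 1) (nat_lit 185) (nat_lit 1) (nat_lit 435) (nat_lit 328) (nat_lit 257))))))) (XT.nd (nat_lit 47346) (nat_lit 0) (nat_lit 8208) (XT.nd (nat_lit 468) (nat_lit 456) (nat_lit 0) (XT.nd (nat_lit 234) (nat_lit 152) (nat_lit 0) (XT.nd (nat_lit 78) (nat_lit 152) (nat_lit 0) (XT.lf (nat_lit 152) (nat_lit 336888479) (nat_lit 0) (nat_lit 112314137) (nat_lit 76) (nat_lit 112314137) (nat_lit 184) (nat_lit 1) (nat_lit 182) (nat_lit 1) (nat_lit 183) (nat_lit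 1) (nat_lit 436) (nat_lit 328) (nat_lit 256)) (XT.nd (nat_lit 78) (nat_lit 152) (nat_lit 0) (XT.lf (nat_lit 0) (nat_lit 78808045) (nat_lit 0) (nat_lit 394611969) (nat_lit 152) (nat_lit 78808045) (nat_lit 182) (nat_lit 3) (nat_lit 182) (nat_lit 1) (nat_lit 184) (nat_lit 1) (nat_lit 437) (nat_lit 328) (nat_lit 255)) (XT.lf (nat_lit 76) (nat_lit 262101391) (nat_lit 0) (nat_lit 18860610) (nat_lit 152) (nat_lit 262101391) (nat_lit 181) (nat_lit 1) (nat_lit 180) (nat_lit 1) (nat_lit 182) (nat_lit 1) (nat_lit 438) (nat_lit 328) (nat_lit 254)))) (XT.nd (nat_lit 78) (nat_lit 76) (nat_lit 0) (XT.lf (nat_lit 152) (nat_lit 349282065) (nat_lit 0) (nat_lit 92401118) (nat_lit 76) (nat_lit 92401118) (nat_lit 181) (nat_lit 1) (nat_lit 179) (nat_lit 1) (nat_lit 180) (nat_lit 1) (nat_lit 439) (nat_lit 328) (nat_lit 253)) (XT.nd (nat_lit 78) (nat_lit 76) (nat_lit 0) (XT.lf (nat_lit 0) (nat_lit 88482485) (nat_lit 0)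 (nat_lit 348295154) (nat_lit 152) (nat_lit 88482485) (nat_lit 179) (nat_lit 3) (nat_lit 179) (nat_lit 1) (nat_lit 181) (nat_lit 1) (nat_lit 440) (nat_lit 328) (nat_lit 252)) (XT.lf (nat_lit 76) (nat_lit 7235787) (nat_lit 0) (nat_lit 254676425) (nat_lit 76) (nat_lit 254676425) (nat_lit 179) (nat_lit 3) (nat_lit 178) (nat_lit 1) (nat_lit 179) (nat_lit 1) (nat_lit 441) (nat_lit 328) (nat_lit 251))))) (XT.nd (nat_lit 234) (nat_lit 228) (nat_lit 0) (XT.nd (nat_lit 78) (nat_lit 76) (nat_lit 0) (XT.lf (nat_lit 152) (nat_lit 356043866) (nat_lit 0) (nat_lit 76018629) (nat_lit 76) (nat_lit 76018629) (nat_lit 178) (nat_lit 1) (nat_lit 176) (nat_lit 1) (nat_lit 177) (nat_lit 1) (nat_lit 442) (nat_lit 328) (nat_lit 250)) (XT.nd (nat_lit 78) (nat_lit 76) (nat_lit 0) (XT.lf (nat_lit 0) (nat_lit 95315627) (nat_lit 0) (nat_lit 309064153) (nat_lit 152) (nat_lit 95315627) (nat_lit 176) (nat_lit 3) (nat_lit 176) (nat_lit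 1) (nat_lit 178) (nat_lit 1) (nat_lit 443) (nat_lit 328) (nat_lit 249)) (XT.lf (nat_lit 76) (nat_lit 28110528) (nat_lit 0) (nat_lit 231680553) (nat_lit 76) (nat_lit 231680553) (nat_lit 176) (nat_lit 3) (nat_lit 175) (nat_lit 1) (nat_lit 176) (nat_lit 1) (nat_lit 444) (nat_lit 328) (nat_lit 248)))) (XT.nd (nat_lit 78) (nat_lit 76) (nat_lit 0) (XT.lf (nat_lit 152) (nat_lit 358335929) (nat_lit 0) (nat_lit 62540714) (nat_lit 76) (nat_lit 62540714) (nat_lit 175) (nat_lit 1) (nat_lit 173) (nat_lit 1) (nat_lit 174) (nat_lit 1) (nat_lit 445) (nat_lit 328) (nat_lit 247)) (XT.nd (nat_lit 78) (nat_lit 76) (nat_lit 0) (XT.lf (nat_lit 0) (nat_lit 99864848) (nat_lit 0) (nat_lit 275716289) (nat_lit 152) (nat_lit 99864848) (nat_lit 173) (nat_lit 3) (nat_lit 173) (nat_lit 1) (nat_lit 175) (nat_lit 1) (nat_lit 446) (nat_lit 328) (nat_lit 246)) (XT.lf (nat_lit 76) (nat_lit 44229104) (nat_lit 0) (nat_lit 211706667)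 (nat_lit 76) (nat_lit 211706667) (nat_lit 173) (nat_lit 3) (nat_lit 172) (nat_lit 1) (nat_lit 173) (nat_lit 1) (nat_lit 447) (nat_lit 328) (nat_lit 245)))))) (XT.nd (nat_lit 468) (nat_lit 912) (nat_lit 0) (XT.nd (nat_lit 234) (nat_lit 0) (nat_lit 76) (XT.nd (nat_lit 78) (nat_lit 0) (nat_lit 0) (XT.lf (nat_lit 836) (nat_lit 314171936) (nat_lit 0) (nat_lit 557811551) (nat_lit 836) (nat_lit 314171936) (nat_lit 303) (nat_lit 1) (nat_lit 292) (nat_lit 0) (nat_lit 303) (nat_lit 0) (nat_lit 362) (nat_lit 329) (nat_lit 329)) (XT.nd (nat_lit 78) (nat_lit 0) (nat_lit 76) (XT.lf (nat_lit 836) (nat_lit 1217769649) (nat_lit 76) (nat_lit 548814590) (nat_lit 0) (nat_lit 548814590) (nat_lit 303) (nat_lit 1) (nat_lit 293) (nat_lit 1) (nat_lit 292) (nat_lit 0) (nat_lit 363) (nat_lit 329) (nat_lit 328)) (XT.lf (nat_lit 836) (nat_lit 580370678) (nat_lit 0) (nat_lit 1099504911) (nat_lit 760) (nat_lit 580370678) (nat_lit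 304) (nat_lit 1) (nat_lit 293) (nat_lit 1) (nat_lit 303) (nat_lit 1) (nat_lit 364) (nat_lit 329) (nat_lit 327)))) (XT.nd (nat_lit 78) (nat_lit 0) (nat_lit 76) (XT.lf (nat_lit 836) (nat_lit 1088694749) (nat_lit 76) (nat_lit 559090398) (nat_lit 0) (nat_lit 559090398) (nat_lit 304) (nat_lit 1) (nat_lit 294) (nat_lit 1) (nat_lit 293) (nat_lit 1) (nat_lit 365) (nat_lit 329) (nat_lit 326)) (XT.nd (nat_lit 78) (nat_lit 0) (nat_lit 0) (XT.lf (nat_lit 836) (nat_lit 501115738) (nat_lit 0) (nat_lit 1152964930) (nat_lit 760) (nat_lit 501115738) (nat_lit 305) (nat_lit 1) (nat_lit 294) (nat_lit 1) (nat_lit 304) (nat_lit 1) (nat_lit 366) (nat_lit 329) (nat_lit 325)) (XT.lf (nat_lit 836) (nat_lit 901289293) (nat_lit 76) (nat_lit 601901675) (nat_lit 0) (nat_lit 601901675) (nat_lit 305) (nat_lit 1) (nat_lit 295) (nat_lit 1) (nat_lit 294) (nat_lit 1) (nat_lit 367) (nat_lit 329) (nat_lit 324))))) (XT.nd (nat_lit 234)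 (nat_lit 1140) (nat_lit 0) (XT.nd (nat_lit 78) (nat_lit 0) (nat_lit 0) (XT.lf (nat_lit 836) (nat_lit 395189323) (nat_lit 0) (nat_lit 1266292546) (nat_lit 760) (nat_lit 395189323) (nat_lit 306) (nat_lit 1) (nat_lit 295) (nat_lit 1) (nat_lit 305) (nat_lit 1) (nat_lit 368) (nat_lit 329) (nat_lit 323)) (XT.nd (nat_lit 78) (nat_lit 0) (nat_lit 76) (XT.lf (nat_lit 836) (nat_lit 664325387) (nat_lit 76) (nat_lit 672628782) (nat_lit 0) (nat_lit 672628782) (nat_lit 306) (nat_lit 1) (nat_lit 296) (nat_lit 1) (nat_lit 295) (nat_lit 1) (nat_lit 369) (nat_lit 329) (nat_lit 322)) (XT.lf (nat_lit 836) (nat_lit 266692041) (nat_lit 0) (nat_lit 1430834324) (nat_lit 760) (nat_lit 266692041) (nat_lit 307) (nat_lit 1) (nat_lit 296) (nat_lit 1) (nat_lit 306) (nat_lit 1) (nat_lit 370) (nat_lit 329) (nat_lit 321)))) (XT.nd (nat_lit 156) (nat_lit 1216) (nat_lit 0) (XT.nd (nat_lit 78) (nat_lit 0) (nat_lit 76) (XT.lf (nat_lit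 836) (nat_lit 385600106) (nat_lit 76) (nat_lit 767157511) (nat_lit 0) (nat_lit 767157511) (nat_lit 307) (nat_lit 1) (nat_lit 297) (nat_lit 1) (nat_lit 296) (nat_lit 1) (nat_lit 371) (nat_lit 329) (nat_lit 320)) (XT.lf (nat_lit 76) (nat_lit 119266074) (nat_lit 0) (nat_lit 1638888367) (nat_lit 760) (nat_lit 119266074) (nat_lit 298) (nat_lit 1) (nat_lit 297) (nat_lit 1) (nat_lit 307) (nat_lit 1) (nat_lit 372) (nat_lit 329) (nat_lit 319))) (XT.nd (nat_lit 78) (nat_lit 532) (nat_lit 0) (XT.lf (nat_lit 836) (nat_lit 72033742) (nat_lit 0) (nat_lit 881828482) (nat_lit 760) (nat_lit 881828482) (nat_lit 298) (nat_lit 1) (nat_lit 287) (nat_lit 1) (nat_lit 297) (nat_lit 1) (nat_lit 373) (nat_lit 329) (nat_lit 318)) (XT.lf (nat_lit 532) (nat_lit 1709451433) (nat_lit 0) (nat_lit 43151128) (nat_lit 456) (nat_lit 43151128) (nat_lit 287) (nat_lit 1) (nat_lit 280) (nat_lit 1) (nat_lit 286) (nat_lit 1) (nat_lit 374)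 (nat_lit 329) (nat_lit 317))))))))
noncomputable def ec34 : XT := (XT.nd (nat_lit 1950) (nat_lit 2584) (nat_lit 0) (XT.nd (nat_lit 936) (nat_lit 2052) (nat_lit 0) (XT.nd (nat_lit 468) (nat_lit 988) (nat_lit 0) (XT.nd (nat_lit 234) (nat_lit 684) (nat_lit 0) (XT.nd (nat_lit 78) (nat_lit 380) (nat_lit 0) (XT.lf (nat_lit 76) (nat_lit 747369191) (nat_lit 0) (nat_lit 261592032) (nat_lit 532) (nat_lit 747369191) (nat_lit 281) (nat_lit 1) (nat_lit 280) (nat_lit 1) (nat_lit 287) (nat_lit 1) (nat_lit 375) (nat_lit 329) (nat_lit 316)) (XT.nd (nat_lit 78) (nat_lit 0) (nat_lit 0) (XT.lf (nat_lit 456) (nat_lit 1286030537) (nat_lit 0) (nat_lit 216276493) (nat_lit 380) (nat_lit 216276493) (nat_lit 281) (nat_lit 1) (nat_lit 275) (nat_lit 1) (nat_lit 280) (nat_lit 1) (nat_lit 376) (nat_lit 329) (nat_lit 315)) (XT.lf (nat_lit 76) (nat_lit 533089346) (nat_lit 0) (nat_lit 615451482) (nat_lit 456) (nat_lit 533089346)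 (nat_lit 276) (nat_lit 1) (nat_lit 275) (nat_lit 1) (nat_lit 281) (nat_lit 1) (nat_lit 377) (nat_lit 329) (nat_lit 314)))) (XT.nd (nat_lit 78) (nat_lit 304) (nat_lit 0) (XT.lf (nat_lit 456) (nat_lit 846869346) (nat_lit 0) (nat_lit 399547233) (nat_lit 380) (nat_lit 399547233) (nat_lit 276) (nat_lit 1) (nat_lit 270) (nat_lit 1) (nat_lit 275) (nat_lit 1) (nat_lit 378) (nat_lit 329) (nat_lit 313)) (XT.nd (nat_lit 78) (nat_lit 304) (nat_lit 0) (XT.lf (nat_lit 76) (nat_lit 312060099) (nat_lit 0) (nat_lit 987214551) (nat_lit 456) (nat_lit 312060099) (nat_lit 271) (nat_lit 1) (nat_lit 270) (nat_lit 1) (nat_lit 276) (nat_lit 1) (nat_lit 379) (nat_lit 329) (nat_lit 312)) (XT.lf (nat_lit 380) (nat_lit 396055337) (nat_lit 0) (nat_lit 590770561) (nat_lit 304) (nat_lit 590770561) (nat_lit 271) (nat_lit 1) (nat_lit 266) (nat_lit 1) (nat_lit 270) (nat_lit 1) (nat_lit 380) (nat_lit 329) (nat_lit 311))))) (XT.nd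 (nat_lit 234) (nat_lit 304) (nat_lit 0) (XT.nd (nat_lit 78) (nat_lit 684) (nat_lit 0) (XT.lf (nat_lit 76) (nat_lit 86178998) (nat_lit 0) (nat_lit 1372797581) (nat_lit 380) (nat_lit 86178998) (nat_lit 267) (nat_lit 1) (nat_lit 266) (nat_lit 1) (nat_lit 271) (nat_lit 1) (nat_lit 381) (nat_lit 329) (nat_lit 310)) (XT.nd (nat_lit 78) (nat_lit 304) (nat_lit 0) (XT.lf (nat_lit 76) (nat_lit 726169006) (nat_lit 0) (nat_lit 60818064) (nat_lit 380) (nat_lit 726169006) (nat_lit 262) (nat_lit 1) (nat_lit 261) (nat_lit 1) (nat_lit 266) (nat_lit 1) (nat_lit 382) (nat_lit 329) (nat_lit 309)) (XT.lf (nat_lit 380) (nat_lit 1201198055) (nat_lit 0) (nat_lit 140588571) (nat_lit 304) (nat_lit 140588571) (nat_lit 262) (nat_lit 1) (nat_lit 257) (nat_lit 1) (nat_lit 261) (nat_lit 1) (nat_lit 383) (nat_lit 329) (nat_lit 308)))) (XT.nd (nat_lit 78) (nat_lit 304) (nat_lit 0) (XT.lf (nat_lit 76) (nat_lit 471162685) (nat_lit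 0) (nat_lit 509796998) (nat_lit 380) (nat_lit 471162685) (nat_lit 258) (nat_lit 1) (nat_lit 257) (nat_lit 1) (nat_lit 262) (nat_lit 1) (nat_lit 384) (nat_lit 329) (nat_lit 307)) (XT.nd (nat_lit 78) (nat_lit 0) (nat_lit 0) (XT.lf (nat_lit 380) (nat_lit 687557425) (nat_lit 0) (nat_lit 367680588) (nat_lit 304) (nat_lit 367680588) (nat_lit 258) (nat_lit 1) (nat_lit 253) (nat_lit 1) (nat_lit 257) (nat_lit 1) (nat_lit 385) (nat_lit 329) (nat_lit 306)) (XT.lf (nat_lit 76) (nat_lit 216824926) (nat_lit 0) (nat_lit 960918903) (nat_lit 380) (nat_lit 216824926) (nat_lit 254) (nat_lit 1) (nat_lit 253) (nat_lit 1) (nat_lit 258) (nat_lit 1) (nat_lit 386) (nat_lit 329) (nat_lit 305)))))) (XT.nd (nat_lit 468) (nat_lit 988) (nat_lit 0) (XT.nd (nat_lit 234) (nat_lit 456) (nat_lit 0) (XT.nd (nat_lit 78) (nat_lit 380) (nat_lit 0) (XT.lf (nat_lit 304) (nat_lit 176334426) (nat_lit 0) (nat_lit 595248222) (nat_lit 228)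 (nat_lit 595248222) (nat_lit 254) (nat_lit 1) (nat_lit 250) (nat_lit 1) (nat_lit 253) (nat_lit 1) (nat_lit 387) (nat_lit 329) (nat_lit 304)) (XT.nd (nat_lit 78) (nat_lit 0) (nat_lit 0) (XT.lf (nat_lit 380) (nat_lit 1269699944) (nat_lit 0) (nat_lit 35231737) (nat_lit 304) (nat_lit 35231737) (nat_lit 250) (nat_lit 1) (nat_lit 245) (nat_lit 1) (nat_lit 249) (nat_lit 1) (nat_lit 388) (nat_lit 329) (nat_lit 303)) (XT.lf (nat_lit 76) (nat_lit 496842975) (nat_lit 0) (nat_lit 319957618) (nat_lit 380) (nat_lit 496842975) (nat_lit 246) (nat_lit 1) (nat_lit 245) (nat_lit 1) (nat_lit 250) (nat_lit 1) (nat_lit 389) (nat_lit 329) (nat_lit 302)))) (XT.nd (nat_lit 78) (nat_lit 228) (nat_lit 0) (XT.lf (nat_lit 304) (nat_lit 725654872) (nat_lit 0) (nat_lit 281242976) (nat_lit 228) (nat_lit 281242976) (nat_lit 246) (nat_lit 1) (nat_lit 242) (nat_lit 1) (nat_lit 245) (nat_lit 1) (nat_lit 390) (nat_lit 329) (nat_lit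 301)) (XT.nd (nat_lit 78) (nat_lit 228) (nat_lit 0) (XT.lf (nat_lit 76) (nat_lit 229245599) (nat_lit 0) (nat_lit 804794824) (nat_lit 304) (nat_lit 229245599) (nat_lit 243) (nat_lit 1) (nat_lit 242) (nat_lit 1) (nat_lit 246) (nat_lit 1) (nat_lit 391) (nat_lit 329) (nat_lit 300)) (XT.lf (nat_lit 304) (nat_lit 191069041) (nat_lit 0) (nat_lit 523963809) (nat_lit 228) (nat_lit 523963809) (nat_lit 243) (nat_lit 1) (nat_lit 239) (nat_lit 1) (nat_lit 242) (nat_lit 1) (nat_lit 392) (nat_lit 329) (nat_lit 299))))) (XT.nd (nat_lit 234) (nat_lit 456) (nat_lit 0) (XT.nd (nat_lit 78) (nat_lit 228) (nat_lit 0) (XT.lf (nat_lit 304) (nat_lit 1149935301) (nat_lit 0) (nat_lit 32837188) (nat_lit 228) (nat_lit 32837188) (nat_lit 239) (nat_lit 1) (nat_lit 235) (nat_lit 1) (nat_lit 238) (nat_lit 1) (nat_lit 393) (nat_lit 329) (nat_lit 298)) (XT.nd (nat_lit 78) (nat_lit 228) (nat_lit 0) (XT.lf (nat_lit 76) (nat_lit 434987592)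 (nat_lit 0) (nat_lit 322321438) (nat_lit 304) (nat_lit 434987592) (nat_lit 236) (nat_lit 1) (nat_lit 235) (nat_lit 1) (nat_lit 239) (nat_lit 1) (nat_lit 394) (nat_lit 329) (nat_lit 297)) (XT.lf (nat_lit 304) (nat_lit 598147769) (nat_lit 0) (nat_lit 285849192) (nat_lit 228) (nat_lit 285849192) (nat_lit 236) (nat_lit 1) (nat_lit 232) (nat_lit 1) (nat_lit 235) (nat_lit 1) (nat_lit 395) (nat_lit 329) (nat_lit 296)))) (XT.nd (nat_lit 156) (nat_lit 304) (nat_lit 0) (XT.nd (nat_lit 78) (nat_lit 152) (nat_lit 0) (XT.lf (nat_lit 76) (nat_lit 164729407) (nat_lit 0) (nat_lit 818539001) (nat_lit 304) (nat_lit 164729407) (nat_lit 233) (nat_lit 1) (nat_lit 232) (nat_lit 1) (nat_lit 236) (nat_lit 1) (nat_lit 396) (nat_lit 329) (nat_lit 295)) (XT.lf (nat_lit 228) (nat_lit 60362332) (nat_lit 0) (nat_lit 533099433) (nat_lit 152) (nat_lit 533099433) (nat_lit 233) (nat_lit 1) (nat_lit 230) (nat_lit 1) (nat_lit 232)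 (nat_lit 1) (nat_lit 397) (nat_lit 329) (nat_lit 294))) (XT.nd (nat_lit 78) (nat_lit 0) (nat_lit 0) (XT.lf (nat_lit 304) (nat_lit 912054598) (nat_lit 0) (nat_lit 96866809) (nat_lit 228) (nat_lit 96866809) (nat_lit 230) (nat_lit 1) (nat_lit 226) (nat_lit 1) (nat_lit 229) (nat_lit 1) (nat_lit 398) (nat_lit 329) (nat_lit 293)) (XT.lf (nat_lit 76) (nat_lit 318559021) (nat_lit 0) (nat_lit 448129517) (nat_lit 304) (nat_lit 318559021) (nat_lit 227) (nat_lit 1) (nat_lit 226) (nat_lit 1) (nat_lit 230) (nat_lit 1) (nat_lit 399) (nat_lit 329) (nat_lit 292))))))) (XT.nd (nat_lit 936) (nat_lit 1216) (nat_lit 0) (XT.nd (nat_lit 468) (nat_lit 684) (nat_lit 0) (XT.nd (nat_lit 234) (nat_lit 304) (nat_lit 0) (XT.nd (nat_lit 78) (nat_lit 228) (nat_lit 0) (XT.lf (nat_lit 228) (nat_lit 368045809) (nat_lit 0) (nat_lit 348647518) (nat_lit 152) (nat_lit 348647518) (nat_lit 227) (nat_lit 1) (nat_lit 224) (nat_lit 1) (nat_lit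 226) (nat_lit 1) (nat_lit 400) (nat_lit 329) (nat_lit 291)) (XT.nd (nat_lit 78) (nat_lit 228) (nat_lit 0) (XT.lf (nat_lit 76) (nat_lit 52876500) (nat_lit 0) (nat_lit 940341756) (nat_lit 228) (nat_lit 52876500) (nat_lit 225) (nat_lit 1) (nat_lit 224) (nat_lit 1) (nat_lit 227) (nat_lit 1) (nat_lit 401) (nat_lit 329) (nat_lit 290)) (XT.lf (nat_lit 76) (nat_lit 436399038) (nat_lit 0) (nat_lit 154120553) (nat_lit 228) (nat_lit 436399038) (nat_lit 222) (nat_lit 1) (nat_lit 221) (nat_lit 1) (nat_lit 224) (nat_lit 1) (nat_lit 402) (nat_lit 329) (nat_lit 289)))) (XT.nd (nat_lit 78) (nat_lit 152) (nat_lit 0) (XT.lf (nat_lit 228) (nat_lit 606016550) (nat_lit 0) (nat_lit 201181075) (nat_lit 152) (nat_lit 201181075) (nat_lit 222) (nat_lit 1) (nat_lit 219) (nat_lit 1) (nat_lit 221) (nat_lit 1) (nat_lit 403) (nat_lit 329) (nat_lit 288)) (XT.nd (nat_lit 78) (nat_lit 152) (nat_lit 0) (XT.lf (nat_lit 76) (nat_lit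 171002104) (nat_lit 0) (nat_lit 648244336) (nat_lit 228) (nat_lit 171002104) (nat_lit 220) (nat_lit 1) (nat_lit 219) (nat_lit 1) (nat_lit 222) (nat_lit 1) (nat_lit 404) (nat_lit 329) (nat_lit 287)) (XT.lf (nat_lit 228) (nat_lit 80108329) (nat_lit 0) (nat_lit 446187758) (nat_lit 152) (nat_lit 446187758) (nat_lit 220) (nat_lit 1) (nat_lit 217) (nat_lit 1) (nat_lit 219) (nat_lit 1) (nat_lit 405) (nat_lit 329) (nat_lit 286))))) (XT.nd (nat_lit 234) (nat_lit 304) (nat_lit 0) (XT.nd (nat_lit 78) (nat_lit 152) (nat_lit 0) (XT.lf (nat_lit 228) (nat_lit 787356413) (nat_lit 0) (nat_lit 83938739) (nat_lit 152) (nat_lit 83938739) (nat_lit 217) (nat_lit 1) (nat_lit 214) (nat_lit 1) (nat_lit 216) (nat_lit 1) (nat_lit 406) (nat_lit 329) (nat_lit 285)) (XT.nd (nat_lit 78) (nat_lit 152) (nat_lit 0) (XT.lf (nat_lit 76) (nat_lit 262112879) (nat_lit 0) (nat_lit 413905407) (nat_lit 228) (nat_lit 262112879) (nat_lit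 215) (nat_lit 1) (nat_lit 214) (nat_lit 1) (nat_lit 217) (nat_lit 1) (nat_lit 407) (nat_lit 329) (nat_lit 284)) (XT.lf (nat_lit 228) (nat_lit 266949242) (nat_lit 0) (nat_lit 327287856) (nat_lit 152) (nat_lit 327287856) (nat_lit 215) (nat_lit 1) (nat_lit 212) (nat_lit 1) (nat_lit 214) (nat_lit 1) (nat_lit 408) (nat_lit 329) (nat_lit 283)))) (XT.nd (nat_lit 78) (nat_lit 304) (nat_lit 0) (XT.lf (nat_lit 76) (nat_lit 8773885) (nat_lit 0) (nat_lit 887953354) (nat_lit 228) (nat_lit 8773885) (nat_lit 213) (nat_lit 1) (nat_lit 212) (nat_lit 1) (nat_lit 215) (nat_lit 1) (nat_lit 409) (nat_lit 329) (nat_lit 282)) (XT.nd (nat_lit 78) (nat_lit 152) (nat_lit 0) (XT.lf (nat_lit 76) (nat_lit 331287605) (nat_lit 0) (nat_lit 226800228) (nat_lit 152) (nat_lit 331287605) (nat_lit 211) (nat_lit 1) (nat_lit 210) (nat_lit 1) (nat_lit 212) (nat_lit 1) (nat_lit 410) (nat_lit 329) (nat_lit 281)) (XT.lf (nat_lit 228) (nat_lit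 411090203) (nat_lit 0) (nat_lit 231363466) (nat_lit 152) (nat_lit 231363466) (nat_lit 211) (nat_lit 1) (nat_lit 208) (nat_lit 1) (nat_lit 210) (nat_lit 1) (nat_lit 411) (nat_lit 329) (nat_lit 280)))))) (XT.nd (nat_lit 468) (nat_lit 608) (nat_lit 0) (XT.nd (nat_lit 234) (nat_lit 304) (nat_lit 0) (XT.nd (nat_lit 78) (nat_lit 304) (nat_lit 0) (XT.lf (nat_lit 76) (nat_lit 82420744) (nat_lit 0) (nat_lit 693837301) (nat_lit 228) (nat_lit 82420744) (nat_lit 209) (nat_lit 1) (nat_lit 208) (nat_lit 1) (nat_lit 211) (nat_lit 1) (nat_lit 412) (nat_lit 329) (nat_lit 279)) (XT.nd (nat_lit 78) (nat_lit 152) (nat_lit 0) (XT.lf (nat_lit 76) (nat_lit 382690837) (nat_lit 0) (nat_lit 78283610) (nat_lit 152) (nat_lit 382690837) (nat_lit 207) (nat_lit 1) (nat_lit 206) (nat_lit 1) (nat_lit 208) (nat_lit 1) (nat_lit 413) (nat_lit 329) (nat_lit 278)) (XT.lf (nat_lit 228) (nat_lit 520557690) (nat_lit 0) (nat_lit 154250854)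 (nat_lit 152) (nat_lit 154250854) (nat_lit 207) (nat_lit 1) (nat_lit 204) (nat_lit 1) (nat_lit 206) (nat_lit 1) (nat_lit 414) (nat_lit 329) (nat_lit 277)))) (XT.nd (nat_lit 78) (nat_lit 304) (nat_lit 0) (XT.lf (nat_lit 76) (nat_lit 139429129) (nat_lit 0) (nat_lit 535884407) (nat_lit 228) (nat_lit 139429129) (nat_lit 205) (nat_lit 1) (nat_lit 204) (nat_lit 1) (nat_lit 207) (nat_lit 1) (nat_lit 415) (nat_lit 329) (nat_lit 276)) (XT.nd (nat_lit 78) (nat_lit 228) (nat_lit 0) (XT.lf (nat_lit 152) (nat_lit 40025025) (nat_lit 0) (nat_lit 380335534) (nat_lit 76) (nat_lit 380335534) (nat_lit 205) (nat_lit 1) (nat_lit 203) (nat_lit 1) (nat_lit 204) (nat_lit 1) (nat_lit 416) (nat_lit 329) (nat_lit 275)) (XT.lf (nat_lit 228) (nat_lit 601933398) (nat_lit 0) (nat_lit 92528806) (nat_lit 152) (nat_lit 92528806) (nat_lit 203) (nat_lit 1) (nat_lit 200) (nat_lit 1) (nat_lit 202) (nat_lit 1) (nat_lit 417) (nat_lit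 329) (nat_lit 274))))) (XT.nd (nat_lit 234) (nat_lit 304) (nat_lit 0) (XT.nd (nat_lit 78) (nat_lit 304) (nat_lit 0) (XT.lf (nat_lit 76) (nat_lit 182919526) (nat_lit 0) (nat_lit 407599849) (nat_lit 228) (nat_lit 182919526) (nat_lit 201) (nat_lit 1) (nat_lit 200) (nat_lit 1) (nat_lit 203) (nat_lit 1) (nat_lit 418) (nat_lit 329) (nat_lit 273)) (XT.nd (nat_lit 78) (nat_lit 228) (nat_lit 0) (XT.lf (nat_lit 152) (nat_lit 134413103) (nat_lit 0) (nat_lit 312902985) (nat_lit 76) (nat_lit 312902985) (nat_lit 201) (nat_lit 1) (nat_lit 199) (nat_lit 1) (nat_lit 200) (nat_lit 1) (nat_lit 419) (nat_lit 329) (nat_lit 272)) (XT.lf (nat_lit 228) (nat_lit 660611428) (nat_lit 0) (nat_lit 43386769) (nat_lit 152) (nat_lit 43386769) (nat_lit 199) (nat_lit 1) (nat_lit 196) (nat_lit 1) (nat_lit 198) (nat_lit 1) (nat_lit 420) (nat_lit 329) (nat_lit 271)))) (XT.nd (nat_lit 156) (nat_lit 228) (nat_lit 0) (XT.nd (nat_lit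 78) (nat_lit 76) (nat_lit 0) (XT.lf (nat_lit 76) (nat_lit 215451048) (nat_lit 0) (nat_lit 303644281) (nat_lit 228) (nat_lit 215451048) (nat_lit 197) (nat_lit 1) (nat_lit 196) (nat_lit 1) (nat_lit 199) (nat_lit 1) (nat_lit 421) (nat_lit 329) (nat_lit 270)) (XT.lf (nat_lit 152) (nat_lit 207233816) (nat_lit 0) (nat_lit 257426060) (nat_lit 76) (nat_lit 257426060) (nat_lit 197) (nat_lit 1) (nat_lit 195) (nat_lit 1) (nat_lit 196) (nat_lit 1) (nat_lit 422) (nat_lit 329) (nat_lit 269))) (XT.nd (nat_lit 78) (nat_lit 0) (nat_lit 0) (XT.lf (nat_lit 228) (nat_lit 701009829) (nat_lit 0) (nat_lit 4516395) (nat_lit 152) (nat_lit 4516395) (nat_lit 195) (nat_lit 1) (nat_lit 192) (nat_lit 1) (nat_lit 194) (nat_lit 1) (nat_lit 423) (nat_lit 329) (nat_lit 268)) (XT.lf (nat_lit 76) (nat_lit 239121350) (nat_lit 0) (nat_lit 219628785) (nat_lit 228) (nat_lit 239121350) (nat_lit 193) (nat_lit 1) (nat_lit 192) (nat_lit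 1) (nat_lit 195) (nat_lit 1) (nat_lit 424) (nat_lit 329) (nat_lit 267))))))))
noncomputable def ec35 : XT := (XT.nd (nat_lit 48204) (nat_lit 0) (nat_lit 5700) (XT.nd (nat_lit 936) (nat_lit 760) (nat_lit 0) (XT.nd (nat_lit 468) (nat_lit 456) (nat_lit 0) (XT.nd (nat_lit 234) (nat_lit 228) (nat_lit 0) (XT.nd (nat_lit 78) (nat_lit 152) (nat_lit 0) (XT.lf (nat_lit 152) (nat_lit 262541130) (nat_lit 0) (nat_lit 211785056) (nat_lit 76) (nat_lit 211785056) (nat_lit 193) (nat_lit 1) (nat_lit 191) (nat_lit 1) (nat_lit 192) (nat_lit 1) (nat_lit 425) (nat_lit 329) (nat_lit 266)) (XT.nd (nat_lit 78) (nat_lit 152) (nat_lit 0) (XT.lf (nat_lit 0) (nat_lit 26403555) (nat_lit 0) (nat_lit 621898953) (nat_lit 152) (nat_lit 26403555) (nat_lit 191) (nat_lit 3) (nat_lit 191) (nat_lit 1) (nat_lit 193) (nat_lit 1) (nat_lit 426) (nat_lit 329) (nat_lit 265)) (XT.lf (nat_lit 76) (nat_lit 255648812) (nat_lit 0) (nat_lit 151946176)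 (nat_lit 152) (nat_lit 255648812) (nat_lit 190) (nat_lit 1) (nat_lit 189) (nat_lit 1) (nat_lit 191) (nat_lit 1) (nat_lit 427) (nat_lit 329) (nat_lit 264)))) (XT.nd (nat_lit 78) (nat_lit 152) (nat_lit 0) (XT.lf (nat_lit 152) (nat_lit 303659291) (nat_lit 0) (nat_lit 174236090) (nat_lit 76) (nat_lit 174236090) (nat_lit 190) (nat_lit 1) (nat_lit 188) (nat_lit 1) (nat_lit 189) (nat_lit 1) (nat_lit 428) (nat_lit 329) (nat_lit 263)) (XT.nd (nat_lit 78) (nat_lit 152) (nat_lit 0) (XT.lf (nat_lit 0) (nat_lit 50465238) (nat_lit 0) (nat_lit 540380776) (nat_lit 152) (nat_lit 50465238) (nat_lit 188) (nat_lit 3) (nat_lit 188) (nat_lit 1) (nat_lit 190) (nat_lit 1) (nat_lit 429) (nat_lit 329) (nat_lit 262)) (XT.lf (nat_lit 76) (nat_lit 266440134) (nat_lit 0) (nat_lit 97632239) (nat_lit 152) (nat_lit 266440134) (nat_lit 187) (nat_lit 1) (nat_lit 186) (nat_lit 1) (nat_lit 188) (nat_lit 1) (nat_lit 430) (nat_lit 329)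 (nat_lit 261))))) (XT.nd (nat_lit 234) (nat_lit 228) (nat_lit 0) (XT.nd (nat_lit 78) (nat_lit 152) (nat_lit 0) (XT.lf (nat_lit 152) (nat_lit 333312730) (nat_lit 0) (nat_lit 143344462) (nat_lit 76) (nat_lit 143344462) (nat_lit 187) (nat_lit 1) (nat_lit 185) (nat_lit 1) (nat_lit 186) (nat_lit 1) (nat_lit 431) (nat_lit 329) (nat_lit 260)) (XT.nd (nat_lit 78) (nat_lit 152) (nat_lit 0) (XT.lf (nat_lit 0) (nat_lit 68892132) (nat_lit 0) (nat_lit 471946857) (nat_lit 152) (nat_lit 68892132) (nat_lit 185) (nat_lit 3) (nat_lit 185) (nat_lit 1) (nat_lit 187) (nat_lit 1) (nat_lit 432) (nat_lit 329) (nat_lit 259)) (XT.lf (nat_lit 76) (nat_lit 272645933) (nat_lit 0) (nat_lit 54251565) (nat_lit 152) (nat_lit 272645933) (nat_lit 184) (nat_lit 1) (nat_lit 183) (nat_lit 1) (nat_lit 185) (nat_lit 1) (nat_lit 433) (nat_lit 329) (nat_lit 258)))) (XT.nd (nat_lit 78) (nat_lit 152) (nat_lit 0) (XT.lf (nat_lit 152) (nat_lit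 353732903) (nat_lit 0) (nat_lit 117929844) (nat_lit 76) (nat_lit 117929844) (nat_lit 184) (nat_lit 1) (nat_lit 182) (nat_lit 1) (nat_lit 183) (nat_lit 1) (nat_lit 434) (nat_lit 329) (nat_lit 257)) (XT.nd (nat_lit 78) (nat_lit 152) (nat_lit 0) (XT.lf (nat_lit 0) (nat_lit 82748447) (nat_lit 0) (nat_lit 414342567) (nat_lit 152) (nat_lit 82748447) (nat_lit 182) (nat_lit 3) (nat_lit 182) (nat_lit 1) (nat_lit 184) (nat_lit 1) (nat_lit 435) (nat_lit 329) (nat_lit 256)) (XT.lf (nat_lit 76) (nat_lit 275206460) (nat_lit 0) (nat_lit 19803640) (nat_lit 152) (nat_lit 275206460) (nat_lit 181) (nat_lit 1) (nat_lit 180) (nat_lit 1) (nat_lit 182) (nat_lit 1) (nat_lit 436) (nat_lit 329) (nat_lit 255)))))) (XT.nd (nat_lit 468) (nat_lit 380) (nat_lit 0) (XT.nd (nat_lit 234) (nat_lit 228) (nat_lit 0) (XT.nd (nat_lit 78) (nat_lit 76) (nat_lit 0) (XT.lf (nat_lit 152) (nat_lit 366746168) (nat_lit 0) (nat_lit 97021174)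 (nat_lit 76) (nat_lit 97021174) (nat_lit 181) (nat_lit 1) (nat_lit 179) (nat_lit 1) (nat_lit 180) (nat_lit 1) (nat_lit 437) (nat_lit 329) (nat_lit 254)) (XT.nd (nat_lit 78) (nat_lit 76) (nat_lit 0) (XT.lf (nat_lit 0) (nat_lit 92906609) (nat_lit 0) (nat_lit 365709912) (nat_lit 152) (nat_lit 92906609) (nat_lit 179) (nat_lit 3) (nat_lit 179) (nat_lit 1) (nat_lit 181) (nat_lit 1) (nat_lit 438) (nat_lit 329) (nat_lit 253)) (XT.lf (nat_lit 76) (nat_lit 7597577) (nat_lit 0) (nat_lit 267410246) (nat_lit 76) (nat_lit 267410246) (nat_lit 179) (nat_lit 3) (nat_lit 178) (nat_lit 1) (nat_lit 179) (nat_lit 1) (nat_lit 439) (nat_lit 329) (nat_lit 252)))) (XT.nd (nat_lit 78) (nat_lit 76) (nat_lit 0) (XT.lf (nat_lit 152) (nat_lit 373846059) (nat_lit 0) (nat_lit 79819560) (nat_lit 76) (nat_lit 79819560) (nat_lit 178) (nat_lit 1) (nat_lit 176) (nat_lit 1) (nat_lit 177) (nat_lit 1) (nat_lit 440) (nat_lit 329) (nat_lit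 251)) (XT.nd (nat_lit 78) (nat_lit 76) (nat_lit 0) (XT.lf (nat_lit 0) (nat_lit 100081408) (nat_lit 0) (nat_lit 324517361) (nat_lit 152) (nat_lit 100081408) (nat_lit 176) (nat_lit 3) (nat_lit 176) (nat_lit 1) (nat_lit 178) (nat_lit 1) (nat_lit 441) (nat_lit 329) (nat_lit 250)) (XT.lf (nat_lit 76) (nat_lit 29516055) (nat_lit 0) (nat_lit 243264581) (nat_lit 76) (nat_lit 243264581) (nat_lit 176) (nat_lit 3) (nat_lit 175) (nat_lit 1) (nat_lit 176) (nat_lit 1) (nat_lit 442) (nat_lit 329) (nat_lit 249))))) (XT.nd (nat_lit 234) (nat_lit 152) (nat_lit 0) (XT.nd (nat_lit 78) (nat_lit 76) (nat_lit 0) (XT.lf (nat_lit 152) (nat_lit 376252725) (nat_lit 0) (nat_lit 65667750) (nat_lit 76) (nat_lit 65667750) (nat_lit 175) (nat_lit 1) (nat_lit 173) (nat_lit 1) (nat_lit 174) (nat_lit 1) (nat_lit 443) (nat_lit 329) (nat_lit 248)) (XT.nd (nat_lit 78) (nat_lit 76) (nat_lit 0) (XT.lf (nat_lit 0) (nat_lit 104858090) (nat_lit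 0) (nat_lit 289502104) (nat_lit 152) (nat_lit 104858090) (nat_lit 173) (nat_lit 3) (nat_lit 173) (nat_lit 1) (nat_lit 175) (nat_lit 1) (nat_lit 444) (nat_lit 329) (nat_lit 247)) (XT.lf (nat_lit 76) (nat_lit 46440559) (nat_lit 0) (nat_lit 222292001) (nat_lit 76) (nat_lit 222292001) (nat_lit 173) (nat_lit 3) (nat_lit 172) (nat_lit 1) (nat_lit 173) (nat_lit 1) (nat_lit 445) (nat_lit 329) (nat_lit 246)))) (XT.nd (nat_lit 46410) (nat_lit 0) (nat_lit 9272) (XT.nd (nat_lit 78) (nat_lit 0) (nat_lit 0) (XT.lf (nat_lit 152) (nat_lit 374961807) (nat_lit 0) (nat_lit 54025020) (nat_lit 76) (nat_lit 54025020) (nat_lit 172) (nat_lit 1) (nat_lit 170) (nat_lit 1) (nat_lit 171) (nat_lit 1) (nat_lit 446) (nat_lit 329) (nat_lit 245)) (XT.lf (nat_lit 0) (nat_lit 107715456) (nat_lit 0) (nat_lit 259622543) (nat_lit 152) (nat_lit 107715456) (nat_lit 170) (nat_lit 3) (nat_lit 170) (nat_lit 1) (nat_lit 172) (nat_lit 1)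 (nat_lit 447) (nat_lit 329) (nat_lit 244))) (XT.nd (nat_lit 78) (nat_lit 0) (nat_lit 0) (XT.lf (nat_lit 836) (nat_lit 329880533) (nat_lit 0) (nat_lit 585702128) (nat_lit 836) (nat_lit 329880533) (nat_lit 303) (nat_lit 1) (nat_lit 292) (nat_lit 0) (nat_lit 303) (nat_lit 0) (nat_lit 360) (nat_lit 330) (nat_lit 330)) (XT.lf (nat_lit 836) (nat_lit 1278658131) (nat_lit 76) (nat_lit 576255320) (nat_lit 0) (nat_lit 576255320) (nat_lit 303) (nat_lit 1) (nat_lit 293) (nat_lit 1) (nat_lit 292) (nat_lit 0) (nat_lit 361) (nat_lit 330) (nat_lit 329))))))) (XT.nd (nat_lit 1014) (nat_lit 2280) (nat_lit 0) (XT.nd (nat_lit 468) (nat_lit 1368) (nat_lit 0) (XT.nd (nat_lit 234) (nat_lit 0) (nat_lit 76) (XT.nd (nat_lit 78) (nat_lit 0) (nat_lit 0) (XT.lf (nat_lit 836) (nat_lit 609389212) (nat_lit 0) (nat_lit 1154480156) (nat_lit 760) (nat_lit 609389212) (nat_lit 304) (nat_lit 1) (nat_lit 293) (nat_lit 1) (nat_lit 303)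 (nat_lit 1) (nat_lit 362) (nat_lit 330) (nat_lit 328)) (XT.nd (nat_lit 78) (nat_lit 0) (nat_lit 76) (XT.lf (nat_lit 836) (nat_lit 1143129486) (nat_lit 76) (nat_lit 587044918) (nat_lit 0) (nat_lit 587044918) (nat_lit 304) (nat_lit 1) (nat_lit 294) (nat_lit 1) (nat_lit 293) (nat_lit 1) (nat_lit 363) (nat_lit 330) (nat_lit 327)) (XT.lf (nat_lit 836) (nat_lit 526171525) (nat_lit 0) (nat_lit 1210613176) (nat_lit 760) (nat_lit 526171525) (nat_lit 305) (nat_lit 1) (nat_lit 294) (nat_lit 1) (nat_lit 304) (nat_lit 1) (nat_lit 364) (nat_lit 330) (nat_lit 326)))) (XT.nd (nat_lit 78) (nat_lit 0) (nat_lit 76) (XT.lf (nat_lit 836) (nat_lit 946353758) (nat_lit 76) (nat_lit 631996759) (nat_lit 0) (nat_lit 631996759) (nat_lit 305) (nat_lit 1) (nat_lit 295) (nat_lit 1) (nat_lit 294) (nat_lit 1) (nat_lit 365) (nat_lit 330) (nat_lit 325)) (XT.nd (nat_lit 78) (nat_lit 0) (nat_lit 0) (XT.lf (nat_lit 836) (nat_lit 414948789)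 (nat_lit 0) (nat_lit 1329607174) (nat_lit 760) (nat_lit 414948789) (nat_lit 306) (nat_lit 1) (nat_lit 295) (nat_lit 1) (nat_lit 305) (nat_lit 1) (nat_lit 366) (nat_lit 330) (nat_lit 324)) (XT.lf (nat_lit 836) (nat_lit 697541656) (nat_lit 76) (nat_lit 706260221) (nat_lit 0) (nat_lit 706260221) (nat_lit 306) (nat_lit 1) (nat_lit 296) (nat_lit 1) (nat_lit 295) (nat_lit 1) (nat_lit 367) (nat_lit 330) (nat_lit 323))))) (XT.nd (nat_lit 234) (nat_lit 1596) (nat_lit 0) (XT.nd (nat_lit 78) (nat_lit 0) (nat_lit 0) (XT.lf (nat_lit 836) (nat_lit 280026643) (nat_lit 0) (nat_lit 1502376041) (nat_lit 760) (nat_lit 280026643) (nat_lit 307) (nat_lit 1) (nat_lit 296) (nat_lit 1) (nat_lit 306) (nat_lit 1) (nat_lit 368) (nat_lit 330) (nat_lit 322)) (XT.nd (nat_lit 78) (nat_lit 0) (nat_lit 76) (XT.lf (nat_lit 836) (nat_lit 404880111) (nat_lit 76) (nat_lit 805515387) (nat_lit 0) (nat_lit 805515387) (nat_lit 307) (nat_lit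 1) (nat_lit 297) (nat_lit 1) (nat_lit 296) (nat_lit 1) (nat_lit 369) (nat_lit 330) (nat_lit 321)) (XT.lf (nat_lit 76) (nat_lit 125229377) (nat_lit 0) (nat_lit 1720832785) (nat_lit 760) (nat_lit 125229377) (nat_lit 298) (nat_lit 1) (nat_lit 297) (nat_lit 1) (nat_lit 307) (nat_lit 1) (nat_lit 370) (nat_lit 330) (nat_lit 320)))) (XT.nd (nat_lit 156) (nat_lit 380) (nat_lit 0) (XT.nd (nat_lit 78) (nat_lit 532) (nat_lit 0) (XT.lf (nat_lit 836) (nat_lit 75635429) (nat_lit 0) (nat_lit 925919906) (nat_lit 760) (nat_lit 925919906) (nat_lit 298) (nat_lit 1) (nat_lit 287) (nat_lit 1) (nat_lit 297) (nat_lit 1) (nat_lit 371) (nat_lit 330) (nat_lit 319)) (XT.lf (nat_lit 532) (nat_lit 1794924005) (nat_lit 0) (nat_lit 45308684) (nat_lit 456) (nat_lit 45308684) (nat_lit 287) (nat_lit 1) (nat_lit 280) (nat_lit 1) (nat_lit 286) (nat_lit 1) (nat_lit 372) (nat_lit 330) (nat_lit 318))) (XT.nd (nat_lit 78) (nat_lit 380)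 (nat_lit 0) (XT.lf (nat_lit 76) (nat_lit 784737651) (nat_lit 0) (nat_lit 274671633) (nat_lit 532) (nat_lit 784737651) (nat_lit 281) (nat_lit 1) (nat_lit 280) (nat_lit 1) (nat_lit 287) (nat_lit 1) (nat_lit 373) (nat_lit 330) (nat_lit 317)) (XT.lf (nat_lit 456) (nat_lit 1350332064) (nat_lit 0) (nat_lit 227090317) (nat_lit 380) (nat_lit 227090317) (nat_lit 281) (nat_lit 1) (nat_lit 275) (nat_lit 1) (nat_lit 280) (nat_lit 1) (nat_lit 374) (nat_lit 330) (nat_lit 316)))))) (XT.nd (nat_lit 468) (nat_lit 1216) (nat_lit 0) (XT.nd (nat_lit 234) (nat_lit 684) (nat_lit 0) (XT.nd (nat_lit 78) (nat_lit 380) (nat_lit 0) (XT.lf (nat_lit 76) (nat_lit 559743813) (nat_lit 0) (nat_lit 646224057) (nat_lit 456) (nat_lit 559743813) (nat_lit 276) (nat_lit 1) (nat_lit 275) (nat_lit 1) (nat_lit 281) (nat_lit 1) (nat_lit 375) (nat_lit 330) (nat_lit 315)) (XT.nd (nat_lit 78) (nat_lit 0) (nat_lit 0) (XT.lf (nat_lit 456) (nat_lit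 889212813) (nat_lit 0) (nat_lit 419524595) (nat_lit 380) (nat_lit 419524595) (nat_lit 276) (nat_lit 1) (nat_lit 270) (nat_lit 1) (nat_lit 275) (nat_lit 1) (nat_lit 376) (nat_lit 330) (nat_lit 314)) (XT.lf (nat_lit 76) (nat_lit 327663104) (nat_lit 0) (nat_lit 1036575279) (nat_lit 456) (nat_lit 327663104) (nat_lit 271) (nat_lit 1) (nat_lit 270) (nat_lit 1) (nat_lit 276) (nat_lit 1) (nat_lit 377) (nat_lit 330) (nat_lit 313)))) (XT.nd (nat_lit 78) (nat_lit 380) (nat_lit 0) (XT.lf (nat_lit 380) (nat_lit 415858104) (nat_lit 0) (nat_lit 620309089) (nat_lit 304) (nat_lit 620309089) (nat_lit 271) (nat_lit 1) (nat_lit 266) (nat_lit 1) (nat_lit 270) (nat_lit 1) (nat_lit 378) (nat_lit 330) (nat_lit 312)) (XT.nd (nat_lit 78) (nat_lit 380) (nat_lit 0) (XT.lf (nat_lit 76) (nat_lit 90487948) (nat_lit 0) (nat_lit 1441437460) (nat_lit 380) (nat_lit 90487948) (nat_lit 267) (nat_lit 1) (nat_lit 266) (nat_lit 1) (nat_lit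 271) (nat_lit 1) (nat_lit 379) (nat_lit 330) (nat_lit 311)) (XT.lf (nat_lit 76) (nat_lit 762477457) (nat_lit 0) (nat_lit 63858968) (nat_lit 380) (nat_lit 762477457) (nat_lit 262) (nat_lit 1) (nat_lit 261) (nat_lit 1) (nat_lit 266) (nat_lit 1) (nat_lit 380) (nat_lit 330) (nat_lit 310))))) (XT.nd (nat_lit 234) (nat_lit 608) (nat_lit 0) (XT.nd (nat_lit 78) (nat_lit 304) (nat_lit 0) (XT.lf (nat_lit 380) (nat_lit 1261257958) (nat_lit 0) (nat_lit 147617999) (nat_lit 304) (nat_lit 147617999) (nat_lit 262) (nat_lit 1) (nat_lit 257) (nat_lit 1) (nat_lit 261) (nat_lit 1) (nat_lit 381) (nat_lit 330) (nat_lit 309)) (XT.nd (nat_lit 78) (nat_lit 304) (nat_lit 0) (XT.lf (nat_lit 76) (nat_lit 494720819) (nat_lit 0) (nat_lit 535286848) (nat_lit 380) (nat_lit 494720819) (nat_lit 258) (nat_lit 1) (nat_lit 257) (nat_lit 1) (nat_lit 262) (nat_lit 1) (nat_lit 382) (nat_lit 330) (nat_lit 308)) (XT.lf (nat_lit 380) (nat_lit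 721935296) (nat_lit 0) (nat_lit 386064618) (nat_lit 304) (nat_lit 386064618) (nat_lit 258) (nat_lit 1) (nat_lit 253) (nat_lit 1) (nat_lit 257) (nat_lit 1) (nat_lit 383) (nat_lit 330) (nat_lit 307)))) (XT.nd (nat_lit 156) (nat_lit 380) (nat_lit 0) (XT.nd (nat_lit 78) (nat_lit 228) (nat_lit 0) (XT.lf (nat_lit 76) (nat_lit 227666173) (nat_lit 0) (nat_lit 1008964848) (nat_lit 380) (nat_lit 227666173) (nat_lit 254) (nat_lit 1) (nat_lit 253) (nat_lit 1) (nat_lit 258) (nat_lit 1) (nat_lit 384) (nat_lit 330) (nat_lit 306)) (XT.lf (nat_lit 304) (nat_lit 185151147) (nat_lit 0) (nat_lit 625010633) (nat_lit 228) (nat_lit 625010633) (nat_lit 254) (nat_lit 1) (nat_lit 250) (nat_lit 1) (nat_lit 253) (nat_lit 1) (nat_lit 385) (nat_lit 330) (nat_lit 305))) (XT.nd (nat_lit 78) (nat_lit 0) (nat_lit 0) (XT.lf (nat_lit 380) (nat_lit 1333184942) (nat_lit 0) (nat_lit 36993324) (nat_lit 304) (nat_lit 36993324) (nat_lit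 250) (nat_lit 1) (nat_lit 245) (nat_lit 1) (nat_lit 249) (nat_lit 1) (nat_lit 386) (nat_lit 330) (nat_lit 304)) (XT.lf (nat_lit 76) (nat_lit 521685123) (nat_lit 0) (nat_lit 335955499) (nat_lit 380) (nat_lit 521685123) (nat_lit 246) (nat_lit 1) (nat_lit 245) (nat_lit 1) (nat_lit 250) (nat_lit 1) (nat_lit 387) (nat_lit 330) (nat_lit 303))))))))
noncomputable def ec36 : XT := (XT.nd (nat_lit 1950) (nat_lit 1976) (nat_lit 0) (XT.nd (nat_lit 936) (nat_lit 1520) (nat_lit 0) (XT.nd (nat_lit 468) (nat_lit 608) (nat_lit 0) (XT.nd (nat_lit 234) (nat_lit 532) (nat_lit 0) (XT.nd (nat_lit 78) (nat_lit 228) (nat_lit 0) (XT.lf (nat_lit 304) (nat_lit 761937616) (nat_lit 0) (nat_lit 295305125) (nat_lit 228) (nat_lit 295305125) (nat_lit 246) (nat_lit 1) (nat_lit 242) (nat_lit 1) (nat_lit 245) (nat_lit 1) (nat_lit 388) (nat_lit 330) (nat_lit 302)) (XT.nd (nat_lit 78) (nat_lit 228) (nat_lit 0) (XT.lf (nat_lit 76)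 (nat_lit 240707878) (nat_lit 0) (nat_lit 845034565) (nat_lit 304) (nat_lit 240707878) (nat_lit 243) (nat_lit 1) (nat_lit 242) (nat_lit 1) (nat_lit 246) (nat_lit 1) (nat_lit 389) (nat_lit 330) (nat_lit 301)) (XT.lf (nat_lit 304) (nat_lit 200622493) (nat_lit 0) (nat_lit 550161999) (nat_lit 228) (nat_lit 550161999) (nat_lit 243) (nat_lit 1) (nat_lit 239) (nat_lit 1) (nat_lit 242) (nat_lit 1) (nat_lit 390) (nat_lit 330) (nat_lit 300)))) (XT.nd (nat_lit 78) (nat_lit 228) (nat_lit 0) (XT.lf (nat_lit 304) (nat_lit 1207432066) (nat_lit 0) (nat_lit 34479047) (nat_lit 228) (nat_lit 34479047) (nat_lit 239) (nat_lit 1) (nat_lit 235) (nat_lit 1) (nat_lit 238) (nat_lit 1) (nat_lit 391) (nat_lit 330) (nat_lit 299)) (XT.nd (nat_lit 78) (nat_lit 228) (nat_lit 0) (XT.lf (nat_lit 76) (nat_lit 456736971) (nat_lit 0) (nat_lit 338437510) (nat_lit 304) (nat_lit 456736971) (nat_lit 236) (nat_lit 1) (nat_lit 235) (nat_lit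 1) (nat_lit 239) (nat_lit 1) (nat_lit 392) (nat_lit 330) (nat_lit 298)) (XT.lf (nat_lit 304) (nat_lit 628055157) (nat_lit 0) (nat_lit 300141652) (nat_lit 228) (nat_lit 300141652) (nat_lit 236) (nat_lit 1) (nat_lit 232) (nat_lit 1) (nat_lit 235) (nat_lit 1) (nat_lit 393) (nat_lit 330) (nat_lit 297))))) (XT.nd (nat_lit 234) (nat_lit 152) (nat_lit 0) (XT.nd (nat_lit 78) (nat_lit 456) (nat_lit 0) (XT.lf (nat_lit 76) (nat_lit 172965878) (nat_lit 0) (nat_lit 859465951) (nat_lit 304) (nat_lit 172965878) (nat_lit 233) (nat_lit 1) (nat_lit 232) (nat_lit 1) (nat_lit 236) (nat_lit 1) (nat_lit 394) (nat_lit 330) (nat_lit 296)) (XT.nd (nat_lit 78) (nat_lit 304) (nat_lit 0) (XT.lf (nat_lit 228) (nat_lit 63380448) (nat_lit 0) (nat_lit 559754405) (nat_lit 152) (nat_lit 559754405) (nat_lit 233) (nat_lit 1) (nat_lit 230) (nat_lit 1) (nat_lit 232) (nat_lit 1) (nat_lit 395) (nat_lit 330) (nat_lit 295)) (XT.lf (nat_lit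 304) (nat_lit 957657328) (nat_lit 0) (nat_lit 101710149) (nat_lit 228) (nat_lit 101710149) (nat_lit 230) (nat_lit 1) (nat_lit 226) (nat_lit 1) (nat_lit 229) (nat_lit 1) (nat_lit 396) (nat_lit 330) (nat_lit 294)))) (XT.nd (nat_lit 78) (nat_lit 152) (nat_lit 0) (XT.lf (nat_lit 76) (nat_lit 334486972) (nat_lit 0) (nat_lit 470535993) (nat_lit 304) (nat_lit 334486972) (nat_lit 227) (nat_lit 1) (nat_lit 226) (nat_lit 1) (nat_lit 230) (nat_lit 1) (nat_lit 397) (nat_lit 330) (nat_lit 293)) (XT.nd (nat_lit 78) (nat_lit 0) (nat_lit 0) (XT.lf (nat_lit 228) (nat_lit 386448100) (nat_lit 0) (nat_lit 366079893) (nat_lit 152) (nat_lit 366079893) (nat_lit 227) (nat_lit 1) (nat_lit 224) (nat_lit 1) (nat_lit 226) (nat_lit 1) (nat_lit 398) (nat_lit 330) (nat_lit 292)) (XT.lf (nat_lit 76) (nat_lit 55520325) (nat_lit 0) (nat_lit 987358844) (nat_lit 228) (nat_lit 55520325) (nat_lit 225) (nat_lit 1) (nat_lit 224) (nat_lit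 1) (nat_lit 227) (nat_lit 1) (nat_lit 399) (nat_lit 330) (nat_lit 291)))))) (XT.nd (nat_lit 468) (nat_lit 760) (nat_lit 0) (XT.nd (nat_lit 234) (nat_lit 380) (nat_lit 0) (XT.nd (nat_lit 78) (nat_lit 152) (nat_lit 0) (XT.lf (nat_lit 76) (nat_lit 458218990) (nat_lit 0) (nat_lit 161826581) (nat_lit 228) (nat_lit 458218990) (nat_lit 222) (nat_lit 1) (nat_lit 221) (nat_lit 1) (nat_lit 224) (nat_lit 1) (nat_lit 400) (nat_lit 330) (nat_lit 290)) (XT.nd (nat_lit 78) (nat_lit 0) (nat_lit 0) (XT.lf (nat_lit 228) (nat_lit 636317378) (nat_lit 0) (nat_lit 211240129) (nat_lit 152) (nat_lit 211240129) (nat_lit 222) (nat_lit 1) (nat_lit 219) (nat_lit 1) (nat_lit 221) (nat_lit 1) (nat_lit 401) (nat_lit 330) (nat_lit 289)) (XT.lf (nat_lit 76) (nat_lit 179552209) (nat_lit 0) (nat_lit 680656553) (nat_lit 228) (nat_lit 179552209) (nat_lit 220) (nat_lit 1) (nat_lit 219) (nat_lit 1) (nat_lit 222) (nat_lit 1) (nat_lit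 402) (nat_lit 330) (nat_lit 288)))) (XT.nd (nat_lit 78) (nat_lit 228) (nat_lit 0) (XT.lf (nat_lit 228) (nat_lit 84113745) (nat_lit 0) (nat_lit 468497146) (nat_lit 152) (nat_lit 468497146) (nat_lit 220) (nat_lit 1) (nat_lit 217) (nat_lit 1) (nat_lit 219) (nat_lit 1) (nat_lit 403) (nat_lit 330) (nat_lit 287)) (XT.nd (nat_lit 78) (nat_lit 0) (nat_lit 0) (XT.lf (nat_lit 228) (nat_lit 826724234) (nat_lit 0) (nat_lit 88135676) (nat_lit 152) (nat_lit 88135676) (nat_lit 217) (nat_lit 1) (nat_lit 214) (nat_lit 1) (nat_lit 216) (nat_lit 1) (nat_lit 404) (nat_lit 330) (nat_lit 286)) (XT.lf (nat_lit 76) (nat_lit 275218523) (nat_lit 0) (nat_lit 434600677) (nat_lit 228) (nat_lit 275218523) (nat_lit 215) (nat_lit 1) (nat_lit 214) (nat_lit 1) (nat_lit 217) (nat_lit 1) (nat_lit 405) (nat_lit 330) (nat_lit 285))))) (XT.nd (nat_lit 234) (nat_lit 456) (nat_lit 0) (XT.nd (nat_lit 78) (nat_lit 152) (nat_lit 0) (XT.lf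 (nat_lit 228) (nat_lit 280296704) (nat_lit 0) (nat_lit 343652249) (nat_lit 152) (nat_lit 343652249) (nat_lit 215) (nat_lit 1) (nat_lit 212) (nat_lit 1) (nat_lit 214) (nat_lit 1) (nat_lit 406) (nat_lit 330) (nat_lit 284)) (XT.nd (nat_lit 78) (nat_lit 152) (nat_lit 0) (XT.lf (nat_lit 76) (nat_lit 9212579) (nat_lit 0) (nat_lit 932351021) (nat_lit 228) (nat_lit 9212579) (nat_lit 213) (nat_lit 1) (nat_lit 212) (nat_lit 1) (nat_lit 215) (nat_lit 1) (nat_lit 407) (nat_lit 330) (nat_lit 283)) (XT.lf (nat_lit 76) (nat_lit 347851985) (nat_lit 0) (nat_lit 238140240) (nat_lit 152) (nat_lit 347851985) (nat_lit 211) (nat_lit 1) (nat_lit 210) (nat_lit 1) (nat_lit 212) (nat_lit 1) (nat_lit 408) (nat_lit 330) (nat_lit 282)))) (XT.nd (nat_lit 156) (nat_lit 304) (nat_lit 0) (XT.nd (nat_lit 78) (nat_lit 0) (nat_lit 0) (XT.lf (nat_lit 228) (nat_lit 431644713) (nat_lit 0) (nat_lit 242931639) (nat_lit 152) (nat_lit 242931639)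 (nat_lit 211) (nat_lit 1) (nat_lit 208) (nat_lit 1) (nat_lit 210) (nat_lit 1) (nat_lit 409) (nat_lit 330) (nat_lit 281)) (XT.lf (nat_lit 76) (nat_lit 86541781) (nat_lit 0) (nat_lit 728529166) (nat_lit 228) (nat_lit 86541781) (nat_lit 209) (nat_lit 1) (nat_lit 208) (nat_lit 1) (nat_lit 211) (nat_lit 1) (nat_lit 410) (nat_lit 330) (nat_lit 280))) (XT.nd (nat_lit 78) (nat_lit 152) (nat_lit 0) (XT.lf (nat_lit 76) (nat_lit 401825379) (nat_lit 0) (nat_lit 82197790) (nat_lit 152) (nat_lit 401825379) (nat_lit 207) (nat_lit 1) (nat_lit 206) (nat_lit 1) (nat_lit 208) (nat_lit 1) (nat_lit 411) (nat_lit 330) (nat_lit 279)) (XT.lf (nat_lit 228) (nat_lit 546585575) (nat_lit 0) (nat_lit 161963397) (nat_lit 152) (nat_lit 161963397) (nat_lit 207) (nat_lit 1) (nat_lit 204) (nat_lit 1) (nat_lit 206) (nat_lit 1) (nat_lit 412) (nat_lit 330) (nat_lit 278))))))) (XT.nd (nat_lit 936) (nat_lit 988) (nat_lit 0) (XT.nd (nat_lit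 468) (nat_lit 380) (nat_lit 0) (XT.nd (nat_lit 234) (nat_lit 304) (nat_lit 0) (XT.nd (nat_lit 78) (nat_lit 304) (nat_lit 0) (XT.lf (nat_lit 76) (nat_lit 146400585) (nat_lit 0) (nat_lit 562678627) (nat_lit 228) (nat_lit 146400585) (nat_lit 205) (nat_lit 1) (nat_lit 204) (nat_lit 1) (nat_lit 207) (nat_lit 1) (nat_lit 413) (nat_lit 330) (nat_lit 277)) (XT.nd (nat_lit 78) (nat_lit 228) (nat_lit 0) (XT.lf (nat_lit 152) (nat_lit 42026276) (nat_lit 0) (nat_lit 399352310) (nat_lit 76) (nat_lit 399352310) (nat_lit 205) (nat_lit 1) (nat_lit 203) (nat_lit 1) (nat_lit 204) (nat_lit 1) (nat_lit 414) (nat_lit 330) (nat_lit 276)) (XT.lf (nat_lit 228) (nat_lit 632030068) (nat_lit 0) (nat_lit 97155246) (nat_lit 152) (nat_lit 97155246) (nat_lit 203) (nat_lit 1) (nat_lit 200) (nat_lit 1) (nat_lit 202) (nat_lit 1) (nat_lit 415) (nat_lit 330) (nat_lit 275)))) (XT.nd (nat_lit 78) (nat_lit 304) (nat_lit 0) (XT.lf (nat_lit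 76) (nat_lit 192065502) (nat_lit 0) (nat_lit 427979841) (nat_lit 228) (nat_lit 192065502) (nat_lit 201) (nat_lit 1) (nat_lit 200) (nat_lit 1) (nat_lit 203) (nat_lit 1) (nat_lit 416) (nat_lit 330) (nat_lit 274)) (XT.nd (nat_lit 78) (nat_lit 228) (nat_lit 0) (XT.lf (nat_lit 152) (nat_lit 141133758) (nat_lit 0) (nat_lit 328548134) (nat_lit 76) (nat_lit 328548134) (nat_lit 201) (nat_lit 1) (nat_lit 199) (nat_lit 1) (nat_lit 200) (nat_lit 1) (nat_lit 417) (nat_lit 330) (nat_lit 273)) (XT.lf (nat_lit 228) (nat_lit 693641999) (nat_lit 0) (nat_lit 45556108) (nat_lit 152) (nat_lit 45556108) (nat_lit 199) (nat_lit 1) (nat_lit 196) (nat_lit 1) (nat_lit 198) (nat_lit 1) (nat_lit 418) (nat_lit 330) (nat_lit 272))))) (XT.nd (nat_lit 234) (nat_lit 76) (nat_lit 0) (XT.nd (nat_lit 78) (nat_lit 304) (nat_lit 0) (XT.lf (nat_lit 76) (nat_lit 226223600) (nat_lit 0) (nat_lit 318826495) (nat_lit 228) (nat_lit 226223600)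 (nat_lit 197) (nat_lit 1) (nat_lit 196) (nat_lit 1) (nat_lit 199) (nat_lit 1) (nat_lit 419) (nat_lit 330) (nat_lit 271)) (XT.nd (nat_lit 78) (nat_lit 228) (nat_lit 0) (XT.lf (nat_lit 152) (nat_lit 217595507) (nat_lit 0) (nat_lit 270297363) (nat_lit 76) (nat_lit 270297363) (nat_lit 197) (nat_lit 1) (nat_lit 195) (nat_lit 1) (nat_lit 196) (nat_lit 1) (nat_lit 420) (nat_lit 330) (nat_lit 270)) (XT.lf (nat_lit 228) (nat_lit 736060321) (nat_lit 0) (nat_lit 4742214) (nat_lit 152) (nat_lit 4742214) (nat_lit 195) (nat_lit 1) (nat_lit 192) (nat_lit 1) (nat_lit 194) (nat_lit 1) (nat_lit 421) (nat_lit 330) (nat_lit 269)))) (XT.nd (nat_lit 78) (nat_lit 76) (nat_lit 0) (XT.lf (nat_lit 76) (nat_lit 251077417) (nat_lit 0) (nat_lit 230610224) (nat_lit 228) (nat_lit 251077417) (nat_lit 193) (nat_lit 1) (nat_lit 192) (nat_lit 1) (nat_lit 195) (nat_lit 1) (nat_lit 422) (nat_lit 330) (nat_lit 268)) (XT.nd (nat_lit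 78) (nat_lit 0) (nat_lit 0) (XT.lf (nat_lit 152) (nat_lit 275668186) (nat_lit 0) (nat_lit 222374309) (nat_lit 76) (nat_lit 222374309) (nat_lit 193) (nat_lit 1) (nat_lit 191) (nat_lit 1) (nat_lit 192) (nat_lit 1) (nat_lit 423) (nat_lit 330) (nat_lit 267)) (XT.lf (nat_lit 0) (nat_lit 27723733) (nat_lit 0) (nat_lit 652993900) (nat_lit 152) (nat_lit 27723733) (nat_lit 191) (nat_lit 3) (nat_lit 191) (nat_lit 1) (nat_lit 193) (nat_lit 1) (nat_lit 424) (nat_lit 330) (nat_lit 266)))))) (XT.nd (nat_lit 468) (nat_lit 532) (nat_lit 0) (XT.nd (nat_lit 234) (nat_lit 228) (nat_lit 0) (XT.nd (nat_lit 78) (nat_lit 76) (nat_lit 0) (XT.lf (nat_lit 76) (nat_lit 268431252) (nat_lit 0) (nat_lit 159543485) (nat_lit 152) (nat_lit 268431252) (nat_lit 190) (nat_lit 1) (nat_lit 189) (nat_lit 1) (nat_lit 191) (nat_lit 1) (nat_lit 425) (nat_lit 330) (nat_lit 265)) (XT.nd (nat_lit 78) (nat_lit 0) (nat_lit 0) (XT.lf (nat_lit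 152) (nat_lit 318842256) (nat_lit 0) (nat_lit 182947894) (nat_lit 76) (nat_lit 182947894) (nat_lit 190) (nat_lit 1) (nat_lit 188) (nat_lit 1) (nat_lit 189) (nat_lit 1) (nat_lit 426) (nat_lit 330) (nat_lit 264)) (XT.lf (nat_lit 0) (nat_lit 52988500) (nat_lit 0) (nat_lit 567399815) (nat_lit 152) (nat_lit 52988500) (nat_lit 188) (nat_lit 3) (nat_lit 188) (nat_lit 1) (nat_lit 190) (nat_lit 1) (nat_lit 427) (nat_lit 330) (nat_lit 263)))) (XT.nd (nat_lit 78) (nat_lit 76) (nat_lit 0) (XT.lf (nat_lit 76) (nat_lit 279762141) (nat_lit 0) (nat_lit 102513851) (nat_lit 152) (nat_lit 279762141) (nat_lit 187) (nat_lit 1) (nat_lit 186) (nat_lit 1) (nat_lit 188) (nat_lit 1) (nat_lit 428) (nat_lit 330) (nat_lit 262)) (XT.nd (nat_lit 78) (nat_lit 0) (nat_lit 0) (XT.lf (nat_lit 152) (nat_lit 349978367) (nat_lit 0) (nat_lit 150511685) (nat_lit 76) (nat_lit 150511685) (nat_lit 187) (nat_lit 1) (nat_lit 185) (nat_lit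 1) (nat_lit 186) (nat_lit 1) (nat_lit 429) (nat_lit 330) (nat_lit 261)) (XT.lf (nat_lit 0) (nat_lit 72336739) (nat_lit 0) (nat_lit 495544200) (nat_lit 152) (nat_lit 72336739) (nat_lit 185) (nat_lit 3) (nat_lit 185) (nat_lit 1) (nat_lit 187) (nat_lit 1) (nat_lit 430) (nat_lit 330) (nat_lit 260))))) (XT.nd (nat_lit 234) (nat_lit 304) (nat_lit 0) (XT.nd (nat_lit 78) (nat_lit 76) (nat_lit 0) (XT.lf (nat_lit 76) (nat_lit 286278230) (nat_lit 0) (nat_lit 56964143) (nat_lit 152) (nat_lit 286278230) (nat_lit 184) (nat_lit 1) (nat_lit 183) (nat_lit 1) (nat_lit 185) (nat_lit 1) (nat_lit 431) (nat_lit 330) (nat_lit 259)) (XT.nd (nat_lit 78) (nat_lit 0) (nat_lit 0) (XT.lf (nat_lit 152) (nat_lit 371419548) (nat_lit 0) (nat_lit 123826336) (nat_lit 76) (nat_lit 123826336) (nat_lit 184) (nat_lit 1) (nat_lit 182) (nat_lit 1) (nat_lit 183) (nat_lit 1) (nat_lit 432) (nat_lit 330) (nat_lit 258)) (XT.lf (nat_lit 0)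 (nat_lit 86885869) (nat_lit 0) (nat_lit 435059695) (nat_lit 152) (nat_lit 86885869) (nat_lit 182) (nat_lit 3) (nat_lit 182) (nat_lit 1) (nat_lit 184) (nat_lit 1) (nat_lit 433) (nat_lit 330) (nat_lit 257)))) (XT.nd (nat_lit 156) (nat_lit 76) (nat_lit 0) (XT.nd (nat_lit 78) (nat_lit 76) (nat_lit 0) (XT.lf (nat_lit 76) (nat_lit 288966783) (nat_lit 0) (nat_lit 20793822) (nat_lit 152) (nat_lit 288966783) (nat_lit 181) (nat_lit 1) (nat_lit 180) (nat_lit 1) (nat_lit 182) (nat_lit 1) (nat_lit 434) (nat_lit 330) (nat_lit 256)) (XT.lf (nat_lit 152) (nat_lit 385083476) (nat_lit 0) (nat_lit 101872233) (nat_lit 76) (nat_lit 101872233) (nat_lit 181) (nat_lit 1) (nat_lit 179) (nat_lit 1) (nat_lit 180) (nat_lit 1) (nat_lit 435) (nat_lit 330) (nat_lit 255))) (XT.nd (nat_lit 78) (nat_lit 76) (nat_lit 0) (XT.lf (nat_lit 0) (nat_lit 97551939) (nat_lit 0) (nat_lit 383995408) (nat_lit 152) (nat_lit 97551939) (nat_lit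 179) (nat_lit 3) (nat_lit 179) (nat_lit 1) (nat_lit 181) (nat_lit 1) (nat_lit 436) (nat_lit 330) (nat_lit 254)) (XT.lf (nat_lit 76) (nat_lit 7977456) (nat_lit 0) (nat_lit 280780759) (nat_lit 76) (nat_lit 280780759) (nat_lit 179) (nat_lit 3) (nat_lit 178) (nat_lit 1) (nat_lit 179) (nat_lit 1) (nat_lit 437) (nat_lit 330) (nat_lit 253))))))))
noncomputable def ec37 : XT := (XT.nd (nat_lit 48048) (nat_lit 0) (nat_lit 4104) (XT.nd (nat_lit 47034) (nat_lit 0) (nat_lit 8208) (XT.nd (nat_lit 468) (nat_lit 380) (nat_lit 0) (XT.nd (nat_lit 234) (nat_lit 228) (nat_lit 0) (XT.nd (nat_lit 78) (nat_lit 76) (nat_lit 0) (XT.lf (nat_lit 152) (nat_lit 392538362) (nat_lit 0) (nat_lit 83810538) (nat_lit 76) (nat_lit 83810538) (nat_lit 178) (nat_lit 1) (nat_lit 176) (nat_lit 1) (nat_lit 177) (nat_lit 1) (nat_lit 438) (nat_lit 330) (nat_lit 252)) (XT.nd (nat_lit 78) (nat_lit 76) (nat_lit 0) (XT.lf (nat_lit 0) (nat_lit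 105085479) (nat_lit 0) (nat_lit 340743229) (nat_lit 152) (nat_lit 105085479) (nat_lit 176) (nat_lit 3) (nat_lit 176) (nat_lit 1) (nat_lit 178) (nat_lit 1) (nat_lit 439) (nat_lit 330) (nat_lit 251)) (XT.lf (nat_lit 76) (nat_lit 30991857) (nat_lit 0) (nat_lit 255427810) (nat_lit 76) (nat_lit 255427810) (nat_lit 176) (nat_lit 3) (nat_lit 175) (nat_lit 1) (nat_lit 176) (nat_lit 1) (nat_lit 440) (nat_lit 330) (nat_lit 250)))) (XT.nd (nat_lit 78) (nat_lit 76) (nat_lit 0) (XT.lf (nat_lit 152) (nat_lit 395065361) (nat_lit 0) (nat_lit 68951137) (nat_lit 76) (nat_lit 68951137) (nat_lit 175) (nat_lit 1) (nat_lit 173) (nat_lit 1) (nat_lit 174) (nat_lit 1) (nat_lit 441) (nat_lit 330) (nat_lit 249)) (XT.nd (nat_lit 78) (nat_lit 76) (nat_lit 0) (XT.lf (nat_lit 0) (nat_lit 110100995) (nat_lit 0) (nat_lit 303977209) (nat_lit 152) (nat_lit 110100995) (nat_lit 173) (nat_lit 3) (nat_lit 173) (nat_lit 1) (nat_lit 175)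 (nat_lit 1) (nat_lit 442) (nat_lit 330) (nat_lit 248)) (XT.lf (nat_lit 76) (nat_lit 48762587) (nat_lit 0) (nat_lit 233406601) (nat_lit 76) (nat_lit 233406601) (nat_lit 173) (nat_lit 3) (nat_lit 172) (nat_lit 1) (nat_lit 173) (nat_lit 1) (nat_lit 443) (nat_lit 330) (nat_lit 247))))) (XT.nd (nat_lit 234) (nat_lit 152) (nat_lit 0) (XT.nd (nat_lit 78) (nat_lit 76) (nat_lit 0) (XT.lf (nat_lit 152) (nat_lit 393709898) (nat_lit 0) (nat_lit 56726271) (nat_lit 76) (nat_lit 56726271) (nat_lit 172) (nat_lit 1) (nat_lit 170) (nat_lit 1) (nat_lit 171) (nat_lit 1) (nat_lit 444) (nat_lit 330) (nat_lit 246)) (XT.nd (nat_lit 78) (nat_lit 76) (nat_lit 0) (XT.lf (nat_lit 0) (nat_lit 113101229) (nat_lit 0) (nat_lit 272603670) (nat_lit 152) (nat_lit 113101229) (nat_lit 170) (nat_lit 3) (nat_lit 170) (nat_lit 1) (nat_lit 172) (nat_lit 1) (nat_lit 445) (nat_lit 330) (nat_lit 245)) (XT.lf (nat_lit 76) (nat_lit 62274729)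 (nat_lit 0) (nat_lit 214181816) (nat_lit 76) (nat_lit 214181816) (nat_lit 170) (nat_lit 3) (nat_lit 169) (nat_lit 1) (nat_lit 170) (nat_lit 1) (nat_lit 446) (nat_lit 330) (nat_lit 244)))) (XT.nd (nat_lit 46176) (nat_lit 0) (nat_lit 9500) (XT.lf (nat_lit 152) (nat_lit 389323866) (nat_lit 0) (nat_lit 46668843) (nat_lit 76) (nat_lit 46668843) (nat_lit 169) (nat_lit 1) (nat_lit 167) (nat_lit 1) (nat_lit 168) (nat_lit 1) (nat_lit 447) (nat_lit 330) (nat_lit 243)) (XT.nd (nat_lit 78) (nat_lit 0) (nat_lit 0) (XT.lf (nat_lit 836) (nat_lit 346374560) (nat_lit 0) (nat_lit 614987235) (nat_lit 836) (nat_lit 346374560) (nat_lit 303) (nat_lit 1) (nat_lit 292) (nat_lit 0) (nat_lit 303) (nat_lit 0) (nat_lit 358) (nat_lit 331) (nat_lit 331)) (XT.lf (nat_lit 836) (nat_lit 1342591038) (nat_lit 76) (nat_lit 605068086) (nat_lit 0) (nat_lit 605068086) (nat_lit 303) (nat_lit 1) (nat_lit 293) (nat_lit 1) (nat_lit 292)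 (nat_lit 0) (nat_lit 359) (nat_lit 331) (nat_lit 330)))))) (XT.nd (nat_lit 468) (nat_lit 1368) (nat_lit 0) (XT.nd (nat_lit 234) (nat_lit 0) (nat_lit 76) (XT.nd (nat_lit 78) (nat_lit 0) (nat_lit 0) (XT.lf (nat_lit 836) (nat_lit 639858673) (nat_lit 0) (nat_lit 1212204164) (nat_lit 760) (nat_lit 639858673) (nat_lit 304) (nat_lit 1) (nat_lit 293) (nat_lit 1) (nat_lit 303) (nat_lit 1) (nat_lit 360) (nat_lit 331) (nat_lit 329)) (XT.nd (nat_lit 78) (nat_lit 0) (nat_lit 76) (XT.lf (nat_lit 836) (nat_lit 1200285960) (nat_lit 76) (nat_lit 616397164) (nat_lit 0) (nat_lit 616397164) (nat_lit 304) (nat_lit 1) (nat_lit 294) (nat_lit 1) (nat_lit 293) (nat_lit 1) (nat_lit 361) (nat_lit 331) (nat_lit 328)) (XT.lf (nat_lit 836) (nat_lit 552480101) (nat_lit 0) (nat_lit 1271143835) (nat_lit 760) (nat_lit 552480101) (nat_lit 305) (nat_lit 1) (nat_lit 294) (nat_lit 1) (nat_lit 304) (nat_lit 1) (nat_lit 362) (nat_lit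 331) (nat_lit 327)))) (XT.nd (nat_lit 78) (nat_lit 0) (nat_lit 76) (XT.lf (nat_lit 836) (nat_lit 993671446) (nat_lit 76) (nat_lit 663596597) (nat_lit 0) (nat_lit 663596597) (nat_lit 305) (nat_lit 1) (nat_lit 295) (nat_lit 1) (nat_lit 294) (nat_lit 1) (nat_lit 363) (nat_lit 331) (nat_lit 326)) (XT.nd (nat_lit 78) (nat_lit 0) (nat_lit 0) (XT.lf (nat_lit 836) (nat_lit 435696229) (nat_lit 0) (nat_lit 1396087532) (nat_lit 760) (nat_lit 435696229) (nat_lit 306) (nat_lit 1) (nat_lit 295) (nat_lit 1) (nat_lit 305) (nat_lit 1) (nat_lit 364) (nat_lit 331) (nat_lit 325)) (XT.lf (nat_lit 836) (nat_lit 732418739) (nat_lit 76) (nat_lit 741573232) (nat_lit 0) (nat_lit 741573232) (nat_lit 306) (nat_lit 1) (nat_lit 296) (nat_lit 1) (nat_lit 295) (nat_lit 1) (nat_lit 365) (nat_lit 331) (nat_lit 324))))) (XT.nd (nat_lit 234) (nat_lit 1596) (nat_lit 0) (XT.nd (nat_lit 78) (nat_lit 0) (nat_lit 0) (XT.lf (nat_lit 836)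 (nat_lit 294027975) (nat_lit 0) (nat_lit 1577494843) (nat_lit 760) (nat_lit 294027975) (nat_lit 307) (nat_lit 1) (nat_lit 296) (nat_lit 1) (nat_lit 306) (nat_lit 1) (nat_lit 366) (nat_lit 331) (nat_lit 323)) (XT.nd (nat_lit 78) (nat_lit 0) (nat_lit 76) (XT.lf (nat_lit 836) (nat_lit 425124116) (nat_lit 76) (nat_lit 845791156) (nat_lit 0) (nat_lit 845791156) (nat_lit 307) (nat_lit 1) (nat_lit 297) (nat_lit 1) (nat_lit 296) (nat_lit 1) (nat_lit 367) (nat_lit 331) (nat_lit 322)) (XT.lf (nat_lit 76) (nat_lit 131490846) (nat_lit 0) (nat_lit 1806874424) (nat_lit 760) (nat_lit 131490846) (nat_lit 298) (nat_lit 1) (nat_lit 297) (nat_lit 1) (nat_lit 307) (nat_lit 1) (nat_lit 368) (nat_lit 331) (nat_lit 321)))) (XT.nd (nat_lit 156) (nat_lit 380) (nat_lit 0) (XT.nd (nat_lit 78) (nat_lit 532) (nat_lit 0) (XT.lf (nat_lit 836) (nat_lit 79417201) (nat_lit 0) (nat_lit 972215901) (nat_lit 760) (nat_lit 972215901)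 (nat_lit 298) (nat_lit 1) (nat_lit 287) (nat_lit 1) (nat_lit 297) (nat_lit 1) (nat_lit 369) (nat_lit 331) (nat_lit 320)) (XT.lf (nat_lit 532) (nat_lit 1884670205) (nat_lit 0) (nat_lit 47574119) (nat_lit 456) (nat_lit 47574119) (nat_lit 287) (nat_lit 1) (nat_lit 280) (nat_lit 1) (nat_lit 286) (nat_lit 1) (nat_lit 370) (nat_lit 331) (nat_lit 319))) (XT.nd (nat_lit 78) (nat_lit 380) (nat_lit 0) (XT.lf (nat_lit 76) (nat_lit 823974533) (nat_lit 0) (nat_lit 288405215) (nat_lit 532) (nat_lit 823974533) (nat_lit 281) (nat_lit 1) (nat_lit 280) (nat_lit 1) (nat_lit 287) (nat_lit 1) (nat_lit 371) (nat_lit 331) (nat_lit 318)) (XT.lf (nat_lit 456) (nat_lit 1417848667) (nat_lit 0) (nat_lit 238444833) (nat_lit 380) (nat_lit 238444833) (nat_lit 281) (nat_lit 1) (nat_lit 275) (nat_lit 1) (nat_lit 280) (nat_lit 1) (nat_lit 372) (nat_lit 331) (nat_lit 317))))))) (XT.nd (nat_lit 1014) (nat_lit 1824) (nat_lit 0) (XT.nd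 (nat_lit 468) (nat_lit 1216) (nat_lit 0) (XT.nd (nat_lit 234) (nat_lit 684) (nat_lit 0) (XT.nd (nat_lit 78) (nat_lit 380) (nat_lit 0) (XT.lf (nat_lit 76) (nat_lit 587731004) (nat_lit 0) (nat_lit 678535259) (nat_lit 456) (nat_lit 587731004) (nat_lit 276) (nat_lit 1) (nat_lit 275) (nat_lit 1) (nat_lit 281) (nat_lit 1) (nat_lit 373) (nat_lit 331) (nat_lit 316)) (XT.nd (nat_lit 78) (nat_lit 0) (nat_lit 0) (XT.lf (nat_lit 456) (nat_lit 933673454) (nat_lit 0) (nat_lit 440500825) (nat_lit 380) (nat_lit 440500825) (nat_lit 276) (nat_lit 1) (nat_lit 270) (nat_lit 1) (nat_lit 275) (nat_lit 1) (nat_lit 374) (nat_lit 331) (nat_lit 315)) (XT.lf (nat_lit 76) (nat_lit 344046259) (nat_lit 0) (nat_lit 1088404043) (nat_lit 456) (nat_lit 344046259) (nat_lit 271) (nat_lit 1) (nat_lit 270) (nat_lit 1) (nat_lit 276) (nat_lit 1) (nat_lit 375) (nat_lit 331) (nat_lit 314)))) (XT.nd (nat_lit 78) (nat_lit 380) (nat_lit 0)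 (XT.lf (nat_lit 380) (nat_lit 436651009) (nat_lit 0) (nat_lit 651324543) (nat_lit 304) (nat_lit 651324543) (nat_lit 271) (nat_lit 1) (nat_lit 266) (nat_lit 1) (nat_lit 270) (nat_lit 1) (nat_lit 376) (nat_lit 331) (nat_lit 313)) (XT.nd (nat_lit 78) (nat_lit 380) (nat_lit 0) (XT.lf (nat_lit 76) (nat_lit 95012346) (nat_lit 0) (nat_lit 1513509333) (nat_lit 380) (nat_lit 95012346) (nat_lit 267) (nat_lit 1) (nat_lit 266) (nat_lit 1) (nat_lit 271) (nat_lit 1) (nat_lit 377) (nat_lit 331) (nat_lit 312)) (XT.lf (nat_lit 76) (nat_lit 800601329) (nat_lit 0) (nat_lit 67051916) (nat_lit 380) (nat_lit 800601329) (nat_lit 262) (nat_lit 1) (nat_lit 261) (nat_lit 1) (nat_lit 266) (nat_lit 1) (nat_lit 378) (nat_lit 331) (nat_lit 311))))) (XT.nd (nat_lit 234) (nat_lit 608) (nat_lit 0) (XT.nd (nat_lit 78) (nat_lit 304) (nat_lit 0) (XT.lf (nat_lit 380) (nat_lit 1324320855) (nat_lit 0) (nat_lit 154998899) (nat_lit 304)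 (nat_lit 154998899) (nat_lit 262) (nat_lit 1) (nat_lit 257) (nat_lit 1) (nat_lit 261) (nat_lit 1) (nat_lit 379) (nat_lit 331) (nat_lit 310)) (XT.nd (nat_lit 78) (nat_lit 304) (nat_lit 0) (XT.lf (nat_lit 76) (nat_lit 519456860) (nat_lit 0) (nat_lit 562051190) (nat_lit 380) (nat_lit 519456860) (nat_lit 258) (nat_lit 1) (nat_lit 257) (nat_lit 1) (nat_lit 262) (nat_lit 1) (nat_lit 380) (nat_lit 331) (nat_lit 309)) (XT.lf (nat_lit 380) (nat_lit 758032061) (nat_lit 0) (nat_lit 405367849) (nat_lit 304) (nat_lit 405367849) (nat_lit 258) (nat_lit 1) (nat_lit 253) (nat_lit 1) (nat_lit 257) (nat_lit 1) (nat_lit 381) (nat_lit 331) (nat_lit 308)))) (XT.nd (nat_lit 156) (nat_lit 380) (nat_lit 0) (XT.nd (nat_lit 78) (nat_lit 228) (nat_lit 0) (XT.lf (nat_lit 76) (nat_lit 239049481) (nat_lit 0) (nat_lit 1059413091) (nat_lit 380) (nat_lit 239049481) (nat_lit 254) (nat_lit 1) (nat_lit 253) (nat_lit 1) (nat_lit 258)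 (nat_lit 1) (nat_lit 382) (nat_lit 331) (nat_lit 307)) (XT.lf (nat_lit 304) (nat_lit 194408705) (nat_lit 0) (nat_lit 656261165) (nat_lit 228) (nat_lit 656261165) (nat_lit 254) (nat_lit 1) (nat_lit 250) (nat_lit 1) (nat_lit 253) (nat_lit 1) (nat_lit 383) (nat_lit 331) (nat_lit 306))) (XT.nd (nat_lit 78) (nat_lit 0) (nat_lit 0) (XT.lf (nat_lit 380) (nat_lit 1399844189) (nat_lit 0) (nat_lit 38842990) (nat_lit 304) (nat_lit 38842990) (nat_lit 250) (nat_lit 1) (nat_lit 245) (nat_lit 1) (nat_lit 249) (nat_lit 1) (nat_lit 384) (nat_lit 331) (nat_lit 305)) (XT.lf (nat_lit 76) (nat_lit 547769380) (nat_lit 0) (nat_lit 352753274) (nat_lit 380) (nat_lit 547769380) (nat_lit 246) (nat_lit 1) (nat_lit 245) (nat_lit 1) (nat_lit 250) (nat_lit 1) (nat_lit 385) (nat_lit 331) (nat_lit 304)))))) (XT.nd (nat_lit 468) (nat_lit 836) (nat_lit 0) (XT.nd (nat_lit 234) (nat_lit 532) (nat_lit 0) (XT.nd (nat_lit 78) (nat_lit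 228) (nat_lit 0) (XT.lf (nat_lit 304) (nat_lit 800034497) (nat_lit 0) (nat_lit 310070381) (nat_lit 228) (nat_lit 310070381) (nat_lit 246) (nat_lit 1) (nat_lit 242) (nat_lit 1) (nat_lit 245) (nat_lit 1) (nat_lit 386) (nat_lit 331) (nat_lit 303)) (XT.nd (nat_lit 78) (nat_lit 228) (nat_lit 0) (XT.lf (nat_lit 76) (nat_lit 252743272) (nat_lit 0) (nat_lit 887286294) (nat_lit 304) (nat_lit 252743272) (nat_lit 243) (nat_lit 1) (nat_lit 242) (nat_lit 1) (nat_lit 246) (nat_lit 1) (nat_lit 387) (nat_lit 331) (nat_lit 302)) (XT.lf (nat_lit 304) (nat_lit 210653618) (nat_lit 0) (nat_lit 577670099) (nat_lit 228) (nat_lit 577670099) (nat_lit 243) (nat_lit 1) (nat_lit 239) (nat_lit 1) (nat_lit 242) (nat_lit 1) (nat_lit 388) (nat_lit 331) (nat_lit 301)))) (XT.nd (nat_lit 78) (nat_lit 228) (nat_lit 0) (XT.lf (nat_lit 304) (nat_lit 1267803669) (nat_lit 0) (nat_lit 36203000) (nat_lit 228) (nat_lit 36203000) (nat_lit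 239) (nat_lit 1) (nat_lit 235) (nat_lit 1) (nat_lit 238) (nat_lit 1) (nat_lit 389) (nat_lit 331) (nat_lit 300)) (XT.nd (nat_lit 78) (nat_lit 228) (nat_lit 0) (XT.lf (nat_lit 76) (nat_lit 479573820) (nat_lit 0) (nat_lit 355359385) (nat_lit 304) (nat_lit 479573820) (nat_lit 236) (nat_lit 1) (nat_lit 235) (nat_lit 1) (nat_lit 239) (nat_lit 1) (nat_lit 390) (nat_lit 331) (nat_lit 299)) (XT.lf (nat_lit 304) (nat_lit 659457915) (nat_lit 0) (nat_lit 315148734) (nat_lit 228) (nat_lit 315148734) (nat_lit 236) (nat_lit 1) (nat_lit 232) (nat_lit 1) (nat_lit 235) (nat_lit 1) (nat_lit 391) (nat_lit 331) (nat_lit 298))))) (XT.nd (nat_lit 234) (nat_lit 380) (nat_lit 0) (XT.nd (nat_lit 78) (nat_lit 456) (nat_lit 0) (XT.lf (nat_lit 76) (nat_lit 181614172) (nat_lit 0) (nat_lit 902439249) (nat_lit 304) (nat_lit 181614172) (nat_lit 233) (nat_lit 1) (nat_lit 232) (nat_lit 1) (nat_lit 236) (nat_lit 1) (nat_lit 392)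 (nat_lit 331) (nat_lit 297)) (XT.nd (nat_lit 78) (nat_lit 304) (nat_lit 0) (XT.lf (nat_lit 228) (nat_lit 66549471) (nat_lit 0) (nat_lit 587742125) (nat_lit 152) (nat_lit 587742125) (nat_lit 233) (nat_lit 1) (nat_lit 230) (nat_lit 1) (nat_lit 232) (nat_lit 1) (nat_lit 393) (nat_lit 331) (nat_lit 296)) (XT.lf (nat_lit 304) (nat_lit 1005540195) (nat_lit 0) (nat_lit 106795657) (nat_lit 228) (nat_lit 106795657) (nat_lit 230) (nat_lit 1) (nat_lit 226) (nat_lit 1) (nat_lit 229) (nat_lit 1) (nat_lit 394) (nat_lit 331) (nat_lit 295)))) (XT.nd (nat_lit 156) (nat_lit 228) (nat_lit 0) (XT.nd (nat_lit 78) (nat_lit 152) (nat_lit 0) (XT.lf (nat_lit 76) (nat_lit 351211321) (nat_lit 0) (nat_lit 494062793) (nat_lit 304) (nat_lit 351211321) (nat_lit 227) (nat_lit 1) (nat_lit 226) (nat_lit 1) (nat_lit 230) (nat_lit 1) (nat_lit 395) (nat_lit 331) (nat_lit 294)) (XT.lf (nat_lit 228) (nat_lit 405770505) (nat_lit 0) (nat_lit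 384383888) (nat_lit 152) (nat_lit 384383888) (nat_lit 227) (nat_lit 1) (nat_lit 224) (nat_lit 1) (nat_lit 226) (nat_lit 1) (nat_lit 396) (nat_lit 331) (nat_lit 293))) (XT.nd (nat_lit 78) (nat_lit 228) (nat_lit 0) (XT.lf (nat_lit 76) (nat_lit 58296342) (nat_lit 0) (nat_lit 1036726786) (nat_lit 228) (nat_lit 58296342) (nat_lit 225) (nat_lit 1) (nat_lit 224) (nat_lit 1) (nat_lit 227) (nat_lit 1) (nat_lit 397) (nat_lit 331) (nat_lit 292)) (XT.lf (nat_lit 76) (nat_lit 481129940) (nat_lit 0) (nat_lit 169917910) (nat_lit 228) (nat_lit 481129940) (nat_lit 222) (nat_lit 1) (nat_lit 221) (nat_lit 1) (nat_lit 224) (nat_lit 1) (nat_lit 398) (nat_lit 331) (nat_lit 291))))))))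
noncomputable def ec38 : XT := (XT.nd (nat_lit 1950) (nat_lit 1748) (nat_lit 0) (XT.nd (nat_lit 936) (nat_lit 1140) (nat_lit 0) (XT.nd (nat_lit 468) (nat_lit 608) (nat_lit 0) (XT.nd (nat_lit 234) (nat_lit 380) (nat_lit 0) (XT.nd (nat_lit 78) (nat_lit 152) (nat_lit 0) (XT.lf (nat_lit 228) (nat_lit 668133247) (nat_lit 0) (nat_lit 221802135) (nat_lit 152) (nat_lit 221802135) (nat_lit 222) (nat_lit 1) (nat_lit 219) (nat_lit 1) (nat_lit 221) (nat_lit 1) (nat_lit 399) (nat_lit 331) (nat_lit 290)) (XT.nd (nat_lit 78) (nat_lit 152) (nat_lit 0) (XT.lf (nat_lit 76) (nat_lit 188529820) (nat_lit 0) (nat_lit 714689381) (nat_lit 228) (nat_lit 188529820) (nat_lit 220) (nat_lit 1) (nat_lit 219) (nat_lit 1) (nat_lit 222) (nat_lit 1) (nat_lit 400) (nat_lit 331) (nat_lit 289)) (XT.lf (nat_lit 228) (nat_lit 88319433) (nat_lit 0) (nat_lit 491922003) (nat_lit 152) (nat_lit 491922003) (nat_lit 220) (nat_lit 1) (nat_lit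 217) (nat_lit 1) (nat_lit 219) (nat_lit 1) (nat_lit 401) (nat_lit 331) (nat_lit 288)))) (XT.nd (nat_lit 78) (nat_lit 152) (nat_lit 0) (XT.lf (nat_lit 228) (nat_lit 868060445) (nat_lit 0) (nat_lit 92542460) (nat_lit 152) (nat_lit 92542460) (nat_lit 217) (nat_lit 1) (nat_lit 214) (nat_lit 1) (nat_lit 216) (nat_lit 1) (nat_lit 402) (nat_lit 331) (nat_lit 287)) (XT.nd (nat_lit 78) (nat_lit 152) (nat_lit 0) (XT.lf (nat_lit 76) (nat_lit 288979449) (nat_lit 0) (nat_lit 456330711) (nat_lit 228) (nat_lit 288979449) (nat_lit 215) (nat_lit 1) (nat_lit 214) (nat_lit 1) (nat_lit 217) (nat_lit 1) (nat_lit 403) (nat_lit 331) (nat_lit 286)) (XT.lf (nat_lit 228) (nat_lit 294311539) (nat_lit 0) (nat_lit 360834861) (nat_lit 152) (nat_lit 360834861) (nat_lit 215) (nat_lit 1) (nat_lit 212) (nat_lit 1) (nat_lit 214) (nat_lit 1) (nat_lit 404) (nat_lit 331) (nat_lit 285))))) (XT.nd (nat_lit 234) (nat_lit 304) (nat_lit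 0) (XT.nd (nat_lit 78) (nat_lit 304) (nat_lit 0) (XT.lf (nat_lit 76) (nat_lit 9673208) (nat_lit 0) (nat_lit 978968572) (nat_lit 228) (nat_lit 9673208) (nat_lit 213) (nat_lit 1) (nat_lit 212) (nat_lit 1) (nat_lit 215) (nat_lit 1) (nat_lit 405) (nat_lit 331) (nat_lit 284)) (XT.nd (nat_lit 78) (nat_lit 152) (nat_lit 0) (XT.lf (nat_lit 76) (nat_lit 365244584) (nat_lit 0) (nat_lit 250047252) (nat_lit 152) (nat_lit 365244584) (nat_lit 211) (nat_lit 1) (nat_lit 210) (nat_lit 1) (nat_lit 212) (nat_lit 1) (nat_lit 406) (nat_lit 331) (nat_lit 283)) (XT.lf (nat_lit 228) (nat_lit 453226949) (nat_lit 0) (nat_lit 255078221) (nat_lit 152) (nat_lit 255078221) (nat_lit 211) (nat_lit 1) (nat_lit 208) (nat_lit 1) (nat_lit 210) (nat_lit 1) (nat_lit 407) (nat_lit 331) (nat_lit 282)))) (XT.nd (nat_lit 78) (nat_lit 304) (nat_lit 0) (XT.lf (nat_lit 76) (nat_lit 90868870) (nat_lit 0) (nat_lit 764955624) (nat_lit 228) (nat_lit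 90868870) (nat_lit 209) (nat_lit 1) (nat_lit 208) (nat_lit 1) (nat_lit 211) (nat_lit 1) (nat_lit 408) (nat_lit 331) (nat_lit 281)) (XT.nd (nat_lit 78) (nat_lit 152) (nat_lit 0) (XT.lf (nat_lit 76) (nat_lit 421916648) (nat_lit 0) (nat_lit 86307680) (nat_lit 152) (nat_lit 421916648) (nat_lit 207) (nat_lit 1) (nat_lit 206) (nat_lit 1) (nat_lit 208) (nat_lit 1) (nat_lit 409) (nat_lit 331) (nat_lit 280)) (XT.lf (nat_lit 228) (nat_lit 573914854) (nat_lit 0) (nat_lit 170061567) (nat_lit 152) (nat_lit 170061567) (nat_lit 207) (nat_lit 1) (nat_lit 204) (nat_lit 1) (nat_lit 206) (nat_lit 1) (nat_lit 410) (nat_lit 331) (nat_lit 279)))))) (XT.nd (nat_lit 468) (nat_lit 532) (nat_lit 0) (XT.nd (nat_lit 234) (nat_lit 304) (nat_lit 0) (XT.nd (nat_lit 78) (nat_lit 304) (nat_lit 0) (XT.lf (nat_lit 76) (nat_lit 153720614) (nat_lit 0) (nat_lit 590812558) (nat_lit 228) (nat_lit 153720614) (nat_lit 205) (nat_lit 1)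 (nat_lit 204) (nat_lit 1) (nat_lit 207) (nat_lit 1) (nat_lit 411) (nat_lit 331) (nat_lit 278)) (XT.nd (nat_lit 78) (nat_lit 228) (nat_lit 0) (XT.lf (nat_lit 152) (nat_lit 44127590) (nat_lit 0) (nat_lit 419319926) (nat_lit 76) (nat_lit 419319926) (nat_lit 205) (nat_lit 1) (nat_lit 203) (nat_lit 1) (nat_lit 204) (nat_lit 1) (nat_lit 412) (nat_lit 331) (nat_lit 277)) (XT.lf (nat_lit 228) (nat_lit 663631572) (nat_lit 0) (nat_lit 102013009) (nat_lit 152) (nat_lit 102013009) (nat_lit 203) (nat_lit 1) (nat_lit 200) (nat_lit 1) (nat_lit 202) (nat_lit 1) (nat_lit 413) (nat_lit 331) (nat_lit 276)))) (XT.nd (nat_lit 78) (nat_lit 304) (nat_lit 0) (XT.lf (nat_lit 76) (nat_lit 201668777) (nat_lit 0) (nat_lit 449378833) (nat_lit 228) (nat_lit 201668777) (nat_lit 201) (nat_lit 1) (nat_lit 200) (nat_lit 1) (nat_lit 203) (nat_lit 1) (nat_lit 414) (nat_lit 331) (nat_lit 275)) (XT.nd (nat_lit 78) (nat_lit 228) (nat_lit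 0) (XT.lf (nat_lit 152) (nat_lit 148190446) (nat_lit 0) (nat_lit 344975541) (nat_lit 76) (nat_lit 344975541) (nat_lit 201) (nat_lit 1) (nat_lit 199) (nat_lit 1) (nat_lit 200) (nat_lit 1) (nat_lit 415) (nat_lit 331) (nat_lit 274)) (XT.lf (nat_lit 228) (nat_lit 728324099) (nat_lit 0) (nat_lit 47833913) (nat_lit 152) (nat_lit 47833913) (nat_lit 199) (nat_lit 1) (nat_lit 196) (nat_lit 1) (nat_lit 198) (nat_lit 1) (nat_lit 416) (nat_lit 331) (nat_lit 273))))) (XT.nd (nat_lit 234) (nat_lit 228) (nat_lit 0) (XT.nd (nat_lit 78) (nat_lit 304) (nat_lit 0) (XT.lf (nat_lit 76) (nat_lit 237534780) (nat_lit 0) (nat_lit 334767820) (nat_lit 228) (nat_lit 237534780) (nat_lit 197) (nat_lit 1) (nat_lit 196) (nat_lit 1) (nat_lit 199) (nat_lit 1) (nat_lit 417) (nat_lit 331) (nat_lit 272)) (XT.nd (nat_lit 78) (nat_lit 228) (nat_lit 0) (XT.lf (nat_lit 152) (nat_lit 228475283) (nat_lit 0) (nat_lit 283812231) (nat_lit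 76) (nat_lit 283812231) (nat_lit 197) (nat_lit 1) (nat_lit 195) (nat_lit 1) (nat_lit 196) (nat_lit 1) (nat_lit 418) (nat_lit 331) (nat_lit 271)) (XT.lf (nat_lit 228) (nat_lit 772863337) (nat_lit 0) (nat_lit 4979325) (nat_lit 152) (nat_lit 4979325) (nat_lit 195) (nat_lit 1) (nat_lit 192) (nat_lit 1) (nat_lit 194) (nat_lit 1) (nat_lit 419) (nat_lit 331) (nat_lit 270)))) (XT.nd (nat_lit 156) (nat_lit 152) (nat_lit 0) (XT.nd (nat_lit 78) (nat_lit 76) (nat_lit 0) (XT.lf (nat_lit 76) (nat_lit 263631288) (nat_lit 0) (nat_lit 242140735) (nat_lit 228) (nat_lit 263631288) (nat_lit 193) (nat_lit 1) (nat_lit 192) (nat_lit 1) (nat_lit 195) (nat_lit 1) (nat_lit 420) (nat_lit 331) (nat_lit 269)) (XT.lf (nat_lit 152) (nat_lit 289451596) (nat_lit 0) (nat_lit 233493025) (nat_lit 76) (nat_lit 233493025) (nat_lit 193) (nat_lit 1) (nat_lit 191) (nat_lit 1) (nat_lit 192) (nat_lit 1) (nat_lit 421) (nat_lit 331) (nat_lit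 268))) (XT.nd (nat_lit 78) (nat_lit 152) (nat_lit 0) (XT.lf (nat_lit 0) (nat_lit 29109919) (nat_lit 0) (nat_lit 685643595) (nat_lit 152) (nat_lit 29109919) (nat_lit 191) (nat_lit 3) (nat_lit 191) (nat_lit 1) (nat_lit 193) (nat_lit 1) (nat_lit 422) (nat_lit 331) (nat_lit 267)) (XT.lf (nat_lit 76) (nat_lit 281852815) (nat_lit 0) (nat_lit 167520659) (nat_lit 152) (nat_lit 281852815) (nat_lit 190) (nat_lit 1) (nat_lit 189) (nat_lit 1) (nat_lit 191) (nat_lit 1) (nat_lit 423) (nat_lit 331) (nat_lit 266))))))) (XT.nd (nat_lit 936) (nat_lit 912) (nat_lit 0) (XT.nd (nat_lit 468) (nat_lit 380) (nat_lit 0) (XT.nd (nat_lit 234) (nat_lit 228) (nat_lit 0) (XT.nd (nat_lit 78) (nat_lit 152) (nat_lit 0) (XT.lf (nat_lit 152) (nat_lit 334784368) (nat_lit 0) (nat_lit 192095289) (nat_lit 76) (nat_lit 192095289) (nat_lit 190) (nat_lit 1) (nat_lit 188) (nat_lit 1) (nat_lit 189) (nat_lit 1) (nat_lit 424) (nat_lit 331)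 (nat_lit 265)) (XT.nd (nat_lit 78) (nat_lit 152) (nat_lit 0) (XT.lf (nat_lit 0) (nat_lit 55637925) (nat_lit 0) (nat_lit 595769805) (nat_lit 152) (nat_lit 55637925) (nat_lit 188) (nat_lit 3) (nat_lit 188) (nat_lit 1) (nat_lit 190) (nat_lit 1) (nat_lit 425) (nat_lit 331) (nat_lit 264)) (XT.lf (nat_lit 76) (nat_lit 293750248) (nat_lit 0) (nat_lit 107639544) (nat_lit 152) (nat_lit 293750248) (nat_lit 187) (nat_lit 1) (nat_lit 186) (nat_lit 1) (nat_lit 188) (nat_lit 1) (nat_lit 426) (nat_lit 331) (nat_lit 263)))) (XT.nd (nat_lit 78) (nat_lit 152) (nat_lit 0) (XT.lf (nat_lit 152) (nat_lit 367477285) (nat_lit 0) (nat_lit 158037270) (nat_lit 76) (nat_lit 158037270) (nat_lit 187) (nat_lit 1) (nat_lit 185) (nat_lit 1) (nat_lit 186) (nat_lit 1) (nat_lit 427) (nat_lit 331) (nat_lit 262)) (XT.nd (nat_lit 78) (nat_lit 152) (nat_lit 0) (XT.lf (nat_lit 0) (nat_lit 75953576) (nat_lit 0) (nat_lit 520321410) (nat_lit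 152) (nat_lit 75953576) (nat_lit 185) (nat_lit 3) (nat_lit 185) (nat_lit 1) (nat_lit 187) (nat_lit 1) (nat_lit 428) (nat_lit 331) (nat_lit 261)) (XT.lf (nat_lit 76) (nat_lit 300592141) (nat_lit 0) (nat_lit 59812351) (nat_lit 152) (nat_lit 300592141) (nat_lit 184) (nat_lit 1) (nat_lit 183) (nat_lit 1) (nat_lit 185) (nat_lit 1) (nat_lit 429) (nat_lit 331) (nat_lit 260))))) (XT.nd (nat_lit 234) (nat_lit 152) (nat_lit 0) (XT.nd (nat_lit 78) (nat_lit 152) (nat_lit 0) (XT.lf (nat_lit 152) (nat_lit 389990525) (nat_lit 0) (nat_lit 130017653) (nat_lit 76) (nat_lit 130017653) (nat_lit 184) (nat_lit 1) (nat_lit 182) (nat_lit 1) (nat_lit 183) (nat_lit 1) (nat_lit 430) (nat_lit 331) (nat_lit 259)) (XT.nd (nat_lit 78) (nat_lit 152) (nat_lit 0) (XT.lf (nat_lit 0) (nat_lit 91230163) (nat_lit 0) (nat_lit 456812680) (nat_lit 152) (nat_lit 91230163) (nat_lit 182) (nat_lit 3) (nat_lit 182) (nat_lit 1) (nat_lit 184)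 (nat_lit 1) (nat_lit 431) (nat_lit 331) (nat_lit 258)) (XT.lf (nat_lit 76) (nat_lit 303415122) (nat_lit 0) (nat_lit 21833513) (nat_lit 152) (nat_lit 303415122) (nat_lit 181) (nat_lit 1) (nat_lit 180) (nat_lit 1) (nat_lit 182) (nat_lit 1) (nat_lit 432) (nat_lit 331) (nat_lit 257)))) (XT.nd (nat_lit 78) (nat_lit 76) (nat_lit 0) (XT.lf (nat_lit 152) (nat_lit 404337650) (nat_lit 0) (nat_lit 106965845) (nat_lit 76) (nat_lit 106965845) (nat_lit 181) (nat_lit 1) (nat_lit 179) (nat_lit 1) (nat_lit 180) (nat_lit 1) (nat_lit 433) (nat_lit 331) (nat_lit 256)) (XT.nd (nat_lit 78) (nat_lit 76) (nat_lit 0) (XT.lf (nat_lit 0) (nat_lit 102429536) (nat_lit 0) (nat_lit 403195178) (nat_lit 152) (nat_lit 102429536) (nat_lit 179) (nat_lit 3) (nat_lit 179) (nat_lit 1) (nat_lit 181) (nat_lit 1) (nat_lit 434) (nat_lit 331) (nat_lit 255)) (XT.lf (nat_lit 76) (nat_lit 8376328) (nat_lit 0) (nat_lit 294819797) (nat_lit 76)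 (nat_lit 294819797) (nat_lit 179) (nat_lit 3) (nat_lit 178) (nat_lit 1) (nat_lit 179) (nat_lit 1) (nat_lit 435) (nat_lit 331) (nat_lit 254)))))) (XT.nd (nat_lit 468) (nat_lit 456) (nat_lit 0) (XT.nd (nat_lit 234) (nat_lit 228) (nat_lit 0) (XT.nd (nat_lit 78) (nat_lit 76) (nat_lit 0) (XT.lf (nat_lit 152) (nat_lit 412165280) (nat_lit 0) (nat_lit 88001065) (nat_lit 76) (nat_lit 88001065) (nat_lit 178) (nat_lit 1) (nat_lit 176) (nat_lit 1) (nat_lit 177) (nat_lit 1) (nat_lit 436) (nat_lit 331) (nat_lit 253)) (XT.nd (nat_lit 78) (nat_lit 76) (nat_lit 0) (XT.lf (nat_lit 0) (nat_lit 110339753) (nat_lit 0) (nat_lit 357780390) (nat_lit 152) (nat_lit 110339753) (nat_lit 176) (nat_lit 3) (nat_lit 176) (nat_lit 1) (nat_lit 178) (nat_lit 1) (nat_lit 437) (nat_lit 331) (nat_lit 252)) (XT.lf (nat_lit 76) (nat_lit 32541450) (nat_lit 0) (nat_lit 268199200) (nat_lit 76) (nat_lit 268199200) (nat_lit 176) (nat_lit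 3) (nat_lit 175) (nat_lit 1) (nat_lit 176) (nat_lit 1) (nat_lit 438) (nat_lit 331) (nat_lit 251)))) (XT.nd (nat_lit 78) (nat_lit 76) (nat_lit 0) (XT.lf (nat_lit 152) (nat_lit 414818630) (nat_lit 0) (nat_lit 72398694) (nat_lit 76) (nat_lit 72398694) (nat_lit 175) (nat_lit 1) (nat_lit 173) (nat_lit 1) (nat_lit 174) (nat_lit 1) (nat_lit 439) (nat_lit 331) (nat_lit 250)) (XT.nd (nat_lit 78) (nat_lit 76) (nat_lit 0) (XT.lf (nat_lit 0) (nat_lit 115606044) (nat_lit 0) (nat_lit 319176069) (nat_lit 152) (nat_lit 115606044) (nat_lit 173) (nat_lit 3) (nat_lit 173) (nat_lit 1) (nat_lit 175) (nat_lit 1) (nat_lit 440) (nat_lit 331) (nat_lit 249)) (XT.lf (nat_lit 76) (nat_lit 51200716) (nat_lit 0) (nat_lit 245076931) (nat_lit 76) (nat_lit 245076931) (nat_lit 173) (nat_lit 3) (nat_lit 172) (nat_lit 1) (nat_lit 173) (nat_lit 1) (nat_lit 441) (nat_lit 331) (nat_lit 248))))) (XT.nd (nat_lit 234) (nat_lit 228) (nat_lit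 0) (XT.nd (nat_lit 78) (nat_lit 76) (nat_lit 0) (XT.lf (nat_lit 152) (nat_lit 413395392) (nat_lit 0) (nat_lit 59562585) (nat_lit 76) (nat_lit 59562585) (nat_lit 172) (nat_lit 1) (nat_lit 170) (nat_lit 1) (nat_lit 171) (nat_lit 1) (nat_lit 442) (nat_lit 331) (nat_lit 247)) (XT.nd (nat_lit 78) (nat_lit 76) (nat_lit 0) (XT.lf (nat_lit 0) (nat_lit 118756290) (nat_lit 0) (nat_lit 286233853) (nat_lit 152) (nat_lit 118756290) (nat_lit 170) (nat_lit 3) (nat_lit 170) (nat_lit 1) (nat_lit 172) (nat_lit 1) (nat_lit 443) (nat_lit 331) (nat_lit 246)) (XT.lf (nat_lit 76) (nat_lit 65388466) (nat_lit 0) (nat_lit 224890907) (nat_lit 76) (nat_lit 224890907) (nat_lit 170) (nat_lit 3) (nat_lit 169) (nat_lit 1) (nat_lit 170) (nat_lit 1) (nat_lit 444) (nat_lit 331) (nat_lit 245)))) (XT.nd (nat_lit 156) (nat_lit 76) (nat_lit 0) (XT.nd (nat_lit 78) (nat_lit 0) (nat_lit 0) (XT.lf (nat_lit 152) (nat_lit 408790059) (nat_lit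 0) (nat_lit 49002286) (nat_lit 76) (nat_lit 49002286) (nat_lit 169) (nat_lit 1) (nat_lit 167) (nat_lit 1) (nat_lit 168) (nat_lit 1) (nat_lit 445) (nat_lit 331) (nat_lit 244)) (XT.lf (nat_lit 0) (nat_lit 120221961) (nat_lit 0) (nat_lit 258006167) (nat_lit 152) (nat_lit 120221961) (nat_lit 167) (nat_lit 3) (nat_lit 167) (nat_lit 1) (nat_lit 169) (nat_lit 1) (nat_lit 446) (nat_lit 331) (nat_lit 243))) (XT.nd (nat_lit 46020) (nat_lit 0) (nat_lit 9576) (XT.lf (nat_lit 76) (nat_lit 75952880) (nat_lit 0) (nat_lit 207175934) (nat_lit 76) (nat_lit 207175934) (nat_lit 167) (nat_lit 3) (nat_lit 166) (nat_lit 1) (nat_lit 167) (nat_lit 1) (nat_lit 447) (nat_lit 331) (nat_lit 242)) (XT.lf (nat_lit 836) (nat_lit 363693288) (nat_lit 0) (nat_lit 645736597) (nat_lit 836) (nat_lit 363693288) (nat_lit 303) (nat_lit 1) (nat_lit 292) (nat_lit 0) (nat_lit 303) (nat_lit 0) (nat_lit 356) (nat_lit 332) (nat_lit 332))))))))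
noncomputable def ec39 : XT := (XT.nd (nat_lit 1950) (nat_lit 3344) (nat_lit 0) (XT.nd (nat_lit 936) (nat_lit 2280) (nat_lit 0) (XT.nd (nat_lit 468) (nat_lit 912) (nat_lit 0) (XT.nd (nat_lit 234) (nat_lit 0) (nat_lit 152) (XT.nd (nat_lit 78) (nat_lit 0) (nat_lit 76) (XT.lf (nat_lit 836) (nat_lit 1409720590) (nat_lit 76) (nat_lit 635321490) (nat_lit 0) (nat_lit 635321490) (nat_lit 303) (nat_lit 1) (nat_lit 293) (nat_lit 1) (nat_lit 292) (nat_lit 0) (nat_lit 357) (nat_lit 332) (nat_lit 331)) (XT.nd (nat_lit 78) (nat_lit 0) (nat_lit 0) (XT.lf (nat_lit 836) (nat_lit 671851607) (nat_lit 0) (nat_lit 1272814372) (nat_lit 760) (nat_lit 671851607) (nat_lit 304) (nat_lit 1) (nat_lit 293) (nat_lit 1) (nat_lit 303) (nat_lit 1) (nat_lit 358) (nat_lit 332) (nat_lit 330)) (XT.lf (nat_lit 836) (nat_lit 1260300259) (nat_lit 76) (nat_lit 647217022) (nat_lit 0) (nat_lit 647217022) (nat_lit 304) (nat_lit 1) (nat_lit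 294) (nat_lit 1) (nat_lit 293) (nat_lit 1) (nat_lit 359) (nat_lit 332) (nat_lit 329)))) (XT.nd (nat_lit 78) (nat_lit 0) (nat_lit 0) (XT.lf (nat_lit 836) (nat_lit 580104106) (nat_lit 0) (nat_lit 1334701027) (nat_lit 760) (nat_lit 580104106) (nat_lit 305) (nat_lit 1) (nat_lit 294) (nat_lit 1) (nat_lit 304) (nat_lit 1) (nat_lit 360) (nat_lit 332) (nat_lit 328)) (XT.nd (nat_lit 78) (nat_lit 0) (nat_lit 76) (XT.lf (nat_lit 836) (nat_lit 1043355018) (nat_lit 76) (nat_lit 696776427) (nat_lit 0) (nat_lit 696776427) (nat_lit 305) (nat_lit 1) (nat_lit 295) (nat_lit 1) (nat_lit 294) (nat_lit 1) (nat_lit 361) (nat_lit 332) (nat_lit 327)) (XT.lf (nat_lit 836) (nat_lit 457481040) (nat_lit 0) (nat_lit 1465891909) (nat_lit 760) (nat_lit 457481040) (nat_lit 306) (nat_lit 1) (nat_lit 295) (nat_lit 1) (nat_lit 305) (nat_lit 1) (nat_lit 362) (nat_lit 332) (nat_lit 326))))) (XT.nd (nat_lit 234) (nat_lit 1140) (nat_lit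 0) (XT.nd (nat_lit 78) (nat_lit 0) (nat_lit 76) (XT.lf (nat_lit 836) (nat_lit 769039676) (nat_lit 76) (nat_lit 778651894) (nat_lit 0) (nat_lit 778651894) (nat_lit 306) (nat_lit 1) (nat_lit 296) (nat_lit 1) (nat_lit 295) (nat_lit 1) (nat_lit 363) (nat_lit 332) (nat_lit 325)) (XT.nd (nat_lit 78) (nat_lit 0) (nat_lit 0) (XT.lf (nat_lit 836) (nat_lit 308729374) (nat_lit 0) (nat_lit 1656369585) (nat_lit 760) (nat_lit 308729374) (nat_lit 307) (nat_lit 1) (nat_lit 296) (nat_lit 1) (nat_lit 306) (nat_lit 1) (nat_lit 364) (nat_lit 332) (nat_lit 324)) (XT.lf (nat_lit 836) (nat_lit 446380322) (nat_lit 76) (nat_lit 888080714) (nat_lit 0) (nat_lit 888080714) (nat_lit 307) (nat_lit 1) (nat_lit 297) (nat_lit 1) (nat_lit 296) (nat_lit 1) (nat_lit 365) (nat_lit 332) (nat_lit 323)))) (XT.nd (nat_lit 78) (nat_lit 1292) (nat_lit 0) (XT.lf (nat_lit 76) (nat_lit 138065388) (nat_lit 0) (nat_lit 1897218146) (nat_lit 760)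 (nat_lit 138065388) (nat_lit 298) (nat_lit 1) (nat_lit 297) (nat_lit 1) (nat_lit 307) (nat_lit 1) (nat_lit 366) (nat_lit 332) (nat_lit 322)) (XT.nd (nat_lit 78) (nat_lit 532) (nat_lit 0) (XT.lf (nat_lit 836) (nat_lit 83388061) (nat_lit 0) (nat_lit 1020826696) (nat_lit 760) (nat_lit 1020826696) (nat_lit 298) (nat_lit 1) (nat_lit 287) (nat_lit 1) (nat_lit 297) (nat_lit 1) (nat_lit 367) (nat_lit 332) (nat_lit 321)) (XT.lf (nat_lit 532) (nat_lit 1978903716) (nat_lit 0) (nat_lit 49952825) (nat_lit 456) (nat_lit 49952825) (nat_lit 287) (nat_lit 1) (nat_lit 280) (nat_lit 1) (nat_lit 286) (nat_lit 1) (nat_lit 368) (nat_lit 332) (nat_lit 320)))))) (XT.nd (nat_lit 468) (nat_lit 1216) (nat_lit 0) (XT.nd (nat_lit 234) (nat_lit 684) (nat_lit 0) (XT.nd (nat_lit 78) (nat_lit 380) (nat_lit 0) (XT.lf (nat_lit 76) (nat_lit 865173260) (nat_lit 0) (nat_lit 302825476) (nat_lit 532) (nat_lit 865173260) (nat_lit 281)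 (nat_lit 1) (nat_lit 280) (nat_lit 1) (nat_lit 287) (nat_lit 1) (nat_lit 369) (nat_lit 332) (nat_lit 319)) (XT.nd (nat_lit 78) (nat_lit 0) (nat_lit 0) (XT.lf (nat_lit 456) (nat_lit 1488741101) (nat_lit 0) (nat_lit 250367075) (nat_lit 380) (nat_lit 250367075) (nat_lit 281) (nat_lit 1) (nat_lit 275) (nat_lit 1) (nat_lit 280) (nat_lit 1) (nat_lit 370) (nat_lit 332) (nat_lit 318)) (XT.lf (nat_lit 76) (nat_lit 617117554) (nat_lit 0) (nat_lit 712462022) (nat_lit 456) (nat_lit 617117554) (nat_lit 276) (nat_lit 1) (nat_lit 275) (nat_lit 1) (nat_lit 281) (nat_lit 1) (nat_lit 371) (nat_lit 332) (nat_lit 317)))) (XT.nd (nat_lit 78) (nat_lit 304) (nat_lit 0) (XT.lf (nat_lit 456) (nat_lit 980357127) (nat_lit 0) (nat_lit 462525866) (nat_lit 380) (nat_lit 462525866) (nat_lit 276) (nat_lit 1) (nat_lit 270) (nat_lit 1) (nat_lit 275) (nat_lit 1) (nat_lit 372) (nat_lit 332) (nat_lit 316)) (XT.nd (nat_lit 78) (nat_lit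 304) (nat_lit 0) (XT.lf (nat_lit 76) (nat_lit 361248572) (nat_lit 0) (nat_lit 1142824245) (nat_lit 456) (nat_lit 361248572) (nat_lit 271) (nat_lit 1) (nat_lit 270) (nat_lit 1) (nat_lit 276) (nat_lit 1) (nat_lit 373) (nat_lit 332) (nat_lit 315)) (XT.lf (nat_lit 380) (nat_lit 458483560) (nat_lit 0) (nat_lit 683890771) (nat_lit 304) (nat_lit 683890771) (nat_lit 271) (nat_lit 1) (nat_lit 266) (nat_lit 1) (nat_lit 270) (nat_lit 1) (nat_lit 374) (nat_lit 332) (nat_lit 314))))) (XT.nd (nat_lit 234) (nat_lit 532) (nat_lit 0) (XT.nd (nat_lit 78) (nat_lit 684) (nat_lit 0) (XT.lf (nat_lit 76) (nat_lit 99762963) (nat_lit 0) (nat_lit 1589184800) (nat_lit 380) (nat_lit 99762963) (nat_lit 267) (nat_lit 1) (nat_lit 266) (nat_lit 1) (nat_lit 271) (nat_lit 1) (nat_lit 375) (nat_lit 332) (nat_lit 313)) (XT.nd (nat_lit 78) (nat_lit 304) (nat_lit 0) (XT.lf (nat_lit 76) (nat_lit 840631396) (nat_lit 0) (nat_lit 70404512)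 (nat_lit 380) (nat_lit 840631396) (nat_lit 262) (nat_lit 1) (nat_lit 261) (nat_lit 1) (nat_lit 266) (nat_lit 1) (nat_lit 376) (nat_lit 332) (nat_lit 312)) (XT.lf (nat_lit 380) (nat_lit 1390536898) (nat_lit 0) (nat_lit 162748844) (nat_lit 304) (nat_lit 162748844) (nat_lit 262) (nat_lit 1) (nat_lit 257) (nat_lit 1) (nat_lit 261) (nat_lit 1) (nat_lit 377) (nat_lit 332) (nat_lit 311)))) (XT.nd (nat_lit 156) (nat_lit 228) (nat_lit 0) (XT.nd (nat_lit 78) (nat_lit 304) (nat_lit 0) (XT.lf (nat_lit 76) (nat_lit 545429703) (nat_lit 0) (nat_lit 590153749) (nat_lit 380) (nat_lit 545429703) (nat_lit 258) (nat_lit 1) (nat_lit 257) (nat_lit 1) (nat_lit 262) (nat_lit 1) (nat_lit 378) (nat_lit 332) (nat_lit 310)) (XT.lf (nat_lit 380) (nat_lit 795933664) (nat_lit 0) (nat_lit 425636241) (nat_lit 304) (nat_lit 425636241) (nat_lit 258) (nat_lit 1) (nat_lit 253) (nat_lit 1) (nat_lit 257) (nat_lit 1) (nat_lit 379) (nat_lit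 332) (nat_lit 309))) (XT.nd (nat_lit 78) (nat_lit 228) (nat_lit 0) (XT.lf (nat_lit 76) (nat_lit 251001955) (nat_lit 0) (nat_lit 1112383745) (nat_lit 380) (nat_lit 251001955) (nat_lit 254) (nat_lit 1) (nat_lit 253) (nat_lit 1) (nat_lit 258) (nat_lit 1) (nat_lit 380) (nat_lit 332) (nat_lit 308)) (XT.lf (nat_lit 304) (nat_lit 204129140) (nat_lit 0) (nat_lit 689074223) (nat_lit 228) (nat_lit 689074223) (nat_lit 254) (nat_lit 1) (nat_lit 250) (nat_lit 1) (nat_lit 253) (nat_lit 1) (nat_lit 381) (nat_lit 332) (nat_lit 307))))))) (XT.nd (nat_lit 1014) (nat_lit 1368) (nat_lit 0) (XT.nd (nat_lit 468) (nat_lit 836) (nat_lit 0) (XT.nd (nat_lit 234) (nat_lit 532) (nat_lit 0) (XT.nd (nat_lit 78) (nat_lit 228) (nat_lit 0) (XT.lf (nat_lit 380) (nat_lit 1469836398) (nat_lit 0) (nat_lit 40785139) (nat_lit 304) (nat_lit 40785139) (nat_lit 250) (nat_lit 1) (nat_lit 245) (nat_lit 1) (nat_lit 249) (nat_lit 1) (nat_lit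 382) (nat_lit 332) (nat_lit 306)) (XT.nd (nat_lit 78) (nat_lit 228) (nat_lit 0) (XT.lf (nat_lit 76) (nat_lit 575157849) (nat_lit 0) (nat_lit 370390938) (nat_lit 380) (nat_lit 575157849) (nat_lit 246) (nat_lit 1) (nat_lit 245) (nat_lit 1) (nat_lit 250) (nat_lit 1) (nat_lit 383) (nat_lit 332) (nat_lit 305)) (XT.lf (nat_lit 304) (nat_lit 840036221) (nat_lit 0) (nat_lit 325573900) (nat_lit 228) (nat_lit 325573900) (nat_lit 246) (nat_lit 1) (nat_lit 242) (nat_lit 1) (nat_lit 245) (nat_lit 1) (nat_lit 384) (nat_lit 332) (nat_lit 304)))) (XT.nd (nat_lit 78) (nat_lit 532) (nat_lit 0) (XT.lf (nat_lit 76) (nat_lit 265380436) (nat_lit 0) (nat_lit 931650608) (nat_lit 304) (nat_lit 265380436) (nat_lit 243) (nat_lit 1) (nat_lit 242) (nat_lit 1) (nat_lit 246) (nat_lit 1) (nat_lit 385) (nat_lit 332) (nat_lit 303)) (XT.nd (nat_lit 78) (nat_lit 304) (nat_lit 0) (XT.lf (nat_lit 304) (nat_lit 221186299) (nat_lit 0)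 (nat_lit 606553604) (nat_lit 228) (nat_lit 606553604) (nat_lit 243) (nat_lit 1) (nat_lit 239) (nat_lit 1) (nat_lit 242) (nat_lit 1) (nat_lit 386) (nat_lit 332) (nat_lit 302)) (XT.lf (nat_lit 304) (nat_lit 1331193852) (nat_lit 0) (nat_lit 38013150) (nat_lit 228) (nat_lit 38013150) (nat_lit 239) (nat_lit 1) (nat_lit 235) (nat_lit 1) (nat_lit 238) (nat_lit 1) (nat_lit 387) (nat_lit 332) (nat_lit 301))))) (XT.nd (nat_lit 234) (nat_lit 608) (nat_lit 0) (XT.nd (nat_lit 78) (nat_lit 228) (nat_lit 0) (XT.lf (nat_lit 76) (nat_lit 503552511) (nat_lit 0) (nat_lit 373127354) (nat_lit 304) (nat_lit 503552511) (nat_lit 236) (nat_lit 1) (nat_lit 235) (nat_lit 1) (nat_lit 239) (nat_lit 1) (nat_lit 388) (nat_lit 332) (nat_lit 300)) (XT.nd (nat_lit 78) (nat_lit 0) (nat_lit 0) (XT.lf (nat_lit 304) (nat_lit 692430811) (nat_lit 0) (nat_lit 330906171) (nat_lit 228) (nat_lit 330906171) (nat_lit 236) (nat_lit 1) (nat_lit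 232) (nat_lit 1) (nat_lit 235) (nat_lit 1) (nat_lit 389) (nat_lit 332) (nat_lit 299)) (XT.lf (nat_lit 76) (nat_lit 190694880) (nat_lit 0) (nat_lit 947561211) (nat_lit 304) (nat_lit 190694880) (nat_lit 233) (nat_lit 1) (nat_lit 232) (nat_lit 1) (nat_lit 236) (nat_lit 1) (nat_lit 390) (nat_lit 332) (nat_lit 298)))) (XT.nd (nat_lit 156) (nat_lit 152) (nat_lit 0) (XT.nd (nat_lit 78) (nat_lit 304) (nat_lit 0) (XT.lf (nat_lit 228) (nat_lit 69876944) (nat_lit 0) (nat_lit 617129231) (nat_lit 152) (nat_lit 617129231) (nat_lit 233) (nat_lit 1) (nat_lit 230) (nat_lit 1) (nat_lit 232) (nat_lit 1) (nat_lit 391) (nat_lit 332) (nat_lit 297)) (XT.lf (nat_lit 304) (nat_lit 1055817205) (nat_lit 0) (nat_lit 112135440) (nat_lit 228) (nat_lit 112135440) (nat_lit 230) (nat_lit 1) (nat_lit 226) (nat_lit 1) (nat_lit 229) (nat_lit 1) (nat_lit 392) (nat_lit 332) (nat_lit 296))) (XT.nd (nat_lit 78) (nat_lit 152) (nat_lit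 0) (XT.lf (nat_lit 76) (nat_lit 368771887) (nat_lit 0) (nat_lit 518765932) (nat_lit 304) (nat_lit 368771887) (nat_lit 227) (nat_lit 1) (nat_lit 226) (nat_lit 1) (nat_lit 230) (nat_lit 1) (nat_lit 393) (nat_lit 332) (nat_lit 295)) (XT.lf (nat_lit 228) (nat_lit 426059030) (nat_lit 0) (nat_lit 403603083) (nat_lit 152) (nat_lit 403603083) (nat_lit 227) (nat_lit 1) (nat_lit 224) (nat_lit 1) (nat_lit 226) (nat_lit 1) (nat_lit 394) (nat_lit 332) (nat_lit 294)))))) (XT.nd (nat_lit 468) (nat_lit 608) (nat_lit 0) (XT.nd (nat_lit 234) (nat_lit 380) (nat_lit 0) (XT.nd (nat_lit 78) (nat_lit 380) (nat_lit 0) (XT.lf (nat_lit 76) (nat_lit 61211159) (nat_lit 0) (nat_lit 1088563125) (nat_lit 228) (nat_lit 61211159) (nat_lit 225) (nat_lit 1) (nat_lit 224) (nat_lit 1) (nat_lit 227) (nat_lit 1) (nat_lit 395) (nat_lit 332) (nat_lit 293)) (XT.nd (nat_lit 78) (nat_lit 152) (nat_lit 0) (XT.lf (nat_lit 76) (nat_lit 505186437)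 (nat_lit 0) (nat_lit 178413805) (nat_lit 228) (nat_lit 505186437) (nat_lit 222) (nat_lit 1) (nat_lit 221) (nat_lit 1) (nat_lit 224) (nat_lit 1) (nat_lit 396) (nat_lit 332) (nat_lit 292)) (XT.lf (nat_lit 228) (nat_lit 701539909) (nat_lit 0) (nat_lit 232892242) (nat_lit 152) (nat_lit 232892242) (nat_lit 222) (nat_lit 1) (nat_lit 219) (nat_lit 1) (nat_lit 221) (nat_lit 1) (nat_lit 397) (nat_lit 332) (nat_lit 291)))) (XT.nd (nat_lit 78) (nat_lit 380) (nat_lit 0) (XT.lf (nat_lit 76) (nat_lit 197956311) (nat_lit 0) (nat_lit 750423850) (nat_lit 228) (nat_lit 197956311) (nat_lit 220) (nat_lit 1) (nat_lit 219) (nat_lit 1) (nat_lit 222) (nat_lit 1) (nat_lit 398) (nat_lit 332) (nat_lit 290)) (XT.nd (nat_lit 78) (nat_lit 228) (nat_lit 0) (XT.lf (nat_lit 228) (nat_lit 92735404) (nat_lit 0) (nat_lit 516518103) (nat_lit 152) (nat_lit 516518103) (nat_lit 220) (nat_lit 1) (nat_lit 217) (nat_lit 1) (nat_lit 219)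 (nat_lit 1) (nat_lit 399) (nat_lit 332) (nat_lit 289)) (XT.lf (nat_lit 228) (nat_lit 911463468) (nat_lit 0) (nat_lit 97169583) (nat_lit 152) (nat_lit 97169583) (nat_lit 217) (nat_lit 1) (nat_lit 214) (nat_lit 1) (nat_lit 216) (nat_lit 1) (nat_lit 400) (nat_lit 332) (nat_lit 288))))) (XT.nd (nat_lit 234) (nat_lit 456) (nat_lit 0) (XT.nd (nat_lit 78) (nat_lit 152) (nat_lit 0) (XT.lf (nat_lit 76) (nat_lit 303428422) (nat_lit 0) (nat_lit 479147246) (nat_lit 228) (nat_lit 303428422) (nat_lit 215) (nat_lit 1) (nat_lit 214) (nat_lit 1) (nat_lit 217) (nat_lit 1) (nat_lit 401) (nat_lit 332) (nat_lit 287)) (XT.nd (nat_lit 78) (nat_lit 0) (nat_lit 0) (XT.lf (nat_lit 228) (nat_lit 309027116) (nat_lit 0) (nat_lit 378876604) (nat_lit 152) (nat_lit 378876604) (nat_lit 215) (nat_lit 1) (nat_lit 212) (nat_lit 1) (nat_lit 214) (nat_lit 1) (nat_lit 402) (nat_lit 332) (nat_lit 286)) (XT.lf (nat_lit 76) (nat_lit 10156869)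 (nat_lit 0) (nat_lit 1027917001) (nat_lit 228) (nat_lit 10156869) (nat_lit 213) (nat_lit 1) (nat_lit 212) (nat_lit 1) (nat_lit 215) (nat_lit 1) (nat_lit 403) (nat_lit 332) (nat_lit 285)))) (XT.nd (nat_lit 156) (nat_lit 152) (nat_lit 0) (XT.nd (nat_lit 78) (nat_lit 152) (nat_lit 0) (XT.lf (nat_lit 76) (nat_lit 383506813) (nat_lit 0) (nat_lit 262549614) (nat_lit 152) (nat_lit 383506813) (nat_lit 211) (nat_lit 1) (nat_lit 210) (nat_lit 1) (nat_lit 212) (nat_lit 1) (nat_lit 404) (nat_lit 332) (nat_lit 284)) (XT.lf (nat_lit 228) (nat_lit 475888296) (nat_lit 0) (nat_lit 267832132) (nat_lit 152) (nat_lit 267832132) (nat_lit 211) (nat_lit 1) (nat_lit 208) (nat_lit 1) (nat_lit 210) (nat_lit 1) (nat_lit 405) (nat_lit 332) (nat_lit 283))) (XT.nd (nat_lit 78) (nat_lit 152) (nat_lit 0) (XT.lf (nat_lit 76) (nat_lit 95412314) (nat_lit 0) (nat_lit 803203405) (nat_lit 228) (nat_lit 95412314) (nat_lit 209) (nat_lit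 1) (nat_lit 208) (nat_lit 1) (nat_lit 211) (nat_lit 1) (nat_lit 406) (nat_lit 332) (nat_lit 282)) (XT.lf (nat_lit 76) (nat_lit 443012481) (nat_lit 0) (nat_lit 90623064) (nat_lit 152) (nat_lit 443012481) (nat_lit 207) (nat_lit 1) (nat_lit 206) (nat_lit 1) (nat_lit 208) (nat_lit 1) (nat_lit 407) (nat_lit 332) (nat_lit 281))))))))
noncomputable def ec40 : XT := (XT.nd (nat_lit 1950) (nat_lit 1140) (nat_lit 0) (XT.nd (nat_lit 936) (nat_lit 912) (nat_lit 0) (XT.nd (nat_lit 468) (nat_lit 608) (nat_lit 0) (XT.nd (nat_lit 234) (nat_lit 304) (nat_lit 0) (XT.nd (nat_lit 78) (nat_lit 76) (nat_lit 0) (XT.lf (nat_lit 228) (nat_lit 602610596) (nat_lit 0) (nat_lit 178564645) (nat_lit 152) (nat_lit 178564645) (nat_lit 207) (nat_lit 1) (nat_lit 204) (nat_lit 1) (nat_lit 206) (nat_lit 1) (nat_lit 408) (nat_lit 332) (nat_lit 280)) (XT.nd (nat_lit 78) (nat_lit 76) (nat_lit 0) (XT.lf (nat_lit 76) (nat_lit 161406645)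 (nat_lit 0) (nat_lit 620353186) (nat_lit 228) (nat_lit 161406645) (nat_lit 205) (nat_lit 1) (nat_lit 204) (nat_lit 1) (nat_lit 207) (nat_lit 1) (nat_lit 409) (nat_lit 332) (nat_lit 279)) (XT.lf (nat_lit 152) (nat_lit 46333970) (nat_lit 0) (nat_lit 440285922) (nat_lit 76) (nat_lit 440285922) (nat_lit 205) (nat_lit 1) (nat_lit 203) (nat_lit 1) (nat_lit 204) (nat_lit 1) (nat_lit 410) (nat_lit 332) (nat_lit 278)))) (XT.nd (nat_lit 78) (nat_lit 76) (nat_lit 0) (XT.lf (nat_lit 228) (nat_lit 696813150) (nat_lit 0) (nat_lit 107113659) (nat_lit 152) (nat_lit 107113659) (nat_lit 203) (nat_lit 1) (nat_lit 200) (nat_lit 1) (nat_lit 202) (nat_lit 1) (nat_lit 411) (nat_lit 332) (nat_lit 277)) (XT.nd (nat_lit 78) (nat_lit 76) (nat_lit 0) (XT.lf (nat_lit 76) (nat_lit 211752216) (nat_lit 0) (nat_lit 471847775) (nat_lit 228) (nat_lit 211752216) (nat_lit 201) (nat_lit 1) (nat_lit 200) (nat_lit 1) (nat_lit 203) (nat_lit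 1) (nat_lit 412) (nat_lit 332) (nat_lit 276)) (XT.lf (nat_lit 152) (nat_lit 155599968) (nat_lit 0) (nat_lit 362224318) (nat_lit 76) (nat_lit 362224318) (nat_lit 201) (nat_lit 1) (nat_lit 199) (nat_lit 1) (nat_lit 200) (nat_lit 1) (nat_lit 413) (nat_lit 332) (nat_lit 275))))) (XT.nd (nat_lit 234) (nat_lit 304) (nat_lit 0) (XT.nd (nat_lit 78) (nat_lit 76) (nat_lit 0) (XT.lf (nat_lit 228) (nat_lit 764740304) (nat_lit 0) (nat_lit 50225609) (nat_lit 152) (nat_lit 50225609) (nat_lit 199) (nat_lit 1) (nat_lit 196) (nat_lit 1) (nat_lit 198) (nat_lit 1) (nat_lit 414) (nat_lit 332) (nat_lit 274)) (XT.nd (nat_lit 78) (nat_lit 76) (nat_lit 0) (XT.lf (nat_lit 76) (nat_lit 249411520) (nat_lit 0) (nat_lit 351506211) (nat_lit 228) (nat_lit 249411520) (nat_lit 197) (nat_lit 1) (nat_lit 196) (nat_lit 1) (nat_lit 199) (nat_lit 1) (nat_lit 415) (nat_lit 332) (nat_lit 273)) (XT.lf (nat_lit 152) (nat_lit 239899047)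 (nat_lit 0) (nat_lit 298002843) (nat_lit 76) (nat_lit 298002843) (nat_lit 197) (nat_lit 1) (nat_lit 195) (nat_lit 1) (nat_lit 196) (nat_lit 1) (nat_lit 416) (nat_lit 332) (nat_lit 272)))) (XT.nd (nat_lit 78) (nat_lit 76) (nat_lit 0) (XT.lf (nat_lit 228) (nat_lit 811506504) (nat_lit 0) (nat_lit 5228291) (nat_lit 152) (nat_lit 5228291) (nat_lit 195) (nat_lit 1) (nat_lit 192) (nat_lit 1) (nat_lit 194) (nat_lit 1) (nat_lit 417) (nat_lit 332) (nat_lit 271)) (XT.nd (nat_lit 78) (nat_lit 76) (nat_lit 0) (XT.lf (nat_lit 76) (nat_lit 276812853) (nat_lit 0) (nat_lit 254247772) (nat_lit 228) (nat_lit 276812853) (nat_lit 193) (nat_lit 1) (nat_lit 192) (nat_lit 1) (nat_lit 195) (nat_lit 1) (nat_lit 418) (nat_lit 332) (nat_lit 270)) (XT.lf (nat_lit 152) (nat_lit 303924176) (nat_lit 0) (nat_lit 245167676) (nat_lit 76) (nat_lit 245167676) (nat_lit 193) (nat_lit 1) (nat_lit 191) (nat_lit 1) (nat_lit 192) (nat_lit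 1) (nat_lit 419) (nat_lit 332) (nat_lit 269)))))) (XT.nd (nat_lit 468) (nat_lit 456) (nat_lit 0) (XT.nd (nat_lit 234) (nat_lit 228) (nat_lit 0) (XT.nd (nat_lit 78) (nat_lit 228) (nat_lit 0) (XT.lf (nat_lit 0) (nat_lit 30565415) (nat_lit 0) (nat_lit 719925775) (nat_lit 152) (nat_lit 30565415) (nat_lit 191) (nat_lit 3) (nat_lit 191) (nat_lit 1) (nat_lit 193) (nat_lit 1) (nat_lit 420) (nat_lit 332) (nat_lit 268)) (XT.nd (nat_lit 78) (nat_lit 76) (nat_lit 0) (XT.lf (nat_lit 76) (nat_lit 295945456) (nat_lit 0) (nat_lit 175896692) (nat_lit 152) (nat_lit 295945456) (nat_lit 190) (nat_lit 1) (nat_lit 189) (nat_lit 1) (nat_lit 191) (nat_lit 1) (nat_lit 421) (nat_lit 332) (nat_lit 267)) (XT.lf (nat_lit 152) (nat_lit 351523587) (nat_lit 0) (nat_lit 201700054) (nat_lit 76) (nat_lit 201700054) (nat_lit 190) (nat_lit 1) (nat_lit 188) (nat_lit 1) (nat_lit 189) (nat_lit 1) (nat_lit 422) (nat_lit 332) (nat_lit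 266)))) (XT.nd (nat_lit 78) (nat_lit 228) (nat_lit 0) (XT.lf (nat_lit 0) (nat_lit 58419821) (nat_lit 0) (nat_lit 625558296) (nat_lit 152) (nat_lit 58419821) (nat_lit 188) (nat_lit 3) (nat_lit 188) (nat_lit 1) (nat_lit 190) (nat_lit 1) (nat_lit 423) (nat_lit 332) (nat_lit 265)) (XT.nd (nat_lit 78) (nat_lit 76) (nat_lit 0) (XT.lf (nat_lit 76) (nat_lit 308437760) (nat_lit 0) (nat_lit 113021521) (nat_lit 152) (nat_lit 308437760) (nat_lit 187) (nat_lit 1) (nat_lit 186) (nat_lit 1) (nat_lit 188) (nat_lit 1) (nat_lit 424) (nat_lit 332) (nat_lit 264)) (XT.lf (nat_lit 152) (nat_lit 385851149) (nat_lit 0) (nat_lit 165939133) (nat_lit 76) (nat_lit 165939133) (nat_lit 187) (nat_lit 1) (nat_lit 185) (nat_lit 1) (nat_lit 186) (nat_lit 1) (nat_lit 425) (nat_lit 332) (nat_lit 263))))) (XT.nd (nat_lit 234) (nat_lit 228) (nat_lit 0) (XT.nd (nat_lit 78) (nat_lit 228) (nat_lit 0) (XT.lf (nat_lit 0) (nat_lit 79751254)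 (nat_lit 0) (nat_lit 546337481) (nat_lit 152) (nat_lit 79751254) (nat_lit 185) (nat_lit 3) (nat_lit 185) (nat_lit 1) (nat_lit 187) (nat_lit 1) (nat_lit 426) (nat_lit 332) (nat_lit 262)) (XT.nd (nat_lit 78) (nat_lit 76) (nat_lit 0) (XT.lf (nat_lit 76) (nat_lit 315621748) (nat_lit 0) (nat_lit 62802968) (nat_lit 152) (nat_lit 315621748) (nat_lit 184) (nat_lit 1) (nat_lit 183) (nat_lit 1) (nat_lit 185) (nat_lit 1) (nat_lit 427) (nat_lit 332) (nat_lit 261)) (XT.lf (nat_lit 152) (nat_lit 409490052) (nat_lit 0) (nat_lit 136518535) (nat_lit 76) (nat_lit 136518535) (nat_lit 184) (nat_lit 1) (nat_lit 182) (nat_lit 1) (nat_lit 183) (nat_lit 1) (nat_lit 428) (nat_lit 332) (nat_lit 260)))) (XT.nd (nat_lit 156) (nat_lit 76) (nat_lit 0) (XT.nd (nat_lit 78) (nat_lit 152) (nat_lit 0) (XT.lf (nat_lit 0) (nat_lit 95791671) (nat_lit 0) (nat_lit 479653314) (nat_lit 152) (nat_lit 95791671) (nat_lit 182) (nat_lit 3)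 (nat_lit 182) (nat_lit 1) (nat_lit 184) (nat_lit 1) (nat_lit 429) (nat_lit 332) (nat_lit 259)) (XT.lf (nat_lit 76) (nat_lit 318585879) (nat_lit 0) (nat_lit 22925189) (nat_lit 152) (nat_lit 318585879) (nat_lit 181) (nat_lit 1) (nat_lit 180) (nat_lit 1) (nat_lit 182) (nat_lit 1) (nat_lit 430) (nat_lit 332) (nat_lit 258))) (XT.nd (nat_lit 78) (nat_lit 0) (nat_lit 0) (XT.lf (nat_lit 152) (nat_lit 424554533) (nat_lit 0) (nat_lit 112314137) (nat_lit 76) (nat_lit 112314137) (nat_lit 181) (nat_lit 1) (nat_lit 179) (nat_lit 1) (nat_lit 180) (nat_lit 1) (nat_lit 431) (nat_lit 332) (nat_lit 257)) (XT.lf (nat_lit 0) (nat_lit 107551013) (nat_lit 0) (nat_lit 423354937) (nat_lit 152) (nat_lit 107551013) (nat_lit 179) (nat_lit 3) (nat_lit 179) (nat_lit 1) (nat_lit 181) (nat_lit 1) (nat_lit 432) (nat_lit 332) (nat_lit 256))))))) (XT.nd (nat_lit 936) (nat_lit 228) (nat_lit 0) (XT.nd (nat_lit 468) (nat_lit 456) (nat_lit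 0) (XT.nd (nat_lit 234) (nat_lit 228) (nat_lit 0) (XT.nd (nat_lit 78) (nat_lit 152) (nat_lit 0) (XT.lf (nat_lit 76) (nat_lit 8795145) (nat_lit 0) (nat_lit 309560786) (nat_lit 76) (nat_lit 309560786) (nat_lit 179) (nat_lit 3) (nat_lit 178) (nat_lit 1) (nat_lit 179) (nat_lit 1) (nat_lit 433) (nat_lit 332) (nat_lit 255)) (XT.nd (nat_lit 78) (nat_lit 0) (nat_lit 0) (XT.lf (nat_lit 152) (nat_lit 432773544) (nat_lit 0) (nat_lit 92401118) (nat_lit 76) (nat_lit 92401118) (nat_lit 178) (nat_lit 1) (nat_lit 176) (nat_lit 1) (nat_lit 177) (nat_lit 1) (nat_lit 434) (nat_lit 332) (nat_lit 254)) (XT.lf (nat_lit 0) (nat_lit 115856740) (nat_lit 0) (nat_lit 375669410) (nat_lit 152) (nat_lit 115856740) (nat_lit 176) (nat_lit 3) (nat_lit 176) (nat_lit 1) (nat_lit 178) (nat_lit 1) (nat_lit 435) (nat_lit 332) (nat_lit 253)))) (XT.nd (nat_lit 78) (nat_lit 152) (nat_lit 0) (XT.lf (nat_lit 76) (nat_lit 34168523) (nat_lit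 0) (nat_lit 281609160) (nat_lit 76) (nat_lit 281609160) (nat_lit 176) (nat_lit 3) (nat_lit 175) (nat_lit 1) (nat_lit 176) (nat_lit 1) (nat_lit 436) (nat_lit 332) (nat_lit 252)) (XT.nd (nat_lit 78) (nat_lit 0) (nat_lit 0) (XT.lf (nat_lit 152) (nat_lit 435559561) (nat_lit 0) (nat_lit 76018629) (nat_lit 76) (nat_lit 76018629) (nat_lit 175) (nat_lit 1) (nat_lit 173) (nat_lit 1) (nat_lit 174) (nat_lit 1) (nat_lit 437) (nat_lit 332) (nat_lit 251)) (XT.lf (nat_lit 0) (nat_lit 121386347) (nat_lit 0) (nat_lit 335134873) (nat_lit 152) (nat_lit 121386347) (nat_lit 173) (nat_lit 3) (nat_lit 173) (nat_lit 1) (nat_lit 175) (nat_lit 1) (nat_lit 438) (nat_lit 332) (nat_lit 250))))) (XT.nd (nat_lit 234) (nat_lit 228) (nat_lit 0) (XT.nd (nat_lit 78) (nat_lit 152) (nat_lit 0) (XT.lf (nat_lit 76) (nat_lit 53760752) (nat_lit 0) (nat_lit 257330777) (nat_lit 76) (nat_lit 257330777) (nat_lit 173) (nat_lit 3) (nat_lit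 172) (nat_lit 1) (nat_lit 173) (nat_lit 1) (nat_lit 439) (nat_lit 332) (nat_lit 249)) (XT.nd (nat_lit 78) (nat_lit 0) (nat_lit 0) (XT.lf (nat_lit 152) (nat_lit 434065162) (nat_lit 0) (nat_lit 62540714) (nat_lit 76) (nat_lit 62540714) (nat_lit 172) (nat_lit 1) (nat_lit 170) (nat_lit 1) (nat_lit 171) (nat_lit 1) (nat_lit 440) (nat_lit 332) (nat_lit 248)) (XT.lf (nat_lit 0) (nat_lit 124694105) (nat_lit 0) (nat_lit 300545546) (nat_lit 152) (nat_lit 124694105) (nat_lit 170) (nat_lit 3) (nat_lit 170) (nat_lit 1) (nat_lit 172) (nat_lit 1) (nat_lit 441) (nat_lit 332) (nat_lit 247)))) (XT.nd (nat_lit 78) (nat_lit 152) (nat_lit 0) (XT.lf (nat_lit 76) (nat_lit 68657889) (nat_lit 0) (nat_lit 236135452) (nat_lit 76) (nat_lit 236135452) (nat_lit 170) (nat_lit 3) (nat_lit 169) (nat_lit 1) (nat_lit 170) (nat_lit 1) (nat_lit 442) (nat_lit 332) (nat_lit 246)) (XT.nd (nat_lit 78) (nat_lit 0) (nat_lit 0) (XT.lf (nat_lit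 152) (nat_lit 429229562) (nat_lit 0) (nat_lit 51452400) (nat_lit 76) (nat_lit 51452400) (nat_lit 169) (nat_lit 1) (nat_lit 167) (nat_lit 1) (nat_lit 168) (nat_lit 1) (nat_lit 443) (nat_lit 332) (nat_lit 245)) (XT.lf (nat_lit 0) (nat_lit 126233060) (nat_lit 0) (nat_lit 270906476) (nat_lit 152) (nat_lit 126233060) (nat_lit 167) (nat_lit 3) (nat_lit 167) (nat_lit 1) (nat_lit 169) (nat_lit 1) (nat_lit 444) (nat_lit 332) (nat_lit 244)))))) (XT.nd (nat_lit 46254) (nat_lit 0) (nat_lit 9804) (XT.nd (nat_lit 46020) (nat_lit 0) (nat_lit 9728) (XT.nd (nat_lit 78) (nat_lit 152) (nat_lit 0) (XT.lf (nat_lit 76) (nat_lit 79750524) (nat_lit 0) (nat_lit 217534730) (nat_lit 76) (nat_lit 217534730) (nat_lit 167) (nat_lit 3) (nat_lit 166) (nat_lit 1) (nat_lit 167) (nat_lit 1) (nat_lit 445) (nat_lit 332) (nat_lit 243)) (XT.nd (nat_lit 78) (nat_lit 0) (nat_lit 0) (XT.lf (nat_lit 152) (nat_lit 421816870) (nat_lit 0)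 (nat_lit 42330017) (nat_lit 76) (nat_lit 42330017) (nat_lit 166) (nat_lit 1) (nat_lit 164) (nat_lit 1) (nat_lit 165) (nat_lit 1) (nat_lit 446) (nat_lit 332) (nat_lit 242)) (XT.lf (nat_lit 0) (nat_lit 126373118) (nat_lit 0) (nat_lit 245396296) (nat_lit 152) (nat_lit 126373118) (nat_lit 164) (nat_lit 3) (nat_lit 164) (nat_lit 1) (nat_lit 166) (nat_lit 1) (nat_lit 447) (nat_lit 332) (nat_lit 241)))) (XT.nd (nat_lit 78) (nat_lit 0) (nat_lit 0) (XT.lf (nat_lit 836) (nat_lit 381877952) (nat_lit 0) (nat_lit 678023427) (nat_lit 836) (nat_lit 381877952) (nat_lit 303) (nat_lit 1) (nat_lit 292) (nat_lit 0) (nat_lit 303) (nat_lit 0) (nat_lit 354) (nat_lit 333) (nat_lit 333)) (XT.nd (nat_lit 78) (nat_lit 0) (nat_lit 76) (XT.lf (nat_lit 836) (nat_lit 1480206619) (nat_lit 76) (nat_lit 667087565) (nat_lit 0) (nat_lit 667087565) (nat_lit 303) (nat_lit 1) (nat_lit 293) (nat_lit 1) (nat_lit 292) (nat_lit 0) (nat_lit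 355) (nat_lit 333) (nat_lit 332)) (XT.lf (nat_lit 836) (nat_lit 705444187) (nat_lit 0) (nat_lit 1336455091) (nat_lit 760) (nat_lit 705444187) (nat_lit 304) (nat_lit 1) (nat_lit 293) (nat_lit 1) (nat_lit 303) (nat_lit 1) (nat_lit 356) (nat_lit 333) (nat_lit 331))))) (XT.nd (nat_lit 234) (nat_lit 0) (nat_lit 152) (XT.nd (nat_lit 78) (nat_lit 0) (nat_lit 76) (XT.lf (nat_lit 836) (nat_lit 1323315271) (nat_lit 76) (nat_lit 679577873) (nat_lit 0) (nat_lit 679577873) (nat_lit 304) (nat_lit 1) (nat_lit 294) (nat_lit 1) (nat_lit 293) (nat_lit 1) (nat_lit 357) (nat_lit 333) (nat_lit 330)) (XT.nd (nat_lit 78) (nat_lit 0) (nat_lit 0) (XT.lf (nat_lit 836) (nat_lit 609109311) (nat_lit 0) (nat_lit 1401436078) (nat_lit 760) (nat_lit 609109311) (nat_lit 305) (nat_lit 1) (nat_lit 294) (nat_lit 1) (nat_lit 304) (nat_lit 1) (nat_lit 358) (nat_lit 333) (nat_lit 329)) (XT.lf (nat_lit 836) (nat_lit 1095522769) (nat_lit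 76) (nat_lit 731615248) (nat_lit 0) (nat_lit 731615248) (nat_lit 305) (nat_lit 1) (nat_lit 295) (nat_lit 1) (nat_lit 294) (nat_lit 1) (nat_lit 359) (nat_lit 333) (nat_lit 328)))) (XT.nd (nat_lit 156) (nat_lit 0) (nat_lit 76) (XT.nd (nat_lit 78) (nat_lit 0) (nat_lit 0) (XT.lf (nat_lit 836) (nat_lit 480355092) (nat_lit 0) (nat_lit 1539186504) (nat_lit 760) (nat_lit 480355092) (nat_lit 306) (nat_lit 1) (nat_lit 295) (nat_lit 1) (nat_lit 305) (nat_lit 1) (nat_lit 360) (nat_lit 333) (nat_lit 327)) (XT.lf (nat_lit 836) (nat_lit 807491660) (nat_lit 76) (nat_lit 817584488) (nat_lit 0) (nat_lit 817584488) (nat_lit 306) (nat_lit 1) (nat_lit 296) (nat_lit 1) (nat_lit 295) (nat_lit 1) (nat_lit 361) (nat_lit 333) (nat_lit 326))) (XT.nd (nat_lit 78) (nat_lit 0) (nat_lit 0) (XT.lf (nat_lit 836) (nat_lit 324165843) (nat_lit 0) (nat_lit 1739188064) (nat_lit 760) (nat_lit 324165843) (nat_lit 307) (nat_lit 1) (nat_lit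 296) (nat_lit 1) (nat_lit 306) (nat_lit 1) (nat_lit 362) (nat_lit 333) (nat_lit 325)) (XT.lf (nat_lit 836) (nat_lit 468699338) (nat_lit 76) (nat_lit 932484749) (nat_lit 0) (nat_lit 932484749) (nat_lit 307) (nat_lit 1) (nat_lit 297) (nat_lit 1) (nat_lit 296) (nat_lit 1) (nat_lit 363) (nat_lit 333) (nat_lit 324))))))))
noncomputable def ec41 : XT := (XT.nd (nat_lit 1950) (nat_lit 2812) (nat_lit 0) (XT.nd (nat_lit 936) (nat_lit 1900) (nat_lit 0) (XT.nd (nat_lit 468) (nat_lit 1368) (nat_lit 0) (XT.nd (nat_lit 234) (nat_lit 380) (nat_lit 0) (XT.nd (nat_lit 78) (nat_lit 1292) (nat_lit 0) (XT.lf (nat_lit 76) (nat_lit 144968658) (nat_lit 0) (nat_lit 1992079053) (nat_lit 760) (nat_lit 144968658) (nat_lit 298) (nat_lit 1) (nat_lit 297) (nat_lit 1) (nat_lit 307) (nat_lit 1) (nat_lit 364) (nat_lit 333) (nat_lit 323)) (XT.nd (nat_lit 78) (nat_lit 532) (nat_lit 0) (XT.lf (nat_lit 836) (nat_lit 87557464) (nat_lit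 0) (nat_lit 1071868031) (nat_lit 760) (nat_lit 1071868031) (nat_lit 298) (nat_lit 1) (nat_lit 287) (nat_lit 1) (nat_lit 297) (nat_lit 1) (nat_lit 365) (nat_lit 333) (nat_lit 322)) (XT.lf (nat_lit 532) (nat_lit 2077848902) (nat_lit 0) (nat_lit 52450466) (nat_lit 456) (nat_lit 52450466) (nat_lit 287) (nat_lit 1) (nat_lit 280) (nat_lit 1) (nat_lit 286) (nat_lit 1) (nat_lit 366) (nat_lit 333) (nat_lit 321)))) (XT.nd (nat_lit 78) (nat_lit 380) (nat_lit 0) (XT.lf (nat_lit 76) (nat_lit 908431923) (nat_lit 0) (nat_lit 317966749) (nat_lit 532) (nat_lit 908431923) (nat_lit 281) (nat_lit 1) (nat_lit 280) (nat_lit 1) (nat_lit 287) (nat_lit 1) (nat_lit 367) (nat_lit 333) (nat_lit 320)) (XT.nd (nat_lit 78) (nat_lit 0) (nat_lit 0) (XT.lf (nat_lit 456) (nat_lit 1563178156) (nat_lit 0) (nat_lit 262885428) (nat_lit 380) (nat_lit 262885428) (nat_lit 281) (nat_lit 1) (nat_lit 275) (nat_lit 1) (nat_lit 280) (nat_lit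 1) (nat_lit 368) (nat_lit 333) (nat_lit 319)) (XT.lf (nat_lit 76) (nat_lit 647973432) (nat_lit 0) (nat_lit 748085124) (nat_lit 456) (nat_lit 647973432) (nat_lit 276) (nat_lit 1) (nat_lit 275) (nat_lit 1) (nat_lit 281) (nat_lit 1) (nat_lit 369) (nat_lit 333) (nat_lit 318))))) (XT.nd (nat_lit 234) (nat_lit 684) (nat_lit 0) (XT.nd (nat_lit 78) (nat_lit 304) (nat_lit 0) (XT.lf (nat_lit 456) (nat_lit 1029374983) (nat_lit 0) (nat_lit 485652159) (nat_lit 380) (nat_lit 485652159) (nat_lit 276) (nat_lit 1) (nat_lit 270) (nat_lit 1) (nat_lit 275) (nat_lit 1) (nat_lit 370) (nat_lit 333) (nat_lit 317)) (XT.nd (nat_lit 78) (nat_lit 304) (nat_lit 0) (XT.lf (nat_lit 76) (nat_lit 379311001) (nat_lit 0) (nat_lit 1199965457) (nat_lit 456) (nat_lit 379311001) (nat_lit 271) (nat_lit 1) (nat_lit 270) (nat_lit 1) (nat_lit 276) (nat_lit 1) (nat_lit 371) (nat_lit 333) (nat_lit 316)) (XT.lf (nat_lit 380) (nat_lit 481407738)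 (nat_lit 0) (nat_lit 718085309) (nat_lit 304) (nat_lit 718085309) (nat_lit 271) (nat_lit 1) (nat_lit 266) (nat_lit 1) (nat_lit 270) (nat_lit 1) (nat_lit 372) (nat_lit 333) (nat_lit 315)))) (XT.nd (nat_lit 78) (nat_lit 684) (nat_lit 0) (XT.lf (nat_lit 76) (nat_lit 104751111) (nat_lit 0) (nat_lit 1668644040) (nat_lit 380) (nat_lit 104751111) (nat_lit 267) (nat_lit 1) (nat_lit 266) (nat_lit 1) (nat_lit 271) (nat_lit 1) (nat_lit 373) (nat_lit 333) (nat_lit 314)) (XT.nd (nat_lit 78) (nat_lit 304) (nat_lit 0) (XT.lf (nat_lit 76) (nat_lit 882662966) (nat_lit 0) (nat_lit 73924738) (nat_lit 380) (nat_lit 882662966) (nat_lit 262) (nat_lit 1) (nat_lit 261) (nat_lit 1) (nat_lit 266) (nat_lit 1) (nat_lit 374) (nat_lit 333) (nat_lit 313)) (XT.lf (nat_lit 380) (nat_lit 1460063743) (nat_lit 0) (nat_lit 170886286) (nat_lit 304) (nat_lit 170886286) (nat_lit 262) (nat_lit 1) (nat_lit 257) (nat_lit 1) (nat_lit 261)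 (nat_lit 1) (nat_lit 375) (nat_lit 333) (nat_lit 312)))))) (XT.nd (nat_lit 468) (nat_lit 988) (nat_lit 0) (XT.nd (nat_lit 234) (nat_lit 608) (nat_lit 0) (XT.nd (nat_lit 78) (nat_lit 304) (nat_lit 0) (XT.lf (nat_lit 76) (nat_lit 572701189) (nat_lit 0) (nat_lit 619661437) (nat_lit 380) (nat_lit 572701189) (nat_lit 258) (nat_lit 1) (nat_lit 257) (nat_lit 1) (nat_lit 262) (nat_lit 1) (nat_lit 376) (nat_lit 333) (nat_lit 311)) (XT.nd (nat_lit 78) (nat_lit 0) (nat_lit 0) (XT.lf (nat_lit 380) (nat_lit 835730348) (nat_lit 0) (nat_lit 446918053) (nat_lit 304) (nat_lit 446918053) (nat_lit 258) (nat_lit 1) (nat_lit 253) (nat_lit 1) (nat_lit 257) (nat_lit 1) (nat_lit 377) (nat_lit 333) (nat_lit 310)) (XT.lf (nat_lit 76) (nat_lit 263552053) (nat_lit 0) (nat_lit 1168002932) (nat_lit 380) (nat_lit 263552053) (nat_lit 254) (nat_lit 1) (nat_lit 253) (nat_lit 1) (nat_lit 258) (nat_lit 1) (nat_lit 378) (nat_lit 333)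 (nat_lit 309)))) (XT.nd (nat_lit 78) (nat_lit 380) (nat_lit 0) (XT.lf (nat_lit 304) (nat_lit 214335597) (nat_lit 0) (nat_lit 723527934) (nat_lit 228) (nat_lit 723527934) (nat_lit 254) (nat_lit 1) (nat_lit 250) (nat_lit 1) (nat_lit 253) (nat_lit 1) (nat_lit 379) (nat_lit 333) (nat_lit 308)) (XT.nd (nat_lit 78) (nat_lit 0) (nat_lit 0) (XT.lf (nat_lit 380) (nat_lit 1543328218) (nat_lit 0) (nat_lit 42824396) (nat_lit 304) (nat_lit 42824396) (nat_lit 250) (nat_lit 1) (nat_lit 245) (nat_lit 1) (nat_lit 249) (nat_lit 1) (nat_lit 380) (nat_lit 333) (nat_lit 307)) (XT.lf (nat_lit 76) (nat_lit 603915741) (nat_lit 0) (nat_lit 388910484) (nat_lit 380) (nat_lit 603915741) (nat_lit 246) (nat_lit 1) (nat_lit 245) (nat_lit 1) (nat_lit 250) (nat_lit 1) (nat_lit 381) (nat_lit 333) (nat_lit 306))))) (XT.nd (nat_lit 234) (nat_lit 532) (nat_lit 0) (XT.nd (nat_lit 78) (nat_lit 228) (nat_lit 0) (XT.lf (nat_lit 304) (nat_lit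 882038033) (nat_lit 0) (nat_lit 341852595) (nat_lit 228) (nat_lit 341852595) (nat_lit 246) (nat_lit 1) (nat_lit 242) (nat_lit 1) (nat_lit 245) (nat_lit 1) (nat_lit 382) (nat_lit 333) (nat_lit 305)) (XT.nd (nat_lit 78) (nat_lit 228) (nat_lit 0) (XT.lf (nat_lit 76) (nat_lit 278649458) (nat_lit 0) (nat_lit 978233139) (nat_lit 304) (nat_lit 278649458) (nat_lit 243) (nat_lit 1) (nat_lit 242) (nat_lit 1) (nat_lit 246) (nat_lit 1) (nat_lit 383) (nat_lit 333) (nat_lit 304)) (XT.lf (nat_lit 304) (nat_lit 232245614) (nat_lit 0) (nat_lit 636881284) (nat_lit 228) (nat_lit 636881284) (nat_lit 243) (nat_lit 1) (nat_lit 239) (nat_lit 1) (nat_lit 242) (nat_lit 1) (nat_lit 384) (nat_lit 333) (nat_lit 303)))) (XT.nd (nat_lit 156) (nat_lit 228) (nat_lit 0) (XT.nd (nat_lit 78) (nat_lit 0) (nat_lit 0) (XT.lf (nat_lit 304) (nat_lit 1397753545) (nat_lit 0) (nat_lit 39913807) (nat_lit 228) (nat_lit 39913807) (nat_lit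 239) (nat_lit 1) (nat_lit 235) (nat_lit 1) (nat_lit 238) (nat_lit 1) (nat_lit 385) (nat_lit 333) (nat_lit 302)) (XT.lf (nat_lit 76) (nat_lit 528730137) (nat_lit 0) (nat_lit 391783722) (nat_lit 304) (nat_lit 528730137) (nat_lit 236) (nat_lit 1) (nat_lit 235) (nat_lit 1) (nat_lit 239) (nat_lit 1) (nat_lit 386) (nat_lit 333) (nat_lit 301))) (XT.nd (nat_lit 78) (nat_lit 0) (nat_lit 0) (XT.lf (nat_lit 304) (nat_lit 727052352) (nat_lit 0) (nat_lit 347451479) (nat_lit 228) (nat_lit 347451479) (nat_lit 236) (nat_lit 1) (nat_lit 232) (nat_lit 1) (nat_lit 235) (nat_lit 1) (nat_lit 387) (nat_lit 333) (nat_lit 300)) (XT.lf (nat_lit 76) (nat_lit 200229624) (nat_lit 0) (nat_lit 994939272) (nat_lit 304) (nat_lit 200229624) (nat_lit 233) (nat_lit 1) (nat_lit 232) (nat_lit 1) (nat_lit 236) (nat_lit 1) (nat_lit 388) (nat_lit 333) (nat_lit 299))))))) (XT.nd (nat_lit 1014) (nat_lit 1292) (nat_lit 0) (XT.nd (nat_lit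 468) (nat_lit 684) (nat_lit 0) (XT.nd (nat_lit 234) (nat_lit 380) (nat_lit 0) (XT.nd (nat_lit 78) (nat_lit 304) (nat_lit 0) (XT.lf (nat_lit 228) (nat_lit 73370792) (nat_lit 0) (nat_lit 647985693) (nat_lit 152) (nat_lit 647985693) (nat_lit 233) (nat_lit 1) (nat_lit 230) (nat_lit 1) (nat_lit 232) (nat_lit 1) (nat_lit 389) (nat_lit 333) (nat_lit 298)) (XT.nd (nat_lit 78) (nat_lit 0) (nat_lit 0) (XT.lf (nat_lit 304) (nat_lit 1108608065) (nat_lit 0) (nat_lit 117742212) (nat_lit 228) (nat_lit 117742212) (nat_lit 230) (nat_lit 1) (nat_lit 226) (nat_lit 1) (nat_lit 229) (nat_lit 1) (nat_lit 390) (nat_lit 333) (nat_lit 297)) (XT.lf (nat_lit 76) (nat_lit 387210482) (nat_lit 0) (nat_lit 544704229) (nat_lit 304) (nat_lit 387210482) (nat_lit 227) (nat_lit 1) (nat_lit 226) (nat_lit 1) (nat_lit 230) (nat_lit 1) (nat_lit 391) (nat_lit 333) (nat_lit 296)))) (XT.nd (nat_lit 78) (nat_lit 228) (nat_lit 0) (XT.lf (nat_lit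 228) (nat_lit 447361982) (nat_lit 0) (nat_lit 423783237) (nat_lit 152) (nat_lit 423783237) (nat_lit 227) (nat_lit 1) (nat_lit 224) (nat_lit 1) (nat_lit 226) (nat_lit 1) (nat_lit 392) (nat_lit 333) (nat_lit 295)) (XT.nd (nat_lit 78) (nat_lit 228) (nat_lit 0) (XT.lf (nat_lit 76) (nat_lit 64271717) (nat_lit 0) (nat_lit 1142991281) (nat_lit 228) (nat_lit 64271717) (nat_lit 225) (nat_lit 1) (nat_lit 224) (nat_lit 1) (nat_lit 227) (nat_lit 1) (nat_lit 393) (nat_lit 333) (nat_lit 294)) (XT.lf (nat_lit 76) (nat_lit 530445759) (nat_lit 0) (nat_lit 187334496) (nat_lit 228) (nat_lit 530445759) (nat_lit 222) (nat_lit 1) (nat_lit 221) (nat_lit 1) (nat_lit 224) (nat_lit 1) (nat_lit 394) (nat_lit 333) (nat_lit 293))))) (XT.nd (nat_lit 234) (nat_lit 380) (nat_lit 0) (XT.nd (nat_lit 78) (nat_lit 152) (nat_lit 0) (XT.lf (nat_lit 228) (nat_lit 736616905) (nat_lit 0) (nat_lit 244536854) (nat_lit 152) (nat_lit 244536854)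 (nat_lit 222) (nat_lit 1) (nat_lit 219) (nat_lit 1) (nat_lit 221) (nat_lit 1) (nat_lit 395) (nat_lit 333) (nat_lit 292)) (XT.nd (nat_lit 78) (nat_lit 152) (nat_lit 0) (XT.lf (nat_lit 76) (nat_lit 207854126) (nat_lit 0) (nat_lit 787945042) (nat_lit 228) (nat_lit 207854126) (nat_lit 220) (nat_lit 1) (nat_lit 219) (nat_lit 1) (nat_lit 222) (nat_lit 1) (nat_lit 396) (nat_lit 333) (nat_lit 291)) (XT.lf (nat_lit 228) (nat_lit 97372174) (nat_lit 0) (nat_lit 542344009) (nat_lit 152) (nat_lit 542344009) (nat_lit 220) (nat_lit 1) (nat_lit 217) (nat_lit 1) (nat_lit 219) (nat_lit 1) (nat_lit 397) (nat_lit 333) (nat_lit 290)))) (XT.nd (nat_lit 156) (nat_lit 152) (nat_lit 0) (XT.nd (nat_lit 78) (nat_lit 0) (nat_lit 0) (XT.lf (nat_lit 228) (nat_lit 957036641) (nat_lit 0) (nat_lit 102028062) (nat_lit 152) (nat_lit 102028062) (nat_lit 217) (nat_lit 1) (nat_lit 214) (nat_lit 1) (nat_lit 216) (nat_lit 1) (nat_lit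 398) (nat_lit 333) (nat_lit 289)) (XT.lf (nat_lit 76) (nat_lit 318599843) (nat_lit 0) (nat_lit 503104609) (nat_lit 228) (nat_lit 318599843) (nat_lit 215) (nat_lit 1) (nat_lit 214) (nat_lit 1) (nat_lit 217) (nat_lit 1) (nat_lit 399) (nat_lit 333) (nat_lit 288))) (XT.nd (nat_lit 78) (nat_lit 0) (nat_lit 0) (XT.lf (nat_lit 228) (nat_lit 324478472) (nat_lit 0) (nat_lit 397820435) (nat_lit 152) (nat_lit 397820435) (nat_lit 215) (nat_lit 1) (nat_lit 212) (nat_lit 1) (nat_lit 214) (nat_lit 1) (nat_lit 400) (nat_lit 333) (nat_lit 287)) (XT.lf (nat_lit 76) (nat_lit 10664712) (nat_lit 0) (nat_lit 1079312851) (nat_lit 228) (nat_lit 10664712) (nat_lit 213) (nat_lit 1) (nat_lit 212) (nat_lit 1) (nat_lit 215) (nat_lit 1) (nat_lit 401) (nat_lit 333) (nat_lit 286)))))) (XT.nd (nat_lit 468) (nat_lit 684) (nat_lit 0) (XT.nd (nat_lit 234) (nat_lit 304) (nat_lit 0) (XT.nd (nat_lit 78) (nat_lit 152) (nat_lit 0) (XT.lf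 (nat_lit 76) (nat_lit 402682154) (nat_lit 0) (nat_lit 275677095) (nat_lit 152) (nat_lit 402682154) (nat_lit 211) (nat_lit 1) (nat_lit 210) (nat_lit 1) (nat_lit 212) (nat_lit 1) (nat_lit 402) (nat_lit 333) (nat_lit 285)) (XT.nd (nat_lit 78) (nat_lit 0) (nat_lit 0) (XT.lf (nat_lit 228) (nat_lit 499682711) (nat_lit 0) (nat_lit 281223739) (nat_lit 152) (nat_lit 281223739) (nat_lit 211) (nat_lit 1) (nat_lit 208) (nat_lit 1) (nat_lit 210) (nat_lit 1) (nat_lit 403) (nat_lit 333) (nat_lit 284)) (XT.lf (nat_lit 76) (nat_lit 100182930) (nat_lit 0) (nat_lit 843363576) (nat_lit 228) (nat_lit 100182930) (nat_lit 209) (nat_lit 1) (nat_lit 208) (nat_lit 1) (nat_lit 211) (nat_lit 1) (nat_lit 404) (nat_lit 333) (nat_lit 283)))) (XT.nd (nat_lit 78) (nat_lit 152) (nat_lit 0) (XT.lf (nat_lit 76) (nat_lit 465163105) (nat_lit 0) (nat_lit 95154217) (nat_lit 152) (nat_lit 465163105) (nat_lit 207) (nat_lit 1) (nat_lit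 206) (nat_lit 1) (nat_lit 208) (nat_lit 1) (nat_lit 405) (nat_lit 333) (nat_lit 282)) (XT.nd (nat_lit 78) (nat_lit 0) (nat_lit 0) (XT.lf (nat_lit 228) (nat_lit 632741126) (nat_lit 0) (nat_lit 187492878) (nat_lit 152) (nat_lit 187492878) (nat_lit 207) (nat_lit 1) (nat_lit 204) (nat_lit 1) (nat_lit 206) (nat_lit 1) (nat_lit 406) (nat_lit 333) (nat_lit 281)) (XT.lf (nat_lit 76) (nat_lit 169476977) (nat_lit 0) (nat_lit 651370846) (nat_lit 228) (nat_lit 169476977) (nat_lit 205) (nat_lit 1) (nat_lit 204) (nat_lit 1) (nat_lit 207) (nat_lit 1) (nat_lit 407) (nat_lit 333) (nat_lit 280))))) (XT.nd (nat_lit 234) (nat_lit 380) (nat_lit 0) (XT.nd (nat_lit 78) (nat_lit 228) (nat_lit 0) (XT.lf (nat_lit 152) (nat_lit 48650668) (nat_lit 0) (nat_lit 462300218) (nat_lit 76) (nat_lit 462300218) (nat_lit 205) (nat_lit 1) (nat_lit 203) (nat_lit 1) (nat_lit 204) (nat_lit 1) (nat_lit 408) (nat_lit 333) (nat_lit 279))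 (XT.nd (nat_lit 78) (nat_lit 0) (nat_lit 0) (XT.lf (nat_lit 228) (nat_lit 731653808) (nat_lit 0) (nat_lit 112469342) (nat_lit 152) (nat_lit 112469342) (nat_lit 203) (nat_lit 1) (nat_lit 200) (nat_lit 1) (nat_lit 202) (nat_lit 1) (nat_lit 409) (nat_lit 333) (nat_lit 278)) (XT.lf (nat_lit 76) (nat_lit 222339827) (nat_lit 0) (nat_lit 495440163) (nat_lit 228) (nat_lit 222339827) (nat_lit 201) (nat_lit 1) (nat_lit 200) (nat_lit 1) (nat_lit 203) (nat_lit 1) (nat_lit 410) (nat_lit 333) (nat_lit 277)))) (XT.nd (nat_lit 156) (nat_lit 76) (nat_lit 0) (XT.nd (nat_lit 78) (nat_lit 228) (nat_lit 0) (XT.lf (nat_lit 152) (nat_lit 163379966) (nat_lit 0) (nat_lit 380335534) (nat_lit 76) (nat_lit 380335534) (nat_lit 201) (nat_lit 1) (nat_lit 199) (nat_lit 1) (nat_lit 200) (nat_lit 1) (nat_lit 411) (nat_lit 333) (nat_lit 276)) (XT.lf (nat_lit 228) (nat_lit 802977320) (nat_lit 0) (nat_lit 52736889) (nat_lit 152) (nat_lit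 52736889) (nat_lit 199) (nat_lit 1) (nat_lit 196) (nat_lit 1) (nat_lit 198) (nat_lit 1) (nat_lit 412) (nat_lit 333) (nat_lit 275))) (XT.nd (nat_lit 78) (nat_lit 76) (nat_lit 0) (XT.lf (nat_lit 76) (nat_lit 261882096) (nat_lit 0) (nat_lit 369081522) (nat_lit 228) (nat_lit 261882096) (nat_lit 197) (nat_lit 1) (nat_lit 196) (nat_lit 1) (nat_lit 199) (nat_lit 1) (nat_lit 413) (nat_lit 333) (nat_lit 274)) (XT.lf (nat_lit 152) (nat_lit 251893999) (nat_lit 0) (nat_lit 312902985) (nat_lit 76) (nat_lit 312902985) (nat_lit 197) (nat_lit 1) (nat_lit 195) (nat_lit 1) (nat_lit 196) (nat_lit 1) (nat_lit 414) (nat_lit 333) (nat_lit 273))))))))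
noncomputable def ec42 : XT := (XT.nd (nat_lit 1950) (nat_lit 684) (nat_lit 0) (XT.nd (nat_lit 936) (nat_lit 912) (nat_lit 0) (XT.nd (nat_lit 468) (nat_lit 456) (nat_lit 0) (XT.nd (nat_lit 234) (nat_lit 228) (nat_lit 0) (XT.nd (nat_lit 78) (nat_lit 76) (nat_lit 0) (XT.lf (nat_lit 228) (nat_lit 852081829) (nat_lit 0) (nat_lit 5489706) (nat_lit 152) (nat_lit 5489706) (nat_lit 195) (nat_lit 1) (nat_lit 192) (nat_lit 1) (nat_lit 194) (nat_lit 1) (nat_lit 415) (nat_lit 333) (nat_lit 272)) (XT.nd (nat_lit 78) (nat_lit 76) (nat_lit 0) (XT.lf (nat_lit 76) (nat_lit 290653495) (nat_lit 0) (nat_lit 266960161) (nat_lit 228) (nat_lit 290653495) (nat_lit 193) (nat_lit 1) (nat_lit 192) (nat_lit 1) (nat_lit 195) (nat_lit 1) (nat_lit 416) (nat_lit 333) (nat_lit 271)) (XT.lf (nat_lit 152) (nat_lit 319120384) (nat_lit 0) (nat_lit 257426060) (nat_lit 76) (nat_lit 257426060) (nat_lit 193) (nat_lit 1) (nat_lit 191)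 (nat_lit 1) (nat_lit 192) (nat_lit 1) (nat_lit 417) (nat_lit 333) (nat_lit 270)))) (XT.nd (nat_lit 78) (nat_lit 228) (nat_lit 0) (XT.lf (nat_lit 0) (nat_lit 32093686) (nat_lit 0) (nat_lit 755922064) (nat_lit 152) (nat_lit 32093686) (nat_lit 191) (nat_lit 3) (nat_lit 191) (nat_lit 1) (nat_lit 193) (nat_lit 1) (nat_lit 418) (nat_lit 333) (nat_lit 269)) (XT.nd (nat_lit 78) (nat_lit 76) (nat_lit 0) (XT.lf (nat_lit 76) (nat_lit 310742728) (nat_lit 0) (nat_lit 184691527) (nat_lit 152) (nat_lit 310742728) (nat_lit 190) (nat_lit 1) (nat_lit 189) (nat_lit 1) (nat_lit 191) (nat_lit 1) (nat_lit 419) (nat_lit 333) (nat_lit 268)) (XT.lf (nat_lit 152) (nat_lit 369099766) (nat_lit 0) (nat_lit 211785056) (nat_lit 76) (nat_lit 211785056) (nat_lit 190) (nat_lit 1) (nat_lit 188) (nat_lit 1) (nat_lit 189) (nat_lit 1) (nat_lit 420) (nat_lit 333) (nat_lit 267))))) (XT.nd (nat_lit 234) (nat_lit 228) (nat_lit 0) (XT.nd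 (nat_lit 78) (nat_lit 228) (nat_lit 0) (XT.lf (nat_lit 0) (nat_lit 61340813) (nat_lit 0) (nat_lit 656836211) (nat_lit 152) (nat_lit 61340813) (nat_lit 188) (nat_lit 3) (nat_lit 188) (nat_lit 1) (nat_lit 190) (nat_lit 1) (nat_lit 421) (nat_lit 333) (nat_lit 266)) (XT.nd (nat_lit 78) (nat_lit 76) (nat_lit 0) (XT.lf (nat_lit 76) (nat_lit 323859648) (nat_lit 0) (nat_lit 118672597) (nat_lit 152) (nat_lit 323859648) (nat_lit 187) (nat_lit 1) (nat_lit 186) (nat_lit 1) (nat_lit 188) (nat_lit 1) (nat_lit 422) (nat_lit 333) (nat_lit 265)) (XT.lf (nat_lit 152) (nat_lit 405143707) (nat_lit 0) (nat_lit 174236090) (nat_lit 76) (nat_lit 174236090) (nat_lit 187) (nat_lit 1) (nat_lit 185) (nat_lit 1) (nat_lit 186) (nat_lit 1) (nat_lit 423) (nat_lit 333) (nat_lit 264)))) (XT.nd (nat_lit 78) (nat_lit 228) (nat_lit 0) (XT.lf (nat_lit 0) (nat_lit 83738817) (nat_lit 0) (nat_lit 573654355) (nat_lit 152) (nat_lit 83738817)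 (nat_lit 185) (nat_lit 3) (nat_lit 185) (nat_lit 1) (nat_lit 187) (nat_lit 1) (nat_lit 424) (nat_lit 333) (nat_lit 263)) (XT.nd (nat_lit 78) (nat_lit 76) (nat_lit 0) (XT.lf (nat_lit 76) (nat_lit 331402836) (nat_lit 0) (nat_lit 65943117) (nat_lit 152) (nat_lit 331402836) (nat_lit 184) (nat_lit 1) (nat_lit 183) (nat_lit 1) (nat_lit 185) (nat_lit 1) (nat_lit 425) (nat_lit 333) (nat_lit 262)) (XT.lf (nat_lit 152) (nat_lit 429964554) (nat_lit 0) (nat_lit 143344462) (nat_lit 76) (nat_lit 143344462) (nat_lit 184) (nat_lit 1) (nat_lit 182) (nat_lit 1) (nat_lit 183) (nat_lit 1) (nat_lit 426) (nat_lit 333) (nat_lit 261)))))) (XT.nd (nat_lit 468) (nat_lit 456) (nat_lit 0) (XT.nd (nat_lit 234) (nat_lit 228) (nat_lit 0) (XT.nd (nat_lit 78) (nat_lit 228) (nat_lit 0) (XT.lf (nat_lit 0) (nat_lit 100581255) (nat_lit 0) (nat_lit 503635980) (nat_lit 152) (nat_lit 100581255) (nat_lit 182) (nat_lit 3) (nat_lit 182)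 (nat_lit 1) (nat_lit 184) (nat_lit 1) (nat_lit 427) (nat_lit 333) (nat_lit 260)) (XT.nd (nat_lit 78) (nat_lit 76) (nat_lit 0) (XT.lf (nat_lit 76) (nat_lit 334515173) (nat_lit 0) (nat_lit 24071448) (nat_lit 152) (nat_lit 334515173) (nat_lit 181) (nat_lit 1) (nat_lit 180) (nat_lit 1) (nat_lit 182) (nat_lit 1) (nat_lit 428) (nat_lit 333) (nat_lit 259)) (XT.lf (nat_lit 152) (nat_lit 445782259) (nat_lit 0) (nat_lit 117929844) (nat_lit 76) (nat_lit 117929844) (nat_lit 181) (nat_lit 1) (nat_lit 179) (nat_lit 1) (nat_lit 180) (nat_lit 1) (nat_lit 429) (nat_lit 333) (nat_lit 258)))) (XT.nd (nat_lit 78) (nat_lit 228) (nat_lit 0) (XT.lf (nat_lit 0) (nat_lit 112928564) (nat_lit 0) (nat_lit 444522684) (nat_lit 152) (nat_lit 112928564) (nat_lit 179) (nat_lit 3) (nat_lit 179) (nat_lit 1) (nat_lit 181) (nat_lit 1) (nat_lit 430) (nat_lit 333) (nat_lit 257)) (XT.nd (nat_lit 78) (nat_lit 152) (nat_lit 0) (XT.lf (nat_lit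 76) (nat_lit 9234902) (nat_lit 0) (nat_lit 325038826) (nat_lit 76) (nat_lit 325038826) (nat_lit 179) (nat_lit 3) (nat_lit 178) (nat_lit 1) (nat_lit 179) (nat_lit 1) (nat_lit 431) (nat_lit 333) (nat_lit 256)) (XT.lf (nat_lit 152) (nat_lit 454412222) (nat_lit 0) (nat_lit 97021174) (nat_lit 76) (nat_lit 97021174) (nat_lit 178) (nat_lit 1) (nat_lit 176) (nat_lit 1) (nat_lit 177) (nat_lit 1) (nat_lit 432) (nat_lit 333) (nat_lit 255))))) (XT.nd (nat_lit 234) (nat_lit 228) (nat_lit 0) (XT.nd (nat_lit 78) (nat_lit 228) (nat_lit 0) (XT.lf (nat_lit 0) (nat_lit 121649577) (nat_lit 0) (nat_lit 394452881) (nat_lit 152) (nat_lit 121649577) (nat_lit 176) (nat_lit 3) (nat_lit 176) (nat_lit 1) (nat_lit 178) (nat_lit 1) (nat_lit 433) (nat_lit 333) (nat_lit 254)) (XT.nd (nat_lit 78) (nat_lit 152) (nat_lit 0) (XT.lf (nat_lit 76) (nat_lit 35876949) (nat_lit 0) (nat_lit 295689618) (nat_lit 76) (nat_lit 295689618) (nat_lit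 176) (nat_lit 3) (nat_lit 175) (nat_lit 1) (nat_lit 176) (nat_lit 1) (nat_lit 434) (nat_lit 333) (nat_lit 253)) (XT.lf (nat_lit 152) (nat_lit 457337539) (nat_lit 0) (nat_lit 79819560) (nat_lit 76) (nat_lit 79819560) (nat_lit 175) (nat_lit 1) (nat_lit 173) (nat_lit 1) (nat_lit 174) (nat_lit 1) (nat_lit 435) (nat_lit 333) (nat_lit 252)))) (XT.nd (nat_lit 156) (nat_lit 152) (nat_lit 0) (XT.nd (nat_lit 78) (nat_lit 76) (nat_lit 0) (XT.lf (nat_lit 0) (nat_lit 127455664) (nat_lit 0) (nat_lit 351891617) (nat_lit 152) (nat_lit 127455664) (nat_lit 173) (nat_lit 3) (nat_lit 173) (nat_lit 1) (nat_lit 175) (nat_lit 1) (nat_lit 436) (nat_lit 333) (nat_lit 251)) (XT.lf (nat_lit 76) (nat_lit 56448790) (nat_lit 0) (nat_lit 270197316) (nat_lit 76) (nat_lit 270197316) (nat_lit 173) (nat_lit 3) (nat_lit 172) (nat_lit 1) (nat_lit 173) (nat_lit 1) (nat_lit 437) (nat_lit 333) (nat_lit 250))) (XT.nd (nat_lit 78) (nat_lit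 0) (nat_lit 0) (XT.lf (nat_lit 152) (nat_lit 455768420) (nat_lit 0) (nat_lit 65667750) (nat_lit 76) (nat_lit 65667750) (nat_lit 172) (nat_lit 1) (nat_lit 170) (nat_lit 1) (nat_lit 171) (nat_lit 1) (nat_lit 438) (nat_lit 333) (nat_lit 249)) (XT.lf (nat_lit 0) (nat_lit 130928810) (nat_lit 0) (nat_lit 315572823) (nat_lit 152) (nat_lit 130928810) (nat_lit 170) (nat_lit 3) (nat_lit 170) (nat_lit 1) (nat_lit 172) (nat_lit 1) (nat_lit 439) (nat_lit 333) (nat_lit 248))))))) (XT.nd (nat_lit 46566) (nat_lit 0) (nat_lit 8284) (XT.nd (nat_lit 468) (nat_lit 228) (nat_lit 0) (XT.nd (nat_lit 234) (nat_lit 228) (nat_lit 0) (XT.nd (nat_lit 78) (nat_lit 152) (nat_lit 0) (XT.lf (nat_lit 76) (nat_lit 72090783) (nat_lit 0) (nat_lit 247942225) (nat_lit 76) (nat_lit 247942225) (nat_lit 170) (nat_lit 3) (nat_lit 169) (nat_lit 1) (nat_lit 170) (nat_lit 1) (nat_lit 440) (nat_lit 333) (nat_lit 247)) (XT.nd (nat_lit 78) (nat_lit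 0) (nat_lit 0) (XT.lf (nat_lit 152) (nat_lit 450691041) (nat_lit 0) (nat_lit 54025020) (nat_lit 76) (nat_lit 54025020) (nat_lit 169) (nat_lit 1) (nat_lit 167) (nat_lit 1) (nat_lit 168) (nat_lit 1) (nat_lit 441) (nat_lit 333) (nat_lit 246)) (XT.lf (nat_lit 0) (nat_lit 132544713) (nat_lit 0) (nat_lit 284451800) (nat_lit 152) (nat_lit 132544713) (nat_lit 167) (nat_lit 3) (nat_lit 167) (nat_lit 1) (nat_lit 169) (nat_lit 1) (nat_lit 442) (nat_lit 333) (nat_lit 245)))) (XT.nd (nat_lit 78) (nat_lit 152) (nat_lit 0) (XT.lf (nat_lit 76) (nat_lit 83738051) (nat_lit 0) (nat_lit 228411467) (nat_lit 76) (nat_lit 228411467) (nat_lit 167) (nat_lit 3) (nat_lit 166) (nat_lit 1) (nat_lit 167) (nat_lit 1) (nat_lit 443) (nat_lit 333) (nat_lit 244)) (XT.nd (nat_lit 78) (nat_lit 0) (nat_lit 0) (XT.lf (nat_lit 152) (nat_lit 442907714) (nat_lit 0) (nat_lit 44446518) (nat_lit 76) (nat_lit 44446518) (nat_lit 166) (nat_lit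 1) (nat_lit 164) (nat_lit 1) (nat_lit 165) (nat_lit 1) (nat_lit 444) (nat_lit 333) (nat_lit 243)) (XT.lf (nat_lit 0) (nat_lit 132691774) (nat_lit 0) (nat_lit 257666111) (nat_lit 152) (nat_lit 132691774) (nat_lit 164) (nat_lit 3) (nat_lit 164) (nat_lit 1) (nat_lit 166) (nat_lit 1) (nat_lit 445) (nat_lit 333) (nat_lit 242))))) (XT.nd (nat_lit 45864) (nat_lit 0) (nat_lit 9956) (XT.nd (nat_lit 78) (nat_lit 152) (nat_lit 0) (XT.lf (nat_lit 76) (nat_lit 92157011) (nat_lit 0) (nat_lit 211180188) (nat_lit 76) (nat_lit 211180188) (nat_lit 164) (nat_lit 3) (nat_lit 163) (nat_lit 1) (nat_lit 164) (nat_lit 1) (nat_lit 446) (nat_lit 333) (nat_lit 241)) (XT.nd (nat_lit 45708) (nat_lit 0) (nat_lit 9956) (XT.lf (nat_lit 152) (nat_lit 433069919) (nat_lit 0) (nat_lit 36566260) (nat_lit 76) (nat_lit 36566260) (nat_lit 163) (nat_lit 1) (nat_lit 161) (nat_lit 1) (nat_lit 162) (nat_lit 1) (nat_lit 447) (nat_lit 333)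 (nat_lit 240)) (XT.lf (nat_lit 836) (nat_lit 400971850) (nat_lit 0) (nat_lit 711924598) (nat_lit 836) (nat_lit 400971850) (nat_lit 303) (nat_lit 1) (nat_lit 292) (nat_lit 0) (nat_lit 303) (nat_lit 0) (nat_lit 352) (nat_lit 334) (nat_lit 334)))) (XT.nd (nat_lit 78) (nat_lit 0) (nat_lit 76) (XT.lf (nat_lit 836) (nat_lit 1554216950) (nat_lit 76) (nat_lit 700441943) (nat_lit 0) (nat_lit 700441943) (nat_lit 303) (nat_lit 1) (nat_lit 293) (nat_lit 1) (nat_lit 292) (nat_lit 0) (nat_lit 353) (nat_lit 334) (nat_lit 333)) (XT.nd (nat_lit 78) (nat_lit 0) (nat_lit 0) (XT.lf (nat_lit 836) (nat_lit 740716396) (nat_lit 0) (nat_lit 1403277846) (nat_lit 760) (nat_lit 740716396) (nat_lit 304) (nat_lit 1) (nat_lit 293) (nat_lit 1) (nat_lit 303) (nat_lit 1) (nat_lit 354) (nat_lit 334) (nat_lit 332)) (XT.lf (nat_lit 836) (nat_lit 1389481035) (nat_lit 76) (nat_lit 713556767) (nat_lit 0) (nat_lit 713556767) (nat_lit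 304) (nat_lit 1) (nat_lit 294) (nat_lit 1) (nat_lit 293) (nat_lit 1) (nat_lit 355) (nat_lit 334) (nat_lit 331)))))) (XT.nd (nat_lit 468) (nat_lit 1824) (nat_lit 0) (XT.nd (nat_lit 234) (nat_lit 0) (nat_lit 76) (XT.nd (nat_lit 78) (nat_lit 0) (nat_lit 0) (XT.lf (nat_lit 836) (nat_lit 639564777) (nat_lit 0) (nat_lit 1471507882) (nat_lit 760) (nat_lit 639564777) (nat_lit 305) (nat_lit 1) (nat_lit 294) (nat_lit 1) (nat_lit 304) (nat_lit 1) (nat_lit 356) (nat_lit 334) (nat_lit 330)) (XT.nd (nat_lit 78) (nat_lit 0) (nat_lit 76) (XT.lf (nat_lit 836) (nat_lit 1150298908) (nat_lit 76) (nat_lit 768196010) (nat_lit 0) (nat_lit 768196010) (nat_lit 305) (nat_lit 1) (nat_lit 295) (nat_lit 1) (nat_lit 294) (nat_lit 1) (nat_lit 357) (nat_lit 334) (nat_lit 329)) (XT.lf (nat_lit 836) (nat_lit 504372847) (nat_lit 0) (nat_lit 1616145830) (nat_lit 760) (nat_lit 504372847) (nat_lit 306) (nat_lit 1) (nat_lit 295) (nat_lit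 1) (nat_lit 305) (nat_lit 1) (nat_lit 358) (nat_lit 334) (nat_lit 328)))) (XT.nd (nat_lit 78) (nat_lit 0) (nat_lit 76) (XT.lf (nat_lit 836) (nat_lit 847866243) (nat_lit 76) (nat_lit 858463713) (nat_lit 0) (nat_lit 858463713) (nat_lit 306) (nat_lit 1) (nat_lit 296) (nat_lit 1) (nat_lit 295) (nat_lit 1) (nat_lit 359) (nat_lit 334) (nat_lit 327)) (XT.nd (nat_lit 78) (nat_lit 0) (nat_lit 0) (XT.lf (nat_lit 836) (nat_lit 340374135) (nat_lit 0) (nat_lit 1826147467) (nat_lit 760) (nat_lit 340374135) (nat_lit 307) (nat_lit 1) (nat_lit 296) (nat_lit 1) (nat_lit 306) (nat_lit 1) (nat_lit 360) (nat_lit 334) (nat_lit 326)) (XT.lf (nat_lit 836) (nat_lit 492134305) (nat_lit 76) (nat_lit 979108987) (nat_lit 0) (nat_lit 979108987) (nat_lit 307) (nat_lit 1) (nat_lit 297) (nat_lit 1) (nat_lit 296) (nat_lit 1) (nat_lit 361) (nat_lit 334) (nat_lit 325))))) (XT.nd (nat_lit 234) (nat_lit 760) (nat_lit 0) (XT.nd (nat_lit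 78) (nat_lit 1292) (nat_lit 0) (XT.lf (nat_lit 76) (nat_lit 152217091) (nat_lit 0) (nat_lit 2091683006) (nat_lit 760) (nat_lit 152217091) (nat_lit 298) (nat_lit 1) (nat_lit 297) (nat_lit 1) (nat_lit 307) (nat_lit 1) (nat_lit 362) (nat_lit 334) (nat_lit 324)) (XT.nd (nat_lit 78) (nat_lit 532) (nat_lit 0) (XT.lf (nat_lit 836) (nat_lit 91935337) (nat_lit 0) (nat_lit 1125461433) (nat_lit 760) (nat_lit 1125461433) (nat_lit 298) (nat_lit 1) (nat_lit 287) (nat_lit 1) (nat_lit 297) (nat_lit 1) (nat_lit 363) (nat_lit 334) (nat_lit 323)) (XT.lf (nat_lit 532) (nat_lit 2181741347) (nat_lit 0) (nat_lit 55072989) (nat_lit 456) (nat_lit 55072989) (nat_lit 287) (nat_lit 1) (nat_lit 280) (nat_lit 1) (nat_lit 286) (nat_lit 1) (nat_lit 364) (nat_lit 334) (nat_lit 322)))) (XT.nd (nat_lit 156) (nat_lit 380) (nat_lit 0) (XT.nd (nat_lit 78) (nat_lit 380) (nat_lit 0) (XT.lf (nat_lit 76) (nat_lit 953853519) (nat_lit 0)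 (nat_lit 333865087) (nat_lit 532) (nat_lit 953853519) (nat_lit 281) (nat_lit 1) (nat_lit 280) (nat_lit 1) (nat_lit 287) (nat_lit 1) (nat_lit 365) (nat_lit 334) (nat_lit 321)) (XT.lf (nat_lit 456) (nat_lit 1641337063) (nat_lit 0) (nat_lit 276029700) (nat_lit 380) (nat_lit 276029700) (nat_lit 281) (nat_lit 1) (nat_lit 275) (nat_lit 1) (nat_lit 280) (nat_lit 1) (nat_lit 366) (nat_lit 334) (nat_lit 320))) (XT.nd (nat_lit 78) (nat_lit 380) (nat_lit 0) (XT.lf (nat_lit 76) (nat_lit 680372103) (nat_lit 0) (nat_lit 785489380) (nat_lit 456) (nat_lit 680372103) (nat_lit 276) (nat_lit 1) (nat_lit 275) (nat_lit 1) (nat_lit 281) (nat_lit 1) (nat_lit 367) (nat_lit 334) (nat_lit 319)) (XT.lf (nat_lit 456) (nat_lit 1080843732) (nat_lit 0) (nat_lit 509934767) (nat_lit 380) (nat_lit 509934767) (nat_lit 276) (nat_lit 1) (nat_lit 270) (nat_lit 1) (nat_lit 275) (nat_lit 1) (nat_lit 368) (nat_lit 334) (nat_lit 318))))))))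
noncomputable def ec43 : XT := (XT.nd (nat_lit 1950) (nat_lit 2356) (nat_lit 0) (XT.nd (nat_lit 936) (nat_lit 1748) (nat_lit 0) (XT.nd (nat_lit 468) (nat_lit 1140) (nat_lit 0) (XT.nd (nat_lit 234) (nat_lit 684) (nat_lit 0) (XT.nd (nat_lit 78) (nat_lit 304) (nat_lit 0) (XT.lf (nat_lit 76) (nat_lit 398276551) (nat_lit 0) (nat_lit 1259963730) (nat_lit 456) (nat_lit 398276551) (nat_lit 271) (nat_lit 1) (nat_lit 270) (nat_lit 1) (nat_lit 276) (nat_lit 1) (nat_lit 369) (nat_lit 334) (nat_lit 317)) (XT.nd (nat_lit 78) (nat_lit 0) (nat_lit 0) (XT.lf (nat_lit 380) (nat_lit 505478124) (nat_lit 0) (nat_lit 753989575) (nat_lit 304) (nat_lit 753989575) (nat_lit 271) (nat_lit 1) (nat_lit 266) (nat_lit 1) (nat_lit 270) (nat_lit 1) (nat_lit 370) (nat_lit 334) (nat_lit 316)) (XT.lf (nat_lit 76) (nat_lit 109988667) (nat_lit 0) (nat_lit 1752076242) (nat_lit 380) (nat_lit 109988667) (nat_lit 267) (nat_lit 1) (nat_lit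 266) (nat_lit 1) (nat_lit 271) (nat_lit 1) (nat_lit 371) (nat_lit 334) (nat_lit 315)))) (XT.nd (nat_lit 78) (nat_lit 304) (nat_lit 0) (XT.lf (nat_lit 76) (nat_lit 926796114) (nat_lit 0) (nat_lit 77620974) (nat_lit 380) (nat_lit 926796114) (nat_lit 262) (nat_lit 1) (nat_lit 261) (nat_lit 1) (nat_lit 266) (nat_lit 1) (nat_lit 372) (nat_lit 334) (nat_lit 314)) (XT.nd (nat_lit 78) (nat_lit 0) (nat_lit 0) (XT.lf (nat_lit 380) (nat_lit 1533066930) (nat_lit 0) (nat_lit 179430601) (nat_lit 304) (nat_lit 179430601) (nat_lit 262) (nat_lit 1) (nat_lit 257) (nat_lit 1) (nat_lit 261) (nat_lit 1) (nat_lit 373) (nat_lit 334) (nat_lit 313)) (XT.lf (nat_lit 76) (nat_lit 601336248) (nat_lit 0) (nat_lit 650644509) (nat_lit 380) (nat_lit 601336248) (nat_lit 258) (nat_lit 1) (nat_lit 257) (nat_lit 1) (nat_lit 262) (nat_lit 1) (nat_lit 374) (nat_lit 334) (nat_lit 312))))) (XT.nd (nat_lit 234) (nat_lit 608) (nat_lit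 0) (XT.nd (nat_lit 78) (nat_lit 228) (nat_lit 0) (XT.lf (nat_lit 380) (nat_lit 877516865) (nat_lit 0) (nat_lit 469263956) (nat_lit 304) (nat_lit 469263956) (nat_lit 258) (nat_lit 1) (nat_lit 253) (nat_lit 1) (nat_lit 257) (nat_lit 1) (nat_lit 375) (nat_lit 334) (nat_lit 311)) (XT.nd (nat_lit 78) (nat_lit 228) (nat_lit 0) (XT.lf (nat_lit 76) (nat_lit 276729656) (nat_lit 0) (nat_lit 1226403079) (nat_lit 380) (nat_lit 276729656) (nat_lit 254) (nat_lit 1) (nat_lit 253) (nat_lit 1) (nat_lit 258) (nat_lit 1) (nat_lit 376) (nat_lit 334) (nat_lit 310)) (XT.lf (nat_lit 304) (nat_lit 225052377) (nat_lit 0) (nat_lit 759704331) (nat_lit 228) (nat_lit 759704331) (nat_lit 254) (nat_lit 1) (nat_lit 250) (nat_lit 1) (nat_lit 253) (nat_lit 1) (nat_lit 377) (nat_lit 334) (nat_lit 309)))) (XT.nd (nat_lit 78) (nat_lit 228) (nat_lit 0) (XT.lf (nat_lit 380) (nat_lit 1620494629) (nat_lit 0) (nat_lit 44965616) (nat_lit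 304) (nat_lit 44965616) (nat_lit 250) (nat_lit 1) (nat_lit 245) (nat_lit 1) (nat_lit 249) (nat_lit 1) (nat_lit 378) (nat_lit 334) (nat_lit 308)) (XT.nd (nat_lit 78) (nat_lit 228) (nat_lit 0) (XT.lf (nat_lit 76) (nat_lit 634111528) (nat_lit 0) (nat_lit 408356009) (nat_lit 380) (nat_lit 634111528) (nat_lit 246) (nat_lit 1) (nat_lit 245) (nat_lit 1) (nat_lit 250) (nat_lit 1) (nat_lit 379) (nat_lit 334) (nat_lit 307)) (XT.lf (nat_lit 304) (nat_lit 926139934) (nat_lit 0) (nat_lit 358945225) (nat_lit 228) (nat_lit 358945225) (nat_lit 246) (nat_lit 1) (nat_lit 242) (nat_lit 1) (nat_lit 245) (nat_lit 1) (nat_lit 380) (nat_lit 334) (nat_lit 306)))))) (XT.nd (nat_lit 468) (nat_lit 988) (nat_lit 0) (XT.nd (nat_lit 234) (nat_lit 228) (nat_lit 0) (XT.nd (nat_lit 78) (nat_lit 532) (nat_lit 0) (XT.lf (nat_lit 76) (nat_lit 292581931) (nat_lit 0) (nat_lit 1027144796) (nat_lit 304) (nat_lit 292581931) (nat_lit 243)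 (nat_lit 1) (nat_lit 242) (nat_lit 1) (nat_lit 246) (nat_lit 1) (nat_lit 381) (nat_lit 334) (nat_lit 305)) (XT.nd (nat_lit 78) (nat_lit 304) (nat_lit 0) (XT.lf (nat_lit 304) (nat_lit 243857894) (nat_lit 0) (nat_lit 668725349) (nat_lit 228) (nat_lit 668725349) (nat_lit 243) (nat_lit 1) (nat_lit 239) (nat_lit 1) (nat_lit 242) (nat_lit 1) (nat_lit 382) (nat_lit 334) (nat_lit 304)) (XT.lf (nat_lit 304) (nat_lit 1467641222) (nat_lit 0) (nat_lit 41909498) (nat_lit 228) (nat_lit 41909498) (nat_lit 239) (nat_lit 1) (nat_lit 235) (nat_lit 1) (nat_lit 238) (nat_lit 1) (nat_lit 383) (nat_lit 334) (nat_lit 303)))) (XT.nd (nat_lit 78) (nat_lit 228) (nat_lit 0) (XT.lf (nat_lit 76) (nat_lit 555166643) (nat_lit 0) (nat_lit 411372908) (nat_lit 304) (nat_lit 555166643) (nat_lit 236) (nat_lit 1) (nat_lit 235) (nat_lit 1) (nat_lit 239) (nat_lit 1) (nat_lit 384) (nat_lit 334) (nat_lit 302)) (XT.nd (nat_lit 78) (nat_lit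 0) (nat_lit 0) (XT.lf (nat_lit 304) (nat_lit 763404969) (nat_lit 0) (nat_lit 364824053) (nat_lit 228) (nat_lit 364824053) (nat_lit 236) (nat_lit 1) (nat_lit 232) (nat_lit 1) (nat_lit 235) (nat_lit 1) (nat_lit 385) (nat_lit 334) (nat_lit 301)) (XT.lf (nat_lit 76) (nat_lit 210241106) (nat_lit 0) (nat_lit 1044686236) (nat_lit 304) (nat_lit 210241106) (nat_lit 233) (nat_lit 1) (nat_lit 232) (nat_lit 1) (nat_lit 236) (nat_lit 1) (nat_lit 386) (nat_lit 334) (nat_lit 300))))) (XT.nd (nat_lit 234) (nat_lit 532) (nat_lit 0) (XT.nd (nat_lit 78) (nat_lit 304) (nat_lit 0) (XT.lf (nat_lit 228) (nat_lit 77039331) (nat_lit 0) (nat_lit 680384978) (nat_lit 152) (nat_lit 680384978) (nat_lit 233) (nat_lit 1) (nat_lit 230) (nat_lit 1) (nat_lit 232) (nat_lit 1) (nat_lit 387) (nat_lit 334) (nat_lit 299)) (XT.nd (nat_lit 78) (nat_lit 0) (nat_lit 0) (XT.lf (nat_lit 304) (nat_lit 1164038468) (nat_lit 0) (nat_lit 123629322)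 (nat_lit 228) (nat_lit 123629322) (nat_lit 230) (nat_lit 1) (nat_lit 226) (nat_lit 1) (nat_lit 229) (nat_lit 1) (nat_lit 388) (nat_lit 334) (nat_lit 298)) (XT.lf (nat_lit 76) (nat_lit 406571006) (nat_lit 0) (nat_lit 571939440) (nat_lit 304) (nat_lit 406571006) (nat_lit 227) (nat_lit 1) (nat_lit 226) (nat_lit 1) (nat_lit 230) (nat_lit 1) (nat_lit 389) (nat_lit 334) (nat_lit 297)))) (XT.nd (nat_lit 156) (nat_lit 380) (nat_lit 0) (XT.nd (nat_lit 78) (nat_lit 0) (nat_lit 0) (XT.lf (nat_lit 228) (nat_lit 469730081) (nat_lit 0) (nat_lit 444972399) (nat_lit 152) (nat_lit 444972399) (nat_lit 227) (nat_lit 1) (nat_lit 224) (nat_lit 1) (nat_lit 226) (nat_lit 1) (nat_lit 390) (nat_lit 334) (nat_lit 296)) (XT.lf (nat_lit 76) (nat_lit 67485303) (nat_lit 0) (nat_lit 1200140846) (nat_lit 228) (nat_lit 67485303) (nat_lit 225) (nat_lit 1) (nat_lit 224) (nat_lit 1) (nat_lit 227) (nat_lit 1) (nat_lit 391) (nat_lit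 334) (nat_lit 295))) (XT.nd (nat_lit 78) (nat_lit 152) (nat_lit 0) (XT.lf (nat_lit 76) (nat_lit 556968047) (nat_lit 0) (nat_lit 196701220) (nat_lit 228) (nat_lit 556968047) (nat_lit 222) (nat_lit 1) (nat_lit 221) (nat_lit 1) (nat_lit 224) (nat_lit 1) (nat_lit 392) (nat_lit 334) (nat_lit 294)) (XT.lf (nat_lit 228) (nat_lit 773447750) (nat_lit 0) (nat_lit 256763697) (nat_lit 152) (nat_lit 256763697) (nat_lit 222) (nat_lit 1) (nat_lit 219) (nat_lit 1) (nat_lit 221) (nat_lit 1) (nat_lit 393) (nat_lit 334) (nat_lit 293))))))) (XT.nd (nat_lit 1014) (nat_lit 1140) (nat_lit 0) (XT.nd (nat_lit 468) (nat_lit 684) (nat_lit 0) (XT.nd (nat_lit 234) (nat_lit 152) (nat_lit 0) (XT.nd (nat_lit 78) (nat_lit 380) (nat_lit 0) (XT.lf (nat_lit 76) (nat_lit 218246833) (nat_lit 0) (nat_lit 827342294) (nat_lit 228) (nat_lit 218246833) (nat_lit 220) (nat_lit 1) (nat_lit 219) (nat_lit 1) (nat_lit 222) (nat_lit 1) (nat_lit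 394) (nat_lit 334) (nat_lit 292)) (XT.nd (nat_lit 78) (nat_lit 228) (nat_lit 0) (XT.lf (nat_lit 228) (nat_lit 102240783) (nat_lit 0) (nat_lit 569461209) (nat_lit 152) (nat_lit 569461209) (nat_lit 220) (nat_lit 1) (nat_lit 217) (nat_lit 1) (nat_lit 219) (nat_lit 1) (nat_lit 395) (nat_lit 334) (nat_lit 291)) (XT.lf (nat_lit 228) (nat_lit 1004888473) (nat_lit 0) (nat_lit 107129465) (nat_lit 152) (nat_lit 107129465) (nat_lit 217) (nat_lit 1) (nat_lit 214) (nat_lit 1) (nat_lit 216) (nat_lit 1) (nat_lit 396) (nat_lit 334) (nat_lit 290)))) (XT.nd (nat_lit 78) (nat_lit 152) (nat_lit 0) (XT.lf (nat_lit 76) (nat_lit 334529835) (nat_lit 0) (nat_lit 528259839) (nat_lit 228) (nat_lit 334529835) (nat_lit 215) (nat_lit 1) (nat_lit 214) (nat_lit 1) (nat_lit 217) (nat_lit 1) (nat_lit 397) (nat_lit 334) (nat_lit 289)) (XT.nd (nat_lit 78) (nat_lit 0) (nat_lit 0) (XT.lf (nat_lit 228) (nat_lit 340702395) (nat_lit 0)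 (nat_lit 417711456) (nat_lit 152) (nat_lit 417711456) (nat_lit 215) (nat_lit 1) (nat_lit 212) (nat_lit 1) (nat_lit 214) (nat_lit 1) (nat_lit 398) (nat_lit 334) (nat_lit 288)) (XT.lf (nat_lit 76) (nat_lit 11197948) (nat_lit 0) (nat_lit 1133278494) (nat_lit 228) (nat_lit 11197948) (nat_lit 213) (nat_lit 1) (nat_lit 212) (nat_lit 1) (nat_lit 215) (nat_lit 1) (nat_lit 399) (nat_lit 334) (nat_lit 287))))) (XT.nd (nat_lit 234) (nat_lit 380) (nat_lit 0) (XT.nd (nat_lit 78) (nat_lit 152) (nat_lit 0) (XT.lf (nat_lit 76) (nat_lit 422816262) (nat_lit 0) (nat_lit 289460950) (nat_lit 152) (nat_lit 422816262) (nat_lit 211) (nat_lit 1) (nat_lit 210) (nat_lit 1) (nat_lit 212) (nat_lit 1) (nat_lit 400) (nat_lit 334) (nat_lit 286)) (XT.nd (nat_lit 78) (nat_lit 0) (nat_lit 0) (XT.lf (nat_lit 228) (nat_lit 524666847) (nat_lit 0) (nat_lit 295284926) (nat_lit 152) (nat_lit 295284926) (nat_lit 211) (nat_lit 1) (nat_lit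 208) (nat_lit 1) (nat_lit 210) (nat_lit 1) (nat_lit 401) (nat_lit 334) (nat_lit 285)) (XT.lf (nat_lit 76) (nat_lit 105192076) (nat_lit 0) (nat_lit 885531755) (nat_lit 228) (nat_lit 105192076) (nat_lit 209) (nat_lit 1) (nat_lit 208) (nat_lit 1) (nat_lit 211) (nat_lit 1) (nat_lit 402) (nat_lit 334) (nat_lit 284)))) (XT.nd (nat_lit 156) (nat_lit 76) (nat_lit 0) (XT.nd (nat_lit 78) (nat_lit 152) (nat_lit 0) (XT.lf (nat_lit 76) (nat_lit 488421260) (nat_lit 0) (nat_lit 99911928) (nat_lit 152) (nat_lit 488421260) (nat_lit 207) (nat_lit 1) (nat_lit 206) (nat_lit 1) (nat_lit 208) (nat_lit 1) (nat_lit 403) (nat_lit 334) (nat_lit 283)) (XT.lf (nat_lit 228) (nat_lit 664378182) (nat_lit 0) (nat_lit 196867522) (nat_lit 152) (nat_lit 196867522) (nat_lit 207) (nat_lit 1) (nat_lit 204) (nat_lit 1) (nat_lit 206) (nat_lit 1) (nat_lit 404) (nat_lit 334) (nat_lit 282))) (XT.nd (nat_lit 78) (nat_lit 76) (nat_lit 0)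 (XT.lf (nat_lit 76) (nat_lit 177950826) (nat_lit 0) (nat_lit 683939388) (nat_lit 228) (nat_lit 177950826) (nat_lit 205) (nat_lit 1) (nat_lit 204) (nat_lit 1) (nat_lit 207) (nat_lit 1) (nat_lit 405) (nat_lit 334) (nat_lit 281)) (XT.lf (nat_lit 152) (nat_lit 51083202) (nat_lit 0) (nat_lit 485415229) (nat_lit 76) (nat_lit 485415229) (nat_lit 205) (nat_lit 1) (nat_lit 203) (nat_lit 1) (nat_lit 204) (nat_lit 1) (nat_lit 406) (nat_lit 334) (nat_lit 280)))))) (XT.nd (nat_lit 468) (nat_lit 532) (nat_lit 0) (XT.nd (nat_lit 234) (nat_lit 304) (nat_lit 0) (XT.nd (nat_lit 78) (nat_lit 76) (nat_lit 0) (XT.lf (nat_lit 228) (nat_lit 768236498) (nat_lit 0) (nat_lit 118092809) (nat_lit 152) (nat_lit 118092809) (nat_lit 203) (nat_lit 1) (nat_lit 200) (nat_lit 1) (nat_lit 202) (nat_lit 1) (nat_lit 407) (nat_lit 334) (nat_lit 279)) (XT.nd (nat_lit 78) (nat_lit 76) (nat_lit 0) (XT.lf (nat_lit 76) (nat_lit 233456818)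 (nat_lit 0) (nat_lit 520212172) (nat_lit 228) (nat_lit 233456818) (nat_lit 201) (nat_lit 1) (nat_lit 200) (nat_lit 1) (nat_lit 203) (nat_lit 1) (nat_lit 408) (nat_lit 334) (nat_lit 278)) (XT.lf (nat_lit 152) (nat_lit 171548965) (nat_lit 0) (nat_lit 399352310) (nat_lit 76) (nat_lit 399352310) (nat_lit 201) (nat_lit 1) (nat_lit 199) (nat_lit 1) (nat_lit 200) (nat_lit 1) (nat_lit 409) (nat_lit 334) (nat_lit 277)))) (XT.nd (nat_lit 78) (nat_lit 76) (nat_lit 0) (XT.lf (nat_lit 228) (nat_lit 843126186) (nat_lit 0) (nat_lit 55373734) (nat_lit 152) (nat_lit 55373734) (nat_lit 199) (nat_lit 1) (nat_lit 196) (nat_lit 1) (nat_lit 198) (nat_lit 1) (nat_lit 410) (nat_lit 334) (nat_lit 276)) (XT.nd (nat_lit 78) (nat_lit 76) (nat_lit 0) (XT.lf (nat_lit 76) (nat_lit 274976200) (nat_lit 0) (nat_lit 387535598) (nat_lit 228) (nat_lit 274976200) (nat_lit 197) (nat_lit 1) (nat_lit 196) (nat_lit 1) (nat_lit 199) (nat_lit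 1) (nat_lit 411) (nat_lit 334) (nat_lit 275)) (XT.lf (nat_lit 152) (nat_lit 264488699) (nat_lit 0) (nat_lit 328548134) (nat_lit 76) (nat_lit 328548134) (nat_lit 197) (nat_lit 1) (nat_lit 195) (nat_lit 1) (nat_lit 196) (nat_lit 1) (nat_lit 412) (nat_lit 334) (nat_lit 274))))) (XT.nd (nat_lit 234) (nat_lit 228) (nat_lit 0) (XT.nd (nat_lit 78) (nat_lit 76) (nat_lit 0) (XT.lf (nat_lit 228) (nat_lit 894685921) (nat_lit 0) (nat_lit 5764191) (nat_lit 152) (nat_lit 5764191) (nat_lit 195) (nat_lit 1) (nat_lit 192) (nat_lit 1) (nat_lit 194) (nat_lit 1) (nat_lit 413) (nat_lit 334) (nat_lit 273)) (XT.nd (nat_lit 78) (nat_lit 76) (nat_lit 0) (XT.lf (nat_lit 76) (nat_lit 305186170) (nat_lit 0) (nat_lit 280308169) (nat_lit 228) (nat_lit 305186170) (nat_lit 193) (nat_lit 1) (nat_lit 192) (nat_lit 1) (nat_lit 195) (nat_lit 1) (nat_lit 414) (nat_lit 334) (nat_lit 272)) (XT.lf (nat_lit 152) (nat_lit 335076404) (nat_lit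 0) (nat_lit 270297363) (nat_lit 76) (nat_lit 270297363) (nat_lit 193) (nat_lit 1) (nat_lit 191) (nat_lit 1) (nat_lit 192) (nat_lit 1) (nat_lit 415) (nat_lit 334) (nat_lit 271)))) (XT.nd (nat_lit 156) (nat_lit 76) (nat_lit 0) (XT.nd (nat_lit 78) (nat_lit 152) (nat_lit 0) (XT.lf (nat_lit 0) (nat_lit 33698370) (nat_lit 0) (nat_lit 793718167) (nat_lit 152) (nat_lit 33698370) (nat_lit 191) (nat_lit 3) (nat_lit 191) (nat_lit 1) (nat_lit 193) (nat_lit 1) (nat_lit 416) (nat_lit 334) (nat_lit 270)) (XT.lf (nat_lit 76) (nat_lit 326279865) (nat_lit 0) (nat_lit 193926103) (nat_lit 152) (nat_lit 326279865) (nat_lit 190) (nat_lit 1) (nat_lit 189) (nat_lit 1) (nat_lit 191) (nat_lit 1) (nat_lit 417) (nat_lit 334) (nat_lit 269))) (XT.nd (nat_lit 78) (nat_lit 0) (nat_lit 0) (XT.lf (nat_lit 152) (nat_lit 387554755) (nat_lit 0) (nat_lit 222374309) (nat_lit 76) (nat_lit 222374309) (nat_lit 190) (nat_lit 1) (nat_lit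 188) (nat_lit 1) (nat_lit 189) (nat_lit 1) (nat_lit 418) (nat_lit 334) (nat_lit 268)) (XT.lf (nat_lit 0) (nat_lit 64407853) (nat_lit 0) (nat_lit 689678021) (nat_lit 152) (nat_lit 64407853) (nat_lit 188) (nat_lit 3) (nat_lit 188) (nat_lit 1) (nat_lit 190) (nat_lit 1) (nat_lit 419) (nat_lit 334) (nat_lit 267))))))))
noncomputable def ec44 : XT := (XT.nd (nat_lit 1950) (nat_lit 228) (nat_lit 0) (XT.nd (nat_lit 936) (nat_lit 988) (nat_lit 0) (XT.nd (nat_lit 468) (nat_lit 456) (nat_lit 0) (XT.nd (nat_lit 234) (nat_lit 228) (nat_lit 0) (XT.nd (nat_lit 78) (nat_lit 76) (nat_lit 0) (XT.lf (nat_lit 76) (nat_lit 340052631) (nat_lit 0) (nat_lit 124606227) (nat_lit 152) (nat_lit 340052631) (nat_lit 187) (nat_lit 1) (nat_lit 186) (nat_lit 1) (nat_lit 188) (nat_lit 1) (nat_lit 420) (nat_lit 334) (nat_lit 266)) (XT.nd (nat_lit 78) (nat_lit 0) (nat_lit 0) (XT.lf (nat_lit 152) (nat_lit 425400892) (nat_lit 0) (nat_lit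 182947894) (nat_lit 76) (nat_lit 182947894) (nat_lit 187) (nat_lit 1) (nat_lit 185) (nat_lit 1) (nat_lit 186) (nat_lit 1) (nat_lit 421) (nat_lit 334) (nat_lit 265)) (XT.lf (nat_lit 0) (nat_lit 87925758) (nat_lit 0) (nat_lit 602337072) (nat_lit 152) (nat_lit 87925758) (nat_lit 185) (nat_lit 3) (nat_lit 185) (nat_lit 1) (nat_lit 187) (nat_lit 1) (nat_lit 422) (nat_lit 334) (nat_lit 264)))) (XT.nd (nat_lit 78) (nat_lit 76) (nat_lit 0) (XT.lf (nat_lit 76) (nat_lit 347972977) (nat_lit 0) (nat_lit 69240273) (nat_lit 152) (nat_lit 347972977) (nat_lit 184) (nat_lit 1) (nat_lit 183) (nat_lit 1) (nat_lit 185) (nat_lit 1) (nat_lit 423) (nat_lit 334) (nat_lit 263)) (XT.nd (nat_lit 78) (nat_lit 0) (nat_lit 0) (XT.lf (nat_lit 152) (nat_lit 451462782) (nat_lit 0) (nat_lit 150511685) (nat_lit 76) (nat_lit 150511685) (nat_lit 184) (nat_lit 1) (nat_lit 182) (nat_lit 1) (nat_lit 183) (nat_lit 1) (nat_lit 424) (nat_lit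 334) (nat_lit 262)) (XT.lf (nat_lit 0) (nat_lit 105610317) (nat_lit 0) (nat_lit 528817779) (nat_lit 152) (nat_lit 105610317) (nat_lit 182) (nat_lit 3) (nat_lit 182) (nat_lit 1) (nat_lit 184) (nat_lit 1) (nat_lit 425) (nat_lit 334) (nat_lit 261))))) (XT.nd (nat_lit 234) (nat_lit 228) (nat_lit 0) (XT.nd (nat_lit 78) (nat_lit 76) (nat_lit 0) (XT.lf (nat_lit 76) (nat_lit 351240931) (nat_lit 0) (nat_lit 25275021) (nat_lit 152) (nat_lit 351240931) (nat_lit 181) (nat_lit 1) (nat_lit 180) (nat_lit 1) (nat_lit 182) (nat_lit 1) (nat_lit 426) (nat_lit 334) (nat_lit 260)) (XT.nd (nat_lit 78) (nat_lit 0) (nat_lit 0) (XT.lf (nat_lit 152) (nat_lit 468071372) (nat_lit 0) (nat_lit 123826336) (nat_lit 76) (nat_lit 123826336) (nat_lit 181) (nat_lit 1) (nat_lit 179) (nat_lit 1) (nat_lit 180) (nat_lit 1) (nat_lit 427) (nat_lit 334) (nat_lit 259)) (XT.lf (nat_lit 0) (nat_lit 118574992) (nat_lit 0) (nat_lit 466748818)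 (nat_lit 152) (nat_lit 118574992) (nat_lit 179) (nat_lit 3) (nat_lit 179) (nat_lit 1) (nat_lit 181) (nat_lit 1) (nat_lit 428) (nat_lit 334) (nat_lit 258)))) (XT.nd (nat_lit 78) (nat_lit 152) (nat_lit 0) (XT.lf (nat_lit 76) (nat_lit 9696647) (nat_lit 0) (nat_lit 341290767) (nat_lit 76) (nat_lit 341290767) (nat_lit 179) (nat_lit 3) (nat_lit 178) (nat_lit 1) (nat_lit 179) (nat_lit 1) (nat_lit 429) (nat_lit 334) (nat_lit 257)) (XT.nd (nat_lit 78) (nat_lit 0) (nat_lit 0) (XT.lf (nat_lit 152) (nat_lit 477132833) (nat_lit 0) (nat_lit 101872233) (nat_lit 76) (nat_lit 101872233) (nat_lit 178) (nat_lit 1) (nat_lit 176) (nat_lit 1) (nat_lit 177) (nat_lit 1) (nat_lit 430) (nat_lit 334) (nat_lit 256)) (XT.lf (nat_lit 0) (nat_lit 127732056) (nat_lit 0) (nat_lit 414175525) (nat_lit 152) (nat_lit 127732056) (nat_lit 176) (nat_lit 3) (nat_lit 176) (nat_lit 1) (nat_lit 178) (nat_lit 1) (nat_lit 431) (nat_lit 334)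 (nat_lit 255)))))) (XT.nd (nat_lit 468) (nat_lit 532) (nat_lit 0) (XT.nd (nat_lit 234) (nat_lit 228) (nat_lit 0) (XT.nd (nat_lit 78) (nat_lit 152) (nat_lit 0) (XT.lf (nat_lit 76) (nat_lit 37670796) (nat_lit 0) (nat_lit 310474099) (nat_lit 76) (nat_lit 310474099) (nat_lit 176) (nat_lit 3) (nat_lit 175) (nat_lit 1) (nat_lit 176) (nat_lit 1) (nat_lit 432) (nat_lit 334) (nat_lit 254)) (XT.nd (nat_lit 78) (nat_lit 0) (nat_lit 0) (XT.lf (nat_lit 152) (nat_lit 480204416) (nat_lit 0) (nat_lit 83810538) (nat_lit 76) (nat_lit 83810538) (nat_lit 175) (nat_lit 1) (nat_lit 173) (nat_lit 1) (nat_lit 174) (nat_lit 1) (nat_lit 433) (nat_lit 334) (nat_lit 253)) (XT.lf (nat_lit 0) (nat_lit 133828447) (nat_lit 0) (nat_lit 369486197) (nat_lit 152) (nat_lit 133828447) (nat_lit 173) (nat_lit 3) (nat_lit 173) (nat_lit 1) (nat_lit 175) (nat_lit 1) (nat_lit 434) (nat_lit 334) (nat_lit 252)))) (XT.nd (nat_lit 78) (nat_lit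 152) (nat_lit 0) (XT.lf (nat_lit 76) (nat_lit 59271229) (nat_lit 0) (nat_lit 283707182) (nat_lit 76) (nat_lit 283707182) (nat_lit 173) (nat_lit 3) (nat_lit 172) (nat_lit 1) (nat_lit 173) (nat_lit 1) (nat_lit 435) (nat_lit 334) (nat_lit 251)) (XT.nd (nat_lit 78) (nat_lit 0) (nat_lit 0) (XT.lf (nat_lit 152) (nat_lit 478556841) (nat_lit 0) (nat_lit 68951137) (nat_lit 76) (nat_lit 68951137) (nat_lit 172) (nat_lit 1) (nat_lit 170) (nat_lit 1) (nat_lit 171) (nat_lit 1) (nat_lit 436) (nat_lit 334) (nat_lit 250)) (XT.lf (nat_lit 0) (nat_lit 137475250) (nat_lit 0) (nat_lit 331351465) (nat_lit 152) (nat_lit 137475250) (nat_lit 170) (nat_lit 3) (nat_lit 170) (nat_lit 1) (nat_lit 172) (nat_lit 1) (nat_lit 437) (nat_lit 334) (nat_lit 249))))) (XT.nd (nat_lit 234) (nat_lit 304) (nat_lit 0) (XT.nd (nat_lit 78) (nat_lit 152) (nat_lit 0) (XT.lf (nat_lit 76) (nat_lit 75695322) (nat_lit 0) (nat_lit 260339336) (nat_lit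 76) (nat_lit 260339336) (nat_lit 170) (nat_lit 3) (nat_lit 169) (nat_lit 1) (nat_lit 170) (nat_lit 1) (nat_lit 438) (nat_lit 334) (nat_lit 248)) (XT.nd (nat_lit 78) (nat_lit 0) (nat_lit 0) (XT.lf (nat_lit 152) (nat_lit 473225593) (nat_lit 0) (nat_lit 56726271) (nat_lit 76) (nat_lit 56726271) (nat_lit 169) (nat_lit 1) (nat_lit 167) (nat_lit 1) (nat_lit 168) (nat_lit 1) (nat_lit 439) (nat_lit 334) (nat_lit 247)) (XT.lf (nat_lit 0) (nat_lit 139171948) (nat_lit 0) (nat_lit 298674390) (nat_lit 152) (nat_lit 139171948) (nat_lit 167) (nat_lit 3) (nat_lit 167) (nat_lit 1) (nat_lit 169) (nat_lit 1) (nat_lit 440) (nat_lit 334) (nat_lit 246)))) (XT.nd (nat_lit 156) (nat_lit 76) (nat_lit 0) (XT.nd (nat_lit 78) (nat_lit 152) (nat_lit 0) (XT.lf (nat_lit 76) (nat_lit 87924953) (nat_lit 0) (nat_lit 239832040) (nat_lit 76) (nat_lit 239832040) (nat_lit 167) (nat_lit 3) (nat_lit 166) (nat_lit 1) (nat_lit 167) (nat_lit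 1) (nat_lit 441) (nat_lit 334) (nat_lit 245)) (XT.lf (nat_lit 152) (nat_lit 465053099) (nat_lit 0) (nat_lit 46668843) (nat_lit 76) (nat_lit 46668843) (nat_lit 166) (nat_lit 1) (nat_lit 164) (nat_lit 1) (nat_lit 165) (nat_lit 1) (nat_lit 442) (nat_lit 334) (nat_lit 244))) (XT.nd (nat_lit 78) (nat_lit 76) (nat_lit 0) (XT.lf (nat_lit 0) (nat_lit 139326363) (nat_lit 0) (nat_lit 270549416) (nat_lit 152) (nat_lit 139326363) (nat_lit 164) (nat_lit 3) (nat_lit 164) (nat_lit 1) (nat_lit 166) (nat_lit 1) (nat_lit 443) (nat_lit 334) (nat_lit 243)) (XT.lf (nat_lit 76) (nat_lit 96764862) (nat_lit 0) (nat_lit 221739198) (nat_lit 76) (nat_lit 221739198) (nat_lit 164) (nat_lit 3) (nat_lit 163) (nat_lit 1) (nat_lit 164) (nat_lit 1) (nat_lit 444) (nat_lit 334) (nat_lit 242))))))) (XT.nd (nat_lit 46410) (nat_lit 0) (nat_lit 7372) (XT.nd (nat_lit 45942) (nat_lit 0) (nat_lit 10108) (XT.nd (nat_lit 45708) (nat_lit 0)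 (nat_lit 10032) (XT.nd (nat_lit 78) (nat_lit 76) (nat_lit 0) (XT.lf (nat_lit 152) (nat_lit 454723415) (nat_lit 0) (nat_lit 38394573) (nat_lit 76) (nat_lit 38394573) (nat_lit 163) (nat_lit 1) (nat_lit 161) (nat_lit 1) (nat_lit 162) (nat_lit 1) (nat_lit 445) (nat_lit 334) (nat_lit 241)) (XT.nd (nat_lit 78) (nat_lit 76) (nat_lit 0) (XT.lf (nat_lit 0) (nat_lit 138271055) (nat_lit 0) (nat_lit 246228585) (nat_lit 152) (nat_lit 138271055) (nat_lit 161) (nat_lit 3) (nat_lit 161) (nat_lit 1) (nat_lit 163) (nat_lit 1) (nat_lit 446) (nat_lit 334) (nat_lit 240)) (XT.lf (nat_lit 76) (nat_lit 102874200) (nat_lit 0) (nat_lit 205690896) (nat_lit 76) (nat_lit 205690896) (nat_lit 161) (nat_lit 3) (nat_lit 160) (nat_lit 1) (nat_lit 161) (nat_lit 1) (nat_lit 447) (nat_lit 334) (nat_lit 239)))) (XT.nd (nat_lit 78) (nat_lit 0) (nat_lit 0) (XT.lf (nat_lit 836) (nat_lit 421020442) (nat_lit 0) (nat_lit 747520828) (nat_lit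 836) (nat_lit 421020442) (nat_lit 303) (nat_lit 1) (nat_lit 292) (nat_lit 0) (nat_lit 303) (nat_lit 0) (nat_lit 350) (nat_lit 335) (nat_lit 335)) (XT.nd (nat_lit 78) (nat_lit 0) (nat_lit 76) (XT.lf (nat_lit 836) (nat_lit 1631927798) (nat_lit 76) (nat_lit 735464040) (nat_lit 0) (nat_lit 735464040) (nat_lit 303) (nat_lit 1) (nat_lit 293) (nat_lit 1) (nat_lit 292) (nat_lit 0) (nat_lit 351) (nat_lit 335) (nat_lit 334)) (XT.lf (nat_lit 836) (nat_lit 777752216) (nat_lit 0) (nat_lit 1473441738) (nat_lit 760) (nat_lit 777752216) (nat_lit 304) (nat_lit 1) (nat_lit 293) (nat_lit 1) (nat_lit 303) (nat_lit 1) (nat_lit 352) (nat_lit 335) (nat_lit 333))))) (XT.nd (nat_lit 234) (nat_lit 0) (nat_lit 152) (XT.nd (nat_lit 78) (nat_lit 0) (nat_lit 76) (XT.lf (nat_lit 836) (nat_lit 1458955087) (nat_lit 76) (nat_lit 749234605) (nat_lit 0) (nat_lit 749234605) (nat_lit 304) (nat_lit 1) (nat_lit 294) (nat_lit 1) (nat_lit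 293) (nat_lit 1) (nat_lit 353) (nat_lit 335) (nat_lit 332)) (XT.nd (nat_lit 78) (nat_lit 0) (nat_lit 0) (XT.lf (nat_lit 836) (nat_lit 671543016) (nat_lit 0) (nat_lit 1545083276) (nat_lit 760) (nat_lit 671543016) (nat_lit 305) (nat_lit 1) (nat_lit 294) (nat_lit 1) (nat_lit 304) (nat_lit 1) (nat_lit 354) (nat_lit 335) (nat_lit 331)) (XT.lf (nat_lit 836) (nat_lit 1207813853) (nat_lit 76) (nat_lit 806605811) (nat_lit 0) (nat_lit 806605811) (nat_lit 305) (nat_lit 1) (nat_lit 295) (nat_lit 1) (nat_lit 294) (nat_lit 1) (nat_lit 355) (nat_lit 335) (nat_lit 330)))) (XT.nd (nat_lit 78) (nat_lit 0) (nat_lit 0) (XT.lf (nat_lit 836) (nat_lit 529591489) (nat_lit 0) (nat_lit 1696953121) (nat_lit 760) (nat_lit 529591489) (nat_lit 306) (nat_lit 1) (nat_lit 295) (nat_lit 1) (nat_lit 305) (nat_lit 1) (nat_lit 356) (nat_lit 335) (nat_lit 329)) (XT.nd (nat_lit 78) (nat_lit 0) (nat_lit 76) (XT.lf (nat_lit 836) (nat_lit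 890259555) (nat_lit 76) (nat_lit 901386898) (nat_lit 0) (nat_lit 901386898) (nat_lit 306) (nat_lit 1) (nat_lit 296) (nat_lit 1) (nat_lit 295) (nat_lit 1) (nat_lit 357) (nat_lit 335) (nat_lit 328)) (XT.lf (nat_lit 836) (nat_lit 357392842) (nat_lit 0) (nat_lit 1917454841) (nat_lit 760) (nat_lit 357392842) (nat_lit 307) (nat_lit 1) (nat_lit 296) (nat_lit 1) (nat_lit 306) (nat_lit 1) (nat_lit 358) (nat_lit 335) (nat_lit 327)))))) (XT.nd (nat_lit 468) (nat_lit 1368) (nat_lit 0) (XT.nd (nat_lit 234) (nat_lit 912) (nat_lit 0) (XT.nd (nat_lit 78) (nat_lit 684) (nat_lit 0) (XT.lf (nat_lit 836) (nat_lit 516741021) (nat_lit 76) (nat_lit 1028064436) (nat_lit 0) (nat_lit 1028064436) (nat_lit 307) (nat_lit 1) (nat_lit 297) (nat_lit 1) (nat_lit 296) (nat_lit 1) (nat_lit 359) (nat_lit 335) (nat_lit 326)) (XT.nd (nat_lit 78) (nat_lit 760) (nat_lit 0) (XT.lf (nat_lit 76) (nat_lit 159827945) (nat_lit 0) (nat_lit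 2196267156) (nat_lit 760) (nat_lit 159827945) (nat_lit 298) (nat_lit 1) (nat_lit 297) (nat_lit 1) (nat_lit 307) (nat_lit 1) (nat_lit 360) (nat_lit 335) (nat_lit 325)) (XT.lf (nat_lit 836) (nat_lit 96532104) (nat_lit 0) (nat_lit 1181734505) (nat_lit 760) (nat_lit 1181734505) (nat_lit 298) (nat_lit 1) (nat_lit 287) (nat_lit 1) (nat_lit 297) (nat_lit 1) (nat_lit 361) (nat_lit 335) (nat_lit 324)))) (XT.nd (nat_lit 78) (nat_lit 380) (nat_lit 0) (XT.lf (nat_lit 532) (nat_lit 2290828414) (nat_lit 0) (nat_lit 57826639) (nat_lit 456) (nat_lit 57826639) (nat_lit 287) (nat_lit 1) (nat_lit 280) (nat_lit 1) (nat_lit 286) (nat_lit 1) (nat_lit 362) (nat_lit 335) (nat_lit 323)) (XT.nd (nat_lit 78) (nat_lit 380) (nat_lit 0) (XT.lf (nat_lit 76) (nat_lit 1001546195) (nat_lit 0) (nat_lit 350558341) (nat_lit 532) (nat_lit 1001546195) (nat_lit 281) (nat_lit 1) (nat_lit 280) (nat_lit 1) (nat_lit 287) (nat_lit 1) (nat_lit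 363) (nat_lit 335) (nat_lit 322)) (XT.lf (nat_lit 456) (nat_lit 1723403917) (nat_lit 0) (nat_lit 289831185) (nat_lit 380) (nat_lit 289831185) (nat_lit 281) (nat_lit 1) (nat_lit 275) (nat_lit 1) (nat_lit 280) (nat_lit 1) (nat_lit 364) (nat_lit 335) (nat_lit 321))))) (XT.nd (nat_lit 234) (nat_lit 988) (nat_lit 0) (XT.nd (nat_lit 78) (nat_lit 380) (nat_lit 0) (XT.lf (nat_lit 76) (nat_lit 714390709) (nat_lit 0) (nat_lit 824763849) (nat_lit 456) (nat_lit 714390709) (nat_lit 276) (nat_lit 1) (nat_lit 275) (nat_lit 1) (nat_lit 281) (nat_lit 1) (nat_lit 365) (nat_lit 335) (nat_lit 320)) (XT.nd (nat_lit 78) (nat_lit 0) (nat_lit 0) (XT.lf (nat_lit 456) (nat_lit 1134885919) (nat_lit 0) (nat_lit 535431506) (nat_lit 380) (nat_lit 535431506) (nat_lit 276) (nat_lit 1) (nat_lit 270) (nat_lit 1) (nat_lit 275) (nat_lit 1) (nat_lit 366) (nat_lit 335) (nat_lit 319)) (XT.lf (nat_lit 76) (nat_lit 418190378) (nat_lit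 0) (nat_lit 1322961917) (nat_lit 456) (nat_lit 418190378) (nat_lit 271) (nat_lit 1) (nat_lit 270) (nat_lit 1) (nat_lit 276) (nat_lit 1) (nat_lit 367) (nat_lit 335) (nat_lit 318)))) (XT.nd (nat_lit 156) (nat_lit 684) (nat_lit 0) (XT.nd (nat_lit 78) (nat_lit 0) (nat_lit 0) (XT.lf (nat_lit 380) (nat_lit 530752031) (nat_lit 0) (nat_lit 791689053) (nat_lit 304) (nat_lit 791689053) (nat_lit 271) (nat_lit 1) (nat_lit 266) (nat_lit 1) (nat_lit 270) (nat_lit 1) (nat_lit 368) (nat_lit 335) (nat_lit 317)) (XT.lf (nat_lit 76) (nat_lit 115488100) (nat_lit 0) (nat_lit 1839680054) (nat_lit 380) (nat_lit 115488100) (nat_lit 267) (nat_lit 1) (nat_lit 266) (nat_lit 1) (nat_lit 271) (nat_lit 1) (nat_lit 369) (nat_lit 335) (nat_lit 316))) (XT.nd (nat_lit 78) (nat_lit 304) (nat_lit 0) (XT.lf (nat_lit 76) (nat_lit 973135920) (nat_lit 0) (nat_lit 81502023) (nat_lit 380) (nat_lit 973135920) (nat_lit 262) (nat_lit 1) (nat_lit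 261) (nat_lit 1) (nat_lit 266) (nat_lit 1) (nat_lit 370) (nat_lit 335) (nat_lit 315)) (XT.lf (nat_lit 380) (nat_lit 1609720277) (nat_lit 0) (nat_lit 188402131) (nat_lit 304) (nat_lit 188402131) (nat_lit 262) (nat_lit 1) (nat_lit 257) (nat_lit 1) (nat_lit 261) (nat_lit 1) (nat_lit 371) (nat_lit 335) (nat_lit 314))))))))
noncomputable def ec45 : XT := (XT.nd (nat_lit 1950) (nat_lit 2280) (nat_lit 0) (XT.nd (nat_lit 936) (nat_lit 1520) (nat_lit 0) (XT.nd (nat_lit 468) (nat_lit 988) (nat_lit 0) (XT.nd (nat_lit 234) (nat_lit 608) (nat_lit 0) (XT.nd (nat_lit 78) (nat_lit 304) (nat_lit 0) (XT.lf (nat_lit 76) (nat_lit 631403061) (nat_lit 0) (nat_lit 683176734) (nat_lit 380) (nat_lit 631403061) (nat_lit 258) (nat_lit 1) (nat_lit 257) (nat_lit 1) (nat_lit 262) (nat_lit 1) (nat_lit 372) (nat_lit 335) (nat_lit 313)) (XT.nd (nat_lit 78) (nat_lit 0) (nat_lit 0) (XT.lf (nat_lit 380) (nat_lit 921392708) (nat_lit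 0) (nat_lit 492727154) (nat_lit 304) (nat_lit 492727154) (nat_lit 258) (nat_lit 1) (nat_lit 253) (nat_lit 1) (nat_lit 257) (nat_lit 1) (nat_lit 373) (nat_lit 335) (nat_lit 312)) (XT.lf (nat_lit 76) (nat_lit 290566139) (nat_lit 0) (nat_lit 1287723233) (nat_lit 380) (nat_lit 290566139) (nat_lit 254) (nat_lit 1) (nat_lit 253) (nat_lit 1) (nat_lit 258) (nat_lit 1) (nat_lit 374) (nat_lit 335) (nat_lit 311)))) (XT.nd (nat_lit 78) (nat_lit 380) (nat_lit 0) (XT.lf (nat_lit 304) (nat_lit 236304996) (nat_lit 0) (nat_lit 797689547) (nat_lit 228) (nat_lit 797689547) (nat_lit 254) (nat_lit 1) (nat_lit 250) (nat_lit 1) (nat_lit 253) (nat_lit 1) (nat_lit 375) (nat_lit 335) (nat_lit 310)) (XT.nd (nat_lit 78) (nat_lit 0) (nat_lit 0) (XT.lf (nat_lit 380) (nat_lit 1701519361) (nat_lit 0) (nat_lit 47213897) (nat_lit 304) (nat_lit 47213897) (nat_lit 250) (nat_lit 1) (nat_lit 245) (nat_lit 1) (nat_lit 249) (nat_lit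 1) (nat_lit 376) (nat_lit 335) (nat_lit 309)) (XT.lf (nat_lit 76) (nat_lit 665817105) (nat_lit 0) (nat_lit 428773809) (nat_lit 380) (nat_lit 665817105) (nat_lit 246) (nat_lit 1) (nat_lit 245) (nat_lit 1) (nat_lit 250) (nat_lit 1) (nat_lit 377) (nat_lit 335) (nat_lit 308))))) (XT.nd (nat_lit 234) (nat_lit 532) (nat_lit 0) (XT.nd (nat_lit 78) (nat_lit 228) (nat_lit 0) (XT.lf (nat_lit 304) (nat_lit 972446931) (nat_lit 0) (nat_lit 376892486) (nat_lit 228) (nat_lit 376892486) (nat_lit 246) (nat_lit 1) (nat_lit 242) (nat_lit 1) (nat_lit 245) (nat_lit 1) (nat_lit 378) (nat_lit 335) (nat_lit 307)) (XT.nd (nat_lit 78) (nat_lit 228) (nat_lit 0) (XT.lf (nat_lit 76) (nat_lit 307211027) (nat_lit 0) (nat_lit 1078502035) (nat_lit 304) (nat_lit 307211027) (nat_lit 243) (nat_lit 1) (nat_lit 242) (nat_lit 1) (nat_lit 246) (nat_lit 1) (nat_lit 379) (nat_lit 335) (nat_lit 306)) (XT.lf (nat_lit 304) (nat_lit 256050789)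 (nat_lit 0) (nat_lit 702161616) (nat_lit 228) (nat_lit 702161616) (nat_lit 243) (nat_lit 1) (nat_lit 239) (nat_lit 1) (nat_lit 242) (nat_lit 1) (nat_lit 380) (nat_lit 335) (nat_lit 305)))) (XT.nd (nat_lit 78) (nat_lit 228) (nat_lit 0) (XT.lf (nat_lit 304) (nat_lit 1541023283) (nat_lit 0) (nat_lit 44004973) (nat_lit 228) (nat_lit 44004973) (nat_lit 239) (nat_lit 1) (nat_lit 235) (nat_lit 1) (nat_lit 238) (nat_lit 1) (nat_lit 381) (nat_lit 335) (nat_lit 304)) (XT.nd (nat_lit 78) (nat_lit 228) (nat_lit 0) (XT.lf (nat_lit 76) (nat_lit 582924976) (nat_lit 0) (nat_lit 431941554) (nat_lit 304) (nat_lit 582924976) (nat_lit 236) (nat_lit 1) (nat_lit 235) (nat_lit 1) (nat_lit 239) (nat_lit 1) (nat_lit 382) (nat_lit 335) (nat_lit 303)) (XT.lf (nat_lit 304) (nat_lit 801575218) (nat_lit 0) (nat_lit 383065256) (nat_lit 228) (nat_lit 383065256) (nat_lit 236) (nat_lit 1) (nat_lit 232) (nat_lit 1) (nat_lit 235)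 (nat_lit 1) (nat_lit 383) (nat_lit 335) (nat_lit 302)))))) (XT.nd (nat_lit 468) (nat_lit 912) (nat_lit 0) (XT.nd (nat_lit 234) (nat_lit 152) (nat_lit 0) (XT.nd (nat_lit 78) (nat_lit 456) (nat_lit 0) (XT.lf (nat_lit 76) (nat_lit 220753161) (nat_lit 0) (nat_lit 1096920548) (nat_lit 304) (nat_lit 220753161) (nat_lit 233) (nat_lit 1) (nat_lit 232) (nat_lit 1) (nat_lit 236) (nat_lit 1) (nat_lit 384) (nat_lit 335) (nat_lit 301)) (XT.nd (nat_lit 78) (nat_lit 304) (nat_lit 0) (XT.lf (nat_lit 228) (nat_lit 80891298) (nat_lit 0) (nat_lit 714404227) (nat_lit 152) (nat_lit 714404227) (nat_lit 233) (nat_lit 1) (nat_lit 230) (nat_lit 1) (nat_lit 232) (nat_lit 1) (nat_lit 385) (nat_lit 335) (nat_lit 300)) (XT.lf (nat_lit 304) (nat_lit 1222240392) (nat_lit 0) (nat_lit 129810788) (nat_lit 228) (nat_lit 129810788) (nat_lit 230) (nat_lit 1) (nat_lit 226) (nat_lit 1) (nat_lit 229) (nat_lit 1) (nat_lit 386) (nat_lit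 335) (nat_lit 299)))) (XT.nd (nat_lit 78) (nat_lit 152) (nat_lit 0) (XT.lf (nat_lit 76) (nat_lit 426899556) (nat_lit 0) (nat_lit 600536412) (nat_lit 304) (nat_lit 426899556) (nat_lit 227) (nat_lit 1) (nat_lit 226) (nat_lit 1) (nat_lit 230) (nat_lit 1) (nat_lit 387) (nat_lit 335) (nat_lit 298)) (XT.nd (nat_lit 78) (nat_lit 0) (nat_lit 0) (XT.lf (nat_lit 228) (nat_lit 493216585) (nat_lit 0) (nat_lit 467221018) (nat_lit 152) (nat_lit 467221018) (nat_lit 227) (nat_lit 1) (nat_lit 224) (nat_lit 1) (nat_lit 226) (nat_lit 1) (nat_lit 388) (nat_lit 335) (nat_lit 297)) (XT.lf (nat_lit 76) (nat_lit 70859568) (nat_lit 0) (nat_lit 1260147888) (nat_lit 228) (nat_lit 70859568) (nat_lit 225) (nat_lit 1) (nat_lit 224) (nat_lit 1) (nat_lit 227) (nat_lit 1) (nat_lit 389) (nat_lit 335) (nat_lit 296))))) (XT.nd (nat_lit 234) (nat_lit 532) (nat_lit 0) (XT.nd (nat_lit 78) (nat_lit 152) (nat_lit 0) (XT.lf (nat_lit 76)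 (nat_lit 584816449) (nat_lit 0) (nat_lit 206536282) (nat_lit 228) (nat_lit 584816449) (nat_lit 222) (nat_lit 1) (nat_lit 221) (nat_lit 1) (nat_lit 224) (nat_lit 1) (nat_lit 390) (nat_lit 335) (nat_lit 295)) (XT.nd (nat_lit 78) (nat_lit 0) (nat_lit 0) (XT.lf (nat_lit 228) (nat_lit 812120138) (nat_lit 0) (nat_lit 269601882) (nat_lit 152) (nat_lit 269601882) (nat_lit 222) (nat_lit 1) (nat_lit 219) (nat_lit 1) (nat_lit 221) (nat_lit 1) (nat_lit 391) (nat_lit 335) (nat_lit 294)) (XT.lf (nat_lit 76) (nat_lit 229159174) (nat_lit 0) (nat_lit 868709409) (nat_lit 228) (nat_lit 229159174) (nat_lit 220) (nat_lit 1) (nat_lit 219) (nat_lit 1) (nat_lit 222) (nat_lit 1) (nat_lit 392) (nat_lit 335) (nat_lit 293)))) (XT.nd (nat_lit 156) (nat_lit 152) (nat_lit 0) (XT.nd (nat_lit 78) (nat_lit 228) (nat_lit 0) (XT.lf (nat_lit 228) (nat_lit 107352822) (nat_lit 0) (nat_lit 597934270) (nat_lit 152) (nat_lit 597934270)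 (nat_lit 220) (nat_lit 1) (nat_lit 217) (nat_lit 1) (nat_lit 219) (nat_lit 1) (nat_lit 393) (nat_lit 335) (nat_lit 292)) (XT.lf (nat_lit 228) (nat_lit 1055132897) (nat_lit 0) (nat_lit 112485939) (nat_lit 152) (nat_lit 112485939) (nat_lit 217) (nat_lit 1) (nat_lit 214) (nat_lit 1) (nat_lit 216) (nat_lit 1) (nat_lit 394) (nat_lit 335) (nat_lit 291))) (XT.nd (nat_lit 78) (nat_lit 152) (nat_lit 0) (XT.lf (nat_lit 76) (nat_lit 351256327) (nat_lit 0) (nat_lit 554672831) (nat_lit 228) (nat_lit 351256327) (nat_lit 215) (nat_lit 1) (nat_lit 214) (nat_lit 1) (nat_lit 217) (nat_lit 1) (nat_lit 395) (nat_lit 335) (nat_lit 290)) (XT.lf (nat_lit 228) (nat_lit 357737515) (nat_lit 0) (nat_lit 438597029) (nat_lit 152) (nat_lit 438597029) (nat_lit 215) (nat_lit 1) (nat_lit 212) (nat_lit 1) (nat_lit 214) (nat_lit 1) (nat_lit 396) (nat_lit 335) (nat_lit 289))))))) (XT.nd (nat_lit 1014) (nat_lit 1064) (nat_lit 0) (XT.nd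 (nat_lit 468) (nat_lit 608) (nat_lit 0) (XT.nd (nat_lit 234) (nat_lit 304) (nat_lit 0) (XT.nd (nat_lit 78) (nat_lit 304) (nat_lit 0) (XT.lf (nat_lit 76) (nat_lit 11757845) (nat_lit 0) (nat_lit 1189942419) (nat_lit 228) (nat_lit 11757845) (nat_lit 213) (nat_lit 1) (nat_lit 212) (nat_lit 1) (nat_lit 215) (nat_lit 1) (nat_lit 397) (nat_lit 335) (nat_lit 288)) (XT.nd (nat_lit 78) (nat_lit 152) (nat_lit 0) (XT.lf (nat_lit 76) (nat_lit 443957075) (nat_lit 0) (nat_lit 303933997) (nat_lit 152) (nat_lit 443957075) (nat_lit 211) (nat_lit 1) (nat_lit 210) (nat_lit 1) (nat_lit 212) (nat_lit 1) (nat_lit 398) (nat_lit 335) (nat_lit 287)) (XT.lf (nat_lit 228) (nat_lit 550900189) (nat_lit 0) (nat_lit 310049172) (nat_lit 152) (nat_lit 310049172) (nat_lit 211) (nat_lit 1) (nat_lit 208) (nat_lit 1) (nat_lit 210) (nat_lit 1) (nat_lit 399) (nat_lit 335) (nat_lit 286)))) (XT.nd (nat_lit 78) (nat_lit 304) (nat_lit 0)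 (XT.lf (nat_lit 76) (nat_lit 110451680) (nat_lit 0) (nat_lit 929808342) (nat_lit 228) (nat_lit 110451680) (nat_lit 209) (nat_lit 1) (nat_lit 208) (nat_lit 1) (nat_lit 211) (nat_lit 1) (nat_lit 400) (nat_lit 335) (nat_lit 285)) (XT.nd (nat_lit 78) (nat_lit 152) (nat_lit 0) (XT.lf (nat_lit 76) (nat_lit 512842323) (nat_lit 0) (nat_lit 104907524) (nat_lit 152) (nat_lit 512842323) (nat_lit 207) (nat_lit 1) (nat_lit 206) (nat_lit 1) (nat_lit 208) (nat_lit 1) (nat_lit 401) (nat_lit 335) (nat_lit 284)) (XT.lf (nat_lit 228) (nat_lit 697597092) (nat_lit 0) (nat_lit 206710898) (nat_lit 152) (nat_lit 206710898) (nat_lit 207) (nat_lit 1) (nat_lit 204) (nat_lit 1) (nat_lit 206) (nat_lit 1) (nat_lit 402) (nat_lit 335) (nat_lit 283))))) (XT.nd (nat_lit 234) (nat_lit 304) (nat_lit 0) (XT.nd (nat_lit 78) (nat_lit 304) (nat_lit 0) (XT.lf (nat_lit 76) (nat_lit 186848368) (nat_lit 0) (nat_lit 718136357) (nat_lit 228)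 (nat_lit 186848368) (nat_lit 205) (nat_lit 1) (nat_lit 204) (nat_lit 1) (nat_lit 207) (nat_lit 1) (nat_lit 403) (nat_lit 335) (nat_lit 282)) (XT.nd (nat_lit 78) (nat_lit 228) (nat_lit 0) (XT.lf (nat_lit 152) (nat_lit 53637362) (nat_lit 0) (nat_lit 509685991) (nat_lit 76) (nat_lit 509685991) (nat_lit 205) (nat_lit 1) (nat_lit 203) (nat_lit 1) (nat_lit 204) (nat_lit 1) (nat_lit 404) (nat_lit 335) (nat_lit 281)) (XT.lf (nat_lit 228) (nat_lit 806648323) (nat_lit 0) (nat_lit 123997450) (nat_lit 152) (nat_lit 123997450) (nat_lit 203) (nat_lit 1) (nat_lit 200) (nat_lit 1) (nat_lit 202) (nat_lit 1) (nat_lit 405) (nat_lit 335) (nat_lit 280)))) (XT.nd (nat_lit 156) (nat_lit 228) (nat_lit 0) (XT.nd (nat_lit 78) (nat_lit 76) (nat_lit 0) (XT.lf (nat_lit 76) (nat_lit 245129659) (nat_lit 0) (nat_lit 546222780) (nat_lit 228) (nat_lit 245129659) (nat_lit 201) (nat_lit 1) (nat_lit 200) (nat_lit 1) (nat_lit 203)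 (nat_lit 1) (nat_lit 406) (nat_lit 335) (nat_lit 279)) (XT.lf (nat_lit 152) (nat_lit 180126413) (nat_lit 0) (nat_lit 419319926) (nat_lit 76) (nat_lit 419319926) (nat_lit 201) (nat_lit 1) (nat_lit 199) (nat_lit 1) (nat_lit 200) (nat_lit 1) (nat_lit 407) (nat_lit 335) (nat_lit 278))) (XT.nd (nat_lit 78) (nat_lit 0) (nat_lit 0) (XT.lf (nat_lit 228) (nat_lit 885282495) (nat_lit 0) (nat_lit 58142421) (nat_lit 152) (nat_lit 58142421) (nat_lit 199) (nat_lit 1) (nat_lit 196) (nat_lit 1) (nat_lit 198) (nat_lit 1) (nat_lit 408) (nat_lit 335) (nat_lit 277)) (XT.lf (nat_lit 76) (nat_lit 288725010) (nat_lit 0) (nat_lit 406912378) (nat_lit 228) (nat_lit 288725010) (nat_lit 197) (nat_lit 1) (nat_lit 196) (nat_lit 1) (nat_lit 199) (nat_lit 1) (nat_lit 409) (nat_lit 335) (nat_lit 276)))))) (XT.nd (nat_lit 468) (nat_lit 532) (nat_lit 0) (XT.nd (nat_lit 234) (nat_lit 228) (nat_lit 0) (XT.nd (nat_lit 78) (nat_lit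 228) (nat_lit 0) (XT.lf (nat_lit 152) (nat_lit 277713134) (nat_lit 0) (nat_lit 344975541) (nat_lit 76) (nat_lit 344975541) (nat_lit 197) (nat_lit 1) (nat_lit 195) (nat_lit 1) (nat_lit 196) (nat_lit 1) (nat_lit 410) (nat_lit 335) (nat_lit 275)) (XT.nd (nat_lit 78) (nat_lit 0) (nat_lit 0) (XT.lf (nat_lit 228) (nat_lit 939420217) (nat_lit 0) (nat_lit 6052401) (nat_lit 152) (nat_lit 6052401) (nat_lit 195) (nat_lit 1) (nat_lit 192) (nat_lit 1) (nat_lit 194) (nat_lit 1) (nat_lit 411) (nat_lit 335) (nat_lit 274)) (XT.lf (nat_lit 76) (nat_lit 320445479) (nat_lit 0) (nat_lit 294323577) (nat_lit 228) (nat_lit 320445479) (nat_lit 193) (nat_lit 1) (nat_lit 192) (nat_lit 1) (nat_lit 195) (nat_lit 1) (nat_lit 412) (nat_lit 335) (nat_lit 273)))) (XT.nd (nat_lit 78) (nat_lit 152) (nat_lit 0) (XT.lf (nat_lit 152) (nat_lit 351830224) (nat_lit 0) (nat_lit 283812231) (nat_lit 76) (nat_lit 283812231) (nat_lit 193)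 (nat_lit 1) (nat_lit 191) (nat_lit 1) (nat_lit 192) (nat_lit 1) (nat_lit 413) (nat_lit 335) (nat_lit 272)) (XT.nd (nat_lit 78) (nat_lit 152) (nat_lit 0) (XT.lf (nat_lit 0) (nat_lit 35383289) (nat_lit 0) (nat_lit 833404076) (nat_lit 152) (nat_lit 35383289) (nat_lit 191) (nat_lit 3) (nat_lit 191) (nat_lit 1) (nat_lit 193) (nat_lit 1) (nat_lit 414) (nat_lit 335) (nat_lit 271)) (XT.lf (nat_lit 76) (nat_lit 342593858) (nat_lit 0) (nat_lit 203622408) (nat_lit 152) (nat_lit 342593858) (nat_lit 190) (nat_lit 1) (nat_lit 189) (nat_lit 1) (nat_lit 191) (nat_lit 1) (nat_lit 415) (nat_lit 335) (nat_lit 270))))) (XT.nd (nat_lit 234) (nat_lit 304) (nat_lit 0) (XT.nd (nat_lit 78) (nat_lit 152) (nat_lit 0) (XT.lf (nat_lit 152) (nat_lit 406932492) (nat_lit 0) (nat_lit 233493025) (nat_lit 76) (nat_lit 233493025) (nat_lit 190) (nat_lit 1) (nat_lit 188) (nat_lit 1) (nat_lit 189) (nat_lit 1) (nat_lit 416) (nat_lit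 335) (nat_lit 269)) (XT.nd (nat_lit 78) (nat_lit 152) (nat_lit 0) (XT.lf (nat_lit 0) (nat_lit 67628246) (nat_lit 0) (nat_lit 724161922) (nat_lit 152) (nat_lit 67628246) (nat_lit 188) (nat_lit 3) (nat_lit 188) (nat_lit 1) (nat_lit 190) (nat_lit 1) (nat_lit 417) (nat_lit 335) (nat_lit 268)) (XT.lf (nat_lit 76) (nat_lit 357055262) (nat_lit 0) (nat_lit 130836539) (nat_lit 152) (nat_lit 357055262) (nat_lit 187) (nat_lit 1) (nat_lit 186) (nat_lit 1) (nat_lit 188) (nat_lit 1) (nat_lit 418) (nat_lit 335) (nat_lit 267)))) (XT.nd (nat_lit 156) (nat_lit 228) (nat_lit 0) (XT.nd (nat_lit 78) (nat_lit 0) (nat_lit 0) (XT.lf (nat_lit 152) (nat_lit 446670937) (nat_lit 0) (nat_lit 192095289) (nat_lit 76) (nat_lit 192095289) (nat_lit 187) (nat_lit 1) (nat_lit 185) (nat_lit 1) (nat_lit 186) (nat_lit 1) (nat_lit 419) (nat_lit 335) (nat_lit 266)) (XT.lf (nat_lit 0) (nat_lit 92322046) (nat_lit 0) (nat_lit 632453926)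 (nat_lit 152) (nat_lit 92322046) (nat_lit 185) (nat_lit 3) (nat_lit 185) (nat_lit 1) (nat_lit 187) (nat_lit 1) (nat_lit 420) (nat_lit 335) (nat_lit 265))) (XT.nd (nat_lit 78) (nat_lit 76) (nat_lit 0) (XT.lf (nat_lit 76) (nat_lit 365371626) (nat_lit 0) (nat_lit 72702286) (nat_lit 152) (nat_lit 365371626) (nat_lit 184) (nat_lit 1) (nat_lit 183) (nat_lit 1) (nat_lit 185) (nat_lit 1) (nat_lit 421) (nat_lit 335) (nat_lit 264)) (XT.lf (nat_lit 152) (nat_lit 474035921) (nat_lit 0) (nat_lit 158037270) (nat_lit 76) (nat_lit 158037270) (nat_lit 184) (nat_lit 1) (nat_lit 182) (nat_lit 1) (nat_lit 183) (nat_lit 1) (nat_lit 422) (nat_lit 335) (nat_lit 263))))))))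
noncomputable def ec46 : XT := (XT.nd (nat_lit 1950) (nat_lit 228) (nat_lit 0) (XT.nd (nat_lit 936) (nat_lit 912) (nat_lit 0) (XT.nd (nat_lit 468) (nat_lit 456) (nat_lit 0) (XT.nd (nat_lit 234) (nat_lit 228) (nat_lit 0) (XT.nd (nat_lit 78) (nat_lit 228) (nat_lit 0) (XT.lf (nat_lit 0) (nat_lit 110890833) (nat_lit 0) (nat_lit 555258668) (nat_lit 152) (nat_lit 110890833) (nat_lit 182) (nat_lit 3) (nat_lit 182) (nat_lit 1) (nat_lit 184) (nat_lit 1) (nat_lit 423) (nat_lit 335) (nat_lit 262)) (XT.nd (nat_lit 78) (nat_lit 76) (nat_lit 0) (XT.lf (nat_lit 76) (nat_lit 368802978) (nat_lit 0) (nat_lit 26538772) (nat_lit 152) (nat_lit 368802978) (nat_lit 181) (nat_lit 1) (nat_lit 180) (nat_lit 1) (nat_lit 182) (nat_lit 1) (nat_lit 424) (nat_lit 335) (nat_lit 261)) (XT.lf (nat_lit 152) (nat_lit 491474941) (nat_lit 0) (nat_lit 130017653) (nat_lit 76) (nat_lit 130017653) (nat_lit 181) (nat_lit 1) (nat_lit 179)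 (nat_lit 1) (nat_lit 180) (nat_lit 1) (nat_lit 425) (nat_lit 335) (nat_lit 260)))) (XT.nd (nat_lit 78) (nat_lit 228) (nat_lit 0) (XT.lf (nat_lit 0) (nat_lit 124503742) (nat_lit 0) (nat_lit 490086259) (nat_lit 152) (nat_lit 124503742) (nat_lit 179) (nat_lit 3) (nat_lit 179) (nat_lit 1) (nat_lit 181) (nat_lit 1) (nat_lit 426) (nat_lit 335) (nat_lit 259)) (XT.nd (nat_lit 78) (nat_lit 152) (nat_lit 0) (XT.lf (nat_lit 76) (nat_lit 10181480) (nat_lit 0) (nat_lit 358355305) (nat_lit 76) (nat_lit 358355305) (nat_lit 179) (nat_lit 3) (nat_lit 178) (nat_lit 1) (nat_lit 179) (nat_lit 1) (nat_lit 427) (nat_lit 335) (nat_lit 258)) (XT.lf (nat_lit 152) (nat_lit 500989474) (nat_lit 0) (nat_lit 106965845) (nat_lit 76) (nat_lit 106965845) (nat_lit 178) (nat_lit 1) (nat_lit 176) (nat_lit 1) (nat_lit 177) (nat_lit 1) (nat_lit 428) (nat_lit 335) (nat_lit 257))))) (XT.nd (nat_lit 234) (nat_lit 228) (nat_lit 0) (XT.nd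 (nat_lit 78) (nat_lit 228) (nat_lit 0) (XT.lf (nat_lit 0) (nat_lit 134118659) (nat_lit 0) (nat_lit 434884301) (nat_lit 152) (nat_lit 134118659) (nat_lit 176) (nat_lit 3) (nat_lit 176) (nat_lit 1) (nat_lit 178) (nat_lit 1) (nat_lit 429) (nat_lit 335) (nat_lit 256)) (XT.nd (nat_lit 78) (nat_lit 152) (nat_lit 0) (XT.lf (nat_lit 76) (nat_lit 39554336) (nat_lit 0) (nat_lit 325997804) (nat_lit 76) (nat_lit 325997804) (nat_lit 176) (nat_lit 3) (nat_lit 175) (nat_lit 1) (nat_lit 176) (nat_lit 1) (nat_lit 430) (nat_lit 335) (nat_lit 255)) (XT.lf (nat_lit 152) (nat_lit 504214637) (nat_lit 0) (nat_lit 88001065) (nat_lit 76) (nat_lit 88001065) (nat_lit 175) (nat_lit 1) (nat_lit 173) (nat_lit 1) (nat_lit 174) (nat_lit 1) (nat_lit 431) (nat_lit 335) (nat_lit 254)))) (XT.nd (nat_lit 78) (nat_lit 228) (nat_lit 0) (XT.lf (nat_lit 0) (nat_lit 140519870) (nat_lit 0) (nat_lit 387960507) (nat_lit 152) (nat_lit 140519870)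 (nat_lit 173) (nat_lit 3) (nat_lit 173) (nat_lit 1) (nat_lit 175) (nat_lit 1) (nat_lit 432) (nat_lit 335) (nat_lit 253)) (XT.nd (nat_lit 78) (nat_lit 152) (nat_lit 0) (XT.lf (nat_lit 76) (nat_lit 62234791) (nat_lit 0) (nat_lit 297892541) (nat_lit 76) (nat_lit 297892541) (nat_lit 173) (nat_lit 3) (nat_lit 172) (nat_lit 1) (nat_lit 173) (nat_lit 1) (nat_lit 433) (nat_lit 335) (nat_lit 252)) (XT.lf (nat_lit 152) (nat_lit 502484683) (nat_lit 0) (nat_lit 72398694) (nat_lit 76) (nat_lit 72398694) (nat_lit 172) (nat_lit 1) (nat_lit 170) (nat_lit 1) (nat_lit 171) (nat_lit 1) (nat_lit 434) (nat_lit 335) (nat_lit 251)))))) (XT.nd (nat_lit 468) (nat_lit 456) (nat_lit 0) (XT.nd (nat_lit 234) (nat_lit 228) (nat_lit 0) (XT.nd (nat_lit 78) (nat_lit 228) (nat_lit 0) (XT.lf (nat_lit 0) (nat_lit 144349013) (nat_lit 0) (nat_lit 347919038) (nat_lit 152) (nat_lit 144349013) (nat_lit 170) (nat_lit 3) (nat_lit 170) (nat_lit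 1) (nat_lit 172) (nat_lit 1) (nat_lit 435) (nat_lit 335) (nat_lit 250)) (XT.nd (nat_lit 78) (nat_lit 152) (nat_lit 0) (XT.lf (nat_lit 76) (nat_lit 79480089) (nat_lit 0) (nat_lit 273356303) (nat_lit 76) (nat_lit 273356303) (nat_lit 170) (nat_lit 3) (nat_lit 169) (nat_lit 1) (nat_lit 170) (nat_lit 1) (nat_lit 436) (nat_lit 335) (nat_lit 249)) (XT.lf (nat_lit 152) (nat_lit 496886872) (nat_lit 0) (nat_lit 59562585) (nat_lit 76) (nat_lit 59562585) (nat_lit 169) (nat_lit 1) (nat_lit 167) (nat_lit 1) (nat_lit 168) (nat_lit 1) (nat_lit 437) (nat_lit 335) (nat_lit 248)))) (XT.nd (nat_lit 78) (nat_lit 228) (nat_lit 0) (XT.lf (nat_lit 0) (nat_lit 146130546) (nat_lit 0) (nat_lit 313608109) (nat_lit 152) (nat_lit 146130546) (nat_lit 167) (nat_lit 3) (nat_lit 167) (nat_lit 1) (nat_lit 169) (nat_lit 1) (nat_lit 438) (nat_lit 335) (nat_lit 247)) (XT.nd (nat_lit 78) (nat_lit 152) (nat_lit 0) (XT.lf (nat_lit 76)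 (nat_lit 92321201) (nat_lit 0) (nat_lit 251823642) (nat_lit 76) (nat_lit 251823642) (nat_lit 167) (nat_lit 3) (nat_lit 166) (nat_lit 1) (nat_lit 167) (nat_lit 1) (nat_lit 439) (nat_lit 335) (nat_lit 246)) (XT.lf (nat_lit 152) (nat_lit 488305754) (nat_lit 0) (nat_lit 49002286) (nat_lit 76) (nat_lit 49002286) (nat_lit 166) (nat_lit 1) (nat_lit 164) (nat_lit 1) (nat_lit 165) (nat_lit 1) (nat_lit 440) (nat_lit 335) (nat_lit 245))))) (XT.nd (nat_lit 234) (nat_lit 228) (nat_lit 0) (XT.nd (nat_lit 78) (nat_lit 228) (nat_lit 0) (XT.lf (nat_lit 0) (nat_lit 146292681) (nat_lit 0) (nat_lit 284076887) (nat_lit 152) (nat_lit 146292681) (nat_lit 164) (nat_lit 3) (nat_lit 164) (nat_lit 1) (nat_lit 166) (nat_lit 1) (nat_lit 441) (nat_lit 335) (nat_lit 244)) (XT.nd (nat_lit 78) (nat_lit 152) (nat_lit 0) (XT.lf (nat_lit 76) (nat_lit 101603105) (nat_lit 0) (nat_lit 232826158) (nat_lit 76) (nat_lit 232826158) (nat_lit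 164) (nat_lit 3) (nat_lit 163) (nat_lit 1) (nat_lit 164) (nat_lit 1) (nat_lit 442) (nat_lit 335) (nat_lit 243)) (XT.lf (nat_lit 152) (nat_lit 477459586) (nat_lit 0) (nat_lit 40314302) (nat_lit 76) (nat_lit 40314302) (nat_lit 163) (nat_lit 1) (nat_lit 161) (nat_lit 1) (nat_lit 162) (nat_lit 1) (nat_lit 443) (nat_lit 335) (nat_lit 242)))) (XT.nd (nat_lit 156) (nat_lit 152) (nat_lit 0) (XT.nd (nat_lit 78) (nat_lit 76) (nat_lit 0) (XT.lf (nat_lit 0) (nat_lit 145184608) (nat_lit 0) (nat_lit 258540015) (nat_lit 152) (nat_lit 145184608) (nat_lit 161) (nat_lit 3) (nat_lit 161) (nat_lit 1) (nat_lit 163) (nat_lit 1) (nat_lit 444) (nat_lit 335) (nat_lit 241)) (XT.lf (nat_lit 76) (nat_lit 108017911) (nat_lit 0) (nat_lit 215975441) (nat_lit 76) (nat_lit 215975441) (nat_lit 161) (nat_lit 3) (nat_lit 160) (nat_lit 1) (nat_lit 161) (nat_lit 1) (nat_lit 445) (nat_lit 335) (nat_lit 240))) (XT.nd (nat_lit 78) (nat_lit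 0) (nat_lit 0) (XT.lf (nat_lit 152) (nat_lit 464930262) (nat_lit 0) (nat_lit 33166676) (nat_lit 76) (nat_lit 33166676) (nat_lit 160) (nat_lit 1) (nat_lit 158) (nat_lit 1) (nat_lit 159) (nat_lit 1) (nat_lit 446) (nat_lit 335) (nat_lit 239)) (XT.lf (nat_lit 0) (nat_lit 143090647) (nat_lit 0) (nat_lit 236348421) (nat_lit 152) (nat_lit 143090647) (nat_lit 158) (nat_lit 3) (nat_lit 158) (nat_lit 1) (nat_lit 160) (nat_lit 1) (nat_lit 447) (nat_lit 335) (nat_lit 238))))))) (XT.nd (nat_lit 46020) (nat_lit 0) (nat_lit 7752) (XT.nd (nat_lit 45552) (nat_lit 0) (nat_lit 10488) (XT.nd (nat_lit 45318) (nat_lit 0) (nat_lit 10412) (XT.nd (nat_lit 78) (nat_lit 152) (nat_lit 0) (XT.lf (nat_lit 76) (nat_lit 112132112) (nat_lit 0) (nat_lit 200949039) (nat_lit 76) (nat_lit 200949039) (nat_lit 158) (nat_lit 3) (nat_lit 157) (nat_lit 1) (nat_lit 158) (nat_lit 1) (nat_lit 448) (nat_lit 335) (nat_lit 237)) (XT.nd (nat_lit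 78) (nat_lit 0) (nat_lit 0) (XT.lf (nat_lit 152) (nat_lit 451187924) (nat_lit 0) (nat_lit 27286306) (nat_lit 76) (nat_lit 27286306) (nat_lit 157) (nat_lit 1) (nat_lit 155) (nat_lit 1) (nat_lit 156) (nat_lit 1) (nat_lit 449) (nat_lit 335) (nat_lit 236)) (XT.lf (nat_lit 0) (nat_lit 140241897) (nat_lit 0) (nat_lit 216965299) (nat_lit 152) (nat_lit 140241897) (nat_lit 155) (nat_lit 3) (nat_lit 155) (nat_lit 1) (nat_lit 157) (nat_lit 1) (nat_lit 450) (nat_lit 335) (nat_lit 235)))) (XT.nd (nat_lit 78) (nat_lit 0) (nat_lit 0) (XT.lf (nat_lit 836) (nat_lit 442071464) (nat_lit 0) (nat_lit 784896869) (nat_lit 836) (nat_lit 442071464) (nat_lit 303) (nat_lit 1) (nat_lit 292) (nat_lit 0) (nat_lit 303) (nat_lit 0) (nat_lit 348) (nat_lit 336) (nat_lit 336)) (XT.nd (nat_lit 78) (nat_lit 0) (nat_lit 76) (XT.lf (nat_lit 836) (nat_lit 1713524188) (nat_lit 76) (nat_lit 772237242) (nat_lit 0) (nat_lit 772237242) (nat_lit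 303) (nat_lit 1) (nat_lit 293) (nat_lit 1) (nat_lit 292) (nat_lit 0) (nat_lit 349) (nat_lit 336) (nat_lit 335)) (XT.lf (nat_lit 836) (nat_lit 816639827) (nat_lit 0) (nat_lit 1547113825) (nat_lit 760) (nat_lit 816639827) (nat_lit 304) (nat_lit 1) (nat_lit 293) (nat_lit 1) (nat_lit 303) (nat_lit 1) (nat_lit 350) (nat_lit 336) (nat_lit 334))))) (XT.nd (nat_lit 234) (nat_lit 0) (nat_lit 152) (XT.nd (nat_lit 78) (nat_lit 0) (nat_lit 76) (XT.lf (nat_lit 836) (nat_lit 1531902841) (nat_lit 76) (nat_lit 786696335) (nat_lit 0) (nat_lit 786696335) (nat_lit 304) (nat_lit 1) (nat_lit 294) (nat_lit 1) (nat_lit 293) (nat_lit 1) (nat_lit 351) (nat_lit 336) (nat_lit 333)) (XT.nd (nat_lit 78) (nat_lit 0) (nat_lit 0) (XT.lf (nat_lit 836) (nat_lit 705120167) (nat_lit 0) (nat_lit 1622337440) (nat_lit 760) (nat_lit 705120167) (nat_lit 305) (nat_lit 1) (nat_lit 294) (nat_lit 1) (nat_lit 304) (nat_lit 1) (nat_lit 352)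 (nat_lit 336) (nat_lit 332)) (XT.lf (nat_lit 836) (nat_lit 1268204546) (nat_lit 76) (nat_lit 846936102) (nat_lit 0) (nat_lit 846936102) (nat_lit 305) (nat_lit 1) (nat_lit 295) (nat_lit 1) (nat_lit 294) (nat_lit 1) (nat_lit 353) (nat_lit 336) (nat_lit 331)))) (XT.nd (nat_lit 78) (nat_lit 0) (nat_lit 0) (XT.lf (nat_lit 836) (nat_lit 556071064) (nat_lit 0) (nat_lit 1781800777) (nat_lit 760) (nat_lit 556071064) (nat_lit 306) (nat_lit 1) (nat_lit 295) (nat_lit 1) (nat_lit 305) (nat_lit 1) (nat_lit 354) (nat_lit 336) (nat_lit 330)) (XT.nd (nat_lit 78) (nat_lit 0) (nat_lit 76) (XT.lf (nat_lit 836) (nat_lit 934772533) (nat_lit 76) (nat_lit 946456243) (nat_lit 0) (nat_lit 946456243) (nat_lit 306) (nat_lit 1) (nat_lit 296) (nat_lit 1) (nat_lit 295) (nat_lit 1) (nat_lit 355) (nat_lit 336) (nat_lit 329)) (XT.lf (nat_lit 836) (nat_lit 375262484) (nat_lit 0) (nat_lit 2013327583) (nat_lit 760) (nat_lit 375262484)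 (nat_lit 307) (nat_lit 1) (nat_lit 296) (nat_lit 1) (nat_lit 306) (nat_lit 1) (nat_lit 356) (nat_lit 336) (nat_lit 328)))))) (XT.nd (nat_lit 468) (nat_lit 1368) (nat_lit 0) (XT.nd (nat_lit 234) (nat_lit 912) (nat_lit 0) (XT.nd (nat_lit 78) (nat_lit 684) (nat_lit 0) (XT.lf (nat_lit 836) (nat_lit 542578072) (nat_lit 76) (nat_lit 1079467658) (nat_lit 0) (nat_lit 1079467658) (nat_lit 307) (nat_lit 1) (nat_lit 297) (nat_lit 1) (nat_lit 296) (nat_lit 1) (nat_lit 357) (nat_lit 336) (nat_lit 327)) (XT.nd (nat_lit 78) (nat_lit 760) (nat_lit 0) (XT.lf (nat_lit 76) (nat_lit 167819343) (nat_lit 0) (nat_lit 2306080514) (nat_lit 760) (nat_lit 167819343) (nat_lit 298) (nat_lit 1) (nat_lit 297) (nat_lit 1) (nat_lit 307) (nat_lit 1) (nat_lit 358) (nat_lit 336) (nat_lit 326)) (XT.lf (nat_lit 836) (nat_lit 101358709) (nat_lit 0) (nat_lit 1240821230) (nat_lit 760) (nat_lit 1240821230) (nat_lit 298) (nat_lit 1) (nat_lit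 287) (nat_lit 1) (nat_lit 297) (nat_lit 1) (nat_lit 359) (nat_lit 336) (nat_lit 325)))) (XT.nd (nat_lit 78) (nat_lit 380) (nat_lit 0) (XT.lf (nat_lit 532) (nat_lit 2405369835) (nat_lit 0) (nat_lit 60717971) (nat_lit 456) (nat_lit 60717971) (nat_lit 287) (nat_lit 1) (nat_lit 280) (nat_lit 1) (nat_lit 286) (nat_lit 1) (nat_lit 360) (nat_lit 336) (nat_lit 324)) (XT.nd (nat_lit 78) (nat_lit 380) (nat_lit 0) (XT.lf (nat_lit 76) (nat_lit 1051623505) (nat_lit 0) (nat_lit 368086258) (nat_lit 532) (nat_lit 1051623505) (nat_lit 281) (nat_lit 1) (nat_lit 280) (nat_lit 1) (nat_lit 287) (nat_lit 1) (nat_lit 361) (nat_lit 336) (nat_lit 323)) (XT.lf (nat_lit 456) (nat_lit 1809574113) (nat_lit 0) (nat_lit 304322744) (nat_lit 380) (nat_lit 304322744) (nat_lit 281) (nat_lit 1) (nat_lit 275) (nat_lit 1) (nat_lit 280) (nat_lit 1) (nat_lit 362) (nat_lit 336) (nat_lit 322))))) (XT.nd (nat_lit 234) (nat_lit 988) (nat_lit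 0) (XT.nd (nat_lit 78) (nat_lit 380) (nat_lit 0) (XT.lf (nat_lit 76) (nat_lit 750110244) (nat_lit 0) (nat_lit 866002041) (nat_lit 456) (nat_lit 750110244) (nat_lit 276) (nat_lit 1) (nat_lit 275) (nat_lit 1) (nat_lit 281) (nat_lit 1) (nat_lit 363) (nat_lit 336) (nat_lit 321)) (XT.nd (nat_lit 78) (nat_lit 0) (nat_lit 0) (XT.lf (nat_lit 456) (nat_lit 1191630215) (nat_lit 0) (nat_lit 562203081) (nat_lit 380) (nat_lit 562203081) (nat_lit 276) (nat_lit 1) (nat_lit 270) (nat_lit 1) (nat_lit 275) (nat_lit 1) (nat_lit 364) (nat_lit 336) (nat_lit 320)) (XT.lf (nat_lit 76) (nat_lit 439099897) (nat_lit 0) (nat_lit 1389110012) (nat_lit 456) (nat_lit 439099897) (nat_lit 271) (nat_lit 1) (nat_lit 270) (nat_lit 1) (nat_lit 276) (nat_lit 1) (nat_lit 365) (nat_lit 336) (nat_lit 319)))) (XT.nd (nat_lit 156) (nat_lit 684) (nat_lit 0) (XT.nd (nat_lit 78) (nat_lit 0) (nat_lit 0) (XT.lf (nat_lit 380) (nat_lit 557289632)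 (nat_lit 0) (nat_lit 831273506) (nat_lit 304) (nat_lit 831273506) (nat_lit 271) (nat_lit 1) (nat_lit 266) (nat_lit 1) (nat_lit 270) (nat_lit 1) (nat_lit 366) (nat_lit 336) (nat_lit 318)) (XT.lf (nat_lit 76) (nat_lit 121262505) (nat_lit 0) (nat_lit 1931664057) (nat_lit 380) (nat_lit 121262505) (nat_lit 267) (nat_lit 1) (nat_lit 266) (nat_lit 1) (nat_lit 271) (nat_lit 1) (nat_lit 367) (nat_lit 336) (nat_lit 317))) (XT.nd (nat_lit 78) (nat_lit 304) (nat_lit 0) (XT.lf (nat_lit 76) (nat_lit 1021792716) (nat_lit 0) (nat_lit 85577124) (nat_lit 380) (nat_lit 1021792716) (nat_lit 262) (nat_lit 1) (nat_lit 261) (nat_lit 1) (nat_lit 266) (nat_lit 1) (nat_lit 368) (nat_lit 336) (nat_lit 316)) (XT.lf (nat_lit 380) (nat_lit 1690206291) (nat_lit 0) (nat_lit 197822237) (nat_lit 304) (nat_lit 197822237) (nat_lit 262) (nat_lit 1) (nat_lit 257) (nat_lit 1) (nat_lit 261) (nat_lit 1) (nat_lit 369) (nat_lit 336) (nat_lit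 315))))))))
noncomputable def ec47 : XT := (XT.nd (nat_lit 1950) (nat_lit 2280) (nat_lit 0) (XT.nd (nat_lit 936) (nat_lit 1520) (nat_lit 0) (XT.nd (nat_lit 468) (nat_lit 988) (nat_lit 0) (XT.nd (nat_lit 234) (nat_lit 608) (nat_lit 0) (XT.nd (nat_lit 78) (nat_lit 304) (nat_lit 0) (XT.lf (nat_lit 76) (nat_lit 662973214) (nat_lit 0) (nat_lit 717335571) (nat_lit 380) (nat_lit 662973214) (nat_lit 258) (nat_lit 1) (nat_lit 257) (nat_lit 1) (nat_lit 262) (nat_lit 1) (nat_lit 370) (nat_lit 336) (nat_lit 314)) (XT.nd (nat_lit 78) (nat_lit 0) (nat_lit 0) (XT.lf (nat_lit 380) (nat_lit 967462344) (nat_lit 0) (nat_lit 517363511) (nat_lit 304) (nat_lit 517363511) (nat_lit 258) (nat_lit 1) (nat_lit 253) (nat_lit 1) (nat_lit 257) (nat_lit 1) (nat_lit 371) (nat_lit 336) (nat_lit 313)) (XT.lf (nat_lit 76) (nat_lit 305094446) (nat_lit 0) (nat_lit 1352109395) (nat_lit 380) (nat_lit 305094446) (nat_lit 254) (nat_lit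 1) (nat_lit 253) (nat_lit 1) (nat_lit 258) (nat_lit 1) (nat_lit 372) (nat_lit 336) (nat_lit 312)))) (XT.nd (nat_lit 78) (nat_lit 380) (nat_lit 0) (XT.lf (nat_lit 304) (nat_lit 248120246) (nat_lit 0) (nat_lit 837574025) (nat_lit 228) (nat_lit 837574025) (nat_lit 254) (nat_lit 1) (nat_lit 250) (nat_lit 1) (nat_lit 253) (nat_lit 1) (nat_lit 373) (nat_lit 336) (nat_lit 311)) (XT.nd (nat_lit 78) (nat_lit 0) (nat_lit 0) (XT.lf (nat_lit 380) (nat_lit 1786595329) (nat_lit 0) (nat_lit 49574592) (nat_lit 304) (nat_lit 49574592) (nat_lit 250) (nat_lit 1) (nat_lit 245) (nat_lit 1) (nat_lit 249) (nat_lit 1) (nat_lit 374) (nat_lit 336) (nat_lit 310)) (XT.lf (nat_lit 76) (nat_lit 699107960) (nat_lit 0) (nat_lit 450212500) (nat_lit 380) (nat_lit 699107960) (nat_lit 246) (nat_lit 1) (nat_lit 245) (nat_lit 1) (nat_lit 250) (nat_lit 1) (nat_lit 375) (nat_lit 336) (nat_lit 309))))) (XT.nd (nat_lit 234) (nat_lit 532)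 (nat_lit 0) (XT.nd (nat_lit 78) (nat_lit 228) (nat_lit 0) (XT.lf (nat_lit 304) (nat_lit 1021069277) (nat_lit 0) (nat_lit 395737110) (nat_lit 228) (nat_lit 395737110) (nat_lit 246) (nat_lit 1) (nat_lit 242) (nat_lit 1) (nat_lit 245) (nat_lit 1) (nat_lit 376) (nat_lit 336) (nat_lit 308)) (XT.nd (nat_lit 78) (nat_lit 228) (nat_lit 0) (XT.lf (nat_lit 76) (nat_lit 322571579) (nat_lit 0) (nat_lit 1132427137) (nat_lit 304) (nat_lit 322571579) (nat_lit 243) (nat_lit 1) (nat_lit 242) (nat_lit 1) (nat_lit 246) (nat_lit 1) (nat_lit 377) (nat_lit 336) (nat_lit 307)) (XT.lf (nat_lit 304) (nat_lit 268853328) (nat_lit 0) (nat_lit 737269697) (nat_lit 228) (nat_lit 737269697) (nat_lit 243) (nat_lit 1) (nat_lit 239) (nat_lit 1) (nat_lit 242) (nat_lit 1) (nat_lit 378) (nat_lit 336) (nat_lit 306)))) (XT.nd (nat_lit 78) (nat_lit 228) (nat_lit 0) (XT.lf (nat_lit 304) (nat_lit 1618074448) (nat_lit 0) (nat_lit 46205221)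 (nat_lit 228) (nat_lit 46205221) (nat_lit 239) (nat_lit 1) (nat_lit 235) (nat_lit 1) (nat_lit 238) (nat_lit 1) (nat_lit 379) (nat_lit 336) (nat_lit 305)) (XT.nd (nat_lit 78) (nat_lit 228) (nat_lit 0) (XT.lf (nat_lit 76) (nat_lit 612071224) (nat_lit 0) (nat_lit 453538631) (nat_lit 304) (nat_lit 612071224) (nat_lit 236) (nat_lit 1) (nat_lit 235) (nat_lit 1) (nat_lit 239) (nat_lit 1) (nat_lit 380) (nat_lit 336) (nat_lit 304)) (XT.lf (nat_lit 304) (nat_lit 841653979) (nat_lit 0) (nat_lit 402218519) (nat_lit 228) (nat_lit 402218519) (nat_lit 236) (nat_lit 1) (nat_lit 232) (nat_lit 1) (nat_lit 235) (nat_lit 1) (nat_lit 381) (nat_lit 336) (nat_lit 303)))))) (XT.nd (nat_lit 468) (nat_lit 912) (nat_lit 0) (XT.nd (nat_lit 234) (nat_lit 152) (nat_lit 0) (XT.nd (nat_lit 78) (nat_lit 456) (nat_lit 0) (XT.lf (nat_lit 76) (nat_lit 231790819) (nat_lit 0) (nat_lit 1151766575) (nat_lit 304) (nat_lit 231790819) (nat_lit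 233) (nat_lit 1) (nat_lit 232) (nat_lit 1) (nat_lit 236) (nat_lit 1) (nat_lit 382) (nat_lit 336) (nat_lit 302)) (XT.nd (nat_lit 78) (nat_lit 304) (nat_lit 0) (XT.lf (nat_lit 228) (nat_lit 84935863) (nat_lit 0) (nat_lit 750124438) (nat_lit 152) (nat_lit 750124438) (nat_lit 233) (nat_lit 1) (nat_lit 230) (nat_lit 1) (nat_lit 232) (nat_lit 1) (nat_lit 383) (nat_lit 336) (nat_lit 301)) (XT.lf (nat_lit 304) (nat_lit 1283352411) (nat_lit 0) (nat_lit 136301328) (nat_lit 228) (nat_lit 136301328) (nat_lit 230) (nat_lit 1) (nat_lit 226) (nat_lit 1) (nat_lit 229) (nat_lit 1) (nat_lit 384) (nat_lit 336) (nat_lit 300)))) (XT.nd (nat_lit 78) (nat_lit 152) (nat_lit 0) (XT.lf (nat_lit 76) (nat_lit 448244534) (nat_lit 0) (nat_lit 630563233) (nat_lit 304) (nat_lit 448244534) (nat_lit 227) (nat_lit 1) (nat_lit 226) (nat_lit 1) (nat_lit 230) (nat_lit 1) (nat_lit 385) (nat_lit 336) (nat_lit 299)) (XT.nd (nat_lit 78)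 (nat_lit 0) (nat_lit 0) (XT.lf (nat_lit 228) (nat_lit 517877414) (nat_lit 0) (nat_lit 490582069) (nat_lit 152) (nat_lit 490582069) (nat_lit 227) (nat_lit 1) (nat_lit 224) (nat_lit 1) (nat_lit 226) (nat_lit 1) (nat_lit 386) (nat_lit 336) (nat_lit 298)) (XT.lf (nat_lit 76) (nat_lit 74402546) (nat_lit 0) (nat_lit 1323155282) (nat_lit 228) (nat_lit 74402546) (nat_lit 225) (nat_lit 1) (nat_lit 224) (nat_lit 1) (nat_lit 227) (nat_lit 1) (nat_lit 387) (nat_lit 336) (nat_lit 297))))) (XT.nd (nat_lit 234) (nat_lit 532) (nat_lit 0) (XT.nd (nat_lit 78) (nat_lit 152) (nat_lit 0) (XT.lf (nat_lit 76) (nat_lit 614057271) (nat_lit 0) (nat_lit 216863096) (nat_lit 228) (nat_lit 614057271) (nat_lit 222) (nat_lit 1) (nat_lit 221) (nat_lit 1) (nat_lit 224) (nat_lit 1) (nat_lit 388) (nat_lit 336) (nat_lit 296)) (XT.nd (nat_lit 78) (nat_lit 0) (nat_lit 0) (XT.lf (nat_lit 228) (nat_lit 852726144) (nat_lit 0) (nat_lit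 283081976) (nat_lit 152) (nat_lit 283081976) (nat_lit 222) (nat_lit 1) (nat_lit 219) (nat_lit 1) (nat_lit 221) (nat_lit 1) (nat_lit 389) (nat_lit 336) (nat_lit 295)) (XT.lf (nat_lit 76) (nat_lit 240617133) (nat_lit 0) (nat_lit 912144879) (nat_lit 228) (nat_lit 240617133) (nat_lit 220) (nat_lit 1) (nat_lit 219) (nat_lit 1) (nat_lit 222) (nat_lit 1) (nat_lit 390) (nat_lit 336) (nat_lit 294)))) (XT.nd (nat_lit 156) (nat_lit 152) (nat_lit 0) (XT.nd (nat_lit 78) (nat_lit 228) (nat_lit 0) (XT.lf (nat_lit 228) (nat_lit 112720463) (nat_lit 0) (nat_lit 627830983) (nat_lit 152) (nat_lit 627830983) (nat_lit 220) (nat_lit 1) (nat_lit 217) (nat_lit 1) (nat_lit 219) (nat_lit 1) (nat_lit 391) (nat_lit 336) (nat_lit 293)) (XT.lf (nat_lit 228) (nat_lit 1107889542) (nat_lit 0) (nat_lit 118110236) (nat_lit 152) (nat_lit 118110236) (nat_lit 217) (nat_lit 1) (nat_lit 214) (nat_lit 1) (nat_lit 216) (nat_lit 1) (nat_lit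 392) (nat_lit 336) (nat_lit 292))) (XT.nd (nat_lit 78) (nat_lit 152) (nat_lit 0) (XT.lf (nat_lit 76) (nat_lit 368819143) (nat_lit 0) (nat_lit 582406473) (nat_lit 228) (nat_lit 368819143) (nat_lit 215) (nat_lit 1) (nat_lit 214) (nat_lit 1) (nat_lit 217) (nat_lit 1) (nat_lit 393) (nat_lit 336) (nat_lit 291)) (XT.lf (nat_lit 228) (nat_lit 375624391) (nat_lit 0) (nat_lit 460526881) (nat_lit 152) (nat_lit 460526881) (nat_lit 215) (nat_lit 1) (nat_lit 212) (nat_lit 1) (nat_lit 214) (nat_lit 1) (nat_lit 394) (nat_lit 336) (nat_lit 290))))))) (XT.nd (nat_lit 1014) (nat_lit 1064) (nat_lit 0) (XT.nd (nat_lit 468) (nat_lit 608) (nat_lit 0) (XT.nd (nat_lit 234) (nat_lit 304) (nat_lit 0) (XT.nd (nat_lit 78) (nat_lit 304) (nat_lit 0) (XT.lf (nat_lit 76) (nat_lit 12345737) (nat_lit 0) (nat_lit 1249439539) (nat_lit 228) (nat_lit 12345737) (nat_lit 213) (nat_lit 1) (nat_lit 212) (nat_lit 1) (nat_lit 215) (nat_lit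 1) (nat_lit 395) (nat_lit 336) (nat_lit 289)) (XT.nd (nat_lit 78) (nat_lit 152) (nat_lit 0) (XT.lf (nat_lit 76) (nat_lit 466154929) (nat_lit 0) (nat_lit 319130697) (nat_lit 152) (nat_lit 466154929) (nat_lit 211) (nat_lit 1) (nat_lit 210) (nat_lit 1) (nat_lit 212) (nat_lit 1) (nat_lit 396) (nat_lit 336) (nat_lit 288)) (XT.lf (nat_lit 228) (nat_lit 578445198) (nat_lit 0) (nat_lit 325551631) (nat_lit 152) (nat_lit 325551631) (nat_lit 211) (nat_lit 1) (nat_lit 208) (nat_lit 1) (nat_lit 210) (nat_lit 1) (nat_lit 397) (nat_lit 336) (nat_lit 287)))) (XT.nd (nat_lit 78) (nat_lit 304) (nat_lit 0) (XT.lf (nat_lit 76) (nat_lit 115974264) (nat_lit 0) (nat_lit 976298759) (nat_lit 228) (nat_lit 115974264) (nat_lit 209) (nat_lit 1) (nat_lit 208) (nat_lit 1) (nat_lit 211) (nat_lit 1) (nat_lit 398) (nat_lit 336) (nat_lit 286)) (XT.nd (nat_lit 78) (nat_lit 152) (nat_lit 0) (XT.lf (nat_lit 76) (nat_lit 538484439)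 (nat_lit 0) (nat_lit 110152900) (nat_lit 152) (nat_lit 538484439) (nat_lit 207) (nat_lit 1) (nat_lit 206) (nat_lit 1) (nat_lit 208) (nat_lit 1) (nat_lit 399) (nat_lit 336) (nat_lit 285)) (XT.lf (nat_lit 228) (nat_lit 732476946) (nat_lit 0) (nat_lit 217046443) (nat_lit 152) (nat_lit 217046443) (nat_lit 207) (nat_lit 1) (nat_lit 204) (nat_lit 1) (nat_lit 206) (nat_lit 1) (nat_lit 400) (nat_lit 336) (nat_lit 284))))) (XT.nd (nat_lit 234) (nat_lit 304) (nat_lit 0) (XT.nd (nat_lit 78) (nat_lit 304) (nat_lit 0) (XT.lf (nat_lit 76) (nat_lit 196190786) (nat_lit 0) (nat_lit 754043175) (nat_lit 228) (nat_lit 196190786) (nat_lit 205) (nat_lit 1) (nat_lit 204) (nat_lit 1) (nat_lit 207) (nat_lit 1) (nat_lit 401) (nat_lit 336) (nat_lit 283)) (XT.nd (nat_lit 78) (nat_lit 228) (nat_lit 0) (XT.lf (nat_lit 152) (nat_lit 56319230) (nat_lit 0) (nat_lit 535170290) (nat_lit 76) (nat_lit 535170290) (nat_lit 205) (nat_lit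 1) (nat_lit 203) (nat_lit 1) (nat_lit 204) (nat_lit 1) (nat_lit 402) (nat_lit 336) (nat_lit 282)) (XT.lf (nat_lit 228) (nat_lit 846980739) (nat_lit 0) (nat_lit 130197322) (nat_lit 152) (nat_lit 130197322) (nat_lit 203) (nat_lit 1) (nat_lit 200) (nat_lit 1) (nat_lit 202) (nat_lit 1) (nat_lit 403) (nat_lit 336) (nat_lit 281)))) (XT.nd (nat_lit 156) (nat_lit 228) (nat_lit 0) (XT.nd (nat_lit 78) (nat_lit 76) (nat_lit 0) (XT.lf (nat_lit 76) (nat_lit 257386142) (nat_lit 0) (nat_lit 573533919) (nat_lit 228) (nat_lit 257386142) (nat_lit 201) (nat_lit 1) (nat_lit 200) (nat_lit 1) (nat_lit 203) (nat_lit 1) (nat_lit 404) (nat_lit 336) (nat_lit 280)) (XT.lf (nat_lit 152) (nat_lit 189132734) (nat_lit 0) (nat_lit 440285922) (nat_lit 76) (nat_lit 440285922) (nat_lit 201) (nat_lit 1) (nat_lit 199) (nat_lit 1) (nat_lit 200) (nat_lit 1) (nat_lit 405) (nat_lit 336) (nat_lit 279))) (XT.nd (nat_lit 78) (nat_lit 0)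 (nat_lit 0) (XT.lf (nat_lit 228) (nat_lit 929546620) (nat_lit 0) (nat_lit 61049542) (nat_lit 152) (nat_lit 61049542) (nat_lit 199) (nat_lit 1) (nat_lit 196) (nat_lit 1) (nat_lit 198) (nat_lit 1) (nat_lit 406) (nat_lit 336) (nat_lit 278)) (XT.lf (nat_lit 76) (nat_lit 303161261) (nat_lit 0) (nat_lit 427257997) (nat_lit 228) (nat_lit 303161261) (nat_lit 197) (nat_lit 1) (nat_lit 196) (nat_lit 1) (nat_lit 199) (nat_lit 1) (nat_lit 407) (nat_lit 336) (nat_lit 277)))))) (XT.nd (nat_lit 468) (nat_lit 532) (nat_lit 0) (XT.nd (nat_lit 234) (nat_lit 228) (nat_lit 0) (XT.nd (nat_lit 78) (nat_lit 228) (nat_lit 0) (XT.lf (nat_lit 152) (nat_lit 291598791) (nat_lit 0) (nat_lit 362224318) (nat_lit 76) (nat_lit 362224318) (nat_lit 197) (nat_lit 1) (nat_lit 195) (nat_lit 1) (nat_lit 196) (nat_lit 1) (nat_lit 408) (nat_lit 336) (nat_lit 276)) (XT.nd (nat_lit 78) (nat_lit 0) (nat_lit 0) (XT.lf (nat_lit 228) (nat_lit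 986391228) (nat_lit 0) (nat_lit 6355021) (nat_lit 152) (nat_lit 6355021) (nat_lit 195) (nat_lit 1) (nat_lit 192) (nat_lit 1) (nat_lit 194) (nat_lit 1) (nat_lit 409) (nat_lit 336) (nat_lit 275)) (XT.lf (nat_lit 76) (nat_lit 336467753) (nat_lit 0) (nat_lit 309039756) (nat_lit 228) (nat_lit 336467753) (nat_lit 193) (nat_lit 1) (nat_lit 192) (nat_lit 1) (nat_lit 195) (nat_lit 1) (nat_lit 410) (nat_lit 336) (nat_lit 274)))) (XT.nd (nat_lit 78) (nat_lit 152) (nat_lit 0) (XT.lf (nat_lit 152) (nat_lit 369421735) (nat_lit 0) (nat_lit 298002843) (nat_lit 76) (nat_lit 298002843) (nat_lit 193) (nat_lit 1) (nat_lit 191) (nat_lit 1) (nat_lit 192) (nat_lit 1) (nat_lit 411) (nat_lit 336) (nat_lit 273)) (XT.nd (nat_lit 78) (nat_lit 152) (nat_lit 0) (XT.lf (nat_lit 0) (nat_lit 37152453) (nat_lit 0) (nat_lit 875074279) (nat_lit 152) (nat_lit 37152453) (nat_lit 191) (nat_lit 3) (nat_lit 191) (nat_lit 1) (nat_lit 193)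 (nat_lit 1) (nat_lit 412) (nat_lit 336) (nat_lit 272)) (XT.lf (nat_lit 76) (nat_lit 359723551) (nat_lit 0) (nat_lit 213803529) (nat_lit 152) (nat_lit 359723551) (nat_lit 190) (nat_lit 1) (nat_lit 189) (nat_lit 1) (nat_lit 191) (nat_lit 1) (nat_lit 413) (nat_lit 336) (nat_lit 271))))) (XT.nd (nat_lit 234) (nat_lit 304) (nat_lit 0) (XT.nd (nat_lit 78) (nat_lit 152) (nat_lit 0) (XT.lf (nat_lit 152) (nat_lit 427279117) (nat_lit 0) (nat_lit 245167676) (nat_lit 76) (nat_lit 245167676) (nat_lit 190) (nat_lit 1) (nat_lit 188) (nat_lit 1) (nat_lit 189) (nat_lit 1) (nat_lit 414) (nat_lit 336) (nat_lit 270)) (XT.nd (nat_lit 78) (nat_lit 152) (nat_lit 0) (XT.lf (nat_lit 0) (nat_lit 71009658) (nat_lit 0) (nat_lit 760370018) (nat_lit 152) (nat_lit 71009658) (nat_lit 188) (nat_lit 3) (nat_lit 188) (nat_lit 1) (nat_lit 190) (nat_lit 1) (nat_lit 415) (nat_lit 336) (nat_lit 269)) (XT.lf (nat_lit 76) (nat_lit 374908025)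 (nat_lit 0) (nat_lit 137378366) (nat_lit 152) (nat_lit 374908025) (nat_lit 187) (nat_lit 1) (nat_lit 186) (nat_lit 1) (nat_lit 188) (nat_lit 1) (nat_lit 416) (nat_lit 336) (nat_lit 268)))) (XT.nd (nat_lit 156) (nat_lit 228) (nat_lit 0) (XT.nd (nat_lit 78) (nat_lit 0) (nat_lit 0) (XT.lf (nat_lit 152) (nat_lit 469004483) (nat_lit 0) (nat_lit 201700054) (nat_lit 76) (nat_lit 201700054) (nat_lit 187) (nat_lit 1) (nat_lit 185) (nat_lit 1) (nat_lit 186) (nat_lit 1) (nat_lit 417) (nat_lit 336) (nat_lit 267)) (XT.lf (nat_lit 0) (nat_lit 96938148) (nat_lit 0) (nat_lit 664076622) (nat_lit 152) (nat_lit 96938148) (nat_lit 185) (nat_lit 3) (nat_lit 185) (nat_lit 1) (nat_lit 187) (nat_lit 1) (nat_lit 418) (nat_lit 336) (nat_lit 266))) (XT.nd (nat_lit 78) (nat_lit 76) (nat_lit 0) (XT.lf (nat_lit 76) (nat_lit 383640208) (nat_lit 0) (nat_lit 76337401) (nat_lit 152) (nat_lit 383640208) (nat_lit 184) (nat_lit 1)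 (nat_lit 183) (nat_lit 1) (nat_lit 185) (nat_lit 1) (nat_lit 419) (nat_lit 336) (nat_lit 265)) (XT.lf (nat_lit 152) (nat_lit 497737717) (nat_lit 0) (nat_lit 165939133) (nat_lit 76) (nat_lit 165939133) (nat_lit 184) (nat_lit 1) (nat_lit 182) (nat_lit 1) (nat_lit 183) (nat_lit 1) (nat_lit 420) (nat_lit 336) (nat_lit 264))))))))
noncomputable def ec48 : XT := (XT.nd (nat_lit 1950) (nat_lit 456) (nat_lit 0) (XT.nd (nat_lit 936) (nat_lit 912) (nat_lit 0) (XT.nd (nat_lit 468) (nat_lit 456) (nat_lit 0) (XT.nd (nat_lit 234) (nat_lit 228) (nat_lit 0) (XT.nd (nat_lit 78) (nat_lit 228) (nat_lit 0) (XT.lf (nat_lit 0) (nat_lit 116435375) (nat_lit 0) (nat_lit 583021601) (nat_lit 152) (nat_lit 116435375) (nat_lit 182) (nat_lit 3) (nat_lit 182) (nat_lit 1) (nat_lit 184) (nat_lit 1) (nat_lit 421) (nat_lit 336) (nat_lit 263)) (XT.nd (nat_lit 78) (nat_lit 76) (nat_lit 0) (XT.lf (nat_lit 76) (nat_lit 387243127) (nat_lit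 0) (nat_lit 27865710) (nat_lit 152) (nat_lit 387243127) (nat_lit 181) (nat_lit 1) (nat_lit 180) (nat_lit 1) (nat_lit 182) (nat_lit 1) (nat_lit 422) (nat_lit 336) (nat_lit 262)) (XT.lf (nat_lit 152) (nat_lit 516048688) (nat_lit 0) (nat_lit 136518535) (nat_lit 76) (nat_lit 136518535) (nat_lit 181) (nat_lit 1) (nat_lit 179) (nat_lit 1) (nat_lit 180) (nat_lit 1) (nat_lit 423) (nat_lit 336) (nat_lit 261)))) (XT.nd (nat_lit 78) (nat_lit 228) (nat_lit 0) (XT.lf (nat_lit 0) (nat_lit 130728929) (nat_lit 0) (nat_lit 514590572) (nat_lit 152) (nat_lit 130728929) (nat_lit 179) (nat_lit 3) (nat_lit 179) (nat_lit 1) (nat_lit 181) (nat_lit 1) (nat_lit 424) (nat_lit 336) (nat_lit 260)) (XT.nd (nat_lit 78) (nat_lit 152) (nat_lit 0) (XT.lf (nat_lit 76) (nat_lit 10690554) (nat_lit 0) (nat_lit 376273071) (nat_lit 76) (nat_lit 376273071) (nat_lit 179) (nat_lit 3) (nat_lit 178) (nat_lit 1) (nat_lit 179) (nat_lit 1) (nat_lit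 425) (nat_lit 336) (nat_lit 259)) (XT.lf (nat_lit 152) (nat_lit 526038948) (nat_lit 0) (nat_lit 112314137) (nat_lit 76) (nat_lit 112314137) (nat_lit 178) (nat_lit 1) (nat_lit 176) (nat_lit 1) (nat_lit 177) (nat_lit 1) (nat_lit 426) (nat_lit 336) (nat_lit 258))))) (XT.nd (nat_lit 234) (nat_lit 228) (nat_lit 0) (XT.nd (nat_lit 78) (nat_lit 228) (nat_lit 0) (XT.lf (nat_lit 0) (nat_lit 140824592) (nat_lit 0) (nat_lit 456628516) (nat_lit 152) (nat_lit 140824592) (nat_lit 176) (nat_lit 3) (nat_lit 176) (nat_lit 1) (nat_lit 178) (nat_lit 1) (nat_lit 427) (nat_lit 336) (nat_lit 257)) (XT.nd (nat_lit 78) (nat_lit 152) (nat_lit 0) (XT.lf (nat_lit 76) (nat_lit 41532053) (nat_lit 0) (nat_lit 342297695) (nat_lit 76) (nat_lit 342297695) (nat_lit 176) (nat_lit 3) (nat_lit 175) (nat_lit 1) (nat_lit 176) (nat_lit 1) (nat_lit 428) (nat_lit 336) (nat_lit 256)) (XT.lf (nat_lit 152) (nat_lit 529425369) (nat_lit 0)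 (nat_lit 92401118) (nat_lit 76) (nat_lit 92401118) (nat_lit 175) (nat_lit 1) (nat_lit 173) (nat_lit 1) (nat_lit 174) (nat_lit 1) (nat_lit 429) (nat_lit 336) (nat_lit 255)))) (XT.nd (nat_lit 78) (nat_lit 228) (nat_lit 0) (XT.lf (nat_lit 0) (nat_lit 147545863) (nat_lit 0) (nat_lit 407358533) (nat_lit 152) (nat_lit 147545863) (nat_lit 173) (nat_lit 3) (nat_lit 173) (nat_lit 1) (nat_lit 175) (nat_lit 1) (nat_lit 430) (nat_lit 336) (nat_lit 254)) (XT.nd (nat_lit 78) (nat_lit 152) (nat_lit 0) (XT.lf (nat_lit 76) (nat_lit 65346531) (nat_lit 0) (nat_lit 312787168) (nat_lit 76) (nat_lit 312787168) (nat_lit 173) (nat_lit 3) (nat_lit 172) (nat_lit 1) (nat_lit 173) (nat_lit 1) (nat_lit 431) (nat_lit 336) (nat_lit 253)) (XT.lf (nat_lit 152) (nat_lit 527608918) (nat_lit 0) (nat_lit 76018629) (nat_lit 76) (nat_lit 76018629) (nat_lit 172) (nat_lit 1) (nat_lit 170) (nat_lit 1) (nat_lit 171) (nat_lit 1) (nat_lit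 432) (nat_lit 336) (nat_lit 252)))))) (XT.nd (nat_lit 468) (nat_lit 456) (nat_lit 0) (XT.nd (nat_lit 234) (nat_lit 228) (nat_lit 0) (XT.nd (nat_lit 78) (nat_lit 228) (nat_lit 0) (XT.lf (nat_lit 0) (nat_lit 151566464) (nat_lit 0) (nat_lit 365314990) (nat_lit 152) (nat_lit 151566464) (nat_lit 170) (nat_lit 3) (nat_lit 170) (nat_lit 1) (nat_lit 172) (nat_lit 1) (nat_lit 433) (nat_lit 336) (nat_lit 251)) (XT.nd (nat_lit 78) (nat_lit 152) (nat_lit 0) (XT.lf (nat_lit 76) (nat_lit 83454093) (nat_lit 0) (nat_lit 287024118) (nat_lit 76) (nat_lit 287024118) (nat_lit 170) (nat_lit 3) (nat_lit 169) (nat_lit 1) (nat_lit 170) (nat_lit 1) (nat_lit 434) (nat_lit 336) (nat_lit 250)) (XT.lf (nat_lit 152) (nat_lit 521731216) (nat_lit 0) (nat_lit 62540714) (nat_lit 76) (nat_lit 62540714) (nat_lit 169) (nat_lit 1) (nat_lit 167) (nat_lit 1) (nat_lit 168) (nat_lit 1) (nat_lit 435) (nat_lit 336) (nat_lit 249)))) (XT.nd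 (nat_lit 78) (nat_lit 228) (nat_lit 0) (XT.lf (nat_lit 0) (nat_lit 153437073) (nat_lit 0) (nat_lit 329288515) (nat_lit 152) (nat_lit 153437073) (nat_lit 167) (nat_lit 3) (nat_lit 167) (nat_lit 1) (nat_lit 169) (nat_lit 1) (nat_lit 436) (nat_lit 336) (nat_lit 248)) (XT.nd (nat_lit 78) (nat_lit 152) (nat_lit 0) (XT.lf (nat_lit 76) (nat_lit 96937261) (nat_lit 0) (nat_lit 264414824) (nat_lit 76) (nat_lit 264414824) (nat_lit 167) (nat_lit 3) (nat_lit 166) (nat_lit 1) (nat_lit 167) (nat_lit 1) (nat_lit 437) (nat_lit 336) (nat_lit 247)) (XT.lf (nat_lit 152) (nat_lit 512721042) (nat_lit 0) (nat_lit 51452400) (nat_lit 76) (nat_lit 51452400) (nat_lit 166) (nat_lit 1) (nat_lit 164) (nat_lit 1) (nat_lit 165) (nat_lit 1) (nat_lit 438) (nat_lit 336) (nat_lit 246))))) (XT.nd (nat_lit 234) (nat_lit 228) (nat_lit 0) (XT.nd (nat_lit 78) (nat_lit 228) (nat_lit 0) (XT.lf (nat_lit 0) (nat_lit 153607315) (nat_lit 0)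 (nat_lit 298280731) (nat_lit 152) (nat_lit 153607315) (nat_lit 164) (nat_lit 3) (nat_lit 164) (nat_lit 1) (nat_lit 166) (nat_lit 1) (nat_lit 439) (nat_lit 336) (nat_lit 245)) (XT.nd (nat_lit 78) (nat_lit 152) (nat_lit 0) (XT.lf (nat_lit 76) (nat_lit 106683260) (nat_lit 0) (nat_lit 244467466) (nat_lit 76) (nat_lit 244467466) (nat_lit 164) (nat_lit 3) (nat_lit 163) (nat_lit 1) (nat_lit 164) (nat_lit 1) (nat_lit 440) (nat_lit 336) (nat_lit 244)) (XT.lf (nat_lit 152) (nat_lit 501332565) (nat_lit 0) (nat_lit 42330017) (nat_lit 76) (nat_lit 42330017) (nat_lit 163) (nat_lit 1) (nat_lit 161) (nat_lit 1) (nat_lit 162) (nat_lit 1) (nat_lit 441) (nat_lit 336) (nat_lit 243)))) (XT.nd (nat_lit 156) (nat_lit 152) (nat_lit 0) (XT.nd (nat_lit 78) (nat_lit 76) (nat_lit 0) (XT.lf (nat_lit 0) (nat_lit 152443838) (nat_lit 0) (nat_lit 271467016) (nat_lit 152) (nat_lit 152443838) (nat_lit 161) (nat_lit 3) (nat_lit 161)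 (nat_lit 1) (nat_lit 163) (nat_lit 1) (nat_lit 442) (nat_lit 336) (nat_lit 242)) (XT.lf (nat_lit 76) (nat_lit 113418806) (nat_lit 0) (nat_lit 226774213) (nat_lit 76) (nat_lit 226774213) (nat_lit 161) (nat_lit 3) (nat_lit 160) (nat_lit 1) (nat_lit 161) (nat_lit 1) (nat_lit 443) (nat_lit 336) (nat_lit 241))) (XT.nd (nat_lit 78) (nat_lit 0) (nat_lit 0) (XT.lf (nat_lit 152) (nat_lit 488176775) (nat_lit 0) (nat_lit 34825009) (nat_lit 76) (nat_lit 34825009) (nat_lit 160) (nat_lit 1) (nat_lit 158) (nat_lit 1) (nat_lit 159) (nat_lit 1) (nat_lit 444) (nat_lit 336) (nat_lit 240)) (XT.lf (nat_lit 0) (nat_lit 150245180) (nat_lit 0) (nat_lit 248165842) (nat_lit 152) (nat_lit 150245180) (nat_lit 158) (nat_lit 3) (nat_lit 158) (nat_lit 1) (nat_lit 160) (nat_lit 1) (nat_lit 445) (nat_lit 336) (nat_lit 239))))))) (XT.nd (nat_lit 45786) (nat_lit 0) (nat_lit 8664) (XT.nd (nat_lit 45318) (nat_lit 0) (nat_lit 10640)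 (XT.nd (nat_lit 234) (nat_lit 228) (nat_lit 0) (XT.nd (nat_lit 78) (nat_lit 152) (nat_lit 0) (XT.lf (nat_lit 76) (nat_lit 117738717) (nat_lit 0) (nat_lit 210996491) (nat_lit 76) (nat_lit 210996491) (nat_lit 158) (nat_lit 3) (nat_lit 157) (nat_lit 1) (nat_lit 158) (nat_lit 1) (nat_lit 446) (nat_lit 336) (nat_lit 238)) (XT.nd (nat_lit 78) (nat_lit 0) (nat_lit 0) (XT.lf (nat_lit 152) (nat_lit 473747321) (nat_lit 0) (nat_lit 28650621) (nat_lit 76) (nat_lit 28650621) (nat_lit 157) (nat_lit 1) (nat_lit 155) (nat_lit 1) (nat_lit 156) (nat_lit 1) (nat_lit 447) (nat_lit 336) (nat_lit 237)) (XT.lf (nat_lit 0) (nat_lit 147253992) (nat_lit 0) (nat_lit 227813564) (nat_lit 152) (nat_lit 147253992) (nat_lit 155) (nat_lit 3) (nat_lit 155) (nat_lit 1) (nat_lit 157) (nat_lit 1) (nat_lit 448) (nat_lit 336) (nat_lit 236)))) (XT.nd (nat_lit 78) (nat_lit 152) (nat_lit 0) (XT.lf (nat_lit 76) (nat_lit 120129444) (nat_lit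 0) (nat_lit 196852845) (nat_lit 76) (nat_lit 196852845) (nat_lit 155) (nat_lit 3) (nat_lit 154) (nat_lit 1) (nat_lit 155) (nat_lit 1) (nat_lit 449) (nat_lit 336) (nat_lit 235)) (XT.nd (nat_lit 78) (nat_lit 0) (nat_lit 0) (XT.lf (nat_lit 152) (nat_lit 458441740) (nat_lit 0) (nat_lit 23570937) (nat_lit 76) (nat_lit 23570937) (nat_lit 154) (nat_lit 1) (nat_lit 152) (nat_lit 1) (nat_lit 153) (nat_lit 1) (nat_lit 450) (nat_lit 336) (nat_lit 234)) (XT.lf (nat_lit 0) (nat_lit 143667092) (nat_lit 0) (nat_lit 209943651) (nat_lit 152) (nat_lit 143667092) (nat_lit 152) (nat_lit 3) (nat_lit 152) (nat_lit 1) (nat_lit 154) (nat_lit 1) (nat_lit 451) (nat_lit 336) (nat_lit 233))))) (XT.nd (nat_lit 234) (nat_lit 0) (nat_lit 76) (XT.nd (nat_lit 78) (nat_lit 0) (nat_lit 0) (XT.lf (nat_lit 836) (nat_lit 464175038) (nat_lit 0) (nat_lit 824141713) (nat_lit 836) (nat_lit 464175038) (nat_lit 303) (nat_lit 1) (nat_lit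 292) (nat_lit 0) (nat_lit 303) (nat_lit 0) (nat_lit 346) (nat_lit 337) (nat_lit 337)) (XT.nd (nat_lit 78) (nat_lit 0) (nat_lit 76) (XT.lf (nat_lit 836) (nat_lit 1799200397) (nat_lit 76) (nat_lit 810849104) (nat_lit 0) (nat_lit 810849104) (nat_lit 303) (nat_lit 1) (nat_lit 293) (nat_lit 1) (nat_lit 292) (nat_lit 0) (nat_lit 347) (nat_lit 337) (nat_lit 336)) (XT.lf (nat_lit 836) (nat_lit 857471819) (nat_lit 0) (nat_lit 1624469516) (nat_lit 760) (nat_lit 857471819) (nat_lit 304) (nat_lit 1) (nat_lit 293) (nat_lit 1) (nat_lit 303) (nat_lit 1) (nat_lit 348) (nat_lit 337) (nat_lit 335)))) (XT.nd (nat_lit 78) (nat_lit 0) (nat_lit 76) (XT.lf (nat_lit 836) (nat_lit 1608497983) (nat_lit 76) (nat_lit 826031152) (nat_lit 0) (nat_lit 826031152) (nat_lit 304) (nat_lit 1) (nat_lit 294) (nat_lit 1) (nat_lit 293) (nat_lit 1) (nat_lit 349) (nat_lit 337) (nat_lit 334)) (XT.nd (nat_lit 78) (nat_lit 0) (nat_lit 0)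 (XT.lf (nat_lit 836) (nat_lit 740376175) (nat_lit 0) (nat_lit 1703454312) (nat_lit 760) (nat_lit 740376175) (nat_lit 305) (nat_lit 1) (nat_lit 294) (nat_lit 1) (nat_lit 304) (nat_lit 1) (nat_lit 350) (nat_lit 337) (nat_lit 333)) (XT.lf (nat_lit 836) (nat_lit 1331614773) (nat_lit 76) (nat_lit 889282907) (nat_lit 0) (nat_lit 889282907) (nat_lit 305) (nat_lit 1) (nat_lit 295) (nat_lit 1) (nat_lit 294) (nat_lit 1) (nat_lit 351) (nat_lit 337) (nat_lit 332)))))) (XT.nd (nat_lit 468) (nat_lit 1596) (nat_lit 0) (XT.nd (nat_lit 234) (nat_lit 608) (nat_lit 0) (XT.nd (nat_lit 78) (nat_lit 0) (nat_lit 0) (XT.lf (nat_lit 836) (nat_lit 583874617) (nat_lit 0) (nat_lit 1870890816) (nat_lit 760) (nat_lit 583874617) (nat_lit 306) (nat_lit 1) (nat_lit 295) (nat_lit 1) (nat_lit 305) (nat_lit 1) (nat_lit 352) (nat_lit 337) (nat_lit 331)) (XT.nd (nat_lit 78) (nat_lit 0) (nat_lit 76) (XT.lf (nat_lit 836) (nat_lit 981511159)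 (nat_lit 76) (nat_lit 993779056) (nat_lit 0) (nat_lit 993779056) (nat_lit 306) (nat_lit 1) (nat_lit 296) (nat_lit 1) (nat_lit 295) (nat_lit 1) (nat_lit 353) (nat_lit 337) (nat_lit 330)) (XT.lf (nat_lit 836) (nat_lit 394025608) (nat_lit 0) (nat_lit 2113993962) (nat_lit 760) (nat_lit 394025608) (nat_lit 307) (nat_lit 1) (nat_lit 296) (nat_lit 1) (nat_lit 306) (nat_lit 1) (nat_lit 354) (nat_lit 337) (nat_lit 329)))) (XT.nd (nat_lit 78) (nat_lit 684) (nat_lit 0) (XT.lf (nat_lit 836) (nat_lit 569706975) (nat_lit 76) (nat_lit 1133441041) (nat_lit 0) (nat_lit 1133441041) (nat_lit 307) (nat_lit 1) (nat_lit 297) (nat_lit 1) (nat_lit 296) (nat_lit 1) (nat_lit 355) (nat_lit 337) (nat_lit 328)) (XT.nd (nat_lit 78) (nat_lit 760) (nat_lit 0) (XT.lf (nat_lit 76) (nat_lit 176210310) (nat_lit 0) (nat_lit 2421384539) (nat_lit 760) (nat_lit 176210310) (nat_lit 298) (nat_lit 1) (nat_lit 297) (nat_lit 1) (nat_lit 307)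 (nat_lit 1) (nat_lit 356) (nat_lit 337) (nat_lit 327)) (XT.lf (nat_lit 836) (nat_lit 106426645) (nat_lit 0) (nat_lit 1302862291) (nat_lit 760) (nat_lit 1302862291) (nat_lit 298) (nat_lit 1) (nat_lit 287) (nat_lit 1) (nat_lit 297) (nat_lit 1) (nat_lit 357) (nat_lit 337) (nat_lit 326))))) (XT.nd (nat_lit 234) (nat_lit 684) (nat_lit 0) (XT.nd (nat_lit 78) (nat_lit 380) (nat_lit 0) (XT.lf (nat_lit 532) (nat_lit 2525638327) (nat_lit 0) (nat_lit 63753869) (nat_lit 456) (nat_lit 63753869) (nat_lit 287) (nat_lit 1) (nat_lit 280) (nat_lit 1) (nat_lit 286) (nat_lit 1) (nat_lit 358) (nat_lit 337) (nat_lit 325)) (XT.nd (nat_lit 78) (nat_lit 380) (nat_lit 0) (XT.lf (nat_lit 76) (nat_lit 1104204680) (nat_lit 0) (nat_lit 386490571) (nat_lit 532) (nat_lit 1104204680) (nat_lit 281) (nat_lit 1) (nat_lit 280) (nat_lit 1) (nat_lit 287) (nat_lit 1) (nat_lit 359) (nat_lit 337) (nat_lit 324)) (XT.lf (nat_lit 456) (nat_lit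 1900052818) (nat_lit 0) (nat_lit 319538881) (nat_lit 380) (nat_lit 319538881) (nat_lit 281) (nat_lit 1) (nat_lit 275) (nat_lit 1) (nat_lit 280) (nat_lit 1) (nat_lit 360) (nat_lit 337) (nat_lit 323)))) (XT.nd (nat_lit 156) (nat_lit 304) (nat_lit 0) (XT.nd (nat_lit 78) (nat_lit 380) (nat_lit 0) (XT.lf (nat_lit 76) (nat_lit 787615756) (nat_lit 0) (nat_lit 909302143) (nat_lit 456) (nat_lit 787615756) (nat_lit 276) (nat_lit 1) (nat_lit 275) (nat_lit 1) (nat_lit 281) (nat_lit 1) (nat_lit 361) (nat_lit 337) (nat_lit 322)) (XT.lf (nat_lit 456) (nat_lit 1251211726) (nat_lit 0) (nat_lit 590313235) (nat_lit 380) (nat_lit 590313235) (nat_lit 276) (nat_lit 1) (nat_lit 270) (nat_lit 1) (nat_lit 275) (nat_lit 1) (nat_lit 362) (nat_lit 337) (nat_lit 321))) (XT.nd (nat_lit 78) (nat_lit 304) (nat_lit 0) (XT.lf (nat_lit 76) (nat_lit 461054892) (nat_lit 0) (nat_lit 1458565513) (nat_lit 456) (nat_lit 461054892) (nat_lit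 271) (nat_lit 1) (nat_lit 270) (nat_lit 1) (nat_lit 276) (nat_lit 1) (nat_lit 363) (nat_lit 337) (nat_lit 320)) (XT.lf (nat_lit 380) (nat_lit 585154114) (nat_lit 0) (nat_lit 872837181) (nat_lit 304) (nat_lit 872837181) (nat_lit 271) (nat_lit 1) (nat_lit 266) (nat_lit 1) (nat_lit 270) (nat_lit 1) (nat_lit 364) (nat_lit 337) (nat_lit 319))))))))
noncomputable def ec49 : XT := (XT.nd (nat_lit 1950) (nat_lit 2356) (nat_lit 0) (XT.nd (nat_lit 936) (nat_lit 1672) (nat_lit 0) (XT.nd (nat_lit 468) (nat_lit 1064) (nat_lit 0) (XT.nd (nat_lit 234) (nat_lit 304) (nat_lit 0) (XT.nd (nat_lit 78) (nat_lit 684) (nat_lit 0) (XT.lf (nat_lit 76) (nat_lit 127325630) (nat_lit 0) (nat_lit 2028247259) (nat_lit 380) (nat_lit 127325630) (nat_lit 267) (nat_lit 1) (nat_lit 266) (nat_lit 1) (nat_lit 271) (nat_lit 1) (nat_lit 365) (nat_lit 337) (nat_lit 318)) (XT.nd (nat_lit 78) (nat_lit 304) (nat_lit 0) (XT.lf (nat_lit 76)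 (nat_lit 1072882352) (nat_lit 0) (nat_lit 89855981) (nat_lit 380) (nat_lit 1072882352) (nat_lit 262) (nat_lit 1) (nat_lit 261) (nat_lit 1) (nat_lit 266) (nat_lit 1) (nat_lit 366) (nat_lit 337) (nat_lit 317)) (XT.lf (nat_lit 380) (nat_lit 1774716605) (nat_lit 0) (nat_lit 207713349) (nat_lit 304) (nat_lit 207713349) (nat_lit 262) (nat_lit 1) (nat_lit 257) (nat_lit 1) (nat_lit 261) (nat_lit 1) (nat_lit 367) (nat_lit 337) (nat_lit 316)))) (XT.nd (nat_lit 78) (nat_lit 304) (nat_lit 0) (XT.lf (nat_lit 76) (nat_lit 696121874) (nat_lit 0) (nat_lit 753202350) (nat_lit 380) (nat_lit 696121874) (nat_lit 258) (nat_lit 1) (nat_lit 257) (nat_lit 1) (nat_lit 262) (nat_lit 1) (nat_lit 368) (nat_lit 337) (nat_lit 315)) (XT.nd (nat_lit 78) (nat_lit 0) (nat_lit 0) (XT.lf (nat_lit 380) (nat_lit 1015835461) (nat_lit 0) (nat_lit 543231687) (nat_lit 304) (nat_lit 543231687) (nat_lit 258) (nat_lit 1) (nat_lit 253) (nat_lit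 1) (nat_lit 257) (nat_lit 1) (nat_lit 369) (nat_lit 337) (nat_lit 314)) (XT.lf (nat_lit 76) (nat_lit 320349168) (nat_lit 0) (nat_lit 1419714864) (nat_lit 380) (nat_lit 320349168) (nat_lit 254) (nat_lit 1) (nat_lit 253) (nat_lit 1) (nat_lit 258) (nat_lit 1) (nat_lit 370) (nat_lit 337) (nat_lit 313))))) (XT.nd (nat_lit 234) (nat_lit 456) (nat_lit 0) (XT.nd (nat_lit 78) (nat_lit 380) (nat_lit 0) (XT.lf (nat_lit 304) (nat_lit 260526258) (nat_lit 0) (nat_lit 879452726) (nat_lit 228) (nat_lit 879452726) (nat_lit 254) (nat_lit 1) (nat_lit 250) (nat_lit 1) (nat_lit 253) (nat_lit 1) (nat_lit 371) (nat_lit 337) (nat_lit 312)) (XT.nd (nat_lit 78) (nat_lit 0) (nat_lit 0) (XT.lf (nat_lit 380) (nat_lit 1875925095) (nat_lit 0) (nat_lit 52053321) (nat_lit 304) (nat_lit 52053321) (nat_lit 250) (nat_lit 1) (nat_lit 245) (nat_lit 1) (nat_lit 249) (nat_lit 1) (nat_lit 372) (nat_lit 337) (nat_lit 311)) (XT.lf (nat_lit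 76) (nat_lit 734063358) (nat_lit 0) (nat_lit 472723125) (nat_lit 380) (nat_lit 734063358) (nat_lit 246) (nat_lit 1) (nat_lit 245) (nat_lit 1) (nat_lit 250) (nat_lit 1) (nat_lit 373) (nat_lit 337) (nat_lit 310)))) (XT.nd (nat_lit 78) (nat_lit 228) (nat_lit 0) (XT.lf (nat_lit 304) (nat_lit 1072122741) (nat_lit 0) (nat_lit 415523966) (nat_lit 228) (nat_lit 415523966) (nat_lit 246) (nat_lit 1) (nat_lit 242) (nat_lit 1) (nat_lit 245) (nat_lit 1) (nat_lit 374) (nat_lit 337) (nat_lit 309)) (XT.nd (nat_lit 78) (nat_lit 228) (nat_lit 0) (XT.lf (nat_lit 76) (nat_lit 338700158) (nat_lit 0) (nat_lit 1189048494) (nat_lit 304) (nat_lit 338700158) (nat_lit 243) (nat_lit 1) (nat_lit 242) (nat_lit 1) (nat_lit 246) (nat_lit 1) (nat_lit 375) (nat_lit 337) (nat_lit 308)) (XT.lf (nat_lit 304) (nat_lit 282295995) (nat_lit 0) (nat_lit 774133182) (nat_lit 228) (nat_lit 774133182) (nat_lit 243) (nat_lit 1) (nat_lit 239)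 (nat_lit 1) (nat_lit 242) (nat_lit 1) (nat_lit 376) (nat_lit 337) (nat_lit 307)))))) (XT.nd (nat_lit 468) (nat_lit 684) (nat_lit 0) (XT.nd (nat_lit 234) (nat_lit 456) (nat_lit 0) (XT.nd (nat_lit 78) (nat_lit 228) (nat_lit 0) (XT.lf (nat_lit 304) (nat_lit 1698978170) (nat_lit 0) (nat_lit 48515482) (nat_lit 228) (nat_lit 48515482) (nat_lit 239) (nat_lit 1) (nat_lit 235) (nat_lit 1) (nat_lit 238) (nat_lit 1) (nat_lit 377) (nat_lit 337) (nat_lit 306)) (XT.nd (nat_lit 78) (nat_lit 228) (nat_lit 0) (XT.lf (nat_lit 76) (nat_lit 642674786) (nat_lit 0) (nat_lit 476215563) (nat_lit 304) (nat_lit 642674786) (nat_lit 236) (nat_lit 1) (nat_lit 235) (nat_lit 1) (nat_lit 239) (nat_lit 1) (nat_lit 378) (nat_lit 337) (nat_lit 305)) (XT.lf (nat_lit 304) (nat_lit 883736678) (nat_lit 0) (nat_lit 422329445) (nat_lit 228) (nat_lit 422329445) (nat_lit 236) (nat_lit 1) (nat_lit 232) (nat_lit 1) (nat_lit 235) (nat_lit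 1) (nat_lit 379) (nat_lit 337) (nat_lit 304)))) (XT.nd (nat_lit 78) (nat_lit 456) (nat_lit 0) (XT.lf (nat_lit 76) (nat_lit 243380360) (nat_lit 0) (nat_lit 1209354904) (nat_lit 304) (nat_lit 243380360) (nat_lit 233) (nat_lit 1) (nat_lit 232) (nat_lit 1) (nat_lit 236) (nat_lit 1) (nat_lit 380) (nat_lit 337) (nat_lit 303)) (XT.nd (nat_lit 78) (nat_lit 304) (nat_lit 0) (XT.lf (nat_lit 228) (nat_lit 89182656) (nat_lit 0) (nat_lit 787630660) (nat_lit 152) (nat_lit 787630660) (nat_lit 233) (nat_lit 1) (nat_lit 230) (nat_lit 1) (nat_lit 232) (nat_lit 1) (nat_lit 381) (nat_lit 337) (nat_lit 302)) (XT.lf (nat_lit 304) (nat_lit 1347520032) (nat_lit 0) (nat_lit 143116394) (nat_lit 228) (nat_lit 143116394) (nat_lit 230) (nat_lit 1) (nat_lit 226) (nat_lit 1) (nat_lit 229) (nat_lit 1) (nat_lit 382) (nat_lit 337) (nat_lit 301))))) (XT.nd (nat_lit 234) (nat_lit 532) (nat_lit 0) (XT.nd (nat_lit 78) (nat_lit 152)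 (nat_lit 0) (XT.lf (nat_lit 76) (nat_lit 470656761) (nat_lit 0) (nat_lit 662091395) (nat_lit 304) (nat_lit 470656761) (nat_lit 227) (nat_lit 1) (nat_lit 226) (nat_lit 1) (nat_lit 230) (nat_lit 1) (nat_lit 383) (nat_lit 337) (nat_lit 300)) (XT.nd (nat_lit 78) (nat_lit 0) (nat_lit 0) (XT.lf (nat_lit 228) (nat_lit 543771285) (nat_lit 0) (nat_lit 515111173) (nat_lit 152) (nat_lit 515111173) (nat_lit 227) (nat_lit 1) (nat_lit 224) (nat_lit 1) (nat_lit 226) (nat_lit 1) (nat_lit 384) (nat_lit 337) (nat_lit 299)) (XT.lf (nat_lit 76) (nat_lit 78122674) (nat_lit 0) (nat_lit 1389313046) (nat_lit 228) (nat_lit 78122674) (nat_lit 225) (nat_lit 1) (nat_lit 224) (nat_lit 1) (nat_lit 227) (nat_lit 1) (nat_lit 385) (nat_lit 337) (nat_lit 298)))) (XT.nd (nat_lit 156) (nat_lit 152) (nat_lit 0) (XT.nd (nat_lit 78) (nat_lit 152) (nat_lit 0) (XT.lf (nat_lit 76) (nat_lit 644760135) (nat_lit 0) (nat_lit 227706250) (nat_lit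 228) (nat_lit 644760135) (nat_lit 222) (nat_lit 1) (nat_lit 221) (nat_lit 1) (nat_lit 224) (nat_lit 1) (nat_lit 386) (nat_lit 337) (nat_lit 297)) (XT.lf (nat_lit 228) (nat_lit 895362452) (nat_lit 0) (nat_lit 297236075) (nat_lit 152) (nat_lit 297236075) (nat_lit 222) (nat_lit 1) (nat_lit 219) (nat_lit 1) (nat_lit 221) (nat_lit 1) (nat_lit 387) (nat_lit 337) (nat_lit 296))) (XT.nd (nat_lit 78) (nat_lit 152) (nat_lit 0) (XT.lf (nat_lit 76) (nat_lit 252647990) (nat_lit 0) (nat_lit 957752123) (nat_lit 228) (nat_lit 252647990) (nat_lit 220) (nat_lit 1) (nat_lit 219) (nat_lit 1) (nat_lit 222) (nat_lit 1) (nat_lit 388) (nat_lit 337) (nat_lit 295)) (XT.lf (nat_lit 228) (nat_lit 118356487) (nat_lit 0) (nat_lit 659222532) (nat_lit 152) (nat_lit 659222532) (nat_lit 220) (nat_lit 1) (nat_lit 217) (nat_lit 1) (nat_lit 219) (nat_lit 1) (nat_lit 389) (nat_lit 337) (nat_lit 294))))))) (XT.nd (nat_lit 936) (nat_lit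 1064) (nat_lit 0) (XT.nd (nat_lit 468) (nat_lit 608) (nat_lit 0) (XT.nd (nat_lit 234) (nat_lit 304) (nat_lit 0) (XT.nd (nat_lit 78) (nat_lit 152) (nat_lit 0) (XT.lf (nat_lit 228) (nat_lit 1163284019) (nat_lit 0) (nat_lit 124015747) (nat_lit 152) (nat_lit 124015747) (nat_lit 217) (nat_lit 1) (nat_lit 214) (nat_lit 1) (nat_lit 216) (nat_lit 1) (nat_lit 390) (nat_lit 337) (nat_lit 293)) (XT.nd (nat_lit 78) (nat_lit 152) (nat_lit 0) (XT.lf (nat_lit 76) (nat_lit 387260100) (nat_lit 0) (nat_lit 611526796) (nat_lit 228) (nat_lit 387260100) (nat_lit 215) (nat_lit 1) (nat_lit 214) (nat_lit 1) (nat_lit 217) (nat_lit 1) (nat_lit 391) (nat_lit 337) (nat_lit 292)) (XT.lf (nat_lit 228) (nat_lit 394405610) (nat_lit 0) (nat_lit 483553225) (nat_lit 152) (nat_lit 483553225) (nat_lit 215) (nat_lit 1) (nat_lit 212) (nat_lit 1) (nat_lit 214) (nat_lit 1) (nat_lit 392) (nat_lit 337) (nat_lit 291)))) (XT.nd (nat_lit 78)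 (nat_lit 304) (nat_lit 0) (XT.lf (nat_lit 76) (nat_lit 12963024) (nat_lit 0) (nat_lit 1311911516) (nat_lit 228) (nat_lit 12963024) (nat_lit 213) (nat_lit 1) (nat_lit 212) (nat_lit 1) (nat_lit 215) (nat_lit 1) (nat_lit 393) (nat_lit 337) (nat_lit 290)) (XT.nd (nat_lit 78) (nat_lit 152) (nat_lit 0) (XT.lf (nat_lit 76) (nat_lit 489462675) (nat_lit 0) (nat_lit 335087232) (nat_lit 152) (nat_lit 489462675) (nat_lit 211) (nat_lit 1) (nat_lit 210) (nat_lit 1) (nat_lit 212) (nat_lit 1) (nat_lit 394) (nat_lit 337) (nat_lit 289)) (XT.lf (nat_lit 228) (nat_lit 607367458) (nat_lit 0) (nat_lit 341829212) (nat_lit 152) (nat_lit 341829212) (nat_lit 211) (nat_lit 1) (nat_lit 208) (nat_lit 1) (nat_lit 210) (nat_lit 1) (nat_lit 395) (nat_lit 337) (nat_lit 288))))) (XT.nd (nat_lit 234) (nat_lit 304) (nat_lit 0) (XT.nd (nat_lit 78) (nat_lit 304) (nat_lit 0) (XT.lf (nat_lit 76) (nat_lit 121772977) (nat_lit 0) (nat_lit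 1025113697) (nat_lit 228) (nat_lit 121772977) (nat_lit 209) (nat_lit 1) (nat_lit 208) (nat_lit 1) (nat_lit 211) (nat_lit 1) (nat_lit 396) (nat_lit 337) (nat_lit 287)) (XT.nd (nat_lit 78) (nat_lit 152) (nat_lit 0) (XT.lf (nat_lit 76) (nat_lit 565408661) (nat_lit 0) (nat_lit 115660545) (nat_lit 152) (nat_lit 565408661) (nat_lit 207) (nat_lit 1) (nat_lit 206) (nat_lit 1) (nat_lit 208) (nat_lit 1) (nat_lit 397) (nat_lit 337) (nat_lit 286)) (XT.lf (nat_lit 228) (nat_lit 769100794) (nat_lit 0) (nat_lit 227898765) (nat_lit 152) (nat_lit 227898765) (nat_lit 207) (nat_lit 1) (nat_lit 204) (nat_lit 1) (nat_lit 206) (nat_lit 1) (nat_lit 398) (nat_lit 337) (nat_lit 285)))) (XT.nd (nat_lit 78) (nat_lit 304) (nat_lit 0) (XT.lf (nat_lit 76) (nat_lit 206000325) (nat_lit 0) (nat_lit 791745334) (nat_lit 228) (nat_lit 206000325) (nat_lit 205) (nat_lit 1) (nat_lit 204) (nat_lit 1) (nat_lit 207) (nat_lit 1) (nat_lit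 399) (nat_lit 337) (nat_lit 284)) (XT.nd (nat_lit 78) (nat_lit 228) (nat_lit 0) (XT.lf (nat_lit 152) (nat_lit 59135191) (nat_lit 0) (nat_lit 561928805) (nat_lit 76) (nat_lit 561928805) (nat_lit 205) (nat_lit 1) (nat_lit 203) (nat_lit 1) (nat_lit 204) (nat_lit 1) (nat_lit 400) (nat_lit 337) (nat_lit 283)) (XT.lf (nat_lit 228) (nat_lit 889329776) (nat_lit 0) (nat_lit 136707188) (nat_lit 152) (nat_lit 136707188) (nat_lit 203) (nat_lit 1) (nat_lit 200) (nat_lit 1) (nat_lit 202) (nat_lit 1) (nat_lit 401) (nat_lit 337) (nat_lit 282)))))) (XT.nd (nat_lit 468) (nat_lit 456) (nat_lit 0) (XT.nd (nat_lit 234) (nat_lit 304) (nat_lit 0) (XT.nd (nat_lit 78) (nat_lit 304) (nat_lit 0) (XT.lf (nat_lit 76) (nat_lit 270255449) (nat_lit 0) (nat_lit 602210615) (nat_lit 228) (nat_lit 270255449) (nat_lit 201) (nat_lit 1) (nat_lit 200) (nat_lit 1) (nat_lit 203) (nat_lit 1) (nat_lit 402) (nat_lit 337) (nat_lit 281)) (XT.nd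 (nat_lit 78) (nat_lit 228) (nat_lit 0) (XT.lf (nat_lit 152) (nat_lit 198589370) (nat_lit 0) (nat_lit 462300218) (nat_lit 76) (nat_lit 462300218) (nat_lit 201) (nat_lit 1) (nat_lit 199) (nat_lit 1) (nat_lit 200) (nat_lit 1) (nat_lit 403) (nat_lit 337) (nat_lit 280)) (XT.lf (nat_lit 228) (nat_lit 976023951) (nat_lit 0) (nat_lit 64102019) (nat_lit 152) (nat_lit 64102019) (nat_lit 199) (nat_lit 1) (nat_lit 196) (nat_lit 1) (nat_lit 198) (nat_lit 1) (nat_lit 404) (nat_lit 337) (nat_lit 279)))) (XT.nd (nat_lit 78) (nat_lit 304) (nat_lit 0) (XT.lf (nat_lit 76) (nat_lit 318319324) (nat_lit 0) (nat_lit 448620897) (nat_lit 228) (nat_lit 318319324) (nat_lit 197) (nat_lit 1) (nat_lit 196) (nat_lit 1) (nat_lit 199) (nat_lit 1) (nat_lit 405) (nat_lit 337) (nat_lit 278)) (XT.nd (nat_lit 78) (nat_lit 228) (nat_lit 0) (XT.lf (nat_lit 152) (nat_lit 306178730) (nat_lit 0) (nat_lit 380335534) (nat_lit 76) (nat_lit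 380335534) (nat_lit 197) (nat_lit 1) (nat_lit 195) (nat_lit 1) (nat_lit 196) (nat_lit 1) (nat_lit 406) (nat_lit 337) (nat_lit 277)) (XT.lf (nat_lit 228) (nat_lit 1035710789) (nat_lit 0) (nat_lit 6672772) (nat_lit 152) (nat_lit 6672772) (nat_lit 195) (nat_lit 1) (nat_lit 192) (nat_lit 1) (nat_lit 194) (nat_lit 1) (nat_lit 407) (nat_lit 337) (nat_lit 276))))) (XT.nd (nat_lit 234) (nat_lit 380) (nat_lit 0) (XT.nd (nat_lit 78) (nat_lit 76) (nat_lit 0) (XT.lf (nat_lit 76) (nat_lit 353291140) (nat_lit 0) (nat_lit 324491744) (nat_lit 228) (nat_lit 353291140) (nat_lit 193) (nat_lit 1) (nat_lit 192) (nat_lit 1) (nat_lit 195) (nat_lit 1) (nat_lit 408) (nat_lit 337) (nat_lit 275)) (XT.nd (nat_lit 78) (nat_lit 0) (nat_lit 0) (XT.lf (nat_lit 152) (nat_lit 387892822) (nat_lit 0) (nat_lit 312902985) (nat_lit 76) (nat_lit 312902985) (nat_lit 193) (nat_lit 1) (nat_lit 191) (nat_lit 1) (nat_lit 192) (nat_lit 1)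 (nat_lit 409) (nat_lit 337) (nat_lit 274)) (XT.lf (nat_lit 0) (nat_lit 39010076) (nat_lit 0) (nat_lit 918827993) (nat_lit 152) (nat_lit 39010076) (nat_lit 191) (nat_lit 3) (nat_lit 191) (nat_lit 1) (nat_lit 193) (nat_lit 1) (nat_lit 410) (nat_lit 337) (nat_lit 273)))) (XT.nd (nat_lit 156) (nat_lit 152) (nat_lit 0) (XT.nd (nat_lit 78) (nat_lit 76) (nat_lit 0) (XT.lf (nat_lit 76) (nat_lit 377709729) (nat_lit 0) (nat_lit 224493705) (nat_lit 152) (nat_lit 377709729) (nat_lit 190) (nat_lit 1) (nat_lit 189) (nat_lit 1) (nat_lit 191) (nat_lit 1) (nat_lit 411) (nat_lit 337) (nat_lit 272)) (XT.lf (nat_lit 152) (nat_lit 448643073) (nat_lit 0) (nat_lit 257426060) (nat_lit 76) (nat_lit 257426060) (nat_lit 190) (nat_lit 1) (nat_lit 188) (nat_lit 1) (nat_lit 189) (nat_lit 1) (nat_lit 412) (nat_lit 337) (nat_lit 271))) (XT.nd (nat_lit 78) (nat_lit 152) (nat_lit 0) (XT.lf (nat_lit 0) (nat_lit 74560141) (nat_lit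 0) (nat_lit 798388519) (nat_lit 152) (nat_lit 74560141) (nat_lit 188) (nat_lit 3) (nat_lit 188) (nat_lit 1) (nat_lit 190) (nat_lit 1) (nat_lit 413) (nat_lit 337) (nat_lit 270)) (XT.lf (nat_lit 76) (nat_lit 393653427) (nat_lit 0) (nat_lit 144247284) (nat_lit 152) (nat_lit 393653427) (nat_lit 187) (nat_lit 1) (nat_lit 186) (nat_lit 1) (nat_lit 188) (nat_lit 1) (nat_lit 414) (nat_lit 337) (nat_lit 269))))))))
noncomputable def ec50 : XT := (XT.nd (nat_lit 1950) (nat_lit 912) (nat_lit 0) (XT.nd (nat_lit 936) (nat_lit 1064) (nat_lit 0) (XT.nd (nat_lit 468) (nat_lit 380) (nat_lit 0) (XT.nd (nat_lit 234) (nat_lit 228) (nat_lit 0) (XT.nd (nat_lit 78) (nat_lit 152) (nat_lit 0) (XT.lf (nat_lit 152) (nat_lit 492454708) (nat_lit 0) (nat_lit 211785056) (nat_lit 76) (nat_lit 211785056) (nat_lit 187) (nat_lit 1) (nat_lit 185) (nat_lit 1) (nat_lit 186) (nat_lit 1) (nat_lit 415) (nat_lit 337) (nat_lit 268)) (XT.nd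 (nat_lit 78) (nat_lit 152) (nat_lit 0) (XT.lf (nat_lit 0) (nat_lit 101785056) (nat_lit 0) (nat_lit 697280454) (nat_lit 152) (nat_lit 101785056) (nat_lit 185) (nat_lit 3) (nat_lit 185) (nat_lit 1) (nat_lit 187) (nat_lit 1) (nat_lit 416) (nat_lit 337) (nat_lit 267)) (XT.lf (nat_lit 76) (nat_lit 402822218) (nat_lit 0) (nat_lit 80154271) (nat_lit 152) (nat_lit 402822218) (nat_lit 184) (nat_lit 1) (nat_lit 183) (nat_lit 1) (nat_lit 185) (nat_lit 1) (nat_lit 417) (nat_lit 337) (nat_lit 266)))) (XT.nd (nat_lit 78) (nat_lit 152) (nat_lit 0) (XT.lf (nat_lit 152) (nat_lit 522624603) (nat_lit 0) (nat_lit 174236090) (nat_lit 76) (nat_lit 174236090) (nat_lit 184) (nat_lit 1) (nat_lit 182) (nat_lit 1) (nat_lit 183) (nat_lit 1) (nat_lit 418) (nat_lit 337) (nat_lit 265)) (XT.nd (nat_lit 78) (nat_lit 152) (nat_lit 0) (XT.lf (nat_lit 0) (nat_lit 122257144) (nat_lit 0) (nat_lit 612172681) (nat_lit 152) (nat_lit 122257144)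 (nat_lit 182) (nat_lit 3) (nat_lit 182) (nat_lit 1) (nat_lit 184) (nat_lit 1) (nat_lit 419) (nat_lit 337) (nat_lit 264)) (XT.lf (nat_lit 76) (nat_lit 406605283) (nat_lit 0) (nat_lit 29258996) (nat_lit 152) (nat_lit 406605283) (nat_lit 181) (nat_lit 1) (nat_lit 180) (nat_lit 1) (nat_lit 182) (nat_lit 1) (nat_lit 420) (nat_lit 337) (nat_lit 263))))) (XT.nd (nat_lit 234) (nat_lit 228) (nat_lit 0) (XT.nd (nat_lit 78) (nat_lit 76) (nat_lit 0) (XT.lf (nat_lit 152) (nat_lit 541851122) (nat_lit 0) (nat_lit 143344462) (nat_lit 76) (nat_lit 143344462) (nat_lit 181) (nat_lit 1) (nat_lit 179) (nat_lit 1) (nat_lit 180) (nat_lit 1) (nat_lit 421) (nat_lit 337) (nat_lit 262)) (XT.nd (nat_lit 78) (nat_lit 76) (nat_lit 0) (XT.lf (nat_lit 0) (nat_lit 137265375) (nat_lit 0) (nat_lit 540320101) (nat_lit 152) (nat_lit 137265375) (nat_lit 179) (nat_lit 3) (nat_lit 179) (nat_lit 1) (nat_lit 181) (nat_lit 1) (nat_lit 422)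 (nat_lit 337) (nat_lit 261)) (XT.lf (nat_lit 76) (nat_lit 11225081) (nat_lit 0) (nat_lit 395086724) (nat_lit 76) (nat_lit 395086724) (nat_lit 179) (nat_lit 3) (nat_lit 178) (nat_lit 1) (nat_lit 179) (nat_lit 1) (nat_lit 423) (nat_lit 337) (nat_lit 260)))) (XT.nd (nat_lit 78) (nat_lit 76) (nat_lit 0) (XT.lf (nat_lit 152) (nat_lit 552340896) (nat_lit 0) (nat_lit 117929844) (nat_lit 76) (nat_lit 117929844) (nat_lit 178) (nat_lit 1) (nat_lit 176) (nat_lit 1) (nat_lit 177) (nat_lit 1) (nat_lit 424) (nat_lit 337) (nat_lit 259)) (XT.nd (nat_lit 78) (nat_lit 76) (nat_lit 0) (XT.lf (nat_lit 0) (nat_lit 147865822) (nat_lit 0) (nat_lit 479459942) (nat_lit 152) (nat_lit 147865822) (nat_lit 176) (nat_lit 3) (nat_lit 176) (nat_lit 1) (nat_lit 178) (nat_lit 1) (nat_lit 425) (nat_lit 337) (nat_lit 258)) (XT.lf (nat_lit 76) (nat_lit 43608656) (nat_lit 0) (nat_lit 359412579) (nat_lit 76) (nat_lit 359412579) (nat_lit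 176) (nat_lit 3) (nat_lit 175) (nat_lit 1) (nat_lit 176) (nat_lit 1) (nat_lit 426) (nat_lit 337) (nat_lit 257)))))) (XT.nd (nat_lit 468) (nat_lit 608) (nat_lit 0) (XT.nd (nat_lit 234) (nat_lit 228) (nat_lit 0) (XT.nd (nat_lit 78) (nat_lit 76) (nat_lit 0) (XT.lf (nat_lit 152) (nat_lit 555896637) (nat_lit 0) (nat_lit 97021174) (nat_lit 76) (nat_lit 97021174) (nat_lit 175) (nat_lit 1) (nat_lit 173) (nat_lit 1) (nat_lit 174) (nat_lit 1) (nat_lit 427) (nat_lit 337) (nat_lit 256)) (XT.nd (nat_lit 78) (nat_lit 76) (nat_lit 0) (XT.lf (nat_lit 0) (nat_lit 154923156) (nat_lit 0) (nat_lit 427726459) (nat_lit 152) (nat_lit 154923156) (nat_lit 173) (nat_lit 3) (nat_lit 173) (nat_lit 1) (nat_lit 175) (nat_lit 1) (nat_lit 428) (nat_lit 337) (nat_lit 255)) (XT.lf (nat_lit 76) (nat_lit 68613857) (nat_lit 0) (nat_lit 328426527) (nat_lit 76) (nat_lit 328426527) (nat_lit 173) (nat_lit 3) (nat_lit 172) (nat_lit 1)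 (nat_lit 173) (nat_lit 1) (nat_lit 429) (nat_lit 337) (nat_lit 254)))) (XT.nd (nat_lit 78) (nat_lit 76) (nat_lit 0) (XT.lf (nat_lit 152) (nat_lit 553989363) (nat_lit 0) (nat_lit 79819560) (nat_lit 76) (nat_lit 79819560) (nat_lit 172) (nat_lit 1) (nat_lit 170) (nat_lit 1) (nat_lit 171) (nat_lit 1) (nat_lit 430) (nat_lit 337) (nat_lit 253)) (XT.nd (nat_lit 78) (nat_lit 76) (nat_lit 0) (XT.lf (nat_lit 0) (nat_lit 159144787) (nat_lit 0) (nat_lit 383580739) (nat_lit 152) (nat_lit 159144787) (nat_lit 170) (nat_lit 3) (nat_lit 170) (nat_lit 1) (nat_lit 172) (nat_lit 1) (nat_lit 431) (nat_lit 337) (nat_lit 252)) (XT.lf (nat_lit 76) (nat_lit 87626798) (nat_lit 0) (nat_lit 301375324) (nat_lit 76) (nat_lit 301375324) (nat_lit 170) (nat_lit 3) (nat_lit 169) (nat_lit 1) (nat_lit 170) (nat_lit 1) (nat_lit 432) (nat_lit 337) (nat_lit 251))))) (XT.nd (nat_lit 234) (nat_lit 380) (nat_lit 0) (XT.nd (nat_lit 78)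 (nat_lit 76) (nat_lit 0) (XT.lf (nat_lit 152) (nat_lit 547817777) (nat_lit 0) (nat_lit 65667750) (nat_lit 76) (nat_lit 65667750) (nat_lit 169) (nat_lit 1) (nat_lit 167) (nat_lit 1) (nat_lit 168) (nat_lit 1) (nat_lit 433) (nat_lit 337) (nat_lit 250)) (XT.nd (nat_lit 78) (nat_lit 76) (nat_lit 0) (XT.lf (nat_lit 0) (nat_lit 161108927) (nat_lit 0) (nat_lit 345752940) (nat_lit 152) (nat_lit 161108927) (nat_lit 167) (nat_lit 3) (nat_lit 167) (nat_lit 1) (nat_lit 169) (nat_lit 1) (nat_lit 434) (nat_lit 337) (nat_lit 249)) (XT.lf (nat_lit 76) (nat_lit 101784124) (nat_lit 0) (nat_lit 277635566) (nat_lit 76) (nat_lit 277635566) (nat_lit 167) (nat_lit 3) (nat_lit 166) (nat_lit 1) (nat_lit 167) (nat_lit 1) (nat_lit 435) (nat_lit 337) (nat_lit 248)))) (XT.nd (nat_lit 156) (nat_lit 228) (nat_lit 0) (XT.nd (nat_lit 78) (nat_lit 0) (nat_lit 0) (XT.lf (nat_lit 152) (nat_lit 538357094) (nat_lit 0) (nat_lit 54025020)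 (nat_lit 76) (nat_lit 54025020) (nat_lit 166) (nat_lit 1) (nat_lit 164) (nat_lit 1) (nat_lit 165) (nat_lit 1) (nat_lit 436) (nat_lit 337) (nat_lit 247)) (XT.lf (nat_lit 0) (nat_lit 161287681) (nat_lit 0) (nat_lit 313194768) (nat_lit 152) (nat_lit 161287681) (nat_lit 164) (nat_lit 3) (nat_lit 164) (nat_lit 1) (nat_lit 166) (nat_lit 1) (nat_lit 437) (nat_lit 337) (nat_lit 246))) (XT.nd (nat_lit 78) (nat_lit 152) (nat_lit 0) (XT.lf (nat_lit 76) (nat_lit 112017423) (nat_lit 0) (nat_lit 256690839) (nat_lit 76) (nat_lit 256690839) (nat_lit 164) (nat_lit 3) (nat_lit 163) (nat_lit 1) (nat_lit 164) (nat_lit 1) (nat_lit 438) (nat_lit 337) (nat_lit 245)) (XT.lf (nat_lit 152) (nat_lit 526399194) (nat_lit 0) (nat_lit 44446518) (nat_lit 76) (nat_lit 44446518) (nat_lit 163) (nat_lit 1) (nat_lit 161) (nat_lit 1) (nat_lit 162) (nat_lit 1) (nat_lit 439) (nat_lit 337) (nat_lit 244))))))) (XT.nd (nat_lit 45630) (nat_lit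 0) (nat_lit 9956) (XT.nd (nat_lit 468) (nat_lit 456) (nat_lit 0) (XT.nd (nat_lit 234) (nat_lit 228) (nat_lit 0) (XT.nd (nat_lit 78) (nat_lit 228) (nat_lit 0) (XT.lf (nat_lit 0) (nat_lit 160066030) (nat_lit 0) (nat_lit 285040366) (nat_lit 152) (nat_lit 160066030) (nat_lit 161) (nat_lit 3) (nat_lit 161) (nat_lit 1) (nat_lit 163) (nat_lit 1) (nat_lit 440) (nat_lit 337) (nat_lit 243)) (XT.nd (nat_lit 78) (nat_lit 152) (nat_lit 0) (XT.lf (nat_lit 76) (nat_lit 119089746) (nat_lit 0) (nat_lit 238112924) (nat_lit 76) (nat_lit 238112924) (nat_lit 161) (nat_lit 3) (nat_lit 160) (nat_lit 1) (nat_lit 161) (nat_lit 1) (nat_lit 441) (nat_lit 337) (nat_lit 242)) (XT.lf (nat_lit 152) (nat_lit 512585614) (nat_lit 0) (nat_lit 36566260) (nat_lit 76) (nat_lit 36566260) (nat_lit 160) (nat_lit 1) (nat_lit 158) (nat_lit 1) (nat_lit 159) (nat_lit 1) (nat_lit 442) (nat_lit 337) (nat_lit 241)))) (XT.nd (nat_lit 78) (nat_lit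 228) (nat_lit 0) (XT.lf (nat_lit 0) (nat_lit 157757439) (nat_lit 0) (nat_lit 260574134) (nat_lit 152) (nat_lit 157757439) (nat_lit 158) (nat_lit 3) (nat_lit 158) (nat_lit 1) (nat_lit 160) (nat_lit 1) (nat_lit 443) (nat_lit 337) (nat_lit 240)) (XT.nd (nat_lit 78) (nat_lit 152) (nat_lit 0) (XT.lf (nat_lit 76) (nat_lit 123625653) (nat_lit 0) (nat_lit 221546316) (nat_lit 76) (nat_lit 221546316) (nat_lit 158) (nat_lit 3) (nat_lit 157) (nat_lit 1) (nat_lit 158) (nat_lit 1) (nat_lit 444) (nat_lit 337) (nat_lit 239)) (XT.lf (nat_lit 152) (nat_lit 497434687) (nat_lit 0) (nat_lit 30083152) (nat_lit 76) (nat_lit 30083152) (nat_lit 157) (nat_lit 1) (nat_lit 155) (nat_lit 1) (nat_lit 156) (nat_lit 1) (nat_lit 445) (nat_lit 337) (nat_lit 238))))) (XT.nd (nat_lit 234) (nat_lit 228) (nat_lit 0) (XT.nd (nat_lit 78) (nat_lit 228) (nat_lit 0) (XT.lf (nat_lit 0) (nat_lit 154616692) (nat_lit 0) (nat_lit 239204242)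 (nat_lit 152) (nat_lit 154616692) (nat_lit 155) (nat_lit 3) (nat_lit 155) (nat_lit 1) (nat_lit 157) (nat_lit 1) (nat_lit 446) (nat_lit 337) (nat_lit 237)) (XT.nd (nat_lit 78) (nat_lit 152) (nat_lit 0) (XT.lf (nat_lit 76) (nat_lit 126135916) (nat_lit 0) (nat_lit 206695487) (nat_lit 76) (nat_lit 206695487) (nat_lit 155) (nat_lit 3) (nat_lit 154) (nat_lit 1) (nat_lit 155) (nat_lit 1) (nat_lit 447) (nat_lit 337) (nat_lit 236)) (XT.lf (nat_lit 152) (nat_lit 481363827) (nat_lit 0) (nat_lit 24749484) (nat_lit 76) (nat_lit 24749484) (nat_lit 154) (nat_lit 1) (nat_lit 152) (nat_lit 1) (nat_lit 153) (nat_lit 1) (nat_lit 448) (nat_lit 337) (nat_lit 235)))) (XT.nd (nat_lit 78) (nat_lit 228) (nat_lit 0) (XT.lf (nat_lit 0) (nat_lit 150850446) (nat_lit 0) (nat_lit 220440833) (nat_lit 152) (nat_lit 150850446) (nat_lit 152) (nat_lit 3) (nat_lit 152) (nat_lit 1) (nat_lit 154) (nat_lit 1) (nat_lit 449) (nat_lit 337)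 (nat_lit 234)) (XT.nd (nat_lit 78) (nat_lit 152) (nat_lit 0) (XT.lf (nat_lit 76) (nat_lit 127037839) (nat_lit 0) (nat_lit 193314398) (nat_lit 76) (nat_lit 193314398) (nat_lit 152) (nat_lit 3) (nat_lit 151) (nat_lit 1) (nat_lit 152) (nat_lit 1) (nat_lit 450) (nat_lit 337) (nat_lit 233)) (XT.lf (nat_lit 152) (nat_lit 464707859) (nat_lit 0) (nat_lit 20361462) (nat_lit 76) (nat_lit 20361462) (nat_lit 151) (nat_lit 1) (nat_lit 149) (nat_lit 1) (nat_lit 150) (nat_lit 1) (nat_lit 451) (nat_lit 337) (nat_lit 232)))))) (XT.nd (nat_lit 468) (nat_lit 912) (nat_lit 0) (XT.nd (nat_lit 234) (nat_lit 0) (nat_lit 76) (XT.nd (nat_lit 78) (nat_lit 0) (nat_lit 0) (XT.lf (nat_lit 836) (nat_lit 487383790) (nat_lit 0) (nat_lit 865348798) (nat_lit 836) (nat_lit 487383790) (nat_lit 303) (nat_lit 1) (nat_lit 292) (nat_lit 0) (nat_lit 303) (nat_lit 0) (nat_lit 344) (nat_lit 338) (nat_lit 338)) (XT.nd (nat_lit 78) (nat_lit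 0) (nat_lit 76) (XT.lf (nat_lit 836) (nat_lit 1889160417) (nat_lit 76) (nat_lit 851391560) (nat_lit 0) (nat_lit 851391560) (nat_lit 303) (nat_lit 1) (nat_lit 293) (nat_lit 1) (nat_lit 292) (nat_lit 0) (nat_lit 345) (nat_lit 338) (nat_lit 337)) (XT.lf (nat_lit 836) (nat_lit 900345409) (nat_lit 0) (nat_lit 1705692992) (nat_lit 760) (nat_lit 900345409) (nat_lit 304) (nat_lit 1) (nat_lit 293) (nat_lit 1) (nat_lit 303) (nat_lit 1) (nat_lit 346) (nat_lit 338) (nat_lit 336)))) (XT.nd (nat_lit 78) (nat_lit 0) (nat_lit 76) (XT.lf (nat_lit 836) (nat_lit 1688922882) (nat_lit 76) (nat_lit 867332710) (nat_lit 0) (nat_lit 867332710) (nat_lit 304) (nat_lit 1) (nat_lit 294) (nat_lit 1) (nat_lit 293) (nat_lit 1) (nat_lit 347) (nat_lit 338) (nat_lit 335)) (XT.nd (nat_lit 78) (nat_lit 0) (nat_lit 0) (XT.lf (nat_lit 836) (nat_lit 777394984) (nat_lit 0) (nat_lit 1788627028) (nat_lit 760) (nat_lit 777394984) (nat_lit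 305) (nat_lit 1) (nat_lit 294) (nat_lit 1) (nat_lit 304) (nat_lit 1) (nat_lit 348) (nat_lit 338) (nat_lit 334)) (XT.lf (nat_lit 836) (nat_lit 1398195512) (nat_lit 76) (nat_lit 933747052) (nat_lit 0) (nat_lit 933747052) (nat_lit 305) (nat_lit 1) (nat_lit 295) (nat_lit 1) (nat_lit 294) (nat_lit 1) (nat_lit 349) (nat_lit 338) (nat_lit 333))))) (XT.nd (nat_lit 234) (nat_lit 1140) (nat_lit 0) (XT.nd (nat_lit 78) (nat_lit 0) (nat_lit 0) (XT.lf (nat_lit 836) (nat_lit 613068348) (nat_lit 0) (nat_lit 1964435357) (nat_lit 760) (nat_lit 613068348) (nat_lit 306) (nat_lit 1) (nat_lit 295) (nat_lit 1) (nat_lit 305) (nat_lit 1) (nat_lit 350) (nat_lit 338) (nat_lit 332)) (XT.nd (nat_lit 78) (nat_lit 0) (nat_lit 76) (XT.lf (nat_lit 836) (nat_lit 1030586717) (nat_lit 76) (nat_lit 1043468008) (nat_lit 0) (nat_lit 1043468008) (nat_lit 306) (nat_lit 1) (nat_lit 296) (nat_lit 1) (nat_lit 295) (nat_lit 1) (nat_lit 351)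 (nat_lit 338) (nat_lit 331)) (XT.lf (nat_lit 836) (nat_lit 413726888) (nat_lit 0) (nat_lit 2219693660) (nat_lit 760) (nat_lit 413726888) (nat_lit 307) (nat_lit 1) (nat_lit 296) (nat_lit 1) (nat_lit 306) (nat_lit 1) (nat_lit 352) (nat_lit 338) (nat_lit 330)))) (XT.nd (nat_lit 156) (nat_lit 1216) (nat_lit 0) (XT.nd (nat_lit 78) (nat_lit 0) (nat_lit 76) (XT.lf (nat_lit 836) (nat_lit 598192324) (nat_lit 76) (nat_lit 1190113093) (nat_lit 0) (nat_lit 1190113093) (nat_lit 307) (nat_lit 1) (nat_lit 297) (nat_lit 1) (nat_lit 296) (nat_lit 1) (nat_lit 353) (nat_lit 338) (nat_lit 329)) (XT.lf (nat_lit 76) (nat_lit 185020825) (nat_lit 0) (nat_lit 2542453766) (nat_lit 760) (nat_lit 185020825) (nat_lit 298) (nat_lit 1) (nat_lit 297) (nat_lit 1) (nat_lit 307) (nat_lit 1) (nat_lit 354) (nat_lit 338) (nat_lit 328))) (XT.nd (nat_lit 78) (nat_lit 532) (nat_lit 0) (XT.lf (nat_lit 836) (nat_lit 111747977) (nat_lit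 0) (nat_lit 1368005406) (nat_lit 760) (nat_lit 1368005406) (nat_lit 298) (nat_lit 1) (nat_lit 287) (nat_lit 1) (nat_lit 297) (nat_lit 1) (nat_lit 355) (nat_lit 338) (nat_lit 327)) (XT.lf (nat_lit 532) (nat_lit 2651920243) (nat_lit 0) (nat_lit 66941563) (nat_lit 456) (nat_lit 66941563) (nat_lit 287) (nat_lit 1) (nat_lit 280) (nat_lit 1) (nat_lit 286) (nat_lit 1) (nat_lit 356) (nat_lit 338) (nat_lit 326))))))))
noncomputable def ec51 : XT := (XT.nd (nat_lit 1950) (nat_lit 2660) (nat_lit 0) (XT.nd (nat_lit 936) (nat_lit 2052) (nat_lit 0) (XT.nd (nat_lit 468) (nat_lit 988) (nat_lit 0) (XT.nd (nat_lit 234) (nat_lit 684) (nat_lit 0) (XT.nd (nat_lit 78) (nat_lit 380) (nat_lit 0) (XT.lf (nat_lit 76) (nat_lit 1159414914) (nat_lit 0) (nat_lit 405815100) (nat_lit 532) (nat_lit 1159414914) (nat_lit 281) (nat_lit 1) (nat_lit 280) (nat_lit 1) (nat_lit 287) (nat_lit 1) (nat_lit 357) (nat_lit 338) (nat_lit 325))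 (XT.nd (nat_lit 78) (nat_lit 0) (nat_lit 0) (XT.lf (nat_lit 456) (nat_lit 1995055459) (nat_lit 0) (nat_lit 335515826) (nat_lit 380) (nat_lit 335515826) (nat_lit 281) (nat_lit 1) (nat_lit 275) (nat_lit 1) (nat_lit 280) (nat_lit 1) (nat_lit 358) (nat_lit 338) (nat_lit 324)) (XT.lf (nat_lit 76) (nat_lit 826996544) (nat_lit 0) (nat_lit 954767251) (nat_lit 456) (nat_lit 826996544) (nat_lit 276) (nat_lit 1) (nat_lit 275) (nat_lit 1) (nat_lit 281) (nat_lit 1) (nat_lit 359) (nat_lit 338) (nat_lit 323)))) (XT.nd (nat_lit 78) (nat_lit 304) (nat_lit 0) (XT.lf (nat_lit 456) (nat_lit 1313772312) (nat_lit 0) (nat_lit 619828897) (nat_lit 380) (nat_lit 619828897) (nat_lit 276) (nat_lit 1) (nat_lit 270) (nat_lit 1) (nat_lit 275) (nat_lit 1) (nat_lit 360) (nat_lit 338) (nat_lit 322)) (XT.nd (nat_lit 78) (nat_lit 304) (nat_lit 0) (XT.lf (nat_lit 76) (nat_lit 484107637) (nat_lit 0) (nat_lit 1531493789) (nat_lit 456)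 (nat_lit 484107637) (nat_lit 271) (nat_lit 1) (nat_lit 270) (nat_lit 1) (nat_lit 276) (nat_lit 1) (nat_lit 361) (nat_lit 338) (nat_lit 321)) (XT.lf (nat_lit 380) (nat_lit 614411820) (nat_lit 0) (nat_lit 916479041) (nat_lit 304) (nat_lit 916479041) (nat_lit 271) (nat_lit 1) (nat_lit 266) (nat_lit 1) (nat_lit 270) (nat_lit 1) (nat_lit 362) (nat_lit 338) (nat_lit 320))))) (XT.nd (nat_lit 234) (nat_lit 304) (nat_lit 0) (XT.nd (nat_lit 78) (nat_lit 684) (nat_lit 0) (XT.lf (nat_lit 76) (nat_lit 133691912) (nat_lit 0) (nat_lit 2129659622) (nat_lit 380) (nat_lit 133691912) (nat_lit 267) (nat_lit 1) (nat_lit 266) (nat_lit 1) (nat_lit 271) (nat_lit 1) (nat_lit 363) (nat_lit 338) (nat_lit 319)) (XT.nd (nat_lit 78) (nat_lit 304) (nat_lit 0) (XT.lf (nat_lit 76) (nat_lit 1126526469) (nat_lit 0) (nat_lit 94348780) (nat_lit 380) (nat_lit 1126526469) (nat_lit 262) (nat_lit 1) (nat_lit 261) (nat_lit 1) (nat_lit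 266) (nat_lit 1) (nat_lit 364) (nat_lit 338) (nat_lit 318)) (XT.lf (nat_lit 380) (nat_lit 1863452436) (nat_lit 0) (nat_lit 218099017) (nat_lit 304) (nat_lit 218099017) (nat_lit 262) (nat_lit 1) (nat_lit 257) (nat_lit 1) (nat_lit 261) (nat_lit 1) (nat_lit 365) (nat_lit 338) (nat_lit 317)))) (XT.nd (nat_lit 78) (nat_lit 304) (nat_lit 0) (XT.lf (nat_lit 76) (nat_lit 730927968) (nat_lit 0) (nat_lit 790862467) (nat_lit 380) (nat_lit 730927968) (nat_lit 258) (nat_lit 1) (nat_lit 257) (nat_lit 1) (nat_lit 262) (nat_lit 1) (nat_lit 366) (nat_lit 338) (nat_lit 316)) (XT.nd (nat_lit 78) (nat_lit 0) (nat_lit 0) (XT.lf (nat_lit 380) (nat_lit 1066627234) (nat_lit 0) (nat_lit 570393271) (nat_lit 304) (nat_lit 570393271) (nat_lit 258) (nat_lit 1) (nat_lit 253) (nat_lit 1) (nat_lit 257) (nat_lit 1) (nat_lit 367) (nat_lit 338) (nat_lit 315)) (XT.lf (nat_lit 76) (nat_lit 336366626) (nat_lit 0) (nat_lit 1490700608)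 (nat_lit 380) (nat_lit 336366626) (nat_lit 254) (nat_lit 1) (nat_lit 253) (nat_lit 1) (nat_lit 258) (nat_lit 1) (nat_lit 368) (nat_lit 338) (nat_lit 314)))))) (XT.nd (nat_lit 468) (nat_lit 988) (nat_lit 0) (XT.nd (nat_lit 234) (nat_lit 456) (nat_lit 0) (XT.nd (nat_lit 78) (nat_lit 380) (nat_lit 0) (XT.lf (nat_lit 304) (nat_lit 273552571) (nat_lit 0) (nat_lit 923425362) (nat_lit 228) (nat_lit 923425362) (nat_lit 254) (nat_lit 1) (nat_lit 250) (nat_lit 1) (nat_lit 253) (nat_lit 1) (nat_lit 369) (nat_lit 338) (nat_lit 313)) (XT.nd (nat_lit 78) (nat_lit 0) (nat_lit 0) (XT.lf (nat_lit 380) (nat_lit 1969721350) (nat_lit 0) (nat_lit 54655987) (nat_lit 304) (nat_lit 54655987) (nat_lit 250) (nat_lit 1) (nat_lit 245) (nat_lit 1) (nat_lit 249) (nat_lit 1) (nat_lit 370) (nat_lit 338) (nat_lit 312)) (XT.lf (nat_lit 76) (nat_lit 770766526) (nat_lit 0) (nat_lit 496359281) (nat_lit 380) (nat_lit 770766526) (nat_lit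 246) (nat_lit 1) (nat_lit 245) (nat_lit 1) (nat_lit 250) (nat_lit 1) (nat_lit 371) (nat_lit 338) (nat_lit 311)))) (XT.nd (nat_lit 78) (nat_lit 228) (nat_lit 0) (XT.lf (nat_lit 304) (nat_lit 1125728878) (nat_lit 0) (nat_lit 436300164) (nat_lit 228) (nat_lit 436300164) (nat_lit 246) (nat_lit 1) (nat_lit 242) (nat_lit 1) (nat_lit 245) (nat_lit 1) (nat_lit 372) (nat_lit 338) (nat_lit 310)) (XT.nd (nat_lit 78) (nat_lit 228) (nat_lit 0) (XT.lf (nat_lit 76) (nat_lit 355635166) (nat_lit 0) (nat_lit 1248500919) (nat_lit 304) (nat_lit 355635166) (nat_lit 243) (nat_lit 1) (nat_lit 242) (nat_lit 1) (nat_lit 246) (nat_lit 1) (nat_lit 373) (nat_lit 338) (nat_lit 309)) (XT.lf (nat_lit 304) (nat_lit 296410795) (nat_lit 0) (nat_lit 812839841) (nat_lit 228) (nat_lit 812839841) (nat_lit 243) (nat_lit 1) (nat_lit 239) (nat_lit 1) (nat_lit 242) (nat_lit 1) (nat_lit 374) (nat_lit 338) (nat_lit 308))))) (XT.nd (nat_lit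 234) (nat_lit 456) (nat_lit 0) (XT.nd (nat_lit 78) (nat_lit 228) (nat_lit 0) (XT.lf (nat_lit 304) (nat_lit 1783927078) (nat_lit 0) (nat_lit 50941257) (nat_lit 228) (nat_lit 50941257) (nat_lit 239) (nat_lit 1) (nat_lit 235) (nat_lit 1) (nat_lit 238) (nat_lit 1) (nat_lit 375) (nat_lit 338) (nat_lit 307)) (XT.nd (nat_lit 78) (nat_lit 228) (nat_lit 0) (XT.lf (nat_lit 76) (nat_lit 674808525) (nat_lit 0) (nat_lit 500026341) (nat_lit 304) (nat_lit 674808525) (nat_lit 236) (nat_lit 1) (nat_lit 235) (nat_lit 1) (nat_lit 239) (nat_lit 1) (nat_lit 376) (nat_lit 338) (nat_lit 306)) (XT.lf (nat_lit 304) (nat_lit 927923512) (nat_lit 0) (nat_lit 443445917) (nat_lit 228) (nat_lit 443445917) (nat_lit 236) (nat_lit 1) (nat_lit 232) (nat_lit 1) (nat_lit 235) (nat_lit 1) (nat_lit 377) (nat_lit 338) (nat_lit 305)))) (XT.nd (nat_lit 156) (nat_lit 304) (nat_lit 0) (XT.nd (nat_lit 78) (nat_lit 152) (nat_lit 0) (XT.lf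 (nat_lit 76) (nat_lit 255549378) (nat_lit 0) (nat_lit 1269822649) (nat_lit 304) (nat_lit 255549378) (nat_lit 233) (nat_lit 1) (nat_lit 232) (nat_lit 1) (nat_lit 236) (nat_lit 1) (nat_lit 378) (nat_lit 338) (nat_lit 304)) (XT.lf (nat_lit 228) (nat_lit 93641789) (nat_lit 0) (nat_lit 827012193) (nat_lit 152) (nat_lit 827012193) (nat_lit 233) (nat_lit 1) (nat_lit 230) (nat_lit 1) (nat_lit 232) (nat_lit 1) (nat_lit 379) (nat_lit 338) (nat_lit 303))) (XT.nd (nat_lit 78) (nat_lit 0) (nat_lit 0) (XT.lf (nat_lit 304) (nat_lit 1414896033) (nat_lit 0) (nat_lit 150272214) (nat_lit 228) (nat_lit 150272214) (nat_lit 230) (nat_lit 1) (nat_lit 226) (nat_lit 1) (nat_lit 229) (nat_lit 1) (nat_lit 380) (nat_lit 338) (nat_lit 302)) (XT.lf (nat_lit 76) (nat_lit 494189599) (nat_lit 0) (nat_lit 695195964) (nat_lit 304) (nat_lit 494189599) (nat_lit 227) (nat_lit 1) (nat_lit 226) (nat_lit 1) (nat_lit 230) (nat_lit 1) (nat_lit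 381) (nat_lit 338) (nat_lit 301))))))) (XT.nd (nat_lit 1014) (nat_lit 1292) (nat_lit 0) (XT.nd (nat_lit 468) (nat_lit 684) (nat_lit 0) (XT.nd (nat_lit 234) (nat_lit 304) (nat_lit 0) (XT.nd (nat_lit 78) (nat_lit 228) (nat_lit 0) (XT.lf (nat_lit 228) (nat_lit 570959849) (nat_lit 0) (nat_lit 540866732) (nat_lit 152) (nat_lit 540866732) (nat_lit 227) (nat_lit 1) (nat_lit 224) (nat_lit 1) (nat_lit 226) (nat_lit 1) (nat_lit 382) (nat_lit 338) (nat_lit 300)) (XT.nd (nat_lit 78) (nat_lit 228) (nat_lit 0) (XT.lf (nat_lit 76) (nat_lit 82028807) (nat_lit 0) (nat_lit 1458778699) (nat_lit 228) (nat_lit 82028807) (nat_lit 225) (nat_lit 1) (nat_lit 224) (nat_lit 1) (nat_lit 227) (nat_lit 1) (nat_lit 383) (nat_lit 338) (nat_lit 299)) (XT.lf (nat_lit 76) (nat_lit 676998142) (nat_lit 0) (nat_lit 239091563) (nat_lit 228) (nat_lit 676998142) (nat_lit 222) (nat_lit 1) (nat_lit 221) (nat_lit 1) (nat_lit 224) (nat_lit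 1) (nat_lit 384) (nat_lit 338) (nat_lit 298)))) (XT.nd (nat_lit 78) (nat_lit 152) (nat_lit 0) (XT.lf (nat_lit 228) (nat_lit 940130574) (nat_lit 0) (nat_lit 312097878) (nat_lit 152) (nat_lit 312097878) (nat_lit 222) (nat_lit 1) (nat_lit 219) (nat_lit 1) (nat_lit 221) (nat_lit 1) (nat_lit 385) (nat_lit 338) (nat_lit 297)) (XT.nd (nat_lit 78) (nat_lit 152) (nat_lit 0) (XT.lf (nat_lit 76) (nat_lit 265280389) (nat_lit 0) (nat_lit 1005639730) (nat_lit 228) (nat_lit 265280389) (nat_lit 220) (nat_lit 1) (nat_lit 219) (nat_lit 1) (nat_lit 222) (nat_lit 1) (nat_lit 386) (nat_lit 338) (nat_lit 296)) (XT.lf (nat_lit 228) (nat_lit 124274311) (nat_lit 0) (nat_lit 692183659) (nat_lit 152) (nat_lit 692183659) (nat_lit 220) (nat_lit 1) (nat_lit 217) (nat_lit 1) (nat_lit 219) (nat_lit 1) (nat_lit 387) (nat_lit 338) (nat_lit 295))))) (XT.nd (nat_lit 234) (nat_lit 304) (nat_lit 0) (XT.nd (nat_lit 78) (nat_lit 152)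 (nat_lit 0) (XT.lf (nat_lit 228) (nat_lit 1221448220) (nat_lit 0) (nat_lit 130216535) (nat_lit 152) (nat_lit 130216535) (nat_lit 217) (nat_lit 1) (nat_lit 214) (nat_lit 1) (nat_lit 216) (nat_lit 1) (nat_lit 388) (nat_lit 338) (nat_lit 294)) (XT.nd (nat_lit 78) (nat_lit 152) (nat_lit 0) (XT.lf (nat_lit 76) (nat_lit 406623105) (nat_lit 0) (nat_lit 642103136) (nat_lit 228) (nat_lit 406623105) (nat_lit 215) (nat_lit 1) (nat_lit 214) (nat_lit 1) (nat_lit 217) (nat_lit 1) (nat_lit 389) (nat_lit 338) (nat_lit 293)) (XT.lf (nat_lit 228) (nat_lit 414125891) (nat_lit 0) (nat_lit 507730886) (nat_lit 152) (nat_lit 507730886) (nat_lit 215) (nat_lit 1) (nat_lit 212) (nat_lit 1) (nat_lit 214) (nat_lit 1) (nat_lit 390) (nat_lit 338) (nat_lit 292)))) (XT.nd (nat_lit 156) (nat_lit 152) (nat_lit 0) (XT.nd (nat_lit 78) (nat_lit 152) (nat_lit 0) (XT.lf (nat_lit 76) (nat_lit 13611175) (nat_lit 0) (nat_lit 1377507092)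 (nat_lit 228) (nat_lit 13611175) (nat_lit 213) (nat_lit 1) (nat_lit 212) (nat_lit 1) (nat_lit 215) (nat_lit 1) (nat_lit 391) (nat_lit 338) (nat_lit 291)) (XT.lf (nat_lit 76) (nat_lit 513935809) (nat_lit 0) (nat_lit 351841593) (nat_lit 152) (nat_lit 513935809) (nat_lit 211) (nat_lit 1) (nat_lit 210) (nat_lit 1) (nat_lit 212) (nat_lit 1) (nat_lit 392) (nat_lit 338) (nat_lit 290))) (XT.nd (nat_lit 78) (nat_lit 0) (nat_lit 0) (XT.lf (nat_lit 228) (nat_lit 637735831) (nat_lit 0) (nat_lit 358920673) (nat_lit 152) (nat_lit 358920673) (nat_lit 211) (nat_lit 1) (nat_lit 208) (nat_lit 1) (nat_lit 210) (nat_lit 1) (nat_lit 393) (nat_lit 338) (nat_lit 289)) (XT.lf (nat_lit 76) (nat_lit 127861626) (nat_lit 0) (nat_lit 1076369382) (nat_lit 228) (nat_lit 127861626) (nat_lit 209) (nat_lit 1) (nat_lit 208) (nat_lit 1) (nat_lit 211) (nat_lit 1) (nat_lit 394) (nat_lit 338) (nat_lit 288)))))) (XT.nd (nat_lit 468)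 (nat_lit 684) (nat_lit 0) (XT.nd (nat_lit 234) (nat_lit 304) (nat_lit 0) (XT.nd (nat_lit 78) (nat_lit 152) (nat_lit 0) (XT.lf (nat_lit 76) (nat_lit 593679094) (nat_lit 0) (nat_lit 121443573) (nat_lit 152) (nat_lit 593679094) (nat_lit 207) (nat_lit 1) (nat_lit 206) (nat_lit 1) (nat_lit 208) (nat_lit 1) (nat_lit 395) (nat_lit 338) (nat_lit 287)) (XT.nd (nat_lit 78) (nat_lit 0) (nat_lit 0) (XT.lf (nat_lit 228) (nat_lit 807555833) (nat_lit 0) (nat_lit 239293703) (nat_lit 152) (nat_lit 239293703) (nat_lit 207) (nat_lit 1) (nat_lit 204) (nat_lit 1) (nat_lit 206) (nat_lit 1) (nat_lit 396) (nat_lit 338) (nat_lit 286)) (XT.lf (nat_lit 76) (nat_lit 216300342) (nat_lit 0) (nat_lit 831332601) (nat_lit 228) (nat_lit 216300342) (nat_lit 205) (nat_lit 1) (nat_lit 204) (nat_lit 1) (nat_lit 207) (nat_lit 1) (nat_lit 397) (nat_lit 338) (nat_lit 285)))) (XT.nd (nat_lit 78) (nat_lit 228) (nat_lit 0) (XT.lf (nat_lit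 152) (nat_lit 62091951) (nat_lit 0) (nat_lit 590025245) (nat_lit 76) (nat_lit 590025245) (nat_lit 205) (nat_lit 1) (nat_lit 203) (nat_lit 1) (nat_lit 204) (nat_lit 1) (nat_lit 398) (nat_lit 338) (nat_lit 284)) (XT.nd (nat_lit 78) (nat_lit 0) (nat_lit 0) (XT.lf (nat_lit 228) (nat_lit 933796265) (nat_lit 0) (nat_lit 143542548) (nat_lit 152) (nat_lit 143542548) (nat_lit 203) (nat_lit 1) (nat_lit 200) (nat_lit 1) (nat_lit 202) (nat_lit 1) (nat_lit 399) (nat_lit 338) (nat_lit 283)) (XT.lf (nat_lit 76) (nat_lit 283768222) (nat_lit 0) (nat_lit 632321146) (nat_lit 228) (nat_lit 283768222) (nat_lit 201) (nat_lit 1) (nat_lit 200) (nat_lit 1) (nat_lit 203) (nat_lit 1) (nat_lit 400) (nat_lit 338) (nat_lit 282))))) (XT.nd (nat_lit 234) (nat_lit 380) (nat_lit 0) (XT.nd (nat_lit 78) (nat_lit 228) (nat_lit 0) (XT.lf (nat_lit 152) (nat_lit 208518839) (nat_lit 0) (nat_lit 485415229) (nat_lit 76) (nat_lit 485415229)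 (nat_lit 201) (nat_lit 1) (nat_lit 199) (nat_lit 1) (nat_lit 200) (nat_lit 1) (nat_lit 401) (nat_lit 338) (nat_lit 281)) (XT.nd (nat_lit 78) (nat_lit 0) (nat_lit 0) (XT.lf (nat_lit 228) (nat_lit 1024825148) (nat_lit 0) (nat_lit 67307120) (nat_lit 152) (nat_lit 67307120) (nat_lit 199) (nat_lit 1) (nat_lit 196) (nat_lit 1) (nat_lit 198) (nat_lit 1) (nat_lit 402) (nat_lit 338) (nat_lit 280)) (XT.lf (nat_lit 76) (nat_lit 334235290) (nat_lit 0) (nat_lit 471051941) (nat_lit 228) (nat_lit 334235290) (nat_lit 197) (nat_lit 1) (nat_lit 196) (nat_lit 1) (nat_lit 199) (nat_lit 1) (nat_lit 403) (nat_lit 338) (nat_lit 279)))) (XT.nd (nat_lit 156) (nat_lit 76) (nat_lit 0) (XT.nd (nat_lit 78) (nat_lit 228) (nat_lit 0) (XT.lf (nat_lit 152) (nat_lit 321487667) (nat_lit 0) (nat_lit 399352310) (nat_lit 76) (nat_lit 399352310) (nat_lit 197) (nat_lit 1) (nat_lit 195) (nat_lit 1) (nat_lit 196) (nat_lit 1) (nat_lit 404)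 (nat_lit 338) (nat_lit 278)) (XT.lf (nat_lit 228) (nat_lit 1087496328) (nat_lit 0) (nat_lit 7006411) (nat_lit 152) (nat_lit 7006411) (nat_lit 195) (nat_lit 1) (nat_lit 192) (nat_lit 1) (nat_lit 194) (nat_lit 1) (nat_lit 405) (nat_lit 338) (nat_lit 277))) (XT.nd (nat_lit 78) (nat_lit 76) (nat_lit 0) (XT.lf (nat_lit 76) (nat_lit 370955697) (nat_lit 0) (nat_lit 340716331) (nat_lit 228) (nat_lit 370955697) (nat_lit 193) (nat_lit 1) (nat_lit 192) (nat_lit 1) (nat_lit 195) (nat_lit 1) (nat_lit 406) (nat_lit 338) (nat_lit 276)) (XT.lf (nat_lit 152) (nat_lit 407287463) (nat_lit 0) (nat_lit 328548134) (nat_lit 76) (nat_lit 328548134) (nat_lit 193) (nat_lit 1) (nat_lit 191) (nat_lit 1) (nat_lit 192) (nat_lit 1) (nat_lit 407) (nat_lit 338) (nat_lit 275))))))))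
noncomputable def ec52 : XT := (XT.nd (nat_lit 1950) (nat_lit 1368) (nat_lit 0) (XT.nd (nat_lit 936) (nat_lit 912) (nat_lit 0) (XT.nd (nat_lit 468) (nat_lit 456) (nat_lit 0) (XT.nd (nat_lit 234) (nat_lit 228) (nat_lit 0) (XT.nd (nat_lit 78) (nat_lit 228) (nat_lit 0) (XT.lf (nat_lit 0) (nat_lit 40960580) (nat_lit 0) (nat_lit 964769393) (nat_lit 152) (nat_lit 40960580) (nat_lit 191) (nat_lit 3) (nat_lit 191) (nat_lit 1) (nat_lit 193) (nat_lit 1) (nat_lit 408) (nat_lit 338) (nat_lit 274)) (XT.nd (nat_lit 78) (nat_lit 76) (nat_lit 0) (XT.lf (nat_lit 76) (nat_lit 396595215) (nat_lit 0) (nat_lit 235718391) (nat_lit 152) (nat_lit 396595215) (nat_lit 190) (nat_lit 1) (nat_lit 189) (nat_lit 1) (nat_lit 191) (nat_lit 1) (nat_lit 409) (nat_lit 338) (nat_lit 273)) (XT.lf (nat_lit 152) (nat_lit 471075227) (nat_lit 0) (nat_lit 270297363) (nat_lit 76) (nat_lit 270297363) (nat_lit 190) (nat_lit 1) (nat_lit 188)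 (nat_lit 1) (nat_lit 189) (nat_lit 1) (nat_lit 410) (nat_lit 338) (nat_lit 272)))) (XT.nd (nat_lit 78) (nat_lit 228) (nat_lit 0) (XT.lf (nat_lit 0) (nat_lit 78288148) (nat_lit 0) (nat_lit 838307945) (nat_lit 152) (nat_lit 78288148) (nat_lit 188) (nat_lit 3) (nat_lit 188) (nat_lit 1) (nat_lit 190) (nat_lit 1) (nat_lit 411) (nat_lit 338) (nat_lit 271)) (XT.nd (nat_lit 78) (nat_lit 76) (nat_lit 0) (XT.lf (nat_lit 76) (nat_lit 413336098) (nat_lit 0) (nat_lit 151459648) (nat_lit 152) (nat_lit 413336098) (nat_lit 187) (nat_lit 1) (nat_lit 186) (nat_lit 1) (nat_lit 188) (nat_lit 1) (nat_lit 412) (nat_lit 338) (nat_lit 270)) (XT.lf (nat_lit 152) (nat_lit 517077443) (nat_lit 0) (nat_lit 222374309) (nat_lit 76) (nat_lit 222374309) (nat_lit 187) (nat_lit 1) (nat_lit 185) (nat_lit 1) (nat_lit 186) (nat_lit 1) (nat_lit 413) (nat_lit 338) (nat_lit 269))))) (XT.nd (nat_lit 234) (nat_lit 228) (nat_lit 0) (XT.nd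 (nat_lit 78) (nat_lit 228) (nat_lit 0) (XT.lf (nat_lit 0) (nat_lit 106874308) (nat_lit 0) (nat_lit 732144476) (nat_lit 152) (nat_lit 106874308) (nat_lit 185) (nat_lit 3) (nat_lit 185) (nat_lit 1) (nat_lit 187) (nat_lit 1) (nat_lit 414) (nat_lit 338) (nat_lit 268)) (XT.nd (nat_lit 78) (nat_lit 76) (nat_lit 0) (XT.lf (nat_lit 76) (nat_lit 422963329) (nat_lit 0) (nat_lit 84161984) (nat_lit 152) (nat_lit 422963329) (nat_lit 184) (nat_lit 1) (nat_lit 183) (nat_lit 1) (nat_lit 185) (nat_lit 1) (nat_lit 415) (nat_lit 338) (nat_lit 267)) (XT.lf (nat_lit 152) (nat_lit 548755833) (nat_lit 0) (nat_lit 182947894) (nat_lit 76) (nat_lit 182947894) (nat_lit 184) (nat_lit 1) (nat_lit 182) (nat_lit 1) (nat_lit 183) (nat_lit 1) (nat_lit 416) (nat_lit 338) (nat_lit 266)))) (XT.nd (nat_lit 78) (nat_lit 228) (nat_lit 0) (XT.lf (nat_lit 0) (nat_lit 128370001) (nat_lit 0) (nat_lit 642781316) (nat_lit 152) (nat_lit 128370001)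 (nat_lit 182) (nat_lit 3) (nat_lit 182) (nat_lit 1) (nat_lit 184) (nat_lit 1) (nat_lit 417) (nat_lit 338) (nat_lit 265)) (XT.nd (nat_lit 78) (nat_lit 76) (nat_lit 0) (XT.lf (nat_lit 76) (nat_lit 426935547) (nat_lit 0) (nat_lit 30721946) (nat_lit 152) (nat_lit 426935547) (nat_lit 181) (nat_lit 1) (nat_lit 180) (nat_lit 1) (nat_lit 182) (nat_lit 1) (nat_lit 418) (nat_lit 338) (nat_lit 264)) (XT.lf (nat_lit 152) (nat_lit 568943679) (nat_lit 0) (nat_lit 150511685) (nat_lit 76) (nat_lit 150511685) (nat_lit 181) (nat_lit 1) (nat_lit 179) (nat_lit 1) (nat_lit 180) (nat_lit 1) (nat_lit 419) (nat_lit 338) (nat_lit 263)))))) (XT.nd (nat_lit 468) (nat_lit 456) (nat_lit 0) (XT.nd (nat_lit 234) (nat_lit 228) (nat_lit 0) (XT.nd (nat_lit 78) (nat_lit 228) (nat_lit 0) (XT.lf (nat_lit 0) (nat_lit 144128644) (nat_lit 0) (nat_lit 567336106) (nat_lit 152) (nat_lit 144128644) (nat_lit 179) (nat_lit 3) (nat_lit 179)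 (nat_lit 1) (nat_lit 181) (nat_lit 1) (nat_lit 420) (nat_lit 338) (nat_lit 262)) (XT.nd (nat_lit 78) (nat_lit 152) (nat_lit 0) (XT.lf (nat_lit 76) (nat_lit 11786335) (nat_lit 0) (nat_lit 414841061) (nat_lit 76) (nat_lit 414841061) (nat_lit 179) (nat_lit 3) (nat_lit 178) (nat_lit 1) (nat_lit 179) (nat_lit 1) (nat_lit 421) (nat_lit 338) (nat_lit 261)) (XT.lf (nat_lit 152) (nat_lit 579957940) (nat_lit 0) (nat_lit 123826336) (nat_lit 76) (nat_lit 123826336) (nat_lit 178) (nat_lit 1) (nat_lit 176) (nat_lit 1) (nat_lit 177) (nat_lit 1) (nat_lit 422) (nat_lit 338) (nat_lit 260)))) (XT.nd (nat_lit 78) (nat_lit 228) (nat_lit 0) (XT.lf (nat_lit 0) (nat_lit 155259113) (nat_lit 0) (nat_lit 503432939) (nat_lit 152) (nat_lit 155259113) (nat_lit 176) (nat_lit 3) (nat_lit 176) (nat_lit 1) (nat_lit 178) (nat_lit 1) (nat_lit 423) (nat_lit 338) (nat_lit 259)) (XT.nd (nat_lit 78) (nat_lit 152) (nat_lit 0) (XT.lf (nat_lit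 76) (nat_lit 45789088) (nat_lit 0) (nat_lit 377383208) (nat_lit 76) (nat_lit 377383208) (nat_lit 176) (nat_lit 3) (nat_lit 175) (nat_lit 1) (nat_lit 176) (nat_lit 1) (nat_lit 424) (nat_lit 338) (nat_lit 258)) (XT.lf (nat_lit 152) (nat_lit 583691469) (nat_lit 0) (nat_lit 101872233) (nat_lit 76) (nat_lit 101872233) (nat_lit 175) (nat_lit 1) (nat_lit 173) (nat_lit 1) (nat_lit 174) (nat_lit 1) (nat_lit 425) (nat_lit 338) (nat_lit 257))))) (XT.nd (nat_lit 234) (nat_lit 228) (nat_lit 0) (XT.nd (nat_lit 78) (nat_lit 228) (nat_lit 0) (XT.lf (nat_lit 0) (nat_lit 162669314) (nat_lit 0) (nat_lit 449112782) (nat_lit 152) (nat_lit 162669314) (nat_lit 173) (nat_lit 3) (nat_lit 173) (nat_lit 1) (nat_lit 175) (nat_lit 1) (nat_lit 426) (nat_lit 338) (nat_lit 256)) (XT.nd (nat_lit 78) (nat_lit 152) (nat_lit 0) (XT.lf (nat_lit 76) (nat_lit 72044550) (nat_lit 0) (nat_lit 344847853) (nat_lit 76) (nat_lit 344847853)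 (nat_lit 173) (nat_lit 3) (nat_lit 172) (nat_lit 1) (nat_lit 173) (nat_lit 1) (nat_lit 427) (nat_lit 338) (nat_lit 255)) (XT.lf (nat_lit 152) (nat_lit 581688832) (nat_lit 0) (nat_lit 83810538) (nat_lit 76) (nat_lit 83810538) (nat_lit 172) (nat_lit 1) (nat_lit 170) (nat_lit 1) (nat_lit 171) (nat_lit 1) (nat_lit 428) (nat_lit 338) (nat_lit 254)))) (XT.nd (nat_lit 156) (nat_lit 152) (nat_lit 0) (XT.nd (nat_lit 78) (nat_lit 76) (nat_lit 0) (XT.lf (nat_lit 0) (nat_lit 167102026) (nat_lit 0) (nat_lit 402759776) (nat_lit 152) (nat_lit 167102026) (nat_lit 170) (nat_lit 3) (nat_lit 170) (nat_lit 1) (nat_lit 172) (nat_lit 1) (nat_lit 429) (nat_lit 338) (nat_lit 253)) (XT.lf (nat_lit 76) (nat_lit 92008138) (nat_lit 0) (nat_lit 316444090) (nat_lit 76) (nat_lit 316444090) (nat_lit 170) (nat_lit 3) (nat_lit 169) (nat_lit 1) (nat_lit 170) (nat_lit 1) (nat_lit 430) (nat_lit 338) (nat_lit 252))) (XT.nd (nat_lit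 78) (nat_lit 0) (nat_lit 0) (XT.lf (nat_lit 152) (nat_lit 575208666) (nat_lit 0) (nat_lit 68951137) (nat_lit 76) (nat_lit 68951137) (nat_lit 169) (nat_lit 1) (nat_lit 167) (nat_lit 1) (nat_lit 168) (nat_lit 1) (nat_lit 431) (nat_lit 338) (nat_lit 251)) (XT.lf (nat_lit 0) (nat_lit 169164373) (nat_lit 0) (nat_lit 363040587) (nat_lit 152) (nat_lit 169164373) (nat_lit 167) (nat_lit 3) (nat_lit 167) (nat_lit 1) (nat_lit 169) (nat_lit 1) (nat_lit 432) (nat_lit 338) (nat_lit 250))))))) (XT.nd (nat_lit 936) (nat_lit 456) (nat_lit 0) (XT.nd (nat_lit 468) (nat_lit 456) (nat_lit 0) (XT.nd (nat_lit 234) (nat_lit 228) (nat_lit 0) (XT.nd (nat_lit 78) (nat_lit 152) (nat_lit 0) (XT.lf (nat_lit 76) (nat_lit 106873330) (nat_lit 0) (nat_lit 291517344) (nat_lit 76) (nat_lit 291517344) (nat_lit 167) (nat_lit 3) (nat_lit 166) (nat_lit 1) (nat_lit 167) (nat_lit 1) (nat_lit 433) (nat_lit 338) (nat_lit 249)) (XT.nd (nat_lit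 78) (nat_lit 0) (nat_lit 0) (XT.lf (nat_lit 152) (nat_lit 565274949) (nat_lit 0) (nat_lit 56726271) (nat_lit 76) (nat_lit 56726271) (nat_lit 166) (nat_lit 1) (nat_lit 164) (nat_lit 1) (nat_lit 165) (nat_lit 1) (nat_lit 434) (nat_lit 338) (nat_lit 248)) (XT.lf (nat_lit 0) (nat_lit 169352065) (nat_lit 0) (nat_lit 328854506) (nat_lit 152) (nat_lit 169352065) (nat_lit 164) (nat_lit 3) (nat_lit 164) (nat_lit 1) (nat_lit 166) (nat_lit 1) (nat_lit 435) (nat_lit 338) (nat_lit 247)))) (XT.nd (nat_lit 78) (nat_lit 152) (nat_lit 0) (XT.lf (nat_lit 76) (nat_lit 117618294) (nat_lit 0) (nat_lit 269525381) (nat_lit 76) (nat_lit 269525381) (nat_lit 164) (nat_lit 3) (nat_lit 163) (nat_lit 1) (nat_lit 164) (nat_lit 1) (nat_lit 436) (nat_lit 338) (nat_lit 246)) (XT.nd (nat_lit 78) (nat_lit 0) (nat_lit 0) (XT.lf (nat_lit 152) (nat_lit 552719153) (nat_lit 0) (nat_lit 46668843) (nat_lit 76) (nat_lit 46668843) (nat_lit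 163) (nat_lit 1) (nat_lit 161) (nat_lit 1) (nat_lit 162) (nat_lit 1) (nat_lit 437) (nat_lit 338) (nat_lit 245)) (XT.lf (nat_lit 0) (nat_lit 168069331) (nat_lit 0) (nat_lit 299292385) (nat_lit 152) (nat_lit 168069331) (nat_lit 161) (nat_lit 3) (nat_lit 161) (nat_lit 1) (nat_lit 163) (nat_lit 1) (nat_lit 438) (nat_lit 338) (nat_lit 244))))) (XT.nd (nat_lit 234) (nat_lit 228) (nat_lit 0) (XT.nd (nat_lit 78) (nat_lit 152) (nat_lit 0) (XT.lf (nat_lit 76) (nat_lit 125044234) (nat_lit 0) (nat_lit 250018570) (nat_lit 76) (nat_lit 250018570) (nat_lit 161) (nat_lit 3) (nat_lit 160) (nat_lit 1) (nat_lit 161) (nat_lit 1) (nat_lit 439) (nat_lit 338) (nat_lit 243)) (XT.nd (nat_lit 78) (nat_lit 0) (nat_lit 0) (XT.lf (nat_lit 152) (nat_lit 538214895) (nat_lit 0) (nat_lit 38394573) (nat_lit 76) (nat_lit 38394573) (nat_lit 160) (nat_lit 1) (nat_lit 158) (nat_lit 1) (nat_lit 159) (nat_lit 1) (nat_lit 440) (nat_lit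 338) (nat_lit 242)) (XT.lf (nat_lit 0) (nat_lit 165645311) (nat_lit 0) (nat_lit 273602841) (nat_lit 152) (nat_lit 165645311) (nat_lit 158) (nat_lit 3) (nat_lit 158) (nat_lit 1) (nat_lit 160) (nat_lit 1) (nat_lit 441) (nat_lit 338) (nat_lit 241)))) (XT.nd (nat_lit 78) (nat_lit 152) (nat_lit 0) (XT.lf (nat_lit 76) (nat_lit 129806936) (nat_lit 0) (nat_lit 232623632) (nat_lit 76) (nat_lit 232623632) (nat_lit 158) (nat_lit 3) (nat_lit 157) (nat_lit 1) (nat_lit 158) (nat_lit 1) (nat_lit 442) (nat_lit 338) (nat_lit 240)) (XT.nd (nat_lit 78) (nat_lit 0) (nat_lit 0) (XT.lf (nat_lit 152) (nat_lit 522306421) (nat_lit 0) (nat_lit 31587310) (nat_lit 76) (nat_lit 31587310) (nat_lit 157) (nat_lit 1) (nat_lit 155) (nat_lit 1) (nat_lit 156) (nat_lit 1) (nat_lit 443) (nat_lit 338) (nat_lit 239)) (XT.lf (nat_lit 0) (nat_lit 162347527) (nat_lit 0) (nat_lit 251164454) (nat_lit 152) (nat_lit 162347527) (nat_lit 155)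 (nat_lit 3) (nat_lit 155) (nat_lit 1) (nat_lit 157) (nat_lit 1) (nat_lit 444) (nat_lit 338) (nat_lit 238)))))) (XT.nd (nat_lit 45084) (nat_lit 0) (nat_lit 10868) (XT.nd (nat_lit 234) (nat_lit 228) (nat_lit 0) (XT.nd (nat_lit 78) (nat_lit 152) (nat_lit 0) (XT.lf (nat_lit 76) (nat_lit 132442712) (nat_lit 0) (nat_lit 217030262) (nat_lit 76) (nat_lit 217030262) (nat_lit 155) (nat_lit 3) (nat_lit 154) (nat_lit 1) (nat_lit 155) (nat_lit 1) (nat_lit 445) (nat_lit 338) (nat_lit 237)) (XT.nd (nat_lit 78) (nat_lit 0) (nat_lit 0) (XT.lf (nat_lit 152) (nat_lit 505432018) (nat_lit 0) (nat_lit 25986958) (nat_lit 76) (nat_lit 25986958) (nat_lit 154) (nat_lit 1) (nat_lit 152) (nat_lit 1) (nat_lit 153) (nat_lit 1) (nat_lit 446) (nat_lit 338) (nat_lit 236)) (XT.lf (nat_lit 0) (nat_lit 158392969) (nat_lit 0) (nat_lit 231462875) (nat_lit 152) (nat_lit 158392969) (nat_lit 152) (nat_lit 3) (nat_lit 152) (nat_lit 1)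 (nat_lit 154) (nat_lit 1) (nat_lit 447) (nat_lit 338) (nat_lit 235)))) (XT.nd (nat_lit 78) (nat_lit 152) (nat_lit 0) (XT.lf (nat_lit 76) (nat_lit 133389731) (nat_lit 0) (nat_lit 202980118) (nat_lit 76) (nat_lit 202980118) (nat_lit 152) (nat_lit 3) (nat_lit 151) (nat_lit 1) (nat_lit 152) (nat_lit 1) (nat_lit 448) (nat_lit 338) (nat_lit 234)) (XT.nd (nat_lit 78) (nat_lit 0) (nat_lit 0) (XT.lf (nat_lit 152) (nat_lit 487943252) (nat_lit 0) (nat_lit 21379535) (nat_lit 76) (nat_lit 21379535) (nat_lit 151) (nat_lit 1) (nat_lit 149) (nat_lit 1) (nat_lit 150) (nat_lit 1) (nat_lit 449) (nat_lit 338) (nat_lit 233)) (XT.lf (nat_lit 0) (nat_lit 153957198) (nat_lit 0) (nat_lit 214071991) (nat_lit 152) (nat_lit 153957198) (nat_lit 149) (nat_lit 3) (nat_lit 149) (nat_lit 1) (nat_lit 151) (nat_lit 1) (nat_lit 450) (nat_lit 338) (nat_lit 232))))) (XT.nd (nat_lit 234) (nat_lit 0) (nat_lit 76) (XT.nd (nat_lit 78)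 (nat_lit 0) (nat_lit 0) (XT.lf (nat_lit 836) (nat_lit 511752979) (nat_lit 0) (nat_lit 908616238) (nat_lit 836) (nat_lit 511752979) (nat_lit 303) (nat_lit 1) (nat_lit 292) (nat_lit 0) (nat_lit 303) (nat_lit 0) (nat_lit 342) (nat_lit 339) (nat_lit 339)) (XT.nd (nat_lit 78) (nat_lit 0) (nat_lit 76) (XT.lf (nat_lit 836) (nat_lit 1983618438) (nat_lit 76) (nat_lit 893961138) (nat_lit 0) (nat_lit 893961138) (nat_lit 303) (nat_lit 1) (nat_lit 293) (nat_lit 1) (nat_lit 292) (nat_lit 0) (nat_lit 343) (nat_lit 339) (nat_lit 338)) (XT.lf (nat_lit 836) (nat_lit 945362680) (nat_lit 0) (nat_lit 1790977641) (nat_lit 760) (nat_lit 945362680) (nat_lit 304) (nat_lit 1) (nat_lit 293) (nat_lit 1) (nat_lit 303) (nat_lit 1) (nat_lit 344) (nat_lit 339) (nat_lit 337)))) (XT.nd (nat_lit 156) (nat_lit 0) (nat_lit 76) (XT.nd (nat_lit 78) (nat_lit 0) (nat_lit 76) (XT.lf (nat_lit 836) (nat_lit 1773369027) (nat_lit 76) (nat_lit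 910699345) (nat_lit 0) (nat_lit 910699345) (nat_lit 304) (nat_lit 1) (nat_lit 294) (nat_lit 1) (nat_lit 293) (nat_lit 1) (nat_lit 345) (nat_lit 339) (nat_lit 336)) (XT.lf (nat_lit 836) (nat_lit 816264733) (nat_lit 0) (nat_lit 1878058379) (nat_lit 760) (nat_lit 816264733) (nat_lit 305) (nat_lit 1) (nat_lit 294) (nat_lit 1) (nat_lit 304) (nat_lit 1) (nat_lit 346) (nat_lit 339) (nat_lit 335))) (XT.nd (nat_lit 78) (nat_lit 0) (nat_lit 76) (XT.lf (nat_lit 836) (nat_lit 1468105287) (nat_lit 76) (nat_lit 980434405) (nat_lit 0) (nat_lit 980434405) (nat_lit 305) (nat_lit 1) (nat_lit 295) (nat_lit 1) (nat_lit 294) (nat_lit 1) (nat_lit 347) (nat_lit 339) (nat_lit 334)) (XT.lf (nat_lit 836) (nat_lit 643721766) (nat_lit 0) (nat_lit 2062657125) (nat_lit 760) (nat_lit 643721766) (nat_lit 306) (nat_lit 1) (nat_lit 295) (nat_lit 1) (nat_lit 305) (nat_lit 1) (nat_lit 348) (nat_lit 339) (nat_lit 333))))))))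
noncomputable def ec53 : XT := (XT.nd (nat_lit 1950) (nat_lit 2736) (nat_lit 0) (XT.nd (nat_lit 936) (nat_lit 2356) (nat_lit 0) (XT.nd (nat_lit 468) (nat_lit 1064) (nat_lit 0) (XT.nd (nat_lit 234) (nat_lit 1140) (nat_lit 0) (XT.nd (nat_lit 78) (nat_lit 0) (nat_lit 76) (XT.lf (nat_lit 836) (nat_lit 1082116053) (nat_lit 76) (nat_lit 1095641409) (nat_lit 0) (nat_lit 1095641409) (nat_lit 306) (nat_lit 1) (nat_lit 296) (nat_lit 1) (nat_lit 295) (nat_lit 1) (nat_lit 349) (nat_lit 339) (nat_lit 332)) (XT.nd (nat_lit 78) (nat_lit 0) (nat_lit 0) (XT.lf (nat_lit 836) (nat_lit 434413233) (nat_lit 0) (nat_lit 2330678343) (nat_lit 760) (nat_lit 434413233) (nat_lit 307) (nat_lit 1) (nat_lit 296) (nat_lit 1) (nat_lit 306) (nat_lit 1) (nat_lit 350) (nat_lit 339) (nat_lit 331)) (XT.lf (nat_lit 836) (nat_lit 628101940) (nat_lit 76) (nat_lit 1249618748) (nat_lit 0) (nat_lit 1249618748) (nat_lit 307) (nat_lit 1) (nat_lit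 297) (nat_lit 1) (nat_lit 296) (nat_lit 1) (nat_lit 351) (nat_lit 339) (nat_lit 330)))) (XT.nd (nat_lit 78) (nat_lit 1292) (nat_lit 0) (XT.lf (nat_lit 76) (nat_lit 194271867) (nat_lit 0) (nat_lit 2669576455) (nat_lit 760) (nat_lit 194271867) (nat_lit 298) (nat_lit 1) (nat_lit 297) (nat_lit 1) (nat_lit 307) (nat_lit 1) (nat_lit 352) (nat_lit 339) (nat_lit 329)) (XT.nd (nat_lit 78) (nat_lit 532) (nat_lit 0) (XT.lf (nat_lit 836) (nat_lit 117335376) (nat_lit 0) (nat_lit 1436405676) (nat_lit 760) (nat_lit 1436405676) (nat_lit 298) (nat_lit 1) (nat_lit 287) (nat_lit 1) (nat_lit 297) (nat_lit 1) (nat_lit 353) (nat_lit 339) (nat_lit 328)) (XT.lf (nat_lit 532) (nat_lit 2784516255) (nat_lit 0) (nat_lit 70288641) (nat_lit 456) (nat_lit 70288641) (nat_lit 287) (nat_lit 1) (nat_lit 280) (nat_lit 1) (nat_lit 286) (nat_lit 1) (nat_lit 354) (nat_lit 339) (nat_lit 327))))) (XT.nd (nat_lit 234) (nat_lit 684) (nat_lit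 0) (XT.nd (nat_lit 78) (nat_lit 380) (nat_lit 0) (XT.lf (nat_lit 76) (nat_lit 1217385660) (nat_lit 0) (nat_lit 426105855) (nat_lit 532) (nat_lit 1217385660) (nat_lit 281) (nat_lit 1) (nat_lit 280) (nat_lit 1) (nat_lit 287) (nat_lit 1) (nat_lit 355) (nat_lit 339) (nat_lit 326)) (XT.nd (nat_lit 78) (nat_lit 0) (nat_lit 0) (XT.lf (nat_lit 456) (nat_lit 2094808232) (nat_lit 0) (nat_lit 352291617) (nat_lit 380) (nat_lit 352291617) (nat_lit 281) (nat_lit 1) (nat_lit 275) (nat_lit 1) (nat_lit 280) (nat_lit 1) (nat_lit 356) (nat_lit 339) (nat_lit 325)) (XT.lf (nat_lit 76) (nat_lit 868346371) (nat_lit 0) (nat_lit 1002505613) (nat_lit 456) (nat_lit 868346371) (nat_lit 276) (nat_lit 1) (nat_lit 275) (nat_lit 1) (nat_lit 281) (nat_lit 1) (nat_lit 357) (nat_lit 339) (nat_lit 324)))) (XT.nd (nat_lit 78) (nat_lit 304) (nat_lit 0) (XT.lf (nat_lit 456) (nat_lit 1379460928) (nat_lit 0) (nat_lit 650820342) (nat_lit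 380) (nat_lit 650820342) (nat_lit 276) (nat_lit 1) (nat_lit 270) (nat_lit 1) (nat_lit 275) (nat_lit 1) (nat_lit 358) (nat_lit 339) (nat_lit 323)) (XT.nd (nat_lit 78) (nat_lit 304) (nat_lit 0) (XT.lf (nat_lit 76) (nat_lit 508313018) (nat_lit 0) (nat_lit 1608068478) (nat_lit 456) (nat_lit 508313018) (nat_lit 271) (nat_lit 1) (nat_lit 270) (nat_lit 1) (nat_lit 276) (nat_lit 1) (nat_lit 359) (nat_lit 339) (nat_lit 322)) (XT.lf (nat_lit 380) (nat_lit 645132411) (nat_lit 0) (nat_lit 962302993) (nat_lit 304) (nat_lit 962302993) (nat_lit 271) (nat_lit 1) (nat_lit 266) (nat_lit 1) (nat_lit 270) (nat_lit 1) (nat_lit 360) (nat_lit 339) (nat_lit 321)))))) (XT.nd (nat_lit 468) (nat_lit 1368) (nat_lit 0) (XT.nd (nat_lit 234) (nat_lit 304) (nat_lit 0) (XT.nd (nat_lit 78) (nat_lit 684) (nat_lit 0) (XT.lf (nat_lit 76) (nat_lit 140376507) (nat_lit 0) (nat_lit 2236142604) (nat_lit 380) (nat_lit 140376507) (nat_lit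 267) (nat_lit 1) (nat_lit 266) (nat_lit 1) (nat_lit 271) (nat_lit 1) (nat_lit 361) (nat_lit 339) (nat_lit 320)) (XT.nd (nat_lit 78) (nat_lit 304) (nat_lit 0) (XT.lf (nat_lit 76) (nat_lit 1182852793) (nat_lit 0) (nat_lit 99066219) (nat_lit 380) (nat_lit 1182852793) (nat_lit 262) (nat_lit 1) (nat_lit 261) (nat_lit 1) (nat_lit 266) (nat_lit 1) (nat_lit 362) (nat_lit 339) (nat_lit 319)) (XT.lf (nat_lit 380) (nat_lit 1956625057) (nat_lit 0) (nat_lit 229003968) (nat_lit 304) (nat_lit 229003968) (nat_lit 262) (nat_lit 1) (nat_lit 257) (nat_lit 1) (nat_lit 261) (nat_lit 1) (nat_lit 363) (nat_lit 339) (nat_lit 318)))) (XT.nd (nat_lit 78) (nat_lit 304) (nat_lit 0) (XT.lf (nat_lit 76) (nat_lit 767474366) (nat_lit 0) (nat_lit 830405591) (nat_lit 380) (nat_lit 767474366) (nat_lit 258) (nat_lit 1) (nat_lit 257) (nat_lit 1) (nat_lit 262) (nat_lit 1) (nat_lit 364) (nat_lit 339) (nat_lit 317)) (XT.nd (nat_lit 78)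 (nat_lit 0) (nat_lit 0) (XT.lf (nat_lit 380) (nat_lit 1119958596) (nat_lit 0) (nat_lit 598912935) (nat_lit 304) (nat_lit 598912935) (nat_lit 258) (nat_lit 1) (nat_lit 253) (nat_lit 1) (nat_lit 257) (nat_lit 1) (nat_lit 365) (nat_lit 339) (nat_lit 316)) (XT.lf (nat_lit 76) (nat_lit 353184958) (nat_lit 0) (nat_lit 1565235638) (nat_lit 380) (nat_lit 353184958) (nat_lit 254) (nat_lit 1) (nat_lit 253) (nat_lit 1) (nat_lit 258) (nat_lit 1) (nat_lit 366) (nat_lit 339) (nat_lit 315))))) (XT.nd (nat_lit 234) (nat_lit 760) (nat_lit 0) (XT.nd (nat_lit 78) (nat_lit 380) (nat_lit 0) (XT.lf (nat_lit 304) (nat_lit 287230199) (nat_lit 0) (nat_lit 969596630) (nat_lit 228) (nat_lit 969596630) (nat_lit 254) (nat_lit 1) (nat_lit 250) (nat_lit 1) (nat_lit 253) (nat_lit 1) (nat_lit 367) (nat_lit 339) (nat_lit 314)) (XT.nd (nat_lit 78) (nat_lit 0) (nat_lit 0) (XT.lf (nat_lit 380) (nat_lit 2068207418) (nat_lit 0) (nat_lit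 57388787) (nat_lit 304) (nat_lit 57388787) (nat_lit 250) (nat_lit 1) (nat_lit 245) (nat_lit 1) (nat_lit 249) (nat_lit 1) (nat_lit 368) (nat_lit 339) (nat_lit 313)) (XT.lf (nat_lit 76) (nat_lit 809304852) (nat_lit 0) (nat_lit 521177245) (nat_lit 380) (nat_lit 809304852) (nat_lit 246) (nat_lit 1) (nat_lit 245) (nat_lit 1) (nat_lit 250) (nat_lit 1) (nat_lit 369) (nat_lit 339) (nat_lit 312)))) (XT.nd (nat_lit 156) (nat_lit 532) (nat_lit 0) (XT.nd (nat_lit 78) (nat_lit 0) (nat_lit 0) (XT.lf (nat_lit 304) (nat_lit 1182015322) (nat_lit 0) (nat_lit 458115172) (nat_lit 228) (nat_lit 458115172) (nat_lit 246) (nat_lit 1) (nat_lit 242) (nat_lit 1) (nat_lit 245) (nat_lit 1) (nat_lit 370) (nat_lit 339) (nat_lit 311)) (XT.lf (nat_lit 76) (nat_lit 373416924) (nat_lit 0) (nat_lit 1310925965) (nat_lit 304) (nat_lit 373416924) (nat_lit 243) (nat_lit 1) (nat_lit 242) (nat_lit 1) (nat_lit 246) (nat_lit 1) (nat_lit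 371) (nat_lit 339) (nat_lit 310))) (XT.nd (nat_lit 78) (nat_lit 304) (nat_lit 0) (XT.lf (nat_lit 304) (nat_lit 311231334) (nat_lit 0) (nat_lit 853481833) (nat_lit 228) (nat_lit 853481833) (nat_lit 243) (nat_lit 1) (nat_lit 239) (nat_lit 1) (nat_lit 242) (nat_lit 1) (nat_lit 372) (nat_lit 339) (nat_lit 309)) (XT.lf (nat_lit 304) (nat_lit 1873123432) (nat_lit 0) (nat_lit 53488319) (nat_lit 228) (nat_lit 53488319) (nat_lit 239) (nat_lit 1) (nat_lit 235) (nat_lit 1) (nat_lit 238) (nat_lit 1) (nat_lit 373) (nat_lit 339) (nat_lit 308))))))) (XT.nd (nat_lit 1014) (nat_lit 1140) (nat_lit 0) (XT.nd (nat_lit 468) (nat_lit 912) (nat_lit 0) (XT.nd (nat_lit 234) (nat_lit 456) (nat_lit 0) (XT.nd (nat_lit 78) (nat_lit 228) (nat_lit 0) (XT.lf (nat_lit 76) (nat_lit 708548951) (nat_lit 0) (nat_lit 525027658) (nat_lit 304) (nat_lit 708548951) (nat_lit 236) (nat_lit 1) (nat_lit 235) (nat_lit 1) (nat_lit 239) (nat_lit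 1) (nat_lit 374) (nat_lit 339) (nat_lit 307)) (XT.nd (nat_lit 78) (nat_lit 0) (nat_lit 0) (XT.lf (nat_lit 304) (nat_lit 974319687) (nat_lit 0) (nat_lit 465618213) (nat_lit 228) (nat_lit 465618213) (nat_lit 236) (nat_lit 1) (nat_lit 232) (nat_lit 1) (nat_lit 235) (nat_lit 1) (nat_lit 375) (nat_lit 339) (nat_lit 306)) (XT.lf (nat_lit 76) (nat_lit 268326847) (nat_lit 0) (nat_lit 1333313781) (nat_lit 304) (nat_lit 268326847) (nat_lit 233) (nat_lit 1) (nat_lit 232) (nat_lit 1) (nat_lit 236) (nat_lit 1) (nat_lit 376) (nat_lit 339) (nat_lit 305)))) (XT.nd (nat_lit 78) (nat_lit 304) (nat_lit 0) (XT.lf (nat_lit 228) (nat_lit 98323878) (nat_lit 0) (nat_lit 868362803) (nat_lit 152) (nat_lit 868362803) (nat_lit 233) (nat_lit 1) (nat_lit 230) (nat_lit 1) (nat_lit 232) (nat_lit 1) (nat_lit 377) (nat_lit 339) (nat_lit 304)) (XT.nd (nat_lit 78) (nat_lit 0) (nat_lit 0) (XT.lf (nat_lit 304) (nat_lit 1485640835)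 (nat_lit 0) (nat_lit 157785825) (nat_lit 228) (nat_lit 157785825) (nat_lit 230) (nat_lit 1) (nat_lit 226) (nat_lit 1) (nat_lit 229) (nat_lit 1) (nat_lit 378) (nat_lit 339) (nat_lit 303)) (XT.lf (nat_lit 76) (nat_lit 518899079) (nat_lit 0) (nat_lit 729955763) (nat_lit 304) (nat_lit 518899079) (nat_lit 227) (nat_lit 1) (nat_lit 226) (nat_lit 1) (nat_lit 230) (nat_lit 1) (nat_lit 379) (nat_lit 339) (nat_lit 302))))) (XT.nd (nat_lit 234) (nat_lit 532) (nat_lit 0) (XT.nd (nat_lit 78) (nat_lit 228) (nat_lit 0) (XT.lf (nat_lit 228) (nat_lit 599507842) (nat_lit 0) (nat_lit 567910068) (nat_lit 152) (nat_lit 567910068) (nat_lit 227) (nat_lit 1) (nat_lit 224) (nat_lit 1) (nat_lit 226) (nat_lit 1) (nat_lit 380) (nat_lit 339) (nat_lit 301)) (XT.nd (nat_lit 78) (nat_lit 228) (nat_lit 0) (XT.lf (nat_lit 76) (nat_lit 86130248) (nat_lit 0) (nat_lit 1531717634) (nat_lit 228) (nat_lit 86130248) (nat_lit 225) (nat_lit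 1) (nat_lit 224) (nat_lit 1) (nat_lit 227) (nat_lit 1) (nat_lit 381) (nat_lit 339) (nat_lit 300)) (XT.lf (nat_lit 76) (nat_lit 710848049) (nat_lit 0) (nat_lit 251046141) (nat_lit 228) (nat_lit 710848049) (nat_lit 222) (nat_lit 1) (nat_lit 221) (nat_lit 1) (nat_lit 224) (nat_lit 1) (nat_lit 382) (nat_lit 339) (nat_lit 299)))) (XT.nd (nat_lit 156) (nat_lit 380) (nat_lit 0) (XT.nd (nat_lit 78) (nat_lit 0) (nat_lit 0) (XT.lf (nat_lit 228) (nat_lit 987137103) (nat_lit 0) (nat_lit 327702772) (nat_lit 152) (nat_lit 327702772) (nat_lit 222) (nat_lit 1) (nat_lit 219) (nat_lit 1) (nat_lit 221) (nat_lit 1) (nat_lit 383) (nat_lit 339) (nat_lit 298)) (XT.lf (nat_lit 76) (nat_lit 278544409) (nat_lit 0) (nat_lit 1055921716) (nat_lit 228) (nat_lit 278544409) (nat_lit 220) (nat_lit 1) (nat_lit 219) (nat_lit 1) (nat_lit 222) (nat_lit 1) (nat_lit 384) (nat_lit 339) (nat_lit 297))) (XT.nd (nat_lit 78) (nat_lit 228)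 (nat_lit 0) (XT.lf (nat_lit 228) (nat_lit 130488027) (nat_lit 0) (nat_lit 726792842) (nat_lit 152) (nat_lit 726792842) (nat_lit 220) (nat_lit 1) (nat_lit 217) (nat_lit 1) (nat_lit 219) (nat_lit 1) (nat_lit 385) (nat_lit 339) (nat_lit 296)) (XT.lf (nat_lit 228) (nat_lit 1282520631) (nat_lit 0) (nat_lit 136727362) (nat_lit 152) (nat_lit 136727362) (nat_lit 217) (nat_lit 1) (nat_lit 214) (nat_lit 1) (nat_lit 216) (nat_lit 1) (nat_lit 386) (nat_lit 339) (nat_lit 295)))))) (XT.nd (nat_lit 468) (nat_lit 684) (nat_lit 0) (XT.nd (nat_lit 234) (nat_lit 304) (nat_lit 0) (XT.nd (nat_lit 78) (nat_lit 152) (nat_lit 0) (XT.lf (nat_lit 76) (nat_lit 426954261) (nat_lit 0) (nat_lit 674208293) (nat_lit 228) (nat_lit 426954261) (nat_lit 215) (nat_lit 1) (nat_lit 214) (nat_lit 1) (nat_lit 217) (nat_lit 1) (nat_lit 387) (nat_lit 339) (nat_lit 294)) (XT.nd (nat_lit 78) (nat_lit 0) (nat_lit 0) (XT.lf (nat_lit 228) (nat_lit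 434832186) (nat_lit 0) (nat_lit 533117430) (nat_lit 152) (nat_lit 533117430) (nat_lit 215) (nat_lit 1) (nat_lit 212) (nat_lit 1) (nat_lit 214) (nat_lit 1) (nat_lit 388) (nat_lit 339) (nat_lit 293)) (XT.lf (nat_lit 76) (nat_lit 14291734) (nat_lit 0) (nat_lit 1446382447) (nat_lit 228) (nat_lit 14291734) (nat_lit 213) (nat_lit 1) (nat_lit 212) (nat_lit 1) (nat_lit 215) (nat_lit 1) (nat_lit 389) (nat_lit 339) (nat_lit 292)))) (XT.nd (nat_lit 78) (nat_lit 152) (nat_lit 0) (XT.lf (nat_lit 76) (nat_lit 539632599) (nat_lit 0) (nat_lit 369433673) (nat_lit 152) (nat_lit 539632599) (nat_lit 211) (nat_lit 1) (nat_lit 210) (nat_lit 1) (nat_lit 212) (nat_lit 1) (nat_lit 390) (nat_lit 339) (nat_lit 291)) (XT.nd (nat_lit 78) (nat_lit 0) (nat_lit 0) (XT.lf (nat_lit 228) (nat_lit 669622623) (nat_lit 0) (nat_lit 376866706) (nat_lit 152) (nat_lit 376866706) (nat_lit 211) (nat_lit 1) (nat_lit 208) (nat_lit 1) (nat_lit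 210) (nat_lit 1) (nat_lit 391) (nat_lit 339) (nat_lit 290)) (XT.lf (nat_lit 76) (nat_lit 134254708) (nat_lit 0) (nat_lit 1130187851) (nat_lit 228) (nat_lit 134254708) (nat_lit 209) (nat_lit 1) (nat_lit 208) (nat_lit 1) (nat_lit 211) (nat_lit 1) (nat_lit 392) (nat_lit 339) (nat_lit 289))))) (XT.nd (nat_lit 234) (nat_lit 380) (nat_lit 0) (XT.nd (nat_lit 78) (nat_lit 152) (nat_lit 0) (XT.lf (nat_lit 76) (nat_lit 623363049) (nat_lit 0) (nat_lit 127515751) (nat_lit 152) (nat_lit 623363049) (nat_lit 207) (nat_lit 1) (nat_lit 206) (nat_lit 1) (nat_lit 208) (nat_lit 1) (nat_lit 393) (nat_lit 339) (nat_lit 288)) (XT.nd (nat_lit 78) (nat_lit 0) (nat_lit 0) (XT.lf (nat_lit 228) (nat_lit 847933625) (nat_lit 0) (nat_lit 251258388) (nat_lit 152) (nat_lit 251258388) (nat_lit 207) (nat_lit 1) (nat_lit 204) (nat_lit 1) (nat_lit 206) (nat_lit 1) (nat_lit 394) (nat_lit 339) (nat_lit 287)) (XT.lf (nat_lit 76) (nat_lit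 227115359) (nat_lit 0) (nat_lit 872899231) (nat_lit 228) (nat_lit 227115359) (nat_lit 205) (nat_lit 1) (nat_lit 204) (nat_lit 1) (nat_lit 207) (nat_lit 1) (nat_lit 395) (nat_lit 339) (nat_lit 286)))) (XT.nd (nat_lit 156) (nat_lit 76) (nat_lit 0) (XT.nd (nat_lit 78) (nat_lit 228) (nat_lit 0) (XT.lf (nat_lit 152) (nat_lit 65196548) (nat_lit 0) (nat_lit 619526507) (nat_lit 76) (nat_lit 619526507) (nat_lit 205) (nat_lit 1) (nat_lit 203) (nat_lit 1) (nat_lit 204) (nat_lit 1) (nat_lit 396) (nat_lit 339) (nat_lit 285)) (XT.lf (nat_lit 228) (nat_lit 980486078) (nat_lit 0) (nat_lit 150719675) (nat_lit 152) (nat_lit 150719675) (nat_lit 203) (nat_lit 1) (nat_lit 200) (nat_lit 1) (nat_lit 202) (nat_lit 1) (nat_lit 397) (nat_lit 339) (nat_lit 284))) (XT.nd (nat_lit 78) (nat_lit 76) (nat_lit 0) (XT.lf (nat_lit 76) (nat_lit 297956633) (nat_lit 0) (nat_lit 663937203) (nat_lit 228) (nat_lit 297956633) (nat_lit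 201) (nat_lit 1) (nat_lit 200) (nat_lit 1) (nat_lit 203) (nat_lit 1) (nat_lit 398) (nat_lit 339) (nat_lit 283)) (XT.lf (nat_lit 152) (nat_lit 218944781) (nat_lit 0) (nat_lit 509685991) (nat_lit 76) (nat_lit 509685991) (nat_lit 201) (nat_lit 1) (nat_lit 199) (nat_lit 1) (nat_lit 200) (nat_lit 1) (nat_lit 399) (nat_lit 339) (nat_lit 282))))))))
noncomputable def ec54 : XT := (XT.nd (nat_lit 1950) (nat_lit 1900) (nat_lit 0) (XT.nd (nat_lit 936) (nat_lit 912) (nat_lit 0) (XT.nd (nat_lit 468) (nat_lit 456) (nat_lit 0) (XT.nd (nat_lit 234) (nat_lit 304) (nat_lit 0) (XT.nd (nat_lit 78) (nat_lit 76) (nat_lit 0) (XT.lf (nat_lit 228) (nat_lit 1076066406) (nat_lit 0) (nat_lit 70672476) (nat_lit 152) (nat_lit 70672476) (nat_lit 199) (nat_lit 1) (nat_lit 196) (nat_lit 1) (nat_lit 198) (nat_lit 1) (nat_lit 400) (nat_lit 339) (nat_lit 281)) (XT.nd (nat_lit 78) (nat_lit 76) (nat_lit 0) (XT.lf (nat_lit 76) (nat_lit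 350947055) (nat_lit 0) (nat_lit 494604539) (nat_lit 228) (nat_lit 350947055) (nat_lit 197) (nat_lit 1) (nat_lit 196) (nat_lit 1) (nat_lit 199) (nat_lit 1) (nat_lit 401) (nat_lit 339) (nat_lit 280)) (XT.lf (nat_lit 152) (nat_lit 337562050) (nat_lit 0) (nat_lit 419319926) (nat_lit 76) (nat_lit 419319926) (nat_lit 197) (nat_lit 1) (nat_lit 195) (nat_lit 1) (nat_lit 196) (nat_lit 1) (nat_lit 402) (nat_lit 339) (nat_lit 279)))) (XT.nd (nat_lit 78) (nat_lit 76) (nat_lit 0) (XT.lf (nat_lit 228) (nat_lit 1141871145) (nat_lit 0) (nat_lit 7356731) (nat_lit 152) (nat_lit 7356731) (nat_lit 195) (nat_lit 1) (nat_lit 192) (nat_lit 1) (nat_lit 194) (nat_lit 1) (nat_lit 403) (nat_lit 339) (nat_lit 278)) (XT.nd (nat_lit 78) (nat_lit 76) (nat_lit 0) (XT.lf (nat_lit 76) (nat_lit 389503482) (nat_lit 0) (nat_lit 357752148) (nat_lit 228) (nat_lit 389503482) (nat_lit 193) (nat_lit 1) (nat_lit 192) (nat_lit 1) (nat_lit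 195) (nat_lit 1) (nat_lit 404) (nat_lit 339) (nat_lit 277)) (XT.lf (nat_lit 152) (nat_lit 427651836) (nat_lit 0) (nat_lit 344975541) (nat_lit 76) (nat_lit 344975541) (nat_lit 193) (nat_lit 1) (nat_lit 191) (nat_lit 1) (nat_lit 192) (nat_lit 1) (nat_lit 405) (nat_lit 339) (nat_lit 276))))) (XT.nd (nat_lit 234) (nat_lit 228) (nat_lit 0) (XT.nd (nat_lit 78) (nat_lit 228) (nat_lit 0) (XT.lf (nat_lit 0) (nat_lit 43008609) (nat_lit 0) (nat_lit 1013007863) (nat_lit 152) (nat_lit 43008609) (nat_lit 191) (nat_lit 3) (nat_lit 191) (nat_lit 1) (nat_lit 193) (nat_lit 1) (nat_lit 406) (nat_lit 339) (nat_lit 275)) (XT.nd (nat_lit 78) (nat_lit 76) (nat_lit 0) (XT.lf (nat_lit 76) (nat_lit 416424976) (nat_lit 0) (nat_lit 247504310) (nat_lit 152) (nat_lit 416424976) (nat_lit 190) (nat_lit 1) (nat_lit 189) (nat_lit 1) (nat_lit 191) (nat_lit 1) (nat_lit 407) (nat_lit 339) (nat_lit 274)) (XT.lf (nat_lit 152) (nat_lit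 494628988) (nat_lit 0) (nat_lit 283812231) (nat_lit 76) (nat_lit 283812231) (nat_lit 190) (nat_lit 1) (nat_lit 188) (nat_lit 1) (nat_lit 189) (nat_lit 1) (nat_lit 408) (nat_lit 339) (nat_lit 273)))) (XT.nd (nat_lit 78) (nat_lit 228) (nat_lit 0) (XT.lf (nat_lit 0) (nat_lit 82202556) (nat_lit 0) (nat_lit 880223343) (nat_lit 152) (nat_lit 82202556) (nat_lit 188) (nat_lit 3) (nat_lit 188) (nat_lit 1) (nat_lit 190) (nat_lit 1) (nat_lit 409) (nat_lit 339) (nat_lit 272)) (XT.nd (nat_lit 78) (nat_lit 76) (nat_lit 0) (XT.lf (nat_lit 76) (nat_lit 434002903) (nat_lit 0) (nat_lit 159032630) (nat_lit 152) (nat_lit 434002903) (nat_lit 187) (nat_lit 1) (nat_lit 186) (nat_lit 1) (nat_lit 188) (nat_lit 1) (nat_lit 410) (nat_lit 339) (nat_lit 271)) (XT.lf (nat_lit 152) (nat_lit 542931315) (nat_lit 0) (nat_lit 233493025) (nat_lit 76) (nat_lit 233493025) (nat_lit 187) (nat_lit 1) (nat_lit 185) (nat_lit 1) (nat_lit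 186) (nat_lit 1) (nat_lit 411) (nat_lit 339) (nat_lit 270)))))) (XT.nd (nat_lit 468) (nat_lit 456) (nat_lit 0) (XT.nd (nat_lit 234) (nat_lit 228) (nat_lit 0) (XT.nd (nat_lit 78) (nat_lit 228) (nat_lit 0) (XT.lf (nat_lit 0) (nat_lit 112218024) (nat_lit 0) (nat_lit 768751700) (nat_lit 152) (nat_lit 112218024) (nat_lit 185) (nat_lit 3) (nat_lit 185) (nat_lit 1) (nat_lit 187) (nat_lit 1) (nat_lit 412) (nat_lit 339) (nat_lit 269)) (XT.nd (nat_lit 78) (nat_lit 76) (nat_lit 0) (XT.lf (nat_lit 76) (nat_lit 444111495) (nat_lit 0) (nat_lit 88370083) (nat_lit 152) (nat_lit 444111495) (nat_lit 184) (nat_lit 1) (nat_lit 183) (nat_lit 1) (nat_lit 185) (nat_lit 1) (nat_lit 413) (nat_lit 339) (nat_lit 268)) (XT.lf (nat_lit 152) (nat_lit 576193625) (nat_lit 0) (nat_lit 192095289) (nat_lit 76) (nat_lit 192095289) (nat_lit 184) (nat_lit 1) (nat_lit 182) (nat_lit 1) (nat_lit 183) (nat_lit 1) (nat_lit 414) (nat_lit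 339) (nat_lit 267)))) (XT.nd (nat_lit 78) (nat_lit 228) (nat_lit 0) (XT.lf (nat_lit 0) (nat_lit 134788501) (nat_lit 0) (nat_lit 674920381) (nat_lit 152) (nat_lit 134788501) (nat_lit 182) (nat_lit 3) (nat_lit 182) (nat_lit 1) (nat_lit 184) (nat_lit 1) (nat_lit 415) (nat_lit 339) (nat_lit 266)) (XT.nd (nat_lit 78) (nat_lit 76) (nat_lit 0) (XT.lf (nat_lit 76) (nat_lit 448282325) (nat_lit 0) (nat_lit 32258043) (nat_lit 152) (nat_lit 448282325) (nat_lit 181) (nat_lit 1) (nat_lit 180) (nat_lit 1) (nat_lit 182) (nat_lit 1) (nat_lit 416) (nat_lit 339) (nat_lit 265)) (XT.lf (nat_lit 152) (nat_lit 597390863) (nat_lit 0) (nat_lit 158037270) (nat_lit 76) (nat_lit 158037270) (nat_lit 181) (nat_lit 1) (nat_lit 179) (nat_lit 1) (nat_lit 180) (nat_lit 1) (nat_lit 417) (nat_lit 339) (nat_lit 264))))) (XT.nd (nat_lit 234) (nat_lit 228) (nat_lit 0) (XT.nd (nat_lit 78) (nat_lit 228) (nat_lit 0) (XT.lf (nat_lit 0)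 (nat_lit 151335076) (nat_lit 0) (nat_lit 595702911) (nat_lit 152) (nat_lit 151335076) (nat_lit 179) (nat_lit 3) (nat_lit 179) (nat_lit 1) (nat_lit 181) (nat_lit 1) (nat_lit 418) (nat_lit 339) (nat_lit 263)) (XT.nd (nat_lit 78) (nat_lit 152) (nat_lit 0) (XT.lf (nat_lit 76) (nat_lit 12375652) (nat_lit 0) (nat_lit 435583114) (nat_lit 76) (nat_lit 435583114) (nat_lit 179) (nat_lit 3) (nat_lit 178) (nat_lit 1) (nat_lit 179) (nat_lit 1) (nat_lit 419) (nat_lit 339) (nat_lit 262)) (XT.lf (nat_lit 152) (nat_lit 608955837) (nat_lit 0) (nat_lit 130017653) (nat_lit 76) (nat_lit 130017653) (nat_lit 178) (nat_lit 1) (nat_lit 176) (nat_lit 1) (nat_lit 177) (nat_lit 1) (nat_lit 420) (nat_lit 339) (nat_lit 261)))) (XT.nd (nat_lit 156) (nat_lit 152) (nat_lit 0) (XT.nd (nat_lit 78) (nat_lit 76) (nat_lit 0) (XT.lf (nat_lit 0) (nat_lit 163022069) (nat_lit 0) (nat_lit 528604586) (nat_lit 152) (nat_lit 163022069) (nat_lit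 176) (nat_lit 3) (nat_lit 176) (nat_lit 1) (nat_lit 178) (nat_lit 1) (nat_lit 421) (nat_lit 339) (nat_lit 260)) (XT.lf (nat_lit 76) (nat_lit 48078543) (nat_lit 0) (nat_lit 396252369) (nat_lit 76) (nat_lit 396252369) (nat_lit 176) (nat_lit 3) (nat_lit 175) (nat_lit 1) (nat_lit 176) (nat_lit 1) (nat_lit 422) (nat_lit 339) (nat_lit 259))) (XT.nd (nat_lit 78) (nat_lit 0) (nat_lit 0) (XT.lf (nat_lit 152) (nat_lit 612876043) (nat_lit 0) (nat_lit 106965845) (nat_lit 76) (nat_lit 106965845) (nat_lit 175) (nat_lit 1) (nat_lit 173) (nat_lit 1) (nat_lit 174) (nat_lit 1) (nat_lit 423) (nat_lit 339) (nat_lit 258)) (XT.lf (nat_lit 0) (nat_lit 170802780) (nat_lit 0) (nat_lit 471568422) (nat_lit 152) (nat_lit 170802780) (nat_lit 173) (nat_lit 3) (nat_lit 173) (nat_lit 1) (nat_lit 175) (nat_lit 1) (nat_lit 424) (nat_lit 339) (nat_lit 257))))))) (XT.nd (nat_lit 936) (nat_lit 988) (nat_lit 0) (XT.nd (nat_lit 468)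 (nat_lit 456) (nat_lit 0) (XT.nd (nat_lit 234) (nat_lit 228) (nat_lit 0) (XT.nd (nat_lit 78) (nat_lit 152) (nat_lit 0) (XT.lf (nat_lit 76) (nat_lit 75646777) (nat_lit 0) (nat_lit 362090246) (nat_lit 76) (nat_lit 362090246) (nat_lit 173) (nat_lit 3) (nat_lit 172) (nat_lit 1) (nat_lit 173) (nat_lit 1) (nat_lit 425) (nat_lit 339) (nat_lit 256)) (XT.nd (nat_lit 78) (nat_lit 0) (nat_lit 0) (XT.lf (nat_lit 152) (nat_lit 610773273) (nat_lit 0) (nat_lit 88001065) (nat_lit 76) (nat_lit 88001065) (nat_lit 172) (nat_lit 1) (nat_lit 170) (nat_lit 1) (nat_lit 171) (nat_lit 1) (nat_lit 426) (nat_lit 339) (nat_lit 255)) (XT.lf (nat_lit 0) (nat_lit 175457127) (nat_lit 0) (nat_lit 422897765) (nat_lit 152) (nat_lit 175457127) (nat_lit 170) (nat_lit 3) (nat_lit 170) (nat_lit 1) (nat_lit 172) (nat_lit 1) (nat_lit 427) (nat_lit 339) (nat_lit 254)))) (XT.nd (nat_lit 78) (nat_lit 152) (nat_lit 0) (XT.lf (nat_lit 76)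 (nat_lit 96608545) (nat_lit 0) (nat_lit 332266295) (nat_lit 76) (nat_lit 332266295) (nat_lit 170) (nat_lit 3) (nat_lit 169) (nat_lit 1) (nat_lit 170) (nat_lit 1) (nat_lit 428) (nat_lit 339) (nat_lit 253)) (XT.nd (nat_lit 78) (nat_lit 0) (nat_lit 0) (XT.lf (nat_lit 152) (nat_lit 603969099) (nat_lit 0) (nat_lit 72398694) (nat_lit 76) (nat_lit 72398694) (nat_lit 169) (nat_lit 1) (nat_lit 167) (nat_lit 1) (nat_lit 168) (nat_lit 1) (nat_lit 429) (nat_lit 339) (nat_lit 252)) (XT.lf (nat_lit 0) (nat_lit 177622592) (nat_lit 0) (nat_lit 381192617) (nat_lit 152) (nat_lit 177622592) (nat_lit 167) (nat_lit 3) (nat_lit 167) (nat_lit 1) (nat_lit 169) (nat_lit 1) (nat_lit 430) (nat_lit 339) (nat_lit 251))))) (XT.nd (nat_lit 234) (nat_lit 228) (nat_lit 0) (XT.nd (nat_lit 78) (nat_lit 152) (nat_lit 0) (XT.lf (nat_lit 76) (nat_lit 112216997) (nat_lit 0) (nat_lit 306093211) (nat_lit 76) (nat_lit 306093211) (nat_lit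 167) (nat_lit 3) (nat_lit 166) (nat_lit 1) (nat_lit 167) (nat_lit 1) (nat_lit 431) (nat_lit 339) (nat_lit 250)) (XT.nd (nat_lit 78) (nat_lit 0) (nat_lit 0) (XT.lf (nat_lit 152) (nat_lit 593538697) (nat_lit 0) (nat_lit 59562585) (nat_lit 76) (nat_lit 59562585) (nat_lit 166) (nat_lit 1) (nat_lit 164) (nat_lit 1) (nat_lit 165) (nat_lit 1) (nat_lit 432) (nat_lit 339) (nat_lit 249)) (XT.lf (nat_lit 0) (nat_lit 177819668) (nat_lit 0) (nat_lit 345297232) (nat_lit 152) (nat_lit 177819668) (nat_lit 164) (nat_lit 3) (nat_lit 164) (nat_lit 1) (nat_lit 166) (nat_lit 1) (nat_lit 433) (nat_lit 339) (nat_lit 248)))) (XT.nd (nat_lit 78) (nat_lit 152) (nat_lit 0) (XT.lf (nat_lit 76) (nat_lit 123499209) (nat_lit 0) (nat_lit 283001650) (nat_lit 76) (nat_lit 283001650) (nat_lit 164) (nat_lit 3) (nat_lit 163) (nat_lit 1) (nat_lit 164) (nat_lit 1) (nat_lit 434) (nat_lit 339) (nat_lit 247)) (XT.nd (nat_lit 78) (nat_lit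 0) (nat_lit 0) (XT.lf (nat_lit 152) (nat_lit 580355111) (nat_lit 0) (nat_lit 49002286) (nat_lit 76) (nat_lit 49002286) (nat_lit 163) (nat_lit 1) (nat_lit 161) (nat_lit 1) (nat_lit 162) (nat_lit 1) (nat_lit 435) (nat_lit 339) (nat_lit 246)) (XT.lf (nat_lit 0) (nat_lit 176472798) (nat_lit 0) (nat_lit 314257004) (nat_lit 152) (nat_lit 176472798) (nat_lit 161) (nat_lit 3) (nat_lit 161) (nat_lit 1) (nat_lit 163) (nat_lit 1) (nat_lit 436) (nat_lit 339) (nat_lit 245)))))) (XT.nd (nat_lit 468) (nat_lit 532) (nat_lit 0) (XT.nd (nat_lit 234) (nat_lit 228) (nat_lit 0) (XT.nd (nat_lit 78) (nat_lit 152) (nat_lit 0) (XT.lf (nat_lit 76) (nat_lit 131296445) (nat_lit 0) (nat_lit 262519499) (nat_lit 76) (nat_lit 262519499) (nat_lit 161) (nat_lit 3) (nat_lit 160) (nat_lit 1) (nat_lit 161) (nat_lit 1) (nat_lit 437) (nat_lit 339) (nat_lit 244)) (XT.nd (nat_lit 78) (nat_lit 0) (nat_lit 0) (XT.lf (nat_lit 152) (nat_lit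 565125640) (nat_lit 0) (nat_lit 40314302) (nat_lit 76) (nat_lit 40314302) (nat_lit 160) (nat_lit 1) (nat_lit 158) (nat_lit 1) (nat_lit 159) (nat_lit 1) (nat_lit 438) (nat_lit 339) (nat_lit 243)) (XT.lf (nat_lit 0) (nat_lit 173927576) (nat_lit 0) (nat_lit 287282983) (nat_lit 152) (nat_lit 173927576) (nat_lit 158) (nat_lit 3) (nat_lit 158) (nat_lit 1) (nat_lit 160) (nat_lit 1) (nat_lit 439) (nat_lit 339) (nat_lit 242)))) (XT.nd (nat_lit 78) (nat_lit 152) (nat_lit 0) (XT.lf (nat_lit 76) (nat_lit 136297283) (nat_lit 0) (nat_lit 244254813) (nat_lit 76) (nat_lit 244254813) (nat_lit 158) (nat_lit 3) (nat_lit 157) (nat_lit 1) (nat_lit 158) (nat_lit 1) (nat_lit 440) (nat_lit 339) (nat_lit 241)) (XT.nd (nat_lit 78) (nat_lit 0) (nat_lit 0) (XT.lf (nat_lit 152) (nat_lit 548421742) (nat_lit 0) (nat_lit 33166676) (nat_lit 76) (nat_lit 33166676) (nat_lit 157) (nat_lit 1) (nat_lit 155) (nat_lit 1) (nat_lit 156)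 (nat_lit 1) (nat_lit 441) (nat_lit 339) (nat_lit 240)) (XT.lf (nat_lit 0) (nat_lit 170464903) (nat_lit 0) (nat_lit 263722677) (nat_lit 152) (nat_lit 170464903) (nat_lit 155) (nat_lit 3) (nat_lit 155) (nat_lit 1) (nat_lit 157) (nat_lit 1) (nat_lit 442) (nat_lit 339) (nat_lit 239))))) (XT.nd (nat_lit 234) (nat_lit 304) (nat_lit 0) (XT.nd (nat_lit 78) (nat_lit 152) (nat_lit 0) (XT.lf (nat_lit 76) (nat_lit 139064847) (nat_lit 0) (nat_lit 227881775) (nat_lit 76) (nat_lit 227881775) (nat_lit 155) (nat_lit 3) (nat_lit 154) (nat_lit 1) (nat_lit 155) (nat_lit 1) (nat_lit 443) (nat_lit 339) (nat_lit 238)) (XT.nd (nat_lit 78) (nat_lit 0) (nat_lit 0) (XT.lf (nat_lit 152) (nat_lit 530703619) (nat_lit 0) (nat_lit 27286306) (nat_lit 76) (nat_lit 27286306) (nat_lit 154) (nat_lit 1) (nat_lit 152) (nat_lit 1) (nat_lit 153) (nat_lit 1) (nat_lit 444) (nat_lit 339) (nat_lit 237)) (XT.lf (nat_lit 0) (nat_lit 166312617)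 (nat_lit 0) (nat_lit 243036019) (nat_lit 152) (nat_lit 166312617) (nat_lit 152) (nat_lit 3) (nat_lit 152) (nat_lit 1) (nat_lit 154) (nat_lit 1) (nat_lit 445) (nat_lit 339) (nat_lit 236)))) (XT.nd (nat_lit 156) (nat_lit 76) (nat_lit 0) (XT.nd (nat_lit 78) (nat_lit 152) (nat_lit 0) (XT.lf (nat_lit 76) (nat_lit 140059218) (nat_lit 0) (nat_lit 213129124) (nat_lit 76) (nat_lit 213129124) (nat_lit 152) (nat_lit 3) (nat_lit 151) (nat_lit 1) (nat_lit 152) (nat_lit 1) (nat_lit 446) (nat_lit 339) (nat_lit 235)) (XT.lf (nat_lit 152) (nat_lit 512340414) (nat_lit 0) (nat_lit 22448511) (nat_lit 76) (nat_lit 22448511) (nat_lit 151) (nat_lit 1) (nat_lit 149) (nat_lit 1) (nat_lit 150) (nat_lit 1) (nat_lit 447) (nat_lit 339) (nat_lit 234))) (XT.nd (nat_lit 78) (nat_lit 76) (nat_lit 0) (XT.lf (nat_lit 0) (nat_lit 161655058) (nat_lit 0) (nat_lit 224775591) (nat_lit 152) (nat_lit 161655058) (nat_lit 149) (nat_lit 3)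 (nat_lit 149) (nat_lit 1) (nat_lit 151) (nat_lit 1) (nat_lit 448) (nat_lit 339) (nat_lit 233)) (XT.lf (nat_lit 76) (nat_lit 139655850) (nat_lit 0) (nat_lit 199770643) (nat_lit 76) (nat_lit 199770643) (nat_lit 149) (nat_lit 3) (nat_lit 148) (nat_lit 1) (nat_lit 149) (nat_lit 1) (nat_lit 449) (nat_lit 339) (nat_lit 232))))))))
noncomputable def ec55 : XT := (XT.nd (nat_lit 46410) (nat_lit 0) (nat_lit 4712) (XT.nd (nat_lit 45396) (nat_lit 0) (nat_lit 8132) (XT.nd (nat_lit 44928) (nat_lit 0) (nat_lit 11248) (XT.nd (nat_lit 44694) (nat_lit 0) (nat_lit 11172) (XT.nd (nat_lit 44538) (nat_lit 0) (nat_lit 11096) (XT.lf (nat_lit 152) (nat_lit 493626806) (nat_lit 0) (nat_lit 18468446) (nat_lit 76) (nat_lit 18468446) (nat_lit 148) (nat_lit 1) (nat_lit 146) (nat_lit 1) (nat_lit 147) (nat_lit 1) (nat_lit 450) (nat_lit 339) (nat_lit 231)) (XT.nd (nat_lit 78) (nat_lit 0) (nat_lit 0) (XT.lf (nat_lit 836) (nat_lit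 537340628) (nat_lit 0) (nat_lit 954047050) (nat_lit 836) (nat_lit 537340628) (nat_lit 303) (nat_lit 1) (nat_lit 292) (nat_lit 0) (nat_lit 303) (nat_lit 0) (nat_lit 340) (nat_lit 340) (nat_lit 340)) (XT.lf (nat_lit 836) (nat_lit 2082799360) (nat_lit 76) (nat_lit 938659195) (nat_lit 0) (nat_lit 938659195) (nat_lit 303) (nat_lit 1) (nat_lit 293) (nat_lit 1) (nat_lit 292) (nat_lit 0) (nat_lit 341) (nat_lit 340) (nat_lit 339)))) (XT.nd (nat_lit 78) (nat_lit 0) (nat_lit 0) (XT.lf (nat_lit 836) (nat_lit 992630814) (nat_lit 0) (nat_lit 1880526524) (nat_lit 760) (nat_lit 992630814) (nat_lit 304) (nat_lit 1) (nat_lit 293) (nat_lit 1) (nat_lit 303) (nat_lit 1) (nat_lit 342) (nat_lit 340) (nat_lit 338)) (XT.nd (nat_lit 78) (nat_lit 0) (nat_lit 76) (XT.lf (nat_lit 836) (nat_lit 1862037478) (nat_lit 76) (nat_lit 956234312) (nat_lit 0) (nat_lit 956234312) (nat_lit 304) (nat_lit 1) (nat_lit 294) (nat_lit 1) (nat_lit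 293) (nat_lit 1) (nat_lit 343) (nat_lit 340) (nat_lit 337)) (XT.lf (nat_lit 836) (nat_lit 857077970) (nat_lit 0) (nat_lit 1971961298) (nat_lit 760) (nat_lit 857077970) (nat_lit 305) (nat_lit 1) (nat_lit 294) (nat_lit 1) (nat_lit 304) (nat_lit 1) (nat_lit 344) (nat_lit 340) (nat_lit 336))))) (XT.nd (nat_lit 234) (nat_lit 0) (nat_lit 152) (XT.nd (nat_lit 78) (nat_lit 0) (nat_lit 76) (XT.lf (nat_lit 836) (nat_lit 1541510552) (nat_lit 76) (nat_lit 1029456125) (nat_lit 0) (nat_lit 1029456125) (nat_lit 305) (nat_lit 1) (nat_lit 295) (nat_lit 1) (nat_lit 294) (nat_lit 1) (nat_lit 345) (nat_lit 340) (nat_lit 335)) (XT.nd (nat_lit 78) (nat_lit 0) (nat_lit 0) (XT.lf (nat_lit 836) (nat_lit 675907854) (nat_lit 0) (nat_lit 2165789981) (nat_lit 760) (nat_lit 675907854) (nat_lit 306) (nat_lit 1) (nat_lit 295) (nat_lit 1) (nat_lit 305) (nat_lit 1) (nat_lit 346) (nat_lit 340) (nat_lit 334)) (XT.lf (nat_lit 836)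 (nat_lit 1136221856) (nat_lit 76) (nat_lit 1150423479) (nat_lit 0) (nat_lit 1150423479) (nat_lit 306) (nat_lit 1) (nat_lit 296) (nat_lit 1) (nat_lit 295) (nat_lit 1) (nat_lit 347) (nat_lit 340) (nat_lit 333)))) (XT.nd (nat_lit 78) (nat_lit 0) (nat_lit 0) (XT.lf (nat_lit 836) (nat_lit 456133895) (nat_lit 0) (nat_lit 2447212260) (nat_lit 760) (nat_lit 456133895) (nat_lit 307) (nat_lit 1) (nat_lit 296) (nat_lit 1) (nat_lit 306) (nat_lit 1) (nat_lit 348) (nat_lit 340) (nat_lit 332)) (XT.nd (nat_lit 78) (nat_lit 0) (nat_lit 76) (XT.lf (nat_lit 836) (nat_lit 659507037) (nat_lit 76) (nat_lit 1312099685) (nat_lit 0) (nat_lit 1312099685) (nat_lit 307) (nat_lit 1) (nat_lit 297) (nat_lit 1) (nat_lit 296) (nat_lit 1) (nat_lit 349) (nat_lit 340) (nat_lit 331)) (XT.lf (nat_lit 76) (nat_lit 203985460) (nat_lit 0) (nat_lit 2803055277) (nat_lit 760) (nat_lit 203985460) (nat_lit 298) (nat_lit 1) (nat_lit 297) (nat_lit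 1) (nat_lit 307) (nat_lit 1) (nat_lit 350) (nat_lit 340) (nat_lit 330)))))) (XT.nd (nat_lit 468) (nat_lit 1292) (nat_lit 0) (XT.nd (nat_lit 234) (nat_lit 760) (nat_lit 0) (XT.nd (nat_lit 78) (nat_lit 532) (nat_lit 0) (XT.lf (nat_lit 836) (nat_lit 123202145) (nat_lit 0) (nat_lit 1508225960) (nat_lit 760) (nat_lit 1508225960) (nat_lit 298) (nat_lit 1) (nat_lit 287) (nat_lit 1) (nat_lit 297) (nat_lit 1) (nat_lit 351) (nat_lit 340) (nat_lit 329)) (XT.nd (nat_lit 78) (nat_lit 0) (nat_lit 0) (XT.lf (nat_lit 532) (nat_lit 2923742068) (nat_lit 0) (nat_lit 73803073) (nat_lit 456) (nat_lit 73803073) (nat_lit 287) (nat_lit 1) (nat_lit 280) (nat_lit 1) (nat_lit 286) (nat_lit 1) (nat_lit 352) (nat_lit 340) (nat_lit 328)) (XT.lf (nat_lit 76) (nat_lit 1278254943) (nat_lit 0) (nat_lit 447411148) (nat_lit 532) (nat_lit 1278254943) (nat_lit 281) (nat_lit 1) (nat_lit 280) (nat_lit 1) (nat_lit 287) (nat_lit 1) (nat_lit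 353) (nat_lit 340) (nat_lit 327)))) (XT.nd (nat_lit 78) (nat_lit 380) (nat_lit 0) (XT.lf (nat_lit 456) (nat_lit 2199548644) (nat_lit 0) (nat_lit 369906198) (nat_lit 380) (nat_lit 369906198) (nat_lit 281) (nat_lit 1) (nat_lit 275) (nat_lit 1) (nat_lit 280) (nat_lit 1) (nat_lit 354) (nat_lit 340) (nat_lit 326)) (XT.nd (nat_lit 78) (nat_lit 380) (nat_lit 0) (XT.lf (nat_lit 76) (nat_lit 911763690) (nat_lit 0) (nat_lit 1052630894) (nat_lit 456) (nat_lit 911763690) (nat_lit 276) (nat_lit 1) (nat_lit 275) (nat_lit 1) (nat_lit 281) (nat_lit 1) (nat_lit 355) (nat_lit 340) (nat_lit 325)) (XT.lf (nat_lit 456) (nat_lit 1448433974) (nat_lit 0) (nat_lit 683361359) (nat_lit 380) (nat_lit 683361359) (nat_lit 276) (nat_lit 1) (nat_lit 270) (nat_lit 1) (nat_lit 275) (nat_lit 1) (nat_lit 356) (nat_lit 340) (nat_lit 324))))) (XT.nd (nat_lit 234) (nat_lit 988) (nat_lit 0) (XT.nd (nat_lit 78) (nat_lit 304) (nat_lit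 0) (XT.lf (nat_lit 76) (nat_lit 533728669) (nat_lit 0) (nat_lit 1688471902) (nat_lit 456) (nat_lit 533728669) (nat_lit 271) (nat_lit 1) (nat_lit 270) (nat_lit 1) (nat_lit 276) (nat_lit 1) (nat_lit 357) (nat_lit 340) (nat_lit 323)) (XT.nd (nat_lit 78) (nat_lit 0) (nat_lit 0) (XT.lf (nat_lit 380) (nat_lit 677389031) (nat_lit 0) (nat_lit 1010418142) (nat_lit 304) (nat_lit 1010418142) (nat_lit 271) (nat_lit 1) (nat_lit 266) (nat_lit 1) (nat_lit 270) (nat_lit 1) (nat_lit 358) (nat_lit 340) (nat_lit 322)) (XT.lf (nat_lit 76) (nat_lit 147395333) (nat_lit 0) (nat_lit 2347949734) (nat_lit 380) (nat_lit 147395333) (nat_lit 267) (nat_lit 1) (nat_lit 266) (nat_lit 1) (nat_lit 271) (nat_lit 1) (nat_lit 359) (nat_lit 340) (nat_lit 321)))) (XT.nd (nat_lit 156) (nat_lit 304) (nat_lit 0) (XT.nd (nat_lit 78) (nat_lit 304) (nat_lit 0) (XT.lf (nat_lit 76) (nat_lit 1241995432) (nat_lit 0) (nat_lit 104019530) (nat_lit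 380) (nat_lit 1241995432) (nat_lit 262) (nat_lit 1) (nat_lit 261) (nat_lit 1) (nat_lit 266) (nat_lit 1) (nat_lit 360) (nat_lit 340) (nat_lit 320)) (XT.lf (nat_lit 380) (nat_lit 2054456310) (nat_lit 0) (nat_lit 240454166) (nat_lit 304) (nat_lit 240454166) (nat_lit 262) (nat_lit 1) (nat_lit 257) (nat_lit 1) (nat_lit 261) (nat_lit 1) (nat_lit 361) (nat_lit 340) (nat_lit 319))) (XT.nd (nat_lit 78) (nat_lit 304) (nat_lit 0) (XT.lf (nat_lit 76) (nat_lit 805848085) (nat_lit 0) (nat_lit 871925870) (nat_lit 380) (nat_lit 805848085) (nat_lit 258) (nat_lit 1) (nat_lit 257) (nat_lit 1) (nat_lit 262) (nat_lit 1) (nat_lit 362) (nat_lit 340) (nat_lit 318)) (XT.lf (nat_lit 380) (nat_lit 1175956525) (nat_lit 0) (nat_lit 628858582) (nat_lit 304) (nat_lit 628858582) (nat_lit 258) (nat_lit 1) (nat_lit 253) (nat_lit 1) (nat_lit 257) (nat_lit 1) (nat_lit 363) (nat_lit 340) (nat_lit 317))))))) (XT.nd (nat_lit 1014) (nat_lit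 1368) (nat_lit 0) (XT.nd (nat_lit 468) (nat_lit 1216) (nat_lit 0) (XT.nd (nat_lit 234) (nat_lit 228) (nat_lit 0) (XT.nd (nat_lit 78) (nat_lit 608) (nat_lit 0) (XT.lf (nat_lit 76) (nat_lit 370844206) (nat_lit 0) (nat_lit 1643497420) (nat_lit 380) (nat_lit 370844206) (nat_lit 254) (nat_lit 1) (nat_lit 253) (nat_lit 1) (nat_lit 258) (nat_lit 1) (nat_lit 364) (nat_lit 340) (nat_lit 316)) (XT.nd (nat_lit 78) (nat_lit 380) (nat_lit 0) (XT.lf (nat_lit 304) (nat_lit 301591709) (nat_lit 0) (nat_lit 1018076462) (nat_lit 228) (nat_lit 1018076462) (nat_lit 254) (nat_lit 1) (nat_lit 250) (nat_lit 1) (nat_lit 253) (nat_lit 1) (nat_lit 365) (nat_lit 340) (nat_lit 315)) (XT.lf (nat_lit 380) (nat_lit 2171617788) (nat_lit 0) (nat_lit 60258226) (nat_lit 304) (nat_lit 60258226) (nat_lit 250) (nat_lit 1) (nat_lit 245) (nat_lit 1) (nat_lit 249) (nat_lit 1) (nat_lit 366) (nat_lit 340) (nat_lit 314)))) (XT.nd (nat_lit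 78) (nat_lit 228) (nat_lit 0) (XT.lf (nat_lit 76) (nat_lit 849770095) (nat_lit 0) (nat_lit 547236107) (nat_lit 380) (nat_lit 849770095) (nat_lit 246) (nat_lit 1) (nat_lit 245) (nat_lit 1) (nat_lit 250) (nat_lit 1) (nat_lit 367) (nat_lit 340) (nat_lit 313)) (XT.nd (nat_lit 78) (nat_lit 0) (nat_lit 0) (XT.lf (nat_lit 304) (nat_lit 1241116089) (nat_lit 0) (nat_lit 481020931) (nat_lit 228) (nat_lit 481020931) (nat_lit 246) (nat_lit 1) (nat_lit 242) (nat_lit 1) (nat_lit 245) (nat_lit 1) (nat_lit 368) (nat_lit 340) (nat_lit 312)) (XT.lf (nat_lit 76) (nat_lit 392087770) (nat_lit 0) (nat_lit 1376472263) (nat_lit 304) (nat_lit 392087770) (nat_lit 243) (nat_lit 1) (nat_lit 242) (nat_lit 1) (nat_lit 246) (nat_lit 1) (nat_lit 369) (nat_lit 340) (nat_lit 311))))) (XT.nd (nat_lit 234) (nat_lit 684) (nat_lit 0) (XT.nd (nat_lit 78) (nat_lit 304) (nat_lit 0) (XT.lf (nat_lit 304) (nat_lit 326792901) (nat_lit 0)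 (nat_lit 896155925) (nat_lit 228) (nat_lit 896155925) (nat_lit 243) (nat_lit 1) (nat_lit 239) (nat_lit 1) (nat_lit 242) (nat_lit 1) (nat_lit 370) (nat_lit 340) (nat_lit 310)) (XT.nd (nat_lit 78) (nat_lit 0) (nat_lit 0) (XT.lf (nat_lit 304) (nat_lit 1966779604) (nat_lit 0) (nat_lit 56162735) (nat_lit 228) (nat_lit 56162735) (nat_lit 239) (nat_lit 1) (nat_lit 235) (nat_lit 1) (nat_lit 238) (nat_lit 1) (nat_lit 371) (nat_lit 340) (nat_lit 309)) (XT.lf (nat_lit 76) (nat_lit 743976399) (nat_lit 0) (nat_lit 551279041) (nat_lit 304) (nat_lit 743976399) (nat_lit 236) (nat_lit 1) (nat_lit 235) (nat_lit 1) (nat_lit 239) (nat_lit 1) (nat_lit 372) (nat_lit 340) (nat_lit 308)))) (XT.nd (nat_lit 156) (nat_lit 456) (nat_lit 0) (XT.nd (nat_lit 78) (nat_lit 0) (nat_lit 0) (XT.lf (nat_lit 304) (nat_lit 1023035672) (nat_lit 0) (nat_lit 488899124) (nat_lit 228) (nat_lit 488899124) (nat_lit 236) (nat_lit 1) (nat_lit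 232) (nat_lit 1) (nat_lit 235) (nat_lit 1) (nat_lit 373) (nat_lit 340) (nat_lit 307)) (XT.lf (nat_lit 76) (nat_lit 281743189) (nat_lit 0) (nat_lit 1399979470) (nat_lit 304) (nat_lit 281743189) (nat_lit 233) (nat_lit 1) (nat_lit 232) (nat_lit 1) (nat_lit 236) (nat_lit 1) (nat_lit 374) (nat_lit 340) (nat_lit 306))) (XT.nd (nat_lit 78) (nat_lit 304) (nat_lit 0) (XT.lf (nat_lit 228) (nat_lit 103240072) (nat_lit 0) (nat_lit 911780943) (nat_lit 152) (nat_lit 911780943) (nat_lit 233) (nat_lit 1) (nat_lit 230) (nat_lit 1) (nat_lit 232) (nat_lit 1) (nat_lit 375) (nat_lit 340) (nat_lit 305)) (XT.lf (nat_lit 304) (nat_lit 1559922877) (nat_lit 0) (nat_lit 165675116) (nat_lit 228) (nat_lit 165675116) (nat_lit 230) (nat_lit 1) (nat_lit 226) (nat_lit 1) (nat_lit 229) (nat_lit 1) (nat_lit 376) (nat_lit 340) (nat_lit 304)))))) (XT.nd (nat_lit 468) (nat_lit 836) (nat_lit 0) (XT.nd (nat_lit 234) (nat_lit 380) (nat_lit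 0) (XT.nd (nat_lit 78) (nat_lit 152) (nat_lit 0) (XT.lf (nat_lit 76) (nat_lit 544844032) (nat_lit 0) (nat_lit 766453551) (nat_lit 304) (nat_lit 544844032) (nat_lit 227) (nat_lit 1) (nat_lit 226) (nat_lit 1) (nat_lit 230) (nat_lit 1) (nat_lit 377) (nat_lit 340) (nat_lit 303)) (XT.nd (nat_lit 78) (nat_lit 0) (nat_lit 0) (XT.lf (nat_lit 228) (nat_lit 629483234) (nat_lit 0) (nat_lit 596305572) (nat_lit 152) (nat_lit 596305572) (nat_lit 227) (nat_lit 1) (nat_lit 224) (nat_lit 1) (nat_lit 226) (nat_lit 1) (nat_lit 378) (nat_lit 340) (nat_lit 302)) (XT.lf (nat_lit 76) (nat_lit 90436760) (nat_lit 0) (nat_lit 1608303515) (nat_lit 228) (nat_lit 90436760) (nat_lit 225) (nat_lit 1) (nat_lit 224) (nat_lit 1) (nat_lit 227) (nat_lit 1) (nat_lit 379) (nat_lit 340) (nat_lit 301)))) (XT.nd (nat_lit 78) (nat_lit 152) (nat_lit 0) (XT.lf (nat_lit 76) (nat_lit 746390451) (nat_lit 0) (nat_lit 263598448) (nat_lit 228)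 (nat_lit 746390451) (nat_lit 222) (nat_lit 1) (nat_lit 221) (nat_lit 1) (nat_lit 224) (nat_lit 1) (nat_lit 380) (nat_lit 340) (nat_lit 300)) (XT.nd (nat_lit 78) (nat_lit 0) (nat_lit 0) (XT.lf (nat_lit 228) (nat_lit 1036493958) (nat_lit 0) (nat_lit 344087911) (nat_lit 152) (nat_lit 344087911) (nat_lit 222) (nat_lit 1) (nat_lit 219) (nat_lit 1) (nat_lit 221) (nat_lit 1) (nat_lit 381) (nat_lit 340) (nat_lit 299)) (XT.lf (nat_lit 76) (nat_lit 292471629) (nat_lit 0) (nat_lit 1108717802) (nat_lit 228) (nat_lit 292471629) (nat_lit 220) (nat_lit 1) (nat_lit 219) (nat_lit 1) (nat_lit 222) (nat_lit 1) (nat_lit 382) (nat_lit 340) (nat_lit 298))))) (XT.nd (nat_lit 234) (nat_lit 456) (nat_lit 0) (XT.nd (nat_lit 78) (nat_lit 228) (nat_lit 0) (XT.lf (nat_lit 228) (nat_lit 137012428) (nat_lit 0) (nat_lit 763132484) (nat_lit 152) (nat_lit 763132484) (nat_lit 220) (nat_lit 1) (nat_lit 217) (nat_lit 1) (nat_lit 219)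 (nat_lit 1) (nat_lit 383) (nat_lit 340) (nat_lit 297)) (XT.nd (nat_lit 78) (nat_lit 0) (nat_lit 0) (XT.lf (nat_lit 228) (nat_lit 1346646662) (nat_lit 0) (nat_lit 143563730) (nat_lit 152) (nat_lit 143563730) (nat_lit 217) (nat_lit 1) (nat_lit 214) (nat_lit 1) (nat_lit 216) (nat_lit 1) (nat_lit 384) (nat_lit 340) (nat_lit 296)) (XT.lf (nat_lit 76) (nat_lit 448301974) (nat_lit 0) (nat_lit 707918708) (nat_lit 228) (nat_lit 448301974) (nat_lit 215) (nat_lit 1) (nat_lit 214) (nat_lit 1) (nat_lit 217) (nat_lit 1) (nat_lit 385) (nat_lit 340) (nat_lit 295)))) (XT.nd (nat_lit 156) (nat_lit 304) (nat_lit 0) (XT.nd (nat_lit 78) (nat_lit 0) (nat_lit 0) (XT.lf (nat_lit 228) (nat_lit 456573795) (nat_lit 0) (nat_lit 559773302) (nat_lit 152) (nat_lit 559773302) (nat_lit 215) (nat_lit 1) (nat_lit 212) (nat_lit 1) (nat_lit 214) (nat_lit 1) (nat_lit 386) (nat_lit 340) (nat_lit 294)) (XT.lf (nat_lit 76) (nat_lit 15006321)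 (nat_lit 0) (nat_lit 1518701569) (nat_lit 228) (nat_lit 15006321) (nat_lit 213) (nat_lit 1) (nat_lit 212) (nat_lit 1) (nat_lit 215) (nat_lit 1) (nat_lit 387) (nat_lit 340) (nat_lit 293))) (XT.nd (nat_lit 78) (nat_lit 152) (nat_lit 0) (XT.lf (nat_lit 76) (nat_lit 566614229) (nat_lit 0) (nat_lit 387905357) (nat_lit 152) (nat_lit 566614229) (nat_lit 211) (nat_lit 1) (nat_lit 210) (nat_lit 1) (nat_lit 212) (nat_lit 1) (nat_lit 388) (nat_lit 340) (nat_lit 292)) (XT.lf (nat_lit 228) (nat_lit 703103754) (nat_lit 0) (nat_lit 395710042) (nat_lit 152) (nat_lit 395710042) (nat_lit 211) (nat_lit 1) (nat_lit 208) (nat_lit 1) (nat_lit 210) (nat_lit 1) (nat_lit 389) (nat_lit 340) (nat_lit 291))))))))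
noncomputable def ec56 : XT := (XT.nd (nat_lit 1950) (nat_lit 1900) (nat_lit 0) (XT.nd (nat_lit 936) (nat_lit 912) (nat_lit 0) (XT.nd (nat_lit 468) (nat_lit 608) (nat_lit 0) (XT.nd (nat_lit 234) (nat_lit 304) (nat_lit 0) (XT.nd (nat_lit 78) (nat_lit 304) (nat_lit 0) (XT.lf (nat_lit 76) (nat_lit 140967443) (nat_lit 0) (nat_lit 1186697244) (nat_lit 228) (nat_lit 140967443) (nat_lit 209) (nat_lit 1) (nat_lit 208) (nat_lit 1) (nat_lit 211) (nat_lit 1) (nat_lit 390) (nat_lit 340) (nat_lit 290)) (XT.nd (nat_lit 78) (nat_lit 152) (nat_lit 0) (XT.lf (nat_lit 76) (nat_lit 654531202) (nat_lit 0) (nat_lit 133891539) (nat_lit 152) (nat_lit 654531202) (nat_lit 207) (nat_lit 1) (nat_lit 206) (nat_lit 1) (nat_lit 208) (nat_lit 1) (nat_lit 391) (nat_lit 340) (nat_lit 289)) (XT.lf (nat_lit 228) (nat_lit 890330306) (nat_lit 0) (nat_lit 263821308) (nat_lit 152) (nat_lit 263821308) (nat_lit 207) (nat_lit 1) (nat_lit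 204) (nat_lit 1) (nat_lit 206) (nat_lit 1) (nat_lit 392) (nat_lit 340) (nat_lit 288)))) (XT.nd (nat_lit 78) (nat_lit 304) (nat_lit 0) (XT.lf (nat_lit 76) (nat_lit 238471127) (nat_lit 0) (nat_lit 916544192) (nat_lit 228) (nat_lit 238471127) (nat_lit 205) (nat_lit 1) (nat_lit 204) (nat_lit 1) (nat_lit 207) (nat_lit 1) (nat_lit 393) (nat_lit 340) (nat_lit 287)) (XT.nd (nat_lit 78) (nat_lit 228) (nat_lit 0) (XT.lf (nat_lit 152) (nat_lit 68456376) (nat_lit 0) (nat_lit 650502833) (nat_lit 76) (nat_lit 650502833) (nat_lit 205) (nat_lit 1) (nat_lit 203) (nat_lit 1) (nat_lit 204) (nat_lit 1) (nat_lit 394) (nat_lit 340) (nat_lit 286)) (XT.lf (nat_lit 228) (nat_lit 1029510382) (nat_lit 0) (nat_lit 158255659) (nat_lit 152) (nat_lit 158255659) (nat_lit 203) (nat_lit 1) (nat_lit 200) (nat_lit 1) (nat_lit 202) (nat_lit 1) (nat_lit 395) (nat_lit 340) (nat_lit 285))))) (XT.nd (nat_lit 234) (nat_lit 304) (nat_lit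 0) (XT.nd (nat_lit 78) (nat_lit 304) (nat_lit 0) (XT.lf (nat_lit 76) (nat_lit 312854465) (nat_lit 0) (nat_lit 697134064) (nat_lit 228) (nat_lit 312854465) (nat_lit 201) (nat_lit 1) (nat_lit 200) (nat_lit 1) (nat_lit 203) (nat_lit 1) (nat_lit 396) (nat_lit 340) (nat_lit 284)) (XT.nd (nat_lit 78) (nat_lit 228) (nat_lit 0) (XT.lf (nat_lit 152) (nat_lit 229892020) (nat_lit 0) (nat_lit 535170290) (nat_lit 76) (nat_lit 535170290) (nat_lit 201) (nat_lit 1) (nat_lit 199) (nat_lit 1) (nat_lit 200) (nat_lit 1) (nat_lit 397) (nat_lit 340) (nat_lit 283)) (XT.lf (nat_lit 228) (nat_lit 1129869726) (nat_lit 0) (nat_lit 74206099) (nat_lit 152) (nat_lit 74206099) (nat_lit 199) (nat_lit 1) (nat_lit 196) (nat_lit 1) (nat_lit 198) (nat_lit 1) (nat_lit 398) (nat_lit 340) (nat_lit 282)))) (XT.nd (nat_lit 78) (nat_lit 304) (nat_lit 0) (XT.lf (nat_lit 76) (nat_lit 368494408) (nat_lit 0) (nat_lit 519334766) (nat_lit 228)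 (nat_lit 368494408) (nat_lit 197) (nat_lit 1) (nat_lit 196) (nat_lit 1) (nat_lit 199) (nat_lit 1) (nat_lit 399) (nat_lit 340) (nat_lit 281)) (XT.nd (nat_lit 78) (nat_lit 228) (nat_lit 0) (XT.lf (nat_lit 152) (nat_lit 354440153) (nat_lit 0) (nat_lit 440285922) (nat_lit 76) (nat_lit 440285922) (nat_lit 197) (nat_lit 1) (nat_lit 195) (nat_lit 1) (nat_lit 196) (nat_lit 1) (nat_lit 400) (nat_lit 340) (nat_lit 280)) (XT.lf (nat_lit 228) (nat_lit 1198964702) (nat_lit 0) (nat_lit 7724568) (nat_lit 152) (nat_lit 7724568) (nat_lit 195) (nat_lit 1) (nat_lit 192) (nat_lit 1) (nat_lit 194) (nat_lit 1) (nat_lit 401) (nat_lit 340) (nat_lit 279)))))) (XT.nd (nat_lit 468) (nat_lit 608) (nat_lit 0) (XT.nd (nat_lit 234) (nat_lit 228) (nat_lit 0) (XT.nd (nat_lit 78) (nat_lit 76) (nat_lit 0) (XT.lf (nat_lit 76) (nat_lit 408978656) (nat_lit 0) (nat_lit 375639755) (nat_lit 228) (nat_lit 408978656) (nat_lit 193) (nat_lit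 1) (nat_lit 192) (nat_lit 1) (nat_lit 195) (nat_lit 1) (nat_lit 402) (nat_lit 340) (nat_lit 278)) (XT.nd (nat_lit 78) (nat_lit 0) (nat_lit 0) (XT.lf (nat_lit 152) (nat_lit 449034428) (nat_lit 0) (nat_lit 362224318) (nat_lit 76) (nat_lit 362224318) (nat_lit 193) (nat_lit 1) (nat_lit 191) (nat_lit 1) (nat_lit 192) (nat_lit 1) (nat_lit 403) (nat_lit 340) (nat_lit 277)) (XT.lf (nat_lit 0) (nat_lit 45159039) (nat_lit 0) (nat_lit 1063658256) (nat_lit 152) (nat_lit 45159039) (nat_lit 191) (nat_lit 3) (nat_lit 191) (nat_lit 1) (nat_lit 193) (nat_lit 1) (nat_lit 404) (nat_lit 340) (nat_lit 276)))) (XT.nd (nat_lit 78) (nat_lit 76) (nat_lit 0) (XT.lf (nat_lit 76) (nat_lit 437246225) (nat_lit 0) (nat_lit 259879526) (nat_lit 152) (nat_lit 437246225) (nat_lit 190) (nat_lit 1) (nat_lit 189) (nat_lit 1) (nat_lit 191) (nat_lit 1) (nat_lit 405) (nat_lit 340) (nat_lit 275)) (XT.nd (nat_lit 78) (nat_lit 0) (nat_lit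 0) (XT.lf (nat_lit 152) (nat_lit 519360437) (nat_lit 0) (nat_lit 298002843) (nat_lit 76) (nat_lit 298002843) (nat_lit 190) (nat_lit 1) (nat_lit 188) (nat_lit 1) (nat_lit 189) (nat_lit 1) (nat_lit 406) (nat_lit 340) (nat_lit 274)) (XT.lf (nat_lit 0) (nat_lit 86312683) (nat_lit 0) (nat_lit 924234510) (nat_lit 152) (nat_lit 86312683) (nat_lit 188) (nat_lit 3) (nat_lit 188) (nat_lit 1) (nat_lit 190) (nat_lit 1) (nat_lit 407) (nat_lit 340) (nat_lit 273))))) (XT.nd (nat_lit 234) (nat_lit 380) (nat_lit 0) (XT.nd (nat_lit 78) (nat_lit 76) (nat_lit 0) (XT.lf (nat_lit 76) (nat_lit 455703048) (nat_lit 0) (nat_lit 166984262) (nat_lit 152) (nat_lit 455703048) (nat_lit 187) (nat_lit 1) (nat_lit 186) (nat_lit 1) (nat_lit 188) (nat_lit 1) (nat_lit 408) (nat_lit 340) (nat_lit 272)) (XT.nd (nat_lit 78) (nat_lit 0) (nat_lit 0) (XT.lf (nat_lit 152) (nat_lit 570077881) (nat_lit 0) (nat_lit 245167676) (nat_lit 76) (nat_lit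 245167676) (nat_lit 187) (nat_lit 1) (nat_lit 185) (nat_lit 1) (nat_lit 186) (nat_lit 1) (nat_lit 409) (nat_lit 340) (nat_lit 271)) (XT.lf (nat_lit 0) (nat_lit 117828925) (nat_lit 0) (nat_lit 807189285) (nat_lit 152) (nat_lit 117828925) (nat_lit 185) (nat_lit 3) (nat_lit 185) (nat_lit 1) (nat_lit 187) (nat_lit 1) (nat_lit 410) (nat_lit 340) (nat_lit 270)))) (XT.nd (nat_lit 156) (nat_lit 152) (nat_lit 0) (XT.nd (nat_lit 78) (nat_lit 76) (nat_lit 0) (XT.lf (nat_lit 76) (nat_lit 466317070) (nat_lit 0) (nat_lit 92788588) (nat_lit 152) (nat_lit 466317070) (nat_lit 184) (nat_lit 1) (nat_lit 183) (nat_lit 1) (nat_lit 185) (nat_lit 1) (nat_lit 411) (nat_lit 340) (nat_lit 269)) (XT.lf (nat_lit 152) (nat_lit 605003306) (nat_lit 0) (nat_lit 201700054) (nat_lit 76) (nat_lit 201700054) (nat_lit 184) (nat_lit 1) (nat_lit 182) (nat_lit 1) (nat_lit 183) (nat_lit 1) (nat_lit 412) (nat_lit 340) (nat_lit 268))) (XT.nd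 (nat_lit 78) (nat_lit 152) (nat_lit 0) (XT.lf (nat_lit 0) (nat_lit 141527926) (nat_lit 0) (nat_lit 708666400) (nat_lit 152) (nat_lit 141527926) (nat_lit 182) (nat_lit 3) (nat_lit 182) (nat_lit 1) (nat_lit 184) (nat_lit 1) (nat_lit 413) (nat_lit 340) (nat_lit 267)) (XT.lf (nat_lit 76) (nat_lit 470696441) (nat_lit 0) (nat_lit 33870945) (nat_lit 152) (nat_lit 470696441) (nat_lit 181) (nat_lit 1) (nat_lit 180) (nat_lit 1) (nat_lit 182) (nat_lit 1) (nat_lit 414) (nat_lit 340) (nat_lit 266))))))) (XT.nd (nat_lit 936) (nat_lit 1064) (nat_lit 0) (XT.nd (nat_lit 468) (nat_lit 456) (nat_lit 0) (XT.nd (nat_lit 234) (nat_lit 228) (nat_lit 0) (XT.nd (nat_lit 78) (nat_lit 76) (nat_lit 0) (XT.lf (nat_lit 152) (nat_lit 627260406) (nat_lit 0) (nat_lit 165939133) (nat_lit 76) (nat_lit 165939133) (nat_lit 181) (nat_lit 1) (nat_lit 179) (nat_lit 1) (nat_lit 180) (nat_lit 1) (nat_lit 415) (nat_lit 340) (nat_lit 265))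 (XT.nd (nat_lit 78) (nat_lit 76) (nat_lit 0) (XT.lf (nat_lit 0) (nat_lit 158901830) (nat_lit 0) (nat_lit 625488057) (nat_lit 152) (nat_lit 158901830) (nat_lit 179) (nat_lit 3) (nat_lit 179) (nat_lit 1) (nat_lit 181) (nat_lit 1) (nat_lit 416) (nat_lit 340) (nat_lit 264)) (XT.lf (nat_lit 76) (nat_lit 12994435) (nat_lit 0) (nat_lit 457362269) (nat_lit 76) (nat_lit 457362269) (nat_lit 179) (nat_lit 3) (nat_lit 178) (nat_lit 1) (nat_lit 179) (nat_lit 1) (nat_lit 417) (nat_lit 340) (nat_lit 263)))) (XT.nd (nat_lit 78) (nat_lit 76) (nat_lit 0) (XT.lf (nat_lit 152) (nat_lit 639403629) (nat_lit 0) (nat_lit 136518535) (nat_lit 76) (nat_lit 136518535) (nat_lit 178) (nat_lit 1) (nat_lit 176) (nat_lit 1) (nat_lit 177) (nat_lit 1) (nat_lit 418) (nat_lit 340) (nat_lit 262)) (XT.nd (nat_lit 78) (nat_lit 76) (nat_lit 0) (XT.lf (nat_lit 0) (nat_lit 171173172) (nat_lit 0) (nat_lit 555034815) (nat_lit 152) (nat_lit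 171173172) (nat_lit 176) (nat_lit 3) (nat_lit 176) (nat_lit 1) (nat_lit 178) (nat_lit 1) (nat_lit 419) (nat_lit 340) (nat_lit 261)) (XT.lf (nat_lit 76) (nat_lit 50482470) (nat_lit 0) (nat_lit 416064987) (nat_lit 76) (nat_lit 416064987) (nat_lit 176) (nat_lit 3) (nat_lit 175) (nat_lit 1) (nat_lit 176) (nat_lit 1) (nat_lit 420) (nat_lit 340) (nat_lit 260))))) (XT.nd (nat_lit 234) (nat_lit 228) (nat_lit 0) (XT.nd (nat_lit 78) (nat_lit 76) (nat_lit 0) (XT.lf (nat_lit 152) (nat_lit 643519845) (nat_lit 0) (nat_lit 112314137) (nat_lit 76) (nat_lit 112314137) (nat_lit 175) (nat_lit 1) (nat_lit 173) (nat_lit 1) (nat_lit 174) (nat_lit 1) (nat_lit 421) (nat_lit 340) (nat_lit 259)) (XT.nd (nat_lit 78) (nat_lit 76) (nat_lit 0) (XT.lf (nat_lit 0) (nat_lit 179342919) (nat_lit 0) (nat_lit 495146843) (nat_lit 152) (nat_lit 179342919) (nat_lit 173) (nat_lit 3) (nat_lit 173) (nat_lit 1) (nat_lit 175) (nat_lit 1)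 (nat_lit 422) (nat_lit 340) (nat_lit 258)) (XT.lf (nat_lit 76) (nat_lit 79429116) (nat_lit 0) (nat_lit 380194758) (nat_lit 76) (nat_lit 380194758) (nat_lit 173) (nat_lit 3) (nat_lit 172) (nat_lit 1) (nat_lit 173) (nat_lit 1) (nat_lit 423) (nat_lit 340) (nat_lit 257)))) (XT.nd (nat_lit 78) (nat_lit 76) (nat_lit 0) (XT.lf (nat_lit 152) (nat_lit 641311937) (nat_lit 0) (nat_lit 92401118) (nat_lit 76) (nat_lit 92401118) (nat_lit 172) (nat_lit 1) (nat_lit 170) (nat_lit 1) (nat_lit 171) (nat_lit 1) (nat_lit 424) (nat_lit 340) (nat_lit 256)) (XT.nd (nat_lit 78) (nat_lit 76) (nat_lit 0) (XT.lf (nat_lit 0) (nat_lit 184229984) (nat_lit 0) (nat_lit 444042653) (nat_lit 152) (nat_lit 184229984) (nat_lit 170) (nat_lit 3) (nat_lit 170) (nat_lit 1) (nat_lit 172) (nat_lit 1) (nat_lit 425) (nat_lit 340) (nat_lit 255)) (XT.lf (nat_lit 76) (nat_lit 101438972) (nat_lit 0) (nat_lit 348879610) (nat_lit 76) (nat_lit 348879610)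 (nat_lit 170) (nat_lit 3) (nat_lit 169) (nat_lit 1) (nat_lit 170) (nat_lit 1) (nat_lit 426) (nat_lit 340) (nat_lit 254)))))) (XT.nd (nat_lit 468) (nat_lit 608) (nat_lit 0) (XT.nd (nat_lit 234) (nat_lit 228) (nat_lit 0) (XT.nd (nat_lit 78) (nat_lit 76) (nat_lit 0) (XT.lf (nat_lit 152) (nat_lit 634167554) (nat_lit 0) (nat_lit 76018629) (nat_lit 76) (nat_lit 76018629) (nat_lit 169) (nat_lit 1) (nat_lit 167) (nat_lit 1) (nat_lit 168) (nat_lit 1) (nat_lit 427) (nat_lit 340) (nat_lit 253)) (XT.nd (nat_lit 78) (nat_lit 76) (nat_lit 0) (XT.lf (nat_lit 0) (nat_lit 186503721) (nat_lit 0) (nat_lit 400252248) (nat_lit 152) (nat_lit 186503721) (nat_lit 167) (nat_lit 3) (nat_lit 167) (nat_lit 1) (nat_lit 169) (nat_lit 1) (nat_lit 428) (nat_lit 340) (nat_lit 252)) (XT.lf (nat_lit 76) (nat_lit 117827847) (nat_lit 0) (nat_lit 321397872) (nat_lit 76) (nat_lit 321397872) (nat_lit 167) (nat_lit 3) (nat_lit 166) (nat_lit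 1) (nat_lit 167) (nat_lit 1) (nat_lit 429) (nat_lit 340) (nat_lit 251)))) (XT.nd (nat_lit 78) (nat_lit 76) (nat_lit 0) (XT.lf (nat_lit 152) (nat_lit 623215631) (nat_lit 0) (nat_lit 62540714) (nat_lit 76) (nat_lit 62540714) (nat_lit 166) (nat_lit 1) (nat_lit 164) (nat_lit 1) (nat_lit 165) (nat_lit 1) (nat_lit 430) (nat_lit 340) (nat_lit 250)) (XT.nd (nat_lit 78) (nat_lit 76) (nat_lit 0) (XT.lf (nat_lit 0) (nat_lit 186710652) (nat_lit 0) (nat_lit 362562093) (nat_lit 152) (nat_lit 186710652) (nat_lit 164) (nat_lit 3) (nat_lit 164) (nat_lit 1) (nat_lit 166) (nat_lit 1) (nat_lit 431) (nat_lit 340) (nat_lit 249)) (XT.lf (nat_lit 76) (nat_lit 129674169) (nat_lit 0) (nat_lit 297151733) (nat_lit 76) (nat_lit 297151733) (nat_lit 164) (nat_lit 3) (nat_lit 163) (nat_lit 1) (nat_lit 164) (nat_lit 1) (nat_lit 432) (nat_lit 340) (nat_lit 248))))) (XT.nd (nat_lit 234) (nat_lit 380) (nat_lit 0) (XT.nd (nat_lit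 78) (nat_lit 76) (nat_lit 0) (XT.lf (nat_lit 152) (nat_lit 609372867) (nat_lit 0) (nat_lit 51452400) (nat_lit 76) (nat_lit 51452400) (nat_lit 163) (nat_lit 1) (nat_lit 161) (nat_lit 1) (nat_lit 162) (nat_lit 1) (nat_lit 433) (nat_lit 340) (nat_lit 247)) (XT.nd (nat_lit 78) (nat_lit 76) (nat_lit 0) (XT.lf (nat_lit 0) (nat_lit 185296438) (nat_lit 0) (nat_lit 329969854) (nat_lit 152) (nat_lit 185296438) (nat_lit 161) (nat_lit 3) (nat_lit 161) (nat_lit 1) (nat_lit 163) (nat_lit 1) (nat_lit 434) (nat_lit 340) (nat_lit 246)) (XT.lf (nat_lit 76) (nat_lit 137861268) (nat_lit 0) (nat_lit 275645474) (nat_lit 76) (nat_lit 275645474) (nat_lit 161) (nat_lit 3) (nat_lit 160) (nat_lit 1) (nat_lit 161) (nat_lit 1) (nat_lit 435) (nat_lit 340) (nat_lit 245)))) (XT.nd (nat_lit 156) (nat_lit 228) (nat_lit 0) (XT.nd (nat_lit 78) (nat_lit 0) (nat_lit 0) (XT.lf (nat_lit 152) (nat_lit 593381922) (nat_lit 0) (nat_lit 42330017)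 (nat_lit 76) (nat_lit 42330017) (nat_lit 160) (nat_lit 1) (nat_lit 158) (nat_lit 1) (nat_lit 159) (nat_lit 1) (nat_lit 436) (nat_lit 340) (nat_lit 244)) (XT.lf (nat_lit 0) (nat_lit 182623955) (nat_lit 0) (nat_lit 301647132) (nat_lit 152) (nat_lit 182623955) (nat_lit 158) (nat_lit 3) (nat_lit 158) (nat_lit 1) (nat_lit 160) (nat_lit 1) (nat_lit 437) (nat_lit 340) (nat_lit 243))) (XT.nd (nat_lit 78) (nat_lit 152) (nat_lit 0) (XT.lf (nat_lit 76) (nat_lit 143112147) (nat_lit 0) (nat_lit 256467554) (nat_lit 76) (nat_lit 256467554) (nat_lit 158) (nat_lit 3) (nat_lit 157) (nat_lit 1) (nat_lit 158) (nat_lit 1) (nat_lit 438) (nat_lit 340) (nat_lit 242)) (XT.lf (nat_lit 152) (nat_lit 575842829) (nat_lit 0) (nat_lit 34825009) (nat_lit 76) (nat_lit 34825009) (nat_lit 157) (nat_lit 1) (nat_lit 155) (nat_lit 1) (nat_lit 156) (nat_lit 1) (nat_lit 439) (nat_lit 340) (nat_lit 241))))))))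
noncomputable def ec57 : XT := (XT.nd (nat_lit 46254) (nat_lit 0) (nat_lit 6004) (XT.nd (nat_lit 45240) (nat_lit 0) (nat_lit 10260) (XT.nd (nat_lit 468) (nat_lit 304) (nat_lit 0) (XT.nd (nat_lit 234) (nat_lit 228) (nat_lit 0) (XT.nd (nat_lit 78) (nat_lit 228) (nat_lit 0) (XT.lf (nat_lit 0) (nat_lit 178988148) (nat_lit 0) (nat_lit 276908811) (nat_lit 152) (nat_lit 178988148) (nat_lit 155) (nat_lit 3) (nat_lit 155) (nat_lit 1) (nat_lit 157) (nat_lit 1) (nat_lit 440) (nat_lit 340) (nat_lit 240)) (XT.nd (nat_lit 78) (nat_lit 152) (nat_lit 0) (XT.lf (nat_lit 76) (nat_lit 146018090) (nat_lit 0) (nat_lit 239275864) (nat_lit 76) (nat_lit 239275864) (nat_lit 155) (nat_lit 3) (nat_lit 154) (nat_lit 1) (nat_lit 155) (nat_lit 1) (nat_lit 441) (nat_lit 340) (nat_lit 239)) (XT.lf (nat_lit 152) (nat_lit 557238800) (nat_lit 0) (nat_lit 28650621) (nat_lit 76) (nat_lit 28650621) (nat_lit 154) (nat_lit 1) (nat_lit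 152) (nat_lit 1) (nat_lit 153) (nat_lit 1) (nat_lit 442) (nat_lit 340) (nat_lit 238)))) (XT.nd (nat_lit 78) (nat_lit 228) (nat_lit 0) (XT.lf (nat_lit 0) (nat_lit 174628248) (nat_lit 0) (nat_lit 255187819) (nat_lit 152) (nat_lit 174628248) (nat_lit 152) (nat_lit 3) (nat_lit 152) (nat_lit 1) (nat_lit 154) (nat_lit 1) (nat_lit 443) (nat_lit 340) (nat_lit 237)) (XT.nd (nat_lit 78) (nat_lit 152) (nat_lit 0) (XT.lf (nat_lit 76) (nat_lit 147062179) (nat_lit 0) (nat_lit 223785580) (nat_lit 76) (nat_lit 223785580) (nat_lit 152) (nat_lit 3) (nat_lit 151) (nat_lit 1) (nat_lit 152) (nat_lit 1) (nat_lit 444) (nat_lit 340) (nat_lit 236)) (XT.lf (nat_lit 152) (nat_lit 537957435) (nat_lit 0) (nat_lit 23570937) (nat_lit 76) (nat_lit 23570937) (nat_lit 151) (nat_lit 1) (nat_lit 149) (nat_lit 1) (nat_lit 150) (nat_lit 1) (nat_lit 445) (nat_lit 340) (nat_lit 235))))) (XT.nd (nat_lit 234) (nat_lit 76) (nat_lit 0) (XT.nd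 (nat_lit 78) (nat_lit 228) (nat_lit 0) (XT.lf (nat_lit 0) (nat_lit 169737811) (nat_lit 0) (nat_lit 236014370) (nat_lit 152) (nat_lit 169737811) (nat_lit 149) (nat_lit 3) (nat_lit 149) (nat_lit 1) (nat_lit 151) (nat_lit 1) (nat_lit 446) (nat_lit 340) (nat_lit 234)) (XT.nd (nat_lit 78) (nat_lit 152) (nat_lit 0) (XT.lf (nat_lit 76) (nat_lit 146638643) (nat_lit 0) (nat_lit 209759175) (nat_lit 76) (nat_lit 209759175) (nat_lit 149) (nat_lit 3) (nat_lit 148) (nat_lit 1) (nat_lit 149) (nat_lit 1) (nat_lit 447) (nat_lit 340) (nat_lit 233)) (XT.lf (nat_lit 152) (nat_lit 518308147) (nat_lit 0) (nat_lit 19391868) (nat_lit 76) (nat_lit 19391868) (nat_lit 148) (nat_lit 1) (nat_lit 146) (nat_lit 1) (nat_lit 147) (nat_lit 1) (nat_lit 448) (nat_lit 340) (nat_lit 232)))) (XT.nd (nat_lit 78) (nat_lit 76) (nat_lit 0) (XT.lf (nat_lit 0) (nat_lit 164472974) (nat_lit 0) (nat_lit 218998863) (nat_lit 152) (nat_lit 164472974)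 (nat_lit 146) (nat_lit 3) (nat_lit 146) (nat_lit 1) (nat_lit 148) (nat_lit 1) (nat_lit 449) (nat_lit 340) (nat_lit 231)) (XT.nd (nat_lit 44382) (nat_lit 0) (nat_lit 11172) (XT.lf (nat_lit 76) (nat_lit 145068759) (nat_lit 0) (nat_lit 196998177) (nat_lit 76) (nat_lit 196998177) (nat_lit 146) (nat_lit 3) (nat_lit 145) (nat_lit 1) (nat_lit 146) (nat_lit 1) (nat_lit 450) (nat_lit 340) (nat_lit 230)) (XT.lf (nat_lit 836) (nat_lit 564207659) (nat_lit 0) (nat_lit 1001749403) (nat_lit 836) (nat_lit 564207659) (nat_lit 303) (nat_lit 1) (nat_lit 292) (nat_lit 0) (nat_lit 303) (nat_lit 0) (nat_lit 338) (nat_lit 341) (nat_lit 341)))))) (XT.nd (nat_lit 468) (nat_lit 912) (nat_lit 0) (XT.nd (nat_lit 234) (nat_lit 0) (nat_lit 152) (XT.nd (nat_lit 78) (nat_lit 0) (nat_lit 76) (XT.lf (nat_lit 836) (nat_lit 2186939328) (nat_lit 76) (nat_lit 985592154) (nat_lit 0) (nat_lit 985592154) (nat_lit 303) (nat_lit 1) (nat_lit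 293) (nat_lit 1) (nat_lit 292) (nat_lit 0) (nat_lit 339) (nat_lit 341) (nat_lit 340)) (XT.nd (nat_lit 78) (nat_lit 0) (nat_lit 0) (XT.lf (nat_lit 836) (nat_lit 1042262355) (nat_lit 0) (nat_lit 1974552850) (nat_lit 760) (nat_lit 1042262355) (nat_lit 304) (nat_lit 1) (nat_lit 293) (nat_lit 1) (nat_lit 303) (nat_lit 1) (nat_lit 340) (nat_lit 341) (nat_lit 339)) (XT.lf (nat_lit 836) (nat_lit 1955139352) (nat_lit 76) (nat_lit 1004046028) (nat_lit 0) (nat_lit 1004046028) (nat_lit 304) (nat_lit 1) (nat_lit 294) (nat_lit 1) (nat_lit 293) (nat_lit 1) (nat_lit 341) (nat_lit 341) (nat_lit 338)))) (XT.nd (nat_lit 78) (nat_lit 0) (nat_lit 0) (XT.lf (nat_lit 836) (nat_lit 899931868) (nat_lit 0) (nat_lit 2070559363) (nat_lit 760) (nat_lit 899931868) (nat_lit 305) (nat_lit 1) (nat_lit 294) (nat_lit 1) (nat_lit 304) (nat_lit 1) (nat_lit 342) (nat_lit 341) (nat_lit 337)) (XT.nd (nat_lit 78) (nat_lit 0) (nat_lit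 76) (XT.lf (nat_lit 836) (nat_lit 1618586079) (nat_lit 76) (nat_lit 1080928931) (nat_lit 0) (nat_lit 1080928931) (nat_lit 305) (nat_lit 1) (nat_lit 295) (nat_lit 1) (nat_lit 294) (nat_lit 1) (nat_lit 343) (nat_lit 341) (nat_lit 336)) (XT.lf (nat_lit 836) (nat_lit 709703247) (nat_lit 0) (nat_lit 2274079480) (nat_lit 760) (nat_lit 709703247) (nat_lit 306) (nat_lit 1) (nat_lit 295) (nat_lit 1) (nat_lit 305) (nat_lit 1) (nat_lit 344) (nat_lit 341) (nat_lit 335))))) (XT.nd (nat_lit 234) (nat_lit 1140) (nat_lit 0) (XT.nd (nat_lit 78) (nat_lit 0) (nat_lit 76) (XT.lf (nat_lit 836) (nat_lit 1193032949) (nat_lit 76) (nat_lit 1207944653) (nat_lit 0) (nat_lit 1207944653) (nat_lit 306) (nat_lit 1) (nat_lit 296) (nat_lit 1) (nat_lit 295) (nat_lit 1) (nat_lit 345) (nat_lit 341) (nat_lit 334)) (XT.nd (nat_lit 78) (nat_lit 0) (nat_lit 0) (XT.lf (nat_lit 836) (nat_lit 478940589) (nat_lit 0) (nat_lit 2569572873)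 (nat_lit 760) (nat_lit 478940589) (nat_lit 307) (nat_lit 1) (nat_lit 296) (nat_lit 1) (nat_lit 306) (nat_lit 1) (nat_lit 346) (nat_lit 341) (nat_lit 333)) (XT.lf (nat_lit 836) (nat_lit 692482389) (nat_lit 76) (nat_lit 1377704670) (nat_lit 0) (nat_lit 1377704670) (nat_lit 307) (nat_lit 1) (nat_lit 297) (nat_lit 1) (nat_lit 296) (nat_lit 1) (nat_lit 347) (nat_lit 341) (nat_lit 332)))) (XT.nd (nat_lit 156) (nat_lit 532) (nat_lit 0) (XT.nd (nat_lit 78) (nat_lit 760) (nat_lit 0) (XT.lf (nat_lit 76) (nat_lit 214184733) (nat_lit 0) (nat_lit 2943208041) (nat_lit 760) (nat_lit 214184733) (nat_lit 298) (nat_lit 1) (nat_lit 297) (nat_lit 1) (nat_lit 307) (nat_lit 1) (nat_lit 348) (nat_lit 341) (nat_lit 331)) (XT.lf (nat_lit 836) (nat_lit 129362252) (nat_lit 0) (nat_lit 1583637258) (nat_lit 760) (nat_lit 1583637258) (nat_lit 298) (nat_lit 1) (nat_lit 287) (nat_lit 1) (nat_lit 297) (nat_lit 1) (nat_lit 349)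 (nat_lit 341) (nat_lit 330))) (XT.nd (nat_lit 78) (nat_lit 0) (nat_lit 0) (XT.lf (nat_lit 532) (nat_lit 3069929171) (nat_lit 0) (nat_lit 77493226) (nat_lit 456) (nat_lit 77493226) (nat_lit 287) (nat_lit 1) (nat_lit 280) (nat_lit 1) (nat_lit 286) (nat_lit 1) (nat_lit 350) (nat_lit 341) (nat_lit 329)) (XT.lf (nat_lit 76) (nat_lit 1342167690) (nat_lit 0) (nat_lit 469781705) (nat_lit 532) (nat_lit 1342167690) (nat_lit 281) (nat_lit 1) (nat_lit 280) (nat_lit 1) (nat_lit 287) (nat_lit 1) (nat_lit 351) (nat_lit 341) (nat_lit 328))))))) (XT.nd (nat_lit 1014) (nat_lit 1596) (nat_lit 0) (XT.nd (nat_lit 468) (nat_lit 1596) (nat_lit 0) (XT.nd (nat_lit 234) (nat_lit 304) (nat_lit 0) (XT.nd (nat_lit 78) (nat_lit 380) (nat_lit 0) (XT.lf (nat_lit 456) (nat_lit 2309526076) (nat_lit 0) (nat_lit 388401508) (nat_lit 380) (nat_lit 388401508) (nat_lit 281) (nat_lit 1) (nat_lit 275) (nat_lit 1) (nat_lit 280) (nat_lit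 1) (nat_lit 352) (nat_lit 341) (nat_lit 327)) (XT.nd (nat_lit 78) (nat_lit 380) (nat_lit 0) (XT.lf (nat_lit 76) (nat_lit 957351875) (nat_lit 0) (nat_lit 1105262438) (nat_lit 456) (nat_lit 957351875) (nat_lit 276) (nat_lit 1) (nat_lit 275) (nat_lit 1) (nat_lit 281) (nat_lit 1) (nat_lit 353) (nat_lit 341) (nat_lit 326)) (XT.lf (nat_lit 456) (nat_lit 1520855673) (nat_lit 0) (nat_lit 717529427) (nat_lit 380) (nat_lit 717529427) (nat_lit 276) (nat_lit 1) (nat_lit 270) (nat_lit 1) (nat_lit 275) (nat_lit 1) (nat_lit 354) (nat_lit 341) (nat_lit 325)))) (XT.nd (nat_lit 78) (nat_lit 304) (nat_lit 0) (XT.lf (nat_lit 76) (nat_lit 560415103) (nat_lit 0) (nat_lit 1772895497) (nat_lit 456) (nat_lit 560415103) (nat_lit 271) (nat_lit 1) (nat_lit 270) (nat_lit 1) (nat_lit 276) (nat_lit 1) (nat_lit 355) (nat_lit 341) (nat_lit 324)) (XT.nd (nat_lit 78) (nat_lit 0) (nat_lit 0) (XT.lf (nat_lit 380) (nat_lit 711258483)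 (nat_lit 0) (nat_lit 1060939049) (nat_lit 304) (nat_lit 1060939049) (nat_lit 271) (nat_lit 1) (nat_lit 266) (nat_lit 1) (nat_lit 270) (nat_lit 1) (nat_lit 356) (nat_lit 341) (nat_lit 323)) (XT.lf (nat_lit 76) (nat_lit 154765100) (nat_lit 0) (nat_lit 2465347220) (nat_lit 380) (nat_lit 154765100) (nat_lit 267) (nat_lit 1) (nat_lit 266) (nat_lit 1) (nat_lit 271) (nat_lit 1) (nat_lit 357) (nat_lit 341) (nat_lit 322))))) (XT.nd (nat_lit 234) (nat_lit 912) (nat_lit 0) (XT.nd (nat_lit 78) (nat_lit 304) (nat_lit 0) (XT.lf (nat_lit 76) (nat_lit 1304095204) (nat_lit 0) (nat_lit 109220506) (nat_lit 380) (nat_lit 1304095204) (nat_lit 262) (nat_lit 1) (nat_lit 261) (nat_lit 1) (nat_lit 266) (nat_lit 1) (nat_lit 358) (nat_lit 341) (nat_lit 321)) (XT.nd (nat_lit 78) (nat_lit 0) (nat_lit 0) (XT.lf (nat_lit 380) (nat_lit 2157179126) (nat_lit 0) (nat_lit 252476874) (nat_lit 304) (nat_lit 252476874) (nat_lit 262)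 (nat_lit 1) (nat_lit 257) (nat_lit 1) (nat_lit 261) (nat_lit 1) (nat_lit 359) (nat_lit 341) (nat_lit 320)) (XT.lf (nat_lit 76) (nat_lit 846140489) (nat_lit 0) (nat_lit 915522164) (nat_lit 380) (nat_lit 846140489) (nat_lit 258) (nat_lit 1) (nat_lit 257) (nat_lit 1) (nat_lit 262) (nat_lit 1) (nat_lit 360) (nat_lit 341) (nat_lit 319)))) (XT.nd (nat_lit 156) (nat_lit 608) (nat_lit 0) (XT.nd (nat_lit 78) (nat_lit 0) (nat_lit 0) (XT.lf (nat_lit 380) (nat_lit 1234754352) (nat_lit 0) (nat_lit 660301511) (nat_lit 304) (nat_lit 660301511) (nat_lit 258) (nat_lit 1) (nat_lit 253) (nat_lit 1) (nat_lit 257) (nat_lit 1) (nat_lit 361) (nat_lit 341) (nat_lit 318)) (XT.lf (nat_lit 76) (nat_lit 389386416) (nat_lit 0) (nat_lit 1725672291) (nat_lit 380) (nat_lit 389386416) (nat_lit 254) (nat_lit 1) (nat_lit 253) (nat_lit 1) (nat_lit 258) (nat_lit 1) (nat_lit 362) (nat_lit 341) (nat_lit 317))) (XT.nd (nat_lit 78) (nat_lit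 380) (nat_lit 0) (XT.lf (nat_lit 304) (nat_lit 316671295) (nat_lit 0) (nat_lit 1068980285) (nat_lit 228) (nat_lit 1068980285) (nat_lit 254) (nat_lit 1) (nat_lit 250) (nat_lit 1) (nat_lit 253) (nat_lit 1) (nat_lit 363) (nat_lit 341) (nat_lit 316)) (XT.lf (nat_lit 380) (nat_lit 2280198678) (nat_lit 0) (nat_lit 63271138) (nat_lit 304) (nat_lit 63271138) (nat_lit 250) (nat_lit 1) (nat_lit 245) (nat_lit 1) (nat_lit 249) (nat_lit 1) (nat_lit 364) (nat_lit 341) (nat_lit 315)))))) (XT.nd (nat_lit 468) (nat_lit 836) (nat_lit 0) (XT.nd (nat_lit 234) (nat_lit 532) (nat_lit 0) (XT.nd (nat_lit 78) (nat_lit 228) (nat_lit 0) (XT.lf (nat_lit 76) (nat_lit 892258600) (nat_lit 0) (nat_lit 574597913) (nat_lit 380) (nat_lit 892258600) (nat_lit 246) (nat_lit 1) (nat_lit 245) (nat_lit 1) (nat_lit 250) (nat_lit 1) (nat_lit 365) (nat_lit 341) (nat_lit 314)) (XT.nd (nat_lit 78) (nat_lit 0) (nat_lit 0) (XT.lf (nat_lit 304)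 (nat_lit 1303171893) (nat_lit 0) (nat_lit 505071978) (nat_lit 228) (nat_lit 505071978) (nat_lit 246) (nat_lit 1) (nat_lit 242) (nat_lit 1) (nat_lit 245) (nat_lit 1) (nat_lit 366) (nat_lit 341) (nat_lit 313)) (XT.lf (nat_lit 76) (nat_lit 411692159) (nat_lit 0) (nat_lit 1445295876) (nat_lit 304) (nat_lit 411692159) (nat_lit 243) (nat_lit 1) (nat_lit 242) (nat_lit 1) (nat_lit 246) (nat_lit 1) (nat_lit 367) (nat_lit 341) (nat_lit 312)))) (XT.nd (nat_lit 78) (nat_lit 304) (nat_lit 0) (XT.lf (nat_lit 304) (nat_lit 343132546) (nat_lit 0) (nat_lit 940963721) (nat_lit 228) (nat_lit 940963721) (nat_lit 243) (nat_lit 1) (nat_lit 239) (nat_lit 1) (nat_lit 242) (nat_lit 1) (nat_lit 368) (nat_lit 341) (nat_lit 311)) (XT.nd (nat_lit 78) (nat_lit 0) (nat_lit 0) (XT.lf (nat_lit 304) (nat_lit 2065118584) (nat_lit 0) (nat_lit 58970872) (nat_lit 228) (nat_lit 58970872) (nat_lit 239) (nat_lit 1) (nat_lit 235) (nat_lit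 1) (nat_lit 238) (nat_lit 1) (nat_lit 369) (nat_lit 341) (nat_lit 310)) (XT.lf (nat_lit 76) (nat_lit 781175219) (nat_lit 0) (nat_lit 578842993) (nat_lit 304) (nat_lit 781175219) (nat_lit 236) (nat_lit 1) (nat_lit 235) (nat_lit 1) (nat_lit 239) (nat_lit 1) (nat_lit 370) (nat_lit 341) (nat_lit 309))))) (XT.nd (nat_lit 234) (nat_lit 456) (nat_lit 0) (XT.nd (nat_lit 78) (nat_lit 152) (nat_lit 0) (XT.lf (nat_lit 304) (nat_lit 1074187455) (nat_lit 0) (nat_lit 513344080) (nat_lit 228) (nat_lit 513344080) (nat_lit 236) (nat_lit 1) (nat_lit 232) (nat_lit 1) (nat_lit 235) (nat_lit 1) (nat_lit 371) (nat_lit 341) (nat_lit 308)) (XT.nd (nat_lit 78) (nat_lit 152) (nat_lit 0) (XT.lf (nat_lit 76) (nat_lit 295830349) (nat_lit 0) (nat_lit 1469978444) (nat_lit 304) (nat_lit 295830349) (nat_lit 233) (nat_lit 1) (nat_lit 232) (nat_lit 1) (nat_lit 236) (nat_lit 1) (nat_lit 372) (nat_lit 341) (nat_lit 307)) (XT.lf (nat_lit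 228) (nat_lit 108402076) (nat_lit 0) (nat_lit 957369990) (nat_lit 152) (nat_lit 957369990) (nat_lit 233) (nat_lit 1) (nat_lit 230) (nat_lit 1) (nat_lit 232) (nat_lit 1) (nat_lit 373) (nat_lit 341) (nat_lit 306)))) (XT.nd (nat_lit 156) (nat_lit 152) (nat_lit 0) (XT.nd (nat_lit 78) (nat_lit 0) (nat_lit 0) (XT.lf (nat_lit 304) (nat_lit 1637919021) (nat_lit 0) (nat_lit 173958872) (nat_lit 228) (nat_lit 173958872) (nat_lit 230) (nat_lit 1) (nat_lit 226) (nat_lit 1) (nat_lit 229) (nat_lit 1) (nat_lit 374) (nat_lit 341) (nat_lit 305)) (XT.lf (nat_lit 76) (nat_lit 572086234) (nat_lit 0) (nat_lit 804776228) (nat_lit 304) (nat_lit 572086234) (nat_lit 227) (nat_lit 1) (nat_lit 226) (nat_lit 1) (nat_lit 230) (nat_lit 1) (nat_lit 375) (nat_lit 341) (nat_lit 304))) (XT.nd (nat_lit 78) (nat_lit 0) (nat_lit 0) (XT.lf (nat_lit 228) (nat_lit 660957396) (nat_lit 0) (nat_lit 626120850) (nat_lit 152) (nat_lit 626120850)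 (nat_lit 227) (nat_lit 1) (nat_lit 224) (nat_lit 1) (nat_lit 226) (nat_lit 1) (nat_lit 376) (nat_lit 341) (nat_lit 303)) (XT.lf (nat_lit 76) (nat_lit 94958598) (nat_lit 0) (nat_lit 1688718691) (nat_lit 228) (nat_lit 94958598) (nat_lit 225) (nat_lit 1) (nat_lit 224) (nat_lit 1) (nat_lit 227) (nat_lit 1) (nat_lit 377) (nat_lit 341) (nat_lit 302))))))))
noncomputable def ec58 : XT := (XT.nd (nat_lit 1950) (nat_lit 1900) (nat_lit 0) (XT.nd (nat_lit 936) (nat_lit 1140) (nat_lit 0) (XT.nd (nat_lit 468) (nat_lit 608) (nat_lit 0) (XT.nd (nat_lit 234) (nat_lit 380) (nat_lit 0) (XT.nd (nat_lit 78) (nat_lit 152) (nat_lit 0) (XT.lf (nat_lit 76) (nat_lit 783709974) (nat_lit 0) (nat_lit 276778371) (nat_lit 228) (nat_lit 783709974) (nat_lit 222) (nat_lit 1) (nat_lit 221) (nat_lit 1) (nat_lit 224) (nat_lit 1) (nat_lit 378) (nat_lit 341) (nat_lit 301)) (XT.nd (nat_lit 78) (nat_lit 0) (nat_lit 0) (XT.lf (nat_lit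 228) (nat_lit 1088318656) (nat_lit 0) (nat_lit 361292307) (nat_lit 152) (nat_lit 361292307) (nat_lit 222) (nat_lit 1) (nat_lit 219) (nat_lit 1) (nat_lit 221) (nat_lit 1) (nat_lit 379) (nat_lit 341) (nat_lit 300)) (XT.lf (nat_lit 76) (nat_lit 307095210) (nat_lit 0) (nat_lit 1164153692) (nat_lit 228) (nat_lit 307095210) (nat_lit 220) (nat_lit 1) (nat_lit 219) (nat_lit 1) (nat_lit 222) (nat_lit 1) (nat_lit 380) (nat_lit 341) (nat_lit 299)))) (XT.nd (nat_lit 78) (nat_lit 228) (nat_lit 0) (XT.lf (nat_lit 228) (nat_lit 143863049) (nat_lit 0) (nat_lit 801289108) (nat_lit 152) (nat_lit 801289108) (nat_lit 220) (nat_lit 1) (nat_lit 217) (nat_lit 1) (nat_lit 219) (nat_lit 1) (nat_lit 381) (nat_lit 341) (nat_lit 298)) (XT.nd (nat_lit 78) (nat_lit 0) (nat_lit 0) (XT.lf (nat_lit 228) (nat_lit 1413978996) (nat_lit 0) (nat_lit 150741916) (nat_lit 152) (nat_lit 150741916) (nat_lit 217) (nat_lit 1) (nat_lit 214)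 (nat_lit 1) (nat_lit 216) (nat_lit 1) (nat_lit 382) (nat_lit 341) (nat_lit 297)) (XT.lf (nat_lit 76) (nat_lit 470717072) (nat_lit 0) (nat_lit 743314643) (nat_lit 228) (nat_lit 470717072) (nat_lit 215) (nat_lit 1) (nat_lit 214) (nat_lit 1) (nat_lit 217) (nat_lit 1) (nat_lit 383) (nat_lit 341) (nat_lit 296))))) (XT.nd (nat_lit 234) (nat_lit 304) (nat_lit 0) (XT.nd (nat_lit 78) (nat_lit 152) (nat_lit 0) (XT.lf (nat_lit 228) (nat_lit 479402485) (nat_lit 0) (nat_lit 587761967) (nat_lit 152) (nat_lit 587761967) (nat_lit 215) (nat_lit 1) (nat_lit 212) (nat_lit 1) (nat_lit 214) (nat_lit 1) (nat_lit 384) (nat_lit 341) (nat_lit 295)) (XT.nd (nat_lit 78) (nat_lit 152) (nat_lit 0) (XT.lf (nat_lit 76) (nat_lit 15756637) (nat_lit 0) (nat_lit 1594636648) (nat_lit 228) (nat_lit 15756637) (nat_lit 213) (nat_lit 1) (nat_lit 212) (nat_lit 1) (nat_lit 215) (nat_lit 1) (nat_lit 385) (nat_lit 341) (nat_lit 294)) (XT.lf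 (nat_lit 76) (nat_lit 594944941) (nat_lit 0) (nat_lit 407300625) (nat_lit 152) (nat_lit 594944941) (nat_lit 211) (nat_lit 1) (nat_lit 210) (nat_lit 1) (nat_lit 212) (nat_lit 1) (nat_lit 386) (nat_lit 341) (nat_lit 293)))) (XT.nd (nat_lit 78) (nat_lit 152) (nat_lit 0) (XT.lf (nat_lit 228) (nat_lit 738258942) (nat_lit 0) (nat_lit 415495544) (nat_lit 152) (nat_lit 415495544) (nat_lit 211) (nat_lit 1) (nat_lit 208) (nat_lit 1) (nat_lit 210) (nat_lit 1) (nat_lit 387) (nat_lit 341) (nat_lit 292)) (XT.nd (nat_lit 78) (nat_lit 152) (nat_lit 0) (XT.lf (nat_lit 76) (nat_lit 148015815) (nat_lit 0) (nat_lit 1246032106) (nat_lit 228) (nat_lit 148015815) (nat_lit 209) (nat_lit 1) (nat_lit 208) (nat_lit 1) (nat_lit 211) (nat_lit 1) (nat_lit 388) (nat_lit 341) (nat_lit 291)) (XT.lf (nat_lit 76) (nat_lit 687257762) (nat_lit 0) (nat_lit 140586116) (nat_lit 152) (nat_lit 687257762) (nat_lit 207) (nat_lit 1) (nat_lit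 206) (nat_lit 1) (nat_lit 208) (nat_lit 1) (nat_lit 389) (nat_lit 341) (nat_lit 290)))))) (XT.nd (nat_lit 468) (nat_lit 608) (nat_lit 0) (XT.nd (nat_lit 234) (nat_lit 304) (nat_lit 0) (XT.nd (nat_lit 78) (nat_lit 76) (nat_lit 0) (XT.lf (nat_lit 228) (nat_lit 934846822) (nat_lit 0) (nat_lit 277012373) (nat_lit 152) (nat_lit 277012373) (nat_lit 207) (nat_lit 1) (nat_lit 204) (nat_lit 1) (nat_lit 206) (nat_lit 1) (nat_lit 390) (nat_lit 341) (nat_lit 289)) (XT.nd (nat_lit 78) (nat_lit 76) (nat_lit 0) (XT.lf (nat_lit 76) (nat_lit 250394683) (nat_lit 0) (nat_lit 962371402) (nat_lit 228) (nat_lit 250394683) (nat_lit 205) (nat_lit 1) (nat_lit 204) (nat_lit 1) (nat_lit 207) (nat_lit 1) (nat_lit 391) (nat_lit 341) (nat_lit 288)) (XT.lf (nat_lit 152) (nat_lit 71879195) (nat_lit 0) (nat_lit 683027974) (nat_lit 76) (nat_lit 683027974) (nat_lit 205) (nat_lit 1) (nat_lit 203) (nat_lit 1) (nat_lit 204) (nat_lit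 1) (nat_lit 392) (nat_lit 341) (nat_lit 287)))) (XT.nd (nat_lit 78) (nat_lit 76) (nat_lit 0) (XT.lf (nat_lit 228) (nat_lit 1080985901) (nat_lit 0) (nat_lit 166168442) (nat_lit 152) (nat_lit 166168442) (nat_lit 203) (nat_lit 1) (nat_lit 200) (nat_lit 1) (nat_lit 202) (nat_lit 1) (nat_lit 393) (nat_lit 341) (nat_lit 286)) (XT.nd (nat_lit 78) (nat_lit 76) (nat_lit 0) (XT.lf (nat_lit 76) (nat_lit 328497188) (nat_lit 0) (nat_lit 731990767) (nat_lit 228) (nat_lit 328497188) (nat_lit 201) (nat_lit 1) (nat_lit 200) (nat_lit 1) (nat_lit 203) (nat_lit 1) (nat_lit 394) (nat_lit 341) (nat_lit 285)) (XT.lf (nat_lit 152) (nat_lit 241386621) (nat_lit 0) (nat_lit 561928805) (nat_lit 76) (nat_lit 561928805) (nat_lit 201) (nat_lit 1) (nat_lit 199) (nat_lit 1) (nat_lit 200) (nat_lit 1) (nat_lit 395) (nat_lit 341) (nat_lit 284))))) (XT.nd (nat_lit 234) (nat_lit 304) (nat_lit 0) (XT.nd (nat_lit 78) (nat_lit 76) (nat_lit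 0) (XT.lf (nat_lit 228) (nat_lit 1186363212) (nat_lit 0) (nat_lit 77916404) (nat_lit 152) (nat_lit 77916404) (nat_lit 199) (nat_lit 1) (nat_lit 196) (nat_lit 1) (nat_lit 198) (nat_lit 1) (nat_lit 396) (nat_lit 341) (nat_lit 283)) (XT.nd (nat_lit 78) (nat_lit 76) (nat_lit 0) (XT.lf (nat_lit 76) (nat_lit 386919128) (nat_lit 0) (nat_lit 545301504) (nat_lit 228) (nat_lit 386919128) (nat_lit 197) (nat_lit 1) (nat_lit 196) (nat_lit 1) (nat_lit 199) (nat_lit 1) (nat_lit 397) (nat_lit 341) (nat_lit 282)) (XT.lf (nat_lit 152) (nat_lit 372162160) (nat_lit 0) (nat_lit 462300218) (nat_lit 76) (nat_lit 462300218) (nat_lit 197) (nat_lit 1) (nat_lit 195) (nat_lit 1) (nat_lit 196) (nat_lit 1) (nat_lit 398) (nat_lit 341) (nat_lit 281)))) (XT.nd (nat_lit 156) (nat_lit 76) (nat_lit 0) (XT.nd (nat_lit 78) (nat_lit 0) (nat_lit 0) (XT.lf (nat_lit 228) (nat_lit 1258912937) (nat_lit 0) (nat_lit 8110796) (nat_lit 152)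 (nat_lit 8110796) (nat_lit 195) (nat_lit 1) (nat_lit 192) (nat_lit 1) (nat_lit 194) (nat_lit 1) (nat_lit 399) (nat_lit 341) (nat_lit 280)) (XT.lf (nat_lit 76) (nat_lit 429427589) (nat_lit 0) (nat_lit 394421743) (nat_lit 228) (nat_lit 429427589) (nat_lit 193) (nat_lit 1) (nat_lit 192) (nat_lit 1) (nat_lit 195) (nat_lit 1) (nat_lit 400) (nat_lit 341) (nat_lit 279))) (XT.nd (nat_lit 78) (nat_lit 0) (nat_lit 0) (XT.lf (nat_lit 152) (nat_lit 471486150) (nat_lit 0) (nat_lit 380335534) (nat_lit 76) (nat_lit 380335534) (nat_lit 193) (nat_lit 1) (nat_lit 191) (nat_lit 1) (nat_lit 192) (nat_lit 1) (nat_lit 401) (nat_lit 341) (nat_lit 278)) (XT.lf (nat_lit 0) (nat_lit 47416991) (nat_lit 0) (nat_lit 1116841169) (nat_lit 152) (nat_lit 47416991) (nat_lit 191) (nat_lit 3) (nat_lit 191) (nat_lit 1) (nat_lit 193) (nat_lit 1) (nat_lit 402) (nat_lit 341) (nat_lit 277))))))) (XT.nd (nat_lit 936) (nat_lit 988) (nat_lit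 0) (XT.nd (nat_lit 468) (nat_lit 456) (nat_lit 0) (XT.nd (nat_lit 234) (nat_lit 228) (nat_lit 0) (XT.nd (nat_lit 78) (nat_lit 76) (nat_lit 0) (XT.lf (nat_lit 76) (nat_lit 459108536) (nat_lit 0) (nat_lit 272873502) (nat_lit 152) (nat_lit 459108536) (nat_lit 190) (nat_lit 1) (nat_lit 189) (nat_lit 1) (nat_lit 191) (nat_lit 1) (nat_lit 403) (nat_lit 341) (nat_lit 276)) (XT.nd (nat_lit 78) (nat_lit 0) (nat_lit 0) (XT.lf (nat_lit 152) (nat_lit 545328459) (nat_lit 0) (nat_lit 312902985) (nat_lit 76) (nat_lit 312902985) (nat_lit 190) (nat_lit 1) (nat_lit 188) (nat_lit 1) (nat_lit 189) (nat_lit 1) (nat_lit 404) (nat_lit 341) (nat_lit 275)) (XT.lf (nat_lit 0) (nat_lit 90628318) (nat_lit 0) (nat_lit 970446235) (nat_lit 152) (nat_lit 90628318) (nat_lit 188) (nat_lit 3) (nat_lit 188) (nat_lit 1) (nat_lit 190) (nat_lit 1) (nat_lit 405) (nat_lit 341) (nat_lit 274)))) (XT.nd (nat_lit 78) (nat_lit 76) (nat_lit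 0) (XT.lf (nat_lit 76) (nat_lit 478488201) (nat_lit 0) (nat_lit 175333475) (nat_lit 152) (nat_lit 478488201) (nat_lit 187) (nat_lit 1) (nat_lit 186) (nat_lit 1) (nat_lit 188) (nat_lit 1) (nat_lit 406) (nat_lit 341) (nat_lit 273)) (XT.nd (nat_lit 78) (nat_lit 0) (nat_lit 0) (XT.lf (nat_lit 152) (nat_lit 598581775) (nat_lit 0) (nat_lit 257426060) (nat_lit 76) (nat_lit 257426060) (nat_lit 187) (nat_lit 1) (nat_lit 185) (nat_lit 1) (nat_lit 186) (nat_lit 1) (nat_lit 407) (nat_lit 341) (nat_lit 272)) (XT.lf (nat_lit 0) (nat_lit 123720371) (nat_lit 0) (nat_lit 847548749) (nat_lit 152) (nat_lit 123720371) (nat_lit 185) (nat_lit 3) (nat_lit 185) (nat_lit 1) (nat_lit 187) (nat_lit 1) (nat_lit 408) (nat_lit 341) (nat_lit 271))))) (XT.nd (nat_lit 234) (nat_lit 228) (nat_lit 0) (XT.nd (nat_lit 78) (nat_lit 76) (nat_lit 0) (XT.lf (nat_lit 76) (nat_lit 489632924) (nat_lit 0) (nat_lit 97428017) (nat_lit 152)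 (nat_lit 489632924) (nat_lit 184) (nat_lit 1) (nat_lit 183) (nat_lit 1) (nat_lit 185) (nat_lit 1) (nat_lit 409) (nat_lit 341) (nat_lit 270)) (XT.nd (nat_lit 78) (nat_lit 0) (nat_lit 0) (XT.lf (nat_lit 152) (nat_lit 635253472) (nat_lit 0) (nat_lit 211785056) (nat_lit 76) (nat_lit 211785056) (nat_lit 184) (nat_lit 1) (nat_lit 182) (nat_lit 1) (nat_lit 183) (nat_lit 1) (nat_lit 410) (nat_lit 341) (nat_lit 269)) (XT.lf (nat_lit 0) (nat_lit 148604323) (nat_lit 0) (nat_lit 744099720) (nat_lit 152) (nat_lit 148604323) (nat_lit 182) (nat_lit 3) (nat_lit 182) (nat_lit 1) (nat_lit 184) (nat_lit 1) (nat_lit 411) (nat_lit 341) (nat_lit 268)))) (XT.nd (nat_lit 78) (nat_lit 76) (nat_lit 0) (XT.lf (nat_lit 76) (nat_lit 494231263) (nat_lit 0) (nat_lit 35564493) (nat_lit 152) (nat_lit 494231263) (nat_lit 181) (nat_lit 1) (nat_lit 180) (nat_lit 1) (nat_lit 182) (nat_lit 1) (nat_lit 412) (nat_lit 341) (nat_lit 267))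 (XT.nd (nat_lit 78) (nat_lit 0) (nat_lit 0) (XT.lf (nat_lit 152) (nat_lit 658623426) (nat_lit 0) (nat_lit 174236090) (nat_lit 76) (nat_lit 174236090) (nat_lit 181) (nat_lit 1) (nat_lit 179) (nat_lit 1) (nat_lit 180) (nat_lit 1) (nat_lit 413) (nat_lit 341) (nat_lit 266)) (XT.lf (nat_lit 0) (nat_lit 166846922) (nat_lit 0) (nat_lit 656762459) (nat_lit 152) (nat_lit 166846922) (nat_lit 179) (nat_lit 3) (nat_lit 179) (nat_lit 1) (nat_lit 181) (nat_lit 1) (nat_lit 414) (nat_lit 341) (nat_lit 265)))))) (XT.nd (nat_lit 468) (nat_lit 532) (nat_lit 0) (XT.nd (nat_lit 234) (nat_lit 228) (nat_lit 0) (XT.nd (nat_lit 78) (nat_lit 152) (nat_lit 0) (XT.lf (nat_lit 76) (nat_lit 13644156) (nat_lit 0) (nat_lit 480230383) (nat_lit 76) (nat_lit 480230383) (nat_lit 179) (nat_lit 3) (nat_lit 178) (nat_lit 1) (nat_lit 179) (nat_lit 1) (nat_lit 415) (nat_lit 341) (nat_lit 264)) (XT.nd (nat_lit 78) (nat_lit 0) (nat_lit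 0) (XT.lf (nat_lit 152) (nat_lit 671373811) (nat_lit 0) (nat_lit 143344462) (nat_lit 76) (nat_lit 143344462) (nat_lit 178) (nat_lit 1) (nat_lit 176) (nat_lit 1) (nat_lit 177) (nat_lit 1) (nat_lit 416) (nat_lit 341) (nat_lit 263)) (XT.lf (nat_lit 0) (nat_lit 179731831) (nat_lit 0) (nat_lit 582786556) (nat_lit 152) (nat_lit 179731831) (nat_lit 176) (nat_lit 3) (nat_lit 176) (nat_lit 1) (nat_lit 178) (nat_lit 1) (nat_lit 417) (nat_lit 341) (nat_lit 262)))) (XT.nd (nat_lit 78) (nat_lit 152) (nat_lit 0) (XT.lf (nat_lit 76) (nat_lit 53006594) (nat_lit 0) (nat_lit 436868237) (nat_lit 76) (nat_lit 436868237) (nat_lit 176) (nat_lit 3) (nat_lit 175) (nat_lit 1) (nat_lit 176) (nat_lit 1) (nat_lit 418) (nat_lit 341) (nat_lit 261)) (XT.nd (nat_lit 78) (nat_lit 0) (nat_lit 0) (XT.lf (nat_lit 152) (nat_lit 675695837) (nat_lit 0) (nat_lit 117929844) (nat_lit 76) (nat_lit 117929844) (nat_lit 175) (nat_lit 1) (nat_lit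 173) (nat_lit 1) (nat_lit 174) (nat_lit 1) (nat_lit 419) (nat_lit 341) (nat_lit 260)) (XT.lf (nat_lit 0) (nat_lit 188310065) (nat_lit 0) (nat_lit 519904185) (nat_lit 152) (nat_lit 188310065) (nat_lit 173) (nat_lit 3) (nat_lit 173) (nat_lit 1) (nat_lit 175) (nat_lit 1) (nat_lit 420) (nat_lit 341) (nat_lit 259))))) (XT.nd (nat_lit 234) (nat_lit 304) (nat_lit 0) (XT.nd (nat_lit 78) (nat_lit 152) (nat_lit 0) (XT.lf (nat_lit 76) (nat_lit 83400572) (nat_lit 0) (nat_lit 399204496) (nat_lit 76) (nat_lit 399204496) (nat_lit 173) (nat_lit 3) (nat_lit 172) (nat_lit 1) (nat_lit 173) (nat_lit 1) (nat_lit 421) (nat_lit 341) (nat_lit 258)) (XT.nd (nat_lit 78) (nat_lit 0) (nat_lit 0) (XT.lf (nat_lit 152) (nat_lit 673377534) (nat_lit 0) (nat_lit 97021174) (nat_lit 76) (nat_lit 97021174) (nat_lit 172) (nat_lit 1) (nat_lit 170) (nat_lit 1) (nat_lit 171) (nat_lit 1) (nat_lit 422) (nat_lit 341) (nat_lit 257)) (XT.lf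 (nat_lit 0) (nat_lit 193441483) (nat_lit 0) (nat_lit 466244786) (nat_lit 152) (nat_lit 193441483) (nat_lit 170) (nat_lit 3) (nat_lit 170) (nat_lit 1) (nat_lit 172) (nat_lit 1) (nat_lit 423) (nat_lit 341) (nat_lit 256)))) (XT.nd (nat_lit 156) (nat_lit 76) (nat_lit 0) (XT.nd (nat_lit 78) (nat_lit 152) (nat_lit 0) (XT.lf (nat_lit 76) (nat_lit 106510920) (nat_lit 0) (nat_lit 366323590) (nat_lit 76) (nat_lit 366323590) (nat_lit 170) (nat_lit 3) (nat_lit 169) (nat_lit 1) (nat_lit 170) (nat_lit 1) (nat_lit 424) (nat_lit 341) (nat_lit 255)) (XT.lf (nat_lit 152) (nat_lit 665875932) (nat_lit 0) (nat_lit 79819560) (nat_lit 76) (nat_lit 79819560) (nat_lit 169) (nat_lit 1) (nat_lit 167) (nat_lit 1) (nat_lit 168) (nat_lit 1) (nat_lit 425) (nat_lit 341) (nat_lit 254))) (XT.nd (nat_lit 78) (nat_lit 76) (nat_lit 0) (XT.lf (nat_lit 0) (nat_lit 195828907) (nat_lit 0) (nat_lit 420264860) (nat_lit 152) (nat_lit 195828907)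 (nat_lit 167) (nat_lit 3) (nat_lit 167) (nat_lit 1) (nat_lit 169) (nat_lit 1) (nat_lit 426) (nat_lit 341) (nat_lit 253)) (XT.lf (nat_lit 76) (nat_lit 123719239) (nat_lit 0) (nat_lit 337467765) (nat_lit 76) (nat_lit 337467765) (nat_lit 167) (nat_lit 3) (nat_lit 166) (nat_lit 1) (nat_lit 167) (nat_lit 1) (nat_lit 427) (nat_lit 341) (nat_lit 252))))))))
noncomputable def ec59 : XT := (XT.nd (nat_lit 46098) (nat_lit 0) (nat_lit 7752) (XT.nd (nat_lit 936) (nat_lit 836) (nat_lit 0) (XT.nd (nat_lit 468) (nat_lit 456) (nat_lit 0) (XT.nd (nat_lit 234) (nat_lit 228) (nat_lit 0) (XT.nd (nat_lit 78) (nat_lit 76) (nat_lit 0) (XT.lf (nat_lit 152) (nat_lit 654376413) (nat_lit 0) (nat_lit 65667750) (nat_lit 76) (nat_lit 65667750) (nat_lit 166) (nat_lit 1) (nat_lit 164) (nat_lit 1) (nat_lit 165) (nat_lit 1) (nat_lit 428) (nat_lit 341) (nat_lit 251)) (XT.nd (nat_lit 78) (nat_lit 76) (nat_lit 0) (XT.lf (nat_lit 0)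 (nat_lit 196046184) (nat_lit 0) (nat_lit 380690198) (nat_lit 152) (nat_lit 196046184) (nat_lit 164) (nat_lit 3) (nat_lit 164) (nat_lit 1) (nat_lit 166) (nat_lit 1) (nat_lit 429) (nat_lit 341) (nat_lit 250)) (XT.lf (nat_lit 76) (nat_lit 136157878) (nat_lit 0) (nat_lit 312009319) (nat_lit 76) (nat_lit 312009319) (nat_lit 164) (nat_lit 3) (nat_lit 163) (nat_lit 1) (nat_lit 164) (nat_lit 1) (nat_lit 430) (nat_lit 341) (nat_lit 249)))) (XT.nd (nat_lit 78) (nat_lit 76) (nat_lit 0) (XT.lf (nat_lit 152) (nat_lit 639841510) (nat_lit 0) (nat_lit 54025020) (nat_lit 76) (nat_lit 54025020) (nat_lit 163) (nat_lit 1) (nat_lit 161) (nat_lit 1) (nat_lit 162) (nat_lit 1) (nat_lit 431) (nat_lit 341) (nat_lit 248)) (XT.nd (nat_lit 78) (nat_lit 76) (nat_lit 0) (XT.lf (nat_lit 0) (nat_lit 194561260) (nat_lit 0) (nat_lit 346468347) (nat_lit 152) (nat_lit 194561260) (nat_lit 161) (nat_lit 3) (nat_lit 161) (nat_lit 1)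 (nat_lit 163) (nat_lit 1) (nat_lit 432) (nat_lit 341) (nat_lit 247)) (XT.lf (nat_lit 76) (nat_lit 144754331) (nat_lit 0) (nat_lit 289427747) (nat_lit 76) (nat_lit 289427747) (nat_lit 161) (nat_lit 3) (nat_lit 160) (nat_lit 1) (nat_lit 161) (nat_lit 1) (nat_lit 433) (nat_lit 341) (nat_lit 246))))) (XT.nd (nat_lit 234) (nat_lit 228) (nat_lit 0) (XT.nd (nat_lit 78) (nat_lit 76) (nat_lit 0) (XT.lf (nat_lit 152) (nat_lit 623051018) (nat_lit 0) (nat_lit 44446518) (nat_lit 76) (nat_lit 44446518) (nat_lit 160) (nat_lit 1) (nat_lit 158) (nat_lit 1) (nat_lit 159) (nat_lit 1) (nat_lit 434) (nat_lit 341) (nat_lit 245)) (XT.nd (nat_lit 78) (nat_lit 76) (nat_lit 0) (XT.lf (nat_lit 0) (nat_lit 191755153) (nat_lit 0) (nat_lit 316729489) (nat_lit 152) (nat_lit 191755153) (nat_lit 158) (nat_lit 3) (nat_lit 158) (nat_lit 1) (nat_lit 160) (nat_lit 1) (nat_lit 435) (nat_lit 341) (nat_lit 244)) (XT.lf (nat_lit 76) (nat_lit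 150267754) (nat_lit 0) (nat_lit 269290932) (nat_lit 76) (nat_lit 269290932) (nat_lit 158) (nat_lit 3) (nat_lit 157) (nat_lit 1) (nat_lit 158) (nat_lit 1) (nat_lit 436) (nat_lit 341) (nat_lit 243)))) (XT.nd (nat_lit 78) (nat_lit 76) (nat_lit 0) (XT.lf (nat_lit 152) (nat_lit 604634971) (nat_lit 0) (nat_lit 36566260) (nat_lit 76) (nat_lit 36566260) (nat_lit 157) (nat_lit 1) (nat_lit 155) (nat_lit 1) (nat_lit 156) (nat_lit 1) (nat_lit 437) (nat_lit 341) (nat_lit 242)) (XT.nd (nat_lit 78) (nat_lit 76) (nat_lit 0) (XT.lf (nat_lit 0) (nat_lit 187937555) (nat_lit 0) (nat_lit 290754251) (nat_lit 152) (nat_lit 187937555) (nat_lit 155) (nat_lit 3) (nat_lit 155) (nat_lit 1) (nat_lit 157) (nat_lit 1) (nat_lit 438) (nat_lit 341) (nat_lit 241)) (XT.lf (nat_lit 76) (nat_lit 153318994) (nat_lit 0) (nat_lit 251239657) (nat_lit 76) (nat_lit 251239657) (nat_lit 155) (nat_lit 3) (nat_lit 154) (nat_lit 1) (nat_lit 155)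 (nat_lit 1) (nat_lit 439) (nat_lit 341) (nat_lit 240)))))) (XT.nd (nat_lit 468) (nat_lit 380) (nat_lit 0) (XT.nd (nat_lit 234) (nat_lit 228) (nat_lit 0) (XT.nd (nat_lit 78) (nat_lit 76) (nat_lit 0) (XT.lf (nat_lit 152) (nat_lit 585100740) (nat_lit 0) (nat_lit 30083152) (nat_lit 76) (nat_lit 30083152) (nat_lit 154) (nat_lit 1) (nat_lit 152) (nat_lit 1) (nat_lit 153) (nat_lit 1) (nat_lit 440) (nat_lit 341) (nat_lit 239)) (XT.nd (nat_lit 78) (nat_lit 76) (nat_lit 0) (XT.lf (nat_lit 0) (nat_lit 183359660) (nat_lit 0) (nat_lit 267947210) (nat_lit 152) (nat_lit 183359660) (nat_lit 152) (nat_lit 3) (nat_lit 152) (nat_lit 1) (nat_lit 154) (nat_lit 1) (nat_lit 441) (nat_lit 341) (nat_lit 238)) (XT.lf (nat_lit 76) (nat_lit 154415288) (nat_lit 0) (nat_lit 234974859) (nat_lit 76) (nat_lit 234974859) (nat_lit 152) (nat_lit 3) (nat_lit 151) (nat_lit 1) (nat_lit 152) (nat_lit 1) (nat_lit 442) (nat_lit 341) (nat_lit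 237)))) (XT.nd (nat_lit 78) (nat_lit 76) (nat_lit 0) (XT.lf (nat_lit 152) (nat_lit 564855307) (nat_lit 0) (nat_lit 24749484) (nat_lit 76) (nat_lit 24749484) (nat_lit 151) (nat_lit 1) (nat_lit 149) (nat_lit 1) (nat_lit 150) (nat_lit 1) (nat_lit 443) (nat_lit 341) (nat_lit 236)) (XT.nd (nat_lit 78) (nat_lit 76) (nat_lit 0) (XT.lf (nat_lit 0) (nat_lit 178224702) (nat_lit 0) (nat_lit 247815089) (nat_lit 152) (nat_lit 178224702) (nat_lit 149) (nat_lit 3) (nat_lit 149) (nat_lit 1) (nat_lit 151) (nat_lit 1) (nat_lit 444) (nat_lit 341) (nat_lit 235)) (XT.lf (nat_lit 76) (nat_lit 153970575) (nat_lit 0) (nat_lit 220247134) (nat_lit 76) (nat_lit 220247134) (nat_lit 149) (nat_lit 3) (nat_lit 148) (nat_lit 1) (nat_lit 149) (nat_lit 1) (nat_lit 445) (nat_lit 341) (nat_lit 234))))) (XT.nd (nat_lit 234) (nat_lit 152) (nat_lit 0) (XT.nd (nat_lit 78) (nat_lit 76) (nat_lit 0) (XT.lf (nat_lit 152) (nat_lit 544223554)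 (nat_lit 0) (nat_lit 20361462) (nat_lit 76) (nat_lit 20361462) (nat_lit 148) (nat_lit 1) (nat_lit 146) (nat_lit 1) (nat_lit 147) (nat_lit 1) (nat_lit 446) (nat_lit 341) (nat_lit 233)) (XT.nd (nat_lit 78) (nat_lit 76) (nat_lit 0) (XT.lf (nat_lit 0) (nat_lit 172696623) (nat_lit 0) (nat_lit 229948806) (nat_lit 152) (nat_lit 172696623) (nat_lit 146) (nat_lit 3) (nat_lit 146) (nat_lit 1) (nat_lit 148) (nat_lit 1) (nat_lit 447) (nat_lit 341) (nat_lit 232)) (XT.lf (nat_lit 76) (nat_lit 152322197) (nat_lit 0) (nat_lit 206848086) (nat_lit 76) (nat_lit 206848086) (nat_lit 146) (nat_lit 3) (nat_lit 145) (nat_lit 1) (nat_lit 146) (nat_lit 1) (nat_lit 448) (nat_lit 341) (nat_lit 231)))) (XT.nd (nat_lit 44304) (nat_lit 0) (nat_lit 11324) (XT.nd (nat_lit 78) (nat_lit 0) (nat_lit 0) (XT.lf (nat_lit 152) (nat_lit 523463298) (nat_lit 0) (nat_lit 16751425) (nat_lit 76) (nat_lit 16751425) (nat_lit 145) (nat_lit 1)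 (nat_lit 143) (nat_lit 1) (nat_lit 144) (nat_lit 1) (nat_lit 449) (nat_lit 341) (nat_lit 230)) (XT.lf (nat_lit 0) (nat_lit 166907196) (nat_lit 0) (nat_lit 214008709) (nat_lit 152) (nat_lit 166907196) (nat_lit 143) (nat_lit 3) (nat_lit 143) (nat_lit 1) (nat_lit 145) (nat_lit 1) (nat_lit 450) (nat_lit 341) (nat_lit 229))) (XT.nd (nat_lit 78) (nat_lit 0) (nat_lit 0) (XT.lf (nat_lit 836) (nat_lit 592418042) (nat_lit 0) (nat_lit 1051836873) (nat_lit 836) (nat_lit 592418042) (nat_lit 303) (nat_lit 1) (nat_lit 292) (nat_lit 0) (nat_lit 303) (nat_lit 0) (nat_lit 336) (nat_lit 342) (nat_lit 342)) (XT.lf (nat_lit 836) (nat_lit 2296286294) (nat_lit 76) (nat_lit 1034871762) (nat_lit 0) (nat_lit 1034871762) (nat_lit 303) (nat_lit 1) (nat_lit 293) (nat_lit 1) (nat_lit 292) (nat_lit 0) (nat_lit 337) (nat_lit 342) (nat_lit 341))))))) (XT.nd (nat_lit 1014) (nat_lit 2280) (nat_lit 0) (XT.nd (nat_lit 468) (nat_lit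 1368) (nat_lit 0) (XT.nd (nat_lit 234) (nat_lit 0) (nat_lit 76) (XT.nd (nat_lit 78) (nat_lit 0) (nat_lit 0) (XT.lf (nat_lit 836) (nat_lit 1094375472) (nat_lit 0) (nat_lit 2073280492) (nat_lit 760) (nat_lit 1094375472) (nat_lit 304) (nat_lit 1) (nat_lit 293) (nat_lit 1) (nat_lit 303) (nat_lit 1) (nat_lit 338) (nat_lit 342) (nat_lit 340)) (XT.nd (nat_lit 78) (nat_lit 0) (nat_lit 76) (XT.lf (nat_lit 836) (nat_lit 2052896320) (nat_lit 76) (nat_lit 1054248329) (nat_lit 0) (nat_lit 1054248329) (nat_lit 304) (nat_lit 1) (nat_lit 294) (nat_lit 1) (nat_lit 293) (nat_lit 1) (nat_lit 339) (nat_lit 342) (nat_lit 339)) (XT.lf (nat_lit 836) (nat_lit 944928461) (nat_lit 0) (nat_lit 2174087331) (nat_lit 760) (nat_lit 944928461) (nat_lit 305) (nat_lit 1) (nat_lit 294) (nat_lit 1) (nat_lit 304) (nat_lit 1) (nat_lit 340) (nat_lit 342) (nat_lit 338)))) (XT.nd (nat_lit 78) (nat_lit 0) (nat_lit 76) (XT.lf (nat_lit 836)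 (nat_lit 1699515383) (nat_lit 76) (nat_lit 1134975378) (nat_lit 0) (nat_lit 1134975378) (nat_lit 305) (nat_lit 1) (nat_lit 295) (nat_lit 1) (nat_lit 294) (nat_lit 1) (nat_lit 341) (nat_lit 342) (nat_lit 337)) (XT.nd (nat_lit 78) (nat_lit 0) (nat_lit 0) (XT.lf (nat_lit 836) (nat_lit 745188409) (nat_lit 0) (nat_lit 2387783454) (nat_lit 760) (nat_lit 745188409) (nat_lit 306) (nat_lit 1) (nat_lit 295) (nat_lit 1) (nat_lit 305) (nat_lit 1) (nat_lit 342) (nat_lit 342) (nat_lit 336)) (XT.lf (nat_lit 836) (nat_lit 1252684596) (nat_lit 76) (nat_lit 1268341886) (nat_lit 0) (nat_lit 1268341886) (nat_lit 306) (nat_lit 1) (nat_lit 296) (nat_lit 1) (nat_lit 295) (nat_lit 1) (nat_lit 343) (nat_lit 342) (nat_lit 335))))) (XT.nd (nat_lit 234) (nat_lit 1596) (nat_lit 0) (XT.nd (nat_lit 78) (nat_lit 0) (nat_lit 0) (XT.lf (nat_lit 836) (nat_lit 502887619) (nat_lit 0) (nat_lit 2698051517) (nat_lit 760) (nat_lit 502887619)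 (nat_lit 307) (nat_lit 1) (nat_lit 296) (nat_lit 1) (nat_lit 306) (nat_lit 1) (nat_lit 344) (nat_lit 342) (nat_lit 334)) (XT.nd (nat_lit 78) (nat_lit 0) (nat_lit 76) (XT.lf (nat_lit 836) (nat_lit 727106509) (nat_lit 76) (nat_lit 1446589903) (nat_lit 0) (nat_lit 1446589903) (nat_lit 307) (nat_lit 1) (nat_lit 297) (nat_lit 1) (nat_lit 296) (nat_lit 1) (nat_lit 345) (nat_lit 342) (nat_lit 333)) (XT.lf (nat_lit 76) (nat_lit 224893970) (nat_lit 0) (nat_lit 3090368443) (nat_lit 760) (nat_lit 224893970) (nat_lit 298) (nat_lit 1) (nat_lit 297) (nat_lit 1) (nat_lit 307) (nat_lit 1) (nat_lit 346) (nat_lit 342) (nat_lit 332)))) (XT.nd (nat_lit 156) (nat_lit 380) (nat_lit 0) (XT.nd (nat_lit 78) (nat_lit 532) (nat_lit 0) (XT.lf (nat_lit 836) (nat_lit 135830365) (nat_lit 0) (nat_lit 1662819121) (nat_lit 760) (nat_lit 1662819121) (nat_lit 298) (nat_lit 1) (nat_lit 287) (nat_lit 1) (nat_lit 297) (nat_lit 1) (nat_lit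 347) (nat_lit 342) (nat_lit 331)) (XT.lf (nat_lit 532) (nat_lit 3223425630) (nat_lit 0) (nat_lit 81367888) (nat_lit 456) (nat_lit 81367888) (nat_lit 287) (nat_lit 1) (nat_lit 280) (nat_lit 1) (nat_lit 286) (nat_lit 1) (nat_lit 348) (nat_lit 342) (nat_lit 330))) (XT.nd (nat_lit 78) (nat_lit 380) (nat_lit 0) (XT.lf (nat_lit 76) (nat_lit 1409276075) (nat_lit 0) (nat_lit 493270791) (nat_lit 532) (nat_lit 1409276075) (nat_lit 281) (nat_lit 1) (nat_lit 280) (nat_lit 1) (nat_lit 287) (nat_lit 1) (nat_lit 349) (nat_lit 342) (nat_lit 329)) (XT.lf (nat_lit 456) (nat_lit 2425002380) (nat_lit 0) (nat_lit 407821583) (nat_lit 380) (nat_lit 407821583) (nat_lit 281) (nat_lit 1) (nat_lit 275) (nat_lit 1) (nat_lit 280) (nat_lit 1) (nat_lit 350) (nat_lit 342) (nat_lit 328)))))) (XT.nd (nat_lit 468) (nat_lit 1216) (nat_lit 0) (XT.nd (nat_lit 234) (nat_lit 684) (nat_lit 0) (XT.nd (nat_lit 78) (nat_lit 380) (nat_lit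 0) (XT.lf (nat_lit 76) (nat_lit 1005219468) (nat_lit 0) (nat_lit 1160525560) (nat_lit 456) (nat_lit 1005219468) (nat_lit 276) (nat_lit 1) (nat_lit 275) (nat_lit 1) (nat_lit 281) (nat_lit 1) (nat_lit 351) (nat_lit 342) (nat_lit 327)) (XT.nd (nat_lit 78) (nat_lit 0) (nat_lit 0) (XT.lf (nat_lit 456) (nat_lit 1596898457) (nat_lit 0) (nat_lit 753405898) (nat_lit 380) (nat_lit 753405898) (nat_lit 276) (nat_lit 1) (nat_lit 270) (nat_lit 1) (nat_lit 275) (nat_lit 1) (nat_lit 352) (nat_lit 342) (nat_lit 326)) (XT.lf (nat_lit 76) (nat_lit 588435858) (nat_lit 0) (nat_lit 1861540272) (nat_lit 456) (nat_lit 588435858) (nat_lit 271) (nat_lit 1) (nat_lit 270) (nat_lit 1) (nat_lit 276) (nat_lit 1) (nat_lit 353) (nat_lit 342) (nat_lit 325)))) (XT.nd (nat_lit 78) (nat_lit 380) (nat_lit 0) (XT.lf (nat_lit 380) (nat_lit 746821407) (nat_lit 0) (nat_lit 1113986002) (nat_lit 304) (nat_lit 1113986002) (nat_lit 271) (nat_lit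 1) (nat_lit 266) (nat_lit 1) (nat_lit 270) (nat_lit 1) (nat_lit 354) (nat_lit 342) (nat_lit 324)) (XT.nd (nat_lit 78) (nat_lit 380) (nat_lit 0) (XT.lf (nat_lit 76) (nat_lit 162503355) (nat_lit 0) (nat_lit 2588614582) (nat_lit 380) (nat_lit 162503355) (nat_lit 267) (nat_lit 1) (nat_lit 266) (nat_lit 1) (nat_lit 271) (nat_lit 1) (nat_lit 355) (nat_lit 342) (nat_lit 323)) (XT.lf (nat_lit 76) (nat_lit 1369299964) (nat_lit 0) (nat_lit 114681531) (nat_lit 380) (nat_lit 1369299964) (nat_lit 262) (nat_lit 1) (nat_lit 261) (nat_lit 1) (nat_lit 266) (nat_lit 1) (nat_lit 356) (nat_lit 342) (nat_lit 322))))) (XT.nd (nat_lit 234) (nat_lit 608) (nat_lit 0) (XT.nd (nat_lit 78) (nat_lit 304) (nat_lit 0) (XT.lf (nat_lit 380) (nat_lit 2265038082) (nat_lit 0) (nat_lit 265100718) (nat_lit 304) (nat_lit 265100718) (nat_lit 262) (nat_lit 1) (nat_lit 257) (nat_lit 1) (nat_lit 261) (nat_lit 1) (nat_lit 357) (nat_lit 342)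 (nat_lit 321)) (XT.nd (nat_lit 78) (nat_lit 304) (nat_lit 0) (XT.lf (nat_lit 76) (nat_lit 888447514) (nat_lit 0) (nat_lit 961298272) (nat_lit 380) (nat_lit 888447514) (nat_lit 258) (nat_lit 1) (nat_lit 257) (nat_lit 1) (nat_lit 262) (nat_lit 1) (nat_lit 358) (nat_lit 342) (nat_lit 320)) (XT.lf (nat_lit 380) (nat_lit 1296492069) (nat_lit 0) (nat_lit 693316586) (nat_lit 304) (nat_lit 693316586) (nat_lit 258) (nat_lit 1) (nat_lit 253) (nat_lit 1) (nat_lit 257) (nat_lit 1) (nat_lit 359) (nat_lit 342) (nat_lit 319)))) (XT.nd (nat_lit 156) (nat_lit 380) (nat_lit 0) (XT.nd (nat_lit 78) (nat_lit 228) (nat_lit 0) (XT.lf (nat_lit 76) (nat_lit 408855737) (nat_lit 0) (nat_lit 1811955906) (nat_lit 380) (nat_lit 408855737) (nat_lit 254) (nat_lit 1) (nat_lit 253) (nat_lit 1) (nat_lit 258) (nat_lit 1) (nat_lit 360) (nat_lit 342) (nat_lit 318)) (XT.lf (nat_lit 304) (nat_lit 332504860) (nat_lit 0) (nat_lit 1122429299)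 (nat_lit 228) (nat_lit 1122429299) (nat_lit 254) (nat_lit 1) (nat_lit 250) (nat_lit 1) (nat_lit 253) (nat_lit 1) (nat_lit 361) (nat_lit 342) (nat_lit 317))) (XT.nd (nat_lit 78) (nat_lit 0) (nat_lit 0) (XT.lf (nat_lit 380) (nat_lit 2394208612) (nat_lit 0) (nat_lit 66434695) (nat_lit 304) (nat_lit 66434695) (nat_lit 250) (nat_lit 1) (nat_lit 245) (nat_lit 1) (nat_lit 249) (nat_lit 1) (nat_lit 362) (nat_lit 342) (nat_lit 316)) (XT.lf (nat_lit 76) (nat_lit 936871530) (nat_lit 0) (nat_lit 603327808) (nat_lit 380) (nat_lit 936871530) (nat_lit 246) (nat_lit 1) (nat_lit 245) (nat_lit 1) (nat_lit 250) (nat_lit 1) (nat_lit 363) (nat_lit 342) (nat_lit 315))))))))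
noncomputable def ec60 : XT := (XT.nd (nat_lit 1950) (nat_lit 1976) (nat_lit 0) (XT.nd (nat_lit 936) (nat_lit 1520) (nat_lit 0) (XT.nd (nat_lit 468) (nat_lit 608) (nat_lit 0) (XT.nd (nat_lit 234) (nat_lit 532) (nat_lit 0) (XT.nd (nat_lit 78) (nat_lit 228) (nat_lit 0) (XT.lf (nat_lit 304) (nat_lit 1368330488) (nat_lit 0) (nat_lit 530325576) (nat_lit 228) (nat_lit 530325576) (nat_lit 246) (nat_lit 1) (nat_lit 242) (nat_lit 1) (nat_lit 245) (nat_lit 1) (nat_lit 364) (nat_lit 342) (nat_lit 314)) (XT.nd (nat_lit 78) (nat_lit 228) (nat_lit 0) (XT.lf (nat_lit 76) (nat_lit 432276767) (nat_lit 0) (nat_lit 1517560670) (nat_lit 304) (nat_lit 432276767) (nat_lit 243) (nat_lit 1) (nat_lit 242) (nat_lit 1) (nat_lit 246) (nat_lit 1) (nat_lit 365) (nat_lit 342) (nat_lit 313)) (XT.lf (nat_lit 304) (nat_lit 360289174) (nat_lit 0) (nat_lit 988011907) (nat_lit 228) (nat_lit 988011907) (nat_lit 243) (nat_lit 1) (nat_lit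 239) (nat_lit 1) (nat_lit 242) (nat_lit 1) (nat_lit 366) (nat_lit 342) (nat_lit 312)))) (XT.nd (nat_lit 78) (nat_lit 228) (nat_lit 0) (XT.lf (nat_lit 304) (nat_lit 2168374514) (nat_lit 0) (nat_lit 61919416) (nat_lit 228) (nat_lit 61919416) (nat_lit 239) (nat_lit 1) (nat_lit 235) (nat_lit 1) (nat_lit 238) (nat_lit 1) (nat_lit 367) (nat_lit 342) (nat_lit 311)) (XT.nd (nat_lit 78) (nat_lit 228) (nat_lit 0) (XT.lf (nat_lit 76) (nat_lit 820233980) (nat_lit 0) (nat_lit 607785143) (nat_lit 304) (nat_lit 820233980) (nat_lit 236) (nat_lit 1) (nat_lit 235) (nat_lit 1) (nat_lit 239) (nat_lit 1) (nat_lit 368) (nat_lit 342) (nat_lit 310)) (XT.lf (nat_lit 304) (nat_lit 1127896828) (nat_lit 0) (nat_lit 539011284) (nat_lit 228) (nat_lit 539011284) (nat_lit 236) (nat_lit 1) (nat_lit 232) (nat_lit 1) (nat_lit 235) (nat_lit 1) (nat_lit 369) (nat_lit 342) (nat_lit 309))))) (XT.nd (nat_lit 234) (nat_lit 152) (nat_lit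 0) (XT.nd (nat_lit 78) (nat_lit 456) (nat_lit 0) (XT.lf (nat_lit 76) (nat_lit 310621866) (nat_lit 0) (nat_lit 1543477366) (nat_lit 304) (nat_lit 310621866) (nat_lit 233) (nat_lit 1) (nat_lit 232) (nat_lit 1) (nat_lit 236) (nat_lit 1) (nat_lit 370) (nat_lit 342) (nat_lit 308)) (XT.nd (nat_lit 78) (nat_lit 304) (nat_lit 0) (XT.lf (nat_lit 228) (nat_lit 113822179) (nat_lit 0) (nat_lit 1005238489) (nat_lit 152) (nat_lit 1005238489) (nat_lit 233) (nat_lit 1) (nat_lit 230) (nat_lit 1) (nat_lit 232) (nat_lit 1) (nat_lit 371) (nat_lit 342) (nat_lit 307)) (XT.lf (nat_lit 304) (nat_lit 1719814972) (nat_lit 0) (nat_lit 182656815) (nat_lit 228) (nat_lit 182656815) (nat_lit 230) (nat_lit 1) (nat_lit 226) (nat_lit 1) (nat_lit 229) (nat_lit 1) (nat_lit 372) (nat_lit 342) (nat_lit 306)))) (XT.nd (nat_lit 78) (nat_lit 152) (nat_lit 0) (XT.lf (nat_lit 76) (nat_lit 600690546) (nat_lit 0) (nat_lit 845015040) (nat_lit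 304) (nat_lit 600690546) (nat_lit 227) (nat_lit 1) (nat_lit 226) (nat_lit 1) (nat_lit 230) (nat_lit 1) (nat_lit 373) (nat_lit 342) (nat_lit 305)) (XT.nd (nat_lit 78) (nat_lit 0) (nat_lit 0) (XT.lf (nat_lit 228) (nat_lit 694005265) (nat_lit 0) (nat_lit 657426893) (nat_lit 152) (nat_lit 657426893) (nat_lit 227) (nat_lit 1) (nat_lit 224) (nat_lit 1) (nat_lit 226) (nat_lit 1) (nat_lit 374) (nat_lit 342) (nat_lit 304)) (XT.lf (nat_lit 76) (nat_lit 99706528) (nat_lit 0) (nat_lit 1773154626) (nat_lit 228) (nat_lit 99706528) (nat_lit 225) (nat_lit 1) (nat_lit 224) (nat_lit 1) (nat_lit 227) (nat_lit 1) (nat_lit 375) (nat_lit 342) (nat_lit 303)))))) (XT.nd (nat_lit 468) (nat_lit 760) (nat_lit 0) (XT.nd (nat_lit 234) (nat_lit 380) (nat_lit 0) (XT.nd (nat_lit 78) (nat_lit 152) (nat_lit 0) (XT.lf (nat_lit 76) (nat_lit 822895473) (nat_lit 0) (nat_lit 290617289) (nat_lit 228) (nat_lit 822895473) (nat_lit 222)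 (nat_lit 1) (nat_lit 221) (nat_lit 1) (nat_lit 224) (nat_lit 1) (nat_lit 376) (nat_lit 342) (nat_lit 302)) (XT.nd (nat_lit 78) (nat_lit 0) (nat_lit 0) (XT.lf (nat_lit 228) (nat_lit 1142734589) (nat_lit 0) (nat_lit 379356922) (nat_lit 152) (nat_lit 379356922) (nat_lit 222) (nat_lit 1) (nat_lit 219) (nat_lit 1) (nat_lit 221) (nat_lit 1) (nat_lit 377) (nat_lit 342) (nat_lit 301)) (XT.lf (nat_lit 76) (nat_lit 322449971) (nat_lit 0) (nat_lit 1222361377) (nat_lit 228) (nat_lit 322449971) (nat_lit 220) (nat_lit 1) (nat_lit 219) (nat_lit 1) (nat_lit 222) (nat_lit 1) (nat_lit 378) (nat_lit 342) (nat_lit 300)))) (XT.nd (nat_lit 78) (nat_lit 228) (nat_lit 0) (XT.lf (nat_lit 228) (nat_lit 151056202) (nat_lit 0) (nat_lit 841353564) (nat_lit 152) (nat_lit 841353564) (nat_lit 220) (nat_lit 1) (nat_lit 217) (nat_lit 1) (nat_lit 219) (nat_lit 1) (nat_lit 379) (nat_lit 342) (nat_lit 299)) (XT.nd (nat_lit 78) (nat_lit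 0) (nat_lit 0) (XT.lf (nat_lit 228) (nat_lit 1484677945) (nat_lit 0) (nat_lit 158279012) (nat_lit 152) (nat_lit 158279012) (nat_lit 217) (nat_lit 1) (nat_lit 214) (nat_lit 1) (nat_lit 216) (nat_lit 1) (nat_lit 380) (nat_lit 342) (nat_lit 298)) (XT.lf (nat_lit 76) (nat_lit 494252926) (nat_lit 0) (nat_lit 780480375) (nat_lit 228) (nat_lit 494252926) (nat_lit 215) (nat_lit 1) (nat_lit 214) (nat_lit 1) (nat_lit 217) (nat_lit 1) (nat_lit 381) (nat_lit 342) (nat_lit 297))))) (XT.nd (nat_lit 234) (nat_lit 456) (nat_lit 0) (XT.nd (nat_lit 78) (nat_lit 152) (nat_lit 0) (XT.lf (nat_lit 228) (nat_lit 503372609) (nat_lit 0) (nat_lit 617150066) (nat_lit 152) (nat_lit 617150066) (nat_lit 215) (nat_lit 1) (nat_lit 212) (nat_lit 1) (nat_lit 214) (nat_lit 1) (nat_lit 382) (nat_lit 342) (nat_lit 296)) (XT.nd (nat_lit 78) (nat_lit 152) (nat_lit 0) (XT.lf (nat_lit 76) (nat_lit 16544469) (nat_lit 0) (nat_lit 1674368480)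 (nat_lit 228) (nat_lit 16544469) (nat_lit 213) (nat_lit 1) (nat_lit 212) (nat_lit 1) (nat_lit 215) (nat_lit 1) (nat_lit 383) (nat_lit 342) (nat_lit 295)) (XT.lf (nat_lit 76) (nat_lit 624692188) (nat_lit 0) (nat_lit 427665656) (nat_lit 152) (nat_lit 624692188) (nat_lit 211) (nat_lit 1) (nat_lit 210) (nat_lit 1) (nat_lit 212) (nat_lit 1) (nat_lit 384) (nat_lit 342) (nat_lit 294)))) (XT.nd (nat_lit 156) (nat_lit 304) (nat_lit 0) (XT.nd (nat_lit 78) (nat_lit 0) (nat_lit 0) (XT.lf (nat_lit 228) (nat_lit 775171889) (nat_lit 0) (nat_lit 436270321) (nat_lit 152) (nat_lit 436270321) (nat_lit 211) (nat_lit 1) (nat_lit 208) (nat_lit 1) (nat_lit 210) (nat_lit 1) (nat_lit 385) (nat_lit 342) (nat_lit 293)) (XT.lf (nat_lit 76) (nat_lit 155416606) (nat_lit 0) (nat_lit 1308333712) (nat_lit 228) (nat_lit 155416606) (nat_lit 209) (nat_lit 1) (nat_lit 208) (nat_lit 1) (nat_lit 211) (nat_lit 1) (nat_lit 386) (nat_lit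 342) (nat_lit 292))) (XT.nd (nat_lit 78) (nat_lit 152) (nat_lit 0) (XT.lf (nat_lit 76) (nat_lit 721620650) (nat_lit 0) (nat_lit 147615422) (nat_lit 152) (nat_lit 721620650) (nat_lit 207) (nat_lit 1) (nat_lit 206) (nat_lit 1) (nat_lit 208) (nat_lit 1) (nat_lit 387) (nat_lit 342) (nat_lit 291)) (XT.lf (nat_lit 228) (nat_lit 981589163) (nat_lit 0) (nat_lit 290862992) (nat_lit 152) (nat_lit 290862992) (nat_lit 207) (nat_lit 1) (nat_lit 204) (nat_lit 1) (nat_lit 206) (nat_lit 1) (nat_lit 388) (nat_lit 342) (nat_lit 290))))))) (XT.nd (nat_lit 936) (nat_lit 988) (nat_lit 0) (XT.nd (nat_lit 468) (nat_lit 380) (nat_lit 0) (XT.nd (nat_lit 234) (nat_lit 304) (nat_lit 0) (XT.nd (nat_lit 78) (nat_lit 304) (nat_lit 0) (XT.lf (nat_lit 76) (nat_lit 262914417) (nat_lit 0) (nat_lit 1010489972) (nat_lit 228) (nat_lit 262914417) (nat_lit 205) (nat_lit 1) (nat_lit 204) (nat_lit 1) (nat_lit 207) (nat_lit 1) (nat_lit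 389) (nat_lit 342) (nat_lit 289)) (XT.nd (nat_lit 78) (nat_lit 228) (nat_lit 0) (XT.lf (nat_lit 152) (nat_lit 75473154) (nat_lit 0) (nat_lit 717179373) (nat_lit 76) (nat_lit 717179373) (nat_lit 205) (nat_lit 1) (nat_lit 203) (nat_lit 1) (nat_lit 204) (nat_lit 1) (nat_lit 390) (nat_lit 342) (nat_lit 288)) (XT.lf (nat_lit 228) (nat_lit 1135035196) (nat_lit 0) (nat_lit 174476864) (nat_lit 152) (nat_lit 174476864) (nat_lit 203) (nat_lit 1) (nat_lit 200) (nat_lit 1) (nat_lit 202) (nat_lit 1) (nat_lit 391) (nat_lit 342) (nat_lit 287)))) (XT.nd (nat_lit 78) (nat_lit 304) (nat_lit 0) (XT.lf (nat_lit 76) (nat_lit 344922047) (nat_lit 0) (nat_lit 768590305) (nat_lit 228) (nat_lit 344922047) (nat_lit 201) (nat_lit 1) (nat_lit 200) (nat_lit 1) (nat_lit 203) (nat_lit 1) (nat_lit 392) (nat_lit 342) (nat_lit 286)) (XT.nd (nat_lit 78) (nat_lit 228) (nat_lit 0) (XT.lf (nat_lit 152) (nat_lit 253455952) (nat_lit 0)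 (nat_lit 590025245) (nat_lit 76) (nat_lit 590025245) (nat_lit 201) (nat_lit 1) (nat_lit 199) (nat_lit 1) (nat_lit 200) (nat_lit 1) (nat_lit 393) (nat_lit 342) (nat_lit 285)) (XT.lf (nat_lit 228) (nat_lit 1245681373) (nat_lit 0) (nat_lit 81812225) (nat_lit 152) (nat_lit 81812225) (nat_lit 199) (nat_lit 1) (nat_lit 196) (nat_lit 1) (nat_lit 198) (nat_lit 1) (nat_lit 394) (nat_lit 342) (nat_lit 284))))) (XT.nd (nat_lit 234) (nat_lit 76) (nat_lit 0) (XT.nd (nat_lit 78) (nat_lit 304) (nat_lit 0) (XT.lf (nat_lit 76) (nat_lit 406265084) (nat_lit 0) (nat_lit 572566579) (nat_lit 228) (nat_lit 406265084) (nat_lit 197) (nat_lit 1) (nat_lit 196) (nat_lit 1) (nat_lit 199) (nat_lit 1) (nat_lit 395) (nat_lit 342) (nat_lit 283)) (XT.nd (nat_lit 78) (nat_lit 228) (nat_lit 0) (XT.lf (nat_lit 152) (nat_lit 390770268) (nat_lit 0) (nat_lit 485415229) (nat_lit 76) (nat_lit 485415229) (nat_lit 197) (nat_lit 1) (nat_lit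 195) (nat_lit 1) (nat_lit 196) (nat_lit 1) (nat_lit 396) (nat_lit 342) (nat_lit 282)) (XT.lf (nat_lit 228) (nat_lit 1321858584) (nat_lit 0) (nat_lit 8516336) (nat_lit 152) (nat_lit 8516336) (nat_lit 195) (nat_lit 1) (nat_lit 192) (nat_lit 1) (nat_lit 194) (nat_lit 1) (nat_lit 397) (nat_lit 342) (nat_lit 281)))) (XT.nd (nat_lit 78) (nat_lit 76) (nat_lit 0) (XT.lf (nat_lit 76) (nat_lit 450898969) (nat_lit 0) (nat_lit 414142830) (nat_lit 228) (nat_lit 450898969) (nat_lit 193) (nat_lit 1) (nat_lit 192) (nat_lit 1) (nat_lit 195) (nat_lit 1) (nat_lit 398) (nat_lit 342) (nat_lit 280)) (XT.nd (nat_lit 78) (nat_lit 0) (nat_lit 0) (XT.lf (nat_lit 152) (nat_lit 495060457) (nat_lit 0) (nat_lit 399352310) (nat_lit 76) (nat_lit 399352310) (nat_lit 193) (nat_lit 1) (nat_lit 191) (nat_lit 1) (nat_lit 192) (nat_lit 1) (nat_lit 399) (nat_lit 342) (nat_lit 279)) (XT.lf (nat_lit 0) (nat_lit 49787841) (nat_lit 0) (nat_lit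 1172683227) (nat_lit 152) (nat_lit 49787841) (nat_lit 191) (nat_lit 3) (nat_lit 191) (nat_lit 1) (nat_lit 193) (nat_lit 1) (nat_lit 400) (nat_lit 342) (nat_lit 278)))))) (XT.nd (nat_lit 468) (nat_lit 532) (nat_lit 0) (XT.nd (nat_lit 234) (nat_lit 228) (nat_lit 0) (XT.nd (nat_lit 78) (nat_lit 76) (nat_lit 0) (XT.lf (nat_lit 76) (nat_lit 482063963) (nat_lit 0) (nat_lit 286517177) (nat_lit 152) (nat_lit 482063963) (nat_lit 190) (nat_lit 1) (nat_lit 189) (nat_lit 1) (nat_lit 191) (nat_lit 1) (nat_lit 401) (nat_lit 342) (nat_lit 277)) (XT.nd (nat_lit 78) (nat_lit 0) (nat_lit 0) (XT.lf (nat_lit 152) (nat_lit 572594882) (nat_lit 0) (nat_lit 328548134) (nat_lit 76) (nat_lit 328548134) (nat_lit 190) (nat_lit 1) (nat_lit 188) (nat_lit 1) (nat_lit 189) (nat_lit 1) (nat_lit 402) (nat_lit 342) (nat_lit 276)) (XT.lf (nat_lit 0) (nat_lit 95159734) (nat_lit 0) (nat_lit 1018968547) (nat_lit 152) (nat_lit 95159734)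 (nat_lit 188) (nat_lit 3) (nat_lit 188) (nat_lit 1) (nat_lit 190) (nat_lit 1) (nat_lit 403) (nat_lit 342) (nat_lit 275)))) (XT.nd (nat_lit 78) (nat_lit 76) (nat_lit 0) (XT.lf (nat_lit 76) (nat_lit 502412611) (nat_lit 0) (nat_lit 184100149) (nat_lit 152) (nat_lit 502412611) (nat_lit 187) (nat_lit 1) (nat_lit 186) (nat_lit 1) (nat_lit 188) (nat_lit 1) (nat_lit 404) (nat_lit 342) (nat_lit 274)) (XT.nd (nat_lit 78) (nat_lit 0) (nat_lit 0) (XT.lf (nat_lit 152) (nat_lit 628510864) (nat_lit 0) (nat_lit 270297363) (nat_lit 76) (nat_lit 270297363) (nat_lit 187) (nat_lit 1) (nat_lit 185) (nat_lit 1) (nat_lit 186) (nat_lit 1) (nat_lit 405) (nat_lit 342) (nat_lit 273)) (XT.lf (nat_lit 0) (nat_lit 129906390) (nat_lit 0) (nat_lit 889926187) (nat_lit 152) (nat_lit 129906390) (nat_lit 185) (nat_lit 3) (nat_lit 185) (nat_lit 1) (nat_lit 187) (nat_lit 1) (nat_lit 406) (nat_lit 342) (nat_lit 272))))) (XT.nd (nat_lit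 234) (nat_lit 304) (nat_lit 0) (XT.nd (nat_lit 78) (nat_lit 76) (nat_lit 0) (XT.lf (nat_lit 76) (nat_lit 514114570) (nat_lit 0) (nat_lit 102299418) (nat_lit 152) (nat_lit 514114570) (nat_lit 184) (nat_lit 1) (nat_lit 183) (nat_lit 1) (nat_lit 185) (nat_lit 1) (nat_lit 407) (nat_lit 342) (nat_lit 271)) (XT.nd (nat_lit 78) (nat_lit 0) (nat_lit 0) (XT.lf (nat_lit 152) (nat_lit 667016145) (nat_lit 0) (nat_lit 222374309) (nat_lit 76) (nat_lit 222374309) (nat_lit 184) (nat_lit 1) (nat_lit 182) (nat_lit 1) (nat_lit 183) (nat_lit 1) (nat_lit 408) (nat_lit 342) (nat_lit 270)) (XT.lf (nat_lit 0) (nat_lit 156034539) (nat_lit 0) (nat_lit 781304707) (nat_lit 152) (nat_lit 156034539) (nat_lit 182) (nat_lit 3) (nat_lit 182) (nat_lit 1) (nat_lit 184) (nat_lit 1) (nat_lit 409) (nat_lit 342) (nat_lit 269)))) (XT.nd (nat_lit 156) (nat_lit 76) (nat_lit 0) (XT.nd (nat_lit 78) (nat_lit 76) (nat_lit 0) (XT.lf (nat_lit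 76) (nat_lit 518942826) (nat_lit 0) (nat_lit 37342717) (nat_lit 152) (nat_lit 518942826) (nat_lit 181) (nat_lit 1) (nat_lit 180) (nat_lit 1) (nat_lit 182) (nat_lit 1) (nat_lit 410) (nat_lit 342) (nat_lit 268)) (XT.lf (nat_lit 152) (nat_lit 691554597) (nat_lit 0) (nat_lit 182947894) (nat_lit 76) (nat_lit 182947894) (nat_lit 181) (nat_lit 1) (nat_lit 179) (nat_lit 1) (nat_lit 180) (nat_lit 1) (nat_lit 411) (nat_lit 342) (nat_lit 267))) (XT.nd (nat_lit 78) (nat_lit 76) (nat_lit 0) (XT.lf (nat_lit 0) (nat_lit 175189268) (nat_lit 0) (nat_lit 689600582) (nat_lit 152) (nat_lit 175189268) (nat_lit 179) (nat_lit 3) (nat_lit 179) (nat_lit 1) (nat_lit 181) (nat_lit 1) (nat_lit 412) (nat_lit 342) (nat_lit 266)) (XT.lf (nat_lit 76) (nat_lit 14326364) (nat_lit 0) (nat_lit 504241902) (nat_lit 76) (nat_lit 504241902) (nat_lit 179) (nat_lit 3) (nat_lit 178) (nat_lit 1) (nat_lit 179) (nat_lit 1) (nat_lit 413) (nat_lit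 342) (nat_lit 265))))))))
noncomputable def ec61 : XT := (XT.nd (nat_lit 1950) (nat_lit 912) (nat_lit 0) (XT.nd (nat_lit 936) (nat_lit 1064) (nat_lit 0) (XT.nd (nat_lit 468) (nat_lit 456) (nat_lit 0) (XT.nd (nat_lit 234) (nat_lit 228) (nat_lit 0) (XT.nd (nat_lit 78) (nat_lit 76) (nat_lit 0) (XT.lf (nat_lit 152) (nat_lit 704942501) (nat_lit 0) (nat_lit 150511685) (nat_lit 76) (nat_lit 150511685) (nat_lit 178) (nat_lit 1) (nat_lit 176) (nat_lit 1) (nat_lit 177) (nat_lit 1) (nat_lit 414) (nat_lit 342) (nat_lit 264)) (XT.nd (nat_lit 78) (nat_lit 76) (nat_lit 0) (XT.lf (nat_lit 0) (nat_lit 188718422) (nat_lit 0) (nat_lit 611925884) (nat_lit 152) (nat_lit 188718422) (nat_lit 176) (nat_lit 3) (nat_lit 176) (nat_lit 1) (nat_lit 178) (nat_lit 1) (nat_lit 415) (nat_lit 342) (nat_lit 263)) (XT.lf (nat_lit 76) (nat_lit 55656923) (nat_lit 0) (nat_lit 458711649) (nat_lit 76) (nat_lit 458711649) (nat_lit 176)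 (nat_lit 3) (nat_lit 175) (nat_lit 1) (nat_lit 176) (nat_lit 1) (nat_lit 416) (nat_lit 342) (nat_lit 262)))) (XT.nd (nat_lit 78) (nat_lit 76) (nat_lit 0) (XT.lf (nat_lit 152) (nat_lit 709480629) (nat_lit 0) (nat_lit 123826336) (nat_lit 76) (nat_lit 123826336) (nat_lit 175) (nat_lit 1) (nat_lit 173) (nat_lit 1) (nat_lit 174) (nat_lit 1) (nat_lit 417) (nat_lit 342) (nat_lit 261)) (XT.nd (nat_lit 78) (nat_lit 76) (nat_lit 0) (XT.lf (nat_lit 0) (nat_lit 197725568) (nat_lit 0) (nat_lit 545899394) (nat_lit 152) (nat_lit 197725568) (nat_lit 173) (nat_lit 3) (nat_lit 173) (nat_lit 1) (nat_lit 175) (nat_lit 1) (nat_lit 418) (nat_lit 342) (nat_lit 260)) (XT.lf (nat_lit 76) (nat_lit 87570601) (nat_lit 0) (nat_lit 419164721) (nat_lit 76) (nat_lit 419164721) (nat_lit 173) (nat_lit 3) (nat_lit 172) (nat_lit 1) (nat_lit 173) (nat_lit 1) (nat_lit 419) (nat_lit 342) (nat_lit 259))))) (XT.nd (nat_lit 234) (nat_lit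 228) (nat_lit 0) (XT.nd (nat_lit 78) (nat_lit 76) (nat_lit 0) (XT.lf (nat_lit 152) (nat_lit 707046410) (nat_lit 0) (nat_lit 101872233) (nat_lit 76) (nat_lit 101872233) (nat_lit 172) (nat_lit 1) (nat_lit 170) (nat_lit 1) (nat_lit 171) (nat_lit 1) (nat_lit 420) (nat_lit 342) (nat_lit 258)) (XT.nd (nat_lit 78) (nat_lit 76) (nat_lit 0) (XT.lf (nat_lit 0) (nat_lit 203113557) (nat_lit 0) (nat_lit 489557025) (nat_lit 152) (nat_lit 203113557) (nat_lit 170) (nat_lit 3) (nat_lit 170) (nat_lit 1) (nat_lit 172) (nat_lit 1) (nat_lit 421) (nat_lit 342) (nat_lit 257)) (XT.lf (nat_lit 76) (nat_lit 111836467) (nat_lit 0) (nat_lit 384639770) (nat_lit 76) (nat_lit 384639770) (nat_lit 170) (nat_lit 3) (nat_lit 169) (nat_lit 1) (nat_lit 170) (nat_lit 1) (nat_lit 422) (nat_lit 342) (nat_lit 256)))) (XT.nd (nat_lit 78) (nat_lit 76) (nat_lit 0) (XT.lf (nat_lit 152) (nat_lit 699169728) (nat_lit 0) (nat_lit 83810538) (nat_lit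 76) (nat_lit 83810538) (nat_lit 169) (nat_lit 1) (nat_lit 167) (nat_lit 1) (nat_lit 168) (nat_lit 1) (nat_lit 423) (nat_lit 342) (nat_lit 255)) (XT.nd (nat_lit 78) (nat_lit 76) (nat_lit 0) (XT.lf (nat_lit 0) (nat_lit 205620353) (nat_lit 0) (nat_lit 441278103) (nat_lit 152) (nat_lit 205620353) (nat_lit 167) (nat_lit 3) (nat_lit 167) (nat_lit 1) (nat_lit 169) (nat_lit 1) (nat_lit 424) (nat_lit 342) (nat_lit 254)) (XT.lf (nat_lit 76) (nat_lit 129905201) (nat_lit 0) (nat_lit 354341154) (nat_lit 76) (nat_lit 354341154) (nat_lit 167) (nat_lit 3) (nat_lit 166) (nat_lit 1) (nat_lit 167) (nat_lit 1) (nat_lit 425) (nat_lit 342) (nat_lit 253)))))) (XT.nd (nat_lit 468) (nat_lit 608) (nat_lit 0) (XT.nd (nat_lit 234) (nat_lit 228) (nat_lit 0) (XT.nd (nat_lit 78) (nat_lit 76) (nat_lit 0) (XT.lf (nat_lit 152) (nat_lit 687095234) (nat_lit 0) (nat_lit 68951137) (nat_lit 76) (nat_lit 68951137) (nat_lit 166) (nat_lit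 1) (nat_lit 164) (nat_lit 1) (nat_lit 165) (nat_lit 1) (nat_lit 426) (nat_lit 342) (nat_lit 252)) (XT.nd (nat_lit 78) (nat_lit 76) (nat_lit 0) (XT.lf (nat_lit 0) (nat_lit 205848494) (nat_lit 0) (nat_lit 399724708) (nat_lit 152) (nat_lit 205848494) (nat_lit 164) (nat_lit 3) (nat_lit 164) (nat_lit 1) (nat_lit 166) (nat_lit 1) (nat_lit 427) (nat_lit 342) (nat_lit 251)) (XT.lf (nat_lit 76) (nat_lit 142965772) (nat_lit 0) (nat_lit 327609785) (nat_lit 76) (nat_lit 327609785) (nat_lit 164) (nat_lit 3) (nat_lit 163) (nat_lit 1) (nat_lit 164) (nat_lit 1) (nat_lit 428) (nat_lit 342) (nat_lit 250)))) (XT.nd (nat_lit 78) (nat_lit 76) (nat_lit 0) (XT.lf (nat_lit 152) (nat_lit 671833585) (nat_lit 0) (nat_lit 56726271) (nat_lit 76) (nat_lit 56726271) (nat_lit 163) (nat_lit 1) (nat_lit 161) (nat_lit 1) (nat_lit 162) (nat_lit 1) (nat_lit 429) (nat_lit 342) (nat_lit 249)) (XT.nd (nat_lit 78) (nat_lit 76) (nat_lit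 0) (XT.lf (nat_lit 0) (nat_lit 204289323) (nat_lit 0) (nat_lit 363791764) (nat_lit 152) (nat_lit 204289323) (nat_lit 161) (nat_lit 3) (nat_lit 161) (nat_lit 1) (nat_lit 163) (nat_lit 1) (nat_lit 430) (nat_lit 342) (nat_lit 248)) (XT.lf (nat_lit 76) (nat_lit 151992048) (nat_lit 0) (nat_lit 303899135) (nat_lit 76) (nat_lit 303899135) (nat_lit 161) (nat_lit 3) (nat_lit 160) (nat_lit 1) (nat_lit 161) (nat_lit 1) (nat_lit 431) (nat_lit 342) (nat_lit 247))))) (XT.nd (nat_lit 234) (nat_lit 380) (nat_lit 0) (XT.nd (nat_lit 78) (nat_lit 76) (nat_lit 0) (XT.lf (nat_lit 152) (nat_lit 654203569) (nat_lit 0) (nat_lit 46668843) (nat_lit 76) (nat_lit 46668843) (nat_lit 160) (nat_lit 1) (nat_lit 158) (nat_lit 1) (nat_lit 159) (nat_lit 1) (nat_lit 432) (nat_lit 342) (nat_lit 246)) (XT.nd (nat_lit 78) (nat_lit 76) (nat_lit 0) (XT.lf (nat_lit 0) (nat_lit 201342910) (nat_lit 0) (nat_lit 332565964) (nat_lit 152) (nat_lit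 201342910) (nat_lit 158) (nat_lit 3) (nat_lit 158) (nat_lit 1) (nat_lit 160) (nat_lit 1) (nat_lit 433) (nat_lit 342) (nat_lit 245)) (XT.lf (nat_lit 76) (nat_lit 157781142) (nat_lit 0) (nat_lit 282755478) (nat_lit 76) (nat_lit 282755478) (nat_lit 158) (nat_lit 3) (nat_lit 157) (nat_lit 1) (nat_lit 158) (nat_lit 1) (nat_lit 434) (nat_lit 342) (nat_lit 244)))) (XT.nd (nat_lit 156) (nat_lit 228) (nat_lit 0) (XT.nd (nat_lit 78) (nat_lit 0) (nat_lit 0) (XT.lf (nat_lit 152) (nat_lit 634866719) (nat_lit 0) (nat_lit 38394573) (nat_lit 76) (nat_lit 38394573) (nat_lit 157) (nat_lit 1) (nat_lit 155) (nat_lit 1) (nat_lit 156) (nat_lit 1) (nat_lit 435) (nat_lit 342) (nat_lit 243)) (XT.lf (nat_lit 0) (nat_lit 197334433) (nat_lit 0) (nat_lit 305291964) (nat_lit 152) (nat_lit 197334433) (nat_lit 155) (nat_lit 3) (nat_lit 155) (nat_lit 1) (nat_lit 157) (nat_lit 1) (nat_lit 436) (nat_lit 342) (nat_lit 242))) (XT.nd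 (nat_lit 78) (nat_lit 152) (nat_lit 0) (XT.lf (nat_lit 76) (nat_lit 160984944) (nat_lit 0) (nat_lit 263801640) (nat_lit 76) (nat_lit 263801640) (nat_lit 155) (nat_lit 3) (nat_lit 154) (nat_lit 1) (nat_lit 155) (nat_lit 1) (nat_lit 437) (nat_lit 342) (nat_lit 241)) (XT.lf (nat_lit 152) (nat_lit 614355778) (nat_lit 0) (nat_lit 31587310) (nat_lit 76) (nat_lit 31587310) (nat_lit 154) (nat_lit 1) (nat_lit 152) (nat_lit 1) (nat_lit 153) (nat_lit 1) (nat_lit 438) (nat_lit 342) (nat_lit 240))))))) (XT.nd (nat_lit 45006) (nat_lit 0) (nat_lit 10640) (XT.nd (nat_lit 468) (nat_lit 456) (nat_lit 0) (XT.nd (nat_lit 234) (nat_lit 228) (nat_lit 0) (XT.nd (nat_lit 78) (nat_lit 228) (nat_lit 0) (XT.lf (nat_lit 0) (nat_lit 192527643) (nat_lit 0) (nat_lit 281344571) (nat_lit 152) (nat_lit 192527643) (nat_lit 152) (nat_lit 3) (nat_lit 152) (nat_lit 1) (nat_lit 154) (nat_lit 1) (nat_lit 439) (nat_lit 342) (nat_lit 239))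 (XT.nd (nat_lit 78) (nat_lit 152) (nat_lit 0) (XT.lf (nat_lit 76) (nat_lit 162136052) (nat_lit 0) (nat_lit 246723602) (nat_lit 76) (nat_lit 246723602) (nat_lit 152) (nat_lit 3) (nat_lit 151) (nat_lit 1) (nat_lit 152) (nat_lit 1) (nat_lit 440) (nat_lit 342) (nat_lit 238)) (XT.lf (nat_lit 152) (nat_lit 593098072) (nat_lit 0) (nat_lit 25986958) (nat_lit 76) (nat_lit 25986958) (nat_lit 151) (nat_lit 1) (nat_lit 149) (nat_lit 1) (nat_lit 150) (nat_lit 1) (nat_lit 441) (nat_lit 342) (nat_lit 237)))) (XT.nd (nat_lit 78) (nat_lit 228) (nat_lit 0) (XT.lf (nat_lit 0) (nat_lit 187135937) (nat_lit 0) (nat_lit 260205843) (nat_lit 152) (nat_lit 187135937) (nat_lit 149) (nat_lit 3) (nat_lit 149) (nat_lit 1) (nat_lit 151) (nat_lit 1) (nat_lit 442) (nat_lit 342) (nat_lit 236)) (XT.nd (nat_lit 78) (nat_lit 152) (nat_lit 0) (XT.lf (nat_lit 76) (nat_lit 161669104) (nat_lit 0) (nat_lit 231259490) (nat_lit 76) (nat_lit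 231259490) (nat_lit 149) (nat_lit 3) (nat_lit 148) (nat_lit 1) (nat_lit 149) (nat_lit 1) (nat_lit 443) (nat_lit 342) (nat_lit 235)) (XT.lf (nat_lit 152) (nat_lit 571434732) (nat_lit 0) (nat_lit 21379535) (nat_lit 76) (nat_lit 21379535) (nat_lit 148) (nat_lit 1) (nat_lit 146) (nat_lit 1) (nat_lit 147) (nat_lit 1) (nat_lit 444) (nat_lit 342) (nat_lit 234))))) (XT.nd (nat_lit 234) (nat_lit 228) (nat_lit 0) (XT.nd (nat_lit 78) (nat_lit 228) (nat_lit 0) (XT.lf (nat_lit 0) (nat_lit 181331454) (nat_lit 0) (nat_lit 241446247) (nat_lit 152) (nat_lit 181331454) (nat_lit 146) (nat_lit 3) (nat_lit 146) (nat_lit 1) (nat_lit 148) (nat_lit 1) (nat_lit 445) (nat_lit 342) (nat_lit 233)) (XT.nd (nat_lit 78) (nat_lit 152) (nat_lit 0) (XT.lf (nat_lit 76) (nat_lit 159938307) (nat_lit 0) (nat_lit 217190490) (nat_lit 76) (nat_lit 217190490) (nat_lit 146) (nat_lit 3) (nat_lit 145) (nat_lit 1) (nat_lit 146) (nat_lit 1)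 (nat_lit 446) (nat_lit 342) (nat_lit 232)) (XT.lf (nat_lit 152) (nat_lit 549636463) (nat_lit 0) (nat_lit 17588996) (nat_lit 76) (nat_lit 17588996) (nat_lit 145) (nat_lit 1) (nat_lit 143) (nat_lit 1) (nat_lit 144) (nat_lit 1) (nat_lit 447) (nat_lit 342) (nat_lit 231)))) (XT.nd (nat_lit 156) (nat_lit 152) (nat_lit 0) (XT.nd (nat_lit 78) (nat_lit 76) (nat_lit 0) (XT.lf (nat_lit 0) (nat_lit 175252556) (nat_lit 0) (nat_lit 224709144) (nat_lit 152) (nat_lit 175252556) (nat_lit 143) (nat_lit 3) (nat_lit 143) (nat_lit 1) (nat_lit 145) (nat_lit 1) (nat_lit 448) (nat_lit 342) (nat_lit 230)) (XT.lf (nat_lit 76) (nat_lit 157231865) (nat_lit 0) (nat_lit 204333378) (nat_lit 76) (nat_lit 204333378) (nat_lit 143) (nat_lit 3) (nat_lit 142) (nat_lit 1) (nat_lit 143) (nat_lit 1) (nat_lit 449) (nat_lit 342) (nat_lit 229))) (XT.nd (nat_lit 44070) (nat_lit 0) (nat_lit 11552) (XT.lf (nat_lit 152) (nat_lit 527916512)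 (nat_lit 0) (nat_lit 14470510) (nat_lit 76) (nat_lit 14470510) (nat_lit 142) (nat_lit 1) (nat_lit 140) (nat_lit 1) (nat_lit 141) (nat_lit 1) (nat_lit 450) (nat_lit 342) (nat_lit 228)) (XT.lf (nat_lit 836) (nat_lit 622038945) (nat_lit 0) (nat_lit 1104428717) (nat_lit 836) (nat_lit 622038945) (nat_lit 303) (nat_lit 1) (nat_lit 292) (nat_lit 0) (nat_lit 303) (nat_lit 0) (nat_lit 334) (nat_lit 343) (nat_lit 343)))))) (XT.nd (nat_lit 468) (nat_lit 912) (nat_lit 0) (XT.nd (nat_lit 234) (nat_lit 0) (nat_lit 152) (XT.nd (nat_lit 78) (nat_lit 0) (nat_lit 76) (XT.lf (nat_lit 836) (nat_lit 2411100609) (nat_lit 76) (nat_lit 1086615350) (nat_lit 0) (nat_lit 1086615350) (nat_lit 303) (nat_lit 1) (nat_lit 293) (nat_lit 1) (nat_lit 292) (nat_lit 0) (nat_lit 335) (nat_lit 343) (nat_lit 342)) (XT.nd (nat_lit 78) (nat_lit 0) (nat_lit 0) (XT.lf (nat_lit 836) (nat_lit 1149094246) (nat_lit 0) (nat_lit 2176944517) (nat_lit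 760) (nat_lit 1149094246) (nat_lit 304) (nat_lit 1) (nat_lit 293) (nat_lit 1) (nat_lit 303) (nat_lit 1) (nat_lit 336) (nat_lit 343) (nat_lit 341)) (XT.lf (nat_lit 836) (nat_lit 2155541136) (nat_lit 76) (nat_lit 1106960746) (nat_lit 0) (nat_lit 1106960746) (nat_lit 304) (nat_lit 1) (nat_lit 294) (nat_lit 1) (nat_lit 293) (nat_lit 1) (nat_lit 337) (nat_lit 343) (nat_lit 340)))) (XT.nd (nat_lit 78) (nat_lit 0) (nat_lit 0) (XT.lf (nat_lit 836) (nat_lit 992174885) (nat_lit 0) (nat_lit 2282791698) (nat_lit 760) (nat_lit 992174885) (nat_lit 305) (nat_lit 1) (nat_lit 294) (nat_lit 1) (nat_lit 304) (nat_lit 1) (nat_lit 338) (nat_lit 343) (nat_lit 339)) (XT.nd (nat_lit 78) (nat_lit 0) (nat_lit 76) (XT.lf (nat_lit 836) (nat_lit 1784491153) (nat_lit 76) (nat_lit 1191724147) (nat_lit 0) (nat_lit 1191724147) (nat_lit 305) (nat_lit 1) (nat_lit 295) (nat_lit 1) (nat_lit 294) (nat_lit 1) (nat_lit 339) (nat_lit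 343) (nat_lit 338)) (XT.lf (nat_lit 836) (nat_lit 782447829) (nat_lit 0) (nat_lit 2507172627) (nat_lit 760) (nat_lit 782447829) (nat_lit 306) (nat_lit 1) (nat_lit 295) (nat_lit 1) (nat_lit 305) (nat_lit 1) (nat_lit 340) (nat_lit 343) (nat_lit 337))))) (XT.nd (nat_lit 234) (nat_lit 1140) (nat_lit 0) (XT.nd (nat_lit 78) (nat_lit 0) (nat_lit 76) (XT.lf (nat_lit 836) (nat_lit 1315318826) (nat_lit 76) (nat_lit 1331758980) (nat_lit 0) (nat_lit 1331758980) (nat_lit 306) (nat_lit 1) (nat_lit 296) (nat_lit 1) (nat_lit 295) (nat_lit 1) (nat_lit 341) (nat_lit 343) (nat_lit 336)) (XT.nd (nat_lit 78) (nat_lit 0) (nat_lit 0) (XT.lf (nat_lit 836) (nat_lit 528032000) (nat_lit 0) (nat_lit 2832954093) (nat_lit 760) (nat_lit 528032000) (nat_lit 307) (nat_lit 1) (nat_lit 296) (nat_lit 1) (nat_lit 306) (nat_lit 1) (nat_lit 342) (nat_lit 343) (nat_lit 335)) (XT.lf (nat_lit 836) (nat_lit 763461834) (nat_lit 76) (nat_lit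 1518919398) (nat_lit 0) (nat_lit 1518919398) (nat_lit 307) (nat_lit 1) (nat_lit 297) (nat_lit 1) (nat_lit 296) (nat_lit 1) (nat_lit 343) (nat_lit 343) (nat_lit 334)))) (XT.nd (nat_lit 156) (nat_lit 532) (nat_lit 0) (XT.nd (nat_lit 78) (nat_lit 760) (nat_lit 0) (XT.lf (nat_lit 76) (nat_lit 236138668) (nat_lit 0) (nat_lit 3244886866) (nat_lit 760) (nat_lit 236138668) (nat_lit 298) (nat_lit 1) (nat_lit 297) (nat_lit 1) (nat_lit 307) (nat_lit 1) (nat_lit 344) (nat_lit 343) (nat_lit 333)) (XT.lf (nat_lit 836) (nat_lit 142621883) (nat_lit 0) (nat_lit 1745960077) (nat_lit 760) (nat_lit 1745960077) (nat_lit 298) (nat_lit 1) (nat_lit 287) (nat_lit 1) (nat_lit 297) (nat_lit 1) (nat_lit 345) (nat_lit 343) (nat_lit 332))) (XT.nd (nat_lit 78) (nat_lit 0) (nat_lit 0) (XT.lf (nat_lit 532) (nat_lit 3384596911) (nat_lit 0) (nat_lit 85436282) (nat_lit 456) (nat_lit 85436282) (nat_lit 287) (nat_lit 1) (nat_lit 280)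 (nat_lit 1) (nat_lit 286) (nat_lit 1) (nat_lit 346) (nat_lit 343) (nat_lit 331)) (XT.lf (nat_lit 76) (nat_lit 1479739879) (nat_lit 0) (nat_lit 517934330) (nat_lit 532) (nat_lit 1479739879) (nat_lit 281) (nat_lit 1) (nat_lit 280) (nat_lit 1) (nat_lit 287) (nat_lit 1) (nat_lit 347) (nat_lit 343) (nat_lit 330))))))))
noncomputable def ec62 : XT := (XT.nd (nat_lit 1950) (nat_lit 2508) (nat_lit 0) (XT.nd (nat_lit 936) (nat_lit 1976) (nat_lit 0) (XT.nd (nat_lit 468) (nat_lit 1216) (nat_lit 0) (XT.nd (nat_lit 234) (nat_lit 304) (nat_lit 0) (XT.nd (nat_lit 78) (nat_lit 380) (nat_lit 0) (XT.lf (nat_lit 456) (nat_lit 2546252499) (nat_lit 0) (nat_lit 428212662) (nat_lit 380) (nat_lit 428212662) (nat_lit 281) (nat_lit 1) (nat_lit 275) (nat_lit 1) (nat_lit 280) (nat_lit 1) (nat_lit 348) (nat_lit 343) (nat_lit 329)) (XT.nd (nat_lit 78) (nat_lit 380) (nat_lit 0) (XT.lf (nat_lit 76) (nat_lit 1055480442) (nat_lit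 0) (nat_lit 1218551838) (nat_lit 456) (nat_lit 1055480442) (nat_lit 276) (nat_lit 1) (nat_lit 275) (nat_lit 1) (nat_lit 281) (nat_lit 1) (nat_lit 349) (nat_lit 343) (nat_lit 328)) (XT.lf (nat_lit 456) (nat_lit 1676743379) (nat_lit 0) (nat_lit 791076193) (nat_lit 380) (nat_lit 791076193) (nat_lit 276) (nat_lit 1) (nat_lit 270) (nat_lit 1) (nat_lit 275) (nat_lit 1) (nat_lit 350) (nat_lit 343) (nat_lit 327)))) (XT.nd (nat_lit 78) (nat_lit 304) (nat_lit 0) (XT.lf (nat_lit 76) (nat_lit 617857651) (nat_lit 0) (nat_lit 1954617286) (nat_lit 456) (nat_lit 617857651) (nat_lit 271) (nat_lit 1) (nat_lit 270) (nat_lit 1) (nat_lit 276) (nat_lit 1) (nat_lit 351) (nat_lit 343) (nat_lit 326)) (XT.nd (nat_lit 78) (nat_lit 0) (nat_lit 0) (XT.lf (nat_lit 380) (nat_lit 784162477) (nat_lit 0) (nat_lit 1169685302) (nat_lit 304) (nat_lit 1169685302) (nat_lit 271) (nat_lit 1) (nat_lit 266) (nat_lit 1) (nat_lit 270) (nat_lit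 1) (nat_lit 352) (nat_lit 343) (nat_lit 325)) (XT.lf (nat_lit 76) (nat_lit 170628522) (nat_lit 0) (nat_lit 2718045311) (nat_lit 380) (nat_lit 170628522) (nat_lit 267) (nat_lit 1) (nat_lit 266) (nat_lit 1) (nat_lit 271) (nat_lit 1) (nat_lit 353) (nat_lit 343) (nat_lit 324))))) (XT.nd (nat_lit 234) (nat_lit 532) (nat_lit 0) (XT.nd (nat_lit 78) (nat_lit 304) (nat_lit 0) (XT.lf (nat_lit 76) (nat_lit 1437764963) (nat_lit 0) (nat_lit 120415608) (nat_lit 380) (nat_lit 1437764963) (nat_lit 262) (nat_lit 1) (nat_lit 261) (nat_lit 1) (nat_lit 266) (nat_lit 1) (nat_lit 354) (nat_lit 343) (nat_lit 323)) (XT.nd (nat_lit 78) (nat_lit 0) (nat_lit 0) (XT.lf (nat_lit 380) (nat_lit 2378289986) (nat_lit 0) (nat_lit 278355754) (nat_lit 304) (nat_lit 278355754) (nat_lit 262) (nat_lit 1) (nat_lit 257) (nat_lit 1) (nat_lit 261) (nat_lit 1) (nat_lit 355) (nat_lit 343) (nat_lit 322)) (XT.lf (nat_lit 76) (nat_lit 932869889)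 (nat_lit 0) (nat_lit 1009363185) (nat_lit 380) (nat_lit 932869889) (nat_lit 258) (nat_lit 1) (nat_lit 257) (nat_lit 1) (nat_lit 262) (nat_lit 1) (nat_lit 356) (nat_lit 343) (nat_lit 321)))) (XT.nd (nat_lit 78) (nat_lit 228) (nat_lit 0) (XT.lf (nat_lit 380) (nat_lit 1361316673) (nat_lit 0) (nat_lit 727982416) (nat_lit 304) (nat_lit 727982416) (nat_lit 258) (nat_lit 1) (nat_lit 253) (nat_lit 1) (nat_lit 257) (nat_lit 1) (nat_lit 357) (nat_lit 343) (nat_lit 320)) (XT.nd (nat_lit 78) (nat_lit 228) (nat_lit 0) (XT.lf (nat_lit 76) (nat_lit 429298524) (nat_lit 0) (nat_lit 1902553701) (nat_lit 380) (nat_lit 429298524) (nat_lit 254) (nat_lit 1) (nat_lit 253) (nat_lit 1) (nat_lit 258) (nat_lit 1) (nat_lit 358) (nat_lit 343) (nat_lit 319)) (XT.lf (nat_lit 304) (nat_lit 349130103) (nat_lit 0) (nat_lit 1178550764) (nat_lit 228) (nat_lit 1178550764) (nat_lit 254) (nat_lit 1) (nat_lit 250) (nat_lit 1) (nat_lit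 253) (nat_lit 1) (nat_lit 359) (nat_lit 343) (nat_lit 318)))))) (XT.nd (nat_lit 468) (nat_lit 836) (nat_lit 0) (XT.nd (nat_lit 234) (nat_lit 532) (nat_lit 0) (XT.nd (nat_lit 78) (nat_lit 228) (nat_lit 0) (XT.lf (nat_lit 380) (nat_lit 2513919042) (nat_lit 0) (nat_lit 69756429) (nat_lit 304) (nat_lit 69756429) (nat_lit 250) (nat_lit 1) (nat_lit 245) (nat_lit 1) (nat_lit 249) (nat_lit 1) (nat_lit 360) (nat_lit 343) (nat_lit 317)) (XT.nd (nat_lit 78) (nat_lit 228) (nat_lit 0) (XT.lf (nat_lit 76) (nat_lit 983715106) (nat_lit 0) (nat_lit 633494199) (nat_lit 380) (nat_lit 983715106) (nat_lit 246) (nat_lit 1) (nat_lit 245) (nat_lit 1) (nat_lit 250) (nat_lit 1) (nat_lit 361) (nat_lit 343) (nat_lit 316)) (XT.lf (nat_lit 304) (nat_lit 1436747012) (nat_lit 0) (nat_lit 556841855) (nat_lit 228) (nat_lit 556841855) (nat_lit 246) (nat_lit 1) (nat_lit 242) (nat_lit 1) (nat_lit 245) (nat_lit 1) (nat_lit 362) (nat_lit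 343) (nat_lit 315)))) (XT.nd (nat_lit 78) (nat_lit 532) (nat_lit 0) (XT.lf (nat_lit 76) (nat_lit 453890605) (nat_lit 0) (nat_lit 1593438704) (nat_lit 304) (nat_lit 453890605) (nat_lit 243) (nat_lit 1) (nat_lit 242) (nat_lit 1) (nat_lit 246) (nat_lit 1) (nat_lit 363) (nat_lit 343) (nat_lit 314)) (XT.nd (nat_lit 78) (nat_lit 304) (nat_lit 0) (XT.lf (nat_lit 304) (nat_lit 378303632) (nat_lit 0) (nat_lit 1037412502) (nat_lit 228) (nat_lit 1037412502) (nat_lit 243) (nat_lit 1) (nat_lit 239) (nat_lit 1) (nat_lit 242) (nat_lit 1) (nat_lit 364) (nat_lit 343) (nat_lit 313)) (XT.lf (nat_lit 304) (nat_lit 2276793239) (nat_lit 0) (nat_lit 65015387) (nat_lit 228) (nat_lit 65015387) (nat_lit 239) (nat_lit 1) (nat_lit 235) (nat_lit 1) (nat_lit 238) (nat_lit 1) (nat_lit 365) (nat_lit 343) (nat_lit 312))))) (XT.nd (nat_lit 234) (nat_lit 608) (nat_lit 0) (XT.nd (nat_lit 78) (nat_lit 228) (nat_lit 0) (XT.lf (nat_lit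 76) (nat_lit 861245679) (nat_lit 0) (nat_lit 638174400) (nat_lit 304) (nat_lit 861245679) (nat_lit 236) (nat_lit 1) (nat_lit 235) (nat_lit 1) (nat_lit 239) (nat_lit 1) (nat_lit 366) (nat_lit 343) (nat_lit 311)) (XT.nd (nat_lit 78) (nat_lit 0) (nat_lit 0) (XT.lf (nat_lit 304) (nat_lit 1184291669) (nat_lit 0) (nat_lit 565961848) (nat_lit 228) (nat_lit 565961848) (nat_lit 236) (nat_lit 1) (nat_lit 232) (nat_lit 1) (nat_lit 235) (nat_lit 1) (nat_lit 367) (nat_lit 343) (nat_lit 310)) (XT.lf (nat_lit 76) (nat_lit 326152960) (nat_lit 0) (nat_lit 1620651235) (nat_lit 304) (nat_lit 326152960) (nat_lit 233) (nat_lit 1) (nat_lit 232) (nat_lit 1) (nat_lit 236) (nat_lit 1) (nat_lit 368) (nat_lit 343) (nat_lit 309)))) (XT.nd (nat_lit 156) (nat_lit 152) (nat_lit 0) (XT.nd (nat_lit 78) (nat_lit 304) (nat_lit 0) (XT.lf (nat_lit 228) (nat_lit 119513288) (nat_lit 0) (nat_lit 1055500414) (nat_lit 152) (nat_lit 1055500414)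 (nat_lit 233) (nat_lit 1) (nat_lit 230) (nat_lit 1) (nat_lit 232) (nat_lit 1) (nat_lit 369) (nat_lit 343) (nat_lit 308)) (XT.lf (nat_lit 304) (nat_lit 1805805720) (nat_lit 0) (nat_lit 191789656) (nat_lit 228) (nat_lit 191789656) (nat_lit 230) (nat_lit 1) (nat_lit 226) (nat_lit 1) (nat_lit 229) (nat_lit 1) (nat_lit 370) (nat_lit 343) (nat_lit 307))) (XT.nd (nat_lit 78) (nat_lit 152) (nat_lit 0) (XT.lf (nat_lit 76) (nat_lit 630725073) (nat_lit 0) (nat_lit 887265792) (nat_lit 304) (nat_lit 630725073) (nat_lit 227) (nat_lit 1) (nat_lit 226) (nat_lit 1) (nat_lit 230) (nat_lit 1) (nat_lit 371) (nat_lit 343) (nat_lit 306)) (XT.lf (nat_lit 228) (nat_lit 728705529) (nat_lit 0) (nat_lit 690298237) (nat_lit 152) (nat_lit 690298237) (nat_lit 227) (nat_lit 1) (nat_lit 224) (nat_lit 1) (nat_lit 226) (nat_lit 1) (nat_lit 372) (nat_lit 343) (nat_lit 305))))))) (XT.nd (nat_lit 936) (nat_lit 1292) (nat_lit 0) (XT.nd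 (nat_lit 468) (nat_lit 456) (nat_lit 0) (XT.nd (nat_lit 234) (nat_lit 380) (nat_lit 0) (XT.nd (nat_lit 78) (nat_lit 380) (nat_lit 0) (XT.lf (nat_lit 76) (nat_lit 104691854) (nat_lit 0) (nat_lit 1861812357) (nat_lit 228) (nat_lit 104691854) (nat_lit 225) (nat_lit 1) (nat_lit 224) (nat_lit 1) (nat_lit 227) (nat_lit 1) (nat_lit 373) (nat_lit 343) (nat_lit 304)) (XT.nd (nat_lit 78) (nat_lit 152) (nat_lit 0) (XT.lf (nat_lit 76) (nat_lit 864040246) (nat_lit 0) (nat_lit 305148154) (nat_lit 228) (nat_lit 864040246) (nat_lit 222) (nat_lit 1) (nat_lit 221) (nat_lit 1) (nat_lit 224) (nat_lit 1) (nat_lit 374) (nat_lit 343) (nat_lit 303)) (XT.lf (nat_lit 228) (nat_lit 1199871318) (nat_lit 0) (nat_lit 398324768) (nat_lit 152) (nat_lit 398324768) (nat_lit 222) (nat_lit 1) (nat_lit 219) (nat_lit 1) (nat_lit 221) (nat_lit 1) (nat_lit 375) (nat_lit 343) (nat_lit 302)))) (XT.nd (nat_lit 78) (nat_lit 380) (nat_lit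 0) (XT.lf (nat_lit 76) (nat_lit 338572470) (nat_lit 0) (nat_lit 1283479446) (nat_lit 228) (nat_lit 338572470) (nat_lit 220) (nat_lit 1) (nat_lit 219) (nat_lit 1) (nat_lit 222) (nat_lit 1) (nat_lit 376) (nat_lit 343) (nat_lit 301)) (XT.nd (nat_lit 78) (nat_lit 228) (nat_lit 0) (XT.lf (nat_lit 228) (nat_lit 158609012) (nat_lit 0) (nat_lit 883421242) (nat_lit 152) (nat_lit 883421242) (nat_lit 220) (nat_lit 1) (nat_lit 217) (nat_lit 1) (nat_lit 219) (nat_lit 1) (nat_lit 377) (nat_lit 343) (nat_lit 300)) (XT.lf (nat_lit 228) (nat_lit 1558911843) (nat_lit 0) (nat_lit 166192963) (nat_lit 152) (nat_lit 166192963) (nat_lit 217) (nat_lit 1) (nat_lit 214) (nat_lit 1) (nat_lit 216) (nat_lit 1) (nat_lit 378) (nat_lit 343) (nat_lit 299))))) (XT.nd (nat_lit 234) (nat_lit 304) (nat_lit 0) (XT.nd (nat_lit 78) (nat_lit 152) (nat_lit 0) (XT.lf (nat_lit 76) (nat_lit 518965572) (nat_lit 0) (nat_lit 819504394) (nat_lit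 228) (nat_lit 518965572) (nat_lit 215) (nat_lit 1) (nat_lit 214) (nat_lit 1) (nat_lit 217) (nat_lit 1) (nat_lit 379) (nat_lit 343) (nat_lit 298)) (XT.nd (nat_lit 78) (nat_lit 0) (nat_lit 0) (XT.lf (nat_lit 228) (nat_lit 528541239) (nat_lit 0) (nat_lit 648007569) (nat_lit 152) (nat_lit 648007569) (nat_lit 215) (nat_lit 1) (nat_lit 212) (nat_lit 1) (nat_lit 214) (nat_lit 1) (nat_lit 380) (nat_lit 343) (nat_lit 297)) (XT.lf (nat_lit 76) (nat_lit 17371692) (nat_lit 0) (nat_lit 1758086904) (nat_lit 228) (nat_lit 17371692) (nat_lit 213) (nat_lit 1) (nat_lit 212) (nat_lit 1) (nat_lit 215) (nat_lit 1) (nat_lit 381) (nat_lit 343) (nat_lit 296)))) (XT.nd (nat_lit 78) (nat_lit 152) (nat_lit 0) (XT.lf (nat_lit 76) (nat_lit 655926797) (nat_lit 0) (nat_lit 449048939) (nat_lit 152) (nat_lit 655926797) (nat_lit 211) (nat_lit 1) (nat_lit 210) (nat_lit 1) (nat_lit 212) (nat_lit 1) (nat_lit 382) (nat_lit 343) (nat_lit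 295)) (XT.nd (nat_lit 78) (nat_lit 0) (nat_lit 0) (XT.lf (nat_lit 228) (nat_lit 813930483) (nat_lit 0) (nat_lit 458083837) (nat_lit 152) (nat_lit 458083837) (nat_lit 211) (nat_lit 1) (nat_lit 208) (nat_lit 1) (nat_lit 210) (nat_lit 1) (nat_lit 383) (nat_lit 343) (nat_lit 294)) (XT.lf (nat_lit 76) (nat_lit 163187436) (nat_lit 0) (nat_lit 1373750397) (nat_lit 228) (nat_lit 163187436) (nat_lit 209) (nat_lit 1) (nat_lit 208) (nat_lit 1) (nat_lit 211) (nat_lit 1) (nat_lit 384) (nat_lit 343) (nat_lit 293)))))) (XT.nd (nat_lit 468) (nat_lit 684) (nat_lit 0) (XT.nd (nat_lit 234) (nat_lit 304) (nat_lit 0) (XT.nd (nat_lit 78) (nat_lit 152) (nat_lit 0) (XT.lf (nat_lit 76) (nat_lit 757701682) (nat_lit 0) (nat_lit 154996193) (nat_lit 152) (nat_lit 757701682) (nat_lit 207) (nat_lit 1) (nat_lit 206) (nat_lit 1) (nat_lit 208) (nat_lit 1) (nat_lit 385) (nat_lit 343) (nat_lit 292)) (XT.nd (nat_lit 78) (nat_lit 0)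 (nat_lit 0) (XT.lf (nat_lit 228) (nat_lit 1030668621) (nat_lit 0) (nat_lit 305406141) (nat_lit 152) (nat_lit 305406141) (nat_lit 207) (nat_lit 1) (nat_lit 204) (nat_lit 1) (nat_lit 206) (nat_lit 1) (nat_lit 386) (nat_lit 343) (nat_lit 291)) (XT.lf (nat_lit 76) (nat_lit 276060138) (nat_lit 0) (nat_lit 1061014471) (nat_lit 228) (nat_lit 276060138) (nat_lit 205) (nat_lit 1) (nat_lit 204) (nat_lit 1) (nat_lit 207) (nat_lit 1) (nat_lit 387) (nat_lit 343) (nat_lit 290)))) (XT.nd (nat_lit 78) (nat_lit 228) (nat_lit 0) (XT.lf (nat_lit 152) (nat_lit 79246812) (nat_lit 0) (nat_lit 753038342) (nat_lit 76) (nat_lit 753038342) (nat_lit 205) (nat_lit 1) (nat_lit 203) (nat_lit 1) (nat_lit 204) (nat_lit 1) (nat_lit 388) (nat_lit 343) (nat_lit 289)) (XT.nd (nat_lit 78) (nat_lit 0) (nat_lit 0) (XT.lf (nat_lit 228) (nat_lit 1191786956) (nat_lit 0) (nat_lit 183200707) (nat_lit 152) (nat_lit 183200707) (nat_lit 203)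 (nat_lit 1) (nat_lit 200) (nat_lit 1) (nat_lit 202) (nat_lit 1) (nat_lit 389) (nat_lit 343) (nat_lit 288)) (XT.lf (nat_lit 76) (nat_lit 362168150) (nat_lit 0) (nat_lit 807019821) (nat_lit 228) (nat_lit 362168150) (nat_lit 201) (nat_lit 1) (nat_lit 200) (nat_lit 1) (nat_lit 203) (nat_lit 1) (nat_lit 390) (nat_lit 343) (nat_lit 287))))) (XT.nd (nat_lit 234) (nat_lit 380) (nat_lit 0) (XT.nd (nat_lit 78) (nat_lit 228) (nat_lit 0) (XT.lf (nat_lit 152) (nat_lit 266128750) (nat_lit 0) (nat_lit 619526507) (nat_lit 76) (nat_lit 619526507) (nat_lit 201) (nat_lit 1) (nat_lit 199) (nat_lit 1) (nat_lit 200) (nat_lit 1) (nat_lit 391) (nat_lit 343) (nat_lit 286)) (XT.nd (nat_lit 78) (nat_lit 0) (nat_lit 0) (XT.lf (nat_lit 228) (nat_lit 1307965442) (nat_lit 0) (nat_lit 85902836) (nat_lit 152) (nat_lit 85902836) (nat_lit 199) (nat_lit 1) (nat_lit 196) (nat_lit 1) (nat_lit 198) (nat_lit 1) (nat_lit 392) (nat_lit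 343) (nat_lit 285)) (XT.lf (nat_lit 76) (nat_lit 426578339) (nat_lit 0) (nat_lit 601194908) (nat_lit 228) (nat_lit 426578339) (nat_lit 197) (nat_lit 1) (nat_lit 196) (nat_lit 1) (nat_lit 199) (nat_lit 1) (nat_lit 393) (nat_lit 343) (nat_lit 284)))) (XT.nd (nat_lit 156) (nat_lit 76) (nat_lit 0) (XT.nd (nat_lit 78) (nat_lit 228) (nat_lit 0) (XT.lf (nat_lit 152) (nat_lit 410308782) (nat_lit 0) (nat_lit 509685991) (nat_lit 76) (nat_lit 509685991) (nat_lit 197) (nat_lit 1) (nat_lit 195) (nat_lit 1) (nat_lit 196) (nat_lit 1) (nat_lit 394) (nat_lit 343) (nat_lit 283)) (XT.lf (nat_lit 228) (nat_lit 1387951513) (nat_lit 0) (nat_lit 8942153) (nat_lit 152) (nat_lit 8942153) (nat_lit 195) (nat_lit 1) (nat_lit 192) (nat_lit 1) (nat_lit 194) (nat_lit 1) (nat_lit 395) (nat_lit 343) (nat_lit 282))) (XT.nd (nat_lit 78) (nat_lit 76) (nat_lit 0) (XT.lf (nat_lit 76) (nat_lit 473443917) (nat_lit 0) (nat_lit 434849971)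 (nat_lit 228) (nat_lit 473443917) (nat_lit 193) (nat_lit 1) (nat_lit 192) (nat_lit 1) (nat_lit 195) (nat_lit 1) (nat_lit 396) (nat_lit 343) (nat_lit 281)) (XT.lf (nat_lit 152) (nat_lit 519813480) (nat_lit 0) (nat_lit 419319926) (nat_lit 76) (nat_lit 419319926) (nat_lit 193) (nat_lit 1) (nat_lit 191) (nat_lit 1) (nat_lit 192) (nat_lit 1) (nat_lit 397) (nat_lit 343) (nat_lit 280))))))))
noncomputable def ec63 : XT := (XT.nd (nat_lit 1950) (nat_lit 2052) (nat_lit 0) (XT.nd (nat_lit 936) (nat_lit 912) (nat_lit 0) (XT.nd (nat_lit 468) (nat_lit 456) (nat_lit 0) (XT.nd (nat_lit 234) (nat_lit 228) (nat_lit 0) (XT.nd (nat_lit 78) (nat_lit 228) (nat_lit 0) (XT.lf (nat_lit 0) (nat_lit 52277233) (nat_lit 0) (nat_lit 1231317389) (nat_lit 152) (nat_lit 52277233) (nat_lit 191) (nat_lit 3) (nat_lit 191) (nat_lit 1) (nat_lit 193) (nat_lit 1) (nat_lit 398) (nat_lit 343) (nat_lit 279)) (XT.nd (nat_lit 78) (nat_lit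 76) (nat_lit 0) (XT.lf (nat_lit 76) (nat_lit 506167161) (nat_lit 0) (nat_lit 300843036) (nat_lit 152) (nat_lit 506167161) (nat_lit 190) (nat_lit 1) (nat_lit 189) (nat_lit 1) (nat_lit 191) (nat_lit 1) (nat_lit 399) (nat_lit 343) (nat_lit 278)) (XT.lf (nat_lit 152) (nat_lit 601224626) (nat_lit 0) (nat_lit 344975541) (nat_lit 76) (nat_lit 344975541) (nat_lit 190) (nat_lit 1) (nat_lit 188) (nat_lit 1) (nat_lit 189) (nat_lit 1) (nat_lit 400) (nat_lit 343) (nat_lit 277)))) (XT.nd (nat_lit 78) (nat_lit 228) (nat_lit 0) (XT.lf (nat_lit 0) (nat_lit 99917720) (nat_lit 0) (nat_lit 1069916974) (nat_lit 152) (nat_lit 99917720) (nat_lit 188) (nat_lit 3) (nat_lit 188) (nat_lit 1) (nat_lit 190) (nat_lit 1) (nat_lit 401) (nat_lit 343) (nat_lit 276)) (XT.nd (nat_lit 78) (nat_lit 76) (nat_lit 0) (XT.lf (nat_lit 76) (nat_lit 527533241) (nat_lit 0) (nat_lit 193305156) (nat_lit 152) (nat_lit 527533241) (nat_lit 187)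 (nat_lit 1) (nat_lit 186) (nat_lit 1) (nat_lit 188) (nat_lit 1) (nat_lit 402) (nat_lit 343) (nat_lit 275)) (XT.lf (nat_lit 152) (nat_lit 659936407) (nat_lit 0) (nat_lit 283812231) (nat_lit 76) (nat_lit 283812231) (nat_lit 187) (nat_lit 1) (nat_lit 185) (nat_lit 1) (nat_lit 186) (nat_lit 1) (nat_lit 403) (nat_lit 343) (nat_lit 274))))) (XT.nd (nat_lit 234) (nat_lit 228) (nat_lit 0) (XT.nd (nat_lit 78) (nat_lit 228) (nat_lit 0) (XT.lf (nat_lit 0) (nat_lit 136401709) (nat_lit 0) (nat_lit 934422496) (nat_lit 152) (nat_lit 136401709) (nat_lit 185) (nat_lit 3) (nat_lit 185) (nat_lit 1) (nat_lit 187) (nat_lit 1) (nat_lit 404) (nat_lit 343) (nat_lit 273)) (XT.nd (nat_lit 78) (nat_lit 76) (nat_lit 0) (XT.lf (nat_lit 76) (nat_lit 539820299) (nat_lit 0) (nat_lit 107414389) (nat_lit 152) (nat_lit 539820299) (nat_lit 184) (nat_lit 1) (nat_lit 183) (nat_lit 1) (nat_lit 185) (nat_lit 1) (nat_lit 405) (nat_lit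 343) (nat_lit 272)) (XT.lf (nat_lit 152) (nat_lit 700366953) (nat_lit 0) (nat_lit 233493025) (nat_lit 76) (nat_lit 233493025) (nat_lit 184) (nat_lit 1) (nat_lit 182) (nat_lit 1) (nat_lit 183) (nat_lit 1) (nat_lit 406) (nat_lit 343) (nat_lit 271)))) (XT.nd (nat_lit 78) (nat_lit 228) (nat_lit 0) (XT.lf (nat_lit 0) (nat_lit 163836266) (nat_lit 0) (nat_lit 820369942) (nat_lit 152) (nat_lit 163836266) (nat_lit 182) (nat_lit 3) (nat_lit 182) (nat_lit 1) (nat_lit 184) (nat_lit 1) (nat_lit 407) (nat_lit 343) (nat_lit 270)) (XT.nd (nat_lit 78) (nat_lit 76) (nat_lit 0) (XT.lf (nat_lit 76) (nat_lit 544889967) (nat_lit 0) (nat_lit 39209853) (nat_lit 152) (nat_lit 544889967) (nat_lit 181) (nat_lit 1) (nat_lit 180) (nat_lit 1) (nat_lit 182) (nat_lit 1) (nat_lit 408) (nat_lit 343) (nat_lit 269)) (XT.lf (nat_lit 152) (nat_lit 726132327) (nat_lit 0) (nat_lit 192095289) (nat_lit 76) (nat_lit 192095289) (nat_lit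 181) (nat_lit 1) (nat_lit 179) (nat_lit 1) (nat_lit 180) (nat_lit 1) (nat_lit 409) (nat_lit 343) (nat_lit 268)))))) (XT.nd (nat_lit 468) (nat_lit 456) (nat_lit 0) (XT.nd (nat_lit 234) (nat_lit 228) (nat_lit 0) (XT.nd (nat_lit 78) (nat_lit 228) (nat_lit 0) (XT.lf (nat_lit 0) (nat_lit 183948731) (nat_lit 0) (nat_lit 724080612) (nat_lit 152) (nat_lit 183948731) (nat_lit 179) (nat_lit 3) (nat_lit 179) (nat_lit 1) (nat_lit 181) (nat_lit 1) (nat_lit 410) (nat_lit 343) (nat_lit 267)) (XT.nd (nat_lit 78) (nat_lit 152) (nat_lit 0) (XT.lf (nat_lit 76) (nat_lit 15042683) (nat_lit 0) (nat_lit 529453997) (nat_lit 76) (nat_lit 529453997) (nat_lit 179) (nat_lit 3) (nat_lit 178) (nat_lit 1) (nat_lit 179) (nat_lit 1) (nat_lit 411) (nat_lit 343) (nat_lit 266)) (XT.lf (nat_lit 152) (nat_lit 740189627) (nat_lit 0) (nat_lit 158037270) (nat_lit 76) (nat_lit 158037270) (nat_lit 178) (nat_lit 1) (nat_lit 176) (nat_lit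 1) (nat_lit 177) (nat_lit 1) (nat_lit 412) (nat_lit 343) (nat_lit 265)))) (XT.nd (nat_lit 78) (nat_lit 228) (nat_lit 0) (XT.lf (nat_lit 0) (nat_lit 198154343) (nat_lit 0) (nat_lit 642522178) (nat_lit 152) (nat_lit 198154343) (nat_lit 176) (nat_lit 3) (nat_lit 176) (nat_lit 1) (nat_lit 178) (nat_lit 1) (nat_lit 413) (nat_lit 343) (nat_lit 264)) (XT.nd (nat_lit 78) (nat_lit 152) (nat_lit 0) (XT.lf (nat_lit 76) (nat_lit 58439770) (nat_lit 0) (nat_lit 481647231) (nat_lit 76) (nat_lit 481647231) (nat_lit 176) (nat_lit 3) (nat_lit 175) (nat_lit 1) (nat_lit 176) (nat_lit 1) (nat_lit 414) (nat_lit 343) (nat_lit 263)) (XT.lf (nat_lit 152) (nat_lit 744954660) (nat_lit 0) (nat_lit 130017653) (nat_lit 76) (nat_lit 130017653) (nat_lit 175) (nat_lit 1) (nat_lit 173) (nat_lit 1) (nat_lit 174) (nat_lit 1) (nat_lit 415) (nat_lit 343) (nat_lit 262))))) (XT.nd (nat_lit 234) (nat_lit 228) (nat_lit 0) (XT.nd (nat_lit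 78) (nat_lit 228) (nat_lit 0) (XT.lf (nat_lit 0) (nat_lit 207611847) (nat_lit 0) (nat_lit 573194364) (nat_lit 152) (nat_lit 207611847) (nat_lit 173) (nat_lit 3) (nat_lit 173) (nat_lit 1) (nat_lit 175) (nat_lit 1) (nat_lit 416) (nat_lit 343) (nat_lit 261)) (XT.nd (nat_lit 78) (nat_lit 152) (nat_lit 0) (XT.lf (nat_lit 76) (nat_lit 91949131) (nat_lit 0) (nat_lit 440122957) (nat_lit 76) (nat_lit 440122957) (nat_lit 173) (nat_lit 3) (nat_lit 172) (nat_lit 1) (nat_lit 173) (nat_lit 1) (nat_lit 417) (nat_lit 343) (nat_lit 260)) (XT.lf (nat_lit 152) (nat_lit 742398731) (nat_lit 0) (nat_lit 106965845) (nat_lit 76) (nat_lit 106965845) (nat_lit 172) (nat_lit 1) (nat_lit 170) (nat_lit 1) (nat_lit 171) (nat_lit 1) (nat_lit 418) (nat_lit 343) (nat_lit 259)))) (XT.nd (nat_lit 156) (nat_lit 152) (nat_lit 0) (XT.nd (nat_lit 78) (nat_lit 76) (nat_lit 0) (XT.lf (nat_lit 0) (nat_lit 213269235) (nat_lit 0) (nat_lit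 514034877) (nat_lit 152) (nat_lit 213269235) (nat_lit 170) (nat_lit 3) (nat_lit 170) (nat_lit 1) (nat_lit 172) (nat_lit 1) (nat_lit 419) (nat_lit 343) (nat_lit 258)) (XT.lf (nat_lit 76) (nat_lit 117428290) (nat_lit 0) (nat_lit 403871758) (nat_lit 76) (nat_lit 403871758) (nat_lit 170) (nat_lit 3) (nat_lit 169) (nat_lit 1) (nat_lit 170) (nat_lit 1) (nat_lit 420) (nat_lit 343) (nat_lit 257))) (XT.nd (nat_lit 78) (nat_lit 0) (nat_lit 0) (XT.lf (nat_lit 152) (nat_lit 734128215) (nat_lit 0) (nat_lit 88001065) (nat_lit 76) (nat_lit 88001065) (nat_lit 169) (nat_lit 1) (nat_lit 167) (nat_lit 1) (nat_lit 168) (nat_lit 1) (nat_lit 421) (nat_lit 343) (nat_lit 256)) (XT.lf (nat_lit 0) (nat_lit 215901370) (nat_lit 0) (nat_lit 463342008) (nat_lit 152) (nat_lit 215901370) (nat_lit 167) (nat_lit 3) (nat_lit 167) (nat_lit 1) (nat_lit 169) (nat_lit 1) (nat_lit 422) (nat_lit 343) (nat_lit 255))))))) (XT.nd (nat_lit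 1014) (nat_lit 1064) (nat_lit 0) (XT.nd (nat_lit 468) (nat_lit 532) (nat_lit 0) (XT.nd (nat_lit 234) (nat_lit 228) (nat_lit 0) (XT.nd (nat_lit 78) (nat_lit 152) (nat_lit 0) (XT.lf (nat_lit 76) (nat_lit 136400461) (nat_lit 0) (nat_lit 372058211) (nat_lit 76) (nat_lit 372058211) (nat_lit 167) (nat_lit 3) (nat_lit 166) (nat_lit 1) (nat_lit 167) (nat_lit 1) (nat_lit 423) (nat_lit 343) (nat_lit 254)) (XT.nd (nat_lit 78) (nat_lit 0) (nat_lit 0) (XT.lf (nat_lit 152) (nat_lit 721449995) (nat_lit 0) (nat_lit 72398694) (nat_lit 76) (nat_lit 72398694) (nat_lit 166) (nat_lit 1) (nat_lit 164) (nat_lit 1) (nat_lit 165) (nat_lit 1) (nat_lit 424) (nat_lit 343) (nat_lit 253)) (XT.lf (nat_lit 0) (nat_lit 216140918) (nat_lit 0) (nat_lit 419710943) (nat_lit 152) (nat_lit 216140918) (nat_lit 164) (nat_lit 3) (nat_lit 164) (nat_lit 1) (nat_lit 166) (nat_lit 1) (nat_lit 425) (nat_lit 343) (nat_lit 252)))) (XT.nd (nat_lit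 78) (nat_lit 152) (nat_lit 0) (XT.lf (nat_lit 76) (nat_lit 150114060) (nat_lit 0) (nat_lit 343990275) (nat_lit 76) (nat_lit 343990275) (nat_lit 164) (nat_lit 3) (nat_lit 163) (nat_lit 1) (nat_lit 164) (nat_lit 1) (nat_lit 426) (nat_lit 343) (nat_lit 251)) (XT.nd (nat_lit 78) (nat_lit 0) (nat_lit 0) (XT.lf (nat_lit 152) (nat_lit 705425265) (nat_lit 0) (nat_lit 59562585) (nat_lit 76) (nat_lit 59562585) (nat_lit 163) (nat_lit 1) (nat_lit 161) (nat_lit 1) (nat_lit 162) (nat_lit 1) (nat_lit 427) (nat_lit 343) (nat_lit 250)) (XT.lf (nat_lit 0) (nat_lit 214503789) (nat_lit 0) (nat_lit 381981352) (nat_lit 152) (nat_lit 214503789) (nat_lit 161) (nat_lit 3) (nat_lit 161) (nat_lit 1) (nat_lit 163) (nat_lit 1) (nat_lit 428) (nat_lit 343) (nat_lit 249))))) (XT.nd (nat_lit 234) (nat_lit 304) (nat_lit 0) (XT.nd (nat_lit 78) (nat_lit 152) (nat_lit 0) (XT.lf (nat_lit 76) (nat_lit 159591650) (nat_lit 0) (nat_lit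 319094091) (nat_lit 76) (nat_lit 319094091) (nat_lit 161) (nat_lit 3) (nat_lit 160) (nat_lit 1) (nat_lit 161) (nat_lit 1) (nat_lit 429) (nat_lit 343) (nat_lit 248)) (XT.nd (nat_lit 78) (nat_lit 0) (nat_lit 0) (XT.lf (nat_lit 152) (nat_lit 686913747) (nat_lit 0) (nat_lit 49002286) (nat_lit 76) (nat_lit 49002286) (nat_lit 160) (nat_lit 1) (nat_lit 158) (nat_lit 1) (nat_lit 159) (nat_lit 1) (nat_lit 430) (nat_lit 343) (nat_lit 247)) (XT.lf (nat_lit 0) (nat_lit 211410056) (nat_lit 0) (nat_lit 349194262) (nat_lit 152) (nat_lit 211410056) (nat_lit 158) (nat_lit 3) (nat_lit 158) (nat_lit 1) (nat_lit 160) (nat_lit 1) (nat_lit 431) (nat_lit 343) (nat_lit 246)))) (XT.nd (nat_lit 156) (nat_lit 76) (nat_lit 0) (XT.nd (nat_lit 78) (nat_lit 152) (nat_lit 0) (XT.lf (nat_lit 76) (nat_lit 165670199) (nat_lit 0) (nat_lit 296893252) (nat_lit 76) (nat_lit 296893252) (nat_lit 158) (nat_lit 3) (nat_lit 157) (nat_lit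 1) (nat_lit 158) (nat_lit 1) (nat_lit 432) (nat_lit 343) (nat_lit 245)) (XT.lf (nat_lit 152) (nat_lit 666610055) (nat_lit 0) (nat_lit 40314302) (nat_lit 76) (nat_lit 40314302) (nat_lit 157) (nat_lit 1) (nat_lit 155) (nat_lit 1) (nat_lit 156) (nat_lit 1) (nat_lit 433) (nat_lit 343) (nat_lit 244))) (XT.nd (nat_lit 78) (nat_lit 76) (nat_lit 0) (XT.lf (nat_lit 0) (nat_lit 207201155) (nat_lit 0) (nat_lit 320556562) (nat_lit 152) (nat_lit 207201155) (nat_lit 155) (nat_lit 3) (nat_lit 155) (nat_lit 1) (nat_lit 157) (nat_lit 1) (nat_lit 434) (nat_lit 343) (nat_lit 243)) (XT.lf (nat_lit 76) (nat_lit 169034191) (nat_lit 0) (nat_lit 276991722) (nat_lit 76) (nat_lit 276991722) (nat_lit 155) (nat_lit 3) (nat_lit 154) (nat_lit 1) (nat_lit 155) (nat_lit 1) (nat_lit 435) (nat_lit 343) (nat_lit 242)))))) (XT.nd (nat_lit 468) (nat_lit 608) (nat_lit 0) (XT.nd (nat_lit 234) (nat_lit 228) (nat_lit 0) (XT.nd (nat_lit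 78) (nat_lit 76) (nat_lit 0) (XT.lf (nat_lit 152) (nat_lit 645073566) (nat_lit 0) (nat_lit 33166676) (nat_lit 76) (nat_lit 33166676) (nat_lit 154) (nat_lit 1) (nat_lit 152) (nat_lit 1) (nat_lit 153) (nat_lit 1) (nat_lit 436) (nat_lit 343) (nat_lit 241)) (XT.nd (nat_lit 78) (nat_lit 76) (nat_lit 0) (XT.lf (nat_lit 0) (nat_lit 202154026) (nat_lit 0) (nat_lit 295411800) (nat_lit 152) (nat_lit 202154026) (nat_lit 152) (nat_lit 3) (nat_lit 152) (nat_lit 1) (nat_lit 154) (nat_lit 1) (nat_lit 437) (nat_lit 343) (nat_lit 240)) (XT.lf (nat_lit 76) (nat_lit 170242855) (nat_lit 0) (nat_lit 259059783) (nat_lit 76) (nat_lit 259059783) (nat_lit 152) (nat_lit 3) (nat_lit 151) (nat_lit 1) (nat_lit 152) (nat_lit 1) (nat_lit 438) (nat_lit 343) (nat_lit 239)))) (XT.nd (nat_lit 78) (nat_lit 76) (nat_lit 0) (XT.lf (nat_lit 152) (nat_lit 622752976) (nat_lit 0) (nat_lit 27286306) (nat_lit 76) (nat_lit 27286306) (nat_lit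 151) (nat_lit 1) (nat_lit 149) (nat_lit 1) (nat_lit 150) (nat_lit 1) (nat_lit 439) (nat_lit 343) (nat_lit 238)) (XT.nd (nat_lit 78) (nat_lit 76) (nat_lit 0) (XT.lf (nat_lit 0) (nat_lit 196492734) (nat_lit 0) (nat_lit 273216135) (nat_lit 152) (nat_lit 196492734) (nat_lit 149) (nat_lit 3) (nat_lit 149) (nat_lit 1) (nat_lit 151) (nat_lit 1) (nat_lit 440) (nat_lit 343) (nat_lit 237)) (XT.lf (nat_lit 76) (nat_lit 169752559) (nat_lit 0) (nat_lit 242822465) (nat_lit 76) (nat_lit 242822465) (nat_lit 149) (nat_lit 3) (nat_lit 148) (nat_lit 1) (nat_lit 149) (nat_lit 1) (nat_lit 441) (nat_lit 343) (nat_lit 236))))) (XT.nd (nat_lit 234) (nat_lit 380) (nat_lit 0) (XT.nd (nat_lit 78) (nat_lit 76) (nat_lit 0) (XT.lf (nat_lit 152) (nat_lit 600006468) (nat_lit 0) (nat_lit 22448511) (nat_lit 76) (nat_lit 22448511) (nat_lit 148) (nat_lit 1) (nat_lit 146) (nat_lit 1) (nat_lit 147) (nat_lit 1) (nat_lit 442) (nat_lit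 343) (nat_lit 235)) (XT.nd (nat_lit 78) (nat_lit 76) (nat_lit 0) (XT.lf (nat_lit 0) (nat_lit 190398027) (nat_lit 0) (nat_lit 253518559) (nat_lit 152) (nat_lit 190398027) (nat_lit 146) (nat_lit 3) (nat_lit 146) (nat_lit 1) (nat_lit 148) (nat_lit 1) (nat_lit 443) (nat_lit 343) (nat_lit 234)) (XT.lf (nat_lit 76) (nat_lit 167935222) (nat_lit 0) (nat_lit 228050015) (nat_lit 76) (nat_lit 228050015) (nat_lit 146) (nat_lit 3) (nat_lit 145) (nat_lit 1) (nat_lit 146) (nat_lit 1) (nat_lit 444) (nat_lit 343) (nat_lit 233)))) (XT.nd (nat_lit 156) (nat_lit 228) (nat_lit 0) (XT.nd (nat_lit 78) (nat_lit 0) (nat_lit 0) (XT.lf (nat_lit 152) (nat_lit 577118286) (nat_lit 0) (nat_lit 18468446) (nat_lit 76) (nat_lit 18468446) (nat_lit 145) (nat_lit 1) (nat_lit 143) (nat_lit 1) (nat_lit 144) (nat_lit 1) (nat_lit 445) (nat_lit 343) (nat_lit 232)) (XT.lf (nat_lit 0) (nat_lit 184015183) (nat_lit 0) (nat_lit 235944602) (nat_lit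 152) (nat_lit 184015183) (nat_lit 143) (nat_lit 3) (nat_lit 143) (nat_lit 1) (nat_lit 145) (nat_lit 1) (nat_lit 446) (nat_lit 343) (nat_lit 231))) (XT.nd (nat_lit 78) (nat_lit 152) (nat_lit 0) (XT.lf (nat_lit 76) (nat_lit 165093458) (nat_lit 0) (nat_lit 214550047) (nat_lit 76) (nat_lit 214550047) (nat_lit 143) (nat_lit 3) (nat_lit 142) (nat_lit 1) (nat_lit 143) (nat_lit 1) (nat_lit 447) (nat_lit 343) (nat_lit 230)) (XT.lf (nat_lit 152) (nat_lit 554312337) (nat_lit 0) (nat_lit 15194036) (nat_lit 76) (nat_lit 15194036) (nat_lit 142) (nat_lit 1) (nat_lit 140) (nat_lit 1) (nat_lit 141) (nat_lit 1) (nat_lit 448) (nat_lit 343) (nat_lit 229))))))))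
noncomputable def ec64 : XT := (XT.nd (nat_lit 45786) (nat_lit 0) (nat_lit 5548) (XT.nd (nat_lit 44772) (nat_lit 0) (nat_lit 8968) (XT.nd (nat_lit 44304) (nat_lit 0) (nat_lit 11780) (XT.nd (nat_lit 44070) (nat_lit 0) (nat_lit 11628) (XT.nd (nat_lit 78) (nat_lit 76) (nat_lit 0) (XT.lf (nat_lit 0) (nat_lit 177460466) (nat_lit 0) (nat_lit 220182927) (nat_lit 152) (nat_lit 177460466) (nat_lit 140) (nat_lit 3) (nat_lit 140) (nat_lit 1) (nat_lit 142) (nat_lit 1) (nat_lit 449) (nat_lit 343) (nat_lit 228)) (XT.nd (nat_lit 43914) (nat_lit 0) (nat_lit 11628) (XT.lf (nat_lit 76) (nat_lit 161473021) (nat_lit 0) (nat_lit 202161079) (nat_lit 76) (nat_lit 202161079) (nat_lit 140) (nat_lit 3) (nat_lit 139) (nat_lit 1) (nat_lit 140) (nat_lit 1) (nat_lit 450) (nat_lit 343) (nat_lit 227)) (XT.lf (nat_lit 836) (nat_lit 653140892) (nat_lit 0) (nat_lit 1159650153) (nat_lit 836) (nat_lit 653140892) (nat_lit 303) (nat_lit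 1) (nat_lit 292) (nat_lit 0) (nat_lit 303) (nat_lit 0) (nat_lit 332) (nat_lit 344) (nat_lit 344)))) (XT.nd (nat_lit 78) (nat_lit 0) (nat_lit 76) (XT.lf (nat_lit 836) (nat_lit 2531655640) (nat_lit 76) (nat_lit 1140946118) (nat_lit 0) (nat_lit 1140946118) (nat_lit 303) (nat_lit 1) (nat_lit 293) (nat_lit 1) (nat_lit 292) (nat_lit 0) (nat_lit 333) (nat_lit 344) (nat_lit 343)) (XT.nd (nat_lit 78) (nat_lit 0) (nat_lit 0) (XT.lf (nat_lit 836) (nat_lit 1206548958) (nat_lit 0) (nat_lit 2285791743) (nat_lit 760) (nat_lit 1206548958) (nat_lit 304) (nat_lit 1) (nat_lit 293) (nat_lit 1) (nat_lit 303) (nat_lit 1) (nat_lit 334) (nat_lit 344) (nat_lit 342)) (XT.lf (nat_lit 836) (nat_lit 2263318192) (nat_lit 76) (nat_lit 1162308783) (nat_lit 0) (nat_lit 1162308783) (nat_lit 304) (nat_lit 1) (nat_lit 294) (nat_lit 1) (nat_lit 293) (nat_lit 1) (nat_lit 335) (nat_lit 344) (nat_lit 341))))) (XT.nd (nat_lit 234) (nat_lit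 0) (nat_lit 76) (XT.nd (nat_lit 78) (nat_lit 0) (nat_lit 0) (XT.lf (nat_lit 836) (nat_lit 1041783629) (nat_lit 0) (nat_lit 2396931282) (nat_lit 760) (nat_lit 1041783629) (nat_lit 305) (nat_lit 1) (nat_lit 294) (nat_lit 1) (nat_lit 304) (nat_lit 1) (nat_lit 336) (nat_lit 344) (nat_lit 340)) (XT.nd (nat_lit 78) (nat_lit 0) (nat_lit 76) (XT.lf (nat_lit 836) (nat_lit 1873715710) (nat_lit 76) (nat_lit 1251310354) (nat_lit 0) (nat_lit 1251310354) (nat_lit 305) (nat_lit 1) (nat_lit 295) (nat_lit 1) (nat_lit 294) (nat_lit 1) (nat_lit 337) (nat_lit 344) (nat_lit 339)) (XT.lf (nat_lit 836) (nat_lit 821570221) (nat_lit 0) (nat_lit 2632531258) (nat_lit 760) (nat_lit 821570221) (nat_lit 306) (nat_lit 1) (nat_lit 295) (nat_lit 1) (nat_lit 305) (nat_lit 1) (nat_lit 338) (nat_lit 344) (nat_lit 338)))) (XT.nd (nat_lit 78) (nat_lit 0) (nat_lit 76) (XT.lf (nat_lit 836) (nat_lit 1381084767) (nat_lit 76) (nat_lit 1398346929)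 (nat_lit 0) (nat_lit 1398346929) (nat_lit 306) (nat_lit 1) (nat_lit 296) (nat_lit 1) (nat_lit 295) (nat_lit 1) (nat_lit 339) (nat_lit 344) (nat_lit 337)) (XT.nd (nat_lit 78) (nat_lit 0) (nat_lit 0) (XT.lf (nat_lit 836) (nat_lit 554433600) (nat_lit 0) (nat_lit 2974601797) (nat_lit 760) (nat_lit 554433600) (nat_lit 307) (nat_lit 1) (nat_lit 296) (nat_lit 1) (nat_lit 306) (nat_lit 1) (nat_lit 340) (nat_lit 344) (nat_lit 336)) (XT.lf (nat_lit 836) (nat_lit 801634926) (nat_lit 76) (nat_lit 1594865368) (nat_lit 0) (nat_lit 1594865368) (nat_lit 307) (nat_lit 1) (nat_lit 297) (nat_lit 1) (nat_lit 296) (nat_lit 1) (nat_lit 341) (nat_lit 344) (nat_lit 335)))))) (XT.nd (nat_lit 468) (nat_lit 1368) (nat_lit 0) (XT.nd (nat_lit 234) (nat_lit 380) (nat_lit 0) (XT.nd (nat_lit 78) (nat_lit 1292) (nat_lit 0) (XT.lf (nat_lit 76) (nat_lit 247945602) (nat_lit 0) (nat_lit 3407131209) (nat_lit 760) (nat_lit 247945602)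 (nat_lit 298) (nat_lit 1) (nat_lit 297) (nat_lit 1) (nat_lit 307) (nat_lit 1) (nat_lit 342) (nat_lit 344) (nat_lit 334)) (XT.nd (nat_lit 78) (nat_lit 532) (nat_lit 0) (XT.lf (nat_lit 836) (nat_lit 149752977) (nat_lit 0) (nat_lit 1833258081) (nat_lit 760) (nat_lit 1833258081) (nat_lit 298) (nat_lit 1) (nat_lit 287) (nat_lit 1) (nat_lit 297) (nat_lit 1) (nat_lit 343) (nat_lit 344) (nat_lit 333)) (XT.lf (nat_lit 532) (nat_lit 3553826757) (nat_lit 0) (nat_lit 89708096) (nat_lit 456) (nat_lit 89708096) (nat_lit 287) (nat_lit 1) (nat_lit 280) (nat_lit 1) (nat_lit 286) (nat_lit 1) (nat_lit 344) (nat_lit 344) (nat_lit 332)))) (XT.nd (nat_lit 78) (nat_lit 380) (nat_lit 0) (XT.lf (nat_lit 76) (nat_lit 1553726873) (nat_lit 0) (nat_lit 543831047) (nat_lit 532) (nat_lit 1553726873) (nat_lit 281) (nat_lit 1) (nat_lit 280) (nat_lit 1) (nat_lit 287) (nat_lit 1) (nat_lit 345) (nat_lit 344) (nat_lit 331)) (XT.nd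 (nat_lit 78) (nat_lit 0) (nat_lit 0) (XT.lf (nat_lit 456) (nat_lit 2673565124) (nat_lit 0) (nat_lit 449623295) (nat_lit 380) (nat_lit 449623295) (nat_lit 281) (nat_lit 1) (nat_lit 275) (nat_lit 1) (nat_lit 280) (nat_lit 1) (nat_lit 346) (nat_lit 344) (nat_lit 330)) (XT.lf (nat_lit 76) (nat_lit 1108254464) (nat_lit 0) (nat_lit 1279479430) (nat_lit 456) (nat_lit 1108254464) (nat_lit 276) (nat_lit 1) (nat_lit 275) (nat_lit 1) (nat_lit 281) (nat_lit 1) (nat_lit 347) (nat_lit 344) (nat_lit 329))))) (XT.nd (nat_lit 234) (nat_lit 684) (nat_lit 0) (XT.nd (nat_lit 78) (nat_lit 304) (nat_lit 0) (XT.lf (nat_lit 456) (nat_lit 1760580548) (nat_lit 0) (nat_lit 830630003) (nat_lit 380) (nat_lit 830630003) (nat_lit 276) (nat_lit 1) (nat_lit 270) (nat_lit 1) (nat_lit 275) (nat_lit 1) (nat_lit 348) (nat_lit 344) (nat_lit 328)) (XT.nd (nat_lit 78) (nat_lit 304) (nat_lit 0) (XT.lf (nat_lit 76) (nat_lit 648750534)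 (nat_lit 0) (nat_lit 2052348150) (nat_lit 456) (nat_lit 648750534) (nat_lit 271) (nat_lit 1) (nat_lit 270) (nat_lit 1) (nat_lit 276) (nat_lit 1) (nat_lit 349) (nat_lit 344) (nat_lit 327)) (XT.lf (nat_lit 380) (nat_lit 823370601) (nat_lit 0) (nat_lit 1228169567) (nat_lit 304) (nat_lit 1228169567) (nat_lit 271) (nat_lit 1) (nat_lit 266) (nat_lit 1) (nat_lit 270) (nat_lit 1) (nat_lit 350) (nat_lit 344) (nat_lit 326)))) (XT.nd (nat_lit 156) (nat_lit 304) (nat_lit 0) (XT.nd (nat_lit 78) (nat_lit 380) (nat_lit 0) (XT.lf (nat_lit 76) (nat_lit 179159948) (nat_lit 0) (nat_lit 2853947576) (nat_lit 380) (nat_lit 179159948) (nat_lit 267) (nat_lit 1) (nat_lit 266) (nat_lit 1) (nat_lit 271) (nat_lit 1) (nat_lit 351) (nat_lit 344) (nat_lit 325)) (XT.lf (nat_lit 76) (nat_lit 1509653211) (nat_lit 0) (nat_lit 126436388) (nat_lit 380) (nat_lit 1509653211) (nat_lit 262) (nat_lit 1) (nat_lit 261) (nat_lit 1) (nat_lit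 266) (nat_lit 1) (nat_lit 352) (nat_lit 344) (nat_lit 324))) (XT.nd (nat_lit 78) (nat_lit 0) (nat_lit 0) (XT.lf (nat_lit 380) (nat_lit 2497204486) (nat_lit 0) (nat_lit 292273542) (nat_lit 304) (nat_lit 292273542) (nat_lit 262) (nat_lit 1) (nat_lit 257) (nat_lit 1) (nat_lit 261) (nat_lit 1) (nat_lit 353) (nat_lit 344) (nat_lit 323)) (XT.lf (nat_lit 76) (nat_lit 979513384) (nat_lit 0) (nat_lit 1059831345) (nat_lit 380) (nat_lit 979513384) (nat_lit 258) (nat_lit 1) (nat_lit 257) (nat_lit 1) (nat_lit 262) (nat_lit 1) (nat_lit 354) (nat_lit 344) (nat_lit 322))))))) (XT.nd (nat_lit 936) (nat_lit 1520) (nat_lit 0) (XT.nd (nat_lit 468) (nat_lit 760) (nat_lit 0) (XT.nd (nat_lit 234) (nat_lit 608) (nat_lit 0) (XT.nd (nat_lit 78) (nat_lit 228) (nat_lit 0) (XT.lf (nat_lit 380) (nat_lit 1429382507) (nat_lit 0) (nat_lit 764381536) (nat_lit 304) (nat_lit 764381536) (nat_lit 258) (nat_lit 1) (nat_lit 253) (nat_lit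 1) (nat_lit 257) (nat_lit 1) (nat_lit 355) (nat_lit 344) (nat_lit 321)) (XT.nd (nat_lit 78) (nat_lit 228) (nat_lit 0) (XT.lf (nat_lit 76) (nat_lit 450763450) (nat_lit 0) (nat_lit 1997681386) (nat_lit 380) (nat_lit 450763450) (nat_lit 254) (nat_lit 1) (nat_lit 253) (nat_lit 1) (nat_lit 258) (nat_lit 1) (nat_lit 356) (nat_lit 344) (nat_lit 320)) (XT.lf (nat_lit 304) (nat_lit 366586608) (nat_lit 0) (nat_lit 1237478302) (nat_lit 228) (nat_lit 1237478302) (nat_lit 254) (nat_lit 1) (nat_lit 250) (nat_lit 1) (nat_lit 253) (nat_lit 1) (nat_lit 357) (nat_lit 344) (nat_lit 319)))) (XT.nd (nat_lit 78) (nat_lit 228) (nat_lit 0) (XT.lf (nat_lit 380) (nat_lit 2639614995) (nat_lit 0) (nat_lit 73244251) (nat_lit 304) (nat_lit 73244251) (nat_lit 250) (nat_lit 1) (nat_lit 245) (nat_lit 1) (nat_lit 249) (nat_lit 1) (nat_lit 358) (nat_lit 344) (nat_lit 318)) (XT.nd (nat_lit 78) (nat_lit 228) (nat_lit 0) (XT.lf (nat_lit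 76) (nat_lit 1032900861) (nat_lit 0) (nat_lit 665168909) (nat_lit 380) (nat_lit 1032900861) (nat_lit 246) (nat_lit 1) (nat_lit 245) (nat_lit 1) (nat_lit 250) (nat_lit 1) (nat_lit 359) (nat_lit 344) (nat_lit 317)) (XT.lf (nat_lit 304) (nat_lit 1508584363) (nat_lit 0) (nat_lit 584683948) (nat_lit 228) (nat_lit 584683948) (nat_lit 246) (nat_lit 1) (nat_lit 242) (nat_lit 1) (nat_lit 245) (nat_lit 1) (nat_lit 360) (nat_lit 344) (nat_lit 316))))) (XT.nd (nat_lit 234) (nat_lit 228) (nat_lit 0) (XT.nd (nat_lit 78) (nat_lit 532) (nat_lit 0) (XT.lf (nat_lit 76) (nat_lit 476585135) (nat_lit 0) (nat_lit 1673110639) (nat_lit 304) (nat_lit 476585135) (nat_lit 243) (nat_lit 1) (nat_lit 242) (nat_lit 1) (nat_lit 246) (nat_lit 1) (nat_lit 361) (nat_lit 344) (nat_lit 315)) (XT.nd (nat_lit 78) (nat_lit 304) (nat_lit 0) (XT.lf (nat_lit 304) (nat_lit 397218814) (nat_lit 0) (nat_lit 1089283128) (nat_lit 228) (nat_lit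 1089283128) (nat_lit 243) (nat_lit 1) (nat_lit 239) (nat_lit 1) (nat_lit 242) (nat_lit 1) (nat_lit 362) (nat_lit 344) (nat_lit 314)) (XT.lf (nat_lit 304) (nat_lit 2390632901) (nat_lit 0) (nat_lit 68266156) (nat_lit 228) (nat_lit 68266156) (nat_lit 239) (nat_lit 1) (nat_lit 235) (nat_lit 1) (nat_lit 238) (nat_lit 1) (nat_lit 363) (nat_lit 344) (nat_lit 313)))) (XT.nd (nat_lit 78) (nat_lit 228) (nat_lit 0) (XT.lf (nat_lit 76) (nat_lit 904307963) (nat_lit 0) (nat_lit 670083120) (nat_lit 304) (nat_lit 904307963) (nat_lit 236) (nat_lit 1) (nat_lit 235) (nat_lit 1) (nat_lit 239) (nat_lit 1) (nat_lit 364) (nat_lit 344) (nat_lit 312)) (XT.nd (nat_lit 78) (nat_lit 0) (nat_lit 0) (XT.lf (nat_lit 304) (nat_lit 1243506253) (nat_lit 0) (nat_lit 594259941) (nat_lit 228) (nat_lit 594259941) (nat_lit 236) (nat_lit 1) (nat_lit 232) (nat_lit 1) (nat_lit 235) (nat_lit 1) (nat_lit 365) (nat_lit 344) (nat_lit 311))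 (XT.lf (nat_lit 76) (nat_lit 342460608) (nat_lit 0) (nat_lit 1701683796) (nat_lit 304) (nat_lit 342460608) (nat_lit 233) (nat_lit 1) (nat_lit 232) (nat_lit 1) (nat_lit 236) (nat_lit 1) (nat_lit 366) (nat_lit 344) (nat_lit 310)))))) (XT.nd (nat_lit 468) (nat_lit 684) (nat_lit 0) (XT.nd (nat_lit 234) (nat_lit 380) (nat_lit 0) (XT.nd (nat_lit 78) (nat_lit 304) (nat_lit 0) (XT.lf (nat_lit 228) (nat_lit 125488953) (nat_lit 0) (nat_lit 1108275435) (nat_lit 152) (nat_lit 1108275435) (nat_lit 233) (nat_lit 1) (nat_lit 230) (nat_lit 1) (nat_lit 232) (nat_lit 1) (nat_lit 367) (nat_lit 344) (nat_lit 309)) (XT.nd (nat_lit 78) (nat_lit 0) (nat_lit 0) (XT.lf (nat_lit 304) (nat_lit 1896096006) (nat_lit 0) (nat_lit 201379139) (nat_lit 228) (nat_lit 201379139) (nat_lit 230) (nat_lit 1) (nat_lit 226) (nat_lit 1) (nat_lit 229) (nat_lit 1) (nat_lit 368) (nat_lit 344) (nat_lit 308)) (XT.lf (nat_lit 76) (nat_lit 662261327)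 (nat_lit 0) (nat_lit 931629082) (nat_lit 304) (nat_lit 662261327) (nat_lit 227) (nat_lit 1) (nat_lit 226) (nat_lit 1) (nat_lit 230) (nat_lit 1) (nat_lit 369) (nat_lit 344) (nat_lit 307)))) (XT.nd (nat_lit 78) (nat_lit 228) (nat_lit 0) (XT.lf (nat_lit 228) (nat_lit 765140805) (nat_lit 0) (nat_lit 724813149) (nat_lit 152) (nat_lit 724813149) (nat_lit 227) (nat_lit 1) (nat_lit 224) (nat_lit 1) (nat_lit 226) (nat_lit 1) (nat_lit 370) (nat_lit 344) (nat_lit 306)) (XT.nd (nat_lit 78) (nat_lit 228) (nat_lit 0) (XT.lf (nat_lit 76) (nat_lit 109926447) (nat_lit 0) (nat_lit 1954902975) (nat_lit 228) (nat_lit 109926447) (nat_lit 225) (nat_lit 1) (nat_lit 224) (nat_lit 1) (nat_lit 227) (nat_lit 1) (nat_lit 371) (nat_lit 344) (nat_lit 305)) (XT.lf (nat_lit 76) (nat_lit 907242259) (nat_lit 0) (nat_lit 320405561) (nat_lit 228) (nat_lit 907242259) (nat_lit 222) (nat_lit 1) (nat_lit 221) (nat_lit 1) (nat_lit 224)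 (nat_lit 1) (nat_lit 372) (nat_lit 344) (nat_lit 304))))) (XT.nd (nat_lit 234) (nat_lit 380) (nat_lit 0) (XT.nd (nat_lit 78) (nat_lit 152) (nat_lit 0) (XT.lf (nat_lit 228) (nat_lit 1259864884) (nat_lit 0) (nat_lit 418241006) (nat_lit 152) (nat_lit 418241006) (nat_lit 222) (nat_lit 1) (nat_lit 219) (nat_lit 1) (nat_lit 221) (nat_lit 1) (nat_lit 373) (nat_lit 344) (nat_lit 303)) (XT.nd (nat_lit 78) (nat_lit 152) (nat_lit 0) (XT.lf (nat_lit 76) (nat_lit 355501093) (nat_lit 0) (nat_lit 1347653418) (nat_lit 228) (nat_lit 355501093) (nat_lit 220) (nat_lit 1) (nat_lit 219) (nat_lit 1) (nat_lit 222) (nat_lit 1) (nat_lit 374) (nat_lit 344) (nat_lit 302)) (XT.lf (nat_lit 228) (nat_lit 166539463) (nat_lit 0) (nat_lit 927592304) (nat_lit 152) (nat_lit 927592304) (nat_lit 220) (nat_lit 1) (nat_lit 217) (nat_lit 1) (nat_lit 219) (nat_lit 1) (nat_lit 375) (nat_lit 344) (nat_lit 301)))) (XT.nd (nat_lit 156) (nat_lit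 152) (nat_lit 0) (XT.nd (nat_lit 78) (nat_lit 0) (nat_lit 0) (XT.lf (nat_lit 228) (nat_lit 1636857435) (nat_lit 0) (nat_lit 174502611) (nat_lit 152) (nat_lit 174502611) (nat_lit 217) (nat_lit 1) (nat_lit 214) (nat_lit 1) (nat_lit 216) (nat_lit 1) (nat_lit 376) (nat_lit 344) (nat_lit 300)) (XT.lf (nat_lit 76) (nat_lit 544913851) (nat_lit 0) (nat_lit 860479614) (nat_lit 228) (nat_lit 544913851) (nat_lit 215) (nat_lit 1) (nat_lit 214) (nat_lit 1) (nat_lit 217) (nat_lit 1) (nat_lit 377) (nat_lit 344) (nat_lit 299))) (XT.nd (nat_lit 78) (nat_lit 0) (nat_lit 0) (XT.lf (nat_lit 228) (nat_lit 554968301) (nat_lit 0) (nat_lit 680407947) (nat_lit 152) (nat_lit 680407947) (nat_lit 215) (nat_lit 1) (nat_lit 212) (nat_lit 1) (nat_lit 214) (nat_lit 1) (nat_lit 378) (nat_lit 344) (nat_lit 298)) (XT.lf (nat_lit 76) (nat_lit 18240277) (nat_lit 0) (nat_lit 1845991250) (nat_lit 228) (nat_lit 18240277) (nat_lit 213)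 (nat_lit 1) (nat_lit 212) (nat_lit 1) (nat_lit 215) (nat_lit 1) (nat_lit 379) (nat_lit 344) (nat_lit 297))))))))
noncomputable def ec65 : XT := (XT.nd (nat_lit 1950) (nat_lit 1824) (nat_lit 0) (XT.nd (nat_lit 936) (nat_lit 1064) (nat_lit 0) (XT.nd (nat_lit 468) (nat_lit 608) (nat_lit 0) (XT.nd (nat_lit 234) (nat_lit 304) (nat_lit 0) (XT.nd (nat_lit 78) (nat_lit 152) (nat_lit 0) (XT.lf (nat_lit 76) (nat_lit 688723137) (nat_lit 0) (nat_lit 471501386) (nat_lit 152) (nat_lit 688723137) (nat_lit 211) (nat_lit 1) (nat_lit 210) (nat_lit 1) (nat_lit 212) (nat_lit 1) (nat_lit 380) (nat_lit 344) (nat_lit 296)) (XT.nd (nat_lit 78) (nat_lit 0) (nat_lit 0) (XT.lf (nat_lit 228) (nat_lit 854627008) (nat_lit 0) (nat_lit 480988029) (nat_lit 152) (nat_lit 480988029) (nat_lit 211) (nat_lit 1) (nat_lit 208) (nat_lit 1) (nat_lit 210) (nat_lit 1) (nat_lit 381) (nat_lit 344) (nat_lit 295)) (XT.lf (nat_lit 76) (nat_lit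 171346808) (nat_lit 0) (nat_lit 1442437917) (nat_lit 228) (nat_lit 171346808) (nat_lit 209) (nat_lit 1) (nat_lit 208) (nat_lit 1) (nat_lit 211) (nat_lit 1) (nat_lit 382) (nat_lit 344) (nat_lit 294)))) (XT.nd (nat_lit 78) (nat_lit 152) (nat_lit 0) (XT.lf (nat_lit 76) (nat_lit 795586766) (nat_lit 0) (nat_lit 162746003) (nat_lit 152) (nat_lit 795586766) (nat_lit 207) (nat_lit 1) (nat_lit 206) (nat_lit 1) (nat_lit 208) (nat_lit 1) (nat_lit 383) (nat_lit 344) (nat_lit 293)) (XT.nd (nat_lit 78) (nat_lit 0) (nat_lit 0) (XT.lf (nat_lit 228) (nat_lit 1082202052) (nat_lit 0) (nat_lit 320676448) (nat_lit 152) (nat_lit 320676448) (nat_lit 207) (nat_lit 1) (nat_lit 204) (nat_lit 1) (nat_lit 206) (nat_lit 1) (nat_lit 384) (nat_lit 344) (nat_lit 292)) (XT.lf (nat_lit 76) (nat_lit 289863145) (nat_lit 0) (nat_lit 1114065194) (nat_lit 228) (nat_lit 289863145) (nat_lit 205) (nat_lit 1) (nat_lit 204) (nat_lit 1) (nat_lit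 207) (nat_lit 1) (nat_lit 385) (nat_lit 344) (nat_lit 291))))) (XT.nd (nat_lit 234) (nat_lit 304) (nat_lit 0) (XT.nd (nat_lit 78) (nat_lit 228) (nat_lit 0) (XT.lf (nat_lit 152) (nat_lit 83209153) (nat_lit 0) (nat_lit 790690259) (nat_lit 76) (nat_lit 790690259) (nat_lit 205) (nat_lit 1) (nat_lit 203) (nat_lit 1) (nat_lit 204) (nat_lit 1) (nat_lit 386) (nat_lit 344) (nat_lit 290)) (XT.nd (nat_lit 78) (nat_lit 0) (nat_lit 0) (XT.lf (nat_lit 228) (nat_lit 1251376304) (nat_lit 0) (nat_lit 192360742) (nat_lit 152) (nat_lit 192360742) (nat_lit 203) (nat_lit 1) (nat_lit 200) (nat_lit 1) (nat_lit 202) (nat_lit 1) (nat_lit 387) (nat_lit 344) (nat_lit 289)) (XT.lf (nat_lit 76) (nat_lit 380276557) (nat_lit 0) (nat_lit 847370812) (nat_lit 228) (nat_lit 380276557) (nat_lit 201) (nat_lit 1) (nat_lit 200) (nat_lit 1) (nat_lit 203) (nat_lit 1) (nat_lit 388) (nat_lit 344) (nat_lit 288)))) (XT.nd (nat_lit 78) (nat_lit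 228) (nat_lit 0) (XT.lf (nat_lit 152) (nat_lit 279435187) (nat_lit 0) (nat_lit 650502833) (nat_lit 76) (nat_lit 650502833) (nat_lit 201) (nat_lit 1) (nat_lit 199) (nat_lit 1) (nat_lit 200) (nat_lit 1) (nat_lit 389) (nat_lit 344) (nat_lit 287)) (XT.nd (nat_lit 78) (nat_lit 0) (nat_lit 0) (XT.lf (nat_lit 228) (nat_lit 1373363714) (nat_lit 0) (nat_lit 90197978) (nat_lit 152) (nat_lit 90197978) (nat_lit 199) (nat_lit 1) (nat_lit 196) (nat_lit 1) (nat_lit 198) (nat_lit 1) (nat_lit 390) (nat_lit 344) (nat_lit 286)) (XT.lf (nat_lit 76) (nat_lit 447907256) (nat_lit 0) (nat_lit 631254653) (nat_lit 228) (nat_lit 447907256) (nat_lit 197) (nat_lit 1) (nat_lit 196) (nat_lit 1) (nat_lit 199) (nat_lit 1) (nat_lit 391) (nat_lit 344) (nat_lit 285)))))) (XT.nd (nat_lit 468) (nat_lit 532) (nat_lit 0) (XT.nd (nat_lit 234) (nat_lit 228) (nat_lit 0) (XT.nd (nat_lit 78) (nat_lit 228) (nat_lit 0) (XT.lf (nat_lit 152)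 (nat_lit 430824221) (nat_lit 0) (nat_lit 535170290) (nat_lit 76) (nat_lit 535170290) (nat_lit 197) (nat_lit 1) (nat_lit 195) (nat_lit 1) (nat_lit 196) (nat_lit 1) (nat_lit 392) (nat_lit 344) (nat_lit 284)) (XT.nd (nat_lit 78) (nat_lit 0) (nat_lit 0) (XT.lf (nat_lit 228) (nat_lit 1457349089) (nat_lit 0) (nat_lit 9389260) (nat_lit 152) (nat_lit 9389260) (nat_lit 195) (nat_lit 1) (nat_lit 192) (nat_lit 1) (nat_lit 194) (nat_lit 1) (nat_lit 393) (nat_lit 344) (nat_lit 283)) (XT.lf (nat_lit 76) (nat_lit 497116113) (nat_lit 0) (nat_lit 456592470) (nat_lit 228) (nat_lit 497116113) (nat_lit 193) (nat_lit 1) (nat_lit 192) (nat_lit 1) (nat_lit 195) (nat_lit 1) (nat_lit 394) (nat_lit 344) (nat_lit 282)))) (XT.nd (nat_lit 78) (nat_lit 152) (nat_lit 0) (XT.lf (nat_lit 152) (nat_lit 545804154) (nat_lit 0) (nat_lit 440285922) (nat_lit 76) (nat_lit 440285922) (nat_lit 193) (nat_lit 1) (nat_lit 191) (nat_lit 1)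 (nat_lit 192) (nat_lit 1) (nat_lit 395) (nat_lit 344) (nat_lit 281)) (XT.nd (nat_lit 78) (nat_lit 152) (nat_lit 0) (XT.lf (nat_lit 0) (nat_lit 54891095) (nat_lit 0) (nat_lit 1292883258) (nat_lit 152) (nat_lit 54891095) (nat_lit 191) (nat_lit 3) (nat_lit 191) (nat_lit 1) (nat_lit 193) (nat_lit 1) (nat_lit 396) (nat_lit 344) (nat_lit 280)) (XT.lf (nat_lit 76) (nat_lit 531475519) (nat_lit 0) (nat_lit 315885188) (nat_lit 152) (nat_lit 531475519) (nat_lit 190) (nat_lit 1) (nat_lit 189) (nat_lit 1) (nat_lit 191) (nat_lit 1) (nat_lit 397) (nat_lit 344) (nat_lit 279))))) (XT.nd (nat_lit 234) (nat_lit 304) (nat_lit 0) (XT.nd (nat_lit 78) (nat_lit 152) (nat_lit 0) (XT.lf (nat_lit 152) (nat_lit 631285858) (nat_lit 0) (nat_lit 362224318) (nat_lit 76) (nat_lit 362224318) (nat_lit 190) (nat_lit 1) (nat_lit 188) (nat_lit 1) (nat_lit 189) (nat_lit 1) (nat_lit 398) (nat_lit 344) (nat_lit 278)) (XT.nd (nat_lit 78)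 (nat_lit 152) (nat_lit 0) (XT.lf (nat_lit 0) (nat_lit 104913606) (nat_lit 0) (nat_lit 1123412823) (nat_lit 152) (nat_lit 104913606) (nat_lit 188) (nat_lit 3) (nat_lit 188) (nat_lit 1) (nat_lit 190) (nat_lit 1) (nat_lit 399) (nat_lit 344) (nat_lit 277)) (XT.lf (nat_lit 76) (nat_lit 553909903) (nat_lit 0) (nat_lit 202970414) (nat_lit 152) (nat_lit 553909903) (nat_lit 187) (nat_lit 1) (nat_lit 186) (nat_lit 1) (nat_lit 188) (nat_lit 1) (nat_lit 400) (nat_lit 344) (nat_lit 276)))) (XT.nd (nat_lit 156) (nat_lit 228) (nat_lit 0) (XT.nd (nat_lit 78) (nat_lit 0) (nat_lit 0) (XT.lf (nat_lit 152) (nat_lit 692933227) (nat_lit 0) (nat_lit 298002843) (nat_lit 76) (nat_lit 298002843) (nat_lit 187) (nat_lit 1) (nat_lit 185) (nat_lit 1) (nat_lit 186) (nat_lit 1) (nat_lit 401) (nat_lit 344) (nat_lit 275)) (XT.lf (nat_lit 0) (nat_lit 143221795) (nat_lit 0) (nat_lit 981143621) (nat_lit 152) (nat_lit 143221795) (nat_lit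 185) (nat_lit 3) (nat_lit 185) (nat_lit 1) (nat_lit 187) (nat_lit 1) (nat_lit 402) (nat_lit 344) (nat_lit 274))) (XT.nd (nat_lit 78) (nat_lit 76) (nat_lit 0) (XT.lf (nat_lit 76) (nat_lit 566811314) (nat_lit 0) (nat_lit 112785108) (nat_lit 152) (nat_lit 566811314) (nat_lit 184) (nat_lit 1) (nat_lit 183) (nat_lit 1) (nat_lit 185) (nat_lit 1) (nat_lit 403) (nat_lit 344) (nat_lit 273)) (XT.lf (nat_lit 152) (nat_lit 735385300) (nat_lit 0) (nat_lit 245167676) (nat_lit 76) (nat_lit 245167676) (nat_lit 184) (nat_lit 1) (nat_lit 182) (nat_lit 1) (nat_lit 183) (nat_lit 1) (nat_lit 404) (nat_lit 344) (nat_lit 272))))))) (XT.nd (nat_lit 936) (nat_lit 912) (nat_lit 0) (XT.nd (nat_lit 468) (nat_lit 456) (nat_lit 0) (XT.nd (nat_lit 234) (nat_lit 228) (nat_lit 0) (XT.nd (nat_lit 78) (nat_lit 228) (nat_lit 0) (XT.lf (nat_lit 0) (nat_lit 172028079) (nat_lit 0) (nat_lit 861388439) (nat_lit 152) (nat_lit 172028079)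 (nat_lit 182) (nat_lit 3) (nat_lit 182) (nat_lit 1) (nat_lit 184) (nat_lit 1) (nat_lit 405) (nat_lit 344) (nat_lit 271)) (XT.nd (nat_lit 78) (nat_lit 76) (nat_lit 0) (XT.lf (nat_lit 76) (nat_lit 572134466) (nat_lit 0) (nat_lit 41170346) (nat_lit 152) (nat_lit 572134466) (nat_lit 181) (nat_lit 1) (nat_lit 180) (nat_lit 1) (nat_lit 182) (nat_lit 1) (nat_lit 406) (nat_lit 344) (nat_lit 270)) (XT.lf (nat_lit 152) (nat_lit 762438944) (nat_lit 0) (nat_lit 201700054) (nat_lit 76) (nat_lit 201700054) (nat_lit 181) (nat_lit 1) (nat_lit 179) (nat_lit 1) (nat_lit 180) (nat_lit 1) (nat_lit 407) (nat_lit 344) (nat_lit 269)))) (XT.nd (nat_lit 78) (nat_lit 228) (nat_lit 0) (XT.lf (nat_lit 0) (nat_lit 193146168) (nat_lit 0) (nat_lit 760284642) (nat_lit 152) (nat_lit 193146168) (nat_lit 179) (nat_lit 3) (nat_lit 179) (nat_lit 1) (nat_lit 181) (nat_lit 1) (nat_lit 408) (nat_lit 344) (nat_lit 268)) (XT.nd (nat_lit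 78) (nat_lit 152) (nat_lit 0) (XT.lf (nat_lit 76) (nat_lit 15794817) (nat_lit 0) (nat_lit 555926697) (nat_lit 76) (nat_lit 555926697) (nat_lit 179) (nat_lit 3) (nat_lit 178) (nat_lit 1) (nat_lit 179) (nat_lit 1) (nat_lit 409) (nat_lit 344) (nat_lit 267)) (XT.lf (nat_lit 152) (nat_lit 777199108) (nat_lit 0) (nat_lit 165939133) (nat_lit 76) (nat_lit 165939133) (nat_lit 178) (nat_lit 1) (nat_lit 176) (nat_lit 1) (nat_lit 177) (nat_lit 1) (nat_lit 410) (nat_lit 344) (nat_lit 266))))) (XT.nd (nat_lit 234) (nat_lit 228) (nat_lit 0) (XT.nd (nat_lit 78) (nat_lit 228) (nat_lit 0) (XT.lf (nat_lit 0) (nat_lit 208062060) (nat_lit 0) (nat_lit 674648287) (nat_lit 152) (nat_lit 208062060) (nat_lit 176) (nat_lit 3) (nat_lit 176) (nat_lit 1) (nat_lit 178) (nat_lit 1) (nat_lit 411) (nat_lit 344) (nat_lit 265)) (XT.nd (nat_lit 78) (nat_lit 152) (nat_lit 0) (XT.lf (nat_lit 76) (nat_lit 61361758) (nat_lit 0) (nat_lit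 505729593) (nat_lit 76) (nat_lit 505729593) (nat_lit 176) (nat_lit 3) (nat_lit 175) (nat_lit 1) (nat_lit 176) (nat_lit 1) (nat_lit 412) (nat_lit 344) (nat_lit 264)) (XT.lf (nat_lit 152) (nat_lit 782202393) (nat_lit 0) (nat_lit 136518535) (nat_lit 76) (nat_lit 136518535) (nat_lit 175) (nat_lit 1) (nat_lit 173) (nat_lit 1) (nat_lit 174) (nat_lit 1) (nat_lit 413) (nat_lit 344) (nat_lit 263)))) (XT.nd (nat_lit 78) (nat_lit 228) (nat_lit 0) (XT.lf (nat_lit 0) (nat_lit 217992439) (nat_lit 0) (nat_lit 601854082) (nat_lit 152) (nat_lit 217992439) (nat_lit 173) (nat_lit 3) (nat_lit 173) (nat_lit 1) (nat_lit 175) (nat_lit 1) (nat_lit 414) (nat_lit 344) (nat_lit 262)) (XT.nd (nat_lit 78) (nat_lit 152) (nat_lit 0) (XT.lf (nat_lit 76) (nat_lit 96546588) (nat_lit 0) (nat_lit 462129105) (nat_lit 76) (nat_lit 462129105) (nat_lit 173) (nat_lit 3) (nat_lit 172) (nat_lit 1) (nat_lit 173) (nat_lit 1) (nat_lit 415)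 (nat_lit 344) (nat_lit 261)) (XT.lf (nat_lit 152) (nat_lit 779518668) (nat_lit 0) (nat_lit 112314137) (nat_lit 76) (nat_lit 112314137) (nat_lit 172) (nat_lit 1) (nat_lit 170) (nat_lit 1) (nat_lit 171) (nat_lit 1) (nat_lit 416) (nat_lit 344) (nat_lit 260)))))) (XT.nd (nat_lit 468) (nat_lit 456) (nat_lit 0) (XT.nd (nat_lit 234) (nat_lit 228) (nat_lit 0) (XT.nd (nat_lit 78) (nat_lit 228) (nat_lit 0) (XT.lf (nat_lit 0) (nat_lit 223932697) (nat_lit 0) (nat_lit 539736621) (nat_lit 152) (nat_lit 223932697) (nat_lit 170) (nat_lit 3) (nat_lit 170) (nat_lit 1) (nat_lit 172) (nat_lit 1) (nat_lit 417) (nat_lit 344) (nat_lit 259)) (XT.nd (nat_lit 78) (nat_lit 152) (nat_lit 0) (XT.lf (nat_lit 76) (nat_lit 123299704) (nat_lit 0) (nat_lit 424065346) (nat_lit 76) (nat_lit 424065346) (nat_lit 170) (nat_lit 3) (nat_lit 169) (nat_lit 1) (nat_lit 170) (nat_lit 1) (nat_lit 418) (nat_lit 344) (nat_lit 258)) (XT.lf (nat_lit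 152) (nat_lit 770834625) (nat_lit 0) (nat_lit 92401118) (nat_lit 76) (nat_lit 92401118) (nat_lit 169) (nat_lit 1) (nat_lit 167) (nat_lit 1) (nat_lit 168) (nat_lit 1) (nat_lit 419) (nat_lit 344) (nat_lit 257)))) (XT.nd (nat_lit 78) (nat_lit 228) (nat_lit 0) (XT.lf (nat_lit 0) (nat_lit 226696439) (nat_lit 0) (nat_lit 486509109) (nat_lit 152) (nat_lit 226696439) (nat_lit 167) (nat_lit 3) (nat_lit 167) (nat_lit 1) (nat_lit 169) (nat_lit 1) (nat_lit 420) (nat_lit 344) (nat_lit 256)) (XT.nd (nat_lit 78) (nat_lit 152) (nat_lit 0) (XT.lf (nat_lit 76) (nat_lit 143220484) (nat_lit 0) (nat_lit 390661122) (nat_lit 76) (nat_lit 390661122) (nat_lit 167) (nat_lit 3) (nat_lit 166) (nat_lit 1) (nat_lit 167) (nat_lit 1) (nat_lit 421) (nat_lit 344) (nat_lit 255)) (XT.lf (nat_lit 152) (nat_lit 757522495) (nat_lit 0) (nat_lit 76018629) (nat_lit 76) (nat_lit 76018629) (nat_lit 166) (nat_lit 1) (nat_lit 164) (nat_lit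 1) (nat_lit 165) (nat_lit 1) (nat_lit 422) (nat_lit 344) (nat_lit 254))))) (XT.nd (nat_lit 234) (nat_lit 228) (nat_lit 0) (XT.nd (nat_lit 78) (nat_lit 228) (nat_lit 0) (XT.lf (nat_lit 0) (nat_lit 226947964) (nat_lit 0) (nat_lit 440696491) (nat_lit 152) (nat_lit 226947964) (nat_lit 164) (nat_lit 3) (nat_lit 164) (nat_lit 1) (nat_lit 166) (nat_lit 1) (nat_lit 423) (nat_lit 344) (nat_lit 253)) (XT.nd (nat_lit 78) (nat_lit 152) (nat_lit 0) (XT.lf (nat_lit 76) (nat_lit 157619763) (nat_lit 0) (nat_lit 361189788) (nat_lit 76) (nat_lit 361189788) (nat_lit 164) (nat_lit 3) (nat_lit 163) (nat_lit 1) (nat_lit 164) (nat_lit 1) (nat_lit 424) (nat_lit 344) (nat_lit 252)) (XT.lf (nat_lit 152) (nat_lit 740696528) (nat_lit 0) (nat_lit 62540714) (nat_lit 76) (nat_lit 62540714) (nat_lit 163) (nat_lit 1) (nat_lit 161) (nat_lit 1) (nat_lit 162) (nat_lit 1) (nat_lit 425) (nat_lit 344) (nat_lit 251)))) (XT.nd (nat_lit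 156) (nat_lit 152) (nat_lit 0) (XT.nd (nat_lit 78) (nat_lit 76) (nat_lit 0) (XT.lf (nat_lit 0) (nat_lit 225228979) (nat_lit 0) (nat_lit 401080420) (nat_lit 152) (nat_lit 225228979) (nat_lit 161) (nat_lit 3) (nat_lit 161) (nat_lit 1) (nat_lit 163) (nat_lit 1) (nat_lit 426) (nat_lit 344) (nat_lit 250)) (XT.lf (nat_lit 76) (nat_lit 167571233) (nat_lit 0) (nat_lit 335048796) (nat_lit 76) (nat_lit 335048796) (nat_lit 161) (nat_lit 3) (nat_lit 160) (nat_lit 1) (nat_lit 161) (nat_lit 1) (nat_lit 427) (nat_lit 344) (nat_lit 249))) (XT.nd (nat_lit 78) (nat_lit 0) (nat_lit 0) (XT.lf (nat_lit 152) (nat_lit 721259435) (nat_lit 0) (nat_lit 51452400) (nat_lit 76) (nat_lit 51452400) (nat_lit 160) (nat_lit 1) (nat_lit 158) (nat_lit 1) (nat_lit 159) (nat_lit 1) (nat_lit 428) (nat_lit 344) (nat_lit 248)) (XT.lf (nat_lit 0) (nat_lit 221980559) (nat_lit 0) (nat_lit 366653975) (nat_lit 152) (nat_lit 221980559) (nat_lit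 158) (nat_lit 3) (nat_lit 158) (nat_lit 1) (nat_lit 160) (nat_lit 1) (nat_lit 429) (nat_lit 344) (nat_lit 247))))))))
noncomputable def ec66 : XT := (XT.nd (nat_lit 45630) (nat_lit 0) (nat_lit 7980) (XT.nd (nat_lit 936) (nat_lit 684) (nat_lit 0) (XT.nd (nat_lit 468) (nat_lit 456) (nat_lit 0) (XT.nd (nat_lit 234) (nat_lit 228) (nat_lit 0) (XT.nd (nat_lit 78) (nat_lit 152) (nat_lit 0) (XT.lf (nat_lit 76) (nat_lit 173953709) (nat_lit 0) (nat_lit 311737915) (nat_lit 76) (nat_lit 311737915) (nat_lit 158) (nat_lit 3) (nat_lit 157) (nat_lit 1) (nat_lit 158) (nat_lit 1) (nat_lit 430) (nat_lit 344) (nat_lit 246)) (XT.nd (nat_lit 78) (nat_lit 0) (nat_lit 0) (XT.lf (nat_lit 152) (nat_lit 699940558) (nat_lit 0) (nat_lit 42330017) (nat_lit 76) (nat_lit 42330017) (nat_lit 157) (nat_lit 1) (nat_lit 155) (nat_lit 1) (nat_lit 156) (nat_lit 1) (nat_lit 431) (nat_lit 344) (nat_lit 245)) (XT.lf (nat_lit 0) (nat_lit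 217561213) (nat_lit 0) (nat_lit 336584390) (nat_lit 152) (nat_lit 217561213) (nat_lit 155) (nat_lit 3) (nat_lit 155) (nat_lit 1) (nat_lit 157) (nat_lit 1) (nat_lit 432) (nat_lit 344) (nat_lit 244)))) (XT.nd (nat_lit 78) (nat_lit 152) (nat_lit 0) (XT.lf (nat_lit 76) (nat_lit 177485901) (nat_lit 0) (nat_lit 290841308) (nat_lit 76) (nat_lit 290841308) (nat_lit 155) (nat_lit 3) (nat_lit 154) (nat_lit 1) (nat_lit 155) (nat_lit 1) (nat_lit 433) (nat_lit 344) (nat_lit 243)) (XT.nd (nat_lit 78) (nat_lit 0) (nat_lit 0) (XT.lf (nat_lit 152) (nat_lit 677327245) (nat_lit 0) (nat_lit 34825009) (nat_lit 76) (nat_lit 34825009) (nat_lit 154) (nat_lit 1) (nat_lit 152) (nat_lit 1) (nat_lit 153) (nat_lit 1) (nat_lit 434) (nat_lit 344) (nat_lit 242)) (XT.lf (nat_lit 0) (nat_lit 212261727) (nat_lit 0) (nat_lit 310182390) (nat_lit 152) (nat_lit 212261727) (nat_lit 152) (nat_lit 3) (nat_lit 152) (nat_lit 1) (nat_lit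 154) (nat_lit 1) (nat_lit 435) (nat_lit 344) (nat_lit 241))))) (XT.nd (nat_lit 234) (nat_lit 228) (nat_lit 0) (XT.nd (nat_lit 78) (nat_lit 152) (nat_lit 0) (XT.lf (nat_lit 76) (nat_lit 178754998) (nat_lit 0) (nat_lit 272012772) (nat_lit 76) (nat_lit 272012772) (nat_lit 152) (nat_lit 3) (nat_lit 151) (nat_lit 1) (nat_lit 152) (nat_lit 1) (nat_lit 436) (nat_lit 344) (nat_lit 240)) (XT.nd (nat_lit 78) (nat_lit 0) (nat_lit 0) (XT.lf (nat_lit 152) (nat_lit 653890625) (nat_lit 0) (nat_lit 28650621) (nat_lit 76) (nat_lit 28650621) (nat_lit 151) (nat_lit 1) (nat_lit 149) (nat_lit 1) (nat_lit 150) (nat_lit 1) (nat_lit 437) (nat_lit 344) (nat_lit 239)) (XT.lf (nat_lit 0) (nat_lit 206317371) (nat_lit 0) (nat_lit 286876942) (nat_lit 152) (nat_lit 206317371) (nat_lit 149) (nat_lit 3) (nat_lit 149) (nat_lit 1) (nat_lit 151) (nat_lit 1) (nat_lit 438) (nat_lit 344) (nat_lit 238)))) (XT.nd (nat_lit 78) (nat_lit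 152) (nat_lit 0) (XT.lf (nat_lit 76) (nat_lit 178240187) (nat_lit 0) (nat_lit 254963588) (nat_lit 76) (nat_lit 254963588) (nat_lit 149) (nat_lit 3) (nat_lit 148) (nat_lit 1) (nat_lit 149) (nat_lit 1) (nat_lit 439) (nat_lit 344) (nat_lit 237)) (XT.nd (nat_lit 78) (nat_lit 0) (nat_lit 0) (XT.lf (nat_lit 152) (nat_lit 630006792) (nat_lit 0) (nat_lit 23570937) (nat_lit 76) (nat_lit 23570937) (nat_lit 148) (nat_lit 1) (nat_lit 146) (nat_lit 1) (nat_lit 147) (nat_lit 1) (nat_lit 440) (nat_lit 344) (nat_lit 236)) (XT.lf (nat_lit 0) (nat_lit 199917928) (nat_lit 0) (nat_lit 266194487) (nat_lit 152) (nat_lit 199917928) (nat_lit 146) (nat_lit 3) (nat_lit 146) (nat_lit 1) (nat_lit 148) (nat_lit 1) (nat_lit 441) (nat_lit 344) (nat_lit 235)))))) (XT.nd (nat_lit 468) (nat_lit 228) (nat_lit 0) (XT.nd (nat_lit 234) (nat_lit 228) (nat_lit 0) (XT.nd (nat_lit 78) (nat_lit 152) (nat_lit 0) (XT.lf (nat_lit 76) (nat_lit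 176331983) (nat_lit 0) (nat_lit 239452516) (nat_lit 76) (nat_lit 239452516) (nat_lit 146) (nat_lit 3) (nat_lit 145) (nat_lit 1) (nat_lit 146) (nat_lit 1) (nat_lit 442) (nat_lit 344) (nat_lit 234)) (XT.nd (nat_lit 78) (nat_lit 0) (nat_lit 0) (XT.lf (nat_lit 152) (nat_lit 605974200) (nat_lit 0) (nat_lit 19391868) (nat_lit 76) (nat_lit 19391868) (nat_lit 145) (nat_lit 1) (nat_lit 143) (nat_lit 1) (nat_lit 144) (nat_lit 1) (nat_lit 443) (nat_lit 344) (nat_lit 233)) (XT.lf (nat_lit 0) (nat_lit 193215943) (nat_lit 0) (nat_lit 247741832) (nat_lit 152) (nat_lit 193215943) (nat_lit 143) (nat_lit 3) (nat_lit 143) (nat_lit 1) (nat_lit 145) (nat_lit 1) (nat_lit 444) (nat_lit 344) (nat_lit 232)))) (XT.nd (nat_lit 78) (nat_lit 152) (nat_lit 0) (XT.lf (nat_lit 76) (nat_lit 173348131) (nat_lit 0) (nat_lit 225277549) (nat_lit 76) (nat_lit 225277549) (nat_lit 143) (nat_lit 3) (nat_lit 142) (nat_lit 1) (nat_lit 143)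 (nat_lit 1) (nat_lit 445) (nat_lit 344) (nat_lit 231)) (XT.nd (nat_lit 78) (nat_lit 0) (nat_lit 0) (XT.lf (nat_lit 152) (nat_lit 582027954) (nat_lit 0) (nat_lit 15953738) (nat_lit 76) (nat_lit 15953738) (nat_lit 142) (nat_lit 1) (nat_lit 140) (nat_lit 1) (nat_lit 141) (nat_lit 1) (nat_lit 446) (nat_lit 344) (nat_lit 230)) (XT.lf (nat_lit 0) (nat_lit 186333490) (nat_lit 0) (nat_lit 231192074) (nat_lit 152) (nat_lit 186333490) (nat_lit 140) (nat_lit 3) (nat_lit 140) (nat_lit 1) (nat_lit 142) (nat_lit 1) (nat_lit 447) (nat_lit 344) (nat_lit 229))))) (XT.nd (nat_lit 43914) (nat_lit 0) (nat_lit 11780) (XT.nd (nat_lit 78) (nat_lit 152) (nat_lit 0) (XT.lf (nat_lit 76) (nat_lit 169546672) (nat_lit 0) (nat_lit 212269133) (nat_lit 76) (nat_lit 212269133) (nat_lit 140) (nat_lit 3) (nat_lit 139) (nat_lit 1) (nat_lit 140) (nat_lit 1) (nat_lit 448) (nat_lit 344) (nat_lit 228)) (XT.nd (nat_lit 78) (nat_lit 0)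 (nat_lit 0) (XT.lf (nat_lit 152) (nat_lit 558351533) (nat_lit 0) (nat_lit 13125179) (nat_lit 76) (nat_lit 13125179) (nat_lit 139) (nat_lit 1) (nat_lit 137) (nat_lit 1) (nat_lit 138) (nat_lit 1) (nat_lit 449) (nat_lit 344) (nat_lit 227)) (XT.lf (nat_lit 0) (nat_lit 179367743) (nat_lit 0) (nat_lit 216273011) (nat_lit 152) (nat_lit 179367743) (nat_lit 137) (nat_lit 3) (nat_lit 137) (nat_lit 1) (nat_lit 139) (nat_lit 1) (nat_lit 450) (nat_lit 344) (nat_lit 226)))) (XT.nd (nat_lit 156) (nat_lit 0) (nat_lit 76) (XT.nd (nat_lit 78) (nat_lit 0) (nat_lit 0) (XT.lf (nat_lit 836) (nat_lit 685797936) (nat_lit 0) (nat_lit 1217632660) (nat_lit 836) (nat_lit 685797936) (nat_lit 303) (nat_lit 1) (nat_lit 292) (nat_lit 0) (nat_lit 303) (nat_lit 0) (nat_lit 330) (nat_lit 345) (nat_lit 345)) (XT.lf (nat_lit 836) (nat_lit 2658238422) (nat_lit 76) (nat_lit 1197993424) (nat_lit 0) (nat_lit 1197993424) (nat_lit 303)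 (nat_lit 1) (nat_lit 293) (nat_lit 1) (nat_lit 292) (nat_lit 0) (nat_lit 331) (nat_lit 345) (nat_lit 344))) (XT.nd (nat_lit 78) (nat_lit 0) (nat_lit 0) (XT.lf (nat_lit 836) (nat_lit 1266876406) (nat_lit 0) (nat_lit 2400081330) (nat_lit 760) (nat_lit 1266876406) (nat_lit 304) (nat_lit 1) (nat_lit 293) (nat_lit 1) (nat_lit 303) (nat_lit 1) (nat_lit 332) (nat_lit 345) (nat_lit 343)) (XT.lf (nat_lit 836) (nat_lit 2376484102) (nat_lit 76) (nat_lit 1220424222) (nat_lit 0) (nat_lit 1220424222) (nat_lit 304) (nat_lit 1) (nat_lit 294) (nat_lit 1) (nat_lit 293) (nat_lit 1) (nat_lit 333) (nat_lit 345) (nat_lit 342))))))) (XT.nd (nat_lit 936) (nat_lit 2508) (nat_lit 0) (XT.nd (nat_lit 468) (nat_lit 1444) (nat_lit 0) (XT.nd (nat_lit 234) (nat_lit 0) (nat_lit 76) (XT.nd (nat_lit 78) (nat_lit 0) (nat_lit 0) (XT.lf (nat_lit 836) (nat_lit 1093872810) (nat_lit 0) (nat_lit 2516777847) (nat_lit 760) (nat_lit 1093872810)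 (nat_lit 305) (nat_lit 1) (nat_lit 294) (nat_lit 1) (nat_lit 304) (nat_lit 1) (nat_lit 334) (nat_lit 345) (nat_lit 341)) (XT.nd (nat_lit 78) (nat_lit 0) (nat_lit 76) (XT.lf (nat_lit 836) (nat_lit 1967401496) (nat_lit 76) (nat_lit 1313875872) (nat_lit 0) (nat_lit 1313875872) (nat_lit 305) (nat_lit 1) (nat_lit 295) (nat_lit 1) (nat_lit 294) (nat_lit 1) (nat_lit 335) (nat_lit 345) (nat_lit 340)) (XT.lf (nat_lit 836) (nat_lit 862648732) (nat_lit 0) (nat_lit 2764157821) (nat_lit 760) (nat_lit 862648732) (nat_lit 306) (nat_lit 1) (nat_lit 295) (nat_lit 1) (nat_lit 305) (nat_lit 1) (nat_lit 336) (nat_lit 345) (nat_lit 339)))) (XT.nd (nat_lit 78) (nat_lit 0) (nat_lit 76) (XT.lf (nat_lit 836) (nat_lit 1450139006) (nat_lit 76) (nat_lit 1468264276) (nat_lit 0) (nat_lit 1468264276) (nat_lit 306) (nat_lit 1) (nat_lit 296) (nat_lit 1) (nat_lit 295) (nat_lit 1) (nat_lit 337) (nat_lit 345) (nat_lit 338)) (XT.nd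 (nat_lit 78) (nat_lit 0) (nat_lit 0) (XT.lf (nat_lit 836) (nat_lit 582155280) (nat_lit 0) (nat_lit 3123331887) (nat_lit 760) (nat_lit 582155280) (nat_lit 307) (nat_lit 1) (nat_lit 296) (nat_lit 1) (nat_lit 306) (nat_lit 1) (nat_lit 338) (nat_lit 345) (nat_lit 337)) (XT.lf (nat_lit 836) (nat_lit 841716672) (nat_lit 76) (nat_lit 1674608637) (nat_lit 0) (nat_lit 1674608637) (nat_lit 307) (nat_lit 1) (nat_lit 297) (nat_lit 1) (nat_lit 296) (nat_lit 1) (nat_lit 339) (nat_lit 345) (nat_lit 336))))) (XT.nd (nat_lit 234) (nat_lit 380) (nat_lit 0) (XT.nd (nat_lit 78) (nat_lit 1292) (nat_lit 0) (XT.lf (nat_lit 76) (nat_lit 260342882) (nat_lit 0) (nat_lit 3577487769) (nat_lit 760) (nat_lit 260342882) (nat_lit 298) (nat_lit 1) (nat_lit 297) (nat_lit 1) (nat_lit 307) (nat_lit 1) (nat_lit 340) (nat_lit 345) (nat_lit 335)) (XT.nd (nat_lit 78) (nat_lit 532) (nat_lit 0) (XT.lf (nat_lit 836) (nat_lit 157240626)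 (nat_lit 0) (nat_lit 1924920985) (nat_lit 760) (nat_lit 1924920985) (nat_lit 298) (nat_lit 1) (nat_lit 287) (nat_lit 1) (nat_lit 297) (nat_lit 1) (nat_lit 341) (nat_lit 345) (nat_lit 334)) (XT.lf (nat_lit 532) (nat_lit 3731518095) (nat_lit 0) (nat_lit 94193501) (nat_lit 456) (nat_lit 94193501) (nat_lit 287) (nat_lit 1) (nat_lit 280) (nat_lit 1) (nat_lit 286) (nat_lit 1) (nat_lit 342) (nat_lit 345) (nat_lit 333)))) (XT.nd (nat_lit 78) (nat_lit 380) (nat_lit 0) (XT.lf (nat_lit 76) (nat_lit 1631413216) (nat_lit 0) (nat_lit 571022599) (nat_lit 532) (nat_lit 1631413216) (nat_lit 281) (nat_lit 1) (nat_lit 280) (nat_lit 1) (nat_lit 287) (nat_lit 1) (nat_lit 343) (nat_lit 345) (nat_lit 332)) (XT.nd (nat_lit 78) (nat_lit 0) (nat_lit 0) (XT.lf (nat_lit 456) (nat_lit 2807243380) (nat_lit 0) (nat_lit 472104460) (nat_lit 380) (nat_lit 472104460) (nat_lit 281) (nat_lit 1) (nat_lit 275) (nat_lit 1) (nat_lit 280)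 (nat_lit 1) (nat_lit 344) (nat_lit 345) (nat_lit 331)) (XT.lf (nat_lit 76) (nat_lit 1163667187) (nat_lit 0) (nat_lit 1343453402) (nat_lit 456) (nat_lit 1163667187) (nat_lit 276) (nat_lit 1) (nat_lit 275) (nat_lit 1) (nat_lit 281) (nat_lit 1) (nat_lit 345) (nat_lit 345) (nat_lit 330)))))) (XT.nd (nat_lit 468) (nat_lit 1140) (nat_lit 0) (XT.nd (nat_lit 234) (nat_lit 684) (nat_lit 0) (XT.nd (nat_lit 78) (nat_lit 304) (nat_lit 0) (XT.lf (nat_lit 456) (nat_lit 1848609576) (nat_lit 0) (nat_lit 872161503) (nat_lit 380) (nat_lit 872161503) (nat_lit 276) (nat_lit 1) (nat_lit 270) (nat_lit 1) (nat_lit 275) (nat_lit 1) (nat_lit 346) (nat_lit 345) (nat_lit 329)) (XT.nd (nat_lit 78) (nat_lit 304) (nat_lit 0) (XT.lf (nat_lit 76) (nat_lit 681188060) (nat_lit 0) (nat_lit 2154965558) (nat_lit 456) (nat_lit 681188060) (nat_lit 271) (nat_lit 1) (nat_lit 270) (nat_lit 1) (nat_lit 276) (nat_lit 1) (nat_lit 347) (nat_lit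 345) (nat_lit 328)) (XT.lf (nat_lit 380) (nat_lit 864539131) (nat_lit 0) (nat_lit 1289578046) (nat_lit 304) (nat_lit 1289578046) (nat_lit 271) (nat_lit 1) (nat_lit 266) (nat_lit 1) (nat_lit 270) (nat_lit 1) (nat_lit 348) (nat_lit 345) (nat_lit 327)))) (XT.nd (nat_lit 78) (nat_lit 684) (nat_lit 0) (XT.lf (nat_lit 76) (nat_lit 188117946) (nat_lit 0) (nat_lit 2996644955) (nat_lit 380) (nat_lit 188117946) (nat_lit 267) (nat_lit 1) (nat_lit 266) (nat_lit 1) (nat_lit 271) (nat_lit 1) (nat_lit 349) (nat_lit 345) (nat_lit 326)) (XT.nd (nat_lit 78) (nat_lit 304) (nat_lit 0) (XT.lf (nat_lit 76) (nat_lit 1585135871) (nat_lit 0) (nat_lit 132758208) (nat_lit 380) (nat_lit 1585135871) (nat_lit 262) (nat_lit 1) (nat_lit 261) (nat_lit 1) (nat_lit 266) (nat_lit 1) (nat_lit 350) (nat_lit 345) (nat_lit 325)) (XT.lf (nat_lit 380) (nat_lit 2622064710) (nat_lit 0) (nat_lit 306887219) (nat_lit 304) (nat_lit 306887219)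 (nat_lit 262) (nat_lit 1) (nat_lit 257) (nat_lit 1) (nat_lit 261) (nat_lit 1) (nat_lit 351) (nat_lit 345) (nat_lit 324))))) (XT.nd (nat_lit 234) (nat_lit 836) (nat_lit 0) (XT.nd (nat_lit 78) (nat_lit 304) (nat_lit 0) (XT.lf (nat_lit 76) (nat_lit 1028489053) (nat_lit 0) (nat_lit 1112822912) (nat_lit 380) (nat_lit 1028489053) (nat_lit 258) (nat_lit 1) (nat_lit 257) (nat_lit 1) (nat_lit 262) (nat_lit 1) (nat_lit 352) (nat_lit 345) (nat_lit 323)) (XT.nd (nat_lit 78) (nat_lit 0) (nat_lit 0) (XT.lf (nat_lit 380) (nat_lit 1500851632) (nat_lit 0) (nat_lit 802600613) (nat_lit 304) (nat_lit 802600613) (nat_lit 258) (nat_lit 1) (nat_lit 253) (nat_lit 1) (nat_lit 257) (nat_lit 1) (nat_lit 353) (nat_lit 345) (nat_lit 322)) (XT.lf (nat_lit 76) (nat_lit 473301622) (nat_lit 0) (nat_lit 2097565455) (nat_lit 380) (nat_lit 473301622) (nat_lit 254) (nat_lit 1) (nat_lit 253) (nat_lit 1) (nat_lit 258) (nat_lit 1) (nat_lit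 354) (nat_lit 345) (nat_lit 321)))) (XT.nd (nat_lit 156) (nat_lit 228) (nat_lit 0) (XT.nd (nat_lit 78) (nat_lit 380) (nat_lit 0) (XT.lf (nat_lit 304) (nat_lit 384915938) (nat_lit 0) (nat_lit 1299352218) (nat_lit 228) (nat_lit 1299352218) (nat_lit 254) (nat_lit 1) (nat_lit 250) (nat_lit 1) (nat_lit 253) (nat_lit 1) (nat_lit 355) (nat_lit 345) (nat_lit 320)) (XT.lf (nat_lit 380) (nat_lit 2771595744) (nat_lit 0) (nat_lit 76906463) (nat_lit 304) (nat_lit 76906463) (nat_lit 250) (nat_lit 1) (nat_lit 245) (nat_lit 1) (nat_lit 249) (nat_lit 1) (nat_lit 356) (nat_lit 345) (nat_lit 319))) (XT.nd (nat_lit 78) (nat_lit 228) (nat_lit 0) (XT.lf (nat_lit 76) (nat_lit 1084545904) (nat_lit 0) (nat_lit 698427354) (nat_lit 380) (nat_lit 1084545904) (nat_lit 246) (nat_lit 1) (nat_lit 245) (nat_lit 1) (nat_lit 250) (nat_lit 1) (nat_lit 357) (nat_lit 345) (nat_lit 318)) (XT.lf (nat_lit 304) (nat_lit 1584013581) (nat_lit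 0) (nat_lit 613918146) (nat_lit 228) (nat_lit 613918146) (nat_lit 246) (nat_lit 1) (nat_lit 242) (nat_lit 1) (nat_lit 245) (nat_lit 1) (nat_lit 358) (nat_lit 345) (nat_lit 317))))))))
noncomputable def ec67 : XT := (XT.nd (nat_lit 1950) (nat_lit 2128) (nat_lit 0) (XT.nd (nat_lit 936) (nat_lit 1292) (nat_lit 0) (XT.nd (nat_lit 468) (nat_lit 836) (nat_lit 0) (XT.nd (nat_lit 234) (nat_lit 228) (nat_lit 0) (XT.nd (nat_lit 78) (nat_lit 532) (nat_lit 0) (XT.lf (nat_lit 76) (nat_lit 500414392) (nat_lit 0) (nat_lit 1756766171) (nat_lit 304) (nat_lit 500414392) (nat_lit 243) (nat_lit 1) (nat_lit 242) (nat_lit 1) (nat_lit 246) (nat_lit 1) (nat_lit 359) (nat_lit 345) (nat_lit 316)) (XT.nd (nat_lit 78) (nat_lit 304) (nat_lit 0) (XT.lf (nat_lit 304) (nat_lit 417079755) (nat_lit 0) (nat_lit 1143747284) (nat_lit 228) (nat_lit 1143747284) (nat_lit 243) (nat_lit 1) (nat_lit 239) (nat_lit 1) (nat_lit 242) (nat_lit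 1) (nat_lit 360) (nat_lit 345) (nat_lit 315)) (XT.lf (nat_lit 304) (nat_lit 2510164546) (nat_lit 0) (nat_lit 71679464) (nat_lit 228) (nat_lit 71679464) (nat_lit 239) (nat_lit 1) (nat_lit 235) (nat_lit 1) (nat_lit 238) (nat_lit 1) (nat_lit 361) (nat_lit 345) (nat_lit 314)))) (XT.nd (nat_lit 78) (nat_lit 228) (nat_lit 0) (XT.lf (nat_lit 76) (nat_lit 949523361) (nat_lit 0) (nat_lit 703587276) (nat_lit 304) (nat_lit 949523361) (nat_lit 236) (nat_lit 1) (nat_lit 235) (nat_lit 1) (nat_lit 239) (nat_lit 1) (nat_lit 362) (nat_lit 345) (nat_lit 313)) (XT.nd (nat_lit 78) (nat_lit 0) (nat_lit 0) (XT.lf (nat_lit 304) (nat_lit 1305681565) (nat_lit 0) (nat_lit 623972938) (nat_lit 228) (nat_lit 623972938) (nat_lit 236) (nat_lit 1) (nat_lit 232) (nat_lit 1) (nat_lit 235) (nat_lit 1) (nat_lit 363) (nat_lit 345) (nat_lit 312)) (XT.lf (nat_lit 76) (nat_lit 359583638) (nat_lit 0) (nat_lit 1786767986) (nat_lit 304)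 (nat_lit 359583638) (nat_lit 233) (nat_lit 1) (nat_lit 232) (nat_lit 1) (nat_lit 236) (nat_lit 1) (nat_lit 364) (nat_lit 345) (nat_lit 311))))) (XT.nd (nat_lit 234) (nat_lit 380) (nat_lit 0) (XT.nd (nat_lit 78) (nat_lit 304) (nat_lit 0) (XT.lf (nat_lit 228) (nat_lit 131763401) (nat_lit 0) (nat_lit 1163689206) (nat_lit 152) (nat_lit 1163689206) (nat_lit 233) (nat_lit 1) (nat_lit 230) (nat_lit 1) (nat_lit 232) (nat_lit 1) (nat_lit 365) (nat_lit 345) (nat_lit 310)) (XT.nd (nat_lit 78) (nat_lit 0) (nat_lit 0) (XT.lf (nat_lit 304) (nat_lit 1990900807) (nat_lit 0) (nat_lit 211448096) (nat_lit 228) (nat_lit 211448096) (nat_lit 230) (nat_lit 1) (nat_lit 226) (nat_lit 1) (nat_lit 229) (nat_lit 1) (nat_lit 366) (nat_lit 345) (nat_lit 309)) (XT.lf (nat_lit 76) (nat_lit 695374393) (nat_lit 0) (nat_lit 978210536) (nat_lit 304) (nat_lit 695374393) (nat_lit 227) (nat_lit 1) (nat_lit 226) (nat_lit 1) (nat_lit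 230) (nat_lit 1) (nat_lit 367) (nat_lit 345) (nat_lit 308)))) (XT.nd (nat_lit 78) (nat_lit 228) (nat_lit 0) (XT.lf (nat_lit 228) (nat_lit 803397845) (nat_lit 0) (nat_lit 761053807) (nat_lit 152) (nat_lit 761053807) (nat_lit 227) (nat_lit 1) (nat_lit 224) (nat_lit 1) (nat_lit 226) (nat_lit 1) (nat_lit 368) (nat_lit 345) (nat_lit 307)) (XT.nd (nat_lit 78) (nat_lit 228) (nat_lit 0) (XT.lf (nat_lit 76) (nat_lit 115422770) (nat_lit 0) (nat_lit 2052648124) (nat_lit 228) (nat_lit 115422770) (nat_lit 225) (nat_lit 1) (nat_lit 224) (nat_lit 1) (nat_lit 227) (nat_lit 1) (nat_lit 369) (nat_lit 345) (nat_lit 306)) (XT.lf (nat_lit 76) (nat_lit 952604372) (nat_lit 0) (nat_lit 336425840) (nat_lit 228) (nat_lit 952604372) (nat_lit 222) (nat_lit 1) (nat_lit 221) (nat_lit 1) (nat_lit 224) (nat_lit 1) (nat_lit 370) (nat_lit 345) (nat_lit 305)))))) (XT.nd (nat_lit 468) (nat_lit 608) (nat_lit 0) (XT.nd (nat_lit 234)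 (nat_lit 380) (nat_lit 0) (XT.nd (nat_lit 78) (nat_lit 152) (nat_lit 0) (XT.lf (nat_lit 228) (nat_lit 1322858129) (nat_lit 0) (nat_lit 439153057) (nat_lit 152) (nat_lit 439153057) (nat_lit 222) (nat_lit 1) (nat_lit 219) (nat_lit 1) (nat_lit 221) (nat_lit 1) (nat_lit 371) (nat_lit 345) (nat_lit 304)) (XT.nd (nat_lit 78) (nat_lit 152) (nat_lit 0) (XT.lf (nat_lit 76) (nat_lit 373276148) (nat_lit 0) (nat_lit 1415036089) (nat_lit 228) (nat_lit 373276148) (nat_lit 220) (nat_lit 1) (nat_lit 219) (nat_lit 1) (nat_lit 222) (nat_lit 1) (nat_lit 372) (nat_lit 345) (nat_lit 303)) (XT.lf (nat_lit 228) (nat_lit 174866436) (nat_lit 0) (nat_lit 973971919) (nat_lit 152) (nat_lit 973971919) (nat_lit 220) (nat_lit 1) (nat_lit 217) (nat_lit 1) (nat_lit 219) (nat_lit 1) (nat_lit 373) (nat_lit 345) (nat_lit 302)))) (XT.nd (nat_lit 78) (nat_lit 152) (nat_lit 0) (XT.lf (nat_lit 228) (nat_lit 1718700307) (nat_lit 0) (nat_lit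 183227741) (nat_lit 152) (nat_lit 183227741) (nat_lit 217) (nat_lit 1) (nat_lit 214) (nat_lit 1) (nat_lit 216) (nat_lit 1) (nat_lit 374) (nat_lit 345) (nat_lit 301)) (XT.nd (nat_lit 78) (nat_lit 152) (nat_lit 0) (XT.lf (nat_lit 76) (nat_lit 572159544) (nat_lit 0) (nat_lit 903503595) (nat_lit 228) (nat_lit 572159544) (nat_lit 215) (nat_lit 1) (nat_lit 214) (nat_lit 1) (nat_lit 217) (nat_lit 1) (nat_lit 375) (nat_lit 345) (nat_lit 300)) (XT.lf (nat_lit 228) (nat_lit 582716716) (nat_lit 0) (nat_lit 714428345) (nat_lit 152) (nat_lit 714428345) (nat_lit 215) (nat_lit 1) (nat_lit 212) (nat_lit 1) (nat_lit 214) (nat_lit 1) (nat_lit 376) (nat_lit 345) (nat_lit 299))))) (XT.nd (nat_lit 234) (nat_lit 304) (nat_lit 0) (XT.nd (nat_lit 78) (nat_lit 304) (nat_lit 0) (XT.lf (nat_lit 76) (nat_lit 19152291) (nat_lit 0) (nat_lit 1938290812) (nat_lit 228) (nat_lit 19152291) (nat_lit 213) (nat_lit 1) (nat_lit 212)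 (nat_lit 1) (nat_lit 215) (nat_lit 1) (nat_lit 377) (nat_lit 345) (nat_lit 298)) (XT.nd (nat_lit 78) (nat_lit 152) (nat_lit 0) (XT.lf (nat_lit 76) (nat_lit 723159294) (nat_lit 0) (nat_lit 495076455) (nat_lit 152) (nat_lit 723159294) (nat_lit 211) (nat_lit 1) (nat_lit 210) (nat_lit 1) (nat_lit 212) (nat_lit 1) (nat_lit 378) (nat_lit 345) (nat_lit 297)) (XT.lf (nat_lit 228) (nat_lit 897358358) (nat_lit 0) (nat_lit 505037430) (nat_lit 152) (nat_lit 505037430) (nat_lit 211) (nat_lit 1) (nat_lit 208) (nat_lit 1) (nat_lit 210) (nat_lit 1) (nat_lit 379) (nat_lit 345) (nat_lit 296)))) (XT.nd (nat_lit 156) (nat_lit 152) (nat_lit 0) (XT.nd (nat_lit 78) (nat_lit 152) (nat_lit 0) (XT.lf (nat_lit 76) (nat_lit 179914149) (nat_lit 0) (nat_lit 1514559813) (nat_lit 228) (nat_lit 179914149) (nat_lit 209) (nat_lit 1) (nat_lit 208) (nat_lit 1) (nat_lit 211) (nat_lit 1) (nat_lit 380) (nat_lit 345) (nat_lit 295)) (XT.lf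 (nat_lit 76) (nat_lit 835366105) (nat_lit 0) (nat_lit 170883303) (nat_lit 152) (nat_lit 835366105) (nat_lit 207) (nat_lit 1) (nat_lit 206) (nat_lit 1) (nat_lit 208) (nat_lit 1) (nat_lit 381) (nat_lit 345) (nat_lit 294))) (XT.nd (nat_lit 78) (nat_lit 0) (nat_lit 0) (XT.lf (nat_lit 228) (nat_lit 1136312155) (nat_lit 0) (nat_lit 336710271) (nat_lit 152) (nat_lit 336710271) (nat_lit 207) (nat_lit 1) (nat_lit 204) (nat_lit 1) (nat_lit 206) (nat_lit 1) (nat_lit 382) (nat_lit 345) (nat_lit 293)) (XT.lf (nat_lit 76) (nat_lit 304356302) (nat_lit 0) (nat_lit 1169768454) (nat_lit 228) (nat_lit 304356302) (nat_lit 205) (nat_lit 1) (nat_lit 204) (nat_lit 1) (nat_lit 207) (nat_lit 1) (nat_lit 383) (nat_lit 345) (nat_lit 292))))))) (XT.nd (nat_lit 1014) (nat_lit 912) (nat_lit 0) (XT.nd (nat_lit 468) (nat_lit 608) (nat_lit 0) (XT.nd (nat_lit 234) (nat_lit 304) (nat_lit 0) (XT.nd (nat_lit 78) (nat_lit 228) (nat_lit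 0) (XT.lf (nat_lit 152) (nat_lit 87369610) (nat_lit 0) (nat_lit 830224772) (nat_lit 76) (nat_lit 830224772) (nat_lit 205) (nat_lit 1) (nat_lit 203) (nat_lit 1) (nat_lit 204) (nat_lit 1) (nat_lit 384) (nat_lit 345) (nat_lit 291)) (XT.nd (nat_lit 78) (nat_lit 0) (nat_lit 0) (XT.lf (nat_lit 228) (nat_lit 1313945119) (nat_lit 0) (nat_lit 201978780) (nat_lit 152) (nat_lit 201978780) (nat_lit 203) (nat_lit 1) (nat_lit 200) (nat_lit 1) (nat_lit 202) (nat_lit 1) (nat_lit 385) (nat_lit 345) (nat_lit 290)) (XT.lf (nat_lit 76) (nat_lit 399290385) (nat_lit 0) (nat_lit 889739352) (nat_lit 228) (nat_lit 399290385) (nat_lit 201) (nat_lit 1) (nat_lit 200) (nat_lit 1) (nat_lit 203) (nat_lit 1) (nat_lit 386) (nat_lit 345) (nat_lit 289)))) (XT.nd (nat_lit 78) (nat_lit 228) (nat_lit 0) (XT.lf (nat_lit 152) (nat_lit 293406946) (nat_lit 0) (nat_lit 683027974) (nat_lit 76) (nat_lit 683027974) (nat_lit 201) (nat_lit 1)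 (nat_lit 199) (nat_lit 1) (nat_lit 200) (nat_lit 1) (nat_lit 387) (nat_lit 345) (nat_lit 288)) (XT.nd (nat_lit 78) (nat_lit 0) (nat_lit 0) (XT.lf (nat_lit 228) (nat_lit 1442031899) (nat_lit 0) (nat_lit 94707877) (nat_lit 152) (nat_lit 94707877) (nat_lit 199) (nat_lit 1) (nat_lit 196) (nat_lit 1) (nat_lit 198) (nat_lit 1) (nat_lit 388) (nat_lit 345) (nat_lit 287)) (XT.lf (nat_lit 76) (nat_lit 470302618) (nat_lit 0) (nat_lit 662817386) (nat_lit 228) (nat_lit 470302618) (nat_lit 197) (nat_lit 1) (nat_lit 196) (nat_lit 1) (nat_lit 199) (nat_lit 1) (nat_lit 389) (nat_lit 345) (nat_lit 286))))) (XT.nd (nat_lit 234) (nat_lit 304) (nat_lit 0) (XT.nd (nat_lit 78) (nat_lit 228) (nat_lit 0) (XT.lf (nat_lit 152) (nat_lit 452365432) (nat_lit 0) (nat_lit 561928805) (nat_lit 76) (nat_lit 561928805) (nat_lit 197) (nat_lit 1) (nat_lit 195) (nat_lit 1) (nat_lit 196) (nat_lit 1) (nat_lit 390) (nat_lit 345) (nat_lit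 285)) (XT.nd (nat_lit 78) (nat_lit 0) (nat_lit 0) (XT.lf (nat_lit 228) (nat_lit 1530216544) (nat_lit 0) (nat_lit 9858723) (nat_lit 152) (nat_lit 9858723) (nat_lit 195) (nat_lit 1) (nat_lit 192) (nat_lit 1) (nat_lit 194) (nat_lit 1) (nat_lit 391) (nat_lit 345) (nat_lit 284)) (XT.lf (nat_lit 76) (nat_lit 521971919) (nat_lit 0) (nat_lit 479422094) (nat_lit 228) (nat_lit 521971919) (nat_lit 193) (nat_lit 1) (nat_lit 192) (nat_lit 1) (nat_lit 195) (nat_lit 1) (nat_lit 392) (nat_lit 345) (nat_lit 283)))) (XT.nd (nat_lit 156) (nat_lit 228) (nat_lit 0) (XT.nd (nat_lit 78) (nat_lit 0) (nat_lit 0) (XT.lf (nat_lit 152) (nat_lit 573094362) (nat_lit 0) (nat_lit 462300218) (nat_lit 76) (nat_lit 462300218) (nat_lit 193) (nat_lit 1) (nat_lit 191) (nat_lit 1) (nat_lit 192) (nat_lit 1) (nat_lit 393) (nat_lit 345) (nat_lit 282)) (XT.lf (nat_lit 0) (nat_lit 57635649) (nat_lit 0) (nat_lit 1357527421) (nat_lit 152)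 (nat_lit 57635649) (nat_lit 191) (nat_lit 3) (nat_lit 191) (nat_lit 1) (nat_lit 193) (nat_lit 1) (nat_lit 394) (nat_lit 345) (nat_lit 281))) (XT.nd (nat_lit 78) (nat_lit 76) (nat_lit 0) (XT.lf (nat_lit 76) (nat_lit 558049295) (nat_lit 0) (nat_lit 331679447) (nat_lit 152) (nat_lit 558049295) (nat_lit 190) (nat_lit 1) (nat_lit 189) (nat_lit 1) (nat_lit 191) (nat_lit 1) (nat_lit 395) (nat_lit 345) (nat_lit 280)) (XT.lf (nat_lit 152) (nat_lit 662850151) (nat_lit 0) (nat_lit 380335534) (nat_lit 76) (nat_lit 380335534) (nat_lit 190) (nat_lit 1) (nat_lit 188) (nat_lit 1) (nat_lit 189) (nat_lit 1) (nat_lit 396) (nat_lit 345) (nat_lit 279)))))) (XT.nd (nat_lit 468) (nat_lit 456) (nat_lit 0) (XT.nd (nat_lit 234) (nat_lit 228) (nat_lit 0) (XT.nd (nat_lit 78) (nat_lit 228) (nat_lit 0) (XT.lf (nat_lit 0) (nat_lit 110159287) (nat_lit 0) (nat_lit 1179583464) (nat_lit 152) (nat_lit 110159287) (nat_lit 188) (nat_lit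 3) (nat_lit 188) (nat_lit 1) (nat_lit 190) (nat_lit 1) (nat_lit 397) (nat_lit 345) (nat_lit 278)) (XT.nd (nat_lit 78) (nat_lit 76) (nat_lit 0) (XT.lf (nat_lit 76) (nat_lit 581605399) (nat_lit 0) (nat_lit 213118935) (nat_lit 152) (nat_lit 581605399) (nat_lit 187) (nat_lit 1) (nat_lit 186) (nat_lit 1) (nat_lit 188) (nat_lit 1) (nat_lit 398) (nat_lit 345) (nat_lit 277)) (XT.lf (nat_lit 152) (nat_lit 727579889) (nat_lit 0) (nat_lit 312902985) (nat_lit 76) (nat_lit 312902985) (nat_lit 187) (nat_lit 1) (nat_lit 185) (nat_lit 1) (nat_lit 186) (nat_lit 1) (nat_lit 399) (nat_lit 345) (nat_lit 276)))) (XT.nd (nat_lit 78) (nat_lit 228) (nat_lit 0) (XT.lf (nat_lit 0) (nat_lit 150382885) (nat_lit 0) (nat_lit 1030200802) (nat_lit 152) (nat_lit 150382885) (nat_lit 185) (nat_lit 3) (nat_lit 185) (nat_lit 1) (nat_lit 187) (nat_lit 1) (nat_lit 400) (nat_lit 345) (nat_lit 275)) (XT.nd (nat_lit 78) (nat_lit 76) (nat_lit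 0) (XT.lf (nat_lit 76) (nat_lit 595151879) (nat_lit 0) (nat_lit 118424364) (nat_lit 152) (nat_lit 595151879) (nat_lit 184) (nat_lit 1) (nat_lit 183) (nat_lit 1) (nat_lit 185) (nat_lit 1) (nat_lit 401) (nat_lit 345) (nat_lit 274)) (XT.lf (nat_lit 152) (nat_lit 772154565) (nat_lit 0) (nat_lit 257426060) (nat_lit 76) (nat_lit 257426060) (nat_lit 184) (nat_lit 1) (nat_lit 182) (nat_lit 1) (nat_lit 183) (nat_lit 1) (nat_lit 402) (nat_lit 345) (nat_lit 273))))) (XT.nd (nat_lit 234) (nat_lit 228) (nat_lit 0) (XT.nd (nat_lit 78) (nat_lit 228) (nat_lit 0) (XT.lf (nat_lit 0) (nat_lit 180629483) (nat_lit 0) (nat_lit 904457861) (nat_lit 152) (nat_lit 180629483) (nat_lit 182) (nat_lit 3) (nat_lit 182) (nat_lit 1) (nat_lit 184) (nat_lit 1) (nat_lit 403) (nat_lit 345) (nat_lit 272)) (XT.nd (nat_lit 78) (nat_lit 76) (nat_lit 0) (XT.lf (nat_lit 76) (nat_lit 600741189) (nat_lit 0) (nat_lit 43228863) (nat_lit 152)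 (nat_lit 600741189) (nat_lit 181) (nat_lit 1) (nat_lit 180) (nat_lit 1) (nat_lit 182) (nat_lit 1) (nat_lit 404) (nat_lit 345) (nat_lit 271)) (XT.lf (nat_lit 152) (nat_lit 800560891) (nat_lit 0) (nat_lit 211785056) (nat_lit 76) (nat_lit 211785056) (nat_lit 181) (nat_lit 1) (nat_lit 179) (nat_lit 1) (nat_lit 180) (nat_lit 1) (nat_lit 405) (nat_lit 345) (nat_lit 270)))) (XT.nd (nat_lit 156) (nat_lit 152) (nat_lit 0) (XT.nd (nat_lit 78) (nat_lit 76) (nat_lit 0) (XT.lf (nat_lit 0) (nat_lit 202803476) (nat_lit 0) (nat_lit 798298874) (nat_lit 152) (nat_lit 202803476) (nat_lit 179) (nat_lit 3) (nat_lit 179) (nat_lit 1) (nat_lit 181) (nat_lit 1) (nat_lit 406) (nat_lit 345) (nat_lit 269)) (XT.lf (nat_lit 76) (nat_lit 16584558) (nat_lit 0) (nat_lit 583723032) (nat_lit 76) (nat_lit 583723032) (nat_lit 179) (nat_lit 3) (nat_lit 178) (nat_lit 1) (nat_lit 179) (nat_lit 1) (nat_lit 407) (nat_lit 345) (nat_lit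 268))) (XT.nd (nat_lit 78) (nat_lit 0) (nat_lit 0) (XT.lf (nat_lit 152) (nat_lit 816059063) (nat_lit 0) (nat_lit 174236090) (nat_lit 76) (nat_lit 174236090) (nat_lit 178) (nat_lit 1) (nat_lit 176) (nat_lit 1) (nat_lit 177) (nat_lit 1) (nat_lit 408) (nat_lit 345) (nat_lit 267)) (XT.lf (nat_lit 0) (nat_lit 218465164) (nat_lit 0) (nat_lit 708380701) (nat_lit 152) (nat_lit 218465164) (nat_lit 176) (nat_lit 3) (nat_lit 176) (nat_lit 1) (nat_lit 178) (nat_lit 1) (nat_lit 409) (nat_lit 345) (nat_lit 266))))))))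
noncomputable def ec68 : XT := (XT.nd (nat_lit 1950) (nat_lit 1292) (nat_lit 0) (XT.nd (nat_lit 936) (nat_lit 988) (nat_lit 0) (XT.nd (nat_lit 468) (nat_lit 456) (nat_lit 0) (XT.nd (nat_lit 234) (nat_lit 228) (nat_lit 0) (XT.nd (nat_lit 78) (nat_lit 152) (nat_lit 0) (XT.lf (nat_lit 76) (nat_lit 64429846) (nat_lit 0) (nat_lit 531016072) (nat_lit 76) (nat_lit 531016072) (nat_lit 176) (nat_lit 3) (nat_lit 175) (nat_lit 1) (nat_lit 176) (nat_lit 1) (nat_lit 410) (nat_lit 345) (nat_lit 265)) (XT.nd (nat_lit 78) (nat_lit 0) (nat_lit 0) (XT.lf (nat_lit 152) (nat_lit 821312513) (nat_lit 0) (nat_lit 143344462) (nat_lit 76) (nat_lit 143344462) (nat_lit 175) (nat_lit 1) (nat_lit 173) (nat_lit 1) (nat_lit 174) (nat_lit 1) (nat_lit 411) (nat_lit 345) (nat_lit 264)) (XT.lf (nat_lit 0) (nat_lit 228892061) (nat_lit 0) (nat_lit 631946786) (nat_lit 152) (nat_lit 228892061) (nat_lit 173) (nat_lit 3) (nat_lit 173)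 (nat_lit 1) (nat_lit 175) (nat_lit 1) (nat_lit 412) (nat_lit 345) (nat_lit 263)))) (XT.nd (nat_lit 78) (nat_lit 152) (nat_lit 0) (XT.lf (nat_lit 76) (nat_lit 101373917) (nat_lit 0) (nat_lit 485235560) (nat_lit 76) (nat_lit 485235560) (nat_lit 173) (nat_lit 3) (nat_lit 172) (nat_lit 1) (nat_lit 173) (nat_lit 1) (nat_lit 413) (nat_lit 345) (nat_lit 262)) (XT.nd (nat_lit 78) (nat_lit 0) (nat_lit 0) (XT.lf (nat_lit 152) (nat_lit 818494601) (nat_lit 0) (nat_lit 117929844) (nat_lit 76) (nat_lit 117929844) (nat_lit 172) (nat_lit 1) (nat_lit 170) (nat_lit 1) (nat_lit 171) (nat_lit 1) (nat_lit 414) (nat_lit 345) (nat_lit 261)) (XT.lf (nat_lit 0) (nat_lit 235129332) (nat_lit 0) (nat_lit 566723452) (nat_lit 152) (nat_lit 235129332) (nat_lit 170) (nat_lit 3) (nat_lit 170) (nat_lit 1) (nat_lit 172) (nat_lit 1) (nat_lit 415) (nat_lit 345) (nat_lit 260))))) (XT.nd (nat_lit 234) (nat_lit 228) (nat_lit 0) (XT.nd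 (nat_lit 78) (nat_lit 152) (nat_lit 0) (XT.lf (nat_lit 76) (nat_lit 129464690) (nat_lit 0) (nat_lit 445268613) (nat_lit 76) (nat_lit 445268613) (nat_lit 170) (nat_lit 3) (nat_lit 169) (nat_lit 1) (nat_lit 170) (nat_lit 1) (nat_lit 416) (nat_lit 345) (nat_lit 259)) (XT.nd (nat_lit 78) (nat_lit 0) (nat_lit 0) (XT.lf (nat_lit 152) (nat_lit 809376357) (nat_lit 0) (nat_lit 97021174) (nat_lit 76) (nat_lit 97021174) (nat_lit 169) (nat_lit 1) (nat_lit 167) (nat_lit 1) (nat_lit 168) (nat_lit 1) (nat_lit 417) (nat_lit 345) (nat_lit 258)) (XT.lf (nat_lit 0) (nat_lit 238031261) (nat_lit 0) (nat_lit 510834564) (nat_lit 152) (nat_lit 238031261) (nat_lit 167) (nat_lit 3) (nat_lit 167) (nat_lit 1) (nat_lit 169) (nat_lit 1) (nat_lit 418) (nat_lit 345) (nat_lit 257)))) (XT.nd (nat_lit 78) (nat_lit 152) (nat_lit 0) (XT.lf (nat_lit 76) (nat_lit 150381509) (nat_lit 0) (nat_lit 410194178) (nat_lit 76) (nat_lit 410194178)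 (nat_lit 167) (nat_lit 3) (nat_lit 166) (nat_lit 1) (nat_lit 167) (nat_lit 1) (nat_lit 419) (nat_lit 345) (nat_lit 256)) (XT.nd (nat_lit 78) (nat_lit 0) (nat_lit 0) (XT.lf (nat_lit 152) (nat_lit 795398620) (nat_lit 0) (nat_lit 79819560) (nat_lit 76) (nat_lit 79819560) (nat_lit 166) (nat_lit 1) (nat_lit 164) (nat_lit 1) (nat_lit 165) (nat_lit 1) (nat_lit 420) (nat_lit 345) (nat_lit 255)) (XT.lf (nat_lit 0) (nat_lit 238295363) (nat_lit 0) (nat_lit 462731315) (nat_lit 152) (nat_lit 238295363) (nat_lit 164) (nat_lit 3) (nat_lit 164) (nat_lit 1) (nat_lit 166) (nat_lit 1) (nat_lit 421) (nat_lit 345) (nat_lit 254)))))) (XT.nd (nat_lit 468) (nat_lit 532) (nat_lit 0) (XT.nd (nat_lit 234) (nat_lit 228) (nat_lit 0) (XT.nd (nat_lit 78) (nat_lit 152) (nat_lit 0) (XT.lf (nat_lit 76) (nat_lit 165500752) (nat_lit 0) (nat_lit 379249278) (nat_lit 76) (nat_lit 379249278) (nat_lit 164) (nat_lit 3) (nat_lit 163) (nat_lit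 1) (nat_lit 164) (nat_lit 1) (nat_lit 422) (nat_lit 345) (nat_lit 253)) (XT.nd (nat_lit 78) (nat_lit 0) (nat_lit 0) (XT.lf (nat_lit 152) (nat_lit 777731354) (nat_lit 0) (nat_lit 65667750) (nat_lit 76) (nat_lit 65667750) (nat_lit 163) (nat_lit 1) (nat_lit 161) (nat_lit 1) (nat_lit 162) (nat_lit 1) (nat_lit 423) (nat_lit 345) (nat_lit 252)) (XT.lf (nat_lit 0) (nat_lit 236490428) (nat_lit 0) (nat_lit 421134441) (nat_lit 152) (nat_lit 236490428) (nat_lit 161) (nat_lit 3) (nat_lit 161) (nat_lit 1) (nat_lit 163) (nat_lit 1) (nat_lit 424) (nat_lit 345) (nat_lit 251)))) (XT.nd (nat_lit 78) (nat_lit 152) (nat_lit 0) (XT.lf (nat_lit 76) (nat_lit 175949794) (nat_lit 0) (nat_lit 351801236) (nat_lit 76) (nat_lit 351801236) (nat_lit 161) (nat_lit 3) (nat_lit 160) (nat_lit 1) (nat_lit 161) (nat_lit 1) (nat_lit 425) (nat_lit 345) (nat_lit 250)) (XT.nd (nat_lit 78) (nat_lit 0) (nat_lit 0) (XT.lf (nat_lit 152) (nat_lit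 757322406) (nat_lit 0) (nat_lit 54025020) (nat_lit 76) (nat_lit 54025020) (nat_lit 160) (nat_lit 1) (nat_lit 158) (nat_lit 1) (nat_lit 159) (nat_lit 1) (nat_lit 426) (nat_lit 345) (nat_lit 249)) (XT.lf (nat_lit 0) (nat_lit 233079587) (nat_lit 0) (nat_lit 384986674) (nat_lit 152) (nat_lit 233079587) (nat_lit 158) (nat_lit 3) (nat_lit 158) (nat_lit 1) (nat_lit 160) (nat_lit 1) (nat_lit 427) (nat_lit 345) (nat_lit 248))))) (XT.nd (nat_lit 234) (nat_lit 304) (nat_lit 0) (XT.nd (nat_lit 78) (nat_lit 152) (nat_lit 0) (XT.lf (nat_lit 76) (nat_lit 182651395) (nat_lit 0) (nat_lit 327324811) (nat_lit 76) (nat_lit 327324811) (nat_lit 158) (nat_lit 3) (nat_lit 157) (nat_lit 1) (nat_lit 158) (nat_lit 1) (nat_lit 428) (nat_lit 345) (nat_lit 247)) (XT.nd (nat_lit 78) (nat_lit 0) (nat_lit 0) (XT.lf (nat_lit 152) (nat_lit 734937586) (nat_lit 0) (nat_lit 44446518) (nat_lit 76) (nat_lit 44446518) (nat_lit 157) (nat_lit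 1) (nat_lit 155) (nat_lit 1) (nat_lit 156) (nat_lit 1) (nat_lit 429) (nat_lit 345) (nat_lit 246)) (XT.lf (nat_lit 0) (nat_lit 228439273) (nat_lit 0) (nat_lit 353413610) (nat_lit 152) (nat_lit 228439273) (nat_lit 155) (nat_lit 3) (nat_lit 155) (nat_lit 1) (nat_lit 157) (nat_lit 1) (nat_lit 430) (nat_lit 345) (nat_lit 245)))) (XT.nd (nat_lit 156) (nat_lit 76) (nat_lit 0) (XT.nd (nat_lit 78) (nat_lit 152) (nat_lit 0) (XT.lf (nat_lit 76) (nat_lit 186360196) (nat_lit 0) (nat_lit 305383373) (nat_lit 76) (nat_lit 305383373) (nat_lit 155) (nat_lit 3) (nat_lit 154) (nat_lit 1) (nat_lit 155) (nat_lit 1) (nat_lit 431) (nat_lit 345) (nat_lit 244)) (XT.lf (nat_lit 152) (nat_lit 711193607) (nat_lit 0) (nat_lit 36566260) (nat_lit 76) (nat_lit 36566260) (nat_lit 154) (nat_lit 1) (nat_lit 152) (nat_lit 1) (nat_lit 153) (nat_lit 1) (nat_lit 432) (nat_lit 345) (nat_lit 243))) (XT.nd (nat_lit 78) (nat_lit 76) (nat_lit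 0) (XT.lf (nat_lit 0) (nat_lit 222874813) (nat_lit 0) (nat_lit 325691509) (nat_lit 152) (nat_lit 222874813) (nat_lit 152) (nat_lit 3) (nat_lit 152) (nat_lit 1) (nat_lit 154) (nat_lit 1) (nat_lit 433) (nat_lit 345) (nat_lit 242)) (XT.lf (nat_lit 76) (nat_lit 187692748) (nat_lit 0) (nat_lit 285613410) (nat_lit 76) (nat_lit 285613410) (nat_lit 152) (nat_lit 3) (nat_lit 151) (nat_lit 1) (nat_lit 152) (nat_lit 1) (nat_lit 434) (nat_lit 345) (nat_lit 241))))))) (XT.nd (nat_lit 936) (nat_lit 380) (nat_lit 0) (XT.nd (nat_lit 468) (nat_lit 456) (nat_lit 0) (XT.nd (nat_lit 234) (nat_lit 228) (nat_lit 0) (XT.nd (nat_lit 78) (nat_lit 76) (nat_lit 0) (XT.lf (nat_lit 152) (nat_lit 686585156) (nat_lit 0) (nat_lit 30083152) (nat_lit 76) (nat_lit 30083152) (nat_lit 151) (nat_lit 1) (nat_lit 149) (nat_lit 1) (nat_lit 150) (nat_lit 1) (nat_lit 435) (nat_lit 345) (nat_lit 240)) (XT.nd (nat_lit 78) (nat_lit 76) (nat_lit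 0) (XT.lf (nat_lit 0) (nat_lit 216633239) (nat_lit 0) (nat_lit 301220789) (nat_lit 152) (nat_lit 216633239) (nat_lit 149) (nat_lit 3) (nat_lit 149) (nat_lit 1) (nat_lit 151) (nat_lit 1) (nat_lit 436) (nat_lit 345) (nat_lit 239)) (XT.lf (nat_lit 76) (nat_lit 187152196) (nat_lit 0) (nat_lit 267711768) (nat_lit 76) (nat_lit 267711768) (nat_lit 149) (nat_lit 3) (nat_lit 148) (nat_lit 1) (nat_lit 149) (nat_lit 1) (nat_lit 437) (nat_lit 345) (nat_lit 238)))) (XT.nd (nat_lit 78) (nat_lit 76) (nat_lit 0) (XT.lf (nat_lit 152) (nat_lit 661507131) (nat_lit 0) (nat_lit 24749484) (nat_lit 76) (nat_lit 24749484) (nat_lit 148) (nat_lit 1) (nat_lit 146) (nat_lit 1) (nat_lit 147) (nat_lit 1) (nat_lit 438) (nat_lit 345) (nat_lit 237)) (XT.nd (nat_lit 78) (nat_lit 76) (nat_lit 0) (XT.lf (nat_lit 0) (nat_lit 209913825) (nat_lit 0) (nat_lit 279504211) (nat_lit 152) (nat_lit 209913825) (nat_lit 146) (nat_lit 3) (nat_lit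 146) (nat_lit 1) (nat_lit 148) (nat_lit 1) (nat_lit 439) (nat_lit 345) (nat_lit 236)) (XT.lf (nat_lit 76) (nat_lit 185148583) (nat_lit 0) (nat_lit 251425142) (nat_lit 76) (nat_lit 251425142) (nat_lit 146) (nat_lit 3) (nat_lit 145) (nat_lit 1) (nat_lit 146) (nat_lit 1) (nat_lit 440) (nat_lit 345) (nat_lit 235))))) (XT.nd (nat_lit 234) (nat_lit 228) (nat_lit 0) (XT.nd (nat_lit 78) (nat_lit 76) (nat_lit 0) (XT.lf (nat_lit 152) (nat_lit 636272910) (nat_lit 0) (nat_lit 20361462) (nat_lit 76) (nat_lit 20361462) (nat_lit 145) (nat_lit 1) (nat_lit 143) (nat_lit 1) (nat_lit 144) (nat_lit 1) (nat_lit 441) (nat_lit 345) (nat_lit 234)) (XT.nd (nat_lit 78) (nat_lit 76) (nat_lit 0) (XT.lf (nat_lit 0) (nat_lit 202876740) (nat_lit 0) (nat_lit 260128923) (nat_lit 152) (nat_lit 202876740) (nat_lit 143) (nat_lit 3) (nat_lit 143) (nat_lit 1) (nat_lit 145) (nat_lit 1) (nat_lit 442) (nat_lit 345) (nat_lit 233)) (XT.lf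 (nat_lit 76) (nat_lit 182015538) (nat_lit 0) (nat_lit 236541427) (nat_lit 76) (nat_lit 236541427) (nat_lit 143) (nat_lit 3) (nat_lit 142) (nat_lit 1) (nat_lit 143) (nat_lit 1) (nat_lit 443) (nat_lit 345) (nat_lit 232)))) (XT.nd (nat_lit 78) (nat_lit 76) (nat_lit 0) (XT.lf (nat_lit 152) (nat_lit 611129352) (nat_lit 0) (nat_lit 16751425) (nat_lit 76) (nat_lit 16751425) (nat_lit 142) (nat_lit 1) (nat_lit 140) (nat_lit 1) (nat_lit 141) (nat_lit 1) (nat_lit 444) (nat_lit 345) (nat_lit 231)) (XT.nd (nat_lit 78) (nat_lit 76) (nat_lit 0) (XT.lf (nat_lit 0) (nat_lit 195650164) (nat_lit 0) (nat_lit 242751677) (nat_lit 152) (nat_lit 195650164) (nat_lit 140) (nat_lit 3) (nat_lit 140) (nat_lit 1) (nat_lit 142) (nat_lit 1) (nat_lit 445) (nat_lit 345) (nat_lit 230)) (XT.lf (nat_lit 76) (nat_lit 178024006) (nat_lit 0) (nat_lit 222882589) (nat_lit 76) (nat_lit 222882589) (nat_lit 140) (nat_lit 3) (nat_lit 139)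 (nat_lit 1) (nat_lit 140) (nat_lit 1) (nat_lit 446) (nat_lit 345) (nat_lit 229)))))) (XT.nd (nat_lit 43992) (nat_lit 0) (nat_lit 12084) (XT.nd (nat_lit 234) (nat_lit 152) (nat_lit 0) (XT.nd (nat_lit 78) (nat_lit 76) (nat_lit 0) (XT.lf (nat_lit 152) (nat_lit 586269110) (nat_lit 0) (nat_lit 13781438) (nat_lit 76) (nat_lit 13781438) (nat_lit 139) (nat_lit 1) (nat_lit 137) (nat_lit 1) (nat_lit 138) (nat_lit 1) (nat_lit 447) (nat_lit 345) (nat_lit 228)) (XT.nd (nat_lit 78) (nat_lit 76) (nat_lit 0) (XT.lf (nat_lit 0) (nat_lit 188336130) (nat_lit 0) (nat_lit 227086661) (nat_lit 152) (nat_lit 188336130) (nat_lit 137) (nat_lit 3) (nat_lit 137) (nat_lit 1) (nat_lit 139) (nat_lit 1) (nat_lit 448) (nat_lit 345) (nat_lit 227)) (XT.lf (nat_lit 76) (nat_lit 173393525) (nat_lit 0) (nat_lit 210298793) (nat_lit 76) (nat_lit 210298793) (nat_lit 137) (nat_lit 3) (nat_lit 136) (nat_lit 1) (nat_lit 137) (nat_lit 1)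 (nat_lit 449) (nat_lit 345) (nat_lit 226)))) (XT.nd (nat_lit 43602) (nat_lit 0) (nat_lit 12008) (XT.lf (nat_lit 152) (nat_lit 561840743) (nat_lit 0) (nat_lit 11338023) (nat_lit 76) (nat_lit 11338023) (nat_lit 136) (nat_lit 1) (nat_lit 134) (nat_lit 1) (nat_lit 135) (nat_lit 1) (nat_lit 450) (nat_lit 345) (nat_lit 225)) (XT.nd (nat_lit 78) (nat_lit 0) (nat_lit 0) (XT.lf (nat_lit 836) (nat_lit 720087833) (nat_lit 0) (nat_lit 1278514293) (nat_lit 836) (nat_lit 720087833) (nat_lit 303) (nat_lit 1) (nat_lit 292) (nat_lit 0) (nat_lit 303) (nat_lit 0) (nat_lit 328) (nat_lit 346) (nat_lit 346)) (XT.lf (nat_lit 836) (nat_lit 2791150343) (nat_lit 76) (nat_lit 1257893095) (nat_lit 0) (nat_lit 1257893095) (nat_lit 303) (nat_lit 1) (nat_lit 293) (nat_lit 1) (nat_lit 292) (nat_lit 0) (nat_lit 329) (nat_lit 346) (nat_lit 345))))) (XT.nd (nat_lit 234) (nat_lit 0) (nat_lit 76) (XT.nd (nat_lit 78) (nat_lit 0) (nat_lit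 0) (XT.lf (nat_lit 836) (nat_lit 1330220227) (nat_lit 0) (nat_lit 2520085397) (nat_lit 760) (nat_lit 1330220227) (nat_lit 304) (nat_lit 1) (nat_lit 293) (nat_lit 1) (nat_lit 303) (nat_lit 1) (nat_lit 330) (nat_lit 346) (nat_lit 344)) (XT.nd (nat_lit 78) (nat_lit 0) (nat_lit 76) (XT.lf (nat_lit 836) (nat_lit 2495308307) (nat_lit 76) (nat_lit 1281445434) (nat_lit 0) (nat_lit 1281445434) (nat_lit 304) (nat_lit 1) (nat_lit 294) (nat_lit 1) (nat_lit 293) (nat_lit 1) (nat_lit 331) (nat_lit 346) (nat_lit 343)) (XT.lf (nat_lit 836) (nat_lit 1148566451) (nat_lit 0) (nat_lit 2642616739) (nat_lit 760) (nat_lit 1148566451) (nat_lit 305) (nat_lit 1) (nat_lit 294) (nat_lit 1) (nat_lit 304) (nat_lit 1) (nat_lit 332) (nat_lit 346) (nat_lit 342)))) (XT.nd (nat_lit 156) (nat_lit 0) (nat_lit 76) (XT.nd (nat_lit 78) (nat_lit 0) (nat_lit 76) (XT.lf (nat_lit 836) (nat_lit 2065771571) (nat_lit 76) (nat_lit 1379569665)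 (nat_lit 0) (nat_lit 1379569665) (nat_lit 305) (nat_lit 1) (nat_lit 295) (nat_lit 1) (nat_lit 294) (nat_lit 1) (nat_lit 333) (nat_lit 346) (nat_lit 341)) (XT.lf (nat_lit 836) (nat_lit 905781169) (nat_lit 0) (nat_lit 2902365712) (nat_lit 760) (nat_lit 905781169) (nat_lit 306) (nat_lit 1) (nat_lit 295) (nat_lit 1) (nat_lit 305) (nat_lit 1) (nat_lit 334) (nat_lit 346) (nat_lit 340))) (XT.nd (nat_lit 78) (nat_lit 0) (nat_lit 76) (XT.lf (nat_lit 836) (nat_lit 1522645956) (nat_lit 76) (nat_lit 1541677490) (nat_lit 0) (nat_lit 1541677490) (nat_lit 306) (nat_lit 1) (nat_lit 296) (nat_lit 1) (nat_lit 295) (nat_lit 1) (nat_lit 335) (nat_lit 346) (nat_lit 339)) (XT.lf (nat_lit 836) (nat_lit 611263044) (nat_lit 0) (nat_lit 3279498482) (nat_lit 760) (nat_lit 611263044) (nat_lit 307) (nat_lit 1) (nat_lit 296) (nat_lit 1) (nat_lit 306) (nat_lit 1) (nat_lit 336) (nat_lit 346) (nat_lit 338))))))))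
noncomputable def ec69 : XT := (XT.nd (nat_lit 1950) (nat_lit 2736) (nat_lit 0) (XT.nd (nat_lit 936) (nat_lit 2204) (nat_lit 0) (XT.nd (nat_lit 468) (nat_lit 1064) (nat_lit 0) (XT.nd (nat_lit 234) (nat_lit 912) (nat_lit 0) (XT.nd (nat_lit 78) (nat_lit 684) (nat_lit 0) (XT.lf (nat_lit 836) (nat_lit 883802506) (nat_lit 76) (nat_lit 1758339069) (nat_lit 0) (nat_lit 1758339069) (nat_lit 307) (nat_lit 1) (nat_lit 297) (nat_lit 1) (nat_lit 296) (nat_lit 1) (nat_lit 337) (nat_lit 346) (nat_lit 337)) (XT.nd (nat_lit 78) (nat_lit 760) (nat_lit 0) (XT.lf (nat_lit 76) (nat_lit 273360026) (nat_lit 0) (nat_lit 3756362158) (nat_lit 760) (nat_lit 273360026) (nat_lit 298) (nat_lit 1) (nat_lit 297) (nat_lit 1) (nat_lit 307) (nat_lit 1) (nat_lit 338) (nat_lit 346) (nat_lit 336)) (XT.lf (nat_lit 836) (nat_lit 165102658) (nat_lit 0) (nat_lit 2021167034) (nat_lit 760) (nat_lit 2021167034) (nat_lit 298) (nat_lit 1)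 (nat_lit 287) (nat_lit 1) (nat_lit 297) (nat_lit 1) (nat_lit 339) (nat_lit 346) (nat_lit 335)))) (XT.nd (nat_lit 78) (nat_lit 380) (nat_lit 0) (XT.lf (nat_lit 532) (nat_lit 3918094000) (nat_lit 0) (nat_lit 98903176) (nat_lit 456) (nat_lit 98903176) (nat_lit 287) (nat_lit 1) (nat_lit 280) (nat_lit 1) (nat_lit 286) (nat_lit 1) (nat_lit 340) (nat_lit 346) (nat_lit 334)) (XT.nd (nat_lit 78) (nat_lit 380) (nat_lit 0) (XT.lf (nat_lit 76) (nat_lit 1712983877) (nat_lit 0) (nat_lit 599573729) (nat_lit 532) (nat_lit 1712983877) (nat_lit 281) (nat_lit 1) (nat_lit 280) (nat_lit 1) (nat_lit 287) (nat_lit 1) (nat_lit 341) (nat_lit 346) (nat_lit 333)) (XT.lf (nat_lit 456) (nat_lit 2947605549) (nat_lit 0) (nat_lit 495709683) (nat_lit 380) (nat_lit 495709683) (nat_lit 281) (nat_lit 1) (nat_lit 275) (nat_lit 1) (nat_lit 280) (nat_lit 1) (nat_lit 342) (nat_lit 346) (nat_lit 332))))) (XT.nd (nat_lit 234) (nat_lit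 684) (nat_lit 0) (XT.nd (nat_lit 78) (nat_lit 380) (nat_lit 0) (XT.lf (nat_lit 76) (nat_lit 1221850546) (nat_lit 0) (nat_lit 1410626072) (nat_lit 456) (nat_lit 1221850546) (nat_lit 276) (nat_lit 1) (nat_lit 275) (nat_lit 1) (nat_lit 281) (nat_lit 1) (nat_lit 343) (nat_lit 346) (nat_lit 331)) (XT.nd (nat_lit 78) (nat_lit 0) (nat_lit 0) (XT.lf (nat_lit 456) (nat_lit 1941040055) (nat_lit 0) (nat_lit 915769578) (nat_lit 380) (nat_lit 915769578) (nat_lit 276) (nat_lit 1) (nat_lit 270) (nat_lit 1) (nat_lit 275) (nat_lit 1) (nat_lit 344) (nat_lit 346) (nat_lit 330)) (XT.lf (nat_lit 76) (nat_lit 715247463) (nat_lit 0) (nat_lit 2262713836) (nat_lit 456) (nat_lit 715247463) (nat_lit 271) (nat_lit 1) (nat_lit 270) (nat_lit 1) (nat_lit 276) (nat_lit 1) (nat_lit 345) (nat_lit 346) (nat_lit 329)))) (XT.nd (nat_lit 78) (nat_lit 380) (nat_lit 0) (XT.lf (nat_lit 380) (nat_lit 907766088) (nat_lit 0) (nat_lit 1354056948)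 (nat_lit 304) (nat_lit 1354056948) (nat_lit 271) (nat_lit 1) (nat_lit 266) (nat_lit 1) (nat_lit 270) (nat_lit 1) (nat_lit 346) (nat_lit 346) (nat_lit 328)) (XT.nd (nat_lit 78) (nat_lit 380) (nat_lit 0) (XT.lf (nat_lit 76) (nat_lit 197523843) (nat_lit 0) (nat_lit 3146477203) (nat_lit 380) (nat_lit 197523843) (nat_lit 267) (nat_lit 1) (nat_lit 266) (nat_lit 1) (nat_lit 271) (nat_lit 1) (nat_lit 347) (nat_lit 346) (nat_lit 327)) (XT.lf (nat_lit 76) (nat_lit 1664392665) (nat_lit 0) (nat_lit 139396118) (nat_lit 380) (nat_lit 1664392665) (nat_lit 262) (nat_lit 1) (nat_lit 261) (nat_lit 1) (nat_lit 266) (nat_lit 1) (nat_lit 348) (nat_lit 346) (nat_lit 326)))))) (XT.nd (nat_lit 468) (nat_lit 988) (nat_lit 0) (XT.nd (nat_lit 234) (nat_lit 608) (nat_lit 0) (XT.nd (nat_lit 78) (nat_lit 304) (nat_lit 0) (XT.lf (nat_lit 380) (nat_lit 2753167945) (nat_lit 0) (nat_lit 322231580) (nat_lit 304) (nat_lit 322231580)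 (nat_lit 262) (nat_lit 1) (nat_lit 257) (nat_lit 1) (nat_lit 261) (nat_lit 1) (nat_lit 349) (nat_lit 346) (nat_lit 325)) (XT.nd (nat_lit 78) (nat_lit 304) (nat_lit 0) (XT.lf (nat_lit 76) (nat_lit 1079913506) (nat_lit 0) (nat_lit 1168464058) (nat_lit 380) (nat_lit 1079913506) (nat_lit 258) (nat_lit 1) (nat_lit 257) (nat_lit 1) (nat_lit 262) (nat_lit 1) (nat_lit 350) (nat_lit 346) (nat_lit 324)) (XT.lf (nat_lit 380) (nat_lit 1575894213) (nat_lit 0) (nat_lit 842730644) (nat_lit 304) (nat_lit 842730644) (nat_lit 258) (nat_lit 1) (nat_lit 253) (nat_lit 1) (nat_lit 257) (nat_lit 1) (nat_lit 351) (nat_lit 346) (nat_lit 323)))) (XT.nd (nat_lit 78) (nat_lit 608) (nat_lit 0) (XT.lf (nat_lit 76) (nat_lit 496966704) (nat_lit 0) (nat_lit 2202443728) (nat_lit 380) (nat_lit 496966704) (nat_lit 254) (nat_lit 1) (nat_lit 253) (nat_lit 1) (nat_lit 258) (nat_lit 1) (nat_lit 352) (nat_lit 346) (nat_lit 322)) (XT.nd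 (nat_lit 78) (nat_lit 380) (nat_lit 0) (XT.lf (nat_lit 304) (nat_lit 404161735) (nat_lit 0) (nat_lit 1364319828) (nat_lit 228) (nat_lit 1364319828) (nat_lit 254) (nat_lit 1) (nat_lit 250) (nat_lit 1) (nat_lit 253) (nat_lit 1) (nat_lit 353) (nat_lit 346) (nat_lit 321)) (XT.lf (nat_lit 380) (nat_lit 2910175532) (nat_lit 0) (nat_lit 80751786) (nat_lit 304) (nat_lit 80751786) (nat_lit 250) (nat_lit 1) (nat_lit 245) (nat_lit 1) (nat_lit 249) (nat_lit 1) (nat_lit 354) (nat_lit 346) (nat_lit 320))))) (XT.nd (nat_lit 234) (nat_lit 760) (nat_lit 0) (XT.nd (nat_lit 78) (nat_lit 228) (nat_lit 0) (XT.lf (nat_lit 76) (nat_lit 1138773200) (nat_lit 0) (nat_lit 733348722) (nat_lit 380) (nat_lit 1138773200) (nat_lit 246) (nat_lit 1) (nat_lit 245) (nat_lit 1) (nat_lit 250) (nat_lit 1) (nat_lit 355) (nat_lit 346) (nat_lit 319)) (XT.nd (nat_lit 78) (nat_lit 0) (nat_lit 0) (XT.lf (nat_lit 304) (nat_lit 1663214260)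 (nat_lit 0) (nat_lit 644614053) (nat_lit 228) (nat_lit 644614053) (nat_lit 246) (nat_lit 1) (nat_lit 242) (nat_lit 1) (nat_lit 245) (nat_lit 1) (nat_lit 356) (nat_lit 346) (nat_lit 318)) (XT.lf (nat_lit 76) (nat_lit 525435112) (nat_lit 0) (nat_lit 1844604479) (nat_lit 304) (nat_lit 525435112) (nat_lit 243) (nat_lit 1) (nat_lit 242) (nat_lit 1) (nat_lit 246) (nat_lit 1) (nat_lit 357) (nat_lit 346) (nat_lit 317)))) (XT.nd (nat_lit 156) (nat_lit 228) (nat_lit 0) (XT.nd (nat_lit 78) (nat_lit 304) (nat_lit 0) (XT.lf (nat_lit 304) (nat_lit 437933742) (nat_lit 0) (nat_lit 1200934648) (nat_lit 228) (nat_lit 1200934648) (nat_lit 243) (nat_lit 1) (nat_lit 239) (nat_lit 1) (nat_lit 242) (nat_lit 1) (nat_lit 358) (nat_lit 346) (nat_lit 316)) (XT.lf (nat_lit 304) (nat_lit 2635672774) (nat_lit 0) (nat_lit 75263437) (nat_lit 228) (nat_lit 75263437) (nat_lit 239) (nat_lit 1) (nat_lit 235) (nat_lit 1) (nat_lit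 238) (nat_lit 1) (nat_lit 359) (nat_lit 346) (nat_lit 315))) (XT.nd (nat_lit 78) (nat_lit 228) (nat_lit 0) (XT.lf (nat_lit 76) (nat_lit 996999529) (nat_lit 0) (nat_lit 738766640) (nat_lit 304) (nat_lit 996999529) (nat_lit 236) (nat_lit 1) (nat_lit 235) (nat_lit 1) (nat_lit 239) (nat_lit 1) (nat_lit 360) (nat_lit 346) (nat_lit 314)) (XT.lf (nat_lit 304) (nat_lit 1370965644) (nat_lit 0) (nat_lit 655171585) (nat_lit 228) (nat_lit 655171585) (nat_lit 236) (nat_lit 1) (nat_lit 232) (nat_lit 1) (nat_lit 235) (nat_lit 1) (nat_lit 361) (nat_lit 346) (nat_lit 313))))))) (XT.nd (nat_lit 1014) (nat_lit 1216) (nat_lit 0) (XT.nd (nat_lit 468) (nat_lit 912) (nat_lit 0) (XT.nd (nat_lit 234) (nat_lit 152) (nat_lit 0) (XT.nd (nat_lit 78) (nat_lit 456) (nat_lit 0) (XT.lf (nat_lit 76) (nat_lit 377562820) (nat_lit 0) (nat_lit 1876106385) (nat_lit 304) (nat_lit 377562820) (nat_lit 233) (nat_lit 1) (nat_lit 232) (nat_lit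 1) (nat_lit 236) (nat_lit 1) (nat_lit 362) (nat_lit 346) (nat_lit 312)) (XT.nd (nat_lit 78) (nat_lit 304) (nat_lit 0) (XT.lf (nat_lit 228) (nat_lit 138351571) (nat_lit 0) (nat_lit 1221873667) (nat_lit 152) (nat_lit 1221873667) (nat_lit 233) (nat_lit 1) (nat_lit 230) (nat_lit 1) (nat_lit 232) (nat_lit 1) (nat_lit 363) (nat_lit 346) (nat_lit 311)) (XT.lf (nat_lit 304) (nat_lit 2090445847) (nat_lit 0) (nat_lit 222020501) (nat_lit 228) (nat_lit 222020501) (nat_lit 230) (nat_lit 1) (nat_lit 226) (nat_lit 1) (nat_lit 229) (nat_lit 1) (nat_lit 364) (nat_lit 346) (nat_lit 310)))) (XT.nd (nat_lit 78) (nat_lit 152) (nat_lit 0) (XT.lf (nat_lit 76) (nat_lit 730143113) (nat_lit 0) (nat_lit 1027121062) (nat_lit 304) (nat_lit 730143113) (nat_lit 227) (nat_lit 1) (nat_lit 226) (nat_lit 1) (nat_lit 230) (nat_lit 1) (nat_lit 365) (nat_lit 346) (nat_lit 309)) (XT.nd (nat_lit 78) (nat_lit 0) (nat_lit 0) (XT.lf (nat_lit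 228) (nat_lit 843567738) (nat_lit 0) (nat_lit 799106497) (nat_lit 152) (nat_lit 799106497) (nat_lit 227) (nat_lit 1) (nat_lit 224) (nat_lit 1) (nat_lit 226) (nat_lit 1) (nat_lit 366) (nat_lit 346) (nat_lit 308)) (XT.lf (nat_lit 76) (nat_lit 121193908) (nat_lit 0) (nat_lit 2155280530) (nat_lit 228) (nat_lit 121193908) (nat_lit 225) (nat_lit 1) (nat_lit 224) (nat_lit 1) (nat_lit 227) (nat_lit 1) (nat_lit 367) (nat_lit 346) (nat_lit 307))))) (XT.nd (nat_lit 234) (nat_lit 532) (nat_lit 0) (XT.nd (nat_lit 78) (nat_lit 152) (nat_lit 0) (XT.lf (nat_lit 76) (nat_lit 1000234590) (nat_lit 0) (nat_lit 353247132) (nat_lit 228) (nat_lit 1000234590) (nat_lit 222) (nat_lit 1) (nat_lit 221) (nat_lit 1) (nat_lit 224) (nat_lit 1) (nat_lit 368) (nat_lit 346) (nat_lit 306)) (XT.nd (nat_lit 78) (nat_lit 0) (nat_lit 0) (XT.lf (nat_lit 228) (nat_lit 1389001035) (nat_lit 0) (nat_lit 461110710) (nat_lit 152) (nat_lit 461110710)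 (nat_lit 222) (nat_lit 1) (nat_lit 219) (nat_lit 1) (nat_lit 221) (nat_lit 1) (nat_lit 369) (nat_lit 346) (nat_lit 305)) (XT.lf (nat_lit 76) (nat_lit 391939955) (nat_lit 0) (nat_lit 1485787893) (nat_lit 228) (nat_lit 391939955) (nat_lit 220) (nat_lit 1) (nat_lit 219) (nat_lit 1) (nat_lit 222) (nat_lit 1) (nat_lit 370) (nat_lit 346) (nat_lit 304)))) (XT.nd (nat_lit 156) (nat_lit 152) (nat_lit 0) (XT.nd (nat_lit 78) (nat_lit 228) (nat_lit 0) (XT.lf (nat_lit 228) (nat_lit 183609758) (nat_lit 0) (nat_lit 1022670515) (nat_lit 152) (nat_lit 1022670515) (nat_lit 220) (nat_lit 1) (nat_lit 217) (nat_lit 1) (nat_lit 219) (nat_lit 1) (nat_lit 371) (nat_lit 346) (nat_lit 303)) (XT.lf (nat_lit 228) (nat_lit 1804635322) (nat_lit 0) (nat_lit 192389128) (nat_lit 152) (nat_lit 192389128) (nat_lit 217) (nat_lit 1) (nat_lit 214) (nat_lit 1) (nat_lit 216) (nat_lit 1) (nat_lit 372) (nat_lit 346) (nat_lit 302))) (XT.nd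 (nat_lit 78) (nat_lit 152) (nat_lit 0) (XT.lf (nat_lit 76) (nat_lit 600767521) (nat_lit 0) (nat_lit 948678774) (nat_lit 228) (nat_lit 600767521) (nat_lit 215) (nat_lit 1) (nat_lit 214) (nat_lit 1) (nat_lit 217) (nat_lit 1) (nat_lit 373) (nat_lit 346) (nat_lit 301)) (XT.lf (nat_lit 228) (nat_lit 611852552) (nat_lit 0) (nat_lit 750149762) (nat_lit 152) (nat_lit 750149762) (nat_lit 215) (nat_lit 1) (nat_lit 212) (nat_lit 1) (nat_lit 214) (nat_lit 1) (nat_lit 374) (nat_lit 346) (nat_lit 300)))))) (XT.nd (nat_lit 468) (nat_lit 608) (nat_lit 0) (XT.nd (nat_lit 234) (nat_lit 304) (nat_lit 0) (XT.nd (nat_lit 78) (nat_lit 304) (nat_lit 0) (XT.lf (nat_lit 76) (nat_lit 20109905) (nat_lit 0) (nat_lit 2035205353) (nat_lit 228) (nat_lit 20109905) (nat_lit 213) (nat_lit 1) (nat_lit 212) (nat_lit 1) (nat_lit 215) (nat_lit 1) (nat_lit 375) (nat_lit 346) (nat_lit 299)) (XT.nd (nat_lit 78) (nat_lit 152) (nat_lit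 0) (XT.lf (nat_lit 76) (nat_lit 759317259) (nat_lit 0) (nat_lit 519830278) (nat_lit 152) (nat_lit 759317259) (nat_lit 211) (nat_lit 1) (nat_lit 210) (nat_lit 1) (nat_lit 212) (nat_lit 1) (nat_lit 376) (nat_lit 346) (nat_lit 298)) (XT.lf (nat_lit 228) (nat_lit 942226276) (nat_lit 0) (nat_lit 530289302) (nat_lit 152) (nat_lit 530289302) (nat_lit 211) (nat_lit 1) (nat_lit 208) (nat_lit 1) (nat_lit 210) (nat_lit 1) (nat_lit 377) (nat_lit 346) (nat_lit 297)))) (XT.nd (nat_lit 78) (nat_lit 304) (nat_lit 0) (XT.lf (nat_lit 76) (nat_lit 188909856) (nat_lit 0) (nat_lit 1590287804) (nat_lit 228) (nat_lit 188909856) (nat_lit 209) (nat_lit 1) (nat_lit 208) (nat_lit 1) (nat_lit 211) (nat_lit 1) (nat_lit 378) (nat_lit 346) (nat_lit 296)) (XT.nd (nat_lit 78) (nat_lit 152) (nat_lit 0) (XT.lf (nat_lit 76) (nat_lit 877134410) (nat_lit 0) (nat_lit 179427468) (nat_lit 152) (nat_lit 877134410) (nat_lit 207) (nat_lit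 1) (nat_lit 206) (nat_lit 1) (nat_lit 208) (nat_lit 1) (nat_lit 379) (nat_lit 346) (nat_lit 295)) (XT.lf (nat_lit 228) (nat_lit 1193127762) (nat_lit 0) (nat_lit 353545784) (nat_lit 152) (nat_lit 353545784) (nat_lit 207) (nat_lit 1) (nat_lit 204) (nat_lit 1) (nat_lit 206) (nat_lit 1) (nat_lit 380) (nat_lit 346) (nat_lit 294))))) (XT.nd (nat_lit 234) (nat_lit 304) (nat_lit 0) (XT.nd (nat_lit 78) (nat_lit 304) (nat_lit 0) (XT.lf (nat_lit 76) (nat_lit 319574117) (nat_lit 0) (nat_lit 1228256877) (nat_lit 228) (nat_lit 319574117) (nat_lit 205) (nat_lit 1) (nat_lit 204) (nat_lit 1) (nat_lit 207) (nat_lit 1) (nat_lit 381) (nat_lit 346) (nat_lit 293)) (XT.nd (nat_lit 78) (nat_lit 228) (nat_lit 0) (XT.lf (nat_lit 152) (nat_lit 91738091) (nat_lit 0) (nat_lit 871736011) (nat_lit 76) (nat_lit 871736011) (nat_lit 205) (nat_lit 1) (nat_lit 203) (nat_lit 1) (nat_lit 204) (nat_lit 1) (nat_lit 382) (nat_lit 346)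 (nat_lit 292)) (XT.lf (nat_lit 228) (nat_lit 1379642375) (nat_lit 0) (nat_lit 212077719) (nat_lit 152) (nat_lit 212077719) (nat_lit 203) (nat_lit 1) (nat_lit 200) (nat_lit 1) (nat_lit 202) (nat_lit 1) (nat_lit 383) (nat_lit 346) (nat_lit 291)))) (XT.nd (nat_lit 156) (nat_lit 228) (nat_lit 0) (XT.nd (nat_lit 78) (nat_lit 76) (nat_lit 0) (XT.lf (nat_lit 76) (nat_lit 419254904) (nat_lit 0) (nat_lit 934226320) (nat_lit 228) (nat_lit 419254904) (nat_lit 201) (nat_lit 1) (nat_lit 200) (nat_lit 1) (nat_lit 203) (nat_lit 1) (nat_lit 384) (nat_lit 346) (nat_lit 290)) (XT.lf (nat_lit 152) (nat_lit 308077294) (nat_lit 0) (nat_lit 717179373) (nat_lit 76) (nat_lit 717179373) (nat_lit 201) (nat_lit 1) (nat_lit 199) (nat_lit 1) (nat_lit 200) (nat_lit 1) (nat_lit 385) (nat_lit 346) (nat_lit 289))) (XT.nd (nat_lit 78) (nat_lit 0) (nat_lit 0) (XT.lf (nat_lit 228) (nat_lit 1514133494) (nat_lit 0) (nat_lit 99443271)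 (nat_lit 152) (nat_lit 99443271) (nat_lit 199) (nat_lit 1) (nat_lit 196) (nat_lit 1) (nat_lit 198) (nat_lit 1) (nat_lit 386) (nat_lit 346) (nat_lit 288)) (XT.lf (nat_lit 76) (nat_lit 493817749) (nat_lit 0) (nat_lit 695958255) (nat_lit 228) (nat_lit 493817749) (nat_lit 197) (nat_lit 1) (nat_lit 196) (nat_lit 1) (nat_lit 199) (nat_lit 1) (nat_lit 387) (nat_lit 346) (nat_lit 287))))))))
noncomputable def ec70 : XT := (XT.nd (nat_lit 1950) (nat_lit 1824) (nat_lit 0) (XT.nd (nat_lit 936) (nat_lit 988) (nat_lit 0) (XT.nd (nat_lit 468) (nat_lit 456) (nat_lit 0) (XT.nd (nat_lit 234) (nat_lit 228) (nat_lit 0) (XT.nd (nat_lit 78) (nat_lit 228) (nat_lit 0) (XT.lf (nat_lit 152) (nat_lit 474983704) (nat_lit 0) (nat_lit 590025245) (nat_lit 76) (nat_lit 590025245) (nat_lit 197) (nat_lit 1) (nat_lit 195) (nat_lit 1) (nat_lit 196) (nat_lit 1) (nat_lit 388) (nat_lit 346) (nat_lit 286)) (XT.nd (nat_lit 78) (nat_lit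 0) (nat_lit 0) (XT.lf (nat_lit 228) (nat_lit 1606727371) (nat_lit 0) (nat_lit 10351660) (nat_lit 152) (nat_lit 10351660) (nat_lit 195) (nat_lit 1) (nat_lit 192) (nat_lit 1) (nat_lit 194) (nat_lit 1) (nat_lit 389) (nat_lit 346) (nat_lit 285)) (XT.lf (nat_lit 76) (nat_lit 548070515) (nat_lit 0) (nat_lit 503393198) (nat_lit 228) (nat_lit 548070515) (nat_lit 193) (nat_lit 1) (nat_lit 192) (nat_lit 1) (nat_lit 195) (nat_lit 1) (nat_lit 390) (nat_lit 346) (nat_lit 284)))) (XT.nd (nat_lit 78) (nat_lit 152) (nat_lit 0) (XT.lf (nat_lit 152) (nat_lit 601749080) (nat_lit 0) (nat_lit 485415229) (nat_lit 76) (nat_lit 485415229) (nat_lit 193) (nat_lit 1) (nat_lit 191) (nat_lit 1) (nat_lit 192) (nat_lit 1) (nat_lit 391) (nat_lit 346) (nat_lit 283)) (XT.nd (nat_lit 78) (nat_lit 152) (nat_lit 0) (XT.lf (nat_lit 0) (nat_lit 60517432) (nat_lit 0) (nat_lit 1425403792) (nat_lit 152) (nat_lit 60517432) (nat_lit 191)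 (nat_lit 3) (nat_lit 191) (nat_lit 1) (nat_lit 193) (nat_lit 1) (nat_lit 392) (nat_lit 346) (nat_lit 282)) (XT.lf (nat_lit 76) (nat_lit 585951760) (nat_lit 0) (nat_lit 348263420) (nat_lit 152) (nat_lit 585951760) (nat_lit 190) (nat_lit 1) (nat_lit 189) (nat_lit 1) (nat_lit 191) (nat_lit 1) (nat_lit 393) (nat_lit 346) (nat_lit 281))))) (XT.nd (nat_lit 234) (nat_lit 228) (nat_lit 0) (XT.nd (nat_lit 78) (nat_lit 152) (nat_lit 0) (XT.lf (nat_lit 152) (nat_lit 695992658) (nat_lit 0) (nat_lit 399352310) (nat_lit 76) (nat_lit 399352310) (nat_lit 190) (nat_lit 1) (nat_lit 188) (nat_lit 1) (nat_lit 189) (nat_lit 1) (nat_lit 394) (nat_lit 346) (nat_lit 280)) (XT.nd (nat_lit 78) (nat_lit 152) (nat_lit 0) (XT.lf (nat_lit 0) (nat_lit 115667251) (nat_lit 0) (nat_lit 1238562637) (nat_lit 152) (nat_lit 115667251) (nat_lit 188) (nat_lit 3) (nat_lit 188) (nat_lit 1) (nat_lit 190) (nat_lit 1) (nat_lit 395) (nat_lit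 346) (nat_lit 279)) (XT.lf (nat_lit 76) (nat_lit 610685668) (nat_lit 0) (nat_lit 223774882) (nat_lit 152) (nat_lit 610685668) (nat_lit 187) (nat_lit 1) (nat_lit 186) (nat_lit 1) (nat_lit 188) (nat_lit 1) (nat_lit 396) (nat_lit 346) (nat_lit 278)))) (XT.nd (nat_lit 78) (nat_lit 152) (nat_lit 0) (XT.lf (nat_lit 152) (nat_lit 763958883) (nat_lit 0) (nat_lit 328548134) (nat_lit 76) (nat_lit 328548134) (nat_lit 187) (nat_lit 1) (nat_lit 185) (nat_lit 1) (nat_lit 186) (nat_lit 1) (nat_lit 397) (nat_lit 346) (nat_lit 277)) (XT.nd (nat_lit 78) (nat_lit 152) (nat_lit 0) (XT.lf (nat_lit 0) (nat_lit 157902029) (nat_lit 0) (nat_lit 1081710842) (nat_lit 152) (nat_lit 157902029) (nat_lit 185) (nat_lit 3) (nat_lit 185) (nat_lit 1) (nat_lit 187) (nat_lit 1) (nat_lit 398) (nat_lit 346) (nat_lit 276)) (XT.lf (nat_lit 76) (nat_lit 624909473) (nat_lit 0) (nat_lit 124345582) (nat_lit 152) (nat_lit 624909473) (nat_lit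 184) (nat_lit 1) (nat_lit 183) (nat_lit 1) (nat_lit 185) (nat_lit 1) (nat_lit 399) (nat_lit 346) (nat_lit 275)))))) (XT.nd (nat_lit 468) (nat_lit 608) (nat_lit 0) (XT.nd (nat_lit 234) (nat_lit 152) (nat_lit 0) (XT.nd (nat_lit 78) (nat_lit 152) (nat_lit 0) (XT.lf (nat_lit 152) (nat_lit 810762294) (nat_lit 0) (nat_lit 270297363) (nat_lit 76) (nat_lit 270297363) (nat_lit 184) (nat_lit 1) (nat_lit 182) (nat_lit 1) (nat_lit 183) (nat_lit 1) (nat_lit 400) (nat_lit 346) (nat_lit 274)) (XT.nd (nat_lit 78) (nat_lit 152) (nat_lit 0) (XT.lf (nat_lit 0) (nat_lit 189660957) (nat_lit 0) (nat_lit 949680754) (nat_lit 152) (nat_lit 189660957) (nat_lit 182) (nat_lit 3) (nat_lit 182) (nat_lit 1) (nat_lit 184) (nat_lit 1) (nat_lit 401) (nat_lit 346) (nat_lit 273)) (XT.lf (nat_lit 76) (nat_lit 630778249) (nat_lit 0) (nat_lit 45390306) (nat_lit 152) (nat_lit 630778249) (nat_lit 181) (nat_lit 1) (nat_lit 180) (nat_lit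 1) (nat_lit 182) (nat_lit 1) (nat_lit 402) (nat_lit 346) (nat_lit 272)))) (XT.nd (nat_lit 78) (nat_lit 76) (nat_lit 0) (XT.lf (nat_lit 152) (nat_lit 840588935) (nat_lit 0) (nat_lit 222374309) (nat_lit 76) (nat_lit 222374309) (nat_lit 181) (nat_lit 1) (nat_lit 179) (nat_lit 1) (nat_lit 180) (nat_lit 1) (nat_lit 403) (nat_lit 346) (nat_lit 271)) (XT.nd (nat_lit 78) (nat_lit 76) (nat_lit 0) (XT.lf (nat_lit 0) (nat_lit 212943650) (nat_lit 0) (nat_lit 838213818) (nat_lit 152) (nat_lit 212943650) (nat_lit 179) (nat_lit 3) (nat_lit 179) (nat_lit 1) (nat_lit 181) (nat_lit 1) (nat_lit 404) (nat_lit 346) (nat_lit 270)) (XT.lf (nat_lit 76) (nat_lit 17413785) (nat_lit 0) (nat_lit 612909183) (nat_lit 76) (nat_lit 612909183) (nat_lit 179) (nat_lit 3) (nat_lit 178) (nat_lit 1) (nat_lit 179) (nat_lit 1) (nat_lit 405) (nat_lit 346) (nat_lit 269))))) (XT.nd (nat_lit 234) (nat_lit 380) (nat_lit 0) (XT.nd (nat_lit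 78) (nat_lit 76) (nat_lit 0) (XT.lf (nat_lit 152) (nat_lit 856862017) (nat_lit 0) (nat_lit 182947894) (nat_lit 76) (nat_lit 182947894) (nat_lit 178) (nat_lit 1) (nat_lit 176) (nat_lit 1) (nat_lit 177) (nat_lit 1) (nat_lit 406) (nat_lit 346) (nat_lit 268)) (XT.nd (nat_lit 78) (nat_lit 76) (nat_lit 0) (XT.lf (nat_lit 0) (nat_lit 229388422) (nat_lit 0) (nat_lit 743799736) (nat_lit 152) (nat_lit 229388422) (nat_lit 176) (nat_lit 3) (nat_lit 176) (nat_lit 1) (nat_lit 178) (nat_lit 1) (nat_lit 407) (nat_lit 346) (nat_lit 267)) (XT.lf (nat_lit 76) (nat_lit 67651338) (nat_lit 0) (nat_lit 557566876) (nat_lit 76) (nat_lit 557566876) (nat_lit 176) (nat_lit 3) (nat_lit 175) (nat_lit 1) (nat_lit 176) (nat_lit 1) (nat_lit 408) (nat_lit 346) (nat_lit 266)))) (XT.nd (nat_lit 156) (nat_lit 228) (nat_lit 0) (XT.nd (nat_lit 78) (nat_lit 0) (nat_lit 0) (XT.lf (nat_lit 152) (nat_lit 862378139) (nat_lit 0) (nat_lit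 150511685) (nat_lit 76) (nat_lit 150511685) (nat_lit 175) (nat_lit 1) (nat_lit 173) (nat_lit 1) (nat_lit 174) (nat_lit 1) (nat_lit 409) (nat_lit 346) (nat_lit 265)) (XT.lf (nat_lit 0) (nat_lit 240336664) (nat_lit 0) (nat_lit 663544125) (nat_lit 152) (nat_lit 240336664) (nat_lit 173) (nat_lit 3) (nat_lit 173) (nat_lit 1) (nat_lit 175) (nat_lit 1) (nat_lit 410) (nat_lit 346) (nat_lit 264))) (XT.nd (nat_lit 78) (nat_lit 152) (nat_lit 0) (XT.lf (nat_lit 76) (nat_lit 106442613) (nat_lit 0) (nat_lit 509497338) (nat_lit 76) (nat_lit 509497338) (nat_lit 173) (nat_lit 3) (nat_lit 172) (nat_lit 1) (nat_lit 173) (nat_lit 1) (nat_lit 411) (nat_lit 346) (nat_lit 263)) (XT.lf (nat_lit 152) (nat_lit 859419331) (nat_lit 0) (nat_lit 123826336) (nat_lit 76) (nat_lit 123826336) (nat_lit 172) (nat_lit 1) (nat_lit 170) (nat_lit 1) (nat_lit 171) (nat_lit 1) (nat_lit 412) (nat_lit 346) (nat_lit 262))))))) (XT.nd (nat_lit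 936) (nat_lit 912) (nat_lit 0) (XT.nd (nat_lit 468) (nat_lit 456) (nat_lit 0) (XT.nd (nat_lit 234) (nat_lit 228) (nat_lit 0) (XT.nd (nat_lit 78) (nat_lit 228) (nat_lit 0) (XT.lf (nat_lit 0) (nat_lit 246885798) (nat_lit 0) (nat_lit 595059624) (nat_lit 152) (nat_lit 246885798) (nat_lit 170) (nat_lit 3) (nat_lit 170) (nat_lit 1) (nat_lit 172) (nat_lit 1) (nat_lit 413) (nat_lit 346) (nat_lit 261)) (XT.nd (nat_lit 78) (nat_lit 152) (nat_lit 0) (XT.lf (nat_lit 76) (nat_lit 135937924) (nat_lit 0) (nat_lit 467532044) (nat_lit 76) (nat_lit 467532044) (nat_lit 170) (nat_lit 3) (nat_lit 169) (nat_lit 1) (nat_lit 170) (nat_lit 1) (nat_lit 414) (nat_lit 346) (nat_lit 260)) (XT.lf (nat_lit 152) (nat_lit 849845174) (nat_lit 0) (nat_lit 101872233) (nat_lit 76) (nat_lit 101872233) (nat_lit 169) (nat_lit 1) (nat_lit 167) (nat_lit 1) (nat_lit 168) (nat_lit 1) (nat_lit 415) (nat_lit 346) (nat_lit 259)))) (XT.nd (nat_lit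 78) (nat_lit 228) (nat_lit 0) (XT.lf (nat_lit 0) (nat_lit 249932824) (nat_lit 0) (nat_lit 536376292) (nat_lit 152) (nat_lit 249932824) (nat_lit 167) (nat_lit 3) (nat_lit 167) (nat_lit 1) (nat_lit 169) (nat_lit 1) (nat_lit 416) (nat_lit 346) (nat_lit 258)) (XT.nd (nat_lit 78) (nat_lit 152) (nat_lit 0) (XT.lf (nat_lit 76) (nat_lit 157900584) (nat_lit 0) (nat_lit 430703887) (nat_lit 76) (nat_lit 430703887) (nat_lit 167) (nat_lit 3) (nat_lit 166) (nat_lit 1) (nat_lit 167) (nat_lit 1) (nat_lit 417) (nat_lit 346) (nat_lit 257)) (XT.lf (nat_lit 152) (nat_lit 835168551) (nat_lit 0) (nat_lit 83810538) (nat_lit 76) (nat_lit 83810538) (nat_lit 166) (nat_lit 1) (nat_lit 164) (nat_lit 1) (nat_lit 165) (nat_lit 1) (nat_lit 418) (nat_lit 346) (nat_lit 256))))) (XT.nd (nat_lit 234) (nat_lit 228) (nat_lit 0) (XT.nd (nat_lit 78) (nat_lit 228) (nat_lit 0) (XT.lf (nat_lit 0) (nat_lit 250210131) (nat_lit 0) (nat_lit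 485867881) (nat_lit 152) (nat_lit 250210131) (nat_lit 164) (nat_lit 3) (nat_lit 164) (nat_lit 1) (nat_lit 166) (nat_lit 1) (nat_lit 419) (nat_lit 346) (nat_lit 255)) (XT.nd (nat_lit 78) (nat_lit 152) (nat_lit 0) (XT.lf (nat_lit 76) (nat_lit 173775789) (nat_lit 0) (nat_lit 398211742) (nat_lit 76) (nat_lit 398211742) (nat_lit 164) (nat_lit 3) (nat_lit 163) (nat_lit 1) (nat_lit 164) (nat_lit 1) (nat_lit 420) (nat_lit 346) (nat_lit 254)) (XT.lf (nat_lit 152) (nat_lit 816617922) (nat_lit 0) (nat_lit 68951137) (nat_lit 76) (nat_lit 68951137) (nat_lit 163) (nat_lit 1) (nat_lit 161) (nat_lit 1) (nat_lit 162) (nat_lit 1) (nat_lit 421) (nat_lit 346) (nat_lit 253)))) (XT.nd (nat_lit 78) (nat_lit 228) (nat_lit 0) (XT.lf (nat_lit 0) (nat_lit 248314949) (nat_lit 0) (nat_lit 442191163) (nat_lit 152) (nat_lit 248314949) (nat_lit 161) (nat_lit 3) (nat_lit 161) (nat_lit 1) (nat_lit 163) (nat_lit 1) (nat_lit 422)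 (nat_lit 346) (nat_lit 252)) (XT.nd (nat_lit 78) (nat_lit 152) (nat_lit 0) (XT.lf (nat_lit 76) (nat_lit 184747284) (nat_lit 0) (nat_lit 369391298) (nat_lit 76) (nat_lit 369391298) (nat_lit 161) (nat_lit 3) (nat_lit 160) (nat_lit 1) (nat_lit 161) (nat_lit 1) (nat_lit 423) (nat_lit 346) (nat_lit 251)) (XT.lf (nat_lit 152) (nat_lit 795188527) (nat_lit 0) (nat_lit 56726271) (nat_lit 76) (nat_lit 56726271) (nat_lit 160) (nat_lit 1) (nat_lit 158) (nat_lit 1) (nat_lit 159) (nat_lit 1) (nat_lit 424) (nat_lit 346) (nat_lit 250)))))) (XT.nd (nat_lit 468) (nat_lit 456) (nat_lit 0) (XT.nd (nat_lit 234) (nat_lit 228) (nat_lit 0) (XT.nd (nat_lit 78) (nat_lit 228) (nat_lit 0) (XT.lf (nat_lit 0) (nat_lit 244733566) (nat_lit 0) (nat_lit 404236007) (nat_lit 152) (nat_lit 244733566) (nat_lit 158) (nat_lit 3) (nat_lit 158) (nat_lit 1) (nat_lit 160) (nat_lit 1) (nat_lit 425) (nat_lit 346) (nat_lit 249)) (XT.nd (nat_lit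 78) (nat_lit 152) (nat_lit 0) (XT.lf (nat_lit 76) (nat_lit 191783964) (nat_lit 0) (nat_lit 343691051) (nat_lit 76) (nat_lit 343691051) (nat_lit 158) (nat_lit 3) (nat_lit 157) (nat_lit 1) (nat_lit 158) (nat_lit 1) (nat_lit 426) (nat_lit 346) (nat_lit 248)) (XT.lf (nat_lit 152) (nat_lit 771684465) (nat_lit 0) (nat_lit 46668843) (nat_lit 76) (nat_lit 46668843) (nat_lit 157) (nat_lit 1) (nat_lit 155) (nat_lit 1) (nat_lit 156) (nat_lit 1) (nat_lit 427) (nat_lit 346) (nat_lit 247)))) (XT.nd (nat_lit 78) (nat_lit 228) (nat_lit 0) (XT.lf (nat_lit 0) (nat_lit 239861237) (nat_lit 0) (nat_lit 371084290) (nat_lit 152) (nat_lit 239861237) (nat_lit 155) (nat_lit 3) (nat_lit 155) (nat_lit 1) (nat_lit 157) (nat_lit 1) (nat_lit 428) (nat_lit 346) (nat_lit 246)) (XT.nd (nat_lit 78) (nat_lit 152) (nat_lit 0) (XT.lf (nat_lit 76) (nat_lit 195678205) (nat_lit 0) (nat_lit 320652542) (nat_lit 76) (nat_lit 320652542) (nat_lit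 155) (nat_lit 3) (nat_lit 154) (nat_lit 1) (nat_lit 155) (nat_lit 1) (nat_lit 429) (nat_lit 346) (nat_lit 245)) (XT.lf (nat_lit 152) (nat_lit 746753287) (nat_lit 0) (nat_lit 38394573) (nat_lit 76) (nat_lit 38394573) (nat_lit 154) (nat_lit 1) (nat_lit 152) (nat_lit 1) (nat_lit 153) (nat_lit 1) (nat_lit 430) (nat_lit 346) (nat_lit 244))))) (XT.nd (nat_lit 234) (nat_lit 228) (nat_lit 0) (XT.nd (nat_lit 78) (nat_lit 228) (nat_lit 0) (XT.lf (nat_lit 0) (nat_lit 234018554) (nat_lit 0) (nat_lit 341976085) (nat_lit 152) (nat_lit 234018554) (nat_lit 152) (nat_lit 3) (nat_lit 152) (nat_lit 1) (nat_lit 154) (nat_lit 1) (nat_lit 431) (nat_lit 346) (nat_lit 243)) (XT.nd (nat_lit 78) (nat_lit 152) (nat_lit 0) (XT.lf (nat_lit 76) (nat_lit 197077385) (nat_lit 0) (nat_lit 299894081) (nat_lit 76) (nat_lit 299894081) (nat_lit 152) (nat_lit 3) (nat_lit 151) (nat_lit 1) (nat_lit 152) (nat_lit 1) (nat_lit 432) (nat_lit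 346) (nat_lit 242)) (XT.lf (nat_lit 152) (nat_lit 720914414) (nat_lit 0) (nat_lit 31587310) (nat_lit 76) (nat_lit 31587310) (nat_lit 151) (nat_lit 1) (nat_lit 149) (nat_lit 1) (nat_lit 150) (nat_lit 1) (nat_lit 433) (nat_lit 346) (nat_lit 241)))) (XT.nd (nat_lit 156) (nat_lit 152) (nat_lit 0) (XT.nd (nat_lit 78) (nat_lit 76) (nat_lit 0) (XT.lf (nat_lit 0) (nat_lit 227464901) (nat_lit 0) (nat_lit 316281829) (nat_lit 152) (nat_lit 227464901) (nat_lit 149) (nat_lit 3) (nat_lit 149) (nat_lit 1) (nat_lit 151) (nat_lit 1) (nat_lit 434) (nat_lit 346) (nat_lit 240)) (XT.lf (nat_lit 76) (nat_lit 196509806) (nat_lit 0) (nat_lit 281097356) (nat_lit 76) (nat_lit 281097356) (nat_lit 149) (nat_lit 3) (nat_lit 148) (nat_lit 1) (nat_lit 149) (nat_lit 1) (nat_lit 435) (nat_lit 346) (nat_lit 239))) (XT.nd (nat_lit 78) (nat_lit 0) (nat_lit 0) (XT.lf (nat_lit 152) (nat_lit 694582488) (nat_lit 0) (nat_lit 25986958)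 (nat_lit 76) (nat_lit 25986958) (nat_lit 148) (nat_lit 1) (nat_lit 146) (nat_lit 1) (nat_lit 147) (nat_lit 1) (nat_lit 436) (nat_lit 346) (nat_lit 238)) (XT.lf (nat_lit 0) (nat_lit 220409516) (nat_lit 0) (nat_lit 293479422) (nat_lit 152) (nat_lit 220409516) (nat_lit 146) (nat_lit 3) (nat_lit 146) (nat_lit 1) (nat_lit 148) (nat_lit 1) (nat_lit 437) (nat_lit 346) (nat_lit 237))))))))
noncomputable def ec71 : XT := (XT.nd (nat_lit 45318) (nat_lit 0) (nat_lit 7068) (XT.nd (nat_lit 936) (nat_lit 76) (nat_lit 0) (XT.nd (nat_lit 468) (nat_lit 456) (nat_lit 0) (XT.nd (nat_lit 234) (nat_lit 228) (nat_lit 0) (XT.nd (nat_lit 78) (nat_lit 152) (nat_lit 0) (XT.lf (nat_lit 76) (nat_lit 194406012) (nat_lit 0) (nat_lit 263996399) (nat_lit 76) (nat_lit 263996399) (nat_lit 146) (nat_lit 3) (nat_lit 145) (nat_lit 1) (nat_lit 146) (nat_lit 1) (nat_lit 438) (nat_lit 346) (nat_lit 236)) (XT.nd (nat_lit 78) (nat_lit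 0) (nat_lit 0) (XT.lf (nat_lit 152) (nat_lit 668086556) (nat_lit 0) (nat_lit 21379535) (nat_lit 76) (nat_lit 21379535) (nat_lit 145) (nat_lit 1) (nat_lit 143) (nat_lit 1) (nat_lit 144) (nat_lit 1) (nat_lit 439) (nat_lit 346) (nat_lit 235)) (XT.lf (nat_lit 0) (nat_lit 213020577) (nat_lit 0) (nat_lit 273135369) (nat_lit 152) (nat_lit 213020577) (nat_lit 143) (nat_lit 3) (nat_lit 143) (nat_lit 1) (nat_lit 145) (nat_lit 1) (nat_lit 440) (nat_lit 346) (nat_lit 234)))) (XT.nd (nat_lit 78) (nat_lit 152) (nat_lit 0) (XT.lf (nat_lit 76) (nat_lit 191116315) (nat_lit 0) (nat_lit 248368498) (nat_lit 76) (nat_lit 248368498) (nat_lit 143) (nat_lit 3) (nat_lit 142) (nat_lit 1) (nat_lit 143) (nat_lit 1) (nat_lit 441) (nat_lit 346) (nat_lit 233)) (XT.nd (nat_lit 78) (nat_lit 0) (nat_lit 0) (XT.lf (nat_lit 152) (nat_lit 641685819) (nat_lit 0) (nat_lit 17588996) (nat_lit 76) (nat_lit 17588996) (nat_lit 142) (nat_lit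 1) (nat_lit 140) (nat_lit 1) (nat_lit 141) (nat_lit 1) (nat_lit 442) (nat_lit 346) (nat_lit 232)) (XT.lf (nat_lit 0) (nat_lit 205432673) (nat_lit 0) (nat_lit 254889261) (nat_lit 152) (nat_lit 205432673) (nat_lit 140) (nat_lit 3) (nat_lit 140) (nat_lit 1) (nat_lit 142) (nat_lit 1) (nat_lit 443) (nat_lit 346) (nat_lit 231))))) (XT.nd (nat_lit 234) (nat_lit 228) (nat_lit 0) (XT.nd (nat_lit 78) (nat_lit 152) (nat_lit 0) (XT.lf (nat_lit 76) (nat_lit 186925206) (nat_lit 0) (nat_lit 234026719) (nat_lit 76) (nat_lit 234026719) (nat_lit 140) (nat_lit 3) (nat_lit 139) (nat_lit 1) (nat_lit 140) (nat_lit 1) (nat_lit 444) (nat_lit 346) (nat_lit 230)) (XT.nd (nat_lit 78) (nat_lit 0) (nat_lit 0) (XT.lf (nat_lit 152) (nat_lit 615582565) (nat_lit 0) (nat_lit 14470510) (nat_lit 76) (nat_lit 14470510) (nat_lit 139) (nat_lit 1) (nat_lit 137) (nat_lit 1) (nat_lit 138) (nat_lit 1) (nat_lit 445) (nat_lit 346) (nat_lit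 229)) (XT.lf (nat_lit 0) (nat_lit 197752936) (nat_lit 0) (nat_lit 238440994) (nat_lit 152) (nat_lit 197752936) (nat_lit 137) (nat_lit 3) (nat_lit 137) (nat_lit 1) (nat_lit 139) (nat_lit 1) (nat_lit 446) (nat_lit 346) (nat_lit 228)))) (XT.nd (nat_lit 78) (nat_lit 152) (nat_lit 0) (XT.lf (nat_lit 76) (nat_lit 182063202) (nat_lit 0) (nat_lit 220813733) (nat_lit 76) (nat_lit 220813733) (nat_lit 137) (nat_lit 3) (nat_lit 136) (nat_lit 1) (nat_lit 137) (nat_lit 1) (nat_lit 447) (nat_lit 346) (nat_lit 227)) (XT.nd (nat_lit 78) (nat_lit 0) (nat_lit 0) (XT.lf (nat_lit 152) (nat_lit 589932780) (nat_lit 0) (nat_lit 11904925) (nat_lit 76) (nat_lit 11904925) (nat_lit 136) (nat_lit 1) (nat_lit 134) (nat_lit 1) (nat_lit 135) (nat_lit 1) (nat_lit 448) (nat_lit 346) (nat_lit 226)) (XT.lf (nat_lit 0) (nat_lit 190066086) (nat_lit 0) (nat_lit 223540252) (nat_lit 152) (nat_lit 190066086) (nat_lit 134) (nat_lit 3) (nat_lit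 134) (nat_lit 1) (nat_lit 136) (nat_lit 1) (nat_lit 449) (nat_lit 346) (nat_lit 225)))))) (XT.nd (nat_lit 43836) (nat_lit 0) (nat_lit 11704) (XT.nd (nat_lit 43602) (nat_lit 0) (nat_lit 12160) (XT.nd (nat_lit 43446) (nat_lit 0) (nat_lit 12084) (XT.lf (nat_lit 76) (nat_lit 176716582) (nat_lit 0) (nat_lit 208596740) (nat_lit 76) (nat_lit 208596740) (nat_lit 134) (nat_lit 3) (nat_lit 133) (nat_lit 1) (nat_lit 134) (nat_lit 1) (nat_lit 450) (nat_lit 346) (nat_lit 224)) (XT.nd (nat_lit 78) (nat_lit 0) (nat_lit 0) (XT.lf (nat_lit 836) (nat_lit 756092225) (nat_lit 0) (nat_lit 1342440008) (nat_lit 836) (nat_lit 756092225) (nat_lit 303) (nat_lit 1) (nat_lit 292) (nat_lit 0) (nat_lit 303) (nat_lit 0) (nat_lit 326) (nat_lit 347) (nat_lit 347)) (XT.lf (nat_lit 836) (nat_lit 2930707860) (nat_lit 76) (nat_lit 1320787750) (nat_lit 0) (nat_lit 1320787750) (nat_lit 303) (nat_lit 1) (nat_lit 293) (nat_lit 1) (nat_lit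 292) (nat_lit 0) (nat_lit 327) (nat_lit 347) (nat_lit 346)))) (XT.nd (nat_lit 78) (nat_lit 0) (nat_lit 0) (XT.lf (nat_lit 836) (nat_lit 1396731238) (nat_lit 0) (nat_lit 2646089666) (nat_lit 760) (nat_lit 1396731238) (nat_lit 304) (nat_lit 1) (nat_lit 293) (nat_lit 1) (nat_lit 303) (nat_lit 1) (nat_lit 328) (nat_lit 347) (nat_lit 345)) (XT.nd (nat_lit 78) (nat_lit 0) (nat_lit 76) (XT.lf (nat_lit 836) (nat_lit 2620073722) (nat_lit 76) (nat_lit 1345517705) (nat_lit 0) (nat_lit 1345517705) (nat_lit 304) (nat_lit 1) (nat_lit 294) (nat_lit 1) (nat_lit 293) (nat_lit 1) (nat_lit 329) (nat_lit 347) (nat_lit 344)) (XT.lf (nat_lit 836) (nat_lit 1205994773) (nat_lit 0) (nat_lit 2774747576) (nat_lit 760) (nat_lit 1205994773) (nat_lit 305) (nat_lit 1) (nat_lit 294) (nat_lit 1) (nat_lit 304) (nat_lit 1) (nat_lit 330) (nat_lit 347) (nat_lit 343))))) (XT.nd (nat_lit 234) (nat_lit 532) (nat_lit 0) (XT.nd (nat_lit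 78) (nat_lit 0) (nat_lit 76) (XT.lf (nat_lit 836) (nat_lit 2169060149) (nat_lit 76) (nat_lit 1448548149) (nat_lit 0) (nat_lit 1448548149) (nat_lit 305) (nat_lit 1) (nat_lit 295) (nat_lit 1) (nat_lit 294) (nat_lit 1) (nat_lit 331) (nat_lit 347) (nat_lit 342)) (XT.nd (nat_lit 78) (nat_lit 0) (nat_lit 0) (XT.lf (nat_lit 836) (nat_lit 951070227) (nat_lit 0) (nat_lit 3047483998) (nat_lit 760) (nat_lit 951070227) (nat_lit 306) (nat_lit 1) (nat_lit 295) (nat_lit 1) (nat_lit 305) (nat_lit 1) (nat_lit 332) (nat_lit 347) (nat_lit 341)) (XT.lf (nat_lit 836) (nat_lit 1598778254) (nat_lit 76) (nat_lit 1618761364) (nat_lit 0) (nat_lit 1618761364) (nat_lit 306) (nat_lit 1) (nat_lit 296) (nat_lit 1) (nat_lit 295) (nat_lit 1) (nat_lit 333) (nat_lit 347) (nat_lit 340)))) (XT.nd (nat_lit 156) (nat_lit 684) (nat_lit 0) (XT.nd (nat_lit 78) (nat_lit 0) (nat_lit 0) (XT.lf (nat_lit 836) (nat_lit 641826196) (nat_lit 0)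 (nat_lit 3443473406) (nat_lit 760) (nat_lit 641826196) (nat_lit 307) (nat_lit 1) (nat_lit 296) (nat_lit 1) (nat_lit 306) (nat_lit 1) (nat_lit 334) (nat_lit 347) (nat_lit 339)) (XT.lf (nat_lit 836) (nat_lit 927992631) (nat_lit 76) (nat_lit 1846256022) (nat_lit 0) (nat_lit 1846256022) (nat_lit 307) (nat_lit 1) (nat_lit 297) (nat_lit 1) (nat_lit 296) (nat_lit 1) (nat_lit 335) (nat_lit 347) (nat_lit 338))) (XT.nd (nat_lit 78) (nat_lit 760) (nat_lit 0) (XT.lf (nat_lit 76) (nat_lit 287028027) (nat_lit 0) (nat_lit 3944180266) (nat_lit 760) (nat_lit 287028027) (nat_lit 298) (nat_lit 1) (nat_lit 297) (nat_lit 1) (nat_lit 307) (nat_lit 1) (nat_lit 336) (nat_lit 347) (nat_lit 337)) (XT.lf (nat_lit 836) (nat_lit 173357790) (nat_lit 0) (nat_lit 2122225386) (nat_lit 760) (nat_lit 2122225386) (nat_lit 298) (nat_lit 1) (nat_lit 287) (nat_lit 1) (nat_lit 297) (nat_lit 1) (nat_lit 337) (nat_lit 347) (nat_lit 336)))))))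 (XT.nd (nat_lit 1014) (nat_lit 2052) (nat_lit 0) (XT.nd (nat_lit 468) (nat_lit 1292) (nat_lit 0) (XT.nd (nat_lit 234) (nat_lit 380) (nat_lit 0) (XT.nd (nat_lit 78) (nat_lit 380) (nat_lit 0) (XT.lf (nat_lit 532) (nat_lit 4113998700) (nat_lit 0) (nat_lit 103848335) (nat_lit 456) (nat_lit 103848335) (nat_lit 287) (nat_lit 1) (nat_lit 280) (nat_lit 1) (nat_lit 286) (nat_lit 1) (nat_lit 338) (nat_lit 347) (nat_lit 335)) (XT.nd (nat_lit 78) (nat_lit 380) (nat_lit 0) (XT.lf (nat_lit 76) (nat_lit 1798633071) (nat_lit 0) (nat_lit 629552415) (nat_lit 532) (nat_lit 1798633071) (nat_lit 281) (nat_lit 1) (nat_lit 280) (nat_lit 1) (nat_lit 287) (nat_lit 1) (nat_lit 339) (nat_lit 347) (nat_lit 334)) (XT.lf (nat_lit 456) (nat_lit 3094985826) (nat_lit 0) (nat_lit 520495167) (nat_lit 380) (nat_lit 520495167) (nat_lit 281) (nat_lit 1) (nat_lit 275) (nat_lit 1) (nat_lit 280) (nat_lit 1) (nat_lit 340) (nat_lit 347)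 (nat_lit 333)))) (XT.nd (nat_lit 78) (nat_lit 380) (nat_lit 0) (XT.lf (nat_lit 76) (nat_lit 1282943074) (nat_lit 0) (nat_lit 1481157376) (nat_lit 456) (nat_lit 1282943074) (nat_lit 276) (nat_lit 1) (nat_lit 275) (nat_lit 1) (nat_lit 281) (nat_lit 1) (nat_lit 341) (nat_lit 347) (nat_lit 332)) (XT.nd (nat_lit 78) (nat_lit 0) (nat_lit 0) (XT.lf (nat_lit 456) (nat_lit 2038092057) (nat_lit 0) (nat_lit 961558057) (nat_lit 380) (nat_lit 961558057) (nat_lit 276) (nat_lit 1) (nat_lit 270) (nat_lit 1) (nat_lit 275) (nat_lit 1) (nat_lit 342) (nat_lit 347) (nat_lit 331)) (XT.lf (nat_lit 76) (nat_lit 751009837) (nat_lit 0) (nat_lit 2375849527) (nat_lit 456) (nat_lit 751009837) (nat_lit 271) (nat_lit 1) (nat_lit 270) (nat_lit 1) (nat_lit 276) (nat_lit 1) (nat_lit 343) (nat_lit 347) (nat_lit 330))))) (XT.nd (nat_lit 234) (nat_lit 608) (nat_lit 0) (XT.nd (nat_lit 78) (nat_lit 380) (nat_lit 0) (XT.lf (nat_lit 380)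 (nat_lit 953154392) (nat_lit 0) (nat_lit 1421759795) (nat_lit 304) (nat_lit 1421759795) (nat_lit 271) (nat_lit 1) (nat_lit 266) (nat_lit 1) (nat_lit 270) (nat_lit 1) (nat_lit 344) (nat_lit 347) (nat_lit 329)) (XT.nd (nat_lit 78) (nat_lit 380) (nat_lit 0) (XT.lf (nat_lit 76) (nat_lit 207400035) (nat_lit 0) (nat_lit 3303801063) (nat_lit 380) (nat_lit 207400035) (nat_lit 267) (nat_lit 1) (nat_lit 266) (nat_lit 1) (nat_lit 271) (nat_lit 1) (nat_lit 345) (nat_lit 347) (nat_lit 328)) (XT.lf (nat_lit 76) (nat_lit 1747612298) (nat_lit 0) (nat_lit 146365924) (nat_lit 380) (nat_lit 1747612298) (nat_lit 262) (nat_lit 1) (nat_lit 261) (nat_lit 1) (nat_lit 266) (nat_lit 1) (nat_lit 346) (nat_lit 347) (nat_lit 327)))) (XT.nd (nat_lit 156) (nat_lit 304) (nat_lit 0) (XT.nd (nat_lit 78) (nat_lit 0) (nat_lit 0) (XT.lf (nat_lit 380) (nat_lit 2890826343) (nat_lit 0) (nat_lit 338343159) (nat_lit 304) (nat_lit 338343159)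 (nat_lit 262) (nat_lit 1) (nat_lit 257) (nat_lit 1) (nat_lit 261) (nat_lit 1) (nat_lit 347) (nat_lit 347) (nat_lit 326)) (XT.lf (nat_lit 76) (nat_lit 1133909181) (nat_lit 0) (nat_lit 1226887261) (nat_lit 380) (nat_lit 1133909181) (nat_lit 258) (nat_lit 1) (nat_lit 257) (nat_lit 1) (nat_lit 262) (nat_lit 1) (nat_lit 348) (nat_lit 347) (nat_lit 325))) (XT.nd (nat_lit 78) (nat_lit 0) (nat_lit 0) (XT.lf (nat_lit 380) (nat_lit 1654688924) (nat_lit 0) (nat_lit 884867176) (nat_lit 304) (nat_lit 884867176) (nat_lit 258) (nat_lit 1) (nat_lit 253) (nat_lit 1) (nat_lit 257) (nat_lit 1) (nat_lit 349) (nat_lit 347) (nat_lit 324)) (XT.lf (nat_lit 76) (nat_lit 521815039) (nat_lit 0) (nat_lit 2312565915) (nat_lit 380) (nat_lit 521815039) (nat_lit 254) (nat_lit 1) (nat_lit 253) (nat_lit 1) (nat_lit 258) (nat_lit 1) (nat_lit 350) (nat_lit 347) (nat_lit 323)))))) (XT.nd (nat_lit 468) (nat_lit 988) (nat_lit 0) (XT.nd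 (nat_lit 234) (nat_lit 456) (nat_lit 0) (XT.nd (nat_lit 78) (nat_lit 380) (nat_lit 0) (XT.lf (nat_lit 304) (nat_lit 424369822) (nat_lit 0) (nat_lit 1432535820) (nat_lit 228) (nat_lit 1432535820) (nat_lit 254) (nat_lit 1) (nat_lit 250) (nat_lit 1) (nat_lit 253) (nat_lit 1) (nat_lit 351) (nat_lit 347) (nat_lit 322)) (XT.nd (nat_lit 78) (nat_lit 0) (nat_lit 0) (XT.lf (nat_lit 380) (nat_lit 3055684308) (nat_lit 0) (nat_lit 84789376) (nat_lit 304) (nat_lit 84789376) (nat_lit 250) (nat_lit 1) (nat_lit 245) (nat_lit 1) (nat_lit 249) (nat_lit 1) (nat_lit 352) (nat_lit 347) (nat_lit 321)) (XT.lf (nat_lit 76) (nat_lit 1195711860) (nat_lit 0) (nat_lit 770016158) (nat_lit 380) (nat_lit 1195711860) (nat_lit 246) (nat_lit 1) (nat_lit 245) (nat_lit 1) (nat_lit 250) (nat_lit 1) (nat_lit 353) (nat_lit 347) (nat_lit 320)))) (XT.nd (nat_lit 78) (nat_lit 228) (nat_lit 0) (XT.lf (nat_lit 304) (nat_lit 1746374973) (nat_lit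 0) (nat_lit 676844755) (nat_lit 228) (nat_lit 676844755) (nat_lit 246) (nat_lit 1) (nat_lit 242) (nat_lit 1) (nat_lit 245) (nat_lit 1) (nat_lit 354) (nat_lit 347) (nat_lit 319)) (XT.nd (nat_lit 78) (nat_lit 228) (nat_lit 0) (XT.lf (nat_lit 76) (nat_lit 551706867) (nat_lit 0) (nat_lit 1936834703) (nat_lit 304) (nat_lit 551706867) (nat_lit 243) (nat_lit 1) (nat_lit 242) (nat_lit 1) (nat_lit 246) (nat_lit 1) (nat_lit 355) (nat_lit 347) (nat_lit 318)) (XT.lf (nat_lit 304) (nat_lit 459830430) (nat_lit 0) (nat_lit 1260981381) (nat_lit 228) (nat_lit 1260981381) (nat_lit 243) (nat_lit 1) (nat_lit 239) (nat_lit 1) (nat_lit 242) (nat_lit 1) (nat_lit 356) (nat_lit 347) (nat_lit 317))))) (XT.nd (nat_lit 234) (nat_lit 456) (nat_lit 0) (XT.nd (nat_lit 78) (nat_lit 228) (nat_lit 0) (XT.lf (nat_lit 304) (nat_lit 2767456412) (nat_lit 0) (nat_lit 79026609) (nat_lit 228) (nat_lit 79026609) (nat_lit 239) (nat_lit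 1) (nat_lit 235) (nat_lit 1) (nat_lit 238) (nat_lit 1) (nat_lit 357) (nat_lit 347) (nat_lit 316)) (XT.nd (nat_lit 78) (nat_lit 228) (nat_lit 0) (XT.lf (nat_lit 76) (nat_lit 1046849506) (nat_lit 0) (nat_lit 775704972) (nat_lit 304) (nat_lit 1046849506) (nat_lit 236) (nat_lit 1) (nat_lit 235) (nat_lit 1) (nat_lit 239) (nat_lit 1) (nat_lit 358) (nat_lit 347) (nat_lit 315)) (XT.lf (nat_lit 304) (nat_lit 1439513926) (nat_lit 0) (nat_lit 687930164) (nat_lit 228) (nat_lit 687930164) (nat_lit 236) (nat_lit 1) (nat_lit 232) (nat_lit 1) (nat_lit 235) (nat_lit 1) (nat_lit 359) (nat_lit 347) (nat_lit 314)))) (XT.nd (nat_lit 156) (nat_lit 304) (nat_lit 0) (XT.nd (nat_lit 78) (nat_lit 152) (nat_lit 0) (XT.lf (nat_lit 76) (nat_lit 396440961) (nat_lit 0) (nat_lit 1969911705) (nat_lit 304) (nat_lit 396440961) (nat_lit 233) (nat_lit 1) (nat_lit 232) (nat_lit 1) (nat_lit 236) (nat_lit 1) (nat_lit 360) (nat_lit 347)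 (nat_lit 313)) (XT.lf (nat_lit 228) (nat_lit 145269149) (nat_lit 0) (nat_lit 1282967350) (nat_lit 152) (nat_lit 1282967350) (nat_lit 233) (nat_lit 1) (nat_lit 230) (nat_lit 1) (nat_lit 232) (nat_lit 1) (nat_lit 361) (nat_lit 347) (nat_lit 312))) (XT.nd (nat_lit 78) (nat_lit 0) (nat_lit 0) (XT.lf (nat_lit 304) (nat_lit 2194968140) (nat_lit 0) (nat_lit 233121526) (nat_lit 228) (nat_lit 233121526) (nat_lit 230) (nat_lit 1) (nat_lit 226) (nat_lit 1) (nat_lit 229) (nat_lit 1) (nat_lit 362) (nat_lit 347) (nat_lit 311)) (XT.lf (nat_lit 76) (nat_lit 766650269) (nat_lit 0) (nat_lit 1078477116) (nat_lit 304) (nat_lit 766650269) (nat_lit 227) (nat_lit 1) (nat_lit 226) (nat_lit 1) (nat_lit 230) (nat_lit 1) (nat_lit 363) (nat_lit 347) (nat_lit 310))))))))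
noncomputable def ec72 : XT := (XT.nd (nat_lit 1950) (nat_lit 1900) (nat_lit 0) (XT.nd (nat_lit 936) (nat_lit 1216) (nat_lit 0) (XT.nd (nat_lit 468) (nat_lit 684) (nat_lit 0) (XT.nd (nat_lit 234) (nat_lit 304) (nat_lit 0) (XT.nd (nat_lit 78) (nat_lit 228) (nat_lit 0) (XT.lf (nat_lit 228) (nat_lit 885746125) (nat_lit 0) (nat_lit 839061822) (nat_lit 152) (nat_lit 839061822) (nat_lit 227) (nat_lit 1) (nat_lit 224) (nat_lit 1) (nat_lit 226) (nat_lit 1) (nat_lit 364) (nat_lit 347) (nat_lit 309)) (XT.nd (nat_lit 78) (nat_lit 228) (nat_lit 0) (XT.lf (nat_lit 76) (nat_lit 127253604) (nat_lit 0) (nat_lit 2263044557) (nat_lit 228) (nat_lit 127253604) (nat_lit 225) (nat_lit 1) (nat_lit 224) (nat_lit 1) (nat_lit 227) (nat_lit 1) (nat_lit 365) (nat_lit 347) (nat_lit 308)) (XT.lf (nat_lit 76) (nat_lit 1050246320) (nat_lit 0) (nat_lit 370909488) (nat_lit 228) (nat_lit 1050246320) (nat_lit 222) (nat_lit 1) (nat_lit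 221) (nat_lit 1) (nat_lit 224) (nat_lit 1) (nat_lit 366) (nat_lit 347) (nat_lit 307)))) (XT.nd (nat_lit 78) (nat_lit 152) (nat_lit 0) (XT.lf (nat_lit 228) (nat_lit 1458451087) (nat_lit 0) (nat_lit 484166245) (nat_lit 152) (nat_lit 484166245) (nat_lit 222) (nat_lit 1) (nat_lit 219) (nat_lit 1) (nat_lit 221) (nat_lit 1) (nat_lit 367) (nat_lit 347) (nat_lit 306)) (XT.nd (nat_lit 78) (nat_lit 152) (nat_lit 0) (XT.lf (nat_lit 76) (nat_lit 411536953) (nat_lit 0) (nat_lit 1560077288) (nat_lit 228) (nat_lit 411536953) (nat_lit 220) (nat_lit 1) (nat_lit 219) (nat_lit 1) (nat_lit 222) (nat_lit 1) (nat_lit 368) (nat_lit 347) (nat_lit 305)) (XT.lf (nat_lit 228) (nat_lit 192790246) (nat_lit 0) (nat_lit 1073804041) (nat_lit 152) (nat_lit 1073804041) (nat_lit 220) (nat_lit 1) (nat_lit 217) (nat_lit 1) (nat_lit 219) (nat_lit 1) (nat_lit 369) (nat_lit 347) (nat_lit 304))))) (XT.nd (nat_lit 234) (nat_lit 304) (nat_lit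 0) (XT.nd (nat_lit 78) (nat_lit 152) (nat_lit 0) (XT.lf (nat_lit 228) (nat_lit 1894867088) (nat_lit 0) (nat_lit 202008585) (nat_lit 152) (nat_lit 202008585) (nat_lit 217) (nat_lit 1) (nat_lit 214) (nat_lit 1) (nat_lit 216) (nat_lit 1) (nat_lit 370) (nat_lit 347) (nat_lit 303)) (XT.nd (nat_lit 78) (nat_lit 152) (nat_lit 0) (XT.lf (nat_lit 76) (nat_lit 630805897) (nat_lit 0) (nat_lit 996112713) (nat_lit 228) (nat_lit 630805897) (nat_lit 215) (nat_lit 1) (nat_lit 214) (nat_lit 1) (nat_lit 217) (nat_lit 1) (nat_lit 371) (nat_lit 347) (nat_lit 302)) (XT.lf (nat_lit 228) (nat_lit 642445180) (nat_lit 0) (nat_lit 787657250) (nat_lit 152) (nat_lit 787657250) (nat_lit 215) (nat_lit 1) (nat_lit 212) (nat_lit 1) (nat_lit 214) (nat_lit 1) (nat_lit 372) (nat_lit 347) (nat_lit 301)))) (XT.nd (nat_lit 78) (nat_lit 304) (nat_lit 0) (XT.lf (nat_lit 76) (nat_lit 21115401) (nat_lit 0) (nat_lit 2136965620) (nat_lit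 228) (nat_lit 21115401) (nat_lit 213) (nat_lit 1) (nat_lit 212) (nat_lit 1) (nat_lit 215) (nat_lit 1) (nat_lit 373) (nat_lit 347) (nat_lit 300)) (XT.nd (nat_lit 78) (nat_lit 152) (nat_lit 0) (XT.lf (nat_lit 76) (nat_lit 797283122) (nat_lit 0) (nat_lit 545821792) (nat_lit 152) (nat_lit 797283122) (nat_lit 211) (nat_lit 1) (nat_lit 210) (nat_lit 1) (nat_lit 212) (nat_lit 1) (nat_lit 374) (nat_lit 347) (nat_lit 299)) (XT.lf (nat_lit 228) (nat_lit 989337590) (nat_lit 0) (nat_lit 556803767) (nat_lit 152) (nat_lit 556803767) (nat_lit 211) (nat_lit 1) (nat_lit 208) (nat_lit 1) (nat_lit 210) (nat_lit 1) (nat_lit 375) (nat_lit 347) (nat_lit 298)))))) (XT.nd (nat_lit 468) (nat_lit 608) (nat_lit 0) (XT.nd (nat_lit 234) (nat_lit 304) (nat_lit 0) (XT.nd (nat_lit 78) (nat_lit 304) (nat_lit 0) (XT.lf (nat_lit 76) (nat_lit 198355349) (nat_lit 0) (nat_lit 1669802194) (nat_lit 228) (nat_lit 198355349) (nat_lit 209)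 (nat_lit 1) (nat_lit 208) (nat_lit 1) (nat_lit 211) (nat_lit 1) (nat_lit 376) (nat_lit 347) (nat_lit 297)) (XT.nd (nat_lit 78) (nat_lit 152) (nat_lit 0) (XT.lf (nat_lit 76) (nat_lit 920991131) (nat_lit 0) (nat_lit 188398841) (nat_lit 152) (nat_lit 920991131) (nat_lit 207) (nat_lit 1) (nat_lit 206) (nat_lit 1) (nat_lit 208) (nat_lit 1) (nat_lit 377) (nat_lit 347) (nat_lit 296)) (XT.lf (nat_lit 228) (nat_lit 1252784150) (nat_lit 0) (nat_lit 371223074) (nat_lit 152) (nat_lit 371223074) (nat_lit 207) (nat_lit 1) (nat_lit 204) (nat_lit 1) (nat_lit 206) (nat_lit 1) (nat_lit 378) (nat_lit 347) (nat_lit 295)))) (XT.nd (nat_lit 78) (nat_lit 304) (nat_lit 0) (XT.lf (nat_lit 76) (nat_lit 335552823) (nat_lit 0) (nat_lit 1289669721) (nat_lit 228) (nat_lit 335552823) (nat_lit 205) (nat_lit 1) (nat_lit 204) (nat_lit 1) (nat_lit 207) (nat_lit 1) (nat_lit 379) (nat_lit 347) (nat_lit 294)) (XT.nd (nat_lit 78) (nat_lit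 228) (nat_lit 0) (XT.lf (nat_lit 152) (nat_lit 96324996) (nat_lit 0) (nat_lit 915322811) (nat_lit 76) (nat_lit 915322811) (nat_lit 205) (nat_lit 1) (nat_lit 203) (nat_lit 1) (nat_lit 204) (nat_lit 1) (nat_lit 380) (nat_lit 347) (nat_lit 293)) (XT.lf (nat_lit 228) (nat_lit 1448624494) (nat_lit 0) (nat_lit 222681605) (nat_lit 152) (nat_lit 222681605) (nat_lit 203) (nat_lit 1) (nat_lit 200) (nat_lit 1) (nat_lit 202) (nat_lit 1) (nat_lit 381) (nat_lit 347) (nat_lit 292))))) (XT.nd (nat_lit 234) (nat_lit 304) (nat_lit 0) (XT.nd (nat_lit 78) (nat_lit 304) (nat_lit 0) (XT.lf (nat_lit 76) (nat_lit 440217650) (nat_lit 0) (nat_lit 980937636) (nat_lit 228) (nat_lit 440217650) (nat_lit 201) (nat_lit 1) (nat_lit 200) (nat_lit 1) (nat_lit 203) (nat_lit 1) (nat_lit 382) (nat_lit 347) (nat_lit 291)) (XT.nd (nat_lit 78) (nat_lit 228) (nat_lit 0) (XT.lf (nat_lit 152) (nat_lit 323481159) (nat_lit 0) (nat_lit 753038342)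 (nat_lit 76) (nat_lit 753038342) (nat_lit 201) (nat_lit 1) (nat_lit 199) (nat_lit 1) (nat_lit 200) (nat_lit 1) (nat_lit 383) (nat_lit 347) (nat_lit 290)) (XT.lf (nat_lit 228) (nat_lit 1589840169) (nat_lit 0) (nat_lit 104415434) (nat_lit 152) (nat_lit 104415434) (nat_lit 199) (nat_lit 1) (nat_lit 196) (nat_lit 1) (nat_lit 198) (nat_lit 1) (nat_lit 384) (nat_lit 347) (nat_lit 289)))) (XT.nd (nat_lit 156) (nat_lit 228) (nat_lit 0) (XT.nd (nat_lit 78) (nat_lit 76) (nat_lit 0) (XT.lf (nat_lit 76) (nat_lit 518508637) (nat_lit 0) (nat_lit 730756168) (nat_lit 228) (nat_lit 518508637) (nat_lit 197) (nat_lit 1) (nat_lit 196) (nat_lit 1) (nat_lit 199) (nat_lit 1) (nat_lit 385) (nat_lit 347) (nat_lit 288)) (XT.lf (nat_lit 152) (nat_lit 498732889) (nat_lit 0) (nat_lit 619526507) (nat_lit 76) (nat_lit 619526507) (nat_lit 197) (nat_lit 1) (nat_lit 195) (nat_lit 1) (nat_lit 196) (nat_lit 1) (nat_lit 386) (nat_lit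 347) (nat_lit 287))) (XT.nd (nat_lit 78) (nat_lit 0) (nat_lit 0) (XT.lf (nat_lit 228) (nat_lit 1687063739) (nat_lit 0) (nat_lit 10869243) (nat_lit 152) (nat_lit 10869243) (nat_lit 195) (nat_lit 1) (nat_lit 192) (nat_lit 1) (nat_lit 194) (nat_lit 1) (nat_lit 387) (nat_lit 347) (nat_lit 286)) (XT.lf (nat_lit 76) (nat_lit 575474041) (nat_lit 0) (nat_lit 528562858) (nat_lit 228) (nat_lit 575474041) (nat_lit 193) (nat_lit 1) (nat_lit 192) (nat_lit 1) (nat_lit 195) (nat_lit 1) (nat_lit 388) (nat_lit 347) (nat_lit 285))))))) (XT.nd (nat_lit 936) (nat_lit 988) (nat_lit 0) (XT.nd (nat_lit 468) (nat_lit 456) (nat_lit 0) (XT.nd (nat_lit 234) (nat_lit 228) (nat_lit 0) (XT.nd (nat_lit 78) (nat_lit 152) (nat_lit 0) (XT.lf (nat_lit 152) (nat_lit 631836534) (nat_lit 0) (nat_lit 509685991) (nat_lit 76) (nat_lit 509685991) (nat_lit 193) (nat_lit 1) (nat_lit 191) (nat_lit 1) (nat_lit 192) (nat_lit 1) (nat_lit 389)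 (nat_lit 347) (nat_lit 284)) (XT.nd (nat_lit 78) (nat_lit 152) (nat_lit 0) (XT.lf (nat_lit 0) (nat_lit 63543303) (nat_lit 0) (nat_lit 1496673982) (nat_lit 152) (nat_lit 63543303) (nat_lit 191) (nat_lit 3) (nat_lit 191) (nat_lit 1) (nat_lit 193) (nat_lit 1) (nat_lit 390) (nat_lit 347) (nat_lit 283)) (XT.lf (nat_lit 76) (nat_lit 615249348) (nat_lit 0) (nat_lit 365676591) (nat_lit 152) (nat_lit 615249348) (nat_lit 190) (nat_lit 1) (nat_lit 189) (nat_lit 1) (nat_lit 191) (nat_lit 1) (nat_lit 391) (nat_lit 347) (nat_lit 282)))) (XT.nd (nat_lit 78) (nat_lit 152) (nat_lit 0) (XT.lf (nat_lit 152) (nat_lit 730792291) (nat_lit 0) (nat_lit 419319926) (nat_lit 76) (nat_lit 419319926) (nat_lit 190) (nat_lit 1) (nat_lit 188) (nat_lit 1) (nat_lit 189) (nat_lit 1) (nat_lit 392) (nat_lit 347) (nat_lit 281)) (XT.nd (nat_lit 78) (nat_lit 152) (nat_lit 0) (XT.lf (nat_lit 0) (nat_lit 121450614) (nat_lit 0) (nat_lit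 1300490769) (nat_lit 152) (nat_lit 121450614) (nat_lit 188) (nat_lit 3) (nat_lit 188) (nat_lit 1) (nat_lit 190) (nat_lit 1) (nat_lit 393) (nat_lit 347) (nat_lit 280)) (XT.lf (nat_lit 76) (nat_lit 641219952) (nat_lit 0) (nat_lit 234963626) (nat_lit 152) (nat_lit 641219952) (nat_lit 187) (nat_lit 1) (nat_lit 186) (nat_lit 1) (nat_lit 188) (nat_lit 1) (nat_lit 394) (nat_lit 347) (nat_lit 279))))) (XT.nd (nat_lit 234) (nat_lit 228) (nat_lit 0) (XT.nd (nat_lit 78) (nat_lit 152) (nat_lit 0) (XT.lf (nat_lit 152) (nat_lit 802156828) (nat_lit 0) (nat_lit 344975541) (nat_lit 76) (nat_lit 344975541) (nat_lit 187) (nat_lit 1) (nat_lit 185) (nat_lit 1) (nat_lit 186) (nat_lit 1) (nat_lit 395) (nat_lit 347) (nat_lit 278)) (XT.nd (nat_lit 78) (nat_lit 152) (nat_lit 0) (XT.lf (nat_lit 0) (nat_lit 165797131) (nat_lit 0) (nat_lit 1135796385) (nat_lit 152) (nat_lit 165797131) (nat_lit 185) (nat_lit 3) (nat_lit 185)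 (nat_lit 1) (nat_lit 187) (nat_lit 1) (nat_lit 396) (nat_lit 347) (nat_lit 277)) (XT.lf (nat_lit 76) (nat_lit 656154947) (nat_lit 0) (nat_lit 130562861) (nat_lit 152) (nat_lit 656154947) (nat_lit 184) (nat_lit 1) (nat_lit 183) (nat_lit 1) (nat_lit 185) (nat_lit 1) (nat_lit 397) (nat_lit 347) (nat_lit 276)))) (XT.nd (nat_lit 78) (nat_lit 152) (nat_lit 0) (XT.lf (nat_lit 152) (nat_lit 851300408) (nat_lit 0) (nat_lit 283812231) (nat_lit 76) (nat_lit 283812231) (nat_lit 184) (nat_lit 1) (nat_lit 182) (nat_lit 1) (nat_lit 183) (nat_lit 1) (nat_lit 398) (nat_lit 347) (nat_lit 275)) (XT.nd (nat_lit 78) (nat_lit 152) (nat_lit 0) (XT.lf (nat_lit 0) (nat_lit 199144005) (nat_lit 0) (nat_lit 997164792) (nat_lit 152) (nat_lit 199144005) (nat_lit 182) (nat_lit 3) (nat_lit 182) (nat_lit 1) (nat_lit 184) (nat_lit 1) (nat_lit 399) (nat_lit 347) (nat_lit 274)) (XT.lf (nat_lit 76) (nat_lit 662317161) (nat_lit 0)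 (nat_lit 47659822) (nat_lit 152) (nat_lit 662317161) (nat_lit 181) (nat_lit 1) (nat_lit 180) (nat_lit 1) (nat_lit 182) (nat_lit 1) (nat_lit 400) (nat_lit 347) (nat_lit 273)))))) (XT.nd (nat_lit 468) (nat_lit 608) (nat_lit 0) (XT.nd (nat_lit 234) (nat_lit 228) (nat_lit 0) (XT.nd (nat_lit 78) (nat_lit 76) (nat_lit 0) (XT.lf (nat_lit 152) (nat_lit 882618382) (nat_lit 0) (nat_lit 233493025) (nat_lit 76) (nat_lit 233493025) (nat_lit 181) (nat_lit 1) (nat_lit 179) (nat_lit 1) (nat_lit 180) (nat_lit 1) (nat_lit 401) (nat_lit 347) (nat_lit 272)) (XT.nd (nat_lit 78) (nat_lit 76) (nat_lit 0) (XT.lf (nat_lit 0) (nat_lit 223590833) (nat_lit 0) (nat_lit 880124509) (nat_lit 152) (nat_lit 223590833) (nat_lit 179) (nat_lit 3) (nat_lit 179) (nat_lit 1) (nat_lit 181) (nat_lit 1) (nat_lit 402) (nat_lit 347) (nat_lit 271)) (XT.lf (nat_lit 76) (nat_lit 18284475) (nat_lit 0) (nat_lit 643554643) (nat_lit 76) (nat_lit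 643554643) (nat_lit 179) (nat_lit 3) (nat_lit 178) (nat_lit 1) (nat_lit 179) (nat_lit 1) (nat_lit 403) (nat_lit 347) (nat_lit 270)))) (XT.nd (nat_lit 78) (nat_lit 76) (nat_lit 0) (XT.lf (nat_lit 152) (nat_lit 899705117) (nat_lit 0) (nat_lit 192095289) (nat_lit 76) (nat_lit 192095289) (nat_lit 178) (nat_lit 1) (nat_lit 176) (nat_lit 1) (nat_lit 177) (nat_lit 1) (nat_lit 404) (nat_lit 347) (nat_lit 269)) (XT.nd (nat_lit 78) (nat_lit 76) (nat_lit 0) (XT.lf (nat_lit 0) (nat_lit 240857843) (nat_lit 0) (nat_lit 780989723) (nat_lit 152) (nat_lit 240857843) (nat_lit 176) (nat_lit 3) (nat_lit 176) (nat_lit 1) (nat_lit 178) (nat_lit 1) (nat_lit 405) (nat_lit 347) (nat_lit 268)) (XT.lf (nat_lit 76) (nat_lit 71033905) (nat_lit 0) (nat_lit 585445220) (nat_lit 76) (nat_lit 585445220) (nat_lit 176) (nat_lit 3) (nat_lit 175) (nat_lit 1) (nat_lit 176) (nat_lit 1) (nat_lit 406) (nat_lit 347) (nat_lit 267))))) (XT.nd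 (nat_lit 234) (nat_lit 380) (nat_lit 0) (XT.nd (nat_lit 78) (nat_lit 76) (nat_lit 0) (XT.lf (nat_lit 152) (nat_lit 905497046) (nat_lit 0) (nat_lit 158037270) (nat_lit 76) (nat_lit 158037270) (nat_lit 175) (nat_lit 1) (nat_lit 173) (nat_lit 1) (nat_lit 174) (nat_lit 1) (nat_lit 407) (nat_lit 347) (nat_lit 266)) (XT.nd (nat_lit 78) (nat_lit 76) (nat_lit 0) (XT.lf (nat_lit 0) (nat_lit 252353497) (nat_lit 0) (nat_lit 696721332) (nat_lit 152) (nat_lit 252353497) (nat_lit 173) (nat_lit 3) (nat_lit 173) (nat_lit 1) (nat_lit 175) (nat_lit 1) (nat_lit 408) (nat_lit 347) (nat_lit 265)) (XT.lf (nat_lit 76) (nat_lit 111764743) (nat_lit 0) (nat_lit 534972205) (nat_lit 76) (nat_lit 534972205) (nat_lit 173) (nat_lit 3) (nat_lit 172) (nat_lit 1) (nat_lit 173) (nat_lit 1) (nat_lit 409) (nat_lit 347) (nat_lit 264)))) (XT.nd (nat_lit 156) (nat_lit 228) (nat_lit 0) (XT.nd (nat_lit 78) (nat_lit 0) (nat_lit 0) (XT.lf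 (nat_lit 152) (nat_lit 902390298) (nat_lit 0) (nat_lit 130017653) (nat_lit 76) (nat_lit 130017653) (nat_lit 172) (nat_lit 1) (nat_lit 170) (nat_lit 1) (nat_lit 171) (nat_lit 1) (nat_lit 410) (nat_lit 347) (nat_lit 263)) (XT.lf (nat_lit 0) (nat_lit 259230088) (nat_lit 0) (nat_lit 624812606) (nat_lit 152) (nat_lit 259230088) (nat_lit 170) (nat_lit 3) (nat_lit 170) (nat_lit 1) (nat_lit 172) (nat_lit 1) (nat_lit 411) (nat_lit 347) (nat_lit 262))) (XT.nd (nat_lit 78) (nat_lit 152) (nat_lit 0) (XT.lf (nat_lit 76) (nat_lit 142734820) (nat_lit 0) (nat_lit 490908646) (nat_lit 76) (nat_lit 490908646) (nat_lit 170) (nat_lit 3) (nat_lit 169) (nat_lit 1) (nat_lit 170) (nat_lit 1) (nat_lit 412) (nat_lit 347) (nat_lit 261)) (XT.lf (nat_lit 152) (nat_lit 892337433) (nat_lit 0) (nat_lit 106965845) (nat_lit 76) (nat_lit 106965845) (nat_lit 169) (nat_lit 1) (nat_lit 167) (nat_lit 1) (nat_lit 168) (nat_lit 1) (nat_lit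 413) (nat_lit 347) (nat_lit 260))))))))
noncomputable def ec73 : XT := (XT.nd (nat_lit 1950) (nat_lit 912) (nat_lit 0) (XT.nd (nat_lit 936) (nat_lit 912) (nat_lit 0) (XT.nd (nat_lit 468) (nat_lit 456) (nat_lit 0) (XT.nd (nat_lit 234) (nat_lit 228) (nat_lit 0) (XT.nd (nat_lit 78) (nat_lit 228) (nat_lit 0) (XT.lf (nat_lit 0) (nat_lit 262429465) (nat_lit 0) (nat_lit 563195107) (nat_lit 152) (nat_lit 262429465) (nat_lit 167) (nat_lit 3) (nat_lit 167) (nat_lit 1) (nat_lit 169) (nat_lit 1) (nat_lit 414) (nat_lit 347) (nat_lit 259)) (XT.nd (nat_lit 78) (nat_lit 152) (nat_lit 0) (XT.lf (nat_lit 76) (nat_lit 165795613) (nat_lit 0) (nat_lit 452239081) (nat_lit 76) (nat_lit 452239081) (nat_lit 167) (nat_lit 3) (nat_lit 166) (nat_lit 1) (nat_lit 167) (nat_lit 1) (nat_lit 415) (nat_lit 347) (nat_lit 258)) (XT.lf (nat_lit 152) (nat_lit 876926979) (nat_lit 0) (nat_lit 88001065) (nat_lit 76) (nat_lit 88001065)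 (nat_lit 166) (nat_lit 1) (nat_lit 164) (nat_lit 1) (nat_lit 165) (nat_lit 1) (nat_lit 416) (nat_lit 347) (nat_lit 257)))) (XT.nd (nat_lit 78) (nat_lit 228) (nat_lit 0) (XT.lf (nat_lit 0) (nat_lit 262720637) (nat_lit 0) (nat_lit 510161275) (nat_lit 152) (nat_lit 262720637) (nat_lit 164) (nat_lit 3) (nat_lit 164) (nat_lit 1) (nat_lit 166) (nat_lit 1) (nat_lit 417) (nat_lit 347) (nat_lit 256)) (XT.nd (nat_lit 78) (nat_lit 152) (nat_lit 0) (XT.lf (nat_lit 76) (nat_lit 182464579) (nat_lit 0) (nat_lit 418122329) (nat_lit 76) (nat_lit 418122329) (nat_lit 164) (nat_lit 3) (nat_lit 163) (nat_lit 1) (nat_lit 164) (nat_lit 1) (nat_lit 418) (nat_lit 347) (nat_lit 255)) (XT.lf (nat_lit 152) (nat_lit 857448818) (nat_lit 0) (nat_lit 72398694) (nat_lit 76) (nat_lit 72398694) (nat_lit 163) (nat_lit 1) (nat_lit 161) (nat_lit 1) (nat_lit 162) (nat_lit 1) (nat_lit 419) (nat_lit 347) (nat_lit 254))))) (XT.nd (nat_lit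 234) (nat_lit 228) (nat_lit 0) (XT.nd (nat_lit 78) (nat_lit 228) (nat_lit 0) (XT.lf (nat_lit 0) (nat_lit 260730696) (nat_lit 0) (nat_lit 464300721) (nat_lit 152) (nat_lit 260730696) (nat_lit 161) (nat_lit 3) (nat_lit 161) (nat_lit 1) (nat_lit 163) (nat_lit 1) (nat_lit 420) (nat_lit 347) (nat_lit 253)) (XT.nd (nat_lit 78) (nat_lit 152) (nat_lit 0) (XT.lf (nat_lit 76) (nat_lit 193984648) (nat_lit 0) (nat_lit 387860863) (nat_lit 76) (nat_lit 387860863) (nat_lit 161) (nat_lit 3) (nat_lit 160) (nat_lit 1) (nat_lit 161) (nat_lit 1) (nat_lit 421) (nat_lit 347) (nat_lit 252)) (XT.lf (nat_lit 152) (nat_lit 834947953) (nat_lit 0) (nat_lit 59562585) (nat_lit 76) (nat_lit 59562585) (nat_lit 160) (nat_lit 1) (nat_lit 158) (nat_lit 1) (nat_lit 159) (nat_lit 1) (nat_lit 422) (nat_lit 347) (nat_lit 251)))) (XT.nd (nat_lit 78) (nat_lit 228) (nat_lit 0) (XT.lf (nat_lit 0) (nat_lit 256970244) (nat_lit 0) (nat_lit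 424447808) (nat_lit 152) (nat_lit 256970244) (nat_lit 158) (nat_lit 3) (nat_lit 158) (nat_lit 1) (nat_lit 160) (nat_lit 1) (nat_lit 423) (nat_lit 347) (nat_lit 250)) (XT.nd (nat_lit 78) (nat_lit 152) (nat_lit 0) (XT.lf (nat_lit 76) (nat_lit 201373163) (nat_lit 0) (nat_lit 360875604) (nat_lit 76) (nat_lit 360875604) (nat_lit 158) (nat_lit 3) (nat_lit 157) (nat_lit 1) (nat_lit 158) (nat_lit 1) (nat_lit 424) (nat_lit 347) (nat_lit 249)) (XT.lf (nat_lit 152) (nat_lit 810268689) (nat_lit 0) (nat_lit 49002286) (nat_lit 76) (nat_lit 49002286) (nat_lit 157) (nat_lit 1) (nat_lit 155) (nat_lit 1) (nat_lit 156) (nat_lit 1) (nat_lit 425) (nat_lit 347) (nat_lit 248)))))) (XT.nd (nat_lit 468) (nat_lit 456) (nat_lit 0) (XT.nd (nat_lit 234) (nat_lit 228) (nat_lit 0) (XT.nd (nat_lit 78) (nat_lit 228) (nat_lit 0) (XT.lf (nat_lit 0) (nat_lit 251854299) (nat_lit 0) (nat_lit 389638505) (nat_lit 152) (nat_lit 251854299)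 (nat_lit 155) (nat_lit 3) (nat_lit 155) (nat_lit 1) (nat_lit 157) (nat_lit 1) (nat_lit 426) (nat_lit 347) (nat_lit 247)) (XT.nd (nat_lit 78) (nat_lit 152) (nat_lit 0) (XT.lf (nat_lit 76) (nat_lit 205462116) (nat_lit 0) (nat_lit 336685169) (nat_lit 76) (nat_lit 336685169) (nat_lit 155) (nat_lit 3) (nat_lit 154) (nat_lit 1) (nat_lit 155) (nat_lit 1) (nat_lit 427) (nat_lit 347) (nat_lit 246)) (XT.lf (nat_lit 152) (nat_lit 784090952) (nat_lit 0) (nat_lit 40314302) (nat_lit 76) (nat_lit 40314302) (nat_lit 154) (nat_lit 1) (nat_lit 152) (nat_lit 1) (nat_lit 153) (nat_lit 1) (nat_lit 428) (nat_lit 347) (nat_lit 245)))) (XT.nd (nat_lit 78) (nat_lit 228) (nat_lit 0) (XT.lf (nat_lit 0) (nat_lit 245719482) (nat_lit 0) (nat_lit 359074889) (nat_lit 152) (nat_lit 245719482) (nat_lit 152) (nat_lit 3) (nat_lit 152) (nat_lit 1) (nat_lit 154) (nat_lit 1) (nat_lit 429) (nat_lit 347) (nat_lit 244)) (XT.nd (nat_lit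 78) (nat_lit 152) (nat_lit 0) (XT.lf (nat_lit 76) (nat_lit 206931254) (nat_lit 0) (nat_lit 314888785) (nat_lit 76) (nat_lit 314888785) (nat_lit 152) (nat_lit 3) (nat_lit 151) (nat_lit 1) (nat_lit 152) (nat_lit 1) (nat_lit 430) (nat_lit 347) (nat_lit 243)) (XT.lf (nat_lit 152) (nat_lit 756960135) (nat_lit 0) (nat_lit 33166676) (nat_lit 76) (nat_lit 33166676) (nat_lit 151) (nat_lit 1) (nat_lit 149) (nat_lit 1) (nat_lit 150) (nat_lit 1) (nat_lit 431) (nat_lit 347) (nat_lit 242))))) (XT.nd (nat_lit 234) (nat_lit 228) (nat_lit 0) (XT.nd (nat_lit 78) (nat_lit 228) (nat_lit 0) (XT.lf (nat_lit 0) (nat_lit 238838146) (nat_lit 0) (nat_lit 332095920) (nat_lit 152) (nat_lit 238838146) (nat_lit 149) (nat_lit 3) (nat_lit 149) (nat_lit 1) (nat_lit 151) (nat_lit 1) (nat_lit 432) (nat_lit 347) (nat_lit 241)) (XT.nd (nat_lit 78) (nat_lit 152) (nat_lit 0) (XT.lf (nat_lit 76) (nat_lit 206335296) (nat_lit 0) (nat_lit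 295152224) (nat_lit 76) (nat_lit 295152224) (nat_lit 149) (nat_lit 3) (nat_lit 148) (nat_lit 1) (nat_lit 149) (nat_lit 1) (nat_lit 433) (nat_lit 347) (nat_lit 240)) (XT.lf (nat_lit 152) (nat_lit 729311612) (nat_lit 0) (nat_lit 27286306) (nat_lit 76) (nat_lit 27286306) (nat_lit 148) (nat_lit 1) (nat_lit 146) (nat_lit 1) (nat_lit 147) (nat_lit 1) (nat_lit 434) (nat_lit 347) (nat_lit 239)))) (XT.nd (nat_lit 156) (nat_lit 152) (nat_lit 0) (XT.nd (nat_lit 78) (nat_lit 76) (nat_lit 0) (XT.lf (nat_lit 0) (nat_lit 231429992) (nat_lit 0) (nat_lit 308153393) (nat_lit 152) (nat_lit 231429992) (nat_lit 146) (nat_lit 3) (nat_lit 146) (nat_lit 1) (nat_lit 148) (nat_lit 1) (nat_lit 435) (nat_lit 347) (nat_lit 238)) (XT.lf (nat_lit 76) (nat_lit 204126312) (nat_lit 0) (nat_lit 277196219) (nat_lit 76) (nat_lit 277196219) (nat_lit 146) (nat_lit 3) (nat_lit 145) (nat_lit 1) (nat_lit 146) (nat_lit 1) (nat_lit 436)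 (nat_lit 347) (nat_lit 237))) (XT.nd (nat_lit 78) (nat_lit 0) (nat_lit 0) (XT.lf (nat_lit 152) (nat_lit 701490884) (nat_lit 0) (nat_lit 22448511) (nat_lit 76) (nat_lit 22448511) (nat_lit 145) (nat_lit 1) (nat_lit 143) (nat_lit 1) (nat_lit 144) (nat_lit 1) (nat_lit 437) (nat_lit 347) (nat_lit 236)) (XT.lf (nat_lit 0) (nat_lit 223671606) (nat_lit 0) (nat_lit 286792138) (nat_lit 152) (nat_lit 223671606) (nat_lit 143) (nat_lit 3) (nat_lit 143) (nat_lit 1) (nat_lit 145) (nat_lit 1) (nat_lit 438) (nat_lit 347) (nat_lit 235))))))) (XT.nd (nat_lit 44226) (nat_lit 0) (nat_lit 11324) (XT.nd (nat_lit 468) (nat_lit 456) (nat_lit 0) (XT.nd (nat_lit 234) (nat_lit 228) (nat_lit 0) (XT.nd (nat_lit 78) (nat_lit 152) (nat_lit 0) (XT.lf (nat_lit 76) (nat_lit 200672131) (nat_lit 0) (nat_lit 260786923) (nat_lit 76) (nat_lit 260786923) (nat_lit 143) (nat_lit 3) (nat_lit 142) (nat_lit 1) (nat_lit 143) (nat_lit 1) (nat_lit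 439) (nat_lit 347) (nat_lit 234)) (XT.nd (nat_lit 78) (nat_lit 0) (nat_lit 0) (XT.lf (nat_lit 152) (nat_lit 673770110) (nat_lit 0) (nat_lit 18468446) (nat_lit 76) (nat_lit 18468446) (nat_lit 142) (nat_lit 1) (nat_lit 140) (nat_lit 1) (nat_lit 141) (nat_lit 1) (nat_lit 440) (nat_lit 347) (nat_lit 233)) (XT.lf (nat_lit 0) (nat_lit 215704306) (nat_lit 0) (nat_lit 267633724) (nat_lit 152) (nat_lit 215704306) (nat_lit 140) (nat_lit 3) (nat_lit 140) (nat_lit 1) (nat_lit 142) (nat_lit 1) (nat_lit 441) (nat_lit 347) (nat_lit 232)))) (XT.nd (nat_lit 78) (nat_lit 152) (nat_lit 0) (XT.lf (nat_lit 76) (nat_lit 196271466) (nat_lit 0) (nat_lit 245728055) (nat_lit 76) (nat_lit 245728055) (nat_lit 140) (nat_lit 3) (nat_lit 139) (nat_lit 1) (nat_lit 140) (nat_lit 1) (nat_lit 442) (nat_lit 347) (nat_lit 231)) (XT.nd (nat_lit 78) (nat_lit 0) (nat_lit 0) (XT.lf (nat_lit 152) (nat_lit 646361694) (nat_lit 0) (nat_lit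 15194036) (nat_lit 76) (nat_lit 15194036) (nat_lit 139) (nat_lit 1) (nat_lit 137) (nat_lit 1) (nat_lit 138) (nat_lit 1) (nat_lit 443) (nat_lit 347) (nat_lit 230)) (XT.lf (nat_lit 0) (nat_lit 207640583) (nat_lit 0) (nat_lit 250363044) (nat_lit 152) (nat_lit 207640583) (nat_lit 137) (nat_lit 3) (nat_lit 137) (nat_lit 1) (nat_lit 139) (nat_lit 1) (nat_lit 444) (nat_lit 347) (nat_lit 229))))) (XT.nd (nat_lit 234) (nat_lit 228) (nat_lit 0) (XT.nd (nat_lit 78) (nat_lit 152) (nat_lit 0) (XT.lf (nat_lit 76) (nat_lit 191166362) (nat_lit 0) (nat_lit 231854420) (nat_lit 76) (nat_lit 231854420) (nat_lit 137) (nat_lit 3) (nat_lit 136) (nat_lit 1) (nat_lit 137) (nat_lit 1) (nat_lit 445) (nat_lit 347) (nat_lit 228)) (XT.nd (nat_lit 78) (nat_lit 0) (nat_lit 0) (XT.lf (nat_lit 152) (nat_lit 619429419) (nat_lit 0) (nat_lit 12500171) (nat_lit 76) (nat_lit 12500171) (nat_lit 136) (nat_lit 1) (nat_lit 134) (nat_lit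 1) (nat_lit 135) (nat_lit 1) (nat_lit 446) (nat_lit 347) (nat_lit 227)) (XT.lf (nat_lit 0) (nat_lit 199569390) (nat_lit 0) (nat_lit 234717264) (nat_lit 152) (nat_lit 199569390) (nat_lit 134) (nat_lit 3) (nat_lit 134) (nat_lit 1) (nat_lit 136) (nat_lit 1) (nat_lit 447) (nat_lit 347) (nat_lit 226)))) (XT.nd (nat_lit 156) (nat_lit 0) (nat_lit 0) (XT.nd (nat_lit 78) (nat_lit 152) (nat_lit 0) (XT.lf (nat_lit 76) (nat_lit 185552411) (nat_lit 0) (nat_lit 219026577) (nat_lit 76) (nat_lit 219026577) (nat_lit 134) (nat_lit 3) (nat_lit 133) (nat_lit 1) (nat_lit 134) (nat_lit 1) (nat_lit 448) (nat_lit 347) (nat_lit 225)) (XT.lf (nat_lit 152) (nat_lit 593097595) (nat_lit 0) (nat_lit 10283921) (nat_lit 76) (nat_lit 10283921) (nat_lit 133) (nat_lit 1) (nat_lit 131) (nat_lit 1) (nat_lit 132) (nat_lit 1) (nat_lit 449) (nat_lit 347) (nat_lit 224))) (XT.nd (nat_lit 43290) (nat_lit 0) (nat_lit 12236) (XT.lf (nat_lit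 0) (nat_lit 191560487) (nat_lit 0) (nat_lit 220476730) (nat_lit 152) (nat_lit 191560487) (nat_lit 131) (nat_lit 3) (nat_lit 131) (nat_lit 1) (nat_lit 133) (nat_lit 1) (nat_lit 450) (nat_lit 347) (nat_lit 223)) (XT.lf (nat_lit 836) (nat_lit 793896836) (nat_lit 0) (nat_lit 1409562008) (nat_lit 836) (nat_lit 793896836) (nat_lit 303) (nat_lit 1) (nat_lit 292) (nat_lit 0) (nat_lit 303) (nat_lit 0) (nat_lit 324) (nat_lit 348) (nat_lit 348)))))) (XT.nd (nat_lit 468) (nat_lit 912) (nat_lit 0) (XT.nd (nat_lit 234) (nat_lit 0) (nat_lit 152) (XT.nd (nat_lit 78) (nat_lit 0) (nat_lit 76) (XT.lf (nat_lit 836) (nat_lit 3077243253) (nat_lit 76) (nat_lit 1386827137) (nat_lit 0) (nat_lit 1386827137) (nat_lit 303) (nat_lit 1) (nat_lit 293) (nat_lit 1) (nat_lit 292) (nat_lit 0) (nat_lit 325) (nat_lit 348) (nat_lit 347)) (XT.nd (nat_lit 78) (nat_lit 0) (nat_lit 0) (XT.lf (nat_lit 836) (nat_lit 1466567800) (nat_lit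 0) (nat_lit 2778394150) (nat_lit 760) (nat_lit 1466567800) (nat_lit 304) (nat_lit 1) (nat_lit 293) (nat_lit 1) (nat_lit 303) (nat_lit 1) (nat_lit 326) (nat_lit 348) (nat_lit 346)) (XT.lf (nat_lit 836) (nat_lit 2751077409) (nat_lit 76) (nat_lit 1412793591) (nat_lit 0) (nat_lit 1412793591) (nat_lit 304) (nat_lit 1) (nat_lit 294) (nat_lit 1) (nat_lit 293) (nat_lit 1) (nat_lit 327) (nat_lit 348) (nat_lit 345)))) (XT.nd (nat_lit 78) (nat_lit 0) (nat_lit 0) (XT.lf (nat_lit 836) (nat_lit 1266294512) (nat_lit 0) (nat_lit 2913484955) (nat_lit 760) (nat_lit 1266294512) (nat_lit 305) (nat_lit 1) (nat_lit 294) (nat_lit 1) (nat_lit 304) (nat_lit 1) (nat_lit 328) (nat_lit 348) (nat_lit 344)) (XT.nd (nat_lit 78) (nat_lit 0) (nat_lit 76) (XT.lf (nat_lit 836) (nat_lit 2277513157) (nat_lit 76) (nat_lit 1520975556) (nat_lit 0) (nat_lit 1520975556) (nat_lit 305) (nat_lit 1) (nat_lit 295) (nat_lit 1) (nat_lit 294)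 (nat_lit 1) (nat_lit 329) (nat_lit 348) (nat_lit 343)) (XT.lf (nat_lit 836) (nat_lit 998623738) (nat_lit 0) (nat_lit 3199858198) (nat_lit 760) (nat_lit 998623738) (nat_lit 306) (nat_lit 1) (nat_lit 295) (nat_lit 1) (nat_lit 305) (nat_lit 1) (nat_lit 330) (nat_lit 348) (nat_lit 342))))) (XT.nd (nat_lit 234) (nat_lit 1140) (nat_lit 0) (XT.nd (nat_lit 78) (nat_lit 0) (nat_lit 76) (XT.lf (nat_lit 836) (nat_lit 1678717167) (nat_lit 76) (nat_lit 1699699432) (nat_lit 0) (nat_lit 1699699432) (nat_lit 306) (nat_lit 1) (nat_lit 296) (nat_lit 1) (nat_lit 295) (nat_lit 1) (nat_lit 331) (nat_lit 348) (nat_lit 341)) (XT.nd (nat_lit 78) (nat_lit 0) (nat_lit 0) (XT.lf (nat_lit 836) (nat_lit 673917506) (nat_lit 0) (nat_lit 3615647076) (nat_lit 760) (nat_lit 673917506) (nat_lit 307) (nat_lit 1) (nat_lit 296) (nat_lit 1) (nat_lit 306) (nat_lit 1) (nat_lit 332) (nat_lit 348) (nat_lit 340)) (XT.lf (nat_lit 836) (nat_lit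 974392263) (nat_lit 76) (nat_lit 1938568823) (nat_lit 0) (nat_lit 1938568823) (nat_lit 307) (nat_lit 1) (nat_lit 297) (nat_lit 1) (nat_lit 296) (nat_lit 1) (nat_lit 333) (nat_lit 348) (nat_lit 339)))) (XT.nd (nat_lit 156) (nat_lit 532) (nat_lit 0) (XT.nd (nat_lit 78) (nat_lit 760) (nat_lit 0) (XT.lf (nat_lit 76) (nat_lit 301379429) (nat_lit 0) (nat_lit 4141389279) (nat_lit 760) (nat_lit 301379429) (nat_lit 298) (nat_lit 1) (nat_lit 297) (nat_lit 1) (nat_lit 307) (nat_lit 1) (nat_lit 334) (nat_lit 348) (nat_lit 338)) (XT.lf (nat_lit 836) (nat_lit 182025680) (nat_lit 0) (nat_lit 2228336655) (nat_lit 760) (nat_lit 2228336655) (nat_lit 298) (nat_lit 1) (nat_lit 287) (nat_lit 1) (nat_lit 297) (nat_lit 1) (nat_lit 335) (nat_lit 348) (nat_lit 337))) (XT.nd (nat_lit 78) (nat_lit 0) (nat_lit 0) (XT.lf (nat_lit 532) (nat_lit 4319698635) (nat_lit 0) (nat_lit 109040752) (nat_lit 456) (nat_lit 109040752) (nat_lit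 287) (nat_lit 1) (nat_lit 280) (nat_lit 1) (nat_lit 286) (nat_lit 1) (nat_lit 336) (nat_lit 348) (nat_lit 336)) (XT.lf (nat_lit 76) (nat_lit 1888564725) (nat_lit 0) (nat_lit 661030036) (nat_lit 532) (nat_lit 1888564725) (nat_lit 281) (nat_lit 1) (nat_lit 280) (nat_lit 1) (nat_lit 287) (nat_lit 1) (nat_lit 337) (nat_lit 348) (nat_lit 335))))))))
noncomputable def ec74 : XT := (XT.nd (nat_lit 1950) (nat_lit 2508) (nat_lit 0) (XT.nd (nat_lit 936) (nat_lit 1976) (nat_lit 0) (XT.nd (nat_lit 468) (nat_lit 1216) (nat_lit 0) (XT.nd (nat_lit 234) (nat_lit 304) (nat_lit 0) (XT.nd (nat_lit 78) (nat_lit 380) (nat_lit 0) (XT.lf (nat_lit 456) (nat_lit 3249735118) (nat_lit 0) (nat_lit 546519926) (nat_lit 380) (nat_lit 546519926) (nat_lit 281) (nat_lit 1) (nat_lit 275) (nat_lit 1) (nat_lit 280) (nat_lit 1) (nat_lit 338) (nat_lit 348) (nat_lit 334)) (XT.nd (nat_lit 78) (nat_lit 380) (nat_lit 0) (XT.lf (nat_lit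 76) (nat_lit 1347090228) (nat_lit 0) (nat_lit 1555215244) (nat_lit 456) (nat_lit 1347090228) (nat_lit 276) (nat_lit 1) (nat_lit 275) (nat_lit 1) (nat_lit 281) (nat_lit 1) (nat_lit 339) (nat_lit 348) (nat_lit 333)) (XT.lf (nat_lit 456) (nat_lit 2139996660) (nat_lit 0) (nat_lit 1009635960) (nat_lit 380) (nat_lit 1009635960) (nat_lit 276) (nat_lit 1) (nat_lit 270) (nat_lit 1) (nat_lit 275) (nat_lit 1) (nat_lit 340) (nat_lit 348) (nat_lit 332)))) (XT.nd (nat_lit 78) (nat_lit 304) (nat_lit 0) (XT.lf (nat_lit 76) (nat_lit 788560328) (nat_lit 0) (nat_lit 2494642004) (nat_lit 456) (nat_lit 788560328) (nat_lit 271) (nat_lit 1) (nat_lit 270) (nat_lit 1) (nat_lit 276) (nat_lit 1) (nat_lit 341) (nat_lit 348) (nat_lit 331)) (XT.nd (nat_lit 78) (nat_lit 0) (nat_lit 0) (XT.lf (nat_lit 380) (nat_lit 1000812112) (nat_lit 0) (nat_lit 1492847785) (nat_lit 304) (nat_lit 1492847785) (nat_lit 271) (nat_lit 1) (nat_lit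 266) (nat_lit 1) (nat_lit 270) (nat_lit 1) (nat_lit 342) (nat_lit 348) (nat_lit 330)) (XT.lf (nat_lit 76) (nat_lit 217770037) (nat_lit 0) (nat_lit 3468991116) (nat_lit 380) (nat_lit 217770037) (nat_lit 267) (nat_lit 1) (nat_lit 266) (nat_lit 1) (nat_lit 271) (nat_lit 1) (nat_lit 343) (nat_lit 348) (nat_lit 329))))) (XT.nd (nat_lit 234) (nat_lit 532) (nat_lit 0) (XT.nd (nat_lit 78) (nat_lit 304) (nat_lit 0) (XT.lf (nat_lit 76) (nat_lit 1834992913) (nat_lit 0) (nat_lit 153684221) (nat_lit 380) (nat_lit 1834992913) (nat_lit 262) (nat_lit 1) (nat_lit 261) (nat_lit 1) (nat_lit 266) (nat_lit 1) (nat_lit 344) (nat_lit 348) (nat_lit 328)) (XT.nd (nat_lit 78) (nat_lit 0) (nat_lit 0) (XT.lf (nat_lit 380) (nat_lit 3035367660) (nat_lit 0) (nat_lit 355260317) (nat_lit 304) (nat_lit 355260317) (nat_lit 262) (nat_lit 1) (nat_lit 257) (nat_lit 1) (nat_lit 261) (nat_lit 1) (nat_lit 345) (nat_lit 348) (nat_lit 327))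 (XT.lf (nat_lit 76) (nat_lit 1190604640) (nat_lit 0) (nat_lit 1288231624) (nat_lit 380) (nat_lit 1190604640) (nat_lit 258) (nat_lit 1) (nat_lit 257) (nat_lit 1) (nat_lit 262) (nat_lit 1) (nat_lit 346) (nat_lit 348) (nat_lit 326)))) (XT.nd (nat_lit 78) (nat_lit 228) (nat_lit 0) (XT.lf (nat_lit 380) (nat_lit 1737423370) (nat_lit 0) (nat_lit 929110535) (nat_lit 304) (nat_lit 929110535) (nat_lit 258) (nat_lit 1) (nat_lit 253) (nat_lit 1) (nat_lit 257) (nat_lit 1) (nat_lit 347) (nat_lit 348) (nat_lit 325)) (XT.nd (nat_lit 78) (nat_lit 228) (nat_lit 0) (XT.lf (nat_lit 76) (nat_lit 547905791) (nat_lit 0) (nat_lit 2428194210) (nat_lit 380) (nat_lit 547905791) (nat_lit 254) (nat_lit 1) (nat_lit 253) (nat_lit 1) (nat_lit 258) (nat_lit 1) (nat_lit 348) (nat_lit 348) (nat_lit 324)) (XT.lf (nat_lit 304) (nat_lit 445588313) (nat_lit 0) (nat_lit 1504162611) (nat_lit 228) (nat_lit 1504162611) (nat_lit 254) (nat_lit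 1) (nat_lit 250) (nat_lit 1) (nat_lit 253) (nat_lit 1) (nat_lit 349) (nat_lit 348) (nat_lit 323)))))) (XT.nd (nat_lit 468) (nat_lit 836) (nat_lit 0) (XT.nd (nat_lit 234) (nat_lit 532) (nat_lit 0) (XT.nd (nat_lit 78) (nat_lit 228) (nat_lit 0) (XT.lf (nat_lit 380) (nat_lit 3208468524) (nat_lit 0) (nat_lit 89028845) (nat_lit 304) (nat_lit 89028845) (nat_lit 250) (nat_lit 1) (nat_lit 245) (nat_lit 1) (nat_lit 249) (nat_lit 1) (nat_lit 350) (nat_lit 348) (nat_lit 322)) (XT.nd (nat_lit 78) (nat_lit 228) (nat_lit 0) (XT.lf (nat_lit 76) (nat_lit 1255497453) (nat_lit 0) (nat_lit 808516966) (nat_lit 380) (nat_lit 1255497453) (nat_lit 246) (nat_lit 1) (nat_lit 245) (nat_lit 1) (nat_lit 250) (nat_lit 1) (nat_lit 351) (nat_lit 348) (nat_lit 321)) (XT.lf (nat_lit 304) (nat_lit 1833693722) (nat_lit 0) (nat_lit 710686993) (nat_lit 228) (nat_lit 710686993) (nat_lit 246) (nat_lit 1) (nat_lit 242) (nat_lit 1) (nat_lit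 245) (nat_lit 1) (nat_lit 352) (nat_lit 348) (nat_lit 320)))) (XT.nd (nat_lit 78) (nat_lit 532) (nat_lit 0) (XT.lf (nat_lit 76) (nat_lit 579292211) (nat_lit 0) (nat_lit 2033676439) (nat_lit 304) (nat_lit 579292211) (nat_lit 243) (nat_lit 1) (nat_lit 242) (nat_lit 1) (nat_lit 246) (nat_lit 1) (nat_lit 353) (nat_lit 348) (nat_lit 319)) (XT.nd (nat_lit 78) (nat_lit 304) (nat_lit 0) (XT.lf (nat_lit 304) (nat_lit 482821951) (nat_lit 0) (nat_lit 1324030450) (nat_lit 228) (nat_lit 1324030450) (nat_lit 243) (nat_lit 1) (nat_lit 239) (nat_lit 1) (nat_lit 242) (nat_lit 1) (nat_lit 354) (nat_lit 348) (nat_lit 318)) (XT.lf (nat_lit 304) (nat_lit 2905829233) (nat_lit 0) (nat_lit 82977939) (nat_lit 228) (nat_lit 82977939) (nat_lit 239) (nat_lit 1) (nat_lit 235) (nat_lit 1) (nat_lit 238) (nat_lit 1) (nat_lit 355) (nat_lit 348) (nat_lit 317))))) (XT.nd (nat_lit 234) (nat_lit 608) (nat_lit 0) (XT.nd (nat_lit 78)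 (nat_lit 228) (nat_lit 0) (XT.lf (nat_lit 76) (nat_lit 1099191981) (nat_lit 0) (nat_lit 814490221) (nat_lit 304) (nat_lit 1099191981) (nat_lit 236) (nat_lit 1) (nat_lit 235) (nat_lit 1) (nat_lit 239) (nat_lit 1) (nat_lit 356) (nat_lit 348) (nat_lit 316)) (XT.nd (nat_lit 78) (nat_lit 0) (nat_lit 0) (XT.lf (nat_lit 304) (nat_lit 1511489622) (nat_lit 0) (nat_lit 722326672) (nat_lit 228) (nat_lit 722326672) (nat_lit 236) (nat_lit 1) (nat_lit 232) (nat_lit 1) (nat_lit 235) (nat_lit 1) (nat_lit 357) (nat_lit 348) (nat_lit 315)) (XT.lf (nat_lit 76) (nat_lit 416263009) (nat_lit 0) (nat_lit 2068407290) (nat_lit 304) (nat_lit 416263009) (nat_lit 233) (nat_lit 1) (nat_lit 232) (nat_lit 1) (nat_lit 236) (nat_lit 1) (nat_lit 358) (nat_lit 348) (nat_lit 314)))) (XT.nd (nat_lit 156) (nat_lit 152) (nat_lit 0) (XT.nd (nat_lit 78) (nat_lit 304) (nat_lit 0) (XT.lf (nat_lit 228) (nat_lit 152532607) (nat_lit 0) (nat_lit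 1347115718) (nat_lit 152) (nat_lit 1347115718) (nat_lit 233) (nat_lit 1) (nat_lit 230) (nat_lit 1) (nat_lit 232) (nat_lit 1) (nat_lit 359) (nat_lit 348) (nat_lit 313)) (XT.lf (nat_lit 304) (nat_lit 2304716547) (nat_lit 0) (nat_lit 244777602) (nat_lit 228) (nat_lit 244777602) (nat_lit 230) (nat_lit 1) (nat_lit 226) (nat_lit 1) (nat_lit 229) (nat_lit 1) (nat_lit 360) (nat_lit 348) (nat_lit 312))) (XT.nd (nat_lit 78) (nat_lit 152) (nat_lit 0) (XT.lf (nat_lit 76) (nat_lit 804982782) (nat_lit 0) (nat_lit 1132400971) (nat_lit 304) (nat_lit 804982782) (nat_lit 227) (nat_lit 1) (nat_lit 226) (nat_lit 1) (nat_lit 230) (nat_lit 1) (nat_lit 361) (nat_lit 348) (nat_lit 311)) (XT.lf (nat_lit 228) (nat_lit 930033431) (nat_lit 0) (nat_lit 881014913) (nat_lit 152) (nat_lit 881014913) (nat_lit 227) (nat_lit 1) (nat_lit 224) (nat_lit 1) (nat_lit 226) (nat_lit 1) (nat_lit 362) (nat_lit 348) (nat_lit 310))))))) (XT.nd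 (nat_lit 936) (nat_lit 1292) (nat_lit 0) (XT.nd (nat_lit 468) (nat_lit 456) (nat_lit 0) (XT.nd (nat_lit 234) (nat_lit 380) (nat_lit 0) (XT.nd (nat_lit 78) (nat_lit 380) (nat_lit 0) (XT.lf (nat_lit 76) (nat_lit 133616284) (nat_lit 0) (nat_lit 2376196784) (nat_lit 228) (nat_lit 133616284) (nat_lit 225) (nat_lit 1) (nat_lit 224) (nat_lit 1) (nat_lit 227) (nat_lit 1) (nat_lit 363) (nat_lit 348) (nat_lit 309)) (XT.nd (nat_lit 78) (nat_lit 152) (nat_lit 0) (XT.lf (nat_lit 76) (nat_lit 1102758636) (nat_lit 0) (nat_lit 389454963) (nat_lit 228) (nat_lit 1102758636) (nat_lit 222) (nat_lit 1) (nat_lit 221) (nat_lit 1) (nat_lit 224) (nat_lit 1) (nat_lit 364) (nat_lit 348) (nat_lit 308)) (XT.lf (nat_lit 228) (nat_lit 1531373641) (nat_lit 0) (nat_lit 508374557) (nat_lit 152) (nat_lit 508374557) (nat_lit 222) (nat_lit 1) (nat_lit 219) (nat_lit 1) (nat_lit 221) (nat_lit 1) (nat_lit 365) (nat_lit 348) (nat_lit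 307)))) (XT.nd (nat_lit 78) (nat_lit 380) (nat_lit 0) (XT.lf (nat_lit 76) (nat_lit 432113801) (nat_lit 0) (nat_lit 1638081152) (nat_lit 228) (nat_lit 432113801) (nat_lit 220) (nat_lit 1) (nat_lit 219) (nat_lit 1) (nat_lit 222) (nat_lit 1) (nat_lit 366) (nat_lit 348) (nat_lit 306)) (XT.nd (nat_lit 78) (nat_lit 228) (nat_lit 0) (XT.lf (nat_lit 228) (nat_lit 202429758) (nat_lit 0) (nat_lit 1127494243) (nat_lit 152) (nat_lit 1127494243) (nat_lit 220) (nat_lit 1) (nat_lit 217) (nat_lit 1) (nat_lit 219) (nat_lit 1) (nat_lit 367) (nat_lit 348) (nat_lit 305)) (XT.lf (nat_lit 228) (nat_lit 1989610443) (nat_lit 0) (nat_lit 212109014) (nat_lit 152) (nat_lit 212109014) (nat_lit 217) (nat_lit 1) (nat_lit 214) (nat_lit 1) (nat_lit 216) (nat_lit 1) (nat_lit 368) (nat_lit 348) (nat_lit 304))))) (XT.nd (nat_lit 234) (nat_lit 304) (nat_lit 0) (XT.nd (nat_lit 78) (nat_lit 152) (nat_lit 0) (XT.lf (nat_lit 76) (nat_lit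 662346192) (nat_lit 0) (nat_lit 1045918349) (nat_lit 228) (nat_lit 662346192) (nat_lit 215) (nat_lit 1) (nat_lit 214) (nat_lit 1) (nat_lit 217) (nat_lit 1) (nat_lit 369) (nat_lit 348) (nat_lit 303)) (XT.nd (nat_lit 78) (nat_lit 0) (nat_lit 0) (XT.lf (nat_lit 228) (nat_lit 674567439) (nat_lit 0) (nat_lit 827040113) (nat_lit 152) (nat_lit 827040113) (nat_lit 215) (nat_lit 1) (nat_lit 212) (nat_lit 1) (nat_lit 214) (nat_lit 1) (nat_lit 370) (nat_lit 348) (nat_lit 302)) (XT.lf (nat_lit 76) (nat_lit 22171171) (nat_lit 0) (nat_lit 2243813901) (nat_lit 228) (nat_lit 22171171) (nat_lit 213) (nat_lit 1) (nat_lit 212) (nat_lit 1) (nat_lit 215) (nat_lit 1) (nat_lit 371) (nat_lit 348) (nat_lit 301)))) (XT.nd (nat_lit 78) (nat_lit 152) (nat_lit 0) (XT.lf (nat_lit 76) (nat_lit 837147278) (nat_lit 0) (nat_lit 573112881) (nat_lit 152) (nat_lit 837147278) (nat_lit 211) (nat_lit 1) (nat_lit 210) (nat_lit 1) (nat_lit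 212) (nat_lit 1) (nat_lit 372) (nat_lit 348) (nat_lit 300)) (XT.nd (nat_lit 78) (nat_lit 0) (nat_lit 0) (XT.lf (nat_lit 228) (nat_lit 1038804469) (nat_lit 0) (nat_lit 584643956) (nat_lit 152) (nat_lit 584643956) (nat_lit 211) (nat_lit 1) (nat_lit 208) (nat_lit 1) (nat_lit 210) (nat_lit 1) (nat_lit 373) (nat_lit 348) (nat_lit 299)) (XT.lf (nat_lit 76) (nat_lit 208273116) (nat_lit 0) (nat_lit 1753292304) (nat_lit 228) (nat_lit 208273116) (nat_lit 209) (nat_lit 1) (nat_lit 208) (nat_lit 1) (nat_lit 211) (nat_lit 1) (nat_lit 374) (nat_lit 348) (nat_lit 298)))))) (XT.nd (nat_lit 468) (nat_lit 684) (nat_lit 0) (XT.nd (nat_lit 234) (nat_lit 304) (nat_lit 0) (XT.nd (nat_lit 78) (nat_lit 152) (nat_lit 0) (XT.lf (nat_lit 76) (nat_lit 967040687) (nat_lit 0) (nat_lit 197818783) (nat_lit 152) (nat_lit 967040687) (nat_lit 207) (nat_lit 1) (nat_lit 206) (nat_lit 1) (nat_lit 208) (nat_lit 1) (nat_lit 375) (nat_lit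 348) (nat_lit 297)) (XT.nd (nat_lit 78) (nat_lit 0) (nat_lit 0) (XT.lf (nat_lit 228) (nat_lit 1315423358) (nat_lit 0) (nat_lit 389784227) (nat_lit 152) (nat_lit 389784227) (nat_lit 207) (nat_lit 1) (nat_lit 204) (nat_lit 1) (nat_lit 206) (nat_lit 1) (nat_lit 376) (nat_lit 348) (nat_lit 296)) (XT.lf (nat_lit 76) (nat_lit 352330464) (nat_lit 0) (nat_lit 1354153207) (nat_lit 228) (nat_lit 352330464) (nat_lit 205) (nat_lit 1) (nat_lit 204) (nat_lit 1) (nat_lit 207) (nat_lit 1) (nat_lit 377) (nat_lit 348) (nat_lit 295)))) (XT.nd (nat_lit 78) (nat_lit 228) (nat_lit 0) (XT.lf (nat_lit 152) (nat_lit 101141245) (nat_lit 0) (nat_lit 961088952) (nat_lit 76) (nat_lit 961088952) (nat_lit 205) (nat_lit 1) (nat_lit 203) (nat_lit 1) (nat_lit 204) (nat_lit 1) (nat_lit 378) (nat_lit 348) (nat_lit 294)) (XT.nd (nat_lit 78) (nat_lit 0) (nat_lit 0) (XT.lf (nat_lit 228) (nat_lit 1521055719) (nat_lit 0) (nat_lit 233815685)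 (nat_lit 152) (nat_lit 233815685) (nat_lit 203) (nat_lit 1) (nat_lit 200) (nat_lit 1) (nat_lit 202) (nat_lit 1) (nat_lit 379) (nat_lit 348) (nat_lit 293)) (XT.lf (nat_lit 76) (nat_lit 462228532) (nat_lit 0) (nat_lit 1029984518) (nat_lit 228) (nat_lit 462228532) (nat_lit 201) (nat_lit 1) (nat_lit 200) (nat_lit 1) (nat_lit 203) (nat_lit 1) (nat_lit 380) (nat_lit 348) (nat_lit 292))))) (XT.nd (nat_lit 234) (nat_lit 380) (nat_lit 0) (XT.nd (nat_lit 78) (nat_lit 228) (nat_lit 0) (XT.lf (nat_lit 152) (nat_lit 339655217) (nat_lit 0) (nat_lit 790690259) (nat_lit 76) (nat_lit 790690259) (nat_lit 201) (nat_lit 1) (nat_lit 199) (nat_lit 1) (nat_lit 200) (nat_lit 1) (nat_lit 381) (nat_lit 348) (nat_lit 291)) (XT.nd (nat_lit 78) (nat_lit 0) (nat_lit 0) (XT.lf (nat_lit 228) (nat_lit 1669332178) (nat_lit 0) (nat_lit 109636206) (nat_lit 152) (nat_lit 109636206) (nat_lit 199) (nat_lit 1) (nat_lit 196) (nat_lit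 1) (nat_lit 198) (nat_lit 1) (nat_lit 382) (nat_lit 348) (nat_lit 290)) (XT.lf (nat_lit 76) (nat_lit 544434069) (nat_lit 0) (nat_lit 767293977) (nat_lit 228) (nat_lit 544434069) (nat_lit 197) (nat_lit 1) (nat_lit 196) (nat_lit 1) (nat_lit 199) (nat_lit 1) (nat_lit 383) (nat_lit 348) (nat_lit 289)))) (XT.nd (nat_lit 156) (nat_lit 76) (nat_lit 0) (XT.nd (nat_lit 78) (nat_lit 228) (nat_lit 0) (XT.lf (nat_lit 152) (nat_lit 523669533) (nat_lit 0) (nat_lit 650502833) (nat_lit 76) (nat_lit 650502833) (nat_lit 197) (nat_lit 1) (nat_lit 195) (nat_lit 1) (nat_lit 196) (nat_lit 1) (nat_lit 384) (nat_lit 348) (nat_lit 288)) (XT.lf (nat_lit 228) (nat_lit 1771416926) (nat_lit 0) (nat_lit 11412705) (nat_lit 152) (nat_lit 11412705) (nat_lit 195) (nat_lit 1) (nat_lit 192) (nat_lit 1) (nat_lit 194) (nat_lit 1) (nat_lit 385) (nat_lit 348) (nat_lit 287))) (XT.nd (nat_lit 78) (nat_lit 76) (nat_lit 0) (XT.lf (nat_lit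 76) (nat_lit 604247743) (nat_lit 0) (nat_lit 554991001) (nat_lit 228) (nat_lit 604247743) (nat_lit 193) (nat_lit 1) (nat_lit 192) (nat_lit 1) (nat_lit 195) (nat_lit 1) (nat_lit 386) (nat_lit 348) (nat_lit 286)) (XT.lf (nat_lit 152) (nat_lit 663428360) (nat_lit 0) (nat_lit 535170290) (nat_lit 76) (nat_lit 535170290) (nat_lit 193) (nat_lit 1) (nat_lit 191) (nat_lit 1) (nat_lit 192) (nat_lit 1) (nat_lit 387) (nat_lit 348) (nat_lit 285))))))))
noncomputable def ec75 : XT := (XT.nd (nat_lit 1950) (nat_lit 2052) (nat_lit 0) (XT.nd (nat_lit 936) (nat_lit 912) (nat_lit 0) (XT.nd (nat_lit 468) (nat_lit 456) (nat_lit 0) (XT.nd (nat_lit 234) (nat_lit 228) (nat_lit 0) (XT.nd (nat_lit 78) (nat_lit 228) (nat_lit 0) (XT.lf (nat_lit 0) (nat_lit 66720469) (nat_lit 0) (nat_lit 1571507681) (nat_lit 152) (nat_lit 66720469) (nat_lit 191) (nat_lit 3) (nat_lit 191) (nat_lit 1) (nat_lit 193) (nat_lit 1) (nat_lit 388)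 (nat_lit 348) (nat_lit 284)) (XT.nd (nat_lit 78) (nat_lit 76) (nat_lit 0) (XT.lf (nat_lit 76) (nat_lit 646011815) (nat_lit 0) (nat_lit 383960420) (nat_lit 152) (nat_lit 646011815) (nat_lit 190) (nat_lit 1) (nat_lit 189) (nat_lit 1) (nat_lit 191) (nat_lit 1) (nat_lit 389) (nat_lit 348) (nat_lit 283)) (XT.lf (nat_lit 152) (nat_lit 767331906) (nat_lit 0) (nat_lit 440285922) (nat_lit 76) (nat_lit 440285922) (nat_lit 190) (nat_lit 1) (nat_lit 188) (nat_lit 1) (nat_lit 189) (nat_lit 1) (nat_lit 390) (nat_lit 348) (nat_lit 282)))) (XT.nd (nat_lit 78) (nat_lit 228) (nat_lit 0) (XT.lf (nat_lit 0) (nat_lit 127523144) (nat_lit 0) (nat_lit 1365515308) (nat_lit 152) (nat_lit 127523144) (nat_lit 188) (nat_lit 3) (nat_lit 188) (nat_lit 1) (nat_lit 190) (nat_lit 1) (nat_lit 391) (nat_lit 348) (nat_lit 281)) (XT.nd (nat_lit 78) (nat_lit 76) (nat_lit 0) (XT.lf (nat_lit 76) (nat_lit 673280950) (nat_lit 0) (nat_lit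 246711807) (nat_lit 152) (nat_lit 673280950) (nat_lit 187) (nat_lit 1) (nat_lit 186) (nat_lit 1) (nat_lit 188) (nat_lit 1) (nat_lit 392) (nat_lit 348) (nat_lit 280)) (XT.lf (nat_lit 152) (nat_lit 842264669) (nat_lit 0) (nat_lit 362224318) (nat_lit 76) (nat_lit 362224318) (nat_lit 187) (nat_lit 1) (nat_lit 185) (nat_lit 1) (nat_lit 186) (nat_lit 1) (nat_lit 393) (nat_lit 348) (nat_lit 279))))) (XT.nd (nat_lit 234) (nat_lit 228) (nat_lit 0) (XT.nd (nat_lit 78) (nat_lit 228) (nat_lit 0) (XT.lf (nat_lit 0) (nat_lit 174086987) (nat_lit 0) (nat_lit 1192586204) (nat_lit 152) (nat_lit 174086987) (nat_lit 185) (nat_lit 3) (nat_lit 185) (nat_lit 1) (nat_lit 187) (nat_lit 1) (nat_lit 394) (nat_lit 348) (nat_lit 278)) (XT.nd (nat_lit 78) (nat_lit 76) (nat_lit 0) (XT.lf (nat_lit 76) (nat_lit 688962694) (nat_lit 0) (nat_lit 137091004) (nat_lit 152) (nat_lit 688962694) (nat_lit 184) (nat_lit 1) (nat_lit 183)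 (nat_lit 1) (nat_lit 185) (nat_lit 1) (nat_lit 395) (nat_lit 348) (nat_lit 277)) (XT.lf (nat_lit 152) (nat_lit 893865429) (nat_lit 0) (nat_lit 298002843) (nat_lit 76) (nat_lit 298002843) (nat_lit 184) (nat_lit 1) (nat_lit 182) (nat_lit 1) (nat_lit 183) (nat_lit 1) (nat_lit 396) (nat_lit 348) (nat_lit 276)))) (XT.nd (nat_lit 78) (nat_lit 228) (nat_lit 0) (XT.lf (nat_lit 0) (nat_lit 209101205) (nat_lit 0) (nat_lit 1047023031) (nat_lit 152) (nat_lit 209101205) (nat_lit 182) (nat_lit 3) (nat_lit 182) (nat_lit 1) (nat_lit 184) (nat_lit 1) (nat_lit 397) (nat_lit 348) (nat_lit 275)) (XT.nd (nat_lit 78) (nat_lit 76) (nat_lit 0) (XT.lf (nat_lit 76) (nat_lit 695433019) (nat_lit 0) (nat_lit 50042813) (nat_lit 152) (nat_lit 695433019) (nat_lit 181) (nat_lit 1) (nat_lit 180) (nat_lit 1) (nat_lit 182) (nat_lit 1) (nat_lit 398) (nat_lit 348) (nat_lit 274)) (XT.lf (nat_lit 152) (nat_lit 926749301) (nat_lit 0)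 (nat_lit 245167676) (nat_lit 76) (nat_lit 245167676) (nat_lit 181) (nat_lit 1) (nat_lit 179) (nat_lit 1) (nat_lit 180) (nat_lit 1) (nat_lit 399) (nat_lit 348) (nat_lit 273)))))) (XT.nd (nat_lit 468) (nat_lit 456) (nat_lit 0) (XT.nd (nat_lit 234) (nat_lit 228) (nat_lit 0) (XT.nd (nat_lit 78) (nat_lit 228) (nat_lit 0) (XT.lf (nat_lit 0) (nat_lit 234770374) (nat_lit 0) (nat_lit 924130734) (nat_lit 152) (nat_lit 234770374) (nat_lit 179) (nat_lit 3) (nat_lit 179) (nat_lit 1) (nat_lit 181) (nat_lit 1) (nat_lit 400) (nat_lit 348) (nat_lit 272)) (XT.nd (nat_lit 78) (nat_lit 152) (nat_lit 0) (XT.lf (nat_lit 76) (nat_lit 19198699) (nat_lit 0) (nat_lit 675732375) (nat_lit 76) (nat_lit 675732375) (nat_lit 179) (nat_lit 3) (nat_lit 178) (nat_lit 1) (nat_lit 179) (nat_lit 1) (nat_lit 401) (nat_lit 348) (nat_lit 271)) (XT.lf (nat_lit 152) (nat_lit 944690373) (nat_lit 0) (nat_lit 201700054) (nat_lit 76) (nat_lit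 201700054) (nat_lit 178) (nat_lit 1) (nat_lit 176) (nat_lit 1) (nat_lit 177) (nat_lit 1) (nat_lit 402) (nat_lit 348) (nat_lit 270)))) (XT.nd (nat_lit 78) (nat_lit 228) (nat_lit 0) (XT.lf (nat_lit 0) (nat_lit 252900735) (nat_lit 0) (nat_lit 820039209) (nat_lit 152) (nat_lit 252900735) (nat_lit 176) (nat_lit 3) (nat_lit 176) (nat_lit 1) (nat_lit 178) (nat_lit 1) (nat_lit 403) (nat_lit 348) (nat_lit 269)) (XT.nd (nat_lit 78) (nat_lit 152) (nat_lit 0) (XT.lf (nat_lit 76) (nat_lit 74585600) (nat_lit 0) (nat_lit 614717481) (nat_lit 76) (nat_lit 614717481) (nat_lit 176) (nat_lit 3) (nat_lit 175) (nat_lit 1) (nat_lit 176) (nat_lit 1) (nat_lit 404) (nat_lit 348) (nat_lit 268)) (XT.lf (nat_lit 152) (nat_lit 950771898) (nat_lit 0) (nat_lit 165939133) (nat_lit 76) (nat_lit 165939133) (nat_lit 175) (nat_lit 1) (nat_lit 173) (nat_lit 1) (nat_lit 174) (nat_lit 1) (nat_lit 405) (nat_lit 348) (nat_lit 267)))))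 (XT.nd (nat_lit 234) (nat_lit 228) (nat_lit 0) (XT.nd (nat_lit 78) (nat_lit 228) (nat_lit 0) (XT.lf (nat_lit 0) (nat_lit 264971172) (nat_lit 0) (nat_lit 731557398) (nat_lit 152) (nat_lit 264971172) (nat_lit 173) (nat_lit 3) (nat_lit 173) (nat_lit 1) (nat_lit 175) (nat_lit 1) (nat_lit 406) (nat_lit 348) (nat_lit 266)) (XT.nd (nat_lit 78) (nat_lit 152) (nat_lit 0) (XT.lf (nat_lit 76) (nat_lit 117352981) (nat_lit 0) (nat_lit 561720815) (nat_lit 76) (nat_lit 561720815) (nat_lit 173) (nat_lit 3) (nat_lit 172) (nat_lit 1) (nat_lit 173) (nat_lit 1) (nat_lit 407) (nat_lit 348) (nat_lit 265)) (XT.lf (nat_lit 152) (nat_lit 947509813) (nat_lit 0) (nat_lit 136518535) (nat_lit 76) (nat_lit 136518535) (nat_lit 172) (nat_lit 1) (nat_lit 170) (nat_lit 1) (nat_lit 171) (nat_lit 1) (nat_lit 408) (nat_lit 348) (nat_lit 264)))) (XT.nd (nat_lit 156) (nat_lit 152) (nat_lit 0) (XT.nd (nat_lit 78) (nat_lit 76) (nat_lit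 0) (XT.lf (nat_lit 0) (nat_lit 272191593) (nat_lit 0) (nat_lit 656053236) (nat_lit 152) (nat_lit 272191593) (nat_lit 170) (nat_lit 3) (nat_lit 170) (nat_lit 1) (nat_lit 172) (nat_lit 1) (nat_lit 409) (nat_lit 348) (nat_lit 263)) (XT.lf (nat_lit 76) (nat_lit 149871561) (nat_lit 0) (nat_lit 515454079) (nat_lit 76) (nat_lit 515454079) (nat_lit 170) (nat_lit 3) (nat_lit 169) (nat_lit 1) (nat_lit 170) (nat_lit 1) (nat_lit 410) (nat_lit 348) (nat_lit 262))) (XT.nd (nat_lit 78) (nat_lit 0) (nat_lit 0) (XT.lf (nat_lit 152) (nat_lit 936954305) (nat_lit 0) (nat_lit 112314137) (nat_lit 76) (nat_lit 112314137) (nat_lit 169) (nat_lit 1) (nat_lit 167) (nat_lit 1) (nat_lit 168) (nat_lit 1) (nat_lit 411) (nat_lit 348) (nat_lit 261)) (XT.lf (nat_lit 0) (nat_lit 275550939) (nat_lit 0) (nat_lit 591354862) (nat_lit 152) (nat_lit 275550939) (nat_lit 167) (nat_lit 3) (nat_lit 167) (nat_lit 1) (nat_lit 169) (nat_lit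 1) (nat_lit 412) (nat_lit 348) (nat_lit 260))))))) (XT.nd (nat_lit 1014) (nat_lit 1064) (nat_lit 0) (XT.nd (nat_lit 468) (nat_lit 532) (nat_lit 0) (XT.nd (nat_lit 234) (nat_lit 228) (nat_lit 0) (XT.nd (nat_lit 78) (nat_lit 152) (nat_lit 0) (XT.lf (nat_lit 76) (nat_lit 174085394) (nat_lit 0) (nat_lit 474851036) (nat_lit 76) (nat_lit 474851036) (nat_lit 167) (nat_lit 3) (nat_lit 166) (nat_lit 1) (nat_lit 167) (nat_lit 1) (nat_lit 413) (nat_lit 348) (nat_lit 259)) (XT.nd (nat_lit 78) (nat_lit 0) (nat_lit 0) (XT.lf (nat_lit 152) (nat_lit 920773328) (nat_lit 0) (nat_lit 92401118) (nat_lit 76) (nat_lit 92401118) (nat_lit 166) (nat_lit 1) (nat_lit 164) (nat_lit 1) (nat_lit 165) (nat_lit 1) (nat_lit 414) (nat_lit 348) (nat_lit 258)) (XT.lf (nat_lit 0) (nat_lit 275856669) (nat_lit 0) (nat_lit 535669339) (nat_lit 152) (nat_lit 275856669) (nat_lit 164) (nat_lit 3) (nat_lit 164) (nat_lit 1) (nat_lit 166) (nat_lit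 1) (nat_lit 415) (nat_lit 348) (nat_lit 257)))) (XT.nd (nat_lit 78) (nat_lit 152) (nat_lit 0) (XT.lf (nat_lit 76) (nat_lit 191587808) (nat_lit 0) (nat_lit 439028445) (nat_lit 76) (nat_lit 439028445) (nat_lit 164) (nat_lit 3) (nat_lit 163) (nat_lit 1) (nat_lit 164) (nat_lit 1) (nat_lit 416) (nat_lit 348) (nat_lit 256)) (XT.nd (nat_lit 78) (nat_lit 0) (nat_lit 0) (XT.lf (nat_lit 152) (nat_lit 900321259) (nat_lit 0) (nat_lit 76018629) (nat_lit 76) (nat_lit 76018629) (nat_lit 163) (nat_lit 1) (nat_lit 161) (nat_lit 1) (nat_lit 162) (nat_lit 1) (nat_lit 417) (nat_lit 348) (nat_lit 255)) (XT.lf (nat_lit 0) (nat_lit 273767231) (nat_lit 0) (nat_lit 487515758) (nat_lit 152) (nat_lit 273767231) (nat_lit 161) (nat_lit 3) (nat_lit 161) (nat_lit 1) (nat_lit 163) (nat_lit 1) (nat_lit 418) (nat_lit 348) (nat_lit 254))))) (XT.nd (nat_lit 234) (nat_lit 304) (nat_lit 0) (XT.nd (nat_lit 78) (nat_lit 152) (nat_lit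 0) (XT.lf (nat_lit 76) (nat_lit 203683881) (nat_lit 0) (nat_lit 407253906) (nat_lit 76) (nat_lit 407253906) (nat_lit 161) (nat_lit 3) (nat_lit 160) (nat_lit 1) (nat_lit 161) (nat_lit 1) (nat_lit 419) (nat_lit 348) (nat_lit 253)) (XT.nd (nat_lit 78) (nat_lit 0) (nat_lit 0) (XT.lf (nat_lit 152) (nat_lit 876695351) (nat_lit 0) (nat_lit 62540714) (nat_lit 76) (nat_lit 62540714) (nat_lit 160) (nat_lit 1) (nat_lit 158) (nat_lit 1) (nat_lit 159) (nat_lit 1) (nat_lit 420) (nat_lit 348) (nat_lit 252)) (XT.lf (nat_lit 0) (nat_lit 269818757) (nat_lit 0) (nat_lit 445670198) (nat_lit 152) (nat_lit 269818757) (nat_lit 158) (nat_lit 3) (nat_lit 158) (nat_lit 1) (nat_lit 160) (nat_lit 1) (nat_lit 421) (nat_lit 348) (nat_lit 251)))) (XT.nd (nat_lit 156) (nat_lit 76) (nat_lit 0) (XT.nd (nat_lit 78) (nat_lit 152) (nat_lit 0) (XT.lf (nat_lit 76) (nat_lit 211441821) (nat_lit 0) (nat_lit 378919384) (nat_lit 76) (nat_lit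 378919384) (nat_lit 158) (nat_lit 3) (nat_lit 157) (nat_lit 1) (nat_lit 158) (nat_lit 1) (nat_lit 422) (nat_lit 348) (nat_lit 250)) (XT.lf (nat_lit 152) (nat_lit 850782123) (nat_lit 0) (nat_lit 51452400) (nat_lit 76) (nat_lit 51452400) (nat_lit 157) (nat_lit 1) (nat_lit 155) (nat_lit 1) (nat_lit 156) (nat_lit 1) (nat_lit 423) (nat_lit 348) (nat_lit 249))) (XT.nd (nat_lit 78) (nat_lit 76) (nat_lit 0) (XT.lf (nat_lit 0) (nat_lit 264447014) (nat_lit 0) (nat_lit 409120430) (nat_lit 152) (nat_lit 264447014) (nat_lit 155) (nat_lit 3) (nat_lit 155) (nat_lit 1) (nat_lit 157) (nat_lit 1) (nat_lit 424) (nat_lit 348) (nat_lit 248)) (XT.lf (nat_lit 76) (nat_lit 215735221) (nat_lit 0) (nat_lit 353519427) (nat_lit 76) (nat_lit 353519427) (nat_lit 155) (nat_lit 3) (nat_lit 154) (nat_lit 1) (nat_lit 155) (nat_lit 1) (nat_lit 425) (nat_lit 348) (nat_lit 247)))))) (XT.nd (nat_lit 468) (nat_lit 608) (nat_lit 0) (XT.nd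 (nat_lit 234) (nat_lit 228) (nat_lit 0) (XT.nd (nat_lit 78) (nat_lit 76) (nat_lit 0) (XT.lf (nat_lit 152) (nat_lit 823295499) (nat_lit 0) (nat_lit 42330017) (nat_lit 76) (nat_lit 42330017) (nat_lit 154) (nat_lit 1) (nat_lit 152) (nat_lit 1) (nat_lit 153) (nat_lit 1) (nat_lit 426) (nat_lit 348) (nat_lit 246)) (XT.nd (nat_lit 78) (nat_lit 76) (nat_lit 0) (XT.lf (nat_lit 0) (nat_lit 258005456) (nat_lit 0) (nat_lit 377028633) (nat_lit 152) (nat_lit 258005456) (nat_lit 152) (nat_lit 3) (nat_lit 152) (nat_lit 1) (nat_lit 154) (nat_lit 1) (nat_lit 427) (nat_lit 348) (nat_lit 245)) (XT.lf (nat_lit 76) (nat_lit 217277817) (nat_lit 0) (nat_lit 330633224) (nat_lit 76) (nat_lit 330633224) (nat_lit 152) (nat_lit 3) (nat_lit 151) (nat_lit 1) (nat_lit 152) (nat_lit 1) (nat_lit 428) (nat_lit 348) (nat_lit 244)))) (XT.nd (nat_lit 78) (nat_lit 76) (nat_lit 0) (XT.lf (nat_lit 152) (nat_lit 794808141) (nat_lit 0)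 (nat_lit 34825009) (nat_lit 76) (nat_lit 34825009) (nat_lit 151) (nat_lit 1) (nat_lit 149) (nat_lit 1) (nat_lit 150) (nat_lit 1) (nat_lit 429) (nat_lit 348) (nat_lit 243)) (XT.nd (nat_lit 78) (nat_lit 76) (nat_lit 0) (XT.lf (nat_lit 0) (nat_lit 250780054) (nat_lit 0) (nat_lit 348700716) (nat_lit 152) (nat_lit 250780054) (nat_lit 149) (nat_lit 3) (nat_lit 149) (nat_lit 1) (nat_lit 151) (nat_lit 1) (nat_lit 430) (nat_lit 348) (nat_lit 242)) (XT.lf (nat_lit 76) (nat_lit 216652061) (nat_lit 0) (nat_lit 309909835) (nat_lit 76) (nat_lit 309909835) (nat_lit 149) (nat_lit 3) (nat_lit 148) (nat_lit 1) (nat_lit 149) (nat_lit 1) (nat_lit 431) (nat_lit 348) (nat_lit 241))))) (XT.nd (nat_lit 234) (nat_lit 380) (nat_lit 0) (XT.nd (nat_lit 78) (nat_lit 76) (nat_lit 0) (XT.lf (nat_lit 152) (nat_lit 765777193) (nat_lit 0) (nat_lit 28650621) (nat_lit 76) (nat_lit 28650621) (nat_lit 148) (nat_lit 1) (nat_lit 146)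 (nat_lit 1) (nat_lit 147) (nat_lit 1) (nat_lit 432) (nat_lit 348) (nat_lit 240)) (XT.nd (nat_lit 78) (nat_lit 76) (nat_lit 0) (XT.lf (nat_lit 0) (nat_lit 243001491) (nat_lit 0) (nat_lit 323561063) (nat_lit 152) (nat_lit 243001491) (nat_lit 146) (nat_lit 3) (nat_lit 146) (nat_lit 1) (nat_lit 148) (nat_lit 1) (nat_lit 433) (nat_lit 348) (nat_lit 239)) (XT.lf (nat_lit 76) (nat_lit 214332628) (nat_lit 0) (nat_lit 291056030) (nat_lit 76) (nat_lit 291056030) (nat_lit 146) (nat_lit 3) (nat_lit 145) (nat_lit 1) (nat_lit 146) (nat_lit 1) (nat_lit 434) (nat_lit 348) (nat_lit 238)))) (XT.nd (nat_lit 156) (nat_lit 228) (nat_lit 0) (XT.nd (nat_lit 78) (nat_lit 0) (nat_lit 0) (XT.lf (nat_lit 152) (nat_lit 736565428) (nat_lit 0) (nat_lit 23570937) (nat_lit 76) (nat_lit 23570937) (nat_lit 145) (nat_lit 1) (nat_lit 143) (nat_lit 1) (nat_lit 144) (nat_lit 1) (nat_lit 435) (nat_lit 348) (nat_lit 237)) (XT.lf (nat_lit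 0) (nat_lit 234855186) (nat_lit 0) (nat_lit 301131745) (nat_lit 152) (nat_lit 234855186) (nat_lit 143) (nat_lit 3) (nat_lit 143) (nat_lit 1) (nat_lit 145) (nat_lit 1) (nat_lit 436) (nat_lit 348) (nat_lit 236))) (XT.nd (nat_lit 78) (nat_lit 152) (nat_lit 0) (XT.lf (nat_lit 76) (nat_lit 210705737) (nat_lit 0) (nat_lit 273826269) (nat_lit 76) (nat_lit 273826269) (nat_lit 143) (nat_lit 3) (nat_lit 142) (nat_lit 1) (nat_lit 143) (nat_lit 1) (nat_lit 437) (nat_lit 348) (nat_lit 235)) (XT.lf (nat_lit 152) (nat_lit 707458616) (nat_lit 0) (nat_lit 19391868) (nat_lit 76) (nat_lit 19391868) (nat_lit 142) (nat_lit 1) (nat_lit 140) (nat_lit 1) (nat_lit 141) (nat_lit 1) (nat_lit 438) (nat_lit 348) (nat_lit 234))))))))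
noncomputable def ec76 : XT := (XT.nd (nat_lit 45006) (nat_lit 0) (nat_lit 7448) (XT.nd (nat_lit 43992) (nat_lit 0) (nat_lit 11552) (XT.nd (nat_lit 468) (nat_lit 456) (nat_lit 0) (XT.nd (nat_lit 234) (nat_lit 228) (nat_lit 0) (XT.nd (nat_lit 78) (nat_lit 228) (nat_lit 0) (XT.lf (nat_lit 0) (nat_lit 226489522) (nat_lit 0) (nat_lit 281015411) (nat_lit 152) (nat_lit 226489522) (nat_lit 140) (nat_lit 3) (nat_lit 140) (nat_lit 1) (nat_lit 142) (nat_lit 1) (nat_lit 439) (nat_lit 348) (nat_lit 233)) (XT.nd (nat_lit 78) (nat_lit 152) (nat_lit 0) (XT.lf (nat_lit 76) (nat_lit 206085040) (nat_lit 0) (nat_lit 258014458) (nat_lit 76) (nat_lit 258014458) (nat_lit 140) (nat_lit 3) (nat_lit 139) (nat_lit 1) (nat_lit 140) (nat_lit 1) (nat_lit 440) (nat_lit 348) (nat_lit 232)) (XT.lf (nat_lit 152) (nat_lit 678679778) (nat_lit 0) (nat_lit 15953738) (nat_lit 76) (nat_lit 15953738) (nat_lit 139) (nat_lit 1) (nat_lit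 137) (nat_lit 1) (nat_lit 138) (nat_lit 1) (nat_lit 441) (nat_lit 348) (nat_lit 231)))) (XT.nd (nat_lit 78) (nat_lit 228) (nat_lit 0) (XT.lf (nat_lit 0) (nat_lit 218022613) (nat_lit 0) (nat_lit 262881196) (nat_lit 152) (nat_lit 218022613) (nat_lit 137) (nat_lit 3) (nat_lit 137) (nat_lit 1) (nat_lit 139) (nat_lit 1) (nat_lit 442) (nat_lit 348) (nat_lit 230)) (XT.nd (nat_lit 78) (nat_lit 152) (nat_lit 0) (XT.lf (nat_lit 76) (nat_lit 200724680) (nat_lit 0) (nat_lit 243447141) (nat_lit 76) (nat_lit 243447141) (nat_lit 137) (nat_lit 3) (nat_lit 136) (nat_lit 1) (nat_lit 137) (nat_lit 1) (nat_lit 443) (nat_lit 348) (nat_lit 229)) (XT.lf (nat_lit 152) (nat_lit 650400890) (nat_lit 0) (nat_lit 13125179) (nat_lit 76) (nat_lit 13125179) (nat_lit 136) (nat_lit 1) (nat_lit 134) (nat_lit 1) (nat_lit 135) (nat_lit 1) (nat_lit 444) (nat_lit 348) (nat_lit 228))))) (XT.nd (nat_lit 234) (nat_lit 228) (nat_lit 0)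 (XT.nd (nat_lit 78) (nat_lit 228) (nat_lit 0) (XT.lf (nat_lit 0) (nat_lit 209547860) (nat_lit 0) (nat_lit 246453128) (nat_lit 152) (nat_lit 209547860) (nat_lit 134) (nat_lit 3) (nat_lit 134) (nat_lit 1) (nat_lit 136) (nat_lit 1) (nat_lit 445) (nat_lit 348) (nat_lit 227)) (XT.nd (nat_lit 78) (nat_lit 152) (nat_lit 0) (XT.lf (nat_lit 76) (nat_lit 194830032) (nat_lit 0) (nat_lit 229977906) (nat_lit 76) (nat_lit 229977906) (nat_lit 134) (nat_lit 3) (nat_lit 133) (nat_lit 1) (nat_lit 134) (nat_lit 1) (nat_lit 446) (nat_lit 348) (nat_lit 226)) (XT.lf (nat_lit 152) (nat_lit 622752475) (nat_lit 0) (nat_lit 10798118) (nat_lit 76) (nat_lit 10798118) (nat_lit 133) (nat_lit 1) (nat_lit 131) (nat_lit 1) (nat_lit 132) (nat_lit 1) (nat_lit 447) (nat_lit 348) (nat_lit 225)))) (XT.nd (nat_lit 78) (nat_lit 228) (nat_lit 0) (XT.lf (nat_lit 0) (nat_lit 201138511) (nat_lit 0) (nat_lit 231500566) (nat_lit 152) (nat_lit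 201138511) (nat_lit 131) (nat_lit 3) (nat_lit 131) (nat_lit 1) (nat_lit 133) (nat_lit 1) (nat_lit 448) (nat_lit 348) (nat_lit 224)) (XT.nd (nat_lit 78) (nat_lit 152) (nat_lit 0) (XT.lf (nat_lit 76) (nat_lit 188566521) (nat_lit 0) (nat_lit 217482764) (nat_lit 76) (nat_lit 217482764) (nat_lit 131) (nat_lit 3) (nat_lit 130) (nat_lit 1) (nat_lit 131) (nat_lit 1) (nat_lit 449) (nat_lit 348) (nat_lit 223)) (XT.lf (nat_lit 152) (nat_lit 595831482) (nat_lit 0) (nat_lit 8883638) (nat_lit 76) (nat_lit 8883638) (nat_lit 130) (nat_lit 1) (nat_lit 128) (nat_lit 1) (nat_lit 129) (nat_lit 1) (nat_lit 450) (nat_lit 348) (nat_lit 222)))))) (XT.nd (nat_lit 468) (nat_lit 912) (nat_lit 0) (XT.nd (nat_lit 234) (nat_lit 0) (nat_lit 76) (XT.nd (nat_lit 78) (nat_lit 0) (nat_lit 0) (XT.lf (nat_lit 836) (nat_lit 833591678) (nat_lit 0) (nat_lit 1480040109) (nat_lit 836) (nat_lit 833591678) (nat_lit 303) (nat_lit 1) (nat_lit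 292) (nat_lit 0) (nat_lit 303) (nat_lit 0) (nat_lit 322) (nat_lit 349) (nat_lit 349)) (XT.nd (nat_lit 78) (nat_lit 0) (nat_lit 76) (XT.lf (nat_lit 836) (nat_lit 3231105416) (nat_lit 76) (nat_lit 1456168494) (nat_lit 0) (nat_lit 1456168494) (nat_lit 303) (nat_lit 1) (nat_lit 293) (nat_lit 1) (nat_lit 292) (nat_lit 0) (nat_lit 323) (nat_lit 349) (nat_lit 348)) (XT.lf (nat_lit 836) (nat_lit 1539896190) (nat_lit 0) (nat_lit 2917313857) (nat_lit 760) (nat_lit 1539896190) (nat_lit 304) (nat_lit 1) (nat_lit 293) (nat_lit 1) (nat_lit 303) (nat_lit 1) (nat_lit 324) (nat_lit 349) (nat_lit 347)))) (XT.nd (nat_lit 78) (nat_lit 0) (nat_lit 76) (XT.lf (nat_lit 836) (nat_lit 2888631279) (nat_lit 76) (nat_lit 1483433270) (nat_lit 0) (nat_lit 1483433270) (nat_lit 304) (nat_lit 1) (nat_lit 294) (nat_lit 1) (nat_lit 293) (nat_lit 1) (nat_lit 325) (nat_lit 349) (nat_lit 346)) (XT.nd (nat_lit 78) (nat_lit 0) (nat_lit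 0) (XT.lf (nat_lit 836) (nat_lit 1329609238) (nat_lit 0) (nat_lit 3059159203) (nat_lit 760) (nat_lit 1329609238) (nat_lit 305) (nat_lit 1) (nat_lit 294) (nat_lit 1) (nat_lit 304) (nat_lit 1) (nat_lit 326) (nat_lit 349) (nat_lit 345)) (XT.lf (nat_lit 836) (nat_lit 2391388815) (nat_lit 76) (nat_lit 1597024334) (nat_lit 0) (nat_lit 1597024334) (nat_lit 305) (nat_lit 1) (nat_lit 295) (nat_lit 1) (nat_lit 294) (nat_lit 1) (nat_lit 327) (nat_lit 349) (nat_lit 344))))) (XT.nd (nat_lit 234) (nat_lit 1140) (nat_lit 0) (XT.nd (nat_lit 78) (nat_lit 0) (nat_lit 0) (XT.lf (nat_lit 836) (nat_lit 1048554925) (nat_lit 0) (nat_lit 3359851108) (nat_lit 760) (nat_lit 1048554925) (nat_lit 306) (nat_lit 1) (nat_lit 295) (nat_lit 1) (nat_lit 305) (nat_lit 1) (nat_lit 328) (nat_lit 349) (nat_lit 343)) (XT.nd (nat_lit 78) (nat_lit 0) (nat_lit 76) (XT.lf (nat_lit 836) (nat_lit 1762653025) (nat_lit 76) (nat_lit 1784684404)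 (nat_lit 0) (nat_lit 1784684404) (nat_lit 306) (nat_lit 1) (nat_lit 296) (nat_lit 1) (nat_lit 295) (nat_lit 1) (nat_lit 329) (nat_lit 349) (nat_lit 342)) (XT.lf (nat_lit 836) (nat_lit 707613381) (nat_lit 0) (nat_lit 3796429430) (nat_lit 760) (nat_lit 707613381) (nat_lit 307) (nat_lit 1) (nat_lit 296) (nat_lit 1) (nat_lit 306) (nat_lit 1) (nat_lit 330) (nat_lit 349) (nat_lit 341)))) (XT.nd (nat_lit 156) (nat_lit 1216) (nat_lit 0) (XT.nd (nat_lit 78) (nat_lit 0) (nat_lit 76) (XT.lf (nat_lit 836) (nat_lit 1023111876) (nat_lit 76) (nat_lit 2035497264) (nat_lit 0) (nat_lit 2035497264) (nat_lit 307) (nat_lit 1) (nat_lit 297) (nat_lit 1) (nat_lit 296) (nat_lit 1) (nat_lit 331) (nat_lit 349) (nat_lit 340)) (XT.lf (nat_lit 76) (nat_lit 316448400) (nat_lit 0) (nat_lit 4348458743) (nat_lit 760) (nat_lit 316448400) (nat_lit 298) (nat_lit 1) (nat_lit 297) (nat_lit 1) (nat_lit 307) (nat_lit 1) (nat_lit 332)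 (nat_lit 349) (nat_lit 339))) (XT.nd (nat_lit 78) (nat_lit 532) (nat_lit 0) (XT.lf (nat_lit 836) (nat_lit 191126964) (nat_lit 0) (nat_lit 2339753488) (nat_lit 760) (nat_lit 2339753488) (nat_lit 298) (nat_lit 1) (nat_lit 287) (nat_lit 1) (nat_lit 297) (nat_lit 1) (nat_lit 333) (nat_lit 349) (nat_lit 338)) (XT.lf (nat_lit 532) (nat_lit 4535683566) (nat_lit 0) (nat_lit 114492790) (nat_lit 456) (nat_lit 114492790) (nat_lit 287) (nat_lit 1) (nat_lit 280) (nat_lit 1) (nat_lit 286) (nat_lit 1) (nat_lit 334) (nat_lit 349) (nat_lit 337))))))) (XT.nd (nat_lit 936) (nat_lit 2052) (nat_lit 0) (XT.nd (nat_lit 468) (nat_lit 988) (nat_lit 0) (XT.nd (nat_lit 234) (nat_lit 684) (nat_lit 0) (XT.nd (nat_lit 78) (nat_lit 380) (nat_lit 0) (XT.lf (nat_lit 76) (nat_lit 1982992961) (nat_lit 0) (nat_lit 694081538) (nat_lit 532) (nat_lit 1982992961) (nat_lit 281) (nat_lit 1) (nat_lit 280) (nat_lit 1) (nat_lit 287) (nat_lit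 1) (nat_lit 335) (nat_lit 349) (nat_lit 336)) (XT.nd (nat_lit 78) (nat_lit 0) (nat_lit 0) (XT.lf (nat_lit 456) (nat_lit 3412221874) (nat_lit 0) (nat_lit 573845922) (nat_lit 380) (nat_lit 573845922) (nat_lit 281) (nat_lit 1) (nat_lit 275) (nat_lit 1) (nat_lit 280) (nat_lit 1) (nat_lit 336) (nat_lit 349) (nat_lit 335)) (XT.lf (nat_lit 76) (nat_lit 1414444739) (nat_lit 0) (nat_lit 1632976007) (nat_lit 456) (nat_lit 1414444739) (nat_lit 276) (nat_lit 1) (nat_lit 275) (nat_lit 1) (nat_lit 281) (nat_lit 1) (nat_lit 337) (nat_lit 349) (nat_lit 334)))) (XT.nd (nat_lit 78) (nat_lit 304) (nat_lit 0) (XT.lf (nat_lit 456) (nat_lit 2246996493) (nat_lit 0) (nat_lit 1060117758) (nat_lit 380) (nat_lit 1060117758) (nat_lit 276) (nat_lit 1) (nat_lit 270) (nat_lit 1) (nat_lit 275) (nat_lit 1) (nat_lit 338) (nat_lit 349) (nat_lit 333)) (XT.nd (nat_lit 78) (nat_lit 304) (nat_lit 0) (XT.lf (nat_lit 76) (nat_lit 827988345)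 (nat_lit 0) (nat_lit 2619374104) (nat_lit 456) (nat_lit 827988345) (nat_lit 271) (nat_lit 1) (nat_lit 270) (nat_lit 1) (nat_lit 276) (nat_lit 1) (nat_lit 339) (nat_lit 349) (nat_lit 332)) (XT.lf (nat_lit 380) (nat_lit 1050852718) (nat_lit 0) (nat_lit 1567490174) (nat_lit 304) (nat_lit 1567490174) (nat_lit 271) (nat_lit 1) (nat_lit 266) (nat_lit 1) (nat_lit 270) (nat_lit 1) (nat_lit 340) (nat_lit 349) (nat_lit 331))))) (XT.nd (nat_lit 234) (nat_lit 304) (nat_lit 0) (XT.nd (nat_lit 78) (nat_lit 684) (nat_lit 0) (XT.lf (nat_lit 76) (nat_lit 228658539) (nat_lit 0) (nat_lit 3642440672) (nat_lit 380) (nat_lit 228658539) (nat_lit 267) (nat_lit 1) (nat_lit 266) (nat_lit 1) (nat_lit 271) (nat_lit 1) (nat_lit 341) (nat_lit 349) (nat_lit 330)) (XT.nd (nat_lit 78) (nat_lit 304) (nat_lit 0) (XT.lf (nat_lit 76) (nat_lit 1926742559) (nat_lit 0) (nat_lit 161368432) (nat_lit 380) (nat_lit 1926742559) (nat_lit 262)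 (nat_lit 1) (nat_lit 261) (nat_lit 1) (nat_lit 266) (nat_lit 1) (nat_lit 342) (nat_lit 349) (nat_lit 329)) (XT.lf (nat_lit 380) (nat_lit 3187136043) (nat_lit 0) (nat_lit 373023333) (nat_lit 304) (nat_lit 373023333) (nat_lit 262) (nat_lit 1) (nat_lit 257) (nat_lit 1) (nat_lit 261) (nat_lit 1) (nat_lit 343) (nat_lit 349) (nat_lit 328)))) (XT.nd (nat_lit 78) (nat_lit 304) (nat_lit 0) (XT.lf (nat_lit 76) (nat_lit 1250134872) (nat_lit 0) (nat_lit 1352643205) (nat_lit 380) (nat_lit 1250134872) (nat_lit 258) (nat_lit 1) (nat_lit 257) (nat_lit 1) (nat_lit 262) (nat_lit 1) (nat_lit 344) (nat_lit 349) (nat_lit 327)) (XT.nd (nat_lit 78) (nat_lit 0) (nat_lit 0) (XT.lf (nat_lit 380) (nat_lit 1824294539) (nat_lit 0) (nat_lit 975566062) (nat_lit 304) (nat_lit 975566062) (nat_lit 258) (nat_lit 1) (nat_lit 253) (nat_lit 1) (nat_lit 257) (nat_lit 1) (nat_lit 345) (nat_lit 349) (nat_lit 326)) (XT.lf (nat_lit 76)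 (nat_lit 575301080) (nat_lit 0) (nat_lit 2549603921) (nat_lit 380) (nat_lit 575301080) (nat_lit 254) (nat_lit 1) (nat_lit 253) (nat_lit 1) (nat_lit 258) (nat_lit 1) (nat_lit 346) (nat_lit 349) (nat_lit 325)))))) (XT.nd (nat_lit 468) (nat_lit 988) (nat_lit 0) (XT.nd (nat_lit 234) (nat_lit 456) (nat_lit 0) (XT.nd (nat_lit 78) (nat_lit 380) (nat_lit 0) (XT.lf (nat_lit 304) (nat_lit 467867729) (nat_lit 0) (nat_lit 1579370742) (nat_lit 228) (nat_lit 1579370742) (nat_lit 254) (nat_lit 1) (nat_lit 250) (nat_lit 1) (nat_lit 253) (nat_lit 1) (nat_lit 347) (nat_lit 349) (nat_lit 324)) (XT.nd (nat_lit 78) (nat_lit 0) (nat_lit 0) (XT.lf (nat_lit 380) (nat_lit 3368891950) (nat_lit 0) (nat_lit 93480287) (nat_lit 304) (nat_lit 93480287) (nat_lit 250) (nat_lit 1) (nat_lit 245) (nat_lit 1) (nat_lit 249) (nat_lit 1) (nat_lit 348) (nat_lit 349) (nat_lit 323)) (XT.lf (nat_lit 76) (nat_lit 1318272325) (nat_lit 0) (nat_lit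 848942814) (nat_lit 380) (nat_lit 1318272325) (nat_lit 246) (nat_lit 1) (nat_lit 245) (nat_lit 1) (nat_lit 250) (nat_lit 1) (nat_lit 349) (nat_lit 349) (nat_lit 322)))) (XT.nd (nat_lit 78) (nat_lit 228) (nat_lit 0) (XT.lf (nat_lit 304) (nat_lit 1925378408) (nat_lit 0) (nat_lit 746221343) (nat_lit 228) (nat_lit 746221343) (nat_lit 246) (nat_lit 1) (nat_lit 242) (nat_lit 1) (nat_lit 245) (nat_lit 1) (nat_lit 350) (nat_lit 349) (nat_lit 321)) (XT.nd (nat_lit 78) (nat_lit 228) (nat_lit 0) (XT.lf (nat_lit 76) (nat_lit 608256821) (nat_lit 0) (nat_lit 2135360260) (nat_lit 304) (nat_lit 608256821) (nat_lit 243) (nat_lit 1) (nat_lit 242) (nat_lit 1) (nat_lit 246) (nat_lit 1) (nat_lit 351) (nat_lit 349) (nat_lit 320)) (XT.lf (nat_lit 304) (nat_lit 506963049) (nat_lit 0) (nat_lit 1390231972) (nat_lit 228) (nat_lit 1390231972) (nat_lit 243) (nat_lit 1) (nat_lit 239) (nat_lit 1) (nat_lit 242) (nat_lit 1) (nat_lit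 352) (nat_lit 349) (nat_lit 319))))) (XT.nd (nat_lit 234) (nat_lit 456) (nat_lit 0) (XT.nd (nat_lit 78) (nat_lit 228) (nat_lit 0) (XT.lf (nat_lit 304) (nat_lit 3051120695) (nat_lit 0) (nat_lit 87126836) (nat_lit 228) (nat_lit 87126836) (nat_lit 239) (nat_lit 1) (nat_lit 235) (nat_lit 1) (nat_lit 238) (nat_lit 1) (nat_lit 353) (nat_lit 349) (nat_lit 318)) (XT.nd (nat_lit 78) (nat_lit 228) (nat_lit 0) (XT.lf (nat_lit 76) (nat_lit 1154151580) (nat_lit 0) (nat_lit 855214732) (nat_lit 304) (nat_lit 1154151580) (nat_lit 236) (nat_lit 1) (nat_lit 235) (nat_lit 1) (nat_lit 239) (nat_lit 1) (nat_lit 354) (nat_lit 349) (nat_lit 317)) (XT.lf (nat_lit 304) (nat_lit 1587064103) (nat_lit 0) (nat_lit 758443006) (nat_lit 228) (nat_lit 758443006) (nat_lit 236) (nat_lit 1) (nat_lit 232) (nat_lit 1) (nat_lit 235) (nat_lit 1) (nat_lit 355) (nat_lit 349) (nat_lit 316)))) (XT.nd (nat_lit 156) (nat_lit 304) (nat_lit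 0) (XT.nd (nat_lit 78) (nat_lit 152) (nat_lit 0) (XT.lf (nat_lit 76) (nat_lit 437076159) (nat_lit 0) (nat_lit 2171827655) (nat_lit 304) (nat_lit 437076159) (nat_lit 233) (nat_lit 1) (nat_lit 232) (nat_lit 1) (nat_lit 236) (nat_lit 1) (nat_lit 356) (nat_lit 349) (nat_lit 315)) (XT.lf (nat_lit 228) (nat_lit 160159237) (nat_lit 0) (nat_lit 1414471504) (nat_lit 152) (nat_lit 1414471504) (nat_lit 233) (nat_lit 1) (nat_lit 230) (nat_lit 1) (nat_lit 232) (nat_lit 1) (nat_lit 357) (nat_lit 349) (nat_lit 314))) (XT.nd (nat_lit 78) (nat_lit 0) (nat_lit 0) (XT.lf (nat_lit 304) (nat_lit 2419952374) (nat_lit 0) (nat_lit 257016482) (nat_lit 228) (nat_lit 257016482) (nat_lit 230) (nat_lit 1) (nat_lit 226) (nat_lit 1) (nat_lit 229) (nat_lit 1) (nat_lit 358) (nat_lit 349) (nat_lit 313)) (XT.lf (nat_lit 76) (nat_lit 845231921) (nat_lit 0) (nat_lit 1189021020) (nat_lit 304) (nat_lit 845231921) (nat_lit 227) (nat_lit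 1) (nat_lit 226) (nat_lit 1) (nat_lit 230) (nat_lit 1) (nat_lit 359) (nat_lit 349) (nat_lit 312))))))))
noncomputable def ec77 : XT := (XT.nd (nat_lit 1950) (nat_lit 1900) (nat_lit 0) (XT.nd (nat_lit 936) (nat_lit 1216) (nat_lit 0) (XT.nd (nat_lit 468) (nat_lit 684) (nat_lit 0) (XT.nd (nat_lit 234) (nat_lit 304) (nat_lit 0) (XT.nd (nat_lit 78) (nat_lit 228) (nat_lit 0) (XT.lf (nat_lit 228) (nat_lit 976535102) (nat_lit 0) (nat_lit 925065659) (nat_lit 152) (nat_lit 925065659) (nat_lit 227) (nat_lit 1) (nat_lit 224) (nat_lit 1) (nat_lit 226) (nat_lit 1) (nat_lit 360) (nat_lit 349) (nat_lit 311)) (XT.nd (nat_lit 78) (nat_lit 228) (nat_lit 0) (XT.lf (nat_lit 76) (nat_lit 140297098) (nat_lit 0) (nat_lit 2495006624) (nat_lit 228) (nat_lit 140297098) (nat_lit 225) (nat_lit 1) (nat_lit 224) (nat_lit 1) (nat_lit 227) (nat_lit 1) (nat_lit 361) (nat_lit 349) (nat_lit 310)) (XT.lf (nat_lit 76) (nat_lit 1157896568)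 (nat_lit 0) (nat_lit 408927711) (nat_lit 228) (nat_lit 1157896568) (nat_lit 222) (nat_lit 1) (nat_lit 221) (nat_lit 1) (nat_lit 224) (nat_lit 1) (nat_lit 362) (nat_lit 349) (nat_lit 309)))) (XT.nd (nat_lit 78) (nat_lit 152) (nat_lit 0) (XT.lf (nat_lit 228) (nat_lit 1607942323) (nat_lit 0) (nat_lit 533793285) (nat_lit 152) (nat_lit 533793285) (nat_lit 222) (nat_lit 1) (nat_lit 219) (nat_lit 1) (nat_lit 221) (nat_lit 1) (nat_lit 363) (nat_lit 349) (nat_lit 308)) (XT.nd (nat_lit 78) (nat_lit 152) (nat_lit 0) (XT.lf (nat_lit 76) (nat_lit 453719491) (nat_lit 0) (nat_lit 1719985210) (nat_lit 228) (nat_lit 453719491) (nat_lit 220) (nat_lit 1) (nat_lit 219) (nat_lit 1) (nat_lit 222) (nat_lit 1) (nat_lit 364) (nat_lit 349) (nat_lit 307)) (XT.lf (nat_lit 228) (nat_lit 212551246) (nat_lit 0) (nat_lit 1183868955) (nat_lit 152) (nat_lit 1183868955) (nat_lit 220) (nat_lit 1) (nat_lit 217) (nat_lit 1) (nat_lit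 219) (nat_lit 1) (nat_lit 365) (nat_lit 349) (nat_lit 306))))) (XT.nd (nat_lit 234) (nat_lit 304) (nat_lit 0) (XT.nd (nat_lit 78) (nat_lit 152) (nat_lit 0) (XT.lf (nat_lit 228) (nat_lit 2089090965) (nat_lit 0) (nat_lit 222714465) (nat_lit 152) (nat_lit 222714465) (nat_lit 217) (nat_lit 1) (nat_lit 214) (nat_lit 1) (nat_lit 216) (nat_lit 1) (nat_lit 366) (nat_lit 349) (nat_lit 305)) (XT.nd (nat_lit 78) (nat_lit 152) (nat_lit 0) (XT.lf (nat_lit 76) (nat_lit 695463501) (nat_lit 0) (nat_lit 1098214266) (nat_lit 228) (nat_lit 695463501) (nat_lit 215) (nat_lit 1) (nat_lit 214) (nat_lit 1) (nat_lit 217) (nat_lit 1) (nat_lit 367) (nat_lit 349) (nat_lit 304)) (XT.lf (nat_lit 228) (nat_lit 708295811) (nat_lit 0) (nat_lit 868392118) (nat_lit 152) (nat_lit 868392118) (nat_lit 215) (nat_lit 1) (nat_lit 212) (nat_lit 1) (nat_lit 214) (nat_lit 1) (nat_lit 368) (nat_lit 349) (nat_lit 303)))) (XT.nd (nat_lit 78)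 (nat_lit 304) (nat_lit 0) (XT.lf (nat_lit 76) (nat_lit 23279729) (nat_lit 0) (nat_lit 2356004596) (nat_lit 228) (nat_lit 23279729) (nat_lit 213) (nat_lit 1) (nat_lit 212) (nat_lit 1) (nat_lit 215) (nat_lit 1) (nat_lit 369) (nat_lit 349) (nat_lit 302)) (XT.nd (nat_lit 78) (nat_lit 152) (nat_lit 0) (XT.lf (nat_lit 76) (nat_lit 879004642) (nat_lit 0) (nat_lit 601768526) (nat_lit 152) (nat_lit 879004642) (nat_lit 211) (nat_lit 1) (nat_lit 210) (nat_lit 1) (nat_lit 212) (nat_lit 1) (nat_lit 370) (nat_lit 349) (nat_lit 301)) (XT.lf (nat_lit 228) (nat_lit 1090744693) (nat_lit 0) (nat_lit 613876153) (nat_lit 152) (nat_lit 613876153) (nat_lit 211) (nat_lit 1) (nat_lit 208) (nat_lit 1) (nat_lit 210) (nat_lit 1) (nat_lit 371) (nat_lit 349) (nat_lit 300)))))) (XT.nd (nat_lit 468) (nat_lit 608) (nat_lit 0) (XT.nd (nat_lit 234) (nat_lit 304) (nat_lit 0) (XT.nd (nat_lit 78) (nat_lit 304) (nat_lit 0) (XT.lf (nat_lit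 76) (nat_lit 218686772) (nat_lit 0) (nat_lit 1840956919) (nat_lit 228) (nat_lit 218686772) (nat_lit 209) (nat_lit 1) (nat_lit 208) (nat_lit 1) (nat_lit 211) (nat_lit 1) (nat_lit 372) (nat_lit 349) (nat_lit 299)) (XT.nd (nat_lit 78) (nat_lit 152) (nat_lit 0) (XT.lf (nat_lit 76) (nat_lit 1015392721) (nat_lit 0) (nat_lit 207709723) (nat_lit 152) (nat_lit 1015392721) (nat_lit 207) (nat_lit 1) (nat_lit 206) (nat_lit 1) (nat_lit 208) (nat_lit 1) (nat_lit 373) (nat_lit 349) (nat_lit 298)) (XT.lf (nat_lit 228) (nat_lit 1381194526) (nat_lit 0) (nat_lit 409273439) (nat_lit 152) (nat_lit 409273439) (nat_lit 207) (nat_lit 1) (nat_lit 204) (nat_lit 1) (nat_lit 206) (nat_lit 1) (nat_lit 374) (nat_lit 349) (nat_lit 297)))) (XT.nd (nat_lit 78) (nat_lit 304) (nat_lit 0) (XT.lf (nat_lit 76) (nat_lit 369946988) (nat_lit 0) (nat_lit 1421860867) (nat_lit 228) (nat_lit 369946988) (nat_lit 205) (nat_lit 1) (nat_lit 204)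 (nat_lit 1) (nat_lit 207) (nat_lit 1) (nat_lit 375) (nat_lit 349) (nat_lit 296)) (XT.nd (nat_lit 78) (nat_lit 228) (nat_lit 0) (XT.lf (nat_lit 152) (nat_lit 106198308) (nat_lit 0) (nat_lit 1009143399) (nat_lit 76) (nat_lit 1009143399) (nat_lit 205) (nat_lit 1) (nat_lit 203) (nat_lit 1) (nat_lit 204) (nat_lit 1) (nat_lit 376) (nat_lit 349) (nat_lit 295)) (XT.lf (nat_lit 228) (nat_lit 1597108505) (nat_lit 0) (nat_lit 245506469) (nat_lit 152) (nat_lit 245506469) (nat_lit 203) (nat_lit 1) (nat_lit 200) (nat_lit 1) (nat_lit 202) (nat_lit 1) (nat_lit 377) (nat_lit 349) (nat_lit 294))))) (XT.nd (nat_lit 234) (nat_lit 304) (nat_lit 0) (XT.nd (nat_lit 78) (nat_lit 304) (nat_lit 0) (XT.lf (nat_lit 76) (nat_lit 485339959) (nat_lit 0) (nat_lit 1081483744) (nat_lit 228) (nat_lit 485339959) (nat_lit 201) (nat_lit 1) (nat_lit 200) (nat_lit 1) (nat_lit 203) (nat_lit 1) (nat_lit 378) (nat_lit 349) (nat_lit 293))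 (XT.nd (nat_lit 78) (nat_lit 228) (nat_lit 0) (XT.lf (nat_lit 152) (nat_lit 356637977) (nat_lit 0) (nat_lit 830224772) (nat_lit 76) (nat_lit 830224772) (nat_lit 201) (nat_lit 1) (nat_lit 199) (nat_lit 1) (nat_lit 200) (nat_lit 1) (nat_lit 379) (nat_lit 349) (nat_lit 292)) (XT.lf (nat_lit 228) (nat_lit 1752798786) (nat_lit 0) (nat_lit 115118016) (nat_lit 152) (nat_lit 115118016) (nat_lit 199) (nat_lit 1) (nat_lit 196) (nat_lit 1) (nat_lit 198) (nat_lit 1) (nat_lit 380) (nat_lit 349) (nat_lit 291)))) (XT.nd (nat_lit 156) (nat_lit 228) (nat_lit 0) (XT.nd (nat_lit 78) (nat_lit 76) (nat_lit 0) (XT.lf (nat_lit 76) (nat_lit 571655772) (nat_lit 0) (nat_lit 805658676) (nat_lit 228) (nat_lit 571655772) (nat_lit 197) (nat_lit 1) (nat_lit 196) (nat_lit 1) (nat_lit 199) (nat_lit 1) (nat_lit 381) (nat_lit 349) (nat_lit 290)) (XT.lf (nat_lit 152) (nat_lit 549853010) (nat_lit 0) (nat_lit 683027974) (nat_lit 76)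 (nat_lit 683027974) (nat_lit 197) (nat_lit 1) (nat_lit 195) (nat_lit 1) (nat_lit 196) (nat_lit 1) (nat_lit 382) (nat_lit 349) (nat_lit 289))) (XT.nd (nat_lit 78) (nat_lit 0) (nat_lit 0) (XT.lf (nat_lit 228) (nat_lit 1859987773) (nat_lit 0) (nat_lit 11983340) (nat_lit 152) (nat_lit 11983340) (nat_lit 195) (nat_lit 1) (nat_lit 192) (nat_lit 1) (nat_lit 194) (nat_lit 1) (nat_lit 383) (nat_lit 349) (nat_lit 288)) (XT.lf (nat_lit 76) (nat_lit 634460130) (nat_lit 0) (nat_lit 582740551) (nat_lit 228) (nat_lit 634460130) (nat_lit 193) (nat_lit 1) (nat_lit 192) (nat_lit 1) (nat_lit 195) (nat_lit 1) (nat_lit 384) (nat_lit 349) (nat_lit 287))))))) (XT.nd (nat_lit 1014) (nat_lit 912) (nat_lit 0) (XT.nd (nat_lit 468) (nat_lit 532) (nat_lit 0) (XT.nd (nat_lit 234) (nat_lit 228) (nat_lit 0) (XT.nd (nat_lit 78) (nat_lit 152) (nat_lit 0) (XT.lf (nat_lit 152) (nat_lit 696599778) (nat_lit 0) (nat_lit 561928805) (nat_lit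 76) (nat_lit 561928805) (nat_lit 193) (nat_lit 1) (nat_lit 191) (nat_lit 1) (nat_lit 192) (nat_lit 1) (nat_lit 385) (nat_lit 349) (nat_lit 286)) (XT.nd (nat_lit 78) (nat_lit 152) (nat_lit 0) (XT.lf (nat_lit 0) (nat_lit 70056492) (nat_lit 0) (nat_lit 1650083065) (nat_lit 152) (nat_lit 70056492) (nat_lit 191) (nat_lit 3) (nat_lit 191) (nat_lit 1) (nat_lit 193) (nat_lit 1) (nat_lit 386) (nat_lit 349) (nat_lit 285)) (XT.lf (nat_lit 76) (nat_lit 678312406) (nat_lit 0) (nat_lit 403158441) (nat_lit 152) (nat_lit 678312406) (nat_lit 190) (nat_lit 1) (nat_lit 189) (nat_lit 1) (nat_lit 191) (nat_lit 1) (nat_lit 387) (nat_lit 349) (nat_lit 284)))) (XT.nd (nat_lit 78) (nat_lit 152) (nat_lit 0) (XT.lf (nat_lit 152) (nat_lit 805698501) (nat_lit 0) (nat_lit 462300218) (nat_lit 76) (nat_lit 462300218) (nat_lit 190) (nat_lit 1) (nat_lit 188) (nat_lit 1) (nat_lit 189) (nat_lit 1) (nat_lit 388) (nat_lit 349) (nat_lit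 283)) (XT.nd (nat_lit 78) (nat_lit 152) (nat_lit 0) (XT.lf (nat_lit 0) (nat_lit 133899302) (nat_lit 0) (nat_lit 1433791073) (nat_lit 152) (nat_lit 133899302) (nat_lit 188) (nat_lit 3) (nat_lit 188) (nat_lit 1) (nat_lit 190) (nat_lit 1) (nat_lit 389) (nat_lit 349) (nat_lit 282)) (XT.lf (nat_lit 76) (nat_lit 706944997) (nat_lit 0) (nat_lit 259047398) (nat_lit 152) (nat_lit 706944997) (nat_lit 187) (nat_lit 1) (nat_lit 186) (nat_lit 1) (nat_lit 188) (nat_lit 1) (nat_lit 390) (nat_lit 349) (nat_lit 281))))) (XT.nd (nat_lit 234) (nat_lit 304) (nat_lit 0) (XT.nd (nat_lit 78) (nat_lit 152) (nat_lit 0) (XT.lf (nat_lit 152) (nat_lit 884377902) (nat_lit 0) (nat_lit 380335534) (nat_lit 76) (nat_lit 380335534) (nat_lit 187) (nat_lit 1) (nat_lit 185) (nat_lit 1) (nat_lit 186) (nat_lit 1) (nat_lit 391) (nat_lit 349) (nat_lit 280)) (XT.nd (nat_lit 78) (nat_lit 152) (nat_lit 0) (XT.lf (nat_lit 0) (nat_lit 182791336)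 (nat_lit 0) (nat_lit 1252215514) (nat_lit 152) (nat_lit 182791336) (nat_lit 185) (nat_lit 3) (nat_lit 185) (nat_lit 1) (nat_lit 187) (nat_lit 1) (nat_lit 392) (nat_lit 349) (nat_lit 279)) (XT.lf (nat_lit 76) (nat_lit 723410829) (nat_lit 0) (nat_lit 143945554) (nat_lit 152) (nat_lit 723410829) (nat_lit 184) (nat_lit 1) (nat_lit 183) (nat_lit 1) (nat_lit 185) (nat_lit 1) (nat_lit 393) (nat_lit 349) (nat_lit 278)))) (XT.nd (nat_lit 156) (nat_lit 228) (nat_lit 0) (XT.nd (nat_lit 78) (nat_lit 0) (nat_lit 0) (XT.lf (nat_lit 152) (nat_lit 938558700) (nat_lit 0) (nat_lit 312902985) (nat_lit 76) (nat_lit 312902985) (nat_lit 184) (nat_lit 1) (nat_lit 182) (nat_lit 1) (nat_lit 183) (nat_lit 1) (nat_lit 394) (nat_lit 349) (nat_lit 277)) (XT.lf (nat_lit 0) (nat_lit 219556266) (nat_lit 0) (nat_lit 1099374183) (nat_lit 152) (nat_lit 219556266) (nat_lit 182) (nat_lit 3) (nat_lit 182) (nat_lit 1) (nat_lit 184)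 (nat_lit 1) (nat_lit 395) (nat_lit 349) (nat_lit 276))) (XT.nd (nat_lit 78) (nat_lit 76) (nat_lit 0) (XT.lf (nat_lit 76) (nat_lit 730204670) (nat_lit 0) (nat_lit 52544953) (nat_lit 152) (nat_lit 730204670) (nat_lit 181) (nat_lit 1) (nat_lit 180) (nat_lit 1) (nat_lit 182) (nat_lit 1) (nat_lit 396) (nat_lit 349) (nat_lit 275)) (XT.lf (nat_lit 152) (nat_lit 973086766) (nat_lit 0) (nat_lit 257426060) (nat_lit 76) (nat_lit 257426060) (nat_lit 181) (nat_lit 1) (nat_lit 179) (nat_lit 1) (nat_lit 180) (nat_lit 1) (nat_lit 397) (nat_lit 349) (nat_lit 274)))))) (XT.nd (nat_lit 468) (nat_lit 456) (nat_lit 0) (XT.nd (nat_lit 234) (nat_lit 228) (nat_lit 0) (XT.nd (nat_lit 78) (nat_lit 228) (nat_lit 0) (XT.lf (nat_lit 0) (nat_lit 246508893) (nat_lit 0) (nat_lit 970337271) (nat_lit 152) (nat_lit 246508893) (nat_lit 179) (nat_lit 3) (nat_lit 179) (nat_lit 1) (nat_lit 181) (nat_lit 1) (nat_lit 398) (nat_lit 349)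 (nat_lit 273)) (XT.nd (nat_lit 78) (nat_lit 152) (nat_lit 0) (XT.lf (nat_lit 76) (nat_lit 20158634) (nat_lit 0) (nat_lit 709518994) (nat_lit 76) (nat_lit 709518994) (nat_lit 179) (nat_lit 3) (nat_lit 178) (nat_lit 1) (nat_lit 179) (nat_lit 1) (nat_lit 399) (nat_lit 349) (nat_lit 272)) (XT.lf (nat_lit 152) (nat_lit 991924892) (nat_lit 0) (nat_lit 211785056) (nat_lit 76) (nat_lit 211785056) (nat_lit 178) (nat_lit 1) (nat_lit 176) (nat_lit 1) (nat_lit 177) (nat_lit 1) (nat_lit 400) (nat_lit 349) (nat_lit 271)))) (XT.nd (nat_lit 78) (nat_lit 228) (nat_lit 0) (XT.lf (nat_lit 0) (nat_lit 265545772) (nat_lit 0) (nat_lit 861041170) (nat_lit 152) (nat_lit 265545772) (nat_lit 176) (nat_lit 3) (nat_lit 176) (nat_lit 1) (nat_lit 178) (nat_lit 1) (nat_lit 401) (nat_lit 349) (nat_lit 270)) (XT.nd (nat_lit 78) (nat_lit 152) (nat_lit 0) (XT.lf (nat_lit 76) (nat_lit 78314881) (nat_lit 0) (nat_lit 645453355) (nat_lit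 76) (nat_lit 645453355) (nat_lit 176) (nat_lit 3) (nat_lit 175) (nat_lit 1) (nat_lit 176) (nat_lit 1) (nat_lit 402) (nat_lit 349) (nat_lit 269)) (XT.lf (nat_lit 152) (nat_lit 998310493) (nat_lit 0) (nat_lit 174236090) (nat_lit 76) (nat_lit 174236090) (nat_lit 175) (nat_lit 1) (nat_lit 173) (nat_lit 1) (nat_lit 174) (nat_lit 1) (nat_lit 403) (nat_lit 349) (nat_lit 268))))) (XT.nd (nat_lit 234) (nat_lit 228) (nat_lit 0) (XT.nd (nat_lit 78) (nat_lit 228) (nat_lit 0) (XT.lf (nat_lit 0) (nat_lit 278219731) (nat_lit 0) (nat_lit 768135268) (nat_lit 152) (nat_lit 278219731) (nat_lit 173) (nat_lit 3) (nat_lit 173) (nat_lit 1) (nat_lit 175) (nat_lit 1) (nat_lit 404) (nat_lit 349) (nat_lit 267)) (XT.nd (nat_lit 78) (nat_lit 152) (nat_lit 0) (XT.lf (nat_lit 76) (nat_lit 123220630) (nat_lit 0) (nat_lit 589806856) (nat_lit 76) (nat_lit 589806856) (nat_lit 173) (nat_lit 3) (nat_lit 172) (nat_lit 1) (nat_lit 173)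 (nat_lit 1) (nat_lit 405) (nat_lit 349) (nat_lit 266)) (XT.lf (nat_lit 152) (nat_lit 994885303) (nat_lit 0) (nat_lit 143344462) (nat_lit 76) (nat_lit 143344462) (nat_lit 172) (nat_lit 1) (nat_lit 170) (nat_lit 1) (nat_lit 171) (nat_lit 1) (nat_lit 406) (nat_lit 349) (nat_lit 265)))) (XT.nd (nat_lit 156) (nat_lit 152) (nat_lit 0) (XT.nd (nat_lit 78) (nat_lit 76) (nat_lit 0) (XT.lf (nat_lit 0) (nat_lit 285801172) (nat_lit 0) (nat_lit 688855898) (nat_lit 152) (nat_lit 285801172) (nat_lit 170) (nat_lit 3) (nat_lit 170) (nat_lit 1) (nat_lit 172) (nat_lit 1) (nat_lit 407) (nat_lit 349) (nat_lit 264)) (XT.lf (nat_lit 76) (nat_lit 157365140) (nat_lit 0) (nat_lit 541226783) (nat_lit 76) (nat_lit 541226783) (nat_lit 170) (nat_lit 3) (nat_lit 169) (nat_lit 1) (nat_lit 170) (nat_lit 1) (nat_lit 408) (nat_lit 349) (nat_lit 263))) (XT.nd (nat_lit 78) (nat_lit 0) (nat_lit 0) (XT.lf (nat_lit 152) (nat_lit 983802020)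 (nat_lit 0) (nat_lit 117929844) (nat_lit 76) (nat_lit 117929844) (nat_lit 169) (nat_lit 1) (nat_lit 167) (nat_lit 1) (nat_lit 168) (nat_lit 1) (nat_lit 409) (nat_lit 349) (nat_lit 262)) (XT.lf (nat_lit 0) (nat_lit 289328486) (nat_lit 0) (nat_lit 620922605) (nat_lit 152) (nat_lit 289328486) (nat_lit 167) (nat_lit 3) (nat_lit 167) (nat_lit 1) (nat_lit 169) (nat_lit 1) (nat_lit 410) (nat_lit 349) (nat_lit 261))))))))
noncomputable def ec78 : XT := (XT.nd (nat_lit 1950) (nat_lit 1140) (nat_lit 0) (XT.nd (nat_lit 936) (nat_lit 988) (nat_lit 0) (XT.nd (nat_lit 468) (nat_lit 456) (nat_lit 0) (XT.nd (nat_lit 234) (nat_lit 228) (nat_lit 0) (XT.nd (nat_lit 78) (nat_lit 152) (nat_lit 0) (XT.lf (nat_lit 76) (nat_lit 182789664) (nat_lit 0) (nat_lit 498593587) (nat_lit 76) (nat_lit 498593587) (nat_lit 167) (nat_lit 3) (nat_lit 166) (nat_lit 1) (nat_lit 167) (nat_lit 1) (nat_lit 411) (nat_lit 349) (nat_lit 260))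 (XT.nd (nat_lit 78) (nat_lit 0) (nat_lit 0) (XT.lf (nat_lit 152) (nat_lit 966811994) (nat_lit 0) (nat_lit 97021174) (nat_lit 76) (nat_lit 97021174) (nat_lit 166) (nat_lit 1) (nat_lit 164) (nat_lit 1) (nat_lit 165) (nat_lit 1) (nat_lit 412) (nat_lit 349) (nat_lit 259)) (XT.lf (nat_lit 0) (nat_lit 289649503) (nat_lit 0) (nat_lit 562452806) (nat_lit 152) (nat_lit 289649503) (nat_lit 164) (nat_lit 3) (nat_lit 164) (nat_lit 1) (nat_lit 166) (nat_lit 1) (nat_lit 413) (nat_lit 349) (nat_lit 258)))) (XT.nd (nat_lit 78) (nat_lit 152) (nat_lit 0) (XT.lf (nat_lit 76) (nat_lit 201167198) (nat_lit 0) (nat_lit 460979868) (nat_lit 76) (nat_lit 460979868) (nat_lit 164) (nat_lit 3) (nat_lit 163) (nat_lit 1) (nat_lit 164) (nat_lit 1) (nat_lit 414) (nat_lit 349) (nat_lit 257)) (XT.nd (nat_lit 78) (nat_lit 0) (nat_lit 0) (XT.lf (nat_lit 152) (nat_lit 945337322) (nat_lit 0) (nat_lit 79819560) (nat_lit 76) (nat_lit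 79819560) (nat_lit 163) (nat_lit 1) (nat_lit 161) (nat_lit 1) (nat_lit 162) (nat_lit 1) (nat_lit 415) (nat_lit 349) (nat_lit 256)) (XT.lf (nat_lit 0) (nat_lit 287455593) (nat_lit 0) (nat_lit 511891545) (nat_lit 152) (nat_lit 287455593) (nat_lit 161) (nat_lit 3) (nat_lit 161) (nat_lit 1) (nat_lit 163) (nat_lit 1) (nat_lit 416) (nat_lit 349) (nat_lit 255))))) (XT.nd (nat_lit 234) (nat_lit 228) (nat_lit 0) (XT.nd (nat_lit 78) (nat_lit 152) (nat_lit 0) (XT.lf (nat_lit 76) (nat_lit 213868075) (nat_lit 0) (nat_lit 427616601) (nat_lit 76) (nat_lit 427616601) (nat_lit 161) (nat_lit 3) (nat_lit 160) (nat_lit 1) (nat_lit 161) (nat_lit 1) (nat_lit 417) (nat_lit 349) (nat_lit 254)) (XT.nd (nat_lit 78) (nat_lit 0) (nat_lit 0) (XT.lf (nat_lit 152) (nat_lit 920530118) (nat_lit 0) (nat_lit 65667750) (nat_lit 76) (nat_lit 65667750) (nat_lit 160) (nat_lit 1) (nat_lit 158) (nat_lit 1) (nat_lit 159) (nat_lit 1) (nat_lit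 418) (nat_lit 349) (nat_lit 253)) (XT.lf (nat_lit 0) (nat_lit 283309694) (nat_lit 0) (nat_lit 467953708) (nat_lit 152) (nat_lit 283309694) (nat_lit 158) (nat_lit 3) (nat_lit 158) (nat_lit 1) (nat_lit 160) (nat_lit 1) (nat_lit 419) (nat_lit 349) (nat_lit 252)))) (XT.nd (nat_lit 78) (nat_lit 152) (nat_lit 0) (XT.lf (nat_lit 76) (nat_lit 222013912) (nat_lit 0) (nat_lit 397865353) (nat_lit 76) (nat_lit 397865353) (nat_lit 158) (nat_lit 3) (nat_lit 157) (nat_lit 1) (nat_lit 158) (nat_lit 1) (nat_lit 420) (nat_lit 349) (nat_lit 251)) (XT.nd (nat_lit 78) (nat_lit 0) (nat_lit 0) (XT.lf (nat_lit 152) (nat_lit 893321229) (nat_lit 0) (nat_lit 54025020) (nat_lit 76) (nat_lit 54025020) (nat_lit 157) (nat_lit 1) (nat_lit 155) (nat_lit 1) (nat_lit 156) (nat_lit 1) (nat_lit 421) (nat_lit 349) (nat_lit 250)) (XT.lf (nat_lit 0) (nat_lit 277669365) (nat_lit 0) (nat_lit 429576452) (nat_lit 152) (nat_lit 277669365)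 (nat_lit 155) (nat_lit 3) (nat_lit 155) (nat_lit 1) (nat_lit 157) (nat_lit 1) (nat_lit 422) (nat_lit 349) (nat_lit 249)))))) (XT.nd (nat_lit 468) (nat_lit 532) (nat_lit 0) (XT.nd (nat_lit 234) (nat_lit 228) (nat_lit 0) (XT.nd (nat_lit 78) (nat_lit 152) (nat_lit 0) (XT.lf (nat_lit 76) (nat_lit 226521983) (nat_lit 0) (nat_lit 371195399) (nat_lit 76) (nat_lit 371195399) (nat_lit 155) (nat_lit 3) (nat_lit 154) (nat_lit 1) (nat_lit 155) (nat_lit 1) (nat_lit 423) (nat_lit 349) (nat_lit 248)) (XT.nd (nat_lit 78) (nat_lit 0) (nat_lit 0) (XT.lf (nat_lit 152) (nat_lit 864460274) (nat_lit 0) (nat_lit 44446518) (nat_lit 76) (nat_lit 44446518) (nat_lit 154) (nat_lit 1) (nat_lit 152) (nat_lit 1) (nat_lit 153) (nat_lit 1) (nat_lit 424) (nat_lit 349) (nat_lit 247)) (XT.lf (nat_lit 0) (nat_lit 270905729) (nat_lit 0) (nat_lit 395880065) (nat_lit 152) (nat_lit 270905729) (nat_lit 152) (nat_lit 3) (nat_lit 152) (nat_lit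 1) (nat_lit 154) (nat_lit 1) (nat_lit 425) (nat_lit 349) (nat_lit 246)))) (XT.nd (nat_lit 78) (nat_lit 152) (nat_lit 0) (XT.lf (nat_lit 76) (nat_lit 228141708) (nat_lit 0) (nat_lit 347164885) (nat_lit 76) (nat_lit 347164885) (nat_lit 152) (nat_lit 3) (nat_lit 151) (nat_lit 1) (nat_lit 152) (nat_lit 1) (nat_lit 426) (nat_lit 349) (nat_lit 245)) (XT.nd (nat_lit 78) (nat_lit 0) (nat_lit 0) (XT.lf (nat_lit 152) (nat_lit 834548548) (nat_lit 0) (nat_lit 36566260) (nat_lit 76) (nat_lit 36566260) (nat_lit 151) (nat_lit 1) (nat_lit 149) (nat_lit 1) (nat_lit 150) (nat_lit 1) (nat_lit 427) (nat_lit 349) (nat_lit 244)) (XT.lf (nat_lit 0) (nat_lit 263319056) (nat_lit 0) (nat_lit 366135752) (nat_lit 152) (nat_lit 263319056) (nat_lit 149) (nat_lit 3) (nat_lit 149) (nat_lit 1) (nat_lit 151) (nat_lit 1) (nat_lit 428) (nat_lit 349) (nat_lit 243))))) (XT.nd (nat_lit 234) (nat_lit 304) (nat_lit 0) (XT.nd (nat_lit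 78) (nat_lit 152) (nat_lit 0) (XT.lf (nat_lit 76) (nat_lit 227484664) (nat_lit 0) (nat_lit 325405327) (nat_lit 76) (nat_lit 325405327) (nat_lit 149) (nat_lit 3) (nat_lit 148) (nat_lit 1) (nat_lit 149) (nat_lit 1) (nat_lit 429) (nat_lit 349) (nat_lit 242)) (XT.nd (nat_lit 78) (nat_lit 0) (nat_lit 0) (XT.lf (nat_lit 152) (nat_lit 804066053) (nat_lit 0) (nat_lit 30083152) (nat_lit 76) (nat_lit 30083152) (nat_lit 148) (nat_lit 1) (nat_lit 146) (nat_lit 1) (nat_lit 147) (nat_lit 1) (nat_lit 430) (nat_lit 349) (nat_lit 241)) (XT.lf (nat_lit 0) (nat_lit 255151566) (nat_lit 0) (nat_lit 339739116) (nat_lit 152) (nat_lit 255151566) (nat_lit 146) (nat_lit 3) (nat_lit 146) (nat_lit 1) (nat_lit 148) (nat_lit 1) (nat_lit 431) (nat_lit 349) (nat_lit 240)))) (XT.nd (nat_lit 156) (nat_lit 76) (nat_lit 0) (XT.nd (nat_lit 78) (nat_lit 152) (nat_lit 0) (XT.lf (nat_lit 76) (nat_lit 225049260) (nat_lit 0) (nat_lit 305608831)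 (nat_lit 76) (nat_lit 305608831) (nat_lit 146) (nat_lit 3) (nat_lit 145) (nat_lit 1) (nat_lit 146) (nat_lit 1) (nat_lit 432) (nat_lit 349) (nat_lit 239)) (XT.lf (nat_lit 152) (nat_lit 773393699) (nat_lit 0) (nat_lit 24749484) (nat_lit 76) (nat_lit 24749484) (nat_lit 145) (nat_lit 1) (nat_lit 143) (nat_lit 1) (nat_lit 144) (nat_lit 1) (nat_lit 433) (nat_lit 349) (nat_lit 238))) (XT.nd (nat_lit 78) (nat_lit 76) (nat_lit 0) (XT.lf (nat_lit 0) (nat_lit 246597945) (nat_lit 0) (nat_lit 316188332) (nat_lit 152) (nat_lit 246597945) (nat_lit 143) (nat_lit 3) (nat_lit 143) (nat_lit 1) (nat_lit 145) (nat_lit 1) (nat_lit 434) (nat_lit 349) (nat_lit 237)) (XT.lf (nat_lit 76) (nat_lit 221241024) (nat_lit 0) (nat_lit 287517583) (nat_lit 76) (nat_lit 287517583) (nat_lit 143) (nat_lit 3) (nat_lit 142) (nat_lit 1) (nat_lit 143) (nat_lit 1) (nat_lit 435) (nat_lit 349) (nat_lit 236))))))) (XT.nd (nat_lit 936) (nat_lit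 228) (nat_lit 0) (XT.nd (nat_lit 468) (nat_lit 456) (nat_lit 0) (XT.nd (nat_lit 234) (nat_lit 228) (nat_lit 0) (XT.nd (nat_lit 78) (nat_lit 76) (nat_lit 0) (XT.lf (nat_lit 152) (nat_lit 742831547) (nat_lit 0) (nat_lit 20361462) (nat_lit 76) (nat_lit 20361462) (nat_lit 142) (nat_lit 1) (nat_lit 140) (nat_lit 1) (nat_lit 141) (nat_lit 1) (nat_lit 436) (nat_lit 349) (nat_lit 235)) (XT.nd (nat_lit 78) (nat_lit 76) (nat_lit 0) (XT.lf (nat_lit 0) (nat_lit 237813998) (nat_lit 0) (nat_lit 295066181) (nat_lit 152) (nat_lit 237813998) (nat_lit 140) (nat_lit 3) (nat_lit 140) (nat_lit 1) (nat_lit 142) (nat_lit 1) (nat_lit 437) (nat_lit 349) (nat_lit 234)) (XT.lf (nat_lit 76) (nat_lit 216389292) (nat_lit 0) (nat_lit 270915181) (nat_lit 76) (nat_lit 270915181) (nat_lit 140) (nat_lit 3) (nat_lit 139) (nat_lit 1) (nat_lit 140) (nat_lit 1) (nat_lit 438) (nat_lit 349) (nat_lit 233)))) (XT.nd (nat_lit 78) (nat_lit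 76) (nat_lit 0) (XT.lf (nat_lit 152) (nat_lit 712613767) (nat_lit 0) (nat_lit 16751425) (nat_lit 76) (nat_lit 16751425) (nat_lit 139) (nat_lit 1) (nat_lit 137) (nat_lit 1) (nat_lit 138) (nat_lit 1) (nat_lit 439) (nat_lit 349) (nat_lit 232)) (XT.nd (nat_lit 78) (nat_lit 76) (nat_lit 0) (XT.lf (nat_lit 0) (nat_lit 228923743) (nat_lit 0) (nat_lit 276025256) (nat_lit 152) (nat_lit 228923743) (nat_lit 137) (nat_lit 3) (nat_lit 137) (nat_lit 1) (nat_lit 139) (nat_lit 1) (nat_lit 440) (nat_lit 349) (nat_lit 231)) (XT.lf (nat_lit 76) (nat_lit 210760914) (nat_lit 0) (nat_lit 255619498) (nat_lit 76) (nat_lit 255619498) (nat_lit 137) (nat_lit 3) (nat_lit 136) (nat_lit 1) (nat_lit 137) (nat_lit 1) (nat_lit 441) (nat_lit 349) (nat_lit 230))))) (XT.nd (nat_lit 234) (nat_lit 228) (nat_lit 0) (XT.nd (nat_lit 78) (nat_lit 76) (nat_lit 0) (XT.lf (nat_lit 152) (nat_lit 682920934) (nat_lit 0) (nat_lit 13781438) (nat_lit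 76) (nat_lit 13781438) (nat_lit 136) (nat_lit 1) (nat_lit 134) (nat_lit 1) (nat_lit 135) (nat_lit 1) (nat_lit 442) (nat_lit 349) (nat_lit 229)) (XT.nd (nat_lit 78) (nat_lit 76) (nat_lit 0) (XT.lf (nat_lit 0) (nat_lit 220025253) (nat_lit 0) (nat_lit 258775784) (nat_lit 152) (nat_lit 220025253) (nat_lit 134) (nat_lit 3) (nat_lit 134) (nat_lit 1) (nat_lit 136) (nat_lit 1) (nat_lit 443) (nat_lit 349) (nat_lit 228)) (XT.lf (nat_lit 76) (nat_lit 204571533) (nat_lit 0) (nat_lit 241476801) (nat_lit 76) (nat_lit 241476801) (nat_lit 134) (nat_lit 3) (nat_lit 133) (nat_lit 1) (nat_lit 134) (nat_lit 1) (nat_lit 444) (nat_lit 349) (nat_lit 227)))) (XT.nd (nat_lit 78) (nat_lit 76) (nat_lit 0) (XT.lf (nat_lit 152) (nat_lit 653890099) (nat_lit 0) (nat_lit 11338023) (nat_lit 76) (nat_lit 11338023) (nat_lit 133) (nat_lit 1) (nat_lit 131) (nat_lit 1) (nat_lit 132) (nat_lit 1) (nat_lit 445) (nat_lit 349) (nat_lit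 226)) (XT.nd (nat_lit 78) (nat_lit 76) (nat_lit 0) (XT.lf (nat_lit 0) (nat_lit 211195437) (nat_lit 0) (nat_lit 243075595) (nat_lit 152) (nat_lit 211195437) (nat_lit 131) (nat_lit 3) (nat_lit 131) (nat_lit 1) (nat_lit 133) (nat_lit 1) (nat_lit 446) (nat_lit 349) (nat_lit 225)) (XT.lf (nat_lit 76) (nat_lit 197994847) (nat_lit 0) (nat_lit 228356903) (nat_lit 76) (nat_lit 228356903) (nat_lit 131) (nat_lit 3) (nat_lit 130) (nat_lit 1) (nat_lit 131) (nat_lit 1) (nat_lit 447) (nat_lit 349) (nat_lit 224)))))) (XT.nd (nat_lit 43368) (nat_lit 0) (nat_lit 12616) (XT.nd (nat_lit 43134) (nat_lit 0) (nat_lit 12540) (XT.nd (nat_lit 78) (nat_lit 76) (nat_lit 0) (XT.lf (nat_lit 152) (nat_lit 625623056) (nat_lit 0) (nat_lit 9327820) (nat_lit 76) (nat_lit 9327820) (nat_lit 130) (nat_lit 1) (nat_lit 128) (nat_lit 1) (nat_lit 129) (nat_lit 1) (nat_lit 448) (nat_lit 349) (nat_lit 223)) (XT.nd (nat_lit 78) (nat_lit 76)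 (nat_lit 0) (XT.lf (nat_lit 0) (nat_lit 202493977) (nat_lit 0) (nat_lit 228721862) (nat_lit 152) (nat_lit 202493977) (nat_lit 128) (nat_lit 3) (nat_lit 128) (nat_lit 1) (nat_lit 130) (nat_lit 1) (nat_lit 449) (nat_lit 349) (nat_lit 222)) (XT.lf (nat_lit 76) (nat_lit 191170223) (nat_lit 0) (nat_lit 216149161) (nat_lit 76) (nat_lit 216149161) (nat_lit 128) (nat_lit 3) (nat_lit 127) (nat_lit 1) (nat_lit 128) (nat_lit 1) (nat_lit 450) (nat_lit 349) (nat_lit 221)))) (XT.nd (nat_lit 78) (nat_lit 0) (nat_lit 0) (XT.lf (nat_lit 836) (nat_lit 875271262) (nat_lit 0) (nat_lit 1554042114) (nat_lit 836) (nat_lit 875271262) (nat_lit 303) (nat_lit 1) (nat_lit 292) (nat_lit 0) (nat_lit 303) (nat_lit 0) (nat_lit 320) (nat_lit 350) (nat_lit 350)) (XT.nd (nat_lit 78) (nat_lit 0) (nat_lit 76) (XT.lf (nat_lit 836) (nat_lit 3392660686) (nat_lit 76) (nat_lit 1528976919) (nat_lit 0) (nat_lit 1528976919) (nat_lit 303)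 (nat_lit 1) (nat_lit 293) (nat_lit 1) (nat_lit 292) (nat_lit 0) (nat_lit 321) (nat_lit 350) (nat_lit 349)) (XT.lf (nat_lit 836) (nat_lit 1616891000) (nat_lit 0) (nat_lit 3063179550) (nat_lit 760) (nat_lit 1616891000) (nat_lit 304) (nat_lit 1) (nat_lit 293) (nat_lit 1) (nat_lit 303) (nat_lit 1) (nat_lit 322) (nat_lit 350) (nat_lit 348))))) (XT.nd (nat_lit 234) (nat_lit 0) (nat_lit 152) (XT.nd (nat_lit 78) (nat_lit 0) (nat_lit 76) (XT.lf (nat_lit 836) (nat_lit 3033062843) (nat_lit 76) (nat_lit 1557604934) (nat_lit 0) (nat_lit 1557604934) (nat_lit 304) (nat_lit 1) (nat_lit 294) (nat_lit 1) (nat_lit 293) (nat_lit 1) (nat_lit 323) (nat_lit 350) (nat_lit 347)) (XT.nd (nat_lit 78) (nat_lit 0) (nat_lit 0) (XT.lf (nat_lit 836) (nat_lit 1396089700) (nat_lit 0) (nat_lit 3212117163) (nat_lit 760) (nat_lit 1396089700) (nat_lit 305) (nat_lit 1) (nat_lit 294) (nat_lit 1) (nat_lit 304) (nat_lit 1) (nat_lit 324)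 (nat_lit 350) (nat_lit 346)) (XT.lf (nat_lit 836) (nat_lit 2510958255) (nat_lit 76) (nat_lit 1676875551) (nat_lit 0) (nat_lit 1676875551) (nat_lit 305) (nat_lit 1) (nat_lit 295) (nat_lit 1) (nat_lit 294) (nat_lit 1) (nat_lit 325) (nat_lit 350) (nat_lit 345)))) (XT.nd (nat_lit 156) (nat_lit 0) (nat_lit 76) (XT.nd (nat_lit 78) (nat_lit 0) (nat_lit 0) (XT.lf (nat_lit 836) (nat_lit 1100982672) (nat_lit 0) (nat_lit 3527843663) (nat_lit 760) (nat_lit 1100982672) (nat_lit 306) (nat_lit 1) (nat_lit 295) (nat_lit 1) (nat_lit 305) (nat_lit 1) (nat_lit 326) (nat_lit 350) (nat_lit 344)) (XT.lf (nat_lit 836) (nat_lit 1850785676) (nat_lit 76) (nat_lit 1873918624) (nat_lit 0) (nat_lit 1873918624) (nat_lit 306) (nat_lit 1) (nat_lit 296) (nat_lit 1) (nat_lit 295) (nat_lit 1) (nat_lit 327) (nat_lit 350) (nat_lit 343))) (XT.nd (nat_lit 78) (nat_lit 0) (nat_lit 0) (XT.lf (nat_lit 836) (nat_lit 742994050) (nat_lit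 0) (nat_lit 3986250901) (nat_lit 760) (nat_lit 742994050) (nat_lit 307) (nat_lit 1) (nat_lit 296) (nat_lit 1) (nat_lit 306) (nat_lit 1) (nat_lit 328) (nat_lit 350) (nat_lit 342)) (XT.lf (nat_lit 836) (nat_lit 1074267470) (nat_lit 76) (nat_lit 2137272127) (nat_lit 0) (nat_lit 2137272127) (nat_lit 307) (nat_lit 1) (nat_lit 297) (nat_lit 1) (nat_lit 296) (nat_lit 1) (nat_lit 329) (nat_lit 350) (nat_lit 341))))))))
noncomputable def ec79 : XT := (XT.nd (nat_lit 1950) (nat_lit 2812) (nat_lit 0) (XT.nd (nat_lit 936) (nat_lit 1900) (nat_lit 0) (XT.nd (nat_lit 468) (nat_lit 1368) (nat_lit 0) (XT.nd (nat_lit 234) (nat_lit 380) (nat_lit 0) (XT.nd (nat_lit 78) (nat_lit 1292) (nat_lit 0) (XT.lf (nat_lit 76) (nat_lit 332270820) (nat_lit 0) (nat_lit 4565881680) (nat_lit 760) (nat_lit 332270820) (nat_lit 298) (nat_lit 1) (nat_lit 297) (nat_lit 1) (nat_lit 307) (nat_lit 1) (nat_lit 330) (nat_lit 350) (nat_lit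 340)) (XT.nd (nat_lit 78) (nat_lit 532) (nat_lit 0) (XT.lf (nat_lit 836) (nat_lit 200683312) (nat_lit 0) (nat_lit 2456741163) (nat_lit 760) (nat_lit 2456741163) (nat_lit 298) (nat_lit 1) (nat_lit 287) (nat_lit 1) (nat_lit 297) (nat_lit 1) (nat_lit 331) (nat_lit 350) (nat_lit 339)) (XT.lf (nat_lit 532) (nat_lit 4762467745) (nat_lit 0) (nat_lit 120217429) (nat_lit 456) (nat_lit 120217429) (nat_lit 287) (nat_lit 1) (nat_lit 280) (nat_lit 1) (nat_lit 286) (nat_lit 1) (nat_lit 332) (nat_lit 350) (nat_lit 338)))) (XT.nd (nat_lit 78) (nat_lit 380) (nat_lit 0) (XT.lf (nat_lit 76) (nat_lit 2082142609) (nat_lit 0) (nat_lit 728785615) (nat_lit 532) (nat_lit 2082142609) (nat_lit 281) (nat_lit 1) (nat_lit 280) (nat_lit 1) (nat_lit 287) (nat_lit 1) (nat_lit 333) (nat_lit 350) (nat_lit 337)) (XT.nd (nat_lit 78) (nat_lit 0) (nat_lit 0) (XT.lf (nat_lit 456) (nat_lit 3582832967) (nat_lit 0) (nat_lit 602538218) (nat_lit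 380) (nat_lit 602538218) (nat_lit 281) (nat_lit 1) (nat_lit 275) (nat_lit 1) (nat_lit 280) (nat_lit 1) (nat_lit 334) (nat_lit 350) (nat_lit 336)) (XT.lf (nat_lit 76) (nat_lit 1485166976) (nat_lit 0) (nat_lit 1714624807) (nat_lit 456) (nat_lit 1485166976) (nat_lit 276) (nat_lit 1) (nat_lit 275) (nat_lit 1) (nat_lit 281) (nat_lit 1) (nat_lit 335) (nat_lit 350) (nat_lit 335))))) (XT.nd (nat_lit 234) (nat_lit 684) (nat_lit 0) (XT.nd (nat_lit 78) (nat_lit 304) (nat_lit 0) (XT.lf (nat_lit 456) (nat_lit 2359346318) (nat_lit 0) (nat_lit 1113123646) (nat_lit 380) (nat_lit 1113123646) (nat_lit 276) (nat_lit 1) (nat_lit 270) (nat_lit 1) (nat_lit 275) (nat_lit 1) (nat_lit 336) (nat_lit 350) (nat_lit 334)) (XT.nd (nat_lit 78) (nat_lit 304) (nat_lit 0) (XT.lf (nat_lit 76) (nat_lit 869387762) (nat_lit 0) (nat_lit 2750342809) (nat_lit 456) (nat_lit 869387762) (nat_lit 271) (nat_lit 1) (nat_lit 270) (nat_lit 1)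 (nat_lit 276) (nat_lit 1) (nat_lit 337) (nat_lit 350) (nat_lit 333)) (XT.lf (nat_lit 380) (nat_lit 1103395354) (nat_lit 0) (nat_lit 1645864683) (nat_lit 304) (nat_lit 1645864683) (nat_lit 271) (nat_lit 1) (nat_lit 266) (nat_lit 1) (nat_lit 270) (nat_lit 1) (nat_lit 338) (nat_lit 350) (nat_lit 332)))) (XT.nd (nat_lit 78) (nat_lit 684) (nat_lit 0) (XT.lf (nat_lit 76) (nat_lit 240091466) (nat_lit 0) (nat_lit 3824562706) (nat_lit 380) (nat_lit 240091466) (nat_lit 267) (nat_lit 1) (nat_lit 266) (nat_lit 1) (nat_lit 271) (nat_lit 1) (nat_lit 339) (nat_lit 350) (nat_lit 331)) (XT.nd (nat_lit 78) (nat_lit 304) (nat_lit 0) (XT.lf (nat_lit 76) (nat_lit 2023079687) (nat_lit 0) (nat_lit 169436853) (nat_lit 380) (nat_lit 2023079687) (nat_lit 262) (nat_lit 1) (nat_lit 261) (nat_lit 1) (nat_lit 266) (nat_lit 1) (nat_lit 340) (nat_lit 350) (nat_lit 330)) (XT.lf (nat_lit 380) (nat_lit 3346492845) (nat_lit 0) (nat_lit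 391674499) (nat_lit 304) (nat_lit 391674499) (nat_lit 262) (nat_lit 1) (nat_lit 257) (nat_lit 1) (nat_lit 261) (nat_lit 1) (nat_lit 341) (nat_lit 350) (nat_lit 329)))))) (XT.nd (nat_lit 468) (nat_lit 988) (nat_lit 0) (XT.nd (nat_lit 234) (nat_lit 608) (nat_lit 0) (XT.nd (nat_lit 78) (nat_lit 304) (nat_lit 0) (XT.lf (nat_lit 76) (nat_lit 1312641616) (nat_lit 0) (nat_lit 1420275365) (nat_lit 380) (nat_lit 1312641616) (nat_lit 258) (nat_lit 1) (nat_lit 257) (nat_lit 1) (nat_lit 262) (nat_lit 1) (nat_lit 342) (nat_lit 350) (nat_lit 328)) (XT.nd (nat_lit 78) (nat_lit 0) (nat_lit 0) (XT.lf (nat_lit 380) (nat_lit 1915509266) (nat_lit 0) (nat_lit 1024344365) (nat_lit 304) (nat_lit 1024344365) (nat_lit 258) (nat_lit 1) (nat_lit 253) (nat_lit 1) (nat_lit 257) (nat_lit 1) (nat_lit 343) (nat_lit 350) (nat_lit 327)) (XT.lf (nat_lit 76) (nat_lit 604066134) (nat_lit 0) (nat_lit 2677084117) (nat_lit 380) (nat_lit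 604066134) (nat_lit 254) (nat_lit 1) (nat_lit 253) (nat_lit 1) (nat_lit 258) (nat_lit 1) (nat_lit 344) (nat_lit 350) (nat_lit 326)))) (XT.nd (nat_lit 78) (nat_lit 380) (nat_lit 0) (XT.lf (nat_lit 304) (nat_lit 491261115) (nat_lit 0) (nat_lit 1658339279) (nat_lit 228) (nat_lit 1658339279) (nat_lit 254) (nat_lit 1) (nat_lit 250) (nat_lit 1) (nat_lit 253) (nat_lit 1) (nat_lit 345) (nat_lit 350) (nat_lit 325)) (XT.nd (nat_lit 78) (nat_lit 0) (nat_lit 0) (XT.lf (nat_lit 380) (nat_lit 3537336547) (nat_lit 0) (nat_lit 98154301) (nat_lit 304) (nat_lit 98154301) (nat_lit 250) (nat_lit 1) (nat_lit 245) (nat_lit 1) (nat_lit 249) (nat_lit 1) (nat_lit 346) (nat_lit 350) (nat_lit 324)) (XT.lf (nat_lit 76) (nat_lit 1384185942) (nat_lit 0) (nat_lit 891389955) (nat_lit 380) (nat_lit 1384185942) (nat_lit 246) (nat_lit 1) (nat_lit 245) (nat_lit 1) (nat_lit 250) (nat_lit 1) (nat_lit 347) (nat_lit 350) (nat_lit 323)))))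 (XT.nd (nat_lit 234) (nat_lit 532) (nat_lit 0) (XT.nd (nat_lit 78) (nat_lit 228) (nat_lit 0) (XT.lf (nat_lit 304) (nat_lit 2021647328) (nat_lit 0) (nat_lit 783532410) (nat_lit 228) (nat_lit 783532410) (nat_lit 246) (nat_lit 1) (nat_lit 242) (nat_lit 1) (nat_lit 245) (nat_lit 1) (nat_lit 348) (nat_lit 350) (nat_lit 322)) (XT.nd (nat_lit 78) (nat_lit 228) (nat_lit 0) (XT.lf (nat_lit 76) (nat_lit 638669662) (nat_lit 0) (nat_lit 2242128274) (nat_lit 304) (nat_lit 638669662) (nat_lit 243) (nat_lit 1) (nat_lit 242) (nat_lit 1) (nat_lit 246) (nat_lit 1) (nat_lit 349) (nat_lit 350) (nat_lit 321)) (XT.lf (nat_lit 304) (nat_lit 532311201) (nat_lit 0) (nat_lit 1459743571) (nat_lit 228) (nat_lit 1459743571) (nat_lit 243) (nat_lit 1) (nat_lit 239) (nat_lit 1) (nat_lit 242) (nat_lit 1) (nat_lit 350) (nat_lit 350) (nat_lit 320)))) (XT.nd (nat_lit 156) (nat_lit 228) (nat_lit 0) (XT.nd (nat_lit 78) (nat_lit 0)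 (nat_lit 0) (XT.lf (nat_lit 304) (nat_lit 3203676729) (nat_lit 0) (nat_lit 91483178) (nat_lit 228) (nat_lit 91483178) (nat_lit 239) (nat_lit 1) (nat_lit 235) (nat_lit 1) (nat_lit 238) (nat_lit 1) (nat_lit 351) (nat_lit 350) (nat_lit 319)) (XT.lf (nat_lit 76) (nat_lit 1211859159) (nat_lit 0) (nat_lit 897975468) (nat_lit 304) (nat_lit 1211859159) (nat_lit 236) (nat_lit 1) (nat_lit 235) (nat_lit 1) (nat_lit 239) (nat_lit 1) (nat_lit 352) (nat_lit 350) (nat_lit 318))) (XT.nd (nat_lit 78) (nat_lit 0) (nat_lit 0) (XT.lf (nat_lit 304) (nat_lit 1666417309) (nat_lit 0) (nat_lit 796365156) (nat_lit 228) (nat_lit 796365156) (nat_lit 236) (nat_lit 1) (nat_lit 232) (nat_lit 1) (nat_lit 235) (nat_lit 1) (nat_lit 353) (nat_lit 350) (nat_lit 317)) (XT.lf (nat_lit 76) (nat_lit 458929967) (nat_lit 0) (nat_lit 2280419037) (nat_lit 304) (nat_lit 458929967) (nat_lit 233) (nat_lit 1) (nat_lit 232) (nat_lit 1) (nat_lit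 236) (nat_lit 1) (nat_lit 354) (nat_lit 350) (nat_lit 316))))))) (XT.nd (nat_lit 1014) (nat_lit 1292) (nat_lit 0) (XT.nd (nat_lit 468) (nat_lit 684) (nat_lit 0) (XT.nd (nat_lit 234) (nat_lit 380) (nat_lit 0) (XT.nd (nat_lit 78) (nat_lit 304) (nat_lit 0) (XT.lf (nat_lit 228) (nat_lit 168167199) (nat_lit 0) (nat_lit 1485195079) (nat_lit 152) (nat_lit 1485195079) (nat_lit 233) (nat_lit 1) (nat_lit 230) (nat_lit 1) (nat_lit 232) (nat_lit 1) (nat_lit 355) (nat_lit 350) (nat_lit 315)) (XT.nd (nat_lit 78) (nat_lit 0) (nat_lit 0) (XT.lf (nat_lit 304) (nat_lit 2540949993) (nat_lit 0) (nat_lit 269867306) (nat_lit 228) (nat_lit 269867306) (nat_lit 230) (nat_lit 1) (nat_lit 226) (nat_lit 1) (nat_lit 229) (nat_lit 1) (nat_lit 356) (nat_lit 350) (nat_lit 314)) (XT.lf (nat_lit 76) (nat_lit 887493517) (nat_lit 0) (nat_lit 1248472071) (nat_lit 304) (nat_lit 887493517) (nat_lit 227) (nat_lit 1) (nat_lit 226) (nat_lit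 1) (nat_lit 230) (nat_lit 1) (nat_lit 357) (nat_lit 350) (nat_lit 313)))) (XT.nd (nat_lit 78) (nat_lit 228) (nat_lit 0) (XT.lf (nat_lit 228) (nat_lit 1025361858) (nat_lit 0) (nat_lit 971318942) (nat_lit 152) (nat_lit 971318942) (nat_lit 227) (nat_lit 1) (nat_lit 224) (nat_lit 1) (nat_lit 226) (nat_lit 1) (nat_lit 358) (nat_lit 350) (nat_lit 312)) (XT.nd (nat_lit 78) (nat_lit 228) (nat_lit 0) (XT.lf (nat_lit 76) (nat_lit 147311953) (nat_lit 0) (nat_lit 2619756955) (nat_lit 228) (nat_lit 147311953) (nat_lit 225) (nat_lit 1) (nat_lit 224) (nat_lit 1) (nat_lit 227) (nat_lit 1) (nat_lit 359) (nat_lit 350) (nat_lit 311)) (XT.lf (nat_lit 76) (nat_lit 1215791396) (nat_lit 0) (nat_lit 429374096) (nat_lit 228) (nat_lit 1215791396) (nat_lit 222) (nat_lit 1) (nat_lit 221) (nat_lit 1) (nat_lit 224) (nat_lit 1) (nat_lit 360) (nat_lit 350) (nat_lit 310))))) (XT.nd (nat_lit 234) (nat_lit 380) (nat_lit 0) (XT.nd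 (nat_lit 78) (nat_lit 152) (nat_lit 0) (XT.lf (nat_lit 228) (nat_lit 1688339439) (nat_lit 0) (nat_lit 560482950) (nat_lit 152) (nat_lit 560482950) (nat_lit 222) (nat_lit 1) (nat_lit 219) (nat_lit 1) (nat_lit 221) (nat_lit 1) (nat_lit 361) (nat_lit 350) (nat_lit 309)) (XT.nd (nat_lit 78) (nat_lit 152) (nat_lit 0) (XT.lf (nat_lit 76) (nat_lit 476405465) (nat_lit 0) (nat_lit 1805984471) (nat_lit 228) (nat_lit 476405465) (nat_lit 220) (nat_lit 1) (nat_lit 219) (nat_lit 1) (nat_lit 222) (nat_lit 1) (nat_lit 362) (nat_lit 350) (nat_lit 308)) (XT.lf (nat_lit 228) (nat_lit 223178808) (nat_lit 0) (nat_lit 1243062403) (nat_lit 152) (nat_lit 1243062403) (nat_lit 220) (nat_lit 1) (nat_lit 217) (nat_lit 1) (nat_lit 219) (nat_lit 1) (nat_lit 363) (nat_lit 350) (nat_lit 307)))) (XT.nd (nat_lit 156) (nat_lit 152) (nat_lit 0) (XT.nd (nat_lit 78) (nat_lit 0) (nat_lit 0) (XT.lf (nat_lit 228) (nat_lit 2193545513)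 (nat_lit 0) (nat_lit 233850188) (nat_lit 152) (nat_lit 233850188) (nat_lit 217) (nat_lit 1) (nat_lit 214) (nat_lit 1) (nat_lit 216) (nat_lit 1) (nat_lit 364) (nat_lit 350) (nat_lit 306)) (XT.lf (nat_lit 76) (nat_lit 730236676) (nat_lit 0) (nat_lit 1153124980) (nat_lit 228) (nat_lit 730236676) (nat_lit 215) (nat_lit 1) (nat_lit 214) (nat_lit 1) (nat_lit 217) (nat_lit 1) (nat_lit 365) (nat_lit 350) (nat_lit 305))) (XT.nd (nat_lit 78) (nat_lit 0) (nat_lit 0) (XT.lf (nat_lit 228) (nat_lit 743710601) (nat_lit 0) (nat_lit 911811724) (nat_lit 152) (nat_lit 911811724) (nat_lit 215) (nat_lit 1) (nat_lit 212) (nat_lit 1) (nat_lit 214) (nat_lit 1) (nat_lit 366) (nat_lit 350) (nat_lit 304)) (XT.lf (nat_lit 76) (nat_lit 24443716) (nat_lit 0) (nat_lit 2473804826) (nat_lit 228) (nat_lit 24443716) (nat_lit 213) (nat_lit 1) (nat_lit 212) (nat_lit 1) (nat_lit 215) (nat_lit 1) (nat_lit 367) (nat_lit 350) (nat_lit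 303)))))) (XT.nd (nat_lit 468) (nat_lit 684) (nat_lit 0) (XT.nd (nat_lit 234) (nat_lit 304) (nat_lit 0) (XT.nd (nat_lit 78) (nat_lit 152) (nat_lit 0) (XT.lf (nat_lit 76) (nat_lit 922954874) (nat_lit 0) (nat_lit 631856952) (nat_lit 152) (nat_lit 922954874) (nat_lit 211) (nat_lit 1) (nat_lit 210) (nat_lit 1) (nat_lit 212) (nat_lit 1) (nat_lit 368) (nat_lit 350) (nat_lit 302)) (XT.nd (nat_lit 78) (nat_lit 0) (nat_lit 0) (XT.lf (nat_lit 228) (nat_lit 1145281927) (nat_lit 0) (nat_lit 644569961) (nat_lit 152) (nat_lit 644569961) (nat_lit 211) (nat_lit 1) (nat_lit 208) (nat_lit 1) (nat_lit 210) (nat_lit 1) (nat_lit 369) (nat_lit 350) (nat_lit 301)) (XT.lf (nat_lit 76) (nat_lit 229621111) (nat_lit 0) (nat_lit 1933004765) (nat_lit 228) (nat_lit 229621111) (nat_lit 209) (nat_lit 1) (nat_lit 208) (nat_lit 1) (nat_lit 211) (nat_lit 1) (nat_lit 370) (nat_lit 350) (nat_lit 300)))) (XT.nd (nat_lit 78) (nat_lit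 152) (nat_lit 0) (XT.lf (nat_lit 76) (nat_lit 1066162358) (nat_lit 0) (nat_lit 218095209) (nat_lit 152) (nat_lit 1066162358) (nat_lit 207) (nat_lit 1) (nat_lit 206) (nat_lit 1) (nat_lit 208) (nat_lit 1) (nat_lit 371) (nat_lit 350) (nat_lit 299)) (XT.nd (nat_lit 78) (nat_lit 0) (nat_lit 0) (XT.lf (nat_lit 228) (nat_lit 1450254252) (nat_lit 0) (nat_lit 429737111) (nat_lit 152) (nat_lit 429737111) (nat_lit 207) (nat_lit 1) (nat_lit 204) (nat_lit 1) (nat_lit 206) (nat_lit 1) (nat_lit 372) (nat_lit 350) (nat_lit 298)) (XT.lf (nat_lit 76) (nat_lit 388444337) (nat_lit 0) (nat_lit 1492953910) (nat_lit 228) (nat_lit 388444337) (nat_lit 205) (nat_lit 1) (nat_lit 204) (nat_lit 1) (nat_lit 207) (nat_lit 1) (nat_lit 373) (nat_lit 350) (nat_lit 297))))) (XT.nd (nat_lit 234) (nat_lit 380) (nat_lit 0) (XT.nd (nat_lit 78) (nat_lit 228) (nat_lit 0) (XT.lf (nat_lit 152) (nat_lit 111508223) (nat_lit 0) (nat_lit 1059600569)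 (nat_lit 76) (nat_lit 1059600569) (nat_lit 205) (nat_lit 1) (nat_lit 203) (nat_lit 1) (nat_lit 204) (nat_lit 1) (nat_lit 374) (nat_lit 350) (nat_lit 296)) (XT.nd (nat_lit 78) (nat_lit 0) (nat_lit 0) (XT.lf (nat_lit 228) (nat_lit 1676963930) (nat_lit 0) (nat_lit 257781793) (nat_lit 152) (nat_lit 257781793) (nat_lit 203) (nat_lit 1) (nat_lit 200) (nat_lit 1) (nat_lit 202) (nat_lit 1) (nat_lit 375) (nat_lit 350) (nat_lit 295)) (XT.lf (nat_lit 76) (nat_lit 509606957) (nat_lit 0) (nat_lit 1135557931) (nat_lit 228) (nat_lit 509606957) (nat_lit 201) (nat_lit 1) (nat_lit 200) (nat_lit 1) (nat_lit 203) (nat_lit 1) (nat_lit 376) (nat_lit 350) (nat_lit 294)))) (XT.nd (nat_lit 156) (nat_lit 76) (nat_lit 0) (XT.nd (nat_lit 78) (nat_lit 228) (nat_lit 0) (XT.lf (nat_lit 152) (nat_lit 374469876) (nat_lit 0) (nat_lit 871736011) (nat_lit 76) (nat_lit 871736011) (nat_lit 201) (nat_lit 1) (nat_lit 199) (nat_lit 1)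 (nat_lit 200) (nat_lit 1) (nat_lit 377) (nat_lit 350) (nat_lit 293)) (XT.lf (nat_lit 228) (nat_lit 1840438726) (nat_lit 0) (nat_lit 120873917) (nat_lit 152) (nat_lit 120873917) (nat_lit 199) (nat_lit 1) (nat_lit 196) (nat_lit 1) (nat_lit 198) (nat_lit 1) (nat_lit 378) (nat_lit 350) (nat_lit 292))) (XT.nd (nat_lit 78) (nat_lit 76) (nat_lit 0) (XT.lf (nat_lit 76) (nat_lit 600238561) (nat_lit 0) (nat_lit 845941609) (nat_lit 228) (nat_lit 600238561) (nat_lit 197) (nat_lit 1) (nat_lit 196) (nat_lit 1) (nat_lit 199) (nat_lit 1) (nat_lit 379) (nat_lit 350) (nat_lit 291)) (XT.lf (nat_lit 152) (nat_lit 577345661) (nat_lit 0) (nat_lit 717179373) (nat_lit 76) (nat_lit 717179373) (nat_lit 197) (nat_lit 1) (nat_lit 195) (nat_lit 1) (nat_lit 196) (nat_lit 1) (nat_lit 380) (nat_lit 350) (nat_lit 290))))))))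
noncomputable def ec80 : XT := (XT.nd (nat_lit 1950) (nat_lit 1900) (nat_lit 0) (XT.nd (nat_lit 936) (nat_lit 912) (nat_lit 0) (XT.nd (nat_lit 468) (nat_lit 456) (nat_lit 0) (XT.nd (nat_lit 234) (nat_lit 228) (nat_lit 0) (XT.nd (nat_lit 78) (nat_lit 76) (nat_lit 0) (XT.lf (nat_lit 228) (nat_lit 1952987161) (nat_lit 0) (nat_lit 12582507) (nat_lit 152) (nat_lit 12582507) (nat_lit 195) (nat_lit 1) (nat_lit 192) (nat_lit 1) (nat_lit 194) (nat_lit 1) (nat_lit 381) (nat_lit 350) (nat_lit 289)) (XT.nd (nat_lit 78) (nat_lit 76) (nat_lit 0) (XT.lf (nat_lit 76) (nat_lit 666183136) (nat_lit 0) (nat_lit 611877579) (nat_lit 228) (nat_lit 666183136) (nat_lit 193) (nat_lit 1) (nat_lit 192) (nat_lit 1) (nat_lit 195) (nat_lit 1) (nat_lit 382) (nat_lit 350) (nat_lit 288)) (XT.lf (nat_lit 152) (nat_lit 731429767) (nat_lit 0) (nat_lit 590025245) (nat_lit 76) (nat_lit 590025245) (nat_lit 193) (nat_lit 1) (nat_lit 191)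 (nat_lit 1) (nat_lit 192) (nat_lit 1) (nat_lit 383) (nat_lit 350) (nat_lit 287)))) (XT.nd (nat_lit 78) (nat_lit 228) (nat_lit 0) (XT.lf (nat_lit 0) (nat_lit 73559317) (nat_lit 0) (nat_lit 1732587218) (nat_lit 152) (nat_lit 73559317) (nat_lit 191) (nat_lit 3) (nat_lit 191) (nat_lit 1) (nat_lit 193) (nat_lit 1) (nat_lit 384) (nat_lit 350) (nat_lit 286)) (XT.nd (nat_lit 78) (nat_lit 76) (nat_lit 0) (XT.lf (nat_lit 76) (nat_lit 712228026) (nat_lit 0) (nat_lit 423316363) (nat_lit 152) (nat_lit 712228026) (nat_lit 190) (nat_lit 1) (nat_lit 189) (nat_lit 1) (nat_lit 191) (nat_lit 1) (nat_lit 385) (nat_lit 350) (nat_lit 285)) (XT.lf (nat_lit 152) (nat_lit 845983426) (nat_lit 0) (nat_lit 485415229) (nat_lit 76) (nat_lit 485415229) (nat_lit 190) (nat_lit 1) (nat_lit 188) (nat_lit 1) (nat_lit 189) (nat_lit 1) (nat_lit 386) (nat_lit 350) (nat_lit 284))))) (XT.nd (nat_lit 234) (nat_lit 228) (nat_lit 0) (XT.nd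 (nat_lit 78) (nat_lit 228) (nat_lit 0) (XT.lf (nat_lit 0) (nat_lit 140594267) (nat_lit 0) (nat_lit 1505480627) (nat_lit 152) (nat_lit 140594267) (nat_lit 188) (nat_lit 3) (nat_lit 188) (nat_lit 1) (nat_lit 190) (nat_lit 1) (nat_lit 387) (nat_lit 350) (nat_lit 283)) (XT.nd (nat_lit 78) (nat_lit 76) (nat_lit 0) (XT.lf (nat_lit 76) (nat_lit 742292247) (nat_lit 0) (nat_lit 271999767) (nat_lit 152) (nat_lit 742292247) (nat_lit 187) (nat_lit 1) (nat_lit 186) (nat_lit 1) (nat_lit 188) (nat_lit 1) (nat_lit 388) (nat_lit 350) (nat_lit 282)) (XT.lf (nat_lit 152) (nat_lit 928596798) (nat_lit 0) (nat_lit 399352310) (nat_lit 76) (nat_lit 399352310) (nat_lit 187) (nat_lit 1) (nat_lit 185) (nat_lit 1) (nat_lit 186) (nat_lit 1) (nat_lit 389) (nat_lit 350) (nat_lit 281)))) (XT.nd (nat_lit 78) (nat_lit 228) (nat_lit 0) (XT.lf (nat_lit 0) (nat_lit 191930903) (nat_lit 0) (nat_lit 1314826290) (nat_lit 152) (nat_lit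 191930903) (nat_lit 185) (nat_lit 3) (nat_lit 185) (nat_lit 1) (nat_lit 187) (nat_lit 1) (nat_lit 390) (nat_lit 350) (nat_lit 280)) (XT.nd (nat_lit 78) (nat_lit 76) (nat_lit 0) (XT.lf (nat_lit 76) (nat_lit 759581370) (nat_lit 0) (nat_lit 151142832) (nat_lit 152) (nat_lit 759581370) (nat_lit 184) (nat_lit 1) (nat_lit 183) (nat_lit 1) (nat_lit 185) (nat_lit 1) (nat_lit 391) (nat_lit 350) (nat_lit 279)) (XT.lf (nat_lit 152) (nat_lit 985486635) (nat_lit 0) (nat_lit 328548134) (nat_lit 76) (nat_lit 328548134) (nat_lit 184) (nat_lit 1) (nat_lit 182) (nat_lit 1) (nat_lit 183) (nat_lit 1) (nat_lit 392) (nat_lit 350) (nat_lit 278)))))) (XT.nd (nat_lit 468) (nat_lit 456) (nat_lit 0) (XT.nd (nat_lit 234) (nat_lit 228) (nat_lit 0) (XT.nd (nat_lit 78) (nat_lit 228) (nat_lit 0) (XT.lf (nat_lit 0) (nat_lit 230534079) (nat_lit 0) (nat_lit 1154342892) (nat_lit 152) (nat_lit 230534079) (nat_lit 182) (nat_lit 3)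 (nat_lit 182) (nat_lit 1) (nat_lit 184) (nat_lit 1) (nat_lit 393) (nat_lit 350) (nat_lit 277)) (XT.nd (nat_lit 78) (nat_lit 76) (nat_lit 0) (XT.lf (nat_lit 76) (nat_lit 766714904) (nat_lit 0) (nat_lit 55172201) (nat_lit 152) (nat_lit 766714904) (nat_lit 181) (nat_lit 1) (nat_lit 180) (nat_lit 1) (nat_lit 182) (nat_lit 1) (nat_lit 394) (nat_lit 350) (nat_lit 276)) (XT.lf (nat_lit 152) (nat_lit 1021741105) (nat_lit 0) (nat_lit 270297363) (nat_lit 76) (nat_lit 270297363) (nat_lit 181) (nat_lit 1) (nat_lit 179) (nat_lit 1) (nat_lit 180) (nat_lit 1) (nat_lit 395) (nat_lit 350) (nat_lit 275)))) (XT.nd (nat_lit 78) (nat_lit 228) (nat_lit 0) (XT.lf (nat_lit 0) (nat_lit 258834338) (nat_lit 0) (nat_lit 1018854135) (nat_lit 152) (nat_lit 258834338) (nat_lit 179) (nat_lit 3) (nat_lit 179) (nat_lit 1) (nat_lit 181) (nat_lit 1) (nat_lit 396) (nat_lit 350) (nat_lit 274)) (XT.nd (nat_lit 78) (nat_lit 152) (nat_lit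 0) (XT.lf (nat_lit 76) (nat_lit 21166565) (nat_lit 0) (nat_lit 744994943) (nat_lit 76) (nat_lit 744994943) (nat_lit 179) (nat_lit 3) (nat_lit 178) (nat_lit 1) (nat_lit 179) (nat_lit 1) (nat_lit 397) (nat_lit 350) (nat_lit 273)) (XT.lf (nat_lit 152) (nat_lit 1041521137) (nat_lit 0) (nat_lit 222374309) (nat_lit 76) (nat_lit 222374309) (nat_lit 178) (nat_lit 1) (nat_lit 176) (nat_lit 1) (nat_lit 177) (nat_lit 1) (nat_lit 398) (nat_lit 350) (nat_lit 272))))) (XT.nd (nat_lit 234) (nat_lit 228) (nat_lit 0) (XT.nd (nat_lit 78) (nat_lit 228) (nat_lit 0) (XT.lf (nat_lit 0) (nat_lit 278823060) (nat_lit 0) (nat_lit 904093228) (nat_lit 152) (nat_lit 278823060) (nat_lit 176) (nat_lit 3) (nat_lit 176) (nat_lit 1) (nat_lit 178) (nat_lit 1) (nat_lit 399) (nat_lit 350) (nat_lit 271)) (XT.nd (nat_lit 78) (nat_lit 152) (nat_lit 0) (XT.lf (nat_lit 76) (nat_lit 82230625) (nat_lit 0) (nat_lit 677726023) (nat_lit 76)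 (nat_lit 677726023) (nat_lit 176) (nat_lit 3) (nat_lit 175) (nat_lit 1) (nat_lit 176) (nat_lit 1) (nat_lit 400) (nat_lit 350) (nat_lit 270)) (XT.lf (nat_lit 152) (nat_lit 1048226018) (nat_lit 0) (nat_lit 182947894) (nat_lit 76) (nat_lit 182947894) (nat_lit 175) (nat_lit 1) (nat_lit 173) (nat_lit 1) (nat_lit 174) (nat_lit 1) (nat_lit 401) (nat_lit 350) (nat_lit 269)))) (XT.nd (nat_lit 156) (nat_lit 152) (nat_lit 0) (XT.nd (nat_lit 78) (nat_lit 76) (nat_lit 0) (XT.lf (nat_lit 0) (nat_lit 292130717) (nat_lit 0) (nat_lit 806542032) (nat_lit 152) (nat_lit 292130717) (nat_lit 173) (nat_lit 3) (nat_lit 173) (nat_lit 1) (nat_lit 175) (nat_lit 1) (nat_lit 402) (nat_lit 350) (nat_lit 268)) (XT.lf (nat_lit 76) (nat_lit 129381661) (nat_lit 0) (nat_lit 619297199) (nat_lit 76) (nat_lit 619297199) (nat_lit 173) (nat_lit 3) (nat_lit 172) (nat_lit 1) (nat_lit 173) (nat_lit 1) (nat_lit 403) (nat_lit 350) (nat_lit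 267))) (XT.nd (nat_lit 78) (nat_lit 0) (nat_lit 0) (XT.lf (nat_lit 152) (nat_lit 1044629568) (nat_lit 0) (nat_lit 150511685) (nat_lit 76) (nat_lit 150511685) (nat_lit 172) (nat_lit 1) (nat_lit 170) (nat_lit 1) (nat_lit 171) (nat_lit 1) (nat_lit 404) (nat_lit 350) (nat_lit 266)) (XT.lf (nat_lit 0) (nat_lit 300091231) (nat_lit 0) (nat_lit 723298693) (nat_lit 152) (nat_lit 300091231) (nat_lit 170) (nat_lit 3) (nat_lit 170) (nat_lit 1) (nat_lit 172) (nat_lit 1) (nat_lit 405) (nat_lit 350) (nat_lit 265))))))) (XT.nd (nat_lit 936) (nat_lit 988) (nat_lit 0) (XT.nd (nat_lit 468) (nat_lit 456) (nat_lit 0) (XT.nd (nat_lit 234) (nat_lit 228) (nat_lit 0) (XT.nd (nat_lit 78) (nat_lit 152) (nat_lit 0) (XT.lf (nat_lit 76) (nat_lit 165233397) (nat_lit 0) (nat_lit 568288122) (nat_lit 76) (nat_lit 568288122) (nat_lit 170) (nat_lit 3) (nat_lit 169) (nat_lit 1) (nat_lit 170) (nat_lit 1) (nat_lit 406) (nat_lit 350)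 (nat_lit 264)) (XT.nd (nat_lit 78) (nat_lit 0) (nat_lit 0) (XT.lf (nat_lit 152) (nat_lit 1032992121) (nat_lit 0) (nat_lit 123826336) (nat_lit 76) (nat_lit 123826336) (nat_lit 169) (nat_lit 1) (nat_lit 167) (nat_lit 1) (nat_lit 168) (nat_lit 1) (nat_lit 407) (nat_lit 350) (nat_lit 263)) (XT.lf (nat_lit 0) (nat_lit 303794910) (nat_lit 0) (nat_lit 651968736) (nat_lit 152) (nat_lit 303794910) (nat_lit 167) (nat_lit 3) (nat_lit 167) (nat_lit 1) (nat_lit 169) (nat_lit 1) (nat_lit 408) (nat_lit 350) (nat_lit 262)))) (XT.nd (nat_lit 78) (nat_lit 152) (nat_lit 0) (XT.lf (nat_lit 76) (nat_lit 191929147) (nat_lit 0) (nat_lit 523523267) (nat_lit 76) (nat_lit 523523267) (nat_lit 167) (nat_lit 3) (nat_lit 166) (nat_lit 1) (nat_lit 167) (nat_lit 1) (nat_lit 409) (nat_lit 350) (nat_lit 261)) (XT.nd (nat_lit 78) (nat_lit 0) (nat_lit 0) (XT.lf (nat_lit 152) (nat_lit 1015152594) (nat_lit 0) (nat_lit 101872233) (nat_lit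 76) (nat_lit 101872233) (nat_lit 166) (nat_lit 1) (nat_lit 164) (nat_lit 1) (nat_lit 165) (nat_lit 1) (nat_lit 410) (nat_lit 350) (nat_lit 260)) (XT.lf (nat_lit 0) (nat_lit 304131978) (nat_lit 0) (nat_lit 590575446) (nat_lit 152) (nat_lit 304131978) (nat_lit 164) (nat_lit 3) (nat_lit 164) (nat_lit 1) (nat_lit 166) (nat_lit 1) (nat_lit 411) (nat_lit 350) (nat_lit 259))))) (XT.nd (nat_lit 234) (nat_lit 228) (nat_lit 0) (XT.nd (nat_lit 78) (nat_lit 152) (nat_lit 0) (XT.lf (nat_lit 76) (nat_lit 211225558) (nat_lit 0) (nat_lit 484028861) (nat_lit 76) (nat_lit 484028861) (nat_lit 164) (nat_lit 3) (nat_lit 163) (nat_lit 1) (nat_lit 164) (nat_lit 1) (nat_lit 412) (nat_lit 350) (nat_lit 258)) (XT.nd (nat_lit 78) (nat_lit 0) (nat_lit 0) (XT.lf (nat_lit 152) (nat_lit 992604188) (nat_lit 0) (nat_lit 83810538) (nat_lit 76) (nat_lit 83810538) (nat_lit 163) (nat_lit 1) (nat_lit 161) (nat_lit 1) (nat_lit 162)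 (nat_lit 1) (nat_lit 413) (nat_lit 350) (nat_lit 257)) (XT.lf (nat_lit 0) (nat_lit 301828373) (nat_lit 0) (nat_lit 537486123) (nat_lit 152) (nat_lit 301828373) (nat_lit 161) (nat_lit 3) (nat_lit 161) (nat_lit 1) (nat_lit 163) (nat_lit 1) (nat_lit 414) (nat_lit 350) (nat_lit 256)))) (XT.nd (nat_lit 78) (nat_lit 152) (nat_lit 0) (XT.lf (nat_lit 76) (nat_lit 224561479) (nat_lit 0) (nat_lit 448997431) (nat_lit 76) (nat_lit 448997431) (nat_lit 161) (nat_lit 3) (nat_lit 160) (nat_lit 1) (nat_lit 161) (nat_lit 1) (nat_lit 415) (nat_lit 350) (nat_lit 255)) (XT.nd (nat_lit 78) (nat_lit 0) (nat_lit 0) (XT.lf (nat_lit 152) (nat_lit 966556624) (nat_lit 0) (nat_lit 68951137) (nat_lit 76) (nat_lit 68951137) (nat_lit 160) (nat_lit 1) (nat_lit 158) (nat_lit 1) (nat_lit 159) (nat_lit 1) (nat_lit 416) (nat_lit 350) (nat_lit 254)) (XT.lf (nat_lit 0) (nat_lit 297475179) (nat_lit 0) (nat_lit 491351393) (nat_lit 152)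 (nat_lit 297475179) (nat_lit 158) (nat_lit 3) (nat_lit 158) (nat_lit 1) (nat_lit 160) (nat_lit 1) (nat_lit 417) (nat_lit 350) (nat_lit 253)))))) (XT.nd (nat_lit 468) (nat_lit 532) (nat_lit 0) (XT.nd (nat_lit 234) (nat_lit 228) (nat_lit 0) (XT.nd (nat_lit 78) (nat_lit 152) (nat_lit 0) (XT.lf (nat_lit 76) (nat_lit 233114607) (nat_lit 0) (nat_lit 417758621) (nat_lit 76) (nat_lit 417758621) (nat_lit 158) (nat_lit 3) (nat_lit 157) (nat_lit 1) (nat_lit 158) (nat_lit 1) (nat_lit 418) (nat_lit 350) (nat_lit 252)) (XT.nd (nat_lit 78) (nat_lit 0) (nat_lit 0) (XT.lf (nat_lit 152) (nat_lit 937987291) (nat_lit 0) (nat_lit 56726271) (nat_lit 76) (nat_lit 56726271) (nat_lit 157) (nat_lit 1) (nat_lit 155) (nat_lit 1) (nat_lit 156) (nat_lit 1) (nat_lit 419) (nat_lit 350) (nat_lit 251)) (XT.lf (nat_lit 0) (nat_lit 291552833) (nat_lit 0) (nat_lit 451055274) (nat_lit 152) (nat_lit 291552833) (nat_lit 155) (nat_lit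 3) (nat_lit 155) (nat_lit 1) (nat_lit 157) (nat_lit 1) (nat_lit 420) (nat_lit 350) (nat_lit 250)))) (XT.nd (nat_lit 78) (nat_lit 152) (nat_lit 0) (XT.lf (nat_lit 76) (nat_lit 237848082) (nat_lit 0) (nat_lit 389755169) (nat_lit 76) (nat_lit 389755169) (nat_lit 155) (nat_lit 3) (nat_lit 154) (nat_lit 1) (nat_lit 155) (nat_lit 1) (nat_lit 421) (nat_lit 350) (nat_lit 249)) (XT.nd (nat_lit 78) (nat_lit 0) (nat_lit 0) (XT.lf (nat_lit 152) (nat_lit 907683288) (nat_lit 0) (nat_lit 46668843) (nat_lit 76) (nat_lit 46668843) (nat_lit 154) (nat_lit 1) (nat_lit 152) (nat_lit 1) (nat_lit 153) (nat_lit 1) (nat_lit 422) (nat_lit 350) (nat_lit 248)) (XT.lf (nat_lit 0) (nat_lit 284451015) (nat_lit 0) (nat_lit 415674068) (nat_lit 152) (nat_lit 284451015) (nat_lit 152) (nat_lit 3) (nat_lit 152) (nat_lit 1) (nat_lit 154) (nat_lit 1) (nat_lit 423) (nat_lit 350) (nat_lit 247))))) (XT.nd (nat_lit 234) (nat_lit 304) (nat_lit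 0) (XT.nd (nat_lit 78) (nat_lit 152) (nat_lit 0) (XT.lf (nat_lit 76) (nat_lit 239548793) (nat_lit 0) (nat_lit 364523130) (nat_lit 76) (nat_lit 364523130) (nat_lit 152) (nat_lit 3) (nat_lit 151) (nat_lit 1) (nat_lit 152) (nat_lit 1) (nat_lit 424) (nat_lit 350) (nat_lit 246)) (XT.nd (nat_lit 78) (nat_lit 0) (nat_lit 0) (XT.lf (nat_lit 152) (nat_lit 876275976) (nat_lit 0) (nat_lit 38394573) (nat_lit 76) (nat_lit 38394573) (nat_lit 151) (nat_lit 1) (nat_lit 149) (nat_lit 1) (nat_lit 150) (nat_lit 1) (nat_lit 425) (nat_lit 350) (nat_lit 245)) (XT.lf (nat_lit 0) (nat_lit 276485009) (nat_lit 0) (nat_lit 384442540) (nat_lit 152) (nat_lit 276485009) (nat_lit 149) (nat_lit 3) (nat_lit 149) (nat_lit 1) (nat_lit 151) (nat_lit 1) (nat_lit 426) (nat_lit 350) (nat_lit 244)))) (XT.nd (nat_lit 156) (nat_lit 76) (nat_lit 0) (XT.nd (nat_lit 78) (nat_lit 152) (nat_lit 0) (XT.lf (nat_lit 76) (nat_lit 238858897) (nat_lit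 0) (nat_lit 341675593) (nat_lit 76) (nat_lit 341675593) (nat_lit 149) (nat_lit 3) (nat_lit 148) (nat_lit 1) (nat_lit 149) (nat_lit 1) (nat_lit 427) (nat_lit 350) (nat_lit 243)) (XT.lf (nat_lit 152) (nat_lit 844269355) (nat_lit 0) (nat_lit 31587310) (nat_lit 76) (nat_lit 31587310) (nat_lit 148) (nat_lit 1) (nat_lit 146) (nat_lit 1) (nat_lit 147) (nat_lit 1) (nat_lit 428) (nat_lit 350) (nat_lit 242))) (XT.nd (nat_lit 78) (nat_lit 76) (nat_lit 0) (XT.lf (nat_lit 0) (nat_lit 267909144) (nat_lit 0) (nat_lit 356726072) (nat_lit 152) (nat_lit 267909144) (nat_lit 146) (nat_lit 3) (nat_lit 146) (nat_lit 1) (nat_lit 148) (nat_lit 1) (nat_lit 429) (nat_lit 350) (nat_lit 241)) (XT.lf (nat_lit 76) (nat_lit 236301723) (nat_lit 0) (nat_lit 320889273) (nat_lit 76) (nat_lit 320889273) (nat_lit 146) (nat_lit 3) (nat_lit 145) (nat_lit 1) (nat_lit 146) (nat_lit 1) (nat_lit 430) (nat_lit 350) (nat_lit 240))))))))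
noncomputable def ec81 : XT := (XT.nd (nat_lit 44694) (nat_lit 0) (nat_lit 8892) (XT.nd (nat_lit 936) (nat_lit 608) (nat_lit 0) (XT.nd (nat_lit 468) (nat_lit 456) (nat_lit 0) (XT.nd (nat_lit 234) (nat_lit 228) (nat_lit 0) (XT.nd (nat_lit 78) (nat_lit 76) (nat_lit 0) (XT.lf (nat_lit 152) (nat_lit 812063384) (nat_lit 0) (nat_lit 25986958) (nat_lit 76) (nat_lit 25986958) (nat_lit 145) (nat_lit 1) (nat_lit 143) (nat_lit 1) (nat_lit 144) (nat_lit 1) (nat_lit 431) (nat_lit 350) (nat_lit 239)) (XT.nd (nat_lit 78) (nat_lit 76) (nat_lit 0) (XT.lf (nat_lit 0) (nat_lit 258927843) (nat_lit 0) (nat_lit 331997749) (nat_lit 152) (nat_lit 258927843) (nat_lit 143) (nat_lit 3) (nat_lit 143) (nat_lit 1) (nat_lit 145) (nat_lit 1) (nat_lit 432) (nat_lit 350) (nat_lit 238)) (XT.lf (nat_lit 76) (nat_lit 232303075) (nat_lit 0) (nat_lit 301893462) (nat_lit 76) (nat_lit 301893462) (nat_lit 143) (nat_lit 3) (nat_lit 142)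 (nat_lit 1) (nat_lit 143) (nat_lit 1) (nat_lit 433) (nat_lit 350) (nat_lit 237)))) (XT.nd (nat_lit 78) (nat_lit 76) (nat_lit 0) (XT.lf (nat_lit 152) (nat_lit 779973124) (nat_lit 0) (nat_lit 21379535) (nat_lit 76) (nat_lit 21379535) (nat_lit 142) (nat_lit 1) (nat_lit 140) (nat_lit 1) (nat_lit 141) (nat_lit 1) (nat_lit 434) (nat_lit 350) (nat_lit 236)) (XT.nd (nat_lit 78) (nat_lit 76) (nat_lit 0) (XT.lf (nat_lit 0) (nat_lit 249704698) (nat_lit 0) (nat_lit 309819490) (nat_lit 152) (nat_lit 249704698) (nat_lit 140) (nat_lit 3) (nat_lit 140) (nat_lit 1) (nat_lit 142) (nat_lit 1) (nat_lit 435) (nat_lit 350) (nat_lit 235)) (XT.lf (nat_lit 76) (nat_lit 227208756) (nat_lit 0) (nat_lit 284460940) (nat_lit 76) (nat_lit 284460940) (nat_lit 140) (nat_lit 3) (nat_lit 139) (nat_lit 1) (nat_lit 140) (nat_lit 1) (nat_lit 436) (nat_lit 350) (nat_lit 234))))) (XT.nd (nat_lit 234) (nat_lit 228) (nat_lit 0) (XT.nd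 (nat_lit 78) (nat_lit 76) (nat_lit 0) (XT.lf (nat_lit 152) (nat_lit 748244456) (nat_lit 0) (nat_lit 17588996) (nat_lit 76) (nat_lit 17588996) (nat_lit 139) (nat_lit 1) (nat_lit 137) (nat_lit 1) (nat_lit 138) (nat_lit 1) (nat_lit 437) (nat_lit 350) (nat_lit 233)) (XT.nd (nat_lit 78) (nat_lit 76) (nat_lit 0) (XT.lf (nat_lit 0) (nat_lit 240369930) (nat_lit 0) (nat_lit 289826519) (nat_lit 152) (nat_lit 240369930) (nat_lit 137) (nat_lit 3) (nat_lit 137) (nat_lit 1) (nat_lit 139) (nat_lit 1) (nat_lit 438) (nat_lit 350) (nat_lit 232)) (XT.lf (nat_lit 76) (nat_lit 221298960) (nat_lit 0) (nat_lit 268400473) (nat_lit 76) (nat_lit 268400473) (nat_lit 137) (nat_lit 3) (nat_lit 136) (nat_lit 1) (nat_lit 137) (nat_lit 1) (nat_lit 439) (nat_lit 350) (nat_lit 231)))) (XT.nd (nat_lit 78) (nat_lit 76) (nat_lit 0) (XT.lf (nat_lit 152) (nat_lit 717066981) (nat_lit 0) (nat_lit 14470510) (nat_lit 76) (nat_lit 14470510)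 (nat_lit 136) (nat_lit 1) (nat_lit 134) (nat_lit 1) (nat_lit 135) (nat_lit 1) (nat_lit 440) (nat_lit 350) (nat_lit 230)) (XT.nd (nat_lit 78) (nat_lit 76) (nat_lit 0) (XT.lf (nat_lit 0) (nat_lit 231026515) (nat_lit 0) (nat_lit 271714573) (nat_lit 152) (nat_lit 231026515) (nat_lit 134) (nat_lit 3) (nat_lit 134) (nat_lit 1) (nat_lit 136) (nat_lit 1) (nat_lit 441) (nat_lit 350) (nat_lit 229)) (XT.lf (nat_lit 76) (nat_lit 214800110) (nat_lit 0) (nat_lit 253550641) (nat_lit 76) (nat_lit 253550641) (nat_lit 134) (nat_lit 3) (nat_lit 133) (nat_lit 1) (nat_lit 134) (nat_lit 1) (nat_lit 442) (nat_lit 350) (nat_lit 228)))))) (XT.nd (nat_lit 468) (nat_lit 152) (nat_lit 0) (XT.nd (nat_lit 234) (nat_lit 228) (nat_lit 0) (XT.nd (nat_lit 78) (nat_lit 76) (nat_lit 0) (XT.lf (nat_lit 152) (nat_lit 686584604) (nat_lit 0) (nat_lit 11904925) (nat_lit 76) (nat_lit 11904925) (nat_lit 133) (nat_lit 1) (nat_lit 131) (nat_lit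 1) (nat_lit 132) (nat_lit 1) (nat_lit 443) (nat_lit 350) (nat_lit 227)) (XT.nd (nat_lit 78) (nat_lit 76) (nat_lit 0) (XT.lf (nat_lit 0) (nat_lit 221755209) (nat_lit 0) (nat_lit 255229374) (nat_lit 152) (nat_lit 221755209) (nat_lit 131) (nat_lit 3) (nat_lit 131) (nat_lit 1) (nat_lit 133) (nat_lit 1) (nat_lit 444) (nat_lit 350) (nat_lit 226)) (XT.lf (nat_lit 76) (nat_lit 207894590) (nat_lit 0) (nat_lit 239774748) (nat_lit 76) (nat_lit 239774748) (nat_lit 131) (nat_lit 3) (nat_lit 130) (nat_lit 1) (nat_lit 131) (nat_lit 1) (nat_lit 445) (nat_lit 350) (nat_lit 225)))) (XT.nd (nat_lit 78) (nat_lit 76) (nat_lit 0) (XT.lf (nat_lit 152) (nat_lit 656904209) (nat_lit 0) (nat_lit 9794211) (nat_lit 76) (nat_lit 9794211) (nat_lit 130) (nat_lit 1) (nat_lit 128) (nat_lit 1) (nat_lit 129) (nat_lit 1) (nat_lit 446) (nat_lit 350) (nat_lit 224)) (XT.nd (nat_lit 78) (nat_lit 76) (nat_lit 0) (XT.lf (nat_lit 0) (nat_lit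 212618676) (nat_lit 0) (nat_lit 240157955) (nat_lit 152) (nat_lit 212618676) (nat_lit 128) (nat_lit 3) (nat_lit 128) (nat_lit 1) (nat_lit 130) (nat_lit 1) (nat_lit 447) (nat_lit 350) (nat_lit 223)) (XT.lf (nat_lit 76) (nat_lit 200728734) (nat_lit 0) (nat_lit 226956619) (nat_lit 76) (nat_lit 226956619) (nat_lit 128) (nat_lit 3) (nat_lit 127) (nat_lit 1) (nat_lit 128) (nat_lit 1) (nat_lit 448) (nat_lit 350) (nat_lit 222))))) (XT.nd (nat_lit 42978) (nat_lit 0) (nat_lit 12692) (XT.nd (nat_lit 78) (nat_lit 0) (nat_lit 0) (XT.lf (nat_lit 152) (nat_lit 628102772) (nat_lit 0) (nat_lit 8057721) (nat_lit 76) (nat_lit 8057721) (nat_lit 127) (nat_lit 1) (nat_lit 125) (nat_lit 1) (nat_lit 126) (nat_lit 1) (nat_lit 449) (nat_lit 350) (nat_lit 221)) (XT.nd (nat_lit 42822) (nat_lit 0) (nat_lit 12692) (XT.lf (nat_lit 0) (nat_lit 203664879) (nat_lit 0) (nat_lit 226321512) (nat_lit 152) (nat_lit 203664879) (nat_lit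 125) (nat_lit 3) (nat_lit 125) (nat_lit 1) (nat_lit 127) (nat_lit 1) (nat_lit 450) (nat_lit 350) (nat_lit 220)) (XT.lf (nat_lit 836) (nat_lit 919034825) (nat_lit 0) (nat_lit 1631744220) (nat_lit 836) (nat_lit 919034825) (nat_lit 303) (nat_lit 1) (nat_lit 292) (nat_lit 0) (nat_lit 303) (nat_lit 0) (nat_lit 318) (nat_lit 351) (nat_lit 351)))) (XT.nd (nat_lit 156) (nat_lit 0) (nat_lit 76) (XT.nd (nat_lit 78) (nat_lit 0) (nat_lit 76) (XT.lf (nat_lit 836) (nat_lit 3562293721) (nat_lit 76) (nat_lit 1605425765) (nat_lit 0) (nat_lit 1605425765) (nat_lit 303) (nat_lit 1) (nat_lit 293) (nat_lit 1) (nat_lit 292) (nat_lit 0) (nat_lit 319) (nat_lit 351) (nat_lit 350)) (XT.lf (nat_lit 836) (nat_lit 1697735550) (nat_lit 0) (nat_lit 3216338528) (nat_lit 760) (nat_lit 1697735550) (nat_lit 304) (nat_lit 1) (nat_lit 293) (nat_lit 1) (nat_lit 303) (nat_lit 1) (nat_lit 320) (nat_lit 351) (nat_lit 349))) (XT.nd (nat_lit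 78) (nat_lit 0) (nat_lit 76) (XT.lf (nat_lit 836) (nat_lit 3184715985) (nat_lit 76) (nat_lit 1635485180) (nat_lit 0) (nat_lit 1635485180) (nat_lit 304) (nat_lit 1) (nat_lit 294) (nat_lit 1) (nat_lit 293) (nat_lit 1) (nat_lit 321) (nat_lit 351) (nat_lit 348)) (XT.lf (nat_lit 836) (nat_lit 1465894185) (nat_lit 0) (nat_lit 3372723021) (nat_lit 760) (nat_lit 1465894185) (nat_lit 305) (nat_lit 1) (nat_lit 294) (nat_lit 1) (nat_lit 304) (nat_lit 1) (nat_lit 322) (nat_lit 351) (nat_lit 347))))))) (XT.nd (nat_lit 936) (nat_lit 2128) (nat_lit 0) (XT.nd (nat_lit 468) (nat_lit 1824) (nat_lit 0) (XT.nd (nat_lit 234) (nat_lit 0) (nat_lit 152) (XT.nd (nat_lit 78) (nat_lit 0) (nat_lit 76) (XT.lf (nat_lit 836) (nat_lit 2636506168) (nat_lit 76) (nat_lit 1760719328) (nat_lit 0) (nat_lit 1760719328) (nat_lit 305) (nat_lit 1) (nat_lit 295) (nat_lit 1) (nat_lit 294) (nat_lit 1) (nat_lit 323) (nat_lit 351) (nat_lit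 346)) (XT.nd (nat_lit 78) (nat_lit 0) (nat_lit 0) (XT.lf (nat_lit 836) (nat_lit 1156031805) (nat_lit 0) (nat_lit 3704235846) (nat_lit 760) (nat_lit 1156031805) (nat_lit 306) (nat_lit 1) (nat_lit 295) (nat_lit 1) (nat_lit 305) (nat_lit 1) (nat_lit 324) (nat_lit 351) (nat_lit 345)) (XT.lf (nat_lit 836) (nat_lit 1943324960) (nat_lit 76) (nat_lit 1967614556) (nat_lit 0) (nat_lit 1967614556) (nat_lit 306) (nat_lit 1) (nat_lit 296) (nat_lit 1) (nat_lit 295) (nat_lit 1) (nat_lit 325) (nat_lit 351) (nat_lit 344)))) (XT.nd (nat_lit 78) (nat_lit 0) (nat_lit 0) (XT.lf (nat_lit 836) (nat_lit 780143753) (nat_lit 0) (nat_lit 4185563447) (nat_lit 760) (nat_lit 780143753) (nat_lit 307) (nat_lit 1) (nat_lit 296) (nat_lit 1) (nat_lit 306) (nat_lit 1) (nat_lit 326) (nat_lit 351) (nat_lit 343)) (XT.nd (nat_lit 78) (nat_lit 0) (nat_lit 76) (XT.lf (nat_lit 836) (nat_lit 1127980843) (nat_lit 76) (nat_lit 2244135734)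 (nat_lit 0) (nat_lit 2244135734) (nat_lit 307) (nat_lit 1) (nat_lit 297) (nat_lit 1) (nat_lit 296) (nat_lit 1) (nat_lit 327) (nat_lit 351) (nat_lit 342)) (XT.lf (nat_lit 76) (nat_lit 348884361) (nat_lit 0) (nat_lit 4794175764) (nat_lit 760) (nat_lit 348884361) (nat_lit 298) (nat_lit 1) (nat_lit 297) (nat_lit 1) (nat_lit 307) (nat_lit 1) (nat_lit 328) (nat_lit 351) (nat_lit 341))))) (XT.nd (nat_lit 234) (nat_lit 760) (nat_lit 0) (XT.nd (nat_lit 78) (nat_lit 532) (nat_lit 0) (XT.lf (nat_lit 836) (nat_lit 210717478) (nat_lit 0) (nat_lit 2579578221) (nat_lit 760) (nat_lit 2579578221) (nat_lit 298) (nat_lit 1) (nat_lit 287) (nat_lit 1) (nat_lit 297) (nat_lit 1) (nat_lit 329) (nat_lit 351) (nat_lit 340)) (XT.nd (nat_lit 78) (nat_lit 0) (nat_lit 0) (XT.lf (nat_lit 532) (nat_lit 5000591132) (nat_lit 0) (nat_lit 126228301) (nat_lit 456) (nat_lit 126228301) (nat_lit 287) (nat_lit 1) (nat_lit 280) (nat_lit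 1) (nat_lit 286) (nat_lit 1) (nat_lit 330) (nat_lit 351) (nat_lit 339)) (XT.lf (nat_lit 76) (nat_lit 2186249739) (nat_lit 0) (nat_lit 765224896) (nat_lit 532) (nat_lit 2186249739) (nat_lit 281) (nat_lit 1) (nat_lit 280) (nat_lit 1) (nat_lit 287) (nat_lit 1) (nat_lit 331) (nat_lit 351) (nat_lit 338)))) (XT.nd (nat_lit 78) (nat_lit 380) (nat_lit 0) (XT.lf (nat_lit 456) (nat_lit 3761974616) (nat_lit 0) (nat_lit 632665129) (nat_lit 380) (nat_lit 632665129) (nat_lit 281) (nat_lit 1) (nat_lit 275) (nat_lit 1) (nat_lit 280) (nat_lit 1) (nat_lit 332) (nat_lit 351) (nat_lit 337)) (XT.nd (nat_lit 78) (nat_lit 380) (nat_lit 0) (XT.lf (nat_lit 76) (nat_lit 1559425325) (nat_lit 0) (nat_lit 1800356047) (nat_lit 456) (nat_lit 1559425325) (nat_lit 276) (nat_lit 1) (nat_lit 275) (nat_lit 1) (nat_lit 281) (nat_lit 1) (nat_lit 333) (nat_lit 351) (nat_lit 336)) (XT.lf (nat_lit 456) (nat_lit 2477313634) (nat_lit 0)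 (nat_lit 1168779828) (nat_lit 380) (nat_lit 1168779828) (nat_lit 276) (nat_lit 1) (nat_lit 270) (nat_lit 1) (nat_lit 275) (nat_lit 1) (nat_lit 334) (nat_lit 351) (nat_lit 335)))))) (XT.nd (nat_lit 468) (nat_lit 1140) (nat_lit 0) (XT.nd (nat_lit 234) (nat_lit 684) (nat_lit 0) (XT.nd (nat_lit 78) (nat_lit 304) (nat_lit 0) (XT.lf (nat_lit 76) (nat_lit 912857150) (nat_lit 0) (nat_lit 2887859950) (nat_lit 456) (nat_lit 912857150) (nat_lit 271) (nat_lit 1) (nat_lit 270) (nat_lit 1) (nat_lit 276) (nat_lit 1) (nat_lit 335) (nat_lit 351) (nat_lit 334)) (XT.nd (nat_lit 78) (nat_lit 0) (nat_lit 0) (XT.lf (nat_lit 380) (nat_lit 1158565121) (nat_lit 0) (nat_lit 1728157917) (nat_lit 304) (nat_lit 1728157917) (nat_lit 271) (nat_lit 1) (nat_lit 266) (nat_lit 1) (nat_lit 270) (nat_lit 1) (nat_lit 336) (nat_lit 351) (nat_lit 333)) (XT.lf (nat_lit 76) (nat_lit 252096039) (nat_lit 0) (nat_lit 4015790841) (nat_lit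 380) (nat_lit 252096039) (nat_lit 267) (nat_lit 1) (nat_lit 266) (nat_lit 1) (nat_lit 271) (nat_lit 1) (nat_lit 337) (nat_lit 351) (nat_lit 332)))) (XT.nd (nat_lit 78) (nat_lit 304) (nat_lit 0) (XT.lf (nat_lit 76) (nat_lit 2124233671) (nat_lit 0) (nat_lit 177908696) (nat_lit 380) (nat_lit 2124233671) (nat_lit 262) (nat_lit 1) (nat_lit 261) (nat_lit 1) (nat_lit 266) (nat_lit 1) (nat_lit 338) (nat_lit 351) (nat_lit 331)) (XT.nd (nat_lit 78) (nat_lit 0) (nat_lit 0) (XT.lf (nat_lit 380) (nat_lit 3513817487) (nat_lit 0) (nat_lit 411258224) (nat_lit 304) (nat_lit 411258224) (nat_lit 262) (nat_lit 1) (nat_lit 257) (nat_lit 1) (nat_lit 261) (nat_lit 1) (nat_lit 339) (nat_lit 351) (nat_lit 330)) (XT.lf (nat_lit 76) (nat_lit 1378273696) (nat_lit 0) (nat_lit 1491289133) (nat_lit 380) (nat_lit 1378273696) (nat_lit 258) (nat_lit 1) (nat_lit 257) (nat_lit 1) (nat_lit 262) (nat_lit 1) (nat_lit 340) (nat_lit 351)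 (nat_lit 329))))) (XT.nd (nat_lit 234) (nat_lit 608) (nat_lit 0) (XT.nd (nat_lit 78) (nat_lit 228) (nat_lit 0) (XT.lf (nat_lit 380) (nat_lit 2011284729) (nat_lit 0) (nat_lit 1075561583) (nat_lit 304) (nat_lit 1075561583) (nat_lit 258) (nat_lit 1) (nat_lit 253) (nat_lit 1) (nat_lit 257) (nat_lit 1) (nat_lit 341) (nat_lit 351) (nat_lit 328)) (XT.nd (nat_lit 78) (nat_lit 228) (nat_lit 0) (XT.lf (nat_lit 76) (nat_lit 634269441) (nat_lit 0) (nat_lit 2810938323) (nat_lit 380) (nat_lit 634269441) (nat_lit 254) (nat_lit 1) (nat_lit 253) (nat_lit 1) (nat_lit 258) (nat_lit 1) (nat_lit 342) (nat_lit 351) (nat_lit 327)) (XT.lf (nat_lit 304) (nat_lit 515824171) (nat_lit 0) (nat_lit 1741256243) (nat_lit 228) (nat_lit 1741256243) (nat_lit 254) (nat_lit 1) (nat_lit 250) (nat_lit 1) (nat_lit 253) (nat_lit 1) (nat_lit 343) (nat_lit 351) (nat_lit 326)))) (XT.nd (nat_lit 156) (nat_lit 228) (nat_lit 0) (XT.nd (nat_lit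 78) (nat_lit 0) (nat_lit 0) (XT.lf (nat_lit 380) (nat_lit 3714203375) (nat_lit 0) (nat_lit 103062016) (nat_lit 304) (nat_lit 103062016) (nat_lit 250) (nat_lit 1) (nat_lit 245) (nat_lit 1) (nat_lit 249) (nat_lit 1) (nat_lit 344) (nat_lit 351) (nat_lit 325)) (XT.lf (nat_lit 76) (nat_lit 1453395239) (nat_lit 0) (nat_lit 935959453) (nat_lit 380) (nat_lit 1453395239) (nat_lit 246) (nat_lit 1) (nat_lit 245) (nat_lit 1) (nat_lit 250) (nat_lit 1) (nat_lit 345) (nat_lit 351) (nat_lit 324))) (XT.nd (nat_lit 78) (nat_lit 0) (nat_lit 0) (XT.lf (nat_lit 304) (nat_lit 2122729695) (nat_lit 0) (nat_lit 822709031) (nat_lit 228) (nat_lit 822709031) (nat_lit 246) (nat_lit 1) (nat_lit 242) (nat_lit 1) (nat_lit 245) (nat_lit 1) (nat_lit 346) (nat_lit 351) (nat_lit 323)) (XT.lf (nat_lit 76) (nat_lit 670603145) (nat_lit 0) (nat_lit 2354234687) (nat_lit 304) (nat_lit 670603145) (nat_lit 243) (nat_lit 1) (nat_lit 242)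 (nat_lit 1) (nat_lit 246) (nat_lit 1) (nat_lit 347) (nat_lit 351) (nat_lit 322))))))))
noncomputable def ec82 : XT := (XT.nd (nat_lit 1950) (nat_lit 2052) (nat_lit 0) (XT.nd (nat_lit 936) (nat_lit 1216) (nat_lit 0) (XT.nd (nat_lit 468) (nat_lit 836) (nat_lit 0) (XT.nd (nat_lit 234) (nat_lit 380) (nat_lit 0) (XT.nd (nat_lit 78) (nat_lit 304) (nat_lit 0) (XT.lf (nat_lit 304) (nat_lit 558926761) (nat_lit 0) (nat_lit 1532730749) (nat_lit 228) (nat_lit 1532730749) (nat_lit 243) (nat_lit 1) (nat_lit 239) (nat_lit 1) (nat_lit 242) (nat_lit 1) (nat_lit 348) (nat_lit 351) (nat_lit 321)) (XT.nd (nat_lit 78) (nat_lit 0) (nat_lit 0) (XT.lf (nat_lit 304) (nat_lit 3363860566) (nat_lit 0) (nat_lit 96057337) (nat_lit 228) (nat_lit 96057337) (nat_lit 239) (nat_lit 1) (nat_lit 235) (nat_lit 1) (nat_lit 238) (nat_lit 1) (nat_lit 349) (nat_lit 351) (nat_lit 320)) (XT.lf (nat_lit 76) (nat_lit 1272452117) (nat_lit 0)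 (nat_lit 942874242) (nat_lit 304) (nat_lit 1272452117) (nat_lit 236) (nat_lit 1) (nat_lit 235) (nat_lit 1) (nat_lit 239) (nat_lit 1) (nat_lit 350) (nat_lit 351) (nat_lit 319)))) (XT.nd (nat_lit 78) (nat_lit 152) (nat_lit 0) (XT.lf (nat_lit 304) (nat_lit 1749738174) (nat_lit 0) (nat_lit 836183414) (nat_lit 228) (nat_lit 836183414) (nat_lit 236) (nat_lit 1) (nat_lit 232) (nat_lit 1) (nat_lit 235) (nat_lit 1) (nat_lit 351) (nat_lit 351) (nat_lit 318)) (XT.nd (nat_lit 78) (nat_lit 152) (nat_lit 0) (XT.lf (nat_lit 76) (nat_lit 481876466) (nat_lit 0) (nat_lit 2394439989) (nat_lit 304) (nat_lit 481876466) (nat_lit 233) (nat_lit 1) (nat_lit 232) (nat_lit 1) (nat_lit 236) (nat_lit 1) (nat_lit 352) (nat_lit 351) (nat_lit 317)) (XT.lf (nat_lit 228) (nat_lit 176575559) (nat_lit 0) (nat_lit 1559454833) (nat_lit 152) (nat_lit 1559454833) (nat_lit 233) (nat_lit 1) (nat_lit 230) (nat_lit 1) (nat_lit 232) (nat_lit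 1) (nat_lit 353) (nat_lit 351) (nat_lit 316))))) (XT.nd (nat_lit 234) (nat_lit 380) (nat_lit 0) (XT.nd (nat_lit 78) (nat_lit 152) (nat_lit 0) (XT.lf (nat_lit 304) (nat_lit 2667997492) (nat_lit 0) (nat_lit 283360672) (nat_lit 228) (nat_lit 283360672) (nat_lit 230) (nat_lit 1) (nat_lit 226) (nat_lit 1) (nat_lit 229) (nat_lit 1) (nat_lit 354) (nat_lit 351) (nat_lit 315)) (XT.nd (nat_lit 78) (nat_lit 152) (nat_lit 0) (XT.lf (nat_lit 76) (nat_lit 931868193) (nat_lit 0) (nat_lit 1310895675) (nat_lit 304) (nat_lit 931868193) (nat_lit 227) (nat_lit 1) (nat_lit 226) (nat_lit 1) (nat_lit 230) (nat_lit 1) (nat_lit 355) (nat_lit 351) (nat_lit 314)) (XT.lf (nat_lit 228) (nat_lit 1076629950) (nat_lit 0) (nat_lit 1019884889) (nat_lit 152) (nat_lit 1019884889) (nat_lit 227) (nat_lit 1) (nat_lit 224) (nat_lit 1) (nat_lit 226) (nat_lit 1) (nat_lit 356) (nat_lit 351) (nat_lit 313)))) (XT.nd (nat_lit 78) (nat_lit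 380) (nat_lit 0) (XT.lf (nat_lit 76) (nat_lit 154677551) (nat_lit 0) (nat_lit 2750744803) (nat_lit 228) (nat_lit 154677551) (nat_lit 225) (nat_lit 1) (nat_lit 224) (nat_lit 1) (nat_lit 227) (nat_lit 1) (nat_lit 357) (nat_lit 351) (nat_lit 312)) (XT.nd (nat_lit 78) (nat_lit 152) (nat_lit 0) (XT.lf (nat_lit 76) (nat_lit 1276580966) (nat_lit 0) (nat_lit 450842801) (nat_lit 228) (nat_lit 1276580966) (nat_lit 222) (nat_lit 1) (nat_lit 221) (nat_lit 1) (nat_lit 224) (nat_lit 1) (nat_lit 358) (nat_lit 351) (nat_lit 311)) (XT.lf (nat_lit 228) (nat_lit 1772756411) (nat_lit 0) (nat_lit 588507097) (nat_lit 152) (nat_lit 588507097) (nat_lit 222) (nat_lit 1) (nat_lit 219) (nat_lit 1) (nat_lit 221) (nat_lit 1) (nat_lit 359) (nat_lit 351) (nat_lit 310)))))) (XT.nd (nat_lit 468) (nat_lit 684) (nat_lit 0) (XT.nd (nat_lit 234) (nat_lit 152) (nat_lit 0) (XT.nd (nat_lit 78) (nat_lit 380) (nat_lit 0) (XT.lf (nat_lit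 76) (nat_lit 500225739) (nat_lit 0) (nat_lit 1896283694) (nat_lit 228) (nat_lit 500225739) (nat_lit 220) (nat_lit 1) (nat_lit 219) (nat_lit 1) (nat_lit 222) (nat_lit 1) (nat_lit 360) (nat_lit 351) (nat_lit 309)) (XT.nd (nat_lit 78) (nat_lit 228) (nat_lit 0) (XT.lf (nat_lit 228) (nat_lit 234337748) (nat_lit 0) (nat_lit 1305215523) (nat_lit 152) (nat_lit 1305215523) (nat_lit 220) (nat_lit 1) (nat_lit 217) (nat_lit 1) (nat_lit 219) (nat_lit 1) (nat_lit 361) (nat_lit 351) (nat_lit 308)) (XT.lf (nat_lit 228) (nat_lit 2303222789) (nat_lit 0) (nat_lit 245542698) (nat_lit 152) (nat_lit 245542698) (nat_lit 217) (nat_lit 1) (nat_lit 214) (nat_lit 1) (nat_lit 216) (nat_lit 1) (nat_lit 362) (nat_lit 351) (nat_lit 307)))) (XT.nd (nat_lit 78) (nat_lit 152) (nat_lit 0) (XT.lf (nat_lit 76) (nat_lit 766748510) (nat_lit 0) (nat_lit 1210781229) (nat_lit 228) (nat_lit 766748510) (nat_lit 215) (nat_lit 1) (nat_lit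 214) (nat_lit 1) (nat_lit 217) (nat_lit 1) (nat_lit 363) (nat_lit 351) (nat_lit 306)) (XT.nd (nat_lit 78) (nat_lit 0) (nat_lit 0) (XT.lf (nat_lit 228) (nat_lit 780896132) (nat_lit 0) (nat_lit 957402310) (nat_lit 152) (nat_lit 957402310) (nat_lit 215) (nat_lit 1) (nat_lit 212) (nat_lit 1) (nat_lit 214) (nat_lit 1) (nat_lit 364) (nat_lit 351) (nat_lit 305)) (XT.lf (nat_lit 76) (nat_lit 25665902) (nat_lit 0) (nat_lit 2597495068) (nat_lit 228) (nat_lit 25665902) (nat_lit 213) (nat_lit 1) (nat_lit 212) (nat_lit 1) (nat_lit 215) (nat_lit 1) (nat_lit 365) (nat_lit 351) (nat_lit 304))))) (XT.nd (nat_lit 234) (nat_lit 380) (nat_lit 0) (XT.nd (nat_lit 78) (nat_lit 152) (nat_lit 0) (XT.lf (nat_lit 76) (nat_lit 969102618) (nat_lit 0) (nat_lit 663449799) (nat_lit 152) (nat_lit 969102618) (nat_lit 211) (nat_lit 1) (nat_lit 210) (nat_lit 1) (nat_lit 212) (nat_lit 1) (nat_lit 366) (nat_lit 351) (nat_lit 303))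 (XT.nd (nat_lit 78) (nat_lit 0) (nat_lit 0) (XT.lf (nat_lit 228) (nat_lit 1202546024) (nat_lit 0) (nat_lit 676798459) (nat_lit 152) (nat_lit 676798459) (nat_lit 211) (nat_lit 1) (nat_lit 208) (nat_lit 1) (nat_lit 210) (nat_lit 1) (nat_lit 367) (nat_lit 351) (nat_lit 302)) (XT.lf (nat_lit 76) (nat_lit 241102166) (nat_lit 0) (nat_lit 2029655003) (nat_lit 228) (nat_lit 241102166) (nat_lit 209) (nat_lit 1) (nat_lit 208) (nat_lit 1) (nat_lit 211) (nat_lit 1) (nat_lit 368) (nat_lit 351) (nat_lit 301)))) (XT.nd (nat_lit 156) (nat_lit 76) (nat_lit 0) (XT.nd (nat_lit 78) (nat_lit 152) (nat_lit 0) (XT.lf (nat_lit 76) (nat_lit 1119470475) (nat_lit 0) (nat_lit 228999969) (nat_lit 152) (nat_lit 1119470475) (nat_lit 207) (nat_lit 1) (nat_lit 206) (nat_lit 1) (nat_lit 208) (nat_lit 1) (nat_lit 369) (nat_lit 351) (nat_lit 300)) (XT.lf (nat_lit 228) (nat_lit 1522766965) (nat_lit 0) (nat_lit 451223966) (nat_lit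 152) (nat_lit 451223966) (nat_lit 207) (nat_lit 1) (nat_lit 204) (nat_lit 1) (nat_lit 206) (nat_lit 1) (nat_lit 370) (nat_lit 351) (nat_lit 299))) (XT.nd (nat_lit 78) (nat_lit 76) (nat_lit 0) (XT.lf (nat_lit 76) (nat_lit 407866554) (nat_lit 0) (nat_lit 1567601606) (nat_lit 228) (nat_lit 407866554) (nat_lit 205) (nat_lit 1) (nat_lit 204) (nat_lit 1) (nat_lit 207) (nat_lit 1) (nat_lit 371) (nat_lit 351) (nat_lit 298)) (XT.lf (nat_lit 152) (nat_lit 117083634) (nat_lit 0) (nat_lit 1112580598) (nat_lit 76) (nat_lit 1112580598) (nat_lit 205) (nat_lit 1) (nat_lit 203) (nat_lit 1) (nat_lit 204) (nat_lit 1) (nat_lit 372) (nat_lit 351) (nat_lit 297))))))) (XT.nd (nat_lit 936) (nat_lit 912) (nat_lit 0) (XT.nd (nat_lit 468) (nat_lit 532) (nat_lit 0) (XT.nd (nat_lit 234) (nat_lit 304) (nat_lit 0) (XT.nd (nat_lit 78) (nat_lit 76) (nat_lit 0) (XT.lf (nat_lit 228) (nat_lit 1760812127) (nat_lit 0) (nat_lit 270670882)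 (nat_lit 152) (nat_lit 270670882) (nat_lit 203) (nat_lit 1) (nat_lit 200) (nat_lit 1) (nat_lit 202) (nat_lit 1) (nat_lit 373) (nat_lit 351) (nat_lit 296)) (XT.nd (nat_lit 78) (nat_lit 76) (nat_lit 0) (XT.lf (nat_lit 76) (nat_lit 535087304) (nat_lit 0) (nat_lit 1192335827) (nat_lit 228) (nat_lit 535087304) (nat_lit 201) (nat_lit 1) (nat_lit 200) (nat_lit 1) (nat_lit 203) (nat_lit 1) (nat_lit 374) (nat_lit 351) (nat_lit 295)) (XT.lf (nat_lit 152) (nat_lit 393193370) (nat_lit 0) (nat_lit 915322811) (nat_lit 76) (nat_lit 915322811) (nat_lit 201) (nat_lit 1) (nat_lit 199) (nat_lit 1) (nat_lit 200) (nat_lit 1) (nat_lit 375) (nat_lit 351) (nat_lit 294)))) (XT.nd (nat_lit 78) (nat_lit 76) (nat_lit 0) (XT.lf (nat_lit 228) (nat_lit 1932460662) (nat_lit 0) (nat_lit 126917613) (nat_lit 152) (nat_lit 126917613) (nat_lit 199) (nat_lit 1) (nat_lit 196) (nat_lit 1) (nat_lit 198) (nat_lit 1) (nat_lit 376) (nat_lit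 351) (nat_lit 293)) (XT.nd (nat_lit 78) (nat_lit 76) (nat_lit 0) (XT.lf (nat_lit 76) (nat_lit 630250489) (nat_lit 0) (nat_lit 888238690) (nat_lit 228) (nat_lit 630250489) (nat_lit 197) (nat_lit 1) (nat_lit 196) (nat_lit 1) (nat_lit 199) (nat_lit 1) (nat_lit 377) (nat_lit 351) (nat_lit 292)) (XT.lf (nat_lit 152) (nat_lit 606212944) (nat_lit 0) (nat_lit 753038342) (nat_lit 76) (nat_lit 753038342) (nat_lit 197) (nat_lit 1) (nat_lit 195) (nat_lit 1) (nat_lit 196) (nat_lit 1) (nat_lit 378) (nat_lit 351) (nat_lit 291))))) (XT.nd (nat_lit 234) (nat_lit 228) (nat_lit 0) (XT.nd (nat_lit 78) (nat_lit 76) (nat_lit 0) (XT.lf (nat_lit 228) (nat_lit 2050636519) (nat_lit 0) (nat_lit 13211632) (nat_lit 152) (nat_lit 13211632) (nat_lit 195) (nat_lit 1) (nat_lit 192) (nat_lit 1) (nat_lit 194) (nat_lit 1) (nat_lit 379) (nat_lit 351) (nat_lit 290)) (XT.nd (nat_lit 78) (nat_lit 76) (nat_lit 0) (XT.lf (nat_lit 76) (nat_lit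 699492293) (nat_lit 0) (nat_lit 642471458) (nat_lit 228) (nat_lit 699492293) (nat_lit 193) (nat_lit 1) (nat_lit 192) (nat_lit 1) (nat_lit 195) (nat_lit 1) (nat_lit 380) (nat_lit 351) (nat_lit 289)) (XT.lf (nat_lit 152) (nat_lit 768001256) (nat_lit 0) (nat_lit 619526507) (nat_lit 76) (nat_lit 619526507) (nat_lit 193) (nat_lit 1) (nat_lit 191) (nat_lit 1) (nat_lit 192) (nat_lit 1) (nat_lit 381) (nat_lit 351) (nat_lit 288)))) (XT.nd (nat_lit 78) (nat_lit 228) (nat_lit 0) (XT.lf (nat_lit 0) (nat_lit 77237283) (nat_lit 0) (nat_lit 1819216579) (nat_lit 152) (nat_lit 77237283) (nat_lit 191) (nat_lit 3) (nat_lit 191) (nat_lit 1) (nat_lit 193) (nat_lit 1) (nat_lit 382) (nat_lit 351) (nat_lit 287)) (XT.nd (nat_lit 78) (nat_lit 76) (nat_lit 0) (XT.lf (nat_lit 76) (nat_lit 747839428) (nat_lit 0) (nat_lit 444482182) (nat_lit 152) (nat_lit 747839428) (nat_lit 190) (nat_lit 1) (nat_lit 189) (nat_lit 1) (nat_lit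 191) (nat_lit 1) (nat_lit 383) (nat_lit 351) (nat_lit 286)) (XT.lf (nat_lit 152) (nat_lit 888282597) (nat_lit 0) (nat_lit 509685991) (nat_lit 76) (nat_lit 509685991) (nat_lit 190) (nat_lit 1) (nat_lit 188) (nat_lit 1) (nat_lit 189) (nat_lit 1) (nat_lit 384) (nat_lit 351) (nat_lit 285)))))) (XT.nd (nat_lit 468) (nat_lit 456) (nat_lit 0) (XT.nd (nat_lit 234) (nat_lit 228) (nat_lit 0) (XT.nd (nat_lit 78) (nat_lit 228) (nat_lit 0) (XT.lf (nat_lit 0) (nat_lit 147623980) (nat_lit 0) (nat_lit 1580754658) (nat_lit 152) (nat_lit 147623980) (nat_lit 188) (nat_lit 3) (nat_lit 188) (nat_lit 1) (nat_lit 190) (nat_lit 1) (nat_lit 385) (nat_lit 351) (nat_lit 284)) (XT.nd (nat_lit 78) (nat_lit 76) (nat_lit 0) (XT.lf (nat_lit 76) (nat_lit 779406859) (nat_lit 0) (nat_lit 285599756) (nat_lit 152) (nat_lit 779406859) (nat_lit 187) (nat_lit 1) (nat_lit 186) (nat_lit 1) (nat_lit 188) (nat_lit 1) (nat_lit 386) (nat_lit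 351) (nat_lit 283)) (XT.lf (nat_lit 152) (nat_lit 975026637) (nat_lit 0) (nat_lit 419319926) (nat_lit 76) (nat_lit 419319926) (nat_lit 187) (nat_lit 1) (nat_lit 185) (nat_lit 1) (nat_lit 186) (nat_lit 1) (nat_lit 387) (nat_lit 351) (nat_lit 282)))) (XT.nd (nat_lit 78) (nat_lit 228) (nat_lit 0) (XT.lf (nat_lit 0) (nat_lit 201527448) (nat_lit 0) (nat_lit 1380567604) (nat_lit 152) (nat_lit 201527448) (nat_lit 185) (nat_lit 3) (nat_lit 185) (nat_lit 1) (nat_lit 187) (nat_lit 1) (nat_lit 388) (nat_lit 351) (nat_lit 281)) (XT.nd (nat_lit 78) (nat_lit 76) (nat_lit 0) (XT.lf (nat_lit 76) (nat_lit 797560439) (nat_lit 0) (nat_lit 158699974) (nat_lit 152) (nat_lit 797560439) (nat_lit 184) (nat_lit 1) (nat_lit 183) (nat_lit 1) (nat_lit 185) (nat_lit 1) (nat_lit 389) (nat_lit 351) (nat_lit 280)) (XT.lf (nat_lit 152) (nat_lit 1034760967) (nat_lit 0) (nat_lit 344975541) (nat_lit 76) (nat_lit 344975541) (nat_lit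 184) (nat_lit 1) (nat_lit 182) (nat_lit 1) (nat_lit 183) (nat_lit 1) (nat_lit 390) (nat_lit 351) (nat_lit 279))))) (XT.nd (nat_lit 234) (nat_lit 228) (nat_lit 0) (XT.nd (nat_lit 78) (nat_lit 228) (nat_lit 0) (XT.lf (nat_lit 0) (nat_lit 242060783) (nat_lit 0) (nat_lit 1212060037) (nat_lit 152) (nat_lit 242060783) (nat_lit 182) (nat_lit 3) (nat_lit 182) (nat_lit 1) (nat_lit 184) (nat_lit 1) (nat_lit 391) (nat_lit 351) (nat_lit 278)) (XT.nd (nat_lit 78) (nat_lit 76) (nat_lit 0) (XT.lf (nat_lit 76) (nat_lit 805050649) (nat_lit 0) (nat_lit 57930811) (nat_lit 152) (nat_lit 805050649) (nat_lit 181) (nat_lit 1) (nat_lit 180) (nat_lit 1) (nat_lit 182) (nat_lit 1) (nat_lit 392) (nat_lit 351) (nat_lit 277)) (XT.lf (nat_lit 152) (nat_lit 1072828160) (nat_lit 0) (nat_lit 283812231) (nat_lit 76) (nat_lit 283812231) (nat_lit 181) (nat_lit 1) (nat_lit 179) (nat_lit 1) (nat_lit 180) (nat_lit 1) (nat_lit 393) (nat_lit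 351) (nat_lit 276)))) (XT.nd (nat_lit 156) (nat_lit 152) (nat_lit 0) (XT.nd (nat_lit 78) (nat_lit 76) (nat_lit 0) (XT.lf (nat_lit 0) (nat_lit 271776055) (nat_lit 0) (nat_lit 1069796842) (nat_lit 152) (nat_lit 271776055) (nat_lit 179) (nat_lit 3) (nat_lit 179) (nat_lit 1) (nat_lit 181) (nat_lit 1) (nat_lit 394) (nat_lit 351) (nat_lit 275)) (XT.lf (nat_lit 76) (nat_lit 22224894) (nat_lit 0) (nat_lit 782244691) (nat_lit 76) (nat_lit 782244691) (nat_lit 179) (nat_lit 3) (nat_lit 178) (nat_lit 1) (nat_lit 179) (nat_lit 1) (nat_lit 395) (nat_lit 351) (nat_lit 274))) (XT.nd (nat_lit 78) (nat_lit 0) (nat_lit 0) (XT.lf (nat_lit 152) (nat_lit 1093597193) (nat_lit 0) (nat_lit 233493025) (nat_lit 76) (nat_lit 233493025) (nat_lit 178) (nat_lit 1) (nat_lit 176) (nat_lit 1) (nat_lit 177) (nat_lit 1) (nat_lit 396) (nat_lit 351) (nat_lit 273)) (XT.lf (nat_lit 0) (nat_lit 292764213) (nat_lit 0) (nat_lit 949297890)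 (nat_lit 152) (nat_lit 292764213) (nat_lit 176) (nat_lit 3) (nat_lit 176) (nat_lit 1) (nat_lit 178) (nat_lit 1) (nat_lit 397) (nat_lit 351) (nat_lit 272))))))))
noncomputable def ec83 : XT := (XT.nd (nat_lit 1950) (nat_lit 1976) (nat_lit 0) (XT.nd (nat_lit 936) (nat_lit 988) (nat_lit 0) (XT.nd (nat_lit 468) (nat_lit 456) (nat_lit 0) (XT.nd (nat_lit 234) (nat_lit 228) (nat_lit 0) (XT.nd (nat_lit 78) (nat_lit 152) (nat_lit 0) (XT.lf (nat_lit 76) (nat_lit 86342156) (nat_lit 0) (nat_lit 711612324) (nat_lit 76) (nat_lit 711612324) (nat_lit 176) (nat_lit 3) (nat_lit 175) (nat_lit 1) (nat_lit 176) (nat_lit 1) (nat_lit 398) (nat_lit 351) (nat_lit 271)) (XT.nd (nat_lit 78) (nat_lit 0) (nat_lit 0) (XT.lf (nat_lit 152) (nat_lit 1100637319) (nat_lit 0) (nat_lit 192095289) (nat_lit 76) (nat_lit 192095289) (nat_lit 175) (nat_lit 1) (nat_lit 173) (nat_lit 1) (nat_lit 174) (nat_lit 1) (nat_lit 399) (nat_lit 351)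 (nat_lit 270)) (XT.lf (nat_lit 0) (nat_lit 306737253) (nat_lit 0) (nat_lit 846869133) (nat_lit 152) (nat_lit 306737253) (nat_lit 173) (nat_lit 3) (nat_lit 173) (nat_lit 1) (nat_lit 175) (nat_lit 1) (nat_lit 400) (nat_lit 351) (nat_lit 269)))) (XT.nd (nat_lit 78) (nat_lit 152) (nat_lit 0) (XT.lf (nat_lit 76) (nat_lit 135850744) (nat_lit 0) (nat_lit 650262059) (nat_lit 76) (nat_lit 650262059) (nat_lit 173) (nat_lit 3) (nat_lit 172) (nat_lit 1) (nat_lit 173) (nat_lit 1) (nat_lit 401) (nat_lit 351) (nat_lit 268)) (XT.nd (nat_lit 78) (nat_lit 0) (nat_lit 0) (XT.lf (nat_lit 152) (nat_lit 1096861047) (nat_lit 0) (nat_lit 158037270) (nat_lit 76) (nat_lit 158037270) (nat_lit 172) (nat_lit 1) (nat_lit 170) (nat_lit 1) (nat_lit 171) (nat_lit 1) (nat_lit 402) (nat_lit 351) (nat_lit 267)) (XT.lf (nat_lit 0) (nat_lit 315095793) (nat_lit 0) (nat_lit 759463627) (nat_lit 152) (nat_lit 315095793) (nat_lit 170) (nat_lit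 3) (nat_lit 170) (nat_lit 1) (nat_lit 172) (nat_lit 1) (nat_lit 403) (nat_lit 351) (nat_lit 266))))) (XT.nd (nat_lit 234) (nat_lit 228) (nat_lit 0) (XT.nd (nat_lit 78) (nat_lit 152) (nat_lit 0) (XT.lf (nat_lit 76) (nat_lit 173495066) (nat_lit 0) (nat_lit 596702528) (nat_lit 76) (nat_lit 596702528) (nat_lit 170) (nat_lit 3) (nat_lit 169) (nat_lit 1) (nat_lit 170) (nat_lit 1) (nat_lit 404) (nat_lit 351) (nat_lit 265)) (XT.nd (nat_lit 78) (nat_lit 0) (nat_lit 0) (XT.lf (nat_lit 152) (nat_lit 1084641727) (nat_lit 0) (nat_lit 130017653) (nat_lit 76) (nat_lit 130017653) (nat_lit 169) (nat_lit 1) (nat_lit 167) (nat_lit 1) (nat_lit 168) (nat_lit 1) (nat_lit 405) (nat_lit 351) (nat_lit 264)) (XT.lf (nat_lit 0) (nat_lit 318984655) (nat_lit 0) (nat_lit 684567173) (nat_lit 152) (nat_lit 318984655) (nat_lit 167) (nat_lit 3) (nat_lit 167) (nat_lit 1) (nat_lit 169) (nat_lit 1) (nat_lit 406) (nat_lit 351) (nat_lit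 263)))) (XT.nd (nat_lit 78) (nat_lit 152) (nat_lit 0) (XT.lf (nat_lit 76) (nat_lit 201525604) (nat_lit 0) (nat_lit 549699430) (nat_lit 76) (nat_lit 549699430) (nat_lit 167) (nat_lit 3) (nat_lit 166) (nat_lit 1) (nat_lit 167) (nat_lit 1) (nat_lit 407) (nat_lit 351) (nat_lit 262)) (XT.nd (nat_lit 78) (nat_lit 0) (nat_lit 0) (XT.lf (nat_lit 152) (nat_lit 1065910223) (nat_lit 0) (nat_lit 106965845) (nat_lit 76) (nat_lit 106965845) (nat_lit 166) (nat_lit 1) (nat_lit 164) (nat_lit 1) (nat_lit 165) (nat_lit 1) (nat_lit 408) (nat_lit 351) (nat_lit 261)) (XT.lf (nat_lit 0) (nat_lit 319338577) (nat_lit 0) (nat_lit 620104218) (nat_lit 152) (nat_lit 319338577) (nat_lit 164) (nat_lit 3) (nat_lit 164) (nat_lit 1) (nat_lit 166) (nat_lit 1) (nat_lit 409) (nat_lit 351) (nat_lit 260)))))) (XT.nd (nat_lit 468) (nat_lit 532) (nat_lit 0) (XT.nd (nat_lit 234) (nat_lit 228) (nat_lit 0) (XT.nd (nat_lit 78) (nat_lit 152)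 (nat_lit 0) (XT.lf (nat_lit 76) (nat_lit 221786836) (nat_lit 0) (nat_lit 508230304) (nat_lit 76) (nat_lit 508230304) (nat_lit 164) (nat_lit 3) (nat_lit 163) (nat_lit 1) (nat_lit 164) (nat_lit 1) (nat_lit 410) (nat_lit 351) (nat_lit 259)) (XT.nd (nat_lit 78) (nat_lit 0) (nat_lit 0) (XT.lf (nat_lit 152) (nat_lit 1042234398) (nat_lit 0) (nat_lit 88001065) (nat_lit 76) (nat_lit 88001065) (nat_lit 163) (nat_lit 1) (nat_lit 161) (nat_lit 1) (nat_lit 162) (nat_lit 1) (nat_lit 411) (nat_lit 351) (nat_lit 258)) (XT.lf (nat_lit 0) (nat_lit 316919791) (nat_lit 0) (nat_lit 564360429) (nat_lit 152) (nat_lit 316919791) (nat_lit 161) (nat_lit 3) (nat_lit 161) (nat_lit 1) (nat_lit 163) (nat_lit 1) (nat_lit 412) (nat_lit 351) (nat_lit 257)))) (XT.nd (nat_lit 78) (nat_lit 152) (nat_lit 0) (XT.lf (nat_lit 76) (nat_lit 235789553) (nat_lit 0) (nat_lit 471447303) (nat_lit 76) (nat_lit 471447303) (nat_lit 161) (nat_lit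 3) (nat_lit 160) (nat_lit 1) (nat_lit 161) (nat_lit 1) (nat_lit 413) (nat_lit 351) (nat_lit 256)) (XT.nd (nat_lit 78) (nat_lit 0) (nat_lit 0) (XT.lf (nat_lit 152) (nat_lit 1014884456) (nat_lit 0) (nat_lit 72398694) (nat_lit 76) (nat_lit 72398694) (nat_lit 160) (nat_lit 1) (nat_lit 158) (nat_lit 1) (nat_lit 159) (nat_lit 1) (nat_lit 414) (nat_lit 351) (nat_lit 255)) (XT.lf (nat_lit 0) (nat_lit 312348938) (nat_lit 0) (nat_lit 515918963) (nat_lit 152) (nat_lit 312348938) (nat_lit 158) (nat_lit 3) (nat_lit 158) (nat_lit 1) (nat_lit 160) (nat_lit 1) (nat_lit 415) (nat_lit 351) (nat_lit 254))))) (XT.nd (nat_lit 234) (nat_lit 304) (nat_lit 0) (XT.nd (nat_lit 78) (nat_lit 152) (nat_lit 0) (XT.lf (nat_lit 76) (nat_lit 244770338) (nat_lit 0) (nat_lit 438646552) (nat_lit 76) (nat_lit 438646552) (nat_lit 158) (nat_lit 3) (nat_lit 157) (nat_lit 1) (nat_lit 158) (nat_lit 1) (nat_lit 416) (nat_lit 351) (nat_lit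 253)) (XT.nd (nat_lit 78) (nat_lit 0) (nat_lit 0) (XT.lf (nat_lit 152) (nat_lit 984886655) (nat_lit 0) (nat_lit 59562585) (nat_lit 76) (nat_lit 59562585) (nat_lit 157) (nat_lit 1) (nat_lit 155) (nat_lit 1) (nat_lit 156) (nat_lit 1) (nat_lit 417) (nat_lit 351) (nat_lit 252)) (XT.lf (nat_lit 0) (nat_lit 306130475) (nat_lit 0) (nat_lit 473608038) (nat_lit 152) (nat_lit 306130475) (nat_lit 155) (nat_lit 3) (nat_lit 155) (nat_lit 1) (nat_lit 157) (nat_lit 1) (nat_lit 418) (nat_lit 351) (nat_lit 251)))) (XT.nd (nat_lit 156) (nat_lit 76) (nat_lit 0) (XT.nd (nat_lit 78) (nat_lit 152) (nat_lit 0) (XT.lf (nat_lit 76) (nat_lit 249740486) (nat_lit 0) (nat_lit 409242927) (nat_lit 76) (nat_lit 409242927) (nat_lit 155) (nat_lit 3) (nat_lit 154) (nat_lit 1) (nat_lit 155) (nat_lit 1) (nat_lit 419) (nat_lit 351) (nat_lit 250)) (XT.lf (nat_lit 152) (nat_lit 953067453) (nat_lit 0) (nat_lit 49002286) (nat_lit 76) (nat_lit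 49002286) (nat_lit 154) (nat_lit 1) (nat_lit 152) (nat_lit 1) (nat_lit 153) (nat_lit 1) (nat_lit 420) (nat_lit 351) (nat_lit 249))) (XT.nd (nat_lit 78) (nat_lit 76) (nat_lit 0) (XT.lf (nat_lit 0) (nat_lit 298673566) (nat_lit 0) (nat_lit 436457772) (nat_lit 152) (nat_lit 298673566) (nat_lit 152) (nat_lit 3) (nat_lit 152) (nat_lit 1) (nat_lit 154) (nat_lit 1) (nat_lit 421) (nat_lit 351) (nat_lit 248)) (XT.lf (nat_lit 76) (nat_lit 251526233) (nat_lit 0) (nat_lit 382749286) (nat_lit 76) (nat_lit 382749286) (nat_lit 152) (nat_lit 3) (nat_lit 151) (nat_lit 1) (nat_lit 152) (nat_lit 1) (nat_lit 422) (nat_lit 351) (nat_lit 247))))))) (XT.nd (nat_lit 1014) (nat_lit 912) (nat_lit 0) (XT.nd (nat_lit 468) (nat_lit 608) (nat_lit 0) (XT.nd (nat_lit 234) (nat_lit 228) (nat_lit 0) (XT.nd (nat_lit 78) (nat_lit 76) (nat_lit 0) (XT.lf (nat_lit 152) (nat_lit 920089775) (nat_lit 0) (nat_lit 40314302) (nat_lit 76) (nat_lit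 40314302) (nat_lit 151) (nat_lit 1) (nat_lit 149) (nat_lit 1) (nat_lit 150) (nat_lit 1) (nat_lit 423) (nat_lit 351) (nat_lit 246)) (XT.nd (nat_lit 78) (nat_lit 76) (nat_lit 0) (XT.lf (nat_lit 0) (nat_lit 290309260) (nat_lit 0) (nat_lit 403664667) (nat_lit 152) (nat_lit 290309260) (nat_lit 149) (nat_lit 3) (nat_lit 149) (nat_lit 1) (nat_lit 151) (nat_lit 1) (nat_lit 424) (nat_lit 351) (nat_lit 245)) (XT.lf (nat_lit 76) (nat_lit 250801842) (nat_lit 0) (nat_lit 358759373) (nat_lit 76) (nat_lit 358759373) (nat_lit 149) (nat_lit 3) (nat_lit 148) (nat_lit 1) (nat_lit 149) (nat_lit 1) (nat_lit 425) (nat_lit 351) (nat_lit 244)))) (XT.nd (nat_lit 78) (nat_lit 76) (nat_lit 0) (XT.lf (nat_lit 152) (nat_lit 886482823) (nat_lit 0) (nat_lit 33166676) (nat_lit 76) (nat_lit 33166676) (nat_lit 148) (nat_lit 1) (nat_lit 146) (nat_lit 1) (nat_lit 147) (nat_lit 1) (nat_lit 426) (nat_lit 351) (nat_lit 243)) (XT.nd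 (nat_lit 78) (nat_lit 76) (nat_lit 0) (XT.lf (nat_lit 0) (nat_lit 281304602) (nat_lit 0) (nat_lit 374562376) (nat_lit 152) (nat_lit 281304602) (nat_lit 146) (nat_lit 3) (nat_lit 146) (nat_lit 1) (nat_lit 148) (nat_lit 1) (nat_lit 427) (nat_lit 351) (nat_lit 242)) (XT.lf (nat_lit 76) (nat_lit 248116809) (nat_lit 0) (nat_lit 336933736) (nat_lit 76) (nat_lit 336933736) (nat_lit 146) (nat_lit 3) (nat_lit 145) (nat_lit 1) (nat_lit 146) (nat_lit 1) (nat_lit 428) (nat_lit 351) (nat_lit 241))))) (XT.nd (nat_lit 234) (nat_lit 380) (nat_lit 0) (XT.nd (nat_lit 78) (nat_lit 76) (nat_lit 0) (XT.lf (nat_lit 152) (nat_lit 852666554) (nat_lit 0) (nat_lit 27286306) (nat_lit 76) (nat_lit 27286306) (nat_lit 145) (nat_lit 1) (nat_lit 143) (nat_lit 1) (nat_lit 144) (nat_lit 1) (nat_lit 429) (nat_lit 351) (nat_lit 240)) (XT.nd (nat_lit 78) (nat_lit 76) (nat_lit 0) (XT.lf (nat_lit 0) (nat_lit 271874235) (nat_lit 0) (nat_lit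 348597636) (nat_lit 152) (nat_lit 271874235) (nat_lit 143) (nat_lit 3) (nat_lit 143) (nat_lit 1) (nat_lit 145) (nat_lit 1) (nat_lit 430) (nat_lit 351) (nat_lit 239)) (XT.lf (nat_lit 76) (nat_lit 243918229) (nat_lit 0) (nat_lit 316988135) (nat_lit 76) (nat_lit 316988135) (nat_lit 143) (nat_lit 3) (nat_lit 142) (nat_lit 1) (nat_lit 143) (nat_lit 1) (nat_lit 431) (nat_lit 351) (nat_lit 238)))) (XT.nd (nat_lit 156) (nat_lit 228) (nat_lit 0) (XT.nd (nat_lit 78) (nat_lit 0) (nat_lit 0) (XT.lf (nat_lit 152) (nat_lit 818971780) (nat_lit 0) (nat_lit 22448511) (nat_lit 76) (nat_lit 22448511) (nat_lit 142) (nat_lit 1) (nat_lit 140) (nat_lit 1) (nat_lit 141) (nat_lit 1) (nat_lit 432) (nat_lit 351) (nat_lit 237)) (XT.lf (nat_lit 0) (nat_lit 262189932) (nat_lit 0) (nat_lit 325310465) (nat_lit 152) (nat_lit 262189932) (nat_lit 140) (nat_lit 3) (nat_lit 140) (nat_lit 1) (nat_lit 142) (nat_lit 1) (nat_lit 433)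 (nat_lit 351) (nat_lit 236))) (XT.nd (nat_lit 78) (nat_lit 152) (nat_lit 0) (XT.lf (nat_lit 76) (nat_lit 238569194) (nat_lit 0) (nat_lit 298683987) (nat_lit 76) (nat_lit 298683987) (nat_lit 140) (nat_lit 3) (nat_lit 139) (nat_lit 1) (nat_lit 140) (nat_lit 1) (nat_lit 434) (nat_lit 351) (nat_lit 235)) (XT.lf (nat_lit 152) (nat_lit 785656678) (nat_lit 0) (nat_lit 18468446) (nat_lit 76) (nat_lit 18468446) (nat_lit 139) (nat_lit 1) (nat_lit 137) (nat_lit 1) (nat_lit 138) (nat_lit 1) (nat_lit 435) (nat_lit 351) (nat_lit 234)))))) (XT.nd (nat_lit 468) (nat_lit 456) (nat_lit 0) (XT.nd (nat_lit 234) (nat_lit 228) (nat_lit 0) (XT.nd (nat_lit 78) (nat_lit 228) (nat_lit 0) (XT.lf (nat_lit 0) (nat_lit 252388427) (nat_lit 0) (nat_lit 304317845) (nat_lit 152) (nat_lit 252388427) (nat_lit 137) (nat_lit 3) (nat_lit 137) (nat_lit 1) (nat_lit 139) (nat_lit 1) (nat_lit 436) (nat_lit 351) (nat_lit 233)) (XT.nd (nat_lit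 78) (nat_lit 152) (nat_lit 0) (XT.lf (nat_lit 76) (nat_lit 232363908) (nat_lit 0) (nat_lit 281820496) (nat_lit 76) (nat_lit 281820496) (nat_lit 137) (nat_lit 3) (nat_lit 136) (nat_lit 1) (nat_lit 137) (nat_lit 1) (nat_lit 437) (nat_lit 351) (nat_lit 232)) (XT.lf (nat_lit 152) (nat_lit 752920330) (nat_lit 0) (nat_lit 15194036) (nat_lit 76) (nat_lit 15194036) (nat_lit 136) (nat_lit 1) (nat_lit 134) (nat_lit 1) (nat_lit 135) (nat_lit 1) (nat_lit 438) (nat_lit 351) (nat_lit 231)))) (XT.nd (nat_lit 78) (nat_lit 228) (nat_lit 0) (XT.lf (nat_lit 0) (nat_lit 242577841) (nat_lit 0) (nat_lit 285300302) (nat_lit 152) (nat_lit 242577841) (nat_lit 134) (nat_lit 3) (nat_lit 134) (nat_lit 1) (nat_lit 136) (nat_lit 1) (nat_lit 439) (nat_lit 351) (nat_lit 230)) (XT.nd (nat_lit 78) (nat_lit 152) (nat_lit 0) (XT.lf (nat_lit 76) (nat_lit 225540115) (nat_lit 0) (nat_lit 266228173) (nat_lit 76) (nat_lit 266228173) (nat_lit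 134) (nat_lit 3) (nat_lit 133) (nat_lit 1) (nat_lit 134) (nat_lit 1) (nat_lit 440) (nat_lit 351) (nat_lit 229)) (XT.lf (nat_lit 152) (nat_lit 720913834) (nat_lit 0) (nat_lit 12500171) (nat_lit 76) (nat_lit 12500171) (nat_lit 133) (nat_lit 1) (nat_lit 131) (nat_lit 1) (nat_lit 132) (nat_lit 1) (nat_lit 441) (nat_lit 351) (nat_lit 228))))) (XT.nd (nat_lit 234) (nat_lit 228) (nat_lit 0) (XT.nd (nat_lit 78) (nat_lit 228) (nat_lit 0) (XT.lf (nat_lit 0) (nat_lit 232842969) (nat_lit 0) (nat_lit 267990843) (nat_lit 152) (nat_lit 232842969) (nat_lit 131) (nat_lit 3) (nat_lit 131) (nat_lit 1) (nat_lit 133) (nat_lit 1) (nat_lit 442) (nat_lit 351) (nat_lit 227)) (XT.nd (nat_lit 78) (nat_lit 152) (nat_lit 0) (XT.lf (nat_lit 76) (nat_lit 218289319) (nat_lit 0) (nat_lit 251763485) (nat_lit 76) (nat_lit 251763485) (nat_lit 131) (nat_lit 3) (nat_lit 130) (nat_lit 1) (nat_lit 131) (nat_lit 1) (nat_lit 443) (nat_lit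 351) (nat_lit 226)) (XT.lf (nat_lit 152) (nat_lit 689749420) (nat_lit 0) (nat_lit 10283921) (nat_lit 76) (nat_lit 10283921) (nat_lit 130) (nat_lit 1) (nat_lit 128) (nat_lit 1) (nat_lit 129) (nat_lit 1) (nat_lit 444) (nat_lit 351) (nat_lit 225)))) (XT.nd (nat_lit 156) (nat_lit 152) (nat_lit 0) (XT.nd (nat_lit 78) (nat_lit 76) (nat_lit 0) (XT.lf (nat_lit 0) (nat_lit 223249609) (nat_lit 0) (nat_lit 252165853) (nat_lit 152) (nat_lit 223249609) (nat_lit 128) (nat_lit 3) (nat_lit 128) (nat_lit 1) (nat_lit 130) (nat_lit 1) (nat_lit 445) (nat_lit 351) (nat_lit 224)) (XT.lf (nat_lit 76) (nat_lit 210765171) (nat_lit 0) (nat_lit 238304450) (nat_lit 76) (nat_lit 238304450) (nat_lit 128) (nat_lit 3) (nat_lit 127) (nat_lit 1) (nat_lit 128) (nat_lit 1) (nat_lit 446) (nat_lit 351) (nat_lit 223))) (XT.nd (nat_lit 78) (nat_lit 0) (nat_lit 0) (XT.lf (nat_lit 152) (nat_lit 659507911) (nat_lit 0) (nat_lit 8460608)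 (nat_lit 76) (nat_lit 8460608) (nat_lit 127) (nat_lit 1) (nat_lit 125) (nat_lit 1) (nat_lit 126) (nat_lit 1) (nat_lit 447) (nat_lit 351) (nat_lit 222)) (XT.lf (nat_lit 0) (nat_lit 213848123) (nat_lit 0) (nat_lit 237637588) (nat_lit 152) (nat_lit 213848123) (nat_lit 125) (nat_lit 3) (nat_lit 125) (nat_lit 1) (nat_lit 127) (nat_lit 1) (nat_lit 448) (nat_lit 351) (nat_lit 221))))))))
noncomputable def ec84 : XT := (XT.nd (nat_lit 44538) (nat_lit 0) (nat_lit 6840) (XT.nd (nat_lit 43524) (nat_lit 0) (nat_lit 10260) (XT.nd (nat_lit 43056) (nat_lit 0) (nat_lit 13072) (XT.nd (nat_lit 42822) (nat_lit 0) (nat_lit 12920) (XT.nd (nat_lit 78) (nat_lit 152) (nat_lit 0) (XT.lf (nat_lit 76) (nat_lit 203090368) (nat_lit 0) (nat_lit 225747002) (nat_lit 76) (nat_lit 225747002) (nat_lit 125) (nat_lit 3) (nat_lit 124) (nat_lit 1) (nat_lit 125) (nat_lit 1) (nat_lit 449) (nat_lit 351) (nat_lit 220)) (XT.nd (nat_lit 42666)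 (nat_lit 0) (nat_lit 12920) (XT.lf (nat_lit 152) (nat_lit 630244844) (nat_lit 0) (nat_lit 6960563) (nat_lit 76) (nat_lit 6960563) (nat_lit 124) (nat_lit 1) (nat_lit 122) (nat_lit 1) (nat_lit 123) (nat_lit 1) (nat_lit 450) (nat_lit 351) (nat_lit 219)) (XT.lf (nat_lit 836) (nat_lit 964986566) (nat_lit 0) (nat_lit 1713331431) (nat_lit 836) (nat_lit 964986566) (nat_lit 303) (nat_lit 1) (nat_lit 292) (nat_lit 0) (nat_lit 303) (nat_lit 0) (nat_lit 316) (nat_lit 352) (nat_lit 352)))) (XT.nd (nat_lit 78) (nat_lit 0) (nat_lit 76) (XT.lf (nat_lit 836) (nat_lit 3740408407) (nat_lit 76) (nat_lit 1685697053) (nat_lit 0) (nat_lit 1685697053) (nat_lit 303) (nat_lit 1) (nat_lit 293) (nat_lit 1) (nat_lit 292) (nat_lit 0) (nat_lit 317) (nat_lit 352) (nat_lit 351)) (XT.nd (nat_lit 78) (nat_lit 0) (nat_lit 0) (XT.lf (nat_lit 836) (nat_lit 1782622327) (nat_lit 0) (nat_lit 3377155454) (nat_lit 760) (nat_lit 1782622327)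 (nat_lit 304) (nat_lit 1) (nat_lit 293) (nat_lit 1) (nat_lit 303) (nat_lit 1) (nat_lit 318) (nat_lit 352) (nat_lit 350)) (XT.lf (nat_lit 836) (nat_lit 3343951785) (nat_lit 76) (nat_lit 1717259439) (nat_lit 0) (nat_lit 1717259439) (nat_lit 304) (nat_lit 1) (nat_lit 294) (nat_lit 1) (nat_lit 293) (nat_lit 1) (nat_lit 319) (nat_lit 352) (nat_lit 349))))) (XT.nd (nat_lit 234) (nat_lit 0) (nat_lit 76) (XT.nd (nat_lit 78) (nat_lit 0) (nat_lit 0) (XT.lf (nat_lit 836) (nat_lit 1539188894) (nat_lit 0) (nat_lit 3541359172) (nat_lit 760) (nat_lit 1539188894) (nat_lit 305) (nat_lit 1) (nat_lit 294) (nat_lit 1) (nat_lit 304) (nat_lit 1) (nat_lit 320) (nat_lit 352) (nat_lit 348)) (XT.nd (nat_lit 78) (nat_lit 0) (nat_lit 76) (XT.lf (nat_lit 836) (nat_lit 2768331476) (nat_lit 76) (nat_lit 1848755295) (nat_lit 0) (nat_lit 1848755295) (nat_lit 305) (nat_lit 1) (nat_lit 295) (nat_lit 1) (nat_lit 294) (nat_lit 1)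 (nat_lit 321) (nat_lit 352) (nat_lit 347)) (XT.lf (nat_lit 836) (nat_lit 1213833396) (nat_lit 0) (nat_lit 3889447639) (nat_lit 760) (nat_lit 1213833396) (nat_lit 306) (nat_lit 1) (nat_lit 295) (nat_lit 1) (nat_lit 305) (nat_lit 1) (nat_lit 322) (nat_lit 352) (nat_lit 346)))) (XT.nd (nat_lit 78) (nat_lit 0) (nat_lit 76) (XT.lf (nat_lit 836) (nat_lit 2040491208) (nat_lit 76) (nat_lit 2065995283) (nat_lit 0) (nat_lit 2065995283) (nat_lit 306) (nat_lit 1) (nat_lit 296) (nat_lit 1) (nat_lit 295) (nat_lit 1) (nat_lit 323) (nat_lit 352) (nat_lit 345)) (XT.nd (nat_lit 78) (nat_lit 0) (nat_lit 0) (XT.lf (nat_lit 836) (nat_lit 819150940) (nat_lit 0) (nat_lit 4394841619) (nat_lit 760) (nat_lit 819150940) (nat_lit 307) (nat_lit 1) (nat_lit 296) (nat_lit 1) (nat_lit 306) (nat_lit 1) (nat_lit 324) (nat_lit 352) (nat_lit 344)) (XT.lf (nat_lit 836) (nat_lit 1184379885) (nat_lit 76) (nat_lit 2356342521) (nat_lit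 0) (nat_lit 2356342521) (nat_lit 307) (nat_lit 1) (nat_lit 297) (nat_lit 1) (nat_lit 296) (nat_lit 1) (nat_lit 325) (nat_lit 352) (nat_lit 343)))))) (XT.nd (nat_lit 468) (nat_lit 1368) (nat_lit 0) (XT.nd (nat_lit 234) (nat_lit 380) (nat_lit 0) (XT.nd (nat_lit 78) (nat_lit 1292) (nat_lit 0) (XT.lf (nat_lit 76) (nat_lit 366328579) (nat_lit 0) (nat_lit 5033884553) (nat_lit 760) (nat_lit 366328579) (nat_lit 298) (nat_lit 1) (nat_lit 297) (nat_lit 1) (nat_lit 307) (nat_lit 1) (nat_lit 326) (nat_lit 352) (nat_lit 342)) (XT.nd (nat_lit 78) (nat_lit 532) (nat_lit 0) (XT.lf (nat_lit 836) (nat_lit 221253352) (nat_lit 0) (nat_lit 2708557132) (nat_lit 760) (nat_lit 2708557132) (nat_lit 298) (nat_lit 1) (nat_lit 287) (nat_lit 1) (nat_lit 297) (nat_lit 1) (nat_lit 327) (nat_lit 352) (nat_lit 341)) (XT.lf (nat_lit 532) (nat_lit 5250620689) (nat_lit 0) (nat_lit 132539716) (nat_lit 456) (nat_lit 132539716) (nat_lit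 287) (nat_lit 1) (nat_lit 280) (nat_lit 1) (nat_lit 286) (nat_lit 1) (nat_lit 328) (nat_lit 352) (nat_lit 340)))) (XT.nd (nat_lit 78) (nat_lit 380) (nat_lit 0) (XT.lf (nat_lit 76) (nat_lit 2295562226) (nat_lit 0) (nat_lit 803486141) (nat_lit 532) (nat_lit 2295562226) (nat_lit 281) (nat_lit 1) (nat_lit 280) (nat_lit 1) (nat_lit 287) (nat_lit 1) (nat_lit 329) (nat_lit 352) (nat_lit 339)) (XT.nd (nat_lit 78) (nat_lit 0) (nat_lit 0) (XT.lf (nat_lit 456) (nat_lit 3950073347) (nat_lit 0) (nat_lit 664298386) (nat_lit 380) (nat_lit 664298386) (nat_lit 281) (nat_lit 1) (nat_lit 275) (nat_lit 1) (nat_lit 280) (nat_lit 1) (nat_lit 330) (nat_lit 352) (nat_lit 338)) (XT.lf (nat_lit 76) (nat_lit 1637396591) (nat_lit 0) (nat_lit 1890373850) (nat_lit 456) (nat_lit 1637396591) (nat_lit 276) (nat_lit 1) (nat_lit 275) (nat_lit 1) (nat_lit 281) (nat_lit 1) (nat_lit 331) (nat_lit 352) (nat_lit 337))))) (XT.nd (nat_lit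 234) (nat_lit 684) (nat_lit 0) (XT.nd (nat_lit 78) (nat_lit 304) (nat_lit 0) (XT.lf (nat_lit 456) (nat_lit 2601179316) (nat_lit 0) (nat_lit 1227218819) (nat_lit 380) (nat_lit 1227218819) (nat_lit 276) (nat_lit 1) (nat_lit 270) (nat_lit 1) (nat_lit 275) (nat_lit 1) (nat_lit 332) (nat_lit 352) (nat_lit 336)) (XT.nd (nat_lit 78) (nat_lit 304) (nat_lit 0) (XT.lf (nat_lit 76) (nat_lit 958500008) (nat_lit 0) (nat_lit 3032252947) (nat_lit 456) (nat_lit 958500008) (nat_lit 271) (nat_lit 1) (nat_lit 270) (nat_lit 1) (nat_lit 276) (nat_lit 1) (nat_lit 333) (nat_lit 352) (nat_lit 335)) (XT.lf (nat_lit 380) (nat_lit 1216493377) (nat_lit 0) (nat_lit 1814565813) (nat_lit 304) (nat_lit 1814565813) (nat_lit 271) (nat_lit 1) (nat_lit 266) (nat_lit 1) (nat_lit 270) (nat_lit 1) (nat_lit 334) (nat_lit 352) (nat_lit 334)))) (XT.nd (nat_lit 156) (nat_lit 304) (nat_lit 0) (XT.nd (nat_lit 78) (nat_lit 380) (nat_lit 0)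 (XT.lf (nat_lit 76) (nat_lit 264700841) (nat_lit 0) (nat_lit 4216580383) (nat_lit 380) (nat_lit 264700841) (nat_lit 267) (nat_lit 1) (nat_lit 266) (nat_lit 1) (nat_lit 271) (nat_lit 1) (nat_lit 335) (nat_lit 352) (nat_lit 333)) (XT.lf (nat_lit 76) (nat_lit 2230445355) (nat_lit 0) (nat_lit 186804131) (nat_lit 380) (nat_lit 2230445355) (nat_lit 262) (nat_lit 1) (nat_lit 261) (nat_lit 1) (nat_lit 266) (nat_lit 1) (nat_lit 336) (nat_lit 352) (nat_lit 332))) (XT.nd (nat_lit 78) (nat_lit 0) (nat_lit 0) (XT.lf (nat_lit 380) (nat_lit 3689508362) (nat_lit 0) (nat_lit 431821135) (nat_lit 304) (nat_lit 431821135) (nat_lit 262) (nat_lit 1) (nat_lit 257) (nat_lit 1) (nat_lit 261) (nat_lit 1) (nat_lit 337) (nat_lit 352) (nat_lit 331)) (XT.lf (nat_lit 76) (nat_lit 1447187381) (nat_lit 0) (nat_lit 1565853590) (nat_lit 380) (nat_lit 1447187381) (nat_lit 258) (nat_lit 1) (nat_lit 257) (nat_lit 1) (nat_lit 262) (nat_lit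 1) (nat_lit 338) (nat_lit 352) (nat_lit 330))))))) (XT.nd (nat_lit 936) (nat_lit 1520) (nat_lit 0) (XT.nd (nat_lit 468) (nat_lit 760) (nat_lit 0) (XT.nd (nat_lit 234) (nat_lit 608) (nat_lit 0) (XT.nd (nat_lit 78) (nat_lit 228) (nat_lit 0) (XT.lf (nat_lit 380) (nat_lit 2111848966) (nat_lit 0) (nat_lit 1129339662) (nat_lit 304) (nat_lit 1129339662) (nat_lit 258) (nat_lit 1) (nat_lit 253) (nat_lit 1) (nat_lit 257) (nat_lit 1) (nat_lit 339) (nat_lit 352) (nat_lit 329)) (XT.nd (nat_lit 78) (nat_lit 228) (nat_lit 0) (XT.lf (nat_lit 76) (nat_lit 665982913) (nat_lit 0) (nat_lit 2951485239) (nat_lit 380) (nat_lit 665982913) (nat_lit 254) (nat_lit 1) (nat_lit 253) (nat_lit 1) (nat_lit 258) (nat_lit 1) (nat_lit 340) (nat_lit 352) (nat_lit 328)) (XT.lf (nat_lit 304) (nat_lit 541615380) (nat_lit 0) (nat_lit 1828319055) (nat_lit 228) (nat_lit 1828319055) (nat_lit 254) (nat_lit 1) (nat_lit 250) (nat_lit 1) (nat_lit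 253) (nat_lit 1) (nat_lit 341) (nat_lit 352) (nat_lit 327)))) (XT.nd (nat_lit 78) (nat_lit 228) (nat_lit 0) (XT.lf (nat_lit 380) (nat_lit 3899913543) (nat_lit 0) (nat_lit 108215117) (nat_lit 304) (nat_lit 108215117) (nat_lit 250) (nat_lit 1) (nat_lit 245) (nat_lit 1) (nat_lit 249) (nat_lit 1) (nat_lit 342) (nat_lit 352) (nat_lit 326)) (XT.nd (nat_lit 78) (nat_lit 228) (nat_lit 0) (XT.lf (nat_lit 76) (nat_lit 1526065001) (nat_lit 0) (nat_lit 982757425) (nat_lit 380) (nat_lit 1526065001) (nat_lit 246) (nat_lit 1) (nat_lit 245) (nat_lit 1) (nat_lit 250) (nat_lit 1) (nat_lit 343) (nat_lit 352) (nat_lit 325)) (XT.lf (nat_lit 304) (nat_lit 2228866179) (nat_lit 0) (nat_lit 863844482) (nat_lit 228) (nat_lit 863844482) (nat_lit 246) (nat_lit 1) (nat_lit 242) (nat_lit 1) (nat_lit 245) (nat_lit 1) (nat_lit 344) (nat_lit 352) (nat_lit 324))))) (XT.nd (nat_lit 234) (nat_lit 228) (nat_lit 0) (XT.nd (nat_lit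 78) (nat_lit 532) (nat_lit 0) (XT.lf (nat_lit 76) (nat_lit 704133303) (nat_lit 0) (nat_lit 2471946422) (nat_lit 304) (nat_lit 704133303) (nat_lit 243) (nat_lit 1) (nat_lit 242) (nat_lit 1) (nat_lit 246) (nat_lit 1) (nat_lit 345) (nat_lit 352) (nat_lit 323)) (XT.nd (nat_lit 78) (nat_lit 304) (nat_lit 0) (XT.lf (nat_lit 304) (nat_lit 586873099) (nat_lit 0) (nat_lit 1609367287) (nat_lit 228) (nat_lit 1609367287) (nat_lit 243) (nat_lit 1) (nat_lit 239) (nat_lit 1) (nat_lit 242) (nat_lit 1) (nat_lit 346) (nat_lit 352) (nat_lit 322)) (XT.lf (nat_lit 304) (nat_lit 3532053594) (nat_lit 0) (nat_lit 100860204) (nat_lit 228) (nat_lit 100860204) (nat_lit 239) (nat_lit 1) (nat_lit 235) (nat_lit 1) (nat_lit 238) (nat_lit 1) (nat_lit 347) (nat_lit 352) (nat_lit 321)))) (XT.nd (nat_lit 78) (nat_lit 228) (nat_lit 0) (XT.lf (nat_lit 76) (nat_lit 1336074723) (nat_lit 0) (nat_lit 990017954) (nat_lit 304) (nat_lit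 1336074723) (nat_lit 236) (nat_lit 1) (nat_lit 235) (nat_lit 1) (nat_lit 239) (nat_lit 1) (nat_lit 348) (nat_lit 352) (nat_lit 320)) (XT.nd (nat_lit 78) (nat_lit 0) (nat_lit 0) (XT.lf (nat_lit 304) (nat_lit 1837225083) (nat_lit 0) (nat_lit 877992585) (nat_lit 228) (nat_lit 877992585) (nat_lit 236) (nat_lit 1) (nat_lit 232) (nat_lit 1) (nat_lit 235) (nat_lit 1) (nat_lit 349) (nat_lit 352) (nat_lit 319)) (XT.lf (nat_lit 76) (nat_lit 505970289) (nat_lit 0) (nat_lit 2514161989) (nat_lit 304) (nat_lit 505970289) (nat_lit 233) (nat_lit 1) (nat_lit 232) (nat_lit 1) (nat_lit 236) (nat_lit 1) (nat_lit 350) (nat_lit 352) (nat_lit 318)))))) (XT.nd (nat_lit 468) (nat_lit 684) (nat_lit 0) (XT.nd (nat_lit 234) (nat_lit 380) (nat_lit 0) (XT.nd (nat_lit 78) (nat_lit 304) (nat_lit 0) (XT.lf (nat_lit 228) (nat_lit 185404337) (nat_lit 0) (nat_lit 1637427574) (nat_lit 152) (nat_lit 1637427574) (nat_lit 233) (nat_lit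 1) (nat_lit 230) (nat_lit 1) (nat_lit 232) (nat_lit 1) (nat_lit 351) (nat_lit 352) (nat_lit 317)) (XT.nd (nat_lit 78) (nat_lit 0) (nat_lit 0) (XT.lf (nat_lit 304) (nat_lit 2801397367) (nat_lit 0) (nat_lit 297528705) (nat_lit 228) (nat_lit 297528705) (nat_lit 230) (nat_lit 1) (nat_lit 226) (nat_lit 1) (nat_lit 229) (nat_lit 1) (nat_lit 352) (nat_lit 352) (nat_lit 316)) (XT.lf (nat_lit 76) (nat_lit 978461603) (nat_lit 0) (nat_lit 1376440458) (nat_lit 304) (nat_lit 978461603) (nat_lit 227) (nat_lit 1) (nat_lit 226) (nat_lit 1) (nat_lit 230) (nat_lit 1) (nat_lit 353) (nat_lit 352) (nat_lit 315)))) (XT.nd (nat_lit 78) (nat_lit 228) (nat_lit 0) (XT.lf (nat_lit 228) (nat_lit 1130461448) (nat_lit 0) (nat_lit 1070879133) (nat_lit 152) (nat_lit 1070879133) (nat_lit 227) (nat_lit 1) (nat_lit 224) (nat_lit 1) (nat_lit 226) (nat_lit 1) (nat_lit 354) (nat_lit 352) (nat_lit 314)) (XT.nd (nat_lit 78) (nat_lit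 228) (nat_lit 0) (XT.lf (nat_lit 76) (nat_lit 162411428) (nat_lit 0) (nat_lit 2888282043) (nat_lit 228) (nat_lit 162411428) (nat_lit 225) (nat_lit 1) (nat_lit 224) (nat_lit 1) (nat_lit 227) (nat_lit 1) (nat_lit 355) (nat_lit 352) (nat_lit 313)) (XT.lf (nat_lit 76) (nat_lit 1340410014) (nat_lit 0) (nat_lit 473384941) (nat_lit 228) (nat_lit 1340410014) (nat_lit 222) (nat_lit 1) (nat_lit 221) (nat_lit 1) (nat_lit 224) (nat_lit 1) (nat_lit 356) (nat_lit 352) (nat_lit 312))))) (XT.nd (nat_lit 234) (nat_lit 380) (nat_lit 0) (XT.nd (nat_lit 78) (nat_lit 152) (nat_lit 0) (XT.lf (nat_lit 228) (nat_lit 1861394232) (nat_lit 0) (nat_lit 617932452) (nat_lit 152) (nat_lit 617932452) (nat_lit 222) (nat_lit 1) (nat_lit 219) (nat_lit 1) (nat_lit 221) (nat_lit 1) (nat_lit 357) (nat_lit 352) (nat_lit 311)) (XT.nd (nat_lit 78) (nat_lit 152) (nat_lit 0) (XT.lf (nat_lit 76) (nat_lit 525237026) (nat_lit 0) (nat_lit 1991097879)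 (nat_lit 228) (nat_lit 525237026) (nat_lit 220) (nat_lit 1) (nat_lit 219) (nat_lit 1) (nat_lit 222) (nat_lit 1) (nat_lit 358) (nat_lit 352) (nat_lit 310)) (XT.lf (nat_lit 228) (nat_lit 246054636) (nat_lit 0) (nat_lit 1370476299) (nat_lit 152) (nat_lit 1370476299) (nat_lit 220) (nat_lit 1) (nat_lit 217) (nat_lit 1) (nat_lit 219) (nat_lit 1) (nat_lit 359) (nat_lit 352) (nat_lit 309)))) (XT.nd (nat_lit 156) (nat_lit 152) (nat_lit 0) (XT.nd (nat_lit 78) (nat_lit 0) (nat_lit 0) (XT.lf (nat_lit 228) (nat_lit 2418383928) (nat_lit 0) (nat_lit 257819833) (nat_lit 152) (nat_lit 257819833) (nat_lit 217) (nat_lit 1) (nat_lit 214) (nat_lit 1) (nat_lit 216) (nat_lit 1) (nat_lit 360) (nat_lit 352) (nat_lit 308)) (XT.lf (nat_lit 76) (nat_lit 805085936) (nat_lit 0) (nat_lit 1271320290) (nat_lit 228) (nat_lit 805085936) (nat_lit 215) (nat_lit 1) (nat_lit 214) (nat_lit 1) (nat_lit 217) (nat_lit 1) (nat_lit 361) (nat_lit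 352) (nat_lit 307))) (XT.nd (nat_lit 78) (nat_lit 0) (nat_lit 0) (XT.lf (nat_lit 228) (nat_lit 819940938) (nat_lit 0) (nat_lit 1005272426) (nat_lit 152) (nat_lit 1005272426) (nat_lit 215) (nat_lit 1) (nat_lit 212) (nat_lit 1) (nat_lit 214) (nat_lit 1) (nat_lit 362) (nat_lit 352) (nat_lit 306)) (XT.lf (nat_lit 76) (nat_lit 26949197) (nat_lit 0) (nat_lit 2727369821) (nat_lit 228) (nat_lit 26949197) (nat_lit 213) (nat_lit 1) (nat_lit 212) (nat_lit 1) (nat_lit 215) (nat_lit 1) (nat_lit 363) (nat_lit 352) (nat_lit 305))))))))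
noncomputable def ec85 : XT := (XT.nd (nat_lit 1950) (nat_lit 1900) (nat_lit 0) (XT.nd (nat_lit 936) (nat_lit 1064) (nat_lit 0) (XT.nd (nat_lit 468) (nat_lit 608) (nat_lit 0) (XT.nd (nat_lit 234) (nat_lit 304) (nat_lit 0) (XT.nd (nat_lit 78) (nat_lit 152) (nat_lit 0) (XT.lf (nat_lit 76) (nat_lit 1017557749) (nat_lit 0) (nat_lit 696622289) (nat_lit 152) (nat_lit 1017557749) (nat_lit 211) (nat_lit 1) (nat_lit 210) (nat_lit 1) (nat_lit 212) (nat_lit 1) (nat_lit 364) (nat_lit 352) (nat_lit 304)) (XT.nd (nat_lit 78) (nat_lit 0) (nat_lit 0) (XT.lf (nat_lit 228) (nat_lit 1262673325) (nat_lit 0) (nat_lit 710638382) (nat_lit 152) (nat_lit 710638382) (nat_lit 211) (nat_lit 1) (nat_lit 208) (nat_lit 1) (nat_lit 210) (nat_lit 1) (nat_lit 365) (nat_lit 352) (nat_lit 303)) (XT.lf (nat_lit 76) (nat_lit 253157275) (nat_lit 0) (nat_lit 2131137753) (nat_lit 228) (nat_lit 253157275) (nat_lit 209) (nat_lit 1) (nat_lit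 208) (nat_lit 1) (nat_lit 211) (nat_lit 1) (nat_lit 366) (nat_lit 352) (nat_lit 302)))) (XT.nd (nat_lit 78) (nat_lit 152) (nat_lit 0) (XT.lf (nat_lit 76) (nat_lit 1175443999) (nat_lit 0) (nat_lit 240449968) (nat_lit 152) (nat_lit 1175443999) (nat_lit 207) (nat_lit 1) (nat_lit 206) (nat_lit 1) (nat_lit 208) (nat_lit 1) (nat_lit 367) (nat_lit 352) (nat_lit 301)) (XT.nd (nat_lit 78) (nat_lit 0) (nat_lit 0) (XT.lf (nat_lit 228) (nat_lit 1598905313) (nat_lit 0) (nat_lit 473785165) (nat_lit 152) (nat_lit 473785165) (nat_lit 207) (nat_lit 1) (nat_lit 204) (nat_lit 1) (nat_lit 206) (nat_lit 1) (nat_lit 368) (nat_lit 352) (nat_lit 300)) (XT.lf (nat_lit 76) (nat_lit 428259882) (nat_lit 0) (nat_lit 1645981686) (nat_lit 228) (nat_lit 428259882) (nat_lit 205) (nat_lit 1) (nat_lit 204) (nat_lit 1) (nat_lit 207) (nat_lit 1) (nat_lit 369) (nat_lit 352) (nat_lit 299))))) (XT.nd (nat_lit 234) (nat_lit 304) (nat_lit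 0) (XT.nd (nat_lit 78) (nat_lit 228) (nat_lit 0) (XT.lf (nat_lit 152) (nat_lit 122937816) (nat_lit 0) (nat_lit 1168209628) (nat_lit 76) (nat_lit 1168209628) (nat_lit 205) (nat_lit 1) (nat_lit 203) (nat_lit 1) (nat_lit 204) (nat_lit 1) (nat_lit 370) (nat_lit 352) (nat_lit 298)) (XT.nd (nat_lit 78) (nat_lit 0) (nat_lit 0) (XT.lf (nat_lit 228) (nat_lit 1848852733) (nat_lit 0) (nat_lit 284204426) (nat_lit 152) (nat_lit 284204426) (nat_lit 203) (nat_lit 1) (nat_lit 200) (nat_lit 1) (nat_lit 202) (nat_lit 1) (nat_lit 371) (nat_lit 352) (nat_lit 297)) (XT.lf (nat_lit 76) (nat_lit 561841670) (nat_lit 0) (nat_lit 1251952619) (nat_lit 228) (nat_lit 561841670) (nat_lit 201) (nat_lit 1) (nat_lit 200) (nat_lit 1) (nat_lit 203) (nat_lit 1) (nat_lit 372) (nat_lit 352) (nat_lit 296)))) (XT.nd (nat_lit 78) (nat_lit 228) (nat_lit 0) (XT.lf (nat_lit 152) (nat_lit 412853039) (nat_lit 0) (nat_lit 961088952) (nat_lit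 76) (nat_lit 961088952) (nat_lit 201) (nat_lit 1) (nat_lit 199) (nat_lit 1) (nat_lit 200) (nat_lit 1) (nat_lit 373) (nat_lit 352) (nat_lit 295)) (XT.nd (nat_lit 78) (nat_lit 0) (nat_lit 0) (XT.lf (nat_lit 228) (nat_lit 2029083695) (nat_lit 0) (nat_lit 133263494) (nat_lit 152) (nat_lit 133263494) (nat_lit 199) (nat_lit 1) (nat_lit 196) (nat_lit 1) (nat_lit 198) (nat_lit 1) (nat_lit 374) (nat_lit 352) (nat_lit 294)) (XT.lf (nat_lit 76) (nat_lit 661763013) (nat_lit 0) (nat_lit 932650624) (nat_lit 228) (nat_lit 661763013) (nat_lit 197) (nat_lit 1) (nat_lit 196) (nat_lit 1) (nat_lit 199) (nat_lit 1) (nat_lit 375) (nat_lit 352) (nat_lit 293)))))) (XT.nd (nat_lit 468) (nat_lit 532) (nat_lit 0) (XT.nd (nat_lit 234) (nat_lit 228) (nat_lit 0) (XT.nd (nat_lit 78) (nat_lit 228) (nat_lit 0) (XT.lf (nat_lit 152) (nat_lit 636523591) (nat_lit 0) (nat_lit 790690259) (nat_lit 76) (nat_lit 790690259) (nat_lit 197)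 (nat_lit 1) (nat_lit 195) (nat_lit 1) (nat_lit 196) (nat_lit 1) (nat_lit 376) (nat_lit 352) (nat_lit 292)) (XT.nd (nat_lit 78) (nat_lit 0) (nat_lit 0) (XT.lf (nat_lit 228) (nat_lit 2153168345) (nat_lit 0) (nat_lit 13872214) (nat_lit 152) (nat_lit 13872214) (nat_lit 195) (nat_lit 1) (nat_lit 192) (nat_lit 1) (nat_lit 194) (nat_lit 1) (nat_lit 377) (nat_lit 352) (nat_lit 291)) (XT.lf (nat_lit 76) (nat_lit 734466908) (nat_lit 0) (nat_lit 674595031) (nat_lit 228) (nat_lit 734466908) (nat_lit 193) (nat_lit 1) (nat_lit 192) (nat_lit 1) (nat_lit 195) (nat_lit 1) (nat_lit 378) (nat_lit 352) (nat_lit 290)))) (XT.nd (nat_lit 78) (nat_lit 152) (nat_lit 0) (XT.lf (nat_lit 152) (nat_lit 806401319) (nat_lit 0) (nat_lit 650502833) (nat_lit 76) (nat_lit 650502833) (nat_lit 193) (nat_lit 1) (nat_lit 191) (nat_lit 1) (nat_lit 192) (nat_lit 1) (nat_lit 379) (nat_lit 352) (nat_lit 289)) (XT.nd (nat_lit 78) (nat_lit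 152) (nat_lit 0) (XT.lf (nat_lit 0) (nat_lit 81099147) (nat_lit 0) (nat_lit 1910177408) (nat_lit 152) (nat_lit 81099147) (nat_lit 191) (nat_lit 3) (nat_lit 191) (nat_lit 1) (nat_lit 193) (nat_lit 1) (nat_lit 380) (nat_lit 352) (nat_lit 288)) (XT.lf (nat_lit 76) (nat_lit 785231399) (nat_lit 0) (nat_lit 466706291) (nat_lit 152) (nat_lit 785231399) (nat_lit 190) (nat_lit 1) (nat_lit 189) (nat_lit 1) (nat_lit 191) (nat_lit 1) (nat_lit 381) (nat_lit 352) (nat_lit 287))))) (XT.nd (nat_lit 234) (nat_lit 304) (nat_lit 0) (XT.nd (nat_lit 78) (nat_lit 152) (nat_lit 0) (XT.lf (nat_lit 152) (nat_lit 932696727) (nat_lit 0) (nat_lit 535170290) (nat_lit 76) (nat_lit 535170290) (nat_lit 190) (nat_lit 1) (nat_lit 188) (nat_lit 1) (nat_lit 189) (nat_lit 1) (nat_lit 382) (nat_lit 352) (nat_lit 286)) (XT.nd (nat_lit 78) (nat_lit 152) (nat_lit 0) (XT.lf (nat_lit 0) (nat_lit 155005179) (nat_lit 0) (nat_lit 1659792391)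 (nat_lit 152) (nat_lit 155005179) (nat_lit 188) (nat_lit 3) (nat_lit 188) (nat_lit 1) (nat_lit 190) (nat_lit 1) (nat_lit 383) (nat_lit 352) (nat_lit 285)) (XT.lf (nat_lit 76) (nat_lit 818377202) (nat_lit 0) (nat_lit 299879744) (nat_lit 152) (nat_lit 818377202) (nat_lit 187) (nat_lit 1) (nat_lit 186) (nat_lit 1) (nat_lit 188) (nat_lit 1) (nat_lit 384) (nat_lit 352) (nat_lit 284)))) (XT.nd (nat_lit 156) (nat_lit 228) (nat_lit 0) (XT.nd (nat_lit 78) (nat_lit 0) (nat_lit 0) (XT.lf (nat_lit 152) (nat_lit 1023777969) (nat_lit 0) (nat_lit 440285922) (nat_lit 76) (nat_lit 440285922) (nat_lit 187) (nat_lit 1) (nat_lit 185) (nat_lit 1) (nat_lit 186) (nat_lit 1) (nat_lit 385) (nat_lit 352) (nat_lit 283)) (XT.lf (nat_lit 0) (nat_lit 211603821) (nat_lit 0) (nat_lit 1449595985) (nat_lit 152) (nat_lit 211603821) (nat_lit 185) (nat_lit 3) (nat_lit 185) (nat_lit 1) (nat_lit 187) (nat_lit 1) (nat_lit 386) (nat_lit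 352) (nat_lit 282))) (XT.nd (nat_lit 78) (nat_lit 76) (nat_lit 0) (XT.lf (nat_lit 76) (nat_lit 837438461) (nat_lit 0) (nat_lit 166634972) (nat_lit 152) (nat_lit 837438461) (nat_lit 184) (nat_lit 1) (nat_lit 183) (nat_lit 1) (nat_lit 185) (nat_lit 1) (nat_lit 387) (nat_lit 352) (nat_lit 281)) (XT.lf (nat_lit 152) (nat_lit 1086499015) (nat_lit 0) (nat_lit 362224318) (nat_lit 76) (nat_lit 362224318) (nat_lit 184) (nat_lit 1) (nat_lit 182) (nat_lit 1) (nat_lit 183) (nat_lit 1) (nat_lit 388) (nat_lit 352) (nat_lit 280))))))) (XT.nd (nat_lit 1014) (nat_lit 988) (nat_lit 0) (XT.nd (nat_lit 468) (nat_lit 456) (nat_lit 0) (XT.nd (nat_lit 234) (nat_lit 228) (nat_lit 0) (XT.nd (nat_lit 78) (nat_lit 228) (nat_lit 0) (XT.lf (nat_lit 0) (nat_lit 254163822) (nat_lit 0) (nat_lit 1272663039) (nat_lit 152) (nat_lit 254163822) (nat_lit 182) (nat_lit 3) (nat_lit 182) (nat_lit 1) (nat_lit 184) (nat_lit 1) (nat_lit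 389) (nat_lit 352) (nat_lit 279)) (XT.nd (nat_lit 78) (nat_lit 76) (nat_lit 0) (XT.lf (nat_lit 76) (nat_lit 845303181) (nat_lit 0) (nat_lit 60827352) (nat_lit 152) (nat_lit 845303181) (nat_lit 181) (nat_lit 1) (nat_lit 180) (nat_lit 1) (nat_lit 182) (nat_lit 1) (nat_lit 390) (nat_lit 352) (nat_lit 278)) (XT.lf (nat_lit 152) (nat_lit 1126469568) (nat_lit 0) (nat_lit 298002843) (nat_lit 76) (nat_lit 298002843) (nat_lit 181) (nat_lit 1) (nat_lit 179) (nat_lit 1) (nat_lit 180) (nat_lit 1) (nat_lit 391) (nat_lit 352) (nat_lit 277)))) (XT.nd (nat_lit 78) (nat_lit 228) (nat_lit 0) (XT.lf (nat_lit 0) (nat_lit 285364857) (nat_lit 0) (nat_lit 1123286684) (nat_lit 152) (nat_lit 285364857) (nat_lit 179) (nat_lit 3) (nat_lit 179) (nat_lit 1) (nat_lit 181) (nat_lit 1) (nat_lit 392) (nat_lit 352) (nat_lit 276)) (XT.nd (nat_lit 78) (nat_lit 152) (nat_lit 0) (XT.lf (nat_lit 76) (nat_lit 23336138) (nat_lit 0) (nat_lit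 821356925) (nat_lit 76) (nat_lit 821356925) (nat_lit 179) (nat_lit 3) (nat_lit 178) (nat_lit 1) (nat_lit 179) (nat_lit 1) (nat_lit 393) (nat_lit 352) (nat_lit 275)) (XT.lf (nat_lit 152) (nat_lit 1148277053) (nat_lit 0) (nat_lit 245167676) (nat_lit 76) (nat_lit 245167676) (nat_lit 178) (nat_lit 1) (nat_lit 176) (nat_lit 1) (nat_lit 177) (nat_lit 1) (nat_lit 394) (nat_lit 352) (nat_lit 274))))) (XT.nd (nat_lit 234) (nat_lit 228) (nat_lit 0) (XT.nd (nat_lit 78) (nat_lit 228) (nat_lit 0) (XT.lf (nat_lit 0) (nat_lit 307402424) (nat_lit 0) (nat_lit 996762784) (nat_lit 152) (nat_lit 307402424) (nat_lit 176) (nat_lit 3) (nat_lit 176) (nat_lit 1) (nat_lit 178) (nat_lit 1) (nat_lit 395) (nat_lit 352) (nat_lit 273)) (XT.nd (nat_lit 78) (nat_lit 152) (nat_lit 0) (XT.lf (nat_lit 76) (nat_lit 90659264) (nat_lit 0) (nat_lit 747192940) (nat_lit 76) (nat_lit 747192940) (nat_lit 176) (nat_lit 3) (nat_lit 175) (nat_lit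 1) (nat_lit 176) (nat_lit 1) (nat_lit 396) (nat_lit 352) (nat_lit 272)) (XT.lf (nat_lit 152) (nat_lit 1155669184) (nat_lit 0) (nat_lit 201700054) (nat_lit 76) (nat_lit 201700054) (nat_lit 175) (nat_lit 1) (nat_lit 173) (nat_lit 1) (nat_lit 174) (nat_lit 1) (nat_lit 397) (nat_lit 352) (nat_lit 271)))) (XT.nd (nat_lit 156) (nat_lit 152) (nat_lit 0) (XT.nd (nat_lit 78) (nat_lit 76) (nat_lit 0) (XT.lf (nat_lit 0) (nat_lit 322074116) (nat_lit 0) (nat_lit 889212590) (nat_lit 152) (nat_lit 322074116) (nat_lit 173) (nat_lit 3) (nat_lit 173) (nat_lit 1) (nat_lit 175) (nat_lit 1) (nat_lit 398) (nat_lit 352) (nat_lit 270)) (XT.lf (nat_lit 76) (nat_lit 142643282) (nat_lit 0) (nat_lit 682775162) (nat_lit 76) (nat_lit 682775162) (nat_lit 173) (nat_lit 3) (nat_lit 172) (nat_lit 1) (nat_lit 173) (nat_lit 1) (nat_lit 399) (nat_lit 352) (nat_lit 269))) (XT.nd (nat_lit 78) (nat_lit 0) (nat_lit 0) (XT.lf (nat_lit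 152) (nat_lit 1151704099) (nat_lit 0) (nat_lit 165939133) (nat_lit 76) (nat_lit 165939133) (nat_lit 172) (nat_lit 1) (nat_lit 170) (nat_lit 1) (nat_lit 171) (nat_lit 1) (nat_lit 400) (nat_lit 352) (nat_lit 268)) (XT.lf (nat_lit 0) (nat_lit 330850582) (nat_lit 0) (nat_lit 797436809) (nat_lit 152) (nat_lit 330850582) (nat_lit 170) (nat_lit 3) (nat_lit 170) (nat_lit 1) (nat_lit 172) (nat_lit 1) (nat_lit 401) (nat_lit 352) (nat_lit 267)))))) (XT.nd (nat_lit 468) (nat_lit 532) (nat_lit 0) (XT.nd (nat_lit 234) (nat_lit 228) (nat_lit 0) (XT.nd (nat_lit 78) (nat_lit 152) (nat_lit 0) (XT.lf (nat_lit 76) (nat_lit 182169820) (nat_lit 0) (nat_lit 626537654) (nat_lit 76) (nat_lit 626537654) (nat_lit 170) (nat_lit 3) (nat_lit 169) (nat_lit 1) (nat_lit 170) (nat_lit 1) (nat_lit 402) (nat_lit 352) (nat_lit 266)) (XT.nd (nat_lit 78) (nat_lit 0) (nat_lit 0) (XT.lf (nat_lit 152) (nat_lit 1138873814) (nat_lit 0) (nat_lit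 136518535) (nat_lit 76) (nat_lit 136518535) (nat_lit 169) (nat_lit 1) (nat_lit 167) (nat_lit 1) (nat_lit 168) (nat_lit 1) (nat_lit 403) (nat_lit 352) (nat_lit 265)) (XT.lf (nat_lit 0) (nat_lit 334933888) (nat_lit 0) (nat_lit 718795531) (nat_lit 152) (nat_lit 334933888) (nat_lit 167) (nat_lit 3) (nat_lit 167) (nat_lit 1) (nat_lit 169) (nat_lit 1) (nat_lit 404) (nat_lit 352) (nat_lit 264)))) (XT.nd (nat_lit 78) (nat_lit 152) (nat_lit 0) (XT.lf (nat_lit 76) (nat_lit 211601884) (nat_lit 0) (nat_lit 577184402) (nat_lit 76) (nat_lit 577184402) (nat_lit 167) (nat_lit 3) (nat_lit 166) (nat_lit 1) (nat_lit 167) (nat_lit 1) (nat_lit 405) (nat_lit 352) (nat_lit 263)) (XT.nd (nat_lit 78) (nat_lit 0) (nat_lit 0) (XT.lf (nat_lit 152) (nat_lit 1119205735) (nat_lit 0) (nat_lit 112314137) (nat_lit 76) (nat_lit 112314137) (nat_lit 166) (nat_lit 1) (nat_lit 164) (nat_lit 1) (nat_lit 165) (nat_lit 1) (nat_lit 406)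 (nat_lit 352) (nat_lit 262)) (XT.lf (nat_lit 0) (nat_lit 335305506) (nat_lit 0) (nat_lit 651109429) (nat_lit 152) (nat_lit 335305506) (nat_lit 164) (nat_lit 3) (nat_lit 164) (nat_lit 1) (nat_lit 166) (nat_lit 1) (nat_lit 407) (nat_lit 352) (nat_lit 261))))) (XT.nd (nat_lit 234) (nat_lit 304) (nat_lit 0) (XT.nd (nat_lit 78) (nat_lit 152) (nat_lit 0) (XT.lf (nat_lit 76) (nat_lit 232876178) (nat_lit 0) (nat_lit 533641819) (nat_lit 76) (nat_lit 533641819) (nat_lit 164) (nat_lit 3) (nat_lit 163) (nat_lit 1) (nat_lit 164) (nat_lit 1) (nat_lit 408) (nat_lit 352) (nat_lit 260)) (XT.nd (nat_lit 78) (nat_lit 0) (nat_lit 0) (XT.lf (nat_lit 152) (nat_lit 1094346118) (nat_lit 0) (nat_lit 92401118) (nat_lit 76) (nat_lit 92401118) (nat_lit 163) (nat_lit 1) (nat_lit 161) (nat_lit 1) (nat_lit 162) (nat_lit 1) (nat_lit 409) (nat_lit 352) (nat_lit 259)) (XT.lf (nat_lit 0) (nat_lit 332765781) (nat_lit 0) (nat_lit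 592578450) (nat_lit 152) (nat_lit 332765781) (nat_lit 161) (nat_lit 3) (nat_lit 161) (nat_lit 1) (nat_lit 163) (nat_lit 1) (nat_lit 410) (nat_lit 352) (nat_lit 258)))) (XT.nd (nat_lit 156) (nat_lit 76) (nat_lit 0) (XT.nd (nat_lit 78) (nat_lit 152) (nat_lit 0) (XT.lf (nat_lit 76) (nat_lit 247579030) (nat_lit 0) (nat_lit 495019668) (nat_lit 76) (nat_lit 495019668) (nat_lit 161) (nat_lit 3) (nat_lit 160) (nat_lit 1) (nat_lit 161) (nat_lit 1) (nat_lit 411) (nat_lit 352) (nat_lit 257)) (XT.lf (nat_lit 152) (nat_lit 1065628678) (nat_lit 0) (nat_lit 76018629) (nat_lit 76) (nat_lit 76018629) (nat_lit 160) (nat_lit 1) (nat_lit 158) (nat_lit 1) (nat_lit 159) (nat_lit 1) (nat_lit 412) (nat_lit 352) (nat_lit 256))) (XT.nd (nat_lit 78) (nat_lit 76) (nat_lit 0) (XT.lf (nat_lit 0) (nat_lit 327966385) (nat_lit 0) (nat_lit 541714911) (nat_lit 152) (nat_lit 327966385) (nat_lit 158) (nat_lit 3) (nat_lit 158) (nat_lit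 1) (nat_lit 160) (nat_lit 1) (nat_lit 413) (nat_lit 352) (nat_lit 255)) (XT.lf (nat_lit 76) (nat_lit 257008855) (nat_lit 0) (nat_lit 460578880) (nat_lit 76) (nat_lit 460578880) (nat_lit 158) (nat_lit 3) (nat_lit 157) (nat_lit 1) (nat_lit 158) (nat_lit 1) (nat_lit 414) (nat_lit 352) (nat_lit 254))))))))
noncomputable def ec86 : XT := (XT.nd (nat_lit 1950) (nat_lit 760) (nat_lit 0) (XT.nd (nat_lit 936) (nat_lit 1064) (nat_lit 0) (XT.nd (nat_lit 468) (nat_lit 456) (nat_lit 0) (XT.nd (nat_lit 234) (nat_lit 228) (nat_lit 0) (XT.nd (nat_lit 78) (nat_lit 76) (nat_lit 0) (XT.lf (nat_lit 152) (nat_lit 1034130988) (nat_lit 0) (nat_lit 62540714) (nat_lit 76) (nat_lit 62540714) (nat_lit 157) (nat_lit 1) (nat_lit 155) (nat_lit 1) (nat_lit 156) (nat_lit 1) (nat_lit 415) (nat_lit 352) (nat_lit 253)) (XT.nd (nat_lit 78) (nat_lit 76) (nat_lit 0) (XT.lf (nat_lit 0) (nat_lit 321436998) (nat_lit 0) (nat_lit 497288440)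 (nat_lit 152) (nat_lit 321436998) (nat_lit 155) (nat_lit 3) (nat_lit 155) (nat_lit 1) (nat_lit 157) (nat_lit 1) (nat_lit 416) (nat_lit 352) (nat_lit 252)) (XT.lf (nat_lit 76) (nat_lit 262227510) (nat_lit 0) (nat_lit 429705074) (nat_lit 76) (nat_lit 429705074) (nat_lit 155) (nat_lit 3) (nat_lit 154) (nat_lit 1) (nat_lit 155) (nat_lit 1) (nat_lit 417) (nat_lit 352) (nat_lit 251)))) (XT.nd (nat_lit 78) (nat_lit 76) (nat_lit 0) (XT.lf (nat_lit 152) (nat_lit 1000720825) (nat_lit 0) (nat_lit 51452400) (nat_lit 76) (nat_lit 51452400) (nat_lit 154) (nat_lit 1) (nat_lit 152) (nat_lit 1) (nat_lit 153) (nat_lit 1) (nat_lit 418) (nat_lit 352) (nat_lit 250)) (XT.nd (nat_lit 78) (nat_lit 76) (nat_lit 0) (XT.lf (nat_lit 0) (nat_lit 313607244) (nat_lit 0) (nat_lit 458280660) (nat_lit 152) (nat_lit 313607244) (nat_lit 152) (nat_lit 3) (nat_lit 152) (nat_lit 1) (nat_lit 154) (nat_lit 1) (nat_lit 419) (nat_lit 352)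 (nat_lit 249)) (XT.lf (nat_lit 76) (nat_lit 264102545) (nat_lit 0) (nat_lit 401886751) (nat_lit 76) (nat_lit 401886751) (nat_lit 152) (nat_lit 3) (nat_lit 151) (nat_lit 1) (nat_lit 152) (nat_lit 1) (nat_lit 420) (nat_lit 352) (nat_lit 248))))) (XT.nd (nat_lit 234) (nat_lit 228) (nat_lit 0) (XT.nd (nat_lit 78) (nat_lit 76) (nat_lit 0) (XT.lf (nat_lit 152) (nat_lit 966094263) (nat_lit 0) (nat_lit 42330017) (nat_lit 76) (nat_lit 42330017) (nat_lit 151) (nat_lit 1) (nat_lit 149) (nat_lit 1) (nat_lit 150) (nat_lit 1) (nat_lit 421) (nat_lit 352) (nat_lit 247)) (XT.nd (nat_lit 78) (nat_lit 76) (nat_lit 0) (XT.lf (nat_lit 0) (nat_lit 304824723) (nat_lit 0) (nat_lit 423847900) (nat_lit 152) (nat_lit 304824723) (nat_lit 149) (nat_lit 3) (nat_lit 149) (nat_lit 1) (nat_lit 151) (nat_lit 1) (nat_lit 422) (nat_lit 352) (nat_lit 246)) (XT.lf (nat_lit 76) (nat_lit 263341935) (nat_lit 0) (nat_lit 376697342) (nat_lit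 76) (nat_lit 376697342) (nat_lit 149) (nat_lit 3) (nat_lit 148) (nat_lit 1) (nat_lit 149) (nat_lit 1) (nat_lit 423) (nat_lit 352) (nat_lit 245)))) (XT.nd (nat_lit 78) (nat_lit 76) (nat_lit 0) (XT.lf (nat_lit 152) (nat_lit 930806964) (nat_lit 0) (nat_lit 34825009) (nat_lit 76) (nat_lit 34825009) (nat_lit 148) (nat_lit 1) (nat_lit 146) (nat_lit 1) (nat_lit 147) (nat_lit 1) (nat_lit 424) (nat_lit 352) (nat_lit 244)) (XT.nd (nat_lit 78) (nat_lit 76) (nat_lit 0) (XT.lf (nat_lit 0) (nat_lit 295369832) (nat_lit 0) (nat_lit 393290494) (nat_lit 152) (nat_lit 295369832) (nat_lit 146) (nat_lit 3) (nat_lit 146) (nat_lit 1) (nat_lit 148) (nat_lit 1) (nat_lit 425) (nat_lit 352) (nat_lit 243)) (XT.lf (nat_lit 76) (nat_lit 260522649) (nat_lit 0) (nat_lit 353780423) (nat_lit 76) (nat_lit 353780423) (nat_lit 146) (nat_lit 3) (nat_lit 145) (nat_lit 1) (nat_lit 146) (nat_lit 1) (nat_lit 426) (nat_lit 352) (nat_lit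 242)))))) (XT.nd (nat_lit 468) (nat_lit 608) (nat_lit 0) (XT.nd (nat_lit 234) (nat_lit 228) (nat_lit 0) (XT.nd (nat_lit 78) (nat_lit 76) (nat_lit 0) (XT.lf (nat_lit 152) (nat_lit 895299881) (nat_lit 0) (nat_lit 28650621) (nat_lit 76) (nat_lit 28650621) (nat_lit 145) (nat_lit 1) (nat_lit 143) (nat_lit 1) (nat_lit 144) (nat_lit 1) (nat_lit 427) (nat_lit 352) (nat_lit 241)) (XT.nd (nat_lit 78) (nat_lit 76) (nat_lit 0) (XT.lf (nat_lit 0) (nat_lit 285467947) (nat_lit 0) (nat_lit 366027518) (nat_lit 152) (nat_lit 285467947) (nat_lit 143) (nat_lit 3) (nat_lit 143) (nat_lit 1) (nat_lit 145) (nat_lit 1) (nat_lit 428) (nat_lit 352) (nat_lit 240)) (XT.lf (nat_lit 76) (nat_lit 256114141) (nat_lit 0) (nat_lit 332837542) (nat_lit 76) (nat_lit 332837542) (nat_lit 143) (nat_lit 3) (nat_lit 142) (nat_lit 1) (nat_lit 143) (nat_lit 1) (nat_lit 429) (nat_lit 352) (nat_lit 239)))) (XT.nd (nat_lit 78) (nat_lit 76) (nat_lit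 0) (XT.lf (nat_lit 152) (nat_lit 859920369) (nat_lit 0) (nat_lit 23570937) (nat_lit 76) (nat_lit 23570937) (nat_lit 142) (nat_lit 1) (nat_lit 140) (nat_lit 1) (nat_lit 141) (nat_lit 1) (nat_lit 430) (nat_lit 352) (nat_lit 238)) (XT.nd (nat_lit 78) (nat_lit 76) (nat_lit 0) (XT.lf (nat_lit 0) (nat_lit 275299429) (nat_lit 0) (nat_lit 341575988) (nat_lit 152) (nat_lit 275299429) (nat_lit 140) (nat_lit 3) (nat_lit 140) (nat_lit 1) (nat_lit 142) (nat_lit 1) (nat_lit 431) (nat_lit 352) (nat_lit 237)) (XT.lf (nat_lit 76) (nat_lit 250497654) (nat_lit 0) (nat_lit 313618186) (nat_lit 76) (nat_lit 313618186) (nat_lit 140) (nat_lit 3) (nat_lit 139) (nat_lit 1) (nat_lit 140) (nat_lit 1) (nat_lit 432) (nat_lit 352) (nat_lit 236))))) (XT.nd (nat_lit 234) (nat_lit 380) (nat_lit 0) (XT.nd (nat_lit 78) (nat_lit 76) (nat_lit 0) (XT.lf (nat_lit 152) (nat_lit 824939512) (nat_lit 0) (nat_lit 19391868) (nat_lit 76) (nat_lit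 19391868) (nat_lit 139) (nat_lit 1) (nat_lit 137) (nat_lit 1) (nat_lit 138) (nat_lit 1) (nat_lit 433) (nat_lit 352) (nat_lit 235)) (XT.nd (nat_lit 78) (nat_lit 76) (nat_lit 0) (XT.lf (nat_lit 0) (nat_lit 265007848) (nat_lit 0) (nat_lit 319533737) (nat_lit 152) (nat_lit 265007848) (nat_lit 137) (nat_lit 3) (nat_lit 137) (nat_lit 1) (nat_lit 139) (nat_lit 1) (nat_lit 434) (nat_lit 352) (nat_lit 234)) (XT.lf (nat_lit 76) (nat_lit 243982103) (nat_lit 0) (nat_lit 295911521) (nat_lit 76) (nat_lit 295911521) (nat_lit 137) (nat_lit 3) (nat_lit 136) (nat_lit 1) (nat_lit 137) (nat_lit 1) (nat_lit 435) (nat_lit 352) (nat_lit 233)))) (XT.nd (nat_lit 156) (nat_lit 228) (nat_lit 0) (XT.nd (nat_lit 78) (nat_lit 0) (nat_lit 0) (XT.lf (nat_lit 152) (nat_lit 790566346) (nat_lit 0) (nat_lit 15953738) (nat_lit 76) (nat_lit 15953738) (nat_lit 136) (nat_lit 1) (nat_lit 134) (nat_lit 1) (nat_lit 135) (nat_lit 1) (nat_lit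 436) (nat_lit 352) (nat_lit 232)) (XT.lf (nat_lit 0) (nat_lit 254706733) (nat_lit 0) (nat_lit 299565317) (nat_lit 152) (nat_lit 254706733) (nat_lit 134) (nat_lit 3) (nat_lit 134) (nat_lit 1) (nat_lit 136) (nat_lit 1) (nat_lit 437) (nat_lit 352) (nat_lit 231))) (XT.nd (nat_lit 78) (nat_lit 152) (nat_lit 0) (XT.lf (nat_lit 76) (nat_lit 236817121) (nat_lit 0) (nat_lit 279539582) (nat_lit 76) (nat_lit 279539582) (nat_lit 134) (nat_lit 3) (nat_lit 133) (nat_lit 1) (nat_lit 134) (nat_lit 1) (nat_lit 438) (nat_lit 352) (nat_lit 230)) (XT.lf (nat_lit 152) (nat_lit 756959526) (nat_lit 0) (nat_lit 13125179) (nat_lit 76) (nat_lit 13125179) (nat_lit 133) (nat_lit 1) (nat_lit 131) (nat_lit 1) (nat_lit 132) (nat_lit 1) (nat_lit 439) (nat_lit 352) (nat_lit 229))))))) (XT.nd (nat_lit 43368) (nat_lit 0) (nat_lit 12084) (XT.nd (nat_lit 468) (nat_lit 304) (nat_lit 0) (XT.nd (nat_lit 234) (nat_lit 228) (nat_lit 0)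 (XT.nd (nat_lit 78) (nat_lit 228) (nat_lit 0) (XT.lf (nat_lit 0) (nat_lit 244485117) (nat_lit 0) (nat_lit 281390385) (nat_lit 152) (nat_lit 244485117) (nat_lit 131) (nat_lit 3) (nat_lit 131) (nat_lit 1) (nat_lit 133) (nat_lit 1) (nat_lit 440) (nat_lit 352) (nat_lit 228)) (XT.nd (nat_lit 78) (nat_lit 152) (nat_lit 0) (XT.lf (nat_lit 76) (nat_lit 229203785) (nat_lit 0) (nat_lit 264351659) (nat_lit 76) (nat_lit 264351659) (nat_lit 131) (nat_lit 3) (nat_lit 130) (nat_lit 1) (nat_lit 131) (nat_lit 1) (nat_lit 441) (nat_lit 352) (nat_lit 227)) (XT.lf (nat_lit 152) (nat_lit 724236891) (nat_lit 0) (nat_lit 10798118) (nat_lit 76) (nat_lit 10798118) (nat_lit 130) (nat_lit 1) (nat_lit 128) (nat_lit 1) (nat_lit 129) (nat_lit 1) (nat_lit 442) (nat_lit 352) (nat_lit 226)))) (XT.nd (nat_lit 78) (nat_lit 228) (nat_lit 0) (XT.lf (nat_lit 0) (nat_lit 234412090) (nat_lit 0) (nat_lit 264774145) (nat_lit 152) (nat_lit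 234412090) (nat_lit 128) (nat_lit 3) (nat_lit 128) (nat_lit 1) (nat_lit 130) (nat_lit 1) (nat_lit 443) (nat_lit 352) (nat_lit 225)) (XT.nd (nat_lit 78) (nat_lit 152) (nat_lit 0) (XT.lf (nat_lit 76) (nat_lit 221303429) (nat_lit 0) (nat_lit 250219673) (nat_lit 76) (nat_lit 250219673) (nat_lit 128) (nat_lit 3) (nat_lit 127) (nat_lit 1) (nat_lit 128) (nat_lit 1) (nat_lit 444) (nat_lit 352) (nat_lit 224)) (XT.lf (nat_lit 152) (nat_lit 692483307) (nat_lit 0) (nat_lit 8883638) (nat_lit 76) (nat_lit 8883638) (nat_lit 127) (nat_lit 1) (nat_lit 125) (nat_lit 1) (nat_lit 126) (nat_lit 1) (nat_lit 445) (nat_lit 352) (nat_lit 223))))) (XT.nd (nat_lit 234) (nat_lit 76) (nat_lit 0) (XT.nd (nat_lit 78) (nat_lit 228) (nat_lit 0) (XT.lf (nat_lit 0) (nat_lit 224540529) (nat_lit 0) (nat_lit 249519467) (nat_lit 152) (nat_lit 224540529) (nat_lit 125) (nat_lit 3) (nat_lit 125) (nat_lit 1) (nat_lit 127) (nat_lit 1) (nat_lit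 446) (nat_lit 352) (nat_lit 222)) (XT.nd (nat_lit 78) (nat_lit 152) (nat_lit 0) (XT.lf (nat_lit 76) (nat_lit 213244887) (nat_lit 0) (nat_lit 237034352) (nat_lit 76) (nat_lit 237034352) (nat_lit 125) (nat_lit 3) (nat_lit 124) (nat_lit 1) (nat_lit 125) (nat_lit 1) (nat_lit 447) (nat_lit 352) (nat_lit 221)) (XT.lf (nat_lit 152) (nat_lit 661757087) (nat_lit 0) (nat_lit 7308591) (nat_lit 76) (nat_lit 7308591) (nat_lit 124) (nat_lit 1) (nat_lit 122) (nat_lit 1) (nat_lit 123) (nat_lit 1) (nat_lit 448) (nat_lit 352) (nat_lit 220)))) (XT.nd (nat_lit 78) (nat_lit 76) (nat_lit 0) (XT.lf (nat_lit 0) (nat_lit 214910166) (nat_lit 0) (nat_lit 235460400) (nat_lit 152) (nat_lit 214910166) (nat_lit 122) (nat_lit 3) (nat_lit 122) (nat_lit 1) (nat_lit 124) (nat_lit 1) (nat_lit 449) (nat_lit 352) (nat_lit 219)) (XT.nd (nat_lit 42510) (nat_lit 0) (nat_lit 12996) (XT.lf (nat_lit 76) (nat_lit 205130437) (nat_lit 0) (nat_lit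 224702088) (nat_lit 76) (nat_lit 224702088) (nat_lit 122) (nat_lit 3) (nat_lit 121) (nat_lit 1) (nat_lit 122) (nat_lit 1) (nat_lit 450) (nat_lit 352) (nat_lit 218)) (XT.lf (nat_lit 836) (nat_lit 1013235895) (nat_lit 0) (nat_lit 1798998003) (nat_lit 836) (nat_lit 1013235895) (nat_lit 303) (nat_lit 1) (nat_lit 292) (nat_lit 0) (nat_lit 303) (nat_lit 0) (nat_lit 314) (nat_lit 353) (nat_lit 353)))))) (XT.nd (nat_lit 468) (nat_lit 912) (nat_lit 0) (XT.nd (nat_lit 234) (nat_lit 0) (nat_lit 152) (XT.nd (nat_lit 78) (nat_lit 0) (nat_lit 76) (XT.lf (nat_lit 836) (nat_lit 3927428827) (nat_lit 76) (nat_lit 1769981906) (nat_lit 0) (nat_lit 1769981906) (nat_lit 303) (nat_lit 1) (nat_lit 293) (nat_lit 1) (nat_lit 292) (nat_lit 0) (nat_lit 315) (nat_lit 353) (nat_lit 352)) (XT.nd (nat_lit 78) (nat_lit 0) (nat_lit 0) (XT.lf (nat_lit 836) (nat_lit 1871753444) (nat_lit 0) (nat_lit 3546013227) (nat_lit 760) (nat_lit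 1871753444) (nat_lit 304) (nat_lit 1) (nat_lit 293) (nat_lit 1) (nat_lit 303) (nat_lit 1) (nat_lit 316) (nat_lit 353) (nat_lit 351)) (XT.lf (nat_lit 836) (nat_lit 3511149374) (nat_lit 76) (nat_lit 1803122411) (nat_lit 0) (nat_lit 1803122411) (nat_lit 304) (nat_lit 1) (nat_lit 294) (nat_lit 1) (nat_lit 293) (nat_lit 1) (nat_lit 317) (nat_lit 353) (nat_lit 350)))) (XT.nd (nat_lit 78) (nat_lit 0) (nat_lit 0) (XT.lf (nat_lit 836) (nat_lit 1616148339) (nat_lit 0) (nat_lit 3718427131) (nat_lit 760) (nat_lit 1616148339) (nat_lit 305) (nat_lit 1) (nat_lit 294) (nat_lit 1) (nat_lit 304) (nat_lit 1) (nat_lit 318) (nat_lit 353) (nat_lit 349)) (XT.nd (nat_lit 78) (nat_lit 0) (nat_lit 76) (XT.lf (nat_lit 836) (nat_lit 2906748050) (nat_lit 76) (nat_lit 1941193059) (nat_lit 0) (nat_lit 1941193059) (nat_lit 305) (nat_lit 1) (nat_lit 295) (nat_lit 1) (nat_lit 294) (nat_lit 1) (nat_lit 319) (nat_lit 353) (nat_lit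 348)) (XT.lf (nat_lit 836) (nat_lit 1274525065) (nat_lit 0) (nat_lit 4083920020) (nat_lit 760) (nat_lit 1274525065) (nat_lit 306) (nat_lit 1) (nat_lit 295) (nat_lit 1) (nat_lit 305) (nat_lit 1) (nat_lit 320) (nat_lit 353) (nat_lit 347))))) (XT.nd (nat_lit 234) (nat_lit 1140) (nat_lit 0) (XT.nd (nat_lit 78) (nat_lit 0) (nat_lit 76) (XT.lf (nat_lit 836) (nat_lit 2142515768) (nat_lit 76) (nat_lit 2169295048) (nat_lit 0) (nat_lit 2169295048) (nat_lit 306) (nat_lit 1) (nat_lit 296) (nat_lit 1) (nat_lit 295) (nat_lit 1) (nat_lit 321) (nat_lit 353) (nat_lit 346)) (XT.nd (nat_lit 78) (nat_lit 0) (nat_lit 0) (XT.lf (nat_lit 836) (nat_lit 860108488) (nat_lit 0) (nat_lit 4614583700) (nat_lit 760) (nat_lit 860108488) (nat_lit 307) (nat_lit 1) (nat_lit 296) (nat_lit 1) (nat_lit 306) (nat_lit 1) (nat_lit 322) (nat_lit 353) (nat_lit 345)) (XT.lf (nat_lit 836) (nat_lit 1243598880) (nat_lit 76) (nat_lit 2474159647)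 (nat_lit 0) (nat_lit 2474159647) (nat_lit 307) (nat_lit 1) (nat_lit 297) (nat_lit 1) (nat_lit 296) (nat_lit 1) (nat_lit 323) (nat_lit 353) (nat_lit 344)))) (XT.nd (nat_lit 156) (nat_lit 532) (nat_lit 0) (XT.nd (nat_lit 78) (nat_lit 760) (nat_lit 0) (XT.lf (nat_lit 76) (nat_lit 384645008) (nat_lit 0) (nat_lit 5285578780) (nat_lit 760) (nat_lit 384645008) (nat_lit 298) (nat_lit 1) (nat_lit 297) (nat_lit 1) (nat_lit 307) (nat_lit 1) (nat_lit 324) (nat_lit 353) (nat_lit 343)) (XT.lf (nat_lit 836) (nat_lit 232316019) (nat_lit 0) (nat_lit 2843984989) (nat_lit 760) (nat_lit 2843984989) (nat_lit 298) (nat_lit 1) (nat_lit 287) (nat_lit 1) (nat_lit 297) (nat_lit 1) (nat_lit 325) (nat_lit 353) (nat_lit 342))) (XT.nd (nat_lit 78) (nat_lit 0) (nat_lit 0) (XT.lf (nat_lit 532) (nat_lit 5513151723) (nat_lit 0) (nat_lit 139166701) (nat_lit 456) (nat_lit 139166701) (nat_lit 287) (nat_lit 1) (nat_lit 280) (nat_lit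 1) (nat_lit 286) (nat_lit 1) (nat_lit 326) (nat_lit 353) (nat_lit 341)) (XT.lf (nat_lit 76) (nat_lit 2410340338) (nat_lit 0) (nat_lit 843660448) (nat_lit 532) (nat_lit 2410340338) (nat_lit 281) (nat_lit 1) (nat_lit 280) (nat_lit 1) (nat_lit 287) (nat_lit 1) (nat_lit 327) (nat_lit 353) (nat_lit 340))))))))
noncomputable def ec87 : XT := (XT.nd (nat_lit 1950) (nat_lit 2508) (nat_lit 0) (XT.nd (nat_lit 936) (nat_lit 1976) (nat_lit 0) (XT.nd (nat_lit 468) (nat_lit 1216) (nat_lit 0) (XT.nd (nat_lit 234) (nat_lit 304) (nat_lit 0) (XT.nd (nat_lit 78) (nat_lit 380) (nat_lit 0) (XT.lf (nat_lit 456) (nat_lit 4147577014) (nat_lit 0) (nat_lit 697513305) (nat_lit 380) (nat_lit 697513305) (nat_lit 281) (nat_lit 1) (nat_lit 275) (nat_lit 1) (nat_lit 280) (nat_lit 1) (nat_lit 328) (nat_lit 353) (nat_lit 339)) (XT.nd (nat_lit 78) (nat_lit 380) (nat_lit 0) (XT.lf (nat_lit 76) (nat_lit 1719266421) (nat_lit 0) (nat_lit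 1984892542) (nat_lit 456) (nat_lit 1719266421) (nat_lit 276) (nat_lit 1) (nat_lit 275) (nat_lit 1) (nat_lit 281) (nat_lit 1) (nat_lit 329) (nat_lit 353) (nat_lit 338)) (XT.lf (nat_lit 456) (nat_lit 2731238282) (nat_lit 0) (nat_lit 1288579760) (nat_lit 380) (nat_lit 1288579760) (nat_lit 276) (nat_lit 1) (nat_lit 270) (nat_lit 1) (nat_lit 275) (nat_lit 1) (nat_lit 330) (nat_lit 353) (nat_lit 337)))) (XT.nd (nat_lit 78) (nat_lit 304) (nat_lit 0) (XT.lf (nat_lit 76) (nat_lit 1006425008) (nat_lit 0) (nat_lit 3183865595) (nat_lit 456) (nat_lit 1006425008) (nat_lit 271) (nat_lit 1) (nat_lit 270) (nat_lit 1) (nat_lit 276) (nat_lit 1) (nat_lit 331) (nat_lit 353) (nat_lit 336)) (XT.nd (nat_lit 78) (nat_lit 0) (nat_lit 0) (XT.lf (nat_lit 380) (nat_lit 1277318046) (nat_lit 0) (nat_lit 1905294104) (nat_lit 304) (nat_lit 1905294104) (nat_lit 271) (nat_lit 1) (nat_lit 266) (nat_lit 1) (nat_lit 270) (nat_lit 1)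 (nat_lit 332) (nat_lit 353) (nat_lit 335)) (XT.lf (nat_lit 76) (nat_lit 277935883) (nat_lit 0) (nat_lit 4427409402) (nat_lit 380) (nat_lit 277935883) (nat_lit 267) (nat_lit 1) (nat_lit 266) (nat_lit 1) (nat_lit 271) (nat_lit 1) (nat_lit 333) (nat_lit 353) (nat_lit 334))))) (XT.nd (nat_lit 234) (nat_lit 532) (nat_lit 0) (XT.nd (nat_lit 78) (nat_lit 304) (nat_lit 0) (XT.lf (nat_lit 76) (nat_lit 2341967622) (nat_lit 0) (nat_lit 196144337) (nat_lit 380) (nat_lit 2341967622) (nat_lit 262) (nat_lit 1) (nat_lit 261) (nat_lit 1) (nat_lit 266) (nat_lit 1) (nat_lit 334) (nat_lit 353) (nat_lit 333)) (XT.nd (nat_lit 78) (nat_lit 0) (nat_lit 0) (XT.lf (nat_lit 380) (nat_lit 3873983780) (nat_lit 0) (nat_lit 453412192) (nat_lit 304) (nat_lit 453412192) (nat_lit 262) (nat_lit 1) (nat_lit 257) (nat_lit 1) (nat_lit 261) (nat_lit 1) (nat_lit 335) (nat_lit 353) (nat_lit 332)) (XT.lf (nat_lit 76) (nat_lit 1519546750)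 (nat_lit 0) (nat_lit 1644146270) (nat_lit 380) (nat_lit 1519546750) (nat_lit 258) (nat_lit 1) (nat_lit 257) (nat_lit 1) (nat_lit 262) (nat_lit 1) (nat_lit 336) (nat_lit 353) (nat_lit 331)))) (XT.nd (nat_lit 78) (nat_lit 228) (nat_lit 0) (XT.lf (nat_lit 380) (nat_lit 2217441414) (nat_lit 0) (nat_lit 1185806645) (nat_lit 304) (nat_lit 1185806645) (nat_lit 258) (nat_lit 1) (nat_lit 253) (nat_lit 1) (nat_lit 257) (nat_lit 1) (nat_lit 337) (nat_lit 353) (nat_lit 330)) (XT.nd (nat_lit 78) (nat_lit 228) (nat_lit 0) (XT.lf (nat_lit 76) (nat_lit 699282059) (nat_lit 0) (nat_lit 3099059501) (nat_lit 380) (nat_lit 699282059) (nat_lit 254) (nat_lit 1) (nat_lit 253) (nat_lit 1) (nat_lit 258) (nat_lit 1) (nat_lit 338) (nat_lit 353) (nat_lit 329)) (XT.lf (nat_lit 304) (nat_lit 568696149) (nat_lit 0) (nat_lit 1919735008) (nat_lit 228) (nat_lit 1919735008) (nat_lit 254) (nat_lit 1) (nat_lit 250) (nat_lit 1) (nat_lit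 253) (nat_lit 1) (nat_lit 339) (nat_lit 353) (nat_lit 328)))))) (XT.nd (nat_lit 468) (nat_lit 836) (nat_lit 0) (XT.nd (nat_lit 234) (nat_lit 532) (nat_lit 0) (XT.nd (nat_lit 78) (nat_lit 228) (nat_lit 0) (XT.lf (nat_lit 380) (nat_lit 4094909221) (nat_lit 0) (nat_lit 113625873) (nat_lit 304) (nat_lit 113625873) (nat_lit 250) (nat_lit 1) (nat_lit 245) (nat_lit 1) (nat_lit 249) (nat_lit 1) (nat_lit 340) (nat_lit 353) (nat_lit 327)) (XT.nd (nat_lit 78) (nat_lit 228) (nat_lit 0) (XT.lf (nat_lit 76) (nat_lit 1602368251) (nat_lit 0) (nat_lit 1031895297) (nat_lit 380) (nat_lit 1602368251) (nat_lit 246) (nat_lit 1) (nat_lit 245) (nat_lit 1) (nat_lit 250) (nat_lit 1) (nat_lit 341) (nat_lit 353) (nat_lit 326)) (XT.lf (nat_lit 304) (nat_lit 2340309488) (nat_lit 0) (nat_lit 907036706) (nat_lit 228) (nat_lit 907036706) (nat_lit 246) (nat_lit 1) (nat_lit 242) (nat_lit 1) (nat_lit 245) (nat_lit 1) (nat_lit 342)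 (nat_lit 353) (nat_lit 325)))) (XT.nd (nat_lit 78) (nat_lit 532) (nat_lit 0) (XT.lf (nat_lit 76) (nat_lit 739339968) (nat_lit 0) (nat_lit 2595543743) (nat_lit 304) (nat_lit 739339968) (nat_lit 243) (nat_lit 1) (nat_lit 242) (nat_lit 1) (nat_lit 246) (nat_lit 1) (nat_lit 343) (nat_lit 353) (nat_lit 324)) (XT.nd (nat_lit 78) (nat_lit 304) (nat_lit 0) (XT.lf (nat_lit 304) (nat_lit 616216754) (nat_lit 0) (nat_lit 1689835651) (nat_lit 228) (nat_lit 1689835651) (nat_lit 243) (nat_lit 1) (nat_lit 239) (nat_lit 1) (nat_lit 242) (nat_lit 1) (nat_lit 344) (nat_lit 353) (nat_lit 323)) (XT.lf (nat_lit 304) (nat_lit 3708656274) (nat_lit 0) (nat_lit 105903214) (nat_lit 228) (nat_lit 105903214) (nat_lit 239) (nat_lit 1) (nat_lit 235) (nat_lit 1) (nat_lit 238) (nat_lit 1) (nat_lit 345) (nat_lit 353) (nat_lit 322))))) (XT.nd (nat_lit 234) (nat_lit 608) (nat_lit 0) (XT.nd (nat_lit 78) (nat_lit 228) (nat_lit 0) (XT.lf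 (nat_lit 76) (nat_lit 1402878459) (nat_lit 0) (nat_lit 1039518851) (nat_lit 304) (nat_lit 1402878459) (nat_lit 236) (nat_lit 1) (nat_lit 235) (nat_lit 1) (nat_lit 239) (nat_lit 1) (nat_lit 346) (nat_lit 353) (nat_lit 321)) (XT.nd (nat_lit 78) (nat_lit 0) (nat_lit 0) (XT.lf (nat_lit 304) (nat_lit 1929086337) (nat_lit 0) (nat_lit 921892214) (nat_lit 228) (nat_lit 921892214) (nat_lit 236) (nat_lit 1) (nat_lit 232) (nat_lit 1) (nat_lit 235) (nat_lit 1) (nat_lit 347) (nat_lit 353) (nat_lit 320)) (XT.lf (nat_lit 76) (nat_lit 531268804) (nat_lit 0) (nat_lit 2639870088) (nat_lit 304) (nat_lit 531268804) (nat_lit 233) (nat_lit 1) (nat_lit 232) (nat_lit 1) (nat_lit 236) (nat_lit 1) (nat_lit 348) (nat_lit 353) (nat_lit 319)))) (XT.nd (nat_lit 156) (nat_lit 152) (nat_lit 0) (XT.nd (nat_lit 78) (nat_lit 304) (nat_lit 0) (XT.lf (nat_lit 228) (nat_lit 194674554) (nat_lit 0) (nat_lit 1719298953) (nat_lit 152)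 (nat_lit 1719298953) (nat_lit 233) (nat_lit 1) (nat_lit 230) (nat_lit 1) (nat_lit 232) (nat_lit 1) (nat_lit 349) (nat_lit 353) (nat_lit 318)) (XT.lf (nat_lit 304) (nat_lit 2941467235) (nat_lit 0) (nat_lit 312405141) (nat_lit 228) (nat_lit 312405141) (nat_lit 230) (nat_lit 1) (nat_lit 226) (nat_lit 1) (nat_lit 229) (nat_lit 1) (nat_lit 350) (nat_lit 353) (nat_lit 317))) (XT.nd (nat_lit 78) (nat_lit 152) (nat_lit 0) (XT.lf (nat_lit 76) (nat_lit 1027384683) (nat_lit 0) (nat_lit 1445262481) (nat_lit 304) (nat_lit 1027384683) (nat_lit 227) (nat_lit 1) (nat_lit 226) (nat_lit 1) (nat_lit 230) (nat_lit 1) (nat_lit 351) (nat_lit 353) (nat_lit 316)) (XT.lf (nat_lit 228) (nat_lit 1186984520) (nat_lit 0) (nat_lit 1124423090) (nat_lit 152) (nat_lit 1124423090) (nat_lit 227) (nat_lit 1) (nat_lit 224) (nat_lit 1) (nat_lit 226) (nat_lit 1) (nat_lit 352) (nat_lit 353) (nat_lit 315))))))) (XT.nd (nat_lit 1014) (nat_lit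 1140) (nat_lit 0) (XT.nd (nat_lit 468) (nat_lit 608) (nat_lit 0) (XT.nd (nat_lit 234) (nat_lit 380) (nat_lit 0) (XT.nd (nat_lit 78) (nat_lit 380) (nat_lit 0) (XT.lf (nat_lit 76) (nat_lit 170532000) (nat_lit 0) (nat_lit 3032696145) (nat_lit 228) (nat_lit 170532000) (nat_lit 225) (nat_lit 1) (nat_lit 224) (nat_lit 1) (nat_lit 227) (nat_lit 1) (nat_lit 353) (nat_lit 353) (nat_lit 314)) (XT.nd (nat_lit 78) (nat_lit 152) (nat_lit 0) (XT.lf (nat_lit 76) (nat_lit 1407430515) (nat_lit 0) (nat_lit 497054188) (nat_lit 228) (nat_lit 1407430515) (nat_lit 222) (nat_lit 1) (nat_lit 221) (nat_lit 1) (nat_lit 224) (nat_lit 1) (nat_lit 354) (nat_lit 353) (nat_lit 313)) (XT.lf (nat_lit 228) (nat_lit 1954463944) (nat_lit 0) (nat_lit 648829075) (nat_lit 152) (nat_lit 648829075) (nat_lit 222) (nat_lit 1) (nat_lit 219) (nat_lit 1) (nat_lit 221) (nat_lit 1) (nat_lit 355) (nat_lit 353) (nat_lit 312)))) (XT.nd (nat_lit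 78) (nat_lit 380) (nat_lit 0) (XT.lf (nat_lit 76) (nat_lit 551498877) (nat_lit 0) (nat_lit 2090652773) (nat_lit 228) (nat_lit 551498877) (nat_lit 220) (nat_lit 1) (nat_lit 219) (nat_lit 1) (nat_lit 222) (nat_lit 1) (nat_lit 356) (nat_lit 353) (nat_lit 311)) (XT.nd (nat_lit 78) (nat_lit 228) (nat_lit 0) (XT.lf (nat_lit 228) (nat_lit 258357368) (nat_lit 0) (nat_lit 1439000114) (nat_lit 152) (nat_lit 1439000114) (nat_lit 220) (nat_lit 1) (nat_lit 217) (nat_lit 1) (nat_lit 219) (nat_lit 1) (nat_lit 357) (nat_lit 353) (nat_lit 310)) (XT.lf (nat_lit 228) (nat_lit 2539303125) (nat_lit 0) (nat_lit 270710824) (nat_lit 152) (nat_lit 270710824) (nat_lit 217) (nat_lit 1) (nat_lit 214) (nat_lit 1) (nat_lit 216) (nat_lit 1) (nat_lit 358) (nat_lit 353) (nat_lit 309))))) (XT.nd (nat_lit 234) (nat_lit 456) (nat_lit 0) (XT.nd (nat_lit 78) (nat_lit 152) (nat_lit 0) (XT.lf (nat_lit 76) (nat_lit 845340233) (nat_lit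 0) (nat_lit 1334886305) (nat_lit 228) (nat_lit 845340233) (nat_lit 215) (nat_lit 1) (nat_lit 214) (nat_lit 1) (nat_lit 217) (nat_lit 1) (nat_lit 359) (nat_lit 353) (nat_lit 308)) (XT.nd (nat_lit 78) (nat_lit 0) (nat_lit 0) (XT.lf (nat_lit 228) (nat_lit 860937985) (nat_lit 0) (nat_lit 1055536047) (nat_lit 152) (nat_lit 1055536047) (nat_lit 215) (nat_lit 1) (nat_lit 212) (nat_lit 1) (nat_lit 214) (nat_lit 1) (nat_lit 360) (nat_lit 353) (nat_lit 307)) (XT.lf (nat_lit 76) (nat_lit 28296657) (nat_lit 0) (nat_lit 2863738312) (nat_lit 228) (nat_lit 28296657) (nat_lit 213) (nat_lit 1) (nat_lit 212) (nat_lit 1) (nat_lit 215) (nat_lit 1) (nat_lit 361) (nat_lit 353) (nat_lit 306)))) (XT.nd (nat_lit 156) (nat_lit 152) (nat_lit 0) (XT.nd (nat_lit 78) (nat_lit 152) (nat_lit 0) (XT.lf (nat_lit 76) (nat_lit 1068435636) (nat_lit 0) (nat_lit 731453404) (nat_lit 152) (nat_lit 1068435636) (nat_lit 211) (nat_lit 1)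 (nat_lit 210) (nat_lit 1) (nat_lit 212) (nat_lit 1) (nat_lit 362) (nat_lit 353) (nat_lit 305)) (XT.lf (nat_lit 228) (nat_lit 1325806991) (nat_lit 0) (nat_lit 746170301) (nat_lit 152) (nat_lit 746170301) (nat_lit 211) (nat_lit 1) (nat_lit 208) (nat_lit 1) (nat_lit 210) (nat_lit 1) (nat_lit 363) (nat_lit 353) (nat_lit 304))) (XT.nd (nat_lit 78) (nat_lit 152) (nat_lit 0) (XT.lf (nat_lit 76) (nat_lit 265815138) (nat_lit 0) (nat_lit 2237694641) (nat_lit 228) (nat_lit 265815138) (nat_lit 209) (nat_lit 1) (nat_lit 208) (nat_lit 1) (nat_lit 211) (nat_lit 1) (nat_lit 364) (nat_lit 353) (nat_lit 303)) (XT.lf (nat_lit 76) (nat_lit 1234216199) (nat_lit 0) (nat_lit 252472466) (nat_lit 152) (nat_lit 1234216199) (nat_lit 207) (nat_lit 1) (nat_lit 206) (nat_lit 1) (nat_lit 208) (nat_lit 1) (nat_lit 365) (nat_lit 353) (nat_lit 302)))))) (XT.nd (nat_lit 468) (nat_lit 608) (nat_lit 0) (XT.nd (nat_lit 234) (nat_lit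 304) (nat_lit 0) (XT.nd (nat_lit 78) (nat_lit 76) (nat_lit 0) (XT.lf (nat_lit 228) (nat_lit 1678850579) (nat_lit 0) (nat_lit 497474423) (nat_lit 152) (nat_lit 497474423) (nat_lit 207) (nat_lit 1) (nat_lit 204) (nat_lit 1) (nat_lit 206) (nat_lit 1) (nat_lit 366) (nat_lit 353) (nat_lit 301)) (XT.nd (nat_lit 78) (nat_lit 76) (nat_lit 0) (XT.lf (nat_lit 76) (nat_lit 449672876) (nat_lit 0) (nat_lit 1728280771) (nat_lit 228) (nat_lit 449672876) (nat_lit 205) (nat_lit 1) (nat_lit 204) (nat_lit 1) (nat_lit 207) (nat_lit 1) (nat_lit 367) (nat_lit 353) (nat_lit 300)) (XT.lf (nat_lit 152) (nat_lit 129084707) (nat_lit 0) (nat_lit 1226620109) (nat_lit 76) (nat_lit 1226620109) (nat_lit 205) (nat_lit 1) (nat_lit 203) (nat_lit 1) (nat_lit 204) (nat_lit 1) (nat_lit 368) (nat_lit 353) (nat_lit 299)))) (XT.nd (nat_lit 78) (nat_lit 76) (nat_lit 0) (XT.lf (nat_lit 228) (nat_lit 1941295370) (nat_lit 0) (nat_lit 298414648)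 (nat_lit 152) (nat_lit 298414648) (nat_lit 203) (nat_lit 1) (nat_lit 200) (nat_lit 1) (nat_lit 202) (nat_lit 1) (nat_lit 369) (nat_lit 353) (nat_lit 298)) (XT.nd (nat_lit 78) (nat_lit 76) (nat_lit 0) (XT.lf (nat_lit 76) (nat_lit 589933753) (nat_lit 0) (nat_lit 1314550250) (nat_lit 228) (nat_lit 589933753) (nat_lit 201) (nat_lit 1) (nat_lit 200) (nat_lit 1) (nat_lit 203) (nat_lit 1) (nat_lit 370) (nat_lit 353) (nat_lit 297)) (XT.lf (nat_lit 152) (nat_lit 433495691) (nat_lit 0) (nat_lit 1009143399) (nat_lit 76) (nat_lit 1009143399) (nat_lit 201) (nat_lit 1) (nat_lit 199) (nat_lit 1) (nat_lit 200) (nat_lit 1) (nat_lit 371) (nat_lit 353) (nat_lit 296))))) (XT.nd (nat_lit 234) (nat_lit 304) (nat_lit 0) (XT.nd (nat_lit 78) (nat_lit 76) (nat_lit 0) (XT.lf (nat_lit 228) (nat_lit 2130537880) (nat_lit 0) (nat_lit 139926668) (nat_lit 152) (nat_lit 139926668) (nat_lit 199) (nat_lit 1) (nat_lit 196) (nat_lit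 1) (nat_lit 198) (nat_lit 1) (nat_lit 372) (nat_lit 353) (nat_lit 295)) (XT.nd (nat_lit 78) (nat_lit 76) (nat_lit 0) (XT.lf (nat_lit 76) (nat_lit 694851164) (nat_lit 0) (nat_lit 979283156) (nat_lit 228) (nat_lit 694851164) (nat_lit 197) (nat_lit 1) (nat_lit 196) (nat_lit 1) (nat_lit 199) (nat_lit 1) (nat_lit 373) (nat_lit 353) (nat_lit 294)) (XT.lf (nat_lit 152) (nat_lit 668349771) (nat_lit 0) (nat_lit 830224772) (nat_lit 76) (nat_lit 830224772) (nat_lit 197) (nat_lit 1) (nat_lit 195) (nat_lit 1) (nat_lit 196) (nat_lit 1) (nat_lit 374) (nat_lit 353) (nat_lit 293)))) (XT.nd (nat_lit 156) (nat_lit 76) (nat_lit 0) (XT.nd (nat_lit 78) (nat_lit 0) (nat_lit 0) (XT.lf (nat_lit 228) (nat_lit 2260826763) (nat_lit 0) (nat_lit 14565825) (nat_lit 152) (nat_lit 14565825) (nat_lit 195) (nat_lit 1) (nat_lit 192) (nat_lit 1) (nat_lit 194) (nat_lit 1) (nat_lit 375) (nat_lit 353) (nat_lit 292)) (XT.lf (nat_lit 76)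 (nat_lit 771190253) (nat_lit 0) (nat_lit 708324782) (nat_lit 228) (nat_lit 771190253) (nat_lit 193) (nat_lit 1) (nat_lit 192) (nat_lit 1) (nat_lit 195) (nat_lit 1) (nat_lit 376) (nat_lit 353) (nat_lit 291))) (XT.nd (nat_lit 78) (nat_lit 0) (nat_lit 0) (XT.lf (nat_lit 152) (nat_lit 846721385) (nat_lit 0) (nat_lit 683027974) (nat_lit 76) (nat_lit 683027974) (nat_lit 193) (nat_lit 1) (nat_lit 191) (nat_lit 1) (nat_lit 192) (nat_lit 1) (nat_lit 377) (nat_lit 353) (nat_lit 290)) (XT.lf (nat_lit 0) (nat_lit 85154104) (nat_lit 0) (nat_lit 2005686279) (nat_lit 152) (nat_lit 85154104) (nat_lit 191) (nat_lit 3) (nat_lit 191) (nat_lit 1) (nat_lit 193) (nat_lit 1) (nat_lit 378) (nat_lit 353) (nat_lit 289))))))))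
noncomputable def ec88 : XT := (XT.nd (nat_lit 1950) (nat_lit 1976) (nat_lit 0) (XT.nd (nat_lit 936) (nat_lit 988) (nat_lit 0) (XT.nd (nat_lit 468) (nat_lit 456) (nat_lit 0) (XT.nd (nat_lit 234) (nat_lit 228) (nat_lit 0) (XT.nd (nat_lit 78) (nat_lit 76) (nat_lit 0) (XT.lf (nat_lit 76) (nat_lit 824492969) (nat_lit 0) (nat_lit 490041605) (nat_lit 152) (nat_lit 824492969) (nat_lit 190) (nat_lit 1) (nat_lit 189) (nat_lit 1) (nat_lit 191) (nat_lit 1) (nat_lit 379) (nat_lit 353) (nat_lit 288)) (XT.nd (nat_lit 78) (nat_lit 0) (nat_lit 0) (XT.lf (nat_lit 152) (nat_lit 979331564) (nat_lit 0) (nat_lit 561928805) (nat_lit 76) (nat_lit 561928805) (nat_lit 190) (nat_lit 1) (nat_lit 188) (nat_lit 1) (nat_lit 189) (nat_lit 1) (nat_lit 380) (nat_lit 353) (nat_lit 287)) (XT.lf (nat_lit 0) (nat_lit 162755438) (nat_lit 0) (nat_lit 1742782011) (nat_lit 152) (nat_lit 162755438) (nat_lit 188) (nat_lit 3) (nat_lit 188)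 (nat_lit 1) (nat_lit 190) (nat_lit 1) (nat_lit 381) (nat_lit 353) (nat_lit 286)))) (XT.nd (nat_lit 78) (nat_lit 76) (nat_lit 0) (XT.lf (nat_lit 76) (nat_lit 859296062) (nat_lit 0) (nat_lit 314873731) (nat_lit 152) (nat_lit 859296062) (nat_lit 187) (nat_lit 1) (nat_lit 186) (nat_lit 1) (nat_lit 188) (nat_lit 1) (nat_lit 382) (nat_lit 353) (nat_lit 285)) (XT.nd (nat_lit 78) (nat_lit 0) (nat_lit 0) (XT.lf (nat_lit 152) (nat_lit 1074966868) (nat_lit 0) (nat_lit 462300218) (nat_lit 76) (nat_lit 462300218) (nat_lit 187) (nat_lit 1) (nat_lit 185) (nat_lit 1) (nat_lit 186) (nat_lit 1) (nat_lit 383) (nat_lit 353) (nat_lit 284)) (XT.lf (nat_lit 0) (nat_lit 222184012) (nat_lit 0) (nat_lit 1522075784) (nat_lit 152) (nat_lit 222184012) (nat_lit 185) (nat_lit 3) (nat_lit 185) (nat_lit 1) (nat_lit 187) (nat_lit 1) (nat_lit 384) (nat_lit 353) (nat_lit 283))))) (XT.nd (nat_lit 234) (nat_lit 228) (nat_lit 0) (XT.nd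 (nat_lit 78) (nat_lit 76) (nat_lit 0) (XT.lf (nat_lit 76) (nat_lit 879310384) (nat_lit 0) (nat_lit 174966721) (nat_lit 152) (nat_lit 879310384) (nat_lit 184) (nat_lit 1) (nat_lit 183) (nat_lit 1) (nat_lit 185) (nat_lit 1) (nat_lit 385) (nat_lit 353) (nat_lit 282)) (XT.nd (nat_lit 78) (nat_lit 0) (nat_lit 0) (XT.lf (nat_lit 152) (nat_lit 1140823966) (nat_lit 0) (nat_lit 380335534) (nat_lit 76) (nat_lit 380335534) (nat_lit 184) (nat_lit 1) (nat_lit 182) (nat_lit 1) (nat_lit 183) (nat_lit 1) (nat_lit 386) (nat_lit 353) (nat_lit 281)) (XT.lf (nat_lit 0) (nat_lit 266872013) (nat_lit 0) (nat_lit 1336296191) (nat_lit 152) (nat_lit 266872013) (nat_lit 182) (nat_lit 3) (nat_lit 182) (nat_lit 1) (nat_lit 184) (nat_lit 1) (nat_lit 387) (nat_lit 353) (nat_lit 280)))) (XT.nd (nat_lit 78) (nat_lit 76) (nat_lit 0) (XT.lf (nat_lit 76) (nat_lit 887568341) (nat_lit 0) (nat_lit 63868719) (nat_lit 152) (nat_lit 887568341)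 (nat_lit 181) (nat_lit 1) (nat_lit 180) (nat_lit 1) (nat_lit 182) (nat_lit 1) (nat_lit 388) (nat_lit 353) (nat_lit 279)) (XT.nd (nat_lit 78) (nat_lit 0) (nat_lit 0) (XT.lf (nat_lit 152) (nat_lit 1182793046) (nat_lit 0) (nat_lit 312902985) (nat_lit 76) (nat_lit 312902985) (nat_lit 181) (nat_lit 1) (nat_lit 179) (nat_lit 1) (nat_lit 180) (nat_lit 1) (nat_lit 389) (nat_lit 353) (nat_lit 278)) (XT.lf (nat_lit 0) (nat_lit 299633100) (nat_lit 0) (nat_lit 1179451018) (nat_lit 152) (nat_lit 299633100) (nat_lit 179) (nat_lit 3) (nat_lit 179) (nat_lit 1) (nat_lit 181) (nat_lit 1) (nat_lit 390) (nat_lit 353) (nat_lit 277)))))) (XT.nd (nat_lit 468) (nat_lit 532) (nat_lit 0) (XT.nd (nat_lit 234) (nat_lit 228) (nat_lit 0) (XT.nd (nat_lit 78) (nat_lit 152) (nat_lit 0) (XT.lf (nat_lit 76) (nat_lit 24502945) (nat_lit 0) (nat_lit 862424771) (nat_lit 76) (nat_lit 862424771) (nat_lit 179) (nat_lit 3) (nat_lit 178)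 (nat_lit 1) (nat_lit 179) (nat_lit 1) (nat_lit 391) (nat_lit 353) (nat_lit 276)) (XT.nd (nat_lit 78) (nat_lit 0) (nat_lit 0) (XT.lf (nat_lit 152) (nat_lit 1205690906) (nat_lit 0) (nat_lit 257426060) (nat_lit 76) (nat_lit 257426060) (nat_lit 178) (nat_lit 1) (nat_lit 176) (nat_lit 1) (nat_lit 177) (nat_lit 1) (nat_lit 392) (nat_lit 353) (nat_lit 275)) (XT.lf (nat_lit 0) (nat_lit 322772545) (nat_lit 0) (nat_lit 1046600923) (nat_lit 152) (nat_lit 322772545) (nat_lit 176) (nat_lit 3) (nat_lit 176) (nat_lit 1) (nat_lit 178) (nat_lit 1) (nat_lit 393) (nat_lit 353) (nat_lit 274)))) (XT.nd (nat_lit 78) (nat_lit 152) (nat_lit 0) (XT.lf (nat_lit 76) (nat_lit 95192227) (nat_lit 0) (nat_lit 784552587) (nat_lit 76) (nat_lit 784552587) (nat_lit 176) (nat_lit 3) (nat_lit 175) (nat_lit 1) (nat_lit 176) (nat_lit 1) (nat_lit 394) (nat_lit 353) (nat_lit 273)) (XT.nd (nat_lit 78) (nat_lit 0) (nat_lit 0) (XT.lf (nat_lit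 152) (nat_lit 1213452644) (nat_lit 0) (nat_lit 211785056) (nat_lit 76) (nat_lit 211785056) (nat_lit 175) (nat_lit 1) (nat_lit 173) (nat_lit 1) (nat_lit 174) (nat_lit 1) (nat_lit 395) (nat_lit 353) (nat_lit 272)) (XT.lf (nat_lit 0) (nat_lit 338177822) (nat_lit 0) (nat_lit 933673220) (nat_lit 152) (nat_lit 338177822) (nat_lit 173) (nat_lit 3) (nat_lit 173) (nat_lit 1) (nat_lit 175) (nat_lit 1) (nat_lit 396) (nat_lit 353) (nat_lit 271))))) (XT.nd (nat_lit 234) (nat_lit 304) (nat_lit 0) (XT.nd (nat_lit 78) (nat_lit 152) (nat_lit 0) (XT.lf (nat_lit 76) (nat_lit 149775446) (nat_lit 0) (nat_lit 716913920) (nat_lit 76) (nat_lit 716913920) (nat_lit 173) (nat_lit 3) (nat_lit 172) (nat_lit 1) (nat_lit 173) (nat_lit 1) (nat_lit 397) (nat_lit 353) (nat_lit 270)) (XT.nd (nat_lit 78) (nat_lit 0) (nat_lit 0) (XT.lf (nat_lit 152) (nat_lit 1209289304) (nat_lit 0) (nat_lit 174236090) (nat_lit 76) (nat_lit 174236090)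 (nat_lit 172) (nat_lit 1) (nat_lit 170) (nat_lit 1) (nat_lit 171) (nat_lit 1) (nat_lit 398) (nat_lit 353) (nat_lit 269)) (XT.lf (nat_lit 0) (nat_lit 347393111) (nat_lit 0) (nat_lit 837308649) (nat_lit 152) (nat_lit 347393111) (nat_lit 170) (nat_lit 3) (nat_lit 170) (nat_lit 1) (nat_lit 172) (nat_lit 1) (nat_lit 399) (nat_lit 353) (nat_lit 268)))) (XT.nd (nat_lit 156) (nat_lit 76) (nat_lit 0) (XT.nd (nat_lit 78) (nat_lit 152) (nat_lit 0) (XT.lf (nat_lit 76) (nat_lit 191278311) (nat_lit 0) (nat_lit 657864537) (nat_lit 76) (nat_lit 657864537) (nat_lit 170) (nat_lit 3) (nat_lit 169) (nat_lit 1) (nat_lit 170) (nat_lit 1) (nat_lit 400) (nat_lit 353) (nat_lit 267)) (XT.lf (nat_lit 152) (nat_lit 1195817504) (nat_lit 0) (nat_lit 143344462) (nat_lit 76) (nat_lit 143344462) (nat_lit 169) (nat_lit 1) (nat_lit 167) (nat_lit 1) (nat_lit 168) (nat_lit 1) (nat_lit 401) (nat_lit 353) (nat_lit 266))) (XT.nd (nat_lit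 78) (nat_lit 76) (nat_lit 0) (XT.lf (nat_lit 0) (nat_lit 351680583) (nat_lit 0) (nat_lit 754735308) (nat_lit 152) (nat_lit 351680583) (nat_lit 167) (nat_lit 3) (nat_lit 167) (nat_lit 1) (nat_lit 169) (nat_lit 1) (nat_lit 402) (nat_lit 353) (nat_lit 265)) (XT.lf (nat_lit 76) (nat_lit 222181979) (nat_lit 0) (nat_lit 606043622) (nat_lit 76) (nat_lit 606043622) (nat_lit 167) (nat_lit 3) (nat_lit 166) (nat_lit 1) (nat_lit 167) (nat_lit 1) (nat_lit 403) (nat_lit 353) (nat_lit 264))))))) (XT.nd (nat_lit 936) (nat_lit 1064) (nat_lit 0) (XT.nd (nat_lit 468) (nat_lit 456) (nat_lit 0) (XT.nd (nat_lit 234) (nat_lit 228) (nat_lit 0) (XT.nd (nat_lit 78) (nat_lit 76) (nat_lit 0) (XT.lf (nat_lit 152) (nat_lit 1175166021) (nat_lit 0) (nat_lit 117929844) (nat_lit 76) (nat_lit 117929844) (nat_lit 166) (nat_lit 1) (nat_lit 164) (nat_lit 1) (nat_lit 165) (nat_lit 1) (nat_lit 404) (nat_lit 353) (nat_lit 263)) (XT.nd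 (nat_lit 78) (nat_lit 76) (nat_lit 0) (XT.lf (nat_lit 0) (nat_lit 352070781) (nat_lit 0) (nat_lit 683664901) (nat_lit 152) (nat_lit 352070781) (nat_lit 164) (nat_lit 3) (nat_lit 164) (nat_lit 1) (nat_lit 166) (nat_lit 1) (nat_lit 405) (nat_lit 353) (nat_lit 262)) (XT.lf (nat_lit 76) (nat_lit 244519987) (nat_lit 0) (nat_lit 560323910) (nat_lit 76) (nat_lit 560323910) (nat_lit 164) (nat_lit 3) (nat_lit 163) (nat_lit 1) (nat_lit 164) (nat_lit 1) (nat_lit 406) (nat_lit 353) (nat_lit 261)))) (XT.nd (nat_lit 78) (nat_lit 76) (nat_lit 0) (XT.lf (nat_lit 152) (nat_lit 1149063424) (nat_lit 0) (nat_lit 97021174) (nat_lit 76) (nat_lit 97021174) (nat_lit 163) (nat_lit 1) (nat_lit 161) (nat_lit 1) (nat_lit 162) (nat_lit 1) (nat_lit 407) (nat_lit 353) (nat_lit 260)) (XT.nd (nat_lit 78) (nat_lit 76) (nat_lit 0) (XT.lf (nat_lit 0) (nat_lit 349404070) (nat_lit 0) (nat_lit 622207373) (nat_lit 152) (nat_lit 349404070)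 (nat_lit 161) (nat_lit 3) (nat_lit 161) (nat_lit 1) (nat_lit 163) (nat_lit 1) (nat_lit 408) (nat_lit 353) (nat_lit 259)) (XT.lf (nat_lit 76) (nat_lit 259957982) (nat_lit 0) (nat_lit 519770651) (nat_lit 76) (nat_lit 519770651) (nat_lit 161) (nat_lit 3) (nat_lit 160) (nat_lit 1) (nat_lit 161) (nat_lit 1) (nat_lit 409) (nat_lit 353) (nat_lit 258))))) (XT.nd (nat_lit 234) (nat_lit 228) (nat_lit 0) (XT.nd (nat_lit 78) (nat_lit 76) (nat_lit 0) (XT.lf (nat_lit 152) (nat_lit 1118910112) (nat_lit 0) (nat_lit 79819560) (nat_lit 76) (nat_lit 79819560) (nat_lit 160) (nat_lit 1) (nat_lit 158) (nat_lit 1) (nat_lit 159) (nat_lit 1) (nat_lit 410) (nat_lit 353) (nat_lit 257)) (XT.nd (nat_lit 78) (nat_lit 76) (nat_lit 0) (XT.lf (nat_lit 0) (nat_lit 344364704) (nat_lit 0) (nat_lit 568800657) (nat_lit 152) (nat_lit 344364704) (nat_lit 158) (nat_lit 3) (nat_lit 158) (nat_lit 1) (nat_lit 160) (nat_lit 1) (nat_lit 411)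 (nat_lit 353) (nat_lit 256)) (XT.lf (nat_lit 76) (nat_lit 269859297) (nat_lit 0) (nat_lit 483607824) (nat_lit 76) (nat_lit 483607824) (nat_lit 158) (nat_lit 3) (nat_lit 157) (nat_lit 1) (nat_lit 158) (nat_lit 1) (nat_lit 412) (nat_lit 353) (nat_lit 255)))) (XT.nd (nat_lit 78) (nat_lit 76) (nat_lit 0) (XT.lf (nat_lit 152) (nat_lit 1085837538) (nat_lit 0) (nat_lit 65667750) (nat_lit 76) (nat_lit 65667750) (nat_lit 157) (nat_lit 1) (nat_lit 155) (nat_lit 1) (nat_lit 156) (nat_lit 1) (nat_lit 413) (nat_lit 353) (nat_lit 254)) (XT.nd (nat_lit 78) (nat_lit 76) (nat_lit 0) (XT.lf (nat_lit 0) (nat_lit 337508848) (nat_lit 0) (nat_lit 522152862) (nat_lit 152) (nat_lit 337508848) (nat_lit 155) (nat_lit 3) (nat_lit 155) (nat_lit 1) (nat_lit 157) (nat_lit 1) (nat_lit 414) (nat_lit 353) (nat_lit 253)) (XT.lf (nat_lit 76) (nat_lit 275338886) (nat_lit 0) (nat_lit 451190327) (nat_lit 76) (nat_lit 451190327) (nat_lit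 155) (nat_lit 3) (nat_lit 154) (nat_lit 1) (nat_lit 155) (nat_lit 1) (nat_lit 415) (nat_lit 353) (nat_lit 252)))))) (XT.nd (nat_lit 468) (nat_lit 608) (nat_lit 0) (XT.nd (nat_lit 234) (nat_lit 228) (nat_lit 0) (XT.nd (nat_lit 78) (nat_lit 76) (nat_lit 0) (XT.lf (nat_lit 152) (nat_lit 1050756867) (nat_lit 0) (nat_lit 54025020) (nat_lit 76) (nat_lit 54025020) (nat_lit 154) (nat_lit 1) (nat_lit 152) (nat_lit 1) (nat_lit 153) (nat_lit 1) (nat_lit 416) (nat_lit 353) (nat_lit 251)) (XT.nd (nat_lit 78) (nat_lit 76) (nat_lit 0) (XT.lf (nat_lit 0) (nat_lit 329287606) (nat_lit 0) (nat_lit 481194693) (nat_lit 152) (nat_lit 329287606) (nat_lit 152) (nat_lit 3) (nat_lit 152) (nat_lit 1) (nat_lit 154) (nat_lit 1) (nat_lit 417) (nat_lit 353) (nat_lit 250)) (XT.lf (nat_lit 76) (nat_lit 277307672) (nat_lit 0) (nat_lit 421981088) (nat_lit 76) (nat_lit 421981088) (nat_lit 152) (nat_lit 3) (nat_lit 151) (nat_lit 1)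 (nat_lit 152) (nat_lit 1) (nat_lit 418) (nat_lit 353) (nat_lit 249)))) (XT.nd (nat_lit 78) (nat_lit 76) (nat_lit 0) (XT.lf (nat_lit 152) (nat_lit 1014398977) (nat_lit 0) (nat_lit 44446518) (nat_lit 76) (nat_lit 44446518) (nat_lit 151) (nat_lit 1) (nat_lit 149) (nat_lit 1) (nat_lit 150) (nat_lit 1) (nat_lit 419) (nat_lit 353) (nat_lit 248)) (XT.nd (nat_lit 78) (nat_lit 76) (nat_lit 0) (XT.lf (nat_lit 0) (nat_lit 320065959) (nat_lit 0) (nat_lit 445040295) (nat_lit 152) (nat_lit 320065959) (nat_lit 149) (nat_lit 3) (nat_lit 149) (nat_lit 1) (nat_lit 151) (nat_lit 1) (nat_lit 420) (nat_lit 353) (nat_lit 247)) (XT.lf (nat_lit 76) (nat_lit 276509031) (nat_lit 0) (nat_lit 395532209) (nat_lit 76) (nat_lit 395532209) (nat_lit 149) (nat_lit 3) (nat_lit 148) (nat_lit 1) (nat_lit 149) (nat_lit 1) (nat_lit 421) (nat_lit 353) (nat_lit 246))))) (XT.nd (nat_lit 234) (nat_lit 380) (nat_lit 0) (XT.nd (nat_lit 78)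 (nat_lit 76) (nat_lit 0) (XT.lf (nat_lit 152) (nat_lit 977347312) (nat_lit 0) (nat_lit 36566260) (nat_lit 76) (nat_lit 36566260) (nat_lit 148) (nat_lit 1) (nat_lit 146) (nat_lit 1) (nat_lit 147) (nat_lit 1) (nat_lit 422) (nat_lit 353) (nat_lit 245)) (XT.nd (nat_lit 78) (nat_lit 76) (nat_lit 0) (XT.lf (nat_lit 0) (nat_lit 310138323) (nat_lit 0) (nat_lit 412955019) (nat_lit 152) (nat_lit 310138323) (nat_lit 146) (nat_lit 3) (nat_lit 146) (nat_lit 1) (nat_lit 148) (nat_lit 1) (nat_lit 423) (nat_lit 353) (nat_lit 244)) (XT.lf (nat_lit 76) (nat_lit 273548782) (nat_lit 0) (nat_lit 371469444) (nat_lit 76) (nat_lit 371469444) (nat_lit 146) (nat_lit 3) (nat_lit 145) (nat_lit 1) (nat_lit 146) (nat_lit 1) (nat_lit 424) (nat_lit 353) (nat_lit 243)))) (XT.nd (nat_lit 156) (nat_lit 228) (nat_lit 0) (XT.nd (nat_lit 78) (nat_lit 0) (nat_lit 0) (XT.lf (nat_lit 152) (nat_lit 940064875) (nat_lit 0) (nat_lit 30083152)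 (nat_lit 76) (nat_lit 30083152) (nat_lit 145) (nat_lit 1) (nat_lit 143) (nat_lit 1) (nat_lit 144) (nat_lit 1) (nat_lit 425) (nat_lit 353) (nat_lit 242)) (XT.lf (nat_lit 0) (nat_lit 299741344) (nat_lit 0) (nat_lit 384328894) (nat_lit 152) (nat_lit 299741344) (nat_lit 143) (nat_lit 3) (nat_lit 143) (nat_lit 1) (nat_lit 145) (nat_lit 1) (nat_lit 426) (nat_lit 353) (nat_lit 241))) (XT.nd (nat_lit 78) (nat_lit 152) (nat_lit 0) (XT.lf (nat_lit 76) (nat_lit 268919848) (nat_lit 0) (nat_lit 349479419) (nat_lit 76) (nat_lit 349479419) (nat_lit 143) (nat_lit 3) (nat_lit 142) (nat_lit 1) (nat_lit 143) (nat_lit 1) (nat_lit 427) (nat_lit 353) (nat_lit 240)) (XT.lf (nat_lit 152) (nat_lit 902916388) (nat_lit 0) (nat_lit 24749484) (nat_lit 76) (nat_lit 24749484) (nat_lit 142) (nat_lit 1) (nat_lit 140) (nat_lit 1) (nat_lit 141) (nat_lit 1) (nat_lit 428) (nat_lit 353) (nat_lit 239))))))))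
noncomputable def ec89 : XT := (XT.nd (nat_lit 44226) (nat_lit 0) (nat_lit 9348) (XT.nd (nat_lit 936) (nat_lit 684) (nat_lit 0) (XT.nd (nat_lit 468) (nat_lit 456) (nat_lit 0) (XT.nd (nat_lit 234) (nat_lit 228) (nat_lit 0) (XT.nd (nat_lit 78) (nat_lit 228) (nat_lit 0) (XT.lf (nat_lit 0) (nat_lit 289064401) (nat_lit 0) (nat_lit 358654787) (nat_lit 152) (nat_lit 289064401) (nat_lit 140) (nat_lit 3) (nat_lit 140) (nat_lit 1) (nat_lit 142) (nat_lit 1) (nat_lit 429) (nat_lit 353) (nat_lit 238)) (XT.nd (nat_lit 78) (nat_lit 152) (nat_lit 0) (XT.lf (nat_lit 76) (nat_lit 263022536) (nat_lit 0) (nat_lit 329299095) (nat_lit 76) (nat_lit 329299095) (nat_lit 140) (nat_lit 3) (nat_lit 139) (nat_lit 1) (nat_lit 140) (nat_lit 1) (nat_lit 430) (nat_lit 353) (nat_lit 237)) (XT.lf (nat_lit 152) (nat_lit 866186488) (nat_lit 0) (nat_lit 20361462) (nat_lit 76) (nat_lit 20361462) (nat_lit 139) (nat_lit 1) (nat_lit 137)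 (nat_lit 1) (nat_lit 138) (nat_lit 1) (nat_lit 431) (nat_lit 353) (nat_lit 236)))) (XT.nd (nat_lit 78) (nat_lit 228) (nat_lit 0) (XT.lf (nat_lit 0) (nat_lit 278258241) (nat_lit 0) (nat_lit 335510424) (nat_lit 152) (nat_lit 278258241) (nat_lit 137) (nat_lit 3) (nat_lit 137) (nat_lit 1) (nat_lit 139) (nat_lit 1) (nat_lit 432) (nat_lit 353) (nat_lit 235)) (XT.nd (nat_lit 78) (nat_lit 152) (nat_lit 0) (XT.lf (nat_lit 76) (nat_lit 256181208) (nat_lit 0) (nat_lit 310707097) (nat_lit 76) (nat_lit 310707097) (nat_lit 137) (nat_lit 3) (nat_lit 136) (nat_lit 1) (nat_lit 137) (nat_lit 1) (nat_lit 433) (nat_lit 353) (nat_lit 234)) (XT.lf (nat_lit 152) (nat_lit 830094664) (nat_lit 0) (nat_lit 16751425) (nat_lit 76) (nat_lit 16751425) (nat_lit 136) (nat_lit 1) (nat_lit 134) (nat_lit 1) (nat_lit 135) (nat_lit 1) (nat_lit 434) (nat_lit 353) (nat_lit 233))))) (XT.nd (nat_lit 234) (nat_lit 228) (nat_lit 0) (XT.nd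 (nat_lit 78) (nat_lit 228) (nat_lit 0) (XT.lf (nat_lit 0) (nat_lit 267442070) (nat_lit 0) (nat_lit 314543583) (nat_lit 152) (nat_lit 267442070) (nat_lit 134) (nat_lit 3) (nat_lit 134) (nat_lit 1) (nat_lit 136) (nat_lit 1) (nat_lit 435) (nat_lit 353) (nat_lit 232)) (XT.nd (nat_lit 78) (nat_lit 152) (nat_lit 0) (XT.lf (nat_lit 76) (nat_lit 248657977) (nat_lit 0) (nat_lit 293516561) (nat_lit 76) (nat_lit 293516561) (nat_lit 134) (nat_lit 3) (nat_lit 133) (nat_lit 1) (nat_lit 134) (nat_lit 1) (nat_lit 436) (nat_lit 353) (nat_lit 231)) (XT.lf (nat_lit 152) (nat_lit 794807502) (nat_lit 0) (nat_lit 13781438) (nat_lit 76) (nat_lit 13781438) (nat_lit 133) (nat_lit 1) (nat_lit 131) (nat_lit 1) (nat_lit 132) (nat_lit 1) (nat_lit 437) (nat_lit 353) (nat_lit 230)))) (XT.nd (nat_lit 78) (nat_lit 228) (nat_lit 0) (XT.lf (nat_lit 0) (nat_lit 256709373) (nat_lit 0) (nat_lit 295459905) (nat_lit 152) (nat_lit 256709373)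 (nat_lit 131) (nat_lit 3) (nat_lit 131) (nat_lit 1) (nat_lit 133) (nat_lit 1) (nat_lit 438) (nat_lit 353) (nat_lit 229)) (XT.nd (nat_lit 78) (nat_lit 152) (nat_lit 0) (XT.lf (nat_lit 76) (nat_lit 240663974) (nat_lit 0) (nat_lit 277569242) (nat_lit 76) (nat_lit 277569242) (nat_lit 131) (nat_lit 3) (nat_lit 130) (nat_lit 1) (nat_lit 131) (nat_lit 1) (nat_lit 439) (nat_lit 353) (nat_lit 228)) (XT.lf (nat_lit 152) (nat_lit 760448735) (nat_lit 0) (nat_lit 11338023) (nat_lit 76) (nat_lit 11338023) (nat_lit 130) (nat_lit 1) (nat_lit 128) (nat_lit 1) (nat_lit 129) (nat_lit 1) (nat_lit 440) (nat_lit 353) (nat_lit 227)))))) (XT.nd (nat_lit 468) (nat_lit 228) (nat_lit 0) (XT.nd (nat_lit 234) (nat_lit 228) (nat_lit 0) (XT.nd (nat_lit 78) (nat_lit 228) (nat_lit 0) (XT.lf (nat_lit 0) (nat_lit 246132695) (nat_lit 0) (nat_lit 278012853) (nat_lit 152) (nat_lit 246132695) (nat_lit 128) (nat_lit 3) (nat_lit 128)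 (nat_lit 1) (nat_lit 130) (nat_lit 1) (nat_lit 441) (nat_lit 353) (nat_lit 226)) (XT.nd (nat_lit 78) (nat_lit 152) (nat_lit 0) (XT.lf (nat_lit 76) (nat_lit 232368601) (nat_lit 0) (nat_lit 262730656) (nat_lit 76) (nat_lit 262730656) (nat_lit 128) (nat_lit 3) (nat_lit 127) (nat_lit 1) (nat_lit 128) (nat_lit 1) (nat_lit 442) (nat_lit 353) (nat_lit 225)) (XT.lf (nat_lit 152) (nat_lit 727107472) (nat_lit 0) (nat_lit 9327820) (nat_lit 76) (nat_lit 9327820) (nat_lit 127) (nat_lit 1) (nat_lit 125) (nat_lit 1) (nat_lit 126) (nat_lit 1) (nat_lit 443) (nat_lit 353) (nat_lit 224)))) (XT.nd (nat_lit 78) (nat_lit 228) (nat_lit 0) (XT.lf (nat_lit 0) (nat_lit 235767556) (nat_lit 0) (nat_lit 261995441) (nat_lit 152) (nat_lit 235767556) (nat_lit 125) (nat_lit 3) (nat_lit 125) (nat_lit 1) (nat_lit 127) (nat_lit 1) (nat_lit 444) (nat_lit 353) (nat_lit 223)) (XT.nd (nat_lit 78) (nat_lit 152) (nat_lit 0) (XT.lf (nat_lit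 76) (nat_lit 223907131) (nat_lit 0) (nat_lit 248886069) (nat_lit 76) (nat_lit 248886069) (nat_lit 125) (nat_lit 3) (nat_lit 124) (nat_lit 1) (nat_lit 125) (nat_lit 1) (nat_lit 445) (nat_lit 353) (nat_lit 222)) (XT.lf (nat_lit 152) (nat_lit 694844941) (nat_lit 0) (nat_lit 7674020) (nat_lit 76) (nat_lit 7674020) (nat_lit 124) (nat_lit 1) (nat_lit 122) (nat_lit 1) (nat_lit 123) (nat_lit 1) (nat_lit 446) (nat_lit 353) (nat_lit 221))))) (XT.nd (nat_lit 234) (nat_lit 0) (nat_lit 0) (XT.nd (nat_lit 78) (nat_lit 228) (nat_lit 0) (XT.lf (nat_lit 0) (nat_lit 225655674) (nat_lit 0) (nat_lit 247233420) (nat_lit 152) (nat_lit 225655674) (nat_lit 122) (nat_lit 3) (nat_lit 122) (nat_lit 1) (nat_lit 124) (nat_lit 1) (nat_lit 447) (nat_lit 353) (nat_lit 220)) (XT.nd (nat_lit 78) (nat_lit 152) (nat_lit 0) (XT.lf (nat_lit 76) (nat_lit 215386959) (nat_lit 0) (nat_lit 235937193) (nat_lit 76) (nat_lit 235937193) (nat_lit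 122) (nat_lit 3) (nat_lit 121) (nat_lit 1) (nat_lit 122) (nat_lit 1) (nat_lit 448) (nat_lit 353) (nat_lit 219)) (XT.lf (nat_lit 152) (nat_lit 663700009) (nat_lit 0) (nat_lit 6313435) (nat_lit 76) (nat_lit 6313435) (nat_lit 121) (nat_lit 1) (nat_lit 119) (nat_lit 1) (nat_lit 120) (nat_lit 1) (nat_lit 449) (nat_lit 353) (nat_lit 218)))) (XT.nd (nat_lit 42432) (nat_lit 0) (nat_lit 13148) (XT.nd (nat_lit 42354) (nat_lit 0) (nat_lit 13148) (XT.lf (nat_lit 0) (nat_lit 215827598) (nat_lit 0) (nat_lit 233579663) (nat_lit 152) (nat_lit 215827598) (nat_lit 119) (nat_lit 3) (nat_lit 119) (nat_lit 1) (nat_lit 121) (nat_lit 1) (nat_lit 450) (nat_lit 353) (nat_lit 217)) (XT.lf (nat_lit 836) (nat_lit 1063897690) (nat_lit 0) (nat_lit 1888947903) (nat_lit 836) (nat_lit 1063897690) (nat_lit 303) (nat_lit 1) (nat_lit 292) (nat_lit 0) (nat_lit 303) (nat_lit 0) (nat_lit 312) (nat_lit 354) (nat_lit 354))) (XT.nd (nat_lit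 78) (nat_lit 0) (nat_lit 76) (XT.lf (nat_lit 836) (nat_lit 4123800269) (nat_lit 76) (nat_lit 1858481001) (nat_lit 0) (nat_lit 1858481001) (nat_lit 303) (nat_lit 1) (nat_lit 293) (nat_lit 1) (nat_lit 292) (nat_lit 0) (nat_lit 313) (nat_lit 354) (nat_lit 353)) (XT.lf (nat_lit 836) (nat_lit 1965341116) (nat_lit 0) (nat_lit 3723313888) (nat_lit 760) (nat_lit 1965341116) (nat_lit 304) (nat_lit 1) (nat_lit 293) (nat_lit 1) (nat_lit 303) (nat_lit 1) (nat_lit 314) (nat_lit 354) (nat_lit 352))))))) (XT.nd (nat_lit 1014) (nat_lit 2508) (nat_lit 0) (XT.nd (nat_lit 468) (nat_lit 1368) (nat_lit 0) (XT.nd (nat_lit 234) (nat_lit 0) (nat_lit 152) (XT.nd (nat_lit 78) (nat_lit 0) (nat_lit 76) (XT.lf (nat_lit 836) (nat_lit 3686706842) (nat_lit 76) (nat_lit 1893278532) (nat_lit 0) (nat_lit 1893278532) (nat_lit 304) (nat_lit 1) (nat_lit 294) (nat_lit 1) (nat_lit 293) (nat_lit 1) (nat_lit 315) (nat_lit 354) (nat_lit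 351)) (XT.nd (nat_lit 78) (nat_lit 0) (nat_lit 0) (XT.lf (nat_lit 836) (nat_lit 1696955756) (nat_lit 0) (nat_lit 3904348487) (nat_lit 760) (nat_lit 1696955756) (nat_lit 305) (nat_lit 1) (nat_lit 294) (nat_lit 1) (nat_lit 304) (nat_lit 1) (nat_lit 316) (nat_lit 354) (nat_lit 350)) (XT.lf (nat_lit 836) (nat_lit 3052085453) (nat_lit 76) (nat_lit 2038252712) (nat_lit 0) (nat_lit 2038252712) (nat_lit 305) (nat_lit 1) (nat_lit 295) (nat_lit 1) (nat_lit 294) (nat_lit 1) (nat_lit 317) (nat_lit 354) (nat_lit 349)))) (XT.nd (nat_lit 78) (nat_lit 0) (nat_lit 0) (XT.lf (nat_lit 836) (nat_lit 1338251319) (nat_lit 0) (nat_lit 4288116022) (nat_lit 760) (nat_lit 1338251319) (nat_lit 306) (nat_lit 1) (nat_lit 295) (nat_lit 1) (nat_lit 305) (nat_lit 1) (nat_lit 318) (nat_lit 354) (nat_lit 348)) (XT.nd (nat_lit 78) (nat_lit 0) (nat_lit 76) (XT.lf (nat_lit 836) (nat_lit 2249641557) (nat_lit 76) (nat_lit 2277759800)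 (nat_lit 0) (nat_lit 2277759800) (nat_lit 306) (nat_lit 1) (nat_lit 296) (nat_lit 1) (nat_lit 295) (nat_lit 1) (nat_lit 319) (nat_lit 354) (nat_lit 347)) (XT.lf (nat_lit 836) (nat_lit 903113912) (nat_lit 0) (nat_lit 4845312885) (nat_lit 760) (nat_lit 903113912) (nat_lit 307) (nat_lit 1) (nat_lit 296) (nat_lit 1) (nat_lit 306) (nat_lit 1) (nat_lit 320) (nat_lit 354) (nat_lit 346))))) (XT.nd (nat_lit 234) (nat_lit 912) (nat_lit 0) (XT.nd (nat_lit 78) (nat_lit 684) (nat_lit 0) (XT.lf (nat_lit 836) (nat_lit 1305778824) (nat_lit 76) (nat_lit 2597867629) (nat_lit 0) (nat_lit 2597867629) (nat_lit 307) (nat_lit 1) (nat_lit 297) (nat_lit 1) (nat_lit 296) (nat_lit 1) (nat_lit 321) (nat_lit 354) (nat_lit 345)) (XT.nd (nat_lit 78) (nat_lit 760) (nat_lit 0) (XT.lf (nat_lit 76) (nat_lit 403877259) (nat_lit 0) (nat_lit 5549857719) (nat_lit 760) (nat_lit 403877259) (nat_lit 298) (nat_lit 1) (nat_lit 297) (nat_lit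 1) (nat_lit 307) (nat_lit 1) (nat_lit 322) (nat_lit 354) (nat_lit 344)) (XT.lf (nat_lit 836) (nat_lit 243931820) (nat_lit 0) (nat_lit 2986184238) (nat_lit 760) (nat_lit 2986184238) (nat_lit 298) (nat_lit 1) (nat_lit 287) (nat_lit 1) (nat_lit 297) (nat_lit 1) (nat_lit 323) (nat_lit 354) (nat_lit 343)))) (XT.nd (nat_lit 156) (nat_lit 380) (nat_lit 0) (XT.nd (nat_lit 78) (nat_lit 0) (nat_lit 0) (XT.lf (nat_lit 532) (nat_lit 5788809309) (nat_lit 0) (nat_lit 146125036) (nat_lit 456) (nat_lit 146125036) (nat_lit 287) (nat_lit 1) (nat_lit 280) (nat_lit 1) (nat_lit 286) (nat_lit 1) (nat_lit 324) (nat_lit 354) (nat_lit 342)) (XT.lf (nat_lit 76) (nat_lit 2530857355) (nat_lit 0) (nat_lit 885843470) (nat_lit 532) (nat_lit 2530857355) (nat_lit 281) (nat_lit 1) (nat_lit 280) (nat_lit 1) (nat_lit 287) (nat_lit 1) (nat_lit 325) (nat_lit 354) (nat_lit 341))) (XT.nd (nat_lit 78) (nat_lit 0) (nat_lit 0) (XT.lf (nat_lit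 456) (nat_lit 4354955865) (nat_lit 0) (nat_lit 732388970) (nat_lit 380) (nat_lit 732388970) (nat_lit 281) (nat_lit 1) (nat_lit 275) (nat_lit 1) (nat_lit 280) (nat_lit 1) (nat_lit 326) (nat_lit 354) (nat_lit 340)) (XT.lf (nat_lit 76) (nat_lit 1805229742) (nat_lit 0) (nat_lit 2084137170) (nat_lit 456) (nat_lit 1805229742) (nat_lit 276) (nat_lit 1) (nat_lit 275) (nat_lit 1) (nat_lit 281) (nat_lit 1) (nat_lit 327) (nat_lit 354) (nat_lit 339)))))) (XT.nd (nat_lit 468) (nat_lit 1140) (nat_lit 0) (XT.nd (nat_lit 234) (nat_lit 684) (nat_lit 0) (XT.nd (nat_lit 78) (nat_lit 304) (nat_lit 0) (XT.lf (nat_lit 456) (nat_lit 2867800196) (nat_lit 0) (nat_lit 1353008748) (nat_lit 380) (nat_lit 1353008748) (nat_lit 276) (nat_lit 1) (nat_lit 270) (nat_lit 1) (nat_lit 275) (nat_lit 1) (nat_lit 328) (nat_lit 354) (nat_lit 338)) (XT.nd (nat_lit 78) (nat_lit 304) (nat_lit 0) (XT.lf (nat_lit 76) (nat_lit 1056746259) (nat_lit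 0) (nat_lit 3343058874) (nat_lit 456) (nat_lit 1056746259) (nat_lit 271) (nat_lit 1) (nat_lit 270) (nat_lit 1) (nat_lit 276) (nat_lit 1) (nat_lit 329) (nat_lit 354) (nat_lit 337)) (XT.lf (nat_lit 380) (nat_lit 1341183949) (nat_lit 0) (nat_lit 2000558809) (nat_lit 304) (nat_lit 2000558809) (nat_lit 271) (nat_lit 1) (nat_lit 266) (nat_lit 1) (nat_lit 270) (nat_lit 1) (nat_lit 330) (nat_lit 354) (nat_lit 336)))) (XT.nd (nat_lit 78) (nat_lit 684) (nat_lit 0) (XT.lf (nat_lit 76) (nat_lit 291832678) (nat_lit 0) (nat_lit 4648779872) (nat_lit 380) (nat_lit 291832678) (nat_lit 267) (nat_lit 1) (nat_lit 266) (nat_lit 1) (nat_lit 271) (nat_lit 1) (nat_lit 331) (nat_lit 354) (nat_lit 335)) (XT.nd (nat_lit 78) (nat_lit 304) (nat_lit 0) (XT.lf (nat_lit 76) (nat_lit 2459066004) (nat_lit 0) (nat_lit 205951554) (nat_lit 380) (nat_lit 2459066004) (nat_lit 262) (nat_lit 1) (nat_lit 261) (nat_lit 1) (nat_lit 266)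 (nat_lit 1) (nat_lit 332) (nat_lit 354) (nat_lit 334)) (XT.lf (nat_lit 380) (nat_lit 4067682969) (nat_lit 0) (nat_lit 476082802) (nat_lit 304) (nat_lit 476082802) (nat_lit 262) (nat_lit 1) (nat_lit 257) (nat_lit 1) (nat_lit 261) (nat_lit 1) (nat_lit 333) (nat_lit 354) (nat_lit 333))))) (XT.nd (nat_lit 234) (nat_lit 836) (nat_lit 0) (XT.nd (nat_lit 78) (nat_lit 304) (nat_lit 0) (XT.lf (nat_lit 76) (nat_lit 1595524088) (nat_lit 0) (nat_lit 1726353583) (nat_lit 380) (nat_lit 1595524088) (nat_lit 258) (nat_lit 1) (nat_lit 257) (nat_lit 1) (nat_lit 262) (nat_lit 1) (nat_lit 334) (nat_lit 354) (nat_lit 332)) (XT.nd (nat_lit 78) (nat_lit 0) (nat_lit 0) (XT.lf (nat_lit 380) (nat_lit 2328313485) (nat_lit 0) (nat_lit 1245096978) (nat_lit 304) (nat_lit 1245096978) (nat_lit 258) (nat_lit 1) (nat_lit 253) (nat_lit 1) (nat_lit 257) (nat_lit 1) (nat_lit 335) (nat_lit 354) (nat_lit 331)) (XT.lf (nat_lit 76) (nat_lit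 734246162) (nat_lit 0) (nat_lit 3254012476) (nat_lit 380) (nat_lit 734246162) (nat_lit 254) (nat_lit 1) (nat_lit 253) (nat_lit 1) (nat_lit 258) (nat_lit 1) (nat_lit 336) (nat_lit 354) (nat_lit 330)))) (XT.nd (nat_lit 156) (nat_lit 228) (nat_lit 0) (XT.nd (nat_lit 78) (nat_lit 380) (nat_lit 0) (XT.lf (nat_lit 304) (nat_lit 597130956) (nat_lit 0) (nat_lit 2015721758) (nat_lit 228) (nat_lit 2015721758) (nat_lit 254) (nat_lit 1) (nat_lit 250) (nat_lit 1) (nat_lit 253) (nat_lit 1) (nat_lit 337) (nat_lit 354) (nat_lit 329)) (XT.lf (nat_lit 380) (nat_lit 4299654682) (nat_lit 0) (nat_lit 119307167) (nat_lit 304) (nat_lit 119307167) (nat_lit 250) (nat_lit 1) (nat_lit 245) (nat_lit 1) (nat_lit 249) (nat_lit 1) (nat_lit 338) (nat_lit 354) (nat_lit 328))) (XT.nd (nat_lit 78) (nat_lit 228) (nat_lit 0) (XT.lf (nat_lit 76) (nat_lit 1682486663) (nat_lit 0) (nat_lit 1083490062) (nat_lit 380) (nat_lit 1682486663)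 (nat_lit 246) (nat_lit 1) (nat_lit 245) (nat_lit 1) (nat_lit 250) (nat_lit 1) (nat_lit 339) (nat_lit 354) (nat_lit 327)) (XT.lf (nat_lit 304) (nat_lit 2457324963) (nat_lit 0) (nat_lit 952388542) (nat_lit 228) (nat_lit 952388542) (nat_lit 246) (nat_lit 1) (nat_lit 242) (nat_lit 1) (nat_lit 245) (nat_lit 1) (nat_lit 340) (nat_lit 354) (nat_lit 326))))))))
noncomputable def ec90 : XT := (XT.nd (nat_lit 1950) (nat_lit 2128) (nat_lit 0) (XT.nd (nat_lit 936) (nat_lit 1292) (nat_lit 0) (XT.nd (nat_lit 468) (nat_lit 836) (nat_lit 0) (XT.nd (nat_lit 234) (nat_lit 228) (nat_lit 0) (XT.nd (nat_lit 78) (nat_lit 532) (nat_lit 0) (XT.lf (nat_lit 76) (nat_lit 776306966) (nat_lit 0) (nat_lit 2725320930) (nat_lit 304) (nat_lit 776306966) (nat_lit 243) (nat_lit 1) (nat_lit 242) (nat_lit 1) (nat_lit 246) (nat_lit 1) (nat_lit 341) (nat_lit 354) (nat_lit 325)) (XT.nd (nat_lit 78) (nat_lit 304) (nat_lit 0) (XT.lf (nat_lit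 304) (nat_lit 647027592) (nat_lit 0) (nat_lit 1774327434) (nat_lit 228) (nat_lit 1774327434) (nat_lit 243) (nat_lit 1) (nat_lit 239) (nat_lit 1) (nat_lit 242) (nat_lit 1) (nat_lit 342) (nat_lit 354) (nat_lit 324)) (XT.lf (nat_lit 304) (nat_lit 3894089088) (nat_lit 0) (nat_lit 111198375) (nat_lit 228) (nat_lit 111198375) (nat_lit 239) (nat_lit 1) (nat_lit 235) (nat_lit 1) (nat_lit 238) (nat_lit 1) (nat_lit 343) (nat_lit 354) (nat_lit 323)))) (XT.nd (nat_lit 78) (nat_lit 228) (nat_lit 0) (XT.lf (nat_lit 76) (nat_lit 1473022382) (nat_lit 0) (nat_lit 1091494794) (nat_lit 304) (nat_lit 1473022382) (nat_lit 236) (nat_lit 1) (nat_lit 235) (nat_lit 1) (nat_lit 239) (nat_lit 1) (nat_lit 344) (nat_lit 354) (nat_lit 322)) (XT.nd (nat_lit 78) (nat_lit 0) (nat_lit 0) (XT.lf (nat_lit 304) (nat_lit 2025540654) (nat_lit 0) (nat_lit 967986825) (nat_lit 228) (nat_lit 967986825) (nat_lit 236) (nat_lit 1) (nat_lit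 232) (nat_lit 1) (nat_lit 235) (nat_lit 1) (nat_lit 345) (nat_lit 354) (nat_lit 321)) (XT.lf (nat_lit 76) (nat_lit 557832244) (nat_lit 0) (nat_lit 2771863593) (nat_lit 304) (nat_lit 557832244) (nat_lit 233) (nat_lit 1) (nat_lit 232) (nat_lit 1) (nat_lit 236) (nat_lit 1) (nat_lit 346) (nat_lit 354) (nat_lit 320))))) (XT.nd (nat_lit 234) (nat_lit 380) (nat_lit 0) (XT.nd (nat_lit 78) (nat_lit 304) (nat_lit 0) (XT.lf (nat_lit 228) (nat_lit 204408281) (nat_lit 0) (nat_lit 1805263901) (nat_lit 152) (nat_lit 1805263901) (nat_lit 233) (nat_lit 1) (nat_lit 230) (nat_lit 1) (nat_lit 232) (nat_lit 1) (nat_lit 347) (nat_lit 354) (nat_lit 319)) (XT.nd (nat_lit 78) (nat_lit 0) (nat_lit 0) (XT.lf (nat_lit 304) (nat_lit 3088540597) (nat_lit 0) (nat_lit 328025398) (nat_lit 228) (nat_lit 328025398) (nat_lit 230) (nat_lit 1) (nat_lit 226) (nat_lit 1) (nat_lit 229) (nat_lit 1) (nat_lit 348) (nat_lit 354) (nat_lit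 318)) (XT.lf (nat_lit 76) (nat_lit 1078753917) (nat_lit 0) (nat_lit 1517525605) (nat_lit 304) (nat_lit 1078753917) (nat_lit 227) (nat_lit 1) (nat_lit 226) (nat_lit 1) (nat_lit 230) (nat_lit 1) (nat_lit 349) (nat_lit 354) (nat_lit 317)))) (XT.nd (nat_lit 78) (nat_lit 228) (nat_lit 0) (XT.lf (nat_lit 228) (nat_lit 1246333746) (nat_lit 0) (nat_lit 1180644245) (nat_lit 152) (nat_lit 1180644245) (nat_lit 227) (nat_lit 1) (nat_lit 224) (nat_lit 1) (nat_lit 226) (nat_lit 1) (nat_lit 350) (nat_lit 354) (nat_lit 316)) (XT.nd (nat_lit 78) (nat_lit 228) (nat_lit 0) (XT.lf (nat_lit 76) (nat_lit 179058600) (nat_lit 0) (nat_lit 3184330952) (nat_lit 228) (nat_lit 179058600) (nat_lit 225) (nat_lit 1) (nat_lit 224) (nat_lit 1) (nat_lit 227) (nat_lit 1) (nat_lit 351) (nat_lit 354) (nat_lit 315)) (XT.lf (nat_lit 76) (nat_lit 1477802041) (nat_lit 0) (nat_lit 521906898) (nat_lit 228) (nat_lit 1477802041) (nat_lit 222)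 (nat_lit 1) (nat_lit 221) (nat_lit 1) (nat_lit 224) (nat_lit 1) (nat_lit 352) (nat_lit 354) (nat_lit 314)))))) (XT.nd (nat_lit 468) (nat_lit 608) (nat_lit 0) (XT.nd (nat_lit 234) (nat_lit 380) (nat_lit 0) (XT.nd (nat_lit 78) (nat_lit 152) (nat_lit 0) (XT.lf (nat_lit 228) (nat_lit 2052187141) (nat_lit 0) (nat_lit 681270528) (nat_lit 152) (nat_lit 681270528) (nat_lit 222) (nat_lit 1) (nat_lit 219) (nat_lit 1) (nat_lit 221) (nat_lit 1) (nat_lit 353) (nat_lit 354) (nat_lit 313)) (XT.nd (nat_lit 78) (nat_lit 152) (nat_lit 0) (XT.lf (nat_lit 76) (nat_lit 579073821) (nat_lit 0) (nat_lit 2195185412) (nat_lit 228) (nat_lit 579073821) (nat_lit 220) (nat_lit 1) (nat_lit 219) (nat_lit 1) (nat_lit 222) (nat_lit 1) (nat_lit 354) (nat_lit 354) (nat_lit 312)) (XT.lf (nat_lit 228) (nat_lit 271275236) (nat_lit 0) (nat_lit 1510950120) (nat_lit 152) (nat_lit 1510950120) (nat_lit 220) (nat_lit 1) (nat_lit 217) (nat_lit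 1) (nat_lit 219) (nat_lit 1) (nat_lit 355) (nat_lit 354) (nat_lit 311)))) (XT.nd (nat_lit 78) (nat_lit 152) (nat_lit 0) (XT.lf (nat_lit 228) (nat_lit 2666268281) (nat_lit 0) (nat_lit 284246365) (nat_lit 152) (nat_lit 284246365) (nat_lit 217) (nat_lit 1) (nat_lit 214) (nat_lit 1) (nat_lit 216) (nat_lit 1) (nat_lit 356) (nat_lit 354) (nat_lit 310)) (XT.nd (nat_lit 78) (nat_lit 152) (nat_lit 0) (XT.lf (nat_lit 76) (nat_lit 887607244) (nat_lit 0) (nat_lit 1401630620) (nat_lit 228) (nat_lit 887607244) (nat_lit 215) (nat_lit 1) (nat_lit 214) (nat_lit 1) (nat_lit 217) (nat_lit 1) (nat_lit 357) (nat_lit 354) (nat_lit 309)) (XT.lf (nat_lit 228) (nat_lit 903984884) (nat_lit 0) (nat_lit 1108312850) (nat_lit 152) (nat_lit 1108312850) (nat_lit 215) (nat_lit 1) (nat_lit 212) (nat_lit 1) (nat_lit 214) (nat_lit 1) (nat_lit 358) (nat_lit 354) (nat_lit 308))))) (XT.nd (nat_lit 234) (nat_lit 304) (nat_lit 0) (XT.nd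 (nat_lit 78) (nat_lit 304) (nat_lit 0) (XT.lf (nat_lit 76) (nat_lit 29711490) (nat_lit 0) (nat_lit 3006925228) (nat_lit 228) (nat_lit 29711490) (nat_lit 213) (nat_lit 1) (nat_lit 212) (nat_lit 1) (nat_lit 215) (nat_lit 1) (nat_lit 359) (nat_lit 354) (nat_lit 307)) (XT.nd (nat_lit 78) (nat_lit 152) (nat_lit 0) (XT.lf (nat_lit 76) (nat_lit 1121857418) (nat_lit 0) (nat_lit 768026074) (nat_lit 152) (nat_lit 1121857418) (nat_lit 211) (nat_lit 1) (nat_lit 210) (nat_lit 1) (nat_lit 212) (nat_lit 1) (nat_lit 360) (nat_lit 354) (nat_lit 306)) (XT.lf (nat_lit 228) (nat_lit 1392097341) (nat_lit 0) (nat_lit 783478816) (nat_lit 152) (nat_lit 783478816) (nat_lit 211) (nat_lit 1) (nat_lit 208) (nat_lit 1) (nat_lit 210) (nat_lit 1) (nat_lit 361) (nat_lit 354) (nat_lit 305)))) (XT.nd (nat_lit 156) (nat_lit 152) (nat_lit 0) (XT.nd (nat_lit 78) (nat_lit 152) (nat_lit 0) (XT.lf (nat_lit 76) (nat_lit 279105895) (nat_lit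 0) (nat_lit 2349579373) (nat_lit 228) (nat_lit 279105895) (nat_lit 209) (nat_lit 1) (nat_lit 208) (nat_lit 1) (nat_lit 211) (nat_lit 1) (nat_lit 362) (nat_lit 354) (nat_lit 304)) (XT.lf (nat_lit 76) (nat_lit 1295927009) (nat_lit 0) (nat_lit 265096089) (nat_lit 152) (nat_lit 1295927009) (nat_lit 207) (nat_lit 1) (nat_lit 206) (nat_lit 1) (nat_lit 208) (nat_lit 1) (nat_lit 363) (nat_lit 354) (nat_lit 303))) (XT.nd (nat_lit 78) (nat_lit 0) (nat_lit 0) (XT.lf (nat_lit 228) (nat_lit 1762793108) (nat_lit 0) (nat_lit 522348144) (nat_lit 152) (nat_lit 522348144) (nat_lit 207) (nat_lit 1) (nat_lit 204) (nat_lit 1) (nat_lit 206) (nat_lit 1) (nat_lit 364) (nat_lit 354) (nat_lit 302)) (XT.lf (nat_lit 76) (nat_lit 472156520) (nat_lit 0) (nat_lit 1814694809) (nat_lit 228) (nat_lit 472156520) (nat_lit 205) (nat_lit 1) (nat_lit 204) (nat_lit 1) (nat_lit 207) (nat_lit 1) (nat_lit 365) (nat_lit 354) (nat_lit 301)))))))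 (XT.nd (nat_lit 936) (nat_lit 988) (nat_lit 0) (XT.nd (nat_lit 468) (nat_lit 532) (nat_lit 0) (XT.nd (nat_lit 234) (nat_lit 304) (nat_lit 0) (XT.nd (nat_lit 78) (nat_lit 228) (nat_lit 0) (XT.lf (nat_lit 152) (nat_lit 135538942) (nat_lit 0) (nat_lit 1287951115) (nat_lit 76) (nat_lit 1287951115) (nat_lit 205) (nat_lit 1) (nat_lit 203) (nat_lit 1) (nat_lit 204) (nat_lit 1) (nat_lit 366) (nat_lit 354) (nat_lit 300)) (XT.nd (nat_lit 78) (nat_lit 0) (nat_lit 0) (XT.lf (nat_lit 228) (nat_lit 2038360138) (nat_lit 0) (nat_lit 313335380) (nat_lit 152) (nat_lit 313335380) (nat_lit 203) (nat_lit 1) (nat_lit 200) (nat_lit 1) (nat_lit 202) (nat_lit 1) (nat_lit 367) (nat_lit 354) (nat_lit 299)) (XT.lf (nat_lit 76) (nat_lit 619430441) (nat_lit 0) (nat_lit 1380277762) (nat_lit 228) (nat_lit 619430441) (nat_lit 201) (nat_lit 1) (nat_lit 200) (nat_lit 1) (nat_lit 203) (nat_lit 1) (nat_lit 368) (nat_lit 354) (nat_lit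 298)))) (XT.nd (nat_lit 78) (nat_lit 228) (nat_lit 0) (XT.lf (nat_lit 152) (nat_lit 455170475) (nat_lit 0) (nat_lit 1059600569) (nat_lit 76) (nat_lit 1059600569) (nat_lit 201) (nat_lit 1) (nat_lit 199) (nat_lit 1) (nat_lit 200) (nat_lit 1) (nat_lit 369) (nat_lit 354) (nat_lit 297)) (XT.nd (nat_lit 78) (nat_lit 0) (nat_lit 0) (XT.lf (nat_lit 228) (nat_lit 2237064774) (nat_lit 0) (nat_lit 146923002) (nat_lit 152) (nat_lit 146923002) (nat_lit 199) (nat_lit 1) (nat_lit 196) (nat_lit 1) (nat_lit 198) (nat_lit 1) (nat_lit 370) (nat_lit 354) (nat_lit 296)) (XT.lf (nat_lit 76) (nat_lit 729593722) (nat_lit 0) (nat_lit 1028247313) (nat_lit 228) (nat_lit 729593722) (nat_lit 197) (nat_lit 1) (nat_lit 196) (nat_lit 1) (nat_lit 199) (nat_lit 1) (nat_lit 371) (nat_lit 354) (nat_lit 295))))) (XT.nd (nat_lit 234) (nat_lit 228) (nat_lit 0) (XT.nd (nat_lit 78) (nat_lit 228) (nat_lit 0) (XT.lf (nat_lit 152) (nat_lit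 701767259) (nat_lit 0) (nat_lit 871736011) (nat_lit 76) (nat_lit 871736011) (nat_lit 197) (nat_lit 1) (nat_lit 195) (nat_lit 1) (nat_lit 196) (nat_lit 1) (nat_lit 372) (nat_lit 354) (nat_lit 294)) (XT.nd (nat_lit 78) (nat_lit 0) (nat_lit 0) (XT.lf (nat_lit 228) (nat_lit 2373868101) (nat_lit 0) (nat_lit 15294116) (nat_lit 152) (nat_lit 15294116) (nat_lit 195) (nat_lit 1) (nat_lit 192) (nat_lit 1) (nat_lit 194) (nat_lit 1) (nat_lit 373) (nat_lit 354) (nat_lit 293)) (XT.lf (nat_lit 76) (nat_lit 809749766) (nat_lit 0) (nat_lit 743741021) (nat_lit 228) (nat_lit 809749766) (nat_lit 193) (nat_lit 1) (nat_lit 192) (nat_lit 1) (nat_lit 195) (nat_lit 1) (nat_lit 374) (nat_lit 354) (nat_lit 292)))) (XT.nd (nat_lit 78) (nat_lit 152) (nat_lit 0) (XT.lf (nat_lit 152) (nat_lit 889057454) (nat_lit 0) (nat_lit 717179373) (nat_lit 76) (nat_lit 717179373) (nat_lit 193) (nat_lit 1) (nat_lit 191) (nat_lit 1) (nat_lit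 192) (nat_lit 1) (nat_lit 375) (nat_lit 354) (nat_lit 291)) (XT.nd (nat_lit 78) (nat_lit 152) (nat_lit 0) (XT.lf (nat_lit 0) (nat_lit 89411809) (nat_lit 0) (nat_lit 2105970593) (nat_lit 152) (nat_lit 89411809) (nat_lit 191) (nat_lit 3) (nat_lit 191) (nat_lit 1) (nat_lit 193) (nat_lit 1) (nat_lit 376) (nat_lit 354) (nat_lit 290)) (XT.lf (nat_lit 76) (nat_lit 865717618) (nat_lit 0) (nat_lit 514543686) (nat_lit 152) (nat_lit 865717618) (nat_lit 190) (nat_lit 1) (nat_lit 189) (nat_lit 1) (nat_lit 191) (nat_lit 1) (nat_lit 377) (nat_lit 354) (nat_lit 289)))))) (XT.nd (nat_lit 468) (nat_lit 532) (nat_lit 0) (XT.nd (nat_lit 234) (nat_lit 228) (nat_lit 0) (XT.nd (nat_lit 78) (nat_lit 152) (nat_lit 0) (XT.lf (nat_lit 152) (nat_lit 1028298142) (nat_lit 0) (nat_lit 590025245) (nat_lit 76) (nat_lit 590025245) (nat_lit 190) (nat_lit 1) (nat_lit 188) (nat_lit 1) (nat_lit 189) (nat_lit 1) (nat_lit 378) (nat_lit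 354) (nat_lit 288)) (XT.nd (nat_lit 78) (nat_lit 152) (nat_lit 0) (XT.lf (nat_lit 0) (nat_lit 170893210) (nat_lit 0) (nat_lit 1829921111) (nat_lit 152) (nat_lit 170893210) (nat_lit 188) (nat_lit 3) (nat_lit 188) (nat_lit 1) (nat_lit 190) (nat_lit 1) (nat_lit 379) (nat_lit 354) (nat_lit 287)) (XT.lf (nat_lit 76) (nat_lit 902260866) (nat_lit 0) (nat_lit 330617417) (nat_lit 152) (nat_lit 902260866) (nat_lit 187) (nat_lit 1) (nat_lit 186) (nat_lit 1) (nat_lit 188) (nat_lit 1) (nat_lit 380) (nat_lit 354) (nat_lit 286)))) (XT.nd (nat_lit 78) (nat_lit 152) (nat_lit 0) (XT.lf (nat_lit 152) (nat_lit 1128715211) (nat_lit 0) (nat_lit 485415229) (nat_lit 76) (nat_lit 485415229) (nat_lit 187) (nat_lit 1) (nat_lit 185) (nat_lit 1) (nat_lit 186) (nat_lit 1) (nat_lit 381) (nat_lit 354) (nat_lit 285)) (XT.nd (nat_lit 78) (nat_lit 152) (nat_lit 0) (XT.lf (nat_lit 0) (nat_lit 233293213) (nat_lit 0) (nat_lit 1598179573)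 (nat_lit 152) (nat_lit 233293213) (nat_lit 185) (nat_lit 3) (nat_lit 185) (nat_lit 1) (nat_lit 187) (nat_lit 1) (nat_lit 382) (nat_lit 354) (nat_lit 284)) (XT.lf (nat_lit 76) (nat_lit 923275903) (nat_lit 0) (nat_lit 183715057) (nat_lit 152) (nat_lit 923275903) (nat_lit 184) (nat_lit 1) (nat_lit 183) (nat_lit 1) (nat_lit 185) (nat_lit 1) (nat_lit 383) (nat_lit 354) (nat_lit 283))))) (XT.nd (nat_lit 234) (nat_lit 304) (nat_lit 0) (XT.nd (nat_lit 78) (nat_lit 152) (nat_lit 0) (XT.lf (nat_lit 152) (nat_lit 1197865164) (nat_lit 0) (nat_lit 399352310) (nat_lit 76) (nat_lit 399352310) (nat_lit 184) (nat_lit 1) (nat_lit 182) (nat_lit 1) (nat_lit 183) (nat_lit 1) (nat_lit 384) (nat_lit 354) (nat_lit 282)) (XT.nd (nat_lit 78) (nat_lit 152) (nat_lit 0) (XT.lf (nat_lit 0) (nat_lit 280215614) (nat_lit 0) (nat_lit 1403111000) (nat_lit 152) (nat_lit 280215614) (nat_lit 182) (nat_lit 3) (nat_lit 182) (nat_lit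 1) (nat_lit 184) (nat_lit 1) (nat_lit 385) (nat_lit 354) (nat_lit 281)) (XT.lf (nat_lit 76) (nat_lit 931946758) (nat_lit 0) (nat_lit 67062155) (nat_lit 152) (nat_lit 931946758) (nat_lit 181) (nat_lit 1) (nat_lit 180) (nat_lit 1) (nat_lit 182) (nat_lit 1) (nat_lit 386) (nat_lit 354) (nat_lit 280)))) (XT.nd (nat_lit 156) (nat_lit 228) (nat_lit 0) (XT.nd (nat_lit 78) (nat_lit 0) (nat_lit 0) (XT.lf (nat_lit 152) (nat_lit 1241932699) (nat_lit 0) (nat_lit 328548134) (nat_lit 76) (nat_lit 328548134) (nat_lit 181) (nat_lit 1) (nat_lit 179) (nat_lit 1) (nat_lit 180) (nat_lit 1) (nat_lit 387) (nat_lit 354) (nat_lit 279)) (XT.lf (nat_lit 0) (nat_lit 314614755) (nat_lit 0) (nat_lit 1238423569) (nat_lit 152) (nat_lit 314614755) (nat_lit 179) (nat_lit 3) (nat_lit 179) (nat_lit 1) (nat_lit 181) (nat_lit 1) (nat_lit 388) (nat_lit 354) (nat_lit 278))) (XT.nd (nat_lit 78) (nat_lit 152) (nat_lit 0) (XT.lf (nat_lit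 76) (nat_lit 25728092) (nat_lit 0) (nat_lit 905546010) (nat_lit 76) (nat_lit 905546010) (nat_lit 179) (nat_lit 3) (nat_lit 178) (nat_lit 1) (nat_lit 179) (nat_lit 1) (nat_lit 389) (nat_lit 354) (nat_lit 277)) (XT.lf (nat_lit 152) (nat_lit 1265975451) (nat_lit 0) (nat_lit 270297363) (nat_lit 76) (nat_lit 270297363) (nat_lit 178) (nat_lit 1) (nat_lit 176) (nat_lit 1) (nat_lit 177) (nat_lit 1) (nat_lit 390) (nat_lit 354) (nat_lit 276))))))))
noncomputable def ec91 : XT := (XT.nd (nat_lit 1950) (nat_lit 2052) (nat_lit 0) (XT.nd (nat_lit 936) (nat_lit 912) (nat_lit 0) (XT.nd (nat_lit 468) (nat_lit 456) (nat_lit 0) (XT.nd (nat_lit 234) (nat_lit 228) (nat_lit 0) (XT.nd (nat_lit 78) (nat_lit 228) (nat_lit 0) (XT.lf (nat_lit 0) (nat_lit 338911173) (nat_lit 0) (nat_lit 1098930970) (nat_lit 152) (nat_lit 338911173) (nat_lit 176) (nat_lit 3) (nat_lit 176) (nat_lit 1) (nat_lit 178) (nat_lit 1) (nat_lit 391)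 (nat_lit 354) (nat_lit 275)) (XT.nd (nat_lit 78) (nat_lit 152) (nat_lit 0) (XT.lf (nat_lit 76) (nat_lit 99951838) (nat_lit 0) (nat_lit 823780216) (nat_lit 76) (nat_lit 823780216) (nat_lit 176) (nat_lit 3) (nat_lit 175) (nat_lit 1) (nat_lit 176) (nat_lit 1) (nat_lit 392) (nat_lit 354) (nat_lit 274)) (XT.lf (nat_lit 152) (nat_lit 1274125276) (nat_lit 0) (nat_lit 222374309) (nat_lit 76) (nat_lit 222374309) (nat_lit 175) (nat_lit 1) (nat_lit 173) (nat_lit 1) (nat_lit 174) (nat_lit 1) (nat_lit 393) (nat_lit 354) (nat_lit 273)))) (XT.nd (nat_lit 78) (nat_lit 228) (nat_lit 0) (XT.lf (nat_lit 0) (nat_lit 355086713) (nat_lit 0) (nat_lit 980356881) (nat_lit 152) (nat_lit 355086713) (nat_lit 173) (nat_lit 3) (nat_lit 173) (nat_lit 1) (nat_lit 175) (nat_lit 1) (nat_lit 394) (nat_lit 354) (nat_lit 272)) (XT.nd (nat_lit 78) (nat_lit 152) (nat_lit 0) (XT.lf (nat_lit 76) (nat_lit 157264218) (nat_lit 0) (nat_lit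 752759616) (nat_lit 76) (nat_lit 752759616) (nat_lit 173) (nat_lit 3) (nat_lit 172) (nat_lit 1) (nat_lit 173) (nat_lit 1) (nat_lit 395) (nat_lit 354) (nat_lit 271)) (XT.lf (nat_lit 152) (nat_lit 1269753769) (nat_lit 0) (nat_lit 182947894) (nat_lit 76) (nat_lit 182947894) (nat_lit 172) (nat_lit 1) (nat_lit 170) (nat_lit 1) (nat_lit 171) (nat_lit 1) (nat_lit 396) (nat_lit 354) (nat_lit 270))))) (XT.nd (nat_lit 234) (nat_lit 228) (nat_lit 0) (XT.nd (nat_lit 78) (nat_lit 228) (nat_lit 0) (XT.lf (nat_lit 0) (nat_lit 364762767) (nat_lit 0) (nat_lit 879174081) (nat_lit 152) (nat_lit 364762767) (nat_lit 170) (nat_lit 3) (nat_lit 170) (nat_lit 1) (nat_lit 172) (nat_lit 1) (nat_lit 397) (nat_lit 354) (nat_lit 269)) (XT.nd (nat_lit 78) (nat_lit 152) (nat_lit 0) (XT.lf (nat_lit 76) (nat_lit 200842226) (nat_lit 0) (nat_lit 690757764) (nat_lit 76) (nat_lit 690757764) (nat_lit 170) (nat_lit 3) (nat_lit 169) (nat_lit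 1) (nat_lit 170) (nat_lit 1) (nat_lit 398) (nat_lit 354) (nat_lit 268)) (XT.lf (nat_lit 152) (nat_lit 1255608380) (nat_lit 0) (nat_lit 150511685) (nat_lit 76) (nat_lit 150511685) (nat_lit 169) (nat_lit 1) (nat_lit 167) (nat_lit 1) (nat_lit 168) (nat_lit 1) (nat_lit 399) (nat_lit 354) (nat_lit 267)))) (XT.nd (nat_lit 78) (nat_lit 228) (nat_lit 0) (XT.lf (nat_lit 0) (nat_lit 369264612) (nat_lit 0) (nat_lit 792472073) (nat_lit 152) (nat_lit 369264612) (nat_lit 167) (nat_lit 3) (nat_lit 167) (nat_lit 1) (nat_lit 169) (nat_lit 1) (nat_lit 400) (nat_lit 354) (nat_lit 266)) (XT.nd (nat_lit 78) (nat_lit 152) (nat_lit 0) (XT.lf (nat_lit 76) (nat_lit 233291078) (nat_lit 0) (nat_lit 636345803) (nat_lit 76) (nat_lit 636345803) (nat_lit 167) (nat_lit 3) (nat_lit 166) (nat_lit 1) (nat_lit 167) (nat_lit 1) (nat_lit 401) (nat_lit 354) (nat_lit 265)) (XT.lf (nat_lit 152) (nat_lit 1233924322) (nat_lit 0) (nat_lit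 123826336) (nat_lit 76) (nat_lit 123826336) (nat_lit 166) (nat_lit 1) (nat_lit 164) (nat_lit 1) (nat_lit 165) (nat_lit 1) (nat_lit 402) (nat_lit 354) (nat_lit 264)))))) (XT.nd (nat_lit 468) (nat_lit 456) (nat_lit 0) (XT.nd (nat_lit 234) (nat_lit 228) (nat_lit 0) (XT.nd (nat_lit 78) (nat_lit 228) (nat_lit 0) (XT.lf (nat_lit 0) (nat_lit 369674320) (nat_lit 0) (nat_lit 717848146) (nat_lit 152) (nat_lit 369674320) (nat_lit 164) (nat_lit 3) (nat_lit 164) (nat_lit 1) (nat_lit 166) (nat_lit 1) (nat_lit 403) (nat_lit 354) (nat_lit 263)) (XT.nd (nat_lit 78) (nat_lit 152) (nat_lit 0) (XT.lf (nat_lit 76) (nat_lit 256745986) (nat_lit 0) (nat_lit 588340106) (nat_lit 76) (nat_lit 588340106) (nat_lit 164) (nat_lit 3) (nat_lit 163) (nat_lit 1) (nat_lit 164) (nat_lit 1) (nat_lit 404) (nat_lit 354) (nat_lit 262)) (XT.lf (nat_lit 152) (nat_lit 1206516595) (nat_lit 0) (nat_lit 101872233) (nat_lit 76) (nat_lit 101872233)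 (nat_lit 163) (nat_lit 1) (nat_lit 161) (nat_lit 1) (nat_lit 162) (nat_lit 1) (nat_lit 405) (nat_lit 354) (nat_lit 261)))) (XT.nd (nat_lit 78) (nat_lit 228) (nat_lit 0) (XT.lf (nat_lit 0) (nat_lit 366874273) (nat_lit 0) (nat_lit 653317742) (nat_lit 152) (nat_lit 366874273) (nat_lit 161) (nat_lit 3) (nat_lit 161) (nat_lit 1) (nat_lit 163) (nat_lit 1) (nat_lit 406) (nat_lit 354) (nat_lit 260)) (XT.nd (nat_lit 78) (nat_lit 152) (nat_lit 0) (XT.lf (nat_lit 76) (nat_lit 272955881) (nat_lit 0) (nat_lit 545759184) (nat_lit 76) (nat_lit 545759184) (nat_lit 161) (nat_lit 3) (nat_lit 160) (nat_lit 1) (nat_lit 161) (nat_lit 1) (nat_lit 407) (nat_lit 354) (nat_lit 259)) (XT.lf (nat_lit 152) (nat_lit 1174855618) (nat_lit 0) (nat_lit 83810538) (nat_lit 76) (nat_lit 83810538) (nat_lit 160) (nat_lit 1) (nat_lit 158) (nat_lit 1) (nat_lit 159) (nat_lit 1) (nat_lit 408) (nat_lit 354) (nat_lit 258))))) (XT.nd (nat_lit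 234) (nat_lit 228) (nat_lit 0) (XT.nd (nat_lit 78) (nat_lit 228) (nat_lit 0) (XT.lf (nat_lit 0) (nat_lit 361582940) (nat_lit 0) (nat_lit 597240690) (nat_lit 152) (nat_lit 361582940) (nat_lit 158) (nat_lit 3) (nat_lit 158) (nat_lit 1) (nat_lit 160) (nat_lit 1) (nat_lit 409) (nat_lit 354) (nat_lit 257)) (XT.nd (nat_lit 78) (nat_lit 152) (nat_lit 0) (XT.lf (nat_lit 76) (nat_lit 283352262) (nat_lit 0) (nat_lit 507788215) (nat_lit 76) (nat_lit 507788215) (nat_lit 158) (nat_lit 3) (nat_lit 157) (nat_lit 1) (nat_lit 158) (nat_lit 1) (nat_lit 410) (nat_lit 354) (nat_lit 256)) (XT.lf (nat_lit 152) (nat_lit 1140129414) (nat_lit 0) (nat_lit 68951137) (nat_lit 76) (nat_lit 68951137) (nat_lit 157) (nat_lit 1) (nat_lit 155) (nat_lit 1) (nat_lit 156) (nat_lit 1) (nat_lit 411) (nat_lit 354) (nat_lit 255)))) (XT.nd (nat_lit 156) (nat_lit 152) (nat_lit 0) (XT.nd (nat_lit 78) (nat_lit 76) (nat_lit 0) (XT.lf (nat_lit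 0) (nat_lit 354384291) (nat_lit 0) (nat_lit 548260505) (nat_lit 152) (nat_lit 354384291) (nat_lit 155) (nat_lit 3) (nat_lit 155) (nat_lit 1) (nat_lit 157) (nat_lit 1) (nat_lit 412) (nat_lit 354) (nat_lit 254)) (XT.lf (nat_lit 76) (nat_lit 289105830) (nat_lit 0) (nat_lit 473749844) (nat_lit 76) (nat_lit 473749844) (nat_lit 155) (nat_lit 3) (nat_lit 154) (nat_lit 1) (nat_lit 155) (nat_lit 1) (nat_lit 413) (nat_lit 354) (nat_lit 253))) (XT.nd (nat_lit 78) (nat_lit 0) (nat_lit 0) (XT.lf (nat_lit 152) (nat_lit 1103294710) (nat_lit 0) (nat_lit 56726271) (nat_lit 76) (nat_lit 56726271) (nat_lit 154) (nat_lit 1) (nat_lit 152) (nat_lit 1) (nat_lit 153) (nat_lit 1) (nat_lit 414) (nat_lit 354) (nat_lit 252)) (XT.lf (nat_lit 0) (nat_lit 345751987) (nat_lit 0) (nat_lit 505254428) (nat_lit 152) (nat_lit 345751987) (nat_lit 152) (nat_lit 3) (nat_lit 152) (nat_lit 1) (nat_lit 154) (nat_lit 1) (nat_lit 415) (nat_lit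 354) (nat_lit 251))))))) (XT.nd (nat_lit 1014) (nat_lit 1064) (nat_lit 0) (XT.nd (nat_lit 468) (nat_lit 532) (nat_lit 0) (XT.nd (nat_lit 234) (nat_lit 228) (nat_lit 0) (XT.nd (nat_lit 78) (nat_lit 152) (nat_lit 0) (XT.lf (nat_lit 76) (nat_lit 291173056) (nat_lit 0) (nat_lit 443080143) (nat_lit 76) (nat_lit 443080143) (nat_lit 152) (nat_lit 3) (nat_lit 151) (nat_lit 1) (nat_lit 152) (nat_lit 1) (nat_lit 416) (nat_lit 354) (nat_lit 250)) (XT.nd (nat_lit 78) (nat_lit 0) (nat_lit 0) (XT.lf (nat_lit 152) (nat_lit 1065118926) (nat_lit 0) (nat_lit 46668843) (nat_lit 76) (nat_lit 46668843) (nat_lit 151) (nat_lit 1) (nat_lit 149) (nat_lit 1) (nat_lit 150) (nat_lit 1) (nat_lit 417) (nat_lit 354) (nat_lit 249)) (XT.lf (nat_lit 0) (nat_lit 336069257) (nat_lit 0) (nat_lit 467292310) (nat_lit 152) (nat_lit 336069257) (nat_lit 149) (nat_lit 3) (nat_lit 149) (nat_lit 1) (nat_lit 151) (nat_lit 1) (nat_lit 418)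 (nat_lit 354) (nat_lit 248)))) (XT.nd (nat_lit 78) (nat_lit 152) (nat_lit 0) (XT.lf (nat_lit 76) (nat_lit 290334483) (nat_lit 0) (nat_lit 415308819) (nat_lit 76) (nat_lit 415308819) (nat_lit 149) (nat_lit 3) (nat_lit 148) (nat_lit 1) (nat_lit 149) (nat_lit 1) (nat_lit 419) (nat_lit 354) (nat_lit 247)) (XT.nd (nat_lit 78) (nat_lit 0) (nat_lit 0) (XT.lf (nat_lit 152) (nat_lit 1026214678) (nat_lit 0) (nat_lit 38394573) (nat_lit 76) (nat_lit 38394573) (nat_lit 148) (nat_lit 1) (nat_lit 146) (nat_lit 1) (nat_lit 147) (nat_lit 1) (nat_lit 420) (nat_lit 354) (nat_lit 246)) (XT.lf (nat_lit 0) (nat_lit 325645239) (nat_lit 0) (nat_lit 433602770) (nat_lit 152) (nat_lit 325645239) (nat_lit 146) (nat_lit 3) (nat_lit 146) (nat_lit 1) (nat_lit 148) (nat_lit 1) (nat_lit 421) (nat_lit 354) (nat_lit 245))))) (XT.nd (nat_lit 234) (nat_lit 304) (nat_lit 0) (XT.nd (nat_lit 78) (nat_lit 152) (nat_lit 0) (XT.lf (nat_lit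 76) (nat_lit 287226221) (nat_lit 0) (nat_lit 390042917) (nat_lit 76) (nat_lit 390042917) (nat_lit 146) (nat_lit 3) (nat_lit 145) (nat_lit 1) (nat_lit 146) (nat_lit 1) (nat_lit 422) (nat_lit 354) (nat_lit 244)) (XT.nd (nat_lit 78) (nat_lit 0) (nat_lit 0) (XT.lf (nat_lit 152) (nat_lit 987068119) (nat_lit 0) (nat_lit 31587310) (nat_lit 76) (nat_lit 31587310) (nat_lit 145) (nat_lit 1) (nat_lit 143) (nat_lit 1) (nat_lit 144) (nat_lit 1) (nat_lit 423) (nat_lit 354) (nat_lit 243)) (XT.lf (nat_lit 0) (nat_lit 314728411) (nat_lit 0) (nat_lit 403545339) (nat_lit 152) (nat_lit 314728411) (nat_lit 143) (nat_lit 3) (nat_lit 143) (nat_lit 1) (nat_lit 145) (nat_lit 1) (nat_lit 424) (nat_lit 354) (nat_lit 242)))) (XT.nd (nat_lit 156) (nat_lit 76) (nat_lit 0) (XT.nd (nat_lit 78) (nat_lit 152) (nat_lit 0) (XT.lf (nat_lit 76) (nat_lit 282365840) (nat_lit 0) (nat_lit 366953390) (nat_lit 76) (nat_lit 366953390) (nat_lit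 143) (nat_lit 3) (nat_lit 142) (nat_lit 1) (nat_lit 143) (nat_lit 1) (nat_lit 425) (nat_lit 354) (nat_lit 241)) (XT.lf (nat_lit 152) (nat_lit 948062207) (nat_lit 0) (nat_lit 25986958) (nat_lit 76) (nat_lit 25986958) (nat_lit 142) (nat_lit 1) (nat_lit 140) (nat_lit 1) (nat_lit 141) (nat_lit 1) (nat_lit 426) (nat_lit 354) (nat_lit 240))) (XT.nd (nat_lit 78) (nat_lit 76) (nat_lit 0) (XT.lf (nat_lit 0) (nat_lit 303517621) (nat_lit 0) (nat_lit 376587527) (nat_lit 152) (nat_lit 303517621) (nat_lit 140) (nat_lit 3) (nat_lit 140) (nat_lit 1) (nat_lit 142) (nat_lit 1) (nat_lit 427) (nat_lit 354) (nat_lit 239)) (XT.lf (nat_lit 76) (nat_lit 276173663) (nat_lit 0) (nat_lit 345764050) (nat_lit 76) (nat_lit 345764050) (nat_lit 140) (nat_lit 3) (nat_lit 139) (nat_lit 1) (nat_lit 140) (nat_lit 1) (nat_lit 428) (nat_lit 354) (nat_lit 238)))))) (XT.nd (nat_lit 468) (nat_lit 608) (nat_lit 0) (XT.nd (nat_lit 234)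 (nat_lit 228) (nat_lit 0) (XT.nd (nat_lit 78) (nat_lit 76) (nat_lit 0) (XT.lf (nat_lit 152) (nat_lit 909495812) (nat_lit 0) (nat_lit 21379535) (nat_lit 76) (nat_lit 21379535) (nat_lit 139) (nat_lit 1) (nat_lit 137) (nat_lit 1) (nat_lit 138) (nat_lit 1) (nat_lit 429) (nat_lit 354) (nat_lit 237)) (XT.nd (nat_lit 78) (nat_lit 76) (nat_lit 0) (XT.lf (nat_lit 0) (nat_lit 292171153) (nat_lit 0) (nat_lit 352285945) (nat_lit 152) (nat_lit 292171153) (nat_lit 137) (nat_lit 3) (nat_lit 137) (nat_lit 1) (nat_lit 139) (nat_lit 1) (nat_lit 430) (nat_lit 354) (nat_lit 236)) (XT.lf (nat_lit 76) (nat_lit 268990269) (nat_lit 0) (nat_lit 326242452) (nat_lit 76) (nat_lit 326242452) (nat_lit 137) (nat_lit 3) (nat_lit 136) (nat_lit 1) (nat_lit 137) (nat_lit 1) (nat_lit 431) (nat_lit 354) (nat_lit 235)))) (XT.nd (nat_lit 78) (nat_lit 76) (nat_lit 0) (XT.lf (nat_lit 152) (nat_lit 871599397) (nat_lit 0) (nat_lit 17588996)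 (nat_lit 76) (nat_lit 17588996) (nat_lit 136) (nat_lit 1) (nat_lit 134) (nat_lit 1) (nat_lit 135) (nat_lit 1) (nat_lit 432) (nat_lit 354) (nat_lit 234)) (XT.nd (nat_lit 78) (nat_lit 76) (nat_lit 0) (XT.lf (nat_lit 0) (nat_lit 280814173) (nat_lit 0) (nat_lit 330270762) (nat_lit 152) (nat_lit 280814173) (nat_lit 134) (nat_lit 3) (nat_lit 134) (nat_lit 1) (nat_lit 136) (nat_lit 1) (nat_lit 433) (nat_lit 354) (nat_lit 233)) (XT.lf (nat_lit 76) (nat_lit 261090876) (nat_lit 0) (nat_lit 308192389) (nat_lit 76) (nat_lit 308192389) (nat_lit 134) (nat_lit 3) (nat_lit 133) (nat_lit 1) (nat_lit 134) (nat_lit 1) (nat_lit 434) (nat_lit 354) (nat_lit 232))))) (XT.nd (nat_lit 234) (nat_lit 380) (nat_lit 0) (XT.nd (nat_lit 78) (nat_lit 76) (nat_lit 0) (XT.lf (nat_lit 152) (nat_lit 834547877) (nat_lit 0) (nat_lit 14470510) (nat_lit 76) (nat_lit 14470510) (nat_lit 133) (nat_lit 1) (nat_lit 131) (nat_lit 1) (nat_lit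 132) (nat_lit 1) (nat_lit 435) (nat_lit 354) (nat_lit 231)) (XT.nd (nat_lit 78) (nat_lit 76) (nat_lit 0) (XT.lf (nat_lit 0) (nat_lit 269544842) (nat_lit 0) (nat_lit 310232900) (nat_lit 152) (nat_lit 269544842) (nat_lit 131) (nat_lit 3) (nat_lit 131) (nat_lit 1) (nat_lit 133) (nat_lit 1) (nat_lit 436) (nat_lit 354) (nat_lit 230)) (XT.lf (nat_lit 76) (nat_lit 252697173) (nat_lit 0) (nat_lit 291447705) (nat_lit 76) (nat_lit 291447705) (nat_lit 131) (nat_lit 3) (nat_lit 130) (nat_lit 1) (nat_lit 131) (nat_lit 1) (nat_lit 437) (nat_lit 354) (nat_lit 229)))) (XT.nd (nat_lit 156) (nat_lit 228) (nat_lit 0) (XT.nd (nat_lit 78) (nat_lit 0) (nat_lit 0) (XT.lf (nat_lit 152) (nat_lit 798471172) (nat_lit 0) (nat_lit 11904925) (nat_lit 76) (nat_lit 11904925) (nat_lit 130) (nat_lit 1) (nat_lit 128) (nat_lit 1) (nat_lit 129) (nat_lit 1) (nat_lit 438) (nat_lit 354) (nat_lit 228)) (XT.lf (nat_lit 0) (nat_lit 258439329)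 (nat_lit 0) (nat_lit 291913495) (nat_lit 152) (nat_lit 258439329) (nat_lit 128) (nat_lit 3) (nat_lit 128) (nat_lit 1) (nat_lit 130) (nat_lit 1) (nat_lit 439) (nat_lit 354) (nat_lit 227))) (XT.nd (nat_lit 78) (nat_lit 152) (nat_lit 0) (XT.lf (nat_lit 76) (nat_lit 243987031) (nat_lit 0) (nat_lit 275867189) (nat_lit 76) (nat_lit 275867189) (nat_lit 128) (nat_lit 3) (nat_lit 127) (nat_lit 1) (nat_lit 128) (nat_lit 1) (nat_lit 440) (nat_lit 354) (nat_lit 226)) (XT.lf (nat_lit 152) (nat_lit 763462846) (nat_lit 0) (nat_lit 9794211) (nat_lit 76) (nat_lit 9794211) (nat_lit 127) (nat_lit 1) (nat_lit 125) (nat_lit 1) (nat_lit 126) (nat_lit 1) (nat_lit 441) (nat_lit 354) (nat_lit 225))))))))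
noncomputable def ec92 : XT := (XT.nd (nat_lit 44070) (nat_lit 0) (nat_lit 7980) (XT.nd (nat_lit 43056) (nat_lit 0) (nat_lit 12084) (XT.nd (nat_lit 468) (nat_lit 228) (nat_lit 0) (XT.nd (nat_lit 234) (nat_lit 228) (nat_lit 0) (XT.nd (nat_lit 78) (nat_lit 228) (nat_lit 0) (XT.lf (nat_lit 0) (nat_lit 247555933) (nat_lit 0) (nat_lit 275095213) (nat_lit 152) (nat_lit 247555933) (nat_lit 125) (nat_lit 3) (nat_lit 125) (nat_lit 1) (nat_lit 127) (nat_lit 1) (nat_lit 442) (nat_lit 354) (nat_lit 224)) (XT.nd (nat_lit 78) (nat_lit 152) (nat_lit 0) (XT.lf (nat_lit 76) (nat_lit 235102488) (nat_lit 0) (nat_lit 261330373) (nat_lit 76) (nat_lit 261330373) (nat_lit 125) (nat_lit 3) (nat_lit 124) (nat_lit 1) (nat_lit 125) (nat_lit 1) (nat_lit 443) (nat_lit 354) (nat_lit 223)) (XT.lf (nat_lit 152) (nat_lit 729587188) (nat_lit 0) (nat_lit 8057721) (nat_lit 76) (nat_lit 8057721) (nat_lit 124) (nat_lit 1) (nat_lit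 122) (nat_lit 1) (nat_lit 123) (nat_lit 1) (nat_lit 444) (nat_lit 354) (nat_lit 222)))) (XT.nd (nat_lit 78) (nat_lit 228) (nat_lit 0) (XT.lf (nat_lit 0) (nat_lit 236938458) (nat_lit 0) (nat_lit 259595091) (nat_lit 152) (nat_lit 236938458) (nat_lit 122) (nat_lit 3) (nat_lit 122) (nat_lit 1) (nat_lit 124) (nat_lit 1) (nat_lit 445) (nat_lit 354) (nat_lit 221)) (XT.nd (nat_lit 78) (nat_lit 152) (nat_lit 0) (XT.lf (nat_lit 76) (nat_lit 226156307) (nat_lit 0) (nat_lit 247734053) (nat_lit 76) (nat_lit 247734053) (nat_lit 122) (nat_lit 3) (nat_lit 121) (nat_lit 1) (nat_lit 122) (nat_lit 1) (nat_lit 446) (nat_lit 354) (nat_lit 220)) (XT.lf (nat_lit 152) (nat_lit 696885009) (nat_lit 0) (nat_lit 6629107) (nat_lit 76) (nat_lit 6629107) (nat_lit 121) (nat_lit 1) (nat_lit 119) (nat_lit 1) (nat_lit 120) (nat_lit 1) (nat_lit 447) (nat_lit 354) (nat_lit 219))))) (XT.nd (nat_lit 42354) (nat_lit 0) (nat_lit 13376)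 (XT.nd (nat_lit 78) (nat_lit 228) (nat_lit 0) (XT.lf (nat_lit 0) (nat_lit 226618978) (nat_lit 0) (nat_lit 245258646) (nat_lit 152) (nat_lit 226618978) (nat_lit 119) (nat_lit 3) (nat_lit 119) (nat_lit 1) (nat_lit 121) (nat_lit 1) (nat_lit 448) (nat_lit 354) (nat_lit 218)) (XT.nd (nat_lit 78) (nat_lit 152) (nat_lit 0) (XT.lf (nat_lit 76) (nat_lit 217237361) (nat_lit 0) (nat_lit 234989426) (nat_lit 76) (nat_lit 234989426) (nat_lit 119) (nat_lit 3) (nat_lit 118) (nat_lit 1) (nat_lit 119) (nat_lit 1) (nat_lit 449) (nat_lit 354) (nat_lit 217)) (XT.lf (nat_lit 152) (nat_lit 665378378) (nat_lit 0) (nat_lit 5453783) (nat_lit 76) (nat_lit 5453783) (nat_lit 118) (nat_lit 1) (nat_lit 116) (nat_lit 1) (nat_lit 117) (nat_lit 1) (nat_lit 450) (nat_lit 354) (nat_lit 216)))) (XT.nd (nat_lit 78) (nat_lit 0) (nat_lit 0) (XT.lf (nat_lit 836) (nat_lit 1117092574) (nat_lit 0) (nat_lit 1983395298) (nat_lit 836) (nat_lit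 1117092574) (nat_lit 303) (nat_lit 1) (nat_lit 292) (nat_lit 0) (nat_lit 303) (nat_lit 0) (nat_lit 310) (nat_lit 355) (nat_lit 355)) (XT.nd (nat_lit 78) (nat_lit 0) (nat_lit 76) (XT.lf (nat_lit 836) (nat_lit 4329990282) (nat_lit 76) (nat_lit 1951405051) (nat_lit 0) (nat_lit 1951405051) (nat_lit 303) (nat_lit 1) (nat_lit 293) (nat_lit 1) (nat_lit 292) (nat_lit 0) (nat_lit 311) (nat_lit 355) (nat_lit 354)) (XT.lf (nat_lit 836) (nat_lit 2063608172) (nat_lit 0) (nat_lit 3909479583) (nat_lit 760) (nat_lit 2063608172) (nat_lit 304) (nat_lit 1) (nat_lit 293) (nat_lit 1) (nat_lit 303) (nat_lit 1) (nat_lit 312) (nat_lit 355) (nat_lit 353)))))) (XT.nd (nat_lit 468) (nat_lit 1368) (nat_lit 0) (XT.nd (nat_lit 234) (nat_lit 0) (nat_lit 152) (XT.nd (nat_lit 78) (nat_lit 0) (nat_lit 76) (XT.lf (nat_lit 836) (nat_lit 3871042185) (nat_lit 76) (nat_lit 1987942459) (nat_lit 0) (nat_lit 1987942459) (nat_lit 304) (nat_lit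 1) (nat_lit 294) (nat_lit 1) (nat_lit 293) (nat_lit 1) (nat_lit 313) (nat_lit 355) (nat_lit 352)) (XT.nd (nat_lit 78) (nat_lit 0) (nat_lit 0) (XT.lf (nat_lit 836) (nat_lit 1781803543) (nat_lit 0) (nat_lit 4099565911) (nat_lit 760) (nat_lit 1781803543) (nat_lit 305) (nat_lit 1) (nat_lit 294) (nat_lit 1) (nat_lit 304) (nat_lit 1) (nat_lit 314) (nat_lit 355) (nat_lit 351)) (XT.lf (nat_lit 836) (nat_lit 3204689726) (nat_lit 76) (nat_lit 2140165348) (nat_lit 0) (nat_lit 2140165348) (nat_lit 305) (nat_lit 1) (nat_lit 295) (nat_lit 1) (nat_lit 294) (nat_lit 1) (nat_lit 315) (nat_lit 355) (nat_lit 350)))) (XT.nd (nat_lit 78) (nat_lit 0) (nat_lit 0) (XT.lf (nat_lit 836) (nat_lit 1405163885) (nat_lit 0) (nat_lit 4502521823) (nat_lit 760) (nat_lit 1405163885) (nat_lit 306) (nat_lit 1) (nat_lit 295) (nat_lit 1) (nat_lit 305) (nat_lit 1) (nat_lit 316) (nat_lit 355) (nat_lit 349)) (XT.nd (nat_lit 78) (nat_lit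 0) (nat_lit 76) (XT.lf (nat_lit 836) (nat_lit 2362123635) (nat_lit 76) (nat_lit 2391647790) (nat_lit 0) (nat_lit 2391647790) (nat_lit 306) (nat_lit 1) (nat_lit 296) (nat_lit 1) (nat_lit 295) (nat_lit 1) (nat_lit 317) (nat_lit 355) (nat_lit 348)) (XT.lf (nat_lit 836) (nat_lit 948269608) (nat_lit 0) (nat_lit 5087578529) (nat_lit 760) (nat_lit 948269608) (nat_lit 307) (nat_lit 1) (nat_lit 296) (nat_lit 1) (nat_lit 306) (nat_lit 1) (nat_lit 318) (nat_lit 355) (nat_lit 347))))) (XT.nd (nat_lit 234) (nat_lit 912) (nat_lit 0) (XT.nd (nat_lit 78) (nat_lit 684) (nat_lit 0) (XT.lf (nat_lit 836) (nat_lit 1371067765) (nat_lit 76) (nat_lit 2727761010) (nat_lit 0) (nat_lit 2727761010) (nat_lit 307) (nat_lit 1) (nat_lit 297) (nat_lit 1) (nat_lit 296) (nat_lit 1) (nat_lit 319) (nat_lit 355) (nat_lit 346)) (XT.nd (nat_lit 78) (nat_lit 760) (nat_lit 0) (XT.lf (nat_lit 76) (nat_lit 424071121) (nat_lit 0) (nat_lit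 5827350605) (nat_lit 760) (nat_lit 424071121) (nat_lit 298) (nat_lit 1) (nat_lit 297) (nat_lit 1) (nat_lit 307) (nat_lit 1) (nat_lit 320) (nat_lit 355) (nat_lit 345)) (XT.lf (nat_lit 836) (nat_lit 256128411) (nat_lit 0) (nat_lit 3135493450) (nat_lit 760) (nat_lit 3135493450) (nat_lit 298) (nat_lit 1) (nat_lit 287) (nat_lit 1) (nat_lit 297) (nat_lit 1) (nat_lit 321) (nat_lit 355) (nat_lit 344)))) (XT.nd (nat_lit 156) (nat_lit 380) (nat_lit 0) (XT.nd (nat_lit 78) (nat_lit 0) (nat_lit 0) (XT.lf (nat_lit 532) (nat_lit 6078249775) (nat_lit 0) (nat_lit 153431288) (nat_lit 456) (nat_lit 153431288) (nat_lit 287) (nat_lit 1) (nat_lit 280) (nat_lit 1) (nat_lit 286) (nat_lit 1) (nat_lit 322) (nat_lit 355) (nat_lit 343)) (XT.lf (nat_lit 76) (nat_lit 2657400222) (nat_lit 0) (nat_lit 930135644) (nat_lit 532) (nat_lit 2657400222) (nat_lit 281) (nat_lit 1) (nat_lit 280) (nat_lit 1) (nat_lit 287) (nat_lit 1) (nat_lit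 323) (nat_lit 355) (nat_lit 342))) (XT.nd (nat_lit 78) (nat_lit 0) (nat_lit 0) (XT.lf (nat_lit 456) (nat_lit 4572703658) (nat_lit 0) (nat_lit 769008419) (nat_lit 380) (nat_lit 769008419) (nat_lit 281) (nat_lit 1) (nat_lit 275) (nat_lit 1) (nat_lit 280) (nat_lit 1) (nat_lit 324) (nat_lit 355) (nat_lit 341)) (XT.lf (nat_lit 76) (nat_lit 1895491229) (nat_lit 0) (nat_lit 2188344028) (nat_lit 456) (nat_lit 1895491229) (nat_lit 276) (nat_lit 1) (nat_lit 275) (nat_lit 1) (nat_lit 281) (nat_lit 1) (nat_lit 325) (nat_lit 355) (nat_lit 340))))))) (XT.nd (nat_lit 936) (nat_lit 1824) (nat_lit 0) (XT.nd (nat_lit 468) (nat_lit 912) (nat_lit 0) (XT.nd (nat_lit 234) (nat_lit 684) (nat_lit 0) (XT.nd (nat_lit 78) (nat_lit 304) (nat_lit 0) (XT.lf (nat_lit 456) (nat_lit 3011190206) (nat_lit 0) (nat_lit 1420659186) (nat_lit 380) (nat_lit 1420659186) (nat_lit 276) (nat_lit 1) (nat_lit 270) (nat_lit 1) (nat_lit 275)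 (nat_lit 1) (nat_lit 326) (nat_lit 355) (nat_lit 339)) (XT.nd (nat_lit 78) (nat_lit 304) (nat_lit 0) (XT.lf (nat_lit 76) (nat_lit 1109583572) (nat_lit 0) (nat_lit 3510211818) (nat_lit 456) (nat_lit 1109583572) (nat_lit 271) (nat_lit 1) (nat_lit 270) (nat_lit 1) (nat_lit 276) (nat_lit 1) (nat_lit 327) (nat_lit 355) (nat_lit 338)) (XT.lf (nat_lit 380) (nat_lit 1408243146) (nat_lit 0) (nat_lit 2100586750) (nat_lit 304) (nat_lit 2100586750) (nat_lit 271) (nat_lit 1) (nat_lit 266) (nat_lit 1) (nat_lit 270) (nat_lit 1) (nat_lit 328) (nat_lit 355) (nat_lit 337)))) (XT.nd (nat_lit 78) (nat_lit 684) (nat_lit 0) (XT.lf (nat_lit 76) (nat_lit 306424312) (nat_lit 0) (nat_lit 4881218866) (nat_lit 380) (nat_lit 306424312) (nat_lit 267) (nat_lit 1) (nat_lit 266) (nat_lit 1) (nat_lit 271) (nat_lit 1) (nat_lit 329) (nat_lit 355) (nat_lit 336)) (XT.nd (nat_lit 78) (nat_lit 304) (nat_lit 0) (XT.lf (nat_lit 76) (nat_lit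 2582019304) (nat_lit 0) (nat_lit 216249132) (nat_lit 380) (nat_lit 2582019304) (nat_lit 262) (nat_lit 1) (nat_lit 261) (nat_lit 1) (nat_lit 266) (nat_lit 1) (nat_lit 330) (nat_lit 355) (nat_lit 335)) (XT.lf (nat_lit 380) (nat_lit 4271067117) (nat_lit 0) (nat_lit 499886942) (nat_lit 304) (nat_lit 499886942) (nat_lit 262) (nat_lit 1) (nat_lit 257) (nat_lit 1) (nat_lit 261) (nat_lit 1) (nat_lit 331) (nat_lit 355) (nat_lit 334))))) (XT.nd (nat_lit 234) (nat_lit 608) (nat_lit 0) (XT.nd (nat_lit 78) (nat_lit 304) (nat_lit 0) (XT.lf (nat_lit 76) (nat_lit 1675300292) (nat_lit 0) (nat_lit 1812671262) (nat_lit 380) (nat_lit 1675300292) (nat_lit 258) (nat_lit 1) (nat_lit 257) (nat_lit 1) (nat_lit 262) (nat_lit 1) (nat_lit 332) (nat_lit 355) (nat_lit 333)) (XT.nd (nat_lit 78) (nat_lit 0) (nat_lit 0) (XT.lf (nat_lit 380) (nat_lit 2444729159) (nat_lit 0) (nat_lit 1307351827) (nat_lit 304) (nat_lit 1307351827)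 (nat_lit 258) (nat_lit 1) (nat_lit 253) (nat_lit 1) (nat_lit 257) (nat_lit 1) (nat_lit 333) (nat_lit 355) (nat_lit 332)) (XT.lf (nat_lit 76) (nat_lit 770958470) (nat_lit 0) (nat_lit 3416713100) (nat_lit 380) (nat_lit 770958470) (nat_lit 254) (nat_lit 1) (nat_lit 253) (nat_lit 1) (nat_lit 258) (nat_lit 1) (nat_lit 334) (nat_lit 355) (nat_lit 331)))) (XT.nd (nat_lit 78) (nat_lit 380) (nat_lit 0) (XT.lf (nat_lit 304) (nat_lit 626987504) (nat_lit 0) (nat_lit 2116507846) (nat_lit 228) (nat_lit 2116507846) (nat_lit 254) (nat_lit 1) (nat_lit 250) (nat_lit 1) (nat_lit 253) (nat_lit 1) (nat_lit 335) (nat_lit 355) (nat_lit 330)) (XT.nd (nat_lit 78) (nat_lit 0) (nat_lit 0) (XT.lf (nat_lit 380) (nat_lit 4514637416) (nat_lit 0) (nat_lit 125272525) (nat_lit 304) (nat_lit 125272525) (nat_lit 250) (nat_lit 1) (nat_lit 245) (nat_lit 1) (nat_lit 249) (nat_lit 1) (nat_lit 336) (nat_lit 355) (nat_lit 329)) (XT.lf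 (nat_lit 76) (nat_lit 1766610997) (nat_lit 0) (nat_lit 1137664565) (nat_lit 380) (nat_lit 1766610997) (nat_lit 246) (nat_lit 1) (nat_lit 245) (nat_lit 1) (nat_lit 250) (nat_lit 1) (nat_lit 337) (nat_lit 355) (nat_lit 328)))))) (XT.nd (nat_lit 468) (nat_lit 836) (nat_lit 0) (XT.nd (nat_lit 234) (nat_lit 532) (nat_lit 0) (XT.nd (nat_lit 78) (nat_lit 228) (nat_lit 0) (XT.lf (nat_lit 304) (nat_lit 2580191211) (nat_lit 0) (nat_lit 1000007969) (nat_lit 228) (nat_lit 1000007969) (nat_lit 246) (nat_lit 1) (nat_lit 242) (nat_lit 1) (nat_lit 245) (nat_lit 1) (nat_lit 338) (nat_lit 355) (nat_lit 327)) (XT.nd (nat_lit 78) (nat_lit 228) (nat_lit 0) (XT.lf (nat_lit 76) (nat_lit 815122315) (nat_lit 0) (nat_lit 2861586976) (nat_lit 304) (nat_lit 815122315) (nat_lit 243) (nat_lit 1) (nat_lit 242) (nat_lit 1) (nat_lit 246) (nat_lit 1) (nat_lit 339) (nat_lit 355) (nat_lit 326)) (XT.lf (nat_lit 304) (nat_lit 679378972)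 (nat_lit 0) (nat_lit 1863043806) (nat_lit 228) (nat_lit 1863043806) (nat_lit 243) (nat_lit 1) (nat_lit 239) (nat_lit 1) (nat_lit 242) (nat_lit 1) (nat_lit 340) (nat_lit 355) (nat_lit 325)))) (XT.nd (nat_lit 78) (nat_lit 228) (nat_lit 0) (XT.lf (nat_lit 304) (nat_lit 4088793542) (nat_lit 0) (nat_lit 116758294) (nat_lit 228) (nat_lit 116758294) (nat_lit 239) (nat_lit 1) (nat_lit 235) (nat_lit 1) (nat_lit 238) (nat_lit 1) (nat_lit 341) (nat_lit 355) (nat_lit 324)) (XT.nd (nat_lit 78) (nat_lit 228) (nat_lit 0) (XT.lf (nat_lit 76) (nat_lit 1546673501) (nat_lit 0) (nat_lit 1146069534) (nat_lit 304) (nat_lit 1546673501) (nat_lit 236) (nat_lit 1) (nat_lit 235) (nat_lit 1) (nat_lit 239) (nat_lit 1) (nat_lit 342) (nat_lit 355) (nat_lit 323)) (XT.lf (nat_lit 304) (nat_lit 2126817687) (nat_lit 0) (nat_lit 1016386166) (nat_lit 228) (nat_lit 1016386166) (nat_lit 236) (nat_lit 1) (nat_lit 232) (nat_lit 1) (nat_lit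 235) (nat_lit 1) (nat_lit 343) (nat_lit 355) (nat_lit 322))))) (XT.nd (nat_lit 234) (nat_lit 380) (nat_lit 0) (XT.nd (nat_lit 78) (nat_lit 456) (nat_lit 0) (XT.lf (nat_lit 76) (nat_lit 585723856) (nat_lit 0) (nat_lit 2910456772) (nat_lit 304) (nat_lit 585723856) (nat_lit 233) (nat_lit 1) (nat_lit 232) (nat_lit 1) (nat_lit 236) (nat_lit 1) (nat_lit 344) (nat_lit 355) (nat_lit 321)) (XT.nd (nat_lit 78) (nat_lit 304) (nat_lit 0) (XT.lf (nat_lit 228) (nat_lit 214628695) (nat_lit 0) (nat_lit 1895527096) (nat_lit 152) (nat_lit 1895527096) (nat_lit 233) (nat_lit 1) (nat_lit 230) (nat_lit 1) (nat_lit 232) (nat_lit 1) (nat_lit 345) (nat_lit 355) (nat_lit 320)) (XT.lf (nat_lit 304) (nat_lit 3242967627) (nat_lit 0) (nat_lit 344426668) (nat_lit 228) (nat_lit 344426668) (nat_lit 230) (nat_lit 1) (nat_lit 226) (nat_lit 1) (nat_lit 229) (nat_lit 1) (nat_lit 346) (nat_lit 355) (nat_lit 319)))) (XT.nd (nat_lit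 156) (nat_lit 228) (nat_lit 0) (XT.nd (nat_lit 78) (nat_lit 152) (nat_lit 0) (XT.lf (nat_lit 76) (nat_lit 1132691613) (nat_lit 0) (nat_lit 1593401886) (nat_lit 304) (nat_lit 1132691613) (nat_lit 227) (nat_lit 1) (nat_lit 226) (nat_lit 1) (nat_lit 230) (nat_lit 1) (nat_lit 347) (nat_lit 355) (nat_lit 318)) (XT.lf (nat_lit 228) (nat_lit 1308650434) (nat_lit 0) (nat_lit 1239676457) (nat_lit 152) (nat_lit 1239676457) (nat_lit 227) (nat_lit 1) (nat_lit 224) (nat_lit 1) (nat_lit 226) (nat_lit 1) (nat_lit 348) (nat_lit 355) (nat_lit 317))) (XT.nd (nat_lit 78) (nat_lit 228) (nat_lit 0) (XT.lf (nat_lit 76) (nat_lit 188011530) (nat_lit 0) (nat_lit 3343547500) (nat_lit 228) (nat_lit 188011530) (nat_lit 225) (nat_lit 1) (nat_lit 224) (nat_lit 1) (nat_lit 227) (nat_lit 1) (nat_lit 349) (nat_lit 355) (nat_lit 316)) (XT.lf (nat_lit 76) (nat_lit 1551692143) (nat_lit 0) (nat_lit 548002243) (nat_lit 228) (nat_lit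 1551692143) (nat_lit 222) (nat_lit 1) (nat_lit 221) (nat_lit 1) (nat_lit 224) (nat_lit 1) (nat_lit 350) (nat_lit 355) (nat_lit 315))))))))
noncomputable def ec93 : XT := (XT.nd (nat_lit 1950) (nat_lit 1900) (nat_lit 0) (XT.nd (nat_lit 936) (nat_lit 1140) (nat_lit 0) (XT.nd (nat_lit 468) (nat_lit 608) (nat_lit 0) (XT.nd (nat_lit 234) (nat_lit 380) (nat_lit 0) (XT.nd (nat_lit 78) (nat_lit 152) (nat_lit 0) (XT.lf (nat_lit 228) (nat_lit 2154796498) (nat_lit 0) (nat_lit 715334055) (nat_lit 152) (nat_lit 715334055) (nat_lit 222) (nat_lit 1) (nat_lit 219) (nat_lit 1) (nat_lit 221) (nat_lit 1) (nat_lit 351) (nat_lit 355) (nat_lit 314)) (XT.nd (nat_lit 78) (nat_lit 152) (nat_lit 0) (XT.lf (nat_lit 76) (nat_lit 608027512) (nat_lit 0) (nat_lit 2304944682) (nat_lit 228) (nat_lit 608027512) (nat_lit 220) (nat_lit 1) (nat_lit 219) (nat_lit 1) (nat_lit 222) (nat_lit 1) (nat_lit 352) (nat_lit 355) (nat_lit 313))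 (XT.lf (nat_lit 228) (nat_lit 284838998) (nat_lit 0) (nat_lit 1586497626) (nat_lit 152) (nat_lit 1586497626) (nat_lit 220) (nat_lit 1) (nat_lit 217) (nat_lit 1) (nat_lit 219) (nat_lit 1) (nat_lit 353) (nat_lit 355) (nat_lit 312)))) (XT.nd (nat_lit 78) (nat_lit 152) (nat_lit 0) (XT.lf (nat_lit 228) (nat_lit 2799581695) (nat_lit 0) (nat_lit 298458684) (nat_lit 152) (nat_lit 298458684) (nat_lit 217) (nat_lit 1) (nat_lit 214) (nat_lit 1) (nat_lit 216) (nat_lit 1) (nat_lit 354) (nat_lit 355) (nat_lit 311)) (XT.nd (nat_lit 78) (nat_lit 152) (nat_lit 0) (XT.lf (nat_lit 76) (nat_lit 931987606) (nat_lit 0) (nat_lit 1471712151) (nat_lit 228) (nat_lit 931987606) (nat_lit 215) (nat_lit 1) (nat_lit 214) (nat_lit 1) (nat_lit 217) (nat_lit 1) (nat_lit 355) (nat_lit 355) (nat_lit 310)) (XT.lf (nat_lit 228) (nat_lit 949184129) (nat_lit 0) (nat_lit 1163728492) (nat_lit 152) (nat_lit 1163728492) (nat_lit 215) (nat_lit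 1) (nat_lit 212) (nat_lit 1) (nat_lit 214) (nat_lit 1) (nat_lit 356) (nat_lit 355) (nat_lit 309))))) (XT.nd (nat_lit 234) (nat_lit 304) (nat_lit 0) (XT.nd (nat_lit 78) (nat_lit 304) (nat_lit 0) (XT.lf (nat_lit 76) (nat_lit 31197064) (nat_lit 0) (nat_lit 3157271489) (nat_lit 228) (nat_lit 31197064) (nat_lit 213) (nat_lit 1) (nat_lit 212) (nat_lit 1) (nat_lit 215) (nat_lit 1) (nat_lit 357) (nat_lit 355) (nat_lit 308)) (XT.nd (nat_lit 78) (nat_lit 152) (nat_lit 0) (XT.lf (nat_lit 76) (nat_lit 1177950289) (nat_lit 0) (nat_lit 806427378) (nat_lit 152) (nat_lit 1177950289) (nat_lit 211) (nat_lit 1) (nat_lit 210) (nat_lit 1) (nat_lit 212) (nat_lit 1) (nat_lit 358) (nat_lit 355) (nat_lit 307)) (XT.lf (nat_lit 228) (nat_lit 1461702208) (nat_lit 0) (nat_lit 822652757) (nat_lit 152) (nat_lit 822652757) (nat_lit 211) (nat_lit 1) (nat_lit 208) (nat_lit 1) (nat_lit 210) (nat_lit 1) (nat_lit 359) (nat_lit 355)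 (nat_lit 306)))) (XT.nd (nat_lit 78) (nat_lit 304) (nat_lit 0) (XT.lf (nat_lit 76) (nat_lit 293061190) (nat_lit 0) (nat_lit 2467058342) (nat_lit 228) (nat_lit 293061190) (nat_lit 209) (nat_lit 1) (nat_lit 208) (nat_lit 1) (nat_lit 211) (nat_lit 1) (nat_lit 360) (nat_lit 355) (nat_lit 305)) (XT.nd (nat_lit 78) (nat_lit 152) (nat_lit 0) (XT.lf (nat_lit 76) (nat_lit 1360723360) (nat_lit 0) (nat_lit 278350894) (nat_lit 152) (nat_lit 1360723360) (nat_lit 207) (nat_lit 1) (nat_lit 206) (nat_lit 1) (nat_lit 208) (nat_lit 1) (nat_lit 361) (nat_lit 355) (nat_lit 304)) (XT.lf (nat_lit 228) (nat_lit 1850932763) (nat_lit 0) (nat_lit 548465551) (nat_lit 152) (nat_lit 548465551) (nat_lit 207) (nat_lit 1) (nat_lit 204) (nat_lit 1) (nat_lit 206) (nat_lit 1) (nat_lit 362) (nat_lit 355) (nat_lit 303)))))) (XT.nd (nat_lit 468) (nat_lit 532) (nat_lit 0) (XT.nd (nat_lit 234) (nat_lit 304) (nat_lit 0) (XT.nd (nat_lit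 78) (nat_lit 304) (nat_lit 0) (XT.lf (nat_lit 76) (nat_lit 495764346) (nat_lit 0) (nat_lit 1905429550) (nat_lit 228) (nat_lit 495764346) (nat_lit 205) (nat_lit 1) (nat_lit 204) (nat_lit 1) (nat_lit 207) (nat_lit 1) (nat_lit 363) (nat_lit 355) (nat_lit 302)) (XT.nd (nat_lit 78) (nat_lit 228) (nat_lit 0) (XT.lf (nat_lit 152) (nat_lit 142315889) (nat_lit 0) (nat_lit 1352348670) (nat_lit 76) (nat_lit 1352348670) (nat_lit 205) (nat_lit 1) (nat_lit 203) (nat_lit 1) (nat_lit 204) (nat_lit 1) (nat_lit 364) (nat_lit 355) (nat_lit 301)) (XT.lf (nat_lit 228) (nat_lit 2140278145) (nat_lit 0) (nat_lit 329002149) (nat_lit 152) (nat_lit 329002149) (nat_lit 203) (nat_lit 1) (nat_lit 200) (nat_lit 1) (nat_lit 202) (nat_lit 1) (nat_lit 365) (nat_lit 355) (nat_lit 300)))) (XT.nd (nat_lit 78) (nat_lit 304) (nat_lit 0) (XT.lf (nat_lit 76) (nat_lit 650401963) (nat_lit 0) (nat_lit 1449291650) (nat_lit 228) (nat_lit 650401963)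 (nat_lit 201) (nat_lit 1) (nat_lit 200) (nat_lit 1) (nat_lit 203) (nat_lit 1) (nat_lit 366) (nat_lit 355) (nat_lit 299)) (XT.nd (nat_lit 78) (nat_lit 228) (nat_lit 0) (XT.lf (nat_lit 152) (nat_lit 477928999) (nat_lit 0) (nat_lit 1112580598) (nat_lit 76) (nat_lit 1112580598) (nat_lit 201) (nat_lit 1) (nat_lit 199) (nat_lit 1) (nat_lit 200) (nat_lit 1) (nat_lit 367) (nat_lit 355) (nat_lit 298)) (XT.lf (nat_lit 228) (nat_lit 2348918013) (nat_lit 0) (nat_lit 154269152) (nat_lit 152) (nat_lit 154269152) (nat_lit 199) (nat_lit 1) (nat_lit 196) (nat_lit 1) (nat_lit 198) (nat_lit 1) (nat_lit 368) (nat_lit 355) (nat_lit 297))))) (XT.nd (nat_lit 234) (nat_lit 228) (nat_lit 0) (XT.nd (nat_lit 78) (nat_lit 304) (nat_lit 0) (XT.lf (nat_lit 76) (nat_lit 766073408) (nat_lit 0) (nat_lit 1079659679) (nat_lit 228) (nat_lit 766073408) (nat_lit 197) (nat_lit 1) (nat_lit 196) (nat_lit 1) (nat_lit 199) (nat_lit 1) (nat_lit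 369) (nat_lit 355) (nat_lit 296)) (XT.nd (nat_lit 78) (nat_lit 228) (nat_lit 0) (XT.lf (nat_lit 152) (nat_lit 736855622) (nat_lit 0) (nat_lit 915322811) (nat_lit 76) (nat_lit 915322811) (nat_lit 197) (nat_lit 1) (nat_lit 195) (nat_lit 1) (nat_lit 196) (nat_lit 1) (nat_lit 370) (nat_lit 355) (nat_lit 295)) (XT.lf (nat_lit 228) (nat_lit 2492561506) (nat_lit 0) (nat_lit 16058822) (nat_lit 152) (nat_lit 16058822) (nat_lit 195) (nat_lit 1) (nat_lit 192) (nat_lit 1) (nat_lit 194) (nat_lit 1) (nat_lit 371) (nat_lit 355) (nat_lit 294)))) (XT.nd (nat_lit 156) (nat_lit 152) (nat_lit 0) (XT.nd (nat_lit 78) (nat_lit 76) (nat_lit 0) (XT.lf (nat_lit 76) (nat_lit 850237254) (nat_lit 0) (nat_lit 780928073) (nat_lit 228) (nat_lit 850237254) (nat_lit 193) (nat_lit 1) (nat_lit 192) (nat_lit 1) (nat_lit 195) (nat_lit 1) (nat_lit 372) (nat_lit 355) (nat_lit 293)) (XT.lf (nat_lit 152) (nat_lit 933510327) (nat_lit 0)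 (nat_lit 753038342) (nat_lit 76) (nat_lit 753038342) (nat_lit 193) (nat_lit 1) (nat_lit 191) (nat_lit 1) (nat_lit 192) (nat_lit 1) (nat_lit 373) (nat_lit 355) (nat_lit 292))) (XT.nd (nat_lit 78) (nat_lit 152) (nat_lit 0) (XT.lf (nat_lit 0) (nat_lit 93882400) (nat_lit 0) (nat_lit 2211269122) (nat_lit 152) (nat_lit 93882400) (nat_lit 191) (nat_lit 3) (nat_lit 191) (nat_lit 1) (nat_lit 193) (nat_lit 1) (nat_lit 374) (nat_lit 355) (nat_lit 291)) (XT.lf (nat_lit 76) (nat_lit 909003498) (nat_lit 0) (nat_lit 540270870) (nat_lit 152) (nat_lit 909003498) (nat_lit 190) (nat_lit 1) (nat_lit 189) (nat_lit 1) (nat_lit 191) (nat_lit 1) (nat_lit 375) (nat_lit 355) (nat_lit 290))))))) (XT.nd (nat_lit 1014) (nat_lit 912) (nat_lit 0) (XT.nd (nat_lit 468) (nat_lit 532) (nat_lit 0) (XT.nd (nat_lit 234) (nat_lit 228) (nat_lit 0) (XT.nd (nat_lit 78) (nat_lit 152) (nat_lit 0) (XT.lf (nat_lit 152) (nat_lit 1079713049)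 (nat_lit 0) (nat_lit 619526507) (nat_lit 76) (nat_lit 619526507) (nat_lit 190) (nat_lit 1) (nat_lit 188) (nat_lit 1) (nat_lit 189) (nat_lit 1) (nat_lit 376) (nat_lit 355) (nat_lit 289)) (XT.nd (nat_lit 78) (nat_lit 152) (nat_lit 0) (XT.lf (nat_lit 0) (nat_lit 179437870) (nat_lit 0) (nat_lit 1921417167) (nat_lit 152) (nat_lit 179437870) (nat_lit 188) (nat_lit 3) (nat_lit 188) (nat_lit 1) (nat_lit 190) (nat_lit 1) (nat_lit 377) (nat_lit 355) (nat_lit 288)) (XT.lf (nat_lit 76) (nat_lit 947373909) (nat_lit 0) (nat_lit 347148288) (nat_lit 152) (nat_lit 947373909) (nat_lit 187) (nat_lit 1) (nat_lit 186) (nat_lit 1) (nat_lit 188) (nat_lit 1) (nat_lit 378) (nat_lit 355) (nat_lit 287)))) (XT.nd (nat_lit 78) (nat_lit 152) (nat_lit 0) (XT.lf (nat_lit 152) (nat_lit 1185150972) (nat_lit 0) (nat_lit 509685991) (nat_lit 76) (nat_lit 509685991) (nat_lit 187) (nat_lit 1) (nat_lit 185) (nat_lit 1) (nat_lit 186)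 (nat_lit 1) (nat_lit 379) (nat_lit 355) (nat_lit 286)) (XT.nd (nat_lit 78) (nat_lit 152) (nat_lit 0) (XT.lf (nat_lit 0) (nat_lit 244957873) (nat_lit 0) (nat_lit 1678088552) (nat_lit 152) (nat_lit 244957873) (nat_lit 185) (nat_lit 3) (nat_lit 185) (nat_lit 1) (nat_lit 187) (nat_lit 1) (nat_lit 380) (nat_lit 355) (nat_lit 285)) (XT.lf (nat_lit 76) (nat_lit 969439699) (nat_lit 0) (nat_lit 192900810) (nat_lit 152) (nat_lit 969439699) (nat_lit 184) (nat_lit 1) (nat_lit 183) (nat_lit 1) (nat_lit 185) (nat_lit 1) (nat_lit 381) (nat_lit 355) (nat_lit 284))))) (XT.nd (nat_lit 234) (nat_lit 304) (nat_lit 0) (XT.nd (nat_lit 78) (nat_lit 152) (nat_lit 0) (XT.lf (nat_lit 152) (nat_lit 1257758423) (nat_lit 0) (nat_lit 419319926) (nat_lit 76) (nat_lit 419319926) (nat_lit 184) (nat_lit 1) (nat_lit 182) (nat_lit 1) (nat_lit 183) (nat_lit 1) (nat_lit 382) (nat_lit 355) (nat_lit 283)) (XT.nd (nat_lit 78) (nat_lit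 152) (nat_lit 0) (XT.lf (nat_lit 0) (nat_lit 294226394) (nat_lit 0) (nat_lit 1473266550) (nat_lit 152) (nat_lit 294226394) (nat_lit 182) (nat_lit 3) (nat_lit 182) (nat_lit 1) (nat_lit 184) (nat_lit 1) (nat_lit 383) (nat_lit 355) (nat_lit 282)) (XT.lf (nat_lit 76) (nat_lit 978544095) (nat_lit 0) (nat_lit 70415263) (nat_lit 152) (nat_lit 978544095) (nat_lit 181) (nat_lit 1) (nat_lit 180) (nat_lit 1) (nat_lit 182) (nat_lit 1) (nat_lit 384) (nat_lit 355) (nat_lit 281)))) (XT.nd (nat_lit 156) (nat_lit 228) (nat_lit 0) (XT.nd (nat_lit 78) (nat_lit 0) (nat_lit 0) (XT.lf (nat_lit 152) (nat_lit 1304029334) (nat_lit 0) (nat_lit 344975541) (nat_lit 76) (nat_lit 344975541) (nat_lit 181) (nat_lit 1) (nat_lit 179) (nat_lit 1) (nat_lit 180) (nat_lit 1) (nat_lit 385) (nat_lit 355) (nat_lit 280)) (XT.lf (nat_lit 0) (nat_lit 330345493) (nat_lit 0) (nat_lit 1300344747) (nat_lit 152) (nat_lit 330345493) (nat_lit 179)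 (nat_lit 3) (nat_lit 179) (nat_lit 1) (nat_lit 181) (nat_lit 1) (nat_lit 386) (nat_lit 355) (nat_lit 279))) (XT.nd (nat_lit 78) (nat_lit 152) (nat_lit 0) (XT.lf (nat_lit 76) (nat_lit 27014497) (nat_lit 0) (nat_lit 950823310) (nat_lit 76) (nat_lit 950823310) (nat_lit 179) (nat_lit 3) (nat_lit 178) (nat_lit 1) (nat_lit 179) (nat_lit 1) (nat_lit 387) (nat_lit 355) (nat_lit 278)) (XT.lf (nat_lit 152) (nat_lit 1329274224) (nat_lit 0) (nat_lit 283812231) (nat_lit 76) (nat_lit 283812231) (nat_lit 178) (nat_lit 1) (nat_lit 176) (nat_lit 1) (nat_lit 177) (nat_lit 1) (nat_lit 388) (nat_lit 355) (nat_lit 277)))))) (XT.nd (nat_lit 468) (nat_lit 456) (nat_lit 0) (XT.nd (nat_lit 234) (nat_lit 228) (nat_lit 0) (XT.nd (nat_lit 78) (nat_lit 228) (nat_lit 0) (XT.lf (nat_lit 0) (nat_lit 355856731) (nat_lit 0) (nat_lit 1153877518) (nat_lit 152) (nat_lit 355856731) (nat_lit 176) (nat_lit 3) (nat_lit 176) (nat_lit 1)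 (nat_lit 178) (nat_lit 1) (nat_lit 389) (nat_lit 355) (nat_lit 276)) (XT.nd (nat_lit 78) (nat_lit 152) (nat_lit 0) (XT.lf (nat_lit 76) (nat_lit 104949430) (nat_lit 0) (nat_lit 864969227) (nat_lit 76) (nat_lit 864969227) (nat_lit 176) (nat_lit 3) (nat_lit 175) (nat_lit 1) (nat_lit 176) (nat_lit 1) (nat_lit 390) (nat_lit 355) (nat_lit 275)) (XT.lf (nat_lit 152) (nat_lit 1337831540) (nat_lit 0) (nat_lit 233493025) (nat_lit 76) (nat_lit 233493025) (nat_lit 175) (nat_lit 1) (nat_lit 173) (nat_lit 1) (nat_lit 174) (nat_lit 1) (nat_lit 391) (nat_lit 355) (nat_lit 274)))) (XT.nd (nat_lit 78) (nat_lit 228) (nat_lit 0) (XT.lf (nat_lit 0) (nat_lit 372841048) (nat_lit 0) (nat_lit 1029374725) (nat_lit 152) (nat_lit 372841048) (nat_lit 173) (nat_lit 3) (nat_lit 173) (nat_lit 1) (nat_lit 175) (nat_lit 1) (nat_lit 392) (nat_lit 355) (nat_lit 273)) (XT.nd (nat_lit 78) (nat_lit 152) (nat_lit 0) (XT.lf (nat_lit 76)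 (nat_lit 165127429) (nat_lit 0) (nat_lit 790397597) (nat_lit 76) (nat_lit 790397597) (nat_lit 173) (nat_lit 3) (nat_lit 172) (nat_lit 1) (nat_lit 173) (nat_lit 1) (nat_lit 393) (nat_lit 355) (nat_lit 272)) (XT.lf (nat_lit 152) (nat_lit 1333241458) (nat_lit 0) (nat_lit 192095289) (nat_lit 76) (nat_lit 192095289) (nat_lit 172) (nat_lit 1) (nat_lit 170) (nat_lit 1) (nat_lit 171) (nat_lit 1) (nat_lit 394) (nat_lit 355) (nat_lit 271))))) (XT.nd (nat_lit 234) (nat_lit 228) (nat_lit 0) (XT.nd (nat_lit 78) (nat_lit 228) (nat_lit 0) (XT.lf (nat_lit 0) (nat_lit 383000905) (nat_lit 0) (nat_lit 923132786) (nat_lit 152) (nat_lit 383000905) (nat_lit 170) (nat_lit 3) (nat_lit 170) (nat_lit 1) (nat_lit 172) (nat_lit 1) (nat_lit 395) (nat_lit 355) (nat_lit 270)) (XT.nd (nat_lit 78) (nat_lit 152) (nat_lit 0) (XT.lf (nat_lit 76) (nat_lit 210884338) (nat_lit 0) (nat_lit 725295652) (nat_lit 76) (nat_lit 725295652)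 (nat_lit 170) (nat_lit 3) (nat_lit 169) (nat_lit 1) (nat_lit 170) (nat_lit 1) (nat_lit 396) (nat_lit 355) (nat_lit 269)) (XT.lf (nat_lit 152) (nat_lit 1318388799) (nat_lit 0) (nat_lit 158037270) (nat_lit 76) (nat_lit 158037270) (nat_lit 169) (nat_lit 1) (nat_lit 167) (nat_lit 1) (nat_lit 168) (nat_lit 1) (nat_lit 397) (nat_lit 355) (nat_lit 268)))) (XT.nd (nat_lit 156) (nat_lit 152) (nat_lit 0) (XT.nd (nat_lit 78) (nat_lit 76) (nat_lit 0) (XT.lf (nat_lit 0) (nat_lit 387727842) (nat_lit 0) (nat_lit 832095677) (nat_lit 152) (nat_lit 387727842) (nat_lit 167) (nat_lit 3) (nat_lit 167) (nat_lit 1) (nat_lit 169) (nat_lit 1) (nat_lit 398) (nat_lit 355) (nat_lit 267)) (XT.lf (nat_lit 76) (nat_lit 244955631) (nat_lit 0) (nat_lit 668163093) (nat_lit 76) (nat_lit 668163093) (nat_lit 167) (nat_lit 3) (nat_lit 166) (nat_lit 1) (nat_lit 167) (nat_lit 1) (nat_lit 399) (nat_lit 355) (nat_lit 266))) (XT.nd (nat_lit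 78) (nat_lit 0) (nat_lit 0) (XT.lf (nat_lit 152) (nat_lit 1295620539) (nat_lit 0) (nat_lit 130017653) (nat_lit 76) (nat_lit 130017653) (nat_lit 166) (nat_lit 1) (nat_lit 164) (nat_lit 1) (nat_lit 165) (nat_lit 1) (nat_lit 400) (nat_lit 355) (nat_lit 265)) (XT.lf (nat_lit 0) (nat_lit 388158036) (nat_lit 0) (nat_lit 753740553) (nat_lit 152) (nat_lit 388158036) (nat_lit 164) (nat_lit 3) (nat_lit 164) (nat_lit 1) (nat_lit 166) (nat_lit 1) (nat_lit 401) (nat_lit 355) (nat_lit 264))))))))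
noncomputable def ec94 : XT := (XT.nd (nat_lit 1950) (nat_lit 1824) (nat_lit 0) (XT.nd (nat_lit 936) (nat_lit 988) (nat_lit 0) (XT.nd (nat_lit 468) (nat_lit 456) (nat_lit 0) (XT.nd (nat_lit 234) (nat_lit 228) (nat_lit 0) (XT.nd (nat_lit 78) (nat_lit 152) (nat_lit 0) (XT.lf (nat_lit 76) (nat_lit 269583285) (nat_lit 0) (nat_lit 617757111) (nat_lit 76) (nat_lit 617757111) (nat_lit 164) (nat_lit 3) (nat_lit 163) (nat_lit 1) (nat_lit 164) (nat_lit 1) (nat_lit 402) (nat_lit 355) (nat_lit 263)) (XT.nd (nat_lit 78) (nat_lit 0) (nat_lit 0) (XT.lf (nat_lit 152) (nat_lit 1266842425) (nat_lit 0) (nat_lit 106965845) (nat_lit 76) (nat_lit 106965845) (nat_lit 163) (nat_lit 1) (nat_lit 161) (nat_lit 1) (nat_lit 162) (nat_lit 1) (nat_lit 403) (nat_lit 355) (nat_lit 262)) (XT.lf (nat_lit 0) (nat_lit 385217987) (nat_lit 0) (nat_lit 685983629) (nat_lit 152) (nat_lit 385217987) (nat_lit 161) (nat_lit 3) (nat_lit 161)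 (nat_lit 1) (nat_lit 163) (nat_lit 1) (nat_lit 404) (nat_lit 355) (nat_lit 261)))) (XT.nd (nat_lit 78) (nat_lit 152) (nat_lit 0) (XT.lf (nat_lit 76) (nat_lit 286603675) (nat_lit 0) (nat_lit 573047143) (nat_lit 76) (nat_lit 573047143) (nat_lit 161) (nat_lit 3) (nat_lit 160) (nat_lit 1) (nat_lit 161) (nat_lit 1) (nat_lit 405) (nat_lit 355) (nat_lit 260)) (XT.nd (nat_lit 78) (nat_lit 0) (nat_lit 0) (XT.lf (nat_lit 152) (nat_lit 1233598399) (nat_lit 0) (nat_lit 88001065) (nat_lit 76) (nat_lit 88001065) (nat_lit 160) (nat_lit 1) (nat_lit 158) (nat_lit 1) (nat_lit 159) (nat_lit 1) (nat_lit 406) (nat_lit 355) (nat_lit 259)) (XT.lf (nat_lit 0) (nat_lit 379662087) (nat_lit 0) (nat_lit 627102724) (nat_lit 152) (nat_lit 379662087) (nat_lit 158) (nat_lit 3) (nat_lit 158) (nat_lit 1) (nat_lit 160) (nat_lit 1) (nat_lit 407) (nat_lit 355) (nat_lit 258))))) (XT.nd (nat_lit 234) (nat_lit 228) (nat_lit 0) (XT.nd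 (nat_lit 78) (nat_lit 152) (nat_lit 0) (XT.lf (nat_lit 76) (nat_lit 297519875) (nat_lit 0) (nat_lit 533177626) (nat_lit 76) (nat_lit 533177626) (nat_lit 158) (nat_lit 3) (nat_lit 157) (nat_lit 1) (nat_lit 158) (nat_lit 1) (nat_lit 408) (nat_lit 355) (nat_lit 257)) (XT.nd (nat_lit 78) (nat_lit 0) (nat_lit 0) (XT.lf (nat_lit 152) (nat_lit 1197135885) (nat_lit 0) (nat_lit 72398694) (nat_lit 76) (nat_lit 72398694) (nat_lit 157) (nat_lit 1) (nat_lit 155) (nat_lit 1) (nat_lit 156) (nat_lit 1) (nat_lit 409) (nat_lit 355) (nat_lit 256)) (XT.lf (nat_lit 0) (nat_lit 372103505) (nat_lit 0) (nat_lit 575673530) (nat_lit 152) (nat_lit 372103505) (nat_lit 155) (nat_lit 3) (nat_lit 155) (nat_lit 1) (nat_lit 157) (nat_lit 1) (nat_lit 410) (nat_lit 355) (nat_lit 255)))) (XT.nd (nat_lit 78) (nat_lit 152) (nat_lit 0) (XT.lf (nat_lit 76) (nat_lit 303561122) (nat_lit 0) (nat_lit 497437336) (nat_lit 76) (nat_lit 497437336)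 (nat_lit 155) (nat_lit 3) (nat_lit 154) (nat_lit 1) (nat_lit 155) (nat_lit 1) (nat_lit 411) (nat_lit 355) (nat_lit 254)) (XT.nd (nat_lit 78) (nat_lit 0) (nat_lit 0) (XT.lf (nat_lit 152) (nat_lit 1158459445) (nat_lit 0) (nat_lit 59562585) (nat_lit 76) (nat_lit 59562585) (nat_lit 154) (nat_lit 1) (nat_lit 152) (nat_lit 1) (nat_lit 153) (nat_lit 1) (nat_lit 412) (nat_lit 355) (nat_lit 253)) (XT.lf (nat_lit 0) (nat_lit 363039586) (nat_lit 0) (nat_lit 530517149) (nat_lit 152) (nat_lit 363039586) (nat_lit 152) (nat_lit 3) (nat_lit 152) (nat_lit 1) (nat_lit 154) (nat_lit 1) (nat_lit 413) (nat_lit 355) (nat_lit 252)))))) (XT.nd (nat_lit 468) (nat_lit 532) (nat_lit 0) (XT.nd (nat_lit 234) (nat_lit 228) (nat_lit 0) (XT.nd (nat_lit 78) (nat_lit 152) (nat_lit 0) (XT.lf (nat_lit 76) (nat_lit 305731708) (nat_lit 0) (nat_lit 465234150) (nat_lit 76) (nat_lit 465234150) (nat_lit 152) (nat_lit 3) (nat_lit 151) (nat_lit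 1) (nat_lit 152) (nat_lit 1) (nat_lit 414) (nat_lit 355) (nat_lit 251)) (XT.nd (nat_lit 78) (nat_lit 0) (nat_lit 0) (XT.lf (nat_lit 152) (nat_lit 1118374872) (nat_lit 0) (nat_lit 49002286) (nat_lit 76) (nat_lit 49002286) (nat_lit 151) (nat_lit 1) (nat_lit 149) (nat_lit 1) (nat_lit 150) (nat_lit 1) (nat_lit 415) (nat_lit 355) (nat_lit 250)) (XT.lf (nat_lit 0) (nat_lit 352872720) (nat_lit 0) (nat_lit 490656926) (nat_lit 152) (nat_lit 352872720) (nat_lit 149) (nat_lit 3) (nat_lit 149) (nat_lit 1) (nat_lit 151) (nat_lit 1) (nat_lit 416) (nat_lit 355) (nat_lit 249)))) (XT.nd (nat_lit 78) (nat_lit 152) (nat_lit 0) (XT.lf (nat_lit 76) (nat_lit 304851207) (nat_lit 0) (nat_lit 436074260) (nat_lit 76) (nat_lit 436074260) (nat_lit 149) (nat_lit 3) (nat_lit 148) (nat_lit 1) (nat_lit 149) (nat_lit 1) (nat_lit 417) (nat_lit 355) (nat_lit 248)) (XT.nd (nat_lit 78) (nat_lit 0) (nat_lit 0) (XT.lf (nat_lit 152)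 (nat_lit 1077525412) (nat_lit 0) (nat_lit 40314302) (nat_lit 76) (nat_lit 40314302) (nat_lit 148) (nat_lit 1) (nat_lit 146) (nat_lit 1) (nat_lit 147) (nat_lit 1) (nat_lit 418) (nat_lit 355) (nat_lit 247)) (XT.lf (nat_lit 0) (nat_lit 341927501) (nat_lit 0) (nat_lit 455282909) (nat_lit 152) (nat_lit 341927501) (nat_lit 146) (nat_lit 3) (nat_lit 146) (nat_lit 1) (nat_lit 148) (nat_lit 1) (nat_lit 419) (nat_lit 355) (nat_lit 246))))) (XT.nd (nat_lit 234) (nat_lit 304) (nat_lit 0) (XT.nd (nat_lit 78) (nat_lit 152) (nat_lit 0) (XT.lf (nat_lit 76) (nat_lit 301587532) (nat_lit 0) (nat_lit 409545062) (nat_lit 76) (nat_lit 409545062) (nat_lit 146) (nat_lit 3) (nat_lit 145) (nat_lit 1) (nat_lit 146) (nat_lit 1) (nat_lit 420) (nat_lit 355) (nat_lit 245)) (XT.nd (nat_lit 78) (nat_lit 0) (nat_lit 0) (XT.lf (nat_lit 152) (nat_lit 1036421525) (nat_lit 0) (nat_lit 33166676) (nat_lit 76) (nat_lit 33166676) (nat_lit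 145) (nat_lit 1) (nat_lit 143) (nat_lit 1) (nat_lit 144) (nat_lit 1) (nat_lit 421) (nat_lit 355) (nat_lit 244)) (XT.lf (nat_lit 0) (nat_lit 330464832) (nat_lit 0) (nat_lit 423722606) (nat_lit 152) (nat_lit 330464832) (nat_lit 143) (nat_lit 3) (nat_lit 143) (nat_lit 1) (nat_lit 145) (nat_lit 1) (nat_lit 422) (nat_lit 355) (nat_lit 243)))) (XT.nd (nat_lit 156) (nat_lit 76) (nat_lit 0) (XT.nd (nat_lit 78) (nat_lit 152) (nat_lit 0) (XT.lf (nat_lit 76) (nat_lit 296484132) (nat_lit 0) (nat_lit 385301060) (nat_lit 76) (nat_lit 385301060) (nat_lit 143) (nat_lit 3) (nat_lit 142) (nat_lit 1) (nat_lit 143) (nat_lit 1) (nat_lit 423) (nat_lit 355) (nat_lit 242)) (XT.lf (nat_lit 152) (nat_lit 995465318) (nat_lit 0) (nat_lit 27286306) (nat_lit 76) (nat_lit 27286306) (nat_lit 142) (nat_lit 1) (nat_lit 140) (nat_lit 1) (nat_lit 141) (nat_lit 1) (nat_lit 424) (nat_lit 355) (nat_lit 241))) (XT.nd (nat_lit 78) (nat_lit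 76) (nat_lit 0) (XT.lf (nat_lit 0) (nat_lit 318693502) (nat_lit 0) (nat_lit 395416903) (nat_lit 152) (nat_lit 318693502) (nat_lit 140) (nat_lit 3) (nat_lit 140) (nat_lit 1) (nat_lit 142) (nat_lit 1) (nat_lit 425) (nat_lit 355) (nat_lit 240)) (XT.lf (nat_lit 76) (nat_lit 289982346) (nat_lit 0) (nat_lit 363052253) (nat_lit 76) (nat_lit 363052253) (nat_lit 140) (nat_lit 3) (nat_lit 139) (nat_lit 1) (nat_lit 140) (nat_lit 1) (nat_lit 426) (nat_lit 355) (nat_lit 239))))))) (XT.nd (nat_lit 936) (nat_lit 912) (nat_lit 0) (XT.nd (nat_lit 468) (nat_lit 456) (nat_lit 0) (XT.nd (nat_lit 234) (nat_lit 228) (nat_lit 0) (XT.nd (nat_lit 78) (nat_lit 76) (nat_lit 0) (XT.lf (nat_lit 152) (nat_lit 954970603) (nat_lit 0) (nat_lit 22448511) (nat_lit 76) (nat_lit 22448511) (nat_lit 139) (nat_lit 1) (nat_lit 137) (nat_lit 1) (nat_lit 138) (nat_lit 1) (nat_lit 427) (nat_lit 355) (nat_lit 238)) (XT.nd (nat_lit 78) (nat_lit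 76) (nat_lit 0) (XT.lf (nat_lit 0) (nat_lit 306779710) (nat_lit 0) (nat_lit 369900243) (nat_lit 152) (nat_lit 306779710) (nat_lit 137) (nat_lit 3) (nat_lit 137) (nat_lit 1) (nat_lit 139) (nat_lit 1) (nat_lit 428) (nat_lit 355) (nat_lit 237)) (XT.lf (nat_lit 76) (nat_lit 282439782) (nat_lit 0) (nat_lit 342554575) (nat_lit 76) (nat_lit 342554575) (nat_lit 137) (nat_lit 3) (nat_lit 136) (nat_lit 1) (nat_lit 137) (nat_lit 1) (nat_lit 429) (nat_lit 355) (nat_lit 236)))) (XT.nd (nat_lit 78) (nat_lit 76) (nat_lit 0) (XT.lf (nat_lit 152) (nat_lit 915179367) (nat_lit 0) (nat_lit 18468446) (nat_lit 76) (nat_lit 18468446) (nat_lit 136) (nat_lit 1) (nat_lit 134) (nat_lit 1) (nat_lit 135) (nat_lit 1) (nat_lit 430) (nat_lit 355) (nat_lit 235)) (XT.nd (nat_lit 78) (nat_lit 76) (nat_lit 0) (XT.lf (nat_lit 0) (nat_lit 294854882) (nat_lit 0) (nat_lit 346784300) (nat_lit 152) (nat_lit 294854882) (nat_lit 134) (nat_lit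 3) (nat_lit 134) (nat_lit 1) (nat_lit 136) (nat_lit 1) (nat_lit 431) (nat_lit 355) (nat_lit 234)) (XT.lf (nat_lit 76) (nat_lit 274145420) (nat_lit 0) (nat_lit 323602009) (nat_lit 76) (nat_lit 323602009) (nat_lit 134) (nat_lit 3) (nat_lit 133) (nat_lit 1) (nat_lit 134) (nat_lit 1) (nat_lit 432) (nat_lit 355) (nat_lit 233))))) (XT.nd (nat_lit 234) (nat_lit 228) (nat_lit 0) (XT.nd (nat_lit 78) (nat_lit 76) (nat_lit 0) (XT.lf (nat_lit 152) (nat_lit 876275271) (nat_lit 0) (nat_lit 15194036) (nat_lit 76) (nat_lit 15194036) (nat_lit 133) (nat_lit 1) (nat_lit 131) (nat_lit 1) (nat_lit 132) (nat_lit 1) (nat_lit 433) (nat_lit 355) (nat_lit 232)) (XT.nd (nat_lit 78) (nat_lit 76) (nat_lit 0) (XT.lf (nat_lit 0) (nat_lit 283022084) (nat_lit 0) (nat_lit 325744545) (nat_lit 152) (nat_lit 283022084) (nat_lit 131) (nat_lit 3) (nat_lit 131) (nat_lit 1) (nat_lit 133) (nat_lit 1) (nat_lit 434) (nat_lit 355) (nat_lit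 231)) (XT.lf (nat_lit 76) (nat_lit 265332032) (nat_lit 0) (nat_lit 306020090) (nat_lit 76) (nat_lit 306020090) (nat_lit 131) (nat_lit 3) (nat_lit 130) (nat_lit 1) (nat_lit 131) (nat_lit 1) (nat_lit 435) (nat_lit 355) (nat_lit 230)))) (XT.nd (nat_lit 78) (nat_lit 76) (nat_lit 0) (XT.lf (nat_lit 152) (nat_lit 838394731) (nat_lit 0) (nat_lit 12500171) (nat_lit 76) (nat_lit 12500171) (nat_lit 130) (nat_lit 1) (nat_lit 128) (nat_lit 1) (nat_lit 129) (nat_lit 1) (nat_lit 436) (nat_lit 355) (nat_lit 229)) (XT.nd (nat_lit 78) (nat_lit 76) (nat_lit 0) (XT.lf (nat_lit 0) (nat_lit 271361296) (nat_lit 0) (nat_lit 306509170) (nat_lit 152) (nat_lit 271361296) (nat_lit 128) (nat_lit 3) (nat_lit 128) (nat_lit 1) (nat_lit 130) (nat_lit 1) (nat_lit 437) (nat_lit 355) (nat_lit 228)) (XT.lf (nat_lit 76) (nat_lit 256186383) (nat_lit 0) (nat_lit 289660549) (nat_lit 76) (nat_lit 289660549) (nat_lit 128) (nat_lit 3) (nat_lit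 127) (nat_lit 1) (nat_lit 128) (nat_lit 1) (nat_lit 438) (nat_lit 355) (nat_lit 227)))))) (XT.nd (nat_lit 468) (nat_lit 456) (nat_lit 0) (XT.nd (nat_lit 234) (nat_lit 228) (nat_lit 0) (XT.nd (nat_lit 78) (nat_lit 76) (nat_lit 0) (XT.lf (nat_lit 152) (nat_lit 801635988) (nat_lit 0) (nat_lit 10283921) (nat_lit 76) (nat_lit 10283921) (nat_lit 127) (nat_lit 1) (nat_lit 125) (nat_lit 1) (nat_lit 126) (nat_lit 1) (nat_lit 439) (nat_lit 355) (nat_lit 226)) (XT.nd (nat_lit 78) (nat_lit 76) (nat_lit 0) (XT.lf (nat_lit 0) (nat_lit 259933730) (nat_lit 0) (nat_lit 288849973) (nat_lit 152) (nat_lit 259933730) (nat_lit 125) (nat_lit 3) (nat_lit 125) (nat_lit 1) (nat_lit 127) (nat_lit 1) (nat_lit 440) (nat_lit 355) (nat_lit 225)) (XT.lf (nat_lit 76) (nat_lit 246857612) (nat_lit 0) (nat_lit 274396891) (nat_lit 76) (nat_lit 274396891) (nat_lit 125) (nat_lit 3) (nat_lit 124) (nat_lit 1) (nat_lit 125) (nat_lit 1)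 (nat_lit 441) (nat_lit 355) (nat_lit 224)))) (XT.nd (nat_lit 78) (nat_lit 76) (nat_lit 0) (XT.lf (nat_lit 152) (nat_lit 766066547) (nat_lit 0) (nat_lit 8460608) (nat_lit 76) (nat_lit 8460608) (nat_lit 124) (nat_lit 1) (nat_lit 122) (nat_lit 1) (nat_lit 123) (nat_lit 1) (nat_lit 442) (nat_lit 355) (nat_lit 223)) (XT.nd (nat_lit 78) (nat_lit 76) (nat_lit 0) (XT.lf (nat_lit 0) (nat_lit 248785381) (nat_lit 0) (nat_lit 272574846) (nat_lit 152) (nat_lit 248785381) (nat_lit 122) (nat_lit 3) (nat_lit 122) (nat_lit 1) (nat_lit 124) (nat_lit 1) (nat_lit 443) (nat_lit 355) (nat_lit 222)) (XT.lf (nat_lit 76) (nat_lit 237464122) (nat_lit 0) (nat_lit 260120755) (nat_lit 76) (nat_lit 260120755) (nat_lit 122) (nat_lit 3) (nat_lit 121) (nat_lit 1) (nat_lit 122) (nat_lit 1) (nat_lit 444) (nat_lit 355) (nat_lit 221))))) (XT.nd (nat_lit 234) (nat_lit 228) (nat_lit 0) (XT.nd (nat_lit 78) (nat_lit 76) (nat_lit 0) (XT.lf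 (nat_lit 152) (nat_lit 731729260) (nat_lit 0) (nat_lit 6960563) (nat_lit 76) (nat_lit 6960563) (nat_lit 121) (nat_lit 1) (nat_lit 119) (nat_lit 1) (nat_lit 120) (nat_lit 1) (nat_lit 445) (nat_lit 355) (nat_lit 220)) (XT.nd (nat_lit 78) (nat_lit 76) (nat_lit 0) (XT.lf (nat_lit 0) (nat_lit 237949927) (nat_lit 0) (nat_lit 257521579) (nat_lit 152) (nat_lit 237949927) (nat_lit 119) (nat_lit 3) (nat_lit 119) (nat_lit 1) (nat_lit 121) (nat_lit 1) (nat_lit 446) (nat_lit 355) (nat_lit 219)) (XT.lf (nat_lit 76) (nat_lit 228099229) (nat_lit 0) (nat_lit 246738897) (nat_lit 76) (nat_lit 246738897) (nat_lit 119) (nat_lit 3) (nat_lit 118) (nat_lit 1) (nat_lit 119) (nat_lit 1) (nat_lit 447) (nat_lit 355) (nat_lit 218)))) (XT.nd (nat_lit 156) (nat_lit 76) (nat_lit 0) (XT.nd (nat_lit 78) (nat_lit 0) (nat_lit 0) (XT.lf (nat_lit 152) (nat_lit 698647297) (nat_lit 0) (nat_lit 5726472) (nat_lit 76) (nat_lit 5726472)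 (nat_lit 118) (nat_lit 1) (nat_lit 116) (nat_lit 1) (nat_lit 117) (nat_lit 1) (nat_lit 448) (nat_lit 355) (nat_lit 217)) (XT.lf (nat_lit 0) (nat_lit 227451117) (nat_lit 0) (nat_lit 243552763) (nat_lit 152) (nat_lit 227451117) (nat_lit 116) (nat_lit 3) (nat_lit 116) (nat_lit 1) (nat_lit 118) (nat_lit 1) (nat_lit 449) (nat_lit 355) (nat_lit 216))) (XT.nd (nat_lit 42042) (nat_lit 0) (nat_lit 13452) (XT.lf (nat_lit 76) (nat_lit 218835808) (nat_lit 0) (nat_lit 234170709) (nat_lit 76) (nat_lit 234170709) (nat_lit 116) (nat_lit 3) (nat_lit 115) (nat_lit 1) (nat_lit 116) (nat_lit 1) (nat_lit 450) (nat_lit 355) (nat_lit 215)) (XT.lf (nat_lit 836) (nat_lit 1172947203) (nat_lit 0) (nat_lit 2082565063) (nat_lit 836) (nat_lit 1172947203) (nat_lit 303) (nat_lit 1) (nat_lit 292) (nat_lit 0) (nat_lit 303) (nat_lit 0) (nat_lit 308) (nat_lit 356) (nat_lit 356))))))))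
noncomputable def ec95 : XT := (XT.nd (nat_lit 1950) (nat_lit 3344) (nat_lit 0) (XT.nd (nat_lit 936) (nat_lit 2280) (nat_lit 0) (XT.nd (nat_lit 468) (nat_lit 912) (nat_lit 0) (XT.nd (nat_lit 234) (nat_lit 0) (nat_lit 152) (XT.nd (nat_lit 78) (nat_lit 0) (nat_lit 76) (XT.lf (nat_lit 836) (nat_lit 4546489796) (nat_lit 76) (nat_lit 2048975304) (nat_lit 0) (nat_lit 2048975304) (nat_lit 303) (nat_lit 1) (nat_lit 293) (nat_lit 1) (nat_lit 292) (nat_lit 0) (nat_lit 309) (nat_lit 356) (nat_lit 355)) (XT.nd (nat_lit 78) (nat_lit 0) (nat_lit 0) (XT.lf (nat_lit 836) (nat_lit 2166788580) (nat_lit 0) (nat_lit 4104953562) (nat_lit 760) (nat_lit 2166788580) (nat_lit 304) (nat_lit 1) (nat_lit 293) (nat_lit 1) (nat_lit 303) (nat_lit 1) (nat_lit 310) (nat_lit 356) (nat_lit 354)) (XT.lf (nat_lit 836) (nat_lit 4064594294) (nat_lit 76) (nat_lit 2087339582) (nat_lit 0) (nat_lit 2087339582) (nat_lit 304) (nat_lit 1)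 (nat_lit 294) (nat_lit 1) (nat_lit 293) (nat_lit 1) (nat_lit 311) (nat_lit 356) (nat_lit 353)))) (XT.nd (nat_lit 78) (nat_lit 0) (nat_lit 0) (XT.lf (nat_lit 836) (nat_lit 1870893721) (nat_lit 0) (nat_lit 4304544207) (nat_lit 760) (nat_lit 1870893721) (nat_lit 305) (nat_lit 1) (nat_lit 294) (nat_lit 1) (nat_lit 304) (nat_lit 1) (nat_lit 312) (nat_lit 356) (nat_lit 352)) (XT.nd (nat_lit 78) (nat_lit 0) (nat_lit 76) (XT.lf (nat_lit 836) (nat_lit 3364924212) (nat_lit 76) (nat_lit 2247173615) (nat_lit 0) (nat_lit 2247173615) (nat_lit 305) (nat_lit 1) (nat_lit 295) (nat_lit 1) (nat_lit 294) (nat_lit 1) (nat_lit 313) (nat_lit 356) (nat_lit 351)) (XT.lf (nat_lit 836) (nat_lit 1475422079) (nat_lit 0) (nat_lit 4727647914) (nat_lit 760) (nat_lit 1475422079) (nat_lit 306) (nat_lit 1) (nat_lit 295) (nat_lit 1) (nat_lit 305) (nat_lit 1) (nat_lit 314) (nat_lit 356) (nat_lit 350))))) (XT.nd (nat_lit 234) (nat_lit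 1140) (nat_lit 0) (XT.nd (nat_lit 78) (nat_lit 0) (nat_lit 76) (XT.lf (nat_lit 836) (nat_lit 2480229816) (nat_lit 76) (nat_lit 2511230180) (nat_lit 0) (nat_lit 2511230180) (nat_lit 306) (nat_lit 1) (nat_lit 296) (nat_lit 1) (nat_lit 295) (nat_lit 1) (nat_lit 315) (nat_lit 356) (nat_lit 349)) (XT.nd (nat_lit 78) (nat_lit 0) (nat_lit 0) (XT.lf (nat_lit 836) (nat_lit 995683088) (nat_lit 0) (nat_lit 5341957456) (nat_lit 760) (nat_lit 995683088) (nat_lit 307) (nat_lit 1) (nat_lit 296) (nat_lit 1) (nat_lit 306) (nat_lit 1) (nat_lit 316) (nat_lit 356) (nat_lit 348)) (XT.lf (nat_lit 836) (nat_lit 1439621153) (nat_lit 76) (nat_lit 2864149061) (nat_lit 0) (nat_lit 2864149061) (nat_lit 307) (nat_lit 1) (nat_lit 297) (nat_lit 1) (nat_lit 296) (nat_lit 1) (nat_lit 317) (nat_lit 356) (nat_lit 347)))) (XT.nd (nat_lit 78) (nat_lit 1292) (nat_lit 0) (XT.lf (nat_lit 76) (nat_lit 445274678) (nat_lit 0) (nat_lit 6118718136)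 (nat_lit 760) (nat_lit 445274678) (nat_lit 298) (nat_lit 1) (nat_lit 297) (nat_lit 1) (nat_lit 307) (nat_lit 1) (nat_lit 318) (nat_lit 356) (nat_lit 346)) (XT.nd (nat_lit 78) (nat_lit 532) (nat_lit 0) (XT.lf (nat_lit 836) (nat_lit 268934832) (nat_lit 0) (nat_lit 3292268122) (nat_lit 760) (nat_lit 3292268122) (nat_lit 298) (nat_lit 1) (nat_lit 287) (nat_lit 1) (nat_lit 297) (nat_lit 1) (nat_lit 319) (nat_lit 356) (nat_lit 345)) (XT.lf (nat_lit 532) (nat_lit 6382162263) (nat_lit 0) (nat_lit 161102853) (nat_lit 456) (nat_lit 161102853) (nat_lit 287) (nat_lit 1) (nat_lit 280) (nat_lit 1) (nat_lit 286) (nat_lit 1) (nat_lit 320) (nat_lit 356) (nat_lit 344)))))) (XT.nd (nat_lit 468) (nat_lit 1216) (nat_lit 0) (XT.nd (nat_lit 234) (nat_lit 684) (nat_lit 0) (XT.nd (nat_lit 78) (nat_lit 380) (nat_lit 0) (XT.lf (nat_lit 76) (nat_lit 2790270234) (nat_lit 0) (nat_lit 976642426) (nat_lit 532) (nat_lit 2790270234)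 (nat_lit 281) (nat_lit 1) (nat_lit 280) (nat_lit 1) (nat_lit 287) (nat_lit 1) (nat_lit 321) (nat_lit 356) (nat_lit 343)) (XT.nd (nat_lit 78) (nat_lit 0) (nat_lit 0) (XT.lf (nat_lit 456) (nat_lit 4801338841) (nat_lit 0) (nat_lit 807458840) (nat_lit 380) (nat_lit 807458840) (nat_lit 281) (nat_lit 1) (nat_lit 275) (nat_lit 1) (nat_lit 280) (nat_lit 1) (nat_lit 322) (nat_lit 356) (nat_lit 342)) (XT.lf (nat_lit 76) (nat_lit 1990265790) (nat_lit 0) (nat_lit 2297761229) (nat_lit 456) (nat_lit 1990265790) (nat_lit 276) (nat_lit 1) (nat_lit 275) (nat_lit 1) (nat_lit 281) (nat_lit 1) (nat_lit 323) (nat_lit 356) (nat_lit 341)))) (XT.nd (nat_lit 78) (nat_lit 304) (nat_lit 0) (XT.lf (nat_lit 456) (nat_lit 3161749716) (nat_lit 0) (nat_lit 1491692145) (nat_lit 380) (nat_lit 1491692145) (nat_lit 276) (nat_lit 1) (nat_lit 270) (nat_lit 1) (nat_lit 275) (nat_lit 1) (nat_lit 324) (nat_lit 356) (nat_lit 340)) (XT.nd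 (nat_lit 78) (nat_lit 304) (nat_lit 0) (XT.lf (nat_lit 76) (nat_lit 1165062750) (nat_lit 0) (nat_lit 3685722409) (nat_lit 456) (nat_lit 1165062750) (nat_lit 271) (nat_lit 1) (nat_lit 270) (nat_lit 1) (nat_lit 276) (nat_lit 1) (nat_lit 325) (nat_lit 356) (nat_lit 339)) (XT.lf (nat_lit 380) (nat_lit 1478655303) (nat_lit 0) (nat_lit 2205616087) (nat_lit 304) (nat_lit 2205616087) (nat_lit 271) (nat_lit 1) (nat_lit 266) (nat_lit 1) (nat_lit 270) (nat_lit 1) (nat_lit 326) (nat_lit 356) (nat_lit 338))))) (XT.nd (nat_lit 234) (nat_lit 532) (nat_lit 0) (XT.nd (nat_lit 78) (nat_lit 684) (nat_lit 0) (XT.lf (nat_lit 76) (nat_lit 321745527) (nat_lit 0) (nat_lit 5125279809) (nat_lit 380) (nat_lit 321745527) (nat_lit 267) (nat_lit 1) (nat_lit 266) (nat_lit 1) (nat_lit 271) (nat_lit 1) (nat_lit 327) (nat_lit 356) (nat_lit 337)) (XT.nd (nat_lit 78) (nat_lit 304) (nat_lit 0) (XT.lf (nat_lit 76) (nat_lit 2711120269)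 (nat_lit 0) (nat_lit 227061588) (nat_lit 380) (nat_lit 2711120269) (nat_lit 262) (nat_lit 1) (nat_lit 261) (nat_lit 1) (nat_lit 266) (nat_lit 1) (nat_lit 328) (nat_lit 356) (nat_lit 336)) (XT.lf (nat_lit 380) (nat_lit 4484620473) (nat_lit 0) (nat_lit 524881289) (nat_lit 304) (nat_lit 524881289) (nat_lit 262) (nat_lit 1) (nat_lit 257) (nat_lit 1) (nat_lit 261) (nat_lit 1) (nat_lit 329) (nat_lit 356) (nat_lit 335)))) (XT.nd (nat_lit 156) (nat_lit 228) (nat_lit 0) (XT.nd (nat_lit 78) (nat_lit 304) (nat_lit 0) (XT.lf (nat_lit 76) (nat_lit 1759065307) (nat_lit 0) (nat_lit 1903304825) (nat_lit 380) (nat_lit 1759065307) (nat_lit 258) (nat_lit 1) (nat_lit 257) (nat_lit 1) (nat_lit 262) (nat_lit 1) (nat_lit 330) (nat_lit 356) (nat_lit 334)) (XT.lf (nat_lit 380) (nat_lit 2566965617) (nat_lit 0) (nat_lit 1372719418) (nat_lit 304) (nat_lit 1372719418) (nat_lit 258) (nat_lit 1) (nat_lit 253) (nat_lit 1) (nat_lit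 257) (nat_lit 1) (nat_lit 331) (nat_lit 356) (nat_lit 333))) (XT.nd (nat_lit 78) (nat_lit 228) (nat_lit 0) (XT.lf (nat_lit 76) (nat_lit 809506393) (nat_lit 0) (nat_lit 3587548755) (nat_lit 380) (nat_lit 809506393) (nat_lit 254) (nat_lit 1) (nat_lit 253) (nat_lit 1) (nat_lit 258) (nat_lit 1) (nat_lit 332) (nat_lit 356) (nat_lit 332)) (XT.lf (nat_lit 304) (nat_lit 658336879) (nat_lit 0) (nat_lit 2222333238) (nat_lit 228) (nat_lit 2222333238) (nat_lit 254) (nat_lit 1) (nat_lit 250) (nat_lit 1) (nat_lit 253) (nat_lit 1) (nat_lit 333) (nat_lit 356) (nat_lit 331))))))) (XT.nd (nat_lit 1014) (nat_lit 1368) (nat_lit 0) (XT.nd (nat_lit 468) (nat_lit 836) (nat_lit 0) (XT.nd (nat_lit 234) (nat_lit 532) (nat_lit 0) (XT.nd (nat_lit 78) (nat_lit 228) (nat_lit 0) (XT.lf (nat_lit 380) (nat_lit 4740369287) (nat_lit 0) (nat_lit 131536151) (nat_lit 304) (nat_lit 131536151) (nat_lit 250) (nat_lit 1) (nat_lit 245)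 (nat_lit 1) (nat_lit 249) (nat_lit 1) (nat_lit 334) (nat_lit 356) (nat_lit 330)) (XT.nd (nat_lit 78) (nat_lit 228) (nat_lit 0) (XT.lf (nat_lit 76) (nat_lit 1854941546) (nat_lit 0) (nat_lit 1194547793) (nat_lit 380) (nat_lit 1854941546) (nat_lit 246) (nat_lit 1) (nat_lit 245) (nat_lit 1) (nat_lit 250) (nat_lit 1) (nat_lit 335) (nat_lit 356) (nat_lit 329)) (XT.lf (nat_lit 304) (nat_lit 2709200772) (nat_lit 0) (nat_lit 1050008367) (nat_lit 228) (nat_lit 1050008367) (nat_lit 246) (nat_lit 1) (nat_lit 242) (nat_lit 1) (nat_lit 245) (nat_lit 1) (nat_lit 336) (nat_lit 356) (nat_lit 328)))) (XT.nd (nat_lit 78) (nat_lit 532) (nat_lit 0) (XT.lf (nat_lit 76) (nat_lit 855878430) (nat_lit 0) (nat_lit 3004666325) (nat_lit 304) (nat_lit 855878430) (nat_lit 243) (nat_lit 1) (nat_lit 242) (nat_lit 1) (nat_lit 246) (nat_lit 1) (nat_lit 337) (nat_lit 356) (nat_lit 327)) (XT.nd (nat_lit 78) (nat_lit 304) (nat_lit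 0) (XT.lf (nat_lit 304) (nat_lit 713347920) (nat_lit 0) (nat_lit 1956195996) (nat_lit 228) (nat_lit 1956195996) (nat_lit 243) (nat_lit 1) (nat_lit 239) (nat_lit 1) (nat_lit 242) (nat_lit 1) (nat_lit 338) (nat_lit 356) (nat_lit 326)) (XT.lf (nat_lit 304) (nat_lit 4293233219) (nat_lit 0) (nat_lit 122596208) (nat_lit 228) (nat_lit 122596208) (nat_lit 239) (nat_lit 1) (nat_lit 235) (nat_lit 1) (nat_lit 238) (nat_lit 1) (nat_lit 339) (nat_lit 356) (nat_lit 325))))) (XT.nd (nat_lit 234) (nat_lit 608) (nat_lit 0) (XT.nd (nat_lit 78) (nat_lit 228) (nat_lit 0) (XT.lf (nat_lit 76) (nat_lit 1624007176) (nat_lit 0) (nat_lit 1203373011) (nat_lit 304) (nat_lit 1624007176) (nat_lit 236) (nat_lit 1) (nat_lit 235) (nat_lit 1) (nat_lit 239) (nat_lit 1) (nat_lit 340) (nat_lit 356) (nat_lit 324)) (XT.nd (nat_lit 78) (nat_lit 0) (nat_lit 0) (XT.lf (nat_lit 304) (nat_lit 2233158571) (nat_lit 0) (nat_lit 1067205474)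 (nat_lit 228) (nat_lit 1067205474) (nat_lit 236) (nat_lit 1) (nat_lit 232) (nat_lit 1) (nat_lit 235) (nat_lit 1) (nat_lit 341) (nat_lit 356) (nat_lit 323)) (XT.lf (nat_lit 76) (nat_lit 615010049) (nat_lit 0) (nat_lit 3055979611) (nat_lit 304) (nat_lit 615010049) (nat_lit 233) (nat_lit 1) (nat_lit 232) (nat_lit 1) (nat_lit 236) (nat_lit 1) (nat_lit 342) (nat_lit 356) (nat_lit 322)))) (XT.nd (nat_lit 156) (nat_lit 152) (nat_lit 0) (XT.nd (nat_lit 78) (nat_lit 304) (nat_lit 0) (XT.lf (nat_lit 228) (nat_lit 225360130) (nat_lit 0) (nat_lit 1990303451) (nat_lit 152) (nat_lit 1990303451) (nat_lit 233) (nat_lit 1) (nat_lit 230) (nat_lit 1) (nat_lit 232) (nat_lit 1) (nat_lit 343) (nat_lit 356) (nat_lit 321)) (XT.lf (nat_lit 304) (nat_lit 3405116008) (nat_lit 0) (nat_lit 361648001) (nat_lit 228) (nat_lit 361648001) (nat_lit 230) (nat_lit 1) (nat_lit 226) (nat_lit 1) (nat_lit 229) (nat_lit 1) (nat_lit 344)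 (nat_lit 356) (nat_lit 320))) (XT.nd (nat_lit 78) (nat_lit 152) (nat_lit 0) (XT.lf (nat_lit 76) (nat_lit 1189326194) (nat_lit 0) (nat_lit 1673071980) (nat_lit 304) (nat_lit 1189326194) (nat_lit 227) (nat_lit 1) (nat_lit 226) (nat_lit 1) (nat_lit 230) (nat_lit 1) (nat_lit 345) (nat_lit 356) (nat_lit 319)) (XT.lf (nat_lit 228) (nat_lit 1374082955) (nat_lit 0) (nat_lit 1301660280) (nat_lit 152) (nat_lit 1301660280) (nat_lit 227) (nat_lit 1) (nat_lit 224) (nat_lit 1) (nat_lit 226) (nat_lit 1) (nat_lit 346) (nat_lit 356) (nat_lit 318)))))) (XT.nd (nat_lit 468) (nat_lit 608) (nat_lit 0) (XT.nd (nat_lit 234) (nat_lit 380) (nat_lit 0) (XT.nd (nat_lit 78) (nat_lit 380) (nat_lit 0) (XT.lf (nat_lit 76) (nat_lit 197412106) (nat_lit 0) (nat_lit 3510724875) (nat_lit 228) (nat_lit 197412106) (nat_lit 225) (nat_lit 1) (nat_lit 224) (nat_lit 1) (nat_lit 227) (nat_lit 1) (nat_lit 347) (nat_lit 356) (nat_lit 317))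 (XT.nd (nat_lit 78) (nat_lit 152) (nat_lit 0) (XT.lf (nat_lit 76) (nat_lit 1629276750) (nat_lit 0) (nat_lit 575402355) (nat_lit 228) (nat_lit 1629276750) (nat_lit 222) (nat_lit 1) (nat_lit 221) (nat_lit 1) (nat_lit 224) (nat_lit 1) (nat_lit 348) (nat_lit 356) (nat_lit 316)) (XT.lf (nat_lit 228) (nat_lit 2262536323) (nat_lit 0) (nat_lit 751100758) (nat_lit 152) (nat_lit 751100758) (nat_lit 222) (nat_lit 1) (nat_lit 219) (nat_lit 1) (nat_lit 221) (nat_lit 1) (nat_lit 349) (nat_lit 356) (nat_lit 315)))) (XT.nd (nat_lit 78) (nat_lit 380) (nat_lit 0) (XT.lf (nat_lit 76) (nat_lit 638428887) (nat_lit 0) (nat_lit 2420191916) (nat_lit 228) (nat_lit 638428887) (nat_lit 220) (nat_lit 1) (nat_lit 219) (nat_lit 1) (nat_lit 222) (nat_lit 1) (nat_lit 350) (nat_lit 356) (nat_lit 314)) (XT.nd (nat_lit 78) (nat_lit 228) (nat_lit 0) (XT.lf (nat_lit 228) (nat_lit 299080948) (nat_lit 0) (nat_lit 1665822507) (nat_lit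 152) (nat_lit 1665822507) (nat_lit 220) (nat_lit 1) (nat_lit 217) (nat_lit 1) (nat_lit 219) (nat_lit 1) (nat_lit 351) (nat_lit 356) (nat_lit 313)) (XT.lf (nat_lit 228) (nat_lit 2939560780) (nat_lit 0) (nat_lit 313381618) (nat_lit 152) (nat_lit 313381618) (nat_lit 217) (nat_lit 1) (nat_lit 214) (nat_lit 1) (nat_lit 216) (nat_lit 1) (nat_lit 352) (nat_lit 356) (nat_lit 312))))) (XT.nd (nat_lit 234) (nat_lit 456) (nat_lit 0) (XT.nd (nat_lit 78) (nat_lit 152) (nat_lit 0) (XT.lf (nat_lit 76) (nat_lit 978586987) (nat_lit 0) (nat_lit 1545297758) (nat_lit 228) (nat_lit 978586987) (nat_lit 215) (nat_lit 1) (nat_lit 214) (nat_lit 1) (nat_lit 217) (nat_lit 1) (nat_lit 353) (nat_lit 356) (nat_lit 311)) (XT.nd (nat_lit 78) (nat_lit 0) (nat_lit 0) (XT.lf (nat_lit 228) (nat_lit 996643335) (nat_lit 0) (nat_lit 1221914917) (nat_lit 152) (nat_lit 1221914917) (nat_lit 215) (nat_lit 1) (nat_lit 212) (nat_lit 1) (nat_lit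 214) (nat_lit 1) (nat_lit 354) (nat_lit 356) (nat_lit 310)) (XT.lf (nat_lit 76) (nat_lit 32756917) (nat_lit 0) (nat_lit 3315135064) (nat_lit 228) (nat_lit 32756917) (nat_lit 213) (nat_lit 1) (nat_lit 212) (nat_lit 1) (nat_lit 215) (nat_lit 1) (nat_lit 355) (nat_lit 356) (nat_lit 309)))) (XT.nd (nat_lit 156) (nat_lit 152) (nat_lit 0) (XT.nd (nat_lit 78) (nat_lit 152) (nat_lit 0) (XT.lf (nat_lit 76) (nat_lit 1236847804) (nat_lit 0) (nat_lit 846748747) (nat_lit 152) (nat_lit 1236847804) (nat_lit 211) (nat_lit 1) (nat_lit 210) (nat_lit 1) (nat_lit 212) (nat_lit 1) (nat_lit 356) (nat_lit 356) (nat_lit 308)) (XT.lf (nat_lit 228) (nat_lit 1534787318) (nat_lit 0) (nat_lit 863785395) (nat_lit 152) (nat_lit 863785395) (nat_lit 211) (nat_lit 1) (nat_lit 208) (nat_lit 1) (nat_lit 210) (nat_lit 1) (nat_lit 357) (nat_lit 356) (nat_lit 307))) (XT.nd (nat_lit 78) (nat_lit 152) (nat_lit 0) (XT.lf (nat_lit 76) (nat_lit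 307714250) (nat_lit 0) (nat_lit 2590411259) (nat_lit 228) (nat_lit 307714250) (nat_lit 209) (nat_lit 1) (nat_lit 208) (nat_lit 1) (nat_lit 211) (nat_lit 1) (nat_lit 358) (nat_lit 356) (nat_lit 306)) (XT.lf (nat_lit 76) (nat_lit 1428759528) (nat_lit 0) (nat_lit 292268439) (nat_lit 152) (nat_lit 1428759528) (nat_lit 207) (nat_lit 1) (nat_lit 206) (nat_lit 1) (nat_lit 208) (nat_lit 1) (nat_lit 359) (nat_lit 356) (nat_lit 305))))))))
noncomputable def ec96 : XT := (XT.nd (nat_lit 1950) (nat_lit 1900) (nat_lit 0) (XT.nd (nat_lit 936) (nat_lit 912) (nat_lit 0) (XT.nd (nat_lit 468) (nat_lit 608) (nat_lit 0) (XT.nd (nat_lit 234) (nat_lit 304) (nat_lit 0) (XT.nd (nat_lit 78) (nat_lit 76) (nat_lit 0) (XT.lf (nat_lit 228) (nat_lit 1943479401) (nat_lit 0) (nat_lit 575888829) (nat_lit 152) (nat_lit 575888829) (nat_lit 207) (nat_lit 1) (nat_lit 204) (nat_lit 1) (nat_lit 206) (nat_lit 1) (nat_lit 360) (nat_lit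 356) (nat_lit 304)) (XT.nd (nat_lit 78) (nat_lit 76) (nat_lit 0) (XT.lf (nat_lit 76) (nat_lit 520552563) (nat_lit 0) (nat_lit 2000701027) (nat_lit 228) (nat_lit 520552563) (nat_lit 205) (nat_lit 1) (nat_lit 204) (nat_lit 1) (nat_lit 207) (nat_lit 1) (nat_lit 361) (nat_lit 356) (nat_lit 303)) (XT.lf (nat_lit 152) (nat_lit 149431684) (nat_lit 0) (nat_lit 1419966104) (nat_lit 76) (nat_lit 1419966104) (nat_lit 205) (nat_lit 1) (nat_lit 203) (nat_lit 1) (nat_lit 204) (nat_lit 1) (nat_lit 362) (nat_lit 356) (nat_lit 302)))) (XT.nd (nat_lit 78) (nat_lit 76) (nat_lit 0) (XT.lf (nat_lit 228) (nat_lit 2247292052) (nat_lit 0) (nat_lit 345452257) (nat_lit 152) (nat_lit 345452257) (nat_lit 203) (nat_lit 1) (nat_lit 200) (nat_lit 1) (nat_lit 202) (nat_lit 1) (nat_lit 363) (nat_lit 356) (nat_lit 301)) (XT.nd (nat_lit 78) (nat_lit 76) (nat_lit 0) (XT.lf (nat_lit 76) (nat_lit 682922061) (nat_lit 0) (nat_lit 1521756233)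 (nat_lit 228) (nat_lit 682922061) (nat_lit 201) (nat_lit 1) (nat_lit 200) (nat_lit 1) (nat_lit 203) (nat_lit 1) (nat_lit 364) (nat_lit 356) (nat_lit 300)) (XT.lf (nat_lit 152) (nat_lit 501825449) (nat_lit 0) (nat_lit 1168209628) (nat_lit 76) (nat_lit 1168209628) (nat_lit 201) (nat_lit 1) (nat_lit 199) (nat_lit 1) (nat_lit 200) (nat_lit 1) (nat_lit 365) (nat_lit 356) (nat_lit 299))))) (XT.nd (nat_lit 234) (nat_lit 304) (nat_lit 0) (XT.nd (nat_lit 78) (nat_lit 76) (nat_lit 0) (XT.lf (nat_lit 228) (nat_lit 2466363913) (nat_lit 0) (nat_lit 161982609) (nat_lit 152) (nat_lit 161982609) (nat_lit 199) (nat_lit 1) (nat_lit 196) (nat_lit 1) (nat_lit 198) (nat_lit 1) (nat_lit 366) (nat_lit 356) (nat_lit 298)) (XT.nd (nat_lit 78) (nat_lit 76) (nat_lit 0) (XT.lf (nat_lit 76) (nat_lit 804377079) (nat_lit 0) (nat_lit 1133642663) (nat_lit 228) (nat_lit 804377079) (nat_lit 197) (nat_lit 1) (nat_lit 196) (nat_lit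 1) (nat_lit 199) (nat_lit 1) (nat_lit 367) (nat_lit 356) (nat_lit 297)) (XT.lf (nat_lit 152) (nat_lit 773698403) (nat_lit 0) (nat_lit 961088952) (nat_lit 76) (nat_lit 961088952) (nat_lit 197) (nat_lit 1) (nat_lit 195) (nat_lit 1) (nat_lit 196) (nat_lit 1) (nat_lit 368) (nat_lit 356) (nat_lit 296)))) (XT.nd (nat_lit 78) (nat_lit 76) (nat_lit 0) (XT.lf (nat_lit 228) (nat_lit 2617189581) (nat_lit 0) (nat_lit 16861763) (nat_lit 152) (nat_lit 16861763) (nat_lit 195) (nat_lit 1) (nat_lit 192) (nat_lit 1) (nat_lit 194) (nat_lit 1) (nat_lit 369) (nat_lit 356) (nat_lit 295)) (XT.nd (nat_lit 78) (nat_lit 76) (nat_lit 0) (XT.lf (nat_lit 76) (nat_lit 892749117) (nat_lit 0) (nat_lit 819974476) (nat_lit 228) (nat_lit 892749117) (nat_lit 193) (nat_lit 1) (nat_lit 192) (nat_lit 1) (nat_lit 195) (nat_lit 1) (nat_lit 370) (nat_lit 356) (nat_lit 294)) (XT.lf (nat_lit 152) (nat_lit 980185843) (nat_lit 0) (nat_lit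 790690259) (nat_lit 76) (nat_lit 790690259) (nat_lit 193) (nat_lit 1) (nat_lit 191) (nat_lit 1) (nat_lit 192) (nat_lit 1) (nat_lit 371) (nat_lit 356) (nat_lit 293)))))) (XT.nd (nat_lit 468) (nat_lit 456) (nat_lit 0) (XT.nd (nat_lit 234) (nat_lit 228) (nat_lit 0) (XT.nd (nat_lit 78) (nat_lit 228) (nat_lit 0) (XT.lf (nat_lit 0) (nat_lit 98576520) (nat_lit 0) (nat_lit 2321832578) (nat_lit 152) (nat_lit 98576520) (nat_lit 191) (nat_lit 3) (nat_lit 191) (nat_lit 1) (nat_lit 193) (nat_lit 1) (nat_lit 372) (nat_lit 356) (nat_lit 292)) (XT.nd (nat_lit 78) (nat_lit 76) (nat_lit 0) (XT.lf (nat_lit 76) (nat_lit 954453673) (nat_lit 0) (nat_lit 567284413) (nat_lit 152) (nat_lit 954453673) (nat_lit 190) (nat_lit 1) (nat_lit 189) (nat_lit 1) (nat_lit 191) (nat_lit 1) (nat_lit 373) (nat_lit 356) (nat_lit 291)) (XT.lf (nat_lit 152) (nat_lit 1133698702) (nat_lit 0) (nat_lit 650502833) (nat_lit 76) (nat_lit 650502833)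 (nat_lit 190) (nat_lit 1) (nat_lit 188) (nat_lit 1) (nat_lit 189) (nat_lit 1) (nat_lit 374) (nat_lit 356) (nat_lit 290)))) (XT.nd (nat_lit 78) (nat_lit 228) (nat_lit 0) (XT.lf (nat_lit 0) (nat_lit 188409764) (nat_lit 0) (nat_lit 2017488025) (nat_lit 152) (nat_lit 188409764) (nat_lit 188) (nat_lit 3) (nat_lit 188) (nat_lit 1) (nat_lit 190) (nat_lit 1) (nat_lit 375) (nat_lit 356) (nat_lit 289)) (XT.nd (nat_lit 78) (nat_lit 76) (nat_lit 0) (XT.lf (nat_lit 76) (nat_lit 994742604) (nat_lit 0) (nat_lit 364505703) (nat_lit 152) (nat_lit 994742604) (nat_lit 187) (nat_lit 1) (nat_lit 186) (nat_lit 1) (nat_lit 188) (nat_lit 1) (nat_lit 376) (nat_lit 356) (nat_lit 288)) (XT.lf (nat_lit 152) (nat_lit 1244408520) (nat_lit 0) (nat_lit 535170290) (nat_lit 76) (nat_lit 535170290) (nat_lit 187) (nat_lit 1) (nat_lit 185) (nat_lit 1) (nat_lit 186) (nat_lit 1) (nat_lit 377) (nat_lit 356) (nat_lit 287))))) (XT.nd (nat_lit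 234) (nat_lit 228) (nat_lit 0) (XT.nd (nat_lit 78) (nat_lit 228) (nat_lit 0) (XT.lf (nat_lit 0) (nat_lit 257205767) (nat_lit 0) (nat_lit 1761992979) (nat_lit 152) (nat_lit 257205767) (nat_lit 185) (nat_lit 3) (nat_lit 185) (nat_lit 1) (nat_lit 187) (nat_lit 1) (nat_lit 378) (nat_lit 356) (nat_lit 286)) (XT.nd (nat_lit 78) (nat_lit 76) (nat_lit 0) (XT.lf (nat_lit 76) (nat_lit 1017911683) (nat_lit 0) (nat_lit 202545850) (nat_lit 152) (nat_lit 1017911683) (nat_lit 184) (nat_lit 1) (nat_lit 183) (nat_lit 1) (nat_lit 185) (nat_lit 1) (nat_lit 379) (nat_lit 356) (nat_lit 285)) (XT.lf (nat_lit 152) (nat_lit 1320646344) (nat_lit 0) (nat_lit 440285922) (nat_lit 76) (nat_lit 440285922) (nat_lit 184) (nat_lit 1) (nat_lit 182) (nat_lit 1) (nat_lit 183) (nat_lit 1) (nat_lit 380) (nat_lit 356) (nat_lit 284)))) (XT.nd (nat_lit 156) (nat_lit 76) (nat_lit 0) (XT.nd (nat_lit 78) (nat_lit 152) (nat_lit 0) (XT.lf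 (nat_lit 0) (nat_lit 308937714) (nat_lit 0) (nat_lit 1546929878) (nat_lit 152) (nat_lit 308937714) (nat_lit 182) (nat_lit 3) (nat_lit 182) (nat_lit 1) (nat_lit 184) (nat_lit 1) (nat_lit 381) (nat_lit 356) (nat_lit 283)) (XT.lf (nat_lit 76) (nat_lit 1027471300) (nat_lit 0) (nat_lit 73936026) (nat_lit 152) (nat_lit 1027471300) (nat_lit 181) (nat_lit 1) (nat_lit 180) (nat_lit 1) (nat_lit 182) (nat_lit 1) (nat_lit 382) (nat_lit 356) (nat_lit 282))) (XT.nd (nat_lit 78) (nat_lit 0) (nat_lit 0) (XT.lf (nat_lit 152) (nat_lit 1369230801) (nat_lit 0) (nat_lit 362224318) (nat_lit 76) (nat_lit 362224318) (nat_lit 181) (nat_lit 1) (nat_lit 179) (nat_lit 1) (nat_lit 180) (nat_lit 1) (nat_lit 383) (nat_lit 356) (nat_lit 281)) (XT.lf (nat_lit 0) (nat_lit 346862768) (nat_lit 0) (nat_lit 1365361985) (nat_lit 152) (nat_lit 346862768) (nat_lit 179) (nat_lit 3) (nat_lit 179) (nat_lit 1) (nat_lit 181) (nat_lit 1) (nat_lit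 384) (nat_lit 356) (nat_lit 280))))))) (XT.nd (nat_lit 936) (nat_lit 988) (nat_lit 0) (XT.nd (nat_lit 468) (nat_lit 456) (nat_lit 0) (XT.nd (nat_lit 234) (nat_lit 228) (nat_lit 0) (XT.nd (nat_lit 78) (nat_lit 152) (nat_lit 0) (XT.lf (nat_lit 76) (nat_lit 28365222) (nat_lit 0) (nat_lit 998364476) (nat_lit 76) (nat_lit 998364476) (nat_lit 179) (nat_lit 3) (nat_lit 178) (nat_lit 1) (nat_lit 179) (nat_lit 1) (nat_lit 385) (nat_lit 356) (nat_lit 279)) (XT.nd (nat_lit 78) (nat_lit 0) (nat_lit 0) (XT.lf (nat_lit 152) (nat_lit 1395737935) (nat_lit 0) (nat_lit 298002843) (nat_lit 76) (nat_lit 298002843) (nat_lit 178) (nat_lit 1) (nat_lit 176) (nat_lit 1) (nat_lit 177) (nat_lit 1) (nat_lit 386) (nat_lit 356) (nat_lit 278)) (XT.lf (nat_lit 0) (nat_lit 373649568) (nat_lit 0) (nat_lit 1211571394) (nat_lit 152) (nat_lit 373649568) (nat_lit 176) (nat_lit 3) (nat_lit 176) (nat_lit 1) (nat_lit 178) (nat_lit 1)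 (nat_lit 387) (nat_lit 356) (nat_lit 277)))) (XT.nd (nat_lit 78) (nat_lit 152) (nat_lit 0) (XT.lf (nat_lit 76) (nat_lit 110196902) (nat_lit 0) (nat_lit 908217689) (nat_lit 76) (nat_lit 908217689) (nat_lit 176) (nat_lit 3) (nat_lit 175) (nat_lit 1) (nat_lit 176) (nat_lit 1) (nat_lit 388) (nat_lit 356) (nat_lit 276)) (XT.nd (nat_lit 78) (nat_lit 0) (nat_lit 0) (XT.lf (nat_lit 152) (nat_lit 1404723117) (nat_lit 0) (nat_lit 245167676) (nat_lit 76) (nat_lit 245167676) (nat_lit 175) (nat_lit 1) (nat_lit 173) (nat_lit 1) (nat_lit 174) (nat_lit 1) (nat_lit 389) (nat_lit 356) (nat_lit 275)) (XT.lf (nat_lit 0) (nat_lit 391483101) (nat_lit 0) (nat_lit 1080843461) (nat_lit 152) (nat_lit 391483101) (nat_lit 173) (nat_lit 3) (nat_lit 173) (nat_lit 1) (nat_lit 175) (nat_lit 1) (nat_lit 390) (nat_lit 356) (nat_lit 274))))) (XT.nd (nat_lit 234) (nat_lit 228) (nat_lit 0) (XT.nd (nat_lit 78) (nat_lit 152) (nat_lit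 0) (XT.lf (nat_lit 76) (nat_lit 173383800) (nat_lit 0) (nat_lit 829917477) (nat_lit 76) (nat_lit 829917477) (nat_lit 173) (nat_lit 3) (nat_lit 172) (nat_lit 1) (nat_lit 173) (nat_lit 1) (nat_lit 391) (nat_lit 356) (nat_lit 273)) (XT.nd (nat_lit 78) (nat_lit 0) (nat_lit 0) (XT.lf (nat_lit 152) (nat_lit 1399903531) (nat_lit 0) (nat_lit 201700054) (nat_lit 76) (nat_lit 201700054) (nat_lit 172) (nat_lit 1) (nat_lit 170) (nat_lit 1) (nat_lit 171) (nat_lit 1) (nat_lit 392) (nat_lit 356) (nat_lit 272)) (XT.lf (nat_lit 0) (nat_lit 402150951) (nat_lit 0) (nat_lit 969289425) (nat_lit 152) (nat_lit 402150951) (nat_lit 170) (nat_lit 3) (nat_lit 170) (nat_lit 1) (nat_lit 172) (nat_lit 1) (nat_lit 393) (nat_lit 356) (nat_lit 271)))) (XT.nd (nat_lit 78) (nat_lit 152) (nat_lit 0) (XT.lf (nat_lit 76) (nat_lit 221428555) (nat_lit 0) (nat_lit 761560435) (nat_lit 76) (nat_lit 761560435) (nat_lit 170) (nat_lit 3) (nat_lit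 169) (nat_lit 1) (nat_lit 170) (nat_lit 1) (nat_lit 394) (nat_lit 356) (nat_lit 270)) (XT.nd (nat_lit 78) (nat_lit 0) (nat_lit 0) (XT.lf (nat_lit 152) (nat_lit 1384308239) (nat_lit 0) (nat_lit 165939133) (nat_lit 76) (nat_lit 165939133) (nat_lit 169) (nat_lit 1) (nat_lit 167) (nat_lit 1) (nat_lit 168) (nat_lit 1) (nat_lit 395) (nat_lit 356) (nat_lit 269)) (XT.lf (nat_lit 0) (nat_lit 407114234) (nat_lit 0) (nat_lit 873700461) (nat_lit 152) (nat_lit 407114234) (nat_lit 167) (nat_lit 3) (nat_lit 167) (nat_lit 1) (nat_lit 169) (nat_lit 1) (nat_lit 396) (nat_lit 356) (nat_lit 268)))))) (XT.nd (nat_lit 468) (nat_lit 532) (nat_lit 0) (XT.nd (nat_lit 234) (nat_lit 228) (nat_lit 0) (XT.nd (nat_lit 78) (nat_lit 152) (nat_lit 0) (XT.lf (nat_lit 76) (nat_lit 257203413) (nat_lit 0) (nat_lit 701571248) (nat_lit 76) (nat_lit 701571248) (nat_lit 167) (nat_lit 3) (nat_lit 166) (nat_lit 1) (nat_lit 167) (nat_lit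 1) (nat_lit 397) (nat_lit 356) (nat_lit 267)) (XT.nd (nat_lit 78) (nat_lit 0) (nat_lit 0) (XT.lf (nat_lit 152) (nat_lit 1360401565) (nat_lit 0) (nat_lit 136518535) (nat_lit 76) (nat_lit 136518535) (nat_lit 166) (nat_lit 1) (nat_lit 164) (nat_lit 1) (nat_lit 165) (nat_lit 1) (nat_lit 398) (nat_lit 356) (nat_lit 266)) (XT.lf (nat_lit 0) (nat_lit 407565938) (nat_lit 0) (nat_lit 791427581) (nat_lit 152) (nat_lit 407565938) (nat_lit 164) (nat_lit 3) (nat_lit 164) (nat_lit 1) (nat_lit 166) (nat_lit 1) (nat_lit 399) (nat_lit 356) (nat_lit 265)))) (XT.nd (nat_lit 78) (nat_lit 152) (nat_lit 0) (XT.lf (nat_lit 76) (nat_lit 283062449) (nat_lit 0) (nat_lit 648644967) (nat_lit 76) (nat_lit 648644967) (nat_lit 164) (nat_lit 3) (nat_lit 163) (nat_lit 1) (nat_lit 164) (nat_lit 1) (nat_lit 400) (nat_lit 356) (nat_lit 264)) (XT.nd (nat_lit 78) (nat_lit 0) (nat_lit 0) (XT.lf (nat_lit 152) (nat_lit 1330184546) (nat_lit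 0) (nat_lit 112314137) (nat_lit 76) (nat_lit 112314137) (nat_lit 163) (nat_lit 1) (nat_lit 161) (nat_lit 1) (nat_lit 162) (nat_lit 1) (nat_lit 401) (nat_lit 356) (nat_lit 263)) (XT.lf (nat_lit 0) (nat_lit 404478886) (nat_lit 0) (nat_lit 720282810) (nat_lit 152) (nat_lit 404478886) (nat_lit 161) (nat_lit 3) (nat_lit 161) (nat_lit 1) (nat_lit 163) (nat_lit 1) (nat_lit 402) (nat_lit 356) (nat_lit 262))))) (XT.nd (nat_lit 234) (nat_lit 304) (nat_lit 0) (XT.nd (nat_lit 78) (nat_lit 152) (nat_lit 0) (XT.lf (nat_lit 76) (nat_lit 300933859) (nat_lit 0) (nat_lit 601699500) (nat_lit 76) (nat_lit 601699500) (nat_lit 161) (nat_lit 3) (nat_lit 160) (nat_lit 1) (nat_lit 161) (nat_lit 1) (nat_lit 403) (nat_lit 356) (nat_lit 261)) (XT.nd (nat_lit 78) (nat_lit 0) (nat_lit 0) (XT.lf (nat_lit 152) (nat_lit 1295278319) (nat_lit 0) (nat_lit 92401118) (nat_lit 76) (nat_lit 92401118) (nat_lit 160) (nat_lit 1) (nat_lit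 158) (nat_lit 1) (nat_lit 159) (nat_lit 1) (nat_lit 404) (nat_lit 356) (nat_lit 260)) (XT.lf (nat_lit 0) (nat_lit 398645191) (nat_lit 0) (nat_lit 658457861) (nat_lit 152) (nat_lit 398645191) (nat_lit 158) (nat_lit 3) (nat_lit 158) (nat_lit 1) (nat_lit 160) (nat_lit 1) (nat_lit 405) (nat_lit 356) (nat_lit 259)))) (XT.nd (nat_lit 156) (nat_lit 76) (nat_lit 0) (XT.nd (nat_lit 78) (nat_lit 152) (nat_lit 0) (XT.lf (nat_lit 76) (nat_lit 312395869) (nat_lit 0) (nat_lit 559836507) (nat_lit 76) (nat_lit 559836507) (nat_lit 158) (nat_lit 3) (nat_lit 157) (nat_lit 1) (nat_lit 158) (nat_lit 1) (nat_lit 406) (nat_lit 356) (nat_lit 258)) (XT.lf (nat_lit 152) (nat_lit 1256992679) (nat_lit 0) (nat_lit 76018629) (nat_lit 76) (nat_lit 76018629) (nat_lit 157) (nat_lit 1) (nat_lit 155) (nat_lit 1) (nat_lit 156) (nat_lit 1) (nat_lit 407) (nat_lit 356) (nat_lit 257))) (XT.nd (nat_lit 78) (nat_lit 76) (nat_lit 0) (XT.lf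 (nat_lit 0) (nat_lit 390708681) (nat_lit 0) (nat_lit 604457207) (nat_lit 152) (nat_lit 390708681) (nat_lit 155) (nat_lit 3) (nat_lit 155) (nat_lit 1) (nat_lit 157) (nat_lit 1) (nat_lit 408) (nat_lit 356) (nat_lit 256)) (XT.lf (nat_lit 76) (nat_lit 318739178) (nat_lit 0) (nat_lit 522309203) (nat_lit 76) (nat_lit 522309203) (nat_lit 155) (nat_lit 3) (nat_lit 154) (nat_lit 1) (nat_lit 155) (nat_lit 1) (nat_lit 409) (nat_lit 356) (nat_lit 255))))))))
noncomputable def ec97 : XT := (XT.nd (nat_lit 1950) (nat_lit 1140) (nat_lit 0) (XT.nd (nat_lit 936) (nat_lit 1064) (nat_lit 0) (XT.nd (nat_lit 468) (nat_lit 456) (nat_lit 0) (XT.nd (nat_lit 234) (nat_lit 228) (nat_lit 0) (XT.nd (nat_lit 78) (nat_lit 76) (nat_lit 0) (XT.lf (nat_lit 152) (nat_lit 1216382418) (nat_lit 0) (nat_lit 62540714) (nat_lit 76) (nat_lit 62540714) (nat_lit 154) (nat_lit 1) (nat_lit 152) (nat_lit 1) (nat_lit 153) (nat_lit 1) (nat_lit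 410) (nat_lit 356) (nat_lit 254)) (XT.nd (nat_lit 78) (nat_lit 76) (nat_lit 0) (XT.lf (nat_lit 0) (nat_lit 381191565) (nat_lit 0) (nat_lit 557043007) (nat_lit 152) (nat_lit 381191565) (nat_lit 152) (nat_lit 3) (nat_lit 152) (nat_lit 1) (nat_lit 154) (nat_lit 1) (nat_lit 411) (nat_lit 356) (nat_lit 253)) (XT.lf (nat_lit 76) (nat_lit 321018294) (nat_lit 0) (nat_lit 488495857) (nat_lit 76) (nat_lit 488495857) (nat_lit 152) (nat_lit 3) (nat_lit 151) (nat_lit 1) (nat_lit 152) (nat_lit 1) (nat_lit 412) (nat_lit 356) (nat_lit 252)))) (XT.nd (nat_lit 78) (nat_lit 76) (nat_lit 0) (XT.lf (nat_lit 152) (nat_lit 1174293615) (nat_lit 0) (nat_lit 51452400) (nat_lit 76) (nat_lit 51452400) (nat_lit 151) (nat_lit 1) (nat_lit 149) (nat_lit 1) (nat_lit 150) (nat_lit 1) (nat_lit 413) (nat_lit 356) (nat_lit 251)) (XT.nd (nat_lit 78) (nat_lit 76) (nat_lit 0) (XT.lf (nat_lit 0) (nat_lit 370516356) (nat_lit 0) (nat_lit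 515189772) (nat_lit 152) (nat_lit 370516356) (nat_lit 149) (nat_lit 3) (nat_lit 149) (nat_lit 1) (nat_lit 151) (nat_lit 1) (nat_lit 414) (nat_lit 356) (nat_lit 250)) (XT.lf (nat_lit 76) (nat_lit 320093767) (nat_lit 0) (nat_lit 457877973) (nat_lit 76) (nat_lit 457877973) (nat_lit 149) (nat_lit 3) (nat_lit 148) (nat_lit 1) (nat_lit 149) (nat_lit 1) (nat_lit 415) (nat_lit 356) (nat_lit 249))))) (XT.nd (nat_lit 234) (nat_lit 228) (nat_lit 0) (XT.nd (nat_lit 78) (nat_lit 76) (nat_lit 0) (XT.lf (nat_lit 152) (nat_lit 1131401683) (nat_lit 0) (nat_lit 42330017) (nat_lit 76) (nat_lit 42330017) (nat_lit 148) (nat_lit 1) (nat_lit 146) (nat_lit 1) (nat_lit 147) (nat_lit 1) (nat_lit 416) (nat_lit 356) (nat_lit 248)) (XT.nd (nat_lit 78) (nat_lit 76) (nat_lit 0) (XT.lf (nat_lit 0) (nat_lit 359023876) (nat_lit 0) (nat_lit 478047054) (nat_lit 152) (nat_lit 359023876) (nat_lit 146) (nat_lit 3) (nat_lit 146) (nat_lit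 1) (nat_lit 148) (nat_lit 1) (nat_lit 417) (nat_lit 356) (nat_lit 247)) (XT.lf (nat_lit 76) (nat_lit 316666908) (nat_lit 0) (nat_lit 430022316) (nat_lit 76) (nat_lit 430022316) (nat_lit 146) (nat_lit 3) (nat_lit 145) (nat_lit 1) (nat_lit 146) (nat_lit 1) (nat_lit 418) (nat_lit 356) (nat_lit 246)))) (XT.nd (nat_lit 78) (nat_lit 76) (nat_lit 0) (XT.lf (nat_lit 152) (nat_lit 1088242601) (nat_lit 0) (nat_lit 34825009) (nat_lit 76) (nat_lit 34825009) (nat_lit 145) (nat_lit 1) (nat_lit 143) (nat_lit 1) (nat_lit 144) (nat_lit 1) (nat_lit 419) (nat_lit 356) (nat_lit 245)) (XT.nd (nat_lit 78) (nat_lit 76) (nat_lit 0) (XT.lf (nat_lit 0) (nat_lit 346988073) (nat_lit 0) (nat_lit 444908736) (nat_lit 152) (nat_lit 346988073) (nat_lit 143) (nat_lit 3) (nat_lit 143) (nat_lit 1) (nat_lit 145) (nat_lit 1) (nat_lit 420) (nat_lit 356) (nat_lit 244)) (XT.lf (nat_lit 76) (nat_lit 311308339) (nat_lit 0) (nat_lit 404566113)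 (nat_lit 76) (nat_lit 404566113) (nat_lit 143) (nat_lit 3) (nat_lit 142) (nat_lit 1) (nat_lit 143) (nat_lit 1) (nat_lit 421) (nat_lit 356) (nat_lit 243)))))) (XT.nd (nat_lit 468) (nat_lit 608) (nat_lit 0) (XT.nd (nat_lit 234) (nat_lit 228) (nat_lit 0) (XT.nd (nat_lit 78) (nat_lit 76) (nat_lit 0) (XT.lf (nat_lit 152) (nat_lit 1045238584) (nat_lit 0) (nat_lit 28650621) (nat_lit 76) (nat_lit 28650621) (nat_lit 142) (nat_lit 1) (nat_lit 140) (nat_lit 1) (nat_lit 141) (nat_lit 1) (nat_lit 422) (nat_lit 356) (nat_lit 242)) (XT.nd (nat_lit 78) (nat_lit 76) (nat_lit 0) (XT.lf (nat_lit 0) (nat_lit 334628177) (nat_lit 0) (nat_lit 415187748) (nat_lit 152) (nat_lit 334628177) (nat_lit 140) (nat_lit 3) (nat_lit 140) (nat_lit 1) (nat_lit 142) (nat_lit 1) (nat_lit 423) (nat_lit 356) (nat_lit 241)) (XT.lf (nat_lit 76) (nat_lit 304481464) (nat_lit 0) (nat_lit 381204865) (nat_lit 76) (nat_lit 381204865) (nat_lit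 140) (nat_lit 3) (nat_lit 139) (nat_lit 1) (nat_lit 140) (nat_lit 1) (nat_lit 424) (nat_lit 356) (nat_lit 240)))) (XT.nd (nat_lit 78) (nat_lit 76) (nat_lit 0) (XT.lf (nat_lit 152) (nat_lit 1002719133) (nat_lit 0) (nat_lit 23570937) (nat_lit 76) (nat_lit 23570937) (nat_lit 139) (nat_lit 1) (nat_lit 137) (nat_lit 1) (nat_lit 138) (nat_lit 1) (nat_lit 425) (nat_lit 356) (nat_lit 239)) (XT.nd (nat_lit 78) (nat_lit 76) (nat_lit 0) (XT.lf (nat_lit 0) (nat_lit 322118696) (nat_lit 0) (nat_lit 388395255) (nat_lit 152) (nat_lit 322118696) (nat_lit 137) (nat_lit 3) (nat_lit 137) (nat_lit 1) (nat_lit 139) (nat_lit 1) (nat_lit 426) (nat_lit 356) (nat_lit 238)) (XT.lf (nat_lit 76) (nat_lit 296561771) (nat_lit 0) (nat_lit 359682303) (nat_lit 76) (nat_lit 359682303) (nat_lit 137) (nat_lit 3) (nat_lit 136) (nat_lit 1) (nat_lit 137) (nat_lit 1) (nat_lit 427) (nat_lit 356) (nat_lit 237))))) (XT.nd (nat_lit 234) (nat_lit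 380) (nat_lit 0) (XT.nd (nat_lit 78) (nat_lit 76) (nat_lit 0) (XT.lf (nat_lit 152) (nat_lit 960938335) (nat_lit 0) (nat_lit 19391868) (nat_lit 76) (nat_lit 19391868) (nat_lit 136) (nat_lit 1) (nat_lit 134) (nat_lit 1) (nat_lit 135) (nat_lit 1) (nat_lit 428) (nat_lit 356) (nat_lit 236)) (XT.nd (nat_lit 78) (nat_lit 76) (nat_lit 0) (XT.lf (nat_lit 0) (nat_lit 309597626) (nat_lit 0) (nat_lit 364123515) (nat_lit 152) (nat_lit 309597626) (nat_lit 134) (nat_lit 3) (nat_lit 134) (nat_lit 1) (nat_lit 136) (nat_lit 1) (nat_lit 429) (nat_lit 356) (nat_lit 235)) (XT.lf (nat_lit 76) (nat_lit 287852691) (nat_lit 0) (nat_lit 339782109) (nat_lit 76) (nat_lit 339782109) (nat_lit 134) (nat_lit 3) (nat_lit 133) (nat_lit 1) (nat_lit 134) (nat_lit 1) (nat_lit 430) (nat_lit 356) (nat_lit 234)))) (XT.nd (nat_lit 156) (nat_lit 228) (nat_lit 0) (XT.nd (nat_lit 78) (nat_lit 0) (nat_lit 0) (XT.lf (nat_lit 152) (nat_lit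 920089035) (nat_lit 0) (nat_lit 15953738) (nat_lit 76) (nat_lit 15953738) (nat_lit 133) (nat_lit 1) (nat_lit 131) (nat_lit 1) (nat_lit 132) (nat_lit 1) (nat_lit 431) (nat_lit 356) (nat_lit 233)) (XT.lf (nat_lit 0) (nat_lit 297173188) (nat_lit 0) (nat_lit 342031772) (nat_lit 152) (nat_lit 297173188) (nat_lit 131) (nat_lit 3) (nat_lit 131) (nat_lit 1) (nat_lit 133) (nat_lit 1) (nat_lit 432) (nat_lit 356) (nat_lit 232))) (XT.nd (nat_lit 78) (nat_lit 152) (nat_lit 0) (XT.lf (nat_lit 76) (nat_lit 278598634) (nat_lit 0) (nat_lit 321321094) (nat_lit 76) (nat_lit 321321094) (nat_lit 131) (nat_lit 3) (nat_lit 130) (nat_lit 1) (nat_lit 131) (nat_lit 1) (nat_lit 433) (nat_lit 356) (nat_lit 231)) (XT.lf (nat_lit 152) (nat_lit 880314467) (nat_lit 0) (nat_lit 13125179) (nat_lit 76) (nat_lit 13125179) (nat_lit 130) (nat_lit 1) (nat_lit 128) (nat_lit 1) (nat_lit 129) (nat_lit 1) (nat_lit 434) (nat_lit 356) (nat_lit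 230))))))) (XT.nd (nat_lit 936) (nat_lit 228) (nat_lit 0) (XT.nd (nat_lit 468) (nat_lit 456) (nat_lit 0) (XT.nd (nat_lit 234) (nat_lit 228) (nat_lit 0) (XT.nd (nat_lit 78) (nat_lit 228) (nat_lit 0) (XT.lf (nat_lit 0) (nat_lit 284929361) (nat_lit 0) (nat_lit 321834628) (nat_lit 152) (nat_lit 284929361) (nat_lit 128) (nat_lit 3) (nat_lit 128) (nat_lit 1) (nat_lit 130) (nat_lit 1) (nat_lit 435) (nat_lit 356) (nat_lit 229)) (XT.nd (nat_lit 78) (nat_lit 152) (nat_lit 0) (XT.lf (nat_lit 76) (nat_lit 268995702) (nat_lit 0) (nat_lit 304143576) (nat_lit 76) (nat_lit 304143576) (nat_lit 128) (nat_lit 3) (nat_lit 127) (nat_lit 1) (nat_lit 128) (nat_lit 1) (nat_lit 436) (nat_lit 356) (nat_lit 228)) (XT.lf (nat_lit 152) (nat_lit 841717787) (nat_lit 0) (nat_lit 10798118) (nat_lit 76) (nat_lit 10798118) (nat_lit 127) (nat_lit 1) (nat_lit 125) (nat_lit 1) (nat_lit 126) (nat_lit 1) (nat_lit 437) (nat_lit 356) (nat_lit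 227)))) (XT.nd (nat_lit 78) (nat_lit 228) (nat_lit 0) (XT.lf (nat_lit 0) (nat_lit 272930417) (nat_lit 0) (nat_lit 303292472) (nat_lit 152) (nat_lit 272930417) (nat_lit 125) (nat_lit 3) (nat_lit 125) (nat_lit 1) (nat_lit 127) (nat_lit 1) (nat_lit 438) (nat_lit 356) (nat_lit 226)) (XT.nd (nat_lit 78) (nat_lit 152) (nat_lit 0) (XT.lf (nat_lit 76) (nat_lit 259200493) (nat_lit 0) (nat_lit 288116736) (nat_lit 76) (nat_lit 288116736) (nat_lit 125) (nat_lit 3) (nat_lit 124) (nat_lit 1) (nat_lit 125) (nat_lit 1) (nat_lit 439) (nat_lit 356) (nat_lit 225)) (XT.lf (nat_lit 152) (nat_lit 804369875) (nat_lit 0) (nat_lit 8883638) (nat_lit 76) (nat_lit 8883638) (nat_lit 124) (nat_lit 1) (nat_lit 122) (nat_lit 1) (nat_lit 123) (nat_lit 1) (nat_lit 440) (nat_lit 356) (nat_lit 224))))) (XT.nd (nat_lit 234) (nat_lit 228) (nat_lit 0) (XT.nd (nat_lit 78) (nat_lit 228) (nat_lit 0) (XT.lf (nat_lit 0) (nat_lit 261224650)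 (nat_lit 0) (nat_lit 286203588) (nat_lit 152) (nat_lit 261224650) (nat_lit 122) (nat_lit 3) (nat_lit 122) (nat_lit 1) (nat_lit 124) (nat_lit 1) (nat_lit 441) (nat_lit 356) (nat_lit 223)) (XT.nd (nat_lit 78) (nat_lit 152) (nat_lit 0) (XT.lf (nat_lit 76) (nat_lit 249337328) (nat_lit 0) (nat_lit 273126793) (nat_lit 76) (nat_lit 273126793) (nat_lit 122) (nat_lit 3) (nat_lit 121) (nat_lit 1) (nat_lit 122) (nat_lit 1) (nat_lit 442) (nat_lit 356) (nat_lit 222)) (XT.lf (nat_lit 152) (nat_lit 768315723) (nat_lit 0) (nat_lit 7308591) (nat_lit 76) (nat_lit 7308591) (nat_lit 121) (nat_lit 1) (nat_lit 119) (nat_lit 1) (nat_lit 120) (nat_lit 1) (nat_lit 443) (nat_lit 356) (nat_lit 221)))) (XT.nd (nat_lit 78) (nat_lit 228) (nat_lit 0) (XT.lf (nat_lit 0) (nat_lit 249847424) (nat_lit 0) (nat_lit 270397658) (nat_lit 152) (nat_lit 249847424) (nat_lit 119) (nat_lit 3) (nat_lit 119) (nat_lit 1) (nat_lit 121) (nat_lit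 1) (nat_lit 444) (nat_lit 356) (nat_lit 220)) (XT.nd (nat_lit 78) (nat_lit 152) (nat_lit 0) (XT.lf (nat_lit 76) (nat_lit 239504191) (nat_lit 0) (nat_lit 259075842) (nat_lit 76) (nat_lit 259075842) (nat_lit 119) (nat_lit 3) (nat_lit 118) (nat_lit 1) (nat_lit 119) (nat_lit 1) (nat_lit 445) (nat_lit 356) (nat_lit 219)) (XT.lf (nat_lit 152) (nat_lit 733579662) (nat_lit 0) (nat_lit 6012796) (nat_lit 76) (nat_lit 6012796) (nat_lit 118) (nat_lit 1) (nat_lit 116) (nat_lit 1) (nat_lit 117) (nat_lit 1) (nat_lit 446) (nat_lit 356) (nat_lit 218)))))) (XT.nd (nat_lit 42354) (nat_lit 0) (nat_lit 13680) (XT.nd (nat_lit 42120) (nat_lit 0) (nat_lit 13604) (XT.nd (nat_lit 78) (nat_lit 228) (nat_lit 0) (XT.lf (nat_lit 0) (nat_lit 238823673) (nat_lit 0) (nat_lit 255730401) (nat_lit 152) (nat_lit 238823673) (nat_lit 116) (nat_lit 3) (nat_lit 116) (nat_lit 1) (nat_lit 118) (nat_lit 1) (nat_lit 447) (nat_lit 356) (nat_lit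 217)) (XT.nd (nat_lit 78) (nat_lit 152) (nat_lit 0) (XT.lf (nat_lit 76) (nat_lit 229777598) (nat_lit 0) (nat_lit 245879245) (nat_lit 76) (nat_lit 245879245) (nat_lit 116) (nat_lit 3) (nat_lit 115) (nat_lit 1) (nat_lit 116) (nat_lit 1) (nat_lit 448) (nat_lit 356) (nat_lit 216)) (XT.lf (nat_lit 152) (nat_lit 700169628) (nat_lit 0) (nat_lit 4946742) (nat_lit 76) (nat_lit 4946742) (nat_lit 115) (nat_lit 1) (nat_lit 113) (nat_lit 1) (nat_lit 114) (nat_lit 1) (nat_lit 449) (nat_lit 356) (nat_lit 215)))) (XT.nd (nat_lit 78) (nat_lit 0) (nat_lit 0) (XT.lf (nat_lit 836) (nat_lit 1231594563) (nat_lit 0) (nat_lit 2186693316) (nat_lit 836) (nat_lit 1231594563) (nat_lit 303) (nat_lit 1) (nat_lit 292) (nat_lit 0) (nat_lit 303) (nat_lit 0) (nat_lit 306) (nat_lit 357) (nat_lit 357)) (XT.nd (nat_lit 78) (nat_lit 0) (nat_lit 76) (XT.lf (nat_lit 836) (nat_lit 4773814286) (nat_lit 76) (nat_lit 2151424069) (nat_lit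 0) (nat_lit 2151424069) (nat_lit 303) (nat_lit 1) (nat_lit 293) (nat_lit 1) (nat_lit 292) (nat_lit 0) (nat_lit 307) (nat_lit 357) (nat_lit 356)) (XT.lf (nat_lit 836) (nat_lit 2275128009) (nat_lit 0) (nat_lit 4310201240) (nat_lit 760) (nat_lit 2275128009) (nat_lit 304) (nat_lit 1) (nat_lit 293) (nat_lit 1) (nat_lit 303) (nat_lit 1) (nat_lit 308) (nat_lit 357) (nat_lit 355))))) (XT.nd (nat_lit 234) (nat_lit 0) (nat_lit 152) (XT.nd (nat_lit 78) (nat_lit 0) (nat_lit 76) (XT.lf (nat_lit 836) (nat_lit 4267824009) (nat_lit 76) (nat_lit 2191706561) (nat_lit 0) (nat_lit 2191706561) (nat_lit 304) (nat_lit 1) (nat_lit 294) (nat_lit 1) (nat_lit 293) (nat_lit 1) (nat_lit 309) (nat_lit 357) (nat_lit 354)) (XT.nd (nat_lit 78) (nat_lit 0) (nat_lit 0) (XT.lf (nat_lit 836) (nat_lit 1964438407) (nat_lit 0) (nat_lit 4519771417) (nat_lit 760) (nat_lit 1964438407) (nat_lit 305) (nat_lit 1) (nat_lit 294) (nat_lit 1)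 (nat_lit 304) (nat_lit 1) (nat_lit 310) (nat_lit 357) (nat_lit 353)) (XT.lf (nat_lit 836) (nat_lit 3533170422) (nat_lit 76) (nat_lit 2359532296) (nat_lit 0) (nat_lit 2359532296) (nat_lit 305) (nat_lit 1) (nat_lit 295) (nat_lit 1) (nat_lit 294) (nat_lit 1) (nat_lit 311) (nat_lit 357) (nat_lit 352)))) (XT.nd (nat_lit 156) (nat_lit 0) (nat_lit 76) (XT.nd (nat_lit 78) (nat_lit 0) (nat_lit 0) (XT.lf (nat_lit 836) (nat_lit 1549193183) (nat_lit 0) (nat_lit 4964030310) (nat_lit 760) (nat_lit 1549193183) (nat_lit 306) (nat_lit 1) (nat_lit 295) (nat_lit 1) (nat_lit 305) (nat_lit 1) (nat_lit 312) (nat_lit 357) (nat_lit 351)) (XT.lf (nat_lit 836) (nat_lit 2604241307) (nat_lit 76) (nat_lit 2636791689) (nat_lit 0) (nat_lit 2636791689) (nat_lit 306) (nat_lit 1) (nat_lit 296) (nat_lit 1) (nat_lit 295) (nat_lit 1) (nat_lit 313) (nat_lit 357) (nat_lit 350))) (XT.nd (nat_lit 78) (nat_lit 0) (nat_lit 0) (XT.lf (nat_lit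 836) (nat_lit 1045467242) (nat_lit 0) (nat_lit 5609055328) (nat_lit 760) (nat_lit 1045467242) (nat_lit 307) (nat_lit 1) (nat_lit 296) (nat_lit 1) (nat_lit 306) (nat_lit 1) (nat_lit 314) (nat_lit 357) (nat_lit 349)) (XT.lf (nat_lit 836) (nat_lit 1511602211) (nat_lit 76) (nat_lit 3007356514) (nat_lit 0) (nat_lit 3007356514) (nat_lit 307) (nat_lit 1) (nat_lit 297) (nat_lit 1) (nat_lit 296) (nat_lit 1) (nat_lit 315) (nat_lit 357) (nat_lit 348))))))))
noncomputable def ec98 : XT := (XT.nd (nat_lit 1950) (nat_lit 2736) (nat_lit 0) (XT.nd (nat_lit 936) (nat_lit 1900) (nat_lit 0) (XT.nd (nat_lit 468) (nat_lit 1368) (nat_lit 0) (XT.nd (nat_lit 234) (nat_lit 380) (nat_lit 0) (XT.nd (nat_lit 78) (nat_lit 1292) (nat_lit 0) (XT.lf (nat_lit 76) (nat_lit 467538411) (nat_lit 0) (nat_lit 6424654042) (nat_lit 760) (nat_lit 467538411) (nat_lit 298) (nat_lit 1) (nat_lit 297) (nat_lit 1) (nat_lit 307) (nat_lit 1) (nat_lit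 316) (nat_lit 357) (nat_lit 347)) (XT.nd (nat_lit 78) (nat_lit 532) (nat_lit 0) (XT.lf (nat_lit 836) (nat_lit 282381574) (nat_lit 0) (nat_lit 3456881529) (nat_lit 760) (nat_lit 3456881529) (nat_lit 298) (nat_lit 1) (nat_lit 287) (nat_lit 1) (nat_lit 297) (nat_lit 1) (nat_lit 317) (nat_lit 357) (nat_lit 346)) (XT.lf (nat_lit 532) (nat_lit 6701270377) (nat_lit 0) (nat_lit 169157995) (nat_lit 456) (nat_lit 169157995) (nat_lit 287) (nat_lit 1) (nat_lit 280) (nat_lit 1) (nat_lit 286) (nat_lit 1) (nat_lit 318) (nat_lit 357) (nat_lit 345)))) (XT.nd (nat_lit 78) (nat_lit 380) (nat_lit 0) (XT.lf (nat_lit 76) (nat_lit 2929783745) (nat_lit 0) (nat_lit 1025474547) (nat_lit 532) (nat_lit 2929783745) (nat_lit 281) (nat_lit 1) (nat_lit 280) (nat_lit 1) (nat_lit 287) (nat_lit 1) (nat_lit 319) (nat_lit 357) (nat_lit 344)) (XT.nd (nat_lit 78) (nat_lit 0) (nat_lit 0) (XT.lf (nat_lit 456) (nat_lit 5041405783) (nat_lit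 0) (nat_lit 847831782) (nat_lit 380) (nat_lit 847831782) (nat_lit 281) (nat_lit 1) (nat_lit 275) (nat_lit 1) (nat_lit 280) (nat_lit 1) (nat_lit 320) (nat_lit 357) (nat_lit 343)) (XT.lf (nat_lit 76) (nat_lit 2089779080) (nat_lit 0) (nat_lit 2412649291) (nat_lit 456) (nat_lit 2089779080) (nat_lit 276) (nat_lit 1) (nat_lit 275) (nat_lit 1) (nat_lit 281) (nat_lit 1) (nat_lit 321) (nat_lit 357) (nat_lit 342))))) (XT.nd (nat_lit 234) (nat_lit 684) (nat_lit 0) (XT.nd (nat_lit 78) (nat_lit 304) (nat_lit 0) (XT.lf (nat_lit 456) (nat_lit 3319837202) (nat_lit 0) (nat_lit 1566276753) (nat_lit 380) (nat_lit 1566276753) (nat_lit 276) (nat_lit 1) (nat_lit 270) (nat_lit 1) (nat_lit 275) (nat_lit 1) (nat_lit 322) (nat_lit 357) (nat_lit 341)) (XT.nd (nat_lit 78) (nat_lit 304) (nat_lit 0) (XT.lf (nat_lit 76) (nat_lit 1223315888) (nat_lit 0) (nat_lit 3870008530) (nat_lit 456) (nat_lit 1223315888) (nat_lit 271) (nat_lit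 1) (nat_lit 270) (nat_lit 1) (nat_lit 276) (nat_lit 1) (nat_lit 323) (nat_lit 357) (nat_lit 340)) (XT.lf (nat_lit 380) (nat_lit 1552588068) (nat_lit 0) (nat_lit 2315896891) (nat_lit 304) (nat_lit 2315896891) (nat_lit 271) (nat_lit 1) (nat_lit 266) (nat_lit 1) (nat_lit 270) (nat_lit 1) (nat_lit 324) (nat_lit 357) (nat_lit 339)))) (XT.nd (nat_lit 78) (nat_lit 684) (nat_lit 0) (XT.lf (nat_lit 76) (nat_lit 337832804) (nat_lit 0) (nat_lit 5381543800) (nat_lit 380) (nat_lit 337832804) (nat_lit 267) (nat_lit 1) (nat_lit 266) (nat_lit 1) (nat_lit 271) (nat_lit 1) (nat_lit 325) (nat_lit 357) (nat_lit 338)) (XT.nd (nat_lit 78) (nat_lit 304) (nat_lit 0) (XT.lf (nat_lit 76) (nat_lit 2846676282) (nat_lit 0) (nat_lit 238414668) (nat_lit 380) (nat_lit 2846676282) (nat_lit 262) (nat_lit 1) (nat_lit 261) (nat_lit 1) (nat_lit 266) (nat_lit 1) (nat_lit 326) (nat_lit 357) (nat_lit 337)) (XT.lf (nat_lit 380) (nat_lit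 4708851497) (nat_lit 0) (nat_lit 551125354) (nat_lit 304) (nat_lit 551125354) (nat_lit 262) (nat_lit 1) (nat_lit 257) (nat_lit 1) (nat_lit 261) (nat_lit 1) (nat_lit 327) (nat_lit 357) (nat_lit 336)))))) (XT.nd (nat_lit 468) (nat_lit 988) (nat_lit 0) (XT.nd (nat_lit 234) (nat_lit 608) (nat_lit 0) (XT.nd (nat_lit 78) (nat_lit 304) (nat_lit 0) (XT.lf (nat_lit 76) (nat_lit 1847018572) (nat_lit 0) (nat_lit 1998470067) (nat_lit 380) (nat_lit 1847018572) (nat_lit 258) (nat_lit 1) (nat_lit 257) (nat_lit 1) (nat_lit 262) (nat_lit 1) (nat_lit 328) (nat_lit 357) (nat_lit 335)) (XT.nd (nat_lit 78) (nat_lit 0) (nat_lit 0) (XT.lf (nat_lit 380) (nat_lit 2695313898) (nat_lit 0) (nat_lit 1441355389) (nat_lit 304) (nat_lit 1441355389) (nat_lit 258) (nat_lit 1) (nat_lit 253) (nat_lit 1) (nat_lit 257) (nat_lit 1) (nat_lit 329) (nat_lit 357) (nat_lit 334)) (XT.lf (nat_lit 76) (nat_lit 849981713) (nat_lit 0) (nat_lit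 3766926193) (nat_lit 380) (nat_lit 849981713) (nat_lit 254) (nat_lit 1) (nat_lit 253) (nat_lit 1) (nat_lit 258) (nat_lit 1) (nat_lit 330) (nat_lit 357) (nat_lit 333)))) (XT.nd (nat_lit 78) (nat_lit 380) (nat_lit 0) (XT.lf (nat_lit 304) (nat_lit 691253723) (nat_lit 0) (nat_lit 2333449900) (nat_lit 228) (nat_lit 2333449900) (nat_lit 254) (nat_lit 1) (nat_lit 250) (nat_lit 1) (nat_lit 253) (nat_lit 1) (nat_lit 331) (nat_lit 357) (nat_lit 332)) (XT.nd (nat_lit 78) (nat_lit 0) (nat_lit 0) (XT.lf (nat_lit 380) (nat_lit 4977387751) (nat_lit 0) (nat_lit 138112959) (nat_lit 304) (nat_lit 138112959) (nat_lit 250) (nat_lit 1) (nat_lit 245) (nat_lit 1) (nat_lit 249) (nat_lit 1) (nat_lit 332) (nat_lit 357) (nat_lit 331)) (XT.lf (nat_lit 76) (nat_lit 1947688624) (nat_lit 0) (nat_lit 1254275183) (nat_lit 380) (nat_lit 1947688624) (nat_lit 246) (nat_lit 1) (nat_lit 245) (nat_lit 1) (nat_lit 250) (nat_lit 1) (nat_lit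 333) (nat_lit 357) (nat_lit 330))))) (XT.nd (nat_lit 234) (nat_lit 532) (nat_lit 0) (XT.nd (nat_lit 78) (nat_lit 228) (nat_lit 0) (XT.lf (nat_lit 304) (nat_lit 2844660810) (nat_lit 0) (nat_lit 1102508786) (nat_lit 228) (nat_lit 1102508786) (nat_lit 246) (nat_lit 1) (nat_lit 242) (nat_lit 1) (nat_lit 245) (nat_lit 1) (nat_lit 334) (nat_lit 357) (nat_lit 329)) (XT.nd (nat_lit 78) (nat_lit 228) (nat_lit 0) (XT.lf (nat_lit 76) (nat_lit 898672352) (nat_lit 0) (nat_lit 3154899642) (nat_lit 304) (nat_lit 898672352) (nat_lit 243) (nat_lit 1) (nat_lit 242) (nat_lit 1) (nat_lit 246) (nat_lit 1) (nat_lit 335) (nat_lit 357) (nat_lit 328)) (XT.lf (nat_lit 304) (nat_lit 749015316) (nat_lit 0) (nat_lit 2054005796) (nat_lit 228) (nat_lit 2054005796) (nat_lit 243) (nat_lit 1) (nat_lit 239) (nat_lit 1) (nat_lit 242) (nat_lit 1) (nat_lit 336) (nat_lit 357) (nat_lit 327)))) (XT.nd (nat_lit 156) (nat_lit 228) (nat_lit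 0) (XT.nd (nat_lit 78) (nat_lit 0) (nat_lit 0) (XT.lf (nat_lit 304) (nat_lit 4507894880) (nat_lit 0) (nat_lit 128726019) (nat_lit 228) (nat_lit 128726019) (nat_lit 239) (nat_lit 1) (nat_lit 235) (nat_lit 1) (nat_lit 238) (nat_lit 1) (nat_lit 337) (nat_lit 357) (nat_lit 326)) (XT.lf (nat_lit 76) (nat_lit 1705207535) (nat_lit 0) (nat_lit 1263541661) (nat_lit 304) (nat_lit 1705207535) (nat_lit 236) (nat_lit 1) (nat_lit 235) (nat_lit 1) (nat_lit 239) (nat_lit 1) (nat_lit 338) (nat_lit 357) (nat_lit 325))) (XT.nd (nat_lit 78) (nat_lit 0) (nat_lit 0) (XT.lf (nat_lit 304) (nat_lit 2344816500) (nat_lit 0) (nat_lit 1120565748) (nat_lit 228) (nat_lit 1120565748) (nat_lit 236) (nat_lit 1) (nat_lit 232) (nat_lit 1) (nat_lit 235) (nat_lit 1) (nat_lit 339) (nat_lit 357) (nat_lit 324)) (XT.lf (nat_lit 76) (nat_lit 645760551) (nat_lit 0) (nat_lit 3208778591) (nat_lit 304) (nat_lit 645760551) (nat_lit 233) (nat_lit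 1) (nat_lit 232) (nat_lit 1) (nat_lit 236) (nat_lit 1) (nat_lit 340) (nat_lit 357) (nat_lit 323))))))) (XT.nd (nat_lit 936) (nat_lit 1216) (nat_lit 0) (XT.nd (nat_lit 468) (nat_lit 684) (nat_lit 0) (XT.nd (nat_lit 234) (nat_lit 380) (nat_lit 0) (XT.nd (nat_lit 78) (nat_lit 304) (nat_lit 0) (XT.lf (nat_lit 228) (nat_lit 236628137) (nat_lit 0) (nat_lit 2089818623) (nat_lit 152) (nat_lit 2089818623) (nat_lit 233) (nat_lit 1) (nat_lit 230) (nat_lit 1) (nat_lit 232) (nat_lit 1) (nat_lit 341) (nat_lit 357) (nat_lit 322)) (XT.nd (nat_lit 78) (nat_lit 0) (nat_lit 0) (XT.lf (nat_lit 304) (nat_lit 3575371809) (nat_lit 0) (nat_lit 379730401) (nat_lit 228) (nat_lit 379730401) (nat_lit 230) (nat_lit 1) (nat_lit 226) (nat_lit 1) (nat_lit 229) (nat_lit 1) (nat_lit 342) (nat_lit 357) (nat_lit 321)) (XT.lf (nat_lit 76) (nat_lit 1248792503) (nat_lit 0) (nat_lit 1756725579) (nat_lit 304) (nat_lit 1248792503) (nat_lit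 227) (nat_lit 1) (nat_lit 226) (nat_lit 1) (nat_lit 230) (nat_lit 1) (nat_lit 343) (nat_lit 357) (nat_lit 320)))) (XT.nd (nat_lit 78) (nat_lit 228) (nat_lit 0) (XT.lf (nat_lit 228) (nat_lit 1442787103) (nat_lit 0) (nat_lit 1366743294) (nat_lit 152) (nat_lit 1366743294) (nat_lit 227) (nat_lit 1) (nat_lit 224) (nat_lit 1) (nat_lit 226) (nat_lit 1) (nat_lit 344) (nat_lit 357) (nat_lit 319)) (XT.nd (nat_lit 78) (nat_lit 228) (nat_lit 0) (XT.lf (nat_lit 76) (nat_lit 207282711) (nat_lit 0) (nat_lit 3686261119) (nat_lit 228) (nat_lit 207282711) (nat_lit 225) (nat_lit 1) (nat_lit 224) (nat_lit 1) (nat_lit 227) (nat_lit 1) (nat_lit 345) (nat_lit 357) (nat_lit 318)) (XT.lf (nat_lit 76) (nat_lit 1710740588) (nat_lit 0) (nat_lit 604172473) (nat_lit 228) (nat_lit 1710740588) (nat_lit 222) (nat_lit 1) (nat_lit 221) (nat_lit 1) (nat_lit 224) (nat_lit 1) (nat_lit 346) (nat_lit 357) (nat_lit 317))))) (XT.nd (nat_lit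 234) (nat_lit 380) (nat_lit 0) (XT.nd (nat_lit 78) (nat_lit 152) (nat_lit 0) (XT.lf (nat_lit 228) (nat_lit 2375663139) (nat_lit 0) (nat_lit 788655796) (nat_lit 152) (nat_lit 788655796) (nat_lit 222) (nat_lit 1) (nat_lit 219) (nat_lit 1) (nat_lit 221) (nat_lit 1) (nat_lit 347) (nat_lit 357) (nat_lit 316)) (XT.nd (nat_lit 78) (nat_lit 152) (nat_lit 0) (XT.lf (nat_lit 76) (nat_lit 670350332) (nat_lit 0) (nat_lit 2541201512) (nat_lit 228) (nat_lit 670350332) (nat_lit 220) (nat_lit 1) (nat_lit 219) (nat_lit 1) (nat_lit 222) (nat_lit 1) (nat_lit 348) (nat_lit 357) (nat_lit 315)) (XT.lf (nat_lit 228) (nat_lit 314034995) (nat_lit 0) (nat_lit 1749113633) (nat_lit 152) (nat_lit 1749113633) (nat_lit 220) (nat_lit 1) (nat_lit 217) (nat_lit 1) (nat_lit 219) (nat_lit 1) (nat_lit 349) (nat_lit 357) (nat_lit 314)))) (XT.nd (nat_lit 78) (nat_lit 152) (nat_lit 0) (XT.lf (nat_lit 228) (nat_lit 3086538819) (nat_lit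 0) (nat_lit 329050699) (nat_lit 152) (nat_lit 329050699) (nat_lit 217) (nat_lit 1) (nat_lit 214) (nat_lit 1) (nat_lit 216) (nat_lit 1) (nat_lit 350) (nat_lit 357) (nat_lit 313)) (XT.nd (nat_lit 78) (nat_lit 152) (nat_lit 0) (XT.lf (nat_lit 76) (nat_lit 1027516336) (nat_lit 0) (nat_lit 1622562646) (nat_lit 228) (nat_lit 1027516336) (nat_lit 215) (nat_lit 1) (nat_lit 214) (nat_lit 1) (nat_lit 217) (nat_lit 1) (nat_lit 351) (nat_lit 357) (nat_lit 312)) (XT.lf (nat_lit 228) (nat_lit 1046475502) (nat_lit 0) (nat_lit 1283010663) (nat_lit 152) (nat_lit 1283010663) (nat_lit 215) (nat_lit 1) (nat_lit 212) (nat_lit 1) (nat_lit 214) (nat_lit 1) (nat_lit 352) (nat_lit 357) (nat_lit 311)))))) (XT.nd (nat_lit 468) (nat_lit 608) (nat_lit 0) (XT.nd (nat_lit 234) (nat_lit 304) (nat_lit 0) (XT.nd (nat_lit 78) (nat_lit 304) (nat_lit 0) (XT.lf (nat_lit 76) (nat_lit 34394763) (nat_lit 0) (nat_lit 3480891817) (nat_lit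 228) (nat_lit 34394763) (nat_lit 213) (nat_lit 1) (nat_lit 212) (nat_lit 1) (nat_lit 215) (nat_lit 1) (nat_lit 353) (nat_lit 357) (nat_lit 310)) (XT.nd (nat_lit 78) (nat_lit 152) (nat_lit 0) (XT.lf (nat_lit 76) (nat_lit 1298690194) (nat_lit 0) (nat_lit 889086184) (nat_lit 152) (nat_lit 1298690194) (nat_lit 211) (nat_lit 1) (nat_lit 210) (nat_lit 1) (nat_lit 212) (nat_lit 1) (nat_lit 354) (nat_lit 357) (nat_lit 309)) (XT.lf (nat_lit 228) (nat_lit 1611526684) (nat_lit 0) (nat_lit 906974665) (nat_lit 152) (nat_lit 906974665) (nat_lit 211) (nat_lit 1) (nat_lit 208) (nat_lit 1) (nat_lit 210) (nat_lit 1) (nat_lit 355) (nat_lit 357) (nat_lit 308)))) (XT.nd (nat_lit 78) (nat_lit 304) (nat_lit 0) (XT.lf (nat_lit 76) (nat_lit 323099962) (nat_lit 0) (nat_lit 2719931822) (nat_lit 228) (nat_lit 323099962) (nat_lit 209) (nat_lit 1) (nat_lit 208) (nat_lit 1) (nat_lit 211) (nat_lit 1) (nat_lit 356) (nat_lit 357)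 (nat_lit 307)) (XT.nd (nat_lit 78) (nat_lit 152) (nat_lit 0) (XT.lf (nat_lit 76) (nat_lit 1500197504) (nat_lit 0) (nat_lit 306881861) (nat_lit 152) (nat_lit 1500197504) (nat_lit 207) (nat_lit 1) (nat_lit 206) (nat_lit 1) (nat_lit 208) (nat_lit 1) (nat_lit 357) (nat_lit 357) (nat_lit 306)) (XT.lf (nat_lit 228) (nat_lit 2040653371) (nat_lit 0) (nat_lit 604683270) (nat_lit 152) (nat_lit 604683270) (nat_lit 207) (nat_lit 1) (nat_lit 204) (nat_lit 1) (nat_lit 206) (nat_lit 1) (nat_lit 358) (nat_lit 357) (nat_lit 305))))) (XT.nd (nat_lit 234) (nat_lit 304) (nat_lit 0) (XT.nd (nat_lit 78) (nat_lit 304) (nat_lit 0) (XT.lf (nat_lit 76) (nat_lit 546580191) (nat_lit 0) (nat_lit 2100736078) (nat_lit 228) (nat_lit 546580191) (nat_lit 205) (nat_lit 1) (nat_lit 204) (nat_lit 1) (nat_lit 207) (nat_lit 1) (nat_lit 359) (nat_lit 357) (nat_lit 304)) (XT.nd (nat_lit 78) (nat_lit 228) (nat_lit 0) (XT.lf (nat_lit 152)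 (nat_lit 156903268) (nat_lit 0) (nat_lit 1490964409) (nat_lit 76) (nat_lit 1490964409) (nat_lit 205) (nat_lit 1) (nat_lit 203) (nat_lit 1) (nat_lit 204) (nat_lit 1) (nat_lit 360) (nat_lit 357) (nat_lit 303)) (XT.lf (nat_lit 228) (nat_lit 2359656655) (nat_lit 0) (nat_lit 362724870) (nat_lit 152) (nat_lit 362724870) (nat_lit 203) (nat_lit 1) (nat_lit 200) (nat_lit 1) (nat_lit 202) (nat_lit 1) (nat_lit 361) (nat_lit 357) (nat_lit 302)))) (XT.nd (nat_lit 156) (nat_lit 228) (nat_lit 0) (XT.nd (nat_lit 78) (nat_lit 76) (nat_lit 0) (XT.lf (nat_lit 76) (nat_lit 717068164) (nat_lit 0) (nat_lit 1597844045) (nat_lit 228) (nat_lit 717068164) (nat_lit 201) (nat_lit 1) (nat_lit 200) (nat_lit 1) (nat_lit 203) (nat_lit 1) (nat_lit 362) (nat_lit 357) (nat_lit 301)) (XT.lf (nat_lit 152) (nat_lit 526916721) (nat_lit 0) (nat_lit 1226620109) (nat_lit 76) (nat_lit 1226620109) (nat_lit 201) (nat_lit 1) (nat_lit 199)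 (nat_lit 1) (nat_lit 200) (nat_lit 1) (nat_lit 363) (nat_lit 357) (nat_lit 300))) (XT.nd (nat_lit 78) (nat_lit 0) (nat_lit 0) (XT.lf (nat_lit 228) (nat_lit 2589682109) (nat_lit 0) (nat_lit 170081740) (nat_lit 152) (nat_lit 170081740) (nat_lit 199) (nat_lit 1) (nat_lit 196) (nat_lit 1) (nat_lit 198) (nat_lit 1) (nat_lit 364) (nat_lit 357) (nat_lit 299)) (XT.lf (nat_lit 76) (nat_lit 844595933) (nat_lit 0) (nat_lit 1190324796) (nat_lit 228) (nat_lit 844595933) (nat_lit 197) (nat_lit 1) (nat_lit 196) (nat_lit 1) (nat_lit 199) (nat_lit 1) (nat_lit 365) (nat_lit 357) (nat_lit 298))))))))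
noncomputable def ec99 : XT := (XT.nd (nat_lit 1950) (nat_lit 1900) (nat_lit 0) (XT.nd (nat_lit 936) (nat_lit 988) (nat_lit 0) (XT.nd (nat_lit 468) (nat_lit 456) (nat_lit 0) (XT.nd (nat_lit 234) (nat_lit 228) (nat_lit 0) (XT.nd (nat_lit 78) (nat_lit 228) (nat_lit 0) (XT.lf (nat_lit 152) (nat_lit 812383323) (nat_lit 0) (nat_lit 1009143399) (nat_lit 76) (nat_lit 1009143399) (nat_lit 197) (nat_lit 1) (nat_lit 195) (nat_lit 1) (nat_lit 196) (nat_lit 1) (nat_lit 366) (nat_lit 357) (nat_lit 297)) (XT.nd (nat_lit 78) (nat_lit 0) (nat_lit 0) (XT.lf (nat_lit 228) (nat_lit 2748049060) (nat_lit 0) (nat_lit 17704851) (nat_lit 152) (nat_lit 17704851) (nat_lit 195) (nat_lit 1) (nat_lit 192) (nat_lit 1) (nat_lit 194) (nat_lit 1) (nat_lit 367) (nat_lit 357) (nat_lit 296)) (XT.lf (nat_lit 76) (nat_lit 937386573) (nat_lit 0) (nat_lit 860973200) (nat_lit 228) (nat_lit 937386573) (nat_lit 193) (nat_lit 1) (nat_lit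 192) (nat_lit 1) (nat_lit 195) (nat_lit 1) (nat_lit 368) (nat_lit 357) (nat_lit 295)))) (XT.nd (nat_lit 78) (nat_lit 152) (nat_lit 0) (XT.lf (nat_lit 152) (nat_lit 1029195135) (nat_lit 0) (nat_lit 830224772) (nat_lit 76) (nat_lit 830224772) (nat_lit 193) (nat_lit 1) (nat_lit 191) (nat_lit 1) (nat_lit 192) (nat_lit 1) (nat_lit 369) (nat_lit 357) (nat_lit 294)) (XT.nd (nat_lit 78) (nat_lit 152) (nat_lit 0) (XT.lf (nat_lit 0) (nat_lit 103505346) (nat_lit 0) (nat_lit 2437924207) (nat_lit 152) (nat_lit 103505346) (nat_lit 191) (nat_lit 3) (nat_lit 191) (nat_lit 1) (nat_lit 193) (nat_lit 1) (nat_lit 370) (nat_lit 357) (nat_lit 293)) (XT.lf (nat_lit 76) (nat_lit 1002176357) (nat_lit 0) (nat_lit 595648634) (nat_lit 152) (nat_lit 1002176357) (nat_lit 190) (nat_lit 1) (nat_lit 189) (nat_lit 1) (nat_lit 191) (nat_lit 1) (nat_lit 371) (nat_lit 357) (nat_lit 292))))) (XT.nd (nat_lit 234) (nat_lit 228) (nat_lit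 0) (XT.nd (nat_lit 78) (nat_lit 152) (nat_lit 0) (XT.lf (nat_lit 152) (nat_lit 1190383637) (nat_lit 0) (nat_lit 683027974) (nat_lit 76) (nat_lit 683027974) (nat_lit 190) (nat_lit 1) (nat_lit 188) (nat_lit 1) (nat_lit 189) (nat_lit 1) (nat_lit 372) (nat_lit 357) (nat_lit 291)) (XT.nd (nat_lit 78) (nat_lit 152) (nat_lit 0) (XT.lf (nat_lit 0) (nat_lit 197830252) (nat_lit 0) (nat_lit 2118362427) (nat_lit 152) (nat_lit 197830252) (nat_lit 188) (nat_lit 3) (nat_lit 188) (nat_lit 1) (nat_lit 190) (nat_lit 1) (nat_lit 373) (nat_lit 357) (nat_lit 290)) (XT.lf (nat_lit 76) (nat_lit 1044479735) (nat_lit 0) (nat_lit 382730988) (nat_lit 152) (nat_lit 1044479735) (nat_lit 187) (nat_lit 1) (nat_lit 186) (nat_lit 1) (nat_lit 188) (nat_lit 1) (nat_lit 374) (nat_lit 357) (nat_lit 289)))) (XT.nd (nat_lit 78) (nat_lit 152) (nat_lit 0) (XT.lf (nat_lit 152) (nat_lit 1306628947) (nat_lit 0) (nat_lit 561928805) (nat_lit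 76) (nat_lit 561928805) (nat_lit 187) (nat_lit 1) (nat_lit 185) (nat_lit 1) (nat_lit 186) (nat_lit 1) (nat_lit 375) (nat_lit 357) (nat_lit 288)) (XT.nd (nat_lit 78) (nat_lit 152) (nat_lit 0) (XT.lf (nat_lit 0) (nat_lit 270066055) (nat_lit 0) (nat_lit 1850092628) (nat_lit 152) (nat_lit 270066055) (nat_lit 185) (nat_lit 3) (nat_lit 185) (nat_lit 1) (nat_lit 187) (nat_lit 1) (nat_lit 376) (nat_lit 357) (nat_lit 287)) (XT.lf (nat_lit 76) (nat_lit 1068807268) (nat_lit 0) (nat_lit 212673143) (nat_lit 152) (nat_lit 1068807268) (nat_lit 184) (nat_lit 1) (nat_lit 183) (nat_lit 1) (nat_lit 185) (nat_lit 1) (nat_lit 377) (nat_lit 357) (nat_lit 286)))))) (XT.nd (nat_lit 468) (nat_lit 608) (nat_lit 0) (XT.nd (nat_lit 234) (nat_lit 152) (nat_lit 0) (XT.nd (nat_lit 78) (nat_lit 152) (nat_lit 0) (XT.lf (nat_lit 152) (nat_lit 1386678661) (nat_lit 0) (nat_lit 462300218) (nat_lit 76) (nat_lit 462300218) (nat_lit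 184) (nat_lit 1) (nat_lit 182) (nat_lit 1) (nat_lit 183) (nat_lit 1) (nat_lit 378) (nat_lit 357) (nat_lit 285)) (XT.nd (nat_lit 78) (nat_lit 152) (nat_lit 0) (XT.lf (nat_lit 0) (nat_lit 324384600) (nat_lit 0) (nat_lit 1624276372) (nat_lit 152) (nat_lit 324384600) (nat_lit 182) (nat_lit 3) (nat_lit 182) (nat_lit 1) (nat_lit 184) (nat_lit 1) (nat_lit 379) (nat_lit 357) (nat_lit 284)) (XT.lf (nat_lit 76) (nat_lit 1078844865) (nat_lit 0) (nat_lit 77632828) (nat_lit 152) (nat_lit 1078844865) (nat_lit 181) (nat_lit 1) (nat_lit 180) (nat_lit 1) (nat_lit 182) (nat_lit 1) (nat_lit 380) (nat_lit 357) (nat_lit 283)))) (XT.nd (nat_lit 78) (nat_lit 76) (nat_lit 0) (XT.lf (nat_lit 152) (nat_lit 1437692341) (nat_lit 0) (nat_lit 380335534) (nat_lit 76) (nat_lit 380335534) (nat_lit 181) (nat_lit 1) (nat_lit 179) (nat_lit 1) (nat_lit 180) (nat_lit 1) (nat_lit 381) (nat_lit 357) (nat_lit 282)) (XT.nd (nat_lit 78)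 (nat_lit 76) (nat_lit 0) (XT.lf (nat_lit 0) (nat_lit 364205906) (nat_lit 0) (nat_lit 1433630084) (nat_lit 152) (nat_lit 364205906) (nat_lit 179) (nat_lit 3) (nat_lit 179) (nat_lit 1) (nat_lit 181) (nat_lit 1) (nat_lit 382) (nat_lit 357) (nat_lit 281)) (XT.lf (nat_lit 76) (nat_lit 29783483) (nat_lit 0) (nat_lit 1048282700) (nat_lit 76) (nat_lit 1048282700) (nat_lit 179) (nat_lit 3) (nat_lit 178) (nat_lit 1) (nat_lit 179) (nat_lit 1) (nat_lit 383) (nat_lit 357) (nat_lit 280))))) (XT.nd (nat_lit 234) (nat_lit 380) (nat_lit 0) (XT.nd (nat_lit 78) (nat_lit 76) (nat_lit 0) (XT.lf (nat_lit 152) (nat_lit 1465524832) (nat_lit 0) (nat_lit 312902985) (nat_lit 76) (nat_lit 312902985) (nat_lit 178) (nat_lit 1) (nat_lit 176) (nat_lit 1) (nat_lit 177) (nat_lit 1) (nat_lit 384) (nat_lit 357) (nat_lit 279)) (XT.nd (nat_lit 78) (nat_lit 76) (nat_lit 0) (XT.lf (nat_lit 0) (nat_lit 392332046) (nat_lit 0) (nat_lit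 1272149964) (nat_lit 152) (nat_lit 392332046) (nat_lit 176) (nat_lit 3) (nat_lit 176) (nat_lit 1) (nat_lit 178) (nat_lit 1) (nat_lit 385) (nat_lit 357) (nat_lit 278)) (XT.lf (nat_lit 76) (nat_lit 115706747) (nat_lit 0) (nat_lit 953628573) (nat_lit 76) (nat_lit 953628573) (nat_lit 176) (nat_lit 3) (nat_lit 175) (nat_lit 1) (nat_lit 176) (nat_lit 1) (nat_lit 386) (nat_lit 357) (nat_lit 277)))) (XT.nd (nat_lit 156) (nat_lit 228) (nat_lit 0) (XT.nd (nat_lit 78) (nat_lit 0) (nat_lit 0) (XT.lf (nat_lit 152) (nat_lit 1474959273) (nat_lit 0) (nat_lit 257426060) (nat_lit 76) (nat_lit 257426060) (nat_lit 175) (nat_lit 1) (nat_lit 173) (nat_lit 1) (nat_lit 174) (nat_lit 1) (nat_lit 387) (nat_lit 357) (nat_lit 276)) (XT.lf (nat_lit 0) (nat_lit 411057256) (nat_lit 0) (nat_lit 1134885634) (nat_lit 152) (nat_lit 411057256) (nat_lit 173) (nat_lit 3) (nat_lit 173) (nat_lit 1) (nat_lit 175) (nat_lit 1) (nat_lit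 388) (nat_lit 357) (nat_lit 275))) (XT.nd (nat_lit 78) (nat_lit 152) (nat_lit 0) (XT.lf (nat_lit 76) (nat_lit 182052990) (nat_lit 0) (nat_lit 871413350) (nat_lit 76) (nat_lit 871413350) (nat_lit 173) (nat_lit 3) (nat_lit 172) (nat_lit 1) (nat_lit 173) (nat_lit 1) (nat_lit 389) (nat_lit 357) (nat_lit 274)) (XT.lf (nat_lit 152) (nat_lit 1469898707) (nat_lit 0) (nat_lit 211785056) (nat_lit 76) (nat_lit 211785056) (nat_lit 172) (nat_lit 1) (nat_lit 170) (nat_lit 1) (nat_lit 171) (nat_lit 1) (nat_lit 390) (nat_lit 357) (nat_lit 273))))))) (XT.nd (nat_lit 1014) (nat_lit 988) (nat_lit 0) (XT.nd (nat_lit 468) (nat_lit 456) (nat_lit 0) (XT.nd (nat_lit 234) (nat_lit 228) (nat_lit 0) (XT.nd (nat_lit 78) (nat_lit 228) (nat_lit 0) (XT.lf (nat_lit 0) (nat_lit 422258498) (nat_lit 0) (nat_lit 1017753896) (nat_lit 152) (nat_lit 422258498) (nat_lit 170) (nat_lit 3) (nat_lit 170) (nat_lit 1) (nat_lit 172) (nat_lit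 1) (nat_lit 391) (nat_lit 357) (nat_lit 272)) (XT.nd (nat_lit 78) (nat_lit 152) (nat_lit 0) (XT.lf (nat_lit 76) (nat_lit 232499982) (nat_lit 0) (nat_lit 799638457) (nat_lit 76) (nat_lit 799638457) (nat_lit 170) (nat_lit 3) (nat_lit 169) (nat_lit 1) (nat_lit 170) (nat_lit 1) (nat_lit 392) (nat_lit 357) (nat_lit 271)) (XT.lf (nat_lit 152) (nat_lit 1453523651) (nat_lit 0) (nat_lit 174236090) (nat_lit 76) (nat_lit 174236090) (nat_lit 169) (nat_lit 1) (nat_lit 167) (nat_lit 1) (nat_lit 168) (nat_lit 1) (nat_lit 393) (nat_lit 357) (nat_lit 270)))) (XT.nd (nat_lit 78) (nat_lit 228) (nat_lit 0) (XT.lf (nat_lit 0) (nat_lit 427469946) (nat_lit 0) (nat_lit 917385484) (nat_lit 152) (nat_lit 427469946) (nat_lit 167) (nat_lit 3) (nat_lit 167) (nat_lit 1) (nat_lit 169) (nat_lit 1) (nat_lit 394) (nat_lit 357) (nat_lit 269)) (XT.nd (nat_lit 78) (nat_lit 152) (nat_lit 0) (XT.lf (nat_lit 76) (nat_lit 270063584) (nat_lit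 0) (nat_lit 736649810) (nat_lit 76) (nat_lit 736649810) (nat_lit 167) (nat_lit 3) (nat_lit 166) (nat_lit 1) (nat_lit 167) (nat_lit 1) (nat_lit 395) (nat_lit 357) (nat_lit 268)) (XT.lf (nat_lit 152) (nat_lit 1428421644) (nat_lit 0) (nat_lit 143344462) (nat_lit 76) (nat_lit 143344462) (nat_lit 166) (nat_lit 1) (nat_lit 164) (nat_lit 1) (nat_lit 165) (nat_lit 1) (nat_lit 396) (nat_lit 357) (nat_lit 267))))) (XT.nd (nat_lit 234) (nat_lit 228) (nat_lit 0) (XT.nd (nat_lit 78) (nat_lit 228) (nat_lit 0) (XT.lf (nat_lit 0) (nat_lit 427944235) (nat_lit 0) (nat_lit 830998960) (nat_lit 152) (nat_lit 427944235) (nat_lit 164) (nat_lit 3) (nat_lit 164) (nat_lit 1) (nat_lit 166) (nat_lit 1) (nat_lit 397) (nat_lit 357) (nat_lit 266)) (XT.nd (nat_lit 78) (nat_lit 152) (nat_lit 0) (XT.lf (nat_lit 76) (nat_lit 297215572) (nat_lit 0) (nat_lit 681077215) (nat_lit 76) (nat_lit 681077215) (nat_lit 164) (nat_lit 3) (nat_lit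 163) (nat_lit 1) (nat_lit 164) (nat_lit 1) (nat_lit 398) (nat_lit 357) (nat_lit 265)) (XT.lf (nat_lit 152) (nat_lit 1396693773) (nat_lit 0) (nat_lit 117929844) (nat_lit 76) (nat_lit 117929844) (nat_lit 163) (nat_lit 1) (nat_lit 161) (nat_lit 1) (nat_lit 162) (nat_lit 1) (nat_lit 399) (nat_lit 357) (nat_lit 264)))) (XT.nd (nat_lit 156) (nat_lit 152) (nat_lit 0) (XT.nd (nat_lit 78) (nat_lit 76) (nat_lit 0) (XT.lf (nat_lit 0) (nat_lit 424702831) (nat_lit 0) (nat_lit 756296951) (nat_lit 152) (nat_lit 424702831) (nat_lit 161) (nat_lit 3) (nat_lit 161) (nat_lit 1) (nat_lit 163) (nat_lit 1) (nat_lit 400) (nat_lit 357) (nat_lit 263)) (XT.lf (nat_lit 76) (nat_lit 315980552) (nat_lit 0) (nat_lit 631784475) (nat_lit 76) (nat_lit 631784475) (nat_lit 161) (nat_lit 3) (nat_lit 160) (nat_lit 1) (nat_lit 161) (nat_lit 1) (nat_lit 401) (nat_lit 357) (nat_lit 262))) (XT.nd (nat_lit 78) (nat_lit 0) (nat_lit 0) (XT.lf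 (nat_lit 152) (nat_lit 1360042235) (nat_lit 0) (nat_lit 97021174) (nat_lit 76) (nat_lit 97021174) (nat_lit 160) (nat_lit 1) (nat_lit 158) (nat_lit 1) (nat_lit 159) (nat_lit 1) (nat_lit 402) (nat_lit 357) (nat_lit 261)) (XT.lf (nat_lit 0) (nat_lit 418577451) (nat_lit 0) (nat_lit 691380754) (nat_lit 152) (nat_lit 418577451) (nat_lit 158) (nat_lit 3) (nat_lit 158) (nat_lit 1) (nat_lit 160) (nat_lit 1) (nat_lit 403) (nat_lit 357) (nat_lit 260)))))) (XT.nd (nat_lit 468) (nat_lit 532) (nat_lit 0) (XT.nd (nat_lit 234) (nat_lit 228) (nat_lit 0) (XT.nd (nat_lit 78) (nat_lit 152) (nat_lit 0) (XT.lf (nat_lit 76) (nat_lit 328015663) (nat_lit 0) (nat_lit 587828332) (nat_lit 76) (nat_lit 587828332) (nat_lit 158) (nat_lit 3) (nat_lit 157) (nat_lit 1) (nat_lit 158) (nat_lit 1) (nat_lit 404) (nat_lit 357) (nat_lit 259)) (XT.nd (nat_lit 78) (nat_lit 0) (nat_lit 0) (XT.lf (nat_lit 152) (nat_lit 1319842313) (nat_lit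 0) (nat_lit 79819560) (nat_lit 76) (nat_lit 79819560) (nat_lit 157) (nat_lit 1) (nat_lit 155) (nat_lit 1) (nat_lit 156) (nat_lit 1) (nat_lit 405) (nat_lit 357) (nat_lit 258)) (XT.lf (nat_lit 0) (nat_lit 410244115) (nat_lit 0) (nat_lit 634680067) (nat_lit 152) (nat_lit 410244115) (nat_lit 155) (nat_lit 3) (nat_lit 155) (nat_lit 1) (nat_lit 157) (nat_lit 1) (nat_lit 406) (nat_lit 357) (nat_lit 257)))) (XT.nd (nat_lit 78) (nat_lit 152) (nat_lit 0) (XT.lf (nat_lit 76) (nat_lit 334676137) (nat_lit 0) (nat_lit 548424663) (nat_lit 76) (nat_lit 548424663) (nat_lit 155) (nat_lit 3) (nat_lit 154) (nat_lit 1) (nat_lit 155) (nat_lit 1) (nat_lit 407) (nat_lit 357) (nat_lit 256)) (XT.nd (nat_lit 78) (nat_lit 0) (nat_lit 0) (XT.lf (nat_lit 152) (nat_lit 1277201539) (nat_lit 0) (nat_lit 65667750) (nat_lit 76) (nat_lit 65667750) (nat_lit 154) (nat_lit 1) (nat_lit 152) (nat_lit 1) (nat_lit 153) (nat_lit 1) (nat_lit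 408) (nat_lit 357) (nat_lit 255)) (XT.lf (nat_lit 0) (nat_lit 400251144) (nat_lit 0) (nat_lit 584895157) (nat_lit 152) (nat_lit 400251144) (nat_lit 152) (nat_lit 3) (nat_lit 152) (nat_lit 1) (nat_lit 154) (nat_lit 1) (nat_lit 409) (nat_lit 357) (nat_lit 254))))) (XT.nd (nat_lit 234) (nat_lit 304) (nat_lit 0) (XT.nd (nat_lit 78) (nat_lit 152) (nat_lit 0) (XT.lf (nat_lit 76) (nat_lit 337069209) (nat_lit 0) (nat_lit 512920650) (nat_lit 76) (nat_lit 512920650) (nat_lit 152) (nat_lit 3) (nat_lit 151) (nat_lit 1) (nat_lit 152) (nat_lit 1) (nat_lit 410) (nat_lit 357) (nat_lit 253)) (XT.nd (nat_lit 78) (nat_lit 0) (nat_lit 0) (XT.lf (nat_lit 152) (nat_lit 1233008296) (nat_lit 0) (nat_lit 54025020) (nat_lit 76) (nat_lit 54025020) (nat_lit 151) (nat_lit 1) (nat_lit 149) (nat_lit 1) (nat_lit 150) (nat_lit 1) (nat_lit 411) (nat_lit 357) (nat_lit 252)) (XT.lf (nat_lit 0) (nat_lit 389042173) (nat_lit 0) (nat_lit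 540949260) (nat_lit 152) (nat_lit 389042173) (nat_lit 149) (nat_lit 3) (nat_lit 149) (nat_lit 1) (nat_lit 151) (nat_lit 1) (nat_lit 412) (nat_lit 357) (nat_lit 251)))) (XT.nd (nat_lit 156) (nat_lit 76) (nat_lit 0) (XT.nd (nat_lit 78) (nat_lit 152) (nat_lit 0) (XT.lf (nat_lit 76) (nat_lit 336098456) (nat_lit 0) (nat_lit 480771872) (nat_lit 76) (nat_lit 480771872) (nat_lit 149) (nat_lit 3) (nat_lit 148) (nat_lit 1) (nat_lit 149) (nat_lit 1) (nat_lit 413) (nat_lit 357) (nat_lit 250)) (XT.lf (nat_lit 152) (nat_lit 1187971767) (nat_lit 0) (nat_lit 44446518) (nat_lit 76) (nat_lit 44446518) (nat_lit 148) (nat_lit 1) (nat_lit 146) (nat_lit 1) (nat_lit 147) (nat_lit 1) (nat_lit 414) (nat_lit 357) (nat_lit 249))) (XT.nd (nat_lit 78) (nat_lit 76) (nat_lit 0) (XT.lf (nat_lit 0) (nat_lit 376975070) (nat_lit 0) (nat_lit 501949407) (nat_lit 152) (nat_lit 376975070) (nat_lit 146) (nat_lit 3) (nat_lit 146) (nat_lit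 1) (nat_lit 148) (nat_lit 1) (nat_lit 415) (nat_lit 357) (nat_lit 248)) (XT.lf (nat_lit 76) (nat_lit 332500254) (nat_lit 0) (nat_lit 451523431) (nat_lit 76) (nat_lit 451523431) (nat_lit 146) (nat_lit 3) (nat_lit 145) (nat_lit 1) (nat_lit 146) (nat_lit 1) (nat_lit 416) (nat_lit 357) (nat_lit 247))))))))
noncomputable def ec100 : XT := (XT.nd (nat_lit 1950) (nat_lit 532) (nat_lit 0) (XT.nd (nat_lit 936) (nat_lit 1064) (nat_lit 0) (XT.nd (nat_lit 468) (nat_lit 456) (nat_lit 0) (XT.nd (nat_lit 234) (nat_lit 228) (nat_lit 0) (XT.nd (nat_lit 78) (nat_lit 76) (nat_lit 0) (XT.lf (nat_lit 152) (nat_lit 1142654732) (nat_lit 0) (nat_lit 36566260) (nat_lit 76) (nat_lit 36566260) (nat_lit 145) (nat_lit 1) (nat_lit 143) (nat_lit 1) (nat_lit 144) (nat_lit 1) (nat_lit 417) (nat_lit 357) (nat_lit 246)) (XT.nd (nat_lit 78) (nat_lit 76) (nat_lit 0) (XT.lf (nat_lit 0) (nat_lit 364337477) (nat_lit 0) (nat_lit 467154173)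 (nat_lit 152) (nat_lit 364337477) (nat_lit 143) (nat_lit 3) (nat_lit 143) (nat_lit 1) (nat_lit 145) (nat_lit 1) (nat_lit 418) (nat_lit 357) (nat_lit 245)) (XT.lf (nat_lit 76) (nat_lit 326873756) (nat_lit 0) (nat_lit 424794418) (nat_lit 76) (nat_lit 424794418) (nat_lit 143) (nat_lit 3) (nat_lit 142) (nat_lit 1) (nat_lit 143) (nat_lit 1) (nat_lit 419) (nat_lit 357) (nat_lit 244)))) (XT.nd (nat_lit 78) (nat_lit 76) (nat_lit 0) (XT.lf (nat_lit 152) (nat_lit 1097500513) (nat_lit 0) (nat_lit 30083152) (nat_lit 76) (nat_lit 30083152) (nat_lit 142) (nat_lit 1) (nat_lit 140) (nat_lit 1) (nat_lit 141) (nat_lit 1) (nat_lit 420) (nat_lit 357) (nat_lit 243)) (XT.nd (nat_lit 78) (nat_lit 76) (nat_lit 0) (XT.lf (nat_lit 0) (nat_lit 351359586) (nat_lit 0) (nat_lit 435947136) (nat_lit 152) (nat_lit 351359586) (nat_lit 140) (nat_lit 3) (nat_lit 140) (nat_lit 1) (nat_lit 142) (nat_lit 1) (nat_lit 421) (nat_lit 357)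 (nat_lit 242)) (XT.lf (nat_lit 76) (nat_lit 319705537) (nat_lit 0) (nat_lit 400265109) (nat_lit 76) (nat_lit 400265109) (nat_lit 140) (nat_lit 3) (nat_lit 139) (nat_lit 1) (nat_lit 140) (nat_lit 1) (nat_lit 422) (nat_lit 357) (nat_lit 241))))) (XT.nd (nat_lit 234) (nat_lit 228) (nat_lit 0) (XT.nd (nat_lit 78) (nat_lit 76) (nat_lit 0) (XT.lf (nat_lit 152) (nat_lit 1052855090) (nat_lit 0) (nat_lit 24749484) (nat_lit 76) (nat_lit 24749484) (nat_lit 139) (nat_lit 1) (nat_lit 137) (nat_lit 1) (nat_lit 138) (nat_lit 1) (nat_lit 423) (nat_lit 357) (nat_lit 240)) (XT.nd (nat_lit 78) (nat_lit 76) (nat_lit 0) (XT.lf (nat_lit 0) (nat_lit 338224631) (nat_lit 0) (nat_lit 407815018) (nat_lit 152) (nat_lit 338224631) (nat_lit 137) (nat_lit 3) (nat_lit 137) (nat_lit 1) (nat_lit 139) (nat_lit 1) (nat_lit 424) (nat_lit 357) (nat_lit 239)) (XT.lf (nat_lit 76) (nat_lit 311389860) (nat_lit 0) (nat_lit 377666419) (nat_lit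 76) (nat_lit 377666419) (nat_lit 137) (nat_lit 3) (nat_lit 136) (nat_lit 1) (nat_lit 137) (nat_lit 1) (nat_lit 425) (nat_lit 357) (nat_lit 238)))) (XT.nd (nat_lit 78) (nat_lit 76) (nat_lit 0) (XT.lf (nat_lit 152) (nat_lit 1008985252) (nat_lit 0) (nat_lit 20361462) (nat_lit 76) (nat_lit 20361462) (nat_lit 136) (nat_lit 1) (nat_lit 134) (nat_lit 1) (nat_lit 135) (nat_lit 1) (nat_lit 426) (nat_lit 357) (nat_lit 237)) (XT.nd (nat_lit 78) (nat_lit 76) (nat_lit 0) (XT.lf (nat_lit 0) (nat_lit 325077508) (nat_lit 0) (nat_lit 382329691) (nat_lit 152) (nat_lit 325077508) (nat_lit 134) (nat_lit 3) (nat_lit 134) (nat_lit 1) (nat_lit 136) (nat_lit 1) (nat_lit 427) (nat_lit 357) (nat_lit 236)) (XT.lf (nat_lit 76) (nat_lit 302245326) (nat_lit 0) (nat_lit 356771215) (nat_lit 76) (nat_lit 356771215) (nat_lit 134) (nat_lit 3) (nat_lit 133) (nat_lit 1) (nat_lit 134) (nat_lit 1) (nat_lit 428) (nat_lit 357) (nat_lit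 235)))))) (XT.nd (nat_lit 468) (nat_lit 608) (nat_lit 0) (XT.nd (nat_lit 234) (nat_lit 228) (nat_lit 0) (XT.nd (nat_lit 78) (nat_lit 76) (nat_lit 0) (XT.lf (nat_lit 152) (nat_lit 966093487) (nat_lit 0) (nat_lit 16751425) (nat_lit 76) (nat_lit 16751425) (nat_lit 133) (nat_lit 1) (nat_lit 131) (nat_lit 1) (nat_lit 132) (nat_lit 1) (nat_lit 429) (nat_lit 357) (nat_lit 234)) (XT.nd (nat_lit 78) (nat_lit 76) (nat_lit 0) (XT.lf (nat_lit 0) (nat_lit 312031848) (nat_lit 0) (nat_lit 359133361) (nat_lit 152) (nat_lit 312031848) (nat_lit 131) (nat_lit 3) (nat_lit 131) (nat_lit 1) (nat_lit 133) (nat_lit 1) (nat_lit 430) (nat_lit 357) (nat_lit 233)) (XT.lf (nat_lit 76) (nat_lit 292528565) (nat_lit 0) (nat_lit 337387149) (nat_lit 76) (nat_lit 337387149) (nat_lit 131) (nat_lit 3) (nat_lit 130) (nat_lit 1) (nat_lit 131) (nat_lit 1) (nat_lit 431) (nat_lit 357) (nat_lit 232)))) (XT.nd (nat_lit 78) (nat_lit 76) (nat_lit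 0) (XT.lf (nat_lit 152) (nat_lit 924330191) (nat_lit 0) (nat_lit 13781438) (nat_lit 76) (nat_lit 13781438) (nat_lit 130) (nat_lit 1) (nat_lit 128) (nat_lit 1) (nat_lit 129) (nat_lit 1) (nat_lit 432) (nat_lit 357) (nat_lit 231)) (XT.nd (nat_lit 78) (nat_lit 76) (nat_lit 0) (XT.lf (nat_lit 0) (nat_lit 299175829) (nat_lit 0) (nat_lit 337926360) (nat_lit 152) (nat_lit 299175829) (nat_lit 128) (nat_lit 3) (nat_lit 128) (nat_lit 1) (nat_lit 130) (nat_lit 1) (nat_lit 433) (nat_lit 357) (nat_lit 230)) (XT.lf (nat_lit 76) (nat_lit 282445487) (nat_lit 0) (nat_lit 319350755) (nat_lit 76) (nat_lit 319350755) (nat_lit 128) (nat_lit 3) (nat_lit 127) (nat_lit 1) (nat_lit 128) (nat_lit 1) (nat_lit 434) (nat_lit 357) (nat_lit 229))))) (XT.nd (nat_lit 234) (nat_lit 380) (nat_lit 0) (XT.nd (nat_lit 78) (nat_lit 76) (nat_lit 0) (XT.lf (nat_lit 152) (nat_lit 883803677) (nat_lit 0) (nat_lit 11338023) (nat_lit 76) (nat_lit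 11338023) (nat_lit 127) (nat_lit 1) (nat_lit 125) (nat_lit 1) (nat_lit 126) (nat_lit 1) (nat_lit 435) (nat_lit 357) (nat_lit 228)) (XT.nd (nat_lit 78) (nat_lit 76) (nat_lit 0) (XT.lf (nat_lit 0) (nat_lit 286576938) (nat_lit 0) (nat_lit 318457096) (nat_lit 152) (nat_lit 286576938) (nat_lit 125) (nat_lit 3) (nat_lit 125) (nat_lit 1) (nat_lit 127) (nat_lit 1) (nat_lit 436) (nat_lit 357) (nat_lit 227)) (XT.lf (nat_lit 76) (nat_lit 272160518) (nat_lit 0) (nat_lit 302522573) (nat_lit 76) (nat_lit 302522573) (nat_lit 125) (nat_lit 3) (nat_lit 124) (nat_lit 1) (nat_lit 125) (nat_lit 1) (nat_lit 437) (nat_lit 357) (nat_lit 226)))) (XT.nd (nat_lit 156) (nat_lit 228) (nat_lit 0) (XT.nd (nat_lit 78) (nat_lit 0) (nat_lit 0) (XT.lf (nat_lit 152) (nat_lit 844588368) (nat_lit 0) (nat_lit 9327820) (nat_lit 76) (nat_lit 9327820) (nat_lit 124) (nat_lit 1) (nat_lit 122) (nat_lit 1) (nat_lit 123) (nat_lit 1) (nat_lit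 438) (nat_lit 357) (nat_lit 225)) (XT.lf (nat_lit 0) (nat_lit 274285882) (nat_lit 0) (nat_lit 300513767) (nat_lit 152) (nat_lit 274285882) (nat_lit 122) (nat_lit 3) (nat_lit 122) (nat_lit 1) (nat_lit 124) (nat_lit 1) (nat_lit 439) (nat_lit 357) (nat_lit 224))) (XT.nd (nat_lit 78) (nat_lit 152) (nat_lit 0) (XT.lf (nat_lit 76) (nat_lit 261804195) (nat_lit 0) (nat_lit 286783133) (nat_lit 76) (nat_lit 286783133) (nat_lit 122) (nat_lit 3) (nat_lit 121) (nat_lit 1) (nat_lit 122) (nat_lit 1) (nat_lit 440) (nat_lit 357) (nat_lit 223)) (XT.lf (nat_lit 152) (nat_lit 806731509) (nat_lit 0) (nat_lit 7674020) (nat_lit 76) (nat_lit 7674020) (nat_lit 121) (nat_lit 1) (nat_lit 119) (nat_lit 1) (nat_lit 120) (nat_lit 1) (nat_lit 441) (nat_lit 357) (nat_lit 222))))))) (XT.nd (nat_lit 42666) (nat_lit 0) (nat_lit 12008) (XT.nd (nat_lit 468) (nat_lit 76) (nat_lit 0) (XT.nd (nat_lit 234) (nat_lit 228) (nat_lit 0) (XT.nd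 (nat_lit 78) (nat_lit 228) (nat_lit 0) (XT.lf (nat_lit 0) (nat_lit 262339795) (nat_lit 0) (nat_lit 283917541) (nat_lit 152) (nat_lit 262339795) (nat_lit 119) (nat_lit 3) (nat_lit 119) (nat_lit 1) (nat_lit 121) (nat_lit 1) (nat_lit 442) (nat_lit 357) (nat_lit 221)) (XT.nd (nat_lit 78) (nat_lit 152) (nat_lit 0) (XT.lf (nat_lit 76) (nat_lit 251479400) (nat_lit 0) (nat_lit 272029634) (nat_lit 76) (nat_lit 272029634) (nat_lit 119) (nat_lit 3) (nat_lit 118) (nat_lit 1) (nat_lit 119) (nat_lit 1) (nat_lit 443) (nat_lit 357) (nat_lit 220)) (XT.lf (nat_lit 152) (nat_lit 770258645) (nat_lit 0) (nat_lit 6313435) (nat_lit 76) (nat_lit 6313435) (nat_lit 118) (nat_lit 1) (nat_lit 116) (nat_lit 1) (nat_lit 117) (nat_lit 1) (nat_lit 444) (nat_lit 357) (nat_lit 219)))) (XT.nd (nat_lit 78) (nat_lit 228) (nat_lit 0) (XT.lf (nat_lit 0) (nat_lit 250764856) (nat_lit 0) (nat_lit 268516921) (nat_lit 152) (nat_lit 250764856)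 (nat_lit 116) (nat_lit 3) (nat_lit 116) (nat_lit 1) (nat_lit 118) (nat_lit 1) (nat_lit 445) (nat_lit 357) (nat_lit 218)) (XT.nd (nat_lit 78) (nat_lit 152) (nat_lit 0) (XT.lf (nat_lit 76) (nat_lit 241266478) (nat_lit 0) (nat_lit 258173207) (nat_lit 76) (nat_lit 258173207) (nat_lit 116) (nat_lit 3) (nat_lit 115) (nat_lit 1) (nat_lit 116) (nat_lit 1) (nat_lit 446) (nat_lit 357) (nat_lit 217)) (XT.lf (nat_lit 152) (nat_lit 735178109) (nat_lit 0) (nat_lit 5194079) (nat_lit 76) (nat_lit 5194079) (nat_lit 115) (nat_lit 1) (nat_lit 113) (nat_lit 1) (nat_lit 114) (nat_lit 1) (nat_lit 447) (nat_lit 357) (nat_lit 216))))) (XT.nd (nat_lit 41964) (nat_lit 0) (nat_lit 13680) (XT.nd (nat_lit 78) (nat_lit 76) (nat_lit 0) (XT.lf (nat_lit 0) (nat_lit 239578447) (nat_lit 0) (nat_lit 254183114) (nat_lit 152) (nat_lit 239578447) (nat_lit 113) (nat_lit 3) (nat_lit 113) (nat_lit 1) (nat_lit 115) (nat_lit 1) (nat_lit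 448) (nat_lit 357) (nat_lit 215)) (XT.nd (nat_lit 41808) (nat_lit 0) (nat_lit 13680) (XT.lf (nat_lit 76) (nat_lit 231227437) (nat_lit 0) (nat_lit 245136644) (nat_lit 76) (nat_lit 245136644) (nat_lit 113) (nat_lit 3) (nat_lit 112) (nat_lit 1) (nat_lit 113) (nat_lit 1) (nat_lit 449) (nat_lit 357) (nat_lit 214)) (XT.lf (nat_lit 836) (nat_lit 1293174291) (nat_lit 0) (nat_lit 2296027982) (nat_lit 836) (nat_lit 1293174291) (nat_lit 303) (nat_lit 1) (nat_lit 292) (nat_lit 0) (nat_lit 303) (nat_lit 0) (nat_lit 304) (nat_lit 358) (nat_lit 358)))) (XT.nd (nat_lit 78) (nat_lit 0) (nat_lit 76) (XT.lf (nat_lit 836) (nat_lit 5012505000) (nat_lit 76) (nat_lit 2258995272) (nat_lit 0) (nat_lit 2258995272) (nat_lit 303) (nat_lit 1) (nat_lit 293) (nat_lit 1) (nat_lit 292) (nat_lit 0) (nat_lit 305) (nat_lit 358) (nat_lit 357)) (XT.nd (nat_lit 78) (nat_lit 0) (nat_lit 0) (XT.lf (nat_lit 836) (nat_lit 2388884410) (nat_lit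 0) (nat_lit 4525711302) (nat_lit 760) (nat_lit 2388884410) (nat_lit 304) (nat_lit 1) (nat_lit 293) (nat_lit 1) (nat_lit 303) (nat_lit 1) (nat_lit 306) (nat_lit 358) (nat_lit 356)) (XT.lf (nat_lit 836) (nat_lit 4481215209) (nat_lit 76) (nat_lit 2301291889) (nat_lit 0) (nat_lit 2301291889) (nat_lit 304) (nat_lit 1) (nat_lit 294) (nat_lit 1) (nat_lit 293) (nat_lit 1) (nat_lit 307) (nat_lit 358) (nat_lit 355)))))) (XT.nd (nat_lit 468) (nat_lit 1824) (nat_lit 0) (XT.nd (nat_lit 234) (nat_lit 0) (nat_lit 76) (XT.nd (nat_lit 78) (nat_lit 0) (nat_lit 0) (XT.lf (nat_lit 836) (nat_lit 2062660327) (nat_lit 0) (nat_lit 4745759988) (nat_lit 760) (nat_lit 2062660327) (nat_lit 305) (nat_lit 1) (nat_lit 294) (nat_lit 1) (nat_lit 304) (nat_lit 1) (nat_lit 308) (nat_lit 358) (nat_lit 354)) (XT.nd (nat_lit 78) (nat_lit 0) (nat_lit 76) (XT.lf (nat_lit 836) (nat_lit 3709828944) (nat_lit 76) (nat_lit 2477508911) (nat_lit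 0) (nat_lit 2477508911) (nat_lit 305) (nat_lit 1) (nat_lit 295) (nat_lit 1) (nat_lit 294) (nat_lit 1) (nat_lit 309) (nat_lit 358) (nat_lit 353)) (XT.lf (nat_lit 836) (nat_lit 1626652842) (nat_lit 0) (nat_lit 5212231825) (nat_lit 760) (nat_lit 1626652842) (nat_lit 306) (nat_lit 1) (nat_lit 295) (nat_lit 1) (nat_lit 305) (nat_lit 1) (nat_lit 310) (nat_lit 358) (nat_lit 352)))) (XT.nd (nat_lit 78) (nat_lit 0) (nat_lit 76) (XT.lf (nat_lit 836) (nat_lit 2734453373) (nat_lit 76) (nat_lit 2768631273) (nat_lit 0) (nat_lit 2768631273) (nat_lit 306) (nat_lit 1) (nat_lit 296) (nat_lit 1) (nat_lit 295) (nat_lit 1) (nat_lit 311) (nat_lit 358) (nat_lit 351)) (XT.nd (nat_lit 78) (nat_lit 0) (nat_lit 0) (XT.lf (nat_lit 836) (nat_lit 1097740605) (nat_lit 0) (nat_lit 5889508095) (nat_lit 760) (nat_lit 1097740605) (nat_lit 307) (nat_lit 1) (nat_lit 296) (nat_lit 1) (nat_lit 306) (nat_lit 1) (nat_lit 312) (nat_lit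 358) (nat_lit 350)) (XT.lf (nat_lit 836) (nat_lit 1587182321) (nat_lit 76) (nat_lit 3157724340) (nat_lit 0) (nat_lit 3157724340) (nat_lit 307) (nat_lit 1) (nat_lit 297) (nat_lit 1) (nat_lit 296) (nat_lit 1) (nat_lit 313) (nat_lit 358) (nat_lit 349))))) (XT.nd (nat_lit 234) (nat_lit 760) (nat_lit 0) (XT.nd (nat_lit 78) (nat_lit 1292) (nat_lit 0) (XT.lf (nat_lit 76) (nat_lit 490915332) (nat_lit 0) (nat_lit 6745886745) (nat_lit 760) (nat_lit 490915332) (nat_lit 298) (nat_lit 1) (nat_lit 297) (nat_lit 1) (nat_lit 307) (nat_lit 1) (nat_lit 314) (nat_lit 358) (nat_lit 348)) (XT.nd (nat_lit 78) (nat_lit 532) (nat_lit 0) (XT.lf (nat_lit 836) (nat_lit 296500652) (nat_lit 0) (nat_lit 3629725605) (nat_lit 760) (nat_lit 3629725605) (nat_lit 298) (nat_lit 1) (nat_lit 287) (nat_lit 1) (nat_lit 297) (nat_lit 1) (nat_lit 315) (nat_lit 358) (nat_lit 347)) (XT.lf (nat_lit 532) (nat_lit 7036333895) (nat_lit 0) (nat_lit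 177615895) (nat_lit 456) (nat_lit 177615895) (nat_lit 287) (nat_lit 1) (nat_lit 280) (nat_lit 1) (nat_lit 286) (nat_lit 1) (nat_lit 316) (nat_lit 358) (nat_lit 346)))) (XT.nd (nat_lit 156) (nat_lit 380) (nat_lit 0) (XT.nd (nat_lit 78) (nat_lit 380) (nat_lit 0) (XT.lf (nat_lit 76) (nat_lit 3076272932) (nat_lit 0) (nat_lit 1076748274) (nat_lit 532) (nat_lit 3076272932) (nat_lit 281) (nat_lit 1) (nat_lit 280) (nat_lit 1) (nat_lit 287) (nat_lit 1) (nat_lit 317) (nat_lit 358) (nat_lit 345)) (XT.lf (nat_lit 456) (nat_lit 5293476072) (nat_lit 0) (nat_lit 890223371) (nat_lit 380) (nat_lit 890223371) (nat_lit 281) (nat_lit 1) (nat_lit 275) (nat_lit 1) (nat_lit 280) (nat_lit 1) (nat_lit 318) (nat_lit 358) (nat_lit 344))) (XT.nd (nat_lit 78) (nat_lit 380) (nat_lit 0) (XT.lf (nat_lit 76) (nat_lit 2194268034) (nat_lit 0) (nat_lit 2533281756) (nat_lit 456) (nat_lit 2194268034) (nat_lit 276) (nat_lit 1) (nat_lit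 275) (nat_lit 1) (nat_lit 281) (nat_lit 1) (nat_lit 319) (nat_lit 358) (nat_lit 343)) (XT.lf (nat_lit 456) (nat_lit 3485829062) (nat_lit 0) (nat_lit 1644590590) (nat_lit 380) (nat_lit 1644590590) (nat_lit 276) (nat_lit 1) (nat_lit 270) (nat_lit 1) (nat_lit 275) (nat_lit 1) (nat_lit 320) (nat_lit 358) (nat_lit 342))))))))
noncomputable def ec101 : XT := (XT.nd (nat_lit 1950) (nat_lit 2356) (nat_lit 0) (XT.nd (nat_lit 936) (nat_lit 1748) (nat_lit 0) (XT.nd (nat_lit 468) (nat_lit 1140) (nat_lit 0) (XT.nd (nat_lit 234) (nat_lit 684) (nat_lit 0) (XT.nd (nat_lit 78) (nat_lit 304) (nat_lit 0) (XT.lf (nat_lit 76) (nat_lit 1284481682) (nat_lit 0) (nat_lit 4063508956) (nat_lit 456) (nat_lit 1284481682) (nat_lit 271) (nat_lit 1) (nat_lit 270) (nat_lit 1) (nat_lit 276) (nat_lit 1) (nat_lit 321) (nat_lit 358) (nat_lit 341)) (XT.nd (nat_lit 78) (nat_lit 0) (nat_lit 0) (XT.lf (nat_lit 380) (nat_lit 1630217472)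 (nat_lit 0) (nat_lit 2431691736) (nat_lit 304) (nat_lit 2431691736) (nat_lit 271) (nat_lit 1) (nat_lit 266) (nat_lit 1) (nat_lit 270) (nat_lit 1) (nat_lit 322) (nat_lit 358) (nat_lit 340)) (XT.lf (nat_lit 76) (nat_lit 354724444) (nat_lit 0) (nat_lit 5650620990) (nat_lit 380) (nat_lit 354724444) (nat_lit 267) (nat_lit 1) (nat_lit 266) (nat_lit 1) (nat_lit 271) (nat_lit 1) (nat_lit 323) (nat_lit 358) (nat_lit 339)))) (XT.nd (nat_lit 78) (nat_lit 304) (nat_lit 0) (XT.lf (nat_lit 76) (nat_lit 2989010097) (nat_lit 0) (nat_lit 250335401) (nat_lit 380) (nat_lit 2989010097) (nat_lit 262) (nat_lit 1) (nat_lit 261) (nat_lit 1) (nat_lit 266) (nat_lit 1) (nat_lit 324) (nat_lit 358) (nat_lit 338)) (XT.nd (nat_lit 78) (nat_lit 0) (nat_lit 0) (XT.lf (nat_lit 380) (nat_lit 4944294072) (nat_lit 0) (nat_lit 578681621) (nat_lit 304) (nat_lit 578681621) (nat_lit 262) (nat_lit 1) (nat_lit 257) (nat_lit 1) (nat_lit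 261) (nat_lit 1) (nat_lit 325) (nat_lit 358) (nat_lit 337)) (XT.lf (nat_lit 76) (nat_lit 1939369501) (nat_lit 0) (nat_lit 2098393570) (nat_lit 380) (nat_lit 1939369501) (nat_lit 258) (nat_lit 1) (nat_lit 257) (nat_lit 1) (nat_lit 262) (nat_lit 1) (nat_lit 326) (nat_lit 358) (nat_lit 336))))) (XT.nd (nat_lit 234) (nat_lit 608) (nat_lit 0) (XT.nd (nat_lit 78) (nat_lit 228) (nat_lit 0) (XT.lf (nat_lit 380) (nat_lit 2830079593) (nat_lit 0) (nat_lit 1513423158) (nat_lit 304) (nat_lit 1513423158) (nat_lit 258) (nat_lit 1) (nat_lit 253) (nat_lit 1) (nat_lit 257) (nat_lit 1) (nat_lit 327) (nat_lit 358) (nat_lit 335)) (XT.nd (nat_lit 78) (nat_lit 228) (nat_lit 0) (XT.lf (nat_lit 76) (nat_lit 892480799) (nat_lit 0) (nat_lit 3955272502) (nat_lit 380) (nat_lit 892480799) (nat_lit 254) (nat_lit 1) (nat_lit 253) (nat_lit 1) (nat_lit 258) (nat_lit 1) (nat_lit 328) (nat_lit 358) (nat_lit 334)) (XT.lf (nat_lit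 304) (nat_lit 725816409) (nat_lit 0) (nat_lit 2450122395) (nat_lit 228) (nat_lit 2450122395) (nat_lit 254) (nat_lit 1) (nat_lit 250) (nat_lit 1) (nat_lit 253) (nat_lit 1) (nat_lit 329) (nat_lit 358) (nat_lit 333)))) (XT.nd (nat_lit 78) (nat_lit 228) (nat_lit 0) (XT.lf (nat_lit 380) (nat_lit 5226257139) (nat_lit 0) (nat_lit 145018607) (nat_lit 304) (nat_lit 145018607) (nat_lit 250) (nat_lit 1) (nat_lit 245) (nat_lit 1) (nat_lit 249) (nat_lit 1) (nat_lit 330) (nat_lit 358) (nat_lit 332)) (XT.nd (nat_lit 78) (nat_lit 228) (nat_lit 0) (XT.lf (nat_lit 76) (nat_lit 2045073055) (nat_lit 0) (nat_lit 1316988942) (nat_lit 380) (nat_lit 2045073055) (nat_lit 246) (nat_lit 1) (nat_lit 245) (nat_lit 1) (nat_lit 250) (nat_lit 1) (nat_lit 331) (nat_lit 358) (nat_lit 331)) (XT.lf (nat_lit 304) (nat_lit 2986893851) (nat_lit 0) (nat_lit 1157634225) (nat_lit 228) (nat_lit 1157634225) (nat_lit 246) (nat_lit 1) (nat_lit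 242) (nat_lit 1) (nat_lit 245) (nat_lit 1) (nat_lit 332) (nat_lit 358) (nat_lit 330)))))) (XT.nd (nat_lit 468) (nat_lit 988) (nat_lit 0) (XT.nd (nat_lit 234) (nat_lit 228) (nat_lit 0) (XT.nd (nat_lit 78) (nat_lit 532) (nat_lit 0) (XT.lf (nat_lit 76) (nat_lit 943605970) (nat_lit 0) (nat_lit 3312644624) (nat_lit 304) (nat_lit 943605970) (nat_lit 243) (nat_lit 1) (nat_lit 242) (nat_lit 1) (nat_lit 246) (nat_lit 1) (nat_lit 333) (nat_lit 358) (nat_lit 329)) (XT.nd (nat_lit 78) (nat_lit 304) (nat_lit 0) (XT.lf (nat_lit 304) (nat_lit 786466082) (nat_lit 0) (nat_lit 2156706085) (nat_lit 228) (nat_lit 2156706085) (nat_lit 243) (nat_lit 1) (nat_lit 239) (nat_lit 1) (nat_lit 242) (nat_lit 1) (nat_lit 334) (nat_lit 358) (nat_lit 328)) (XT.lf (nat_lit 304) (nat_lit 4733289624) (nat_lit 0) (nat_lit 135162320) (nat_lit 228) (nat_lit 135162320) (nat_lit 239) (nat_lit 1) (nat_lit 235) (nat_lit 1) (nat_lit 238)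 (nat_lit 1) (nat_lit 335) (nat_lit 358) (nat_lit 327)))) (XT.nd (nat_lit 78) (nat_lit 228) (nat_lit 0) (XT.lf (nat_lit 76) (nat_lit 1790467912) (nat_lit 0) (nat_lit 1326718744) (nat_lit 304) (nat_lit 1790467912) (nat_lit 236) (nat_lit 1) (nat_lit 235) (nat_lit 1) (nat_lit 239) (nat_lit 1) (nat_lit 336) (nat_lit 358) (nat_lit 326)) (XT.nd (nat_lit 78) (nat_lit 0) (nat_lit 0) (XT.lf (nat_lit 304) (nat_lit 2462057325) (nat_lit 0) (nat_lit 1176594035) (nat_lit 228) (nat_lit 1176594035) (nat_lit 236) (nat_lit 1) (nat_lit 232) (nat_lit 1) (nat_lit 235) (nat_lit 1) (nat_lit 337) (nat_lit 358) (nat_lit 325)) (XT.lf (nat_lit 76) (nat_lit 678048579) (nat_lit 0) (nat_lit 3369217521) (nat_lit 304) (nat_lit 678048579) (nat_lit 233) (nat_lit 1) (nat_lit 232) (nat_lit 1) (nat_lit 236) (nat_lit 1) (nat_lit 338) (nat_lit 358) (nat_lit 324))))) (XT.nd (nat_lit 234) (nat_lit 532) (nat_lit 0) (XT.nd (nat_lit 78) (nat_lit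 304) (nat_lit 0) (XT.lf (nat_lit 228) (nat_lit 248459544) (nat_lit 0) (nat_lit 2194309555) (nat_lit 152) (nat_lit 2194309555) (nat_lit 233) (nat_lit 1) (nat_lit 230) (nat_lit 1) (nat_lit 232) (nat_lit 1) (nat_lit 339) (nat_lit 358) (nat_lit 323)) (XT.nd (nat_lit 78) (nat_lit 0) (nat_lit 0) (XT.lf (nat_lit 304) (nat_lit 3754140399) (nat_lit 0) (nat_lit 398716921) (nat_lit 228) (nat_lit 398716921) (nat_lit 230) (nat_lit 1) (nat_lit 226) (nat_lit 1) (nat_lit 229) (nat_lit 1) (nat_lit 340) (nat_lit 358) (nat_lit 322)) (XT.lf (nat_lit 76) (nat_lit 1311232129) (nat_lit 0) (nat_lit 1844561858) (nat_lit 304) (nat_lit 1311232129) (nat_lit 227) (nat_lit 1) (nat_lit 226) (nat_lit 1) (nat_lit 230) (nat_lit 1) (nat_lit 341) (nat_lit 358) (nat_lit 321)))) (XT.nd (nat_lit 156) (nat_lit 380) (nat_lit 0) (XT.nd (nat_lit 78) (nat_lit 0) (nat_lit 0) (XT.lf (nat_lit 228) (nat_lit 1514926458) (nat_lit 0) (nat_lit 1435080459)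 (nat_lit 152) (nat_lit 1435080459) (nat_lit 227) (nat_lit 1) (nat_lit 224) (nat_lit 1) (nat_lit 226) (nat_lit 1) (nat_lit 342) (nat_lit 358) (nat_lit 320)) (XT.lf (nat_lit 76) (nat_lit 217646847) (nat_lit 0) (nat_lit 3870574175) (nat_lit 228) (nat_lit 217646847) (nat_lit 225) (nat_lit 1) (nat_lit 224) (nat_lit 1) (nat_lit 227) (nat_lit 1) (nat_lit 343) (nat_lit 358) (nat_lit 319))) (XT.nd (nat_lit 78) (nat_lit 152) (nat_lit 0) (XT.lf (nat_lit 76) (nat_lit 1796277617) (nat_lit 0) (nat_lit 634381096) (nat_lit 228) (nat_lit 1796277617) (nat_lit 222) (nat_lit 1) (nat_lit 221) (nat_lit 1) (nat_lit 224) (nat_lit 1) (nat_lit 344) (nat_lit 358) (nat_lit 318)) (XT.lf (nat_lit 228) (nat_lit 2494446296) (nat_lit 0) (nat_lit 828088585) (nat_lit 152) (nat_lit 828088585) (nat_lit 222) (nat_lit 1) (nat_lit 219) (nat_lit 1) (nat_lit 221) (nat_lit 1) (nat_lit 345) (nat_lit 358) (nat_lit 317))))))) (XT.nd (nat_lit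 1014) (nat_lit 1140) (nat_lit 0) (XT.nd (nat_lit 468) (nat_lit 684) (nat_lit 0) (XT.nd (nat_lit 234) (nat_lit 152) (nat_lit 0) (XT.nd (nat_lit 78) (nat_lit 380) (nat_lit 0) (XT.lf (nat_lit 76) (nat_lit 703867848) (nat_lit 0) (nat_lit 2668261588) (nat_lit 228) (nat_lit 703867848) (nat_lit 220) (nat_lit 1) (nat_lit 219) (nat_lit 1) (nat_lit 222) (nat_lit 1) (nat_lit 346) (nat_lit 358) (nat_lit 316)) (XT.nd (nat_lit 78) (nat_lit 228) (nat_lit 0) (XT.lf (nat_lit 228) (nat_lit 329736745) (nat_lit 0) (nat_lit 1836569314) (nat_lit 152) (nat_lit 1836569314) (nat_lit 220) (nat_lit 1) (nat_lit 217) (nat_lit 1) (nat_lit 219) (nat_lit 1) (nat_lit 347) (nat_lit 358) (nat_lit 315)) (XT.lf (nat_lit 228) (nat_lit 3240865760) (nat_lit 0) (nat_lit 345503234) (nat_lit 152) (nat_lit 345503234) (nat_lit 217) (nat_lit 1) (nat_lit 214) (nat_lit 1) (nat_lit 216) (nat_lit 1) (nat_lit 348) (nat_lit 358) (nat_lit 314))))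 (XT.nd (nat_lit 78) (nat_lit 152) (nat_lit 0) (XT.lf (nat_lit 76) (nat_lit 1078892153) (nat_lit 0) (nat_lit 1703690779) (nat_lit 228) (nat_lit 1078892153) (nat_lit 215) (nat_lit 1) (nat_lit 214) (nat_lit 1) (nat_lit 217) (nat_lit 1) (nat_lit 349) (nat_lit 358) (nat_lit 313)) (XT.nd (nat_lit 78) (nat_lit 0) (nat_lit 0) (XT.lf (nat_lit 228) (nat_lit 1098799277) (nat_lit 0) (nat_lit 1347161196) (nat_lit 152) (nat_lit 1347161196) (nat_lit 215) (nat_lit 1) (nat_lit 212) (nat_lit 1) (nat_lit 214) (nat_lit 1) (nat_lit 350) (nat_lit 358) (nat_lit 312)) (XT.lf (nat_lit 76) (nat_lit 36114501) (nat_lit 0) (nat_lit 3654936408) (nat_lit 228) (nat_lit 36114501) (nat_lit 213) (nat_lit 1) (nat_lit 212) (nat_lit 1) (nat_lit 215) (nat_lit 1) (nat_lit 351) (nat_lit 358) (nat_lit 311))))) (XT.nd (nat_lit 234) (nat_lit 380) (nat_lit 0) (XT.nd (nat_lit 78) (nat_lit 152) (nat_lit 0) (XT.lf (nat_lit 76) (nat_lit 1363624703)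 (nat_lit 0) (nat_lit 933540493) (nat_lit 152) (nat_lit 1363624703) (nat_lit 211) (nat_lit 1) (nat_lit 210) (nat_lit 1) (nat_lit 212) (nat_lit 1) (nat_lit 352) (nat_lit 358) (nat_lit 310)) (XT.nd (nat_lit 78) (nat_lit 0) (nat_lit 0) (XT.lf (nat_lit 228) (nat_lit 1692103019) (nat_lit 0) (nat_lit 952323398) (nat_lit 152) (nat_lit 952323398) (nat_lit 211) (nat_lit 1) (nat_lit 208) (nat_lit 1) (nat_lit 210) (nat_lit 1) (nat_lit 353) (nat_lit 358) (nat_lit 309)) (XT.lf (nat_lit 76) (nat_lit 339254960) (nat_lit 0) (nat_lit 2855928413) (nat_lit 228) (nat_lit 339254960) (nat_lit 209) (nat_lit 1) (nat_lit 208) (nat_lit 1) (nat_lit 211) (nat_lit 1) (nat_lit 354) (nat_lit 358) (nat_lit 308)))) (XT.nd (nat_lit 156) (nat_lit 76) (nat_lit 0) (XT.nd (nat_lit 78) (nat_lit 152) (nat_lit 0) (XT.lf (nat_lit 76) (nat_lit 1575207379) (nat_lit 0) (nat_lit 322225954) (nat_lit 152) (nat_lit 1575207379) (nat_lit 207) (nat_lit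 1) (nat_lit 206) (nat_lit 1) (nat_lit 208) (nat_lit 1) (nat_lit 355) (nat_lit 358) (nat_lit 307)) (XT.lf (nat_lit 228) (nat_lit 2142686040) (nat_lit 0) (nat_lit 634917434) (nat_lit 152) (nat_lit 634917434) (nat_lit 207) (nat_lit 1) (nat_lit 204) (nat_lit 1) (nat_lit 206) (nat_lit 1) (nat_lit 356) (nat_lit 358) (nat_lit 306))) (XT.nd (nat_lit 78) (nat_lit 76) (nat_lit 0) (XT.lf (nat_lit 76) (nat_lit 573909201) (nat_lit 0) (nat_lit 2205772882) (nat_lit 228) (nat_lit 573909201) (nat_lit 205) (nat_lit 1) (nat_lit 204) (nat_lit 1) (nat_lit 207) (nat_lit 1) (nat_lit 357) (nat_lit 358) (nat_lit 305)) (XT.lf (nat_lit 152) (nat_lit 164748432) (nat_lit 0) (nat_lit 1565512630) (nat_lit 76) (nat_lit 1565512630) (nat_lit 205) (nat_lit 1) (nat_lit 203) (nat_lit 1) (nat_lit 204) (nat_lit 1) (nat_lit 358) (nat_lit 358) (nat_lit 304)))))) (XT.nd (nat_lit 468) (nat_lit 532) (nat_lit 0) (XT.nd (nat_lit 234) (nat_lit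 304) (nat_lit 0) (XT.nd (nat_lit 78) (nat_lit 76) (nat_lit 0) (XT.lf (nat_lit 228) (nat_lit 2477639488) (nat_lit 0) (nat_lit 380861113) (nat_lit 152) (nat_lit 380861113) (nat_lit 203) (nat_lit 1) (nat_lit 200) (nat_lit 1) (nat_lit 202) (nat_lit 1) (nat_lit 359) (nat_lit 358) (nat_lit 303)) (XT.nd (nat_lit 78) (nat_lit 76) (nat_lit 0) (XT.lf (nat_lit 76) (nat_lit 752921573) (nat_lit 0) (nat_lit 1677736247) (nat_lit 228) (nat_lit 752921573) (nat_lit 201) (nat_lit 1) (nat_lit 200) (nat_lit 1) (nat_lit 203) (nat_lit 1) (nat_lit 360) (nat_lit 358) (nat_lit 302)) (XT.lf (nat_lit 152) (nat_lit 553262557) (nat_lit 0) (nat_lit 1287951115) (nat_lit 76) (nat_lit 1287951115) (nat_lit 201) (nat_lit 1) (nat_lit 199) (nat_lit 1) (nat_lit 200) (nat_lit 1) (nat_lit 361) (nat_lit 358) (nat_lit 301)))) (XT.nd (nat_lit 78) (nat_lit 76) (nat_lit 0) (XT.lf (nat_lit 228) (nat_lit 2719166215) (nat_lit 0) (nat_lit 178585827)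 (nat_lit 152) (nat_lit 178585827) (nat_lit 199) (nat_lit 1) (nat_lit 196) (nat_lit 1) (nat_lit 198) (nat_lit 1) (nat_lit 362) (nat_lit 358) (nat_lit 300)) (XT.nd (nat_lit 78) (nat_lit 76) (nat_lit 0) (XT.lf (nat_lit 76) (nat_lit 886825729) (nat_lit 0) (nat_lit 1249841036) (nat_lit 228) (nat_lit 886825729) (nat_lit 197) (nat_lit 1) (nat_lit 196) (nat_lit 1) (nat_lit 199) (nat_lit 1) (nat_lit 363) (nat_lit 358) (nat_lit 299)) (XT.lf (nat_lit 152) (nat_lit 853002490) (nat_lit 0) (nat_lit 1059600569) (nat_lit 76) (nat_lit 1059600569) (nat_lit 197) (nat_lit 1) (nat_lit 195) (nat_lit 1) (nat_lit 196) (nat_lit 1) (nat_lit 364) (nat_lit 358) (nat_lit 298))))) (XT.nd (nat_lit 234) (nat_lit 228) (nat_lit 0) (XT.nd (nat_lit 78) (nat_lit 76) (nat_lit 0) (XT.lf (nat_lit 228) (nat_lit 2885451513) (nat_lit 0) (nat_lit 18590094) (nat_lit 152) (nat_lit 18590094) (nat_lit 195) (nat_lit 1) (nat_lit 192) (nat_lit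 1) (nat_lit 194) (nat_lit 1) (nat_lit 365) (nat_lit 358) (nat_lit 297)) (XT.nd (nat_lit 78) (nat_lit 76) (nat_lit 0) (XT.lf (nat_lit 76) (nat_lit 984255902) (nat_lit 0) (nat_lit 904021860) (nat_lit 228) (nat_lit 984255902) (nat_lit 193) (nat_lit 1) (nat_lit 192) (nat_lit 1) (nat_lit 195) (nat_lit 1) (nat_lit 366) (nat_lit 358) (nat_lit 296)) (XT.lf (nat_lit 152) (nat_lit 1080654892) (nat_lit 0) (nat_lit 871736011) (nat_lit 76) (nat_lit 871736011) (nat_lit 193) (nat_lit 1) (nat_lit 191) (nat_lit 1) (nat_lit 192) (nat_lit 1) (nat_lit 367) (nat_lit 358) (nat_lit 295)))) (XT.nd (nat_lit 156) (nat_lit 76) (nat_lit 0) (XT.nd (nat_lit 78) (nat_lit 152) (nat_lit 0) (XT.lf (nat_lit 0) (nat_lit 108680613) (nat_lit 0) (nat_lit 2559820418) (nat_lit 152) (nat_lit 108680613) (nat_lit 191) (nat_lit 3) (nat_lit 191) (nat_lit 1) (nat_lit 193) (nat_lit 1) (nat_lit 368) (nat_lit 358) (nat_lit 294)) (XT.lf (nat_lit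 76) (nat_lit 1052285175) (nat_lit 0) (nat_lit 625431066) (nat_lit 152) (nat_lit 1052285175) (nat_lit 190) (nat_lit 1) (nat_lit 189) (nat_lit 1) (nat_lit 191) (nat_lit 1) (nat_lit 369) (nat_lit 358) (nat_lit 293))) (XT.nd (nat_lit 78) (nat_lit 0) (nat_lit 0) (XT.lf (nat_lit 152) (nat_lit 1249902818) (nat_lit 0) (nat_lit 717179373) (nat_lit 76) (nat_lit 717179373) (nat_lit 190) (nat_lit 1) (nat_lit 188) (nat_lit 1) (nat_lit 189) (nat_lit 1) (nat_lit 370) (nat_lit 358) (nat_lit 292)) (XT.lf (nat_lit 0) (nat_lit 207721765) (nat_lit 0) (nat_lit 2224280548) (nat_lit 152) (nat_lit 207721765) (nat_lit 188) (nat_lit 3) (nat_lit 188) (nat_lit 1) (nat_lit 190) (nat_lit 1) (nat_lit 371) (nat_lit 358) (nat_lit 291))))))))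
noncomputable def ec102 : XT := (XT.nd (nat_lit 1950) (nat_lit 1976) (nat_lit 0) (XT.nd (nat_lit 936) (nat_lit 988) (nat_lit 0) (XT.nd (nat_lit 468) (nat_lit 456) (nat_lit 0) (XT.nd (nat_lit 234) (nat_lit 228) (nat_lit 0) (XT.nd (nat_lit 78) (nat_lit 76) (nat_lit 0) (XT.lf (nat_lit 76) (nat_lit 1096703721) (nat_lit 0) (nat_lit 401867537) (nat_lit 152) (nat_lit 1096703721) (nat_lit 187) (nat_lit 1) (nat_lit 186) (nat_lit 1) (nat_lit 188) (nat_lit 1) (nat_lit 372) (nat_lit 358) (nat_lit 290)) (XT.nd (nat_lit 78) (nat_lit 0) (nat_lit 0) (XT.lf (nat_lit 152) (nat_lit 1371960394) (nat_lit 0) (nat_lit 590025245) (nat_lit 76) (nat_lit 590025245) (nat_lit 187) (nat_lit 1) (nat_lit 185) (nat_lit 1) (nat_lit 186) (nat_lit 1) (nat_lit 373) (nat_lit 358) (nat_lit 289)) (XT.lf (nat_lit 0) (nat_lit 283569358) (nat_lit 0) (nat_lit 1942597260) (nat_lit 152) (nat_lit 283569358) (nat_lit 185) (nat_lit 3) (nat_lit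 185) (nat_lit 1) (nat_lit 187) (nat_lit 1) (nat_lit 374) (nat_lit 358) (nat_lit 288)))) (XT.nd (nat_lit 78) (nat_lit 76) (nat_lit 0) (XT.lf (nat_lit 76) (nat_lit 1122247631) (nat_lit 0) (nat_lit 223306800) (nat_lit 152) (nat_lit 1122247631) (nat_lit 184) (nat_lit 1) (nat_lit 183) (nat_lit 1) (nat_lit 185) (nat_lit 1) (nat_lit 375) (nat_lit 358) (nat_lit 287)) (XT.nd (nat_lit 78) (nat_lit 0) (nat_lit 0) (XT.lf (nat_lit 152) (nat_lit 1456012594) (nat_lit 0) (nat_lit 485415229) (nat_lit 76) (nat_lit 485415229) (nat_lit 184) (nat_lit 1) (nat_lit 182) (nat_lit 1) (nat_lit 183) (nat_lit 1) (nat_lit 376) (nat_lit 358) (nat_lit 286)) (XT.lf (nat_lit 0) (nat_lit 340603830) (nat_lit 0) (nat_lit 1705490190) (nat_lit 152) (nat_lit 340603830) (nat_lit 182) (nat_lit 3) (nat_lit 182) (nat_lit 1) (nat_lit 184) (nat_lit 1) (nat_lit 377) (nat_lit 358) (nat_lit 285))))) (XT.nd (nat_lit 234) (nat_lit 228) (nat_lit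 0) (XT.nd (nat_lit 78) (nat_lit 76) (nat_lit 0) (XT.lf (nat_lit 76) (nat_lit 1132787109) (nat_lit 0) (nat_lit 81514469) (nat_lit 152) (nat_lit 1132787109) (nat_lit 181) (nat_lit 1) (nat_lit 180) (nat_lit 1) (nat_lit 182) (nat_lit 1) (nat_lit 378) (nat_lit 358) (nat_lit 284)) (XT.nd (nat_lit 78) (nat_lit 0) (nat_lit 0) (XT.lf (nat_lit 152) (nat_lit 1509576958) (nat_lit 0) (nat_lit 399352310) (nat_lit 76) (nat_lit 399352310) (nat_lit 181) (nat_lit 1) (nat_lit 179) (nat_lit 1) (nat_lit 180) (nat_lit 1) (nat_lit 379) (nat_lit 358) (nat_lit 283)) (XT.lf (nat_lit 0) (nat_lit 382416202) (nat_lit 0) (nat_lit 1505311588) (nat_lit 152) (nat_lit 382416202) (nat_lit 179) (nat_lit 3) (nat_lit 179) (nat_lit 1) (nat_lit 181) (nat_lit 1) (nat_lit 380) (nat_lit 358) (nat_lit 282)))) (XT.nd (nat_lit 78) (nat_lit 152) (nat_lit 0) (XT.lf (nat_lit 76) (nat_lit 31272657) (nat_lit 0) (nat_lit 1100696835) (nat_lit 76)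 (nat_lit 1100696835) (nat_lit 179) (nat_lit 3) (nat_lit 178) (nat_lit 1) (nat_lit 179) (nat_lit 1) (nat_lit 381) (nat_lit 358) (nat_lit 281)) (XT.nd (nat_lit 78) (nat_lit 0) (nat_lit 0) (XT.lf (nat_lit 152) (nat_lit 1538801073) (nat_lit 0) (nat_lit 328548134) (nat_lit 76) (nat_lit 328548134) (nat_lit 178) (nat_lit 1) (nat_lit 176) (nat_lit 1) (nat_lit 177) (nat_lit 1) (nat_lit 382) (nat_lit 358) (nat_lit 280)) (XT.lf (nat_lit 0) (nat_lit 411948649) (nat_lit 0) (nat_lit 1335757462) (nat_lit 152) (nat_lit 411948649) (nat_lit 176) (nat_lit 3) (nat_lit 176) (nat_lit 1) (nat_lit 178) (nat_lit 1) (nat_lit 383) (nat_lit 358) (nat_lit 279)))))) (XT.nd (nat_lit 468) (nat_lit 532) (nat_lit 0) (XT.nd (nat_lit 234) (nat_lit 228) (nat_lit 0) (XT.nd (nat_lit 78) (nat_lit 152) (nat_lit 0) (XT.lf (nat_lit 76) (nat_lit 121492084) (nat_lit 0) (nat_lit 1001310002) (nat_lit 76) (nat_lit 1001310002) (nat_lit 176) (nat_lit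 3) (nat_lit 175) (nat_lit 1) (nat_lit 176) (nat_lit 1) (nat_lit 384) (nat_lit 358) (nat_lit 278)) (XT.nd (nat_lit 78) (nat_lit 0) (nat_lit 0) (XT.lf (nat_lit 152) (nat_lit 1548707236) (nat_lit 0) (nat_lit 270297363) (nat_lit 76) (nat_lit 270297363) (nat_lit 175) (nat_lit 1) (nat_lit 173) (nat_lit 1) (nat_lit 174) (nat_lit 1) (nat_lit 385) (nat_lit 358) (nat_lit 277)) (XT.lf (nat_lit 0) (nat_lit 431610119) (nat_lit 0) (nat_lit 1191629916) (nat_lit 152) (nat_lit 431610119) (nat_lit 173) (nat_lit 3) (nat_lit 173) (nat_lit 1) (nat_lit 175) (nat_lit 1) (nat_lit 386) (nat_lit 358) (nat_lit 276)))) (XT.nd (nat_lit 78) (nat_lit 152) (nat_lit 0) (XT.lf (nat_lit 76) (nat_lit 191155640) (nat_lit 0) (nat_lit 914984018) (nat_lit 76) (nat_lit 914984018) (nat_lit 173) (nat_lit 3) (nat_lit 172) (nat_lit 1) (nat_lit 173) (nat_lit 1) (nat_lit 387) (nat_lit 358) (nat_lit 275)) (XT.nd (nat_lit 78) (nat_lit 0) (nat_lit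 0) (XT.lf (nat_lit 152) (nat_lit 1543393643) (nat_lit 0) (nat_lit 222374309) (nat_lit 76) (nat_lit 222374309) (nat_lit 172) (nat_lit 1) (nat_lit 170) (nat_lit 1) (nat_lit 171) (nat_lit 1) (nat_lit 388) (nat_lit 358) (nat_lit 274)) (XT.lf (nat_lit 0) (nat_lit 443371423) (nat_lit 0) (nat_lit 1068641591) (nat_lit 152) (nat_lit 443371423) (nat_lit 170) (nat_lit 3) (nat_lit 170) (nat_lit 1) (nat_lit 172) (nat_lit 1) (nat_lit 389) (nat_lit 358) (nat_lit 273))))) (XT.nd (nat_lit 234) (nat_lit 304) (nat_lit 0) (XT.nd (nat_lit 78) (nat_lit 152) (nat_lit 0) (XT.lf (nat_lit 76) (nat_lit 244124981) (nat_lit 0) (nat_lit 839620379) (nat_lit 76) (nat_lit 839620379) (nat_lit 170) (nat_lit 3) (nat_lit 169) (nat_lit 1) (nat_lit 170) (nat_lit 1) (nat_lit 390) (nat_lit 358) (nat_lit 272)) (XT.nd (nat_lit 78) (nat_lit 0) (nat_lit 0) (XT.lf (nat_lit 152) (nat_lit 1526199833) (nat_lit 0) (nat_lit 182947894) (nat_lit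 76) (nat_lit 182947894) (nat_lit 169) (nat_lit 1) (nat_lit 167) (nat_lit 1) (nat_lit 168) (nat_lit 1) (nat_lit 391) (nat_lit 358) (nat_lit 271)) (XT.lf (nat_lit 0) (nat_lit 448843444) (nat_lit 0) (nat_lit 963254758) (nat_lit 152) (nat_lit 448843444) (nat_lit 167) (nat_lit 3) (nat_lit 167) (nat_lit 1) (nat_lit 169) (nat_lit 1) (nat_lit 392) (nat_lit 358) (nat_lit 270)))) (XT.nd (nat_lit 156) (nat_lit 76) (nat_lit 0) (XT.nd (nat_lit 78) (nat_lit 152) (nat_lit 0) (XT.lf (nat_lit 76) (nat_lit 283566763) (nat_lit 0) (nat_lit 773482301) (nat_lit 76) (nat_lit 773482301) (nat_lit 167) (nat_lit 3) (nat_lit 166) (nat_lit 1) (nat_lit 167) (nat_lit 1) (nat_lit 393) (nat_lit 358) (nat_lit 269)) (XT.lf (nat_lit 152) (nat_lit 1499842726) (nat_lit 0) (nat_lit 150511685) (nat_lit 76) (nat_lit 150511685) (nat_lit 166) (nat_lit 1) (nat_lit 164) (nat_lit 1) (nat_lit 165) (nat_lit 1) (nat_lit 394) (nat_lit 358) (nat_lit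 268))) (XT.nd (nat_lit 78) (nat_lit 76) (nat_lit 0) (XT.lf (nat_lit 0) (nat_lit 449341447) (nat_lit 0) (nat_lit 872548908) (nat_lit 152) (nat_lit 449341447) (nat_lit 164) (nat_lit 3) (nat_lit 164) (nat_lit 1) (nat_lit 166) (nat_lit 1) (nat_lit 395) (nat_lit 358) (nat_lit 267)) (XT.lf (nat_lit 76) (nat_lit 312076351) (nat_lit 0) (nat_lit 715131076) (nat_lit 76) (nat_lit 715131076) (nat_lit 164) (nat_lit 3) (nat_lit 163) (nat_lit 1) (nat_lit 164) (nat_lit 1) (nat_lit 396) (nat_lit 358) (nat_lit 266))))))) (XT.nd (nat_lit 936) (nat_lit 1064) (nat_lit 0) (XT.nd (nat_lit 468) (nat_lit 456) (nat_lit 0) (XT.nd (nat_lit 234) (nat_lit 228) (nat_lit 0) (XT.nd (nat_lit 78) (nat_lit 76) (nat_lit 0) (XT.lf (nat_lit 152) (nat_lit 1466528462) (nat_lit 0) (nat_lit 123826336) (nat_lit 76) (nat_lit 123826336) (nat_lit 163) (nat_lit 1) (nat_lit 161) (nat_lit 1) (nat_lit 162) (nat_lit 1) (nat_lit 397) (nat_lit 358)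 (nat_lit 265)) (XT.nd (nat_lit 78) (nat_lit 76) (nat_lit 0) (XT.lf (nat_lit 0) (nat_lit 445937972) (nat_lit 0) (nat_lit 794111798) (nat_lit 152) (nat_lit 445937972) (nat_lit 161) (nat_lit 3) (nat_lit 161) (nat_lit 1) (nat_lit 163) (nat_lit 1) (nat_lit 398) (nat_lit 358) (nat_lit 264)) (XT.lf (nat_lit 76) (nat_lit 331779579) (nat_lit 0) (nat_lit 663373699) (nat_lit 76) (nat_lit 663373699) (nat_lit 161) (nat_lit 3) (nat_lit 160) (nat_lit 1) (nat_lit 161) (nat_lit 1) (nat_lit 399) (nat_lit 358) (nat_lit 263)))) (XT.nd (nat_lit 78) (nat_lit 76) (nat_lit 0) (XT.lf (nat_lit 152) (nat_lit 1428044347) (nat_lit 0) (nat_lit 101872233) (nat_lit 76) (nat_lit 101872233) (nat_lit 160) (nat_lit 1) (nat_lit 158) (nat_lit 1) (nat_lit 159) (nat_lit 1) (nat_lit 400) (nat_lit 358) (nat_lit 262)) (XT.nd (nat_lit 78) (nat_lit 76) (nat_lit 0) (XT.lf (nat_lit 0) (nat_lit 439506323) (nat_lit 0) (nat_lit 725949791) (nat_lit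 152) (nat_lit 439506323) (nat_lit 158) (nat_lit 3) (nat_lit 158) (nat_lit 1) (nat_lit 160) (nat_lit 1) (nat_lit 401) (nat_lit 358) (nat_lit 261)) (XT.lf (nat_lit 76) (nat_lit 344416446) (nat_lit 0) (nat_lit 617219749) (nat_lit 76) (nat_lit 617219749) (nat_lit 158) (nat_lit 3) (nat_lit 157) (nat_lit 1) (nat_lit 158) (nat_lit 1) (nat_lit 402) (nat_lit 358) (nat_lit 260))))) (XT.nd (nat_lit 234) (nat_lit 228) (nat_lit 0) (XT.nd (nat_lit 78) (nat_lit 76) (nat_lit 0) (XT.lf (nat_lit 152) (nat_lit 1385834429) (nat_lit 0) (nat_lit 83810538) (nat_lit 76) (nat_lit 83810538) (nat_lit 157) (nat_lit 1) (nat_lit 155) (nat_lit 1) (nat_lit 156) (nat_lit 1) (nat_lit 403) (nat_lit 358) (nat_lit 259)) (XT.nd (nat_lit 78) (nat_lit 76) (nat_lit 0) (XT.lf (nat_lit 0) (nat_lit 430756320) (nat_lit 0) (nat_lit 666414071) (nat_lit 152) (nat_lit 430756320) (nat_lit 155) (nat_lit 3) (nat_lit 155) (nat_lit 1) (nat_lit 157)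 (nat_lit 1) (nat_lit 404) (nat_lit 358) (nat_lit 258)) (XT.lf (nat_lit 76) (nat_lit 351409943) (nat_lit 0) (nat_lit 575845896) (nat_lit 76) (nat_lit 575845896) (nat_lit 155) (nat_lit 3) (nat_lit 154) (nat_lit 1) (nat_lit 155) (nat_lit 1) (nat_lit 405) (nat_lit 358) (nat_lit 257)))) (XT.nd (nat_lit 78) (nat_lit 76) (nat_lit 0) (XT.lf (nat_lit 152) (nat_lit 1341061616) (nat_lit 0) (nat_lit 68951137) (nat_lit 76) (nat_lit 68951137) (nat_lit 154) (nat_lit 1) (nat_lit 152) (nat_lit 1) (nat_lit 153) (nat_lit 1) (nat_lit 406) (nat_lit 358) (nat_lit 256)) (XT.nd (nat_lit 78) (nat_lit 76) (nat_lit 0) (XT.lf (nat_lit 0) (nat_lit 420263701) (nat_lit 0) (nat_lit 614139915) (nat_lit 152) (nat_lit 420263701) (nat_lit 152) (nat_lit 3) (nat_lit 152) (nat_lit 1) (nat_lit 154) (nat_lit 1) (nat_lit 407) (nat_lit 358) (nat_lit 255)) (XT.lf (nat_lit 76) (nat_lit 353922669) (nat_lit 0) (nat_lit 538566683) (nat_lit 76)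 (nat_lit 538566683) (nat_lit 152) (nat_lit 3) (nat_lit 151) (nat_lit 1) (nat_lit 152) (nat_lit 1) (nat_lit 408) (nat_lit 358) (nat_lit 254)))))) (XT.nd (nat_lit 468) (nat_lit 608) (nat_lit 0) (XT.nd (nat_lit 234) (nat_lit 228) (nat_lit 0) (XT.nd (nat_lit 78) (nat_lit 76) (nat_lit 0) (XT.lf (nat_lit 152) (nat_lit 1294658711) (nat_lit 0) (nat_lit 56726271) (nat_lit 76) (nat_lit 56726271) (nat_lit 151) (nat_lit 1) (nat_lit 149) (nat_lit 1) (nat_lit 150) (nat_lit 1) (nat_lit 409) (nat_lit 358) (nat_lit 253)) (XT.nd (nat_lit 78) (nat_lit 76) (nat_lit 0) (XT.lf (nat_lit 0) (nat_lit 408494282) (nat_lit 0) (nat_lit 567996723) (nat_lit 152) (nat_lit 408494282) (nat_lit 149) (nat_lit 3) (nat_lit 149) (nat_lit 1) (nat_lit 151) (nat_lit 1) (nat_lit 410) (nat_lit 358) (nat_lit 252)) (XT.lf (nat_lit 76) (nat_lit 352903379) (nat_lit 0) (nat_lit 504810466) (nat_lit 76) (nat_lit 504810466) (nat_lit 149) (nat_lit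 3) (nat_lit 148) (nat_lit 1) (nat_lit 149) (nat_lit 1) (nat_lit 411) (nat_lit 358) (nat_lit 251)))) (XT.nd (nat_lit 78) (nat_lit 76) (nat_lit 0) (XT.lf (nat_lit 152) (nat_lit 1247370355) (nat_lit 0) (nat_lit 46668843) (nat_lit 76) (nat_lit 46668843) (nat_lit 148) (nat_lit 1) (nat_lit 146) (nat_lit 1) (nat_lit 147) (nat_lit 1) (nat_lit 412) (nat_lit 358) (nat_lit 250)) (XT.nd (nat_lit 78) (nat_lit 76) (nat_lit 0) (XT.lf (nat_lit 0) (nat_lit 395823824) (nat_lit 0) (nat_lit 527046877) (nat_lit 152) (nat_lit 395823824) (nat_lit 146) (nat_lit 3) (nat_lit 146) (nat_lit 1) (nat_lit 148) (nat_lit 1) (nat_lit 413) (nat_lit 358) (nat_lit 249)) (XT.lf (nat_lit 76) (nat_lit 349125267) (nat_lit 0) (nat_lit 474099603) (nat_lit 76) (nat_lit 474099603) (nat_lit 146) (nat_lit 3) (nat_lit 145) (nat_lit 1) (nat_lit 146) (nat_lit 1) (nat_lit 414) (nat_lit 358) (nat_lit 248))))) (XT.nd (nat_lit 234) (nat_lit 380) (nat_lit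 0) (XT.nd (nat_lit 78) (nat_lit 76) (nat_lit 0) (XT.lf (nat_lit 152) (nat_lit 1199787468) (nat_lit 0) (nat_lit 38394573) (nat_lit 76) (nat_lit 38394573) (nat_lit 145) (nat_lit 1) (nat_lit 143) (nat_lit 1) (nat_lit 144) (nat_lit 1) (nat_lit 415) (nat_lit 358) (nat_lit 247)) (XT.nd (nat_lit 78) (nat_lit 76) (nat_lit 0) (XT.lf (nat_lit 0) (nat_lit 382554351) (nat_lit 0) (nat_lit 490511882) (nat_lit 152) (nat_lit 382554351) (nat_lit 143) (nat_lit 3) (nat_lit 143) (nat_lit 1) (nat_lit 145) (nat_lit 1) (nat_lit 416) (nat_lit 358) (nat_lit 246)) (XT.lf (nat_lit 76) (nat_lit 343217443) (nat_lit 0) (nat_lit 446034139) (nat_lit 76) (nat_lit 446034139) (nat_lit 143) (nat_lit 3) (nat_lit 142) (nat_lit 1) (nat_lit 143) (nat_lit 1) (nat_lit 417) (nat_lit 358) (nat_lit 245)))) (XT.nd (nat_lit 156) (nat_lit 228) (nat_lit 0) (XT.nd (nat_lit 78) (nat_lit 0) (nat_lit 0) (XT.lf (nat_lit 152) (nat_lit 1152375538) (nat_lit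 0) (nat_lit 31587310) (nat_lit 76) (nat_lit 31587310) (nat_lit 142) (nat_lit 1) (nat_lit 140) (nat_lit 1) (nat_lit 141) (nat_lit 1) (nat_lit 418) (nat_lit 358) (nat_lit 244)) (XT.lf (nat_lit 0) (nat_lit 368927565) (nat_lit 0) (nat_lit 457744493) (nat_lit 152) (nat_lit 368927565) (nat_lit 140) (nat_lit 3) (nat_lit 140) (nat_lit 1) (nat_lit 142) (nat_lit 1) (nat_lit 419) (nat_lit 358) (nat_lit 243))) (XT.nd (nat_lit 78) (nat_lit 152) (nat_lit 0) (XT.lf (nat_lit 76) (nat_lit 335690814) (nat_lit 0) (nat_lit 420278364) (nat_lit 76) (nat_lit 420278364) (nat_lit 140) (nat_lit 3) (nat_lit 139) (nat_lit 1) (nat_lit 140) (nat_lit 1) (nat_lit 420) (nat_lit 358) (nat_lit 242)) (XT.lf (nat_lit 152) (nat_lit 1105497845) (nat_lit 0) (nat_lit 25986958) (nat_lit 76) (nat_lit 25986958) (nat_lit 139) (nat_lit 1) (nat_lit 137) (nat_lit 1) (nat_lit 138) (nat_lit 1) (nat_lit 421) (nat_lit 358) (nat_lit 241))))))))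
noncomputable def ec103 : XT := (XT.nd (nat_lit 1950) (nat_lit 228) (nat_lit 0) (XT.nd (nat_lit 936) (nat_lit 912) (nat_lit 0) (XT.nd (nat_lit 468) (nat_lit 456) (nat_lit 0) (XT.nd (nat_lit 234) (nat_lit 228) (nat_lit 0) (XT.nd (nat_lit 78) (nat_lit 228) (nat_lit 0) (XT.lf (nat_lit 0) (nat_lit 355135862) (nat_lit 0) (nat_lit 428205769) (nat_lit 152) (nat_lit 355135862) (nat_lit 137) (nat_lit 3) (nat_lit 137) (nat_lit 1) (nat_lit 139) (nat_lit 1) (nat_lit 422) (nat_lit 358) (nat_lit 240)) (XT.nd (nat_lit 78) (nat_lit 152) (nat_lit 0) (XT.lf (nat_lit 76) (nat_lit 326959353) (nat_lit 0) (nat_lit 396549740) (nat_lit 76) (nat_lit 396549740) (nat_lit 137) (nat_lit 3) (nat_lit 136) (nat_lit 1) (nat_lit 137) (nat_lit 1) (nat_lit 423) (nat_lit 358) (nat_lit 239)) (XT.lf (nat_lit 152) (nat_lit 1059434515) (nat_lit 0) (nat_lit 21379535) (nat_lit 76) (nat_lit 21379535) (nat_lit 136) (nat_lit 1) (nat_lit 134)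 (nat_lit 1) (nat_lit 135) (nat_lit 1) (nat_lit 424) (nat_lit 358) (nat_lit 238)))) (XT.nd (nat_lit 78) (nat_lit 228) (nat_lit 0) (XT.lf (nat_lit 0) (nat_lit 341331383) (nat_lit 0) (nat_lit 401446176) (nat_lit 152) (nat_lit 341331383) (nat_lit 134) (nat_lit 3) (nat_lit 134) (nat_lit 1) (nat_lit 136) (nat_lit 1) (nat_lit 425) (nat_lit 358) (nat_lit 237)) (XT.nd (nat_lit 78) (nat_lit 152) (nat_lit 0) (XT.lf (nat_lit 76) (nat_lit 317357592) (nat_lit 0) (nat_lit 374609775) (nat_lit 76) (nat_lit 374609775) (nat_lit 134) (nat_lit 3) (nat_lit 133) (nat_lit 1) (nat_lit 134) (nat_lit 1) (nat_lit 426) (nat_lit 358) (nat_lit 236)) (XT.lf (nat_lit 152) (nat_lit 1014398161) (nat_lit 0) (nat_lit 17588996) (nat_lit 76) (nat_lit 17588996) (nat_lit 133) (nat_lit 1) (nat_lit 131) (nat_lit 1) (nat_lit 132) (nat_lit 1) (nat_lit 427) (nat_lit 358) (nat_lit 235))))) (XT.nd (nat_lit 234) (nat_lit 228) (nat_lit 0) (XT.nd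 (nat_lit 78) (nat_lit 228) (nat_lit 0) (XT.lf (nat_lit 0) (nat_lit 327633440) (nat_lit 0) (nat_lit 377090029) (nat_lit 152) (nat_lit 327633440) (nat_lit 131) (nat_lit 3) (nat_lit 131) (nat_lit 1) (nat_lit 133) (nat_lit 1) (nat_lit 428) (nat_lit 358) (nat_lit 234)) (XT.nd (nat_lit 78) (nat_lit 152) (nat_lit 0) (XT.lf (nat_lit 76) (nat_lit 307154994) (nat_lit 0) (nat_lit 354256507) (nat_lit 76) (nat_lit 354256507) (nat_lit 131) (nat_lit 3) (nat_lit 130) (nat_lit 1) (nat_lit 131) (nat_lit 1) (nat_lit 429) (nat_lit 358) (nat_lit 233)) (XT.lf (nat_lit 152) (nat_lit 970546700) (nat_lit 0) (nat_lit 14470510) (nat_lit 76) (nat_lit 14470510) (nat_lit 130) (nat_lit 1) (nat_lit 128) (nat_lit 1) (nat_lit 129) (nat_lit 1) (nat_lit 430) (nat_lit 358) (nat_lit 232)))) (XT.nd (nat_lit 78) (nat_lit 228) (nat_lit 0) (XT.lf (nat_lit 0) (nat_lit 314134620) (nat_lit 0) (nat_lit 354822678) (nat_lit 152) (nat_lit 314134620)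 (nat_lit 128) (nat_lit 3) (nat_lit 128) (nat_lit 1) (nat_lit 130) (nat_lit 1) (nat_lit 431) (nat_lit 358) (nat_lit 231)) (XT.nd (nat_lit 78) (nat_lit 152) (nat_lit 0) (XT.lf (nat_lit 76) (nat_lit 296567761) (nat_lit 0) (nat_lit 335318293) (nat_lit 76) (nat_lit 335318293) (nat_lit 128) (nat_lit 3) (nat_lit 127) (nat_lit 1) (nat_lit 128) (nat_lit 1) (nat_lit 432) (nat_lit 358) (nat_lit 230)) (XT.lf (nat_lit 152) (nat_lit 927993861) (nat_lit 0) (nat_lit 11904925) (nat_lit 76) (nat_lit 11904925) (nat_lit 127) (nat_lit 1) (nat_lit 125) (nat_lit 1) (nat_lit 126) (nat_lit 1) (nat_lit 433) (nat_lit 358) (nat_lit 229)))))) (XT.nd (nat_lit 468) (nat_lit 456) (nat_lit 0) (XT.nd (nat_lit 234) (nat_lit 228) (nat_lit 0) (XT.nd (nat_lit 78) (nat_lit 228) (nat_lit 0) (XT.lf (nat_lit 0) (nat_lit 300905784) (nat_lit 0) (nat_lit 334379950) (nat_lit 152) (nat_lit 300905784) (nat_lit 125) (nat_lit 3) (nat_lit 125)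 (nat_lit 1) (nat_lit 127) (nat_lit 1) (nat_lit 434) (nat_lit 358) (nat_lit 228)) (XT.nd (nat_lit 78) (nat_lit 152) (nat_lit 0) (XT.lf (nat_lit 76) (nat_lit 285768543) (nat_lit 0) (nat_lit 317648701) (nat_lit 76) (nat_lit 317648701) (nat_lit 125) (nat_lit 3) (nat_lit 124) (nat_lit 1) (nat_lit 125) (nat_lit 1) (nat_lit 435) (nat_lit 358) (nat_lit 227)) (XT.lf (nat_lit 152) (nat_lit 886817787) (nat_lit 0) (nat_lit 9794211) (nat_lit 76) (nat_lit 9794211) (nat_lit 124) (nat_lit 1) (nat_lit 122) (nat_lit 1) (nat_lit 123) (nat_lit 1) (nat_lit 436) (nat_lit 358) (nat_lit 226)))) (XT.nd (nat_lit 78) (nat_lit 228) (nat_lit 0) (XT.lf (nat_lit 0) (nat_lit 288000177) (nat_lit 0) (nat_lit 315539456) (nat_lit 152) (nat_lit 288000177) (nat_lit 122) (nat_lit 3) (nat_lit 122) (nat_lit 1) (nat_lit 124) (nat_lit 1) (nat_lit 437) (nat_lit 358) (nat_lit 225)) (XT.nd (nat_lit 78) (nat_lit 152) (nat_lit 0) (XT.lf (nat_lit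 76) (nat_lit 274894404) (nat_lit 0) (nat_lit 301122289) (nat_lit 76) (nat_lit 301122289) (nat_lit 122) (nat_lit 3) (nat_lit 121) (nat_lit 1) (nat_lit 122) (nat_lit 1) (nat_lit 438) (nat_lit 358) (nat_lit 224)) (XT.lf (nat_lit 152) (nat_lit 847068084) (nat_lit 0) (nat_lit 8057721) (nat_lit 76) (nat_lit 8057721) (nat_lit 121) (nat_lit 1) (nat_lit 119) (nat_lit 1) (nat_lit 120) (nat_lit 1) (nat_lit 439) (nat_lit 358) (nat_lit 223))))) (XT.nd (nat_lit 234) (nat_lit 228) (nat_lit 0) (XT.nd (nat_lit 78) (nat_lit 228) (nat_lit 0) (XT.lf (nat_lit 0) (nat_lit 275456785) (nat_lit 0) (nat_lit 298113418) (nat_lit 152) (nat_lit 275456785) (nat_lit 119) (nat_lit 3) (nat_lit 119) (nat_lit 1) (nat_lit 121) (nat_lit 1) (nat_lit 440) (nat_lit 358) (nat_lit 222)) (XT.nd (nat_lit 78) (nat_lit 152) (nat_lit 0) (XT.lf (nat_lit 76) (nat_lit 264053370) (nat_lit 0) (nat_lit 285631116) (nat_lit 76) (nat_lit 285631116) (nat_lit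 119) (nat_lit 3) (nat_lit 118) (nat_lit 1) (nat_lit 119) (nat_lit 1) (nat_lit 441) (nat_lit 358) (nat_lit 221)) (XT.lf (nat_lit 152) (nat_lit 808771577) (nat_lit 0) (nat_lit 6629107) (nat_lit 76) (nat_lit 6629107) (nat_lit 118) (nat_lit 1) (nat_lit 116) (nat_lit 1) (nat_lit 117) (nat_lit 1) (nat_lit 442) (nat_lit 358) (nat_lit 220)))) (XT.nd (nat_lit 156) (nat_lit 152) (nat_lit 0) (XT.nd (nat_lit 78) (nat_lit 76) (nat_lit 0) (XT.lf (nat_lit 0) (nat_lit 263303099) (nat_lit 0) (nat_lit 281942767) (nat_lit 152) (nat_lit 263303099) (nat_lit 116) (nat_lit 3) (nat_lit 116) (nat_lit 1) (nat_lit 118) (nat_lit 1) (nat_lit 443) (nat_lit 358) (nat_lit 219)) (XT.lf (nat_lit 76) (nat_lit 253329802) (nat_lit 0) (nat_lit 271081867) (nat_lit 76) (nat_lit 271081867) (nat_lit 116) (nat_lit 3) (nat_lit 115) (nat_lit 1) (nat_lit 116) (nat_lit 1) (nat_lit 444) (nat_lit 358) (nat_lit 218))) (XT.nd (nat_lit 78) (nat_lit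 0) (nat_lit 0) (XT.lf (nat_lit 152) (nat_lit 771937015) (nat_lit 0) (nat_lit 5453783) (nat_lit 76) (nat_lit 5453783) (nat_lit 115) (nat_lit 1) (nat_lit 113) (nat_lit 1) (nat_lit 114) (nat_lit 1) (nat_lit 445) (nat_lit 358) (nat_lit 217)) (XT.lf (nat_lit 0) (nat_lit 251557369) (nat_lit 0) (nat_lit 266892270) (nat_lit 152) (nat_lit 251557369) (nat_lit 113) (nat_lit 3) (nat_lit 113) (nat_lit 1) (nat_lit 115) (nat_lit 1) (nat_lit 446) (nat_lit 358) (nat_lit 216))))))) (XT.nd (nat_lit 42588) (nat_lit 0) (nat_lit 11172) (XT.nd (nat_lit 42042) (nat_lit 0) (nat_lit 13908) (XT.nd (nat_lit 41808) (nat_lit 0) (nat_lit 13832) (XT.nd (nat_lit 78) (nat_lit 152) (nat_lit 0) (XT.lf (nat_lit 76) (nat_lit 242788809) (nat_lit 0) (nat_lit 257393477) (nat_lit 76) (nat_lit 257393477) (nat_lit 113) (nat_lit 3) (nat_lit 112) (nat_lit 1) (nat_lit 113) (nat_lit 1) (nat_lit 447) (nat_lit 358) (nat_lit 215)) (XT.nd (nat_lit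 78) (nat_lit 0) (nat_lit 0) (XT.lf (nat_lit 152) (nat_lit 736558908) (nat_lit 0) (nat_lit 4486841) (nat_lit 76) (nat_lit 4486841) (nat_lit 112) (nat_lit 1) (nat_lit 110) (nat_lit 1) (nat_lit 111) (nat_lit 1) (nat_lit 448) (nat_lit 358) (nat_lit 214)) (XT.lf (nat_lit 0) (nat_lit 240230449) (nat_lit 0) (nat_lit 252846510) (nat_lit 152) (nat_lit 240230449) (nat_lit 110) (nat_lit 3) (nat_lit 110) (nat_lit 1) (nat_lit 112) (nat_lit 1) (nat_lit 449) (nat_lit 358) (nat_lit 213)))) (XT.nd (nat_lit 78) (nat_lit 0) (nat_lit 0) (XT.lf (nat_lit 836) (nat_lit 1357833006) (nat_lit 0) (nat_lit 2410829381) (nat_lit 836) (nat_lit 1357833006) (nat_lit 303) (nat_lit 1) (nat_lit 292) (nat_lit 0) (nat_lit 303) (nat_lit 0) (nat_lit 302) (nat_lit 359) (nat_lit 359)) (XT.nd (nat_lit 78) (nat_lit 0) (nat_lit 76) (XT.lf (nat_lit 836) (nat_lit 5263130250) (nat_lit 76) (nat_lit 2371945036) (nat_lit 0) (nat_lit 2371945036)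 (nat_lit 303) (nat_lit 1) (nat_lit 293) (nat_lit 1) (nat_lit 292) (nat_lit 0) (nat_lit 303) (nat_lit 359) (nat_lit 358)) (XT.lf (nat_lit 836) (nat_lit 2508328630) (nat_lit 0) (nat_lit 4751996867) (nat_lit 760) (nat_lit 2508328630) (nat_lit 304) (nat_lit 1) (nat_lit 293) (nat_lit 1) (nat_lit 303) (nat_lit 1) (nat_lit 304) (nat_lit 359) (nat_lit 357))))) (XT.nd (nat_lit 234) (nat_lit 0) (nat_lit 152) (XT.nd (nat_lit 78) (nat_lit 0) (nat_lit 76) (XT.lf (nat_lit 836) (nat_lit 4705275970) (nat_lit 76) (nat_lit 2416356483) (nat_lit 0) (nat_lit 2416356483) (nat_lit 304) (nat_lit 1) (nat_lit 294) (nat_lit 1) (nat_lit 293) (nat_lit 1) (nat_lit 305) (nat_lit 359) (nat_lit 356)) (XT.nd (nat_lit 78) (nat_lit 0) (nat_lit 0) (XT.lf (nat_lit 836) (nat_lit 2165793343) (nat_lit 0) (nat_lit 4983047988) (nat_lit 760) (nat_lit 2165793343) (nat_lit 305) (nat_lit 1) (nat_lit 294) (nat_lit 1) (nat_lit 304) (nat_lit 1)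 (nat_lit 306) (nat_lit 359) (nat_lit 355)) (XT.lf (nat_lit 836) (nat_lit 3895320391) (nat_lit 76) (nat_lit 2601384357) (nat_lit 0) (nat_lit 2601384357) (nat_lit 305) (nat_lit 1) (nat_lit 295) (nat_lit 1) (nat_lit 294) (nat_lit 1) (nat_lit 307) (nat_lit 359) (nat_lit 354)))) (XT.nd (nat_lit 156) (nat_lit 0) (nat_lit 76) (XT.nd (nat_lit 78) (nat_lit 0) (nat_lit 0) (XT.lf (nat_lit 836) (nat_lit 1707985484) (nat_lit 0) (nat_lit 5472843416) (nat_lit 760) (nat_lit 1707985484) (nat_lit 306) (nat_lit 1) (nat_lit 295) (nat_lit 1) (nat_lit 305) (nat_lit 1) (nat_lit 308) (nat_lit 359) (nat_lit 353)) (XT.lf (nat_lit 836) (nat_lit 2871176041) (nat_lit 76) (nat_lit 2907062837) (nat_lit 0) (nat_lit 2907062837) (nat_lit 306) (nat_lit 1) (nat_lit 296) (nat_lit 1) (nat_lit 295) (nat_lit 1) (nat_lit 309) (nat_lit 359) (nat_lit 352))) (XT.nd (nat_lit 78) (nat_lit 0) (nat_lit 0) (XT.lf (nat_lit 836) (nat_lit 1152627635)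 (nat_lit 0) (nat_lit 6183983500) (nat_lit 760) (nat_lit 1152627635) (nat_lit 307) (nat_lit 1) (nat_lit 296) (nat_lit 1) (nat_lit 306) (nat_lit 1) (nat_lit 310) (nat_lit 359) (nat_lit 351)) (XT.lf (nat_lit 836) (nat_lit 1666541438) (nat_lit 76) (nat_lit 3315610557) (nat_lit 0) (nat_lit 3315610557) (nat_lit 307) (nat_lit 1) (nat_lit 297) (nat_lit 1) (nat_lit 296) (nat_lit 1) (nat_lit 311) (nat_lit 359) (nat_lit 350)))))) (XT.nd (nat_lit 468) (nat_lit 1368) (nat_lit 0) (XT.nd (nat_lit 234) (nat_lit 380) (nat_lit 0) (XT.nd (nat_lit 78) (nat_lit 1292) (nat_lit 0) (XT.lf (nat_lit 76) (nat_lit 515461099) (nat_lit 0) (nat_lit 7083181082) (nat_lit 760) (nat_lit 515461099) (nat_lit 298) (nat_lit 1) (nat_lit 297) (nat_lit 1) (nat_lit 307) (nat_lit 1) (nat_lit 312) (nat_lit 359) (nat_lit 349)) (XT.nd (nat_lit 78) (nat_lit 532) (nat_lit 0) (XT.lf (nat_lit 836) (nat_lit 311325685) (nat_lit 0) (nat_lit 3811211885)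 (nat_lit 760) (nat_lit 3811211885) (nat_lit 298) (nat_lit 1) (nat_lit 287) (nat_lit 1) (nat_lit 297) (nat_lit 1) (nat_lit 313) (nat_lit 359) (nat_lit 348)) (XT.lf (nat_lit 532) (nat_lit 7388150590) (nat_lit 0) (nat_lit 186496690) (nat_lit 456) (nat_lit 186496690) (nat_lit 287) (nat_lit 1) (nat_lit 280) (nat_lit 1) (nat_lit 286) (nat_lit 1) (nat_lit 314) (nat_lit 359) (nat_lit 347)))) (XT.nd (nat_lit 78) (nat_lit 380) (nat_lit 0) (XT.lf (nat_lit 76) (nat_lit 3230086579) (nat_lit 0) (nat_lit 1130585688) (nat_lit 532) (nat_lit 3230086579) (nat_lit 281) (nat_lit 1) (nat_lit 280) (nat_lit 1) (nat_lit 287) (nat_lit 1) (nat_lit 315) (nat_lit 359) (nat_lit 346)) (XT.nd (nat_lit 78) (nat_lit 0) (nat_lit 0) (XT.lf (nat_lit 456) (nat_lit 5558149876) (nat_lit 0) (nat_lit 934734539) (nat_lit 380) (nat_lit 934734539) (nat_lit 281) (nat_lit 1) (nat_lit 275) (nat_lit 1) (nat_lit 280) (nat_lit 1) (nat_lit 316)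 (nat_lit 359) (nat_lit 345)) (XT.lf (nat_lit 76) (nat_lit 2303981435) (nat_lit 0) (nat_lit 2659945843) (nat_lit 456) (nat_lit 2303981435) (nat_lit 276) (nat_lit 1) (nat_lit 275) (nat_lit 1) (nat_lit 281) (nat_lit 1) (nat_lit 317) (nat_lit 359) (nat_lit 344))))) (XT.nd (nat_lit 234) (nat_lit 684) (nat_lit 0) (XT.nd (nat_lit 78) (nat_lit 304) (nat_lit 0) (XT.lf (nat_lit 456) (nat_lit 3660120515) (nat_lit 0) (nat_lit 1726820120) (nat_lit 380) (nat_lit 1726820120) (nat_lit 276) (nat_lit 1) (nat_lit 270) (nat_lit 1) (nat_lit 275) (nat_lit 1) (nat_lit 318) (nat_lit 359) (nat_lit 343)) (XT.nd (nat_lit 78) (nat_lit 304) (nat_lit 0) (XT.lf (nat_lit 76) (nat_lit 1348705766) (nat_lit 0) (nat_lit 4266684404) (nat_lit 456) (nat_lit 1348705766) (nat_lit 271) (nat_lit 1) (nat_lit 270) (nat_lit 1) (nat_lit 276) (nat_lit 1) (nat_lit 319) (nat_lit 359) (nat_lit 342)) (XT.lf (nat_lit 380) (nat_lit 1711728346) (nat_lit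 0) (nat_lit 2553276323) (nat_lit 304) (nat_lit 2553276323) (nat_lit 271) (nat_lit 1) (nat_lit 266) (nat_lit 1) (nat_lit 270) (nat_lit 1) (nat_lit 320) (nat_lit 359) (nat_lit 341)))) (XT.nd (nat_lit 156) (nat_lit 304) (nat_lit 0) (XT.nd (nat_lit 78) (nat_lit 380) (nat_lit 0) (XT.lf (nat_lit 76) (nat_lit 372460666) (nat_lit 0) (nat_lit 5933152039) (nat_lit 380) (nat_lit 372460666) (nat_lit 267) (nat_lit 1) (nat_lit 266) (nat_lit 1) (nat_lit 271) (nat_lit 1) (nat_lit 321) (nat_lit 359) (nat_lit 340)) (XT.lf (nat_lit 76) (nat_lit 3138460601) (nat_lit 0) (nat_lit 262852171) (nat_lit 380) (nat_lit 3138460601) (nat_lit 262) (nat_lit 1) (nat_lit 261) (nat_lit 1) (nat_lit 266) (nat_lit 1) (nat_lit 322) (nat_lit 359) (nat_lit 339))) (XT.nd (nat_lit 78) (nat_lit 0) (nat_lit 0) (XT.lf (nat_lit 380) (nat_lit 5191508776) (nat_lit 0) (nat_lit 607615702) (nat_lit 304) (nat_lit 607615702) (nat_lit 262) (nat_lit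 1) (nat_lit 257) (nat_lit 1) (nat_lit 261) (nat_lit 1) (nat_lit 323) (nat_lit 359) (nat_lit 338)) (XT.lf (nat_lit 76) (nat_lit 2036337976) (nat_lit 0) (nat_lit 2203313249) (nat_lit 380) (nat_lit 2036337976) (nat_lit 258) (nat_lit 1) (nat_lit 257) (nat_lit 1) (nat_lit 262) (nat_lit 1) (nat_lit 324) (nat_lit 359) (nat_lit 337))))))))
noncomputable def ec104 : XT := (XT.nd (nat_lit 1950) (nat_lit 2280) (nat_lit 0) (XT.nd (nat_lit 936) (nat_lit 1520) (nat_lit 0) (XT.nd (nat_lit 468) (nat_lit 760) (nat_lit 0) (XT.nd (nat_lit 234) (nat_lit 608) (nat_lit 0) (XT.nd (nat_lit 78) (nat_lit 228) (nat_lit 0) (XT.lf (nat_lit 380) (nat_lit 2971583572) (nat_lit 0) (nat_lit 1589094316) (nat_lit 304) (nat_lit 1589094316) (nat_lit 258) (nat_lit 1) (nat_lit 253) (nat_lit 1) (nat_lit 257) (nat_lit 1) (nat_lit 325) (nat_lit 359) (nat_lit 336)) (XT.nd (nat_lit 78) (nat_lit 228) (nat_lit 0) (XT.lf (nat_lit 76) (nat_lit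 937104839) (nat_lit 0) (nat_lit 4153036127) (nat_lit 380) (nat_lit 937104839) (nat_lit 254) (nat_lit 1) (nat_lit 253) (nat_lit 1) (nat_lit 258) (nat_lit 1) (nat_lit 326) (nat_lit 359) (nat_lit 335)) (XT.lf (nat_lit 304) (nat_lit 762107230) (nat_lit 0) (nat_lit 2572628515) (nat_lit 228) (nat_lit 2572628515) (nat_lit 254) (nat_lit 1) (nat_lit 250) (nat_lit 1) (nat_lit 253) (nat_lit 1) (nat_lit 327) (nat_lit 359) (nat_lit 334)))) (XT.nd (nat_lit 78) (nat_lit 228) (nat_lit 0) (XT.lf (nat_lit 380) (nat_lit 5487569995) (nat_lit 0) (nat_lit 152269537) (nat_lit 304) (nat_lit 152269537) (nat_lit 250) (nat_lit 1) (nat_lit 245) (nat_lit 1) (nat_lit 249) (nat_lit 1) (nat_lit 328) (nat_lit 359) (nat_lit 333)) (XT.nd (nat_lit 78) (nat_lit 228) (nat_lit 0) (XT.lf (nat_lit 76) (nat_lit 2147326708) (nat_lit 0) (nat_lit 1382838389) (nat_lit 380) (nat_lit 2147326708) (nat_lit 246) (nat_lit 1) (nat_lit 245) (nat_lit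 1) (nat_lit 250) (nat_lit 1) (nat_lit 329) (nat_lit 359) (nat_lit 332)) (XT.lf (nat_lit 304) (nat_lit 3136238543) (nat_lit 0) (nat_lit 1215515936) (nat_lit 228) (nat_lit 1215515936) (nat_lit 246) (nat_lit 1) (nat_lit 242) (nat_lit 1) (nat_lit 245) (nat_lit 1) (nat_lit 330) (nat_lit 359) (nat_lit 331))))) (XT.nd (nat_lit 234) (nat_lit 228) (nat_lit 0) (XT.nd (nat_lit 78) (nat_lit 532) (nat_lit 0) (XT.lf (nat_lit 76) (nat_lit 990786268) (nat_lit 0) (nat_lit 3478276855) (nat_lit 304) (nat_lit 990786268) (nat_lit 243) (nat_lit 1) (nat_lit 242) (nat_lit 1) (nat_lit 246) (nat_lit 1) (nat_lit 331) (nat_lit 359) (nat_lit 330)) (XT.nd (nat_lit 78) (nat_lit 304) (nat_lit 0) (XT.lf (nat_lit 304) (nat_lit 825789386) (nat_lit 0) (nat_lit 2264541390) (nat_lit 228) (nat_lit 2264541390) (nat_lit 243) (nat_lit 1) (nat_lit 239) (nat_lit 1) (nat_lit 242) (nat_lit 1) (nat_lit 332) (nat_lit 359) (nat_lit 329)) (XT.lf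 (nat_lit 304) (nat_lit 4969954106) (nat_lit 0) (nat_lit 141920436) (nat_lit 228) (nat_lit 141920436) (nat_lit 239) (nat_lit 1) (nat_lit 235) (nat_lit 1) (nat_lit 238) (nat_lit 1) (nat_lit 333) (nat_lit 359) (nat_lit 328)))) (XT.nd (nat_lit 78) (nat_lit 228) (nat_lit 0) (XT.lf (nat_lit 76) (nat_lit 1879991307) (nat_lit 0) (nat_lit 1393054681) (nat_lit 304) (nat_lit 1879991307) (nat_lit 236) (nat_lit 1) (nat_lit 235) (nat_lit 1) (nat_lit 239) (nat_lit 1) (nat_lit 334) (nat_lit 359) (nat_lit 327)) (XT.nd (nat_lit 78) (nat_lit 0) (nat_lit 0) (XT.lf (nat_lit 304) (nat_lit 2585160191) (nat_lit 0) (nat_lit 1235423737) (nat_lit 228) (nat_lit 1235423737) (nat_lit 236) (nat_lit 1) (nat_lit 232) (nat_lit 1) (nat_lit 235) (nat_lit 1) (nat_lit 335) (nat_lit 359) (nat_lit 326)) (XT.lf (nat_lit 76) (nat_lit 711951008) (nat_lit 0) (nat_lit 3537678397) (nat_lit 304) (nat_lit 711951008) (nat_lit 233) (nat_lit 1)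 (nat_lit 232) (nat_lit 1) (nat_lit 236) (nat_lit 1) (nat_lit 336) (nat_lit 359) (nat_lit 325)))))) (XT.nd (nat_lit 468) (nat_lit 684) (nat_lit 0) (XT.nd (nat_lit 234) (nat_lit 380) (nat_lit 0) (XT.nd (nat_lit 78) (nat_lit 304) (nat_lit 0) (XT.lf (nat_lit 228) (nat_lit 260882521) (nat_lit 0) (nat_lit 2304025032) (nat_lit 152) (nat_lit 2304025032) (nat_lit 233) (nat_lit 1) (nat_lit 230) (nat_lit 1) (nat_lit 232) (nat_lit 1) (nat_lit 337) (nat_lit 359) (nat_lit 324)) (XT.nd (nat_lit 78) (nat_lit 0) (nat_lit 0) (XT.lf (nat_lit 304) (nat_lit 3941847419) (nat_lit 0) (nat_lit 418652767) (nat_lit 228) (nat_lit 418652767) (nat_lit 230) (nat_lit 1) (nat_lit 226) (nat_lit 1) (nat_lit 229) (nat_lit 1) (nat_lit 338) (nat_lit 359) (nat_lit 323)) (XT.lf (nat_lit 76) (nat_lit 1376793735) (nat_lit 0) (nat_lit 1936789951) (nat_lit 304) (nat_lit 1376793735) (nat_lit 227) (nat_lit 1) (nat_lit 226) (nat_lit 1) (nat_lit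 230) (nat_lit 1) (nat_lit 339) (nat_lit 359) (nat_lit 322)))) (XT.nd (nat_lit 78) (nat_lit 228) (nat_lit 0) (XT.lf (nat_lit 228) (nat_lit 1590672781) (nat_lit 0) (nat_lit 1506834482) (nat_lit 152) (nat_lit 1506834482) (nat_lit 227) (nat_lit 1) (nat_lit 224) (nat_lit 1) (nat_lit 226) (nat_lit 1) (nat_lit 340) (nat_lit 359) (nat_lit 321)) (XT.nd (nat_lit 78) (nat_lit 228) (nat_lit 0) (XT.lf (nat_lit 76) (nat_lit 228529189) (nat_lit 0) (nat_lit 4064102883) (nat_lit 228) (nat_lit 228529189) (nat_lit 225) (nat_lit 1) (nat_lit 224) (nat_lit 1) (nat_lit 227) (nat_lit 1) (nat_lit 341) (nat_lit 359) (nat_lit 320)) (XT.lf (nat_lit 76) (nat_lit 1886091498) (nat_lit 0) (nat_lit 666100151) (nat_lit 228) (nat_lit 1886091498) (nat_lit 222) (nat_lit 1) (nat_lit 221) (nat_lit 1) (nat_lit 224) (nat_lit 1) (nat_lit 342) (nat_lit 359) (nat_lit 319))))) (XT.nd (nat_lit 234) (nat_lit 380) (nat_lit 0) (XT.nd (nat_lit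 78) (nat_lit 152) (nat_lit 0) (XT.lf (nat_lit 228) (nat_lit 2619168611) (nat_lit 0) (nat_lit 869493015) (nat_lit 152) (nat_lit 869493015) (nat_lit 222) (nat_lit 1) (nat_lit 219) (nat_lit 1) (nat_lit 221) (nat_lit 1) (nat_lit 343) (nat_lit 359) (nat_lit 318)) (XT.nd (nat_lit 78) (nat_lit 152) (nat_lit 0) (XT.lf (nat_lit 76) (nat_lit 739061241) (nat_lit 0) (nat_lit 2801674667) (nat_lit 228) (nat_lit 739061241) (nat_lit 220) (nat_lit 1) (nat_lit 219) (nat_lit 1) (nat_lit 222) (nat_lit 1) (nat_lit 344) (nat_lit 359) (nat_lit 317)) (XT.lf (nat_lit 228) (nat_lit 346223582) (nat_lit 0) (nat_lit 1928397780) (nat_lit 152) (nat_lit 1928397780) (nat_lit 220) (nat_lit 1) (nat_lit 217) (nat_lit 1) (nat_lit 219) (nat_lit 1) (nat_lit 345) (nat_lit 359) (nat_lit 316)))) (XT.nd (nat_lit 156) (nat_lit 152) (nat_lit 0) (XT.nd (nat_lit 78) (nat_lit 0) (nat_lit 0) (XT.lf (nat_lit 228) (nat_lit 3402909048) (nat_lit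 0) (nat_lit 362778396) (nat_lit 152) (nat_lit 362778396) (nat_lit 217) (nat_lit 1) (nat_lit 214) (nat_lit 1) (nat_lit 216) (nat_lit 1) (nat_lit 346) (nat_lit 359) (nat_lit 315)) (XT.lf (nat_lit 76) (nat_lit 1132836761) (nat_lit 0) (nat_lit 1788875318) (nat_lit 228) (nat_lit 1132836761) (nat_lit 215) (nat_lit 1) (nat_lit 214) (nat_lit 1) (nat_lit 217) (nat_lit 1) (nat_lit 347) (nat_lit 359) (nat_lit 314))) (XT.nd (nat_lit 78) (nat_lit 0) (nat_lit 0) (XT.lf (nat_lit 228) (nat_lit 1153739241) (nat_lit 0) (nat_lit 1414519256) (nat_lit 152) (nat_lit 1414519256) (nat_lit 215) (nat_lit 1) (nat_lit 212) (nat_lit 1) (nat_lit 214) (nat_lit 1) (nat_lit 348) (nat_lit 359) (nat_lit 313)) (XT.lf (nat_lit 76) (nat_lit 37920226) (nat_lit 0) (nat_lit 3837683228) (nat_lit 228) (nat_lit 37920226) (nat_lit 213) (nat_lit 1) (nat_lit 212) (nat_lit 1) (nat_lit 215) (nat_lit 1) (nat_lit 349) (nat_lit 359) (nat_lit 312)))))))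 (XT.nd (nat_lit 936) (nat_lit 1064) (nat_lit 0) (XT.nd (nat_lit 468) (nat_lit 608) (nat_lit 0) (XT.nd (nat_lit 234) (nat_lit 304) (nat_lit 0) (XT.nd (nat_lit 78) (nat_lit 152) (nat_lit 0) (XT.lf (nat_lit 76) (nat_lit 1431805939) (nat_lit 0) (nat_lit 980217518) (nat_lit 152) (nat_lit 1431805939) (nat_lit 211) (nat_lit 1) (nat_lit 210) (nat_lit 1) (nat_lit 212) (nat_lit 1) (nat_lit 350) (nat_lit 359) (nat_lit 311)) (XT.nd (nat_lit 78) (nat_lit 0) (nat_lit 0) (XT.lf (nat_lit 228) (nat_lit 1776708169) (nat_lit 0) (nat_lit 999939568) (nat_lit 152) (nat_lit 999939568) (nat_lit 211) (nat_lit 1) (nat_lit 208) (nat_lit 1) (nat_lit 210) (nat_lit 1) (nat_lit 351) (nat_lit 359) (nat_lit 310)) (XT.lf (nat_lit 76) (nat_lit 356217708) (nat_lit 0) (nat_lit 2998724833) (nat_lit 228) (nat_lit 356217708) (nat_lit 209) (nat_lit 1) (nat_lit 208) (nat_lit 1) (nat_lit 211) (nat_lit 1) (nat_lit 352) (nat_lit 359) (nat_lit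 309)))) (XT.nd (nat_lit 78) (nat_lit 152) (nat_lit 0) (XT.lf (nat_lit 76) (nat_lit 1653967748) (nat_lit 0) (nat_lit 338337251) (nat_lit 152) (nat_lit 1653967748) (nat_lit 207) (nat_lit 1) (nat_lit 206) (nat_lit 1) (nat_lit 208) (nat_lit 1) (nat_lit 353) (nat_lit 359) (nat_lit 308)) (XT.nd (nat_lit 78) (nat_lit 0) (nat_lit 0) (XT.lf (nat_lit 228) (nat_lit 2249820342) (nat_lit 0) (nat_lit 666663306) (nat_lit 152) (nat_lit 666663306) (nat_lit 207) (nat_lit 1) (nat_lit 204) (nat_lit 1) (nat_lit 206) (nat_lit 1) (nat_lit 354) (nat_lit 359) (nat_lit 307)) (XT.lf (nat_lit 76) (nat_lit 602604661) (nat_lit 0) (nat_lit 2316061527) (nat_lit 228) (nat_lit 602604661) (nat_lit 205) (nat_lit 1) (nat_lit 204) (nat_lit 1) (nat_lit 207) (nat_lit 1) (nat_lit 355) (nat_lit 359) (nat_lit 306))))) (XT.nd (nat_lit 234) (nat_lit 304) (nat_lit 0) (XT.nd (nat_lit 78) (nat_lit 228) (nat_lit 0) (XT.lf (nat_lit 152) (nat_lit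 172985853) (nat_lit 0) (nat_lit 1643788261) (nat_lit 76) (nat_lit 1643788261) (nat_lit 205) (nat_lit 1) (nat_lit 203) (nat_lit 1) (nat_lit 204) (nat_lit 1) (nat_lit 356) (nat_lit 359) (nat_lit 305)) (XT.nd (nat_lit 78) (nat_lit 0) (nat_lit 0) (XT.lf (nat_lit 228) (nat_lit 2601521462) (nat_lit 0) (nat_lit 399904169) (nat_lit 152) (nat_lit 399904169) (nat_lit 203) (nat_lit 1) (nat_lit 200) (nat_lit 1) (nat_lit 202) (nat_lit 1) (nat_lit 357) (nat_lit 359) (nat_lit 304)) (XT.lf (nat_lit 76) (nat_lit 790567651) (nat_lit 0) (nat_lit 1761623059) (nat_lit 228) (nat_lit 790567651) (nat_lit 201) (nat_lit 1) (nat_lit 200) (nat_lit 1) (nat_lit 203) (nat_lit 1) (nat_lit 358) (nat_lit 359) (nat_lit 303)))) (XT.nd (nat_lit 78) (nat_lit 228) (nat_lit 0) (XT.lf (nat_lit 152) (nat_lit 580925685) (nat_lit 0) (nat_lit 1352348670) (nat_lit 76) (nat_lit 1352348670) (nat_lit 201) (nat_lit 1) (nat_lit 199) (nat_lit 1)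 (nat_lit 200) (nat_lit 1) (nat_lit 359) (nat_lit 359) (nat_lit 302)) (XT.nd (nat_lit 78) (nat_lit 0) (nat_lit 0) (XT.lf (nat_lit 228) (nat_lit 2855124525) (nat_lit 0) (nat_lit 187515118) (nat_lit 152) (nat_lit 187515118) (nat_lit 199) (nat_lit 1) (nat_lit 196) (nat_lit 1) (nat_lit 198) (nat_lit 1) (nat_lit 360) (nat_lit 359) (nat_lit 301)) (XT.lf (nat_lit 76) (nat_lit 931167016) (nat_lit 0) (nat_lit 1312333088) (nat_lit 228) (nat_lit 931167016) (nat_lit 197) (nat_lit 1) (nat_lit 196) (nat_lit 1) (nat_lit 199) (nat_lit 1) (nat_lit 361) (nat_lit 359) (nat_lit 300)))))) (XT.nd (nat_lit 468) (nat_lit 532) (nat_lit 0) (XT.nd (nat_lit 234) (nat_lit 228) (nat_lit 0) (XT.nd (nat_lit 78) (nat_lit 228) (nat_lit 0) (XT.lf (nat_lit 152) (nat_lit 895652614) (nat_lit 0) (nat_lit 1112580598) (nat_lit 76) (nat_lit 1112580598) (nat_lit 197) (nat_lit 1) (nat_lit 195) (nat_lit 1) (nat_lit 196) (nat_lit 1) (nat_lit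 362) (nat_lit 359) (nat_lit 299)) (XT.nd (nat_lit 78) (nat_lit 0) (nat_lit 0) (XT.lf (nat_lit 228) (nat_lit 3029724089) (nat_lit 0) (nat_lit 19519598) (nat_lit 152) (nat_lit 19519598) (nat_lit 195) (nat_lit 1) (nat_lit 192) (nat_lit 1) (nat_lit 194) (nat_lit 1) (nat_lit 363) (nat_lit 359) (nat_lit 298)) (XT.lf (nat_lit 76) (nat_lit 1033468697) (nat_lit 0) (nat_lit 949222953) (nat_lit 228) (nat_lit 1033468697) (nat_lit 193) (nat_lit 1) (nat_lit 192) (nat_lit 1) (nat_lit 195) (nat_lit 1) (nat_lit 364) (nat_lit 359) (nat_lit 297)))) (XT.nd (nat_lit 78) (nat_lit 152) (nat_lit 0) (XT.lf (nat_lit 152) (nat_lit 1134687637) (nat_lit 0) (nat_lit 915322811) (nat_lit 76) (nat_lit 915322811) (nat_lit 193) (nat_lit 1) (nat_lit 191) (nat_lit 1) (nat_lit 192) (nat_lit 1) (nat_lit 365) (nat_lit 359) (nat_lit 296)) (XT.nd (nat_lit 78) (nat_lit 152) (nat_lit 0) (XT.lf (nat_lit 0) (nat_lit 114114644) (nat_lit 0)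 (nat_lit 2687811439) (nat_lit 152) (nat_lit 114114644) (nat_lit 191) (nat_lit 3) (nat_lit 191) (nat_lit 1) (nat_lit 193) (nat_lit 1) (nat_lit 366) (nat_lit 359) (nat_lit 295)) (XT.lf (nat_lit 76) (nat_lit 1104899434) (nat_lit 0) (nat_lit 656702619) (nat_lit 152) (nat_lit 1104899434) (nat_lit 190) (nat_lit 1) (nat_lit 189) (nat_lit 1) (nat_lit 191) (nat_lit 1) (nat_lit 367) (nat_lit 359) (nat_lit 294))))) (XT.nd (nat_lit 234) (nat_lit 304) (nat_lit 0) (XT.nd (nat_lit 78) (nat_lit 152) (nat_lit 0) (XT.lf (nat_lit 152) (nat_lit 1312397959) (nat_lit 0) (nat_lit 753038342) (nat_lit 76) (nat_lit 753038342) (nat_lit 190) (nat_lit 1) (nat_lit 188) (nat_lit 1) (nat_lit 189) (nat_lit 1) (nat_lit 368) (nat_lit 359) (nat_lit 293)) (XT.nd (nat_lit 78) (nat_lit 152) (nat_lit 0) (XT.lf (nat_lit 0) (nat_lit 218107853) (nat_lit 0) (nat_lit 2335494576) (nat_lit 152) (nat_lit 218107853) (nat_lit 188) (nat_lit 3)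 (nat_lit 188) (nat_lit 1) (nat_lit 190) (nat_lit 1) (nat_lit 369) (nat_lit 359) (nat_lit 292)) (XT.lf (nat_lit 76) (nat_lit 1151538907) (nat_lit 0) (nat_lit 421960914) (nat_lit 152) (nat_lit 1151538907) (nat_lit 187) (nat_lit 1) (nat_lit 186) (nat_lit 1) (nat_lit 188) (nat_lit 1) (nat_lit 370) (nat_lit 359) (nat_lit 291)))) (XT.nd (nat_lit 156) (nat_lit 228) (nat_lit 0) (XT.nd (nat_lit 78) (nat_lit 0) (nat_lit 0) (XT.lf (nat_lit 152) (nat_lit 1440558414) (nat_lit 0) (nat_lit 619526507) (nat_lit 76) (nat_lit 619526507) (nat_lit 187) (nat_lit 1) (nat_lit 185) (nat_lit 1) (nat_lit 186) (nat_lit 1) (nat_lit 371) (nat_lit 359) (nat_lit 290)) (XT.lf (nat_lit 0) (nat_lit 297747826) (nat_lit 0) (nat_lit 2039727123) (nat_lit 152) (nat_lit 297747826) (nat_lit 185) (nat_lit 3) (nat_lit 185) (nat_lit 1) (nat_lit 187) (nat_lit 1) (nat_lit 372) (nat_lit 359) (nat_lit 289))) (XT.nd (nat_lit 78) (nat_lit 76) (nat_lit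 0) (XT.lf (nat_lit 76) (nat_lit 1178360013) (nat_lit 0) (nat_lit 234472140) (nat_lit 152) (nat_lit 1178360013) (nat_lit 184) (nat_lit 1) (nat_lit 183) (nat_lit 1) (nat_lit 185) (nat_lit 1) (nat_lit 373) (nat_lit 359) (nat_lit 288)) (XT.lf (nat_lit 152) (nat_lit 1528813224) (nat_lit 0) (nat_lit 509685991) (nat_lit 76) (nat_lit 509685991) (nat_lit 184) (nat_lit 1) (nat_lit 182) (nat_lit 1) (nat_lit 183) (nat_lit 1) (nat_lit 374) (nat_lit 359) (nat_lit 287))))))))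
noncomputable def ec105 : XT := (XT.nd (nat_lit 1950) (nat_lit 2052) (nat_lit 0) (XT.nd (nat_lit 936) (nat_lit 912) (nat_lit 0) (XT.nd (nat_lit 468) (nat_lit 456) (nat_lit 0) (XT.nd (nat_lit 234) (nat_lit 228) (nat_lit 0) (XT.nd (nat_lit 78) (nat_lit 228) (nat_lit 0) (XT.lf (nat_lit 0) (nat_lit 357634021) (nat_lit 0) (nat_lit 1790764700) (nat_lit 152) (nat_lit 357634021) (nat_lit 182) (nat_lit 3) (nat_lit 182) (nat_lit 1) (nat_lit 184) (nat_lit 1) (nat_lit 375) (nat_lit 359) (nat_lit 286)) (XT.nd (nat_lit 78) (nat_lit 76) (nat_lit 0) (XT.lf (nat_lit 76) (nat_lit 1189426464) (nat_lit 0) (nat_lit 85590193) (nat_lit 152) (nat_lit 1189426464) (nat_lit 181) (nat_lit 1) (nat_lit 180) (nat_lit 1) (nat_lit 182) (nat_lit 1) (nat_lit 376) (nat_lit 359) (nat_lit 285)) (XT.lf (nat_lit 152) (nat_lit 1585055806) (nat_lit 0) (nat_lit 419319926) (nat_lit 76) (nat_lit 419319926) (nat_lit 181) (nat_lit 1) (nat_lit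 179) (nat_lit 1) (nat_lit 180) (nat_lit 1) (nat_lit 377) (nat_lit 359) (nat_lit 284)))) (XT.nd (nat_lit 78) (nat_lit 228) (nat_lit 0) (XT.lf (nat_lit 0) (nat_lit 401537012) (nat_lit 0) (nat_lit 1580577168) (nat_lit 152) (nat_lit 401537012) (nat_lit 179) (nat_lit 3) (nat_lit 179) (nat_lit 1) (nat_lit 181) (nat_lit 1) (nat_lit 378) (nat_lit 359) (nat_lit 283)) (XT.nd (nat_lit 78) (nat_lit 152) (nat_lit 0) (XT.lf (nat_lit 76) (nat_lit 32836290) (nat_lit 0) (nat_lit 1155731677) (nat_lit 76) (nat_lit 1155731677) (nat_lit 179) (nat_lit 3) (nat_lit 178) (nat_lit 1) (nat_lit 179) (nat_lit 1) (nat_lit 379) (nat_lit 359) (nat_lit 282)) (XT.lf (nat_lit 152) (nat_lit 1615741127) (nat_lit 0) (nat_lit 344975541) (nat_lit 76) (nat_lit 344975541) (nat_lit 178) (nat_lit 1) (nat_lit 176) (nat_lit 1) (nat_lit 177) (nat_lit 1) (nat_lit 380) (nat_lit 359) (nat_lit 281))))) (XT.nd (nat_lit 234) (nat_lit 228) (nat_lit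 0) (XT.nd (nat_lit 78) (nat_lit 228) (nat_lit 0) (XT.lf (nat_lit 0) (nat_lit 432546081) (nat_lit 0) (nat_lit 1402545335) (nat_lit 152) (nat_lit 432546081) (nat_lit 176) (nat_lit 3) (nat_lit 176) (nat_lit 1) (nat_lit 178) (nat_lit 1) (nat_lit 381) (nat_lit 359) (nat_lit 280)) (XT.nd (nat_lit 78) (nat_lit 152) (nat_lit 0) (XT.lf (nat_lit 76) (nat_lit 127566688) (nat_lit 0) (nat_lit 1051375502) (nat_lit 76) (nat_lit 1051375502) (nat_lit 176) (nat_lit 3) (nat_lit 175) (nat_lit 1) (nat_lit 176) (nat_lit 1) (nat_lit 382) (nat_lit 359) (nat_lit 279)) (XT.lf (nat_lit 152) (nat_lit 1626142598) (nat_lit 0) (nat_lit 283812231) (nat_lit 76) (nat_lit 283812231) (nat_lit 175) (nat_lit 1) (nat_lit 173) (nat_lit 1) (nat_lit 174) (nat_lit 1) (nat_lit 383) (nat_lit 359) (nat_lit 278)))) (XT.nd (nat_lit 78) (nat_lit 228) (nat_lit 0) (XT.lf (nat_lit 0) (nat_lit 453190625) (nat_lit 0) (nat_lit 1251211411) (nat_lit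 152) (nat_lit 453190625) (nat_lit 173) (nat_lit 3) (nat_lit 173) (nat_lit 1) (nat_lit 175) (nat_lit 1) (nat_lit 384) (nat_lit 359) (nat_lit 277)) (XT.nd (nat_lit 78) (nat_lit 152) (nat_lit 0) (XT.lf (nat_lit 76) (nat_lit 200713422) (nat_lit 0) (nat_lit 960733219) (nat_lit 76) (nat_lit 960733219) (nat_lit 173) (nat_lit 3) (nat_lit 172) (nat_lit 1) (nat_lit 173) (nat_lit 1) (nat_lit 385) (nat_lit 359) (nat_lit 276)) (XT.lf (nat_lit 152) (nat_lit 1620563325) (nat_lit 0) (nat_lit 233493025) (nat_lit 76) (nat_lit 233493025) (nat_lit 172) (nat_lit 1) (nat_lit 170) (nat_lit 1) (nat_lit 171) (nat_lit 1) (nat_lit 386) (nat_lit 359) (nat_lit 275)))))) (XT.nd (nat_lit 468) (nat_lit 456) (nat_lit 0) (XT.nd (nat_lit 234) (nat_lit 228) (nat_lit 0) (XT.nd (nat_lit 78) (nat_lit 228) (nat_lit 0) (XT.lf (nat_lit 0) (nat_lit 465539994) (nat_lit 0) (nat_lit 1122073671) (nat_lit 152) (nat_lit 465539994) (nat_lit 170)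 (nat_lit 3) (nat_lit 170) (nat_lit 1) (nat_lit 172) (nat_lit 1) (nat_lit 387) (nat_lit 359) (nat_lit 274)) (XT.nd (nat_lit 78) (nat_lit 152) (nat_lit 0) (XT.lf (nat_lit 76) (nat_lit 256331231) (nat_lit 0) (nat_lit 881601398) (nat_lit 76) (nat_lit 881601398) (nat_lit 170) (nat_lit 3) (nat_lit 169) (nat_lit 1) (nat_lit 170) (nat_lit 1) (nat_lit 388) (nat_lit 359) (nat_lit 273)) (XT.lf (nat_lit 152) (nat_lit 1602509825) (nat_lit 0) (nat_lit 192095289) (nat_lit 76) (nat_lit 192095289) (nat_lit 169) (nat_lit 1) (nat_lit 167) (nat_lit 1) (nat_lit 168) (nat_lit 1) (nat_lit 389) (nat_lit 359) (nat_lit 272)))) (XT.nd (nat_lit 78) (nat_lit 228) (nat_lit 0) (XT.lf (nat_lit 0) (nat_lit 471285616) (nat_lit 0) (nat_lit 1011417496) (nat_lit 152) (nat_lit 471285616) (nat_lit 167) (nat_lit 3) (nat_lit 167) (nat_lit 1) (nat_lit 169) (nat_lit 1) (nat_lit 390) (nat_lit 359) (nat_lit 271)) (XT.nd (nat_lit 78) (nat_lit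 152) (nat_lit 0) (XT.lf (nat_lit 76) (nat_lit 297745101) (nat_lit 0) (nat_lit 812156416) (nat_lit 76) (nat_lit 812156416) (nat_lit 167) (nat_lit 3) (nat_lit 166) (nat_lit 1) (nat_lit 167) (nat_lit 1) (nat_lit 391) (nat_lit 359) (nat_lit 270)) (XT.lf (nat_lit 152) (nat_lit 1574834862) (nat_lit 0) (nat_lit 158037270) (nat_lit 76) (nat_lit 158037270) (nat_lit 166) (nat_lit 1) (nat_lit 164) (nat_lit 1) (nat_lit 165) (nat_lit 1) (nat_lit 392) (nat_lit 359) (nat_lit 269))))) (XT.nd (nat_lit 234) (nat_lit 228) (nat_lit 0) (XT.nd (nat_lit 78) (nat_lit 228) (nat_lit 0) (XT.lf (nat_lit 0) (nat_lit 471808519) (nat_lit 0) (nat_lit 916176354) (nat_lit 152) (nat_lit 471808519) (nat_lit 164) (nat_lit 3) (nat_lit 164) (nat_lit 1) (nat_lit 166) (nat_lit 1) (nat_lit 393) (nat_lit 359) (nat_lit 268)) (XT.nd (nat_lit 78) (nat_lit 152) (nat_lit 0) (XT.lf (nat_lit 76) (nat_lit 327680168) (nat_lit 0) (nat_lit 750887630)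 (nat_lit 76) (nat_lit 750887630) (nat_lit 164) (nat_lit 3) (nat_lit 163) (nat_lit 1) (nat_lit 164) (nat_lit 1) (nat_lit 394) (nat_lit 359) (nat_lit 267)) (XT.lf (nat_lit 152) (nat_lit 1539854885) (nat_lit 0) (nat_lit 130017653) (nat_lit 76) (nat_lit 130017653) (nat_lit 163) (nat_lit 1) (nat_lit 161) (nat_lit 1) (nat_lit 162) (nat_lit 1) (nat_lit 395) (nat_lit 359) (nat_lit 266)))) (XT.nd (nat_lit 156) (nat_lit 152) (nat_lit 0) (XT.nd (nat_lit 78) (nat_lit 76) (nat_lit 0) (XT.lf (nat_lit 0) (nat_lit 468234871) (nat_lit 0) (nat_lit 833817388) (nat_lit 152) (nat_lit 468234871) (nat_lit 161) (nat_lit 3) (nat_lit 161) (nat_lit 1) (nat_lit 163) (nat_lit 1) (nat_lit 396) (nat_lit 359) (nat_lit 265)) (XT.lf (nat_lit 76) (nat_lit 348368558) (nat_lit 0) (nat_lit 696542384) (nat_lit 76) (nat_lit 696542384) (nat_lit 161) (nat_lit 3) (nat_lit 160) (nat_lit 1) (nat_lit 161) (nat_lit 1) (nat_lit 397) (nat_lit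 359) (nat_lit 264))) (XT.nd (nat_lit 78) (nat_lit 0) (nat_lit 0) (XT.lf (nat_lit 152) (nat_lit 1499446564) (nat_lit 0) (nat_lit 106965845) (nat_lit 76) (nat_lit 106965845) (nat_lit 160) (nat_lit 1) (nat_lit 158) (nat_lit 1) (nat_lit 159) (nat_lit 1) (nat_lit 398) (nat_lit 359) (nat_lit 263)) (XT.lf (nat_lit 0) (nat_lit 461481639) (nat_lit 0) (nat_lit 762247281) (nat_lit 152) (nat_lit 461481639) (nat_lit 158) (nat_lit 3) (nat_lit 158) (nat_lit 1) (nat_lit 160) (nat_lit 1) (nat_lit 399) (nat_lit 359) (nat_lit 262))))))) (XT.nd (nat_lit 1014) (nat_lit 1064) (nat_lit 0) (XT.nd (nat_lit 468) (nat_lit 532) (nat_lit 0) (XT.nd (nat_lit 234) (nat_lit 228) (nat_lit 0) (XT.nd (nat_lit 78) (nat_lit 152) (nat_lit 0) (XT.lf (nat_lit 76) (nat_lit 361637268) (nat_lit 0) (nat_lit 648080737) (nat_lit 76) (nat_lit 648080737) (nat_lit 158) (nat_lit 3) (nat_lit 157) (nat_lit 1) (nat_lit 158) (nat_lit 1) (nat_lit 400)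 (nat_lit 359) (nat_lit 261)) (XT.nd (nat_lit 78) (nat_lit 0) (nat_lit 0) (XT.lf (nat_lit 152) (nat_lit 1455126151) (nat_lit 0) (nat_lit 88001065) (nat_lit 76) (nat_lit 88001065) (nat_lit 157) (nat_lit 1) (nat_lit 155) (nat_lit 1) (nat_lit 156) (nat_lit 1) (nat_lit 401) (nat_lit 359) (nat_lit 260)) (XT.lf (nat_lit 0) (nat_lit 452294136) (nat_lit 0) (nat_lit 699734774) (nat_lit 152) (nat_lit 452294136) (nat_lit 155) (nat_lit 3) (nat_lit 155) (nat_lit 1) (nat_lit 157) (nat_lit 1) (nat_lit 402) (nat_lit 359) (nat_lit 259)))) (XT.nd (nat_lit 78) (nat_lit 152) (nat_lit 0) (XT.lf (nat_lit 76) (nat_lit 368980441) (nat_lit 0) (nat_lit 604638191) (nat_lit 76) (nat_lit 604638191) (nat_lit 155) (nat_lit 3) (nat_lit 154) (nat_lit 1) (nat_lit 155) (nat_lit 1) (nat_lit 403) (nat_lit 359) (nat_lit 258)) (XT.nd (nat_lit 78) (nat_lit 0) (nat_lit 0) (XT.lf (nat_lit 152) (nat_lit 1408114696) (nat_lit 0) (nat_lit 72398694)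 (nat_lit 76) (nat_lit 72398694) (nat_lit 154) (nat_lit 1) (nat_lit 152) (nat_lit 1) (nat_lit 153) (nat_lit 1) (nat_lit 404) (nat_lit 359) (nat_lit 257)) (XT.lf (nat_lit 0) (nat_lit 441276886) (nat_lit 0) (nat_lit 644846911) (nat_lit 152) (nat_lit 441276886) (nat_lit 152) (nat_lit 3) (nat_lit 152) (nat_lit 1) (nat_lit 154) (nat_lit 1) (nat_lit 405) (nat_lit 359) (nat_lit 256))))) (XT.nd (nat_lit 234) (nat_lit 304) (nat_lit 0) (XT.nd (nat_lit 78) (nat_lit 152) (nat_lit 0) (XT.lf (nat_lit 76) (nat_lit 371618803) (nat_lit 0) (nat_lit 565495017) (nat_lit 76) (nat_lit 565495017) (nat_lit 152) (nat_lit 3) (nat_lit 151) (nat_lit 1) (nat_lit 152) (nat_lit 1) (nat_lit 406) (nat_lit 359) (nat_lit 255)) (XT.nd (nat_lit 78) (nat_lit 0) (nat_lit 0) (XT.lf (nat_lit 152) (nat_lit 1359391647) (nat_lit 0) (nat_lit 59562585) (nat_lit 76) (nat_lit 59562585) (nat_lit 151) (nat_lit 1) (nat_lit 149) (nat_lit 1) (nat_lit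 150) (nat_lit 1) (nat_lit 407) (nat_lit 359) (nat_lit 254)) (XT.lf (nat_lit 0) (nat_lit 428918996) (nat_lit 0) (nat_lit 596396560) (nat_lit 152) (nat_lit 428918996) (nat_lit 149) (nat_lit 3) (nat_lit 149) (nat_lit 1) (nat_lit 151) (nat_lit 1) (nat_lit 408) (nat_lit 359) (nat_lit 253)))) (XT.nd (nat_lit 156) (nat_lit 76) (nat_lit 0) (XT.nd (nat_lit 78) (nat_lit 152) (nat_lit 0) (XT.lf (nat_lit 76) (nat_lit 370548548) (nat_lit 0) (nat_lit 530050989) (nat_lit 76) (nat_lit 530050989) (nat_lit 149) (nat_lit 3) (nat_lit 148) (nat_lit 1) (nat_lit 149) (nat_lit 1) (nat_lit 409) (nat_lit 359) (nat_lit 252)) (XT.lf (nat_lit 152) (nat_lit 1309738873) (nat_lit 0) (nat_lit 49002286) (nat_lit 76) (nat_lit 49002286) (nat_lit 148) (nat_lit 1) (nat_lit 146) (nat_lit 1) (nat_lit 147) (nat_lit 1) (nat_lit 410) (nat_lit 359) (nat_lit 251))) (XT.nd (nat_lit 78) (nat_lit 76) (nat_lit 0) (XT.lf (nat_lit 0) (nat_lit 415615015)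 (nat_lit 0) (nat_lit 553399221) (nat_lit 152) (nat_lit 415615015) (nat_lit 146) (nat_lit 3) (nat_lit 146) (nat_lit 1) (nat_lit 148) (nat_lit 1) (nat_lit 411) (nat_lit 359) (nat_lit 250)) (XT.lf (nat_lit 76) (nat_lit 366581530) (nat_lit 0) (nat_lit 497804583) (nat_lit 76) (nat_lit 497804583) (nat_lit 146) (nat_lit 3) (nat_lit 145) (nat_lit 1) (nat_lit 146) (nat_lit 1) (nat_lit 412) (nat_lit 359) (nat_lit 249)))))) (XT.nd (nat_lit 468) (nat_lit 608) (nat_lit 0) (XT.nd (nat_lit 234) (nat_lit 228) (nat_lit 0) (XT.nd (nat_lit 78) (nat_lit 76) (nat_lit 0) (XT.lf (nat_lit 152) (nat_lit 1259776842) (nat_lit 0) (nat_lit 40314302) (nat_lit 76) (nat_lit 40314302) (nat_lit 145) (nat_lit 1) (nat_lit 143) (nat_lit 1) (nat_lit 144) (nat_lit 1) (nat_lit 413) (nat_lit 359) (nat_lit 248)) (XT.nd (nat_lit 78) (nat_lit 76) (nat_lit 0) (XT.lf (nat_lit 0) (nat_lit 401682068) (nat_lit 0) (nat_lit 515037476) (nat_lit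 152) (nat_lit 401682068) (nat_lit 143) (nat_lit 3) (nat_lit 143) (nat_lit 1) (nat_lit 145) (nat_lit 1) (nat_lit 414) (nat_lit 359) (nat_lit 247)) (XT.lf (nat_lit 76) (nat_lit 360378316) (nat_lit 0) (nat_lit 468335846) (nat_lit 76) (nat_lit 468335846) (nat_lit 143) (nat_lit 3) (nat_lit 142) (nat_lit 1) (nat_lit 143) (nat_lit 1) (nat_lit 415) (nat_lit 359) (nat_lit 246)))) (XT.nd (nat_lit 78) (nat_lit 76) (nat_lit 0) (XT.lf (nat_lit 152) (nat_lit 1209994315) (nat_lit 0) (nat_lit 33166676) (nat_lit 76) (nat_lit 33166676) (nat_lit 142) (nat_lit 1) (nat_lit 140) (nat_lit 1) (nat_lit 141) (nat_lit 1) (nat_lit 416) (nat_lit 359) (nat_lit 245)) (XT.nd (nat_lit 78) (nat_lit 76) (nat_lit 0) (XT.lf (nat_lit 0) (nat_lit 387373943) (nat_lit 0) (nat_lit 480631717) (nat_lit 152) (nat_lit 387373943) (nat_lit 140) (nat_lit 3) (nat_lit 140) (nat_lit 1) (nat_lit 142) (nat_lit 1) (nat_lit 417) (nat_lit 359) (nat_lit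 244)) (XT.lf (nat_lit 76) (nat_lit 352475355) (nat_lit 0) (nat_lit 441292282) (nat_lit 76) (nat_lit 441292282) (nat_lit 140) (nat_lit 3) (nat_lit 139) (nat_lit 1) (nat_lit 140) (nat_lit 1) (nat_lit 418) (nat_lit 359) (nat_lit 243))))) (XT.nd (nat_lit 234) (nat_lit 380) (nat_lit 0) (XT.nd (nat_lit 78) (nat_lit 76) (nat_lit 0) (XT.lf (nat_lit 152) (nat_lit 1160772737) (nat_lit 0) (nat_lit 27286306) (nat_lit 76) (nat_lit 27286306) (nat_lit 139) (nat_lit 1) (nat_lit 137) (nat_lit 1) (nat_lit 138) (nat_lit 1) (nat_lit 419) (nat_lit 359) (nat_lit 242)) (XT.nd (nat_lit 78) (nat_lit 76) (nat_lit 0) (XT.lf (nat_lit 0) (nat_lit 372892656) (nat_lit 0) (nat_lit 449616057) (nat_lit 152) (nat_lit 372892656) (nat_lit 137) (nat_lit 3) (nat_lit 137) (nat_lit 1) (nat_lit 139) (nat_lit 1) (nat_lit 420) (nat_lit 359) (nat_lit 241)) (XT.lf (nat_lit 76) (nat_lit 343307320) (nat_lit 0) (nat_lit 416377227) (nat_lit 76)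 (nat_lit 416377227) (nat_lit 137) (nat_lit 3) (nat_lit 136) (nat_lit 1) (nat_lit 137) (nat_lit 1) (nat_lit 421) (nat_lit 359) (nat_lit 240)))) (XT.nd (nat_lit 156) (nat_lit 228) (nat_lit 0) (XT.nd (nat_lit 78) (nat_lit 0) (nat_lit 0) (XT.lf (nat_lit 152) (nat_lit 1112406240) (nat_lit 0) (nat_lit 22448511) (nat_lit 76) (nat_lit 22448511) (nat_lit 136) (nat_lit 1) (nat_lit 134) (nat_lit 1) (nat_lit 135) (nat_lit 1) (nat_lit 422) (nat_lit 359) (nat_lit 239)) (XT.lf (nat_lit 0) (nat_lit 358397952) (nat_lit 0) (nat_lit 421518484) (nat_lit 152) (nat_lit 358397952) (nat_lit 134) (nat_lit 3) (nat_lit 134) (nat_lit 1) (nat_lit 136) (nat_lit 1) (nat_lit 423) (nat_lit 359) (nat_lit 238))) (XT.nd (nat_lit 78) (nat_lit 152) (nat_lit 0) (XT.lf (nat_lit 76) (nat_lit 333225471) (nat_lit 0) (nat_lit 393340264) (nat_lit 76) (nat_lit 393340264) (nat_lit 134) (nat_lit 3) (nat_lit 133) (nat_lit 1) (nat_lit 134) (nat_lit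 1) (nat_lit 424) (nat_lit 359) (nat_lit 237)) (XT.lf (nat_lit 152) (nat_lit 1065118069) (nat_lit 0) (nat_lit 18468446) (nat_lit 76) (nat_lit 18468446) (nat_lit 133) (nat_lit 1) (nat_lit 131) (nat_lit 1) (nat_lit 132) (nat_lit 1) (nat_lit 425) (nat_lit 359) (nat_lit 236))))))))
noncomputable def ec106 : XT := (XT.nd (nat_lit 43368) (nat_lit 0) (nat_lit 10868) (XT.nd (nat_lit 936) (nat_lit 912) (nat_lit 0) (XT.nd (nat_lit 468) (nat_lit 456) (nat_lit 0) (XT.nd (nat_lit 234) (nat_lit 228) (nat_lit 0) (XT.nd (nat_lit 78) (nat_lit 228) (nat_lit 0) (XT.lf (nat_lit 0) (nat_lit 344015112) (nat_lit 0) (nat_lit 395944530) (nat_lit 152) (nat_lit 344015112) (nat_lit 131) (nat_lit 3) (nat_lit 131) (nat_lit 1) (nat_lit 133) (nat_lit 1) (nat_lit 426) (nat_lit 359) (nat_lit 235)) (XT.nd (nat_lit 78) (nat_lit 152) (nat_lit 0) (XT.lf (nat_lit 76) (nat_lit 322512743) (nat_lit 0) (nat_lit 371969332) (nat_lit 76) (nat_lit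 371969332) (nat_lit 131) (nat_lit 3) (nat_lit 130) (nat_lit 1) (nat_lit 131) (nat_lit 1) (nat_lit 427) (nat_lit 359) (nat_lit 234)) (XT.lf (nat_lit 152) (nat_lit 1019074035) (nat_lit 0) (nat_lit 15194036) (nat_lit 76) (nat_lit 15194036) (nat_lit 130) (nat_lit 1) (nat_lit 128) (nat_lit 1) (nat_lit 129) (nat_lit 1) (nat_lit 428) (nat_lit 359) (nat_lit 233)))) (XT.nd (nat_lit 78) (nat_lit 228) (nat_lit 0) (XT.lf (nat_lit 0) (nat_lit 329841351) (nat_lit 0) (nat_lit 372563812) (nat_lit 152) (nat_lit 329841351) (nat_lit 128) (nat_lit 3) (nat_lit 128) (nat_lit 1) (nat_lit 130) (nat_lit 1) (nat_lit 429) (nat_lit 359) (nat_lit 232)) (XT.nd (nat_lit 78) (nat_lit 152) (nat_lit 0) (XT.lf (nat_lit 76) (nat_lit 311396149) (nat_lit 0) (nat_lit 352084207) (nat_lit 76) (nat_lit 352084207) (nat_lit 128) (nat_lit 3) (nat_lit 127) (nat_lit 1) (nat_lit 128) (nat_lit 1) (nat_lit 430) (nat_lit 359) (nat_lit 231)) (XT.lf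 (nat_lit 152) (nat_lit 974393554) (nat_lit 0) (nat_lit 12500171) (nat_lit 76) (nat_lit 12500171) (nat_lit 127) (nat_lit 1) (nat_lit 125) (nat_lit 1) (nat_lit 126) (nat_lit 1) (nat_lit 431) (nat_lit 359) (nat_lit 230))))) (XT.nd (nat_lit 234) (nat_lit 228) (nat_lit 0) (XT.nd (nat_lit 78) (nat_lit 228) (nat_lit 0) (XT.lf (nat_lit 0) (nat_lit 315951074) (nat_lit 0) (nat_lit 351098948) (nat_lit 152) (nat_lit 315951074) (nat_lit 125) (nat_lit 3) (nat_lit 125) (nat_lit 1) (nat_lit 127) (nat_lit 1) (nat_lit 432) (nat_lit 359) (nat_lit 229)) (XT.nd (nat_lit 78) (nat_lit 152) (nat_lit 0) (XT.lf (nat_lit 76) (nat_lit 300056971) (nat_lit 0) (nat_lit 333531137) (nat_lit 76) (nat_lit 333531137) (nat_lit 125) (nat_lit 3) (nat_lit 124) (nat_lit 1) (nat_lit 125) (nat_lit 1) (nat_lit 433) (nat_lit 359) (nat_lit 228)) (XT.lf (nat_lit 152) (nat_lit 931158676) (nat_lit 0) (nat_lit 10283921) (nat_lit 76) (nat_lit 10283921)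 (nat_lit 124) (nat_lit 1) (nat_lit 122) (nat_lit 1) (nat_lit 123) (nat_lit 1) (nat_lit 434) (nat_lit 359) (nat_lit 227)))) (XT.nd (nat_lit 78) (nat_lit 228) (nat_lit 0) (XT.lf (nat_lit 0) (nat_lit 302400185) (nat_lit 0) (nat_lit 331316429) (nat_lit 152) (nat_lit 302400185) (nat_lit 122) (nat_lit 3) (nat_lit 122) (nat_lit 1) (nat_lit 124) (nat_lit 1) (nat_lit 435) (nat_lit 359) (nat_lit 226)) (XT.nd (nat_lit 78) (nat_lit 152) (nat_lit 0) (XT.lf (nat_lit 76) (nat_lit 288639125) (nat_lit 0) (nat_lit 316178404) (nat_lit 76) (nat_lit 316178404) (nat_lit 122) (nat_lit 3) (nat_lit 121) (nat_lit 1) (nat_lit 122) (nat_lit 1) (nat_lit 436) (nat_lit 359) (nat_lit 225)) (XT.lf (nat_lit 152) (nat_lit 889421489) (nat_lit 0) (nat_lit 8460608) (nat_lit 76) (nat_lit 8460608) (nat_lit 121) (nat_lit 1) (nat_lit 119) (nat_lit 1) (nat_lit 120) (nat_lit 1) (nat_lit 437) (nat_lit 359) (nat_lit 224)))))) (XT.nd (nat_lit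 468) (nat_lit 456) (nat_lit 0) (XT.nd (nat_lit 234) (nat_lit 228) (nat_lit 0) (XT.nd (nat_lit 78) (nat_lit 228) (nat_lit 0) (XT.lf (nat_lit 0) (nat_lit 289229624) (nat_lit 0) (nat_lit 313019089) (nat_lit 152) (nat_lit 289229624) (nat_lit 119) (nat_lit 3) (nat_lit 119) (nat_lit 1) (nat_lit 121) (nat_lit 1) (nat_lit 438) (nat_lit 359) (nat_lit 223)) (XT.nd (nat_lit 78) (nat_lit 152) (nat_lit 0) (XT.lf (nat_lit 76) (nat_lit 277256039) (nat_lit 0) (nat_lit 299912672) (nat_lit 76) (nat_lit 299912672) (nat_lit 119) (nat_lit 3) (nat_lit 118) (nat_lit 1) (nat_lit 119) (nat_lit 1) (nat_lit 439) (nat_lit 359) (nat_lit 222)) (XT.lf (nat_lit 152) (nat_lit 849210156) (nat_lit 0) (nat_lit 6960563) (nat_lit 76) (nat_lit 6960563) (nat_lit 118) (nat_lit 1) (nat_lit 116) (nat_lit 1) (nat_lit 117) (nat_lit 1) (nat_lit 440) (nat_lit 359) (nat_lit 221)))) (XT.nd (nat_lit 78) (nat_lit 228) (nat_lit 0) (XT.lf (nat_lit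 0) (nat_lit 276468254) (nat_lit 0) (nat_lit 296039906) (nat_lit 152) (nat_lit 276468254) (nat_lit 116) (nat_lit 3) (nat_lit 116) (nat_lit 1) (nat_lit 118) (nat_lit 1) (nat_lit 441) (nat_lit 359) (nat_lit 220)) (XT.nd (nat_lit 78) (nat_lit 152) (nat_lit 0) (XT.lf (nat_lit 76) (nat_lit 265996292) (nat_lit 0) (nat_lit 284635961) (nat_lit 76) (nat_lit 284635961) (nat_lit 116) (nat_lit 3) (nat_lit 115) (nat_lit 1) (nat_lit 116) (nat_lit 1) (nat_lit 442) (nat_lit 359) (nat_lit 219)) (XT.lf (nat_lit 152) (nat_lit 810533865) (nat_lit 0) (nat_lit 5726472) (nat_lit 76) (nat_lit 5726472) (nat_lit 115) (nat_lit 1) (nat_lit 113) (nat_lit 1) (nat_lit 114) (nat_lit 1) (nat_lit 443) (nat_lit 359) (nat_lit 218))))) (XT.nd (nat_lit 234) (nat_lit 228) (nat_lit 0) (XT.nd (nat_lit 78) (nat_lit 228) (nat_lit 0) (XT.lf (nat_lit 0) (nat_lit 264135237) (nat_lit 0) (nat_lit 280236884) (nat_lit 152) (nat_lit 264135237) (nat_lit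 113) (nat_lit 3) (nat_lit 113) (nat_lit 1) (nat_lit 115) (nat_lit 1) (nat_lit 444) (nat_lit 359) (nat_lit 217)) (XT.nd (nat_lit 78) (nat_lit 152) (nat_lit 0) (XT.lf (nat_lit 76) (nat_lit 254928249) (nat_lit 0) (nat_lit 270263150) (nat_lit 76) (nat_lit 270263150) (nat_lit 113) (nat_lit 3) (nat_lit 112) (nat_lit 1) (nat_lit 113) (nat_lit 1) (nat_lit 445) (nat_lit 359) (nat_lit 216)) (XT.lf (nat_lit 152) (nat_lit 773386853) (nat_lit 0) (nat_lit 4711183) (nat_lit 76) (nat_lit 4711183) (nat_lit 112) (nat_lit 1) (nat_lit 110) (nat_lit 1) (nat_lit 111) (nat_lit 1) (nat_lit 446) (nat_lit 359) (nat_lit 215)))) (XT.nd (nat_lit 156) (nat_lit 152) (nat_lit 0) (XT.nd (nat_lit 78) (nat_lit 76) (nat_lit 0) (XT.lf (nat_lit 0) (nat_lit 252241971) (nat_lit 0) (nat_lit 265488835) (nat_lit 152) (nat_lit 252241971) (nat_lit 110) (nat_lit 3) (nat_lit 110) (nat_lit 1) (nat_lit 112) (nat_lit 1) (nat_lit 447) (nat_lit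 359) (nat_lit 214)) (XT.lf (nat_lit 76) (nat_lit 244103855) (nat_lit 0) (nat_lit 256719916) (nat_lit 76) (nat_lit 256719916) (nat_lit 110) (nat_lit 3) (nat_lit 109) (nat_lit 1) (nat_lit 110) (nat_lit 1) (nat_lit 448) (nat_lit 359) (nat_lit 213))) (XT.nd (nat_lit 41496) (nat_lit 0) (nat_lit 14060) (XT.lf (nat_lit 152) (nat_lit 737751693) (nat_lit 0) (nat_lit 3875902) (nat_lit 76) (nat_lit 3875902) (nat_lit 109) (nat_lit 1) (nat_lit 107) (nat_lit 1) (nat_lit 108) (nat_lit 1) (nat_lit 449) (nat_lit 359) (nat_lit 212)) (XT.lf (nat_lit 836) (nat_lit 1425724656) (nat_lit 0) (nat_lit 2531370850) (nat_lit 836) (nat_lit 1425724656) (nat_lit 303) (nat_lit 1) (nat_lit 292) (nat_lit 0) (nat_lit 303) (nat_lit 0) (nat_lit 300) (nat_lit 360) (nat_lit 360))))))) (XT.nd (nat_lit 936) (nat_lit 2280) (nat_lit 0) (XT.nd (nat_lit 468) (nat_lit 912) (nat_lit 0) (XT.nd (nat_lit 234) (nat_lit 0) (nat_lit 152) (XT.nd (nat_lit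 78) (nat_lit 0) (nat_lit 76) (XT.lf (nat_lit 836) (nat_lit 5526286763) (nat_lit 76) (nat_lit 2490542288) (nat_lit 0) (nat_lit 2490542288) (nat_lit 303) (nat_lit 1) (nat_lit 293) (nat_lit 1) (nat_lit 292) (nat_lit 0) (nat_lit 301) (nat_lit 360) (nat_lit 359)) (XT.nd (nat_lit 78) (nat_lit 0) (nat_lit 0) (XT.lf (nat_lit 836) (nat_lit 2633745062) (nat_lit 0) (nat_lit 4989596710) (nat_lit 760) (nat_lit 2633745062) (nat_lit 304) (nat_lit 1) (nat_lit 293) (nat_lit 1) (nat_lit 303) (nat_lit 1) (nat_lit 302) (nat_lit 360) (nat_lit 358)) (XT.lf (nat_lit 836) (nat_lit 4940539768) (nat_lit 76) (nat_lit 2537174307) (nat_lit 0) (nat_lit 2537174307) (nat_lit 304) (nat_lit 1) (nat_lit 294) (nat_lit 1) (nat_lit 293) (nat_lit 1) (nat_lit 303) (nat_lit 360) (nat_lit 357)))) (XT.nd (nat_lit 78) (nat_lit 0) (nat_lit 0) (XT.lf (nat_lit 836) (nat_lit 2274083011) (nat_lit 0) (nat_lit 5232200387) (nat_lit 760) (nat_lit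 2274083011) (nat_lit 305) (nat_lit 1) (nat_lit 294) (nat_lit 1) (nat_lit 304) (nat_lit 1) (nat_lit 304) (nat_lit 360) (nat_lit 356)) (XT.nd (nat_lit 78) (nat_lit 0) (nat_lit 76) (XT.lf (nat_lit 836) (nat_lit 4090086410) (nat_lit 76) (nat_lit 2731453575) (nat_lit 0) (nat_lit 2731453575) (nat_lit 305) (nat_lit 1) (nat_lit 295) (nat_lit 1) (nat_lit 294) (nat_lit 1) (nat_lit 305) (nat_lit 360) (nat_lit 355)) (XT.lf (nat_lit 836) (nat_lit 1793384758) (nat_lit 0) (nat_lit 5746485587) (nat_lit 760) (nat_lit 1793384758) (nat_lit 306) (nat_lit 1) (nat_lit 295) (nat_lit 1) (nat_lit 305) (nat_lit 1) (nat_lit 306) (nat_lit 360) (nat_lit 354))))) (XT.nd (nat_lit 234) (nat_lit 1140) (nat_lit 0) (XT.nd (nat_lit 78) (nat_lit 0) (nat_lit 76) (XT.lf (nat_lit 836) (nat_lit 3014734843) (nat_lit 76) (nat_lit 3052415979) (nat_lit 0) (nat_lit 3052415979) (nat_lit 306) (nat_lit 1) (nat_lit 296) (nat_lit 1) (nat_lit 295)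 (nat_lit 1) (nat_lit 307) (nat_lit 360) (nat_lit 353)) (XT.nd (nat_lit 78) (nat_lit 0) (nat_lit 0) (XT.lf (nat_lit 836) (nat_lit 1210259017) (nat_lit 0) (nat_lit 6493182675) (nat_lit 760) (nat_lit 1210259017) (nat_lit 307) (nat_lit 1) (nat_lit 296) (nat_lit 1) (nat_lit 306) (nat_lit 1) (nat_lit 308) (nat_lit 360) (nat_lit 352)) (XT.lf (nat_lit 836) (nat_lit 1749868509) (nat_lit 76) (nat_lit 3481391085) (nat_lit 0) (nat_lit 3481391085) (nat_lit 307) (nat_lit 1) (nat_lit 297) (nat_lit 1) (nat_lit 296) (nat_lit 1) (nat_lit 309) (nat_lit 360) (nat_lit 351)))) (XT.nd (nat_lit 78) (nat_lit 1292) (nat_lit 0) (XT.lf (nat_lit 76) (nat_lit 541234154) (nat_lit 0) (nat_lit 7437340136) (nat_lit 760) (nat_lit 541234154) (nat_lit 298) (nat_lit 1) (nat_lit 297) (nat_lit 1) (nat_lit 307) (nat_lit 1) (nat_lit 310) (nat_lit 360) (nat_lit 350)) (XT.nd (nat_lit 78) (nat_lit 532) (nat_lit 0) (XT.lf (nat_lit 836) (nat_lit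 326891969) (nat_lit 0) (nat_lit 4001772480) (nat_lit 760) (nat_lit 4001772480) (nat_lit 298) (nat_lit 1) (nat_lit 287) (nat_lit 1) (nat_lit 297) (nat_lit 1) (nat_lit 311) (nat_lit 360) (nat_lit 349)) (XT.lf (nat_lit 532) (nat_lit 7757558120) (nat_lit 0) (nat_lit 195821524) (nat_lit 456) (nat_lit 195821524) (nat_lit 287) (nat_lit 1) (nat_lit 280) (nat_lit 1) (nat_lit 286) (nat_lit 1) (nat_lit 312) (nat_lit 360) (nat_lit 348)))))) (XT.nd (nat_lit 468) (nat_lit 1216) (nat_lit 0) (XT.nd (nat_lit 234) (nat_lit 684) (nat_lit 0) (XT.nd (nat_lit 78) (nat_lit 380) (nat_lit 0) (XT.lf (nat_lit 76) (nat_lit 3391590908) (nat_lit 0) (nat_lit 1187114973) (nat_lit 532) (nat_lit 3391590908) (nat_lit 281) (nat_lit 1) (nat_lit 280) (nat_lit 1) (nat_lit 287) (nat_lit 1) (nat_lit 313) (nat_lit 360) (nat_lit 347)) (XT.nd (nat_lit 78) (nat_lit 0) (nat_lit 0) (XT.lf (nat_lit 456) (nat_lit 5836057370) (nat_lit 0) (nat_lit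 981471266) (nat_lit 380) (nat_lit 981471266) (nat_lit 281) (nat_lit 1) (nat_lit 275) (nat_lit 1) (nat_lit 280) (nat_lit 1) (nat_lit 314) (nat_lit 360) (nat_lit 346)) (XT.lf (nat_lit 76) (nat_lit 2419180507) (nat_lit 0) (nat_lit 2792943136) (nat_lit 456) (nat_lit 2419180507) (nat_lit 276) (nat_lit 1) (nat_lit 275) (nat_lit 1) (nat_lit 281) (nat_lit 1) (nat_lit 315) (nat_lit 360) (nat_lit 345)))) (XT.nd (nat_lit 78) (nat_lit 304) (nat_lit 0) (XT.lf (nat_lit 456) (nat_lit 3843126541) (nat_lit 0) (nat_lit 1813161126) (nat_lit 380) (nat_lit 1813161126) (nat_lit 276) (nat_lit 1) (nat_lit 270) (nat_lit 1) (nat_lit 275) (nat_lit 1) (nat_lit 316) (nat_lit 360) (nat_lit 344)) (XT.nd (nat_lit 78) (nat_lit 304) (nat_lit 0) (XT.lf (nat_lit 76) (nat_lit 1416141055) (nat_lit 0) (nat_lit 4480018624) (nat_lit 456) (nat_lit 1416141055) (nat_lit 271) (nat_lit 1) (nat_lit 270) (nat_lit 1) (nat_lit 276) (nat_lit 1)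 (nat_lit 317) (nat_lit 360) (nat_lit 343)) (XT.lf (nat_lit 380) (nat_lit 1797314763) (nat_lit 0) (nat_lit 2680940139) (nat_lit 304) (nat_lit 2680940139) (nat_lit 271) (nat_lit 1) (nat_lit 266) (nat_lit 1) (nat_lit 270) (nat_lit 1) (nat_lit 318) (nat_lit 360) (nat_lit 342))))) (XT.nd (nat_lit 234) (nat_lit 532) (nat_lit 0) (XT.nd (nat_lit 78) (nat_lit 684) (nat_lit 0) (XT.lf (nat_lit 76) (nat_lit 391083699) (nat_lit 0) (nat_lit 6229809641) (nat_lit 380) (nat_lit 391083699) (nat_lit 267) (nat_lit 1) (nat_lit 266) (nat_lit 1) (nat_lit 271) (nat_lit 1) (nat_lit 319) (nat_lit 360) (nat_lit 341)) (XT.nd (nat_lit 78) (nat_lit 304) (nat_lit 0) (XT.lf (nat_lit 76) (nat_lit 3295383632) (nat_lit 0) (nat_lit 275994780) (nat_lit 380) (nat_lit 3295383632) (nat_lit 262) (nat_lit 1) (nat_lit 261) (nat_lit 1) (nat_lit 266) (nat_lit 1) (nat_lit 320) (nat_lit 360) (nat_lit 340)) (XT.lf (nat_lit 380) (nat_lit 5451084214)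 (nat_lit 0) (nat_lit 637996488) (nat_lit 304) (nat_lit 637996488) (nat_lit 262) (nat_lit 1) (nat_lit 257) (nat_lit 1) (nat_lit 261) (nat_lit 1) (nat_lit 321) (nat_lit 360) (nat_lit 339)))) (XT.nd (nat_lit 156) (nat_lit 228) (nat_lit 0) (XT.nd (nat_lit 78) (nat_lit 304) (nat_lit 0) (XT.lf (nat_lit 76) (nat_lit 2138154875) (nat_lit 0) (nat_lit 2313478911) (nat_lit 380) (nat_lit 2138154875) (nat_lit 258) (nat_lit 1) (nat_lit 257) (nat_lit 1) (nat_lit 262) (nat_lit 1) (nat_lit 322) (nat_lit 360) (nat_lit 338)) (XT.lf (nat_lit 380) (nat_lit 3120162751) (nat_lit 0) (nat_lit 1668549032) (nat_lit 304) (nat_lit 1668549032) (nat_lit 258) (nat_lit 1) (nat_lit 253) (nat_lit 1) (nat_lit 257) (nat_lit 1) (nat_lit 323) (nat_lit 360) (nat_lit 337))) (XT.nd (nat_lit 78) (nat_lit 228) (nat_lit 0) (XT.lf (nat_lit 76) (nat_lit 983960081) (nat_lit 0) (nat_lit 4360687934) (nat_lit 380) (nat_lit 983960081) (nat_lit 254)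 (nat_lit 1) (nat_lit 253) (nat_lit 1) (nat_lit 258) (nat_lit 1) (nat_lit 324) (nat_lit 360) (nat_lit 336)) (XT.lf (nat_lit 304) (nat_lit 800212591) (nat_lit 0) (nat_lit 2701259941) (nat_lit 228) (nat_lit 2701259941) (nat_lit 254) (nat_lit 1) (nat_lit 250) (nat_lit 1) (nat_lit 253) (nat_lit 1) (nat_lit 325) (nat_lit 360) (nat_lit 335))))))))
noncomputable def ec107 : XT := (XT.nd (nat_lit 1950) (nat_lit 2204) (nat_lit 0) (XT.nd (nat_lit 936) (nat_lit 1368) (nat_lit 0) (XT.nd (nat_lit 468) (nat_lit 684) (nat_lit 0) (XT.nd (nat_lit 234) (nat_lit 532) (nat_lit 0) (XT.nd (nat_lit 78) (nat_lit 228) (nat_lit 0) (XT.lf (nat_lit 380) (nat_lit 5761948495) (nat_lit 0) (nat_lit 159883014) (nat_lit 304) (nat_lit 159883014) (nat_lit 250) (nat_lit 1) (nat_lit 245) (nat_lit 1) (nat_lit 249) (nat_lit 1) (nat_lit 326) (nat_lit 360) (nat_lit 334)) (XT.nd (nat_lit 78) (nat_lit 228) (nat_lit 0) (XT.lf (nat_lit 76)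 (nat_lit 2254693043) (nat_lit 0) (nat_lit 1451980308) (nat_lit 380) (nat_lit 2254693043) (nat_lit 246) (nat_lit 1) (nat_lit 245) (nat_lit 1) (nat_lit 250) (nat_lit 1) (nat_lit 327) (nat_lit 360) (nat_lit 333)) (XT.lf (nat_lit 304) (nat_lit 3293050470) (nat_lit 0) (nat_lit 1276291733) (nat_lit 228) (nat_lit 1276291733) (nat_lit 246) (nat_lit 1) (nat_lit 242) (nat_lit 1) (nat_lit 245) (nat_lit 1) (nat_lit 328) (nat_lit 360) (nat_lit 332)))) (XT.nd (nat_lit 78) (nat_lit 532) (nat_lit 0) (XT.lf (nat_lit 76) (nat_lit 1040325582) (nat_lit 0) (nat_lit 3652190698) (nat_lit 304) (nat_lit 1040325582) (nat_lit 243) (nat_lit 1) (nat_lit 242) (nat_lit 1) (nat_lit 246) (nat_lit 1) (nat_lit 329) (nat_lit 360) (nat_lit 331)) (XT.nd (nat_lit 78) (nat_lit 304) (nat_lit 0) (XT.lf (nat_lit 304) (nat_lit 867078856) (nat_lit 0) (nat_lit 2377768459) (nat_lit 228) (nat_lit 2377768459) (nat_lit 243) (nat_lit 1) (nat_lit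 239) (nat_lit 1) (nat_lit 242) (nat_lit 1) (nat_lit 330) (nat_lit 360) (nat_lit 330)) (XT.lf (nat_lit 304) (nat_lit 5218451811) (nat_lit 0) (nat_lit 149016458) (nat_lit 228) (nat_lit 149016458) (nat_lit 239) (nat_lit 1) (nat_lit 235) (nat_lit 1) (nat_lit 238) (nat_lit 1) (nat_lit 331) (nat_lit 360) (nat_lit 329))))) (XT.nd (nat_lit 234) (nat_lit 456) (nat_lit 0) (XT.nd (nat_lit 78) (nat_lit 228) (nat_lit 0) (XT.lf (nat_lit 76) (nat_lit 1973990873) (nat_lit 0) (nat_lit 1462707415) (nat_lit 304) (nat_lit 1973990873) (nat_lit 236) (nat_lit 1) (nat_lit 235) (nat_lit 1) (nat_lit 239) (nat_lit 1) (nat_lit 332) (nat_lit 360) (nat_lit 328)) (XT.nd (nat_lit 78) (nat_lit 0) (nat_lit 0) (XT.lf (nat_lit 304) (nat_lit 2714418200) (nat_lit 0) (nat_lit 1297194924) (nat_lit 228) (nat_lit 1297194924) (nat_lit 236) (nat_lit 1) (nat_lit 232) (nat_lit 1) (nat_lit 235) (nat_lit 1) (nat_lit 333) (nat_lit 360) (nat_lit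 327)) (XT.lf (nat_lit 76) (nat_lit 747548558) (nat_lit 0) (nat_lit 3714562317) (nat_lit 304) (nat_lit 747548558) (nat_lit 233) (nat_lit 1) (nat_lit 232) (nat_lit 1) (nat_lit 236) (nat_lit 1) (nat_lit 334) (nat_lit 360) (nat_lit 326)))) (XT.nd (nat_lit 78) (nat_lit 304) (nat_lit 0) (XT.lf (nat_lit 228) (nat_lit 273926647) (nat_lit 0) (nat_lit 2419226284) (nat_lit 152) (nat_lit 2419226284) (nat_lit 233) (nat_lit 1) (nat_lit 230) (nat_lit 1) (nat_lit 232) (nat_lit 1) (nat_lit 335) (nat_lit 360) (nat_lit 325)) (XT.nd (nat_lit 78) (nat_lit 0) (nat_lit 0) (XT.lf (nat_lit 304) (nat_lit 4138939790) (nat_lit 0) (nat_lit 439585406) (nat_lit 228) (nat_lit 439585406) (nat_lit 230) (nat_lit 1) (nat_lit 226) (nat_lit 1) (nat_lit 229) (nat_lit 1) (nat_lit 336) (nat_lit 360) (nat_lit 324)) (XT.lf (nat_lit 76) (nat_lit 1445633422) (nat_lit 0) (nat_lit 2033629448) (nat_lit 304) (nat_lit 1445633422) (nat_lit 227)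 (nat_lit 1) (nat_lit 226) (nat_lit 1) (nat_lit 230) (nat_lit 1) (nat_lit 337) (nat_lit 360) (nat_lit 323)))))) (XT.nd (nat_lit 468) (nat_lit 684) (nat_lit 0) (XT.nd (nat_lit 234) (nat_lit 304) (nat_lit 0) (XT.nd (nat_lit 78) (nat_lit 228) (nat_lit 0) (XT.lf (nat_lit 228) (nat_lit 1670206421) (nat_lit 0) (nat_lit 1582176206) (nat_lit 152) (nat_lit 1582176206) (nat_lit 227) (nat_lit 1) (nat_lit 224) (nat_lit 1) (nat_lit 226) (nat_lit 1) (nat_lit 338) (nat_lit 360) (nat_lit 322)) (XT.nd (nat_lit 78) (nat_lit 228) (nat_lit 0) (XT.lf (nat_lit 76) (nat_lit 239955649) (nat_lit 0) (nat_lit 4267308028) (nat_lit 228) (nat_lit 239955649) (nat_lit 225) (nat_lit 1) (nat_lit 224) (nat_lit 1) (nat_lit 227) (nat_lit 1) (nat_lit 339) (nat_lit 360) (nat_lit 321)) (XT.lf (nat_lit 76) (nat_lit 1980396073) (nat_lit 0) (nat_lit 699405159) (nat_lit 228) (nat_lit 1980396073) (nat_lit 222) (nat_lit 1) (nat_lit 221) (nat_lit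 1) (nat_lit 224) (nat_lit 1) (nat_lit 340) (nat_lit 360) (nat_lit 320)))) (XT.nd (nat_lit 78) (nat_lit 152) (nat_lit 0) (XT.lf (nat_lit 228) (nat_lit 2750127041) (nat_lit 0) (nat_lit 912967665) (nat_lit 152) (nat_lit 912967665) (nat_lit 222) (nat_lit 1) (nat_lit 219) (nat_lit 1) (nat_lit 221) (nat_lit 1) (nat_lit 341) (nat_lit 360) (nat_lit 319)) (XT.nd (nat_lit 78) (nat_lit 152) (nat_lit 0) (XT.lf (nat_lit 76) (nat_lit 776014303) (nat_lit 0) (nat_lit 2941758401) (nat_lit 228) (nat_lit 776014303) (nat_lit 220) (nat_lit 1) (nat_lit 219) (nat_lit 1) (nat_lit 222) (nat_lit 1) (nat_lit 342) (nat_lit 360) (nat_lit 318)) (XT.lf (nat_lit 228) (nat_lit 363534762) (nat_lit 0) (nat_lit 2024817669) (nat_lit 152) (nat_lit 2024817669) (nat_lit 220) (nat_lit 1) (nat_lit 217) (nat_lit 1) (nat_lit 219) (nat_lit 1) (nat_lit 343) (nat_lit 360) (nat_lit 317))))) (XT.nd (nat_lit 234) (nat_lit 304) (nat_lit 0) (XT.nd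 (nat_lit 78) (nat_lit 152) (nat_lit 0) (XT.lf (nat_lit 228) (nat_lit 3573054500) (nat_lit 0) (nat_lit 380917315) (nat_lit 152) (nat_lit 380917315) (nat_lit 217) (nat_lit 1) (nat_lit 214) (nat_lit 1) (nat_lit 216) (nat_lit 1) (nat_lit 344) (nat_lit 360) (nat_lit 316)) (XT.nd (nat_lit 78) (nat_lit 152) (nat_lit 0) (XT.lf (nat_lit 76) (nat_lit 1189478599) (nat_lit 0) (nat_lit 1878319084) (nat_lit 228) (nat_lit 1189478599) (nat_lit 215) (nat_lit 1) (nat_lit 214) (nat_lit 1) (nat_lit 217) (nat_lit 1) (nat_lit 345) (nat_lit 360) (nat_lit 315)) (XT.lf (nat_lit 228) (nat_lit 1211426203) (nat_lit 0) (nat_lit 1485245218) (nat_lit 152) (nat_lit 1485245218) (nat_lit 215) (nat_lit 1) (nat_lit 212) (nat_lit 1) (nat_lit 214) (nat_lit 1) (nat_lit 346) (nat_lit 360) (nat_lit 314)))) (XT.nd (nat_lit 156) (nat_lit 152) (nat_lit 0) (XT.nd (nat_lit 78) (nat_lit 152) (nat_lit 0) (XT.lf (nat_lit 76) (nat_lit 39816238)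 (nat_lit 0) (nat_lit 4029567390) (nat_lit 228) (nat_lit 39816238) (nat_lit 213) (nat_lit 1) (nat_lit 212) (nat_lit 1) (nat_lit 215) (nat_lit 1) (nat_lit 347) (nat_lit 360) (nat_lit 313)) (XT.lf (nat_lit 76) (nat_lit 1503396236) (nat_lit 0) (nat_lit 1029228394) (nat_lit 152) (nat_lit 1503396236) (nat_lit 211) (nat_lit 1) (nat_lit 210) (nat_lit 1) (nat_lit 212) (nat_lit 1) (nat_lit 348) (nat_lit 360) (nat_lit 312))) (XT.nd (nat_lit 78) (nat_lit 0) (nat_lit 0) (XT.lf (nat_lit 228) (nat_lit 1865543578) (nat_lit 0) (nat_lit 1049936546) (nat_lit 152) (nat_lit 1049936546) (nat_lit 211) (nat_lit 1) (nat_lit 208) (nat_lit 1) (nat_lit 210) (nat_lit 1) (nat_lit 349) (nat_lit 360) (nat_lit 311)) (XT.lf (nat_lit 76) (nat_lit 374028594) (nat_lit 0) (nat_lit 3148661075) (nat_lit 228) (nat_lit 374028594) (nat_lit 209) (nat_lit 1) (nat_lit 208) (nat_lit 1) (nat_lit 211) (nat_lit 1) (nat_lit 350) (nat_lit 360) (nat_lit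 310))))))) (XT.nd (nat_lit 1014) (nat_lit 912) (nat_lit 0) (XT.nd (nat_lit 468) (nat_lit 684) (nat_lit 0) (XT.nd (nat_lit 234) (nat_lit 304) (nat_lit 0) (XT.nd (nat_lit 78) (nat_lit 152) (nat_lit 0) (XT.lf (nat_lit 76) (nat_lit 1736666136) (nat_lit 0) (nat_lit 355254114) (nat_lit 152) (nat_lit 1736666136) (nat_lit 207) (nat_lit 1) (nat_lit 206) (nat_lit 1) (nat_lit 208) (nat_lit 1) (nat_lit 351) (nat_lit 360) (nat_lit 309)) (XT.nd (nat_lit 78) (nat_lit 0) (nat_lit 0) (XT.lf (nat_lit 228) (nat_lit 2362311359) (nat_lit 0) (nat_lit 699996471) (nat_lit 152) (nat_lit 699996471) (nat_lit 207) (nat_lit 1) (nat_lit 204) (nat_lit 1) (nat_lit 206) (nat_lit 1) (nat_lit 352) (nat_lit 360) (nat_lit 308)) (XT.lf (nat_lit 76) (nat_lit 632734894) (nat_lit 0) (nat_lit 2431864603) (nat_lit 228) (nat_lit 632734894) (nat_lit 205) (nat_lit 1) (nat_lit 204) (nat_lit 1) (nat_lit 207) (nat_lit 1) (nat_lit 353) (nat_lit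 360) (nat_lit 307)))) (XT.nd (nat_lit 78) (nat_lit 228) (nat_lit 0) (XT.lf (nat_lit 152) (nat_lit 181635146) (nat_lit 0) (nat_lit 1725977674) (nat_lit 76) (nat_lit 1725977674) (nat_lit 205) (nat_lit 1) (nat_lit 203) (nat_lit 1) (nat_lit 204) (nat_lit 1) (nat_lit 354) (nat_lit 360) (nat_lit 306)) (XT.nd (nat_lit 78) (nat_lit 0) (nat_lit 0) (XT.lf (nat_lit 228) (nat_lit 2731597535) (nat_lit 0) (nat_lit 419899377) (nat_lit 152) (nat_lit 419899377) (nat_lit 203) (nat_lit 1) (nat_lit 200) (nat_lit 1) (nat_lit 202) (nat_lit 1) (nat_lit 355) (nat_lit 360) (nat_lit 305)) (XT.lf (nat_lit 76) (nat_lit 830096034) (nat_lit 0) (nat_lit 1849704212) (nat_lit 228) (nat_lit 830096034) (nat_lit 201) (nat_lit 1) (nat_lit 200) (nat_lit 1) (nat_lit 203) (nat_lit 1) (nat_lit 356) (nat_lit 360) (nat_lit 304))))) (XT.nd (nat_lit 234) (nat_lit 380) (nat_lit 0) (XT.nd (nat_lit 78) (nat_lit 228) (nat_lit 0) (XT.lf (nat_lit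 152) (nat_lit 609971970) (nat_lit 0) (nat_lit 1419966104) (nat_lit 76) (nat_lit 1419966104) (nat_lit 201) (nat_lit 1) (nat_lit 199) (nat_lit 1) (nat_lit 200) (nat_lit 1) (nat_lit 357) (nat_lit 360) (nat_lit 303)) (XT.nd (nat_lit 78) (nat_lit 0) (nat_lit 0) (XT.lf (nat_lit 228) (nat_lit 2997880752) (nat_lit 0) (nat_lit 196890874) (nat_lit 152) (nat_lit 196890874) (nat_lit 199) (nat_lit 1) (nat_lit 196) (nat_lit 1) (nat_lit 198) (nat_lit 1) (nat_lit 358) (nat_lit 360) (nat_lit 302)) (XT.lf (nat_lit 76) (nat_lit 977725367) (nat_lit 0) (nat_lit 1377949742) (nat_lit 228) (nat_lit 977725367) (nat_lit 197) (nat_lit 1) (nat_lit 196) (nat_lit 1) (nat_lit 199) (nat_lit 1) (nat_lit 359) (nat_lit 360) (nat_lit 301)))) (XT.nd (nat_lit 156) (nat_lit 76) (nat_lit 0) (XT.nd (nat_lit 78) (nat_lit 228) (nat_lit 0) (XT.lf (nat_lit 152) (nat_lit 940435245) (nat_lit 0) (nat_lit 1168209628) (nat_lit 76) (nat_lit 1168209628)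 (nat_lit 197) (nat_lit 1) (nat_lit 195) (nat_lit 1) (nat_lit 196) (nat_lit 1) (nat_lit 360) (nat_lit 360) (nat_lit 300)) (XT.lf (nat_lit 228) (nat_lit 3181210294) (nat_lit 0) (nat_lit 20495578) (nat_lit 152) (nat_lit 20495578) (nat_lit 195) (nat_lit 1) (nat_lit 192) (nat_lit 1) (nat_lit 194) (nat_lit 1) (nat_lit 361) (nat_lit 360) (nat_lit 299))) (XT.nd (nat_lit 78) (nat_lit 76) (nat_lit 0) (XT.lf (nat_lit 76) (nat_lit 1085142132) (nat_lit 0) (nat_lit 996684101) (nat_lit 228) (nat_lit 1085142132) (nat_lit 193) (nat_lit 1) (nat_lit 192) (nat_lit 1) (nat_lit 195) (nat_lit 1) (nat_lit 362) (nat_lit 360) (nat_lit 298)) (XT.lf (nat_lit 152) (nat_lit 1191422018) (nat_lit 0) (nat_lit 961088952) (nat_lit 76) (nat_lit 961088952) (nat_lit 193) (nat_lit 1) (nat_lit 191) (nat_lit 1) (nat_lit 192) (nat_lit 1) (nat_lit 363) (nat_lit 360) (nat_lit 297)))))) (XT.nd (nat_lit 468) (nat_lit 456) (nat_lit 0) (XT.nd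 (nat_lit 234) (nat_lit 228) (nat_lit 0) (XT.nd (nat_lit 78) (nat_lit 228) (nat_lit 0) (XT.lf (nat_lit 0) (nat_lit 119820376) (nat_lit 0) (nat_lit 2822202010) (nat_lit 152) (nat_lit 119820376) (nat_lit 191) (nat_lit 3) (nat_lit 191) (nat_lit 1) (nat_lit 193) (nat_lit 1) (nat_lit 364) (nat_lit 360) (nat_lit 296)) (XT.nd (nat_lit 78) (nat_lit 76) (nat_lit 0) (XT.lf (nat_lit 76) (nat_lit 1160144405) (nat_lit 0) (nat_lit 689537750) (nat_lit 152) (nat_lit 1160144405) (nat_lit 190) (nat_lit 1) (nat_lit 189) (nat_lit 1) (nat_lit 191) (nat_lit 1) (nat_lit 365) (nat_lit 360) (nat_lit 295)) (XT.lf (nat_lit 152) (nat_lit 1378017857) (nat_lit 0) (nat_lit 790690259) (nat_lit 76) (nat_lit 790690259) (nat_lit 190) (nat_lit 1) (nat_lit 188) (nat_lit 1) (nat_lit 189) (nat_lit 1) (nat_lit 366) (nat_lit 360) (nat_lit 294)))) (XT.nd (nat_lit 78) (nat_lit 228) (nat_lit 0) (XT.lf (nat_lit 0) (nat_lit 229013246) (nat_lit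 0) (nat_lit 2452269304) (nat_lit 152) (nat_lit 229013246) (nat_lit 188) (nat_lit 3) (nat_lit 188) (nat_lit 1) (nat_lit 190) (nat_lit 1) (nat_lit 367) (nat_lit 360) (nat_lit 293)) (XT.nd (nat_lit 78) (nat_lit 76) (nat_lit 0) (XT.lf (nat_lit 76) (nat_lit 1209115853) (nat_lit 0) (nat_lit 443058960) (nat_lit 152) (nat_lit 1209115853) (nat_lit 187) (nat_lit 1) (nat_lit 186) (nat_lit 1) (nat_lit 188) (nat_lit 1) (nat_lit 368) (nat_lit 360) (nat_lit 292)) (XT.lf (nat_lit 152) (nat_lit 1512586334) (nat_lit 0) (nat_lit 650502833) (nat_lit 76) (nat_lit 650502833) (nat_lit 187) (nat_lit 1) (nat_lit 185) (nat_lit 1) (nat_lit 186) (nat_lit 1) (nat_lit 369) (nat_lit 360) (nat_lit 291))))) (XT.nd (nat_lit 234) (nat_lit 228) (nat_lit 0) (XT.nd (nat_lit 78) (nat_lit 228) (nat_lit 0) (XT.lf (nat_lit 0) (nat_lit 312635217) (nat_lit 0) (nat_lit 2141713479) (nat_lit 152) (nat_lit 312635217) (nat_lit 185) (nat_lit 3)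 (nat_lit 185) (nat_lit 1) (nat_lit 187) (nat_lit 1) (nat_lit 370) (nat_lit 360) (nat_lit 290)) (XT.nd (nat_lit 78) (nat_lit 76) (nat_lit 0) (XT.lf (nat_lit 76) (nat_lit 1237278013) (nat_lit 0) (nat_lit 246195747) (nat_lit 152) (nat_lit 1237278013) (nat_lit 184) (nat_lit 1) (nat_lit 183) (nat_lit 1) (nat_lit 185) (nat_lit 1) (nat_lit 371) (nat_lit 360) (nat_lit 289)) (XT.lf (nat_lit 152) (nat_lit 1605253885) (nat_lit 0) (nat_lit 535170290) (nat_lit 76) (nat_lit 535170290) (nat_lit 184) (nat_lit 1) (nat_lit 182) (nat_lit 1) (nat_lit 183) (nat_lit 1) (nat_lit 372) (nat_lit 360) (nat_lit 288)))) (XT.nd (nat_lit 156) (nat_lit 76) (nat_lit 0) (XT.nd (nat_lit 78) (nat_lit 152) (nat_lit 0) (XT.lf (nat_lit 0) (nat_lit 375515723) (nat_lit 0) (nat_lit 1880302935) (nat_lit 152) (nat_lit 375515723) (nat_lit 182) (nat_lit 3) (nat_lit 182) (nat_lit 1) (nat_lit 184) (nat_lit 1) (nat_lit 373) (nat_lit 360) (nat_lit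 287)) (XT.lf (nat_lit 76) (nat_lit 1248897787) (nat_lit 0) (nat_lit 89869702) (nat_lit 152) (nat_lit 1248897787) (nat_lit 181) (nat_lit 1) (nat_lit 180) (nat_lit 1) (nat_lit 182) (nat_lit 1) (nat_lit 374) (nat_lit 360) (nat_lit 286))) (XT.nd (nat_lit 78) (nat_lit 0) (nat_lit 0) (XT.lf (nat_lit 152) (nat_lit 1664308596) (nat_lit 0) (nat_lit 440285922) (nat_lit 76) (nat_lit 440285922) (nat_lit 181) (nat_lit 1) (nat_lit 179) (nat_lit 1) (nat_lit 180) (nat_lit 1) (nat_lit 375) (nat_lit 360) (nat_lit 285)) (XT.lf (nat_lit 0) (nat_lit 421613862) (nat_lit 0) (nat_lit 1659606026) (nat_lit 152) (nat_lit 421613862) (nat_lit 179) (nat_lit 3) (nat_lit 179) (nat_lit 1) (nat_lit 181) (nat_lit 1) (nat_lit 376) (nat_lit 360) (nat_lit 284))))))))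
noncomputable def ec108 : XT := (XT.nd (nat_lit 1950) (nat_lit 1976) (nat_lit 0) (XT.nd (nat_lit 936) (nat_lit 988) (nat_lit 0) (XT.nd (nat_lit 468) (nat_lit 456) (nat_lit 0) (XT.nd (nat_lit 234) (nat_lit 228) (nat_lit 0) (XT.nd (nat_lit 78) (nat_lit 152) (nat_lit 0) (XT.lf (nat_lit 76) (nat_lit 34478105) (nat_lit 0) (nat_lit 1213518260) (nat_lit 76) (nat_lit 1213518260) (nat_lit 179) (nat_lit 3) (nat_lit 178) (nat_lit 1) (nat_lit 179) (nat_lit 1) (nat_lit 377) (nat_lit 360) (nat_lit 283)) (XT.nd (nat_lit 78) (nat_lit 0) (nat_lit 0) (XT.lf (nat_lit 152) (nat_lit 1696528183) (nat_lit 0) (nat_lit 362224318) (nat_lit 76) (nat_lit 362224318) (nat_lit 178) (nat_lit 1) (nat_lit 176) (nat_lit 1) (nat_lit 177) (nat_lit 1) (nat_lit 378) (nat_lit 360) (nat_lit 282)) (XT.lf (nat_lit 0) (nat_lit 454173385) (nat_lit 0) (nat_lit 1472672602) (nat_lit 152) (nat_lit 454173385) (nat_lit 176) (nat_lit 3) (nat_lit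 176) (nat_lit 1) (nat_lit 178) (nat_lit 1) (nat_lit 379) (nat_lit 360) (nat_lit 281)))) (XT.nd (nat_lit 78) (nat_lit 152) (nat_lit 0) (XT.lf (nat_lit 76) (nat_lit 133945023) (nat_lit 0) (nat_lit 1103944277) (nat_lit 76) (nat_lit 1103944277) (nat_lit 176) (nat_lit 3) (nat_lit 175) (nat_lit 1) (nat_lit 176) (nat_lit 1) (nat_lit 380) (nat_lit 360) (nat_lit 280)) (XT.nd (nat_lit 78) (nat_lit 0) (nat_lit 0) (XT.lf (nat_lit 152) (nat_lit 1707449728) (nat_lit 0) (nat_lit 298002843) (nat_lit 76) (nat_lit 298002843) (nat_lit 175) (nat_lit 1) (nat_lit 173) (nat_lit 1) (nat_lit 174) (nat_lit 1) (nat_lit 381) (nat_lit 360) (nat_lit 279)) (XT.lf (nat_lit 0) (nat_lit 475850156) (nat_lit 0) (nat_lit 1313771982) (nat_lit 152) (nat_lit 475850156) (nat_lit 173) (nat_lit 3) (nat_lit 173) (nat_lit 1) (nat_lit 175) (nat_lit 1) (nat_lit 382) (nat_lit 360) (nat_lit 278))))) (XT.nd (nat_lit 234) (nat_lit 228) (nat_lit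 0) (XT.nd (nat_lit 78) (nat_lit 152) (nat_lit 0) (XT.lf (nat_lit 76) (nat_lit 210749093) (nat_lit 0) (nat_lit 1008769880) (nat_lit 76) (nat_lit 1008769880) (nat_lit 173) (nat_lit 3) (nat_lit 172) (nat_lit 1) (nat_lit 173) (nat_lit 1) (nat_lit 383) (nat_lit 360) (nat_lit 277)) (XT.nd (nat_lit 78) (nat_lit 0) (nat_lit 0) (XT.lf (nat_lit 152) (nat_lit 1701591491) (nat_lit 0) (nat_lit 245167676) (nat_lit 76) (nat_lit 245167676) (nat_lit 172) (nat_lit 1) (nat_lit 170) (nat_lit 1) (nat_lit 171) (nat_lit 1) (nat_lit 384) (nat_lit 360) (nat_lit 276)) (XT.lf (nat_lit 0) (nat_lit 488816994) (nat_lit 0) (nat_lit 1178177354) (nat_lit 152) (nat_lit 488816994) (nat_lit 170) (nat_lit 3) (nat_lit 170) (nat_lit 1) (nat_lit 172) (nat_lit 1) (nat_lit 385) (nat_lit 360) (nat_lit 275)))) (XT.nd (nat_lit 78) (nat_lit 152) (nat_lit 0) (XT.lf (nat_lit 76) (nat_lit 269147792) (nat_lit 0) (nat_lit 925681468) (nat_lit 76)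 (nat_lit 925681468) (nat_lit 170) (nat_lit 3) (nat_lit 169) (nat_lit 1) (nat_lit 170) (nat_lit 1) (nat_lit 386) (nat_lit 360) (nat_lit 274)) (XT.nd (nat_lit 78) (nat_lit 0) (nat_lit 0) (XT.lf (nat_lit 152) (nat_lit 1682635316) (nat_lit 0) (nat_lit 201700054) (nat_lit 76) (nat_lit 201700054) (nat_lit 169) (nat_lit 1) (nat_lit 167) (nat_lit 1) (nat_lit 168) (nat_lit 1) (nat_lit 387) (nat_lit 360) (nat_lit 273)) (XT.lf (nat_lit 0) (nat_lit 494849897) (nat_lit 0) (nat_lit 1061988371) (nat_lit 152) (nat_lit 494849897) (nat_lit 167) (nat_lit 3) (nat_lit 167) (nat_lit 1) (nat_lit 169) (nat_lit 1) (nat_lit 388) (nat_lit 360) (nat_lit 272)))))) (XT.nd (nat_lit 468) (nat_lit 532) (nat_lit 0) (XT.nd (nat_lit 234) (nat_lit 228) (nat_lit 0) (XT.nd (nat_lit 78) (nat_lit 152) (nat_lit 0) (XT.lf (nat_lit 76) (nat_lit 312632356) (nat_lit 0) (nat_lit 852764236) (nat_lit 76) (nat_lit 852764236) (nat_lit 167) (nat_lit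 3) (nat_lit 166) (nat_lit 1) (nat_lit 167) (nat_lit 1) (nat_lit 389) (nat_lit 360) (nat_lit 271)) (XT.nd (nat_lit 78) (nat_lit 0) (nat_lit 0) (XT.lf (nat_lit 152) (nat_lit 1653576605) (nat_lit 0) (nat_lit 165939133) (nat_lit 76) (nat_lit 165939133) (nat_lit 166) (nat_lit 1) (nat_lit 164) (nat_lit 1) (nat_lit 165) (nat_lit 1) (nat_lit 390) (nat_lit 360) (nat_lit 270)) (XT.lf (nat_lit 0) (nat_lit 495398945) (nat_lit 0) (nat_lit 961985171) (nat_lit 152) (nat_lit 495398945) (nat_lit 164) (nat_lit 3) (nat_lit 164) (nat_lit 1) (nat_lit 166) (nat_lit 1) (nat_lit 391) (nat_lit 360) (nat_lit 269)))) (XT.nd (nat_lit 78) (nat_lit 152) (nat_lit 0) (XT.lf (nat_lit 76) (nat_lit 344064177) (nat_lit 0) (nat_lit 788432011) (nat_lit 76) (nat_lit 788432011) (nat_lit 164) (nat_lit 3) (nat_lit 163) (nat_lit 1) (nat_lit 164) (nat_lit 1) (nat_lit 392) (nat_lit 360) (nat_lit 268)) (XT.nd (nat_lit 78) (nat_lit 0) (nat_lit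 0) (XT.lf (nat_lit 152) (nat_lit 1616847629) (nat_lit 0) (nat_lit 136518535) (nat_lit 76) (nat_lit 136518535) (nat_lit 163) (nat_lit 1) (nat_lit 161) (nat_lit 1) (nat_lit 162) (nat_lit 1) (nat_lit 393) (nat_lit 360) (nat_lit 267)) (XT.lf (nat_lit 0) (nat_lit 491646615) (nat_lit 0) (nat_lit 875508258) (nat_lit 152) (nat_lit 491646615) (nat_lit 161) (nat_lit 3) (nat_lit 161) (nat_lit 1) (nat_lit 163) (nat_lit 1) (nat_lit 394) (nat_lit 360) (nat_lit 266))))) (XT.nd (nat_lit 234) (nat_lit 304) (nat_lit 0) (XT.nd (nat_lit 78) (nat_lit 152) (nat_lit 0) (XT.lf (nat_lit 76) (nat_lit 365786986) (nat_lit 0) (nat_lit 731369503) (nat_lit 76) (nat_lit 731369503) (nat_lit 161) (nat_lit 3) (nat_lit 160) (nat_lit 1) (nat_lit 161) (nat_lit 1) (nat_lit 395) (nat_lit 360) (nat_lit 265)) (XT.nd (nat_lit 78) (nat_lit 0) (nat_lit 0) (XT.lf (nat_lit 152) (nat_lit 1574418892) (nat_lit 0) (nat_lit 112314137) (nat_lit 76)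 (nat_lit 112314137) (nat_lit 160) (nat_lit 1) (nat_lit 158) (nat_lit 1) (nat_lit 159) (nat_lit 1) (nat_lit 396) (nat_lit 360) (nat_lit 264)) (XT.lf (nat_lit 0) (nat_lit 484555721) (nat_lit 0) (nat_lit 800359645) (nat_lit 152) (nat_lit 484555721) (nat_lit 158) (nat_lit 3) (nat_lit 158) (nat_lit 1) (nat_lit 160) (nat_lit 1) (nat_lit 397) (nat_lit 360) (nat_lit 263)))) (XT.nd (nat_lit 156) (nat_lit 76) (nat_lit 0) (XT.nd (nat_lit 78) (nat_lit 152) (nat_lit 0) (XT.lf (nat_lit 76) (nat_lit 379719132) (nat_lit 0) (nat_lit 680484773) (nat_lit 76) (nat_lit 680484773) (nat_lit 158) (nat_lit 3) (nat_lit 157) (nat_lit 1) (nat_lit 158) (nat_lit 1) (nat_lit 398) (nat_lit 360) (nat_lit 262)) (XT.lf (nat_lit 152) (nat_lit 1527882458) (nat_lit 0) (nat_lit 92401118) (nat_lit 76) (nat_lit 92401118) (nat_lit 157) (nat_lit 1) (nat_lit 155) (nat_lit 1) (nat_lit 156) (nat_lit 1) (nat_lit 399) (nat_lit 360) (nat_lit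 261))) (XT.nd (nat_lit 78) (nat_lit 76) (nat_lit 0) (XT.lf (nat_lit 0) (nat_lit 474908843) (nat_lit 0) (nat_lit 734721513) (nat_lit 152) (nat_lit 474908843) (nat_lit 155) (nat_lit 3) (nat_lit 155) (nat_lit 1) (nat_lit 157) (nat_lit 1) (nat_lit 400) (nat_lit 360) (nat_lit 260)) (XT.lf (nat_lit 76) (nat_lit 387429463) (nat_lit 0) (nat_lit 634870100) (nat_lit 76) (nat_lit 634870100) (nat_lit 155) (nat_lit 3) (nat_lit 154) (nat_lit 1) (nat_lit 155) (nat_lit 1) (nat_lit 401) (nat_lit 360) (nat_lit 259))))))) (XT.nd (nat_lit 936) (nat_lit 1064) (nat_lit 0) (XT.nd (nat_lit 468) (nat_lit 456) (nat_lit 0) (XT.nd (nat_lit 234) (nat_lit 228) (nat_lit 0) (XT.nd (nat_lit 78) (nat_lit 76) (nat_lit 0) (XT.lf (nat_lit 152) (nat_lit 1478520431) (nat_lit 0) (nat_lit 76018629) (nat_lit 76) (nat_lit 76018629) (nat_lit 154) (nat_lit 1) (nat_lit 152) (nat_lit 1) (nat_lit 153) (nat_lit 1) (nat_lit 402) (nat_lit 360)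 (nat_lit 258)) (XT.nd (nat_lit 78) (nat_lit 76) (nat_lit 0) (XT.lf (nat_lit 0) (nat_lit 463340730) (nat_lit 0) (nat_lit 677089257) (nat_lit 152) (nat_lit 463340730) (nat_lit 152) (nat_lit 3) (nat_lit 152) (nat_lit 1) (nat_lit 154) (nat_lit 1) (nat_lit 403) (nat_lit 360) (nat_lit 257)) (XT.lf (nat_lit 76) (nat_lit 390199743) (nat_lit 0) (nat_lit 593769768) (nat_lit 76) (nat_lit 593769768) (nat_lit 152) (nat_lit 3) (nat_lit 151) (nat_lit 1) (nat_lit 152) (nat_lit 1) (nat_lit 404) (nat_lit 360) (nat_lit 256)))) (XT.nd (nat_lit 78) (nat_lit 76) (nat_lit 0) (XT.lf (nat_lit 152) (nat_lit 1427361229) (nat_lit 0) (nat_lit 62540714) (nat_lit 76) (nat_lit 62540714) (nat_lit 151) (nat_lit 1) (nat_lit 149) (nat_lit 1) (nat_lit 150) (nat_lit 1) (nat_lit 405) (nat_lit 360) (nat_lit 255)) (XT.nd (nat_lit 78) (nat_lit 76) (nat_lit 0) (XT.lf (nat_lit 0) (nat_lit 450364946) (nat_lit 0) (nat_lit 626216388) (nat_lit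 152) (nat_lit 450364946) (nat_lit 149) (nat_lit 3) (nat_lit 149) (nat_lit 1) (nat_lit 151) (nat_lit 1) (nat_lit 406) (nat_lit 360) (nat_lit 254)) (XT.lf (nat_lit 76) (nat_lit 389075975) (nat_lit 0) (nat_lit 556553538) (nat_lit 76) (nat_lit 556553538) (nat_lit 149) (nat_lit 3) (nat_lit 148) (nat_lit 1) (nat_lit 149) (nat_lit 1) (nat_lit 407) (nat_lit 360) (nat_lit 253))))) (XT.nd (nat_lit 234) (nat_lit 228) (nat_lit 0) (XT.nd (nat_lit 78) (nat_lit 76) (nat_lit 0) (XT.lf (nat_lit 152) (nat_lit 1375225817) (nat_lit 0) (nat_lit 51452400) (nat_lit 76) (nat_lit 51452400) (nat_lit 148) (nat_lit 1) (nat_lit 146) (nat_lit 1) (nat_lit 147) (nat_lit 1) (nat_lit 408) (nat_lit 360) (nat_lit 252)) (XT.nd (nat_lit 78) (nat_lit 76) (nat_lit 0) (XT.lf (nat_lit 0) (nat_lit 436395766) (nat_lit 0) (nat_lit 581069182) (nat_lit 152) (nat_lit 436395766) (nat_lit 146) (nat_lit 3) (nat_lit 146) (nat_lit 1) (nat_lit 148)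 (nat_lit 1) (nat_lit 409) (nat_lit 360) (nat_lit 251)) (XT.lf (nat_lit 76) (nat_lit 384910606) (nat_lit 0) (nat_lit 522694812) (nat_lit 76) (nat_lit 522694812) (nat_lit 146) (nat_lit 3) (nat_lit 145) (nat_lit 1) (nat_lit 146) (nat_lit 1) (nat_lit 410) (nat_lit 360) (nat_lit 250)))) (XT.nd (nat_lit 78) (nat_lit 76) (nat_lit 0) (XT.lf (nat_lit 152) (nat_lit 1322765684) (nat_lit 0) (nat_lit 42330017) (nat_lit 76) (nat_lit 42330017) (nat_lit 145) (nat_lit 1) (nat_lit 143) (nat_lit 1) (nat_lit 144) (nat_lit 1) (nat_lit 411) (nat_lit 360) (nat_lit 249)) (XT.nd (nat_lit 78) (nat_lit 76) (nat_lit 0) (XT.lf (nat_lit 0) (nat_lit 421766172) (nat_lit 0) (nat_lit 540789349) (nat_lit 152) (nat_lit 421766172) (nat_lit 143) (nat_lit 3) (nat_lit 143) (nat_lit 1) (nat_lit 145) (nat_lit 1) (nat_lit 412) (nat_lit 360) (nat_lit 248)) (XT.lf (nat_lit 76) (nat_lit 378397231) (nat_lit 0) (nat_lit 491752639) (nat_lit 76)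 (nat_lit 491752639) (nat_lit 143) (nat_lit 3) (nat_lit 142) (nat_lit 1) (nat_lit 143) (nat_lit 1) (nat_lit 413) (nat_lit 360) (nat_lit 247)))))) (XT.nd (nat_lit 468) (nat_lit 608) (nat_lit 0) (XT.nd (nat_lit 234) (nat_lit 228) (nat_lit 0) (XT.nd (nat_lit 78) (nat_lit 76) (nat_lit 0) (XT.lf (nat_lit 152) (nat_lit 1270494031) (nat_lit 0) (nat_lit 34825009) (nat_lit 76) (nat_lit 34825009) (nat_lit 142) (nat_lit 1) (nat_lit 140) (nat_lit 1) (nat_lit 141) (nat_lit 1) (nat_lit 414) (nat_lit 360) (nat_lit 246)) (XT.nd (nat_lit 78) (nat_lit 76) (nat_lit 0) (XT.lf (nat_lit 0) (nat_lit 406742640) (nat_lit 0) (nat_lit 504663303) (nat_lit 152) (nat_lit 406742640) (nat_lit 140) (nat_lit 3) (nat_lit 140) (nat_lit 1) (nat_lit 142) (nat_lit 1) (nat_lit 415) (nat_lit 360) (nat_lit 245)) (XT.lf (nat_lit 76) (nat_lit 370099122) (nat_lit 0) (nat_lit 463356896) (nat_lit 76) (nat_lit 463356896) (nat_lit 140) (nat_lit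 3) (nat_lit 139) (nat_lit 1) (nat_lit 140) (nat_lit 1) (nat_lit 416) (nat_lit 360) (nat_lit 244)))) (XT.nd (nat_lit 78) (nat_lit 76) (nat_lit 0) (XT.lf (nat_lit 152) (nat_lit 1218811374) (nat_lit 0) (nat_lit 28650621) (nat_lit 76) (nat_lit 28650621) (nat_lit 139) (nat_lit 1) (nat_lit 137) (nat_lit 1) (nat_lit 138) (nat_lit 1) (nat_lit 417) (nat_lit 360) (nat_lit 243)) (XT.nd (nat_lit 78) (nat_lit 76) (nat_lit 0) (XT.lf (nat_lit 0) (nat_lit 391537288) (nat_lit 0) (nat_lit 472096860) (nat_lit 152) (nat_lit 391537288) (nat_lit 137) (nat_lit 3) (nat_lit 137) (nat_lit 1) (nat_lit 139) (nat_lit 1) (nat_lit 418) (nat_lit 360) (nat_lit 242)) (XT.lf (nat_lit 76) (nat_lit 360472686) (nat_lit 0) (nat_lit 437196088) (nat_lit 76) (nat_lit 437196088) (nat_lit 137) (nat_lit 3) (nat_lit 136) (nat_lit 1) (nat_lit 137) (nat_lit 1) (nat_lit 419) (nat_lit 360) (nat_lit 241))))) (XT.nd (nat_lit 234) (nat_lit 380) (nat_lit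 0) (XT.nd (nat_lit 78) (nat_lit 76) (nat_lit 0) (XT.lf (nat_lit 152) (nat_lit 1168026553) (nat_lit 0) (nat_lit 23570937) (nat_lit 76) (nat_lit 23570937) (nat_lit 136) (nat_lit 1) (nat_lit 134) (nat_lit 1) (nat_lit 135) (nat_lit 1) (nat_lit 420) (nat_lit 360) (nat_lit 240)) (XT.nd (nat_lit 78) (nat_lit 76) (nat_lit 0) (XT.lf (nat_lit 0) (nat_lit 376317850) (nat_lit 0) (nat_lit 442594409) (nat_lit 152) (nat_lit 376317850) (nat_lit 134) (nat_lit 3) (nat_lit 134) (nat_lit 1) (nat_lit 136) (nat_lit 1) (nat_lit 421) (nat_lit 360) (nat_lit 239)) (XT.lf (nat_lit 76) (nat_lit 349886745) (nat_lit 0) (nat_lit 413007277) (nat_lit 76) (nat_lit 413007277) (nat_lit 134) (nat_lit 3) (nat_lit 133) (nat_lit 1) (nat_lit 134) (nat_lit 1) (nat_lit 422) (nat_lit 360) (nat_lit 238)))) (XT.nd (nat_lit 156) (nat_lit 228) (nat_lit 0) (XT.nd (nat_lit 78) (nat_lit 0) (nat_lit 0) (XT.lf (nat_lit 152) (nat_lit 1118373973) (nat_lit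 0) (nat_lit 19391868) (nat_lit 76) (nat_lit 19391868) (nat_lit 133) (nat_lit 1) (nat_lit 131) (nat_lit 1) (nat_lit 132) (nat_lit 1) (nat_lit 423) (nat_lit 360) (nat_lit 237)) (XT.lf (nat_lit 0) (nat_lit 361215868) (nat_lit 0) (nat_lit 415741757) (nat_lit 152) (nat_lit 361215868) (nat_lit 131) (nat_lit 3) (nat_lit 131) (nat_lit 1) (nat_lit 133) (nat_lit 1) (nat_lit 424) (nat_lit 360) (nat_lit 236))) (XT.nd (nat_lit 78) (nat_lit 152) (nat_lit 0) (XT.lf (nat_lit 76) (nat_lit 338638380) (nat_lit 0) (nat_lit 390567799) (nat_lit 76) (nat_lit 390567799) (nat_lit 131) (nat_lit 3) (nat_lit 130) (nat_lit 1) (nat_lit 131) (nat_lit 1) (nat_lit 425) (nat_lit 360) (nat_lit 235)) (XT.lf (nat_lit 152) (nat_lit 1070027737) (nat_lit 0) (nat_lit 15953738) (nat_lit 76) (nat_lit 15953738) (nat_lit 130) (nat_lit 1) (nat_lit 128) (nat_lit 1) (nat_lit 129) (nat_lit 1) (nat_lit 426) (nat_lit 360) (nat_lit 234))))))))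
noncomputable def ec109 : XT := (XT.nd (nat_lit 43212) (nat_lit 0) (nat_lit 10564) (XT.nd (nat_lit 936) (nat_lit 760) (nat_lit 0) (XT.nd (nat_lit 468) (nat_lit 456) (nat_lit 0) (XT.nd (nat_lit 234) (nat_lit 228) (nat_lit 0) (XT.nd (nat_lit 78) (nat_lit 228) (nat_lit 0) (XT.lf (nat_lit 0) (nat_lit 346333419) (nat_lit 0) (nat_lit 391192003) (nat_lit 152) (nat_lit 346333419) (nat_lit 128) (nat_lit 3) (nat_lit 128) (nat_lit 1) (nat_lit 130) (nat_lit 1) (nat_lit 427) (nat_lit 360) (nat_lit 233)) (XT.nd (nat_lit 78) (nat_lit 152) (nat_lit 0) (XT.lf (nat_lit 76) (nat_lit 326965957) (nat_lit 0) (nat_lit 369688418) (nat_lit 76) (nat_lit 369688418) (nat_lit 128) (nat_lit 3) (nat_lit 127) (nat_lit 1) (nat_lit 128) (nat_lit 1) (nat_lit 428) (nat_lit 360) (nat_lit 232)) (XT.lf (nat_lit 152) (nat_lit 1023113231) (nat_lit 0) (nat_lit 13125179) (nat_lit 76) (nat_lit 13125179) (nat_lit 127) (nat_lit 1) (nat_lit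 125) (nat_lit 1) (nat_lit 126) (nat_lit 1) (nat_lit 429) (nat_lit 360) (nat_lit 231)))) (XT.nd (nat_lit 78) (nat_lit 228) (nat_lit 0) (XT.lf (nat_lit 0) (nat_lit 331748627) (nat_lit 0) (nat_lit 368653895) (nat_lit 152) (nat_lit 331748627) (nat_lit 125) (nat_lit 3) (nat_lit 125) (nat_lit 1) (nat_lit 127) (nat_lit 1) (nat_lit 430) (nat_lit 360) (nat_lit 230)) (XT.nd (nat_lit 78) (nat_lit 152) (nat_lit 0) (XT.lf (nat_lit 76) (nat_lit 315059819) (nat_lit 0) (nat_lit 350207693) (nat_lit 76) (nat_lit 350207693) (nat_lit 125) (nat_lit 3) (nat_lit 124) (nat_lit 1) (nat_lit 125) (nat_lit 1) (nat_lit 431) (nat_lit 360) (nat_lit 229)) (XT.lf (nat_lit 152) (nat_lit 977716610) (nat_lit 0) (nat_lit 10798118) (nat_lit 76) (nat_lit 10798118) (nat_lit 124) (nat_lit 1) (nat_lit 122) (nat_lit 1) (nat_lit 123) (nat_lit 1) (nat_lit 432) (nat_lit 360) (nat_lit 228))))) (XT.nd (nat_lit 234) (nat_lit 228) (nat_lit 0)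 (XT.nd (nat_lit 78) (nat_lit 228) (nat_lit 0) (XT.lf (nat_lit 0) (nat_lit 317520195) (nat_lit 0) (nat_lit 347882250) (nat_lit 152) (nat_lit 317520195) (nat_lit 122) (nat_lit 3) (nat_lit 122) (nat_lit 1) (nat_lit 124) (nat_lit 1) (nat_lit 433) (nat_lit 360) (nat_lit 227)) (XT.nd (nat_lit 78) (nat_lit 152) (nat_lit 0) (XT.lf (nat_lit 76) (nat_lit 303071081) (nat_lit 0) (nat_lit 331987324) (nat_lit 76) (nat_lit 331987324) (nat_lit 122) (nat_lit 3) (nat_lit 121) (nat_lit 1) (nat_lit 122) (nat_lit 1) (nat_lit 434) (nat_lit 360) (nat_lit 226)) (XT.lf (nat_lit 152) (nat_lit 933892563) (nat_lit 0) (nat_lit 8883638) (nat_lit 76) (nat_lit 8883638) (nat_lit 121) (nat_lit 1) (nat_lit 119) (nat_lit 1) (nat_lit 120) (nat_lit 1) (nat_lit 435) (nat_lit 360) (nat_lit 225)))) (XT.nd (nat_lit 78) (nat_lit 228) (nat_lit 0) (XT.lf (nat_lit 0) (nat_lit 303691105) (nat_lit 0) (nat_lit 328670043) (nat_lit 152) (nat_lit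 303691105) (nat_lit 119) (nat_lit 3) (nat_lit 119) (nat_lit 1) (nat_lit 121) (nat_lit 1) (nat_lit 436) (nat_lit 360) (nat_lit 224)) (XT.nd (nat_lit 78) (nat_lit 152) (nat_lit 0) (XT.lf (nat_lit 76) (nat_lit 291118841) (nat_lit 0) (nat_lit 314908305) (nat_lit 76) (nat_lit 314908305) (nat_lit 119) (nat_lit 3) (nat_lit 118) (nat_lit 1) (nat_lit 119) (nat_lit 1) (nat_lit 437) (nat_lit 360) (nat_lit 223)) (XT.lf (nat_lit 152) (nat_lit 891670664) (nat_lit 0) (nat_lit 7308591) (nat_lit 76) (nat_lit 7308591) (nat_lit 118) (nat_lit 1) (nat_lit 116) (nat_lit 1) (nat_lit 117) (nat_lit 1) (nat_lit 438) (nat_lit 360) (nat_lit 222)))))) (XT.nd (nat_lit 468) (nat_lit 304) (nat_lit 0) (XT.nd (nat_lit 234) (nat_lit 228) (nat_lit 0) (XT.nd (nat_lit 78) (nat_lit 228) (nat_lit 0) (XT.lf (nat_lit 0) (nat_lit 290291667) (nat_lit 0) (nat_lit 310841901) (nat_lit 152) (nat_lit 290291667) (nat_lit 116) (nat_lit 3) (nat_lit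 116) (nat_lit 1) (nat_lit 118) (nat_lit 1) (nat_lit 439) (nat_lit 360) (nat_lit 221)) (XT.nd (nat_lit 78) (nat_lit 152) (nat_lit 0) (XT.lf (nat_lit 76) (nat_lit 279296107) (nat_lit 0) (nat_lit 298867759) (nat_lit 76) (nat_lit 298867759) (nat_lit 116) (nat_lit 3) (nat_lit 115) (nat_lit 1) (nat_lit 116) (nat_lit 1) (nat_lit 440) (nat_lit 360) (nat_lit 220)) (XT.lf (nat_lit 152) (nat_lit 851060559) (nat_lit 0) (nat_lit 6012796) (nat_lit 76) (nat_lit 6012796) (nat_lit 115) (nat_lit 1) (nat_lit 113) (nat_lit 1) (nat_lit 114) (nat_lit 1) (nat_lit 441) (nat_lit 360) (nat_lit 219)))) (XT.nd (nat_lit 78) (nat_lit 228) (nat_lit 0) (XT.lf (nat_lit 0) (nat_lit 277341999) (nat_lit 0) (nat_lit 294248728) (nat_lit 152) (nat_lit 277341999) (nat_lit 113) (nat_lit 3) (nat_lit 113) (nat_lit 1) (nat_lit 115) (nat_lit 1) (nat_lit 442) (nat_lit 360) (nat_lit 218)) (XT.nd (nat_lit 78) (nat_lit 152) (nat_lit 0) (XT.lf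 (nat_lit 76) (nat_lit 267674662) (nat_lit 0) (nat_lit 283776308) (nat_lit 76) (nat_lit 283776308) (nat_lit 113) (nat_lit 3) (nat_lit 112) (nat_lit 1) (nat_lit 113) (nat_lit 1) (nat_lit 443) (nat_lit 360) (nat_lit 217)) (XT.lf (nat_lit 152) (nat_lit 812056196) (nat_lit 0) (nat_lit 4946742) (nat_lit 76) (nat_lit 4946742) (nat_lit 112) (nat_lit 1) (nat_lit 110) (nat_lit 1) (nat_lit 111) (nat_lit 1) (nat_lit 444) (nat_lit 360) (nat_lit 216))))) (XT.nd (nat_lit 234) (nat_lit 76) (nat_lit 0) (XT.nd (nat_lit 78) (nat_lit 228) (nat_lit 0) (XT.lf (nat_lit 0) (nat_lit 264854070) (nat_lit 0) (nat_lit 278763277) (nat_lit 152) (nat_lit 264854070) (nat_lit 110) (nat_lit 3) (nat_lit 110) (nat_lit 1) (nat_lit 112) (nat_lit 1) (nat_lit 445) (nat_lit 360) (nat_lit 215)) (XT.nd (nat_lit 78) (nat_lit 152) (nat_lit 0) (XT.lf (nat_lit 76) (nat_lit 256309048) (nat_lit 0) (nat_lit 269555912) (nat_lit 76) (nat_lit 269555912)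 (nat_lit 110) (nat_lit 3) (nat_lit 109) (nat_lit 1) (nat_lit 110) (nat_lit 1) (nat_lit 446) (nat_lit 360) (nat_lit 214)) (XT.lf (nat_lit 152) (nat_lit 774639278) (nat_lit 0) (nat_lit 4069697) (nat_lit 76) (nat_lit 4069697) (nat_lit 109) (nat_lit 1) (nat_lit 107) (nat_lit 1) (nat_lit 108) (nat_lit 1) (nat_lit 447) (nat_lit 360) (nat_lit 213)))) (XT.nd (nat_lit 41418) (nat_lit 0) (nat_lit 14136) (XT.nd (nat_lit 78) (nat_lit 76) (nat_lit 0) (XT.lf (nat_lit 0) (nat_lit 252833356) (nat_lit 0) (nat_lit 264276496) (nat_lit 152) (nat_lit 252833356) (nat_lit 107) (nat_lit 3) (nat_lit 107) (nat_lit 1) (nat_lit 109) (nat_lit 1) (nat_lit 448) (nat_lit 360) (nat_lit 212)) (XT.lf (nat_lit 76) (nat_lit 245239842) (nat_lit 0) (nat_lit 256138070) (nat_lit 76) (nat_lit 256138070) (nat_lit 107) (nat_lit 3) (nat_lit 106) (nat_lit 1) (nat_lit 107) (nat_lit 1) (nat_lit 449) (nat_lit 360) (nat_lit 211))) (XT.nd (nat_lit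 78) (nat_lit 0) (nat_lit 0) (XT.lf (nat_lit 836) (nat_lit 1497010889) (nat_lit 0) (nat_lit 2657939393) (nat_lit 836) (nat_lit 1497010889) (nat_lit 303) (nat_lit 1) (nat_lit 292) (nat_lit 0) (nat_lit 303) (nat_lit 0) (nat_lit 298) (nat_lit 361) (nat_lit 361)) (XT.lf (nat_lit 836) (nat_lit 5802601101) (nat_lit 76) (nat_lit 2615069402) (nat_lit 0) (nat_lit 2615069402) (nat_lit 303) (nat_lit 1) (nat_lit 293) (nat_lit 1) (nat_lit 292) (nat_lit 0) (nat_lit 299) (nat_lit 361) (nat_lit 360))))))) (XT.nd (nat_lit 1014) (nat_lit 2280) (nat_lit 0) (XT.nd (nat_lit 468) (nat_lit 1368) (nat_lit 0) (XT.nd (nat_lit 234) (nat_lit 0) (nat_lit 76) (XT.nd (nat_lit 78) (nat_lit 0) (nat_lit 0) (XT.lf (nat_lit 836) (nat_lit 2765432315) (nat_lit 0) (nat_lit 5239076546) (nat_lit 760) (nat_lit 2765432315) (nat_lit 304) (nat_lit 1) (nat_lit 293) (nat_lit 1) (nat_lit 303) (nat_lit 1) (nat_lit 300) (nat_lit 361) (nat_lit 359))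 (XT.nd (nat_lit 78) (nat_lit 0) (nat_lit 76) (XT.lf (nat_lit 836) (nat_lit 5187566756) (nat_lit 76) (nat_lit 2664033023) (nat_lit 0) (nat_lit 2664033023) (nat_lit 304) (nat_lit 1) (nat_lit 294) (nat_lit 1) (nat_lit 293) (nat_lit 1) (nat_lit 301) (nat_lit 361) (nat_lit 358)) (XT.lf (nat_lit 836) (nat_lit 2387787161) (nat_lit 0) (nat_lit 5493810407) (nat_lit 760) (nat_lit 2387787161) (nat_lit 305) (nat_lit 1) (nat_lit 294) (nat_lit 1) (nat_lit 304) (nat_lit 1) (nat_lit 302) (nat_lit 361) (nat_lit 357)))) (XT.nd (nat_lit 78) (nat_lit 0) (nat_lit 76) (XT.lf (nat_lit 836) (nat_lit 4294590731) (nat_lit 76) (nat_lit 2868026253) (nat_lit 0) (nat_lit 2868026253) (nat_lit 305) (nat_lit 1) (nat_lit 295) (nat_lit 1) (nat_lit 294) (nat_lit 1) (nat_lit 303) (nat_lit 361) (nat_lit 356)) (XT.nd (nat_lit 78) (nat_lit 0) (nat_lit 0) (XT.lf (nat_lit 836) (nat_lit 1883053996) (nat_lit 0) (nat_lit 6033809867) (nat_lit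 760) (nat_lit 1883053996) (nat_lit 306) (nat_lit 1) (nat_lit 295) (nat_lit 1) (nat_lit 305) (nat_lit 1) (nat_lit 304) (nat_lit 361) (nat_lit 355)) (XT.lf (nat_lit 836) (nat_lit 3165471586) (nat_lit 76) (nat_lit 3205036777) (nat_lit 0) (nat_lit 3205036777) (nat_lit 306) (nat_lit 1) (nat_lit 296) (nat_lit 1) (nat_lit 295) (nat_lit 1) (nat_lit 305) (nat_lit 361) (nat_lit 354))))) (XT.nd (nat_lit 234) (nat_lit 1596) (nat_lit 0) (XT.nd (nat_lit 78) (nat_lit 0) (nat_lit 0) (XT.lf (nat_lit 836) (nat_lit 1270771967) (nat_lit 0) (nat_lit 6817841808) (nat_lit 760) (nat_lit 1270771967) (nat_lit 307) (nat_lit 1) (nat_lit 296) (nat_lit 1) (nat_lit 306) (nat_lit 1) (nat_lit 306) (nat_lit 361) (nat_lit 353)) (XT.nd (nat_lit 78) (nat_lit 0) (nat_lit 76) (XT.lf (nat_lit 836) (nat_lit 1837361935) (nat_lit 76) (nat_lit 3655460639) (nat_lit 0) (nat_lit 3655460639) (nat_lit 307) (nat_lit 1) (nat_lit 297) (nat_lit 1)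 (nat_lit 296) (nat_lit 1) (nat_lit 307) (nat_lit 361) (nat_lit 352)) (XT.lf (nat_lit 76) (nat_lit 568295861) (nat_lit 0) (nat_lit 7809207143) (nat_lit 760) (nat_lit 568295861) (nat_lit 298) (nat_lit 1) (nat_lit 297) (nat_lit 1) (nat_lit 307) (nat_lit 1) (nat_lit 308) (nat_lit 361) (nat_lit 351)))) (XT.nd (nat_lit 156) (nat_lit 380) (nat_lit 0) (XT.nd (nat_lit 78) (nat_lit 532) (nat_lit 0) (XT.lf (nat_lit 836) (nat_lit 343236568) (nat_lit 0) (nat_lit 4201861104) (nat_lit 760) (nat_lit 4201861104) (nat_lit 298) (nat_lit 1) (nat_lit 287) (nat_lit 1) (nat_lit 297) (nat_lit 1) (nat_lit 309) (nat_lit 361) (nat_lit 350)) (XT.lf (nat_lit 532) (nat_lit 8145436026) (nat_lit 0) (nat_lit 205612601) (nat_lit 456) (nat_lit 205612601) (nat_lit 287) (nat_lit 1) (nat_lit 280) (nat_lit 1) (nat_lit 286) (nat_lit 1) (nat_lit 310) (nat_lit 361) (nat_lit 349))) (XT.nd (nat_lit 78) (nat_lit 380) (nat_lit 0) (XT.lf (nat_lit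 76) (nat_lit 3561170454) (nat_lit 0) (nat_lit 1246470721) (nat_lit 532) (nat_lit 3561170454) (nat_lit 281) (nat_lit 1) (nat_lit 280) (nat_lit 1) (nat_lit 287) (nat_lit 1) (nat_lit 311) (nat_lit 361) (nat_lit 348)) (XT.lf (nat_lit 456) (nat_lit 6127860238) (nat_lit 0) (nat_lit 1030544830) (nat_lit 380) (nat_lit 1030544830) (nat_lit 281) (nat_lit 1) (nat_lit 275) (nat_lit 1) (nat_lit 280) (nat_lit 1) (nat_lit 312) (nat_lit 361) (nat_lit 347)))))) (XT.nd (nat_lit 468) (nat_lit 1216) (nat_lit 0) (XT.nd (nat_lit 234) (nat_lit 684) (nat_lit 0) (XT.nd (nat_lit 78) (nat_lit 380) (nat_lit 0) (XT.lf (nat_lit 76) (nat_lit 2540139533) (nat_lit 0) (nat_lit 2932590292) (nat_lit 456) (nat_lit 2540139533) (nat_lit 276) (nat_lit 1) (nat_lit 275) (nat_lit 1) (nat_lit 281) (nat_lit 1) (nat_lit 313) (nat_lit 361) (nat_lit 346)) (XT.nd (nat_lit 78) (nat_lit 0) (nat_lit 0) (XT.lf (nat_lit 456) (nat_lit 4035282868) (nat_lit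 0) (nat_lit 1903819182) (nat_lit 380) (nat_lit 1903819182) (nat_lit 276) (nat_lit 1) (nat_lit 270) (nat_lit 1) (nat_lit 275) (nat_lit 1) (nat_lit 314) (nat_lit 361) (nat_lit 345)) (XT.lf (nat_lit 76) (nat_lit 1486948107) (nat_lit 0) (nat_lit 4704019555) (nat_lit 456) (nat_lit 1486948107) (nat_lit 271) (nat_lit 1) (nat_lit 270) (nat_lit 1) (nat_lit 276) (nat_lit 1) (nat_lit 315) (nat_lit 361) (nat_lit 344)))) (XT.nd (nat_lit 78) (nat_lit 380) (nat_lit 0) (XT.lf (nat_lit 380) (nat_lit 1887180501) (nat_lit 0) (nat_lit 2814987146) (nat_lit 304) (nat_lit 2814987146) (nat_lit 271) (nat_lit 1) (nat_lit 266) (nat_lit 1) (nat_lit 270) (nat_lit 1) (nat_lit 316) (nat_lit 361) (nat_lit 343)) (XT.nd (nat_lit 78) (nat_lit 380) (nat_lit 0) (XT.lf (nat_lit 76) (nat_lit 410637884) (nat_lit 0) (nat_lit 6541300123) (nat_lit 380) (nat_lit 410637884) (nat_lit 267) (nat_lit 1) (nat_lit 266) (nat_lit 1) (nat_lit 271)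 (nat_lit 1) (nat_lit 317) (nat_lit 361) (nat_lit 342)) (XT.lf (nat_lit 76) (nat_lit 3460152813) (nat_lit 0) (nat_lit 289794519) (nat_lit 380) (nat_lit 3460152813) (nat_lit 262) (nat_lit 1) (nat_lit 261) (nat_lit 1) (nat_lit 266) (nat_lit 1) (nat_lit 318) (nat_lit 361) (nat_lit 341))))) (XT.nd (nat_lit 234) (nat_lit 608) (nat_lit 0) (XT.nd (nat_lit 78) (nat_lit 304) (nat_lit 0) (XT.lf (nat_lit 380) (nat_lit 5723638425) (nat_lit 0) (nat_lit 669896312) (nat_lit 304) (nat_lit 669896312) (nat_lit 262) (nat_lit 1) (nat_lit 257) (nat_lit 1) (nat_lit 261) (nat_lit 1) (nat_lit 319) (nat_lit 361) (nat_lit 340)) (XT.nd (nat_lit 78) (nat_lit 304) (nat_lit 0) (XT.lf (nat_lit 76) (nat_lit 2245062619) (nat_lit 0) (nat_lit 2429152857) (nat_lit 380) (nat_lit 2245062619) (nat_lit 258) (nat_lit 1) (nat_lit 257) (nat_lit 1) (nat_lit 262) (nat_lit 1) (nat_lit 320) (nat_lit 361) (nat_lit 339)) (XT.lf (nat_lit 380) (nat_lit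 3276170889) (nat_lit 0) (nat_lit 1751976484) (nat_lit 304) (nat_lit 1751976484) (nat_lit 258) (nat_lit 1) (nat_lit 253) (nat_lit 1) (nat_lit 257) (nat_lit 1) (nat_lit 321) (nat_lit 361) (nat_lit 338)))) (XT.nd (nat_lit 156) (nat_lit 380) (nat_lit 0) (XT.nd (nat_lit 78) (nat_lit 228) (nat_lit 0) (XT.lf (nat_lit 76) (nat_lit 1033158085) (nat_lit 0) (nat_lit 4578722330) (nat_lit 380) (nat_lit 1033158085) (nat_lit 254) (nat_lit 1) (nat_lit 253) (nat_lit 1) (nat_lit 258) (nat_lit 1) (nat_lit 322) (nat_lit 361) (nat_lit 337)) (XT.lf (nat_lit 304) (nat_lit 840223221) (nat_lit 0) (nat_lit 2836322938) (nat_lit 228) (nat_lit 2836322938) (nat_lit 254) (nat_lit 1) (nat_lit 250) (nat_lit 1) (nat_lit 253) (nat_lit 1) (nat_lit 323) (nat_lit 361) (nat_lit 336))) (XT.nd (nat_lit 78) (nat_lit 0) (nat_lit 0) (XT.lf (nat_lit 380) (nat_lit 6050045920) (nat_lit 0) (nat_lit 167877165) (nat_lit 304) (nat_lit 167877165)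 (nat_lit 250) (nat_lit 1) (nat_lit 245) (nat_lit 1) (nat_lit 249) (nat_lit 1) (nat_lit 324) (nat_lit 361) (nat_lit 335)) (XT.lf (nat_lit 76) (nat_lit 2367427695) (nat_lit 0) (nat_lit 1524579324) (nat_lit 380) (nat_lit 2367427695) (nat_lit 246) (nat_lit 1) (nat_lit 245) (nat_lit 1) (nat_lit 250) (nat_lit 1) (nat_lit 325) (nat_lit 361) (nat_lit 334))))))))
noncomputable def ec110 : XT := (XT.nd (nat_lit 1950) (nat_lit 1976) (nat_lit 0) (XT.nd (nat_lit 936) (nat_lit 1520) (nat_lit 0) (XT.nd (nat_lit 468) (nat_lit 608) (nat_lit 0) (XT.nd (nat_lit 234) (nat_lit 532) (nat_lit 0) (XT.nd (nat_lit 78) (nat_lit 228) (nat_lit 0) (XT.lf (nat_lit 304) (nat_lit 3457702994) (nat_lit 0) (nat_lit 1340106320) (nat_lit 228) (nat_lit 1340106320) (nat_lit 246) (nat_lit 1) (nat_lit 242) (nat_lit 1) (nat_lit 245) (nat_lit 1) (nat_lit 326) (nat_lit 361) (nat_lit 333)) (XT.nd (nat_lit 78) (nat_lit 228) (nat_lit 0) (XT.lf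 (nat_lit 76) (nat_lit 1092341861) (nat_lit 0) (nat_lit 3834800233) (nat_lit 304) (nat_lit 1092341861) (nat_lit 243) (nat_lit 1) (nat_lit 242) (nat_lit 1) (nat_lit 246) (nat_lit 1) (nat_lit 327) (nat_lit 361) (nat_lit 332)) (XT.lf (nat_lit 304) (nat_lit 910432798) (nat_lit 0) (nat_lit 2496656882) (nat_lit 228) (nat_lit 2496656882) (nat_lit 243) (nat_lit 1) (nat_lit 239) (nat_lit 1) (nat_lit 242) (nat_lit 1) (nat_lit 328) (nat_lit 361) (nat_lit 331)))) (XT.nd (nat_lit 78) (nat_lit 228) (nat_lit 0) (XT.lf (nat_lit 304) (nat_lit 5479374401) (nat_lit 0) (nat_lit 156467281) (nat_lit 228) (nat_lit 156467281) (nat_lit 239) (nat_lit 1) (nat_lit 235) (nat_lit 1) (nat_lit 238) (nat_lit 1) (nat_lit 329) (nat_lit 361) (nat_lit 330)) (XT.nd (nat_lit 78) (nat_lit 228) (nat_lit 0) (XT.lf (nat_lit 76) (nat_lit 2072690416) (nat_lit 0) (nat_lit 1535842786) (nat_lit 304) (nat_lit 2072690416) (nat_lit 236) (nat_lit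 1) (nat_lit 235) (nat_lit 1) (nat_lit 239) (nat_lit 1) (nat_lit 330) (nat_lit 361) (nat_lit 329)) (XT.lf (nat_lit 304) (nat_lit 2850139110) (nat_lit 0) (nat_lit 1362054670) (nat_lit 228) (nat_lit 1362054670) (nat_lit 236) (nat_lit 1) (nat_lit 232) (nat_lit 1) (nat_lit 235) (nat_lit 1) (nat_lit 331) (nat_lit 361) (nat_lit 328))))) (XT.nd (nat_lit 234) (nat_lit 152) (nat_lit 0) (XT.nd (nat_lit 78) (nat_lit 456) (nat_lit 0) (XT.lf (nat_lit 76) (nat_lit 784925986) (nat_lit 0) (nat_lit 3900290433) (nat_lit 304) (nat_lit 784925986) (nat_lit 233) (nat_lit 1) (nat_lit 232) (nat_lit 1) (nat_lit 236) (nat_lit 1) (nat_lit 332) (nat_lit 361) (nat_lit 327)) (XT.nd (nat_lit 78) (nat_lit 304) (nat_lit 0) (XT.lf (nat_lit 228) (nat_lit 287622979) (nat_lit 0) (nat_lit 2540187598) (nat_lit 152) (nat_lit 2540187598) (nat_lit 233) (nat_lit 1) (nat_lit 230) (nat_lit 1) (nat_lit 232) (nat_lit 1) (nat_lit 333) (nat_lit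 361) (nat_lit 326)) (XT.lf (nat_lit 304) (nat_lit 4345886780) (nat_lit 0) (nat_lit 461564676) (nat_lit 228) (nat_lit 461564676) (nat_lit 230) (nat_lit 1) (nat_lit 226) (nat_lit 1) (nat_lit 229) (nat_lit 1) (nat_lit 334) (nat_lit 361) (nat_lit 325)))) (XT.nd (nat_lit 78) (nat_lit 152) (nat_lit 0) (XT.lf (nat_lit 76) (nat_lit 1517915093) (nat_lit 0) (nat_lit 2135310921) (nat_lit 304) (nat_lit 1517915093) (nat_lit 227) (nat_lit 1) (nat_lit 226) (nat_lit 1) (nat_lit 230) (nat_lit 1) (nat_lit 335) (nat_lit 361) (nat_lit 324)) (XT.nd (nat_lit 78) (nat_lit 0) (nat_lit 0) (XT.lf (nat_lit 228) (nat_lit 1753716742) (nat_lit 0) (nat_lit 1661285016) (nat_lit 152) (nat_lit 1661285016) (nat_lit 227) (nat_lit 1) (nat_lit 224) (nat_lit 1) (nat_lit 226) (nat_lit 1) (nat_lit 336) (nat_lit 361) (nat_lit 323)) (XT.lf (nat_lit 76) (nat_lit 251953431) (nat_lit 0) (nat_lit 4480673429) (nat_lit 228) (nat_lit 251953431)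 (nat_lit 225) (nat_lit 1) (nat_lit 224) (nat_lit 1) (nat_lit 227) (nat_lit 1) (nat_lit 337) (nat_lit 361) (nat_lit 322)))))) (XT.nd (nat_lit 468) (nat_lit 760) (nat_lit 0) (XT.nd (nat_lit 234) (nat_lit 380) (nat_lit 0) (XT.nd (nat_lit 78) (nat_lit 152) (nat_lit 0) (XT.lf (nat_lit 76) (nat_lit 2079415876) (nat_lit 0) (nat_lit 734375417) (nat_lit 228) (nat_lit 2079415876) (nat_lit 222) (nat_lit 1) (nat_lit 221) (nat_lit 1) (nat_lit 224) (nat_lit 1) (nat_lit 338) (nat_lit 361) (nat_lit 321)) (XT.nd (nat_lit 78) (nat_lit 0) (nat_lit 0) (XT.lf (nat_lit 228) (nat_lit 2887633394) (nat_lit 0) (nat_lit 958616049) (nat_lit 152) (nat_lit 958616049) (nat_lit 222) (nat_lit 1) (nat_lit 219) (nat_lit 1) (nat_lit 221) (nat_lit 1) (nat_lit 339) (nat_lit 361) (nat_lit 320)) (XT.lf (nat_lit 76) (nat_lit 814815018) (nat_lit 0) (nat_lit 3088846321) (nat_lit 228) (nat_lit 814815018) (nat_lit 220) (nat_lit 1) (nat_lit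 219) (nat_lit 1) (nat_lit 222) (nat_lit 1) (nat_lit 340) (nat_lit 361) (nat_lit 319)))) (XT.nd (nat_lit 78) (nat_lit 228) (nat_lit 0) (XT.lf (nat_lit 228) (nat_lit 381711500) (nat_lit 0) (nat_lit 2126058553) (nat_lit 152) (nat_lit 2126058553) (nat_lit 220) (nat_lit 1) (nat_lit 217) (nat_lit 1) (nat_lit 219) (nat_lit 1) (nat_lit 341) (nat_lit 361) (nat_lit 318)) (XT.nd (nat_lit 78) (nat_lit 0) (nat_lit 0) (XT.lf (nat_lit 228) (nat_lit 3751707225) (nat_lit 0) (nat_lit 399963181) (nat_lit 152) (nat_lit 399963181) (nat_lit 217) (nat_lit 1) (nat_lit 214) (nat_lit 1) (nat_lit 216) (nat_lit 1) (nat_lit 342) (nat_lit 361) (nat_lit 317)) (XT.lf (nat_lit 76) (nat_lit 1248952529) (nat_lit 0) (nat_lit 1972235038) (nat_lit 228) (nat_lit 1248952529) (nat_lit 215) (nat_lit 1) (nat_lit 214) (nat_lit 1) (nat_lit 217) (nat_lit 1) (nat_lit 343) (nat_lit 361) (nat_lit 316))))) (XT.nd (nat_lit 234) (nat_lit 456) (nat_lit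 0) (XT.nd (nat_lit 78) (nat_lit 152) (nat_lit 0) (XT.lf (nat_lit 228) (nat_lit 1271997513) (nat_lit 0) (nat_lit 1559507479) (nat_lit 152) (nat_lit 1559507479) (nat_lit 215) (nat_lit 1) (nat_lit 212) (nat_lit 1) (nat_lit 214) (nat_lit 1) (nat_lit 344) (nat_lit 361) (nat_lit 315)) (XT.nd (nat_lit 78) (nat_lit 152) (nat_lit 0) (XT.lf (nat_lit 76) (nat_lit 41807050) (nat_lit 0) (nat_lit 4231045759) (nat_lit 228) (nat_lit 41807050) (nat_lit 213) (nat_lit 1) (nat_lit 212) (nat_lit 1) (nat_lit 215) (nat_lit 1) (nat_lit 345) (nat_lit 361) (nat_lit 314)) (XT.lf (nat_lit 76) (nat_lit 1578566047) (nat_lit 0) (nat_lit 1080689814) (nat_lit 152) (nat_lit 1578566047) (nat_lit 211) (nat_lit 1) (nat_lit 210) (nat_lit 1) (nat_lit 212) (nat_lit 1) (nat_lit 346) (nat_lit 361) (nat_lit 313)))) (XT.nd (nat_lit 156) (nat_lit 304) (nat_lit 0) (XT.nd (nat_lit 78) (nat_lit 0) (nat_lit 0) (XT.lf (nat_lit 228) (nat_lit 1958820757)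 (nat_lit 0) (nat_lit 1102433374) (nat_lit 152) (nat_lit 1102433374) (nat_lit 211) (nat_lit 1) (nat_lit 208) (nat_lit 1) (nat_lit 210) (nat_lit 1) (nat_lit 347) (nat_lit 361) (nat_lit 312)) (XT.lf (nat_lit 76) (nat_lit 392730023) (nat_lit 0) (nat_lit 3306094129) (nat_lit 228) (nat_lit 392730023) (nat_lit 209) (nat_lit 1) (nat_lit 208) (nat_lit 1) (nat_lit 211) (nat_lit 1) (nat_lit 348) (nat_lit 361) (nat_lit 311))) (XT.nd (nat_lit 78) (nat_lit 152) (nat_lit 0) (XT.lf (nat_lit 76) (nat_lit 1823499443) (nat_lit 0) (nat_lit 373016820) (nat_lit 152) (nat_lit 1823499443) (nat_lit 207) (nat_lit 1) (nat_lit 206) (nat_lit 1) (nat_lit 208) (nat_lit 1) (nat_lit 349) (nat_lit 361) (nat_lit 310)) (XT.lf (nat_lit 228) (nat_lit 2480426927) (nat_lit 0) (nat_lit 734996294) (nat_lit 152) (nat_lit 734996294) (nat_lit 207) (nat_lit 1) (nat_lit 204) (nat_lit 1) (nat_lit 206) (nat_lit 1) (nat_lit 350) (nat_lit 361)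 (nat_lit 309))))))) (XT.nd (nat_lit 936) (nat_lit 988) (nat_lit 0) (XT.nd (nat_lit 468) (nat_lit 380) (nat_lit 0) (XT.nd (nat_lit 234) (nat_lit 304) (nat_lit 0) (XT.nd (nat_lit 78) (nat_lit 304) (nat_lit 0) (XT.lf (nat_lit 76) (nat_lit 664371639) (nat_lit 0) (nat_lit 2553457833) (nat_lit 228) (nat_lit 664371639) (nat_lit 205) (nat_lit 1) (nat_lit 204) (nat_lit 1) (nat_lit 207) (nat_lit 1) (nat_lit 351) (nat_lit 361) (nat_lit 308)) (XT.nd (nat_lit 78) (nat_lit 228) (nat_lit 0) (XT.lf (nat_lit 152) (nat_lit 190716903) (nat_lit 0) (nat_lit 1812276558) (nat_lit 76) (nat_lit 1812276558) (nat_lit 205) (nat_lit 1) (nat_lit 203) (nat_lit 1) (nat_lit 204) (nat_lit 1) (nat_lit 352) (nat_lit 361) (nat_lit 307)) (XT.lf (nat_lit 228) (nat_lit 2868177412) (nat_lit 0) (nat_lit 440894346) (nat_lit 152) (nat_lit 440894346) (nat_lit 203) (nat_lit 1) (nat_lit 200) (nat_lit 1) (nat_lit 202) (nat_lit 1) (nat_lit 353)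 (nat_lit 361) (nat_lit 306)))) (XT.nd (nat_lit 78) (nat_lit 304) (nat_lit 0) (XT.lf (nat_lit 76) (nat_lit 871600835) (nat_lit 0) (nat_lit 1942189423) (nat_lit 228) (nat_lit 871600835) (nat_lit 201) (nat_lit 1) (nat_lit 200) (nat_lit 1) (nat_lit 203) (nat_lit 1) (nat_lit 354) (nat_lit 361) (nat_lit 305)) (XT.nd (nat_lit 78) (nat_lit 228) (nat_lit 0) (XT.lf (nat_lit 152) (nat_lit 640470568) (nat_lit 0) (nat_lit 1490964409) (nat_lit 76) (nat_lit 1490964409) (nat_lit 201) (nat_lit 1) (nat_lit 199) (nat_lit 1) (nat_lit 200) (nat_lit 1) (nat_lit 355) (nat_lit 361) (nat_lit 304)) (XT.lf (nat_lit 228) (nat_lit 3147774789) (nat_lit 0) (nat_lit 206735418) (nat_lit 152) (nat_lit 206735418) (nat_lit 199) (nat_lit 1) (nat_lit 196) (nat_lit 1) (nat_lit 198) (nat_lit 1) (nat_lit 356) (nat_lit 361) (nat_lit 303))))) (XT.nd (nat_lit 234) (nat_lit 76) (nat_lit 0) (XT.nd (nat_lit 78) (nat_lit 304) (nat_lit 0) (XT.lf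 (nat_lit 76) (nat_lit 1026611635) (nat_lit 0) (nat_lit 1446847230) (nat_lit 228) (nat_lit 1026611635) (nat_lit 197) (nat_lit 1) (nat_lit 196) (nat_lit 1) (nat_lit 199) (nat_lit 1) (nat_lit 357) (nat_lit 361) (nat_lit 302)) (XT.nd (nat_lit 78) (nat_lit 228) (nat_lit 0) (XT.lf (nat_lit 152) (nat_lit 987457007) (nat_lit 0) (nat_lit 1226620109) (nat_lit 76) (nat_lit 1226620109) (nat_lit 197) (nat_lit 1) (nat_lit 195) (nat_lit 1) (nat_lit 196) (nat_lit 1) (nat_lit 358) (nat_lit 361) (nat_lit 301)) (XT.lf (nat_lit 228) (nat_lit 3340270808) (nat_lit 0) (nat_lit 21520357) (nat_lit 152) (nat_lit 21520357) (nat_lit 195) (nat_lit 1) (nat_lit 192) (nat_lit 1) (nat_lit 194) (nat_lit 1) (nat_lit 359) (nat_lit 361) (nat_lit 300)))) (XT.nd (nat_lit 78) (nat_lit 76) (nat_lit 0) (XT.lf (nat_lit 76) (nat_lit 1139399238) (nat_lit 0) (nat_lit 1046518306) (nat_lit 228) (nat_lit 1139399238) (nat_lit 193) (nat_lit 1)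 (nat_lit 192) (nat_lit 1) (nat_lit 195) (nat_lit 1) (nat_lit 360) (nat_lit 361) (nat_lit 299)) (XT.nd (nat_lit 78) (nat_lit 0) (nat_lit 0) (XT.lf (nat_lit 152) (nat_lit 1250993119) (nat_lit 0) (nat_lit 1009143399) (nat_lit 76) (nat_lit 1009143399) (nat_lit 193) (nat_lit 1) (nat_lit 191) (nat_lit 1) (nat_lit 192) (nat_lit 1) (nat_lit 361) (nat_lit 361) (nat_lit 298)) (XT.lf (nat_lit 0) (nat_lit 125811395) (nat_lit 0) (nat_lit 2963312111) (nat_lit 152) (nat_lit 125811395) (nat_lit 191) (nat_lit 3) (nat_lit 191) (nat_lit 1) (nat_lit 193) (nat_lit 1) (nat_lit 362) (nat_lit 361) (nat_lit 297)))))) (XT.nd (nat_lit 468) (nat_lit 532) (nat_lit 0) (XT.nd (nat_lit 234) (nat_lit 228) (nat_lit 0) (XT.nd (nat_lit 78) (nat_lit 76) (nat_lit 0) (XT.lf (nat_lit 76) (nat_lit 1218151626) (nat_lit 0) (nat_lit 724014638) (nat_lit 152) (nat_lit 1218151626) (nat_lit 190) (nat_lit 1) (nat_lit 189) (nat_lit 1) (nat_lit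 191) (nat_lit 1) (nat_lit 363) (nat_lit 361) (nat_lit 296)) (XT.nd (nat_lit 78) (nat_lit 0) (nat_lit 0) (XT.lf (nat_lit 152) (nat_lit 1446918750) (nat_lit 0) (nat_lit 830224772) (nat_lit 76) (nat_lit 830224772) (nat_lit 190) (nat_lit 1) (nat_lit 188) (nat_lit 1) (nat_lit 189) (nat_lit 1) (nat_lit 364) (nat_lit 361) (nat_lit 295)) (XT.lf (nat_lit 0) (nat_lit 240463908) (nat_lit 0) (nat_lit 2574882770) (nat_lit 152) (nat_lit 240463908) (nat_lit 188) (nat_lit 3) (nat_lit 188) (nat_lit 1) (nat_lit 190) (nat_lit 1) (nat_lit 365) (nat_lit 361) (nat_lit 294)))) (XT.nd (nat_lit 78) (nat_lit 76) (nat_lit 0) (XT.lf (nat_lit 76) (nat_lit 1269571645) (nat_lit 0) (nat_lit 465211908) (nat_lit 152) (nat_lit 1269571645) (nat_lit 187) (nat_lit 1) (nat_lit 186) (nat_lit 1) (nat_lit 188) (nat_lit 1) (nat_lit 366) (nat_lit 361) (nat_lit 293)) (XT.nd (nat_lit 78) (nat_lit 0) (nat_lit 0) (XT.lf (nat_lit 152) (nat_lit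 1588215651) (nat_lit 0) (nat_lit 683027974) (nat_lit 76) (nat_lit 683027974) (nat_lit 187) (nat_lit 1) (nat_lit 185) (nat_lit 1) (nat_lit 186) (nat_lit 1) (nat_lit 367) (nat_lit 361) (nat_lit 292)) (XT.lf (nat_lit 0) (nat_lit 328266978) (nat_lit 0) (nat_lit 2248799153) (nat_lit 152) (nat_lit 328266978) (nat_lit 185) (nat_lit 3) (nat_lit 185) (nat_lit 1) (nat_lit 187) (nat_lit 1) (nat_lit 368) (nat_lit 361) (nat_lit 291))))) (XT.nd (nat_lit 234) (nat_lit 304) (nat_lit 0) (XT.nd (nat_lit 78) (nat_lit 76) (nat_lit 0) (XT.lf (nat_lit 76) (nat_lit 1299141914) (nat_lit 0) (nat_lit 258505535) (nat_lit 152) (nat_lit 1299141914) (nat_lit 184) (nat_lit 1) (nat_lit 183) (nat_lit 1) (nat_lit 185) (nat_lit 1) (nat_lit 369) (nat_lit 361) (nat_lit 290)) (XT.nd (nat_lit 78) (nat_lit 0) (nat_lit 0) (XT.lf (nat_lit 152) (nat_lit 1685516579) (nat_lit 0) (nat_lit 561928805) (nat_lit 76) (nat_lit 561928805) (nat_lit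 184) (nat_lit 1) (nat_lit 182) (nat_lit 1) (nat_lit 183) (nat_lit 1) (nat_lit 370) (nat_lit 361) (nat_lit 289)) (XT.lf (nat_lit 0) (nat_lit 394291509) (nat_lit 0) (nat_lit 1974318082) (nat_lit 152) (nat_lit 394291509) (nat_lit 182) (nat_lit 3) (nat_lit 182) (nat_lit 1) (nat_lit 184) (nat_lit 1) (nat_lit 371) (nat_lit 361) (nat_lit 288)))) (XT.nd (nat_lit 156) (nat_lit 76) (nat_lit 0) (XT.nd (nat_lit 78) (nat_lit 76) (nat_lit 0) (XT.lf (nat_lit 76) (nat_lit 1311342677) (nat_lit 0) (nat_lit 94363187) (nat_lit 152) (nat_lit 1311342677) (nat_lit 181) (nat_lit 1) (nat_lit 180) (nat_lit 1) (nat_lit 182) (nat_lit 1) (nat_lit 372) (nat_lit 361) (nat_lit 287)) (XT.lf (nat_lit 152) (nat_lit 1747524026) (nat_lit 0) (nat_lit 462300218) (nat_lit 76) (nat_lit 462300218) (nat_lit 181) (nat_lit 1) (nat_lit 179) (nat_lit 1) (nat_lit 180) (nat_lit 1) (nat_lit 373) (nat_lit 361) (nat_lit 286))) (XT.nd (nat_lit 78)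 (nat_lit 76) (nat_lit 0) (XT.lf (nat_lit 0) (nat_lit 442694556) (nat_lit 0) (nat_lit 1742586327) (nat_lit 152) (nat_lit 442694556) (nat_lit 179) (nat_lit 3) (nat_lit 179) (nat_lit 1) (nat_lit 181) (nat_lit 1) (nat_lit 374) (nat_lit 361) (nat_lit 285)) (XT.lf (nat_lit 76) (nat_lit 36202010) (nat_lit 0) (nat_lit 1274194174) (nat_lit 76) (nat_lit 1274194174) (nat_lit 179) (nat_lit 3) (nat_lit 178) (nat_lit 1) (nat_lit 179) (nat_lit 1) (nat_lit 375) (nat_lit 361) (nat_lit 284))))))))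
noncomputable def ec111 : XT := (XT.nd (nat_lit 1950) (nat_lit 1900) (nat_lit 0) (XT.nd (nat_lit 936) (nat_lit 1064) (nat_lit 0) (XT.nd (nat_lit 468) (nat_lit 456) (nat_lit 0) (XT.nd (nat_lit 234) (nat_lit 228) (nat_lit 0) (XT.nd (nat_lit 78) (nat_lit 76) (nat_lit 0) (XT.lf (nat_lit 152) (nat_lit 1781354593) (nat_lit 0) (nat_lit 380335534) (nat_lit 76) (nat_lit 380335534) (nat_lit 178) (nat_lit 1) (nat_lit 176) (nat_lit 1) (nat_lit 177) (nat_lit 1) (nat_lit 376) (nat_lit 361) (nat_lit 283)) (XT.nd (nat_lit 78) (nat_lit 76) (nat_lit 0) (XT.lf (nat_lit 0) (nat_lit 476882055) (nat_lit 0) (nat_lit 1546306232) (nat_lit 152) (nat_lit 476882055) (nat_lit 176) (nat_lit 3) (nat_lit 176) (nat_lit 1) (nat_lit 178) (nat_lit 1) (nat_lit 377) (nat_lit 361) (nat_lit 282)) (XT.lf (nat_lit 76) (nat_lit 140642274) (nat_lit 0) (nat_lit 1159141491) (nat_lit 76) (nat_lit 1159141491) (nat_lit 176) (nat_lit 3) (nat_lit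 175) (nat_lit 1) (nat_lit 176) (nat_lit 1) (nat_lit 378) (nat_lit 361) (nat_lit 281)))) (XT.nd (nat_lit 78) (nat_lit 76) (nat_lit 0) (XT.lf (nat_lit 152) (nat_lit 1792822215) (nat_lit 0) (nat_lit 312902985) (nat_lit 76) (nat_lit 312902985) (nat_lit 175) (nat_lit 1) (nat_lit 173) (nat_lit 1) (nat_lit 174) (nat_lit 1) (nat_lit 379) (nat_lit 361) (nat_lit 280)) (XT.nd (nat_lit 78) (nat_lit 76) (nat_lit 0) (XT.lf (nat_lit 0) (nat_lit 499642664) (nat_lit 0) (nat_lit 1379460581) (nat_lit 152) (nat_lit 499642664) (nat_lit 173) (nat_lit 3) (nat_lit 173) (nat_lit 1) (nat_lit 175) (nat_lit 1) (nat_lit 380) (nat_lit 361) (nat_lit 279)) (XT.lf (nat_lit 76) (nat_lit 221286548) (nat_lit 0) (nat_lit 1059208374) (nat_lit 76) (nat_lit 1059208374) (nat_lit 173) (nat_lit 3) (nat_lit 172) (nat_lit 1) (nat_lit 173) (nat_lit 1) (nat_lit 381) (nat_lit 361) (nat_lit 278))))) (XT.nd (nat_lit 234) (nat_lit 228) (nat_lit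 0) (XT.nd (nat_lit 78) (nat_lit 76) (nat_lit 0) (XT.lf (nat_lit 152) (nat_lit 1786671066) (nat_lit 0) (nat_lit 257426060) (nat_lit 76) (nat_lit 257426060) (nat_lit 172) (nat_lit 1) (nat_lit 170) (nat_lit 1) (nat_lit 171) (nat_lit 1) (nat_lit 382) (nat_lit 361) (nat_lit 277)) (XT.nd (nat_lit 78) (nat_lit 76) (nat_lit 0) (XT.lf (nat_lit 0) (nat_lit 513257844) (nat_lit 0) (nat_lit 1237086222) (nat_lit 152) (nat_lit 513257844) (nat_lit 170) (nat_lit 3) (nat_lit 170) (nat_lit 1) (nat_lit 172) (nat_lit 1) (nat_lit 383) (nat_lit 361) (nat_lit 276)) (XT.lf (nat_lit 76) (nat_lit 282605182) (nat_lit 0) (nat_lit 971965542) (nat_lit 76) (nat_lit 971965542) (nat_lit 170) (nat_lit 3) (nat_lit 169) (nat_lit 1) (nat_lit 170) (nat_lit 1) (nat_lit 384) (nat_lit 361) (nat_lit 275)))) (XT.nd (nat_lit 78) (nat_lit 76) (nat_lit 0) (XT.lf (nat_lit 152) (nat_lit 1766767082) (nat_lit 0) (nat_lit 211785056) (nat_lit 76)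 (nat_lit 211785056) (nat_lit 169) (nat_lit 1) (nat_lit 167) (nat_lit 1) (nat_lit 168) (nat_lit 1) (nat_lit 385) (nat_lit 361) (nat_lit 274)) (XT.nd (nat_lit 78) (nat_lit 76) (nat_lit 0) (XT.lf (nat_lit 0) (nat_lit 519592391) (nat_lit 0) (nat_lit 1115087789) (nat_lit 152) (nat_lit 519592391) (nat_lit 167) (nat_lit 3) (nat_lit 167) (nat_lit 1) (nat_lit 169) (nat_lit 1) (nat_lit 386) (nat_lit 361) (nat_lit 273)) (XT.lf (nat_lit 76) (nat_lit 328263974) (nat_lit 0) (nat_lit 895402448) (nat_lit 76) (nat_lit 895402448) (nat_lit 167) (nat_lit 3) (nat_lit 166) (nat_lit 1) (nat_lit 167) (nat_lit 1) (nat_lit 387) (nat_lit 361) (nat_lit 272)))))) (XT.nd (nat_lit 468) (nat_lit 608) (nat_lit 0) (XT.nd (nat_lit 234) (nat_lit 228) (nat_lit 0) (XT.nd (nat_lit 78) (nat_lit 76) (nat_lit 0) (XT.lf (nat_lit 152) (nat_lit 1736255436) (nat_lit 0) (nat_lit 174236090) (nat_lit 76) (nat_lit 174236090) (nat_lit 166) (nat_lit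 1) (nat_lit 164) (nat_lit 1) (nat_lit 165) (nat_lit 1) (nat_lit 388) (nat_lit 361) (nat_lit 271)) (XT.nd (nat_lit 78) (nat_lit 76) (nat_lit 0) (XT.lf (nat_lit 0) (nat_lit 520168892) (nat_lit 0) (nat_lit 1010084430) (nat_lit 152) (nat_lit 520168892) (nat_lit 164) (nat_lit 3) (nat_lit 164) (nat_lit 1) (nat_lit 166) (nat_lit 1) (nat_lit 389) (nat_lit 361) (nat_lit 270)) (XT.lf (nat_lit 76) (nat_lit 361267385) (nat_lit 0) (nat_lit 827853612) (nat_lit 76) (nat_lit 827853612) (nat_lit 164) (nat_lit 3) (nat_lit 163) (nat_lit 1) (nat_lit 164) (nat_lit 1) (nat_lit 390) (nat_lit 361) (nat_lit 269)))) (XT.nd (nat_lit 78) (nat_lit 76) (nat_lit 0) (XT.lf (nat_lit 152) (nat_lit 1697690011) (nat_lit 0) (nat_lit 143344462) (nat_lit 76) (nat_lit 143344462) (nat_lit 163) (nat_lit 1) (nat_lit 161) (nat_lit 1) (nat_lit 162) (nat_lit 1) (nat_lit 391) (nat_lit 361) (nat_lit 268)) (XT.nd (nat_lit 78) (nat_lit 76) (nat_lit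 0) (XT.lf (nat_lit 0) (nat_lit 516228945) (nat_lit 0) (nat_lit 919283671) (nat_lit 152) (nat_lit 516228945) (nat_lit 161) (nat_lit 3) (nat_lit 161) (nat_lit 1) (nat_lit 163) (nat_lit 1) (nat_lit 392) (nat_lit 361) (nat_lit 267)) (XT.lf (nat_lit 76) (nat_lit 384076335) (nat_lit 0) (nat_lit 767937979) (nat_lit 76) (nat_lit 767937979) (nat_lit 161) (nat_lit 3) (nat_lit 160) (nat_lit 1) (nat_lit 161) (nat_lit 1) (nat_lit 393) (nat_lit 361) (nat_lit 266))))) (XT.nd (nat_lit 234) (nat_lit 380) (nat_lit 0) (XT.nd (nat_lit 78) (nat_lit 76) (nat_lit 0) (XT.lf (nat_lit 152) (nat_lit 1653139837) (nat_lit 0) (nat_lit 117929844) (nat_lit 76) (nat_lit 117929844) (nat_lit 160) (nat_lit 1) (nat_lit 158) (nat_lit 1) (nat_lit 159) (nat_lit 1) (nat_lit 394) (nat_lit 361) (nat_lit 265)) (XT.nd (nat_lit 78) (nat_lit 76) (nat_lit 0) (XT.lf (nat_lit 0) (nat_lit 508783507) (nat_lit 0) (nat_lit 840377627) (nat_lit 152)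 (nat_lit 508783507) (nat_lit 158) (nat_lit 3) (nat_lit 158) (nat_lit 1) (nat_lit 160) (nat_lit 1) (nat_lit 395) (nat_lit 361) (nat_lit 264)) (XT.lf (nat_lit 76) (nat_lit 398705088) (nat_lit 0) (nat_lit 714509012) (nat_lit 76) (nat_lit 714509012) (nat_lit 158) (nat_lit 3) (nat_lit 157) (nat_lit 1) (nat_lit 158) (nat_lit 1) (nat_lit 396) (nat_lit 361) (nat_lit 263)))) (XT.nd (nat_lit 156) (nat_lit 228) (nat_lit 0) (XT.nd (nat_lit 78) (nat_lit 0) (nat_lit 0) (XT.lf (nat_lit 152) (nat_lit 1604276581) (nat_lit 0) (nat_lit 97021174) (nat_lit 76) (nat_lit 97021174) (nat_lit 157) (nat_lit 1) (nat_lit 155) (nat_lit 1) (nat_lit 156) (nat_lit 1) (nat_lit 397) (nat_lit 361) (nat_lit 262)) (XT.lf (nat_lit 0) (nat_lit 498654285) (nat_lit 0) (nat_lit 771457589) (nat_lit 152) (nat_lit 498654285) (nat_lit 155) (nat_lit 3) (nat_lit 155) (nat_lit 1) (nat_lit 157) (nat_lit 1) (nat_lit 398) (nat_lit 361) (nat_lit 261)))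 (XT.nd (nat_lit 78) (nat_lit 152) (nat_lit 0) (XT.lf (nat_lit 76) (nat_lit 406800936) (nat_lit 0) (nat_lit 666613605) (nat_lit 76) (nat_lit 666613605) (nat_lit 155) (nat_lit 3) (nat_lit 154) (nat_lit 1) (nat_lit 155) (nat_lit 1) (nat_lit 399) (nat_lit 361) (nat_lit 260)) (XT.lf (nat_lit 152) (nat_lit 1552446453) (nat_lit 0) (nat_lit 79819560) (nat_lit 76) (nat_lit 79819560) (nat_lit 154) (nat_lit 1) (nat_lit 152) (nat_lit 1) (nat_lit 153) (nat_lit 1) (nat_lit 400) (nat_lit 361) (nat_lit 259))))))) (XT.nd (nat_lit 1014) (nat_lit 988) (nat_lit 0) (XT.nd (nat_lit 468) (nat_lit 456) (nat_lit 0) (XT.nd (nat_lit 234) (nat_lit 228) (nat_lit 0) (XT.nd (nat_lit 78) (nat_lit 228) (nat_lit 0) (XT.lf (nat_lit 0) (nat_lit 486507767) (nat_lit 0) (nat_lit 710943719) (nat_lit 152) (nat_lit 486507767) (nat_lit 152) (nat_lit 3) (nat_lit 152) (nat_lit 1) (nat_lit 154) (nat_lit 1) (nat_lit 401) (nat_lit 361) (nat_lit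 258)) (XT.nd (nat_lit 78) (nat_lit 152) (nat_lit 0) (XT.lf (nat_lit 76) (nat_lit 409709730) (nat_lit 0) (nat_lit 623458256) (nat_lit 76) (nat_lit 623458256) (nat_lit 152) (nat_lit 3) (nat_lit 151) (nat_lit 1) (nat_lit 152) (nat_lit 1) (nat_lit 402) (nat_lit 361) (nat_lit 257)) (XT.lf (nat_lit 152) (nat_lit 1498729290) (nat_lit 0) (nat_lit 65667750) (nat_lit 76) (nat_lit 65667750) (nat_lit 151) (nat_lit 1) (nat_lit 149) (nat_lit 1) (nat_lit 150) (nat_lit 1) (nat_lit 403) (nat_lit 361) (nat_lit 256)))) (XT.nd (nat_lit 78) (nat_lit 228) (nat_lit 0) (XT.lf (nat_lit 0) (nat_lit 472883193) (nat_lit 0) (nat_lit 657527207) (nat_lit 152) (nat_lit 472883193) (nat_lit 149) (nat_lit 3) (nat_lit 149) (nat_lit 1) (nat_lit 151) (nat_lit 1) (nat_lit 404) (nat_lit 361) (nat_lit 255)) (XT.nd (nat_lit 78) (nat_lit 152) (nat_lit 0) (XT.lf (nat_lit 76) (nat_lit 408529774) (nat_lit 0) (nat_lit 584381215) (nat_lit 76)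 (nat_lit 584381215) (nat_lit 149) (nat_lit 3) (nat_lit 148) (nat_lit 1) (nat_lit 149) (nat_lit 1) (nat_lit 405) (nat_lit 361) (nat_lit 254)) (XT.lf (nat_lit 152) (nat_lit 1443987107) (nat_lit 0) (nat_lit 54025020) (nat_lit 76) (nat_lit 54025020) (nat_lit 148) (nat_lit 1) (nat_lit 146) (nat_lit 1) (nat_lit 147) (nat_lit 1) (nat_lit 406) (nat_lit 361) (nat_lit 253))))) (XT.nd (nat_lit 234) (nat_lit 228) (nat_lit 0) (XT.nd (nat_lit 78) (nat_lit 228) (nat_lit 0) (XT.lf (nat_lit 0) (nat_lit 458215554) (nat_lit 0) (nat_lit 610122641) (nat_lit 152) (nat_lit 458215554) (nat_lit 146) (nat_lit 3) (nat_lit 146) (nat_lit 1) (nat_lit 148) (nat_lit 1) (nat_lit 407) (nat_lit 361) (nat_lit 252)) (XT.nd (nat_lit 78) (nat_lit 152) (nat_lit 0) (XT.lf (nat_lit 76) (nat_lit 404156137) (nat_lit 0) (nat_lit 548829553) (nat_lit 76) (nat_lit 548829553) (nat_lit 146) (nat_lit 3) (nat_lit 145) (nat_lit 1) (nat_lit 146) (nat_lit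 1) (nat_lit 408) (nat_lit 361) (nat_lit 251)) (XT.lf (nat_lit 152) (nat_lit 1388903968) (nat_lit 0) (nat_lit 44446518) (nat_lit 76) (nat_lit 44446518) (nat_lit 145) (nat_lit 1) (nat_lit 143) (nat_lit 1) (nat_lit 144) (nat_lit 1) (nat_lit 409) (nat_lit 361) (nat_lit 250)))) (XT.nd (nat_lit 156) (nat_lit 152) (nat_lit 0) (XT.nd (nat_lit 78) (nat_lit 76) (nat_lit 0) (XT.lf (nat_lit 0) (nat_lit 442854481) (nat_lit 0) (nat_lit 567828817) (nat_lit 152) (nat_lit 442854481) (nat_lit 143) (nat_lit 3) (nat_lit 143) (nat_lit 1) (nat_lit 145) (nat_lit 1) (nat_lit 410) (nat_lit 361) (nat_lit 249)) (XT.lf (nat_lit 76) (nat_lit 397317093) (nat_lit 0) (nat_lit 516340270) (nat_lit 76) (nat_lit 516340270) (nat_lit 143) (nat_lit 3) (nat_lit 142) (nat_lit 1) (nat_lit 143) (nat_lit 1) (nat_lit 411) (nat_lit 361) (nat_lit 248))) (XT.nd (nat_lit 78) (nat_lit 0) (nat_lit 0) (XT.lf (nat_lit 152) (nat_lit 1334018733) (nat_lit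 0) (nat_lit 36566260) (nat_lit 76) (nat_lit 36566260) (nat_lit 142) (nat_lit 1) (nat_lit 140) (nat_lit 1) (nat_lit 141) (nat_lit 1) (nat_lit 412) (nat_lit 361) (nat_lit 247)) (XT.lf (nat_lit 0) (nat_lit 427079772) (nat_lit 0) (nat_lit 529896468) (nat_lit 152) (nat_lit 427079772) (nat_lit 140) (nat_lit 3) (nat_lit 140) (nat_lit 1) (nat_lit 142) (nat_lit 1) (nat_lit 413) (nat_lit 361) (nat_lit 246)))))) (XT.nd (nat_lit 468) (nat_lit 532) (nat_lit 0) (XT.nd (nat_lit 234) (nat_lit 228) (nat_lit 0) (XT.nd (nat_lit 78) (nat_lit 152) (nat_lit 0) (XT.lf (nat_lit 76) (nat_lit 388604079) (nat_lit 0) (nat_lit 486524741) (nat_lit 76) (nat_lit 486524741) (nat_lit 140) (nat_lit 3) (nat_lit 139) (nat_lit 1) (nat_lit 140) (nat_lit 1) (nat_lit 414) (nat_lit 361) (nat_lit 245)) (XT.nd (nat_lit 78) (nat_lit 0) (nat_lit 0) (XT.lf (nat_lit 152) (nat_lit 1279751942) (nat_lit 0) (nat_lit 30083152) (nat_lit 76) (nat_lit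 30083152) (nat_lit 139) (nat_lit 1) (nat_lit 137) (nat_lit 1) (nat_lit 138) (nat_lit 1) (nat_lit 415) (nat_lit 361) (nat_lit 244)) (XT.lf (nat_lit 0) (nat_lit 411114153) (nat_lit 0) (nat_lit 495701703) (nat_lit 152) (nat_lit 411114153) (nat_lit 137) (nat_lit 3) (nat_lit 137) (nat_lit 1) (nat_lit 139) (nat_lit 1) (nat_lit 416) (nat_lit 361) (nat_lit 243)))) (XT.nd (nat_lit 78) (nat_lit 152) (nat_lit 0) (XT.lf (nat_lit 76) (nat_lit 378496321) (nat_lit 0) (nat_lit 459055892) (nat_lit 76) (nat_lit 459055892) (nat_lit 137) (nat_lit 3) (nat_lit 136) (nat_lit 1) (nat_lit 137) (nat_lit 1) (nat_lit 417) (nat_lit 361) (nat_lit 242)) (XT.nd (nat_lit 78) (nat_lit 0) (nat_lit 0) (XT.lf (nat_lit 152) (nat_lit 1226427880) (nat_lit 0) (nat_lit 24749484) (nat_lit 76) (nat_lit 24749484) (nat_lit 136) (nat_lit 1) (nat_lit 134) (nat_lit 1) (nat_lit 135) (nat_lit 1) (nat_lit 418) (nat_lit 361) (nat_lit 241)) (XT.lf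 (nat_lit 0) (nat_lit 395133742) (nat_lit 0) (nat_lit 464724129) (nat_lit 152) (nat_lit 395133742) (nat_lit 134) (nat_lit 3) (nat_lit 134) (nat_lit 1) (nat_lit 136) (nat_lit 1) (nat_lit 419) (nat_lit 361) (nat_lit 240))))) (XT.nd (nat_lit 234) (nat_lit 304) (nat_lit 0) (XT.nd (nat_lit 78) (nat_lit 152) (nat_lit 0) (XT.lf (nat_lit 76) (nat_lit 367381082) (nat_lit 0) (nat_lit 433657641) (nat_lit 76) (nat_lit 433657641) (nat_lit 134) (nat_lit 3) (nat_lit 133) (nat_lit 1) (nat_lit 134) (nat_lit 1) (nat_lit 420) (nat_lit 361) (nat_lit 239)) (XT.nd (nat_lit 78) (nat_lit 0) (nat_lit 0) (XT.lf (nat_lit 152) (nat_lit 1174292671) (nat_lit 0) (nat_lit 20361462) (nat_lit 76) (nat_lit 20361462) (nat_lit 133) (nat_lit 1) (nat_lit 131) (nat_lit 1) (nat_lit 132) (nat_lit 1) (nat_lit 421) (nat_lit 361) (nat_lit 238)) (XT.lf (nat_lit 0) (nat_lit 379276661) (nat_lit 0) (nat_lit 436528845) (nat_lit 152) (nat_lit 379276661)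 (nat_lit 131) (nat_lit 3) (nat_lit 131) (nat_lit 1) (nat_lit 133) (nat_lit 1) (nat_lit 422) (nat_lit 361) (nat_lit 237)))) (XT.nd (nat_lit 156) (nat_lit 76) (nat_lit 0) (XT.nd (nat_lit 78) (nat_lit 152) (nat_lit 0) (XT.lf (nat_lit 76) (nat_lit 355570299) (nat_lit 0) (nat_lit 410096188) (nat_lit 76) (nat_lit 410096188) (nat_lit 131) (nat_lit 3) (nat_lit 130) (nat_lit 1) (nat_lit 131) (nat_lit 1) (nat_lit 423) (nat_lit 361) (nat_lit 236)) (XT.lf (nat_lit 152) (nat_lit 1123529124) (nat_lit 0) (nat_lit 16751425) (nat_lit 76) (nat_lit 16751425) (nat_lit 130) (nat_lit 1) (nat_lit 128) (nat_lit 1) (nat_lit 129) (nat_lit 1) (nat_lit 424) (nat_lit 361) (nat_lit 235))) (XT.nd (nat_lit 78) (nat_lit 76) (nat_lit 0) (XT.lf (nat_lit 0) (nat_lit 363650090) (nat_lit 0) (nat_lit 410751603) (nat_lit 152) (nat_lit 363650090) (nat_lit 128) (nat_lit 3) (nat_lit 128) (nat_lit 1) (nat_lit 130) (nat_lit 1) (nat_lit 425)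 (nat_lit 361) (nat_lit 234)) (XT.lf (nat_lit 76) (nat_lit 343314255) (nat_lit 0) (nat_lit 388172839) (nat_lit 76) (nat_lit 388172839) (nat_lit 128) (nat_lit 3) (nat_lit 127) (nat_lit 1) (nat_lit 128) (nat_lit 1) (nat_lit 426) (nat_lit 361) (nat_lit 233))))))))
noncomputable def ec112 : XT := (XT.nd (nat_lit 43056) (nat_lit 0) (nat_lit 10716) (XT.nd (nat_lit 936) (nat_lit 836) (nat_lit 0) (XT.nd (nat_lit 468) (nat_lit 456) (nat_lit 0) (XT.nd (nat_lit 234) (nat_lit 228) (nat_lit 0) (XT.nd (nat_lit 78) (nat_lit 76) (nat_lit 0) (XT.lf (nat_lit 152) (nat_lit 1074268893) (nat_lit 0) (nat_lit 13781438) (nat_lit 76) (nat_lit 13781438) (nat_lit 127) (nat_lit 1) (nat_lit 125) (nat_lit 1) (nat_lit 126) (nat_lit 1) (nat_lit 427) (nat_lit 361) (nat_lit 232)) (XT.nd (nat_lit 78) (nat_lit 76) (nat_lit 0) (XT.lf (nat_lit 0) (nat_lit 348336059) (nat_lit 0) (nat_lit 387086590) (nat_lit 152) (nat_lit 348336059) (nat_lit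 125) (nat_lit 3) (nat_lit 125) (nat_lit 1) (nat_lit 127) (nat_lit 1) (nat_lit 428) (nat_lit 361) (nat_lit 231)) (XT.lf (nat_lit 76) (nat_lit 330812810) (nat_lit 0) (nat_lit 367718078) (nat_lit 76) (nat_lit 367718078) (nat_lit 125) (nat_lit 3) (nat_lit 124) (nat_lit 1) (nat_lit 125) (nat_lit 1) (nat_lit 429) (nat_lit 361) (nat_lit 230)))) (XT.nd (nat_lit 78) (nat_lit 76) (nat_lit 0) (XT.lf (nat_lit 152) (nat_lit 1026602441) (nat_lit 0) (nat_lit 11338023) (nat_lit 76) (nat_lit 11338023) (nat_lit 124) (nat_lit 1) (nat_lit 122) (nat_lit 1) (nat_lit 123) (nat_lit 1) (nat_lit 430) (nat_lit 361) (nat_lit 229)) (XT.nd (nat_lit 78) (nat_lit 76) (nat_lit 0) (XT.lf (nat_lit 0) (nat_lit 333396204) (nat_lit 0) (nat_lit 365276362) (nat_lit 152) (nat_lit 333396204) (nat_lit 122) (nat_lit 3) (nat_lit 122) (nat_lit 1) (nat_lit 124) (nat_lit 1) (nat_lit 431) (nat_lit 361) (nat_lit 228)) (XT.lf (nat_lit 76) (nat_lit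 318224635) (nat_lit 0) (nat_lit 348586690) (nat_lit 76) (nat_lit 348586690) (nat_lit 122) (nat_lit 3) (nat_lit 121) (nat_lit 1) (nat_lit 122) (nat_lit 1) (nat_lit 432) (nat_lit 361) (nat_lit 227))))) (XT.nd (nat_lit 234) (nat_lit 228) (nat_lit 0) (XT.nd (nat_lit 78) (nat_lit 76) (nat_lit 0) (XT.lf (nat_lit 152) (nat_lit 980587191) (nat_lit 0) (nat_lit 9327820) (nat_lit 76) (nat_lit 9327820) (nat_lit 121) (nat_lit 1) (nat_lit 119) (nat_lit 1) (nat_lit 120) (nat_lit 1) (nat_lit 433) (nat_lit 361) (nat_lit 226)) (XT.nd (nat_lit 78) (nat_lit 76) (nat_lit 0) (XT.lf (nat_lit 0) (nat_lit 318875660) (nat_lit 0) (nat_lit 345103545) (nat_lit 152) (nat_lit 318875660) (nat_lit 119) (nat_lit 3) (nat_lit 119) (nat_lit 1) (nat_lit 121) (nat_lit 1) (nat_lit 434) (nat_lit 361) (nat_lit 225)) (XT.lf (nat_lit 76) (nat_lit 305674783) (nat_lit 0) (nat_lit 330653721) (nat_lit 76) (nat_lit 330653721) (nat_lit 119) (nat_lit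 3) (nat_lit 118) (nat_lit 1) (nat_lit 119) (nat_lit 1) (nat_lit 435) (nat_lit 361) (nat_lit 224)))) (XT.nd (nat_lit 78) (nat_lit 76) (nat_lit 0) (XT.lf (nat_lit 152) (nat_lit 936254197) (nat_lit 0) (nat_lit 7674020) (nat_lit 76) (nat_lit 7674020) (nat_lit 118) (nat_lit 1) (nat_lit 116) (nat_lit 1) (nat_lit 117) (nat_lit 1) (nat_lit 436) (nat_lit 361) (nat_lit 223)) (XT.nd (nat_lit 78) (nat_lit 76) (nat_lit 0) (XT.lf (nat_lit 0) (nat_lit 304806250) (nat_lit 0) (nat_lit 326383996) (nat_lit 152) (nat_lit 304806250) (nat_lit 116) (nat_lit 3) (nat_lit 116) (nat_lit 1) (nat_lit 118) (nat_lit 1) (nat_lit 437) (nat_lit 361) (nat_lit 222)) (XT.lf (nat_lit 76) (nat_lit 293260912) (nat_lit 0) (nat_lit 313811147) (nat_lit 76) (nat_lit 313811147) (nat_lit 116) (nat_lit 3) (nat_lit 115) (nat_lit 1) (nat_lit 116) (nat_lit 1) (nat_lit 438) (nat_lit 361) (nat_lit 221)))))) (XT.nd (nat_lit 468) (nat_lit 380) (nat_lit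 0) (XT.nd (nat_lit 234) (nat_lit 228) (nat_lit 0) (XT.nd (nat_lit 78) (nat_lit 76) (nat_lit 0) (XT.lf (nat_lit 152) (nat_lit 893613587) (nat_lit 0) (nat_lit 6313435) (nat_lit 76) (nat_lit 6313435) (nat_lit 115) (nat_lit 1) (nat_lit 113) (nat_lit 1) (nat_lit 114) (nat_lit 1) (nat_lit 439) (nat_lit 361) (nat_lit 220)) (XT.nd (nat_lit 78) (nat_lit 76) (nat_lit 0) (XT.lf (nat_lit 0) (nat_lit 291209099) (nat_lit 0) (nat_lit 308961164) (nat_lit 152) (nat_lit 291209099) (nat_lit 113) (nat_lit 3) (nat_lit 113) (nat_lit 1) (nat_lit 115) (nat_lit 1) (nat_lit 440) (nat_lit 361) (nat_lit 219)) (XT.lf (nat_lit 76) (nat_lit 281058395) (nat_lit 0) (nat_lit 297965123) (nat_lit 76) (nat_lit 297965123) (nat_lit 113) (nat_lit 3) (nat_lit 112) (nat_lit 1) (nat_lit 113) (nat_lit 1) (nat_lit 441) (nat_lit 361) (nat_lit 218)))) (XT.nd (nat_lit 78) (nat_lit 76) (nat_lit 0) (XT.lf (nat_lit 152) (nat_lit 852659006) (nat_lit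 0) (nat_lit 5194079) (nat_lit 76) (nat_lit 5194079) (nat_lit 112) (nat_lit 1) (nat_lit 110) (nat_lit 1) (nat_lit 111) (nat_lit 1) (nat_lit 442) (nat_lit 361) (nat_lit 217)) (XT.nd (nat_lit 78) (nat_lit 76) (nat_lit 0) (XT.lf (nat_lit 0) (nat_lit 278096773) (nat_lit 0) (nat_lit 292701441) (nat_lit 152) (nat_lit 278096773) (nat_lit 110) (nat_lit 3) (nat_lit 110) (nat_lit 1) (nat_lit 112) (nat_lit 1) (nat_lit 443) (nat_lit 361) (nat_lit 216)) (XT.lf (nat_lit 76) (nat_lit 269124500) (nat_lit 0) (nat_lit 283033708) (nat_lit 76) (nat_lit 283033708) (nat_lit 110) (nat_lit 3) (nat_lit 109) (nat_lit 1) (nat_lit 110) (nat_lit 1) (nat_lit 444) (nat_lit 361) (nat_lit 215))))) (XT.nd (nat_lit 234) (nat_lit 152) (nat_lit 0) (XT.nd (nat_lit 78) (nat_lit 76) (nat_lit 0) (XT.lf (nat_lit 152) (nat_lit 813371242) (nat_lit 0) (nat_lit 4273181) (nat_lit 76) (nat_lit 4273181) (nat_lit 109) (nat_lit 1) (nat_lit 107)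 (nat_lit 1) (nat_lit 108) (nat_lit 1) (nat_lit 445) (nat_lit 361) (nat_lit 214)) (XT.nd (nat_lit 78) (nat_lit 76) (nat_lit 0) (XT.lf (nat_lit 0) (nat_lit 265475024) (nat_lit 0) (nat_lit 277490321) (nat_lit 152) (nat_lit 265475024) (nat_lit 107) (nat_lit 3) (nat_lit 107) (nat_lit 1) (nat_lit 109) (nat_lit 1) (nat_lit 446) (nat_lit 361) (nat_lit 213)) (XT.lf (nat_lit 76) (nat_lit 257501834) (nat_lit 0) (nat_lit 268944973) (nat_lit 76) (nat_lit 268944973) (nat_lit 107) (nat_lit 3) (nat_lit 106) (nat_lit 1) (nat_lit 107) (nat_lit 1) (nat_lit 447) (nat_lit 361) (nat_lit 212)))) (XT.nd (nat_lit 41262) (nat_lit 0) (nat_lit 14288) (XT.nd (nat_lit 78) (nat_lit 0) (nat_lit 0) (XT.lf (nat_lit 152) (nat_lit 775721170) (nat_lit 0) (nat_lit 3515557) (nat_lit 76) (nat_lit 3515557) (nat_lit 106) (nat_lit 1) (nat_lit 104) (nat_lit 1) (nat_lit 105) (nat_lit 1) (nat_lit 448) (nat_lit 361) (nat_lit 211)) (XT.lf (nat_lit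 0) (nat_lit 253344217) (nat_lit 0) (nat_lit 263229231) (nat_lit 152) (nat_lit 253344217) (nat_lit 104) (nat_lit 3) (nat_lit 104) (nat_lit 1) (nat_lit 106) (nat_lit 1) (nat_lit 449) (nat_lit 361) (nat_lit 210))) (XT.nd (nat_lit 78) (nat_lit 0) (nat_lit 0) (XT.lf (nat_lit 836) (nat_lit 1571861433) (nat_lit 0) (nat_lit 2790836362) (nat_lit 836) (nat_lit 1571861433) (nat_lit 303) (nat_lit 1) (nat_lit 292) (nat_lit 0) (nat_lit 303) (nat_lit 0) (nat_lit 296) (nat_lit 362) (nat_lit 362)) (XT.lf (nat_lit 836) (nat_lit 6092731156) (nat_lit 76) (nat_lit 2745822872) (nat_lit 0) (nat_lit 2745822872) (nat_lit 303) (nat_lit 1) (nat_lit 293) (nat_lit 1) (nat_lit 292) (nat_lit 0) (nat_lit 297) (nat_lit 362) (nat_lit 361))))))) (XT.nd (nat_lit 936) (nat_lit 2660) (nat_lit 0) (XT.nd (nat_lit 468) (nat_lit 988) (nat_lit 0) (XT.nd (nat_lit 234) (nat_lit 0) (nat_lit 76) (XT.nd (nat_lit 78) (nat_lit 0) (nat_lit 0) (XT.lf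 (nat_lit 836) (nat_lit 2903703931) (nat_lit 0) (nat_lit 5501030373) (nat_lit 760) (nat_lit 2903703931) (nat_lit 304) (nat_lit 1) (nat_lit 293) (nat_lit 1) (nat_lit 303) (nat_lit 1) (nat_lit 298) (nat_lit 362) (nat_lit 360)) (XT.nd (nat_lit 78) (nat_lit 0) (nat_lit 76) (XT.lf (nat_lit 836) (nat_lit 5446945094) (nat_lit 76) (nat_lit 2797234674) (nat_lit 0) (nat_lit 2797234674) (nat_lit 304) (nat_lit 1) (nat_lit 294) (nat_lit 1) (nat_lit 293) (nat_lit 1) (nat_lit 299) (nat_lit 362) (nat_lit 359)) (XT.lf (nat_lit 836) (nat_lit 2507176519) (nat_lit 0) (nat_lit 5768500927) (nat_lit 760) (nat_lit 2507176519) (nat_lit 305) (nat_lit 1) (nat_lit 294) (nat_lit 1) (nat_lit 304) (nat_lit 1) (nat_lit 300) (nat_lit 362) (nat_lit 358)))) (XT.nd (nat_lit 78) (nat_lit 0) (nat_lit 76) (XT.lf (nat_lit 836) (nat_lit 4509320267) (nat_lit 76) (nat_lit 3011427566) (nat_lit 0) (nat_lit 3011427566) (nat_lit 305) (nat_lit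 1) (nat_lit 295) (nat_lit 1) (nat_lit 294) (nat_lit 1) (nat_lit 301) (nat_lit 362) (nat_lit 357)) (XT.nd (nat_lit 78) (nat_lit 0) (nat_lit 0) (XT.lf (nat_lit 836) (nat_lit 1977206696) (nat_lit 0) (nat_lit 6335500360) (nat_lit 760) (nat_lit 1977206696) (nat_lit 306) (nat_lit 1) (nat_lit 295) (nat_lit 1) (nat_lit 305) (nat_lit 1) (nat_lit 302) (nat_lit 362) (nat_lit 356)) (XT.lf (nat_lit 836) (nat_lit 3323745165) (nat_lit 76) (nat_lit 3365288616) (nat_lit 0) (nat_lit 3365288616) (nat_lit 306) (nat_lit 1) (nat_lit 296) (nat_lit 1) (nat_lit 295) (nat_lit 1) (nat_lit 303) (nat_lit 362) (nat_lit 355))))) (XT.nd (nat_lit 234) (nat_lit 1216) (nat_lit 0) (XT.nd (nat_lit 78) (nat_lit 0) (nat_lit 0) (XT.lf (nat_lit 836) (nat_lit 1334310566) (nat_lit 0) (nat_lit 7158733899) (nat_lit 760) (nat_lit 1334310566) (nat_lit 307) (nat_lit 1) (nat_lit 296) (nat_lit 1) (nat_lit 306) (nat_lit 1) (nat_lit 304) (nat_lit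 362) (nat_lit 354)) (XT.nd (nat_lit 78) (nat_lit 0) (nat_lit 76) (XT.lf (nat_lit 836) (nat_lit 1929230032) (nat_lit 76) (nat_lit 3838233671) (nat_lit 0) (nat_lit 3838233671) (nat_lit 307) (nat_lit 1) (nat_lit 297) (nat_lit 1) (nat_lit 296) (nat_lit 1) (nat_lit 305) (nat_lit 362) (nat_lit 353)) (XT.lf (nat_lit 76) (nat_lit 596710654) (nat_lit 0) (nat_lit 8199667500) (nat_lit 760) (nat_lit 596710654) (nat_lit 298) (nat_lit 1) (nat_lit 297) (nat_lit 1) (nat_lit 307) (nat_lit 1) (nat_lit 306) (nat_lit 362) (nat_lit 352)))) (XT.nd (nat_lit 78) (nat_lit 532) (nat_lit 0) (XT.lf (nat_lit 836) (nat_lit 360398396) (nat_lit 0) (nat_lit 4411954159) (nat_lit 760) (nat_lit 4411954159) (nat_lit 298) (nat_lit 1) (nat_lit 287) (nat_lit 1) (nat_lit 297) (nat_lit 1) (nat_lit 307) (nat_lit 362) (nat_lit 351)) (XT.nd (nat_lit 78) (nat_lit 0) (nat_lit 0) (XT.lf (nat_lit 532) (nat_lit 8552707827) (nat_lit 0) (nat_lit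 215893231) (nat_lit 456) (nat_lit 215893231) (nat_lit 287) (nat_lit 1) (nat_lit 280) (nat_lit 1) (nat_lit 286) (nat_lit 1) (nat_lit 308) (nat_lit 362) (nat_lit 350)) (XT.lf (nat_lit 76) (nat_lit 3739228976) (nat_lit 0) (nat_lit 1308794257) (nat_lit 532) (nat_lit 3739228976) (nat_lit 281) (nat_lit 1) (nat_lit 280) (nat_lit 1) (nat_lit 287) (nat_lit 1) (nat_lit 309) (nat_lit 362) (nat_lit 349)))))) (XT.nd (nat_lit 468) (nat_lit 1596) (nat_lit 0) (XT.nd (nat_lit 234) (nat_lit 304) (nat_lit 0) (XT.nd (nat_lit 78) (nat_lit 380) (nat_lit 0) (XT.lf (nat_lit 456) (nat_lit 6434253250) (nat_lit 0) (nat_lit 1082072071) (nat_lit 380) (nat_lit 1082072071) (nat_lit 281) (nat_lit 1) (nat_lit 275) (nat_lit 1) (nat_lit 280) (nat_lit 1) (nat_lit 310) (nat_lit 362) (nat_lit 348)) (XT.nd (nat_lit 78) (nat_lit 380) (nat_lit 0) (XT.lf (nat_lit 76) (nat_lit 2667146509) (nat_lit 0) (nat_lit 3079219807) (nat_lit 456) (nat_lit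 2667146509) (nat_lit 276) (nat_lit 1) (nat_lit 275) (nat_lit 1) (nat_lit 281) (nat_lit 1) (nat_lit 311) (nat_lit 362) (nat_lit 347)) (XT.lf (nat_lit 456) (nat_lit 4237047011) (nat_lit 0) (nat_lit 1999010141) (nat_lit 380) (nat_lit 1999010141) (nat_lit 276) (nat_lit 1) (nat_lit 270) (nat_lit 1) (nat_lit 275) (nat_lit 1) (nat_lit 312) (nat_lit 362) (nat_lit 346)))) (XT.nd (nat_lit 78) (nat_lit 304) (nat_lit 0) (XT.lf (nat_lit 76) (nat_lit 1561295513) (nat_lit 0) (nat_lit 4939220533) (nat_lit 456) (nat_lit 1561295513) (nat_lit 271) (nat_lit 1) (nat_lit 270) (nat_lit 1) (nat_lit 276) (nat_lit 1) (nat_lit 313) (nat_lit 362) (nat_lit 345)) (XT.nd (nat_lit 78) (nat_lit 0) (nat_lit 0) (XT.lf (nat_lit 380) (nat_lit 1981539526) (nat_lit 0) (nat_lit 2955736503) (nat_lit 304) (nat_lit 2955736503) (nat_lit 271) (nat_lit 1) (nat_lit 266) (nat_lit 1) (nat_lit 270) (nat_lit 1) (nat_lit 314) (nat_lit 362) (nat_lit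 344)) (XT.lf (nat_lit 76) (nat_lit 431169778) (nat_lit 0) (nat_lit 6868365129) (nat_lit 380) (nat_lit 431169778) (nat_lit 267) (nat_lit 1) (nat_lit 266) (nat_lit 1) (nat_lit 271) (nat_lit 1) (nat_lit 315) (nat_lit 362) (nat_lit 343))))) (XT.nd (nat_lit 234) (nat_lit 912) (nat_lit 0) (XT.nd (nat_lit 78) (nat_lit 304) (nat_lit 0) (XT.lf (nat_lit 76) (nat_lit 3633160454) (nat_lit 0) (nat_lit 304284245) (nat_lit 380) (nat_lit 3633160454) (nat_lit 262) (nat_lit 1) (nat_lit 261) (nat_lit 1) (nat_lit 266) (nat_lit 1) (nat_lit 316) (nat_lit 362) (nat_lit 342)) (XT.nd (nat_lit 78) (nat_lit 0) (nat_lit 0) (XT.lf (nat_lit 380) (nat_lit 6009820346) (nat_lit 0) (nat_lit 703391128) (nat_lit 304) (nat_lit 703391128) (nat_lit 262) (nat_lit 1) (nat_lit 257) (nat_lit 1) (nat_lit 261) (nat_lit 1) (nat_lit 317) (nat_lit 362) (nat_lit 341)) (XT.lf (nat_lit 76) (nat_lit 2357315750) (nat_lit 0) (nat_lit 2550610499) (nat_lit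 380) (nat_lit 2357315750) (nat_lit 258) (nat_lit 1) (nat_lit 257) (nat_lit 1) (nat_lit 262) (nat_lit 1) (nat_lit 318) (nat_lit 362) (nat_lit 340)))) (XT.nd (nat_lit 156) (nat_lit 608) (nat_lit 0) (XT.nd (nat_lit 78) (nat_lit 0) (nat_lit 0) (XT.lf (nat_lit 380) (nat_lit 3439979433) (nat_lit 0) (nat_lit 1839575308) (nat_lit 304) (nat_lit 1839575308) (nat_lit 258) (nat_lit 1) (nat_lit 253) (nat_lit 1) (nat_lit 257) (nat_lit 1) (nat_lit 319) (nat_lit 362) (nat_lit 339)) (XT.lf (nat_lit 76) (nat_lit 1084815989) (nat_lit 0) (nat_lit 4807658447) (nat_lit 380) (nat_lit 1084815989) (nat_lit 254) (nat_lit 1) (nat_lit 253) (nat_lit 1) (nat_lit 258) (nat_lit 1) (nat_lit 320) (nat_lit 362) (nat_lit 338))) (XT.nd (nat_lit 78) (nat_lit 380) (nat_lit 0) (XT.lf (nat_lit 304) (nat_lit 882234382) (nat_lit 0) (nat_lit 2978139085) (nat_lit 228) (nat_lit 2978139085) (nat_lit 254) (nat_lit 1) (nat_lit 250) (nat_lit 1)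 (nat_lit 253) (nat_lit 1) (nat_lit 321) (nat_lit 362) (nat_lit 337)) (XT.lf (nat_lit 380) (nat_lit 6352548216) (nat_lit 0) (nat_lit 176271023) (nat_lit 304) (nat_lit 176271023) (nat_lit 250) (nat_lit 1) (nat_lit 245) (nat_lit 1) (nat_lit 249) (nat_lit 1) (nat_lit 322) (nat_lit 362) (nat_lit 336))))))))
noncomputable def ec113 : XT := (XT.nd (nat_lit 1950) (nat_lit 2052) (nat_lit 0) (XT.nd (nat_lit 936) (nat_lit 1368) (nat_lit 0) (XT.nd (nat_lit 468) (nat_lit 836) (nat_lit 0) (XT.nd (nat_lit 234) (nat_lit 532) (nat_lit 0) (XT.nd (nat_lit 78) (nat_lit 228) (nat_lit 0) (XT.lf (nat_lit 76) (nat_lit 2485799080) (nat_lit 0) (nat_lit 1600808290) (nat_lit 380) (nat_lit 2485799080) (nat_lit 246) (nat_lit 1) (nat_lit 245) (nat_lit 1) (nat_lit 250) (nat_lit 1) (nat_lit 323) (nat_lit 362) (nat_lit 335)) (XT.nd (nat_lit 78) (nat_lit 0) (nat_lit 0) (XT.lf (nat_lit 304) (nat_lit 3630588144) (nat_lit 0) (nat_lit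 1407111636) (nat_lit 228) (nat_lit 1407111636) (nat_lit 246) (nat_lit 1) (nat_lit 242) (nat_lit 1) (nat_lit 245) (nat_lit 1) (nat_lit 324) (nat_lit 362) (nat_lit 334)) (XT.lf (nat_lit 76) (nat_lit 1146958954) (nat_lit 0) (nat_lit 4026540244) (nat_lit 304) (nat_lit 1146958954) (nat_lit 243) (nat_lit 1) (nat_lit 242) (nat_lit 1) (nat_lit 246) (nat_lit 1) (nat_lit 325) (nat_lit 362) (nat_lit 333)))) (XT.nd (nat_lit 78) (nat_lit 304) (nat_lit 0) (XT.lf (nat_lit 304) (nat_lit 955954438) (nat_lit 0) (nat_lit 2621489726) (nat_lit 228) (nat_lit 2621489726) (nat_lit 243) (nat_lit 1) (nat_lit 239) (nat_lit 1) (nat_lit 242) (nat_lit 1) (nat_lit 326) (nat_lit 362) (nat_lit 332)) (XT.nd (nat_lit 78) (nat_lit 0) (nat_lit 0) (XT.lf (nat_lit 304) (nat_lit 5753343122) (nat_lit 0) (nat_lit 164290645) (nat_lit 228) (nat_lit 164290645) (nat_lit 239) (nat_lit 1) (nat_lit 235) (nat_lit 1) (nat_lit 238) (nat_lit 1) (nat_lit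 327) (nat_lit 362) (nat_lit 331)) (XT.lf (nat_lit 76) (nat_lit 2176324937) (nat_lit 0) (nat_lit 1612634926) (nat_lit 304) (nat_lit 2176324937) (nat_lit 236) (nat_lit 1) (nat_lit 235) (nat_lit 1) (nat_lit 239) (nat_lit 1) (nat_lit 328) (nat_lit 362) (nat_lit 330))))) (XT.nd (nat_lit 234) (nat_lit 456) (nat_lit 0) (XT.nd (nat_lit 78) (nat_lit 152) (nat_lit 0) (XT.lf (nat_lit 304) (nat_lit 2992646066) (nat_lit 0) (nat_lit 1430157404) (nat_lit 228) (nat_lit 1430157404) (nat_lit 236) (nat_lit 1) (nat_lit 232) (nat_lit 1) (nat_lit 235) (nat_lit 1) (nat_lit 329) (nat_lit 362) (nat_lit 329)) (XT.nd (nat_lit 78) (nat_lit 152) (nat_lit 0) (XT.lf (nat_lit 76) (nat_lit 824172286) (nat_lit 0) (nat_lit 4095304955) (nat_lit 304) (nat_lit 824172286) (nat_lit 233) (nat_lit 1) (nat_lit 232) (nat_lit 1) (nat_lit 236) (nat_lit 1) (nat_lit 330) (nat_lit 362) (nat_lit 328)) (XT.lf (nat_lit 228) (nat_lit 302004128) (nat_lit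 0) (nat_lit 2667196978) (nat_lit 152) (nat_lit 2667196978) (nat_lit 233) (nat_lit 1) (nat_lit 230) (nat_lit 1) (nat_lit 232) (nat_lit 1) (nat_lit 331) (nat_lit 362) (nat_lit 327)))) (XT.nd (nat_lit 78) (nat_lit 152) (nat_lit 0) (XT.lf (nat_lit 304) (nat_lit 4563181119) (nat_lit 0) (nat_lit 484642910) (nat_lit 228) (nat_lit 484642910) (nat_lit 230) (nat_lit 1) (nat_lit 226) (nat_lit 1) (nat_lit 229) (nat_lit 1) (nat_lit 332) (nat_lit 362) (nat_lit 326)) (XT.nd (nat_lit 78) (nat_lit 152) (nat_lit 0) (XT.lf (nat_lit 76) (nat_lit 1593810848) (nat_lit 0) (nat_lit 2242076467) (nat_lit 304) (nat_lit 1593810848) (nat_lit 227) (nat_lit 1) (nat_lit 226) (nat_lit 1) (nat_lit 230) (nat_lit 1) (nat_lit 333) (nat_lit 362) (nat_lit 325)) (XT.lf (nat_lit 228) (nat_lit 1841402579) (nat_lit 0) (nat_lit 1744349267) (nat_lit 152) (nat_lit 1744349267) (nat_lit 227) (nat_lit 1) (nat_lit 224) (nat_lit 1) (nat_lit 226)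 (nat_lit 1) (nat_lit 334) (nat_lit 362) (nat_lit 324)))))) (XT.nd (nat_lit 468) (nat_lit 608) (nat_lit 0) (XT.nd (nat_lit 234) (nat_lit 380) (nat_lit 0) (XT.nd (nat_lit 78) (nat_lit 380) (nat_lit 0) (XT.lf (nat_lit 76) (nat_lit 264551103) (nat_lit 0) (nat_lit 4704707100) (nat_lit 228) (nat_lit 264551103) (nat_lit 225) (nat_lit 1) (nat_lit 224) (nat_lit 1) (nat_lit 227) (nat_lit 1) (nat_lit 335) (nat_lit 362) (nat_lit 323)) (XT.nd (nat_lit 78) (nat_lit 152) (nat_lit 0) (XT.lf (nat_lit 76) (nat_lit 2183386670) (nat_lit 0) (nat_lit 771094187) (nat_lit 228) (nat_lit 2183386670) (nat_lit 222) (nat_lit 1) (nat_lit 221) (nat_lit 1) (nat_lit 224) (nat_lit 1) (nat_lit 336) (nat_lit 362) (nat_lit 322)) (XT.lf (nat_lit 228) (nat_lit 3032015063) (nat_lit 0) (nat_lit 1006546851) (nat_lit 152) (nat_lit 1006546851) (nat_lit 222) (nat_lit 1) (nat_lit 219) (nat_lit 1) (nat_lit 221) (nat_lit 1) (nat_lit 337) (nat_lit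 362) (nat_lit 321)))) (XT.nd (nat_lit 78) (nat_lit 380) (nat_lit 0) (XT.lf (nat_lit 76) (nat_lit 855555769) (nat_lit 0) (nat_lit 3243288637) (nat_lit 228) (nat_lit 855555769) (nat_lit 220) (nat_lit 1) (nat_lit 219) (nat_lit 1) (nat_lit 222) (nat_lit 1) (nat_lit 338) (nat_lit 362) (nat_lit 320)) (XT.nd (nat_lit 78) (nat_lit 228) (nat_lit 0) (XT.lf (nat_lit 228) (nat_lit 400797075) (nat_lit 0) (nat_lit 2232361480) (nat_lit 152) (nat_lit 2232361480) (nat_lit 220) (nat_lit 1) (nat_lit 217) (nat_lit 1) (nat_lit 219) (nat_lit 1) (nat_lit 339) (nat_lit 362) (nat_lit 319)) (XT.lf (nat_lit 228) (nat_lit 3939292586) (nat_lit 0) (nat_lit 419961340) (nat_lit 152) (nat_lit 419961340) (nat_lit 217) (nat_lit 1) (nat_lit 214) (nat_lit 1) (nat_lit 216) (nat_lit 1) (nat_lit 340) (nat_lit 362) (nat_lit 318))))) (XT.nd (nat_lit 234) (nat_lit 456) (nat_lit 0) (XT.nd (nat_lit 78) (nat_lit 152) (nat_lit 0) (XT.lf (nat_lit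 76) (nat_lit 1311400155) (nat_lit 0) (nat_lit 2070846790) (nat_lit 228) (nat_lit 1311400155) (nat_lit 215) (nat_lit 1) (nat_lit 214) (nat_lit 1) (nat_lit 217) (nat_lit 1) (nat_lit 341) (nat_lit 362) (nat_lit 317)) (XT.nd (nat_lit 78) (nat_lit 0) (nat_lit 0) (XT.lf (nat_lit 228) (nat_lit 1335597389) (nat_lit 0) (nat_lit 1637482853) (nat_lit 152) (nat_lit 1637482853) (nat_lit 215) (nat_lit 1) (nat_lit 212) (nat_lit 1) (nat_lit 214) (nat_lit 1) (nat_lit 342) (nat_lit 362) (nat_lit 316)) (XT.lf (nat_lit 76) (nat_lit 43897402) (nat_lit 0) (nat_lit 4442598047) (nat_lit 228) (nat_lit 43897402) (nat_lit 213) (nat_lit 1) (nat_lit 212) (nat_lit 1) (nat_lit 215) (nat_lit 1) (nat_lit 343) (nat_lit 362) (nat_lit 315)))) (XT.nd (nat_lit 156) (nat_lit 152) (nat_lit 0) (XT.nd (nat_lit 78) (nat_lit 152) (nat_lit 0) (XT.lf (nat_lit 76) (nat_lit 1657494350) (nat_lit 0) (nat_lit 1134724304) (nat_lit 152) (nat_lit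 1657494350) (nat_lit 211) (nat_lit 1) (nat_lit 210) (nat_lit 1) (nat_lit 212) (nat_lit 1) (nat_lit 344) (nat_lit 362) (nat_lit 314)) (XT.lf (nat_lit 228) (nat_lit 2056761795) (nat_lit 0) (nat_lit 1157555042) (nat_lit 152) (nat_lit 1157555042) (nat_lit 211) (nat_lit 1) (nat_lit 208) (nat_lit 1) (nat_lit 210) (nat_lit 1) (nat_lit 345) (nat_lit 362) (nat_lit 313))) (XT.nd (nat_lit 78) (nat_lit 152) (nat_lit 0) (XT.lf (nat_lit 76) (nat_lit 412366525) (nat_lit 0) (nat_lit 3471398835) (nat_lit 228) (nat_lit 412366525) (nat_lit 209) (nat_lit 1) (nat_lit 208) (nat_lit 1) (nat_lit 211) (nat_lit 1) (nat_lit 346) (nat_lit 362) (nat_lit 312)) (XT.lf (nat_lit 76) (nat_lit 1914674415) (nat_lit 0) (nat_lit 391667661) (nat_lit 152) (nat_lit 1914674415) (nat_lit 207) (nat_lit 1) (nat_lit 206) (nat_lit 1) (nat_lit 208) (nat_lit 1) (nat_lit 347) (nat_lit 362) (nat_lit 311))))))) (XT.nd (nat_lit 936) (nat_lit 912)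 (nat_lit 0) (XT.nd (nat_lit 468) (nat_lit 608) (nat_lit 0) (XT.nd (nat_lit 234) (nat_lit 304) (nat_lit 0) (XT.nd (nat_lit 78) (nat_lit 76) (nat_lit 0) (XT.lf (nat_lit 228) (nat_lit 2604448274) (nat_lit 0) (nat_lit 771746109) (nat_lit 152) (nat_lit 771746109) (nat_lit 207) (nat_lit 1) (nat_lit 204) (nat_lit 1) (nat_lit 206) (nat_lit 1) (nat_lit 348) (nat_lit 362) (nat_lit 310)) (XT.nd (nat_lit 78) (nat_lit 76) (nat_lit 0) (XT.lf (nat_lit 76) (nat_lit 697590221) (nat_lit 0) (nat_lit 2681130725) (nat_lit 228) (nat_lit 697590221) (nat_lit 205) (nat_lit 1) (nat_lit 204) (nat_lit 1) (nat_lit 207) (nat_lit 1) (nat_lit 349) (nat_lit 362) (nat_lit 309)) (XT.lf (nat_lit 152) (nat_lit 200252748) (nat_lit 0) (nat_lit 1902890386) (nat_lit 76) (nat_lit 1902890386) (nat_lit 205) (nat_lit 1) (nat_lit 203) (nat_lit 1) (nat_lit 204) (nat_lit 1) (nat_lit 350) (nat_lit 362) (nat_lit 308)))) (XT.nd (nat_lit 78) (nat_lit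 76) (nat_lit 0) (XT.lf (nat_lit 228) (nat_lit 3011586283) (nat_lit 0) (nat_lit 462939063) (nat_lit 152) (nat_lit 462939063) (nat_lit 203) (nat_lit 1) (nat_lit 200) (nat_lit 1) (nat_lit 202) (nat_lit 1) (nat_lit 351) (nat_lit 362) (nat_lit 307)) (XT.nd (nat_lit 78) (nat_lit 76) (nat_lit 0) (XT.lf (nat_lit 76) (nat_lit 915180877) (nat_lit 0) (nat_lit 2039298894) (nat_lit 228) (nat_lit 915180877) (nat_lit 201) (nat_lit 1) (nat_lit 200) (nat_lit 1) (nat_lit 203) (nat_lit 1) (nat_lit 352) (nat_lit 362) (nat_lit 306)) (XT.lf (nat_lit 152) (nat_lit 672494097) (nat_lit 0) (nat_lit 1565512630) (nat_lit 76) (nat_lit 1565512630) (nat_lit 201) (nat_lit 1) (nat_lit 199) (nat_lit 1) (nat_lit 200) (nat_lit 1) (nat_lit 353) (nat_lit 362) (nat_lit 305))))) (XT.nd (nat_lit 234) (nat_lit 304) (nat_lit 0) (XT.nd (nat_lit 78) (nat_lit 76) (nat_lit 0) (XT.lf (nat_lit 228) (nat_lit 3305163529) (nat_lit 0) (nat_lit 217072189)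 (nat_lit 152) (nat_lit 217072189) (nat_lit 199) (nat_lit 1) (nat_lit 196) (nat_lit 1) (nat_lit 198) (nat_lit 1) (nat_lit 354) (nat_lit 362) (nat_lit 304)) (XT.nd (nat_lit 78) (nat_lit 76) (nat_lit 0) (XT.lf (nat_lit 76) (nat_lit 1077942217) (nat_lit 0) (nat_lit 1519189591) (nat_lit 228) (nat_lit 1077942217) (nat_lit 197) (nat_lit 1) (nat_lit 196) (nat_lit 1) (nat_lit 199) (nat_lit 1) (nat_lit 355) (nat_lit 362) (nat_lit 303)) (XT.lf (nat_lit 152) (nat_lit 1036829857) (nat_lit 0) (nat_lit 1287951115) (nat_lit 76) (nat_lit 1287951115) (nat_lit 197) (nat_lit 1) (nat_lit 195) (nat_lit 1) (nat_lit 196) (nat_lit 1) (nat_lit 356) (nat_lit 362) (nat_lit 302)))) (XT.nd (nat_lit 78) (nat_lit 76) (nat_lit 0) (XT.lf (nat_lit 228) (nat_lit 3507284349) (nat_lit 0) (nat_lit 22596375) (nat_lit 152) (nat_lit 22596375) (nat_lit 195) (nat_lit 1) (nat_lit 192) (nat_lit 1) (nat_lit 194) (nat_lit 1) (nat_lit 357) (nat_lit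 362) (nat_lit 301)) (XT.nd (nat_lit 78) (nat_lit 76) (nat_lit 0) (XT.lf (nat_lit 76) (nat_lit 1196369200) (nat_lit 0) (nat_lit 1098844221) (nat_lit 228) (nat_lit 1196369200) (nat_lit 193) (nat_lit 1) (nat_lit 192) (nat_lit 1) (nat_lit 195) (nat_lit 1) (nat_lit 358) (nat_lit 362) (nat_lit 300)) (XT.lf (nat_lit 152) (nat_lit 1313542775) (nat_lit 0) (nat_lit 1059600569) (nat_lit 76) (nat_lit 1059600569) (nat_lit 193) (nat_lit 1) (nat_lit 191) (nat_lit 1) (nat_lit 192) (nat_lit 1) (nat_lit 359) (nat_lit 362) (nat_lit 299)))))) (XT.nd (nat_lit 468) (nat_lit 456) (nat_lit 0) (XT.nd (nat_lit 234) (nat_lit 228) (nat_lit 0) (XT.nd (nat_lit 78) (nat_lit 228) (nat_lit 0) (XT.lf (nat_lit 0) (nat_lit 132101965) (nat_lit 0) (nat_lit 3111477717) (nat_lit 152) (nat_lit 132101965) (nat_lit 191) (nat_lit 3) (nat_lit 191) (nat_lit 1) (nat_lit 193) (nat_lit 1) (nat_lit 360) (nat_lit 362) (nat_lit 298)) (XT.nd (nat_lit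 78) (nat_lit 76) (nat_lit 0) (XT.lf (nat_lit 76) (nat_lit 1279059207) (nat_lit 0) (nat_lit 760215370) (nat_lit 152) (nat_lit 1279059207) (nat_lit 190) (nat_lit 1) (nat_lit 189) (nat_lit 1) (nat_lit 191) (nat_lit 1) (nat_lit 361) (nat_lit 362) (nat_lit 297)) (XT.lf (nat_lit 152) (nat_lit 1519264688) (nat_lit 0) (nat_lit 871736011) (nat_lit 76) (nat_lit 871736011) (nat_lit 190) (nat_lit 1) (nat_lit 188) (nat_lit 1) (nat_lit 189) (nat_lit 1) (nat_lit 362) (nat_lit 362) (nat_lit 296)))) (XT.nd (nat_lit 78) (nat_lit 228) (nat_lit 0) (XT.lf (nat_lit 0) (nat_lit 252487104) (nat_lit 0) (nat_lit 2703626908) (nat_lit 152) (nat_lit 252487104) (nat_lit 188) (nat_lit 3) (nat_lit 188) (nat_lit 1) (nat_lit 190) (nat_lit 1) (nat_lit 363) (nat_lit 362) (nat_lit 295)) (XT.nd (nat_lit 78) (nat_lit 76) (nat_lit 0) (XT.lf (nat_lit 76) (nat_lit 1333050228) (nat_lit 0) (nat_lit 488472503) (nat_lit 152) (nat_lit 1333050228)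 (nat_lit 187) (nat_lit 1) (nat_lit 186) (nat_lit 1) (nat_lit 188) (nat_lit 1) (nat_lit 364) (nat_lit 362) (nat_lit 294)) (XT.lf (nat_lit 152) (nat_lit 1667626434) (nat_lit 0) (nat_lit 717179373) (nat_lit 76) (nat_lit 717179373) (nat_lit 187) (nat_lit 1) (nat_lit 185) (nat_lit 1) (nat_lit 186) (nat_lit 1) (nat_lit 365) (nat_lit 362) (nat_lit 293))))) (XT.nd (nat_lit 234) (nat_lit 228) (nat_lit 0) (XT.nd (nat_lit 78) (nat_lit 228) (nat_lit 0) (XT.lf (nat_lit 0) (nat_lit 344680327) (nat_lit 0) (nat_lit 2361239110) (nat_lit 152) (nat_lit 344680327) (nat_lit 185) (nat_lit 3) (nat_lit 185) (nat_lit 1) (nat_lit 187) (nat_lit 1) (nat_lit 366) (nat_lit 362) (nat_lit 292)) (XT.nd (nat_lit 78) (nat_lit 76) (nat_lit 0) (XT.lf (nat_lit 76) (nat_lit 1364099010) (nat_lit 0) (nat_lit 271430811) (nat_lit 152) (nat_lit 1364099010) (nat_lit 184) (nat_lit 1) (nat_lit 183) (nat_lit 1) (nat_lit 185) (nat_lit 1) (nat_lit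 367) (nat_lit 362) (nat_lit 291)) (XT.lf (nat_lit 152) (nat_lit 1769792408) (nat_lit 0) (nat_lit 590025245) (nat_lit 76) (nat_lit 590025245) (nat_lit 184) (nat_lit 1) (nat_lit 182) (nat_lit 1) (nat_lit 183) (nat_lit 1) (nat_lit 368) (nat_lit 362) (nat_lit 290)))) (XT.nd (nat_lit 156) (nat_lit 76) (nat_lit 0) (XT.nd (nat_lit 78) (nat_lit 152) (nat_lit 0) (XT.lf (nat_lit 0) (nat_lit 414006084) (nat_lit 0) (nat_lit 2073033986) (nat_lit 152) (nat_lit 414006084) (nat_lit 182) (nat_lit 3) (nat_lit 182) (nat_lit 1) (nat_lit 184) (nat_lit 1) (nat_lit 369) (nat_lit 362) (nat_lit 289)) (XT.lf (nat_lit 76) (nat_lit 1376909811) (nat_lit 0) (nat_lit 99081347) (nat_lit 152) (nat_lit 1376909811) (nat_lit 181) (nat_lit 1) (nat_lit 180) (nat_lit 1) (nat_lit 182) (nat_lit 1) (nat_lit 370) (nat_lit 362) (nat_lit 288))) (XT.nd (nat_lit 78) (nat_lit 0) (nat_lit 0) (XT.lf (nat_lit 152) (nat_lit 1834900227) (nat_lit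 0) (nat_lit 485415229) (nat_lit 76) (nat_lit 485415229) (nat_lit 181) (nat_lit 1) (nat_lit 179) (nat_lit 1) (nat_lit 180) (nat_lit 1) (nat_lit 371) (nat_lit 362) (nat_lit 287)) (XT.lf (nat_lit 0) (nat_lit 464829283) (nat_lit 0) (nat_lit 1829715644) (nat_lit 152) (nat_lit 464829283) (nat_lit 179) (nat_lit 3) (nat_lit 179) (nat_lit 1) (nat_lit 181) (nat_lit 1) (nat_lit 372) (nat_lit 362) (nat_lit 286))))))))
noncomputable def ec114 : XT := (XT.nd (nat_lit 1950) (nat_lit 1976) (nat_lit 0) (XT.nd (nat_lit 936) (nat_lit 988) (nat_lit 0) (XT.nd (nat_lit 468) (nat_lit 456) (nat_lit 0) (XT.nd (nat_lit 234) (nat_lit 228) (nat_lit 0) (XT.nd (nat_lit 78) (nat_lit 152) (nat_lit 0) (XT.lf (nat_lit 76) (nat_lit 38012110) (nat_lit 0) (nat_lit 1337903882) (nat_lit 76) (nat_lit 1337903882) (nat_lit 179) (nat_lit 3) (nat_lit 178) (nat_lit 1) (nat_lit 179) (nat_lit 1) (nat_lit 373) (nat_lit 362) (nat_lit 285)) (XT.nd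 (nat_lit 78) (nat_lit 0) (nat_lit 0) (XT.lf (nat_lit 152) (nat_lit 1870422322) (nat_lit 0) (nat_lit 399352310) (nat_lit 76) (nat_lit 399352310) (nat_lit 178) (nat_lit 1) (nat_lit 176) (nat_lit 1) (nat_lit 177) (nat_lit 1) (nat_lit 374) (nat_lit 362) (nat_lit 284)) (XT.lf (nat_lit 0) (nat_lit 500726157) (nat_lit 0) (nat_lit 1623621544) (nat_lit 152) (nat_lit 500726157) (nat_lit 176) (nat_lit 3) (nat_lit 176) (nat_lit 1) (nat_lit 178) (nat_lit 1) (nat_lit 375) (nat_lit 362) (nat_lit 283)))) (XT.nd (nat_lit 78) (nat_lit 152) (nat_lit 0) (XT.lf (nat_lit 76) (nat_lit 147674388) (nat_lit 0) (nat_lit 1217098565) (nat_lit 76) (nat_lit 1217098565) (nat_lit 176) (nat_lit 3) (nat_lit 175) (nat_lit 1) (nat_lit 176) (nat_lit 1) (nat_lit 376) (nat_lit 362) (nat_lit 282)) (XT.nd (nat_lit 78) (nat_lit 0) (nat_lit 0) (XT.lf (nat_lit 152) (nat_lit 1882463325) (nat_lit 0) (nat_lit 328548134) (nat_lit 76) (nat_lit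 328548134) (nat_lit 175) (nat_lit 1) (nat_lit 173) (nat_lit 1) (nat_lit 174) (nat_lit 1) (nat_lit 377) (nat_lit 362) (nat_lit 281)) (XT.lf (nat_lit 0) (nat_lit 524624797) (nat_lit 0) (nat_lit 1448433610) (nat_lit 152) (nat_lit 524624797) (nat_lit 173) (nat_lit 3) (nat_lit 173) (nat_lit 1) (nat_lit 175) (nat_lit 1) (nat_lit 378) (nat_lit 362) (nat_lit 280))))) (XT.nd (nat_lit 234) (nat_lit 228) (nat_lit 0) (XT.nd (nat_lit 78) (nat_lit 152) (nat_lit 0) (XT.lf (nat_lit 76) (nat_lit 232350875) (nat_lit 0) (nat_lit 1112168793) (nat_lit 76) (nat_lit 1112168793) (nat_lit 173) (nat_lit 3) (nat_lit 172) (nat_lit 1) (nat_lit 173) (nat_lit 1) (nat_lit 379) (nat_lit 362) (nat_lit 279)) (XT.nd (nat_lit 78) (nat_lit 0) (nat_lit 0) (XT.lf (nat_lit 152) (nat_lit 1876004619) (nat_lit 0) (nat_lit 270297363) (nat_lit 76) (nat_lit 270297363) (nat_lit 172) (nat_lit 1) (nat_lit 170) (nat_lit 1) (nat_lit 171) (nat_lit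 1) (nat_lit 380) (nat_lit 362) (nat_lit 278)) (XT.lf (nat_lit 0) (nat_lit 538920736) (nat_lit 0) (nat_lit 1298940533) (nat_lit 152) (nat_lit 538920736) (nat_lit 170) (nat_lit 3) (nat_lit 170) (nat_lit 1) (nat_lit 172) (nat_lit 1) (nat_lit 381) (nat_lit 362) (nat_lit 277)))) (XT.nd (nat_lit 78) (nat_lit 152) (nat_lit 0) (XT.lf (nat_lit 76) (nat_lit 296735441) (nat_lit 0) (nat_lit 1020563819) (nat_lit 76) (nat_lit 1020563819) (nat_lit 170) (nat_lit 3) (nat_lit 169) (nat_lit 1) (nat_lit 170) (nat_lit 1) (nat_lit 382) (nat_lit 362) (nat_lit 276)) (XT.nd (nat_lit 78) (nat_lit 0) (nat_lit 0) (XT.lf (nat_lit 152) (nat_lit 1855105436) (nat_lit 0) (nat_lit 222374309) (nat_lit 76) (nat_lit 222374309) (nat_lit 169) (nat_lit 1) (nat_lit 167) (nat_lit 1) (nat_lit 168) (nat_lit 1) (nat_lit 383) (nat_lit 362) (nat_lit 275)) (XT.lf (nat_lit 0) (nat_lit 545572011) (nat_lit 0) (nat_lit 1170842179) (nat_lit 152)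 (nat_lit 545572011) (nat_lit 167) (nat_lit 3) (nat_lit 167) (nat_lit 1) (nat_lit 169) (nat_lit 1) (nat_lit 384) (nat_lit 362) (nat_lit 274)))))) (XT.nd (nat_lit 468) (nat_lit 532) (nat_lit 0) (XT.nd (nat_lit 234) (nat_lit 228) (nat_lit 0) (XT.nd (nat_lit 78) (nat_lit 152) (nat_lit 0) (XT.lf (nat_lit 76) (nat_lit 344677173) (nat_lit 0) (nat_lit 940172571) (nat_lit 76) (nat_lit 940172571) (nat_lit 167) (nat_lit 3) (nat_lit 166) (nat_lit 1) (nat_lit 167) (nat_lit 1) (nat_lit 385) (nat_lit 362) (nat_lit 273)) (XT.nd (nat_lit 78) (nat_lit 0) (nat_lit 0) (XT.lf (nat_lit 152) (nat_lit 1823068208) (nat_lit 0) (nat_lit 182947894) (nat_lit 76) (nat_lit 182947894) (nat_lit 166) (nat_lit 1) (nat_lit 164) (nat_lit 1) (nat_lit 165) (nat_lit 1) (nat_lit 386) (nat_lit 362) (nat_lit 272)) (XT.lf (nat_lit 0) (nat_lit 546177337) (nat_lit 0) (nat_lit 1060588651) (nat_lit 152) (nat_lit 546177337) (nat_lit 164) (nat_lit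 3) (nat_lit 164) (nat_lit 1) (nat_lit 166) (nat_lit 1) (nat_lit 387) (nat_lit 362) (nat_lit 271)))) (XT.nd (nat_lit 78) (nat_lit 152) (nat_lit 0) (XT.lf (nat_lit 76) (nat_lit 379330755) (nat_lit 0) (nat_lit 869246292) (nat_lit 76) (nat_lit 869246292) (nat_lit 164) (nat_lit 3) (nat_lit 163) (nat_lit 1) (nat_lit 164) (nat_lit 1) (nat_lit 388) (nat_lit 362) (nat_lit 270)) (XT.nd (nat_lit 78) (nat_lit 0) (nat_lit 0) (XT.lf (nat_lit 152) (nat_lit 1782574511) (nat_lit 0) (nat_lit 150511685) (nat_lit 76) (nat_lit 150511685) (nat_lit 163) (nat_lit 1) (nat_lit 161) (nat_lit 1) (nat_lit 162) (nat_lit 1) (nat_lit 389) (nat_lit 362) (nat_lit 269)) (XT.lf (nat_lit 0) (nat_lit 542040393) (nat_lit 0) (nat_lit 965247854) (nat_lit 152) (nat_lit 542040393) (nat_lit 161) (nat_lit 3) (nat_lit 161) (nat_lit 1) (nat_lit 163) (nat_lit 1) (nat_lit 390) (nat_lit 362) (nat_lit 268))))) (XT.nd (nat_lit 234) (nat_lit 304)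 (nat_lit 0) (XT.nd (nat_lit 78) (nat_lit 152) (nat_lit 0) (XT.lf (nat_lit 76) (nat_lit 403280152) (nat_lit 0) (nat_lit 806334878) (nat_lit 76) (nat_lit 806334878) (nat_lit 161) (nat_lit 3) (nat_lit 160) (nat_lit 1) (nat_lit 161) (nat_lit 1) (nat_lit 391) (nat_lit 362) (nat_lit 267)) (XT.nd (nat_lit 78) (nat_lit 0) (nat_lit 0) (XT.lf (nat_lit 152) (nat_lit 1735796829) (nat_lit 0) (nat_lit 123826336) (nat_lit 76) (nat_lit 123826336) (nat_lit 160) (nat_lit 1) (nat_lit 158) (nat_lit 1) (nat_lit 159) (nat_lit 1) (nat_lit 392) (nat_lit 362) (nat_lit 266)) (XT.lf (nat_lit 0) (nat_lit 534222683) (nat_lit 0) (nat_lit 882396509) (nat_lit 152) (nat_lit 534222683) (nat_lit 158) (nat_lit 3) (nat_lit 158) (nat_lit 1) (nat_lit 160) (nat_lit 1) (nat_lit 393) (nat_lit 362) (nat_lit 265)))) (XT.nd (nat_lit 156) (nat_lit 76) (nat_lit 0) (XT.nd (nat_lit 78) (nat_lit 152) (nat_lit 0) (XT.lf (nat_lit 76) (nat_lit 418640343)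 (nat_lit 0) (nat_lit 750234463) (nat_lit 76) (nat_lit 750234463) (nat_lit 158) (nat_lit 3) (nat_lit 157) (nat_lit 1) (nat_lit 158) (nat_lit 1) (nat_lit 394) (nat_lit 362) (nat_lit 264)) (XT.lf (nat_lit 152) (nat_lit 1684490410) (nat_lit 0) (nat_lit 101872233) (nat_lit 76) (nat_lit 101872233) (nat_lit 157) (nat_lit 1) (nat_lit 155) (nat_lit 1) (nat_lit 156) (nat_lit 1) (nat_lit 395) (nat_lit 362) (nat_lit 263))) (XT.nd (nat_lit 78) (nat_lit 76) (nat_lit 0) (XT.lf (nat_lit 0) (nat_lit 523587000) (nat_lit 0) (nat_lit 810030468) (nat_lit 152) (nat_lit 523587000) (nat_lit 155) (nat_lit 3) (nat_lit 155) (nat_lit 1) (nat_lit 157) (nat_lit 1) (nat_lit 396) (nat_lit 362) (nat_lit 262)) (XT.lf (nat_lit 76) (nat_lit 427140983) (nat_lit 0) (nat_lit 699944286) (nat_lit 76) (nat_lit 699944286) (nat_lit 155) (nat_lit 3) (nat_lit 154) (nat_lit 1) (nat_lit 155) (nat_lit 1) (nat_lit 397) (nat_lit 362) (nat_lit 261)))))))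 (XT.nd (nat_lit 936) (nat_lit 1064) (nat_lit 0) (XT.nd (nat_lit 468) (nat_lit 456) (nat_lit 0) (XT.nd (nat_lit 234) (nat_lit 228) (nat_lit 0) (XT.nd (nat_lit 78) (nat_lit 76) (nat_lit 0) (XT.lf (nat_lit 152) (nat_lit 1630068776) (nat_lit 0) (nat_lit 83810538) (nat_lit 76) (nat_lit 83810538) (nat_lit 154) (nat_lit 1) (nat_lit 152) (nat_lit 1) (nat_lit 153) (nat_lit 1) (nat_lit 398) (nat_lit 362) (nat_lit 260)) (XT.nd (nat_lit 78) (nat_lit 76) (nat_lit 0) (XT.lf (nat_lit 0) (nat_lit 510833155) (nat_lit 0) (nat_lit 746490905) (nat_lit 152) (nat_lit 510833155) (nat_lit 152) (nat_lit 3) (nat_lit 152) (nat_lit 1) (nat_lit 154) (nat_lit 1) (nat_lit 399) (nat_lit 362) (nat_lit 259)) (XT.lf (nat_lit 76) (nat_lit 430195216) (nat_lit 0) (nat_lit 654631169) (nat_lit 76) (nat_lit 654631169) (nat_lit 152) (nat_lit 3) (nat_lit 151) (nat_lit 1) (nat_lit 152) (nat_lit 1) (nat_lit 400) (nat_lit 362) (nat_lit 258))))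 (XT.nd (nat_lit 78) (nat_lit 76) (nat_lit 0) (XT.lf (nat_lit 152) (nat_lit 1573665755) (nat_lit 0) (nat_lit 68951137) (nat_lit 76) (nat_lit 68951137) (nat_lit 151) (nat_lit 1) (nat_lit 149) (nat_lit 1) (nat_lit 150) (nat_lit 1) (nat_lit 401) (nat_lit 362) (nat_lit 257)) (XT.nd (nat_lit 78) (nat_lit 76) (nat_lit 0) (XT.lf (nat_lit 0) (nat_lit 496527353) (nat_lit 0) (nat_lit 690403567) (nat_lit 152) (nat_lit 496527353) (nat_lit 149) (nat_lit 3) (nat_lit 149) (nat_lit 1) (nat_lit 151) (nat_lit 1) (nat_lit 402) (nat_lit 362) (nat_lit 256)) (XT.lf (nat_lit 76) (nat_lit 428956262) (nat_lit 0) (nat_lit 613600276) (nat_lit 76) (nat_lit 613600276) (nat_lit 149) (nat_lit 3) (nat_lit 148) (nat_lit 1) (nat_lit 149) (nat_lit 1) (nat_lit 403) (nat_lit 362) (nat_lit 255))))) (XT.nd (nat_lit 234) (nat_lit 228) (nat_lit 0) (XT.nd (nat_lit 78) (nat_lit 76) (nat_lit 0) (XT.lf (nat_lit 152) (nat_lit 1516186463) (nat_lit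 0) (nat_lit 56726271) (nat_lit 76) (nat_lit 56726271) (nat_lit 148) (nat_lit 1) (nat_lit 146) (nat_lit 1) (nat_lit 147) (nat_lit 1) (nat_lit 404) (nat_lit 362) (nat_lit 254)) (XT.nd (nat_lit 78) (nat_lit 76) (nat_lit 0) (XT.lf (nat_lit 0) (nat_lit 481126332) (nat_lit 0) (nat_lit 640628773) (nat_lit 152) (nat_lit 481126332) (nat_lit 146) (nat_lit 3) (nat_lit 146) (nat_lit 1) (nat_lit 148) (nat_lit 1) (nat_lit 405) (nat_lit 362) (nat_lit 253)) (XT.lf (nat_lit 76) (nat_lit 424363944) (nat_lit 0) (nat_lit 576271031) (nat_lit 76) (nat_lit 576271031) (nat_lit 146) (nat_lit 3) (nat_lit 145) (nat_lit 1) (nat_lit 146) (nat_lit 1) (nat_lit 406) (nat_lit 362) (nat_lit 252)))) (XT.nd (nat_lit 78) (nat_lit 76) (nat_lit 0) (XT.lf (nat_lit 152) (nat_lit 1458349166) (nat_lit 0) (nat_lit 46668843) (nat_lit 76) (nat_lit 46668843) (nat_lit 145) (nat_lit 1) (nat_lit 143) (nat_lit 1) (nat_lit 144) (nat_lit 1) (nat_lit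 407) (nat_lit 362) (nat_lit 251)) (XT.nd (nat_lit 78) (nat_lit 76) (nat_lit 0) (XT.lf (nat_lit 0) (nat_lit 464997205) (nat_lit 0) (nat_lit 596220258) (nat_lit 152) (nat_lit 464997205) (nat_lit 143) (nat_lit 3) (nat_lit 143) (nat_lit 1) (nat_lit 145) (nat_lit 1) (nat_lit 408) (nat_lit 362) (nat_lit 250)) (XT.lf (nat_lit 76) (nat_lit 417182948) (nat_lit 0) (nat_lit 542157284) (nat_lit 76) (nat_lit 542157284) (nat_lit 143) (nat_lit 3) (nat_lit 142) (nat_lit 1) (nat_lit 143) (nat_lit 1) (nat_lit 409) (nat_lit 362) (nat_lit 249)))))) (XT.nd (nat_lit 468) (nat_lit 608) (nat_lit 0) (XT.nd (nat_lit 234) (nat_lit 228) (nat_lit 0) (XT.nd (nat_lit 78) (nat_lit 76) (nat_lit 0) (XT.lf (nat_lit 152) (nat_lit 1400719669) (nat_lit 0) (nat_lit 38394573) (nat_lit 76) (nat_lit 38394573) (nat_lit 142) (nat_lit 1) (nat_lit 140) (nat_lit 1) (nat_lit 141) (nat_lit 1) (nat_lit 410) (nat_lit 362) (nat_lit 248)) (XT.nd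 (nat_lit 78) (nat_lit 76) (nat_lit 0) (XT.lf (nat_lit 0) (nat_lit 448433761) (nat_lit 0) (nat_lit 556391292) (nat_lit 152) (nat_lit 448433761) (nat_lit 140) (nat_lit 3) (nat_lit 140) (nat_lit 1) (nat_lit 142) (nat_lit 1) (nat_lit 411) (nat_lit 362) (nat_lit 247)) (XT.lf (nat_lit 76) (nat_lit 408034282) (nat_lit 0) (nat_lit 510850978) (nat_lit 76) (nat_lit 510850978) (nat_lit 140) (nat_lit 3) (nat_lit 139) (nat_lit 1) (nat_lit 140) (nat_lit 1) (nat_lit 412) (nat_lit 362) (nat_lit 246)))) (XT.nd (nat_lit 78) (nat_lit 76) (nat_lit 0) (XT.lf (nat_lit 152) (nat_lit 1343739540) (nat_lit 0) (nat_lit 31587310) (nat_lit 76) (nat_lit 31587310) (nat_lit 139) (nat_lit 1) (nat_lit 137) (nat_lit 1) (nat_lit 138) (nat_lit 1) (nat_lit 413) (nat_lit 362) (nat_lit 245)) (XT.nd (nat_lit 78) (nat_lit 76) (nat_lit 0) (XT.lf (nat_lit 0) (nat_lit 431669860) (nat_lit 0) (nat_lit 520486788) (nat_lit 152) (nat_lit 431669860)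 (nat_lit 137) (nat_lit 3) (nat_lit 137) (nat_lit 1) (nat_lit 139) (nat_lit 1) (nat_lit 414) (nat_lit 362) (nat_lit 244)) (XT.lf (nat_lit 76) (nat_lit 397421137) (nat_lit 0) (nat_lit 482008687) (nat_lit 76) (nat_lit 482008687) (nat_lit 137) (nat_lit 3) (nat_lit 136) (nat_lit 1) (nat_lit 137) (nat_lit 1) (nat_lit 415) (nat_lit 362) (nat_lit 243))))) (XT.nd (nat_lit 234) (nat_lit 380) (nat_lit 0) (XT.nd (nat_lit 78) (nat_lit 76) (nat_lit 0) (XT.lf (nat_lit 152) (nat_lit 1287749274) (nat_lit 0) (nat_lit 25986958) (nat_lit 76) (nat_lit 25986958) (nat_lit 136) (nat_lit 1) (nat_lit 134) (nat_lit 1) (nat_lit 135) (nat_lit 1) (nat_lit 416) (nat_lit 362) (nat_lit 242)) (XT.nd (nat_lit 78) (nat_lit 76) (nat_lit 0) (XT.lf (nat_lit 0) (nat_lit 414890429) (nat_lit 0) (nat_lit 487960336) (nat_lit 152) (nat_lit 414890429) (nat_lit 134) (nat_lit 3) (nat_lit 134) (nat_lit 1) (nat_lit 136) (nat_lit 1) (nat_lit 417)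 (nat_lit 362) (nat_lit 241)) (XT.lf (nat_lit 76) (nat_lit 385750136) (nat_lit 0) (nat_lit 455340523) (nat_lit 76) (nat_lit 455340523) (nat_lit 134) (nat_lit 3) (nat_lit 133) (nat_lit 1) (nat_lit 134) (nat_lit 1) (nat_lit 418) (nat_lit 362) (nat_lit 240)))) (XT.nd (nat_lit 156) (nat_lit 228) (nat_lit 0) (XT.nd (nat_lit 78) (nat_lit 0) (nat_lit 0) (XT.lf (nat_lit 152) (nat_lit 1233007305) (nat_lit 0) (nat_lit 21379535) (nat_lit 76) (nat_lit 21379535) (nat_lit 133) (nat_lit 1) (nat_lit 131) (nat_lit 1) (nat_lit 132) (nat_lit 1) (nat_lit 419) (nat_lit 362) (nat_lit 239)) (XT.lf (nat_lit 0) (nat_lit 398240495) (nat_lit 0) (nat_lit 458355287) (nat_lit 152) (nat_lit 398240495) (nat_lit 131) (nat_lit 3) (nat_lit 131) (nat_lit 1) (nat_lit 133) (nat_lit 1) (nat_lit 420) (nat_lit 362) (nat_lit 238))) (XT.nd (nat_lit 78) (nat_lit 152) (nat_lit 0) (XT.lf (nat_lit 76) (nat_lit 373348814) (nat_lit 0) (nat_lit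 430600998) (nat_lit 76) (nat_lit 430600998) (nat_lit 131) (nat_lit 3) (nat_lit 130) (nat_lit 1) (nat_lit 131) (nat_lit 1) (nat_lit 421) (nat_lit 362) (nat_lit 237)) (XT.lf (nat_lit 152) (nat_lit 1179705580) (nat_lit 0) (nat_lit 17588996) (nat_lit 76) (nat_lit 17588996) (nat_lit 130) (nat_lit 1) (nat_lit 128) (nat_lit 1) (nat_lit 129) (nat_lit 1) (nat_lit 422) (nat_lit 362) (nat_lit 236))))))))
noncomputable def ec115 : XT := (XT.nd (nat_lit 1950) (nat_lit 228) (nat_lit 0) (XT.nd (nat_lit 936) (nat_lit 912) (nat_lit 0) (XT.nd (nat_lit 468) (nat_lit 456) (nat_lit 0) (XT.nd (nat_lit 234) (nat_lit 228) (nat_lit 0) (XT.nd (nat_lit 78) (nat_lit 228) (nat_lit 0) (XT.lf (nat_lit 0) (nat_lit 381832594) (nat_lit 0) (nat_lit 431289183) (nat_lit 152) (nat_lit 381832594) (nat_lit 128) (nat_lit 3) (nat_lit 128) (nat_lit 1) (nat_lit 130) (nat_lit 1) (nat_lit 423) (nat_lit 362) (nat_lit 235)) (XT.nd (nat_lit 78)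 (nat_lit 152) (nat_lit 0) (XT.lf (nat_lit 76) (nat_lit 360479967) (nat_lit 0) (nat_lit 407581480) (nat_lit 76) (nat_lit 407581480) (nat_lit 128) (nat_lit 3) (nat_lit 127) (nat_lit 1) (nat_lit 128) (nat_lit 1) (nat_lit 424) (nat_lit 362) (nat_lit 234)) (XT.lf (nat_lit 152) (nat_lit 1127982338) (nat_lit 0) (nat_lit 14470510) (nat_lit 76) (nat_lit 14470510) (nat_lit 127) (nat_lit 1) (nat_lit 125) (nat_lit 1) (nat_lit 126) (nat_lit 1) (nat_lit 425) (nat_lit 362) (nat_lit 233)))) (XT.nd (nat_lit 78) (nat_lit 228) (nat_lit 0) (XT.lf (nat_lit 0) (nat_lit 365752862) (nat_lit 0) (nat_lit 406440920) (nat_lit 152) (nat_lit 365752862) (nat_lit 125) (nat_lit 3) (nat_lit 125) (nat_lit 1) (nat_lit 127) (nat_lit 1) (nat_lit 426) (nat_lit 362) (nat_lit 232)) (XT.nd (nat_lit 78) (nat_lit 152) (nat_lit 0) (XT.lf (nat_lit 76) (nat_lit 347353451) (nat_lit 0) (nat_lit 386103982) (nat_lit 76) (nat_lit 386103982) (nat_lit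 125) (nat_lit 3) (nat_lit 124) (nat_lit 1) (nat_lit 125) (nat_lit 1) (nat_lit 427) (nat_lit 362) (nat_lit 231)) (XT.lf (nat_lit 152) (nat_lit 1077932563) (nat_lit 0) (nat_lit 11904925) (nat_lit 76) (nat_lit 11904925) (nat_lit 124) (nat_lit 1) (nat_lit 122) (nat_lit 1) (nat_lit 123) (nat_lit 1) (nat_lit 428) (nat_lit 362) (nat_lit 230))))) (XT.nd (nat_lit 234) (nat_lit 228) (nat_lit 0) (XT.nd (nat_lit 78) (nat_lit 228) (nat_lit 0) (XT.lf (nat_lit 0) (nat_lit 350066015) (nat_lit 0) (nat_lit 383540181) (nat_lit 152) (nat_lit 350066015) (nat_lit 122) (nat_lit 3) (nat_lit 122) (nat_lit 1) (nat_lit 124) (nat_lit 1) (nat_lit 429) (nat_lit 362) (nat_lit 229)) (XT.nd (nat_lit 78) (nat_lit 152) (nat_lit 0) (XT.lf (nat_lit 76) (nat_lit 334135867) (nat_lit 0) (nat_lit 366016025) (nat_lit 76) (nat_lit 366016025) (nat_lit 122) (nat_lit 3) (nat_lit 121) (nat_lit 1) (nat_lit 122) (nat_lit 1) (nat_lit 430) (nat_lit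 362) (nat_lit 228)) (XT.lf (nat_lit 152) (nat_lit 1029616551) (nat_lit 0) (nat_lit 9794211) (nat_lit 76) (nat_lit 9794211) (nat_lit 121) (nat_lit 1) (nat_lit 119) (nat_lit 1) (nat_lit 120) (nat_lit 1) (nat_lit 431) (nat_lit 362) (nat_lit 227)))) (XT.nd (nat_lit 78) (nat_lit 228) (nat_lit 0) (XT.lf (nat_lit 0) (nat_lit 334819443) (nat_lit 0) (nat_lit 362358723) (nat_lit 152) (nat_lit 334819443) (nat_lit 119) (nat_lit 3) (nat_lit 119) (nat_lit 1) (nat_lit 121) (nat_lit 1) (nat_lit 432) (nat_lit 362) (nat_lit 226)) (XT.nd (nat_lit 78) (nat_lit 152) (nat_lit 0) (XT.lf (nat_lit 76) (nat_lit 320958522) (nat_lit 0) (nat_lit 347186407) (nat_lit 76) (nat_lit 347186407) (nat_lit 119) (nat_lit 3) (nat_lit 118) (nat_lit 1) (nat_lit 119) (nat_lit 1) (nat_lit 433) (nat_lit 362) (nat_lit 225)) (XT.lf (nat_lit 152) (nat_lit 983066907) (nat_lit 0) (nat_lit 8057721) (nat_lit 76) (nat_lit 8057721) (nat_lit 118) (nat_lit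 1) (nat_lit 116) (nat_lit 1) (nat_lit 117) (nat_lit 1) (nat_lit 434) (nat_lit 362) (nat_lit 224)))))) (XT.nd (nat_lit 468) (nat_lit 456) (nat_lit 0) (XT.nd (nat_lit 234) (nat_lit 228) (nat_lit 0) (XT.nd (nat_lit 78) (nat_lit 228) (nat_lit 0) (XT.lf (nat_lit 0) (nat_lit 320046563) (nat_lit 0) (nat_lit 342703196) (nat_lit 152) (nat_lit 320046563) (nat_lit 116) (nat_lit 3) (nat_lit 116) (nat_lit 1) (nat_lit 118) (nat_lit 1) (nat_lit 435) (nat_lit 362) (nat_lit 223)) (XT.nd (nat_lit 78) (nat_lit 152) (nat_lit 0) (XT.lf (nat_lit 76) (nat_lit 307923958) (nat_lit 0) (nat_lit 329501704) (nat_lit 76) (nat_lit 329501704) (nat_lit 116) (nat_lit 3) (nat_lit 115) (nat_lit 1) (nat_lit 116) (nat_lit 1) (nat_lit 436) (nat_lit 362) (nat_lit 222)) (XT.lf (nat_lit 152) (nat_lit 938294266) (nat_lit 0) (nat_lit 6629107) (nat_lit 76) (nat_lit 6629107) (nat_lit 115) (nat_lit 1) (nat_lit 113) (nat_lit 1) (nat_lit 114)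 (nat_lit 1) (nat_lit 437) (nat_lit 362) (nat_lit 221)))) (XT.nd (nat_lit 78) (nat_lit 228) (nat_lit 0) (XT.lf (nat_lit 0) (nat_lit 305769554) (nat_lit 0) (nat_lit 324409222) (nat_lit 152) (nat_lit 305769554) (nat_lit 113) (nat_lit 3) (nat_lit 113) (nat_lit 1) (nat_lit 115) (nat_lit 1) (nat_lit 438) (nat_lit 362) (nat_lit 220)) (XT.nd (nat_lit 78) (nat_lit 152) (nat_lit 0) (XT.lf (nat_lit 76) (nat_lit 295111315) (nat_lit 0) (nat_lit 312863380) (nat_lit 76) (nat_lit 312863380) (nat_lit 113) (nat_lit 3) (nat_lit 112) (nat_lit 1) (nat_lit 113) (nat_lit 1) (nat_lit 439) (nat_lit 362) (nat_lit 219)) (XT.lf (nat_lit 152) (nat_lit 895291956) (nat_lit 0) (nat_lit 5453783) (nat_lit 76) (nat_lit 5453783) (nat_lit 112) (nat_lit 1) (nat_lit 110) (nat_lit 1) (nat_lit 111) (nat_lit 1) (nat_lit 440) (nat_lit 362) (nat_lit 218))))) (XT.nd (nat_lit 234) (nat_lit 228) (nat_lit 0) (XT.nd (nat_lit 78) (nat_lit 228)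 (nat_lit 0) (XT.lf (nat_lit 0) (nat_lit 292001612) (nat_lit 0) (nat_lit 307336513) (nat_lit 152) (nat_lit 292001612) (nat_lit 110) (nat_lit 3) (nat_lit 110) (nat_lit 1) (nat_lit 112) (nat_lit 1) (nat_lit 441) (nat_lit 362) (nat_lit 217)) (XT.nd (nat_lit 78) (nat_lit 152) (nat_lit 0) (XT.lf (nat_lit 76) (nat_lit 282580725) (nat_lit 0) (nat_lit 297185393) (nat_lit 76) (nat_lit 297185393) (nat_lit 110) (nat_lit 3) (nat_lit 109) (nat_lit 1) (nat_lit 110) (nat_lit 1) (nat_lit 442) (nat_lit 362) (nat_lit 216)) (XT.lf (nat_lit 152) (nat_lit 854039804) (nat_lit 0) (nat_lit 4486841) (nat_lit 76) (nat_lit 4486841) (nat_lit 109) (nat_lit 1) (nat_lit 107) (nat_lit 1) (nat_lit 108) (nat_lit 1) (nat_lit 443) (nat_lit 362) (nat_lit 215)))) (XT.nd (nat_lit 156) (nat_lit 152) (nat_lit 0) (XT.nd (nat_lit 78) (nat_lit 76) (nat_lit 0) (XT.lf (nat_lit 0) (nat_lit 278748775) (nat_lit 0) (nat_lit 291364837) (nat_lit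 152) (nat_lit 278748775) (nat_lit 107) (nat_lit 3) (nat_lit 107) (nat_lit 1) (nat_lit 109) (nat_lit 1) (nat_lit 444) (nat_lit 362) (nat_lit 214)) (XT.lf (nat_lit 76) (nat_lit 270376925) (nat_lit 0) (nat_lit 282392222) (nat_lit 76) (nat_lit 282392222) (nat_lit 107) (nat_lit 3) (nat_lit 106) (nat_lit 1) (nat_lit 107) (nat_lit 1) (nat_lit 445) (nat_lit 362) (nat_lit 213))) (XT.nd (nat_lit 78) (nat_lit 0) (nat_lit 0) (XT.lf (nat_lit 152) (nat_lit 814507229) (nat_lit 0) (nat_lit 3691335) (nat_lit 76) (nat_lit 3691335) (nat_lit 106) (nat_lit 1) (nat_lit 104) (nat_lit 1) (nat_lit 105) (nat_lit 1) (nat_lit 446) (nat_lit 362) (nat_lit 212)) (XT.lf (nat_lit 0) (nat_lit 266011428) (nat_lit 0) (nat_lit 276390693) (nat_lit 152) (nat_lit 266011428) (nat_lit 104) (nat_lit 3) (nat_lit 104) (nat_lit 1) (nat_lit 106) (nat_lit 1) (nat_lit 447) (nat_lit 362) (nat_lit 211))))))) (XT.nd (nat_lit 41964) (nat_lit 0) (nat_lit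 11552) (XT.nd (nat_lit 41418) (nat_lit 0) (nat_lit 14668) (XT.nd (nat_lit 41184) (nat_lit 0) (nat_lit 14516) (XT.nd (nat_lit 78) (nat_lit 152) (nat_lit 0) (XT.lf (nat_lit 76) (nat_lit 258532207) (nat_lit 0) (nat_lit 268417221) (nat_lit 76) (nat_lit 268417221) (nat_lit 104) (nat_lit 3) (nat_lit 103) (nat_lit 1) (nat_lit 104) (nat_lit 1) (nat_lit 448) (nat_lit 362) (nat_lit 210)) (XT.nd (nat_lit 41028) (nat_lit 0) (nat_lit 14516) (XT.lf (nat_lit 152) (nat_lit 776655749) (nat_lit 0) (nat_lit 3036870) (nat_lit 76) (nat_lit 3036870) (nat_lit 103) (nat_lit 1) (nat_lit 101) (nat_lit 1) (nat_lit 102) (nat_lit 1) (nat_lit 449) (nat_lit 362) (nat_lit 209)) (XT.lf (nat_lit 836) (nat_lit 1650454505) (nat_lit 0) (nat_lit 2930378180) (nat_lit 836) (nat_lit 1650454505) (nat_lit 303) (nat_lit 1) (nat_lit 292) (nat_lit 0) (nat_lit 303) (nat_lit 0) (nat_lit 294) (nat_lit 363) (nat_lit 363)))) (XT.nd (nat_lit 78)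 (nat_lit 0) (nat_lit 76) (XT.lf (nat_lit 836) (nat_lit 6397367714) (nat_lit 76) (nat_lit 2883114016) (nat_lit 0) (nat_lit 2883114016) (nat_lit 303) (nat_lit 1) (nat_lit 293) (nat_lit 1) (nat_lit 292) (nat_lit 0) (nat_lit 295) (nat_lit 363) (nat_lit 362)) (XT.nd (nat_lit 78) (nat_lit 0) (nat_lit 0) (XT.lf (nat_lit 836) (nat_lit 3048889127) (nat_lit 0) (nat_lit 5776081892) (nat_lit 760) (nat_lit 3048889127) (nat_lit 304) (nat_lit 1) (nat_lit 293) (nat_lit 1) (nat_lit 303) (nat_lit 1) (nat_lit 296) (nat_lit 363) (nat_lit 361)) (XT.lf (nat_lit 836) (nat_lit 5719292349) (nat_lit 76) (nat_lit 2937096408) (nat_lit 0) (nat_lit 2937096408) (nat_lit 304) (nat_lit 1) (nat_lit 294) (nat_lit 1) (nat_lit 293) (nat_lit 1) (nat_lit 297) (nat_lit 363) (nat_lit 360))))) (XT.nd (nat_lit 234) (nat_lit 0) (nat_lit 76) (XT.nd (nat_lit 78) (nat_lit 0) (nat_lit 0) (XT.lf (nat_lit 836) (nat_lit 2632535345) (nat_lit 0)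 (nat_lit 6056925973) (nat_lit 760) (nat_lit 2632535345) (nat_lit 305) (nat_lit 1) (nat_lit 294) (nat_lit 1) (nat_lit 304) (nat_lit 1) (nat_lit 298) (nat_lit 363) (nat_lit 359)) (XT.nd (nat_lit 78) (nat_lit 0) (nat_lit 76) (XT.lf (nat_lit 836) (nat_lit 4734786281) (nat_lit 76) (nat_lit 3161998944) (nat_lit 0) (nat_lit 3161998944) (nat_lit 305) (nat_lit 1) (nat_lit 295) (nat_lit 1) (nat_lit 294) (nat_lit 1) (nat_lit 299) (nat_lit 363) (nat_lit 358)) (XT.lf (nat_lit 836) (nat_lit 2076067031) (nat_lit 0) (nat_lit 6652275378) (nat_lit 760) (nat_lit 2076067031) (nat_lit 306) (nat_lit 1) (nat_lit 295) (nat_lit 1) (nat_lit 305) (nat_lit 1) (nat_lit 300) (nat_lit 363) (nat_lit 357)))) (XT.nd (nat_lit 156) (nat_lit 0) (nat_lit 76) (XT.nd (nat_lit 78) (nat_lit 0) (nat_lit 76) (XT.lf (nat_lit 836) (nat_lit 3489932423) (nat_lit 76) (nat_lit 3533553047) (nat_lit 0) (nat_lit 3533553047) (nat_lit 306) (nat_lit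 1) (nat_lit 296) (nat_lit 1) (nat_lit 295) (nat_lit 1) (nat_lit 301) (nat_lit 363) (nat_lit 356)) (XT.lf (nat_lit 836) (nat_lit 1401026094) (nat_lit 0) (nat_lit 7516670594) (nat_lit 760) (nat_lit 1401026094) (nat_lit 307) (nat_lit 1) (nat_lit 296) (nat_lit 1) (nat_lit 306) (nat_lit 1) (nat_lit 302) (nat_lit 363) (nat_lit 355))) (XT.nd (nat_lit 78) (nat_lit 0) (nat_lit 76) (XT.lf (nat_lit 836) (nat_lit 2025691533) (nat_lit 76) (nat_lit 4030145355) (nat_lit 0) (nat_lit 4030145355) (nat_lit 307) (nat_lit 1) (nat_lit 297) (nat_lit 1) (nat_lit 296) (nat_lit 1) (nat_lit 303) (nat_lit 363) (nat_lit 354)) (XT.lf (nat_lit 76) (nat_lit 626546187) (nat_lit 0) (nat_lit 8609650875) (nat_lit 760) (nat_lit 626546187) (nat_lit 298) (nat_lit 1) (nat_lit 297) (nat_lit 1) (nat_lit 307) (nat_lit 1) (nat_lit 304) (nat_lit 363) (nat_lit 353)))))) (XT.nd (nat_lit 468) (nat_lit 1292) (nat_lit 0) (XT.nd (nat_lit 234) (nat_lit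 760) (nat_lit 0) (XT.nd (nat_lit 78) (nat_lit 532) (nat_lit 0) (XT.lf (nat_lit 836) (nat_lit 378418316) (nat_lit 0) (nat_lit 4632551867) (nat_lit 760) (nat_lit 4632551867) (nat_lit 298) (nat_lit 1) (nat_lit 287) (nat_lit 1) (nat_lit 297) (nat_lit 1) (nat_lit 305) (nat_lit 363) (nat_lit 352)) (XT.nd (nat_lit 78) (nat_lit 0) (nat_lit 0) (XT.lf (nat_lit 532) (nat_lit 8980343218) (nat_lit 0) (nat_lit 226687892) (nat_lit 456) (nat_lit 226687892) (nat_lit 287) (nat_lit 1) (nat_lit 280) (nat_lit 1) (nat_lit 286) (nat_lit 1) (nat_lit 306) (nat_lit 363) (nat_lit 351)) (XT.lf (nat_lit 76) (nat_lit 3926190425) (nat_lit 0) (nat_lit 1374233970) (nat_lit 532) (nat_lit 3926190425) (nat_lit 281) (nat_lit 1) (nat_lit 280) (nat_lit 1) (nat_lit 287) (nat_lit 1) (nat_lit 307) (nat_lit 363) (nat_lit 350)))) (XT.nd (nat_lit 78) (nat_lit 380) (nat_lit 0) (XT.lf (nat_lit 456) (nat_lit 6755965913) (nat_lit 0) (nat_lit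 1136175675) (nat_lit 380) (nat_lit 1136175675) (nat_lit 281) (nat_lit 1) (nat_lit 275) (nat_lit 1) (nat_lit 280) (nat_lit 1) (nat_lit 308) (nat_lit 363) (nat_lit 349)) (XT.nd (nat_lit 78) (nat_lit 380) (nat_lit 0) (XT.lf (nat_lit 76) (nat_lit 2800503835) (nat_lit 0) (nat_lit 3233180797) (nat_lit 456) (nat_lit 2800503835) (nat_lit 276) (nat_lit 1) (nat_lit 275) (nat_lit 1) (nat_lit 281) (nat_lit 1) (nat_lit 309) (nat_lit 363) (nat_lit 348)) (XT.lf (nat_lit 456) (nat_lit 4448899362) (nat_lit 0) (nat_lit 2098960648) (nat_lit 380) (nat_lit 2098960648) (nat_lit 276) (nat_lit 1) (nat_lit 270) (nat_lit 1) (nat_lit 275) (nat_lit 1) (nat_lit 310) (nat_lit 363) (nat_lit 347))))) (XT.nd (nat_lit 234) (nat_lit 988) (nat_lit 0) (XT.nd (nat_lit 78) (nat_lit 304) (nat_lit 0) (XT.lf (nat_lit 76) (nat_lit 1639360288) (nat_lit 0) (nat_lit 5186181560) (nat_lit 456) (nat_lit 1639360288) (nat_lit 271) (nat_lit 1) (nat_lit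 270) (nat_lit 1) (nat_lit 276) (nat_lit 1) (nat_lit 311) (nat_lit 363) (nat_lit 346)) (XT.nd (nat_lit 78) (nat_lit 0) (nat_lit 0) (XT.lf (nat_lit 380) (nat_lit 2080616502) (nat_lit 0) (nat_lit 3103523328) (nat_lit 304) (nat_lit 3103523328) (nat_lit 271) (nat_lit 1) (nat_lit 266) (nat_lit 1) (nat_lit 270) (nat_lit 1) (nat_lit 312) (nat_lit 363) (nat_lit 345)) (XT.lf (nat_lit 76) (nat_lit 452728267) (nat_lit 0) (nat_lit 7211783386) (nat_lit 380) (nat_lit 452728267) (nat_lit 267) (nat_lit 1) (nat_lit 266) (nat_lit 1) (nat_lit 271) (nat_lit 1) (nat_lit 313) (nat_lit 363) (nat_lit 344)))) (XT.nd (nat_lit 156) (nat_lit 304) (nat_lit 0) (XT.nd (nat_lit 78) (nat_lit 304) (nat_lit 0) (XT.lf (nat_lit 76) (nat_lit 3814818477) (nat_lit 0) (nat_lit 319498457) (nat_lit 380) (nat_lit 3814818477) (nat_lit 262) (nat_lit 1) (nat_lit 261) (nat_lit 1) (nat_lit 266) (nat_lit 1) (nat_lit 314) (nat_lit 363) (nat_lit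 343)) (XT.lf (nat_lit 380) (nat_lit 6310311364) (nat_lit 0) (nat_lit 738560684) (nat_lit 304) (nat_lit 738560684) (nat_lit 262) (nat_lit 1) (nat_lit 257) (nat_lit 1) (nat_lit 261) (nat_lit 1) (nat_lit 315) (nat_lit 363) (nat_lit 342))) (XT.nd (nat_lit 78) (nat_lit 304) (nat_lit 0) (XT.lf (nat_lit 76) (nat_lit 2475181537) (nat_lit 0) (nat_lit 2678141024) (nat_lit 380) (nat_lit 2475181537) (nat_lit 258) (nat_lit 1) (nat_lit 257) (nat_lit 1) (nat_lit 262) (nat_lit 1) (nat_lit 316) (nat_lit 363) (nat_lit 341)) (XT.lf (nat_lit 380) (nat_lit 3611978405) (nat_lit 0) (nat_lit 1931554073) (nat_lit 304) (nat_lit 1931554073) (nat_lit 258) (nat_lit 1) (nat_lit 253) (nat_lit 1) (nat_lit 257) (nat_lit 1) (nat_lit 317) (nat_lit 363) (nat_lit 340))))))))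
noncomputable def ec116 : XT := (XT.nd (nat_lit 1950) (nat_lit 2128) (nat_lit 0) (XT.nd (nat_lit 936) (nat_lit 1520) (nat_lit 0) (XT.nd (nat_lit 468) (nat_lit 912) (nat_lit 0) (XT.nd (nat_lit 234) (nat_lit 228) (nat_lit 0) (XT.nd (nat_lit 78) (nat_lit 608) (nat_lit 0) (XT.lf (nat_lit 76) (nat_lit 1139056789) (nat_lit 0) (nat_lit 5048041369) (nat_lit 380) (nat_lit 1139056789) (nat_lit 254) (nat_lit 1) (nat_lit 253) (nat_lit 1) (nat_lit 258) (nat_lit 1) (nat_lit 318) (nat_lit 363) (nat_lit 339)) (XT.nd (nat_lit 78) (nat_lit 380) (nat_lit 0) (XT.lf (nat_lit 304) (nat_lit 926346101) (nat_lit 0) (nat_lit 3127046039) (nat_lit 228) (nat_lit 3127046039) (nat_lit 254) (nat_lit 1) (nat_lit 250) (nat_lit 1) (nat_lit 253) (nat_lit 1) (nat_lit 319) (nat_lit 363) (nat_lit 338)) (XT.lf (nat_lit 380) (nat_lit 6670175627) (nat_lit 0) (nat_lit 185084574) (nat_lit 304) (nat_lit 185084574) (nat_lit 250) (nat_lit 1)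 (nat_lit 245) (nat_lit 1) (nat_lit 249) (nat_lit 1) (nat_lit 320) (nat_lit 363) (nat_lit 337)))) (XT.nd (nat_lit 78) (nat_lit 228) (nat_lit 0) (XT.lf (nat_lit 76) (nat_lit 2610089034) (nat_lit 0) (nat_lit 1680848704) (nat_lit 380) (nat_lit 2610089034) (nat_lit 246) (nat_lit 1) (nat_lit 245) (nat_lit 1) (nat_lit 250) (nat_lit 1) (nat_lit 321) (nat_lit 363) (nat_lit 336)) (XT.nd (nat_lit 78) (nat_lit 0) (nat_lit 0) (XT.lf (nat_lit 304) (nat_lit 3812117551) (nat_lit 0) (nat_lit 1477467218) (nat_lit 228) (nat_lit 1477467218) (nat_lit 246) (nat_lit 1) (nat_lit 242) (nat_lit 1) (nat_lit 245) (nat_lit 1) (nat_lit 322) (nat_lit 363) (nat_lit 335)) (XT.lf (nat_lit 76) (nat_lit 1204306901) (nat_lit 0) (nat_lit 4227867256) (nat_lit 304) (nat_lit 1204306901) (nat_lit 243) (nat_lit 1) (nat_lit 242) (nat_lit 1) (nat_lit 246) (nat_lit 1) (nat_lit 323) (nat_lit 363) (nat_lit 334))))) (XT.nd (nat_lit 234) (nat_lit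 380) (nat_lit 0) (XT.nd (nat_lit 78) (nat_lit 304) (nat_lit 0) (XT.lf (nat_lit 304) (nat_lit 1003752160) (nat_lit 0) (nat_lit 2752564213) (nat_lit 228) (nat_lit 2752564213) (nat_lit 243) (nat_lit 1) (nat_lit 239) (nat_lit 1) (nat_lit 242) (nat_lit 1) (nat_lit 324) (nat_lit 363) (nat_lit 333)) (XT.nd (nat_lit 78) (nat_lit 0) (nat_lit 0) (XT.lf (nat_lit 304) (nat_lit 6041010278) (nat_lit 0) (nat_lit 172505177) (nat_lit 228) (nat_lit 172505177) (nat_lit 239) (nat_lit 1) (nat_lit 235) (nat_lit 1) (nat_lit 238) (nat_lit 1) (nat_lit 325) (nat_lit 363) (nat_lit 332)) (XT.lf (nat_lit 76) (nat_lit 2285141184) (nat_lit 0) (nat_lit 1693266672) (nat_lit 304) (nat_lit 2285141184) (nat_lit 236) (nat_lit 1) (nat_lit 235) (nat_lit 1) (nat_lit 239) (nat_lit 1) (nat_lit 326) (nat_lit 363) (nat_lit 331)))) (XT.nd (nat_lit 78) (nat_lit 152) (nat_lit 0) (XT.lf (nat_lit 304) (nat_lit 3142278369) (nat_lit 0) (nat_lit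 1501665274) (nat_lit 228) (nat_lit 1501665274) (nat_lit 236) (nat_lit 1) (nat_lit 232) (nat_lit 1) (nat_lit 235) (nat_lit 1) (nat_lit 327) (nat_lit 363) (nat_lit 330)) (XT.nd (nat_lit 78) (nat_lit 152) (nat_lit 0) (XT.lf (nat_lit 76) (nat_lit 865380900) (nat_lit 0) (nat_lit 4300070202) (nat_lit 304) (nat_lit 865380900) (nat_lit 233) (nat_lit 1) (nat_lit 232) (nat_lit 1) (nat_lit 236) (nat_lit 1) (nat_lit 328) (nat_lit 363) (nat_lit 329)) (XT.lf (nat_lit 228) (nat_lit 317104335) (nat_lit 0) (nat_lit 2800556827) (nat_lit 152) (nat_lit 2800556827) (nat_lit 233) (nat_lit 1) (nat_lit 230) (nat_lit 1) (nat_lit 232) (nat_lit 1) (nat_lit 329) (nat_lit 363) (nat_lit 328)))))) (XT.nd (nat_lit 468) (nat_lit 684) (nat_lit 0) (XT.nd (nat_lit 234) (nat_lit 380) (nat_lit 0) (XT.nd (nat_lit 78) (nat_lit 152) (nat_lit 0) (XT.lf (nat_lit 304) (nat_lit 4791340175) (nat_lit 0) (nat_lit 508875055) (nat_lit 228) (nat_lit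 508875055) (nat_lit 230) (nat_lit 1) (nat_lit 226) (nat_lit 1) (nat_lit 229) (nat_lit 1) (nat_lit 330) (nat_lit 363) (nat_lit 327)) (XT.nd (nat_lit 78) (nat_lit 152) (nat_lit 0) (XT.lf (nat_lit 76) (nat_lit 1673501390) (nat_lit 0) (nat_lit 2354180290) (nat_lit 304) (nat_lit 1673501390) (nat_lit 227) (nat_lit 1) (nat_lit 226) (nat_lit 1) (nat_lit 230) (nat_lit 1) (nat_lit 331) (nat_lit 363) (nat_lit 326)) (XT.lf (nat_lit 228) (nat_lit 1933472708) (nat_lit 0) (nat_lit 1831566730) (nat_lit 152) (nat_lit 1831566730) (nat_lit 227) (nat_lit 1) (nat_lit 224) (nat_lit 1) (nat_lit 226) (nat_lit 1) (nat_lit 332) (nat_lit 363) (nat_lit 325)))) (XT.nd (nat_lit 78) (nat_lit 380) (nat_lit 0) (XT.lf (nat_lit 76) (nat_lit 277778658) (nat_lit 0) (nat_lit 4939942455) (nat_lit 228) (nat_lit 277778658) (nat_lit 225) (nat_lit 1) (nat_lit 224) (nat_lit 1) (nat_lit 227) (nat_lit 1) (nat_lit 333) (nat_lit 363) (nat_lit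 324)) (XT.nd (nat_lit 78) (nat_lit 152) (nat_lit 0) (XT.lf (nat_lit 76) (nat_lit 2292556004) (nat_lit 0) (nat_lit 809648897) (nat_lit 228) (nat_lit 2292556004) (nat_lit 222) (nat_lit 1) (nat_lit 221) (nat_lit 1) (nat_lit 224) (nat_lit 1) (nat_lit 334) (nat_lit 363) (nat_lit 323)) (XT.lf (nat_lit 228) (nat_lit 3183615816) (nat_lit 0) (nat_lit 1056874194) (nat_lit 152) (nat_lit 1056874194) (nat_lit 222) (nat_lit 1) (nat_lit 219) (nat_lit 1) (nat_lit 221) (nat_lit 1) (nat_lit 335) (nat_lit 363) (nat_lit 322))))) (XT.nd (nat_lit 234) (nat_lit 304) (nat_lit 0) (XT.nd (nat_lit 78) (nat_lit 380) (nat_lit 0) (XT.lf (nat_lit 76) (nat_lit 898333557) (nat_lit 0) (nat_lit 3405453069) (nat_lit 228) (nat_lit 898333557) (nat_lit 220) (nat_lit 1) (nat_lit 219) (nat_lit 1) (nat_lit 222) (nat_lit 1) (nat_lit 336) (nat_lit 363) (nat_lit 321)) (XT.nd (nat_lit 78) (nat_lit 228) (nat_lit 0) (XT.lf (nat_lit 228) (nat_lit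 420836928) (nat_lit 0) (nat_lit 2343979554) (nat_lit 152) (nat_lit 2343979554) (nat_lit 220) (nat_lit 1) (nat_lit 217) (nat_lit 1) (nat_lit 219) (nat_lit 1) (nat_lit 337) (nat_lit 363) (nat_lit 320)) (XT.lf (nat_lit 228) (nat_lit 4136257216) (nat_lit 0) (nat_lit 440959407) (nat_lit 152) (nat_lit 440959407) (nat_lit 217) (nat_lit 1) (nat_lit 214) (nat_lit 1) (nat_lit 216) (nat_lit 1) (nat_lit 338) (nat_lit 363) (nat_lit 319)))) (XT.nd (nat_lit 156) (nat_lit 152) (nat_lit 0) (XT.nd (nat_lit 78) (nat_lit 152) (nat_lit 0) (XT.lf (nat_lit 76) (nat_lit 1376970163) (nat_lit 0) (nat_lit 2174389129) (nat_lit 228) (nat_lit 1376970163) (nat_lit 215) (nat_lit 1) (nat_lit 214) (nat_lit 1) (nat_lit 217) (nat_lit 1) (nat_lit 339) (nat_lit 363) (nat_lit 318)) (XT.lf (nat_lit 228) (nat_lit 1402377258) (nat_lit 0) (nat_lit 1719356996) (nat_lit 152) (nat_lit 1719356996) (nat_lit 215) (nat_lit 1) (nat_lit 212) (nat_lit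 1) (nat_lit 214) (nat_lit 1) (nat_lit 340) (nat_lit 363) (nat_lit 317))) (XT.nd (nat_lit 78) (nat_lit 152) (nat_lit 0) (XT.lf (nat_lit 76) (nat_lit 46092272) (nat_lit 0) (nat_lit 4664727949) (nat_lit 228) (nat_lit 46092272) (nat_lit 213) (nat_lit 1) (nat_lit 212) (nat_lit 1) (nat_lit 215) (nat_lit 1) (nat_lit 341) (nat_lit 363) (nat_lit 316)) (XT.lf (nat_lit 76) (nat_lit 1740369067) (nat_lit 0) (nat_lit 1191460520) (nat_lit 152) (nat_lit 1740369067) (nat_lit 211) (nat_lit 1) (nat_lit 210) (nat_lit 1) (nat_lit 212) (nat_lit 1) (nat_lit 342) (nat_lit 363) (nat_lit 315))))))) (XT.nd (nat_lit 936) (nat_lit 988) (nat_lit 0) (XT.nd (nat_lit 468) (nat_lit 608) (nat_lit 0) (XT.nd (nat_lit 234) (nat_lit 228) (nat_lit 0) (XT.nd (nat_lit 78) (nat_lit 152) (nat_lit 0) (XT.lf (nat_lit 228) (nat_lit 2159599885) (nat_lit 0) (nat_lit 1215432795) (nat_lit 152) (nat_lit 1215432795) (nat_lit 211) (nat_lit 1) (nat_lit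 208) (nat_lit 1) (nat_lit 210) (nat_lit 1) (nat_lit 343) (nat_lit 363) (nat_lit 314)) (XT.nd (nat_lit 78) (nat_lit 152) (nat_lit 0) (XT.lf (nat_lit 76) (nat_lit 432984851) (nat_lit 0) (nat_lit 3644968777) (nat_lit 228) (nat_lit 432984851) (nat_lit 209) (nat_lit 1) (nat_lit 208) (nat_lit 1) (nat_lit 211) (nat_lit 1) (nat_lit 344) (nat_lit 363) (nat_lit 313)) (XT.lf (nat_lit 76) (nat_lit 2010408135) (nat_lit 0) (nat_lit 411251044) (nat_lit 152) (nat_lit 2010408135) (nat_lit 207) (nat_lit 1) (nat_lit 206) (nat_lit 1) (nat_lit 208) (nat_lit 1) (nat_lit 345) (nat_lit 363) (nat_lit 312)))) (XT.nd (nat_lit 78) (nat_lit 76) (nat_lit 0) (XT.lf (nat_lit 228) (nat_lit 2734670687) (nat_lit 0) (nat_lit 810333415) (nat_lit 152) (nat_lit 810333415) (nat_lit 207) (nat_lit 1) (nat_lit 204) (nat_lit 1) (nat_lit 206) (nat_lit 1) (nat_lit 346) (nat_lit 363) (nat_lit 311)) (XT.nd (nat_lit 78) (nat_lit 76) (nat_lit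 0) (XT.lf (nat_lit 76) (nat_lit 732469732) (nat_lit 0) (nat_lit 2815187261) (nat_lit 228) (nat_lit 732469732) (nat_lit 205) (nat_lit 1) (nat_lit 204) (nat_lit 1) (nat_lit 207) (nat_lit 1) (nat_lit 347) (nat_lit 363) (nat_lit 310)) (XT.lf (nat_lit 152) (nat_lit 210265386) (nat_lit 0) (nat_lit 1998034905) (nat_lit 76) (nat_lit 1998034905) (nat_lit 205) (nat_lit 1) (nat_lit 203) (nat_lit 1) (nat_lit 204) (nat_lit 1) (nat_lit 348) (nat_lit 363) (nat_lit 309))))) (XT.nd (nat_lit 234) (nat_lit 304) (nat_lit 0) (XT.nd (nat_lit 78) (nat_lit 76) (nat_lit 0) (XT.lf (nat_lit 228) (nat_lit 3162165597) (nat_lit 0) (nat_lit 486086017) (nat_lit 152) (nat_lit 486086017) (nat_lit 203) (nat_lit 1) (nat_lit 200) (nat_lit 1) (nat_lit 202) (nat_lit 1) (nat_lit 349) (nat_lit 363) (nat_lit 308)) (XT.nd (nat_lit 78) (nat_lit 76) (nat_lit 0) (XT.lf (nat_lit 76) (nat_lit 960939921) (nat_lit 0) (nat_lit 2141263839) (nat_lit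 228) (nat_lit 960939921) (nat_lit 201) (nat_lit 1) (nat_lit 200) (nat_lit 1) (nat_lit 203) (nat_lit 1) (nat_lit 350) (nat_lit 363) (nat_lit 307)) (XT.lf (nat_lit 152) (nat_lit 706118801) (nat_lit 0) (nat_lit 1643788261) (nat_lit 76) (nat_lit 1643788261) (nat_lit 201) (nat_lit 1) (nat_lit 199) (nat_lit 1) (nat_lit 200) (nat_lit 1) (nat_lit 351) (nat_lit 363) (nat_lit 306)))) (XT.nd (nat_lit 78) (nat_lit 76) (nat_lit 0) (XT.lf (nat_lit 228) (nat_lit 3470421705) (nat_lit 0) (nat_lit 227925798) (nat_lit 152) (nat_lit 227925798) (nat_lit 199) (nat_lit 1) (nat_lit 196) (nat_lit 1) (nat_lit 198) (nat_lit 1) (nat_lit 352) (nat_lit 363) (nat_lit 305)) (XT.nd (nat_lit 78) (nat_lit 76) (nat_lit 0) (XT.lf (nat_lit 76) (nat_lit 1131839328) (nat_lit 0) (nat_lit 1595149071) (nat_lit 228) (nat_lit 1131839328) (nat_lit 197) (nat_lit 1) (nat_lit 196) (nat_lit 1) (nat_lit 199) (nat_lit 1) (nat_lit 353) (nat_lit 363)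 (nat_lit 304)) (XT.lf (nat_lit 152) (nat_lit 1088671350) (nat_lit 0) (nat_lit 1352348670) (nat_lit 76) (nat_lit 1352348670) (nat_lit 197) (nat_lit 1) (nat_lit 195) (nat_lit 1) (nat_lit 196) (nat_lit 1) (nat_lit 354) (nat_lit 363) (nat_lit 303)))))) (XT.nd (nat_lit 468) (nat_lit 456) (nat_lit 0) (XT.nd (nat_lit 234) (nat_lit 228) (nat_lit 0) (XT.nd (nat_lit 78) (nat_lit 76) (nat_lit 0) (XT.lf (nat_lit 228) (nat_lit 3682648566) (nat_lit 0) (nat_lit 23726194) (nat_lit 152) (nat_lit 23726194) (nat_lit 195) (nat_lit 1) (nat_lit 192) (nat_lit 1) (nat_lit 194) (nat_lit 1) (nat_lit 355) (nat_lit 363) (nat_lit 302)) (XT.nd (nat_lit 78) (nat_lit 76) (nat_lit 0) (XT.lf (nat_lit 76) (nat_lit 1256187660) (nat_lit 0) (nat_lit 1153786432) (nat_lit 228) (nat_lit 1256187660) (nat_lit 193) (nat_lit 1) (nat_lit 192) (nat_lit 1) (nat_lit 195) (nat_lit 1) (nat_lit 356) (nat_lit 363) (nat_lit 301)) (XT.lf (nat_lit 152)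 (nat_lit 1379219914) (nat_lit 0) (nat_lit 1112580598) (nat_lit 76) (nat_lit 1112580598) (nat_lit 193) (nat_lit 1) (nat_lit 191) (nat_lit 1) (nat_lit 192) (nat_lit 1) (nat_lit 357) (nat_lit 363) (nat_lit 300)))) (XT.nd (nat_lit 78) (nat_lit 228) (nat_lit 0) (XT.lf (nat_lit 0) (nat_lit 138707063) (nat_lit 0) (nat_lit 3267051602) (nat_lit 152) (nat_lit 138707063) (nat_lit 191) (nat_lit 3) (nat_lit 191) (nat_lit 1) (nat_lit 193) (nat_lit 1) (nat_lit 358) (nat_lit 363) (nat_lit 299)) (XT.nd (nat_lit 78) (nat_lit 76) (nat_lit 0) (XT.lf (nat_lit 76) (nat_lit 1343012167) (nat_lit 0) (nat_lit 798226138) (nat_lit 152) (nat_lit 1343012167) (nat_lit 190) (nat_lit 1) (nat_lit 189) (nat_lit 1) (nat_lit 191) (nat_lit 1) (nat_lit 359) (nat_lit 363) (nat_lit 298)) (XT.lf (nat_lit 152) (nat_lit 1595227922) (nat_lit 0) (nat_lit 915322811) (nat_lit 76) (nat_lit 915322811) (nat_lit 190) (nat_lit 1) (nat_lit 188) (nat_lit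 1) (nat_lit 189) (nat_lit 1) (nat_lit 360) (nat_lit 363) (nat_lit 297))))) (XT.nd (nat_lit 234) (nat_lit 228) (nat_lit 0) (XT.nd (nat_lit 78) (nat_lit 228) (nat_lit 0) (XT.lf (nat_lit 0) (nat_lit 265111459) (nat_lit 0) (nat_lit 2838808254) (nat_lit 152) (nat_lit 265111459) (nat_lit 188) (nat_lit 3) (nat_lit 188) (nat_lit 1) (nat_lit 190) (nat_lit 1) (nat_lit 361) (nat_lit 363) (nat_lit 296)) (XT.nd (nat_lit 78) (nat_lit 76) (nat_lit 0) (XT.lf (nat_lit 76) (nat_lit 1399702739) (nat_lit 0) (nat_lit 512896129) (nat_lit 152) (nat_lit 1399702739) (nat_lit 187) (nat_lit 1) (nat_lit 186) (nat_lit 1) (nat_lit 188) (nat_lit 1) (nat_lit 362) (nat_lit 363) (nat_lit 295)) (XT.lf (nat_lit 152) (nat_lit 1751007755) (nat_lit 0) (nat_lit 753038342) (nat_lit 76) (nat_lit 753038342) (nat_lit 187) (nat_lit 1) (nat_lit 185) (nat_lit 1) (nat_lit 186) (nat_lit 1) (nat_lit 363) (nat_lit 363) (nat_lit 294)))) (XT.nd (nat_lit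 156) (nat_lit 76) (nat_lit 0) (XT.nd (nat_lit 78) (nat_lit 152) (nat_lit 0) (XT.lf (nat_lit 0) (nat_lit 361914344) (nat_lit 0) (nat_lit 2479301066) (nat_lit 152) (nat_lit 361914344) (nat_lit 185) (nat_lit 3) (nat_lit 185) (nat_lit 1) (nat_lit 187) (nat_lit 1) (nat_lit 364) (nat_lit 363) (nat_lit 293)) (XT.lf (nat_lit 76) (nat_lit 1432303960) (nat_lit 0) (nat_lit 285002352) (nat_lit 152) (nat_lit 1432303960) (nat_lit 184) (nat_lit 1) (nat_lit 183) (nat_lit 1) (nat_lit 185) (nat_lit 1) (nat_lit 365) (nat_lit 363) (nat_lit 292))) (XT.nd (nat_lit 78) (nat_lit 0) (nat_lit 0) (XT.lf (nat_lit 152) (nat_lit 1858282029) (nat_lit 0) (nat_lit 619526507) (nat_lit 76) (nat_lit 619526507) (nat_lit 184) (nat_lit 1) (nat_lit 182) (nat_lit 1) (nat_lit 183) (nat_lit 1) (nat_lit 366) (nat_lit 363) (nat_lit 291)) (XT.lf (nat_lit 0) (nat_lit 434706388) (nat_lit 0) (nat_lit 2176685685) (nat_lit 152) (nat_lit 434706388)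 (nat_lit 182) (nat_lit 3) (nat_lit 182) (nat_lit 1) (nat_lit 184) (nat_lit 1) (nat_lit 367) (nat_lit 363) (nat_lit 290))))))))
noncomputable def ec117 : XT := (XT.nd (nat_lit 1950) (nat_lit 1976) (nat_lit 0) (XT.nd (nat_lit 936) (nat_lit 988) (nat_lit 0) (XT.nd (nat_lit 468) (nat_lit 456) (nat_lit 0) (XT.nd (nat_lit 234) (nat_lit 228) (nat_lit 0) (XT.nd (nat_lit 78) (nat_lit 76) (nat_lit 0) (XT.lf (nat_lit 76) (nat_lit 1445755301) (nat_lit 0) (nat_lit 104035414) (nat_lit 152) (nat_lit 1445755301) (nat_lit 181) (nat_lit 1) (nat_lit 180) (nat_lit 1) (nat_lit 182) (nat_lit 1) (nat_lit 368) (nat_lit 363) (nat_lit 289)) (XT.nd (nat_lit 78) (nat_lit 0) (nat_lit 0) (XT.lf (nat_lit 152) (nat_lit 1926645238) (nat_lit 0) (nat_lit 509685991) (nat_lit 76) (nat_lit 509685991) (nat_lit 181) (nat_lit 1) (nat_lit 179) (nat_lit 1) (nat_lit 180) (nat_lit 1) (nat_lit 369) (nat_lit 363) (nat_lit 288)) (XT.lf (nat_lit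 0) (nat_lit 488070748) (nat_lit 0) (nat_lit 1921201426) (nat_lit 152) (nat_lit 488070748) (nat_lit 179) (nat_lit 3) (nat_lit 179) (nat_lit 1) (nat_lit 181) (nat_lit 1) (nat_lit 370) (nat_lit 363) (nat_lit 287)))) (XT.nd (nat_lit 78) (nat_lit 152) (nat_lit 0) (XT.lf (nat_lit 76) (nat_lit 39912716) (nat_lit 0) (nat_lit 1404799076) (nat_lit 76) (nat_lit 1404799076) (nat_lit 179) (nat_lit 3) (nat_lit 178) (nat_lit 1) (nat_lit 179) (nat_lit 1) (nat_lit 371) (nat_lit 363) (nat_lit 286)) (XT.nd (nat_lit 78) (nat_lit 0) (nat_lit 0) (XT.lf (nat_lit 152) (nat_lit 1963943438) (nat_lit 0) (nat_lit 419319926) (nat_lit 76) (nat_lit 419319926) (nat_lit 178) (nat_lit 1) (nat_lit 176) (nat_lit 1) (nat_lit 177) (nat_lit 1) (nat_lit 372) (nat_lit 363) (nat_lit 285)) (XT.lf (nat_lit 0) (nat_lit 525762465) (nat_lit 0) (nat_lit 1704802621) (nat_lit 152) (nat_lit 525762465) (nat_lit 176) (nat_lit 3) (nat_lit 176) (nat_lit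 1) (nat_lit 178) (nat_lit 1) (nat_lit 373) (nat_lit 363) (nat_lit 284))))) (XT.nd (nat_lit 234) (nat_lit 228) (nat_lit 0) (XT.nd (nat_lit 78) (nat_lit 152) (nat_lit 0) (XT.lf (nat_lit 76) (nat_lit 155058107) (nat_lit 0) (nat_lit 1277953494) (nat_lit 76) (nat_lit 1277953494) (nat_lit 176) (nat_lit 3) (nat_lit 175) (nat_lit 1) (nat_lit 176) (nat_lit 1) (nat_lit 374) (nat_lit 363) (nat_lit 283)) (XT.nd (nat_lit 78) (nat_lit 0) (nat_lit 0) (XT.lf (nat_lit 152) (nat_lit 1976586492) (nat_lit 0) (nat_lit 344975541) (nat_lit 76) (nat_lit 344975541) (nat_lit 175) (nat_lit 1) (nat_lit 173) (nat_lit 1) (nat_lit 174) (nat_lit 1) (nat_lit 375) (nat_lit 363) (nat_lit 282)) (XT.lf (nat_lit 0) (nat_lit 550856037) (nat_lit 0) (nat_lit 1520855291) (nat_lit 152) (nat_lit 550856037) (nat_lit 173) (nat_lit 3) (nat_lit 173) (nat_lit 1) (nat_lit 175) (nat_lit 1) (nat_lit 376) (nat_lit 363) (nat_lit 281)))) (XT.nd (nat_lit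 78) (nat_lit 152) (nat_lit 0) (XT.lf (nat_lit 76) (nat_lit 243968419) (nat_lit 0) (nat_lit 1167777232) (nat_lit 76) (nat_lit 1167777232) (nat_lit 173) (nat_lit 3) (nat_lit 172) (nat_lit 1) (nat_lit 173) (nat_lit 1) (nat_lit 377) (nat_lit 363) (nat_lit 280)) (XT.nd (nat_lit 78) (nat_lit 0) (nat_lit 0) (XT.lf (nat_lit 152) (nat_lit 1969804850) (nat_lit 0) (nat_lit 283812231) (nat_lit 76) (nat_lit 283812231) (nat_lit 172) (nat_lit 1) (nat_lit 170) (nat_lit 1) (nat_lit 171) (nat_lit 1) (nat_lit 378) (nat_lit 363) (nat_lit 279)) (XT.lf (nat_lit 0) (nat_lit 565866773) (nat_lit 0) (nat_lit 1363887560) (nat_lit 152) (nat_lit 565866773) (nat_lit 170) (nat_lit 3) (nat_lit 170) (nat_lit 1) (nat_lit 172) (nat_lit 1) (nat_lit 379) (nat_lit 363) (nat_lit 278)))))) (XT.nd (nat_lit 468) (nat_lit 532) (nat_lit 0) (XT.nd (nat_lit 234) (nat_lit 228) (nat_lit 0) (XT.nd (nat_lit 78) (nat_lit 152) (nat_lit 0) (XT.lf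 (nat_lit 76) (nat_lit 311572213) (nat_lit 0) (nat_lit 1071592010) (nat_lit 76) (nat_lit 1071592010) (nat_lit 170) (nat_lit 3) (nat_lit 169) (nat_lit 1) (nat_lit 170) (nat_lit 1) (nat_lit 380) (nat_lit 363) (nat_lit 277)) (XT.nd (nat_lit 78) (nat_lit 0) (nat_lit 0) (XT.lf (nat_lit 152) (nat_lit 1947860708) (nat_lit 0) (nat_lit 233493025) (nat_lit 76) (nat_lit 233493025) (nat_lit 169) (nat_lit 1) (nat_lit 167) (nat_lit 1) (nat_lit 168) (nat_lit 1) (nat_lit 381) (nat_lit 363) (nat_lit 276)) (XT.lf (nat_lit 0) (nat_lit 572850612) (nat_lit 0) (nat_lit 1229384288) (nat_lit 152) (nat_lit 572850612) (nat_lit 167) (nat_lit 3) (nat_lit 167) (nat_lit 1) (nat_lit 169) (nat_lit 1) (nat_lit 382) (nat_lit 363) (nat_lit 275)))) (XT.nd (nat_lit 78) (nat_lit 152) (nat_lit 0) (XT.lf (nat_lit 76) (nat_lit 361911031) (nat_lit 0) (nat_lit 987181199) (nat_lit 76) (nat_lit 987181199) (nat_lit 167) (nat_lit 3) (nat_lit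 166) (nat_lit 1) (nat_lit 167) (nat_lit 1) (nat_lit 383) (nat_lit 363) (nat_lit 274)) (XT.nd (nat_lit 78) (nat_lit 0) (nat_lit 0) (XT.lf (nat_lit 152) (nat_lit 1914221618) (nat_lit 0) (nat_lit 192095289) (nat_lit 76) (nat_lit 192095289) (nat_lit 166) (nat_lit 1) (nat_lit 164) (nat_lit 1) (nat_lit 165) (nat_lit 1) (nat_lit 384) (nat_lit 363) (nat_lit 273)) (XT.lf (nat_lit 0) (nat_lit 573486204) (nat_lit 0) (nat_lit 1113618084) (nat_lit 152) (nat_lit 573486204) (nat_lit 164) (nat_lit 3) (nat_lit 164) (nat_lit 1) (nat_lit 166) (nat_lit 1) (nat_lit 385) (nat_lit 363) (nat_lit 272))))) (XT.nd (nat_lit 234) (nat_lit 304) (nat_lit 0) (XT.nd (nat_lit 78) (nat_lit 152) (nat_lit 0) (XT.lf (nat_lit 76) (nat_lit 398297292) (nat_lit 0) (nat_lit 912708607) (nat_lit 76) (nat_lit 912708607) (nat_lit 164) (nat_lit 3) (nat_lit 163) (nat_lit 1) (nat_lit 164) (nat_lit 1) (nat_lit 386) (nat_lit 363) (nat_lit 271))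 (XT.nd (nat_lit 78) (nat_lit 0) (nat_lit 0) (XT.lf (nat_lit 152) (nat_lit 1871703237) (nat_lit 0) (nat_lit 158037270) (nat_lit 76) (nat_lit 158037270) (nat_lit 163) (nat_lit 1) (nat_lit 161) (nat_lit 1) (nat_lit 162) (nat_lit 1) (nat_lit 387) (nat_lit 363) (nat_lit 270)) (XT.lf (nat_lit 0) (nat_lit 569142412) (nat_lit 0) (nat_lit 1013510247) (nat_lit 152) (nat_lit 569142412) (nat_lit 161) (nat_lit 3) (nat_lit 161) (nat_lit 1) (nat_lit 163) (nat_lit 1) (nat_lit 388) (nat_lit 363) (nat_lit 269)))) (XT.nd (nat_lit 156) (nat_lit 76) (nat_lit 0) (XT.nd (nat_lit 78) (nat_lit 152) (nat_lit 0) (XT.lf (nat_lit 76) (nat_lit 423444160) (nat_lit 0) (nat_lit 846651621) (nat_lit 76) (nat_lit 846651621) (nat_lit 161) (nat_lit 3) (nat_lit 160) (nat_lit 1) (nat_lit 161) (nat_lit 1) (nat_lit 389) (nat_lit 363) (nat_lit 268)) (XT.lf (nat_lit 152) (nat_lit 1822586670) (nat_lit 0) (nat_lit 130017653) (nat_lit 76) (nat_lit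 130017653) (nat_lit 160) (nat_lit 1) (nat_lit 158) (nat_lit 1) (nat_lit 159) (nat_lit 1) (nat_lit 390) (nat_lit 363) (nat_lit 267))) (XT.nd (nat_lit 78) (nat_lit 76) (nat_lit 0) (XT.lf (nat_lit 0) (nat_lit 560933817) (nat_lit 0) (nat_lit 926516334) (nat_lit 152) (nat_lit 560933817) (nat_lit 158) (nat_lit 3) (nat_lit 158) (nat_lit 1) (nat_lit 160) (nat_lit 1) (nat_lit 391) (nat_lit 363) (nat_lit 266)) (XT.lf (nat_lit 76) (nat_lit 439572360) (nat_lit 0) (nat_lit 787746186) (nat_lit 76) (nat_lit 787746186) (nat_lit 158) (nat_lit 3) (nat_lit 157) (nat_lit 1) (nat_lit 158) (nat_lit 1) (nat_lit 392) (nat_lit 363) (nat_lit 265))))))) (XT.nd (nat_lit 1014) (nat_lit 912) (nat_lit 0) (XT.nd (nat_lit 468) (nat_lit 608) (nat_lit 0) (XT.nd (nat_lit 234) (nat_lit 228) (nat_lit 0) (XT.nd (nat_lit 78) (nat_lit 76) (nat_lit 0) (XT.lf (nat_lit 152) (nat_lit 1768714931) (nat_lit 0) (nat_lit 106965845) (nat_lit 76)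 (nat_lit 106965845) (nat_lit 157) (nat_lit 1) (nat_lit 155) (nat_lit 1) (nat_lit 156) (nat_lit 1) (nat_lit 393) (nat_lit 363) (nat_lit 264)) (XT.nd (nat_lit 78) (nat_lit 76) (nat_lit 0) (XT.lf (nat_lit 0) (nat_lit 549766350) (nat_lit 0) (nat_lit 850531991) (nat_lit 152) (nat_lit 549766350) (nat_lit 155) (nat_lit 3) (nat_lit 155) (nat_lit 1) (nat_lit 157) (nat_lit 1) (nat_lit 394) (nat_lit 363) (nat_lit 263)) (XT.lf (nat_lit 76) (nat_lit 448498032) (nat_lit 0) (nat_lit 734941500) (nat_lit 76) (nat_lit 734941500) (nat_lit 155) (nat_lit 3) (nat_lit 154) (nat_lit 1) (nat_lit 155) (nat_lit 1) (nat_lit 395) (nat_lit 363) (nat_lit 262)))) (XT.nd (nat_lit 78) (nat_lit 76) (nat_lit 0) (XT.lf (nat_lit 152) (nat_lit 1711572214) (nat_lit 0) (nat_lit 88001065) (nat_lit 76) (nat_lit 88001065) (nat_lit 154) (nat_lit 1) (nat_lit 152) (nat_lit 1) (nat_lit 153) (nat_lit 1) (nat_lit 396) (nat_lit 363) (nat_lit 261))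 (XT.nd (nat_lit 78) (nat_lit 76) (nat_lit 0) (XT.lf (nat_lit 0) (nat_lit 536374813) (nat_lit 0) (nat_lit 783815451) (nat_lit 152) (nat_lit 536374813) (nat_lit 152) (nat_lit 3) (nat_lit 152) (nat_lit 1) (nat_lit 154) (nat_lit 1) (nat_lit 397) (nat_lit 363) (nat_lit 260)) (XT.lf (nat_lit 76) (nat_lit 451704977) (nat_lit 0) (nat_lit 687362727) (nat_lit 76) (nat_lit 687362727) (nat_lit 152) (nat_lit 3) (nat_lit 151) (nat_lit 1) (nat_lit 152) (nat_lit 1) (nat_lit 398) (nat_lit 363) (nat_lit 259))))) (XT.nd (nat_lit 234) (nat_lit 380) (nat_lit 0) (XT.nd (nat_lit 78) (nat_lit 76) (nat_lit 0) (XT.lf (nat_lit 152) (nat_lit 1652349043) (nat_lit 0) (nat_lit 72398694) (nat_lit 76) (nat_lit 72398694) (nat_lit 151) (nat_lit 1) (nat_lit 149) (nat_lit 1) (nat_lit 150) (nat_lit 1) (nat_lit 399) (nat_lit 363) (nat_lit 258)) (XT.nd (nat_lit 78) (nat_lit 76) (nat_lit 0) (XT.lf (nat_lit 0) (nat_lit 521353721) (nat_lit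 0) (nat_lit 724923746) (nat_lit 152) (nat_lit 521353721) (nat_lit 149) (nat_lit 3) (nat_lit 149) (nat_lit 1) (nat_lit 151) (nat_lit 1) (nat_lit 400) (nat_lit 363) (nat_lit 257)) (XT.lf (nat_lit 76) (nat_lit 450404076) (nat_lit 0) (nat_lit 644280290) (nat_lit 76) (nat_lit 644280290) (nat_lit 149) (nat_lit 3) (nat_lit 148) (nat_lit 1) (nat_lit 149) (nat_lit 1) (nat_lit 401) (nat_lit 363) (nat_lit 256)))) (XT.nd (nat_lit 156) (nat_lit 228) (nat_lit 0) (XT.nd (nat_lit 78) (nat_lit 0) (nat_lit 0) (XT.lf (nat_lit 152) (nat_lit 1591995786) (nat_lit 0) (nat_lit 59562585) (nat_lit 76) (nat_lit 59562585) (nat_lit 148) (nat_lit 1) (nat_lit 146) (nat_lit 1) (nat_lit 147) (nat_lit 1) (nat_lit 402) (nat_lit 363) (nat_lit 255)) (XT.lf (nat_lit 0) (nat_lit 505182649) (nat_lit 0) (nat_lit 672660212) (nat_lit 152) (nat_lit 505182649) (nat_lit 146) (nat_lit 3) (nat_lit 146) (nat_lit 1) (nat_lit 148) (nat_lit 1) (nat_lit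 403) (nat_lit 363) (nat_lit 254))) (XT.nd (nat_lit 78) (nat_lit 152) (nat_lit 0) (XT.lf (nat_lit 76) (nat_lit 445582141) (nat_lit 0) (nat_lit 605084582) (nat_lit 76) (nat_lit 605084582) (nat_lit 146) (nat_lit 3) (nat_lit 145) (nat_lit 1) (nat_lit 146) (nat_lit 1) (nat_lit 404) (nat_lit 363) (nat_lit 253)) (XT.lf (nat_lit 152) (nat_lit 1531266625) (nat_lit 0) (nat_lit 49002286) (nat_lit 76) (nat_lit 49002286) (nat_lit 145) (nat_lit 1) (nat_lit 143) (nat_lit 1) (nat_lit 144) (nat_lit 1) (nat_lit 405) (nat_lit 363) (nat_lit 252)))))) (XT.nd (nat_lit 468) (nat_lit 456) (nat_lit 0) (XT.nd (nat_lit 234) (nat_lit 228) (nat_lit 0) (XT.nd (nat_lit 78) (nat_lit 228) (nat_lit 0) (XT.lf (nat_lit 0) (nat_lit 488247065) (nat_lit 0) (nat_lit 626031271) (nat_lit 152) (nat_lit 488247065) (nat_lit 143) (nat_lit 3) (nat_lit 143) (nat_lit 1) (nat_lit 145) (nat_lit 1) (nat_lit 406) (nat_lit 363) (nat_lit 251)) (XT.nd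 (nat_lit 78) (nat_lit 152) (nat_lit 0) (XT.lf (nat_lit 76) (nat_lit 438042095) (nat_lit 0) (nat_lit 569265148) (nat_lit 76) (nat_lit 569265148) (nat_lit 143) (nat_lit 3) (nat_lit 142) (nat_lit 1) (nat_lit 143) (nat_lit 1) (nat_lit 407) (nat_lit 363) (nat_lit 250)) (XT.lf (nat_lit 152) (nat_lit 1470755653) (nat_lit 0) (nat_lit 40314302) (nat_lit 76) (nat_lit 40314302) (nat_lit 142) (nat_lit 1) (nat_lit 140) (nat_lit 1) (nat_lit 141) (nat_lit 1) (nat_lit 408) (nat_lit 363) (nat_lit 249)))) (XT.nd (nat_lit 78) (nat_lit 228) (nat_lit 0) (XT.lf (nat_lit 0) (nat_lit 470855449) (nat_lit 0) (nat_lit 584210856) (nat_lit 152) (nat_lit 470855449) (nat_lit 140) (nat_lit 3) (nat_lit 140) (nat_lit 1) (nat_lit 142) (nat_lit 1) (nat_lit 409) (nat_lit 363) (nat_lit 248)) (XT.nd (nat_lit 78) (nat_lit 152) (nat_lit 0) (XT.lf (nat_lit 76) (nat_lit 428435997) (nat_lit 0) (nat_lit 536393527) (nat_lit 76) (nat_lit 536393527)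 (nat_lit 140) (nat_lit 3) (nat_lit 139) (nat_lit 1) (nat_lit 140) (nat_lit 1) (nat_lit 410) (nat_lit 363) (nat_lit 247)) (XT.lf (nat_lit 152) (nat_lit 1410926517) (nat_lit 0) (nat_lit 33166676) (nat_lit 76) (nat_lit 33166676) (nat_lit 139) (nat_lit 1) (nat_lit 137) (nat_lit 1) (nat_lit 138) (nat_lit 1) (nat_lit 411) (nat_lit 363) (nat_lit 246))))) (XT.nd (nat_lit 234) (nat_lit 228) (nat_lit 0) (XT.nd (nat_lit 78) (nat_lit 228) (nat_lit 0) (XT.lf (nat_lit 0) (nat_lit 453253353) (nat_lit 0) (nat_lit 546511127) (nat_lit 152) (nat_lit 453253353) (nat_lit 137) (nat_lit 3) (nat_lit 137) (nat_lit 1) (nat_lit 139) (nat_lit 1) (nat_lit 412) (nat_lit 363) (nat_lit 245)) (XT.nd (nat_lit 78) (nat_lit 152) (nat_lit 0) (XT.lf (nat_lit 76) (nat_lit 417292194) (nat_lit 0) (nat_lit 506109121) (nat_lit 76) (nat_lit 506109121) (nat_lit 137) (nat_lit 3) (nat_lit 136) (nat_lit 1) (nat_lit 137) (nat_lit 1) (nat_lit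 413) (nat_lit 363) (nat_lit 244)) (XT.lf (nat_lit 152) (nat_lit 1352136738) (nat_lit 0) (nat_lit 27286306) (nat_lit 76) (nat_lit 27286306) (nat_lit 136) (nat_lit 1) (nat_lit 134) (nat_lit 1) (nat_lit 135) (nat_lit 1) (nat_lit 414) (nat_lit 363) (nat_lit 243)))) (XT.nd (nat_lit 156) (nat_lit 152) (nat_lit 0) (XT.nd (nat_lit 78) (nat_lit 76) (nat_lit 0) (XT.lf (nat_lit 0) (nat_lit 435634951) (nat_lit 0) (nat_lit 512358352) (nat_lit 152) (nat_lit 435634951) (nat_lit 134) (nat_lit 3) (nat_lit 134) (nat_lit 1) (nat_lit 136) (nat_lit 1) (nat_lit 415) (nat_lit 363) (nat_lit 242)) (XT.lf (nat_lit 76) (nat_lit 405037643) (nat_lit 0) (nat_lit 478107549) (nat_lit 76) (nat_lit 478107549) (nat_lit 134) (nat_lit 3) (nat_lit 133) (nat_lit 1) (nat_lit 134) (nat_lit 1) (nat_lit 416) (nat_lit 363) (nat_lit 241))) (XT.nd (nat_lit 78) (nat_lit 0) (nat_lit 0) (XT.lf (nat_lit 152) (nat_lit 1294657670) (nat_lit 0) (nat_lit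 22448511) (nat_lit 76) (nat_lit 22448511) (nat_lit 133) (nat_lit 1) (nat_lit 131) (nat_lit 1) (nat_lit 132) (nat_lit 1) (nat_lit 417) (nat_lit 363) (nat_lit 240)) (XT.lf (nat_lit 0) (nat_lit 418152519) (nat_lit 0) (nat_lit 481273052) (nat_lit 152) (nat_lit 418152519) (nat_lit 131) (nat_lit 3) (nat_lit 131) (nat_lit 1) (nat_lit 133) (nat_lit 1) (nat_lit 418) (nat_lit 363) (nat_lit 239))))))))
noncomputable def ec118 : XT := (XT.nd (nat_lit 1950) (nat_lit 456) (nat_lit 0) (XT.nd (nat_lit 936) (nat_lit 988) (nat_lit 0) (XT.nd (nat_lit 468) (nat_lit 456) (nat_lit 0) (XT.nd (nat_lit 234) (nat_lit 228) (nat_lit 0) (XT.nd (nat_lit 78) (nat_lit 152) (nat_lit 0) (XT.lf (nat_lit 76) (nat_lit 392016255) (nat_lit 0) (nat_lit 452131048) (nat_lit 76) (nat_lit 452131048) (nat_lit 131) (nat_lit 3) (nat_lit 130) (nat_lit 1) (nat_lit 131) (nat_lit 1) (nat_lit 419) (nat_lit 363) (nat_lit 238)) (XT.nd (nat_lit 78)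 (nat_lit 0) (nat_lit 0) (XT.lf (nat_lit 152) (nat_lit 1238690859) (nat_lit 0) (nat_lit 18468446) (nat_lit 76) (nat_lit 18468446) (nat_lit 130) (nat_lit 1) (nat_lit 128) (nat_lit 1) (nat_lit 129) (nat_lit 1) (nat_lit 420) (nat_lit 363) (nat_lit 237)) (XT.lf (nat_lit 0) (nat_lit 400924224) (nat_lit 0) (nat_lit 452853642) (nat_lit 152) (nat_lit 400924224) (nat_lit 128) (nat_lit 3) (nat_lit 128) (nat_lit 1) (nat_lit 130) (nat_lit 1) (nat_lit 421) (nat_lit 363) (nat_lit 236)))) (XT.nd (nat_lit 78) (nat_lit 152) (nat_lit 0) (XT.lf (nat_lit 76) (nat_lit 378503966) (nat_lit 0) (nat_lit 427960555) (nat_lit 76) (nat_lit 427960555) (nat_lit 128) (nat_lit 3) (nat_lit 127) (nat_lit 1) (nat_lit 128) (nat_lit 1) (nat_lit 422) (nat_lit 363) (nat_lit 235)) (XT.nd (nat_lit 78) (nat_lit 0) (nat_lit 0) (XT.lf (nat_lit 152) (nat_lit 1184381454) (nat_lit 0) (nat_lit 15194036) (nat_lit 76) (nat_lit 15194036) (nat_lit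 127) (nat_lit 1) (nat_lit 125) (nat_lit 1) (nat_lit 126) (nat_lit 1) (nat_lit 423) (nat_lit 363) (nat_lit 234)) (XT.lf (nat_lit 0) (nat_lit 384040505) (nat_lit 0) (nat_lit 426762966) (nat_lit 152) (nat_lit 384040505) (nat_lit 125) (nat_lit 3) (nat_lit 125) (nat_lit 1) (nat_lit 127) (nat_lit 1) (nat_lit 424) (nat_lit 363) (nat_lit 233))))) (XT.nd (nat_lit 234) (nat_lit 228) (nat_lit 0) (XT.nd (nat_lit 78) (nat_lit 152) (nat_lit 0) (XT.lf (nat_lit 76) (nat_lit 364721123) (nat_lit 0) (nat_lit 405409181) (nat_lit 76) (nat_lit 405409181) (nat_lit 125) (nat_lit 3) (nat_lit 124) (nat_lit 1) (nat_lit 125) (nat_lit 1) (nat_lit 425) (nat_lit 363) (nat_lit 232)) (XT.nd (nat_lit 78) (nat_lit 0) (nat_lit 0) (XT.lf (nat_lit 152) (nat_lit 1131829191) (nat_lit 0) (nat_lit 12500171) (nat_lit 76) (nat_lit 12500171) (nat_lit 124) (nat_lit 1) (nat_lit 122) (nat_lit 1) (nat_lit 123) (nat_lit 1) (nat_lit 426) (nat_lit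 363) (nat_lit 231)) (XT.lf (nat_lit 0) (nat_lit 367569315) (nat_lit 0) (nat_lit 402717190) (nat_lit 152) (nat_lit 367569315) (nat_lit 122) (nat_lit 3) (nat_lit 122) (nat_lit 1) (nat_lit 124) (nat_lit 1) (nat_lit 427) (nat_lit 363) (nat_lit 230)))) (XT.nd (nat_lit 78) (nat_lit 152) (nat_lit 0) (XT.lf (nat_lit 76) (nat_lit 350842660) (nat_lit 0) (nat_lit 384316826) (nat_lit 76) (nat_lit 384316826) (nat_lit 122) (nat_lit 3) (nat_lit 121) (nat_lit 1) (nat_lit 122) (nat_lit 1) (nat_lit 428) (nat_lit 363) (nat_lit 229)) (XT.nd (nat_lit 78) (nat_lit 0) (nat_lit 0) (XT.lf (nat_lit 152) (nat_lit 1081097379) (nat_lit 0) (nat_lit 10283921) (nat_lit 76) (nat_lit 10283921) (nat_lit 121) (nat_lit 1) (nat_lit 119) (nat_lit 1) (nat_lit 120) (nat_lit 1) (nat_lit 429) (nat_lit 363) (nat_lit 228)) (XT.lf (nat_lit 0) (nat_lit 351560416) (nat_lit 0) (nat_lit 380476659) (nat_lit 152) (nat_lit 351560416) (nat_lit 119)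 (nat_lit 3) (nat_lit 119) (nat_lit 1) (nat_lit 121) (nat_lit 1) (nat_lit 430) (nat_lit 363) (nat_lit 227)))))) (XT.nd (nat_lit 468) (nat_lit 532) (nat_lit 0) (XT.nd (nat_lit 234) (nat_lit 228) (nat_lit 0) (XT.nd (nat_lit 78) (nat_lit 152) (nat_lit 0) (XT.lf (nat_lit 76) (nat_lit 337006448) (nat_lit 0) (nat_lit 364545727) (nat_lit 76) (nat_lit 364545727) (nat_lit 119) (nat_lit 3) (nat_lit 118) (nat_lit 1) (nat_lit 119) (nat_lit 1) (nat_lit 431) (nat_lit 363) (nat_lit 226)) (XT.nd (nat_lit 78) (nat_lit 0) (nat_lit 0) (XT.lf (nat_lit 152) (nat_lit 1032220253) (nat_lit 0) (nat_lit 8460608) (nat_lit 76) (nat_lit 8460608) (nat_lit 118) (nat_lit 1) (nat_lit 116) (nat_lit 1) (nat_lit 117) (nat_lit 1) (nat_lit 432) (nat_lit 363) (nat_lit 225)) (XT.lf (nat_lit 0) (nat_lit 336048891) (nat_lit 0) (nat_lit 359838356) (nat_lit 152) (nat_lit 336048891) (nat_lit 116) (nat_lit 3) (nat_lit 116) (nat_lit 1) (nat_lit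 118) (nat_lit 1) (nat_lit 433) (nat_lit 363) (nat_lit 224)))) (XT.nd (nat_lit 78) (nat_lit 152) (nat_lit 0) (XT.lf (nat_lit 76) (nat_lit 323320156) (nat_lit 0) (nat_lit 345976789) (nat_lit 76) (nat_lit 345976789) (nat_lit 116) (nat_lit 3) (nat_lit 115) (nat_lit 1) (nat_lit 116) (nat_lit 1) (nat_lit 434) (nat_lit 363) (nat_lit 223)) (XT.nd (nat_lit 78) (nat_lit 0) (nat_lit 0) (XT.lf (nat_lit 152) (nat_lit 985208979) (nat_lit 0) (nat_lit 6960563) (nat_lit 76) (nat_lit 6960563) (nat_lit 115) (nat_lit 1) (nat_lit 113) (nat_lit 1) (nat_lit 114) (nat_lit 1) (nat_lit 435) (nat_lit 363) (nat_lit 222)) (XT.lf (nat_lit 0) (nat_lit 321058032) (nat_lit 0) (nat_lit 340629684) (nat_lit 152) (nat_lit 321058032) (nat_lit 113) (nat_lit 3) (nat_lit 113) (nat_lit 1) (nat_lit 115) (nat_lit 1) (nat_lit 436) (nat_lit 363) (nat_lit 221))))) (XT.nd (nat_lit 234) (nat_lit 304) (nat_lit 0) (XT.nd (nat_lit 78) (nat_lit 152)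 (nat_lit 0) (XT.lf (nat_lit 76) (nat_lit 309866880) (nat_lit 0) (nat_lit 328506549) (nat_lit 76) (nat_lit 328506549) (nat_lit 113) (nat_lit 3) (nat_lit 112) (nat_lit 1) (nat_lit 113) (nat_lit 1) (nat_lit 437) (nat_lit 363) (nat_lit 220)) (XT.nd (nat_lit 78) (nat_lit 0) (nat_lit 0) (XT.lf (nat_lit 152) (nat_lit 940056554) (nat_lit 0) (nat_lit 5726472) (nat_lit 76) (nat_lit 5726472) (nat_lit 112) (nat_lit 1) (nat_lit 110) (nat_lit 1) (nat_lit 111) (nat_lit 1) (nat_lit 438) (nat_lit 363) (nat_lit 219)) (XT.lf (nat_lit 0) (nat_lit 306601693) (nat_lit 0) (nat_lit 322703339) (nat_lit 152) (nat_lit 306601693) (nat_lit 110) (nat_lit 3) (nat_lit 110) (nat_lit 1) (nat_lit 112) (nat_lit 1) (nat_lit 439) (nat_lit 363) (nat_lit 218)))) (XT.nd (nat_lit 156) (nat_lit 76) (nat_lit 0) (XT.nd (nat_lit 78) (nat_lit 152) (nat_lit 0) (XT.lf (nat_lit 76) (nat_lit 296709762) (nat_lit 0) (nat_lit 312044663) (nat_lit 76)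 (nat_lit 312044663) (nat_lit 110) (nat_lit 3) (nat_lit 109) (nat_lit 1) (nat_lit 110) (nat_lit 1) (nat_lit 440) (nat_lit 363) (nat_lit 217)) (XT.lf (nat_lit 152) (nat_lit 896741794) (nat_lit 0) (nat_lit 4711183) (nat_lit 76) (nat_lit 4711183) (nat_lit 109) (nat_lit 1) (nat_lit 107) (nat_lit 1) (nat_lit 108) (nat_lit 1) (nat_lit 441) (nat_lit 363) (nat_lit 216))) (XT.nd (nat_lit 78) (nat_lit 76) (nat_lit 0) (XT.lf (nat_lit 0) (nat_lit 292686214) (nat_lit 0) (nat_lit 305933078) (nat_lit 152) (nat_lit 292686214) (nat_lit 107) (nat_lit 3) (nat_lit 107) (nat_lit 1) (nat_lit 109) (nat_lit 1) (nat_lit 442) (nat_lit 363) (nat_lit 215)) (XT.lf (nat_lit 76) (nat_lit 283895772) (nat_lit 0) (nat_lit 296511833) (nat_lit 76) (nat_lit 296511833) (nat_lit 107) (nat_lit 3) (nat_lit 106) (nat_lit 1) (nat_lit 107) (nat_lit 1) (nat_lit 443) (nat_lit 363) (nat_lit 214))))))) (XT.nd (nat_lit 41730) (nat_lit 0) (nat_lit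 12616) (XT.nd (nat_lit 41262) (nat_lit 0) (nat_lit 14592) (XT.nd (nat_lit 234) (nat_lit 228) (nat_lit 0) (XT.nd (nat_lit 78) (nat_lit 76) (nat_lit 0) (XT.lf (nat_lit 152) (nat_lit 855232590) (nat_lit 0) (nat_lit 3875902) (nat_lit 76) (nat_lit 3875902) (nat_lit 106) (nat_lit 1) (nat_lit 104) (nat_lit 1) (nat_lit 105) (nat_lit 1) (nat_lit 444) (nat_lit 363) (nat_lit 213)) (XT.nd (nat_lit 78) (nat_lit 76) (nat_lit 0) (XT.lf (nat_lit 0) (nat_lit 279311999) (nat_lit 0) (nat_lit 290210227) (nat_lit 152) (nat_lit 279311999) (nat_lit 104) (nat_lit 3) (nat_lit 104) (nat_lit 1) (nat_lit 106) (nat_lit 1) (nat_lit 445) (nat_lit 363) (nat_lit 212)) (XT.lf (nat_lit 76) (nat_lit 271458817) (nat_lit 0) (nat_lit 281838082) (nat_lit 76) (nat_lit 281838082) (nat_lit 104) (nat_lit 3) (nat_lit 103) (nat_lit 1) (nat_lit 104) (nat_lit 1) (nat_lit 446) (nat_lit 363) (nat_lit 211)))) (XT.nd (nat_lit 78) (nat_lit 76) (nat_lit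 0) (XT.lf (nat_lit 152) (nat_lit 815488536) (nat_lit 0) (nat_lit 3188714) (nat_lit 76) (nat_lit 3188714) (nat_lit 103) (nat_lit 1) (nat_lit 101) (nat_lit 1) (nat_lit 102) (nat_lit 1) (nat_lit 447) (nat_lit 363) (nat_lit 210)) (XT.nd (nat_lit 78) (nat_lit 76) (nat_lit 0) (XT.lf (nat_lit 0) (nat_lit 266474794) (nat_lit 0) (nat_lit 275440793) (nat_lit 152) (nat_lit 266474794) (nat_lit 101) (nat_lit 3) (nat_lit 101) (nat_lit 1) (nat_lit 103) (nat_lit 1) (nat_lit 448) (nat_lit 363) (nat_lit 209)) (XT.lf (nat_lit 76) (nat_lit 259422282) (nat_lit 0) (nat_lit 267961329) (nat_lit 76) (nat_lit 267961329) (nat_lit 101) (nat_lit 3) (nat_lit 100) (nat_lit 1) (nat_lit 101) (nat_lit 1) (nat_lit 449) (nat_lit 363) (nat_lit 208))))) (XT.nd (nat_lit 234) (nat_lit 0) (nat_lit 76) (XT.nd (nat_lit 78) (nat_lit 0) (nat_lit 0) (XT.lf (nat_lit 836) (nat_lit 1732977230) (nat_lit 0) (nat_lit 3076897089) (nat_lit 836) (nat_lit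 1732977230) (nat_lit 303) (nat_lit 1) (nat_lit 292) (nat_lit 0) (nat_lit 303) (nat_lit 0) (nat_lit 292) (nat_lit 364) (nat_lit 364)) (XT.nd (nat_lit 78) (nat_lit 0) (nat_lit 76) (XT.lf (nat_lit 836) (nat_lit 6717236100) (nat_lit 76) (nat_lit 3027269717) (nat_lit 0) (nat_lit 3027269717) (nat_lit 303) (nat_lit 1) (nat_lit 293) (nat_lit 1) (nat_lit 292) (nat_lit 0) (nat_lit 293) (nat_lit 364) (nat_lit 363)) (XT.lf (nat_lit 836) (nat_lit 3201333583) (nat_lit 0) (nat_lit 6064885987) (nat_lit 760) (nat_lit 3201333583) (nat_lit 304) (nat_lit 1) (nat_lit 293) (nat_lit 1) (nat_lit 303) (nat_lit 1) (nat_lit 294) (nat_lit 364) (nat_lit 362)))) (XT.nd (nat_lit 78) (nat_lit 0) (nat_lit 76) (XT.lf (nat_lit 836) (nat_lit 6005256967) (nat_lit 76) (nat_lit 3083951228) (nat_lit 0) (nat_lit 3083951228) (nat_lit 304) (nat_lit 1) (nat_lit 294) (nat_lit 1) (nat_lit 293) (nat_lit 1) (nat_lit 295) (nat_lit 364) (nat_lit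 361)) (XT.nd (nat_lit 78) (nat_lit 0) (nat_lit 0) (XT.lf (nat_lit 836) (nat_lit 2764162112) (nat_lit 0) (nat_lit 6359772272) (nat_lit 760) (nat_lit 2764162112) (nat_lit 305) (nat_lit 1) (nat_lit 294) (nat_lit 1) (nat_lit 304) (nat_lit 1) (nat_lit 296) (nat_lit 364) (nat_lit 360)) (XT.lf (nat_lit 836) (nat_lit 4971525595) (nat_lit 76) (nat_lit 3320098892) (nat_lit 0) (nat_lit 3320098892) (nat_lit 305) (nat_lit 1) (nat_lit 295) (nat_lit 1) (nat_lit 294) (nat_lit 1) (nat_lit 297) (nat_lit 364) (nat_lit 359)))))) (XT.nd (nat_lit 468) (nat_lit 1596) (nat_lit 0) (XT.nd (nat_lit 234) (nat_lit 608) (nat_lit 0) (XT.nd (nat_lit 78) (nat_lit 0) (nat_lit 0) (XT.lf (nat_lit 836) (nat_lit 2179870382) (nat_lit 0) (nat_lit 6984889147) (nat_lit 760) (nat_lit 2179870382) (nat_lit 306) (nat_lit 1) (nat_lit 295) (nat_lit 1) (nat_lit 305) (nat_lit 1) (nat_lit 298) (nat_lit 364) (nat_lit 358)) (XT.nd (nat_lit 78) (nat_lit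 0) (nat_lit 76) (XT.lf (nat_lit 836) (nat_lit 3664429044) (nat_lit 76) (nat_lit 3710230700) (nat_lit 0) (nat_lit 3710230700) (nat_lit 306) (nat_lit 1) (nat_lit 296) (nat_lit 1) (nat_lit 295) (nat_lit 1) (nat_lit 299) (nat_lit 364) (nat_lit 357)) (XT.lf (nat_lit 836) (nat_lit 1471077399) (nat_lit 0) (nat_lit 7892504124) (nat_lit 760) (nat_lit 1471077399) (nat_lit 307) (nat_lit 1) (nat_lit 296) (nat_lit 1) (nat_lit 306) (nat_lit 1) (nat_lit 300) (nat_lit 364) (nat_lit 356)))) (XT.nd (nat_lit 78) (nat_lit 684) (nat_lit 0) (XT.lf (nat_lit 836) (nat_lit 2126976110) (nat_lit 76) (nat_lit 4231652622) (nat_lit 0) (nat_lit 4231652622) (nat_lit 307) (nat_lit 1) (nat_lit 297) (nat_lit 1) (nat_lit 296) (nat_lit 1) (nat_lit 301) (nat_lit 364) (nat_lit 355)) (XT.nd (nat_lit 78) (nat_lit 760) (nat_lit 0) (XT.lf (nat_lit 76) (nat_lit 657873497) (nat_lit 0) (nat_lit 9040133419) (nat_lit 760) (nat_lit 657873497)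 (nat_lit 298) (nat_lit 1) (nat_lit 297) (nat_lit 1) (nat_lit 307) (nat_lit 1) (nat_lit 302) (nat_lit 364) (nat_lit 354)) (XT.lf (nat_lit 836) (nat_lit 397339232) (nat_lit 0) (nat_lit 4864179460) (nat_lit 760) (nat_lit 4864179460) (nat_lit 298) (nat_lit 1) (nat_lit 287) (nat_lit 1) (nat_lit 297) (nat_lit 1) (nat_lit 303) (nat_lit 364) (nat_lit 353))))) (XT.nd (nat_lit 234) (nat_lit 684) (nat_lit 0) (XT.nd (nat_lit 78) (nat_lit 380) (nat_lit 0) (XT.lf (nat_lit 532) (nat_lit 9429360379) (nat_lit 0) (nat_lit 238022287) (nat_lit 456) (nat_lit 238022287) (nat_lit 287) (nat_lit 1) (nat_lit 280) (nat_lit 1) (nat_lit 286) (nat_lit 1) (nat_lit 304) (nat_lit 364) (nat_lit 352)) (XT.nd (nat_lit 78) (nat_lit 380) (nat_lit 0) (XT.lf (nat_lit 76) (nat_lit 4122499946) (nat_lit 0) (nat_lit 1442945669) (nat_lit 532) (nat_lit 4122499946) (nat_lit 281) (nat_lit 1) (nat_lit 280) (nat_lit 1) (nat_lit 287) (nat_lit 1)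 (nat_lit 305) (nat_lit 364) (nat_lit 351)) (XT.lf (nat_lit 456) (nat_lit 7093764208) (nat_lit 0) (nat_lit 1192984459) (nat_lit 380) (nat_lit 1192984459) (nat_lit 281) (nat_lit 1) (nat_lit 275) (nat_lit 1) (nat_lit 280) (nat_lit 1) (nat_lit 306) (nat_lit 364) (nat_lit 350)))) (XT.nd (nat_lit 156) (nat_lit 304) (nat_lit 0) (XT.nd (nat_lit 78) (nat_lit 380) (nat_lit 0) (XT.lf (nat_lit 76) (nat_lit 2940529027) (nat_lit 0) (nat_lit 3394839837) (nat_lit 456) (nat_lit 2940529027) (nat_lit 276) (nat_lit 1) (nat_lit 275) (nat_lit 1) (nat_lit 281) (nat_lit 1) (nat_lit 307) (nat_lit 364) (nat_lit 349)) (XT.lf (nat_lit 456) (nat_lit 4671344330) (nat_lit 0) (nat_lit 2203908681) (nat_lit 380) (nat_lit 2203908681) (nat_lit 276) (nat_lit 1) (nat_lit 270) (nat_lit 1) (nat_lit 275) (nat_lit 1) (nat_lit 308) (nat_lit 364) (nat_lit 348))) (XT.nd (nat_lit 78) (nat_lit 304) (nat_lit 0) (XT.lf (nat_lit 76) (nat_lit 1721328303)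 (nat_lit 0) (nat_lit 5445490638) (nat_lit 456) (nat_lit 1721328303) (nat_lit 271) (nat_lit 1) (nat_lit 270) (nat_lit 1) (nat_lit 276) (nat_lit 1) (nat_lit 309) (nat_lit 364) (nat_lit 347)) (XT.lf (nat_lit 380) (nat_lit 2184647328) (nat_lit 0) (nat_lit 3258699495) (nat_lit 304) (nat_lit 3258699495) (nat_lit 271) (nat_lit 1) (nat_lit 266) (nat_lit 1) (nat_lit 270) (nat_lit 1) (nat_lit 310) (nat_lit 364) (nat_lit 346))))))))
noncomputable def ec119 : XT := (XT.nd (nat_lit 1950) (nat_lit 2432) (nat_lit 0) (XT.nd (nat_lit 936) (nat_lit 1672) (nat_lit 0) (XT.nd (nat_lit 468) (nat_lit 1064) (nat_lit 0) (XT.nd (nat_lit 234) (nat_lit 304) (nat_lit 0) (XT.nd (nat_lit 78) (nat_lit 684) (nat_lit 0) (XT.lf (nat_lit 76) (nat_lit 475364681) (nat_lit 0) (nat_lit 7572372555) (nat_lit 380) (nat_lit 475364681) (nat_lit 267) (nat_lit 1) (nat_lit 266) (nat_lit 1) (nat_lit 271) (nat_lit 1) (nat_lit 311) (nat_lit 364)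 (nat_lit 345)) (XT.nd (nat_lit 78) (nat_lit 304) (nat_lit 0) (XT.lf (nat_lit 76) (nat_lit 4005559400) (nat_lit 0) (nat_lit 335473380) (nat_lit 380) (nat_lit 4005559400) (nat_lit 262) (nat_lit 1) (nat_lit 261) (nat_lit 1) (nat_lit 266) (nat_lit 1) (nat_lit 312) (nat_lit 364) (nat_lit 344)) (XT.lf (nat_lit 380) (nat_lit 6625826932) (nat_lit 0) (nat_lit 775488718) (nat_lit 304) (nat_lit 775488718) (nat_lit 262) (nat_lit 1) (nat_lit 257) (nat_lit 1) (nat_lit 261) (nat_lit 1) (nat_lit 313) (nat_lit 364) (nat_lit 343)))) (XT.nd (nat_lit 78) (nat_lit 304) (nat_lit 0) (XT.lf (nat_lit 76) (nat_lit 2598940614) (nat_lit 0) (nat_lit 2812048076) (nat_lit 380) (nat_lit 2598940614) (nat_lit 258) (nat_lit 1) (nat_lit 257) (nat_lit 1) (nat_lit 262) (nat_lit 1) (nat_lit 314) (nat_lit 364) (nat_lit 342)) (XT.nd (nat_lit 78) (nat_lit 0) (nat_lit 0) (XT.lf (nat_lit 380) (nat_lit 3792577325) (nat_lit 0) (nat_lit 2028131777)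 (nat_lit 304) (nat_lit 2028131777) (nat_lit 258) (nat_lit 1) (nat_lit 253) (nat_lit 1) (nat_lit 257) (nat_lit 1) (nat_lit 315) (nat_lit 364) (nat_lit 341)) (XT.lf (nat_lit 76) (nat_lit 1196009628) (nat_lit 0) (nat_lit 5300443438) (nat_lit 380) (nat_lit 1196009628) (nat_lit 254) (nat_lit 1) (nat_lit 253) (nat_lit 1) (nat_lit 258) (nat_lit 1) (nat_lit 316) (nat_lit 364) (nat_lit 340))))) (XT.nd (nat_lit 234) (nat_lit 456) (nat_lit 0) (XT.nd (nat_lit 78) (nat_lit 380) (nat_lit 0) (XT.lf (nat_lit 304) (nat_lit 972663406) (nat_lit 0) (nat_lit 3283398341) (nat_lit 228) (nat_lit 3283398341) (nat_lit 254) (nat_lit 1) (nat_lit 250) (nat_lit 1) (nat_lit 253) (nat_lit 1) (nat_lit 317) (nat_lit 364) (nat_lit 339)) (XT.nd (nat_lit 78) (nat_lit 0) (nat_lit 0) (XT.lf (nat_lit 380) (nat_lit 7003684408) (nat_lit 0) (nat_lit 194338803) (nat_lit 304) (nat_lit 194338803) (nat_lit 250) (nat_lit 1) (nat_lit 245) (nat_lit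 1) (nat_lit 249) (nat_lit 1) (nat_lit 318) (nat_lit 364) (nat_lit 338)) (XT.lf (nat_lit 76) (nat_lit 2740593486) (nat_lit 0) (nat_lit 1764891140) (nat_lit 380) (nat_lit 2740593486) (nat_lit 246) (nat_lit 1) (nat_lit 245) (nat_lit 1) (nat_lit 250) (nat_lit 1) (nat_lit 319) (nat_lit 364) (nat_lit 337)))) (XT.nd (nat_lit 78) (nat_lit 228) (nat_lit 0) (XT.lf (nat_lit 304) (nat_lit 4002723429) (nat_lit 0) (nat_lit 1551340579) (nat_lit 228) (nat_lit 1551340579) (nat_lit 246) (nat_lit 1) (nat_lit 242) (nat_lit 1) (nat_lit 245) (nat_lit 1) (nat_lit 320) (nat_lit 364) (nat_lit 336)) (XT.nd (nat_lit 78) (nat_lit 228) (nat_lit 0) (XT.lf (nat_lit 76) (nat_lit 1264522247) (nat_lit 0) (nat_lit 4439260619) (nat_lit 304) (nat_lit 1264522247) (nat_lit 243) (nat_lit 1) (nat_lit 242) (nat_lit 1) (nat_lit 246) (nat_lit 1) (nat_lit 321) (nat_lit 364) (nat_lit 335)) (XT.lf (nat_lit 304) (nat_lit 1053939768) (nat_lit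 0) (nat_lit 2890192423) (nat_lit 228) (nat_lit 2890192423) (nat_lit 243) (nat_lit 1) (nat_lit 239) (nat_lit 1) (nat_lit 242) (nat_lit 1) (nat_lit 322) (nat_lit 364) (nat_lit 334)))))) (XT.nd (nat_lit 468) (nat_lit 684) (nat_lit 0) (XT.nd (nat_lit 234) (nat_lit 456) (nat_lit 0) (XT.nd (nat_lit 78) (nat_lit 228) (nat_lit 0) (XT.lf (nat_lit 304) (nat_lit 6343060792) (nat_lit 0) (nat_lit 181130436) (nat_lit 228) (nat_lit 181130436) (nat_lit 239) (nat_lit 1) (nat_lit 235) (nat_lit 1) (nat_lit 238) (nat_lit 1) (nat_lit 323) (nat_lit 364) (nat_lit 333)) (XT.nd (nat_lit 78) (nat_lit 228) (nat_lit 0) (XT.lf (nat_lit 76) (nat_lit 2399398243) (nat_lit 0) (nat_lit 1777930006) (nat_lit 304) (nat_lit 2399398243) (nat_lit 236) (nat_lit 1) (nat_lit 235) (nat_lit 1) (nat_lit 239) (nat_lit 1) (nat_lit 324) (nat_lit 364) (nat_lit 332)) (XT.lf (nat_lit 304) (nat_lit 3299392288) (nat_lit 0) (nat_lit 1576748538) (nat_lit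 228) (nat_lit 1576748538) (nat_lit 236) (nat_lit 1) (nat_lit 232) (nat_lit 1) (nat_lit 235) (nat_lit 1) (nat_lit 325) (nat_lit 364) (nat_lit 331)))) (XT.nd (nat_lit 78) (nat_lit 456) (nat_lit 0) (XT.lf (nat_lit 76) (nat_lit 908649945) (nat_lit 0) (nat_lit 4515073712) (nat_lit 304) (nat_lit 908649945) (nat_lit 233) (nat_lit 1) (nat_lit 232) (nat_lit 1) (nat_lit 236) (nat_lit 1) (nat_lit 326) (nat_lit 364) (nat_lit 330)) (XT.nd (nat_lit 78) (nat_lit 304) (nat_lit 0) (XT.lf (nat_lit 228) (nat_lit 332959551) (nat_lit 0) (nat_lit 2940584668) (nat_lit 152) (nat_lit 2940584668) (nat_lit 233) (nat_lit 1) (nat_lit 230) (nat_lit 1) (nat_lit 232) (nat_lit 1) (nat_lit 327) (nat_lit 364) (nat_lit 329)) (XT.lf (nat_lit 304) (nat_lit 5030907183) (nat_lit 0) (nat_lit 534318808) (nat_lit 228) (nat_lit 534318808) (nat_lit 230) (nat_lit 1) (nat_lit 226) (nat_lit 1) (nat_lit 229) (nat_lit 1) (nat_lit 328) (nat_lit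 364) (nat_lit 328))))) (XT.nd (nat_lit 234) (nat_lit 532) (nat_lit 0) (XT.nd (nat_lit 78) (nat_lit 152) (nat_lit 0) (XT.lf (nat_lit 76) (nat_lit 1757176460) (nat_lit 0) (nat_lit 2471889305) (nat_lit 304) (nat_lit 1757176460) (nat_lit 227) (nat_lit 1) (nat_lit 226) (nat_lit 1) (nat_lit 230) (nat_lit 1) (nat_lit 329) (nat_lit 364) (nat_lit 327)) (XT.nd (nat_lit 78) (nat_lit 0) (nat_lit 0) (XT.lf (nat_lit 228) (nat_lit 2030146343) (nat_lit 0) (nat_lit 1923145067) (nat_lit 152) (nat_lit 1923145067) (nat_lit 227) (nat_lit 1) (nat_lit 224) (nat_lit 1) (nat_lit 226) (nat_lit 1) (nat_lit 330) (nat_lit 364) (nat_lit 326)) (XT.lf (nat_lit 76) (nat_lit 291667591) (nat_lit 0) (nat_lit 5186939578) (nat_lit 228) (nat_lit 291667591) (nat_lit 225) (nat_lit 1) (nat_lit 224) (nat_lit 1) (nat_lit 227) (nat_lit 1) (nat_lit 331) (nat_lit 364) (nat_lit 325)))) (XT.nd (nat_lit 156) (nat_lit 152) (nat_lit 0) (XT.nd (nat_lit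 78) (nat_lit 152) (nat_lit 0) (XT.lf (nat_lit 76) (nat_lit 2407183804) (nat_lit 0) (nat_lit 850131342) (nat_lit 228) (nat_lit 2407183804) (nat_lit 222) (nat_lit 1) (nat_lit 221) (nat_lit 1) (nat_lit 224) (nat_lit 1) (nat_lit 332) (nat_lit 364) (nat_lit 324)) (XT.lf (nat_lit 228) (nat_lit 3342796607) (nat_lit 0) (nat_lit 1109717904) (nat_lit 152) (nat_lit 1109717904) (nat_lit 222) (nat_lit 1) (nat_lit 219) (nat_lit 1) (nat_lit 221) (nat_lit 1) (nat_lit 333) (nat_lit 364) (nat_lit 323))) (XT.nd (nat_lit 78) (nat_lit 152) (nat_lit 0) (XT.lf (nat_lit 76) (nat_lit 943250235) (nat_lit 0) (nat_lit 3575725722) (nat_lit 228) (nat_lit 943250235) (nat_lit 220) (nat_lit 1) (nat_lit 219) (nat_lit 1) (nat_lit 222) (nat_lit 1) (nat_lit 334) (nat_lit 364) (nat_lit 322)) (XT.lf (nat_lit 228) (nat_lit 441878775) (nat_lit 0) (nat_lit 2461178532) (nat_lit 152) (nat_lit 2461178532) (nat_lit 220) (nat_lit 1) (nat_lit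 217) (nat_lit 1) (nat_lit 219) (nat_lit 1) (nat_lit 335) (nat_lit 364) (nat_lit 321))))))) (XT.nd (nat_lit 1014) (nat_lit 1140) (nat_lit 0) (XT.nd (nat_lit 468) (nat_lit 608) (nat_lit 0) (XT.nd (nat_lit 234) (nat_lit 304) (nat_lit 0) (XT.nd (nat_lit 78) (nat_lit 152) (nat_lit 0) (XT.lf (nat_lit 228) (nat_lit 4343070076) (nat_lit 0) (nat_lit 463007378) (nat_lit 152) (nat_lit 463007378) (nat_lit 217) (nat_lit 1) (nat_lit 214) (nat_lit 1) (nat_lit 216) (nat_lit 1) (nat_lit 336) (nat_lit 364) (nat_lit 320)) (XT.nd (nat_lit 78) (nat_lit 152) (nat_lit 0) (XT.lf (nat_lit 76) (nat_lit 1445818671) (nat_lit 0) (nat_lit 2283108586) (nat_lit 228) (nat_lit 1445818671) (nat_lit 215) (nat_lit 1) (nat_lit 214) (nat_lit 1) (nat_lit 217) (nat_lit 1) (nat_lit 337) (nat_lit 364) (nat_lit 319)) (XT.lf (nat_lit 228) (nat_lit 1472496121) (nat_lit 0) (nat_lit 1805324846) (nat_lit 152) (nat_lit 1805324846) (nat_lit 215)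 (nat_lit 1) (nat_lit 212) (nat_lit 1) (nat_lit 214) (nat_lit 1) (nat_lit 338) (nat_lit 364) (nat_lit 318)))) (XT.nd (nat_lit 78) (nat_lit 304) (nat_lit 0) (XT.lf (nat_lit 76) (nat_lit 48396886) (nat_lit 0) (nat_lit 4897964347) (nat_lit 228) (nat_lit 48396886) (nat_lit 213) (nat_lit 1) (nat_lit 212) (nat_lit 1) (nat_lit 215) (nat_lit 1) (nat_lit 339) (nat_lit 364) (nat_lit 317)) (XT.nd (nat_lit 78) (nat_lit 152) (nat_lit 0) (XT.lf (nat_lit 76) (nat_lit 1827387521) (nat_lit 0) (nat_lit 1251033546) (nat_lit 152) (nat_lit 1827387521) (nat_lit 211) (nat_lit 1) (nat_lit 210) (nat_lit 1) (nat_lit 212) (nat_lit 1) (nat_lit 340) (nat_lit 364) (nat_lit 316)) (XT.lf (nat_lit 228) (nat_lit 2267579879) (nat_lit 0) (nat_lit 1276204434) (nat_lit 152) (nat_lit 1276204434) (nat_lit 211) (nat_lit 1) (nat_lit 208) (nat_lit 1) (nat_lit 210) (nat_lit 1) (nat_lit 341) (nat_lit 364) (nat_lit 315))))) (XT.nd (nat_lit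 234) (nat_lit 304) (nat_lit 0) (XT.nd (nat_lit 78) (nat_lit 304) (nat_lit 0) (XT.lf (nat_lit 76) (nat_lit 454634093) (nat_lit 0) (nat_lit 3827217216) (nat_lit 228) (nat_lit 454634093) (nat_lit 209) (nat_lit 1) (nat_lit 208) (nat_lit 1) (nat_lit 211) (nat_lit 1) (nat_lit 342) (nat_lit 364) (nat_lit 314)) (XT.nd (nat_lit 78) (nat_lit 152) (nat_lit 0) (XT.lf (nat_lit 76) (nat_lit 2110928542) (nat_lit 0) (nat_lit 431813596) (nat_lit 152) (nat_lit 2110928542) (nat_lit 207) (nat_lit 1) (nat_lit 206) (nat_lit 1) (nat_lit 208) (nat_lit 1) (nat_lit 343) (nat_lit 364) (nat_lit 313)) (XT.lf (nat_lit 228) (nat_lit 2871404222) (nat_lit 0) (nat_lit 850850085) (nat_lit 152) (nat_lit 850850085) (nat_lit 207) (nat_lit 1) (nat_lit 204) (nat_lit 1) (nat_lit 206) (nat_lit 1) (nat_lit 344) (nat_lit 364) (nat_lit 312)))) (XT.nd (nat_lit 156) (nat_lit 228) (nat_lit 0) (XT.nd (nat_lit 78) (nat_lit 76) (nat_lit 0) (XT.lf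 (nat_lit 76) (nat_lit 769093218) (nat_lit 0) (nat_lit 2955946624) (nat_lit 228) (nat_lit 769093218) (nat_lit 205) (nat_lit 1) (nat_lit 204) (nat_lit 1) (nat_lit 207) (nat_lit 1) (nat_lit 345) (nat_lit 364) (nat_lit 311)) (XT.lf (nat_lit 152) (nat_lit 220778655) (nat_lit 0) (nat_lit 2097936651) (nat_lit 76) (nat_lit 2097936651) (nat_lit 205) (nat_lit 1) (nat_lit 203) (nat_lit 1) (nat_lit 204) (nat_lit 1) (nat_lit 346) (nat_lit 364) (nat_lit 310))) (XT.nd (nat_lit 78) (nat_lit 0) (nat_lit 0) (XT.lf (nat_lit 228) (nat_lit 3320273877) (nat_lit 0) (nat_lit 510390317) (nat_lit 152) (nat_lit 510390317) (nat_lit 203) (nat_lit 1) (nat_lit 200) (nat_lit 1) (nat_lit 202) (nat_lit 1) (nat_lit 347) (nat_lit 364) (nat_lit 309)) (XT.lf (nat_lit 76) (nat_lit 1008986917) (nat_lit 0) (nat_lit 2248327031) (nat_lit 228) (nat_lit 1008986917) (nat_lit 201) (nat_lit 1) (nat_lit 200) (nat_lit 1) (nat_lit 203) (nat_lit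 1) (nat_lit 348) (nat_lit 364) (nat_lit 308)))))) (XT.nd (nat_lit 468) (nat_lit 532) (nat_lit 0) (XT.nd (nat_lit 234) (nat_lit 304) (nat_lit 0) (XT.nd (nat_lit 78) (nat_lit 228) (nat_lit 0) (XT.lf (nat_lit 152) (nat_lit 741424742) (nat_lit 0) (nat_lit 1725977674) (nat_lit 76) (nat_lit 1725977674) (nat_lit 201) (nat_lit 1) (nat_lit 199) (nat_lit 1) (nat_lit 200) (nat_lit 1) (nat_lit 349) (nat_lit 364) (nat_lit 307)) (XT.nd (nat_lit 78) (nat_lit 0) (nat_lit 0) (XT.lf (nat_lit 228) (nat_lit 3643942790) (nat_lit 0) (nat_lit 239322088) (nat_lit 152) (nat_lit 239322088) (nat_lit 199) (nat_lit 1) (nat_lit 196) (nat_lit 1) (nat_lit 198) (nat_lit 1) (nat_lit 350) (nat_lit 364) (nat_lit 306)) (XT.lf (nat_lit 76) (nat_lit 1188431294) (nat_lit 0) (nat_lit 1674906524) (nat_lit 228) (nat_lit 1188431294) (nat_lit 197) (nat_lit 1) (nat_lit 196) (nat_lit 1) (nat_lit 199) (nat_lit 1) (nat_lit 351) (nat_lit 364)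 (nat_lit 305)))) (XT.nd (nat_lit 78) (nat_lit 228) (nat_lit 0) (XT.lf (nat_lit 152) (nat_lit 1143104918) (nat_lit 0) (nat_lit 1419966104) (nat_lit 76) (nat_lit 1419966104) (nat_lit 197) (nat_lit 1) (nat_lit 195) (nat_lit 1) (nat_lit 196) (nat_lit 1) (nat_lit 352) (nat_lit 364) (nat_lit 304)) (XT.nd (nat_lit 78) (nat_lit 0) (nat_lit 0) (XT.lf (nat_lit 228) (nat_lit 3866780995) (nat_lit 0) (nat_lit 24912504) (nat_lit 152) (nat_lit 24912504) (nat_lit 195) (nat_lit 1) (nat_lit 192) (nat_lit 1) (nat_lit 194) (nat_lit 1) (nat_lit 353) (nat_lit 364) (nat_lit 303)) (XT.lf (nat_lit 76) (nat_lit 1318997043) (nat_lit 0) (nat_lit 1211475754) (nat_lit 228) (nat_lit 1318997043) (nat_lit 193) (nat_lit 1) (nat_lit 192) (nat_lit 1) (nat_lit 195) (nat_lit 1) (nat_lit 354) (nat_lit 364) (nat_lit 302))))) (XT.nd (nat_lit 234) (nat_lit 304) (nat_lit 0) (XT.nd (nat_lit 78) (nat_lit 152) (nat_lit 0) (XT.lf (nat_lit 152)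 (nat_lit 1448180910) (nat_lit 0) (nat_lit 1168209628) (nat_lit 76) (nat_lit 1168209628) (nat_lit 193) (nat_lit 1) (nat_lit 191) (nat_lit 1) (nat_lit 192) (nat_lit 1) (nat_lit 355) (nat_lit 364) (nat_lit 301)) (XT.nd (nat_lit 78) (nat_lit 152) (nat_lit 0) (XT.lf (nat_lit 0) (nat_lit 145642416) (nat_lit 0) (nat_lit 3430404183) (nat_lit 152) (nat_lit 145642416) (nat_lit 191) (nat_lit 3) (nat_lit 191) (nat_lit 1) (nat_lit 193) (nat_lit 1) (nat_lit 356) (nat_lit 364) (nat_lit 300)) (XT.lf (nat_lit 76) (nat_lit 1410162776) (nat_lit 0) (nat_lit 838137445) (nat_lit 152) (nat_lit 1410162776) (nat_lit 190) (nat_lit 1) (nat_lit 189) (nat_lit 1) (nat_lit 191) (nat_lit 1) (nat_lit 357) (nat_lit 364) (nat_lit 299)))) (XT.nd (nat_lit 156) (nat_lit 228) (nat_lit 0) (XT.nd (nat_lit 78) (nat_lit 0) (nat_lit 0) (XT.lf (nat_lit 152) (nat_lit 1674989318) (nat_lit 0) (nat_lit 961088952) (nat_lit 76) (nat_lit 961088952)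 (nat_lit 190) (nat_lit 1) (nat_lit 188) (nat_lit 1) (nat_lit 189) (nat_lit 1) (nat_lit 358) (nat_lit 364) (nat_lit 298)) (XT.lf (nat_lit 0) (nat_lit 278367032) (nat_lit 0) (nat_lit 2980748666) (nat_lit 152) (nat_lit 278367032) (nat_lit 188) (nat_lit 3) (nat_lit 188) (nat_lit 1) (nat_lit 190) (nat_lit 1) (nat_lit 359) (nat_lit 364) (nat_lit 297))) (XT.nd (nat_lit 78) (nat_lit 76) (nat_lit 0) (XT.lf (nat_lit 76) (nat_lit 1469687876) (nat_lit 0) (nat_lit 538540935) (nat_lit 152) (nat_lit 1469687876) (nat_lit 187) (nat_lit 1) (nat_lit 186) (nat_lit 1) (nat_lit 188) (nat_lit 1) (nat_lit 360) (nat_lit 364) (nat_lit 296)) (XT.lf (nat_lit 152) (nat_lit 1838558143) (nat_lit 0) (nat_lit 790690259) (nat_lit 76) (nat_lit 790690259) (nat_lit 187) (nat_lit 1) (nat_lit 185) (nat_lit 1) (nat_lit 186) (nat_lit 1) (nat_lit 361) (nat_lit 364) (nat_lit 295))))))))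
noncomputable def ec120 : XT := (XT.nd (nat_lit 1950) (nat_lit 1900) (nat_lit 0) (XT.nd (nat_lit 936) (nat_lit 912) (nat_lit 0) (XT.nd (nat_lit 468) (nat_lit 456) (nat_lit 0) (XT.nd (nat_lit 234) (nat_lit 228) (nat_lit 0) (XT.nd (nat_lit 78) (nat_lit 228) (nat_lit 0) (XT.lf (nat_lit 0) (nat_lit 380010061) (nat_lit 0) (nat_lit 2603266119) (nat_lit 152) (nat_lit 380010061) (nat_lit 185) (nat_lit 3) (nat_lit 185) (nat_lit 1) (nat_lit 187) (nat_lit 1) (nat_lit 362) (nat_lit 364) (nat_lit 294)) (XT.nd (nat_lit 78) (nat_lit 76) (nat_lit 0) (XT.lf (nat_lit 76) (nat_lit 1503919158) (nat_lit 0) (nat_lit 299252470) (nat_lit 152) (nat_lit 1503919158) (nat_lit 184) (nat_lit 1) (nat_lit 183) (nat_lit 1) (nat_lit 185) (nat_lit 1) (nat_lit 363) (nat_lit 364) (nat_lit 293)) (XT.lf (nat_lit 152) (nat_lit 1951196130) (nat_lit 0) (nat_lit 650502833) (nat_lit 76) (nat_lit 650502833) (nat_lit 184) (nat_lit 1) (nat_lit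 182) (nat_lit 1) (nat_lit 183) (nat_lit 1) (nat_lit 364) (nat_lit 364) (nat_lit 292)))) (XT.nd (nat_lit 78) (nat_lit 228) (nat_lit 0) (XT.lf (nat_lit 0) (nat_lit 456441708) (nat_lit 0) (nat_lit 2285519969) (nat_lit 152) (nat_lit 456441708) (nat_lit 182) (nat_lit 3) (nat_lit 182) (nat_lit 1) (nat_lit 184) (nat_lit 1) (nat_lit 365) (nat_lit 364) (nat_lit 291)) (XT.nd (nat_lit 78) (nat_lit 76) (nat_lit 0) (XT.lf (nat_lit 76) (nat_lit 1518043066) (nat_lit 0) (nat_lit 109237185) (nat_lit 152) (nat_lit 1518043066) (nat_lit 181) (nat_lit 1) (nat_lit 180) (nat_lit 1) (nat_lit 182) (nat_lit 1) (nat_lit 366) (nat_lit 364) (nat_lit 290)) (XT.lf (nat_lit 152) (nat_lit 2022977500) (nat_lit 0) (nat_lit 535170290) (nat_lit 76) (nat_lit 535170290) (nat_lit 181) (nat_lit 1) (nat_lit 179) (nat_lit 1) (nat_lit 180) (nat_lit 1) (nat_lit 367) (nat_lit 364) (nat_lit 289))))) (XT.nd (nat_lit 234) (nat_lit 228) (nat_lit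 0) (XT.nd (nat_lit 78) (nat_lit 228) (nat_lit 0) (XT.lf (nat_lit 0) (nat_lit 512474285) (nat_lit 0) (nat_lit 2017261497) (nat_lit 152) (nat_lit 512474285) (nat_lit 179) (nat_lit 3) (nat_lit 179) (nat_lit 1) (nat_lit 181) (nat_lit 1) (nat_lit 368) (nat_lit 364) (nat_lit 288)) (XT.nd (nat_lit 78) (nat_lit 152) (nat_lit 0) (XT.lf (nat_lit 76) (nat_lit 41908352) (nat_lit 0) (nat_lit 1475039030) (nat_lit 76) (nat_lit 1475039030) (nat_lit 179) (nat_lit 3) (nat_lit 178) (nat_lit 1) (nat_lit 179) (nat_lit 1) (nat_lit 369) (nat_lit 364) (nat_lit 287)) (XT.lf (nat_lit 152) (nat_lit 2062140610) (nat_lit 0) (nat_lit 440285922) (nat_lit 76) (nat_lit 440285922) (nat_lit 178) (nat_lit 1) (nat_lit 176) (nat_lit 1) (nat_lit 177) (nat_lit 1) (nat_lit 370) (nat_lit 364) (nat_lit 286)))) (XT.nd (nat_lit 78) (nat_lit 228) (nat_lit 0) (XT.lf (nat_lit 0) (nat_lit 552050588) (nat_lit 0) (nat_lit 1790042752) (nat_lit 152)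 (nat_lit 552050588) (nat_lit 176) (nat_lit 3) (nat_lit 176) (nat_lit 1) (nat_lit 178) (nat_lit 1) (nat_lit 371) (nat_lit 364) (nat_lit 285)) (XT.nd (nat_lit 78) (nat_lit 152) (nat_lit 0) (XT.lf (nat_lit 76) (nat_lit 162811013) (nat_lit 0) (nat_lit 1341851168) (nat_lit 76) (nat_lit 1341851168) (nat_lit 176) (nat_lit 3) (nat_lit 175) (nat_lit 1) (nat_lit 176) (nat_lit 1) (nat_lit 372) (nat_lit 364) (nat_lit 284)) (XT.lf (nat_lit 152) (nat_lit 2075415816) (nat_lit 0) (nat_lit 362224318) (nat_lit 76) (nat_lit 362224318) (nat_lit 175) (nat_lit 1) (nat_lit 173) (nat_lit 1) (nat_lit 174) (nat_lit 1) (nat_lit 373) (nat_lit 364) (nat_lit 283)))))) (XT.nd (nat_lit 468) (nat_lit 456) (nat_lit 0) (XT.nd (nat_lit 234) (nat_lit 228) (nat_lit 0) (XT.nd (nat_lit 78) (nat_lit 228) (nat_lit 0) (XT.lf (nat_lit 0) (nat_lit 578398839) (nat_lit 0) (nat_lit 1596898055) (nat_lit 152) (nat_lit 578398839) (nat_lit 173)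 (nat_lit 3) (nat_lit 173) (nat_lit 1) (nat_lit 175) (nat_lit 1) (nat_lit 374) (nat_lit 364) (nat_lit 282)) (XT.nd (nat_lit 78) (nat_lit 152) (nat_lit 0) (XT.lf (nat_lit 76) (nat_lit 256166840) (nat_lit 0) (nat_lit 1226166094) (nat_lit 76) (nat_lit 1226166094) (nat_lit 173) (nat_lit 3) (nat_lit 172) (nat_lit 1) (nat_lit 173) (nat_lit 1) (nat_lit 375) (nat_lit 364) (nat_lit 281)) (XT.lf (nat_lit 152) (nat_lit 2068295093) (nat_lit 0) (nat_lit 298002843) (nat_lit 76) (nat_lit 298002843) (nat_lit 172) (nat_lit 1) (nat_lit 170) (nat_lit 1) (nat_lit 171) (nat_lit 1) (nat_lit 376) (nat_lit 364) (nat_lit 280)))) (XT.nd (nat_lit 78) (nat_lit 228) (nat_lit 0) (XT.lf (nat_lit 0) (nat_lit 594160111) (nat_lit 0) (nat_lit 1432081938) (nat_lit 152) (nat_lit 594160111) (nat_lit 170) (nat_lit 3) (nat_lit 170) (nat_lit 1) (nat_lit 172) (nat_lit 1) (nat_lit 377) (nat_lit 364) (nat_lit 279)) (XT.nd (nat_lit 78) (nat_lit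 152) (nat_lit 0) (XT.lf (nat_lit 76) (nat_lit 327150824) (nat_lit 0) (nat_lit 1125171610) (nat_lit 76) (nat_lit 1125171610) (nat_lit 170) (nat_lit 3) (nat_lit 169) (nat_lit 1) (nat_lit 170) (nat_lit 1) (nat_lit 378) (nat_lit 364) (nat_lit 278)) (XT.lf (nat_lit 152) (nat_lit 2045253743) (nat_lit 0) (nat_lit 245167676) (nat_lit 76) (nat_lit 245167676) (nat_lit 169) (nat_lit 1) (nat_lit 167) (nat_lit 1) (nat_lit 168) (nat_lit 1) (nat_lit 379) (nat_lit 364) (nat_lit 277))))) (XT.nd (nat_lit 234) (nat_lit 228) (nat_lit 0) (XT.nd (nat_lit 78) (nat_lit 228) (nat_lit 0) (XT.lf (nat_lit 0) (nat_lit 601493142) (nat_lit 0) (nat_lit 1290853502) (nat_lit 152) (nat_lit 601493142) (nat_lit 167) (nat_lit 3) (nat_lit 167) (nat_lit 1) (nat_lit 169) (nat_lit 1) (nat_lit 380) (nat_lit 364) (nat_lit 276)) (XT.nd (nat_lit 78) (nat_lit 152) (nat_lit 0) (XT.lf (nat_lit 76) (nat_lit 380006583) (nat_lit 0) (nat_lit 1036540259)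 (nat_lit 76) (nat_lit 1036540259) (nat_lit 167) (nat_lit 3) (nat_lit 166) (nat_lit 1) (nat_lit 167) (nat_lit 1) (nat_lit 381) (nat_lit 364) (nat_lit 275)) (XT.lf (nat_lit 152) (nat_lit 2009932699) (nat_lit 0) (nat_lit 201700054) (nat_lit 76) (nat_lit 201700054) (nat_lit 166) (nat_lit 1) (nat_lit 164) (nat_lit 1) (nat_lit 165) (nat_lit 1) (nat_lit 382) (nat_lit 364) (nat_lit 274)))) (XT.nd (nat_lit 156) (nat_lit 152) (nat_lit 0) (XT.nd (nat_lit 78) (nat_lit 76) (nat_lit 0) (XT.lf (nat_lit 0) (nat_lit 602160514) (nat_lit 0) (nat_lit 1169298988) (nat_lit 152) (nat_lit 602160514) (nat_lit 164) (nat_lit 3) (nat_lit 164) (nat_lit 1) (nat_lit 166) (nat_lit 1) (nat_lit 383) (nat_lit 364) (nat_lit 273)) (XT.lf (nat_lit 76) (nat_lit 418212157) (nat_lit 0) (nat_lit 958344037) (nat_lit 76) (nat_lit 958344037) (nat_lit 164) (nat_lit 3) (nat_lit 163) (nat_lit 1) (nat_lit 164) (nat_lit 1) (nat_lit 384) (nat_lit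 364) (nat_lit 272))) (XT.nd (nat_lit 78) (nat_lit 0) (nat_lit 0) (XT.lf (nat_lit 152) (nat_lit 1965288399) (nat_lit 0) (nat_lit 165939133) (nat_lit 76) (nat_lit 165939133) (nat_lit 163) (nat_lit 1) (nat_lit 161) (nat_lit 1) (nat_lit 162) (nat_lit 1) (nat_lit 385) (nat_lit 364) (nat_lit 271)) (XT.lf (nat_lit 0) (nat_lit 597599533) (nat_lit 0) (nat_lit 1064185759) (nat_lit 152) (nat_lit 597599533) (nat_lit 161) (nat_lit 3) (nat_lit 161) (nat_lit 1) (nat_lit 163) (nat_lit 1) (nat_lit 386) (nat_lit 364) (nat_lit 270))))))) (XT.nd (nat_lit 936) (nat_lit 988) (nat_lit 0) (XT.nd (nat_lit 468) (nat_lit 456) (nat_lit 0) (XT.nd (nat_lit 234) (nat_lit 228) (nat_lit 0) (XT.nd (nat_lit 78) (nat_lit 152) (nat_lit 0) (XT.lf (nat_lit 76) (nat_lit 444616368) (nat_lit 0) (nat_lit 888984203) (nat_lit 76) (nat_lit 888984203) (nat_lit 161) (nat_lit 3) (nat_lit 160) (nat_lit 1) (nat_lit 161) (nat_lit 1) (nat_lit 387)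 (nat_lit 364) (nat_lit 269)) (XT.nd (nat_lit 78) (nat_lit 0) (nat_lit 0) (XT.lf (nat_lit 152) (nat_lit 1913716004) (nat_lit 0) (nat_lit 136518535) (nat_lit 76) (nat_lit 136518535) (nat_lit 160) (nat_lit 1) (nat_lit 158) (nat_lit 1) (nat_lit 159) (nat_lit 1) (nat_lit 388) (nat_lit 364) (nat_lit 268)) (XT.lf (nat_lit 0) (nat_lit 588980508) (nat_lit 0) (nat_lit 972842151) (nat_lit 152) (nat_lit 588980508) (nat_lit 158) (nat_lit 3) (nat_lit 158) (nat_lit 1) (nat_lit 160) (nat_lit 1) (nat_lit 389) (nat_lit 364) (nat_lit 267)))) (XT.nd (nat_lit 78) (nat_lit 152) (nat_lit 0) (XT.lf (nat_lit 76) (nat_lit 461550978) (nat_lit 0) (nat_lit 827133495) (nat_lit 76) (nat_lit 827133495) (nat_lit 158) (nat_lit 3) (nat_lit 157) (nat_lit 1) (nat_lit 158) (nat_lit 1) (nat_lit 390) (nat_lit 364) (nat_lit 266)) (XT.nd (nat_lit 78) (nat_lit 0) (nat_lit 0) (XT.lf (nat_lit 152) (nat_lit 1857150677) (nat_lit 0) (nat_lit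 112314137) (nat_lit 76) (nat_lit 112314137) (nat_lit 157) (nat_lit 1) (nat_lit 155) (nat_lit 1) (nat_lit 156) (nat_lit 1) (nat_lit 391) (nat_lit 364) (nat_lit 265)) (XT.lf (nat_lit 0) (nat_lit 577254667) (nat_lit 0) (nat_lit 893058591) (nat_lit 152) (nat_lit 577254667) (nat_lit 155) (nat_lit 3) (nat_lit 155) (nat_lit 1) (nat_lit 157) (nat_lit 1) (nat_lit 392) (nat_lit 364) (nat_lit 264))))) (XT.nd (nat_lit 234) (nat_lit 228) (nat_lit 0) (XT.nd (nat_lit 78) (nat_lit 152) (nat_lit 0) (XT.lf (nat_lit 76) (nat_lit 470922933) (nat_lit 0) (nat_lit 771688575) (nat_lit 76) (nat_lit 771688575) (nat_lit 155) (nat_lit 3) (nat_lit 154) (nat_lit 1) (nat_lit 155) (nat_lit 1) (nat_lit 393) (nat_lit 364) (nat_lit 263)) (XT.nd (nat_lit 78) (nat_lit 0) (nat_lit 0) (XT.lf (nat_lit 152) (nat_lit 1797150825) (nat_lit 0) (nat_lit 92401118) (nat_lit 76) (nat_lit 92401118) (nat_lit 154) (nat_lit 1) (nat_lit 152) (nat_lit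 1) (nat_lit 153) (nat_lit 1) (nat_lit 394) (nat_lit 364) (nat_lit 262)) (XT.lf (nat_lit 0) (nat_lit 563193554) (nat_lit 0) (nat_lit 823006223) (nat_lit 152) (nat_lit 563193554) (nat_lit 152) (nat_lit 3) (nat_lit 152) (nat_lit 1) (nat_lit 154) (nat_lit 1) (nat_lit 395) (nat_lit 364) (nat_lit 261)))) (XT.nd (nat_lit 78) (nat_lit 152) (nat_lit 0) (XT.lf (nat_lit 76) (nat_lit 474290226) (nat_lit 0) (nat_lit 721730864) (nat_lit 76) (nat_lit 721730864) (nat_lit 152) (nat_lit 3) (nat_lit 151) (nat_lit 1) (nat_lit 152) (nat_lit 1) (nat_lit 396) (nat_lit 364) (nat_lit 260)) (XT.nd (nat_lit 78) (nat_lit 0) (nat_lit 0) (XT.lf (nat_lit 152) (nat_lit 1734966495) (nat_lit 0) (nat_lit 76018629) (nat_lit 76) (nat_lit 76018629) (nat_lit 151) (nat_lit 1) (nat_lit 149) (nat_lit 1) (nat_lit 150) (nat_lit 1) (nat_lit 397) (nat_lit 364) (nat_lit 259)) (XT.lf (nat_lit 0) (nat_lit 547421407) (nat_lit 0) (nat_lit 761169933)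 (nat_lit 152) (nat_lit 547421407) (nat_lit 149) (nat_lit 3) (nat_lit 149) (nat_lit 1) (nat_lit 151) (nat_lit 1) (nat_lit 398) (nat_lit 364) (nat_lit 258)))))) (XT.nd (nat_lit 468) (nat_lit 532) (nat_lit 0) (XT.nd (nat_lit 234) (nat_lit 228) (nat_lit 0) (XT.nd (nat_lit 78) (nat_lit 152) (nat_lit 0) (XT.lf (nat_lit 76) (nat_lit 472924279) (nat_lit 0) (nat_lit 676494304) (nat_lit 76) (nat_lit 676494304) (nat_lit 149) (nat_lit 3) (nat_lit 148) (nat_lit 1) (nat_lit 149) (nat_lit 1) (nat_lit 399) (nat_lit 364) (nat_lit 257)) (XT.nd (nat_lit 78) (nat_lit 0) (nat_lit 0) (XT.lf (nat_lit 152) (nat_lit 1671595575) (nat_lit 0) (nat_lit 62540714) (nat_lit 76) (nat_lit 62540714) (nat_lit 148) (nat_lit 1) (nat_lit 146) (nat_lit 1) (nat_lit 147) (nat_lit 1) (nat_lit 400) (nat_lit 364) (nat_lit 256)) (XT.lf (nat_lit 0) (nat_lit 530441781) (nat_lit 0) (nat_lit 706293223) (nat_lit 152) (nat_lit 530441781) (nat_lit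 146) (nat_lit 3) (nat_lit 146) (nat_lit 1) (nat_lit 148) (nat_lit 1) (nat_lit 401) (nat_lit 364) (nat_lit 255)))) (XT.nd (nat_lit 78) (nat_lit 152) (nat_lit 0) (XT.lf (nat_lit 76) (nat_lit 467861248) (nat_lit 0) (nat_lit 635338811) (nat_lit 76) (nat_lit 635338811) (nat_lit 146) (nat_lit 3) (nat_lit 145) (nat_lit 1) (nat_lit 146) (nat_lit 1) (nat_lit 402) (nat_lit 364) (nat_lit 254)) (XT.nd (nat_lit 78) (nat_lit 0) (nat_lit 0) (XT.lf (nat_lit 152) (nat_lit 1607829956) (nat_lit 0) (nat_lit 51452400) (nat_lit 76) (nat_lit 51452400) (nat_lit 145) (nat_lit 1) (nat_lit 143) (nat_lit 1) (nat_lit 144) (nat_lit 1) (nat_lit 403) (nat_lit 364) (nat_lit 253)) (XT.lf (nat_lit 0) (nat_lit 512659418) (nat_lit 0) (nat_lit 657332834) (nat_lit 152) (nat_lit 512659418) (nat_lit 143) (nat_lit 3) (nat_lit 143) (nat_lit 1) (nat_lit 145) (nat_lit 1) (nat_lit 404) (nat_lit 364) (nat_lit 252))))) (XT.nd (nat_lit 234) (nat_lit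 304) (nat_lit 0) (XT.nd (nat_lit 78) (nat_lit 152) (nat_lit 0) (XT.lf (nat_lit 76) (nat_lit 459944200) (nat_lit 0) (nat_lit 597728406) (nat_lit 76) (nat_lit 597728406) (nat_lit 143) (nat_lit 3) (nat_lit 142) (nat_lit 1) (nat_lit 143) (nat_lit 1) (nat_lit 405) (nat_lit 364) (nat_lit 251)) (XT.nd (nat_lit 78) (nat_lit 0) (nat_lit 0) (XT.lf (nat_lit 152) (nat_lit 1544293436) (nat_lit 0) (nat_lit 42330017) (nat_lit 76) (nat_lit 42330017) (nat_lit 142) (nat_lit 1) (nat_lit 140) (nat_lit 1) (nat_lit 141) (nat_lit 1) (nat_lit 406) (nat_lit 364) (nat_lit 250)) (XT.lf (nat_lit 0) (nat_lit 494398222) (nat_lit 0) (nat_lit 613421399) (nat_lit 152) (nat_lit 494398222) (nat_lit 140) (nat_lit 3) (nat_lit 140) (nat_lit 1) (nat_lit 142) (nat_lit 1) (nat_lit 407) (nat_lit 364) (nat_lit 249)))) (XT.nd (nat_lit 156) (nat_lit 76) (nat_lit 0) (XT.nd (nat_lit 78) (nat_lit 152) (nat_lit 0) (XT.lf (nat_lit 76) (nat_lit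 449857796) (nat_lit 0) (nat_lit 563213204) (nat_lit 76) (nat_lit 563213204) (nat_lit 140) (nat_lit 3) (nat_lit 139) (nat_lit 1) (nat_lit 140) (nat_lit 1) (nat_lit 408) (nat_lit 364) (nat_lit 248)) (XT.lf (nat_lit 152) (nat_lit 1481472842) (nat_lit 0) (nat_lit 34825009) (nat_lit 76) (nat_lit 34825009) (nat_lit 139) (nat_lit 1) (nat_lit 137) (nat_lit 1) (nat_lit 138) (nat_lit 1) (nat_lit 409) (nat_lit 364) (nat_lit 247))) (XT.nd (nat_lit 78) (nat_lit 76) (nat_lit 0) (XT.lf (nat_lit 0) (nat_lit 475916021) (nat_lit 0) (nat_lit 573836684) (nat_lit 152) (nat_lit 475916021) (nat_lit 137) (nat_lit 3) (nat_lit 137) (nat_lit 1) (nat_lit 139) (nat_lit 1) (nat_lit 410) (nat_lit 364) (nat_lit 246)) (XT.lf (nat_lit 76) (nat_lit 438156803) (nat_lit 0) (nat_lit 531414577) (nat_lit 76) (nat_lit 531414577) (nat_lit 137) (nat_lit 3) (nat_lit 136) (nat_lit 1) (nat_lit 137) (nat_lit 1) (nat_lit 411) (nat_lit 364) (nat_lit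 245))))))))
noncomputable def ec121 : XT := (XT.nd (nat_lit 1950) (nat_lit 912) (nat_lit 0) (XT.nd (nat_lit 936) (nat_lit 1064) (nat_lit 0) (XT.nd (nat_lit 468) (nat_lit 456) (nat_lit 0) (XT.nd (nat_lit 234) (nat_lit 228) (nat_lit 0) (XT.nd (nat_lit 78) (nat_lit 76) (nat_lit 0) (XT.lf (nat_lit 152) (nat_lit 1419743575) (nat_lit 0) (nat_lit 28650621) (nat_lit 76) (nat_lit 28650621) (nat_lit 136) (nat_lit 1) (nat_lit 134) (nat_lit 1) (nat_lit 135) (nat_lit 1) (nat_lit 412) (nat_lit 364) (nat_lit 244)) (XT.nd (nat_lit 78) (nat_lit 76) (nat_lit 0) (XT.lf (nat_lit 0) (nat_lit 457416699) (nat_lit 0) (nat_lit 537976270) (nat_lit 152) (nat_lit 457416699) (nat_lit 134) (nat_lit 3) (nat_lit 134) (nat_lit 1) (nat_lit 136) (nat_lit 1) (nat_lit 413) (nat_lit 364) (nat_lit 243)) (XT.lf (nat_lit 76) (nat_lit 425289526) (nat_lit 0) (nat_lit 502012927) (nat_lit 76) (nat_lit 502012927) (nat_lit 134) (nat_lit 3)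 (nat_lit 133) (nat_lit 1) (nat_lit 134) (nat_lit 1) (nat_lit 414) (nat_lit 364) (nat_lit 242)))) (XT.nd (nat_lit 78) (nat_lit 76) (nat_lit 0) (XT.lf (nat_lit 152) (nat_lit 1359390554) (nat_lit 0) (nat_lit 23570937) (nat_lit 76) (nat_lit 23570937) (nat_lit 133) (nat_lit 1) (nat_lit 131) (nat_lit 1) (nat_lit 132) (nat_lit 1) (nat_lit 415) (nat_lit 364) (nat_lit 241)) (XT.nd (nat_lit 78) (nat_lit 76) (nat_lit 0) (XT.lf (nat_lit 0) (nat_lit 439060145) (nat_lit 0) (nat_lit 505336704) (nat_lit 152) (nat_lit 439060145) (nat_lit 131) (nat_lit 3) (nat_lit 131) (nat_lit 1) (nat_lit 133) (nat_lit 1) (nat_lit 416) (nat_lit 364) (nat_lit 240)) (XT.lf (nat_lit 76) (nat_lit 411617068) (nat_lit 0) (nat_lit 474737600) (nat_lit 76) (nat_lit 474737600) (nat_lit 131) (nat_lit 3) (nat_lit 130) (nat_lit 1) (nat_lit 131) (nat_lit 1) (nat_lit 417) (nat_lit 364) (nat_lit 239))))) (XT.nd (nat_lit 234) (nat_lit 228) (nat_lit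 0) (XT.nd (nat_lit 78) (nat_lit 76) (nat_lit 0) (XT.lf (nat_lit 152) (nat_lit 1300625402) (nat_lit 0) (nat_lit 19391868) (nat_lit 76) (nat_lit 19391868) (nat_lit 130) (nat_lit 1) (nat_lit 128) (nat_lit 1) (nat_lit 129) (nat_lit 1) (nat_lit 418) (nat_lit 364) (nat_lit 238)) (XT.nd (nat_lit 78) (nat_lit 76) (nat_lit 0) (XT.lf (nat_lit 0) (nat_lit 420970435) (nat_lit 0) (nat_lit 475496324) (nat_lit 152) (nat_lit 420970435) (nat_lit 128) (nat_lit 3) (nat_lit 128) (nat_lit 1) (nat_lit 130) (nat_lit 1) (nat_lit 419) (nat_lit 364) (nat_lit 237)) (XT.lf (nat_lit 76) (nat_lit 397429164) (nat_lit 0) (nat_lit 449358582) (nat_lit 76) (nat_lit 449358582) (nat_lit 128) (nat_lit 3) (nat_lit 127) (nat_lit 1) (nat_lit 128) (nat_lit 1) (nat_lit 420) (nat_lit 364) (nat_lit 236)))) (XT.nd (nat_lit 78) (nat_lit 76) (nat_lit 0) (XT.lf (nat_lit 152) (nat_lit 1243600527) (nat_lit 0) (nat_lit 15953738) (nat_lit 76) (nat_lit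 15953738) (nat_lit 127) (nat_lit 1) (nat_lit 125) (nat_lit 1) (nat_lit 126) (nat_lit 1) (nat_lit 421) (nat_lit 364) (nat_lit 235)) (XT.nd (nat_lit 78) (nat_lit 76) (nat_lit 0) (XT.lf (nat_lit 0) (nat_lit 403242530) (nat_lit 0) (nat_lit 448101114) (nat_lit 152) (nat_lit 403242530) (nat_lit 125) (nat_lit 3) (nat_lit 125) (nat_lit 1) (nat_lit 127) (nat_lit 1) (nat_lit 422) (nat_lit 364) (nat_lit 234)) (XT.lf (nat_lit 76) (nat_lit 382957179) (nat_lit 0) (nat_lit 425679640) (nat_lit 76) (nat_lit 425679640) (nat_lit 125) (nat_lit 3) (nat_lit 124) (nat_lit 1) (nat_lit 125) (nat_lit 1) (nat_lit 423) (nat_lit 364) (nat_lit 233)))))) (XT.nd (nat_lit 468) (nat_lit 608) (nat_lit 0) (XT.nd (nat_lit 234) (nat_lit 228) (nat_lit 0) (XT.nd (nat_lit 78) (nat_lit 76) (nat_lit 0) (XT.lf (nat_lit 152) (nat_lit 1188420650) (nat_lit 0) (nat_lit 13125179) (nat_lit 76) (nat_lit 13125179) (nat_lit 124) (nat_lit 1) (nat_lit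 122) (nat_lit 1) (nat_lit 123) (nat_lit 1) (nat_lit 424) (nat_lit 364) (nat_lit 232)) (XT.nd (nat_lit 78) (nat_lit 76) (nat_lit 0) (XT.lf (nat_lit 0) (nat_lit 385947781) (nat_lit 0) (nat_lit 422853049) (nat_lit 152) (nat_lit 385947781) (nat_lit 122) (nat_lit 3) (nat_lit 122) (nat_lit 1) (nat_lit 124) (nat_lit 1) (nat_lit 425) (nat_lit 364) (nat_lit 231)) (XT.lf (nat_lit 76) (nat_lit 368384793) (nat_lit 0) (nat_lit 403532667) (nat_lit 76) (nat_lit 403532667) (nat_lit 122) (nat_lit 3) (nat_lit 121) (nat_lit 1) (nat_lit 122) (nat_lit 1) (nat_lit 426) (nat_lit 364) (nat_lit 230)))) (XT.nd (nat_lit 78) (nat_lit 76) (nat_lit 0) (XT.lf (nat_lit 152) (nat_lit 1135152247) (nat_lit 0) (nat_lit 10798118) (nat_lit 76) (nat_lit 10798118) (nat_lit 121) (nat_lit 1) (nat_lit 119) (nat_lit 1) (nat_lit 120) (nat_lit 1) (nat_lit 427) (nat_lit 364) (nat_lit 229)) (XT.nd (nat_lit 78) (nat_lit 76) (nat_lit 0) (XT.lf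 (nat_lit 0) (nat_lit 369138436) (nat_lit 0) (nat_lit 399500492) (nat_lit 152) (nat_lit 369138436) (nat_lit 119) (nat_lit 3) (nat_lit 119) (nat_lit 1) (nat_lit 121) (nat_lit 1) (nat_lit 428) (nat_lit 364) (nat_lit 228)) (XT.lf (nat_lit 76) (nat_lit 353856770) (nat_lit 0) (nat_lit 382773013) (nat_lit 76) (nat_lit 382773013) (nat_lit 119) (nat_lit 3) (nat_lit 118) (nat_lit 1) (nat_lit 119) (nat_lit 1) (nat_lit 429) (nat_lit 364) (nat_lit 227))))) (XT.nd (nat_lit 234) (nat_lit 380) (nat_lit 0) (XT.nd (nat_lit 78) (nat_lit 76) (nat_lit 0) (XT.lf (nat_lit 152) (nat_lit 1083831265) (nat_lit 0) (nat_lit 8883638) (nat_lit 76) (nat_lit 8883638) (nat_lit 118) (nat_lit 1) (nat_lit 116) (nat_lit 1) (nat_lit 117) (nat_lit 1) (nat_lit 430) (nat_lit 364) (nat_lit 226)) (XT.nd (nat_lit 78) (nat_lit 76) (nat_lit 0) (XT.lf (nat_lit 0) (nat_lit 352851335) (nat_lit 0) (nat_lit 377830273) (nat_lit 152) (nat_lit 352851335)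 (nat_lit 116) (nat_lit 3) (nat_lit 116) (nat_lit 1) (nat_lit 118) (nat_lit 1) (nat_lit 431) (nat_lit 364) (nat_lit 225)) (XT.lf (nat_lit 76) (nat_lit 339486164) (nat_lit 0) (nat_lit 363275629) (nat_lit 76) (nat_lit 363275629) (nat_lit 116) (nat_lit 3) (nat_lit 115) (nat_lit 1) (nat_lit 116) (nat_lit 1) (nat_lit 432) (nat_lit 364) (nat_lit 224)))) (XT.nd (nat_lit 156) (nat_lit 228) (nat_lit 0) (XT.nd (nat_lit 78) (nat_lit 0) (nat_lit 0) (XT.lf (nat_lit 152) (nat_lit 1034469428) (nat_lit 0) (nat_lit 7308591) (nat_lit 76) (nat_lit 7308591) (nat_lit 115) (nat_lit 1) (nat_lit 113) (nat_lit 1) (nat_lit 114) (nat_lit 1) (nat_lit 433) (nat_lit 364) (nat_lit 223)) (XT.lf (nat_lit 0) (nat_lit 337110934) (nat_lit 0) (nat_lit 357661168) (nat_lit 152) (nat_lit 337110934) (nat_lit 113) (nat_lit 3) (nat_lit 113) (nat_lit 1) (nat_lit 115) (nat_lit 1) (nat_lit 434) (nat_lit 364) (nat_lit 222))) (XT.nd (nat_lit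 78) (nat_lit 152) (nat_lit 0) (XT.lf (nat_lit 76) (nat_lit 325360225) (nat_lit 0) (nat_lit 344931876) (nat_lit 76) (nat_lit 344931876) (nat_lit 113) (nat_lit 3) (nat_lit 112) (nat_lit 1) (nat_lit 113) (nat_lit 1) (nat_lit 435) (nat_lit 364) (nat_lit 221)) (XT.lf (nat_lit 152) (nat_lit 987059381) (nat_lit 0) (nat_lit 6012796) (nat_lit 76) (nat_lit 6012796) (nat_lit 112) (nat_lit 1) (nat_lit 110) (nat_lit 1) (nat_lit 111) (nat_lit 1) (nat_lit 436) (nat_lit 364) (nat_lit 220))))))) (XT.nd (nat_lit 41652) (nat_lit 0) (nat_lit 13832) (XT.nd (nat_lit 468) (nat_lit 456) (nat_lit 0) (XT.nd (nat_lit 234) (nat_lit 228) (nat_lit 0) (XT.nd (nat_lit 78) (nat_lit 228) (nat_lit 0) (XT.lf (nat_lit 0) (nat_lit 321931777) (nat_lit 0) (nat_lit 338838506) (nat_lit 152) (nat_lit 321931777) (nat_lit 110) (nat_lit 3) (nat_lit 110) (nat_lit 1) (nat_lit 112) (nat_lit 1) (nat_lit 437) (nat_lit 364) (nat_lit 219)) (XT.nd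 (nat_lit 78) (nat_lit 152) (nat_lit 0) (XT.lf (nat_lit 76) (nat_lit 311545250) (nat_lit 0) (nat_lit 327646896) (nat_lit 76) (nat_lit 327646896) (nat_lit 110) (nat_lit 3) (nat_lit 109) (nat_lit 1) (nat_lit 110) (nat_lit 1) (nat_lit 438) (nat_lit 364) (nat_lit 218)) (XT.lf (nat_lit 152) (nat_lit 941578884) (nat_lit 0) (nat_lit 4946742) (nat_lit 76) (nat_lit 4946742) (nat_lit 109) (nat_lit 1) (nat_lit 107) (nat_lit 1) (nat_lit 108) (nat_lit 1) (nat_lit 439) (nat_lit 364) (nat_lit 217)))) (XT.nd (nat_lit 78) (nat_lit 228) (nat_lit 0) (XT.lf (nat_lit 0) (nat_lit 307320525) (nat_lit 0) (nat_lit 321229732) (nat_lit 152) (nat_lit 307320525) (nat_lit 107) (nat_lit 3) (nat_lit 107) (nat_lit 1) (nat_lit 109) (nat_lit 1) (nat_lit 440) (nat_lit 364) (nat_lit 216)) (XT.nd (nat_lit 78) (nat_lit 152) (nat_lit 0) (XT.lf (nat_lit 76) (nat_lit 298090560) (nat_lit 0) (nat_lit 311337424) (nat_lit 76) (nat_lit 311337424)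 (nat_lit 107) (nat_lit 3) (nat_lit 106) (nat_lit 1) (nat_lit 107) (nat_lit 1) (nat_lit 441) (nat_lit 364) (nat_lit 215)) (XT.lf (nat_lit 152) (nat_lit 897994220) (nat_lit 0) (nat_lit 4069697) (nat_lit 76) (nat_lit 4069697) (nat_lit 106) (nat_lit 1) (nat_lit 104) (nat_lit 1) (nat_lit 105) (nat_lit 1) (nat_lit 442) (nat_lit 364) (nat_lit 214))))) (XT.nd (nat_lit 234) (nat_lit 228) (nat_lit 0) (XT.nd (nat_lit 78) (nat_lit 228) (nat_lit 0) (XT.lf (nat_lit 0) (nat_lit 293277599) (nat_lit 0) (nat_lit 304720739) (nat_lit 152) (nat_lit 293277599) (nat_lit 104) (nat_lit 3) (nat_lit 104) (nat_lit 1) (nat_lit 106) (nat_lit 1) (nat_lit 443) (nat_lit 364) (nat_lit 213)) (XT.nd (nat_lit 78) (nat_lit 152) (nat_lit 0) (XT.lf (nat_lit 76) (nat_lit 285031758) (nat_lit 0) (nat_lit 295929986) (nat_lit 76) (nat_lit 295929986) (nat_lit 104) (nat_lit 3) (nat_lit 103) (nat_lit 1) (nat_lit 104) (nat_lit 1) (nat_lit 444)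 (nat_lit 364) (nat_lit 212)) (XT.lf (nat_lit 152) (nat_lit 856262963) (nat_lit 0) (nat_lit 3348149) (nat_lit 76) (nat_lit 3348149) (nat_lit 103) (nat_lit 1) (nat_lit 101) (nat_lit 1) (nat_lit 102) (nat_lit 1) (nat_lit 445) (nat_lit 364) (nat_lit 211)))) (XT.nd (nat_lit 156) (nat_lit 152) (nat_lit 0) (XT.nd (nat_lit 78) (nat_lit 76) (nat_lit 0) (XT.lf (nat_lit 0) (nat_lit 279798534) (nat_lit 0) (nat_lit 289212833) (nat_lit 152) (nat_lit 279798534) (nat_lit 101) (nat_lit 3) (nat_lit 101) (nat_lit 1) (nat_lit 103) (nat_lit 1) (nat_lit 446) (nat_lit 364) (nat_lit 210)) (XT.lf (nat_lit 76) (nat_lit 272393396) (nat_lit 0) (nat_lit 281359395) (nat_lit 76) (nat_lit 281359395) (nat_lit 101) (nat_lit 3) (nat_lit 100) (nat_lit 1) (nat_lit 101) (nat_lit 1) (nat_lit 447) (nat_lit 364) (nat_lit 209))) (XT.nd (nat_lit 78) (nat_lit 0) (nat_lit 0) (XT.lf (nat_lit 152) (nat_lit 816336227) (nat_lit 0) (nat_lit 2754531)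 (nat_lit 76) (nat_lit 2754531) (nat_lit 100) (nat_lit 1) (nat_lit 98) (nat_lit 1) (nat_lit 99) (nat_lit 1) (nat_lit 448) (nat_lit 364) (nat_lit 208)) (XT.lf (nat_lit 0) (nat_lit 266875067) (nat_lit 0) (nat_lit 274620234) (nat_lit 152) (nat_lit 266875067) (nat_lit 98) (nat_lit 3) (nat_lit 98) (nat_lit 1) (nat_lit 100) (nat_lit 1) (nat_lit 449) (nat_lit 364) (nat_lit 207)))))) (XT.nd (nat_lit 468) (nat_lit 912) (nat_lit 0) (XT.nd (nat_lit 234) (nat_lit 0) (nat_lit 76) (XT.nd (nat_lit 78) (nat_lit 0) (nat_lit 0) (XT.lf (nat_lit 836) (nat_lit 1819626092) (nat_lit 0) (nat_lit 3230741944) (nat_lit 836) (nat_lit 1819626092) (nat_lit 303) (nat_lit 1) (nat_lit 292) (nat_lit 0) (nat_lit 303) (nat_lit 0) (nat_lit 290) (nat_lit 365) (nat_lit 365)) (XT.nd (nat_lit 78) (nat_lit 0) (nat_lit 76) (XT.lf (nat_lit 836) (nat_lit 7053097905) (nat_lit 76) (nat_lit 3178633203) (nat_lit 0) (nat_lit 3178633203) (nat_lit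 303) (nat_lit 1) (nat_lit 293) (nat_lit 1) (nat_lit 292) (nat_lit 0) (nat_lit 291) (nat_lit 365) (nat_lit 364)) (XT.lf (nat_lit 836) (nat_lit 3361400263) (nat_lit 0) (nat_lit 6368130286) (nat_lit 760) (nat_lit 3361400263) (nat_lit 304) (nat_lit 1) (nat_lit 293) (nat_lit 1) (nat_lit 303) (nat_lit 1) (nat_lit 292) (nat_lit 365) (nat_lit 363)))) (XT.nd (nat_lit 78) (nat_lit 0) (nat_lit 76) (XT.lf (nat_lit 836) (nat_lit 6305519815) (nat_lit 76) (nat_lit 3238148790) (nat_lit 0) (nat_lit 3238148790) (nat_lit 304) (nat_lit 1) (nat_lit 294) (nat_lit 1) (nat_lit 293) (nat_lit 1) (nat_lit 293) (nat_lit 365) (nat_lit 362)) (XT.nd (nat_lit 78) (nat_lit 0) (nat_lit 0) (XT.lf (nat_lit 836) (nat_lit 2902370218) (nat_lit 0) (nat_lit 6677760886) (nat_lit 760) (nat_lit 2902370218) (nat_lit 305) (nat_lit 1) (nat_lit 294) (nat_lit 1) (nat_lit 304) (nat_lit 1) (nat_lit 294) (nat_lit 365) (nat_lit 361)) (XT.lf (nat_lit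 836) (nat_lit 5220101875) (nat_lit 76) (nat_lit 3486103836) (nat_lit 0) (nat_lit 3486103836) (nat_lit 305) (nat_lit 1) (nat_lit 295) (nat_lit 1) (nat_lit 294) (nat_lit 1) (nat_lit 295) (nat_lit 365) (nat_lit 360))))) (XT.nd (nat_lit 234) (nat_lit 1140) (nat_lit 0) (XT.nd (nat_lit 78) (nat_lit 0) (nat_lit 0) (XT.lf (nat_lit 836) (nat_lit 2288863902) (nat_lit 0) (nat_lit 7334133604) (nat_lit 760) (nat_lit 2288863902) (nat_lit 306) (nat_lit 1) (nat_lit 295) (nat_lit 1) (nat_lit 305) (nat_lit 1) (nat_lit 296) (nat_lit 365) (nat_lit 359)) (XT.nd (nat_lit 78) (nat_lit 0) (nat_lit 76) (XT.lf (nat_lit 836) (nat_lit 3847650497) (nat_lit 76) (nat_lit 3895742235) (nat_lit 0) (nat_lit 3895742235) (nat_lit 306) (nat_lit 1) (nat_lit 296) (nat_lit 1) (nat_lit 295) (nat_lit 1) (nat_lit 297) (nat_lit 365) (nat_lit 358)) (XT.lf (nat_lit 836) (nat_lit 1544631269) (nat_lit 0) (nat_lit 8287129330) (nat_lit 760) (nat_lit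 1544631269) (nat_lit 307) (nat_lit 1) (nat_lit 296) (nat_lit 1) (nat_lit 306) (nat_lit 1) (nat_lit 298) (nat_lit 365) (nat_lit 357)))) (XT.nd (nat_lit 156) (nat_lit 1216) (nat_lit 0) (XT.nd (nat_lit 78) (nat_lit 0) (nat_lit 76) (XT.lf (nat_lit 836) (nat_lit 2233324915) (nat_lit 76) (nat_lit 4443235253) (nat_lit 0) (nat_lit 4443235253) (nat_lit 307) (nat_lit 1) (nat_lit 297) (nat_lit 1) (nat_lit 296) (nat_lit 1) (nat_lit 299) (nat_lit 365) (nat_lit 356)) (XT.lf (nat_lit 76) (nat_lit 690767171) (nat_lit 0) (nat_lit 9492140090) (nat_lit 760) (nat_lit 690767171) (nat_lit 298) (nat_lit 1) (nat_lit 297) (nat_lit 1) (nat_lit 307) (nat_lit 1) (nat_lit 300) (nat_lit 365) (nat_lit 355))) (XT.nd (nat_lit 78) (nat_lit 532) (nat_lit 0) (XT.lf (nat_lit 836) (nat_lit 417206193) (nat_lit 0) (nat_lit 5107388433) (nat_lit 760) (nat_lit 5107388433) (nat_lit 298) (nat_lit 1) (nat_lit 287) (nat_lit 1) (nat_lit 297)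 (nat_lit 1) (nat_lit 301) (nat_lit 365) (nat_lit 354)) (XT.lf (nat_lit 532) (nat_lit 9900828398) (nat_lit 0) (nat_lit 249923401) (nat_lit 456) (nat_lit 249923401) (nat_lit 287) (nat_lit 1) (nat_lit 280) (nat_lit 1) (nat_lit 286) (nat_lit 1) (nat_lit 302) (nat_lit 365) (nat_lit 353))))))))
noncomputable def ec122 : XT := (XT.nd (nat_lit 1950) (nat_lit 2584) (nat_lit 0) (XT.nd (nat_lit 936) (nat_lit 2052) (nat_lit 0) (XT.nd (nat_lit 468) (nat_lit 988) (nat_lit 0) (XT.nd (nat_lit 234) (nat_lit 684) (nat_lit 0) (XT.nd (nat_lit 78) (nat_lit 380) (nat_lit 0) (XT.lf (nat_lit 76) (nat_lit 4328624944) (nat_lit 0) (nat_lit 1515092952) (nat_lit 532) (nat_lit 4328624944) (nat_lit 281) (nat_lit 1) (nat_lit 280) (nat_lit 1) (nat_lit 287) (nat_lit 1) (nat_lit 303) (nat_lit 365) (nat_lit 352)) (XT.nd (nat_lit 78) (nat_lit 0) (nat_lit 0) (XT.lf (nat_lit 456) (nat_lit 7448452419) (nat_lit 0) (nat_lit 1252633682)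 (nat_lit 380) (nat_lit 1252633682) (nat_lit 281) (nat_lit 1) (nat_lit 275) (nat_lit 1) (nat_lit 280) (nat_lit 1) (nat_lit 304) (nat_lit 365) (nat_lit 351)) (XT.lf (nat_lit 76) (nat_lit 3087555478) (nat_lit 0) (nat_lit 3564581829) (nat_lit 456) (nat_lit 3087555478) (nat_lit 276) (nat_lit 1) (nat_lit 275) (nat_lit 1) (nat_lit 281) (nat_lit 1) (nat_lit 305) (nat_lit 365) (nat_lit 350)))) (XT.nd (nat_lit 78) (nat_lit 304) (nat_lit 0) (XT.lf (nat_lit 456) (nat_lit 4904911546) (nat_lit 0) (nat_lit 2314104115) (nat_lit 380) (nat_lit 2314104115) (nat_lit 276) (nat_lit 1) (nat_lit 270) (nat_lit 1) (nat_lit 275) (nat_lit 1) (nat_lit 306) (nat_lit 365) (nat_lit 349)) (XT.nd (nat_lit 78) (nat_lit 304) (nat_lit 0) (XT.lf (nat_lit 76) (nat_lit 1807394718) (nat_lit 0) (nat_lit 5717765170) (nat_lit 456) (nat_lit 1807394718) (nat_lit 271) (nat_lit 1) (nat_lit 270) (nat_lit 1) (nat_lit 276) (nat_lit 1) (nat_lit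 307) (nat_lit 365) (nat_lit 348)) (XT.lf (nat_lit 380) (nat_lit 2293879694) (nat_lit 0) (nat_lit 3421634470) (nat_lit 304) (nat_lit 3421634470) (nat_lit 271) (nat_lit 1) (nat_lit 266) (nat_lit 1) (nat_lit 270) (nat_lit 1) (nat_lit 308) (nat_lit 365) (nat_lit 347))))) (XT.nd (nat_lit 234) (nat_lit 304) (nat_lit 0) (XT.nd (nat_lit 78) (nat_lit 684) (nat_lit 0) (XT.lf (nat_lit 76) (nat_lit 499132915) (nat_lit 0) (nat_lit 7950991183) (nat_lit 380) (nat_lit 499132915) (nat_lit 267) (nat_lit 1) (nat_lit 266) (nat_lit 1) (nat_lit 271) (nat_lit 1) (nat_lit 309) (nat_lit 365) (nat_lit 346)) (XT.nd (nat_lit 78) (nat_lit 304) (nat_lit 0) (XT.lf (nat_lit 76) (nat_lit 4205837370) (nat_lit 0) (nat_lit 352247049) (nat_lit 380) (nat_lit 4205837370) (nat_lit 262) (nat_lit 1) (nat_lit 261) (nat_lit 1) (nat_lit 266) (nat_lit 1) (nat_lit 310) (nat_lit 365) (nat_lit 345)) (XT.lf (nat_lit 380) (nat_lit 6957118279) (nat_lit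 0) (nat_lit 814263154) (nat_lit 304) (nat_lit 814263154) (nat_lit 262) (nat_lit 1) (nat_lit 257) (nat_lit 1) (nat_lit 261) (nat_lit 1) (nat_lit 311) (nat_lit 365) (nat_lit 344)))) (XT.nd (nat_lit 78) (nat_lit 304) (nat_lit 0) (XT.lf (nat_lit 76) (nat_lit 2728887645) (nat_lit 0) (nat_lit 2952650479) (nat_lit 380) (nat_lit 2728887645) (nat_lit 258) (nat_lit 1) (nat_lit 257) (nat_lit 1) (nat_lit 262) (nat_lit 1) (nat_lit 312) (nat_lit 365) (nat_lit 343)) (XT.nd (nat_lit 78) (nat_lit 0) (nat_lit 0) (XT.lf (nat_lit 380) (nat_lit 3982206191) (nat_lit 0) (nat_lit 2129538366) (nat_lit 304) (nat_lit 2129538366) (nat_lit 258) (nat_lit 1) (nat_lit 253) (nat_lit 1) (nat_lit 257) (nat_lit 1) (nat_lit 313) (nat_lit 365) (nat_lit 342)) (XT.lf (nat_lit 76) (nat_lit 1255810109) (nat_lit 0) (nat_lit 5565465610) (nat_lit 380) (nat_lit 1255810109) (nat_lit 254) (nat_lit 1) (nat_lit 253) (nat_lit 1) (nat_lit 258) (nat_lit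 1) (nat_lit 314) (nat_lit 365) (nat_lit 341)))))) (XT.nd (nat_lit 468) (nat_lit 988) (nat_lit 0) (XT.nd (nat_lit 234) (nat_lit 456) (nat_lit 0) (XT.nd (nat_lit 78) (nat_lit 380) (nat_lit 0) (XT.lf (nat_lit 304) (nat_lit 1021296577) (nat_lit 0) (nat_lit 3447568258) (nat_lit 228) (nat_lit 3447568258) (nat_lit 254) (nat_lit 1) (nat_lit 250) (nat_lit 1) (nat_lit 253) (nat_lit 1) (nat_lit 315) (nat_lit 365) (nat_lit 340)) (XT.nd (nat_lit 78) (nat_lit 0) (nat_lit 0) (XT.lf (nat_lit 380) (nat_lit 7353868629) (nat_lit 0) (nat_lit 204055743) (nat_lit 304) (nat_lit 204055743) (nat_lit 250) (nat_lit 1) (nat_lit 245) (nat_lit 1) (nat_lit 249) (nat_lit 1) (nat_lit 316) (nat_lit 365) (nat_lit 339)) (XT.lf (nat_lit 76) (nat_lit 2877623160) (nat_lit 0) (nat_lit 1853135697) (nat_lit 380) (nat_lit 2877623160) (nat_lit 246) (nat_lit 1) (nat_lit 245) (nat_lit 1) (nat_lit 250) (nat_lit 1) (nat_lit 317) (nat_lit 365)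 (nat_lit 338)))) (XT.nd (nat_lit 78) (nat_lit 228) (nat_lit 0) (XT.lf (nat_lit 304) (nat_lit 4202859600) (nat_lit 0) (nat_lit 1628907607) (nat_lit 228) (nat_lit 1628907607) (nat_lit 246) (nat_lit 1) (nat_lit 242) (nat_lit 1) (nat_lit 245) (nat_lit 1) (nat_lit 318) (nat_lit 365) (nat_lit 337)) (XT.nd (nat_lit 78) (nat_lit 228) (nat_lit 0) (XT.lf (nat_lit 76) (nat_lit 1327748359) (nat_lit 0) (nat_lit 4661223650) (nat_lit 304) (nat_lit 1327748359) (nat_lit 243) (nat_lit 1) (nat_lit 242) (nat_lit 1) (nat_lit 246) (nat_lit 1) (nat_lit 319) (nat_lit 365) (nat_lit 336)) (XT.lf (nat_lit 304) (nat_lit 1106636757) (nat_lit 0) (nat_lit 3034702045) (nat_lit 228) (nat_lit 3034702045) (nat_lit 243) (nat_lit 1) (nat_lit 239) (nat_lit 1) (nat_lit 242) (nat_lit 1) (nat_lit 320) (nat_lit 365) (nat_lit 335))))) (XT.nd (nat_lit 234) (nat_lit 456) (nat_lit 0) (XT.nd (nat_lit 78) (nat_lit 228) (nat_lit 0) (XT.lf (nat_lit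 304) (nat_lit 6660213831) (nat_lit 0) (nat_lit 190186958) (nat_lit 228) (nat_lit 190186958) (nat_lit 239) (nat_lit 1) (nat_lit 235) (nat_lit 1) (nat_lit 238) (nat_lit 1) (nat_lit 321) (nat_lit 365) (nat_lit 334)) (XT.nd (nat_lit 78) (nat_lit 228) (nat_lit 0) (XT.lf (nat_lit 76) (nat_lit 2519368156) (nat_lit 0) (nat_lit 1866826506) (nat_lit 304) (nat_lit 2519368156) (nat_lit 236) (nat_lit 1) (nat_lit 235) (nat_lit 1) (nat_lit 239) (nat_lit 1) (nat_lit 322) (nat_lit 365) (nat_lit 333)) (XT.lf (nat_lit 304) (nat_lit 3464361902) (nat_lit 0) (nat_lit 1655585965) (nat_lit 228) (nat_lit 1655585965) (nat_lit 236) (nat_lit 1) (nat_lit 232) (nat_lit 1) (nat_lit 235) (nat_lit 1) (nat_lit 323) (nat_lit 365) (nat_lit 332)))) (XT.nd (nat_lit 156) (nat_lit 304) (nat_lit 0) (XT.nd (nat_lit 78) (nat_lit 152) (nat_lit 0) (XT.lf (nat_lit 76) (nat_lit 954082442) (nat_lit 0) (nat_lit 4740827398) (nat_lit 304) (nat_lit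 954082442) (nat_lit 233) (nat_lit 1) (nat_lit 232) (nat_lit 1) (nat_lit 236) (nat_lit 1) (nat_lit 324) (nat_lit 365) (nat_lit 331)) (XT.lf (nat_lit 228) (nat_lit 349607529) (nat_lit 0) (nat_lit 3087613902) (nat_lit 152) (nat_lit 3087613902) (nat_lit 233) (nat_lit 1) (nat_lit 230) (nat_lit 1) (nat_lit 232) (nat_lit 1) (nat_lit 325) (nat_lit 365) (nat_lit 330))) (XT.nd (nat_lit 78) (nat_lit 0) (nat_lit 0) (XT.lf (nat_lit 304) (nat_lit 5282452543) (nat_lit 0) (nat_lit 561034749) (nat_lit 228) (nat_lit 561034749) (nat_lit 230) (nat_lit 1) (nat_lit 226) (nat_lit 1) (nat_lit 229) (nat_lit 1) (nat_lit 326) (nat_lit 365) (nat_lit 329)) (XT.lf (nat_lit 76) (nat_lit 1845035283) (nat_lit 0) (nat_lit 2595483770) (nat_lit 304) (nat_lit 1845035283) (nat_lit 227) (nat_lit 1) (nat_lit 226) (nat_lit 1) (nat_lit 230) (nat_lit 1) (nat_lit 327) (nat_lit 365) (nat_lit 328))))))) (XT.nd (nat_lit 936) (nat_lit 1216)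 (nat_lit 0) (XT.nd (nat_lit 468) (nat_lit 684) (nat_lit 0) (XT.nd (nat_lit 234) (nat_lit 304) (nat_lit 0) (XT.nd (nat_lit 78) (nat_lit 228) (nat_lit 0) (XT.lf (nat_lit 228) (nat_lit 2131653660) (nat_lit 0) (nat_lit 2019302320) (nat_lit 152) (nat_lit 2019302320) (nat_lit 227) (nat_lit 1) (nat_lit 224) (nat_lit 1) (nat_lit 226) (nat_lit 1) (nat_lit 328) (nat_lit 365) (nat_lit 327)) (XT.nd (nat_lit 78) (nat_lit 228) (nat_lit 0) (XT.lf (nat_lit 76) (nat_lit 306250971) (nat_lit 0) (nat_lit 5446286557) (nat_lit 228) (nat_lit 306250971) (nat_lit 225) (nat_lit 1) (nat_lit 224) (nat_lit 1) (nat_lit 227) (nat_lit 1) (nat_lit 329) (nat_lit 365) (nat_lit 326)) (XT.lf (nat_lit 76) (nat_lit 2527542994) (nat_lit 0) (nat_lit 892637909) (nat_lit 228) (nat_lit 2527542994) (nat_lit 222) (nat_lit 1) (nat_lit 221) (nat_lit 1) (nat_lit 224) (nat_lit 1) (nat_lit 330) (nat_lit 365) (nat_lit 325)))) (XT.nd (nat_lit 78)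 (nat_lit 152) (nat_lit 0) (XT.lf (nat_lit 228) (nat_lit 3509936438) (nat_lit 0) (nat_lit 1165203799) (nat_lit 152) (nat_lit 1165203799) (nat_lit 222) (nat_lit 1) (nat_lit 219) (nat_lit 1) (nat_lit 221) (nat_lit 1) (nat_lit 331) (nat_lit 365) (nat_lit 324)) (XT.nd (nat_lit 78) (nat_lit 152) (nat_lit 0) (XT.lf (nat_lit 76) (nat_lit 990412747) (nat_lit 0) (nat_lit 3754512008) (nat_lit 228) (nat_lit 990412747) (nat_lit 220) (nat_lit 1) (nat_lit 219) (nat_lit 1) (nat_lit 222) (nat_lit 1) (nat_lit 332) (nat_lit 365) (nat_lit 323)) (XT.lf (nat_lit 228) (nat_lit 463972714) (nat_lit 0) (nat_lit 2584237459) (nat_lit 152) (nat_lit 2584237459) (nat_lit 220) (nat_lit 1) (nat_lit 217) (nat_lit 1) (nat_lit 219) (nat_lit 1) (nat_lit 333) (nat_lit 365) (nat_lit 322))))) (XT.nd (nat_lit 234) (nat_lit 304) (nat_lit 0) (XT.nd (nat_lit 78) (nat_lit 152) (nat_lit 0) (XT.lf (nat_lit 228) (nat_lit 4560223580) (nat_lit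 0) (nat_lit 486157747) (nat_lit 152) (nat_lit 486157747) (nat_lit 217) (nat_lit 1) (nat_lit 214) (nat_lit 1) (nat_lit 216) (nat_lit 1) (nat_lit 334) (nat_lit 365) (nat_lit 321)) (XT.nd (nat_lit 78) (nat_lit 152) (nat_lit 0) (XT.lf (nat_lit 76) (nat_lit 1518109605) (nat_lit 0) (nat_lit 2397264015) (nat_lit 228) (nat_lit 1518109605) (nat_lit 215) (nat_lit 1) (nat_lit 214) (nat_lit 1) (nat_lit 217) (nat_lit 1) (nat_lit 335) (nat_lit 365) (nat_lit 320)) (XT.lf (nat_lit 228) (nat_lit 1546120927) (nat_lit 0) (nat_lit 1895591088) (nat_lit 152) (nat_lit 1895591088) (nat_lit 215) (nat_lit 1) (nat_lit 212) (nat_lit 1) (nat_lit 214) (nat_lit 1) (nat_lit 336) (nat_lit 365) (nat_lit 319)))) (XT.nd (nat_lit 78) (nat_lit 304) (nat_lit 0) (XT.lf (nat_lit 76) (nat_lit 50816730) (nat_lit 0) (nat_lit 5142862564) (nat_lit 228) (nat_lit 50816730) (nat_lit 213) (nat_lit 1) (nat_lit 212) (nat_lit 1) (nat_lit 215) (nat_lit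 1) (nat_lit 337) (nat_lit 365) (nat_lit 318)) (XT.nd (nat_lit 78) (nat_lit 152) (nat_lit 0) (XT.lf (nat_lit 76) (nat_lit 1918756897) (nat_lit 0) (nat_lit 1313585223) (nat_lit 152) (nat_lit 1918756897) (nat_lit 211) (nat_lit 1) (nat_lit 210) (nat_lit 1) (nat_lit 212) (nat_lit 1) (nat_lit 338) (nat_lit 365) (nat_lit 317)) (XT.lf (nat_lit 228) (nat_lit 2380958873) (nat_lit 0) (nat_lit 1340014656) (nat_lit 152) (nat_lit 1340014656) (nat_lit 211) (nat_lit 1) (nat_lit 208) (nat_lit 1) (nat_lit 210) (nat_lit 1) (nat_lit 339) (nat_lit 365) (nat_lit 316)))))) (XT.nd (nat_lit 468) (nat_lit 608) (nat_lit 0) (XT.nd (nat_lit 234) (nat_lit 304) (nat_lit 0) (XT.nd (nat_lit 78) (nat_lit 304) (nat_lit 0) (XT.lf (nat_lit 76) (nat_lit 477365798) (nat_lit 0) (nat_lit 4018578077) (nat_lit 228) (nat_lit 477365798) (nat_lit 209) (nat_lit 1) (nat_lit 208) (nat_lit 1) (nat_lit 211) (nat_lit 1) (nat_lit 340) (nat_lit 365)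 (nat_lit 315)) (XT.nd (nat_lit 78) (nat_lit 152) (nat_lit 0) (XT.lf (nat_lit 76) (nat_lit 2216474969) (nat_lit 0) (nat_lit 453404276) (nat_lit 152) (nat_lit 2216474969) (nat_lit 207) (nat_lit 1) (nat_lit 206) (nat_lit 1) (nat_lit 208) (nat_lit 1) (nat_lit 341) (nat_lit 365) (nat_lit 314)) (XT.lf (nat_lit 228) (nat_lit 3014974433) (nat_lit 0) (nat_lit 893392590) (nat_lit 152) (nat_lit 893392590) (nat_lit 207) (nat_lit 1) (nat_lit 204) (nat_lit 1) (nat_lit 206) (nat_lit 1) (nat_lit 342) (nat_lit 365) (nat_lit 313)))) (XT.nd (nat_lit 78) (nat_lit 304) (nat_lit 0) (XT.lf (nat_lit 76) (nat_lit 807547879) (nat_lit 0) (nat_lit 3103743955) (nat_lit 228) (nat_lit 807547879) (nat_lit 205) (nat_lit 1) (nat_lit 204) (nat_lit 1) (nat_lit 207) (nat_lit 1) (nat_lit 343) (nat_lit 365) (nat_lit 312)) (XT.nd (nat_lit 78) (nat_lit 228) (nat_lit 0) (XT.lf (nat_lit 152) (nat_lit 231817588) (nat_lit 0) (nat_lit 2202833483)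 (nat_lit 76) (nat_lit 2202833483) (nat_lit 205) (nat_lit 1) (nat_lit 203) (nat_lit 1) (nat_lit 204) (nat_lit 1) (nat_lit 344) (nat_lit 365) (nat_lit 311)) (XT.lf (nat_lit 228) (nat_lit 3486287571) (nat_lit 0) (nat_lit 535909833) (nat_lit 152) (nat_lit 535909833) (nat_lit 203) (nat_lit 1) (nat_lit 200) (nat_lit 1) (nat_lit 202) (nat_lit 1) (nat_lit 345) (nat_lit 365) (nat_lit 310))))) (XT.nd (nat_lit 234) (nat_lit 304) (nat_lit 0) (XT.nd (nat_lit 78) (nat_lit 304) (nat_lit 0) (XT.lf (nat_lit 76) (nat_lit 1059436263) (nat_lit 0) (nat_lit 2360743382) (nat_lit 228) (nat_lit 1059436263) (nat_lit 201) (nat_lit 1) (nat_lit 200) (nat_lit 1) (nat_lit 203) (nat_lit 1) (nat_lit 346) (nat_lit 365) (nat_lit 309)) (XT.nd (nat_lit 78) (nat_lit 228) (nat_lit 0) (XT.lf (nat_lit 152) (nat_lit 778495979) (nat_lit 0) (nat_lit 1812276558) (nat_lit 76) (nat_lit 1812276558) (nat_lit 201) (nat_lit 1) (nat_lit 199) (nat_lit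 1) (nat_lit 200) (nat_lit 1) (nat_lit 347) (nat_lit 365) (nat_lit 308)) (XT.lf (nat_lit 228) (nat_lit 3826139930) (nat_lit 0) (nat_lit 251288193) (nat_lit 152) (nat_lit 251288193) (nat_lit 199) (nat_lit 1) (nat_lit 196) (nat_lit 1) (nat_lit 198) (nat_lit 1) (nat_lit 348) (nat_lit 365) (nat_lit 307)))) (XT.nd (nat_lit 156) (nat_lit 228) (nat_lit 0) (XT.nd (nat_lit 78) (nat_lit 76) (nat_lit 0) (XT.lf (nat_lit 76) (nat_lit 1247852859) (nat_lit 0) (nat_lit 1758651850) (nat_lit 228) (nat_lit 1247852859) (nat_lit 197) (nat_lit 1) (nat_lit 196) (nat_lit 1) (nat_lit 199) (nat_lit 1) (nat_lit 349) (nat_lit 365) (nat_lit 306)) (XT.lf (nat_lit 152) (nat_lit 1200260164) (nat_lit 0) (nat_lit 1490964409) (nat_lit 76) (nat_lit 1490964409) (nat_lit 197) (nat_lit 1) (nat_lit 195) (nat_lit 1) (nat_lit 196) (nat_lit 1) (nat_lit 350) (nat_lit 365) (nat_lit 305))) (XT.nd (nat_lit 78) (nat_lit 0) (nat_lit 0) (XT.lf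 (nat_lit 228) (nat_lit 4060120044) (nat_lit 0) (nat_lit 26158129) (nat_lit 152) (nat_lit 26158129) (nat_lit 195) (nat_lit 1) (nat_lit 192) (nat_lit 1) (nat_lit 194) (nat_lit 1) (nat_lit 351) (nat_lit 365) (nat_lit 304)) (XT.lf (nat_lit 76) (nat_lit 1384946895) (nat_lit 0) (nat_lit 1272049542) (nat_lit 228) (nat_lit 1384946895) (nat_lit 193) (nat_lit 1) (nat_lit 192) (nat_lit 1) (nat_lit 195) (nat_lit 1) (nat_lit 352) (nat_lit 365) (nat_lit 303))))))))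
noncomputable def ec123 : XT := (XT.nd (nat_lit 1950) (nat_lit 1900) (nat_lit 0) (XT.nd (nat_lit 936) (nat_lit 988) (nat_lit 0) (XT.nd (nat_lit 468) (nat_lit 456) (nat_lit 0) (XT.nd (nat_lit 234) (nat_lit 228) (nat_lit 0) (XT.nd (nat_lit 78) (nat_lit 152) (nat_lit 0) (XT.lf (nat_lit 152) (nat_lit 1520589955) (nat_lit 0) (nat_lit 1226620109) (nat_lit 76) (nat_lit 1226620109) (nat_lit 193) (nat_lit 1) (nat_lit 191) (nat_lit 1) (nat_lit 192) (nat_lit 1) (nat_lit 353) (nat_lit 365) (nat_lit 302)) (XT.nd (nat_lit 78) (nat_lit 152) (nat_lit 0) (XT.lf (nat_lit 0) (nat_lit 152924537) (nat_lit 0) (nat_lit 3601924392) (nat_lit 152) (nat_lit 152924537) (nat_lit 191) (nat_lit 3) (nat_lit 191) (nat_lit 1) (nat_lit 193) (nat_lit 1) (nat_lit 354) (nat_lit 365) (nat_lit 301)) (XT.lf (nat_lit 76) (nat_lit 1480670915) (nat_lit 0) (nat_lit 880044317) (nat_lit 152) (nat_lit 1480670915) (nat_lit 190) (nat_lit 1) (nat_lit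 189) (nat_lit 1) (nat_lit 191) (nat_lit 1) (nat_lit 355) (nat_lit 365) (nat_lit 300)))) (XT.nd (nat_lit 78) (nat_lit 152) (nat_lit 0) (XT.lf (nat_lit 152) (nat_lit 1758738784) (nat_lit 0) (nat_lit 1009143399) (nat_lit 76) (nat_lit 1009143399) (nat_lit 190) (nat_lit 1) (nat_lit 188) (nat_lit 1) (nat_lit 189) (nat_lit 1) (nat_lit 356) (nat_lit 365) (nat_lit 299)) (XT.nd (nat_lit 78) (nat_lit 152) (nat_lit 0) (XT.lf (nat_lit 0) (nat_lit 292285383) (nat_lit 0) (nat_lit 3129786100) (nat_lit 152) (nat_lit 292285383) (nat_lit 188) (nat_lit 3) (nat_lit 188) (nat_lit 1) (nat_lit 190) (nat_lit 1) (nat_lit 357) (nat_lit 365) (nat_lit 298)) (XT.lf (nat_lit 76) (nat_lit 1543172270) (nat_lit 0) (nat_lit 565467982) (nat_lit 152) (nat_lit 1543172270) (nat_lit 187) (nat_lit 1) (nat_lit 186) (nat_lit 1) (nat_lit 188) (nat_lit 1) (nat_lit 358) (nat_lit 365) (nat_lit 297))))) (XT.nd (nat_lit 234) (nat_lit 228) (nat_lit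 0) (XT.nd (nat_lit 78) (nat_lit 152) (nat_lit 0) (XT.lf (nat_lit 152) (nat_lit 1930486050) (nat_lit 0) (nat_lit 830224772) (nat_lit 76) (nat_lit 830224772) (nat_lit 187) (nat_lit 1) (nat_lit 185) (nat_lit 1) (nat_lit 186) (nat_lit 1) (nat_lit 359) (nat_lit 365) (nat_lit 296)) (XT.nd (nat_lit 78) (nat_lit 152) (nat_lit 0) (XT.lf (nat_lit 0) (nat_lit 399010564) (nat_lit 0) (nat_lit 2733429425) (nat_lit 152) (nat_lit 399010564) (nat_lit 185) (nat_lit 3) (nat_lit 185) (nat_lit 1) (nat_lit 187) (nat_lit 1) (nat_lit 360) (nat_lit 365) (nat_lit 295)) (XT.lf (nat_lit 76) (nat_lit 1579115116) (nat_lit 0) (nat_lit 314215093) (nat_lit 152) (nat_lit 1579115116) (nat_lit 184) (nat_lit 1) (nat_lit 183) (nat_lit 1) (nat_lit 185) (nat_lit 1) (nat_lit 361) (nat_lit 365) (nat_lit 294)))) (XT.nd (nat_lit 78) (nat_lit 152) (nat_lit 0) (XT.lf (nat_lit 152) (nat_lit 2048755937) (nat_lit 0) (nat_lit 683027974) (nat_lit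 76) (nat_lit 683027974) (nat_lit 184) (nat_lit 1) (nat_lit 182) (nat_lit 1) (nat_lit 183) (nat_lit 1) (nat_lit 362) (nat_lit 365) (nat_lit 293)) (XT.nd (nat_lit 78) (nat_lit 152) (nat_lit 0) (XT.lf (nat_lit 0) (nat_lit 479263793) (nat_lit 0) (nat_lit 2399795968) (nat_lit 152) (nat_lit 479263793) (nat_lit 182) (nat_lit 3) (nat_lit 182) (nat_lit 1) (nat_lit 184) (nat_lit 1) (nat_lit 363) (nat_lit 365) (nat_lit 292)) (XT.lf (nat_lit 76) (nat_lit 1593945219) (nat_lit 0) (nat_lit 114699044) (nat_lit 152) (nat_lit 1593945219) (nat_lit 181) (nat_lit 1) (nat_lit 180) (nat_lit 1) (nat_lit 182) (nat_lit 1) (nat_lit 364) (nat_lit 365) (nat_lit 291)))))) (XT.nd (nat_lit 468) (nat_lit 608) (nat_lit 0) (XT.nd (nat_lit 234) (nat_lit 228) (nat_lit 0) (XT.nd (nat_lit 78) (nat_lit 76) (nat_lit 0) (XT.lf (nat_lit 152) (nat_lit 2124126375) (nat_lit 0) (nat_lit 561928805) (nat_lit 76) (nat_lit 561928805) (nat_lit 181)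 (nat_lit 1) (nat_lit 179) (nat_lit 1) (nat_lit 180) (nat_lit 1) (nat_lit 365) (nat_lit 365) (nat_lit 290)) (XT.nd (nat_lit 78) (nat_lit 76) (nat_lit 0) (XT.lf (nat_lit 0) (nat_lit 538097999) (nat_lit 0) (nat_lit 2118124572) (nat_lit 152) (nat_lit 538097999) (nat_lit 179) (nat_lit 3) (nat_lit 179) (nat_lit 1) (nat_lit 181) (nat_lit 1) (nat_lit 366) (nat_lit 365) (nat_lit 289)) (XT.lf (nat_lit 76) (nat_lit 44003769) (nat_lit 0) (nat_lit 1548790982) (nat_lit 76) (nat_lit 1548790982) (nat_lit 179) (nat_lit 3) (nat_lit 178) (nat_lit 1) (nat_lit 179) (nat_lit 1) (nat_lit 367) (nat_lit 365) (nat_lit 288)))) (XT.nd (nat_lit 78) (nat_lit 76) (nat_lit 0) (XT.lf (nat_lit 152) (nat_lit 2165247641) (nat_lit 0) (nat_lit 462300218) (nat_lit 76) (nat_lit 462300218) (nat_lit 178) (nat_lit 1) (nat_lit 176) (nat_lit 1) (nat_lit 177) (nat_lit 1) (nat_lit 368) (nat_lit 365) (nat_lit 287)) (XT.nd (nat_lit 78) (nat_lit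 76) (nat_lit 0) (XT.lf (nat_lit 0) (nat_lit 579653118) (nat_lit 0) (nat_lit 1879544890) (nat_lit 152) (nat_lit 579653118) (nat_lit 176) (nat_lit 3) (nat_lit 176) (nat_lit 1) (nat_lit 178) (nat_lit 1) (nat_lit 369) (nat_lit 365) (nat_lit 286)) (XT.lf (nat_lit 76) (nat_lit 170951563) (nat_lit 0) (nat_lit 1408943727) (nat_lit 76) (nat_lit 1408943727) (nat_lit 176) (nat_lit 3) (nat_lit 175) (nat_lit 1) (nat_lit 176) (nat_lit 1) (nat_lit 370) (nat_lit 365) (nat_lit 285))))) (XT.nd (nat_lit 234) (nat_lit 380) (nat_lit 0) (XT.nd (nat_lit 78) (nat_lit 76) (nat_lit 0) (XT.lf (nat_lit 152) (nat_lit 2179186607) (nat_lit 0) (nat_lit 380335534) (nat_lit 76) (nat_lit 380335534) (nat_lit 175) (nat_lit 1) (nat_lit 173) (nat_lit 1) (nat_lit 174) (nat_lit 1) (nat_lit 371) (nat_lit 365) (nat_lit 284)) (XT.nd (nat_lit 78) (nat_lit 76) (nat_lit 0) (XT.lf (nat_lit 0) (nat_lit 607318781) (nat_lit 0) (nat_lit 1676742958)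 (nat_lit 152) (nat_lit 607318781) (nat_lit 173) (nat_lit 3) (nat_lit 173) (nat_lit 1) (nat_lit 175) (nat_lit 1) (nat_lit 372) (nat_lit 365) (nat_lit 283)) (XT.lf (nat_lit 76) (nat_lit 268975182) (nat_lit 0) (nat_lit 1287474399) (nat_lit 76) (nat_lit 1287474399) (nat_lit 173) (nat_lit 3) (nat_lit 172) (nat_lit 1) (nat_lit 173) (nat_lit 1) (nat_lit 373) (nat_lit 365) (nat_lit 282)))) (XT.nd (nat_lit 156) (nat_lit 228) (nat_lit 0) (XT.nd (nat_lit 78) (nat_lit 0) (nat_lit 0) (XT.lf (nat_lit 152) (nat_lit 2171709847) (nat_lit 0) (nat_lit 312902985) (nat_lit 76) (nat_lit 312902985) (nat_lit 172) (nat_lit 1) (nat_lit 170) (nat_lit 1) (nat_lit 171) (nat_lit 1) (nat_lit 374) (nat_lit 365) (nat_lit 281)) (XT.lf (nat_lit 0) (nat_lit 623868117) (nat_lit 0) (nat_lit 1503686035) (nat_lit 152) (nat_lit 623868117) (nat_lit 170) (nat_lit 3) (nat_lit 170) (nat_lit 1) (nat_lit 172) (nat_lit 1) (nat_lit 375) (nat_lit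 365) (nat_lit 280))) (XT.nd (nat_lit 78) (nat_lit 152) (nat_lit 0) (XT.lf (nat_lit 76) (nat_lit 343508365) (nat_lit 0) (nat_lit 1181430191) (nat_lit 76) (nat_lit 1181430191) (nat_lit 170) (nat_lit 3) (nat_lit 169) (nat_lit 1) (nat_lit 170) (nat_lit 1) (nat_lit 376) (nat_lit 365) (nat_lit 279)) (XT.lf (nat_lit 152) (nat_lit 2147516430) (nat_lit 0) (nat_lit 257426060) (nat_lit 76) (nat_lit 257426060) (nat_lit 169) (nat_lit 1) (nat_lit 167) (nat_lit 1) (nat_lit 168) (nat_lit 1) (nat_lit 377) (nat_lit 365) (nat_lit 278))))))) (XT.nd (nat_lit 1014) (nat_lit 988) (nat_lit 0) (XT.nd (nat_lit 468) (nat_lit 456) (nat_lit 0) (XT.nd (nat_lit 234) (nat_lit 228) (nat_lit 0) (XT.nd (nat_lit 78) (nat_lit 228) (nat_lit 0) (XT.lf (nat_lit 0) (nat_lit 631567799) (nat_lit 0) (nat_lit 1355396177) (nat_lit 152) (nat_lit 631567799) (nat_lit 167) (nat_lit 3) (nat_lit 167) (nat_lit 1) (nat_lit 169) (nat_lit 1) (nat_lit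 378) (nat_lit 365) (nat_lit 277)) (XT.nd (nat_lit 78) (nat_lit 152) (nat_lit 0) (XT.lf (nat_lit 76) (nat_lit 399006912) (nat_lit 0) (nat_lit 1088367272) (nat_lit 76) (nat_lit 1088367272) (nat_lit 167) (nat_lit 3) (nat_lit 166) (nat_lit 1) (nat_lit 167) (nat_lit 1) (nat_lit 379) (nat_lit 365) (nat_lit 276)) (XT.lf (nat_lit 152) (nat_lit 2110429334) (nat_lit 0) (nat_lit 211785056) (nat_lit 76) (nat_lit 211785056) (nat_lit 166) (nat_lit 1) (nat_lit 164) (nat_lit 1) (nat_lit 165) (nat_lit 1) (nat_lit 380) (nat_lit 365) (nat_lit 275)))) (XT.nd (nat_lit 78) (nat_lit 228) (nat_lit 0) (XT.lf (nat_lit 0) (nat_lit 632268540) (nat_lit 0) (nat_lit 1227763938) (nat_lit 152) (nat_lit 632268540) (nat_lit 164) (nat_lit 3) (nat_lit 164) (nat_lit 1) (nat_lit 166) (nat_lit 1) (nat_lit 381) (nat_lit 365) (nat_lit 274)) (XT.nd (nat_lit 78) (nat_lit 152) (nat_lit 0) (XT.lf (nat_lit 76) (nat_lit 439122765) (nat_lit 0)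 (nat_lit 1006261239) (nat_lit 76) (nat_lit 1006261239) (nat_lit 164) (nat_lit 3) (nat_lit 163) (nat_lit 1) (nat_lit 164) (nat_lit 1) (nat_lit 382) (nat_lit 365) (nat_lit 273)) (XT.lf (nat_lit 152) (nat_lit 2063552819) (nat_lit 0) (nat_lit 174236090) (nat_lit 76) (nat_lit 174236090) (nat_lit 163) (nat_lit 1) (nat_lit 161) (nat_lit 1) (nat_lit 162) (nat_lit 1) (nat_lit 383) (nat_lit 365) (nat_lit 272))))) (XT.nd (nat_lit 234) (nat_lit 228) (nat_lit 0) (XT.nd (nat_lit 78) (nat_lit 228) (nat_lit 0) (XT.lf (nat_lit 0) (nat_lit 627479510) (nat_lit 0) (nat_lit 1117395047) (nat_lit 152) (nat_lit 627479510) (nat_lit 161) (nat_lit 3) (nat_lit 161) (nat_lit 1) (nat_lit 163) (nat_lit 1) (nat_lit 384) (nat_lit 365) (nat_lit 271)) (XT.nd (nat_lit 78) (nat_lit 152) (nat_lit 0) (XT.lf (nat_lit 76) (nat_lit 466847186) (nat_lit 0) (nat_lit 933433413) (nat_lit 76) (nat_lit 933433413) (nat_lit 161) (nat_lit 3) (nat_lit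 160) (nat_lit 1) (nat_lit 161) (nat_lit 1) (nat_lit 385) (nat_lit 365) (nat_lit 270)) (XT.lf (nat_lit 152) (nat_lit 2009401804) (nat_lit 0) (nat_lit 143344462) (nat_lit 76) (nat_lit 143344462) (nat_lit 160) (nat_lit 1) (nat_lit 158) (nat_lit 1) (nat_lit 159) (nat_lit 1) (nat_lit 386) (nat_lit 365) (nat_lit 269)))) (XT.nd (nat_lit 156) (nat_lit 152) (nat_lit 0) (XT.nd (nat_lit 78) (nat_lit 76) (nat_lit 0) (XT.lf (nat_lit 0) (nat_lit 618429533) (nat_lit 0) (nat_lit 1021484258) (nat_lit 152) (nat_lit 618429533) (nat_lit 158) (nat_lit 3) (nat_lit 158) (nat_lit 1) (nat_lit 160) (nat_lit 1) (nat_lit 387) (nat_lit 365) (nat_lit 268)) (XT.lf (nat_lit 76) (nat_lit 484628527) (nat_lit 0) (nat_lit 868490170) (nat_lit 76) (nat_lit 868490170) (nat_lit 158) (nat_lit 3) (nat_lit 157) (nat_lit 1) (nat_lit 158) (nat_lit 1) (nat_lit 388) (nat_lit 365) (nat_lit 267))) (XT.nd (nat_lit 78) (nat_lit 0) (nat_lit 0) (XT.lf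 (nat_lit 152) (nat_lit 1950008211) (nat_lit 0) (nat_lit 117929844) (nat_lit 76) (nat_lit 117929844) (nat_lit 157) (nat_lit 1) (nat_lit 155) (nat_lit 1) (nat_lit 156) (nat_lit 1) (nat_lit 389) (nat_lit 365) (nat_lit 266)) (XT.lf (nat_lit 0) (nat_lit 606117401) (nat_lit 0) (nat_lit 937711521) (nat_lit 152) (nat_lit 606117401) (nat_lit 155) (nat_lit 3) (nat_lit 155) (nat_lit 1) (nat_lit 157) (nat_lit 1) (nat_lit 390) (nat_lit 365) (nat_lit 265)))))) (XT.nd (nat_lit 468) (nat_lit 532) (nat_lit 0) (XT.nd (nat_lit 234) (nat_lit 228) (nat_lit 0) (XT.nd (nat_lit 78) (nat_lit 152) (nat_lit 0) (XT.lf (nat_lit 76) (nat_lit 494469080) (nat_lit 0) (nat_lit 810273004) (nat_lit 76) (nat_lit 810273004) (nat_lit 155) (nat_lit 3) (nat_lit 154) (nat_lit 1) (nat_lit 155) (nat_lit 1) (nat_lit 391) (nat_lit 365) (nat_lit 264)) (XT.nd (nat_lit 78) (nat_lit 0) (nat_lit 0) (XT.lf (nat_lit 152) (nat_lit 1887008366) (nat_lit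 0) (nat_lit 97021174) (nat_lit 76) (nat_lit 97021174) (nat_lit 154) (nat_lit 1) (nat_lit 152) (nat_lit 1) (nat_lit 153) (nat_lit 1) (nat_lit 392) (nat_lit 365) (nat_lit 263)) (XT.lf (nat_lit 0) (nat_lit 591353231) (nat_lit 0) (nat_lit 864156535) (nat_lit 152) (nat_lit 591353231) (nat_lit 152) (nat_lit 3) (nat_lit 152) (nat_lit 1) (nat_lit 154) (nat_lit 1) (nat_lit 393) (nat_lit 365) (nat_lit 262)))) (XT.nd (nat_lit 78) (nat_lit 152) (nat_lit 0) (XT.lf (nat_lit 76) (nat_lit 498004737) (nat_lit 0) (nat_lit 757817407) (nat_lit 76) (nat_lit 757817407) (nat_lit 152) (nat_lit 3) (nat_lit 151) (nat_lit 1) (nat_lit 152) (nat_lit 1) (nat_lit 394) (nat_lit 365) (nat_lit 261)) (XT.nd (nat_lit 78) (nat_lit 0) (nat_lit 0) (XT.lf (nat_lit 152) (nat_lit 1821714820) (nat_lit 0) (nat_lit 79819560) (nat_lit 76) (nat_lit 79819560) (nat_lit 151) (nat_lit 1) (nat_lit 149) (nat_lit 1) (nat_lit 150) (nat_lit 1) (nat_lit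 395) (nat_lit 365) (nat_lit 260)) (XT.lf (nat_lit 0) (nat_lit 574792477) (nat_lit 0) (nat_lit 799228430) (nat_lit 152) (nat_lit 574792477) (nat_lit 149) (nat_lit 3) (nat_lit 149) (nat_lit 1) (nat_lit 151) (nat_lit 1) (nat_lit 396) (nat_lit 365) (nat_lit 259))))) (XT.nd (nat_lit 234) (nat_lit 304) (nat_lit 0) (XT.nd (nat_lit 78) (nat_lit 152) (nat_lit 0) (XT.lf (nat_lit 76) (nat_lit 496570493) (nat_lit 0) (nat_lit 710319020) (nat_lit 76) (nat_lit 710319020) (nat_lit 149) (nat_lit 3) (nat_lit 148) (nat_lit 1) (nat_lit 149) (nat_lit 1) (nat_lit 397) (nat_lit 365) (nat_lit 258)) (XT.nd (nat_lit 78) (nat_lit 0) (nat_lit 0) (XT.lf (nat_lit 152) (nat_lit 1755175354) (nat_lit 0) (nat_lit 65667750) (nat_lit 76) (nat_lit 65667750) (nat_lit 148) (nat_lit 1) (nat_lit 146) (nat_lit 1) (nat_lit 147) (nat_lit 1) (nat_lit 398) (nat_lit 365) (nat_lit 257)) (XT.lf (nat_lit 0) (nat_lit 556963870) (nat_lit 0) (nat_lit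 741607884) (nat_lit 152) (nat_lit 556963870) (nat_lit 146) (nat_lit 3) (nat_lit 146) (nat_lit 1) (nat_lit 148) (nat_lit 1) (nat_lit 399) (nat_lit 365) (nat_lit 256)))) (XT.nd (nat_lit 156) (nat_lit 76) (nat_lit 0) (XT.nd (nat_lit 78) (nat_lit 152) (nat_lit 0) (XT.lf (nat_lit 76) (nat_lit 491254310) (nat_lit 0) (nat_lit 667105752) (nat_lit 76) (nat_lit 667105752) (nat_lit 146) (nat_lit 3) (nat_lit 145) (nat_lit 1) (nat_lit 146) (nat_lit 1) (nat_lit 400) (nat_lit 365) (nat_lit 255)) (XT.lf (nat_lit 152) (nat_lit 1688221454) (nat_lit 0) (nat_lit 54025020) (nat_lit 76) (nat_lit 54025020) (nat_lit 145) (nat_lit 1) (nat_lit 143) (nat_lit 1) (nat_lit 144) (nat_lit 1) (nat_lit 401) (nat_lit 365) (nat_lit 254))) (XT.nd (nat_lit 78) (nat_lit 76) (nat_lit 0) (XT.lf (nat_lit 0) (nat_lit 538292389) (nat_lit 0) (nat_lit 690199476) (nat_lit 152) (nat_lit 538292389) (nat_lit 143) (nat_lit 3) (nat_lit 143) (nat_lit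 1) (nat_lit 145) (nat_lit 1) (nat_lit 402) (nat_lit 365) (nat_lit 253)) (XT.lf (nat_lit 76) (nat_lit 482941410) (nat_lit 0) (nat_lit 627614826) (nat_lit 76) (nat_lit 627614826) (nat_lit 143) (nat_lit 3) (nat_lit 142) (nat_lit 1) (nat_lit 143) (nat_lit 1) (nat_lit 403) (nat_lit 365) (nat_lit 252))))))))
noncomputable def ec124 : XT := (XT.nd (nat_lit 1950) (nat_lit 1596) (nat_lit 0) (XT.nd (nat_lit 936) (nat_lit 1064) (nat_lit 0) (XT.nd (nat_lit 468) (nat_lit 456) (nat_lit 0) (XT.nd (nat_lit 234) (nat_lit 228) (nat_lit 0) (XT.nd (nat_lit 78) (nat_lit 76) (nat_lit 0) (XT.lf (nat_lit 152) (nat_lit 1621508107) (nat_lit 0) (nat_lit 44446518) (nat_lit 76) (nat_lit 44446518) (nat_lit 142) (nat_lit 1) (nat_lit 140) (nat_lit 1) (nat_lit 141) (nat_lit 1) (nat_lit 404) (nat_lit 365) (nat_lit 251)) (XT.nd (nat_lit 78) (nat_lit 76) (nat_lit 0) (XT.lf (nat_lit 0) (nat_lit 519118133) (nat_lit 0) (nat_lit 644092469)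 (nat_lit 152) (nat_lit 519118133) (nat_lit 140) (nat_lit 3) (nat_lit 140) (nat_lit 1) (nat_lit 142) (nat_lit 1) (nat_lit 405) (nat_lit 365) (nat_lit 250)) (XT.lf (nat_lit 76) (nat_lit 472350686) (nat_lit 0) (nat_lit 591373864) (nat_lit 76) (nat_lit 591373864) (nat_lit 140) (nat_lit 3) (nat_lit 139) (nat_lit 1) (nat_lit 140) (nat_lit 1) (nat_lit 406) (nat_lit 365) (nat_lit 249)))) (XT.nd (nat_lit 78) (nat_lit 76) (nat_lit 0) (XT.lf (nat_lit 152) (nat_lit 1555546485) (nat_lit 0) (nat_lit 36566260) (nat_lit 76) (nat_lit 36566260) (nat_lit 139) (nat_lit 1) (nat_lit 137) (nat_lit 1) (nat_lit 138) (nat_lit 1) (nat_lit 407) (nat_lit 365) (nat_lit 248)) (XT.nd (nat_lit 78) (nat_lit 76) (nat_lit 0) (XT.lf (nat_lit 0) (nat_lit 499711822) (nat_lit 0) (nat_lit 602528518) (nat_lit 152) (nat_lit 499711822) (nat_lit 137) (nat_lit 3) (nat_lit 137) (nat_lit 1) (nat_lit 139) (nat_lit 1) (nat_lit 408) (nat_lit 365)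 (nat_lit 247)) (XT.lf (nat_lit 76) (nat_lit 460064644) (nat_lit 0) (nat_lit 557985306) (nat_lit 76) (nat_lit 557985306) (nat_lit 137) (nat_lit 3) (nat_lit 136) (nat_lit 1) (nat_lit 137) (nat_lit 1) (nat_lit 409) (nat_lit 365) (nat_lit 246))))) (XT.nd (nat_lit 234) (nat_lit 228) (nat_lit 0) (XT.nd (nat_lit 78) (nat_lit 76) (nat_lit 0) (XT.lf (nat_lit 152) (nat_lit 1490730754) (nat_lit 0) (nat_lit 30083152) (nat_lit 76) (nat_lit 30083152) (nat_lit 136) (nat_lit 1) (nat_lit 134) (nat_lit 1) (nat_lit 135) (nat_lit 1) (nat_lit 410) (nat_lit 365) (nat_lit 245)) (XT.nd (nat_lit 78) (nat_lit 76) (nat_lit 0) (XT.lf (nat_lit 0) (nat_lit 480287534) (nat_lit 0) (nat_lit 564875084) (nat_lit 152) (nat_lit 480287534) (nat_lit 134) (nat_lit 3) (nat_lit 134) (nat_lit 1) (nat_lit 136) (nat_lit 1) (nat_lit 411) (nat_lit 365) (nat_lit 244)) (XT.lf (nat_lit 76) (nat_lit 446554002) (nat_lit 0) (nat_lit 527113573) (nat_lit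 76) (nat_lit 527113573) (nat_lit 134) (nat_lit 3) (nat_lit 133) (nat_lit 1) (nat_lit 134) (nat_lit 1) (nat_lit 412) (nat_lit 365) (nat_lit 243)))) (XT.nd (nat_lit 78) (nat_lit 76) (nat_lit 0) (XT.lf (nat_lit 152) (nat_lit 1427360081) (nat_lit 0) (nat_lit 24749484) (nat_lit 76) (nat_lit 24749484) (nat_lit 133) (nat_lit 1) (nat_lit 131) (nat_lit 1) (nat_lit 132) (nat_lit 1) (nat_lit 413) (nat_lit 365) (nat_lit 242)) (XT.nd (nat_lit 78) (nat_lit 76) (nat_lit 0) (XT.lf (nat_lit 0) (nat_lit 461013153) (nat_lit 0) (nat_lit 530603539) (nat_lit 152) (nat_lit 461013153) (nat_lit 131) (nat_lit 3) (nat_lit 131) (nat_lit 1) (nat_lit 133) (nat_lit 1) (nat_lit 414) (nat_lit 365) (nat_lit 241)) (XT.lf (nat_lit 76) (nat_lit 432197921) (nat_lit 0) (nat_lit 498474480) (nat_lit 76) (nat_lit 498474480) (nat_lit 131) (nat_lit 3) (nat_lit 130) (nat_lit 1) (nat_lit 131) (nat_lit 1) (nat_lit 415) (nat_lit 365) (nat_lit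 240)))))) (XT.nd (nat_lit 468) (nat_lit 608) (nat_lit 0) (XT.nd (nat_lit 234) (nat_lit 228) (nat_lit 0) (XT.nd (nat_lit 78) (nat_lit 76) (nat_lit 0) (XT.lf (nat_lit 152) (nat_lit 1365656672) (nat_lit 0) (nat_lit 20361462) (nat_lit 76) (nat_lit 20361462) (nat_lit 130) (nat_lit 1) (nat_lit 128) (nat_lit 1) (nat_lit 129) (nat_lit 1) (nat_lit 416) (nat_lit 365) (nat_lit 239)) (XT.nd (nat_lit 78) (nat_lit 76) (nat_lit 0) (XT.lf (nat_lit 0) (nat_lit 442018957) (nat_lit 0) (nat_lit 499271140) (nat_lit 152) (nat_lit 442018957) (nat_lit 128) (nat_lit 3) (nat_lit 128) (nat_lit 1) (nat_lit 130) (nat_lit 1) (nat_lit 417) (nat_lit 365) (nat_lit 238)) (XT.lf (nat_lit 76) (nat_lit 417300622) (nat_lit 0) (nat_lit 471826511) (nat_lit 76) (nat_lit 471826511) (nat_lit 128) (nat_lit 3) (nat_lit 127) (nat_lit 1) (nat_lit 128) (nat_lit 1) (nat_lit 418) (nat_lit 365) (nat_lit 237)))) (XT.nd (nat_lit 78) (nat_lit 76)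 (nat_lit 0) (XT.lf (nat_lit 152) (nat_lit 1305780554) (nat_lit 0) (nat_lit 16751425) (nat_lit 76) (nat_lit 16751425) (nat_lit 127) (nat_lit 1) (nat_lit 125) (nat_lit 1) (nat_lit 126) (nat_lit 1) (nat_lit 419) (nat_lit 365) (nat_lit 236)) (XT.nd (nat_lit 78) (nat_lit 76) (nat_lit 0) (XT.lf (nat_lit 0) (nat_lit 423404657) (nat_lit 0) (nat_lit 470506170) (nat_lit 152) (nat_lit 423404657) (nat_lit 125) (nat_lit 3) (nat_lit 125) (nat_lit 1) (nat_lit 127) (nat_lit 1) (nat_lit 420) (nat_lit 365) (nat_lit 235)) (XT.lf (nat_lit 76) (nat_lit 402105038) (nat_lit 0) (nat_lit 446963622) (nat_lit 76) (nat_lit 446963622) (nat_lit 125) (nat_lit 3) (nat_lit 124) (nat_lit 1) (nat_lit 125) (nat_lit 1) (nat_lit 421) (nat_lit 365) (nat_lit 234))))) (XT.nd (nat_lit 234) (nat_lit 380) (nat_lit 0) (XT.nd (nat_lit 78) (nat_lit 76) (nat_lit 0) (XT.lf (nat_lit 152) (nat_lit 1247841683) (nat_lit 0) (nat_lit 13781438) (nat_lit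 76) (nat_lit 13781438) (nat_lit 124) (nat_lit 1) (nat_lit 122) (nat_lit 1) (nat_lit 123) (nat_lit 1) (nat_lit 422) (nat_lit 365) (nat_lit 233)) (XT.nd (nat_lit 78) (nat_lit 76) (nat_lit 0) (XT.lf (nat_lit 0) (nat_lit 405245170) (nat_lit 0) (nat_lit 443995702) (nat_lit 152) (nat_lit 405245170) (nat_lit 122) (nat_lit 3) (nat_lit 122) (nat_lit 1) (nat_lit 124) (nat_lit 1) (nat_lit 423) (nat_lit 365) (nat_lit 232)) (XT.lf (nat_lit 76) (nat_lit 386804033) (nat_lit 0) (nat_lit 423709301) (nat_lit 76) (nat_lit 423709301) (nat_lit 122) (nat_lit 3) (nat_lit 121) (nat_lit 1) (nat_lit 122) (nat_lit 1) (nat_lit 424) (nat_lit 365) (nat_lit 231)))) (XT.nd (nat_lit 156) (nat_lit 228) (nat_lit 0) (XT.nd (nat_lit 78) (nat_lit 0) (nat_lit 0) (XT.lf (nat_lit 152) (nat_lit 1191909860) (nat_lit 0) (nat_lit 11338023) (nat_lit 76) (nat_lit 11338023) (nat_lit 121) (nat_lit 1) (nat_lit 119) (nat_lit 1) (nat_lit 120) (nat_lit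 1) (nat_lit 425) (nat_lit 365) (nat_lit 230)) (XT.lf (nat_lit 0) (nat_lit 387595358) (nat_lit 0) (nat_lit 419475516) (nat_lit 152) (nat_lit 387595358) (nat_lit 119) (nat_lit 3) (nat_lit 119) (nat_lit 1) (nat_lit 121) (nat_lit 1) (nat_lit 426) (nat_lit 365) (nat_lit 229))) (XT.nd (nat_lit 78) (nat_lit 152) (nat_lit 0) (XT.lf (nat_lit 76) (nat_lit 371549609) (nat_lit 0) (nat_lit 401911664) (nat_lit 76) (nat_lit 401911664) (nat_lit 119) (nat_lit 3) (nat_lit 118) (nat_lit 1) (nat_lit 119) (nat_lit 1) (nat_lit 427) (nat_lit 365) (nat_lit 228)) (XT.lf (nat_lit 152) (nat_lit 1138022829) (nat_lit 0) (nat_lit 9327820) (nat_lit 76) (nat_lit 9327820) (nat_lit 118) (nat_lit 1) (nat_lit 116) (nat_lit 1) (nat_lit 117) (nat_lit 1) (nat_lit 428) (nat_lit 365) (nat_lit 227))))))) (XT.nd (nat_lit 936) (nat_lit 684) (nat_lit 0) (XT.nd (nat_lit 468) (nat_lit 456) (nat_lit 0) (XT.nd (nat_lit 234) (nat_lit 228) (nat_lit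 0) (XT.nd (nat_lit 78) (nat_lit 228) (nat_lit 0) (XT.lf (nat_lit 0) (nat_lit 370493902) (nat_lit 0) (nat_lit 396721787) (nat_lit 152) (nat_lit 370493902) (nat_lit 116) (nat_lit 3) (nat_lit 116) (nat_lit 1) (nat_lit 118) (nat_lit 1) (nat_lit 429) (nat_lit 365) (nat_lit 226)) (XT.nd (nat_lit 78) (nat_lit 152) (nat_lit 0) (XT.lf (nat_lit 76) (nat_lit 356460472) (nat_lit 0) (nat_lit 381439410) (nat_lit 76) (nat_lit 381439410) (nat_lit 116) (nat_lit 3) (nat_lit 115) (nat_lit 1) (nat_lit 116) (nat_lit 1) (nat_lit 430) (nat_lit 365) (nat_lit 225)) (XT.lf (nat_lit 152) (nat_lit 1086192900) (nat_lit 0) (nat_lit 7674020) (nat_lit 76) (nat_lit 7674020) (nat_lit 115) (nat_lit 1) (nat_lit 113) (nat_lit 1) (nat_lit 114) (nat_lit 1) (nat_lit 431) (nat_lit 365) (nat_lit 224)))) (XT.nd (nat_lit 78) (nat_lit 228) (nat_lit 0) (XT.lf (nat_lit 0) (nat_lit 353966480) (nat_lit 0) (nat_lit 375544226) (nat_lit 152) (nat_lit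 353966480) (nat_lit 113) (nat_lit 3) (nat_lit 113) (nat_lit 1) (nat_lit 115) (nat_lit 1) (nat_lit 432) (nat_lit 365) (nat_lit 223)) (XT.nd (nat_lit 78) (nat_lit 152) (nat_lit 0) (XT.lf (nat_lit 76) (nat_lit 341628236) (nat_lit 0) (nat_lit 362178470) (nat_lit 76) (nat_lit 362178470) (nat_lit 113) (nat_lit 3) (nat_lit 112) (nat_lit 1) (nat_lit 113) (nat_lit 1) (nat_lit 433) (nat_lit 365) (nat_lit 222)) (XT.lf (nat_lit 152) (nat_lit 1036412351) (nat_lit 0) (nat_lit 6313435) (nat_lit 76) (nat_lit 6313435) (nat_lit 112) (nat_lit 1) (nat_lit 110) (nat_lit 1) (nat_lit 111) (nat_lit 1) (nat_lit 434) (nat_lit 365) (nat_lit 221))))) (XT.nd (nat_lit 234) (nat_lit 228) (nat_lit 0) (XT.nd (nat_lit 78) (nat_lit 228) (nat_lit 0) (XT.lf (nat_lit 0) (nat_lit 338028366) (nat_lit 0) (nat_lit 355780431) (nat_lit 152) (nat_lit 338028366) (nat_lit 110) (nat_lit 3) (nat_lit 110) (nat_lit 1) (nat_lit 112) (nat_lit 1)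 (nat_lit 435) (nat_lit 365) (nat_lit 220)) (XT.nd (nat_lit 78) (nat_lit 152) (nat_lit 0) (XT.lf (nat_lit 76) (nat_lit 327122512) (nat_lit 0) (nat_lit 344029241) (nat_lit 76) (nat_lit 344029241) (nat_lit 110) (nat_lit 3) (nat_lit 109) (nat_lit 1) (nat_lit 110) (nat_lit 1) (nat_lit 436) (nat_lit 365) (nat_lit 219)) (XT.lf (nat_lit 152) (nat_lit 988657828) (nat_lit 0) (nat_lit 5194079) (nat_lit 76) (nat_lit 5194079) (nat_lit 109) (nat_lit 1) (nat_lit 107) (nat_lit 1) (nat_lit 108) (nat_lit 1) (nat_lit 437) (nat_lit 365) (nat_lit 218)))) (XT.nd (nat_lit 78) (nat_lit 228) (nat_lit 0) (XT.lf (nat_lit 0) (nat_lit 322686551) (nat_lit 0) (nat_lit 337291219) (nat_lit 152) (nat_lit 322686551) (nat_lit 107) (nat_lit 3) (nat_lit 107) (nat_lit 1) (nat_lit 109) (nat_lit 1) (nat_lit 438) (nat_lit 365) (nat_lit 217)) (XT.nd (nat_lit 78) (nat_lit 152) (nat_lit 0) (XT.lf (nat_lit 76) (nat_lit 312995088) (nat_lit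 0) (nat_lit 326904296) (nat_lit 76) (nat_lit 326904296) (nat_lit 107) (nat_lit 3) (nat_lit 106) (nat_lit 1) (nat_lit 107) (nat_lit 1) (nat_lit 439) (nat_lit 365) (nat_lit 216)) (XT.lf (nat_lit 152) (nat_lit 942893931) (nat_lit 0) (nat_lit 4273181) (nat_lit 76) (nat_lit 4273181) (nat_lit 106) (nat_lit 1) (nat_lit 104) (nat_lit 1) (nat_lit 105) (nat_lit 1) (nat_lit 440) (nat_lit 365) (nat_lit 215)))))) (XT.nd (nat_lit 468) (nat_lit 228) (nat_lit 0) (XT.nd (nat_lit 234) (nat_lit 228) (nat_lit 0) (XT.nd (nat_lit 78) (nat_lit 228) (nat_lit 0) (XT.lf (nat_lit 0) (nat_lit 307941479) (nat_lit 0) (nat_lit 319956776) (nat_lit 152) (nat_lit 307941479) (nat_lit 104) (nat_lit 3) (nat_lit 104) (nat_lit 1) (nat_lit 106) (nat_lit 1) (nat_lit 441) (nat_lit 365) (nat_lit 214)) (XT.nd (nat_lit 78) (nat_lit 152) (nat_lit 0) (XT.lf (nat_lit 76) (nat_lit 299283346) (nat_lit 0) (nat_lit 310726485) (nat_lit 76) (nat_lit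 310726485) (nat_lit 104) (nat_lit 3) (nat_lit 103) (nat_lit 1) (nat_lit 104) (nat_lit 1) (nat_lit 442) (nat_lit 365) (nat_lit 213)) (XT.lf (nat_lit 152) (nat_lit 899076111) (nat_lit 0) (nat_lit 3515557) (nat_lit 76) (nat_lit 3515557) (nat_lit 103) (nat_lit 1) (nat_lit 101) (nat_lit 1) (nat_lit 102) (nat_lit 1) (nat_lit 443) (nat_lit 365) (nat_lit 212)))) (XT.nd (nat_lit 78) (nat_lit 228) (nat_lit 0) (XT.lf (nat_lit 0) (nat_lit 293788460) (nat_lit 0) (nat_lit 303673474) (nat_lit 152) (nat_lit 293788460) (nat_lit 101) (nat_lit 3) (nat_lit 101) (nat_lit 1) (nat_lit 103) (nat_lit 1) (nat_lit 444) (nat_lit 365) (nat_lit 211)) (XT.nd (nat_lit 78) (nat_lit 152) (nat_lit 0) (XT.lf (nat_lit 76) (nat_lit 286013066) (nat_lit 0) (nat_lit 295427365) (nat_lit 76) (nat_lit 295427365) (nat_lit 101) (nat_lit 3) (nat_lit 100) (nat_lit 1) (nat_lit 101) (nat_lit 1) (nat_lit 445) (nat_lit 365) (nat_lit 210)) (XT.lf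 (nat_lit 152) (nat_lit 857153038) (nat_lit 0) (nat_lit 2892257) (nat_lit 76) (nat_lit 2892257) (nat_lit 100) (nat_lit 1) (nat_lit 98) (nat_lit 1) (nat_lit 99) (nat_lit 1) (nat_lit 446) (nat_lit 365) (nat_lit 209))))) (XT.nd (nat_lit 40716) (nat_lit 0) (nat_lit 14972) (XT.nd (nat_lit 78) (nat_lit 228) (nat_lit 0) (XT.lf (nat_lit 0) (nat_lit 280218820) (nat_lit 0) (nat_lit 288351245) (nat_lit 152) (nat_lit 280218820) (nat_lit 98) (nat_lit 3) (nat_lit 98) (nat_lit 1) (nat_lit 100) (nat_lit 1) (nat_lit 447) (nat_lit 365) (nat_lit 208)) (XT.nd (nat_lit 78) (nat_lit 152) (nat_lit 0) (XT.lf (nat_lit 76) (nat_lit 273200721) (nat_lit 0) (nat_lit 280945888) (nat_lit 76) (nat_lit 280945888) (nat_lit 98) (nat_lit 3) (nat_lit 97) (nat_lit 1) (nat_lit 98) (nat_lit 1) (nat_lit 448) (nat_lit 365) (nat_lit 207)) (XT.lf (nat_lit 152) (nat_lit 817068494) (nat_lit 0) (nat_lit 2379467) (nat_lit 76) (nat_lit 2379467)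 (nat_lit 97) (nat_lit 1) (nat_lit 95) (nat_lit 1) (nat_lit 96) (nat_lit 1) (nat_lit 449) (nat_lit 365) (nat_lit 206)))) (XT.nd (nat_lit 156) (nat_lit 0) (nat_lit 76) (XT.nd (nat_lit 78) (nat_lit 0) (nat_lit 0) (XT.lf (nat_lit 836) (nat_lit 1910607396) (nat_lit 0) (nat_lit 3392279041) (nat_lit 836) (nat_lit 1910607396) (nat_lit 303) (nat_lit 1) (nat_lit 292) (nat_lit 0) (nat_lit 303) (nat_lit 0) (nat_lit 288) (nat_lit 366) (nat_lit 366)) (XT.lf (nat_lit 836) (nat_lit 7405752800) (nat_lit 76) (nat_lit 3337564863) (nat_lit 0) (nat_lit 3337564863) (nat_lit 303) (nat_lit 1) (nat_lit 293) (nat_lit 1) (nat_lit 292) (nat_lit 0) (nat_lit 289) (nat_lit 366) (nat_lit 365))) (XT.nd (nat_lit 78) (nat_lit 0) (nat_lit 0) (XT.lf (nat_lit 836) (nat_lit 3529470276) (nat_lit 0) (nat_lit 6686536800) (nat_lit 760) (nat_lit 3529470276) (nat_lit 304) (nat_lit 1) (nat_lit 293) (nat_lit 1) (nat_lit 303) (nat_lit 1) (nat_lit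 290) (nat_lit 366) (nat_lit 364)) (XT.lf (nat_lit 836) (nat_lit 6620795806) (nat_lit 76) (nat_lit 3400056229) (nat_lit 0) (nat_lit 3400056229) (nat_lit 304) (nat_lit 1) (nat_lit 294) (nat_lit 1) (nat_lit 293) (nat_lit 1) (nat_lit 291) (nat_lit 366) (nat_lit 363))))))))
noncomputable def ec125 : XT := (XT.nd (nat_lit 1950) (nat_lit 2964) (nat_lit 0) (XT.nd (nat_lit 936) (nat_lit 2508) (nat_lit 0) (XT.nd (nat_lit 468) (nat_lit 1444) (nat_lit 0) (XT.nd (nat_lit 234) (nat_lit 0) (nat_lit 76) (XT.nd (nat_lit 78) (nat_lit 0) (nat_lit 0) (XT.lf (nat_lit 836) (nat_lit 3047488729) (nat_lit 0) (nat_lit 7011648930) (nat_lit 760) (nat_lit 3047488729) (nat_lit 305) (nat_lit 1) (nat_lit 294) (nat_lit 1) (nat_lit 304) (nat_lit 1) (nat_lit 292) (nat_lit 366) (nat_lit 362)) (XT.nd (nat_lit 78) (nat_lit 0) (nat_lit 76) (XT.lf (nat_lit 836) (nat_lit 5481106968) (nat_lit 76) (nat_lit 3660409028) (nat_lit 0) (nat_lit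 3660409028) (nat_lit 305) (nat_lit 1) (nat_lit 295) (nat_lit 1) (nat_lit 294) (nat_lit 1) (nat_lit 293) (nat_lit 366) (nat_lit 361)) (XT.lf (nat_lit 836) (nat_lit 2403307097) (nat_lit 0) (nat_lit 7700840284) (nat_lit 760) (nat_lit 2403307097) (nat_lit 306) (nat_lit 1) (nat_lit 295) (nat_lit 1) (nat_lit 305) (nat_lit 1) (nat_lit 294) (nat_lit 366) (nat_lit 360)))) (XT.nd (nat_lit 78) (nat_lit 0) (nat_lit 76) (XT.lf (nat_lit 836) (nat_lit 4040033022) (nat_lit 76) (nat_lit 4090529346) (nat_lit 0) (nat_lit 4090529346) (nat_lit 306) (nat_lit 1) (nat_lit 296) (nat_lit 1) (nat_lit 295) (nat_lit 1) (nat_lit 295) (nat_lit 366) (nat_lit 359)) (XT.nd (nat_lit 78) (nat_lit 0) (nat_lit 0) (XT.lf (nat_lit 836) (nat_lit 1621862832) (nat_lit 0) (nat_lit 8701485796) (nat_lit 760) (nat_lit 1621862832) (nat_lit 307) (nat_lit 1) (nat_lit 296) (nat_lit 1) (nat_lit 306) (nat_lit 1) (nat_lit 296) (nat_lit 366) (nat_lit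 358)) (XT.lf (nat_lit 836) (nat_lit 2344991161) (nat_lit 76) (nat_lit 4665397016) (nat_lit 0) (nat_lit 4665397016) (nat_lit 307) (nat_lit 1) (nat_lit 297) (nat_lit 1) (nat_lit 296) (nat_lit 1) (nat_lit 297) (nat_lit 366) (nat_lit 357))))) (XT.nd (nat_lit 234) (nat_lit 380) (nat_lit 0) (XT.nd (nat_lit 78) (nat_lit 1292) (nat_lit 0) (XT.lf (nat_lit 76) (nat_lit 725305530) (nat_lit 0) (nat_lit 9966747094) (nat_lit 760) (nat_lit 725305530) (nat_lit 298) (nat_lit 1) (nat_lit 297) (nat_lit 1) (nat_lit 307) (nat_lit 1) (nat_lit 298) (nat_lit 366) (nat_lit 356)) (XT.nd (nat_lit 78) (nat_lit 532) (nat_lit 0) (XT.lf (nat_lit 836) (nat_lit 438066503) (nat_lit 0) (nat_lit 5362757855) (nat_lit 760) (nat_lit 5362757855) (nat_lit 298) (nat_lit 1) (nat_lit 287) (nat_lit 1) (nat_lit 297) (nat_lit 1) (nat_lit 299) (nat_lit 366) (nat_lit 355)) (XT.lf (nat_lit 532) (nat_lit 10395869818) (nat_lit 0) (nat_lit 262419571)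 (nat_lit 456) (nat_lit 262419571) (nat_lit 287) (nat_lit 1) (nat_lit 280) (nat_lit 1) (nat_lit 286) (nat_lit 1) (nat_lit 300) (nat_lit 366) (nat_lit 354)))) (XT.nd (nat_lit 78) (nat_lit 380) (nat_lit 0) (XT.lf (nat_lit 76) (nat_lit 4545056191) (nat_lit 0) (nat_lit 1590847600) (nat_lit 532) (nat_lit 4545056191) (nat_lit 281) (nat_lit 1) (nat_lit 280) (nat_lit 1) (nat_lit 287) (nat_lit 1) (nat_lit 301) (nat_lit 366) (nat_lit 353)) (XT.nd (nat_lit 78) (nat_lit 0) (nat_lit 0) (XT.lf (nat_lit 456) (nat_lit 7820875040) (nat_lit 0) (nat_lit 1315265366) (nat_lit 380) (nat_lit 1315265366) (nat_lit 281) (nat_lit 1) (nat_lit 275) (nat_lit 1) (nat_lit 280) (nat_lit 1) (nat_lit 302) (nat_lit 366) (nat_lit 352)) (XT.lf (nat_lit 76) (nat_lit 3241933252) (nat_lit 0) (nat_lit 3742810921) (nat_lit 456) (nat_lit 3241933252) (nat_lit 276) (nat_lit 1) (nat_lit 275) (nat_lit 1) (nat_lit 281) (nat_lit 1) (nat_lit 303)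 (nat_lit 366) (nat_lit 351)))))) (XT.nd (nat_lit 468) (nat_lit 1140) (nat_lit 0) (XT.nd (nat_lit 234) (nat_lit 684) (nat_lit 0) (XT.nd (nat_lit 78) (nat_lit 304) (nat_lit 0) (XT.lf (nat_lit 456) (nat_lit 5150157124) (nat_lit 0) (nat_lit 2429809320) (nat_lit 380) (nat_lit 2429809320) (nat_lit 276) (nat_lit 1) (nat_lit 270) (nat_lit 1) (nat_lit 275) (nat_lit 1) (nat_lit 304) (nat_lit 366) (nat_lit 350)) (XT.nd (nat_lit 78) (nat_lit 304) (nat_lit 0) (XT.lf (nat_lit 76) (nat_lit 1897764454) (nat_lit 0) (nat_lit 6003653428) (nat_lit 456) (nat_lit 1897764454) (nat_lit 271) (nat_lit 1) (nat_lit 270) (nat_lit 1) (nat_lit 276) (nat_lit 1) (nat_lit 305) (nat_lit 366) (nat_lit 349)) (XT.lf (nat_lit 380) (nat_lit 2408573679) (nat_lit 0) (nat_lit 3592716193) (nat_lit 304) (nat_lit 3592716193) (nat_lit 271) (nat_lit 1) (nat_lit 266) (nat_lit 1) (nat_lit 270) (nat_lit 1) (nat_lit 306) (nat_lit 366) (nat_lit 348))))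 (XT.nd (nat_lit 78) (nat_lit 684) (nat_lit 0) (XT.lf (nat_lit 76) (nat_lit 524089561) (nat_lit 0) (nat_lit 8348540742) (nat_lit 380) (nat_lit 524089561) (nat_lit 267) (nat_lit 1) (nat_lit 266) (nat_lit 1) (nat_lit 271) (nat_lit 1) (nat_lit 307) (nat_lit 366) (nat_lit 347)) (XT.nd (nat_lit 78) (nat_lit 304) (nat_lit 0) (XT.lf (nat_lit 76) (nat_lit 4416129239) (nat_lit 0) (nat_lit 369859402) (nat_lit 380) (nat_lit 4416129239) (nat_lit 262) (nat_lit 1) (nat_lit 261) (nat_lit 1) (nat_lit 266) (nat_lit 1) (nat_lit 308) (nat_lit 366) (nat_lit 346)) (XT.lf (nat_lit 380) (nat_lit 7304974192) (nat_lit 0) (nat_lit 854976312) (nat_lit 304) (nat_lit 854976312) (nat_lit 262) (nat_lit 1) (nat_lit 257) (nat_lit 1) (nat_lit 261) (nat_lit 1) (nat_lit 309) (nat_lit 366) (nat_lit 345))))) (XT.nd (nat_lit 234) (nat_lit 836) (nat_lit 0) (XT.nd (nat_lit 78) (nat_lit 304) (nat_lit 0) (XT.lf (nat_lit 76) (nat_lit 2865332027)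 (nat_lit 0) (nat_lit 3100283003) (nat_lit 380) (nat_lit 2865332027) (nat_lit 258) (nat_lit 1) (nat_lit 257) (nat_lit 1) (nat_lit 262) (nat_lit 1) (nat_lit 310) (nat_lit 366) (nat_lit 344)) (XT.nd (nat_lit 78) (nat_lit 0) (nat_lit 0) (XT.lf (nat_lit 380) (nat_lit 4181316501) (nat_lit 0) (nat_lit 2236015284) (nat_lit 304) (nat_lit 2236015284) (nat_lit 258) (nat_lit 1) (nat_lit 253) (nat_lit 1) (nat_lit 257) (nat_lit 1) (nat_lit 311) (nat_lit 366) (nat_lit 343)) (XT.lf (nat_lit 76) (nat_lit 1318600615) (nat_lit 0) (nat_lit 5843738890) (nat_lit 380) (nat_lit 1318600615) (nat_lit 254) (nat_lit 1) (nat_lit 253) (nat_lit 1) (nat_lit 258) (nat_lit 1) (nat_lit 312) (nat_lit 366) (nat_lit 342)))) (XT.nd (nat_lit 156) (nat_lit 228) (nat_lit 0) (XT.nd (nat_lit 78) (nat_lit 380) (nat_lit 0) (XT.lf (nat_lit 304) (nat_lit 1072361405) (nat_lit 0) (nat_lit 3619946671) (nat_lit 228) (nat_lit 3619946671) (nat_lit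 254) (nat_lit 1) (nat_lit 250) (nat_lit 1) (nat_lit 253) (nat_lit 1) (nat_lit 313) (nat_lit 366) (nat_lit 341)) (XT.lf (nat_lit 380) (nat_lit 7721562060) (nat_lit 0) (nat_lit 214258531) (nat_lit 304) (nat_lit 214258531) (nat_lit 250) (nat_lit 1) (nat_lit 245) (nat_lit 1) (nat_lit 249) (nat_lit 1) (nat_lit 314) (nat_lit 366) (nat_lit 340))) (XT.nd (nat_lit 78) (nat_lit 228) (nat_lit 0) (XT.lf (nat_lit 76) (nat_lit 3021504318) (nat_lit 0) (nat_lit 1945792482) (nat_lit 380) (nat_lit 3021504318) (nat_lit 246) (nat_lit 1) (nat_lit 245) (nat_lit 1) (nat_lit 250) (nat_lit 1) (nat_lit 315) (nat_lit 366) (nat_lit 339)) (XT.lf (nat_lit 304) (nat_lit 4413002580) (nat_lit 0) (nat_lit 1710352988) (nat_lit 228) (nat_lit 1710352988) (nat_lit 246) (nat_lit 1) (nat_lit 242) (nat_lit 1) (nat_lit 245) (nat_lit 1) (nat_lit 316) (nat_lit 366) (nat_lit 338))))))) (XT.nd (nat_lit 1014) (nat_lit 1216) (nat_lit 0) (XT.nd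 (nat_lit 468) (nat_lit 988) (nat_lit 0) (XT.nd (nat_lit 234) (nat_lit 228) (nat_lit 0) (XT.nd (nat_lit 78) (nat_lit 532) (nat_lit 0) (XT.lf (nat_lit 76) (nat_lit 1394135777) (nat_lit 0) (nat_lit 4894284833) (nat_lit 304) (nat_lit 1394135777) (nat_lit 243) (nat_lit 1) (nat_lit 242) (nat_lit 1) (nat_lit 246) (nat_lit 1) (nat_lit 317) (nat_lit 366) (nat_lit 337)) (XT.nd (nat_lit 78) (nat_lit 304) (nat_lit 0) (XT.lf (nat_lit 304) (nat_lit 1161968595) (nat_lit 0) (nat_lit 3186437147) (nat_lit 228) (nat_lit 3186437147) (nat_lit 243) (nat_lit 1) (nat_lit 239) (nat_lit 1) (nat_lit 242) (nat_lit 1) (nat_lit 318) (nat_lit 366) (nat_lit 336)) (XT.lf (nat_lit 304) (nat_lit 6993224523) (nat_lit 0) (nat_lit 199696306) (nat_lit 228) (nat_lit 199696306) (nat_lit 239) (nat_lit 1) (nat_lit 235) (nat_lit 1) (nat_lit 238) (nat_lit 1) (nat_lit 319) (nat_lit 366) (nat_lit 335)))) (XT.nd (nat_lit 78) (nat_lit 228) (nat_lit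 0) (XT.lf (nat_lit 76) (nat_lit 2645336563) (nat_lit 0) (nat_lit 1960167831) (nat_lit 304) (nat_lit 2645336563) (nat_lit 236) (nat_lit 1) (nat_lit 235) (nat_lit 1) (nat_lit 239) (nat_lit 1) (nat_lit 320) (nat_lit 366) (nat_lit 334)) (XT.nd (nat_lit 78) (nat_lit 0) (nat_lit 0) (XT.lf (nat_lit 304) (nat_lit 3637579997) (nat_lit 0) (nat_lit 1738365263) (nat_lit 228) (nat_lit 1738365263) (nat_lit 236) (nat_lit 1) (nat_lit 232) (nat_lit 1) (nat_lit 235) (nat_lit 1) (nat_lit 321) (nat_lit 366) (nat_lit 333)) (XT.lf (nat_lit 76) (nat_lit 1001786564) (nat_lit 0) (nat_lit 4977868768) (nat_lit 304) (nat_lit 1001786564) (nat_lit 233) (nat_lit 1) (nat_lit 232) (nat_lit 1) (nat_lit 236) (nat_lit 1) (nat_lit 322) (nat_lit 366) (nat_lit 332))))) (XT.nd (nat_lit 234) (nat_lit 532) (nat_lit 0) (XT.nd (nat_lit 78) (nat_lit 304) (nat_lit 0) (XT.lf (nat_lit 228) (nat_lit 367087906) (nat_lit 0) (nat_lit 3241994597)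 (nat_lit 152) (nat_lit 3241994597) (nat_lit 233) (nat_lit 1) (nat_lit 230) (nat_lit 1) (nat_lit 232) (nat_lit 1) (nat_lit 323) (nat_lit 366) (nat_lit 331)) (XT.nd (nat_lit 78) (nat_lit 0) (nat_lit 0) (XT.lf (nat_lit 304) (nat_lit 5546575170) (nat_lit 0) (nat_lit 589086486) (nat_lit 228) (nat_lit 589086486) (nat_lit 230) (nat_lit 1) (nat_lit 226) (nat_lit 1) (nat_lit 229) (nat_lit 1) (nat_lit 324) (nat_lit 366) (nat_lit 330)) (XT.lf (nat_lit 76) (nat_lit 1937287047) (nat_lit 0) (nat_lit 2725257959) (nat_lit 304) (nat_lit 1937287047) (nat_lit 227) (nat_lit 1) (nat_lit 226) (nat_lit 1) (nat_lit 230) (nat_lit 1) (nat_lit 325) (nat_lit 366) (nat_lit 329)))) (XT.nd (nat_lit 156) (nat_lit 380) (nat_lit 0) (XT.nd (nat_lit 78) (nat_lit 0) (nat_lit 0) (XT.lf (nat_lit 228) (nat_lit 2238236343) (nat_lit 0) (nat_lit 2120267436) (nat_lit 152) (nat_lit 2120267436) (nat_lit 227) (nat_lit 1) (nat_lit 224) (nat_lit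 1) (nat_lit 226) (nat_lit 1) (nat_lit 326) (nat_lit 366) (nat_lit 328)) (XT.lf (nat_lit 76) (nat_lit 321563519) (nat_lit 0) (nat_lit 5718600885) (nat_lit 228) (nat_lit 321563519) (nat_lit 225) (nat_lit 1) (nat_lit 224) (nat_lit 1) (nat_lit 227) (nat_lit 1) (nat_lit 327) (nat_lit 366) (nat_lit 327))) (XT.nd (nat_lit 78) (nat_lit 152) (nat_lit 0) (XT.lf (nat_lit 76) (nat_lit 2653920144) (nat_lit 0) (nat_lit 937269804) (nat_lit 228) (nat_lit 2653920144) (nat_lit 222) (nat_lit 1) (nat_lit 221) (nat_lit 1) (nat_lit 224) (nat_lit 1) (nat_lit 328) (nat_lit 366) (nat_lit 326)) (XT.lf (nat_lit 228) (nat_lit 3685433260) (nat_lit 0) (nat_lit 1223463989) (nat_lit 152) (nat_lit 1223463989) (nat_lit 222) (nat_lit 1) (nat_lit 219) (nat_lit 1) (nat_lit 221) (nat_lit 1) (nat_lit 329) (nat_lit 366) (nat_lit 325)))))) (XT.nd (nat_lit 468) (nat_lit 684) (nat_lit 0) (XT.nd (nat_lit 234) (nat_lit 152) (nat_lit 0) (XT.nd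 (nat_lit 78) (nat_lit 380) (nat_lit 0) (XT.lf (nat_lit 76) (nat_lit 1039933385) (nat_lit 0) (nat_lit 3942237609) (nat_lit 228) (nat_lit 1039933385) (nat_lit 220) (nat_lit 1) (nat_lit 219) (nat_lit 1) (nat_lit 222) (nat_lit 1) (nat_lit 330) (nat_lit 366) (nat_lit 324)) (XT.nd (nat_lit 78) (nat_lit 228) (nat_lit 0) (XT.lf (nat_lit 228) (nat_lit 487171349) (nat_lit 0) (nat_lit 2713449332) (nat_lit 152) (nat_lit 2713449332) (nat_lit 220) (nat_lit 1) (nat_lit 217) (nat_lit 1) (nat_lit 219) (nat_lit 1) (nat_lit 331) (nat_lit 366) (nat_lit 323)) (XT.lf (nat_lit 228) (nat_lit 4788234759) (nat_lit 0) (nat_lit 510465634) (nat_lit 152) (nat_lit 510465634) (nat_lit 217) (nat_lit 1) (nat_lit 214) (nat_lit 1) (nat_lit 216) (nat_lit 1) (nat_lit 332) (nat_lit 366) (nat_lit 322)))) (XT.nd (nat_lit 78) (nat_lit 152) (nat_lit 0) (XT.lf (nat_lit 76) (nat_lit 1594015085) (nat_lit 0) (nat_lit 2517127216) (nat_lit 228)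 (nat_lit 1594015085) (nat_lit 215) (nat_lit 1) (nat_lit 214) (nat_lit 1) (nat_lit 217) (nat_lit 1) (nat_lit 333) (nat_lit 366) (nat_lit 321)) (XT.nd (nat_lit 78) (nat_lit 0) (nat_lit 0) (XT.lf (nat_lit 228) (nat_lit 1623426974) (nat_lit 0) (nat_lit 1990370643) (nat_lit 152) (nat_lit 1990370643) (nat_lit 215) (nat_lit 1) (nat_lit 212) (nat_lit 1) (nat_lit 214) (nat_lit 1) (nat_lit 334) (nat_lit 366) (nat_lit 320)) (XT.lf (nat_lit 76) (nat_lit 53357567) (nat_lit 0) (nat_lit 5400005693) (nat_lit 228) (nat_lit 53357567) (nat_lit 213) (nat_lit 1) (nat_lit 212) (nat_lit 1) (nat_lit 215) (nat_lit 1) (nat_lit 335) (nat_lit 366) (nat_lit 319))))) (XT.nd (nat_lit 234) (nat_lit 380) (nat_lit 0) (XT.nd (nat_lit 78) (nat_lit 152) (nat_lit 0) (XT.lf (nat_lit 76) (nat_lit 2014694742) (nat_lit 0) (nat_lit 1379264484) (nat_lit 152) (nat_lit 2014694742) (nat_lit 211) (nat_lit 1) (nat_lit 210) (nat_lit 1) (nat_lit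 212) (nat_lit 1) (nat_lit 336) (nat_lit 366) (nat_lit 318)) (XT.nd (nat_lit 78) (nat_lit 0) (nat_lit 0) (XT.lf (nat_lit 228) (nat_lit 2500006816) (nat_lit 0) (nat_lit 1407015389) (nat_lit 152) (nat_lit 1407015389) (nat_lit 211) (nat_lit 1) (nat_lit 208) (nat_lit 1) (nat_lit 210) (nat_lit 1) (nat_lit 337) (nat_lit 366) (nat_lit 317)) (XT.lf (nat_lit 76) (nat_lit 501234088) (nat_lit 0) (nat_lit 4219506981) (nat_lit 228) (nat_lit 501234088) (nat_lit 209) (nat_lit 1) (nat_lit 208) (nat_lit 1) (nat_lit 211) (nat_lit 1) (nat_lit 338) (nat_lit 366) (nat_lit 316)))) (XT.nd (nat_lit 156) (nat_lit 76) (nat_lit 0) (XT.nd (nat_lit 78) (nat_lit 152) (nat_lit 0) (XT.lf (nat_lit 76) (nat_lit 2327298718) (nat_lit 0) (nat_lit 476074490) (nat_lit 152) (nat_lit 2327298718) (nat_lit 207) (nat_lit 1) (nat_lit 206) (nat_lit 1) (nat_lit 208) (nat_lit 1) (nat_lit 339) (nat_lit 366) (nat_lit 315)) (XT.lf (nat_lit 228)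 (nat_lit 3165723154) (nat_lit 0) (nat_lit 938062219) (nat_lit 152) (nat_lit 938062219) (nat_lit 207) (nat_lit 1) (nat_lit 204) (nat_lit 1) (nat_lit 206) (nat_lit 1) (nat_lit 340) (nat_lit 366) (nat_lit 314))) (XT.nd (nat_lit 78) (nat_lit 76) (nat_lit 0) (XT.lf (nat_lit 76) (nat_lit 847925273) (nat_lit 0) (nat_lit 3258931153) (nat_lit 228) (nat_lit 847925273) (nat_lit 205) (nat_lit 1) (nat_lit 204) (nat_lit 1) (nat_lit 207) (nat_lit 1) (nat_lit 341) (nat_lit 366) (nat_lit 313)) (XT.lf (nat_lit 152) (nat_lit 243408467) (nat_lit 0) (nat_lit 2312975157) (nat_lit 76) (nat_lit 2312975157) (nat_lit 205) (nat_lit 1) (nat_lit 203) (nat_lit 1) (nat_lit 204) (nat_lit 1) (nat_lit 342) (nat_lit 366) (nat_lit 312))))))))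
noncomputable def ec126 : XT := (XT.nd (nat_lit 1950) (nat_lit 1900) (nat_lit 0) (XT.nd (nat_lit 936) (nat_lit 912) (nat_lit 0) (XT.nd (nat_lit 468) (nat_lit 532) (nat_lit 0) (XT.nd (nat_lit 234) (nat_lit 304) (nat_lit 0) (XT.nd (nat_lit 78) (nat_lit 76) (nat_lit 0) (XT.lf (nat_lit 228) (nat_lit 3660601949) (nat_lit 0) (nat_lit 562705325) (nat_lit 152) (nat_lit 562705325) (nat_lit 203) (nat_lit 1) (nat_lit 200) (nat_lit 1) (nat_lit 202) (nat_lit 1) (nat_lit 343) (nat_lit 366) (nat_lit 311)) (XT.nd (nat_lit 78) (nat_lit 76) (nat_lit 0) (XT.lf (nat_lit 76) (nat_lit 1112408076) (nat_lit 0) (nat_lit 2478780551) (nat_lit 228) (nat_lit 1112408076) (nat_lit 201) (nat_lit 1) (nat_lit 200) (nat_lit 1) (nat_lit 203) (nat_lit 1) (nat_lit 344) (nat_lit 366) (nat_lit 310)) (XT.lf (nat_lit 152) (nat_lit 817420778) (nat_lit 0) (nat_lit 1902890386) (nat_lit 76) (nat_lit 1902890386) (nat_lit 201) (nat_lit 1) (nat_lit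 199) (nat_lit 1) (nat_lit 200) (nat_lit 1) (nat_lit 345) (nat_lit 366) (nat_lit 309)))) (XT.nd (nat_lit 78) (nat_lit 76) (nat_lit 0) (XT.lf (nat_lit 228) (nat_lit 4017446927) (nat_lit 0) (nat_lit 263852602) (nat_lit 152) (nat_lit 263852602) (nat_lit 199) (nat_lit 1) (nat_lit 196) (nat_lit 1) (nat_lit 198) (nat_lit 1) (nat_lit 346) (nat_lit 366) (nat_lit 308)) (XT.nd (nat_lit 78) (nat_lit 76) (nat_lit 0) (XT.lf (nat_lit 76) (nat_lit 1310245502) (nat_lit 0) (nat_lit 1846584443) (nat_lit 228) (nat_lit 1310245502) (nat_lit 197) (nat_lit 1) (nat_lit 196) (nat_lit 1) (nat_lit 199) (nat_lit 1) (nat_lit 347) (nat_lit 366) (nat_lit 307)) (XT.lf (nat_lit 152) (nat_lit 1260273172) (nat_lit 0) (nat_lit 1565512630) (nat_lit 76) (nat_lit 1565512630) (nat_lit 197) (nat_lit 1) (nat_lit 195) (nat_lit 1) (nat_lit 196) (nat_lit 1) (nat_lit 348) (nat_lit 366) (nat_lit 306))))) (XT.nd (nat_lit 234) (nat_lit 228) (nat_lit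 0) (XT.nd (nat_lit 78) (nat_lit 76) (nat_lit 0) (XT.lf (nat_lit 228) (nat_lit 4263126047) (nat_lit 0) (nat_lit 27466035) (nat_lit 152) (nat_lit 27466035) (nat_lit 195) (nat_lit 1) (nat_lit 192) (nat_lit 1) (nat_lit 194) (nat_lit 1) (nat_lit 349) (nat_lit 366) (nat_lit 305)) (XT.nd (nat_lit 78) (nat_lit 76) (nat_lit 0) (XT.lf (nat_lit 76) (nat_lit 1454194240) (nat_lit 0) (nat_lit 1335652019) (nat_lit 228) (nat_lit 1454194240) (nat_lit 193) (nat_lit 1) (nat_lit 192) (nat_lit 1) (nat_lit 195) (nat_lit 1) (nat_lit 350) (nat_lit 366) (nat_lit 304)) (XT.lf (nat_lit 152) (nat_lit 1596619453) (nat_lit 0) (nat_lit 1287951115) (nat_lit 76) (nat_lit 1287951115) (nat_lit 193) (nat_lit 1) (nat_lit 191) (nat_lit 1) (nat_lit 192) (nat_lit 1) (nat_lit 351) (nat_lit 366) (nat_lit 303)))) (XT.nd (nat_lit 78) (nat_lit 228) (nat_lit 0) (XT.lf (nat_lit 0) (nat_lit 160570764) (nat_lit 0) (nat_lit 3782020611) (nat_lit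 152) (nat_lit 160570764) (nat_lit 191) (nat_lit 3) (nat_lit 191) (nat_lit 1) (nat_lit 193) (nat_lit 1) (nat_lit 352) (nat_lit 366) (nat_lit 302)) (XT.nd (nat_lit 78) (nat_lit 76) (nat_lit 0) (XT.lf (nat_lit 76) (nat_lit 1554704460) (nat_lit 0) (nat_lit 924046533) (nat_lit 152) (nat_lit 1554704460) (nat_lit 190) (nat_lit 1) (nat_lit 189) (nat_lit 1) (nat_lit 191) (nat_lit 1) (nat_lit 353) (nat_lit 366) (nat_lit 301)) (XT.lf (nat_lit 152) (nat_lit 1846675724) (nat_lit 0) (nat_lit 1059600569) (nat_lit 76) (nat_lit 1059600569) (nat_lit 190) (nat_lit 1) (nat_lit 188) (nat_lit 1) (nat_lit 189) (nat_lit 1) (nat_lit 354) (nat_lit 366) (nat_lit 300)))))) (XT.nd (nat_lit 468) (nat_lit 456) (nat_lit 0) (XT.nd (nat_lit 234) (nat_lit 228) (nat_lit 0) (XT.nd (nat_lit 78) (nat_lit 228) (nat_lit 0) (XT.lf (nat_lit 0) (nat_lit 306899653) (nat_lit 0) (nat_lit 3286275405) (nat_lit 152) (nat_lit 306899653) (nat_lit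 188) (nat_lit 3) (nat_lit 188) (nat_lit 1) (nat_lit 190) (nat_lit 1) (nat_lit 355) (nat_lit 366) (nat_lit 299)) (XT.nd (nat_lit 78) (nat_lit 76) (nat_lit 0) (XT.lf (nat_lit 76) (nat_lit 1620330884) (nat_lit 0) (nat_lit 593741381) (nat_lit 152) (nat_lit 1620330884) (nat_lit 187) (nat_lit 1) (nat_lit 186) (nat_lit 1) (nat_lit 188) (nat_lit 1) (nat_lit 356) (nat_lit 366) (nat_lit 298)) (XT.lf (nat_lit 152) (nat_lit 2027010353) (nat_lit 0) (nat_lit 871736011) (nat_lit 76) (nat_lit 871736011) (nat_lit 187) (nat_lit 1) (nat_lit 185) (nat_lit 1) (nat_lit 186) (nat_lit 1) (nat_lit 357) (nat_lit 366) (nat_lit 297)))) (XT.nd (nat_lit 78) (nat_lit 228) (nat_lit 0) (XT.lf (nat_lit 0) (nat_lit 418961092) (nat_lit 0) (nat_lit 2870100897) (nat_lit 152) (nat_lit 418961092) (nat_lit 185) (nat_lit 3) (nat_lit 185) (nat_lit 1) (nat_lit 187) (nat_lit 1) (nat_lit 358) (nat_lit 366) (nat_lit 296)) (XT.nd (nat_lit 78)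 (nat_lit 76) (nat_lit 0) (XT.lf (nat_lit 76) (nat_lit 1658070872) (nat_lit 0) (nat_lit 329925848) (nat_lit 152) (nat_lit 1658070872) (nat_lit 184) (nat_lit 1) (nat_lit 183) (nat_lit 1) (nat_lit 185) (nat_lit 1) (nat_lit 359) (nat_lit 366) (nat_lit 295)) (XT.lf (nat_lit 152) (nat_lit 2151193734) (nat_lit 0) (nat_lit 717179373) (nat_lit 76) (nat_lit 717179373) (nat_lit 184) (nat_lit 1) (nat_lit 182) (nat_lit 1) (nat_lit 183) (nat_lit 1) (nat_lit 360) (nat_lit 366) (nat_lit 294))))) (XT.nd (nat_lit 234) (nat_lit 228) (nat_lit 0) (XT.nd (nat_lit 78) (nat_lit 228) (nat_lit 0) (XT.lf (nat_lit 0) (nat_lit 503226983) (nat_lit 0) (nat_lit 2519785766) (nat_lit 152) (nat_lit 503226983) (nat_lit 182) (nat_lit 3) (nat_lit 182) (nat_lit 1) (nat_lit 184) (nat_lit 1) (nat_lit 361) (nat_lit 366) (nat_lit 293)) (XT.nd (nat_lit 78) (nat_lit 76) (nat_lit 0) (XT.lf (nat_lit 76) (nat_lit 1673642480) (nat_lit 0) (nat_lit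 120433996) (nat_lit 152) (nat_lit 1673642480) (nat_lit 181) (nat_lit 1) (nat_lit 180) (nat_lit 1) (nat_lit 182) (nat_lit 1) (nat_lit 362) (nat_lit 366) (nat_lit 292)) (XT.lf (nat_lit 152) (nat_lit 2230332694) (nat_lit 0) (nat_lit 590025245) (nat_lit 76) (nat_lit 590025245) (nat_lit 181) (nat_lit 1) (nat_lit 179) (nat_lit 1) (nat_lit 180) (nat_lit 1) (nat_lit 363) (nat_lit 366) (nat_lit 291)))) (XT.nd (nat_lit 156) (nat_lit 152) (nat_lit 0) (XT.nd (nat_lit 78) (nat_lit 76) (nat_lit 0) (XT.lf (nat_lit 0) (nat_lit 565002899) (nat_lit 0) (nat_lit 2224030801) (nat_lit 152) (nat_lit 565002899) (nat_lit 179) (nat_lit 3) (nat_lit 179) (nat_lit 1) (nat_lit 181) (nat_lit 1) (nat_lit 364) (nat_lit 366) (nat_lit 290)) (XT.lf (nat_lit 76) (nat_lit 46203958) (nat_lit 0) (nat_lit 1626230531) (nat_lit 76) (nat_lit 1626230531) (nat_lit 179) (nat_lit 3) (nat_lit 178) (nat_lit 1) (nat_lit 179) (nat_lit 1) (nat_lit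 365) (nat_lit 366) (nat_lit 289))) (XT.nd (nat_lit 78) (nat_lit 0) (nat_lit 0) (XT.lf (nat_lit 152) (nat_lit 2273510023) (nat_lit 0) (nat_lit 485415229) (nat_lit 76) (nat_lit 485415229) (nat_lit 178) (nat_lit 1) (nat_lit 176) (nat_lit 1) (nat_lit 177) (nat_lit 1) (nat_lit 366) (nat_lit 366) (nat_lit 288)) (XT.lf (nat_lit 0) (nat_lit 608635774) (nat_lit 0) (nat_lit 1973522134) (nat_lit 152) (nat_lit 608635774) (nat_lit 176) (nat_lit 3) (nat_lit 176) (nat_lit 1) (nat_lit 178) (nat_lit 1) (nat_lit 367) (nat_lit 366) (nat_lit 287))))))) (XT.nd (nat_lit 936) (nat_lit 988) (nat_lit 0) (XT.nd (nat_lit 468) (nat_lit 456) (nat_lit 0) (XT.nd (nat_lit 234) (nat_lit 228) (nat_lit 0) (XT.nd (nat_lit 78) (nat_lit 152) (nat_lit 0) (XT.lf (nat_lit 76) (nat_lit 179499141) (nat_lit 0) (nat_lit 1479390913) (nat_lit 76) (nat_lit 1479390913) (nat_lit 176) (nat_lit 3) (nat_lit 175) (nat_lit 1) (nat_lit 176) (nat_lit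 1) (nat_lit 368) (nat_lit 366) (nat_lit 286)) (XT.nd (nat_lit 78) (nat_lit 0) (nat_lit 0) (XT.lf (nat_lit 152) (nat_lit 2288145937) (nat_lit 0) (nat_lit 399352310) (nat_lit 76) (nat_lit 399352310) (nat_lit 175) (nat_lit 1) (nat_lit 173) (nat_lit 1) (nat_lit 174) (nat_lit 1) (nat_lit 369) (nat_lit 366) (nat_lit 285)) (XT.lf (nat_lit 0) (nat_lit 637684720) (nat_lit 0) (nat_lit 1760580106) (nat_lit 152) (nat_lit 637684720) (nat_lit 173) (nat_lit 3) (nat_lit 173) (nat_lit 1) (nat_lit 175) (nat_lit 1) (nat_lit 370) (nat_lit 366) (nat_lit 284)))) (XT.nd (nat_lit 78) (nat_lit 152) (nat_lit 0) (XT.lf (nat_lit 76) (nat_lit 282423941) (nat_lit 0) (nat_lit 1351848119) (nat_lit 76) (nat_lit 1351848119) (nat_lit 173) (nat_lit 3) (nat_lit 172) (nat_lit 1) (nat_lit 173) (nat_lit 1) (nat_lit 371) (nat_lit 366) (nat_lit 283)) (XT.nd (nat_lit 78) (nat_lit 0) (nat_lit 0) (XT.lf (nat_lit 152) (nat_lit 2280295340)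 (nat_lit 0) (nat_lit 328548134) (nat_lit 76) (nat_lit 328548134) (nat_lit 172) (nat_lit 1) (nat_lit 170) (nat_lit 1) (nat_lit 171) (nat_lit 1) (nat_lit 372) (nat_lit 366) (nat_lit 282)) (XT.lf (nat_lit 0) (nat_lit 655061523) (nat_lit 0) (nat_lit 1578870336) (nat_lit 152) (nat_lit 655061523) (nat_lit 170) (nat_lit 3) (nat_lit 170) (nat_lit 1) (nat_lit 172) (nat_lit 1) (nat_lit 373) (nat_lit 366) (nat_lit 281))))) (XT.nd (nat_lit 234) (nat_lit 228) (nat_lit 0) (XT.nd (nat_lit 78) (nat_lit 152) (nat_lit 0) (XT.lf (nat_lit 76) (nat_lit 360683783) (nat_lit 0) (nat_lit 1240501701) (nat_lit 76) (nat_lit 1240501701) (nat_lit 170) (nat_lit 3) (nat_lit 169) (nat_lit 1) (nat_lit 170) (nat_lit 1) (nat_lit 374) (nat_lit 366) (nat_lit 280)) (XT.nd (nat_lit 78) (nat_lit 0) (nat_lit 0) (XT.lf (nat_lit 152) (nat_lit 2254892252) (nat_lit 0) (nat_lit 270297363) (nat_lit 76) (nat_lit 270297363) (nat_lit 169) (nat_lit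 1) (nat_lit 167) (nat_lit 1) (nat_lit 168) (nat_lit 1) (nat_lit 375) (nat_lit 366) (nat_lit 279)) (XT.lf (nat_lit 0) (nat_lit 663146189) (nat_lit 0) (nat_lit 1423165986) (nat_lit 152) (nat_lit 663146189) (nat_lit 167) (nat_lit 3) (nat_lit 167) (nat_lit 1) (nat_lit 169) (nat_lit 1) (nat_lit 376) (nat_lit 366) (nat_lit 278)))) (XT.nd (nat_lit 78) (nat_lit 152) (nat_lit 0) (XT.lf (nat_lit 76) (nat_lit 418957258) (nat_lit 0) (nat_lit 1142785636) (nat_lit 76) (nat_lit 1142785636) (nat_lit 167) (nat_lit 3) (nat_lit 166) (nat_lit 1) (nat_lit 167) (nat_lit 1) (nat_lit 377) (nat_lit 366) (nat_lit 277)) (XT.nd (nat_lit 78) (nat_lit 0) (nat_lit 0) (XT.lf (nat_lit 152) (nat_lit 2215950801) (nat_lit 0) (nat_lit 222374309) (nat_lit 76) (nat_lit 222374309) (nat_lit 166) (nat_lit 1) (nat_lit 164) (nat_lit 1) (nat_lit 165) (nat_lit 1) (nat_lit 378) (nat_lit 366) (nat_lit 276)) (XT.lf (nat_lit 0) (nat_lit 663881967)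 (nat_lit 0) (nat_lit 1289152135) (nat_lit 152) (nat_lit 663881967) (nat_lit 164) (nat_lit 3) (nat_lit 164) (nat_lit 1) (nat_lit 166) (nat_lit 1) (nat_lit 379) (nat_lit 366) (nat_lit 275)))))) (XT.nd (nat_lit 468) (nat_lit 532) (nat_lit 0) (XT.nd (nat_lit 234) (nat_lit 228) (nat_lit 0) (XT.nd (nat_lit 78) (nat_lit 152) (nat_lit 0) (XT.lf (nat_lit 76) (nat_lit 461078903) (nat_lit 0) (nat_lit 1056574301) (nat_lit 76) (nat_lit 1056574301) (nat_lit 164) (nat_lit 3) (nat_lit 163) (nat_lit 1) (nat_lit 164) (nat_lit 1) (nat_lit 380) (nat_lit 366) (nat_lit 274)) (XT.nd (nat_lit 78) (nat_lit 0) (nat_lit 0) (XT.lf (nat_lit 152) (nat_lit 2166730460) (nat_lit 0) (nat_lit 182947894) (nat_lit 76) (nat_lit 182947894) (nat_lit 163) (nat_lit 1) (nat_lit 161) (nat_lit 1) (nat_lit 162) (nat_lit 1) (nat_lit 381) (nat_lit 366) (nat_lit 273)) (XT.lf (nat_lit 0) (nat_lit 658853485) (nat_lit 0) (nat_lit 1173264800) (nat_lit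 152) (nat_lit 658853485) (nat_lit 161) (nat_lit 3) (nat_lit 161) (nat_lit 1) (nat_lit 163) (nat_lit 1) (nat_lit 382) (nat_lit 366) (nat_lit 272)))) (XT.nd (nat_lit 78) (nat_lit 152) (nat_lit 0) (XT.lf (nat_lit 76) (nat_lit 490189546) (nat_lit 0) (nat_lit 980105083) (nat_lit 76) (nat_lit 980105083) (nat_lit 161) (nat_lit 3) (nat_lit 160) (nat_lit 1) (nat_lit 161) (nat_lit 1) (nat_lit 383) (nat_lit 366) (nat_lit 271)) (XT.nd (nat_lit 78) (nat_lit 0) (nat_lit 0) (XT.lf (nat_lit 152) (nat_lit 2109871894) (nat_lit 0) (nat_lit 150511685) (nat_lit 76) (nat_lit 150511685) (nat_lit 160) (nat_lit 1) (nat_lit 158) (nat_lit 1) (nat_lit 159) (nat_lit 1) (nat_lit 384) (nat_lit 366) (nat_lit 270)) (XT.lf (nat_lit 0) (nat_lit 649351010) (nat_lit 0) (nat_lit 1072558471) (nat_lit 152) (nat_lit 649351010) (nat_lit 158) (nat_lit 3) (nat_lit 158) (nat_lit 1) (nat_lit 160) (nat_lit 1) (nat_lit 385) (nat_lit 366) (nat_lit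 269))))) (XT.nd (nat_lit 234) (nat_lit 304) (nat_lit 0) (XT.nd (nat_lit 78) (nat_lit 152) (nat_lit 0) (XT.lf (nat_lit 76) (nat_lit 508859953) (nat_lit 0) (nat_lit 911914678) (nat_lit 76) (nat_lit 911914678) (nat_lit 158) (nat_lit 3) (nat_lit 157) (nat_lit 1) (nat_lit 158) (nat_lit 1) (nat_lit 386) (nat_lit 366) (nat_lit 268)) (XT.nd (nat_lit 78) (nat_lit 0) (nat_lit 0) (XT.lf (nat_lit 152) (nat_lit 2047508622) (nat_lit 0) (nat_lit 123826336) (nat_lit 76) (nat_lit 123826336) (nat_lit 157) (nat_lit 1) (nat_lit 155) (nat_lit 1) (nat_lit 156) (nat_lit 1) (nat_lit 387) (nat_lit 366) (nat_lit 267)) (XT.lf (nat_lit 0) (nat_lit 636423271) (nat_lit 0) (nat_lit 984597097) (nat_lit 152) (nat_lit 636423271) (nat_lit 155) (nat_lit 3) (nat_lit 155) (nat_lit 1) (nat_lit 157) (nat_lit 1) (nat_lit 388) (nat_lit 366) (nat_lit 266)))) (XT.nd (nat_lit 156) (nat_lit 76) (nat_lit 0) (XT.nd (nat_lit 78) (nat_lit 152)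 (nat_lit 0) (XT.lf (nat_lit 76) (nat_lit 519192534) (nat_lit 0) (nat_lit 850786654) (nat_lit 76) (nat_lit 850786654) (nat_lit 155) (nat_lit 3) (nat_lit 154) (nat_lit 1) (nat_lit 155) (nat_lit 1) (nat_lit 389) (nat_lit 366) (nat_lit 265)) (XT.lf (nat_lit 152) (nat_lit 1981358785) (nat_lit 0) (nat_lit 101872233) (nat_lit 76) (nat_lit 101872233) (nat_lit 154) (nat_lit 1) (nat_lit 152) (nat_lit 1) (nat_lit 153) (nat_lit 1) (nat_lit 390) (nat_lit 366) (nat_lit 264))) (XT.nd (nat_lit 78) (nat_lit 76) (nat_lit 0) (XT.lf (nat_lit 0) (nat_lit 620920893) (nat_lit 0) (nat_lit 907364361) (nat_lit 152) (nat_lit 620920893) (nat_lit 152) (nat_lit 3) (nat_lit 152) (nat_lit 1) (nat_lit 154) (nat_lit 1) (nat_lit 391) (nat_lit 366) (nat_lit 263)) (XT.lf (nat_lit 76) (nat_lit 522904974) (nat_lit 0) (nat_lit 795708277) (nat_lit 76) (nat_lit 795708277) (nat_lit 152) (nat_lit 3) (nat_lit 151) (nat_lit 1) (nat_lit 152)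 (nat_lit 1) (nat_lit 392) (nat_lit 366) (nat_lit 262))))))))
noncomputable def ec127 : XT := (XT.nd (nat_lit 1950) (nat_lit 1900) (nat_lit 0) (XT.nd (nat_lit 936) (nat_lit 1064) (nat_lit 0) (XT.nd (nat_lit 468) (nat_lit 456) (nat_lit 0) (XT.nd (nat_lit 234) (nat_lit 228) (nat_lit 0) (XT.nd (nat_lit 78) (nat_lit 76) (nat_lit 0) (XT.lf (nat_lit 152) (nat_lit 1912800561) (nat_lit 0) (nat_lit 83810538) (nat_lit 76) (nat_lit 83810538) (nat_lit 151) (nat_lit 1) (nat_lit 149) (nat_lit 1) (nat_lit 150) (nat_lit 1) (nat_lit 393) (nat_lit 366) (nat_lit 261)) (XT.nd (nat_lit 78) (nat_lit 76) (nat_lit 0) (XT.lf (nat_lit 0) (nat_lit 603532101) (nat_lit 0) (nat_lit 839189851) (nat_lit 152) (nat_lit 603532101) (nat_lit 149) (nat_lit 3) (nat_lit 149) (nat_lit 1) (nat_lit 151) (nat_lit 1) (nat_lit 394) (nat_lit 366) (nat_lit 260)) (XT.lf (nat_lit 76) (nat_lit 521399018) (nat_lit 0) (nat_lit 745834971) (nat_lit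 76) (nat_lit 745834971) (nat_lit 149) (nat_lit 3) (nat_lit 148) (nat_lit 1) (nat_lit 149) (nat_lit 1) (nat_lit 395) (nat_lit 366) (nat_lit 259)))) (XT.nd (nat_lit 78) (nat_lit 76) (nat_lit 0) (XT.lf (nat_lit 152) (nat_lit 1842934122) (nat_lit 0) (nat_lit 68951137) (nat_lit 76) (nat_lit 68951137) (nat_lit 148) (nat_lit 1) (nat_lit 146) (nat_lit 1) (nat_lit 147) (nat_lit 1) (nat_lit 396) (nat_lit 366) (nat_lit 258)) (XT.nd (nat_lit 78) (nat_lit 76) (nat_lit 0) (XT.lf (nat_lit 0) (nat_lit 584812064) (nat_lit 0) (nat_lit 778688278) (nat_lit 152) (nat_lit 584812064) (nat_lit 146) (nat_lit 3) (nat_lit 146) (nat_lit 1) (nat_lit 148) (nat_lit 1) (nat_lit 397) (nat_lit 366) (nat_lit 257)) (XT.lf (nat_lit 76) (nat_lit 515817026) (nat_lit 0) (nat_lit 700461040) (nat_lit 76) (nat_lit 700461040) (nat_lit 146) (nat_lit 3) (nat_lit 145) (nat_lit 1) (nat_lit 146) (nat_lit 1) (nat_lit 398) (nat_lit 366) (nat_lit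 256))))) (XT.nd (nat_lit 234) (nat_lit 228) (nat_lit 0) (XT.nd (nat_lit 78) (nat_lit 76) (nat_lit 0) (XT.lf (nat_lit 152) (nat_lit 1772632527) (nat_lit 0) (nat_lit 56726271) (nat_lit 76) (nat_lit 56726271) (nat_lit 145) (nat_lit 1) (nat_lit 143) (nat_lit 1) (nat_lit 144) (nat_lit 1) (nat_lit 399) (nat_lit 366) (nat_lit 255)) (XT.nd (nat_lit 78) (nat_lit 76) (nat_lit 0) (XT.lf (nat_lit 0) (nat_lit 565207009) (nat_lit 0) (nat_lit 724709450) (nat_lit 152) (nat_lit 565207009) (nat_lit 143) (nat_lit 3) (nat_lit 143) (nat_lit 1) (nat_lit 145) (nat_lit 1) (nat_lit 400) (nat_lit 366) (nat_lit 254)) (XT.lf (nat_lit 76) (nat_lit 507088480) (nat_lit 0) (nat_lit 658995567) (nat_lit 76) (nat_lit 658995567) (nat_lit 143) (nat_lit 3) (nat_lit 142) (nat_lit 1) (nat_lit 143) (nat_lit 1) (nat_lit 401) (nat_lit 366) (nat_lit 253)))) (XT.nd (nat_lit 78) (nat_lit 76) (nat_lit 0) (XT.lf (nat_lit 152) (nat_lit 1702583513)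 (nat_lit 0) (nat_lit 46668843) (nat_lit 76) (nat_lit 46668843) (nat_lit 142) (nat_lit 1) (nat_lit 140) (nat_lit 1) (nat_lit 141) (nat_lit 1) (nat_lit 402) (nat_lit 366) (nat_lit 252)) (XT.nd (nat_lit 78) (nat_lit 76) (nat_lit 0) (XT.lf (nat_lit 0) (nat_lit 545074039) (nat_lit 0) (nat_lit 676297093) (nat_lit 152) (nat_lit 545074039) (nat_lit 140) (nat_lit 3) (nat_lit 140) (nat_lit 1) (nat_lit 142) (nat_lit 1) (nat_lit 403) (nat_lit 366) (nat_lit 251)) (XT.lf (nat_lit 76) (nat_lit 495968221) (nat_lit 0) (nat_lit 620942557) (nat_lit 76) (nat_lit 620942557) (nat_lit 140) (nat_lit 3) (nat_lit 139) (nat_lit 1) (nat_lit 140) (nat_lit 1) (nat_lit 404) (nat_lit 366) (nat_lit 250)))))) (XT.nd (nat_lit 468) (nat_lit 608) (nat_lit 0) (XT.nd (nat_lit 234) (nat_lit 228) (nat_lit 0) (XT.nd (nat_lit 78) (nat_lit 76) (nat_lit 0) (XT.lf (nat_lit 152) (nat_lit 1633323809) (nat_lit 0) (nat_lit 38394573) (nat_lit 76)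 (nat_lit 38394573) (nat_lit 139) (nat_lit 1) (nat_lit 137) (nat_lit 1) (nat_lit 138) (nat_lit 1) (nat_lit 405) (nat_lit 366) (nat_lit 249)) (XT.nd (nat_lit 78) (nat_lit 76) (nat_lit 0) (XT.lf (nat_lit 0) (nat_lit 524697413) (nat_lit 0) (nat_lit 632654944) (nat_lit 152) (nat_lit 524697413) (nat_lit 137) (nat_lit 3) (nat_lit 137) (nat_lit 1) (nat_lit 139) (nat_lit 1) (nat_lit 406) (nat_lit 366) (nat_lit 248)) (XT.lf (nat_lit 76) (nat_lit 483067876) (nat_lit 0) (nat_lit 585884572) (nat_lit 76) (nat_lit 585884572) (nat_lit 137) (nat_lit 3) (nat_lit 136) (nat_lit 1) (nat_lit 137) (nat_lit 1) (nat_lit 407) (nat_lit 366) (nat_lit 247)))) (XT.nd (nat_lit 78) (nat_lit 76) (nat_lit 0) (XT.lf (nat_lit 152) (nat_lit 1565267291) (nat_lit 0) (nat_lit 31587310) (nat_lit 76) (nat_lit 31587310) (nat_lit 136) (nat_lit 1) (nat_lit 134) (nat_lit 1) (nat_lit 135) (nat_lit 1) (nat_lit 408) (nat_lit 366) (nat_lit 246))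 (XT.nd (nat_lit 78) (nat_lit 76) (nat_lit 0) (XT.lf (nat_lit 0) (nat_lit 504301910) (nat_lit 0) (nat_lit 593118838) (nat_lit 152) (nat_lit 504301910) (nat_lit 134) (nat_lit 3) (nat_lit 134) (nat_lit 1) (nat_lit 136) (nat_lit 1) (nat_lit 409) (nat_lit 366) (nat_lit 245)) (XT.lf (nat_lit 76) (nat_lit 468881702) (nat_lit 0) (nat_lit 553469252) (nat_lit 76) (nat_lit 553469252) (nat_lit 134) (nat_lit 3) (nat_lit 133) (nat_lit 1) (nat_lit 134) (nat_lit 1) (nat_lit 410) (nat_lit 366) (nat_lit 244))))) (XT.nd (nat_lit 234) (nat_lit 380) (nat_lit 0) (XT.nd (nat_lit 78) (nat_lit 76) (nat_lit 0) (XT.lf (nat_lit 152) (nat_lit 1498728085) (nat_lit 0) (nat_lit 25986958) (nat_lit 76) (nat_lit 25986958) (nat_lit 133) (nat_lit 1) (nat_lit 131) (nat_lit 1) (nat_lit 132) (nat_lit 1) (nat_lit 411) (nat_lit 366) (nat_lit 243)) (XT.nd (nat_lit 78) (nat_lit 76) (nat_lit 0) (XT.lf (nat_lit 0) (nat_lit 484063810) (nat_lit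 0) (nat_lit 557133716) (nat_lit 152) (nat_lit 484063810) (nat_lit 131) (nat_lit 3) (nat_lit 131) (nat_lit 1) (nat_lit 133) (nat_lit 1) (nat_lit 412) (nat_lit 366) (nat_lit 242)) (XT.lf (nat_lit 76) (nat_lit 453807818) (nat_lit 0) (nat_lit 523398204) (nat_lit 76) (nat_lit 523398204) (nat_lit 131) (nat_lit 3) (nat_lit 130) (nat_lit 1) (nat_lit 131) (nat_lit 1) (nat_lit 413) (nat_lit 366) (nat_lit 241)))) (XT.nd (nat_lit 156) (nat_lit 228) (nat_lit 0) (XT.nd (nat_lit 78) (nat_lit 0) (nat_lit 0) (XT.lf (nat_lit 152) (nat_lit 1433939506) (nat_lit 0) (nat_lit 21379535) (nat_lit 76) (nat_lit 21379535) (nat_lit 130) (nat_lit 1) (nat_lit 128) (nat_lit 1) (nat_lit 129) (nat_lit 1) (nat_lit 414) (nat_lit 366) (nat_lit 240)) (XT.lf (nat_lit 0) (nat_lit 464119905) (nat_lit 0) (nat_lit 524234697) (nat_lit 152) (nat_lit 464119905) (nat_lit 128) (nat_lit 3) (nat_lit 128) (nat_lit 1) (nat_lit 130) (nat_lit 1) (nat_lit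 415) (nat_lit 366) (nat_lit 239))) (XT.nd (nat_lit 78) (nat_lit 152) (nat_lit 0) (XT.lf (nat_lit 76) (nat_lit 438165654) (nat_lit 0) (nat_lit 495417837) (nat_lit 76) (nat_lit 495417837) (nat_lit 128) (nat_lit 3) (nat_lit 127) (nat_lit 1) (nat_lit 128) (nat_lit 1) (nat_lit 416) (nat_lit 366) (nat_lit 238)) (XT.lf (nat_lit 152) (nat_lit 1371069581) (nat_lit 0) (nat_lit 17588996) (nat_lit 76) (nat_lit 17588996) (nat_lit 127) (nat_lit 1) (nat_lit 125) (nat_lit 1) (nat_lit 126) (nat_lit 1) (nat_lit 417) (nat_lit 366) (nat_lit 237))))))) (XT.nd (nat_lit 1014) (nat_lit 988) (nat_lit 0) (XT.nd (nat_lit 468) (nat_lit 456) (nat_lit 0) (XT.nd (nat_lit 234) (nat_lit 228) (nat_lit 0) (XT.nd (nat_lit 78) (nat_lit 228) (nat_lit 0) (XT.lf (nat_lit 0) (nat_lit 444574890) (nat_lit 0) (nat_lit 494031478) (nat_lit 152) (nat_lit 444574890) (nat_lit 125) (nat_lit 3) (nat_lit 125) (nat_lit 1) (nat_lit 127) (nat_lit 1)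 (nat_lit 418) (nat_lit 366) (nat_lit 236)) (XT.nd (nat_lit 78) (nat_lit 152) (nat_lit 0) (XT.lf (nat_lit 76) (nat_lit 422210290) (nat_lit 0) (nat_lit 469311803) (nat_lit 76) (nat_lit 469311803) (nat_lit 125) (nat_lit 3) (nat_lit 124) (nat_lit 1) (nat_lit 125) (nat_lit 1) (nat_lit 419) (nat_lit 366) (nat_lit 235)) (XT.lf (nat_lit 152) (nat_lit 1310233767) (nat_lit 0) (nat_lit 14470510) (nat_lit 76) (nat_lit 14470510) (nat_lit 124) (nat_lit 1) (nat_lit 122) (nat_lit 1) (nat_lit 123) (nat_lit 1) (nat_lit 420) (nat_lit 366) (nat_lit 234)))) (XT.nd (nat_lit 78) (nat_lit 228) (nat_lit 0) (XT.lf (nat_lit 0) (nat_lit 425507429) (nat_lit 0) (nat_lit 466195487) (nat_lit 152) (nat_lit 425507429) (nat_lit 122) (nat_lit 3) (nat_lit 122) (nat_lit 1) (nat_lit 124) (nat_lit 1) (nat_lit 421) (nat_lit 366) (nat_lit 233)) (XT.nd (nat_lit 78) (nat_lit 152) (nat_lit 0) (XT.lf (nat_lit 76) (nat_lit 406144234) (nat_lit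 0) (nat_lit 444894766) (nat_lit 76) (nat_lit 444894766) (nat_lit 122) (nat_lit 3) (nat_lit 121) (nat_lit 1) (nat_lit 122) (nat_lit 1) (nat_lit 422) (nat_lit 366) (nat_lit 232)) (XT.lf (nat_lit 152) (nat_lit 1251505353) (nat_lit 0) (nat_lit 11904925) (nat_lit 76) (nat_lit 11904925) (nat_lit 121) (nat_lit 1) (nat_lit 119) (nat_lit 1) (nat_lit 120) (nat_lit 1) (nat_lit 423) (nat_lit 366) (nat_lit 231))))) (XT.nd (nat_lit 234) (nat_lit 228) (nat_lit 0) (XT.nd (nat_lit 78) (nat_lit 228) (nat_lit 0) (XT.lf (nat_lit 0) (nat_lit 406975126) (nat_lit 0) (nat_lit 440449292) (nat_lit 152) (nat_lit 406975126) (nat_lit 119) (nat_lit 3) (nat_lit 119) (nat_lit 1) (nat_lit 121) (nat_lit 1) (nat_lit 424) (nat_lit 366) (nat_lit 230)) (XT.nd (nat_lit 78) (nat_lit 152) (nat_lit 0) (XT.lf (nat_lit 76) (nat_lit 390127089) (nat_lit 0) (nat_lit 422007247) (nat_lit 76) (nat_lit 422007247) (nat_lit 119) (nat_lit 3) (nat_lit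 118) (nat_lit 1) (nat_lit 119) (nat_lit 1) (nat_lit 425) (nat_lit 366) (nat_lit 229)) (XT.lf (nat_lit 152) (nat_lit 1194923970) (nat_lit 0) (nat_lit 9794211) (nat_lit 76) (nat_lit 9794211) (nat_lit 118) (nat_lit 1) (nat_lit 116) (nat_lit 1) (nat_lit 117) (nat_lit 1) (nat_lit 426) (nat_lit 366) (nat_lit 228)))) (XT.nd (nat_lit 156) (nat_lit 152) (nat_lit 0) (XT.nd (nat_lit 78) (nat_lit 76) (nat_lit 0) (XT.lf (nat_lit 0) (nat_lit 389018597) (nat_lit 0) (nat_lit 416557876) (nat_lit 152) (nat_lit 389018597) (nat_lit 116) (nat_lit 3) (nat_lit 116) (nat_lit 1) (nat_lit 118) (nat_lit 1) (nat_lit 427) (nat_lit 366) (nat_lit 227)) (XT.lf (nat_lit 76) (nat_lit 374283496) (nat_lit 0) (nat_lit 400511381) (nat_lit 76) (nat_lit 400511381) (nat_lit 116) (nat_lit 3) (nat_lit 115) (nat_lit 1) (nat_lit 116) (nat_lit 1) (nat_lit 428) (nat_lit 366) (nat_lit 226))) (XT.nd (nat_lit 78) (nat_lit 0) (nat_lit 0) (XT.lf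 (nat_lit 152) (nat_lit 1140502545) (nat_lit 0) (nat_lit 8057721) (nat_lit 76) (nat_lit 8057721) (nat_lit 115) (nat_lit 1) (nat_lit 113) (nat_lit 1) (nat_lit 114) (nat_lit 1) (nat_lit 429) (nat_lit 366) (nat_lit 225)) (XT.lf (nat_lit 0) (nat_lit 371664804) (nat_lit 0) (nat_lit 394321437) (nat_lit 152) (nat_lit 371664804) (nat_lit 113) (nat_lit 3) (nat_lit 113) (nat_lit 1) (nat_lit 115) (nat_lit 1) (nat_lit 430) (nat_lit 366) (nat_lit 224)))))) (XT.nd (nat_lit 468) (nat_lit 532) (nat_lit 0) (XT.nd (nat_lit 234) (nat_lit 228) (nat_lit 0) (XT.nd (nat_lit 78) (nat_lit 152) (nat_lit 0) (XT.lf (nat_lit 76) (nat_lit 358709648) (nat_lit 0) (nat_lit 380287393) (nat_lit 76) (nat_lit 380287393) (nat_lit 113) (nat_lit 3) (nat_lit 112) (nat_lit 1) (nat_lit 113) (nat_lit 1) (nat_lit 431) (nat_lit 366) (nat_lit 223)) (XT.nd (nat_lit 78) (nat_lit 0) (nat_lit 0) (XT.lf (nat_lit 152) (nat_lit 1088232968) (nat_lit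 0) (nat_lit 6629107) (nat_lit 76) (nat_lit 6629107) (nat_lit 112) (nat_lit 1) (nat_lit 110) (nat_lit 1) (nat_lit 111) (nat_lit 1) (nat_lit 432) (nat_lit 366) (nat_lit 222)) (XT.lf (nat_lit 0) (nat_lit 354929784) (nat_lit 0) (nat_lit 373569453) (nat_lit 152) (nat_lit 354929784) (nat_lit 110) (nat_lit 3) (nat_lit 110) (nat_lit 1) (nat_lit 112) (nat_lit 1) (nat_lit 433) (nat_lit 366) (nat_lit 221)))) (XT.nd (nat_lit 78) (nat_lit 152) (nat_lit 0) (XT.lf (nat_lit 76) (nat_lit 343478638) (nat_lit 0) (nat_lit 361230703) (nat_lit 76) (nat_lit 361230703) (nat_lit 110) (nat_lit 3) (nat_lit 109) (nat_lit 1) (nat_lit 110) (nat_lit 1) (nat_lit 434) (nat_lit 366) (nat_lit 220)) (XT.nd (nat_lit 78) (nat_lit 0) (nat_lit 0) (XT.lf (nat_lit 152) (nat_lit 1038090720) (nat_lit 0) (nat_lit 5453783) (nat_lit 76) (nat_lit 5453783) (nat_lit 109) (nat_lit 1) (nat_lit 107) (nat_lit 1) (nat_lit 108) (nat_lit 1) (nat_lit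 435) (nat_lit 366) (nat_lit 219)) (XT.lf (nat_lit 0) (nat_lit 338820879) (nat_lit 0) (nat_lit 354155780) (nat_lit 152) (nat_lit 338820879) (nat_lit 107) (nat_lit 3) (nat_lit 107) (nat_lit 1) (nat_lit 109) (nat_lit 1) (nat_lit 436) (nat_lit 366) (nat_lit 218))))) (XT.nd (nat_lit 234) (nat_lit 304) (nat_lit 0) (XT.nd (nat_lit 78) (nat_lit 152) (nat_lit 0) (XT.lf (nat_lit 76) (nat_lit 328644843) (nat_lit 0) (nat_lit 343249511) (nat_lit 76) (nat_lit 343249511) (nat_lit 107) (nat_lit 3) (nat_lit 106) (nat_lit 1) (nat_lit 107) (nat_lit 1) (nat_lit 437) (nat_lit 366) (nat_lit 217)) (XT.nd (nat_lit 78) (nat_lit 0) (nat_lit 0) (XT.lf (nat_lit 152) (nat_lit 990038627) (nat_lit 0) (nat_lit 4486841) (nat_lit 76) (nat_lit 4486841) (nat_lit 106) (nat_lit 1) (nat_lit 104) (nat_lit 1) (nat_lit 105) (nat_lit 1) (nat_lit 438) (nat_lit 366) (nat_lit 216)) (XT.lf (nat_lit 0) (nat_lit 323338553) (nat_lit 0) (nat_lit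 335954615) (nat_lit 152) (nat_lit 323338553) (nat_lit 104) (nat_lit 3) (nat_lit 104) (nat_lit 1) (nat_lit 106) (nat_lit 1) (nat_lit 439) (nat_lit 366) (nat_lit 215)))) (XT.nd (nat_lit 156) (nat_lit 76) (nat_lit 0) (XT.nd (nat_lit 78) (nat_lit 152) (nat_lit 0) (XT.lf (nat_lit 76) (nat_lit 314247513) (nat_lit 0) (nat_lit 326262810) (nat_lit 76) (nat_lit 326262810) (nat_lit 104) (nat_lit 3) (nat_lit 103) (nat_lit 1) (nat_lit 104) (nat_lit 1) (nat_lit 440) (nat_lit 366) (nat_lit 214)) (XT.lf (nat_lit 152) (nat_lit 944029917) (nat_lit 0) (nat_lit 3691335) (nat_lit 76) (nat_lit 3691335) (nat_lit 103) (nat_lit 1) (nat_lit 101) (nat_lit 1) (nat_lit 102) (nat_lit 1) (nat_lit 441) (nat_lit 366) (nat_lit 213))) (XT.nd (nat_lit 78) (nat_lit 76) (nat_lit 0) (XT.lf (nat_lit 0) (nat_lit 308477883) (nat_lit 0) (nat_lit 318857148) (nat_lit 152) (nat_lit 308477883) (nat_lit 101) (nat_lit 3) (nat_lit 101) (nat_lit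 1) (nat_lit 103) (nat_lit 1) (nat_lit 442) (nat_lit 366) (nat_lit 212)) (XT.lf (nat_lit 76) (nat_lit 300313719) (nat_lit 0) (nat_lit 310198733) (nat_lit 76) (nat_lit 310198733) (nat_lit 101) (nat_lit 3) (nat_lit 100) (nat_lit 1) (nat_lit 101) (nat_lit 1) (nat_lit 443) (nat_lit 366) (nat_lit 211))))))))
noncomputable def ec128 : XT := (XT.nd (nat_lit 42276) (nat_lit 0) (nat_lit 9348) (XT.nd (nat_lit 41262) (nat_lit 0) (nat_lit 13072) (XT.nd (nat_lit 40794) (nat_lit 0) (nat_lit 15048) (XT.nd (nat_lit 234) (nat_lit 228) (nat_lit 0) (XT.nd (nat_lit 78) (nat_lit 76) (nat_lit 0) (XT.lf (nat_lit 152) (nat_lit 900010690) (nat_lit 0) (nat_lit 3036870) (nat_lit 76) (nat_lit 3036870) (nat_lit 100) (nat_lit 1) (nat_lit 98) (nat_lit 1) (nat_lit 99) (nat_lit 1) (nat_lit 444) (nat_lit 366) (nat_lit 210)) (XT.nd (nat_lit 78) (nat_lit 76) (nat_lit 0) (XT.lf (nat_lit 0) (nat_lit 294229761) (nat_lit 0) (nat_lit 302768808)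 (nat_lit 152) (nat_lit 294229761) (nat_lit 98) (nat_lit 3) (nat_lit 98) (nat_lit 1) (nat_lit 100) (nat_lit 1) (nat_lit 445) (nat_lit 366) (nat_lit 209)) (XT.lf (nat_lit 76) (nat_lit 286860757) (nat_lit 0) (nat_lit 294993182) (nat_lit 76) (nat_lit 294993182) (nat_lit 98) (nat_lit 3) (nat_lit 97) (nat_lit 1) (nat_lit 98) (nat_lit 1) (nat_lit 446) (nat_lit 366) (nat_lit 208)))) (XT.nd (nat_lit 78) (nat_lit 76) (nat_lit 0) (XT.lf (nat_lit 152) (nat_lit 857921919) (nat_lit 0) (nat_lit 2498441) (nat_lit 76) (nat_lit 2498441) (nat_lit 97) (nat_lit 1) (nat_lit 95) (nat_lit 1) (nat_lit 96) (nat_lit 1) (nat_lit 447) (nat_lit 366) (nat_lit 207)) (XT.nd (nat_lit 78) (nat_lit 76) (nat_lit 0) (XT.lf (nat_lit 0) (nat_lit 280581879) (nat_lit 0) (nat_lit 287606974) (nat_lit 152) (nat_lit 280581879) (nat_lit 95) (nat_lit 3) (nat_lit 95) (nat_lit 1) (nat_lit 97) (nat_lit 1) (nat_lit 448) (nat_lit 366) (nat_lit 206))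 (XT.lf (nat_lit 76) (nat_lit 273898118) (nat_lit 0) (nat_lit 280588684) (nat_lit 76) (nat_lit 280588684) (nat_lit 95) (nat_lit 3) (nat_lit 94) (nat_lit 1) (nat_lit 95) (nat_lit 1) (nat_lit 449) (nat_lit 366) (nat_lit 205))))) (XT.nd (nat_lit 234) (nat_lit 0) (nat_lit 76) (XT.nd (nat_lit 78) (nat_lit 0) (nat_lit 0) (XT.lf (nat_lit 836) (nat_lit 2006137766) (nat_lit 0) (nat_lit 3561892993) (nat_lit 836) (nat_lit 2006137766) (nat_lit 303) (nat_lit 1) (nat_lit 292) (nat_lit 0) (nat_lit 303) (nat_lit 0) (nat_lit 286) (nat_lit 367) (nat_lit 367)) (XT.nd (nat_lit 78) (nat_lit 0) (nat_lit 76) (XT.lf (nat_lit 836) (nat_lit 7776040440) (nat_lit 76) (nat_lit 3504443106) (nat_lit 0) (nat_lit 3504443106) (nat_lit 303) (nat_lit 1) (nat_lit 293) (nat_lit 1) (nat_lit 292) (nat_lit 0) (nat_lit 287) (nat_lit 367) (nat_lit 366)) (XT.lf (nat_lit 836) (nat_lit 3705943790) (nat_lit 0) (nat_lit 7020863640) (nat_lit 760)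 (nat_lit 3705943790) (nat_lit 304) (nat_lit 1) (nat_lit 293) (nat_lit 1) (nat_lit 303) (nat_lit 1) (nat_lit 288) (nat_lit 367) (nat_lit 365)))) (XT.nd (nat_lit 78) (nat_lit 0) (nat_lit 76) (XT.lf (nat_lit 836) (nat_lit 6951835596) (nat_lit 76) (nat_lit 3570059041) (nat_lit 0) (nat_lit 3570059041) (nat_lit 304) (nat_lit 1) (nat_lit 294) (nat_lit 1) (nat_lit 293) (nat_lit 1) (nat_lit 289) (nat_lit 367) (nat_lit 364)) (XT.nd (nat_lit 78) (nat_lit 0) (nat_lit 0) (XT.lf (nat_lit 836) (nat_lit 3199863165) (nat_lit 0) (nat_lit 7362231376) (nat_lit 760) (nat_lit 3199863165) (nat_lit 305) (nat_lit 1) (nat_lit 294) (nat_lit 1) (nat_lit 304) (nat_lit 1) (nat_lit 290) (nat_lit 367) (nat_lit 363)) (XT.lf (nat_lit 836) (nat_lit 5755162317) (nat_lit 76) (nat_lit 3843429479) (nat_lit 0) (nat_lit 3843429479) (nat_lit 305) (nat_lit 1) (nat_lit 295) (nat_lit 1) (nat_lit 294) (nat_lit 1) (nat_lit 291) (nat_lit 367)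 (nat_lit 362)))))) (XT.nd (nat_lit 468) (nat_lit 1596) (nat_lit 0) (XT.nd (nat_lit 234) (nat_lit 608) (nat_lit 0) (XT.nd (nat_lit 78) (nat_lit 0) (nat_lit 0) (XT.lf (nat_lit 836) (nat_lit 2523472452) (nat_lit 0) (nat_lit 8085882299) (nat_lit 760) (nat_lit 2523472452) (nat_lit 306) (nat_lit 1) (nat_lit 295) (nat_lit 1) (nat_lit 305) (nat_lit 1) (nat_lit 292) (nat_lit 367) (nat_lit 361)) (XT.nd (nat_lit 78) (nat_lit 0) (nat_lit 76) (XT.lf (nat_lit 836) (nat_lit 4242034673) (nat_lit 76) (nat_lit 4295055814) (nat_lit 0) (nat_lit 4295055814) (nat_lit 306) (nat_lit 1) (nat_lit 296) (nat_lit 1) (nat_lit 295) (nat_lit 1) (nat_lit 293) (nat_lit 367) (nat_lit 360)) (XT.lf (nat_lit 836) (nat_lit 1702955974) (nat_lit 0) (nat_lit 9136560086) (nat_lit 760) (nat_lit 1702955974) (nat_lit 307) (nat_lit 1) (nat_lit 296) (nat_lit 1) (nat_lit 306) (nat_lit 1) (nat_lit 294) (nat_lit 367) (nat_lit 359)))) (XT.nd (nat_lit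 78) (nat_lit 684) (nat_lit 0) (XT.lf (nat_lit 836) (nat_lit 2462240719) (nat_lit 76) (nat_lit 4898666867) (nat_lit 0) (nat_lit 4898666867) (nat_lit 307) (nat_lit 1) (nat_lit 297) (nat_lit 1) (nat_lit 296) (nat_lit 1) (nat_lit 295) (nat_lit 367) (nat_lit 358)) (XT.nd (nat_lit 78) (nat_lit 760) (nat_lit 0) (XT.lf (nat_lit 76) (nat_lit 761570807) (nat_lit 0) (nat_lit 10465084449) (nat_lit 760) (nat_lit 761570807) (nat_lit 298) (nat_lit 1) (nat_lit 297) (nat_lit 1) (nat_lit 307) (nat_lit 1) (nat_lit 296) (nat_lit 367) (nat_lit 357)) (XT.lf (nat_lit 836) (nat_lit 459969828) (nat_lit 0) (nat_lit 5630895748) (nat_lit 760) (nat_lit 5630895748) (nat_lit 298) (nat_lit 1) (nat_lit 287) (nat_lit 1) (nat_lit 297) (nat_lit 1) (nat_lit 297) (nat_lit 367) (nat_lit 356))))) (XT.nd (nat_lit 234) (nat_lit 684) (nat_lit 0) (XT.nd (nat_lit 78) (nat_lit 380) (nat_lit 0) (XT.lf (nat_lit 532) (nat_lit 10915663309) (nat_lit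 0) (nat_lit 275540550) (nat_lit 456) (nat_lit 275540550) (nat_lit 287) (nat_lit 1) (nat_lit 280) (nat_lit 1) (nat_lit 286) (nat_lit 1) (nat_lit 298) (nat_lit 367) (nat_lit 355)) (XT.nd (nat_lit 78) (nat_lit 380) (nat_lit 0) (XT.lf (nat_lit 76) (nat_lit 4772309000) (nat_lit 0) (nat_lit 1670389980) (nat_lit 532) (nat_lit 4772309000) (nat_lit 281) (nat_lit 1) (nat_lit 280) (nat_lit 1) (nat_lit 287) (nat_lit 1) (nat_lit 299) (nat_lit 367) (nat_lit 354)) (XT.lf (nat_lit 456) (nat_lit 8211918792) (nat_lit 0) (nat_lit 1381028634) (nat_lit 380) (nat_lit 1381028634) (nat_lit 281) (nat_lit 1) (nat_lit 275) (nat_lit 1) (nat_lit 280) (nat_lit 1) (nat_lit 300) (nat_lit 367) (nat_lit 353)))) (XT.nd (nat_lit 156) (nat_lit 304) (nat_lit 0) (XT.nd (nat_lit 78) (nat_lit 380) (nat_lit 0) (XT.lf (nat_lit 76) (nat_lit 3404029914) (nat_lit 0) (nat_lit 3929951467) (nat_lit 456) (nat_lit 3404029914) (nat_lit 276) (nat_lit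 1) (nat_lit 275) (nat_lit 1) (nat_lit 281) (nat_lit 1) (nat_lit 301) (nat_lit 367) (nat_lit 352)) (XT.lf (nat_lit 456) (nat_lit 5407664980) (nat_lit 0) (nat_lit 2551299787) (nat_lit 380) (nat_lit 2551299787) (nat_lit 276) (nat_lit 1) (nat_lit 270) (nat_lit 1) (nat_lit 275) (nat_lit 1) (nat_lit 302) (nat_lit 367) (nat_lit 351))) (XT.nd (nat_lit 78) (nat_lit 304) (nat_lit 0) (XT.lf (nat_lit 76) (nat_lit 1992652677) (nat_lit 0) (nat_lit 6303836100) (nat_lit 456) (nat_lit 1992652677) (nat_lit 271) (nat_lit 1) (nat_lit 270) (nat_lit 1) (nat_lit 276) (nat_lit 1) (nat_lit 303) (nat_lit 367) (nat_lit 350)) (XT.lf (nat_lit 380) (nat_lit 2529002363) (nat_lit 0) (nat_lit 3772352003) (nat_lit 304) (nat_lit 3772352003) (nat_lit 271) (nat_lit 1) (nat_lit 266) (nat_lit 1) (nat_lit 270) (nat_lit 1) (nat_lit 304) (nat_lit 367) (nat_lit 349))))))) (XT.nd (nat_lit 936) (nat_lit 1672) (nat_lit 0) (XT.nd (nat_lit 468)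 (nat_lit 1064) (nat_lit 0) (XT.nd (nat_lit 234) (nat_lit 304) (nat_lit 0) (XT.nd (nat_lit 78) (nat_lit 684) (nat_lit 0) (XT.lf (nat_lit 76) (nat_lit 550294039) (nat_lit 0) (nat_lit 8765967779) (nat_lit 380) (nat_lit 550294039) (nat_lit 267) (nat_lit 1) (nat_lit 266) (nat_lit 1) (nat_lit 271) (nat_lit 1) (nat_lit 305) (nat_lit 367) (nat_lit 348)) (XT.nd (nat_lit 78) (nat_lit 304) (nat_lit 0) (XT.lf (nat_lit 76) (nat_lit 4636935701) (nat_lit 0) (nat_lit 388352372) (nat_lit 380) (nat_lit 4636935701) (nat_lit 262) (nat_lit 1) (nat_lit 261) (nat_lit 1) (nat_lit 266) (nat_lit 1) (nat_lit 306) (nat_lit 367) (nat_lit 347)) (XT.lf (nat_lit 380) (nat_lit 7670222902) (nat_lit 0) (nat_lit 897725128) (nat_lit 304) (nat_lit 897725128) (nat_lit 262) (nat_lit 1) (nat_lit 257) (nat_lit 1) (nat_lit 261) (nat_lit 1) (nat_lit 307) (nat_lit 367) (nat_lit 346)))) (XT.nd (nat_lit 78) (nat_lit 304) (nat_lit 0) (XT.lf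 (nat_lit 76) (nat_lit 3008598628) (nat_lit 0) (nat_lit 3255297154) (nat_lit 380) (nat_lit 3008598628) (nat_lit 258) (nat_lit 1) (nat_lit 257) (nat_lit 1) (nat_lit 262) (nat_lit 1) (nat_lit 308) (nat_lit 367) (nat_lit 345)) (XT.nd (nat_lit 78) (nat_lit 0) (nat_lit 0) (XT.lf (nat_lit 380) (nat_lit 4390382326) (nat_lit 0) (nat_lit 2347816048) (nat_lit 304) (nat_lit 2347816048) (nat_lit 258) (nat_lit 1) (nat_lit 253) (nat_lit 1) (nat_lit 257) (nat_lit 1) (nat_lit 309) (nat_lit 367) (nat_lit 344)) (XT.lf (nat_lit 76) (nat_lit 1384530646) (nat_lit 0) (nat_lit 6135925835) (nat_lit 380) (nat_lit 1384530646) (nat_lit 254) (nat_lit 1) (nat_lit 253) (nat_lit 1) (nat_lit 258) (nat_lit 1) (nat_lit 310) (nat_lit 367) (nat_lit 343))))) (XT.nd (nat_lit 234) (nat_lit 456) (nat_lit 0) (XT.nd (nat_lit 78) (nat_lit 380) (nat_lit 0) (XT.lf (nat_lit 304) (nat_lit 1125979476) (nat_lit 0) (nat_lit 3800944004) (nat_lit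 228) (nat_lit 3800944004) (nat_lit 254) (nat_lit 1) (nat_lit 250) (nat_lit 1) (nat_lit 253) (nat_lit 1) (nat_lit 311) (nat_lit 367) (nat_lit 342)) (XT.nd (nat_lit 78) (nat_lit 0) (nat_lit 0) (XT.lf (nat_lit 380) (nat_lit 8107640163) (nat_lit 0) (nat_lit 224971457) (nat_lit 304) (nat_lit 224971457) (nat_lit 250) (nat_lit 1) (nat_lit 245) (nat_lit 1) (nat_lit 249) (nat_lit 1) (nat_lit 312) (nat_lit 367) (nat_lit 341)) (XT.lf (nat_lit 76) (nat_lit 3172579534) (nat_lit 0) (nat_lit 2043082106) (nat_lit 380) (nat_lit 3172579534) (nat_lit 246) (nat_lit 1) (nat_lit 245) (nat_lit 1) (nat_lit 250) (nat_lit 1) (nat_lit 313) (nat_lit 367) (nat_lit 340)))) (XT.nd (nat_lit 78) (nat_lit 228) (nat_lit 0) (XT.lf (nat_lit 304) (nat_lit 4633652709) (nat_lit 0) (nat_lit 1795870637) (nat_lit 228) (nat_lit 1795870637) (nat_lit 246) (nat_lit 1) (nat_lit 242) (nat_lit 1) (nat_lit 245) (nat_lit 1) (nat_lit 314) (nat_lit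 367) (nat_lit 339)) (XT.nd (nat_lit 78) (nat_lit 228) (nat_lit 0) (XT.lf (nat_lit 76) (nat_lit 1463842566) (nat_lit 0) (nat_lit 5138999074) (nat_lit 304) (nat_lit 1463842566) (nat_lit 243) (nat_lit 1) (nat_lit 242) (nat_lit 1) (nat_lit 246) (nat_lit 1) (nat_lit 315) (nat_lit 367) (nat_lit 338)) (XT.lf (nat_lit 304) (nat_lit 1220067024) (nat_lit 0) (nat_lit 3345759004) (nat_lit 228) (nat_lit 3345759004) (nat_lit 243) (nat_lit 1) (nat_lit 239) (nat_lit 1) (nat_lit 242) (nat_lit 1) (nat_lit 316) (nat_lit 367) (nat_lit 337)))))) (XT.nd (nat_lit 468) (nat_lit 684) (nat_lit 0) (XT.nd (nat_lit 234) (nat_lit 456) (nat_lit 0) (XT.nd (nat_lit 78) (nat_lit 228) (nat_lit 0) (XT.lf (nat_lit 304) (nat_lit 7342885749) (nat_lit 0) (nat_lit 209681121) (nat_lit 228) (nat_lit 209681121) (nat_lit 239) (nat_lit 1) (nat_lit 235) (nat_lit 1) (nat_lit 238) (nat_lit 1) (nat_lit 317) (nat_lit 367) (nat_lit 336)) (XT.nd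 (nat_lit 78) (nat_lit 228) (nat_lit 0) (XT.lf (nat_lit 76) (nat_lit 2777603392) (nat_lit 0) (nat_lit 2058176223) (nat_lit 304) (nat_lit 2777603392) (nat_lit 236) (nat_lit 1) (nat_lit 235) (nat_lit 1) (nat_lit 239) (nat_lit 1) (nat_lit 318) (nat_lit 367) (nat_lit 335)) (XT.lf (nat_lit 304) (nat_lit 3819458997) (nat_lit 0) (nat_lit 1825283526) (nat_lit 228) (nat_lit 1825283526) (nat_lit 236) (nat_lit 1) (nat_lit 232) (nat_lit 1) (nat_lit 235) (nat_lit 1) (nat_lit 319) (nat_lit 367) (nat_lit 334)))) (XT.nd (nat_lit 78) (nat_lit 456) (nat_lit 0) (XT.lf (nat_lit 76) (nat_lit 1051875892) (nat_lit 0) (nat_lit 5226762206) (nat_lit 304) (nat_lit 1051875892) (nat_lit 233) (nat_lit 1) (nat_lit 232) (nat_lit 1) (nat_lit 236) (nat_lit 1) (nat_lit 320) (nat_lit 367) (nat_lit 333)) (XT.nd (nat_lit 78) (nat_lit 304) (nat_lit 0) (XT.lf (nat_lit 228) (nat_lit 385442301) (nat_lit 0) (nat_lit 3404094327) (nat_lit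 152) (nat_lit 3404094327) (nat_lit 233) (nat_lit 1) (nat_lit 230) (nat_lit 1) (nat_lit 232) (nat_lit 1) (nat_lit 321) (nat_lit 367) (nat_lit 332)) (XT.lf (nat_lit 304) (nat_lit 5823903928) (nat_lit 0) (nat_lit 618540810) (nat_lit 228) (nat_lit 618540810) (nat_lit 230) (nat_lit 1) (nat_lit 226) (nat_lit 1) (nat_lit 229) (nat_lit 1) (nat_lit 322) (nat_lit 367) (nat_lit 331))))) (XT.nd (nat_lit 234) (nat_lit 532) (nat_lit 0) (XT.nd (nat_lit 78) (nat_lit 152) (nat_lit 0) (XT.lf (nat_lit 76) (nat_lit 2034151399) (nat_lit 0) (nat_lit 2861520857) (nat_lit 304) (nat_lit 2034151399) (nat_lit 227) (nat_lit 1) (nat_lit 226) (nat_lit 1) (nat_lit 230) (nat_lit 1) (nat_lit 323) (nat_lit 367) (nat_lit 330)) (XT.nd (nat_lit 78) (nat_lit 0) (nat_lit 0) (XT.lf (nat_lit 228) (nat_lit 2350148160) (nat_lit 0) (nat_lit 2226280808) (nat_lit 152) (nat_lit 2226280808) (nat_lit 227) (nat_lit 1) (nat_lit 224) (nat_lit 1)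 (nat_lit 226) (nat_lit 1) (nat_lit 324) (nat_lit 367) (nat_lit 329)) (XT.lf (nat_lit 76) (nat_lit 337641695) (nat_lit 0) (nat_lit 6004530929) (nat_lit 228) (nat_lit 337641695) (nat_lit 225) (nat_lit 1) (nat_lit 224) (nat_lit 1) (nat_lit 227) (nat_lit 1) (nat_lit 325) (nat_lit 367) (nat_lit 328)))) (XT.nd (nat_lit 156) (nat_lit 152) (nat_lit 0) (XT.nd (nat_lit 78) (nat_lit 152) (nat_lit 0) (XT.lf (nat_lit 76) (nat_lit 2786616151) (nat_lit 0) (nat_lit 984133295) (nat_lit 228) (nat_lit 2786616151) (nat_lit 222) (nat_lit 1) (nat_lit 221) (nat_lit 1) (nat_lit 224) (nat_lit 1) (nat_lit 326) (nat_lit 367) (nat_lit 327)) (XT.lf (nat_lit 228) (nat_lit 3869704923) (nat_lit 0) (nat_lit 1284637188) (nat_lit 152) (nat_lit 1284637188) (nat_lit 222) (nat_lit 1) (nat_lit 219) (nat_lit 1) (nat_lit 221) (nat_lit 1) (nat_lit 327) (nat_lit 367) (nat_lit 326))) (XT.nd (nat_lit 78) (nat_lit 152) (nat_lit 0) (XT.lf (nat_lit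 76) (nat_lit 1091930054) (nat_lit 0) (nat_lit 4139349489) (nat_lit 228) (nat_lit 1091930054) (nat_lit 220) (nat_lit 1) (nat_lit 219) (nat_lit 1) (nat_lit 222) (nat_lit 1) (nat_lit 328) (nat_lit 367) (nat_lit 325)) (XT.lf (nat_lit 228) (nat_lit 511529917) (nat_lit 0) (nat_lit 2849121798) (nat_lit 152) (nat_lit 2849121798) (nat_lit 220) (nat_lit 1) (nat_lit 217) (nat_lit 1) (nat_lit 219) (nat_lit 1) (nat_lit 329) (nat_lit 367) (nat_lit 324))))))))
noncomputable def ec129 : XT := (XT.nd (nat_lit 1950) (nat_lit 1900) (nat_lit 0) (XT.nd (nat_lit 936) (nat_lit 1064) (nat_lit 0) (XT.nd (nat_lit 468) (nat_lit 608) (nat_lit 0) (XT.nd (nat_lit 234) (nat_lit 304) (nat_lit 0) (XT.nd (nat_lit 78) (nat_lit 152) (nat_lit 0) (XT.lf (nat_lit 228) (nat_lit 5027646497) (nat_lit 0) (nat_lit 535988916) (nat_lit 152) (nat_lit 535988916) (nat_lit 217) (nat_lit 1) (nat_lit 214) (nat_lit 1) (nat_lit 216) (nat_lit 1) (nat_lit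 330) (nat_lit 367) (nat_lit 323)) (XT.nd (nat_lit 78) (nat_lit 152) (nat_lit 0) (XT.lf (nat_lit 76) (nat_lit 1673715839) (nat_lit 0) (nat_lit 2642983577) (nat_lit 228) (nat_lit 1673715839) (nat_lit 215) (nat_lit 1) (nat_lit 214) (nat_lit 1) (nat_lit 217) (nat_lit 1) (nat_lit 331) (nat_lit 367) (nat_lit 322)) (XT.lf (nat_lit 228) (nat_lit 1704598322) (nat_lit 0) (nat_lit 2089889175) (nat_lit 152) (nat_lit 2089889175) (nat_lit 215) (nat_lit 1) (nat_lit 212) (nat_lit 1) (nat_lit 214) (nat_lit 1) (nat_lit 332) (nat_lit 367) (nat_lit 321)))) (XT.nd (nat_lit 78) (nat_lit 304) (nat_lit 0) (XT.lf (nat_lit 76) (nat_lit 56025445) (nat_lit 0) (nat_lit 5670005977) (nat_lit 228) (nat_lit 56025445) (nat_lit 213) (nat_lit 1) (nat_lit 212) (nat_lit 1) (nat_lit 215) (nat_lit 1) (nat_lit 333) (nat_lit 367) (nat_lit 320)) (XT.nd (nat_lit 78) (nat_lit 152) (nat_lit 0) (XT.lf (nat_lit 76) (nat_lit 2115429479) (nat_lit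 0) (nat_lit 1448227708) (nat_lit 152) (nat_lit 2115429479) (nat_lit 211) (nat_lit 1) (nat_lit 210) (nat_lit 1) (nat_lit 212) (nat_lit 1) (nat_lit 334) (nat_lit 367) (nat_lit 319)) (XT.lf (nat_lit 228) (nat_lit 2625007157) (nat_lit 0) (nat_lit 1477366158) (nat_lit 152) (nat_lit 1477366158) (nat_lit 211) (nat_lit 1) (nat_lit 208) (nat_lit 1) (nat_lit 210) (nat_lit 1) (nat_lit 335) (nat_lit 367) (nat_lit 318))))) (XT.nd (nat_lit 234) (nat_lit 304) (nat_lit 0) (XT.nd (nat_lit 78) (nat_lit 304) (nat_lit 0) (XT.lf (nat_lit 76) (nat_lit 526295793) (nat_lit 0) (nat_lit 4430482330) (nat_lit 228) (nat_lit 526295793) (nat_lit 209) (nat_lit 1) (nat_lit 208) (nat_lit 1) (nat_lit 211) (nat_lit 1) (nat_lit 336) (nat_lit 367) (nat_lit 317)) (XT.nd (nat_lit 78) (nat_lit 152) (nat_lit 0) (XT.lf (nat_lit 76) (nat_lit 2443663654) (nat_lit 0) (nat_lit 499878214) (nat_lit 152) (nat_lit 2443663654) (nat_lit 207) (nat_lit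 1) (nat_lit 206) (nat_lit 1) (nat_lit 208) (nat_lit 1) (nat_lit 337) (nat_lit 367) (nat_lit 316)) (XT.lf (nat_lit 228) (nat_lit 3324009312) (nat_lit 0) (nat_lit 984965330) (nat_lit 152) (nat_lit 984965330) (nat_lit 207) (nat_lit 1) (nat_lit 204) (nat_lit 1) (nat_lit 206) (nat_lit 1) (nat_lit 338) (nat_lit 367) (nat_lit 315)))) (XT.nd (nat_lit 78) (nat_lit 304) (nat_lit 0) (XT.lf (nat_lit 76) (nat_lit 890321537) (nat_lit 0) (nat_lit 3421877711) (nat_lit 228) (nat_lit 890321537) (nat_lit 205) (nat_lit 1) (nat_lit 204) (nat_lit 1) (nat_lit 207) (nat_lit 1) (nat_lit 339) (nat_lit 367) (nat_lit 314)) (XT.nd (nat_lit 78) (nat_lit 228) (nat_lit 0) (XT.lf (nat_lit 152) (nat_lit 255578891) (nat_lit 0) (nat_lit 2428623915) (nat_lit 76) (nat_lit 2428623915) (nat_lit 205) (nat_lit 1) (nat_lit 203) (nat_lit 1) (nat_lit 204) (nat_lit 1) (nat_lit 340) (nat_lit 367) (nat_lit 313)) (XT.lf (nat_lit 228) (nat_lit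 3843632047) (nat_lit 0) (nat_lit 590840591) (nat_lit 152) (nat_lit 590840591) (nat_lit 203) (nat_lit 1) (nat_lit 200) (nat_lit 1) (nat_lit 202) (nat_lit 1) (nat_lit 341) (nat_lit 367) (nat_lit 312)))))) (XT.nd (nat_lit 468) (nat_lit 456) (nat_lit 0) (XT.nd (nat_lit 234) (nat_lit 304) (nat_lit 0) (XT.nd (nat_lit 78) (nat_lit 304) (nat_lit 0) (XT.lf (nat_lit 76) (nat_lit 1168028480) (nat_lit 0) (nat_lit 2602719579) (nat_lit 228) (nat_lit 1168028480) (nat_lit 201) (nat_lit 1) (nat_lit 200) (nat_lit 1) (nat_lit 203) (nat_lit 1) (nat_lit 342) (nat_lit 367) (nat_lit 311)) (XT.nd (nat_lit 78) (nat_lit 228) (nat_lit 0) (XT.lf (nat_lit 152) (nat_lit 858291816) (nat_lit 0) (nat_lit 1998034905) (nat_lit 76) (nat_lit 1998034905) (nat_lit 201) (nat_lit 1) (nat_lit 199) (nat_lit 1) (nat_lit 200) (nat_lit 1) (nat_lit 343) (nat_lit 367) (nat_lit 310)) (XT.lf (nat_lit 228) (nat_lit 4218319273) (nat_lit 0) (nat_lit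 277045232) (nat_lit 152) (nat_lit 277045232) (nat_lit 199) (nat_lit 1) (nat_lit 196) (nat_lit 1) (nat_lit 198) (nat_lit 1) (nat_lit 344) (nat_lit 367) (nat_lit 309)))) (XT.nd (nat_lit 78) (nat_lit 304) (nat_lit 0) (XT.lf (nat_lit 76) (nat_lit 1375757777) (nat_lit 0) (nat_lit 1938913665) (nat_lit 228) (nat_lit 1375757777) (nat_lit 197) (nat_lit 1) (nat_lit 196) (nat_lit 1) (nat_lit 199) (nat_lit 1) (nat_lit 345) (nat_lit 367) (nat_lit 308)) (XT.nd (nat_lit 78) (nat_lit 228) (nat_lit 0) (XT.lf (nat_lit 152) (nat_lit 1323286831) (nat_lit 0) (nat_lit 1643788261) (nat_lit 76) (nat_lit 1643788261) (nat_lit 197) (nat_lit 1) (nat_lit 195) (nat_lit 1) (nat_lit 196) (nat_lit 1) (nat_lit 346) (nat_lit 367) (nat_lit 307)) (XT.lf (nat_lit 228) (nat_lit 4476282349) (nat_lit 0) (nat_lit 28839337) (nat_lit 152) (nat_lit 28839337) (nat_lit 195) (nat_lit 1) (nat_lit 192) (nat_lit 1) (nat_lit 194) (nat_lit 1) (nat_lit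 347) (nat_lit 367) (nat_lit 306))))) (XT.nd (nat_lit 234) (nat_lit 380) (nat_lit 0) (XT.nd (nat_lit 78) (nat_lit 76) (nat_lit 0) (XT.lf (nat_lit 76) (nat_lit 1526903952) (nat_lit 0) (nat_lit 1402434620) (nat_lit 228) (nat_lit 1526903952) (nat_lit 193) (nat_lit 1) (nat_lit 192) (nat_lit 1) (nat_lit 195) (nat_lit 1) (nat_lit 348) (nat_lit 367) (nat_lit 305)) (XT.nd (nat_lit 78) (nat_lit 0) (nat_lit 0) (XT.lf (nat_lit 152) (nat_lit 1676450426) (nat_lit 0) (nat_lit 1352348670) (nat_lit 76) (nat_lit 1352348670) (nat_lit 193) (nat_lit 1) (nat_lit 191) (nat_lit 1) (nat_lit 192) (nat_lit 1) (nat_lit 349) (nat_lit 367) (nat_lit 304)) (XT.lf (nat_lit 0) (nat_lit 168599302) (nat_lit 0) (nat_lit 3971121642) (nat_lit 152) (nat_lit 168599302) (nat_lit 191) (nat_lit 3) (nat_lit 191) (nat_lit 1) (nat_lit 193) (nat_lit 1) (nat_lit 350) (nat_lit 367) (nat_lit 303)))) (XT.nd (nat_lit 156) (nat_lit 152) (nat_lit 0)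 (XT.nd (nat_lit 78) (nat_lit 76) (nat_lit 0) (XT.lf (nat_lit 76) (nat_lit 1632439683) (nat_lit 0) (nat_lit 970248860) (nat_lit 152) (nat_lit 1632439683) (nat_lit 190) (nat_lit 1) (nat_lit 189) (nat_lit 1) (nat_lit 191) (nat_lit 1) (nat_lit 351) (nat_lit 367) (nat_lit 302)) (XT.lf (nat_lit 152) (nat_lit 1939009510) (nat_lit 0) (nat_lit 1112580598) (nat_lit 76) (nat_lit 1112580598) (nat_lit 190) (nat_lit 1) (nat_lit 188) (nat_lit 1) (nat_lit 189) (nat_lit 1) (nat_lit 352) (nat_lit 367) (nat_lit 301))) (XT.nd (nat_lit 78) (nat_lit 152) (nat_lit 0) (XT.lf (nat_lit 0) (nat_lit 322244635) (nat_lit 0) (nat_lit 3450589175) (nat_lit 152) (nat_lit 322244635) (nat_lit 188) (nat_lit 3) (nat_lit 188) (nat_lit 1) (nat_lit 190) (nat_lit 1) (nat_lit 353) (nat_lit 367) (nat_lit 300)) (XT.lf (nat_lit 76) (nat_lit 1701347428) (nat_lit 0) (nat_lit 623428450) (nat_lit 152) (nat_lit 1701347428) (nat_lit 187) (nat_lit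 1) (nat_lit 186) (nat_lit 1) (nat_lit 188) (nat_lit 1) (nat_lit 354) (nat_lit 367) (nat_lit 299))))))) (XT.nd (nat_lit 936) (nat_lit 1064) (nat_lit 0) (XT.nd (nat_lit 468) (nat_lit 380) (nat_lit 0) (XT.nd (nat_lit 234) (nat_lit 228) (nat_lit 0) (XT.nd (nat_lit 78) (nat_lit 152) (nat_lit 0) (XT.lf (nat_lit 152) (nat_lit 2128360871) (nat_lit 0) (nat_lit 915322811) (nat_lit 76) (nat_lit 915322811) (nat_lit 187) (nat_lit 1) (nat_lit 185) (nat_lit 1) (nat_lit 186) (nat_lit 1) (nat_lit 355) (nat_lit 367) (nat_lit 298)) (XT.nd (nat_lit 78) (nat_lit 152) (nat_lit 0) (XT.lf (nat_lit 0) (nat_lit 439909147) (nat_lit 0) (nat_lit 3013605941) (nat_lit 152) (nat_lit 439909147) (nat_lit 185) (nat_lit 3) (nat_lit 185) (nat_lit 1) (nat_lit 187) (nat_lit 1) (nat_lit 356) (nat_lit 367) (nat_lit 297)) (XT.lf (nat_lit 76) (nat_lit 1740974416) (nat_lit 0) (nat_lit 346422140) (nat_lit 152) (nat_lit 1740974416) (nat_lit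 184) (nat_lit 1) (nat_lit 183) (nat_lit 1) (nat_lit 185) (nat_lit 1) (nat_lit 357) (nat_lit 367) (nat_lit 296)))) (XT.nd (nat_lit 78) (nat_lit 152) (nat_lit 0) (XT.lf (nat_lit 152) (nat_lit 2258753420) (nat_lit 0) (nat_lit 753038342) (nat_lit 76) (nat_lit 753038342) (nat_lit 184) (nat_lit 1) (nat_lit 182) (nat_lit 1) (nat_lit 183) (nat_lit 1) (nat_lit 358) (nat_lit 367) (nat_lit 295)) (XT.nd (nat_lit 78) (nat_lit 152) (nat_lit 0) (XT.lf (nat_lit 0) (nat_lit 528388332) (nat_lit 0) (nat_lit 2645775055) (nat_lit 152) (nat_lit 528388332) (nat_lit 182) (nat_lit 3) (nat_lit 182) (nat_lit 1) (nat_lit 184) (nat_lit 1) (nat_lit 359) (nat_lit 367) (nat_lit 294)) (XT.lf (nat_lit 76) (nat_lit 1757324605) (nat_lit 0) (nat_lit 126455696) (nat_lit 152) (nat_lit 1757324605) (nat_lit 181) (nat_lit 1) (nat_lit 180) (nat_lit 1) (nat_lit 182) (nat_lit 1) (nat_lit 360) (nat_lit 367) (nat_lit 293))))) (XT.nd (nat_lit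 234) (nat_lit 228) (nat_lit 0) (XT.nd (nat_lit 78) (nat_lit 76) (nat_lit 0) (XT.lf (nat_lit 152) (nat_lit 2341849329) (nat_lit 0) (nat_lit 619526507) (nat_lit 76) (nat_lit 619526507) (nat_lit 181) (nat_lit 1) (nat_lit 179) (nat_lit 1) (nat_lit 180) (nat_lit 1) (nat_lit 361) (nat_lit 367) (nat_lit 292)) (XT.nd (nat_lit 78) (nat_lit 76) (nat_lit 0) (XT.lf (nat_lit 0) (nat_lit 593253044) (nat_lit 0) (nat_lit 2335232341) (nat_lit 152) (nat_lit 593253044) (nat_lit 179) (nat_lit 3) (nat_lit 179) (nat_lit 1) (nat_lit 181) (nat_lit 1) (nat_lit 362) (nat_lit 367) (nat_lit 291)) (XT.lf (nat_lit 76) (nat_lit 48514156) (nat_lit 0) (nat_lit 1707542057) (nat_lit 76) (nat_lit 1707542057) (nat_lit 179) (nat_lit 3) (nat_lit 178) (nat_lit 1) (nat_lit 179) (nat_lit 1) (nat_lit 363) (nat_lit 367) (nat_lit 290)))) (XT.nd (nat_lit 78) (nat_lit 76) (nat_lit 0) (XT.lf (nat_lit 152) (nat_lit 2387185524) (nat_lit 0) (nat_lit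 509685991) (nat_lit 76) (nat_lit 509685991) (nat_lit 178) (nat_lit 1) (nat_lit 176) (nat_lit 1) (nat_lit 177) (nat_lit 1) (nat_lit 364) (nat_lit 367) (nat_lit 289)) (XT.nd (nat_lit 78) (nat_lit 76) (nat_lit 0) (XT.lf (nat_lit 0) (nat_lit 639067563) (nat_lit 0) (nat_lit 2072198241) (nat_lit 152) (nat_lit 639067563) (nat_lit 176) (nat_lit 3) (nat_lit 176) (nat_lit 1) (nat_lit 178) (nat_lit 1) (nat_lit 365) (nat_lit 367) (nat_lit 288)) (XT.lf (nat_lit 76) (nat_lit 188474098) (nat_lit 0) (nat_lit 1553360459) (nat_lit 76) (nat_lit 1553360459) (nat_lit 176) (nat_lit 3) (nat_lit 175) (nat_lit 1) (nat_lit 176) (nat_lit 1) (nat_lit 366) (nat_lit 367) (nat_lit 287)))))) (XT.nd (nat_lit 468) (nat_lit 608) (nat_lit 0) (XT.nd (nat_lit 234) (nat_lit 228) (nat_lit 0) (XT.nd (nat_lit 78) (nat_lit 76) (nat_lit 0) (XT.lf (nat_lit 152) (nat_lit 2402553234) (nat_lit 0) (nat_lit 419319926) (nat_lit 76) (nat_lit 419319926)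 (nat_lit 175) (nat_lit 1) (nat_lit 173) (nat_lit 1) (nat_lit 174) (nat_lit 1) (nat_lit 367) (nat_lit 367) (nat_lit 286)) (XT.nd (nat_lit 78) (nat_lit 76) (nat_lit 0) (XT.lf (nat_lit 0) (nat_lit 669568956) (nat_lit 0) (nat_lit 1848609111) (nat_lit 152) (nat_lit 669568956) (nat_lit 173) (nat_lit 3) (nat_lit 173) (nat_lit 1) (nat_lit 175) (nat_lit 1) (nat_lit 368) (nat_lit 367) (nat_lit 285)) (XT.lf (nat_lit 76) (nat_lit 296545138) (nat_lit 0) (nat_lit 1419440525) (nat_lit 76) (nat_lit 1419440525) (nat_lit 173) (nat_lit 3) (nat_lit 172) (nat_lit 1) (nat_lit 173) (nat_lit 1) (nat_lit 369) (nat_lit 367) (nat_lit 284)))) (XT.nd (nat_lit 78) (nat_lit 76) (nat_lit 0) (XT.lf (nat_lit 152) (nat_lit 2394310107) (nat_lit 0) (nat_lit 344975541) (nat_lit 76) (nat_lit 344975541) (nat_lit 172) (nat_lit 1) (nat_lit 170) (nat_lit 1) (nat_lit 171) (nat_lit 1) (nat_lit 370) (nat_lit 367) (nat_lit 283)) (XT.nd (nat_lit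 78) (nat_lit 76) (nat_lit 0) (XT.lf (nat_lit 0) (nat_lit 687814599) (nat_lit 0) (nat_lit 1657813853) (nat_lit 152) (nat_lit 687814599) (nat_lit 170) (nat_lit 3) (nat_lit 170) (nat_lit 1) (nat_lit 172) (nat_lit 1) (nat_lit 371) (nat_lit 367) (nat_lit 282)) (XT.lf (nat_lit 76) (nat_lit 378717972) (nat_lit 0) (nat_lit 1302526786) (nat_lit 76) (nat_lit 1302526786) (nat_lit 170) (nat_lit 3) (nat_lit 169) (nat_lit 1) (nat_lit 170) (nat_lit 1) (nat_lit 372) (nat_lit 367) (nat_lit 281))))) (XT.nd (nat_lit 234) (nat_lit 380) (nat_lit 0) (XT.nd (nat_lit 78) (nat_lit 76) (nat_lit 0) (XT.lf (nat_lit 152) (nat_lit 2367636865) (nat_lit 0) (nat_lit 283812231) (nat_lit 76) (nat_lit 283812231) (nat_lit 169) (nat_lit 1) (nat_lit 167) (nat_lit 1) (nat_lit 168) (nat_lit 1) (nat_lit 373) (nat_lit 367) (nat_lit 280)) (XT.nd (nat_lit 78) (nat_lit 76) (nat_lit 0) (XT.lf (nat_lit 0) (nat_lit 696303499) (nat_lit 0) (nat_lit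 1494324286) (nat_lit 152) (nat_lit 696303499) (nat_lit 167) (nat_lit 3) (nat_lit 167) (nat_lit 1) (nat_lit 169) (nat_lit 1) (nat_lit 374) (nat_lit 367) (nat_lit 279)) (XT.lf (nat_lit 76) (nat_lit 439905121) (nat_lit 0) (nat_lit 1199924918) (nat_lit 76) (nat_lit 1199924918) (nat_lit 167) (nat_lit 3) (nat_lit 166) (nat_lit 1) (nat_lit 167) (nat_lit 1) (nat_lit 375) (nat_lit 367) (nat_lit 278)))) (XT.nd (nat_lit 156) (nat_lit 228) (nat_lit 0) (XT.nd (nat_lit 78) (nat_lit 0) (nat_lit 0) (XT.lf (nat_lit 152) (nat_lit 2326748341) (nat_lit 0) (nat_lit 233493025) (nat_lit 76) (nat_lit 233493025) (nat_lit 166) (nat_lit 1) (nat_lit 164) (nat_lit 1) (nat_lit 165) (nat_lit 1) (nat_lit 376) (nat_lit 367) (nat_lit 277)) (XT.lf (nat_lit 0) (nat_lit 697076065) (nat_lit 0) (nat_lit 1353609741) (nat_lit 152) (nat_lit 697076065) (nat_lit 164) (nat_lit 3) (nat_lit 164) (nat_lit 1) (nat_lit 166) (nat_lit 1) (nat_lit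 377) (nat_lit 367) (nat_lit 276))) (XT.nd (nat_lit 78) (nat_lit 152) (nat_lit 0) (XT.lf (nat_lit 76) (nat_lit 484132848) (nat_lit 0) (nat_lit 1109403016) (nat_lit 76) (nat_lit 1109403016) (nat_lit 164) (nat_lit 3) (nat_lit 163) (nat_lit 1) (nat_lit 164) (nat_lit 1) (nat_lit 378) (nat_lit 367) (nat_lit 275)) (XT.lf (nat_lit 152) (nat_lit 2275066983) (nat_lit 0) (nat_lit 192095289) (nat_lit 76) (nat_lit 192095289) (nat_lit 163) (nat_lit 1) (nat_lit 161) (nat_lit 1) (nat_lit 162) (nat_lit 1) (nat_lit 379) (nat_lit 367) (nat_lit 274))))))))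
noncomputable def ec130 : XT := (XT.nd (nat_lit 1950) (nat_lit 1900) (nat_lit 0) (XT.nd (nat_lit 936) (nat_lit 912) (nat_lit 0) (XT.nd (nat_lit 468) (nat_lit 456) (nat_lit 0) (XT.nd (nat_lit 234) (nat_lit 228) (nat_lit 0) (XT.nd (nat_lit 78) (nat_lit 228) (nat_lit 0) (XT.lf (nat_lit 0) (nat_lit 691796159) (nat_lit 0) (nat_lit 1231928040) (nat_lit 152) (nat_lit 691796159) (nat_lit 161) (nat_lit 3) (nat_lit 161) (nat_lit 1) (nat_lit 163) (nat_lit 1) (nat_lit 380) (nat_lit 367) (nat_lit 273)) (XT.nd (nat_lit 78) (nat_lit 152) (nat_lit 0) (XT.lf (nat_lit 76) (nat_lit 514699023) (nat_lit 0) (nat_lit 1029110338) (nat_lit 76) (nat_lit 1029110338) (nat_lit 161) (nat_lit 3) (nat_lit 160) (nat_lit 1) (nat_lit 161) (nat_lit 1) (nat_lit 381) (nat_lit 367) (nat_lit 272)) (XT.lf (nat_lit 152) (nat_lit 2215365489) (nat_lit 0) (nat_lit 158037270) (nat_lit 76) (nat_lit 158037270) (nat_lit 160) (nat_lit 1) (nat_lit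 158) (nat_lit 1) (nat_lit 159) (nat_lit 1) (nat_lit 382) (nat_lit 367) (nat_lit 271)))) (XT.nd (nat_lit 78) (nat_lit 228) (nat_lit 0) (XT.lf (nat_lit 0) (nat_lit 681818560) (nat_lit 0) (nat_lit 1126186395) (nat_lit 152) (nat_lit 681818560) (nat_lit 158) (nat_lit 3) (nat_lit 158) (nat_lit 1) (nat_lit 160) (nat_lit 1) (nat_lit 383) (nat_lit 367) (nat_lit 270)) (XT.nd (nat_lit 78) (nat_lit 152) (nat_lit 0) (XT.lf (nat_lit 76) (nat_lit 534302951) (nat_lit 0) (nat_lit 957510412) (nat_lit 76) (nat_lit 957510412) (nat_lit 158) (nat_lit 3) (nat_lit 157) (nat_lit 1) (nat_lit 158) (nat_lit 1) (nat_lit 384) (nat_lit 367) (nat_lit 269)) (XT.lf (nat_lit 152) (nat_lit 2149884053) (nat_lit 0) (nat_lit 130017653) (nat_lit 76) (nat_lit 130017653) (nat_lit 157) (nat_lit 1) (nat_lit 155) (nat_lit 1) (nat_lit 156) (nat_lit 1) (nat_lit 385) (nat_lit 367) (nat_lit 268))))) (XT.nd (nat_lit 234) (nat_lit 228) (nat_lit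 0) (XT.nd (nat_lit 78) (nat_lit 228) (nat_lit 0) (XT.lf (nat_lit 0) (nat_lit 668244434) (nat_lit 0) (nat_lit 1033826951) (nat_lit 152) (nat_lit 668244434) (nat_lit 155) (nat_lit 3) (nat_lit 155) (nat_lit 1) (nat_lit 157) (nat_lit 1) (nat_lit 386) (nat_lit 367) (nat_lit 267)) (XT.nd (nat_lit 78) (nat_lit 152) (nat_lit 0) (XT.lf (nat_lit 76) (nat_lit 545152161) (nat_lit 0) (nat_lit 893325987) (nat_lit 76) (nat_lit 893325987) (nat_lit 155) (nat_lit 3) (nat_lit 154) (nat_lit 1) (nat_lit 155) (nat_lit 1) (nat_lit 387) (nat_lit 367) (nat_lit 266)) (XT.lf (nat_lit 152) (nat_lit 2080426724) (nat_lit 0) (nat_lit 106965845) (nat_lit 76) (nat_lit 106965845) (nat_lit 154) (nat_lit 1) (nat_lit 152) (nat_lit 1) (nat_lit 153) (nat_lit 1) (nat_lit 388) (nat_lit 367) (nat_lit 265)))) (XT.nd (nat_lit 78) (nat_lit 228) (nat_lit 0) (XT.lf (nat_lit 0) (nat_lit 651966938) (nat_lit 0) (nat_lit 952732579) (nat_lit 152)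 (nat_lit 651966938) (nat_lit 152) (nat_lit 3) (nat_lit 152) (nat_lit 1) (nat_lit 154) (nat_lit 1) (nat_lit 389) (nat_lit 367) (nat_lit 264)) (XT.nd (nat_lit 78) (nat_lit 152) (nat_lit 0) (XT.lf (nat_lit 76) (nat_lit 549050223) (nat_lit 0) (nat_lit 835493691) (nat_lit 76) (nat_lit 835493691) (nat_lit 152) (nat_lit 3) (nat_lit 151) (nat_lit 1) (nat_lit 152) (nat_lit 1) (nat_lit 390) (nat_lit 367) (nat_lit 263)) (XT.lf (nat_lit 152) (nat_lit 2008440589) (nat_lit 0) (nat_lit 88001065) (nat_lit 76) (nat_lit 88001065) (nat_lit 151) (nat_lit 1) (nat_lit 149) (nat_lit 1) (nat_lit 150) (nat_lit 1) (nat_lit 391) (nat_lit 367) (nat_lit 262)))))) (XT.nd (nat_lit 468) (nat_lit 456) (nat_lit 0) (XT.nd (nat_lit 234) (nat_lit 228) (nat_lit 0) (XT.nd (nat_lit 78) (nat_lit 228) (nat_lit 0) (XT.lf (nat_lit 0) (nat_lit 633708706) (nat_lit 0) (nat_lit 881149344) (nat_lit 152) (nat_lit 633708706) (nat_lit 149) (nat_lit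 3) (nat_lit 149) (nat_lit 1) (nat_lit 151) (nat_lit 1) (nat_lit 392) (nat_lit 367) (nat_lit 261)) (XT.nd (nat_lit 78) (nat_lit 152) (nat_lit 0) (XT.lf (nat_lit 76) (nat_lit 547468969) (nat_lit 0) (nat_lit 783126719) (nat_lit 76) (nat_lit 783126719) (nat_lit 149) (nat_lit 3) (nat_lit 148) (nat_lit 1) (nat_lit 149) (nat_lit 1) (nat_lit 393) (nat_lit 367) (nat_lit 260)) (XT.lf (nat_lit 152) (nat_lit 1935080828) (nat_lit 0) (nat_lit 72398694) (nat_lit 76) (nat_lit 72398694) (nat_lit 148) (nat_lit 1) (nat_lit 146) (nat_lit 1) (nat_lit 147) (nat_lit 1) (nat_lit 394) (nat_lit 367) (nat_lit 259)))) (XT.nd (nat_lit 78) (nat_lit 228) (nat_lit 0) (XT.lf (nat_lit 0) (nat_lit 614052667) (nat_lit 0) (nat_lit 817622692) (nat_lit 152) (nat_lit 614052667) (nat_lit 146) (nat_lit 3) (nat_lit 146) (nat_lit 1) (nat_lit 148) (nat_lit 1) (nat_lit 395) (nat_lit 367) (nat_lit 258)) (XT.nd (nat_lit 78) (nat_lit 152) (nat_lit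 0) (XT.lf (nat_lit 76) (nat_lit 541607877) (nat_lit 0) (nat_lit 735484092) (nat_lit 76) (nat_lit 735484092) (nat_lit 146) (nat_lit 3) (nat_lit 145) (nat_lit 1) (nat_lit 146) (nat_lit 1) (nat_lit 396) (nat_lit 367) (nat_lit 257)) (XT.lf (nat_lit 152) (nat_lit 1861264153) (nat_lit 0) (nat_lit 59562585) (nat_lit 76) (nat_lit 59562585) (nat_lit 145) (nat_lit 1) (nat_lit 143) (nat_lit 1) (nat_lit 144) (nat_lit 1) (nat_lit 397) (nat_lit 367) (nat_lit 256))))) (XT.nd (nat_lit 234) (nat_lit 228) (nat_lit 0) (XT.nd (nat_lit 78) (nat_lit 228) (nat_lit 0) (XT.lf (nat_lit 0) (nat_lit 593467359) (nat_lit 0) (nat_lit 760944922) (nat_lit 152) (nat_lit 593467359) (nat_lit 143) (nat_lit 3) (nat_lit 143) (nat_lit 1) (nat_lit 145) (nat_lit 1) (nat_lit 398) (nat_lit 367) (nat_lit 255)) (XT.nd (nat_lit 78) (nat_lit 152) (nat_lit 0) (XT.lf (nat_lit 76) (nat_lit 532442904) (nat_lit 0) (nat_lit 691945346) (nat_lit 76)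 (nat_lit 691945346) (nat_lit 143) (nat_lit 3) (nat_lit 142) (nat_lit 1) (nat_lit 143) (nat_lit 1) (nat_lit 399) (nat_lit 367) (nat_lit 254)) (XT.lf (nat_lit 152) (nat_lit 1787712688) (nat_lit 0) (nat_lit 49002286) (nat_lit 76) (nat_lit 49002286) (nat_lit 142) (nat_lit 1) (nat_lit 140) (nat_lit 1) (nat_lit 141) (nat_lit 1) (nat_lit 400) (nat_lit 367) (nat_lit 253)))) (XT.nd (nat_lit 156) (nat_lit 152) (nat_lit 0) (XT.nd (nat_lit 78) (nat_lit 76) (nat_lit 0) (XT.lf (nat_lit 0) (nat_lit 572327741) (nat_lit 0) (nat_lit 710111947) (nat_lit 152) (nat_lit 572327741) (nat_lit 140) (nat_lit 3) (nat_lit 140) (nat_lit 1) (nat_lit 142) (nat_lit 1) (nat_lit 401) (nat_lit 367) (nat_lit 252)) (XT.lf (nat_lit 76) (nat_lit 520766632) (nat_lit 0) (nat_lit 651989685) (nat_lit 76) (nat_lit 651989685) (nat_lit 140) (nat_lit 3) (nat_lit 139) (nat_lit 1) (nat_lit 140) (nat_lit 1) (nat_lit 402) (nat_lit 367) (nat_lit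 251))) (XT.nd (nat_lit 78) (nat_lit 0) (nat_lit 0) (XT.lf (nat_lit 152) (nat_lit 1714989999) (nat_lit 0) (nat_lit 40314302) (nat_lit 76) (nat_lit 40314302) (nat_lit 139) (nat_lit 1) (nat_lit 137) (nat_lit 1) (nat_lit 138) (nat_lit 1) (nat_lit 403) (nat_lit 367) (nat_lit 250)) (XT.lf (nat_lit 0) (nat_lit 550932284) (nat_lit 0) (nat_lit 664287691) (nat_lit 152) (nat_lit 550932284) (nat_lit 137) (nat_lit 3) (nat_lit 137) (nat_lit 1) (nat_lit 139) (nat_lit 1) (nat_lit 404) (nat_lit 367) (nat_lit 249))))))) (XT.nd (nat_lit 936) (nat_lit 988) (nat_lit 0) (XT.nd (nat_lit 468) (nat_lit 456) (nat_lit 0) (XT.nd (nat_lit 234) (nat_lit 228) (nat_lit 0) (XT.nd (nat_lit 78) (nat_lit 152) (nat_lit 0) (XT.lf (nat_lit 76) (nat_lit 507221270) (nat_lit 0) (nat_lit 615178800) (nat_lit 76) (nat_lit 615178800) (nat_lit 137) (nat_lit 3) (nat_lit 136) (nat_lit 1) (nat_lit 137) (nat_lit 1) (nat_lit 405) (nat_lit 367) (nat_lit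 248)) (XT.nd (nat_lit 78) (nat_lit 0) (nat_lit 0) (XT.lf (nat_lit 152) (nat_lit 1643530656) (nat_lit 0) (nat_lit 33166676) (nat_lit 76) (nat_lit 33166676) (nat_lit 136) (nat_lit 1) (nat_lit 134) (nat_lit 1) (nat_lit 135) (nat_lit 1) (nat_lit 406) (nat_lit 367) (nat_lit 247)) (XT.lf (nat_lit 0) (nat_lit 529517006) (nat_lit 0) (nat_lit 622774780) (nat_lit 152) (nat_lit 529517006) (nat_lit 134) (nat_lit 3) (nat_lit 134) (nat_lit 1) (nat_lit 136) (nat_lit 1) (nat_lit 407) (nat_lit 367) (nat_lit 246)))) (XT.nd (nat_lit 78) (nat_lit 152) (nat_lit 0) (XT.lf (nat_lit 76) (nat_lit 492325787) (nat_lit 0) (nat_lit 581142715) (nat_lit 76) (nat_lit 581142715) (nat_lit 134) (nat_lit 3) (nat_lit 133) (nat_lit 1) (nat_lit 134) (nat_lit 1) (nat_lit 408) (nat_lit 367) (nat_lit 245)) (XT.nd (nat_lit 78) (nat_lit 0) (nat_lit 0) (XT.lf (nat_lit 152) (nat_lit 1573664490) (nat_lit 0) (nat_lit 27286306) (nat_lit 76) (nat_lit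 27286306) (nat_lit 133) (nat_lit 1) (nat_lit 131) (nat_lit 1) (nat_lit 132) (nat_lit 1) (nat_lit 409) (nat_lit 367) (nat_lit 244)) (XT.lf (nat_lit 0) (nat_lit 508267001) (nat_lit 0) (nat_lit 584990402) (nat_lit 152) (nat_lit 508267001) (nat_lit 131) (nat_lit 3) (nat_lit 131) (nat_lit 1) (nat_lit 133) (nat_lit 1) (nat_lit 410) (nat_lit 367) (nat_lit 243))))) (XT.nd (nat_lit 234) (nat_lit 228) (nat_lit 0) (XT.nd (nat_lit 78) (nat_lit 152) (nat_lit 0) (XT.lf (nat_lit 76) (nat_lit 476498208) (nat_lit 0) (nat_lit 549568115) (nat_lit 76) (nat_lit 549568115) (nat_lit 131) (nat_lit 3) (nat_lit 130) (nat_lit 1) (nat_lit 131) (nat_lit 1) (nat_lit 411) (nat_lit 367) (nat_lit 242)) (XT.nd (nat_lit 78) (nat_lit 0) (nat_lit 0) (XT.lf (nat_lit 152) (nat_lit 1505636481) (nat_lit 0) (nat_lit 22448511) (nat_lit 76) (nat_lit 22448511) (nat_lit 130) (nat_lit 1) (nat_lit 128) (nat_lit 1) (nat_lit 129) (nat_lit 1) (nat_lit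 412) (nat_lit 367) (nat_lit 241)) (XT.lf (nat_lit 0) (nat_lit 487325900) (nat_lit 0) (nat_lit 550446432) (nat_lit 152) (nat_lit 487325900) (nat_lit 128) (nat_lit 3) (nat_lit 128) (nat_lit 1) (nat_lit 130) (nat_lit 1) (nat_lit 413) (nat_lit 367) (nat_lit 240)))) (XT.nd (nat_lit 78) (nat_lit 152) (nat_lit 0) (XT.lf (nat_lit 76) (nat_lit 460073936) (nat_lit 0) (nat_lit 520188729) (nat_lit 76) (nat_lit 520188729) (nat_lit 128) (nat_lit 3) (nat_lit 127) (nat_lit 1) (nat_lit 128) (nat_lit 1) (nat_lit 414) (nat_lit 367) (nat_lit 239)) (XT.nd (nat_lit 78) (nat_lit 0) (nat_lit 0) (XT.lf (nat_lit 152) (nat_lit 1439623060) (nat_lit 0) (nat_lit 18468446) (nat_lit 76) (nat_lit 18468446) (nat_lit 127) (nat_lit 1) (nat_lit 125) (nat_lit 1) (nat_lit 126) (nat_lit 1) (nat_lit 415) (nat_lit 367) (nat_lit 238)) (XT.lf (nat_lit 0) (nat_lit 466803634) (nat_lit 0) (nat_lit 518733052) (nat_lit 152) (nat_lit 466803634)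 (nat_lit 125) (nat_lit 3) (nat_lit 125) (nat_lit 1) (nat_lit 127) (nat_lit 1) (nat_lit 416) (nat_lit 367) (nat_lit 237)))))) (XT.nd (nat_lit 468) (nat_lit 532) (nat_lit 0) (XT.nd (nat_lit 234) (nat_lit 228) (nat_lit 0) (XT.nd (nat_lit 78) (nat_lit 152) (nat_lit 0) (XT.lf (nat_lit 76) (nat_lit 443320805) (nat_lit 0) (nat_lit 492777394) (nat_lit 76) (nat_lit 492777394) (nat_lit 125) (nat_lit 3) (nat_lit 124) (nat_lit 1) (nat_lit 125) (nat_lit 1) (nat_lit 417) (nat_lit 367) (nat_lit 236)) (XT.nd (nat_lit 78) (nat_lit 0) (nat_lit 0) (XT.lf (nat_lit 152) (nat_lit 1375745456) (nat_lit 0) (nat_lit 15194036) (nat_lit 76) (nat_lit 15194036) (nat_lit 124) (nat_lit 1) (nat_lit 122) (nat_lit 1) (nat_lit 123) (nat_lit 1) (nat_lit 418) (nat_lit 367) (nat_lit 235)) (XT.lf (nat_lit 0) (nat_lit 446782800) (nat_lit 0) (nat_lit 489505261) (nat_lit 152) (nat_lit 446782800) (nat_lit 122) (nat_lit 3) (nat_lit 122) (nat_lit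 1) (nat_lit 124) (nat_lit 1) (nat_lit 419) (nat_lit 367) (nat_lit 234)))) (XT.nd (nat_lit 78) (nat_lit 152) (nat_lit 0) (XT.lf (nat_lit 76) (nat_lit 426451446) (nat_lit 0) (nat_lit 467139504) (nat_lit 76) (nat_lit 467139504) (nat_lit 122) (nat_lit 3) (nat_lit 121) (nat_lit 1) (nat_lit 122) (nat_lit 1) (nat_lit 420) (nat_lit 367) (nat_lit 233)) (XT.nd (nat_lit 78) (nat_lit 0) (nat_lit 0) (XT.lf (nat_lit 152) (nat_lit 1314080621) (nat_lit 0) (nat_lit 12500171) (nat_lit 76) (nat_lit 12500171) (nat_lit 121) (nat_lit 1) (nat_lit 119) (nat_lit 1) (nat_lit 120) (nat_lit 1) (nat_lit 421) (nat_lit 367) (nat_lit 232)) (XT.lf (nat_lit 0) (nat_lit 427323883) (nat_lit 0) (nat_lit 462471757) (nat_lit 152) (nat_lit 427323883) (nat_lit 119) (nat_lit 3) (nat_lit 119) (nat_lit 1) (nat_lit 121) (nat_lit 1) (nat_lit 422) (nat_lit 367) (nat_lit 231))))) (XT.nd (nat_lit 234) (nat_lit 304) (nat_lit 0) (XT.nd (nat_lit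 78) (nat_lit 152) (nat_lit 0) (XT.lf (nat_lit 76) (nat_lit 409633444) (nat_lit 0) (nat_lit 443107610) (nat_lit 76) (nat_lit 443107610) (nat_lit 119) (nat_lit 3) (nat_lit 118) (nat_lit 1) (nat_lit 119) (nat_lit 1) (nat_lit 423) (nat_lit 367) (nat_lit 230)) (XT.nd (nat_lit 78) (nat_lit 0) (nat_lit 0) (XT.lf (nat_lit 152) (nat_lit 1254670169) (nat_lit 0) (nat_lit 10283921) (nat_lit 76) (nat_lit 10283921) (nat_lit 118) (nat_lit 1) (nat_lit 116) (nat_lit 1) (nat_lit 117) (nat_lit 1) (nat_lit 424) (nat_lit 367) (nat_lit 229)) (XT.lf (nat_lit 0) (nat_lit 408469527) (nat_lit 0) (nat_lit 437385770) (nat_lit 152) (nat_lit 408469527) (nat_lit 116) (nat_lit 3) (nat_lit 116) (nat_lit 1) (nat_lit 118) (nat_lit 1) (nat_lit 425) (nat_lit 367) (nat_lit 228)))) (XT.nd (nat_lit 156) (nat_lit 76) (nat_lit 0) (XT.nd (nat_lit 78) (nat_lit 152) (nat_lit 0) (XT.lf (nat_lit 76) (nat_lit 392997671) (nat_lit 0) (nat_lit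 420536950) (nat_lit 76) (nat_lit 420536950) (nat_lit 116) (nat_lit 3) (nat_lit 115) (nat_lit 1) (nat_lit 116) (nat_lit 1) (nat_lit 426) (nat_lit 367) (nat_lit 227)) (XT.lf (nat_lit 152) (nat_lit 1197527672) (nat_lit 0) (nat_lit 8460608) (nat_lit 76) (nat_lit 8460608) (nat_lit 115) (nat_lit 1) (nat_lit 113) (nat_lit 1) (nat_lit 114) (nat_lit 1) (nat_lit 427) (nat_lit 367) (nat_lit 226))) (XT.nd (nat_lit 78) (nat_lit 76) (nat_lit 0) (XT.lf (nat_lit 0) (nat_lit 390248045) (nat_lit 0) (nat_lit 414037509) (nat_lit 152) (nat_lit 390248045) (nat_lit 113) (nat_lit 3) (nat_lit 113) (nat_lit 1) (nat_lit 115) (nat_lit 1) (nat_lit 428) (nat_lit 367) (nat_lit 225)) (XT.lf (nat_lit 76) (nat_lit 376645130) (nat_lit 0) (nat_lit 399301763) (nat_lit 76) (nat_lit 399301763) (nat_lit 113) (nat_lit 3) (nat_lit 112) (nat_lit 1) (nat_lit 113) (nat_lit 1) (nat_lit 429) (nat_lit 367) (nat_lit 224))))))))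
noncomputable def ec131 : XT := (XT.nd (nat_lit 42120) (nat_lit 0) (nat_lit 11172) (XT.nd (nat_lit 936) (nat_lit 608) (nat_lit 0) (XT.nd (nat_lit 468) (nat_lit 456) (nat_lit 0) (XT.nd (nat_lit 234) (nat_lit 228) (nat_lit 0) (XT.nd (nat_lit 78) (nat_lit 76) (nat_lit 0) (XT.lf (nat_lit 152) (nat_lit 1142644617) (nat_lit 0) (nat_lit 6960563) (nat_lit 76) (nat_lit 6960563) (nat_lit 112) (nat_lit 1) (nat_lit 110) (nat_lit 1) (nat_lit 111) (nat_lit 1) (nat_lit 430) (nat_lit 367) (nat_lit 223)) (XT.nd (nat_lit 78) (nat_lit 76) (nat_lit 0) (XT.lf (nat_lit 0) (nat_lit 372676274) (nat_lit 0) (nat_lit 392247925) (nat_lit 152) (nat_lit 372676274) (nat_lit 110) (nat_lit 3) (nat_lit 110) (nat_lit 1) (nat_lit 112) (nat_lit 1) (nat_lit 431) (nat_lit 367) (nat_lit 222)) (XT.lf (nat_lit 76) (nat_lit 360652570) (nat_lit 0) (nat_lit 379292238) (nat_lit 76) (nat_lit 379292238) (nat_lit 110) (nat_lit 3) (nat_lit 109)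 (nat_lit 1) (nat_lit 110) (nat_lit 1) (nat_lit 432) (nat_lit 367) (nat_lit 221)))) (XT.nd (nat_lit 78) (nat_lit 76) (nat_lit 0) (XT.lf (nat_lit 152) (nat_lit 1089995256) (nat_lit 0) (nat_lit 5726472) (nat_lit 76) (nat_lit 5726472) (nat_lit 109) (nat_lit 1) (nat_lit 107) (nat_lit 1) (nat_lit 108) (nat_lit 1) (nat_lit 433) (nat_lit 367) (nat_lit 220)) (XT.nd (nat_lit 78) (nat_lit 76) (nat_lit 0) (XT.lf (nat_lit 0) (nat_lit 355761923) (nat_lit 0) (nat_lit 371863569) (nat_lit 152) (nat_lit 355761923) (nat_lit 107) (nat_lit 3) (nat_lit 107) (nat_lit 1) (nat_lit 109) (nat_lit 1) (nat_lit 434) (nat_lit 367) (nat_lit 219)) (XT.lf (nat_lit 76) (nat_lit 345077085) (nat_lit 0) (nat_lit 360411986) (nat_lit 76) (nat_lit 360411986) (nat_lit 107) (nat_lit 3) (nat_lit 106) (nat_lit 1) (nat_lit 107) (nat_lit 1) (nat_lit 435) (nat_lit 367) (nat_lit 218))))) (XT.nd (nat_lit 234) (nat_lit 228) (nat_lit 0) (XT.nd (nat_lit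 78) (nat_lit 76) (nat_lit 0) (XT.lf (nat_lit 152) (nat_lit 1039540558) (nat_lit 0) (nat_lit 4711183) (nat_lit 76) (nat_lit 4711183) (nat_lit 106) (nat_lit 1) (nat_lit 104) (nat_lit 1) (nat_lit 105) (nat_lit 1) (nat_lit 436) (nat_lit 367) (nat_lit 217)) (XT.nd (nat_lit 78) (nat_lit 76) (nat_lit 0) (XT.lf (nat_lit 0) (nat_lit 339505481) (nat_lit 0) (nat_lit 352752345) (nat_lit 152) (nat_lit 339505481) (nat_lit 104) (nat_lit 3) (nat_lit 104) (nat_lit 1) (nat_lit 106) (nat_lit 1) (nat_lit 437) (nat_lit 367) (nat_lit 216)) (XT.lf (nat_lit 76) (nat_lit 329959889) (nat_lit 0) (nat_lit 342575950) (nat_lit 76) (nat_lit 342575950) (nat_lit 104) (nat_lit 3) (nat_lit 103) (nat_lit 1) (nat_lit 104) (nat_lit 1) (nat_lit 438) (nat_lit 367) (nat_lit 215)))) (XT.nd (nat_lit 78) (nat_lit 76) (nat_lit 0) (XT.lf (nat_lit 152) (nat_lit 991231413) (nat_lit 0) (nat_lit 3875902) (nat_lit 76) (nat_lit 3875902) (nat_lit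 103) (nat_lit 1) (nat_lit 101) (nat_lit 1) (nat_lit 102) (nat_lit 1) (nat_lit 439) (nat_lit 367) (nat_lit 214)) (XT.nd (nat_lit 78) (nat_lit 76) (nat_lit 0) (XT.lf (nat_lit 0) (nat_lit 323901777) (nat_lit 0) (nat_lit 334800005) (nat_lit 152) (nat_lit 323901777) (nat_lit 101) (nat_lit 3) (nat_lit 101) (nat_lit 1) (nat_lit 103) (nat_lit 1) (nat_lit 440) (nat_lit 367) (nat_lit 213)) (XT.lf (nat_lit 76) (nat_lit 315329405) (nat_lit 0) (nat_lit 325708670) (nat_lit 76) (nat_lit 325708670) (nat_lit 101) (nat_lit 3) (nat_lit 100) (nat_lit 1) (nat_lit 101) (nat_lit 1) (nat_lit 441) (nat_lit 367) (nat_lit 212)))))) (XT.nd (nat_lit 468) (nat_lit 152) (nat_lit 0) (XT.nd (nat_lit 234) (nat_lit 228) (nat_lit 0) (XT.nd (nat_lit 78) (nat_lit 76) (nat_lit 0) (XT.lf (nat_lit 152) (nat_lit 945011225) (nat_lit 0) (nat_lit 3188714) (nat_lit 76) (nat_lit 3188714) (nat_lit 100) (nat_lit 1) (nat_lit 98) (nat_lit 1) (nat_lit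 99) (nat_lit 1) (nat_lit 442) (nat_lit 367) (nat_lit 211)) (XT.nd (nat_lit 78) (nat_lit 76) (nat_lit 0) (XT.lf (nat_lit 0) (nat_lit 308941249) (nat_lit 0) (nat_lit 317907248) (nat_lit 152) (nat_lit 308941249) (nat_lit 98) (nat_lit 3) (nat_lit 98) (nat_lit 1) (nat_lit 100) (nat_lit 1) (nat_lit 443) (nat_lit 367) (nat_lit 210)) (XT.lf (nat_lit 76) (nat_lit 301203794) (nat_lit 0) (nat_lit 309742841) (nat_lit 76) (nat_lit 309742841) (nat_lit 98) (nat_lit 3) (nat_lit 97) (nat_lit 1) (nat_lit 98) (nat_lit 1) (nat_lit 444) (nat_lit 367) (nat_lit 209)))) (XT.nd (nat_lit 78) (nat_lit 76) (nat_lit 0) (XT.lf (nat_lit 152) (nat_lit 900818015) (nat_lit 0) (nat_lit 2623363) (nat_lit 76) (nat_lit 2623363) (nat_lit 97) (nat_lit 1) (nat_lit 95) (nat_lit 1) (nat_lit 96) (nat_lit 1) (nat_lit 445) (nat_lit 367) (nat_lit 208)) (XT.nd (nat_lit 78) (nat_lit 76) (nat_lit 0) (XT.lf (nat_lit 0) (nat_lit 294610973) (nat_lit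 0) (nat_lit 301987323) (nat_lit 152) (nat_lit 294610973) (nat_lit 95) (nat_lit 3) (nat_lit 95) (nat_lit 1) (nat_lit 97) (nat_lit 1) (nat_lit 446) (nat_lit 367) (nat_lit 207)) (XT.lf (nat_lit 76) (nat_lit 287593024) (nat_lit 0) (nat_lit 294618118) (nat_lit 76) (nat_lit 294618118) (nat_lit 95) (nat_lit 3) (nat_lit 94) (nat_lit 1) (nat_lit 95) (nat_lit 1) (nat_lit 447) (nat_lit 367) (nat_lit 206))))) (XT.nd (nat_lit 40404) (nat_lit 0) (nat_lit 15200) (XT.nd (nat_lit 78) (nat_lit 0) (nat_lit 0) (XT.lf (nat_lit 152) (nat_lit 858586106) (nat_lit 0) (nat_lit 2158247) (nat_lit 76) (nat_lit 2158247) (nat_lit 94) (nat_lit 1) (nat_lit 92) (nat_lit 1) (nat_lit 93) (nat_lit 1) (nat_lit 448) (nat_lit 367) (nat_lit 205)) (XT.nd (nat_lit 40248) (nat_lit 0) (nat_lit 15200) (XT.lf (nat_lit 0) (nat_lit 280895503) (nat_lit 0) (nat_lit 286964044) (nat_lit 152) (nat_lit 280895503) (nat_lit 92) (nat_lit 3) (nat_lit 92)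 (nat_lit 1) (nat_lit 94) (nat_lit 1) (nat_lit 449) (nat_lit 367) (nat_lit 204)) (XT.lf (nat_lit 836) (nat_lit 2106444655) (nat_lit 0) (nat_lit 3739987643) (nat_lit 836) (nat_lit 2106444655) (nat_lit 303) (nat_lit 1) (nat_lit 292) (nat_lit 0) (nat_lit 303) (nat_lit 0) (nat_lit 284) (nat_lit 368) (nat_lit 368)))) (XT.nd (nat_lit 156) (nat_lit 0) (nat_lit 76) (XT.nd (nat_lit 78) (nat_lit 0) (nat_lit 76) (XT.lf (nat_lit 836) (nat_lit 8164842462) (nat_lit 76) (nat_lit 3679665261) (nat_lit 0) (nat_lit 3679665261) (nat_lit 303) (nat_lit 1) (nat_lit 293) (nat_lit 1) (nat_lit 292) (nat_lit 0) (nat_lit 285) (nat_lit 368) (nat_lit 367)) (XT.lf (nat_lit 836) (nat_lit 3891240979) (nat_lit 0) (nat_lit 7371906822) (nat_lit 760) (nat_lit 3891240979) (nat_lit 304) (nat_lit 1) (nat_lit 293) (nat_lit 1) (nat_lit 303) (nat_lit 1) (nat_lit 286) (nat_lit 368) (nat_lit 366))) (XT.nd (nat_lit 78) (nat_lit 0) (nat_lit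 76) (XT.lf (nat_lit 836) (nat_lit 7299427376) (nat_lit 76) (nat_lit 3748561993) (nat_lit 0) (nat_lit 3748561993) (nat_lit 304) (nat_lit 1) (nat_lit 294) (nat_lit 1) (nat_lit 293) (nat_lit 1) (nat_lit 287) (nat_lit 368) (nat_lit 365)) (XT.lf (nat_lit 836) (nat_lit 3359856324) (nat_lit 0) (nat_lit 7730342945) (nat_lit 760) (nat_lit 3359856324) (nat_lit 305) (nat_lit 1) (nat_lit 294) (nat_lit 1) (nat_lit 304) (nat_lit 1) (nat_lit 288) (nat_lit 368) (nat_lit 364))))))) (XT.nd (nat_lit 1014) (nat_lit 2356) (nat_lit 0) (XT.nd (nat_lit 468) (nat_lit 1824) (nat_lit 0) (XT.nd (nat_lit 234) (nat_lit 0) (nat_lit 152) (XT.nd (nat_lit 78) (nat_lit 0) (nat_lit 76) (XT.lf (nat_lit 836) (nat_lit 6042920433) (nat_lit 76) (nat_lit 4035600953) (nat_lit 0) (nat_lit 4035600953) (nat_lit 305) (nat_lit 1) (nat_lit 295) (nat_lit 1) (nat_lit 294) (nat_lit 1) (nat_lit 289) (nat_lit 368) (nat_lit 363)) (XT.nd (nat_lit 78)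 (nat_lit 0) (nat_lit 0) (XT.lf (nat_lit 836) (nat_lit 2649646074) (nat_lit 0) (nat_lit 8490176414) (nat_lit 760) (nat_lit 2649646074) (nat_lit 306) (nat_lit 1) (nat_lit 295) (nat_lit 1) (nat_lit 305) (nat_lit 1) (nat_lit 290) (nat_lit 368) (nat_lit 362)) (XT.lf (nat_lit 836) (nat_lit 4454136406) (nat_lit 76) (nat_lit 4509808604) (nat_lit 0) (nat_lit 4509808604) (nat_lit 306) (nat_lit 1) (nat_lit 296) (nat_lit 1) (nat_lit 295) (nat_lit 1) (nat_lit 291) (nat_lit 368) (nat_lit 361)))) (XT.nd (nat_lit 78) (nat_lit 0) (nat_lit 0) (XT.lf (nat_lit 836) (nat_lit 1788103773) (nat_lit 0) (nat_lit 9593388091) (nat_lit 760) (nat_lit 1788103773) (nat_lit 307) (nat_lit 1) (nat_lit 296) (nat_lit 1) (nat_lit 306) (nat_lit 1) (nat_lit 292) (nat_lit 368) (nat_lit 360)) (XT.nd (nat_lit 78) (nat_lit 0) (nat_lit 76) (XT.lf (nat_lit 836) (nat_lit 2585352755) (nat_lit 76) (nat_lit 5143600210) (nat_lit 0) (nat_lit 5143600210)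 (nat_lit 307) (nat_lit 1) (nat_lit 297) (nat_lit 1) (nat_lit 296) (nat_lit 1) (nat_lit 293) (nat_lit 368) (nat_lit 359)) (XT.lf (nat_lit 76) (nat_lit 799649347) (nat_lit 0) (nat_lit 10988338671) (nat_lit 760) (nat_lit 799649347) (nat_lit 298) (nat_lit 1) (nat_lit 297) (nat_lit 1) (nat_lit 307) (nat_lit 1) (nat_lit 294) (nat_lit 368) (nat_lit 358))))) (XT.nd (nat_lit 234) (nat_lit 760) (nat_lit 0) (XT.nd (nat_lit 78) (nat_lit 532) (nat_lit 0) (XT.lf (nat_lit 836) (nat_lit 482968320) (nat_lit 0) (nat_lit 5912440535) (nat_lit 760) (nat_lit 5912440535) (nat_lit 298) (nat_lit 1) (nat_lit 287) (nat_lit 1) (nat_lit 297) (nat_lit 1) (nat_lit 295) (nat_lit 368) (nat_lit 357)) (XT.nd (nat_lit 78) (nat_lit 0) (nat_lit 0) (XT.lf (nat_lit 532) (nat_lit 11461446475) (nat_lit 0) (nat_lit 289317578) (nat_lit 456) (nat_lit 289317578) (nat_lit 287) (nat_lit 1) (nat_lit 280) (nat_lit 1) (nat_lit 286) (nat_lit 1)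 (nat_lit 296) (nat_lit 368) (nat_lit 356)) (XT.lf (nat_lit 76) (nat_lit 5010924451) (nat_lit 0) (nat_lit 1753909479) (nat_lit 532) (nat_lit 5010924451) (nat_lit 281) (nat_lit 1) (nat_lit 280) (nat_lit 1) (nat_lit 287) (nat_lit 1) (nat_lit 297) (nat_lit 368) (nat_lit 355)))) (XT.nd (nat_lit 156) (nat_lit 380) (nat_lit 0) (XT.nd (nat_lit 78) (nat_lit 0) (nat_lit 0) (XT.lf (nat_lit 456) (nat_lit 8622514731) (nat_lit 0) (nat_lit 1450080066) (nat_lit 380) (nat_lit 1450080066) (nat_lit 281) (nat_lit 1) (nat_lit 275) (nat_lit 1) (nat_lit 280) (nat_lit 1) (nat_lit 298) (nat_lit 368) (nat_lit 354)) (XT.lf (nat_lit 76) (nat_lit 3574231410) (nat_lit 0) (nat_lit 4126449040) (nat_lit 456) (nat_lit 3574231410) (nat_lit 276) (nat_lit 1) (nat_lit 275) (nat_lit 1) (nat_lit 281) (nat_lit 1) (nat_lit 299) (nat_lit 368) (nat_lit 353))) (XT.nd (nat_lit 78) (nat_lit 0) (nat_lit 0) (XT.lf (nat_lit 456) (nat_lit 5678048229)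 (nat_lit 0) (nat_lit 2678864776) (nat_lit 380) (nat_lit 2678864776) (nat_lit 276) (nat_lit 1) (nat_lit 270) (nat_lit 1) (nat_lit 275) (nat_lit 1) (nat_lit 300) (nat_lit 368) (nat_lit 352)) (XT.lf (nat_lit 76) (nat_lit 2092285310) (nat_lit 0) (nat_lit 6619027905) (nat_lit 456) (nat_lit 2092285310) (nat_lit 271) (nat_lit 1) (nat_lit 270) (nat_lit 1) (nat_lit 276) (nat_lit 1) (nat_lit 301) (nat_lit 368) (nat_lit 351)))))) (XT.nd (nat_lit 468) (nat_lit 1064) (nat_lit 0) (XT.nd (nat_lit 234) (nat_lit 608) (nat_lit 0) (XT.nd (nat_lit 78) (nat_lit 380) (nat_lit 0) (XT.lf (nat_lit 380) (nat_lit 2655452481) (nat_lit 0) (nat_lit 3960969603) (nat_lit 304) (nat_lit 3960969603) (nat_lit 271) (nat_lit 1) (nat_lit 266) (nat_lit 1) (nat_lit 270) (nat_lit 1) (nat_lit 302) (nat_lit 368) (nat_lit 350)) (XT.nd (nat_lit 78) (nat_lit 380) (nat_lit 0) (XT.lf (nat_lit 76) (nat_lit 577808741) (nat_lit 0) (nat_lit 9204266168)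 (nat_lit 380) (nat_lit 577808741) (nat_lit 267) (nat_lit 1) (nat_lit 266) (nat_lit 1) (nat_lit 271) (nat_lit 1) (nat_lit 303) (nat_lit 368) (nat_lit 349)) (XT.lf (nat_lit 76) (nat_lit 4868782486) (nat_lit 0) (nat_lit 407769990) (nat_lit 380) (nat_lit 4868782486) (nat_lit 262) (nat_lit 1) (nat_lit 261) (nat_lit 1) (nat_lit 266) (nat_lit 1) (nat_lit 304) (nat_lit 368) (nat_lit 348)))) (XT.nd (nat_lit 78) (nat_lit 304) (nat_lit 0) (XT.lf (nat_lit 380) (nat_lit 8053734047) (nat_lit 0) (nat_lit 942611384) (nat_lit 304) (nat_lit 942611384) (nat_lit 262) (nat_lit 1) (nat_lit 257) (nat_lit 1) (nat_lit 261) (nat_lit 1) (nat_lit 305) (nat_lit 368) (nat_lit 347)) (XT.nd (nat_lit 78) (nat_lit 304) (nat_lit 0) (XT.lf (nat_lit 76) (nat_lit 3159028560) (nat_lit 0) (nat_lit 3418062011) (nat_lit 380) (nat_lit 3159028560) (nat_lit 258) (nat_lit 1) (nat_lit 257) (nat_lit 1) (nat_lit 262) (nat_lit 1) (nat_lit 306)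 (nat_lit 368) (nat_lit 346)) (XT.lf (nat_lit 380) (nat_lit 4609901442) (nat_lit 0) (nat_lit 2465206851) (nat_lit 304) (nat_lit 2465206851) (nat_lit 258) (nat_lit 1) (nat_lit 253) (nat_lit 1) (nat_lit 257) (nat_lit 1) (nat_lit 307) (nat_lit 368) (nat_lit 345))))) (XT.nd (nat_lit 234) (nat_lit 456) (nat_lit 0) (XT.nd (nat_lit 78) (nat_lit 608) (nat_lit 0) (XT.lf (nat_lit 76) (nat_lit 1453757178) (nat_lit 0) (nat_lit 6442722127) (nat_lit 380) (nat_lit 1453757178) (nat_lit 254) (nat_lit 1) (nat_lit 253) (nat_lit 1) (nat_lit 258) (nat_lit 1) (nat_lit 308) (nat_lit 368) (nat_lit 344)) (XT.nd (nat_lit 78) (nat_lit 380) (nat_lit 0) (XT.lf (nat_lit 304) (nat_lit 1182278450) (nat_lit 0) (nat_lit 3990991205) (nat_lit 228) (nat_lit 3990991205) (nat_lit 254) (nat_lit 1) (nat_lit 250) (nat_lit 1) (nat_lit 253) (nat_lit 1) (nat_lit 309) (nat_lit 368) (nat_lit 343)) (XT.lf (nat_lit 380) (nat_lit 8513022171) (nat_lit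 0) (nat_lit 236220030) (nat_lit 304) (nat_lit 236220030) (nat_lit 250) (nat_lit 1) (nat_lit 245) (nat_lit 1) (nat_lit 249) (nat_lit 1) (nat_lit 310) (nat_lit 368) (nat_lit 342)))) (XT.nd (nat_lit 156) (nat_lit 228) (nat_lit 0) (XT.nd (nat_lit 78) (nat_lit 228) (nat_lit 0) (XT.lf (nat_lit 76) (nat_lit 3331208511) (nat_lit 0) (nat_lit 2145236211) (nat_lit 380) (nat_lit 3331208511) (nat_lit 246) (nat_lit 1) (nat_lit 245) (nat_lit 1) (nat_lit 250) (nat_lit 1) (nat_lit 311) (nat_lit 368) (nat_lit 341)) (XT.lf (nat_lit 304) (nat_lit 4865335345) (nat_lit 0) (nat_lit 1885664169) (nat_lit 228) (nat_lit 1885664169) (nat_lit 246) (nat_lit 1) (nat_lit 242) (nat_lit 1) (nat_lit 245) (nat_lit 1) (nat_lit 312) (nat_lit 368) (nat_lit 340))) (XT.nd (nat_lit 78) (nat_lit 228) (nat_lit 0) (XT.lf (nat_lit 76) (nat_lit 1537034694) (nat_lit 0) (nat_lit 5395949028) (nat_lit 304) (nat_lit 1537034694) (nat_lit 243) (nat_lit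 1) (nat_lit 242) (nat_lit 1) (nat_lit 246) (nat_lit 1) (nat_lit 313) (nat_lit 368) (nat_lit 339)) (XT.lf (nat_lit 304) (nat_lit 1281070376) (nat_lit 0) (nat_lit 3513046954) (nat_lit 228) (nat_lit 3513046954) (nat_lit 243) (nat_lit 1) (nat_lit 239) (nat_lit 1) (nat_lit 242) (nat_lit 1) (nat_lit 314) (nat_lit 368) (nat_lit 338))))))))
noncomputable def ec132 : XT := (XT.nd (nat_lit 1950) (nat_lit 1900) (nat_lit 0) (XT.nd (nat_lit 936) (nat_lit 1444) (nat_lit 0) (XT.nd (nat_lit 468) (nat_lit 532) (nat_lit 0) (XT.nd (nat_lit 234) (nat_lit 456) (nat_lit 0) (XT.nd (nat_lit 78) (nat_lit 228) (nat_lit 0) (XT.lf (nat_lit 304) (nat_lit 7710030036) (nat_lit 0) (nat_lit 220165177) (nat_lit 228) (nat_lit 220165177) (nat_lit 239) (nat_lit 1) (nat_lit 235) (nat_lit 1) (nat_lit 238) (nat_lit 1) (nat_lit 315) (nat_lit 368) (nat_lit 337)) (XT.nd (nat_lit 78) (nat_lit 228) (nat_lit 0) (XT.lf (nat_lit 76) (nat_lit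 2916483561) (nat_lit 0) (nat_lit 2161085034) (nat_lit 304) (nat_lit 2916483561) (nat_lit 236) (nat_lit 1) (nat_lit 235) (nat_lit 1) (nat_lit 239) (nat_lit 1) (nat_lit 316) (nat_lit 368) (nat_lit 336)) (XT.lf (nat_lit 304) (nat_lit 4010431947) (nat_lit 0) (nat_lit 1916547702) (nat_lit 228) (nat_lit 1916547702) (nat_lit 236) (nat_lit 1) (nat_lit 232) (nat_lit 1) (nat_lit 235) (nat_lit 1) (nat_lit 317) (nat_lit 368) (nat_lit 335)))) (XT.nd (nat_lit 78) (nat_lit 456) (nat_lit 0) (XT.lf (nat_lit 76) (nat_lit 1104469687) (nat_lit 0) (nat_lit 5488100317) (nat_lit 304) (nat_lit 1104469687) (nat_lit 233) (nat_lit 1) (nat_lit 232) (nat_lit 1) (nat_lit 236) (nat_lit 1) (nat_lit 318) (nat_lit 368) (nat_lit 334)) (XT.nd (nat_lit 78) (nat_lit 304) (nat_lit 0) (XT.lf (nat_lit 228) (nat_lit 404714416) (nat_lit 0) (nat_lit 3574299043) (nat_lit 152) (nat_lit 3574299043) (nat_lit 233) (nat_lit 1) (nat_lit 230) (nat_lit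 1) (nat_lit 232) (nat_lit 1) (nat_lit 319) (nat_lit 368) (nat_lit 333)) (XT.lf (nat_lit 304) (nat_lit 6115099125) (nat_lit 0) (nat_lit 649467851) (nat_lit 228) (nat_lit 649467851) (nat_lit 230) (nat_lit 1) (nat_lit 226) (nat_lit 1) (nat_lit 229) (nat_lit 1) (nat_lit 320) (nat_lit 368) (nat_lit 332))))) (XT.nd (nat_lit 234) (nat_lit 380) (nat_lit 0) (XT.nd (nat_lit 78) (nat_lit 152) (nat_lit 0) (XT.lf (nat_lit 76) (nat_lit 2135858969) (nat_lit 0) (nat_lit 3004596900) (nat_lit 304) (nat_lit 2135858969) (nat_lit 227) (nat_lit 1) (nat_lit 226) (nat_lit 1) (nat_lit 230) (nat_lit 1) (nat_lit 321) (nat_lit 368) (nat_lit 331)) (XT.nd (nat_lit 78) (nat_lit 0) (nat_lit 0) (XT.lf (nat_lit 228) (nat_lit 2467655568) (nat_lit 0) (nat_lit 2337594848) (nat_lit 152) (nat_lit 2337594848) (nat_lit 227) (nat_lit 1) (nat_lit 224) (nat_lit 1) (nat_lit 226) (nat_lit 1) (nat_lit 322) (nat_lit 368) (nat_lit 330)) (XT.lf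 (nat_lit 76) (nat_lit 354523780) (nat_lit 0) (nat_lit 6304757476) (nat_lit 228) (nat_lit 354523780) (nat_lit 225) (nat_lit 1) (nat_lit 224) (nat_lit 1) (nat_lit 227) (nat_lit 1) (nat_lit 323) (nat_lit 368) (nat_lit 329)))) (XT.nd (nat_lit 78) (nat_lit 152) (nat_lit 0) (XT.lf (nat_lit 76) (nat_lit 2925946959) (nat_lit 0) (nat_lit 1033339959) (nat_lit 228) (nat_lit 2925946959) (nat_lit 222) (nat_lit 1) (nat_lit 221) (nat_lit 1) (nat_lit 224) (nat_lit 1) (nat_lit 324) (nat_lit 368) (nat_lit 328)) (XT.nd (nat_lit 78) (nat_lit 0) (nat_lit 0) (XT.lf (nat_lit 228) (nat_lit 4063190169) (nat_lit 0) (nat_lit 1348869048) (nat_lit 152) (nat_lit 1348869048) (nat_lit 222) (nat_lit 1) (nat_lit 219) (nat_lit 1) (nat_lit 221) (nat_lit 1) (nat_lit 325) (nat_lit 368) (nat_lit 327)) (XT.lf (nat_lit 76) (nat_lit 1146526557) (nat_lit 0) (nat_lit 4346316963) (nat_lit 228) (nat_lit 1146526557) (nat_lit 220) (nat_lit 1)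 (nat_lit 219) (nat_lit 1) (nat_lit 222) (nat_lit 1) (nat_lit 326) (nat_lit 368) (nat_lit 326)))))) (XT.nd (nat_lit 468) (nat_lit 760) (nat_lit 0) (XT.nd (nat_lit 234) (nat_lit 304) (nat_lit 0) (XT.nd (nat_lit 78) (nat_lit 228) (nat_lit 0) (XT.lf (nat_lit 228) (nat_lit 537106413) (nat_lit 0) (nat_lit 2991577888) (nat_lit 152) (nat_lit 2991577888) (nat_lit 220) (nat_lit 1) (nat_lit 217) (nat_lit 1) (nat_lit 219) (nat_lit 1) (nat_lit 327) (nat_lit 368) (nat_lit 325)) (XT.nd (nat_lit 78) (nat_lit 0) (nat_lit 0) (XT.lf (nat_lit 228) (nat_lit 5279028822) (nat_lit 0) (nat_lit 562788361) (nat_lit 152) (nat_lit 562788361) (nat_lit 217) (nat_lit 1) (nat_lit 214) (nat_lit 1) (nat_lit 216) (nat_lit 1) (nat_lit 328) (nat_lit 368) (nat_lit 324)) (XT.lf (nat_lit 76) (nat_lit 1757401631) (nat_lit 0) (nat_lit 2775132756) (nat_lit 228) (nat_lit 1757401631) (nat_lit 215) (nat_lit 1) (nat_lit 214) (nat_lit 1) (nat_lit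 217) (nat_lit 1) (nat_lit 329) (nat_lit 368) (nat_lit 323)))) (XT.nd (nat_lit 78) (nat_lit 152) (nat_lit 0) (XT.lf (nat_lit 228) (nat_lit 1789828238) (nat_lit 0) (nat_lit 2194383634) (nat_lit 152) (nat_lit 2194383634) (nat_lit 215) (nat_lit 1) (nat_lit 212) (nat_lit 1) (nat_lit 214) (nat_lit 1) (nat_lit 330) (nat_lit 368) (nat_lit 322)) (XT.nd (nat_lit 78) (nat_lit 152) (nat_lit 0) (XT.lf (nat_lit 76) (nat_lit 58826717) (nat_lit 0) (nat_lit 5953506276) (nat_lit 228) (nat_lit 58826717) (nat_lit 213) (nat_lit 1) (nat_lit 212) (nat_lit 1) (nat_lit 215) (nat_lit 1) (nat_lit 331) (nat_lit 368) (nat_lit 321)) (XT.lf (nat_lit 76) (nat_lit 2221200953) (nat_lit 0) (nat_lit 1520639094) (nat_lit 152) (nat_lit 2221200953) (nat_lit 211) (nat_lit 1) (nat_lit 210) (nat_lit 1) (nat_lit 212) (nat_lit 1) (nat_lit 332) (nat_lit 368) (nat_lit 320))))) (XT.nd (nat_lit 234) (nat_lit 456) (nat_lit 0) (XT.nd (nat_lit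 78) (nat_lit 152) (nat_lit 0) (XT.lf (nat_lit 228) (nat_lit 2756257515) (nat_lit 0) (nat_lit 1551234466) (nat_lit 152) (nat_lit 1551234466) (nat_lit 211) (nat_lit 1) (nat_lit 208) (nat_lit 1) (nat_lit 210) (nat_lit 1) (nat_lit 333) (nat_lit 368) (nat_lit 319)) (XT.nd (nat_lit 78) (nat_lit 152) (nat_lit 0) (XT.lf (nat_lit 76) (nat_lit 552610582) (nat_lit 0) (nat_lit 4652006446) (nat_lit 228) (nat_lit 552610582) (nat_lit 209) (nat_lit 1) (nat_lit 208) (nat_lit 1) (nat_lit 211) (nat_lit 1) (nat_lit 334) (nat_lit 368) (nat_lit 318)) (XT.lf (nat_lit 76) (nat_lit 2565846837) (nat_lit 0) (nat_lit 524872125) (nat_lit 152) (nat_lit 2565846837) (nat_lit 207) (nat_lit 1) (nat_lit 206) (nat_lit 1) (nat_lit 208) (nat_lit 1) (nat_lit 335) (nat_lit 368) (nat_lit 317)))) (XT.nd (nat_lit 156) (nat_lit 304) (nat_lit 0) (XT.nd (nat_lit 78) (nat_lit 0) (nat_lit 0) (XT.lf (nat_lit 228) (nat_lit 3490209778) (nat_lit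 0) (nat_lit 1034213597) (nat_lit 152) (nat_lit 1034213597) (nat_lit 207) (nat_lit 1) (nat_lit 204) (nat_lit 1) (nat_lit 206) (nat_lit 1) (nat_lit 336) (nat_lit 368) (nat_lit 316)) (XT.lf (nat_lit 76) (nat_lit 934837614) (nat_lit 0) (nat_lit 3592971596) (nat_lit 228) (nat_lit 934837614) (nat_lit 205) (nat_lit 1) (nat_lit 204) (nat_lit 1) (nat_lit 207) (nat_lit 1) (nat_lit 337) (nat_lit 368) (nat_lit 315))) (XT.nd (nat_lit 78) (nat_lit 228) (nat_lit 0) (XT.lf (nat_lit 152) (nat_lit 268357835) (nat_lit 0) (nat_lit 2550055111) (nat_lit 76) (nat_lit 2550055111) (nat_lit 205) (nat_lit 1) (nat_lit 203) (nat_lit 1) (nat_lit 204) (nat_lit 1) (nat_lit 338) (nat_lit 368) (nat_lit 314)) (XT.lf (nat_lit 228) (nat_lit 4035813649) (nat_lit 0) (nat_lit 620382621) (nat_lit 152) (nat_lit 620382621) (nat_lit 203) (nat_lit 1) (nat_lit 200) (nat_lit 1) (nat_lit 202) (nat_lit 1) (nat_lit 339) (nat_lit 368) (nat_lit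 313))))))) (XT.nd (nat_lit 936) (nat_lit 988) (nat_lit 0) (XT.nd (nat_lit 468) (nat_lit 304) (nat_lit 0) (XT.nd (nat_lit 234) (nat_lit 304) (nat_lit 0) (XT.nd (nat_lit 78) (nat_lit 304) (nat_lit 0) (XT.lf (nat_lit 76) (nat_lit 1226429904) (nat_lit 0) (nat_lit 2732855558) (nat_lit 228) (nat_lit 1226429904) (nat_lit 201) (nat_lit 1) (nat_lit 200) (nat_lit 1) (nat_lit 203) (nat_lit 1) (nat_lit 340) (nat_lit 368) (nat_lit 312)) (XT.nd (nat_lit 78) (nat_lit 228) (nat_lit 0) (XT.lf (nat_lit 152) (nat_lit 901206407) (nat_lit 0) (nat_lit 2097936651) (nat_lit 76) (nat_lit 2097936651) (nat_lit 201) (nat_lit 1) (nat_lit 199) (nat_lit 1) (nat_lit 200) (nat_lit 1) (nat_lit 341) (nat_lit 368) (nat_lit 311)) (XT.lf (nat_lit 228) (nat_lit 4429235237) (nat_lit 0) (nat_lit 290897494) (nat_lit 152) (nat_lit 290897494) (nat_lit 199) (nat_lit 1) (nat_lit 196) (nat_lit 1) (nat_lit 198) (nat_lit 1) (nat_lit 342) (nat_lit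 368) (nat_lit 310)))) (XT.nd (nat_lit 78) (nat_lit 304) (nat_lit 0) (XT.lf (nat_lit 76) (nat_lit 1444545666) (nat_lit 0) (nat_lit 2035859348) (nat_lit 228) (nat_lit 1444545666) (nat_lit 197) (nat_lit 1) (nat_lit 196) (nat_lit 1) (nat_lit 199) (nat_lit 1) (nat_lit 343) (nat_lit 368) (nat_lit 309)) (XT.nd (nat_lit 78) (nat_lit 228) (nat_lit 0) (XT.lf (nat_lit 152) (nat_lit 1389451172) (nat_lit 0) (nat_lit 1725977674) (nat_lit 76) (nat_lit 1725977674) (nat_lit 197) (nat_lit 1) (nat_lit 195) (nat_lit 1) (nat_lit 196) (nat_lit 1) (nat_lit 344) (nat_lit 368) (nat_lit 308)) (XT.lf (nat_lit 228) (nat_lit 4700096466) (nat_lit 0) (nat_lit 30281304) (nat_lit 152) (nat_lit 30281304) (nat_lit 195) (nat_lit 1) (nat_lit 192) (nat_lit 1) (nat_lit 194) (nat_lit 1) (nat_lit 345) (nat_lit 368) (nat_lit 307))))) (XT.nd (nat_lit 234) (nat_lit 228) (nat_lit 0) (XT.nd (nat_lit 78) (nat_lit 76) (nat_lit 0) (XT.lf (nat_lit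 76) (nat_lit 1603249150) (nat_lit 0) (nat_lit 1472556351) (nat_lit 228) (nat_lit 1603249150) (nat_lit 193) (nat_lit 1) (nat_lit 192) (nat_lit 1) (nat_lit 195) (nat_lit 1) (nat_lit 346) (nat_lit 368) (nat_lit 306)) (XT.nd (nat_lit 78) (nat_lit 0) (nat_lit 0) (XT.lf (nat_lit 152) (nat_lit 1760272947) (nat_lit 0) (nat_lit 1419966104) (nat_lit 76) (nat_lit 1419966104) (nat_lit 193) (nat_lit 1) (nat_lit 191) (nat_lit 1) (nat_lit 192) (nat_lit 1) (nat_lit 347) (nat_lit 368) (nat_lit 305)) (XT.lf (nat_lit 0) (nat_lit 177029267) (nat_lit 0) (nat_lit 4169677724) (nat_lit 152) (nat_lit 177029267) (nat_lit 191) (nat_lit 3) (nat_lit 191) (nat_lit 1) (nat_lit 193) (nat_lit 1) (nat_lit 348) (nat_lit 368) (nat_lit 304)))) (XT.nd (nat_lit 78) (nat_lit 76) (nat_lit 0) (XT.lf (nat_lit 76) (nat_lit 1714061668) (nat_lit 0) (nat_lit 1018761303) (nat_lit 152) (nat_lit 1714061668) (nat_lit 190) (nat_lit 1) (nat_lit 189)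 (nat_lit 1) (nat_lit 191) (nat_lit 1) (nat_lit 349) (nat_lit 368) (nat_lit 303)) (XT.nd (nat_lit 78) (nat_lit 0) (nat_lit 0) (XT.lf (nat_lit 152) (nat_lit 2035959985) (nat_lit 0) (nat_lit 1168209628) (nat_lit 76) (nat_lit 1168209628) (nat_lit 190) (nat_lit 1) (nat_lit 188) (nat_lit 1) (nat_lit 189) (nat_lit 1) (nat_lit 350) (nat_lit 368) (nat_lit 302)) (XT.lf (nat_lit 0) (nat_lit 338356867) (nat_lit 0) (nat_lit 3623118634) (nat_lit 152) (nat_lit 338356867) (nat_lit 188) (nat_lit 3) (nat_lit 188) (nat_lit 1) (nat_lit 190) (nat_lit 1) (nat_lit 351) (nat_lit 368) (nat_lit 301)))))) (XT.nd (nat_lit 468) (nat_lit 532) (nat_lit 0) (XT.nd (nat_lit 234) (nat_lit 228) (nat_lit 0) (XT.nd (nat_lit 78) (nat_lit 76) (nat_lit 0) (XT.lf (nat_lit 76) (nat_lit 1786414799) (nat_lit 0) (nat_lit 654599873) (nat_lit 152) (nat_lit 1786414799) (nat_lit 187) (nat_lit 1) (nat_lit 186) (nat_lit 1) (nat_lit 188) (nat_lit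 1) (nat_lit 352) (nat_lit 368) (nat_lit 300)) (XT.nd (nat_lit 78) (nat_lit 0) (nat_lit 0) (XT.lf (nat_lit 152) (nat_lit 2234778914) (nat_lit 0) (nat_lit 961088952) (nat_lit 76) (nat_lit 961088952) (nat_lit 187) (nat_lit 1) (nat_lit 185) (nat_lit 1) (nat_lit 186) (nat_lit 1) (nat_lit 353) (nat_lit 368) (nat_lit 299)) (XT.lf (nat_lit 0) (nat_lit 461904604) (nat_lit 0) (nat_lit 3164286239) (nat_lit 152) (nat_lit 461904604) (nat_lit 185) (nat_lit 3) (nat_lit 185) (nat_lit 1) (nat_lit 187) (nat_lit 1) (nat_lit 354) (nat_lit 368) (nat_lit 298)))) (XT.nd (nat_lit 78) (nat_lit 76) (nat_lit 0) (XT.lf (nat_lit 76) (nat_lit 1828023136) (nat_lit 0) (nat_lit 363743247) (nat_lit 152) (nat_lit 1828023136) (nat_lit 184) (nat_lit 1) (nat_lit 183) (nat_lit 1) (nat_lit 185) (nat_lit 1) (nat_lit 355) (nat_lit 368) (nat_lit 297)) (XT.nd (nat_lit 78) (nat_lit 0) (nat_lit 0) (XT.lf (nat_lit 152) (nat_lit 2371691091)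 (nat_lit 0) (nat_lit 790690259) (nat_lit 76) (nat_lit 790690259) (nat_lit 184) (nat_lit 1) (nat_lit 182) (nat_lit 1) (nat_lit 183) (nat_lit 1) (nat_lit 356) (nat_lit 368) (nat_lit 296)) (XT.lf (nat_lit 0) (nat_lit 554807749) (nat_lit 0) (nat_lit 2778063807) (nat_lit 152) (nat_lit 554807749) (nat_lit 182) (nat_lit 3) (nat_lit 182) (nat_lit 1) (nat_lit 184) (nat_lit 1) (nat_lit 357) (nat_lit 368) (nat_lit 295))))) (XT.nd (nat_lit 234) (nat_lit 304) (nat_lit 0) (XT.nd (nat_lit 78) (nat_lit 76) (nat_lit 0) (XT.lf (nat_lit 76) (nat_lit 1845190835) (nat_lit 0) (nat_lit 132778481) (nat_lit 152) (nat_lit 1845190835) (nat_lit 181) (nat_lit 1) (nat_lit 180) (nat_lit 1) (nat_lit 182) (nat_lit 1) (nat_lit 358) (nat_lit 368) (nat_lit 294)) (XT.nd (nat_lit 78) (nat_lit 0) (nat_lit 0) (XT.lf (nat_lit 152) (nat_lit 2458941795) (nat_lit 0) (nat_lit 650502833) (nat_lit 76) (nat_lit 650502833) (nat_lit 181) (nat_lit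 1) (nat_lit 179) (nat_lit 1) (nat_lit 180) (nat_lit 1) (nat_lit 359) (nat_lit 368) (nat_lit 293)) (XT.lf (nat_lit 0) (nat_lit 622915696) (nat_lit 0) (nat_lit 2451993958) (nat_lit 152) (nat_lit 622915696) (nat_lit 179) (nat_lit 3) (nat_lit 179) (nat_lit 1) (nat_lit 181) (nat_lit 1) (nat_lit 360) (nat_lit 368) (nat_lit 292)))) (XT.nd (nat_lit 156) (nat_lit 76) (nat_lit 0) (XT.nd (nat_lit 78) (nat_lit 152) (nat_lit 0) (XT.lf (nat_lit 76) (nat_lit 50939864) (nat_lit 0) (nat_lit 1792919160) (nat_lit 76) (nat_lit 1792919160) (nat_lit 179) (nat_lit 3) (nat_lit 178) (nat_lit 1) (nat_lit 179) (nat_lit 1) (nat_lit 361) (nat_lit 368) (nat_lit 291)) (XT.lf (nat_lit 152) (nat_lit 2506544800) (nat_lit 0) (nat_lit 535170290) (nat_lit 76) (nat_lit 535170290) (nat_lit 178) (nat_lit 1) (nat_lit 176) (nat_lit 1) (nat_lit 177) (nat_lit 1) (nat_lit 362) (nat_lit 368) (nat_lit 290))) (XT.nd (nat_lit 78) (nat_lit 76)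 (nat_lit 0) (XT.lf (nat_lit 0) (nat_lit 671020941) (nat_lit 0) (nat_lit 2175808153) (nat_lit 152) (nat_lit 671020941) (nat_lit 176) (nat_lit 3) (nat_lit 176) (nat_lit 1) (nat_lit 178) (nat_lit 1) (nat_lit 363) (nat_lit 368) (nat_lit 289)) (XT.lf (nat_lit 76) (nat_lit 197897803) (nat_lit 0) (nat_lit 1631028482) (nat_lit 76) (nat_lit 1631028482) (nat_lit 176) (nat_lit 3) (nat_lit 175) (nat_lit 1) (nat_lit 176) (nat_lit 1) (nat_lit 364) (nat_lit 368) (nat_lit 288))))))))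
noncomputable def ec133 : XT := (XT.nd (nat_lit 1950) (nat_lit 1900) (nat_lit 0) (XT.nd (nat_lit 936) (nat_lit 1064) (nat_lit 0) (XT.nd (nat_lit 468) (nat_lit 456) (nat_lit 0) (XT.nd (nat_lit 234) (nat_lit 228) (nat_lit 0) (XT.nd (nat_lit 78) (nat_lit 76) (nat_lit 0) (XT.lf (nat_lit 152) (nat_lit 2522680896) (nat_lit 0) (nat_lit 440285922) (nat_lit 76) (nat_lit 440285922) (nat_lit 175) (nat_lit 1) (nat_lit 173) (nat_lit 1) (nat_lit 174) (nat_lit 1) (nat_lit 365) (nat_lit 368) (nat_lit 287)) (XT.nd (nat_lit 78) (nat_lit 76) (nat_lit 0) (XT.lf (nat_lit 0) (nat_lit 703047403) (nat_lit 0) (nat_lit 1941039567) (nat_lit 152) (nat_lit 703047403) (nat_lit 173) (nat_lit 3) (nat_lit 173) (nat_lit 1) (nat_lit 175) (nat_lit 1) (nat_lit 366) (nat_lit 368) (nat_lit 286)) (XT.lf (nat_lit 76) (nat_lit 311372395) (nat_lit 0) (nat_lit 1490412551) (nat_lit 76) (nat_lit 1490412551) (nat_lit 173) (nat_lit 3) (nat_lit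 172) (nat_lit 1) (nat_lit 173) (nat_lit 1) (nat_lit 367) (nat_lit 368) (nat_lit 285)))) (XT.nd (nat_lit 78) (nat_lit 76) (nat_lit 0) (XT.lf (nat_lit 152) (nat_lit 2514025612) (nat_lit 0) (nat_lit 362224318) (nat_lit 76) (nat_lit 362224318) (nat_lit 172) (nat_lit 1) (nat_lit 170) (nat_lit 1) (nat_lit 171) (nat_lit 1) (nat_lit 368) (nat_lit 368) (nat_lit 284)) (XT.nd (nat_lit 78) (nat_lit 76) (nat_lit 0) (XT.lf (nat_lit 0) (nat_lit 722205329) (nat_lit 0) (nat_lit 1740704546) (nat_lit 152) (nat_lit 722205329) (nat_lit 170) (nat_lit 3) (nat_lit 170) (nat_lit 1) (nat_lit 172) (nat_lit 1) (nat_lit 369) (nat_lit 368) (nat_lit 283)) (XT.lf (nat_lit 76) (nat_lit 397653871) (nat_lit 0) (nat_lit 1367653125) (nat_lit 76) (nat_lit 1367653125) (nat_lit 170) (nat_lit 3) (nat_lit 169) (nat_lit 1) (nat_lit 170) (nat_lit 1) (nat_lit 370) (nat_lit 368) (nat_lit 282))))) (XT.nd (nat_lit 234) (nat_lit 228) (nat_lit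 0) (XT.nd (nat_lit 78) (nat_lit 76) (nat_lit 0) (XT.lf (nat_lit 152) (nat_lit 2486018708) (nat_lit 0) (nat_lit 298002843) (nat_lit 76) (nat_lit 298002843) (nat_lit 169) (nat_lit 1) (nat_lit 167) (nat_lit 1) (nat_lit 168) (nat_lit 1) (nat_lit 371) (nat_lit 368) (nat_lit 281)) (XT.nd (nat_lit 78) (nat_lit 76) (nat_lit 0) (XT.lf (nat_lit 0) (nat_lit 731118674) (nat_lit 0) (nat_lit 1569040500) (nat_lit 152) (nat_lit 731118674) (nat_lit 167) (nat_lit 3) (nat_lit 167) (nat_lit 1) (nat_lit 169) (nat_lit 1) (nat_lit 372) (nat_lit 368) (nat_lit 280)) (XT.lf (nat_lit 76) (nat_lit 461900377) (nat_lit 0) (nat_lit 1259921164) (nat_lit 76) (nat_lit 1259921164) (nat_lit 167) (nat_lit 3) (nat_lit 166) (nat_lit 1) (nat_lit 167) (nat_lit 1) (nat_lit 373) (nat_lit 368) (nat_lit 279)))) (XT.nd (nat_lit 78) (nat_lit 76) (nat_lit 0) (XT.lf (nat_lit 152) (nat_lit 2443085758) (nat_lit 0) (nat_lit 245167676) (nat_lit 76)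 (nat_lit 245167676) (nat_lit 166) (nat_lit 1) (nat_lit 164) (nat_lit 1) (nat_lit 165) (nat_lit 1) (nat_lit 374) (nat_lit 368) (nat_lit 278)) (XT.nd (nat_lit 78) (nat_lit 76) (nat_lit 0) (XT.lf (nat_lit 0) (nat_lit 731929868) (nat_lit 0) (nat_lit 1421290228) (nat_lit 152) (nat_lit 731929868) (nat_lit 164) (nat_lit 3) (nat_lit 164) (nat_lit 1) (nat_lit 166) (nat_lit 1) (nat_lit 375) (nat_lit 368) (nat_lit 277)) (XT.lf (nat_lit 76) (nat_lit 508339491) (nat_lit 0) (nat_lit 1164873167) (nat_lit 76) (nat_lit 1164873167) (nat_lit 164) (nat_lit 3) (nat_lit 163) (nat_lit 1) (nat_lit 164) (nat_lit 1) (nat_lit 376) (nat_lit 368) (nat_lit 276)))))) (XT.nd (nat_lit 468) (nat_lit 608) (nat_lit 0) (XT.nd (nat_lit 234) (nat_lit 228) (nat_lit 0) (XT.nd (nat_lit 78) (nat_lit 76) (nat_lit 0) (XT.lf (nat_lit 152) (nat_lit 2388820332) (nat_lit 0) (nat_lit 201700054) (nat_lit 76) (nat_lit 201700054) (nat_lit 163) (nat_lit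 1) (nat_lit 161) (nat_lit 1) (nat_lit 162) (nat_lit 1) (nat_lit 377) (nat_lit 368) (nat_lit 275)) (XT.nd (nat_lit 78) (nat_lit 76) (nat_lit 0) (XT.lf (nat_lit 0) (nat_lit 726385967) (nat_lit 0) (nat_lit 1293524442) (nat_lit 152) (nat_lit 726385967) (nat_lit 161) (nat_lit 3) (nat_lit 161) (nat_lit 1) (nat_lit 163) (nat_lit 1) (nat_lit 378) (nat_lit 368) (nat_lit 274)) (XT.lf (nat_lit 76) (nat_lit 540433974) (nat_lit 0) (nat_lit 1080565854) (nat_lit 76) (nat_lit 1080565854) (nat_lit 161) (nat_lit 3) (nat_lit 160) (nat_lit 1) (nat_lit 161) (nat_lit 1) (nat_lit 379) (nat_lit 368) (nat_lit 273)))) (XT.nd (nat_lit 78) (nat_lit 76) (nat_lit 0) (XT.lf (nat_lit 152) (nat_lit 2326133763) (nat_lit 0) (nat_lit 165939133) (nat_lit 76) (nat_lit 165939133) (nat_lit 160) (nat_lit 1) (nat_lit 158) (nat_lit 1) (nat_lit 159) (nat_lit 1) (nat_lit 380) (nat_lit 368) (nat_lit 272)) (XT.nd (nat_lit 78) (nat_lit 76) (nat_lit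 0) (XT.lf (nat_lit 0) (nat_lit 715909488) (nat_lit 0) (nat_lit 1182495715) (nat_lit 152) (nat_lit 715909488) (nat_lit 158) (nat_lit 3) (nat_lit 158) (nat_lit 1) (nat_lit 160) (nat_lit 1) (nat_lit 381) (nat_lit 368) (nat_lit 271)) (XT.lf (nat_lit 76) (nat_lit 561018098) (nat_lit 0) (nat_lit 1005385933) (nat_lit 76) (nat_lit 1005385933) (nat_lit 158) (nat_lit 3) (nat_lit 157) (nat_lit 1) (nat_lit 158) (nat_lit 1) (nat_lit 382) (nat_lit 368) (nat_lit 270))))) (XT.nd (nat_lit 234) (nat_lit 380) (nat_lit 0) (XT.nd (nat_lit 78) (nat_lit 76) (nat_lit 0) (XT.lf (nat_lit 152) (nat_lit 2257378256) (nat_lit 0) (nat_lit 136518535) (nat_lit 76) (nat_lit 136518535) (nat_lit 157) (nat_lit 1) (nat_lit 155) (nat_lit 1) (nat_lit 156) (nat_lit 1) (nat_lit 383) (nat_lit 368) (nat_lit 269)) (XT.nd (nat_lit 78) (nat_lit 76) (nat_lit 0) (XT.lf (nat_lit 0) (nat_lit 701656656) (nat_lit 0) (nat_lit 1085518299) (nat_lit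 152) (nat_lit 701656656) (nat_lit 155) (nat_lit 3) (nat_lit 155) (nat_lit 1) (nat_lit 157) (nat_lit 1) (nat_lit 384) (nat_lit 368) (nat_lit 268)) (XT.lf (nat_lit 76) (nat_lit 572409769) (nat_lit 0) (nat_lit 937992286) (nat_lit 76) (nat_lit 937992286) (nat_lit 155) (nat_lit 3) (nat_lit 154) (nat_lit 1) (nat_lit 155) (nat_lit 1) (nat_lit 385) (nat_lit 368) (nat_lit 267)))) (XT.nd (nat_lit 156) (nat_lit 228) (nat_lit 0) (XT.nd (nat_lit 78) (nat_lit 0) (nat_lit 0) (XT.lf (nat_lit 152) (nat_lit 2184448060) (nat_lit 0) (nat_lit 112314137) (nat_lit 76) (nat_lit 112314137) (nat_lit 154) (nat_lit 1) (nat_lit 152) (nat_lit 1) (nat_lit 153) (nat_lit 1) (nat_lit 386) (nat_lit 368) (nat_lit 266)) (XT.lf (nat_lit 0) (nat_lit 684565285) (nat_lit 0) (nat_lit 1000369208) (nat_lit 152) (nat_lit 684565285) (nat_lit 152) (nat_lit 3) (nat_lit 152) (nat_lit 1) (nat_lit 154) (nat_lit 1) (nat_lit 387) (nat_lit 368) (nat_lit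 265))) (XT.nd (nat_lit 78) (nat_lit 152) (nat_lit 0) (XT.lf (nat_lit 76) (nat_lit 576502734) (nat_lit 0) (nat_lit 877268376) (nat_lit 76) (nat_lit 877268376) (nat_lit 152) (nat_lit 3) (nat_lit 151) (nat_lit 1) (nat_lit 152) (nat_lit 1) (nat_lit 388) (nat_lit 368) (nat_lit 264)) (XT.lf (nat_lit 152) (nat_lit 2108862618) (nat_lit 0) (nat_lit 92401118) (nat_lit 76) (nat_lit 92401118) (nat_lit 151) (nat_lit 1) (nat_lit 149) (nat_lit 1) (nat_lit 150) (nat_lit 1) (nat_lit 389) (nat_lit 368) (nat_lit 263))))))) (XT.nd (nat_lit 1014) (nat_lit 988) (nat_lit 0) (XT.nd (nat_lit 468) (nat_lit 456) (nat_lit 0) (XT.nd (nat_lit 234) (nat_lit 228) (nat_lit 0) (XT.nd (nat_lit 78) (nat_lit 228) (nat_lit 0) (XT.lf (nat_lit 0) (nat_lit 665394142) (nat_lit 0) (nat_lit 925206811) (nat_lit 152) (nat_lit 665394142) (nat_lit 149) (nat_lit 3) (nat_lit 149) (nat_lit 1) (nat_lit 151) (nat_lit 1) (nat_lit 390) (nat_lit 368)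 (nat_lit 262)) (XT.nd (nat_lit 78) (nat_lit 152) (nat_lit 0) (XT.lf (nat_lit 76) (nat_lit 574842417) (nat_lit 0) (nat_lit 822283055) (nat_lit 76) (nat_lit 822283055) (nat_lit 149) (nat_lit 3) (nat_lit 148) (nat_lit 1) (nat_lit 149) (nat_lit 1) (nat_lit 391) (nat_lit 368) (nat_lit 261)) (XT.lf (nat_lit 152) (nat_lit 2031834869) (nat_lit 0) (nat_lit 76018629) (nat_lit 76) (nat_lit 76018629) (nat_lit 148) (nat_lit 1) (nat_lit 146) (nat_lit 1) (nat_lit 147) (nat_lit 1) (nat_lit 392) (nat_lit 368) (nat_lit 260)))) (XT.nd (nat_lit 78) (nat_lit 228) (nat_lit 0) (XT.lf (nat_lit 0) (nat_lit 644755300) (nat_lit 0) (nat_lit 858503826) (nat_lit 152) (nat_lit 644755300) (nat_lit 146) (nat_lit 3) (nat_lit 146) (nat_lit 1) (nat_lit 148) (nat_lit 1) (nat_lit 393) (nat_lit 368) (nat_lit 259)) (XT.nd (nat_lit 78) (nat_lit 152) (nat_lit 0) (XT.lf (nat_lit 76) (nat_lit 568688271) (nat_lit 0) (nat_lit 772258296) (nat_lit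 76) (nat_lit 772258296) (nat_lit 146) (nat_lit 3) (nat_lit 145) (nat_lit 1) (nat_lit 146) (nat_lit 1) (nat_lit 394) (nat_lit 368) (nat_lit 258)) (XT.lf (nat_lit 152) (nat_lit 1954327361) (nat_lit 0) (nat_lit 62540714) (nat_lit 76) (nat_lit 62540714) (nat_lit 145) (nat_lit 1) (nat_lit 143) (nat_lit 1) (nat_lit 144) (nat_lit 1) (nat_lit 395) (nat_lit 368) (nat_lit 257))))) (XT.nd (nat_lit 234) (nat_lit 228) (nat_lit 0) (XT.nd (nat_lit 78) (nat_lit 228) (nat_lit 0) (XT.lf (nat_lit 0) (nat_lit 623140727) (nat_lit 0) (nat_lit 798992169) (nat_lit 152) (nat_lit 623140727) (nat_lit 143) (nat_lit 3) (nat_lit 143) (nat_lit 1) (nat_lit 145) (nat_lit 1) (nat_lit 396) (nat_lit 368) (nat_lit 256)) (XT.nd (nat_lit 78) (nat_lit 152) (nat_lit 0) (XT.lf (nat_lit 76) (nat_lit 559065050) (nat_lit 0) (nat_lit 726542613) (nat_lit 76) (nat_lit 726542613) (nat_lit 143) (nat_lit 3) (nat_lit 142) (nat_lit 1) (nat_lit 143)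 (nat_lit 1) (nat_lit 397) (nat_lit 368) (nat_lit 255)) (XT.lf (nat_lit 152) (nat_lit 1877098323) (nat_lit 0) (nat_lit 51452400) (nat_lit 76) (nat_lit 51452400) (nat_lit 142) (nat_lit 1) (nat_lit 140) (nat_lit 1) (nat_lit 141) (nat_lit 1) (nat_lit 398) (nat_lit 368) (nat_lit 254)))) (XT.nd (nat_lit 156) (nat_lit 152) (nat_lit 0) (XT.nd (nat_lit 78) (nat_lit 76) (nat_lit 0) (XT.lf (nat_lit 0) (nat_lit 600944129) (nat_lit 0) (nat_lit 745617545) (nat_lit 152) (nat_lit 600944129) (nat_lit 140) (nat_lit 3) (nat_lit 140) (nat_lit 1) (nat_lit 142) (nat_lit 1) (nat_lit 399) (nat_lit 368) (nat_lit 253)) (XT.lf (nat_lit 76) (nat_lit 546804963) (nat_lit 0) (nat_lit 684589169) (nat_lit 76) (nat_lit 684589169) (nat_lit 140) (nat_lit 3) (nat_lit 139) (nat_lit 1) (nat_lit 140) (nat_lit 1) (nat_lit 400) (nat_lit 368) (nat_lit 252))) (XT.nd (nat_lit 78) (nat_lit 0) (nat_lit 0) (XT.lf (nat_lit 152) (nat_lit 1800739499)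 (nat_lit 0) (nat_lit 42330017) (nat_lit 76) (nat_lit 42330017) (nat_lit 139) (nat_lit 1) (nat_lit 137) (nat_lit 1) (nat_lit 138) (nat_lit 1) (nat_lit 401) (nat_lit 368) (nat_lit 251)) (XT.lf (nat_lit 0) (nat_lit 578478898) (nat_lit 0) (nat_lit 697502076) (nat_lit 152) (nat_lit 578478898) (nat_lit 137) (nat_lit 3) (nat_lit 137) (nat_lit 1) (nat_lit 139) (nat_lit 1) (nat_lit 402) (nat_lit 368) (nat_lit 250)))))) (XT.nd (nat_lit 468) (nat_lit 532) (nat_lit 0) (XT.nd (nat_lit 234) (nat_lit 228) (nat_lit 0) (XT.nd (nat_lit 78) (nat_lit 152) (nat_lit 0) (XT.lf (nat_lit 76) (nat_lit 532582333) (nat_lit 0) (nat_lit 645937740) (nat_lit 76) (nat_lit 645937740) (nat_lit 137) (nat_lit 3) (nat_lit 136) (nat_lit 1) (nat_lit 137) (nat_lit 1) (nat_lit 403) (nat_lit 368) (nat_lit 249)) (XT.nd (nat_lit 78) (nat_lit 0) (nat_lit 0) (XT.lf (nat_lit 152) (nat_lit 1725707189) (nat_lit 0) (nat_lit 34825009) (nat_lit 76)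 (nat_lit 34825009) (nat_lit 136) (nat_lit 1) (nat_lit 134) (nat_lit 1) (nat_lit 135) (nat_lit 1) (nat_lit 404) (nat_lit 368) (nat_lit 248)) (XT.lf (nat_lit 0) (nat_lit 555992856) (nat_lit 0) (nat_lit 653913519) (nat_lit 152) (nat_lit 555992856) (nat_lit 134) (nat_lit 3) (nat_lit 134) (nat_lit 1) (nat_lit 136) (nat_lit 1) (nat_lit 405) (nat_lit 368) (nat_lit 247)))) (XT.nd (nat_lit 78) (nat_lit 152) (nat_lit 0) (XT.lf (nat_lit 76) (nat_lit 516942076) (nat_lit 0) (nat_lit 610199850) (nat_lit 76) (nat_lit 610199850) (nat_lit 134) (nat_lit 3) (nat_lit 133) (nat_lit 1) (nat_lit 134) (nat_lit 1) (nat_lit 406) (nat_lit 368) (nat_lit 246)) (XT.nd (nat_lit 78) (nat_lit 0) (nat_lit 0) (XT.lf (nat_lit 152) (nat_lit 1652347714) (nat_lit 0) (nat_lit 28650621) (nat_lit 76) (nat_lit 28650621) (nat_lit 133) (nat_lit 1) (nat_lit 131) (nat_lit 1) (nat_lit 132) (nat_lit 1) (nat_lit 407) (nat_lit 368) (nat_lit 245))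 (XT.lf (nat_lit 0) (nat_lit 533680351) (nat_lit 0) (nat_lit 614239922) (nat_lit 152) (nat_lit 533680351) (nat_lit 131) (nat_lit 3) (nat_lit 131) (nat_lit 1) (nat_lit 133) (nat_lit 1) (nat_lit 408) (nat_lit 368) (nat_lit 244))))) (XT.nd (nat_lit 234) (nat_lit 304) (nat_lit 0) (XT.nd (nat_lit 78) (nat_lit 152) (nat_lit 0) (XT.lf (nat_lit 76) (nat_lit 500323119) (nat_lit 0) (nat_lit 577046520) (nat_lit 76) (nat_lit 577046520) (nat_lit 131) (nat_lit 3) (nat_lit 130) (nat_lit 1) (nat_lit 131) (nat_lit 1) (nat_lit 409) (nat_lit 368) (nat_lit 243)) (XT.nd (nat_lit 78) (nat_lit 0) (nat_lit 0) (XT.lf (nat_lit 152) (nat_lit 1580918305) (nat_lit 0) (nat_lit 23570937) (nat_lit 76) (nat_lit 23570937) (nat_lit 130) (nat_lit 1) (nat_lit 128) (nat_lit 1) (nat_lit 129) (nat_lit 1) (nat_lit 410) (nat_lit 368) (nat_lit 242)) (XT.lf (nat_lit 0) (nat_lit 511692195) (nat_lit 0) (nat_lit 577968754) (nat_lit 152) (nat_lit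 511692195) (nat_lit 128) (nat_lit 3) (nat_lit 128) (nat_lit 1) (nat_lit 130) (nat_lit 1) (nat_lit 411) (nat_lit 368) (nat_lit 241)))) (XT.nd (nat_lit 156) (nat_lit 76) (nat_lit 0) (XT.nd (nat_lit 78) (nat_lit 152) (nat_lit 0) (XT.lf (nat_lit 76) (nat_lit 483077633) (nat_lit 0) (nat_lit 546198165) (nat_lit 76) (nat_lit 546198165) (nat_lit 128) (nat_lit 3) (nat_lit 127) (nat_lit 1) (nat_lit 128) (nat_lit 1) (nat_lit 412) (nat_lit 368) (nat_lit 240)) (XT.lf (nat_lit 152) (nat_lit 1511604213) (nat_lit 0) (nat_lit 19391868) (nat_lit 76) (nat_lit 19391868) (nat_lit 127) (nat_lit 1) (nat_lit 125) (nat_lit 1) (nat_lit 126) (nat_lit 1) (nat_lit 413) (nat_lit 368) (nat_lit 239))) (XT.nd (nat_lit 78) (nat_lit 76) (nat_lit 0) (XT.lf (nat_lit 0) (nat_lit 490143816) (nat_lit 0) (nat_lit 544669705) (nat_lit 152) (nat_lit 490143816) (nat_lit 125) (nat_lit 3) (nat_lit 125) (nat_lit 1) (nat_lit 127) (nat_lit 1)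 (nat_lit 414) (nat_lit 368) (nat_lit 238)) (XT.lf (nat_lit 76) (nat_lit 465486845) (nat_lit 0) (nat_lit 517416263) (nat_lit 76) (nat_lit 517416263) (nat_lit 125) (nat_lit 3) (nat_lit 124) (nat_lit 1) (nat_lit 125) (nat_lit 1) (nat_lit 415) (nat_lit 368) (nat_lit 237))))))))
noncomputable def ec134 : XT := (XT.nd (nat_lit 1950) (nat_lit 684) (nat_lit 0) (XT.nd (nat_lit 936) (nat_lit 1064) (nat_lit 0) (XT.nd (nat_lit 468) (nat_lit 456) (nat_lit 0) (XT.nd (nat_lit 234) (nat_lit 228) (nat_lit 0) (XT.nd (nat_lit 78) (nat_lit 76) (nat_lit 0) (XT.lf (nat_lit 152) (nat_lit 1444532728) (nat_lit 0) (nat_lit 15953738) (nat_lit 76) (nat_lit 15953738) (nat_lit 124) (nat_lit 1) (nat_lit 122) (nat_lit 1) (nat_lit 123) (nat_lit 1) (nat_lit 416) (nat_lit 368) (nat_lit 236)) (XT.nd (nat_lit 78) (nat_lit 76) (nat_lit 0) (XT.lf (nat_lit 0) (nat_lit 469121940) (nat_lit 0) (nat_lit 513980524) (nat_lit 152) (nat_lit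 469121940) (nat_lit 122) (nat_lit 3) (nat_lit 122) (nat_lit 1) (nat_lit 124) (nat_lit 1) (nat_lit 417) (nat_lit 368) (nat_lit 235)) (XT.lf (nat_lit 76) (nat_lit 447774019) (nat_lit 0) (nat_lit 490496479) (nat_lit 76) (nat_lit 490496479) (nat_lit 122) (nat_lit 3) (nat_lit 121) (nat_lit 1) (nat_lit 122) (nat_lit 1) (nat_lit 418) (nat_lit 368) (nat_lit 234)))) (XT.nd (nat_lit 78) (nat_lit 76) (nat_lit 0) (XT.lf (nat_lit 152) (nat_lit 1379784652) (nat_lit 0) (nat_lit 13125179) (nat_lit 76) (nat_lit 13125179) (nat_lit 121) (nat_lit 1) (nat_lit 119) (nat_lit 1) (nat_lit 120) (nat_lit 1) (nat_lit 419) (nat_lit 368) (nat_lit 233)) (XT.nd (nat_lit 78) (nat_lit 76) (nat_lit 0) (XT.lf (nat_lit 0) (nat_lit 448690077) (nat_lit 0) (nat_lit 485595345) (nat_lit 152) (nat_lit 448690077) (nat_lit 119) (nat_lit 3) (nat_lit 119) (nat_lit 1) (nat_lit 121) (nat_lit 1) (nat_lit 420) (nat_lit 368) (nat_lit 232)) (XT.lf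 (nat_lit 76) (nat_lit 430115116) (nat_lit 0) (nat_lit 465262990) (nat_lit 76) (nat_lit 465262990) (nat_lit 119) (nat_lit 3) (nat_lit 118) (nat_lit 1) (nat_lit 119) (nat_lit 1) (nat_lit 421) (nat_lit 368) (nat_lit 231))))) (XT.nd (nat_lit 234) (nat_lit 228) (nat_lit 0) (XT.nd (nat_lit 78) (nat_lit 76) (nat_lit 0) (XT.lf (nat_lit 152) (nat_lit 1317403677) (nat_lit 0) (nat_lit 10798118) (nat_lit 76) (nat_lit 10798118) (nat_lit 118) (nat_lit 1) (nat_lit 116) (nat_lit 1) (nat_lit 117) (nat_lit 1) (nat_lit 422) (nat_lit 368) (nat_lit 230)) (XT.nd (nat_lit 78) (nat_lit 76) (nat_lit 0) (XT.lf (nat_lit 0) (nat_lit 428893004) (nat_lit 0) (nat_lit 459255059) (nat_lit 152) (nat_lit 428893004) (nat_lit 116) (nat_lit 3) (nat_lit 116) (nat_lit 1) (nat_lit 118) (nat_lit 1) (nat_lit 423) (nat_lit 368) (nat_lit 229)) (XT.lf (nat_lit 76) (nat_lit 412647554) (nat_lit 0) (nat_lit 441563797) (nat_lit 76) (nat_lit 441563797)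 (nat_lit 116) (nat_lit 3) (nat_lit 115) (nat_lit 1) (nat_lit 116) (nat_lit 1) (nat_lit 424) (nat_lit 368) (nat_lit 228)))) (XT.nd (nat_lit 78) (nat_lit 76) (nat_lit 0) (XT.lf (nat_lit 152) (nat_lit 1257404055) (nat_lit 0) (nat_lit 8883638) (nat_lit 76) (nat_lit 8883638) (nat_lit 115) (nat_lit 1) (nat_lit 113) (nat_lit 1) (nat_lit 114) (nat_lit 1) (nat_lit 425) (nat_lit 368) (nat_lit 227)) (XT.nd (nat_lit 78) (nat_lit 76) (nat_lit 0) (XT.lf (nat_lit 0) (nat_lit 409760447) (nat_lit 0) (nat_lit 434739385) (nat_lit 152) (nat_lit 409760447) (nat_lit 113) (nat_lit 3) (nat_lit 113) (nat_lit 1) (nat_lit 115) (nat_lit 1) (nat_lit 426) (nat_lit 368) (nat_lit 226)) (XT.lf (nat_lit 76) (nat_lit 395477387) (nat_lit 0) (nat_lit 419266851) (nat_lit 76) (nat_lit 419266851) (nat_lit 113) (nat_lit 3) (nat_lit 112) (nat_lit 1) (nat_lit 113) (nat_lit 1) (nat_lit 427) (nat_lit 368) (nat_lit 225)))))) (XT.nd (nat_lit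 468) (nat_lit 608) (nat_lit 0) (XT.nd (nat_lit 234) (nat_lit 228) (nat_lit 0) (XT.nd (nat_lit 78) (nat_lit 76) (nat_lit 0) (XT.lf (nat_lit 152) (nat_lit 1199776847) (nat_lit 0) (nat_lit 7308591) (nat_lit 76) (nat_lit 7308591) (nat_lit 112) (nat_lit 1) (nat_lit 110) (nat_lit 1) (nat_lit 111) (nat_lit 1) (nat_lit 428) (nat_lit 368) (nat_lit 224)) (XT.nd (nat_lit 78) (nat_lit 76) (nat_lit 0) (XT.lf (nat_lit 0) (nat_lit 391310087) (nat_lit 0) (nat_lit 411860322) (nat_lit 152) (nat_lit 391310087) (nat_lit 110) (nat_lit 3) (nat_lit 110) (nat_lit 1) (nat_lit 112) (nat_lit 1) (nat_lit 429) (nat_lit 368) (nat_lit 223)) (XT.lf (nat_lit 76) (nat_lit 378685198) (nat_lit 0) (nat_lit 398256850) (nat_lit 76) (nat_lit 398256850) (nat_lit 110) (nat_lit 3) (nat_lit 109) (nat_lit 1) (nat_lit 110) (nat_lit 1) (nat_lit 430) (nat_lit 368) (nat_lit 222)))) (XT.nd (nat_lit 78) (nat_lit 76) (nat_lit 0) (XT.lf (nat_lit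 152) (nat_lit 1144495019) (nat_lit 0) (nat_lit 6012796) (nat_lit 76) (nat_lit 6012796) (nat_lit 109) (nat_lit 1) (nat_lit 107) (nat_lit 1) (nat_lit 108) (nat_lit 1) (nat_lit 431) (nat_lit 368) (nat_lit 221)) (XT.nd (nat_lit 78) (nat_lit 76) (nat_lit 0) (XT.lf (nat_lit 0) (nat_lit 373550019) (nat_lit 0) (nat_lit 390456747) (nat_lit 152) (nat_lit 373550019) (nat_lit 107) (nat_lit 3) (nat_lit 107) (nat_lit 1) (nat_lit 109) (nat_lit 1) (nat_lit 432) (nat_lit 368) (nat_lit 220)) (XT.lf (nat_lit 76) (nat_lit 362330939) (nat_lit 0) (nat_lit 378432585) (nat_lit 76) (nat_lit 378432585) (nat_lit 107) (nat_lit 3) (nat_lit 106) (nat_lit 1) (nat_lit 107) (nat_lit 1) (nat_lit 433) (nat_lit 368) (nat_lit 219))))) (XT.nd (nat_lit 234) (nat_lit 380) (nat_lit 0) (XT.nd (nat_lit 78) (nat_lit 76) (nat_lit 0) (XT.lf (nat_lit 152) (nat_lit 1091517586) (nat_lit 0) (nat_lit 4946742) (nat_lit 76) (nat_lit 4946742) (nat_lit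 106) (nat_lit 1) (nat_lit 104) (nat_lit 1) (nat_lit 105) (nat_lit 1) (nat_lit 434) (nat_lit 368) (nat_lit 218)) (XT.nd (nat_lit 78) (nat_lit 76) (nat_lit 0) (XT.lf (nat_lit 0) (nat_lit 356480755) (nat_lit 0) (nat_lit 370389963) (nat_lit 152) (nat_lit 356480755) (nat_lit 104) (nat_lit 3) (nat_lit 104) (nat_lit 1) (nat_lit 106) (nat_lit 1) (nat_lit 435) (nat_lit 368) (nat_lit 217)) (XT.lf (nat_lit 76) (nat_lit 346457884) (nat_lit 0) (nat_lit 359704748) (nat_lit 76) (nat_lit 359704748) (nat_lit 104) (nat_lit 3) (nat_lit 103) (nat_lit 1) (nat_lit 104) (nat_lit 1) (nat_lit 436) (nat_lit 368) (nat_lit 216)))) (XT.nd (nat_lit 156) (nat_lit 228) (nat_lit 0) (XT.nd (nat_lit 78) (nat_lit 0) (nat_lit 0) (XT.lf (nat_lit 152) (nat_lit 1040792984) (nat_lit 0) (nat_lit 4069697) (nat_lit 76) (nat_lit 4069697) (nat_lit 103) (nat_lit 1) (nat_lit 101) (nat_lit 1) (nat_lit 102) (nat_lit 1) (nat_lit 437) (nat_lit 368)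 (nat_lit 215)) (XT.lf (nat_lit 0) (nat_lit 340096866) (nat_lit 0) (nat_lit 351540006) (nat_lit 152) (nat_lit 340096866) (nat_lit 101) (nat_lit 3) (nat_lit 101) (nat_lit 1) (nat_lit 103) (nat_lit 1) (nat_lit 438) (nat_lit 368) (nat_lit 214))) (XT.nd (nat_lit 78) (nat_lit 152) (nat_lit 0) (XT.lf (nat_lit 76) (nat_lit 331095876) (nat_lit 0) (nat_lit 341994104) (nat_lit 76) (nat_lit 341994104) (nat_lit 101) (nat_lit 3) (nat_lit 100) (nat_lit 1) (nat_lit 101) (nat_lit 1) (nat_lit 439) (nat_lit 368) (nat_lit 213)) (XT.lf (nat_lit 152) (nat_lit 992261786) (nat_lit 0) (nat_lit 3348149) (nat_lit 76) (nat_lit 3348149) (nat_lit 100) (nat_lit 1) (nat_lit 98) (nat_lit 1) (nat_lit 99) (nat_lit 1) (nat_lit 440) (nat_lit 368) (nat_lit 212))))))) (XT.nd (nat_lit 40950) (nat_lit 0) (nat_lit 14136) (XT.nd (nat_lit 468) (nat_lit 228) (nat_lit 0) (XT.nd (nat_lit 234) (nat_lit 228) (nat_lit 0) (XT.nd (nat_lit 78) (nat_lit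 228) (nat_lit 0) (XT.lf (nat_lit 0) (nat_lit 324388312) (nat_lit 0) (nat_lit 333802611) (nat_lit 152) (nat_lit 324388312) (nat_lit 98) (nat_lit 3) (nat_lit 98) (nat_lit 1) (nat_lit 100) (nat_lit 1) (nat_lit 441) (nat_lit 368) (nat_lit 211)) (XT.nd (nat_lit 78) (nat_lit 152) (nat_lit 0) (XT.lf (nat_lit 76) (nat_lit 316263984) (nat_lit 0) (nat_lit 325229983) (nat_lit 76) (nat_lit 325229983) (nat_lit 98) (nat_lit 3) (nat_lit 97) (nat_lit 1) (nat_lit 98) (nat_lit 1) (nat_lit 442) (nat_lit 368) (nat_lit 210)) (XT.lf (nat_lit 152) (nat_lit 945858915) (nat_lit 0) (nat_lit 2754531) (nat_lit 76) (nat_lit 2754531) (nat_lit 97) (nat_lit 1) (nat_lit 95) (nat_lit 1) (nat_lit 96) (nat_lit 1) (nat_lit 443) (nat_lit 368) (nat_lit 209)))) (XT.nd (nat_lit 78) (nat_lit 228) (nat_lit 0) (XT.lf (nat_lit 0) (nat_lit 309341522) (nat_lit 0) (nat_lit 317086689) (nat_lit 152) (nat_lit 309341522) (nat_lit 95) (nat_lit 3)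 (nat_lit 95) (nat_lit 1) (nat_lit 97) (nat_lit 1) (nat_lit 444) (nat_lit 368) (nat_lit 208)) (XT.nd (nat_lit 78) (nat_lit 152) (nat_lit 0) (XT.lf (nat_lit 76) (nat_lit 301972675) (nat_lit 0) (nat_lit 309349024) (nat_lit 76) (nat_lit 309349024) (nat_lit 95) (nat_lit 3) (nat_lit 94) (nat_lit 1) (nat_lit 95) (nat_lit 1) (nat_lit 445) (nat_lit 368) (nat_lit 207)) (XT.lf (nat_lit 152) (nat_lit 901515412) (nat_lit 0) (nat_lit 2266159) (nat_lit 76) (nat_lit 2266159) (nat_lit 94) (nat_lit 1) (nat_lit 92) (nat_lit 1) (nat_lit 93) (nat_lit 1) (nat_lit 446) (nat_lit 368) (nat_lit 206))))) (XT.nd (nat_lit 40248) (nat_lit 0) (nat_lit 15428) (XT.nd (nat_lit 78) (nat_lit 228) (nat_lit 0) (XT.lf (nat_lit 0) (nat_lit 294940279) (nat_lit 0) (nat_lit 301312247) (nat_lit 152) (nat_lit 294940279) (nat_lit 92) (nat_lit 3) (nat_lit 92) (nat_lit 1) (nat_lit 94) (nat_lit 1) (nat_lit 447) (nat_lit 368) (nat_lit 205)) (XT.nd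 (nat_lit 78) (nat_lit 152) (nat_lit 0) (XT.lf (nat_lit 76) (nat_lit 288225583) (nat_lit 0) (nat_lit 294294124) (nat_lit 76) (nat_lit 294294124) (nat_lit 92) (nat_lit 3) (nat_lit 91) (nat_lit 1) (nat_lit 92) (nat_lit 1) (nat_lit 448) (nat_lit 368) (nat_lit 204)) (XT.lf (nat_lit 152) (nat_lit 859159857) (nat_lit 0) (nat_lit 1864375) (nat_lit 76) (nat_lit 1864375) (nat_lit 91) (nat_lit 1) (nat_lit 89) (nat_lit 1) (nat_lit 90) (nat_lit 1) (nat_lit 449) (nat_lit 368) (nat_lit 203)))) (XT.nd (nat_lit 78) (nat_lit 0) (nat_lit 0) (XT.lf (nat_lit 836) (nat_lit 2211766887) (nat_lit 0) (nat_lit 3926987025) (nat_lit 836) (nat_lit 2211766887) (nat_lit 303) (nat_lit 1) (nat_lit 292) (nat_lit 0) (nat_lit 303) (nat_lit 0) (nat_lit 282) (nat_lit 369) (nat_lit 369)) (XT.nd (nat_lit 78) (nat_lit 0) (nat_lit 76) (XT.lf (nat_lit 836) (nat_lit 8573084585) (nat_lit 76) (nat_lit 3863648525) (nat_lit 0) (nat_lit 3863648525)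 (nat_lit 303) (nat_lit 1) (nat_lit 293) (nat_lit 1) (nat_lit 292) (nat_lit 0) (nat_lit 283) (nat_lit 369) (nat_lit 368)) (XT.lf (nat_lit 836) (nat_lit 4085803028) (nat_lit 0) (nat_lit 7740502163) (nat_lit 760) (nat_lit 4085803028) (nat_lit 304) (nat_lit 1) (nat_lit 293) (nat_lit 1) (nat_lit 303) (nat_lit 1) (nat_lit 284) (nat_lit 369) (nat_lit 367)))))) (XT.nd (nat_lit 468) (nat_lit 1368) (nat_lit 0) (XT.nd (nat_lit 234) (nat_lit 0) (nat_lit 152) (XT.nd (nat_lit 78) (nat_lit 0) (nat_lit 76) (XT.lf (nat_lit 836) (nat_lit 7664398745) (nat_lit 76) (nat_lit 3935990092) (nat_lit 0) (nat_lit 3935990092) (nat_lit 304) (nat_lit 1) (nat_lit 294) (nat_lit 1) (nat_lit 293) (nat_lit 1) (nat_lit 285) (nat_lit 369) (nat_lit 366)) (XT.nd (nat_lit 78) (nat_lit 0) (nat_lit 0) (XT.lf (nat_lit 836) (nat_lit 3527849140) (nat_lit 0) (nat_lit 8116860093) (nat_lit 760) (nat_lit 3527849140) (nat_lit 305) (nat_lit 1) (nat_lit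 294) (nat_lit 1) (nat_lit 304) (nat_lit 1) (nat_lit 286) (nat_lit 369) (nat_lit 365)) (XT.lf (nat_lit 836) (nat_lit 6345066454) (nat_lit 76) (nat_lit 4237381001) (nat_lit 0) (nat_lit 4237381001) (nat_lit 305) (nat_lit 1) (nat_lit 295) (nat_lit 1) (nat_lit 294) (nat_lit 1) (nat_lit 287) (nat_lit 369) (nat_lit 364)))) (XT.nd (nat_lit 78) (nat_lit 0) (nat_lit 0) (XT.lf (nat_lit 836) (nat_lit 2782128378) (nat_lit 0) (nat_lit 8914685234) (nat_lit 760) (nat_lit 2782128378) (nat_lit 306) (nat_lit 1) (nat_lit 295) (nat_lit 1) (nat_lit 305) (nat_lit 1) (nat_lit 288) (nat_lit 369) (nat_lit 363)) (XT.nd (nat_lit 78) (nat_lit 0) (nat_lit 76) (XT.lf (nat_lit 836) (nat_lit 4676843227) (nat_lit 76) (nat_lit 4735299035) (nat_lit 0) (nat_lit 4735299035) (nat_lit 306) (nat_lit 1) (nat_lit 296) (nat_lit 1) (nat_lit 295) (nat_lit 1) (nat_lit 289) (nat_lit 369) (nat_lit 362)) (XT.lf (nat_lit 836) (nat_lit 1877508961)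 (nat_lit 0) (nat_lit 10073057495) (nat_lit 760) (nat_lit 1877508961) (nat_lit 307) (nat_lit 1) (nat_lit 296) (nat_lit 1) (nat_lit 306) (nat_lit 1) (nat_lit 290) (nat_lit 369) (nat_lit 361))))) (XT.nd (nat_lit 234) (nat_lit 912) (nat_lit 0) (XT.nd (nat_lit 78) (nat_lit 684) (nat_lit 0) (XT.lf (nat_lit 836) (nat_lit 2714620393) (nat_lit 76) (nat_lit 5400780221) (nat_lit 0) (nat_lit 5400780221) (nat_lit 307) (nat_lit 1) (nat_lit 297) (nat_lit 1) (nat_lit 296) (nat_lit 1) (nat_lit 291) (nat_lit 369) (nat_lit 360)) (XT.nd (nat_lit 78) (nat_lit 760) (nat_lit 0) (XT.lf (nat_lit 76) (nat_lit 839631814) (nat_lit 0) (nat_lit 11537755605) (nat_lit 760) (nat_lit 839631814) (nat_lit 298) (nat_lit 1) (nat_lit 297) (nat_lit 1) (nat_lit 307) (nat_lit 1) (nat_lit 292) (nat_lit 369) (nat_lit 359)) (XT.lf (nat_lit 836) (nat_lit 507116736) (nat_lit 0) (nat_lit 6208062562) (nat_lit 760) (nat_lit 6208062562) (nat_lit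 298) (nat_lit 1) (nat_lit 287) (nat_lit 1) (nat_lit 297) (nat_lit 1) (nat_lit 293) (nat_lit 369) (nat_lit 358)))) (XT.nd (nat_lit 156) (nat_lit 380) (nat_lit 0) (XT.nd (nat_lit 78) (nat_lit 0) (nat_lit 0) (XT.lf (nat_lit 532) (nat_lit 12034518799) (nat_lit 0) (nat_lit 303783457) (nat_lit 456) (nat_lit 303783457) (nat_lit 287) (nat_lit 1) (nat_lit 280) (nat_lit 1) (nat_lit 286) (nat_lit 1) (nat_lit 294) (nat_lit 369) (nat_lit 357)) (XT.lf (nat_lit 76) (nat_lit 5261470673) (nat_lit 0) (nat_lit 1841604953) (nat_lit 532) (nat_lit 5261470673) (nat_lit 281) (nat_lit 1) (nat_lit 280) (nat_lit 1) (nat_lit 287) (nat_lit 1) (nat_lit 295) (nat_lit 369) (nat_lit 356))) (XT.nd (nat_lit 78) (nat_lit 0) (nat_lit 0) (XT.lf (nat_lit 456) (nat_lit 9053640468) (nat_lit 0) (nat_lit 1522584069) (nat_lit 380) (nat_lit 1522584069) (nat_lit 281) (nat_lit 1) (nat_lit 275) (nat_lit 1) (nat_lit 280) (nat_lit 1) (nat_lit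 296) (nat_lit 369) (nat_lit 355)) (XT.lf (nat_lit 76) (nat_lit 3752942981) (nat_lit 0) (nat_lit 4332771492) (nat_lit 456) (nat_lit 3752942981) (nat_lit 276) (nat_lit 1) (nat_lit 275) (nat_lit 1) (nat_lit 281) (nat_lit 1) (nat_lit 297) (nat_lit 369) (nat_lit 354))))))))
noncomputable def ec135 : XT := (XT.nd (nat_lit 1950) (nat_lit 2508) (nat_lit 0) (XT.nd (nat_lit 936) (nat_lit 1824) (nat_lit 0) (XT.nd (nat_lit 468) (nat_lit 912) (nat_lit 0) (XT.nd (nat_lit 234) (nat_lit 684) (nat_lit 0) (XT.nd (nat_lit 78) (nat_lit 304) (nat_lit 0) (XT.lf (nat_lit 456) (nat_lit 5961950640) (nat_lit 0) (nat_lit 2812808015) (nat_lit 380) (nat_lit 2812808015) (nat_lit 276) (nat_lit 1) (nat_lit 270) (nat_lit 1) (nat_lit 275) (nat_lit 1) (nat_lit 298) (nat_lit 369) (nat_lit 353)) (XT.nd (nat_lit 78) (nat_lit 304) (nat_lit 0) (XT.lf (nat_lit 76) (nat_lit 2196899576) (nat_lit 0) (nat_lit 6949979300) (nat_lit 456) (nat_lit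 2196899576) (nat_lit 271) (nat_lit 1) (nat_lit 270) (nat_lit 1) (nat_lit 276) (nat_lit 1) (nat_lit 299) (nat_lit 369) (nat_lit 352)) (XT.lf (nat_lit 380) (nat_lit 2788225105) (nat_lit 0) (nat_lit 4159018083) (nat_lit 304) (nat_lit 4159018083) (nat_lit 271) (nat_lit 1) (nat_lit 266) (nat_lit 1) (nat_lit 270) (nat_lit 1) (nat_lit 300) (nat_lit 369) (nat_lit 351)))) (XT.nd (nat_lit 78) (nat_lit 684) (nat_lit 0) (XT.lf (nat_lit 76) (nat_lit 606699178) (nat_lit 0) (nat_lit 9664479477) (nat_lit 380) (nat_lit 606699178) (nat_lit 267) (nat_lit 1) (nat_lit 266) (nat_lit 1) (nat_lit 271) (nat_lit 1) (nat_lit 301) (nat_lit 369) (nat_lit 350)) (XT.nd (nat_lit 78) (nat_lit 304) (nat_lit 0) (XT.lf (nat_lit 76) (nat_lit 5112221610) (nat_lit 0) (nat_lit 428158490) (nat_lit 380) (nat_lit 5112221610) (nat_lit 262) (nat_lit 1) (nat_lit 261) (nat_lit 1) (nat_lit 266) (nat_lit 1) (nat_lit 302) (nat_lit 369) (nat_lit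 349)) (XT.lf (nat_lit 380) (nat_lit 8456420750) (nat_lit 0) (nat_lit 989741953) (nat_lit 304) (nat_lit 989741953) (nat_lit 262) (nat_lit 1) (nat_lit 257) (nat_lit 1) (nat_lit 261) (nat_lit 1) (nat_lit 303) (nat_lit 369) (nat_lit 348))))) (XT.nd (nat_lit 234) (nat_lit 608) (nat_lit 0) (XT.nd (nat_lit 78) (nat_lit 304) (nat_lit 0) (XT.lf (nat_lit 76) (nat_lit 3316979988) (nat_lit 0) (nat_lit 3588965112) (nat_lit 380) (nat_lit 3316979988) (nat_lit 258) (nat_lit 1) (nat_lit 257) (nat_lit 1) (nat_lit 262) (nat_lit 1) (nat_lit 304) (nat_lit 369) (nat_lit 347)) (XT.nd (nat_lit 78) (nat_lit 0) (nat_lit 0) (XT.lf (nat_lit 380) (nat_lit 4840396515) (nat_lit 0) (nat_lit 2588467193) (nat_lit 304) (nat_lit 2588467193) (nat_lit 258) (nat_lit 1) (nat_lit 253) (nat_lit 1) (nat_lit 257) (nat_lit 1) (nat_lit 305) (nat_lit 369) (nat_lit 346)) (XT.lf (nat_lit 76) (nat_lit 1526445037) (nat_lit 0) (nat_lit 6764858233)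 (nat_lit 380) (nat_lit 1526445037) (nat_lit 254) (nat_lit 1) (nat_lit 253) (nat_lit 1) (nat_lit 258) (nat_lit 1) (nat_lit 306) (nat_lit 369) (nat_lit 345)))) (XT.nd (nat_lit 78) (nat_lit 380) (nat_lit 0) (XT.lf (nat_lit 304) (nat_lit 1241392372) (nat_lit 0) (nat_lit 4190540765) (nat_lit 228) (nat_lit 4190540765) (nat_lit 254) (nat_lit 1) (nat_lit 250) (nat_lit 1) (nat_lit 253) (nat_lit 1) (nat_lit 307) (nat_lit 369) (nat_lit 344)) (XT.nd (nat_lit 78) (nat_lit 0) (nat_lit 0) (XT.lf (nat_lit 380) (nat_lit 8938673280) (nat_lit 0) (nat_lit 248031032) (nat_lit 304) (nat_lit 248031032) (nat_lit 250) (nat_lit 1) (nat_lit 245) (nat_lit 1) (nat_lit 249) (nat_lit 1) (nat_lit 308) (nat_lit 369) (nat_lit 343)) (XT.lf (nat_lit 76) (nat_lit 3497768937) (nat_lit 0) (nat_lit 2252498022) (nat_lit 380) (nat_lit 3497768937) (nat_lit 246) (nat_lit 1) (nat_lit 245) (nat_lit 1) (nat_lit 250) (nat_lit 1) (nat_lit 309)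 (nat_lit 369) (nat_lit 342)))))) (XT.nd (nat_lit 468) (nat_lit 836) (nat_lit 0) (XT.nd (nat_lit 234) (nat_lit 532) (nat_lit 0) (XT.nd (nat_lit 78) (nat_lit 228) (nat_lit 0) (XT.lf (nat_lit 304) (nat_lit 5108602112) (nat_lit 0) (nat_lit 1979947378) (nat_lit 228) (nat_lit 1979947378) (nat_lit 246) (nat_lit 1) (nat_lit 242) (nat_lit 1) (nat_lit 245) (nat_lit 1) (nat_lit 310) (nat_lit 369) (nat_lit 341)) (XT.nd (nat_lit 78) (nat_lit 228) (nat_lit 0) (XT.lf (nat_lit 76) (nat_lit 1613886429) (nat_lit 0) (nat_lit 5665746480) (nat_lit 304) (nat_lit 1613886429) (nat_lit 243) (nat_lit 1) (nat_lit 242) (nat_lit 1) (nat_lit 246) (nat_lit 1) (nat_lit 311) (nat_lit 369) (nat_lit 340)) (XT.lf (nat_lit 304) (nat_lit 1345123894) (nat_lit 0) (nat_lit 3688699302) (nat_lit 228) (nat_lit 3688699302) (nat_lit 243) (nat_lit 1) (nat_lit 239) (nat_lit 1) (nat_lit 242) (nat_lit 1) (nat_lit 312) (nat_lit 369) (nat_lit 339))))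 (XT.nd (nat_lit 78) (nat_lit 228) (nat_lit 0) (XT.lf (nat_lit 304) (nat_lit 8095531538) (nat_lit 0) (nat_lit 231173436) (nat_lit 228) (nat_lit 231173436) (nat_lit 239) (nat_lit 1) (nat_lit 235) (nat_lit 1) (nat_lit 238) (nat_lit 1) (nat_lit 313) (nat_lit 369) (nat_lit 338)) (XT.nd (nat_lit 78) (nat_lit 228) (nat_lit 0) (XT.lf (nat_lit 76) (nat_lit 3062307739) (nat_lit 0) (nat_lit 2269139286) (nat_lit 304) (nat_lit 3062307739) (nat_lit 236) (nat_lit 1) (nat_lit 235) (nat_lit 1) (nat_lit 239) (nat_lit 1) (nat_lit 314) (nat_lit 369) (nat_lit 337)) (XT.lf (nat_lit 304) (nat_lit 4210953544) (nat_lit 0) (nat_lit 2012375087) (nat_lit 228) (nat_lit 2012375087) (nat_lit 236) (nat_lit 1) (nat_lit 232) (nat_lit 1) (nat_lit 235) (nat_lit 1) (nat_lit 315) (nat_lit 369) (nat_lit 336))))) (XT.nd (nat_lit 234) (nat_lit 380) (nat_lit 0) (XT.nd (nat_lit 78) (nat_lit 456) (nat_lit 0) (XT.lf (nat_lit 76) (nat_lit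 1159693171) (nat_lit 0) (nat_lit 5762505333) (nat_lit 304) (nat_lit 1159693171) (nat_lit 233) (nat_lit 1) (nat_lit 232) (nat_lit 1) (nat_lit 236) (nat_lit 1) (nat_lit 316) (nat_lit 369) (nat_lit 335)) (XT.nd (nat_lit 78) (nat_lit 304) (nat_lit 0) (XT.lf (nat_lit 228) (nat_lit 424950137) (nat_lit 0) (nat_lit 3753013995) (nat_lit 152) (nat_lit 3753013995) (nat_lit 233) (nat_lit 1) (nat_lit 230) (nat_lit 1) (nat_lit 232) (nat_lit 1) (nat_lit 317) (nat_lit 369) (nat_lit 334)) (XT.lf (nat_lit 304) (nat_lit 6420854081) (nat_lit 0) (nat_lit 681941243) (nat_lit 228) (nat_lit 681941243) (nat_lit 230) (nat_lit 1) (nat_lit 226) (nat_lit 1) (nat_lit 229) (nat_lit 1) (nat_lit 318) (nat_lit 369) (nat_lit 333)))) (XT.nd (nat_lit 156) (nat_lit 228) (nat_lit 0) (XT.nd (nat_lit 78) (nat_lit 152) (nat_lit 0) (XT.lf (nat_lit 76) (nat_lit 2242651917) (nat_lit 0) (nat_lit 3154826745) (nat_lit 304) (nat_lit 2242651917)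 (nat_lit 227) (nat_lit 1) (nat_lit 226) (nat_lit 1) (nat_lit 230) (nat_lit 1) (nat_lit 319) (nat_lit 369) (nat_lit 332)) (XT.lf (nat_lit 228) (nat_lit 2591038347) (nat_lit 0) (nat_lit 2454474591) (nat_lit 152) (nat_lit 2454474591) (nat_lit 227) (nat_lit 1) (nat_lit 224) (nat_lit 1) (nat_lit 226) (nat_lit 1) (nat_lit 320) (nat_lit 369) (nat_lit 331))) (XT.nd (nat_lit 78) (nat_lit 228) (nat_lit 0) (XT.lf (nat_lit 76) (nat_lit 372249969) (nat_lit 0) (nat_lit 6619995350) (nat_lit 228) (nat_lit 372249969) (nat_lit 225) (nat_lit 1) (nat_lit 224) (nat_lit 1) (nat_lit 227) (nat_lit 1) (nat_lit 321) (nat_lit 369) (nat_lit 330)) (XT.lf (nat_lit 76) (nat_lit 3072244307) (nat_lit 0) (nat_lit 1085006957) (nat_lit 228) (nat_lit 3072244307) (nat_lit 222) (nat_lit 1) (nat_lit 221) (nat_lit 1) (nat_lit 224) (nat_lit 1) (nat_lit 322) (nat_lit 369) (nat_lit 329))))))) (XT.nd (nat_lit 1014) (nat_lit 1216) (nat_lit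 0) (XT.nd (nat_lit 468) (nat_lit 608) (nat_lit 0) (XT.nd (nat_lit 234) (nat_lit 380) (nat_lit 0) (XT.nd (nat_lit 78) (nat_lit 152) (nat_lit 0) (XT.lf (nat_lit 228) (nat_lit 4266349677) (nat_lit 0) (nat_lit 1416312500) (nat_lit 152) (nat_lit 1416312500) (nat_lit 222) (nat_lit 1) (nat_lit 219) (nat_lit 1) (nat_lit 221) (nat_lit 1) (nat_lit 323) (nat_lit 369) (nat_lit 328)) (XT.nd (nat_lit 78) (nat_lit 152) (nat_lit 0) (XT.lf (nat_lit 76) (nat_lit 1203852884) (nat_lit 0) (nat_lit 4563632812) (nat_lit 228) (nat_lit 1203852884) (nat_lit 220) (nat_lit 1) (nat_lit 219) (nat_lit 1) (nat_lit 222) (nat_lit 1) (nat_lit 324) (nat_lit 369) (nat_lit 327)) (XT.lf (nat_lit 228) (nat_lit 563961733) (nat_lit 0) (nat_lit 3141156783) (nat_lit 152) (nat_lit 3141156783) (nat_lit 220) (nat_lit 1) (nat_lit 217) (nat_lit 1) (nat_lit 219) (nat_lit 1) (nat_lit 325) (nat_lit 369) (nat_lit 326)))) (XT.nd (nat_lit 78) (nat_lit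 152) (nat_lit 0) (XT.lf (nat_lit 228) (nat_lit 5542980263) (nat_lit 0) (nat_lit 590927780) (nat_lit 152) (nat_lit 590927780) (nat_lit 217) (nat_lit 1) (nat_lit 214) (nat_lit 1) (nat_lit 216) (nat_lit 1) (nat_lit 326) (nat_lit 369) (nat_lit 325)) (XT.nd (nat_lit 78) (nat_lit 152) (nat_lit 0) (XT.lf (nat_lit 76) (nat_lit 1845271713) (nat_lit 0) (nat_lit 2913889393) (nat_lit 228) (nat_lit 1845271713) (nat_lit 215) (nat_lit 1) (nat_lit 214) (nat_lit 1) (nat_lit 217) (nat_lit 1) (nat_lit 327) (nat_lit 369) (nat_lit 324)) (XT.lf (nat_lit 228) (nat_lit 1879319650) (nat_lit 0) (nat_lit 2304102815) (nat_lit 152) (nat_lit 2304102815) (nat_lit 215) (nat_lit 1) (nat_lit 212) (nat_lit 1) (nat_lit 214) (nat_lit 1) (nat_lit 328) (nat_lit 369) (nat_lit 323))))) (XT.nd (nat_lit 234) (nat_lit 304) (nat_lit 0) (XT.nd (nat_lit 78) (nat_lit 304) (nat_lit 0) (XT.lf (nat_lit 76) (nat_lit 61768053) (nat_lit 0) (nat_lit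 6251181590) (nat_lit 228) (nat_lit 61768053) (nat_lit 213) (nat_lit 1) (nat_lit 212) (nat_lit 1) (nat_lit 215) (nat_lit 1) (nat_lit 329) (nat_lit 369) (nat_lit 322)) (XT.nd (nat_lit 78) (nat_lit 152) (nat_lit 0) (XT.lf (nat_lit 76) (nat_lit 2332261000) (nat_lit 0) (nat_lit 1596671049) (nat_lit 152) (nat_lit 2332261000) (nat_lit 211) (nat_lit 1) (nat_lit 210) (nat_lit 1) (nat_lit 212) (nat_lit 1) (nat_lit 330) (nat_lit 369) (nat_lit 321)) (XT.lf (nat_lit 228) (nat_lit 2894070391) (nat_lit 0) (nat_lit 1628796190) (nat_lit 152) (nat_lit 1628796190) (nat_lit 211) (nat_lit 1) (nat_lit 208) (nat_lit 1) (nat_lit 210) (nat_lit 1) (nat_lit 331) (nat_lit 369) (nat_lit 320)))) (XT.nd (nat_lit 156) (nat_lit 152) (nat_lit 0) (XT.nd (nat_lit 78) (nat_lit 152) (nat_lit 0) (XT.lf (nat_lit 76) (nat_lit 580241111) (nat_lit 0) (nat_lit 4884606769) (nat_lit 228) (nat_lit 580241111) (nat_lit 209) (nat_lit 1) (nat_lit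 208) (nat_lit 1) (nat_lit 211) (nat_lit 1) (nat_lit 332) (nat_lit 369) (nat_lit 319)) (XT.lf (nat_lit 76) (nat_lit 2694139178) (nat_lit 0) (nat_lit 551115731) (nat_lit 152) (nat_lit 2694139178) (nat_lit 207) (nat_lit 1) (nat_lit 206) (nat_lit 1) (nat_lit 208) (nat_lit 1) (nat_lit 333) (nat_lit 369) (nat_lit 318))) (XT.nd (nat_lit 78) (nat_lit 0) (nat_lit 0) (XT.lf (nat_lit 228) (nat_lit 3664720267) (nat_lit 0) (nat_lit 1085924277) (nat_lit 152) (nat_lit 1085924277) (nat_lit 207) (nat_lit 1) (nat_lit 204) (nat_lit 1) (nat_lit 206) (nat_lit 1) (nat_lit 334) (nat_lit 369) (nat_lit 317)) (XT.lf (nat_lit 76) (nat_lit 981579494) (nat_lit 0) (nat_lit 3772620176) (nat_lit 228) (nat_lit 981579494) (nat_lit 205) (nat_lit 1) (nat_lit 204) (nat_lit 1) (nat_lit 207) (nat_lit 1) (nat_lit 335) (nat_lit 369) (nat_lit 316)))))) (XT.nd (nat_lit 468) (nat_lit 608) (nat_lit 0) (XT.nd (nat_lit 234) (nat_lit 304) (nat_lit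 0) (XT.nd (nat_lit 78) (nat_lit 228) (nat_lit 0) (XT.lf (nat_lit 152) (nat_lit 281775727) (nat_lit 0) (nat_lit 2677557867) (nat_lit 76) (nat_lit 2677557867) (nat_lit 205) (nat_lit 1) (nat_lit 203) (nat_lit 1) (nat_lit 204) (nat_lit 1) (nat_lit 336) (nat_lit 369) (nat_lit 315)) (XT.nd (nat_lit 78) (nat_lit 0) (nat_lit 0) (XT.lf (nat_lit 228) (nat_lit 4237604332) (nat_lit 0) (nat_lit 651401752) (nat_lit 152) (nat_lit 651401752) (nat_lit 203) (nat_lit 1) (nat_lit 200) (nat_lit 1) (nat_lit 202) (nat_lit 1) (nat_lit 337) (nat_lit 369) (nat_lit 314)) (XT.lf (nat_lit 76) (nat_lit 1287751399) (nat_lit 0) (nat_lit 2869498336) (nat_lit 228) (nat_lit 1287751399) (nat_lit 201) (nat_lit 1) (nat_lit 200) (nat_lit 1) (nat_lit 203) (nat_lit 1) (nat_lit 338) (nat_lit 369) (nat_lit 313)))) (XT.nd (nat_lit 78) (nat_lit 228) (nat_lit 0) (XT.lf (nat_lit 152) (nat_lit 946266728) (nat_lit 0) (nat_lit 2202833483) (nat_lit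 76) (nat_lit 2202833483) (nat_lit 201) (nat_lit 1) (nat_lit 199) (nat_lit 1) (nat_lit 200) (nat_lit 1) (nat_lit 339) (nat_lit 369) (nat_lit 312)) (XT.nd (nat_lit 78) (nat_lit 0) (nat_lit 0) (XT.lf (nat_lit 228) (nat_lit 4650696998) (nat_lit 0) (nat_lit 305442369) (nat_lit 152) (nat_lit 305442369) (nat_lit 199) (nat_lit 1) (nat_lit 196) (nat_lit 1) (nat_lit 198) (nat_lit 1) (nat_lit 340) (nat_lit 369) (nat_lit 311)) (XT.lf (nat_lit 76) (nat_lit 1516772949) (nat_lit 0) (nat_lit 2137652316) (nat_lit 228) (nat_lit 1516772949) (nat_lit 197) (nat_lit 1) (nat_lit 196) (nat_lit 1) (nat_lit 199) (nat_lit 1) (nat_lit 341) (nat_lit 369) (nat_lit 310))))) (XT.nd (nat_lit 234) (nat_lit 304) (nat_lit 0) (XT.nd (nat_lit 78) (nat_lit 228) (nat_lit 0) (XT.lf (nat_lit 152) (nat_lit 1458923731) (nat_lit 0) (nat_lit 1812276558) (nat_lit 76) (nat_lit 1812276558) (nat_lit 197) (nat_lit 1) (nat_lit 195) (nat_lit 1) (nat_lit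 196) (nat_lit 1) (nat_lit 342) (nat_lit 369) (nat_lit 309)) (XT.nd (nat_lit 78) (nat_lit 0) (nat_lit 0) (XT.lf (nat_lit 228) (nat_lit 4935101290) (nat_lit 0) (nat_lit 31795369) (nat_lit 152) (nat_lit 31795369) (nat_lit 195) (nat_lit 1) (nat_lit 192) (nat_lit 1) (nat_lit 194) (nat_lit 1) (nat_lit 343) (nat_lit 369) (nat_lit 308)) (XT.lf (nat_lit 76) (nat_lit 1683411607) (nat_lit 0) (nat_lit 1546184168) (nat_lit 228) (nat_lit 1683411607) (nat_lit 193) (nat_lit 1) (nat_lit 192) (nat_lit 1) (nat_lit 195) (nat_lit 1) (nat_lit 344) (nat_lit 369) (nat_lit 307)))) (XT.nd (nat_lit 156) (nat_lit 228) (nat_lit 0) (XT.nd (nat_lit 78) (nat_lit 0) (nat_lit 0) (XT.lf (nat_lit 152) (nat_lit 1848286595) (nat_lit 0) (nat_lit 1490964409) (nat_lit 76) (nat_lit 1490964409) (nat_lit 193) (nat_lit 1) (nat_lit 191) (nat_lit 1) (nat_lit 192) (nat_lit 1) (nat_lit 345) (nat_lit 369) (nat_lit 306)) (XT.lf (nat_lit 0) (nat_lit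 185880730) (nat_lit 0) (nat_lit 4378161610) (nat_lit 152) (nat_lit 185880730) (nat_lit 191) (nat_lit 3) (nat_lit 191) (nat_lit 1) (nat_lit 193) (nat_lit 1) (nat_lit 346) (nat_lit 369) (nat_lit 305))) (XT.nd (nat_lit 78) (nat_lit 76) (nat_lit 0) (XT.lf (nat_lit 76) (nat_lit 1799764751) (nat_lit 0) (nat_lit 1069699368) (nat_lit 152) (nat_lit 1799764751) (nat_lit 190) (nat_lit 1) (nat_lit 189) (nat_lit 1) (nat_lit 191) (nat_lit 1) (nat_lit 347) (nat_lit 369) (nat_lit 304)) (XT.lf (nat_lit 152) (nat_lit 2137757985) (nat_lit 0) (nat_lit 1226620109) (nat_lit 76) (nat_lit 1226620109) (nat_lit 190) (nat_lit 1) (nat_lit 188) (nat_lit 1) (nat_lit 189) (nat_lit 1) (nat_lit 348) (nat_lit 369) (nat_lit 303))))))))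
noncomputable def ec136 : XT := (XT.nd (nat_lit 1950) (nat_lit 1900) (nat_lit 0) (XT.nd (nat_lit 936) (nat_lit 912) (nat_lit 0) (XT.nd (nat_lit 468) (nat_lit 456) (nat_lit 0) (XT.nd (nat_lit 234) (nat_lit 228) (nat_lit 0) (XT.nd (nat_lit 78) (nat_lit 228) (nat_lit 0) (XT.lf (nat_lit 0) (nat_lit 355274710) (nat_lit 0) (nat_lit 3804274565) (nat_lit 152) (nat_lit 355274710) (nat_lit 188) (nat_lit 3) (nat_lit 188) (nat_lit 1) (nat_lit 190) (nat_lit 1) (nat_lit 349) (nat_lit 369) (nat_lit 302)) (XT.nd (nat_lit 78) (nat_lit 76) (nat_lit 0) (XT.lf (nat_lit 76) (nat_lit 1875735539) (nat_lit 0) (nat_lit 687329866) (nat_lit 152) (nat_lit 1875735539) (nat_lit 187) (nat_lit 1) (nat_lit 186) (nat_lit 1) (nat_lit 188) (nat_lit 1) (nat_lit 350) (nat_lit 369) (nat_lit 301)) (XT.lf (nat_lit 152) (nat_lit 2346517860) (nat_lit 0) (nat_lit 1009143399) (nat_lit 76) (nat_lit 1009143399) (nat_lit 187) (nat_lit 1) (nat_lit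 185) (nat_lit 1) (nat_lit 186) (nat_lit 1) (nat_lit 351) (nat_lit 369) (nat_lit 300)))) (XT.nd (nat_lit 78) (nat_lit 228) (nat_lit 0) (XT.lf (nat_lit 0) (nat_lit 484999834) (nat_lit 0) (nat_lit 3322500551) (nat_lit 152) (nat_lit 484999834) (nat_lit 185) (nat_lit 3) (nat_lit 185) (nat_lit 1) (nat_lit 187) (nat_lit 1) (nat_lit 352) (nat_lit 369) (nat_lit 299)) (XT.nd (nat_lit 78) (nat_lit 76) (nat_lit 0) (XT.lf (nat_lit 76) (nat_lit 1919424293) (nat_lit 0) (nat_lit 381930410) (nat_lit 152) (nat_lit 1919424293) (nat_lit 184) (nat_lit 1) (nat_lit 183) (nat_lit 1) (nat_lit 185) (nat_lit 1) (nat_lit 353) (nat_lit 369) (nat_lit 298)) (XT.lf (nat_lit 152) (nat_lit 2490275646) (nat_lit 0) (nat_lit 830224772) (nat_lit 76) (nat_lit 830224772) (nat_lit 184) (nat_lit 1) (nat_lit 182) (nat_lit 1) (nat_lit 183) (nat_lit 1) (nat_lit 354) (nat_lit 369) (nat_lit 297))))) (XT.nd (nat_lit 234) (nat_lit 228) (nat_lit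 0) (XT.nd (nat_lit 78) (nat_lit 228) (nat_lit 0) (XT.lf (nat_lit 0) (nat_lit 582548136) (nat_lit 0) (nat_lit 2916966998) (nat_lit 152) (nat_lit 582548136) (nat_lit 182) (nat_lit 3) (nat_lit 182) (nat_lit 1) (nat_lit 184) (nat_lit 1) (nat_lit 355) (nat_lit 369) (nat_lit 296)) (XT.nd (nat_lit 78) (nat_lit 76) (nat_lit 0) (XT.lf (nat_lit 76) (nat_lit 1937450377) (nat_lit 0) (nat_lit 139417405) (nat_lit 152) (nat_lit 1937450377) (nat_lit 181) (nat_lit 1) (nat_lit 180) (nat_lit 1) (nat_lit 182) (nat_lit 1) (nat_lit 356) (nat_lit 369) (nat_lit 295)) (XT.lf (nat_lit 152) (nat_lit 2581888885) (nat_lit 0) (nat_lit 683027974) (nat_lit 76) (nat_lit 683027974) (nat_lit 181) (nat_lit 1) (nat_lit 179) (nat_lit 1) (nat_lit 180) (nat_lit 1) (nat_lit 357) (nat_lit 369) (nat_lit 294)))) (XT.nd (nat_lit 78) (nat_lit 228) (nat_lit 0) (XT.lf (nat_lit 0) (nat_lit 654061481) (nat_lit 0) (nat_lit 2574593656) (nat_lit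 152) (nat_lit 654061481) (nat_lit 179) (nat_lit 3) (nat_lit 179) (nat_lit 1) (nat_lit 181) (nat_lit 1) (nat_lit 358) (nat_lit 369) (nat_lit 293)) (XT.nd (nat_lit 78) (nat_lit 152) (nat_lit 0) (XT.lf (nat_lit 76) (nat_lit 53486857) (nat_lit 0) (nat_lit 1882565118) (nat_lit 76) (nat_lit 1882565118) (nat_lit 179) (nat_lit 3) (nat_lit 178) (nat_lit 1) (nat_lit 179) (nat_lit 1) (nat_lit 359) (nat_lit 369) (nat_lit 292)) (XT.lf (nat_lit 152) (nat_lit 2631872040) (nat_lit 0) (nat_lit 561928805) (nat_lit 76) (nat_lit 561928805) (nat_lit 178) (nat_lit 1) (nat_lit 176) (nat_lit 1) (nat_lit 177) (nat_lit 1) (nat_lit 360) (nat_lit 369) (nat_lit 291)))))) (XT.nd (nat_lit 468) (nat_lit 456) (nat_lit 0) (XT.nd (nat_lit 234) (nat_lit 228) (nat_lit 0) (XT.nd (nat_lit 78) (nat_lit 228) (nat_lit 0) (XT.lf (nat_lit 0) (nat_lit 704571988) (nat_lit 0) (nat_lit 2284598561) (nat_lit 152) (nat_lit 704571988) (nat_lit 176)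 (nat_lit 3) (nat_lit 176) (nat_lit 1) (nat_lit 178) (nat_lit 1) (nat_lit 361) (nat_lit 369) (nat_lit 290)) (XT.nd (nat_lit 78) (nat_lit 152) (nat_lit 0) (XT.lf (nat_lit 76) (nat_lit 207792694) (nat_lit 0) (nat_lit 1712579906) (nat_lit 76) (nat_lit 1712579906) (nat_lit 176) (nat_lit 3) (nat_lit 175) (nat_lit 1) (nat_lit 176) (nat_lit 1) (nat_lit 362) (nat_lit 369) (nat_lit 289)) (XT.lf (nat_lit 152) (nat_lit 2648814941) (nat_lit 0) (nat_lit 462300218) (nat_lit 76) (nat_lit 462300218) (nat_lit 175) (nat_lit 1) (nat_lit 173) (nat_lit 1) (nat_lit 174) (nat_lit 1) (nat_lit 363) (nat_lit 369) (nat_lit 288)))) (XT.nd (nat_lit 78) (nat_lit 228) (nat_lit 0) (XT.lf (nat_lit 0) (nat_lit 738199774) (nat_lit 0) (nat_lit 2038091545) (nat_lit 152) (nat_lit 738199774) (nat_lit 173) (nat_lit 3) (nat_lit 173) (nat_lit 1) (nat_lit 175) (nat_lit 1) (nat_lit 364) (nat_lit 369) (nat_lit 287)) (XT.nd (nat_lit 78) (nat_lit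 152) (nat_lit 0) (XT.lf (nat_lit 76) (nat_lit 326941015) (nat_lit 0) (nat_lit 1564933178) (nat_lit 76) (nat_lit 1564933178) (nat_lit 173) (nat_lit 3) (nat_lit 172) (nat_lit 1) (nat_lit 173) (nat_lit 1) (nat_lit 365) (nat_lit 369) (nat_lit 286)) (XT.lf (nat_lit 152) (nat_lit 2639726893) (nat_lit 0) (nat_lit 380335534) (nat_lit 76) (nat_lit 380335534) (nat_lit 172) (nat_lit 1) (nat_lit 170) (nat_lit 1) (nat_lit 171) (nat_lit 1) (nat_lit 366) (nat_lit 369) (nat_lit 285))))) (XT.nd (nat_lit 234) (nat_lit 228) (nat_lit 0) (XT.nd (nat_lit 78) (nat_lit 228) (nat_lit 0) (XT.lf (nat_lit 0) (nat_lit 758315596) (nat_lit 0) (nat_lit 1827739773) (nat_lit 152) (nat_lit 758315596) (nat_lit 170) (nat_lit 3) (nat_lit 170) (nat_lit 1) (nat_lit 172) (nat_lit 1) (nat_lit 367) (nat_lit 369) (nat_lit 284)) (XT.nd (nat_lit 78) (nat_lit 152) (nat_lit 0) (XT.lf (nat_lit 76) (nat_lit 417536564) (nat_lit 0) (nat_lit 1436035781)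 (nat_lit 76) (nat_lit 1436035781) (nat_lit 170) (nat_lit 3) (nat_lit 169) (nat_lit 1) (nat_lit 170) (nat_lit 1) (nat_lit 368) (nat_lit 369) (nat_lit 283)) (XT.lf (nat_lit 152) (nat_lit 2610319643) (nat_lit 0) (nat_lit 312902985) (nat_lit 76) (nat_lit 312902985) (nat_lit 169) (nat_lit 1) (nat_lit 167) (nat_lit 1) (nat_lit 168) (nat_lit 1) (nat_lit 369) (nat_lit 369) (nat_lit 282)))) (XT.nd (nat_lit 156) (nat_lit 152) (nat_lit 0) (XT.nd (nat_lit 78) (nat_lit 76) (nat_lit 0) (XT.lf (nat_lit 0) (nat_lit 767674608) (nat_lit 0) (nat_lit 1647492525) (nat_lit 152) (nat_lit 767674608) (nat_lit 167) (nat_lit 3) (nat_lit 167) (nat_lit 1) (nat_lit 169) (nat_lit 1) (nat_lit 370) (nat_lit 369) (nat_lit 281)) (XT.lf (nat_lit 76) (nat_lit 484995396) (nat_lit 0) (nat_lit 1322917222) (nat_lit 76) (nat_lit 1322917222) (nat_lit 167) (nat_lit 3) (nat_lit 166) (nat_lit 1) (nat_lit 167) (nat_lit 1) (nat_lit 371) (nat_lit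 369) (nat_lit 280))) (XT.nd (nat_lit 78) (nat_lit 0) (nat_lit 0) (XT.lf (nat_lit 152) (nat_lit 2565240046) (nat_lit 0) (nat_lit 257426060) (nat_lit 76) (nat_lit 257426060) (nat_lit 166) (nat_lit 1) (nat_lit 164) (nat_lit 1) (nat_lit 165) (nat_lit 1) (nat_lit 372) (nat_lit 369) (nat_lit 279)) (XT.lf (nat_lit 0) (nat_lit 768526362) (nat_lit 0) (nat_lit 1492354740) (nat_lit 152) (nat_lit 768526362) (nat_lit 164) (nat_lit 3) (nat_lit 164) (nat_lit 1) (nat_lit 166) (nat_lit 1) (nat_lit 373) (nat_lit 369) (nat_lit 278))))))) (XT.nd (nat_lit 936) (nat_lit 988) (nat_lit 0) (XT.nd (nat_lit 468) (nat_lit 456) (nat_lit 0) (XT.nd (nat_lit 234) (nat_lit 228) (nat_lit 0) (XT.nd (nat_lit 78) (nat_lit 152) (nat_lit 0) (XT.lf (nat_lit 76) (nat_lit 533756466) (nat_lit 0) (nat_lit 1223116826) (nat_lit 76) (nat_lit 1223116826) (nat_lit 164) (nat_lit 3) (nat_lit 163) (nat_lit 1) (nat_lit 164) (nat_lit 1) (nat_lit 374)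 (nat_lit 369) (nat_lit 277)) (XT.nd (nat_lit 78) (nat_lit 0) (nat_lit 0) (XT.lf (nat_lit 152) (nat_lit 2508261348) (nat_lit 0) (nat_lit 211785056) (nat_lit 76) (nat_lit 211785056) (nat_lit 163) (nat_lit 1) (nat_lit 161) (nat_lit 1) (nat_lit 162) (nat_lit 1) (nat_lit 375) (nat_lit 369) (nat_lit 276)) (XT.lf (nat_lit 0) (nat_lit 762705266) (nat_lit 0) (nat_lit 1358200664) (nat_lit 152) (nat_lit 762705266) (nat_lit 161) (nat_lit 3) (nat_lit 161) (nat_lit 1) (nat_lit 163) (nat_lit 1) (nat_lit 376) (nat_lit 369) (nat_lit 275)))) (XT.nd (nat_lit 78) (nat_lit 152) (nat_lit 0) (XT.lf (nat_lit 76) (nat_lit 567455673) (nat_lit 0) (nat_lit 1134594147) (nat_lit 76) (nat_lit 1134594147) (nat_lit 161) (nat_lit 3) (nat_lit 160) (nat_lit 1) (nat_lit 161) (nat_lit 1) (nat_lit 377) (nat_lit 369) (nat_lit 274)) (XT.nd (nat_lit 78) (nat_lit 0) (nat_lit 0) (XT.lf (nat_lit 152) (nat_lit 2442440451) (nat_lit 0) (nat_lit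 174236090) (nat_lit 76) (nat_lit 174236090) (nat_lit 160) (nat_lit 1) (nat_lit 158) (nat_lit 1) (nat_lit 159) (nat_lit 1) (nat_lit 378) (nat_lit 369) (nat_lit 273)) (XT.lf (nat_lit 0) (nat_lit 751704963) (nat_lit 0) (nat_lit 1241620501) (nat_lit 152) (nat_lit 751704963) (nat_lit 158) (nat_lit 3) (nat_lit 158) (nat_lit 1) (nat_lit 160) (nat_lit 1) (nat_lit 379) (nat_lit 369) (nat_lit 272))))) (XT.nd (nat_lit 234) (nat_lit 228) (nat_lit 0) (XT.nd (nat_lit 78) (nat_lit 152) (nat_lit 0) (XT.lf (nat_lit 76) (nat_lit 589069003) (nat_lit 0) (nat_lit 1055655230) (nat_lit 76) (nat_lit 1055655230) (nat_lit 158) (nat_lit 3) (nat_lit 157) (nat_lit 1) (nat_lit 158) (nat_lit 1) (nat_lit 380) (nat_lit 369) (nat_lit 271)) (XT.nd (nat_lit 78) (nat_lit 0) (nat_lit 0) (XT.lf (nat_lit 152) (nat_lit 2370247168) (nat_lit 0) (nat_lit 143344462) (nat_lit 76) (nat_lit 143344462) (nat_lit 157) (nat_lit 1) (nat_lit 155)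 (nat_lit 1) (nat_lit 156) (nat_lit 1) (nat_lit 381) (nat_lit 369) (nat_lit 270)) (XT.lf (nat_lit 0) (nat_lit 736739489) (nat_lit 0) (nat_lit 1139794214) (nat_lit 152) (nat_lit 736739489) (nat_lit 155) (nat_lit 3) (nat_lit 155) (nat_lit 1) (nat_lit 157) (nat_lit 1) (nat_lit 382) (nat_lit 369) (nat_lit 269)))) (XT.nd (nat_lit 78) (nat_lit 152) (nat_lit 0) (XT.lf (nat_lit 76) (nat_lit 601030257) (nat_lit 0) (nat_lit 984891900) (nat_lit 76) (nat_lit 984891900) (nat_lit 155) (nat_lit 3) (nat_lit 154) (nat_lit 1) (nat_lit 155) (nat_lit 1) (nat_lit 383) (nat_lit 369) (nat_lit 268)) (XT.nd (nat_lit 78) (nat_lit 0) (nat_lit 0) (XT.lf (nat_lit 152) (nat_lit 2293670463) (nat_lit 0) (nat_lit 117929844) (nat_lit 76) (nat_lit 117929844) (nat_lit 154) (nat_lit 1) (nat_lit 152) (nat_lit 1) (nat_lit 153) (nat_lit 1) (nat_lit 384) (nat_lit 369) (nat_lit 267)) (XT.lf (nat_lit 0) (nat_lit 718793549) (nat_lit 0) (nat_lit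 1050387669) (nat_lit 152) (nat_lit 718793549) (nat_lit 152) (nat_lit 3) (nat_lit 152) (nat_lit 1) (nat_lit 154) (nat_lit 1) (nat_lit 385) (nat_lit 369) (nat_lit 266)))))) (XT.nd (nat_lit 468) (nat_lit 532) (nat_lit 0) (XT.nd (nat_lit 234) (nat_lit 228) (nat_lit 0) (XT.nd (nat_lit 78) (nat_lit 152) (nat_lit 0) (XT.lf (nat_lit 76) (nat_lit 605327871) (nat_lit 0) (nat_lit 921131795) (nat_lit 76) (nat_lit 921131795) (nat_lit 152) (nat_lit 3) (nat_lit 151) (nat_lit 1) (nat_lit 152) (nat_lit 1) (nat_lit 386) (nat_lit 369) (nat_lit 265)) (XT.nd (nat_lit 78) (nat_lit 0) (nat_lit 0) (XT.lf (nat_lit 152) (nat_lit 2214305749) (nat_lit 0) (nat_lit 97021174) (nat_lit 76) (nat_lit 97021174) (nat_lit 151) (nat_lit 1) (nat_lit 149) (nat_lit 1) (nat_lit 150) (nat_lit 1) (nat_lit 387) (nat_lit 369) (nat_lit 264)) (XT.lf (nat_lit 0) (nat_lit 698663849) (nat_lit 0) (nat_lit 971467152) (nat_lit 152) (nat_lit 698663849)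 (nat_lit 149) (nat_lit 3) (nat_lit 149) (nat_lit 1) (nat_lit 151) (nat_lit 1) (nat_lit 388) (nat_lit 369) (nat_lit 263)))) (XT.nd (nat_lit 78) (nat_lit 152) (nat_lit 0) (XT.lf (nat_lit 76) (nat_lit 603584538) (nat_lit 0) (nat_lit 863397208) (nat_lit 76) (nat_lit 863397208) (nat_lit 149) (nat_lit 3) (nat_lit 148) (nat_lit 1) (nat_lit 149) (nat_lit 1) (nat_lit 389) (nat_lit 369) (nat_lit 262)) (XT.nd (nat_lit 78) (nat_lit 0) (nat_lit 0) (XT.lf (nat_lit 152) (nat_lit 2133426613) (nat_lit 0) (nat_lit 79819560) (nat_lit 76) (nat_lit 79819560) (nat_lit 148) (nat_lit 1) (nat_lit 146) (nat_lit 1) (nat_lit 147) (nat_lit 1) (nat_lit 390) (nat_lit 369) (nat_lit 261)) (XT.lf (nat_lit 0) (nat_lit 676993065) (nat_lit 0) (nat_lit 901429018) (nat_lit 152) (nat_lit 676993065) (nat_lit 146) (nat_lit 3) (nat_lit 146) (nat_lit 1) (nat_lit 148) (nat_lit 1) (nat_lit 391) (nat_lit 369) (nat_lit 260))))) (XT.nd (nat_lit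 234) (nat_lit 304) (nat_lit 0) (XT.nd (nat_lit 78) (nat_lit 152) (nat_lit 0) (XT.lf (nat_lit 76) (nat_lit 597122685) (nat_lit 0) (nat_lit 810871211) (nat_lit 76) (nat_lit 810871211) (nat_lit 146) (nat_lit 3) (nat_lit 145) (nat_lit 1) (nat_lit 146) (nat_lit 1) (nat_lit 392) (nat_lit 369) (nat_lit 259)) (XT.nd (nat_lit 78) (nat_lit 0) (nat_lit 0) (XT.lf (nat_lit 152) (nat_lit 2052043729) (nat_lit 0) (nat_lit 65667750) (nat_lit 76) (nat_lit 65667750) (nat_lit 145) (nat_lit 1) (nat_lit 143) (nat_lit 1) (nat_lit 144) (nat_lit 1) (nat_lit 393) (nat_lit 369) (nat_lit 258)) (XT.lf (nat_lit 0) (nat_lit 654297763) (nat_lit 0) (nat_lit 838941777) (nat_lit 152) (nat_lit 654297763) (nat_lit 143) (nat_lit 3) (nat_lit 143) (nat_lit 1) (nat_lit 145) (nat_lit 1) (nat_lit 394) (nat_lit 369) (nat_lit 257)))) (XT.nd (nat_lit 156) (nat_lit 76) (nat_lit 0) (XT.nd (nat_lit 78) (nat_lit 152) (nat_lit 0) (XT.lf (nat_lit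 76) (nat_lit 587018302) (nat_lit 0) (nat_lit 762869744) (nat_lit 76) (nat_lit 762869744) (nat_lit 143) (nat_lit 3) (nat_lit 142) (nat_lit 1) (nat_lit 143) (nat_lit 1) (nat_lit 395) (nat_lit 369) (nat_lit 256)) (XT.lf (nat_lit 152) (nat_lit 1970953239) (nat_lit 0) (nat_lit 54025020) (nat_lit 76) (nat_lit 54025020) (nat_lit 142) (nat_lit 1) (nat_lit 140) (nat_lit 1) (nat_lit 141) (nat_lit 1) (nat_lit 396) (nat_lit 369) (nat_lit 255))) (XT.nd (nat_lit 78) (nat_lit 76) (nat_lit 0) (XT.lf (nat_lit 0) (nat_lit 630991335) (nat_lit 0) (nat_lit 782898422) (nat_lit 152) (nat_lit 630991335) (nat_lit 140) (nat_lit 3) (nat_lit 140) (nat_lit 1) (nat_lit 142) (nat_lit 1) (nat_lit 397) (nat_lit 369) (nat_lit 254)) (XT.lf (nat_lit 76) (nat_lit 574145212) (nat_lit 0) (nat_lit 718818628) (nat_lit 76) (nat_lit 718818628) (nat_lit 140) (nat_lit 3) (nat_lit 139) (nat_lit 1) (nat_lit 140) (nat_lit 1) (nat_lit 398) (nat_lit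 369) (nat_lit 253))))))))
noncomputable def ec137 : XT := (XT.nd (nat_lit 1950) (nat_lit 1900) (nat_lit 0) (XT.nd (nat_lit 936) (nat_lit 1064) (nat_lit 0) (XT.nd (nat_lit 468) (nat_lit 456) (nat_lit 0) (XT.nd (nat_lit 234) (nat_lit 228) (nat_lit 0) (XT.nd (nat_lit 78) (nat_lit 76) (nat_lit 0) (XT.lf (nat_lit 152) (nat_lit 1890776474) (nat_lit 0) (nat_lit 44446518) (nat_lit 76) (nat_lit 44446518) (nat_lit 139) (nat_lit 1) (nat_lit 137) (nat_lit 1) (nat_lit 138) (nat_lit 1) (nat_lit 399) (nat_lit 369) (nat_lit 252)) (XT.nd (nat_lit 78) (nat_lit 76) (nat_lit 0) (XT.lf (nat_lit 0) (nat_lit 607402843) (nat_lit 0) (nat_lit 732377180) (nat_lit 152) (nat_lit 607402843) (nat_lit 137) (nat_lit 3) (nat_lit 137) (nat_lit 1) (nat_lit 139) (nat_lit 1) (nat_lit 400) (nat_lit 369) (nat_lit 251)) (XT.lf (nat_lit 76) (nat_lit 559211450) (nat_lit 0) (nat_lit 678234627) (nat_lit 76) (nat_lit 678234627) (nat_lit 137)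 (nat_lit 3) (nat_lit 136) (nat_lit 1) (nat_lit 137) (nat_lit 1) (nat_lit 401) (nat_lit 369) (nat_lit 250)))) (XT.nd (nat_lit 78) (nat_lit 76) (nat_lit 0) (XT.lf (nat_lit 152) (nat_lit 1811992548) (nat_lit 0) (nat_lit 36566260) (nat_lit 76) (nat_lit 36566260) (nat_lit 136) (nat_lit 1) (nat_lit 134) (nat_lit 1) (nat_lit 135) (nat_lit 1) (nat_lit 402) (nat_lit 369) (nat_lit 249)) (XT.nd (nat_lit 78) (nat_lit 76) (nat_lit 0) (XT.lf (nat_lit 0) (nat_lit 583792499) (nat_lit 0) (nat_lit 686609195) (nat_lit 152) (nat_lit 583792499) (nat_lit 134) (nat_lit 3) (nat_lit 134) (nat_lit 1) (nat_lit 136) (nat_lit 1) (nat_lit 403) (nat_lit 369) (nat_lit 248)) (XT.lf (nat_lit 76) (nat_lit 542789180) (nat_lit 0) (nat_lit 640709843) (nat_lit 76) (nat_lit 640709843) (nat_lit 134) (nat_lit 3) (nat_lit 133) (nat_lit 1) (nat_lit 134) (nat_lit 1) (nat_lit 404) (nat_lit 369) (nat_lit 247))))) (XT.nd (nat_lit 234) (nat_lit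 228) (nat_lit 0) (XT.nd (nat_lit 78) (nat_lit 76) (nat_lit 0) (XT.lf (nat_lit 152) (nat_lit 1734965100) (nat_lit 0) (nat_lit 30083152) (nat_lit 76) (nat_lit 30083152) (nat_lit 133) (nat_lit 1) (nat_lit 131) (nat_lit 1) (nat_lit 132) (nat_lit 1) (nat_lit 405) (nat_lit 369) (nat_lit 246)) (XT.nd (nat_lit 78) (nat_lit 76) (nat_lit 0) (XT.lf (nat_lit 0) (nat_lit 560364368) (nat_lit 0) (nat_lit 644951918) (nat_lit 152) (nat_lit 560364368) (nat_lit 131) (nat_lit 3) (nat_lit 131) (nat_lit 1) (nat_lit 133) (nat_lit 1) (nat_lit 406) (nat_lit 369) (nat_lit 245)) (XT.lf (nat_lit 76) (nat_lit 525339275) (nat_lit 0) (nat_lit 605898846) (nat_lit 76) (nat_lit 605898846) (nat_lit 131) (nat_lit 3) (nat_lit 130) (nat_lit 1) (nat_lit 131) (nat_lit 1) (nat_lit 407) (nat_lit 369) (nat_lit 244)))) (XT.nd (nat_lit 78) (nat_lit 76) (nat_lit 0) (XT.lf (nat_lit 152) (nat_lit 1659964221) (nat_lit 0) (nat_lit 24749484) (nat_lit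 76) (nat_lit 24749484) (nat_lit 130) (nat_lit 1) (nat_lit 128) (nat_lit 1) (nat_lit 129) (nat_lit 1) (nat_lit 408) (nat_lit 369) (nat_lit 243)) (XT.nd (nat_lit 78) (nat_lit 76) (nat_lit 0) (XT.lf (nat_lit 0) (nat_lit 537276805) (nat_lit 0) (nat_lit 606867192) (nat_lit 152) (nat_lit 537276805) (nat_lit 128) (nat_lit 3) (nat_lit 128) (nat_lit 1) (nat_lit 130) (nat_lit 1) (nat_lit 409) (nat_lit 369) (nat_lit 242)) (XT.lf (nat_lit 76) (nat_lit 507231515) (nat_lit 0) (nat_lit 573508074) (nat_lit 76) (nat_lit 573508074) (nat_lit 128) (nat_lit 3) (nat_lit 127) (nat_lit 1) (nat_lit 128) (nat_lit 1) (nat_lit 410) (nat_lit 369) (nat_lit 241)))))) (XT.nd (nat_lit 468) (nat_lit 608) (nat_lit 0) (XT.nd (nat_lit 234) (nat_lit 228) (nat_lit 0) (XT.nd (nat_lit 78) (nat_lit 76) (nat_lit 0) (XT.lf (nat_lit 152) (nat_lit 1587184424) (nat_lit 0) (nat_lit 20361462) (nat_lit 76) (nat_lit 20361462) (nat_lit 127) (nat_lit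 1) (nat_lit 125) (nat_lit 1) (nat_lit 126) (nat_lit 1) (nat_lit 411) (nat_lit 369) (nat_lit 240)) (XT.nd (nat_lit 78) (nat_lit 76) (nat_lit 0) (XT.lf (nat_lit 0) (nat_lit 514651007) (nat_lit 0) (nat_lit 571903190) (nat_lit 152) (nat_lit 514651007) (nat_lit 125) (nat_lit 3) (nat_lit 125) (nat_lit 1) (nat_lit 127) (nat_lit 1) (nat_lit 412) (nat_lit 369) (nat_lit 239)) (XT.lf (nat_lit 76) (nat_lit 488761188) (nat_lit 0) (nat_lit 543287077) (nat_lit 76) (nat_lit 543287077) (nat_lit 125) (nat_lit 3) (nat_lit 124) (nat_lit 1) (nat_lit 125) (nat_lit 1) (nat_lit 413) (nat_lit 369) (nat_lit 238)))) (XT.nd (nat_lit 78) (nat_lit 76) (nat_lit 0) (XT.lf (nat_lit 152) (nat_lit 1516759365) (nat_lit 0) (nat_lit 16751425) (nat_lit 76) (nat_lit 16751425) (nat_lit 124) (nat_lit 1) (nat_lit 122) (nat_lit 1) (nat_lit 123) (nat_lit 1) (nat_lit 414) (nat_lit 369) (nat_lit 237)) (XT.nd (nat_lit 78) (nat_lit 76) (nat_lit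 0) (XT.lf (nat_lit 0) (nat_lit 492578037) (nat_lit 0) (nat_lit 539679550) (nat_lit 152) (nat_lit 492578037) (nat_lit 122) (nat_lit 3) (nat_lit 122) (nat_lit 1) (nat_lit 124) (nat_lit 1) (nat_lit 415) (nat_lit 369) (nat_lit 236)) (XT.lf (nat_lit 76) (nat_lit 470162719) (nat_lit 0) (nat_lit 515021303) (nat_lit 76) (nat_lit 515021303) (nat_lit 122) (nat_lit 3) (nat_lit 121) (nat_lit 1) (nat_lit 122) (nat_lit 1) (nat_lit 416) (nat_lit 369) (nat_lit 235))))) (XT.nd (nat_lit 234) (nat_lit 380) (nat_lit 0) (XT.nd (nat_lit 78) (nat_lit 76) (nat_lit 0) (XT.lf (nat_lit 152) (nat_lit 1448773884) (nat_lit 0) (nat_lit 13781438) (nat_lit 76) (nat_lit 13781438) (nat_lit 121) (nat_lit 1) (nat_lit 119) (nat_lit 1) (nat_lit 120) (nat_lit 1) (nat_lit 417) (nat_lit 369) (nat_lit 234)) (XT.nd (nat_lit 78) (nat_lit 76) (nat_lit 0) (XT.lf (nat_lit 0) (nat_lit 471124581) (nat_lit 0) (nat_lit 509875112) (nat_lit 152) (nat_lit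 471124581) (nat_lit 119) (nat_lit 3) (nat_lit 119) (nat_lit 1) (nat_lit 121) (nat_lit 1) (nat_lit 418) (nat_lit 369) (nat_lit 233)) (XT.lf (nat_lit 76) (nat_lit 451620872) (nat_lit 0) (nat_lit 488526140) (nat_lit 76) (nat_lit 488526140) (nat_lit 119) (nat_lit 3) (nat_lit 118) (nat_lit 1) (nat_lit 119) (nat_lit 1) (nat_lit 419) (nat_lit 369) (nat_lit 232)))) (XT.nd (nat_lit 156) (nat_lit 228) (nat_lit 0) (XT.nd (nat_lit 78) (nat_lit 0) (nat_lit 0) (XT.lf (nat_lit 152) (nat_lit 1383273861) (nat_lit 0) (nat_lit 11338023) (nat_lit 76) (nat_lit 11338023) (nat_lit 118) (nat_lit 1) (nat_lit 116) (nat_lit 1) (nat_lit 117) (nat_lit 1) (nat_lit 420) (nat_lit 369) (nat_lit 231)) (XT.lf (nat_lit 0) (nat_lit 450337654) (nat_lit 0) (nat_lit 482217812) (nat_lit 152) (nat_lit 450337654) (nat_lit 116) (nat_lit 3) (nat_lit 116) (nat_lit 1) (nat_lit 118) (nat_lit 1) (nat_lit 421) (nat_lit 369) (nat_lit 230))) (XT.nd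 (nat_lit 78) (nat_lit 152) (nat_lit 0) (XT.lf (nat_lit 76) (nat_lit 433279932) (nat_lit 0) (nat_lit 463641987) (nat_lit 76) (nat_lit 463641987) (nat_lit 116) (nat_lit 3) (nat_lit 115) (nat_lit 1) (nat_lit 116) (nat_lit 1) (nat_lit 422) (nat_lit 369) (nat_lit 229)) (XT.lf (nat_lit 152) (nat_lit 1320274258) (nat_lit 0) (nat_lit 9327820) (nat_lit 76) (nat_lit 9327820) (nat_lit 115) (nat_lit 1) (nat_lit 113) (nat_lit 1) (nat_lit 114) (nat_lit 1) (nat_lit 423) (nat_lit 369) (nat_lit 228))))))) (XT.nd (nat_lit 1014) (nat_lit 988) (nat_lit 0) (XT.nd (nat_lit 468) (nat_lit 456) (nat_lit 0) (XT.nd (nat_lit 234) (nat_lit 228) (nat_lit 0) (XT.nd (nat_lit 78) (nat_lit 228) (nat_lit 0) (XT.lf (nat_lit 0) (nat_lit 430248469) (nat_lit 0) (nat_lit 456476354) (nat_lit 152) (nat_lit 430248469) (nat_lit 113) (nat_lit 3) (nat_lit 113) (nat_lit 1) (nat_lit 115) (nat_lit 1) (nat_lit 424) (nat_lit 369) (nat_lit 227))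 (XT.nd (nat_lit 78) (nat_lit 152) (nat_lit 0) (XT.lf (nat_lit 76) (nat_lit 415251256) (nat_lit 0) (nat_lit 440230194) (nat_lit 76) (nat_lit 440230194) (nat_lit 113) (nat_lit 3) (nat_lit 112) (nat_lit 1) (nat_lit 113) (nat_lit 1) (nat_lit 425) (nat_lit 369) (nat_lit 226)) (XT.lf (nat_lit 152) (nat_lit 1259765690) (nat_lit 0) (nat_lit 7674020) (nat_lit 76) (nat_lit 7674020) (nat_lit 112) (nat_lit 1) (nat_lit 110) (nat_lit 1) (nat_lit 111) (nat_lit 1) (nat_lit 426) (nat_lit 369) (nat_lit 225)))) (XT.nd (nat_lit 78) (nat_lit 228) (nat_lit 0) (XT.lf (nat_lit 0) (nat_lit 410875592) (nat_lit 0) (nat_lit 432453338) (nat_lit 152) (nat_lit 410875592) (nat_lit 110) (nat_lit 3) (nat_lit 110) (nat_lit 1) (nat_lit 112) (nat_lit 1) (nat_lit 427) (nat_lit 369) (nat_lit 224)) (XT.nd (nat_lit 78) (nat_lit 152) (nat_lit 0) (XT.lf (nat_lit 76) (nat_lit 397619458) (nat_lit 0) (nat_lit 418169692) (nat_lit 76) (nat_lit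 418169692) (nat_lit 110) (nat_lit 3) (nat_lit 109) (nat_lit 1) (nat_lit 110) (nat_lit 1) (nat_lit 428) (nat_lit 369) (nat_lit 223)) (XT.lf (nat_lit 152) (nat_lit 1201719770) (nat_lit 0) (nat_lit 6313435) (nat_lit 76) (nat_lit 6313435) (nat_lit 109) (nat_lit 1) (nat_lit 107) (nat_lit 1) (nat_lit 108) (nat_lit 1) (nat_lit 429) (nat_lit 369) (nat_lit 222))))) (XT.nd (nat_lit 234) (nat_lit 228) (nat_lit 0) (XT.nd (nat_lit 78) (nat_lit 228) (nat_lit 0) (XT.lf (nat_lit 0) (nat_lit 392227520) (nat_lit 0) (nat_lit 409979585) (nat_lit 152) (nat_lit 392227520) (nat_lit 107) (nat_lit 3) (nat_lit 107) (nat_lit 1) (nat_lit 109) (nat_lit 1) (nat_lit 430) (nat_lit 369) (nat_lit 221)) (XT.nd (nat_lit 78) (nat_lit 152) (nat_lit 0) (XT.lf (nat_lit 76) (nat_lit 380447486) (nat_lit 0) (nat_lit 397354215) (nat_lit 76) (nat_lit 397354215) (nat_lit 107) (nat_lit 3) (nat_lit 106) (nat_lit 1) (nat_lit 107) (nat_lit 1)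 (nat_lit 431) (nat_lit 369) (nat_lit 220)) (XT.lf (nat_lit 152) (nat_lit 1146093466) (nat_lit 0) (nat_lit 5194079) (nat_lit 76) (nat_lit 5194079) (nat_lit 106) (nat_lit 1) (nat_lit 104) (nat_lit 1) (nat_lit 105) (nat_lit 1) (nat_lit 432) (nat_lit 369) (nat_lit 219)))) (XT.nd (nat_lit 156) (nat_lit 152) (nat_lit 0) (XT.nd (nat_lit 78) (nat_lit 76) (nat_lit 0) (XT.lf (nat_lit 0) (nat_lit 374304793) (nat_lit 0) (nat_lit 388909461) (nat_lit 152) (nat_lit 374304793) (nat_lit 104) (nat_lit 3) (nat_lit 104) (nat_lit 1) (nat_lit 106) (nat_lit 1) (nat_lit 433) (nat_lit 369) (nat_lit 218)) (XT.lf (nat_lit 76) (nat_lit 363780778) (nat_lit 0) (nat_lit 377689985) (nat_lit 76) (nat_lit 377689985) (nat_lit 104) (nat_lit 3) (nat_lit 103) (nat_lit 1) (nat_lit 104) (nat_lit 1) (nat_lit 434) (nat_lit 369) (nat_lit 217))) (XT.nd (nat_lit 78) (nat_lit 0) (nat_lit 0) (XT.lf (nat_lit 152) (nat_lit 1092832633) (nat_lit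 0) (nat_lit 4273181) (nat_lit 76) (nat_lit 4273181) (nat_lit 103) (nat_lit 1) (nat_lit 101) (nat_lit 1) (nat_lit 102) (nat_lit 1) (nat_lit 435) (nat_lit 369) (nat_lit 216)) (XT.lf (nat_lit 0) (nat_lit 357101710) (nat_lit 0) (nat_lit 369117006) (nat_lit 152) (nat_lit 357101710) (nat_lit 101) (nat_lit 3) (nat_lit 101) (nat_lit 1) (nat_lit 103) (nat_lit 1) (nat_lit 436) (nat_lit 369) (nat_lit 215)))))) (XT.nd (nat_lit 468) (nat_lit 532) (nat_lit 0) (XT.nd (nat_lit 234) (nat_lit 228) (nat_lit 0) (XT.nd (nat_lit 78) (nat_lit 152) (nat_lit 0) (XT.lf (nat_lit 76) (nat_lit 347650669) (nat_lit 0) (nat_lit 359093809) (nat_lit 76) (nat_lit 359093809) (nat_lit 101) (nat_lit 3) (nat_lit 100) (nat_lit 1) (nat_lit 101) (nat_lit 1) (nat_lit 437) (nat_lit 369) (nat_lit 214)) (XT.nd (nat_lit 78) (nat_lit 0) (nat_lit 0) (XT.lf (nat_lit 152) (nat_lit 1041874875) (nat_lit 0) (nat_lit 3515557) (nat_lit 76) (nat_lit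 3515557) (nat_lit 100) (nat_lit 1) (nat_lit 98) (nat_lit 1) (nat_lit 99) (nat_lit 1) (nat_lit 438) (nat_lit 369) (nat_lit 213)) (XT.lf (nat_lit 0) (nat_lit 340607727) (nat_lit 0) (nat_lit 350492741) (nat_lit 152) (nat_lit 340607727) (nat_lit 98) (nat_lit 3) (nat_lit 98) (nat_lit 1) (nat_lit 100) (nat_lit 1) (nat_lit 439) (nat_lit 369) (nat_lit 212)))) (XT.nd (nat_lit 78) (nat_lit 152) (nat_lit 0) (XT.lf (nat_lit 76) (nat_lit 332077183) (nat_lit 0) (nat_lit 341491482) (nat_lit 76) (nat_lit 341491482) (nat_lit 98) (nat_lit 3) (nat_lit 97) (nat_lit 1) (nat_lit 98) (nat_lit 1) (nat_lit 440) (nat_lit 369) (nat_lit 211)) (XT.nd (nat_lit 78) (nat_lit 0) (nat_lit 0) (XT.lf (nat_lit 152) (nat_lit 993151861) (nat_lit 0) (nat_lit 2892257) (nat_lit 76) (nat_lit 2892257) (nat_lit 97) (nat_lit 1) (nat_lit 95) (nat_lit 1) (nat_lit 96) (nat_lit 1) (nat_lit 441) (nat_lit 369) (nat_lit 210)) (XT.lf (nat_lit 0) (nat_lit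 324808598) (nat_lit 0) (nat_lit 332941023) (nat_lit 152) (nat_lit 324808598) (nat_lit 95) (nat_lit 3) (nat_lit 95) (nat_lit 1) (nat_lit 97) (nat_lit 1) (nat_lit 442) (nat_lit 369) (nat_lit 209))))) (XT.nd (nat_lit 234) (nat_lit 304) (nat_lit 0) (XT.nd (nat_lit 78) (nat_lit 152) (nat_lit 0) (XT.lf (nat_lit 76) (nat_lit 317071309) (nat_lit 0) (nat_lit 324816476) (nat_lit 76) (nat_lit 324816476) (nat_lit 95) (nat_lit 3) (nat_lit 94) (nat_lit 1) (nat_lit 95) (nat_lit 1) (nat_lit 443) (nat_lit 369) (nat_lit 208)) (XT.nd (nat_lit 78) (nat_lit 0) (nat_lit 0) (XT.lf (nat_lit 152) (nat_lit 946591182) (nat_lit 0) (nat_lit 2379467) (nat_lit 76) (nat_lit 2379467) (nat_lit 94) (nat_lit 1) (nat_lit 92) (nat_lit 1) (nat_lit 93) (nat_lit 1) (nat_lit 444) (nat_lit 369) (nat_lit 207)) (XT.lf (nat_lit 0) (nat_lit 309687292) (nat_lit 0) (nat_lit 316377859) (nat_lit 152) (nat_lit 309687292) (nat_lit 92) (nat_lit 3)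 (nat_lit 92) (nat_lit 1) (nat_lit 94) (nat_lit 1) (nat_lit 445) (nat_lit 369) (nat_lit 206)))) (XT.nd (nat_lit 156) (nat_lit 76) (nat_lit 0) (XT.nd (nat_lit 78) (nat_lit 152) (nat_lit 0) (XT.lf (nat_lit 76) (nat_lit 302636863) (nat_lit 0) (nat_lit 309008831) (nat_lit 76) (nat_lit 309008831) (nat_lit 92) (nat_lit 3) (nat_lit 91) (nat_lit 1) (nat_lit 92) (nat_lit 1) (nat_lit 446) (nat_lit 369) (nat_lit 205)) (XT.lf (nat_lit 152) (nat_lit 902117850) (nat_lit 0) (nat_lit 1957593) (nat_lit 76) (nat_lit 1957593) (nat_lit 91) (nat_lit 1) (nat_lit 89) (nat_lit 1) (nat_lit 90) (nat_lit 1) (nat_lit 447) (nat_lit 369) (nat_lit 204))) (XT.nd (nat_lit 78) (nat_lit 76) (nat_lit 0) (XT.lf (nat_lit 0) (nat_lit 295224745) (nat_lit 0) (nat_lit 300729091) (nat_lit 152) (nat_lit 295224745) (nat_lit 89) (nat_lit 3) (nat_lit 89) (nat_lit 1) (nat_lit 91) (nat_lit 1) (nat_lit 448) (nat_lit 369) (nat_lit 203)) (XT.lf (nat_lit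 76) (nat_lit 288772012) (nat_lit 0) (nat_lit 294014246) (nat_lit 76) (nat_lit 294014246) (nat_lit 89) (nat_lit 3) (nat_lit 88) (nat_lit 1) (nat_lit 89) (nat_lit 1) (nat_lit 449) (nat_lit 369) (nat_lit 202))))))))
noncomputable def ec138 : XT := (XT.nd (nat_lit 1950) (nat_lit 3420) (nat_lit 0) (XT.nd (nat_lit 936) (nat_lit 2584) (nat_lit 0) (XT.nd (nat_lit 468) (nat_lit 380) (nat_lit 0) (XT.nd (nat_lit 234) (nat_lit 0) (nat_lit 76) (XT.nd (nat_lit 78) (nat_lit 0) (nat_lit 0) (XT.lf (nat_lit 836) (nat_lit 2322355232) (nat_lit 0) (nat_lit 4123336376) (nat_lit 836) (nat_lit 2322355232) (nat_lit 303) (nat_lit 1) (nat_lit 292) (nat_lit 0) (nat_lit 303) (nat_lit 0) (nat_lit 280) (nat_lit 370) (nat_lit 370)) (XT.nd (nat_lit 78) (nat_lit 0) (nat_lit 76) (XT.lf (nat_lit 836) (nat_lit 9001738814) (nat_lit 76) (nat_lit 4056830951) (nat_lit 0) (nat_lit 4056830951) (nat_lit 303) (nat_lit 1) (nat_lit 293) (nat_lit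 1) (nat_lit 292) (nat_lit 0) (nat_lit 281) (nat_lit 370) (nat_lit 369)) (XT.lf (nat_lit 836) (nat_lit 4290093180) (nat_lit 0) (nat_lit 8127527272) (nat_lit 760) (nat_lit 4290093180) (nat_lit 304) (nat_lit 1) (nat_lit 293) (nat_lit 1) (nat_lit 303) (nat_lit 1) (nat_lit 282) (nat_lit 370) (nat_lit 368)))) (XT.nd (nat_lit 78) (nat_lit 0) (nat_lit 76) (XT.lf (nat_lit 836) (nat_lit 8047618682) (nat_lit 76) (nat_lit 4132789597) (nat_lit 0) (nat_lit 4132789597) (nat_lit 304) (nat_lit 1) (nat_lit 294) (nat_lit 1) (nat_lit 293) (nat_lit 1) (nat_lit 283) (nat_lit 370) (nat_lit 367)) (XT.nd (nat_lit 78) (nat_lit 0) (nat_lit 0) (XT.lf (nat_lit 836) (nat_lit 3704241597) (nat_lit 0) (nat_lit 8522703097) (nat_lit 760) (nat_lit 3704241597) (nat_lit 305) (nat_lit 1) (nat_lit 294) (nat_lit 1) (nat_lit 304) (nat_lit 1) (nat_lit 284) (nat_lit 370) (nat_lit 366)) (XT.lf (nat_lit 836) (nat_lit 6662319777) (nat_lit 76)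 (nat_lit 4449250051) (nat_lit 0) (nat_lit 4449250051) (nat_lit 305) (nat_lit 1) (nat_lit 295) (nat_lit 1) (nat_lit 294) (nat_lit 1) (nat_lit 285) (nat_lit 370) (nat_lit 365))))) (XT.nd (nat_lit 234) (nat_lit 608) (nat_lit 0) (XT.nd (nat_lit 78) (nat_lit 0) (nat_lit 0) (XT.lf (nat_lit 836) (nat_lit 2921234797) (nat_lit 0) (nat_lit 9360419496) (nat_lit 760) (nat_lit 2921234797) (nat_lit 306) (nat_lit 1) (nat_lit 295) (nat_lit 1) (nat_lit 305) (nat_lit 1) (nat_lit 286) (nat_lit 370) (nat_lit 364)) (XT.nd (nat_lit 78) (nat_lit 0) (nat_lit 76) (XT.lf (nat_lit 836) (nat_lit 4910685388) (nat_lit 76) (nat_lit 4972063986) (nat_lit 0) (nat_lit 4972063986) (nat_lit 306) (nat_lit 1) (nat_lit 296) (nat_lit 1) (nat_lit 295) (nat_lit 1) (nat_lit 287) (nat_lit 370) (nat_lit 363)) (XT.lf (nat_lit 836) (nat_lit 1971384409) (nat_lit 0) (nat_lit 10576710370) (nat_lit 760) (nat_lit 1971384409) (nat_lit 307) (nat_lit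 1) (nat_lit 296) (nat_lit 1) (nat_lit 306) (nat_lit 1) (nat_lit 288) (nat_lit 370) (nat_lit 362)))) (XT.nd (nat_lit 78) (nat_lit 684) (nat_lit 0) (XT.lf (nat_lit 836) (nat_lit 2850351413) (nat_lit 76) (nat_lit 5670819232) (nat_lit 0) (nat_lit 5670819232) (nat_lit 307) (nat_lit 1) (nat_lit 297) (nat_lit 1) (nat_lit 296) (nat_lit 1) (nat_lit 289) (nat_lit 370) (nat_lit 361)) (XT.nd (nat_lit 78) (nat_lit 760) (nat_lit 0) (XT.lf (nat_lit 76) (nat_lit 881613405) (nat_lit 0) (nat_lit 12114643385) (nat_lit 760) (nat_lit 881613405) (nat_lit 298) (nat_lit 1) (nat_lit 297) (nat_lit 1) (nat_lit 307) (nat_lit 1) (nat_lit 290) (nat_lit 370) (nat_lit 360)) (XT.lf (nat_lit 836) (nat_lit 532472573) (nat_lit 0) (nat_lit 6518465690) (nat_lit 760) (nat_lit 6518465690) (nat_lit 298) (nat_lit 1) (nat_lit 287) (nat_lit 1) (nat_lit 297) (nat_lit 1) (nat_lit 291) (nat_lit 370) (nat_lit 359)))))) (XT.nd (nat_lit 468) (nat_lit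 1292) (nat_lit 0) (XT.nd (nat_lit 234) (nat_lit 380) (nat_lit 0) (XT.nd (nat_lit 78) (nat_lit 380) (nat_lit 0) (XT.lf (nat_lit 532) (nat_lit 12636244739) (nat_lit 0) (nat_lit 318972629) (nat_lit 456) (nat_lit 318972629) (nat_lit 287) (nat_lit 1) (nat_lit 280) (nat_lit 1) (nat_lit 286) (nat_lit 1) (nat_lit 292) (nat_lit 370) (nat_lit 358)) (XT.nd (nat_lit 78) (nat_lit 380) (nat_lit 0) (XT.lf (nat_lit 76) (nat_lit 5524544207) (nat_lit 0) (nat_lit 1933685200) (nat_lit 532) (nat_lit 5524544207) (nat_lit 281) (nat_lit 1) (nat_lit 280) (nat_lit 1) (nat_lit 287) (nat_lit 1) (nat_lit 293) (nat_lit 370) (nat_lit 357)) (XT.lf (nat_lit 456) (nat_lit 9506322491) (nat_lit 0) (nat_lit 1598713272) (nat_lit 380) (nat_lit 1598713272) (nat_lit 281) (nat_lit 1) (nat_lit 275) (nat_lit 1) (nat_lit 280) (nat_lit 1) (nat_lit 294) (nat_lit 370) (nat_lit 356)))) (XT.nd (nat_lit 78) (nat_lit 380) (nat_lit 0) (XT.lf (nat_lit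 76) (nat_lit 3940590130) (nat_lit 0) (nat_lit 4549410067) (nat_lit 456) (nat_lit 3940590130) (nat_lit 276) (nat_lit 1) (nat_lit 275) (nat_lit 1) (nat_lit 281) (nat_lit 1) (nat_lit 295) (nat_lit 370) (nat_lit 355)) (XT.nd (nat_lit 78) (nat_lit 0) (nat_lit 0) (XT.lf (nat_lit 456) (nat_lit 6260048172) (nat_lit 0) (nat_lit 2953448415) (nat_lit 380) (nat_lit 2953448415) (nat_lit 276) (nat_lit 1) (nat_lit 270) (nat_lit 1) (nat_lit 275) (nat_lit 1) (nat_lit 296) (nat_lit 370) (nat_lit 354)) (XT.lf (nat_lit 76) (nat_lit 2306744555) (nat_lit 0) (nat_lit 7297478265) (nat_lit 456) (nat_lit 2306744555) (nat_lit 271) (nat_lit 1) (nat_lit 270) (nat_lit 1) (nat_lit 276) (nat_lit 1) (nat_lit 297) (nat_lit 370) (nat_lit 353))))) (XT.nd (nat_lit 234) (nat_lit 608) (nat_lit 0) (XT.nd (nat_lit 78) (nat_lit 380) (nat_lit 0) (XT.lf (nat_lit 380) (nat_lit 2927636360) (nat_lit 0) (nat_lit 4366968987) (nat_lit 304) (nat_lit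 4366968987) (nat_lit 271) (nat_lit 1) (nat_lit 266) (nat_lit 1) (nat_lit 270) (nat_lit 1) (nat_lit 298) (nat_lit 370) (nat_lit 352)) (XT.nd (nat_lit 78) (nat_lit 380) (nat_lit 0) (XT.lf (nat_lit 76) (nat_lit 637034137) (nat_lit 0) (nat_lit 10147703451) (nat_lit 380) (nat_lit 637034137) (nat_lit 267) (nat_lit 1) (nat_lit 266) (nat_lit 1) (nat_lit 271) (nat_lit 1) (nat_lit 299) (nat_lit 370) (nat_lit 351)) (XT.lf (nat_lit 76) (nat_lit 5367832691) (nat_lit 0) (nat_lit 449566414) (nat_lit 380) (nat_lit 5367832691) (nat_lit 262) (nat_lit 1) (nat_lit 261) (nat_lit 1) (nat_lit 266) (nat_lit 1) (nat_lit 300) (nat_lit 370) (nat_lit 350)))) (XT.nd (nat_lit 156) (nat_lit 304) (nat_lit 0) (XT.nd (nat_lit 78) (nat_lit 0) (nat_lit 0) (XT.lf (nat_lit 380) (nat_lit 8879241787) (nat_lit 0) (nat_lit 1039229051) (nat_lit 304) (nat_lit 1039229051) (nat_lit 262) (nat_lit 1) (nat_lit 257) (nat_lit 1) (nat_lit 261) (nat_lit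 1) (nat_lit 301) (nat_lit 370) (nat_lit 349)) (XT.lf (nat_lit 76) (nat_lit 3482828987) (nat_lit 0) (nat_lit 3768413368) (nat_lit 380) (nat_lit 3482828987) (nat_lit 258) (nat_lit 1) (nat_lit 257) (nat_lit 1) (nat_lit 262) (nat_lit 1) (nat_lit 302) (nat_lit 370) (nat_lit 348))) (XT.nd (nat_lit 78) (nat_lit 0) (nat_lit 0) (XT.lf (nat_lit 380) (nat_lit 5082416340) (nat_lit 0) (nat_lit 2717890553) (nat_lit 304) (nat_lit 2717890553) (nat_lit 258) (nat_lit 1) (nat_lit 253) (nat_lit 1) (nat_lit 257) (nat_lit 1) (nat_lit 303) (nat_lit 370) (nat_lit 347)) (XT.lf (nat_lit 76) (nat_lit 1602767289) (nat_lit 0) (nat_lit 7103101145) (nat_lit 380) (nat_lit 1602767289) (nat_lit 254) (nat_lit 1) (nat_lit 253) (nat_lit 1) (nat_lit 258) (nat_lit 1) (nat_lit 304) (nat_lit 370) (nat_lit 346))))))) (XT.nd (nat_lit 936) (nat_lit 1368) (nat_lit 0) (XT.nd (nat_lit 468) (nat_lit 988) (nat_lit 0) (XT.nd (nat_lit 234) (nat_lit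 456) (nat_lit 0) (XT.nd (nat_lit 78) (nat_lit 380) (nat_lit 0) (XT.lf (nat_lit 304) (nat_lit 1303461991) (nat_lit 0) (nat_lit 4400067803) (nat_lit 228) (nat_lit 4400067803) (nat_lit 254) (nat_lit 1) (nat_lit 250) (nat_lit 1) (nat_lit 253) (nat_lit 1) (nat_lit 305) (nat_lit 370) (nat_lit 345)) (XT.nd (nat_lit 78) (nat_lit 0) (nat_lit 0) (XT.lf (nat_lit 380) (nat_lit 9385606944) (nat_lit 0) (nat_lit 260432583) (nat_lit 304) (nat_lit 260432583) (nat_lit 250) (nat_lit 1) (nat_lit 245) (nat_lit 1) (nat_lit 249) (nat_lit 1) (nat_lit 306) (nat_lit 370) (nat_lit 344)) (XT.lf (nat_lit 76) (nat_lit 3672657384) (nat_lit 0) (nat_lit 2365122923) (nat_lit 380) (nat_lit 3672657384) (nat_lit 246) (nat_lit 1) (nat_lit 245) (nat_lit 1) (nat_lit 250) (nat_lit 1) (nat_lit 307) (nat_lit 370) (nat_lit 343)))) (XT.nd (nat_lit 78) (nat_lit 228) (nat_lit 0) (XT.lf (nat_lit 304) (nat_lit 5364032217) (nat_lit 0) (nat_lit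 2078944747) (nat_lit 228) (nat_lit 2078944747) (nat_lit 246) (nat_lit 1) (nat_lit 242) (nat_lit 1) (nat_lit 245) (nat_lit 1) (nat_lit 308) (nat_lit 370) (nat_lit 342)) (XT.nd (nat_lit 78) (nat_lit 228) (nat_lit 0) (XT.lf (nat_lit 76) (nat_lit 1694580750) (nat_lit 0) (nat_lit 5949033804) (nat_lit 304) (nat_lit 1694580750) (nat_lit 243) (nat_lit 1) (nat_lit 242) (nat_lit 1) (nat_lit 246) (nat_lit 1) (nat_lit 309) (nat_lit 370) (nat_lit 341)) (XT.lf (nat_lit 304) (nat_lit 1412380089) (nat_lit 0) (nat_lit 3873134267) (nat_lit 228) (nat_lit 3873134267) (nat_lit 243) (nat_lit 1) (nat_lit 239) (nat_lit 1) (nat_lit 242) (nat_lit 1) (nat_lit 310) (nat_lit 370) (nat_lit 340))))) (XT.nd (nat_lit 234) (nat_lit 456) (nat_lit 0) (XT.nd (nat_lit 78) (nat_lit 228) (nat_lit 0) (XT.lf (nat_lit 304) (nat_lit 8500308115) (nat_lit 0) (nat_lit 242732108) (nat_lit 228) (nat_lit 242732108) (nat_lit 239) (nat_lit 1) (nat_lit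 235) (nat_lit 1) (nat_lit 238) (nat_lit 1) (nat_lit 311) (nat_lit 370) (nat_lit 339)) (XT.nd (nat_lit 78) (nat_lit 228) (nat_lit 0) (XT.lf (nat_lit 76) (nat_lit 3215423126) (nat_lit 0) (nat_lit 2382596250) (nat_lit 304) (nat_lit 3215423126) (nat_lit 236) (nat_lit 1) (nat_lit 235) (nat_lit 1) (nat_lit 239) (nat_lit 1) (nat_lit 312) (nat_lit 370) (nat_lit 338)) (XT.lf (nat_lit 304) (nat_lit 4421501222) (nat_lit 0) (nat_lit 2112993842) (nat_lit 228) (nat_lit 2112993842) (nat_lit 236) (nat_lit 1) (nat_lit 232) (nat_lit 1) (nat_lit 235) (nat_lit 1) (nat_lit 313) (nat_lit 370) (nat_lit 337)))) (XT.nd (nat_lit 78) (nat_lit 456) (nat_lit 0) (XT.lf (nat_lit 76) (nat_lit 1217677830) (nat_lit 0) (nat_lit 6050630599) (nat_lit 304) (nat_lit 1217677830) (nat_lit 233) (nat_lit 1) (nat_lit 232) (nat_lit 1) (nat_lit 236) (nat_lit 1) (nat_lit 314) (nat_lit 370) (nat_lit 336)) (XT.nd (nat_lit 78) (nat_lit 304) (nat_lit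 0) (XT.lf (nat_lit 228) (nat_lit 446197644) (nat_lit 0) (nat_lit 3940664695) (nat_lit 152) (nat_lit 3940664695) (nat_lit 233) (nat_lit 1) (nat_lit 230) (nat_lit 1) (nat_lit 232) (nat_lit 1) (nat_lit 315) (nat_lit 370) (nat_lit 335)) (XT.lf (nat_lit 304) (nat_lit 6741896785) (nat_lit 0) (nat_lit 716038306) (nat_lit 228) (nat_lit 716038306) (nat_lit 230) (nat_lit 1) (nat_lit 226) (nat_lit 1) (nat_lit 229) (nat_lit 1) (nat_lit 316) (nat_lit 370) (nat_lit 334)))))) (XT.nd (nat_lit 468) (nat_lit 836) (nat_lit 0) (XT.nd (nat_lit 234) (nat_lit 380) (nat_lit 0) (XT.nd (nat_lit 78) (nat_lit 152) (nat_lit 0) (XT.lf (nat_lit 76) (nat_lit 2354784513) (nat_lit 0) (nat_lit 3312568082) (nat_lit 304) (nat_lit 2354784513) (nat_lit 227) (nat_lit 1) (nat_lit 226) (nat_lit 1) (nat_lit 230) (nat_lit 1) (nat_lit 317) (nat_lit 370) (nat_lit 333)) (XT.nd (nat_lit 78) (nat_lit 0) (nat_lit 0) (XT.lf (nat_lit 228) (nat_lit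 2720590264) (nat_lit 0) (nat_lit 2577198320) (nat_lit 152) (nat_lit 2577198320) (nat_lit 227) (nat_lit 1) (nat_lit 224) (nat_lit 1) (nat_lit 226) (nat_lit 1) (nat_lit 318) (nat_lit 370) (nat_lit 332)) (XT.lf (nat_lit 76) (nat_lit 390862467) (nat_lit 0) (nat_lit 6950995117) (nat_lit 228) (nat_lit 390862467) (nat_lit 225) (nat_lit 1) (nat_lit 224) (nat_lit 1) (nat_lit 227) (nat_lit 1) (nat_lit 319) (nat_lit 370) (nat_lit 331)))) (XT.nd (nat_lit 78) (nat_lit 152) (nat_lit 0) (XT.lf (nat_lit 76) (nat_lit 3225856522) (nat_lit 0) (nat_lit 1139257305) (nat_lit 228) (nat_lit 3225856522) (nat_lit 222) (nat_lit 1) (nat_lit 221) (nat_lit 1) (nat_lit 224) (nat_lit 1) (nat_lit 320) (nat_lit 370) (nat_lit 330)) (XT.nd (nat_lit 78) (nat_lit 0) (nat_lit 0) (XT.lf (nat_lit 228) (nat_lit 4479667161) (nat_lit 0) (nat_lit 1487128125) (nat_lit 152) (nat_lit 1487128125) (nat_lit 222) (nat_lit 1) (nat_lit 219) (nat_lit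 1) (nat_lit 221) (nat_lit 1) (nat_lit 321) (nat_lit 370) (nat_lit 329)) (XT.lf (nat_lit 76) (nat_lit 1264045529) (nat_lit 0) (nat_lit 4791814452) (nat_lit 228) (nat_lit 1264045529) (nat_lit 220) (nat_lit 1) (nat_lit 219) (nat_lit 1) (nat_lit 222) (nat_lit 1) (nat_lit 322) (nat_lit 370) (nat_lit 328))))) (XT.nd (nat_lit 234) (nat_lit 456) (nat_lit 0) (XT.nd (nat_lit 78) (nat_lit 228) (nat_lit 0) (XT.lf (nat_lit 228) (nat_lit 592159820) (nat_lit 0) (nat_lit 3298214622) (nat_lit 152) (nat_lit 3298214622) (nat_lit 220) (nat_lit 1) (nat_lit 217) (nat_lit 1) (nat_lit 219) (nat_lit 1) (nat_lit 323) (nat_lit 370) (nat_lit 327)) (XT.nd (nat_lit 78) (nat_lit 0) (nat_lit 0) (XT.lf (nat_lit 228) (nat_lit 5820129277) (nat_lit 0) (nat_lit 620474169) (nat_lit 152) (nat_lit 620474169) (nat_lit 217) (nat_lit 1) (nat_lit 214) (nat_lit 1) (nat_lit 216) (nat_lit 1) (nat_lit 324) (nat_lit 370) (nat_lit 326)) (XT.lf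 (nat_lit 76) (nat_lit 1937535298) (nat_lit 0) (nat_lit 3059583863) (nat_lit 228) (nat_lit 1937535298) (nat_lit 215) (nat_lit 1) (nat_lit 214) (nat_lit 1) (nat_lit 217) (nat_lit 1) (nat_lit 325) (nat_lit 370) (nat_lit 325)))) (XT.nd (nat_lit 156) (nat_lit 304) (nat_lit 0) (XT.nd (nat_lit 78) (nat_lit 0) (nat_lit 0) (XT.lf (nat_lit 228) (nat_lit 1973285633) (nat_lit 0) (nat_lit 2419307956) (nat_lit 152) (nat_lit 2419307956) (nat_lit 215) (nat_lit 1) (nat_lit 212) (nat_lit 1) (nat_lit 214) (nat_lit 1) (nat_lit 326) (nat_lit 370) (nat_lit 324)) (XT.lf (nat_lit 76) (nat_lit 64856456) (nat_lit 0) (nat_lit 6563740669) (nat_lit 228) (nat_lit 64856456) (nat_lit 213) (nat_lit 1) (nat_lit 212) (nat_lit 1) (nat_lit 215) (nat_lit 1) (nat_lit 327) (nat_lit 370) (nat_lit 323))) (XT.nd (nat_lit 78) (nat_lit 152) (nat_lit 0) (XT.lf (nat_lit 76) (nat_lit 2448874050) (nat_lit 0) (nat_lit 1676504601) (nat_lit 152)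 (nat_lit 2448874050) (nat_lit 211) (nat_lit 1) (nat_lit 210) (nat_lit 1) (nat_lit 212) (nat_lit 1) (nat_lit 328) (nat_lit 370) (nat_lit 322)) (XT.lf (nat_lit 228) (nat_lit 3038773910) (nat_lit 0) (nat_lit 1710235999) (nat_lit 152) (nat_lit 1710235999) (nat_lit 211) (nat_lit 1) (nat_lit 208) (nat_lit 1) (nat_lit 210) (nat_lit 1) (nat_lit 329) (nat_lit 370) (nat_lit 321))))))))
noncomputable def ec139 : XT := (XT.nd (nat_lit 1950) (nat_lit 1900) (nat_lit 0) (XT.nd (nat_lit 936) (nat_lit 912) (nat_lit 0) (XT.nd (nat_lit 468) (nat_lit 608) (nat_lit 0) (XT.nd (nat_lit 234) (nat_lit 304) (nat_lit 0) (XT.nd (nat_lit 78) (nat_lit 304) (nat_lit 0) (XT.lf (nat_lit 76) (nat_lit 609253167) (nat_lit 0) (nat_lit 5128837107) (nat_lit 228) (nat_lit 609253167) (nat_lit 209) (nat_lit 1) (nat_lit 208) (nat_lit 1) (nat_lit 211) (nat_lit 1) (nat_lit 330) (nat_lit 370) (nat_lit 320)) (XT.nd (nat_lit 78) (nat_lit 152)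 (nat_lit 0) (XT.lf (nat_lit 76) (nat_lit 2828846137) (nat_lit 0) (nat_lit 578671518) (nat_lit 152) (nat_lit 2828846137) (nat_lit 207) (nat_lit 1) (nat_lit 206) (nat_lit 1) (nat_lit 208) (nat_lit 1) (nat_lit 331) (nat_lit 370) (nat_lit 319)) (XT.lf (nat_lit 228) (nat_lit 3847956280) (nat_lit 0) (nat_lit 1140220490) (nat_lit 152) (nat_lit 1140220490) (nat_lit 207) (nat_lit 1) (nat_lit 204) (nat_lit 1) (nat_lit 206) (nat_lit 1) (nat_lit 332) (nat_lit 370) (nat_lit 318)))) (XT.nd (nat_lit 78) (nat_lit 304) (nat_lit 0) (XT.lf (nat_lit 76) (nat_lit 1030658469) (nat_lit 0) (nat_lit 3961251185) (nat_lit 228) (nat_lit 1030658469) (nat_lit 205) (nat_lit 1) (nat_lit 204) (nat_lit 1) (nat_lit 207) (nat_lit 1) (nat_lit 333) (nat_lit 370) (nat_lit 317)) (XT.nd (nat_lit 78) (nat_lit 228) (nat_lit 0) (XT.lf (nat_lit 152) (nat_lit 295864513) (nat_lit 0) (nat_lit 2811435760) (nat_lit 76) (nat_lit 2811435760) (nat_lit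 205) (nat_lit 1) (nat_lit 203) (nat_lit 1) (nat_lit 204) (nat_lit 1) (nat_lit 334) (nat_lit 370) (nat_lit 316)) (XT.lf (nat_lit 228) (nat_lit 4449484548) (nat_lit 0) (nat_lit 683971840) (nat_lit 152) (nat_lit 683971840) (nat_lit 203) (nat_lit 1) (nat_lit 200) (nat_lit 1) (nat_lit 202) (nat_lit 1) (nat_lit 335) (nat_lit 370) (nat_lit 315))))) (XT.nd (nat_lit 234) (nat_lit 304) (nat_lit 0) (XT.nd (nat_lit 78) (nat_lit 304) (nat_lit 0) (XT.lf (nat_lit 76) (nat_lit 1352138969) (nat_lit 0) (nat_lit 3012973253) (nat_lit 228) (nat_lit 1352138969) (nat_lit 201) (nat_lit 1) (nat_lit 200) (nat_lit 1) (nat_lit 203) (nat_lit 1) (nat_lit 336) (nat_lit 370) (nat_lit 314)) (XT.nd (nat_lit 78) (nat_lit 228) (nat_lit 0) (XT.lf (nat_lit 152) (nat_lit 993580064) (nat_lit 0) (nat_lit 2312975157) (nat_lit 76) (nat_lit 2312975157) (nat_lit 201) (nat_lit 1) (nat_lit 199) (nat_lit 1) (nat_lit 200) (nat_lit 1) (nat_lit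 337) (nat_lit 370) (nat_lit 313)) (XT.lf (nat_lit 228) (nat_lit 4883231848) (nat_lit 0) (nat_lit 320714487) (nat_lit 152) (nat_lit 320714487) (nat_lit 199) (nat_lit 1) (nat_lit 196) (nat_lit 1) (nat_lit 198) (nat_lit 1) (nat_lit 338) (nat_lit 370) (nat_lit 312)))) (XT.nd (nat_lit 78) (nat_lit 304) (nat_lit 0) (XT.lf (nat_lit 76) (nat_lit 1592611597) (nat_lit 0) (nat_lit 2244534932) (nat_lit 228) (nat_lit 1592611597) (nat_lit 197) (nat_lit 1) (nat_lit 196) (nat_lit 1) (nat_lit 199) (nat_lit 1) (nat_lit 339) (nat_lit 370) (nat_lit 311)) (XT.nd (nat_lit 78) (nat_lit 228) (nat_lit 0) (XT.lf (nat_lit 152) (nat_lit 1531869917) (nat_lit 0) (nat_lit 1902890386) (nat_lit 76) (nat_lit 1902890386) (nat_lit 197) (nat_lit 1) (nat_lit 195) (nat_lit 1) (nat_lit 196) (nat_lit 1) (nat_lit 340) (nat_lit 370) (nat_lit 310)) (XT.lf (nat_lit 228) (nat_lit 5181856354) (nat_lit 0) (nat_lit 33385138) (nat_lit 152) (nat_lit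 33385138) (nat_lit 195) (nat_lit 1) (nat_lit 192) (nat_lit 1) (nat_lit 194) (nat_lit 1) (nat_lit 341) (nat_lit 370) (nat_lit 309)))))) (XT.nd (nat_lit 468) (nat_lit 608) (nat_lit 0) (XT.nd (nat_lit 234) (nat_lit 228) (nat_lit 0) (XT.nd (nat_lit 78) (nat_lit 76) (nat_lit 0) (XT.lf (nat_lit 76) (nat_lit 1767582188) (nat_lit 0) (nat_lit 1623493377) (nat_lit 228) (nat_lit 1767582188) (nat_lit 193) (nat_lit 1) (nat_lit 192) (nat_lit 1) (nat_lit 195) (nat_lit 1) (nat_lit 342) (nat_lit 370) (nat_lit 308)) (XT.nd (nat_lit 78) (nat_lit 0) (nat_lit 0) (XT.lf (nat_lit 152) (nat_lit 1940700924) (nat_lit 0) (nat_lit 1565512630) (nat_lit 76) (nat_lit 1565512630) (nat_lit 193) (nat_lit 1) (nat_lit 191) (nat_lit 1) (nat_lit 192) (nat_lit 1) (nat_lit 343) (nat_lit 370) (nat_lit 307)) (XT.lf (nat_lit 0) (nat_lit 195174767) (nat_lit 0) (nat_lit 4597069691) (nat_lit 152) (nat_lit 195174767) (nat_lit 191) (nat_lit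 3) (nat_lit 191) (nat_lit 1) (nat_lit 193) (nat_lit 1) (nat_lit 344) (nat_lit 370) (nat_lit 306)))) (XT.nd (nat_lit 78) (nat_lit 76) (nat_lit 0) (XT.lf (nat_lit 76) (nat_lit 1889752989) (nat_lit 0) (nat_lit 1123184336) (nat_lit 152) (nat_lit 1889752989) (nat_lit 190) (nat_lit 1) (nat_lit 189) (nat_lit 1) (nat_lit 191) (nat_lit 1) (nat_lit 345) (nat_lit 370) (nat_lit 305)) (XT.nd (nat_lit 78) (nat_lit 0) (nat_lit 0) (XT.lf (nat_lit 152) (nat_lit 2244645884) (nat_lit 0) (nat_lit 1287951115) (nat_lit 76) (nat_lit 1287951115) (nat_lit 190) (nat_lit 1) (nat_lit 188) (nat_lit 1) (nat_lit 189) (nat_lit 1) (nat_lit 346) (nat_lit 370) (nat_lit 304)) (XT.lf (nat_lit 0) (nat_lit 373038446) (nat_lit 0) (nat_lit 3994488294) (nat_lit 152) (nat_lit 373038446) (nat_lit 188) (nat_lit 3) (nat_lit 188) (nat_lit 1) (nat_lit 190) (nat_lit 1) (nat_lit 347) (nat_lit 370) (nat_lit 303))))) (XT.nd (nat_lit 234) (nat_lit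 380) (nat_lit 0) (XT.nd (nat_lit 78) (nat_lit 76) (nat_lit 0) (XT.lf (nat_lit 76) (nat_lit 1969522316) (nat_lit 0) (nat_lit 721696360) (nat_lit 152) (nat_lit 1969522316) (nat_lit 187) (nat_lit 1) (nat_lit 186) (nat_lit 1) (nat_lit 188) (nat_lit 1) (nat_lit 348) (nat_lit 370) (nat_lit 302)) (XT.nd (nat_lit 78) (nat_lit 0) (nat_lit 0) (XT.lf (nat_lit 152) (nat_lit 2463843753) (nat_lit 0) (nat_lit 1059600569) (nat_lit 76) (nat_lit 1059600569) (nat_lit 187) (nat_lit 1) (nat_lit 185) (nat_lit 1) (nat_lit 186) (nat_lit 1) (nat_lit 349) (nat_lit 370) (nat_lit 301)) (XT.lf (nat_lit 0) (nat_lit 509249826) (nat_lit 0) (nat_lit 3488625578) (nat_lit 152) (nat_lit 509249826) (nat_lit 185) (nat_lit 3) (nat_lit 185) (nat_lit 1) (nat_lit 187) (nat_lit 1) (nat_lit 350) (nat_lit 370) (nat_lit 300)))) (XT.nd (nat_lit 156) (nat_lit 152) (nat_lit 0) (XT.nd (nat_lit 78) (nat_lit 76) (nat_lit 0) (XT.lf (nat_lit 76) (nat_lit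 2015395508) (nat_lit 0) (nat_lit 401026930) (nat_lit 152) (nat_lit 2015395508) (nat_lit 184) (nat_lit 1) (nat_lit 183) (nat_lit 1) (nat_lit 185) (nat_lit 1) (nat_lit 351) (nat_lit 370) (nat_lit 299)) (XT.lf (nat_lit 152) (nat_lit 2614789428) (nat_lit 0) (nat_lit 871736011) (nat_lit 76) (nat_lit 871736011) (nat_lit 184) (nat_lit 1) (nat_lit 182) (nat_lit 1) (nat_lit 183) (nat_lit 1) (nat_lit 352) (nat_lit 370) (nat_lit 298))) (XT.nd (nat_lit 78) (nat_lit 152) (nat_lit 0) (XT.lf (nat_lit 0) (nat_lit 611675543) (nat_lit 0) (nat_lit 3062815348) (nat_lit 152) (nat_lit 611675543) (nat_lit 182) (nat_lit 3) (nat_lit 182) (nat_lit 1) (nat_lit 184) (nat_lit 1) (nat_lit 353) (nat_lit 370) (nat_lit 297)) (XT.lf (nat_lit 76) (nat_lit 2034322895) (nat_lit 0) (nat_lit 146388275) (nat_lit 152) (nat_lit 2034322895) (nat_lit 181) (nat_lit 1) (nat_lit 180) (nat_lit 1) (nat_lit 182) (nat_lit 1) (nat_lit 354) (nat_lit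 370) (nat_lit 296))))))) (XT.nd (nat_lit 1014) (nat_lit 912) (nat_lit 0) (XT.nd (nat_lit 468) (nat_lit 608) (nat_lit 0) (XT.nd (nat_lit 234) (nat_lit 228) (nat_lit 0) (XT.nd (nat_lit 78) (nat_lit 76) (nat_lit 0) (XT.lf (nat_lit 152) (nat_lit 2710983329) (nat_lit 0) (nat_lit 717179373) (nat_lit 76) (nat_lit 717179373) (nat_lit 181) (nat_lit 1) (nat_lit 179) (nat_lit 1) (nat_lit 180) (nat_lit 1) (nat_lit 355) (nat_lit 370) (nat_lit 295)) (XT.nd (nat_lit 78) (nat_lit 76) (nat_lit 0) (XT.lf (nat_lit 0) (nat_lit 686764555) (nat_lit 0) (nat_lit 2703323339) (nat_lit 152) (nat_lit 686764555) (nat_lit 179) (nat_lit 3) (nat_lit 179) (nat_lit 1) (nat_lit 181) (nat_lit 1) (nat_lit 356) (nat_lit 370) (nat_lit 294)) (XT.lf (nat_lit 76) (nat_lit 56161200) (nat_lit 0) (nat_lit 1976693374) (nat_lit 76) (nat_lit 1976693374) (nat_lit 179) (nat_lit 3) (nat_lit 178) (nat_lit 1) (nat_lit 179) (nat_lit 1) (nat_lit 357)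 (nat_lit 370) (nat_lit 293)))) (XT.nd (nat_lit 78) (nat_lit 76) (nat_lit 0) (XT.lf (nat_lit 152) (nat_lit 2763465642) (nat_lit 0) (nat_lit 590025245) (nat_lit 76) (nat_lit 590025245) (nat_lit 178) (nat_lit 1) (nat_lit 176) (nat_lit 1) (nat_lit 177) (nat_lit 1) (nat_lit 358) (nat_lit 370) (nat_lit 292)) (XT.nd (nat_lit 78) (nat_lit 76) (nat_lit 0) (XT.lf (nat_lit 0) (nat_lit 739800587) (nat_lit 0) (nat_lit 2398828489) (nat_lit 152) (nat_lit 739800587) (nat_lit 176) (nat_lit 3) (nat_lit 176) (nat_lit 1) (nat_lit 178) (nat_lit 1) (nat_lit 359) (nat_lit 370) (nat_lit 291)) (XT.lf (nat_lit 76) (nat_lit 218182328) (nat_lit 0) (nat_lit 1798208901) (nat_lit 76) (nat_lit 1798208901) (nat_lit 176) (nat_lit 3) (nat_lit 175) (nat_lit 1) (nat_lit 176) (nat_lit 1) (nat_lit 360) (nat_lit 370) (nat_lit 290))))) (XT.nd (nat_lit 234) (nat_lit 380) (nat_lit 0) (XT.nd (nat_lit 78) (nat_lit 76) (nat_lit 0) (XT.lf (nat_lit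 152) (nat_lit 2781255688) (nat_lit 0) (nat_lit 485415229) (nat_lit 76) (nat_lit 485415229) (nat_lit 175) (nat_lit 1) (nat_lit 173) (nat_lit 1) (nat_lit 174) (nat_lit 1) (nat_lit 361) (nat_lit 370) (nat_lit 289)) (XT.nd (nat_lit 78) (nat_lit 76) (nat_lit 0) (XT.lf (nat_lit 0) (nat_lit 775109762) (nat_lit 0) (nat_lit 2139996123) (nat_lit 152) (nat_lit 775109762) (nat_lit 173) (nat_lit 3) (nat_lit 173) (nat_lit 1) (nat_lit 175) (nat_lit 1) (nat_lit 362) (nat_lit 370) (nat_lit 288)) (XT.lf (nat_lit 76) (nat_lit 343288066) (nat_lit 0) (nat_lit 1643179837) (nat_lit 76) (nat_lit 1643179837) (nat_lit 173) (nat_lit 3) (nat_lit 172) (nat_lit 1) (nat_lit 173) (nat_lit 1) (nat_lit 363) (nat_lit 370) (nat_lit 287)))) (XT.nd (nat_lit 156) (nat_lit 228) (nat_lit 0) (XT.nd (nat_lit 78) (nat_lit 0) (nat_lit 0) (XT.lf (nat_lit 152) (nat_lit 2771713237) (nat_lit 0) (nat_lit 399352310) (nat_lit 76) (nat_lit 399352310)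 (nat_lit 172) (nat_lit 1) (nat_lit 170) (nat_lit 1) (nat_lit 171) (nat_lit 1) (nat_lit 364) (nat_lit 370) (nat_lit 286)) (XT.lf (nat_lit 0) (nat_lit 796231375) (nat_lit 0) (nat_lit 1919126762) (nat_lit 152) (nat_lit 796231375) (nat_lit 170) (nat_lit 3) (nat_lit 170) (nat_lit 1) (nat_lit 172) (nat_lit 1) (nat_lit 365) (nat_lit 370) (nat_lit 285))) (XT.nd (nat_lit 78) (nat_lit 152) (nat_lit 0) (XT.lf (nat_lit 76) (nat_lit 438413393) (nat_lit 0) (nat_lit 1507837570) (nat_lit 76) (nat_lit 1507837570) (nat_lit 170) (nat_lit 3) (nat_lit 169) (nat_lit 1) (nat_lit 170) (nat_lit 1) (nat_lit 366) (nat_lit 370) (nat_lit 284)) (XT.lf (nat_lit 152) (nat_lit 2740835625) (nat_lit 0) (nat_lit 328548134) (nat_lit 76) (nat_lit 328548134) (nat_lit 169) (nat_lit 1) (nat_lit 167) (nat_lit 1) (nat_lit 168) (nat_lit 1) (nat_lit 367) (nat_lit 370) (nat_lit 283)))))) (XT.nd (nat_lit 468) (nat_lit 456) (nat_lit 0) (XT.nd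 (nat_lit 234) (nat_lit 228) (nat_lit 0) (XT.nd (nat_lit 78) (nat_lit 228) (nat_lit 0) (XT.lf (nat_lit 0) (nat_lit 806058338) (nat_lit 0) (nat_lit 1729867151) (nat_lit 152) (nat_lit 806058338) (nat_lit 167) (nat_lit 3) (nat_lit 167) (nat_lit 1) (nat_lit 169) (nat_lit 1) (nat_lit 368) (nat_lit 370) (nat_lit 282)) (XT.nd (nat_lit 78) (nat_lit 152) (nat_lit 0) (XT.lf (nat_lit 76) (nat_lit 509245166) (nat_lit 0) (nat_lit 1389063083) (nat_lit 76) (nat_lit 1389063083) (nat_lit 167) (nat_lit 3) (nat_lit 166) (nat_lit 1) (nat_lit 167) (nat_lit 1) (nat_lit 369) (nat_lit 370) (nat_lit 281)) (XT.lf (nat_lit 152) (nat_lit 2693502048) (nat_lit 0) (nat_lit 270297363) (nat_lit 76) (nat_lit 270297363) (nat_lit 166) (nat_lit 1) (nat_lit 164) (nat_lit 1) (nat_lit 165) (nat_lit 1) (nat_lit 370) (nat_lit 370) (nat_lit 280)))) (XT.nd (nat_lit 78) (nat_lit 228) (nat_lit 0) (XT.lf (nat_lit 0) (nat_lit 806952680) (nat_lit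 0) (nat_lit 1566972477) (nat_lit 152) (nat_lit 806952680) (nat_lit 164) (nat_lit 3) (nat_lit 164) (nat_lit 1) (nat_lit 166) (nat_lit 1) (nat_lit 371) (nat_lit 370) (nat_lit 279)) (XT.nd (nat_lit 78) (nat_lit 152) (nat_lit 0) (XT.lf (nat_lit 76) (nat_lit 560444289) (nat_lit 0) (nat_lit 1284272667) (nat_lit 76) (nat_lit 1284272667) (nat_lit 164) (nat_lit 3) (nat_lit 163) (nat_lit 1) (nat_lit 164) (nat_lit 1) (nat_lit 372) (nat_lit 370) (nat_lit 278)) (XT.lf (nat_lit 152) (nat_lit 2633674416) (nat_lit 0) (nat_lit 222374309) (nat_lit 76) (nat_lit 222374309) (nat_lit 163) (nat_lit 1) (nat_lit 161) (nat_lit 1) (nat_lit 162) (nat_lit 1) (nat_lit 373) (nat_lit 370) (nat_lit 277))))) (XT.nd (nat_lit 234) (nat_lit 228) (nat_lit 0) (XT.nd (nat_lit 78) (nat_lit 228) (nat_lit 0) (XT.lf (nat_lit 0) (nat_lit 800840529) (nat_lit 0) (nat_lit 1426110697) (nat_lit 152) (nat_lit 800840529) (nat_lit 161) (nat_lit 3)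 (nat_lit 161) (nat_lit 1) (nat_lit 163) (nat_lit 1) (nat_lit 374) (nat_lit 370) (nat_lit 276)) (XT.nd (nat_lit 78) (nat_lit 152) (nat_lit 0) (XT.lf (nat_lit 76) (nat_lit 595828457) (nat_lit 0) (nat_lit 1191323855) (nat_lit 76) (nat_lit 1191323855) (nat_lit 161) (nat_lit 3) (nat_lit 160) (nat_lit 1) (nat_lit 161) (nat_lit 1) (nat_lit 375) (nat_lit 370) (nat_lit 275)) (XT.lf (nat_lit 152) (nat_lit 2564562474) (nat_lit 0) (nat_lit 182947894) (nat_lit 76) (nat_lit 182947894) (nat_lit 160) (nat_lit 1) (nat_lit 158) (nat_lit 1) (nat_lit 159) (nat_lit 1) (nat_lit 376) (nat_lit 370) (nat_lit 274)))) (XT.nd (nat_lit 156) (nat_lit 152) (nat_lit 0) (XT.nd (nat_lit 78) (nat_lit 76) (nat_lit 0) (XT.lf (nat_lit 0) (nat_lit 789290211) (nat_lit 0) (nat_lit 1303701526) (nat_lit 152) (nat_lit 789290211) (nat_lit 158) (nat_lit 3) (nat_lit 158) (nat_lit 1) (nat_lit 160) (nat_lit 1) (nat_lit 377) (nat_lit 370) (nat_lit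 273)) (XT.lf (nat_lit 76) (nat_lit 618522454) (nat_lit 0) (nat_lit 1108437991) (nat_lit 76) (nat_lit 1108437991) (nat_lit 158) (nat_lit 3) (nat_lit 157) (nat_lit 1) (nat_lit 158) (nat_lit 1) (nat_lit 378) (nat_lit 370) (nat_lit 272))) (XT.nd (nat_lit 78) (nat_lit 0) (nat_lit 0) (XT.lf (nat_lit 152) (nat_lit 2488759527) (nat_lit 0) (nat_lit 150511685) (nat_lit 76) (nat_lit 150511685) (nat_lit 157) (nat_lit 1) (nat_lit 155) (nat_lit 1) (nat_lit 156) (nat_lit 1) (nat_lit 379) (nat_lit 370) (nat_lit 271)) (XT.lf (nat_lit 0) (nat_lit 773576463) (nat_lit 0) (nat_lit 1196783925) (nat_lit 152) (nat_lit 773576463) (nat_lit 155) (nat_lit 3) (nat_lit 155) (nat_lit 1) (nat_lit 157) (nat_lit 1) (nat_lit 380) (nat_lit 370) (nat_lit 270))))))))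
noncomputable def ec140 : XT := (XT.nd (nat_lit 1950) (nat_lit 1976) (nat_lit 0) (XT.nd (nat_lit 936) (nat_lit 988) (nat_lit 0) (XT.nd (nat_lit 468) (nat_lit 456) (nat_lit 0) (XT.nd (nat_lit 234) (nat_lit 228) (nat_lit 0) (XT.nd (nat_lit 78) (nat_lit 152) (nat_lit 0) (XT.lf (nat_lit 76) (nat_lit 631081770) (nat_lit 0) (nat_lit 1034136495) (nat_lit 76) (nat_lit 1034136495) (nat_lit 155) (nat_lit 3) (nat_lit 154) (nat_lit 1) (nat_lit 155) (nat_lit 1) (nat_lit 381) (nat_lit 370) (nat_lit 269)) (XT.nd (nat_lit 78) (nat_lit 0) (nat_lit 0) (XT.lf (nat_lit 152) (nat_lit 2408353986) (nat_lit 0) (nat_lit 123826336) (nat_lit 76) (nat_lit 123826336) (nat_lit 154) (nat_lit 1) (nat_lit 152) (nat_lit 1) (nat_lit 153) (nat_lit 1) (nat_lit 382) (nat_lit 370) (nat_lit 268)) (XT.lf (nat_lit 0) (nat_lit 754733226) (nat_lit 0) (nat_lit 1102907052) (nat_lit 152) (nat_lit 754733226) (nat_lit 152) (nat_lit 3) (nat_lit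 152) (nat_lit 1) (nat_lit 154) (nat_lit 1) (nat_lit 383) (nat_lit 370) (nat_lit 267)))) (XT.nd (nat_lit 78) (nat_lit 152) (nat_lit 0) (XT.lf (nat_lit 76) (nat_lit 635594265) (nat_lit 0) (nat_lit 967188385) (nat_lit 76) (nat_lit 967188385) (nat_lit 152) (nat_lit 3) (nat_lit 151) (nat_lit 1) (nat_lit 152) (nat_lit 1) (nat_lit 384) (nat_lit 370) (nat_lit 266)) (XT.nd (nat_lit 78) (nat_lit 0) (nat_lit 0) (XT.lf (nat_lit 152) (nat_lit 2325021037) (nat_lit 0) (nat_lit 101872233) (nat_lit 76) (nat_lit 101872233) (nat_lit 151) (nat_lit 1) (nat_lit 149) (nat_lit 1) (nat_lit 150) (nat_lit 1) (nat_lit 385) (nat_lit 370) (nat_lit 265)) (XT.lf (nat_lit 0) (nat_lit 733597041) (nat_lit 0) (nat_lit 1020040509) (nat_lit 152) (nat_lit 733597041) (nat_lit 149) (nat_lit 3) (nat_lit 149) (nat_lit 1) (nat_lit 151) (nat_lit 1) (nat_lit 386) (nat_lit 370) (nat_lit 264))))) (XT.nd (nat_lit 234) (nat_lit 228) (nat_lit 0)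 (XT.nd (nat_lit 78) (nat_lit 152) (nat_lit 0) (XT.lf (nat_lit 76) (nat_lit 633763765) (nat_lit 0) (nat_lit 906567068) (nat_lit 76) (nat_lit 906567068) (nat_lit 149) (nat_lit 3) (nat_lit 148) (nat_lit 1) (nat_lit 149) (nat_lit 1) (nat_lit 387) (nat_lit 370) (nat_lit 263)) (XT.nd (nat_lit 78) (nat_lit 0) (nat_lit 0) (XT.lf (nat_lit 152) (nat_lit 2240097944) (nat_lit 0) (nat_lit 83810538) (nat_lit 76) (nat_lit 83810538) (nat_lit 148) (nat_lit 1) (nat_lit 146) (nat_lit 1) (nat_lit 147) (nat_lit 1) (nat_lit 388) (nat_lit 370) (nat_lit 262)) (XT.lf (nat_lit 0) (nat_lit 710842719) (nat_lit 0) (nat_lit 946500469) (nat_lit 152) (nat_lit 710842719) (nat_lit 146) (nat_lit 3) (nat_lit 146) (nat_lit 1) (nat_lit 148) (nat_lit 1) (nat_lit 389) (nat_lit 370) (nat_lit 261)))) (XT.nd (nat_lit 78) (nat_lit 152) (nat_lit 0) (XT.lf (nat_lit 76) (nat_lit 626978819) (nat_lit 0) (nat_lit 851414772) (nat_lit 76) (nat_lit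 851414772) (nat_lit 146) (nat_lit 3) (nat_lit 145) (nat_lit 1) (nat_lit 146) (nat_lit 1) (nat_lit 390) (nat_lit 370) (nat_lit 260)) (XT.nd (nat_lit 78) (nat_lit 0) (nat_lit 0) (XT.lf (nat_lit 152) (nat_lit 2154645915) (nat_lit 0) (nat_lit 68951137) (nat_lit 76) (nat_lit 68951137) (nat_lit 145) (nat_lit 1) (nat_lit 143) (nat_lit 1) (nat_lit 144) (nat_lit 1) (nat_lit 391) (nat_lit 370) (nat_lit 259)) (XT.lf (nat_lit 0) (nat_lit 687012652) (nat_lit 0) (nat_lit 880888866) (nat_lit 152) (nat_lit 687012652) (nat_lit 143) (nat_lit 3) (nat_lit 143) (nat_lit 1) (nat_lit 145) (nat_lit 1) (nat_lit 392) (nat_lit 370) (nat_lit 258)))))) (XT.nd (nat_lit 468) (nat_lit 532) (nat_lit 0) (XT.nd (nat_lit 234) (nat_lit 228) (nat_lit 0) (XT.nd (nat_lit 78) (nat_lit 152) (nat_lit 0) (XT.lf (nat_lit 76) (nat_lit 616369217) (nat_lit 0) (nat_lit 801013231) (nat_lit 76) (nat_lit 801013231) (nat_lit 143) (nat_lit 3) (nat_lit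 142) (nat_lit 1) (nat_lit 143) (nat_lit 1) (nat_lit 393) (nat_lit 370) (nat_lit 257)) (XT.nd (nat_lit 78) (nat_lit 0) (nat_lit 0) (XT.lf (nat_lit 152) (nat_lit 2069500901) (nat_lit 0) (nat_lit 56726271) (nat_lit 76) (nat_lit 56726271) (nat_lit 142) (nat_lit 1) (nat_lit 140) (nat_lit 1) (nat_lit 141) (nat_lit 1) (nat_lit 394) (nat_lit 370) (nat_lit 256)) (XT.lf (nat_lit 0) (nat_lit 662540902) (nat_lit 0) (nat_lit 822043343) (nat_lit 152) (nat_lit 662540902) (nat_lit 140) (nat_lit 3) (nat_lit 140) (nat_lit 1) (nat_lit 142) (nat_lit 1) (nat_lit 395) (nat_lit 370) (nat_lit 255)))) (XT.nd (nat_lit 78) (nat_lit 152) (nat_lit 0) (XT.lf (nat_lit 76) (nat_lit 602852472) (nat_lit 0) (nat_lit 754759559) (nat_lit 76) (nat_lit 754759559) (nat_lit 140) (nat_lit 3) (nat_lit 139) (nat_lit 1) (nat_lit 140) (nat_lit 1) (nat_lit 396) (nat_lit 370) (nat_lit 254)) (XT.nd (nat_lit 78) (nat_lit 0) (nat_lit 0) (XT.lf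 (nat_lit 152) (nat_lit 1985315298) (nat_lit 0) (nat_lit 46668843) (nat_lit 76) (nat_lit 46668843) (nat_lit 139) (nat_lit 1) (nat_lit 137) (nat_lit 1) (nat_lit 138) (nat_lit 1) (nat_lit 397) (nat_lit 370) (nat_lit 253)) (XT.lf (nat_lit 0) (nat_lit 637772985) (nat_lit 0) (nat_lit 768996039) (nat_lit 152) (nat_lit 637772985) (nat_lit 137) (nat_lit 3) (nat_lit 137) (nat_lit 1) (nat_lit 139) (nat_lit 1) (nat_lit 398) (nat_lit 370) (nat_lit 252))))) (XT.nd (nat_lit 234) (nat_lit 304) (nat_lit 0) (XT.nd (nat_lit 78) (nat_lit 152) (nat_lit 0) (XT.lf (nat_lit 76) (nat_lit 587172022) (nat_lit 0) (nat_lit 712146359) (nat_lit 76) (nat_lit 712146359) (nat_lit 137) (nat_lit 3) (nat_lit 136) (nat_lit 1) (nat_lit 137) (nat_lit 1) (nat_lit 399) (nat_lit 370) (nat_lit 251)) (XT.nd (nat_lit 78) (nat_lit 0) (nat_lit 0) (XT.lf (nat_lit 152) (nat_lit 1902592176) (nat_lit 0) (nat_lit 38394573) (nat_lit 76) (nat_lit 38394573)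 (nat_lit 136) (nat_lit 1) (nat_lit 134) (nat_lit 1) (nat_lit 135) (nat_lit 1) (nat_lit 400) (nat_lit 370) (nat_lit 250)) (XT.lf (nat_lit 0) (nat_lit 612982124) (nat_lit 0) (nat_lit 720939654) (nat_lit 152) (nat_lit 612982124) (nat_lit 134) (nat_lit 3) (nat_lit 134) (nat_lit 1) (nat_lit 136) (nat_lit 1) (nat_lit 401) (nat_lit 370) (nat_lit 249)))) (XT.nd (nat_lit 156) (nat_lit 76) (nat_lit 0) (XT.nd (nat_lit 78) (nat_lit 152) (nat_lit 0) (XT.lf (nat_lit 76) (nat_lit 569928639) (nat_lit 0) (nat_lit 672745335) (nat_lit 76) (nat_lit 672745335) (nat_lit 134) (nat_lit 3) (nat_lit 133) (nat_lit 1) (nat_lit 134) (nat_lit 1) (nat_lit 402) (nat_lit 370) (nat_lit 248)) (XT.lf (nat_lit 152) (nat_lit 1821713355) (nat_lit 0) (nat_lit 31587310) (nat_lit 76) (nat_lit 31587310) (nat_lit 133) (nat_lit 1) (nat_lit 131) (nat_lit 1) (nat_lit 132) (nat_lit 1) (nat_lit 403) (nat_lit 370) (nat_lit 247))) (XT.nd (nat_lit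 78) (nat_lit 76) (nat_lit 0) (XT.lf (nat_lit 0) (nat_lit 588382587) (nat_lit 0) (nat_lit 677199514) (nat_lit 152) (nat_lit 588382587) (nat_lit 131) (nat_lit 3) (nat_lit 131) (nat_lit 1) (nat_lit 133) (nat_lit 1) (nat_lit 404) (nat_lit 370) (nat_lit 246)) (XT.lf (nat_lit 76) (nat_lit 551606239) (nat_lit 0) (nat_lit 636193789) (nat_lit 76) (nat_lit 636193789) (nat_lit 131) (nat_lit 3) (nat_lit 130) (nat_lit 1) (nat_lit 131) (nat_lit 1) (nat_lit 405) (nat_lit 370) (nat_lit 245))))))) (XT.nd (nat_lit 936) (nat_lit 1064) (nat_lit 0) (XT.nd (nat_lit 468) (nat_lit 456) (nat_lit 0) (XT.nd (nat_lit 234) (nat_lit 228) (nat_lit 0) (XT.nd (nat_lit 78) (nat_lit 76) (nat_lit 0) (XT.lf (nat_lit 152) (nat_lit 1742962432) (nat_lit 0) (nat_lit 25986958) (nat_lit 76) (nat_lit 25986958) (nat_lit 130) (nat_lit 1) (nat_lit 128) (nat_lit 1) (nat_lit 129) (nat_lit 1) (nat_lit 406) (nat_lit 370) (nat_lit 244)) (XT.nd (nat_lit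 78) (nat_lit 76) (nat_lit 0) (XT.lf (nat_lit 0) (nat_lit 564140645) (nat_lit 0) (nat_lit 637210551) (nat_lit 152) (nat_lit 564140645) (nat_lit 128) (nat_lit 3) (nat_lit 128) (nat_lit 1) (nat_lit 130) (nat_lit 1) (nat_lit 407) (nat_lit 370) (nat_lit 243)) (XT.lf (nat_lit 76) (nat_lit 532593091) (nat_lit 0) (nat_lit 602183477) (nat_lit 76) (nat_lit 602183477) (nat_lit 128) (nat_lit 3) (nat_lit 127) (nat_lit 1) (nat_lit 128) (nat_lit 1) (nat_lit 408) (nat_lit 370) (nat_lit 242)))) (XT.nd (nat_lit 78) (nat_lit 76) (nat_lit 0) (XT.lf (nat_lit 152) (nat_lit 1666543645) (nat_lit 0) (nat_lit 21379535) (nat_lit 76) (nat_lit 21379535) (nat_lit 127) (nat_lit 1) (nat_lit 125) (nat_lit 1) (nat_lit 126) (nat_lit 1) (nat_lit 409) (nat_lit 370) (nat_lit 241)) (XT.nd (nat_lit 78) (nat_lit 76) (nat_lit 0) (XT.lf (nat_lit 0) (nat_lit 540383557) (nat_lit 0) (nat_lit 600498350) (nat_lit 152) (nat_lit 540383557) (nat_lit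 125) (nat_lit 3) (nat_lit 125) (nat_lit 1) (nat_lit 127) (nat_lit 1) (nat_lit 410) (nat_lit 370) (nat_lit 240)) (XT.lf (nat_lit 76) (nat_lit 513199247) (nat_lit 0) (nat_lit 570451430) (nat_lit 76) (nat_lit 570451430) (nat_lit 125) (nat_lit 3) (nat_lit 124) (nat_lit 1) (nat_lit 125) (nat_lit 1) (nat_lit 411) (nat_lit 370) (nat_lit 239))))) (XT.nd (nat_lit 234) (nat_lit 228) (nat_lit 0) (XT.nd (nat_lit 78) (nat_lit 76) (nat_lit 0) (XT.lf (nat_lit 152) (nat_lit 1592597333) (nat_lit 0) (nat_lit 17588996) (nat_lit 76) (nat_lit 17588996) (nat_lit 124) (nat_lit 1) (nat_lit 122) (nat_lit 1) (nat_lit 123) (nat_lit 1) (nat_lit 412) (nat_lit 370) (nat_lit 238)) (XT.nd (nat_lit 78) (nat_lit 76) (nat_lit 0) (XT.lf (nat_lit 0) (nat_lit 517206939) (nat_lit 0) (nat_lit 566663528) (nat_lit 152) (nat_lit 517206939) (nat_lit 122) (nat_lit 3) (nat_lit 122) (nat_lit 1) (nat_lit 124) (nat_lit 1) (nat_lit 413) (nat_lit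 370) (nat_lit 237)) (XT.lf (nat_lit 76) (nat_lit 493670855) (nat_lit 0) (nat_lit 540772369) (nat_lit 76) (nat_lit 540772369) (nat_lit 122) (nat_lit 3) (nat_lit 121) (nat_lit 1) (nat_lit 122) (nat_lit 1) (nat_lit 414) (nat_lit 370) (nat_lit 236)))) (XT.nd (nat_lit 78) (nat_lit 76) (nat_lit 0) (XT.lf (nat_lit 152) (nat_lit 1521212578) (nat_lit 0) (nat_lit 14470510) (nat_lit 76) (nat_lit 14470510) (nat_lit 121) (nat_lit 1) (nat_lit 119) (nat_lit 1) (nat_lit 120) (nat_lit 1) (nat_lit 415) (nat_lit 370) (nat_lit 235)) (XT.nd (nat_lit 78) (nat_lit 76) (nat_lit 0) (XT.lf (nat_lit 0) (nat_lit 494680810) (nat_lit 0) (nat_lit 535368868) (nat_lit 152) (nat_lit 494680810) (nat_lit 119) (nat_lit 3) (nat_lit 119) (nat_lit 1) (nat_lit 121) (nat_lit 1) (nat_lit 416) (nat_lit 370) (nat_lit 234)) (XT.lf (nat_lit 76) (nat_lit 474201916) (nat_lit 0) (nat_lit 512952447) (nat_lit 76) (nat_lit 512952447) (nat_lit 119)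 (nat_lit 3) (nat_lit 118) (nat_lit 1) (nat_lit 119) (nat_lit 1) (nat_lit 417) (nat_lit 370) (nat_lit 233)))))) (XT.nd (nat_lit 468) (nat_lit 608) (nat_lit 0) (XT.nd (nat_lit 234) (nat_lit 228) (nat_lit 0) (XT.nd (nat_lit 78) (nat_lit 76) (nat_lit 0) (XT.lf (nat_lit 152) (nat_lit 1452437554) (nat_lit 0) (nat_lit 11904925) (nat_lit 76) (nat_lit 11904925) (nat_lit 118) (nat_lit 1) (nat_lit 116) (nat_lit 1) (nat_lit 117) (nat_lit 1) (nat_lit 418) (nat_lit 370) (nat_lit 232)) (XT.nd (nat_lit 78) (nat_lit 76) (nat_lit 0) (XT.lf (nat_lit 0) (nat_lit 472854536) (nat_lit 0) (nat_lit 506328702) (nat_lit 152) (nat_lit 472854536) (nat_lit 116) (nat_lit 3) (nat_lit 116) (nat_lit 1) (nat_lit 118) (nat_lit 1) (nat_lit 419) (nat_lit 370) (nat_lit 231)) (XT.lf (nat_lit 76) (nat_lit 454943928) (nat_lit 0) (nat_lit 486824086) (nat_lit 76) (nat_lit 486824086) (nat_lit 116) (nat_lit 3) (nat_lit 115) (nat_lit 1) (nat_lit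 116) (nat_lit 1) (nat_lit 420) (nat_lit 370) (nat_lit 230)))) (XT.nd (nat_lit 78) (nat_lit 76) (nat_lit 0) (XT.lf (nat_lit 152) (nat_lit 1386287971) (nat_lit 0) (nat_lit 9794211) (nat_lit 76) (nat_lit 9794211) (nat_lit 115) (nat_lit 1) (nat_lit 113) (nat_lit 1) (nat_lit 114) (nat_lit 1) (nat_lit 421) (nat_lit 370) (nat_lit 229)) (XT.nd (nat_lit 78) (nat_lit 76) (nat_lit 0) (XT.lf (nat_lit 0) (nat_lit 451760893) (nat_lit 0) (nat_lit 479300172) (nat_lit 152) (nat_lit 451760893) (nat_lit 113) (nat_lit 3) (nat_lit 113) (nat_lit 1) (nat_lit 115) (nat_lit 1) (nat_lit 422) (nat_lit 370) (nat_lit 228)) (XT.lf (nat_lit 76) (nat_lit 436013819) (nat_lit 0) (nat_lit 462241704) (nat_lit 76) (nat_lit 462241704) (nat_lit 113) (nat_lit 3) (nat_lit 112) (nat_lit 1) (nat_lit 113) (nat_lit 1) (nat_lit 423) (nat_lit 370) (nat_lit 227))))) (XT.nd (nat_lit 234) (nat_lit 380) (nat_lit 0) (XT.nd (nat_lit 78) (nat_lit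 76) (nat_lit 0) (XT.lf (nat_lit 152) (nat_lit 1322753974) (nat_lit 0) (nat_lit 8057721) (nat_lit 76) (nat_lit 8057721) (nat_lit 112) (nat_lit 1) (nat_lit 110) (nat_lit 1) (nat_lit 111) (nat_lit 1) (nat_lit 424) (nat_lit 370) (nat_lit 226)) (XT.nd (nat_lit 78) (nat_lit 76) (nat_lit 0) (XT.lf (nat_lit 0) (nat_lit 431419371) (nat_lit 0) (nat_lit 454076005) (nat_lit 152) (nat_lit 431419371) (nat_lit 110) (nat_lit 3) (nat_lit 110) (nat_lit 1) (nat_lit 112) (nat_lit 1) (nat_lit 425) (nat_lit 370) (nat_lit 225)) (XT.lf (nat_lit 76) (nat_lit 417500431) (nat_lit 0) (nat_lit 439078177) (nat_lit 76) (nat_lit 439078177) (nat_lit 110) (nat_lit 3) (nat_lit 109) (nat_lit 1) (nat_lit 110) (nat_lit 1) (nat_lit 426) (nat_lit 370) (nat_lit 224)))) (XT.nd (nat_lit 156) (nat_lit 228) (nat_lit 0) (XT.nd (nat_lit 78) (nat_lit 0) (nat_lit 0) (XT.lf (nat_lit 152) (nat_lit 1261805758) (nat_lit 0) (nat_lit 6629107) (nat_lit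 76) (nat_lit 6629107) (nat_lit 109) (nat_lit 1) (nat_lit 107) (nat_lit 1) (nat_lit 108) (nat_lit 1) (nat_lit 427) (nat_lit 370) (nat_lit 223)) (XT.lf (nat_lit 0) (nat_lit 411838896) (nat_lit 0) (nat_lit 430478564) (nat_lit 152) (nat_lit 411838896) (nat_lit 107) (nat_lit 3) (nat_lit 107) (nat_lit 1) (nat_lit 109) (nat_lit 1) (nat_lit 428) (nat_lit 370) (nat_lit 222))) (XT.nd (nat_lit 78) (nat_lit 152) (nat_lit 0) (XT.lf (nat_lit 76) (nat_lit 399469861) (nat_lit 0) (nat_lit 417221925) (nat_lit 76) (nat_lit 417221925) (nat_lit 107) (nat_lit 3) (nat_lit 106) (nat_lit 1) (nat_lit 107) (nat_lit 1) (nat_lit 429) (nat_lit 370) (nat_lit 221)) (XT.lf (nat_lit 152) (nat_lit 1203398139) (nat_lit 0) (nat_lit 5453783) (nat_lit 76) (nat_lit 5453783) (nat_lit 106) (nat_lit 1) (nat_lit 104) (nat_lit 1) (nat_lit 105) (nat_lit 1) (nat_lit 430) (nat_lit 370) (nat_lit 220))))))))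
noncomputable def ec141 : XT := (XT.nd (nat_lit 41652) (nat_lit 0) (nat_lit 11324) (XT.nd (nat_lit 936) (nat_lit 456) (nat_lit 0) (XT.nd (nat_lit 468) (nat_lit 456) (nat_lit 0) (XT.nd (nat_lit 234) (nat_lit 228) (nat_lit 0) (XT.nd (nat_lit 78) (nat_lit 228) (nat_lit 0) (XT.lf (nat_lit 0) (nat_lit 393020033) (nat_lit 0) (nat_lit 408354934) (nat_lit 152) (nat_lit 393020033) (nat_lit 104) (nat_lit 3) (nat_lit 104) (nat_lit 1) (nat_lit 106) (nat_lit 1) (nat_lit 431) (nat_lit 370) (nat_lit 219)) (XT.nd (nat_lit 78) (nat_lit 152) (nat_lit 0) (XT.lf (nat_lit 76) (nat_lit 381969817) (nat_lit 0) (nat_lit 396574484) (nat_lit 76) (nat_lit 396574484) (nat_lit 104) (nat_lit 3) (nat_lit 103) (nat_lit 1) (nat_lit 104) (nat_lit 1) (nat_lit 432) (nat_lit 370) (nat_lit 218)) (XT.lf (nat_lit 152) (nat_lit 1147474264) (nat_lit 0) (nat_lit 4486841) (nat_lit 76) (nat_lit 4486841) (nat_lit 103) (nat_lit 1) (nat_lit 101)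 (nat_lit 1) (nat_lit 102) (nat_lit 1) (nat_lit 433) (nat_lit 370) (nat_lit 217)))) (XT.nd (nat_lit 78) (nat_lit 228) (nat_lit 0) (XT.lf (nat_lit 0) (nat_lit 374956795) (nat_lit 0) (nat_lit 387572856) (nat_lit 152) (nat_lit 374956795) (nat_lit 101) (nat_lit 3) (nat_lit 101) (nat_lit 1) (nat_lit 103) (nat_lit 1) (nat_lit 434) (nat_lit 370) (nat_lit 216)) (XT.nd (nat_lit 78) (nat_lit 152) (nat_lit 0) (XT.lf (nat_lit 76) (nat_lit 365033203) (nat_lit 0) (nat_lit 377048499) (nat_lit 76) (nat_lit 377048499) (nat_lit 101) (nat_lit 3) (nat_lit 100) (nat_lit 1) (nat_lit 101) (nat_lit 1) (nat_lit 435) (nat_lit 370) (nat_lit 215)) (XT.lf (nat_lit 152) (nat_lit 1093968619) (nat_lit 0) (nat_lit 3691335) (nat_lit 76) (nat_lit 3691335) (nat_lit 100) (nat_lit 1) (nat_lit 98) (nat_lit 1) (nat_lit 99) (nat_lit 1) (nat_lit 436) (nat_lit 370) (nat_lit 214))))) (XT.nd (nat_lit 234) (nat_lit 228) (nat_lit 0) (XT.nd (nat_lit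 78) (nat_lit 228) (nat_lit 0) (XT.lf (nat_lit 0) (nat_lit 357638113) (nat_lit 0) (nat_lit 368017378) (nat_lit 152) (nat_lit 357638113) (nat_lit 98) (nat_lit 3) (nat_lit 98) (nat_lit 1) (nat_lit 100) (nat_lit 1) (nat_lit 437) (nat_lit 370) (nat_lit 213)) (XT.nd (nat_lit 78) (nat_lit 152) (nat_lit 0) (XT.lf (nat_lit 76) (nat_lit 348681043) (nat_lit 0) (nat_lit 358566057) (nat_lit 76) (nat_lit 358566057) (nat_lit 98) (nat_lit 3) (nat_lit 97) (nat_lit 1) (nat_lit 98) (nat_lit 1) (nat_lit 438) (nat_lit 370) (nat_lit 212)) (XT.lf (nat_lit 152) (nat_lit 1042809454) (nat_lit 0) (nat_lit 3036870) (nat_lit 76) (nat_lit 3036870) (nat_lit 97) (nat_lit 1) (nat_lit 95) (nat_lit 1) (nat_lit 96) (nat_lit 1) (nat_lit 439) (nat_lit 370) (nat_lit 211)))) (XT.nd (nat_lit 78) (nat_lit 228) (nat_lit 0) (XT.lf (nat_lit 0) (nat_lit 341049028) (nat_lit 0) (nat_lit 349588075) (nat_lit 152) (nat_lit 341049028) (nat_lit 95)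 (nat_lit 3) (nat_lit 95) (nat_lit 1) (nat_lit 97) (nat_lit 1) (nat_lit 440) (nat_lit 370) (nat_lit 210)) (XT.nd (nat_lit 78) (nat_lit 152) (nat_lit 0) (XT.lf (nat_lit 76) (nat_lit 332924874) (nat_lit 0) (nat_lit 341057299) (nat_lit 76) (nat_lit 341057299) (nat_lit 95) (nat_lit 3) (nat_lit 94) (nat_lit 1) (nat_lit 95) (nat_lit 1) (nat_lit 441) (nat_lit 370) (nat_lit 209)) (XT.lf (nat_lit 152) (nat_lit 993920742) (nat_lit 0) (nat_lit 2498441) (nat_lit 76) (nat_lit 2498441) (nat_lit 94) (nat_lit 1) (nat_lit 92) (nat_lit 1) (nat_lit 93) (nat_lit 1) (nat_lit 442) (nat_lit 370) (nat_lit 208)))))) (XT.nd (nat_lit 468) (nat_lit 0) (nat_lit 0) (XT.nd (nat_lit 234) (nat_lit 228) (nat_lit 0) (XT.nd (nat_lit 78) (nat_lit 228) (nat_lit 0) (XT.lf (nat_lit 0) (nat_lit 325171657) (nat_lit 0) (nat_lit 332196752) (nat_lit 152) (nat_lit 325171657) (nat_lit 92) (nat_lit 3) (nat_lit 92) (nat_lit 1) (nat_lit 94) (nat_lit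 1) (nat_lit 443) (nat_lit 370) (nat_lit 207)) (XT.nd (nat_lit 78) (nat_lit 152) (nat_lit 0) (XT.lf (nat_lit 76) (nat_lit 317768706) (nat_lit 0) (nat_lit 324459272) (nat_lit 76) (nat_lit 324459272) (nat_lit 92) (nat_lit 3) (nat_lit 91) (nat_lit 1) (nat_lit 92) (nat_lit 1) (nat_lit 444) (nat_lit 370) (nat_lit 206)) (XT.lf (nat_lit 152) (nat_lit 947223742) (nat_lit 0) (nat_lit 2055473) (nat_lit 76) (nat_lit 2055473) (nat_lit 91) (nat_lit 1) (nat_lit 89) (nat_lit 1) (nat_lit 90) (nat_lit 1) (nat_lit 445) (nat_lit 370) (nat_lit 205)))) (XT.nd (nat_lit 78) (nat_lit 228) (nat_lit 0) (XT.lf (nat_lit 0) (nat_lit 309985982) (nat_lit 0) (nat_lit 315765545) (nat_lit 152) (nat_lit 309985982) (nat_lit 89) (nat_lit 3) (nat_lit 89) (nat_lit 1) (nat_lit 91) (nat_lit 1) (nat_lit 446) (nat_lit 370) (nat_lit 204)) (XT.nd (nat_lit 78) (nat_lit 152) (nat_lit 0) (XT.lf (nat_lit 76) (nat_lit 303210613) (nat_lit 0) (nat_lit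 308714959) (nat_lit 76) (nat_lit 308714959) (nat_lit 89) (nat_lit 3) (nat_lit 88) (nat_lit 1) (nat_lit 89) (nat_lit 1) (nat_lit 447) (nat_lit 370) (nat_lit 203)) (XT.lf (nat_lit 152) (nat_lit 902638258) (nat_lit 0) (nat_lit 1691043) (nat_lit 76) (nat_lit 1691043) (nat_lit 88) (nat_lit 1) (nat_lit 86) (nat_lit 1) (nat_lit 87) (nat_lit 1) (nat_lit 448) (nat_lit 370) (nat_lit 202))))) (XT.nd (nat_lit 39936) (nat_lit 0) (nat_lit 15732) (XT.nd (nat_lit 39780) (nat_lit 0) (nat_lit 15656) (XT.lf (nat_lit 0) (nat_lit 295470478) (nat_lit 0) (nat_lit 300225338) (nat_lit 152) (nat_lit 295470478) (nat_lit 86) (nat_lit 3) (nat_lit 86) (nat_lit 1) (nat_lit 88) (nat_lit 1) (nat_lit 449) (nat_lit 370) (nat_lit 201)) (XT.nd (nat_lit 78) (nat_lit 0) (nat_lit 0) (XT.lf (nat_lit 836) (nat_lit 2438472993) (nat_lit 0) (nat_lit 4329503195) (nat_lit 836) (nat_lit 2438472993) (nat_lit 303) (nat_lit 1) (nat_lit 292) (nat_lit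 0) (nat_lit 303) (nat_lit 0) (nat_lit 278) (nat_lit 371) (nat_lit 371)) (XT.lf (nat_lit 836) (nat_lit 9451825755) (nat_lit 76) (nat_lit 4259672498) (nat_lit 0) (nat_lit 4259672498) (nat_lit 303) (nat_lit 1) (nat_lit 293) (nat_lit 1) (nat_lit 292) (nat_lit 0) (nat_lit 279) (nat_lit 371) (nat_lit 370)))) (XT.nd (nat_lit 156) (nat_lit 0) (nat_lit 76) (XT.nd (nat_lit 78) (nat_lit 0) (nat_lit 0) (XT.lf (nat_lit 836) (nat_lit 4504597839) (nat_lit 0) (nat_lit 8533903635) (nat_lit 760) (nat_lit 4504597839) (nat_lit 304) (nat_lit 1) (nat_lit 293) (nat_lit 1) (nat_lit 303) (nat_lit 1) (nat_lit 280) (nat_lit 371) (nat_lit 369)) (XT.lf (nat_lit 836) (nat_lit 8449999616) (nat_lit 76) (nat_lit 4339429077) (nat_lit 0) (nat_lit 4339429077) (nat_lit 304) (nat_lit 1) (nat_lit 294) (nat_lit 1) (nat_lit 293) (nat_lit 1) (nat_lit 281) (nat_lit 371) (nat_lit 368))) (XT.nd (nat_lit 78) (nat_lit 0) (nat_lit 0) (XT.lf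 (nat_lit 836) (nat_lit 3889453677) (nat_lit 0) (nat_lit 8948838252) (nat_lit 760) (nat_lit 3889453677) (nat_lit 305) (nat_lit 1) (nat_lit 294) (nat_lit 1) (nat_lit 304) (nat_lit 1) (nat_lit 282) (nat_lit 371) (nat_lit 367)) (XT.lf (nat_lit 836) (nat_lit 6995435766) (nat_lit 76) (nat_lit 4671712554) (nat_lit 0) (nat_lit 4671712554) (nat_lit 305) (nat_lit 1) (nat_lit 295) (nat_lit 1) (nat_lit 294) (nat_lit 1) (nat_lit 283) (nat_lit 371) (nat_lit 366))))))) (XT.nd (nat_lit 1014) (nat_lit 2356) (nat_lit 0) (XT.nd (nat_lit 468) (nat_lit 1596) (nat_lit 0) (XT.nd (nat_lit 234) (nat_lit 608) (nat_lit 0) (XT.nd (nat_lit 78) (nat_lit 0) (nat_lit 0) (XT.lf (nat_lit 836) (nat_lit 3067296537) (nat_lit 0) (nat_lit 9828440471) (nat_lit 760) (nat_lit 3067296537) (nat_lit 306) (nat_lit 1) (nat_lit 295) (nat_lit 1) (nat_lit 305) (nat_lit 1) (nat_lit 284) (nat_lit 371) (nat_lit 365)) (XT.nd (nat_lit 78) (nat_lit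 0) (nat_lit 76) (XT.lf (nat_lit 836) (nat_lit 5156219657) (nat_lit 76) (nat_lit 5220667186) (nat_lit 0) (nat_lit 5220667186) (nat_lit 306) (nat_lit 1) (nat_lit 296) (nat_lit 1) (nat_lit 295) (nat_lit 1) (nat_lit 285) (nat_lit 371) (nat_lit 364)) (XT.lf (nat_lit 836) (nat_lit 2069953630) (nat_lit 0) (nat_lit 11105545888) (nat_lit 760) (nat_lit 2069953630) (nat_lit 307) (nat_lit 1) (nat_lit 296) (nat_lit 1) (nat_lit 306) (nat_lit 1) (nat_lit 286) (nat_lit 371) (nat_lit 363)))) (XT.nd (nat_lit 78) (nat_lit 684) (nat_lit 0) (XT.lf (nat_lit 836) (nat_lit 2992868984) (nat_lit 76) (nat_lit 5954360194) (nat_lit 0) (nat_lit 5954360194) (nat_lit 307) (nat_lit 1) (nat_lit 297) (nat_lit 1) (nat_lit 296) (nat_lit 1) (nat_lit 287) (nat_lit 371) (nat_lit 362)) (XT.nd (nat_lit 78) (nat_lit 760) (nat_lit 0) (XT.lf (nat_lit 76) (nat_lit 925694075) (nat_lit 0) (nat_lit 12720375555) (nat_lit 760) (nat_lit 925694075)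 (nat_lit 298) (nat_lit 1) (nat_lit 297) (nat_lit 1) (nat_lit 307) (nat_lit 1) (nat_lit 288) (nat_lit 371) (nat_lit 361)) (XT.lf (nat_lit 836) (nat_lit 559096201) (nat_lit 0) (nat_lit 6844388974) (nat_lit 760) (nat_lit 6844388974) (nat_lit 298) (nat_lit 1) (nat_lit 287) (nat_lit 1) (nat_lit 297) (nat_lit 1) (nat_lit 289) (nat_lit 371) (nat_lit 360))))) (XT.nd (nat_lit 234) (nat_lit 684) (nat_lit 0) (XT.nd (nat_lit 78) (nat_lit 380) (nat_lit 0) (XT.lf (nat_lit 532) (nat_lit 13268056975) (nat_lit 0) (nat_lit 334921261) (nat_lit 456) (nat_lit 334921261) (nat_lit 287) (nat_lit 1) (nat_lit 280) (nat_lit 1) (nat_lit 286) (nat_lit 1) (nat_lit 290) (nat_lit 371) (nat_lit 359)) (XT.nd (nat_lit 78) (nat_lit 380) (nat_lit 0) (XT.lf (nat_lit 76) (nat_lit 5800771417) (nat_lit 0) (nat_lit 2030369461) (nat_lit 532) (nat_lit 5800771417) (nat_lit 281) (nat_lit 1) (nat_lit 280) (nat_lit 1) (nat_lit 287) (nat_lit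 1) (nat_lit 291) (nat_lit 371) (nat_lit 358)) (XT.lf (nat_lit 456) (nat_lit 9981638616) (nat_lit 0) (nat_lit 1678648936) (nat_lit 380) (nat_lit 1678648936) (nat_lit 281) (nat_lit 1) (nat_lit 275) (nat_lit 1) (nat_lit 280) (nat_lit 1) (nat_lit 292) (nat_lit 371) (nat_lit 357)))) (XT.nd (nat_lit 156) (nat_lit 304) (nat_lit 0) (XT.nd (nat_lit 78) (nat_lit 380) (nat_lit 0) (XT.lf (nat_lit 76) (nat_lit 4137619636) (nat_lit 0) (nat_lit 4776880570) (nat_lit 456) (nat_lit 4137619636) (nat_lit 276) (nat_lit 1) (nat_lit 275) (nat_lit 1) (nat_lit 281) (nat_lit 1) (nat_lit 293) (nat_lit 371) (nat_lit 356)) (XT.lf (nat_lit 456) (nat_lit 6573050581) (nat_lit 0) (nat_lit 3101120836) (nat_lit 380) (nat_lit 3101120836) (nat_lit 276) (nat_lit 1) (nat_lit 270) (nat_lit 1) (nat_lit 275) (nat_lit 1) (nat_lit 294) (nat_lit 371) (nat_lit 355))) (XT.nd (nat_lit 78) (nat_lit 304) (nat_lit 0) (XT.lf (nat_lit 76) (nat_lit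 2422081783) (nat_lit 0) (nat_lit 7662352178) (nat_lit 456) (nat_lit 2422081783) (nat_lit 271) (nat_lit 1) (nat_lit 270) (nat_lit 1) (nat_lit 276) (nat_lit 1) (nat_lit 295) (nat_lit 371) (nat_lit 354)) (XT.lf (nat_lit 380) (nat_lit 3074018178) (nat_lit 0) (nat_lit 4585317437) (nat_lit 304) (nat_lit 4585317437) (nat_lit 271) (nat_lit 1) (nat_lit 266) (nat_lit 1) (nat_lit 270) (nat_lit 1) (nat_lit 296) (nat_lit 371) (nat_lit 353)))))) (XT.nd (nat_lit 468) (nat_lit 1368) (nat_lit 0) (XT.nd (nat_lit 234) (nat_lit 304) (nat_lit 0) (XT.nd (nat_lit 78) (nat_lit 684) (nat_lit 0) (XT.lf (nat_lit 76) (nat_lit 668885844) (nat_lit 0) (nat_lit 10655088623) (nat_lit 380) (nat_lit 668885844) (nat_lit 267) (nat_lit 1) (nat_lit 266) (nat_lit 1) (nat_lit 271) (nat_lit 1) (nat_lit 297) (nat_lit 371) (nat_lit 352)) (XT.nd (nat_lit 78) (nat_lit 304) (nat_lit 0) (XT.lf (nat_lit 76) (nat_lit 5636224325) (nat_lit 0) (nat_lit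 472044735) (nat_lit 380) (nat_lit 5636224325) (nat_lit 262) (nat_lit 1) (nat_lit 261) (nat_lit 1) (nat_lit 266) (nat_lit 1) (nat_lit 298) (nat_lit 371) (nat_lit 351)) (XT.lf (nat_lit 380) (nat_lit 9323203877) (nat_lit 0) (nat_lit 1091190503) (nat_lit 304) (nat_lit 1091190503) (nat_lit 262) (nat_lit 1) (nat_lit 257) (nat_lit 1) (nat_lit 261) (nat_lit 1) (nat_lit 299) (nat_lit 371) (nat_lit 350)))) (XT.nd (nat_lit 78) (nat_lit 304) (nat_lit 0) (XT.lf (nat_lit 76) (nat_lit 3656970437) (nat_lit 0) (nat_lit 3956834036) (nat_lit 380) (nat_lit 3656970437) (nat_lit 258) (nat_lit 1) (nat_lit 257) (nat_lit 1) (nat_lit 262) (nat_lit 1) (nat_lit 300) (nat_lit 371) (nat_lit 349)) (XT.nd (nat_lit 78) (nat_lit 0) (nat_lit 0) (XT.lf (nat_lit 380) (nat_lit 5336537157) (nat_lit 0) (nat_lit 2853785081) (nat_lit 304) (nat_lit 2853785081) (nat_lit 258) (nat_lit 1) (nat_lit 253) (nat_lit 1) (nat_lit 257) (nat_lit 1)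 (nat_lit 301) (nat_lit 371) (nat_lit 348)) (XT.lf (nat_lit 76) (nat_lit 1682905653) (nat_lit 0) (nat_lit 7458256202) (nat_lit 380) (nat_lit 1682905653) (nat_lit 254) (nat_lit 1) (nat_lit 253) (nat_lit 1) (nat_lit 258) (nat_lit 1) (nat_lit 302) (nat_lit 371) (nat_lit 347))))) (XT.nd (nat_lit 234) (nat_lit 760) (nat_lit 0) (XT.nd (nat_lit 78) (nat_lit 380) (nat_lit 0) (XT.lf (nat_lit 304) (nat_lit 1368635090) (nat_lit 0) (nat_lit 4620071193) (nat_lit 228) (nat_lit 4620071193) (nat_lit 254) (nat_lit 1) (nat_lit 250) (nat_lit 1) (nat_lit 253) (nat_lit 1) (nat_lit 303) (nat_lit 371) (nat_lit 346)) (XT.nd (nat_lit 78) (nat_lit 0) (nat_lit 0) (XT.lf (nat_lit 380) (nat_lit 9854887291) (nat_lit 0) (nat_lit 273454212) (nat_lit 304) (nat_lit 273454212) (nat_lit 250) (nat_lit 1) (nat_lit 245) (nat_lit 1) (nat_lit 249) (nat_lit 1) (nat_lit 304) (nat_lit 371) (nat_lit 345)) (XT.lf (nat_lit 76) (nat_lit 3856290253)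 (nat_lit 0) (nat_lit 2483379069) (nat_lit 380) (nat_lit 3856290253) (nat_lit 246) (nat_lit 1) (nat_lit 245) (nat_lit 1) (nat_lit 250) (nat_lit 1) (nat_lit 305) (nat_lit 371) (nat_lit 344)))) (XT.nd (nat_lit 156) (nat_lit 532) (nat_lit 0) (XT.nd (nat_lit 78) (nat_lit 0) (nat_lit 0) (XT.lf (nat_lit 304) (nat_lit 5632233828) (nat_lit 0) (nat_lit 2182891984) (nat_lit 228) (nat_lit 2182891984) (nat_lit 246) (nat_lit 1) (nat_lit 242) (nat_lit 1) (nat_lit 245) (nat_lit 1) (nat_lit 306) (nat_lit 371) (nat_lit 343)) (XT.lf (nat_lit 76) (nat_lit 1779309788) (nat_lit 0) (nat_lit 6246485494) (nat_lit 304) (nat_lit 1779309788) (nat_lit 243) (nat_lit 1) (nat_lit 242) (nat_lit 1) (nat_lit 246) (nat_lit 1) (nat_lit 307) (nat_lit 371) (nat_lit 342))) (XT.nd (nat_lit 78) (nat_lit 304) (nat_lit 0) (XT.lf (nat_lit 304) (nat_lit 1482999094) (nat_lit 0) (nat_lit 4066790981) (nat_lit 228) (nat_lit 4066790981) (nat_lit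 243) (nat_lit 1) (nat_lit 239) (nat_lit 1) (nat_lit 242) (nat_lit 1) (nat_lit 308) (nat_lit 371) (nat_lit 341)) (XT.lf (nat_lit 304) (nat_lit 8925323521) (nat_lit 0) (nat_lit 254868713) (nat_lit 228) (nat_lit 254868713) (nat_lit 239) (nat_lit 1) (nat_lit 235) (nat_lit 1) (nat_lit 238) (nat_lit 1) (nat_lit 309) (nat_lit 371) (nat_lit 340))))))))
noncomputable def ec142 : XT := (XT.nd (nat_lit 1950) (nat_lit 2052) (nat_lit 0) (XT.nd (nat_lit 936) (nat_lit 1292) (nat_lit 0) (XT.nd (nat_lit 468) (nat_lit 684) (nat_lit 0) (XT.nd (nat_lit 234) (nat_lit 456) (nat_lit 0) (XT.nd (nat_lit 78) (nat_lit 228) (nat_lit 0) (XT.lf (nat_lit 76) (nat_lit 3376194283) (nat_lit 0) (nat_lit 2501726062) (nat_lit 304) (nat_lit 3376194283) (nat_lit 236) (nat_lit 1) (nat_lit 235) (nat_lit 1) (nat_lit 239) (nat_lit 1) (nat_lit 310) (nat_lit 371) (nat_lit 339)) (XT.nd (nat_lit 78) (nat_lit 0) (nat_lit 0) (XT.lf (nat_lit 304)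 (nat_lit 4642576283) (nat_lit 0) (nat_lit 2218643534) (nat_lit 228) (nat_lit 2218643534) (nat_lit 236) (nat_lit 1) (nat_lit 232) (nat_lit 1) (nat_lit 235) (nat_lit 1) (nat_lit 311) (nat_lit 371) (nat_lit 338)) (XT.lf (nat_lit 76) (nat_lit 1278561722) (nat_lit 0) (nat_lit 6353162129) (nat_lit 304) (nat_lit 1278561722) (nat_lit 233) (nat_lit 1) (nat_lit 232) (nat_lit 1) (nat_lit 236) (nat_lit 1) (nat_lit 312) (nat_lit 371) (nat_lit 337)))) (XT.nd (nat_lit 78) (nat_lit 304) (nat_lit 0) (XT.lf (nat_lit 228) (nat_lit 468507526) (nat_lit 0) (nat_lit 4137697930) (nat_lit 152) (nat_lit 4137697930) (nat_lit 233) (nat_lit 1) (nat_lit 230) (nat_lit 1) (nat_lit 232) (nat_lit 1) (nat_lit 313) (nat_lit 371) (nat_lit 336)) (XT.nd (nat_lit 78) (nat_lit 0) (nat_lit 0) (XT.lf (nat_lit 304) (nat_lit 7078991624) (nat_lit 0) (nat_lit 751840221) (nat_lit 228) (nat_lit 751840221) (nat_lit 230) (nat_lit 1) (nat_lit 226)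 (nat_lit 1) (nat_lit 229) (nat_lit 1) (nat_lit 314) (nat_lit 371) (nat_lit 335)) (XT.lf (nat_lit 76) (nat_lit 2472523739) (nat_lit 0) (nat_lit 3478196486) (nat_lit 304) (nat_lit 2472523739) (nat_lit 227) (nat_lit 1) (nat_lit 226) (nat_lit 1) (nat_lit 230) (nat_lit 1) (nat_lit 315) (nat_lit 371) (nat_lit 334))))) (XT.nd (nat_lit 234) (nat_lit 304) (nat_lit 0) (XT.nd (nat_lit 78) (nat_lit 228) (nat_lit 0) (XT.lf (nat_lit 228) (nat_lit 2856619778) (nat_lit 0) (nat_lit 2706058236) (nat_lit 152) (nat_lit 2706058236) (nat_lit 227) (nat_lit 1) (nat_lit 224) (nat_lit 1) (nat_lit 226) (nat_lit 1) (nat_lit 316) (nat_lit 371) (nat_lit 333)) (XT.nd (nat_lit 78) (nat_lit 228) (nat_lit 0) (XT.lf (nat_lit 76) (nat_lit 410405591) (nat_lit 0) (nat_lit 7298544873) (nat_lit 228) (nat_lit 410405591) (nat_lit 225) (nat_lit 1) (nat_lit 224) (nat_lit 1) (nat_lit 227) (nat_lit 1) (nat_lit 317) (nat_lit 371) (nat_lit 332))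 (XT.lf (nat_lit 76) (nat_lit 3387149348) (nat_lit 0) (nat_lit 1196220170) (nat_lit 228) (nat_lit 3387149348) (nat_lit 222) (nat_lit 1) (nat_lit 221) (nat_lit 1) (nat_lit 224) (nat_lit 1) (nat_lit 318) (nat_lit 371) (nat_lit 331)))) (XT.nd (nat_lit 78) (nat_lit 152) (nat_lit 0) (XT.lf (nat_lit 228) (nat_lit 4703650519) (nat_lit 0) (nat_lit 1561484531) (nat_lit 152) (nat_lit 1561484531) (nat_lit 222) (nat_lit 1) (nat_lit 219) (nat_lit 1) (nat_lit 221) (nat_lit 1) (nat_lit 319) (nat_lit 371) (nat_lit 330)) (XT.nd (nat_lit 78) (nat_lit 152) (nat_lit 0) (XT.lf (nat_lit 76) (nat_lit 1327247805) (nat_lit 0) (nat_lit 5031405175) (nat_lit 228) (nat_lit 1327247805) (nat_lit 220) (nat_lit 1) (nat_lit 219) (nat_lit 1) (nat_lit 222) (nat_lit 1) (nat_lit 320) (nat_lit 371) (nat_lit 329)) (XT.lf (nat_lit 228) (nat_lit 621767811) (nat_lit 0) (nat_lit 3463125353) (nat_lit 152) (nat_lit 3463125353) (nat_lit 220)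 (nat_lit 1) (nat_lit 217) (nat_lit 1) (nat_lit 219) (nat_lit 1) (nat_lit 321) (nat_lit 371) (nat_lit 328)))))) (XT.nd (nat_lit 468) (nat_lit 608) (nat_lit 0) (XT.nd (nat_lit 234) (nat_lit 304) (nat_lit 0) (XT.nd (nat_lit 78) (nat_lit 152) (nat_lit 0) (XT.lf (nat_lit 228) (nat_lit 6111135740) (nat_lit 0) (nat_lit 651497877) (nat_lit 152) (nat_lit 651497877) (nat_lit 217) (nat_lit 1) (nat_lit 214) (nat_lit 1) (nat_lit 216) (nat_lit 1) (nat_lit 322) (nat_lit 371) (nat_lit 327)) (XT.nd (nat_lit 78) (nat_lit 152) (nat_lit 0) (XT.lf (nat_lit 76) (nat_lit 2034412063) (nat_lit 0) (nat_lit 3212563056) (nat_lit 228) (nat_lit 2034412063) (nat_lit 215) (nat_lit 1) (nat_lit 214) (nat_lit 1) (nat_lit 217) (nat_lit 1) (nat_lit 323) (nat_lit 371) (nat_lit 326)) (XT.lf (nat_lit 228) (nat_lit 2071949915) (nat_lit 0) (nat_lit 2540273354) (nat_lit 152) (nat_lit 2540273354) (nat_lit 215) (nat_lit 1) (nat_lit 212) (nat_lit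 1) (nat_lit 214) (nat_lit 1) (nat_lit 324) (nat_lit 371) (nat_lit 325)))) (XT.nd (nat_lit 78) (nat_lit 304) (nat_lit 0) (XT.lf (nat_lit 76) (nat_lit 68099279) (nat_lit 0) (nat_lit 6891927703) (nat_lit 228) (nat_lit 68099279) (nat_lit 213) (nat_lit 1) (nat_lit 212) (nat_lit 1) (nat_lit 215) (nat_lit 1) (nat_lit 325) (nat_lit 371) (nat_lit 324)) (XT.nd (nat_lit 78) (nat_lit 152) (nat_lit 0) (XT.lf (nat_lit 76) (nat_lit 2571317753) (nat_lit 0) (nat_lit 1760329831) (nat_lit 152) (nat_lit 2571317753) (nat_lit 211) (nat_lit 1) (nat_lit 210) (nat_lit 1) (nat_lit 212) (nat_lit 1) (nat_lit 326) (nat_lit 371) (nat_lit 323)) (XT.lf (nat_lit 228) (nat_lit 3190712606) (nat_lit 0) (nat_lit 1795747799) (nat_lit 152) (nat_lit 1795747799) (nat_lit 211) (nat_lit 1) (nat_lit 208) (nat_lit 1) (nat_lit 210) (nat_lit 1) (nat_lit 327) (nat_lit 371) (nat_lit 322))))) (XT.nd (nat_lit 234) (nat_lit 304) (nat_lit 0) (XT.nd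 (nat_lit 78) (nat_lit 304) (nat_lit 0) (XT.lf (nat_lit 76) (nat_lit 639715825) (nat_lit 0) (nat_lit 5385278963) (nat_lit 228) (nat_lit 639715825) (nat_lit 209) (nat_lit 1) (nat_lit 208) (nat_lit 1) (nat_lit 211) (nat_lit 1) (nat_lit 328) (nat_lit 371) (nat_lit 321)) (XT.nd (nat_lit 78) (nat_lit 152) (nat_lit 0) (XT.lf (nat_lit 76) (nat_lit 2970288444) (nat_lit 0) (nat_lit 607605094) (nat_lit 152) (nat_lit 2970288444) (nat_lit 207) (nat_lit 1) (nat_lit 206) (nat_lit 1) (nat_lit 208) (nat_lit 1) (nat_lit 329) (nat_lit 371) (nat_lit 320)) (XT.lf (nat_lit 228) (nat_lit 4040354094) (nat_lit 0) (nat_lit 1197231515) (nat_lit 152) (nat_lit 1197231515) (nat_lit 207) (nat_lit 1) (nat_lit 204) (nat_lit 1) (nat_lit 206) (nat_lit 1) (nat_lit 330) (nat_lit 371) (nat_lit 319)))) (XT.nd (nat_lit 156) (nat_lit 228) (nat_lit 0) (XT.nd (nat_lit 78) (nat_lit 76) (nat_lit 0) (XT.lf (nat_lit 76) (nat_lit 1082191393)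 (nat_lit 0) (nat_lit 4159313744) (nat_lit 228) (nat_lit 1082191393) (nat_lit 205) (nat_lit 1) (nat_lit 204) (nat_lit 1) (nat_lit 207) (nat_lit 1) (nat_lit 331) (nat_lit 371) (nat_lit 318)) (XT.lf (nat_lit 152) (nat_lit 310657739) (nat_lit 0) (nat_lit 2952007548) (nat_lit 76) (nat_lit 2952007548) (nat_lit 205) (nat_lit 1) (nat_lit 203) (nat_lit 1) (nat_lit 204) (nat_lit 1) (nat_lit 332) (nat_lit 371) (nat_lit 317))) (XT.nd (nat_lit 78) (nat_lit 0) (nat_lit 0) (XT.lf (nat_lit 228) (nat_lit 4671958776) (nat_lit 0) (nat_lit 718170432) (nat_lit 152) (nat_lit 718170432) (nat_lit 203) (nat_lit 1) (nat_lit 200) (nat_lit 1) (nat_lit 202) (nat_lit 1) (nat_lit 333) (nat_lit 371) (nat_lit 316)) (XT.lf (nat_lit 76) (nat_lit 1419745918) (nat_lit 0) (nat_lit 3163621915) (nat_lit 228) (nat_lit 1419745918) (nat_lit 201) (nat_lit 1) (nat_lit 200) (nat_lit 1) (nat_lit 203) (nat_lit 1) (nat_lit 334) (nat_lit 371)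 (nat_lit 315))))))) (XT.nd (nat_lit 936) (nat_lit 988) (nat_lit 0) (XT.nd (nat_lit 468) (nat_lit 456) (nat_lit 0) (XT.nd (nat_lit 234) (nat_lit 304) (nat_lit 0) (XT.nd (nat_lit 78) (nat_lit 228) (nat_lit 0) (XT.lf (nat_lit 152) (nat_lit 1043259067) (nat_lit 0) (nat_lit 2428623915) (nat_lit 76) (nat_lit 2428623915) (nat_lit 201) (nat_lit 1) (nat_lit 199) (nat_lit 1) (nat_lit 200) (nat_lit 1) (nat_lit 335) (nat_lit 371) (nat_lit 314)) (XT.nd (nat_lit 78) (nat_lit 0) (nat_lit 0) (XT.lf (nat_lit 228) (nat_lit 5127393441) (nat_lit 0) (nat_lit 336750212) (nat_lit 152) (nat_lit 336750212) (nat_lit 199) (nat_lit 1) (nat_lit 196) (nat_lit 1) (nat_lit 198) (nat_lit 1) (nat_lit 336) (nat_lit 371) (nat_lit 313)) (XT.lf (nat_lit 76) (nat_lit 1672242176) (nat_lit 0) (nat_lit 2356761678) (nat_lit 228) (nat_lit 1672242176) (nat_lit 197) (nat_lit 1) (nat_lit 196) (nat_lit 1) (nat_lit 199) (nat_lit 1) (nat_lit 337)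 (nat_lit 371) (nat_lit 312)))) (XT.nd (nat_lit 78) (nat_lit 228) (nat_lit 0) (XT.lf (nat_lit 152) (nat_lit 1608463413) (nat_lit 0) (nat_lit 1998034905) (nat_lit 76) (nat_lit 1998034905) (nat_lit 197) (nat_lit 1) (nat_lit 195) (nat_lit 1) (nat_lit 196) (nat_lit 1) (nat_lit 338) (nat_lit 371) (nat_lit 311)) (XT.nd (nat_lit 78) (nat_lit 0) (nat_lit 0) (XT.lf (nat_lit 228) (nat_lit 5440949172) (nat_lit 0) (nat_lit 35054395) (nat_lit 152) (nat_lit 35054395) (nat_lit 195) (nat_lit 1) (nat_lit 192) (nat_lit 1) (nat_lit 194) (nat_lit 1) (nat_lit 339) (nat_lit 371) (nat_lit 310)) (XT.lf (nat_lit 76) (nat_lit 1855961297) (nat_lit 0) (nat_lit 1704668045) (nat_lit 228) (nat_lit 1855961297) (nat_lit 193) (nat_lit 1) (nat_lit 192) (nat_lit 1) (nat_lit 195) (nat_lit 1) (nat_lit 340) (nat_lit 371) (nat_lit 309))))) (XT.nd (nat_lit 234) (nat_lit 228) (nat_lit 0) (XT.nd (nat_lit 78) (nat_lit 152) (nat_lit 0) (XT.lf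 (nat_lit 152) (nat_lit 2037735971) (nat_lit 0) (nat_lit 1643788261) (nat_lit 76) (nat_lit 1643788261) (nat_lit 193) (nat_lit 1) (nat_lit 191) (nat_lit 1) (nat_lit 192) (nat_lit 1) (nat_lit 341) (nat_lit 371) (nat_lit 308)) (XT.nd (nat_lit 78) (nat_lit 152) (nat_lit 0) (XT.lf (nat_lit 0) (nat_lit 204933505) (nat_lit 0) (nat_lit 4826923175) (nat_lit 152) (nat_lit 204933505) (nat_lit 191) (nat_lit 3) (nat_lit 191) (nat_lit 1) (nat_lit 193) (nat_lit 1) (nat_lit 342) (nat_lit 371) (nat_lit 307)) (XT.lf (nat_lit 76) (nat_lit 1984240638) (nat_lit 0) (nat_lit 1179343553) (nat_lit 152) (nat_lit 1984240638) (nat_lit 190) (nat_lit 1) (nat_lit 189) (nat_lit 1) (nat_lit 191) (nat_lit 1) (nat_lit 343) (nat_lit 371) (nat_lit 306)))) (XT.nd (nat_lit 78) (nat_lit 152) (nat_lit 0) (XT.lf (nat_lit 152) (nat_lit 2356878178) (nat_lit 0) (nat_lit 1352348670) (nat_lit 76) (nat_lit 1352348670) (nat_lit 190) (nat_lit 1)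 (nat_lit 188) (nat_lit 1) (nat_lit 189) (nat_lit 1) (nat_lit 344) (nat_lit 371) (nat_lit 305)) (XT.nd (nat_lit 78) (nat_lit 152) (nat_lit 0) (XT.lf (nat_lit 0) (nat_lit 391690368) (nat_lit 0) (nat_lit 4194212708) (nat_lit 152) (nat_lit 391690368) (nat_lit 188) (nat_lit 3) (nat_lit 188) (nat_lit 1) (nat_lit 190) (nat_lit 1) (nat_lit 345) (nat_lit 371) (nat_lit 304)) (XT.lf (nat_lit 76) (nat_lit 2067998432) (nat_lit 0) (nat_lit 757781178) (nat_lit 152) (nat_lit 2067998432) (nat_lit 187) (nat_lit 1) (nat_lit 186) (nat_lit 1) (nat_lit 188) (nat_lit 1) (nat_lit 346) (nat_lit 371) (nat_lit 303)))))) (XT.nd (nat_lit 468) (nat_lit 532) (nat_lit 0) (XT.nd (nat_lit 234) (nat_lit 228) (nat_lit 0) (XT.nd (nat_lit 78) (nat_lit 152) (nat_lit 0) (XT.lf (nat_lit 152) (nat_lit 2587035940) (nat_lit 0) (nat_lit 1112580598) (nat_lit 76) (nat_lit 1112580598) (nat_lit 187) (nat_lit 1) (nat_lit 185) (nat_lit 1) (nat_lit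 186) (nat_lit 1) (nat_lit 347) (nat_lit 371) (nat_lit 302)) (XT.nd (nat_lit 78) (nat_lit 152) (nat_lit 0) (XT.lf (nat_lit 0) (nat_lit 534712317) (nat_lit 0) (nat_lit 3663056857) (nat_lit 152) (nat_lit 534712317) (nat_lit 185) (nat_lit 3) (nat_lit 185) (nat_lit 1) (nat_lit 187) (nat_lit 1) (nat_lit 348) (nat_lit 371) (nat_lit 301)) (XT.lf (nat_lit 76) (nat_lit 2116165283) (nat_lit 0) (nat_lit 421078277) (nat_lit 152) (nat_lit 2116165283) (nat_lit 184) (nat_lit 1) (nat_lit 183) (nat_lit 1) (nat_lit 185) (nat_lit 1) (nat_lit 349) (nat_lit 371) (nat_lit 300)))) (XT.nd (nat_lit 78) (nat_lit 152) (nat_lit 0) (XT.lf (nat_lit 152) (nat_lit 2745528900) (nat_lit 0) (nat_lit 915322811) (nat_lit 76) (nat_lit 915322811) (nat_lit 184) (nat_lit 1) (nat_lit 182) (nat_lit 1) (nat_lit 183) (nat_lit 1) (nat_lit 350) (nat_lit 371) (nat_lit 299)) (XT.nd (nat_lit 78) (nat_lit 152) (nat_lit 0) (XT.lf (nat_lit 0) (nat_lit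 642259320) (nat_lit 0) (nat_lit 3215956115) (nat_lit 152) (nat_lit 642259320) (nat_lit 182) (nat_lit 3) (nat_lit 182) (nat_lit 1) (nat_lit 184) (nat_lit 1) (nat_lit 351) (nat_lit 371) (nat_lit 298)) (XT.lf (nat_lit 76) (nat_lit 2136039040) (nat_lit 0) (nat_lit 153707689) (nat_lit 152) (nat_lit 2136039040) (nat_lit 181) (nat_lit 1) (nat_lit 180) (nat_lit 1) (nat_lit 182) (nat_lit 1) (nat_lit 352) (nat_lit 371) (nat_lit 297))))) (XT.nd (nat_lit 234) (nat_lit 380) (nat_lit 0) (XT.nd (nat_lit 78) (nat_lit 76) (nat_lit 0) (XT.lf (nat_lit 152) (nat_lit 2846532496) (nat_lit 0) (nat_lit 753038342) (nat_lit 76) (nat_lit 753038342) (nat_lit 181) (nat_lit 1) (nat_lit 179) (nat_lit 1) (nat_lit 180) (nat_lit 1) (nat_lit 353) (nat_lit 371) (nat_lit 296)) (XT.nd (nat_lit 78) (nat_lit 76) (nat_lit 0) (XT.lf (nat_lit 0) (nat_lit 721102783) (nat_lit 0) (nat_lit 2838489506) (nat_lit 152) (nat_lit 721102783) (nat_lit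 179) (nat_lit 3) (nat_lit 179) (nat_lit 1) (nat_lit 181) (nat_lit 1) (nat_lit 354) (nat_lit 371) (nat_lit 295)) (XT.lf (nat_lit 76) (nat_lit 58969260) (nat_lit 0) (nat_lit 2075528043) (nat_lit 76) (nat_lit 2075528043) (nat_lit 179) (nat_lit 3) (nat_lit 178) (nat_lit 1) (nat_lit 179) (nat_lit 1) (nat_lit 355) (nat_lit 371) (nat_lit 294)))) (XT.nd (nat_lit 156) (nat_lit 228) (nat_lit 0) (XT.nd (nat_lit 78) (nat_lit 0) (nat_lit 0) (XT.lf (nat_lit 152) (nat_lit 2901638924) (nat_lit 0) (nat_lit 619526507) (nat_lit 76) (nat_lit 619526507) (nat_lit 178) (nat_lit 1) (nat_lit 176) (nat_lit 1) (nat_lit 177) (nat_lit 1) (nat_lit 356) (nat_lit 371) (nat_lit 293)) (XT.lf (nat_lit 0) (nat_lit 776790617) (nat_lit 0) (nat_lit 2518769913) (nat_lit 152) (nat_lit 776790617) (nat_lit 176) (nat_lit 3) (nat_lit 176) (nat_lit 1) (nat_lit 178) (nat_lit 1) (nat_lit 357) (nat_lit 371) (nat_lit 292))) (XT.nd (nat_lit 78)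 (nat_lit 152) (nat_lit 0) (XT.lf (nat_lit 76) (nat_lit 229091445) (nat_lit 0) (nat_lit 1888119346) (nat_lit 76) (nat_lit 1888119346) (nat_lit 176) (nat_lit 3) (nat_lit 175) (nat_lit 1) (nat_lit 176) (nat_lit 1) (nat_lit 358) (nat_lit 371) (nat_lit 291)) (XT.lf (nat_lit 152) (nat_lit 2920318472) (nat_lit 0) (nat_lit 509685991) (nat_lit 76) (nat_lit 509685991) (nat_lit 175) (nat_lit 1) (nat_lit 173) (nat_lit 1) (nat_lit 174) (nat_lit 1) (nat_lit 359) (nat_lit 371) (nat_lit 290))))))))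
noncomputable def ec143 : XT := (XT.nd (nat_lit 1950) (nat_lit 2052) (nat_lit 0) (XT.nd (nat_lit 936) (nat_lit 912) (nat_lit 0) (XT.nd (nat_lit 468) (nat_lit 456) (nat_lit 0) (XT.nd (nat_lit 234) (nat_lit 228) (nat_lit 0) (XT.nd (nat_lit 78) (nat_lit 228) (nat_lit 0) (XT.lf (nat_lit 0) (nat_lit 813865250) (nat_lit 0) (nat_lit 2246995929) (nat_lit 152) (nat_lit 813865250) (nat_lit 173) (nat_lit 3) (nat_lit 173) (nat_lit 1) (nat_lit 175) (nat_lit 1) (nat_lit 360) (nat_lit 371) (nat_lit 289)) (XT.nd (nat_lit 78) (nat_lit 152) (nat_lit 0) (XT.lf (nat_lit 76) (nat_lit 360452469) (nat_lit 0) (nat_lit 1725338829) (nat_lit 76) (nat_lit 1725338829) (nat_lit 173) (nat_lit 3) (nat_lit 172) (nat_lit 1) (nat_lit 173) (nat_lit 1) (nat_lit 361) (nat_lit 371) (nat_lit 288)) (XT.lf (nat_lit 152) (nat_lit 2910298899) (nat_lit 0) (nat_lit 419319926) (nat_lit 76) (nat_lit 419319926) (nat_lit 172) (nat_lit 1) (nat_lit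 170) (nat_lit 1) (nat_lit 171) (nat_lit 1) (nat_lit 362) (nat_lit 371) (nat_lit 287)))) (XT.nd (nat_lit 78) (nat_lit 228) (nat_lit 0) (XT.lf (nat_lit 0) (nat_lit 836042944) (nat_lit 0) (nat_lit 2015083100) (nat_lit 152) (nat_lit 836042944) (nat_lit 170) (nat_lit 3) (nat_lit 170) (nat_lit 1) (nat_lit 172) (nat_lit 1) (nat_lit 363) (nat_lit 371) (nat_lit 286)) (XT.nd (nat_lit 78) (nat_lit 152) (nat_lit 0) (XT.lf (nat_lit 76) (nat_lit 460334062) (nat_lit 0) (nat_lit 1583229449) (nat_lit 76) (nat_lit 1583229449) (nat_lit 170) (nat_lit 3) (nat_lit 169) (nat_lit 1) (nat_lit 170) (nat_lit 1) (nat_lit 364) (nat_lit 371) (nat_lit 285)) (XT.lf (nat_lit 152) (nat_lit 2877877407) (nat_lit 0) (nat_lit 344975541) (nat_lit 76) (nat_lit 344975541) (nat_lit 169) (nat_lit 1) (nat_lit 167) (nat_lit 1) (nat_lit 168) (nat_lit 1) (nat_lit 365) (nat_lit 371) (nat_lit 284))))) (XT.nd (nat_lit 234) (nat_lit 228) (nat_lit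 0) (XT.nd (nat_lit 78) (nat_lit 228) (nat_lit 0) (XT.lf (nat_lit 0) (nat_lit 846361255) (nat_lit 0) (nat_lit 1816360509) (nat_lit 152) (nat_lit 846361255) (nat_lit 167) (nat_lit 3) (nat_lit 167) (nat_lit 1) (nat_lit 169) (nat_lit 1) (nat_lit 366) (nat_lit 371) (nat_lit 283)) (XT.nd (nat_lit 78) (nat_lit 152) (nat_lit 0) (XT.lf (nat_lit 76) (nat_lit 534707424) (nat_lit 0) (nat_lit 1458516237) (nat_lit 76) (nat_lit 1458516237) (nat_lit 167) (nat_lit 3) (nat_lit 166) (nat_lit 1) (nat_lit 167) (nat_lit 1) (nat_lit 367) (nat_lit 371) (nat_lit 282)) (XT.lf (nat_lit 152) (nat_lit 2828177150) (nat_lit 0) (nat_lit 283812231) (nat_lit 76) (nat_lit 283812231) (nat_lit 166) (nat_lit 1) (nat_lit 164) (nat_lit 1) (nat_lit 165) (nat_lit 1) (nat_lit 368) (nat_lit 371) (nat_lit 281)))) (XT.nd (nat_lit 78) (nat_lit 228) (nat_lit 0) (XT.lf (nat_lit 0) (nat_lit 847300314) (nat_lit 0) (nat_lit 1645321101) (nat_lit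 152) (nat_lit 847300314) (nat_lit 164) (nat_lit 3) (nat_lit 164) (nat_lit 1) (nat_lit 166) (nat_lit 1) (nat_lit 369) (nat_lit 371) (nat_lit 280)) (XT.nd (nat_lit 78) (nat_lit 152) (nat_lit 0) (XT.lf (nat_lit 76) (nat_lit 588466503) (nat_lit 0) (nat_lit 1348486300) (nat_lit 76) (nat_lit 1348486300) (nat_lit 164) (nat_lit 3) (nat_lit 163) (nat_lit 1) (nat_lit 164) (nat_lit 1) (nat_lit 370) (nat_lit 371) (nat_lit 279)) (XT.lf (nat_lit 152) (nat_lit 2765358137) (nat_lit 0) (nat_lit 233493025) (nat_lit 76) (nat_lit 233493025) (nat_lit 163) (nat_lit 1) (nat_lit 161) (nat_lit 1) (nat_lit 162) (nat_lit 1) (nat_lit 371) (nat_lit 371) (nat_lit 278)))))) (XT.nd (nat_lit 468) (nat_lit 456) (nat_lit 0) (XT.nd (nat_lit 234) (nat_lit 228) (nat_lit 0) (XT.nd (nat_lit 78) (nat_lit 228) (nat_lit 0) (XT.lf (nat_lit 0) (nat_lit 840882555) (nat_lit 0) (nat_lit 1497416232) (nat_lit 152) (nat_lit 840882555) (nat_lit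 161) (nat_lit 3) (nat_lit 161) (nat_lit 1) (nat_lit 163) (nat_lit 1) (nat_lit 372) (nat_lit 371) (nat_lit 277)) (XT.nd (nat_lit 78) (nat_lit 152) (nat_lit 0) (XT.lf (nat_lit 76) (nat_lit 625619879) (nat_lit 0) (nat_lit 1250890047) (nat_lit 76) (nat_lit 1250890047) (nat_lit 161) (nat_lit 3) (nat_lit 160) (nat_lit 1) (nat_lit 161) (nat_lit 1) (nat_lit 373) (nat_lit 371) (nat_lit 276)) (XT.lf (nat_lit 152) (nat_lit 2692790598) (nat_lit 0) (nat_lit 192095289) (nat_lit 76) (nat_lit 192095289) (nat_lit 160) (nat_lit 1) (nat_lit 158) (nat_lit 1) (nat_lit 159) (nat_lit 1) (nat_lit 374) (nat_lit 371) (nat_lit 275)))) (XT.nd (nat_lit 78) (nat_lit 228) (nat_lit 0) (XT.lf (nat_lit 0) (nat_lit 828754722) (nat_lit 0) (nat_lit 1368886602) (nat_lit 152) (nat_lit 828754722) (nat_lit 158) (nat_lit 3) (nat_lit 158) (nat_lit 1) (nat_lit 160) (nat_lit 1) (nat_lit 375) (nat_lit 371) (nat_lit 274)) (XT.nd (nat_lit 78)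 (nat_lit 152) (nat_lit 0) (XT.lf (nat_lit 76) (nat_lit 649448576) (nat_lit 0) (nat_lit 1163859891) (nat_lit 76) (nat_lit 1163859891) (nat_lit 158) (nat_lit 3) (nat_lit 157) (nat_lit 1) (nat_lit 158) (nat_lit 1) (nat_lit 376) (nat_lit 371) (nat_lit 273)) (XT.lf (nat_lit 152) (nat_lit 2613197503) (nat_lit 0) (nat_lit 158037270) (nat_lit 76) (nat_lit 158037270) (nat_lit 157) (nat_lit 1) (nat_lit 155) (nat_lit 1) (nat_lit 156) (nat_lit 1) (nat_lit 377) (nat_lit 371) (nat_lit 272))))) (XT.nd (nat_lit 234) (nat_lit 228) (nat_lit 0) (XT.nd (nat_lit 78) (nat_lit 228) (nat_lit 0) (XT.lf (nat_lit 0) (nat_lit 812255286) (nat_lit 0) (nat_lit 1256623121) (nat_lit 152) (nat_lit 812255286) (nat_lit 155) (nat_lit 3) (nat_lit 155) (nat_lit 1) (nat_lit 157) (nat_lit 1) (nat_lit 378) (nat_lit 371) (nat_lit 271)) (XT.nd (nat_lit 78) (nat_lit 152) (nat_lit 0) (XT.lf (nat_lit 76) (nat_lit 662635859) (nat_lit 0) (nat_lit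 1085843320) (nat_lit 76) (nat_lit 1085843320) (nat_lit 155) (nat_lit 3) (nat_lit 154) (nat_lit 1) (nat_lit 155) (nat_lit 1) (nat_lit 379) (nat_lit 371) (nat_lit 270)) (XT.lf (nat_lit 152) (nat_lit 2528771686) (nat_lit 0) (nat_lit 130017653) (nat_lit 76) (nat_lit 130017653) (nat_lit 154) (nat_lit 1) (nat_lit 152) (nat_lit 1) (nat_lit 153) (nat_lit 1) (nat_lit 380) (nat_lit 371) (nat_lit 269)))) (XT.nd (nat_lit 156) (nat_lit 152) (nat_lit 0) (XT.nd (nat_lit 78) (nat_lit 76) (nat_lit 0) (XT.lf (nat_lit 0) (nat_lit 792469888) (nat_lit 0) (nat_lit 1158052405) (nat_lit 152) (nat_lit 792469888) (nat_lit 152) (nat_lit 3) (nat_lit 152) (nat_lit 1) (nat_lit 154) (nat_lit 1) (nat_lit 381) (nat_lit 371) (nat_lit 268)) (XT.lf (nat_lit 76) (nat_lit 667373978) (nat_lit 0) (nat_lit 1015547804) (nat_lit 76) (nat_lit 1015547804) (nat_lit 152) (nat_lit 3) (nat_lit 151) (nat_lit 1) (nat_lit 152) (nat_lit 1) (nat_lit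 382) (nat_lit 371) (nat_lit 267))) (XT.nd (nat_lit 78) (nat_lit 0) (nat_lit 0) (XT.lf (nat_lit 152) (nat_lit 2441272089) (nat_lit 0) (nat_lit 106965845) (nat_lit 76) (nat_lit 106965845) (nat_lit 151) (nat_lit 1) (nat_lit 149) (nat_lit 1) (nat_lit 150) (nat_lit 1) (nat_lit 383) (nat_lit 371) (nat_lit 266)) (XT.lf (nat_lit 0) (nat_lit 770276893) (nat_lit 0) (nat_lit 1071042535) (nat_lit 152) (nat_lit 770276893) (nat_lit 149) (nat_lit 3) (nat_lit 149) (nat_lit 1) (nat_lit 151) (nat_lit 1) (nat_lit 384) (nat_lit 371) (nat_lit 265))))))) (XT.nd (nat_lit 1014) (nat_lit 1064) (nat_lit 0) (XT.nd (nat_lit 468) (nat_lit 532) (nat_lit 0) (XT.nd (nat_lit 234) (nat_lit 228) (nat_lit 0) (XT.nd (nat_lit 78) (nat_lit 152) (nat_lit 0) (XT.lf (nat_lit 76) (nat_lit 665451954) (nat_lit 0) (nat_lit 951895422) (nat_lit 76) (nat_lit 951895422) (nat_lit 149) (nat_lit 3) (nat_lit 148) (nat_lit 1) (nat_lit 149) (nat_lit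 1) (nat_lit 385) (nat_lit 371) (nat_lit 264)) (XT.nd (nat_lit 78) (nat_lit 0) (nat_lit 0) (XT.lf (nat_lit 152) (nat_lit 2352102841) (nat_lit 0) (nat_lit 88001065) (nat_lit 76) (nat_lit 88001065) (nat_lit 148) (nat_lit 1) (nat_lit 146) (nat_lit 1) (nat_lit 147) (nat_lit 1) (nat_lit 386) (nat_lit 371) (nat_lit 263)) (XT.lf (nat_lit 0) (nat_lit 746384854) (nat_lit 0) (nat_lit 993825492) (nat_lit 152) (nat_lit 746384854) (nat_lit 146) (nat_lit 3) (nat_lit 146) (nat_lit 1) (nat_lit 148) (nat_lit 1) (nat_lit 387) (nat_lit 371) (nat_lit 262)))) (XT.nd (nat_lit 78) (nat_lit 152) (nat_lit 0) (XT.lf (nat_lit 76) (nat_lit 658327760) (nat_lit 0) (nat_lit 893985510) (nat_lit 76) (nat_lit 893985510) (nat_lit 146) (nat_lit 3) (nat_lit 145) (nat_lit 1) (nat_lit 146) (nat_lit 1) (nat_lit 388) (nat_lit 371) (nat_lit 261)) (XT.nd (nat_lit 78) (nat_lit 0) (nat_lit 0) (XT.lf (nat_lit 152) (nat_lit 2262378211) (nat_lit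 0) (nat_lit 72398694) (nat_lit 76) (nat_lit 72398694) (nat_lit 145) (nat_lit 1) (nat_lit 143) (nat_lit 1) (nat_lit 144) (nat_lit 1) (nat_lit 389) (nat_lit 371) (nat_lit 260)) (XT.lf (nat_lit 0) (nat_lit 721363284) (nat_lit 0) (nat_lit 924933309) (nat_lit 152) (nat_lit 721363284) (nat_lit 143) (nat_lit 3) (nat_lit 143) (nat_lit 1) (nat_lit 145) (nat_lit 1) (nat_lit 390) (nat_lit 371) (nat_lit 259))))) (XT.nd (nat_lit 234) (nat_lit 304) (nat_lit 0) (XT.nd (nat_lit 78) (nat_lit 152) (nat_lit 0) (XT.lf (nat_lit 76) (nat_lit 647187678) (nat_lit 0) (nat_lit 841063892) (nat_lit 76) (nat_lit 841063892) (nat_lit 143) (nat_lit 3) (nat_lit 142) (nat_lit 1) (nat_lit 143) (nat_lit 1) (nat_lit 391) (nat_lit 371) (nat_lit 258)) (XT.nd (nat_lit 78) (nat_lit 0) (nat_lit 0) (XT.lf (nat_lit 152) (nat_lit 2172975946) (nat_lit 0) (nat_lit 59562585) (nat_lit 76) (nat_lit 59562585) (nat_lit 142) (nat_lit 1) (nat_lit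 140) (nat_lit 1) (nat_lit 141) (nat_lit 1) (nat_lit 392) (nat_lit 371) (nat_lit 257)) (XT.lf (nat_lit 0) (nat_lit 695667947) (nat_lit 0) (nat_lit 863145510) (nat_lit 152) (nat_lit 695667947) (nat_lit 140) (nat_lit 3) (nat_lit 140) (nat_lit 1) (nat_lit 142) (nat_lit 1) (nat_lit 393) (nat_lit 371) (nat_lit 256)))) (XT.nd (nat_lit 156) (nat_lit 76) (nat_lit 0) (XT.nd (nat_lit 78) (nat_lit 152) (nat_lit 0) (XT.lf (nat_lit 76) (nat_lit 632995096) (nat_lit 0) (nat_lit 792497537) (nat_lit 76) (nat_lit 792497537) (nat_lit 140) (nat_lit 3) (nat_lit 139) (nat_lit 1) (nat_lit 140) (nat_lit 1) (nat_lit 394) (nat_lit 371) (nat_lit 255)) (XT.lf (nat_lit 152) (nat_lit 2084581063) (nat_lit 0) (nat_lit 49002286) (nat_lit 76) (nat_lit 49002286) (nat_lit 139) (nat_lit 1) (nat_lit 137) (nat_lit 1) (nat_lit 138) (nat_lit 1) (nat_lit 395) (nat_lit 371) (nat_lit 254))) (XT.nd (nat_lit 78) (nat_lit 76) (nat_lit 0) (XT.lf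 (nat_lit 0) (nat_lit 669661635) (nat_lit 0) (nat_lit 807445841) (nat_lit 152) (nat_lit 669661635) (nat_lit 137) (nat_lit 3) (nat_lit 137) (nat_lit 1) (nat_lit 139) (nat_lit 1) (nat_lit 396) (nat_lit 371) (nat_lit 253)) (XT.lf (nat_lit 76) (nat_lit 616530623) (nat_lit 0) (nat_lit 747753677) (nat_lit 76) (nat_lit 747753677) (nat_lit 137) (nat_lit 3) (nat_lit 136) (nat_lit 1) (nat_lit 137) (nat_lit 1) (nat_lit 397) (nat_lit 371) (nat_lit 252)))))) (XT.nd (nat_lit 468) (nat_lit 608) (nat_lit 0) (XT.nd (nat_lit 234) (nat_lit 228) (nat_lit 0) (XT.nd (nat_lit 78) (nat_lit 76) (nat_lit 0) (XT.lf (nat_lit 152) (nat_lit 1997721784) (nat_lit 0) (nat_lit 40314302) (nat_lit 76) (nat_lit 40314302) (nat_lit 136) (nat_lit 1) (nat_lit 134) (nat_lit 1) (nat_lit 135) (nat_lit 1) (nat_lit 398) (nat_lit 371) (nat_lit 251)) (XT.nd (nat_lit 78) (nat_lit 76) (nat_lit 0) (XT.lf (nat_lit 0) (nat_lit 643631230) (nat_lit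 0) (nat_lit 756986637) (nat_lit 152) (nat_lit 643631230) (nat_lit 134) (nat_lit 3) (nat_lit 134) (nat_lit 1) (nat_lit 136) (nat_lit 1) (nat_lit 399) (nat_lit 371) (nat_lit 250)) (XT.lf (nat_lit 76) (nat_lit 598425071) (nat_lit 0) (nat_lit 706382602) (nat_lit 76) (nat_lit 706382602) (nat_lit 134) (nat_lit 3) (nat_lit 133) (nat_lit 1) (nat_lit 134) (nat_lit 1) (nat_lit 400) (nat_lit 371) (nat_lit 249)))) (XT.nd (nat_lit 78) (nat_lit 76) (nat_lit 0) (XT.lf (nat_lit 152) (nat_lit 1912799023) (nat_lit 0) (nat_lit 33166676) (nat_lit 76) (nat_lit 33166676) (nat_lit 133) (nat_lit 1) (nat_lit 131) (nat_lit 1) (nat_lit 132) (nat_lit 1) (nat_lit 401) (nat_lit 371) (nat_lit 248)) (XT.nd (nat_lit 78) (nat_lit 76) (nat_lit 0) (XT.lf (nat_lit 0) (nat_lit 617801716) (nat_lit 0) (nat_lit 711059490) (nat_lit 152) (nat_lit 617801716) (nat_lit 131) (nat_lit 3) (nat_lit 131) (nat_lit 1) (nat_lit 133) (nat_lit 1) (nat_lit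 402) (nat_lit 371) (nat_lit 247)) (XT.lf (nat_lit 76) (nat_lit 579186551) (nat_lit 0) (nat_lit 668003478) (nat_lit 76) (nat_lit 668003478) (nat_lit 131) (nat_lit 3) (nat_lit 130) (nat_lit 1) (nat_lit 131) (nat_lit 1) (nat_lit 403) (nat_lit 371) (nat_lit 246))))) (XT.nd (nat_lit 234) (nat_lit 380) (nat_lit 0) (XT.nd (nat_lit 78) (nat_lit 76) (nat_lit 0) (XT.lf (nat_lit 152) (nat_lit 1830110553) (nat_lit 0) (nat_lit 27286306) (nat_lit 76) (nat_lit 27286306) (nat_lit 130) (nat_lit 1) (nat_lit 128) (nat_lit 1) (nat_lit 129) (nat_lit 1) (nat_lit 404) (nat_lit 371) (nat_lit 245)) (XT.nd (nat_lit 78) (nat_lit 76) (nat_lit 0) (XT.lf (nat_lit 0) (nat_lit 592347677) (nat_lit 0) (nat_lit 669071079) (nat_lit 152) (nat_lit 592347677) (nat_lit 128) (nat_lit 3) (nat_lit 128) (nat_lit 1) (nat_lit 130) (nat_lit 1) (nat_lit 405) (nat_lit 371) (nat_lit 244)) (XT.lf (nat_lit 76) (nat_lit 559222745) (nat_lit 0) (nat_lit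 632292651) (nat_lit 76) (nat_lit 632292651) (nat_lit 128) (nat_lit 3) (nat_lit 127) (nat_lit 1) (nat_lit 128) (nat_lit 1) (nat_lit 406) (nat_lit 371) (nat_lit 243)))) (XT.nd (nat_lit 156) (nat_lit 228) (nat_lit 0) (XT.nd (nat_lit 78) (nat_lit 0) (nat_lit 0) (XT.lf (nat_lit 152) (nat_lit 1749870828) (nat_lit 0) (nat_lit 22448511) (nat_lit 76) (nat_lit 22448511) (nat_lit 127) (nat_lit 1) (nat_lit 125) (nat_lit 1) (nat_lit 126) (nat_lit 1) (nat_lit 407) (nat_lit 371) (nat_lit 242)) (XT.lf (nat_lit 0) (nat_lit 567402735) (nat_lit 0) (nat_lit 630523267) (nat_lit 152) (nat_lit 567402735) (nat_lit 125) (nat_lit 3) (nat_lit 125) (nat_lit 1) (nat_lit 127) (nat_lit 1) (nat_lit 408) (nat_lit 371) (nat_lit 241))) (XT.nd (nat_lit 78) (nat_lit 152) (nat_lit 0) (XT.lf (nat_lit 76) (nat_lit 538859209) (nat_lit 0) (nat_lit 598974002) (nat_lit 76) (nat_lit 598974002) (nat_lit 125) (nat_lit 3) (nat_lit 124) (nat_lit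 1) (nat_lit 125) (nat_lit 1) (nat_lit 409) (nat_lit 371) (nat_lit 240)) (XT.lf (nat_lit 152) (nat_lit 1672227200) (nat_lit 0) (nat_lit 18468446) (nat_lit 76) (nat_lit 18468446) (nat_lit 124) (nat_lit 1) (nat_lit 122) (nat_lit 1) (nat_lit 123) (nat_lit 1) (nat_lit 410) (nat_lit 371) (nat_lit 239))))))))
noncomputable def ec144 : XT := (XT.nd (nat_lit 1950) (nat_lit 988) (nat_lit 0) (XT.nd (nat_lit 936) (nat_lit 912) (nat_lit 0) (XT.nd (nat_lit 468) (nat_lit 456) (nat_lit 0) (XT.nd (nat_lit 234) (nat_lit 228) (nat_lit 0) (XT.nd (nat_lit 78) (nat_lit 228) (nat_lit 0) (XT.lf (nat_lit 0) (nat_lit 543067286) (nat_lit 0) (nat_lit 594996704) (nat_lit 152) (nat_lit 543067286) (nat_lit 122) (nat_lit 3) (nat_lit 122) (nat_lit 1) (nat_lit 124) (nat_lit 1) (nat_lit 411) (nat_lit 371) (nat_lit 238)) (XT.nd (nat_lit 78) (nat_lit 152) (nat_lit 0) (XT.lf (nat_lit 76) (nat_lit 518354398) (nat_lit 0) (nat_lit 567810987)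 (nat_lit 76) (nat_lit 567810987) (nat_lit 122) (nat_lit 3) (nat_lit 121) (nat_lit 1) (nat_lit 122) (nat_lit 1) (nat_lit 412) (nat_lit 371) (nat_lit 237)) (XT.lf (nat_lit 152) (nat_lit 1597273207) (nat_lit 0) (nat_lit 15194036) (nat_lit 76) (nat_lit 15194036) (nat_lit 121) (nat_lit 1) (nat_lit 119) (nat_lit 1) (nat_lit 120) (nat_lit 1) (nat_lit 413) (nat_lit 371) (nat_lit 236)))) (XT.nd (nat_lit 78) (nat_lit 228) (nat_lit 0) (XT.lf (nat_lit 0) (nat_lit 519414850) (nat_lit 0) (nat_lit 562137311) (nat_lit 152) (nat_lit 519414850) (nat_lit 119) (nat_lit 3) (nat_lit 119) (nat_lit 1) (nat_lit 121) (nat_lit 1) (nat_lit 414) (nat_lit 371) (nat_lit 235)) (XT.nd (nat_lit 78) (nat_lit 152) (nat_lit 0) (XT.lf (nat_lit 76) (nat_lit 497912011) (nat_lit 0) (nat_lit 538600069) (nat_lit 76) (nat_lit 538600069) (nat_lit 119) (nat_lit 3) (nat_lit 118) (nat_lit 1) (nat_lit 119) (nat_lit 1) (nat_lit 415) (nat_lit 371)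 (nat_lit 234)) (XT.lf (nat_lit 152) (nat_lit 1525059432) (nat_lit 0) (nat_lit 12500171) (nat_lit 76) (nat_lit 12500171) (nat_lit 118) (nat_lit 1) (nat_lit 116) (nat_lit 1) (nat_lit 117) (nat_lit 1) (nat_lit 416) (nat_lit 371) (nat_lit 233))))) (XT.nd (nat_lit 234) (nat_lit 228) (nat_lit 0) (XT.nd (nat_lit 78) (nat_lit 228) (nat_lit 0) (XT.lf (nat_lit 0) (nat_lit 496497263) (nat_lit 0) (nat_lit 531645138) (nat_lit 152) (nat_lit 496497263) (nat_lit 116) (nat_lit 3) (nat_lit 116) (nat_lit 1) (nat_lit 118) (nat_lit 1) (nat_lit 417) (nat_lit 371) (nat_lit 232)) (XT.nd (nat_lit 78) (nat_lit 152) (nat_lit 0) (XT.lf (nat_lit 76) (nat_lit 477691125) (nat_lit 0) (nat_lit 511165291) (nat_lit 76) (nat_lit 511165291) (nat_lit 116) (nat_lit 3) (nat_lit 115) (nat_lit 1) (nat_lit 116) (nat_lit 1) (nat_lit 418) (nat_lit 371) (nat_lit 231)) (XT.lf (nat_lit 152) (nat_lit 1455602370) (nat_lit 0) (nat_lit 10283921)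 (nat_lit 76) (nat_lit 10283921) (nat_lit 115) (nat_lit 1) (nat_lit 113) (nat_lit 1) (nat_lit 114) (nat_lit 1) (nat_lit 419) (nat_lit 371) (nat_lit 230)))) (XT.nd (nat_lit 78) (nat_lit 228) (nat_lit 0) (XT.lf (nat_lit 0) (nat_lit 474348937) (nat_lit 0) (nat_lit 503265180) (nat_lit 152) (nat_lit 474348937) (nat_lit 113) (nat_lit 3) (nat_lit 113) (nat_lit 1) (nat_lit 115) (nat_lit 1) (nat_lit 420) (nat_lit 371) (nat_lit 229)) (XT.nd (nat_lit 78) (nat_lit 152) (nat_lit 0) (XT.lf (nat_lit 76) (nat_lit 457814510) (nat_lit 0) (nat_lit 485353789) (nat_lit 76) (nat_lit 485353789) (nat_lit 113) (nat_lit 3) (nat_lit 112) (nat_lit 1) (nat_lit 113) (nat_lit 1) (nat_lit 421) (nat_lit 371) (nat_lit 228)) (XT.lf (nat_lit 152) (nat_lit 1388891673) (nat_lit 0) (nat_lit 8460608) (nat_lit 76) (nat_lit 8460608) (nat_lit 112) (nat_lit 1) (nat_lit 110) (nat_lit 1) (nat_lit 111) (nat_lit 1) (nat_lit 422) (nat_lit 371)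 (nat_lit 227)))))) (XT.nd (nat_lit 468) (nat_lit 456) (nat_lit 0) (XT.nd (nat_lit 234) (nat_lit 228) (nat_lit 0) (XT.nd (nat_lit 78) (nat_lit 228) (nat_lit 0) (XT.lf (nat_lit 0) (nat_lit 452990340) (nat_lit 0) (nat_lit 476779805) (nat_lit 152) (nat_lit 452990340) (nat_lit 110) (nat_lit 3) (nat_lit 110) (nat_lit 1) (nat_lit 112) (nat_lit 1) (nat_lit 423) (nat_lit 371) (nat_lit 226)) (XT.nd (nat_lit 78) (nat_lit 152) (nat_lit 0) (XT.lf (nat_lit 76) (nat_lit 438375453) (nat_lit 0) (nat_lit 461032086) (nat_lit 76) (nat_lit 461032086) (nat_lit 110) (nat_lit 3) (nat_lit 109) (nat_lit 1) (nat_lit 110) (nat_lit 1) (nat_lit 424) (nat_lit 371) (nat_lit 225)) (XT.lf (nat_lit 152) (nat_lit 1324896046) (nat_lit 0) (nat_lit 6960563) (nat_lit 76) (nat_lit 6960563) (nat_lit 109) (nat_lit 1) (nat_lit 107) (nat_lit 1) (nat_lit 108) (nat_lit 1) (nat_lit 425) (nat_lit 371) (nat_lit 224)))) (XT.nd (nat_lit 78) (nat_lit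 228) (nat_lit 0) (XT.lf (nat_lit 0) (nat_lit 432430841) (nat_lit 0) (nat_lit 452002492) (nat_lit 152) (nat_lit 432430841) (nat_lit 107) (nat_lit 3) (nat_lit 107) (nat_lit 1) (nat_lit 109) (nat_lit 1) (nat_lit 426) (nat_lit 371) (nat_lit 223)) (XT.nd (nat_lit 78) (nat_lit 152) (nat_lit 0) (XT.lf (nat_lit 76) (nat_lit 419443354) (nat_lit 0) (nat_lit 438083022) (nat_lit 76) (nat_lit 438083022) (nat_lit 107) (nat_lit 3) (nat_lit 106) (nat_lit 1) (nat_lit 107) (nat_lit 1) (nat_lit 427) (nat_lit 371) (nat_lit 222)) (XT.lf (nat_lit 152) (nat_lit 1263568046) (nat_lit 0) (nat_lit 5726472) (nat_lit 76) (nat_lit 5726472) (nat_lit 106) (nat_lit 1) (nat_lit 104) (nat_lit 1) (nat_lit 105) (nat_lit 1) (nat_lit 428) (nat_lit 371) (nat_lit 221))))) (XT.nd (nat_lit 234) (nat_lit 228) (nat_lit 0) (XT.nd (nat_lit 78) (nat_lit 228) (nat_lit 0) (XT.lf (nat_lit 0) (nat_lit 412671034) (nat_lit 0) (nat_lit 428772681) (nat_lit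 152) (nat_lit 412671034) (nat_lit 104) (nat_lit 3) (nat_lit 104) (nat_lit 1) (nat_lit 106) (nat_lit 1) (nat_lit 429) (nat_lit 371) (nat_lit 220)) (XT.nd (nat_lit 78) (nat_lit 152) (nat_lit 0) (XT.lf (nat_lit 76) (nat_lit 401068308) (nat_lit 0) (nat_lit 416403209) (nat_lit 76) (nat_lit 416403209) (nat_lit 104) (nat_lit 3) (nat_lit 103) (nat_lit 1) (nat_lit 104) (nat_lit 1) (nat_lit 430) (nat_lit 371) (nat_lit 219)) (XT.lf (nat_lit 152) (nat_lit 1204847978) (nat_lit 0) (nat_lit 4711183) (nat_lit 76) (nat_lit 4711183) (nat_lit 103) (nat_lit 1) (nat_lit 101) (nat_lit 1) (nat_lit 102) (nat_lit 1) (nat_lit 431) (nat_lit 371) (nat_lit 218)))) (XT.nd (nat_lit 156) (nat_lit 152) (nat_lit 0) (XT.nd (nat_lit 78) (nat_lit 76) (nat_lit 0) (XT.lf (nat_lit 0) (nat_lit 393704635) (nat_lit 0) (nat_lit 406951499) (nat_lit 152) (nat_lit 393704635) (nat_lit 101) (nat_lit 3) (nat_lit 101) (nat_lit 1) (nat_lit 103)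 (nat_lit 1) (nat_lit 432) (nat_lit 371) (nat_lit 217)) (XT.lf (nat_lit 76) (nat_lit 383284863) (nat_lit 0) (nat_lit 395900924) (nat_lit 76) (nat_lit 395900924) (nat_lit 101) (nat_lit 3) (nat_lit 100) (nat_lit 1) (nat_lit 101) (nat_lit 1) (nat_lit 433) (nat_lit 371) (nat_lit 216))) (XT.nd (nat_lit 78) (nat_lit 0) (nat_lit 0) (XT.lf (nat_lit 152) (nat_lit 1148667050) (nat_lit 0) (nat_lit 3875902) (nat_lit 76) (nat_lit 3875902) (nat_lit 100) (nat_lit 1) (nat_lit 98) (nat_lit 1) (nat_lit 99) (nat_lit 1) (nat_lit 434) (nat_lit 371) (nat_lit 215)) (XT.lf (nat_lit 0) (nat_lit 375520019) (nat_lit 0) (nat_lit 386418247) (nat_lit 152) (nat_lit 375520019) (nat_lit 98) (nat_lit 3) (nat_lit 98) (nat_lit 1) (nat_lit 100) (nat_lit 1) (nat_lit 435) (nat_lit 371) (nat_lit 214))))))) (XT.nd (nat_lit 936) (nat_lit 76) (nat_lit 0) (XT.nd (nat_lit 468) (nat_lit 456) (nat_lit 0) (XT.nd (nat_lit 234) (nat_lit 228) (nat_lit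 0) (XT.nd (nat_lit 78) (nat_lit 152) (nat_lit 0) (XT.lf (nat_lit 76) (nat_lit 366115095) (nat_lit 0) (nat_lit 376494359) (nat_lit 76) (nat_lit 376494359) (nat_lit 98) (nat_lit 3) (nat_lit 97) (nat_lit 1) (nat_lit 98) (nat_lit 1) (nat_lit 436) (nat_lit 371) (nat_lit 213)) (XT.nd (nat_lit 78) (nat_lit 0) (nat_lit 0) (XT.lf (nat_lit 152) (nat_lit 1094949927) (nat_lit 0) (nat_lit 3188714) (nat_lit 76) (nat_lit 3188714) (nat_lit 97) (nat_lit 1) (nat_lit 95) (nat_lit 1) (nat_lit 96) (nat_lit 1) (nat_lit 437) (nat_lit 371) (nat_lit 212)) (XT.lf (nat_lit 0) (nat_lit 358101479) (nat_lit 0) (nat_lit 367067478) (nat_lit 152) (nat_lit 358101479) (nat_lit 95) (nat_lit 3) (nat_lit 95) (nat_lit 1) (nat_lit 97) (nat_lit 1) (nat_lit 438) (nat_lit 371) (nat_lit 211)))) (XT.nd (nat_lit 78) (nat_lit 152) (nat_lit 0) (XT.lf (nat_lit 76) (nat_lit 349571118) (nat_lit 0) (nat_lit 358110164) (nat_lit 76) (nat_lit 358110164)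 (nat_lit 95) (nat_lit 3) (nat_lit 94) (nat_lit 1) (nat_lit 95) (nat_lit 1) (nat_lit 439) (nat_lit 371) (nat_lit 210)) (XT.nd (nat_lit 78) (nat_lit 0) (nat_lit 0) (XT.lf (nat_lit 152) (nat_lit 1043616779) (nat_lit 0) (nat_lit 2623363) (nat_lit 76) (nat_lit 2623363) (nat_lit 94) (nat_lit 1) (nat_lit 92) (nat_lit 1) (nat_lit 93) (nat_lit 1) (nat_lit 440) (nat_lit 371) (nat_lit 209)) (XT.lf (nat_lit 0) (nat_lit 341430240) (nat_lit 0) (nat_lit 348806590) (nat_lit 152) (nat_lit 341430240) (nat_lit 92) (nat_lit 3) (nat_lit 92) (nat_lit 1) (nat_lit 94) (nat_lit 1) (nat_lit 441) (nat_lit 371) (nat_lit 208))))) (XT.nd (nat_lit 234) (nat_lit 228) (nat_lit 0) (XT.nd (nat_lit 78) (nat_lit 152) (nat_lit 0) (XT.lf (nat_lit 76) (nat_lit 333657141) (nat_lit 0) (nat_lit 340682236) (nat_lit 76) (nat_lit 340682236) (nat_lit 92) (nat_lit 3) (nat_lit 91) (nat_lit 1) (nat_lit 92) (nat_lit 1) (nat_lit 442) (nat_lit 371)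 (nat_lit 207)) (XT.nd (nat_lit 78) (nat_lit 0) (nat_lit 0) (XT.lf (nat_lit 152) (nat_lit 994584929) (nat_lit 0) (nat_lit 2158247) (nat_lit 76) (nat_lit 2158247) (nat_lit 91) (nat_lit 1) (nat_lit 89) (nat_lit 1) (nat_lit 90) (nat_lit 1) (nat_lit 443) (nat_lit 371) (nat_lit 206)) (XT.lf (nat_lit 0) (nat_lit 325485281) (nat_lit 0) (nat_lit 331553822) (nat_lit 152) (nat_lit 325485281) (nat_lit 89) (nat_lit 3) (nat_lit 89) (nat_lit 1) (nat_lit 91) (nat_lit 1) (nat_lit 444) (nat_lit 371) (nat_lit 205)))) (XT.nd (nat_lit 78) (nat_lit 152) (nat_lit 0) (XT.lf (nat_lit 76) (nat_lit 318371144) (nat_lit 0) (nat_lit 324150707) (nat_lit 76) (nat_lit 324150707) (nat_lit 89) (nat_lit 3) (nat_lit 88) (nat_lit 1) (nat_lit 89) (nat_lit 1) (nat_lit 445) (nat_lit 371) (nat_lit 204)) (XT.nd (nat_lit 78) (nat_lit 0) (nat_lit 0) (XT.lf (nat_lit 152) (nat_lit 947770171) (nat_lit 0) (nat_lit 1775595) (nat_lit 76) (nat_lit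 1775595) (nat_lit 88) (nat_lit 1) (nat_lit 86) (nat_lit 1) (nat_lit 87) (nat_lit 1) (nat_lit 446) (nat_lit 371) (nat_lit 203)) (XT.lf (nat_lit 0) (nat_lit 310244002) (nat_lit 0) (nat_lit 315236605) (nat_lit 152) (nat_lit 310244002) (nat_lit 86) (nat_lit 3) (nat_lit 86) (nat_lit 1) (nat_lit 88) (nat_lit 1) (nat_lit 447) (nat_lit 371) (nat_lit 202)))))) (XT.nd (nat_lit 40092) (nat_lit 0) (nat_lit 15352) (XT.nd (nat_lit 39858) (nat_lit 0) (nat_lit 15808) (XT.nd (nat_lit 39702) (nat_lit 0) (nat_lit 15732) (XT.lf (nat_lit 76) (nat_lit 303706240) (nat_lit 0) (nat_lit 308461101) (nat_lit 76) (nat_lit 308461101) (nat_lit 86) (nat_lit 3) (nat_lit 85) (nat_lit 1) (nat_lit 86) (nat_lit 1) (nat_lit 448) (nat_lit 371) (nat_lit 201)) (XT.nd (nat_lit 78) (nat_lit 0) (nat_lit 0) (XT.lf (nat_lit 836) (nat_lit 2560396643) (nat_lit 0) (nat_lit 4545978355) (nat_lit 836) (nat_lit 2560396643) (nat_lit 303) (nat_lit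 1) (nat_lit 292) (nat_lit 0) (nat_lit 303) (nat_lit 0) (nat_lit 276) (nat_lit 372) (nat_lit 372)) (XT.lf (nat_lit 836) (nat_lit 9924417043) (nat_lit 76) (nat_lit 4472656123) (nat_lit 0) (nat_lit 4472656123) (nat_lit 303) (nat_lit 1) (nat_lit 293) (nat_lit 1) (nat_lit 292) (nat_lit 0) (nat_lit 277) (nat_lit 372) (nat_lit 371)))) (XT.nd (nat_lit 78) (nat_lit 0) (nat_lit 0) (XT.lf (nat_lit 836) (nat_lit 4729827731) (nat_lit 0) (nat_lit 8960598817) (nat_lit 760) (nat_lit 4729827731) (nat_lit 304) (nat_lit 1) (nat_lit 293) (nat_lit 1) (nat_lit 303) (nat_lit 1) (nat_lit 278) (nat_lit 372) (nat_lit 370)) (XT.nd (nat_lit 78) (nat_lit 0) (nat_lit 76) (XT.lf (nat_lit 836) (nat_lit 8872499597) (nat_lit 76) (nat_lit 4556400531) (nat_lit 0) (nat_lit 4556400531) (nat_lit 304) (nat_lit 1) (nat_lit 294) (nat_lit 1) (nat_lit 293) (nat_lit 1) (nat_lit 279) (nat_lit 372) (nat_lit 369)) (XT.lf (nat_lit 836) (nat_lit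 4083926361) (nat_lit 0) (nat_lit 9396280165) (nat_lit 760) (nat_lit 4083926361) (nat_lit 305) (nat_lit 1) (nat_lit 294) (nat_lit 1) (nat_lit 304) (nat_lit 1) (nat_lit 280) (nat_lit 372) (nat_lit 368))))) (XT.nd (nat_lit 234) (nat_lit 532) (nat_lit 0) (XT.nd (nat_lit 78) (nat_lit 0) (nat_lit 76) (XT.lf (nat_lit 836) (nat_lit 7345207554) (nat_lit 76) (nat_lit 4905298182) (nat_lit 0) (nat_lit 4905298182) (nat_lit 305) (nat_lit 1) (nat_lit 295) (nat_lit 1) (nat_lit 294) (nat_lit 1) (nat_lit 281) (nat_lit 372) (nat_lit 367)) (XT.nd (nat_lit 78) (nat_lit 0) (nat_lit 0) (XT.lf (nat_lit 836) (nat_lit 3220661364) (nat_lit 0) (nat_lit 10319862494) (nat_lit 760) (nat_lit 3220661364) (nat_lit 306) (nat_lit 1) (nat_lit 295) (nat_lit 1) (nat_lit 305) (nat_lit 1) (nat_lit 282) (nat_lit 372) (nat_lit 366)) (XT.lf (nat_lit 836) (nat_lit 5414030640) (nat_lit 76) (nat_lit 5481700545) (nat_lit 0) (nat_lit 5481700545)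 (nat_lit 306) (nat_lit 1) (nat_lit 296) (nat_lit 1) (nat_lit 295) (nat_lit 1) (nat_lit 283) (nat_lit 372) (nat_lit 365)))) (XT.nd (nat_lit 156) (nat_lit 684) (nat_lit 0) (XT.nd (nat_lit 78) (nat_lit 0) (nat_lit 0) (XT.lf (nat_lit 836) (nat_lit 2173451311) (nat_lit 0) (nat_lit 11660823183) (nat_lit 760) (nat_lit 2173451311) (nat_lit 307) (nat_lit 1) (nat_lit 296) (nat_lit 1) (nat_lit 306) (nat_lit 1) (nat_lit 284) (nat_lit 372) (nat_lit 364)) (XT.lf (nat_lit 836) (nat_lit 3142512433) (nat_lit 76) (nat_lit 6252078203) (nat_lit 0) (nat_lit 6252078203) (nat_lit 307) (nat_lit 1) (nat_lit 297) (nat_lit 1) (nat_lit 296) (nat_lit 1) (nat_lit 285) (nat_lit 372) (nat_lit 363))) (XT.nd (nat_lit 78) (nat_lit 760) (nat_lit 0) (XT.lf (nat_lit 76) (nat_lit 971978779) (nat_lit 0) (nat_lit 13356394332) (nat_lit 760) (nat_lit 971978779) (nat_lit 298) (nat_lit 1) (nat_lit 297) (nat_lit 1) (nat_lit 307) (nat_lit 1)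 (nat_lit 286) (nat_lit 372) (nat_lit 362)) (XT.lf (nat_lit 836) (nat_lit 587051011) (nat_lit 0) (nat_lit 7186608423) (nat_lit 760) (nat_lit 7186608423) (nat_lit 298) (nat_lit 1) (nat_lit 287) (nat_lit 1) (nat_lit 297) (nat_lit 1) (nat_lit 287) (nat_lit 372) (nat_lit 361))))))))
noncomputable def ec145 : XT := (XT.nd (nat_lit 1950) (nat_lit 2584) (nat_lit 0) (XT.nd (nat_lit 936) (nat_lit 2052) (nat_lit 0) (XT.nd (nat_lit 468) (nat_lit 1292) (nat_lit 0) (XT.nd (nat_lit 234) (nat_lit 380) (nat_lit 0) (XT.nd (nat_lit 78) (nat_lit 380) (nat_lit 0) (XT.lf (nat_lit 532) (nat_lit 13931459824) (nat_lit 0) (nat_lit 351667324) (nat_lit 456) (nat_lit 351667324) (nat_lit 287) (nat_lit 1) (nat_lit 280) (nat_lit 1) (nat_lit 286) (nat_lit 1) (nat_lit 288) (nat_lit 372) (nat_lit 360)) (XT.nd (nat_lit 78) (nat_lit 380) (nat_lit 0) (XT.lf (nat_lit 76) (nat_lit 6090809988) (nat_lit 0) (nat_lit 2131887934) (nat_lit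 532) (nat_lit 6090809988) (nat_lit 281) (nat_lit 1) (nat_lit 280) (nat_lit 1) (nat_lit 287) (nat_lit 1) (nat_lit 289) (nat_lit 372) (nat_lit 359)) (XT.lf (nat_lit 456) (nat_lit 10480720547) (nat_lit 0) (nat_lit 1762581383) (nat_lit 380) (nat_lit 1762581383) (nat_lit 281) (nat_lit 1) (nat_lit 275) (nat_lit 1) (nat_lit 280) (nat_lit 1) (nat_lit 290) (nat_lit 372) (nat_lit 358)))) (XT.nd (nat_lit 78) (nat_lit 380) (nat_lit 0) (XT.lf (nat_lit 76) (nat_lit 4344500618) (nat_lit 0) (nat_lit 5015724599) (nat_lit 456) (nat_lit 4344500618) (nat_lit 276) (nat_lit 1) (nat_lit 275) (nat_lit 1) (nat_lit 281) (nat_lit 1) (nat_lit 291) (nat_lit 372) (nat_lit 357)) (XT.nd (nat_lit 78) (nat_lit 0) (nat_lit 0) (XT.lf (nat_lit 456) (nat_lit 6901703110) (nat_lit 0) (nat_lit 3256176878) (nat_lit 380) (nat_lit 3256176878) (nat_lit 276) (nat_lit 1) (nat_lit 270) (nat_lit 1) (nat_lit 275) (nat_lit 1) (nat_lit 292) (nat_lit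 372) (nat_lit 356)) (XT.lf (nat_lit 76) (nat_lit 2543185872) (nat_lit 0) (nat_lit 8045469787) (nat_lit 456) (nat_lit 2543185872) (nat_lit 271) (nat_lit 1) (nat_lit 270) (nat_lit 1) (nat_lit 276) (nat_lit 1) (nat_lit 293) (nat_lit 372) (nat_lit 355))))) (XT.nd (nat_lit 234) (nat_lit 608) (nat_lit 0) (XT.nd (nat_lit 78) (nat_lit 380) (nat_lit 0) (XT.lf (nat_lit 380) (nat_lit 3227719087) (nat_lit 0) (nat_lit 4814583309) (nat_lit 304) (nat_lit 4814583309) (nat_lit 271) (nat_lit 1) (nat_lit 266) (nat_lit 1) (nat_lit 270) (nat_lit 1) (nat_lit 294) (nat_lit 372) (nat_lit 354)) (XT.nd (nat_lit 78) (nat_lit 380) (nat_lit 0) (XT.lf (nat_lit 76) (nat_lit 702330136) (nat_lit 0) (nat_lit 11187843054) (nat_lit 380) (nat_lit 702330136) (nat_lit 267) (nat_lit 1) (nat_lit 266) (nat_lit 1) (nat_lit 271) (nat_lit 1) (nat_lit 295) (nat_lit 372) (nat_lit 353)) (XT.lf (nat_lit 76) (nat_lit 5918035542) (nat_lit 0) (nat_lit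 495646972) (nat_lit 380) (nat_lit 5918035542) (nat_lit 262) (nat_lit 1) (nat_lit 261) (nat_lit 1) (nat_lit 266) (nat_lit 1) (nat_lit 296) (nat_lit 372) (nat_lit 352)))) (XT.nd (nat_lit 78) (nat_lit 304) (nat_lit 0) (XT.lf (nat_lit 380) (nat_lit 9789364070) (nat_lit 0) (nat_lit 1145750029) (nat_lit 304) (nat_lit 1145750029) (nat_lit 262) (nat_lit 1) (nat_lit 257) (nat_lit 1) (nat_lit 261) (nat_lit 1) (nat_lit 297) (nat_lit 372) (nat_lit 351)) (XT.nd (nat_lit 78) (nat_lit 304) (nat_lit 0) (XT.lf (nat_lit 76) (nat_lit 3839818958) (nat_lit 0) (nat_lit 4154675738) (nat_lit 380) (nat_lit 3839818958) (nat_lit 258) (nat_lit 1) (nat_lit 257) (nat_lit 1) (nat_lit 262) (nat_lit 1) (nat_lit 298) (nat_lit 372) (nat_lit 350)) (XT.lf (nat_lit 380) (nat_lit 5603364015) (nat_lit 0) (nat_lit 2996474335) (nat_lit 304) (nat_lit 2996474335) (nat_lit 258) (nat_lit 1) (nat_lit 253) (nat_lit 1) (nat_lit 257) (nat_lit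 1) (nat_lit 299) (nat_lit 372) (nat_lit 349)))))) (XT.nd (nat_lit 468) (nat_lit 1216) (nat_lit 0) (XT.nd (nat_lit 234) (nat_lit 228) (nat_lit 0) (XT.nd (nat_lit 78) (nat_lit 608) (nat_lit 0) (XT.lf (nat_lit 76) (nat_lit 1767050936) (nat_lit 0) (nat_lit 7831169012) (nat_lit 380) (nat_lit 1767050936) (nat_lit 254) (nat_lit 1) (nat_lit 253) (nat_lit 1) (nat_lit 258) (nat_lit 1) (nat_lit 300) (nat_lit 372) (nat_lit 348)) (XT.nd (nat_lit 78) (nat_lit 380) (nat_lit 0) (XT.lf (nat_lit 304) (nat_lit 1437066845) (nat_lit 0) (nat_lit 4851074753) (nat_lit 228) (nat_lit 4851074753) (nat_lit 254) (nat_lit 1) (nat_lit 250) (nat_lit 1) (nat_lit 253) (nat_lit 1) (nat_lit 301) (nat_lit 372) (nat_lit 347)) (XT.lf (nat_lit 380) (nat_lit 10347631656) (nat_lit 0) (nat_lit 287126923) (nat_lit 304) (nat_lit 287126923) (nat_lit 250) (nat_lit 1) (nat_lit 245) (nat_lit 1) (nat_lit 249) (nat_lit 1) (nat_lit 302) (nat_lit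 372) (nat_lit 346)))) (XT.nd (nat_lit 78) (nat_lit 228) (nat_lit 0) (XT.lf (nat_lit 76) (nat_lit 4049104765) (nat_lit 0) (nat_lit 2607548022) (nat_lit 380) (nat_lit 4049104765) (nat_lit 246) (nat_lit 1) (nat_lit 245) (nat_lit 1) (nat_lit 250) (nat_lit 1) (nat_lit 303) (nat_lit 372) (nat_lit 345)) (XT.nd (nat_lit 78) (nat_lit 0) (nat_lit 0) (XT.lf (nat_lit 304) (nat_lit 5913845520) (nat_lit 0) (nat_lit 2292036583) (nat_lit 228) (nat_lit 2292036583) (nat_lit 246) (nat_lit 1) (nat_lit 242) (nat_lit 1) (nat_lit 245) (nat_lit 1) (nat_lit 304) (nat_lit 372) (nat_lit 344)) (XT.lf (nat_lit 76) (nat_lit 1868275277) (nat_lit 0) (nat_lit 6558809769) (nat_lit 304) (nat_lit 1868275277) (nat_lit 243) (nat_lit 1) (nat_lit 242) (nat_lit 1) (nat_lit 246) (nat_lit 1) (nat_lit 305) (nat_lit 372) (nat_lit 343))))) (XT.nd (nat_lit 234) (nat_lit 684) (nat_lit 0) (XT.nd (nat_lit 78) (nat_lit 304) (nat_lit 0) (XT.lf (nat_lit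 304) (nat_lit 1557149048) (nat_lit 0) (nat_lit 4270130530) (nat_lit 228) (nat_lit 4270130530) (nat_lit 243) (nat_lit 1) (nat_lit 239) (nat_lit 1) (nat_lit 242) (nat_lit 1) (nat_lit 306) (nat_lit 372) (nat_lit 342)) (XT.nd (nat_lit 78) (nat_lit 0) (nat_lit 0) (XT.lf (nat_lit 304) (nat_lit 9371589697) (nat_lit 0) (nat_lit 267612149) (nat_lit 228) (nat_lit 267612149) (nat_lit 239) (nat_lit 1) (nat_lit 235) (nat_lit 1) (nat_lit 238) (nat_lit 1) (nat_lit 307) (nat_lit 372) (nat_lit 341)) (XT.lf (nat_lit 76) (nat_lit 3545003997) (nat_lit 0) (nat_lit 2626812366) (nat_lit 304) (nat_lit 3545003997) (nat_lit 236) (nat_lit 1) (nat_lit 235) (nat_lit 1) (nat_lit 239) (nat_lit 1) (nat_lit 308) (nat_lit 372) (nat_lit 340)))) (XT.nd (nat_lit 156) (nat_lit 456) (nat_lit 0) (XT.nd (nat_lit 78) (nat_lit 0) (nat_lit 0) (XT.lf (nat_lit 304) (nat_lit 4874705097) (nat_lit 0) (nat_lit 2329575711) (nat_lit 228) (nat_lit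 2329575711) (nat_lit 236) (nat_lit 1) (nat_lit 232) (nat_lit 1) (nat_lit 235) (nat_lit 1) (nat_lit 309) (nat_lit 372) (nat_lit 339)) (XT.lf (nat_lit 76) (nat_lit 1342489808) (nat_lit 0) (nat_lit 6670820236) (nat_lit 304) (nat_lit 1342489808) (nat_lit 233) (nat_lit 1) (nat_lit 232) (nat_lit 1) (nat_lit 236) (nat_lit 1) (nat_lit 310) (nat_lit 372) (nat_lit 338))) (XT.nd (nat_lit 78) (nat_lit 304) (nat_lit 0) (XT.lf (nat_lit 228) (nat_lit 491932902) (nat_lit 0) (nat_lit 4344582827) (nat_lit 152) (nat_lit 4344582827) (nat_lit 233) (nat_lit 1) (nat_lit 230) (nat_lit 1) (nat_lit 232) (nat_lit 1) (nat_lit 311) (nat_lit 372) (nat_lit 337)) (XT.lf (nat_lit 304) (nat_lit 7432941206) (nat_lit 0) (nat_lit 789432232) (nat_lit 228) (nat_lit 789432232) (nat_lit 230) (nat_lit 1) (nat_lit 226) (nat_lit 1) (nat_lit 229) (nat_lit 1) (nat_lit 312) (nat_lit 372) (nat_lit 336))))))) (XT.nd (nat_lit 936) (nat_lit 1368)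 (nat_lit 0) (XT.nd (nat_lit 468) (nat_lit 684) (nat_lit 0) (XT.nd (nat_lit 234) (nat_lit 380) (nat_lit 0) (XT.nd (nat_lit 78) (nat_lit 152) (nat_lit 0) (XT.lf (nat_lit 76) (nat_lit 2596149926) (nat_lit 0) (nat_lit 3652106310) (nat_lit 304) (nat_lit 2596149926) (nat_lit 227) (nat_lit 1) (nat_lit 226) (nat_lit 1) (nat_lit 230) (nat_lit 1) (nat_lit 313) (nat_lit 372) (nat_lit 335)) (XT.nd (nat_lit 78) (nat_lit 0) (nat_lit 0) (XT.lf (nat_lit 228) (nat_lit 2999450766) (nat_lit 0) (nat_lit 2841361148) (nat_lit 152) (nat_lit 2841361148) (nat_lit 227) (nat_lit 1) (nat_lit 224) (nat_lit 1) (nat_lit 226) (nat_lit 1) (nat_lit 314) (nat_lit 372) (nat_lit 334)) (XT.lf (nat_lit 76) (nat_lit 430925870) (nat_lit 0) (nat_lit 7663472117) (nat_lit 228) (nat_lit 430925870) (nat_lit 225) (nat_lit 1) (nat_lit 224) (nat_lit 1) (nat_lit 227) (nat_lit 1) (nat_lit 315) (nat_lit 372) (nat_lit 333)))) (XT.nd (nat_lit 78)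 (nat_lit 152) (nat_lit 0) (XT.lf (nat_lit 76) (nat_lit 3556506816) (nat_lit 0) (nat_lit 1256031179) (nat_lit 228) (nat_lit 3556506816) (nat_lit 222) (nat_lit 1) (nat_lit 221) (nat_lit 1) (nat_lit 224) (nat_lit 1) (nat_lit 316) (nat_lit 372) (nat_lit 332)) (XT.nd (nat_lit 78) (nat_lit 0) (nat_lit 0) (XT.lf (nat_lit 228) (nat_lit 4938833045) (nat_lit 0) (nat_lit 1639558758) (nat_lit 152) (nat_lit 1639558758) (nat_lit 222) (nat_lit 1) (nat_lit 219) (nat_lit 1) (nat_lit 221) (nat_lit 1) (nat_lit 317) (nat_lit 372) (nat_lit 331)) (XT.lf (nat_lit 76) (nat_lit 1393610195) (nat_lit 0) (nat_lit 5282975434) (nat_lit 228) (nat_lit 1393610195) (nat_lit 220) (nat_lit 1) (nat_lit 219) (nat_lit 1) (nat_lit 222) (nat_lit 1) (nat_lit 318) (nat_lit 372) (nat_lit 330))))) (XT.nd (nat_lit 234) (nat_lit 304) (nat_lit 0) (XT.nd (nat_lit 78) (nat_lit 228) (nat_lit 0) (XT.lf (nat_lit 228) (nat_lit 652856202) (nat_lit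 0) (nat_lit 3636281621) (nat_lit 152) (nat_lit 3636281621) (nat_lit 220) (nat_lit 1) (nat_lit 217) (nat_lit 1) (nat_lit 219) (nat_lit 1) (nat_lit 319) (nat_lit 372) (nat_lit 329)) (XT.nd (nat_lit 78) (nat_lit 0) (nat_lit 0) (XT.lf (nat_lit 228) (nat_lit 6416692527) (nat_lit 0) (nat_lit 684072771) (nat_lit 152) (nat_lit 684072771) (nat_lit 217) (nat_lit 1) (nat_lit 214) (nat_lit 1) (nat_lit 216) (nat_lit 1) (nat_lit 320) (nat_lit 372) (nat_lit 328)) (XT.lf (nat_lit 76) (nat_lit 2136132667) (nat_lit 0) (nat_lit 3373191209) (nat_lit 228) (nat_lit 2136132667) (nat_lit 215) (nat_lit 1) (nat_lit 214) (nat_lit 1) (nat_lit 217) (nat_lit 1) (nat_lit 321) (nat_lit 372) (nat_lit 327)))) (XT.nd (nat_lit 78) (nat_lit 152) (nat_lit 0) (XT.lf (nat_lit 228) (nat_lit 2175547410) (nat_lit 0) (nat_lit 2667287022) (nat_lit 152) (nat_lit 2667287022) (nat_lit 215) (nat_lit 1) (nat_lit 212) (nat_lit 1) (nat_lit 214)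 (nat_lit 1) (nat_lit 322) (nat_lit 372) (nat_lit 326)) (XT.nd (nat_lit 78) (nat_lit 152) (nat_lit 0) (XT.lf (nat_lit 76) (nat_lit 71504243) (nat_lit 0) (nat_lit 7236524088) (nat_lit 228) (nat_lit 71504243) (nat_lit 213) (nat_lit 1) (nat_lit 212) (nat_lit 1) (nat_lit 215) (nat_lit 1) (nat_lit 323) (nat_lit 372) (nat_lit 325)) (XT.lf (nat_lit 76) (nat_lit 2699883641) (nat_lit 0) (nat_lit 1848346323) (nat_lit 152) (nat_lit 2699883641) (nat_lit 211) (nat_lit 1) (nat_lit 210) (nat_lit 1) (nat_lit 212) (nat_lit 1) (nat_lit 324) (nat_lit 372) (nat_lit 324)))))) (XT.nd (nat_lit 468) (nat_lit 836) (nat_lit 0) (XT.nd (nat_lit 234) (nat_lit 228) (nat_lit 0) (XT.nd (nat_lit 78) (nat_lit 152) (nat_lit 0) (XT.lf (nat_lit 228) (nat_lit 3350248236) (nat_lit 0) (nat_lit 1885535189) (nat_lit 152) (nat_lit 1885535189) (nat_lit 211) (nat_lit 1) (nat_lit 208) (nat_lit 1) (nat_lit 210) (nat_lit 1) (nat_lit 325) (nat_lit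 372) (nat_lit 323)) (XT.nd (nat_lit 78) (nat_lit 152) (nat_lit 0) (XT.lf (nat_lit 76) (nat_lit 671701617) (nat_lit 0) (nat_lit 5654542911) (nat_lit 228) (nat_lit 671701617) (nat_lit 209) (nat_lit 1) (nat_lit 208) (nat_lit 1) (nat_lit 211) (nat_lit 1) (nat_lit 326) (nat_lit 372) (nat_lit 322)) (XT.lf (nat_lit 76) (nat_lit 3118802867) (nat_lit 0) (nat_lit 637985348) (nat_lit 152) (nat_lit 3118802867) (nat_lit 207) (nat_lit 1) (nat_lit 206) (nat_lit 1) (nat_lit 208) (nat_lit 1) (nat_lit 327) (nat_lit 372) (nat_lit 321)))) (XT.nd (nat_lit 78) (nat_lit 76) (nat_lit 0) (XT.lf (nat_lit 228) (nat_lit 4242371799) (nat_lit 0) (nat_lit 1257093091) (nat_lit 152) (nat_lit 1257093091) (nat_lit 207) (nat_lit 1) (nat_lit 204) (nat_lit 1) (nat_lit 206) (nat_lit 1) (nat_lit 328) (nat_lit 372) (nat_lit 320)) (XT.nd (nat_lit 78) (nat_lit 76) (nat_lit 0) (XT.lf (nat_lit 76) (nat_lit 1136300962) (nat_lit 0) (nat_lit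 4367279432) (nat_lit 228) (nat_lit 1136300962) (nat_lit 205) (nat_lit 1) (nat_lit 204) (nat_lit 1) (nat_lit 207) (nat_lit 1) (nat_lit 329) (nat_lit 372) (nat_lit 319)) (XT.lf (nat_lit 152) (nat_lit 326190626) (nat_lit 0) (nat_lit 3099607925) (nat_lit 76) (nat_lit 3099607925) (nat_lit 205) (nat_lit 1) (nat_lit 203) (nat_lit 1) (nat_lit 204) (nat_lit 1) (nat_lit 330) (nat_lit 372) (nat_lit 318))))) (XT.nd (nat_lit 234) (nat_lit 532) (nat_lit 0) (XT.nd (nat_lit 78) (nat_lit 76) (nat_lit 0) (XT.lf (nat_lit 228) (nat_lit 4905556715) (nat_lit 0) (nat_lit 754078953) (nat_lit 152) (nat_lit 754078953) (nat_lit 203) (nat_lit 1) (nat_lit 200) (nat_lit 1) (nat_lit 202) (nat_lit 1) (nat_lit 331) (nat_lit 372) (nat_lit 317)) (XT.nd (nat_lit 78) (nat_lit 76) (nat_lit 0) (XT.lf (nat_lit 76) (nat_lit 1490733214) (nat_lit 0) (nat_lit 3321803011) (nat_lit 228) (nat_lit 1490733214) (nat_lit 201) (nat_lit 1) (nat_lit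 200) (nat_lit 1) (nat_lit 203) (nat_lit 1) (nat_lit 332) (nat_lit 372) (nat_lit 316)) (XT.lf (nat_lit 152) (nat_lit 1095422021) (nat_lit 0) (nat_lit 2550055111) (nat_lit 76) (nat_lit 2550055111) (nat_lit 201) (nat_lit 1) (nat_lit 199) (nat_lit 1) (nat_lit 200) (nat_lit 1) (nat_lit 333) (nat_lit 372) (nat_lit 315)))) (XT.nd (nat_lit 156) (nat_lit 304) (nat_lit 0) (XT.nd (nat_lit 78) (nat_lit 0) (nat_lit 0) (XT.lf (nat_lit 228) (nat_lit 5383763113) (nat_lit 0) (nat_lit 353587722) (nat_lit 152) (nat_lit 353587722) (nat_lit 199) (nat_lit 1) (nat_lit 196) (nat_lit 1) (nat_lit 198) (nat_lit 1) (nat_lit 334) (nat_lit 372) (nat_lit 314)) (XT.lf (nat_lit 76) (nat_lit 1755854285) (nat_lit 0) (nat_lit 2474599762) (nat_lit 228) (nat_lit 1755854285) (nat_lit 197) (nat_lit 1) (nat_lit 196) (nat_lit 1) (nat_lit 199) (nat_lit 1) (nat_lit 335) (nat_lit 372) (nat_lit 313))) (XT.nd (nat_lit 78) (nat_lit 228) (nat_lit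 0) (XT.lf (nat_lit 152) (nat_lit 1688886584) (nat_lit 0) (nat_lit 2097936651) (nat_lit 76) (nat_lit 2097936651) (nat_lit 197) (nat_lit 1) (nat_lit 195) (nat_lit 1) (nat_lit 196) (nat_lit 1) (nat_lit 336) (nat_lit 372) (nat_lit 312)) (XT.lf (nat_lit 228) (nat_lit 5712996631) (nat_lit 0) (nat_lit 36807115) (nat_lit 152) (nat_lit 36807115) (nat_lit 195) (nat_lit 1) (nat_lit 192) (nat_lit 1) (nat_lit 194) (nat_lit 1) (nat_lit 337) (nat_lit 372) (nat_lit 311))))))))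
noncomputable def ec146 : XT := (XT.nd (nat_lit 1950) (nat_lit 1976) (nat_lit 0) (XT.nd (nat_lit 936) (nat_lit 988) (nat_lit 0) (XT.nd (nat_lit 468) (nat_lit 456) (nat_lit 0) (XT.nd (nat_lit 234) (nat_lit 228) (nat_lit 0) (XT.nd (nat_lit 78) (nat_lit 76) (nat_lit 0) (XT.lf (nat_lit 76) (nat_lit 1948759362) (nat_lit 0) (nat_lit 1789901448) (nat_lit 228) (nat_lit 1948759362) (nat_lit 193) (nat_lit 1) (nat_lit 192) (nat_lit 1) (nat_lit 195) (nat_lit 1) (nat_lit 338) (nat_lit 372) (nat_lit 310)) (XT.nd (nat_lit 78) (nat_lit 0) (nat_lit 0) (XT.lf (nat_lit 152) (nat_lit 2139622769) (nat_lit 0) (nat_lit 1725977674) (nat_lit 76) (nat_lit 1725977674) (nat_lit 193) (nat_lit 1) (nat_lit 191) (nat_lit 1) (nat_lit 192) (nat_lit 1) (nat_lit 339) (nat_lit 372) (nat_lit 309)) (XT.lf (nat_lit 0) (nat_lit 215180181) (nat_lit 0) (nat_lit 5068269334) (nat_lit 152) (nat_lit 215180181) (nat_lit 191) (nat_lit 3) (nat_lit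 191) (nat_lit 1) (nat_lit 193) (nat_lit 1) (nat_lit 340) (nat_lit 372) (nat_lit 308)))) (XT.nd (nat_lit 78) (nat_lit 76) (nat_lit 0) (XT.lf (nat_lit 76) (nat_lit 2083452670) (nat_lit 0) (nat_lit 1238310731) (nat_lit 152) (nat_lit 2083452670) (nat_lit 190) (nat_lit 1) (nat_lit 189) (nat_lit 1) (nat_lit 191) (nat_lit 1) (nat_lit 341) (nat_lit 372) (nat_lit 307)) (XT.nd (nat_lit 78) (nat_lit 0) (nat_lit 0) (XT.lf (nat_lit 152) (nat_lit 2474722087) (nat_lit 0) (nat_lit 1419966104) (nat_lit 76) (nat_lit 1419966104) (nat_lit 190) (nat_lit 1) (nat_lit 188) (nat_lit 1) (nat_lit 189) (nat_lit 1) (nat_lit 342) (nat_lit 372) (nat_lit 306)) (XT.lf (nat_lit 0) (nat_lit 411274887) (nat_lit 0) (nat_lit 4403923344) (nat_lit 152) (nat_lit 411274887) (nat_lit 188) (nat_lit 3) (nat_lit 188) (nat_lit 1) (nat_lit 190) (nat_lit 1) (nat_lit 343) (nat_lit 372) (nat_lit 305))))) (XT.nd (nat_lit 234) (nat_lit 228) (nat_lit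 0) (XT.nd (nat_lit 78) (nat_lit 76) (nat_lit 0) (XT.lf (nat_lit 76) (nat_lit 2171398354) (nat_lit 0) (nat_lit 795670237) (nat_lit 152) (nat_lit 2171398354) (nat_lit 187) (nat_lit 1) (nat_lit 186) (nat_lit 1) (nat_lit 188) (nat_lit 1) (nat_lit 344) (nat_lit 372) (nat_lit 304)) (XT.nd (nat_lit 78) (nat_lit 0) (nat_lit 0) (XT.lf (nat_lit 152) (nat_lit 2716387738) (nat_lit 0) (nat_lit 1168209628) (nat_lit 76) (nat_lit 1168209628) (nat_lit 187) (nat_lit 1) (nat_lit 185) (nat_lit 1) (nat_lit 186) (nat_lit 1) (nat_lit 345) (nat_lit 372) (nat_lit 303)) (XT.lf (nat_lit 0) (nat_lit 561447933) (nat_lit 0) (nat_lit 3846209700) (nat_lit 152) (nat_lit 561447933) (nat_lit 185) (nat_lit 3) (nat_lit 185) (nat_lit 1) (nat_lit 187) (nat_lit 1) (nat_lit 346) (nat_lit 372) (nat_lit 302)))) (XT.nd (nat_lit 78) (nat_lit 76) (nat_lit 0) (XT.lf (nat_lit 76) (nat_lit 2221973548) (nat_lit 0) (nat_lit 442132190) (nat_lit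 152) (nat_lit 2221973548) (nat_lit 184) (nat_lit 1) (nat_lit 183) (nat_lit 1) (nat_lit 185) (nat_lit 1) (nat_lit 347) (nat_lit 372) (nat_lit 301)) (XT.nd (nat_lit 78) (nat_lit 0) (nat_lit 0) (XT.lf (nat_lit 152) (nat_lit 2882805345) (nat_lit 0) (nat_lit 961088952) (nat_lit 76) (nat_lit 961088952) (nat_lit 184) (nat_lit 1) (nat_lit 182) (nat_lit 1) (nat_lit 183) (nat_lit 1) (nat_lit 348) (nat_lit 372) (nat_lit 300)) (XT.lf (nat_lit 0) (nat_lit 674372286) (nat_lit 0) (nat_lit 3376753921) (nat_lit 152) (nat_lit 674372286) (nat_lit 182) (nat_lit 3) (nat_lit 182) (nat_lit 1) (nat_lit 184) (nat_lit 1) (nat_lit 349) (nat_lit 372) (nat_lit 299)))))) (XT.nd (nat_lit 468) (nat_lit 532) (nat_lit 0) (XT.nd (nat_lit 234) (nat_lit 228) (nat_lit 0) (XT.nd (nat_lit 78) (nat_lit 76) (nat_lit 0) (XT.lf (nat_lit 76) (nat_lit 2242840992) (nat_lit 0) (nat_lit 161393074) (nat_lit 152) (nat_lit 2242840992) (nat_lit 181)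 (nat_lit 1) (nat_lit 180) (nat_lit 1) (nat_lit 182) (nat_lit 1) (nat_lit 350) (nat_lit 372) (nat_lit 298)) (XT.nd (nat_lit 78) (nat_lit 0) (nat_lit 0) (XT.lf (nat_lit 152) (nat_lit 2988859121) (nat_lit 0) (nat_lit 790690259) (nat_lit 76) (nat_lit 790690259) (nat_lit 181) (nat_lit 1) (nat_lit 179) (nat_lit 1) (nat_lit 180) (nat_lit 1) (nat_lit 351) (nat_lit 372) (nat_lit 297)) (XT.lf (nat_lit 0) (nat_lit 757157922) (nat_lit 0) (nat_lit 2980413981) (nat_lit 152) (nat_lit 757157922) (nat_lit 179) (nat_lit 3) (nat_lit 179) (nat_lit 1) (nat_lit 181) (nat_lit 1) (nat_lit 352) (nat_lit 372) (nat_lit 296)))) (XT.nd (nat_lit 78) (nat_lit 152) (nat_lit 0) (XT.lf (nat_lit 76) (nat_lit 61917723) (nat_lit 0) (nat_lit 2179304445) (nat_lit 76) (nat_lit 2179304445) (nat_lit 179) (nat_lit 3) (nat_lit 178) (nat_lit 1) (nat_lit 179) (nat_lit 1) (nat_lit 353) (nat_lit 372) (nat_lit 295)) (XT.nd (nat_lit 78) (nat_lit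 0) (nat_lit 0) (XT.lf (nat_lit 152) (nat_lit 3046720871) (nat_lit 0) (nat_lit 650502833) (nat_lit 76) (nat_lit 650502833) (nat_lit 178) (nat_lit 1) (nat_lit 176) (nat_lit 1) (nat_lit 177) (nat_lit 1) (nat_lit 354) (nat_lit 372) (nat_lit 294)) (XT.lf (nat_lit 0) (nat_lit 815630147) (nat_lit 0) (nat_lit 2644708409) (nat_lit 152) (nat_lit 815630147) (nat_lit 176) (nat_lit 3) (nat_lit 176) (nat_lit 1) (nat_lit 178) (nat_lit 1) (nat_lit 355) (nat_lit 372) (nat_lit 293))))) (XT.nd (nat_lit 234) (nat_lit 304) (nat_lit 0) (XT.nd (nat_lit 78) (nat_lit 152) (nat_lit 0) (XT.lf (nat_lit 76) (nat_lit 240546017) (nat_lit 0) (nat_lit 1982525314) (nat_lit 76) (nat_lit 1982525314) (nat_lit 176) (nat_lit 3) (nat_lit 175) (nat_lit 1) (nat_lit 176) (nat_lit 1) (nat_lit 356) (nat_lit 372) (nat_lit 292)) (XT.nd (nat_lit 78) (nat_lit 0) (nat_lit 0) (XT.lf (nat_lit 152) (nat_lit 3066334396) (nat_lit 0) (nat_lit 535170290)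 (nat_lit 76) (nat_lit 535170290) (nat_lit 175) (nat_lit 1) (nat_lit 173) (nat_lit 1) (nat_lit 174) (nat_lit 1) (nat_lit 357) (nat_lit 372) (nat_lit 291)) (XT.lf (nat_lit 0) (nat_lit 854558513) (nat_lit 0) (nat_lit 2359345725) (nat_lit 152) (nat_lit 854558513) (nat_lit 173) (nat_lit 3) (nat_lit 173) (nat_lit 1) (nat_lit 175) (nat_lit 1) (nat_lit 358) (nat_lit 372) (nat_lit 290)))) (XT.nd (nat_lit 156) (nat_lit 76) (nat_lit 0) (XT.nd (nat_lit 78) (nat_lit 152) (nat_lit 0) (XT.lf (nat_lit 76) (nat_lit 378475092) (nat_lit 0) (nat_lit 1811605771) (nat_lit 76) (nat_lit 1811605771) (nat_lit 173) (nat_lit 3) (nat_lit 172) (nat_lit 1) (nat_lit 173) (nat_lit 1) (nat_lit 359) (nat_lit 372) (nat_lit 289)) (XT.lf (nat_lit 152) (nat_lit 3055813844) (nat_lit 0) (nat_lit 440285922) (nat_lit 76) (nat_lit 440285922) (nat_lit 172) (nat_lit 1) (nat_lit 170) (nat_lit 1) (nat_lit 171) (nat_lit 1) (nat_lit 360) (nat_lit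 372) (nat_lit 288))) (XT.nd (nat_lit 78) (nat_lit 76) (nat_lit 0) (XT.lf (nat_lit 0) (nat_lit 877845091) (nat_lit 0) (nat_lit 2115837255) (nat_lit 152) (nat_lit 877845091) (nat_lit 170) (nat_lit 3) (nat_lit 170) (nat_lit 1) (nat_lit 172) (nat_lit 1) (nat_lit 361) (nat_lit 372) (nat_lit 287)) (XT.lf (nat_lit 76) (nat_lit 483350765) (nat_lit 0) (nat_lit 1662390921) (nat_lit 76) (nat_lit 1662390921) (nat_lit 170) (nat_lit 3) (nat_lit 169) (nat_lit 1) (nat_lit 170) (nat_lit 1) (nat_lit 362) (nat_lit 372) (nat_lit 286))))))) (XT.nd (nat_lit 936) (nat_lit 1064) (nat_lit 0) (XT.nd (nat_lit 468) (nat_lit 456) (nat_lit 0) (XT.nd (nat_lit 234) (nat_lit 228) (nat_lit 0) (XT.nd (nat_lit 78) (nat_lit 76) (nat_lit 0) (XT.lf (nat_lit 152) (nat_lit 3021771277) (nat_lit 0) (nat_lit 362224318) (nat_lit 76) (nat_lit 362224318) (nat_lit 169) (nat_lit 1) (nat_lit 167) (nat_lit 1) (nat_lit 168) (nat_lit 1) (nat_lit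 363) (nat_lit 372) (nat_lit 285)) (XT.nd (nat_lit 78) (nat_lit 76) (nat_lit 0) (XT.lf (nat_lit 0) (nat_lit 888679318) (nat_lit 0) (nat_lit 1907178534) (nat_lit 152) (nat_lit 888679318) (nat_lit 167) (nat_lit 3) (nat_lit 167) (nat_lit 1) (nat_lit 169) (nat_lit 1) (nat_lit 364) (nat_lit 372) (nat_lit 284)) (XT.lf (nat_lit 76) (nat_lit 561442795) (nat_lit 0) (nat_lit 1531442049) (nat_lit 76) (nat_lit 1531442049) (nat_lit 167) (nat_lit 3) (nat_lit 166) (nat_lit 1) (nat_lit 167) (nat_lit 1) (nat_lit 365) (nat_lit 372) (nat_lit 283)))) (XT.nd (nat_lit 78) (nat_lit 76) (nat_lit 0) (XT.lf (nat_lit 152) (nat_lit 2969586008) (nat_lit 0) (nat_lit 298002843) (nat_lit 76) (nat_lit 298002843) (nat_lit 166) (nat_lit 1) (nat_lit 164) (nat_lit 1) (nat_lit 165) (nat_lit 1) (nat_lit 366) (nat_lit 372) (nat_lit 282)) (XT.nd (nat_lit 78) (nat_lit 76) (nat_lit 0) (XT.lf (nat_lit 0) (nat_lit 889665330) (nat_lit 0) (nat_lit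 1727587156) (nat_lit 152) (nat_lit 889665330) (nat_lit 164) (nat_lit 3) (nat_lit 164) (nat_lit 1) (nat_lit 166) (nat_lit 1) (nat_lit 367) (nat_lit 372) (nat_lit 281)) (XT.lf (nat_lit 76) (nat_lit 617889828) (nat_lit 0) (nat_lit 1415910615) (nat_lit 76) (nat_lit 1415910615) (nat_lit 164) (nat_lit 3) (nat_lit 163) (nat_lit 1) (nat_lit 164) (nat_lit 1) (nat_lit 368) (nat_lit 372) (nat_lit 280))))) (XT.nd (nat_lit 234) (nat_lit 228) (nat_lit 0) (XT.nd (nat_lit 78) (nat_lit 76) (nat_lit 0) (XT.lf (nat_lit 152) (nat_lit 2903626043) (nat_lit 0) (nat_lit 245167676) (nat_lit 76) (nat_lit 245167676) (nat_lit 163) (nat_lit 1) (nat_lit 161) (nat_lit 1) (nat_lit 162) (nat_lit 1) (nat_lit 369) (nat_lit 372) (nat_lit 279)) (XT.nd (nat_lit 78) (nat_lit 76) (nat_lit 0) (XT.lf (nat_lit 0) (nat_lit 882926683) (nat_lit 0) (nat_lit 1572287043) (nat_lit 152) (nat_lit 882926683) (nat_lit 161) (nat_lit 3) (nat_lit 161)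 (nat_lit 1) (nat_lit 163) (nat_lit 1) (nat_lit 370) (nat_lit 372) (nat_lit 278)) (XT.lf (nat_lit 76) (nat_lit 656900873) (nat_lit 0) (nat_lit 1313434550) (nat_lit 76) (nat_lit 1313434550) (nat_lit 161) (nat_lit 3) (nat_lit 160) (nat_lit 1) (nat_lit 161) (nat_lit 1) (nat_lit 371) (nat_lit 372) (nat_lit 277)))) (XT.nd (nat_lit 78) (nat_lit 76) (nat_lit 0) (XT.lf (nat_lit 152) (nat_lit 2827430128) (nat_lit 0) (nat_lit 201700054) (nat_lit 76) (nat_lit 201700054) (nat_lit 160) (nat_lit 1) (nat_lit 158) (nat_lit 1) (nat_lit 159) (nat_lit 1) (nat_lit 372) (nat_lit 372) (nat_lit 276)) (XT.nd (nat_lit 78) (nat_lit 76) (nat_lit 0) (XT.lf (nat_lit 0) (nat_lit 870192458) (nat_lit 0) (nat_lit 1437330932) (nat_lit 152) (nat_lit 870192458) (nat_lit 158) (nat_lit 3) (nat_lit 158) (nat_lit 1) (nat_lit 160) (nat_lit 1) (nat_lit 373) (nat_lit 372) (nat_lit 275)) (XT.lf (nat_lit 76) (nat_lit 681921005) (nat_lit 0)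 (nat_lit 1222052885) (nat_lit 76) (nat_lit 1222052885) (nat_lit 158) (nat_lit 3) (nat_lit 157) (nat_lit 1) (nat_lit 158) (nat_lit 1) (nat_lit 374) (nat_lit 372) (nat_lit 274)))))) (XT.nd (nat_lit 468) (nat_lit 608) (nat_lit 0) (XT.nd (nat_lit 234) (nat_lit 228) (nat_lit 0) (XT.nd (nat_lit 78) (nat_lit 76) (nat_lit 0) (XT.lf (nat_lit 152) (nat_lit 2743857378) (nat_lit 0) (nat_lit 165939133) (nat_lit 76) (nat_lit 165939133) (nat_lit 157) (nat_lit 1) (nat_lit 155) (nat_lit 1) (nat_lit 156) (nat_lit 1) (nat_lit 375) (nat_lit 372) (nat_lit 273)) (XT.nd (nat_lit 78) (nat_lit 76) (nat_lit 0) (XT.lf (nat_lit 0) (nat_lit 852868051) (nat_lit 0) (nat_lit 1319454277) (nat_lit 152) (nat_lit 852868051) (nat_lit 155) (nat_lit 3) (nat_lit 155) (nat_lit 1) (nat_lit 157) (nat_lit 1) (nat_lit 376) (nat_lit 372) (nat_lit 272)) (XT.lf (nat_lit 76) (nat_lit 695767652) (nat_lit 0) (nat_lit 1140135486) (nat_lit 76) (nat_lit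 1140135486) (nat_lit 155) (nat_lit 3) (nat_lit 154) (nat_lit 1) (nat_lit 155) (nat_lit 1) (nat_lit 377) (nat_lit 372) (nat_lit 271)))) (XT.nd (nat_lit 78) (nat_lit 76) (nat_lit 0) (XT.lf (nat_lit 152) (nat_lit 2655210270) (nat_lit 0) (nat_lit 136518535) (nat_lit 76) (nat_lit 136518535) (nat_lit 154) (nat_lit 1) (nat_lit 152) (nat_lit 1) (nat_lit 153) (nat_lit 1) (nat_lit 378) (nat_lit 372) (nat_lit 270)) (XT.nd (nat_lit 78) (nat_lit 76) (nat_lit 0) (XT.lf (nat_lit 0) (nat_lit 832093382) (nat_lit 0) (nat_lit 1215955025) (nat_lit 152) (nat_lit 832093382) (nat_lit 152) (nat_lit 3) (nat_lit 152) (nat_lit 1) (nat_lit 154) (nat_lit 1) (nat_lit 379) (nat_lit 372) (nat_lit 269)) (XT.lf (nat_lit 76) (nat_lit 700742677) (nat_lit 0) (nat_lit 1066325194) (nat_lit 76) (nat_lit 1066325194) (nat_lit 152) (nat_lit 3) (nat_lit 151) (nat_lit 1) (nat_lit 152) (nat_lit 1) (nat_lit 380) (nat_lit 372) (nat_lit 268)))))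 (XT.nd (nat_lit 234) (nat_lit 380) (nat_lit 0) (XT.nd (nat_lit 78) (nat_lit 76) (nat_lit 0) (XT.lf (nat_lit 152) (nat_lit 2563335693) (nat_lit 0) (nat_lit 112314137) (nat_lit 76) (nat_lit 112314137) (nat_lit 151) (nat_lit 1) (nat_lit 149) (nat_lit 1) (nat_lit 150) (nat_lit 1) (nat_lit 381) (nat_lit 372) (nat_lit 267)) (XT.nd (nat_lit 78) (nat_lit 76) (nat_lit 0) (XT.lf (nat_lit 0) (nat_lit 808790738) (nat_lit 0) (nat_lit 1124594662) (nat_lit 152) (nat_lit 808790738) (nat_lit 149) (nat_lit 3) (nat_lit 149) (nat_lit 1) (nat_lit 151) (nat_lit 1) (nat_lit 382) (nat_lit 372) (nat_lit 266)) (XT.lf (nat_lit 76) (nat_lit 698724551) (nat_lit 0) (nat_lit 999490193) (nat_lit 76) (nat_lit 999490193) (nat_lit 149) (nat_lit 3) (nat_lit 148) (nat_lit 1) (nat_lit 149) (nat_lit 1) (nat_lit 383) (nat_lit 372) (nat_lit 265)))) (XT.nd (nat_lit 156) (nat_lit 228) (nat_lit 0) (XT.nd (nat_lit 78) (nat_lit 0) (nat_lit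 0) (XT.lf (nat_lit 152) (nat_lit 2469707983) (nat_lit 0) (nat_lit 92401118) (nat_lit 76) (nat_lit 92401118) (nat_lit 148) (nat_lit 1) (nat_lit 146) (nat_lit 1) (nat_lit 147) (nat_lit 1) (nat_lit 384) (nat_lit 372) (nat_lit 264)) (XT.lf (nat_lit 0) (nat_lit 783704097) (nat_lit 0) (nat_lit 1043516767) (nat_lit 152) (nat_lit 783704097) (nat_lit 146) (nat_lit 3) (nat_lit 146) (nat_lit 1) (nat_lit 148) (nat_lit 1) (nat_lit 385) (nat_lit 372) (nat_lit 263))) (XT.nd (nat_lit 78) (nat_lit 152) (nat_lit 0) (XT.lf (nat_lit 76) (nat_lit 691244148) (nat_lit 0) (nat_lit 938684786) (nat_lit 76) (nat_lit 938684786) (nat_lit 146) (nat_lit 3) (nat_lit 145) (nat_lit 1) (nat_lit 146) (nat_lit 1) (nat_lit 386) (nat_lit 372) (nat_lit 262)) (XT.lf (nat_lit 152) (nat_lit 2375497121) (nat_lit 0) (nat_lit 76018629) (nat_lit 76) (nat_lit 76018629) (nat_lit 145) (nat_lit 1) (nat_lit 143) (nat_lit 1) (nat_lit 144) (nat_lit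 1) (nat_lit 387) (nat_lit 372) (nat_lit 261))))))))
noncomputable def ec147 : XT := (XT.nd (nat_lit 1950) (nat_lit 2052) (nat_lit 0) (XT.nd (nat_lit 936) (nat_lit 912) (nat_lit 0) (XT.nd (nat_lit 468) (nat_lit 456) (nat_lit 0) (XT.nd (nat_lit 234) (nat_lit 228) (nat_lit 0) (XT.nd (nat_lit 78) (nat_lit 228) (nat_lit 0) (XT.lf (nat_lit 0) (nat_lit 757431448) (nat_lit 0) (nat_lit 971179975) (nat_lit 152) (nat_lit 757431448) (nat_lit 143) (nat_lit 3) (nat_lit 143) (nat_lit 1) (nat_lit 145) (nat_lit 1) (nat_lit 388) (nat_lit 372) (nat_lit 260)) (XT.nd (nat_lit 78) (nat_lit 152) (nat_lit 0) (XT.lf (nat_lit 76) (nat_lit 679547062) (nat_lit 0) (nat_lit 883117087) (nat_lit 76) (nat_lit 883117087) (nat_lit 143) (nat_lit 3) (nat_lit 142) (nat_lit 1) (nat_lit 143) (nat_lit 1) (nat_lit 389) (nat_lit 372) (nat_lit 259)) (XT.lf (nat_lit 152) (nat_lit 2281624743) (nat_lit 0) (nat_lit 62540714) (nat_lit 76) (nat_lit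 62540714) (nat_lit 142) (nat_lit 1) (nat_lit 140) (nat_lit 1) (nat_lit 141) (nat_lit 1) (nat_lit 390) (nat_lit 372) (nat_lit 258)))) (XT.nd (nat_lit 78) (nat_lit 228) (nat_lit 0) (XT.lf (nat_lit 0) (nat_lit 730451344) (nat_lit 0) (nat_lit 906302786) (nat_lit 152) (nat_lit 730451344) (nat_lit 140) (nat_lit 3) (nat_lit 140) (nat_lit 1) (nat_lit 142) (nat_lit 1) (nat_lit 391) (nat_lit 372) (nat_lit 257)) (XT.nd (nat_lit 78) (nat_lit 152) (nat_lit 0) (XT.lf (nat_lit 76) (nat_lit 664644851) (nat_lit 0) (nat_lit 832122414) (nat_lit 76) (nat_lit 832122414) (nat_lit 140) (nat_lit 3) (nat_lit 139) (nat_lit 1) (nat_lit 140) (nat_lit 1) (nat_lit 392) (nat_lit 372) (nat_lit 256)) (XT.lf (nat_lit 152) (nat_lit 2188810116) (nat_lit 0) (nat_lit 51452400) (nat_lit 76) (nat_lit 51452400) (nat_lit 139) (nat_lit 1) (nat_lit 137) (nat_lit 1) (nat_lit 138) (nat_lit 1) (nat_lit 393) (nat_lit 372) (nat_lit 255))))) (XT.nd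 (nat_lit 234) (nat_lit 228) (nat_lit 0) (XT.nd (nat_lit 78) (nat_lit 228) (nat_lit 0) (XT.lf (nat_lit 0) (nat_lit 703144717) (nat_lit 0) (nat_lit 847818133) (nat_lit 152) (nat_lit 703144717) (nat_lit 137) (nat_lit 3) (nat_lit 137) (nat_lit 1) (nat_lit 139) (nat_lit 1) (nat_lit 394) (nat_lit 372) (nat_lit 254)) (XT.nd (nat_lit 78) (nat_lit 152) (nat_lit 0) (XT.lf (nat_lit 76) (nat_lit 647357155) (nat_lit 0) (nat_lit 785141361) (nat_lit 76) (nat_lit 785141361) (nat_lit 137) (nat_lit 3) (nat_lit 136) (nat_lit 1) (nat_lit 137) (nat_lit 1) (nat_lit 395) (nat_lit 372) (nat_lit 253)) (XT.lf (nat_lit 152) (nat_lit 2097607874) (nat_lit 0) (nat_lit 42330017) (nat_lit 76) (nat_lit 42330017) (nat_lit 136) (nat_lit 1) (nat_lit 134) (nat_lit 1) (nat_lit 135) (nat_lit 1) (nat_lit 396) (nat_lit 372) (nat_lit 252)))) (XT.nd (nat_lit 78) (nat_lit 228) (nat_lit 0) (XT.lf (nat_lit 0) (nat_lit 675812792) (nat_lit 0)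 (nat_lit 794835969) (nat_lit 152) (nat_lit 675812792) (nat_lit 134) (nat_lit 3) (nat_lit 134) (nat_lit 1) (nat_lit 136) (nat_lit 1) (nat_lit 397) (nat_lit 372) (nat_lit 251)) (XT.nd (nat_lit 78) (nat_lit 152) (nat_lit 0) (XT.lf (nat_lit 76) (nat_lit 628346325) (nat_lit 0) (nat_lit 741701732) (nat_lit 76) (nat_lit 741701732) (nat_lit 134) (nat_lit 3) (nat_lit 133) (nat_lit 1) (nat_lit 134) (nat_lit 1) (nat_lit 398) (nat_lit 372) (nat_lit 250)) (XT.lf (nat_lit 152) (nat_lit 2008438974) (nat_lit 0) (nat_lit 34825009) (nat_lit 76) (nat_lit 34825009) (nat_lit 133) (nat_lit 1) (nat_lit 131) (nat_lit 1) (nat_lit 132) (nat_lit 1) (nat_lit 399) (nat_lit 372) (nat_lit 249)))))) (XT.nd (nat_lit 468) (nat_lit 456) (nat_lit 0) (XT.nd (nat_lit 234) (nat_lit 228) (nat_lit 0) (XT.nd (nat_lit 78) (nat_lit 228) (nat_lit 0) (XT.lf (nat_lit 0) (nat_lit 648691802) (nat_lit 0) (nat_lit 746612465) (nat_lit 152) (nat_lit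 648691802) (nat_lit 131) (nat_lit 3) (nat_lit 131) (nat_lit 1) (nat_lit 133) (nat_lit 1) (nat_lit 400) (nat_lit 372) (nat_lit 248)) (XT.nd (nat_lit 78) (nat_lit 152) (nat_lit 0) (XT.lf (nat_lit 76) (nat_lit 608145878) (nat_lit 0) (nat_lit 701403652) (nat_lit 76) (nat_lit 701403652) (nat_lit 131) (nat_lit 3) (nat_lit 130) (nat_lit 1) (nat_lit 131) (nat_lit 1) (nat_lit 401) (nat_lit 372) (nat_lit 247)) (XT.lf (nat_lit 152) (nat_lit 1921616081) (nat_lit 0) (nat_lit 28650621) (nat_lit 76) (nat_lit 28650621) (nat_lit 130) (nat_lit 1) (nat_lit 128) (nat_lit 1) (nat_lit 129) (nat_lit 1) (nat_lit 402) (nat_lit 372) (nat_lit 246)))) (XT.nd (nat_lit 78) (nat_lit 228) (nat_lit 0) (XT.lf (nat_lit 0) (nat_lit 621965061) (nat_lit 0) (nat_lit 702524633) (nat_lit 152) (nat_lit 621965061) (nat_lit 128) (nat_lit 3) (nat_lit 128) (nat_lit 1) (nat_lit 130) (nat_lit 1) (nat_lit 403) (nat_lit 372) (nat_lit 245)) (XT.nd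 (nat_lit 78) (nat_lit 152) (nat_lit 0) (XT.lf (nat_lit 76) (nat_lit 587183882) (nat_lit 0) (nat_lit 663907284) (nat_lit 76) (nat_lit 663907284) (nat_lit 128) (nat_lit 3) (nat_lit 127) (nat_lit 1) (nat_lit 128) (nat_lit 1) (nat_lit 404) (nat_lit 372) (nat_lit 244)) (XT.lf (nat_lit 152) (nat_lit 1837364369) (nat_lit 0) (nat_lit 23570937) (nat_lit 76) (nat_lit 23570937) (nat_lit 127) (nat_lit 1) (nat_lit 125) (nat_lit 1) (nat_lit 126) (nat_lit 1) (nat_lit 405) (nat_lit 372) (nat_lit 243))))) (XT.nd (nat_lit 234) (nat_lit 228) (nat_lit 0) (XT.nd (nat_lit 78) (nat_lit 228) (nat_lit 0) (XT.lf (nat_lit 0) (nat_lit 595772872) (nat_lit 0) (nat_lit 662049431) (nat_lit 152) (nat_lit 595772872) (nat_lit 125) (nat_lit 3) (nat_lit 125) (nat_lit 1) (nat_lit 127) (nat_lit 1) (nat_lit 406) (nat_lit 372) (nat_lit 242)) (XT.nd (nat_lit 78) (nat_lit 152) (nat_lit 0) (XT.lf (nat_lit 76) (nat_lit 565802170) (nat_lit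 0) (nat_lit 628922702) (nat_lit 76) (nat_lit 628922702) (nat_lit 125) (nat_lit 3) (nat_lit 124) (nat_lit 1) (nat_lit 125) (nat_lit 1) (nat_lit 407) (nat_lit 372) (nat_lit 241)) (XT.lf (nat_lit 152) (nat_lit 1755838560) (nat_lit 0) (nat_lit 19391868) (nat_lit 76) (nat_lit 19391868) (nat_lit 124) (nat_lit 1) (nat_lit 122) (nat_lit 1) (nat_lit 123) (nat_lit 1) (nat_lit 408) (nat_lit 372) (nat_lit 240)))) (XT.nd (nat_lit 156) (nat_lit 152) (nat_lit 0) (XT.nd (nat_lit 78) (nat_lit 76) (nat_lit 0) (XT.lf (nat_lit 0) (nat_lit 570220651) (nat_lit 0) (nat_lit 624746540) (nat_lit 152) (nat_lit 570220651) (nat_lit 122) (nat_lit 3) (nat_lit 122) (nat_lit 1) (nat_lit 124) (nat_lit 1) (nat_lit 409) (nat_lit 372) (nat_lit 239)) (XT.lf (nat_lit 76) (nat_lit 544272118) (nat_lit 0) (nat_lit 596201536) (nat_lit 76) (nat_lit 596201536) (nat_lit 122) (nat_lit 3) (nat_lit 121) (nat_lit 1) (nat_lit 122) (nat_lit 1) (nat_lit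 410) (nat_lit 372) (nat_lit 238))) (XT.nd (nat_lit 78) (nat_lit 0) (nat_lit 0) (XT.lf (nat_lit 152) (nat_lit 1677136868) (nat_lit 0) (nat_lit 15953738) (nat_lit 76) (nat_lit 15953738) (nat_lit 121) (nat_lit 1) (nat_lit 119) (nat_lit 1) (nat_lit 120) (nat_lit 1) (nat_lit 411) (nat_lit 372) (nat_lit 237)) (XT.lf (nat_lit 0) (nat_lit 545385593) (nat_lit 0) (nat_lit 590244177) (nat_lit 152) (nat_lit 545385593) (nat_lit 119) (nat_lit 3) (nat_lit 119) (nat_lit 1) (nat_lit 121) (nat_lit 1) (nat_lit 412) (nat_lit 372) (nat_lit 236))))))) (XT.nd (nat_lit 1014) (nat_lit 1064) (nat_lit 0) (XT.nd (nat_lit 468) (nat_lit 532) (nat_lit 0) (XT.nd (nat_lit 234) (nat_lit 228) (nat_lit 0) (XT.nd (nat_lit 78) (nat_lit 152) (nat_lit 0) (XT.lf (nat_lit 76) (nat_lit 522807612) (nat_lit 0) (nat_lit 565530073) (nat_lit 76) (nat_lit 565530073) (nat_lit 119) (nat_lit 3) (nat_lit 118) (nat_lit 1) (nat_lit 119) (nat_lit 1)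 (nat_lit 413) (nat_lit 372) (nat_lit 235)) (XT.nd (nat_lit 78) (nat_lit 0) (nat_lit 0) (XT.lf (nat_lit 152) (nat_lit 1601312403) (nat_lit 0) (nat_lit 13125179) (nat_lit 76) (nat_lit 13125179) (nat_lit 118) (nat_lit 1) (nat_lit 116) (nat_lit 1) (nat_lit 117) (nat_lit 1) (nat_lit 414) (nat_lit 372) (nat_lit 234)) (XT.lf (nat_lit 0) (nat_lit 521322126) (nat_lit 0) (nat_lit 558227394) (nat_lit 152) (nat_lit 521322126) (nat_lit 116) (nat_lit 3) (nat_lit 116) (nat_lit 1) (nat_lit 118) (nat_lit 1) (nat_lit 415) (nat_lit 372) (nat_lit 233)))) (XT.nd (nat_lit 78) (nat_lit 152) (nat_lit 0) (XT.lf (nat_lit 76) (nat_lit 501575681) (nat_lit 0) (nat_lit 536723555) (nat_lit 76) (nat_lit 536723555) (nat_lit 116) (nat_lit 3) (nat_lit 115) (nat_lit 1) (nat_lit 116) (nat_lit 1) (nat_lit 416) (nat_lit 372) (nat_lit 232)) (XT.nd (nat_lit 78) (nat_lit 0) (nat_lit 0) (XT.lf (nat_lit 152) (nat_lit 1528382488) (nat_lit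 0) (nat_lit 10798118) (nat_lit 76) (nat_lit 10798118) (nat_lit 115) (nat_lit 1) (nat_lit 113) (nat_lit 1) (nat_lit 114) (nat_lit 1) (nat_lit 417) (nat_lit 372) (nat_lit 231)) (XT.lf (nat_lit 0) (nat_lit 498066384) (nat_lit 0) (nat_lit 528428440) (nat_lit 152) (nat_lit 498066384) (nat_lit 113) (nat_lit 3) (nat_lit 113) (nat_lit 1) (nat_lit 115) (nat_lit 1) (nat_lit 418) (nat_lit 372) (nat_lit 230))))) (XT.nd (nat_lit 234) (nat_lit 304) (nat_lit 0) (XT.nd (nat_lit 78) (nat_lit 152) (nat_lit 0) (XT.lf (nat_lit 76) (nat_lit 480705235) (nat_lit 0) (nat_lit 509621478) (nat_lit 76) (nat_lit 509621478) (nat_lit 113) (nat_lit 3) (nat_lit 112) (nat_lit 1) (nat_lit 113) (nat_lit 1) (nat_lit 419) (nat_lit 372) (nat_lit 229)) (XT.nd (nat_lit 78) (nat_lit 0) (nat_lit 0) (XT.lf (nat_lit 152) (nat_lit 1458336257) (nat_lit 0) (nat_lit 8883638) (nat_lit 76) (nat_lit 8883638) (nat_lit 112) (nat_lit 1) (nat_lit 110)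 (nat_lit 1) (nat_lit 111) (nat_lit 1) (nat_lit 420) (nat_lit 372) (nat_lit 228)) (XT.lf (nat_lit 0) (nat_lit 475639857) (nat_lit 0) (nat_lit 500618795) (nat_lit 152) (nat_lit 475639857) (nat_lit 110) (nat_lit 3) (nat_lit 110) (nat_lit 1) (nat_lit 112) (nat_lit 1) (nat_lit 421) (nat_lit 372) (nat_lit 227)))) (XT.nd (nat_lit 156) (nat_lit 76) (nat_lit 0) (XT.nd (nat_lit 78) (nat_lit 152) (nat_lit 0) (XT.lf (nat_lit 76) (nat_lit 460294226) (nat_lit 0) (nat_lit 484083690) (nat_lit 76) (nat_lit 484083690) (nat_lit 110) (nat_lit 3) (nat_lit 109) (nat_lit 1) (nat_lit 110) (nat_lit 1) (nat_lit 422) (nat_lit 372) (nat_lit 226)) (XT.lf (nat_lit 152) (nat_lit 1391140848) (nat_lit 0) (nat_lit 7308591) (nat_lit 76) (nat_lit 7308591) (nat_lit 109) (nat_lit 1) (nat_lit 107) (nat_lit 1) (nat_lit 108) (nat_lit 1) (nat_lit 423) (nat_lit 372) (nat_lit 225))) (XT.nd (nat_lit 78) (nat_lit 76) (nat_lit 0) (XT.lf (nat_lit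 0) (nat_lit 454052383) (nat_lit 0) (nat_lit 474602617) (nat_lit 152) (nat_lit 454052383) (nat_lit 107) (nat_lit 3) (nat_lit 107) (nat_lit 1) (nat_lit 109) (nat_lit 1) (nat_lit 424) (nat_lit 372) (nat_lit 224)) (XT.lf (nat_lit 76) (nat_lit 440415521) (nat_lit 0) (nat_lit 459987173) (nat_lit 76) (nat_lit 459987173) (nat_lit 107) (nat_lit 3) (nat_lit 106) (nat_lit 1) (nat_lit 107) (nat_lit 1) (nat_lit 425) (nat_lit 372) (nat_lit 223)))))) (XT.nd (nat_lit 468) (nat_lit 608) (nat_lit 0) (XT.nd (nat_lit 234) (nat_lit 228) (nat_lit 0) (XT.nd (nat_lit 78) (nat_lit 76) (nat_lit 0) (XT.lf (nat_lit 152) (nat_lit 1326746448) (nat_lit 0) (nat_lit 6012796) (nat_lit 76) (nat_lit 6012796) (nat_lit 106) (nat_lit 1) (nat_lit 104) (nat_lit 1) (nat_lit 105) (nat_lit 1) (nat_lit 426) (nat_lit 372) (nat_lit 222)) (XT.nd (nat_lit 78) (nat_lit 76) (nat_lit 0) (XT.lf (nat_lit 0) (nat_lit 433304586) (nat_lit 0) (nat_lit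 450211315) (nat_lit 152) (nat_lit 433304586) (nat_lit 104) (nat_lit 3) (nat_lit 104) (nat_lit 1) (nat_lit 106) (nat_lit 1) (nat_lit 427) (nat_lit 372) (nat_lit 221)) (XT.lf (nat_lit 76) (nat_lit 421121723) (nat_lit 0) (nat_lit 437223369) (nat_lit 76) (nat_lit 437223369) (nat_lit 104) (nat_lit 3) (nat_lit 103) (nat_lit 1) (nat_lit 104) (nat_lit 1) (nat_lit 428) (nat_lit 372) (nat_lit 220)))) (XT.nd (nat_lit 78) (nat_lit 76) (nat_lit 0) (XT.lf (nat_lit 152) (nat_lit 1265090377) (nat_lit 0) (nat_lit 4946742) (nat_lit 76) (nat_lit 4946742) (nat_lit 103) (nat_lit 1) (nat_lit 101) (nat_lit 1) (nat_lit 102) (nat_lit 1) (nat_lit 429) (nat_lit 372) (nat_lit 219)) (XT.nd (nat_lit 78) (nat_lit 76) (nat_lit 0) (XT.lf (nat_lit 0) (nat_lit 413389867) (nat_lit 0) (nat_lit 427299074) (nat_lit 152) (nat_lit 413389867) (nat_lit 101) (nat_lit 3) (nat_lit 101) (nat_lit 1) (nat_lit 103) (nat_lit 1) (nat_lit 430) (nat_lit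 372) (nat_lit 218)) (XT.lf (nat_lit 76) (nat_lit 402449106) (nat_lit 0) (nat_lit 415695970) (nat_lit 76) (nat_lit 415695970) (nat_lit 101) (nat_lit 3) (nat_lit 100) (nat_lit 1) (nat_lit 101) (nat_lit 1) (nat_lit 431) (nat_lit 372) (nat_lit 217))))) (XT.nd (nat_lit 234) (nat_lit 380) (nat_lit 0) (XT.nd (nat_lit 78) (nat_lit 76) (nat_lit 0) (XT.lf (nat_lit 152) (nat_lit 1206100403) (nat_lit 0) (nat_lit 4069697) (nat_lit 76) (nat_lit 4069697) (nat_lit 100) (nat_lit 1) (nat_lit 98) (nat_lit 1) (nat_lit 99) (nat_lit 1) (nat_lit 432) (nat_lit 372) (nat_lit 216)) (XT.nd (nat_lit 78) (nat_lit 76) (nat_lit 0) (XT.lf (nat_lit 0) (nat_lit 394296020) (nat_lit 0) (nat_lit 405739159) (nat_lit 152) (nat_lit 394296020) (nat_lit 98) (nat_lit 3) (nat_lit 98) (nat_lit 1) (nat_lit 100) (nat_lit 1) (nat_lit 433) (nat_lit 372) (nat_lit 215)) (XT.lf (nat_lit 76) (nat_lit 384420850) (nat_lit 0) (nat_lit 395319077) (nat_lit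 76) (nat_lit 395319077) (nat_lit 98) (nat_lit 3) (nat_lit 97) (nat_lit 1) (nat_lit 98) (nat_lit 1) (nat_lit 434) (nat_lit 372) (nat_lit 214)))) (XT.nd (nat_lit 156) (nat_lit 228) (nat_lit 0) (XT.nd (nat_lit 78) (nat_lit 0) (nat_lit 0) (XT.lf (nat_lit 152) (nat_lit 1149697423) (nat_lit 0) (nat_lit 3348149) (nat_lit 76) (nat_lit 3348149) (nat_lit 97) (nat_lit 1) (nat_lit 95) (nat_lit 1) (nat_lit 96) (nat_lit 1) (nat_lit 435) (nat_lit 372) (nat_lit 213)) (XT.lf (nat_lit 0) (nat_lit 376006553) (nat_lit 0) (nat_lit 385420852) (nat_lit 152) (nat_lit 376006553) (nat_lit 95) (nat_lit 3) (nat_lit 95) (nat_lit 1) (nat_lit 97) (nat_lit 1) (nat_lit 436) (nat_lit 372) (nat_lit 212))) (XT.nd (nat_lit 78) (nat_lit 152) (nat_lit 0) (XT.lf (nat_lit 76) (nat_lit 367049674) (nat_lit 0) (nat_lit 376015673) (nat_lit 76) (nat_lit 376015673) (nat_lit 95) (nat_lit 3) (nat_lit 94) (nat_lit 1) (nat_lit 95) (nat_lit 1) (nat_lit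 437) (nat_lit 372) (nat_lit 211)) (XT.lf (nat_lit 152) (nat_lit 1095797618) (nat_lit 0) (nat_lit 2754531) (nat_lit 76) (nat_lit 2754531) (nat_lit 94) (nat_lit 1) (nat_lit 92) (nat_lit 1) (nat_lit 93) (nat_lit 1) (nat_lit 438) (nat_lit 372) (nat_lit 210))))))))
noncomputable def ec148 : XT := (XT.nd (nat_lit 41418) (nat_lit 0) (nat_lit 10716) (XT.nd (nat_lit 40404) (nat_lit 0) (nat_lit 14592) (XT.nd (nat_lit 468) (nat_lit 228) (nat_lit 0) (XT.nd (nat_lit 234) (nat_lit 228) (nat_lit 0) (XT.nd (nat_lit 78) (nat_lit 228) (nat_lit 0) (XT.lf (nat_lit 0) (nat_lit 358501752) (nat_lit 0) (nat_lit 366246919) (nat_lit 152) (nat_lit 358501752) (nat_lit 92) (nat_lit 3) (nat_lit 92) (nat_lit 1) (nat_lit 94) (nat_lit 1) (nat_lit 439) (nat_lit 372) (nat_lit 209)) (XT.nd (nat_lit 78) (nat_lit 152) (nat_lit 0) (XT.lf (nat_lit 76) (nat_lit 350339998) (nat_lit 0) (nat_lit 357716348) (nat_lit 76) (nat_lit 357716348)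 (nat_lit 92) (nat_lit 3) (nat_lit 91) (nat_lit 1) (nat_lit 92) (nat_lit 1) (nat_lit 440) (nat_lit 372) (nat_lit 208)) (XT.lf (nat_lit 152) (nat_lit 1044314176) (nat_lit 0) (nat_lit 2266159) (nat_lit 76) (nat_lit 2266159) (nat_lit 91) (nat_lit 1) (nat_lit 89) (nat_lit 1) (nat_lit 90) (nat_lit 1) (nat_lit 441) (nat_lit 372) (nat_lit 207)))) (XT.nd (nat_lit 78) (nat_lit 228) (nat_lit 0) (XT.lf (nat_lit 0) (nat_lit 341759545) (nat_lit 0) (nat_lit 348131514) (nat_lit 152) (nat_lit 341759545) (nat_lit 89) (nat_lit 3) (nat_lit 89) (nat_lit 1) (nat_lit 91) (nat_lit 1) (nat_lit 442) (nat_lit 372) (nat_lit 206)) (XT.nd (nat_lit 78) (nat_lit 152) (nat_lit 0) (XT.lf (nat_lit 76) (nat_lit 334289701) (nat_lit 0) (nat_lit 340358242) (nat_lit 76) (nat_lit 340358242) (nat_lit 89) (nat_lit 3) (nat_lit 88) (nat_lit 1) (nat_lit 89) (nat_lit 1) (nat_lit 443) (nat_lit 372) (nat_lit 205)) (XT.lf (nat_lit 152) (nat_lit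 995158680) (nat_lit 0) (nat_lit 1864375) (nat_lit 76) (nat_lit 1864375) (nat_lit 88) (nat_lit 1) (nat_lit 86) (nat_lit 1) (nat_lit 87) (nat_lit 1) (nat_lit 444) (nat_lit 372) (nat_lit 204))))) (XT.nd (nat_lit 234) (nat_lit 0) (nat_lit 0) (XT.nd (nat_lit 78) (nat_lit 228) (nat_lit 0) (XT.lf (nat_lit 0) (nat_lit 325756202) (nat_lit 0) (nat_lit 330998436) (nat_lit 152) (nat_lit 325756202) (nat_lit 86) (nat_lit 3) (nat_lit 86) (nat_lit 1) (nat_lit 88) (nat_lit 1) (nat_lit 445) (nat_lit 372) (nat_lit 203)) (XT.nd (nat_lit 78) (nat_lit 152) (nat_lit 0) (XT.lf (nat_lit 76) (nat_lit 318891552) (nat_lit 0) (nat_lit 323884156) (nat_lit 76) (nat_lit 323884156) (nat_lit 86) (nat_lit 3) (nat_lit 85) (nat_lit 1) (nat_lit 86) (nat_lit 1) (nat_lit 446) (nat_lit 372) (nat_lit 202)) (XT.lf (nat_lit 152) (nat_lit 948242197) (nat_lit 0) (nat_lit 1533826) (nat_lit 76) (nat_lit 1533826) (nat_lit 85) (nat_lit 1) (nat_lit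 83) (nat_lit 1) (nat_lit 84) (nat_lit 1) (nat_lit 447) (nat_lit 372) (nat_lit 201)))) (XT.nd (nat_lit 39546) (nat_lit 0) (nat_lit 15884) (XT.lf (nat_lit 0) (nat_lit 310466888) (nat_lit 0) (nat_lit 314779687) (nat_lit 152) (nat_lit 310466888) (nat_lit 83) (nat_lit 3) (nat_lit 83) (nat_lit 1) (nat_lit 85) (nat_lit 1) (nat_lit 448) (nat_lit 372) (nat_lit 200)) (XT.nd (nat_lit 78) (nat_lit 0) (nat_lit 0) (XT.lf (nat_lit 836) (nat_lit 2688416475) (nat_lit 0) (nat_lit 4773277273) (nat_lit 836) (nat_lit 2688416475) (nat_lit 303) (nat_lit 1) (nat_lit 292) (nat_lit 0) (nat_lit 303) (nat_lit 0) (nat_lit 274) (nat_lit 373) (nat_lit 373)) (XT.lf (nat_lit 836) (nat_lit 10420637895) (nat_lit 76) (nat_lit 4696288930) (nat_lit 0) (nat_lit 4696288930) (nat_lit 303) (nat_lit 1) (nat_lit 293) (nat_lit 1) (nat_lit 292) (nat_lit 0) (nat_lit 275) (nat_lit 373) (nat_lit 372)))))) (XT.nd (nat_lit 468) (nat_lit 1368) (nat_lit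 0) (XT.nd (nat_lit 234) (nat_lit 0) (nat_lit 76) (XT.nd (nat_lit 78) (nat_lit 0) (nat_lit 0) (XT.lf (nat_lit 836) (nat_lit 4966319117) (nat_lit 0) (nat_lit 9408628758) (nat_lit 760) (nat_lit 4966319117) (nat_lit 304) (nat_lit 1) (nat_lit 293) (nat_lit 1) (nat_lit 303) (nat_lit 1) (nat_lit 276) (nat_lit 373) (nat_lit 371)) (XT.nd (nat_lit 78) (nat_lit 0) (nat_lit 76) (XT.lf (nat_lit 836) (nat_lit 9316124577) (nat_lit 76) (nat_lit 4784220557) (nat_lit 0) (nat_lit 4784220557) (nat_lit 304) (nat_lit 1) (nat_lit 294) (nat_lit 1) (nat_lit 293) (nat_lit 1) (nat_lit 277) (nat_lit 373) (nat_lit 370)) (XT.lf (nat_lit 836) (nat_lit 4288122679) (nat_lit 0) (nat_lit 9866094173) (nat_lit 760) (nat_lit 4288122679) (nat_lit 305) (nat_lit 1) (nat_lit 294) (nat_lit 1) (nat_lit 304) (nat_lit 1) (nat_lit 278) (nat_lit 373) (nat_lit 369)))) (XT.nd (nat_lit 78) (nat_lit 0) (nat_lit 76) (XT.lf (nat_lit 836) (nat_lit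 7712467932) (nat_lit 76) (nat_lit 5150563091) (nat_lit 0) (nat_lit 5150563091) (nat_lit 305) (nat_lit 1) (nat_lit 295) (nat_lit 1) (nat_lit 294) (nat_lit 1) (nat_lit 279) (nat_lit 373) (nat_lit 368)) (XT.nd (nat_lit 78) (nat_lit 0) (nat_lit 0) (XT.lf (nat_lit 836) (nat_lit 3381694432) (nat_lit 0) (nat_lit 10835855619) (nat_lit 760) (nat_lit 3381694432) (nat_lit 306) (nat_lit 1) (nat_lit 295) (nat_lit 1) (nat_lit 305) (nat_lit 1) (nat_lit 280) (nat_lit 373) (nat_lit 367)) (XT.lf (nat_lit 836) (nat_lit 5684732172) (nat_lit 76) (nat_lit 5755785572) (nat_lit 0) (nat_lit 5755785572) (nat_lit 306) (nat_lit 1) (nat_lit 296) (nat_lit 1) (nat_lit 295) (nat_lit 1) (nat_lit 281) (nat_lit 373) (nat_lit 366))))) (XT.nd (nat_lit 234) (nat_lit 1596) (nat_lit 0) (XT.nd (nat_lit 78) (nat_lit 0) (nat_lit 0) (XT.lf (nat_lit 836) (nat_lit 2282123877) (nat_lit 0) (nat_lit 12243864342) (nat_lit 760) (nat_lit 2282123877)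 (nat_lit 307) (nat_lit 1) (nat_lit 296) (nat_lit 1) (nat_lit 306) (nat_lit 1) (nat_lit 282) (nat_lit 373) (nat_lit 365)) (XT.nd (nat_lit 78) (nat_lit 0) (nat_lit 76) (XT.lf (nat_lit 836) (nat_lit 3299638054) (nat_lit 76) (nat_lit 6564682113) (nat_lit 0) (nat_lit 6564682113) (nat_lit 307) (nat_lit 1) (nat_lit 297) (nat_lit 1) (nat_lit 296) (nat_lit 1) (nat_lit 283) (nat_lit 373) (nat_lit 364)) (XT.lf (nat_lit 76) (nat_lit 1020577718) (nat_lit 0) (nat_lit 14024214049) (nat_lit 760) (nat_lit 1020577718) (nat_lit 298) (nat_lit 1) (nat_lit 297) (nat_lit 1) (nat_lit 307) (nat_lit 1) (nat_lit 284) (nat_lit 373) (nat_lit 363)))) (XT.nd (nat_lit 156) (nat_lit 380) (nat_lit 0) (XT.nd (nat_lit 78) (nat_lit 532) (nat_lit 0) (XT.lf (nat_lit 836) (nat_lit 616403562) (nat_lit 0) (nat_lit 7545938844) (nat_lit 760) (nat_lit 7545938844) (nat_lit 298) (nat_lit 1) (nat_lit 287) (nat_lit 1) (nat_lit 297) (nat_lit 1)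 (nat_lit 285) (nat_lit 373) (nat_lit 362)) (XT.lf (nat_lit 532) (nat_lit 14628032815) (nat_lit 0) (nat_lit 369250690) (nat_lit 456) (nat_lit 369250690) (nat_lit 287) (nat_lit 1) (nat_lit 280) (nat_lit 1) (nat_lit 286) (nat_lit 1) (nat_lit 286) (nat_lit 373) (nat_lit 361))) (XT.nd (nat_lit 78) (nat_lit 380) (nat_lit 0) (XT.lf (nat_lit 76) (nat_lit 6395350487) (nat_lit 0) (nat_lit 2238482330) (nat_lit 532) (nat_lit 6395350487) (nat_lit 281) (nat_lit 1) (nat_lit 280) (nat_lit 1) (nat_lit 287) (nat_lit 1) (nat_lit 287) (nat_lit 373) (nat_lit 360)) (XT.lf (nat_lit 456) (nat_lit 11004756574) (nat_lit 0) (nat_lit 1850710452) (nat_lit 380) (nat_lit 1850710452) (nat_lit 281) (nat_lit 1) (nat_lit 275) (nat_lit 1) (nat_lit 280) (nat_lit 1) (nat_lit 288) (nat_lit 373) (nat_lit 359))))))) (XT.nd (nat_lit 936) (nat_lit 1596) (nat_lit 0) (XT.nd (nat_lit 468) (nat_lit 1216) (nat_lit 0) (XT.nd (nat_lit 234) (nat_lit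 684) (nat_lit 0) (XT.nd (nat_lit 78) (nat_lit 380) (nat_lit 0) (XT.lf (nat_lit 76) (nat_lit 4561725649) (nat_lit 0) (nat_lit 5266510829) (nat_lit 456) (nat_lit 4561725649) (nat_lit 276) (nat_lit 1) (nat_lit 275) (nat_lit 1) (nat_lit 281) (nat_lit 1) (nat_lit 289) (nat_lit 373) (nat_lit 358)) (XT.nd (nat_lit 78) (nat_lit 0) (nat_lit 0) (XT.lf (nat_lit 456) (nat_lit 7246788266) (nat_lit 0) (nat_lit 3418985722) (nat_lit 380) (nat_lit 3418985722) (nat_lit 276) (nat_lit 1) (nat_lit 270) (nat_lit 1) (nat_lit 275) (nat_lit 1) (nat_lit 290) (nat_lit 373) (nat_lit 357)) (XT.lf (nat_lit 76) (nat_lit 2670345165) (nat_lit 0) (nat_lit 8447743277) (nat_lit 456) (nat_lit 2670345165) (nat_lit 271) (nat_lit 1) (nat_lit 270) (nat_lit 1) (nat_lit 276) (nat_lit 1) (nat_lit 291) (nat_lit 373) (nat_lit 356)))) (XT.nd (nat_lit 78) (nat_lit 380) (nat_lit 0) (XT.lf (nat_lit 380) (nat_lit 3389105042) (nat_lit 0) (nat_lit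 5055312474) (nat_lit 304) (nat_lit 5055312474) (nat_lit 271) (nat_lit 1) (nat_lit 266) (nat_lit 1) (nat_lit 270) (nat_lit 1) (nat_lit 292) (nat_lit 373) (nat_lit 355)) (XT.nd (nat_lit 78) (nat_lit 380) (nat_lit 0) (XT.lf (nat_lit 76) (nat_lit 737446643) (nat_lit 0) (nat_lit 11747235207) (nat_lit 380) (nat_lit 737446643) (nat_lit 267) (nat_lit 1) (nat_lit 266) (nat_lit 1) (nat_lit 271) (nat_lit 1) (nat_lit 293) (nat_lit 373) (nat_lit 354)) (XT.lf (nat_lit 76) (nat_lit 6213937319) (nat_lit 0) (nat_lit 520429321) (nat_lit 380) (nat_lit 6213937319) (nat_lit 262) (nat_lit 1) (nat_lit 261) (nat_lit 1) (nat_lit 266) (nat_lit 1) (nat_lit 294) (nat_lit 373) (nat_lit 353))))) (XT.nd (nat_lit 234) (nat_lit 608) (nat_lit 0) (XT.nd (nat_lit 78) (nat_lit 304) (nat_lit 0) (XT.lf (nat_lit 380) (nat_lit 10278832274) (nat_lit 0) (nat_lit 1203037530) (nat_lit 304) (nat_lit 1203037530) (nat_lit 262) (nat_lit 1) (nat_lit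 257) (nat_lit 1) (nat_lit 261) (nat_lit 1) (nat_lit 295) (nat_lit 373) (nat_lit 352)) (XT.nd (nat_lit 78) (nat_lit 304) (nat_lit 0) (XT.lf (nat_lit 76) (nat_lit 4031809906) (nat_lit 0) (nat_lit 4362409525) (nat_lit 380) (nat_lit 4031809906) (nat_lit 258) (nat_lit 1) (nat_lit 257) (nat_lit 1) (nat_lit 262) (nat_lit 1) (nat_lit 296) (nat_lit 373) (nat_lit 351)) (XT.lf (nat_lit 380) (nat_lit 5883532216) (nat_lit 0) (nat_lit 3146298052) (nat_lit 304) (nat_lit 3146298052) (nat_lit 258) (nat_lit 1) (nat_lit 253) (nat_lit 1) (nat_lit 257) (nat_lit 1) (nat_lit 297) (nat_lit 373) (nat_lit 350)))) (XT.nd (nat_lit 78) (nat_lit 608) (nat_lit 0) (XT.lf (nat_lit 76) (nat_lit 1855403483) (nat_lit 0) (nat_lit 8222727463) (nat_lit 380) (nat_lit 1855403483) (nat_lit 254) (nat_lit 1) (nat_lit 253) (nat_lit 1) (nat_lit 258) (nat_lit 1) (nat_lit 298) (nat_lit 373) (nat_lit 349)) (XT.nd (nat_lit 78) (nat_lit 380) (nat_lit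 0) (XT.lf (nat_lit 304) (nat_lit 1508920187) (nat_lit 0) (nat_lit 5093628491) (nat_lit 228) (nat_lit 5093628491) (nat_lit 254) (nat_lit 1) (nat_lit 250) (nat_lit 1) (nat_lit 253) (nat_lit 1) (nat_lit 299) (nat_lit 373) (nat_lit 348)) (XT.lf (nat_lit 380) (nat_lit 10865013239) (nat_lit 0) (nat_lit 301483269) (nat_lit 304) (nat_lit 301483269) (nat_lit 250) (nat_lit 1) (nat_lit 245) (nat_lit 1) (nat_lit 249) (nat_lit 1) (nat_lit 300) (nat_lit 373) (nat_lit 347)))))) (XT.nd (nat_lit 468) (nat_lit 836) (nat_lit 0) (XT.nd (nat_lit 234) (nat_lit 532) (nat_lit 0) (XT.nd (nat_lit 78) (nat_lit 228) (nat_lit 0) (XT.lf (nat_lit 76) (nat_lit 4251560004) (nat_lit 0) (nat_lit 2737925423) (nat_lit 380) (nat_lit 4251560004) (nat_lit 246) (nat_lit 1) (nat_lit 245) (nat_lit 1) (nat_lit 250) (nat_lit 1) (nat_lit 301) (nat_lit 373) (nat_lit 346)) (XT.nd (nat_lit 78) (nat_lit 0) (nat_lit 0) (XT.lf (nat_lit 304) (nat_lit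 6209537796) (nat_lit 0) (nat_lit 2406638412) (nat_lit 228) (nat_lit 2406638412) (nat_lit 246) (nat_lit 1) (nat_lit 242) (nat_lit 1) (nat_lit 245) (nat_lit 1) (nat_lit 302) (nat_lit 373) (nat_lit 345)) (XT.lf (nat_lit 76) (nat_lit 1961689041) (nat_lit 0) (nat_lit 6886750257) (nat_lit 304) (nat_lit 1961689041) (nat_lit 243) (nat_lit 1) (nat_lit 242) (nat_lit 1) (nat_lit 246) (nat_lit 1) (nat_lit 303) (nat_lit 373) (nat_lit 344)))) (XT.nd (nat_lit 78) (nat_lit 304) (nat_lit 0) (XT.lf (nat_lit 304) (nat_lit 1635006501) (nat_lit 0) (nat_lit 4483637056) (nat_lit 228) (nat_lit 4483637056) (nat_lit 243) (nat_lit 1) (nat_lit 239) (nat_lit 1) (nat_lit 242) (nat_lit 1) (nat_lit 304) (nat_lit 373) (nat_lit 343)) (XT.nd (nat_lit 78) (nat_lit 0) (nat_lit 0) (XT.lf (nat_lit 304) (nat_lit 9840169182) (nat_lit 0) (nat_lit 280992756) (nat_lit 228) (nat_lit 280992756) (nat_lit 239) (nat_lit 1) (nat_lit 235) (nat_lit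 1) (nat_lit 238) (nat_lit 1) (nat_lit 305) (nat_lit 373) (nat_lit 342)) (XT.lf (nat_lit 76) (nat_lit 3722254197) (nat_lit 0) (nat_lit 2758152984) (nat_lit 304) (nat_lit 3722254197) (nat_lit 236) (nat_lit 1) (nat_lit 235) (nat_lit 1) (nat_lit 239) (nat_lit 1) (nat_lit 306) (nat_lit 373) (nat_lit 341))))) (XT.nd (nat_lit 234) (nat_lit 456) (nat_lit 0) (XT.nd (nat_lit 78) (nat_lit 152) (nat_lit 0) (XT.lf (nat_lit 304) (nat_lit 5118440352) (nat_lit 0) (nat_lit 2446054496) (nat_lit 228) (nat_lit 2446054496) (nat_lit 236) (nat_lit 1) (nat_lit 232) (nat_lit 1) (nat_lit 235) (nat_lit 1) (nat_lit 307) (nat_lit 373) (nat_lit 340)) (XT.nd (nat_lit 78) (nat_lit 152) (nat_lit 0) (XT.lf (nat_lit 76) (nat_lit 1409614298) (nat_lit 0) (nat_lit 7004361248) (nat_lit 304) (nat_lit 1409614298) (nat_lit 233) (nat_lit 1) (nat_lit 232) (nat_lit 1) (nat_lit 236) (nat_lit 1) (nat_lit 308) (nat_lit 373) (nat_lit 339)) (XT.lf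 (nat_lit 228) (nat_lit 516529547) (nat_lit 0) (nat_lit 4561811968) (nat_lit 152) (nat_lit 4561811968) (nat_lit 233) (nat_lit 1) (nat_lit 230) (nat_lit 1) (nat_lit 232) (nat_lit 1) (nat_lit 309) (nat_lit 373) (nat_lit 338)))) (XT.nd (nat_lit 156) (nat_lit 152) (nat_lit 0) (XT.nd (nat_lit 78) (nat_lit 0) (nat_lit 0) (XT.lf (nat_lit 304) (nat_lit 7804588266) (nat_lit 0) (nat_lit 828903844) (nat_lit 228) (nat_lit 828903844) (nat_lit 230) (nat_lit 1) (nat_lit 226) (nat_lit 1) (nat_lit 229) (nat_lit 1) (nat_lit 310) (nat_lit 373) (nat_lit 337)) (XT.lf (nat_lit 76) (nat_lit 2725957422) (nat_lit 0) (nat_lit 3834711626) (nat_lit 304) (nat_lit 2725957422) (nat_lit 227) (nat_lit 1) (nat_lit 226) (nat_lit 1) (nat_lit 230) (nat_lit 1) (nat_lit 311) (nat_lit 373) (nat_lit 336))) (XT.nd (nat_lit 78) (nat_lit 0) (nat_lit 0) (XT.lf (nat_lit 228) (nat_lit 3149423305) (nat_lit 0) (nat_lit 2983429206) (nat_lit 152)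 (nat_lit 2983429206) (nat_lit 227) (nat_lit 1) (nat_lit 224) (nat_lit 1) (nat_lit 226) (nat_lit 1) (nat_lit 312) (nat_lit 373) (nat_lit 335)) (XT.lf (nat_lit 76) (nat_lit 452472164) (nat_lit 0) (nat_lit 8046645723) (nat_lit 228) (nat_lit 452472164) (nat_lit 225) (nat_lit 1) (nat_lit 224) (nat_lit 1) (nat_lit 227) (nat_lit 1) (nat_lit 313) (nat_lit 373) (nat_lit 334))))))))
noncomputable def ec149 : XT := (XT.nd (nat_lit 1950) (nat_lit 2052) (nat_lit 0) (XT.nd (nat_lit 936) (nat_lit 1140) (nat_lit 0) (XT.nd (nat_lit 468) (nat_lit 608) (nat_lit 0) (XT.nd (nat_lit 234) (nat_lit 380) (nat_lit 0) (XT.nd (nat_lit 78) (nat_lit 152) (nat_lit 0) (XT.lf (nat_lit 76) (nat_lit 3734332156) (nat_lit 0) (nat_lit 1318832738) (nat_lit 228) (nat_lit 3734332156) (nat_lit 222) (nat_lit 1) (nat_lit 221) (nat_lit 1) (nat_lit 224) (nat_lit 1) (nat_lit 314) (nat_lit 373) (nat_lit 333)) (XT.nd (nat_lit 78) (nat_lit 0)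 (nat_lit 0) (XT.lf (nat_lit 228) (nat_lit 5185774697) (nat_lit 0) (nat_lit 1721536696) (nat_lit 152) (nat_lit 1721536696) (nat_lit 222) (nat_lit 1) (nat_lit 219) (nat_lit 1) (nat_lit 221) (nat_lit 1) (nat_lit 315) (nat_lit 373) (nat_lit 332)) (XT.lf (nat_lit 76) (nat_lit 1463290705) (nat_lit 0) (nat_lit 5547124205) (nat_lit 228) (nat_lit 1463290705) (nat_lit 220) (nat_lit 1) (nat_lit 219) (nat_lit 1) (nat_lit 222) (nat_lit 1) (nat_lit 316) (nat_lit 373) (nat_lit 331)))) (XT.nd (nat_lit 78) (nat_lit 228) (nat_lit 0) (XT.lf (nat_lit 228) (nat_lit 685499012) (nat_lit 0) (nat_lit 3818095702) (nat_lit 152) (nat_lit 3818095702) (nat_lit 220) (nat_lit 1) (nat_lit 217) (nat_lit 1) (nat_lit 219) (nat_lit 1) (nat_lit 317) (nat_lit 373) (nat_lit 330)) (XT.nd (nat_lit 78) (nat_lit 0) (nat_lit 0) (XT.lf (nat_lit 228) (nat_lit 6737527154) (nat_lit 0) (nat_lit 718276409) (nat_lit 152) (nat_lit 718276409) (nat_lit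 217) (nat_lit 1) (nat_lit 214) (nat_lit 1) (nat_lit 216) (nat_lit 1) (nat_lit 318) (nat_lit 373) (nat_lit 329)) (XT.lf (nat_lit 76) (nat_lit 2242939300) (nat_lit 0) (nat_lit 3541850769) (nat_lit 228) (nat_lit 2242939300) (nat_lit 215) (nat_lit 1) (nat_lit 214) (nat_lit 1) (nat_lit 217) (nat_lit 1) (nat_lit 319) (nat_lit 373) (nat_lit 328))))) (XT.nd (nat_lit 234) (nat_lit 304) (nat_lit 0) (XT.nd (nat_lit 78) (nat_lit 152) (nat_lit 0) (XT.lf (nat_lit 228) (nat_lit 2284324781) (nat_lit 0) (nat_lit 2800651373) (nat_lit 152) (nat_lit 2800651373) (nat_lit 215) (nat_lit 1) (nat_lit 212) (nat_lit 1) (nat_lit 214) (nat_lit 1) (nat_lit 320) (nat_lit 373) (nat_lit 327)) (XT.nd (nat_lit 78) (nat_lit 152) (nat_lit 0) (XT.lf (nat_lit 76) (nat_lit 75079455) (nat_lit 0) (nat_lit 7598350293) (nat_lit 228) (nat_lit 75079455) (nat_lit 213) (nat_lit 1) (nat_lit 212) (nat_lit 1) (nat_lit 215) (nat_lit 1) (nat_lit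 321) (nat_lit 373) (nat_lit 326)) (XT.lf (nat_lit 76) (nat_lit 2834877823) (nat_lit 0) (nat_lit 1940763639) (nat_lit 152) (nat_lit 2834877823) (nat_lit 211) (nat_lit 1) (nat_lit 210) (nat_lit 1) (nat_lit 212) (nat_lit 1) (nat_lit 322) (nat_lit 373) (nat_lit 325)))) (XT.nd (nat_lit 78) (nat_lit 152) (nat_lit 0) (XT.lf (nat_lit 228) (nat_lit 3517760648) (nat_lit 0) (nat_lit 1979811949) (nat_lit 152) (nat_lit 1979811949) (nat_lit 211) (nat_lit 1) (nat_lit 208) (nat_lit 1) (nat_lit 210) (nat_lit 1) (nat_lit 323) (nat_lit 373) (nat_lit 324)) (XT.nd (nat_lit 78) (nat_lit 152) (nat_lit 0) (XT.lf (nat_lit 76) (nat_lit 705286697) (nat_lit 0) (nat_lit 5937270056) (nat_lit 228) (nat_lit 705286697) (nat_lit 209) (nat_lit 1) (nat_lit 208) (nat_lit 1) (nat_lit 211) (nat_lit 1) (nat_lit 324) (nat_lit 373) (nat_lit 323)) (XT.lf (nat_lit 76) (nat_lit 3274743010) (nat_lit 0) (nat_lit 669884616) (nat_lit 152) (nat_lit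 3274743010) (nat_lit 207) (nat_lit 1) (nat_lit 206) (nat_lit 1) (nat_lit 208) (nat_lit 1) (nat_lit 325) (nat_lit 373) (nat_lit 322)))))) (XT.nd (nat_lit 468) (nat_lit 608) (nat_lit 0) (XT.nd (nat_lit 234) (nat_lit 304) (nat_lit 0) (XT.nd (nat_lit 78) (nat_lit 76) (nat_lit 0) (XT.lf (nat_lit 228) (nat_lit 4454490389) (nat_lit 0) (nat_lit 1319947745) (nat_lit 152) (nat_lit 1319947745) (nat_lit 207) (nat_lit 1) (nat_lit 204) (nat_lit 1) (nat_lit 206) (nat_lit 1) (nat_lit 326) (nat_lit 373) (nat_lit 321)) (XT.nd (nat_lit 78) (nat_lit 76) (nat_lit 0) (XT.lf (nat_lit 76) (nat_lit 1193116010) (nat_lit 0) (nat_lit 4585643403) (nat_lit 228) (nat_lit 1193116010) (nat_lit 205) (nat_lit 1) (nat_lit 204) (nat_lit 1) (nat_lit 207) (nat_lit 1) (nat_lit 327) (nat_lit 373) (nat_lit 320)) (XT.lf (nat_lit 152) (nat_lit 342500157) (nat_lit 0) (nat_lit 3254588322) (nat_lit 76) (nat_lit 3254588322) (nat_lit 205) (nat_lit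 1) (nat_lit 203) (nat_lit 1) (nat_lit 204) (nat_lit 1) (nat_lit 328) (nat_lit 373) (nat_lit 319)))) (XT.nd (nat_lit 78) (nat_lit 76) (nat_lit 0) (XT.lf (nat_lit 228) (nat_lit 5150834550) (nat_lit 0) (nat_lit 791782901) (nat_lit 152) (nat_lit 791782901) (nat_lit 203) (nat_lit 1) (nat_lit 200) (nat_lit 1) (nat_lit 202) (nat_lit 1) (nat_lit 329) (nat_lit 373) (nat_lit 318)) (XT.nd (nat_lit 78) (nat_lit 76) (nat_lit 0) (XT.lf (nat_lit 76) (nat_lit 1565269875) (nat_lit 0) (nat_lit 3487893162) (nat_lit 228) (nat_lit 1565269875) (nat_lit 201) (nat_lit 1) (nat_lit 200) (nat_lit 1) (nat_lit 203) (nat_lit 1) (nat_lit 330) (nat_lit 373) (nat_lit 317)) (XT.lf (nat_lit 152) (nat_lit 1150193122) (nat_lit 0) (nat_lit 2677557867) (nat_lit 76) (nat_lit 2677557867) (nat_lit 201) (nat_lit 1) (nat_lit 199) (nat_lit 1) (nat_lit 200) (nat_lit 1) (nat_lit 331) (nat_lit 373) (nat_lit 316))))) (XT.nd (nat_lit 234) (nat_lit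 304) (nat_lit 0) (XT.nd (nat_lit 78) (nat_lit 76) (nat_lit 0) (XT.lf (nat_lit 228) (nat_lit 5652951269) (nat_lit 0) (nat_lit 371267108) (nat_lit 152) (nat_lit 371267108) (nat_lit 199) (nat_lit 1) (nat_lit 196) (nat_lit 1) (nat_lit 198) (nat_lit 1) (nat_lit 332) (nat_lit 373) (nat_lit 315)) (XT.nd (nat_lit 78) (nat_lit 76) (nat_lit 0) (XT.lf (nat_lit 76) (nat_lit 1843647000) (nat_lit 0) (nat_lit 2598329750) (nat_lit 228) (nat_lit 1843647000) (nat_lit 197) (nat_lit 1) (nat_lit 196) (nat_lit 1) (nat_lit 199) (nat_lit 1) (nat_lit 333) (nat_lit 373) (nat_lit 314)) (XT.lf (nat_lit 152) (nat_lit 1773330913) (nat_lit 0) (nat_lit 2202833483) (nat_lit 76) (nat_lit 2202833483) (nat_lit 197) (nat_lit 1) (nat_lit 195) (nat_lit 1) (nat_lit 196) (nat_lit 1) (nat_lit 334) (nat_lit 373) (nat_lit 313)))) (XT.nd (nat_lit 156) (nat_lit 76) (nat_lit 0) (XT.nd (nat_lit 78) (nat_lit 0) (nat_lit 0) (XT.lf (nat_lit 228)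 (nat_lit 5998646462) (nat_lit 0) (nat_lit 38647470) (nat_lit 152) (nat_lit 38647470) (nat_lit 195) (nat_lit 1) (nat_lit 192) (nat_lit 1) (nat_lit 194) (nat_lit 1) (nat_lit 335) (nat_lit 373) (nat_lit 312)) (XT.lf (nat_lit 76) (nat_lit 2046197330) (nat_lit 0) (nat_lit 1879396520) (nat_lit 228) (nat_lit 2046197330) (nat_lit 193) (nat_lit 1) (nat_lit 192) (nat_lit 1) (nat_lit 195) (nat_lit 1) (nat_lit 336) (nat_lit 373) (nat_lit 311))) (XT.nd (nat_lit 78) (nat_lit 0) (nat_lit 0) (XT.lf (nat_lit 152) (nat_lit 2246603908) (nat_lit 0) (nat_lit 1812276558) (nat_lit 76) (nat_lit 1812276558) (nat_lit 193) (nat_lit 1) (nat_lit 191) (nat_lit 1) (nat_lit 192) (nat_lit 1) (nat_lit 337) (nat_lit 373) (nat_lit 310)) (XT.lf (nat_lit 0) (nat_lit 225939190) (nat_lit 0) (nat_lit 5321682801) (nat_lit 152) (nat_lit 225939190) (nat_lit 191) (nat_lit 3) (nat_lit 191) (nat_lit 1) (nat_lit 193) (nat_lit 1) (nat_lit 338)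 (nat_lit 373) (nat_lit 309))))))) (XT.nd (nat_lit 1014) (nat_lit 1064) (nat_lit 0) (XT.nd (nat_lit 468) (nat_lit 532) (nat_lit 0) (XT.nd (nat_lit 234) (nat_lit 228) (nat_lit 0) (XT.nd (nat_lit 78) (nat_lit 76) (nat_lit 0) (XT.lf (nat_lit 76) (nat_lit 2187625304) (nat_lit 0) (nat_lit 1300226268) (nat_lit 152) (nat_lit 2187625304) (nat_lit 190) (nat_lit 1) (nat_lit 189) (nat_lit 1) (nat_lit 191) (nat_lit 1) (nat_lit 339) (nat_lit 373) (nat_lit 308)) (XT.nd (nat_lit 78) (nat_lit 0) (nat_lit 0) (XT.lf (nat_lit 152) (nat_lit 2598458191) (nat_lit 0) (nat_lit 1490964409) (nat_lit 76) (nat_lit 1490964409) (nat_lit 190) (nat_lit 1) (nat_lit 188) (nat_lit 1) (nat_lit 189) (nat_lit 1) (nat_lit 340) (nat_lit 373) (nat_lit 307)) (XT.lf (nat_lit 0) (nat_lit 431838631) (nat_lit 0) (nat_lit 4624119511) (nat_lit 152) (nat_lit 431838631) (nat_lit 188) (nat_lit 3) (nat_lit 188) (nat_lit 1) (nat_lit 190) (nat_lit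 1) (nat_lit 341) (nat_lit 373) (nat_lit 306)))) (XT.nd (nat_lit 78) (nat_lit 76) (nat_lit 0) (XT.lf (nat_lit 76) (nat_lit 2279968271) (nat_lit 0) (nat_lit 835453748) (nat_lit 152) (nat_lit 2279968271) (nat_lit 187) (nat_lit 1) (nat_lit 186) (nat_lit 1) (nat_lit 188) (nat_lit 1) (nat_lit 342) (nat_lit 373) (nat_lit 305)) (XT.nd (nat_lit 78) (nat_lit 0) (nat_lit 0) (XT.lf (nat_lit 152) (nat_lit 2852207124) (nat_lit 0) (nat_lit 1226620109) (nat_lit 76) (nat_lit 1226620109) (nat_lit 187) (nat_lit 1) (nat_lit 185) (nat_lit 1) (nat_lit 186) (nat_lit 1) (nat_lit 343) (nat_lit 373) (nat_lit 304)) (XT.lf (nat_lit 0) (nat_lit 589520330) (nat_lit 0) (nat_lit 4038520185) (nat_lit 152) (nat_lit 589520330) (nat_lit 185) (nat_lit 3) (nat_lit 185) (nat_lit 1) (nat_lit 187) (nat_lit 1) (nat_lit 344) (nat_lit 373) (nat_lit 303))))) (XT.nd (nat_lit 234) (nat_lit 304) (nat_lit 0) (XT.nd (nat_lit 78) (nat_lit 76) (nat_lit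 0) (XT.lf (nat_lit 76) (nat_lit 2333072225) (nat_lit 0) (nat_lit 464238800) (nat_lit 152) (nat_lit 2333072225) (nat_lit 184) (nat_lit 1) (nat_lit 183) (nat_lit 1) (nat_lit 185) (nat_lit 1) (nat_lit 345) (nat_lit 373) (nat_lit 302)) (XT.nd (nat_lit 78) (nat_lit 0) (nat_lit 0) (XT.lf (nat_lit 152) (nat_lit 3026945612) (nat_lit 0) (nat_lit 1009143399) (nat_lit 76) (nat_lit 1009143399) (nat_lit 184) (nat_lit 1) (nat_lit 182) (nat_lit 1) (nat_lit 183) (nat_lit 1) (nat_lit 346) (nat_lit 373) (nat_lit 301)) (XT.lf (nat_lit 0) (nat_lit 708090901) (nat_lit 0) (nat_lit 3545591617) (nat_lit 152) (nat_lit 708090901) (nat_lit 182) (nat_lit 3) (nat_lit 182) (nat_lit 1) (nat_lit 184) (nat_lit 1) (nat_lit 347) (nat_lit 373) (nat_lit 300)))) (XT.nd (nat_lit 156) (nat_lit 76) (nat_lit 0) (XT.nd (nat_lit 78) (nat_lit 76) (nat_lit 0) (XT.lf (nat_lit 76) (nat_lit 2354983042) (nat_lit 0) (nat_lit 169462727) (nat_lit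 152) (nat_lit 2354983042) (nat_lit 181) (nat_lit 1) (nat_lit 180) (nat_lit 1) (nat_lit 182) (nat_lit 1) (nat_lit 348) (nat_lit 373) (nat_lit 299)) (XT.lf (nat_lit 152) (nat_lit 3138302077) (nat_lit 0) (nat_lit 830224772) (nat_lit 76) (nat_lit 830224772) (nat_lit 181) (nat_lit 1) (nat_lit 179) (nat_lit 1) (nat_lit 180) (nat_lit 1) (nat_lit 349) (nat_lit 373) (nat_lit 298))) (XT.nd (nat_lit 78) (nat_lit 76) (nat_lit 0) (XT.lf (nat_lit 0) (nat_lit 795015818) (nat_lit 0) (nat_lit 3129434680) (nat_lit 152) (nat_lit 795015818) (nat_lit 179) (nat_lit 3) (nat_lit 179) (nat_lit 1) (nat_lit 181) (nat_lit 1) (nat_lit 350) (nat_lit 373) (nat_lit 297)) (XT.lf (nat_lit 76) (nat_lit 65013609) (nat_lit 0) (nat_lit 2288269667) (nat_lit 76) (nat_lit 2288269667) (nat_lit 179) (nat_lit 3) (nat_lit 178) (nat_lit 1) (nat_lit 179) (nat_lit 1) (nat_lit 351) (nat_lit 373) (nat_lit 296)))))) (XT.nd (nat_lit 468) (nat_lit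 608) (nat_lit 0) (XT.nd (nat_lit 234) (nat_lit 228) (nat_lit 0) (XT.nd (nat_lit 78) (nat_lit 76) (nat_lit 0) (XT.lf (nat_lit 152) (nat_lit 3199056914) (nat_lit 0) (nat_lit 683027974) (nat_lit 76) (nat_lit 683027974) (nat_lit 178) (nat_lit 1) (nat_lit 176) (nat_lit 1) (nat_lit 177) (nat_lit 1) (nat_lit 352) (nat_lit 373) (nat_lit 295)) (XT.nd (nat_lit 78) (nat_lit 76) (nat_lit 0) (XT.lf (nat_lit 0) (nat_lit 856411655) (nat_lit 0) (nat_lit 2776943829) (nat_lit 152) (nat_lit 856411655) (nat_lit 176) (nat_lit 3) (nat_lit 176) (nat_lit 1) (nat_lit 178) (nat_lit 1) (nat_lit 353) (nat_lit 373) (nat_lit 294)) (XT.lf (nat_lit 76) (nat_lit 252573318) (nat_lit 0) (nat_lit 2081651579) (nat_lit 76) (nat_lit 2081651579) (nat_lit 176) (nat_lit 3) (nat_lit 175) (nat_lit 1) (nat_lit 176) (nat_lit 1) (nat_lit 354) (nat_lit 373) (nat_lit 293)))) (XT.nd (nat_lit 78) (nat_lit 76) (nat_lit 0) (XT.lf (nat_lit 152) (nat_lit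 3219651116) (nat_lit 0) (nat_lit 561928805) (nat_lit 76) (nat_lit 561928805) (nat_lit 175) (nat_lit 1) (nat_lit 173) (nat_lit 1) (nat_lit 174) (nat_lit 1) (nat_lit 355) (nat_lit 373) (nat_lit 292)) (XT.nd (nat_lit 78) (nat_lit 76) (nat_lit 0) (XT.lf (nat_lit 0) (nat_lit 897286439) (nat_lit 0) (nat_lit 2477313012) (nat_lit 152) (nat_lit 897286439) (nat_lit 173) (nat_lit 3) (nat_lit 173) (nat_lit 1) (nat_lit 175) (nat_lit 1) (nat_lit 356) (nat_lit 373) (nat_lit 291)) (XT.lf (nat_lit 76) (nat_lit 397398847) (nat_lit 0) (nat_lit 1902186059) (nat_lit 76) (nat_lit 1902186059) (nat_lit 173) (nat_lit 3) (nat_lit 172) (nat_lit 1) (nat_lit 173) (nat_lit 1) (nat_lit 357) (nat_lit 373) (nat_lit 290))))) (XT.nd (nat_lit 234) (nat_lit 380) (nat_lit 0) (XT.nd (nat_lit 78) (nat_lit 76) (nat_lit 0) (XT.lf (nat_lit 152) (nat_lit 3208604537) (nat_lit 0) (nat_lit 462300218) (nat_lit 76) (nat_lit 462300218) (nat_lit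 172) (nat_lit 1) (nat_lit 170) (nat_lit 1) (nat_lit 171) (nat_lit 1) (nat_lit 358) (nat_lit 373) (nat_lit 289)) (XT.nd (nat_lit 78) (nat_lit 76) (nat_lit 0) (XT.lf (nat_lit 0) (nat_lit 921737346) (nat_lit 0) (nat_lit 2221629118) (nat_lit 152) (nat_lit 921737346) (nat_lit 170) (nat_lit 3) (nat_lit 170) (nat_lit 1) (nat_lit 172) (nat_lit 1) (nat_lit 359) (nat_lit 373) (nat_lit 288)) (XT.lf (nat_lit 76) (nat_lit 507518304) (nat_lit 0) (nat_lit 1745510467) (nat_lit 76) (nat_lit 1745510467) (nat_lit 170) (nat_lit 3) (nat_lit 169) (nat_lit 1) (nat_lit 170) (nat_lit 1) (nat_lit 360) (nat_lit 373) (nat_lit 287)))) (XT.nd (nat_lit 156) (nat_lit 228) (nat_lit 0) (XT.nd (nat_lit 78) (nat_lit 0) (nat_lit 0) (XT.lf (nat_lit 152) (nat_lit 3172859841) (nat_lit 0) (nat_lit 380335534) (nat_lit 76) (nat_lit 380335534) (nat_lit 169) (nat_lit 1) (nat_lit 167) (nat_lit 1) (nat_lit 168) (nat_lit 1) (nat_lit 361) (nat_lit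 373) (nat_lit 286)) (XT.lf (nat_lit 0) (nat_lit 933113284) (nat_lit 0) (nat_lit 2002537461) (nat_lit 152) (nat_lit 933113284) (nat_lit 167) (nat_lit 3) (nat_lit 167) (nat_lit 1) (nat_lit 169) (nat_lit 1) (nat_lit 362) (nat_lit 373) (nat_lit 285))) (XT.nd (nat_lit 78) (nat_lit 152) (nat_lit 0) (XT.lf (nat_lit 76) (nat_lit 589514935) (nat_lit 0) (nat_lit 1608014152) (nat_lit 76) (nat_lit 1608014152) (nat_lit 167) (nat_lit 3) (nat_lit 166) (nat_lit 1) (nat_lit 167) (nat_lit 1) (nat_lit 363) (nat_lit 373) (nat_lit 284)) (XT.lf (nat_lit 152) (nat_lit 3118065308) (nat_lit 0) (nat_lit 312902985) (nat_lit 76) (nat_lit 312902985) (nat_lit 166) (nat_lit 1) (nat_lit 164) (nat_lit 1) (nat_lit 165) (nat_lit 1) (nat_lit 364) (nat_lit 373) (nat_lit 283))))))))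
noncomputable def ec150 : XT := (XT.nd (nat_lit 1950) (nat_lit 1900) (nat_lit 0) (XT.nd (nat_lit 936) (nat_lit 912) (nat_lit 0) (XT.nd (nat_lit 468) (nat_lit 456) (nat_lit 0) (XT.nd (nat_lit 234) (nat_lit 228) (nat_lit 0) (XT.nd (nat_lit 78) (nat_lit 228) (nat_lit 0) (XT.lf (nat_lit 0) (nat_lit 934148596) (nat_lit 0) (nat_lit 1813966514) (nat_lit 152) (nat_lit 934148596) (nat_lit 164) (nat_lit 3) (nat_lit 164) (nat_lit 1) (nat_lit 166) (nat_lit 1) (nat_lit 365) (nat_lit 373) (nat_lit 282)) (XT.nd (nat_lit 78) (nat_lit 152) (nat_lit 0) (XT.lf (nat_lit 76) (nat_lit 648784320) (nat_lit 0) (nat_lit 1486706146) (nat_lit 76) (nat_lit 1486706146) (nat_lit 164) (nat_lit 3) (nat_lit 163) (nat_lit 1) (nat_lit 164) (nat_lit 1) (nat_lit 366) (nat_lit 373) (nat_lit 281)) (XT.lf (nat_lit 152) (nat_lit 3048807346) (nat_lit 0) (nat_lit 257426060) (nat_lit 76) (nat_lit 257426060) (nat_lit 163) (nat_lit 1) (nat_lit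 161) (nat_lit 1) (nat_lit 162) (nat_lit 1) (nat_lit 367) (nat_lit 373) (nat_lit 280)))) (XT.nd (nat_lit 78) (nat_lit 228) (nat_lit 0) (XT.lf (nat_lit 0) (nat_lit 927073017) (nat_lit 0) (nat_lit 1650901396) (nat_lit 152) (nat_lit 927073017) (nat_lit 161) (nat_lit 3) (nat_lit 161) (nat_lit 1) (nat_lit 163) (nat_lit 1) (nat_lit 368) (nat_lit 373) (nat_lit 279)) (XT.nd (nat_lit 78) (nat_lit 152) (nat_lit 0) (XT.lf (nat_lit 76) (nat_lit 689745917) (nat_lit 0) (nat_lit 1379106277) (nat_lit 76) (nat_lit 1379106277) (nat_lit 161) (nat_lit 3) (nat_lit 160) (nat_lit 1) (nat_lit 161) (nat_lit 1) (nat_lit 369) (nat_lit 373) (nat_lit 278)) (XT.lf (nat_lit 152) (nat_lit 2968801634) (nat_lit 0) (nat_lit 211785056) (nat_lit 76) (nat_lit 211785056) (nat_lit 160) (nat_lit 1) (nat_lit 158) (nat_lit 1) (nat_lit 159) (nat_lit 1) (nat_lit 370) (nat_lit 373) (nat_lit 277))))) (XT.nd (nat_lit 234) (nat_lit 228) (nat_lit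 0) (XT.nd (nat_lit 78) (nat_lit 228) (nat_lit 0) (XT.lf (nat_lit 0) (nat_lit 913702081) (nat_lit 0) (nat_lit 1509197479) (nat_lit 152) (nat_lit 913702081) (nat_lit 158) (nat_lit 3) (nat_lit 158) (nat_lit 1) (nat_lit 160) (nat_lit 1) (nat_lit 371) (nat_lit 373) (nat_lit 276)) (XT.nd (nat_lit 78) (nat_lit 152) (nat_lit 0) (XT.lf (nat_lit 76) (nat_lit 716017055) (nat_lit 0) (nat_lit 1283155530) (nat_lit 76) (nat_lit 1283155530) (nat_lit 158) (nat_lit 3) (nat_lit 157) (nat_lit 1) (nat_lit 158) (nat_lit 1) (nat_lit 372) (nat_lit 373) (nat_lit 275)) (XT.lf (nat_lit 152) (nat_lit 2881050247) (nat_lit 0) (nat_lit 174236090) (nat_lit 76) (nat_lit 174236090) (nat_lit 157) (nat_lit 1) (nat_lit 155) (nat_lit 1) (nat_lit 156) (nat_lit 1) (nat_lit 373) (nat_lit 373) (nat_lit 274)))) (XT.nd (nat_lit 78) (nat_lit 228) (nat_lit 0) (XT.lf (nat_lit 0) (nat_lit 895511453) (nat_lit 0) (nat_lit 1385426991) (nat_lit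 152) (nat_lit 895511453) (nat_lit 155) (nat_lit 3) (nat_lit 155) (nat_lit 1) (nat_lit 157) (nat_lit 1) (nat_lit 374) (nat_lit 373) (nat_lit 273)) (XT.nd (nat_lit 78) (nat_lit 152) (nat_lit 0) (XT.lf (nat_lit 76) (nat_lit 730556034) (nat_lit 0) (nat_lit 1197142261) (nat_lit 76) (nat_lit 1197142261) (nat_lit 155) (nat_lit 3) (nat_lit 154) (nat_lit 1) (nat_lit 155) (nat_lit 1) (nat_lit 375) (nat_lit 373) (nat_lit 272)) (XT.lf (nat_lit 152) (nat_lit 2787970784) (nat_lit 0) (nat_lit 143344462) (nat_lit 76) (nat_lit 143344462) (nat_lit 154) (nat_lit 1) (nat_lit 152) (nat_lit 1) (nat_lit 153) (nat_lit 1) (nat_lit 376) (nat_lit 373) (nat_lit 271)))))) (XT.nd (nat_lit 468) (nat_lit 456) (nat_lit 0) (XT.nd (nat_lit 234) (nat_lit 228) (nat_lit 0) (XT.nd (nat_lit 78) (nat_lit 228) (nat_lit 0) (XT.lf (nat_lit 0) (nat_lit 873698051) (nat_lit 0) (nat_lit 1276752776) (nat_lit 152) (nat_lit 873698051) (nat_lit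 152) (nat_lit 3) (nat_lit 152) (nat_lit 1) (nat_lit 154) (nat_lit 1) (nat_lit 377) (nat_lit 373) (nat_lit 270)) (XT.nd (nat_lit 78) (nat_lit 152) (nat_lit 0) (XT.lf (nat_lit 76) (nat_lit 735779811) (nat_lit 0) (nat_lit 1119641454) (nat_lit 76) (nat_lit 1119641454) (nat_lit 152) (nat_lit 3) (nat_lit 151) (nat_lit 1) (nat_lit 152) (nat_lit 1) (nat_lit 378) (nat_lit 373) (nat_lit 269)) (XT.lf (nat_lit 152) (nat_lit 2691502478) (nat_lit 0) (nat_lit 117929844) (nat_lit 76) (nat_lit 117929844) (nat_lit 151) (nat_lit 1) (nat_lit 149) (nat_lit 1) (nat_lit 150) (nat_lit 1) (nat_lit 379) (nat_lit 373) (nat_lit 268)))) (XT.nd (nat_lit 78) (nat_lit 228) (nat_lit 0) (XT.lf (nat_lit 0) (nat_lit 849230275) (nat_lit 0) (nat_lit 1180824395) (nat_lit 152) (nat_lit 849230275) (nat_lit 149) (nat_lit 3) (nat_lit 149) (nat_lit 1) (nat_lit 151) (nat_lit 1) (nat_lit 380) (nat_lit 373) (nat_lit 267)) (XT.nd (nat_lit 78)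 (nat_lit 152) (nat_lit 0) (XT.lf (nat_lit 76) (nat_lit 733660779) (nat_lit 0) (nat_lit 1049464703) (nat_lit 76) (nat_lit 1049464703) (nat_lit 149) (nat_lit 3) (nat_lit 148) (nat_lit 1) (nat_lit 149) (nat_lit 1) (nat_lit 381) (nat_lit 373) (nat_lit 266)) (XT.lf (nat_lit 152) (nat_lit 2593193382) (nat_lit 0) (nat_lit 97021174) (nat_lit 76) (nat_lit 97021174) (nat_lit 148) (nat_lit 1) (nat_lit 146) (nat_lit 1) (nat_lit 147) (nat_lit 1) (nat_lit 382) (nat_lit 373) (nat_lit 265))))) (XT.nd (nat_lit 234) (nat_lit 228) (nat_lit 0) (XT.nd (nat_lit 78) (nat_lit 228) (nat_lit 0) (XT.lf (nat_lit 0) (nat_lit 822889302) (nat_lit 0) (nat_lit 1095692605) (nat_lit 152) (nat_lit 822889302) (nat_lit 146) (nat_lit 3) (nat_lit 146) (nat_lit 1) (nat_lit 148) (nat_lit 1) (nat_lit 383) (nat_lit 373) (nat_lit 264)) (XT.nd (nat_lit 78) (nat_lit 152) (nat_lit 0) (XT.lf (nat_lit 76) (nat_lit 725806355) (nat_lit 0) (nat_lit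 985619025) (nat_lit 76) (nat_lit 985619025) (nat_lit 146) (nat_lit 3) (nat_lit 145) (nat_lit 1) (nat_lit 146) (nat_lit 1) (nat_lit 384) (nat_lit 373) (nat_lit 263)) (XT.lf (nat_lit 152) (nat_lit 2494271977) (nat_lit 0) (nat_lit 79819560) (nat_lit 76) (nat_lit 79819560) (nat_lit 145) (nat_lit 1) (nat_lit 143) (nat_lit 1) (nat_lit 144) (nat_lit 1) (nat_lit 385) (nat_lit 373) (nat_lit 262)))) (XT.nd (nat_lit 156) (nat_lit 152) (nat_lit 0) (XT.nd (nat_lit 78) (nat_lit 76) (nat_lit 0) (XT.lf (nat_lit 0) (nat_lit 795303021) (nat_lit 0) (nat_lit 1019738973) (nat_lit 152) (nat_lit 795303021) (nat_lit 143) (nat_lit 3) (nat_lit 143) (nat_lit 1) (nat_lit 145) (nat_lit 1) (nat_lit 386) (nat_lit 373) (nat_lit 261)) (XT.lf (nat_lit 76) (nat_lit 713524415) (nat_lit 0) (nat_lit 927272942) (nat_lit 76) (nat_lit 927272942) (nat_lit 143) (nat_lit 3) (nat_lit 142) (nat_lit 1) (nat_lit 143) (nat_lit 1) (nat_lit 387)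 (nat_lit 373) (nat_lit 260))) (XT.nd (nat_lit 78) (nat_lit 0) (nat_lit 0) (XT.lf (nat_lit 152) (nat_lit 2395705981) (nat_lit 0) (nat_lit 65667750) (nat_lit 76) (nat_lit 65667750) (nat_lit 142) (nat_lit 1) (nat_lit 140) (nat_lit 1) (nat_lit 141) (nat_lit 1) (nat_lit 388) (nat_lit 373) (nat_lit 259)) (XT.lf (nat_lit 0) (nat_lit 766973912) (nat_lit 0) (nat_lit 951617925) (nat_lit 152) (nat_lit 766973912) (nat_lit 140) (nat_lit 3) (nat_lit 140) (nat_lit 1) (nat_lit 142) (nat_lit 1) (nat_lit 389) (nat_lit 373) (nat_lit 258))))))) (XT.nd (nat_lit 936) (nat_lit 988) (nat_lit 0) (XT.nd (nat_lit 468) (nat_lit 456) (nat_lit 0) (XT.nd (nat_lit 234) (nat_lit 228) (nat_lit 0) (XT.nd (nat_lit 78) (nat_lit 152) (nat_lit 0) (XT.lf (nat_lit 76) (nat_lit 697877093) (nat_lit 0) (nat_lit 873728535) (nat_lit 76) (nat_lit 873728535) (nat_lit 140) (nat_lit 3) (nat_lit 139) (nat_lit 1) (nat_lit 140) (nat_lit 1) (nat_lit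 390) (nat_lit 373) (nat_lit 257)) (XT.nd (nat_lit 78) (nat_lit 0) (nat_lit 0) (XT.lf (nat_lit 152) (nat_lit 2298250622) (nat_lit 0) (nat_lit 54025020) (nat_lit 76) (nat_lit 54025020) (nat_lit 139) (nat_lit 1) (nat_lit 137) (nat_lit 1) (nat_lit 138) (nat_lit 1) (nat_lit 391) (nat_lit 373) (nat_lit 256)) (XT.lf (nat_lit 0) (nat_lit 738301952) (nat_lit 0) (nat_lit 890209039) (nat_lit 152) (nat_lit 738301952) (nat_lit 137) (nat_lit 3) (nat_lit 137) (nat_lit 1) (nat_lit 139) (nat_lit 1) (nat_lit 392) (nat_lit 373) (nat_lit 255)))) (XT.nd (nat_lit 78) (nat_lit 152) (nat_lit 0) (XT.lf (nat_lit 76) (nat_lit 679725012) (nat_lit 0) (nat_lit 824398429) (nat_lit 76) (nat_lit 824398429) (nat_lit 137) (nat_lit 3) (nat_lit 136) (nat_lit 1) (nat_lit 137) (nat_lit 1) (nat_lit 393) (nat_lit 373) (nat_lit 254)) (XT.nd (nat_lit 78) (nat_lit 0) (nat_lit 0) (XT.lf (nat_lit 152) (nat_lit 2202488267) (nat_lit 0) (nat_lit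 44446518) (nat_lit 76) (nat_lit 44446518) (nat_lit 136) (nat_lit 1) (nat_lit 134) (nat_lit 1) (nat_lit 135) (nat_lit 1) (nat_lit 394) (nat_lit 373) (nat_lit 253)) (XT.lf (nat_lit 0) (nat_lit 709603431) (nat_lit 0) (nat_lit 834577768) (nat_lit 152) (nat_lit 709603431) (nat_lit 134) (nat_lit 3) (nat_lit 134) (nat_lit 1) (nat_lit 136) (nat_lit 1) (nat_lit 395) (nat_lit 373) (nat_lit 252))))) (XT.nd (nat_lit 234) (nat_lit 228) (nat_lit 0) (XT.nd (nat_lit 78) (nat_lit 152) (nat_lit 0) (XT.lf (nat_lit 76) (nat_lit 659763641) (nat_lit 0) (nat_lit 778786819) (nat_lit 76) (nat_lit 778786819) (nat_lit 134) (nat_lit 3) (nat_lit 133) (nat_lit 1) (nat_lit 134) (nat_lit 1) (nat_lit 396) (nat_lit 373) (nat_lit 251)) (XT.nd (nat_lit 78) (nat_lit 0) (nat_lit 0) (XT.lf (nat_lit 152) (nat_lit 2108860923) (nat_lit 0) (nat_lit 36566260) (nat_lit 76) (nat_lit 36566260) (nat_lit 133) (nat_lit 1) (nat_lit 131) (nat_lit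 1) (nat_lit 132) (nat_lit 1) (nat_lit 397) (nat_lit 373) (nat_lit 250)) (XT.lf (nat_lit 0) (nat_lit 681126392) (nat_lit 0) (nat_lit 783943088) (nat_lit 152) (nat_lit 681126392) (nat_lit 131) (nat_lit 3) (nat_lit 131) (nat_lit 1) (nat_lit 133) (nat_lit 1) (nat_lit 398) (nat_lit 373) (nat_lit 249)))) (XT.nd (nat_lit 78) (nat_lit 152) (nat_lit 0) (XT.lf (nat_lit 76) (nat_lit 638553172) (nat_lit 0) (nat_lit 736473835) (nat_lit 76) (nat_lit 736473835) (nat_lit 131) (nat_lit 3) (nat_lit 130) (nat_lit 1) (nat_lit 131) (nat_lit 1) (nat_lit 399) (nat_lit 373) (nat_lit 248)) (XT.nd (nat_lit 78) (nat_lit 0) (nat_lit 0) (XT.lf (nat_lit 152) (nat_lit 2017696885) (nat_lit 0) (nat_lit 30083152) (nat_lit 76) (nat_lit 30083152) (nat_lit 130) (nat_lit 1) (nat_lit 128) (nat_lit 1) (nat_lit 129) (nat_lit 1) (nat_lit 400) (nat_lit 373) (nat_lit 247)) (XT.lf (nat_lit 0) (nat_lit 653063314) (nat_lit 0) (nat_lit 737650864)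 (nat_lit 152) (nat_lit 653063314) (nat_lit 128) (nat_lit 3) (nat_lit 128) (nat_lit 1) (nat_lit 130) (nat_lit 1) (nat_lit 401) (nat_lit 373) (nat_lit 246)))))) (XT.nd (nat_lit 468) (nat_lit 532) (nat_lit 0) (XT.nd (nat_lit 234) (nat_lit 228) (nat_lit 0) (XT.nd (nat_lit 78) (nat_lit 152) (nat_lit 0) (XT.lf (nat_lit 76) (nat_lit 616543077) (nat_lit 0) (nat_lit 697102648) (nat_lit 76) (nat_lit 697102648) (nat_lit 128) (nat_lit 3) (nat_lit 127) (nat_lit 1) (nat_lit 128) (nat_lit 1) (nat_lit 402) (nat_lit 373) (nat_lit 245)) (XT.nd (nat_lit 78) (nat_lit 0) (nat_lit 0) (XT.lf (nat_lit 152) (nat_lit 1929232588) (nat_lit 0) (nat_lit 24749484) (nat_lit 76) (nat_lit 24749484) (nat_lit 127) (nat_lit 1) (nat_lit 125) (nat_lit 1) (nat_lit 126) (nat_lit 1) (nat_lit 403) (nat_lit 373) (nat_lit 244)) (XT.lf (nat_lit 0) (nat_lit 625561515) (nat_lit 0) (nat_lit 695151902) (nat_lit 152) (nat_lit 625561515) (nat_lit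 125) (nat_lit 3) (nat_lit 125) (nat_lit 1) (nat_lit 127) (nat_lit 1) (nat_lit 404) (nat_lit 373) (nat_lit 243)))) (XT.nd (nat_lit 78) (nat_lit 152) (nat_lit 0) (XT.lf (nat_lit 76) (nat_lit 594092278) (nat_lit 0) (nat_lit 660368837) (nat_lit 76) (nat_lit 660368837) (nat_lit 125) (nat_lit 3) (nat_lit 124) (nat_lit 1) (nat_lit 125) (nat_lit 1) (nat_lit 405) (nat_lit 373) (nat_lit 242)) (XT.nd (nat_lit 78) (nat_lit 0) (nat_lit 0) (XT.lf (nat_lit 152) (nat_lit 1843630488) (nat_lit 0) (nat_lit 20361462) (nat_lit 76) (nat_lit 20361462) (nat_lit 124) (nat_lit 1) (nat_lit 122) (nat_lit 1) (nat_lit 123) (nat_lit 1) (nat_lit 406) (nat_lit 373) (nat_lit 241)) (XT.lf (nat_lit 0) (nat_lit 598731683) (nat_lit 0) (nat_lit 655983867) (nat_lit 152) (nat_lit 598731683) (nat_lit 122) (nat_lit 3) (nat_lit 122) (nat_lit 1) (nat_lit 124) (nat_lit 1) (nat_lit 407) (nat_lit 373) (nat_lit 240))))) (XT.nd (nat_lit 234) (nat_lit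 304) (nat_lit 0) (XT.nd (nat_lit 78) (nat_lit 152) (nat_lit 0) (XT.lf (nat_lit 76) (nat_lit 571485724) (nat_lit 0) (nat_lit 626011613) (nat_lit 76) (nat_lit 626011613) (nat_lit 122) (nat_lit 3) (nat_lit 121) (nat_lit 1) (nat_lit 122) (nat_lit 1) (nat_lit 408) (nat_lit 373) (nat_lit 239)) (XT.nd (nat_lit 78) (nat_lit 0) (nat_lit 0) (XT.lf (nat_lit 152) (nat_lit 1760993711) (nat_lit 0) (nat_lit 16751425) (nat_lit 76) (nat_lit 16751425) (nat_lit 121) (nat_lit 1) (nat_lit 119) (nat_lit 1) (nat_lit 120) (nat_lit 1) (nat_lit 409) (nat_lit 373) (nat_lit 238)) (XT.lf (nat_lit 0) (nat_lit 572654872) (nat_lit 0) (nat_lit 619756385) (nat_lit 152) (nat_lit 572654872) (nat_lit 119) (nat_lit 3) (nat_lit 119) (nat_lit 1) (nat_lit 121) (nat_lit 1) (nat_lit 410) (nat_lit 373) (nat_lit 237)))) (XT.nd (nat_lit 156) (nat_lit 76) (nat_lit 0) (XT.nd (nat_lit 78) (nat_lit 152) (nat_lit 0) (XT.lf (nat_lit 76) (nat_lit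 548947993) (nat_lit 0) (nat_lit 593806576) (nat_lit 76) (nat_lit 593806576) (nat_lit 119) (nat_lit 3) (nat_lit 118) (nat_lit 1) (nat_lit 119) (nat_lit 1) (nat_lit 411) (nat_lit 373) (nat_lit 236)) (XT.lf (nat_lit 152) (nat_lit 1681378024) (nat_lit 0) (nat_lit 13781438) (nat_lit 76) (nat_lit 13781438) (nat_lit 118) (nat_lit 1) (nat_lit 116) (nat_lit 1) (nat_lit 117) (nat_lit 1) (nat_lit 412) (nat_lit 373) (nat_lit 235))) (XT.nd (nat_lit 78) (nat_lit 76) (nat_lit 0) (XT.lf (nat_lit 0) (nat_lit 547388233) (nat_lit 0) (nat_lit 586138764) (nat_lit 152) (nat_lit 547388233) (nat_lit 116) (nat_lit 3) (nat_lit 116) (nat_lit 1) (nat_lit 118) (nat_lit 1) (nat_lit 413) (nat_lit 373) (nat_lit 234)) (XT.lf (nat_lit 76) (nat_lit 526654465) (nat_lit 0) (nat_lit 563559733) (nat_lit 76) (nat_lit 563559733) (nat_lit 116) (nat_lit 3) (nat_lit 115) (nat_lit 1) (nat_lit 116) (nat_lit 1) (nat_lit 414) (nat_lit 373) (nat_lit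 233))))))))
noncomputable def ec151 : XT := (XT.nd (nat_lit 1950) (nat_lit 684) (nat_lit 0) (XT.nd (nat_lit 936) (nat_lit 1064) (nat_lit 0) (XT.nd (nat_lit 468) (nat_lit 456) (nat_lit 0) (XT.nd (nat_lit 234) (nat_lit 228) (nat_lit 0) (XT.nd (nat_lit 78) (nat_lit 76) (nat_lit 0) (XT.lf (nat_lit 152) (nat_lit 1604801613) (nat_lit 0) (nat_lit 11338023) (nat_lit 76) (nat_lit 11338023) (nat_lit 115) (nat_lit 1) (nat_lit 113) (nat_lit 1) (nat_lit 114) (nat_lit 1) (nat_lit 415) (nat_lit 373) (nat_lit 232)) (XT.nd (nat_lit 78) (nat_lit 76) (nat_lit 0) (XT.lf (nat_lit 0) (nat_lit 522969704) (nat_lit 0) (nat_lit 554849862) (nat_lit 152) (nat_lit 522969704) (nat_lit 113) (nat_lit 3) (nat_lit 113) (nat_lit 1) (nat_lit 115) (nat_lit 1) (nat_lit 416) (nat_lit 373) (nat_lit 231)) (XT.lf (nat_lit 76) (nat_lit 504740497) (nat_lit 0) (nat_lit 535102552) (nat_lit 76) (nat_lit 535102552) (nat_lit 113) (nat_lit 3)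 (nat_lit 112) (nat_lit 1) (nat_lit 113) (nat_lit 1) (nat_lit 417) (nat_lit 373) (nat_lit 230)))) (XT.nd (nat_lit 78) (nat_lit 76) (nat_lit 0) (XT.lf (nat_lit 152) (nat_lit 1531253070) (nat_lit 0) (nat_lit 9327820) (nat_lit 76) (nat_lit 9327820) (nat_lit 112) (nat_lit 1) (nat_lit 110) (nat_lit 1) (nat_lit 111) (nat_lit 1) (nat_lit 418) (nat_lit 373) (nat_lit 229)) (XT.nd (nat_lit 78) (nat_lit 76) (nat_lit 0) (XT.lf (nat_lit 0) (nat_lit 499421850) (nat_lit 0) (nat_lit 525649735) (nat_lit 152) (nat_lit 499421850) (nat_lit 110) (nat_lit 3) (nat_lit 110) (nat_lit 1) (nat_lit 112) (nat_lit 1) (nat_lit 419) (nat_lit 373) (nat_lit 228)) (XT.lf (nat_lit 76) (nat_lit 483308937) (nat_lit 0) (nat_lit 508287875) (nat_lit 76) (nat_lit 508287875) (nat_lit 110) (nat_lit 3) (nat_lit 109) (nat_lit 1) (nat_lit 110) (nat_lit 1) (nat_lit 420) (nat_lit 373) (nat_lit 227))))) (XT.nd (nat_lit 234) (nat_lit 228) (nat_lit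 0) (XT.nd (nat_lit 78) (nat_lit 76) (nat_lit 0) (XT.lf (nat_lit 152) (nat_lit 1460697891) (nat_lit 0) (nat_lit 7674020) (nat_lit 76) (nat_lit 7674020) (nat_lit 109) (nat_lit 1) (nat_lit 107) (nat_lit 1) (nat_lit 108) (nat_lit 1) (nat_lit 421) (nat_lit 373) (nat_lit 226)) (XT.nd (nat_lit 78) (nat_lit 76) (nat_lit 0) (XT.lf (nat_lit 0) (nat_lit 476755002) (nat_lit 0) (nat_lit 498332748) (nat_lit 152) (nat_lit 476755002) (nat_lit 107) (nat_lit 3) (nat_lit 107) (nat_lit 1) (nat_lit 109) (nat_lit 1) (nat_lit 422) (nat_lit 373) (nat_lit 225)) (XT.lf (nat_lit 76) (nat_lit 462436297) (nat_lit 0) (nat_lit 482986532) (nat_lit 76) (nat_lit 482986532) (nat_lit 107) (nat_lit 3) (nat_lit 106) (nat_lit 1) (nat_lit 107) (nat_lit 1) (nat_lit 423) (nat_lit 373) (nat_lit 224)))) (XT.nd (nat_lit 78) (nat_lit 76) (nat_lit 0) (XT.lf (nat_lit 152) (nat_lit 1393083771) (nat_lit 0) (nat_lit 6313435) (nat_lit 76) (nat_lit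 6313435) (nat_lit 106) (nat_lit 1) (nat_lit 104) (nat_lit 1) (nat_lit 105) (nat_lit 1) (nat_lit 424) (nat_lit 373) (nat_lit 223)) (XT.nd (nat_lit 78) (nat_lit 76) (nat_lit 0) (XT.lf (nat_lit 0) (nat_lit 454969815) (nat_lit 0) (nat_lit 472721880) (nat_lit 152) (nat_lit 454969815) (nat_lit 104) (nat_lit 3) (nat_lit 104) (nat_lit 1) (nat_lit 106) (nat_lit 1) (nat_lit 425) (nat_lit 373) (nat_lit 222)) (XT.lf (nat_lit 76) (nat_lit 442177809) (nat_lit 0) (nat_lit 459084538) (nat_lit 76) (nat_lit 459084538) (nat_lit 104) (nat_lit 3) (nat_lit 103) (nat_lit 1) (nat_lit 104) (nat_lit 1) (nat_lit 426) (nat_lit 373) (nat_lit 221)))))) (XT.nd (nat_lit 468) (nat_lit 608) (nat_lit 0) (XT.nd (nat_lit 234) (nat_lit 228) (nat_lit 0) (XT.nd (nat_lit 78) (nat_lit 76) (nat_lit 0) (XT.lf (nat_lit 152) (nat_lit 1328344895) (nat_lit 0) (nat_lit 5194079) (nat_lit 76) (nat_lit 5194079) (nat_lit 103) (nat_lit 1) (nat_lit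 101) (nat_lit 1) (nat_lit 102) (nat_lit 1) (nat_lit 427) (nat_lit 373) (nat_lit 220)) (XT.nd (nat_lit 78) (nat_lit 76) (nat_lit 0) (XT.lf (nat_lit 0) (nat_lit 434059360) (nat_lit 0) (nat_lit 448664028) (nat_lit 152) (nat_lit 434059360) (nat_lit 101) (nat_lit 3) (nat_lit 101) (nat_lit 1) (nat_lit 103) (nat_lit 1) (nat_lit 428) (nat_lit 373) (nat_lit 219)) (XT.lf (nat_lit 76) (nat_lit 422571562) (nat_lit 0) (nat_lit 436480769) (nat_lit 76) (nat_lit 436480769) (nat_lit 101) (nat_lit 3) (nat_lit 100) (nat_lit 1) (nat_lit 101) (nat_lit 1) (nat_lit 429) (nat_lit 373) (nat_lit 218)))) (XT.nd (nat_lit 78) (nat_lit 76) (nat_lit 0) (XT.lf (nat_lit 152) (nat_lit 1266405423) (nat_lit 0) (nat_lit 4273181) (nat_lit 76) (nat_lit 4273181) (nat_lit 100) (nat_lit 1) (nat_lit 98) (nat_lit 1) (nat_lit 99) (nat_lit 1) (nat_lit 430) (nat_lit 373) (nat_lit 217)) (XT.nd (nat_lit 78) (nat_lit 76) (nat_lit 0) (XT.lf (nat_lit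 0) (nat_lit 414010821) (nat_lit 0) (nat_lit 426026117) (nat_lit 152) (nat_lit 414010821) (nat_lit 98) (nat_lit 3) (nat_lit 98) (nat_lit 1) (nat_lit 100) (nat_lit 1) (nat_lit 431) (nat_lit 373) (nat_lit 216)) (XT.lf (nat_lit 76) (nat_lit 403641892) (nat_lit 0) (nat_lit 415085031) (nat_lit 76) (nat_lit 415085031) (nat_lit 98) (nat_lit 3) (nat_lit 97) (nat_lit 1) (nat_lit 98) (nat_lit 1) (nat_lit 432) (nat_lit 373) (nat_lit 215))))) (XT.nd (nat_lit 234) (nat_lit 380) (nat_lit 0) (XT.nd (nat_lit 78) (nat_lit 76) (nat_lit 0) (XT.lf (nat_lit 152) (nat_lit 1207182295) (nat_lit 0) (nat_lit 3515557) (nat_lit 76) (nat_lit 3515557) (nat_lit 97) (nat_lit 1) (nat_lit 95) (nat_lit 1) (nat_lit 96) (nat_lit 1) (nat_lit 433) (nat_lit 373) (nat_lit 214)) (XT.nd (nat_lit 78) (nat_lit 76) (nat_lit 0) (XT.lf (nat_lit 0) (nat_lit 394806881) (nat_lit 0) (nat_lit 404691895) (nat_lit 152) (nat_lit 394806881) (nat_lit 95)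 (nat_lit 3) (nat_lit 95) (nat_lit 1) (nat_lit 97) (nat_lit 1) (nat_lit 434) (nat_lit 373) (nat_lit 213)) (XT.lf (nat_lit 76) (nat_lit 385402157) (nat_lit 0) (nat_lit 394816456) (nat_lit 76) (nat_lit 394816456) (nat_lit 95) (nat_lit 3) (nat_lit 94) (nat_lit 1) (nat_lit 95) (nat_lit 1) (nat_lit 435) (nat_lit 373) (nat_lit 212)))) (XT.nd (nat_lit 156) (nat_lit 228) (nat_lit 0) (XT.nd (nat_lit 78) (nat_lit 0) (nat_lit 0) (XT.lf (nat_lit 152) (nat_lit 1150587498) (nat_lit 0) (nat_lit 2892257) (nat_lit 76) (nat_lit 2892257) (nat_lit 94) (nat_lit 1) (nat_lit 92) (nat_lit 1) (nat_lit 93) (nat_lit 1) (nat_lit 436) (nat_lit 373) (nat_lit 211)) (XT.lf (nat_lit 0) (nat_lit 376426840) (nat_lit 0) (nat_lit 384559265) (nat_lit 152) (nat_lit 376426840) (nat_lit 92) (nat_lit 3) (nat_lit 92) (nat_lit 1) (nat_lit 94) (nat_lit 1) (nat_lit 437) (nat_lit 373) (nat_lit 210))) (XT.nd (nat_lit 78) (nat_lit 152) (nat_lit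 0) (XT.lf (nat_lit 76) (nat_lit 367856998) (nat_lit 0) (nat_lit 375602165) (nat_lit 76) (nat_lit 375602165) (nat_lit 92) (nat_lit 3) (nat_lit 91) (nat_lit 1) (nat_lit 92) (nat_lit 1) (nat_lit 438) (nat_lit 373) (nat_lit 209)) (XT.lf (nat_lit 152) (nat_lit 1096529885) (nat_lit 0) (nat_lit 2379467) (nat_lit 76) (nat_lit 2379467) (nat_lit 91) (nat_lit 1) (nat_lit 89) (nat_lit 1) (nat_lit 90) (nat_lit 1) (nat_lit 439) (nat_lit 373) (nat_lit 208))))))) (XT.nd (nat_lit 40326) (nat_lit 0) (nat_lit 14440) (XT.nd (nat_lit 468) (nat_lit 228) (nat_lit 0) (XT.nd (nat_lit 234) (nat_lit 228) (nat_lit 0) (XT.nd (nat_lit 78) (nat_lit 228) (nat_lit 0) (XT.lf (nat_lit 0) (nat_lit 358847523) (nat_lit 0) (nat_lit 365538089) (nat_lit 152) (nat_lit 358847523) (nat_lit 89) (nat_lit 3) (nat_lit 89) (nat_lit 1) (nat_lit 91) (nat_lit 1) (nat_lit 440) (nat_lit 373) (nat_lit 207)) (XT.nd (nat_lit 78) (nat_lit 152) (nat_lit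 0) (XT.lf (nat_lit 76) (nat_lit 351004186) (nat_lit 0) (nat_lit 357376154) (nat_lit 76) (nat_lit 357376154) (nat_lit 89) (nat_lit 3) (nat_lit 88) (nat_lit 1) (nat_lit 89) (nat_lit 1) (nat_lit 441) (nat_lit 373) (nat_lit 206)) (XT.lf (nat_lit 152) (nat_lit 1044916614) (nat_lit 0) (nat_lit 1957593) (nat_lit 76) (nat_lit 1957593) (nat_lit 88) (nat_lit 1) (nat_lit 86) (nat_lit 1) (nat_lit 87) (nat_lit 1) (nat_lit 442) (nat_lit 373) (nat_lit 205)))) (XT.nd (nat_lit 78) (nat_lit 228) (nat_lit 0) (XT.lf (nat_lit 0) (nat_lit 342044012) (nat_lit 0) (nat_lit 347548357) (nat_lit 152) (nat_lit 342044012) (nat_lit 86) (nat_lit 3) (nat_lit 86) (nat_lit 1) (nat_lit 88) (nat_lit 1) (nat_lit 443) (nat_lit 373) (nat_lit 204)) (XT.nd (nat_lit 78) (nat_lit 152) (nat_lit 0) (XT.lf (nat_lit 76) (nat_lit 334836130) (nat_lit 0) (nat_lit 340078364) (nat_lit 76) (nat_lit 340078364) (nat_lit 86) (nat_lit 3) (nat_lit 85)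 (nat_lit 1) (nat_lit 86) (nat_lit 1) (nat_lit 444) (nat_lit 373) (nat_lit 203)) (XT.lf (nat_lit 152) (nat_lit 995654307) (nat_lit 0) (nat_lit 1610517) (nat_lit 76) (nat_lit 1610517) (nat_lit 85) (nat_lit 1) (nat_lit 83) (nat_lit 1) (nat_lit 84) (nat_lit 1) (nat_lit 445) (nat_lit 373) (nat_lit 202))))) (XT.nd (nat_lit 39546) (nat_lit 0) (nat_lit 16112) (XT.nd (nat_lit 78) (nat_lit 228) (nat_lit 0) (XT.lf (nat_lit 0) (nat_lit 325990233) (nat_lit 0) (nat_lit 330518672) (nat_lit 152) (nat_lit 325990233) (nat_lit 83) (nat_lit 3) (nat_lit 83) (nat_lit 1) (nat_lit 85) (nat_lit 1) (nat_lit 446) (nat_lit 373) (nat_lit 201)) (XT.nd (nat_lit 78) (nat_lit 152) (nat_lit 0) (XT.lf (nat_lit 76) (nat_lit 319341100) (nat_lit 0) (nat_lit 323653899) (nat_lit 76) (nat_lit 323653899) (nat_lit 83) (nat_lit 3) (nat_lit 82) (nat_lit 1) (nat_lit 83) (nat_lit 1) (nat_lit 447) (nat_lit 373) (nat_lit 200)) (XT.lf (nat_lit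 152) (nat_lit 948649951) (nat_lit 0) (nat_lit 1324976) (nat_lit 76) (nat_lit 1324976) (nat_lit 82) (nat_lit 1) (nat_lit 80) (nat_lit 1) (nat_lit 81) (nat_lit 1) (nat_lit 448) (nat_lit 373) (nat_lit 199)))) (XT.nd (nat_lit 156) (nat_lit 0) (nat_lit 76) (XT.nd (nat_lit 78) (nat_lit 0) (nat_lit 0) (XT.lf (nat_lit 836) (nat_lit 2822837299) (nat_lit 0) (nat_lit 5011941136) (nat_lit 836) (nat_lit 2822837299) (nat_lit 303) (nat_lit 1) (nat_lit 292) (nat_lit 0) (nat_lit 303) (nat_lit 0) (nat_lit 272) (nat_lit 374) (nat_lit 374)) (XT.lf (nat_lit 836) (nat_lit 10941669790) (nat_lit 76) (nat_lit 4931103376) (nat_lit 0) (nat_lit 4931103376) (nat_lit 303) (nat_lit 1) (nat_lit 293) (nat_lit 1) (nat_lit 292) (nat_lit 0) (nat_lit 273) (nat_lit 374) (nat_lit 373))) (XT.nd (nat_lit 78) (nat_lit 0) (nat_lit 0) (XT.lf (nat_lit 836) (nat_lit 5214635073) (nat_lit 0) (nat_lit 9879060196) (nat_lit 760) (nat_lit 5214635073)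 (nat_lit 304) (nat_lit 1) (nat_lit 293) (nat_lit 1) (nat_lit 303) (nat_lit 1) (nat_lit 274) (nat_lit 374) (nat_lit 372)) (XT.lf (nat_lit 836) (nat_lit 9781930806) (nat_lit 76) (nat_lit 5023431585) (nat_lit 0) (nat_lit 5023431585) (nat_lit 304) (nat_lit 1) (nat_lit 294) (nat_lit 1) (nat_lit 293) (nat_lit 1) (nat_lit 275) (nat_lit 374) (nat_lit 371)))))) (XT.nd (nat_lit 468) (nat_lit 1824) (nat_lit 0) (XT.nd (nat_lit 234) (nat_lit 0) (nat_lit 76) (XT.nd (nat_lit 78) (nat_lit 0) (nat_lit 0) (XT.lf (nat_lit 836) (nat_lit 4502528813) (nat_lit 0) (nat_lit 10359398882) (nat_lit 760) (nat_lit 4502528813) (nat_lit 305) (nat_lit 1) (nat_lit 294) (nat_lit 1) (nat_lit 304) (nat_lit 1) (nat_lit 276) (nat_lit 374) (nat_lit 370)) (XT.nd (nat_lit 78) (nat_lit 0) (nat_lit 76) (XT.lf (nat_lit 836) (nat_lit 8098091329) (nat_lit 76) (nat_lit 5408091245) (nat_lit 0) (nat_lit 5408091245) (nat_lit 305) (nat_lit 1) (nat_lit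 295) (nat_lit 1) (nat_lit 294) (nat_lit 1) (nat_lit 277) (nat_lit 374) (nat_lit 369)) (XT.lf (nat_lit 836) (nat_lit 3550779153) (nat_lit 0) (nat_lit 11377648400) (nat_lit 760) (nat_lit 3550779153) (nat_lit 306) (nat_lit 1) (nat_lit 295) (nat_lit 1) (nat_lit 305) (nat_lit 1) (nat_lit 278) (nat_lit 374) (nat_lit 368)))) (XT.nd (nat_lit 78) (nat_lit 0) (nat_lit 76) (XT.lf (nat_lit 836) (nat_lit 5968968781) (nat_lit 76) (nat_lit 6043574851) (nat_lit 0) (nat_lit 6043574851) (nat_lit 306) (nat_lit 1) (nat_lit 296) (nat_lit 1) (nat_lit 295) (nat_lit 1) (nat_lit 279) (nat_lit 374) (nat_lit 367)) (XT.nd (nat_lit 78) (nat_lit 0) (nat_lit 0) (XT.lf (nat_lit 836) (nat_lit 2396230071) (nat_lit 0) (nat_lit 12856057559) (nat_lit 760) (nat_lit 2396230071) (nat_lit 307) (nat_lit 1) (nat_lit 296) (nat_lit 1) (nat_lit 306) (nat_lit 1) (nat_lit 280) (nat_lit 374) (nat_lit 366)) (XT.lf (nat_lit 836) (nat_lit 3464619957)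 (nat_lit 76) (nat_lit 6892916219) (nat_lit 0) (nat_lit 6892916219) (nat_lit 307) (nat_lit 1) (nat_lit 297) (nat_lit 1) (nat_lit 296) (nat_lit 1) (nat_lit 281) (nat_lit 374) (nat_lit 365))))) (XT.nd (nat_lit 234) (nat_lit 760) (nat_lit 0) (XT.nd (nat_lit 78) (nat_lit 1292) (nat_lit 0) (XT.lf (nat_lit 76) (nat_lit 1071606604) (nat_lit 0) (nat_lit 14725424751) (nat_lit 760) (nat_lit 1071606604) (nat_lit 298) (nat_lit 1) (nat_lit 297) (nat_lit 1) (nat_lit 307) (nat_lit 1) (nat_lit 282) (nat_lit 374) (nat_lit 364)) (XT.nd (nat_lit 78) (nat_lit 532) (nat_lit 0) (XT.lf (nat_lit 836) (nat_lit 647223740) (nat_lit 0) (nat_lit 7923235787) (nat_lit 760) (nat_lit 7923235787) (nat_lit 298) (nat_lit 1) (nat_lit 287) (nat_lit 1) (nat_lit 297) (nat_lit 1) (nat_lit 283) (nat_lit 374) (nat_lit 363)) (XT.lf (nat_lit 532) (nat_lit 15359434456) (nat_lit 0) (nat_lit 387713225) (nat_lit 456) (nat_lit 387713225) (nat_lit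 287) (nat_lit 1) (nat_lit 280) (nat_lit 1) (nat_lit 286) (nat_lit 1) (nat_lit 284) (nat_lit 374) (nat_lit 362)))) (XT.nd (nat_lit 156) (nat_lit 380) (nat_lit 0) (XT.nd (nat_lit 78) (nat_lit 380) (nat_lit 0) (XT.lf (nat_lit 76) (nat_lit 6715118012) (nat_lit 0) (nat_lit 2350406447) (nat_lit 532) (nat_lit 6715118012) (nat_lit 281) (nat_lit 1) (nat_lit 280) (nat_lit 1) (nat_lit 287) (nat_lit 1) (nat_lit 285) (nat_lit 374) (nat_lit 361)) (XT.lf (nat_lit 456) (nat_lit 11554994403) (nat_lit 0) (nat_lit 1943245975) (nat_lit 380) (nat_lit 1943245975) (nat_lit 281) (nat_lit 1) (nat_lit 275) (nat_lit 1) (nat_lit 280) (nat_lit 1) (nat_lit 286) (nat_lit 374) (nat_lit 360))) (XT.nd (nat_lit 78) (nat_lit 380) (nat_lit 0) (XT.lf (nat_lit 76) (nat_lit 4789811932) (nat_lit 0) (nat_lit 5529836370) (nat_lit 456) (nat_lit 4789811932) (nat_lit 276) (nat_lit 1) (nat_lit 275) (nat_lit 1) (nat_lit 281) (nat_lit 1) (nat_lit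 287) (nat_lit 374) (nat_lit 359)) (XT.lf (nat_lit 456) (nat_lit 7609127679) (nat_lit 0) (nat_lit 3589935008) (nat_lit 380) (nat_lit 3589935008) (nat_lit 276) (nat_lit 1) (nat_lit 270) (nat_lit 1) (nat_lit 275) (nat_lit 1) (nat_lit 288) (nat_lit 374) (nat_lit 358))))))))
noncomputable def ec152 : XT := (XT.nd (nat_lit 1950) (nat_lit 2356) (nat_lit 0) (XT.nd (nat_lit 936) (nat_lit 1748) (nat_lit 0) (XT.nd (nat_lit 468) (nat_lit 1140) (nat_lit 0) (XT.nd (nat_lit 234) (nat_lit 684) (nat_lit 0) (XT.nd (nat_lit 78) (nat_lit 304) (nat_lit 0) (XT.lf (nat_lit 76) (nat_lit 2803862424) (nat_lit 0) (nat_lit 8870130440) (nat_lit 456) (nat_lit 2803862424) (nat_lit 271) (nat_lit 1) (nat_lit 270) (nat_lit 1) (nat_lit 276) (nat_lit 1) (nat_lit 289) (nat_lit 374) (nat_lit 357)) (XT.nd (nat_lit 78) (nat_lit 0) (nat_lit 0) (XT.lf (nat_lit 380) (nat_lit 3558560294) (nat_lit 0) (nat_lit 5308078098) (nat_lit 304) (nat_lit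 5308078098) (nat_lit 271) (nat_lit 1) (nat_lit 266) (nat_lit 1) (nat_lit 270) (nat_lit 1) (nat_lit 290) (nat_lit 374) (nat_lit 356)) (XT.lf (nat_lit 76) (nat_lit 774318975) (nat_lit 0) (nat_lit 12334596968) (nat_lit 380) (nat_lit 774318975) (nat_lit 267) (nat_lit 1) (nat_lit 266) (nat_lit 1) (nat_lit 271) (nat_lit 1) (nat_lit 291) (nat_lit 374) (nat_lit 355)))) (XT.nd (nat_lit 78) (nat_lit 304) (nat_lit 0) (XT.lf (nat_lit 76) (nat_lit 6524634185) (nat_lit 0) (nat_lit 546450787) (nat_lit 380) (nat_lit 6524634185) (nat_lit 262) (nat_lit 1) (nat_lit 261) (nat_lit 1) (nat_lit 266) (nat_lit 1) (nat_lit 292) (nat_lit 374) (nat_lit 354)) (XT.nd (nat_lit 78) (nat_lit 0) (nat_lit 0) (XT.lf (nat_lit 380) (nat_lit 10792773888) (nat_lit 0) (nat_lit 1263189407) (nat_lit 304) (nat_lit 1263189407) (nat_lit 262) (nat_lit 1) (nat_lit 257) (nat_lit 1) (nat_lit 261) (nat_lit 1) (nat_lit 293) (nat_lit 374) (nat_lit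 353)) (XT.lf (nat_lit 76) (nat_lit 4233400402) (nat_lit 0) (nat_lit 4580530001) (nat_lit 380) (nat_lit 4233400402) (nat_lit 258) (nat_lit 1) (nat_lit 257) (nat_lit 1) (nat_lit 262) (nat_lit 1) (nat_lit 294) (nat_lit 374) (nat_lit 352))))) (XT.nd (nat_lit 234) (nat_lit 608) (nat_lit 0) (XT.nd (nat_lit 78) (nat_lit 228) (nat_lit 0) (XT.lf (nat_lit 380) (nat_lit 6177708827) (nat_lit 0) (nat_lit 3303612954) (nat_lit 304) (nat_lit 3303612954) (nat_lit 258) (nat_lit 1) (nat_lit 253) (nat_lit 1) (nat_lit 257) (nat_lit 1) (nat_lit 295) (nat_lit 374) (nat_lit 351)) (XT.nd (nat_lit 78) (nat_lit 228) (nat_lit 0) (XT.lf (nat_lit 76) (nat_lit 1948173657) (nat_lit 0) (nat_lit 8633863836) (nat_lit 380) (nat_lit 1948173657) (nat_lit 254) (nat_lit 1) (nat_lit 253) (nat_lit 1) (nat_lit 258) (nat_lit 1) (nat_lit 296) (nat_lit 374) (nat_lit 350)) (XT.lf (nat_lit 304) (nat_lit 1584366196) (nat_lit 0) (nat_lit 5348309915)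 (nat_lit 228) (nat_lit 5348309915) (nat_lit 254) (nat_lit 1) (nat_lit 250) (nat_lit 1) (nat_lit 253) (nat_lit 1) (nat_lit 297) (nat_lit 374) (nat_lit 349)))) (XT.nd (nat_lit 78) (nat_lit 228) (nat_lit 0) (XT.lf (nat_lit 380) (nat_lit 11408263901) (nat_lit 0) (nat_lit 316557433) (nat_lit 304) (nat_lit 316557433) (nat_lit 250) (nat_lit 1) (nat_lit 245) (nat_lit 1) (nat_lit 249) (nat_lit 1) (nat_lit 298) (nat_lit 374) (nat_lit 348)) (XT.nd (nat_lit 78) (nat_lit 228) (nat_lit 0) (XT.lf (nat_lit 76) (nat_lit 4464138004) (nat_lit 0) (nat_lit 2874821695) (nat_lit 380) (nat_lit 4464138004) (nat_lit 246) (nat_lit 1) (nat_lit 245) (nat_lit 1) (nat_lit 250) (nat_lit 1) (nat_lit 299) (nat_lit 374) (nat_lit 347)) (XT.lf (nat_lit 304) (nat_lit 6520014686) (nat_lit 0) (nat_lit 2526970333) (nat_lit 228) (nat_lit 2526970333) (nat_lit 246) (nat_lit 1) (nat_lit 242) (nat_lit 1) (nat_lit 245) (nat_lit 1) (nat_lit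 300) (nat_lit 374) (nat_lit 346)))))) (XT.nd (nat_lit 468) (nat_lit 988) (nat_lit 0) (XT.nd (nat_lit 234) (nat_lit 228) (nat_lit 0) (XT.nd (nat_lit 78) (nat_lit 532) (nat_lit 0) (XT.lf (nat_lit 76) (nat_lit 2059773493) (nat_lit 0) (nat_lit 7231087770) (nat_lit 304) (nat_lit 2059773493) (nat_lit 243) (nat_lit 1) (nat_lit 242) (nat_lit 1) (nat_lit 246) (nat_lit 1) (nat_lit 301) (nat_lit 374) (nat_lit 345)) (XT.nd (nat_lit 78) (nat_lit 304) (nat_lit 0) (XT.lf (nat_lit 304) (nat_lit 1716756826) (nat_lit 0) (nat_lit 4707818909) (nat_lit 228) (nat_lit 4707818909) (nat_lit 243) (nat_lit 1) (nat_lit 239) (nat_lit 1) (nat_lit 242) (nat_lit 1) (nat_lit 302) (nat_lit 374) (nat_lit 344)) (XT.lf (nat_lit 304) (nat_lit 10332177641) (nat_lit 0) (nat_lit 295042394) (nat_lit 228) (nat_lit 295042394) (nat_lit 239) (nat_lit 1) (nat_lit 235) (nat_lit 1) (nat_lit 238) (nat_lit 1) (nat_lit 303) (nat_lit 374) (nat_lit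 343)))) (XT.nd (nat_lit 78) (nat_lit 228) (nat_lit 0) (XT.lf (nat_lit 76) (nat_lit 3908366906) (nat_lit 0) (nat_lit 2896060633) (nat_lit 304) (nat_lit 3908366906) (nat_lit 236) (nat_lit 1) (nat_lit 235) (nat_lit 1) (nat_lit 239) (nat_lit 1) (nat_lit 304) (nat_lit 374) (nat_lit 342)) (XT.nd (nat_lit 78) (nat_lit 0) (nat_lit 0) (XT.lf (nat_lit 304) (nat_lit 5374362369) (nat_lit 0) (nat_lit 2568357221) (nat_lit 228) (nat_lit 2568357221) (nat_lit 236) (nat_lit 1) (nat_lit 232) (nat_lit 1) (nat_lit 235) (nat_lit 1) (nat_lit 305) (nat_lit 374) (nat_lit 341)) (XT.lf (nat_lit 76) (nat_lit 1480095013) (nat_lit 0) (nat_lit 7354579310) (nat_lit 304) (nat_lit 1480095013) (nat_lit 233) (nat_lit 1) (nat_lit 232) (nat_lit 1) (nat_lit 236) (nat_lit 1) (nat_lit 306) (nat_lit 374) (nat_lit 340))))) (XT.nd (nat_lit 234) (nat_lit 532) (nat_lit 0) (XT.nd (nat_lit 78) (nat_lit 304) (nat_lit 0) (XT.lf (nat_lit 228) (nat_lit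 542356025) (nat_lit 0) (nat_lit 4789902566) (nat_lit 152) (nat_lit 4789902566) (nat_lit 233) (nat_lit 1) (nat_lit 230) (nat_lit 1) (nat_lit 232) (nat_lit 1) (nat_lit 307) (nat_lit 374) (nat_lit 339)) (XT.nd (nat_lit 78) (nat_lit 0) (nat_lit 0) (XT.lf (nat_lit 304) (nat_lit 8194817679) (nat_lit 0) (nat_lit 870349036) (nat_lit 228) (nat_lit 870349036) (nat_lit 230) (nat_lit 1) (nat_lit 226) (nat_lit 1) (nat_lit 229) (nat_lit 1) (nat_lit 308) (nat_lit 374) (nat_lit 338)) (XT.lf (nat_lit 76) (nat_lit 2862255294) (nat_lit 0) (nat_lit 4026447207) (nat_lit 304) (nat_lit 2862255294) (nat_lit 227) (nat_lit 1) (nat_lit 226) (nat_lit 1) (nat_lit 230) (nat_lit 1) (nat_lit 309) (nat_lit 374) (nat_lit 337)))) (XT.nd (nat_lit 156) (nat_lit 380) (nat_lit 0) (XT.nd (nat_lit 78) (nat_lit 0) (nat_lit 0) (XT.lf (nat_lit 228) (nat_lit 3306894470) (nat_lit 0) (nat_lit 3132600666) (nat_lit 152) (nat_lit 3132600666) (nat_lit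 227) (nat_lit 1) (nat_lit 224) (nat_lit 1) (nat_lit 226) (nat_lit 1) (nat_lit 310) (nat_lit 374) (nat_lit 336)) (XT.lf (nat_lit 76) (nat_lit 475095772) (nat_lit 0) (nat_lit 8448978009) (nat_lit 228) (nat_lit 475095772) (nat_lit 225) (nat_lit 1) (nat_lit 224) (nat_lit 1) (nat_lit 227) (nat_lit 1) (nat_lit 311) (nat_lit 374) (nat_lit 335))) (XT.nd (nat_lit 78) (nat_lit 152) (nat_lit 0) (XT.lf (nat_lit 76) (nat_lit 3921048764) (nat_lit 0) (nat_lit 1384774375) (nat_lit 228) (nat_lit 3921048764) (nat_lit 222) (nat_lit 1) (nat_lit 221) (nat_lit 1) (nat_lit 224) (nat_lit 1) (nat_lit 312) (nat_lit 374) (nat_lit 334)) (XT.lf (nat_lit 228) (nat_lit 5445063432) (nat_lit 0) (nat_lit 1807613531) (nat_lit 152) (nat_lit 1807613531) (nat_lit 222) (nat_lit 1) (nat_lit 219) (nat_lit 1) (nat_lit 221) (nat_lit 1) (nat_lit 313) (nat_lit 374) (nat_lit 333))))))) (XT.nd (nat_lit 936) (nat_lit 1216) (nat_lit 0) (XT.nd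 (nat_lit 468) (nat_lit 608) (nat_lit 0) (XT.nd (nat_lit 234) (nat_lit 152) (nat_lit 0) (XT.nd (nat_lit 78) (nat_lit 380) (nat_lit 0) (XT.lf (nat_lit 76) (nat_lit 1536455240) (nat_lit 0) (nat_lit 5824480416) (nat_lit 228) (nat_lit 1536455240) (nat_lit 220) (nat_lit 1) (nat_lit 219) (nat_lit 1) (nat_lit 222) (nat_lit 1) (nat_lit 314) (nat_lit 374) (nat_lit 332)) (XT.nd (nat_lit 78) (nat_lit 228) (nat_lit 0) (XT.lf (nat_lit 228) (nat_lit 719773962) (nat_lit 0) (nat_lit 4009000487) (nat_lit 152) (nat_lit 4009000487) (nat_lit 220) (nat_lit 1) (nat_lit 217) (nat_lit 1) (nat_lit 219) (nat_lit 1) (nat_lit 315) (nat_lit 374) (nat_lit 331)) (XT.lf (nat_lit 228) (nat_lit 7074403512) (nat_lit 0) (nat_lit 754190230) (nat_lit 152) (nat_lit 754190230) (nat_lit 217) (nat_lit 1) (nat_lit 214) (nat_lit 1) (nat_lit 216) (nat_lit 1) (nat_lit 316) (nat_lit 374) (nat_lit 330)))) (XT.nd (nat_lit 78) (nat_lit 152) (nat_lit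 0) (XT.lf (nat_lit 76) (nat_lit 2355086265) (nat_lit 0) (nat_lit 3718943308) (nat_lit 228) (nat_lit 2355086265) (nat_lit 215) (nat_lit 1) (nat_lit 214) (nat_lit 1) (nat_lit 217) (nat_lit 1) (nat_lit 317) (nat_lit 374) (nat_lit 329)) (XT.nd (nat_lit 78) (nat_lit 0) (nat_lit 0) (XT.lf (nat_lit 228) (nat_lit 2398541020) (nat_lit 0) (nat_lit 2940683941) (nat_lit 152) (nat_lit 2940683941) (nat_lit 215) (nat_lit 1) (nat_lit 212) (nat_lit 1) (nat_lit 214) (nat_lit 1) (nat_lit 318) (nat_lit 374) (nat_lit 328)) (XT.lf (nat_lit 76) (nat_lit 78833428) (nat_lit 0) (nat_lit 7978267807) (nat_lit 228) (nat_lit 78833428) (nat_lit 213) (nat_lit 1) (nat_lit 212) (nat_lit 1) (nat_lit 215) (nat_lit 1) (nat_lit 319) (nat_lit 374) (nat_lit 327))))) (XT.nd (nat_lit 234) (nat_lit 304) (nat_lit 0) (XT.nd (nat_lit 78) (nat_lit 152) (nat_lit 0) (XT.lf (nat_lit 76) (nat_lit 2976621714) (nat_lit 0) (nat_lit 2037801821) (nat_lit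 152) (nat_lit 2976621714) (nat_lit 211) (nat_lit 1) (nat_lit 210) (nat_lit 1) (nat_lit 212) (nat_lit 1) (nat_lit 320) (nat_lit 374) (nat_lit 326)) (XT.nd (nat_lit 78) (nat_lit 0) (nat_lit 0) (XT.lf (nat_lit 228) (nat_lit 3693648681) (nat_lit 0) (nat_lit 2078802546) (nat_lit 152) (nat_lit 2078802546) (nat_lit 211) (nat_lit 1) (nat_lit 208) (nat_lit 1) (nat_lit 210) (nat_lit 1) (nat_lit 321) (nat_lit 374) (nat_lit 325)) (XT.lf (nat_lit 76) (nat_lit 740551032) (nat_lit 0) (nat_lit 6234133559) (nat_lit 228) (nat_lit 740551032) (nat_lit 209) (nat_lit 1) (nat_lit 208) (nat_lit 1) (nat_lit 211) (nat_lit 1) (nat_lit 322) (nat_lit 374) (nat_lit 324)))) (XT.nd (nat_lit 78) (nat_lit 152) (nat_lit 0) (XT.lf (nat_lit 76) (nat_lit 3438480160) (nat_lit 0) (nat_lit 703378847) (nat_lit 152) (nat_lit 3438480160) (nat_lit 207) (nat_lit 1) (nat_lit 206) (nat_lit 1) (nat_lit 208) (nat_lit 1) (nat_lit 323) (nat_lit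 374) (nat_lit 323)) (XT.nd (nat_lit 78) (nat_lit 0) (nat_lit 0) (XT.lf (nat_lit 228) (nat_lit 4677214908) (nat_lit 0) (nat_lit 1385945133) (nat_lit 152) (nat_lit 1385945133) (nat_lit 207) (nat_lit 1) (nat_lit 204) (nat_lit 1) (nat_lit 206) (nat_lit 1) (nat_lit 324) (nat_lit 374) (nat_lit 322)) (XT.lf (nat_lit 76) (nat_lit 1252771811) (nat_lit 0) (nat_lit 4814925573) (nat_lit 228) (nat_lit 1252771811) (nat_lit 205) (nat_lit 1) (nat_lit 204) (nat_lit 1) (nat_lit 207) (nat_lit 1) (nat_lit 325) (nat_lit 374) (nat_lit 321)))))) (XT.nd (nat_lit 468) (nat_lit 608) (nat_lit 0) (XT.nd (nat_lit 234) (nat_lit 304) (nat_lit 0) (XT.nd (nat_lit 78) (nat_lit 228) (nat_lit 0) (XT.lf (nat_lit 152) (nat_lit 359625165) (nat_lit 0) (nat_lit 3417317738) (nat_lit 76) (nat_lit 3417317738) (nat_lit 205) (nat_lit 1) (nat_lit 203) (nat_lit 1) (nat_lit 204) (nat_lit 1) (nat_lit 326) (nat_lit 374) (nat_lit 320)) (XT.nd (nat_lit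 78) (nat_lit 0) (nat_lit 0) (XT.lf (nat_lit 228) (nat_lit 5408376278) (nat_lit 0) (nat_lit 831372046) (nat_lit 152) (nat_lit 831372046) (nat_lit 203) (nat_lit 1) (nat_lit 200) (nat_lit 1) (nat_lit 202) (nat_lit 1) (nat_lit 327) (nat_lit 374) (nat_lit 319)) (XT.lf (nat_lit 76) (nat_lit 1643533368) (nat_lit 0) (nat_lit 3662287820) (nat_lit 228) (nat_lit 1643533368) (nat_lit 201) (nat_lit 1) (nat_lit 200) (nat_lit 1) (nat_lit 203) (nat_lit 1) (nat_lit 328) (nat_lit 374) (nat_lit 318)))) (XT.nd (nat_lit 78) (nat_lit 228) (nat_lit 0) (XT.lf (nat_lit 152) (nat_lit 1207702778) (nat_lit 0) (nat_lit 2811435760) (nat_lit 76) (nat_lit 2811435760) (nat_lit 201) (nat_lit 1) (nat_lit 199) (nat_lit 1) (nat_lit 200) (nat_lit 1) (nat_lit 329) (nat_lit 374) (nat_lit 317)) (XT.nd (nat_lit 78) (nat_lit 0) (nat_lit 0) (XT.lf (nat_lit 228) (nat_lit 5935598832) (nat_lit 0) (nat_lit 389830464) (nat_lit 152) (nat_lit 389830464)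 (nat_lit 199) (nat_lit 1) (nat_lit 196) (nat_lit 1) (nat_lit 198) (nat_lit 1) (nat_lit 330) (nat_lit 374) (nat_lit 316)) (XT.lf (nat_lit 76) (nat_lit 1935829350) (nat_lit 0) (nat_lit 2728246238) (nat_lit 228) (nat_lit 1935829350) (nat_lit 197) (nat_lit 1) (nat_lit 196) (nat_lit 1) (nat_lit 199) (nat_lit 1) (nat_lit 331) (nat_lit 374) (nat_lit 315))))) (XT.nd (nat_lit 234) (nat_lit 304) (nat_lit 0) (XT.nd (nat_lit 78) (nat_lit 228) (nat_lit 0) (XT.lf (nat_lit 152) (nat_lit 1861997459) (nat_lit 0) (nat_lit 2312975157) (nat_lit 76) (nat_lit 2312975157) (nat_lit 197) (nat_lit 1) (nat_lit 195) (nat_lit 1) (nat_lit 196) (nat_lit 1) (nat_lit 332) (nat_lit 374) (nat_lit 314)) (XT.nd (nat_lit 78) (nat_lit 0) (nat_lit 0) (XT.lf (nat_lit 228) (nat_lit 6298578785) (nat_lit 0) (nat_lit 40579844) (nat_lit 152) (nat_lit 40579844) (nat_lit 195) (nat_lit 1) (nat_lit 192) (nat_lit 1) (nat_lit 194) (nat_lit 1) (nat_lit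 333) (nat_lit 374) (nat_lit 313)) (XT.lf (nat_lit 76) (nat_lit 2148507197) (nat_lit 0) (nat_lit 1973366346) (nat_lit 228) (nat_lit 2148507197) (nat_lit 193) (nat_lit 1) (nat_lit 192) (nat_lit 1) (nat_lit 195) (nat_lit 1) (nat_lit 334) (nat_lit 374) (nat_lit 312)))) (XT.nd (nat_lit 156) (nat_lit 228) (nat_lit 0) (XT.nd (nat_lit 78) (nat_lit 0) (nat_lit 0) (XT.lf (nat_lit 152) (nat_lit 2358934103) (nat_lit 0) (nat_lit 1902890386) (nat_lit 76) (nat_lit 1902890386) (nat_lit 193) (nat_lit 1) (nat_lit 191) (nat_lit 1) (nat_lit 192) (nat_lit 1) (nat_lit 335) (nat_lit 374) (nat_lit 311)) (XT.lf (nat_lit 0) (nat_lit 237236149) (nat_lit 0) (nat_lit 5587766941) (nat_lit 152) (nat_lit 237236149) (nat_lit 191) (nat_lit 3) (nat_lit 191) (nat_lit 1) (nat_lit 193) (nat_lit 1) (nat_lit 336) (nat_lit 374) (nat_lit 310))) (XT.nd (nat_lit 78) (nat_lit 76) (nat_lit 0) (XT.lf (nat_lit 76) (nat_lit 2297006569) (nat_lit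 0) (nat_lit 1365237581) (nat_lit 152) (nat_lit 2297006569) (nat_lit 190) (nat_lit 1) (nat_lit 189) (nat_lit 1) (nat_lit 191) (nat_lit 1) (nat_lit 337) (nat_lit 374) (nat_lit 309)) (XT.lf (nat_lit 152) (nat_lit 2728381101) (nat_lit 0) (nat_lit 1565512630) (nat_lit 76) (nat_lit 1565512630) (nat_lit 190) (nat_lit 1) (nat_lit 188) (nat_lit 1) (nat_lit 189) (nat_lit 1) (nat_lit 338) (nat_lit 374) (nat_lit 308))))))))
noncomputable def ec153 : XT := (XT.nd (nat_lit 1950) (nat_lit 2052) (nat_lit 0) (XT.nd (nat_lit 936) (nat_lit 912) (nat_lit 0) (XT.nd (nat_lit 468) (nat_lit 456) (nat_lit 0) (XT.nd (nat_lit 234) (nat_lit 228) (nat_lit 0) (XT.nd (nat_lit 78) (nat_lit 228) (nat_lit 0) (XT.lf (nat_lit 0) (nat_lit 453430563) (nat_lit 0) (nat_lit 4855325487) (nat_lit 152) (nat_lit 453430563) (nat_lit 188) (nat_lit 3) (nat_lit 188) (nat_lit 1) (nat_lit 190) (nat_lit 1) (nat_lit 339) (nat_lit 374) (nat_lit 307))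 (XT.nd (nat_lit 78) (nat_lit 76) (nat_lit 0) (XT.lf (nat_lit 76) (nat_lit 2393966685) (nat_lit 0) (nat_lit 877226436) (nat_lit 152) (nat_lit 2393966685) (nat_lit 187) (nat_lit 1) (nat_lit 186) (nat_lit 1) (nat_lit 188) (nat_lit 1) (nat_lit 340) (nat_lit 374) (nat_lit 306)) (XT.lf (nat_lit 152) (nat_lit 2994817481) (nat_lit 0) (nat_lit 1287951115) (nat_lit 76) (nat_lit 1287951115) (nat_lit 187) (nat_lit 1) (nat_lit 185) (nat_lit 1) (nat_lit 186) (nat_lit 1) (nat_lit 341) (nat_lit 374) (nat_lit 305)))) (XT.nd (nat_lit 78) (nat_lit 228) (nat_lit 0) (XT.lf (nat_lit 0) (nat_lit 618996347) (nat_lit 0) (nat_lit 4240446194) (nat_lit 152) (nat_lit 618996347) (nat_lit 185) (nat_lit 3) (nat_lit 185) (nat_lit 1) (nat_lit 187) (nat_lit 1) (nat_lit 342) (nat_lit 374) (nat_lit 304)) (XT.nd (nat_lit 78) (nat_lit 76) (nat_lit 0) (XT.lf (nat_lit 76) (nat_lit 2449725836) (nat_lit 0) (nat_lit 487450740) (nat_lit 152)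 (nat_lit 2449725836) (nat_lit 184) (nat_lit 1) (nat_lit 183) (nat_lit 1) (nat_lit 185) (nat_lit 1) (nat_lit 343) (nat_lit 374) (nat_lit 303)) (XT.lf (nat_lit 152) (nat_lit 3178292893) (nat_lit 0) (nat_lit 1059600569) (nat_lit 76) (nat_lit 1059600569) (nat_lit 184) (nat_lit 1) (nat_lit 182) (nat_lit 1) (nat_lit 183) (nat_lit 1) (nat_lit 344) (nat_lit 374) (nat_lit 302))))) (XT.nd (nat_lit 234) (nat_lit 228) (nat_lit 0) (XT.nd (nat_lit 78) (nat_lit 228) (nat_lit 0) (XT.lf (nat_lit 0) (nat_lit 743495446) (nat_lit 0) (nat_lit 3722871198) (nat_lit 152) (nat_lit 743495446) (nat_lit 182) (nat_lit 3) (nat_lit 182) (nat_lit 1) (nat_lit 184) (nat_lit 1) (nat_lit 345) (nat_lit 374) (nat_lit 301)) (XT.nd (nat_lit 78) (nat_lit 76) (nat_lit 0) (XT.lf (nat_lit 76) (nat_lit 2472732194) (nat_lit 0) (nat_lit 177935864) (nat_lit 152) (nat_lit 2472732194) (nat_lit 181) (nat_lit 1) (nat_lit 180) (nat_lit 1) (nat_lit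 182) (nat_lit 1) (nat_lit 346) (nat_lit 374) (nat_lit 300)) (XT.lf (nat_lit 152) (nat_lit 3295217181) (nat_lit 0) (nat_lit 871736011) (nat_lit 76) (nat_lit 871736011) (nat_lit 181) (nat_lit 1) (nat_lit 179) (nat_lit 1) (nat_lit 180) (nat_lit 1) (nat_lit 347) (nat_lit 374) (nat_lit 299)))) (XT.nd (nat_lit 78) (nat_lit 228) (nat_lit 0) (XT.lf (nat_lit 0) (nat_lit 834766609) (nat_lit 0) (nat_lit 3285906414) (nat_lit 152) (nat_lit 834766609) (nat_lit 179) (nat_lit 3) (nat_lit 179) (nat_lit 1) (nat_lit 181) (nat_lit 1) (nat_lit 348) (nat_lit 374) (nat_lit 298)) (XT.nd (nat_lit 78) (nat_lit 152) (nat_lit 0) (XT.lf (nat_lit 76) (nat_lit 68264289) (nat_lit 0) (nat_lit 2402683151) (nat_lit 76) (nat_lit 2402683151) (nat_lit 179) (nat_lit 3) (nat_lit 178) (nat_lit 1) (nat_lit 179) (nat_lit 1) (nat_lit 349) (nat_lit 374) (nat_lit 297)) (XT.lf (nat_lit 152) (nat_lit 3359009760) (nat_lit 0) (nat_lit 717179373)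 (nat_lit 76) (nat_lit 717179373) (nat_lit 178) (nat_lit 1) (nat_lit 176) (nat_lit 1) (nat_lit 177) (nat_lit 1) (nat_lit 350) (nat_lit 374) (nat_lit 296)))))) (XT.nd (nat_lit 468) (nat_lit 456) (nat_lit 0) (XT.nd (nat_lit 234) (nat_lit 228) (nat_lit 0) (XT.nd (nat_lit 78) (nat_lit 228) (nat_lit 0) (XT.lf (nat_lit 0) (nat_lit 899232238) (nat_lit 0) (nat_lit 2915791021) (nat_lit 152) (nat_lit 899232238) (nat_lit 176) (nat_lit 3) (nat_lit 176) (nat_lit 1) (nat_lit 178) (nat_lit 1) (nat_lit 351) (nat_lit 374) (nat_lit 295)) (XT.nd (nat_lit 78) (nat_lit 152) (nat_lit 0) (XT.lf (nat_lit 76) (nat_lit 265201984) (nat_lit 0) (nat_lit 2185734158) (nat_lit 76) (nat_lit 2185734158) (nat_lit 176) (nat_lit 3) (nat_lit 175) (nat_lit 1) (nat_lit 176) (nat_lit 1) (nat_lit 352) (nat_lit 374) (nat_lit 294)) (XT.lf (nat_lit 152) (nat_lit 3380633672) (nat_lit 0) (nat_lit 590025245) (nat_lit 76) (nat_lit 590025245) (nat_lit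 175) (nat_lit 1) (nat_lit 173) (nat_lit 1) (nat_lit 174) (nat_lit 1) (nat_lit 353) (nat_lit 374) (nat_lit 293)))) (XT.nd (nat_lit 78) (nat_lit 228) (nat_lit 0) (XT.lf (nat_lit 0) (nat_lit 942150761) (nat_lit 0) (nat_lit 2601178662) (nat_lit 152) (nat_lit 942150761) (nat_lit 173) (nat_lit 3) (nat_lit 173) (nat_lit 1) (nat_lit 175) (nat_lit 1) (nat_lit 354) (nat_lit 374) (nat_lit 292)) (XT.nd (nat_lit 78) (nat_lit 152) (nat_lit 0) (XT.lf (nat_lit 76) (nat_lit 417268789) (nat_lit 0) (nat_lit 1997295362) (nat_lit 76) (nat_lit 1997295362) (nat_lit 173) (nat_lit 3) (nat_lit 172) (nat_lit 1) (nat_lit 173) (nat_lit 1) (nat_lit 355) (nat_lit 374) (nat_lit 291)) (XT.lf (nat_lit 152) (nat_lit 3369034763) (nat_lit 0) (nat_lit 485415229) (nat_lit 76) (nat_lit 485415229) (nat_lit 172) (nat_lit 1) (nat_lit 170) (nat_lit 1) (nat_lit 171) (nat_lit 1) (nat_lit 356) (nat_lit 374) (nat_lit 290))))) (XT.nd (nat_lit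 234) (nat_lit 228) (nat_lit 0) (XT.nd (nat_lit 78) (nat_lit 228) (nat_lit 0) (XT.lf (nat_lit 0) (nat_lit 967824213) (nat_lit 0) (nat_lit 2332710574) (nat_lit 152) (nat_lit 967824213) (nat_lit 170) (nat_lit 3) (nat_lit 170) (nat_lit 1) (nat_lit 172) (nat_lit 1) (nat_lit 357) (nat_lit 374) (nat_lit 289)) (XT.nd (nat_lit 78) (nat_lit 152) (nat_lit 0) (XT.lf (nat_lit 76) (nat_lit 532894219) (nat_lit 0) (nat_lit 1832785991) (nat_lit 76) (nat_lit 1832785991) (nat_lit 170) (nat_lit 3) (nat_lit 169) (nat_lit 1) (nat_lit 170) (nat_lit 1) (nat_lit 358) (nat_lit 374) (nat_lit 288)) (XT.lf (nat_lit 152) (nat_lit 3331502833) (nat_lit 0) (nat_lit 399352310) (nat_lit 76) (nat_lit 399352310) (nat_lit 169) (nat_lit 1) (nat_lit 167) (nat_lit 1) (nat_lit 168) (nat_lit 1) (nat_lit 359) (nat_lit 374) (nat_lit 287)))) (XT.nd (nat_lit 156) (nat_lit 152) (nat_lit 0) (XT.nd (nat_lit 78) (nat_lit 76) (nat_lit 0) (XT.lf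 (nat_lit 0) (nat_lit 979768948) (nat_lit 0) (nat_lit 2102664334) (nat_lit 152) (nat_lit 979768948) (nat_lit 167) (nat_lit 3) (nat_lit 167) (nat_lit 1) (nat_lit 169) (nat_lit 1) (nat_lit 360) (nat_lit 374) (nat_lit 286)) (XT.lf (nat_lit 76) (nat_lit 618990682) (nat_lit 0) (nat_lit 1688414859) (nat_lit 76) (nat_lit 1688414859) (nat_lit 167) (nat_lit 3) (nat_lit 166) (nat_lit 1) (nat_lit 167) (nat_lit 1) (nat_lit 361) (nat_lit 374) (nat_lit 285))) (XT.nd (nat_lit 78) (nat_lit 0) (nat_lit 0) (XT.lf (nat_lit 152) (nat_lit 3273968574) (nat_lit 0) (nat_lit 328548134) (nat_lit 76) (nat_lit 328548134) (nat_lit 166) (nat_lit 1) (nat_lit 164) (nat_lit 1) (nat_lit 165) (nat_lit 1) (nat_lit 362) (nat_lit 374) (nat_lit 284)) (XT.lf (nat_lit 0) (nat_lit 980856026) (nat_lit 0) (nat_lit 1904664839) (nat_lit 152) (nat_lit 980856026) (nat_lit 164) (nat_lit 3) (nat_lit 164) (nat_lit 1) (nat_lit 166) (nat_lit 1) (nat_lit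 363) (nat_lit 374) (nat_lit 283))))))) (XT.nd (nat_lit 1014) (nat_lit 1064) (nat_lit 0) (XT.nd (nat_lit 468) (nat_lit 532) (nat_lit 0) (XT.nd (nat_lit 234) (nat_lit 228) (nat_lit 0) (XT.nd (nat_lit 78) (nat_lit 152) (nat_lit 0) (XT.lf (nat_lit 76) (nat_lit 681223536) (nat_lit 0) (nat_lit 1561041453) (nat_lit 76) (nat_lit 1561041453) (nat_lit 164) (nat_lit 3) (nat_lit 163) (nat_lit 1) (nat_lit 164) (nat_lit 1) (nat_lit 364) (nat_lit 374) (nat_lit 282)) (XT.nd (nat_lit 78) (nat_lit 0) (nat_lit 0) (XT.lf (nat_lit 152) (nat_lit 3201247713) (nat_lit 0) (nat_lit 270297363) (nat_lit 76) (nat_lit 270297363) (nat_lit 163) (nat_lit 1) (nat_lit 161) (nat_lit 1) (nat_lit 162) (nat_lit 1) (nat_lit 365) (nat_lit 374) (nat_lit 281)) (XT.lf (nat_lit 0) (nat_lit 973426668) (nat_lit 0) (nat_lit 1733446465) (nat_lit 152) (nat_lit 973426668) (nat_lit 161) (nat_lit 3) (nat_lit 161) (nat_lit 1) (nat_lit 163) (nat_lit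 1) (nat_lit 366) (nat_lit 374) (nat_lit 280)))) (XT.nd (nat_lit 78) (nat_lit 152) (nat_lit 0) (XT.lf (nat_lit 76) (nat_lit 724233213) (nat_lit 0) (nat_lit 1448061591) (nat_lit 76) (nat_lit 1448061591) (nat_lit 161) (nat_lit 3) (nat_lit 160) (nat_lit 1) (nat_lit 161) (nat_lit 1) (nat_lit 367) (nat_lit 374) (nat_lit 279)) (XT.nd (nat_lit 78) (nat_lit 0) (nat_lit 0) (XT.lf (nat_lit 152) (nat_lit 3117241716) (nat_lit 0) (nat_lit 222374309) (nat_lit 76) (nat_lit 222374309) (nat_lit 160) (nat_lit 1) (nat_lit 158) (nat_lit 1) (nat_lit 159) (nat_lit 1) (nat_lit 368) (nat_lit 374) (nat_lit 278)) (XT.lf (nat_lit 0) (nat_lit 959387185) (nat_lit 0) (nat_lit 1584657353) (nat_lit 152) (nat_lit 959387185) (nat_lit 158) (nat_lit 3) (nat_lit 158) (nat_lit 1) (nat_lit 160) (nat_lit 1) (nat_lit 369) (nat_lit 374) (nat_lit 277))))) (XT.nd (nat_lit 234) (nat_lit 304) (nat_lit 0) (XT.nd (nat_lit 78) (nat_lit 152) (nat_lit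 0) (XT.lf (nat_lit 76) (nat_lit 751817908) (nat_lit 0) (nat_lit 1347313306) (nat_lit 76) (nat_lit 1347313306) (nat_lit 158) (nat_lit 3) (nat_lit 157) (nat_lit 1) (nat_lit 158) (nat_lit 1) (nat_lit 370) (nat_lit 374) (nat_lit 276)) (XT.nd (nat_lit 78) (nat_lit 0) (nat_lit 0) (XT.lf (nat_lit 152) (nat_lit 3025102760) (nat_lit 0) (nat_lit 182947894) (nat_lit 76) (nat_lit 182947894) (nat_lit 157) (nat_lit 1) (nat_lit 155) (nat_lit 1) (nat_lit 156) (nat_lit 1) (nat_lit 371) (nat_lit 374) (nat_lit 275)) (XT.lf (nat_lit 0) (nat_lit 940287026) (nat_lit 0) (nat_lit 1454698341) (nat_lit 152) (nat_lit 940287026) (nat_lit 155) (nat_lit 3) (nat_lit 155) (nat_lit 1) (nat_lit 157) (nat_lit 1) (nat_lit 372) (nat_lit 374) (nat_lit 274)))) (XT.nd (nat_lit 156) (nat_lit 76) (nat_lit 0) (XT.nd (nat_lit 78) (nat_lit 152) (nat_lit 0) (XT.lf (nat_lit 76) (nat_lit 767083836) (nat_lit 0) (nat_lit 1256999374) (nat_lit 76)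 (nat_lit 1256999374) (nat_lit 155) (nat_lit 3) (nat_lit 154) (nat_lit 1) (nat_lit 155) (nat_lit 1) (nat_lit 373) (nat_lit 374) (nat_lit 273)) (XT.lf (nat_lit 152) (nat_lit 2927369323) (nat_lit 0) (nat_lit 150511685) (nat_lit 76) (nat_lit 150511685) (nat_lit 154) (nat_lit 1) (nat_lit 152) (nat_lit 1) (nat_lit 153) (nat_lit 1) (nat_lit 374) (nat_lit 374) (nat_lit 272))) (XT.nd (nat_lit 78) (nat_lit 76) (nat_lit 0) (XT.lf (nat_lit 0) (nat_lit 917382954) (nat_lit 0) (nat_lit 1340590415) (nat_lit 152) (nat_lit 917382954) (nat_lit 152) (nat_lit 3) (nat_lit 152) (nat_lit 1) (nat_lit 154) (nat_lit 1) (nat_lit 375) (nat_lit 374) (nat_lit 271)) (XT.lf (nat_lit 76) (nat_lit 772568801) (nat_lit 0) (nat_lit 1175623526) (nat_lit 76) (nat_lit 1175623526) (nat_lit 152) (nat_lit 3) (nat_lit 151) (nat_lit 1) (nat_lit 152) (nat_lit 1) (nat_lit 376) (nat_lit 374) (nat_lit 270)))))) (XT.nd (nat_lit 468) (nat_lit 608)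 (nat_lit 0) (XT.nd (nat_lit 234) (nat_lit 228) (nat_lit 0) (XT.nd (nat_lit 78) (nat_lit 76) (nat_lit 0) (XT.lf (nat_lit 152) (nat_lit 2826077602) (nat_lit 0) (nat_lit 123826336) (nat_lit 76) (nat_lit 123826336) (nat_lit 151) (nat_lit 1) (nat_lit 149) (nat_lit 1) (nat_lit 150) (nat_lit 1) (nat_lit 377) (nat_lit 374) (nat_lit 269)) (XT.nd (nat_lit 78) (nat_lit 76) (nat_lit 0) (XT.lf (nat_lit 0) (nat_lit 891691789) (nat_lit 0) (nat_lit 1239865615) (nat_lit 152) (nat_lit 891691789) (nat_lit 149) (nat_lit 3) (nat_lit 149) (nat_lit 1) (nat_lit 151) (nat_lit 1) (nat_lit 378) (nat_lit 374) (nat_lit 268)) (XT.lf (nat_lit 76) (nat_lit 770343818) (nat_lit 0) (nat_lit 1101937938) (nat_lit 76) (nat_lit 1101937938) (nat_lit 149) (nat_lit 3) (nat_lit 148) (nat_lit 1) (nat_lit 149) (nat_lit 1) (nat_lit 379) (nat_lit 374) (nat_lit 267)))) (XT.nd (nat_lit 78) (nat_lit 76) (nat_lit 0) (XT.lf (nat_lit 152) (nat_lit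 2722853051) (nat_lit 0) (nat_lit 101872233) (nat_lit 76) (nat_lit 101872233) (nat_lit 148) (nat_lit 1) (nat_lit 146) (nat_lit 1) (nat_lit 147) (nat_lit 1) (nat_lit 380) (nat_lit 374) (nat_lit 266)) (XT.nd (nat_lit 78) (nat_lit 76) (nat_lit 0) (XT.lf (nat_lit 0) (nat_lit 864033767) (nat_lit 0) (nat_lit 1150477235) (nat_lit 152) (nat_lit 864033767) (nat_lit 146) (nat_lit 3) (nat_lit 146) (nat_lit 1) (nat_lit 148) (nat_lit 1) (nat_lit 381) (nat_lit 374) (nat_lit 265)) (XT.lf (nat_lit 76) (nat_lit 762096673) (nat_lit 0) (nat_lit 1034899976) (nat_lit 76) (nat_lit 1034899976) (nat_lit 146) (nat_lit 3) (nat_lit 145) (nat_lit 1) (nat_lit 146) (nat_lit 1) (nat_lit 382) (nat_lit 374) (nat_lit 264))))) (XT.nd (nat_lit 234) (nat_lit 380) (nat_lit 0) (XT.nd (nat_lit 78) (nat_lit 76) (nat_lit 0) (XT.lf (nat_lit 152) (nat_lit 2618985576) (nat_lit 0) (nat_lit 83810538) (nat_lit 76) (nat_lit 83810538) (nat_lit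 145) (nat_lit 1) (nat_lit 143) (nat_lit 1) (nat_lit 144) (nat_lit 1) (nat_lit 383) (nat_lit 374) (nat_lit 263)) (XT.nd (nat_lit 78) (nat_lit 76) (nat_lit 0) (XT.lf (nat_lit 0) (nat_lit 835068172) (nat_lit 0) (nat_lit 1070725922) (nat_lit 152) (nat_lit 835068172) (nat_lit 143) (nat_lit 3) (nat_lit 143) (nat_lit 1) (nat_lit 145) (nat_lit 1) (nat_lit 384) (nat_lit 374) (nat_lit 262)) (XT.lf (nat_lit 76) (nat_lit 749200636) (nat_lit 0) (nat_lit 973636589) (nat_lit 76) (nat_lit 973636589) (nat_lit 143) (nat_lit 3) (nat_lit 142) (nat_lit 1) (nat_lit 143) (nat_lit 1) (nat_lit 385) (nat_lit 374) (nat_lit 261)))) (XT.nd (nat_lit 156) (nat_lit 228) (nat_lit 0) (XT.nd (nat_lit 78) (nat_lit 0) (nat_lit 0) (XT.lf (nat_lit 152) (nat_lit 2515491280) (nat_lit 0) (nat_lit 68951137) (nat_lit 76) (nat_lit 68951137) (nat_lit 142) (nat_lit 1) (nat_lit 140) (nat_lit 1) (nat_lit 141) (nat_lit 1) (nat_lit 386) (nat_lit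 374) (nat_lit 260)) (XT.lf (nat_lit 0) (nat_lit 805322607) (nat_lit 0) (nat_lit 999198821) (nat_lit 152) (nat_lit 805322607) (nat_lit 140) (nat_lit 3) (nat_lit 140) (nat_lit 1) (nat_lit 142) (nat_lit 1) (nat_lit 387) (nat_lit 374) (nat_lit 259))) (XT.nd (nat_lit 78) (nat_lit 152) (nat_lit 0) (XT.lf (nat_lit 76) (nat_lit 732770948) (nat_lit 0) (nat_lit 917414961) (nat_lit 76) (nat_lit 917414961) (nat_lit 140) (nat_lit 3) (nat_lit 139) (nat_lit 1) (nat_lit 140) (nat_lit 1) (nat_lit 388) (nat_lit 374) (nat_lit 258)) (XT.lf (nat_lit 152) (nat_lit 2413163153) (nat_lit 0) (nat_lit 56726271) (nat_lit 76) (nat_lit 56726271) (nat_lit 139) (nat_lit 1) (nat_lit 137) (nat_lit 1) (nat_lit 138) (nat_lit 1) (nat_lit 389) (nat_lit 374) (nat_lit 257))))))))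
noncomputable def ec154 : XT := (XT.nd (nat_lit 1950) (nat_lit 1900) (nat_lit 0) (XT.nd (nat_lit 936) (nat_lit 912) (nat_lit 0) (XT.nd (nat_lit 468) (nat_lit 456) (nat_lit 0) (XT.nd (nat_lit 234) (nat_lit 228) (nat_lit 0) (XT.nd (nat_lit 78) (nat_lit 228) (nat_lit 0) (XT.lf (nat_lit 0) (nat_lit 775217050) (nat_lit 0) (nat_lit 934719491) (nat_lit 152) (nat_lit 775217050) (nat_lit 137) (nat_lit 3) (nat_lit 137) (nat_lit 1) (nat_lit 139) (nat_lit 1) (nat_lit 390) (nat_lit 374) (nat_lit 256)) (XT.nd (nat_lit 78) (nat_lit 152) (nat_lit 0) (XT.lf (nat_lit 76) (nat_lit 713711263) (nat_lit 0) (nat_lit 865618350) (nat_lit 76) (nat_lit 865618350) (nat_lit 137) (nat_lit 3) (nat_lit 136) (nat_lit 1) (nat_lit 137) (nat_lit 1) (nat_lit 391) (nat_lit 374) (nat_lit 255)) (XT.lf (nat_lit 152) (nat_lit 2312612681) (nat_lit 0) (nat_lit 46668843) (nat_lit 76) (nat_lit 46668843) (nat_lit 136) (nat_lit 1) (nat_lit 134)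 (nat_lit 1) (nat_lit 135) (nat_lit 1) (nat_lit 392) (nat_lit 374) (nat_lit 254)))) (XT.nd (nat_lit 78) (nat_lit 228) (nat_lit 0) (XT.lf (nat_lit 0) (nat_lit 745083603) (nat_lit 0) (nat_lit 876306656) (nat_lit 152) (nat_lit 745083603) (nat_lit 134) (nat_lit 3) (nat_lit 134) (nat_lit 1) (nat_lit 136) (nat_lit 1) (nat_lit 393) (nat_lit 374) (nat_lit 253)) (XT.nd (nat_lit 78) (nat_lit 152) (nat_lit 0) (XT.lf (nat_lit 76) (nat_lit 692751823) (nat_lit 0) (nat_lit 817726160) (nat_lit 76) (nat_lit 817726160) (nat_lit 134) (nat_lit 3) (nat_lit 133) (nat_lit 1) (nat_lit 134) (nat_lit 1) (nat_lit 394) (nat_lit 374) (nat_lit 252)) (XT.lf (nat_lit 152) (nat_lit 2214303969) (nat_lit 0) (nat_lit 38394573) (nat_lit 76) (nat_lit 38394573) (nat_lit 133) (nat_lit 1) (nat_lit 131) (nat_lit 1) (nat_lit 132) (nat_lit 1) (nat_lit 395) (nat_lit 374) (nat_lit 251))))) (XT.nd (nat_lit 234) (nat_lit 228) (nat_lit 0) (XT.nd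 (nat_lit 78) (nat_lit 228) (nat_lit 0) (XT.lf (nat_lit 0) (nat_lit 715182712) (nat_lit 0) (nat_lit 823140242) (nat_lit 152) (nat_lit 715182712) (nat_lit 131) (nat_lit 3) (nat_lit 131) (nat_lit 1) (nat_lit 133) (nat_lit 1) (nat_lit 396) (nat_lit 374) (nat_lit 250)) (XT.nd (nat_lit 78) (nat_lit 152) (nat_lit 0) (XT.lf (nat_lit 76) (nat_lit 670480831) (nat_lit 0) (nat_lit 773297526) (nat_lit 76) (nat_lit 773297526) (nat_lit 131) (nat_lit 3) (nat_lit 130) (nat_lit 1) (nat_lit 131) (nat_lit 1) (nat_lit 397) (nat_lit 374) (nat_lit 249)) (XT.lf (nat_lit 152) (nat_lit 2118581729) (nat_lit 0) (nat_lit 31587310) (nat_lit 76) (nat_lit 31587310) (nat_lit 130) (nat_lit 1) (nat_lit 128) (nat_lit 1) (nat_lit 129) (nat_lit 1) (nat_lit 398) (nat_lit 374) (nat_lit 248)))) (XT.nd (nat_lit 78) (nat_lit 228) (nat_lit 0) (XT.lf (nat_lit 0) (nat_lit 685716480) (nat_lit 0) (nat_lit 774533408) (nat_lit 152) (nat_lit 685716480)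 (nat_lit 128) (nat_lit 3) (nat_lit 128) (nat_lit 1) (nat_lit 130) (nat_lit 1) (nat_lit 399) (nat_lit 374) (nat_lit 247)) (XT.nd (nat_lit 78) (nat_lit 152) (nat_lit 0) (XT.lf (nat_lit 76) (nat_lit 647370230) (nat_lit 0) (nat_lit 731957780) (nat_lit 76) (nat_lit 731957780) (nat_lit 128) (nat_lit 3) (nat_lit 127) (nat_lit 1) (nat_lit 128) (nat_lit 1) (nat_lit 400) (nat_lit 374) (nat_lit 246)) (XT.lf (nat_lit 152) (nat_lit 2025694217) (nat_lit 0) (nat_lit 25986958) (nat_lit 76) (nat_lit 25986958) (nat_lit 127) (nat_lit 1) (nat_lit 125) (nat_lit 1) (nat_lit 126) (nat_lit 1) (nat_lit 401) (nat_lit 374) (nat_lit 245)))))) (XT.nd (nat_lit 468) (nat_lit 456) (nat_lit 0) (XT.nd (nat_lit 234) (nat_lit 228) (nat_lit 0) (XT.nd (nat_lit 78) (nat_lit 228) (nat_lit 0) (XT.lf (nat_lit 0) (nat_lit 656839591) (nat_lit 0) (nat_lit 729909497) (nat_lit 152) (nat_lit 656839591) (nat_lit 125) (nat_lit 3) (nat_lit 125)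 (nat_lit 1) (nat_lit 127) (nat_lit 1) (nat_lit 402) (nat_lit 374) (nat_lit 244)) (XT.nd (nat_lit 78) (nat_lit 152) (nat_lit 0) (XT.lf (nat_lit 76) (nat_lit 623796892) (nat_lit 0) (nat_lit 693387279) (nat_lit 76) (nat_lit 693387279) (nat_lit 125) (nat_lit 3) (nat_lit 124) (nat_lit 1) (nat_lit 125) (nat_lit 1) (nat_lit 403) (nat_lit 374) (nat_lit 243)) (XT.lf (nat_lit 152) (nat_lit 1935812012) (nat_lit 0) (nat_lit 21379535) (nat_lit 76) (nat_lit 21379535) (nat_lit 124) (nat_lit 1) (nat_lit 122) (nat_lit 1) (nat_lit 123) (nat_lit 1) (nat_lit 404) (nat_lit 374) (nat_lit 242)))) (XT.nd (nat_lit 78) (nat_lit 228) (nat_lit 0) (XT.lf (nat_lit 0) (nat_lit 628668267) (nat_lit 0) (nat_lit 688783060) (nat_lit 152) (nat_lit 628668267) (nat_lit 122) (nat_lit 3) (nat_lit 122) (nat_lit 1) (nat_lit 124) (nat_lit 1) (nat_lit 405) (nat_lit 374) (nat_lit 241)) (XT.nd (nat_lit 78) (nat_lit 152) (nat_lit 0) (XT.lf (nat_lit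 76) (nat_lit 600060010) (nat_lit 0) (nat_lit 657312194) (nat_lit 76) (nat_lit 657312194) (nat_lit 122) (nat_lit 3) (nat_lit 121) (nat_lit 1) (nat_lit 122) (nat_lit 1) (nat_lit 406) (nat_lit 374) (nat_lit 240)) (XT.lf (nat_lit 152) (nat_lit 1849043397) (nat_lit 0) (nat_lit 17588996) (nat_lit 76) (nat_lit 17588996) (nat_lit 121) (nat_lit 1) (nat_lit 119) (nat_lit 1) (nat_lit 120) (nat_lit 1) (nat_lit 407) (nat_lit 374) (nat_lit 239))))) (XT.nd (nat_lit 234) (nat_lit 228) (nat_lit 0) (XT.nd (nat_lit 78) (nat_lit 228) (nat_lit 0) (XT.lf (nat_lit 0) (nat_lit 601287616) (nat_lit 0) (nat_lit 650744205) (nat_lit 152) (nat_lit 601287616) (nat_lit 119) (nat_lit 3) (nat_lit 119) (nat_lit 1) (nat_lit 121) (nat_lit 1) (nat_lit 408) (nat_lit 374) (nat_lit 238)) (XT.nd (nat_lit 78) (nat_lit 152) (nat_lit 0) (XT.lf (nat_lit 76) (nat_lit 576395392) (nat_lit 0) (nat_lit 623496905) (nat_lit 76) (nat_lit 623496905)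 (nat_lit 119) (nat_lit 3) (nat_lit 118) (nat_lit 1) (nat_lit 119) (nat_lit 1) (nat_lit 409) (nat_lit 374) (nat_lit 237)) (XT.lf (nat_lit 152) (nat_lit 1765446925) (nat_lit 0) (nat_lit 14470510) (nat_lit 76) (nat_lit 14470510) (nat_lit 118) (nat_lit 1) (nat_lit 116) (nat_lit 1) (nat_lit 117) (nat_lit 1) (nat_lit 410) (nat_lit 374) (nat_lit 236)))) (XT.nd (nat_lit 156) (nat_lit 152) (nat_lit 0) (XT.nd (nat_lit 78) (nat_lit 76) (nat_lit 0) (XT.lf (nat_lit 0) (nat_lit 574757645) (nat_lit 0) (nat_lit 615445702) (nat_lit 152) (nat_lit 574757645) (nat_lit 116) (nat_lit 3) (nat_lit 116) (nat_lit 1) (nat_lit 118) (nat_lit 1) (nat_lit 411) (nat_lit 374) (nat_lit 235)) (XT.lf (nat_lit 76) (nat_lit 552987189) (nat_lit 0) (nat_lit 591737720) (nat_lit 76) (nat_lit 591737720) (nat_lit 116) (nat_lit 3) (nat_lit 115) (nat_lit 1) (nat_lit 116) (nat_lit 1) (nat_lit 412) (nat_lit 374) (nat_lit 234))) (XT.nd (nat_lit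 78) (nat_lit 0) (nat_lit 0) (XT.lf (nat_lit 152) (nat_lit 1685041693) (nat_lit 0) (nat_lit 11904925) (nat_lit 76) (nat_lit 11904925) (nat_lit 115) (nat_lit 1) (nat_lit 113) (nat_lit 1) (nat_lit 114) (nat_lit 1) (nat_lit 413) (nat_lit 374) (nat_lit 233)) (XT.lf (nat_lit 0) (nat_lit 549118189) (nat_lit 0) (nat_lit 582592355) (nat_lit 152) (nat_lit 549118189) (nat_lit 113) (nat_lit 3) (nat_lit 113) (nat_lit 1) (nat_lit 115) (nat_lit 1) (nat_lit 414) (nat_lit 374) (nat_lit 232))))))) (XT.nd (nat_lit 936) (nat_lit 988) (nat_lit 0) (XT.nd (nat_lit 468) (nat_lit 456) (nat_lit 0) (XT.nd (nat_lit 234) (nat_lit 228) (nat_lit 0) (XT.nd (nat_lit 78) (nat_lit 152) (nat_lit 0) (XT.lf (nat_lit 76) (nat_lit 529977522) (nat_lit 0) (nat_lit 561857680) (nat_lit 76) (nat_lit 561857680) (nat_lit 113) (nat_lit 3) (nat_lit 112) (nat_lit 1) (nat_lit 113) (nat_lit 1) (nat_lit 415) (nat_lit 374) (nat_lit 231)) (XT.nd (nat_lit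 78) (nat_lit 0) (nat_lit 0) (XT.lf (nat_lit 152) (nat_lit 1607815723) (nat_lit 0) (nat_lit 9794211) (nat_lit 76) (nat_lit 9794211) (nat_lit 112) (nat_lit 1) (nat_lit 110) (nat_lit 1) (nat_lit 111) (nat_lit 1) (nat_lit 416) (nat_lit 374) (nat_lit 230)) (XT.lf (nat_lit 0) (nat_lit 524392942) (nat_lit 0) (nat_lit 551932222) (nat_lit 152) (nat_lit 524392942) (nat_lit 110) (nat_lit 3) (nat_lit 110) (nat_lit 1) (nat_lit 112) (nat_lit 1) (nat_lit 417) (nat_lit 374) (nat_lit 229)))) (XT.nd (nat_lit 78) (nat_lit 152) (nat_lit 0) (XT.lf (nat_lit 76) (nat_lit 507474384) (nat_lit 0) (nat_lit 533702269) (nat_lit 76) (nat_lit 533702269) (nat_lit 110) (nat_lit 3) (nat_lit 109) (nat_lit 1) (nat_lit 110) (nat_lit 1) (nat_lit 418) (nat_lit 374) (nat_lit 228)) (XT.nd (nat_lit 78) (nat_lit 0) (nat_lit 0) (XT.lf (nat_lit 152) (nat_lit 1533732785) (nat_lit 0) (nat_lit 8057721) (nat_lit 76) (nat_lit 8057721) (nat_lit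 109) (nat_lit 1) (nat_lit 107) (nat_lit 1) (nat_lit 108) (nat_lit 1) (nat_lit 419) (nat_lit 374) (nat_lit 227)) (XT.lf (nat_lit 0) (nat_lit 500592752) (nat_lit 0) (nat_lit 523249385) (nat_lit 152) (nat_lit 500592752) (nat_lit 107) (nat_lit 3) (nat_lit 107) (nat_lit 1) (nat_lit 109) (nat_lit 1) (nat_lit 420) (nat_lit 374) (nat_lit 226))))) (XT.nd (nat_lit 234) (nat_lit 228) (nat_lit 0) (XT.nd (nat_lit 78) (nat_lit 152) (nat_lit 0) (XT.lf (nat_lit 76) (nat_lit 485558112) (nat_lit 0) (nat_lit 507135858) (nat_lit 76) (nat_lit 507135858) (nat_lit 107) (nat_lit 3) (nat_lit 106) (nat_lit 1) (nat_lit 107) (nat_lit 1) (nat_lit 421) (nat_lit 374) (nat_lit 225)) (XT.nd (nat_lit 78) (nat_lit 0) (nat_lit 0) (XT.lf (nat_lit 152) (nat_lit 1462737959) (nat_lit 0) (nat_lit 6629107) (nat_lit 76) (nat_lit 6629107) (nat_lit 106) (nat_lit 1) (nat_lit 104) (nat_lit 1) (nat_lit 105) (nat_lit 1) (nat_lit 422) (nat_lit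 374) (nat_lit 224)) (XT.lf (nat_lit 0) (nat_lit 477718306) (nat_lit 0) (nat_lit 496357974) (nat_lit 152) (nat_lit 477718306) (nat_lit 104) (nat_lit 3) (nat_lit 104) (nat_lit 1) (nat_lit 106) (nat_lit 1) (nat_lit 423) (nat_lit 374) (nat_lit 223)))) (XT.nd (nat_lit 78) (nat_lit 152) (nat_lit 0) (XT.lf (nat_lit 76) (nat_lit 464286700) (nat_lit 0) (nat_lit 482038765) (nat_lit 76) (nat_lit 482038765) (nat_lit 104) (nat_lit 3) (nat_lit 103) (nat_lit 1) (nat_lit 104) (nat_lit 1) (nat_lit 424) (nat_lit 374) (nat_lit 222)) (XT.nd (nat_lit 78) (nat_lit 0) (nat_lit 0) (XT.lf (nat_lit 152) (nat_lit 1394762140) (nat_lit 0) (nat_lit 5453783) (nat_lit 76) (nat_lit 5453783) (nat_lit 103) (nat_lit 1) (nat_lit 101) (nat_lit 1) (nat_lit 102) (nat_lit 1) (nat_lit 425) (nat_lit 374) (nat_lit 221)) (XT.lf (nat_lit 0) (nat_lit 455762328) (nat_lit 0) (nat_lit 471097229) (nat_lit 152) (nat_lit 455762328) (nat_lit 101)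 (nat_lit 3) (nat_lit 101) (nat_lit 1) (nat_lit 103) (nat_lit 1) (nat_lit 426) (nat_lit 374) (nat_lit 220)))))) (XT.nd (nat_lit 468) (nat_lit 532) (nat_lit 0) (XT.nd (nat_lit 234) (nat_lit 228) (nat_lit 0) (XT.nd (nat_lit 78) (nat_lit 152) (nat_lit 0) (XT.lf (nat_lit 76) (nat_lit 443700140) (nat_lit 0) (nat_lit 458304807) (nat_lit 76) (nat_lit 458304807) (nat_lit 101) (nat_lit 3) (nat_lit 100) (nat_lit 1) (nat_lit 101) (nat_lit 1) (nat_lit 427) (nat_lit 374) (nat_lit 219)) (XT.nd (nat_lit 78) (nat_lit 0) (nat_lit 0) (XT.lf (nat_lit 152) (nat_lit 1329725694) (nat_lit 0) (nat_lit 4486841) (nat_lit 76) (nat_lit 4486841) (nat_lit 100) (nat_lit 1) (nat_lit 98) (nat_lit 1) (nat_lit 99) (nat_lit 1) (nat_lit 428) (nat_lit 374) (nat_lit 218)) (XT.lf (nat_lit 0) (nat_lit 434711362) (nat_lit 0) (nat_lit 447327423) (nat_lit 152) (nat_lit 434711362) (nat_lit 98) (nat_lit 3) (nat_lit 98) (nat_lit 1) (nat_lit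 100) (nat_lit 1) (nat_lit 429) (nat_lit 374) (nat_lit 217)))) (XT.nd (nat_lit 78) (nat_lit 152) (nat_lit 0) (XT.lf (nat_lit 76) (nat_lit 423823987) (nat_lit 0) (nat_lit 435839283) (nat_lit 76) (nat_lit 435839283) (nat_lit 98) (nat_lit 3) (nat_lit 97) (nat_lit 1) (nat_lit 98) (nat_lit 1) (nat_lit 430) (nat_lit 374) (nat_lit 216)) (XT.nd (nat_lit 78) (nat_lit 0) (nat_lit 0) (XT.lf (nat_lit 152) (nat_lit 1267541409) (nat_lit 0) (nat_lit 3691335) (nat_lit 76) (nat_lit 3691335) (nat_lit 97) (nat_lit 1) (nat_lit 95) (nat_lit 1) (nat_lit 96) (nat_lit 1) (nat_lit 431) (nat_lit 374) (nat_lit 215)) (XT.lf (nat_lit 0) (nat_lit 414547225) (nat_lit 0) (nat_lit 424926490) (nat_lit 152) (nat_lit 414547225) (nat_lit 95) (nat_lit 3) (nat_lit 95) (nat_lit 1) (nat_lit 97) (nat_lit 1) (nat_lit 432) (nat_lit 374) (nat_lit 214))))) (XT.nd (nat_lit 234) (nat_lit 304) (nat_lit 0) (XT.nd (nat_lit 78) (nat_lit 152) (nat_lit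 0) (XT.lf (nat_lit 76) (nat_lit 404672265) (nat_lit 0) (nat_lit 414557279) (nat_lit 76) (nat_lit 414557279) (nat_lit 95) (nat_lit 3) (nat_lit 94) (nat_lit 1) (nat_lit 95) (nat_lit 1) (nat_lit 433) (nat_lit 374) (nat_lit 213)) (XT.nd (nat_lit 78) (nat_lit 0) (nat_lit 0) (XT.lf (nat_lit 152) (nat_lit 1208116873) (nat_lit 0) (nat_lit 3036870) (nat_lit 76) (nat_lit 3036870) (nat_lit 94) (nat_lit 1) (nat_lit 92) (nat_lit 1) (nat_lit 93) (nat_lit 1) (nat_lit 434) (nat_lit 374) (nat_lit 212)) (XT.lf (nat_lit 0) (nat_lit 395248182) (nat_lit 0) (nat_lit 403787228) (nat_lit 152) (nat_lit 395248182) (nat_lit 92) (nat_lit 3) (nat_lit 92) (nat_lit 1) (nat_lit 94) (nat_lit 1) (nat_lit 435) (nat_lit 374) (nat_lit 211)))) (XT.nd (nat_lit 156) (nat_lit 76) (nat_lit 0) (XT.nd (nat_lit 78) (nat_lit 152) (nat_lit 0) (XT.lf (nat_lit 76) (nat_lit 386249848) (nat_lit 0) (nat_lit 394382273) (nat_lit 76) (nat_lit 394382273)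 (nat_lit 92) (nat_lit 3) (nat_lit 91) (nat_lit 1) (nat_lit 92) (nat_lit 1) (nat_lit 436) (nat_lit 374) (nat_lit 210)) (XT.lf (nat_lit 152) (nat_lit 1151356379) (nat_lit 0) (nat_lit 2498441) (nat_lit 76) (nat_lit 2498441) (nat_lit 91) (nat_lit 1) (nat_lit 89) (nat_lit 1) (nat_lit 90) (nat_lit 1) (nat_lit 437) (nat_lit 374) (nat_lit 209))) (XT.nd (nat_lit 78) (nat_lit 76) (nat_lit 0) (XT.lf (nat_lit 0) (nat_lit 376789899) (nat_lit 0) (nat_lit 383814994) (nat_lit 152) (nat_lit 376789899) (nat_lit 89) (nat_lit 3) (nat_lit 89) (nat_lit 1) (nat_lit 91) (nat_lit 1) (nat_lit 438) (nat_lit 374) (nat_lit 208)) (XT.lf (nat_lit 76) (nat_lit 368554395) (nat_lit 0) (nat_lit 375244962) (nat_lit 76) (nat_lit 375244962) (nat_lit 89) (nat_lit 3) (nat_lit 88) (nat_lit 1) (nat_lit 89) (nat_lit 1) (nat_lit 439) (nat_lit 374) (nat_lit 207))))))))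
noncomputable def ec155 : XT := (XT.nd (nat_lit 41106) (nat_lit 0) (nat_lit 10640) (XT.nd (nat_lit 40092) (nat_lit 0) (nat_lit 14896) (XT.nd (nat_lit 468) (nat_lit 228) (nat_lit 0) (XT.nd (nat_lit 234) (nat_lit 228) (nat_lit 0) (XT.nd (nat_lit 78) (nat_lit 76) (nat_lit 0) (XT.lf (nat_lit 152) (nat_lit 1097162444) (nat_lit 0) (nat_lit 2055473) (nat_lit 76) (nat_lit 2055473) (nat_lit 88) (nat_lit 1) (nat_lit 86) (nat_lit 1) (nat_lit 87) (nat_lit 1) (nat_lit 440) (nat_lit 374) (nat_lit 206)) (XT.nd (nat_lit 78) (nat_lit 76) (nat_lit 0) (XT.lf (nat_lit 0) (nat_lit 359146212) (nat_lit 0) (nat_lit 364925775) (nat_lit 152) (nat_lit 359146212) (nat_lit 86) (nat_lit 3) (nat_lit 86) (nat_lit 1) (nat_lit 88) (nat_lit 1) (nat_lit 441) (nat_lit 374) (nat_lit 205)) (XT.lf (nat_lit 76) (nat_lit 351577936) (nat_lit 0) (nat_lit 357082282) (nat_lit 76) (nat_lit 357082282) (nat_lit 86) (nat_lit 3) (nat_lit 85) (nat_lit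 1) (nat_lit 86) (nat_lit 1) (nat_lit 442) (nat_lit 374) (nat_lit 204)))) (XT.nd (nat_lit 78) (nat_lit 76) (nat_lit 0) (XT.lf (nat_lit 152) (nat_lit 1045437022) (nat_lit 0) (nat_lit 1691043) (nat_lit 76) (nat_lit 1691043) (nat_lit 85) (nat_lit 1) (nat_lit 83) (nat_lit 1) (nat_lit 84) (nat_lit 1) (nat_lit 443) (nat_lit 374) (nat_lit 203)) (XT.nd (nat_lit 78) (nat_lit 76) (nat_lit 0) (XT.lf (nat_lit 0) (nat_lit 342289745) (nat_lit 0) (nat_lit 347044605) (nat_lit 152) (nat_lit 342289745) (nat_lit 83) (nat_lit 3) (nat_lit 83) (nat_lit 1) (nat_lit 85) (nat_lit 1) (nat_lit 444) (nat_lit 374) (nat_lit 202)) (XT.lf (nat_lit 76) (nat_lit 335308156) (nat_lit 0) (nat_lit 339836594) (nat_lit 76) (nat_lit 339836594) (nat_lit 83) (nat_lit 3) (nat_lit 82) (nat_lit 1) (nat_lit 83) (nat_lit 1) (nat_lit 445) (nat_lit 374) (nat_lit 201))))) (XT.nd (nat_lit 39390) (nat_lit 0) (nat_lit 16188) (XT.nd (nat_lit 78) (nat_lit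 76) (nat_lit 0) (XT.lf (nat_lit 152) (nat_lit 996082448) (nat_lit 0) (nat_lit 1391225) (nat_lit 76) (nat_lit 1391225) (nat_lit 82) (nat_lit 1) (nat_lit 80) (nat_lit 1) (nat_lit 81) (nat_lit 1) (nat_lit 446) (nat_lit 374) (nat_lit 200)) (XT.nd (nat_lit 78) (nat_lit 76) (nat_lit 0) (XT.lf (nat_lit 0) (nat_lit 326192398) (nat_lit 0) (nat_lit 330104234) (nat_lit 152) (nat_lit 326192398) (nat_lit 80) (nat_lit 3) (nat_lit 80) (nat_lit 1) (nat_lit 82) (nat_lit 1) (nat_lit 447) (nat_lit 374) (nat_lit 199)) (XT.lf (nat_lit 76) (nat_lit 319729437) (nat_lit 0) (nat_lit 323454995) (nat_lit 76) (nat_lit 323454995) (nat_lit 80) (nat_lit 3) (nat_lit 79) (nat_lit 1) (nat_lit 80) (nat_lit 1) (nat_lit 448) (nat_lit 374) (nat_lit 198)))) (XT.nd (nat_lit 78) (nat_lit 0) (nat_lit 0) (XT.lf (nat_lit 836) (nat_lit 2963979164) (nat_lit 0) (nat_lit 5262538193) (nat_lit 836) (nat_lit 2963979164) (nat_lit 303) (nat_lit 1)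 (nat_lit 292) (nat_lit 0) (nat_lit 303) (nat_lit 0) (nat_lit 270) (nat_lit 375) (nat_lit 375)) (XT.nd (nat_lit 78) (nat_lit 0) (nat_lit 76) (XT.lf (nat_lit 836) (nat_lit 11488753279) (nat_lit 76) (nat_lit 5177658545) (nat_lit 0) (nat_lit 5177658545) (nat_lit 303) (nat_lit 1) (nat_lit 293) (nat_lit 1) (nat_lit 292) (nat_lit 0) (nat_lit 271) (nat_lit 375) (nat_lit 374)) (XT.lf (nat_lit 836) (nat_lit 5475366827) (nat_lit 0) (nat_lit 10373013206) (nat_lit 760) (nat_lit 5475366827) (nat_lit 304) (nat_lit 1) (nat_lit 293) (nat_lit 1) (nat_lit 303) (nat_lit 1) (nat_lit 272) (nat_lit 375) (nat_lit 373)))))) (XT.nd (nat_lit 468) (nat_lit 1368) (nat_lit 0) (XT.nd (nat_lit 234) (nat_lit 0) (nat_lit 152) (XT.nd (nat_lit 78) (nat_lit 0) (nat_lit 76) (XT.lf (nat_lit 836) (nat_lit 10271027346) (nat_lit 76) (nat_lit 5274603164) (nat_lit 0) (nat_lit 5274603164) (nat_lit 304) (nat_lit 1) (nat_lit 294) (nat_lit 1)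 (nat_lit 293) (nat_lit 1) (nat_lit 273) (nat_lit 375) (nat_lit 372)) (XT.nd (nat_lit 78) (nat_lit 0) (nat_lit 0) (XT.lf (nat_lit 836) (nat_lit 4727655253) (nat_lit 0) (nat_lit 10877368826) (nat_lit 760) (nat_lit 4727655253) (nat_lit 305) (nat_lit 1) (nat_lit 294) (nat_lit 1) (nat_lit 304) (nat_lit 1) (nat_lit 274) (nat_lit 375) (nat_lit 371)) (XT.lf (nat_lit 836) (nat_lit 8502995895) (nat_lit 76) (nat_lit 5678495807) (nat_lit 0) (nat_lit 5678495807) (nat_lit 305) (nat_lit 1) (nat_lit 295) (nat_lit 1) (nat_lit 294) (nat_lit 1) (nat_lit 275) (nat_lit 375) (nat_lit 370)))) (XT.nd (nat_lit 78) (nat_lit 0) (nat_lit 0) (XT.lf (nat_lit 836) (nat_lit 3728318111) (nat_lit 0) (nat_lit 11946530820) (nat_lit 760) (nat_lit 3728318111) (nat_lit 306) (nat_lit 1) (nat_lit 295) (nat_lit 1) (nat_lit 305) (nat_lit 1) (nat_lit 276) (nat_lit 375) (nat_lit 369)) (XT.nd (nat_lit 78) (nat_lit 0) (nat_lit 76) (XT.lf (nat_lit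 836) (nat_lit 6267417220) (nat_lit 76) (nat_lit 6345753594) (nat_lit 0) (nat_lit 6345753594) (nat_lit 306) (nat_lit 1) (nat_lit 296) (nat_lit 1) (nat_lit 295) (nat_lit 1) (nat_lit 277) (nat_lit 375) (nat_lit 368)) (XT.lf (nat_lit 836) (nat_lit 2516041574) (nat_lit 0) (nat_lit 13498860437) (nat_lit 760) (nat_lit 2516041574) (nat_lit 307) (nat_lit 1) (nat_lit 296) (nat_lit 1) (nat_lit 306) (nat_lit 1) (nat_lit 278) (nat_lit 375) (nat_lit 367))))) (XT.nd (nat_lit 234) (nat_lit 912) (nat_lit 0) (XT.nd (nat_lit 78) (nat_lit 684) (nat_lit 0) (XT.lf (nat_lit 836) (nat_lit 3637850955) (nat_lit 76) (nat_lit 7237562030) (nat_lit 0) (nat_lit 7237562030) (nat_lit 307) (nat_lit 1) (nat_lit 297) (nat_lit 1) (nat_lit 296) (nat_lit 1) (nat_lit 279) (nat_lit 375) (nat_lit 366)) (XT.nd (nat_lit 78) (nat_lit 760) (nat_lit 0) (XT.lf (nat_lit 76) (nat_lit 1125186934) (nat_lit 0) (nat_lit 15461695989) (nat_lit 760)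 (nat_lit 1125186934) (nat_lit 298) (nat_lit 1) (nat_lit 297) (nat_lit 1) (nat_lit 307) (nat_lit 1) (nat_lit 280) (nat_lit 375) (nat_lit 365)) (XT.lf (nat_lit 836) (nat_lit 679584927) (nat_lit 0) (nat_lit 8319397576) (nat_lit 760) (nat_lit 8319397576) (nat_lit 298) (nat_lit 1) (nat_lit 287) (nat_lit 1) (nat_lit 297) (nat_lit 1) (nat_lit 281) (nat_lit 375) (nat_lit 364)))) (XT.nd (nat_lit 156) (nat_lit 380) (nat_lit 0) (XT.nd (nat_lit 78) (nat_lit 0) (nat_lit 0) (XT.lf (nat_lit 532) (nat_lit 16127406179) (nat_lit 0) (nat_lit 407098886) (nat_lit 456) (nat_lit 407098886) (nat_lit 287) (nat_lit 1) (nat_lit 280) (nat_lit 1) (nat_lit 286) (nat_lit 1) (nat_lit 282) (nat_lit 375) (nat_lit 363)) (XT.lf (nat_lit 76) (nat_lit 7050873912) (nat_lit 0) (nat_lit 2467926769) (nat_lit 532) (nat_lit 7050873912) (nat_lit 281) (nat_lit 1) (nat_lit 280) (nat_lit 1) (nat_lit 287) (nat_lit 1) (nat_lit 283) (nat_lit 375)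 (nat_lit 362))) (XT.nd (nat_lit 78) (nat_lit 0) (nat_lit 0) (XT.lf (nat_lit 456) (nat_lit 12132744123) (nat_lit 0) (nat_lit 2040408274) (nat_lit 380) (nat_lit 2040408274) (nat_lit 281) (nat_lit 1) (nat_lit 275) (nat_lit 1) (nat_lit 280) (nat_lit 1) (nat_lit 284) (nat_lit 375) (nat_lit 361)) (XT.lf (nat_lit 76) (nat_lit 5029302528) (nat_lit 0) (nat_lit 5806328189) (nat_lit 456) (nat_lit 5029302528) (nat_lit 276) (nat_lit 1) (nat_lit 275) (nat_lit 1) (nat_lit 281) (nat_lit 1) (nat_lit 285) (nat_lit 375) (nat_lit 360))))))) (XT.nd (nat_lit 1014) (nat_lit 1748) (nat_lit 0) (XT.nd (nat_lit 468) (nat_lit 1140) (nat_lit 0) (XT.nd (nat_lit 234) (nat_lit 684) (nat_lit 0) (XT.nd (nat_lit 78) (nat_lit 304) (nat_lit 0) (XT.lf (nat_lit 456) (nat_lit 7989584063) (nat_lit 0) (nat_lit 3769431759) (nat_lit 380) (nat_lit 3769431759) (nat_lit 276) (nat_lit 1) (nat_lit 270) (nat_lit 1) (nat_lit 275) (nat_lit 1) (nat_lit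 286) (nat_lit 375) (nat_lit 359)) (XT.nd (nat_lit 78) (nat_lit 304) (nat_lit 0) (XT.lf (nat_lit 76) (nat_lit 2944055545) (nat_lit 0) (nat_lit 9313636962) (nat_lit 456) (nat_lit 2944055545) (nat_lit 271) (nat_lit 1) (nat_lit 270) (nat_lit 1) (nat_lit 276) (nat_lit 1) (nat_lit 287) (nat_lit 375) (nat_lit 358)) (XT.lf (nat_lit 380) (nat_lit 3736488308) (nat_lit 0) (nat_lit 5573482003) (nat_lit 304) (nat_lit 5573482003) (nat_lit 271) (nat_lit 1) (nat_lit 266) (nat_lit 1) (nat_lit 270) (nat_lit 1) (nat_lit 288) (nat_lit 375) (nat_lit 357)))) (XT.nd (nat_lit 78) (nat_lit 684) (nat_lit 0) (XT.lf (nat_lit 76) (nat_lit 813034923) (nat_lit 0) (nat_lit 12951326816) (nat_lit 380) (nat_lit 813034923) (nat_lit 267) (nat_lit 1) (nat_lit 266) (nat_lit 1) (nat_lit 271) (nat_lit 1) (nat_lit 289) (nat_lit 375) (nat_lit 356)) (XT.nd (nat_lit 78) (nat_lit 304) (nat_lit 0) (XT.lf (nat_lit 76) (nat_lit 6850865894) (nat_lit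 0) (nat_lit 573773326) (nat_lit 380) (nat_lit 6850865894) (nat_lit 262) (nat_lit 1) (nat_lit 261) (nat_lit 1) (nat_lit 266) (nat_lit 1) (nat_lit 290) (nat_lit 375) (nat_lit 355)) (XT.lf (nat_lit 380) (nat_lit 11332412582) (nat_lit 0) (nat_lit 1326348877) (nat_lit 304) (nat_lit 1326348877) (nat_lit 262) (nat_lit 1) (nat_lit 257) (nat_lit 1) (nat_lit 261) (nat_lit 1) (nat_lit 291) (nat_lit 375) (nat_lit 354))))) (XT.nd (nat_lit 234) (nat_lit 836) (nat_lit 0) (XT.nd (nat_lit 78) (nat_lit 304) (nat_lit 0) (XT.lf (nat_lit 76) (nat_lit 4445070422) (nat_lit 0) (nat_lit 4809556501) (nat_lit 380) (nat_lit 4445070422) (nat_lit 258) (nat_lit 1) (nat_lit 257) (nat_lit 1) (nat_lit 262) (nat_lit 1) (nat_lit 292) (nat_lit 375) (nat_lit 353)) (XT.nd (nat_lit 78) (nat_lit 0) (nat_lit 0) (XT.lf (nat_lit 380) (nat_lit 6486594268) (nat_lit 0) (nat_lit 3468793602) (nat_lit 304) (nat_lit 3468793602) (nat_lit 258) (nat_lit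 1) (nat_lit 253) (nat_lit 1) (nat_lit 257) (nat_lit 1) (nat_lit 293) (nat_lit 375) (nat_lit 352)) (XT.lf (nat_lit 76) (nat_lit 2045582340) (nat_lit 0) (nat_lit 9065557028) (nat_lit 380) (nat_lit 2045582340) (nat_lit 254) (nat_lit 1) (nat_lit 253) (nat_lit 1) (nat_lit 258) (nat_lit 1) (nat_lit 294) (nat_lit 375) (nat_lit 351)))) (XT.nd (nat_lit 156) (nat_lit 228) (nat_lit 0) (XT.nd (nat_lit 78) (nat_lit 380) (nat_lit 0) (XT.lf (nat_lit 304) (nat_lit 1663584506) (nat_lit 0) (nat_lit 5615725411) (nat_lit 228) (nat_lit 5615725411) (nat_lit 254) (nat_lit 1) (nat_lit 250) (nat_lit 1) (nat_lit 253) (nat_lit 1) (nat_lit 295) (nat_lit 375) (nat_lit 350)) (XT.lf (nat_lit 380) (nat_lit 11978677096) (nat_lit 0) (nat_lit 332385304) (nat_lit 304) (nat_lit 332385304) (nat_lit 250) (nat_lit 1) (nat_lit 245) (nat_lit 1) (nat_lit 249) (nat_lit 1) (nat_lit 296) (nat_lit 375) (nat_lit 349))) (XT.nd (nat_lit 78) (nat_lit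 228) (nat_lit 0) (XT.lf (nat_lit 76) (nat_lit 4687344904) (nat_lit 0) (nat_lit 3018562779) (nat_lit 380) (nat_lit 4687344904) (nat_lit 246) (nat_lit 1) (nat_lit 245) (nat_lit 1) (nat_lit 250) (nat_lit 1) (nat_lit 297) (nat_lit 375) (nat_lit 348)) (XT.lf (nat_lit 304) (nat_lit 6846015420) (nat_lit 0) (nat_lit 2653318850) (nat_lit 228) (nat_lit 2653318850) (nat_lit 246) (nat_lit 1) (nat_lit 242) (nat_lit 1) (nat_lit 245) (nat_lit 1) (nat_lit 298) (nat_lit 375) (nat_lit 347)))))) (XT.nd (nat_lit 468) (nat_lit 988) (nat_lit 0) (XT.nd (nat_lit 234) (nat_lit 228) (nat_lit 0) (XT.nd (nat_lit 78) (nat_lit 532) (nat_lit 0) (XT.lf (nat_lit 76) (nat_lit 2162762168) (nat_lit 0) (nat_lit 7592642158) (nat_lit 304) (nat_lit 2162762168) (nat_lit 243) (nat_lit 1) (nat_lit 242) (nat_lit 1) (nat_lit 246) (nat_lit 1) (nat_lit 299) (nat_lit 375) (nat_lit 346)) (XT.nd (nat_lit 78) (nat_lit 304) (nat_lit 0) (XT.lf (nat_lit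 304) (nat_lit 1802594667) (nat_lit 0) (nat_lit 4943209855) (nat_lit 228) (nat_lit 4943209855) (nat_lit 243) (nat_lit 1) (nat_lit 239) (nat_lit 1) (nat_lit 242) (nat_lit 1) (nat_lit 300) (nat_lit 375) (nat_lit 345)) (XT.lf (nat_lit 304) (nat_lit 10848786523) (nat_lit 0) (nat_lit 309794514) (nat_lit 228) (nat_lit 309794514) (nat_lit 239) (nat_lit 1) (nat_lit 235) (nat_lit 1) (nat_lit 238) (nat_lit 1) (nat_lit 301) (nat_lit 375) (nat_lit 344)))) (XT.nd (nat_lit 78) (nat_lit 228) (nat_lit 0) (XT.lf (nat_lit 76) (nat_lit 4103785252) (nat_lit 0) (nat_lit 3040863665) (nat_lit 304) (nat_lit 4103785252) (nat_lit 236) (nat_lit 1) (nat_lit 235) (nat_lit 1) (nat_lit 239) (nat_lit 1) (nat_lit 302) (nat_lit 375) (nat_lit 343)) (XT.nd (nat_lit 78) (nat_lit 0) (nat_lit 0) (XT.lf (nat_lit 304) (nat_lit 5643080488) (nat_lit 0) (nat_lit 2696775082) (nat_lit 228) (nat_lit 2696775082) (nat_lit 236) (nat_lit 1) (nat_lit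 232) (nat_lit 1) (nat_lit 235) (nat_lit 1) (nat_lit 303) (nat_lit 375) (nat_lit 342)) (XT.lf (nat_lit 76) (nat_lit 1554099764) (nat_lit 0) (nat_lit 7722308276) (nat_lit 304) (nat_lit 1554099764) (nat_lit 233) (nat_lit 1) (nat_lit 232) (nat_lit 1) (nat_lit 236) (nat_lit 1) (nat_lit 304) (nat_lit 375) (nat_lit 341))))) (XT.nd (nat_lit 234) (nat_lit 532) (nat_lit 0) (XT.nd (nat_lit 78) (nat_lit 304) (nat_lit 0) (XT.lf (nat_lit 228) (nat_lit 569473826) (nat_lit 0) (nat_lit 5029397695) (nat_lit 152) (nat_lit 5029397695) (nat_lit 233) (nat_lit 1) (nat_lit 230) (nat_lit 1) (nat_lit 232) (nat_lit 1) (nat_lit 305) (nat_lit 375) (nat_lit 340)) (XT.nd (nat_lit 78) (nat_lit 0) (nat_lit 0) (XT.lf (nat_lit 304) (nat_lit 8604558563) (nat_lit 0) (nat_lit 913866488) (nat_lit 228) (nat_lit 913866488) (nat_lit 230) (nat_lit 1) (nat_lit 226) (nat_lit 1) (nat_lit 229) (nat_lit 1) (nat_lit 306) (nat_lit 375) (nat_lit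 339)) (XT.lf (nat_lit 76) (nat_lit 3005368058) (nat_lit 0) (nat_lit 4227769567) (nat_lit 304) (nat_lit 3005368058) (nat_lit 227) (nat_lit 1) (nat_lit 226) (nat_lit 1) (nat_lit 230) (nat_lit 1) (nat_lit 307) (nat_lit 375) (nat_lit 338)))) (XT.nd (nat_lit 156) (nat_lit 380) (nat_lit 0) (XT.nd (nat_lit 78) (nat_lit 0) (nat_lit 0) (XT.lf (nat_lit 228) (nat_lit 3472239194) (nat_lit 0) (nat_lit 3289230699) (nat_lit 152) (nat_lit 3289230699) (nat_lit 227) (nat_lit 1) (nat_lit 224) (nat_lit 1) (nat_lit 226) (nat_lit 1) (nat_lit 308) (nat_lit 375) (nat_lit 337)) (XT.lf (nat_lit 76) (nat_lit 498850561) (nat_lit 0) (nat_lit 8871426909) (nat_lit 228) (nat_lit 498850561) (nat_lit 225) (nat_lit 1) (nat_lit 224) (nat_lit 1) (nat_lit 227) (nat_lit 1) (nat_lit 309) (nat_lit 375) (nat_lit 336))) (XT.nd (nat_lit 78) (nat_lit 152) (nat_lit 0) (XT.lf (nat_lit 76) (nat_lit 4117101203) (nat_lit 0) (nat_lit 1454013094)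 (nat_lit 228) (nat_lit 4117101203) (nat_lit 222) (nat_lit 1) (nat_lit 221) (nat_lit 1) (nat_lit 224) (nat_lit 1) (nat_lit 310) (nat_lit 375) (nat_lit 335)) (XT.lf (nat_lit 228) (nat_lit 5717316604) (nat_lit 0) (nat_lit 1897994207) (nat_lit 152) (nat_lit 1897994207) (nat_lit 222) (nat_lit 1) (nat_lit 219) (nat_lit 1) (nat_lit 221) (nat_lit 1) (nat_lit 311) (nat_lit 375) (nat_lit 334))))))))
noncomputable def ec156 : XT := (XT.nd (nat_lit 1950) (nat_lit 1824) (nat_lit 0) (XT.nd (nat_lit 936) (nat_lit 1216) (nat_lit 0) (XT.nd (nat_lit 468) (nat_lit 608) (nat_lit 0) (XT.nd (nat_lit 234) (nat_lit 152) (nat_lit 0) (XT.nd (nat_lit 78) (nat_lit 380) (nat_lit 0) (XT.lf (nat_lit 76) (nat_lit 1613278003) (nat_lit 0) (nat_lit 6115704436) (nat_lit 228) (nat_lit 1613278003) (nat_lit 220) (nat_lit 1) (nat_lit 219) (nat_lit 1) (nat_lit 222) (nat_lit 1) (nat_lit 312) (nat_lit 375) (nat_lit 333)) (XT.nd (nat_lit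 78) (nat_lit 228) (nat_lit 0) (XT.lf (nat_lit 228) (nat_lit 755762660) (nat_lit 0) (nat_lit 4209450511) (nat_lit 152) (nat_lit 4209450511) (nat_lit 220) (nat_lit 1) (nat_lit 217) (nat_lit 1) (nat_lit 219) (nat_lit 1) (nat_lit 313) (nat_lit 375) (nat_lit 332)) (XT.lf (nat_lit 228) (nat_lit 7428123687) (nat_lit 0) (nat_lit 791899741) (nat_lit 152) (nat_lit 791899741) (nat_lit 217) (nat_lit 1) (nat_lit 214) (nat_lit 1) (nat_lit 216) (nat_lit 1) (nat_lit 314) (nat_lit 375) (nat_lit 331)))) (XT.nd (nat_lit 78) (nat_lit 152) (nat_lit 0) (XT.lf (nat_lit 76) (nat_lit 2472840578) (nat_lit 0) (nat_lit 3904890473) (nat_lit 228) (nat_lit 2472840578) (nat_lit 215) (nat_lit 1) (nat_lit 214) (nat_lit 1) (nat_lit 217) (nat_lit 1) (nat_lit 315) (nat_lit 375) (nat_lit 330)) (XT.nd (nat_lit 78) (nat_lit 0) (nat_lit 0) (XT.lf (nat_lit 228) (nat_lit 2518468071) (nat_lit 0) (nat_lit 3087718139) (nat_lit 152) (nat_lit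 3087718139) (nat_lit 215) (nat_lit 1) (nat_lit 212) (nat_lit 1) (nat_lit 214) (nat_lit 1) (nat_lit 316) (nat_lit 375) (nat_lit 329)) (XT.lf (nat_lit 76) (nat_lit 82775099) (nat_lit 0) (nat_lit 8377181198) (nat_lit 228) (nat_lit 82775099) (nat_lit 213) (nat_lit 1) (nat_lit 212) (nat_lit 1) (nat_lit 215) (nat_lit 1) (nat_lit 317) (nat_lit 375) (nat_lit 328))))) (XT.nd (nat_lit 234) (nat_lit 304) (nat_lit 0) (XT.nd (nat_lit 78) (nat_lit 152) (nat_lit 0) (XT.lf (nat_lit 76) (nat_lit 3125452800) (nat_lit 0) (nat_lit 2139691912) (nat_lit 152) (nat_lit 3125452800) (nat_lit 211) (nat_lit 1) (nat_lit 210) (nat_lit 1) (nat_lit 212) (nat_lit 1) (nat_lit 318) (nat_lit 375) (nat_lit 327)) (XT.nd (nat_lit 78) (nat_lit 0) (nat_lit 0) (XT.lf (nat_lit 228) (nat_lit 3878331115) (nat_lit 0) (nat_lit 2182742673) (nat_lit 152) (nat_lit 2182742673) (nat_lit 211) (nat_lit 1) (nat_lit 208) (nat_lit 1) (nat_lit 210) (nat_lit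 1) (nat_lit 319) (nat_lit 375) (nat_lit 326)) (XT.lf (nat_lit 76) (nat_lit 777578584) (nat_lit 0) (nat_lit 6545840237) (nat_lit 228) (nat_lit 777578584) (nat_lit 209) (nat_lit 1) (nat_lit 208) (nat_lit 1) (nat_lit 211) (nat_lit 1) (nat_lit 320) (nat_lit 375) (nat_lit 325)))) (XT.nd (nat_lit 78) (nat_lit 152) (nat_lit 0) (XT.lf (nat_lit 76) (nat_lit 3610404168) (nat_lit 0) (nat_lit 738547789) (nat_lit 152) (nat_lit 3610404168) (nat_lit 207) (nat_lit 1) (nat_lit 206) (nat_lit 1) (nat_lit 208) (nat_lit 1) (nat_lit 321) (nat_lit 375) (nat_lit 324)) (XT.nd (nat_lit 78) (nat_lit 0) (nat_lit 0) (XT.lf (nat_lit 228) (nat_lit 4911075654) (nat_lit 0) (nat_lit 1455242389) (nat_lit 152) (nat_lit 1455242389) (nat_lit 207) (nat_lit 1) (nat_lit 204) (nat_lit 1) (nat_lit 206) (nat_lit 1) (nat_lit 322) (nat_lit 375) (nat_lit 323)) (XT.lf (nat_lit 76) (nat_lit 1315410402) (nat_lit 0) (nat_lit 5055671852) (nat_lit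 228) (nat_lit 1315410402) (nat_lit 205) (nat_lit 1) (nat_lit 204) (nat_lit 1) (nat_lit 207) (nat_lit 1) (nat_lit 323) (nat_lit 375) (nat_lit 322)))))) (XT.nd (nat_lit 468) (nat_lit 608) (nat_lit 0) (XT.nd (nat_lit 234) (nat_lit 304) (nat_lit 0) (XT.nd (nat_lit 78) (nat_lit 228) (nat_lit 0) (XT.lf (nat_lit 152) (nat_lit 377606424) (nat_lit 0) (nat_lit 3588183625) (nat_lit 76) (nat_lit 3588183625) (nat_lit 205) (nat_lit 1) (nat_lit 203) (nat_lit 1) (nat_lit 204) (nat_lit 1) (nat_lit 324) (nat_lit 375) (nat_lit 321)) (XT.nd (nat_lit 78) (nat_lit 0) (nat_lit 0) (XT.lf (nat_lit 228) (nat_lit 5678795092) (nat_lit 0) (nat_lit 872940648) (nat_lit 152) (nat_lit 872940648) (nat_lit 203) (nat_lit 1) (nat_lit 200) (nat_lit 1) (nat_lit 202) (nat_lit 1) (nat_lit 325) (nat_lit 375) (nat_lit 320)) (XT.lf (nat_lit 76) (nat_lit 1725710037) (nat_lit 0) (nat_lit 3845402211) (nat_lit 228) (nat_lit 1725710037) (nat_lit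 201) (nat_lit 1) (nat_lit 200) (nat_lit 1) (nat_lit 203) (nat_lit 1) (nat_lit 326) (nat_lit 375) (nat_lit 319)))) (XT.nd (nat_lit 78) (nat_lit 228) (nat_lit 0) (XT.lf (nat_lit 152) (nat_lit 1268087917) (nat_lit 0) (nat_lit 2952007548) (nat_lit 76) (nat_lit 2952007548) (nat_lit 201) (nat_lit 1) (nat_lit 199) (nat_lit 1) (nat_lit 200) (nat_lit 1) (nat_lit 327) (nat_lit 375) (nat_lit 318)) (XT.nd (nat_lit 78) (nat_lit 0) (nat_lit 0) (XT.lf (nat_lit 228) (nat_lit 6232378774) (nat_lit 0) (nat_lit 409321987) (nat_lit 152) (nat_lit 409321987) (nat_lit 199) (nat_lit 1) (nat_lit 196) (nat_lit 1) (nat_lit 198) (nat_lit 1) (nat_lit 328) (nat_lit 375) (nat_lit 317)) (XT.lf (nat_lit 76) (nat_lit 2032620817) (nat_lit 0) (nat_lit 2864658550) (nat_lit 228) (nat_lit 2032620817) (nat_lit 197) (nat_lit 1) (nat_lit 196) (nat_lit 1) (nat_lit 199) (nat_lit 1) (nat_lit 329) (nat_lit 375) (nat_lit 316))))) (XT.nd (nat_lit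 234) (nat_lit 304) (nat_lit 0) (XT.nd (nat_lit 78) (nat_lit 228) (nat_lit 0) (XT.lf (nat_lit 152) (nat_lit 1955097332) (nat_lit 0) (nat_lit 2428623915) (nat_lit 76) (nat_lit 2428623915) (nat_lit 197) (nat_lit 1) (nat_lit 195) (nat_lit 1) (nat_lit 196) (nat_lit 1) (nat_lit 330) (nat_lit 375) (nat_lit 315)) (XT.nd (nat_lit 78) (nat_lit 0) (nat_lit 0) (XT.lf (nat_lit 228) (nat_lit 6613507724) (nat_lit 0) (nat_lit 42608836) (nat_lit 152) (nat_lit 42608836) (nat_lit 195) (nat_lit 1) (nat_lit 192) (nat_lit 1) (nat_lit 194) (nat_lit 1) (nat_lit 331) (nat_lit 375) (nat_lit 314)) (XT.lf (nat_lit 76) (nat_lit 2255932556) (nat_lit 0) (nat_lit 2072034664) (nat_lit 228) (nat_lit 2255932556) (nat_lit 193) (nat_lit 1) (nat_lit 192) (nat_lit 1) (nat_lit 195) (nat_lit 1) (nat_lit 332) (nat_lit 375) (nat_lit 313)))) (XT.nd (nat_lit 156) (nat_lit 228) (nat_lit 0) (XT.nd (nat_lit 78) (nat_lit 0) (nat_lit 0) (XT.lf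 (nat_lit 152) (nat_lit 2476880808) (nat_lit 0) (nat_lit 1998034905) (nat_lit 76) (nat_lit 1998034905) (nat_lit 193) (nat_lit 1) (nat_lit 191) (nat_lit 1) (nat_lit 192) (nat_lit 1) (nat_lit 333) (nat_lit 375) (nat_lit 312)) (XT.lf (nat_lit 0) (nat_lit 249097957) (nat_lit 0) (nat_lit 5867155288) (nat_lit 152) (nat_lit 249097957) (nat_lit 191) (nat_lit 3) (nat_lit 191) (nat_lit 1) (nat_lit 193) (nat_lit 1) (nat_lit 334) (nat_lit 375) (nat_lit 311))) (XT.nd (nat_lit 78) (nat_lit 76) (nat_lit 0) (XT.lf (nat_lit 76) (nat_lit 2411856897) (nat_lit 0) (nat_lit 1433499460) (nat_lit 152) (nat_lit 2411856897) (nat_lit 190) (nat_lit 1) (nat_lit 189) (nat_lit 1) (nat_lit 191) (nat_lit 1) (nat_lit 335) (nat_lit 375) (nat_lit 310)) (XT.lf (nat_lit 152) (nat_lit 2864800156) (nat_lit 0) (nat_lit 1643788261) (nat_lit 76) (nat_lit 1643788261) (nat_lit 190) (nat_lit 1) (nat_lit 188) (nat_lit 1) (nat_lit 189) (nat_lit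 1) (nat_lit 336) (nat_lit 375) (nat_lit 309))))))) (XT.nd (nat_lit 936) (nat_lit 912) (nat_lit 0) (XT.nd (nat_lit 468) (nat_lit 456) (nat_lit 0) (XT.nd (nat_lit 234) (nat_lit 228) (nat_lit 0) (XT.nd (nat_lit 78) (nat_lit 228) (nat_lit 0) (XT.lf (nat_lit 0) (nat_lit 476102091) (nat_lit 0) (nat_lit 5098091761) (nat_lit 152) (nat_lit 476102091) (nat_lit 188) (nat_lit 3) (nat_lit 188) (nat_lit 1) (nat_lit 190) (nat_lit 1) (nat_lit 337) (nat_lit 375) (nat_lit 308)) (XT.nd (nat_lit 78) (nat_lit 76) (nat_lit 0) (XT.lf (nat_lit 76) (nat_lit 2513665019) (nat_lit 0) (nat_lit 921087758) (nat_lit 152) (nat_lit 2513665019) (nat_lit 187) (nat_lit 1) (nat_lit 186) (nat_lit 1) (nat_lit 188) (nat_lit 1) (nat_lit 338) (nat_lit 375) (nat_lit 307)) (XT.lf (nat_lit 152) (nat_lit 3144558355) (nat_lit 0) (nat_lit 1352348670) (nat_lit 76) (nat_lit 1352348670) (nat_lit 187) (nat_lit 1) (nat_lit 185) (nat_lit 1) (nat_lit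 186) (nat_lit 1) (nat_lit 339) (nat_lit 375) (nat_lit 306)))) (XT.nd (nat_lit 78) (nat_lit 228) (nat_lit 0) (XT.lf (nat_lit 0) (nat_lit 649946164) (nat_lit 0) (nat_lit 4452468504) (nat_lit 152) (nat_lit 649946164) (nat_lit 185) (nat_lit 3) (nat_lit 185) (nat_lit 1) (nat_lit 187) (nat_lit 1) (nat_lit 340) (nat_lit 375) (nat_lit 305)) (XT.nd (nat_lit 78) (nat_lit 76) (nat_lit 0) (XT.lf (nat_lit 76) (nat_lit 2572212128) (nat_lit 0) (nat_lit 511823277) (nat_lit 152) (nat_lit 2572212128) (nat_lit 184) (nat_lit 1) (nat_lit 183) (nat_lit 1) (nat_lit 185) (nat_lit 1) (nat_lit 341) (nat_lit 375) (nat_lit 304)) (XT.lf (nat_lit 152) (nat_lit 3337207537) (nat_lit 0) (nat_lit 1112580598) (nat_lit 76) (nat_lit 1112580598) (nat_lit 184) (nat_lit 1) (nat_lit 182) (nat_lit 1) (nat_lit 183) (nat_lit 1) (nat_lit 342) (nat_lit 375) (nat_lit 303))))) (XT.nd (nat_lit 234) (nat_lit 228) (nat_lit 0) (XT.nd (nat_lit 78)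 (nat_lit 228) (nat_lit 0) (XT.lf (nat_lit 0) (nat_lit 780670218) (nat_lit 0) (nat_lit 3909014758) (nat_lit 152) (nat_lit 780670218) (nat_lit 182) (nat_lit 3) (nat_lit 182) (nat_lit 1) (nat_lit 184) (nat_lit 1) (nat_lit 343) (nat_lit 375) (nat_lit 302)) (XT.nd (nat_lit 78) (nat_lit 76) (nat_lit 0) (XT.lf (nat_lit 76) (nat_lit 2596368804) (nat_lit 0) (nat_lit 186832657) (nat_lit 152) (nat_lit 2596368804) (nat_lit 181) (nat_lit 1) (nat_lit 180) (nat_lit 1) (nat_lit 182) (nat_lit 1) (nat_lit 344) (nat_lit 375) (nat_lit 301)) (XT.lf (nat_lit 152) (nat_lit 3459978040) (nat_lit 0) (nat_lit 915322811) (nat_lit 76) (nat_lit 915322811) (nat_lit 181) (nat_lit 1) (nat_lit 179) (nat_lit 1) (nat_lit 180) (nat_lit 1) (nat_lit 345) (nat_lit 375) (nat_lit 300)))) (XT.nd (nat_lit 78) (nat_lit 228) (nat_lit 0) (XT.lf (nat_lit 0) (nat_lit 876504940) (nat_lit 0) (nat_lit 3450201735) (nat_lit 152) (nat_lit 876504940)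 (nat_lit 179) (nat_lit 3) (nat_lit 179) (nat_lit 1) (nat_lit 181) (nat_lit 1) (nat_lit 346) (nat_lit 375) (nat_lit 299)) (XT.nd (nat_lit 78) (nat_lit 152) (nat_lit 0) (XT.lf (nat_lit 76) (nat_lit 71677504) (nat_lit 0) (nat_lit 2522817308) (nat_lit 76) (nat_lit 2522817308) (nat_lit 179) (nat_lit 3) (nat_lit 178) (nat_lit 1) (nat_lit 179) (nat_lit 1) (nat_lit 347) (nat_lit 375) (nat_lit 298)) (XT.lf (nat_lit 152) (nat_lit 3526960248) (nat_lit 0) (nat_lit 753038342) (nat_lit 76) (nat_lit 753038342) (nat_lit 178) (nat_lit 1) (nat_lit 176) (nat_lit 1) (nat_lit 177) (nat_lit 1) (nat_lit 348) (nat_lit 375) (nat_lit 297)))))) (XT.nd (nat_lit 468) (nat_lit 456) (nat_lit 0) (XT.nd (nat_lit 234) (nat_lit 228) (nat_lit 0) (XT.nd (nat_lit 78) (nat_lit 228) (nat_lit 0) (XT.lf (nat_lit 0) (nat_lit 944193849) (nat_lit 0) (nat_lit 3061580572) (nat_lit 152) (nat_lit 944193849) (nat_lit 176) (nat_lit 3) (nat_lit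 176) (nat_lit 1) (nat_lit 178) (nat_lit 1) (nat_lit 349) (nat_lit 375) (nat_lit 296)) (XT.nd (nat_lit 78) (nat_lit 152) (nat_lit 0) (XT.lf (nat_lit 76) (nat_lit 278462083) (nat_lit 0) (nat_lit 2295020866) (nat_lit 76) (nat_lit 2295020866) (nat_lit 176) (nat_lit 3) (nat_lit 175) (nat_lit 1) (nat_lit 176) (nat_lit 1) (nat_lit 350) (nat_lit 375) (nat_lit 295)) (XT.lf (nat_lit 152) (nat_lit 3549665355) (nat_lit 0) (nat_lit 619526507) (nat_lit 76) (nat_lit 619526507) (nat_lit 175) (nat_lit 1) (nat_lit 173) (nat_lit 1) (nat_lit 174) (nat_lit 1) (nat_lit 351) (nat_lit 375) (nat_lit 294)))) (XT.nd (nat_lit 78) (nat_lit 228) (nat_lit 0) (XT.lf (nat_lit 0) (nat_lit 989258299) (nat_lit 0) (nat_lit 2731237595) (nat_lit 152) (nat_lit 989258299) (nat_lit 173) (nat_lit 3) (nat_lit 173) (nat_lit 1) (nat_lit 175) (nat_lit 1) (nat_lit 352) (nat_lit 375) (nat_lit 293)) (XT.nd (nat_lit 78) (nat_lit 152) (nat_lit 0)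 (XT.lf (nat_lit 76) (nat_lit 438132229) (nat_lit 0) (nat_lit 2097160130) (nat_lit 76) (nat_lit 2097160130) (nat_lit 173) (nat_lit 3) (nat_lit 172) (nat_lit 1) (nat_lit 173) (nat_lit 1) (nat_lit 353) (nat_lit 375) (nat_lit 292)) (XT.lf (nat_lit 152) (nat_lit 3537486502) (nat_lit 0) (nat_lit 509685991) (nat_lit 76) (nat_lit 509685991) (nat_lit 172) (nat_lit 1) (nat_lit 170) (nat_lit 1) (nat_lit 171) (nat_lit 1) (nat_lit 354) (nat_lit 375) (nat_lit 291))))) (XT.nd (nat_lit 234) (nat_lit 228) (nat_lit 0) (XT.nd (nat_lit 78) (nat_lit 228) (nat_lit 0) (XT.lf (nat_lit 0) (nat_lit 1016215424) (nat_lit 0) (nat_lit 2449346102) (nat_lit 152) (nat_lit 1016215424) (nat_lit 170) (nat_lit 3) (nat_lit 170) (nat_lit 1) (nat_lit 172) (nat_lit 1) (nat_lit 355) (nat_lit 375) (nat_lit 290)) (XT.nd (nat_lit 78) (nat_lit 152) (nat_lit 0) (XT.lf (nat_lit 76) (nat_lit 559538930) (nat_lit 0) (nat_lit 1924425290) (nat_lit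 76) (nat_lit 1924425290) (nat_lit 170) (nat_lit 3) (nat_lit 169) (nat_lit 1) (nat_lit 170) (nat_lit 1) (nat_lit 356) (nat_lit 375) (nat_lit 289)) (XT.lf (nat_lit 152) (nat_lit 3498077975) (nat_lit 0) (nat_lit 419319926) (nat_lit 76) (nat_lit 419319926) (nat_lit 169) (nat_lit 1) (nat_lit 167) (nat_lit 1) (nat_lit 168) (nat_lit 1) (nat_lit 357) (nat_lit 375) (nat_lit 288)))) (XT.nd (nat_lit 156) (nat_lit 152) (nat_lit 0) (XT.nd (nat_lit 78) (nat_lit 76) (nat_lit 0) (XT.lf (nat_lit 0) (nat_lit 1028757395) (nat_lit 0) (nat_lit 2207797551) (nat_lit 152) (nat_lit 1028757395) (nat_lit 167) (nat_lit 3) (nat_lit 167) (nat_lit 1) (nat_lit 169) (nat_lit 1) (nat_lit 358) (nat_lit 375) (nat_lit 287)) (XT.lf (nat_lit 76) (nat_lit 649940216) (nat_lit 0) (nat_lit 1772835602) (nat_lit 76) (nat_lit 1772835602) (nat_lit 167) (nat_lit 3) (nat_lit 166) (nat_lit 1) (nat_lit 167) (nat_lit 1) (nat_lit 359) (nat_lit 375)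 (nat_lit 286))) (XT.nd (nat_lit 78) (nat_lit 0) (nat_lit 0) (XT.lf (nat_lit 152) (nat_lit 3437667002) (nat_lit 0) (nat_lit 344975541) (nat_lit 76) (nat_lit 344975541) (nat_lit 166) (nat_lit 1) (nat_lit 164) (nat_lit 1) (nat_lit 165) (nat_lit 1) (nat_lit 360) (nat_lit 375) (nat_lit 285)) (XT.lf (nat_lit 0) (nat_lit 1029898827) (nat_lit 0) (nat_lit 1999898081) (nat_lit 152) (nat_lit 1029898827) (nat_lit 164) (nat_lit 3) (nat_lit 164) (nat_lit 1) (nat_lit 166) (nat_lit 1) (nat_lit 361) (nat_lit 375) (nat_lit 284))))))))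
noncomputable def ec157 : XT := (XT.nd (nat_lit 1950) (nat_lit 1976) (nat_lit 0) (XT.nd (nat_lit 936) (nat_lit 988) (nat_lit 0) (XT.nd (nat_lit 468) (nat_lit 456) (nat_lit 0) (XT.nd (nat_lit 234) (nat_lit 228) (nat_lit 0) (XT.nd (nat_lit 78) (nat_lit 152) (nat_lit 0) (XT.lf (nat_lit 76) (nat_lit 715284713) (nat_lit 0) (nat_lit 1639093526) (nat_lit 76) (nat_lit 1639093526) (nat_lit 164) (nat_lit 3) (nat_lit 163) (nat_lit 1) (nat_lit 164) (nat_lit 1) (nat_lit 362) (nat_lit 375) (nat_lit 283)) (XT.nd (nat_lit 78) (nat_lit 0) (nat_lit 0) (XT.lf (nat_lit 152) (nat_lit 3361310099) (nat_lit 0) (nat_lit 283812231) (nat_lit 76) (nat_lit 283812231) (nat_lit 163) (nat_lit 1) (nat_lit 161) (nat_lit 1) (nat_lit 162) (nat_lit 1) (nat_lit 363) (nat_lit 375) (nat_lit 282)) (XT.lf (nat_lit 0) (nat_lit 1022098002) (nat_lit 0) (nat_lit 1820118789) (nat_lit 152) (nat_lit 1022098002) (nat_lit 161) (nat_lit 3) (nat_lit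 161) (nat_lit 1) (nat_lit 163) (nat_lit 1) (nat_lit 364) (nat_lit 375) (nat_lit 281)))) (XT.nd (nat_lit 78) (nat_lit 152) (nat_lit 0) (XT.lf (nat_lit 76) (nat_lit 760444874) (nat_lit 0) (nat_lit 1520464671) (nat_lit 76) (nat_lit 1520464671) (nat_lit 161) (nat_lit 3) (nat_lit 160) (nat_lit 1) (nat_lit 161) (nat_lit 1) (nat_lit 365) (nat_lit 375) (nat_lit 280)) (XT.nd (nat_lit 78) (nat_lit 0) (nat_lit 0) (XT.lf (nat_lit 152) (nat_lit 3273103802) (nat_lit 0) (nat_lit 233493025) (nat_lit 76) (nat_lit 233493025) (nat_lit 160) (nat_lit 1) (nat_lit 158) (nat_lit 1) (nat_lit 159) (nat_lit 1) (nat_lit 366) (nat_lit 375) (nat_lit 279)) (XT.lf (nat_lit 0) (nat_lit 1007356544) (nat_lit 0) (nat_lit 1663890220) (nat_lit 152) (nat_lit 1007356544) (nat_lit 158) (nat_lit 3) (nat_lit 158) (nat_lit 1) (nat_lit 160) (nat_lit 1) (nat_lit 367) (nat_lit 375) (nat_lit 278))))) (XT.nd (nat_lit 234) (nat_lit 228) (nat_lit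 0) (XT.nd (nat_lit 78) (nat_lit 152) (nat_lit 0) (XT.lf (nat_lit 76) (nat_lit 789408804) (nat_lit 0) (nat_lit 1414678972) (nat_lit 76) (nat_lit 1414678972) (nat_lit 158) (nat_lit 3) (nat_lit 157) (nat_lit 1) (nat_lit 158) (nat_lit 1) (nat_lit 368) (nat_lit 375) (nat_lit 277)) (XT.nd (nat_lit 78) (nat_lit 0) (nat_lit 0) (XT.lf (nat_lit 152) (nat_lit 3176357898) (nat_lit 0) (nat_lit 192095289) (nat_lit 76) (nat_lit 192095289) (nat_lit 157) (nat_lit 1) (nat_lit 155) (nat_lit 1) (nat_lit 156) (nat_lit 1) (nat_lit 369) (nat_lit 375) (nat_lit 276)) (XT.lf (nat_lit 0) (nat_lit 987301377) (nat_lit 0) (nat_lit 1527433258) (nat_lit 152) (nat_lit 987301377) (nat_lit 155) (nat_lit 3) (nat_lit 155) (nat_lit 1) (nat_lit 157) (nat_lit 1) (nat_lit 370) (nat_lit 375) (nat_lit 275)))) (XT.nd (nat_lit 78) (nat_lit 152) (nat_lit 0) (XT.lf (nat_lit 76) (nat_lit 805438028) (nat_lit 0) (nat_lit 1319849342) (nat_lit 76)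 (nat_lit 1319849342) (nat_lit 155) (nat_lit 3) (nat_lit 154) (nat_lit 1) (nat_lit 155) (nat_lit 1) (nat_lit 371) (nat_lit 375) (nat_lit 274)) (XT.nd (nat_lit 78) (nat_lit 0) (nat_lit 0) (XT.lf (nat_lit 152) (nat_lit 3073737789) (nat_lit 0) (nat_lit 158037270) (nat_lit 76) (nat_lit 158037270) (nat_lit 154) (nat_lit 1) (nat_lit 152) (nat_lit 1) (nat_lit 153) (nat_lit 1) (nat_lit 372) (nat_lit 375) (nat_lit 273)) (XT.lf (nat_lit 0) (nat_lit 963252101) (nat_lit 0) (nat_lit 1407619936) (nat_lit 152) (nat_lit 963252101) (nat_lit 152) (nat_lit 3) (nat_lit 152) (nat_lit 1) (nat_lit 154) (nat_lit 1) (nat_lit 373) (nat_lit 375) (nat_lit 272)))))) (XT.nd (nat_lit 468) (nat_lit 532) (nat_lit 0) (XT.nd (nat_lit 234) (nat_lit 228) (nat_lit 0) (XT.nd (nat_lit 78) (nat_lit 152) (nat_lit 0) (XT.lf (nat_lit 76) (nat_lit 811197241) (nat_lit 0) (nat_lit 1234404703) (nat_lit 76) (nat_lit 1234404703) (nat_lit 152) (nat_lit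 3) (nat_lit 151) (nat_lit 1) (nat_lit 152) (nat_lit 1) (nat_lit 374) (nat_lit 375) (nat_lit 271)) (XT.nd (nat_lit 78) (nat_lit 0) (nat_lit 0) (XT.lf (nat_lit 152) (nat_lit 2967381482) (nat_lit 0) (nat_lit 130017653) (nat_lit 76) (nat_lit 130017653) (nat_lit 151) (nat_lit 1) (nat_lit 149) (nat_lit 1) (nat_lit 150) (nat_lit 1) (nat_lit 375) (nat_lit 375) (nat_lit 270)) (XT.lf (nat_lit 0) (nat_lit 936276378) (nat_lit 0) (nat_lit 1301858895) (nat_lit 152) (nat_lit 936276378) (nat_lit 149) (nat_lit 3) (nat_lit 149) (nat_lit 1) (nat_lit 151) (nat_lit 1) (nat_lit 376) (nat_lit 375) (nat_lit 269)))) (XT.nd (nat_lit 78) (nat_lit 152) (nat_lit 0) (XT.lf (nat_lit 76) (nat_lit 808861009) (nat_lit 0) (nat_lit 1157034835) (nat_lit 76) (nat_lit 1157034835) (nat_lit 149) (nat_lit 3) (nat_lit 148) (nat_lit 1) (nat_lit 149) (nat_lit 1) (nat_lit 377) (nat_lit 375) (nat_lit 268)) (XT.nd (nat_lit 78) (nat_lit 0) (nat_lit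 0) (XT.lf (nat_lit 152) (nat_lit 2858995704) (nat_lit 0) (nat_lit 106965845) (nat_lit 76) (nat_lit 106965845) (nat_lit 148) (nat_lit 1) (nat_lit 146) (nat_lit 1) (nat_lit 147) (nat_lit 1) (nat_lit 378) (nat_lit 375) (nat_lit 267)) (XT.lf (nat_lit 0) (nat_lit 907235456) (nat_lit 0) (nat_lit 1208001097) (nat_lit 152) (nat_lit 907235456) (nat_lit 146) (nat_lit 3) (nat_lit 146) (nat_lit 1) (nat_lit 148) (nat_lit 1) (nat_lit 379) (nat_lit 375) (nat_lit 266))))) (XT.nd (nat_lit 234) (nat_lit 304) (nat_lit 0) (XT.nd (nat_lit 78) (nat_lit 152) (nat_lit 0) (XT.lf (nat_lit 76) (nat_lit 800201507) (nat_lit 0) (nat_lit 1086644975) (nat_lit 76) (nat_lit 1086644975) (nat_lit 146) (nat_lit 3) (nat_lit 145) (nat_lit 1) (nat_lit 146) (nat_lit 1) (nat_lit 380) (nat_lit 375) (nat_lit 265)) (XT.nd (nat_lit 78) (nat_lit 0) (nat_lit 0) (XT.lf (nat_lit 152) (nat_lit 2749934855) (nat_lit 0) (nat_lit 88001065) (nat_lit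 76) (nat_lit 88001065) (nat_lit 145) (nat_lit 1) (nat_lit 143) (nat_lit 1) (nat_lit 144) (nat_lit 1) (nat_lit 381) (nat_lit 375) (nat_lit 264)) (XT.lf (nat_lit 0) (nat_lit 876821581) (nat_lit 0) (nat_lit 1124262218) (nat_lit 152) (nat_lit 876821581) (nat_lit 143) (nat_lit 3) (nat_lit 143) (nat_lit 1) (nat_lit 145) (nat_lit 1) (nat_lit 382) (nat_lit 375) (nat_lit 263)))) (XT.nd (nat_lit 156) (nat_lit 76) (nat_lit 0) (XT.nd (nat_lit 78) (nat_lit 152) (nat_lit 0) (XT.lf (nat_lit 76) (nat_lit 786660668) (nat_lit 0) (nat_lit 1022318418) (nat_lit 76) (nat_lit 1022318418) (nat_lit 143) (nat_lit 3) (nat_lit 142) (nat_lit 1) (nat_lit 143) (nat_lit 1) (nat_lit 383) (nat_lit 375) (nat_lit 262)) (XT.lf (nat_lit 152) (nat_lit 2641265844) (nat_lit 0) (nat_lit 72398694) (nat_lit 76) (nat_lit 72398694) (nat_lit 142) (nat_lit 1) (nat_lit 140) (nat_lit 1) (nat_lit 141) (nat_lit 1) (nat_lit 384) (nat_lit 375) (nat_lit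 261))) (XT.nd (nat_lit 78) (nat_lit 76) (nat_lit 0) (XT.lf (nat_lit 0) (nat_lit 845588738) (nat_lit 0) (nat_lit 1049158763) (nat_lit 152) (nat_lit 845588738) (nat_lit 140) (nat_lit 3) (nat_lit 140) (nat_lit 1) (nat_lit 142) (nat_lit 1) (nat_lit 385) (nat_lit 375) (nat_lit 260)) (XT.lf (nat_lit 76) (nat_lit 769409495) (nat_lit 0) (nat_lit 963285710) (nat_lit 76) (nat_lit 963285710) (nat_lit 140) (nat_lit 3) (nat_lit 139) (nat_lit 1) (nat_lit 140) (nat_lit 1) (nat_lit 386) (nat_lit 375) (nat_lit 259))))))) (XT.nd (nat_lit 1014) (nat_lit 912) (nat_lit 0) (XT.nd (nat_lit 468) (nat_lit 608) (nat_lit 0) (XT.nd (nat_lit 234) (nat_lit 228) (nat_lit 0) (XT.nd (nat_lit 78) (nat_lit 76) (nat_lit 0) (XT.lf (nat_lit 152) (nat_lit 2533821311) (nat_lit 0) (nat_lit 59562585) (nat_lit 76) (nat_lit 59562585) (nat_lit 139) (nat_lit 1) (nat_lit 137) (nat_lit 1) (nat_lit 138) (nat_lit 1) (nat_lit 387) (nat_lit 375)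 (nat_lit 258)) (XT.nd (nat_lit 78) (nat_lit 76) (nat_lit 0) (XT.lf (nat_lit 0) (nat_lit 813977903) (nat_lit 0) (nat_lit 981455466) (nat_lit 152) (nat_lit 813977903) (nat_lit 137) (nat_lit 3) (nat_lit 137) (nat_lit 1) (nat_lit 139) (nat_lit 1) (nat_lit 388) (nat_lit 375) (nat_lit 257)) (XT.lf (nat_lit 76) (nat_lit 749396826) (nat_lit 0) (nat_lit 908899268) (nat_lit 76) (nat_lit 908899268) (nat_lit 137) (nat_lit 3) (nat_lit 136) (nat_lit 1) (nat_lit 137) (nat_lit 1) (nat_lit 389) (nat_lit 375) (nat_lit 256)))) (XT.nd (nat_lit 78) (nat_lit 76) (nat_lit 0) (XT.lf (nat_lit 152) (nat_lit 2428243315) (nat_lit 0) (nat_lit 49002286) (nat_lit 76) (nat_lit 49002286) (nat_lit 136) (nat_lit 1) (nat_lit 134) (nat_lit 1) (nat_lit 135) (nat_lit 1) (nat_lit 390) (nat_lit 375) (nat_lit 255)) (XT.nd (nat_lit 78) (nat_lit 76) (nat_lit 0) (XT.lf (nat_lit 0) (nat_lit 782337783) (nat_lit 0) (nat_lit 920121989) (nat_lit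 152) (nat_lit 782337783) (nat_lit 134) (nat_lit 3) (nat_lit 134) (nat_lit 1) (nat_lit 136) (nat_lit 1) (nat_lit 391) (nat_lit 375) (nat_lit 254)) (XT.lf (nat_lit 76) (nat_lit 727389414) (nat_lit 0) (nat_lit 858612468) (nat_lit 76) (nat_lit 858612468) (nat_lit 134) (nat_lit 3) (nat_lit 133) (nat_lit 1) (nat_lit 134) (nat_lit 1) (nat_lit 392) (nat_lit 375) (nat_lit 253))))) (XT.nd (nat_lit 234) (nat_lit 380) (nat_lit 0) (XT.nd (nat_lit 78) (nat_lit 76) (nat_lit 0) (XT.lf (nat_lit 152) (nat_lit 2325019167) (nat_lit 0) (nat_lit 40314302) (nat_lit 76) (nat_lit 40314302) (nat_lit 133) (nat_lit 1) (nat_lit 131) (nat_lit 1) (nat_lit 132) (nat_lit 1) (nat_lit 393) (nat_lit 375) (nat_lit 252)) (XT.nd (nat_lit 78) (nat_lit 76) (nat_lit 0) (XT.lf (nat_lit 0) (nat_lit 750941847) (nat_lit 0) (nat_lit 864297255) (nat_lit 152) (nat_lit 750941847) (nat_lit 131) (nat_lit 3) (nat_lit 131) (nat_lit 1) (nat_lit 133)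 (nat_lit 1) (nat_lit 394) (nat_lit 375) (nat_lit 251)) (XT.lf (nat_lit 76) (nat_lit 704004872) (nat_lit 0) (nat_lit 811962403) (nat_lit 76) (nat_lit 811962403) (nat_lit 131) (nat_lit 3) (nat_lit 130) (nat_lit 1) (nat_lit 131) (nat_lit 1) (nat_lit 395) (nat_lit 375) (nat_lit 250)))) (XT.nd (nat_lit 156) (nat_lit 228) (nat_lit 0) (XT.nd (nat_lit 78) (nat_lit 0) (nat_lit 0) (XT.lf (nat_lit 152) (nat_lit 2224510816) (nat_lit 0) (nat_lit 33166676) (nat_lit 76) (nat_lit 33166676) (nat_lit 130) (nat_lit 1) (nat_lit 128) (nat_lit 1) (nat_lit 129) (nat_lit 1) (nat_lit 396) (nat_lit 375) (nat_lit 249)) (XT.lf (nat_lit 0) (nat_lit 720002304) (nat_lit 0) (nat_lit 813260078) (nat_lit 152) (nat_lit 720002304) (nat_lit 128) (nat_lit 3) (nat_lit 128) (nat_lit 1) (nat_lit 130) (nat_lit 1) (nat_lit 397) (nat_lit 375) (nat_lit 248))) (XT.nd (nat_lit 78) (nat_lit 152) (nat_lit 0) (XT.lf (nat_lit 76) (nat_lit 679738742)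 (nat_lit 0) (nat_lit 768555670) (nat_lit 76) (nat_lit 768555670) (nat_lit 128) (nat_lit 3) (nat_lit 127) (nat_lit 1) (nat_lit 128) (nat_lit 1) (nat_lit 398) (nat_lit 375) (nat_lit 247)) (XT.lf (nat_lit 152) (nat_lit 2126978928) (nat_lit 0) (nat_lit 27286306) (nat_lit 76) (nat_lit 27286306) (nat_lit 127) (nat_lit 1) (nat_lit 125) (nat_lit 1) (nat_lit 126) (nat_lit 1) (nat_lit 399) (nat_lit 375) (nat_lit 246)))))) (XT.nd (nat_lit 468) (nat_lit 456) (nat_lit 0) (XT.nd (nat_lit 234) (nat_lit 228) (nat_lit 0) (XT.nd (nat_lit 78) (nat_lit 228) (nat_lit 0) (XT.lf (nat_lit 0) (nat_lit 689681571) (nat_lit 0) (nat_lit 766404972) (nat_lit 152) (nat_lit 689681571) (nat_lit 125) (nat_lit 3) (nat_lit 125) (nat_lit 1) (nat_lit 127) (nat_lit 1) (nat_lit 400) (nat_lit 375) (nat_lit 245)) (XT.nd (nat_lit 78) (nat_lit 152) (nat_lit 0) (XT.lf (nat_lit 76) (nat_lit 654986737) (nat_lit 0) (nat_lit 728056643) (nat_lit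 76) (nat_lit 728056643) (nat_lit 125) (nat_lit 3) (nat_lit 124) (nat_lit 1) (nat_lit 125) (nat_lit 1) (nat_lit 401) (nat_lit 375) (nat_lit 244)) (XT.lf (nat_lit 152) (nat_lit 2032602613) (nat_lit 0) (nat_lit 22448511) (nat_lit 76) (nat_lit 22448511) (nat_lit 124) (nat_lit 1) (nat_lit 122) (nat_lit 1) (nat_lit 123) (nat_lit 1) (nat_lit 402) (nat_lit 375) (nat_lit 243)))) (XT.nd (nat_lit 78) (nat_lit 228) (nat_lit 0) (XT.lf (nat_lit 0) (nat_lit 660101681) (nat_lit 0) (nat_lit 723222213) (nat_lit 152) (nat_lit 660101681) (nat_lit 122) (nat_lit 3) (nat_lit 122) (nat_lit 1) (nat_lit 124) (nat_lit 1) (nat_lit 403) (nat_lit 375) (nat_lit 242)) (XT.nd (nat_lit 78) (nat_lit 152) (nat_lit 0) (XT.lf (nat_lit 76) (nat_lit 630063011) (nat_lit 0) (nat_lit 690177804) (nat_lit 76) (nat_lit 690177804) (nat_lit 122) (nat_lit 3) (nat_lit 121) (nat_lit 1) (nat_lit 122) (nat_lit 1) (nat_lit 404) (nat_lit 375) (nat_lit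 241)) (XT.lf (nat_lit 152) (nat_lit 1941495567) (nat_lit 0) (nat_lit 18468446) (nat_lit 76) (nat_lit 18468446) (nat_lit 121) (nat_lit 1) (nat_lit 119) (nat_lit 1) (nat_lit 120) (nat_lit 1) (nat_lit 405) (nat_lit 375) (nat_lit 240))))) (XT.nd (nat_lit 234) (nat_lit 228) (nat_lit 0) (XT.nd (nat_lit 78) (nat_lit 228) (nat_lit 0) (XT.lf (nat_lit 0) (nat_lit 631351997) (nat_lit 0) (nat_lit 683281415) (nat_lit 152) (nat_lit 631351997) (nat_lit 119) (nat_lit 3) (nat_lit 119) (nat_lit 1) (nat_lit 121) (nat_lit 1) (nat_lit 406) (nat_lit 375) (nat_lit 239)) (XT.nd (nat_lit 78) (nat_lit 152) (nat_lit 0) (XT.lf (nat_lit 76) (nat_lit 605215162) (nat_lit 0) (nat_lit 654671750) (nat_lit 76) (nat_lit 654671750) (nat_lit 119) (nat_lit 3) (nat_lit 118) (nat_lit 1) (nat_lit 119) (nat_lit 1) (nat_lit 407) (nat_lit 375) (nat_lit 238)) (XT.lf (nat_lit 152) (nat_lit 1853719271) (nat_lit 0) (nat_lit 15194036) (nat_lit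 76) (nat_lit 15194036) (nat_lit 118) (nat_lit 1) (nat_lit 116) (nat_lit 1) (nat_lit 117) (nat_lit 1) (nat_lit 408) (nat_lit 375) (nat_lit 237)))) (XT.nd (nat_lit 156) (nat_lit 152) (nat_lit 0) (XT.nd (nat_lit 78) (nat_lit 76) (nat_lit 0) (XT.lf (nat_lit 0) (nat_lit 603495527) (nat_lit 0) (nat_lit 646217988) (nat_lit 152) (nat_lit 603495527) (nat_lit 116) (nat_lit 3) (nat_lit 116) (nat_lit 1) (nat_lit 118) (nat_lit 1) (nat_lit 409) (nat_lit 375) (nat_lit 236)) (XT.lf (nat_lit 76) (nat_lit 580636548) (nat_lit 0) (nat_lit 621324606) (nat_lit 76) (nat_lit 621324606) (nat_lit 116) (nat_lit 3) (nat_lit 115) (nat_lit 1) (nat_lit 116) (nat_lit 1) (nat_lit 410) (nat_lit 375) (nat_lit 235))) (XT.nd (nat_lit 78) (nat_lit 0) (nat_lit 0) (XT.lf (nat_lit 152) (nat_lit 1769293778) (nat_lit 0) (nat_lit 12500171) (nat_lit 76) (nat_lit 12500171) (nat_lit 115) (nat_lit 1) (nat_lit 113) (nat_lit 1) (nat_lit 114) (nat_lit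 1) (nat_lit 411) (nat_lit 375) (nat_lit 234)) (XT.lf (nat_lit 0) (nat_lit 576574098) (nat_lit 0) (nat_lit 611721972) (nat_lit 152) (nat_lit 576574098) (nat_lit 113) (nat_lit 3) (nat_lit 113) (nat_lit 1) (nat_lit 115) (nat_lit 1) (nat_lit 412) (nat_lit 375) (nat_lit 233))))))))
noncomputable def ec158 : XT := (XT.nd (nat_lit 1950) (nat_lit 836) (nat_lit 0) (XT.nd (nat_lit 936) (nat_lit 988) (nat_lit 0) (XT.nd (nat_lit 468) (nat_lit 456) (nat_lit 0) (XT.nd (nat_lit 234) (nat_lit 228) (nat_lit 0) (XT.nd (nat_lit 78) (nat_lit 152) (nat_lit 0) (XT.lf (nat_lit 76) (nat_lit 556476398) (nat_lit 0) (nat_lit 589950564) (nat_lit 76) (nat_lit 589950564) (nat_lit 113) (nat_lit 3) (nat_lit 112) (nat_lit 1) (nat_lit 113) (nat_lit 1) (nat_lit 413) (nat_lit 375) (nat_lit 232)) (XT.nd (nat_lit 78) (nat_lit 0) (nat_lit 0) (XT.lf (nat_lit 152) (nat_lit 1688206509) (nat_lit 0) (nat_lit 10283921) (nat_lit 76) (nat_lit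 10283921) (nat_lit 112) (nat_lit 1) (nat_lit 110) (nat_lit 1) (nat_lit 111) (nat_lit 1) (nat_lit 414) (nat_lit 375) (nat_lit 231)) (XT.lf (nat_lit 0) (nat_lit 550612590) (nat_lit 0) (nat_lit 579528833) (nat_lit 152) (nat_lit 550612590) (nat_lit 110) (nat_lit 3) (nat_lit 110) (nat_lit 1) (nat_lit 112) (nat_lit 1) (nat_lit 415) (nat_lit 375) (nat_lit 230)))) (XT.nd (nat_lit 78) (nat_lit 152) (nat_lit 0) (XT.lf (nat_lit 76) (nat_lit 532848103) (nat_lit 0) (nat_lit 560387382) (nat_lit 76) (nat_lit 560387382) (nat_lit 110) (nat_lit 3) (nat_lit 109) (nat_lit 1) (nat_lit 110) (nat_lit 1) (nat_lit 416) (nat_lit 375) (nat_lit 229)) (XT.nd (nat_lit 78) (nat_lit 0) (nat_lit 0) (XT.lf (nat_lit 152) (nat_lit 1610419425) (nat_lit 0) (nat_lit 8460608) (nat_lit 76) (nat_lit 8460608) (nat_lit 109) (nat_lit 1) (nat_lit 107) (nat_lit 1) (nat_lit 108) (nat_lit 1) (nat_lit 417) (nat_lit 375) (nat_lit 228)) (XT.lf (nat_lit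 0) (nat_lit 525622390) (nat_lit 0) (nat_lit 549411855) (nat_lit 152) (nat_lit 525622390) (nat_lit 107) (nat_lit 3) (nat_lit 107) (nat_lit 1) (nat_lit 109) (nat_lit 1) (nat_lit 418) (nat_lit 375) (nat_lit 227))))) (XT.nd (nat_lit 234) (nat_lit 228) (nat_lit 0) (XT.nd (nat_lit 78) (nat_lit 152) (nat_lit 0) (XT.lf (nat_lit 76) (nat_lit 509836018) (nat_lit 0) (nat_lit 532492651) (nat_lit 76) (nat_lit 532492651) (nat_lit 107) (nat_lit 3) (nat_lit 106) (nat_lit 1) (nat_lit 107) (nat_lit 1) (nat_lit 419) (nat_lit 375) (nat_lit 226)) (XT.nd (nat_lit 78) (nat_lit 0) (nat_lit 0) (XT.lf (nat_lit 152) (nat_lit 1535874857) (nat_lit 0) (nat_lit 6960563) (nat_lit 76) (nat_lit 6960563) (nat_lit 106) (nat_lit 1) (nat_lit 104) (nat_lit 1) (nat_lit 105) (nat_lit 1) (nat_lit 420) (nat_lit 375) (nat_lit 225)) (XT.lf (nat_lit 0) (nat_lit 501604222) (nat_lit 0) (nat_lit 521175873) (nat_lit 152) (nat_lit 501604222) (nat_lit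 104) (nat_lit 3) (nat_lit 104) (nat_lit 1) (nat_lit 106) (nat_lit 1) (nat_lit 421) (nat_lit 375) (nat_lit 224)))) (XT.nd (nat_lit 78) (nat_lit 152) (nat_lit 0) (XT.lf (nat_lit 76) (nat_lit 487501035) (nat_lit 0) (nat_lit 506140703) (nat_lit 76) (nat_lit 506140703) (nat_lit 104) (nat_lit 3) (nat_lit 103) (nat_lit 1) (nat_lit 104) (nat_lit 1) (nat_lit 422) (nat_lit 375) (nat_lit 223)) (XT.nd (nat_lit 78) (nat_lit 0) (nat_lit 0) (XT.lf (nat_lit 152) (nat_lit 1464500247) (nat_lit 0) (nat_lit 5726472) (nat_lit 76) (nat_lit 5726472) (nat_lit 103) (nat_lit 1) (nat_lit 101) (nat_lit 1) (nat_lit 102) (nat_lit 1) (nat_lit 423) (nat_lit 375) (nat_lit 222)) (XT.lf (nat_lit 0) (nat_lit 478550445) (nat_lit 0) (nat_lit 494652091) (nat_lit 152) (nat_lit 478550445) (nat_lit 101) (nat_lit 3) (nat_lit 101) (nat_lit 1) (nat_lit 103) (nat_lit 1) (nat_lit 424) (nat_lit 375) (nat_lit 221)))))) (XT.nd (nat_lit 468) (nat_lit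 532) (nat_lit 0) (XT.nd (nat_lit 234) (nat_lit 228) (nat_lit 0) (XT.nd (nat_lit 78) (nat_lit 152) (nat_lit 0) (XT.lf (nat_lit 76) (nat_lit 465885147) (nat_lit 0) (nat_lit 481220048) (nat_lit 76) (nat_lit 481220048) (nat_lit 101) (nat_lit 3) (nat_lit 100) (nat_lit 1) (nat_lit 101) (nat_lit 1) (nat_lit 425) (nat_lit 375) (nat_lit 220)) (XT.nd (nat_lit 78) (nat_lit 0) (nat_lit 0) (XT.lf (nat_lit 152) (nat_lit 1396211979) (nat_lit 0) (nat_lit 4711183) (nat_lit 76) (nat_lit 4711183) (nat_lit 100) (nat_lit 1) (nat_lit 98) (nat_lit 1) (nat_lit 99) (nat_lit 1) (nat_lit 426) (nat_lit 375) (nat_lit 219)) (XT.lf (nat_lit 0) (nat_lit 456446930) (nat_lit 0) (nat_lit 469693795) (nat_lit 152) (nat_lit 456446930) (nat_lit 98) (nat_lit 3) (nat_lit 98) (nat_lit 1) (nat_lit 100) (nat_lit 1) (nat_lit 427) (nat_lit 375) (nat_lit 218)))) (XT.nd (nat_lit 78) (nat_lit 152) (nat_lit 0) (XT.lf (nat_lit 76) (nat_lit 445015186)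 (nat_lit 0) (nat_lit 457631247) (nat_lit 76) (nat_lit 457631247) (nat_lit 98) (nat_lit 3) (nat_lit 97) (nat_lit 1) (nat_lit 98) (nat_lit 1) (nat_lit 428) (nat_lit 375) (nat_lit 217)) (XT.nd (nat_lit 78) (nat_lit 0) (nat_lit 0) (XT.lf (nat_lit 152) (nat_lit 1330918480) (nat_lit 0) (nat_lit 3875902) (nat_lit 76) (nat_lit 3875902) (nat_lit 97) (nat_lit 1) (nat_lit 95) (nat_lit 1) (nat_lit 96) (nat_lit 1) (nat_lit 429) (nat_lit 375) (nat_lit 216)) (XT.lf (nat_lit 0) (nat_lit 435274586) (nat_lit 0) (nat_lit 446172814) (nat_lit 152) (nat_lit 435274586) (nat_lit 95) (nat_lit 3) (nat_lit 95) (nat_lit 1) (nat_lit 97) (nat_lit 1) (nat_lit 430) (nat_lit 375) (nat_lit 215))))) (XT.nd (nat_lit 234) (nat_lit 304) (nat_lit 0) (XT.nd (nat_lit 78) (nat_lit 152) (nat_lit 0) (XT.lf (nat_lit 76) (nat_lit 424905879) (nat_lit 0) (nat_lit 435285143) (nat_lit 76) (nat_lit 435285143) (nat_lit 95) (nat_lit 3) (nat_lit 94)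 (nat_lit 1) (nat_lit 95) (nat_lit 1) (nat_lit 431) (nat_lit 375) (nat_lit 214)) (XT.nd (nat_lit 78) (nat_lit 0) (nat_lit 0) (XT.lf (nat_lit 152) (nat_lit 1268522717) (nat_lit 0) (nat_lit 3188714) (nat_lit 76) (nat_lit 3188714) (nat_lit 94) (nat_lit 1) (nat_lit 92) (nat_lit 1) (nat_lit 93) (nat_lit 1) (nat_lit 432) (nat_lit 375) (nat_lit 213)) (XT.lf (nat_lit 0) (nat_lit 415010591) (nat_lit 0) (nat_lit 423976590) (nat_lit 152) (nat_lit 415010591) (nat_lit 92) (nat_lit 3) (nat_lit 92) (nat_lit 1) (nat_lit 94) (nat_lit 1) (nat_lit 433) (nat_lit 375) (nat_lit 212)))) (XT.nd (nat_lit 156) (nat_lit 76) (nat_lit 0) (XT.nd (nat_lit 78) (nat_lit 152) (nat_lit 0) (XT.lf (nat_lit 76) (nat_lit 405562340) (nat_lit 0) (nat_lit 414101387) (nat_lit 76) (nat_lit 414101387) (nat_lit 92) (nat_lit 3) (nat_lit 91) (nat_lit 1) (nat_lit 92) (nat_lit 1) (nat_lit 434) (nat_lit 375) (nat_lit 211)) (XT.lf (nat_lit 152) (nat_lit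 1208924198) (nat_lit 0) (nat_lit 2623363) (nat_lit 76) (nat_lit 2623363) (nat_lit 91) (nat_lit 1) (nat_lit 89) (nat_lit 1) (nat_lit 90) (nat_lit 1) (nat_lit 435) (nat_lit 375) (nat_lit 210))) (XT.nd (nat_lit 78) (nat_lit 76) (nat_lit 0) (XT.lf (nat_lit 0) (nat_lit 395629394) (nat_lit 0) (nat_lit 403005743) (nat_lit 152) (nat_lit 395629394) (nat_lit 89) (nat_lit 3) (nat_lit 89) (nat_lit 1) (nat_lit 91) (nat_lit 1) (nat_lit 436) (nat_lit 375) (nat_lit 209)) (XT.lf (nat_lit 76) (nat_lit 386982115) (nat_lit 0) (nat_lit 394007210) (nat_lit 76) (nat_lit 394007210) (nat_lit 89) (nat_lit 3) (nat_lit 88) (nat_lit 1) (nat_lit 89) (nat_lit 1) (nat_lit 437) (nat_lit 375) (nat_lit 208))))))) (XT.nd (nat_lit 39936) (nat_lit 0) (nat_lit 15428) (XT.nd (nat_lit 468) (nat_lit 380) (nat_lit 0) (XT.nd (nat_lit 234) (nat_lit 228) (nat_lit 0) (XT.nd (nat_lit 78) (nat_lit 76) (nat_lit 0) (XT.lf (nat_lit 152) (nat_lit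 1152020567) (nat_lit 0) (nat_lit 2158247) (nat_lit 76) (nat_lit 2158247) (nat_lit 88) (nat_lit 1) (nat_lit 86) (nat_lit 1) (nat_lit 87) (nat_lit 1) (nat_lit 438) (nat_lit 375) (nat_lit 207)) (XT.nd (nat_lit 78) (nat_lit 76) (nat_lit 0) (XT.lf (nat_lit 0) (nat_lit 377103523) (nat_lit 0) (nat_lit 383172064) (nat_lit 152) (nat_lit 377103523) (nat_lit 86) (nat_lit 3) (nat_lit 86) (nat_lit 1) (nat_lit 88) (nat_lit 1) (nat_lit 439) (nat_lit 375) (nat_lit 206)) (XT.lf (nat_lit 76) (nat_lit 369156833) (nat_lit 0) (nat_lit 374936396) (nat_lit 76) (nat_lit 374936396) (nat_lit 86) (nat_lit 3) (nat_lit 85) (nat_lit 1) (nat_lit 86) (nat_lit 1) (nat_lit 440) (nat_lit 375) (nat_lit 205)))) (XT.nd (nat_lit 78) (nat_lit 76) (nat_lit 0) (XT.lf (nat_lit 152) (nat_lit 1097708873) (nat_lit 0) (nat_lit 1775595) (nat_lit 76) (nat_lit 1775595) (nat_lit 85) (nat_lit 1) (nat_lit 83) (nat_lit 1) (nat_lit 84) (nat_lit 1)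 (nat_lit 441) (nat_lit 375) (nat_lit 204)) (XT.nd (nat_lit 78) (nat_lit 76) (nat_lit 0) (XT.lf (nat_lit 0) (nat_lit 359404232) (nat_lit 0) (nat_lit 364396836) (nat_lit 152) (nat_lit 359404232) (nat_lit 83) (nat_lit 3) (nat_lit 83) (nat_lit 1) (nat_lit 85) (nat_lit 1) (nat_lit 442) (nat_lit 375) (nat_lit 203)) (XT.lf (nat_lit 76) (nat_lit 352073563) (nat_lit 0) (nat_lit 356828424) (nat_lit 76) (nat_lit 356828424) (nat_lit 83) (nat_lit 3) (nat_lit 82) (nat_lit 1) (nat_lit 83) (nat_lit 1) (nat_lit 443) (nat_lit 375) (nat_lit 202))))) (XT.nd (nat_lit 234) (nat_lit 152) (nat_lit 0) (XT.nd (nat_lit 78) (nat_lit 76) (nat_lit 0) (XT.lf (nat_lit 152) (nat_lit 1045886571) (nat_lit 0) (nat_lit 1460786) (nat_lit 76) (nat_lit 1460786) (nat_lit 82) (nat_lit 1) (nat_lit 80) (nat_lit 1) (nat_lit 81) (nat_lit 1) (nat_lit 444) (nat_lit 375) (nat_lit 201)) (XT.nd (nat_lit 78) (nat_lit 76) (nat_lit 0) (XT.lf (nat_lit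 0) (nat_lit 342502018) (nat_lit 0) (nat_lit 346609445) (nat_lit 152) (nat_lit 342502018) (nat_lit 80) (nat_lit 3) (nat_lit 80) (nat_lit 1) (nat_lit 82) (nat_lit 1) (nat_lit 445) (nat_lit 375) (nat_lit 200)) (XT.lf (nat_lit 76) (nat_lit 335715909) (nat_lit 0) (nat_lit 339627745) (nat_lit 76) (nat_lit 339627745) (nat_lit 80) (nat_lit 3) (nat_lit 79) (nat_lit 1) (nat_lit 80) (nat_lit 1) (nat_lit 446) (nat_lit 375) (nat_lit 199)))) (XT.nd (nat_lit 78) (nat_lit 0) (nat_lit 0) (XT.lf (nat_lit 152) (nat_lit 996452293) (nat_lit 0) (nat_lit 1201792) (nat_lit 76) (nat_lit 1201792) (nat_lit 79) (nat_lit 1) (nat_lit 77) (nat_lit 1) (nat_lit 78) (nat_lit 1) (nat_lit 447) (nat_lit 375) (nat_lit 198)) (XT.nd (nat_lit 39078) (nat_lit 0) (nat_lit 16340) (XT.lf (nat_lit 0) (nat_lit 326367036) (nat_lit 0) (nat_lit 329746226) (nat_lit 152) (nat_lit 326367036) (nat_lit 77) (nat_lit 3) (nat_lit 77) (nat_lit 1) (nat_lit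 79) (nat_lit 1) (nat_lit 448) (nat_lit 375) (nat_lit 197)) (XT.lf (nat_lit 836) (nat_lit 3112178122) (nat_lit 0) (nat_lit 5525665103) (nat_lit 836) (nat_lit 3112178122) (nat_lit 303) (nat_lit 1) (nat_lit 292) (nat_lit 0) (nat_lit 303) (nat_lit 0) (nat_lit 268) (nat_lit 376) (nat_lit 376)))))) (XT.nd (nat_lit 468) (nat_lit 912) (nat_lit 0) (XT.nd (nat_lit 234) (nat_lit 0) (nat_lit 152) (XT.nd (nat_lit 78) (nat_lit 0) (nat_lit 76) (XT.lf (nat_lit 836) (nat_lit 12063190943) (nat_lit 76) (nat_lit 5436541472) (nat_lit 0) (nat_lit 5436541472) (nat_lit 303) (nat_lit 1) (nat_lit 293) (nat_lit 1) (nat_lit 292) (nat_lit 0) (nat_lit 269) (nat_lit 376) (nat_lit 375)) (XT.nd (nat_lit 78) (nat_lit 0) (nat_lit 0) (XT.lf (nat_lit 836) (nat_lit 5749135168) (nat_lit 0) (nat_lit 10891663866) (nat_lit 760) (nat_lit 5749135168) (nat_lit 304) (nat_lit 1) (nat_lit 293) (nat_lit 1) (nat_lit 303) (nat_lit 1) (nat_lit 270)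 (nat_lit 376) (nat_lit 374)) (XT.lf (nat_lit 836) (nat_lit 10784578713) (nat_lit 76) (nat_lit 5538333323) (nat_lit 0) (nat_lit 5538333323) (nat_lit 304) (nat_lit 1) (nat_lit 294) (nat_lit 1) (nat_lit 293) (nat_lit 1) (nat_lit 271) (nat_lit 376) (nat_lit 373)))) (XT.nd (nat_lit 78) (nat_lit 0) (nat_lit 0) (XT.lf (nat_lit 836) (nat_lit 4964038016) (nat_lit 0) (nat_lit 11421237267) (nat_lit 760) (nat_lit 4964038016) (nat_lit 305) (nat_lit 1) (nat_lit 294) (nat_lit 1) (nat_lit 304) (nat_lit 1) (nat_lit 272) (nat_lit 376) (nat_lit 372)) (XT.nd (nat_lit 78) (nat_lit 0) (nat_lit 76) (XT.lf (nat_lit 836) (nat_lit 8928145690) (nat_lit 76) (nat_lit 5962420598) (nat_lit 0) (nat_lit 5962420598) (nat_lit 305) (nat_lit 1) (nat_lit 295) (nat_lit 1) (nat_lit 294) (nat_lit 1) (nat_lit 273) (nat_lit 376) (nat_lit 371)) (XT.lf (nat_lit 836) (nat_lit 3914734017) (nat_lit 0) (nat_lit 12543857361) (nat_lit 760) (nat_lit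 3914734017) (nat_lit 306) (nat_lit 1) (nat_lit 295) (nat_lit 1) (nat_lit 305) (nat_lit 1) (nat_lit 274) (nat_lit 376) (nat_lit 370))))) (XT.nd (nat_lit 234) (nat_lit 1140) (nat_lit 0) (XT.nd (nat_lit 78) (nat_lit 0) (nat_lit 76) (XT.lf (nat_lit 836) (nat_lit 6580788081) (nat_lit 76) (nat_lit 6663041273) (nat_lit 0) (nat_lit 6663041273) (nat_lit 306) (nat_lit 1) (nat_lit 296) (nat_lit 1) (nat_lit 295) (nat_lit 1) (nat_lit 275) (nat_lit 376) (nat_lit 369)) (XT.nd (nat_lit 78) (nat_lit 0) (nat_lit 0) (XT.lf (nat_lit 836) (nat_lit 2641843653) (nat_lit 0) (nat_lit 14173803459) (nat_lit 760) (nat_lit 2641843653) (nat_lit 307) (nat_lit 1) (nat_lit 296) (nat_lit 1) (nat_lit 306) (nat_lit 1) (nat_lit 276) (nat_lit 376) (nat_lit 368)) (XT.lf (nat_lit 836) (nat_lit 3819743503) (nat_lit 76) (nat_lit 7599440132) (nat_lit 0) (nat_lit 7599440132) (nat_lit 307) (nat_lit 1) (nat_lit 297) (nat_lit 1) (nat_lit 296)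 (nat_lit 1) (nat_lit 277) (nat_lit 376) (nat_lit 367)))) (XT.nd (nat_lit 156) (nat_lit 532) (nat_lit 0) (XT.nd (nat_lit 78) (nat_lit 760) (nat_lit 0) (XT.lf (nat_lit 76) (nat_lit 1181446281) (nat_lit 0) (nat_lit 16234780789) (nat_lit 760) (nat_lit 1181446281) (nat_lit 298) (nat_lit 1) (nat_lit 297) (nat_lit 1) (nat_lit 307) (nat_lit 1) (nat_lit 278) (nat_lit 376) (nat_lit 366)) (XT.lf (nat_lit 836) (nat_lit 713564174) (nat_lit 0) (nat_lit 8735367455) (nat_lit 760) (nat_lit 8735367455) (nat_lit 298) (nat_lit 1) (nat_lit 287) (nat_lit 1) (nat_lit 297) (nat_lit 1) (nat_lit 279) (nat_lit 376) (nat_lit 365))) (XT.nd (nat_lit 78) (nat_lit 0) (nat_lit 0) (XT.lf (nat_lit 532) (nat_lit 16933776488) (nat_lit 0) (nat_lit 427453830) (nat_lit 456) (nat_lit 427453830) (nat_lit 287) (nat_lit 1) (nat_lit 280) (nat_lit 1) (nat_lit 286) (nat_lit 1) (nat_lit 280) (nat_lit 376) (nat_lit 364)) (XT.lf (nat_lit 76) (nat_lit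 7403417608) (nat_lit 0) (nat_lit 2591323108) (nat_lit 532) (nat_lit 7403417608) (nat_lit 281) (nat_lit 1) (nat_lit 280) (nat_lit 1) (nat_lit 287) (nat_lit 1) (nat_lit 281) (nat_lit 376) (nat_lit 363))))))))
noncomputable def ec159 : XT := (XT.nd (nat_lit 1950) (nat_lit 2508) (nat_lit 0) (XT.nd (nat_lit 936) (nat_lit 1976) (nat_lit 0) (XT.nd (nat_lit 468) (nat_lit 1216) (nat_lit 0) (XT.nd (nat_lit 234) (nat_lit 304) (nat_lit 0) (XT.nd (nat_lit 78) (nat_lit 380) (nat_lit 0) (XT.lf (nat_lit 456) (nat_lit 12739381329) (nat_lit 0) (nat_lit 2142428687) (nat_lit 380) (nat_lit 2142428687) (nat_lit 281) (nat_lit 1) (nat_lit 275) (nat_lit 1) (nat_lit 280) (nat_lit 1) (nat_lit 282) (nat_lit 376) (nat_lit 362)) (XT.nd (nat_lit 78) (nat_lit 380) (nat_lit 0) (XT.lf (nat_lit 76) (nat_lit 5280767655) (nat_lit 0) (nat_lit 6096644598) (nat_lit 456) (nat_lit 5280767655) (nat_lit 276) (nat_lit 1) (nat_lit 275) (nat_lit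 1) (nat_lit 281) (nat_lit 1) (nat_lit 283) (nat_lit 376) (nat_lit 361)) (XT.lf (nat_lit 456) (nat_lit 8389063266) (nat_lit 0) (nat_lit 3957903347) (nat_lit 380) (nat_lit 3957903347) (nat_lit 276) (nat_lit 1) (nat_lit 270) (nat_lit 1) (nat_lit 275) (nat_lit 1) (nat_lit 284) (nat_lit 376) (nat_lit 360)))) (XT.nd (nat_lit 78) (nat_lit 304) (nat_lit 0) (XT.lf (nat_lit 76) (nat_lit 3091258322) (nat_lit 0) (nat_lit 9779318811) (nat_lit 456) (nat_lit 3091258322) (nat_lit 271) (nat_lit 1) (nat_lit 270) (nat_lit 1) (nat_lit 276) (nat_lit 1) (nat_lit 285) (nat_lit 376) (nat_lit 359)) (XT.nd (nat_lit 78) (nat_lit 0) (nat_lit 0) (XT.lf (nat_lit 380) (nat_lit 3923312724) (nat_lit 0) (nat_lit 5852156103) (nat_lit 304) (nat_lit 5852156103) (nat_lit 271) (nat_lit 1) (nat_lit 266) (nat_lit 1) (nat_lit 270) (nat_lit 1) (nat_lit 286) (nat_lit 376) (nat_lit 358)) (XT.lf (nat_lit 76) (nat_lit 853686670) (nat_lit 0)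 (nat_lit 13598893157) (nat_lit 380) (nat_lit 853686670) (nat_lit 267) (nat_lit 1) (nat_lit 266) (nat_lit 1) (nat_lit 271) (nat_lit 1) (nat_lit 287) (nat_lit 376) (nat_lit 357))))) (XT.nd (nat_lit 234) (nat_lit 532) (nat_lit 0) (XT.nd (nat_lit 78) (nat_lit 304) (nat_lit 0) (XT.lf (nat_lit 76) (nat_lit 7193409189) (nat_lit 0) (nat_lit 602461992) (nat_lit 380) (nat_lit 7193409189) (nat_lit 262) (nat_lit 1) (nat_lit 261) (nat_lit 1) (nat_lit 266) (nat_lit 1) (nat_lit 288) (nat_lit 376) (nat_lit 356)) (XT.nd (nat_lit 78) (nat_lit 0) (nat_lit 0) (XT.lf (nat_lit 380) (nat_lit 11899033211) (nat_lit 0) (nat_lit 1392666321) (nat_lit 304) (nat_lit 1392666321) (nat_lit 262) (nat_lit 1) (nat_lit 257) (nat_lit 1) (nat_lit 261) (nat_lit 1) (nat_lit 289) (nat_lit 376) (nat_lit 355)) (XT.lf (nat_lit 76) (nat_lit 4667323943) (nat_lit 0) (nat_lit 5050034326) (nat_lit 380) (nat_lit 4667323943) (nat_lit 258) (nat_lit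 1) (nat_lit 257) (nat_lit 1) (nat_lit 262) (nat_lit 1) (nat_lit 290) (nat_lit 376) (nat_lit 354)))) (XT.nd (nat_lit 78) (nat_lit 228) (nat_lit 0) (XT.lf (nat_lit 380) (nat_lit 6810923982) (nat_lit 0) (nat_lit 3642233282) (nat_lit 304) (nat_lit 3642233282) (nat_lit 258) (nat_lit 1) (nat_lit 253) (nat_lit 1) (nat_lit 257) (nat_lit 1) (nat_lit 291) (nat_lit 376) (nat_lit 353)) (XT.nd (nat_lit 78) (nat_lit 228) (nat_lit 0) (XT.lf (nat_lit 76) (nat_lit 2147861457) (nat_lit 0) (nat_lit 9518834879) (nat_lit 380) (nat_lit 2147861457) (nat_lit 254) (nat_lit 1) (nat_lit 253) (nat_lit 1) (nat_lit 258) (nat_lit 1) (nat_lit 292) (nat_lit 376) (nat_lit 352)) (XT.lf (nat_lit 304) (nat_lit 1746763732) (nat_lit 0) (nat_lit 5896511682) (nat_lit 228) (nat_lit 5896511682) (nat_lit 254) (nat_lit 1) (nat_lit 250) (nat_lit 1) (nat_lit 253) (nat_lit 1) (nat_lit 293) (nat_lit 376) (nat_lit 351)))))) (XT.nd (nat_lit 468)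 (nat_lit 836) (nat_lit 0) (XT.nd (nat_lit 234) (nat_lit 532) (nat_lit 0) (XT.nd (nat_lit 78) (nat_lit 228) (nat_lit 0) (XT.lf (nat_lit 380) (nat_lit 12577610950) (nat_lit 0) (nat_lit 349004570) (nat_lit 304) (nat_lit 349004570) (nat_lit 250) (nat_lit 1) (nat_lit 245) (nat_lit 1) (nat_lit 249) (nat_lit 1) (nat_lit 294) (nat_lit 376) (nat_lit 350)) (XT.nd (nat_lit 78) (nat_lit 228) (nat_lit 0) (XT.lf (nat_lit 76) (nat_lit 4921712149) (nat_lit 0) (nat_lit 3169490918) (nat_lit 380) (nat_lit 4921712149) (nat_lit 246) (nat_lit 1) (nat_lit 245) (nat_lit 1) (nat_lit 250) (nat_lit 1) (nat_lit 295) (nat_lit 376) (nat_lit 349)) (XT.lf (nat_lit 304) (nat_lit 7188316191) (nat_lit 0) (nat_lit 2785984792) (nat_lit 228) (nat_lit 2785984792) (nat_lit 246) (nat_lit 1) (nat_lit 242) (nat_lit 1) (nat_lit 245) (nat_lit 1) (nat_lit 296) (nat_lit 376) (nat_lit 348)))) (XT.nd (nat_lit 78) (nat_lit 532) (nat_lit 0) (XT.lf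 (nat_lit 76) (nat_lit 2270900276) (nat_lit 0) (nat_lit 7972274266) (nat_lit 304) (nat_lit 2270900276) (nat_lit 243) (nat_lit 1) (nat_lit 242) (nat_lit 1) (nat_lit 246) (nat_lit 1) (nat_lit 297) (nat_lit 376) (nat_lit 347)) (XT.nd (nat_lit 78) (nat_lit 304) (nat_lit 0) (XT.lf (nat_lit 304) (nat_lit 1892724400) (nat_lit 0) (nat_lit 5190370347) (nat_lit 228) (nat_lit 5190370347) (nat_lit 243) (nat_lit 1) (nat_lit 239) (nat_lit 1) (nat_lit 242) (nat_lit 1) (nat_lit 298) (nat_lit 376) (nat_lit 346)) (XT.lf (nat_lit 304) (nat_lit 11391225849) (nat_lit 0) (nat_lit 325284239) (nat_lit 228) (nat_lit 325284239) (nat_lit 239) (nat_lit 1) (nat_lit 235) (nat_lit 1) (nat_lit 238) (nat_lit 1) (nat_lit 299) (nat_lit 376) (nat_lit 345))))) (XT.nd (nat_lit 234) (nat_lit 608) (nat_lit 0) (XT.nd (nat_lit 78) (nat_lit 228) (nat_lit 0) (XT.lf (nat_lit 76) (nat_lit 4308974514) (nat_lit 0) (nat_lit 3192906848) (nat_lit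 304) (nat_lit 4308974514) (nat_lit 236) (nat_lit 1) (nat_lit 235) (nat_lit 1) (nat_lit 239) (nat_lit 1) (nat_lit 300) (nat_lit 376) (nat_lit 344)) (XT.nd (nat_lit 78) (nat_lit 0) (nat_lit 0) (XT.lf (nat_lit 304) (nat_lit 5925234512) (nat_lit 0) (nat_lit 2831613836) (nat_lit 228) (nat_lit 2831613836) (nat_lit 236) (nat_lit 1) (nat_lit 232) (nat_lit 1) (nat_lit 235) (nat_lit 1) (nat_lit 301) (nat_lit 376) (nat_lit 343)) (XT.lf (nat_lit 76) (nat_lit 1631804752) (nat_lit 0) (nat_lit 8108423689) (nat_lit 304) (nat_lit 1631804752) (nat_lit 233) (nat_lit 1) (nat_lit 232) (nat_lit 1) (nat_lit 236) (nat_lit 1) (nat_lit 302) (nat_lit 376) (nat_lit 342)))) (XT.nd (nat_lit 156) (nat_lit 152) (nat_lit 0) (XT.nd (nat_lit 78) (nat_lit 304) (nat_lit 0) (XT.lf (nat_lit 228) (nat_lit 597947517) (nat_lit 0) (nat_lit 5280867579) (nat_lit 152) (nat_lit 5280867579) (nat_lit 233) (nat_lit 1) (nat_lit 230) (nat_lit 1)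 (nat_lit 232) (nat_lit 1) (nat_lit 303) (nat_lit 376) (nat_lit 341)) (XT.lf (nat_lit 304) (nat_lit 9034786491) (nat_lit 0) (nat_lit 959559812) (nat_lit 228) (nat_lit 959559812) (nat_lit 230) (nat_lit 1) (nat_lit 226) (nat_lit 1) (nat_lit 229) (nat_lit 1) (nat_lit 304) (nat_lit 376) (nat_lit 340))) (XT.nd (nat_lit 78) (nat_lit 152) (nat_lit 0) (XT.lf (nat_lit 76) (nat_lit 3155636461) (nat_lit 0) (nat_lit 4439158046) (nat_lit 304) (nat_lit 3155636461) (nat_lit 227) (nat_lit 1) (nat_lit 226) (nat_lit 1) (nat_lit 230) (nat_lit 1) (nat_lit 305) (nat_lit 376) (nat_lit 339)) (XT.lf (nat_lit 228) (nat_lit 3645851153) (nat_lit 0) (nat_lit 3453692234) (nat_lit 152) (nat_lit 3453692234) (nat_lit 227) (nat_lit 1) (nat_lit 224) (nat_lit 1) (nat_lit 226) (nat_lit 1) (nat_lit 306) (nat_lit 376) (nat_lit 338))))))) (XT.nd (nat_lit 1014) (nat_lit 1140) (nat_lit 0) (XT.nd (nat_lit 468) (nat_lit 608) (nat_lit 0)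 (XT.nd (nat_lit 234) (nat_lit 380) (nat_lit 0) (XT.nd (nat_lit 78) (nat_lit 380) (nat_lit 0) (XT.lf (nat_lit 76) (nat_lit 523793089) (nat_lit 0) (nat_lit 9314998255) (nat_lit 228) (nat_lit 523793089) (nat_lit 225) (nat_lit 1) (nat_lit 224) (nat_lit 1) (nat_lit 227) (nat_lit 1) (nat_lit 307) (nat_lit 376) (nat_lit 337)) (XT.nd (nat_lit 78) (nat_lit 152) (nat_lit 0) (XT.lf (nat_lit 76) (nat_lit 4322956263) (nat_lit 0) (nat_lit 1526713748) (nat_lit 228) (nat_lit 4322956263) (nat_lit 222) (nat_lit 1) (nat_lit 221) (nat_lit 1) (nat_lit 224) (nat_lit 1) (nat_lit 308) (nat_lit 376) (nat_lit 336)) (XT.lf (nat_lit 228) (nat_lit 6003182434) (nat_lit 0) (nat_lit 1992893918) (nat_lit 152) (nat_lit 1992893918) (nat_lit 222) (nat_lit 1) (nat_lit 219) (nat_lit 1) (nat_lit 221) (nat_lit 1) (nat_lit 309) (nat_lit 376) (nat_lit 335)))) (XT.nd (nat_lit 78) (nat_lit 380) (nat_lit 0) (XT.lf (nat_lit 76) (nat_lit 1693941903)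 (nat_lit 0) (nat_lit 6421489658) (nat_lit 228) (nat_lit 1693941903) (nat_lit 220) (nat_lit 1) (nat_lit 219) (nat_lit 1) (nat_lit 222) (nat_lit 1) (nat_lit 310) (nat_lit 376) (nat_lit 334)) (XT.nd (nat_lit 78) (nat_lit 228) (nat_lit 0) (XT.lf (nat_lit 228) (nat_lit 793550794) (nat_lit 0) (nat_lit 4419923037) (nat_lit 152) (nat_lit 4419923037) (nat_lit 220) (nat_lit 1) (nat_lit 217) (nat_lit 1) (nat_lit 219) (nat_lit 1) (nat_lit 311) (nat_lit 376) (nat_lit 333)) (XT.lf (nat_lit 228) (nat_lit 7799529872) (nat_lit 0) (nat_lit 831494729) (nat_lit 152) (nat_lit 831494729) (nat_lit 217) (nat_lit 1) (nat_lit 214) (nat_lit 1) (nat_lit 216) (nat_lit 1) (nat_lit 312) (nat_lit 376) (nat_lit 332))))) (XT.nd (nat_lit 234) (nat_lit 456) (nat_lit 0) (XT.nd (nat_lit 78) (nat_lit 152) (nat_lit 0) (XT.lf (nat_lit 76) (nat_lit 2596482607) (nat_lit 0) (nat_lit 4100134997) (nat_lit 228) (nat_lit 2596482607) (nat_lit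 215) (nat_lit 1) (nat_lit 214) (nat_lit 1) (nat_lit 217) (nat_lit 1) (nat_lit 313) (nat_lit 376) (nat_lit 331)) (XT.nd (nat_lit 78) (nat_lit 0) (nat_lit 0) (XT.lf (nat_lit 228) (nat_lit 2644391475) (nat_lit 0) (nat_lit 3242104045) (nat_lit 152) (nat_lit 3242104045) (nat_lit 215) (nat_lit 1) (nat_lit 212) (nat_lit 1) (nat_lit 214) (nat_lit 1) (nat_lit 314) (nat_lit 376) (nat_lit 330)) (XT.lf (nat_lit 76) (nat_lit 86913854) (nat_lit 0) (nat_lit 8796040257) (nat_lit 228) (nat_lit 86913854) (nat_lit 213) (nat_lit 1) (nat_lit 212) (nat_lit 1) (nat_lit 215) (nat_lit 1) (nat_lit 315) (nat_lit 376) (nat_lit 329)))) (XT.nd (nat_lit 156) (nat_lit 152) (nat_lit 0) (XT.nd (nat_lit 78) (nat_lit 152) (nat_lit 0) (XT.lf (nat_lit 76) (nat_lit 3281725440) (nat_lit 0) (nat_lit 2246676508) (nat_lit 152) (nat_lit 3281725440) (nat_lit 211) (nat_lit 1) (nat_lit 210) (nat_lit 1) (nat_lit 212) (nat_lit 1) (nat_lit 316)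 (nat_lit 376) (nat_lit 328)) (XT.lf (nat_lit 228) (nat_lit 4072247670) (nat_lit 0) (nat_lit 2291879807) (nat_lit 152) (nat_lit 2291879807) (nat_lit 211) (nat_lit 1) (nat_lit 208) (nat_lit 1) (nat_lit 210) (nat_lit 1) (nat_lit 317) (nat_lit 376) (nat_lit 327))) (XT.nd (nat_lit 78) (nat_lit 152) (nat_lit 0) (XT.lf (nat_lit 76) (nat_lit 816457513) (nat_lit 0) (nat_lit 6873132249) (nat_lit 228) (nat_lit 816457513) (nat_lit 209) (nat_lit 1) (nat_lit 208) (nat_lit 1) (nat_lit 211) (nat_lit 1) (nat_lit 318) (nat_lit 376) (nat_lit 326)) (XT.lf (nat_lit 76) (nat_lit 3790924377) (nat_lit 0) (nat_lit 775475178) (nat_lit 152) (nat_lit 3790924377) (nat_lit 207) (nat_lit 1) (nat_lit 206) (nat_lit 1) (nat_lit 208) (nat_lit 1) (nat_lit 319) (nat_lit 376) (nat_lit 325)))))) (XT.nd (nat_lit 468) (nat_lit 608) (nat_lit 0) (XT.nd (nat_lit 234) (nat_lit 304) (nat_lit 0) (XT.nd (nat_lit 78) (nat_lit 76) (nat_lit 0)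 (XT.lf (nat_lit 228) (nat_lit 5156629436) (nat_lit 0) (nat_lit 1528004509) (nat_lit 152) (nat_lit 1528004509) (nat_lit 207) (nat_lit 1) (nat_lit 204) (nat_lit 1) (nat_lit 206) (nat_lit 1) (nat_lit 320) (nat_lit 376) (nat_lit 324)) (XT.nd (nat_lit 78) (nat_lit 76) (nat_lit 0) (XT.lf (nat_lit 76) (nat_lit 1381180922) (nat_lit 0) (nat_lit 5308455445) (nat_lit 228) (nat_lit 1381180922) (nat_lit 205) (nat_lit 1) (nat_lit 204) (nat_lit 1) (nat_lit 207) (nat_lit 1) (nat_lit 321) (nat_lit 376) (nat_lit 323)) (XT.lf (nat_lit 152) (nat_lit 396486745) (nat_lit 0) (nat_lit 3767592806) (nat_lit 76) (nat_lit 3767592806) (nat_lit 205) (nat_lit 1) (nat_lit 203) (nat_lit 1) (nat_lit 204) (nat_lit 1) (nat_lit 322) (nat_lit 376) (nat_lit 322)))) (XT.nd (nat_lit 78) (nat_lit 76) (nat_lit 0) (XT.lf (nat_lit 228) (nat_lit 5962734846) (nat_lit 0) (nat_lit 916587681) (nat_lit 152) (nat_lit 916587681) (nat_lit 203) (nat_lit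 1) (nat_lit 200) (nat_lit 1) (nat_lit 202) (nat_lit 1) (nat_lit 323) (nat_lit 376) (nat_lit 321)) (XT.nd (nat_lit 78) (nat_lit 76) (nat_lit 0) (XT.lf (nat_lit 76) (nat_lit 1811995539) (nat_lit 0) (nat_lit 4037672321) (nat_lit 228) (nat_lit 1811995539) (nat_lit 201) (nat_lit 1) (nat_lit 200) (nat_lit 1) (nat_lit 203) (nat_lit 1) (nat_lit 324) (nat_lit 376) (nat_lit 320)) (XT.lf (nat_lit 152) (nat_lit 1331492313) (nat_lit 0) (nat_lit 3099607925) (nat_lit 76) (nat_lit 3099607925) (nat_lit 201) (nat_lit 1) (nat_lit 199) (nat_lit 1) (nat_lit 200) (nat_lit 1) (nat_lit 325) (nat_lit 376) (nat_lit 319))))) (XT.nd (nat_lit 234) (nat_lit 304) (nat_lit 0) (XT.nd (nat_lit 78) (nat_lit 76) (nat_lit 0) (XT.lf (nat_lit 228) (nat_lit 6543997712) (nat_lit 0) (nat_lit 429788087) (nat_lit 152) (nat_lit 429788087) (nat_lit 199) (nat_lit 1) (nat_lit 196) (nat_lit 1) (nat_lit 198) (nat_lit 1) (nat_lit 326) (nat_lit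 376) (nat_lit 318)) (XT.nd (nat_lit 78) (nat_lit 76) (nat_lit 0) (XT.lf (nat_lit 76) (nat_lit 2134251858) (nat_lit 0) (nat_lit 3007891477) (nat_lit 228) (nat_lit 2134251858) (nat_lit 197) (nat_lit 1) (nat_lit 196) (nat_lit 1) (nat_lit 199) (nat_lit 1) (nat_lit 327) (nat_lit 376) (nat_lit 317)) (XT.lf (nat_lit 152) (nat_lit 2052852199) (nat_lit 0) (nat_lit 2550055111) (nat_lit 76) (nat_lit 2550055111) (nat_lit 197) (nat_lit 1) (nat_lit 195) (nat_lit 1) (nat_lit 196) (nat_lit 1) (nat_lit 328) (nat_lit 376) (nat_lit 316)))) (XT.nd (nat_lit 156) (nat_lit 76) (nat_lit 0) (XT.nd (nat_lit 78) (nat_lit 0) (nat_lit 0) (XT.lf (nat_lit 228) (nat_lit 6944183111) (nat_lit 0) (nat_lit 44739278) (nat_lit 152) (nat_lit 44739278) (nat_lit 195) (nat_lit 1) (nat_lit 192) (nat_lit 1) (nat_lit 194) (nat_lit 1) (nat_lit 329) (nat_lit 376) (nat_lit 315)) (XT.lf (nat_lit 76) (nat_lit 2368729184) (nat_lit 0) (nat_lit 2175636397)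 (nat_lit 228) (nat_lit 2368729184) (nat_lit 193) (nat_lit 1) (nat_lit 192) (nat_lit 1) (nat_lit 195) (nat_lit 1) (nat_lit 330) (nat_lit 376) (nat_lit 314))) (XT.nd (nat_lit 78) (nat_lit 0) (nat_lit 0) (XT.lf (nat_lit 152) (nat_lit 2600724849) (nat_lit 0) (nat_lit 2097936651) (nat_lit 76) (nat_lit 2097936651) (nat_lit 193) (nat_lit 1) (nat_lit 191) (nat_lit 1) (nat_lit 192) (nat_lit 1) (nat_lit 331) (nat_lit 376) (nat_lit 313)) (XT.lf (nat_lit 0) (nat_lit 261552855) (nat_lit 0) (nat_lit 6160513053) (nat_lit 152) (nat_lit 261552855) (nat_lit 191) (nat_lit 3) (nat_lit 191) (nat_lit 1) (nat_lit 193) (nat_lit 1) (nat_lit 332) (nat_lit 376) (nat_lit 312))))))))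
noncomputable def ec160 : XT := (XT.nd (nat_lit 1950) (nat_lit 1976) (nat_lit 0) (XT.nd (nat_lit 936) (nat_lit 988) (nat_lit 0) (XT.nd (nat_lit 468) (nat_lit 456) (nat_lit 0) (XT.nd (nat_lit 234) (nat_lit 228) (nat_lit 0) (XT.nd (nat_lit 78) (nat_lit 76) (nat_lit 0) (XT.lf (nat_lit 76) (nat_lit 2532449742) (nat_lit 0) (nat_lit 1505174433) (nat_lit 152) (nat_lit 2532449742) (nat_lit 190) (nat_lit 1) (nat_lit 189) (nat_lit 1) (nat_lit 191) (nat_lit 1) (nat_lit 333) (nat_lit 376) (nat_lit 311)) (XT.nd (nat_lit 78) (nat_lit 0) (nat_lit 0) (XT.lf (nat_lit 152) (nat_lit 3008040164) (nat_lit 0) (nat_lit 1725977674) (nat_lit 76) (nat_lit 1725977674) (nat_lit 190) (nat_lit 1) (nat_lit 188) (nat_lit 1) (nat_lit 189) (nat_lit 1) (nat_lit 334) (nat_lit 376) (nat_lit 310)) (XT.lf (nat_lit 0) (nat_lit 499907195) (nat_lit 0) (nat_lit 5352996349) (nat_lit 152) (nat_lit 499907195) (nat_lit 188) (nat_lit 3) (nat_lit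 188) (nat_lit 1) (nat_lit 190) (nat_lit 1) (nat_lit 335) (nat_lit 376) (nat_lit 309)))) (XT.nd (nat_lit 78) (nat_lit 76) (nat_lit 0) (XT.lf (nat_lit 76) (nat_lit 2639348270) (nat_lit 0) (nat_lit 967142146) (nat_lit 152) (nat_lit 2639348270) (nat_lit 187) (nat_lit 1) (nat_lit 186) (nat_lit 1) (nat_lit 188) (nat_lit 1) (nat_lit 336) (nat_lit 376) (nat_lit 308)) (XT.nd (nat_lit 78) (nat_lit 0) (nat_lit 0) (XT.lf (nat_lit 152) (nat_lit 3301786273) (nat_lit 0) (nat_lit 1419966104) (nat_lit 76) (nat_lit 1419966104) (nat_lit 187) (nat_lit 1) (nat_lit 185) (nat_lit 1) (nat_lit 186) (nat_lit 1) (nat_lit 337) (nat_lit 376) (nat_lit 307)) (XT.lf (nat_lit 0) (nat_lit 682443472) (nat_lit 0) (nat_lit 4675091929) (nat_lit 152) (nat_lit 682443472) (nat_lit 185) (nat_lit 3) (nat_lit 185) (nat_lit 1) (nat_lit 187) (nat_lit 1) (nat_lit 338) (nat_lit 376) (nat_lit 306))))) (XT.nd (nat_lit 234) (nat_lit 228) (nat_lit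 0) (XT.nd (nat_lit 78) (nat_lit 76) (nat_lit 0) (XT.lf (nat_lit 76) (nat_lit 2700822735) (nat_lit 0) (nat_lit 537414441) (nat_lit 152) (nat_lit 2700822735) (nat_lit 184) (nat_lit 1) (nat_lit 183) (nat_lit 1) (nat_lit 185) (nat_lit 1) (nat_lit 339) (nat_lit 376) (nat_lit 305)) (XT.nd (nat_lit 78) (nat_lit 0) (nat_lit 0) (XT.lf (nat_lit 152) (nat_lit 3504067914) (nat_lit 0) (nat_lit 1168209628) (nat_lit 76) (nat_lit 1168209628) (nat_lit 184) (nat_lit 1) (nat_lit 182) (nat_lit 1) (nat_lit 183) (nat_lit 1) (nat_lit 340) (nat_lit 376) (nat_lit 304)) (XT.lf (nat_lit 0) (nat_lit 819703729) (nat_lit 0) (nat_lit 4104465496) (nat_lit 152) (nat_lit 819703729) (nat_lit 182) (nat_lit 3) (nat_lit 182) (nat_lit 1) (nat_lit 184) (nat_lit 1) (nat_lit 341) (nat_lit 376) (nat_lit 303)))) (XT.nd (nat_lit 78) (nat_lit 76) (nat_lit 0) (XT.lf (nat_lit 76) (nat_lit 2726187244) (nat_lit 0) (nat_lit 196174290) (nat_lit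 152) (nat_lit 2726187244) (nat_lit 181) (nat_lit 1) (nat_lit 180) (nat_lit 1) (nat_lit 182) (nat_lit 1) (nat_lit 342) (nat_lit 376) (nat_lit 302)) (XT.nd (nat_lit 78) (nat_lit 0) (nat_lit 0) (XT.lf (nat_lit 152) (nat_lit 3632976942) (nat_lit 0) (nat_lit 961088952) (nat_lit 76) (nat_lit 961088952) (nat_lit 181) (nat_lit 1) (nat_lit 179) (nat_lit 1) (nat_lit 180) (nat_lit 1) (nat_lit 343) (nat_lit 376) (nat_lit 301)) (XT.lf (nat_lit 0) (nat_lit 920330187) (nat_lit 0) (nat_lit 3622711821) (nat_lit 152) (nat_lit 920330187) (nat_lit 179) (nat_lit 3) (nat_lit 179) (nat_lit 1) (nat_lit 181) (nat_lit 1) (nat_lit 344) (nat_lit 376) (nat_lit 300)))))) (XT.nd (nat_lit 468) (nat_lit 532) (nat_lit 0) (XT.nd (nat_lit 234) (nat_lit 228) (nat_lit 0) (XT.nd (nat_lit 78) (nat_lit 152) (nat_lit 0) (XT.lf (nat_lit 76) (nat_lit 75261379) (nat_lit 0) (nat_lit 2648958174) (nat_lit 76) (nat_lit 2648958174) (nat_lit 179)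 (nat_lit 3) (nat_lit 178) (nat_lit 1) (nat_lit 179) (nat_lit 1) (nat_lit 345) (nat_lit 376) (nat_lit 299)) (XT.nd (nat_lit 78) (nat_lit 0) (nat_lit 0) (XT.lf (nat_lit 152) (nat_lit 3703308260) (nat_lit 0) (nat_lit 790690259) (nat_lit 76) (nat_lit 790690259) (nat_lit 178) (nat_lit 1) (nat_lit 176) (nat_lit 1) (nat_lit 177) (nat_lit 1) (nat_lit 346) (nat_lit 376) (nat_lit 298)) (XT.lf (nat_lit 0) (nat_lit 991403542) (nat_lit 0) (nat_lit 3214659600) (nat_lit 152) (nat_lit 991403542) (nat_lit 176) (nat_lit 3) (nat_lit 176) (nat_lit 1) (nat_lit 178) (nat_lit 1) (nat_lit 347) (nat_lit 376) (nat_lit 297)))) (XT.nd (nat_lit 78) (nat_lit 152) (nat_lit 0) (XT.lf (nat_lit 76) (nat_lit 292385187) (nat_lit 0) (nat_lit 2409771910) (nat_lit 76) (nat_lit 2409771910) (nat_lit 176) (nat_lit 3) (nat_lit 175) (nat_lit 1) (nat_lit 176) (nat_lit 1) (nat_lit 348) (nat_lit 376) (nat_lit 296)) (XT.nd (nat_lit 78) (nat_lit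 0) (nat_lit 0) (XT.lf (nat_lit 152) (nat_lit 3727148623) (nat_lit 0) (nat_lit 650502833) (nat_lit 76) (nat_lit 650502833) (nat_lit 175) (nat_lit 1) (nat_lit 173) (nat_lit 1) (nat_lit 174) (nat_lit 1) (nat_lit 349) (nat_lit 376) (nat_lit 295)) (XT.lf (nat_lit 0) (nat_lit 1038721214) (nat_lit 0) (nat_lit 2867799475) (nat_lit 152) (nat_lit 1038721214) (nat_lit 173) (nat_lit 3) (nat_lit 173) (nat_lit 1) (nat_lit 175) (nat_lit 1) (nat_lit 350) (nat_lit 376) (nat_lit 294))))) (XT.nd (nat_lit 234) (nat_lit 304) (nat_lit 0) (XT.nd (nat_lit 78) (nat_lit 152) (nat_lit 0) (XT.lf (nat_lit 76) (nat_lit 460038840) (nat_lit 0) (nat_lit 2202018137) (nat_lit 76) (nat_lit 2202018137) (nat_lit 173) (nat_lit 3) (nat_lit 172) (nat_lit 1) (nat_lit 173) (nat_lit 1) (nat_lit 351) (nat_lit 376) (nat_lit 293)) (XT.nd (nat_lit 78) (nat_lit 0) (nat_lit 0) (XT.lf (nat_lit 152) (nat_lit 3714360827) (nat_lit 0) (nat_lit 535170290)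 (nat_lit 76) (nat_lit 535170290) (nat_lit 172) (nat_lit 1) (nat_lit 170) (nat_lit 1) (nat_lit 171) (nat_lit 1) (nat_lit 352) (nat_lit 376) (nat_lit 292)) (XT.lf (nat_lit 0) (nat_lit 1067026195) (nat_lit 0) (nat_lit 2571813408) (nat_lit 152) (nat_lit 1067026195) (nat_lit 170) (nat_lit 3) (nat_lit 170) (nat_lit 1) (nat_lit 172) (nat_lit 1) (nat_lit 353) (nat_lit 376) (nat_lit 291)))) (XT.nd (nat_lit 156) (nat_lit 76) (nat_lit 0) (XT.nd (nat_lit 78) (nat_lit 152) (nat_lit 0) (XT.lf (nat_lit 76) (nat_lit 587515876) (nat_lit 0) (nat_lit 2020646555) (nat_lit 76) (nat_lit 2020646555) (nat_lit 170) (nat_lit 3) (nat_lit 169) (nat_lit 1) (nat_lit 170) (nat_lit 1) (nat_lit 354) (nat_lit 376) (nat_lit 290)) (XT.lf (nat_lit 152) (nat_lit 3672981874) (nat_lit 0) (nat_lit 440285922) (nat_lit 76) (nat_lit 440285922) (nat_lit 169) (nat_lit 1) (nat_lit 167) (nat_lit 1) (nat_lit 168) (nat_lit 1) (nat_lit 355) (nat_lit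 376) (nat_lit 289))) (XT.nd (nat_lit 78) (nat_lit 76) (nat_lit 0) (XT.lf (nat_lit 0) (nat_lit 1080195265) (nat_lit 0) (nat_lit 2318187428) (nat_lit 152) (nat_lit 1080195265) (nat_lit 167) (nat_lit 3) (nat_lit 167) (nat_lit 1) (nat_lit 169) (nat_lit 1) (nat_lit 356) (nat_lit 376) (nat_lit 288)) (XT.lf (nat_lit 76) (nat_lit 682437227) (nat_lit 0) (nat_lit 1861477382) (nat_lit 76) (nat_lit 1861477382) (nat_lit 167) (nat_lit 3) (nat_lit 166) (nat_lit 1) (nat_lit 167) (nat_lit 1) (nat_lit 357) (nat_lit 376) (nat_lit 287))))))) (XT.nd (nat_lit 936) (nat_lit 1064) (nat_lit 0) (XT.nd (nat_lit 468) (nat_lit 456) (nat_lit 0) (XT.nd (nat_lit 234) (nat_lit 228) (nat_lit 0) (XT.nd (nat_lit 78) (nat_lit 76) (nat_lit 0) (XT.lf (nat_lit 152) (nat_lit 3609550353) (nat_lit 0) (nat_lit 362224318) (nat_lit 76) (nat_lit 362224318) (nat_lit 166) (nat_lit 1) (nat_lit 164) (nat_lit 1) (nat_lit 165) (nat_lit 1) (nat_lit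 358) (nat_lit 376) (nat_lit 286)) (XT.nd (nat_lit 78) (nat_lit 76) (nat_lit 0) (XT.lf (nat_lit 0) (nat_lit 1081393769) (nat_lit 0) (nat_lit 2099892985) (nat_lit 152) (nat_lit 1081393769) (nat_lit 164) (nat_lit 3) (nat_lit 164) (nat_lit 1) (nat_lit 166) (nat_lit 1) (nat_lit 359) (nat_lit 376) (nat_lit 285)) (XT.lf (nat_lit 76) (nat_lit 751048948) (nat_lit 0) (nat_lit 1721048202) (nat_lit 76) (nat_lit 1721048202) (nat_lit 164) (nat_lit 3) (nat_lit 163) (nat_lit 1) (nat_lit 164) (nat_lit 1) (nat_lit 360) (nat_lit 376) (nat_lit 284)))) (XT.nd (nat_lit 78) (nat_lit 76) (nat_lit 0) (XT.lf (nat_lit 152) (nat_lit 3529375604) (nat_lit 0) (nat_lit 298002843) (nat_lit 76) (nat_lit 298002843) (nat_lit 163) (nat_lit 1) (nat_lit 161) (nat_lit 1) (nat_lit 162) (nat_lit 1) (nat_lit 361) (nat_lit 376) (nat_lit 283)) (XT.nd (nat_lit 78) (nat_lit 76) (nat_lit 0) (XT.lf (nat_lit 0) (nat_lit 1073202902) (nat_lit 0)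 (nat_lit 1911124728) (nat_lit 152) (nat_lit 1073202902) (nat_lit 161) (nat_lit 3) (nat_lit 161) (nat_lit 1) (nat_lit 163) (nat_lit 1) (nat_lit 362) (nat_lit 376) (nat_lit 282)) (XT.lf (nat_lit 76) (nat_lit 798467117) (nat_lit 0) (nat_lit 1596487904) (nat_lit 76) (nat_lit 1596487904) (nat_lit 161) (nat_lit 3) (nat_lit 160) (nat_lit 1) (nat_lit 161) (nat_lit 1) (nat_lit 363) (nat_lit 376) (nat_lit 281))))) (XT.nd (nat_lit 234) (nat_lit 228) (nat_lit 0) (XT.nd (nat_lit 78) (nat_lit 76) (nat_lit 0) (XT.lf (nat_lit 152) (nat_lit 3436758992) (nat_lit 0) (nat_lit 245167676) (nat_lit 76) (nat_lit 245167676) (nat_lit 160) (nat_lit 1) (nat_lit 158) (nat_lit 1) (nat_lit 159) (nat_lit 1) (nat_lit 364) (nat_lit 376) (nat_lit 280)) (XT.nd (nat_lit 78) (nat_lit 76) (nat_lit 0) (XT.lf (nat_lit 0) (nat_lit 1057724371) (nat_lit 0) (nat_lit 1747084731) (nat_lit 152) (nat_lit 1057724371) (nat_lit 158) (nat_lit 3)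 (nat_lit 158) (nat_lit 1) (nat_lit 160) (nat_lit 1) (nat_lit 365) (nat_lit 376) (nat_lit 279)) (XT.lf (nat_lit 76) (nat_lit 828879244) (nat_lit 0) (nat_lit 1485412920) (nat_lit 76) (nat_lit 1485412920) (nat_lit 158) (nat_lit 3) (nat_lit 157) (nat_lit 1) (nat_lit 158) (nat_lit 1) (nat_lit 366) (nat_lit 376) (nat_lit 278)))) (XT.nd (nat_lit 78) (nat_lit 76) (nat_lit 0) (XT.lf (nat_lit 152) (nat_lit 3335175793) (nat_lit 0) (nat_lit 201700054) (nat_lit 76) (nat_lit 201700054) (nat_lit 157) (nat_lit 1) (nat_lit 155) (nat_lit 1) (nat_lit 156) (nat_lit 1) (nat_lit 367) (nat_lit 376) (nat_lit 277)) (XT.nd (nat_lit 78) (nat_lit 76) (nat_lit 0) (XT.lf (nat_lit 0) (nat_lit 1036666446) (nat_lit 0) (nat_lit 1603804921) (nat_lit 152) (nat_lit 1036666446) (nat_lit 155) (nat_lit 3) (nat_lit 155) (nat_lit 1) (nat_lit 157) (nat_lit 1) (nat_lit 368) (nat_lit 376) (nat_lit 276)) (XT.lf (nat_lit 76) (nat_lit 845709929)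 (nat_lit 0) (nat_lit 1385841810) (nat_lit 76) (nat_lit 1385841810) (nat_lit 155) (nat_lit 3) (nat_lit 154) (nat_lit 1) (nat_lit 155) (nat_lit 1) (nat_lit 369) (nat_lit 376) (nat_lit 275)))))) (XT.nd (nat_lit 468) (nat_lit 608) (nat_lit 0) (XT.nd (nat_lit 234) (nat_lit 228) (nat_lit 0) (XT.nd (nat_lit 78) (nat_lit 76) (nat_lit 0) (XT.lf (nat_lit 152) (nat_lit 3227424678) (nat_lit 0) (nat_lit 165939133) (nat_lit 76) (nat_lit 165939133) (nat_lit 154) (nat_lit 1) (nat_lit 152) (nat_lit 1) (nat_lit 153) (nat_lit 1) (nat_lit 370) (nat_lit 376) (nat_lit 274)) (XT.nd (nat_lit 78) (nat_lit 76) (nat_lit 0) (XT.lf (nat_lit 0) (nat_lit 1011414707) (nat_lit 0) (nat_lit 1478000933) (nat_lit 152) (nat_lit 1011414707) (nat_lit 152) (nat_lit 3) (nat_lit 152) (nat_lit 1) (nat_lit 154) (nat_lit 1) (nat_lit 371) (nat_lit 376) (nat_lit 273)) (XT.lf (nat_lit 76) (nat_lit 851757103) (nat_lit 0) (nat_lit 1296124938) (nat_lit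 76) (nat_lit 1296124938) (nat_lit 152) (nat_lit 3) (nat_lit 151) (nat_lit 1) (nat_lit 152) (nat_lit 1) (nat_lit 372) (nat_lit 376) (nat_lit 272)))) (XT.nd (nat_lit 78) (nat_lit 76) (nat_lit 0) (XT.lf (nat_lit 152) (nat_lit 3115750556) (nat_lit 0) (nat_lit 136518535) (nat_lit 76) (nat_lit 136518535) (nat_lit 151) (nat_lit 1) (nat_lit 149) (nat_lit 1) (nat_lit 150) (nat_lit 1) (nat_lit 373) (nat_lit 376) (nat_lit 271)) (XT.nd (nat_lit 78) (nat_lit 76) (nat_lit 0) (XT.lf (nat_lit 0) (nat_lit 983090197) (nat_lit 0) (nat_lit 1366951840) (nat_lit 152) (nat_lit 983090197) (nat_lit 149) (nat_lit 3) (nat_lit 149) (nat_lit 1) (nat_lit 151) (nat_lit 1) (nat_lit 374) (nat_lit 376) (nat_lit 270)) (XT.lf (nat_lit 76) (nat_lit 849304059) (nat_lit 0) (nat_lit 1214886576) (nat_lit 76) (nat_lit 1214886576) (nat_lit 149) (nat_lit 3) (nat_lit 148) (nat_lit 1) (nat_lit 149) (nat_lit 1) (nat_lit 375) (nat_lit 376) (nat_lit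 269))))) (XT.nd (nat_lit 234) (nat_lit 380) (nat_lit 0) (XT.nd (nat_lit 78) (nat_lit 76) (nat_lit 0) (XT.lf (nat_lit 152) (nat_lit 3001945489) (nat_lit 0) (nat_lit 112314137) (nat_lit 76) (nat_lit 112314137) (nat_lit 148) (nat_lit 1) (nat_lit 146) (nat_lit 1) (nat_lit 147) (nat_lit 1) (nat_lit 376) (nat_lit 376) (nat_lit 268)) (XT.nd (nat_lit 78) (nat_lit 76) (nat_lit 0) (XT.lf (nat_lit 0) (nat_lit 952597228) (nat_lit 0) (nat_lit 1268401152) (nat_lit 152) (nat_lit 952597228) (nat_lit 146) (nat_lit 3) (nat_lit 146) (nat_lit 1) (nat_lit 148) (nat_lit 1) (nat_lit 377) (nat_lit 376) (nat_lit 267)) (XT.lf (nat_lit 76) (nat_lit 840211582) (nat_lit 0) (nat_lit 1140977224) (nat_lit 76) (nat_lit 1140977224) (nat_lit 146) (nat_lit 3) (nat_lit 145) (nat_lit 1) (nat_lit 146) (nat_lit 1) (nat_lit 378) (nat_lit 376) (nat_lit 266)))) (XT.nd (nat_lit 156) (nat_lit 228) (nat_lit 0) (XT.nd (nat_lit 78) (nat_lit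 0) (nat_lit 0) (XT.lf (nat_lit 152) (nat_lit 2887431598) (nat_lit 0) (nat_lit 92401118) (nat_lit 76) (nat_lit 92401118) (nat_lit 145) (nat_lit 1) (nat_lit 143) (nat_lit 1) (nat_lit 144) (nat_lit 1) (nat_lit 379) (nat_lit 376) (nat_lit 265)) (XT.lf (nat_lit 0) (nat_lit 920662660) (nat_lit 0) (nat_lit 1180475329) (nat_lit 152) (nat_lit 920662660) (nat_lit 143) (nat_lit 3) (nat_lit 143) (nat_lit 1) (nat_lit 145) (nat_lit 1) (nat_lit 380) (nat_lit 376) (nat_lit 264))) (XT.nd (nat_lit 78) (nat_lit 152) (nat_lit 0) (XT.lf (nat_lit 76) (nat_lit 825993701) (nat_lit 0) (nat_lit 1073434339) (nat_lit 76) (nat_lit 1073434339) (nat_lit 143) (nat_lit 3) (nat_lit 142) (nat_lit 1) (nat_lit 143) (nat_lit 1) (nat_lit 381) (nat_lit 376) (nat_lit 263)) (XT.lf (nat_lit 152) (nat_lit 2773329136) (nat_lit 0) (nat_lit 76018629) (nat_lit 76) (nat_lit 76018629) (nat_lit 142) (nat_lit 1) (nat_lit 140) (nat_lit 1) (nat_lit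 141) (nat_lit 1) (nat_lit 382) (nat_lit 376) (nat_lit 262))))))))
noncomputable def ec161 : XT := (XT.nd (nat_lit 1950) (nat_lit 1900) (nat_lit 0) (XT.nd (nat_lit 936) (nat_lit 912) (nat_lit 0) (XT.nd (nat_lit 468) (nat_lit 456) (nat_lit 0) (XT.nd (nat_lit 234) (nat_lit 228) (nat_lit 0) (XT.nd (nat_lit 78) (nat_lit 228) (nat_lit 0) (XT.lf (nat_lit 0) (nat_lit 887868174) (nat_lit 0) (nat_lit 1101616701) (nat_lit 152) (nat_lit 887868174) (nat_lit 140) (nat_lit 3) (nat_lit 140) (nat_lit 1) (nat_lit 142) (nat_lit 1) (nat_lit 383) (nat_lit 376) (nat_lit 261)) (XT.nd (nat_lit 78) (nat_lit 152) (nat_lit 0) (XT.lf (nat_lit 76) (nat_lit 807879970) (nat_lit 0) (nat_lit 1011449995) (nat_lit 76) (nat_lit 1011449995) (nat_lit 140) (nat_lit 3) (nat_lit 139) (nat_lit 1) (nat_lit 140) (nat_lit 1) (nat_lit 384) (nat_lit 376) (nat_lit 260)) (XT.lf (nat_lit 152) (nat_lit 2660512376) (nat_lit 0) (nat_lit 62540714)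 (nat_lit 76) (nat_lit 62540714) (nat_lit 139) (nat_lit 1) (nat_lit 137) (nat_lit 1) (nat_lit 138) (nat_lit 1) (nat_lit 385) (nat_lit 376) (nat_lit 259)))) (XT.nd (nat_lit 78) (nat_lit 228) (nat_lit 0) (XT.lf (nat_lit 0) (nat_lit 854676798) (nat_lit 0) (nat_lit 1030528239) (nat_lit 152) (nat_lit 854676798) (nat_lit 137) (nat_lit 3) (nat_lit 137) (nat_lit 1) (nat_lit 139) (nat_lit 1) (nat_lit 386) (nat_lit 376) (nat_lit 258)) (XT.nd (nat_lit 78) (nat_lit 152) (nat_lit 0) (XT.lf (nat_lit 76) (nat_lit 786866668) (nat_lit 0) (nat_lit 954344231) (nat_lit 76) (nat_lit 954344231) (nat_lit 137) (nat_lit 3) (nat_lit 136) (nat_lit 1) (nat_lit 137) (nat_lit 1) (nat_lit 387) (nat_lit 376) (nat_lit 257)) (XT.lf (nat_lit 152) (nat_lit 2549655481) (nat_lit 0) (nat_lit 51452400) (nat_lit 76) (nat_lit 51452400) (nat_lit 136) (nat_lit 1) (nat_lit 134) (nat_lit 1) (nat_lit 135) (nat_lit 1) (nat_lit 388) (nat_lit 376)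 (nat_lit 256))))) (XT.nd (nat_lit 234) (nat_lit 228) (nat_lit 0) (XT.nd (nat_lit 78) (nat_lit 228) (nat_lit 0) (XT.lf (nat_lit 0) (nat_lit 821454672) (nat_lit 0) (nat_lit 966128088) (nat_lit 152) (nat_lit 821454672) (nat_lit 134) (nat_lit 3) (nat_lit 134) (nat_lit 1) (nat_lit 136) (nat_lit 1) (nat_lit 389) (nat_lit 376) (nat_lit 255)) (XT.nd (nat_lit 78) (nat_lit 152) (nat_lit 0) (XT.lf (nat_lit 76) (nat_lit 763758885) (nat_lit 0) (nat_lit 901543091) (nat_lit 76) (nat_lit 901543091) (nat_lit 134) (nat_lit 3) (nat_lit 133) (nat_lit 1) (nat_lit 134) (nat_lit 1) (nat_lit 390) (nat_lit 376) (nat_lit 254)) (XT.lf (nat_lit 152) (nat_lit 2441270126) (nat_lit 0) (nat_lit 42330017) (nat_lit 76) (nat_lit 42330017) (nat_lit 133) (nat_lit 1) (nat_lit 131) (nat_lit 1) (nat_lit 132) (nat_lit 1) (nat_lit 391) (nat_lit 376) (nat_lit 253)))) (XT.nd (nat_lit 78) (nat_lit 228) (nat_lit 0) (XT.lf (nat_lit 0) (nat_lit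 788488940) (nat_lit 0) (nat_lit 907512117) (nat_lit 152) (nat_lit 788488940) (nat_lit 131) (nat_lit 3) (nat_lit 131) (nat_lit 1) (nat_lit 133) (nat_lit 1) (nat_lit 392) (nat_lit 376) (nat_lit 252)) (XT.nd (nat_lit 78) (nat_lit 152) (nat_lit 0) (XT.lf (nat_lit 76) (nat_lit 739205116) (nat_lit 0) (nat_lit 852560523) (nat_lit 76) (nat_lit 852560523) (nat_lit 131) (nat_lit 3) (nat_lit 130) (nat_lit 1) (nat_lit 131) (nat_lit 1) (nat_lit 393) (nat_lit 376) (nat_lit 251)) (XT.lf (nat_lit 152) (nat_lit 2335736357) (nat_lit 0) (nat_lit 34825009) (nat_lit 76) (nat_lit 34825009) (nat_lit 130) (nat_lit 1) (nat_lit 128) (nat_lit 1) (nat_lit 129) (nat_lit 1) (nat_lit 394) (nat_lit 376) (nat_lit 250)))))) (XT.nd (nat_lit 468) (nat_lit 456) (nat_lit 0) (XT.nd (nat_lit 234) (nat_lit 228) (nat_lit 0) (XT.nd (nat_lit 78) (nat_lit 228) (nat_lit 0) (XT.lf (nat_lit 0) (nat_lit 756002419) (nat_lit 0) (nat_lit 853923082)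 (nat_lit 152) (nat_lit 756002419) (nat_lit 128) (nat_lit 3) (nat_lit 128) (nat_lit 1) (nat_lit 130) (nat_lit 1) (nat_lit 395) (nat_lit 376) (nat_lit 249)) (XT.nd (nat_lit 78) (nat_lit 152) (nat_lit 0) (XT.lf (nat_lit 76) (nat_lit 713725679) (nat_lit 0) (nat_lit 806983453) (nat_lit 76) (nat_lit 806983453) (nat_lit 128) (nat_lit 3) (nat_lit 127) (nat_lit 1) (nat_lit 128) (nat_lit 1) (nat_lit 396) (nat_lit 376) (nat_lit 248)) (XT.lf (nat_lit 152) (nat_lit 2233327874) (nat_lit 0) (nat_lit 28650621) (nat_lit 76) (nat_lit 28650621) (nat_lit 127) (nat_lit 1) (nat_lit 125) (nat_lit 1) (nat_lit 126) (nat_lit 1) (nat_lit 397) (nat_lit 376) (nat_lit 247)))) (XT.nd (nat_lit 78) (nat_lit 228) (nat_lit 0) (XT.lf (nat_lit 0) (nat_lit 724165649) (nat_lit 0) (nat_lit 804725221) (nat_lit 152) (nat_lit 724165649) (nat_lit 125) (nat_lit 3) (nat_lit 125) (nat_lit 1) (nat_lit 127) (nat_lit 1) (nat_lit 398) (nat_lit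 376) (nat_lit 246)) (XT.nd (nat_lit 78) (nat_lit 152) (nat_lit 0) (XT.lf (nat_lit 76) (nat_lit 687736074) (nat_lit 0) (nat_lit 764459475) (nat_lit 76) (nat_lit 764459475) (nat_lit 125) (nat_lit 3) (nat_lit 124) (nat_lit 1) (nat_lit 125) (nat_lit 1) (nat_lit 399) (nat_lit 376) (nat_lit 245)) (XT.lf (nat_lit 152) (nat_lit 2134232744) (nat_lit 0) (nat_lit 23570937) (nat_lit 76) (nat_lit 23570937) (nat_lit 124) (nat_lit 1) (nat_lit 122) (nat_lit 1) (nat_lit 123) (nat_lit 1) (nat_lit 400) (nat_lit 376) (nat_lit 244))))) (XT.nd (nat_lit 234) (nat_lit 228) (nat_lit 0) (XT.nd (nat_lit 78) (nat_lit 228) (nat_lit 0) (XT.lf (nat_lit 0) (nat_lit 693106765) (nat_lit 0) (nat_lit 759383324) (nat_lit 152) (nat_lit 693106765) (nat_lit 122) (nat_lit 3) (nat_lit 122) (nat_lit 1) (nat_lit 124) (nat_lit 1) (nat_lit 401) (nat_lit 376) (nat_lit 243)) (XT.nd (nat_lit 78) (nat_lit 152) (nat_lit 0) (XT.lf (nat_lit 76) (nat_lit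 661566162) (nat_lit 0) (nat_lit 724686694) (nat_lit 76) (nat_lit 724686694) (nat_lit 122) (nat_lit 3) (nat_lit 121) (nat_lit 1) (nat_lit 122) (nat_lit 1) (nat_lit 402) (nat_lit 376) (nat_lit 242)) (XT.lf (nat_lit 152) (nat_lit 2038570345) (nat_lit 0) (nat_lit 19391868) (nat_lit 76) (nat_lit 19391868) (nat_lit 121) (nat_lit 1) (nat_lit 119) (nat_lit 1) (nat_lit 120) (nat_lit 1) (nat_lit 403) (nat_lit 376) (nat_lit 241)))) (XT.nd (nat_lit 156) (nat_lit 152) (nat_lit 0) (XT.nd (nat_lit 78) (nat_lit 76) (nat_lit 0) (XT.lf (nat_lit 0) (nat_lit 662919597) (nat_lit 0) (nat_lit 717445486) (nat_lit 152) (nat_lit 662919597) (nat_lit 119) (nat_lit 3) (nat_lit 119) (nat_lit 1) (nat_lit 121) (nat_lit 1) (nat_lit 404) (nat_lit 376) (nat_lit 240)) (XT.lf (nat_lit 76) (nat_lit 635475920) (nat_lit 0) (nat_lit 687405338) (nat_lit 76) (nat_lit 687405338) (nat_lit 119) (nat_lit 3) (nat_lit 118) (nat_lit 1) (nat_lit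 119) (nat_lit 1) (nat_lit 405) (nat_lit 376) (nat_lit 239))) (XT.nd (nat_lit 78) (nat_lit 0) (nat_lit 0) (XT.lf (nat_lit 152) (nat_lit 1946405235) (nat_lit 0) (nat_lit 15953738) (nat_lit 76) (nat_lit 15953738) (nat_lit 118) (nat_lit 1) (nat_lit 116) (nat_lit 1) (nat_lit 117) (nat_lit 1) (nat_lit 406) (nat_lit 376) (nat_lit 238)) (XT.lf (nat_lit 0) (nat_lit 633670303) (nat_lit 0) (nat_lit 678528887) (nat_lit 152) (nat_lit 633670303) (nat_lit 116) (nat_lit 3) (nat_lit 116) (nat_lit 1) (nat_lit 118) (nat_lit 1) (nat_lit 407) (nat_lit 376) (nat_lit 237))))))) (XT.nd (nat_lit 936) (nat_lit 988) (nat_lit 0) (XT.nd (nat_lit 468) (nat_lit 456) (nat_lit 0) (XT.nd (nat_lit 234) (nat_lit 228) (nat_lit 0) (XT.nd (nat_lit 78) (nat_lit 152) (nat_lit 0) (XT.lf (nat_lit 76) (nat_lit 609668375) (nat_lit 0) (nat_lit 652390836) (nat_lit 76) (nat_lit 652390836) (nat_lit 116) (nat_lit 3) (nat_lit 115) (nat_lit 1) (nat_lit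 116) (nat_lit 1) (nat_lit 408) (nat_lit 376) (nat_lit 236)) (XT.nd (nat_lit 78) (nat_lit 0) (nat_lit 0) (XT.lf (nat_lit 152) (nat_lit 1857758467) (nat_lit 0) (nat_lit 13125179) (nat_lit 76) (nat_lit 13125179) (nat_lit 115) (nat_lit 1) (nat_lit 113) (nat_lit 1) (nat_lit 114) (nat_lit 1) (nat_lit 409) (nat_lit 376) (nat_lit 235)) (XT.lf (nat_lit 0) (nat_lit 605402803) (nat_lit 0) (nat_lit 642308071) (nat_lit 152) (nat_lit 605402803) (nat_lit 113) (nat_lit 3) (nat_lit 113) (nat_lit 1) (nat_lit 115) (nat_lit 1) (nat_lit 410) (nat_lit 376) (nat_lit 234)))) (XT.nd (nat_lit 78) (nat_lit 152) (nat_lit 0) (XT.lf (nat_lit 76) (nat_lit 584300218) (nat_lit 0) (nat_lit 619448092) (nat_lit 76) (nat_lit 619448092) (nat_lit 113) (nat_lit 3) (nat_lit 112) (nat_lit 1) (nat_lit 113) (nat_lit 1) (nat_lit 411) (nat_lit 376) (nat_lit 233)) (XT.nd (nat_lit 78) (nat_lit 0) (nat_lit 0) (XT.lf (nat_lit 152) (nat_lit 1772616835)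 (nat_lit 0) (nat_lit 10798118) (nat_lit 76) (nat_lit 10798118) (nat_lit 112) (nat_lit 1) (nat_lit 110) (nat_lit 1) (nat_lit 111) (nat_lit 1) (nat_lit 412) (nat_lit 376) (nat_lit 232)) (XT.lf (nat_lit 0) (nat_lit 578143219) (nat_lit 0) (nat_lit 608505274) (nat_lit 152) (nat_lit 578143219) (nat_lit 110) (nat_lit 3) (nat_lit 110) (nat_lit 1) (nat_lit 112) (nat_lit 1) (nat_lit 413) (nat_lit 376) (nat_lit 231))))) (XT.nd (nat_lit 234) (nat_lit 228) (nat_lit 0) (XT.nd (nat_lit 78) (nat_lit 152) (nat_lit 0) (XT.lf (nat_lit 76) (nat_lit 559490508) (nat_lit 0) (nat_lit 588406751) (nat_lit 76) (nat_lit 588406751) (nat_lit 110) (nat_lit 3) (nat_lit 109) (nat_lit 1) (nat_lit 110) (nat_lit 1) (nat_lit 414) (nat_lit 376) (nat_lit 230)) (XT.nd (nat_lit 78) (nat_lit 0) (nat_lit 0) (XT.lf (nat_lit 152) (nat_lit 1690940396) (nat_lit 0) (nat_lit 8883638) (nat_lit 76) (nat_lit 8883638) (nat_lit 109) (nat_lit 1) (nat_lit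 107) (nat_lit 1) (nat_lit 108) (nat_lit 1) (nat_lit 415) (nat_lit 376) (nat_lit 229)) (XT.lf (nat_lit 0) (nat_lit 551903509) (nat_lit 0) (nat_lit 576882447) (nat_lit 152) (nat_lit 551903509) (nat_lit 107) (nat_lit 3) (nat_lit 107) (nat_lit 1) (nat_lit 109) (nat_lit 1) (nat_lit 416) (nat_lit 376) (nat_lit 228)))) (XT.nd (nat_lit 78) (nat_lit 152) (nat_lit 0) (XT.lf (nat_lit 76) (nat_lit 535327819) (nat_lit 0) (nat_lit 559117284) (nat_lit 76) (nat_lit 559117284) (nat_lit 107) (nat_lit 3) (nat_lit 106) (nat_lit 1) (nat_lit 107) (nat_lit 1) (nat_lit 417) (nat_lit 376) (nat_lit 227)) (XT.nd (nat_lit 78) (nat_lit 0) (nat_lit 0) (XT.lf (nat_lit 152) (nat_lit 1612668600) (nat_lit 0) (nat_lit 7308591) (nat_lit 76) (nat_lit 7308591) (nat_lit 106) (nat_lit 1) (nat_lit 104) (nat_lit 1) (nat_lit 105) (nat_lit 1) (nat_lit 418) (nat_lit 376) (nat_lit 226)) (XT.lf (nat_lit 0) (nat_lit 526684433) (nat_lit 0) (nat_lit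 547234667) (nat_lit 152) (nat_lit 526684433) (nat_lit 104) (nat_lit 3) (nat_lit 104) (nat_lit 1) (nat_lit 106) (nat_lit 1) (nat_lit 419) (nat_lit 376) (nat_lit 225)))))) (XT.nd (nat_lit 468) (nat_lit 532) (nat_lit 0) (XT.nd (nat_lit 234) (nat_lit 228) (nat_lit 0) (XT.nd (nat_lit 78) (nat_lit 152) (nat_lit 0) (XT.lf (nat_lit 76) (nat_lit 511876086) (nat_lit 0) (nat_lit 531447738) (nat_lit 76) (nat_lit 531447738) (nat_lit 104) (nat_lit 3) (nat_lit 103) (nat_lit 1) (nat_lit 104) (nat_lit 1) (nat_lit 420) (nat_lit 376) (nat_lit 224)) (XT.nd (nat_lit 78) (nat_lit 0) (nat_lit 0) (XT.lf (nat_lit 152) (nat_lit 1537725260) (nat_lit 0) (nat_lit 6012796) (nat_lit 76) (nat_lit 6012796) (nat_lit 103) (nat_lit 1) (nat_lit 101) (nat_lit 1) (nat_lit 102) (nat_lit 1) (nat_lit 421) (nat_lit 376) (nat_lit 223)) (XT.lf (nat_lit 0) (nat_lit 502477967) (nat_lit 0) (nat_lit 519384695) (nat_lit 152) (nat_lit 502477967)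 (nat_lit 101) (nat_lit 3) (nat_lit 101) (nat_lit 1) (nat_lit 103) (nat_lit 1) (nat_lit 422) (nat_lit 376) (nat_lit 222)))) (XT.nd (nat_lit 78) (nat_lit 152) (nat_lit 0) (XT.lf (nat_lit 76) (nat_lit 489179404) (nat_lit 0) (nat_lit 505281050) (nat_lit 76) (nat_lit 505281050) (nat_lit 101) (nat_lit 3) (nat_lit 100) (nat_lit 1) (nat_lit 101) (nat_lit 1) (nat_lit 423) (nat_lit 376) (nat_lit 221)) (XT.nd (nat_lit 78) (nat_lit 0) (nat_lit 0) (XT.lf (nat_lit 152) (nat_lit 1466022578) (nat_lit 0) (nat_lit 4946742) (nat_lit 76) (nat_lit 4946742) (nat_lit 100) (nat_lit 1) (nat_lit 98) (nat_lit 1) (nat_lit 99) (nat_lit 1) (nat_lit 424) (nat_lit 376) (nat_lit 220)) (XT.lf (nat_lit 0) (nat_lit 479269277) (nat_lit 0) (nat_lit 493178484) (nat_lit 152) (nat_lit 479269277) (nat_lit 98) (nat_lit 3) (nat_lit 98) (nat_lit 1) (nat_lit 100) (nat_lit 1) (nat_lit 425) (nat_lit 376) (nat_lit 219))))) (XT.nd (nat_lit 234)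 (nat_lit 304) (nat_lit 0) (XT.nd (nat_lit 78) (nat_lit 152) (nat_lit 0) (XT.lf (nat_lit 76) (nat_lit 467265945) (nat_lit 0) (nat_lit 480512809) (nat_lit 76) (nat_lit 480512809) (nat_lit 98) (nat_lit 3) (nat_lit 97) (nat_lit 1) (nat_lit 98) (nat_lit 1) (nat_lit 426) (nat_lit 376) (nat_lit 218)) (XT.nd (nat_lit 78) (nat_lit 0) (nat_lit 0) (XT.lf (nat_lit 152) (nat_lit 1397464404) (nat_lit 0) (nat_lit 4069697) (nat_lit 76) (nat_lit 4069697) (nat_lit 97) (nat_lit 1) (nat_lit 95) (nat_lit 1) (nat_lit 96) (nat_lit 1) (nat_lit 427) (nat_lit 376) (nat_lit 217)) (XT.lf (nat_lit 0) (nat_lit 457038316) (nat_lit 0) (nat_lit 468481455) (nat_lit 152) (nat_lit 457038316) (nat_lit 95) (nat_lit 3) (nat_lit 95) (nat_lit 1) (nat_lit 97) (nat_lit 1) (nat_lit 428) (nat_lit 376) (nat_lit 216)))) (XT.nd (nat_lit 156) (nat_lit 76) (nat_lit 0) (XT.nd (nat_lit 78) (nat_lit 152) (nat_lit 0) (XT.lf (nat_lit 76) (nat_lit 446151172)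 (nat_lit 0) (nat_lit 457049400) (nat_lit 76) (nat_lit 457049400) (nat_lit 95) (nat_lit 3) (nat_lit 94) (nat_lit 1) (nat_lit 95) (nat_lit 1) (nat_lit 429) (nat_lit 376) (nat_lit 215)) (XT.lf (nat_lit 152) (nat_lit 1331948853) (nat_lit 0) (nat_lit 3348149) (nat_lit 76) (nat_lit 3348149) (nat_lit 94) (nat_lit 1) (nat_lit 92) (nat_lit 1) (nat_lit 93) (nat_lit 1) (nat_lit 430) (nat_lit 376) (nat_lit 214))) (XT.nd (nat_lit 78) (nat_lit 76) (nat_lit 0) (XT.lf (nat_lit 0) (nat_lit 435761120) (nat_lit 0) (nat_lit 445175419) (nat_lit 152) (nat_lit 435761120) (nat_lit 92) (nat_lit 3) (nat_lit 92) (nat_lit 1) (nat_lit 94) (nat_lit 1) (nat_lit 431) (nat_lit 376) (nat_lit 213)) (XT.lf (nat_lit 76) (nat_lit 425840457) (nat_lit 0) (nat_lit 434806456) (nat_lit 76) (nat_lit 434806456) (nat_lit 92) (nat_lit 3) (nat_lit 91) (nat_lit 1) (nat_lit 92) (nat_lit 1) (nat_lit 432) (nat_lit 376) (nat_lit 212))))))))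
noncomputable def ec162 : XT := (XT.nd (nat_lit 40794) (nat_lit 0) (nat_lit 12008) (XT.nd (nat_lit 936) (nat_lit 380) (nat_lit 0) (XT.nd (nat_lit 468) (nat_lit 456) (nat_lit 0) (XT.nd (nat_lit 234) (nat_lit 228) (nat_lit 0) (XT.nd (nat_lit 78) (nat_lit 76) (nat_lit 0) (XT.lf (nat_lit 152) (nat_lit 1269370408) (nat_lit 0) (nat_lit 2754531) (nat_lit 76) (nat_lit 2754531) (nat_lit 91) (nat_lit 1) (nat_lit 89) (nat_lit 1) (nat_lit 90) (nat_lit 1) (nat_lit 433) (nat_lit 376) (nat_lit 211)) (XT.nd (nat_lit 78) (nat_lit 76) (nat_lit 0) (XT.lf (nat_lit 0) (nat_lit 415410864) (nat_lit 0) (nat_lit 423156031) (nat_lit 152) (nat_lit 415410864) (nat_lit 89) (nat_lit 3) (nat_lit 89) (nat_lit 1) (nat_lit 91) (nat_lit 1) (nat_lit 434) (nat_lit 376) (nat_lit 210)) (XT.lf (nat_lit 76) (nat_lit 406331221) (nat_lit 0) (nat_lit 413707570) (nat_lit 76) (nat_lit 413707570) (nat_lit 89) (nat_lit 3) (nat_lit 88) (nat_lit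 1) (nat_lit 89) (nat_lit 1) (nat_lit 435) (nat_lit 376) (nat_lit 209)))) (XT.nd (nat_lit 78) (nat_lit 76) (nat_lit 0) (XT.lf (nat_lit 152) (nat_lit 1209621595) (nat_lit 0) (nat_lit 2266159) (nat_lit 76) (nat_lit 2266159) (nat_lit 88) (nat_lit 1) (nat_lit 86) (nat_lit 1) (nat_lit 87) (nat_lit 1) (nat_lit 436) (nat_lit 376) (nat_lit 208)) (XT.nd (nat_lit 78) (nat_lit 76) (nat_lit 0) (XT.lf (nat_lit 0) (nat_lit 395958699) (nat_lit 0) (nat_lit 402330667) (nat_lit 152) (nat_lit 395958699) (nat_lit 86) (nat_lit 3) (nat_lit 86) (nat_lit 1) (nat_lit 88) (nat_lit 1) (nat_lit 437) (nat_lit 376) (nat_lit 207)) (XT.lf (nat_lit 76) (nat_lit 387614675) (nat_lit 0) (nat_lit 393683216) (nat_lit 76) (nat_lit 393683216) (nat_lit 86) (nat_lit 3) (nat_lit 85) (nat_lit 1) (nat_lit 86) (nat_lit 1) (nat_lit 438) (nat_lit 376) (nat_lit 206))))) (XT.nd (nat_lit 234) (nat_lit 228) (nat_lit 0) (XT.nd (nat_lit 78) (nat_lit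 76) (nat_lit 0) (XT.lf (nat_lit 152) (nat_lit 1152594317) (nat_lit 0) (nat_lit 1864375) (nat_lit 76) (nat_lit 1864375) (nat_lit 85) (nat_lit 1) (nat_lit 83) (nat_lit 1) (nat_lit 84) (nat_lit 1) (nat_lit 439) (nat_lit 376) (nat_lit 205)) (XT.nd (nat_lit 78) (nat_lit 76) (nat_lit 0) (XT.lf (nat_lit 0) (nat_lit 377374443) (nat_lit 0) (nat_lit 382616677) (nat_lit 152) (nat_lit 377374443) (nat_lit 83) (nat_lit 3) (nat_lit 83) (nat_lit 1) (nat_lit 85) (nat_lit 1) (nat_lit 440) (nat_lit 376) (nat_lit 204)) (XT.lf (nat_lit 76) (nat_lit 369677242) (nat_lit 0) (nat_lit 374669845) (nat_lit 76) (nat_lit 374669845) (nat_lit 83) (nat_lit 3) (nat_lit 82) (nat_lit 1) (nat_lit 83) (nat_lit 1) (nat_lit 441) (nat_lit 376) (nat_lit 203)))) (XT.nd (nat_lit 78) (nat_lit 76) (nat_lit 0) (XT.lf (nat_lit 152) (nat_lit 1098180899) (nat_lit 0) (nat_lit 1533826) (nat_lit 76) (nat_lit 1533826) (nat_lit 82) (nat_lit 1) (nat_lit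 80) (nat_lit 1) (nat_lit 81) (nat_lit 1) (nat_lit 442) (nat_lit 376) (nat_lit 202)) (XT.nd (nat_lit 78) (nat_lit 76) (nat_lit 0) (XT.lf (nat_lit 0) (nat_lit 359627119) (nat_lit 0) (nat_lit 363939918) (nat_lit 152) (nat_lit 359627119) (nat_lit 80) (nat_lit 3) (nat_lit 80) (nat_lit 1) (nat_lit 82) (nat_lit 1) (nat_lit 443) (nat_lit 376) (nat_lit 201)) (XT.lf (nat_lit 76) (nat_lit 352501705) (nat_lit 0) (nat_lit 356609132) (nat_lit 76) (nat_lit 356609132) (nat_lit 80) (nat_lit 3) (nat_lit 79) (nat_lit 1) (nat_lit 80) (nat_lit 1) (nat_lit 444) (nat_lit 376) (nat_lit 200)))))) (XT.nd (nat_lit 39312) (nat_lit 0) (nat_lit 16644) (XT.nd (nat_lit 234) (nat_lit 152) (nat_lit 0) (XT.nd (nat_lit 78) (nat_lit 76) (nat_lit 0) (XT.lf (nat_lit 152) (nat_lit 1046274907) (nat_lit 0) (nat_lit 1261882) (nat_lit 76) (nat_lit 1261882) (nat_lit 79) (nat_lit 1) (nat_lit 77) (nat_lit 1) (nat_lit 78) (nat_lit 1) (nat_lit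 445) (nat_lit 376) (nat_lit 199)) (XT.nd (nat_lit 78) (nat_lit 76) (nat_lit 0) (XT.lf (nat_lit 0) (nat_lit 342685387) (nat_lit 0) (nat_lit 346233538) (nat_lit 152) (nat_lit 342685387) (nat_lit 77) (nat_lit 3) (nat_lit 77) (nat_lit 1) (nat_lit 79) (nat_lit 1) (nat_lit 446) (nat_lit 376) (nat_lit 198)) (XT.lf (nat_lit 76) (nat_lit 336068142) (nat_lit 0) (nat_lit 339447333) (nat_lit 76) (nat_lit 339447333) (nat_lit 77) (nat_lit 3) (nat_lit 76) (nat_lit 1) (nat_lit 77) (nat_lit 1) (nat_lit 447) (nat_lit 376) (nat_lit 197)))) (XT.nd (nat_lit 38922) (nat_lit 0) (nat_lit 16568) (XT.lf (nat_lit 152) (nat_lit 996771778) (nat_lit 0) (nat_lit 1038153) (nat_lit 76) (nat_lit 1038153) (nat_lit 76) (nat_lit 1) (nat_lit 74) (nat_lit 1) (nat_lit 75) (nat_lit 1) (nat_lit 448) (nat_lit 376) (nat_lit 196)) (XT.nd (nat_lit 78) (nat_lit 0) (nat_lit 0) (XT.lf (nat_lit 836) (nat_lit 3267787028) (nat_lit 0) (nat_lit 5801948358)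 (nat_lit 836) (nat_lit 3267787028) (nat_lit 303) (nat_lit 1) (nat_lit 292) (nat_lit 0) (nat_lit 303) (nat_lit 0) (nat_lit 266) (nat_lit 377) (nat_lit 377)) (XT.lf (nat_lit 836) (nat_lit 12666350491) (nat_lit 76) (nat_lit 5708368546) (nat_lit 0) (nat_lit 5708368546) (nat_lit 303) (nat_lit 1) (nat_lit 293) (nat_lit 1) (nat_lit 292) (nat_lit 0) (nat_lit 267) (nat_lit 377) (nat_lit 376))))) (XT.nd (nat_lit 234) (nat_lit 0) (nat_lit 76) (XT.nd (nat_lit 78) (nat_lit 0) (nat_lit 0) (XT.lf (nat_lit 836) (nat_lit 6036591926) (nat_lit 0) (nat_lit 11436247059) (nat_lit 760) (nat_lit 6036591926) (nat_lit 304) (nat_lit 1) (nat_lit 293) (nat_lit 1) (nat_lit 303) (nat_lit 1) (nat_lit 268) (nat_lit 377) (nat_lit 375)) (XT.nd (nat_lit 78) (nat_lit 0) (nat_lit 76) (XT.lf (nat_lit 836) (nat_lit 11323807649) (nat_lit 76) (nat_lit 5815249989) (nat_lit 0) (nat_lit 5815249989) (nat_lit 304) (nat_lit 1) (nat_lit 294)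 (nat_lit 1) (nat_lit 293) (nat_lit 1) (nat_lit 269) (nat_lit 377) (nat_lit 374)) (XT.lf (nat_lit 836) (nat_lit 5212239917) (nat_lit 0) (nat_lit 11992299131) (nat_lit 760) (nat_lit 5212239917) (nat_lit 305) (nat_lit 1) (nat_lit 294) (nat_lit 1) (nat_lit 304) (nat_lit 1) (nat_lit 270) (nat_lit 377) (nat_lit 373)))) (XT.nd (nat_lit 156) (nat_lit 0) (nat_lit 76) (XT.nd (nat_lit 78) (nat_lit 0) (nat_lit 76) (XT.lf (nat_lit 836) (nat_lit 9374552975) (nat_lit 76) (nat_lit 6260541628) (nat_lit 0) (nat_lit 6260541628) (nat_lit 305) (nat_lit 1) (nat_lit 295) (nat_lit 1) (nat_lit 294) (nat_lit 1) (nat_lit 271) (nat_lit 377) (nat_lit 372)) (XT.lf (nat_lit 836) (nat_lit 4110470718) (nat_lit 0) (nat_lit 13171050229) (nat_lit 760) (nat_lit 4110470718) (nat_lit 306) (nat_lit 1) (nat_lit 295) (nat_lit 1) (nat_lit 305) (nat_lit 1) (nat_lit 272) (nat_lit 377) (nat_lit 371))) (XT.nd (nat_lit 78) (nat_lit 0) (nat_lit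 76) (XT.lf (nat_lit 836) (nat_lit 6909827485) (nat_lit 76) (nat_lit 6996193337) (nat_lit 0) (nat_lit 6996193337) (nat_lit 306) (nat_lit 1) (nat_lit 296) (nat_lit 1) (nat_lit 295) (nat_lit 1) (nat_lit 273) (nat_lit 377) (nat_lit 370)) (XT.lf (nat_lit 836) (nat_lit 2773935836) (nat_lit 0) (nat_lit 14882493632) (nat_lit 760) (nat_lit 2773935836) (nat_lit 307) (nat_lit 1) (nat_lit 296) (nat_lit 1) (nat_lit 306) (nat_lit 1) (nat_lit 274) (nat_lit 377) (nat_lit 369))))))) (XT.nd (nat_lit 936) (nat_lit 2204) (nat_lit 0) (XT.nd (nat_lit 468) (nat_lit 1064) (nat_lit 0) (XT.nd (nat_lit 234) (nat_lit 912) (nat_lit 0) (XT.nd (nat_lit 78) (nat_lit 684) (nat_lit 0) (XT.lf (nat_lit 836) (nat_lit 4010730678) (nat_lit 76) (nat_lit 7979412138) (nat_lit 0) (nat_lit 7979412138) (nat_lit 307) (nat_lit 1) (nat_lit 297) (nat_lit 1) (nat_lit 296) (nat_lit 1) (nat_lit 275) (nat_lit 377) (nat_lit 368)) (XT.nd (nat_lit 78)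 (nat_lit 760) (nat_lit 0) (XT.lf (nat_lit 76) (nat_lit 1240518595) (nat_lit 0) (nat_lit 17046519828) (nat_lit 760) (nat_lit 1240518595) (nat_lit 298) (nat_lit 1) (nat_lit 297) (nat_lit 1) (nat_lit 307) (nat_lit 1) (nat_lit 276) (nat_lit 377) (nat_lit 367)) (XT.lf (nat_lit 836) (nat_lit 749242382) (nat_lit 0) (nat_lit 9172135828) (nat_lit 760) (nat_lit 9172135828) (nat_lit 298) (nat_lit 1) (nat_lit 287) (nat_lit 1) (nat_lit 297) (nat_lit 1) (nat_lit 277) (nat_lit 377) (nat_lit 366)))) (XT.nd (nat_lit 78) (nat_lit 380) (nat_lit 0) (XT.lf (nat_lit 532) (nat_lit 17780465313) (nat_lit 0) (nat_lit 448826522) (nat_lit 456) (nat_lit 448826522) (nat_lit 287) (nat_lit 1) (nat_lit 280) (nat_lit 1) (nat_lit 286) (nat_lit 1) (nat_lit 278) (nat_lit 377) (nat_lit 365)) (XT.nd (nat_lit 78) (nat_lit 380) (nat_lit 0) (XT.lf (nat_lit 76) (nat_lit 7773588489) (nat_lit 0) (nat_lit 2720889263) (nat_lit 532) (nat_lit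 7773588489) (nat_lit 281) (nat_lit 1) (nat_lit 280) (nat_lit 1) (nat_lit 287) (nat_lit 1) (nat_lit 279) (nat_lit 377) (nat_lit 364)) (XT.lf (nat_lit 456) (nat_lit 13376350396) (nat_lit 0) (nat_lit 2249550122) (nat_lit 380) (nat_lit 2249550122) (nat_lit 281) (nat_lit 1) (nat_lit 275) (nat_lit 1) (nat_lit 280) (nat_lit 1) (nat_lit 280) (nat_lit 377) (nat_lit 363))))) (XT.nd (nat_lit 234) (nat_lit 684) (nat_lit 0) (XT.nd (nat_lit 78) (nat_lit 380) (nat_lit 0) (XT.lf (nat_lit 76) (nat_lit 5544806037) (nat_lit 0) (nat_lit 6401476828) (nat_lit 456) (nat_lit 5544806037) (nat_lit 276) (nat_lit 1) (nat_lit 275) (nat_lit 1) (nat_lit 281) (nat_lit 1) (nat_lit 281) (nat_lit 377) (nat_lit 362)) (XT.nd (nat_lit 78) (nat_lit 0) (nat_lit 0) (XT.lf (nat_lit 456) (nat_lit 8808516429) (nat_lit 0) (nat_lit 4155798514) (nat_lit 380) (nat_lit 4155798514) (nat_lit 276) (nat_lit 1) (nat_lit 270) (nat_lit 1) (nat_lit 275)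 (nat_lit 1) (nat_lit 282) (nat_lit 377) (nat_lit 361)) (XT.lf (nat_lit 76) (nat_lit 3245821238) (nat_lit 0) (nat_lit 10268284751) (nat_lit 456) (nat_lit 3245821238) (nat_lit 271) (nat_lit 1) (nat_lit 270) (nat_lit 1) (nat_lit 276) (nat_lit 1) (nat_lit 283) (nat_lit 377) (nat_lit 360)))) (XT.nd (nat_lit 78) (nat_lit 380) (nat_lit 0) (XT.lf (nat_lit 380) (nat_lit 4119478360) (nat_lit 0) (nat_lit 6144763908) (nat_lit 304) (nat_lit 6144763908) (nat_lit 271) (nat_lit 1) (nat_lit 266) (nat_lit 1) (nat_lit 270) (nat_lit 1) (nat_lit 284) (nat_lit 377) (nat_lit 359)) (XT.nd (nat_lit 78) (nat_lit 380) (nat_lit 0) (XT.lf (nat_lit 76) (nat_lit 896371003) (nat_lit 0) (nat_lit 14278837815) (nat_lit 380) (nat_lit 896371003) (nat_lit 267) (nat_lit 1) (nat_lit 266) (nat_lit 1) (nat_lit 271) (nat_lit 1) (nat_lit 285) (nat_lit 377) (nat_lit 358)) (XT.lf (nat_lit 76) (nat_lit 7553079648) (nat_lit 0) (nat_lit 632585092)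 (nat_lit 380) (nat_lit 7553079648) (nat_lit 262) (nat_lit 1) (nat_lit 261) (nat_lit 1) (nat_lit 266) (nat_lit 1) (nat_lit 286) (nat_lit 377) (nat_lit 357)))))) (XT.nd (nat_lit 468) (nat_lit 988) (nat_lit 0) (XT.nd (nat_lit 234) (nat_lit 608) (nat_lit 0) (XT.nd (nat_lit 78) (nat_lit 304) (nat_lit 0) (XT.lf (nat_lit 380) (nat_lit 12493984872) (nat_lit 0) (nat_lit 1462299637) (nat_lit 304) (nat_lit 1462299637) (nat_lit 262) (nat_lit 1) (nat_lit 257) (nat_lit 1) (nat_lit 261) (nat_lit 1) (nat_lit 287) (nat_lit 377) (nat_lit 356)) (XT.nd (nat_lit 78) (nat_lit 304) (nat_lit 0) (XT.lf (nat_lit 76) (nat_lit 4900690140) (nat_lit 0) (nat_lit 5302536042) (nat_lit 380) (nat_lit 4900690140) (nat_lit 258) (nat_lit 1) (nat_lit 257) (nat_lit 1) (nat_lit 262) (nat_lit 1) (nat_lit 288) (nat_lit 377) (nat_lit 355)) (XT.lf (nat_lit 380) (nat_lit 7151470181) (nat_lit 0) (nat_lit 3824344946) (nat_lit 304) (nat_lit 3824344946)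 (nat_lit 258) (nat_lit 1) (nat_lit 253) (nat_lit 1) (nat_lit 257) (nat_lit 1) (nat_lit 289) (nat_lit 377) (nat_lit 354)))) (XT.nd (nat_lit 78) (nat_lit 608) (nat_lit 0) (XT.lf (nat_lit 76) (nat_lit 2255254530) (nat_lit 0) (nat_lit 9994776623) (nat_lit 380) (nat_lit 2255254530) (nat_lit 254) (nat_lit 1) (nat_lit 253) (nat_lit 1) (nat_lit 258) (nat_lit 1) (nat_lit 290) (nat_lit 377) (nat_lit 353)) (XT.nd (nat_lit 78) (nat_lit 380) (nat_lit 0) (XT.lf (nat_lit 304) (nat_lit 1834101918) (nat_lit 0) (nat_lit 6191337266) (nat_lit 228) (nat_lit 6191337266) (nat_lit 254) (nat_lit 1) (nat_lit 250) (nat_lit 1) (nat_lit 253) (nat_lit 1) (nat_lit 291) (nat_lit 377) (nat_lit 352)) (XT.lf (nat_lit 380) (nat_lit 13206491498) (nat_lit 0) (nat_lit 366454798) (nat_lit 304) (nat_lit 366454798) (nat_lit 250) (nat_lit 1) (nat_lit 245) (nat_lit 1) (nat_lit 249) (nat_lit 1) (nat_lit 292) (nat_lit 377) (nat_lit 351)))))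 (XT.nd (nat_lit 234) (nat_lit 760) (nat_lit 0) (XT.nd (nat_lit 78) (nat_lit 228) (nat_lit 0) (XT.lf (nat_lit 76) (nat_lit 5167797757) (nat_lit 0) (nat_lit 3327965464) (nat_lit 380) (nat_lit 5167797757) (nat_lit 246) (nat_lit 1) (nat_lit 245) (nat_lit 1) (nat_lit 250) (nat_lit 1) (nat_lit 293) (nat_lit 377) (nat_lit 350)) (XT.nd (nat_lit 78) (nat_lit 0) (nat_lit 0) (XT.lf (nat_lit 304) (nat_lit 7547732000) (nat_lit 0) (nat_lit 2925284032) (nat_lit 228) (nat_lit 2925284032) (nat_lit 246) (nat_lit 1) (nat_lit 242) (nat_lit 1) (nat_lit 245) (nat_lit 1) (nat_lit 294) (nat_lit 377) (nat_lit 349)) (XT.lf (nat_lit 76) (nat_lit 2384445290) (nat_lit 0) (nat_lit 8370887980) (nat_lit 304) (nat_lit 2384445290) (nat_lit 243) (nat_lit 1) (nat_lit 242) (nat_lit 1) (nat_lit 246) (nat_lit 1) (nat_lit 295) (nat_lit 377) (nat_lit 348)))) (XT.nd (nat_lit 156) (nat_lit 228) (nat_lit 0) (XT.nd (nat_lit 78) (nat_lit 304)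 (nat_lit 0) (XT.lf (nat_lit 304) (nat_lit 1987360621) (nat_lit 0) (nat_lit 5449888865) (nat_lit 228) (nat_lit 5449888865) (nat_lit 243) (nat_lit 1) (nat_lit 239) (nat_lit 1) (nat_lit 242) (nat_lit 1) (nat_lit 296) (nat_lit 377) (nat_lit 347)) (XT.lf (nat_lit 304) (nat_lit 11960787142) (nat_lit 0) (nat_lit 341548451) (nat_lit 228) (nat_lit 341548451) (nat_lit 239) (nat_lit 1) (nat_lit 235) (nat_lit 1) (nat_lit 238) (nat_lit 1) (nat_lit 297) (nat_lit 377) (nat_lit 346))) (XT.nd (nat_lit 78) (nat_lit 228) (nat_lit 0) (XT.lf (nat_lit 76) (nat_lit 4524423240) (nat_lit 0) (nat_lit 3352552191) (nat_lit 304) (nat_lit 4524423240) (nat_lit 236) (nat_lit 1) (nat_lit 235) (nat_lit 1) (nat_lit 239) (nat_lit 1) (nat_lit 298) (nat_lit 377) (nat_lit 345)) (XT.lf (nat_lit 304) (nat_lit 6221496238) (nat_lit 0) (nat_lit 2973194528) (nat_lit 228) (nat_lit 2973194528) (nat_lit 236) (nat_lit 1) (nat_lit 232) (nat_lit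 1) (nat_lit 235) (nat_lit 1) (nat_lit 299) (nat_lit 377) (nat_lit 344))))))))
noncomputable def ec163 : XT := (XT.nd (nat_lit 1950) (nat_lit 1976) (nat_lit 0) (XT.nd (nat_lit 936) (nat_lit 1368) (nat_lit 0) (XT.nd (nat_lit 468) (nat_lit 760) (nat_lit 0) (XT.nd (nat_lit 234) (nat_lit 152) (nat_lit 0) (XT.nd (nat_lit 78) (nat_lit 456) (nat_lit 0) (XT.lf (nat_lit 76) (nat_lit 1713394990) (nat_lit 0) (nat_lit 8513844874) (nat_lit 304) (nat_lit 1713394990) (nat_lit 233) (nat_lit 1) (nat_lit 232) (nat_lit 1) (nat_lit 236) (nat_lit 1) (nat_lit 300) (nat_lit 377) (nat_lit 343)) (XT.nd (nat_lit 78) (nat_lit 304) (nat_lit 0) (XT.lf (nat_lit 228) (nat_lit 627844893) (nat_lit 0) (nat_lit 5544910958) (nat_lit 152) (nat_lit 5544910958) (nat_lit 233) (nat_lit 1) (nat_lit 230) (nat_lit 1) (nat_lit 232) (nat_lit 1) (nat_lit 301) (nat_lit 377) (nat_lit 342)) (XT.lf (nat_lit 304) (nat_lit 9486525816) (nat_lit 0)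 (nat_lit 1007537803) (nat_lit 228) (nat_lit 1007537803) (nat_lit 230) (nat_lit 1) (nat_lit 226) (nat_lit 1) (nat_lit 229) (nat_lit 1) (nat_lit 302) (nat_lit 377) (nat_lit 341)))) (XT.nd (nat_lit 78) (nat_lit 152) (nat_lit 0) (XT.lf (nat_lit 76) (nat_lit 3313418284) (nat_lit 0) (nat_lit 4661115948) (nat_lit 304) (nat_lit 3313418284) (nat_lit 227) (nat_lit 1) (nat_lit 226) (nat_lit 1) (nat_lit 230) (nat_lit 1) (nat_lit 303) (nat_lit 377) (nat_lit 340)) (XT.nd (nat_lit 78) (nat_lit 0) (nat_lit 0) (XT.lf (nat_lit 228) (nat_lit 3828143711) (nat_lit 0) (nat_lit 3626376846) (nat_lit 152) (nat_lit 3626376846) (nat_lit 227) (nat_lit 1) (nat_lit 224) (nat_lit 1) (nat_lit 226) (nat_lit 1) (nat_lit 304) (nat_lit 377) (nat_lit 339)) (XT.lf (nat_lit 76) (nat_lit 549982743) (nat_lit 0) (nat_lit 9780748167) (nat_lit 228) (nat_lit 549982743) (nat_lit 225) (nat_lit 1) (nat_lit 224) (nat_lit 1) (nat_lit 227) (nat_lit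 1) (nat_lit 305) (nat_lit 377) (nat_lit 338))))) (XT.nd (nat_lit 234) (nat_lit 380) (nat_lit 0) (XT.nd (nat_lit 78) (nat_lit 152) (nat_lit 0) (XT.lf (nat_lit 76) (nat_lit 4539104076) (nat_lit 0) (nat_lit 1603049436) (nat_lit 228) (nat_lit 4539104076) (nat_lit 222) (nat_lit 1) (nat_lit 221) (nat_lit 1) (nat_lit 224) (nat_lit 1) (nat_lit 306) (nat_lit 377) (nat_lit 337)) (XT.nd (nat_lit 78) (nat_lit 0) (nat_lit 0) (XT.lf (nat_lit 228) (nat_lit 6303341556) (nat_lit 0) (nat_lit 2092538613) (nat_lit 152) (nat_lit 2092538613) (nat_lit 222) (nat_lit 1) (nat_lit 219) (nat_lit 1) (nat_lit 221) (nat_lit 1) (nat_lit 307) (nat_lit 377) (nat_lit 336)) (XT.lf (nat_lit 76) (nat_lit 1778638998) (nat_lit 0) (nat_lit 6742564141) (nat_lit 228) (nat_lit 1778638998) (nat_lit 220) (nat_lit 1) (nat_lit 219) (nat_lit 1) (nat_lit 222) (nat_lit 1) (nat_lit 308) (nat_lit 377) (nat_lit 335)))) (XT.nd (nat_lit 78) (nat_lit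 228) (nat_lit 0) (XT.lf (nat_lit 228) (nat_lit 833228333) (nat_lit 0) (nat_lit 4640919189) (nat_lit 152) (nat_lit 4640919189) (nat_lit 220) (nat_lit 1) (nat_lit 217) (nat_lit 1) (nat_lit 219) (nat_lit 1) (nat_lit 309) (nat_lit 377) (nat_lit 334)) (XT.nd (nat_lit 78) (nat_lit 0) (nat_lit 0) (XT.lf (nat_lit 228) (nat_lit 8189506365) (nat_lit 0) (nat_lit 873069465) (nat_lit 152) (nat_lit 873069465) (nat_lit 217) (nat_lit 1) (nat_lit 214) (nat_lit 1) (nat_lit 216) (nat_lit 1) (nat_lit 310) (nat_lit 377) (nat_lit 333)) (XT.lf (nat_lit 76) (nat_lit 2726306737) (nat_lit 0) (nat_lit 4305141747) (nat_lit 228) (nat_lit 2726306737) (nat_lit 215) (nat_lit 1) (nat_lit 214) (nat_lit 1) (nat_lit 217) (nat_lit 1) (nat_lit 311) (nat_lit 377) (nat_lit 332)))))) (XT.nd (nat_lit 468) (nat_lit 760) (nat_lit 0) (XT.nd (nat_lit 234) (nat_lit 304) (nat_lit 0) (XT.nd (nat_lit 78) (nat_lit 152) (nat_lit 0) (XT.lf (nat_lit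 228) (nat_lit 2776611048) (nat_lit 0) (nat_lit 3404209248) (nat_lit 152) (nat_lit 3404209248) (nat_lit 215) (nat_lit 1) (nat_lit 212) (nat_lit 1) (nat_lit 214) (nat_lit 1) (nat_lit 312) (nat_lit 377) (nat_lit 331)) (XT.nd (nat_lit 78) (nat_lit 152) (nat_lit 0) (XT.lf (nat_lit 76) (nat_lit 91259547) (nat_lit 0) (nat_lit 9235842270) (nat_lit 228) (nat_lit 91259547) (nat_lit 213) (nat_lit 1) (nat_lit 212) (nat_lit 1) (nat_lit 215) (nat_lit 1) (nat_lit 313) (nat_lit 377) (nat_lit 330)) (XT.lf (nat_lit 76) (nat_lit 3445811712) (nat_lit 0) (nat_lit 2359010333) (nat_lit 152) (nat_lit 3445811712) (nat_lit 211) (nat_lit 1) (nat_lit 210) (nat_lit 1) (nat_lit 212) (nat_lit 1) (nat_lit 314) (nat_lit 377) (nat_lit 329)))) (XT.nd (nat_lit 78) (nat_lit 152) (nat_lit 0) (XT.lf (nat_lit 228) (nat_lit 4275860054) (nat_lit 0) (nat_lit 2406473798) (nat_lit 152) (nat_lit 2406473798) (nat_lit 211) (nat_lit 1) (nat_lit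 208) (nat_lit 1) (nat_lit 210) (nat_lit 1) (nat_lit 315) (nat_lit 377) (nat_lit 328)) (XT.nd (nat_lit 78) (nat_lit 152) (nat_lit 0) (XT.lf (nat_lit 76) (nat_lit 857280389) (nat_lit 0) (nat_lit 7216788861) (nat_lit 228) (nat_lit 857280389) (nat_lit 209) (nat_lit 1) (nat_lit 208) (nat_lit 1) (nat_lit 211) (nat_lit 1) (nat_lit 316) (nat_lit 377) (nat_lit 327)) (XT.lf (nat_lit 76) (nat_lit 3980470596) (nat_lit 0) (nat_lit 814248937) (nat_lit 152) (nat_lit 3980470596) (nat_lit 207) (nat_lit 1) (nat_lit 206) (nat_lit 1) (nat_lit 208) (nat_lit 1) (nat_lit 317) (nat_lit 377) (nat_lit 326))))) (XT.nd (nat_lit 234) (nat_lit 532) (nat_lit 0) (XT.nd (nat_lit 78) (nat_lit 76) (nat_lit 0) (XT.lf (nat_lit 228) (nat_lit 5414460908) (nat_lit 0) (nat_lit 1604404734) (nat_lit 152) (nat_lit 1604404734) (nat_lit 207) (nat_lit 1) (nat_lit 204) (nat_lit 1) (nat_lit 206) (nat_lit 1) (nat_lit 318) (nat_lit 377) (nat_lit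 325)) (XT.nd (nat_lit 78) (nat_lit 76) (nat_lit 0) (XT.lf (nat_lit 76) (nat_lit 1450239968) (nat_lit 0) (nat_lit 5573878217) (nat_lit 228) (nat_lit 1450239968) (nat_lit 205) (nat_lit 1) (nat_lit 204) (nat_lit 1) (nat_lit 207) (nat_lit 1) (nat_lit 319) (nat_lit 377) (nat_lit 324)) (XT.lf (nat_lit 152) (nat_lit 416311082) (nat_lit 0) (nat_lit 3955972446) (nat_lit 76) (nat_lit 3955972446) (nat_lit 205) (nat_lit 1) (nat_lit 203) (nat_lit 1) (nat_lit 204) (nat_lit 1) (nat_lit 320) (nat_lit 377) (nat_lit 323)))) (XT.nd (nat_lit 156) (nat_lit 304) (nat_lit 0) (XT.nd (nat_lit 78) (nat_lit 0) (nat_lit 0) (XT.lf (nat_lit 228) (nat_lit 6260871589) (nat_lit 0) (nat_lit 962417065) (nat_lit 152) (nat_lit 962417065) (nat_lit 203) (nat_lit 1) (nat_lit 200) (nat_lit 1) (nat_lit 202) (nat_lit 1) (nat_lit 321) (nat_lit 377) (nat_lit 322)) (XT.lf (nat_lit 76) (nat_lit 1902595316) (nat_lit 0) (nat_lit 4239555937) (nat_lit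 228) (nat_lit 1902595316) (nat_lit 201) (nat_lit 1) (nat_lit 200) (nat_lit 1) (nat_lit 203) (nat_lit 1) (nat_lit 322) (nat_lit 377) (nat_lit 321))) (XT.nd (nat_lit 78) (nat_lit 228) (nat_lit 0) (XT.lf (nat_lit 152) (nat_lit 1398066928) (nat_lit 0) (nat_lit 3254588322) (nat_lit 76) (nat_lit 3254588322) (nat_lit 201) (nat_lit 1) (nat_lit 199) (nat_lit 1) (nat_lit 200) (nat_lit 1) (nat_lit 323) (nat_lit 377) (nat_lit 320)) (XT.lf (nat_lit 228) (nat_lit 6871197598) (nat_lit 0) (nat_lit 451277491) (nat_lit 152) (nat_lit 451277491) (nat_lit 199) (nat_lit 1) (nat_lit 196) (nat_lit 1) (nat_lit 198) (nat_lit 1) (nat_lit 324) (nat_lit 377) (nat_lit 319))))))) (XT.nd (nat_lit 1014) (nat_lit 988) (nat_lit 0) (XT.nd (nat_lit 468) (nat_lit 608) (nat_lit 0) (XT.nd (nat_lit 234) (nat_lit 76) (nat_lit 0) (XT.nd (nat_lit 78) (nat_lit 304) (nat_lit 0) (XT.lf (nat_lit 76) (nat_lit 2240964451) (nat_lit 0) (nat_lit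 3158286051) (nat_lit 228) (nat_lit 2240964451) (nat_lit 197) (nat_lit 1) (nat_lit 196) (nat_lit 1) (nat_lit 199) (nat_lit 1) (nat_lit 325) (nat_lit 377) (nat_lit 318)) (XT.nd (nat_lit 78) (nat_lit 228) (nat_lit 0) (XT.lf (nat_lit 152) (nat_lit 2155494808) (nat_lit 0) (nat_lit 2677557867) (nat_lit 76) (nat_lit 2677557867) (nat_lit 197) (nat_lit 1) (nat_lit 195) (nat_lit 1) (nat_lit 196) (nat_lit 1) (nat_lit 326) (nat_lit 377) (nat_lit 317)) (XT.lf (nat_lit 228) (nat_lit 7291392266) (nat_lit 0) (nat_lit 46976242) (nat_lit 152) (nat_lit 46976242) (nat_lit 195) (nat_lit 1) (nat_lit 192) (nat_lit 1) (nat_lit 194) (nat_lit 1) (nat_lit 327) (nat_lit 377) (nat_lit 316)))) (XT.nd (nat_lit 78) (nat_lit 76) (nat_lit 0) (XT.lf (nat_lit 76) (nat_lit 2487165644) (nat_lit 0) (nat_lit 2284418217) (nat_lit 228) (nat_lit 2487165644) (nat_lit 193) (nat_lit 1) (nat_lit 192) (nat_lit 1) (nat_lit 195) (nat_lit 1) (nat_lit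 328) (nat_lit 377) (nat_lit 315)) (XT.nd (nat_lit 78) (nat_lit 0) (nat_lit 0) (XT.lf (nat_lit 152) (nat_lit 2730761091) (nat_lit 0) (nat_lit 2202833483) (nat_lit 76) (nat_lit 2202833483) (nat_lit 193) (nat_lit 1) (nat_lit 191) (nat_lit 1) (nat_lit 192) (nat_lit 1) (nat_lit 329) (nat_lit 377) (nat_lit 314)) (XT.lf (nat_lit 0) (nat_lit 274630497) (nat_lit 0) (nat_lit 6468538705) (nat_lit 152) (nat_lit 274630497) (nat_lit 191) (nat_lit 3) (nat_lit 191) (nat_lit 1) (nat_lit 193) (nat_lit 1) (nat_lit 330) (nat_lit 377) (nat_lit 313))))) (XT.nd (nat_lit 234) (nat_lit 380) (nat_lit 0) (XT.nd (nat_lit 78) (nat_lit 76) (nat_lit 0) (XT.lf (nat_lit 76) (nat_lit 2659072229) (nat_lit 0) (nat_lit 1580433155) (nat_lit 152) (nat_lit 2659072229) (nat_lit 190) (nat_lit 1) (nat_lit 189) (nat_lit 1) (nat_lit 191) (nat_lit 1) (nat_lit 331) (nat_lit 377) (nat_lit 312)) (XT.nd (nat_lit 78) (nat_lit 0) (nat_lit 0) (XT.lf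 (nat_lit 152) (nat_lit 3158442172) (nat_lit 0) (nat_lit 1812276558) (nat_lit 76) (nat_lit 1812276558) (nat_lit 190) (nat_lit 1) (nat_lit 188) (nat_lit 1) (nat_lit 189) (nat_lit 1) (nat_lit 332) (nat_lit 377) (nat_lit 311)) (XT.lf (nat_lit 0) (nat_lit 524902555) (nat_lit 0) (nat_lit 5620646166) (nat_lit 152) (nat_lit 524902555) (nat_lit 188) (nat_lit 3) (nat_lit 188) (nat_lit 1) (nat_lit 190) (nat_lit 1) (nat_lit 333) (nat_lit 377) (nat_lit 310)))) (XT.nd (nat_lit 156) (nat_lit 152) (nat_lit 0) (XT.nd (nat_lit 78) (nat_lit 76) (nat_lit 0) (XT.lf (nat_lit 76) (nat_lit 2771315684) (nat_lit 0) (nat_lit 1015499253) (nat_lit 152) (nat_lit 2771315684) (nat_lit 187) (nat_lit 1) (nat_lit 186) (nat_lit 1) (nat_lit 188) (nat_lit 1) (nat_lit 334) (nat_lit 377) (nat_lit 309)) (XT.lf (nat_lit 152) (nat_lit 3466875586) (nat_lit 0) (nat_lit 1490964409) (nat_lit 76) (nat_lit 1490964409) (nat_lit 187) (nat_lit 1)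 (nat_lit 185) (nat_lit 1) (nat_lit 186) (nat_lit 1) (nat_lit 335) (nat_lit 377) (nat_lit 308))) (XT.nd (nat_lit 78) (nat_lit 152) (nat_lit 0) (XT.lf (nat_lit 0) (nat_lit 716565646) (nat_lit 0) (nat_lit 4908846526) (nat_lit 152) (nat_lit 716565646) (nat_lit 185) (nat_lit 3) (nat_lit 185) (nat_lit 1) (nat_lit 187) (nat_lit 1) (nat_lit 336) (nat_lit 377) (nat_lit 307)) (XT.lf (nat_lit 76) (nat_lit 2835863871) (nat_lit 0) (nat_lit 564285163) (nat_lit 152) (nat_lit 2835863871) (nat_lit 184) (nat_lit 1) (nat_lit 183) (nat_lit 1) (nat_lit 185) (nat_lit 1) (nat_lit 337) (nat_lit 377) (nat_lit 306)))))) (XT.nd (nat_lit 468) (nat_lit 608) (nat_lit 0) (XT.nd (nat_lit 234) (nat_lit 152) (nat_lit 0) (XT.nd (nat_lit 78) (nat_lit 152) (nat_lit 0) (XT.lf (nat_lit 152) (nat_lit 3679271310) (nat_lit 0) (nat_lit 1226620109) (nat_lit 76) (nat_lit 1226620109) (nat_lit 184) (nat_lit 1) (nat_lit 182) (nat_lit 1) (nat_lit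 183) (nat_lit 1) (nat_lit 338) (nat_lit 377) (nat_lit 305)) (XT.nd (nat_lit 78) (nat_lit 152) (nat_lit 0) (XT.lf (nat_lit 0) (nat_lit 860688915) (nat_lit 0) (nat_lit 4309688770) (nat_lit 152) (nat_lit 860688915) (nat_lit 182) (nat_lit 3) (nat_lit 182) (nat_lit 1) (nat_lit 184) (nat_lit 1) (nat_lit 339) (nat_lit 377) (nat_lit 304)) (XT.lf (nat_lit 76) (nat_lit 2862496606) (nat_lit 0) (nat_lit 205983004) (nat_lit 152) (nat_lit 2862496606) (nat_lit 181) (nat_lit 1) (nat_lit 180) (nat_lit 1) (nat_lit 182) (nat_lit 1) (nat_lit 340) (nat_lit 377) (nat_lit 303)))) (XT.nd (nat_lit 78) (nat_lit 76) (nat_lit 0) (XT.lf (nat_lit 152) (nat_lit 3814625789) (nat_lit 0) (nat_lit 1009143399) (nat_lit 76) (nat_lit 1009143399) (nat_lit 181) (nat_lit 1) (nat_lit 179) (nat_lit 1) (nat_lit 180) (nat_lit 1) (nat_lit 341) (nat_lit 377) (nat_lit 302)) (XT.nd (nat_lit 78) (nat_lit 76) (nat_lit 0) (XT.lf (nat_lit 0) (nat_lit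 966346696) (nat_lit 0) (nat_lit 3803847412) (nat_lit 152) (nat_lit 966346696) (nat_lit 179) (nat_lit 3) (nat_lit 179) (nat_lit 1) (nat_lit 181) (nat_lit 1) (nat_lit 342) (nat_lit 377) (nat_lit 301)) (XT.lf (nat_lit 76) (nat_lit 79024448) (nat_lit 0) (nat_lit 2781406083) (nat_lit 76) (nat_lit 2781406083) (nat_lit 179) (nat_lit 3) (nat_lit 178) (nat_lit 1) (nat_lit 179) (nat_lit 1) (nat_lit 343) (nat_lit 377) (nat_lit 300))))) (XT.nd (nat_lit 234) (nat_lit 380) (nat_lit 0) (XT.nd (nat_lit 78) (nat_lit 76) (nat_lit 0) (XT.lf (nat_lit 152) (nat_lit 3888473674) (nat_lit 0) (nat_lit 830224772) (nat_lit 76) (nat_lit 830224772) (nat_lit 178) (nat_lit 1) (nat_lit 176) (nat_lit 1) (nat_lit 177) (nat_lit 1) (nat_lit 344) (nat_lit 377) (nat_lit 299)) (XT.nd (nat_lit 78) (nat_lit 76) (nat_lit 0) (XT.lf (nat_lit 0) (nat_lit 1040973719) (nat_lit 0) (nat_lit 3375392581) (nat_lit 152) (nat_lit 1040973719) (nat_lit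 176) (nat_lit 3) (nat_lit 176) (nat_lit 1) (nat_lit 178) (nat_lit 1) (nat_lit 345) (nat_lit 377) (nat_lit 298)) (XT.lf (nat_lit 76) (nat_lit 307004447) (nat_lit 0) (nat_lit 2530260505) (nat_lit 76) (nat_lit 2530260505) (nat_lit 176) (nat_lit 3) (nat_lit 175) (nat_lit 1) (nat_lit 176) (nat_lit 1) (nat_lit 346) (nat_lit 377) (nat_lit 297)))) (XT.nd (nat_lit 156) (nat_lit 228) (nat_lit 0) (XT.nd (nat_lit 78) (nat_lit 0) (nat_lit 0) (XT.lf (nat_lit 152) (nat_lit 3913506054) (nat_lit 0) (nat_lit 683027974) (nat_lit 76) (nat_lit 683027974) (nat_lit 175) (nat_lit 1) (nat_lit 173) (nat_lit 1) (nat_lit 174) (nat_lit 1) (nat_lit 347) (nat_lit 377) (nat_lit 296)) (XT.lf (nat_lit 0) (nat_lit 1090657274) (nat_lit 0) (nat_lit 3011189449) (nat_lit 152) (nat_lit 1090657274) (nat_lit 173) (nat_lit 3) (nat_lit 173) (nat_lit 1) (nat_lit 175) (nat_lit 1) (nat_lit 348) (nat_lit 377) (nat_lit 295))) (XT.nd (nat_lit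 78) (nat_lit 152) (nat_lit 0) (XT.lf (nat_lit 76) (nat_lit 483040782) (nat_lit 0) (nat_lit 2312119044) (nat_lit 76) (nat_lit 2312119044) (nat_lit 173) (nat_lit 3) (nat_lit 172) (nat_lit 1) (nat_lit 173) (nat_lit 1) (nat_lit 349) (nat_lit 377) (nat_lit 294)) (XT.lf (nat_lit 152) (nat_lit 3900078868) (nat_lit 0) (nat_lit 561928805) (nat_lit 76) (nat_lit 561928805) (nat_lit 172) (nat_lit 1) (nat_lit 170) (nat_lit 1) (nat_lit 171) (nat_lit 1) (nat_lit 350) (nat_lit 377) (nat_lit 293))))))))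
noncomputable def ec164 : XT := (XT.nd (nat_lit 1950) (nat_lit 1900) (nat_lit 0) (XT.nd (nat_lit 936) (nat_lit 912) (nat_lit 0) (XT.nd (nat_lit 468) (nat_lit 456) (nat_lit 0) (XT.nd (nat_lit 234) (nat_lit 228) (nat_lit 0) (XT.nd (nat_lit 78) (nat_lit 228) (nat_lit 0) (XT.lf (nat_lit 0) (nat_lit 1120377505) (nat_lit 0) (nat_lit 2700404078) (nat_lit 152) (nat_lit 1120377505) (nat_lit 170) (nat_lit 3) (nat_lit 170) (nat_lit 1) (nat_lit 172) (nat_lit 1) (nat_lit 351) (nat_lit 377) (nat_lit 292)) (XT.nd (nat_lit 78) (nat_lit 152) (nat_lit 0) (XT.lf (nat_lit 76) (nat_lit 616891670) (nat_lit 0) (nat_lit 2121678883) (nat_lit 76) (nat_lit 2121678883) (nat_lit 170) (nat_lit 3) (nat_lit 169) (nat_lit 1) (nat_lit 170) (nat_lit 1) (nat_lit 352) (nat_lit 377) (nat_lit 291)) (XT.lf (nat_lit 152) (nat_lit 3856630967) (nat_lit 0) (nat_lit 462300218) (nat_lit 76) (nat_lit 462300218) (nat_lit 169) (nat_lit 1) (nat_lit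 167) (nat_lit 1) (nat_lit 168) (nat_lit 1) (nat_lit 353) (nat_lit 377) (nat_lit 290)))) (XT.nd (nat_lit 78) (nat_lit 228) (nat_lit 0) (XT.lf (nat_lit 0) (nat_lit 1134205028) (nat_lit 0) (nat_lit 2434096800) (nat_lit 152) (nat_lit 1134205028) (nat_lit 167) (nat_lit 3) (nat_lit 167) (nat_lit 1) (nat_lit 169) (nat_lit 1) (nat_lit 354) (nat_lit 377) (nat_lit 289)) (XT.nd (nat_lit 78) (nat_lit 152) (nat_lit 0) (XT.lf (nat_lit 76) (nat_lit 716559088) (nat_lit 0) (nat_lit 1954551251) (nat_lit 76) (nat_lit 1954551251) (nat_lit 167) (nat_lit 3) (nat_lit 166) (nat_lit 1) (nat_lit 167) (nat_lit 1) (nat_lit 355) (nat_lit 377) (nat_lit 288)) (XT.lf (nat_lit 152) (nat_lit 3790027870) (nat_lit 0) (nat_lit 380335534) (nat_lit 76) (nat_lit 380335534) (nat_lit 166) (nat_lit 1) (nat_lit 164) (nat_lit 1) (nat_lit 165) (nat_lit 1) (nat_lit 356) (nat_lit 377) (nat_lit 287))))) (XT.nd (nat_lit 234) (nat_lit 228) (nat_lit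 0) (XT.nd (nat_lit 78) (nat_lit 228) (nat_lit 0) (XT.lf (nat_lit 0) (nat_lit 1135463457) (nat_lit 0) (nat_lit 2204887635) (nat_lit 152) (nat_lit 1135463457) (nat_lit 164) (nat_lit 3) (nat_lit 164) (nat_lit 1) (nat_lit 166) (nat_lit 1) (nat_lit 357) (nat_lit 377) (nat_lit 286)) (XT.nd (nat_lit 78) (nat_lit 152) (nat_lit 0) (XT.lf (nat_lit 76) (nat_lit 788601396) (nat_lit 0) (nat_lit 1807100613) (nat_lit 76) (nat_lit 1807100613) (nat_lit 164) (nat_lit 3) (nat_lit 163) (nat_lit 1) (nat_lit 164) (nat_lit 1) (nat_lit 358) (nat_lit 377) (nat_lit 285)) (XT.lf (nat_lit 152) (nat_lit 3705844384) (nat_lit 0) (nat_lit 312902985) (nat_lit 76) (nat_lit 312902985) (nat_lit 163) (nat_lit 1) (nat_lit 161) (nat_lit 1) (nat_lit 162) (nat_lit 1) (nat_lit 359) (nat_lit 377) (nat_lit 284)))) (XT.nd (nat_lit 78) (nat_lit 228) (nat_lit 0) (XT.lf (nat_lit 0) (nat_lit 1126863047) (nat_lit 0) (nat_lit 2006680965) (nat_lit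 152) (nat_lit 1126863047) (nat_lit 161) (nat_lit 3) (nat_lit 161) (nat_lit 1) (nat_lit 163) (nat_lit 1) (nat_lit 360) (nat_lit 377) (nat_lit 283)) (XT.nd (nat_lit 78) (nat_lit 152) (nat_lit 0) (XT.lf (nat_lit 76) (nat_lit 838390473) (nat_lit 0) (nat_lit 1676312299) (nat_lit 76) (nat_lit 1676312299) (nat_lit 161) (nat_lit 3) (nat_lit 160) (nat_lit 1) (nat_lit 161) (nat_lit 1) (nat_lit 361) (nat_lit 377) (nat_lit 282)) (XT.lf (nat_lit 152) (nat_lit 3608596941) (nat_lit 0) (nat_lit 257426060) (nat_lit 76) (nat_lit 257426060) (nat_lit 160) (nat_lit 1) (nat_lit 158) (nat_lit 1) (nat_lit 159) (nat_lit 1) (nat_lit 362) (nat_lit 377) (nat_lit 281)))))) (XT.nd (nat_lit 468) (nat_lit 456) (nat_lit 0) (XT.nd (nat_lit 234) (nat_lit 228) (nat_lit 0) (XT.nd (nat_lit 78) (nat_lit 228) (nat_lit 0) (XT.lf (nat_lit 0) (nat_lit 1110610590) (nat_lit 0) (nat_lit 1834438968) (nat_lit 152) (nat_lit 1110610590) (nat_lit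 158) (nat_lit 3) (nat_lit 158) (nat_lit 1) (nat_lit 160) (nat_lit 1) (nat_lit 363) (nat_lit 377) (nat_lit 280)) (XT.nd (nat_lit 78) (nat_lit 152) (nat_lit 0) (XT.lf (nat_lit 76) (nat_lit 870323206) (nat_lit 0) (nat_lit 1559683566) (nat_lit 76) (nat_lit 1559683566) (nat_lit 158) (nat_lit 3) (nat_lit 157) (nat_lit 1) (nat_lit 158) (nat_lit 1) (nat_lit 364) (nat_lit 377) (nat_lit 279)) (XT.lf (nat_lit 152) (nat_lit 3501934582) (nat_lit 0) (nat_lit 211785056) (nat_lit 76) (nat_lit 211785056) (nat_lit 157) (nat_lit 1) (nat_lit 155) (nat_lit 1) (nat_lit 156) (nat_lit 1) (nat_lit 365) (nat_lit 377) (nat_lit 278)))) (XT.nd (nat_lit 78) (nat_lit 228) (nat_lit 0) (XT.lf (nat_lit 0) (nat_lit 1088499769) (nat_lit 0) (nat_lit 1683995167) (nat_lit 152) (nat_lit 1088499769) (nat_lit 155) (nat_lit 3) (nat_lit 155) (nat_lit 1) (nat_lit 157) (nat_lit 1) (nat_lit 366) (nat_lit 377) (nat_lit 277)) (XT.nd (nat_lit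 78) (nat_lit 152) (nat_lit 0) (XT.lf (nat_lit 76) (nat_lit 887995426) (nat_lit 0) (nat_lit 1455133900) (nat_lit 76) (nat_lit 1455133900) (nat_lit 155) (nat_lit 3) (nat_lit 154) (nat_lit 1) (nat_lit 155) (nat_lit 1) (nat_lit 367) (nat_lit 377) (nat_lit 276)) (XT.lf (nat_lit 152) (nat_lit 3388795912) (nat_lit 0) (nat_lit 174236090) (nat_lit 76) (nat_lit 174236090) (nat_lit 154) (nat_lit 1) (nat_lit 152) (nat_lit 1) (nat_lit 153) (nat_lit 1) (nat_lit 368) (nat_lit 377) (nat_lit 275))))) (XT.nd (nat_lit 234) (nat_lit 228) (nat_lit 0) (XT.nd (nat_lit 78) (nat_lit 228) (nat_lit 0) (XT.lf (nat_lit 0) (nat_lit 1061985442) (nat_lit 0) (nat_lit 1551900980) (nat_lit 152) (nat_lit 1061985442) (nat_lit 152) (nat_lit 3) (nat_lit 152) (nat_lit 1) (nat_lit 154) (nat_lit 1) (nat_lit 369) (nat_lit 377) (nat_lit 274)) (XT.nd (nat_lit 78) (nat_lit 152) (nat_lit 0) (XT.lf (nat_lit 76) (nat_lit 894344959) (nat_lit 0)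 (nat_lit 1360931185) (nat_lit 76) (nat_lit 1360931185) (nat_lit 152) (nat_lit 3) (nat_lit 151) (nat_lit 1) (nat_lit 152) (nat_lit 1) (nat_lit 370) (nat_lit 377) (nat_lit 273)) (XT.lf (nat_lit 152) (nat_lit 3271538084) (nat_lit 0) (nat_lit 143344462) (nat_lit 76) (nat_lit 143344462) (nat_lit 151) (nat_lit 1) (nat_lit 149) (nat_lit 1) (nat_lit 150) (nat_lit 1) (nat_lit 371) (nat_lit 377) (nat_lit 272)))) (XT.nd (nat_lit 156) (nat_lit 152) (nat_lit 0) (XT.nd (nat_lit 78) (nat_lit 76) (nat_lit 0) (XT.lf (nat_lit 0) (nat_lit 1032244707) (nat_lit 0) (nat_lit 1435299432) (nat_lit 152) (nat_lit 1032244707) (nat_lit 149) (nat_lit 3) (nat_lit 149) (nat_lit 1) (nat_lit 151) (nat_lit 1) (nat_lit 372) (nat_lit 377) (nat_lit 271)) (XT.lf (nat_lit 76) (nat_lit 891769262) (nat_lit 0) (nat_lit 1275630905) (nat_lit 76) (nat_lit 1275630905) (nat_lit 149) (nat_lit 3) (nat_lit 148) (nat_lit 1) (nat_lit 149) (nat_lit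 1) (nat_lit 373) (nat_lit 377) (nat_lit 270))) (XT.nd (nat_lit 78) (nat_lit 0) (nat_lit 0) (XT.lf (nat_lit 152) (nat_lit 3152042763) (nat_lit 0) (nat_lit 117929844) (nat_lit 76) (nat_lit 117929844) (nat_lit 148) (nat_lit 1) (nat_lit 146) (nat_lit 1) (nat_lit 147) (nat_lit 1) (nat_lit 374) (nat_lit 377) (nat_lit 269)) (XT.lf (nat_lit 0) (nat_lit 1000227090) (nat_lit 0) (nat_lit 1331821210) (nat_lit 152) (nat_lit 1000227090) (nat_lit 146) (nat_lit 3) (nat_lit 146) (nat_lit 1) (nat_lit 148) (nat_lit 1) (nat_lit 375) (nat_lit 377) (nat_lit 268))))))) (XT.nd (nat_lit 936) (nat_lit 988) (nat_lit 0) (XT.nd (nat_lit 468) (nat_lit 456) (nat_lit 0) (XT.nd (nat_lit 234) (nat_lit 228) (nat_lit 0) (XT.nd (nat_lit 78) (nat_lit 152) (nat_lit 0) (XT.lf (nat_lit 76) (nat_lit 882222161) (nat_lit 0) (nat_lit 1198026085) (nat_lit 76) (nat_lit 1198026085) (nat_lit 146) (nat_lit 3) (nat_lit 145) (nat_lit 1) (nat_lit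 146) (nat_lit 1) (nat_lit 376) (nat_lit 377) (nat_lit 267)) (XT.nd (nat_lit 78) (nat_lit 0) (nat_lit 0) (XT.lf (nat_lit 152) (nat_lit 3031803178) (nat_lit 0) (nat_lit 97021174) (nat_lit 76) (nat_lit 97021174) (nat_lit 145) (nat_lit 1) (nat_lit 143) (nat_lit 1) (nat_lit 144) (nat_lit 1) (nat_lit 377) (nat_lit 377) (nat_lit 266)) (XT.lf (nat_lit 0) (nat_lit 966695793) (nat_lit 0) (nat_lit 1239499096) (nat_lit 152) (nat_lit 966695793) (nat_lit 143) (nat_lit 3) (nat_lit 143) (nat_lit 1) (nat_lit 145) (nat_lit 1) (nat_lit 378) (nat_lit 377) (nat_lit 265)))) (XT.nd (nat_lit 78) (nat_lit 152) (nat_lit 0) (XT.lf (nat_lit 76) (nat_lit 867293386) (nat_lit 0) (nat_lit 1127106056) (nat_lit 76) (nat_lit 1127106056) (nat_lit 143) (nat_lit 3) (nat_lit 142) (nat_lit 1) (nat_lit 143) (nat_lit 1) (nat_lit 379) (nat_lit 377) (nat_lit 264)) (XT.nd (nat_lit 78) (nat_lit 0) (nat_lit 0) (XT.lf (nat_lit 152) (nat_lit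 2911995593) (nat_lit 0) (nat_lit 79819560) (nat_lit 76) (nat_lit 79819560) (nat_lit 142) (nat_lit 1) (nat_lit 140) (nat_lit 1) (nat_lit 141) (nat_lit 1) (nat_lit 380) (nat_lit 377) (nat_lit 263)) (XT.lf (nat_lit 0) (nat_lit 932261583) (nat_lit 0) (nat_lit 1156697536) (nat_lit 152) (nat_lit 932261583) (nat_lit 140) (nat_lit 3) (nat_lit 140) (nat_lit 1) (nat_lit 142) (nat_lit 1) (nat_lit 381) (nat_lit 377) (nat_lit 262))))) (XT.nd (nat_lit 234) (nat_lit 228) (nat_lit 0) (XT.nd (nat_lit 78) (nat_lit 152) (nat_lit 0) (XT.lf (nat_lit 76) (nat_lit 848273969) (nat_lit 0) (nat_lit 1062022495) (nat_lit 76) (nat_lit 1062022495) (nat_lit 140) (nat_lit 3) (nat_lit 139) (nat_lit 1) (nat_lit 140) (nat_lit 1) (nat_lit 382) (nat_lit 377) (nat_lit 261)) (XT.nd (nat_lit 78) (nat_lit 0) (nat_lit 0) (XT.lf (nat_lit 152) (nat_lit 2793537995) (nat_lit 0) (nat_lit 65667750) (nat_lit 76) (nat_lit 65667750) (nat_lit 139)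 (nat_lit 1) (nat_lit 137) (nat_lit 1) (nat_lit 138) (nat_lit 1) (nat_lit 383) (nat_lit 377) (nat_lit 260)) (XT.lf (nat_lit 0) (nat_lit 897410638) (nat_lit 0) (nat_lit 1082054651) (nat_lit 152) (nat_lit 897410638) (nat_lit 137) (nat_lit 3) (nat_lit 137) (nat_lit 1) (nat_lit 139) (nat_lit 1) (nat_lit 384) (nat_lit 377) (nat_lit 259)))) (XT.nd (nat_lit 78) (nat_lit 152) (nat_lit 0) (XT.lf (nat_lit 76) (nat_lit 826210001) (nat_lit 0) (nat_lit 1002061443) (nat_lit 76) (nat_lit 1002061443) (nat_lit 137) (nat_lit 3) (nat_lit 136) (nat_lit 1) (nat_lit 137) (nat_lit 1) (nat_lit 385) (nat_lit 377) (nat_lit 258)) (XT.nd (nat_lit 78) (nat_lit 0) (nat_lit 0) (XT.lf (nat_lit 152) (nat_lit 2677138255) (nat_lit 0) (nat_lit 54025020) (nat_lit 76) (nat_lit 54025020) (nat_lit 136) (nat_lit 1) (nat_lit 134) (nat_lit 1) (nat_lit 135) (nat_lit 1) (nat_lit 386) (nat_lit 377) (nat_lit 257)) (XT.lf (nat_lit 0) (nat_lit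 862527406) (nat_lit 0) (nat_lit 1014434493) (nat_lit 152) (nat_lit 862527406) (nat_lit 134) (nat_lit 3) (nat_lit 134) (nat_lit 1) (nat_lit 136) (nat_lit 1) (nat_lit 387) (nat_lit 377) (nat_lit 256)))))) (XT.nd (nat_lit 468) (nat_lit 532) (nat_lit 0) (XT.nd (nat_lit 234) (nat_lit 228) (nat_lit 0) (XT.nd (nat_lit 78) (nat_lit 152) (nat_lit 0) (XT.lf (nat_lit 76) (nat_lit 801946829) (nat_lit 0) (nat_lit 946620246) (nat_lit 76) (nat_lit 946620246) (nat_lit 134) (nat_lit 3) (nat_lit 133) (nat_lit 1) (nat_lit 134) (nat_lit 1) (nat_lit 388) (nat_lit 377) (nat_lit 255)) (XT.nd (nat_lit 78) (nat_lit 0) (nat_lit 0) (XT.lf (nat_lit 152) (nat_lit 2563333632) (nat_lit 0) (nat_lit 44446518) (nat_lit 76) (nat_lit 44446518) (nat_lit 133) (nat_lit 1) (nat_lit 131) (nat_lit 1) (nat_lit 132) (nat_lit 1) (nat_lit 389) (nat_lit 377) (nat_lit 254)) (XT.lf (nat_lit 0) (nat_lit 827913387) (nat_lit 0) (nat_lit 952887723)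 (nat_lit 152) (nat_lit 827913387) (nat_lit 131) (nat_lit 3) (nat_lit 131) (nat_lit 1) (nat_lit 133) (nat_lit 1) (nat_lit 390) (nat_lit 377) (nat_lit 253)))) (XT.nd (nat_lit 78) (nat_lit 152) (nat_lit 0) (XT.lf (nat_lit 76) (nat_lit 776165372) (nat_lit 0) (nat_lit 895188549) (nat_lit 76) (nat_lit 895188549) (nat_lit 131) (nat_lit 3) (nat_lit 130) (nat_lit 1) (nat_lit 131) (nat_lit 1) (nat_lit 391) (nat_lit 377) (nat_lit 252)) (XT.nd (nat_lit 78) (nat_lit 0) (nat_lit 0) (XT.lf (nat_lit 152) (nat_lit 2452523175) (nat_lit 0) (nat_lit 36566260) (nat_lit 76) (nat_lit 36566260) (nat_lit 130) (nat_lit 1) (nat_lit 128) (nat_lit 1) (nat_lit 129) (nat_lit 1) (nat_lit 392) (nat_lit 377) (nat_lit 251)) (XT.lf (nat_lit 0) (nat_lit 793802540) (nat_lit 0) (nat_lit 896619236) (nat_lit 152) (nat_lit 793802540) (nat_lit 128) (nat_lit 3) (nat_lit 128) (nat_lit 1) (nat_lit 130) (nat_lit 1) (nat_lit 393) (nat_lit 377)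 (nat_lit 250))))) (XT.nd (nat_lit 234) (nat_lit 304) (nat_lit 0) (XT.nd (nat_lit 78) (nat_lit 152) (nat_lit 0) (XT.lf (nat_lit 76) (nat_lit 749411963) (nat_lit 0) (nat_lit 847332626) (nat_lit 76) (nat_lit 847332626) (nat_lit 128) (nat_lit 3) (nat_lit 127) (nat_lit 1) (nat_lit 128) (nat_lit 1) (nat_lit 394) (nat_lit 377) (nat_lit 249)) (XT.nd (nat_lit 78) (nat_lit 0) (nat_lit 0) (XT.lf (nat_lit 152) (nat_lit 2344994268) (nat_lit 0) (nat_lit 30083152) (nat_lit 76) (nat_lit 30083152) (nat_lit 127) (nat_lit 1) (nat_lit 125) (nat_lit 1) (nat_lit 126) (nat_lit 1) (nat_lit 395) (nat_lit 377) (nat_lit 248)) (XT.lf (nat_lit 0) (nat_lit 760373932) (nat_lit 0) (nat_lit 844961482) (nat_lit 152) (nat_lit 760373932) (nat_lit 125) (nat_lit 3) (nat_lit 125) (nat_lit 1) (nat_lit 127) (nat_lit 1) (nat_lit 396) (nat_lit 377) (nat_lit 247)))) (XT.nd (nat_lit 156) (nat_lit 76) (nat_lit 0) (XT.nd (nat_lit 78) (nat_lit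 152) (nat_lit 0) (XT.lf (nat_lit 76) (nat_lit 722122877) (nat_lit 0) (nat_lit 802682449) (nat_lit 76) (nat_lit 802682449) (nat_lit 125) (nat_lit 3) (nat_lit 124) (nat_lit 1) (nat_lit 125) (nat_lit 1) (nat_lit 397) (nat_lit 377) (nat_lit 246)) (XT.lf (nat_lit 152) (nat_lit 2240944381) (nat_lit 0) (nat_lit 24749484) (nat_lit 76) (nat_lit 24749484) (nat_lit 124) (nat_lit 1) (nat_lit 122) (nat_lit 1) (nat_lit 123) (nat_lit 1) (nat_lit 398) (nat_lit 377) (nat_lit 245))) (XT.nd (nat_lit 78) (nat_lit 76) (nat_lit 0) (XT.lf (nat_lit 0) (nat_lit 727762103) (nat_lit 0) (nat_lit 797352490) (nat_lit 152) (nat_lit 727762103) (nat_lit 122) (nat_lit 3) (nat_lit 122) (nat_lit 1) (nat_lit 124) (nat_lit 1) (nat_lit 399) (nat_lit 377) (nat_lit 244)) (XT.lf (nat_lit 76) (nat_lit 694644470) (nat_lit 0) (nat_lit 760921028) (nat_lit 76) (nat_lit 760921028) (nat_lit 122) (nat_lit 3) (nat_lit 121) (nat_lit 1) (nat_lit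 122) (nat_lit 1) (nat_lit 400) (nat_lit 377) (nat_lit 243))))))))
noncomputable def ec165 : XT := (XT.nd (nat_lit 1950) (nat_lit 1672) (nat_lit 0) (XT.nd (nat_lit 936) (nat_lit 1064) (nat_lit 0) (XT.nd (nat_lit 468) (nat_lit 456) (nat_lit 0) (XT.nd (nat_lit 234) (nat_lit 228) (nat_lit 0) (XT.nd (nat_lit 78) (nat_lit 76) (nat_lit 0) (XT.lf (nat_lit 152) (nat_lit 2140498862) (nat_lit 0) (nat_lit 20361462) (nat_lit 76) (nat_lit 20361462) (nat_lit 121) (nat_lit 1) (nat_lit 119) (nat_lit 1) (nat_lit 120) (nat_lit 1) (nat_lit 401) (nat_lit 377) (nat_lit 242)) (XT.nd (nat_lit 78) (nat_lit 76) (nat_lit 0) (XT.lf (nat_lit 0) (nat_lit 696065577) (nat_lit 0) (nat_lit 753317760) (nat_lit 152) (nat_lit 696065577) (nat_lit 119) (nat_lit 3) (nat_lit 119) (nat_lit 1) (nat_lit 121) (nat_lit 1) (nat_lit 402) (nat_lit 377) (nat_lit 241)) (XT.lf (nat_lit 76) (nat_lit 667249716) (nat_lit 0) (nat_lit 721775605) (nat_lit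 76) (nat_lit 721775605) (nat_lit 119) (nat_lit 3) (nat_lit 118) (nat_lit 1) (nat_lit 119) (nat_lit 1) (nat_lit 403) (nat_lit 377) (nat_lit 240)))) (XT.nd (nat_lit 78) (nat_lit 76) (nat_lit 0) (XT.lf (nat_lit 152) (nat_lit 2043725496) (nat_lit 0) (nat_lit 16751425) (nat_lit 76) (nat_lit 16751425) (nat_lit 118) (nat_lit 1) (nat_lit 116) (nat_lit 1) (nat_lit 117) (nat_lit 1) (nat_lit 404) (nat_lit 377) (nat_lit 239)) (XT.nd (nat_lit 78) (nat_lit 76) (nat_lit 0) (XT.lf (nat_lit 0) (nat_lit 665353818) (nat_lit 0) (nat_lit 712455331) (nat_lit 152) (nat_lit 665353818) (nat_lit 116) (nat_lit 3) (nat_lit 116) (nat_lit 1) (nat_lit 118) (nat_lit 1) (nat_lit 405) (nat_lit 377) (nat_lit 238)) (XT.lf (nat_lit 76) (nat_lit 640151794) (nat_lit 0) (nat_lit 685010378) (nat_lit 76) (nat_lit 685010378) (nat_lit 116) (nat_lit 3) (nat_lit 115) (nat_lit 1) (nat_lit 116) (nat_lit 1) (nat_lit 406) (nat_lit 377) (nat_lit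 237))))) (XT.nd (nat_lit 234) (nat_lit 228) (nat_lit 0) (XT.nd (nat_lit 78) (nat_lit 76) (nat_lit 0) (XT.lf (nat_lit 152) (nat_lit 1950646390) (nat_lit 0) (nat_lit 13781438) (nat_lit 76) (nat_lit 13781438) (nat_lit 115) (nat_lit 1) (nat_lit 113) (nat_lit 1) (nat_lit 114) (nat_lit 1) (nat_lit 407) (nat_lit 377) (nat_lit 236)) (XT.nd (nat_lit 78) (nat_lit 76) (nat_lit 0) (XT.lf (nat_lit 0) (nat_lit 635672943) (nat_lit 0) (nat_lit 674423475) (nat_lit 152) (nat_lit 635672943) (nat_lit 113) (nat_lit 3) (nat_lit 113) (nat_lit 1) (nat_lit 115) (nat_lit 1) (nat_lit 408) (nat_lit 377) (nat_lit 235)) (XT.lf (nat_lit 76) (nat_lit 613515229) (nat_lit 0) (nat_lit 650420497) (nat_lit 76) (nat_lit 650420497) (nat_lit 113) (nat_lit 3) (nat_lit 112) (nat_lit 1) (nat_lit 113) (nat_lit 1) (nat_lit 409) (nat_lit 377) (nat_lit 234)))) (XT.nd (nat_lit 78) (nat_lit 76) (nat_lit 0) (XT.lf (nat_lit 152) (nat_lit 1861247676)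 (nat_lit 0) (nat_lit 11338023) (nat_lit 76) (nat_lit 11338023) (nat_lit 112) (nat_lit 1) (nat_lit 110) (nat_lit 1) (nat_lit 111) (nat_lit 1) (nat_lit 410) (nat_lit 377) (nat_lit 233)) (XT.nd (nat_lit 78) (nat_lit 76) (nat_lit 0) (XT.lf (nat_lit 0) (nat_lit 607050380) (nat_lit 0) (nat_lit 638930538) (nat_lit 152) (nat_lit 607050380) (nat_lit 110) (nat_lit 3) (nat_lit 110) (nat_lit 1) (nat_lit 112) (nat_lit 1) (nat_lit 411) (nat_lit 377) (nat_lit 232)) (XT.lf (nat_lit 76) (nat_lit 587465034) (nat_lit 0) (nat_lit 617827089) (nat_lit 76) (nat_lit 617827089) (nat_lit 110) (nat_lit 3) (nat_lit 109) (nat_lit 1) (nat_lit 110) (nat_lit 1) (nat_lit 412) (nat_lit 377) (nat_lit 231)))))) (XT.nd (nat_lit 468) (nat_lit 608) (nat_lit 0) (XT.nd (nat_lit 234) (nat_lit 228) (nat_lit 0) (XT.nd (nat_lit 78) (nat_lit 76) (nat_lit 0) (XT.lf (nat_lit 152) (nat_lit 1775487416) (nat_lit 0) (nat_lit 9327820) (nat_lit 76)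 (nat_lit 9327820) (nat_lit 109) (nat_lit 1) (nat_lit 107) (nat_lit 1) (nat_lit 108) (nat_lit 1) (nat_lit 413) (nat_lit 377) (nat_lit 230)) (XT.nd (nat_lit 78) (nat_lit 76) (nat_lit 0) (XT.lf (nat_lit 0) (nat_lit 579498685) (nat_lit 0) (nat_lit 605726570) (nat_lit 152) (nat_lit 579498685) (nat_lit 107) (nat_lit 3) (nat_lit 107) (nat_lit 1) (nat_lit 109) (nat_lit 1) (nat_lit 414) (nat_lit 377) (nat_lit 229)) (XT.lf (nat_lit 76) (nat_lit 562094210) (nat_lit 0) (nat_lit 587073148) (nat_lit 76) (nat_lit 587073148) (nat_lit 107) (nat_lit 3) (nat_lit 106) (nat_lit 1) (nat_lit 107) (nat_lit 1) (nat_lit 415) (nat_lit 377) (nat_lit 228)))) (XT.nd (nat_lit 78) (nat_lit 76) (nat_lit 0) (XT.lf (nat_lit 152) (nat_lit 1693302030) (nat_lit 0) (nat_lit 7674020) (nat_lit 76) (nat_lit 7674020) (nat_lit 106) (nat_lit 1) (nat_lit 104) (nat_lit 1) (nat_lit 105) (nat_lit 1) (nat_lit 416) (nat_lit 377) (nat_lit 227))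 (XT.nd (nat_lit 78) (nat_lit 76) (nat_lit 0) (XT.lf (nat_lit 0) (nat_lit 553018654) (nat_lit 0) (nat_lit 574596400) (nat_lit 152) (nat_lit 553018654) (nat_lit 104) (nat_lit 3) (nat_lit 104) (nat_lit 1) (nat_lit 106) (nat_lit 1) (nat_lit 417) (nat_lit 377) (nat_lit 226)) (XT.lf (nat_lit 76) (nat_lit 537469891) (nat_lit 0) (nat_lit 558020125) (nat_lit 76) (nat_lit 558020125) (nat_lit 104) (nat_lit 3) (nat_lit 103) (nat_lit 1) (nat_lit 104) (nat_lit 1) (nat_lit 418) (nat_lit 377) (nat_lit 225))))) (XT.nd (nat_lit 234) (nat_lit 380) (nat_lit 0) (XT.nd (nat_lit 78) (nat_lit 76) (nat_lit 0) (XT.lf (nat_lit 152) (nat_lit 1614611523) (nat_lit 0) (nat_lit 6313435) (nat_lit 76) (nat_lit 6313435) (nat_lit 103) (nat_lit 1) (nat_lit 101) (nat_lit 1) (nat_lit 102) (nat_lit 1) (nat_lit 419) (nat_lit 377) (nat_lit 224)) (XT.nd (nat_lit 78) (nat_lit 76) (nat_lit 0) (XT.lf (nat_lit 0) (nat_lit 527601865) (nat_lit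 0) (nat_lit 545353930) (nat_lit 152) (nat_lit 527601865) (nat_lit 101) (nat_lit 3) (nat_lit 101) (nat_lit 1) (nat_lit 103) (nat_lit 1) (nat_lit 420) (nat_lit 377) (nat_lit 223)) (XT.lf (nat_lit 76) (nat_lit 513638374) (nat_lit 0) (nat_lit 530545103) (nat_lit 76) (nat_lit 530545103) (nat_lit 101) (nat_lit 3) (nat_lit 100) (nat_lit 1) (nat_lit 101) (nat_lit 1) (nat_lit 421) (nat_lit 377) (nat_lit 222)))) (XT.nd (nat_lit 156) (nat_lit 228) (nat_lit 0) (XT.nd (nat_lit 78) (nat_lit 0) (nat_lit 0) (XT.lf (nat_lit 152) (nat_lit 1539323707) (nat_lit 0) (nat_lit 5194079) (nat_lit 76) (nat_lit 5194079) (nat_lit 100) (nat_lit 1) (nat_lit 98) (nat_lit 1) (nat_lit 99) (nat_lit 1) (nat_lit 422) (nat_lit 377) (nat_lit 221)) (XT.lf (nat_lit 0) (nat_lit 503232741) (nat_lit 0) (nat_lit 517837409) (nat_lit 152) (nat_lit 503232741) (nat_lit 98) (nat_lit 3) (nat_lit 98) (nat_lit 1) (nat_lit 100) (nat_lit 1) (nat_lit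 423) (nat_lit 377) (nat_lit 220))) (XT.nd (nat_lit 78) (nat_lit 152) (nat_lit 0) (XT.lf (nat_lit 76) (nat_lit 490629243) (nat_lit 0) (nat_lit 504538450) (nat_lit 76) (nat_lit 504538450) (nat_lit 98) (nat_lit 3) (nat_lit 97) (nat_lit 1) (nat_lit 98) (nat_lit 1) (nat_lit 424) (nat_lit 377) (nat_lit 219)) (XT.lf (nat_lit 152) (nat_lit 1467337624) (nat_lit 0) (nat_lit 4273181) (nat_lit 76) (nat_lit 4273181) (nat_lit 97) (nat_lit 1) (nat_lit 95) (nat_lit 1) (nat_lit 96) (nat_lit 1) (nat_lit 425) (nat_lit 377) (nat_lit 218))))))) (XT.nd (nat_lit 1014) (nat_lit 760) (nat_lit 0) (XT.nd (nat_lit 468) (nat_lit 456) (nat_lit 0) (XT.nd (nat_lit 234) (nat_lit 228) (nat_lit 0) (XT.nd (nat_lit 78) (nat_lit 228) (nat_lit 0) (XT.lf (nat_lit 0) (nat_lit 479890231) (nat_lit 0) (nat_lit 491905528) (nat_lit 152) (nat_lit 479890231) (nat_lit 95) (nat_lit 3) (nat_lit 95) (nat_lit 1) (nat_lit 97) (nat_lit 1) (nat_lit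 426) (nat_lit 377) (nat_lit 217)) (XT.nd (nat_lit 78) (nat_lit 152) (nat_lit 0) (XT.lf (nat_lit 76) (nat_lit 468458731) (nat_lit 0) (nat_lit 479901870) (nat_lit 76) (nat_lit 479901870) (nat_lit 95) (nat_lit 3) (nat_lit 94) (nat_lit 1) (nat_lit 95) (nat_lit 1) (nat_lit 427) (nat_lit 377) (nat_lit 216)) (XT.lf (nat_lit 152) (nat_lit 1398546296) (nat_lit 0) (nat_lit 3515557) (nat_lit 76) (nat_lit 3515557) (nat_lit 94) (nat_lit 1) (nat_lit 92) (nat_lit 1) (nat_lit 93) (nat_lit 1) (nat_lit 428) (nat_lit 377) (nat_lit 215)))) (XT.nd (nat_lit 78) (nat_lit 228) (nat_lit 0) (XT.lf (nat_lit 0) (nat_lit 457549176) (nat_lit 0) (nat_lit 467434190) (nat_lit 152) (nat_lit 457549176) (nat_lit 92) (nat_lit 3) (nat_lit 92) (nat_lit 1) (nat_lit 94) (nat_lit 1) (nat_lit 429) (nat_lit 377) (nat_lit 214)) (XT.nd (nat_lit 78) (nat_lit 152) (nat_lit 0) (XT.lf (nat_lit 76) (nat_lit 447132480) (nat_lit 0) (nat_lit 456546779)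 (nat_lit 76) (nat_lit 456546779) (nat_lit 92) (nat_lit 3) (nat_lit 91) (nat_lit 1) (nat_lit 92) (nat_lit 1) (nat_lit 430) (nat_lit 377) (nat_lit 213)) (XT.lf (nat_lit 152) (nat_lit 1332838928) (nat_lit 0) (nat_lit 2892257) (nat_lit 76) (nat_lit 2892257) (nat_lit 91) (nat_lit 1) (nat_lit 89) (nat_lit 1) (nat_lit 90) (nat_lit 1) (nat_lit 431) (nat_lit 377) (nat_lit 212))))) (XT.nd (nat_lit 234) (nat_lit 228) (nat_lit 0) (XT.nd (nat_lit 78) (nat_lit 228) (nat_lit 0) (XT.lf (nat_lit 0) (nat_lit 436181407) (nat_lit 0) (nat_lit 444313832) (nat_lit 152) (nat_lit 436181407) (nat_lit 89) (nat_lit 3) (nat_lit 89) (nat_lit 1) (nat_lit 91) (nat_lit 1) (nat_lit 432) (nat_lit 377) (nat_lit 211)) (XT.nd (nat_lit 78) (nat_lit 152) (nat_lit 0) (XT.lf (nat_lit 76) (nat_lit 426647782) (nat_lit 0) (nat_lit 434392949) (nat_lit 76) (nat_lit 434392949) (nat_lit 89) (nat_lit 3) (nat_lit 88) (nat_lit 1) (nat_lit 89) (nat_lit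 1) (nat_lit 433) (nat_lit 377) (nat_lit 210)) (XT.lf (nat_lit 152) (nat_lit 1270102675) (nat_lit 0) (nat_lit 2379467) (nat_lit 76) (nat_lit 2379467) (nat_lit 88) (nat_lit 1) (nat_lit 86) (nat_lit 1) (nat_lit 87) (nat_lit 1) (nat_lit 434) (nat_lit 377) (nat_lit 209)))) (XT.nd (nat_lit 156) (nat_lit 152) (nat_lit 0) (XT.nd (nat_lit 78) (nat_lit 76) (nat_lit 0) (XT.lf (nat_lit 0) (nat_lit 415756634) (nat_lit 0) (nat_lit 422447201) (nat_lit 152) (nat_lit 415756634) (nat_lit 86) (nat_lit 3) (nat_lit 86) (nat_lit 1) (nat_lit 88) (nat_lit 1) (nat_lit 435) (nat_lit 377) (nat_lit 208)) (XT.lf (nat_lit 76) (nat_lit 406995408) (nat_lit 0) (nat_lit 413367377) (nat_lit 76) (nat_lit 413367377) (nat_lit 86) (nat_lit 3) (nat_lit 85) (nat_lit 1) (nat_lit 86) (nat_lit 1) (nat_lit 436) (nat_lit 377) (nat_lit 207))) (XT.nd (nat_lit 78) (nat_lit 0) (nat_lit 0) (XT.lf (nat_lit 152) (nat_lit 1210224033) (nat_lit 0) (nat_lit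 1957593) (nat_lit 76) (nat_lit 1957593) (nat_lit 85) (nat_lit 1) (nat_lit 83) (nat_lit 1) (nat_lit 84) (nat_lit 1) (nat_lit 437) (nat_lit 377) (nat_lit 206)) (XT.lf (nat_lit 0) (nat_lit 396243166) (nat_lit 0) (nat_lit 401747511) (nat_lit 152) (nat_lit 396243166) (nat_lit 83) (nat_lit 3) (nat_lit 83) (nat_lit 1) (nat_lit 85) (nat_lit 1) (nat_lit 438) (nat_lit 377) (nat_lit 205)))))) (XT.nd (nat_lit 468) (nat_lit 304) (nat_lit 0) (XT.nd (nat_lit 234) (nat_lit 228) (nat_lit 0) (XT.nd (nat_lit 78) (nat_lit 152) (nat_lit 0) (XT.lf (nat_lit 76) (nat_lit 388161104) (nat_lit 0) (nat_lit 393403338) (nat_lit 76) (nat_lit 393403338) (nat_lit 83) (nat_lit 3) (nat_lit 82) (nat_lit 1) (nat_lit 83) (nat_lit 1) (nat_lit 439) (nat_lit 377) (nat_lit 204)) (XT.nd (nat_lit 78) (nat_lit 0) (nat_lit 0) (XT.lf (nat_lit 152) (nat_lit 1153089944) (nat_lit 0) (nat_lit 1610517) (nat_lit 76) (nat_lit 1610517) (nat_lit 82)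 (nat_lit 1) (nat_lit 80) (nat_lit 1) (nat_lit 81) (nat_lit 1) (nat_lit 440) (nat_lit 377) (nat_lit 203)) (XT.lf (nat_lit 0) (nat_lit 377608475) (nat_lit 0) (nat_lit 382136913) (nat_lit 152) (nat_lit 377608475) (nat_lit 80) (nat_lit 3) (nat_lit 80) (nat_lit 1) (nat_lit 82) (nat_lit 1) (nat_lit 441) (nat_lit 377) (nat_lit 202)))) (XT.nd (nat_lit 78) (nat_lit 152) (nat_lit 0) (XT.lf (nat_lit 76) (nat_lit 370126790) (nat_lit 0) (nat_lit 374439589) (nat_lit 76) (nat_lit 374439589) (nat_lit 80) (nat_lit 3) (nat_lit 79) (nat_lit 1) (nat_lit 80) (nat_lit 1) (nat_lit 442) (nat_lit 377) (nat_lit 201)) (XT.nd (nat_lit 78) (nat_lit 0) (nat_lit 0) (XT.lf (nat_lit 152) (nat_lit 1098588653) (nat_lit 0) (nat_lit 1324976) (nat_lit 76) (nat_lit 1324976) (nat_lit 79) (nat_lit 1) (nat_lit 77) (nat_lit 1) (nat_lit 78) (nat_lit 1) (nat_lit 443) (nat_lit 377) (nat_lit 200)) (XT.lf (nat_lit 0) (nat_lit 359819657) (nat_lit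 0) (nat_lit 363545215) (nat_lit 152) (nat_lit 359819657) (nat_lit 77) (nat_lit 3) (nat_lit 77) (nat_lit 1) (nat_lit 79) (nat_lit 1) (nat_lit 444) (nat_lit 377) (nat_lit 199))))) (XT.nd (nat_lit 234) (nat_lit 76) (nat_lit 0) (XT.nd (nat_lit 78) (nat_lit 152) (nat_lit 0) (XT.lf (nat_lit 76) (nat_lit 352871549) (nat_lit 0) (nat_lit 356419700) (nat_lit 76) (nat_lit 356419700) (nat_lit 77) (nat_lit 3) (nat_lit 76) (nat_lit 1) (nat_lit 77) (nat_lit 1) (nat_lit 445) (nat_lit 377) (nat_lit 198)) (XT.nd (nat_lit 78) (nat_lit 0) (nat_lit 0) (XT.lf (nat_lit 152) (nat_lit 1046610367) (nat_lit 0) (nat_lit 1090061) (nat_lit 76) (nat_lit 1090061) (nat_lit 76) (nat_lit 1) (nat_lit 74) (nat_lit 1) (nat_lit 75) (nat_lit 1) (nat_lit 446) (nat_lit 377) (nat_lit 197)) (XT.lf (nat_lit 0) (nat_lit 342843789) (nat_lit 0) (nat_lit 345908814) (nat_lit 152) (nat_lit 342843789) (nat_lit 74) (nat_lit 3) (nat_lit 74) (nat_lit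 1) (nat_lit 76) (nat_lit 1) (nat_lit 447) (nat_lit 377) (nat_lit 196)))) (XT.nd (nat_lit 38844) (nat_lit 0) (nat_lit 16644) (XT.nd (nat_lit 38766) (nat_lit 0) (nat_lit 16644) (XT.lf (nat_lit 76) (nat_lit 336372414) (nat_lit 0) (nat_lit 339291486) (nat_lit 76) (nat_lit 339291486) (nat_lit 74) (nat_lit 3) (nat_lit 73) (nat_lit 1) (nat_lit 74) (nat_lit 1) (nat_lit 448) (nat_lit 377) (nat_lit 195)) (XT.lf (nat_lit 836) (nat_lit 3431176380) (nat_lit 0) (nat_lit 6092045776) (nat_lit 836) (nat_lit 3431176380) (nat_lit 303) (nat_lit 1) (nat_lit 292) (nat_lit 0) (nat_lit 303) (nat_lit 0) (nat_lit 264) (nat_lit 378) (nat_lit 378))) (XT.nd (nat_lit 78) (nat_lit 0) (nat_lit 76) (XT.lf (nat_lit 836) (nat_lit 13299668015) (nat_lit 76) (nat_lit 5993786973) (nat_lit 0) (nat_lit 5993786973) (nat_lit 303) (nat_lit 1) (nat_lit 293) (nat_lit 1) (nat_lit 292) (nat_lit 0) (nat_lit 265) (nat_lit 378) (nat_lit 377)) (XT.lf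 (nat_lit 836) (nat_lit 6338421523) (nat_lit 0) (nat_lit 12008059412) (nat_lit 760) (nat_lit 6338421523) (nat_lit 304) (nat_lit 1) (nat_lit 293) (nat_lit 1) (nat_lit 303) (nat_lit 1) (nat_lit 266) (nat_lit 378) (nat_lit 376))))))))
noncomputable def ec166 : XT := (XT.nd (nat_lit 1950) (nat_lit 3116) (nat_lit 0) (XT.nd (nat_lit 936) (nat_lit 2280) (nat_lit 0) (XT.nd (nat_lit 468) (nat_lit 1368) (nat_lit 0) (XT.nd (nat_lit 234) (nat_lit 0) (nat_lit 152) (XT.nd (nat_lit 78) (nat_lit 0) (nat_lit 76) (XT.lf (nat_lit 836) (nat_lit 11889998031) (nat_lit 76) (nat_lit 6106012488) (nat_lit 0) (nat_lit 6106012488) (nat_lit 304) (nat_lit 1) (nat_lit 294) (nat_lit 1) (nat_lit 293) (nat_lit 1) (nat_lit 267) (nat_lit 378) (nat_lit 375)) (XT.nd (nat_lit 78) (nat_lit 0) (nat_lit 0) (XT.lf (nat_lit 836) (nat_lit 5472851913) (nat_lit 0) (nat_lit 12591914087) (nat_lit 760) (nat_lit 5472851913) (nat_lit 305) (nat_lit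 1) (nat_lit 294) (nat_lit 1) (nat_lit 304) (nat_lit 1) (nat_lit 268) (nat_lit 378) (nat_lit 374)) (XT.lf (nat_lit 836) (nat_lit 9843280623) (nat_lit 76) (nat_lit 6573568709) (nat_lit 0) (nat_lit 6573568709) (nat_lit 305) (nat_lit 1) (nat_lit 295) (nat_lit 1) (nat_lit 294) (nat_lit 1) (nat_lit 269) (nat_lit 378) (nat_lit 373)))) (XT.nd (nat_lit 78) (nat_lit 0) (nat_lit 0) (XT.lf (nat_lit 836) (nat_lit 4315994253) (nat_lit 0) (nat_lit 13829602741) (nat_lit 760) (nat_lit 4315994253) (nat_lit 306) (nat_lit 1) (nat_lit 295) (nat_lit 1) (nat_lit 305) (nat_lit 1) (nat_lit 270) (nat_lit 378) (nat_lit 372)) (XT.nd (nat_lit 78) (nat_lit 0) (nat_lit 76) (XT.lf (nat_lit 836) (nat_lit 7255318860) (nat_lit 76) (nat_lit 7346003004) (nat_lit 0) (nat_lit 7346003004) (nat_lit 306) (nat_lit 1) (nat_lit 296) (nat_lit 1) (nat_lit 295) (nat_lit 1) (nat_lit 271) (nat_lit 378) (nat_lit 371)) (XT.lf (nat_lit 836) (nat_lit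 2912632628) (nat_lit 0) (nat_lit 15626618314) (nat_lit 760) (nat_lit 2912632628) (nat_lit 307) (nat_lit 1) (nat_lit 296) (nat_lit 1) (nat_lit 306) (nat_lit 1) (nat_lit 272) (nat_lit 378) (nat_lit 370))))) (XT.nd (nat_lit 234) (nat_lit 912) (nat_lit 0) (XT.nd (nat_lit 78) (nat_lit 684) (nat_lit 0) (XT.lf (nat_lit 836) (nat_lit 4211267212) (nat_lit 76) (nat_lit 8378382745) (nat_lit 0) (nat_lit 8378382745) (nat_lit 307) (nat_lit 1) (nat_lit 297) (nat_lit 1) (nat_lit 296) (nat_lit 1) (nat_lit 273) (nat_lit 378) (nat_lit 369)) (XT.nd (nat_lit 78) (nat_lit 760) (nat_lit 0) (XT.lf (nat_lit 76) (nat_lit 1302544525) (nat_lit 0) (nat_lit 17898845819) (nat_lit 760) (nat_lit 1302544525) (nat_lit 298) (nat_lit 1) (nat_lit 297) (nat_lit 1) (nat_lit 307) (nat_lit 1) (nat_lit 274) (nat_lit 378) (nat_lit 368)) (XT.lf (nat_lit 836) (nat_lit 786704501) (nat_lit 0) (nat_lit 9630742619) (nat_lit 760) (nat_lit 9630742619)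 (nat_lit 298) (nat_lit 1) (nat_lit 287) (nat_lit 1) (nat_lit 297) (nat_lit 1) (nat_lit 275) (nat_lit 378) (nat_lit 367)))) (XT.nd (nat_lit 78) (nat_lit 380) (nat_lit 0) (XT.lf (nat_lit 532) (nat_lit 18669488578) (nat_lit 0) (nat_lit 471267848) (nat_lit 456) (nat_lit 471267848) (nat_lit 287) (nat_lit 1) (nat_lit 280) (nat_lit 1) (nat_lit 286) (nat_lit 1) (nat_lit 276) (nat_lit 378) (nat_lit 366)) (XT.nd (nat_lit 78) (nat_lit 380) (nat_lit 0) (XT.lf (nat_lit 76) (nat_lit 8162267913) (nat_lit 0) (nat_lit 2856933726) (nat_lit 532) (nat_lit 8162267913) (nat_lit 281) (nat_lit 1) (nat_lit 280) (nat_lit 1) (nat_lit 287) (nat_lit 1) (nat_lit 277) (nat_lit 378) (nat_lit 365)) (XT.lf (nat_lit 456) (nat_lit 14045167915) (nat_lit 0) (nat_lit 2362027628) (nat_lit 380) (nat_lit 2362027628) (nat_lit 281) (nat_lit 1) (nat_lit 275) (nat_lit 1) (nat_lit 280) (nat_lit 1) (nat_lit 278) (nat_lit 378) (nat_lit 364))))))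 (XT.nd (nat_lit 468) (nat_lit 1216) (nat_lit 0) (XT.nd (nat_lit 234) (nat_lit 684) (nat_lit 0) (XT.nd (nat_lit 78) (nat_lit 380) (nat_lit 0) (XT.lf (nat_lit 76) (nat_lit 5822046339) (nat_lit 0) (nat_lit 6721550669) (nat_lit 456) (nat_lit 5822046339) (nat_lit 276) (nat_lit 1) (nat_lit 275) (nat_lit 1) (nat_lit 281) (nat_lit 1) (nat_lit 279) (nat_lit 378) (nat_lit 363)) (XT.nd (nat_lit 78) (nat_lit 0) (nat_lit 0) (XT.lf (nat_lit 456) (nat_lit 9248942251) (nat_lit 0) (nat_lit 4363588440) (nat_lit 380) (nat_lit 4363588440) (nat_lit 276) (nat_lit 1) (nat_lit 270) (nat_lit 1) (nat_lit 275) (nat_lit 1) (nat_lit 280) (nat_lit 378) (nat_lit 362)) (XT.lf (nat_lit 76) (nat_lit 3408112300) (nat_lit 0) (nat_lit 10781698989) (nat_lit 456) (nat_lit 3408112300) (nat_lit 271) (nat_lit 1) (nat_lit 270) (nat_lit 1) (nat_lit 276) (nat_lit 1) (nat_lit 281) (nat_lit 378) (nat_lit 361)))) (XT.nd (nat_lit 78) (nat_lit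 380) (nat_lit 0) (XT.lf (nat_lit 380) (nat_lit 4325452278) (nat_lit 0) (nat_lit 6452002104) (nat_lit 304) (nat_lit 6452002104) (nat_lit 271) (nat_lit 1) (nat_lit 266) (nat_lit 1) (nat_lit 270) (nat_lit 1) (nat_lit 282) (nat_lit 378) (nat_lit 360)) (XT.nd (nat_lit 78) (nat_lit 380) (nat_lit 0) (XT.lf (nat_lit 76) (nat_lit 941189553) (nat_lit 0) (nat_lit 14992779705) (nat_lit 380) (nat_lit 941189553) (nat_lit 267) (nat_lit 1) (nat_lit 266) (nat_lit 1) (nat_lit 271) (nat_lit 1) (nat_lit 283) (nat_lit 378) (nat_lit 359)) (XT.lf (nat_lit 76) (nat_lit 7930733631) (nat_lit 0) (nat_lit 664214347) (nat_lit 380) (nat_lit 7930733631) (nat_lit 262) (nat_lit 1) (nat_lit 261) (nat_lit 1) (nat_lit 266) (nat_lit 1) (nat_lit 284) (nat_lit 378) (nat_lit 358))))) (XT.nd (nat_lit 234) (nat_lit 608) (nat_lit 0) (XT.nd (nat_lit 78) (nat_lit 304) (nat_lit 0) (XT.lf (nat_lit 380) (nat_lit 13118684115) (nat_lit 0) (nat_lit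 1535414619) (nat_lit 304) (nat_lit 1535414619) (nat_lit 262) (nat_lit 1) (nat_lit 257) (nat_lit 1) (nat_lit 261) (nat_lit 1) (nat_lit 285) (nat_lit 378) (nat_lit 357)) (XT.nd (nat_lit 78) (nat_lit 304) (nat_lit 0) (XT.lf (nat_lit 76) (nat_lit 5145724647) (nat_lit 0) (nat_lit 5567662845) (nat_lit 380) (nat_lit 5145724647) (nat_lit 258) (nat_lit 1) (nat_lit 257) (nat_lit 1) (nat_lit 262) (nat_lit 1) (nat_lit 286) (nat_lit 378) (nat_lit 356)) (XT.lf (nat_lit 380) (nat_lit 7509043690) (nat_lit 0) (nat_lit 4015562194) (nat_lit 304) (nat_lit 4015562194) (nat_lit 258) (nat_lit 1) (nat_lit 253) (nat_lit 1) (nat_lit 257) (nat_lit 1) (nat_lit 287) (nat_lit 378) (nat_lit 355)))) (XT.nd (nat_lit 156) (nat_lit 380) (nat_lit 0) (XT.nd (nat_lit 78) (nat_lit 228) (nat_lit 0) (XT.lf (nat_lit 76) (nat_lit 2368017256) (nat_lit 0) (nat_lit 10494515454) (nat_lit 380) (nat_lit 2368017256) (nat_lit 254) (nat_lit 1) (nat_lit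 253) (nat_lit 1) (nat_lit 258) (nat_lit 1) (nat_lit 288) (nat_lit 378) (nat_lit 354)) (XT.lf (nat_lit 304) (nat_lit 1925807014) (nat_lit 0) (nat_lit 6500904129) (nat_lit 228) (nat_lit 6500904129) (nat_lit 254) (nat_lit 1) (nat_lit 250) (nat_lit 1) (nat_lit 253) (nat_lit 1) (nat_lit 289) (nat_lit 378) (nat_lit 353))) (XT.nd (nat_lit 78) (nat_lit 0) (nat_lit 0) (XT.lf (nat_lit 380) (nat_lit 13866816073) (nat_lit 0) (nat_lit 384777538) (nat_lit 304) (nat_lit 384777538) (nat_lit 250) (nat_lit 1) (nat_lit 245) (nat_lit 1) (nat_lit 249) (nat_lit 1) (nat_lit 290) (nat_lit 378) (nat_lit 352)) (XT.lf (nat_lit 76) (nat_lit 5426187645) (nat_lit 0) (nat_lit 3494363737) (nat_lit 380) (nat_lit 5426187645) (nat_lit 246) (nat_lit 1) (nat_lit 245) (nat_lit 1) (nat_lit 250) (nat_lit 1) (nat_lit 291) (nat_lit 378) (nat_lit 351))))))) (XT.nd (nat_lit 936) (nat_lit 1520) (nat_lit 0) (XT.nd (nat_lit 468) (nat_lit 608)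 (nat_lit 0) (XT.nd (nat_lit 234) (nat_lit 532) (nat_lit 0) (XT.nd (nat_lit 78) (nat_lit 228) (nat_lit 0) (XT.lf (nat_lit 304) (nat_lit 7925118600) (nat_lit 0) (nat_lit 3071548233) (nat_lit 228) (nat_lit 3071548233) (nat_lit 246) (nat_lit 1) (nat_lit 242) (nat_lit 1) (nat_lit 245) (nat_lit 1) (nat_lit 292) (nat_lit 378) (nat_lit 350)) (XT.nd (nat_lit 78) (nat_lit 228) (nat_lit 0) (XT.lf (nat_lit 76) (nat_lit 2503667555) (nat_lit 0) (nat_lit 8789432379) (nat_lit 304) (nat_lit 2503667555) (nat_lit 243) (nat_lit 1) (nat_lit 242) (nat_lit 1) (nat_lit 246) (nat_lit 1) (nat_lit 293) (nat_lit 378) (nat_lit 349)) (XT.lf (nat_lit 304) (nat_lit 2086728652) (nat_lit 0) (nat_lit 5722383308) (nat_lit 228) (nat_lit 5722383308) (nat_lit 243) (nat_lit 1) (nat_lit 239) (nat_lit 1) (nat_lit 242) (nat_lit 1) (nat_lit 294) (nat_lit 378) (nat_lit 348)))) (XT.nd (nat_lit 78) (nat_lit 228) (nat_lit 0) (XT.lf (nat_lit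 304) (nat_lit 12558826499) (nat_lit 0) (nat_lit 358625874) (nat_lit 228) (nat_lit 358625874) (nat_lit 239) (nat_lit 1) (nat_lit 235) (nat_lit 1) (nat_lit 238) (nat_lit 1) (nat_lit 295) (nat_lit 378) (nat_lit 347)) (XT.nd (nat_lit 78) (nat_lit 228) (nat_lit 0) (XT.lf (nat_lit 76) (nat_lit 4750644402) (nat_lit 0) (nat_lit 3520179800) (nat_lit 304) (nat_lit 4750644402) (nat_lit 236) (nat_lit 1) (nat_lit 235) (nat_lit 1) (nat_lit 239) (nat_lit 1) (nat_lit 296) (nat_lit 378) (nat_lit 346)) (XT.lf (nat_lit 304) (nat_lit 6532571050) (nat_lit 0) (nat_lit 3121854255) (nat_lit 228) (nat_lit 3121854255) (nat_lit 236) (nat_lit 1) (nat_lit 232) (nat_lit 1) (nat_lit 235) (nat_lit 1) (nat_lit 297) (nat_lit 378) (nat_lit 345))))) (XT.nd (nat_lit 234) (nat_lit 152) (nat_lit 0) (XT.nd (nat_lit 78) (nat_lit 456) (nat_lit 0) (XT.lf (nat_lit 76) (nat_lit 1799064739) (nat_lit 0) (nat_lit 8939537118) (nat_lit 304) (nat_lit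 1799064739) (nat_lit 233) (nat_lit 1) (nat_lit 232) (nat_lit 1) (nat_lit 236) (nat_lit 1) (nat_lit 298) (nat_lit 378) (nat_lit 344)) (XT.nd (nat_lit 78) (nat_lit 304) (nat_lit 0) (XT.lf (nat_lit 228) (nat_lit 659237138) (nat_lit 0) (nat_lit 5822156506) (nat_lit 152) (nat_lit 5822156506) (nat_lit 233) (nat_lit 1) (nat_lit 230) (nat_lit 1) (nat_lit 232) (nat_lit 1) (nat_lit 299) (nat_lit 378) (nat_lit 343)) (XT.lf (nat_lit 304) (nat_lit 9960852107) (nat_lit 0) (nat_lit 1057914693) (nat_lit 228) (nat_lit 1057914693) (nat_lit 230) (nat_lit 1) (nat_lit 226) (nat_lit 1) (nat_lit 229) (nat_lit 1) (nat_lit 300) (nat_lit 378) (nat_lit 342)))) (XT.nd (nat_lit 78) (nat_lit 152) (nat_lit 0) (XT.lf (nat_lit 76) (nat_lit 3479089198) (nat_lit 0) (nat_lit 4894171746) (nat_lit 304) (nat_lit 3479089198) (nat_lit 227) (nat_lit 1) (nat_lit 226) (nat_lit 1) (nat_lit 230) (nat_lit 1) (nat_lit 301) (nat_lit 378) (nat_lit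 341)) (XT.nd (nat_lit 78) (nat_lit 0) (nat_lit 0) (XT.lf (nat_lit 228) (nat_lit 4019550897) (nat_lit 0) (nat_lit 3807695688) (nat_lit 152) (nat_lit 3807695688) (nat_lit 227) (nat_lit 1) (nat_lit 224) (nat_lit 1) (nat_lit 226) (nat_lit 1) (nat_lit 302) (nat_lit 378) (nat_lit 340)) (XT.lf (nat_lit 76) (nat_lit 577481880) (nat_lit 0) (nat_lit 10269785576) (nat_lit 228) (nat_lit 577481880) (nat_lit 225) (nat_lit 1) (nat_lit 224) (nat_lit 1) (nat_lit 227) (nat_lit 1) (nat_lit 303) (nat_lit 378) (nat_lit 339)))))) (XT.nd (nat_lit 468) (nat_lit 760) (nat_lit 0) (XT.nd (nat_lit 234) (nat_lit 380) (nat_lit 0) (XT.nd (nat_lit 78) (nat_lit 152) (nat_lit 0) (XT.lf (nat_lit 76) (nat_lit 4766059280) (nat_lit 0) (nat_lit 1683201908) (nat_lit 228) (nat_lit 4766059280) (nat_lit 222) (nat_lit 1) (nat_lit 221) (nat_lit 1) (nat_lit 224) (nat_lit 1) (nat_lit 304) (nat_lit 378) (nat_lit 338)) (XT.nd (nat_lit 78) (nat_lit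 0) (nat_lit 0) (XT.lf (nat_lit 228) (nat_lit 6618508634) (nat_lit 0) (nat_lit 2197165544) (nat_lit 152) (nat_lit 2197165544) (nat_lit 222) (nat_lit 1) (nat_lit 219) (nat_lit 1) (nat_lit 221) (nat_lit 1) (nat_lit 305) (nat_lit 378) (nat_lit 337)) (XT.lf (nat_lit 76) (nat_lit 1867570948) (nat_lit 0) (nat_lit 7079692348) (nat_lit 228) (nat_lit 1867570948) (nat_lit 220) (nat_lit 1) (nat_lit 219) (nat_lit 1) (nat_lit 222) (nat_lit 1) (nat_lit 306) (nat_lit 378) (nat_lit 336)))) (XT.nd (nat_lit 78) (nat_lit 228) (nat_lit 0) (XT.lf (nat_lit 228) (nat_lit 874889750) (nat_lit 0) (nat_lit 4872965148) (nat_lit 152) (nat_lit 4872965148) (nat_lit 220) (nat_lit 1) (nat_lit 217) (nat_lit 1) (nat_lit 219) (nat_lit 1) (nat_lit 307) (nat_lit 378) (nat_lit 335)) (XT.nd (nat_lit 78) (nat_lit 0) (nat_lit 0) (XT.lf (nat_lit 228) (nat_lit 8598981683) (nat_lit 0) (nat_lit 916722938) (nat_lit 152) (nat_lit 916722938) (nat_lit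 217) (nat_lit 1) (nat_lit 214) (nat_lit 1) (nat_lit 216) (nat_lit 1) (nat_lit 308) (nat_lit 378) (nat_lit 334)) (XT.lf (nat_lit 76) (nat_lit 2862622074) (nat_lit 0) (nat_lit 4520398834) (nat_lit 228) (nat_lit 2862622074) (nat_lit 215) (nat_lit 1) (nat_lit 214) (nat_lit 1) (nat_lit 217) (nat_lit 1) (nat_lit 309) (nat_lit 378) (nat_lit 333))))) (XT.nd (nat_lit 234) (nat_lit 456) (nat_lit 0) (XT.nd (nat_lit 78) (nat_lit 152) (nat_lit 0) (XT.lf (nat_lit 228) (nat_lit 2915441601) (nat_lit 0) (nat_lit 3574419710) (nat_lit 152) (nat_lit 3574419710) (nat_lit 215) (nat_lit 1) (nat_lit 212) (nat_lit 1) (nat_lit 214) (nat_lit 1) (nat_lit 310) (nat_lit 378) (nat_lit 332)) (XT.nd (nat_lit 78) (nat_lit 152) (nat_lit 0) (XT.lf (nat_lit 76) (nat_lit 95822524) (nat_lit 0) (nat_lit 9697634384) (nat_lit 228) (nat_lit 95822524) (nat_lit 213) (nat_lit 1) (nat_lit 212) (nat_lit 1) (nat_lit 215) (nat_lit 1) (nat_lit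 311) (nat_lit 378) (nat_lit 331)) (XT.lf (nat_lit 76) (nat_lit 3618102297) (nat_lit 0) (nat_lit 2476960850) (nat_lit 152) (nat_lit 3618102297) (nat_lit 211) (nat_lit 1) (nat_lit 210) (nat_lit 1) (nat_lit 212) (nat_lit 1) (nat_lit 312) (nat_lit 378) (nat_lit 330)))) (XT.nd (nat_lit 156) (nat_lit 304) (nat_lit 0) (XT.nd (nat_lit 78) (nat_lit 0) (nat_lit 0) (XT.lf (nat_lit 228) (nat_lit 4489653057) (nat_lit 0) (nat_lit 2526797487) (nat_lit 152) (nat_lit 2526797487) (nat_lit 211) (nat_lit 1) (nat_lit 208) (nat_lit 1) (nat_lit 210) (nat_lit 1) (nat_lit 313) (nat_lit 378) (nat_lit 329)) (XT.lf (nat_lit 76) (nat_lit 900144408) (nat_lit 0) (nat_lit 7577628304) (nat_lit 228) (nat_lit 900144408) (nat_lit 209) (nat_lit 1) (nat_lit 208) (nat_lit 1) (nat_lit 211) (nat_lit 1) (nat_lit 314) (nat_lit 378) (nat_lit 328))) (XT.nd (nat_lit 78) (nat_lit 152) (nat_lit 0) (XT.lf (nat_lit 76) (nat_lit 4179494126) (nat_lit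 0) (nat_lit 854961384) (nat_lit 152) (nat_lit 4179494126) (nat_lit 207) (nat_lit 1) (nat_lit 206) (nat_lit 1) (nat_lit 208) (nat_lit 1) (nat_lit 315) (nat_lit 378) (nat_lit 327)) (XT.lf (nat_lit 228) (nat_lit 5685183954) (nat_lit 0) (nat_lit 1684624971) (nat_lit 152) (nat_lit 1684624971) (nat_lit 207) (nat_lit 1) (nat_lit 204) (nat_lit 1) (nat_lit 206) (nat_lit 1) (nat_lit 316) (nat_lit 378) (nat_lit 326))))))))
noncomputable def ec167 : XT := (XT.nd (nat_lit 1950) (nat_lit 1976) (nat_lit 0) (XT.nd (nat_lit 936) (nat_lit 988) (nat_lit 0) (XT.nd (nat_lit 468) (nat_lit 380) (nat_lit 0) (XT.nd (nat_lit 234) (nat_lit 304) (nat_lit 0) (XT.nd (nat_lit 78) (nat_lit 304) (nat_lit 0) (XT.lf (nat_lit 76) (nat_lit 1522751966) (nat_lit 0) (nat_lit 5852572128) (nat_lit 228) (nat_lit 1522751966) (nat_lit 205) (nat_lit 1) (nat_lit 204) (nat_lit 1) (nat_lit 207) (nat_lit 1) (nat_lit 317) (nat_lit 378) (nat_lit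 325)) (XT.nd (nat_lit 78) (nat_lit 228) (nat_lit 0) (XT.lf (nat_lit 152) (nat_lit 437126636) (nat_lit 0) (nat_lit 4153771069) (nat_lit 76) (nat_lit 4153771069) (nat_lit 205) (nat_lit 1) (nat_lit 203) (nat_lit 1) (nat_lit 204) (nat_lit 1) (nat_lit 318) (nat_lit 378) (nat_lit 324)) (XT.lf (nat_lit 228) (nat_lit 6573915168) (nat_lit 0) (nat_lit 1010537918) (nat_lit 152) (nat_lit 1010537918) (nat_lit 203) (nat_lit 1) (nat_lit 200) (nat_lit 1) (nat_lit 202) (nat_lit 1) (nat_lit 319) (nat_lit 378) (nat_lit 323)))) (XT.nd (nat_lit 78) (nat_lit 304) (nat_lit 0) (XT.lf (nat_lit 76) (nat_lit 1997725081) (nat_lit 0) (nat_lit 4451533734) (nat_lit 228) (nat_lit 1997725081) (nat_lit 201) (nat_lit 1) (nat_lit 200) (nat_lit 1) (nat_lit 203) (nat_lit 1) (nat_lit 320) (nat_lit 378) (nat_lit 322)) (XT.nd (nat_lit 78) (nat_lit 228) (nat_lit 0) (XT.lf (nat_lit 152) (nat_lit 1467970275) (nat_lit 0) (nat_lit 3417317738)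 (nat_lit 76) (nat_lit 3417317738) (nat_lit 201) (nat_lit 1) (nat_lit 199) (nat_lit 1) (nat_lit 200) (nat_lit 1) (nat_lit 321) (nat_lit 378) (nat_lit 321)) (XT.lf (nat_lit 228) (nat_lit 7214757478) (nat_lit 0) (nat_lit 473841365) (nat_lit 152) (nat_lit 473841365) (nat_lit 199) (nat_lit 1) (nat_lit 196) (nat_lit 1) (nat_lit 198) (nat_lit 1) (nat_lit 322) (nat_lit 378) (nat_lit 320))))) (XT.nd (nat_lit 234) (nat_lit 76) (nat_lit 0) (XT.nd (nat_lit 78) (nat_lit 304) (nat_lit 0) (XT.lf (nat_lit 76) (nat_lit 2353012673) (nat_lit 0) (nat_lit 3316200354) (nat_lit 228) (nat_lit 2353012673) (nat_lit 197) (nat_lit 1) (nat_lit 196) (nat_lit 1) (nat_lit 199) (nat_lit 1) (nat_lit 323) (nat_lit 378) (nat_lit 319)) (XT.nd (nat_lit 78) (nat_lit 228) (nat_lit 0) (XT.lf (nat_lit 152) (nat_lit 2263269549) (nat_lit 0) (nat_lit 2811435760) (nat_lit 76) (nat_lit 2811435760) (nat_lit 197) (nat_lit 1) (nat_lit 195) (nat_lit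 1) (nat_lit 196) (nat_lit 1) (nat_lit 324) (nat_lit 378) (nat_lit 318)) (XT.lf (nat_lit 228) (nat_lit 7655961880) (nat_lit 0) (nat_lit 49325054) (nat_lit 152) (nat_lit 49325054) (nat_lit 195) (nat_lit 1) (nat_lit 192) (nat_lit 1) (nat_lit 194) (nat_lit 1) (nat_lit 325) (nat_lit 378) (nat_lit 317)))) (XT.nd (nat_lit 78) (nat_lit 76) (nat_lit 0) (XT.lf (nat_lit 76) (nat_lit 2611523926) (nat_lit 0) (nat_lit 2398639128) (nat_lit 228) (nat_lit 2611523926) (nat_lit 193) (nat_lit 1) (nat_lit 192) (nat_lit 1) (nat_lit 195) (nat_lit 1) (nat_lit 326) (nat_lit 378) (nat_lit 316)) (XT.nd (nat_lit 78) (nat_lit 0) (nat_lit 0) (XT.lf (nat_lit 152) (nat_lit 2867299146) (nat_lit 0) (nat_lit 2312975157) (nat_lit 76) (nat_lit 2312975157) (nat_lit 193) (nat_lit 1) (nat_lit 191) (nat_lit 1) (nat_lit 192) (nat_lit 1) (nat_lit 327) (nat_lit 378) (nat_lit 315)) (XT.lf (nat_lit 0) (nat_lit 288362022) (nat_lit 0) (nat_lit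 6791965641) (nat_lit 152) (nat_lit 288362022) (nat_lit 191) (nat_lit 3) (nat_lit 191) (nat_lit 1) (nat_lit 193) (nat_lit 1) (nat_lit 328) (nat_lit 378) (nat_lit 314)))))) (XT.nd (nat_lit 468) (nat_lit 532) (nat_lit 0) (XT.nd (nat_lit 234) (nat_lit 228) (nat_lit 0) (XT.nd (nat_lit 78) (nat_lit 76) (nat_lit 0) (XT.lf (nat_lit 76) (nat_lit 2792025841) (nat_lit 0) (nat_lit 1659454813) (nat_lit 152) (nat_lit 2792025841) (nat_lit 190) (nat_lit 1) (nat_lit 189) (nat_lit 1) (nat_lit 191) (nat_lit 1) (nat_lit 329) (nat_lit 378) (nat_lit 313)) (XT.nd (nat_lit 78) (nat_lit 0) (nat_lit 0) (XT.lf (nat_lit 152) (nat_lit 3316364281) (nat_lit 0) (nat_lit 1902890386) (nat_lit 76) (nat_lit 1902890386) (nat_lit 190) (nat_lit 1) (nat_lit 188) (nat_lit 1) (nat_lit 189) (nat_lit 1) (nat_lit 330) (nat_lit 378) (nat_lit 312)) (XT.lf (nat_lit 0) (nat_lit 551147683) (nat_lit 0) (nat_lit 5901678475) (nat_lit 152) (nat_lit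 551147683) (nat_lit 188) (nat_lit 3) (nat_lit 188) (nat_lit 1) (nat_lit 190) (nat_lit 1) (nat_lit 331) (nat_lit 378) (nat_lit 311)))) (XT.nd (nat_lit 78) (nat_lit 76) (nat_lit 0) (XT.lf (nat_lit 76) (nat_lit 2909881468) (nat_lit 0) (nat_lit 1066274216) (nat_lit 152) (nat_lit 2909881468) (nat_lit 187) (nat_lit 1) (nat_lit 186) (nat_lit 1) (nat_lit 188) (nat_lit 1) (nat_lit 332) (nat_lit 378) (nat_lit 310)) (XT.nd (nat_lit 78) (nat_lit 0) (nat_lit 0) (XT.lf (nat_lit 152) (nat_lit 3640219365) (nat_lit 0) (nat_lit 1565512630) (nat_lit 76) (nat_lit 1565512630) (nat_lit 187) (nat_lit 1) (nat_lit 185) (nat_lit 1) (nat_lit 186) (nat_lit 1) (nat_lit 333) (nat_lit 378) (nat_lit 309)) (XT.lf (nat_lit 0) (nat_lit 752393928) (nat_lit 0) (nat_lit 5154288852) (nat_lit 152) (nat_lit 752393928) (nat_lit 185) (nat_lit 3) (nat_lit 185) (nat_lit 1) (nat_lit 187) (nat_lit 1) (nat_lit 334) (nat_lit 378) (nat_lit 308)))))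 (XT.nd (nat_lit 234) (nat_lit 304) (nat_lit 0) (XT.nd (nat_lit 78) (nat_lit 76) (nat_lit 0) (XT.lf (nat_lit 76) (nat_lit 2977657065) (nat_lit 0) (nat_lit 592499421) (nat_lit 152) (nat_lit 2977657065) (nat_lit 184) (nat_lit 1) (nat_lit 183) (nat_lit 1) (nat_lit 185) (nat_lit 1) (nat_lit 335) (nat_lit 378) (nat_lit 307)) (XT.nd (nat_lit 78) (nat_lit 0) (nat_lit 0) (XT.lf (nat_lit 152) (nat_lit 3863234875) (nat_lit 0) (nat_lit 1287951115) (nat_lit 76) (nat_lit 1287951115) (nat_lit 184) (nat_lit 1) (nat_lit 182) (nat_lit 1) (nat_lit 183) (nat_lit 1) (nat_lit 336) (nat_lit 378) (nat_lit 306)) (XT.lf (nat_lit 0) (nat_lit 903723361) (nat_lit 0) (nat_lit 4525173209) (nat_lit 152) (nat_lit 903723361) (nat_lit 182) (nat_lit 3) (nat_lit 182) (nat_lit 1) (nat_lit 184) (nat_lit 1) (nat_lit 337) (nat_lit 378) (nat_lit 305)))) (XT.nd (nat_lit 156) (nat_lit 76) (nat_lit 0) (XT.nd (nat_lit 78) (nat_lit 76) (nat_lit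 0) (XT.lf (nat_lit 76) (nat_lit 3005621436) (nat_lit 0) (nat_lit 216282155) (nat_lit 152) (nat_lit 3005621436) (nat_lit 181) (nat_lit 1) (nat_lit 180) (nat_lit 1) (nat_lit 182) (nat_lit 1) (nat_lit 338) (nat_lit 378) (nat_lit 304)) (XT.lf (nat_lit 152) (nat_lit 4005357078) (nat_lit 0) (nat_lit 1059600569) (nat_lit 76) (nat_lit 1059600569) (nat_lit 181) (nat_lit 1) (nat_lit 179) (nat_lit 1) (nat_lit 180) (nat_lit 1) (nat_lit 339) (nat_lit 378) (nat_lit 303))) (XT.nd (nat_lit 78) (nat_lit 76) (nat_lit 0) (XT.lf (nat_lit 0) (nat_lit 1014664031) (nat_lit 0) (nat_lit 3994039783) (nat_lit 152) (nat_lit 1014664031) (nat_lit 179) (nat_lit 3) (nat_lit 179) (nat_lit 1) (nat_lit 181) (nat_lit 1) (nat_lit 340) (nat_lit 378) (nat_lit 302)) (XT.lf (nat_lit 76) (nat_lit 82975671) (nat_lit 0) (nat_lit 2920476387) (nat_lit 76) (nat_lit 2920476387) (nat_lit 179) (nat_lit 3) (nat_lit 178) (nat_lit 1) (nat_lit 179)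 (nat_lit 1) (nat_lit 341) (nat_lit 378) (nat_lit 301))))))) (XT.nd (nat_lit 1014) (nat_lit 912) (nat_lit 0) (XT.nd (nat_lit 468) (nat_lit 608) (nat_lit 0) (XT.nd (nat_lit 234) (nat_lit 228) (nat_lit 0) (XT.nd (nat_lit 78) (nat_lit 76) (nat_lit 0) (XT.lf (nat_lit 152) (nat_lit 4082897357) (nat_lit 0) (nat_lit 871736011) (nat_lit 76) (nat_lit 871736011) (nat_lit 178) (nat_lit 1) (nat_lit 176) (nat_lit 1) (nat_lit 177) (nat_lit 1) (nat_lit 342) (nat_lit 378) (nat_lit 300)) (XT.nd (nat_lit 78) (nat_lit 76) (nat_lit 0) (XT.lf (nat_lit 0) (nat_lit 1093022405) (nat_lit 0) (nat_lit 3544162210) (nat_lit 152) (nat_lit 1093022405) (nat_lit 176) (nat_lit 3) (nat_lit 176) (nat_lit 1) (nat_lit 178) (nat_lit 1) (nat_lit 343) (nat_lit 378) (nat_lit 299)) (XT.lf (nat_lit 76) (nat_lit 322354669) (nat_lit 0) (nat_lit 2656773530) (nat_lit 76) (nat_lit 2656773530) (nat_lit 176) (nat_lit 3) (nat_lit 175) (nat_lit 1)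 (nat_lit 176) (nat_lit 1) (nat_lit 344) (nat_lit 378) (nat_lit 298)))) (XT.nd (nat_lit 78) (nat_lit 76) (nat_lit 0) (XT.lf (nat_lit 152) (nat_lit 4109181357) (nat_lit 0) (nat_lit 717179373) (nat_lit 76) (nat_lit 717179373) (nat_lit 175) (nat_lit 1) (nat_lit 173) (nat_lit 1) (nat_lit 174) (nat_lit 1) (nat_lit 345) (nat_lit 378) (nat_lit 297)) (XT.nd (nat_lit 78) (nat_lit 76) (nat_lit 0) (XT.lf (nat_lit 0) (nat_lit 1145190138) (nat_lit 0) (nat_lit 3161748921) (nat_lit 152) (nat_lit 1145190138) (nat_lit 173) (nat_lit 3) (nat_lit 173) (nat_lit 1) (nat_lit 175) (nat_lit 1) (nat_lit 346) (nat_lit 378) (nat_lit 296)) (XT.lf (nat_lit 76) (nat_lit 507192822) (nat_lit 0) (nat_lit 2427724996) (nat_lit 76) (nat_lit 2427724996) (nat_lit 173) (nat_lit 3) (nat_lit 172) (nat_lit 1) (nat_lit 173) (nat_lit 1) (nat_lit 347) (nat_lit 378) (nat_lit 295))))) (XT.nd (nat_lit 234) (nat_lit 380) (nat_lit 0) (XT.nd (nat_lit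 78) (nat_lit 76) (nat_lit 0) (XT.lf (nat_lit 152) (nat_lit 4095082811) (nat_lit 0) (nat_lit 590025245) (nat_lit 76) (nat_lit 590025245) (nat_lit 172) (nat_lit 1) (nat_lit 170) (nat_lit 1) (nat_lit 171) (nat_lit 1) (nat_lit 348) (nat_lit 378) (nat_lit 294)) (XT.nd (nat_lit 78) (nat_lit 76) (nat_lit 0) (XT.lf (nat_lit 0) (nat_lit 1176396380) (nat_lit 0) (nat_lit 2835424282) (nat_lit 152) (nat_lit 1176396380) (nat_lit 170) (nat_lit 3) (nat_lit 170) (nat_lit 1) (nat_lit 172) (nat_lit 1) (nat_lit 349) (nat_lit 378) (nat_lit 293)) (XT.lf (nat_lit 76) (nat_lit 647736254) (nat_lit 0) (nat_lit 2227762827) (nat_lit 76) (nat_lit 2227762827) (nat_lit 170) (nat_lit 3) (nat_lit 169) (nat_lit 1) (nat_lit 170) (nat_lit 1) (nat_lit 350) (nat_lit 378) (nat_lit 292)))) (XT.nd (nat_lit 156) (nat_lit 228) (nat_lit 0) (XT.nd (nat_lit 78) (nat_lit 0) (nat_lit 0) (XT.lf (nat_lit 152) (nat_lit 4049462516) (nat_lit 0) (nat_lit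 485415229) (nat_lit 76) (nat_lit 485415229) (nat_lit 169) (nat_lit 1) (nat_lit 167) (nat_lit 1) (nat_lit 168) (nat_lit 1) (nat_lit 351) (nat_lit 378) (nat_lit 291)) (XT.lf (nat_lit 0) (nat_lit 1190915280) (nat_lit 0) (nat_lit 2555801640) (nat_lit 152) (nat_lit 1190915280) (nat_lit 167) (nat_lit 3) (nat_lit 167) (nat_lit 1) (nat_lit 169) (nat_lit 1) (nat_lit 352) (nat_lit 378) (nat_lit 290))) (XT.nd (nat_lit 78) (nat_lit 152) (nat_lit 0) (XT.lf (nat_lit 76) (nat_lit 752387042) (nat_lit 0) (nat_lit 2052278814) (nat_lit 76) (nat_lit 2052278814) (nat_lit 167) (nat_lit 3) (nat_lit 166) (nat_lit 1) (nat_lit 167) (nat_lit 1) (nat_lit 353) (nat_lit 378) (nat_lit 289)) (XT.lf (nat_lit 152) (nat_lit 3979529264) (nat_lit 0) (nat_lit 399352310) (nat_lit 76) (nat_lit 399352310) (nat_lit 166) (nat_lit 1) (nat_lit 164) (nat_lit 1) (nat_lit 165) (nat_lit 1) (nat_lit 354) (nat_lit 378) (nat_lit 288)))))) (XT.nd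 (nat_lit 468) (nat_lit 456) (nat_lit 0) (XT.nd (nat_lit 234) (nat_lit 228) (nat_lit 0) (XT.nd (nat_lit 78) (nat_lit 228) (nat_lit 0) (XT.lf (nat_lit 0) (nat_lit 1192236630) (nat_lit 0) (nat_lit 2315132016) (nat_lit 152) (nat_lit 1192236630) (nat_lit 164) (nat_lit 3) (nat_lit 164) (nat_lit 1) (nat_lit 166) (nat_lit 1) (nat_lit 355) (nat_lit 378) (nat_lit 287)) (XT.nd (nat_lit 78) (nat_lit 152) (nat_lit 0) (XT.lf (nat_lit 76) (nat_lit 828031466) (nat_lit 0) (nat_lit 1897455643) (nat_lit 76) (nat_lit 1897455643) (nat_lit 164) (nat_lit 3) (nat_lit 163) (nat_lit 1) (nat_lit 164) (nat_lit 1) (nat_lit 356) (nat_lit 378) (nat_lit 286)) (XT.lf (nat_lit 152) (nat_lit 3891136603) (nat_lit 0) (nat_lit 328548134) (nat_lit 76) (nat_lit 328548134) (nat_lit 163) (nat_lit 1) (nat_lit 161) (nat_lit 1) (nat_lit 162) (nat_lit 1) (nat_lit 357) (nat_lit 378) (nat_lit 285)))) (XT.nd (nat_lit 78) (nat_lit 228) (nat_lit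 0) (XT.lf (nat_lit 0) (nat_lit 1183206199) (nat_lit 0) (nat_lit 2107015013) (nat_lit 152) (nat_lit 1183206199) (nat_lit 161) (nat_lit 3) (nat_lit 161) (nat_lit 1) (nat_lit 163) (nat_lit 1) (nat_lit 358) (nat_lit 378) (nat_lit 284)) (XT.nd (nat_lit 78) (nat_lit 152) (nat_lit 0) (XT.lf (nat_lit 76) (nat_lit 880309997) (nat_lit 0) (nat_lit 1760127914) (nat_lit 76) (nat_lit 1760127914) (nat_lit 161) (nat_lit 3) (nat_lit 160) (nat_lit 1) (nat_lit 161) (nat_lit 1) (nat_lit 359) (nat_lit 378) (nat_lit 283)) (XT.lf (nat_lit 152) (nat_lit 3789026788) (nat_lit 0) (nat_lit 270297363) (nat_lit 76) (nat_lit 270297363) (nat_lit 160) (nat_lit 1) (nat_lit 158) (nat_lit 1) (nat_lit 159) (nat_lit 1) (nat_lit 360) (nat_lit 378) (nat_lit 282))))) (XT.nd (nat_lit 234) (nat_lit 228) (nat_lit 0) (XT.nd (nat_lit 78) (nat_lit 228) (nat_lit 0) (XT.lf (nat_lit 0) (nat_lit 1166141119) (nat_lit 0) (nat_lit 1926160916) (nat_lit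 152) (nat_lit 1166141119) (nat_lit 158) (nat_lit 3) (nat_lit 158) (nat_lit 1) (nat_lit 160) (nat_lit 1) (nat_lit 361) (nat_lit 378) (nat_lit 281)) (XT.nd (nat_lit 78) (nat_lit 152) (nat_lit 0) (XT.lf (nat_lit 76) (nat_lit 913839366) (nat_lit 0) (nat_lit 1637667744) (nat_lit 76) (nat_lit 1637667744) (nat_lit 158) (nat_lit 3) (nat_lit 157) (nat_lit 1) (nat_lit 158) (nat_lit 1) (nat_lit 362) (nat_lit 378) (nat_lit 280)) (XT.lf (nat_lit 152) (nat_lit 3677031311) (nat_lit 0) (nat_lit 222374309) (nat_lit 76) (nat_lit 222374309) (nat_lit 157) (nat_lit 1) (nat_lit 155) (nat_lit 1) (nat_lit 156) (nat_lit 1) (nat_lit 363) (nat_lit 378) (nat_lit 279)))) (XT.nd (nat_lit 156) (nat_lit 152) (nat_lit 0) (XT.nd (nat_lit 78) (nat_lit 76) (nat_lit 0) (XT.lf (nat_lit 0) (nat_lit 1142924757) (nat_lit 0) (nat_lit 1768194925) (nat_lit 152) (nat_lit 1142924757) (nat_lit 155) (nat_lit 3) (nat_lit 155) (nat_lit 1) (nat_lit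 157) (nat_lit 1) (nat_lit 364) (nat_lit 378) (nat_lit 278)) (XT.lf (nat_lit 76) (nat_lit 932395197) (nat_lit 0) (nat_lit 1527890595) (nat_lit 76) (nat_lit 1527890595) (nat_lit 155) (nat_lit 3) (nat_lit 154) (nat_lit 1) (nat_lit 155) (nat_lit 1) (nat_lit 365) (nat_lit 378) (nat_lit 277))) (XT.nd (nat_lit 78) (nat_lit 0) (nat_lit 0) (XT.lf (nat_lit 152) (nat_lit 3558235708) (nat_lit 0) (nat_lit 182947894) (nat_lit 76) (nat_lit 182947894) (nat_lit 154) (nat_lit 1) (nat_lit 152) (nat_lit 1) (nat_lit 153) (nat_lit 1) (nat_lit 366) (nat_lit 378) (nat_lit 276)) (XT.lf (nat_lit 0) (nat_lit 1115084714) (nat_lit 0) (nat_lit 1629496029) (nat_lit 152) (nat_lit 1115084714) (nat_lit 152) (nat_lit 3) (nat_lit 152) (nat_lit 1) (nat_lit 154) (nat_lit 1) (nat_lit 367) (nat_lit 378) (nat_lit 275))))))))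
noncomputable def ec168 : XT := (XT.nd (nat_lit 1950) (nat_lit 1976) (nat_lit 0) (XT.nd (nat_lit 936) (nat_lit 988) (nat_lit 0) (XT.nd (nat_lit 468) (nat_lit 456) (nat_lit 0) (XT.nd (nat_lit 234) (nat_lit 228) (nat_lit 0) (XT.nd (nat_lit 78) (nat_lit 152) (nat_lit 0) (XT.lf (nat_lit 76) (nat_lit 939062206) (nat_lit 0) (nat_lit 1428977744) (nat_lit 76) (nat_lit 1428977744) (nat_lit 152) (nat_lit 3) (nat_lit 151) (nat_lit 1) (nat_lit 152) (nat_lit 1) (nat_lit 368) (nat_lit 378) (nat_lit 274)) (XT.nd (nat_lit 78) (nat_lit 0) (nat_lit 0) (XT.lf (nat_lit 152) (nat_lit 3435114988) (nat_lit 0) (nat_lit 150511685) (nat_lit 76) (nat_lit 150511685) (nat_lit 151) (nat_lit 1) (nat_lit 149) (nat_lit 1) (nat_lit 150) (nat_lit 1) (nat_lit 369) (nat_lit 378) (nat_lit 273)) (XT.lf (nat_lit 0) (nat_lit 1083856942) (nat_lit 0) (nat_lit 1507064404) (nat_lit 152) (nat_lit 1083856942) (nat_lit 149) (nat_lit 3) (nat_lit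 149) (nat_lit 1) (nat_lit 151) (nat_lit 1) (nat_lit 370) (nat_lit 378) (nat_lit 272)))) (XT.nd (nat_lit 78) (nat_lit 152) (nat_lit 0) (XT.lf (nat_lit 76) (nat_lit 936357725) (nat_lit 0) (nat_lit 1339412451) (nat_lit 76) (nat_lit 1339412451) (nat_lit 149) (nat_lit 3) (nat_lit 148) (nat_lit 1) (nat_lit 149) (nat_lit 1) (nat_lit 371) (nat_lit 378) (nat_lit 271)) (XT.nd (nat_lit 78) (nat_lit 0) (nat_lit 0) (XT.lf (nat_lit 152) (nat_lit 3309644902) (nat_lit 0) (nat_lit 123826336) (nat_lit 76) (nat_lit 123826336) (nat_lit 148) (nat_lit 1) (nat_lit 146) (nat_lit 1) (nat_lit 147) (nat_lit 1) (nat_lit 372) (nat_lit 378) (nat_lit 270)) (XT.lf (nat_lit 0) (nat_lit 1050238444) (nat_lit 0) (nat_lit 1398412270) (nat_lit 152) (nat_lit 1050238444) (nat_lit 146) (nat_lit 3) (nat_lit 146) (nat_lit 1) (nat_lit 148) (nat_lit 1) (nat_lit 373) (nat_lit 378) (nat_lit 269))))) (XT.nd (nat_lit 234) (nat_lit 228) (nat_lit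 0) (XT.nd (nat_lit 78) (nat_lit 152) (nat_lit 0) (XT.lf (nat_lit 76) (nat_lit 926333269) (nat_lit 0) (nat_lit 1257927389) (nat_lit 76) (nat_lit 1257927389) (nat_lit 146) (nat_lit 3) (nat_lit 145) (nat_lit 1) (nat_lit 146) (nat_lit 1) (nat_lit 374) (nat_lit 378) (nat_lit 268)) (XT.nd (nat_lit 78) (nat_lit 0) (nat_lit 0) (XT.lf (nat_lit 152) (nat_lit 3183393337) (nat_lit 0) (nat_lit 101872233) (nat_lit 76) (nat_lit 101872233) (nat_lit 145) (nat_lit 1) (nat_lit 143) (nat_lit 1) (nat_lit 144) (nat_lit 1) (nat_lit 375) (nat_lit 378) (nat_lit 267)) (XT.lf (nat_lit 0) (nat_lit 1015030582) (nat_lit 0) (nat_lit 1301474050) (nat_lit 152) (nat_lit 1015030582) (nat_lit 143) (nat_lit 3) (nat_lit 143) (nat_lit 1) (nat_lit 145) (nat_lit 1) (nat_lit 376) (nat_lit 378) (nat_lit 266)))) (XT.nd (nat_lit 78) (nat_lit 152) (nat_lit 0) (XT.lf (nat_lit 76) (nat_lit 910658056) (nat_lit 0) (nat_lit 1183461359) (nat_lit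 76) (nat_lit 1183461359) (nat_lit 143) (nat_lit 3) (nat_lit 142) (nat_lit 1) (nat_lit 143) (nat_lit 1) (nat_lit 377) (nat_lit 378) (nat_lit 265)) (XT.nd (nat_lit 78) (nat_lit 0) (nat_lit 0) (XT.lf (nat_lit 152) (nat_lit 3057595372) (nat_lit 0) (nat_lit 83810538) (nat_lit 76) (nat_lit 83810538) (nat_lit 142) (nat_lit 1) (nat_lit 140) (nat_lit 1) (nat_lit 141) (nat_lit 1) (nat_lit 378) (nat_lit 378) (nat_lit 264)) (XT.lf (nat_lit 0) (nat_lit 978874662) (nat_lit 0) (nat_lit 1214532413) (nat_lit 152) (nat_lit 978874662) (nat_lit 140) (nat_lit 3) (nat_lit 140) (nat_lit 1) (nat_lit 142) (nat_lit 1) (nat_lit 379) (nat_lit 378) (nat_lit 263)))))) (XT.nd (nat_lit 468) (nat_lit 532) (nat_lit 0) (XT.nd (nat_lit 234) (nat_lit 228) (nat_lit 0) (XT.nd (nat_lit 78) (nat_lit 152) (nat_lit 0) (XT.lf (nat_lit 76) (nat_lit 890687667) (nat_lit 0) (nat_lit 1115123620) (nat_lit 76) (nat_lit 1115123620) (nat_lit 140)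 (nat_lit 3) (nat_lit 139) (nat_lit 1) (nat_lit 140) (nat_lit 1) (nat_lit 380) (nat_lit 378) (nat_lit 262)) (XT.nd (nat_lit 78) (nat_lit 0) (nat_lit 0) (XT.lf (nat_lit 152) (nat_lit 2933214895) (nat_lit 0) (nat_lit 68951137) (nat_lit 76) (nat_lit 68951137) (nat_lit 139) (nat_lit 1) (nat_lit 137) (nat_lit 1) (nat_lit 138) (nat_lit 1) (nat_lit 381) (nat_lit 378) (nat_lit 261)) (XT.lf (nat_lit 0) (nat_lit 942281170) (nat_lit 0) (nat_lit 1136157384) (nat_lit 152) (nat_lit 942281170) (nat_lit 137) (nat_lit 3) (nat_lit 137) (nat_lit 1) (nat_lit 139) (nat_lit 1) (nat_lit 382) (nat_lit 378) (nat_lit 260)))) (XT.nd (nat_lit 78) (nat_lit 152) (nat_lit 0) (XT.lf (nat_lit 76) (nat_lit 867520501) (nat_lit 0) (nat_lit 1052164515) (nat_lit 76) (nat_lit 1052164515) (nat_lit 137) (nat_lit 3) (nat_lit 136) (nat_lit 1) (nat_lit 137) (nat_lit 1) (nat_lit 383) (nat_lit 378) (nat_lit 259)) (XT.nd (nat_lit 78) (nat_lit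 0) (nat_lit 0) (XT.lf (nat_lit 152) (nat_lit 2810995167) (nat_lit 0) (nat_lit 56726271) (nat_lit 76) (nat_lit 56726271) (nat_lit 136) (nat_lit 1) (nat_lit 134) (nat_lit 1) (nat_lit 135) (nat_lit 1) (nat_lit 384) (nat_lit 378) (nat_lit 258)) (XT.lf (nat_lit 0) (nat_lit 905653776) (nat_lit 0) (nat_lit 1065156217) (nat_lit 152) (nat_lit 905653776) (nat_lit 134) (nat_lit 3) (nat_lit 134) (nat_lit 1) (nat_lit 136) (nat_lit 1) (nat_lit 385) (nat_lit 378) (nat_lit 257))))) (XT.nd (nat_lit 234) (nat_lit 304) (nat_lit 0) (XT.nd (nat_lit 78) (nat_lit 152) (nat_lit 0) (XT.lf (nat_lit 76) (nat_lit 842044171) (nat_lit 0) (nat_lit 993951258) (nat_lit 76) (nat_lit 993951258) (nat_lit 134) (nat_lit 3) (nat_lit 133) (nat_lit 1) (nat_lit 134) (nat_lit 1) (nat_lit 386) (nat_lit 378) (nat_lit 256)) (XT.nd (nat_lit 78) (nat_lit 0) (nat_lit 0) (XT.lf (nat_lit 152) (nat_lit 2691500314) (nat_lit 0) (nat_lit 46668843)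 (nat_lit 76) (nat_lit 46668843) (nat_lit 133) (nat_lit 1) (nat_lit 131) (nat_lit 1) (nat_lit 132) (nat_lit 1) (nat_lit 387) (nat_lit 378) (nat_lit 255)) (XT.lf (nat_lit 0) (nat_lit 869309056) (nat_lit 0) (nat_lit 1000532109) (nat_lit 152) (nat_lit 869309056) (nat_lit 131) (nat_lit 3) (nat_lit 131) (nat_lit 1) (nat_lit 133) (nat_lit 1) (nat_lit 388) (nat_lit 378) (nat_lit 254)))) (XT.nd (nat_lit 156) (nat_lit 76) (nat_lit 0) (XT.nd (nat_lit 78) (nat_lit 152) (nat_lit 0) (XT.lf (nat_lit 76) (nat_lit 814973640) (nat_lit 0) (nat_lit 939947977) (nat_lit 76) (nat_lit 939947977) (nat_lit 131) (nat_lit 3) (nat_lit 130) (nat_lit 1) (nat_lit 131) (nat_lit 1) (nat_lit 389) (nat_lit 378) (nat_lit 253)) (XT.lf (nat_lit 152) (nat_lit 2575149333) (nat_lit 0) (nat_lit 38394573) (nat_lit 76) (nat_lit 38394573) (nat_lit 130) (nat_lit 1) (nat_lit 128) (nat_lit 1) (nat_lit 129) (nat_lit 1) (nat_lit 390) (nat_lit 378)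 (nat_lit 252))) (XT.nd (nat_lit 78) (nat_lit 76) (nat_lit 0) (XT.lf (nat_lit 0) (nat_lit 833492667) (nat_lit 0) (nat_lit 941450198) (nat_lit 152) (nat_lit 833492667) (nat_lit 128) (nat_lit 3) (nat_lit 128) (nat_lit 1) (nat_lit 130) (nat_lit 1) (nat_lit 391) (nat_lit 378) (nat_lit 251)) (XT.lf (nat_lit 76) (nat_lit 786882561) (nat_lit 0) (nat_lit 889699257) (nat_lit 76) (nat_lit 889699257) (nat_lit 128) (nat_lit 3) (nat_lit 127) (nat_lit 1) (nat_lit 128) (nat_lit 1) (nat_lit 392) (nat_lit 378) (nat_lit 250))))))) (XT.nd (nat_lit 936) (nat_lit 1064) (nat_lit 0) (XT.nd (nat_lit 468) (nat_lit 456) (nat_lit 0) (XT.nd (nat_lit 234) (nat_lit 228) (nat_lit 0) (XT.nd (nat_lit 78) (nat_lit 76) (nat_lit 0) (XT.lf (nat_lit 152) (nat_lit 2462243981) (nat_lit 0) (nat_lit 31587310) (nat_lit 76) (nat_lit 31587310) (nat_lit 127) (nat_lit 1) (nat_lit 125) (nat_lit 1) (nat_lit 126) (nat_lit 1) (nat_lit 393) (nat_lit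 378) (nat_lit 249)) (XT.nd (nat_lit 78) (nat_lit 76) (nat_lit 0) (XT.lf (nat_lit 0) (nat_lit 798392628) (nat_lit 0) (nat_lit 887209556) (nat_lit 152) (nat_lit 798392628) (nat_lit 125) (nat_lit 3) (nat_lit 125) (nat_lit 1) (nat_lit 127) (nat_lit 1) (nat_lit 394) (nat_lit 378) (nat_lit 248)) (XT.lf (nat_lit 76) (nat_lit 758229021) (nat_lit 0) (nat_lit 842816571) (nat_lit 76) (nat_lit 842816571) (nat_lit 125) (nat_lit 3) (nat_lit 124) (nat_lit 1) (nat_lit 125) (nat_lit 1) (nat_lit 395) (nat_lit 378) (nat_lit 247)))) (XT.nd (nat_lit 78) (nat_lit 76) (nat_lit 0) (XT.lf (nat_lit 152) (nat_lit 2352991600) (nat_lit 0) (nat_lit 25986958) (nat_lit 76) (nat_lit 25986958) (nat_lit 124) (nat_lit 1) (nat_lit 122) (nat_lit 1) (nat_lit 123) (nat_lit 1) (nat_lit 396) (nat_lit 378) (nat_lit 246)) (XT.nd (nat_lit 78) (nat_lit 76) (nat_lit 0) (XT.lf (nat_lit 0) (nat_lit 764150208) (nat_lit 0) (nat_lit 837220115) (nat_lit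 152) (nat_lit 764150208) (nat_lit 122) (nat_lit 3) (nat_lit 122) (nat_lit 1) (nat_lit 124) (nat_lit 1) (nat_lit 397) (nat_lit 378) (nat_lit 245)) (XT.lf (nat_lit 76) (nat_lit 729376693) (nat_lit 0) (nat_lit 798967080) (nat_lit 76) (nat_lit 798967080) (nat_lit 122) (nat_lit 3) (nat_lit 121) (nat_lit 1) (nat_lit 122) (nat_lit 1) (nat_lit 398) (nat_lit 378) (nat_lit 244))))) (XT.nd (nat_lit 234) (nat_lit 228) (nat_lit 0) (XT.nd (nat_lit 78) (nat_lit 76) (nat_lit 0) (XT.lf (nat_lit 152) (nat_lit 2247523805) (nat_lit 0) (nat_lit 21379535) (nat_lit 76) (nat_lit 21379535) (nat_lit 121) (nat_lit 1) (nat_lit 119) (nat_lit 1) (nat_lit 120) (nat_lit 1) (nat_lit 399) (nat_lit 378) (nat_lit 243)) (XT.nd (nat_lit 78) (nat_lit 76) (nat_lit 0) (XT.lf (nat_lit 0) (nat_lit 730868855) (nat_lit 0) (nat_lit 790983648) (nat_lit 152) (nat_lit 730868855) (nat_lit 119) (nat_lit 3) (nat_lit 119) (nat_lit 1) (nat_lit 121)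 (nat_lit 1) (nat_lit 400) (nat_lit 378) (nat_lit 242)) (XT.lf (nat_lit 76) (nat_lit 700612202) (nat_lit 0) (nat_lit 757864385) (nat_lit 76) (nat_lit 757864385) (nat_lit 119) (nat_lit 3) (nat_lit 118) (nat_lit 1) (nat_lit 119) (nat_lit 1) (nat_lit 401) (nat_lit 378) (nat_lit 241)))) (XT.nd (nat_lit 78) (nat_lit 76) (nat_lit 0) (XT.lf (nat_lit 152) (nat_lit 2145911771) (nat_lit 0) (nat_lit 17588996) (nat_lit 76) (nat_lit 17588996) (nat_lit 118) (nat_lit 1) (nat_lit 116) (nat_lit 1) (nat_lit 117) (nat_lit 1) (nat_lit 402) (nat_lit 378) (nat_lit 240)) (XT.nd (nat_lit 78) (nat_lit 76) (nat_lit 0) (XT.lf (nat_lit 0) (nat_lit 698621509) (nat_lit 0) (nat_lit 748078098) (nat_lit 152) (nat_lit 698621509) (nat_lit 116) (nat_lit 3) (nat_lit 116) (nat_lit 1) (nat_lit 118) (nat_lit 1) (nat_lit 403) (nat_lit 378) (nat_lit 239)) (XT.lf (nat_lit 76) (nat_lit 672159384) (nat_lit 0) (nat_lit 719260897) (nat_lit 76)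 (nat_lit 719260897) (nat_lit 116) (nat_lit 3) (nat_lit 115) (nat_lit 1) (nat_lit 116) (nat_lit 1) (nat_lit 404) (nat_lit 378) (nat_lit 238)))))) (XT.nd (nat_lit 468) (nat_lit 608) (nat_lit 0) (XT.nd (nat_lit 234) (nat_lit 228) (nat_lit 0) (XT.nd (nat_lit 78) (nat_lit 76) (nat_lit 0) (XT.lf (nat_lit 152) (nat_lit 2048178710) (nat_lit 0) (nat_lit 14470510) (nat_lit 76) (nat_lit 14470510) (nat_lit 115) (nat_lit 1) (nat_lit 113) (nat_lit 1) (nat_lit 114) (nat_lit 1) (nat_lit 405) (nat_lit 378) (nat_lit 237)) (XT.nd (nat_lit 78) (nat_lit 76) (nat_lit 0) (XT.lf (nat_lit 0) (nat_lit 667456590) (nat_lit 0) (nat_lit 708144648) (nat_lit 152) (nat_lit 667456590) (nat_lit 113) (nat_lit 3) (nat_lit 113) (nat_lit 1) (nat_lit 115) (nat_lit 1) (nat_lit 406) (nat_lit 378) (nat_lit 236)) (XT.lf (nat_lit 76) (nat_lit 644190990) (nat_lit 0) (nat_lit 682941522) (nat_lit 76) (nat_lit 682941522) (nat_lit 113) (nat_lit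 3) (nat_lit 112) (nat_lit 1) (nat_lit 113) (nat_lit 1) (nat_lit 407) (nat_lit 378) (nat_lit 235)))) (XT.nd (nat_lit 78) (nat_lit 76) (nat_lit 0) (XT.lf (nat_lit 152) (nat_lit 1954310060) (nat_lit 0) (nat_lit 11904925) (nat_lit 76) (nat_lit 11904925) (nat_lit 112) (nat_lit 1) (nat_lit 110) (nat_lit 1) (nat_lit 111) (nat_lit 1) (nat_lit 408) (nat_lit 378) (nat_lit 234)) (XT.nd (nat_lit 78) (nat_lit 76) (nat_lit 0) (XT.lf (nat_lit 0) (nat_lit 637402899) (nat_lit 0) (nat_lit 670877065) (nat_lit 152) (nat_lit 637402899) (nat_lit 110) (nat_lit 3) (nat_lit 110) (nat_lit 1) (nat_lit 112) (nat_lit 1) (nat_lit 409) (nat_lit 378) (nat_lit 233)) (XT.lf (nat_lit 76) (nat_lit 616838285) (nat_lit 0) (nat_lit 648718443) (nat_lit 76) (nat_lit 648718443) (nat_lit 110) (nat_lit 3) (nat_lit 109) (nat_lit 1) (nat_lit 110) (nat_lit 1) (nat_lit 410) (nat_lit 378) (nat_lit 232))))) (XT.nd (nat_lit 234) (nat_lit 380) (nat_lit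 0) (XT.nd (nat_lit 78) (nat_lit 76) (nat_lit 0) (XT.lf (nat_lit 152) (nat_lit 1864261787) (nat_lit 0) (nat_lit 9794211) (nat_lit 76) (nat_lit 9794211) (nat_lit 109) (nat_lit 1) (nat_lit 107) (nat_lit 1) (nat_lit 108) (nat_lit 1) (nat_lit 411) (nat_lit 378) (nat_lit 231)) (XT.nd (nat_lit 78) (nat_lit 76) (nat_lit 0) (XT.lf (nat_lit 0) (nat_lit 608473619) (nat_lit 0) (nat_lit 636012898) (nat_lit 152) (nat_lit 608473619) (nat_lit 107) (nat_lit 3) (nat_lit 107) (nat_lit 1) (nat_lit 109) (nat_lit 1) (nat_lit 412) (nat_lit 378) (nat_lit 230)) (XT.lf (nat_lit 76) (nat_lit 590198920) (nat_lit 0) (nat_lit 616426805) (nat_lit 76) (nat_lit 616426805) (nat_lit 107) (nat_lit 3) (nat_lit 106) (nat_lit 1) (nat_lit 107) (nat_lit 1) (nat_lit 413) (nat_lit 378) (nat_lit 229)))) (XT.nd (nat_lit 156) (nat_lit 228) (nat_lit 0) (XT.nd (nat_lit 78) (nat_lit 0) (nat_lit 0) (XT.lf (nat_lit 152) (nat_lit 1777967132) (nat_lit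 0) (nat_lit 8057721) (nat_lit 76) (nat_lit 8057721) (nat_lit 106) (nat_lit 1) (nat_lit 104) (nat_lit 1) (nat_lit 105) (nat_lit 1) (nat_lit 414) (nat_lit 378) (nat_lit 228)) (XT.lf (nat_lit 0) (nat_lit 580669587) (nat_lit 0) (nat_lit 603326220) (nat_lit 152) (nat_lit 580669587) (nat_lit 104) (nat_lit 3) (nat_lit 104) (nat_lit 1) (nat_lit 106) (nat_lit 1) (nat_lit 415) (nat_lit 378) (nat_lit 227))) (XT.nd (nat_lit 78) (nat_lit 152) (nat_lit 0) (XT.lf (nat_lit 76) (nat_lit 564343385) (nat_lit 0) (nat_lit 585921131) (nat_lit 76) (nat_lit 585921131) (nat_lit 104) (nat_lit 3) (nat_lit 103) (nat_lit 1) (nat_lit 104) (nat_lit 1) (nat_lit 416) (nat_lit 378) (nat_lit 226)) (XT.lf (nat_lit 152) (nat_lit 1695342099) (nat_lit 0) (nat_lit 6629107) (nat_lit 76) (nat_lit 6629107) (nat_lit 103) (nat_lit 1) (nat_lit 101) (nat_lit 1) (nat_lit 102) (nat_lit 1) (nat_lit 417) (nat_lit 378) (nat_lit 225))))))))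
noncomputable def ec169 : XT := (XT.nd (nat_lit 1950) (nat_lit 456) (nat_lit 0) (XT.nd (nat_lit 936) (nat_lit 912) (nat_lit 0) (XT.nd (nat_lit 468) (nat_lit 456) (nat_lit 0) (XT.nd (nat_lit 234) (nat_lit 228) (nat_lit 0) (XT.nd (nat_lit 78) (nat_lit 228) (nat_lit 0) (XT.lf (nat_lit 0) (nat_lit 553981958) (nat_lit 0) (nat_lit 572621627) (nat_lit 152) (nat_lit 553981958) (nat_lit 101) (nat_lit 3) (nat_lit 101) (nat_lit 1) (nat_lit 103) (nat_lit 1) (nat_lit 418) (nat_lit 378) (nat_lit 224)) (XT.nd (nat_lit 78) (nat_lit 152) (nat_lit 0) (XT.lf (nat_lit 76) (nat_lit 539320293) (nat_lit 0) (nat_lit 557072358) (nat_lit 76) (nat_lit 557072358) (nat_lit 101) (nat_lit 3) (nat_lit 100) (nat_lit 1) (nat_lit 101) (nat_lit 1) (nat_lit 419) (nat_lit 378) (nat_lit 223)) (XT.lf (nat_lit 152) (nat_lit 1616289892) (nat_lit 0) (nat_lit 5453783) (nat_lit 76) (nat_lit 5453783) (nat_lit 100) (nat_lit 1) (nat_lit 98)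 (nat_lit 1) (nat_lit 99) (nat_lit 1) (nat_lit 420) (nat_lit 378) (nat_lit 222)))) (XT.nd (nat_lit 78) (nat_lit 228) (nat_lit 0) (XT.lf (nat_lit 0) (nat_lit 528394378) (nat_lit 0) (nat_lit 543729279) (nat_lit 152) (nat_lit 528394378) (nat_lit 98) (nat_lit 3) (nat_lit 98) (nat_lit 1) (nat_lit 100) (nat_lit 1) (nat_lit 421) (nat_lit 378) (nat_lit 221)) (XT.nd (nat_lit 78) (nat_lit 152) (nat_lit 0) (XT.lf (nat_lit 76) (nat_lit 515160705) (nat_lit 0) (nat_lit 529765373) (nat_lit 76) (nat_lit 529765373) (nat_lit 98) (nat_lit 3) (nat_lit 97) (nat_lit 1) (nat_lit 98) (nat_lit 1) (nat_lit 422) (nat_lit 378) (nat_lit 220)) (XT.lf (nat_lit 152) (nat_lit 1540704505) (nat_lit 0) (nat_lit 4486841) (nat_lit 76) (nat_lit 4486841) (nat_lit 97) (nat_lit 1) (nat_lit 95) (nat_lit 1) (nat_lit 96) (nat_lit 1) (nat_lit 423) (nat_lit 378) (nat_lit 219))))) (XT.nd (nat_lit 234) (nat_lit 228) (nat_lit 0) (XT.nd (nat_lit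 78) (nat_lit 228) (nat_lit 0) (XT.lf (nat_lit 0) (nat_lit 503884743) (nat_lit 0) (nat_lit 516500804) (nat_lit 152) (nat_lit 503884743) (nat_lit 95) (nat_lit 3) (nat_lit 95) (nat_lit 1) (nat_lit 97) (nat_lit 1) (nat_lit 424) (nat_lit 378) (nat_lit 218)) (XT.nd (nat_lit 78) (nat_lit 152) (nat_lit 0) (XT.lf (nat_lit 76) (nat_lit 491881668) (nat_lit 0) (nat_lit 503896964) (nat_lit 76) (nat_lit 503896964) (nat_lit 95) (nat_lit 3) (nat_lit 94) (nat_lit 1) (nat_lit 95) (nat_lit 1) (nat_lit 425) (nat_lit 378) (nat_lit 217)) (XT.lf (nat_lit 152) (nat_lit 1468473610) (nat_lit 0) (nat_lit 3691335) (nat_lit 76) (nat_lit 3691335) (nat_lit 94) (nat_lit 1) (nat_lit 92) (nat_lit 1) (nat_lit 93) (nat_lit 1) (nat_lit 426) (nat_lit 378) (nat_lit 216)))) (XT.nd (nat_lit 78) (nat_lit 228) (nat_lit 0) (XT.lf (nat_lit 0) (nat_lit 480426635) (nat_lit 0) (nat_lit 490805900) (nat_lit 152) (nat_lit 480426635) (nat_lit 92)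 (nat_lit 3) (nat_lit 92) (nat_lit 1) (nat_lit 94) (nat_lit 1) (nat_lit 427) (nat_lit 378) (nat_lit 215)) (XT.nd (nat_lit 78) (nat_lit 152) (nat_lit 0) (XT.lf (nat_lit 76) (nat_lit 469489104) (nat_lit 0) (nat_lit 479374118) (nat_lit 76) (nat_lit 479374118) (nat_lit 92) (nat_lit 3) (nat_lit 91) (nat_lit 1) (nat_lit 92) (nat_lit 1) (nat_lit 428) (nat_lit 378) (nat_lit 214)) (XT.lf (nat_lit 152) (nat_lit 1399480875) (nat_lit 0) (nat_lit 3036870) (nat_lit 76) (nat_lit 3036870) (nat_lit 91) (nat_lit 1) (nat_lit 89) (nat_lit 1) (nat_lit 90) (nat_lit 1) (nat_lit 429) (nat_lit 378) (nat_lit 213)))))) (XT.nd (nat_lit 468) (nat_lit 456) (nat_lit 0) (XT.nd (nat_lit 234) (nat_lit 228) (nat_lit 0) (XT.nd (nat_lit 78) (nat_lit 228) (nat_lit 0) (XT.lf (nat_lit 0) (nat_lit 457990477) (nat_lit 0) (nat_lit 466529524) (nat_lit 152) (nat_lit 457990477) (nat_lit 89) (nat_lit 3) (nat_lit 89) (nat_lit 1) (nat_lit 91)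 (nat_lit 1) (nat_lit 430) (nat_lit 378) (nat_lit 212)) (XT.nd (nat_lit 78) (nat_lit 152) (nat_lit 0) (XT.lf (nat_lit 76) (nat_lit 447980171) (nat_lit 0) (nat_lit 456112596) (nat_lit 76) (nat_lit 456112596) (nat_lit 89) (nat_lit 3) (nat_lit 88) (nat_lit 1) (nat_lit 89) (nat_lit 1) (nat_lit 431) (nat_lit 378) (nat_lit 211)) (XT.lf (nat_lit 152) (nat_lit 1333607808) (nat_lit 0) (nat_lit 2498441) (nat_lit 76) (nat_lit 2498441) (nat_lit 88) (nat_lit 1) (nat_lit 86) (nat_lit 1) (nat_lit 87) (nat_lit 1) (nat_lit 432) (nat_lit 378) (nat_lit 210)))) (XT.nd (nat_lit 78) (nat_lit 228) (nat_lit 0) (XT.lf (nat_lit 0) (nat_lit 436544466) (nat_lit 0) (nat_lit 443569561) (nat_lit 152) (nat_lit 436544466) (nat_lit 86) (nat_lit 3) (nat_lit 86) (nat_lit 1) (nat_lit 88) (nat_lit 1) (nat_lit 433) (nat_lit 378) (nat_lit 209)) (XT.nd (nat_lit 78) (nat_lit 152) (nat_lit 0) (XT.lf (nat_lit 76) (nat_lit 427345179) (nat_lit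 0) (nat_lit 434035745) (nat_lit 76) (nat_lit 434035745) (nat_lit 86) (nat_lit 3) (nat_lit 85) (nat_lit 1) (nat_lit 86) (nat_lit 1) (nat_lit 434) (nat_lit 378) (nat_lit 208)) (XT.lf (nat_lit 152) (nat_lit 1270735234) (nat_lit 0) (nat_lit 2055473) (nat_lit 76) (nat_lit 2055473) (nat_lit 85) (nat_lit 1) (nat_lit 83) (nat_lit 1) (nat_lit 84) (nat_lit 1) (nat_lit 435) (nat_lit 378) (nat_lit 207))))) (XT.nd (nat_lit 234) (nat_lit 228) (nat_lit 0) (XT.nd (nat_lit 78) (nat_lit 228) (nat_lit 0) (XT.lf (nat_lit 0) (nat_lit 416055324) (nat_lit 0) (nat_lit 421834887) (nat_lit 152) (nat_lit 416055324) (nat_lit 83) (nat_lit 3) (nat_lit 83) (nat_lit 1) (nat_lit 85) (nat_lit 1) (nat_lit 436) (nat_lit 378) (nat_lit 206)) (XT.nd (nat_lit 78) (nat_lit 152) (nat_lit 0) (XT.lf (nat_lit 76) (nat_lit 407569159) (nat_lit 0) (nat_lit 413073504) (nat_lit 76) (nat_lit 413073504) (nat_lit 83) (nat_lit 3) (nat_lit 82) (nat_lit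 1) (nat_lit 83) (nat_lit 1) (nat_lit 437) (nat_lit 378) (nat_lit 205)) (XT.lf (nat_lit 152) (nat_lit 1210744441) (nat_lit 0) (nat_lit 1691043) (nat_lit 76) (nat_lit 1691043) (nat_lit 82) (nat_lit 1) (nat_lit 80) (nat_lit 1) (nat_lit 81) (nat_lit 1) (nat_lit 438) (nat_lit 378) (nat_lit 204)))) (XT.nd (nat_lit 156) (nat_lit 152) (nat_lit 0) (XT.nd (nat_lit 78) (nat_lit 76) (nat_lit 0) (XT.lf (nat_lit 0) (nat_lit 396488898) (nat_lit 0) (nat_lit 401243759) (nat_lit 152) (nat_lit 396488898) (nat_lit 80) (nat_lit 3) (nat_lit 80) (nat_lit 1) (nat_lit 82) (nat_lit 1) (nat_lit 439) (nat_lit 378) (nat_lit 203)) (XT.lf (nat_lit 76) (nat_lit 388633129) (nat_lit 0) (nat_lit 393161568) (nat_lit 76) (nat_lit 393161568) (nat_lit 80) (nat_lit 3) (nat_lit 79) (nat_lit 1) (nat_lit 80) (nat_lit 1) (nat_lit 440) (nat_lit 378) (nat_lit 202))) (XT.nd (nat_lit 78) (nat_lit 0) (nat_lit 0) (XT.lf (nat_lit 152) (nat_lit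 1153518085) (nat_lit 0) (nat_lit 1391225) (nat_lit 76) (nat_lit 1391225) (nat_lit 79) (nat_lit 1) (nat_lit 77) (nat_lit 1) (nat_lit 78) (nat_lit 1) (nat_lit 441) (nat_lit 378) (nat_lit 201)) (XT.lf (nat_lit 0) (nat_lit 377810640) (nat_lit 0) (nat_lit 381722475) (nat_lit 152) (nat_lit 377810640) (nat_lit 77) (nat_lit 3) (nat_lit 77) (nat_lit 1) (nat_lit 79) (nat_lit 1) (nat_lit 442) (nat_lit 378) (nat_lit 200))))))) (XT.nd (nat_lit 39546) (nat_lit 0) (nat_lit 14820) (XT.nd (nat_lit 39000) (nat_lit 0) (nat_lit 16796) (XT.nd (nat_lit 234) (nat_lit 228) (nat_lit 0) (XT.nd (nat_lit 78) (nat_lit 152) (nat_lit 0) (XT.lf (nat_lit 76) (nat_lit 370515127) (nat_lit 0) (nat_lit 374240685) (nat_lit 76) (nat_lit 374240685) (nat_lit 77) (nat_lit 3) (nat_lit 76) (nat_lit 1) (nat_lit 77) (nat_lit 1) (nat_lit 443) (nat_lit 378) (nat_lit 199)) (XT.nd (nat_lit 78) (nat_lit 0) (nat_lit 0) (XT.lf (nat_lit 152) (nat_lit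 1098940886) (nat_lit 0) (nat_lit 1144564) (nat_lit 76) (nat_lit 1144564) (nat_lit 76) (nat_lit 1) (nat_lit 74) (nat_lit 1) (nat_lit 75) (nat_lit 1) (nat_lit 444) (nat_lit 378) (nat_lit 198)) (XT.lf (nat_lit 0) (nat_lit 359985978) (nat_lit 0) (nat_lit 363204255) (nat_lit 152) (nat_lit 359985978) (nat_lit 74) (nat_lit 3) (nat_lit 74) (nat_lit 1) (nat_lit 76) (nat_lit 1) (nat_lit 445) (nat_lit 378) (nat_lit 197)))) (XT.nd (nat_lit 78) (nat_lit 152) (nat_lit 0) (XT.lf (nat_lit 76) (nat_lit 353191035) (nat_lit 0) (nat_lit 356256061) (nat_lit 76) (nat_lit 356256061) (nat_lit 74) (nat_lit 3) (nat_lit 73) (nat_lit 1) (nat_lit 74) (nat_lit 1) (nat_lit 446) (nat_lit 378) (nat_lit 196)) (XT.nd (nat_lit 78) (nat_lit 0) (nat_lit 0) (XT.lf (nat_lit 152) (nat_lit 1046900150) (nat_lit 0) (nat_lit 941636) (nat_lit 76) (nat_lit 941636) (nat_lit 73) (nat_lit 1) (nat_lit 71) (nat_lit 1) (nat_lit 72) (nat_lit 1) (nat_lit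 447) (nat_lit 378) (nat_lit 195)) (XT.lf (nat_lit 0) (nat_lit 342980622) (nat_lit 0) (nat_lit 345628306) (nat_lit 152) (nat_lit 342980622) (nat_lit 71) (nat_lit 3) (nat_lit 71) (nat_lit 1) (nat_lit 73) (nat_lit 1) (nat_lit 448) (nat_lit 378) (nat_lit 194))))) (XT.nd (nat_lit 234) (nat_lit 0) (nat_lit 76) (XT.nd (nat_lit 78) (nat_lit 0) (nat_lit 0) (XT.lf (nat_lit 836) (nat_lit 3602735199) (nat_lit 0) (nat_lit 6396648065) (nat_lit 836) (nat_lit 3602735199) (nat_lit 303) (nat_lit 1) (nat_lit 292) (nat_lit 0) (nat_lit 303) (nat_lit 0) (nat_lit 262) (nat_lit 379) (nat_lit 379)) (XT.nd (nat_lit 78) (nat_lit 0) (nat_lit 76) (XT.lf (nat_lit 836) (nat_lit 13964651416) (nat_lit 76) (nat_lit 6293476322) (nat_lit 0) (nat_lit 6293476322) (nat_lit 303) (nat_lit 1) (nat_lit 293) (nat_lit 1) (nat_lit 292) (nat_lit 0) (nat_lit 263) (nat_lit 379) (nat_lit 378)) (XT.lf (nat_lit 836) (nat_lit 6655342599) (nat_lit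 0) (nat_lit 12608462383) (nat_lit 760) (nat_lit 6655342599) (nat_lit 304) (nat_lit 1) (nat_lit 293) (nat_lit 1) (nat_lit 303) (nat_lit 1) (nat_lit 264) (nat_lit 379) (nat_lit 377)))) (XT.nd (nat_lit 156) (nat_lit 0) (nat_lit 76) (XT.nd (nat_lit 78) (nat_lit 0) (nat_lit 76) (XT.lf (nat_lit 836) (nat_lit 12484497933) (nat_lit 76) (nat_lit 6411313113) (nat_lit 0) (nat_lit 6411313113) (nat_lit 304) (nat_lit 1) (nat_lit 294) (nat_lit 1) (nat_lit 293) (nat_lit 1) (nat_lit 265) (nat_lit 379) (nat_lit 376)) (XT.lf (nat_lit 836) (nat_lit 5746494509) (nat_lit 0) (nat_lit 13221509791) (nat_lit 760) (nat_lit 5746494509) (nat_lit 305) (nat_lit 1) (nat_lit 294) (nat_lit 1) (nat_lit 304) (nat_lit 1) (nat_lit 266) (nat_lit 379) (nat_lit 375))) (XT.nd (nat_lit 78) (nat_lit 0) (nat_lit 76) (XT.lf (nat_lit 836) (nat_lit 10335444655) (nat_lit 76) (nat_lit 6902247145) (nat_lit 0) (nat_lit 6902247145) (nat_lit 305)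 (nat_lit 1) (nat_lit 295) (nat_lit 1) (nat_lit 294) (nat_lit 1) (nat_lit 267) (nat_lit 379) (nat_lit 374)) (XT.lf (nat_lit 836) (nat_lit 4531793966) (nat_lit 0) (nat_lit 14521082878) (nat_lit 760) (nat_lit 4531793966) (nat_lit 306) (nat_lit 1) (nat_lit 295) (nat_lit 1) (nat_lit 305) (nat_lit 1) (nat_lit 268) (nat_lit 379) (nat_lit 373)))))) (XT.nd (nat_lit 468) (nat_lit 1064) (nat_lit 0) (XT.nd (nat_lit 234) (nat_lit 1140) (nat_lit 0) (XT.nd (nat_lit 78) (nat_lit 0) (nat_lit 76) (XT.lf (nat_lit 836) (nat_lit 7618084803) (nat_lit 76) (nat_lit 7713303154) (nat_lit 0) (nat_lit 7713303154) (nat_lit 306) (nat_lit 1) (nat_lit 296) (nat_lit 1) (nat_lit 295) (nat_lit 1) (nat_lit 269) (nat_lit 379) (nat_lit 372)) (XT.nd (nat_lit 78) (nat_lit 0) (nat_lit 0) (XT.lf (nat_lit 836) (nat_lit 3058264259) (nat_lit 0) (nat_lit 16407949229) (nat_lit 760) (nat_lit 3058264259) (nat_lit 307) (nat_lit 1) (nat_lit 296)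 (nat_lit 1) (nat_lit 306) (nat_lit 1) (nat_lit 270) (nat_lit 379) (nat_lit 371)) (XT.lf (nat_lit 836) (nat_lit 4421830572) (nat_lit 76) (nat_lit 8797301883) (nat_lit 0) (nat_lit 8797301883) (nat_lit 307) (nat_lit 1) (nat_lit 297) (nat_lit 1) (nat_lit 296) (nat_lit 1) (nat_lit 271) (nat_lit 379) (nat_lit 370)))) (XT.nd (nat_lit 78) (nat_lit 1292) (nat_lit 0) (XT.lf (nat_lit 76) (nat_lit 1367671751) (nat_lit 0) (nat_lit 18793788110) (nat_lit 760) (nat_lit 1367671751) (nat_lit 298) (nat_lit 1) (nat_lit 297) (nat_lit 1) (nat_lit 307) (nat_lit 1) (nat_lit 272) (nat_lit 379) (nat_lit 369)) (XT.nd (nat_lit 78) (nat_lit 532) (nat_lit 0) (XT.lf (nat_lit 836) (nat_lit 826039726) (nat_lit 0) (nat_lit 10112279750) (nat_lit 760) (nat_lit 10112279750) (nat_lit 298) (nat_lit 1) (nat_lit 287) (nat_lit 1) (nat_lit 297) (nat_lit 1) (nat_lit 273) (nat_lit 379) (nat_lit 368)) (XT.lf (nat_lit 532) (nat_lit 19602963007)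 (nat_lit 0) (nat_lit 494831240) (nat_lit 456) (nat_lit 494831240) (nat_lit 287) (nat_lit 1) (nat_lit 280) (nat_lit 1) (nat_lit 286) (nat_lit 1) (nat_lit 274) (nat_lit 379) (nat_lit 367))))) (XT.nd (nat_lit 234) (nat_lit 684) (nat_lit 0) (XT.nd (nat_lit 78) (nat_lit 380) (nat_lit 0) (XT.lf (nat_lit 76) (nat_lit 8570381309) (nat_lit 0) (nat_lit 2999780413) (nat_lit 532) (nat_lit 8570381309) (nat_lit 281) (nat_lit 1) (nat_lit 280) (nat_lit 1) (nat_lit 287) (nat_lit 1) (nat_lit 275) (nat_lit 379) (nat_lit 366)) (XT.nd (nat_lit 78) (nat_lit 0) (nat_lit 0) (XT.lf (nat_lit 456) (nat_lit 14747426311) (nat_lit 0) (nat_lit 2480129009) (nat_lit 380) (nat_lit 2480129009) (nat_lit 281) (nat_lit 1) (nat_lit 275) (nat_lit 1) (nat_lit 280) (nat_lit 1) (nat_lit 276) (nat_lit 379) (nat_lit 365)) (XT.lf (nat_lit 76) (nat_lit 6113148656) (nat_lit 0) (nat_lit 7057628203) (nat_lit 456) (nat_lit 6113148656) (nat_lit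 276) (nat_lit 1) (nat_lit 275) (nat_lit 1) (nat_lit 281) (nat_lit 1) (nat_lit 277) (nat_lit 379) (nat_lit 364)))) (XT.nd (nat_lit 156) (nat_lit 304) (nat_lit 0) (XT.nd (nat_lit 78) (nat_lit 0) (nat_lit 0) (XT.lf (nat_lit 456) (nat_lit 9711389363) (nat_lit 0) (nat_lit 4581767862) (nat_lit 380) (nat_lit 4581767862) (nat_lit 276) (nat_lit 1) (nat_lit 270) (nat_lit 1) (nat_lit 275) (nat_lit 1) (nat_lit 278) (nat_lit 379) (nat_lit 363)) (XT.lf (nat_lit 76) (nat_lit 3578517915) (nat_lit 0) (nat_lit 11320783938) (nat_lit 456) (nat_lit 3578517915) (nat_lit 271) (nat_lit 1) (nat_lit 270) (nat_lit 1) (nat_lit 276) (nat_lit 1) (nat_lit 279) (nat_lit 379) (nat_lit 362))) (XT.nd (nat_lit 78) (nat_lit 0) (nat_lit 0) (XT.lf (nat_lit 380) (nat_lit 4541724892) (nat_lit 0) (nat_lit 6774602209) (nat_lit 304) (nat_lit 6774602209) (nat_lit 271) (nat_lit 1) (nat_lit 266) (nat_lit 1) (nat_lit 270) (nat_lit 1) (nat_lit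 280) (nat_lit 379) (nat_lit 361)) (XT.lf (nat_lit 76) (nat_lit 988249031) (nat_lit 0) (nat_lit 15742418691) (nat_lit 380) (nat_lit 988249031) (nat_lit 267) (nat_lit 1) (nat_lit 266) (nat_lit 1) (nat_lit 271) (nat_lit 1) (nat_lit 281) (nat_lit 379) (nat_lit 360))))))))
noncomputable def ec170 : XT := (XT.nd (nat_lit 1950) (nat_lit 2204) (nat_lit 0) (XT.nd (nat_lit 936) (nat_lit 1596) (nat_lit 0) (XT.nd (nat_lit 468) (nat_lit 1140) (nat_lit 0) (XT.nd (nat_lit 234) (nat_lit 532) (nat_lit 0) (XT.nd (nat_lit 78) (nat_lit 304) (nat_lit 0) (XT.lf (nat_lit 76) (nat_lit 8327270312) (nat_lit 0) (nat_lit 697425064) (nat_lit 380) (nat_lit 8327270312) (nat_lit 262) (nat_lit 1) (nat_lit 261) (nat_lit 1) (nat_lit 266) (nat_lit 1) (nat_lit 282) (nat_lit 379) (nat_lit 359)) (XT.nd (nat_lit 78) (nat_lit 0) (nat_lit 0) (XT.lf (nat_lit 380) (nat_lit 13774618321) (nat_lit 0) (nat_lit 1612185350) (nat_lit 304) (nat_lit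 1612185350) (nat_lit 262) (nat_lit 1) (nat_lit 257) (nat_lit 1) (nat_lit 261) (nat_lit 1) (nat_lit 283) (nat_lit 379) (nat_lit 358)) (XT.lf (nat_lit 76) (nat_lit 5403010879) (nat_lit 0) (nat_lit 5846045987) (nat_lit 380) (nat_lit 5403010879) (nat_lit 258) (nat_lit 1) (nat_lit 257) (nat_lit 1) (nat_lit 262) (nat_lit 1) (nat_lit 284) (nat_lit 379) (nat_lit 357)))) (XT.nd (nat_lit 78) (nat_lit 228) (nat_lit 0) (XT.lf (nat_lit 380) (nat_lit 7884495874) (nat_lit 0) (nat_lit 4216340303) (nat_lit 304) (nat_lit 4216340303) (nat_lit 258) (nat_lit 1) (nat_lit 253) (nat_lit 1) (nat_lit 257) (nat_lit 1) (nat_lit 285) (nat_lit 379) (nat_lit 356)) (XT.nd (nat_lit 78) (nat_lit 228) (nat_lit 0) (XT.lf (nat_lit 76) (nat_lit 2486418119) (nat_lit 0) (nat_lit 11019241227) (nat_lit 380) (nat_lit 2486418119) (nat_lit 254) (nat_lit 1) (nat_lit 253) (nat_lit 1) (nat_lit 258) (nat_lit 1) (nat_lit 286) (nat_lit 379) (nat_lit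 355)) (XT.lf (nat_lit 304) (nat_lit 2022097365) (nat_lit 0) (nat_lit 6825949336) (nat_lit 228) (nat_lit 6825949336) (nat_lit 254) (nat_lit 1) (nat_lit 250) (nat_lit 1) (nat_lit 253) (nat_lit 1) (nat_lit 287) (nat_lit 379) (nat_lit 354))))) (XT.nd (nat_lit 234) (nat_lit 532) (nat_lit 0) (XT.nd (nat_lit 78) (nat_lit 228) (nat_lit 0) (XT.lf (nat_lit 380) (nat_lit 14560156877) (nat_lit 0) (nat_lit 404016415) (nat_lit 304) (nat_lit 404016415) (nat_lit 250) (nat_lit 1) (nat_lit 245) (nat_lit 1) (nat_lit 249) (nat_lit 1) (nat_lit 288) (nat_lit 379) (nat_lit 353)) (XT.nd (nat_lit 78) (nat_lit 228) (nat_lit 0) (XT.lf (nat_lit 76) (nat_lit 5697497027) (nat_lit 0) (nat_lit 3669081924) (nat_lit 380) (nat_lit 5697497027) (nat_lit 246) (nat_lit 1) (nat_lit 245) (nat_lit 1) (nat_lit 250) (nat_lit 1) (nat_lit 289) (nat_lit 379) (nat_lit 352)) (XT.lf (nat_lit 304) (nat_lit 8321374531) (nat_lit 0) (nat_lit 3225125645)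 (nat_lit 228) (nat_lit 3225125645) (nat_lit 246) (nat_lit 1) (nat_lit 242) (nat_lit 1) (nat_lit 245) (nat_lit 1) (nat_lit 290) (nat_lit 379) (nat_lit 351)))) (XT.nd (nat_lit 78) (nat_lit 532) (nat_lit 0) (XT.lf (nat_lit 76) (nat_lit 2628850932) (nat_lit 0) (nat_lit 9228903998) (nat_lit 304) (nat_lit 2628850932) (nat_lit 243) (nat_lit 1) (nat_lit 242) (nat_lit 1) (nat_lit 246) (nat_lit 1) (nat_lit 291) (nat_lit 379) (nat_lit 350)) (XT.nd (nat_lit 78) (nat_lit 304) (nat_lit 0) (XT.lf (nat_lit 304) (nat_lit 2191065084) (nat_lit 0) (nat_lit 6008502473) (nat_lit 228) (nat_lit 6008502473) (nat_lit 243) (nat_lit 1) (nat_lit 239) (nat_lit 1) (nat_lit 242) (nat_lit 1) (nat_lit 292) (nat_lit 379) (nat_lit 349)) (XT.lf (nat_lit 304) (nat_lit 13186767824) (nat_lit 0) (nat_lit 376557168) (nat_lit 228) (nat_lit 376557168) (nat_lit 239) (nat_lit 1) (nat_lit 235) (nat_lit 1) (nat_lit 238) (nat_lit 1) (nat_lit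 293) (nat_lit 379) (nat_lit 348)))))) (XT.nd (nat_lit 468) (nat_lit 912) (nat_lit 0) (XT.nd (nat_lit 234) (nat_lit 456) (nat_lit 0) (XT.nd (nat_lit 78) (nat_lit 228) (nat_lit 0) (XT.lf (nat_lit 76) (nat_lit 4988176622) (nat_lit 0) (nat_lit 3696188790) (nat_lit 304) (nat_lit 4988176622) (nat_lit 236) (nat_lit 1) (nat_lit 235) (nat_lit 1) (nat_lit 239) (nat_lit 1) (nat_lit 294) (nat_lit 379) (nat_lit 347)) (XT.nd (nat_lit 78) (nat_lit 0) (nat_lit 0) (XT.lf (nat_lit 304) (nat_lit 6859199603) (nat_lit 0) (nat_lit 3277946967) (nat_lit 228) (nat_lit 3277946967) (nat_lit 236) (nat_lit 1) (nat_lit 232) (nat_lit 1) (nat_lit 235) (nat_lit 1) (nat_lit 295) (nat_lit 379) (nat_lit 346)) (XT.lf (nat_lit 76) (nat_lit 1889017976) (nat_lit 0) (nat_lit 9386513973) (nat_lit 304) (nat_lit 1889017976) (nat_lit 233) (nat_lit 1) (nat_lit 232) (nat_lit 1) (nat_lit 236) (nat_lit 1) (nat_lit 296) (nat_lit 379) (nat_lit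 345)))) (XT.nd (nat_lit 78) (nat_lit 304) (nat_lit 0) (XT.lf (nat_lit 228) (nat_lit 692198995) (nat_lit 0) (nat_lit 6113264332) (nat_lit 152) (nat_lit 6113264332) (nat_lit 233) (nat_lit 1) (nat_lit 230) (nat_lit 1) (nat_lit 232) (nat_lit 1) (nat_lit 297) (nat_lit 379) (nat_lit 344)) (XT.nd (nat_lit 78) (nat_lit 0) (nat_lit 0) (XT.lf (nat_lit 304) (nat_lit 10458894712) (nat_lit 0) (nat_lit 1110810428) (nat_lit 228) (nat_lit 1110810428) (nat_lit 230) (nat_lit 1) (nat_lit 226) (nat_lit 1) (nat_lit 229) (nat_lit 1) (nat_lit 298) (nat_lit 379) (nat_lit 343)) (XT.lf (nat_lit 76) (nat_lit 3653043658) (nat_lit 0) (nat_lit 5138880333) (nat_lit 304) (nat_lit 3653043658) (nat_lit 227) (nat_lit 1) (nat_lit 226) (nat_lit 1) (nat_lit 230) (nat_lit 1) (nat_lit 299) (nat_lit 379) (nat_lit 342))))) (XT.nd (nat_lit 234) (nat_lit 532) (nat_lit 0) (XT.nd (nat_lit 78) (nat_lit 228) (nat_lit 0) (XT.lf (nat_lit 228)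 (nat_lit 4220528441) (nat_lit 0) (nat_lit 3998080473) (nat_lit 152) (nat_lit 3998080473) (nat_lit 227) (nat_lit 1) (nat_lit 224) (nat_lit 1) (nat_lit 226) (nat_lit 1) (nat_lit 300) (nat_lit 379) (nat_lit 341)) (XT.nd (nat_lit 78) (nat_lit 228) (nat_lit 0) (XT.lf (nat_lit 76) (nat_lit 606355975) (nat_lit 0) (nat_lit 10783274855) (nat_lit 228) (nat_lit 606355975) (nat_lit 225) (nat_lit 1) (nat_lit 224) (nat_lit 1) (nat_lit 227) (nat_lit 1) (nat_lit 301) (nat_lit 379) (nat_lit 340)) (XT.lf (nat_lit 76) (nat_lit 5004362244) (nat_lit 0) (nat_lit 1767362003) (nat_lit 228) (nat_lit 5004362244) (nat_lit 222) (nat_lit 1) (nat_lit 221) (nat_lit 1) (nat_lit 224) (nat_lit 1) (nat_lit 302) (nat_lit 379) (nat_lit 339)))) (XT.nd (nat_lit 156) (nat_lit 380) (nat_lit 0) (XT.nd (nat_lit 78) (nat_lit 0) (nat_lit 0) (XT.lf (nat_lit 228) (nat_lit 6949434065) (nat_lit 0) (nat_lit 2307023821) (nat_lit 152) (nat_lit 2307023821)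 (nat_lit 222) (nat_lit 1) (nat_lit 219) (nat_lit 1) (nat_lit 221) (nat_lit 1) (nat_lit 303) (nat_lit 379) (nat_lit 338)) (XT.lf (nat_lit 76) (nat_lit 1960949495) (nat_lit 0) (nat_lit 7433676966) (nat_lit 228) (nat_lit 1960949495) (nat_lit 220) (nat_lit 1) (nat_lit 219) (nat_lit 1) (nat_lit 222) (nat_lit 1) (nat_lit 304) (nat_lit 379) (nat_lit 337))) (XT.nd (nat_lit 78) (nat_lit 228) (nat_lit 0) (XT.lf (nat_lit 228) (nat_lit 918634237) (nat_lit 0) (nat_lit 5116613406) (nat_lit 152) (nat_lit 5116613406) (nat_lit 220) (nat_lit 1) (nat_lit 217) (nat_lit 1) (nat_lit 219) (nat_lit 1) (nat_lit 305) (nat_lit 379) (nat_lit 336)) (XT.lf (nat_lit 228) (nat_lit 9028930768) (nat_lit 0) (nat_lit 962559085) (nat_lit 152) (nat_lit 962559085) (nat_lit 217) (nat_lit 1) (nat_lit 214) (nat_lit 1) (nat_lit 216) (nat_lit 1) (nat_lit 306) (nat_lit 379) (nat_lit 335))))))) (XT.nd (nat_lit 936) (nat_lit 1140) (nat_lit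 0) (XT.nd (nat_lit 468) (nat_lit 608) (nat_lit 0) (XT.nd (nat_lit 234) (nat_lit 304) (nat_lit 0) (XT.nd (nat_lit 78) (nat_lit 152) (nat_lit 0) (XT.lf (nat_lit 76) (nat_lit 3005753178) (nat_lit 0) (nat_lit 4746418776) (nat_lit 228) (nat_lit 3005753178) (nat_lit 215) (nat_lit 1) (nat_lit 214) (nat_lit 1) (nat_lit 217) (nat_lit 1) (nat_lit 307) (nat_lit 379) (nat_lit 334)) (XT.nd (nat_lit 78) (nat_lit 0) (nat_lit 0) (XT.lf (nat_lit 228) (nat_lit 3061213681) (nat_lit 0) (nat_lit 3753140696) (nat_lit 152) (nat_lit 3753140696) (nat_lit 215) (nat_lit 1) (nat_lit 212) (nat_lit 1) (nat_lit 214) (nat_lit 1) (nat_lit 308) (nat_lit 379) (nat_lit 333)) (XT.lf (nat_lit 76) (nat_lit 100613651) (nat_lit 0) (nat_lit 10182516103) (nat_lit 228) (nat_lit 100613651) (nat_lit 213) (nat_lit 1) (nat_lit 212) (nat_lit 1) (nat_lit 215) (nat_lit 1) (nat_lit 309) (nat_lit 379) (nat_lit 332)))) (XT.nd (nat_lit 78) (nat_lit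 152) (nat_lit 0) (XT.lf (nat_lit 76) (nat_lit 3799007412) (nat_lit 0) (nat_lit 2600808892) (nat_lit 152) (nat_lit 3799007412) (nat_lit 211) (nat_lit 1) (nat_lit 210) (nat_lit 1) (nat_lit 212) (nat_lit 1) (nat_lit 310) (nat_lit 379) (nat_lit 331)) (XT.nd (nat_lit 78) (nat_lit 0) (nat_lit 0) (XT.lf (nat_lit 228) (nat_lit 4714135710) (nat_lit 0) (nat_lit 2653137362) (nat_lit 152) (nat_lit 2653137362) (nat_lit 211) (nat_lit 1) (nat_lit 208) (nat_lit 1) (nat_lit 210) (nat_lit 1) (nat_lit 311) (nat_lit 379) (nat_lit 330)) (XT.lf (nat_lit 76) (nat_lit 945151629) (nat_lit 0) (nat_lit 7956509720) (nat_lit 228) (nat_lit 945151629) (nat_lit 209) (nat_lit 1) (nat_lit 208) (nat_lit 1) (nat_lit 211) (nat_lit 1) (nat_lit 312) (nat_lit 379) (nat_lit 329))))) (XT.nd (nat_lit 234) (nat_lit 304) (nat_lit 0) (XT.nd (nat_lit 78) (nat_lit 152) (nat_lit 0) (XT.lf (nat_lit 76) (nat_lit 4388468832) (nat_lit 0) (nat_lit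 897709454) (nat_lit 152) (nat_lit 4388468832) (nat_lit 207) (nat_lit 1) (nat_lit 206) (nat_lit 1) (nat_lit 208) (nat_lit 1) (nat_lit 313) (nat_lit 379) (nat_lit 328)) (XT.nd (nat_lit 78) (nat_lit 0) (nat_lit 0) (XT.lf (nat_lit 228) (nat_lit 5969443151) (nat_lit 0) (nat_lit 1768856219) (nat_lit 152) (nat_lit 1768856219) (nat_lit 207) (nat_lit 1) (nat_lit 204) (nat_lit 1) (nat_lit 206) (nat_lit 1) (nat_lit 314) (nat_lit 379) (nat_lit 327)) (XT.lf (nat_lit 76) (nat_lit 1598889565) (nat_lit 0) (nat_lit 6145200734) (nat_lit 228) (nat_lit 1598889565) (nat_lit 205) (nat_lit 1) (nat_lit 204) (nat_lit 1) (nat_lit 207) (nat_lit 1) (nat_lit 315) (nat_lit 379) (nat_lit 326)))) (XT.nd (nat_lit 78) (nat_lit 228) (nat_lit 0) (XT.lf (nat_lit 152) (nat_lit 458982968) (nat_lit 0) (nat_lit 4361459622) (nat_lit 76) (nat_lit 4361459622) (nat_lit 205) (nat_lit 1) (nat_lit 203) (nat_lit 1) (nat_lit 204) (nat_lit 1) (nat_lit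 316) (nat_lit 379) (nat_lit 325)) (XT.nd (nat_lit 78) (nat_lit 0) (nat_lit 0) (XT.lf (nat_lit 228) (nat_lit 6902610927) (nat_lit 0) (nat_lit 1061064814) (nat_lit 152) (nat_lit 1061064814) (nat_lit 203) (nat_lit 1) (nat_lit 200) (nat_lit 1) (nat_lit 202) (nat_lit 1) (nat_lit 317) (nat_lit 379) (nat_lit 324)) (XT.lf (nat_lit 76) (nat_lit 2097611335) (nat_lit 0) (nat_lit 4674110421) (nat_lit 228) (nat_lit 2097611335) (nat_lit 201) (nat_lit 1) (nat_lit 200) (nat_lit 1) (nat_lit 203) (nat_lit 1) (nat_lit 318) (nat_lit 379) (nat_lit 323)))))) (XT.nd (nat_lit 468) (nat_lit 532) (nat_lit 0) (XT.nd (nat_lit 234) (nat_lit 304) (nat_lit 0) (XT.nd (nat_lit 78) (nat_lit 228) (nat_lit 0) (XT.lf (nat_lit 152) (nat_lit 1541368789) (nat_lit 0) (nat_lit 3588183625) (nat_lit 76) (nat_lit 3588183625) (nat_lit 201) (nat_lit 1) (nat_lit 199) (nat_lit 1) (nat_lit 200) (nat_lit 1) (nat_lit 319) (nat_lit 379) (nat_lit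 322)) (XT.nd (nat_lit 78) (nat_lit 0) (nat_lit 0) (XT.lf (nat_lit 228) (nat_lit 7575495352) (nat_lit 0) (nat_lit 497533434) (nat_lit 152) (nat_lit 497533434) (nat_lit 199) (nat_lit 1) (nat_lit 196) (nat_lit 1) (nat_lit 198) (nat_lit 1) (nat_lit 320) (nat_lit 379) (nat_lit 321)) (XT.lf (nat_lit 76) (nat_lit 2470663307) (nat_lit 0) (nat_lit 3482010372) (nat_lit 228) (nat_lit 2470663307) (nat_lit 197) (nat_lit 1) (nat_lit 196) (nat_lit 1) (nat_lit 199) (nat_lit 1) (nat_lit 321) (nat_lit 379) (nat_lit 320)))) (XT.nd (nat_lit 78) (nat_lit 228) (nat_lit 0) (XT.lf (nat_lit 152) (nat_lit 2376433026) (nat_lit 0) (nat_lit 2952007548) (nat_lit 76) (nat_lit 2952007548) (nat_lit 197) (nat_lit 1) (nat_lit 195) (nat_lit 1) (nat_lit 196) (nat_lit 1) (nat_lit 322) (nat_lit 379) (nat_lit 319)) (XT.nd (nat_lit 78) (nat_lit 0) (nat_lit 0) (XT.lf (nat_lit 228) (nat_lit 8038759974) (nat_lit 0) (nat_lit 51791307) (nat_lit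 152) (nat_lit 51791307) (nat_lit 195) (nat_lit 1) (nat_lit 192) (nat_lit 1) (nat_lit 194) (nat_lit 1) (nat_lit 323) (nat_lit 379) (nat_lit 318)) (XT.lf (nat_lit 76) (nat_lit 2742100122) (nat_lit 0) (nat_lit 2518571084) (nat_lit 228) (nat_lit 2742100122) (nat_lit 193) (nat_lit 1) (nat_lit 192) (nat_lit 1) (nat_lit 195) (nat_lit 1) (nat_lit 324) (nat_lit 379) (nat_lit 317))))) (XT.nd (nat_lit 234) (nat_lit 304) (nat_lit 0) (XT.nd (nat_lit 78) (nat_lit 152) (nat_lit 0) (XT.lf (nat_lit 152) (nat_lit 3010664103) (nat_lit 0) (nat_lit 2428623915) (nat_lit 76) (nat_lit 2428623915) (nat_lit 193) (nat_lit 1) (nat_lit 191) (nat_lit 1) (nat_lit 192) (nat_lit 1) (nat_lit 325) (nat_lit 379) (nat_lit 316)) (XT.nd (nat_lit 78) (nat_lit 152) (nat_lit 0) (XT.lf (nat_lit 0) (nat_lit 302780123) (nat_lit 0) (nat_lit 7131563923) (nat_lit 152) (nat_lit 302780123) (nat_lit 191) (nat_lit 3) (nat_lit 191) (nat_lit 1) (nat_lit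 193) (nat_lit 1) (nat_lit 326) (nat_lit 379) (nat_lit 315)) (XT.lf (nat_lit 76) (nat_lit 2931627133) (nat_lit 0) (nat_lit 1742427553) (nat_lit 152) (nat_lit 2931627133) (nat_lit 190) (nat_lit 1) (nat_lit 189) (nat_lit 1) (nat_lit 191) (nat_lit 1) (nat_lit 327) (nat_lit 379) (nat_lit 314)))) (XT.nd (nat_lit 156) (nat_lit 228) (nat_lit 0) (XT.nd (nat_lit 78) (nat_lit 0) (nat_lit 0) (XT.lf (nat_lit 152) (nat_lit 3482182495) (nat_lit 0) (nat_lit 1998034905) (nat_lit 76) (nat_lit 1998034905) (nat_lit 190) (nat_lit 1) (nat_lit 188) (nat_lit 1) (nat_lit 189) (nat_lit 1) (nat_lit 328) (nat_lit 379) (nat_lit 313)) (XT.lf (nat_lit 0) (nat_lit 578705067) (nat_lit 0) (nat_lit 6196762399) (nat_lit 152) (nat_lit 578705067) (nat_lit 188) (nat_lit 3) (nat_lit 188) (nat_lit 1) (nat_lit 190) (nat_lit 1) (nat_lit 329) (nat_lit 379) (nat_lit 312))) (XT.nd (nat_lit 78) (nat_lit 76) (nat_lit 0) (XT.lf (nat_lit 76) (nat_lit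 3055375541) (nat_lit 0) (nat_lit 1119587926) (nat_lit 152) (nat_lit 3055375541) (nat_lit 187) (nat_lit 1) (nat_lit 186) (nat_lit 1) (nat_lit 188) (nat_lit 1) (nat_lit 330) (nat_lit 379) (nat_lit 311)) (XT.lf (nat_lit 152) (nat_lit 3822230334) (nat_lit 0) (nat_lit 1643788261) (nat_lit 76) (nat_lit 1643788261) (nat_lit 187) (nat_lit 1) (nat_lit 185) (nat_lit 1) (nat_lit 186) (nat_lit 1) (nat_lit 331) (nat_lit 379) (nat_lit 310))))))))
noncomputable def ec171 : XT := (XT.nd (nat_lit 1950) (nat_lit 2052) (nat_lit 0) (XT.nd (nat_lit 936) (nat_lit 912) (nat_lit 0) (XT.nd (nat_lit 468) (nat_lit 456) (nat_lit 0) (XT.nd (nat_lit 234) (nat_lit 228) (nat_lit 0) (XT.nd (nat_lit 78) (nat_lit 228) (nat_lit 0) (XT.lf (nat_lit 0) (nat_lit 790013624) (nat_lit 0) (nat_lit 5412003295) (nat_lit 152) (nat_lit 790013624) (nat_lit 185) (nat_lit 3) (nat_lit 185) (nat_lit 1) (nat_lit 187) (nat_lit 1) (nat_lit 332) (nat_lit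 379) (nat_lit 309)) (XT.nd (nat_lit 78) (nat_lit 76) (nat_lit 0) (XT.lf (nat_lit 76) (nat_lit 3126539918) (nat_lit 0) (nat_lit 622124392) (nat_lit 152) (nat_lit 3126539918) (nat_lit 184) (nat_lit 1) (nat_lit 183) (nat_lit 1) (nat_lit 185) (nat_lit 1) (nat_lit 333) (nat_lit 379) (nat_lit 308)) (XT.lf (nat_lit 152) (nat_lit 4056396619) (nat_lit 0) (nat_lit 1352348670) (nat_lit 76) (nat_lit 1352348670) (nat_lit 184) (nat_lit 1) (nat_lit 182) (nat_lit 1) (nat_lit 183) (nat_lit 1) (nat_lit 334) (nat_lit 379) (nat_lit 307)))) (XT.nd (nat_lit 78) (nat_lit 228) (nat_lit 0) (XT.lf (nat_lit 0) (nat_lit 948909529) (nat_lit 0) (nat_lit 4751431869) (nat_lit 152) (nat_lit 948909529) (nat_lit 182) (nat_lit 3) (nat_lit 182) (nat_lit 1) (nat_lit 184) (nat_lit 1) (nat_lit 335) (nat_lit 379) (nat_lit 306)) (XT.nd (nat_lit 78) (nat_lit 76) (nat_lit 0) (XT.lf (nat_lit 76) (nat_lit 3155902508) (nat_lit 0) (nat_lit 227096262)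 (nat_lit 152) (nat_lit 3155902508) (nat_lit 181) (nat_lit 1) (nat_lit 180) (nat_lit 1) (nat_lit 182) (nat_lit 1) (nat_lit 336) (nat_lit 379) (nat_lit 305)) (XT.lf (nat_lit 152) (nat_lit 4205624932) (nat_lit 0) (nat_lit 1112580598) (nat_lit 76) (nat_lit 1112580598) (nat_lit 181) (nat_lit 1) (nat_lit 179) (nat_lit 1) (nat_lit 180) (nat_lit 1) (nat_lit 337) (nat_lit 379) (nat_lit 304))))) (XT.nd (nat_lit 234) (nat_lit 228) (nat_lit 0) (XT.nd (nat_lit 78) (nat_lit 228) (nat_lit 0) (XT.lf (nat_lit 0) (nat_lit 1065397233) (nat_lit 0) (nat_lit 4193741772) (nat_lit 152) (nat_lit 1065397233) (nat_lit 179) (nat_lit 3) (nat_lit 179) (nat_lit 1) (nat_lit 181) (nat_lit 1) (nat_lit 338) (nat_lit 379) (nat_lit 303)) (XT.nd (nat_lit 78) (nat_lit 152) (nat_lit 0) (XT.lf (nat_lit 76) (nat_lit 87124454) (nat_lit 0) (nat_lit 3066500206) (nat_lit 76) (nat_lit 3066500206) (nat_lit 179) (nat_lit 3) (nat_lit 178) (nat_lit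 1) (nat_lit 179) (nat_lit 1) (nat_lit 339) (nat_lit 379) (nat_lit 302)) (XT.lf (nat_lit 152) (nat_lit 4287042225) (nat_lit 0) (nat_lit 915322811) (nat_lit 76) (nat_lit 915322811) (nat_lit 178) (nat_lit 1) (nat_lit 176) (nat_lit 1) (nat_lit 177) (nat_lit 1) (nat_lit 340) (nat_lit 379) (nat_lit 301)))) (XT.nd (nat_lit 78) (nat_lit 228) (nat_lit 0) (XT.lf (nat_lit 0) (nat_lit 1147673525) (nat_lit 0) (nat_lit 3721370320) (nat_lit 152) (nat_lit 1147673525) (nat_lit 176) (nat_lit 3) (nat_lit 176) (nat_lit 1) (nat_lit 178) (nat_lit 1) (nat_lit 341) (nat_lit 379) (nat_lit 300)) (XT.nd (nat_lit 78) (nat_lit 152) (nat_lit 0) (XT.lf (nat_lit 76) (nat_lit 338472402) (nat_lit 0) (nat_lit 2789612207) (nat_lit 76) (nat_lit 2789612207) (nat_lit 176) (nat_lit 3) (nat_lit 175) (nat_lit 1) (nat_lit 176) (nat_lit 1) (nat_lit 342) (nat_lit 379) (nat_lit 299)) (XT.lf (nat_lit 152) (nat_lit 4314640425) (nat_lit 0) (nat_lit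 753038342) (nat_lit 76) (nat_lit 753038342) (nat_lit 175) (nat_lit 1) (nat_lit 173) (nat_lit 1) (nat_lit 174) (nat_lit 1) (nat_lit 343) (nat_lit 379) (nat_lit 298)))))) (XT.nd (nat_lit 468) (nat_lit 456) (nat_lit 0) (XT.nd (nat_lit 234) (nat_lit 228) (nat_lit 0) (XT.nd (nat_lit 78) (nat_lit 228) (nat_lit 0) (XT.lf (nat_lit 0) (nat_lit 1202449645) (nat_lit 0) (nat_lit 3319836367) (nat_lit 152) (nat_lit 1202449645) (nat_lit 173) (nat_lit 3) (nat_lit 173) (nat_lit 1) (nat_lit 175) (nat_lit 1) (nat_lit 344) (nat_lit 379) (nat_lit 297)) (XT.nd (nat_lit 78) (nat_lit 152) (nat_lit 0) (XT.lf (nat_lit 76) (nat_lit 532552463) (nat_lit 0) (nat_lit 2549111246) (nat_lit 76) (nat_lit 2549111246) (nat_lit 173) (nat_lit 3) (nat_lit 172) (nat_lit 1) (nat_lit 173) (nat_lit 1) (nat_lit 345) (nat_lit 379) (nat_lit 296)) (XT.lf (nat_lit 152) (nat_lit 4299836952) (nat_lit 0) (nat_lit 619526507) (nat_lit 76) (nat_lit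 619526507) (nat_lit 172) (nat_lit 1) (nat_lit 170) (nat_lit 1) (nat_lit 171) (nat_lit 1) (nat_lit 346) (nat_lit 379) (nat_lit 295)))) (XT.nd (nat_lit 78) (nat_lit 228) (nat_lit 0) (XT.lf (nat_lit 0) (nat_lit 1235216199) (nat_lit 0) (nat_lit 2977195496) (nat_lit 152) (nat_lit 1235216199) (nat_lit 170) (nat_lit 3) (nat_lit 170) (nat_lit 1) (nat_lit 172) (nat_lit 1) (nat_lit 347) (nat_lit 379) (nat_lit 294)) (XT.nd (nat_lit 78) (nat_lit 152) (nat_lit 0) (XT.lf (nat_lit 76) (nat_lit 680123067) (nat_lit 0) (nat_lit 2339150968) (nat_lit 76) (nat_lit 2339150968) (nat_lit 170) (nat_lit 3) (nat_lit 169) (nat_lit 1) (nat_lit 170) (nat_lit 1) (nat_lit 348) (nat_lit 379) (nat_lit 293)) (XT.lf (nat_lit 152) (nat_lit 4251935641) (nat_lit 0) (nat_lit 509685991) (nat_lit 76) (nat_lit 509685991) (nat_lit 169) (nat_lit 1) (nat_lit 167) (nat_lit 1) (nat_lit 168) (nat_lit 1) (nat_lit 349) (nat_lit 379) (nat_lit 292)))))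 (XT.nd (nat_lit 234) (nat_lit 228) (nat_lit 0) (XT.nd (nat_lit 78) (nat_lit 228) (nat_lit 0) (XT.lf (nat_lit 0) (nat_lit 1250461044) (nat_lit 0) (nat_lit 2683591722) (nat_lit 152) (nat_lit 1250461044) (nat_lit 167) (nat_lit 3) (nat_lit 167) (nat_lit 1) (nat_lit 169) (nat_lit 1) (nat_lit 350) (nat_lit 379) (nat_lit 291)) (XT.nd (nat_lit 78) (nat_lit 152) (nat_lit 0) (XT.lf (nat_lit 76) (nat_lit 790006394) (nat_lit 0) (nat_lit 2154892755) (nat_lit 76) (nat_lit 2154892755) (nat_lit 167) (nat_lit 3) (nat_lit 166) (nat_lit 1) (nat_lit 167) (nat_lit 1) (nat_lit 351) (nat_lit 379) (nat_lit 290)) (XT.lf (nat_lit 152) (nat_lit 4178505727) (nat_lit 0) (nat_lit 419319926) (nat_lit 76) (nat_lit 419319926) (nat_lit 166) (nat_lit 1) (nat_lit 164) (nat_lit 1) (nat_lit 165) (nat_lit 1) (nat_lit 352) (nat_lit 379) (nat_lit 289)))) (XT.nd (nat_lit 156) (nat_lit 152) (nat_lit 0) (XT.nd (nat_lit 78) (nat_lit 76) (nat_lit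 0) (XT.lf (nat_lit 0) (nat_lit 1251848461) (nat_lit 0) (nat_lit 2430888617) (nat_lit 152) (nat_lit 1251848461) (nat_lit 164) (nat_lit 3) (nat_lit 164) (nat_lit 1) (nat_lit 166) (nat_lit 1) (nat_lit 353) (nat_lit 379) (nat_lit 288)) (XT.lf (nat_lit 76) (nat_lit 869433039) (nat_lit 0) (nat_lit 1992328425) (nat_lit 76) (nat_lit 1992328425) (nat_lit 164) (nat_lit 3) (nat_lit 163) (nat_lit 1) (nat_lit 164) (nat_lit 1) (nat_lit 354) (nat_lit 379) (nat_lit 287))) (XT.nd (nat_lit 78) (nat_lit 0) (nat_lit 0) (XT.lf (nat_lit 152) (nat_lit 4085693433) (nat_lit 0) (nat_lit 344975541) (nat_lit 76) (nat_lit 344975541) (nat_lit 163) (nat_lit 1) (nat_lit 161) (nat_lit 1) (nat_lit 162) (nat_lit 1) (nat_lit 355) (nat_lit 379) (nat_lit 286)) (XT.lf (nat_lit 0) (nat_lit 1242366509) (nat_lit 0) (nat_lit 2212365763) (nat_lit 152) (nat_lit 1242366509) (nat_lit 161) (nat_lit 3) (nat_lit 161) (nat_lit 1) (nat_lit 163)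 (nat_lit 1) (nat_lit 356) (nat_lit 379) (nat_lit 285))))))) (XT.nd (nat_lit 1014) (nat_lit 1064) (nat_lit 0) (XT.nd (nat_lit 468) (nat_lit 532) (nat_lit 0) (XT.nd (nat_lit 234) (nat_lit 228) (nat_lit 0) (XT.nd (nat_lit 78) (nat_lit 152) (nat_lit 0) (XT.lf (nat_lit 76) (nat_lit 924325497) (nat_lit 0) (nat_lit 1848134310) (nat_lit 76) (nat_lit 1848134310) (nat_lit 161) (nat_lit 3) (nat_lit 160) (nat_lit 1) (nat_lit 161) (nat_lit 1) (nat_lit 357) (nat_lit 379) (nat_lit 284)) (XT.nd (nat_lit 78) (nat_lit 0) (nat_lit 0) (XT.lf (nat_lit 152) (nat_lit 3978478128) (nat_lit 0) (nat_lit 283812231) (nat_lit 76) (nat_lit 283812231) (nat_lit 160) (nat_lit 1) (nat_lit 158) (nat_lit 1) (nat_lit 159) (nat_lit 1) (nat_lit 358) (nat_lit 379) (nat_lit 283)) (XT.lf (nat_lit 0) (nat_lit 1224448175) (nat_lit 0) (nat_lit 2022468962) (nat_lit 152) (nat_lit 1224448175) (nat_lit 158) (nat_lit 3) (nat_lit 158) (nat_lit 1)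 (nat_lit 160) (nat_lit 1) (nat_lit 359) (nat_lit 379) (nat_lit 282)))) (XT.nd (nat_lit 78) (nat_lit 152) (nat_lit 0) (XT.lf (nat_lit 76) (nat_lit 959531335) (nat_lit 0) (nat_lit 1719551132) (nat_lit 76) (nat_lit 1719551132) (nat_lit 158) (nat_lit 3) (nat_lit 157) (nat_lit 1) (nat_lit 158) (nat_lit 1) (nat_lit 360) (nat_lit 379) (nat_lit 281)) (XT.nd (nat_lit 78) (nat_lit 0) (nat_lit 0) (XT.lf (nat_lit 152) (nat_lit 3860882877) (nat_lit 0) (nat_lit 233493025) (nat_lit 76) (nat_lit 233493025) (nat_lit 157) (nat_lit 1) (nat_lit 155) (nat_lit 1) (nat_lit 156) (nat_lit 1) (nat_lit 361) (nat_lit 379) (nat_lit 280)) (XT.lf (nat_lit 0) (nat_lit 1200070995) (nat_lit 0) (nat_lit 1856604671) (nat_lit 152) (nat_lit 1200070995) (nat_lit 155) (nat_lit 3) (nat_lit 155) (nat_lit 1) (nat_lit 157) (nat_lit 1) (nat_lit 362) (nat_lit 379) (nat_lit 279))))) (XT.nd (nat_lit 234) (nat_lit 304) (nat_lit 0) (XT.nd (nat_lit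 78) (nat_lit 152) (nat_lit 0) (XT.lf (nat_lit 76) (nat_lit 979014957) (nat_lit 0) (nat_lit 1604285125) (nat_lit 76) (nat_lit 1604285125) (nat_lit 155) (nat_lit 3) (nat_lit 154) (nat_lit 1) (nat_lit 155) (nat_lit 1) (nat_lit 363) (nat_lit 379) (nat_lit 278)) (XT.nd (nat_lit 78) (nat_lit 0) (nat_lit 0) (XT.lf (nat_lit 152) (nat_lit 3736147493) (nat_lit 0) (nat_lit 192095289) (nat_lit 76) (nat_lit 192095289) (nat_lit 154) (nat_lit 1) (nat_lit 152) (nat_lit 1) (nat_lit 153) (nat_lit 1) (nat_lit 364) (nat_lit 379) (nat_lit 277)) (XT.lf (nat_lit 0) (nat_lit 1170838950) (nat_lit 0) (nat_lit 1710970830) (nat_lit 152) (nat_lit 1170838950) (nat_lit 152) (nat_lit 3) (nat_lit 152) (nat_lit 1) (nat_lit 154) (nat_lit 1) (nat_lit 365) (nat_lit 379) (nat_lit 276)))) (XT.nd (nat_lit 156) (nat_lit 76) (nat_lit 0) (XT.nd (nat_lit 78) (nat_lit 152) (nat_lit 0) (XT.lf (nat_lit 76) (nat_lit 986015317) (nat_lit 0) (nat_lit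 1500426631) (nat_lit 76) (nat_lit 1500426631) (nat_lit 152) (nat_lit 3) (nat_lit 151) (nat_lit 1) (nat_lit 152) (nat_lit 1) (nat_lit 366) (nat_lit 379) (nat_lit 275)) (XT.lf (nat_lit 152) (nat_lit 3606870737) (nat_lit 0) (nat_lit 158037270) (nat_lit 76) (nat_lit 158037270) (nat_lit 151) (nat_lit 1) (nat_lit 149) (nat_lit 1) (nat_lit 150) (nat_lit 1) (nat_lit 367) (nat_lit 379) (nat_lit 274))) (XT.nd (nat_lit 78) (nat_lit 76) (nat_lit 0) (XT.lf (nat_lit 0) (nat_lit 1138049789) (nat_lit 0) (nat_lit 1582417624) (nat_lit 152) (nat_lit 1138049789) (nat_lit 149) (nat_lit 3) (nat_lit 149) (nat_lit 1) (nat_lit 151) (nat_lit 1) (nat_lit 368) (nat_lit 379) (nat_lit 273)) (XT.lf (nat_lit 76) (nat_lit 983175612) (nat_lit 0) (nat_lit 1406383073) (nat_lit 76) (nat_lit 1406383073) (nat_lit 149) (nat_lit 3) (nat_lit 148) (nat_lit 1) (nat_lit 149) (nat_lit 1) (nat_lit 369) (nat_lit 379) (nat_lit 272)))))) (XT.nd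 (nat_lit 468) (nat_lit 608) (nat_lit 0) (XT.nd (nat_lit 234) (nat_lit 228) (nat_lit 0) (XT.nd (nat_lit 78) (nat_lit 76) (nat_lit 0) (XT.lf (nat_lit 152) (nat_lit 3475127147) (nat_lit 0) (nat_lit 130017653) (nat_lit 76) (nat_lit 130017653) (nat_lit 148) (nat_lit 1) (nat_lit 146) (nat_lit 1) (nat_lit 147) (nat_lit 1) (nat_lit 370) (nat_lit 379) (nat_lit 271)) (XT.nd (nat_lit 78) (nat_lit 76) (nat_lit 0) (XT.lf (nat_lit 0) (nat_lit 1102750367) (nat_lit 0) (nat_lit 1468332884) (nat_lit 152) (nat_lit 1102750367) (nat_lit 146) (nat_lit 3) (nat_lit 146) (nat_lit 1) (nat_lit 148) (nat_lit 1) (nat_lit 371) (nat_lit 379) (nat_lit 270)) (XT.lf (nat_lit 76) (nat_lit 972649933) (nat_lit 0) (nat_lit 1320823759) (nat_lit 76) (nat_lit 1320823759) (nat_lit 146) (nat_lit 3) (nat_lit 145) (nat_lit 1) (nat_lit 146) (nat_lit 1) (nat_lit 372) (nat_lit 379) (nat_lit 269)))) (XT.nd (nat_lit 78) (nat_lit 76) (nat_lit 0)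 (XT.lf (nat_lit 152) (nat_lit 3342563004) (nat_lit 0) (nat_lit 106965845) (nat_lit 76) (nat_lit 106965845) (nat_lit 145) (nat_lit 1) (nat_lit 143) (nat_lit 1) (nat_lit 144) (nat_lit 1) (nat_lit 373) (nat_lit 379) (nat_lit 268)) (XT.nd (nat_lit 78) (nat_lit 76) (nat_lit 0) (XT.lf (nat_lit 0) (nat_lit 1065782111) (nat_lit 0) (nat_lit 1366547753) (nat_lit 152) (nat_lit 1065782111) (nat_lit 143) (nat_lit 3) (nat_lit 143) (nat_lit 1) (nat_lit 145) (nat_lit 1) (nat_lit 374) (nat_lit 379) (nat_lit 267)) (XT.lf (nat_lit 76) (nat_lit 956190959) (nat_lit 0) (nat_lit 1242634427) (nat_lit 76) (nat_lit 1242634427) (nat_lit 143) (nat_lit 3) (nat_lit 142) (nat_lit 1) (nat_lit 143) (nat_lit 1) (nat_lit 375) (nat_lit 379) (nat_lit 266))))) (XT.nd (nat_lit 234) (nat_lit 380) (nat_lit 0) (XT.nd (nat_lit 78) (nat_lit 76) (nat_lit 0) (XT.lf (nat_lit 152) (nat_lit 3210475141) (nat_lit 0) (nat_lit 88001065) (nat_lit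 76) (nat_lit 88001065) (nat_lit 142) (nat_lit 1) (nat_lit 140) (nat_lit 1) (nat_lit 141) (nat_lit 1) (nat_lit 376) (nat_lit 379) (nat_lit 265)) (XT.nd (nat_lit 78) (nat_lit 76) (nat_lit 0) (XT.lf (nat_lit 0) (nat_lit 1027818396) (nat_lit 0) (nat_lit 1275259033) (nat_lit 152) (nat_lit 1027818396) (nat_lit 140) (nat_lit 3) (nat_lit 140) (nat_lit 1) (nat_lit 142) (nat_lit 1) (nat_lit 377) (nat_lit 379) (nat_lit 264)) (XT.lf (nat_lit 76) (nat_lit 935222050) (nat_lit 0) (nat_lit 1170879801) (nat_lit 76) (nat_lit 1170879801) (nat_lit 140) (nat_lit 3) (nat_lit 139) (nat_lit 1) (nat_lit 140) (nat_lit 1) (nat_lit 378) (nat_lit 379) (nat_lit 263)))) (XT.nd (nat_lit 156) (nat_lit 228) (nat_lit 0) (XT.nd (nat_lit 78) (nat_lit 0) (nat_lit 0) (XT.lf (nat_lit 152) (nat_lit 3079875640) (nat_lit 0) (nat_lit 72398694) (nat_lit 76) (nat_lit 72398694) (nat_lit 139) (nat_lit 1) (nat_lit 137) (nat_lit 1) (nat_lit 138)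 (nat_lit 1) (nat_lit 379) (nat_lit 379) (nat_lit 262)) (XT.lf (nat_lit 0) (nat_lit 989395228) (nat_lit 0) (nat_lit 1192965253) (nat_lit 152) (nat_lit 989395228) (nat_lit 137) (nat_lit 3) (nat_lit 137) (nat_lit 1) (nat_lit 139) (nat_lit 1) (nat_lit 380) (nat_lit 379) (nat_lit 261))) (XT.nd (nat_lit 78) (nat_lit 152) (nat_lit 0) (XT.lf (nat_lit 76) (nat_lit 910896526) (nat_lit 0) (nat_lit 1104772740) (nat_lit 76) (nat_lit 1104772740) (nat_lit 137) (nat_lit 3) (nat_lit 136) (nat_lit 1) (nat_lit 137) (nat_lit 1) (nat_lit 381) (nat_lit 379) (nat_lit 260)) (XT.lf (nat_lit 152) (nat_lit 2951544926) (nat_lit 0) (nat_lit 59562585) (nat_lit 76) (nat_lit 59562585) (nat_lit 136) (nat_lit 1) (nat_lit 134) (nat_lit 1) (nat_lit 135) (nat_lit 1) (nat_lit 382) (nat_lit 379) (nat_lit 259))))))))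
noncomputable def ec172 : XT := (XT.nd (nat_lit 1950) (nat_lit 1900) (nat_lit 0) (XT.nd (nat_lit 936) (nat_lit 912) (nat_lit 0) (XT.nd (nat_lit 468) (nat_lit 456) (nat_lit 0) (XT.nd (nat_lit 234) (nat_lit 228) (nat_lit 0) (XT.nd (nat_lit 78) (nat_lit 228) (nat_lit 0) (XT.lf (nat_lit 0) (nat_lit 950936465) (nat_lit 0) (nat_lit 1118414028) (nat_lit 152) (nat_lit 950936465) (nat_lit 134) (nat_lit 3) (nat_lit 134) (nat_lit 1) (nat_lit 136) (nat_lit 1) (nat_lit 383) (nat_lit 379) (nat_lit 258)) (XT.nd (nat_lit 78) (nat_lit 152) (nat_lit 0) (XT.lf (nat_lit 76) (nat_lit 884146380) (nat_lit 0) (nat_lit 1043648821) (nat_lit 76) (nat_lit 1043648821) (nat_lit 134) (nat_lit 3) (nat_lit 133) (nat_lit 1) (nat_lit 134) (nat_lit 1) (nat_lit 384) (nat_lit 379) (nat_lit 257)) (XT.lf (nat_lit 152) (nat_lit 2826075329) (nat_lit 0) (nat_lit 49002286) (nat_lit 76) (nat_lit 49002286) (nat_lit 133) (nat_lit 1) (nat_lit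 131) (nat_lit 1) (nat_lit 132) (nat_lit 1) (nat_lit 385) (nat_lit 379) (nat_lit 256)))) (XT.nd (nat_lit 78) (nat_lit 228) (nat_lit 0) (XT.lf (nat_lit 0) (nat_lit 912774509) (nat_lit 0) (nat_lit 1050558715) (nat_lit 152) (nat_lit 912774509) (nat_lit 131) (nat_lit 3) (nat_lit 131) (nat_lit 1) (nat_lit 133) (nat_lit 1) (nat_lit 386) (nat_lit 379) (nat_lit 255)) (XT.nd (nat_lit 78) (nat_lit 152) (nat_lit 0) (XT.lf (nat_lit 76) (nat_lit 855722322) (nat_lit 0) (nat_lit 986945376) (nat_lit 76) (nat_lit 986945376) (nat_lit 131) (nat_lit 3) (nat_lit 130) (nat_lit 1) (nat_lit 131) (nat_lit 1) (nat_lit 387) (nat_lit 379) (nat_lit 254)) (XT.lf (nat_lit 152) (nat_lit 2703906800) (nat_lit 0) (nat_lit 40314302) (nat_lit 76) (nat_lit 40314302) (nat_lit 130) (nat_lit 1) (nat_lit 128) (nat_lit 1) (nat_lit 129) (nat_lit 1) (nat_lit 388) (nat_lit 379) (nat_lit 253))))) (XT.nd (nat_lit 234) (nat_lit 228) (nat_lit 0)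 (XT.nd (nat_lit 78) (nat_lit 228) (nat_lit 0) (XT.lf (nat_lit 0) (nat_lit 875167301) (nat_lit 0) (nat_lit 988522708) (nat_lit 152) (nat_lit 875167301) (nat_lit 128) (nat_lit 3) (nat_lit 128) (nat_lit 1) (nat_lit 130) (nat_lit 1) (nat_lit 389) (nat_lit 379) (nat_lit 252)) (XT.nd (nat_lit 78) (nat_lit 152) (nat_lit 0) (XT.lf (nat_lit 76) (nat_lit 826226689) (nat_lit 0) (nat_lit 934184220) (nat_lit 76) (nat_lit 934184220) (nat_lit 128) (nat_lit 3) (nat_lit 127) (nat_lit 1) (nat_lit 128) (nat_lit 1) (nat_lit 390) (nat_lit 379) (nat_lit 251)) (XT.lf (nat_lit 152) (nat_lit 2585356181) (nat_lit 0) (nat_lit 33166676) (nat_lit 76) (nat_lit 33166676) (nat_lit 127) (nat_lit 1) (nat_lit 125) (nat_lit 1) (nat_lit 126) (nat_lit 1) (nat_lit 391) (nat_lit 379) (nat_lit 250)))) (XT.nd (nat_lit 78) (nat_lit 228) (nat_lit 0) (XT.lf (nat_lit 0) (nat_lit 838312260) (nat_lit 0) (nat_lit 931570034) (nat_lit 152) (nat_lit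 838312260) (nat_lit 125) (nat_lit 3) (nat_lit 125) (nat_lit 1) (nat_lit 127) (nat_lit 1) (nat_lit 392) (nat_lit 379) (nat_lit 249)) (XT.nd (nat_lit 78) (nat_lit 152) (nat_lit 0) (XT.lf (nat_lit 76) (nat_lit 796140472) (nat_lit 0) (nat_lit 884957400) (nat_lit 76) (nat_lit 884957400) (nat_lit 125) (nat_lit 3) (nat_lit 124) (nat_lit 1) (nat_lit 125) (nat_lit 1) (nat_lit 393) (nat_lit 379) (nat_lit 248)) (XT.lf (nat_lit 152) (nat_lit 2470641180) (nat_lit 0) (nat_lit 27286306) (nat_lit 76) (nat_lit 27286306) (nat_lit 124) (nat_lit 1) (nat_lit 122) (nat_lit 1) (nat_lit 123) (nat_lit 1) (nat_lit 394) (nat_lit 379) (nat_lit 247)))))) (XT.nd (nat_lit 468) (nat_lit 456) (nat_lit 0) (XT.nd (nat_lit 234) (nat_lit 228) (nat_lit 0) (XT.nd (nat_lit 78) (nat_lit 228) (nat_lit 0) (XT.lf (nat_lit 0) (nat_lit 802357719) (nat_lit 0) (nat_lit 879081120) (nat_lit 152) (nat_lit 802357719) (nat_lit 122) (nat_lit 3) (nat_lit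 122) (nat_lit 1) (nat_lit 124) (nat_lit 1) (nat_lit 395) (nat_lit 379) (nat_lit 246)) (XT.nd (nat_lit 78) (nat_lit 152) (nat_lit 0) (XT.lf (nat_lit 76) (nat_lit 765845528) (nat_lit 0) (nat_lit 838915434) (nat_lit 76) (nat_lit 838915434) (nat_lit 122) (nat_lit 3) (nat_lit 121) (nat_lit 1) (nat_lit 122) (nat_lit 1) (nat_lit 396) (nat_lit 379) (nat_lit 245)) (XT.lf (nat_lit 152) (nat_lit 2359899996) (nat_lit 0) (nat_lit 22448511) (nat_lit 76) (nat_lit 22448511) (nat_lit 121) (nat_lit 1) (nat_lit 119) (nat_lit 1) (nat_lit 120) (nat_lit 1) (nat_lit 397) (nat_lit 379) (nat_lit 244)))) (XT.nd (nat_lit 78) (nat_lit 228) (nat_lit 0) (XT.lf (nat_lit 0) (nat_lit 767412298) (nat_lit 0) (nat_lit 830532830) (nat_lit 152) (nat_lit 767412298) (nat_lit 119) (nat_lit 3) (nat_lit 119) (nat_lit 1) (nat_lit 121) (nat_lit 1) (nat_lit 398) (nat_lit 379) (nat_lit 243)) (XT.nd (nat_lit 78) (nat_lit 152) (nat_lit 0) (XT.lf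 (nat_lit 76) (nat_lit 735642812) (nat_lit 0) (nat_lit 795757604) (nat_lit 76) (nat_lit 795757604) (nat_lit 119) (nat_lit 3) (nat_lit 118) (nat_lit 1) (nat_lit 119) (nat_lit 1) (nat_lit 399) (nat_lit 379) (nat_lit 242)) (XT.lf (nat_lit 152) (nat_lit 2253207360) (nat_lit 0) (nat_lit 18468446) (nat_lit 76) (nat_lit 18468446) (nat_lit 118) (nat_lit 1) (nat_lit 116) (nat_lit 1) (nat_lit 117) (nat_lit 1) (nat_lit 400) (nat_lit 379) (nat_lit 241))))) (XT.nd (nat_lit 234) (nat_lit 228) (nat_lit 0) (XT.nd (nat_lit 78) (nat_lit 228) (nat_lit 0) (XT.lf (nat_lit 0) (nat_lit 733552585) (nat_lit 0) (nat_lit 785482003) (nat_lit 152) (nat_lit 733552585) (nat_lit 116) (nat_lit 3) (nat_lit 116) (nat_lit 1) (nat_lit 118) (nat_lit 1) (nat_lit 401) (nat_lit 379) (nat_lit 240)) (XT.nd (nat_lit 78) (nat_lit 152) (nat_lit 0) (XT.lf (nat_lit 76) (nat_lit 705767353) (nat_lit 0) (nat_lit 755223942) (nat_lit 76) (nat_lit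 755223942) (nat_lit 116) (nat_lit 3) (nat_lit 115) (nat_lit 1) (nat_lit 116) (nat_lit 1) (nat_lit 402) (nat_lit 379) (nat_lit 239)) (XT.lf (nat_lit 152) (nat_lit 2150587646) (nat_lit 0) (nat_lit 15194036) (nat_lit 76) (nat_lit 15194036) (nat_lit 115) (nat_lit 1) (nat_lit 113) (nat_lit 1) (nat_lit 114) (nat_lit 1) (nat_lit 403) (nat_lit 379) (nat_lit 238)))) (XT.nd (nat_lit 156) (nat_lit 152) (nat_lit 0) (XT.nd (nat_lit 78) (nat_lit 76) (nat_lit 0) (XT.lf (nat_lit 0) (nat_lit 700829420) (nat_lit 0) (nat_lit 743551881) (nat_lit 152) (nat_lit 700829420) (nat_lit 113) (nat_lit 3) (nat_lit 113) (nat_lit 1) (nat_lit 115) (nat_lit 1) (nat_lit 404) (nat_lit 379) (nat_lit 237)) (XT.lf (nat_lit 76) (nat_lit 676400540) (nat_lit 0) (nat_lit 717088598) (nat_lit 76) (nat_lit 717088598) (nat_lit 113) (nat_lit 3) (nat_lit 112) (nat_lit 1) (nat_lit 113) (nat_lit 1) (nat_lit 405) (nat_lit 379) (nat_lit 236))) (XT.nd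 (nat_lit 78) (nat_lit 0) (nat_lit 0) (XT.lf (nat_lit 152) (nat_lit 2052025563) (nat_lit 0) (nat_lit 12500171) (nat_lit 76) (nat_lit 12500171) (nat_lit 112) (nat_lit 1) (nat_lit 110) (nat_lit 1) (nat_lit 111) (nat_lit 1) (nat_lit 406) (nat_lit 379) (nat_lit 235)) (XT.lf (nat_lit 0) (nat_lit 669273044) (nat_lit 0) (nat_lit 704420918) (nat_lit 152) (nat_lit 669273044) (nat_lit 110) (nat_lit 3) (nat_lit 110) (nat_lit 1) (nat_lit 112) (nat_lit 1) (nat_lit 407) (nat_lit 379) (nat_lit 234))))))) (XT.nd (nat_lit 936) (nat_lit 988) (nat_lit 0) (XT.nd (nat_lit 468) (nat_lit 456) (nat_lit 0) (XT.nd (nat_lit 234) (nat_lit 228) (nat_lit 0) (XT.nd (nat_lit 78) (nat_lit 152) (nat_lit 0) (XT.lf (nat_lit 76) (nat_lit 647680200) (nat_lit 0) (nat_lit 681154365) (nat_lit 76) (nat_lit 681154365) (nat_lit 110) (nat_lit 3) (nat_lit 109) (nat_lit 1) (nat_lit 110) (nat_lit 1) (nat_lit 408) (nat_lit 379) (nat_lit 233))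 (XT.nd (nat_lit 78) (nat_lit 0) (nat_lit 0) (XT.lf (nat_lit 152) (nat_lit 1957474876) (nat_lit 0) (nat_lit 10283921) (nat_lit 76) (nat_lit 10283921) (nat_lit 109) (nat_lit 1) (nat_lit 107) (nat_lit 1) (nat_lit 108) (nat_lit 1) (nat_lit 409) (nat_lit 379) (nat_lit 232)) (XT.lf (nat_lit 0) (nat_lit 638897300) (nat_lit 0) (nat_lit 667813543) (nat_lit 152) (nat_lit 638897300) (nat_lit 107) (nat_lit 3) (nat_lit 107) (nat_lit 1) (nat_lit 109) (nat_lit 1) (nat_lit 410) (nat_lit 379) (nat_lit 231)))) (XT.nd (nat_lit 78) (nat_lit 152) (nat_lit 0) (XT.lf (nat_lit 76) (nat_lit 619708866) (nat_lit 0) (nat_lit 647248146) (nat_lit 76) (nat_lit 647248146) (nat_lit 107) (nat_lit 3) (nat_lit 106) (nat_lit 1) (nat_lit 107) (nat_lit 1) (nat_lit 411) (nat_lit 379) (nat_lit 230)) (XT.nd (nat_lit 78) (nat_lit 0) (nat_lit 0) (XT.lf (nat_lit 152) (nat_lit 1866865488) (nat_lit 0) (nat_lit 8460608) (nat_lit 76) (nat_lit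 8460608) (nat_lit 106) (nat_lit 1) (nat_lit 104) (nat_lit 1) (nat_lit 105) (nat_lit 1) (nat_lit 412) (nat_lit 379) (nat_lit 229)) (XT.lf (nat_lit 0) (nat_lit 609703066) (nat_lit 0) (nat_lit 633492531) (nat_lit 152) (nat_lit 609703066) (nat_lit 104) (nat_lit 3) (nat_lit 104) (nat_lit 1) (nat_lit 106) (nat_lit 1) (nat_lit 413) (nat_lit 379) (nat_lit 228))))) (XT.nd (nat_lit 234) (nat_lit 228) (nat_lit 0) (XT.nd (nat_lit 78) (nat_lit 152) (nat_lit 0) (XT.lf (nat_lit 76) (nat_lit 592560555) (nat_lit 0) (nat_lit 615217188) (nat_lit 76) (nat_lit 615217188) (nat_lit 104) (nat_lit 3) (nat_lit 103) (nat_lit 1) (nat_lit 104) (nat_lit 1) (nat_lit 414) (nat_lit 379) (nat_lit 227)) (XT.nd (nat_lit 78) (nat_lit 0) (nat_lit 0) (XT.lf (nat_lit 152) (nat_lit 1780109204) (nat_lit 0) (nat_lit 6960563) (nat_lit 76) (nat_lit 6960563) (nat_lit 103) (nat_lit 1) (nat_lit 101) (nat_lit 1) (nat_lit 102) (nat_lit 1) (nat_lit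 415) (nat_lit 379) (nat_lit 226)) (XT.lf (nat_lit 0) (nat_lit 581681056) (nat_lit 0) (nat_lit 601252708) (nat_lit 152) (nat_lit 581681056) (nat_lit 101) (nat_lit 3) (nat_lit 101) (nat_lit 1) (nat_lit 103) (nat_lit 1) (nat_lit 416) (nat_lit 379) (nat_lit 225)))) (XT.nd (nat_lit 78) (nat_lit 152) (nat_lit 0) (XT.lf (nat_lit 76) (nat_lit 566286308) (nat_lit 0) (nat_lit 584925976) (nat_lit 76) (nat_lit 584925976) (nat_lit 101) (nat_lit 3) (nat_lit 100) (nat_lit 1) (nat_lit 101) (nat_lit 1) (nat_lit 417) (nat_lit 379) (nat_lit 224)) (XT.nd (nat_lit 78) (nat_lit 0) (nat_lit 0) (XT.lf (nat_lit 152) (nat_lit 1697104387) (nat_lit 0) (nat_lit 5726472) (nat_lit 76) (nat_lit 5726472) (nat_lit 100) (nat_lit 1) (nat_lit 98) (nat_lit 1) (nat_lit 99) (nat_lit 1) (nat_lit 418) (nat_lit 379) (nat_lit 223)) (XT.lf (nat_lit 0) (nat_lit 554814097) (nat_lit 0) (nat_lit 570915743) (nat_lit 152) (nat_lit 554814097) (nat_lit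 98) (nat_lit 3) (nat_lit 98) (nat_lit 1) (nat_lit 100) (nat_lit 1) (nat_lit 419) (nat_lit 379) (nat_lit 222)))))) (XT.nd (nat_lit 468) (nat_lit 532) (nat_lit 0) (XT.nd (nat_lit 234) (nat_lit 228) (nat_lit 0) (XT.nd (nat_lit 78) (nat_lit 152) (nat_lit 0) (XT.lf (nat_lit 76) (nat_lit 540918740) (nat_lit 0) (nat_lit 556253641) (nat_lit 76) (nat_lit 556253641) (nat_lit 98) (nat_lit 3) (nat_lit 97) (nat_lit 1) (nat_lit 98) (nat_lit 1) (nat_lit 420) (nat_lit 379) (nat_lit 221)) (XT.nd (nat_lit 78) (nat_lit 0) (nat_lit 0) (XT.lf (nat_lit 152) (nat_lit 1617739731) (nat_lit 0) (nat_lit 4711183) (nat_lit 76) (nat_lit 4711183) (nat_lit 97) (nat_lit 1) (nat_lit 95) (nat_lit 1) (nat_lit 96) (nat_lit 1) (nat_lit 421) (nat_lit 379) (nat_lit 220)) (XT.lf (nat_lit 0) (nat_lit 529078980) (nat_lit 0) (nat_lit 542325844) (nat_lit 152) (nat_lit 529078980) (nat_lit 95) (nat_lit 3) (nat_lit 95) (nat_lit 1) (nat_lit 97)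 (nat_lit 1) (nat_lit 422) (nat_lit 379) (nat_lit 219)))) (XT.nd (nat_lit 78) (nat_lit 152) (nat_lit 0) (XT.lf (nat_lit 76) (nat_lit 516475751) (nat_lit 0) (nat_lit 529091812) (nat_lit 76) (nat_lit 529091812) (nat_lit 95) (nat_lit 3) (nat_lit 94) (nat_lit 1) (nat_lit 95) (nat_lit 1) (nat_lit 423) (nat_lit 379) (nat_lit 218)) (XT.nd (nat_lit 78) (nat_lit 0) (nat_lit 0) (XT.lf (nat_lit 152) (nat_lit 1541897291) (nat_lit 0) (nat_lit 3875902) (nat_lit 76) (nat_lit 3875902) (nat_lit 94) (nat_lit 1) (nat_lit 92) (nat_lit 1) (nat_lit 93) (nat_lit 1) (nat_lit 424) (nat_lit 379) (nat_lit 217)) (XT.lf (nat_lit 0) (nat_lit 504447967) (nat_lit 0) (nat_lit 515346195) (nat_lit 152) (nat_lit 504447967) (nat_lit 92) (nat_lit 3) (nat_lit 92) (nat_lit 1) (nat_lit 94) (nat_lit 1) (nat_lit 425) (nat_lit 379) (nat_lit 216))))) (XT.nd (nat_lit 234) (nat_lit 304) (nat_lit 0) (XT.nd (nat_lit 78) (nat_lit 152) (nat_lit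 0) (XT.lf (nat_lit 76) (nat_lit 492963560) (nat_lit 0) (nat_lit 503342824) (nat_lit 76) (nat_lit 503342824) (nat_lit 92) (nat_lit 3) (nat_lit 91) (nat_lit 1) (nat_lit 92) (nat_lit 1) (nat_lit 426) (nat_lit 379) (nat_lit 215)) (XT.nd (nat_lit 78) (nat_lit 0) (nat_lit 0) (XT.lf (nat_lit 152) (nat_lit 1469454918) (nat_lit 0) (nat_lit 3188714) (nat_lit 76) (nat_lit 3188714) (nat_lit 91) (nat_lit 1) (nat_lit 89) (nat_lit 1) (nat_lit 90) (nat_lit 1) (nat_lit 427) (nat_lit 379) (nat_lit 214)) (XT.lf (nat_lit 0) (nat_lit 480890001) (nat_lit 0) (nat_lit 489856000) (nat_lit 152) (nat_lit 480890001) (nat_lit 89) (nat_lit 3) (nat_lit 89) (nat_lit 1) (nat_lit 91) (nat_lit 1) (nat_lit 428) (nat_lit 379) (nat_lit 213)))) (XT.nd (nat_lit 156) (nat_lit 76) (nat_lit 0) (XT.nd (nat_lit 78) (nat_lit 152) (nat_lit 0) (XT.lf (nat_lit 76) (nat_lit 470379179) (nat_lit 0) (nat_lit 478918226) (nat_lit 76) (nat_lit 478918226)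 (nat_lit 89) (nat_lit 3) (nat_lit 88) (nat_lit 1) (nat_lit 89) (nat_lit 1) (nat_lit 429) (nat_lit 379) (nat_lit 212)) (XT.lf (nat_lit 152) (nat_lit 1400288199) (nat_lit 0) (nat_lit 2623363) (nat_lit 76) (nat_lit 2623363) (nat_lit 88) (nat_lit 1) (nat_lit 86) (nat_lit 1) (nat_lit 87) (nat_lit 1) (nat_lit 430) (nat_lit 379) (nat_lit 211))) (XT.nd (nat_lit 78) (nat_lit 76) (nat_lit 0) (XT.lf (nat_lit 0) (nat_lit 458371689) (nat_lit 0) (nat_lit 465748039) (nat_lit 152) (nat_lit 458371689) (nat_lit 86) (nat_lit 3) (nat_lit 86) (nat_lit 1) (nat_lit 88) (nat_lit 1) (nat_lit 431) (nat_lit 379) (nat_lit 210)) (XT.lf (nat_lit 76) (nat_lit 448712438) (nat_lit 0) (nat_lit 455737533) (nat_lit 76) (nat_lit 455737533) (nat_lit 86) (nat_lit 3) (nat_lit 85) (nat_lit 1) (nat_lit 86) (nat_lit 1) (nat_lit 432) (nat_lit 379) (nat_lit 209))))))))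
noncomputable def ec173 : XT := (XT.nd (nat_lit 40326) (nat_lit 0) (nat_lit 12464) (XT.nd (nat_lit 936) (nat_lit 380) (nat_lit 0) (XT.nd (nat_lit 468) (nat_lit 456) (nat_lit 0) (XT.nd (nat_lit 234) (nat_lit 228) (nat_lit 0) (XT.nd (nat_lit 78) (nat_lit 76) (nat_lit 0) (XT.lf (nat_lit 152) (nat_lit 1334271996) (nat_lit 0) (nat_lit 2158247) (nat_lit 76) (nat_lit 2158247) (nat_lit 85) (nat_lit 1) (nat_lit 83) (nat_lit 1) (nat_lit 84) (nat_lit 1) (nat_lit 433) (nat_lit 379) (nat_lit 208)) (XT.nd (nat_lit 78) (nat_lit 76) (nat_lit 0) (XT.lf (nat_lit 0) (nat_lit 436858090) (nat_lit 0) (nat_lit 442926631) (nat_lit 152) (nat_lit 436858090) (nat_lit 83) (nat_lit 3) (nat_lit 83) (nat_lit 1) (nat_lit 85) (nat_lit 1) (nat_lit 434) (nat_lit 379) (nat_lit 207)) (XT.lf (nat_lit 76) (nat_lit 427947617) (nat_lit 0) (nat_lit 433727180) (nat_lit 76) (nat_lit 433727180) (nat_lit 83) (nat_lit 3) (nat_lit 82) (nat_lit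 1) (nat_lit 83) (nat_lit 1) (nat_lit 435) (nat_lit 379) (nat_lit 206)))) (XT.nd (nat_lit 78) (nat_lit 76) (nat_lit 0) (XT.lf (nat_lit 152) (nat_lit 1271281663) (nat_lit 0) (nat_lit 1775595) (nat_lit 76) (nat_lit 1775595) (nat_lit 82) (nat_lit 1) (nat_lit 80) (nat_lit 1) (nat_lit 81) (nat_lit 1) (nat_lit 436) (nat_lit 379) (nat_lit 205)) (XT.nd (nat_lit 78) (nat_lit 76) (nat_lit 0) (XT.lf (nat_lit 0) (nat_lit 416313343) (nat_lit 0) (nat_lit 421305947) (nat_lit 152) (nat_lit 416313343) (nat_lit 80) (nat_lit 3) (nat_lit 80) (nat_lit 1) (nat_lit 82) (nat_lit 1) (nat_lit 437) (nat_lit 379) (nat_lit 204)) (XT.lf (nat_lit 76) (nat_lit 408064786) (nat_lit 0) (nat_lit 412819647) (nat_lit 76) (nat_lit 412819647) (nat_lit 80) (nat_lit 3) (nat_lit 79) (nat_lit 1) (nat_lit 80) (nat_lit 1) (nat_lit 438) (nat_lit 379) (nat_lit 203))))) (XT.nd (nat_lit 234) (nat_lit 228) (nat_lit 0) (XT.nd (nat_lit 78) (nat_lit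 76) (nat_lit 0) (XT.lf (nat_lit 152) (nat_lit 1211193990) (nat_lit 0) (nat_lit 1460786) (nat_lit 76) (nat_lit 1460786) (nat_lit 79) (nat_lit 1) (nat_lit 77) (nat_lit 1) (nat_lit 78) (nat_lit 1) (nat_lit 439) (nat_lit 379) (nat_lit 202)) (XT.nd (nat_lit 78) (nat_lit 76) (nat_lit 0) (XT.lf (nat_lit 0) (nat_lit 396701172) (nat_lit 0) (nat_lit 400808599) (nat_lit 152) (nat_lit 396701172) (nat_lit 77) (nat_lit 3) (nat_lit 77) (nat_lit 1) (nat_lit 79) (nat_lit 1) (nat_lit 440) (nat_lit 379) (nat_lit 201)) (XT.lf (nat_lit 76) (nat_lit 389040883) (nat_lit 0) (nat_lit 392952719) (nat_lit 76) (nat_lit 392952719) (nat_lit 77) (nat_lit 3) (nat_lit 76) (nat_lit 1) (nat_lit 77) (nat_lit 1) (nat_lit 441) (nat_lit 379) (nat_lit 200)))) (XT.nd (nat_lit 78) (nat_lit 76) (nat_lit 0) (XT.lf (nat_lit 152) (nat_lit 1153887930) (nat_lit 0) (nat_lit 1201792) (nat_lit 76) (nat_lit 1201792) (nat_lit 76) (nat_lit 1) (nat_lit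 74) (nat_lit 1) (nat_lit 75) (nat_lit 1) (nat_lit 442) (nat_lit 379) (nat_lit 199)) (XT.nd (nat_lit 78) (nat_lit 76) (nat_lit 0) (XT.lf (nat_lit 0) (nat_lit 377985277) (nat_lit 0) (nat_lit 381364468) (nat_lit 152) (nat_lit 377985277) (nat_lit 74) (nat_lit 3) (nat_lit 74) (nat_lit 1) (nat_lit 76) (nat_lit 1) (nat_lit 443) (nat_lit 379) (nat_lit 198)) (XT.lf (nat_lit 76) (nat_lit 370850587) (nat_lit 0) (nat_lit 374068864) (nat_lit 76) (nat_lit 374068864) (nat_lit 74) (nat_lit 3) (nat_lit 73) (nat_lit 1) (nat_lit 74) (nat_lit 1) (nat_lit 444) (nat_lit 379) (nat_lit 197)))))) (XT.nd (nat_lit 38844) (nat_lit 0) (nat_lit 17100) (XT.nd (nat_lit 234) (nat_lit 152) (nat_lit 0) (XT.nd (nat_lit 78) (nat_lit 76) (nat_lit 0) (XT.lf (nat_lit 152) (nat_lit 1099245158) (nat_lit 0) (nat_lit 988717) (nat_lit 76) (nat_lit 988717) (nat_lit 73) (nat_lit 1) (nat_lit 71) (nat_lit 1) (nat_lit 72) (nat_lit 1) (nat_lit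 445) (nat_lit 379) (nat_lit 196)) (XT.nd (nat_lit 78) (nat_lit 76) (nat_lit 0) (XT.lf (nat_lit 0) (nat_lit 360129653) (nat_lit 0) (nat_lit 362909722) (nat_lit 152) (nat_lit 360129653) (nat_lit 71) (nat_lit 3) (nat_lit 71) (nat_lit 1) (nat_lit 73) (nat_lit 1) (nat_lit 446) (nat_lit 379) (nat_lit 195)) (XT.lf (nat_lit 76) (nat_lit 353467019) (nat_lit 0) (nat_lit 356114703) (nat_lit 76) (nat_lit 356114703) (nat_lit 71) (nat_lit 3) (nat_lit 70) (nat_lit 1) (nat_lit 71) (nat_lit 1) (nat_lit 447) (nat_lit 379) (nat_lit 194)))) (XT.nd (nat_lit 38454) (nat_lit 0) (nat_lit 17024) (XT.lf (nat_lit 152) (nat_lit 1047150476) (nat_lit 0) (nat_lit 813420) (nat_lit 76) (nat_lit 813420) (nat_lit 70) (nat_lit 1) (nat_lit 68) (nat_lit 1) (nat_lit 69) (nat_lit 1) (nat_lit 448) (nat_lit 379) (nat_lit 193)) (XT.nd (nat_lit 78) (nat_lit 0) (nat_lit 0) (XT.lf (nat_lit 836) (nat_lit 3782871959) (nat_lit 0) (nat_lit 6716480468)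 (nat_lit 836) (nat_lit 3782871959) (nat_lit 303) (nat_lit 1) (nat_lit 292) (nat_lit 0) (nat_lit 303) (nat_lit 0) (nat_lit 260) (nat_lit 380) (nat_lit 380)) (XT.lf (nat_lit 836) (nat_lit 14662883987) (nat_lit 76) (nat_lit 6608150138) (nat_lit 0) (nat_lit 6608150138) (nat_lit 303) (nat_lit 1) (nat_lit 293) (nat_lit 1) (nat_lit 292) (nat_lit 0) (nat_lit 261) (nat_lit 380) (nat_lit 379))))) (XT.nd (nat_lit 234) (nat_lit 0) (nat_lit 76) (XT.nd (nat_lit 78) (nat_lit 0) (nat_lit 0) (XT.lf (nat_lit 836) (nat_lit 6988109729) (nat_lit 0) (nat_lit 13238885502) (nat_lit 760) (nat_lit 6988109729) (nat_lit 304) (nat_lit 1) (nat_lit 293) (nat_lit 1) (nat_lit 303) (nat_lit 1) (nat_lit 262) (nat_lit 380) (nat_lit 378)) (XT.nd (nat_lit 78) (nat_lit 0) (nat_lit 76) (XT.lf (nat_lit 836) (nat_lit 13108722830) (nat_lit 76) (nat_lit 6731878768) (nat_lit 0) (nat_lit 6731878768) (nat_lit 304) (nat_lit 1) (nat_lit 294)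 (nat_lit 1) (nat_lit 293) (nat_lit 1) (nat_lit 263) (nat_lit 380) (nat_lit 377)) (XT.lf (nat_lit 836) (nat_lit 6033819234) (nat_lit 0) (nat_lit 13882585281) (nat_lit 760) (nat_lit 6033819234) (nat_lit 305) (nat_lit 1) (nat_lit 294) (nat_lit 1) (nat_lit 304) (nat_lit 1) (nat_lit 264) (nat_lit 380) (nat_lit 376)))) (XT.nd (nat_lit 156) (nat_lit 0) (nat_lit 76) (XT.nd (nat_lit 78) (nat_lit 0) (nat_lit 76) (XT.lf (nat_lit 836) (nat_lit 10852216887) (nat_lit 76) (nat_lit 7247359502) (nat_lit 0) (nat_lit 7247359502) (nat_lit 305) (nat_lit 1) (nat_lit 295) (nat_lit 1) (nat_lit 294) (nat_lit 1) (nat_lit 265) (nat_lit 380) (nat_lit 375)) (XT.lf (nat_lit 836) (nat_lit 4758383664) (nat_lit 0) (nat_lit 15247137022) (nat_lit 760) (nat_lit 4758383664) (nat_lit 306) (nat_lit 1) (nat_lit 295) (nat_lit 1) (nat_lit 305) (nat_lit 1) (nat_lit 266) (nat_lit 380) (nat_lit 374))) (XT.nd (nat_lit 78) (nat_lit 0) (nat_lit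 76) (XT.lf (nat_lit 836) (nat_lit 7998989043) (nat_lit 76) (nat_lit 8098968312) (nat_lit 0) (nat_lit 8098968312) (nat_lit 306) (nat_lit 1) (nat_lit 296) (nat_lit 1) (nat_lit 295) (nat_lit 1) (nat_lit 267) (nat_lit 380) (nat_lit 373)) (XT.lf (nat_lit 836) (nat_lit 3211177472) (nat_lit 0) (nat_lit 17228346691) (nat_lit 760) (nat_lit 3211177472) (nat_lit 307) (nat_lit 1) (nat_lit 296) (nat_lit 1) (nat_lit 306) (nat_lit 1) (nat_lit 268) (nat_lit 380) (nat_lit 372))))))) (XT.nd (nat_lit 1014) (nat_lit 1900) (nat_lit 0) (XT.nd (nat_lit 468) (nat_lit 1368) (nat_lit 0) (XT.nd (nat_lit 234) (nat_lit 912) (nat_lit 0) (XT.nd (nat_lit 78) (nat_lit 684) (nat_lit 0) (XT.lf (nat_lit 836) (nat_lit 4642922101) (nat_lit 76) (nat_lit 9237166977) (nat_lit 0) (nat_lit 9237166977) (nat_lit 307) (nat_lit 1) (nat_lit 297) (nat_lit 1) (nat_lit 296) (nat_lit 1) (nat_lit 269) (nat_lit 380) (nat_lit 371)) (XT.nd (nat_lit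 78) (nat_lit 760) (nat_lit 0) (XT.lf (nat_lit 76) (nat_lit 1436055339) (nat_lit 0) (nat_lit 19733477516) (nat_lit 760) (nat_lit 1436055339) (nat_lit 298) (nat_lit 1) (nat_lit 297) (nat_lit 1) (nat_lit 307) (nat_lit 1) (nat_lit 270) (nat_lit 380) (nat_lit 370)) (XT.lf (nat_lit 836) (nat_lit 867341713) (nat_lit 0) (nat_lit 10617893738) (nat_lit 760) (nat_lit 10617893738) (nat_lit 298) (nat_lit 1) (nat_lit 287) (nat_lit 1) (nat_lit 297) (nat_lit 1) (nat_lit 271) (nat_lit 380) (nat_lit 369)))) (XT.nd (nat_lit 78) (nat_lit 380) (nat_lit 0) (XT.lf (nat_lit 532) (nat_lit 20583111158) (nat_lit 0) (nat_lit 519572802) (nat_lit 456) (nat_lit 519572802) (nat_lit 287) (nat_lit 1) (nat_lit 280) (nat_lit 1) (nat_lit 286) (nat_lit 1) (nat_lit 272) (nat_lit 380) (nat_lit 368)) (XT.nd (nat_lit 78) (nat_lit 380) (nat_lit 0) (XT.lf (nat_lit 76) (nat_lit 8998900374) (nat_lit 0) (nat_lit 3149769433) (nat_lit 532) (nat_lit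 8998900374) (nat_lit 281) (nat_lit 1) (nat_lit 280) (nat_lit 1) (nat_lit 287) (nat_lit 1) (nat_lit 273) (nat_lit 380) (nat_lit 367)) (XT.lf (nat_lit 456) (nat_lit 15484797627) (nat_lit 0) (nat_lit 2604135460) (nat_lit 380) (nat_lit 2604135460) (nat_lit 281) (nat_lit 1) (nat_lit 275) (nat_lit 1) (nat_lit 280) (nat_lit 1) (nat_lit 274) (nat_lit 380) (nat_lit 366))))) (XT.nd (nat_lit 234) (nat_lit 988) (nat_lit 0) (XT.nd (nat_lit 78) (nat_lit 380) (nat_lit 0) (XT.lf (nat_lit 76) (nat_lit 6418806089) (nat_lit 0) (nat_lit 7410509613) (nat_lit 456) (nat_lit 6418806089) (nat_lit 276) (nat_lit 1) (nat_lit 275) (nat_lit 1) (nat_lit 281) (nat_lit 1) (nat_lit 275) (nat_lit 380) (nat_lit 365)) (XT.nd (nat_lit 78) (nat_lit 0) (nat_lit 0) (XT.lf (nat_lit 456) (nat_lit 10196958832) (nat_lit 0) (nat_lit 4810856255) (nat_lit 380) (nat_lit 4810856255) (nat_lit 276) (nat_lit 1) (nat_lit 270) (nat_lit 1) (nat_lit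 275) (nat_lit 1) (nat_lit 276) (nat_lit 380) (nat_lit 364)) (XT.lf (nat_lit 76) (nat_lit 3757443811) (nat_lit 0) (nat_lit 11886823135) (nat_lit 456) (nat_lit 3757443811) (nat_lit 271) (nat_lit 1) (nat_lit 270) (nat_lit 1) (nat_lit 276) (nat_lit 1) (nat_lit 277) (nat_lit 380) (nat_lit 363)))) (XT.nd (nat_lit 156) (nat_lit 684) (nat_lit 0) (XT.nd (nat_lit 78) (nat_lit 0) (nat_lit 0) (XT.lf (nat_lit 380) (nat_lit 4768811137) (nat_lit 0) (nat_lit 7113332319) (nat_lit 304) (nat_lit 7113332319) (nat_lit 271) (nat_lit 1) (nat_lit 266) (nat_lit 1) (nat_lit 270) (nat_lit 1) (nat_lit 278) (nat_lit 380) (nat_lit 362)) (XT.lf (nat_lit 76) (nat_lit 1037661483) (nat_lit 0) (nat_lit 16529539625) (nat_lit 380) (nat_lit 1037661483) (nat_lit 267) (nat_lit 1) (nat_lit 266) (nat_lit 1) (nat_lit 271) (nat_lit 1) (nat_lit 279) (nat_lit 380) (nat_lit 361))) (XT.nd (nat_lit 78) (nat_lit 304) (nat_lit 0) (XT.lf (nat_lit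 76) (nat_lit 8743633828) (nat_lit 0) (nat_lit 732296317) (nat_lit 380) (nat_lit 8743633828) (nat_lit 262) (nat_lit 1) (nat_lit 261) (nat_lit 1) (nat_lit 266) (nat_lit 1) (nat_lit 280) (nat_lit 380) (nat_lit 360)) (XT.lf (nat_lit 380) (nat_lit 14463349237) (nat_lit 0) (nat_lit 1692794617) (nat_lit 304) (nat_lit 1692794617) (nat_lit 262) (nat_lit 1) (nat_lit 257) (nat_lit 1) (nat_lit 261) (nat_lit 1) (nat_lit 281) (nat_lit 380) (nat_lit 359)))))) (XT.nd (nat_lit 468) (nat_lit 988) (nat_lit 0) (XT.nd (nat_lit 234) (nat_lit 608) (nat_lit 0) (XT.nd (nat_lit 78) (nat_lit 304) (nat_lit 0) (XT.lf (nat_lit 76) (nat_lit 5673161423) (nat_lit 0) (nat_lit 6138348286) (nat_lit 380) (nat_lit 5673161423) (nat_lit 258) (nat_lit 1) (nat_lit 257) (nat_lit 1) (nat_lit 262) (nat_lit 1) (nat_lit 282) (nat_lit 380) (nat_lit 358)) (XT.nd (nat_lit 78) (nat_lit 0) (nat_lit 0) (XT.lf (nat_lit 380) (nat_lit 8278720668) (nat_lit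 0) (nat_lit 4427157318) (nat_lit 304) (nat_lit 4427157318) (nat_lit 258) (nat_lit 1) (nat_lit 253) (nat_lit 1) (nat_lit 257) (nat_lit 1) (nat_lit 283) (nat_lit 380) (nat_lit 357)) (XT.lf (nat_lit 76) (nat_lit 2610739025) (nat_lit 0) (nat_lit 11570203288) (nat_lit 380) (nat_lit 2610739025) (nat_lit 254) (nat_lit 1) (nat_lit 253) (nat_lit 1) (nat_lit 258) (nat_lit 1) (nat_lit 284) (nat_lit 380) (nat_lit 356)))) (XT.nd (nat_lit 78) (nat_lit 380) (nat_lit 0) (XT.lf (nat_lit 304) (nat_lit 2123202233) (nat_lit 0) (nat_lit 7167246802) (nat_lit 228) (nat_lit 7167246802) (nat_lit 254) (nat_lit 1) (nat_lit 250) (nat_lit 1) (nat_lit 253) (nat_lit 1) (nat_lit 285) (nat_lit 380) (nat_lit 355)) (XT.nd (nat_lit 78) (nat_lit 0) (nat_lit 0) (XT.lf (nat_lit 380) (nat_lit 15288164720) (nat_lit 0) (nat_lit 424217236) (nat_lit 304) (nat_lit 424217236) (nat_lit 250) (nat_lit 1) (nat_lit 245) (nat_lit 1) (nat_lit 249)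 (nat_lit 1) (nat_lit 286) (nat_lit 380) (nat_lit 354)) (XT.lf (nat_lit 76) (nat_lit 5982371878) (nat_lit 0) (nat_lit 3852536021) (nat_lit 380) (nat_lit 5982371878) (nat_lit 246) (nat_lit 1) (nat_lit 245) (nat_lit 1) (nat_lit 250) (nat_lit 1) (nat_lit 287) (nat_lit 380) (nat_lit 353))))) (XT.nd (nat_lit 234) (nat_lit 532) (nat_lit 0) (XT.nd (nat_lit 78) (nat_lit 228) (nat_lit 0) (XT.lf (nat_lit 304) (nat_lit 8737443257) (nat_lit 0) (nat_lit 3386381927) (nat_lit 228) (nat_lit 3386381927) (nat_lit 246) (nat_lit 1) (nat_lit 242) (nat_lit 1) (nat_lit 245) (nat_lit 1) (nat_lit 288) (nat_lit 380) (nat_lit 352)) (XT.nd (nat_lit 78) (nat_lit 228) (nat_lit 0) (XT.lf (nat_lit 76) (nat_lit 2760293479) (nat_lit 0) (nat_lit 9690349198) (nat_lit 304) (nat_lit 2760293479) (nat_lit 243) (nat_lit 1) (nat_lit 242) (nat_lit 1) (nat_lit 246) (nat_lit 1) (nat_lit 289) (nat_lit 380) (nat_lit 351)) (XT.lf (nat_lit 304)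 (nat_lit 2300618338) (nat_lit 0) (nat_lit 6308927597) (nat_lit 228) (nat_lit 6308927597) (nat_lit 243) (nat_lit 1) (nat_lit 239) (nat_lit 1) (nat_lit 242) (nat_lit 1) (nat_lit 290) (nat_lit 380) (nat_lit 350)))) (XT.nd (nat_lit 156) (nat_lit 228) (nat_lit 0) (XT.nd (nat_lit 78) (nat_lit 0) (nat_lit 0) (XT.lf (nat_lit 304) (nat_lit 13846106215) (nat_lit 0) (nat_lit 395385026) (nat_lit 228) (nat_lit 395385026) (nat_lit 239) (nat_lit 1) (nat_lit 235) (nat_lit 1) (nat_lit 238) (nat_lit 1) (nat_lit 291) (nat_lit 380) (nat_lit 349)) (XT.lf (nat_lit 76) (nat_lit 5237585453) (nat_lit 0) (nat_lit 3880998230) (nat_lit 304) (nat_lit 5237585453) (nat_lit 236) (nat_lit 1) (nat_lit 235) (nat_lit 1) (nat_lit 239) (nat_lit 1) (nat_lit 292) (nat_lit 380) (nat_lit 348))) (XT.nd (nat_lit 78) (nat_lit 0) (nat_lit 0) (XT.lf (nat_lit 304) (nat_lit 7202159583) (nat_lit 0) (nat_lit 3441844316) (nat_lit 228) (nat_lit 3441844316)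 (nat_lit 236) (nat_lit 1) (nat_lit 232) (nat_lit 1) (nat_lit 235) (nat_lit 1) (nat_lit 293) (nat_lit 380) (nat_lit 347)) (XT.lf (nat_lit 76) (nat_lit 1983468875) (nat_lit 0) (nat_lit 9855839672) (nat_lit 304) (nat_lit 1983468875) (nat_lit 233) (nat_lit 1) (nat_lit 232) (nat_lit 1) (nat_lit 236) (nat_lit 1) (nat_lit 294) (nat_lit 380) (nat_lit 346))))))))
noncomputable def ec174 : XT := (XT.nd (nat_lit 1950) (nat_lit 1976) (nat_lit 0) (XT.nd (nat_lit 936) (nat_lit 1216) (nat_lit 0) (XT.nd (nat_lit 468) (nat_lit 684) (nat_lit 0) (XT.nd (nat_lit 234) (nat_lit 380) (nat_lit 0) (XT.nd (nat_lit 78) (nat_lit 304) (nat_lit 0) (XT.lf (nat_lit 228) (nat_lit 726808944) (nat_lit 0) (nat_lit 6418927548) (nat_lit 152) (nat_lit 6418927548) (nat_lit 233) (nat_lit 1) (nat_lit 230) (nat_lit 1) (nat_lit 232) (nat_lit 1) (nat_lit 295) (nat_lit 380) (nat_lit 345)) (XT.nd (nat_lit 78) (nat_lit 0) (nat_lit 0) (XT.lf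 (nat_lit 304) (nat_lit 10981839448) (nat_lit 0) (nat_lit 1166350949) (nat_lit 228) (nat_lit 1166350949) (nat_lit 230) (nat_lit 1) (nat_lit 226) (nat_lit 1) (nat_lit 229) (nat_lit 1) (nat_lit 296) (nat_lit 380) (nat_lit 344)) (XT.lf (nat_lit 76) (nat_lit 3835695841) (nat_lit 0) (nat_lit 5395824350) (nat_lit 304) (nat_lit 3835695841) (nat_lit 227) (nat_lit 1) (nat_lit 226) (nat_lit 1) (nat_lit 230) (nat_lit 1) (nat_lit 297) (nat_lit 380) (nat_lit 343)))) (XT.nd (nat_lit 78) (nat_lit 228) (nat_lit 0) (XT.lf (nat_lit 228) (nat_lit 4431554863) (nat_lit 0) (nat_lit 4197984496) (nat_lit 152) (nat_lit 4197984496) (nat_lit 227) (nat_lit 1) (nat_lit 224) (nat_lit 1) (nat_lit 226) (nat_lit 1) (nat_lit 298) (nat_lit 380) (nat_lit 342)) (XT.nd (nat_lit 78) (nat_lit 228) (nat_lit 0) (XT.lf (nat_lit 76) (nat_lit 636673773) (nat_lit 0) (nat_lit 11322438597) (nat_lit 228) (nat_lit 636673773) (nat_lit 225) (nat_lit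 1) (nat_lit 224) (nat_lit 1) (nat_lit 227) (nat_lit 1) (nat_lit 299) (nat_lit 380) (nat_lit 341)) (XT.lf (nat_lit 76) (nat_lit 5254580356) (nat_lit 0) (nat_lit 1855730103) (nat_lit 228) (nat_lit 5254580356) (nat_lit 222) (nat_lit 1) (nat_lit 221) (nat_lit 1) (nat_lit 224) (nat_lit 1) (nat_lit 300) (nat_lit 380) (nat_lit 340))))) (XT.nd (nat_lit 234) (nat_lit 380) (nat_lit 0) (XT.nd (nat_lit 78) (nat_lit 152) (nat_lit 0) (XT.lf (nat_lit 228) (nat_lit 7296905769) (nat_lit 0) (nat_lit 2422375012) (nat_lit 152) (nat_lit 2422375012) (nat_lit 222) (nat_lit 1) (nat_lit 219) (nat_lit 1) (nat_lit 221) (nat_lit 1) (nat_lit 301) (nat_lit 380) (nat_lit 339)) (XT.nd (nat_lit 78) (nat_lit 152) (nat_lit 0) (XT.lf (nat_lit 76) (nat_lit 2058996970) (nat_lit 0) (nat_lit 7805360814) (nat_lit 228) (nat_lit 2058996970) (nat_lit 220) (nat_lit 1) (nat_lit 219) (nat_lit 1) (nat_lit 222) (nat_lit 1) (nat_lit 302) (nat_lit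 380) (nat_lit 338)) (XT.lf (nat_lit 228) (nat_lit 964565949) (nat_lit 0) (nat_lit 5372444076) (nat_lit 152) (nat_lit 5372444076) (nat_lit 220) (nat_lit 1) (nat_lit 217) (nat_lit 1) (nat_lit 219) (nat_lit 1) (nat_lit 303) (nat_lit 380) (nat_lit 337)))) (XT.nd (nat_lit 78) (nat_lit 152) (nat_lit 0) (XT.lf (nat_lit 228) (nat_lit 9480377306) (nat_lit 0) (nat_lit 1010687040) (nat_lit 152) (nat_lit 1010687040) (nat_lit 217) (nat_lit 1) (nat_lit 214) (nat_lit 1) (nat_lit 216) (nat_lit 1) (nat_lit 304) (nat_lit 380) (nat_lit 336)) (XT.nd (nat_lit 78) (nat_lit 152) (nat_lit 0) (XT.lf (nat_lit 76) (nat_lit 3156040837) (nat_lit 0) (nat_lit 4983739715) (nat_lit 228) (nat_lit 3156040837) (nat_lit 215) (nat_lit 1) (nat_lit 214) (nat_lit 1) (nat_lit 217) (nat_lit 1) (nat_lit 305) (nat_lit 380) (nat_lit 335)) (XT.lf (nat_lit 228) (nat_lit 3214274365) (nat_lit 0) (nat_lit 3940797731) (nat_lit 152) (nat_lit 3940797731)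 (nat_lit 215) (nat_lit 1) (nat_lit 212) (nat_lit 1) (nat_lit 214) (nat_lit 1) (nat_lit 306) (nat_lit 380) (nat_lit 334)))))) (XT.nd (nat_lit 468) (nat_lit 608) (nat_lit 0) (XT.nd (nat_lit 234) (nat_lit 304) (nat_lit 0) (XT.nd (nat_lit 78) (nat_lit 304) (nat_lit 0) (XT.lf (nat_lit 76) (nat_lit 105644333) (nat_lit 0) (nat_lit 10691641908) (nat_lit 228) (nat_lit 105644333) (nat_lit 213) (nat_lit 1) (nat_lit 212) (nat_lit 1) (nat_lit 215) (nat_lit 1) (nat_lit 307) (nat_lit 380) (nat_lit 333)) (XT.nd (nat_lit 78) (nat_lit 152) (nat_lit 0) (XT.lf (nat_lit 76) (nat_lit 3988957783) (nat_lit 0) (nat_lit 2730849337) (nat_lit 152) (nat_lit 3988957783) (nat_lit 211) (nat_lit 1) (nat_lit 210) (nat_lit 1) (nat_lit 212) (nat_lit 1) (nat_lit 308) (nat_lit 380) (nat_lit 332)) (XT.lf (nat_lit 228) (nat_lit 4949842495) (nat_lit 0) (nat_lit 2785794230) (nat_lit 152) (nat_lit 2785794230) (nat_lit 211) (nat_lit 1) (nat_lit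 208) (nat_lit 1) (nat_lit 210) (nat_lit 1) (nat_lit 309) (nat_lit 380) (nat_lit 331)))) (XT.nd (nat_lit 78) (nat_lit 304) (nat_lit 0) (XT.lf (nat_lit 76) (nat_lit 992409210) (nat_lit 0) (nat_lit 8354335206) (nat_lit 228) (nat_lit 992409210) (nat_lit 209) (nat_lit 1) (nat_lit 208) (nat_lit 1) (nat_lit 211) (nat_lit 1) (nat_lit 310) (nat_lit 380) (nat_lit 330)) (XT.nd (nat_lit 78) (nat_lit 152) (nat_lit 0) (XT.lf (nat_lit 76) (nat_lit 4607892273) (nat_lit 0) (nat_lit 942594926) (nat_lit 152) (nat_lit 4607892273) (nat_lit 207) (nat_lit 1) (nat_lit 206) (nat_lit 1) (nat_lit 208) (nat_lit 1) (nat_lit 311) (nat_lit 380) (nat_lit 329)) (XT.lf (nat_lit 228) (nat_lit 6267915309) (nat_lit 0) (nat_lit 1857299030) (nat_lit 152) (nat_lit 1857299030) (nat_lit 207) (nat_lit 1) (nat_lit 204) (nat_lit 1) (nat_lit 206) (nat_lit 1) (nat_lit 312) (nat_lit 380) (nat_lit 328))))) (XT.nd (nat_lit 234) (nat_lit 304) (nat_lit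 0) (XT.nd (nat_lit 78) (nat_lit 304) (nat_lit 0) (XT.lf (nat_lit 76) (nat_lit 1678834043) (nat_lit 0) (nat_lit 6452460771) (nat_lit 228) (nat_lit 1678834043) (nat_lit 205) (nat_lit 1) (nat_lit 204) (nat_lit 1) (nat_lit 207) (nat_lit 1) (nat_lit 313) (nat_lit 380) (nat_lit 327)) (XT.nd (nat_lit 78) (nat_lit 228) (nat_lit 0) (XT.lf (nat_lit 152) (nat_lit 481932116) (nat_lit 0) (nat_lit 4579532603) (nat_lit 76) (nat_lit 4579532603) (nat_lit 205) (nat_lit 1) (nat_lit 203) (nat_lit 1) (nat_lit 204) (nat_lit 1) (nat_lit 314) (nat_lit 380) (nat_lit 326)) (XT.lf (nat_lit 228) (nat_lit 7247741473) (nat_lit 0) (nat_lit 1114118055) (nat_lit 152) (nat_lit 1114118055) (nat_lit 203) (nat_lit 1) (nat_lit 200) (nat_lit 1) (nat_lit 202) (nat_lit 1) (nat_lit 315) (nat_lit 380) (nat_lit 325)))) (XT.nd (nat_lit 156) (nat_lit 228) (nat_lit 0) (XT.nd (nat_lit 78) (nat_lit 76) (nat_lit 0) (XT.lf (nat_lit 76) (nat_lit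 2202491902) (nat_lit 0) (nat_lit 4907815942) (nat_lit 228) (nat_lit 2202491902) (nat_lit 201) (nat_lit 1) (nat_lit 200) (nat_lit 1) (nat_lit 203) (nat_lit 1) (nat_lit 316) (nat_lit 380) (nat_lit 324)) (XT.lf (nat_lit 152) (nat_lit 1618437228) (nat_lit 0) (nat_lit 3767592806) (nat_lit 76) (nat_lit 3767592806) (nat_lit 201) (nat_lit 1) (nat_lit 199) (nat_lit 1) (nat_lit 200) (nat_lit 1) (nat_lit 317) (nat_lit 380) (nat_lit 323))) (XT.nd (nat_lit 78) (nat_lit 0) (nat_lit 0) (XT.lf (nat_lit 228) (nat_lit 7954270119) (nat_lit 0) (nat_lit 522410105) (nat_lit 152) (nat_lit 522410105) (nat_lit 199) (nat_lit 1) (nat_lit 196) (nat_lit 1) (nat_lit 198) (nat_lit 1) (nat_lit 318) (nat_lit 380) (nat_lit 322)) (XT.lf (nat_lit 76) (nat_lit 2594196472) (nat_lit 0) (nat_lit 3656110890) (nat_lit 228) (nat_lit 2594196472) (nat_lit 197) (nat_lit 1) (nat_lit 196) (nat_lit 1) (nat_lit 199) (nat_lit 1) (nat_lit 319) (nat_lit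 380) (nat_lit 321))))))) (XT.nd (nat_lit 936) (nat_lit 988) (nat_lit 0) (XT.nd (nat_lit 468) (nat_lit 456) (nat_lit 0) (XT.nd (nat_lit 234) (nat_lit 228) (nat_lit 0) (XT.nd (nat_lit 78) (nat_lit 228) (nat_lit 0) (XT.lf (nat_lit 152) (nat_lit 2495254678) (nat_lit 0) (nat_lit 3099607925) (nat_lit 76) (nat_lit 3099607925) (nat_lit 197) (nat_lit 1) (nat_lit 195) (nat_lit 1) (nat_lit 196) (nat_lit 1) (nat_lit 320) (nat_lit 380) (nat_lit 320)) (XT.nd (nat_lit 78) (nat_lit 0) (nat_lit 0) (XT.lf (nat_lit 228) (nat_lit 8440697972) (nat_lit 0) (nat_lit 54380872) (nat_lit 152) (nat_lit 54380872) (nat_lit 195) (nat_lit 1) (nat_lit 192) (nat_lit 1) (nat_lit 194) (nat_lit 1) (nat_lit 321) (nat_lit 380) (nat_lit 319)) (XT.lf (nat_lit 76) (nat_lit 2879205128) (nat_lit 0) (nat_lit 2644499638) (nat_lit 228) (nat_lit 2879205128) (nat_lit 193) (nat_lit 1) (nat_lit 192) (nat_lit 1) (nat_lit 195) (nat_lit 1) (nat_lit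 322) (nat_lit 380) (nat_lit 318)))) (XT.nd (nat_lit 78) (nat_lit 152) (nat_lit 0) (XT.lf (nat_lit 152) (nat_lit 3161197308) (nat_lit 0) (nat_lit 2550055111) (nat_lit 76) (nat_lit 2550055111) (nat_lit 193) (nat_lit 1) (nat_lit 191) (nat_lit 1) (nat_lit 192) (nat_lit 1) (nat_lit 323) (nat_lit 380) (nat_lit 317)) (XT.nd (nat_lit 78) (nat_lit 152) (nat_lit 0) (XT.lf (nat_lit 0) (nat_lit 317919130) (nat_lit 0) (nat_lit 7488142119) (nat_lit 152) (nat_lit 317919130) (nat_lit 191) (nat_lit 3) (nat_lit 191) (nat_lit 1) (nat_lit 193) (nat_lit 1) (nat_lit 324) (nat_lit 380) (nat_lit 316)) (XT.lf (nat_lit 76) (nat_lit 3078208489) (nat_lit 0) (nat_lit 1829548931) (nat_lit 152) (nat_lit 3078208489) (nat_lit 190) (nat_lit 1) (nat_lit 189) (nat_lit 1) (nat_lit 191) (nat_lit 1) (nat_lit 325) (nat_lit 380) (nat_lit 315))))) (XT.nd (nat_lit 234) (nat_lit 228) (nat_lit 0) (XT.nd (nat_lit 78) (nat_lit 152) (nat_lit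 0) (XT.lf (nat_lit 152) (nat_lit 3656291620) (nat_lit 0) (nat_lit 2097936651) (nat_lit 76) (nat_lit 2097936651) (nat_lit 190) (nat_lit 1) (nat_lit 188) (nat_lit 1) (nat_lit 189) (nat_lit 1) (nat_lit 326) (nat_lit 380) (nat_lit 314)) (XT.nd (nat_lit 78) (nat_lit 152) (nat_lit 0) (XT.lf (nat_lit 0) (nat_lit 607640320) (nat_lit 0) (nat_lit 6506600518) (nat_lit 152) (nat_lit 607640320) (nat_lit 188) (nat_lit 3) (nat_lit 188) (nat_lit 1) (nat_lit 190) (nat_lit 1) (nat_lit 327) (nat_lit 380) (nat_lit 313)) (XT.lf (nat_lit 76) (nat_lit 3208144318) (nat_lit 0) (nat_lit 1175567323) (nat_lit 152) (nat_lit 3208144318) (nat_lit 187) (nat_lit 1) (nat_lit 186) (nat_lit 1) (nat_lit 188) (nat_lit 1) (nat_lit 328) (nat_lit 380) (nat_lit 312)))) (XT.nd (nat_lit 78) (nat_lit 152) (nat_lit 0) (XT.lf (nat_lit 152) (nat_lit 4013341851) (nat_lit 0) (nat_lit 1725977674) (nat_lit 76) (nat_lit 1725977674) (nat_lit 187)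 (nat_lit 1) (nat_lit 185) (nat_lit 1) (nat_lit 186) (nat_lit 1) (nat_lit 329) (nat_lit 380) (nat_lit 311)) (XT.nd (nat_lit 78) (nat_lit 152) (nat_lit 0) (XT.lf (nat_lit 0) (nat_lit 829514306) (nat_lit 0) (nat_lit 5682603459) (nat_lit 152) (nat_lit 829514306) (nat_lit 185) (nat_lit 3) (nat_lit 185) (nat_lit 1) (nat_lit 187) (nat_lit 1) (nat_lit 330) (nat_lit 380) (nat_lit 310)) (XT.lf (nat_lit 76) (nat_lit 3282866914) (nat_lit 0) (nat_lit 653230612) (nat_lit 152) (nat_lit 3282866914) (nat_lit 184) (nat_lit 1) (nat_lit 183) (nat_lit 1) (nat_lit 185) (nat_lit 1) (nat_lit 331) (nat_lit 380) (nat_lit 309)))))) (XT.nd (nat_lit 468) (nat_lit 608) (nat_lit 0) (XT.nd (nat_lit 234) (nat_lit 152) (nat_lit 0) (XT.nd (nat_lit 78) (nat_lit 152) (nat_lit 0) (XT.lf (nat_lit 152) (nat_lit 4259216450) (nat_lit 0) (nat_lit 1419966104) (nat_lit 76) (nat_lit 1419966104) (nat_lit 184) (nat_lit 1) (nat_lit 182) (nat_lit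 1) (nat_lit 183) (nat_lit 1) (nat_lit 332) (nat_lit 380) (nat_lit 308)) (XT.nd (nat_lit 78) (nat_lit 152) (nat_lit 0) (XT.lf (nat_lit 0) (nat_lit 996355006) (nat_lit 0) (nat_lit 4989003463) (nat_lit 152) (nat_lit 996355006) (nat_lit 182) (nat_lit 3) (nat_lit 182) (nat_lit 1) (nat_lit 184) (nat_lit 1) (nat_lit 333) (nat_lit 380) (nat_lit 307)) (XT.lf (nat_lit 76) (nat_lit 3313697634) (nat_lit 0) (nat_lit 238451076) (nat_lit 152) (nat_lit 3313697634) (nat_lit 181) (nat_lit 1) (nat_lit 180) (nat_lit 1) (nat_lit 182) (nat_lit 1) (nat_lit 334) (nat_lit 380) (nat_lit 306)))) (XT.nd (nat_lit 78) (nat_lit 76) (nat_lit 0) (XT.lf (nat_lit 152) (nat_lit 4415906179) (nat_lit 0) (nat_lit 1168209628) (nat_lit 76) (nat_lit 1168209628) (nat_lit 181) (nat_lit 1) (nat_lit 179) (nat_lit 1) (nat_lit 180) (nat_lit 1) (nat_lit 335) (nat_lit 380) (nat_lit 305)) (XT.nd (nat_lit 78) (nat_lit 76) (nat_lit 0) (XT.lf (nat_lit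 0) (nat_lit 1118667094) (nat_lit 0) (nat_lit 4403428861) (nat_lit 152) (nat_lit 1118667094) (nat_lit 179) (nat_lit 3) (nat_lit 179) (nat_lit 1) (nat_lit 181) (nat_lit 1) (nat_lit 336) (nat_lit 380) (nat_lit 304)) (XT.lf (nat_lit 76) (nat_lit 91480677) (nat_lit 0) (nat_lit 3219825216) (nat_lit 76) (nat_lit 3219825216) (nat_lit 179) (nat_lit 3) (nat_lit 178) (nat_lit 1) (nat_lit 179) (nat_lit 1) (nat_lit 337) (nat_lit 380) (nat_lit 303))))) (XT.nd (nat_lit 234) (nat_lit 380) (nat_lit 0) (XT.nd (nat_lit 78) (nat_lit 76) (nat_lit 0) (XT.lf (nat_lit 152) (nat_lit 4501394336) (nat_lit 0) (nat_lit 961088952) (nat_lit 76) (nat_lit 961088952) (nat_lit 178) (nat_lit 1) (nat_lit 176) (nat_lit 1) (nat_lit 177) (nat_lit 1) (nat_lit 338) (nat_lit 380) (nat_lit 302)) (XT.nd (nat_lit 78) (nat_lit 76) (nat_lit 0) (XT.lf (nat_lit 0) (nat_lit 1205057202) (nat_lit 0) (nat_lit 3907438836) (nat_lit 152) (nat_lit 1205057202)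 (nat_lit 176) (nat_lit 3) (nat_lit 176) (nat_lit 1) (nat_lit 178) (nat_lit 1) (nat_lit 339) (nat_lit 380) (nat_lit 301)) (XT.lf (nat_lit 76) (nat_lit 355396023) (nat_lit 0) (nat_lit 2929092817) (nat_lit 76) (nat_lit 2929092817) (nat_lit 176) (nat_lit 3) (nat_lit 175) (nat_lit 1) (nat_lit 176) (nat_lit 1) (nat_lit 340) (nat_lit 380) (nat_lit 300)))) (XT.nd (nat_lit 156) (nat_lit 228) (nat_lit 0) (XT.nd (nat_lit 78) (nat_lit 0) (nat_lit 0) (XT.lf (nat_lit 152) (nat_lit 4530372446) (nat_lit 0) (nat_lit 790690259) (nat_lit 76) (nat_lit 790690259) (nat_lit 175) (nat_lit 1) (nat_lit 173) (nat_lit 1) (nat_lit 174) (nat_lit 1) (nat_lit 341) (nat_lit 380) (nat_lit 299)) (XT.lf (nat_lit 0) (nat_lit 1262572127) (nat_lit 0) (nat_lit 3485828186) (nat_lit 152) (nat_lit 1262572127) (nat_lit 173) (nat_lit 3) (nat_lit 173) (nat_lit 1) (nat_lit 175) (nat_lit 1) (nat_lit 342) (nat_lit 380) (nat_lit 298))) (XT.nd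 (nat_lit 78) (nat_lit 152) (nat_lit 0) (XT.lf (nat_lit 76) (nat_lit 559180086) (nat_lit 0) (nat_lit 2676566808) (nat_lit 76) (nat_lit 2676566808) (nat_lit 173) (nat_lit 3) (nat_lit 172) (nat_lit 1) (nat_lit 173) (nat_lit 1) (nat_lit 343) (nat_lit 380) (nat_lit 297)) (XT.lf (nat_lit 152) (nat_lit 4514828800) (nat_lit 0) (nat_lit 650502833) (nat_lit 76) (nat_lit 650502833) (nat_lit 172) (nat_lit 1) (nat_lit 170) (nat_lit 1) (nat_lit 171) (nat_lit 1) (nat_lit 344) (nat_lit 380) (nat_lit 296))))))))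
noncomputable def ec175 : XT := (XT.nd (nat_lit 1950) (nat_lit 2052) (nat_lit 0) (XT.nd (nat_lit 936) (nat_lit 912) (nat_lit 0) (XT.nd (nat_lit 468) (nat_lit 456) (nat_lit 0) (XT.nd (nat_lit 234) (nat_lit 228) (nat_lit 0) (XT.nd (nat_lit 78) (nat_lit 228) (nat_lit 0) (XT.lf (nat_lit 0) (nat_lit 1296977009) (nat_lit 0) (nat_lit 3126055271) (nat_lit 152) (nat_lit 1296977009) (nat_lit 170) (nat_lit 3) (nat_lit 170) (nat_lit 1) (nat_lit 172) (nat_lit 1) (nat_lit 345) (nat_lit 380) (nat_lit 295)) (XT.nd (nat_lit 78) (nat_lit 152) (nat_lit 0) (XT.lf (nat_lit 76) (nat_lit 714129220) (nat_lit 0) (nat_lit 2456108517) (nat_lit 76) (nat_lit 2456108517) (nat_lit 170) (nat_lit 3) (nat_lit 169) (nat_lit 1) (nat_lit 170) (nat_lit 1) (nat_lit 346) (nat_lit 380) (nat_lit 294)) (XT.lf (nat_lit 152) (nat_lit 4464532423) (nat_lit 0) (nat_lit 535170290) (nat_lit 76) (nat_lit 535170290) (nat_lit 169) (nat_lit 1) (nat_lit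 167) (nat_lit 1) (nat_lit 168) (nat_lit 1) (nat_lit 347) (nat_lit 380) (nat_lit 293)))) (XT.nd (nat_lit 78) (nat_lit 228) (nat_lit 0) (XT.lf (nat_lit 0) (nat_lit 1312984096) (nat_lit 0) (nat_lit 2817771308) (nat_lit 152) (nat_lit 1312984096) (nat_lit 167) (nat_lit 3) (nat_lit 167) (nat_lit 1) (nat_lit 169) (nat_lit 1) (nat_lit 348) (nat_lit 380) (nat_lit 292)) (XT.nd (nat_lit 78) (nat_lit 152) (nat_lit 0) (XT.lf (nat_lit 76) (nat_lit 829506714) (nat_lit 0) (nat_lit 2262637393) (nat_lit 76) (nat_lit 2262637393) (nat_lit 167) (nat_lit 3) (nat_lit 166) (nat_lit 1) (nat_lit 167) (nat_lit 1) (nat_lit 349) (nat_lit 380) (nat_lit 291)) (XT.lf (nat_lit 152) (nat_lit 4387431013) (nat_lit 0) (nat_lit 440285922) (nat_lit 76) (nat_lit 440285922) (nat_lit 166) (nat_lit 1) (nat_lit 164) (nat_lit 1) (nat_lit 165) (nat_lit 1) (nat_lit 350) (nat_lit 380) (nat_lit 290))))) (XT.nd (nat_lit 234) (nat_lit 228) (nat_lit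 0) (XT.nd (nat_lit 78) (nat_lit 228) (nat_lit 0) (XT.lf (nat_lit 0) (nat_lit 1314440885) (nat_lit 0) (nat_lit 2552433048) (nat_lit 152) (nat_lit 1314440885) (nat_lit 164) (nat_lit 3) (nat_lit 164) (nat_lit 1) (nat_lit 166) (nat_lit 1) (nat_lit 351) (nat_lit 380) (nat_lit 289)) (XT.nd (nat_lit 78) (nat_lit 152) (nat_lit 0) (XT.lf (nat_lit 76) (nat_lit 912904691) (nat_lit 0) (nat_lit 2091944847) (nat_lit 76) (nat_lit 2091944847) (nat_lit 164) (nat_lit 3) (nat_lit 163) (nat_lit 1) (nat_lit 164) (nat_lit 1) (nat_lit 352) (nat_lit 380) (nat_lit 288)) (XT.lf (nat_lit 152) (nat_lit 4289978105) (nat_lit 0) (nat_lit 362224318) (nat_lit 76) (nat_lit 362224318) (nat_lit 163) (nat_lit 1) (nat_lit 161) (nat_lit 1) (nat_lit 162) (nat_lit 1) (nat_lit 353) (nat_lit 380) (nat_lit 287)))) (XT.nd (nat_lit 78) (nat_lit 228) (nat_lit 0) (XT.lf (nat_lit 0) (nat_lit 1304484835) (nat_lit 0) (nat_lit 2322984052) (nat_lit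 152) (nat_lit 1304484835) (nat_lit 161) (nat_lit 3) (nat_lit 161) (nat_lit 1) (nat_lit 163) (nat_lit 1) (nat_lit 354) (nat_lit 380) (nat_lit 286)) (XT.nd (nat_lit 78) (nat_lit 152) (nat_lit 0) (XT.lf (nat_lit 76) (nat_lit 970541772) (nat_lit 0) (nat_lit 1940541026) (nat_lit 76) (nat_lit 1940541026) (nat_lit 161) (nat_lit 3) (nat_lit 160) (nat_lit 1) (nat_lit 161) (nat_lit 1) (nat_lit 355) (nat_lit 380) (nat_lit 285)) (XT.lf (nat_lit 152) (nat_lit 4177402034) (nat_lit 0) (nat_lit 298002843) (nat_lit 76) (nat_lit 298002843) (nat_lit 160) (nat_lit 1) (nat_lit 158) (nat_lit 1) (nat_lit 159) (nat_lit 1) (nat_lit 356) (nat_lit 380) (nat_lit 284)))))) (XT.nd (nat_lit 468) (nat_lit 456) (nat_lit 0) (XT.nd (nat_lit 234) (nat_lit 228) (nat_lit 0) (XT.nd (nat_lit 78) (nat_lit 228) (nat_lit 0) (XT.lf (nat_lit 0) (nat_lit 1285670584) (nat_lit 0) (nat_lit 2123592410) (nat_lit 152) (nat_lit 1285670584) (nat_lit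 158) (nat_lit 3) (nat_lit 158) (nat_lit 1) (nat_lit 160) (nat_lit 1) (nat_lit 357) (nat_lit 380) (nat_lit 283)) (XT.nd (nat_lit 78) (nat_lit 152) (nat_lit 0) (XT.lf (nat_lit 76) (nat_lit 1007507901) (nat_lit 0) (nat_lit 1805528688) (nat_lit 76) (nat_lit 1805528688) (nat_lit 158) (nat_lit 3) (nat_lit 157) (nat_lit 1) (nat_lit 158) (nat_lit 1) (nat_lit 358) (nat_lit 380) (nat_lit 282)) (XT.lf (nat_lit 152) (nat_lit 4053927021) (nat_lit 0) (nat_lit 245167676) (nat_lit 76) (nat_lit 245167676) (nat_lit 157) (nat_lit 1) (nat_lit 155) (nat_lit 1) (nat_lit 156) (nat_lit 1) (nat_lit 359) (nat_lit 380) (nat_lit 281)))) (XT.nd (nat_lit 78) (nat_lit 228) (nat_lit 0) (XT.lf (nat_lit 0) (nat_lit 1260074545) (nat_lit 0) (nat_lit 1949434905) (nat_lit 152) (nat_lit 1260074545) (nat_lit 155) (nat_lit 3) (nat_lit 155) (nat_lit 1) (nat_lit 157) (nat_lit 1) (nat_lit 360) (nat_lit 380) (nat_lit 280)) (XT.nd (nat_lit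 78) (nat_lit 152) (nat_lit 0) (XT.lf (nat_lit 76) (nat_lit 1027965705) (nat_lit 0) (nat_lit 1684499381) (nat_lit 76) (nat_lit 1684499381) (nat_lit 155) (nat_lit 3) (nat_lit 154) (nat_lit 1) (nat_lit 155) (nat_lit 1) (nat_lit 361) (nat_lit 380) (nat_lit 279)) (XT.lf (nat_lit 152) (nat_lit 3922954868) (nat_lit 0) (nat_lit 201700054) (nat_lit 76) (nat_lit 201700054) (nat_lit 154) (nat_lit 1) (nat_lit 152) (nat_lit 1) (nat_lit 153) (nat_lit 1) (nat_lit 362) (nat_lit 380) (nat_lit 278))))) (XT.nd (nat_lit 234) (nat_lit 228) (nat_lit 0) (XT.nd (nat_lit 78) (nat_lit 228) (nat_lit 0) (XT.lf (nat_lit 0) (nat_lit 1229380897) (nat_lit 0) (nat_lit 1796519372) (nat_lit 152) (nat_lit 1229380897) (nat_lit 152) (nat_lit 3) (nat_lit 152) (nat_lit 1) (nat_lit 154) (nat_lit 1) (nat_lit 363) (nat_lit 380) (nat_lit 277)) (XT.nd (nat_lit 78) (nat_lit 152) (nat_lit 0) (XT.lf (nat_lit 76) (nat_lit 1035316083) (nat_lit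 0) (nat_lit 1575447963) (nat_lit 76) (nat_lit 1575447963) (nat_lit 152) (nat_lit 3) (nat_lit 151) (nat_lit 1) (nat_lit 152) (nat_lit 1) (nat_lit 364) (nat_lit 380) (nat_lit 276)) (XT.lf (nat_lit 152) (nat_lit 3787214274) (nat_lit 0) (nat_lit 165939133) (nat_lit 76) (nat_lit 165939133) (nat_lit 151) (nat_lit 1) (nat_lit 149) (nat_lit 1) (nat_lit 150) (nat_lit 1) (nat_lit 365) (nat_lit 380) (nat_lit 275)))) (XT.nd (nat_lit 156) (nat_lit 152) (nat_lit 0) (XT.nd (nat_lit 78) (nat_lit 76) (nat_lit 0) (XT.lf (nat_lit 0) (nat_lit 1194952279) (nat_lit 0) (nat_lit 1661538505) (nat_lit 152) (nat_lit 1194952279) (nat_lit 149) (nat_lit 3) (nat_lit 149) (nat_lit 1) (nat_lit 151) (nat_lit 1) (nat_lit 366) (nat_lit 380) (nat_lit 274)) (XT.lf (nat_lit 76) (nat_lit 1032334392) (nat_lit 0) (nat_lit 1476702227) (nat_lit 76) (nat_lit 1476702227) (nat_lit 149) (nat_lit 3) (nat_lit 148) (nat_lit 1) (nat_lit 149) (nat_lit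 1) (nat_lit 367) (nat_lit 380) (nat_lit 273))) (XT.nd (nat_lit 78) (nat_lit 0) (nat_lit 0) (XT.lf (nat_lit 152) (nat_lit 3648883504) (nat_lit 0) (nat_lit 136518535) (nat_lit 76) (nat_lit 136518535) (nat_lit 148) (nat_lit 1) (nat_lit 146) (nat_lit 1) (nat_lit 147) (nat_lit 1) (nat_lit 368) (nat_lit 380) (nat_lit 272)) (XT.lf (nat_lit 0) (nat_lit 1157887885) (nat_lit 0) (nat_lit 1541749528) (nat_lit 152) (nat_lit 1157887885) (nat_lit 146) (nat_lit 3) (nat_lit 146) (nat_lit 1) (nat_lit 148) (nat_lit 1) (nat_lit 369) (nat_lit 380) (nat_lit 271))))))) (XT.nd (nat_lit 1014) (nat_lit 1064) (nat_lit 0) (XT.nd (nat_lit 468) (nat_lit 532) (nat_lit 0) (XT.nd (nat_lit 234) (nat_lit 228) (nat_lit 0) (XT.nd (nat_lit 78) (nat_lit 152) (nat_lit 0) (XT.lf (nat_lit 76) (nat_lit 1021282430) (nat_lit 0) (nat_lit 1386864947) (nat_lit 76) (nat_lit 1386864947) (nat_lit 146) (nat_lit 3) (nat_lit 145) (nat_lit 1) (nat_lit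 146) (nat_lit 1) (nat_lit 370) (nat_lit 380) (nat_lit 270)) (XT.nd (nat_lit 78) (nat_lit 0) (nat_lit 0) (XT.lf (nat_lit 152) (nat_lit 3509691154) (nat_lit 0) (nat_lit 112314137) (nat_lit 76) (nat_lit 112314137) (nat_lit 145) (nat_lit 1) (nat_lit 143) (nat_lit 1) (nat_lit 144) (nat_lit 1) (nat_lit 371) (nat_lit 380) (nat_lit 269)) (XT.lf (nat_lit 0) (nat_lit 1119071217) (nat_lit 0) (nat_lit 1434875141) (nat_lit 152) (nat_lit 1119071217) (nat_lit 143) (nat_lit 3) (nat_lit 143) (nat_lit 1) (nat_lit 145) (nat_lit 1) (nat_lit 372) (nat_lit 380) (nat_lit 268)))) (XT.nd (nat_lit 78) (nat_lit 152) (nat_lit 0) (XT.lf (nat_lit 76) (nat_lit 1004000506) (nat_lit 0) (nat_lit 1304766148) (nat_lit 76) (nat_lit 1304766148) (nat_lit 143) (nat_lit 3) (nat_lit 142) (nat_lit 1) (nat_lit 143) (nat_lit 1) (nat_lit 373) (nat_lit 380) (nat_lit 267)) (XT.nd (nat_lit 78) (nat_lit 0) (nat_lit 0) (XT.lf (nat_lit 152) (nat_lit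 3370998898) (nat_lit 0) (nat_lit 92401118) (nat_lit 76) (nat_lit 92401118) (nat_lit 142) (nat_lit 1) (nat_lit 140) (nat_lit 1) (nat_lit 141) (nat_lit 1) (nat_lit 374) (nat_lit 380) (nat_lit 266)) (XT.lf (nat_lit 0) (nat_lit 1079209315) (nat_lit 0) (nat_lit 1339021985) (nat_lit 152) (nat_lit 1079209315) (nat_lit 140) (nat_lit 3) (nat_lit 140) (nat_lit 1) (nat_lit 142) (nat_lit 1) (nat_lit 375) (nat_lit 380) (nat_lit 265))))) (XT.nd (nat_lit 234) (nat_lit 304) (nat_lit 0) (XT.nd (nat_lit 78) (nat_lit 152) (nat_lit 0) (XT.lf (nat_lit 76) (nat_lit 981983153) (nat_lit 0) (nat_lit 1229423791) (nat_lit 76) (nat_lit 1229423791) (nat_lit 140) (nat_lit 3) (nat_lit 139) (nat_lit 1) (nat_lit 140) (nat_lit 1) (nat_lit 376) (nat_lit 380) (nat_lit 264)) (XT.nd (nat_lit 78) (nat_lit 0) (nat_lit 0) (XT.lf (nat_lit 152) (nat_lit 3233869422) (nat_lit 0) (nat_lit 76018629) (nat_lit 76) (nat_lit 76018629) (nat_lit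 139) (nat_lit 1) (nat_lit 137) (nat_lit 1) (nat_lit 138) (nat_lit 1) (nat_lit 377) (nat_lit 380) (nat_lit 263)) (XT.lf (nat_lit 0) (nat_lit 1038864989) (nat_lit 0) (nat_lit 1252613516) (nat_lit 152) (nat_lit 1038864989) (nat_lit 137) (nat_lit 3) (nat_lit 137) (nat_lit 1) (nat_lit 139) (nat_lit 1) (nat_lit 378) (nat_lit 380) (nat_lit 262)))) (XT.nd (nat_lit 156) (nat_lit 76) (nat_lit 0) (XT.nd (nat_lit 78) (nat_lit 152) (nat_lit 0) (XT.lf (nat_lit 76) (nat_lit 956441352) (nat_lit 0) (nat_lit 1160011378) (nat_lit 76) (nat_lit 1160011378) (nat_lit 137) (nat_lit 3) (nat_lit 136) (nat_lit 1) (nat_lit 137) (nat_lit 1) (nat_lit 379) (nat_lit 380) (nat_lit 261)) (XT.lf (nat_lit 152) (nat_lit 3099122172) (nat_lit 0) (nat_lit 62540714) (nat_lit 76) (nat_lit 62540714) (nat_lit 136) (nat_lit 1) (nat_lit 134) (nat_lit 1) (nat_lit 135) (nat_lit 1) (nat_lit 380) (nat_lit 380) (nat_lit 260))) (XT.nd (nat_lit 78)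 (nat_lit 76) (nat_lit 0) (XT.lf (nat_lit 0) (nat_lit 998483288) (nat_lit 0) (nat_lit 1174334730) (nat_lit 152) (nat_lit 998483288) (nat_lit 134) (nat_lit 3) (nat_lit 134) (nat_lit 1) (nat_lit 136) (nat_lit 1) (nat_lit 381) (nat_lit 380) (nat_lit 259)) (XT.lf (nat_lit 76) (nat_lit 928353699) (nat_lit 0) (nat_lit 1095831262) (nat_lit 76) (nat_lit 1095831262) (nat_lit 134) (nat_lit 3) (nat_lit 133) (nat_lit 1) (nat_lit 134) (nat_lit 1) (nat_lit 382) (nat_lit 380) (nat_lit 258)))))) (XT.nd (nat_lit 468) (nat_lit 608) (nat_lit 0) (XT.nd (nat_lit 234) (nat_lit 228) (nat_lit 0) (XT.nd (nat_lit 78) (nat_lit 76) (nat_lit 0) (XT.lf (nat_lit 152) (nat_lit 2967379096) (nat_lit 0) (nat_lit 51452400) (nat_lit 76) (nat_lit 51452400) (nat_lit 133) (nat_lit 1) (nat_lit 131) (nat_lit 1) (nat_lit 132) (nat_lit 1) (nat_lit 383) (nat_lit 380) (nat_lit 257)) (XT.nd (nat_lit 78) (nat_lit 76) (nat_lit 0) (XT.lf (nat_lit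 0) (nat_lit 958413234) (nat_lit 0) (nat_lit 1103086651) (nat_lit 152) (nat_lit 958413234) (nat_lit 131) (nat_lit 3) (nat_lit 131) (nat_lit 1) (nat_lit 133) (nat_lit 1) (nat_lit 384) (nat_lit 380) (nat_lit 256)) (XT.lf (nat_lit 76) (nat_lit 898508438) (nat_lit 0) (nat_lit 1036292644) (nat_lit 76) (nat_lit 1036292644) (nat_lit 131) (nat_lit 3) (nat_lit 130) (nat_lit 1) (nat_lit 131) (nat_lit 1) (nat_lit 385) (nat_lit 380) (nat_lit 255)))) (XT.nd (nat_lit 78) (nat_lit 76) (nat_lit 0) (XT.lf (nat_lit 152) (nat_lit 2839102140) (nat_lit 0) (nat_lit 42330017) (nat_lit 76) (nat_lit 42330017) (nat_lit 130) (nat_lit 1) (nat_lit 128) (nat_lit 1) (nat_lit 129) (nat_lit 1) (nat_lit 386) (nat_lit 380) (nat_lit 254)) (XT.nd (nat_lit 78) (nat_lit 76) (nat_lit 0) (XT.lf (nat_lit 0) (nat_lit 918925666) (nat_lit 0) (nat_lit 1037948843) (nat_lit 152) (nat_lit 918925666) (nat_lit 128) (nat_lit 3) (nat_lit 128) (nat_lit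 1) (nat_lit 130) (nat_lit 1) (nat_lit 387) (nat_lit 380) (nat_lit 253)) (XT.lf (nat_lit 76) (nat_lit 867538024) (nat_lit 0) (nat_lit 980893431) (nat_lit 76) (nat_lit 980893431) (nat_lit 128) (nat_lit 3) (nat_lit 127) (nat_lit 1) (nat_lit 128) (nat_lit 1) (nat_lit 388) (nat_lit 380) (nat_lit 252))))) (XT.nd (nat_lit 234) (nat_lit 380) (nat_lit 0) (XT.nd (nat_lit 78) (nat_lit 76) (nat_lit 0) (XT.lf (nat_lit 152) (nat_lit 2714623990) (nat_lit 0) (nat_lit 34825009) (nat_lit 76) (nat_lit 34825009) (nat_lit 127) (nat_lit 1) (nat_lit 125) (nat_lit 1) (nat_lit 126) (nat_lit 1) (nat_lit 389) (nat_lit 380) (nat_lit 251)) (XT.nd (nat_lit 78) (nat_lit 76) (nat_lit 0) (XT.lf (nat_lit 0) (nat_lit 880227873) (nat_lit 0) (nat_lit 978148535) (nat_lit 152) (nat_lit 880227873) (nat_lit 125) (nat_lit 3) (nat_lit 125) (nat_lit 1) (nat_lit 127) (nat_lit 1) (nat_lit 390) (nat_lit 380) (nat_lit 250)) (XT.lf (nat_lit 76)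 (nat_lit 835947496) (nat_lit 0) (nat_lit 929205270) (nat_lit 76) (nat_lit 929205270) (nat_lit 125) (nat_lit 3) (nat_lit 124) (nat_lit 1) (nat_lit 125) (nat_lit 1) (nat_lit 391) (nat_lit 380) (nat_lit 249)))) (XT.nd (nat_lit 156) (nat_lit 228) (nat_lit 0) (XT.nd (nat_lit 78) (nat_lit 0) (nat_lit 0) (XT.lf (nat_lit 152) (nat_lit 2594173239) (nat_lit 0) (nat_lit 28650621) (nat_lit 76) (nat_lit 28650621) (nat_lit 124) (nat_lit 1) (nat_lit 122) (nat_lit 1) (nat_lit 123) (nat_lit 1) (nat_lit 392) (nat_lit 380) (nat_lit 248)) (XT.lf (nat_lit 0) (nat_lit 842475605) (nat_lit 0) (nat_lit 923035176) (nat_lit 152) (nat_lit 842475605) (nat_lit 122) (nat_lit 3) (nat_lit 122) (nat_lit 1) (nat_lit 124) (nat_lit 1) (nat_lit 393) (nat_lit 380) (nat_lit 247))) (XT.nd (nat_lit 78) (nat_lit 152) (nat_lit 0) (XT.lf (nat_lit 76) (nat_lit 804137804) (nat_lit 0) (nat_lit 880861206) (nat_lit 76) (nat_lit 880861206) (nat_lit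 122) (nat_lit 3) (nat_lit 121) (nat_lit 1) (nat_lit 122) (nat_lit 1) (nat_lit 394) (nat_lit 380) (nat_lit 246)) (XT.lf (nat_lit 152) (nat_lit 2477894996) (nat_lit 0) (nat_lit 23570937) (nat_lit 76) (nat_lit 23570937) (nat_lit 121) (nat_lit 1) (nat_lit 119) (nat_lit 1) (nat_lit 120) (nat_lit 1) (nat_lit 395) (nat_lit 380) (nat_lit 245))))))))
noncomputable def ec176 : XT := (XT.nd (nat_lit 1950) (nat_lit 1900) (nat_lit 0) (XT.nd (nat_lit 936) (nat_lit 912) (nat_lit 0) (XT.nd (nat_lit 468) (nat_lit 456) (nat_lit 0) (XT.nd (nat_lit 234) (nat_lit 228) (nat_lit 0) (XT.nd (nat_lit 78) (nat_lit 228) (nat_lit 0) (XT.lf (nat_lit 0) (nat_lit 805782913) (nat_lit 0) (nat_lit 872059472) (nat_lit 152) (nat_lit 805782913) (nat_lit 119) (nat_lit 3) (nat_lit 119) (nat_lit 1) (nat_lit 121) (nat_lit 1) (nat_lit 396) (nat_lit 380) (nat_lit 244)) (XT.nd (nat_lit 78) (nat_lit 152) (nat_lit 0) (XT.lf (nat_lit 76) (nat_lit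 772424952) (nat_lit 0) (nat_lit 835545485) (nat_lit 76) (nat_lit 835545485) (nat_lit 119) (nat_lit 3) (nat_lit 118) (nat_lit 1) (nat_lit 119) (nat_lit 1) (nat_lit 397) (nat_lit 380) (nat_lit 243)) (XT.lf (nat_lit 152) (nat_lit 2365867728) (nat_lit 0) (nat_lit 19391868) (nat_lit 76) (nat_lit 19391868) (nat_lit 118) (nat_lit 1) (nat_lit 116) (nat_lit 1) (nat_lit 117) (nat_lit 1) (nat_lit 398) (nat_lit 380) (nat_lit 242)))) (XT.nd (nat_lit 78) (nat_lit 228) (nat_lit 0) (XT.lf (nat_lit 0) (nat_lit 770230214) (nat_lit 0) (nat_lit 824756103) (nat_lit 152) (nat_lit 770230214) (nat_lit 116) (nat_lit 3) (nat_lit 116) (nat_lit 1) (nat_lit 118) (nat_lit 1) (nat_lit 399) (nat_lit 380) (nat_lit 241)) (XT.nd (nat_lit 78) (nat_lit 152) (nat_lit 0) (XT.lf (nat_lit 76) (nat_lit 741055721) (nat_lit 0) (nat_lit 792985139) (nat_lit 76) (nat_lit 792985139) (nat_lit 116) (nat_lit 3) (nat_lit 115) (nat_lit 1) (nat_lit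 116) (nat_lit 1) (nat_lit 400) (nat_lit 380) (nat_lit 240)) (XT.lf (nat_lit 152) (nat_lit 2258117028) (nat_lit 0) (nat_lit 15953738) (nat_lit 76) (nat_lit 15953738) (nat_lit 115) (nat_lit 1) (nat_lit 113) (nat_lit 1) (nat_lit 114) (nat_lit 1) (nat_lit 401) (nat_lit 380) (nat_lit 239))))) (XT.nd (nat_lit 234) (nat_lit 228) (nat_lit 0) (XT.nd (nat_lit 78) (nat_lit 228) (nat_lit 0) (XT.lf (nat_lit 0) (nat_lit 735870891) (nat_lit 0) (nat_lit 780729475) (nat_lit 152) (nat_lit 735870891) (nat_lit 113) (nat_lit 3) (nat_lit 113) (nat_lit 1) (nat_lit 115) (nat_lit 1) (nat_lit 402) (nat_lit 380) (nat_lit 238)) (XT.nd (nat_lit 78) (nat_lit 152) (nat_lit 0) (XT.lf (nat_lit 76) (nat_lit 710220567) (nat_lit 0) (nat_lit 752943028) (nat_lit 76) (nat_lit 752943028) (nat_lit 113) (nat_lit 3) (nat_lit 112) (nat_lit 1) (nat_lit 113) (nat_lit 1) (nat_lit 403) (nat_lit 380) (nat_lit 237)) (XT.lf (nat_lit 152) (nat_lit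 2154626842) (nat_lit 0) (nat_lit 13125179) (nat_lit 76) (nat_lit 13125179) (nat_lit 112) (nat_lit 1) (nat_lit 110) (nat_lit 1) (nat_lit 111) (nat_lit 1) (nat_lit 404) (nat_lit 380) (nat_lit 236)))) (XT.nd (nat_lit 78) (nat_lit 228) (nat_lit 0) (XT.lf (nat_lit 0) (nat_lit 702736696) (nat_lit 0) (nat_lit 739641964) (nat_lit 152) (nat_lit 702736696) (nat_lit 110) (nat_lit 3) (nat_lit 110) (nat_lit 1) (nat_lit 112) (nat_lit 1) (nat_lit 405) (nat_lit 380) (nat_lit 235)) (XT.nd (nat_lit 78) (nat_lit 152) (nat_lit 0) (XT.lf (nat_lit 76) (nat_lit 680064210) (nat_lit 0) (nat_lit 715212084) (nat_lit 76) (nat_lit 715212084) (nat_lit 110) (nat_lit 3) (nat_lit 109) (nat_lit 1) (nat_lit 110) (nat_lit 1) (nat_lit 406) (nat_lit 380) (nat_lit 234)) (XT.lf (nat_lit 152) (nat_lit 2055348620) (nat_lit 0) (nat_lit 10798118) (nat_lit 76) (nat_lit 10798118) (nat_lit 109) (nat_lit 1) (nat_lit 107) (nat_lit 1) (nat_lit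 108) (nat_lit 1) (nat_lit 407) (nat_lit 380) (nat_lit 233)))))) (XT.nd (nat_lit 468) (nat_lit 456) (nat_lit 0) (XT.nd (nat_lit 234) (nat_lit 228) (nat_lit 0) (XT.nd (nat_lit 78) (nat_lit 228) (nat_lit 0) (XT.lf (nat_lit 0) (nat_lit 670842165) (nat_lit 0) (nat_lit 701204220) (nat_lit 152) (nat_lit 670842165) (nat_lit 107) (nat_lit 3) (nat_lit 107) (nat_lit 1) (nat_lit 109) (nat_lit 1) (nat_lit 408) (nat_lit 380) (nat_lit 232)) (XT.nd (nat_lit 78) (nat_lit 152) (nat_lit 0) (XT.lf (nat_lit 76) (nat_lit 650694310) (nat_lit 0) (nat_lit 679610553) (nat_lit 76) (nat_lit 679610553) (nat_lit 107) (nat_lit 3) (nat_lit 106) (nat_lit 1) (nat_lit 107) (nat_lit 1) (nat_lit 409) (nat_lit 380) (nat_lit 231)) (XT.lf (nat_lit 152) (nat_lit 1960208763) (nat_lit 0) (nat_lit 8883638) (nat_lit 76) (nat_lit 8883638) (nat_lit 106) (nat_lit 1) (nat_lit 104) (nat_lit 1) (nat_lit 105) (nat_lit 1) (nat_lit 410) (nat_lit 380)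 (nat_lit 230)))) (XT.nd (nat_lit 78) (nat_lit 228) (nat_lit 0) (XT.lf (nat_lit 0) (nat_lit 640188220) (nat_lit 0) (nat_lit 665167158) (nat_lit 152) (nat_lit 640188220) (nat_lit 104) (nat_lit 3) (nat_lit 104) (nat_lit 1) (nat_lit 106) (nat_lit 1) (nat_lit 411) (nat_lit 380) (nat_lit 229)) (XT.nd (nat_lit 78) (nat_lit 152) (nat_lit 0) (XT.lf (nat_lit 76) (nat_lit 622188582) (nat_lit 0) (nat_lit 645978047) (nat_lit 76) (nat_lit 645978047) (nat_lit 104) (nat_lit 3) (nat_lit 103) (nat_lit 1) (nat_lit 104) (nat_lit 1) (nat_lit 412) (nat_lit 380) (nat_lit 228)) (XT.lf (nat_lit 152) (nat_lit 1869114664) (nat_lit 0) (nat_lit 7308591) (nat_lit 76) (nat_lit 7308591) (nat_lit 103) (nat_lit 1) (nat_lit 101) (nat_lit 1) (nat_lit 102) (nat_lit 1) (nat_lit 413) (nat_lit 380) (nat_lit 227))))) (XT.nd (nat_lit 234) (nat_lit 228) (nat_lit 0) (XT.nd (nat_lit 78) (nat_lit 228) (nat_lit 0) (XT.lf (nat_lit 0) (nat_lit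 610765109) (nat_lit 0) (nat_lit 631315343) (nat_lit 152) (nat_lit 610765109) (nat_lit 101) (nat_lit 3) (nat_lit 101) (nat_lit 1) (nat_lit 103) (nat_lit 1) (nat_lit 414) (nat_lit 380) (nat_lit 226)) (XT.nd (nat_lit 78) (nat_lit 152) (nat_lit 0) (XT.lf (nat_lit 76) (nat_lit 594600623) (nat_lit 0) (nat_lit 614172275) (nat_lit 76) (nat_lit 614172275) (nat_lit 101) (nat_lit 3) (nat_lit 100) (nat_lit 1) (nat_lit 101) (nat_lit 1) (nat_lit 415) (nat_lit 380) (nat_lit 225)) (XT.lf (nat_lit 152) (nat_lit 1781959606) (nat_lit 0) (nat_lit 6012796) (nat_lit 76) (nat_lit 6012796) (nat_lit 100) (nat_lit 1) (nat_lit 98) (nat_lit 1) (nat_lit 99) (nat_lit 1) (nat_lit 416) (nat_lit 380) (nat_lit 224)))) (XT.nd (nat_lit 156) (nat_lit 152) (nat_lit 0) (XT.nd (nat_lit 78) (nat_lit 76) (nat_lit 0) (XT.lf (nat_lit 0) (nat_lit 582554802) (nat_lit 0) (nat_lit 599461530) (nat_lit 152) (nat_lit 582554802) (nat_lit 98) (nat_lit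 3) (nat_lit 98) (nat_lit 1) (nat_lit 100) (nat_lit 1) (nat_lit 417) (nat_lit 380) (nat_lit 223)) (XT.lf (nat_lit 76) (nat_lit 567964677) (nat_lit 0) (nat_lit 584066323) (nat_lit 76) (nat_lit 584066323) (nat_lit 98) (nat_lit 3) (nat_lit 97) (nat_lit 1) (nat_lit 98) (nat_lit 1) (nat_lit 418) (nat_lit 380) (nat_lit 222))) (XT.nd (nat_lit 78) (nat_lit 0) (nat_lit 0) (XT.lf (nat_lit 152) (nat_lit 1698626717) (nat_lit 0) (nat_lit 4946742) (nat_lit 76) (nat_lit 4946742) (nat_lit 97) (nat_lit 1) (nat_lit 95) (nat_lit 1) (nat_lit 96) (nat_lit 1) (nat_lit 419) (nat_lit 380) (nat_lit 221)) (XT.lf (nat_lit 0) (nat_lit 555532929) (nat_lit 0) (nat_lit 569442137) (nat_lit 152) (nat_lit 555532929) (nat_lit 95) (nat_lit 3) (nat_lit 95) (nat_lit 1) (nat_lit 97) (nat_lit 1) (nat_lit 420) (nat_lit 380) (nat_lit 220))))))) (XT.nd (nat_lit 936) (nat_lit 988) (nat_lit 0) (XT.nd (nat_lit 468) (nat_lit 456) (nat_lit 0)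 (XT.nd (nat_lit 234) (nat_lit 228) (nat_lit 0) (XT.nd (nat_lit 78) (nat_lit 152) (nat_lit 0) (XT.lf (nat_lit 76) (nat_lit 542299539) (nat_lit 0) (nat_lit 555546403) (nat_lit 76) (nat_lit 555546403) (nat_lit 95) (nat_lit 3) (nat_lit 94) (nat_lit 1) (nat_lit 95) (nat_lit 1) (nat_lit 421) (nat_lit 380) (nat_lit 219)) (XT.nd (nat_lit 78) (nat_lit 0) (nat_lit 0) (XT.lf (nat_lit 152) (nat_lit 1618992156) (nat_lit 0) (nat_lit 4069697) (nat_lit 76) (nat_lit 4069697) (nat_lit 94) (nat_lit 1) (nat_lit 92) (nat_lit 1) (nat_lit 93) (nat_lit 1) (nat_lit 422) (nat_lit 380) (nat_lit 218)) (XT.lf (nat_lit 0) (nat_lit 529670365) (nat_lit 0) (nat_lit 541113505) (nat_lit 152) (nat_lit 529670365) (nat_lit 92) (nat_lit 3) (nat_lit 92) (nat_lit 1) (nat_lit 94) (nat_lit 1) (nat_lit 423) (nat_lit 380) (nat_lit 217)))) (XT.nd (nat_lit 78) (nat_lit 152) (nat_lit 0) (XT.lf (nat_lit 76) (nat_lit 517611738) (nat_lit 0) (nat_lit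 528509965) (nat_lit 76) (nat_lit 528509965) (nat_lit 92) (nat_lit 3) (nat_lit 91) (nat_lit 1) (nat_lit 92) (nat_lit 1) (nat_lit 424) (nat_lit 380) (nat_lit 216)) (XT.nd (nat_lit 78) (nat_lit 0) (nat_lit 0) (XT.lf (nat_lit 152) (nat_lit 1542927664) (nat_lit 0) (nat_lit 3348149) (nat_lit 76) (nat_lit 3348149) (nat_lit 91) (nat_lit 1) (nat_lit 89) (nat_lit 1) (nat_lit 90) (nat_lit 1) (nat_lit 425) (nat_lit 380) (nat_lit 215)) (XT.lf (nat_lit 0) (nat_lit 504934501) (nat_lit 0) (nat_lit 514348800) (nat_lit 152) (nat_lit 504934501) (nat_lit 89) (nat_lit 3) (nat_lit 89) (nat_lit 1) (nat_lit 91) (nat_lit 1) (nat_lit 426) (nat_lit 380) (nat_lit 214))))) (XT.nd (nat_lit 234) (nat_lit 228) (nat_lit 0) (XT.nd (nat_lit 78) (nat_lit 152) (nat_lit 0) (XT.lf (nat_lit 76) (nat_lit 493898138) (nat_lit 0) (nat_lit 502864138) (nat_lit 76) (nat_lit 502864138) (nat_lit 89) (nat_lit 3) (nat_lit 88) (nat_lit 1) (nat_lit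 89) (nat_lit 1) (nat_lit 427) (nat_lit 380) (nat_lit 213)) (XT.nd (nat_lit 78) (nat_lit 0) (nat_lit 0) (XT.lf (nat_lit 152) (nat_lit 1470302609) (nat_lit 0) (nat_lit 2754531) (nat_lit 76) (nat_lit 2754531) (nat_lit 88) (nat_lit 1) (nat_lit 86) (nat_lit 1) (nat_lit 87) (nat_lit 1) (nat_lit 428) (nat_lit 380) (nat_lit 212)) (XT.lf (nat_lit 0) (nat_lit 481290274) (nat_lit 0) (nat_lit 489035441) (nat_lit 152) (nat_lit 481290274) (nat_lit 86) (nat_lit 3) (nat_lit 86) (nat_lit 1) (nat_lit 88) (nat_lit 1) (nat_lit 429) (nat_lit 380) (nat_lit 211)))) (XT.nd (nat_lit 78) (nat_lit 152) (nat_lit 0) (XT.lf (nat_lit 76) (nat_lit 471148060) (nat_lit 0) (nat_lit 478524409) (nat_lit 76) (nat_lit 478524409) (nat_lit 86) (nat_lit 3) (nat_lit 85) (nat_lit 1) (nat_lit 86) (nat_lit 1) (nat_lit 430) (nat_lit 380) (nat_lit 210)) (XT.nd (nat_lit 78) (nat_lit 0) (nat_lit 0) (XT.lf (nat_lit 152) (nat_lit 1400985596) (nat_lit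 0) (nat_lit 2266159) (nat_lit 76) (nat_lit 2266159) (nat_lit 85) (nat_lit 1) (nat_lit 83) (nat_lit 1) (nat_lit 84) (nat_lit 1) (nat_lit 431) (nat_lit 380) (nat_lit 209)) (XT.lf (nat_lit 0) (nat_lit 458700995) (nat_lit 0) (nat_lit 465072963) (nat_lit 152) (nat_lit 458700995) (nat_lit 83) (nat_lit 3) (nat_lit 83) (nat_lit 1) (nat_lit 85) (nat_lit 1) (nat_lit 432) (nat_lit 380) (nat_lit 208)))))) (XT.nd (nat_lit 468) (nat_lit 532) (nat_lit 0) (XT.nd (nat_lit 234) (nat_lit 228) (nat_lit 0) (XT.nd (nat_lit 78) (nat_lit 152) (nat_lit 0) (XT.lf (nat_lit 76) (nat_lit 449344998) (nat_lit 0) (nat_lit 455413539) (nat_lit 76) (nat_lit 455413539) (nat_lit 83) (nat_lit 3) (nat_lit 82) (nat_lit 1) (nat_lit 83) (nat_lit 1) (nat_lit 433) (nat_lit 380) (nat_lit 207)) (XT.nd (nat_lit 78) (nat_lit 0) (nat_lit 0) (XT.lf (nat_lit 152) (nat_lit 1334845747) (nat_lit 0) (nat_lit 1864375) (nat_lit 76) (nat_lit 1864375)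 (nat_lit 82) (nat_lit 1) (nat_lit 80) (nat_lit 1) (nat_lit 81) (nat_lit 1) (nat_lit 434) (nat_lit 380) (nat_lit 206)) (XT.lf (nat_lit 0) (nat_lit 437129011) (nat_lit 0) (nat_lit 442371244) (nat_lit 152) (nat_lit 437129011) (nat_lit 80) (nat_lit 3) (nat_lit 80) (nat_lit 1) (nat_lit 82) (nat_lit 1) (nat_lit 435) (nat_lit 380) (nat_lit 205)))) (XT.nd (nat_lit 78) (nat_lit 152) (nat_lit 0) (XT.lf (nat_lit 76) (nat_lit 428468025) (nat_lit 0) (nat_lit 433460629) (nat_lit 76) (nat_lit 433460629) (nat_lit 80) (nat_lit 3) (nat_lit 79) (nat_lit 1) (nat_lit 80) (nat_lit 1) (nat_lit 436) (nat_lit 380) (nat_lit 204)) (XT.nd (nat_lit 78) (nat_lit 0) (nat_lit 0) (XT.lf (nat_lit 152) (nat_lit 1271753689) (nat_lit 0) (nat_lit 1533826) (nat_lit 76) (nat_lit 1533826) (nat_lit 79) (nat_lit 1) (nat_lit 77) (nat_lit 1) (nat_lit 78) (nat_lit 1) (nat_lit 437) (nat_lit 380) (nat_lit 203)) (XT.lf (nat_lit 0) (nat_lit 416536230)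 (nat_lit 0) (nat_lit 420849029) (nat_lit 152) (nat_lit 416536230) (nat_lit 77) (nat_lit 3) (nat_lit 77) (nat_lit 1) (nat_lit 79) (nat_lit 1) (nat_lit 438) (nat_lit 380) (nat_lit 202))))) (XT.nd (nat_lit 234) (nat_lit 304) (nat_lit 0) (XT.nd (nat_lit 78) (nat_lit 152) (nat_lit 0) (XT.lf (nat_lit 76) (nat_lit 408492927) (nat_lit 0) (nat_lit 412600355) (nat_lit 76) (nat_lit 412600355) (nat_lit 77) (nat_lit 3) (nat_lit 76) (nat_lit 1) (nat_lit 77) (nat_lit 1) (nat_lit 439) (nat_lit 380) (nat_lit 201)) (XT.nd (nat_lit 78) (nat_lit 0) (nat_lit 0) (XT.lf (nat_lit 152) (nat_lit 1211582327) (nat_lit 0) (nat_lit 1261882) (nat_lit 76) (nat_lit 1261882) (nat_lit 76) (nat_lit 1) (nat_lit 74) (nat_lit 1) (nat_lit 75) (nat_lit 1) (nat_lit 440) (nat_lit 380) (nat_lit 200)) (XT.lf (nat_lit 0) (nat_lit 396884541) (nat_lit 0) (nat_lit 400432691) (nat_lit 152) (nat_lit 396884541) (nat_lit 74) (nat_lit 3) (nat_lit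 74) (nat_lit 1) (nat_lit 76) (nat_lit 1) (nat_lit 441) (nat_lit 380) (nat_lit 199)))) (XT.nd (nat_lit 156) (nat_lit 76) (nat_lit 0) (XT.nd (nat_lit 78) (nat_lit 152) (nat_lit 0) (XT.lf (nat_lit 76) (nat_lit 389393116) (nat_lit 0) (nat_lit 392772307) (nat_lit 76) (nat_lit 392772307) (nat_lit 74) (nat_lit 3) (nat_lit 73) (nat_lit 1) (nat_lit 74) (nat_lit 1) (nat_lit 442) (nat_lit 380) (nat_lit 198)) (XT.lf (nat_lit 152) (nat_lit 1154207416) (nat_lit 0) (nat_lit 1038153) (nat_lit 76) (nat_lit 1038153) (nat_lit 73) (nat_lit 1) (nat_lit 71) (nat_lit 1) (nat_lit 72) (nat_lit 1) (nat_lit 443) (nat_lit 380) (nat_lit 197))) (XT.nd (nat_lit 78) (nat_lit 76) (nat_lit 0) (XT.lf (nat_lit 0) (nat_lit 378136136) (nat_lit 0) (nat_lit 381055208) (nat_lit 152) (nat_lit 378136136) (nat_lit 71) (nat_lit 3) (nat_lit 71) (nat_lit 1) (nat_lit 73) (nat_lit 1) (nat_lit 444) (nat_lit 380) (nat_lit 196)) (XT.lf (nat_lit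 76) (nat_lit 371140370) (nat_lit 0) (nat_lit 373920438) (nat_lit 76) (nat_lit 373920438) (nat_lit 71) (nat_lit 3) (nat_lit 70) (nat_lit 1) (nat_lit 71) (nat_lit 1) (nat_lit 445) (nat_lit 380) (nat_lit 195))))))))
noncomputable def ec177 : XT := (XT.nd (nat_lit 40170) (nat_lit 0) (nat_lit 11020) (XT.nd (nat_lit 39156) (nat_lit 0) (nat_lit 14440) (XT.nd (nat_lit 38688) (nat_lit 0) (nat_lit 17176) (XT.nd (nat_lit 38454) (nat_lit 0) (nat_lit 17100) (XT.nd (nat_lit 78) (nat_lit 76) (nat_lit 0) (XT.lf (nat_lit 152) (nat_lit 1099507999) (nat_lit 0) (nat_lit 854091) (nat_lit 76) (nat_lit 854091) (nat_lit 70) (nat_lit 1) (nat_lit 68) (nat_lit 1) (nat_lit 69) (nat_lit 1) (nat_lit 446) (nat_lit 380) (nat_lit 194)) (XT.nd (nat_lit 78) (nat_lit 76) (nat_lit 0) (XT.lf (nat_lit 0) (nat_lit 360253765) (nat_lit 0) (nat_lit 362655293) (nat_lit 152) (nat_lit 360253765) (nat_lit 68) (nat_lit 3) (nat_lit 68) (nat_lit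 1) (nat_lit 70) (nat_lit 1) (nat_lit 447) (nat_lit 380) (nat_lit 193)) (XT.lf (nat_lit 76) (nat_lit 353705424) (nat_lit 0) (nat_lit 355992593) (nat_lit 76) (nat_lit 355992593) (nat_lit 68) (nat_lit 3) (nat_lit 67) (nat_lit 1) (nat_lit 68) (nat_lit 1) (nat_lit 448) (nat_lit 380) (nat_lit 192)))) (XT.nd (nat_lit 78) (nat_lit 0) (nat_lit 0) (XT.lf (nat_lit 836) (nat_lit 3972015557) (nat_lit 0) (nat_lit 7052304491) (nat_lit 836) (nat_lit 3972015557) (nat_lit 303) (nat_lit 1) (nat_lit 292) (nat_lit 0) (nat_lit 303) (nat_lit 0) (nat_lit 258) (nat_lit 381) (nat_lit 381)) (XT.nd (nat_lit 78) (nat_lit 0) (nat_lit 76) (XT.lf (nat_lit 836) (nat_lit 15396028186) (nat_lit 76) (nat_lit 6938557645) (nat_lit 0) (nat_lit 6938557645) (nat_lit 303) (nat_lit 1) (nat_lit 293) (nat_lit 1) (nat_lit 292) (nat_lit 0) (nat_lit 259) (nat_lit 381) (nat_lit 380)) (XT.lf (nat_lit 836) (nat_lit 7337515215) (nat_lit 0) (nat_lit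 13900829777) (nat_lit 760) (nat_lit 7337515215) (nat_lit 304) (nat_lit 1) (nat_lit 293) (nat_lit 1) (nat_lit 303) (nat_lit 1) (nat_lit 260) (nat_lit 381) (nat_lit 379))))) (XT.nd (nat_lit 234) (nat_lit 0) (nat_lit 152) (XT.nd (nat_lit 78) (nat_lit 0) (nat_lit 76) (XT.lf (nat_lit 836) (nat_lit 13764158971) (nat_lit 76) (nat_lit 7068472707) (nat_lit 0) (nat_lit 7068472707) (nat_lit 304) (nat_lit 1) (nat_lit 294) (nat_lit 1) (nat_lit 293) (nat_lit 1) (nat_lit 261) (nat_lit 381) (nat_lit 378)) (XT.nd (nat_lit 78) (nat_lit 0) (nat_lit 0) (XT.lf (nat_lit 836) (nat_lit 6335510196) (nat_lit 0) (nat_lit 14576714545) (nat_lit 760) (nat_lit 6335510196) (nat_lit 305) (nat_lit 1) (nat_lit 294) (nat_lit 1) (nat_lit 304) (nat_lit 1) (nat_lit 262) (nat_lit 381) (nat_lit 377)) (XT.lf (nat_lit 836) (nat_lit 11394827732) (nat_lit 76) (nat_lit 7609727477) (nat_lit 0) (nat_lit 7609727477) (nat_lit 305) (nat_lit 1)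 (nat_lit 295) (nat_lit 1) (nat_lit 294) (nat_lit 1) (nat_lit 263) (nat_lit 381) (nat_lit 376)))) (XT.nd (nat_lit 78) (nat_lit 0) (nat_lit 0) (XT.lf (nat_lit 836) (nat_lit 4996302848) (nat_lit 0) (nat_lit 16009493873) (nat_lit 760) (nat_lit 4996302848) (nat_lit 306) (nat_lit 1) (nat_lit 295) (nat_lit 1) (nat_lit 305) (nat_lit 1) (nat_lit 264) (nat_lit 381) (nat_lit 375)) (XT.nd (nat_lit 78) (nat_lit 0) (nat_lit 76) (XT.lf (nat_lit 836) (nat_lit 8398938495) (nat_lit 76) (nat_lit 8503916727) (nat_lit 0) (nat_lit 8503916727) (nat_lit 306) (nat_lit 1) (nat_lit 296) (nat_lit 1) (nat_lit 295) (nat_lit 1) (nat_lit 265) (nat_lit 381) (nat_lit 374)) (XT.lf (nat_lit 836) (nat_lit 3371736346) (nat_lit 0) (nat_lit 18089764025) (nat_lit 760) (nat_lit 3371736346) (nat_lit 307) (nat_lit 1) (nat_lit 296) (nat_lit 1) (nat_lit 306) (nat_lit 1) (nat_lit 266) (nat_lit 381) (nat_lit 373)))))) (XT.nd (nat_lit 468) (nat_lit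 1368) (nat_lit 0) (XT.nd (nat_lit 234) (nat_lit 912) (nat_lit 0) (XT.nd (nat_lit 78) (nat_lit 684) (nat_lit 0) (XT.lf (nat_lit 836) (nat_lit 4875068206) (nat_lit 76) (nat_lit 9699025326) (nat_lit 0) (nat_lit 9699025326) (nat_lit 307) (nat_lit 1) (nat_lit 297) (nat_lit 1) (nat_lit 296) (nat_lit 1) (nat_lit 267) (nat_lit 381) (nat_lit 372)) (XT.nd (nat_lit 78) (nat_lit 760) (nat_lit 0) (XT.lf (nat_lit 76) (nat_lit 1507858106) (nat_lit 0) (nat_lit 20720151392) (nat_lit 760) (nat_lit 1507858106) (nat_lit 298) (nat_lit 1) (nat_lit 297) (nat_lit 1) (nat_lit 307) (nat_lit 1) (nat_lit 268) (nat_lit 381) (nat_lit 371)) (XT.lf (nat_lit 836) (nat_lit 910708798) (nat_lit 0) (nat_lit 11148788424) (nat_lit 760) (nat_lit 11148788424) (nat_lit 298) (nat_lit 1) (nat_lit 287) (nat_lit 1) (nat_lit 297) (nat_lit 1) (nat_lit 269) (nat_lit 381) (nat_lit 370)))) (XT.nd (nat_lit 78) (nat_lit 380) (nat_lit 0) (XT.lf (nat_lit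 532) (nat_lit 21612266715) (nat_lit 0) (nat_lit 545551443) (nat_lit 456) (nat_lit 545551443) (nat_lit 287) (nat_lit 1) (nat_lit 280) (nat_lit 1) (nat_lit 286) (nat_lit 1) (nat_lit 270) (nat_lit 381) (nat_lit 369)) (XT.nd (nat_lit 78) (nat_lit 380) (nat_lit 0) (XT.lf (nat_lit 76) (nat_lit 9448845393) (nat_lit 0) (nat_lit 3307257905) (nat_lit 532) (nat_lit 9448845393) (nat_lit 281) (nat_lit 1) (nat_lit 280) (nat_lit 1) (nat_lit 287) (nat_lit 1) (nat_lit 271) (nat_lit 381) (nat_lit 368)) (XT.lf (nat_lit 456) (nat_lit 16259037508) (nat_lit 0) (nat_lit 2734342233) (nat_lit 380) (nat_lit 2734342233) (nat_lit 281) (nat_lit 1) (nat_lit 275) (nat_lit 1) (nat_lit 280) (nat_lit 1) (nat_lit 272) (nat_lit 381) (nat_lit 367))))) (XT.nd (nat_lit 234) (nat_lit 988) (nat_lit 0) (XT.nd (nat_lit 78) (nat_lit 380) (nat_lit 0) (XT.lf (nat_lit 76) (nat_lit 6739746393) (nat_lit 0) (nat_lit 7781035094) (nat_lit 456) (nat_lit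 6739746393) (nat_lit 276) (nat_lit 1) (nat_lit 275) (nat_lit 1) (nat_lit 281) (nat_lit 1) (nat_lit 273) (nat_lit 381) (nat_lit 366)) (XT.nd (nat_lit 78) (nat_lit 0) (nat_lit 0) (XT.lf (nat_lit 456) (nat_lit 10706806773) (nat_lit 0) (nat_lit 5051399067) (nat_lit 380) (nat_lit 5051399067) (nat_lit 276) (nat_lit 1) (nat_lit 270) (nat_lit 1) (nat_lit 275) (nat_lit 1) (nat_lit 274) (nat_lit 381) (nat_lit 365)) (XT.lf (nat_lit 76) (nat_lit 3945316002) (nat_lit 0) (nat_lit 12481164292) (nat_lit 456) (nat_lit 3945316002) (nat_lit 271) (nat_lit 1) (nat_lit 270) (nat_lit 1) (nat_lit 276) (nat_lit 1) (nat_lit 275) (nat_lit 381) (nat_lit 364)))) (XT.nd (nat_lit 156) (nat_lit 684) (nat_lit 0) (XT.nd (nat_lit 78) (nat_lit 0) (nat_lit 0) (XT.lf (nat_lit 380) (nat_lit 5007251693) (nat_lit 0) (nat_lit 7468998935) (nat_lit 304) (nat_lit 7468998935) (nat_lit 271) (nat_lit 1) (nat_lit 266) (nat_lit 1) (nat_lit 270)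 (nat_lit 1) (nat_lit 276) (nat_lit 381) (nat_lit 363)) (XT.lf (nat_lit 76) (nat_lit 1089544557) (nat_lit 0) (nat_lit 17356016607) (nat_lit 380) (nat_lit 1089544557) (nat_lit 267) (nat_lit 1) (nat_lit 266) (nat_lit 1) (nat_lit 271) (nat_lit 1) (nat_lit 277) (nat_lit 381) (nat_lit 362))) (XT.nd (nat_lit 78) (nat_lit 304) (nat_lit 0) (XT.lf (nat_lit 76) (nat_lit 9180815519) (nat_lit 0) (nat_lit 768911133) (nat_lit 380) (nat_lit 9180815519) (nat_lit 262) (nat_lit 1) (nat_lit 261) (nat_lit 1) (nat_lit 266) (nat_lit 1) (nat_lit 278) (nat_lit 381) (nat_lit 361)) (XT.lf (nat_lit 380) (nat_lit 15186516699) (nat_lit 0) (nat_lit 1777434348) (nat_lit 304) (nat_lit 1777434348) (nat_lit 262) (nat_lit 1) (nat_lit 257) (nat_lit 1) (nat_lit 261) (nat_lit 1) (nat_lit 279) (nat_lit 381) (nat_lit 360))))))) (XT.nd (nat_lit 936) (nat_lit 1520) (nat_lit 0) (XT.nd (nat_lit 468) (nat_lit 988) (nat_lit 0) (XT.nd (nat_lit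 234) (nat_lit 608) (nat_lit 0) (XT.nd (nat_lit 78) (nat_lit 304) (nat_lit 0) (XT.lf (nat_lit 76) (nat_lit 5956819495) (nat_lit 0) (nat_lit 6445265701) (nat_lit 380) (nat_lit 5956819495) (nat_lit 258) (nat_lit 1) (nat_lit 257) (nat_lit 1) (nat_lit 262) (nat_lit 1) (nat_lit 280) (nat_lit 381) (nat_lit 359)) (XT.nd (nat_lit 78) (nat_lit 0) (nat_lit 0) (XT.lf (nat_lit 380) (nat_lit 8692656702) (nat_lit 0) (nat_lit 4648515184) (nat_lit 304) (nat_lit 4648515184) (nat_lit 258) (nat_lit 1) (nat_lit 253) (nat_lit 1) (nat_lit 257) (nat_lit 1) (nat_lit 281) (nat_lit 381) (nat_lit 358)) (XT.lf (nat_lit 76) (nat_lit 2741275976) (nat_lit 0) (nat_lit 12148713453) (nat_lit 380) (nat_lit 2741275976) (nat_lit 254) (nat_lit 1) (nat_lit 253) (nat_lit 1) (nat_lit 258) (nat_lit 1) (nat_lit 282) (nat_lit 381) (nat_lit 357)))) (XT.nd (nat_lit 78) (nat_lit 380) (nat_lit 0) (XT.lf (nat_lit 304) (nat_lit 2229362345) (nat_lit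 0) (nat_lit 7525609143) (nat_lit 228) (nat_lit 7525609143) (nat_lit 254) (nat_lit 1) (nat_lit 250) (nat_lit 1) (nat_lit 253) (nat_lit 1) (nat_lit 283) (nat_lit 381) (nat_lit 356)) (XT.nd (nat_lit 78) (nat_lit 0) (nat_lit 0) (XT.lf (nat_lit 380) (nat_lit 16052572957) (nat_lit 0) (nat_lit 445428098) (nat_lit 304) (nat_lit 445428098) (nat_lit 250) (nat_lit 1) (nat_lit 245) (nat_lit 1) (nat_lit 249) (nat_lit 1) (nat_lit 284) (nat_lit 381) (nat_lit 355)) (XT.lf (nat_lit 76) (nat_lit 6281490472) (nat_lit 0) (nat_lit 4045162822) (nat_lit 380) (nat_lit 6281490472) (nat_lit 246) (nat_lit 1) (nat_lit 245) (nat_lit 1) (nat_lit 250) (nat_lit 1) (nat_lit 285) (nat_lit 381) (nat_lit 354))))) (XT.nd (nat_lit 234) (nat_lit 532) (nat_lit 0) (XT.nd (nat_lit 78) (nat_lit 228) (nat_lit 0) (XT.lf (nat_lit 304) (nat_lit 9174315420) (nat_lit 0) (nat_lit 3555701024) (nat_lit 228) (nat_lit 3555701024) (nat_lit 246) (nat_lit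 1) (nat_lit 242) (nat_lit 1) (nat_lit 245) (nat_lit 1) (nat_lit 286) (nat_lit 381) (nat_lit 353)) (XT.nd (nat_lit 78) (nat_lit 228) (nat_lit 0) (XT.lf (nat_lit 76) (nat_lit 2898308153) (nat_lit 0) (nat_lit 10174866658) (nat_lit 304) (nat_lit 2898308153) (nat_lit 243) (nat_lit 1) (nat_lit 242) (nat_lit 1) (nat_lit 246) (nat_lit 1) (nat_lit 287) (nat_lit 381) (nat_lit 352)) (XT.lf (nat_lit 304) (nat_lit 2415649255) (nat_lit 0) (nat_lit 6624373977) (nat_lit 228) (nat_lit 6624373977) (nat_lit 243) (nat_lit 1) (nat_lit 239) (nat_lit 1) (nat_lit 242) (nat_lit 1) (nat_lit 288) (nat_lit 381) (nat_lit 351)))) (XT.nd (nat_lit 78) (nat_lit 228) (nat_lit 0) (XT.lf (nat_lit 304) (nat_lit 14538411526) (nat_lit 0) (nat_lit 415154278) (nat_lit 228) (nat_lit 415154278) (nat_lit 239) (nat_lit 1) (nat_lit 235) (nat_lit 1) (nat_lit 238) (nat_lit 1) (nat_lit 289) (nat_lit 381) (nat_lit 350)) (XT.nd (nat_lit 78) (nat_lit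 228) (nat_lit 0) (XT.lf (nat_lit 76) (nat_lit 5499464726) (nat_lit 0) (nat_lit 4075048141) (nat_lit 304) (nat_lit 5499464726) (nat_lit 236) (nat_lit 1) (nat_lit 235) (nat_lit 1) (nat_lit 239) (nat_lit 1) (nat_lit 290) (nat_lit 381) (nat_lit 349)) (XT.lf (nat_lit 304) (nat_lit 7562267562) (nat_lit 0) (nat_lit 3613936532) (nat_lit 228) (nat_lit 3613936532) (nat_lit 236) (nat_lit 1) (nat_lit 232) (nat_lit 1) (nat_lit 235) (nat_lit 1) (nat_lit 291) (nat_lit 381) (nat_lit 348)))))) (XT.nd (nat_lit 468) (nat_lit 912) (nat_lit 0) (XT.nd (nat_lit 234) (nat_lit 152) (nat_lit 0) (XT.nd (nat_lit 78) (nat_lit 456) (nat_lit 0) (XT.lf (nat_lit 76) (nat_lit 2082642319) (nat_lit 0) (nat_lit 10348631656) (nat_lit 304) (nat_lit 2082642319) (nat_lit 233) (nat_lit 1) (nat_lit 232) (nat_lit 1) (nat_lit 236) (nat_lit 1) (nat_lit 292) (nat_lit 381) (nat_lit 347)) (XT.nd (nat_lit 78) (nat_lit 304) (nat_lit 0) (XT.lf (nat_lit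 228) (nat_lit 763149392) (nat_lit 0) (nat_lit 6739873926) (nat_lit 152) (nat_lit 6739873926) (nat_lit 233) (nat_lit 1) (nat_lit 230) (nat_lit 1) (nat_lit 232) (nat_lit 1) (nat_lit 293) (nat_lit 381) (nat_lit 346)) (XT.lf (nat_lit 304) (nat_lit 11530931420) (nat_lit 0) (nat_lit 1224668496) (nat_lit 228) (nat_lit 1224668496) (nat_lit 230) (nat_lit 1) (nat_lit 226) (nat_lit 1) (nat_lit 229) (nat_lit 1) (nat_lit 294) (nat_lit 381) (nat_lit 345)))) (XT.nd (nat_lit 78) (nat_lit 152) (nat_lit 0) (XT.lf (nat_lit 76) (nat_lit 4027480633) (nat_lit 0) (nat_lit 5665615567) (nat_lit 304) (nat_lit 4027480633) (nat_lit 227) (nat_lit 1) (nat_lit 226) (nat_lit 1) (nat_lit 230) (nat_lit 1) (nat_lit 295) (nat_lit 381) (nat_lit 344)) (XT.nd (nat_lit 78) (nat_lit 0) (nat_lit 0) (XT.lf (nat_lit 228) (nat_lit 4653132607) (nat_lit 0) (nat_lit 4407883721) (nat_lit 152) (nat_lit 4407883721) (nat_lit 227) (nat_lit 1) (nat_lit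 224) (nat_lit 1) (nat_lit 226) (nat_lit 1) (nat_lit 296) (nat_lit 381) (nat_lit 343)) (XT.lf (nat_lit 76) (nat_lit 668507462) (nat_lit 0) (nat_lit 11888560527) (nat_lit 228) (nat_lit 668507462) (nat_lit 225) (nat_lit 1) (nat_lit 224) (nat_lit 1) (nat_lit 227) (nat_lit 1) (nat_lit 297) (nat_lit 381) (nat_lit 342))))) (XT.nd (nat_lit 234) (nat_lit 532) (nat_lit 0) (XT.nd (nat_lit 78) (nat_lit 152) (nat_lit 0) (XT.lf (nat_lit 76) (nat_lit 5517309374) (nat_lit 0) (nat_lit 1948516608) (nat_lit 228) (nat_lit 5517309374) (nat_lit 222) (nat_lit 1) (nat_lit 221) (nat_lit 1) (nat_lit 224) (nat_lit 1) (nat_lit 298) (nat_lit 381) (nat_lit 341)) (XT.nd (nat_lit 78) (nat_lit 0) (nat_lit 0) (XT.lf (nat_lit 228) (nat_lit 7661751057) (nat_lit 0) (nat_lit 2543493763) (nat_lit 152) (nat_lit 2543493763) (nat_lit 222) (nat_lit 1) (nat_lit 219) (nat_lit 1) (nat_lit 221) (nat_lit 1) (nat_lit 299) (nat_lit 381) (nat_lit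 340)) (XT.lf (nat_lit 76) (nat_lit 2161946818) (nat_lit 0) (nat_lit 8195628855) (nat_lit 228) (nat_lit 2161946818) (nat_lit 220) (nat_lit 1) (nat_lit 219) (nat_lit 1) (nat_lit 222) (nat_lit 1) (nat_lit 300) (nat_lit 381) (nat_lit 339)))) (XT.nd (nat_lit 156) (nat_lit 152) (nat_lit 0) (XT.nd (nat_lit 78) (nat_lit 228) (nat_lit 0) (XT.lf (nat_lit 228) (nat_lit 1012794247) (nat_lit 0) (nat_lit 5641066280) (nat_lit 152) (nat_lit 5641066280) (nat_lit 220) (nat_lit 1) (nat_lit 217) (nat_lit 1) (nat_lit 219) (nat_lit 1) (nat_lit 301) (nat_lit 381) (nat_lit 338)) (XT.lf (nat_lit 228) (nat_lit 9954396171) (nat_lit 0) (nat_lit 1061221392) (nat_lit 152) (nat_lit 1061221392) (nat_lit 217) (nat_lit 1) (nat_lit 214) (nat_lit 1) (nat_lit 216) (nat_lit 1) (nat_lit 302) (nat_lit 381) (nat_lit 337))) (XT.nd (nat_lit 78) (nat_lit 152) (nat_lit 0) (XT.lf (nat_lit 76) (nat_lit 3313842879) (nat_lit 0) (nat_lit 5232926701)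 (nat_lit 228) (nat_lit 3313842879) (nat_lit 215) (nat_lit 1) (nat_lit 214) (nat_lit 1) (nat_lit 217) (nat_lit 1) (nat_lit 303) (nat_lit 381) (nat_lit 336)) (XT.lf (nat_lit 228) (nat_lit 3374988083) (nat_lit 0) (nat_lit 4137837617) (nat_lit 152) (nat_lit 4137837617) (nat_lit 215) (nat_lit 1) (nat_lit 212) (nat_lit 1) (nat_lit 214) (nat_lit 1) (nat_lit 304) (nat_lit 381) (nat_lit 335))))))))
noncomputable def ec178 : XT := (XT.nd (nat_lit 1950) (nat_lit 1900) (nat_lit 0) (XT.nd (nat_lit 936) (nat_lit 988) (nat_lit 0) (XT.nd (nat_lit 468) (nat_lit 608) (nat_lit 0) (XT.nd (nat_lit 234) (nat_lit 304) (nat_lit 0) (XT.nd (nat_lit 78) (nat_lit 304) (nat_lit 0) (XT.lf (nat_lit 76) (nat_lit 110926550) (nat_lit 0) (nat_lit 11226224004) (nat_lit 228) (nat_lit 110926550) (nat_lit 213) (nat_lit 1) (nat_lit 212) (nat_lit 1) (nat_lit 215) (nat_lit 1) (nat_lit 305) (nat_lit 381) (nat_lit 334)) (XT.nd (nat_lit 78)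 (nat_lit 152) (nat_lit 0) (XT.lf (nat_lit 76) (nat_lit 4188405672) (nat_lit 0) (nat_lit 2867391804) (nat_lit 152) (nat_lit 4188405672) (nat_lit 211) (nat_lit 1) (nat_lit 210) (nat_lit 1) (nat_lit 212) (nat_lit 1) (nat_lit 306) (nat_lit 381) (nat_lit 333)) (XT.lf (nat_lit 228) (nat_lit 5197334620) (nat_lit 0) (nat_lit 2925083941) (nat_lit 152) (nat_lit 2925083941) (nat_lit 211) (nat_lit 1) (nat_lit 208) (nat_lit 1) (nat_lit 210) (nat_lit 1) (nat_lit 307) (nat_lit 381) (nat_lit 332)))) (XT.nd (nat_lit 78) (nat_lit 304) (nat_lit 0) (XT.lf (nat_lit 76) (nat_lit 1042029671) (nat_lit 0) (nat_lit 8772051966) (nat_lit 228) (nat_lit 1042029671) (nat_lit 209) (nat_lit 1) (nat_lit 208) (nat_lit 1) (nat_lit 211) (nat_lit 1) (nat_lit 308) (nat_lit 381) (nat_lit 331)) (XT.nd (nat_lit 78) (nat_lit 152) (nat_lit 0) (XT.lf (nat_lit 76) (nat_lit 4838286887) (nat_lit 0) (nat_lit 989724673) (nat_lit 152) (nat_lit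 4838286887) (nat_lit 207) (nat_lit 1) (nat_lit 206) (nat_lit 1) (nat_lit 208) (nat_lit 1) (nat_lit 309) (nat_lit 381) (nat_lit 330)) (XT.lf (nat_lit 228) (nat_lit 6581311074) (nat_lit 0) (nat_lit 1950163982) (nat_lit 152) (nat_lit 1950163982) (nat_lit 207) (nat_lit 1) (nat_lit 204) (nat_lit 1) (nat_lit 206) (nat_lit 1) (nat_lit 310) (nat_lit 381) (nat_lit 329))))) (XT.nd (nat_lit 234) (nat_lit 304) (nat_lit 0) (XT.nd (nat_lit 78) (nat_lit 304) (nat_lit 0) (XT.lf (nat_lit 76) (nat_lit 1762775745) (nat_lit 0) (nat_lit 6775083810) (nat_lit 228) (nat_lit 1762775745) (nat_lit 205) (nat_lit 1) (nat_lit 204) (nat_lit 1) (nat_lit 207) (nat_lit 1) (nat_lit 311) (nat_lit 381) (nat_lit 328)) (XT.nd (nat_lit 78) (nat_lit 228) (nat_lit 0) (XT.lf (nat_lit 152) (nat_lit 506028722) (nat_lit 0) (nat_lit 4808509233) (nat_lit 76) (nat_lit 4808509233) (nat_lit 205) (nat_lit 1) (nat_lit 203) (nat_lit 1) (nat_lit 204)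 (nat_lit 1) (nat_lit 312) (nat_lit 381) (nat_lit 327)) (XT.lf (nat_lit 228) (nat_lit 7610128547) (nat_lit 0) (nat_lit 1169823957) (nat_lit 152) (nat_lit 1169823957) (nat_lit 203) (nat_lit 1) (nat_lit 200) (nat_lit 1) (nat_lit 202) (nat_lit 1) (nat_lit 313) (nat_lit 381) (nat_lit 326)))) (XT.nd (nat_lit 78) (nat_lit 304) (nat_lit 0) (XT.lf (nat_lit 76) (nat_lit 2312616497) (nat_lit 0) (nat_lit 5153206739) (nat_lit 228) (nat_lit 2312616497) (nat_lit 201) (nat_lit 1) (nat_lit 200) (nat_lit 1) (nat_lit 203) (nat_lit 1) (nat_lit 314) (nat_lit 381) (nat_lit 325)) (XT.nd (nat_lit 78) (nat_lit 228) (nat_lit 0) (XT.lf (nat_lit 152) (nat_lit 1699359089) (nat_lit 0) (nat_lit 3955972446) (nat_lit 76) (nat_lit 3955972446) (nat_lit 201) (nat_lit 1) (nat_lit 199) (nat_lit 1) (nat_lit 200) (nat_lit 1) (nat_lit 315) (nat_lit 381) (nat_lit 324)) (XT.lf (nat_lit 228) (nat_lit 8351983625) (nat_lit 0) (nat_lit 548530611)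 (nat_lit 152) (nat_lit 548530611) (nat_lit 199) (nat_lit 1) (nat_lit 196) (nat_lit 1) (nat_lit 198) (nat_lit 1) (nat_lit 316) (nat_lit 381) (nat_lit 323)))))) (XT.nd (nat_lit 468) (nat_lit 608) (nat_lit 0) (XT.nd (nat_lit 234) (nat_lit 76) (nat_lit 0) (XT.nd (nat_lit 78) (nat_lit 304) (nat_lit 0) (XT.lf (nat_lit 76) (nat_lit 2723906296) (nat_lit 0) (nat_lit 3838916435) (nat_lit 228) (nat_lit 2723906296) (nat_lit 197) (nat_lit 1) (nat_lit 196) (nat_lit 1) (nat_lit 199) (nat_lit 1) (nat_lit 317) (nat_lit 381) (nat_lit 322)) (XT.nd (nat_lit 78) (nat_lit 228) (nat_lit 0) (XT.lf (nat_lit 152) (nat_lit 2620017412) (nat_lit 0) (nat_lit 3254588322) (nat_lit 76) (nat_lit 3254588322) (nat_lit 197) (nat_lit 1) (nat_lit 195) (nat_lit 1) (nat_lit 196) (nat_lit 1) (nat_lit 318) (nat_lit 381) (nat_lit 321)) (XT.lf (nat_lit 228) (nat_lit 8862732871) (nat_lit 0) (nat_lit 57099916) (nat_lit 152) (nat_lit 57099916)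 (nat_lit 195) (nat_lit 1) (nat_lit 192) (nat_lit 1) (nat_lit 194) (nat_lit 1) (nat_lit 319) (nat_lit 381) (nat_lit 320)))) (XT.nd (nat_lit 78) (nat_lit 76) (nat_lit 0) (XT.lf (nat_lit 76) (nat_lit 3023165385) (nat_lit 0) (nat_lit 2776724620) (nat_lit 228) (nat_lit 3023165385) (nat_lit 193) (nat_lit 1) (nat_lit 192) (nat_lit 1) (nat_lit 195) (nat_lit 1) (nat_lit 320) (nat_lit 381) (nat_lit 319)) (XT.nd (nat_lit 78) (nat_lit 0) (nat_lit 0) (XT.lf (nat_lit 152) (nat_lit 3319257173) (nat_lit 0) (nat_lit 2677557867) (nat_lit 76) (nat_lit 2677557867) (nat_lit 193) (nat_lit 1) (nat_lit 191) (nat_lit 1) (nat_lit 192) (nat_lit 1) (nat_lit 321) (nat_lit 381) (nat_lit 318)) (XT.lf (nat_lit 0) (nat_lit 333815086) (nat_lit 0) (nat_lit 7862549225) (nat_lit 152) (nat_lit 333815086) (nat_lit 191) (nat_lit 3) (nat_lit 191) (nat_lit 1) (nat_lit 193) (nat_lit 1) (nat_lit 322) (nat_lit 381) (nat_lit 317))))) (XT.nd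 (nat_lit 234) (nat_lit 380) (nat_lit 0) (XT.nd (nat_lit 78) (nat_lit 76) (nat_lit 0) (XT.lf (nat_lit 76) (nat_lit 3232118914) (nat_lit 0) (nat_lit 1921026377) (nat_lit 152) (nat_lit 3232118914) (nat_lit 190) (nat_lit 1) (nat_lit 189) (nat_lit 1) (nat_lit 191) (nat_lit 1) (nat_lit 323) (nat_lit 381) (nat_lit 316)) (XT.nd (nat_lit 78) (nat_lit 0) (nat_lit 0) (XT.lf (nat_lit 152) (nat_lit 3839106201) (nat_lit 0) (nat_lit 2202833483) (nat_lit 76) (nat_lit 2202833483) (nat_lit 190) (nat_lit 1) (nat_lit 188) (nat_lit 1) (nat_lit 189) (nat_lit 1) (nat_lit 324) (nat_lit 381) (nat_lit 315)) (XT.lf (nat_lit 0) (nat_lit 638022336) (nat_lit 0) (nat_lit 6831930544) (nat_lit 152) (nat_lit 638022336) (nat_lit 188) (nat_lit 3) (nat_lit 188) (nat_lit 1) (nat_lit 190) (nat_lit 1) (nat_lit 325) (nat_lit 381) (nat_lit 314)))) (XT.nd (nat_lit 156) (nat_lit 152) (nat_lit 0) (XT.nd (nat_lit 78) (nat_lit 76) (nat_lit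 0) (XT.lf (nat_lit 76) (nat_lit 3368551534) (nat_lit 0) (nat_lit 1234345689) (nat_lit 152) (nat_lit 3368551534) (nat_lit 187) (nat_lit 1) (nat_lit 186) (nat_lit 1) (nat_lit 188) (nat_lit 1) (nat_lit 326) (nat_lit 381) (nat_lit 313)) (XT.lf (nat_lit 152) (nat_lit 4214008943) (nat_lit 0) (nat_lit 1812276558) (nat_lit 76) (nat_lit 1812276558) (nat_lit 187) (nat_lit 1) (nat_lit 185) (nat_lit 1) (nat_lit 186) (nat_lit 1) (nat_lit 327) (nat_lit 381) (nat_lit 312))) (XT.nd (nat_lit 78) (nat_lit 152) (nat_lit 0) (XT.lf (nat_lit 0) (nat_lit 870990021) (nat_lit 0) (nat_lit 5966733632) (nat_lit 152) (nat_lit 870990021) (nat_lit 185) (nat_lit 3) (nat_lit 185) (nat_lit 1) (nat_lit 187) (nat_lit 1) (nat_lit 328) (nat_lit 381) (nat_lit 311)) (XT.lf (nat_lit 76) (nat_lit 3447010260) (nat_lit 0) (nat_lit 685892143) (nat_lit 152) (nat_lit 3447010260) (nat_lit 184) (nat_lit 1) (nat_lit 183) (nat_lit 1) (nat_lit 185)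 (nat_lit 1) (nat_lit 329) (nat_lit 381) (nat_lit 310))))))) (XT.nd (nat_lit 936) (nat_lit 1064) (nat_lit 0) (XT.nd (nat_lit 468) (nat_lit 456) (nat_lit 0) (XT.nd (nat_lit 234) (nat_lit 152) (nat_lit 0) (XT.nd (nat_lit 78) (nat_lit 152) (nat_lit 0) (XT.lf (nat_lit 152) (nat_lit 4472177273) (nat_lit 0) (nat_lit 1490964409) (nat_lit 76) (nat_lit 1490964409) (nat_lit 184) (nat_lit 1) (nat_lit 182) (nat_lit 1) (nat_lit 183) (nat_lit 1) (nat_lit 330) (nat_lit 381) (nat_lit 309)) (XT.nd (nat_lit 78) (nat_lit 152) (nat_lit 0) (XT.lf (nat_lit 0) (nat_lit 1046172756) (nat_lit 0) (nat_lit 5238453636) (nat_lit 152) (nat_lit 1046172756) (nat_lit 182) (nat_lit 3) (nat_lit 182) (nat_lit 1) (nat_lit 184) (nat_lit 1) (nat_lit 331) (nat_lit 381) (nat_lit 308)) (XT.lf (nat_lit 76) (nat_lit 3479382515) (nat_lit 0) (nat_lit 250373629) (nat_lit 152) (nat_lit 3479382515) (nat_lit 181) (nat_lit 1) (nat_lit 180) (nat_lit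 1) (nat_lit 182) (nat_lit 1) (nat_lit 332) (nat_lit 381) (nat_lit 307)))) (XT.nd (nat_lit 78) (nat_lit 76) (nat_lit 0) (XT.lf (nat_lit 152) (nat_lit 4636701488) (nat_lit 0) (nat_lit 1226620109) (nat_lit 76) (nat_lit 1226620109) (nat_lit 181) (nat_lit 1) (nat_lit 179) (nat_lit 1) (nat_lit 180) (nat_lit 1) (nat_lit 333) (nat_lit 381) (nat_lit 306)) (XT.nd (nat_lit 78) (nat_lit 76) (nat_lit 0) (XT.lf (nat_lit 0) (nat_lit 1174600449) (nat_lit 0) (nat_lit 4623600304) (nat_lit 152) (nat_lit 1174600449) (nat_lit 179) (nat_lit 3) (nat_lit 179) (nat_lit 1) (nat_lit 181) (nat_lit 1) (nat_lit 334) (nat_lit 381) (nat_lit 305)) (XT.lf (nat_lit 76) (nat_lit 96054711) (nat_lit 0) (nat_lit 3380816477) (nat_lit 76) (nat_lit 3380816477) (nat_lit 179) (nat_lit 3) (nat_lit 178) (nat_lit 1) (nat_lit 179) (nat_lit 1) (nat_lit 335) (nat_lit 381) (nat_lit 304))))) (XT.nd (nat_lit 234) (nat_lit 228) (nat_lit 0) (XT.nd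 (nat_lit 78) (nat_lit 76) (nat_lit 0) (XT.lf (nat_lit 152) (nat_lit 4726464053) (nat_lit 0) (nat_lit 1009143399) (nat_lit 76) (nat_lit 1009143399) (nat_lit 178) (nat_lit 1) (nat_lit 176) (nat_lit 1) (nat_lit 177) (nat_lit 1) (nat_lit 336) (nat_lit 381) (nat_lit 303)) (XT.nd (nat_lit 78) (nat_lit 76) (nat_lit 0) (XT.lf (nat_lit 0) (nat_lit 1265310062) (nat_lit 0) (nat_lit 4102810778) (nat_lit 152) (nat_lit 1265310062) (nat_lit 176) (nat_lit 3) (nat_lit 176) (nat_lit 1) (nat_lit 178) (nat_lit 1) (nat_lit 337) (nat_lit 381) (nat_lit 302)) (XT.lf (nat_lit 76) (nat_lit 373165824) (nat_lit 0) (nat_lit 3075547458) (nat_lit 76) (nat_lit 3075547458) (nat_lit 176) (nat_lit 3) (nat_lit 175) (nat_lit 1) (nat_lit 176) (nat_lit 1) (nat_lit 338) (nat_lit 381) (nat_lit 301)))) (XT.nd (nat_lit 78) (nat_lit 76) (nat_lit 0) (XT.lf (nat_lit 152) (nat_lit 4756891068) (nat_lit 0) (nat_lit 830224772) (nat_lit 76) (nat_lit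 830224772) (nat_lit 175) (nat_lit 1) (nat_lit 173) (nat_lit 1) (nat_lit 174) (nat_lit 1) (nat_lit 339) (nat_lit 381) (nat_lit 300)) (XT.nd (nat_lit 78) (nat_lit 76) (nat_lit 0) (XT.lf (nat_lit 0) (nat_lit 1325700734) (nat_lit 0) (nat_lit 3660119595) (nat_lit 152) (nat_lit 1325700734) (nat_lit 173) (nat_lit 3) (nat_lit 173) (nat_lit 1) (nat_lit 175) (nat_lit 1) (nat_lit 340) (nat_lit 381) (nat_lit 299)) (XT.lf (nat_lit 76) (nat_lit 587139090) (nat_lit 0) (nat_lit 2810395149) (nat_lit 76) (nat_lit 2810395149) (nat_lit 173) (nat_lit 3) (nat_lit 172) (nat_lit 1) (nat_lit 173) (nat_lit 1) (nat_lit 341) (nat_lit 381) (nat_lit 298)))))) (XT.nd (nat_lit 468) (nat_lit 608) (nat_lit 0) (XT.nd (nat_lit 234) (nat_lit 228) (nat_lit 0) (XT.nd (nat_lit 78) (nat_lit 76) (nat_lit 0) (XT.lf (nat_lit 152) (nat_lit 4740570240) (nat_lit 0) (nat_lit 683027974) (nat_lit 76) (nat_lit 683027974) (nat_lit 172) (nat_lit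 1) (nat_lit 170) (nat_lit 1) (nat_lit 171) (nat_lit 1) (nat_lit 342) (nat_lit 381) (nat_lit 297)) (XT.nd (nat_lit 78) (nat_lit 76) (nat_lit 0) (XT.lf (nat_lit 0) (nat_lit 1361825860) (nat_lit 0) (nat_lit 3282358034) (nat_lit 152) (nat_lit 1361825860) (nat_lit 170) (nat_lit 3) (nat_lit 170) (nat_lit 1) (nat_lit 172) (nat_lit 1) (nat_lit 343) (nat_lit 381) (nat_lit 296)) (XT.lf (nat_lit 76) (nat_lit 749835681) (nat_lit 0) (nat_lit 2578913942) (nat_lit 76) (nat_lit 2578913942) (nat_lit 170) (nat_lit 3) (nat_lit 169) (nat_lit 1) (nat_lit 170) (nat_lit 1) (nat_lit 344) (nat_lit 381) (nat_lit 295)))) (XT.nd (nat_lit 78) (nat_lit 76) (nat_lit 0) (XT.lf (nat_lit 152) (nat_lit 4687759045) (nat_lit 0) (nat_lit 561928805) (nat_lit 76) (nat_lit 561928805) (nat_lit 169) (nat_lit 1) (nat_lit 167) (nat_lit 1) (nat_lit 168) (nat_lit 1) (nat_lit 345) (nat_lit 381) (nat_lit 294)) (XT.nd (nat_lit 78) (nat_lit 76)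 (nat_lit 0) (XT.lf (nat_lit 0) (nat_lit 1378633301) (nat_lit 0) (nat_lit 2958659874) (nat_lit 152) (nat_lit 1378633301) (nat_lit 167) (nat_lit 3) (nat_lit 167) (nat_lit 1) (nat_lit 169) (nat_lit 1) (nat_lit 346) (nat_lit 381) (nat_lit 293)) (XT.lf (nat_lit 76) (nat_lit 870982050) (nat_lit 0) (nat_lit 2375769262) (nat_lit 76) (nat_lit 2375769262) (nat_lit 167) (nat_lit 3) (nat_lit 166) (nat_lit 1) (nat_lit 167) (nat_lit 1) (nat_lit 347) (nat_lit 381) (nat_lit 292))))) (XT.nd (nat_lit 234) (nat_lit 380) (nat_lit 0) (XT.nd (nat_lit 78) (nat_lit 76) (nat_lit 0) (XT.lf (nat_lit 152) (nat_lit 4606802564) (nat_lit 0) (nat_lit 462300218) (nat_lit 76) (nat_lit 462300218) (nat_lit 166) (nat_lit 1) (nat_lit 164) (nat_lit 1) (nat_lit 165) (nat_lit 1) (nat_lit 348) (nat_lit 381) (nat_lit 291)) (XT.nd (nat_lit 78) (nat_lit 76) (nat_lit 0) (XT.lf (nat_lit 0) (nat_lit 1380162929) (nat_lit 0) (nat_lit 2680054701)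 (nat_lit 152) (nat_lit 1380162929) (nat_lit 164) (nat_lit 3) (nat_lit 164) (nat_lit 1) (nat_lit 166) (nat_lit 1) (nat_lit 349) (nat_lit 381) (nat_lit 290)) (XT.lf (nat_lit 76) (nat_lit 958549926) (nat_lit 0) (nat_lit 2196542089) (nat_lit 76) (nat_lit 2196542089) (nat_lit 164) (nat_lit 3) (nat_lit 163) (nat_lit 1) (nat_lit 164) (nat_lit 1) (nat_lit 350) (nat_lit 381) (nat_lit 289)))) (XT.nd (nat_lit 156) (nat_lit 228) (nat_lit 0) (XT.nd (nat_lit 78) (nat_lit 0) (nat_lit 0) (XT.lf (nat_lit 152) (nat_lit 4504477010) (nat_lit 0) (nat_lit 380335534) (nat_lit 76) (nat_lit 380335534) (nat_lit 163) (nat_lit 1) (nat_lit 161) (nat_lit 1) (nat_lit 162) (nat_lit 1) (nat_lit 351) (nat_lit 381) (nat_lit 288)) (XT.lf (nat_lit 0) (nat_lit 1369709077) (nat_lit 0) (nat_lit 2439133254) (nat_lit 152) (nat_lit 1369709077) (nat_lit 161) (nat_lit 3) (nat_lit 161) (nat_lit 1) (nat_lit 163) (nat_lit 1) (nat_lit 352) (nat_lit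 381) (nat_lit 287))) (XT.nd (nat_lit 78) (nat_lit 152) (nat_lit 0) (XT.lf (nat_lit 76) (nat_lit 1019068860) (nat_lit 0) (nat_lit 2037568077) (nat_lit 76) (nat_lit 2037568077) (nat_lit 161) (nat_lit 3) (nat_lit 160) (nat_lit 1) (nat_lit 161) (nat_lit 1) (nat_lit 353) (nat_lit 381) (nat_lit 286)) (XT.lf (nat_lit 152) (nat_lit 4386272136) (nat_lit 0) (nat_lit 312902985) (nat_lit 76) (nat_lit 312902985) (nat_lit 160) (nat_lit 1) (nat_lit 158) (nat_lit 1) (nat_lit 159) (nat_lit 1) (nat_lit 354) (nat_lit 381) (nat_lit 285))))))))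
noncomputable def ec179 : XT := (XT.nd (nat_lit 1950) (nat_lit 2052) (nat_lit 0) (XT.nd (nat_lit 936) (nat_lit 912) (nat_lit 0) (XT.nd (nat_lit 468) (nat_lit 456) (nat_lit 0) (XT.nd (nat_lit 234) (nat_lit 228) (nat_lit 0) (XT.nd (nat_lit 78) (nat_lit 228) (nat_lit 0) (XT.lf (nat_lit 0) (nat_lit 1349954113) (nat_lit 0) (nat_lit 2229772031) (nat_lit 152) (nat_lit 1349954113) (nat_lit 158) (nat_lit 3) (nat_lit 158) (nat_lit 1) (nat_lit 160) (nat_lit 1) (nat_lit 355) (nat_lit 381) (nat_lit 284)) (XT.nd (nat_lit 78) (nat_lit 152) (nat_lit 0) (XT.lf (nat_lit 76) (nat_lit 1057883297) (nat_lit 0) (nat_lit 1895805123) (nat_lit 76) (nat_lit 1895805123) (nat_lit 158) (nat_lit 3) (nat_lit 157) (nat_lit 1) (nat_lit 158) (nat_lit 1) (nat_lit 356) (nat_lit 381) (nat_lit 283)) (XT.lf (nat_lit 152) (nat_lit 4256623372) (nat_lit 0) (nat_lit 257426060) (nat_lit 76) (nat_lit 257426060) (nat_lit 157) (nat_lit 1) (nat_lit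 155) (nat_lit 1) (nat_lit 156) (nat_lit 1) (nat_lit 357) (nat_lit 381) (nat_lit 282)))) (XT.nd (nat_lit 78) (nat_lit 228) (nat_lit 0) (XT.lf (nat_lit 0) (nat_lit 1323078272) (nat_lit 0) (nat_lit 2046906650) (nat_lit 152) (nat_lit 1323078272) (nat_lit 155) (nat_lit 3) (nat_lit 155) (nat_lit 1) (nat_lit 157) (nat_lit 1) (nat_lit 358) (nat_lit 381) (nat_lit 281)) (XT.nd (nat_lit 78) (nat_lit 152) (nat_lit 0) (XT.lf (nat_lit 76) (nat_lit 1079363990) (nat_lit 0) (nat_lit 1768724350) (nat_lit 76) (nat_lit 1768724350) (nat_lit 155) (nat_lit 3) (nat_lit 154) (nat_lit 1) (nat_lit 155) (nat_lit 1) (nat_lit 359) (nat_lit 381) (nat_lit 280)) (XT.lf (nat_lit 152) (nat_lit 4119102612) (nat_lit 0) (nat_lit 211785056) (nat_lit 76) (nat_lit 211785056) (nat_lit 154) (nat_lit 1) (nat_lit 152) (nat_lit 1) (nat_lit 153) (nat_lit 1) (nat_lit 360) (nat_lit 381) (nat_lit 279))))) (XT.nd (nat_lit 234) (nat_lit 228) (nat_lit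 0) (XT.nd (nat_lit 78) (nat_lit 228) (nat_lit 0) (XT.lf (nat_lit 0) (nat_lit 1290849942) (nat_lit 0) (nat_lit 1886345340) (nat_lit 152) (nat_lit 1290849942) (nat_lit 152) (nat_lit 3) (nat_lit 152) (nat_lit 1) (nat_lit 154) (nat_lit 1) (nat_lit 361) (nat_lit 381) (nat_lit 278)) (XT.nd (nat_lit 78) (nat_lit 152) (nat_lit 0) (XT.lf (nat_lit 76) (nat_lit 1087081887) (nat_lit 0) (nat_lit 1654220361) (nat_lit 76) (nat_lit 1654220361) (nat_lit 152) (nat_lit 3) (nat_lit 151) (nat_lit 1) (nat_lit 152) (nat_lit 1) (nat_lit 362) (nat_lit 381) (nat_lit 277)) (XT.lf (nat_lit 152) (nat_lit 3976574988) (nat_lit 0) (nat_lit 174236090) (nat_lit 76) (nat_lit 174236090) (nat_lit 151) (nat_lit 1) (nat_lit 149) (nat_lit 1) (nat_lit 150) (nat_lit 1) (nat_lit 363) (nat_lit 381) (nat_lit 276)))) (XT.nd (nat_lit 78) (nat_lit 228) (nat_lit 0) (XT.lf (nat_lit 0) (nat_lit 1254699893) (nat_lit 0) (nat_lit 1744615431) (nat_lit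 152) (nat_lit 1254699893) (nat_lit 149) (nat_lit 3) (nat_lit 149) (nat_lit 1) (nat_lit 151) (nat_lit 1) (nat_lit 364) (nat_lit 381) (nat_lit 275)) (XT.nd (nat_lit 78) (nat_lit 152) (nat_lit 0) (XT.lf (nat_lit 76) (nat_lit 1083951112) (nat_lit 0) (nat_lit 1550537338) (nat_lit 76) (nat_lit 1550537338) (nat_lit 149) (nat_lit 3) (nat_lit 148) (nat_lit 1) (nat_lit 149) (nat_lit 1) (nat_lit 365) (nat_lit 381) (nat_lit 274)) (XT.lf (nat_lit 152) (nat_lit 3831327679) (nat_lit 0) (nat_lit 143344462) (nat_lit 76) (nat_lit 143344462) (nat_lit 148) (nat_lit 1) (nat_lit 146) (nat_lit 1) (nat_lit 147) (nat_lit 1) (nat_lit 366) (nat_lit 381) (nat_lit 273)))))) (XT.nd (nat_lit 468) (nat_lit 456) (nat_lit 0) (XT.nd (nat_lit 234) (nat_lit 228) (nat_lit 0) (XT.nd (nat_lit 78) (nat_lit 228) (nat_lit 0) (XT.lf (nat_lit 0) (nat_lit 1215782279) (nat_lit 0) (nat_lit 1618837005) (nat_lit 152) (nat_lit 1215782279) (nat_lit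 146) (nat_lit 3) (nat_lit 146) (nat_lit 1) (nat_lit 148) (nat_lit 1) (nat_lit 367) (nat_lit 381) (nat_lit 272)) (XT.nd (nat_lit 78) (nat_lit 152) (nat_lit 0) (XT.lf (nat_lit 76) (nat_lit 1072346551) (nat_lit 0) (nat_lit 1456208194) (nat_lit 76) (nat_lit 1456208194) (nat_lit 146) (nat_lit 3) (nat_lit 145) (nat_lit 1) (nat_lit 146) (nat_lit 1) (nat_lit 368) (nat_lit 381) (nat_lit 271)) (XT.lf (nat_lit 152) (nat_lit 3685175712) (nat_lit 0) (nat_lit 117929844) (nat_lit 76) (nat_lit 117929844) (nat_lit 145) (nat_lit 1) (nat_lit 143) (nat_lit 1) (nat_lit 144) (nat_lit 1) (nat_lit 369) (nat_lit 381) (nat_lit 270)))) (XT.nd (nat_lit 78) (nat_lit 228) (nat_lit 0) (XT.lf (nat_lit 0) (nat_lit 1175024778) (nat_lit 0) (nat_lit 1506618898) (nat_lit 152) (nat_lit 1175024778) (nat_lit 143) (nat_lit 3) (nat_lit 143) (nat_lit 1) (nat_lit 145) (nat_lit 1) (nat_lit 370) (nat_lit 381) (nat_lit 269)) (XT.nd (nat_lit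 78) (nat_lit 152) (nat_lit 0) (XT.lf (nat_lit 76) (nat_lit 1054200532) (nat_lit 0) (nat_lit 1370004456) (nat_lit 76) (nat_lit 1370004456) (nat_lit 143) (nat_lit 3) (nat_lit 142) (nat_lit 1) (nat_lit 143) (nat_lit 1) (nat_lit 371) (nat_lit 381) (nat_lit 268)) (XT.lf (nat_lit 152) (nat_lit 3539548843) (nat_lit 0) (nat_lit 97021174) (nat_lit 76) (nat_lit 97021174) (nat_lit 142) (nat_lit 1) (nat_lit 140) (nat_lit 1) (nat_lit 141) (nat_lit 1) (nat_lit 372) (nat_lit 381) (nat_lit 267))))) (XT.nd (nat_lit 234) (nat_lit 228) (nat_lit 0) (XT.nd (nat_lit 78) (nat_lit 228) (nat_lit 0) (XT.lf (nat_lit 0) (nat_lit 1133169781) (nat_lit 0) (nat_lit 1405973084) (nat_lit 152) (nat_lit 1133169781) (nat_lit 140) (nat_lit 3) (nat_lit 140) (nat_lit 1) (nat_lit 142) (nat_lit 1) (nat_lit 373) (nat_lit 381) (nat_lit 266)) (XT.nd (nat_lit 78) (nat_lit 152) (nat_lit 0) (XT.lf (nat_lit 76) (nat_lit 1031082311) (nat_lit 0)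 (nat_lit 1290894980) (nat_lit 76) (nat_lit 1290894980) (nat_lit 140) (nat_lit 3) (nat_lit 139) (nat_lit 1) (nat_lit 140) (nat_lit 1) (nat_lit 374) (nat_lit 381) (nat_lit 265)) (XT.lf (nat_lit 152) (nat_lit 3395562893) (nat_lit 0) (nat_lit 79819560) (nat_lit 76) (nat_lit 79819560) (nat_lit 139) (nat_lit 1) (nat_lit 137) (nat_lit 1) (nat_lit 138) (nat_lit 1) (nat_lit 375) (nat_lit 381) (nat_lit 264)))) (XT.nd (nat_lit 156) (nat_lit 152) (nat_lit 0) (XT.nd (nat_lit 78) (nat_lit 76) (nat_lit 0) (XT.lf (nat_lit 0) (nat_lit 1090808239) (nat_lit 0) (nat_lit 1315244192) (nat_lit 152) (nat_lit 1090808239) (nat_lit 137) (nat_lit 3) (nat_lit 137) (nat_lit 1) (nat_lit 139) (nat_lit 1) (nat_lit 376) (nat_lit 381) (nat_lit 263)) (XT.lf (nat_lit 76) (nat_lit 1004263420) (nat_lit 0) (nat_lit 1218011946) (nat_lit 76) (nat_lit 1218011946) (nat_lit 137) (nat_lit 3) (nat_lit 136) (nat_lit 1) (nat_lit 137) (nat_lit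 1) (nat_lit 377) (nat_lit 381) (nat_lit 262))) (XT.nd (nat_lit 78) (nat_lit 0) (nat_lit 0) (XT.lf (nat_lit 152) (nat_lit 3254078281) (nat_lit 0) (nat_lit 65667750) (nat_lit 76) (nat_lit 65667750) (nat_lit 136) (nat_lit 1) (nat_lit 134) (nat_lit 1) (nat_lit 135) (nat_lit 1) (nat_lit 378) (nat_lit 381) (nat_lit 261)) (XT.lf (nat_lit 0) (nat_lit 1048407453) (nat_lit 0) (nat_lit 1233051466) (nat_lit 152) (nat_lit 1048407453) (nat_lit 134) (nat_lit 3) (nat_lit 134) (nat_lit 1) (nat_lit 136) (nat_lit 1) (nat_lit 379) (nat_lit 381) (nat_lit 260))))))) (XT.nd (nat_lit 1014) (nat_lit 1064) (nat_lit 0) (XT.nd (nat_lit 468) (nat_lit 532) (nat_lit 0) (XT.nd (nat_lit 234) (nat_lit 228) (nat_lit 0) (XT.nd (nat_lit 78) (nat_lit 152) (nat_lit 0) (XT.lf (nat_lit 76) (nat_lit 974771383) (nat_lit 0) (nat_lit 1150622825) (nat_lit 76) (nat_lit 1150622825) (nat_lit 134) (nat_lit 3) (nat_lit 133) (nat_lit 1) (nat_lit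 134) (nat_lit 1) (nat_lit 380) (nat_lit 381) (nat_lit 259)) (XT.nd (nat_lit 78) (nat_lit 0) (nat_lit 0) (XT.lf (nat_lit 152) (nat_lit 3115748051) (nat_lit 0) (nat_lit 54025020) (nat_lit 76) (nat_lit 54025020) (nat_lit 133) (nat_lit 1) (nat_lit 131) (nat_lit 1) (nat_lit 132) (nat_lit 1) (nat_lit 381) (nat_lit 381) (nat_lit 258)) (XT.lf (nat_lit 0) (nat_lit 1006333896) (nat_lit 0) (nat_lit 1158240983) (nat_lit 152) (nat_lit 1006333896) (nat_lit 131) (nat_lit 3) (nat_lit 131) (nat_lit 1) (nat_lit 133) (nat_lit 1) (nat_lit 382) (nat_lit 381) (nat_lit 257)))) (XT.nd (nat_lit 78) (nat_lit 152) (nat_lit 0) (XT.lf (nat_lit 76) (nat_lit 943433860) (nat_lit 0) (nat_lit 1088107277) (nat_lit 76) (nat_lit 1088107277) (nat_lit 131) (nat_lit 3) (nat_lit 130) (nat_lit 1) (nat_lit 131) (nat_lit 1) (nat_lit 383) (nat_lit 381) (nat_lit 256)) (XT.nd (nat_lit 78) (nat_lit 0) (nat_lit 0) (XT.lf (nat_lit 152) (nat_lit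 2981057247) (nat_lit 0) (nat_lit 44446518) (nat_lit 76) (nat_lit 44446518) (nat_lit 130) (nat_lit 1) (nat_lit 128) (nat_lit 1) (nat_lit 129) (nat_lit 1) (nat_lit 384) (nat_lit 381) (nat_lit 255)) (XT.lf (nat_lit 0) (nat_lit 964871949) (nat_lit 0) (nat_lit 1089846286) (nat_lit 152) (nat_lit 964871949) (nat_lit 128) (nat_lit 3) (nat_lit 128) (nat_lit 1) (nat_lit 130) (nat_lit 1) (nat_lit 385) (nat_lit 381) (nat_lit 254))))) (XT.nd (nat_lit 234) (nat_lit 304) (nat_lit 0) (XT.nd (nat_lit 78) (nat_lit 152) (nat_lit 0) (XT.lf (nat_lit 76) (nat_lit 910914925) (nat_lit 0) (nat_lit 1029938102) (nat_lit 76) (nat_lit 1029938102) (nat_lit 128) (nat_lit 3) (nat_lit 127) (nat_lit 1) (nat_lit 128) (nat_lit 1) (nat_lit 386) (nat_lit 381) (nat_lit 253)) (XT.nd (nat_lit 78) (nat_lit 0) (nat_lit 0) (XT.lf (nat_lit 152) (nat_lit 2850355189) (nat_lit 0) (nat_lit 36566260) (nat_lit 76) (nat_lit 36566260) (nat_lit 127)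 (nat_lit 1) (nat_lit 125) (nat_lit 1) (nat_lit 126) (nat_lit 1) (nat_lit 387) (nat_lit 381) (nat_lit 252)) (XT.lf (nat_lit 0) (nat_lit 924239266) (nat_lit 0) (nat_lit 1027055962) (nat_lit 152) (nat_lit 924239266) (nat_lit 125) (nat_lit 3) (nat_lit 125) (nat_lit 1) (nat_lit 127) (nat_lit 1) (nat_lit 388) (nat_lit 381) (nat_lit 251)))) (XT.nd (nat_lit 156) (nat_lit 76) (nat_lit 0) (XT.nd (nat_lit 78) (nat_lit 152) (nat_lit 0) (XT.lf (nat_lit 76) (nat_lit 877744871) (nat_lit 0) (nat_lit 975665534) (nat_lit 76) (nat_lit 975665534) (nat_lit 125) (nat_lit 3) (nat_lit 124) (nat_lit 1) (nat_lit 125) (nat_lit 1) (nat_lit 389) (nat_lit 381) (nat_lit 250)) (XT.lf (nat_lit 152) (nat_lit 2723881901) (nat_lit 0) (nat_lit 30083152) (nat_lit 76) (nat_lit 30083152) (nat_lit 124) (nat_lit 1) (nat_lit 122) (nat_lit 1) (nat_lit 123) (nat_lit 1) (nat_lit 390) (nat_lit 381) (nat_lit 249))) (XT.nd (nat_lit 78) (nat_lit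 76) (nat_lit 0) (XT.lf (nat_lit 0) (nat_lit 884599385) (nat_lit 0) (nat_lit 969186935) (nat_lit 152) (nat_lit 884599385) (nat_lit 122) (nat_lit 3) (nat_lit 122) (nat_lit 1) (nat_lit 124) (nat_lit 1) (nat_lit 391) (nat_lit 381) (nat_lit 248)) (XT.lf (nat_lit 76) (nat_lit 844344694) (nat_lit 0) (nat_lit 924904266) (nat_lit 76) (nat_lit 924904266) (nat_lit 122) (nat_lit 3) (nat_lit 121) (nat_lit 1) (nat_lit 122) (nat_lit 1) (nat_lit 392) (nat_lit 381) (nat_lit 247)))))) (XT.nd (nat_lit 468) (nat_lit 608) (nat_lit 0) (XT.nd (nat_lit 234) (nat_lit 228) (nat_lit 0) (XT.nd (nat_lit 78) (nat_lit 76) (nat_lit 0) (XT.lf (nat_lit 152) (nat_lit 2601789745) (nat_lit 0) (nat_lit 24749484) (nat_lit 76) (nat_lit 24749484) (nat_lit 121) (nat_lit 1) (nat_lit 119) (nat_lit 1) (nat_lit 120) (nat_lit 1) (nat_lit 393) (nat_lit 381) (nat_lit 246)) (XT.nd (nat_lit 78) (nat_lit 76) (nat_lit 0) (XT.lf (nat_lit 0) (nat_lit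 846072059) (nat_lit 0) (nat_lit 915662446) (nat_lit 152) (nat_lit 846072059) (nat_lit 119) (nat_lit 3) (nat_lit 119) (nat_lit 1) (nat_lit 121) (nat_lit 1) (nat_lit 394) (nat_lit 381) (nat_lit 245)) (XT.lf (nat_lit 76) (nat_lit 811046200) (nat_lit 0) (nat_lit 877322759) (nat_lit 76) (nat_lit 877322759) (nat_lit 119) (nat_lit 3) (nat_lit 118) (nat_lit 1) (nat_lit 119) (nat_lit 1) (nat_lit 395) (nat_lit 381) (nat_lit 244)))) (XT.nd (nat_lit 78) (nat_lit 76) (nat_lit 0) (XT.lf (nat_lit 152) (nat_lit 2484161114) (nat_lit 0) (nat_lit 20361462) (nat_lit 76) (nat_lit 20361462) (nat_lit 118) (nat_lit 1) (nat_lit 116) (nat_lit 1) (nat_lit 117) (nat_lit 1) (nat_lit 396) (nat_lit 381) (nat_lit 243)) (XT.nd (nat_lit 78) (nat_lit 76) (nat_lit 0) (XT.lf (nat_lit 0) (nat_lit 808741725) (nat_lit 0) (nat_lit 865993908) (nat_lit 152) (nat_lit 808741725) (nat_lit 116) (nat_lit 3) (nat_lit 116) (nat_lit 1) (nat_lit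 118) (nat_lit 1) (nat_lit 397) (nat_lit 381) (nat_lit 242)) (XT.lf (nat_lit 76) (nat_lit 778108507) (nat_lit 0) (nat_lit 832634396) (nat_lit 76) (nat_lit 832634396) (nat_lit 116) (nat_lit 3) (nat_lit 115) (nat_lit 1) (nat_lit 116) (nat_lit 1) (nat_lit 398) (nat_lit 381) (nat_lit 241))))) (XT.nd (nat_lit 234) (nat_lit 380) (nat_lit 0) (XT.nd (nat_lit 78) (nat_lit 76) (nat_lit 0) (XT.lf (nat_lit 152) (nat_lit 2371022879) (nat_lit 0) (nat_lit 16751425) (nat_lit 76) (nat_lit 16751425) (nat_lit 115) (nat_lit 1) (nat_lit 113) (nat_lit 1) (nat_lit 114) (nat_lit 1) (nat_lit 399) (nat_lit 381) (nat_lit 240)) (XT.nd (nat_lit 78) (nat_lit 76) (nat_lit 0) (XT.lf (nat_lit 0) (nat_lit 772664436) (nat_lit 0) (nat_lit 819765949) (nat_lit 152) (nat_lit 772664436) (nat_lit 113) (nat_lit 3) (nat_lit 113) (nat_lit 1) (nat_lit 115) (nat_lit 1) (nat_lit 400) (nat_lit 381) (nat_lit 239)) (XT.lf (nat_lit 76) (nat_lit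 745731595) (nat_lit 0) (nat_lit 790590179) (nat_lit 76) (nat_lit 790590179) (nat_lit 113) (nat_lit 3) (nat_lit 112) (nat_lit 1) (nat_lit 113) (nat_lit 1) (nat_lit 401) (nat_lit 381) (nat_lit 238)))) (XT.nd (nat_lit 156) (nat_lit 228) (nat_lit 0) (XT.nd (nat_lit 78) (nat_lit 0) (nat_lit 0) (XT.lf (nat_lit 152) (nat_lit 2262358184) (nat_lit 0) (nat_lit 13781438) (nat_lit 76) (nat_lit 13781438) (nat_lit 112) (nat_lit 1) (nat_lit 110) (nat_lit 1) (nat_lit 111) (nat_lit 1) (nat_lit 402) (nat_lit 381) (nat_lit 237)) (XT.lf (nat_lit 0) (nat_lit 737873531) (nat_lit 0) (nat_lit 776624063) (nat_lit 152) (nat_lit 737873531) (nat_lit 110) (nat_lit 3) (nat_lit 110) (nat_lit 1) (nat_lit 112) (nat_lit 1) (nat_lit 403) (nat_lit 381) (nat_lit 236))) (XT.nd (nat_lit 78) (nat_lit 152) (nat_lit 0) (XT.lf (nat_lit 76) (nat_lit 714067420) (nat_lit 0) (nat_lit 750972688) (nat_lit 76) (nat_lit 750972688) (nat_lit 110)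 (nat_lit 3) (nat_lit 109) (nat_lit 1) (nat_lit 110) (nat_lit 1) (nat_lit 404) (nat_lit 381) (nat_lit 235)) (XT.lf (nat_lit 152) (nat_lit 2158116051) (nat_lit 0) (nat_lit 11338023) (nat_lit 76) (nat_lit 11338023) (nat_lit 109) (nat_lit 1) (nat_lit 107) (nat_lit 1) (nat_lit 108) (nat_lit 1) (nat_lit 405) (nat_lit 381) (nat_lit 234))))))))
noncomputable def ec180 : XT := (XT.nd (nat_lit 1950) (nat_lit 1368) (nat_lit 0) (XT.nd (nat_lit 936) (nat_lit 912) (nat_lit 0) (XT.nd (nat_lit 468) (nat_lit 456) (nat_lit 0) (XT.nd (nat_lit 234) (nat_lit 228) (nat_lit 0) (XT.nd (nat_lit 78) (nat_lit 228) (nat_lit 0) (XT.lf (nat_lit 0) (nat_lit 704384273) (nat_lit 0) (nat_lit 736264431) (nat_lit 152) (nat_lit 704384273) (nat_lit 107) (nat_lit 3) (nat_lit 107) (nat_lit 1) (nat_lit 109) (nat_lit 1) (nat_lit 406) (nat_lit 381) (nat_lit 233)) (XT.nd (nat_lit 78) (nat_lit 152) (nat_lit 0) (XT.lf (nat_lit 76) (nat_lit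 683229025) (nat_lit 0) (nat_lit 713591081) (nat_lit 76) (nat_lit 713591081) (nat_lit 107) (nat_lit 3) (nat_lit 106) (nat_lit 1) (nat_lit 107) (nat_lit 1) (nat_lit 407) (nat_lit 381) (nat_lit 232)) (XT.lf (nat_lit 152) (nat_lit 2058219201) (nat_lit 0) (nat_lit 9327820) (nat_lit 76) (nat_lit 9327820) (nat_lit 106) (nat_lit 1) (nat_lit 104) (nat_lit 1) (nat_lit 105) (nat_lit 1) (nat_lit 408) (nat_lit 381) (nat_lit 231)))) (XT.nd (nat_lit 78) (nat_lit 228) (nat_lit 0) (XT.lf (nat_lit 0) (nat_lit 672197631) (nat_lit 0) (nat_lit 698425516) (nat_lit 152) (nat_lit 672197631) (nat_lit 104) (nat_lit 3) (nat_lit 104) (nat_lit 1) (nat_lit 106) (nat_lit 1) (nat_lit 409) (nat_lit 381) (nat_lit 230)) (XT.nd (nat_lit 78) (nat_lit 152) (nat_lit 0) (XT.lf (nat_lit 76) (nat_lit 653298012) (nat_lit 0) (nat_lit 678276950) (nat_lit 76) (nat_lit 678276950) (nat_lit 104) (nat_lit 3) (nat_lit 103) (nat_lit 1) (nat_lit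 104) (nat_lit 1) (nat_lit 410) (nat_lit 381) (nat_lit 229)) (XT.lf (nat_lit 152) (nat_lit 1962570397) (nat_lit 0) (nat_lit 7674020) (nat_lit 76) (nat_lit 7674020) (nat_lit 103) (nat_lit 1) (nat_lit 101) (nat_lit 1) (nat_lit 102) (nat_lit 1) (nat_lit 411) (nat_lit 381) (nat_lit 228))))) (XT.nd (nat_lit 234) (nat_lit 228) (nat_lit 0) (XT.nd (nat_lit 78) (nat_lit 228) (nat_lit 0) (XT.lf (nat_lit 0) (nat_lit 641303365) (nat_lit 0) (nat_lit 662881111) (nat_lit 152) (nat_lit 641303365) (nat_lit 101) (nat_lit 3) (nat_lit 101) (nat_lit 1) (nat_lit 103) (nat_lit 1) (nat_lit 412) (nat_lit 381) (nat_lit 227)) (XT.nd (nat_lit 78) (nat_lit 152) (nat_lit 0) (XT.lf (nat_lit 76) (nat_lit 624330654) (nat_lit 0) (nat_lit 644880888) (nat_lit 76) (nat_lit 644880888) (nat_lit 101) (nat_lit 3) (nat_lit 100) (nat_lit 1) (nat_lit 101) (nat_lit 1) (nat_lit 413) (nat_lit 381) (nat_lit 226)) (XT.lf (nat_lit 152) (nat_lit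 1871057586) (nat_lit 0) (nat_lit 6313435) (nat_lit 76) (nat_lit 6313435) (nat_lit 100) (nat_lit 1) (nat_lit 98) (nat_lit 1) (nat_lit 99) (nat_lit 1) (nat_lit 414) (nat_lit 381) (nat_lit 225)))) (XT.nd (nat_lit 78) (nat_lit 228) (nat_lit 0) (XT.lf (nat_lit 0) (nat_lit 611682542) (nat_lit 0) (nat_lit 629434607) (nat_lit 152) (nat_lit 611682542) (nat_lit 98) (nat_lit 3) (nat_lit 98) (nat_lit 1) (nat_lit 100) (nat_lit 1) (nat_lit 415) (nat_lit 381) (nat_lit 224)) (XT.nd (nat_lit 78) (nat_lit 152) (nat_lit 0) (XT.lf (nat_lit 76) (nat_lit 596362911) (nat_lit 0) (nat_lit 613269639) (nat_lit 76) (nat_lit 613269639) (nat_lit 98) (nat_lit 3) (nat_lit 97) (nat_lit 1) (nat_lit 98) (nat_lit 1) (nat_lit 416) (nat_lit 381) (nat_lit 223)) (XT.lf (nat_lit 152) (nat_lit 1783558053) (nat_lit 0) (nat_lit 5194079) (nat_lit 76) (nat_lit 5194079) (nat_lit 97) (nat_lit 1) (nat_lit 95) (nat_lit 1) (nat_lit 96) (nat_lit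 1) (nat_lit 417) (nat_lit 381) (nat_lit 222)))))) (XT.nd (nat_lit 468) (nat_lit 456) (nat_lit 0) (XT.nd (nat_lit 234) (nat_lit 228) (nat_lit 0) (XT.nd (nat_lit 78) (nat_lit 228) (nat_lit 0) (XT.lf (nat_lit 0) (nat_lit 583309576) (nat_lit 0) (nat_lit 597914243) (nat_lit 152) (nat_lit 583309576) (nat_lit 95) (nat_lit 3) (nat_lit 95) (nat_lit 1) (nat_lit 97) (nat_lit 1) (nat_lit 418) (nat_lit 381) (nat_lit 221)) (XT.nd (nat_lit 78) (nat_lit 152) (nat_lit 0) (XT.lf (nat_lit 76) (nat_lit 569414516) (nat_lit 0) (nat_lit 583323723) (nat_lit 76) (nat_lit 583323723) (nat_lit 95) (nat_lit 3) (nat_lit 94) (nat_lit 1) (nat_lit 95) (nat_lit 1) (nat_lit 419) (nat_lit 381) (nat_lit 220)) (XT.lf (nat_lit 152) (nat_lit 1699941763) (nat_lit 0) (nat_lit 4273181) (nat_lit 76) (nat_lit 4273181) (nat_lit 94) (nat_lit 1) (nat_lit 92) (nat_lit 1) (nat_lit 93) (nat_lit 1) (nat_lit 420) (nat_lit 381) (nat_lit 219)))) (XT.nd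 (nat_lit 78) (nat_lit 228) (nat_lit 0) (XT.lf (nat_lit 0) (nat_lit 556153884) (nat_lit 0) (nat_lit 568169180) (nat_lit 152) (nat_lit 556153884) (nat_lit 92) (nat_lit 3) (nat_lit 92) (nat_lit 1) (nat_lit 94) (nat_lit 1) (nat_lit 421) (nat_lit 381) (nat_lit 218)) (XT.nd (nat_lit 78) (nat_lit 152) (nat_lit 0) (XT.lf (nat_lit 76) (nat_lit 543492324) (nat_lit 0) (nat_lit 554935464) (nat_lit 76) (nat_lit 554935464) (nat_lit 92) (nat_lit 3) (nat_lit 91) (nat_lit 1) (nat_lit 92) (nat_lit 1) (nat_lit 422) (nat_lit 381) (nat_lit 217)) (XT.lf (nat_lit 152) (nat_lit 1620074047) (nat_lit 0) (nat_lit 3515557) (nat_lit 76) (nat_lit 3515557) (nat_lit 91) (nat_lit 1) (nat_lit 89) (nat_lit 1) (nat_lit 90) (nat_lit 1) (nat_lit 423) (nat_lit 381) (nat_lit 216))))) (XT.nd (nat_lit 234) (nat_lit 228) (nat_lit 0) (XT.nd (nat_lit 78) (nat_lit 228) (nat_lit 0) (XT.lf (nat_lit 0) (nat_lit 530181226) (nat_lit 0) (nat_lit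 540066240) (nat_lit 152) (nat_lit 530181226) (nat_lit 89) (nat_lit 3) (nat_lit 89) (nat_lit 1) (nat_lit 91) (nat_lit 1) (nat_lit 424) (nat_lit 381) (nat_lit 215)) (XT.nd (nat_lit 78) (nat_lit 152) (nat_lit 0) (XT.lf (nat_lit 76) (nat_lit 518593045) (nat_lit 0) (nat_lit 528007344) (nat_lit 76) (nat_lit 528007344) (nat_lit 89) (nat_lit 3) (nat_lit 88) (nat_lit 1) (nat_lit 89) (nat_lit 1) (nat_lit 425) (nat_lit 381) (nat_lit 214)) (XT.lf (nat_lit 152) (nat_lit 1543817739) (nat_lit 0) (nat_lit 2892257) (nat_lit 76) (nat_lit 2892257) (nat_lit 88) (nat_lit 1) (nat_lit 86) (nat_lit 1) (nat_lit 87) (nat_lit 1) (nat_lit 426) (nat_lit 381) (nat_lit 213)))) (XT.nd (nat_lit 156) (nat_lit 152) (nat_lit 0) (XT.nd (nat_lit 78) (nat_lit 76) (nat_lit 0) (XT.lf (nat_lit 0) (nat_lit 505354787) (nat_lit 0) (nat_lit 513487213) (nat_lit 152) (nat_lit 505354787) (nat_lit 86) (nat_lit 3) (nat_lit 86) (nat_lit 1) (nat_lit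 88) (nat_lit 1) (nat_lit 427) (nat_lit 381) (nat_lit 212)) (XT.lf (nat_lit 76) (nat_lit 494705463) (nat_lit 0) (nat_lit 502450630) (nat_lit 76) (nat_lit 502450630) (nat_lit 86) (nat_lit 3) (nat_lit 85) (nat_lit 1) (nat_lit 86) (nat_lit 1) (nat_lit 428) (nat_lit 381) (nat_lit 211))) (XT.nd (nat_lit 78) (nat_lit 0) (nat_lit 0) (XT.lf (nat_lit 152) (nat_lit 1471034876) (nat_lit 0) (nat_lit 2379467) (nat_lit 76) (nat_lit 2379467) (nat_lit 85) (nat_lit 1) (nat_lit 83) (nat_lit 1) (nat_lit 84) (nat_lit 1) (nat_lit 429) (nat_lit 381) (nat_lit 210)) (XT.lf (nat_lit 0) (nat_lit 481636044) (nat_lit 0) (nat_lit 488326611) (nat_lit 152) (nat_lit 481636044) (nat_lit 83) (nat_lit 3) (nat_lit 83) (nat_lit 1) (nat_lit 85) (nat_lit 1) (nat_lit 430) (nat_lit 381) (nat_lit 209))))))) (XT.nd (nat_lit 936) (nat_lit 456) (nat_lit 0) (XT.nd (nat_lit 468) (nat_lit 456) (nat_lit 0) (XT.nd (nat_lit 234) (nat_lit 228) (nat_lit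 0) (XT.nd (nat_lit 78) (nat_lit 152) (nat_lit 0) (XT.lf (nat_lit 76) (nat_lit 471812248) (nat_lit 0) (nat_lit 478184216) (nat_lit 76) (nat_lit 478184216) (nat_lit 83) (nat_lit 3) (nat_lit 82) (nat_lit 1) (nat_lit 83) (nat_lit 1) (nat_lit 431) (nat_lit 381) (nat_lit 208)) (XT.nd (nat_lit 78) (nat_lit 0) (nat_lit 0) (XT.lf (nat_lit 152) (nat_lit 1401588034) (nat_lit 0) (nat_lit 1957593) (nat_lit 76) (nat_lit 1957593) (nat_lit 82) (nat_lit 1) (nat_lit 80) (nat_lit 1) (nat_lit 81) (nat_lit 1) (nat_lit 432) (nat_lit 381) (nat_lit 207)) (XT.lf (nat_lit 0) (nat_lit 458985461) (nat_lit 0) (nat_lit 464489807) (nat_lit 152) (nat_lit 458985461) (nat_lit 80) (nat_lit 3) (nat_lit 80) (nat_lit 1) (nat_lit 82) (nat_lit 1) (nat_lit 433) (nat_lit 381) (nat_lit 206)))) (XT.nd (nat_lit 78) (nat_lit 152) (nat_lit 0) (XT.lf (nat_lit 76) (nat_lit 449891427) (nat_lit 0) (nat_lit 455133661) (nat_lit 76) (nat_lit 455133661)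 (nat_lit 80) (nat_lit 3) (nat_lit 79) (nat_lit 1) (nat_lit 80) (nat_lit 1) (nat_lit 434) (nat_lit 381) (nat_lit 205)) (XT.nd (nat_lit 78) (nat_lit 0) (nat_lit 0) (XT.lf (nat_lit 152) (nat_lit 1335341374) (nat_lit 0) (nat_lit 1610517) (nat_lit 76) (nat_lit 1610517) (nat_lit 79) (nat_lit 1) (nat_lit 77) (nat_lit 1) (nat_lit 78) (nat_lit 1) (nat_lit 435) (nat_lit 381) (nat_lit 204)) (XT.lf (nat_lit 0) (nat_lit 437363042) (nat_lit 0) (nat_lit 441891481) (nat_lit 152) (nat_lit 437363042) (nat_lit 77) (nat_lit 3) (nat_lit 77) (nat_lit 1) (nat_lit 79) (nat_lit 1) (nat_lit 436) (nat_lit 381) (nat_lit 203))))) (XT.nd (nat_lit 234) (nat_lit 228) (nat_lit 0) (XT.nd (nat_lit 78) (nat_lit 152) (nat_lit 0) (XT.lf (nat_lit 76) (nat_lit 428917574) (nat_lit 0) (nat_lit 433230373) (nat_lit 76) (nat_lit 433230373) (nat_lit 77) (nat_lit 3) (nat_lit 76) (nat_lit 1) (nat_lit 77) (nat_lit 1) (nat_lit 437) (nat_lit 381)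 (nat_lit 202)) (XT.nd (nat_lit 78) (nat_lit 0) (nat_lit 0) (XT.lf (nat_lit 152) (nat_lit 1272161443) (nat_lit 0) (nat_lit 1324976) (nat_lit 76) (nat_lit 1324976) (nat_lit 76) (nat_lit 1) (nat_lit 74) (nat_lit 1) (nat_lit 75) (nat_lit 1) (nat_lit 438) (nat_lit 381) (nat_lit 201)) (XT.lf (nat_lit 0) (nat_lit 416728768) (nat_lit 0) (nat_lit 420454326) (nat_lit 152) (nat_lit 416728768) (nat_lit 74) (nat_lit 3) (nat_lit 74) (nat_lit 1) (nat_lit 76) (nat_lit 1) (nat_lit 439) (nat_lit 381) (nat_lit 200)))) (XT.nd (nat_lit 78) (nat_lit 152) (nat_lit 0) (XT.lf (nat_lit 76) (nat_lit 408862772) (nat_lit 0) (nat_lit 412410922) (nat_lit 76) (nat_lit 412410922) (nat_lit 74) (nat_lit 3) (nat_lit 73) (nat_lit 1) (nat_lit 74) (nat_lit 1) (nat_lit 440) (nat_lit 381) (nat_lit 199)) (XT.nd (nat_lit 78) (nat_lit 0) (nat_lit 0) (XT.lf (nat_lit 152) (nat_lit 1211917786) (nat_lit 0) (nat_lit 1090061) (nat_lit 76) (nat_lit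 1090061) (nat_lit 73) (nat_lit 1) (nat_lit 71) (nat_lit 1) (nat_lit 72) (nat_lit 1) (nat_lit 441) (nat_lit 381) (nat_lit 198)) (XT.lf (nat_lit 0) (nat_lit 397042943) (nat_lit 0) (nat_lit 400107968) (nat_lit 152) (nat_lit 397042943) (nat_lit 71) (nat_lit 3) (nat_lit 71) (nat_lit 1) (nat_lit 73) (nat_lit 1) (nat_lit 442) (nat_lit 381) (nat_lit 197)))))) (XT.nd (nat_lit 38610) (nat_lit 0) (nat_lit 17252) (XT.nd (nat_lit 234) (nat_lit 228) (nat_lit 0) (XT.nd (nat_lit 78) (nat_lit 152) (nat_lit 0) (XT.lf (nat_lit 76) (nat_lit 389697388) (nat_lit 0) (nat_lit 392616460) (nat_lit 76) (nat_lit 392616460) (nat_lit 71) (nat_lit 3) (nat_lit 70) (nat_lit 1) (nat_lit 71) (nat_lit 1) (nat_lit 443) (nat_lit 381) (nat_lit 196)) (XT.nd (nat_lit 78) (nat_lit 0) (nat_lit 0) (XT.lf (nat_lit 152) (nat_lit 1154483399) (nat_lit 0) (nat_lit 896796) (nat_lit 76) (nat_lit 896796) (nat_lit 70) (nat_lit 1) (nat_lit 68) (nat_lit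 1) (nat_lit 69) (nat_lit 1) (nat_lit 444) (nat_lit 381) (nat_lit 195)) (XT.lf (nat_lit 0) (nat_lit 378266453) (nat_lit 0) (nat_lit 380788057) (nat_lit 152) (nat_lit 378266453) (nat_lit 68) (nat_lit 3) (nat_lit 68) (nat_lit 1) (nat_lit 70) (nat_lit 1) (nat_lit 445) (nat_lit 381) (nat_lit 194)))) (XT.nd (nat_lit 78) (nat_lit 152) (nat_lit 0) (XT.lf (nat_lit 76) (nat_lit 371390695) (nat_lit 0) (nat_lit 373792223) (nat_lit 76) (nat_lit 373792223) (nat_lit 68) (nat_lit 3) (nat_lit 67) (nat_lit 1) (nat_lit 68) (nat_lit 1) (nat_lit 446) (nat_lit 381) (nat_lit 193)) (XT.nd (nat_lit 38220) (nat_lit 0) (nat_lit 17252) (XT.lf (nat_lit 152) (nat_lit 1099735052) (nat_lit 0) (nat_lit 737796) (nat_lit 76) (nat_lit 737796) (nat_lit 67) (nat_lit 1) (nat_lit 65) (nat_lit 1) (nat_lit 66) (nat_lit 1) (nat_lit 447) (nat_lit 381) (nat_lit 192)) (XT.lf (nat_lit 836) (nat_lit 4170616335) (nat_lit 0) (nat_lit 7404919716)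 (nat_lit 836) (nat_lit 4170616335) (nat_lit 303) (nat_lit 1) (nat_lit 292) (nat_lit 0) (nat_lit 303) (nat_lit 0) (nat_lit 256) (nat_lit 382) (nat_lit 382))))) (XT.nd (nat_lit 234) (nat_lit 0) (nat_lit 152) (XT.nd (nat_lit 78) (nat_lit 0) (nat_lit 76) (XT.lf (nat_lit 836) (nat_lit 16165829595) (nat_lit 76) (nat_lit 7285485527) (nat_lit 0) (nat_lit 7285485527) (nat_lit 303) (nat_lit 1) (nat_lit 293) (nat_lit 1) (nat_lit 292) (nat_lit 0) (nat_lit 257) (nat_lit 382) (nat_lit 381)) (XT.nd (nat_lit 78) (nat_lit 0) (nat_lit 0) (XT.lf (nat_lit 836) (nat_lit 7704390976) (nat_lit 0) (nat_lit 14595871266) (nat_lit 760) (nat_lit 7704390976) (nat_lit 304) (nat_lit 1) (nat_lit 293) (nat_lit 1) (nat_lit 303) (nat_lit 1) (nat_lit 258) (nat_lit 382) (nat_lit 380)) (XT.lf (nat_lit 836) (nat_lit 14452366920) (nat_lit 76) (nat_lit 7421896342) (nat_lit 0) (nat_lit 7421896342) (nat_lit 304) (nat_lit 1) (nat_lit 294)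 (nat_lit 1) (nat_lit 293) (nat_lit 1) (nat_lit 259) (nat_lit 382) (nat_lit 379)))) (XT.nd (nat_lit 156) (nat_lit 0) (nat_lit 76) (XT.nd (nat_lit 78) (nat_lit 0) (nat_lit 0) (XT.lf (nat_lit 836) (nat_lit 6652285706) (nat_lit 0) (nat_lit 15305550272) (nat_lit 760) (nat_lit 6652285706) (nat_lit 305) (nat_lit 1) (nat_lit 294) (nat_lit 1) (nat_lit 304) (nat_lit 1) (nat_lit 260) (nat_lit 382) (nat_lit 378)) (XT.lf (nat_lit 836) (nat_lit 11964569118) (nat_lit 76) (nat_lit 7990213851) (nat_lit 0) (nat_lit 7990213851) (nat_lit 305) (nat_lit 1) (nat_lit 295) (nat_lit 1) (nat_lit 294) (nat_lit 1) (nat_lit 261) (nat_lit 382) (nat_lit 377))) (XT.nd (nat_lit 78) (nat_lit 0) (nat_lit 0) (XT.lf (nat_lit 836) (nat_lit 5246117990) (nat_lit 0) (nat_lit 16809968567) (nat_lit 760) (nat_lit 5246117990) (nat_lit 306) (nat_lit 1) (nat_lit 295) (nat_lit 1) (nat_lit 305) (nat_lit 1) (nat_lit 262) (nat_lit 382) (nat_lit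 376)) (XT.lf (nat_lit 836) (nat_lit 8818885420) (nat_lit 76) (nat_lit 8929112564) (nat_lit 0) (nat_lit 8929112564) (nat_lit 306) (nat_lit 1) (nat_lit 296) (nat_lit 1) (nat_lit 295) (nat_lit 1) (nat_lit 263) (nat_lit 382) (nat_lit 375))))))))
noncomputable def ec181 : XT := (XT.nd (nat_lit 1950) (nat_lit 2964) (nat_lit 0) (XT.nd (nat_lit 936) (nat_lit 2356) (nat_lit 0) (XT.nd (nat_lit 468) (nat_lit 1064) (nat_lit 0) (XT.nd (nat_lit 234) (nat_lit 1216) (nat_lit 0) (XT.nd (nat_lit 78) (nat_lit 0) (nat_lit 0) (XT.lf (nat_lit 836) (nat_lit 3540323163) (nat_lit 0) (nat_lit 18994252227) (nat_lit 760) (nat_lit 3540323163) (nat_lit 307) (nat_lit 1) (nat_lit 296) (nat_lit 1) (nat_lit 306) (nat_lit 1) (nat_lit 264) (nat_lit 382) (nat_lit 374)) (XT.nd (nat_lit 78) (nat_lit 0) (nat_lit 76) (XT.lf (nat_lit 836) (nat_lit 5118821617) (nat_lit 76) (nat_lit 10183976592) (nat_lit 0) (nat_lit 10183976592) (nat_lit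 307) (nat_lit 1) (nat_lit 297) (nat_lit 1) (nat_lit 296) (nat_lit 1) (nat_lit 265) (nat_lit 382) (nat_lit 373)) (XT.lf (nat_lit 76) (nat_lit 1583251011) (nat_lit 0) (nat_lit 21756158961) (nat_lit 760) (nat_lit 1583251011) (nat_lit 298) (nat_lit 1) (nat_lit 297) (nat_lit 1) (nat_lit 307) (nat_lit 1) (nat_lit 266) (nat_lit 382) (nat_lit 372)))) (XT.nd (nat_lit 78) (nat_lit 532) (nat_lit 0) (XT.lf (nat_lit 836) (nat_lit 956244238) (nat_lit 0) (nat_lit 11706227846) (nat_lit 760) (nat_lit 11706227846) (nat_lit 298) (nat_lit 1) (nat_lit 287) (nat_lit 1) (nat_lit 297) (nat_lit 1) (nat_lit 267) (nat_lit 382) (nat_lit 371)) (XT.nd (nat_lit 78) (nat_lit 0) (nat_lit 0) (XT.lf (nat_lit 532) (nat_lit 22692880051) (nat_lit 0) (nat_lit 572829015) (nat_lit 456) (nat_lit 572829015) (nat_lit 287) (nat_lit 1) (nat_lit 280) (nat_lit 1) (nat_lit 286) (nat_lit 1) (nat_lit 268) (nat_lit 382) (nat_lit 370)) (XT.lf (nat_lit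 76) (nat_lit 9921287663) (nat_lit 0) (nat_lit 3472620800) (nat_lit 532) (nat_lit 9921287663) (nat_lit 281) (nat_lit 1) (nat_lit 280) (nat_lit 1) (nat_lit 287) (nat_lit 1) (nat_lit 269) (nat_lit 382) (nat_lit 369))))) (XT.nd (nat_lit 234) (nat_lit 304) (nat_lit 0) (XT.nd (nat_lit 78) (nat_lit 380) (nat_lit 0) (XT.lf (nat_lit 456) (nat_lit 17071989383) (nat_lit 0) (nat_lit 2871059344) (nat_lit 380) (nat_lit 2871059344) (nat_lit 281) (nat_lit 1) (nat_lit 275) (nat_lit 1) (nat_lit 280) (nat_lit 1) (nat_lit 270) (nat_lit 382) (nat_lit 368)) (XT.nd (nat_lit 78) (nat_lit 380) (nat_lit 0) (XT.lf (nat_lit 76) (nat_lit 7076733713) (nat_lit 0) (nat_lit 8170086848) (nat_lit 456) (nat_lit 7076733713) (nat_lit 276) (nat_lit 1) (nat_lit 275) (nat_lit 1) (nat_lit 281) (nat_lit 1) (nat_lit 271) (nat_lit 382) (nat_lit 367)) (XT.lf (nat_lit 456) (nat_lit 11242147112) (nat_lit 0) (nat_lit 5303969021) (nat_lit 380)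 (nat_lit 5303969021) (nat_lit 276) (nat_lit 1) (nat_lit 270) (nat_lit 1) (nat_lit 275) (nat_lit 1) (nat_lit 272) (nat_lit 382) (nat_lit 366)))) (XT.nd (nat_lit 78) (nat_lit 304) (nat_lit 0) (XT.lf (nat_lit 76) (nat_lit 4142581802) (nat_lit 0) (nat_lit 13105222507) (nat_lit 456) (nat_lit 4142581802) (nat_lit 271) (nat_lit 1) (nat_lit 270) (nat_lit 1) (nat_lit 276) (nat_lit 1) (nat_lit 273) (nat_lit 382) (nat_lit 365)) (XT.nd (nat_lit 78) (nat_lit 0) (nat_lit 0) (XT.lf (nat_lit 380) (nat_lit 5257614278) (nat_lit 0) (nat_lit 7842448882) (nat_lit 304) (nat_lit 7842448882) (nat_lit 271) (nat_lit 1) (nat_lit 266) (nat_lit 1) (nat_lit 270) (nat_lit 1) (nat_lit 274) (nat_lit 382) (nat_lit 364)) (XT.lf (nat_lit 76) (nat_lit 1144021785) (nat_lit 0) (nat_lit 18223817437) (nat_lit 380) (nat_lit 1144021785) (nat_lit 267) (nat_lit 1) (nat_lit 266) (nat_lit 1) (nat_lit 271) (nat_lit 1) (nat_lit 275) (nat_lit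 382) (nat_lit 363)))))) (XT.nd (nat_lit 468) (nat_lit 1140) (nat_lit 0) (XT.nd (nat_lit 234) (nat_lit 532) (nat_lit 0) (XT.nd (nat_lit 78) (nat_lit 304) (nat_lit 0) (XT.lf (nat_lit 76) (nat_lit 9639856295) (nat_lit 0) (nat_lit 807356690) (nat_lit 380) (nat_lit 9639856295) (nat_lit 262) (nat_lit 1) (nat_lit 261) (nat_lit 1) (nat_lit 266) (nat_lit 1) (nat_lit 276) (nat_lit 382) (nat_lit 362)) (XT.nd (nat_lit 78) (nat_lit 0) (nat_lit 0) (XT.lf (nat_lit 380) (nat_lit 15945842534) (nat_lit 0) (nat_lit 1866306066) (nat_lit 304) (nat_lit 1866306066) (nat_lit 262) (nat_lit 1) (nat_lit 257) (nat_lit 1) (nat_lit 261) (nat_lit 1) (nat_lit 277) (nat_lit 382) (nat_lit 361)) (XT.lf (nat_lit 76) (nat_lit 6254660469) (nat_lit 0) (nat_lit 6767528986) (nat_lit 380) (nat_lit 6254660469) (nat_lit 258) (nat_lit 1) (nat_lit 257) (nat_lit 1) (nat_lit 262) (nat_lit 1) (nat_lit 278) (nat_lit 382) (nat_lit 360)))) (XT.nd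 (nat_lit 78) (nat_lit 228) (nat_lit 0) (XT.lf (nat_lit 380) (nat_lit 9127289537) (nat_lit 0) (nat_lit 4880940944) (nat_lit 304) (nat_lit 4880940944) (nat_lit 258) (nat_lit 1) (nat_lit 253) (nat_lit 1) (nat_lit 257) (nat_lit 1) (nat_lit 279) (nat_lit 382) (nat_lit 359)) (XT.nd (nat_lit 78) (nat_lit 228) (nat_lit 0) (XT.lf (nat_lit 76) (nat_lit 2878339775) (nat_lit 0) (nat_lit 12756149125) (nat_lit 380) (nat_lit 2878339775) (nat_lit 254) (nat_lit 1) (nat_lit 253) (nat_lit 1) (nat_lit 258) (nat_lit 1) (nat_lit 280) (nat_lit 382) (nat_lit 358)) (XT.lf (nat_lit 304) (nat_lit 2340830462) (nat_lit 0) (nat_lit 7901889600) (nat_lit 228) (nat_lit 7901889600) (nat_lit 254) (nat_lit 1) (nat_lit 250) (nat_lit 1) (nat_lit 253) (nat_lit 1) (nat_lit 281) (nat_lit 382) (nat_lit 357))))) (XT.nd (nat_lit 234) (nat_lit 532) (nat_lit 0) (XT.nd (nat_lit 78) (nat_lit 228) (nat_lit 0) (XT.lf (nat_lit 380) (nat_lit 16855201604)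 (nat_lit 0) (nat_lit 467699502) (nat_lit 304) (nat_lit 467699502) (nat_lit 250) (nat_lit 1) (nat_lit 245) (nat_lit 1) (nat_lit 249) (nat_lit 1) (nat_lit 282) (nat_lit 382) (nat_lit 356)) (XT.nd (nat_lit 78) (nat_lit 228) (nat_lit 0) (XT.lf (nat_lit 76) (nat_lit 6595564996) (nat_lit 0) (nat_lit 4247420963) (nat_lit 380) (nat_lit 6595564996) (nat_lit 246) (nat_lit 1) (nat_lit 245) (nat_lit 1) (nat_lit 250) (nat_lit 1) (nat_lit 283) (nat_lit 382) (nat_lit 355)) (XT.lf (nat_lit 304) (nat_lit 9633031191) (nat_lit 0) (nat_lit 3733486075) (nat_lit 228) (nat_lit 3733486075) (nat_lit 246) (nat_lit 1) (nat_lit 242) (nat_lit 1) (nat_lit 245) (nat_lit 1) (nat_lit 284) (nat_lit 382) (nat_lit 354)))) (XT.nd (nat_lit 156) (nat_lit 304) (nat_lit 0) (XT.nd (nat_lit 78) (nat_lit 228) (nat_lit 0) (XT.lf (nat_lit 76) (nat_lit 3043223561) (nat_lit 0) (nat_lit 10683609990) (nat_lit 304) (nat_lit 3043223561) (nat_lit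 243) (nat_lit 1) (nat_lit 242) (nat_lit 1) (nat_lit 246) (nat_lit 1) (nat_lit 285) (nat_lit 382) (nat_lit 353)) (XT.lf (nat_lit 304) (nat_lit 2536431718) (nat_lit 0) (nat_lit 6955592676) (nat_lit 228) (nat_lit 6955592676) (nat_lit 243) (nat_lit 1) (nat_lit 239) (nat_lit 1) (nat_lit 242) (nat_lit 1) (nat_lit 286) (nat_lit 382) (nat_lit 352))) (XT.nd (nat_lit 78) (nat_lit 0) (nat_lit 0) (XT.lf (nat_lit 304) (nat_lit 15265332102) (nat_lit 0) (nat_lit 435911991) (nat_lit 228) (nat_lit 435911991) (nat_lit 239) (nat_lit 1) (nat_lit 235) (nat_lit 1) (nat_lit 238) (nat_lit 1) (nat_lit 287) (nat_lit 382) (nat_lit 351)) (XT.lf (nat_lit 76) (nat_lit 5774437962) (nat_lit 0) (nat_lit 4278800548) (nat_lit 304) (nat_lit 5774437962) (nat_lit 236) (nat_lit 1) (nat_lit 235) (nat_lit 1) (nat_lit 239) (nat_lit 1) (nat_lit 288) (nat_lit 382) (nat_lit 350))))))) (XT.nd (nat_lit 1014) (nat_lit 1368) (nat_lit 0) (XT.nd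 (nat_lit 468) (nat_lit 760) (nat_lit 0) (XT.nd (nat_lit 234) (nat_lit 456) (nat_lit 0) (XT.nd (nat_lit 78) (nat_lit 152) (nat_lit 0) (XT.lf (nat_lit 304) (nat_lit 7940380940) (nat_lit 0) (nat_lit 3794633358) (nat_lit 228) (nat_lit 3794633358) (nat_lit 236) (nat_lit 1) (nat_lit 232) (nat_lit 1) (nat_lit 235) (nat_lit 1) (nat_lit 289) (nat_lit 382) (nat_lit 349)) (XT.nd (nat_lit 78) (nat_lit 152) (nat_lit 0) (XT.lf (nat_lit 76) (nat_lit 2186774435) (nat_lit 0) (nat_lit 10866063239) (nat_lit 304) (nat_lit 2186774435) (nat_lit 233) (nat_lit 1) (nat_lit 232) (nat_lit 1) (nat_lit 236) (nat_lit 1) (nat_lit 290) (nat_lit 382) (nat_lit 348)) (XT.lf (nat_lit 228) (nat_lit 801306861) (nat_lit 0) (nat_lit 7076867622) (nat_lit 152) (nat_lit 7076867622) (nat_lit 233) (nat_lit 1) (nat_lit 230) (nat_lit 1) (nat_lit 232) (nat_lit 1) (nat_lit 291) (nat_lit 382) (nat_lit 347)))) (XT.nd (nat_lit 78) (nat_lit 152)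 (nat_lit 0) (XT.lf (nat_lit 304) (nat_lit 12107477991) (nat_lit 0) (nat_lit 1285901921) (nat_lit 228) (nat_lit 1285901921) (nat_lit 230) (nat_lit 1) (nat_lit 226) (nat_lit 1) (nat_lit 229) (nat_lit 1) (nat_lit 292) (nat_lit 382) (nat_lit 346)) (XT.nd (nat_lit 78) (nat_lit 152) (nat_lit 0) (XT.lf (nat_lit 76) (nat_lit 4228854665) (nat_lit 0) (nat_lit 5948896345) (nat_lit 304) (nat_lit 4228854665) (nat_lit 227) (nat_lit 1) (nat_lit 226) (nat_lit 1) (nat_lit 230) (nat_lit 1) (nat_lit 293) (nat_lit 382) (nat_lit 345)) (XT.lf (nat_lit 228) (nat_lit 4885789237) (nat_lit 0) (nat_lit 4628277907) (nat_lit 152) (nat_lit 4628277907) (nat_lit 227) (nat_lit 1) (nat_lit 224) (nat_lit 1) (nat_lit 226) (nat_lit 1) (nat_lit 294) (nat_lit 382) (nat_lit 344))))) (XT.nd (nat_lit 234) (nat_lit 380) (nat_lit 0) (XT.nd (nat_lit 78) (nat_lit 380) (nat_lit 0) (XT.lf (nat_lit 76) (nat_lit 701932835) (nat_lit 0) (nat_lit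 12482988554) (nat_lit 228) (nat_lit 701932835) (nat_lit 225) (nat_lit 1) (nat_lit 224) (nat_lit 1) (nat_lit 227) (nat_lit 1) (nat_lit 295) (nat_lit 382) (nat_lit 343)) (XT.nd (nat_lit 78) (nat_lit 152) (nat_lit 0) (XT.lf (nat_lit 76) (nat_lit 5793174842) (nat_lit 0) (nat_lit 2045942439) (nat_lit 228) (nat_lit 5793174842) (nat_lit 222) (nat_lit 1) (nat_lit 221) (nat_lit 1) (nat_lit 224) (nat_lit 1) (nat_lit 296) (nat_lit 382) (nat_lit 342)) (XT.lf (nat_lit 228) (nat_lit 8044838610) (nat_lit 0) (nat_lit 2670668451) (nat_lit 152) (nat_lit 2670668451) (nat_lit 222) (nat_lit 1) (nat_lit 219) (nat_lit 1) (nat_lit 221) (nat_lit 1) (nat_lit 297) (nat_lit 382) (nat_lit 341)))) (XT.nd (nat_lit 156) (nat_lit 228) (nat_lit 0) (XT.nd (nat_lit 78) (nat_lit 152) (nat_lit 0) (XT.lf (nat_lit 76) (nat_lit 2270044159) (nat_lit 0) (nat_lit 8605410298) (nat_lit 228) (nat_lit 2270044159) (nat_lit 220) (nat_lit 1) (nat_lit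 219) (nat_lit 1) (nat_lit 222) (nat_lit 1) (nat_lit 298) (nat_lit 382) (nat_lit 340)) (XT.lf (nat_lit 228) (nat_lit 1063433959) (nat_lit 0) (nat_lit 5923119594) (nat_lit 152) (nat_lit 5923119594) (nat_lit 220) (nat_lit 1) (nat_lit 217) (nat_lit 1) (nat_lit 219) (nat_lit 1) (nat_lit 299) (nat_lit 382) (nat_lit 339))) (XT.nd (nat_lit 78) (nat_lit 0) (nat_lit 0) (XT.lf (nat_lit 228) (nat_lit 10452115980) (nat_lit 0) (nat_lit 1114282461) (nat_lit 152) (nat_lit 1114282461) (nat_lit 217) (nat_lit 1) (nat_lit 214) (nat_lit 1) (nat_lit 216) (nat_lit 1) (nat_lit 300) (nat_lit 382) (nat_lit 338)) (XT.lf (nat_lit 76) (nat_lit 3479535023) (nat_lit 0) (nat_lit 5494573036) (nat_lit 228) (nat_lit 3479535023) (nat_lit 215) (nat_lit 1) (nat_lit 214) (nat_lit 1) (nat_lit 217) (nat_lit 1) (nat_lit 301) (nat_lit 382) (nat_lit 337)))))) (XT.nd (nat_lit 468) (nat_lit 760) (nat_lit 0) (XT.nd (nat_lit 234) (nat_lit 304)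 (nat_lit 0) (XT.nd (nat_lit 78) (nat_lit 152) (nat_lit 0) (XT.lf (nat_lit 228) (nat_lit 3543737487) (nat_lit 0) (nat_lit 4344729498) (nat_lit 152) (nat_lit 4344729498) (nat_lit 215) (nat_lit 1) (nat_lit 212) (nat_lit 1) (nat_lit 214) (nat_lit 1) (nat_lit 302) (nat_lit 382) (nat_lit 336)) (XT.nd (nat_lit 78) (nat_lit 152) (nat_lit 0) (XT.lf (nat_lit 76) (nat_lit 116472877) (nat_lit 0) (nat_lit 11787535204) (nat_lit 228) (nat_lit 116472877) (nat_lit 213) (nat_lit 1) (nat_lit 212) (nat_lit 1) (nat_lit 215) (nat_lit 1) (nat_lit 303) (nat_lit 382) (nat_lit 335)) (XT.lf (nat_lit 76) (nat_lit 4397825955) (nat_lit 0) (nat_lit 3010761394) (nat_lit 152) (nat_lit 4397825955) (nat_lit 211) (nat_lit 1) (nat_lit 210) (nat_lit 1) (nat_lit 212) (nat_lit 1) (nat_lit 304) (nat_lit 382) (nat_lit 334)))) (XT.nd (nat_lit 78) (nat_lit 152) (nat_lit 0) (XT.lf (nat_lit 228) (nat_lit 5457201351) (nat_lit 0) (nat_lit 3071338139)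 (nat_lit 152) (nat_lit 3071338139) (nat_lit 211) (nat_lit 1) (nat_lit 208) (nat_lit 1) (nat_lit 210) (nat_lit 1) (nat_lit 305) (nat_lit 382) (nat_lit 333)) (XT.nd (nat_lit 78) (nat_lit 152) (nat_lit 0) (XT.lf (nat_lit 76) (nat_lit 1094131154) (nat_lit 0) (nat_lit 9210654564) (nat_lit 228) (nat_lit 1094131154) (nat_lit 209) (nat_lit 1) (nat_lit 208) (nat_lit 1) (nat_lit 211) (nat_lit 1) (nat_lit 306) (nat_lit 382) (nat_lit 332)) (XT.lf (nat_lit 76) (nat_lit 5080201232) (nat_lit 0) (nat_lit 1039210906) (nat_lit 152) (nat_lit 5080201232) (nat_lit 207) (nat_lit 1) (nat_lit 206) (nat_lit 1) (nat_lit 208) (nat_lit 1) (nat_lit 307) (nat_lit 382) (nat_lit 331))))) (XT.nd (nat_lit 234) (nat_lit 532) (nat_lit 0) (XT.nd (nat_lit 78) (nat_lit 76) (nat_lit 0) (XT.lf (nat_lit 228) (nat_lit 6910376628) (nat_lit 0) (nat_lit 2047672181) (nat_lit 152) (nat_lit 2047672181) (nat_lit 207) (nat_lit 1) (nat_lit 204)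 (nat_lit 1) (nat_lit 206) (nat_lit 1) (nat_lit 308) (nat_lit 382) (nat_lit 330)) (XT.nd (nat_lit 78) (nat_lit 76) (nat_lit 0) (XT.lf (nat_lit 76) (nat_lit 1850914532) (nat_lit 0) (nat_lit 7113838000) (nat_lit 228) (nat_lit 1850914532) (nat_lit 205) (nat_lit 1) (nat_lit 204) (nat_lit 1) (nat_lit 207) (nat_lit 1) (nat_lit 309) (nat_lit 382) (nat_lit 329)) (XT.lf (nat_lit 152) (nat_lit 531330158) (nat_lit 0) (nat_lit 5048934695) (nat_lit 76) (nat_lit 5048934695) (nat_lit 205) (nat_lit 1) (nat_lit 203) (nat_lit 1) (nat_lit 204) (nat_lit 1) (nat_lit 310) (nat_lit 382) (nat_lit 328)))) (XT.nd (nat_lit 156) (nat_lit 304) (nat_lit 0) (XT.nd (nat_lit 78) (nat_lit 0) (nat_lit 0) (XT.lf (nat_lit 228) (nat_lit 7990634974) (nat_lit 0) (nat_lit 1228315155) (nat_lit 152) (nat_lit 1228315155) (nat_lit 203) (nat_lit 1) (nat_lit 200) (nat_lit 1) (nat_lit 202) (nat_lit 1) (nat_lit 311) (nat_lit 382) (nat_lit 327))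 (XT.lf (nat_lit 76) (nat_lit 2428247322) (nat_lit 0) (nat_lit 5410867076) (nat_lit 228) (nat_lit 2428247322) (nat_lit 201) (nat_lit 1) (nat_lit 200) (nat_lit 1) (nat_lit 203) (nat_lit 1) (nat_lit 312) (nat_lit 382) (nat_lit 326))) (XT.nd (nat_lit 78) (nat_lit 228) (nat_lit 0) (XT.lf (nat_lit 152) (nat_lit 1784327044) (nat_lit 0) (nat_lit 4153771069) (nat_lit 76) (nat_lit 4153771069) (nat_lit 201) (nat_lit 1) (nat_lit 199) (nat_lit 1) (nat_lit 200) (nat_lit 1) (nat_lit 313) (nat_lit 382) (nat_lit 325)) (XT.lf (nat_lit 228) (nat_lit 8769582807) (nat_lit 0) (nat_lit 575957141) (nat_lit 152) (nat_lit 575957141) (nat_lit 199) (nat_lit 1) (nat_lit 196) (nat_lit 1) (nat_lit 198) (nat_lit 1) (nat_lit 314) (nat_lit 382) (nat_lit 324))))))))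
noncomputable def ec182 : XT := (XT.nd (nat_lit 1950) (nat_lit 1976) (nat_lit 0) (XT.nd (nat_lit 936) (nat_lit 988) (nat_lit 0) (XT.nd (nat_lit 468) (nat_lit 456) (nat_lit 0) (XT.nd (nat_lit 234) (nat_lit 76) (nat_lit 0) (XT.nd (nat_lit 78) (nat_lit 304) (nat_lit 0) (XT.lf (nat_lit 76) (nat_lit 2860101611) (nat_lit 0) (nat_lit 4030862256) (nat_lit 228) (nat_lit 2860101611) (nat_lit 197) (nat_lit 1) (nat_lit 196) (nat_lit 1) (nat_lit 199) (nat_lit 1) (nat_lit 315) (nat_lit 382) (nat_lit 323)) (XT.nd (nat_lit 78) (nat_lit 228) (nat_lit 0) (XT.lf (nat_lit 152) (nat_lit 2751018282) (nat_lit 0) (nat_lit 3417317738) (nat_lit 76) (nat_lit 3417317738) (nat_lit 197) (nat_lit 1) (nat_lit 195) (nat_lit 1) (nat_lit 196) (nat_lit 1) (nat_lit 316) (nat_lit 382) (nat_lit 322)) (XT.lf (nat_lit 228) (nat_lit 9305869515) (nat_lit 0) (nat_lit 59954911) (nat_lit 152) (nat_lit 59954911) (nat_lit 195) (nat_lit 1) (nat_lit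 192) (nat_lit 1) (nat_lit 194) (nat_lit 1) (nat_lit 317) (nat_lit 382) (nat_lit 321)))) (XT.nd (nat_lit 78) (nat_lit 76) (nat_lit 0) (XT.lf (nat_lit 76) (nat_lit 3174323654) (nat_lit 0) (nat_lit 2915560851) (nat_lit 228) (nat_lit 3174323654) (nat_lit 193) (nat_lit 1) (nat_lit 192) (nat_lit 1) (nat_lit 195) (nat_lit 1) (nat_lit 318) (nat_lit 382) (nat_lit 320)) (XT.nd (nat_lit 78) (nat_lit 0) (nat_lit 0) (XT.lf (nat_lit 152) (nat_lit 3485220032) (nat_lit 0) (nat_lit 2811435760) (nat_lit 76) (nat_lit 2811435760) (nat_lit 193) (nat_lit 1) (nat_lit 191) (nat_lit 1) (nat_lit 192) (nat_lit 1) (nat_lit 319) (nat_lit 382) (nat_lit 319)) (XT.lf (nat_lit 0) (nat_lit 350505840) (nat_lit 0) (nat_lit 8255676686) (nat_lit 152) (nat_lit 350505840) (nat_lit 191) (nat_lit 3) (nat_lit 191) (nat_lit 1) (nat_lit 193) (nat_lit 1) (nat_lit 320) (nat_lit 382) (nat_lit 318))))) (XT.nd (nat_lit 234) (nat_lit 228) (nat_lit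 0) (XT.nd (nat_lit 78) (nat_lit 76) (nat_lit 0) (XT.lf (nat_lit 76) (nat_lit 3393724860) (nat_lit 0) (nat_lit 2017077696) (nat_lit 152) (nat_lit 3393724860) (nat_lit 190) (nat_lit 1) (nat_lit 189) (nat_lit 1) (nat_lit 191) (nat_lit 1) (nat_lit 321) (nat_lit 382) (nat_lit 317)) (XT.nd (nat_lit 78) (nat_lit 0) (nat_lit 0) (XT.lf (nat_lit 152) (nat_lit 4031061511) (nat_lit 0) (nat_lit 2312975157) (nat_lit 76) (nat_lit 2312975157) (nat_lit 190) (nat_lit 1) (nat_lit 188) (nat_lit 1) (nat_lit 189) (nat_lit 1) (nat_lit 322) (nat_lit 382) (nat_lit 316)) (XT.lf (nat_lit 0) (nat_lit 669923453) (nat_lit 0) (nat_lit 7173527072) (nat_lit 152) (nat_lit 669923453) (nat_lit 188) (nat_lit 3) (nat_lit 188) (nat_lit 1) (nat_lit 190) (nat_lit 1) (nat_lit 323) (nat_lit 382) (nat_lit 315)))) (XT.nd (nat_lit 78) (nat_lit 76) (nat_lit 0) (XT.lf (nat_lit 76) (nat_lit 3536979111) (nat_lit 0) (nat_lit 1296062973) (nat_lit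 152) (nat_lit 3536979111) (nat_lit 187) (nat_lit 1) (nat_lit 186) (nat_lit 1) (nat_lit 188) (nat_lit 1) (nat_lit 324) (nat_lit 382) (nat_lit 314)) (XT.nd (nat_lit 78) (nat_lit 0) (nat_lit 0) (XT.lf (nat_lit 152) (nat_lit 4424709390) (nat_lit 0) (nat_lit 1902890386) (nat_lit 76) (nat_lit 1902890386) (nat_lit 187) (nat_lit 1) (nat_lit 185) (nat_lit 1) (nat_lit 186) (nat_lit 1) (nat_lit 325) (nat_lit 382) (nat_lit 313)) (XT.lf (nat_lit 0) (nat_lit 914539522) (nat_lit 0) (nat_lit 6265070314) (nat_lit 152) (nat_lit 914539522) (nat_lit 185) (nat_lit 3) (nat_lit 185) (nat_lit 1) (nat_lit 187) (nat_lit 1) (nat_lit 326) (nat_lit 382) (nat_lit 312)))))) (XT.nd (nat_lit 468) (nat_lit 532) (nat_lit 0) (XT.nd (nat_lit 234) (nat_lit 228) (nat_lit 0) (XT.nd (nat_lit 78) (nat_lit 76) (nat_lit 0) (XT.lf (nat_lit 76) (nat_lit 3619360773) (nat_lit 0) (nat_lit 720186750) (nat_lit 152) (nat_lit 3619360773) (nat_lit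 184) (nat_lit 1) (nat_lit 183) (nat_lit 1) (nat_lit 185) (nat_lit 1) (nat_lit 327) (nat_lit 382) (nat_lit 311)) (XT.nd (nat_lit 78) (nat_lit 0) (nat_lit 0) (XT.lf (nat_lit 152) (nat_lit 4695786136) (nat_lit 0) (nat_lit 1565512630) (nat_lit 76) (nat_lit 1565512630) (nat_lit 184) (nat_lit 1) (nat_lit 182) (nat_lit 1) (nat_lit 183) (nat_lit 1) (nat_lit 328) (nat_lit 382) (nat_lit 310)) (XT.lf (nat_lit 0) (nat_lit 1098481394) (nat_lit 0) (nat_lit 5500376318) (nat_lit 152) (nat_lit 1098481394) (nat_lit 182) (nat_lit 3) (nat_lit 182) (nat_lit 1) (nat_lit 184) (nat_lit 1) (nat_lit 329) (nat_lit 382) (nat_lit 309)))) (XT.nd (nat_lit 78) (nat_lit 76) (nat_lit 0) (XT.lf (nat_lit 76) (nat_lit 3653351641) (nat_lit 0) (nat_lit 262892311) (nat_lit 152) (nat_lit 3653351641) (nat_lit 181) (nat_lit 1) (nat_lit 180) (nat_lit 1) (nat_lit 182) (nat_lit 1) (nat_lit 330) (nat_lit 382) (nat_lit 308)) (XT.nd (nat_lit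 78) (nat_lit 0) (nat_lit 0) (XT.lf (nat_lit 152) (nat_lit 4868536562) (nat_lit 0) (nat_lit 1287951115) (nat_lit 76) (nat_lit 1287951115) (nat_lit 181) (nat_lit 1) (nat_lit 179) (nat_lit 1) (nat_lit 180) (nat_lit 1) (nat_lit 331) (nat_lit 382) (nat_lit 307)) (XT.lf (nat_lit 0) (nat_lit 1233330472) (nat_lit 0) (nat_lit 4854780319) (nat_lit 152) (nat_lit 1233330472) (nat_lit 179) (nat_lit 3) (nat_lit 179) (nat_lit 1) (nat_lit 181) (nat_lit 1) (nat_lit 332) (nat_lit 382) (nat_lit 306))))) (XT.nd (nat_lit 234) (nat_lit 304) (nat_lit 0) (XT.nd (nat_lit 78) (nat_lit 152) (nat_lit 0) (XT.lf (nat_lit 76) (nat_lit 100857446) (nat_lit 0) (nat_lit 3549857301) (nat_lit 76) (nat_lit 3549857301) (nat_lit 179) (nat_lit 3) (nat_lit 178) (nat_lit 1) (nat_lit 179) (nat_lit 1) (nat_lit 333) (nat_lit 382) (nat_lit 305)) (XT.nd (nat_lit 78) (nat_lit 0) (nat_lit 0) (XT.lf (nat_lit 152) (nat_lit 4962787256) (nat_lit 0)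 (nat_lit 1059600569) (nat_lit 76) (nat_lit 1059600569) (nat_lit 178) (nat_lit 1) (nat_lit 176) (nat_lit 1) (nat_lit 177) (nat_lit 1) (nat_lit 334) (nat_lit 382) (nat_lit 304)) (XT.lf (nat_lit 0) (nat_lit 1328575565) (nat_lit 0) (nat_lit 4307951317) (nat_lit 152) (nat_lit 1328575565) (nat_lit 176) (nat_lit 3) (nat_lit 176) (nat_lit 1) (nat_lit 178) (nat_lit 1) (nat_lit 335) (nat_lit 382) (nat_lit 303)))) (XT.nd (nat_lit 156) (nat_lit 76) (nat_lit 0) (XT.nd (nat_lit 78) (nat_lit 152) (nat_lit 0) (XT.lf (nat_lit 76) (nat_lit 391824115) (nat_lit 0) (nat_lit 3229324831) (nat_lit 76) (nat_lit 3229324831) (nat_lit 176) (nat_lit 3) (nat_lit 175) (nat_lit 1) (nat_lit 176) (nat_lit 1) (nat_lit 336) (nat_lit 382) (nat_lit 302)) (XT.lf (nat_lit 152) (nat_lit 4994735622) (nat_lit 0) (nat_lit 871736011) (nat_lit 76) (nat_lit 871736011) (nat_lit 175) (nat_lit 1) (nat_lit 173) (nat_lit 1) (nat_lit 174) (nat_lit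 1) (nat_lit 337) (nat_lit 382) (nat_lit 301))) (XT.nd (nat_lit 78) (nat_lit 76) (nat_lit 0) (XT.lf (nat_lit 0) (nat_lit 1391985770) (nat_lit 0) (nat_lit 3843125575) (nat_lit 152) (nat_lit 1391985770) (nat_lit 173) (nat_lit 3) (nat_lit 173) (nat_lit 1) (nat_lit 175) (nat_lit 1) (nat_lit 338) (nat_lit 382) (nat_lit 300)) (XT.lf (nat_lit 76) (nat_lit 616496045) (nat_lit 0) (nat_lit 2950914906) (nat_lit 76) (nat_lit 2950914906) (nat_lit 173) (nat_lit 3) (nat_lit 172) (nat_lit 1) (nat_lit 173) (nat_lit 1) (nat_lit 339) (nat_lit 382) (nat_lit 299))))))) (XT.nd (nat_lit 936) (nat_lit 1064) (nat_lit 0) (XT.nd (nat_lit 468) (nat_lit 456) (nat_lit 0) (XT.nd (nat_lit 234) (nat_lit 228) (nat_lit 0) (XT.nd (nat_lit 78) (nat_lit 76) (nat_lit 0) (XT.lf (nat_lit 152) (nat_lit 4977598752) (nat_lit 0) (nat_lit 717179373) (nat_lit 76) (nat_lit 717179373) (nat_lit 172) (nat_lit 1) (nat_lit 170) (nat_lit 1) (nat_lit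 171) (nat_lit 1) (nat_lit 340) (nat_lit 382) (nat_lit 298)) (XT.nd (nat_lit 78) (nat_lit 76) (nat_lit 0) (XT.lf (nat_lit 0) (nat_lit 1429917153) (nat_lit 0) (nat_lit 3446475936) (nat_lit 152) (nat_lit 1429917153) (nat_lit 170) (nat_lit 3) (nat_lit 170) (nat_lit 1) (nat_lit 172) (nat_lit 1) (nat_lit 341) (nat_lit 382) (nat_lit 297)) (XT.lf (nat_lit 76) (nat_lit 787327465) (nat_lit 0) (nat_lit 2707859640) (nat_lit 76) (nat_lit 2707859640) (nat_lit 170) (nat_lit 3) (nat_lit 169) (nat_lit 1) (nat_lit 170) (nat_lit 1) (nat_lit 342) (nat_lit 382) (nat_lit 296)))) (XT.nd (nat_lit 78) (nat_lit 76) (nat_lit 0) (XT.lf (nat_lit 152) (nat_lit 4922146997) (nat_lit 0) (nat_lit 590025245) (nat_lit 76) (nat_lit 590025245) (nat_lit 169) (nat_lit 1) (nat_lit 167) (nat_lit 1) (nat_lit 168) (nat_lit 1) (nat_lit 343) (nat_lit 382) (nat_lit 295)) (XT.nd (nat_lit 78) (nat_lit 76) (nat_lit 0) (XT.lf (nat_lit 0) (nat_lit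 1447564966) (nat_lit 0) (nat_lit 3106592867) (nat_lit 152) (nat_lit 1447564966) (nat_lit 167) (nat_lit 3) (nat_lit 167) (nat_lit 1) (nat_lit 169) (nat_lit 1) (nat_lit 344) (nat_lit 382) (nat_lit 294)) (XT.lf (nat_lit 76) (nat_lit 914531152) (nat_lit 0) (nat_lit 2494557725) (nat_lit 76) (nat_lit 2494557725) (nat_lit 167) (nat_lit 3) (nat_lit 166) (nat_lit 1) (nat_lit 167) (nat_lit 1) (nat_lit 345) (nat_lit 382) (nat_lit 293))))) (XT.nd (nat_lit 234) (nat_lit 228) (nat_lit 0) (XT.nd (nat_lit 78) (nat_lit 76) (nat_lit 0) (XT.lf (nat_lit 152) (nat_lit 4837142692) (nat_lit 0) (nat_lit 485415229) (nat_lit 76) (nat_lit 485415229) (nat_lit 166) (nat_lit 1) (nat_lit 164) (nat_lit 1) (nat_lit 165) (nat_lit 1) (nat_lit 346) (nat_lit 382) (nat_lit 292)) (XT.nd (nat_lit 78) (nat_lit 76) (nat_lit 0) (XT.lf (nat_lit 0) (nat_lit 1449171075) (nat_lit 0) (nat_lit 2814057436) (nat_lit 152) (nat_lit 1449171075) (nat_lit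 164) (nat_lit 3) (nat_lit 164) (nat_lit 1) (nat_lit 166) (nat_lit 1) (nat_lit 347) (nat_lit 382) (nat_lit 291)) (XT.lf (nat_lit 76) (nat_lit 1006477422) (nat_lit 0) (nat_lit 2306369194) (nat_lit 76) (nat_lit 2306369194) (nat_lit 164) (nat_lit 3) (nat_lit 163) (nat_lit 1) (nat_lit 164) (nat_lit 1) (nat_lit 348) (nat_lit 382) (nat_lit 290)))) (XT.nd (nat_lit 78) (nat_lit 76) (nat_lit 0) (XT.lf (nat_lit 152) (nat_lit 4729700861) (nat_lit 0) (nat_lit 399352310) (nat_lit 76) (nat_lit 399352310) (nat_lit 163) (nat_lit 1) (nat_lit 161) (nat_lit 1) (nat_lit 162) (nat_lit 1) (nat_lit 349) (nat_lit 382) (nat_lit 289)) (XT.nd (nat_lit 78) (nat_lit 76) (nat_lit 0) (XT.lf (nat_lit 0) (nat_lit 1438194531) (nat_lit 0) (nat_lit 2561089917) (nat_lit 152) (nat_lit 1438194531) (nat_lit 161) (nat_lit 3) (nat_lit 161) (nat_lit 1) (nat_lit 163) (nat_lit 1) (nat_lit 350) (nat_lit 382) (nat_lit 288)) (XT.lf (nat_lit 76)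 (nat_lit 1070022303) (nat_lit 0) (nat_lit 2139446481) (nat_lit 76) (nat_lit 2139446481) (nat_lit 161) (nat_lit 3) (nat_lit 160) (nat_lit 1) (nat_lit 161) (nat_lit 1) (nat_lit 351) (nat_lit 382) (nat_lit 287)))))) (XT.nd (nat_lit 468) (nat_lit 608) (nat_lit 0) (XT.nd (nat_lit 234) (nat_lit 228) (nat_lit 0) (XT.nd (nat_lit 78) (nat_lit 76) (nat_lit 0) (XT.lf (nat_lit 152) (nat_lit 4605585743) (nat_lit 0) (nat_lit 328548134) (nat_lit 76) (nat_lit 328548134) (nat_lit 160) (nat_lit 1) (nat_lit 158) (nat_lit 1) (nat_lit 159) (nat_lit 1) (nat_lit 352) (nat_lit 382) (nat_lit 286)) (XT.nd (nat_lit 78) (nat_lit 76) (nat_lit 0) (XT.lf (nat_lit 0) (nat_lit 1417451819) (nat_lit 0) (nat_lit 2341260632) (nat_lit 152) (nat_lit 1417451819) (nat_lit 158) (nat_lit 3) (nat_lit 158) (nat_lit 1) (nat_lit 160) (nat_lit 1) (nat_lit 353) (nat_lit 382) (nat_lit 285)) (XT.lf (nat_lit 76) (nat_lit 1110777461) (nat_lit 0)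 (nat_lit 1990595379) (nat_lit 76) (nat_lit 1990595379) (nat_lit 158) (nat_lit 3) (nat_lit 157) (nat_lit 1) (nat_lit 158) (nat_lit 1) (nat_lit 354) (nat_lit 382) (nat_lit 284)))) (XT.nd (nat_lit 78) (nat_lit 76) (nat_lit 0) (XT.lf (nat_lit 152) (nat_lit 4469454541) (nat_lit 0) (nat_lit 270297363) (nat_lit 76) (nat_lit 270297363) (nat_lit 157) (nat_lit 1) (nat_lit 155) (nat_lit 1) (nat_lit 156) (nat_lit 1) (nat_lit 355) (nat_lit 382) (nat_lit 283)) (XT.nd (nat_lit 78) (nat_lit 76) (nat_lit 0) (XT.lf (nat_lit 0) (nat_lit 1389232186) (nat_lit 0) (nat_lit 2149251983) (nat_lit 152) (nat_lit 1389232186) (nat_lit 155) (nat_lit 3) (nat_lit 155) (nat_lit 1) (nat_lit 157) (nat_lit 1) (nat_lit 356) (nat_lit 382) (nat_lit 282)) (XT.lf (nat_lit 76) (nat_lit 1133332190) (nat_lit 0) (nat_lit 1857160568) (nat_lit 76) (nat_lit 1857160568) (nat_lit 155) (nat_lit 3) (nat_lit 154) (nat_lit 1) (nat_lit 155) (nat_lit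 1) (nat_lit 357) (nat_lit 382) (nat_lit 281))))) (XT.nd (nat_lit 234) (nat_lit 380) (nat_lit 0) (XT.nd (nat_lit 78) (nat_lit 76) (nat_lit 0) (XT.lf (nat_lit 152) (nat_lit 4325057742) (nat_lit 0) (nat_lit 222374309) (nat_lit 76) (nat_lit 222374309) (nat_lit 154) (nat_lit 1) (nat_lit 152) (nat_lit 1) (nat_lit 153) (nat_lit 1) (nat_lit 358) (nat_lit 382) (nat_lit 280)) (XT.nd (nat_lit 78) (nat_lit 76) (nat_lit 0) (XT.lf (nat_lit 0) (nat_lit 1355392439) (nat_lit 0) (nat_lit 1980662607) (nat_lit 152) (nat_lit 1355392439) (nat_lit 152) (nat_lit 3) (nat_lit 152) (nat_lit 1) (nat_lit 154) (nat_lit 1) (nat_lit 359) (nat_lit 382) (nat_lit 279)) (XT.lf (nat_lit 76) (nat_lit 1141435981) (nat_lit 0) (nat_lit 1736931379) (nat_lit 76) (nat_lit 1736931379) (nat_lit 152) (nat_lit 3) (nat_lit 151) (nat_lit 1) (nat_lit 152) (nat_lit 1) (nat_lit 360) (nat_lit 382) (nat_lit 278)))) (XT.nd (nat_lit 156) (nat_lit 228)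 (nat_lit 0) (XT.nd (nat_lit 78) (nat_lit 0) (nat_lit 0) (XT.lf (nat_lit 152) (nat_lit 4175403737) (nat_lit 0) (nat_lit 182947894) (nat_lit 76) (nat_lit 182947894) (nat_lit 151) (nat_lit 1) (nat_lit 149) (nat_lit 1) (nat_lit 150) (nat_lit 1) (nat_lit 361) (nat_lit 382) (nat_lit 277)) (XT.lf (nat_lit 0) (nat_lit 1317434888) (nat_lit 0) (nat_lit 1831846202) (nat_lit 152) (nat_lit 1317434888) (nat_lit 149) (nat_lit 3) (nat_lit 149) (nat_lit 1) (nat_lit 151) (nat_lit 1) (nat_lit 362) (nat_lit 382) (nat_lit 276))) (XT.nd (nat_lit 78) (nat_lit 152) (nat_lit 0) (XT.lf (nat_lit 76) (nat_lit 1138148668) (nat_lit 0) (nat_lit 1628064205) (nat_lit 76) (nat_lit 1628064205) (nat_lit 149) (nat_lit 3) (nat_lit 148) (nat_lit 1) (nat_lit 149) (nat_lit 1) (nat_lit 363) (nat_lit 382) (nat_lit 275)) (XT.lf (nat_lit 152) (nat_lit 4022894063) (nat_lit 0) (nat_lit 150511685) (nat_lit 76) (nat_lit 150511685) (nat_lit 148)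 (nat_lit 1) (nat_lit 146) (nat_lit 1) (nat_lit 147) (nat_lit 1) (nat_lit 364) (nat_lit 382) (nat_lit 274))))))))
noncomputable def ec183 : XT := (XT.nd (nat_lit 1950) (nat_lit 2052) (nat_lit 0) (XT.nd (nat_lit 936) (nat_lit 912) (nat_lit 0) (XT.nd (nat_lit 468) (nat_lit 456) (nat_lit 0) (XT.nd (nat_lit 234) (nat_lit 228) (nat_lit 0) (XT.nd (nat_lit 78) (nat_lit 228) (nat_lit 0) (XT.lf (nat_lit 0) (nat_lit 1276571393) (nat_lit 0) (nat_lit 1699778855) (nat_lit 152) (nat_lit 1276571393) (nat_lit 146) (nat_lit 3) (nat_lit 146) (nat_lit 1) (nat_lit 148) (nat_lit 1) (nat_lit 365) (nat_lit 382) (nat_lit 273)) (XT.nd (nat_lit 78) (nat_lit 152) (nat_lit 0) (XT.lf (nat_lit 76) (nat_lit 1125963879) (nat_lit 0) (nat_lit 1529018604) (nat_lit 76) (nat_lit 1529018604) (nat_lit 146) (nat_lit 3) (nat_lit 145) (nat_lit 1) (nat_lit 146) (nat_lit 1) (nat_lit 366) (nat_lit 382) (nat_lit 272)) (XT.lf (nat_lit 152) (nat_lit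 3869434497) (nat_lit 0) (nat_lit 123826336) (nat_lit 76) (nat_lit 123826336) (nat_lit 145) (nat_lit 1) (nat_lit 143) (nat_lit 1) (nat_lit 144) (nat_lit 1) (nat_lit 367) (nat_lit 382) (nat_lit 271)))) (XT.nd (nat_lit 78) (nat_lit 228) (nat_lit 0) (XT.lf (nat_lit 0) (nat_lit 1233776017) (nat_lit 0) (nat_lit 1581949843) (nat_lit 152) (nat_lit 1233776017) (nat_lit 143) (nat_lit 3) (nat_lit 143) (nat_lit 1) (nat_lit 145) (nat_lit 1) (nat_lit 368) (nat_lit 382) (nat_lit 270)) (XT.nd (nat_lit 78) (nat_lit 152) (nat_lit 0) (XT.lf (nat_lit 76) (nat_lit 1106910558) (nat_lit 0) (nat_lit 1438504678) (nat_lit 76) (nat_lit 1438504678) (nat_lit 143) (nat_lit 3) (nat_lit 142) (nat_lit 1) (nat_lit 143) (nat_lit 1) (nat_lit 369) (nat_lit 382) (nat_lit 269)) (XT.lf (nat_lit 152) (nat_lit 3716526285) (nat_lit 0) (nat_lit 101872233) (nat_lit 76) (nat_lit 101872233) (nat_lit 142) (nat_lit 1) (nat_lit 140) (nat_lit 1)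 (nat_lit 141) (nat_lit 1) (nat_lit 370) (nat_lit 382) (nat_lit 268))))) (XT.nd (nat_lit 234) (nat_lit 228) (nat_lit 0) (XT.nd (nat_lit 78) (nat_lit 228) (nat_lit 0) (XT.lf (nat_lit 0) (nat_lit 1189828270) (nat_lit 0) (nat_lit 1476271738) (nat_lit 152) (nat_lit 1189828270) (nat_lit 140) (nat_lit 3) (nat_lit 140) (nat_lit 1) (nat_lit 142) (nat_lit 1) (nat_lit 371) (nat_lit 382) (nat_lit 267)) (XT.nd (nat_lit 78) (nat_lit 152) (nat_lit 0) (XT.lf (nat_lit 76) (nat_lit 1082636426) (nat_lit 0) (nat_lit 1355439729) (nat_lit 76) (nat_lit 1355439729) (nat_lit 140) (nat_lit 3) (nat_lit 139) (nat_lit 1) (nat_lit 140) (nat_lit 1) (nat_lit 372) (nat_lit 382) (nat_lit 266)) (XT.lf (nat_lit 152) (nat_lit 3565341037) (nat_lit 0) (nat_lit 83810538) (nat_lit 76) (nat_lit 83810538) (nat_lit 139) (nat_lit 1) (nat_lit 137) (nat_lit 1) (nat_lit 138) (nat_lit 1) (nat_lit 373) (nat_lit 382) (nat_lit 265)))) (XT.nd (nat_lit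 78) (nat_lit 228) (nat_lit 0) (XT.lf (nat_lit 0) (nat_lit 1145348651) (nat_lit 0) (nat_lit 1381006401) (nat_lit 152) (nat_lit 1145348651) (nat_lit 137) (nat_lit 3) (nat_lit 137) (nat_lit 1) (nat_lit 139) (nat_lit 1) (nat_lit 374) (nat_lit 382) (nat_lit 264)) (XT.nd (nat_lit 78) (nat_lit 152) (nat_lit 0) (XT.lf (nat_lit 76) (nat_lit 1054476591) (nat_lit 0) (nat_lit 1278912544) (nat_lit 76) (nat_lit 1278912544) (nat_lit 137) (nat_lit 3) (nat_lit 136) (nat_lit 1) (nat_lit 137) (nat_lit 1) (nat_lit 375) (nat_lit 382) (nat_lit 263)) (XT.lf (nat_lit 152) (nat_lit 3416782195) (nat_lit 0) (nat_lit 68951137) (nat_lit 76) (nat_lit 68951137) (nat_lit 136) (nat_lit 1) (nat_lit 134) (nat_lit 1) (nat_lit 135) (nat_lit 1) (nat_lit 376) (nat_lit 382) (nat_lit 262)))))) (XT.nd (nat_lit 468) (nat_lit 456) (nat_lit 0) (XT.nd (nat_lit 234) (nat_lit 228) (nat_lit 0) (XT.nd (nat_lit 78) (nat_lit 228) (nat_lit 0) (XT.lf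 (nat_lit 0) (nat_lit 1100827825) (nat_lit 0) (nat_lit 1294704040) (nat_lit 152) (nat_lit 1100827825) (nat_lit 134) (nat_lit 3) (nat_lit 134) (nat_lit 1) (nat_lit 136) (nat_lit 1) (nat_lit 377) (nat_lit 382) (nat_lit 261)) (XT.nd (nat_lit 78) (nat_lit 152) (nat_lit 0) (XT.lf (nat_lit 76) (nat_lit 1023509953) (nat_lit 0) (nat_lit 1208153966) (nat_lit 76) (nat_lit 1208153966) (nat_lit 134) (nat_lit 3) (nat_lit 133) (nat_lit 1) (nat_lit 134) (nat_lit 1) (nat_lit 378) (nat_lit 382) (nat_lit 260)) (XT.lf (nat_lit 152) (nat_lit 3271535453) (nat_lit 0) (nat_lit 56726271) (nat_lit 76) (nat_lit 56726271) (nat_lit 133) (nat_lit 1) (nat_lit 131) (nat_lit 1) (nat_lit 132) (nat_lit 1) (nat_lit 379) (nat_lit 382) (nat_lit 259)))) (XT.nd (nat_lit 78) (nat_lit 228) (nat_lit 0) (XT.lf (nat_lit 0) (nat_lit 1056650591) (nat_lit 0) (nat_lit 1216153032) (nat_lit 152) (nat_lit 1056650591) (nat_lit 131) (nat_lit 3) (nat_lit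 131) (nat_lit 1) (nat_lit 133) (nat_lit 1) (nat_lit 380) (nat_lit 382) (nat_lit 258)) (XT.nd (nat_lit 78) (nat_lit 152) (nat_lit 0) (XT.lf (nat_lit 76) (nat_lit 990605553) (nat_lit 0) (nat_lit 1142512640) (nat_lit 76) (nat_lit 1142512640) (nat_lit 131) (nat_lit 3) (nat_lit 130) (nat_lit 1) (nat_lit 131) (nat_lit 1) (nat_lit 381) (nat_lit 382) (nat_lit 257)) (XT.lf (nat_lit 152) (nat_lit 3130110110) (nat_lit 0) (nat_lit 46668843) (nat_lit 76) (nat_lit 46668843) (nat_lit 130) (nat_lit 1) (nat_lit 128) (nat_lit 1) (nat_lit 129) (nat_lit 1) (nat_lit 382) (nat_lit 382) (nat_lit 256))))) (XT.nd (nat_lit 234) (nat_lit 228) (nat_lit 0) (XT.nd (nat_lit 78) (nat_lit 228) (nat_lit 0) (XT.lf (nat_lit 0) (nat_lit 1013115547) (nat_lit 0) (nat_lit 1144338600) (nat_lit 152) (nat_lit 1013115547) (nat_lit 128) (nat_lit 3) (nat_lit 128) (nat_lit 1) (nat_lit 130) (nat_lit 1) (nat_lit 383) (nat_lit 382) (nat_lit 255))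 (XT.nd (nat_lit 78) (nat_lit 152) (nat_lit 0) (XT.lf (nat_lit 76) (nat_lit 956460671) (nat_lit 0) (nat_lit 1081435008) (nat_lit 76) (nat_lit 1081435008) (nat_lit 128) (nat_lit 3) (nat_lit 127) (nat_lit 1) (nat_lit 128) (nat_lit 1) (nat_lit 384) (nat_lit 382) (nat_lit 254)) (XT.lf (nat_lit 152) (nat_lit 2992872949) (nat_lit 0) (nat_lit 38394573) (nat_lit 76) (nat_lit 38394573) (nat_lit 127) (nat_lit 1) (nat_lit 125) (nat_lit 1) (nat_lit 126) (nat_lit 1) (nat_lit 385) (nat_lit 382) (nat_lit 253)))) (XT.nd (nat_lit 156) (nat_lit 152) (nat_lit 0) (XT.nd (nat_lit 78) (nat_lit 76) (nat_lit 0) (XT.lf (nat_lit 0) (nat_lit 970451230) (nat_lit 0) (nat_lit 1078408760) (nat_lit 152) (nat_lit 970451230) (nat_lit 125) (nat_lit 3) (nat_lit 125) (nat_lit 1) (nat_lit 127) (nat_lit 1) (nat_lit 386) (nat_lit 382) (nat_lit 252)) (XT.lf (nat_lit 76) (nat_lit 921632114) (nat_lit 0) (nat_lit 1024448810) (nat_lit 76)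 (nat_lit 1024448810) (nat_lit 125) (nat_lit 3) (nat_lit 124) (nat_lit 1) (nat_lit 125) (nat_lit 1) (nat_lit 387) (nat_lit 382) (nat_lit 251))) (XT.nd (nat_lit 78) (nat_lit 0) (nat_lit 0) (XT.lf (nat_lit 152) (nat_lit 2860075996) (nat_lit 0) (nat_lit 31587310) (nat_lit 76) (nat_lit 31587310) (nat_lit 124) (nat_lit 1) (nat_lit 122) (nat_lit 1) (nat_lit 123) (nat_lit 1) (nat_lit 388) (nat_lit 382) (nat_lit 250)) (XT.lf (nat_lit 0) (nat_lit 928829354) (nat_lit 0) (nat_lit 1017646282) (nat_lit 152) (nat_lit 928829354) (nat_lit 122) (nat_lit 3) (nat_lit 122) (nat_lit 1) (nat_lit 124) (nat_lit 1) (nat_lit 389) (nat_lit 382) (nat_lit 249))))))) (XT.nd (nat_lit 1014) (nat_lit 1064) (nat_lit 0) (XT.nd (nat_lit 468) (nat_lit 532) (nat_lit 0) (XT.nd (nat_lit 234) (nat_lit 228) (nat_lit 0) (XT.nd (nat_lit 78) (nat_lit 152) (nat_lit 0) (XT.lf (nat_lit 76) (nat_lit 886561929) (nat_lit 0) (nat_lit 971149479) (nat_lit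 76) (nat_lit 971149479) (nat_lit 122) (nat_lit 3) (nat_lit 121) (nat_lit 1) (nat_lit 122) (nat_lit 1) (nat_lit 390) (nat_lit 382) (nat_lit 248)) (XT.nd (nat_lit 78) (nat_lit 0) (nat_lit 0) (XT.lf (nat_lit 152) (nat_lit 2731879233) (nat_lit 0) (nat_lit 25986958) (nat_lit 76) (nat_lit 25986958) (nat_lit 121) (nat_lit 1) (nat_lit 119) (nat_lit 1) (nat_lit 120) (nat_lit 1) (nat_lit 391) (nat_lit 382) (nat_lit 247)) (XT.lf (nat_lit 0) (nat_lit 888375662) (nat_lit 0) (nat_lit 961445568) (nat_lit 152) (nat_lit 888375662) (nat_lit 119) (nat_lit 3) (nat_lit 119) (nat_lit 1) (nat_lit 121) (nat_lit 1) (nat_lit 392) (nat_lit 382) (nat_lit 246)))) (XT.nd (nat_lit 78) (nat_lit 152) (nat_lit 0) (XT.lf (nat_lit 76) (nat_lit 851598510) (nat_lit 0) (nat_lit 921188897) (nat_lit 76) (nat_lit 921188897) (nat_lit 119) (nat_lit 3) (nat_lit 118) (nat_lit 1) (nat_lit 119) (nat_lit 1) (nat_lit 393) (nat_lit 382) (nat_lit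 245)) (XT.nd (nat_lit 78) (nat_lit 0) (nat_lit 0) (XT.lf (nat_lit 152) (nat_lit 2608369170) (nat_lit 0) (nat_lit 21379535) (nat_lit 76) (nat_lit 21379535) (nat_lit 118) (nat_lit 1) (nat_lit 116) (nat_lit 1) (nat_lit 117) (nat_lit 1) (nat_lit 394) (nat_lit 382) (nat_lit 244)) (XT.lf (nat_lit 0) (nat_lit 849178811) (nat_lit 0) (nat_lit 909293604) (nat_lit 152) (nat_lit 849178811) (nat_lit 116) (nat_lit 3) (nat_lit 116) (nat_lit 1) (nat_lit 118) (nat_lit 1) (nat_lit 395) (nat_lit 382) (nat_lit 243))))) (XT.nd (nat_lit 234) (nat_lit 304) (nat_lit 0) (XT.nd (nat_lit 78) (nat_lit 152) (nat_lit 0) (XT.lf (nat_lit 76) (nat_lit 817013932) (nat_lit 0) (nat_lit 874266116) (nat_lit 76) (nat_lit 874266116) (nat_lit 116) (nat_lit 3) (nat_lit 115) (nat_lit 1) (nat_lit 116) (nat_lit 1) (nat_lit 396) (nat_lit 382) (nat_lit 242)) (XT.nd (nat_lit 78) (nat_lit 0) (nat_lit 0) (XT.lf (nat_lit 152) (nat_lit 2489574023)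 (nat_lit 0) (nat_lit 17588996) (nat_lit 76) (nat_lit 17588996) (nat_lit 115) (nat_lit 1) (nat_lit 113) (nat_lit 1) (nat_lit 114) (nat_lit 1) (nat_lit 397) (nat_lit 382) (nat_lit 241)) (XT.lf (nat_lit 0) (nat_lit 811297657) (nat_lit 0) (nat_lit 860754246) (nat_lit 152) (nat_lit 811297657) (nat_lit 113) (nat_lit 3) (nat_lit 113) (nat_lit 1) (nat_lit 115) (nat_lit 1) (nat_lit 398) (nat_lit 382) (nat_lit 240)))) (XT.nd (nat_lit 156) (nat_lit 76) (nat_lit 0) (XT.nd (nat_lit 78) (nat_lit 152) (nat_lit 0) (XT.lf (nat_lit 76) (nat_lit 783018175) (nat_lit 0) (nat_lit 830119688) (nat_lit 76) (nat_lit 830119688) (nat_lit 113) (nat_lit 3) (nat_lit 112) (nat_lit 1) (nat_lit 113) (nat_lit 1) (nat_lit 399) (nat_lit 382) (nat_lit 239)) (XT.lf (nat_lit 152) (nat_lit 2375476093) (nat_lit 0) (nat_lit 14470510) (nat_lit 76) (nat_lit 14470510) (nat_lit 112) (nat_lit 1) (nat_lit 110) (nat_lit 1) (nat_lit 111) (nat_lit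 1) (nat_lit 400) (nat_lit 382) (nat_lit 238))) (XT.nd (nat_lit 78) (nat_lit 76) (nat_lit 0) (XT.lf (nat_lit 0) (nat_lit 774767208) (nat_lit 0) (nat_lit 815455266) (nat_lit 152) (nat_lit 774767208) (nat_lit 110) (nat_lit 3) (nat_lit 110) (nat_lit 1) (nat_lit 112) (nat_lit 1) (nat_lit 401) (nat_lit 382) (nat_lit 237)) (XT.lf (nat_lit 76) (nat_lit 749770791) (nat_lit 0) (nat_lit 788521322) (nat_lit 76) (nat_lit 788521322) (nat_lit 110) (nat_lit 3) (nat_lit 109) (nat_lit 1) (nat_lit 110) (nat_lit 1) (nat_lit 402) (nat_lit 382) (nat_lit 236)))))) (XT.nd (nat_lit 468) (nat_lit 608) (nat_lit 0) (XT.nd (nat_lit 234) (nat_lit 228) (nat_lit 0) (XT.nd (nat_lit 78) (nat_lit 76) (nat_lit 0) (XT.lf (nat_lit 152) (nat_lit 2266021853) (nat_lit 0) (nat_lit 11904925) (nat_lit 76) (nat_lit 11904925) (nat_lit 109) (nat_lit 1) (nat_lit 107) (nat_lit 1) (nat_lit 108) (nat_lit 1) (nat_lit 403) (nat_lit 382) (nat_lit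 235)) (XT.nd (nat_lit 78) (nat_lit 76) (nat_lit 0) (XT.lf (nat_lit 0) (nat_lit 739603487) (nat_lit 0) (nat_lit 773077653) (nat_lit 152) (nat_lit 739603487) (nat_lit 107) (nat_lit 3) (nat_lit 107) (nat_lit 1) (nat_lit 109) (nat_lit 1) (nat_lit 404) (nat_lit 382) (nat_lit 234)) (XT.lf (nat_lit 76) (nat_lit 717390477) (nat_lit 0) (nat_lit 749270635) (nat_lit 76) (nat_lit 749270635) (nat_lit 107) (nat_lit 3) (nat_lit 106) (nat_lit 1) (nat_lit 107) (nat_lit 1) (nat_lit 405) (nat_lit 382) (nat_lit 233)))) (XT.nd (nat_lit 78) (nat_lit 76) (nat_lit 0) (XT.lf (nat_lit 152) (nat_lit 2161130161) (nat_lit 0) (nat_lit 9794211) (nat_lit 76) (nat_lit 9794211) (nat_lit 106) (nat_lit 1) (nat_lit 104) (nat_lit 1) (nat_lit 105) (nat_lit 1) (nat_lit 406) (nat_lit 382) (nat_lit 232)) (XT.nd (nat_lit 78) (nat_lit 76) (nat_lit 0) (XT.lf (nat_lit 0) (nat_lit 705807512) (nat_lit 0) (nat_lit 733346792) (nat_lit 152) (nat_lit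 705807512) (nat_lit 104) (nat_lit 3) (nat_lit 104) (nat_lit 1) (nat_lit 106) (nat_lit 1) (nat_lit 407) (nat_lit 382) (nat_lit 231)) (XT.lf (nat_lit 76) (nat_lit 685962912) (nat_lit 0) (nat_lit 712190797) (nat_lit 76) (nat_lit 712190797) (nat_lit 104) (nat_lit 3) (nat_lit 103) (nat_lit 1) (nat_lit 104) (nat_lit 1) (nat_lit 408) (nat_lit 382) (nat_lit 230))))) (XT.nd (nat_lit 234) (nat_lit 380) (nat_lit 0) (XT.nd (nat_lit 78) (nat_lit 76) (nat_lit 0) (XT.lf (nat_lit 152) (nat_lit 2060698917) (nat_lit 0) (nat_lit 8057721) (nat_lit 76) (nat_lit 8057721) (nat_lit 103) (nat_lit 1) (nat_lit 101) (nat_lit 1) (nat_lit 102) (nat_lit 1) (nat_lit 409) (nat_lit 382) (nat_lit 229)) (XT.nd (nat_lit 78) (nat_lit 76) (nat_lit 0) (XT.lf (nat_lit 0) (nat_lit 673368533) (nat_lit 0) (nat_lit 696025166) (nat_lit 152) (nat_lit 673368533) (nat_lit 101) (nat_lit 3) (nat_lit 101) (nat_lit 1) (nat_lit 103) (nat_lit 1) (nat_lit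 410) (nat_lit 382) (nat_lit 228)) (XT.lf (nat_lit 76) (nat_lit 655547187) (nat_lit 0) (nat_lit 677124933) (nat_lit 76) (nat_lit 677124933) (nat_lit 101) (nat_lit 3) (nat_lit 100) (nat_lit 1) (nat_lit 101) (nat_lit 1) (nat_lit 411) (nat_lit 382) (nat_lit 227)))) (XT.nd (nat_lit 156) (nat_lit 228) (nat_lit 0) (XT.nd (nat_lit 78) (nat_lit 0) (nat_lit 0) (XT.lf (nat_lit 152) (nat_lit 1964610466) (nat_lit 0) (nat_lit 6629107) (nat_lit 76) (nat_lit 6629107) (nat_lit 100) (nat_lit 1) (nat_lit 98) (nat_lit 1) (nat_lit 99) (nat_lit 1) (nat_lit 412) (nat_lit 382) (nat_lit 226)) (XT.lf (nat_lit 0) (nat_lit 642266669) (nat_lit 0) (nat_lit 660906337) (nat_lit 152) (nat_lit 642266669) (nat_lit 98) (nat_lit 3) (nat_lit 98) (nat_lit 1) (nat_lit 100) (nat_lit 1) (nat_lit 413) (nat_lit 382) (nat_lit 225))) (XT.nd (nat_lit 78) (nat_lit 152) (nat_lit 0) (XT.lf (nat_lit 76) (nat_lit 626181057) (nat_lit 0) (nat_lit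 643933121) (nat_lit 76) (nat_lit 643933121) (nat_lit 98) (nat_lit 3) (nat_lit 97) (nat_lit 1) (nat_lit 98) (nat_lit 1) (nat_lit 414) (nat_lit 382) (nat_lit 224)) (XT.lf (nat_lit 152) (nat_lit 1872735956) (nat_lit 0) (nat_lit 5453783) (nat_lit 76) (nat_lit 5453783) (nat_lit 97) (nat_lit 1) (nat_lit 95) (nat_lit 1) (nat_lit 96) (nat_lit 1) (nat_lit 415) (nat_lit 382) (nat_lit 223))))))))
noncomputable def ec184 : XT := (XT.nd (nat_lit 1950) (nat_lit 532) (nat_lit 0) (XT.nd (nat_lit 936) (nat_lit 912) (nat_lit 0) (XT.nd (nat_lit 468) (nat_lit 456) (nat_lit 0) (XT.nd (nat_lit 234) (nat_lit 228) (nat_lit 0) (XT.nd (nat_lit 78) (nat_lit 228) (nat_lit 0) (XT.lf (nat_lit 0) (nat_lit 612475055) (nat_lit 0) (nat_lit 627809956) (nat_lit 152) (nat_lit 612475055) (nat_lit 95) (nat_lit 3) (nat_lit 95) (nat_lit 1) (nat_lit 97) (nat_lit 1) (nat_lit 416) (nat_lit 382) (nat_lit 222)) (XT.nd (nat_lit 78) (nat_lit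 152) (nat_lit 0) (XT.lf (nat_lit 76) (nat_lit 597885241) (nat_lit 0) (nat_lit 612489909) (nat_lit 76) (nat_lit 612489909) (nat_lit 95) (nat_lit 3) (nat_lit 94) (nat_lit 1) (nat_lit 95) (nat_lit 1) (nat_lit 417) (nat_lit 382) (nat_lit 221)) (XT.lf (nat_lit 152) (nat_lit 1784938852) (nat_lit 0) (nat_lit 4486841) (nat_lit 76) (nat_lit 4486841) (nat_lit 94) (nat_lit 1) (nat_lit 92) (nat_lit 1) (nat_lit 93) (nat_lit 1) (nat_lit 418) (nat_lit 382) (nat_lit 220)))) (XT.nd (nat_lit 78) (nat_lit 228) (nat_lit 0) (XT.lf (nat_lit 0) (nat_lit 583961578) (nat_lit 0) (nat_lit 596577639) (nat_lit 152) (nat_lit 583961578) (nat_lit 92) (nat_lit 3) (nat_lit 92) (nat_lit 1) (nat_lit 94) (nat_lit 1) (nat_lit 419) (nat_lit 382) (nat_lit 219)) (XT.nd (nat_lit 78) (nat_lit 152) (nat_lit 0) (XT.lf (nat_lit 76) (nat_lit 570666941) (nat_lit 0) (nat_lit 582682237) (nat_lit 76) (nat_lit 582682237) (nat_lit 92) (nat_lit 3)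 (nat_lit 91) (nat_lit 1) (nat_lit 92) (nat_lit 1) (nat_lit 420) (nat_lit 382) (nat_lit 218)) (XT.lf (nat_lit 152) (nat_lit 1701077750) (nat_lit 0) (nat_lit 3691335) (nat_lit 76) (nat_lit 3691335) (nat_lit 91) (nat_lit 1) (nat_lit 89) (nat_lit 1) (nat_lit 90) (nat_lit 1) (nat_lit 421) (nat_lit 382) (nat_lit 217))))) (XT.nd (nat_lit 234) (nat_lit 228) (nat_lit 0) (XT.nd (nat_lit 78) (nat_lit 228) (nat_lit 0) (XT.lf (nat_lit 0) (nat_lit 556690287) (nat_lit 0) (nat_lit 567069552) (nat_lit 152) (nat_lit 556690287) (nat_lit 89) (nat_lit 3) (nat_lit 89) (nat_lit 1) (nat_lit 91) (nat_lit 1) (nat_lit 422) (nat_lit 382) (nat_lit 216)) (XT.nd (nat_lit 78) (nat_lit 152) (nat_lit 0) (XT.lf (nat_lit 76) (nat_lit 544522698) (nat_lit 0) (nat_lit 554407712) (nat_lit 76) (nat_lit 554407712) (nat_lit 89) (nat_lit 3) (nat_lit 88) (nat_lit 1) (nat_lit 89) (nat_lit 1) (nat_lit 423) (nat_lit 382) (nat_lit 215)) (XT.lf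 (nat_lit 152) (nat_lit 1621008626) (nat_lit 0) (nat_lit 3036870) (nat_lit 76) (nat_lit 3036870) (nat_lit 88) (nat_lit 1) (nat_lit 86) (nat_lit 1) (nat_lit 87) (nat_lit 1) (nat_lit 424) (nat_lit 382) (nat_lit 214)))) (XT.nd (nat_lit 78) (nat_lit 228) (nat_lit 0) (XT.lf (nat_lit 0) (nat_lit 530622527) (nat_lit 0) (nat_lit 539161574) (nat_lit 152) (nat_lit 530622527) (nat_lit 86) (nat_lit 3) (nat_lit 86) (nat_lit 1) (nat_lit 88) (nat_lit 1) (nat_lit 425) (nat_lit 382) (nat_lit 213)) (XT.nd (nat_lit 78) (nat_lit 152) (nat_lit 0) (XT.lf (nat_lit 76) (nat_lit 519440736) (nat_lit 0) (nat_lit 527573161) (nat_lit 76) (nat_lit 527573161) (nat_lit 86) (nat_lit 3) (nat_lit 85) (nat_lit 1) (nat_lit 86) (nat_lit 1) (nat_lit 426) (nat_lit 382) (nat_lit 212)) (XT.lf (nat_lit 152) (nat_lit 1544586620) (nat_lit 0) (nat_lit 2498441) (nat_lit 76) (nat_lit 2498441) (nat_lit 85) (nat_lit 1) (nat_lit 83) (nat_lit 1)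 (nat_lit 84) (nat_lit 1) (nat_lit 427) (nat_lit 382) (nat_lit 211)))))) (XT.nd (nat_lit 468) (nat_lit 456) (nat_lit 0) (XT.nd (nat_lit 234) (nat_lit 228) (nat_lit 0) (XT.nd (nat_lit 78) (nat_lit 228) (nat_lit 0) (XT.lf (nat_lit 0) (nat_lit 505717847) (nat_lit 0) (nat_lit 512742942) (nat_lit 152) (nat_lit 505717847) (nat_lit 83) (nat_lit 3) (nat_lit 83) (nat_lit 1) (nat_lit 85) (nat_lit 1) (nat_lit 428) (nat_lit 382) (nat_lit 210)) (XT.nd (nat_lit 78) (nat_lit 152) (nat_lit 0) (XT.lf (nat_lit 76) (nat_lit 495402860) (nat_lit 0) (nat_lit 502093427) (nat_lit 76) (nat_lit 502093427) (nat_lit 83) (nat_lit 3) (nat_lit 82) (nat_lit 1) (nat_lit 83) (nat_lit 1) (nat_lit 429) (nat_lit 382) (nat_lit 209)) (XT.lf (nat_lit 152) (nat_lit 1471667436) (nat_lit 0) (nat_lit 2055473) (nat_lit 76) (nat_lit 2055473) (nat_lit 82) (nat_lit 1) (nat_lit 80) (nat_lit 1) (nat_lit 81) (nat_lit 1) (nat_lit 430) (nat_lit 382)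 (nat_lit 208)))) (XT.nd (nat_lit 78) (nat_lit 228) (nat_lit 0) (XT.lf (nat_lit 0) (nat_lit 481934734) (nat_lit 0) (nat_lit 487714297) (nat_lit 152) (nat_lit 481934734) (nat_lit 80) (nat_lit 3) (nat_lit 80) (nat_lit 1) (nat_lit 82) (nat_lit 1) (nat_lit 431) (nat_lit 382) (nat_lit 207)) (XT.nd (nat_lit 78) (nat_lit 152) (nat_lit 0) (XT.lf (nat_lit 76) (nat_lit 472385998) (nat_lit 0) (nat_lit 477890344) (nat_lit 76) (nat_lit 477890344) (nat_lit 80) (nat_lit 3) (nat_lit 79) (nat_lit 1) (nat_lit 80) (nat_lit 1) (nat_lit 432) (nat_lit 382) (nat_lit 206)) (XT.lf (nat_lit 152) (nat_lit 1402108442) (nat_lit 0) (nat_lit 1691043) (nat_lit 76) (nat_lit 1691043) (nat_lit 79) (nat_lit 1) (nat_lit 77) (nat_lit 1) (nat_lit 78) (nat_lit 1) (nat_lit 433) (nat_lit 382) (nat_lit 205))))) (XT.nd (nat_lit 234) (nat_lit 228) (nat_lit 0) (XT.nd (nat_lit 78) (nat_lit 228) (nat_lit 0) (XT.lf (nat_lit 0) (nat_lit 459231194)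 (nat_lit 0) (nat_lit 463986055) (nat_lit 152) (nat_lit 459231194) (nat_lit 77) (nat_lit 3) (nat_lit 77) (nat_lit 1) (nat_lit 79) (nat_lit 1) (nat_lit 434) (nat_lit 382) (nat_lit 204)) (XT.nd (nat_lit 78) (nat_lit 152) (nat_lit 0) (XT.lf (nat_lit 76) (nat_lit 450363452) (nat_lit 0) (nat_lit 454891891) (nat_lit 76) (nat_lit 454891891) (nat_lit 77) (nat_lit 3) (nat_lit 76) (nat_lit 1) (nat_lit 77) (nat_lit 1) (nat_lit 435) (nat_lit 382) (nat_lit 203)) (XT.lf (nat_lit 152) (nat_lit 1335769515) (nat_lit 0) (nat_lit 1391225) (nat_lit 76) (nat_lit 1391225) (nat_lit 76) (nat_lit 1) (nat_lit 74) (nat_lit 1) (nat_lit 75) (nat_lit 1) (nat_lit 436) (nat_lit 382) (nat_lit 202)))) (XT.nd (nat_lit 156) (nat_lit 152) (nat_lit 0) (XT.nd (nat_lit 78) (nat_lit 76) (nat_lit 0) (XT.lf (nat_lit 0) (nat_lit 437565207) (nat_lit 0) (nat_lit 441477042) (nat_lit 152) (nat_lit 437565207) (nat_lit 74) (nat_lit 3) (nat_lit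 74) (nat_lit 1) (nat_lit 76) (nat_lit 1) (nat_lit 437) (nat_lit 382) (nat_lit 201)) (XT.lf (nat_lit 76) (nat_lit 429305910) (nat_lit 0) (nat_lit 433031468) (nat_lit 76) (nat_lit 433031468) (nat_lit 74) (nat_lit 3) (nat_lit 73) (nat_lit 1) (nat_lit 74) (nat_lit 1) (nat_lit 438) (nat_lit 382) (nat_lit 200))) (XT.nd (nat_lit 78) (nat_lit 0) (nat_lit 0) (XT.lf (nat_lit 152) (nat_lit 1272513676) (nat_lit 0) (nat_lit 1144564) (nat_lit 76) (nat_lit 1144564) (nat_lit 73) (nat_lit 1) (nat_lit 71) (nat_lit 1) (nat_lit 72) (nat_lit 1) (nat_lit 439) (nat_lit 382) (nat_lit 199)) (XT.lf (nat_lit 0) (nat_lit 416895090) (nat_lit 0) (nat_lit 420113367) (nat_lit 152) (nat_lit 416895090) (nat_lit 71) (nat_lit 3) (nat_lit 71) (nat_lit 1) (nat_lit 73) (nat_lit 1) (nat_lit 440) (nat_lit 382) (nat_lit 198))))))) (XT.nd (nat_lit 38922) (nat_lit 0) (nat_lit 15656) (XT.nd (nat_lit 468) (nat_lit 76) (nat_lit 0) (XT.nd (nat_lit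 234) (nat_lit 228) (nat_lit 0) (XT.nd (nat_lit 78) (nat_lit 152) (nat_lit 0) (XT.lf (nat_lit 76) (nat_lit 409182258) (nat_lit 0) (nat_lit 412247283) (nat_lit 76) (nat_lit 412247283) (nat_lit 71) (nat_lit 3) (nat_lit 70) (nat_lit 1) (nat_lit 71) (nat_lit 1) (nat_lit 441) (nat_lit 382) (nat_lit 197)) (XT.nd (nat_lit 78) (nat_lit 0) (nat_lit 0) (XT.lf (nat_lit 152) (nat_lit 1212207569) (nat_lit 0) (nat_lit 941636) (nat_lit 76) (nat_lit 941636) (nat_lit 70) (nat_lit 1) (nat_lit 68) (nat_lit 1) (nat_lit 69) (nat_lit 1) (nat_lit 442) (nat_lit 382) (nat_lit 196)) (XT.lf (nat_lit 0) (nat_lit 397179776) (nat_lit 0) (nat_lit 399827460) (nat_lit 152) (nat_lit 397179776) (nat_lit 68) (nat_lit 3) (nat_lit 68) (nat_lit 1) (nat_lit 70) (nat_lit 1) (nat_lit 443) (nat_lit 382) (nat_lit 195)))) (XT.nd (nat_lit 78) (nat_lit 152) (nat_lit 0) (XT.lf (nat_lit 76) (nat_lit 389960230) (nat_lit 0) (nat_lit 392481834) (nat_lit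 76) (nat_lit 392481834) (nat_lit 68) (nat_lit 3) (nat_lit 67) (nat_lit 1) (nat_lit 68) (nat_lit 1) (nat_lit 444) (nat_lit 382) (nat_lit 194)) (XT.nd (nat_lit 78) (nat_lit 0) (nat_lit 0) (XT.lf (nat_lit 152) (nat_lit 1154721805) (nat_lit 0) (nat_lit 774686) (nat_lit 76) (nat_lit 774686) (nat_lit 67) (nat_lit 1) (nat_lit 65) (nat_lit 1) (nat_lit 66) (nat_lit 1) (nat_lit 445) (nat_lit 382) (nat_lit 193)) (XT.lf (nat_lit 0) (nat_lit 378379026) (nat_lit 0) (nat_lit 380557283) (nat_lit 152) (nat_lit 378379026) (nat_lit 65) (nat_lit 3) (nat_lit 65) (nat_lit 1) (nat_lit 67) (nat_lit 1) (nat_lit 446) (nat_lit 382) (nat_lit 192))))) (XT.nd (nat_lit 38220) (nat_lit 0) (nat_lit 17404) (XT.nd (nat_lit 38064) (nat_lit 0) (nat_lit 17328) (XT.lf (nat_lit 76) (nat_lit 371606935) (nat_lit 0) (nat_lit 373681465) (nat_lit 76) (nat_lit 373681465) (nat_lit 65) (nat_lit 3) (nat_lit 64) (nat_lit 1) (nat_lit 65) (nat_lit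 1) (nat_lit 447) (nat_lit 382) (nat_lit 191)) (XT.nd (nat_lit 78) (nat_lit 0) (nat_lit 0) (XT.lf (nat_lit 836) (nat_lit 4379147151) (nat_lit 0) (nat_lit 7775165702) (nat_lit 836) (nat_lit 4379147151) (nat_lit 303) (nat_lit 1) (nat_lit 292) (nat_lit 0) (nat_lit 303) (nat_lit 0) (nat_lit 254) (nat_lit 383) (nat_lit 383)) (XT.lf (nat_lit 836) (nat_lit 16974121075) (nat_lit 76) (nat_lit 7649759803) (nat_lit 0) (nat_lit 7649759803) (nat_lit 303) (nat_lit 1) (nat_lit 293) (nat_lit 1) (nat_lit 292) (nat_lit 0) (nat_lit 255) (nat_lit 383) (nat_lit 382)))) (XT.nd (nat_lit 78) (nat_lit 0) (nat_lit 0) (XT.lf (nat_lit 836) (nat_lit 8089610525) (nat_lit 0) (nat_lit 15325664829) (nat_lit 760) (nat_lit 8089610525) (nat_lit 304) (nat_lit 1) (nat_lit 293) (nat_lit 1) (nat_lit 303) (nat_lit 1) (nat_lit 256) (nat_lit 383) (nat_lit 381)) (XT.nd (nat_lit 78) (nat_lit 0) (nat_lit 76) (XT.lf (nat_lit 836) (nat_lit 15174985266)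 (nat_lit 76) (nat_lit 7792991159) (nat_lit 0) (nat_lit 7792991159) (nat_lit 304) (nat_lit 1) (nat_lit 294) (nat_lit 1) (nat_lit 293) (nat_lit 1) (nat_lit 257) (nat_lit 383) (nat_lit 380)) (XT.lf (nat_lit 836) (nat_lit 6984899991) (nat_lit 0) (nat_lit 16070827786) (nat_lit 760) (nat_lit 6984899991) (nat_lit 305) (nat_lit 1) (nat_lit 294) (nat_lit 1) (nat_lit 304) (nat_lit 1) (nat_lit 258) (nat_lit 383) (nat_lit 379)))))) (XT.nd (nat_lit 468) (nat_lit 1824) (nat_lit 0) (XT.nd (nat_lit 234) (nat_lit 0) (nat_lit 152) (XT.nd (nat_lit 78) (nat_lit 0) (nat_lit 76) (XT.lf (nat_lit 836) (nat_lit 12562797574) (nat_lit 76) (nat_lit 8389724544) (nat_lit 0) (nat_lit 8389724544) (nat_lit 305) (nat_lit 1) (nat_lit 295) (nat_lit 1) (nat_lit 294) (nat_lit 1) (nat_lit 259) (nat_lit 383) (nat_lit 378)) (XT.nd (nat_lit 78) (nat_lit 0) (nat_lit 0) (XT.lf (nat_lit 836) (nat_lit 5508423890) (nat_lit 0) (nat_lit 17650466995)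 (nat_lit 760) (nat_lit 5508423890) (nat_lit 306) (nat_lit 1) (nat_lit 295) (nat_lit 1) (nat_lit 305) (nat_lit 1) (nat_lit 260) (nat_lit 383) (nat_lit 377)) (XT.lf (nat_lit 836) (nat_lit 9259829691) (nat_lit 76) (nat_lit 9375568192) (nat_lit 0) (nat_lit 9375568192) (nat_lit 306) (nat_lit 1) (nat_lit 296) (nat_lit 1) (nat_lit 295) (nat_lit 1) (nat_lit 261) (nat_lit 383) (nat_lit 376)))) (XT.nd (nat_lit 78) (nat_lit 0) (nat_lit 0) (XT.lf (nat_lit 836) (nat_lit 3717339321) (nat_lit 0) (nat_lit 19943964838) (nat_lit 760) (nat_lit 3717339321) (nat_lit 307) (nat_lit 1) (nat_lit 296) (nat_lit 1) (nat_lit 306) (nat_lit 1) (nat_lit 262) (nat_lit 383) (nat_lit 375)) (XT.nd (nat_lit 78) (nat_lit 0) (nat_lit 76) (XT.lf (nat_lit 836) (nat_lit 5374762697) (nat_lit 76) (nat_lit 10693175421) (nat_lit 0) (nat_lit 10693175421) (nat_lit 307) (nat_lit 1) (nat_lit 297) (nat_lit 1) (nat_lit 296) (nat_lit 1) (nat_lit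 263) (nat_lit 383) (nat_lit 374)) (XT.lf (nat_lit 76) (nat_lit 1662413562) (nat_lit 0) (nat_lit 22843966909) (nat_lit 760) (nat_lit 1662413562) (nat_lit 298) (nat_lit 1) (nat_lit 297) (nat_lit 1) (nat_lit 307) (nat_lit 1) (nat_lit 264) (nat_lit 383) (nat_lit 373))))) (XT.nd (nat_lit 234) (nat_lit 760) (nat_lit 0) (XT.nd (nat_lit 78) (nat_lit 532) (nat_lit 0) (XT.lf (nat_lit 836) (nat_lit 1004056450) (nat_lit 0) (nat_lit 12291539238) (nat_lit 760) (nat_lit 12291539238) (nat_lit 298) (nat_lit 1) (nat_lit 287) (nat_lit 1) (nat_lit 297) (nat_lit 1) (nat_lit 265) (nat_lit 383) (nat_lit 372)) (XT.nd (nat_lit 78) (nat_lit 0) (nat_lit 0) (XT.lf (nat_lit 532) (nat_lit 23827524054) (nat_lit 0) (nat_lit 601470465) (nat_lit 456) (nat_lit 601470465) (nat_lit 287) (nat_lit 1) (nat_lit 280) (nat_lit 1) (nat_lit 286) (nat_lit 1) (nat_lit 266) (nat_lit 383) (nat_lit 371)) (XT.lf (nat_lit 76) (nat_lit 10417352046)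 (nat_lit 0) (nat_lit 3646251840) (nat_lit 532) (nat_lit 10417352046) (nat_lit 281) (nat_lit 1) (nat_lit 280) (nat_lit 1) (nat_lit 287) (nat_lit 1) (nat_lit 267) (nat_lit 383) (nat_lit 370)))) (XT.nd (nat_lit 156) (nat_lit 380) (nat_lit 0) (XT.nd (nat_lit 78) (nat_lit 0) (nat_lit 0) (XT.lf (nat_lit 456) (nat_lit 17925588853) (nat_lit 0) (nat_lit 3014612312) (nat_lit 380) (nat_lit 3014612312) (nat_lit 281) (nat_lit 1) (nat_lit 275) (nat_lit 1) (nat_lit 280) (nat_lit 1) (nat_lit 268) (nat_lit 383) (nat_lit 369)) (XT.lf (nat_lit 76) (nat_lit 7430570399) (nat_lit 0) (nat_lit 8578591191) (nat_lit 456) (nat_lit 7430570399) (nat_lit 276) (nat_lit 1) (nat_lit 275) (nat_lit 1) (nat_lit 281) (nat_lit 1) (nat_lit 269) (nat_lit 383) (nat_lit 368))) (XT.nd (nat_lit 78) (nat_lit 0) (nat_lit 0) (XT.lf (nat_lit 456) (nat_lit 11804254468) (nat_lit 0) (nat_lit 5569167472) (nat_lit 380) (nat_lit 5569167472) (nat_lit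 276) (nat_lit 1) (nat_lit 270) (nat_lit 1) (nat_lit 275) (nat_lit 1) (nat_lit 270) (nat_lit 383) (nat_lit 367)) (XT.lf (nat_lit 76) (nat_lit 4349710892) (nat_lit 0) (nat_lit 13760483632) (nat_lit 456) (nat_lit 4349710892) (nat_lit 271) (nat_lit 1) (nat_lit 270) (nat_lit 1) (nat_lit 276) (nat_lit 1) (nat_lit 271) (nat_lit 383) (nat_lit 366))))))))
noncomputable def ec185 : XT := (XT.nd (nat_lit 1950) (nat_lit 2508) (nat_lit 0) (XT.nd (nat_lit 936) (nat_lit 1748) (nat_lit 0) (XT.nd (nat_lit 468) (nat_lit 836) (nat_lit 0) (XT.nd (nat_lit 234) (nat_lit 608) (nat_lit 0) (XT.nd (nat_lit 78) (nat_lit 380) (nat_lit 0) (XT.lf (nat_lit 380) (nat_lit 5520494992) (nat_lit 0) (nat_lit 8234571326) (nat_lit 304) (nat_lit 8234571326) (nat_lit 271) (nat_lit 1) (nat_lit 266) (nat_lit 1) (nat_lit 270) (nat_lit 1) (nat_lit 272) (nat_lit 383) (nat_lit 365)) (XT.nd (nat_lit 78) (nat_lit 380) (nat_lit 0) (XT.lf (nat_lit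 76) (nat_lit 1201222874) (nat_lit 0) (nat_lit 19135008309) (nat_lit 380) (nat_lit 1201222874) (nat_lit 267) (nat_lit 1) (nat_lit 266) (nat_lit 1) (nat_lit 271) (nat_lit 1) (nat_lit 273) (nat_lit 383) (nat_lit 364)) (XT.lf (nat_lit 76) (nat_lit 10121849110) (nat_lit 0) (nat_lit 847724524) (nat_lit 380) (nat_lit 10121849110) (nat_lit 262) (nat_lit 1) (nat_lit 261) (nat_lit 1) (nat_lit 266) (nat_lit 1) (nat_lit 274) (nat_lit 383) (nat_lit 363)))) (XT.nd (nat_lit 78) (nat_lit 304) (nat_lit 0) (XT.lf (nat_lit 380) (nat_lit 16743134661) (nat_lit 0) (nat_lit 1959621369) (nat_lit 304) (nat_lit 1959621369) (nat_lit 262) (nat_lit 1) (nat_lit 257) (nat_lit 1) (nat_lit 261) (nat_lit 1) (nat_lit 275) (nat_lit 383) (nat_lit 362)) (XT.nd (nat_lit 78) (nat_lit 304) (nat_lit 0) (XT.lf (nat_lit 76) (nat_lit 6567393493) (nat_lit 0) (nat_lit 7105905435) (nat_lit 380) (nat_lit 6567393493) (nat_lit 258) (nat_lit 1)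 (nat_lit 257) (nat_lit 1) (nat_lit 262) (nat_lit 1) (nat_lit 276) (nat_lit 383) (nat_lit 361)) (XT.lf (nat_lit 380) (nat_lit 9583654013) (nat_lit 0) (nat_lit 5124987991) (nat_lit 304) (nat_lit 5124987991) (nat_lit 258) (nat_lit 1) (nat_lit 253) (nat_lit 1) (nat_lit 257) (nat_lit 1) (nat_lit 277) (nat_lit 383) (nat_lit 360))))) (XT.nd (nat_lit 234) (nat_lit 228) (nat_lit 0) (XT.nd (nat_lit 78) (nat_lit 608) (nat_lit 0) (XT.lf (nat_lit 76) (nat_lit 3022256764) (nat_lit 0) (nat_lit 13393956582) (nat_lit 380) (nat_lit 3022256764) (nat_lit 254) (nat_lit 1) (nat_lit 253) (nat_lit 1) (nat_lit 258) (nat_lit 1) (nat_lit 278) (nat_lit 383) (nat_lit 359)) (XT.nd (nat_lit 78) (nat_lit 380) (nat_lit 0) (XT.lf (nat_lit 304) (nat_lit 2457871985) (nat_lit 0) (nat_lit 8296984080) (nat_lit 228) (nat_lit 8296984080) (nat_lit 254) (nat_lit 1) (nat_lit 250) (nat_lit 1) (nat_lit 253) (nat_lit 1) (nat_lit 279) (nat_lit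 383) (nat_lit 358)) (XT.lf (nat_lit 380) (nat_lit 17697961685) (nat_lit 0) (nat_lit 491084478) (nat_lit 304) (nat_lit 491084478) (nat_lit 250) (nat_lit 1) (nat_lit 245) (nat_lit 1) (nat_lit 249) (nat_lit 1) (nat_lit 280) (nat_lit 383) (nat_lit 357)))) (XT.nd (nat_lit 78) (nat_lit 228) (nat_lit 0) (XT.lf (nat_lit 76) (nat_lit 6925343246) (nat_lit 0) (nat_lit 4459792011) (nat_lit 380) (nat_lit 6925343246) (nat_lit 246) (nat_lit 1) (nat_lit 245) (nat_lit 1) (nat_lit 250) (nat_lit 1) (nat_lit 281) (nat_lit 383) (nat_lit 356)) (XT.nd (nat_lit 78) (nat_lit 0) (nat_lit 0) (XT.lf (nat_lit 304) (nat_lit 10114682751) (nat_lit 0) (nat_lit 3920160379) (nat_lit 228) (nat_lit 3920160379) (nat_lit 246) (nat_lit 1) (nat_lit 242) (nat_lit 1) (nat_lit 245) (nat_lit 1) (nat_lit 282) (nat_lit 383) (nat_lit 355)) (XT.lf (nat_lit 76) (nat_lit 3195384739) (nat_lit 0) (nat_lit 11217790490) (nat_lit 304) (nat_lit 3195384739)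 (nat_lit 243) (nat_lit 1) (nat_lit 242) (nat_lit 1) (nat_lit 246) (nat_lit 1) (nat_lit 283) (nat_lit 383) (nat_lit 354)))))) (XT.nd (nat_lit 468) (nat_lit 836) (nat_lit 0) (XT.nd (nat_lit 234) (nat_lit 380) (nat_lit 0) (XT.nd (nat_lit 78) (nat_lit 304) (nat_lit 0) (XT.lf (nat_lit 304) (nat_lit 2663253304) (nat_lit 0) (nat_lit 7303372310) (nat_lit 228) (nat_lit 7303372310) (nat_lit 243) (nat_lit 1) (nat_lit 239) (nat_lit 1) (nat_lit 242) (nat_lit 1) (nat_lit 284) (nat_lit 383) (nat_lit 353)) (XT.nd (nat_lit 78) (nat_lit 0) (nat_lit 0) (XT.lf (nat_lit 304) (nat_lit 16028598707) (nat_lit 0) (nat_lit 457707591) (nat_lit 228) (nat_lit 457707591) (nat_lit 239) (nat_lit 1) (nat_lit 235) (nat_lit 1) (nat_lit 238) (nat_lit 1) (nat_lit 285) (nat_lit 383) (nat_lit 352)) (XT.lf (nat_lit 76) (nat_lit 6063159861) (nat_lit 0) (nat_lit 4492740576) (nat_lit 304) (nat_lit 6063159861) (nat_lit 236) (nat_lit 1) (nat_lit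 235) (nat_lit 1) (nat_lit 239) (nat_lit 1) (nat_lit 286) (nat_lit 383) (nat_lit 351)))) (XT.nd (nat_lit 78) (nat_lit 152) (nat_lit 0) (XT.lf (nat_lit 304) (nat_lit 8337399987) (nat_lit 0) (nat_lit 3984365026) (nat_lit 228) (nat_lit 3984365026) (nat_lit 236) (nat_lit 1) (nat_lit 232) (nat_lit 1) (nat_lit 235) (nat_lit 1) (nat_lit 287) (nat_lit 383) (nat_lit 350)) (XT.nd (nat_lit 78) (nat_lit 152) (nat_lit 0) (XT.lf (nat_lit 76) (nat_lit 2296113156) (nat_lit 0) (nat_lit 11409366401) (nat_lit 304) (nat_lit 2296113156) (nat_lit 233) (nat_lit 1) (nat_lit 232) (nat_lit 1) (nat_lit 236) (nat_lit 1) (nat_lit 288) (nat_lit 383) (nat_lit 349)) (XT.lf (nat_lit 228) (nat_lit 841372204) (nat_lit 0) (nat_lit 7430711003) (nat_lit 152) (nat_lit 7430711003) (nat_lit 233) (nat_lit 1) (nat_lit 230) (nat_lit 1) (nat_lit 232) (nat_lit 1) (nat_lit 289) (nat_lit 383) (nat_lit 348))))) (XT.nd (nat_lit 234) (nat_lit 380)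 (nat_lit 0) (XT.nd (nat_lit 78) (nat_lit 152) (nat_lit 0) (XT.lf (nat_lit 304) (nat_lit 12712851891) (nat_lit 0) (nat_lit 1350197017) (nat_lit 228) (nat_lit 1350197017) (nat_lit 230) (nat_lit 1) (nat_lit 226) (nat_lit 1) (nat_lit 229) (nat_lit 1) (nat_lit 290) (nat_lit 383) (nat_lit 347)) (XT.nd (nat_lit 78) (nat_lit 152) (nat_lit 0) (XT.lf (nat_lit 76) (nat_lit 4440297398) (nat_lit 0) (nat_lit 6246341163) (nat_lit 304) (nat_lit 4440297398) (nat_lit 227) (nat_lit 1) (nat_lit 226) (nat_lit 1) (nat_lit 230) (nat_lit 1) (nat_lit 291) (nat_lit 383) (nat_lit 346)) (XT.lf (nat_lit 228) (nat_lit 5130078699) (nat_lit 0) (nat_lit 4859691803) (nat_lit 152) (nat_lit 4859691803) (nat_lit 227) (nat_lit 1) (nat_lit 224) (nat_lit 1) (nat_lit 226) (nat_lit 1) (nat_lit 292) (nat_lit 383) (nat_lit 345)))) (XT.nd (nat_lit 156) (nat_lit 152) (nat_lit 0) (XT.nd (nat_lit 78) (nat_lit 228) (nat_lit 0) (XT.lf (nat_lit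 76) (nat_lit 737029477) (nat_lit 0) (nat_lit 13107137981) (nat_lit 228) (nat_lit 737029477) (nat_lit 225) (nat_lit 1) (nat_lit 224) (nat_lit 1) (nat_lit 227) (nat_lit 1) (nat_lit 293) (nat_lit 383) (nat_lit 344)) (XT.lf (nat_lit 76) (nat_lit 6082833585) (nat_lit 0) (nat_lit 2148239561) (nat_lit 228) (nat_lit 6082833585) (nat_lit 222) (nat_lit 1) (nat_lit 221) (nat_lit 1) (nat_lit 224) (nat_lit 1) (nat_lit 294) (nat_lit 383) (nat_lit 343))) (XT.nd (nat_lit 78) (nat_lit 0) (nat_lit 0) (XT.lf (nat_lit 228) (nat_lit 8447080541) (nat_lit 0) (nat_lit 2804201874) (nat_lit 152) (nat_lit 2804201874) (nat_lit 222) (nat_lit 1) (nat_lit 219) (nat_lit 1) (nat_lit 221) (nat_lit 1) (nat_lit 295) (nat_lit 383) (nat_lit 342)) (XT.lf (nat_lit 76) (nat_lit 2383546367) (nat_lit 0) (nat_lit 9035680813) (nat_lit 228) (nat_lit 2383546367) (nat_lit 220) (nat_lit 1) (nat_lit 219) (nat_lit 1) (nat_lit 222) (nat_lit 1) (nat_lit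 296) (nat_lit 383) (nat_lit 341))))))) (XT.nd (nat_lit 1014) (nat_lit 1064) (nat_lit 0) (XT.nd (nat_lit 468) (nat_lit 760) (nat_lit 0) (XT.nd (nat_lit 234) (nat_lit 304) (nat_lit 0) (XT.nd (nat_lit 78) (nat_lit 228) (nat_lit 0) (XT.lf (nat_lit 228) (nat_lit 1116605657) (nat_lit 0) (nat_lit 6219275573) (nat_lit 152) (nat_lit 6219275573) (nat_lit 220) (nat_lit 1) (nat_lit 217) (nat_lit 1) (nat_lit 219) (nat_lit 1) (nat_lit 297) (nat_lit 383) (nat_lit 340)) (XT.nd (nat_lit 78) (nat_lit 0) (nat_lit 0) (XT.lf (nat_lit 228) (nat_lit 10974721779) (nat_lit 0) (nat_lit 1169996584) (nat_lit 152) (nat_lit 1169996584) (nat_lit 217) (nat_lit 1) (nat_lit 214) (nat_lit 1) (nat_lit 216) (nat_lit 1) (nat_lit 298) (nat_lit 383) (nat_lit 339)) (XT.lf (nat_lit 76) (nat_lit 3653511774) (nat_lit 0) (nat_lit 5769301688) (nat_lit 228) (nat_lit 3653511774) (nat_lit 215) (nat_lit 1) (nat_lit 214) (nat_lit 1) (nat_lit 217)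 (nat_lit 1) (nat_lit 299) (nat_lit 383) (nat_lit 338)))) (XT.nd (nat_lit 78) (nat_lit 152) (nat_lit 0) (XT.lf (nat_lit 228) (nat_lit 3720924362) (nat_lit 0) (nat_lit 4561965973) (nat_lit 152) (nat_lit 4561965973) (nat_lit 215) (nat_lit 1) (nat_lit 212) (nat_lit 1) (nat_lit 214) (nat_lit 1) (nat_lit 300) (nat_lit 383) (nat_lit 337)) (XT.nd (nat_lit 78) (nat_lit 152) (nat_lit 0) (XT.lf (nat_lit 76) (nat_lit 122296521) (nat_lit 0) (nat_lit 12376911964) (nat_lit 228) (nat_lit 122296521) (nat_lit 213) (nat_lit 1) (nat_lit 212) (nat_lit 1) (nat_lit 215) (nat_lit 1) (nat_lit 301) (nat_lit 383) (nat_lit 336)) (XT.lf (nat_lit 76) (nat_lit 4617717253) (nat_lit 0) (nat_lit 3161299464) (nat_lit 152) (nat_lit 4617717253) (nat_lit 211) (nat_lit 1) (nat_lit 210) (nat_lit 1) (nat_lit 212) (nat_lit 1) (nat_lit 302) (nat_lit 383) (nat_lit 335))))) (XT.nd (nat_lit 234) (nat_lit 456) (nat_lit 0) (XT.nd (nat_lit 78)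 (nat_lit 152) (nat_lit 0) (XT.lf (nat_lit 228) (nat_lit 5730061418) (nat_lit 0) (nat_lit 3224905046) (nat_lit 152) (nat_lit 3224905046) (nat_lit 211) (nat_lit 1) (nat_lit 208) (nat_lit 1) (nat_lit 210) (nat_lit 1) (nat_lit 303) (nat_lit 383) (nat_lit 334)) (XT.nd (nat_lit 78) (nat_lit 152) (nat_lit 0) (XT.lf (nat_lit 76) (nat_lit 1148837712) (nat_lit 0) (nat_lit 9671187293) (nat_lit 228) (nat_lit 1148837712) (nat_lit 209) (nat_lit 1) (nat_lit 208) (nat_lit 1) (nat_lit 211) (nat_lit 1) (nat_lit 304) (nat_lit 383) (nat_lit 333)) (XT.lf (nat_lit 76) (nat_lit 5334211293) (nat_lit 0) (nat_lit 1091171452) (nat_lit 152) (nat_lit 5334211293) (nat_lit 207) (nat_lit 1) (nat_lit 206) (nat_lit 1) (nat_lit 208) (nat_lit 1) (nat_lit 305) (nat_lit 383) (nat_lit 332)))) (XT.nd (nat_lit 156) (nat_lit 304) (nat_lit 0) (XT.nd (nat_lit 78) (nat_lit 0) (nat_lit 0) (XT.lf (nat_lit 228) (nat_lit 7255895460) (nat_lit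 0) (nat_lit 2150055790) (nat_lit 152) (nat_lit 2150055790) (nat_lit 207) (nat_lit 1) (nat_lit 204) (nat_lit 1) (nat_lit 206) (nat_lit 1) (nat_lit 306) (nat_lit 383) (nat_lit 331)) (XT.lf (nat_lit 76) (nat_lit 1943460259) (nat_lit 0) (nat_lit 7469529900) (nat_lit 228) (nat_lit 1943460259) (nat_lit 205) (nat_lit 1) (nat_lit 204) (nat_lit 1) (nat_lit 207) (nat_lit 1) (nat_lit 307) (nat_lit 383) (nat_lit 330))) (XT.nd (nat_lit 78) (nat_lit 228) (nat_lit 0) (XT.lf (nat_lit 152) (nat_lit 557896666) (nat_lit 0) (nat_lit 5301381430) (nat_lit 76) (nat_lit 5301381430) (nat_lit 205) (nat_lit 1) (nat_lit 203) (nat_lit 1) (nat_lit 204) (nat_lit 1) (nat_lit 308) (nat_lit 383) (nat_lit 329)) (XT.lf (nat_lit 228) (nat_lit 8390166723) (nat_lit 0) (nat_lit 1289730913) (nat_lit 152) (nat_lit 1289730913) (nat_lit 203) (nat_lit 1) (nat_lit 200) (nat_lit 1) (nat_lit 202) (nat_lit 1) (nat_lit 309) (nat_lit 383) (nat_lit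 328)))))) (XT.nd (nat_lit 468) (nat_lit 456) (nat_lit 0) (XT.nd (nat_lit 234) (nat_lit 304) (nat_lit 0) (XT.nd (nat_lit 78) (nat_lit 304) (nat_lit 0) (XT.lf (nat_lit 76) (nat_lit 2549659688) (nat_lit 0) (nat_lit 5681410430) (nat_lit 228) (nat_lit 2549659688) (nat_lit 201) (nat_lit 1) (nat_lit 200) (nat_lit 1) (nat_lit 203) (nat_lit 1) (nat_lit 310) (nat_lit 383) (nat_lit 327)) (XT.nd (nat_lit 78) (nat_lit 228) (nat_lit 0) (XT.lf (nat_lit 152) (nat_lit 1873543396) (nat_lit 0) (nat_lit 4361459622) (nat_lit 76) (nat_lit 4361459622) (nat_lit 201) (nat_lit 1) (nat_lit 199) (nat_lit 1) (nat_lit 200) (nat_lit 1) (nat_lit 311) (nat_lit 383) (nat_lit 326)) (XT.lf (nat_lit 228) (nat_lit 9208061947) (nat_lit 0) (nat_lit 604754998) (nat_lit 152) (nat_lit 604754998) (nat_lit 199) (nat_lit 1) (nat_lit 196) (nat_lit 1) (nat_lit 198) (nat_lit 1) (nat_lit 312) (nat_lit 383) (nat_lit 325)))) (XT.nd (nat_lit 78)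 (nat_lit 304) (nat_lit 0) (XT.lf (nat_lit 76) (nat_lit 3003106691) (nat_lit 0) (nat_lit 4232405369) (nat_lit 228) (nat_lit 3003106691) (nat_lit 197) (nat_lit 1) (nat_lit 196) (nat_lit 1) (nat_lit 199) (nat_lit 1) (nat_lit 313) (nat_lit 383) (nat_lit 324)) (XT.nd (nat_lit 78) (nat_lit 228) (nat_lit 0) (XT.lf (nat_lit 152) (nat_lit 2888569196) (nat_lit 0) (nat_lit 3588183625) (nat_lit 76) (nat_lit 3588183625) (nat_lit 197) (nat_lit 1) (nat_lit 195) (nat_lit 1) (nat_lit 196) (nat_lit 1) (nat_lit 314) (nat_lit 383) (nat_lit 323)) (XT.lf (nat_lit 228) (nat_lit 9771162990) (nat_lit 0) (nat_lit 62952657) (nat_lit 152) (nat_lit 62952657) (nat_lit 195) (nat_lit 1) (nat_lit 192) (nat_lit 1) (nat_lit 194) (nat_lit 1) (nat_lit 315) (nat_lit 383) (nat_lit 322))))) (XT.nd (nat_lit 234) (nat_lit 380) (nat_lit 0) (XT.nd (nat_lit 78) (nat_lit 76) (nat_lit 0) (XT.lf (nat_lit 76) (nat_lit 3333039837) (nat_lit 0)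 (nat_lit 3061338894) (nat_lit 228) (nat_lit 3333039837) (nat_lit 193) (nat_lit 1) (nat_lit 192) (nat_lit 1) (nat_lit 195) (nat_lit 1) (nat_lit 316) (nat_lit 383) (nat_lit 321)) (XT.nd (nat_lit 78) (nat_lit 0) (nat_lit 0) (XT.lf (nat_lit 152) (nat_lit 3659481034) (nat_lit 0) (nat_lit 2952007548) (nat_lit 76) (nat_lit 2952007548) (nat_lit 193) (nat_lit 1) (nat_lit 191) (nat_lit 1) (nat_lit 192) (nat_lit 1) (nat_lit 317) (nat_lit 383) (nat_lit 320)) (XT.lf (nat_lit 0) (nat_lit 368031132) (nat_lit 0) (nat_lit 8668460520) (nat_lit 152) (nat_lit 368031132) (nat_lit 191) (nat_lit 3) (nat_lit 191) (nat_lit 1) (nat_lit 193) (nat_lit 1) (nat_lit 318) (nat_lit 383) (nat_lit 319)))) (XT.nd (nat_lit 156) (nat_lit 152) (nat_lit 0) (XT.nd (nat_lit 78) (nat_lit 76) (nat_lit 0) (XT.lf (nat_lit 76) (nat_lit 3563411103) (nat_lit 0) (nat_lit 2117931581) (nat_lit 152) (nat_lit 3563411103) (nat_lit 190) (nat_lit 1)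 (nat_lit 189) (nat_lit 1) (nat_lit 191) (nat_lit 1) (nat_lit 319) (nat_lit 383) (nat_lit 318)) (XT.lf (nat_lit 152) (nat_lit 4232614586) (nat_lit 0) (nat_lit 2428623915) (nat_lit 76) (nat_lit 2428623915) (nat_lit 190) (nat_lit 1) (nat_lit 188) (nat_lit 1) (nat_lit 189) (nat_lit 1) (nat_lit 320) (nat_lit 383) (nat_lit 317))) (XT.nd (nat_lit 78) (nat_lit 152) (nat_lit 0) (XT.lf (nat_lit 0) (nat_lit 703419626) (nat_lit 0) (nat_lit 7532203425) (nat_lit 152) (nat_lit 703419626) (nat_lit 188) (nat_lit 3) (nat_lit 188) (nat_lit 1) (nat_lit 190) (nat_lit 1) (nat_lit 321) (nat_lit 383) (nat_lit 316)) (XT.lf (nat_lit 76) (nat_lit 3713828067) (nat_lit 0) (nat_lit 1360866122) (nat_lit 152) (nat_lit 3713828067) (nat_lit 187) (nat_lit 1) (nat_lit 186) (nat_lit 1) (nat_lit 188) (nat_lit 1) (nat_lit 322) (nat_lit 383) (nat_lit 315))))))))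
noncomputable def ec186 : XT := (XT.nd (nat_lit 1950) (nat_lit 1824) (nat_lit 0) (XT.nd (nat_lit 936) (nat_lit 1064) (nat_lit 0) (XT.nd (nat_lit 468) (nat_lit 380) (nat_lit 0) (XT.nd (nat_lit 234) (nat_lit 228) (nat_lit 0) (XT.nd (nat_lit 78) (nat_lit 152) (nat_lit 0) (XT.lf (nat_lit 152) (nat_lit 4645944860) (nat_lit 0) (nat_lit 1998034905) (nat_lit 76) (nat_lit 1998034905) (nat_lit 187) (nat_lit 1) (nat_lit 185) (nat_lit 1) (nat_lit 186) (nat_lit 1) (nat_lit 323) (nat_lit 383) (nat_lit 314)) (XT.nd (nat_lit 78) (nat_lit 152) (nat_lit 0) (XT.lf (nat_lit 0) (nat_lit 960266498) (nat_lit 0) (nat_lit 6578323830) (nat_lit 152) (nat_lit 960266498) (nat_lit 185) (nat_lit 3) (nat_lit 185) (nat_lit 1) (nat_lit 187) (nat_lit 1) (nat_lit 324) (nat_lit 383) (nat_lit 313)) (XT.lf (nat_lit 76) (nat_lit 3800328812) (nat_lit 0) (nat_lit 756196087) (nat_lit 152) (nat_lit 3800328812) (nat_lit 184) (nat_lit 1) (nat_lit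 183) (nat_lit 1) (nat_lit 185) (nat_lit 1) (nat_lit 325) (nat_lit 383) (nat_lit 312)))) (XT.nd (nat_lit 78) (nat_lit 152) (nat_lit 0) (XT.lf (nat_lit 152) (nat_lit 4930575443) (nat_lit 0) (nat_lit 1643788261) (nat_lit 76) (nat_lit 1643788261) (nat_lit 184) (nat_lit 1) (nat_lit 182) (nat_lit 1) (nat_lit 183) (nat_lit 1) (nat_lit 326) (nat_lit 383) (nat_lit 311)) (XT.nd (nat_lit 78) (nat_lit 152) (nat_lit 0) (XT.lf (nat_lit 0) (nat_lit 1153405464) (nat_lit 0) (nat_lit 5775395134) (nat_lit 152) (nat_lit 1153405464) (nat_lit 182) (nat_lit 3) (nat_lit 182) (nat_lit 1) (nat_lit 184) (nat_lit 1) (nat_lit 327) (nat_lit 383) (nat_lit 310)) (XT.lf (nat_lit 76) (nat_lit 3836019223) (nat_lit 0) (nat_lit 276036926) (nat_lit 152) (nat_lit 3836019223) (nat_lit 181) (nat_lit 1) (nat_lit 180) (nat_lit 1) (nat_lit 182) (nat_lit 1) (nat_lit 328) (nat_lit 383) (nat_lit 309))))) (XT.nd (nat_lit 234) (nat_lit 228) (nat_lit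 0) (XT.nd (nat_lit 78) (nat_lit 76) (nat_lit 0) (XT.lf (nat_lit 152) (nat_lit 5111963390) (nat_lit 0) (nat_lit 1352348670) (nat_lit 76) (nat_lit 1352348670) (nat_lit 181) (nat_lit 1) (nat_lit 179) (nat_lit 1) (nat_lit 180) (nat_lit 1) (nat_lit 329) (nat_lit 383) (nat_lit 308)) (XT.nd (nat_lit 78) (nat_lit 76) (nat_lit 0) (XT.lf (nat_lit 0) (nat_lit 1294996995) (nat_lit 0) (nat_lit 5097519335) (nat_lit 152) (nat_lit 1294996995) (nat_lit 179) (nat_lit 3) (nat_lit 179) (nat_lit 1) (nat_lit 181) (nat_lit 1) (nat_lit 330) (nat_lit 383) (nat_lit 307)) (XT.lf (nat_lit 76) (nat_lit 105900319) (nat_lit 0) (nat_lit 3727350166) (nat_lit 76) (nat_lit 3727350166) (nat_lit 179) (nat_lit 3) (nat_lit 178) (nat_lit 1) (nat_lit 179) (nat_lit 1) (nat_lit 331) (nat_lit 383) (nat_lit 306)))) (XT.nd (nat_lit 78) (nat_lit 76) (nat_lit 0) (XT.lf (nat_lit 152) (nat_lit 5210926619) (nat_lit 0) (nat_lit 1112580598) (nat_lit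 76) (nat_lit 1112580598) (nat_lit 178) (nat_lit 1) (nat_lit 176) (nat_lit 1) (nat_lit 177) (nat_lit 1) (nat_lit 332) (nat_lit 383) (nat_lit 305)) (XT.nd (nat_lit 78) (nat_lit 76) (nat_lit 0) (XT.lf (nat_lit 0) (nat_lit 1395004343) (nat_lit 0) (nat_lit 4523348883) (nat_lit 152) (nat_lit 1395004343) (nat_lit 176) (nat_lit 3) (nat_lit 176) (nat_lit 1) (nat_lit 178) (nat_lit 1) (nat_lit 333) (nat_lit 383) (nat_lit 304)) (XT.lf (nat_lit 76) (nat_lit 411415321) (nat_lit 0) (nat_lit 3390791073) (nat_lit 76) (nat_lit 3390791073) (nat_lit 176) (nat_lit 3) (nat_lit 175) (nat_lit 1) (nat_lit 176) (nat_lit 1) (nat_lit 334) (nat_lit 383) (nat_lit 303)))))) (XT.nd (nat_lit 468) (nat_lit 608) (nat_lit 0) (XT.nd (nat_lit 234) (nat_lit 228) (nat_lit 0) (XT.nd (nat_lit 78) (nat_lit 76) (nat_lit 0) (XT.lf (nat_lit 152) (nat_lit 5244472403) (nat_lit 0) (nat_lit 915322811) (nat_lit 76) (nat_lit 915322811) (nat_lit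 175) (nat_lit 1) (nat_lit 173) (nat_lit 1) (nat_lit 174) (nat_lit 1) (nat_lit 335) (nat_lit 383) (nat_lit 302)) (XT.nd (nat_lit 78) (nat_lit 76) (nat_lit 0) (XT.lf (nat_lit 0) (nat_lit 1461585059) (nat_lit 0) (nat_lit 4035281854) (nat_lit 152) (nat_lit 1461585059) (nat_lit 173) (nat_lit 3) (nat_lit 173) (nat_lit 1) (nat_lit 175) (nat_lit 1) (nat_lit 336) (nat_lit 383) (nat_lit 301)) (XT.lf (nat_lit 76) (nat_lit 647320847) (nat_lit 0) (nat_lit 3098460651) (nat_lit 76) (nat_lit 3098460651) (nat_lit 173) (nat_lit 3) (nat_lit 172) (nat_lit 1) (nat_lit 173) (nat_lit 1) (nat_lit 337) (nat_lit 383) (nat_lit 300)))) (XT.nd (nat_lit 78) (nat_lit 76) (nat_lit 0) (XT.lf (nat_lit 152) (nat_lit 5226478689) (nat_lit 0) (nat_lit 753038342) (nat_lit 76) (nat_lit 753038342) (nat_lit 172) (nat_lit 1) (nat_lit 170) (nat_lit 1) (nat_lit 171) (nat_lit 1) (nat_lit 338) (nat_lit 383) (nat_lit 299)) (XT.nd (nat_lit 78)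 (nat_lit 76) (nat_lit 0) (XT.lf (nat_lit 0) (nat_lit 1501413010) (nat_lit 0) (nat_lit 3618799733) (nat_lit 152) (nat_lit 1501413010) (nat_lit 170) (nat_lit 3) (nat_lit 170) (nat_lit 1) (nat_lit 172) (nat_lit 1) (nat_lit 339) (nat_lit 383) (nat_lit 298)) (XT.lf (nat_lit 76) (nat_lit 826693838) (nat_lit 0) (nat_lit 2843252622) (nat_lit 76) (nat_lit 2843252622) (nat_lit 170) (nat_lit 3) (nat_lit 169) (nat_lit 1) (nat_lit 170) (nat_lit 1) (nat_lit 340) (nat_lit 383) (nat_lit 297))))) (XT.nd (nat_lit 234) (nat_lit 380) (nat_lit 0) (XT.nd (nat_lit 78) (nat_lit 76) (nat_lit 0) (XT.lf (nat_lit 152) (nat_lit 5168254347) (nat_lit 0) (nat_lit 619526507) (nat_lit 76) (nat_lit 619526507) (nat_lit 169) (nat_lit 1) (nat_lit 167) (nat_lit 1) (nat_lit 168) (nat_lit 1) (nat_lit 341) (nat_lit 383) (nat_lit 296)) (XT.nd (nat_lit 78) (nat_lit 76) (nat_lit 0) (XT.lf (nat_lit 0) (nat_lit 1519943214) (nat_lit 0) (nat_lit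 3261922511) (nat_lit 152) (nat_lit 1519943214) (nat_lit 167) (nat_lit 3) (nat_lit 167) (nat_lit 1) (nat_lit 169) (nat_lit 1) (nat_lit 342) (nat_lit 383) (nat_lit 295)) (XT.lf (nat_lit 76) (nat_lit 960257710) (nat_lit 0) (nat_lit 2619285612) (nat_lit 76) (nat_lit 2619285612) (nat_lit 167) (nat_lit 3) (nat_lit 166) (nat_lit 1) (nat_lit 167) (nat_lit 1) (nat_lit 343) (nat_lit 383) (nat_lit 294)))) (XT.nd (nat_lit 156) (nat_lit 228) (nat_lit 0) (XT.nd (nat_lit 78) (nat_lit 0) (nat_lit 0) (XT.lf (nat_lit 152) (nat_lit 5078999827) (nat_lit 0) (nat_lit 509685991) (nat_lit 76) (nat_lit 509685991) (nat_lit 166) (nat_lit 1) (nat_lit 164) (nat_lit 1) (nat_lit 165) (nat_lit 1) (nat_lit 344) (nat_lit 383) (nat_lit 293)) (XT.lf (nat_lit 0) (nat_lit 1521629629) (nat_lit 0) (nat_lit 2954760307) (nat_lit 152) (nat_lit 1521629629) (nat_lit 164) (nat_lit 3) (nat_lit 164) (nat_lit 1) (nat_lit 166) (nat_lit 1) (nat_lit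 345) (nat_lit 383) (nat_lit 292))) (XT.nd (nat_lit 78) (nat_lit 152) (nat_lit 0) (XT.lf (nat_lit 76) (nat_lit 1056801293) (nat_lit 0) (nat_lit 2421687653) (nat_lit 76) (nat_lit 2421687653) (nat_lit 164) (nat_lit 3) (nat_lit 163) (nat_lit 1) (nat_lit 164) (nat_lit 1) (nat_lit 346) (nat_lit 383) (nat_lit 291)) (XT.lf (nat_lit 152) (nat_lit 4966185904) (nat_lit 0) (nat_lit 419319926) (nat_lit 76) (nat_lit 419319926) (nat_lit 163) (nat_lit 1) (nat_lit 161) (nat_lit 1) (nat_lit 162) (nat_lit 1) (nat_lit 347) (nat_lit 383) (nat_lit 290))))))) (XT.nd (nat_lit 936) (nat_lit 912) (nat_lit 0) (XT.nd (nat_lit 468) (nat_lit 456) (nat_lit 0) (XT.nd (nat_lit 234) (nat_lit 228) (nat_lit 0) (XT.nd (nat_lit 78) (nat_lit 228) (nat_lit 0) (XT.lf (nat_lit 0) (nat_lit 1510104257) (nat_lit 0) (nat_lit 2689144413) (nat_lit 152) (nat_lit 1510104257) (nat_lit 161) (nat_lit 3) (nat_lit 161) (nat_lit 1) (nat_lit 163) (nat_lit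 1) (nat_lit 348) (nat_lit 383) (nat_lit 289)) (XT.nd (nat_lit 78) (nat_lit 152) (nat_lit 0) (XT.lf (nat_lit 76) (nat_lit 1123523419) (nat_lit 0) (nat_lit 2246418805) (nat_lit 76) (nat_lit 2246418805) (nat_lit 161) (nat_lit 3) (nat_lit 160) (nat_lit 1) (nat_lit 161) (nat_lit 1) (nat_lit 349) (nat_lit 383) (nat_lit 288)) (XT.lf (nat_lit 152) (nat_lit 4835865030) (nat_lit 0) (nat_lit 344975541) (nat_lit 76) (nat_lit 344975541) (nat_lit 160) (nat_lit 1) (nat_lit 158) (nat_lit 1) (nat_lit 159) (nat_lit 1) (nat_lit 350) (nat_lit 383) (nat_lit 287)))) (XT.nd (nat_lit 78) (nat_lit 228) (nat_lit 0) (XT.lf (nat_lit 0) (nat_lit 1488324410) (nat_lit 0) (nat_lit 2458323664) (nat_lit 152) (nat_lit 1488324410) (nat_lit 158) (nat_lit 3) (nat_lit 158) (nat_lit 1) (nat_lit 160) (nat_lit 1) (nat_lit 351) (nat_lit 383) (nat_lit 286)) (XT.nd (nat_lit 78) (nat_lit 152) (nat_lit 0) (XT.lf (nat_lit 76) (nat_lit 1166316335)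 (nat_lit 0) (nat_lit 2090125148) (nat_lit 76) (nat_lit 2090125148) (nat_lit 158) (nat_lit 3) (nat_lit 157) (nat_lit 1) (nat_lit 158) (nat_lit 1) (nat_lit 352) (nat_lit 383) (nat_lit 285)) (XT.lf (nat_lit 152) (nat_lit 4692927268) (nat_lit 0) (nat_lit 283812231) (nat_lit 76) (nat_lit 283812231) (nat_lit 157) (nat_lit 1) (nat_lit 155) (nat_lit 1) (nat_lit 156) (nat_lit 1) (nat_lit 353) (nat_lit 383) (nat_lit 284))))) (XT.nd (nat_lit 234) (nat_lit 228) (nat_lit 0) (XT.nd (nat_lit 78) (nat_lit 228) (nat_lit 0) (XT.lf (nat_lit 0) (nat_lit 1458693795) (nat_lit 0) (nat_lit 2256714582) (nat_lit 152) (nat_lit 1458693795) (nat_lit 155) (nat_lit 3) (nat_lit 155) (nat_lit 1) (nat_lit 157) (nat_lit 1) (nat_lit 354) (nat_lit 383) (nat_lit 283)) (XT.nd (nat_lit 78) (nat_lit 152) (nat_lit 0) (XT.lf (nat_lit 76) (nat_lit 1189998799) (nat_lit 0) (nat_lit 1950018596) (nat_lit 76) (nat_lit 1950018596) (nat_lit 155)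 (nat_lit 3) (nat_lit 154) (nat_lit 1) (nat_lit 155) (nat_lit 1) (nat_lit 355) (nat_lit 383) (nat_lit 282)) (XT.lf (nat_lit 152) (nat_lit 4541310629) (nat_lit 0) (nat_lit 233493025) (nat_lit 76) (nat_lit 233493025) (nat_lit 154) (nat_lit 1) (nat_lit 152) (nat_lit 1) (nat_lit 153) (nat_lit 1) (nat_lit 356) (nat_lit 383) (nat_lit 281)))) (XT.nd (nat_lit 78) (nat_lit 228) (nat_lit 0) (XT.lf (nat_lit 0) (nat_lit 1423162061) (nat_lit 0) (nat_lit 2079695738) (nat_lit 152) (nat_lit 1423162061) (nat_lit 152) (nat_lit 3) (nat_lit 152) (nat_lit 1) (nat_lit 154) (nat_lit 1) (nat_lit 357) (nat_lit 383) (nat_lit 280)) (XT.nd (nat_lit 78) (nat_lit 152) (nat_lit 0) (XT.lf (nat_lit 76) (nat_lit 1198507780) (nat_lit 0) (nat_lit 1823777948) (nat_lit 76) (nat_lit 1823777948) (nat_lit 152) (nat_lit 3) (nat_lit 151) (nat_lit 1) (nat_lit 152) (nat_lit 1) (nat_lit 358) (nat_lit 383) (nat_lit 279)) (XT.lf (nat_lit 152)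 (nat_lit 4384173924) (nat_lit 0) (nat_lit 192095289) (nat_lit 76) (nat_lit 192095289) (nat_lit 151) (nat_lit 1) (nat_lit 149) (nat_lit 1) (nat_lit 150) (nat_lit 1) (nat_lit 359) (nat_lit 383) (nat_lit 278)))))) (XT.nd (nat_lit 468) (nat_lit 456) (nat_lit 0) (XT.nd (nat_lit 234) (nat_lit 228) (nat_lit 0) (XT.nd (nat_lit 78) (nat_lit 228) (nat_lit 0) (XT.lf (nat_lit 0) (nat_lit 1383306632) (nat_lit 0) (nat_lit 1923438512) (nat_lit 152) (nat_lit 1383306632) (nat_lit 149) (nat_lit 3) (nat_lit 149) (nat_lit 1) (nat_lit 151) (nat_lit 1) (nat_lit 360) (nat_lit 383) (nat_lit 277)) (XT.nd (nat_lit 78) (nat_lit 152) (nat_lit 0) (XT.lf (nat_lit 76) (nat_lit 1195056101) (nat_lit 0) (nat_lit 1709467415) (nat_lit 76) (nat_lit 1709467415) (nat_lit 149) (nat_lit 3) (nat_lit 148) (nat_lit 1) (nat_lit 149) (nat_lit 1) (nat_lit 361) (nat_lit 383) (nat_lit 276)) (XT.lf (nat_lit 152) (nat_lit 4224038766) (nat_lit 0)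 (nat_lit 158037270) (nat_lit 76) (nat_lit 158037270) (nat_lit 148) (nat_lit 1) (nat_lit 146) (nat_lit 1) (nat_lit 147) (nat_lit 1) (nat_lit 362) (nat_lit 383) (nat_lit 275)))) (XT.nd (nat_lit 78) (nat_lit 228) (nat_lit 0) (XT.lf (nat_lit 0) (nat_lit 1340399963) (nat_lit 0) (nat_lit 1784767798) (nat_lit 152) (nat_lit 1340399963) (nat_lit 146) (nat_lit 3) (nat_lit 146) (nat_lit 1) (nat_lit 148) (nat_lit 1) (nat_lit 363) (nat_lit 383) (nat_lit 274)) (XT.nd (nat_lit 78) (nat_lit 152) (nat_lit 0) (XT.lf (nat_lit 76) (nat_lit 1182262073) (nat_lit 0) (nat_lit 1605469534) (nat_lit 76) (nat_lit 1605469534) (nat_lit 146) (nat_lit 3) (nat_lit 145) (nat_lit 1) (nat_lit 146) (nat_lit 1) (nat_lit 364) (nat_lit 383) (nat_lit 273)) (XT.lf (nat_lit 152) (nat_lit 4062906222) (nat_lit 0) (nat_lit 130017653) (nat_lit 76) (nat_lit 130017653) (nat_lit 145) (nat_lit 1) (nat_lit 143) (nat_lit 1) (nat_lit 144) (nat_lit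 1) (nat_lit 365) (nat_lit 383) (nat_lit 272))))) (XT.nd (nat_lit 234) (nat_lit 228) (nat_lit 0) (XT.nd (nat_lit 78) (nat_lit 228) (nat_lit 0) (XT.lf (nat_lit 0) (nat_lit 1295464818) (nat_lit 0) (nat_lit 1661047335) (nat_lit 152) (nat_lit 1295464818) (nat_lit 143) (nat_lit 3) (nat_lit 143) (nat_lit 1) (nat_lit 145) (nat_lit 1) (nat_lit 366) (nat_lit 383) (nat_lit 271)) (XT.nd (nat_lit 78) (nat_lit 152) (nat_lit 0) (XT.lf (nat_lit 76) (nat_lit 1162256086) (nat_lit 0) (nat_lit 1510429912) (nat_lit 76) (nat_lit 1510429912) (nat_lit 143) (nat_lit 3) (nat_lit 142) (nat_lit 1) (nat_lit 143) (nat_lit 1) (nat_lit 367) (nat_lit 383) (nat_lit 270)) (XT.lf (nat_lit 152) (nat_lit 3902352599) (nat_lit 0) (nat_lit 106965845) (nat_lit 76) (nat_lit 106965845) (nat_lit 142) (nat_lit 1) (nat_lit 140) (nat_lit 1) (nat_lit 141) (nat_lit 1) (nat_lit 368) (nat_lit 383) (nat_lit 269)))) (XT.nd (nat_lit 156) (nat_lit 152)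 (nat_lit 0) (XT.nd (nat_lit 78) (nat_lit 76) (nat_lit 0) (XT.lf (nat_lit 0) (nat_lit 1249319684) (nat_lit 0) (nat_lit 1550085325) (nat_lit 152) (nat_lit 1249319684) (nat_lit 140) (nat_lit 3) (nat_lit 140) (nat_lit 1) (nat_lit 142) (nat_lit 1) (nat_lit 369) (nat_lit 383) (nat_lit 268)) (XT.lf (nat_lit 76) (nat_lit 1136768247) (nat_lit 0) (nat_lit 1423211716) (nat_lit 76) (nat_lit 1423211716) (nat_lit 140) (nat_lit 3) (nat_lit 139) (nat_lit 1) (nat_lit 140) (nat_lit 1) (nat_lit 370) (nat_lit 383) (nat_lit 267))) (XT.nd (nat_lit 78) (nat_lit 0) (nat_lit 0) (XT.lf (nat_lit 152) (nat_lit 3743608089) (nat_lit 0) (nat_lit 88001065) (nat_lit 76) (nat_lit 88001065) (nat_lit 139) (nat_lit 1) (nat_lit 137) (nat_lit 1) (nat_lit 138) (nat_lit 1) (nat_lit 371) (nat_lit 383) (nat_lit 266)) (XT.lf (nat_lit 0) (nat_lit 1202616083) (nat_lit 0) (nat_lit 1450056721) (nat_lit 152) (nat_lit 1202616083) (nat_lit 137)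 (nat_lit 3) (nat_lit 137) (nat_lit 1) (nat_lit 139) (nat_lit 1) (nat_lit 372) (nat_lit 383) (nat_lit 265))))))))
noncomputable def ec187 : XT := (XT.nd (nat_lit 1950) (nat_lit 1976) (nat_lit 0) (XT.nd (nat_lit 936) (nat_lit 988) (nat_lit 0) (XT.nd (nat_lit 468) (nat_lit 456) (nat_lit 0) (XT.nd (nat_lit 234) (nat_lit 228) (nat_lit 0) (XT.nd (nat_lit 78) (nat_lit 152) (nat_lit 0) (XT.lf (nat_lit 76) (nat_lit 1107200421) (nat_lit 0) (nat_lit 1342858171) (nat_lit 76) (nat_lit 1342858171) (nat_lit 137) (nat_lit 3) (nat_lit 136) (nat_lit 1) (nat_lit 137) (nat_lit 1) (nat_lit 373) (nat_lit 383) (nat_lit 264)) (XT.nd (nat_lit 78) (nat_lit 0) (nat_lit 0) (XT.lf (nat_lit 152) (nat_lit 3587621305) (nat_lit 0) (nat_lit 72398694) (nat_lit 76) (nat_lit 72398694) (nat_lit 136) (nat_lit 1) (nat_lit 134) (nat_lit 1) (nat_lit 135) (nat_lit 1) (nat_lit 374) (nat_lit 383) (nat_lit 263)) (XT.lf (nat_lit 0) (nat_lit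 1155869217) (nat_lit 0) (nat_lit 1359439242) (nat_lit 152) (nat_lit 1155869217) (nat_lit 134) (nat_lit 3) (nat_lit 134) (nat_lit 1) (nat_lit 136) (nat_lit 1) (nat_lit 375) (nat_lit 383) (nat_lit 262)))) (XT.nd (nat_lit 78) (nat_lit 152) (nat_lit 0) (XT.lf (nat_lit 76) (nat_lit 1074685450) (nat_lit 0) (nat_lit 1268561665) (nat_lit 76) (nat_lit 1268561665) (nat_lit 134) (nat_lit 3) (nat_lit 133) (nat_lit 1) (nat_lit 134) (nat_lit 1) (nat_lit 376) (nat_lit 383) (nat_lit 261)) (XT.nd (nat_lit 78) (nat_lit 0) (nat_lit 0) (XT.lf (nat_lit 152) (nat_lit 3435112226) (nat_lit 0) (nat_lit 59562585) (nat_lit 76) (nat_lit 59562585) (nat_lit 133) (nat_lit 1) (nat_lit 131) (nat_lit 1) (nat_lit 132) (nat_lit 1) (nat_lit 377) (nat_lit 383) (nat_lit 260)) (XT.lf (nat_lit 0) (nat_lit 1109483121) (nat_lit 0) (nat_lit 1276960684) (nat_lit 152) (nat_lit 1109483121) (nat_lit 131) (nat_lit 3) (nat_lit 131) (nat_lit 1)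 (nat_lit 133) (nat_lit 1) (nat_lit 378) (nat_lit 383) (nat_lit 259))))) (XT.nd (nat_lit 234) (nat_lit 228) (nat_lit 0) (XT.nd (nat_lit 78) (nat_lit 152) (nat_lit 0) (XT.lf (nat_lit 76) (nat_lit 1040135831) (nat_lit 0) (nat_lit 1199638272) (nat_lit 76) (nat_lit 1199638272) (nat_lit 131) (nat_lit 3) (nat_lit 130) (nat_lit 1) (nat_lit 131) (nat_lit 1) (nat_lit 379) (nat_lit 383) (nat_lit 258)) (XT.nd (nat_lit 78) (nat_lit 0) (nat_lit 0) (XT.lf (nat_lit 152) (nat_lit 3286615615) (nat_lit 0) (nat_lit 49002286) (nat_lit 76) (nat_lit 49002286) (nat_lit 130) (nat_lit 1) (nat_lit 128) (nat_lit 1) (nat_lit 129) (nat_lit 1) (nat_lit 380) (nat_lit 383) (nat_lit 257)) (XT.lf (nat_lit 0) (nat_lit 1063771324) (nat_lit 0) (nat_lit 1201555530) (nat_lit 152) (nat_lit 1063771324) (nat_lit 128) (nat_lit 3) (nat_lit 128) (nat_lit 1) (nat_lit 130) (nat_lit 1) (nat_lit 381) (nat_lit 383) (nat_lit 256)))) (XT.nd (nat_lit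 78) (nat_lit 152) (nat_lit 0) (XT.lf (nat_lit 76) (nat_lit 1004283705) (nat_lit 0) (nat_lit 1135506758) (nat_lit 76) (nat_lit 1135506758) (nat_lit 128) (nat_lit 3) (nat_lit 127) (nat_lit 1) (nat_lit 128) (nat_lit 1) (nat_lit 382) (nat_lit 383) (nat_lit 255)) (XT.nd (nat_lit 78) (nat_lit 0) (nat_lit 0) (XT.lf (nat_lit 152) (nat_lit 3142516596) (nat_lit 0) (nat_lit 40314302) (nat_lit 76) (nat_lit 40314302) (nat_lit 127) (nat_lit 1) (nat_lit 125) (nat_lit 1) (nat_lit 126) (nat_lit 1) (nat_lit 383) (nat_lit 383) (nat_lit 254)) (XT.lf (nat_lit 0) (nat_lit 1018973791) (nat_lit 0) (nat_lit 1132329198) (nat_lit 152) (nat_lit 1018973791) (nat_lit 125) (nat_lit 3) (nat_lit 125) (nat_lit 1) (nat_lit 127) (nat_lit 1) (nat_lit 384) (nat_lit 383) (nat_lit 253)))))) (XT.nd (nat_lit 468) (nat_lit 532) (nat_lit 0) (XT.nd (nat_lit 234) (nat_lit 228) (nat_lit 0) (XT.nd (nat_lit 78) (nat_lit 152) (nat_lit 0) (XT.lf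 (nat_lit 76) (nat_lit 967713720) (nat_lit 0) (nat_lit 1075671251) (nat_lit 76) (nat_lit 1075671251) (nat_lit 125) (nat_lit 3) (nat_lit 124) (nat_lit 1) (nat_lit 125) (nat_lit 1) (nat_lit 385) (nat_lit 383) (nat_lit 252)) (XT.nd (nat_lit 78) (nat_lit 0) (nat_lit 0) (XT.lf (nat_lit 152) (nat_lit 3003079796) (nat_lit 0) (nat_lit 33166676) (nat_lit 76) (nat_lit 33166676) (nat_lit 124) (nat_lit 1) (nat_lit 122) (nat_lit 1) (nat_lit 123) (nat_lit 1) (nat_lit 386) (nat_lit 383) (nat_lit 251)) (XT.lf (nat_lit 0) (nat_lit 975270822) (nat_lit 0) (nat_lit 1068528596) (nat_lit 152) (nat_lit 975270822) (nat_lit 122) (nat_lit 3) (nat_lit 122) (nat_lit 1) (nat_lit 124) (nat_lit 1) (nat_lit 387) (nat_lit 383) (nat_lit 250)))) (XT.nd (nat_lit 78) (nat_lit 152) (nat_lit 0) (XT.lf (nat_lit 76) (nat_lit 930890026) (nat_lit 0) (nat_lit 1019706953) (nat_lit 76) (nat_lit 1019706953) (nat_lit 122) (nat_lit 3) (nat_lit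 121) (nat_lit 1) (nat_lit 122) (nat_lit 1) (nat_lit 388) (nat_lit 383) (nat_lit 249)) (XT.nd (nat_lit 78) (nat_lit 0) (nat_lit 0) (XT.lf (nat_lit 152) (nat_lit 2868473194) (nat_lit 0) (nat_lit 27286306) (nat_lit 76) (nat_lit 27286306) (nat_lit 121) (nat_lit 1) (nat_lit 119) (nat_lit 1) (nat_lit 120) (nat_lit 1) (nat_lit 389) (nat_lit 383) (nat_lit 248)) (XT.lf (nat_lit 0) (nat_lit 932794445) (nat_lit 0) (nat_lit 1009517846) (nat_lit 152) (nat_lit 932794445) (nat_lit 119) (nat_lit 3) (nat_lit 119) (nat_lit 1) (nat_lit 121) (nat_lit 1) (nat_lit 390) (nat_lit 383) (nat_lit 247))))) (XT.nd (nat_lit 234) (nat_lit 304) (nat_lit 0) (XT.nd (nat_lit 78) (nat_lit 152) (nat_lit 0) (XT.lf (nat_lit 76) (nat_lit 894178436) (nat_lit 0) (nat_lit 967248342) (nat_lit 76) (nat_lit 967248342) (nat_lit 119) (nat_lit 3) (nat_lit 118) (nat_lit 1) (nat_lit 119) (nat_lit 1) (nat_lit 391) (nat_lit 383) (nat_lit 246)) (XT.nd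 (nat_lit 78) (nat_lit 0) (nat_lit 0) (XT.lf (nat_lit 152) (nat_lit 2738787629) (nat_lit 0) (nat_lit 22448511) (nat_lit 76) (nat_lit 22448511) (nat_lit 118) (nat_lit 1) (nat_lit 116) (nat_lit 1) (nat_lit 117) (nat_lit 1) (nat_lit 392) (nat_lit 383) (nat_lit 245)) (XT.lf (nat_lit 0) (nat_lit 891637752) (nat_lit 0) (nat_lit 954758284) (nat_lit 152) (nat_lit 891637752) (nat_lit 116) (nat_lit 3) (nat_lit 116) (nat_lit 1) (nat_lit 118) (nat_lit 1) (nat_lit 393) (nat_lit 383) (nat_lit 244)))) (XT.nd (nat_lit 156) (nat_lit 76) (nat_lit 0) (XT.nd (nat_lit 78) (nat_lit 152) (nat_lit 0) (XT.lf (nat_lit 76) (nat_lit 857864629) (nat_lit 0) (nat_lit 917979422) (nat_lit 76) (nat_lit 917979422) (nat_lit 116) (nat_lit 3) (nat_lit 115) (nat_lit 1) (nat_lit 116) (nat_lit 1) (nat_lit 394) (nat_lit 383) (nat_lit 243)) (XT.lf (nat_lit 152) (nat_lit 2614052724) (nat_lit 0) (nat_lit 18468446) (nat_lit 76) (nat_lit 18468446)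 (nat_lit 115) (nat_lit 1) (nat_lit 113) (nat_lit 1) (nat_lit 114) (nat_lit 1) (nat_lit 395) (nat_lit 383) (nat_lit 242))) (XT.nd (nat_lit 78) (nat_lit 76) (nat_lit 0) (XT.lf (nat_lit 0) (nat_lit 851862540) (nat_lit 0) (nat_lit 903791958) (nat_lit 152) (nat_lit 851862540) (nat_lit 113) (nat_lit 3) (nat_lit 113) (nat_lit 1) (nat_lit 115) (nat_lit 1) (nat_lit 396) (nat_lit 383) (nat_lit 241)) (XT.lf (nat_lit 76) (nat_lit 822169084) (nat_lit 0) (nat_lit 871625672) (nat_lit 76) (nat_lit 871625672) (nat_lit 113) (nat_lit 3) (nat_lit 112) (nat_lit 1) (nat_lit 113) (nat_lit 1) (nat_lit 397) (nat_lit 383) (nat_lit 240))))))) (XT.nd (nat_lit 1014) (nat_lit 912) (nat_lit 0) (XT.nd (nat_lit 468) (nat_lit 608) (nat_lit 0) (XT.nd (nat_lit 234) (nat_lit 228) (nat_lit 0) (XT.nd (nat_lit 78) (nat_lit 76) (nat_lit 0) (XT.lf (nat_lit 152) (nat_lit 2494249898) (nat_lit 0) (nat_lit 15194036) (nat_lit 76) (nat_lit 15194036)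 (nat_lit 112) (nat_lit 1) (nat_lit 110) (nat_lit 1) (nat_lit 111) (nat_lit 1) (nat_lit 398) (nat_lit 383) (nat_lit 239)) (XT.nd (nat_lit 78) (nat_lit 76) (nat_lit 0) (XT.lf (nat_lit 0) (nat_lit 813505568) (nat_lit 0) (nat_lit 856228029) (nat_lit 152) (nat_lit 813505568) (nat_lit 110) (nat_lit 3) (nat_lit 110) (nat_lit 1) (nat_lit 112) (nat_lit 1) (nat_lit 399) (nat_lit 383) (nat_lit 238)) (XT.lf (nat_lit 76) (nat_lit 787259331) (nat_lit 0) (nat_lit 827947389) (nat_lit 76) (nat_lit 827947389) (nat_lit 110) (nat_lit 3) (nat_lit 109) (nat_lit 1) (nat_lit 110) (nat_lit 1) (nat_lit 400) (nat_lit 383) (nat_lit 237)))) (XT.nd (nat_lit 78) (nat_lit 76) (nat_lit 0) (XT.lf (nat_lit 152) (nat_lit 2379322946) (nat_lit 0) (nat_lit 12500171) (nat_lit 76) (nat_lit 12500171) (nat_lit 109) (nat_lit 1) (nat_lit 107) (nat_lit 1) (nat_lit 108) (nat_lit 1) (nat_lit 401) (nat_lit 383) (nat_lit 236)) (XT.nd (nat_lit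 78) (nat_lit 76) (nat_lit 0) (XT.lf (nat_lit 0) (nat_lit 776583661) (nat_lit 0) (nat_lit 811731536) (nat_lit 152) (nat_lit 776583661) (nat_lit 107) (nat_lit 3) (nat_lit 107) (nat_lit 1) (nat_lit 109) (nat_lit 1) (nat_lit 402) (nat_lit 383) (nat_lit 235)) (XT.lf (nat_lit 76) (nat_lit 753260000) (nat_lit 0) (nat_lit 786734166) (nat_lit 76) (nat_lit 786734166) (nat_lit 107) (nat_lit 3) (nat_lit 106) (nat_lit 1) (nat_lit 107) (nat_lit 1) (nat_lit 403) (nat_lit 383) (nat_lit 234))))) (XT.nd (nat_lit 234) (nat_lit 380) (nat_lit 0) (XT.nd (nat_lit 78) (nat_lit 76) (nat_lit 0) (XT.lf (nat_lit 152) (nat_lit 2269186669) (nat_lit 0) (nat_lit 10283921) (nat_lit 76) (nat_lit 10283921) (nat_lit 106) (nat_lit 1) (nat_lit 104) (nat_lit 1) (nat_lit 105) (nat_lit 1) (nat_lit 404) (nat_lit 383) (nat_lit 233)) (XT.nd (nat_lit 78) (nat_lit 76) (nat_lit 0) (XT.lf (nat_lit 0) (nat_lit 741097888) (nat_lit 0) (nat_lit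 770014131) (nat_lit 152) (nat_lit 741097888) (nat_lit 104) (nat_lit 3) (nat_lit 104) (nat_lit 1) (nat_lit 106) (nat_lit 1) (nat_lit 405) (nat_lit 383) (nat_lit 232)) (XT.lf (nat_lit 76) (nat_lit 720261058) (nat_lit 0) (nat_lit 747800337) (nat_lit 76) (nat_lit 747800337) (nat_lit 104) (nat_lit 3) (nat_lit 103) (nat_lit 1) (nat_lit 104) (nat_lit 1) (nat_lit 406) (nat_lit 383) (nat_lit 231)))) (XT.nd (nat_lit 156) (nat_lit 228) (nat_lit 0) (XT.nd (nat_lit 78) (nat_lit 0) (nat_lit 0) (XT.lf (nat_lit 152) (nat_lit 2163733863) (nat_lit 0) (nat_lit 8460608) (nat_lit 76) (nat_lit 8460608) (nat_lit 103) (nat_lit 1) (nat_lit 101) (nat_lit 1) (nat_lit 102) (nat_lit 1) (nat_lit 407) (nat_lit 383) (nat_lit 230)) (XT.lf (nat_lit 0) (nat_lit 707036960) (nat_lit 0) (nat_lit 730826424) (nat_lit 152) (nat_lit 707036960) (nat_lit 101) (nat_lit 3) (nat_lit 101) (nat_lit 1) (nat_lit 103) (nat_lit 1) (nat_lit 408) (nat_lit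 383) (nat_lit 229))) (XT.nd (nat_lit 78) (nat_lit 152) (nat_lit 0) (XT.lf (nat_lit 76) (nat_lit 688324546) (nat_lit 0) (nat_lit 710981180) (nat_lit 76) (nat_lit 710981180) (nat_lit 101) (nat_lit 3) (nat_lit 100) (nat_lit 1) (nat_lit 101) (nat_lit 1) (nat_lit 409) (nat_lit 383) (nat_lit 228)) (XT.lf (nat_lit 152) (nat_lit 2062840989) (nat_lit 0) (nat_lit 6960563) (nat_lit 76) (nat_lit 6960563) (nat_lit 100) (nat_lit 1) (nat_lit 98) (nat_lit 1) (nat_lit 99) (nat_lit 1) (nat_lit 410) (nat_lit 383) (nat_lit 227)))))) (XT.nd (nat_lit 468) (nat_lit 456) (nat_lit 0) (XT.nd (nat_lit 234) (nat_lit 228) (nat_lit 0) (XT.nd (nat_lit 78) (nat_lit 228) (nat_lit 0) (XT.lf (nat_lit 0) (nat_lit 674380002) (nat_lit 0) (nat_lit 693951654) (nat_lit 152) (nat_lit 674380002) (nat_lit 98) (nat_lit 3) (nat_lit 98) (nat_lit 1) (nat_lit 100) (nat_lit 1) (nat_lit 411) (nat_lit 383) (nat_lit 226)) (XT.nd (nat_lit 78) (nat_lit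 152) (nat_lit 0) (XT.lf (nat_lit 76) (nat_lit 657490109) (nat_lit 0) (nat_lit 676129778) (nat_lit 76) (nat_lit 676129778) (nat_lit 98) (nat_lit 3) (nat_lit 97) (nat_lit 1) (nat_lit 98) (nat_lit 1) (nat_lit 412) (nat_lit 383) (nat_lit 225)) (XT.lf (nat_lit 152) (nat_lit 1966372753) (nat_lit 0) (nat_lit 5726472) (nat_lit 76) (nat_lit 5726472) (nat_lit 97) (nat_lit 1) (nat_lit 95) (nat_lit 1) (nat_lit 96) (nat_lit 1) (nat_lit 413) (nat_lit 383) (nat_lit 224)))) (XT.nd (nat_lit 78) (nat_lit 228) (nat_lit 0) (XT.lf (nat_lit 0) (nat_lit 643098807) (nat_lit 0) (nat_lit 659200453) (nat_lit 152) (nat_lit 643098807) (nat_lit 95) (nat_lit 3) (nat_lit 95) (nat_lit 1) (nat_lit 97) (nat_lit 1) (nat_lit 414) (nat_lit 383) (nat_lit 223)) (XT.nd (nat_lit 78) (nat_lit 152) (nat_lit 0) (XT.lf (nat_lit 76) (nat_lit 627779504) (nat_lit 0) (nat_lit 643114405) (nat_lit 76) (nat_lit 643114405) (nat_lit 95) (nat_lit 3)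 (nat_lit 94) (nat_lit 1) (nat_lit 95) (nat_lit 1) (nat_lit 415) (nat_lit 383) (nat_lit 222)) (XT.lf (nat_lit 152) (nat_lit 1874185794) (nat_lit 0) (nat_lit 4711183) (nat_lit 76) (nat_lit 4711183) (nat_lit 94) (nat_lit 1) (nat_lit 92) (nat_lit 1) (nat_lit 93) (nat_lit 1) (nat_lit 416) (nat_lit 383) (nat_lit 221))))) (XT.nd (nat_lit 234) (nat_lit 228) (nat_lit 0) (XT.nd (nat_lit 78) (nat_lit 228) (nat_lit 0) (XT.lf (nat_lit 0) (nat_lit 613159657) (nat_lit 0) (nat_lit 626406521) (nat_lit 152) (nat_lit 613159657) (nat_lit 92) (nat_lit 3) (nat_lit 92) (nat_lit 1) (nat_lit 94) (nat_lit 1) (nat_lit 417) (nat_lit 383) (nat_lit 220)) (XT.nd (nat_lit 78) (nat_lit 152) (nat_lit 0) (XT.lf (nat_lit 76) (nat_lit 599200288) (nat_lit 0) (nat_lit 611816349) (nat_lit 76) (nat_lit 611816349) (nat_lit 92) (nat_lit 3) (nat_lit 91) (nat_lit 1) (nat_lit 92) (nat_lit 1) (nat_lit 418) (nat_lit 383) (nat_lit 219)) (XT.lf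 (nat_lit 152) (nat_lit 1786131637) (nat_lit 0) (nat_lit 3875902) (nat_lit 76) (nat_lit 3875902) (nat_lit 91) (nat_lit 1) (nat_lit 89) (nat_lit 1) (nat_lit 90) (nat_lit 1) (nat_lit 419) (nat_lit 383) (nat_lit 218)))) (XT.nd (nat_lit 156) (nat_lit 152) (nat_lit 0) (XT.nd (nat_lit 78) (nat_lit 76) (nat_lit 0) (XT.lf (nat_lit 0) (nat_lit 584524802) (nat_lit 0) (nat_lit 595423030) (nat_lit 152) (nat_lit 584524802) (nat_lit 89) (nat_lit 3) (nat_lit 89) (nat_lit 1) (nat_lit 91) (nat_lit 1) (nat_lit 420) (nat_lit 383) (nat_lit 217)) (XT.lf (nat_lit 76) (nat_lit 571748833) (nat_lit 0) (nat_lit 582128097) (nat_lit 76) (nat_lit 582128097) (nat_lit 89) (nat_lit 3) (nat_lit 88) (nat_lit 1) (nat_lit 89) (nat_lit 1) (nat_lit 421) (nat_lit 383) (nat_lit 216))) (XT.nd (nat_lit 78) (nat_lit 0) (nat_lit 0) (XT.lf (nat_lit 152) (nat_lit 1702059058) (nat_lit 0) (nat_lit 3188714) (nat_lit 76) (nat_lit 3188714) (nat_lit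 88) (nat_lit 1) (nat_lit 86) (nat_lit 1) (nat_lit 87) (nat_lit 1) (nat_lit 422) (nat_lit 383) (nat_lit 215)) (XT.lf (nat_lit 0) (nat_lit 557153653) (nat_lit 0) (nat_lit 566119652) (nat_lit 152) (nat_lit 557153653) (nat_lit 86) (nat_lit 3) (nat_lit 86) (nat_lit 1) (nat_lit 88) (nat_lit 1) (nat_lit 423) (nat_lit 383) (nat_lit 214))))))))
noncomputable def ec188 : XT := (XT.nd (nat_lit 39780) (nat_lit 0) (nat_lit 14288) (XT.nd (nat_lit 936) (nat_lit 912) (nat_lit 0) (XT.nd (nat_lit 468) (nat_lit 456) (nat_lit 0) (XT.nd (nat_lit 234) (nat_lit 228) (nat_lit 0) (XT.nd (nat_lit 78) (nat_lit 152) (nat_lit 0) (XT.lf (nat_lit 76) (nat_lit 545412773) (nat_lit 0) (nat_lit 553951820) (nat_lit 76) (nat_lit 553951820) (nat_lit 86) (nat_lit 3) (nat_lit 85) (nat_lit 1) (nat_lit 86) (nat_lit 1) (nat_lit 424) (nat_lit 383) (nat_lit 213)) (XT.nd (nat_lit 78) (nat_lit 0) (nat_lit 0) (XT.lf (nat_lit 152) (nat_lit 1621815951)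 (nat_lit 0) (nat_lit 2623363) (nat_lit 76) (nat_lit 2623363) (nat_lit 85) (nat_lit 1) (nat_lit 83) (nat_lit 1) (nat_lit 84) (nat_lit 1) (nat_lit 425) (nat_lit 383) (nat_lit 212)) (XT.lf (nat_lit 0) (nat_lit 531003739) (nat_lit 0) (nat_lit 538380089) (nat_lit 152) (nat_lit 531003739) (nat_lit 83) (nat_lit 3) (nat_lit 83) (nat_lit 1) (nat_lit 85) (nat_lit 1) (nat_lit 426) (nat_lit 383) (nat_lit 211)))) (XT.nd (nat_lit 78) (nat_lit 152) (nat_lit 0) (XT.lf (nat_lit 76) (nat_lit 520173003) (nat_lit 0) (nat_lit 527198098) (nat_lit 76) (nat_lit 527198098) (nat_lit 83) (nat_lit 3) (nat_lit 82) (nat_lit 1) (nat_lit 83) (nat_lit 1) (nat_lit 427) (nat_lit 383) (nat_lit 210)) (XT.nd (nat_lit 78) (nat_lit 0) (nat_lit 0) (XT.lf (nat_lit 152) (nat_lit 1545250807) (nat_lit 0) (nat_lit 2158247) (nat_lit 76) (nat_lit 2158247) (nat_lit 82) (nat_lit 1) (nat_lit 80) (nat_lit 1) (nat_lit 81) (nat_lit 1) (nat_lit 428)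 (nat_lit 383) (nat_lit 209)) (XT.lf (nat_lit 0) (nat_lit 506031471) (nat_lit 0) (nat_lit 512100012) (nat_lit 152) (nat_lit 506031471) (nat_lit 80) (nat_lit 3) (nat_lit 80) (nat_lit 1) (nat_lit 82) (nat_lit 1) (nat_lit 429) (nat_lit 383) (nat_lit 208))))) (XT.nd (nat_lit 234) (nat_lit 228) (nat_lit 0) (XT.nd (nat_lit 78) (nat_lit 152) (nat_lit 0) (XT.lf (nat_lit 76) (nat_lit 496005298) (nat_lit 0) (nat_lit 501784861) (nat_lit 76) (nat_lit 501784861) (nat_lit 80) (nat_lit 3) (nat_lit 79) (nat_lit 1) (nat_lit 80) (nat_lit 1) (nat_lit 430) (nat_lit 383) (nat_lit 207)) (XT.nd (nat_lit 78) (nat_lit 0) (nat_lit 0) (XT.lf (nat_lit 152) (nat_lit 1472213865) (nat_lit 0) (nat_lit 1775595) (nat_lit 76) (nat_lit 1775595) (nat_lit 79) (nat_lit 1) (nat_lit 77) (nat_lit 1) (nat_lit 78) (nat_lit 1) (nat_lit 431) (nat_lit 383) (nat_lit 206)) (XT.lf (nat_lit 0) (nat_lit 482192754) (nat_lit 0) (nat_lit 487185357)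 (nat_lit 152) (nat_lit 482192754) (nat_lit 77) (nat_lit 3) (nat_lit 77) (nat_lit 1) (nat_lit 79) (nat_lit 1) (nat_lit 432) (nat_lit 383) (nat_lit 205)))) (XT.nd (nat_lit 78) (nat_lit 152) (nat_lit 0) (XT.lf (nat_lit 76) (nat_lit 472881625) (nat_lit 0) (nat_lit 477636486) (nat_lit 76) (nat_lit 477636486) (nat_lit 77) (nat_lit 3) (nat_lit 76) (nat_lit 1) (nat_lit 77) (nat_lit 1) (nat_lit 433) (nat_lit 383) (nat_lit 204)) (XT.nd (nat_lit 78) (nat_lit 0) (nat_lit 0) (XT.lf (nat_lit 152) (nat_lit 1402557991) (nat_lit 0) (nat_lit 1460786) (nat_lit 76) (nat_lit 1460786) (nat_lit 76) (nat_lit 1) (nat_lit 74) (nat_lit 1) (nat_lit 75) (nat_lit 1) (nat_lit 434) (nat_lit 383) (nat_lit 203)) (XT.lf (nat_lit 0) (nat_lit 459443467) (nat_lit 0) (nat_lit 463550895) (nat_lit 152) (nat_lit 459443467) (nat_lit 74) (nat_lit 3) (nat_lit 74) (nat_lit 1) (nat_lit 76) (nat_lit 1) (nat_lit 435) (nat_lit 383) (nat_lit 202))))))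 (XT.nd (nat_lit 468) (nat_lit 456) (nat_lit 0) (XT.nd (nat_lit 234) (nat_lit 228) (nat_lit 0) (XT.nd (nat_lit 78) (nat_lit 152) (nat_lit 0) (XT.lf (nat_lit 76) (nat_lit 450771206) (nat_lit 0) (nat_lit 454683042) (nat_lit 76) (nat_lit 454683042) (nat_lit 74) (nat_lit 3) (nat_lit 73) (nat_lit 1) (nat_lit 74) (nat_lit 1) (nat_lit 436) (nat_lit 383) (nat_lit 201)) (XT.nd (nat_lit 78) (nat_lit 0) (nat_lit 0) (XT.lf (nat_lit 152) (nat_lit 1336139360) (nat_lit 0) (nat_lit 1201792) (nat_lit 76) (nat_lit 1201792) (nat_lit 73) (nat_lit 1) (nat_lit 71) (nat_lit 1) (nat_lit 72) (nat_lit 1) (nat_lit 437) (nat_lit 383) (nat_lit 200)) (XT.lf (nat_lit 0) (nat_lit 437739844) (nat_lit 0) (nat_lit 441119035) (nat_lit 152) (nat_lit 437739844) (nat_lit 71) (nat_lit 3) (nat_lit 71) (nat_lit 1) (nat_lit 73) (nat_lit 1) (nat_lit 438) (nat_lit 383) (nat_lit 199)))) (XT.nd (nat_lit 78) (nat_lit 152) (nat_lit 0) (XT.lf (nat_lit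 76) (nat_lit 429641370) (nat_lit 0) (nat_lit 432859647) (nat_lit 76) (nat_lit 432859647) (nat_lit 71) (nat_lit 3) (nat_lit 70) (nat_lit 1) (nat_lit 71) (nat_lit 1) (nat_lit 439) (nat_lit 383) (nat_lit 198)) (XT.nd (nat_lit 78) (nat_lit 0) (nat_lit 0) (XT.lf (nat_lit 152) (nat_lit 1272817948) (nat_lit 0) (nat_lit 988717) (nat_lit 76) (nat_lit 988717) (nat_lit 70) (nat_lit 1) (nat_lit 68) (nat_lit 1) (nat_lit 69) (nat_lit 1) (nat_lit 440) (nat_lit 383) (nat_lit 197)) (XT.lf (nat_lit 0) (nat_lit 417038765) (nat_lit 0) (nat_lit 419818833) (nat_lit 152) (nat_lit 417038765) (nat_lit 68) (nat_lit 3) (nat_lit 68) (nat_lit 1) (nat_lit 70) (nat_lit 1) (nat_lit 441) (nat_lit 383) (nat_lit 196))))) (XT.nd (nat_lit 234) (nat_lit 228) (nat_lit 0) (XT.nd (nat_lit 78) (nat_lit 152) (nat_lit 0) (XT.lf (nat_lit 76) (nat_lit 409458241) (nat_lit 0) (nat_lit 412105926) (nat_lit 76) (nat_lit 412105926) (nat_lit 68)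 (nat_lit 3) (nat_lit 67) (nat_lit 1) (nat_lit 68) (nat_lit 1) (nat_lit 442) (nat_lit 383) (nat_lit 195)) (XT.nd (nat_lit 78) (nat_lit 0) (nat_lit 0) (XT.lf (nat_lit 152) (nat_lit 1212457895) (nat_lit 0) (nat_lit 813420) (nat_lit 76) (nat_lit 813420) (nat_lit 67) (nat_lit 1) (nat_lit 65) (nat_lit 1) (nat_lit 66) (nat_lit 1) (nat_lit 443) (nat_lit 383) (nat_lit 194)) (XT.lf (nat_lit 0) (nat_lit 397297978) (nat_lit 0) (nat_lit 399585147) (nat_lit 152) (nat_lit 397297978) (nat_lit 65) (nat_lit 3) (nat_lit 65) (nat_lit 1) (nat_lit 67) (nat_lit 1) (nat_lit 444) (nat_lit 383) (nat_lit 193)))) (XT.nd (nat_lit 156) (nat_lit 0) (nat_lit 0) (XT.nd (nat_lit 78) (nat_lit 152) (nat_lit 0) (XT.lf (nat_lit 76) (nat_lit 390187282) (nat_lit 0) (nat_lit 392365539) (nat_lit 76) (nat_lit 392365539) (nat_lit 65) (nat_lit 3) (nat_lit 64) (nat_lit 1) (nat_lit 65) (nat_lit 1) (nat_lit 445) (nat_lit 383) (nat_lit 192))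 (XT.lf (nat_lit 152) (nat_lit 1154927748) (nat_lit 0) (nat_lit 669203) (nat_lit 76) (nat_lit 669203) (nat_lit 64) (nat_lit 1) (nat_lit 62) (nat_lit 1) (nat_lit 63) (nat_lit 1) (nat_lit 446) (nat_lit 383) (nat_lit 191))) (XT.nd (nat_lit 37908) (nat_lit 0) (nat_lit 17480) (XT.lf (nat_lit 0) (nat_lit 378476271) (nat_lit 0) (nat_lit 380357931) (nat_lit 152) (nat_lit 378476271) (nat_lit 62) (nat_lit 3) (nat_lit 62) (nat_lit 1) (nat_lit 64) (nat_lit 1) (nat_lit 447) (nat_lit 383) (nat_lit 190)) (XT.lf (nat_lit 836) (nat_lit 4598104509) (nat_lit 0) (nat_lit 8163923987) (nat_lit 836) (nat_lit 4598104509) (nat_lit 303) (nat_lit 1) (nat_lit 292) (nat_lit 0) (nat_lit 303) (nat_lit 0) (nat_lit 252) (nat_lit 384) (nat_lit 384))))))) (XT.nd (nat_lit 936) (nat_lit 2280) (nat_lit 0) (XT.nd (nat_lit 468) (nat_lit 912) (nat_lit 0) (XT.nd (nat_lit 234) (nat_lit 0) (nat_lit 152) (XT.nd (nat_lit 78) (nat_lit 0) (nat_lit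 76) (XT.lf (nat_lit 836) (nat_lit 17822827129) (nat_lit 76) (nat_lit 8032247794) (nat_lit 0) (nat_lit 8032247794) (nat_lit 303) (nat_lit 1) (nat_lit 293) (nat_lit 1) (nat_lit 292) (nat_lit 0) (nat_lit 253) (nat_lit 384) (nat_lit 383)) (XT.nd (nat_lit 78) (nat_lit 0) (nat_lit 0) (XT.lf (nat_lit 836) (nat_lit 8494091051) (nat_lit 0) (nat_lit 16091948071) (nat_lit 760) (nat_lit 8494091051) (nat_lit 304) (nat_lit 1) (nat_lit 293) (nat_lit 1) (nat_lit 303) (nat_lit 1) (nat_lit 254) (nat_lit 384) (nat_lit 382)) (XT.lf (nat_lit 836) (nat_lit 15933734529) (nat_lit 76) (nat_lit 8182640717) (nat_lit 0) (nat_lit 8182640717) (nat_lit 304) (nat_lit 1) (nat_lit 294) (nat_lit 1) (nat_lit 293) (nat_lit 1) (nat_lit 255) (nat_lit 384) (nat_lit 381)))) (XT.nd (nat_lit 78) (nat_lit 0) (nat_lit 0) (XT.lf (nat_lit 836) (nat_lit 7334144990) (nat_lit 0) (nat_lit 16874369175) (nat_lit 760) (nat_lit 7334144990) (nat_lit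 305) (nat_lit 1) (nat_lit 294) (nat_lit 1) (nat_lit 304) (nat_lit 1) (nat_lit 256) (nat_lit 384) (nat_lit 380)) (XT.nd (nat_lit 78) (nat_lit 0) (nat_lit 76) (XT.lf (nat_lit 836) (nat_lit 13190937453) (nat_lit 76) (nat_lit 8809210771) (nat_lit 0) (nat_lit 8809210771) (nat_lit 305) (nat_lit 1) (nat_lit 295) (nat_lit 1) (nat_lit 294) (nat_lit 1) (nat_lit 257) (nat_lit 384) (nat_lit 379)) (XT.lf (nat_lit 836) (nat_lit 5783845084) (nat_lit 0) (nat_lit 18532990345) (nat_lit 760) (nat_lit 5783845084) (nat_lit 306) (nat_lit 1) (nat_lit 295) (nat_lit 1) (nat_lit 305) (nat_lit 1) (nat_lit 258) (nat_lit 384) (nat_lit 378))))) (XT.nd (nat_lit 234) (nat_lit 1140) (nat_lit 0) (XT.nd (nat_lit 78) (nat_lit 0) (nat_lit 76) (XT.lf (nat_lit 836) (nat_lit 9722821175) (nat_lit 76) (nat_lit 9844346602) (nat_lit 0) (nat_lit 9844346602) (nat_lit 306) (nat_lit 1) (nat_lit 296) (nat_lit 1) (nat_lit 295) (nat_lit 1) (nat_lit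 259) (nat_lit 384) (nat_lit 377)) (XT.nd (nat_lit 78) (nat_lit 0) (nat_lit 0) (XT.lf (nat_lit 836) (nat_lit 3903206287) (nat_lit 0) (nat_lit 20941163080) (nat_lit 760) (nat_lit 3903206287) (nat_lit 307) (nat_lit 1) (nat_lit 296) (nat_lit 1) (nat_lit 306) (nat_lit 1) (nat_lit 260) (nat_lit 384) (nat_lit 376)) (XT.lf (nat_lit 836) (nat_lit 5643500832) (nat_lit 76) (nat_lit 11227834193) (nat_lit 0) (nat_lit 11227834193) (nat_lit 307) (nat_lit 1) (nat_lit 297) (nat_lit 1) (nat_lit 296) (nat_lit 1) (nat_lit 261) (nat_lit 384) (nat_lit 375)))) (XT.nd (nat_lit 78) (nat_lit 1292) (nat_lit 0) (XT.lf (nat_lit 76) (nat_lit 1745534240) (nat_lit 0) (nat_lit 23986165255) (nat_lit 760) (nat_lit 1745534240) (nat_lit 298) (nat_lit 1) (nat_lit 297) (nat_lit 1) (nat_lit 307) (nat_lit 1) (nat_lit 262) (nat_lit 384) (nat_lit 374)) (XT.nd (nat_lit 78) (nat_lit 532) (nat_lit 0) (XT.lf (nat_lit 836) (nat_lit 1054259273)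 (nat_lit 0) (nat_lit 12906116200) (nat_lit 760) (nat_lit 12906116200) (nat_lit 298) (nat_lit 1) (nat_lit 287) (nat_lit 1) (nat_lit 297) (nat_lit 1) (nat_lit 263) (nat_lit 384) (nat_lit 373)) (XT.lf (nat_lit 532) (nat_lit 25018900257) (nat_lit 0) (nat_lit 631543989) (nat_lit 456) (nat_lit 631543989) (nat_lit 287) (nat_lit 1) (nat_lit 280) (nat_lit 1) (nat_lit 286) (nat_lit 1) (nat_lit 264) (nat_lit 384) (nat_lit 372)))))) (XT.nd (nat_lit 468) (nat_lit 1216) (nat_lit 0) (XT.nd (nat_lit 234) (nat_lit 684) (nat_lit 0) (XT.nd (nat_lit 78) (nat_lit 380) (nat_lit 0) (XT.lf (nat_lit 76) (nat_lit 10938219648) (nat_lit 0) (nat_lit 3828564432) (nat_lit 532) (nat_lit 10938219648) (nat_lit 281) (nat_lit 1) (nat_lit 280) (nat_lit 1) (nat_lit 287) (nat_lit 1) (nat_lit 265) (nat_lit 384) (nat_lit 371)) (XT.nd (nat_lit 78) (nat_lit 0) (nat_lit 0) (XT.lf (nat_lit 456) (nat_lit 18821868295) (nat_lit 0) (nat_lit 3165342927)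 (nat_lit 380) (nat_lit 3165342927) (nat_lit 281) (nat_lit 1) (nat_lit 275) (nat_lit 1) (nat_lit 280) (nat_lit 1) (nat_lit 266) (nat_lit 384) (nat_lit 370)) (XT.lf (nat_lit 76) (nat_lit 7802098919) (nat_lit 0) (nat_lit 9007520750) (nat_lit 456) (nat_lit 7802098919) (nat_lit 276) (nat_lit 1) (nat_lit 275) (nat_lit 1) (nat_lit 281) (nat_lit 1) (nat_lit 267) (nat_lit 384) (nat_lit 369)))) (XT.nd (nat_lit 78) (nat_lit 304) (nat_lit 0) (XT.lf (nat_lit 456) (nat_lit 12394467191) (nat_lit 0) (nat_lit 5847625846) (nat_lit 380) (nat_lit 5847625846) (nat_lit 276) (nat_lit 1) (nat_lit 270) (nat_lit 1) (nat_lit 275) (nat_lit 1) (nat_lit 268) (nat_lit 384) (nat_lit 368)) (XT.nd (nat_lit 78) (nat_lit 304) (nat_lit 0) (XT.lf (nat_lit 76) (nat_lit 4567196437) (nat_lit 0) (nat_lit 14448507814) (nat_lit 456) (nat_lit 4567196437) (nat_lit 271) (nat_lit 1) (nat_lit 270) (nat_lit 1) (nat_lit 276) (nat_lit 1) (nat_lit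 269) (nat_lit 384) (nat_lit 367)) (XT.lf (nat_lit 380) (nat_lit 5796519742) (nat_lit 0) (nat_lit 8646299893) (nat_lit 304) (nat_lit 8646299893) (nat_lit 271) (nat_lit 1) (nat_lit 266) (nat_lit 1) (nat_lit 270) (nat_lit 1) (nat_lit 270) (nat_lit 384) (nat_lit 366))))) (XT.nd (nat_lit 234) (nat_lit 532) (nat_lit 0) (XT.nd (nat_lit 78) (nat_lit 684) (nat_lit 0) (XT.lf (nat_lit 76) (nat_lit 1261284018) (nat_lit 0) (nat_lit 20091758724) (nat_lit 380) (nat_lit 1261284018) (nat_lit 267) (nat_lit 1) (nat_lit 266) (nat_lit 1) (nat_lit 271) (nat_lit 1) (nat_lit 271) (nat_lit 384) (nat_lit 365)) (XT.nd (nat_lit 78) (nat_lit 304) (nat_lit 0) (XT.lf (nat_lit 76) (nat_lit 10627941566) (nat_lit 0) (nat_lit 890110751) (nat_lit 380) (nat_lit 10627941566) (nat_lit 262) (nat_lit 1) (nat_lit 261) (nat_lit 1) (nat_lit 266) (nat_lit 1) (nat_lit 272) (nat_lit 384) (nat_lit 364)) (XT.lf (nat_lit 380) (nat_lit 17580291394)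 (nat_lit 0) (nat_lit 2057602437) (nat_lit 304) (nat_lit 2057602437) (nat_lit 262) (nat_lit 1) (nat_lit 257) (nat_lit 1) (nat_lit 261) (nat_lit 1) (nat_lit 273) (nat_lit 384) (nat_lit 363)))) (XT.nd (nat_lit 156) (nat_lit 228) (nat_lit 0) (XT.nd (nat_lit 78) (nat_lit 304) (nat_lit 0) (XT.lf (nat_lit 76) (nat_lit 6895763168) (nat_lit 0) (nat_lit 7461200707) (nat_lit 380) (nat_lit 6895763168) (nat_lit 258) (nat_lit 1) (nat_lit 257) (nat_lit 1) (nat_lit 262) (nat_lit 1) (nat_lit 274) (nat_lit 384) (nat_lit 362)) (XT.lf (nat_lit 380) (nat_lit 10062836714) (nat_lit 0) (nat_lit 5381237390) (nat_lit 304) (nat_lit 5381237390) (nat_lit 258) (nat_lit 1) (nat_lit 253) (nat_lit 1) (nat_lit 257) (nat_lit 1) (nat_lit 275) (nat_lit 384) (nat_lit 361))) (XT.nd (nat_lit 78) (nat_lit 228) (nat_lit 0) (XT.lf (nat_lit 76) (nat_lit 3173369602) (nat_lit 0) (nat_lit 14063654411) (nat_lit 380) (nat_lit 3173369602) (nat_lit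 254) (nat_lit 1) (nat_lit 253) (nat_lit 1) (nat_lit 258) (nat_lit 1) (nat_lit 276) (nat_lit 384) (nat_lit 360)) (XT.lf (nat_lit 304) (nat_lit 2580765585) (nat_lit 0) (nat_lit 8711833284) (nat_lit 228) (nat_lit 8711833284) (nat_lit 254) (nat_lit 1) (nat_lit 250) (nat_lit 1) (nat_lit 253) (nat_lit 1) (nat_lit 277) (nat_lit 384) (nat_lit 359))))))))
noncomputable def ec189 : XT := (XT.nd (nat_lit 1950) (nat_lit 2204) (nat_lit 0) (XT.nd (nat_lit 936) (nat_lit 1368) (nat_lit 0) (XT.nd (nat_lit 468) (nat_lit 684) (nat_lit 0) (XT.nd (nat_lit 234) (nat_lit 532) (nat_lit 0) (XT.nd (nat_lit 78) (nat_lit 228) (nat_lit 0) (XT.lf (nat_lit 380) (nat_lit 18582859769) (nat_lit 0) (nat_lit 515638701) (nat_lit 304) (nat_lit 515638701) (nat_lit 250) (nat_lit 1) (nat_lit 245) (nat_lit 1) (nat_lit 249) (nat_lit 1) (nat_lit 278) (nat_lit 384) (nat_lit 358)) (XT.nd (nat_lit 78) (nat_lit 228) (nat_lit 0) (XT.lf (nat_lit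 76) (nat_lit 7271610408) (nat_lit 0) (nat_lit 4682781612) (nat_lit 380) (nat_lit 7271610408) (nat_lit 246) (nat_lit 1) (nat_lit 245) (nat_lit 1) (nat_lit 250) (nat_lit 1) (nat_lit 279) (nat_lit 384) (nat_lit 357)) (XT.lf (nat_lit 304) (nat_lit 10620416888) (nat_lit 0) (nat_lit 4116168398) (nat_lit 228) (nat_lit 4116168398) (nat_lit 246) (nat_lit 1) (nat_lit 242) (nat_lit 1) (nat_lit 245) (nat_lit 1) (nat_lit 280) (nat_lit 384) (nat_lit 356)))) (XT.nd (nat_lit 78) (nat_lit 532) (nat_lit 0) (XT.lf (nat_lit 76) (nat_lit 3355153976) (nat_lit 0) (nat_lit 11778680015) (nat_lit 304) (nat_lit 3355153976) (nat_lit 243) (nat_lit 1) (nat_lit 242) (nat_lit 1) (nat_lit 246) (nat_lit 1) (nat_lit 281) (nat_lit 384) (nat_lit 355)) (XT.nd (nat_lit 78) (nat_lit 304) (nat_lit 0) (XT.lf (nat_lit 304) (nat_lit 2796415969) (nat_lit 0) (nat_lit 7668540925) (nat_lit 228) (nat_lit 7668540925) (nat_lit 243) (nat_lit 1)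 (nat_lit 239) (nat_lit 1) (nat_lit 242) (nat_lit 1) (nat_lit 282) (nat_lit 384) (nat_lit 354)) (XT.lf (nat_lit 304) (nat_lit 16830028643) (nat_lit 0) (nat_lit 480592971) (nat_lit 228) (nat_lit 480592971) (nat_lit 239) (nat_lit 1) (nat_lit 235) (nat_lit 1) (nat_lit 238) (nat_lit 1) (nat_lit 283) (nat_lit 384) (nat_lit 353))))) (XT.nd (nat_lit 234) (nat_lit 456) (nat_lit 0) (XT.nd (nat_lit 78) (nat_lit 228) (nat_lit 0) (XT.lf (nat_lit 76) (nat_lit 6366317854) (nat_lit 0) (nat_lit 4717377604) (nat_lit 304) (nat_lit 6366317854) (nat_lit 236) (nat_lit 1) (nat_lit 235) (nat_lit 1) (nat_lit 239) (nat_lit 1) (nat_lit 284) (nat_lit 384) (nat_lit 352)) (XT.nd (nat_lit 78) (nat_lit 0) (nat_lit 0) (XT.lf (nat_lit 304) (nat_lit 8754269986) (nat_lit 0) (nat_lit 4183583277) (nat_lit 228) (nat_lit 4183583277) (nat_lit 236) (nat_lit 1) (nat_lit 232) (nat_lit 1) (nat_lit 235) (nat_lit 1) (nat_lit 285) (nat_lit 384)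 (nat_lit 351)) (XT.lf (nat_lit 76) (nat_lit 2410918814) (nat_lit 0) (nat_lit 11979834721) (nat_lit 304) (nat_lit 2410918814) (nat_lit 233) (nat_lit 1) (nat_lit 232) (nat_lit 1) (nat_lit 236) (nat_lit 1) (nat_lit 286) (nat_lit 384) (nat_lit 350)))) (XT.nd (nat_lit 78) (nat_lit 304) (nat_lit 0) (XT.lf (nat_lit 228) (nat_lit 883440815) (nat_lit 0) (nat_lit 7802246553) (nat_lit 152) (nat_lit 7802246553) (nat_lit 233) (nat_lit 1) (nat_lit 230) (nat_lit 1) (nat_lit 232) (nat_lit 1) (nat_lit 287) (nat_lit 384) (nat_lit 349)) (XT.nd (nat_lit 78) (nat_lit 0) (nat_lit 0) (XT.lf (nat_lit 304) (nat_lit 13348494485) (nat_lit 0) (nat_lit 1417706868) (nat_lit 228) (nat_lit 1417706868) (nat_lit 230) (nat_lit 1) (nat_lit 226) (nat_lit 1) (nat_lit 229) (nat_lit 1) (nat_lit 288) (nat_lit 384) (nat_lit 348)) (XT.lf (nat_lit 76) (nat_lit 4662312268) (nat_lit 0) (nat_lit 6558658221) (nat_lit 304) (nat_lit 4662312268)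 (nat_lit 227) (nat_lit 1) (nat_lit 226) (nat_lit 1) (nat_lit 230) (nat_lit 1) (nat_lit 289) (nat_lit 384) (nat_lit 347)))))) (XT.nd (nat_lit 468) (nat_lit 684) (nat_lit 0) (XT.nd (nat_lit 234) (nat_lit 304) (nat_lit 0) (XT.nd (nat_lit 78) (nat_lit 228) (nat_lit 0) (XT.lf (nat_lit 228) (nat_lit 5386582634) (nat_lit 0) (nat_lit 5102676393) (nat_lit 152) (nat_lit 5102676393) (nat_lit 227) (nat_lit 1) (nat_lit 224) (nat_lit 1) (nat_lit 226) (nat_lit 1) (nat_lit 290) (nat_lit 384) (nat_lit 346)) (XT.nd (nat_lit 78) (nat_lit 228) (nat_lit 0) (XT.lf (nat_lit 76) (nat_lit 773880951) (nat_lit 0) (nat_lit 13762494881) (nat_lit 228) (nat_lit 773880951) (nat_lit 225) (nat_lit 1) (nat_lit 224) (nat_lit 1) (nat_lit 227) (nat_lit 1) (nat_lit 291) (nat_lit 384) (nat_lit 345)) (XT.lf (nat_lit 76) (nat_lit 6386975264) (nat_lit 0) (nat_lit 2255651539) (nat_lit 228) (nat_lit 6386975264) (nat_lit 222) (nat_lit 1) (nat_lit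 221) (nat_lit 1) (nat_lit 224) (nat_lit 1) (nat_lit 292) (nat_lit 384) (nat_lit 344)))) (XT.nd (nat_lit 78) (nat_lit 152) (nat_lit 0) (XT.lf (nat_lit 228) (nat_lit 8869434568) (nat_lit 0) (nat_lit 2944411968) (nat_lit 152) (nat_lit 2944411968) (nat_lit 222) (nat_lit 1) (nat_lit 219) (nat_lit 1) (nat_lit 221) (nat_lit 1) (nat_lit 293) (nat_lit 384) (nat_lit 343)) (XT.nd (nat_lit 78) (nat_lit 152) (nat_lit 0) (XT.lf (nat_lit 76) (nat_lit 2502723686) (nat_lit 0) (nat_lit 9487464853) (nat_lit 228) (nat_lit 2502723686) (nat_lit 220) (nat_lit 1) (nat_lit 219) (nat_lit 1) (nat_lit 222) (nat_lit 1) (nat_lit 294) (nat_lit 384) (nat_lit 342)) (XT.lf (nat_lit 228) (nat_lit 1172435940) (nat_lit 0) (nat_lit 6530239352) (nat_lit 152) (nat_lit 6530239352) (nat_lit 220) (nat_lit 1) (nat_lit 217) (nat_lit 1) (nat_lit 219) (nat_lit 1) (nat_lit 295) (nat_lit 384) (nat_lit 341))))) (XT.nd (nat_lit 234) (nat_lit 304)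 (nat_lit 0) (XT.nd (nat_lit 78) (nat_lit 152) (nat_lit 0) (XT.lf (nat_lit 228) (nat_lit 11523457868) (nat_lit 0) (nat_lit 1228496413) (nat_lit 152) (nat_lit 1228496413) (nat_lit 217) (nat_lit 1) (nat_lit 214) (nat_lit 1) (nat_lit 216) (nat_lit 1) (nat_lit 296) (nat_lit 384) (nat_lit 340)) (XT.nd (nat_lit 78) (nat_lit 152) (nat_lit 0) (XT.lf (nat_lit 76) (nat_lit 3836187363) (nat_lit 0) (nat_lit 6057766772) (nat_lit 228) (nat_lit 3836187363) (nat_lit 215) (nat_lit 1) (nat_lit 214) (nat_lit 1) (nat_lit 217) (nat_lit 1) (nat_lit 297) (nat_lit 384) (nat_lit 339)) (XT.lf (nat_lit 228) (nat_lit 3906970580) (nat_lit 0) (nat_lit 4790064272) (nat_lit 152) (nat_lit 4790064272) (nat_lit 215) (nat_lit 1) (nat_lit 212) (nat_lit 1) (nat_lit 214) (nat_lit 1) (nat_lit 298) (nat_lit 384) (nat_lit 338)))) (XT.nd (nat_lit 156) (nat_lit 152) (nat_lit 0) (XT.nd (nat_lit 78) (nat_lit 152) (nat_lit 0) (XT.lf (nat_lit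 76) (nat_lit 128411347) (nat_lit 0) (nat_lit 12995757562) (nat_lit 228) (nat_lit 128411347) (nat_lit 213) (nat_lit 1) (nat_lit 212) (nat_lit 1) (nat_lit 215) (nat_lit 1) (nat_lit 299) (nat_lit 384) (nat_lit 337)) (XT.lf (nat_lit 76) (nat_lit 4848603116) (nat_lit 0) (nat_lit 3319364437) (nat_lit 152) (nat_lit 4848603116) (nat_lit 211) (nat_lit 1) (nat_lit 210) (nat_lit 1) (nat_lit 212) (nat_lit 1) (nat_lit 300) (nat_lit 384) (nat_lit 336))) (XT.nd (nat_lit 78) (nat_lit 0) (nat_lit 0) (XT.lf (nat_lit 228) (nat_lit 6016564489) (nat_lit 0) (nat_lit 3386150298) (nat_lit 152) (nat_lit 3386150298) (nat_lit 211) (nat_lit 1) (nat_lit 208) (nat_lit 1) (nat_lit 210) (nat_lit 1) (nat_lit 301) (nat_lit 384) (nat_lit 335)) (XT.lf (nat_lit 76) (nat_lit 1206279598) (nat_lit 0) (nat_lit 10154746657) (nat_lit 228) (nat_lit 1206279598) (nat_lit 209) (nat_lit 1) (nat_lit 208) (nat_lit 1) (nat_lit 211) (nat_lit 1)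 (nat_lit 302) (nat_lit 384) (nat_lit 334))))))) (XT.nd (nat_lit 1014) (nat_lit 912) (nat_lit 0) (XT.nd (nat_lit 468) (nat_lit 684) (nat_lit 0) (XT.nd (nat_lit 234) (nat_lit 304) (nat_lit 0) (XT.nd (nat_lit 78) (nat_lit 152) (nat_lit 0) (XT.lf (nat_lit 76) (nat_lit 5600921858) (nat_lit 0) (nat_lit 1145730024) (nat_lit 152) (nat_lit 5600921858) (nat_lit 207) (nat_lit 1) (nat_lit 206) (nat_lit 1) (nat_lit 208) (nat_lit 1) (nat_lit 303) (nat_lit 384) (nat_lit 333)) (XT.nd (nat_lit 78) (nat_lit 0) (nat_lit 0) (XT.lf (nat_lit 228) (nat_lit 7618690233) (nat_lit 0) (nat_lit 2257558580) (nat_lit 152) (nat_lit 2257558580) (nat_lit 207) (nat_lit 1) (nat_lit 204) (nat_lit 1) (nat_lit 206) (nat_lit 1) (nat_lit 304) (nat_lit 384) (nat_lit 332)) (XT.lf (nat_lit 76) (nat_lit 2040633272) (nat_lit 0) (nat_lit 7843006395) (nat_lit 228) (nat_lit 2040633272) (nat_lit 205) (nat_lit 1) (nat_lit 204) (nat_lit 1) (nat_lit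 207) (nat_lit 1) (nat_lit 305) (nat_lit 384) (nat_lit 331)))) (XT.nd (nat_lit 78) (nat_lit 228) (nat_lit 0) (XT.lf (nat_lit 152) (nat_lit 585791500) (nat_lit 0) (nat_lit 5566450501) (nat_lit 76) (nat_lit 5566450501) (nat_lit 205) (nat_lit 1) (nat_lit 203) (nat_lit 1) (nat_lit 204) (nat_lit 1) (nat_lit 306) (nat_lit 384) (nat_lit 330)) (XT.nd (nat_lit 78) (nat_lit 0) (nat_lit 0) (XT.lf (nat_lit 228) (nat_lit 8809675059) (nat_lit 0) (nat_lit 1354217459) (nat_lit 152) (nat_lit 1354217459) (nat_lit 203) (nat_lit 1) (nat_lit 200) (nat_lit 1) (nat_lit 202) (nat_lit 1) (nat_lit 307) (nat_lit 384) (nat_lit 329)) (XT.lf (nat_lit 76) (nat_lit 2677142673) (nat_lit 0) (nat_lit 5965480952) (nat_lit 228) (nat_lit 2677142673) (nat_lit 201) (nat_lit 1) (nat_lit 200) (nat_lit 1) (nat_lit 203) (nat_lit 1) (nat_lit 308) (nat_lit 384) (nat_lit 328))))) (XT.nd (nat_lit 234) (nat_lit 380) (nat_lit 0) (XT.nd (nat_lit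 78) (nat_lit 228) (nat_lit 0) (XT.lf (nat_lit 152) (nat_lit 1967220566) (nat_lit 0) (nat_lit 4579532603) (nat_lit 76) (nat_lit 4579532603) (nat_lit 201) (nat_lit 1) (nat_lit 199) (nat_lit 1) (nat_lit 200) (nat_lit 1) (nat_lit 309) (nat_lit 384) (nat_lit 327)) (XT.nd (nat_lit 78) (nat_lit 0) (nat_lit 0) (XT.lf (nat_lit 228) (nat_lit 9668465044) (nat_lit 0) (nat_lit 634992748) (nat_lit 152) (nat_lit 634992748) (nat_lit 199) (nat_lit 1) (nat_lit 196) (nat_lit 1) (nat_lit 198) (nat_lit 1) (nat_lit 310) (nat_lit 384) (nat_lit 326)) (XT.lf (nat_lit 76) (nat_lit 3153262026) (nat_lit 0) (nat_lit 4444025638) (nat_lit 228) (nat_lit 3153262026) (nat_lit 197) (nat_lit 1) (nat_lit 196) (nat_lit 1) (nat_lit 199) (nat_lit 1) (nat_lit 311) (nat_lit 384) (nat_lit 325)))) (XT.nd (nat_lit 156) (nat_lit 76) (nat_lit 0) (XT.nd (nat_lit 78) (nat_lit 228) (nat_lit 0) (XT.lf (nat_lit 152) (nat_lit 3032997656) (nat_lit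 0) (nat_lit 3767592806) (nat_lit 76) (nat_lit 3767592806) (nat_lit 197) (nat_lit 1) (nat_lit 195) (nat_lit 1) (nat_lit 196) (nat_lit 1) (nat_lit 312) (nat_lit 384) (nat_lit 324)) (XT.lf (nat_lit 228) (nat_lit 10259721140) (nat_lit 0) (nat_lit 66100290) (nat_lit 152) (nat_lit 66100290) (nat_lit 195) (nat_lit 1) (nat_lit 192) (nat_lit 1) (nat_lit 194) (nat_lit 1) (nat_lit 313) (nat_lit 384) (nat_lit 323))) (XT.nd (nat_lit 78) (nat_lit 76) (nat_lit 0) (XT.lf (nat_lit 76) (nat_lit 3499691829) (nat_lit 0) (nat_lit 3214405838) (nat_lit 228) (nat_lit 3499691829) (nat_lit 193) (nat_lit 1) (nat_lit 192) (nat_lit 1) (nat_lit 195) (nat_lit 1) (nat_lit 314) (nat_lit 384) (nat_lit 322)) (XT.lf (nat_lit 152) (nat_lit 3842455086) (nat_lit 0) (nat_lit 3099607925) (nat_lit 76) (nat_lit 3099607925) (nat_lit 193) (nat_lit 1) (nat_lit 191) (nat_lit 1) (nat_lit 192) (nat_lit 1) (nat_lit 315) (nat_lit 384) (nat_lit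 321)))))) (XT.nd (nat_lit 468) (nat_lit 456) (nat_lit 0) (XT.nd (nat_lit 234) (nat_lit 228) (nat_lit 0) (XT.nd (nat_lit 78) (nat_lit 228) (nat_lit 0) (XT.lf (nat_lit 0) (nat_lit 386432689) (nat_lit 0) (nat_lit 9101883546) (nat_lit 152) (nat_lit 386432689) (nat_lit 191) (nat_lit 3) (nat_lit 191) (nat_lit 1) (nat_lit 193) (nat_lit 1) (nat_lit 316) (nat_lit 384) (nat_lit 320)) (XT.nd (nat_lit 78) (nat_lit 76) (nat_lit 0) (XT.lf (nat_lit 76) (nat_lit 3741581658) (nat_lit 0) (nat_lit 2223828160) (nat_lit 152) (nat_lit 3741581658) (nat_lit 190) (nat_lit 1) (nat_lit 189) (nat_lit 1) (nat_lit 191) (nat_lit 1) (nat_lit 317) (nat_lit 384) (nat_lit 319)) (XT.lf (nat_lit 152) (nat_lit 4444245315) (nat_lit 0) (nat_lit 2550055111) (nat_lit 76) (nat_lit 2550055111) (nat_lit 190) (nat_lit 1) (nat_lit 188) (nat_lit 1) (nat_lit 189) (nat_lit 1) (nat_lit 318) (nat_lit 384) (nat_lit 318)))) (XT.nd (nat_lit 78) (nat_lit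 228) (nat_lit 0) (XT.lf (nat_lit 0) (nat_lit 738590607) (nat_lit 0) (nat_lit 7908813597) (nat_lit 152) (nat_lit 738590607) (nat_lit 188) (nat_lit 3) (nat_lit 188) (nat_lit 1) (nat_lit 190) (nat_lit 1) (nat_lit 319) (nat_lit 384) (nat_lit 317)) (XT.nd (nat_lit 78) (nat_lit 76) (nat_lit 0) (XT.lf (nat_lit 76) (nat_lit 3899519470) (nat_lit 0) (nat_lit 1428909428) (nat_lit 152) (nat_lit 3899519470) (nat_lit 187) (nat_lit 1) (nat_lit 186) (nat_lit 1) (nat_lit 188) (nat_lit 1) (nat_lit 320) (nat_lit 384) (nat_lit 316)) (XT.lf (nat_lit 152) (nat_lit 4878242103) (nat_lit 0) (nat_lit 2097936651) (nat_lit 76) (nat_lit 2097936651) (nat_lit 187) (nat_lit 1) (nat_lit 185) (nat_lit 1) (nat_lit 186) (nat_lit 1) (nat_lit 321) (nat_lit 384) (nat_lit 315))))) (XT.nd (nat_lit 234) (nat_lit 228) (nat_lit 0) (XT.nd (nat_lit 78) (nat_lit 228) (nat_lit 0) (XT.lf (nat_lit 0) (nat_lit 1008279823) (nat_lit 0) (nat_lit 6907240021)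 (nat_lit 152) (nat_lit 1008279823) (nat_lit 185) (nat_lit 3) (nat_lit 185) (nat_lit 1) (nat_lit 187) (nat_lit 1) (nat_lit 322) (nat_lit 384) (nat_lit 314)) (XT.nd (nat_lit 78) (nat_lit 76) (nat_lit 0) (XT.lf (nat_lit 76) (nat_lit 3990345252) (nat_lit 0) (nat_lit 794005892) (nat_lit 152) (nat_lit 3990345252) (nat_lit 184) (nat_lit 1) (nat_lit 183) (nat_lit 1) (nat_lit 185) (nat_lit 1) (nat_lit 323) (nat_lit 384) (nat_lit 313)) (XT.lf (nat_lit 152) (nat_lit 5177104216) (nat_lit 0) (nat_lit 1725977674) (nat_lit 76) (nat_lit 1725977674) (nat_lit 184) (nat_lit 1) (nat_lit 182) (nat_lit 1) (nat_lit 183) (nat_lit 1) (nat_lit 324) (nat_lit 384) (nat_lit 312)))) (XT.nd (nat_lit 156) (nat_lit 76) (nat_lit 0) (XT.nd (nat_lit 78) (nat_lit 152) (nat_lit 0) (XT.lf (nat_lit 0) (nat_lit 1211075737) (nat_lit 0) (nat_lit 6064164890) (nat_lit 152) (nat_lit 1211075737) (nat_lit 182) (nat_lit 3) (nat_lit 182) (nat_lit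 1) (nat_lit 184) (nat_lit 1) (nat_lit 325) (nat_lit 384) (nat_lit 311)) (XT.lf (nat_lit 76) (nat_lit 4027820185) (nat_lit 0) (nat_lit 289838773) (nat_lit 152) (nat_lit 4027820185) (nat_lit 181) (nat_lit 1) (nat_lit 180) (nat_lit 1) (nat_lit 182) (nat_lit 1) (nat_lit 326) (nat_lit 384) (nat_lit 310))) (XT.nd (nat_lit 78) (nat_lit 0) (nat_lit 0) (XT.lf (nat_lit 152) (nat_lit 5367561560) (nat_lit 0) (nat_lit 1419966104) (nat_lit 76) (nat_lit 1419966104) (nat_lit 181) (nat_lit 1) (nat_lit 179) (nat_lit 1) (nat_lit 180) (nat_lit 1) (nat_lit 327) (nat_lit 384) (nat_lit 309)) (XT.lf (nat_lit 0) (nat_lit 1359746845) (nat_lit 0) (nat_lit 5352395302) (nat_lit 152) (nat_lit 1359746845) (nat_lit 179) (nat_lit 3) (nat_lit 179) (nat_lit 1) (nat_lit 181) (nat_lit 1) (nat_lit 328) (nat_lit 384) (nat_lit 308))))))))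
noncomputable def ec190 : XT := (XT.nd (nat_lit 1950) (nat_lit 1976) (nat_lit 0) (XT.nd (nat_lit 936) (nat_lit 988) (nat_lit 0) (XT.nd (nat_lit 468) (nat_lit 456) (nat_lit 0) (XT.nd (nat_lit 234) (nat_lit 228) (nat_lit 0) (XT.nd (nat_lit 78) (nat_lit 152) (nat_lit 0) (XT.lf (nat_lit 76) (nat_lit 111195335) (nat_lit 0) (nat_lit 3913717675) (nat_lit 76) (nat_lit 3913717675) (nat_lit 179) (nat_lit 3) (nat_lit 178) (nat_lit 1) (nat_lit 179) (nat_lit 1) (nat_lit 329) (nat_lit 384) (nat_lit 307)) (XT.nd (nat_lit 78) (nat_lit 0) (nat_lit 0) (XT.lf (nat_lit 152) (nat_lit 5471472950) (nat_lit 0) (nat_lit 1168209628) (nat_lit 76) (nat_lit 1168209628) (nat_lit 178) (nat_lit 1) (nat_lit 176) (nat_lit 1) (nat_lit 177) (nat_lit 1) (nat_lit 330) (nat_lit 384) (nat_lit 306)) (XT.lf (nat_lit 0) (nat_lit 1464754560) (nat_lit 0) (nat_lit 4749516327) (nat_lit 152) (nat_lit 1464754560) (nat_lit 176) (nat_lit 3) (nat_lit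 176) (nat_lit 1) (nat_lit 178) (nat_lit 1) (nat_lit 331) (nat_lit 384) (nat_lit 305)))) (XT.nd (nat_lit 78) (nat_lit 152) (nat_lit 0) (XT.lf (nat_lit 76) (nat_lit 431986087) (nat_lit 0) (nat_lit 3560330626) (nat_lit 76) (nat_lit 3560330626) (nat_lit 176) (nat_lit 3) (nat_lit 175) (nat_lit 1) (nat_lit 176) (nat_lit 1) (nat_lit 332) (nat_lit 384) (nat_lit 304)) (XT.nd (nat_lit 78) (nat_lit 0) (nat_lit 0) (XT.lf (nat_lit 152) (nat_lit 5506696023) (nat_lit 0) (nat_lit 961088952) (nat_lit 76) (nat_lit 961088952) (nat_lit 175) (nat_lit 1) (nat_lit 173) (nat_lit 1) (nat_lit 174) (nat_lit 1) (nat_lit 333) (nat_lit 384) (nat_lit 303)) (XT.lf (nat_lit 0) (nat_lit 1534664312) (nat_lit 0) (nat_lit 4237045946) (nat_lit 152) (nat_lit 1534664312) (nat_lit 173) (nat_lit 3) (nat_lit 173) (nat_lit 1) (nat_lit 175) (nat_lit 1) (nat_lit 334) (nat_lit 384) (nat_lit 302))))) (XT.nd (nat_lit 234) (nat_lit 228) (nat_lit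 0) (XT.nd (nat_lit 78) (nat_lit 152) (nat_lit 0) (XT.lf (nat_lit 76) (nat_lit 679686889) (nat_lit 0) (nat_lit 3253383684) (nat_lit 76) (nat_lit 3253383684) (nat_lit 173) (nat_lit 3) (nat_lit 172) (nat_lit 1) (nat_lit 173) (nat_lit 1) (nat_lit 335) (nat_lit 384) (nat_lit 301)) (XT.nd (nat_lit 78) (nat_lit 0) (nat_lit 0) (XT.lf (nat_lit 152) (nat_lit 5487802624) (nat_lit 0) (nat_lit 790690259) (nat_lit 76) (nat_lit 790690259) (nat_lit 172) (nat_lit 1) (nat_lit 170) (nat_lit 1) (nat_lit 171) (nat_lit 1) (nat_lit 336) (nat_lit 384) (nat_lit 300)) (XT.lf (nat_lit 0) (nat_lit 1576483661) (nat_lit 0) (nat_lit 3799739720) (nat_lit 152) (nat_lit 1576483661) (nat_lit 170) (nat_lit 3) (nat_lit 170) (nat_lit 1) (nat_lit 172) (nat_lit 1) (nat_lit 337) (nat_lit 384) (nat_lit 299)))) (XT.nd (nat_lit 78) (nat_lit 152) (nat_lit 0) (XT.lf (nat_lit 76) (nat_lit 868028530) (nat_lit 0) (nat_lit 2985415253) (nat_lit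 76) (nat_lit 2985415253) (nat_lit 170) (nat_lit 3) (nat_lit 169) (nat_lit 1) (nat_lit 170) (nat_lit 1) (nat_lit 338) (nat_lit 384) (nat_lit 298)) (XT.nd (nat_lit 78) (nat_lit 0) (nat_lit 0) (XT.lf (nat_lit 152) (nat_lit 5426667064) (nat_lit 0) (nat_lit 650502833) (nat_lit 76) (nat_lit 650502833) (nat_lit 169) (nat_lit 1) (nat_lit 167) (nat_lit 1) (nat_lit 168) (nat_lit 1) (nat_lit 339) (nat_lit 384) (nat_lit 297)) (XT.lf (nat_lit 0) (nat_lit 1595940375) (nat_lit 0) (nat_lit 3425018636) (nat_lit 152) (nat_lit 1595940375) (nat_lit 167) (nat_lit 3) (nat_lit 167) (nat_lit 1) (nat_lit 169) (nat_lit 1) (nat_lit 340) (nat_lit 384) (nat_lit 296)))))) (XT.nd (nat_lit 468) (nat_lit 532) (nat_lit 0) (XT.nd (nat_lit 234) (nat_lit 228) (nat_lit 0) (XT.nd (nat_lit 78) (nat_lit 152) (nat_lit 0) (XT.lf (nat_lit 76) (nat_lit 1008270596) (nat_lit 0) (nat_lit 2750249892) (nat_lit 76) (nat_lit 2750249892) (nat_lit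 167) (nat_lit 3) (nat_lit 166) (nat_lit 1) (nat_lit 167) (nat_lit 1) (nat_lit 341) (nat_lit 384) (nat_lit 295)) (XT.nd (nat_lit 78) (nat_lit 0) (nat_lit 0) (XT.lf (nat_lit 152) (nat_lit 5332949818) (nat_lit 0) (nat_lit 535170290) (nat_lit 76) (nat_lit 535170290) (nat_lit 166) (nat_lit 1) (nat_lit 164) (nat_lit 1) (nat_lit 165) (nat_lit 1) (nat_lit 342) (nat_lit 384) (nat_lit 294)) (XT.lf (nat_lit 0) (nat_lit 1597711111) (nat_lit 0) (nat_lit 3102498323) (nat_lit 152) (nat_lit 1597711111) (nat_lit 164) (nat_lit 3) (nat_lit 164) (nat_lit 1) (nat_lit 166) (nat_lit 1) (nat_lit 343) (nat_lit 384) (nat_lit 293)))) (XT.nd (nat_lit 78) (nat_lit 152) (nat_lit 0) (XT.lf (nat_lit 76) (nat_lit 1109641358) (nat_lit 0) (nat_lit 2542772036) (nat_lit 76) (nat_lit 2542772036) (nat_lit 164) (nat_lit 3) (nat_lit 163) (nat_lit 1) (nat_lit 164) (nat_lit 1) (nat_lit 344) (nat_lit 384) (nat_lit 292)) (XT.nd (nat_lit 78)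 (nat_lit 0) (nat_lit 0) (XT.lf (nat_lit 152) (nat_lit 5214495199) (nat_lit 0) (nat_lit 440285922) (nat_lit 76) (nat_lit 440285922) (nat_lit 163) (nat_lit 1) (nat_lit 161) (nat_lit 1) (nat_lit 162) (nat_lit 1) (nat_lit 345) (nat_lit 384) (nat_lit 291)) (XT.lf (nat_lit 0) (nat_lit 1585609470) (nat_lit 0) (nat_lit 2823601634) (nat_lit 152) (nat_lit 1585609470) (nat_lit 161) (nat_lit 3) (nat_lit 161) (nat_lit 1) (nat_lit 163) (nat_lit 1) (nat_lit 346) (nat_lit 384) (nat_lit 290))))) (XT.nd (nat_lit 234) (nat_lit 304) (nat_lit 0) (XT.nd (nat_lit 78) (nat_lit 152) (nat_lit 0) (XT.lf (nat_lit 76) (nat_lit 1179699590) (nat_lit 0) (nat_lit 2358739745) (nat_lit 76) (nat_lit 2358739745) (nat_lit 161) (nat_lit 3) (nat_lit 160) (nat_lit 1) (nat_lit 161) (nat_lit 1) (nat_lit 347) (nat_lit 384) (nat_lit 289)) (XT.nd (nat_lit 78) (nat_lit 0) (nat_lit 0) (XT.lf (nat_lit 152) (nat_lit 5077658282) (nat_lit 0) (nat_lit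 362224318) (nat_lit 76) (nat_lit 362224318) (nat_lit 160) (nat_lit 1) (nat_lit 158) (nat_lit 1) (nat_lit 159) (nat_lit 1) (nat_lit 348) (nat_lit 384) (nat_lit 288)) (XT.lf (nat_lit 0) (nat_lit 1562740631) (nat_lit 0) (nat_lit 2581239847) (nat_lit 152) (nat_lit 1562740631) (nat_lit 158) (nat_lit 3) (nat_lit 158) (nat_lit 1) (nat_lit 160) (nat_lit 1) (nat_lit 349) (nat_lit 384) (nat_lit 287)))) (XT.nd (nat_lit 156) (nat_lit 76) (nat_lit 0) (XT.nd (nat_lit 78) (nat_lit 152) (nat_lit 0) (XT.lf (nat_lit 76) (nat_lit 1224632151) (nat_lit 0) (nat_lit 2194631405) (nat_lit 76) (nat_lit 2194631405) (nat_lit 158) (nat_lit 3) (nat_lit 157) (nat_lit 1) (nat_lit 158) (nat_lit 1) (nat_lit 350) (nat_lit 384) (nat_lit 286)) (XT.lf (nat_lit 152) (nat_lit 4927573631) (nat_lit 0) (nat_lit 298002843) (nat_lit 76) (nat_lit 298002843) (nat_lit 157) (nat_lit 1) (nat_lit 155) (nat_lit 1) (nat_lit 156) (nat_lit 1) (nat_lit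 351) (nat_lit 384) (nat_lit 285))) (XT.nd (nat_lit 78) (nat_lit 76) (nat_lit 0) (XT.lf (nat_lit 0) (nat_lit 1531628485) (nat_lit 0) (nat_lit 2369550311) (nat_lit 152) (nat_lit 1531628485) (nat_lit 155) (nat_lit 3) (nat_lit 155) (nat_lit 1) (nat_lit 157) (nat_lit 1) (nat_lit 352) (nat_lit 384) (nat_lit 284)) (XT.lf (nat_lit 76) (nat_lit 1249498739) (nat_lit 0) (nat_lit 2047519526) (nat_lit 76) (nat_lit 2047519526) (nat_lit 155) (nat_lit 3) (nat_lit 154) (nat_lit 1) (nat_lit 155) (nat_lit 1) (nat_lit 353) (nat_lit 384) (nat_lit 283))))))) (XT.nd (nat_lit 936) (nat_lit 1064) (nat_lit 0) (XT.nd (nat_lit 468) (nat_lit 456) (nat_lit 0) (XT.nd (nat_lit 234) (nat_lit 228) (nat_lit 0) (XT.nd (nat_lit 78) (nat_lit 76) (nat_lit 0) (XT.lf (nat_lit 152) (nat_lit 4768376161) (nat_lit 0) (nat_lit 245167676) (nat_lit 76) (nat_lit 245167676) (nat_lit 154) (nat_lit 1) (nat_lit 152) (nat_lit 1) (nat_lit 153) (nat_lit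 1) (nat_lit 354) (nat_lit 384) (nat_lit 282)) (XT.nd (nat_lit 78) (nat_lit 76) (nat_lit 0) (XT.lf (nat_lit 0) (nat_lit 1494320164) (nat_lit 0) (nat_lit 2183680524) (nat_lit 152) (nat_lit 1494320164) (nat_lit 152) (nat_lit 3) (nat_lit 152) (nat_lit 1) (nat_lit 154) (nat_lit 1) (nat_lit 355) (nat_lit 384) (nat_lit 281)) (XT.lf (nat_lit 76) (nat_lit 1258433169) (nat_lit 0) (nat_lit 1914966846) (nat_lit 76) (nat_lit 1914966846) (nat_lit 152) (nat_lit 3) (nat_lit 151) (nat_lit 1) (nat_lit 152) (nat_lit 1) (nat_lit 356) (nat_lit 384) (nat_lit 280)))) (XT.nd (nat_lit 78) (nat_lit 76) (nat_lit 0) (XT.lf (nat_lit 152) (nat_lit 4603382620) (nat_lit 0) (nat_lit 201700054) (nat_lit 76) (nat_lit 201700054) (nat_lit 151) (nat_lit 1) (nat_lit 149) (nat_lit 1) (nat_lit 150) (nat_lit 1) (nat_lit 357) (nat_lit 384) (nat_lit 279)) (XT.nd (nat_lit 78) (nat_lit 76) (nat_lit 0) (XT.lf (nat_lit 0) (nat_lit 1452471964)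 (nat_lit 0) (nat_lit 2019610438) (nat_lit 152) (nat_lit 1452471964) (nat_lit 149) (nat_lit 3) (nat_lit 149) (nat_lit 1) (nat_lit 151) (nat_lit 1) (nat_lit 358) (nat_lit 384) (nat_lit 278)) (XT.lf (nat_lit 76) (nat_lit 1254808906) (nat_lit 0) (nat_lit 1794940786) (nat_lit 76) (nat_lit 1794940786) (nat_lit 149) (nat_lit 3) (nat_lit 148) (nat_lit 1) (nat_lit 149) (nat_lit 1) (nat_lit 359) (nat_lit 384) (nat_lit 277))))) (XT.nd (nat_lit 234) (nat_lit 228) (nat_lit 0) (XT.nd (nat_lit 78) (nat_lit 76) (nat_lit 0) (XT.lf (nat_lit 152) (nat_lit 4435240705) (nat_lit 0) (nat_lit 165939133) (nat_lit 76) (nat_lit 165939133) (nat_lit 148) (nat_lit 1) (nat_lit 146) (nat_lit 1) (nat_lit 147) (nat_lit 1) (nat_lit 360) (nat_lit 384) (nat_lit 276)) (XT.nd (nat_lit 78) (nat_lit 76) (nat_lit 0) (XT.lf (nat_lit 0) (nat_lit 1407419961) (nat_lit 0) (nat_lit 1874006187) (nat_lit 152) (nat_lit 1407419961) (nat_lit 146)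 (nat_lit 3) (nat_lit 146) (nat_lit 1) (nat_lit 148) (nat_lit 1) (nat_lit 361) (nat_lit 384) (nat_lit 275)) (XT.lf (nat_lit 76) (nat_lit 1241375176) (nat_lit 0) (nat_lit 1685743011) (nat_lit 76) (nat_lit 1685743011) (nat_lit 146) (nat_lit 3) (nat_lit 145) (nat_lit 1) (nat_lit 146) (nat_lit 1) (nat_lit 362) (nat_lit 384) (nat_lit 274)))) (XT.nd (nat_lit 78) (nat_lit 76) (nat_lit 0) (XT.lf (nat_lit 152) (nat_lit 4266051533) (nat_lit 0) (nat_lit 136518535) (nat_lit 76) (nat_lit 136518535) (nat_lit 145) (nat_lit 1) (nat_lit 143) (nat_lit 1) (nat_lit 144) (nat_lit 1) (nat_lit 363) (nat_lit 384) (nat_lit 273)) (XT.nd (nat_lit 78) (nat_lit 76) (nat_lit 0) (XT.lf (nat_lit 0) (nat_lit 1360238059) (nat_lit 0) (nat_lit 1744099702) (nat_lit 152) (nat_lit 1360238059) (nat_lit 143) (nat_lit 3) (nat_lit 143) (nat_lit 1) (nat_lit 145) (nat_lit 1) (nat_lit 364) (nat_lit 384) (nat_lit 272)) (XT.lf (nat_lit 76) (nat_lit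 1220368891) (nat_lit 0) (nat_lit 1585951408) (nat_lit 76) (nat_lit 1585951408) (nat_lit 143) (nat_lit 3) (nat_lit 142) (nat_lit 1) (nat_lit 143) (nat_lit 1) (nat_lit 365) (nat_lit 384) (nat_lit 271)))))) (XT.nd (nat_lit 468) (nat_lit 608) (nat_lit 0) (XT.nd (nat_lit 234) (nat_lit 228) (nat_lit 0) (XT.nd (nat_lit 78) (nat_lit 76) (nat_lit 0) (XT.lf (nat_lit 152) (nat_lit 4097470229) (nat_lit 0) (nat_lit 112314137) (nat_lit 76) (nat_lit 112314137) (nat_lit 142) (nat_lit 1) (nat_lit 140) (nat_lit 1) (nat_lit 141) (nat_lit 1) (nat_lit 366) (nat_lit 384) (nat_lit 270)) (XT.nd (nat_lit 78) (nat_lit 76) (nat_lit 0) (XT.lf (nat_lit 0) (nat_lit 1311785668) (nat_lit 0) (nat_lit 1627589592) (nat_lit 152) (nat_lit 1311785668) (nat_lit 140) (nat_lit 3) (nat_lit 140) (nat_lit 1) (nat_lit 142) (nat_lit 1) (nat_lit 367) (nat_lit 384) (nat_lit 269)) (XT.lf (nat_lit 76) (nat_lit 1193606660) (nat_lit 0) (nat_lit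 1494372302) (nat_lit 76) (nat_lit 1494372302) (nat_lit 140) (nat_lit 3) (nat_lit 139) (nat_lit 1) (nat_lit 140) (nat_lit 1) (nat_lit 368) (nat_lit 384) (nat_lit 268)))) (XT.nd (nat_lit 78) (nat_lit 76) (nat_lit 0) (XT.lf (nat_lit 152) (nat_lit 3930788494) (nat_lit 0) (nat_lit 92401118) (nat_lit 76) (nat_lit 92401118) (nat_lit 139) (nat_lit 1) (nat_lit 137) (nat_lit 1) (nat_lit 138) (nat_lit 1) (nat_lit 369) (nat_lit 384) (nat_lit 267)) (XT.nd (nat_lit 78) (nat_lit 76) (nat_lit 0) (XT.lf (nat_lit 0) (nat_lit 1262746888) (nat_lit 0) (nat_lit 1522559557) (nat_lit 152) (nat_lit 1262746888) (nat_lit 137) (nat_lit 3) (nat_lit 137) (nat_lit 1) (nat_lit 139) (nat_lit 1) (nat_lit 370) (nat_lit 384) (nat_lit 266)) (XT.lf (nat_lit 76) (nat_lit 1162560442) (nat_lit 0) (nat_lit 1410001080) (nat_lit 76) (nat_lit 1410001080) (nat_lit 137) (nat_lit 3) (nat_lit 136) (nat_lit 1) (nat_lit 137) (nat_lit 1) (nat_lit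 371) (nat_lit 384) (nat_lit 265))))) (XT.nd (nat_lit 234) (nat_lit 380) (nat_lit 0) (XT.nd (nat_lit 78) (nat_lit 76) (nat_lit 0) (XT.lf (nat_lit 152) (nat_lit 3767002370) (nat_lit 0) (nat_lit 76018629) (nat_lit 76) (nat_lit 76018629) (nat_lit 136) (nat_lit 1) (nat_lit 134) (nat_lit 1) (nat_lit 135) (nat_lit 1) (nat_lit 372) (nat_lit 384) (nat_lit 264)) (XT.nd (nat_lit 78) (nat_lit 76) (nat_lit 0) (XT.lf (nat_lit 0) (nat_lit 1213662677) (nat_lit 0) (nat_lit 1427411204) (nat_lit 152) (nat_lit 1213662677) (nat_lit 134) (nat_lit 3) (nat_lit 134) (nat_lit 1) (nat_lit 136) (nat_lit 1) (nat_lit 373) (nat_lit 384) (nat_lit 263)) (XT.lf (nat_lit 76) (nat_lit 1128419723) (nat_lit 0) (nat_lit 1331989748) (nat_lit 76) (nat_lit 1331989748) (nat_lit 134) (nat_lit 3) (nat_lit 133) (nat_lit 1) (nat_lit 134) (nat_lit 1) (nat_lit 374) (nat_lit 384) (nat_lit 262)))) (XT.nd (nat_lit 156) (nat_lit 228) (nat_lit 0)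 (XT.nd (nat_lit 78) (nat_lit 0) (nat_lit 0) (XT.lf (nat_lit 152) (nat_lit 3606867837) (nat_lit 0) (nat_lit 62540714) (nat_lit 76) (nat_lit 62540714) (nat_lit 133) (nat_lit 1) (nat_lit 131) (nat_lit 1) (nat_lit 132) (nat_lit 1) (nat_lit 375) (nat_lit 384) (nat_lit 261)) (XT.lf (nat_lit 0) (nat_lit 1164957277) (nat_lit 0) (nat_lit 1340808718) (nat_lit 152) (nat_lit 1164957277) (nat_lit 131) (nat_lit 3) (nat_lit 131) (nat_lit 1) (nat_lit 133) (nat_lit 1) (nat_lit 376) (nat_lit 384) (nat_lit 260))) (XT.nd (nat_lit 78) (nat_lit 152) (nat_lit 0) (XT.lf (nat_lit 76) (nat_lit 1092142623) (nat_lit 0) (nat_lit 1259620186) (nat_lit 76) (nat_lit 1259620186) (nat_lit 131) (nat_lit 3) (nat_lit 130) (nat_lit 1) (nat_lit 131) (nat_lit 1) (nat_lit 377) (nat_lit 384) (nat_lit 259)) (XT.lf (nat_lit 152) (nat_lit 3450946396) (nat_lit 0) (nat_lit 51452400) (nat_lit 76) (nat_lit 51452400) (nat_lit 130) (nat_lit 1) (nat_lit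 128) (nat_lit 1) (nat_lit 129) (nat_lit 1) (nat_lit 378) (nat_lit 384) (nat_lit 258))))))))
noncomputable def ec191 : XT := (XT.nd (nat_lit 1950) (nat_lit 2052) (nat_lit 0) (XT.nd (nat_lit 936) (nat_lit 912) (nat_lit 0) (XT.nd (nat_lit 468) (nat_lit 456) (nat_lit 0) (XT.nd (nat_lit 234) (nat_lit 228) (nat_lit 0) (XT.nd (nat_lit 78) (nat_lit 228) (nat_lit 0) (XT.lf (nat_lit 0) (nat_lit 1116959890) (nat_lit 0) (nat_lit 1261633306) (nat_lit 152) (nat_lit 1116959890) (nat_lit 128) (nat_lit 3) (nat_lit 128) (nat_lit 1) (nat_lit 130) (nat_lit 1) (nat_lit 379) (nat_lit 384) (nat_lit 257)) (XT.nd (nat_lit 78) (nat_lit 152) (nat_lit 0) (XT.lf (nat_lit 76) (nat_lit 1054497890) (nat_lit 0) (nat_lit 1192282096) (nat_lit 76) (nat_lit 1192282096) (nat_lit 128) (nat_lit 3) (nat_lit 127) (nat_lit 1) (nat_lit 128) (nat_lit 1) (nat_lit 380) (nat_lit 384) (nat_lit 256)) (XT.lf (nat_lit 152) (nat_lit 3299642426) (nat_lit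 0) (nat_lit 42330017) (nat_lit 76) (nat_lit 42330017) (nat_lit 127) (nat_lit 1) (nat_lit 125) (nat_lit 1) (nat_lit 126) (nat_lit 1) (nat_lit 381) (nat_lit 384) (nat_lit 255)))) (XT.nd (nat_lit 78) (nat_lit 228) (nat_lit 0) (XT.lf (nat_lit 0) (nat_lit 1069922481) (nat_lit 0) (nat_lit 1188945658) (nat_lit 152) (nat_lit 1069922481) (nat_lit 125) (nat_lit 3) (nat_lit 125) (nat_lit 1) (nat_lit 127) (nat_lit 1) (nat_lit 382) (nat_lit 384) (nat_lit 254)) (XT.nd (nat_lit 78) (nat_lit 152) (nat_lit 0) (XT.lf (nat_lit 76) (nat_lit 1016099406) (nat_lit 0) (nat_lit 1129454813) (nat_lit 76) (nat_lit 1129454813) (nat_lit 125) (nat_lit 3) (nat_lit 124) (nat_lit 1) (nat_lit 125) (nat_lit 1) (nat_lit 383) (nat_lit 384) (nat_lit 253)) (XT.lf (nat_lit 152) (nat_lit 3153233786) (nat_lit 0) (nat_lit 34825009) (nat_lit 76) (nat_lit 34825009) (nat_lit 124) (nat_lit 1) (nat_lit 122) (nat_lit 1) (nat_lit 123) (nat_lit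 1) (nat_lit 384) (nat_lit 384) (nat_lit 252))))) (XT.nd (nat_lit 234) (nat_lit 228) (nat_lit 0) (XT.nd (nat_lit 78) (nat_lit 228) (nat_lit 0) (XT.lf (nat_lit 0) (nat_lit 1024034363) (nat_lit 0) (nat_lit 1121955026) (nat_lit 152) (nat_lit 1024034363) (nat_lit 122) (nat_lit 3) (nat_lit 122) (nat_lit 1) (nat_lit 124) (nat_lit 1) (nat_lit 385) (nat_lit 384) (nat_lit 251)) (XT.nd (nat_lit 78) (nat_lit 152) (nat_lit 0) (XT.lf (nat_lit 76) (nat_lit 977434527) (nat_lit 0) (nat_lit 1070692301) (nat_lit 76) (nat_lit 1070692301) (nat_lit 122) (nat_lit 3) (nat_lit 121) (nat_lit 1) (nat_lit 122) (nat_lit 1) (nat_lit 386) (nat_lit 384) (nat_lit 250)) (XT.lf (nat_lit 152) (nat_lit 3011896854) (nat_lit 0) (nat_lit 28650621) (nat_lit 76) (nat_lit 28650621) (nat_lit 121) (nat_lit 1) (nat_lit 119) (nat_lit 1) (nat_lit 120) (nat_lit 1) (nat_lit 387) (nat_lit 384) (nat_lit 249)))) (XT.nd (nat_lit 78) (nat_lit 228)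 (nat_lit 0) (XT.lf (nat_lit 0) (nat_lit 979434167) (nat_lit 0) (nat_lit 1059993739) (nat_lit 152) (nat_lit 979434167) (nat_lit 119) (nat_lit 3) (nat_lit 119) (nat_lit 1) (nat_lit 121) (nat_lit 1) (nat_lit 388) (nat_lit 384) (nat_lit 248)) (XT.nd (nat_lit 78) (nat_lit 152) (nat_lit 0) (XT.lf (nat_lit 76) (nat_lit 938887358) (nat_lit 0) (nat_lit 1015610759) (nat_lit 76) (nat_lit 1015610759) (nat_lit 119) (nat_lit 3) (nat_lit 118) (nat_lit 1) (nat_lit 119) (nat_lit 1) (nat_lit 389) (nat_lit 384) (nat_lit 247)) (XT.lf (nat_lit 152) (nat_lit 2875727010) (nat_lit 0) (nat_lit 23570937) (nat_lit 76) (nat_lit 23570937) (nat_lit 118) (nat_lit 1) (nat_lit 116) (nat_lit 1) (nat_lit 117) (nat_lit 1) (nat_lit 390) (nat_lit 384) (nat_lit 246)))))) (XT.nd (nat_lit 468) (nat_lit 456) (nat_lit 0) (XT.nd (nat_lit 234) (nat_lit 228) (nat_lit 0) (XT.nd (nat_lit 78) (nat_lit 228) (nat_lit 0) (XT.lf (nat_lit 0) (nat_lit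 936219639) (nat_lit 0) (nat_lit 1002496198) (nat_lit 152) (nat_lit 936219639) (nat_lit 116) (nat_lit 3) (nat_lit 116) (nat_lit 1) (nat_lit 118) (nat_lit 1) (nat_lit 391) (nat_lit 384) (nat_lit 245)) (XT.nd (nat_lit 78) (nat_lit 152) (nat_lit 0) (XT.lf (nat_lit 76) (nat_lit 900757860) (nat_lit 0) (nat_lit 963878393) (nat_lit 76) (nat_lit 963878393) (nat_lit 116) (nat_lit 3) (nat_lit 115) (nat_lit 1) (nat_lit 116) (nat_lit 1) (nat_lit 392) (nat_lit 384) (nat_lit 244)) (XT.lf (nat_lit 152) (nat_lit 2744755361) (nat_lit 0) (nat_lit 19391868) (nat_lit 76) (nat_lit 19391868) (nat_lit 115) (nat_lit 1) (nat_lit 113) (nat_lit 1) (nat_lit 114) (nat_lit 1) (nat_lit 393) (nat_lit 384) (nat_lit 243)))) (XT.nd (nat_lit 78) (nat_lit 228) (nat_lit 0) (XT.lf (nat_lit 0) (nat_lit 894455667) (nat_lit 0) (nat_lit 948981556) (nat_lit 152) (nat_lit 894455667) (nat_lit 113) (nat_lit 3) (nat_lit 113) (nat_lit 1) (nat_lit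 115) (nat_lit 1) (nat_lit 394) (nat_lit 384) (nat_lit 242)) (XT.nd (nat_lit 78) (nat_lit 152) (nat_lit 0) (XT.lf (nat_lit 76) (nat_lit 863277538) (nat_lit 0) (nat_lit 915206956) (nat_lit 76) (nat_lit 915206956) (nat_lit 113) (nat_lit 3) (nat_lit 112) (nat_lit 1) (nat_lit 113) (nat_lit 1) (nat_lit 395) (nat_lit 384) (nat_lit 241)) (XT.lf (nat_lit 152) (nat_lit 2618962392) (nat_lit 0) (nat_lit 15953738) (nat_lit 76) (nat_lit 15953738) (nat_lit 112) (nat_lit 1) (nat_lit 110) (nat_lit 1) (nat_lit 111) (nat_lit 1) (nat_lit 396) (nat_lit 384) (nat_lit 240))))) (XT.nd (nat_lit 234) (nat_lit 228) (nat_lit 0) (XT.nd (nat_lit 78) (nat_lit 228) (nat_lit 0) (XT.lf (nat_lit 0) (nat_lit 854180847) (nat_lit 0) (nat_lit 899039430) (nat_lit 152) (nat_lit 854180847) (nat_lit 110) (nat_lit 3) (nat_lit 110) (nat_lit 1) (nat_lit 112) (nat_lit 1) (nat_lit 397) (nat_lit 384) (nat_lit 239)) (XT.nd (nat_lit 78) (nat_lit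 152) (nat_lit 0) (XT.lf (nat_lit 76) (nat_lit 826622297) (nat_lit 0) (nat_lit 869344758) (nat_lit 76) (nat_lit 869344758) (nat_lit 110) (nat_lit 3) (nat_lit 109) (nat_lit 1) (nat_lit 110) (nat_lit 1) (nat_lit 398) (nat_lit 384) (nat_lit 238)) (XT.lf (nat_lit 152) (nat_lit 2498289094) (nat_lit 0) (nat_lit 13125179) (nat_lit 76) (nat_lit 13125179) (nat_lit 109) (nat_lit 1) (nat_lit 107) (nat_lit 1) (nat_lit 108) (nat_lit 1) (nat_lit 399) (nat_lit 384) (nat_lit 237)))) (XT.nd (nat_lit 156) (nat_lit 152) (nat_lit 0) (XT.nd (nat_lit 78) (nat_lit 76) (nat_lit 0) (XT.lf (nat_lit 0) (nat_lit 815412845) (nat_lit 0) (nat_lit 852318112) (nat_lit 152) (nat_lit 815412845) (nat_lit 107) (nat_lit 3) (nat_lit 107) (nat_lit 1) (nat_lit 109) (nat_lit 1) (nat_lit 400) (nat_lit 384) (nat_lit 236)) (XT.lf (nat_lit 76) (nat_lit 790923001) (nat_lit 0) (nat_lit 826070875) (nat_lit 76) (nat_lit 826070875) (nat_lit 107)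 (nat_lit 3) (nat_lit 106) (nat_lit 1) (nat_lit 107) (nat_lit 1) (nat_lit 401) (nat_lit 384) (nat_lit 235))) (XT.nd (nat_lit 78) (nat_lit 0) (nat_lit 0) (XT.lf (nat_lit 152) (nat_lit 2382646003) (nat_lit 0) (nat_lit 10798118) (nat_lit 76) (nat_lit 10798118) (nat_lit 106) (nat_lit 1) (nat_lit 104) (nat_lit 1) (nat_lit 105) (nat_lit 1) (nat_lit 402) (nat_lit 384) (nat_lit 234)) (XT.lf (nat_lit 0) (nat_lit 778152782) (nat_lit 0) (nat_lit 808514838) (nat_lit 152) (nat_lit 778152782) (nat_lit 104) (nat_lit 3) (nat_lit 104) (nat_lit 1) (nat_lit 106) (nat_lit 1) (nat_lit 403) (nat_lit 384) (nat_lit 233))))))) (XT.nd (nat_lit 1014) (nat_lit 1064) (nat_lit 0) (XT.nd (nat_lit 468) (nat_lit 532) (nat_lit 0) (XT.nd (nat_lit 234) (nat_lit 228) (nat_lit 0) (XT.nd (nat_lit 78) (nat_lit 152) (nat_lit 0) (XT.lf (nat_lit 76) (nat_lit 756274111) (nat_lit 0) (nat_lit 785190354) (nat_lit 76) (nat_lit 785190354) (nat_lit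 104) (nat_lit 3) (nat_lit 103) (nat_lit 1) (nat_lit 104) (nat_lit 1) (nat_lit 404) (nat_lit 384) (nat_lit 232)) (XT.nd (nat_lit 78) (nat_lit 0) (nat_lit 0) (XT.lf (nat_lit 152) (nat_lit 2271920556) (nat_lit 0) (nat_lit 8883638) (nat_lit 76) (nat_lit 8883638) (nat_lit 103) (nat_lit 1) (nat_lit 101) (nat_lit 1) (nat_lit 102) (nat_lit 1) (nat_lit 405) (nat_lit 384) (nat_lit 231)) (XT.lf (nat_lit 0) (nat_lit 742388808) (nat_lit 0) (nat_lit 767367746) (nat_lit 152) (nat_lit 742388808) (nat_lit 101) (nat_lit 3) (nat_lit 101) (nat_lit 1) (nat_lit 103) (nat_lit 1) (nat_lit 406) (nat_lit 384) (nat_lit 230)))) (XT.nd (nat_lit 78) (nat_lit 152) (nat_lit 0) (XT.lf (nat_lit 76) (nat_lit 722740774) (nat_lit 0) (nat_lit 746530239) (nat_lit 76) (nat_lit 746530239) (nat_lit 101) (nat_lit 3) (nat_lit 100) (nat_lit 1) (nat_lit 101) (nat_lit 1) (nat_lit 407) (nat_lit 384) (nat_lit 229)) (XT.nd (nat_lit 78) (nat_lit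 0) (nat_lit 0) (XT.lf (nat_lit 152) (nat_lit 2165983038) (nat_lit 0) (nat_lit 7308591) (nat_lit 76) (nat_lit 7308591) (nat_lit 100) (nat_lit 1) (nat_lit 98) (nat_lit 1) (nat_lit 99) (nat_lit 1) (nat_lit 408) (nat_lit 384) (nat_lit 228)) (XT.lf (nat_lit 0) (nat_lit 708099003) (nat_lit 0) (nat_lit 728649237) (nat_lit 152) (nat_lit 708099003) (nat_lit 98) (nat_lit 3) (nat_lit 98) (nat_lit 1) (nat_lit 100) (nat_lit 1) (nat_lit 409) (nat_lit 384) (nat_lit 227))))) (XT.nd (nat_lit 234) (nat_lit 304) (nat_lit 0) (XT.nd (nat_lit 78) (nat_lit 152) (nat_lit 0) (XT.lf (nat_lit 76) (nat_lit 690364615) (nat_lit 0) (nat_lit 709936266) (nat_lit 76) (nat_lit 709936266) (nat_lit 98) (nat_lit 3) (nat_lit 97) (nat_lit 1) (nat_lit 98) (nat_lit 1) (nat_lit 410) (nat_lit 384) (nat_lit 226)) (XT.nd (nat_lit 78) (nat_lit 0) (nat_lit 0) (XT.lf (nat_lit 152) (nat_lit 2064691391) (nat_lit 0) (nat_lit 6012796) (nat_lit 76)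 (nat_lit 6012796) (nat_lit 97) (nat_lit 1) (nat_lit 95) (nat_lit 1) (nat_lit 96) (nat_lit 1) (nat_lit 411) (nat_lit 384) (nat_lit 225)) (XT.lf (nat_lit 0) (nat_lit 675253748) (nat_lit 0) (nat_lit 692160476) (nat_lit 152) (nat_lit 675253748) (nat_lit 95) (nat_lit 3) (nat_lit 95) (nat_lit 1) (nat_lit 97) (nat_lit 1) (nat_lit 412) (nat_lit 384) (nat_lit 224)))) (XT.nd (nat_lit 156) (nat_lit 76) (nat_lit 0) (XT.nd (nat_lit 78) (nat_lit 152) (nat_lit 0) (XT.lf (nat_lit 76) (nat_lit 659168479) (nat_lit 0) (nat_lit 675270125) (nat_lit 76) (nat_lit 675270125) (nat_lit 95) (nat_lit 3) (nat_lit 94) (nat_lit 1) (nat_lit 95) (nat_lit 1) (nat_lit 413) (nat_lit 384) (nat_lit 223)) (XT.lf (nat_lit 152) (nat_lit 1967895084) (nat_lit 0) (nat_lit 4946742) (nat_lit 76) (nat_lit 4946742) (nat_lit 94) (nat_lit 1) (nat_lit 92) (nat_lit 1) (nat_lit 93) (nat_lit 1) (nat_lit 414) (nat_lit 384) (nat_lit 222))) (XT.nd (nat_lit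 78) (nat_lit 76) (nat_lit 0) (XT.lf (nat_lit 0) (nat_lit 643817640) (nat_lit 0) (nat_lit 657726847) (nat_lit 152) (nat_lit 643817640) (nat_lit 92) (nat_lit 3) (nat_lit 92) (nat_lit 1) (nat_lit 94) (nat_lit 1) (nat_lit 415) (nat_lit 384) (nat_lit 221)) (XT.lf (nat_lit 76) (nat_lit 629160302) (nat_lit 0) (nat_lit 642407166) (nat_lit 76) (nat_lit 642407166) (nat_lit 92) (nat_lit 3) (nat_lit 91) (nat_lit 1) (nat_lit 92) (nat_lit 1) (nat_lit 416) (nat_lit 384) (nat_lit 220)))))) (XT.nd (nat_lit 468) (nat_lit 608) (nat_lit 0) (XT.nd (nat_lit 234) (nat_lit 228) (nat_lit 0) (XT.nd (nat_lit 78) (nat_lit 76) (nat_lit 0) (XT.lf (nat_lit 152) (nat_lit 1875438219) (nat_lit 0) (nat_lit 4069697) (nat_lit 76) (nat_lit 4069697) (nat_lit 91) (nat_lit 1) (nat_lit 89) (nat_lit 1) (nat_lit 90) (nat_lit 1) (nat_lit 417) (nat_lit 384) (nat_lit 219)) (XT.nd (nat_lit 78) (nat_lit 76) (nat_lit 0) (XT.lf (nat_lit 0) (nat_lit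 613751042) (nat_lit 0) (nat_lit 625194181) (nat_lit 152) (nat_lit 613751042) (nat_lit 89) (nat_lit 3) (nat_lit 89) (nat_lit 1) (nat_lit 91) (nat_lit 1) (nat_lit 418) (nat_lit 384) (nat_lit 218)) (XT.lf (nat_lit 76) (nat_lit 600336274) (nat_lit 0) (nat_lit 611234502) (nat_lit 76) (nat_lit 611234502) (nat_lit 89) (nat_lit 3) (nat_lit 88) (nat_lit 1) (nat_lit 89) (nat_lit 1) (nat_lit 419) (nat_lit 384) (nat_lit 217)))) (XT.nd (nat_lit 78) (nat_lit 76) (nat_lit 0) (XT.lf (nat_lit 152) (nat_lit 1787162011) (nat_lit 0) (nat_lit 3348149) (nat_lit 76) (nat_lit 3348149) (nat_lit 88) (nat_lit 1) (nat_lit 86) (nat_lit 1) (nat_lit 87) (nat_lit 1) (nat_lit 420) (nat_lit 384) (nat_lit 216)) (XT.nd (nat_lit 78) (nat_lit 76) (nat_lit 0) (XT.lf (nat_lit 0) (nat_lit 585011336) (nat_lit 0) (nat_lit 594425635) (nat_lit 152) (nat_lit 585011336) (nat_lit 86) (nat_lit 3) (nat_lit 86) (nat_lit 1) (nat_lit 88) (nat_lit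 1) (nat_lit 421) (nat_lit 384) (nat_lit 215)) (XT.lf (nat_lit 76) (nat_lit 572683411) (nat_lit 0) (nat_lit 581649411) (nat_lit 76) (nat_lit 581649411) (nat_lit 86) (nat_lit 3) (nat_lit 85) (nat_lit 1) (nat_lit 86) (nat_lit 1) (nat_lit 422) (nat_lit 384) (nat_lit 214))))) (XT.nd (nat_lit 234) (nat_lit 380) (nat_lit 0) (XT.nd (nat_lit 78) (nat_lit 76) (nat_lit 0) (XT.lf (nat_lit 152) (nat_lit 1702906748) (nat_lit 0) (nat_lit 2754531) (nat_lit 76) (nat_lit 2754531) (nat_lit 85) (nat_lit 1) (nat_lit 83) (nat_lit 1) (nat_lit 84) (nat_lit 1) (nat_lit 423) (nat_lit 384) (nat_lit 213)) (XT.nd (nat_lit 78) (nat_lit 76) (nat_lit 0) (XT.lf (nat_lit 0) (nat_lit 557553926) (nat_lit 0) (nat_lit 565299093) (nat_lit 152) (nat_lit 557553926) (nat_lit 83) (nat_lit 3) (nat_lit 83) (nat_lit 1) (nat_lit 85) (nat_lit 1) (nat_lit 424) (nat_lit 384) (nat_lit 212)) (XT.lf (nat_lit 76) (nat_lit 546181653) (nat_lit 0) (nat_lit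 553558003) (nat_lit 76) (nat_lit 553558003) (nat_lit 83) (nat_lit 3) (nat_lit 82) (nat_lit 1) (nat_lit 83) (nat_lit 1) (nat_lit 425) (nat_lit 384) (nat_lit 211)))) (XT.nd (nat_lit 156) (nat_lit 228) (nat_lit 0) (XT.nd (nat_lit 78) (nat_lit 0) (nat_lit 0) (XT.lf (nat_lit 152) (nat_lit 1622513348) (nat_lit 0) (nat_lit 2266159) (nat_lit 76) (nat_lit 2266159) (nat_lit 82) (nat_lit 1) (nat_lit 80) (nat_lit 1) (nat_lit 81) (nat_lit 1) (nat_lit 426) (nat_lit 384) (nat_lit 210)) (XT.lf (nat_lit 0) (nat_lit 531333044) (nat_lit 0) (nat_lit 537705013) (nat_lit 152) (nat_lit 531333044) (nat_lit 80) (nat_lit 3) (nat_lit 80) (nat_lit 1) (nat_lit 82) (nat_lit 1) (nat_lit 427) (nat_lit 384) (nat_lit 209))) (XT.nd (nat_lit 78) (nat_lit 152) (nat_lit 0) (XT.lf (nat_lit 76) (nat_lit 520805563) (nat_lit 0) (nat_lit 526874104) (nat_lit 76) (nat_lit 526874104) (nat_lit 80) (nat_lit 3) (nat_lit 79) (nat_lit 1) (nat_lit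 80) (nat_lit 1) (nat_lit 428) (nat_lit 384) (nat_lit 208)) (XT.lf (nat_lit 152) (nat_lit 1545824558) (nat_lit 0) (nat_lit 1864375) (nat_lit 76) (nat_lit 1864375) (nat_lit 79) (nat_lit 1) (nat_lit 77) (nat_lit 1) (nat_lit 78) (nat_lit 1) (nat_lit 429) (nat_lit 384) (nat_lit 207))))))))
noncomputable def ec192 : XT := (XT.nd (nat_lit 39624) (nat_lit 0) (nat_lit 13376) (XT.nd (nat_lit 936) (nat_lit 456) (nat_lit 0) (XT.nd (nat_lit 468) (nat_lit 456) (nat_lit 0) (XT.nd (nat_lit 234) (nat_lit 228) (nat_lit 0) (XT.nd (nat_lit 78) (nat_lit 228) (nat_lit 0) (XT.lf (nat_lit 0) (nat_lit 506302391) (nat_lit 0) (nat_lit 511544625) (nat_lit 152) (nat_lit 506302391) (nat_lit 77) (nat_lit 3) (nat_lit 77) (nat_lit 1) (nat_lit 79) (nat_lit 1) (nat_lit 430) (nat_lit 384) (nat_lit 206)) (XT.nd (nat_lit 78) (nat_lit 152) (nat_lit 0) (XT.lf (nat_lit 76) (nat_lit 496525706) (nat_lit 0) (nat_lit 501518310) (nat_lit 76)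 (nat_lit 501518310) (nat_lit 77) (nat_lit 3) (nat_lit 76) (nat_lit 1) (nat_lit 77) (nat_lit 1) (nat_lit 431) (nat_lit 384) (nat_lit 205)) (XT.lf (nat_lit 152) (nat_lit 1472685890) (nat_lit 0) (nat_lit 1533826) (nat_lit 76) (nat_lit 1533826) (nat_lit 76) (nat_lit 1) (nat_lit 74) (nat_lit 1) (nat_lit 75) (nat_lit 1) (nat_lit 432) (nat_lit 384) (nat_lit 204)))) (XT.nd (nat_lit 78) (nat_lit 228) (nat_lit 0) (XT.lf (nat_lit 0) (nat_lit 482415640) (nat_lit 0) (nat_lit 486728439) (nat_lit 152) (nat_lit 482415640) (nat_lit 74) (nat_lit 3) (nat_lit 74) (nat_lit 1) (nat_lit 76) (nat_lit 1) (nat_lit 433) (nat_lit 384) (nat_lit 203)) (XT.nd (nat_lit 78) (nat_lit 152) (nat_lit 0) (XT.lf (nat_lit 76) (nat_lit 473309766) (nat_lit 0) (nat_lit 477417194) (nat_lit 76) (nat_lit 477417194) (nat_lit 74) (nat_lit 3) (nat_lit 73) (nat_lit 1) (nat_lit 74) (nat_lit 1) (nat_lit 434) (nat_lit 384) (nat_lit 202)) (XT.lf (nat_lit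 152) (nat_lit 1402946328) (nat_lit 0) (nat_lit 1261882) (nat_lit 76) (nat_lit 1261882) (nat_lit 73) (nat_lit 1) (nat_lit 71) (nat_lit 1) (nat_lit 72) (nat_lit 1) (nat_lit 435) (nat_lit 384) (nat_lit 201))))) (XT.nd (nat_lit 234) (nat_lit 228) (nat_lit 0) (XT.nd (nat_lit 78) (nat_lit 228) (nat_lit 0) (XT.lf (nat_lit 0) (nat_lit 459626837) (nat_lit 0) (nat_lit 463174987) (nat_lit 152) (nat_lit 459626837) (nat_lit 71) (nat_lit 3) (nat_lit 71) (nat_lit 1) (nat_lit 73) (nat_lit 1) (nat_lit 436) (nat_lit 384) (nat_lit 200)) (XT.nd (nat_lit 78) (nat_lit 152) (nat_lit 0) (XT.lf (nat_lit 76) (nat_lit 451123439) (nat_lit 0) (nat_lit 454502630) (nat_lit 76) (nat_lit 454502630) (nat_lit 71) (nat_lit 3) (nat_lit 70) (nat_lit 1) (nat_lit 71) (nat_lit 1) (nat_lit 437) (nat_lit 384) (nat_lit 199)) (XT.lf (nat_lit 152) (nat_lit 1336458845) (nat_lit 0) (nat_lit 1038153) (nat_lit 76) (nat_lit 1038153) (nat_lit 70)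 (nat_lit 1) (nat_lit 68) (nat_lit 1) (nat_lit 69) (nat_lit 1) (nat_lit 438) (nat_lit 384) (nat_lit 198)))) (XT.nd (nat_lit 78) (nat_lit 228) (nat_lit 0) (XT.lf (nat_lit 0) (nat_lit 437890703) (nat_lit 0) (nat_lit 440809775) (nat_lit 152) (nat_lit 437890703) (nat_lit 68) (nat_lit 3) (nat_lit 68) (nat_lit 1) (nat_lit 70) (nat_lit 1) (nat_lit 439) (nat_lit 384) (nat_lit 197)) (XT.nd (nat_lit 78) (nat_lit 152) (nat_lit 0) (XT.lf (nat_lit 76) (nat_lit 429931153) (nat_lit 0) (nat_lit 432711222) (nat_lit 76) (nat_lit 432711222) (nat_lit 68) (nat_lit 3) (nat_lit 67) (nat_lit 1) (nat_lit 68) (nat_lit 1) (nat_lit 440) (nat_lit 384) (nat_lit 196)) (XT.lf (nat_lit 152) (nat_lit 1273080790) (nat_lit 0) (nat_lit 854091) (nat_lit 76) (nat_lit 854091) (nat_lit 67) (nat_lit 1) (nat_lit 65) (nat_lit 1) (nat_lit 66) (nat_lit 1) (nat_lit 441) (nat_lit 384) (nat_lit 195)))))) (XT.nd (nat_lit 38142) (nat_lit 0) (nat_lit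 17708) (XT.nd (nat_lit 234) (nat_lit 228) (nat_lit 0) (XT.nd (nat_lit 78) (nat_lit 228) (nat_lit 0) (XT.lf (nat_lit 0) (nat_lit 417162876) (nat_lit 0) (nat_lit 419564404) (nat_lit 152) (nat_lit 417162876) (nat_lit 65) (nat_lit 3) (nat_lit 65) (nat_lit 1) (nat_lit 67) (nat_lit 1) (nat_lit 442) (nat_lit 384) (nat_lit 194)) (XT.nd (nat_lit 78) (nat_lit 152) (nat_lit 0) (XT.lf (nat_lit 76) (nat_lit 409696646) (nat_lit 0) (nat_lit 411983816) (nat_lit 76) (nat_lit 411983816) (nat_lit 65) (nat_lit 3) (nat_lit 64) (nat_lit 1) (nat_lit 65) (nat_lit 1) (nat_lit 443) (nat_lit 384) (nat_lit 193)) (XT.lf (nat_lit 152) (nat_lit 1212674135) (nat_lit 0) (nat_lit 702663) (nat_lit 76) (nat_lit 702663) (nat_lit 64) (nat_lit 1) (nat_lit 62) (nat_lit 1) (nat_lit 63) (nat_lit 1) (nat_lit 444) (nat_lit 384) (nat_lit 192)))) (XT.nd (nat_lit 78) (nat_lit 228) (nat_lit 0) (XT.lf (nat_lit 0) (nat_lit 397400085) (nat_lit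 0) (nat_lit 399375827) (nat_lit 152) (nat_lit 397400085) (nat_lit 62) (nat_lit 3) (nat_lit 62) (nat_lit 1) (nat_lit 64) (nat_lit 1) (nat_lit 445) (nat_lit 384) (nat_lit 191)) (XT.nd (nat_lit 78) (nat_lit 152) (nat_lit 0) (XT.lf (nat_lit 76) (nat_lit 390383419) (nat_lit 0) (nat_lit 392265079) (nat_lit 76) (nat_lit 392265079) (nat_lit 62) (nat_lit 3) (nat_lit 61) (nat_lit 1) (nat_lit 62) (nat_lit 1) (nat_lit 446) (nat_lit 384) (nat_lit 190)) (XT.lf (nat_lit 152) (nat_lit 1155105649) (nat_lit 0) (nat_lit 578082) (nat_lit 76) (nat_lit 578082) (nat_lit 61) (nat_lit 1) (nat_lit 59) (nat_lit 1) (nat_lit 60) (nat_lit 1) (nat_lit 447) (nat_lit 384) (nat_lit 189))))) (XT.nd (nat_lit 234) (nat_lit 0) (nat_lit 76) (XT.nd (nat_lit 78) (nat_lit 0) (nat_lit 0) (XT.lf (nat_lit 836) (nat_lit 4828009734) (nat_lit 0) (nat_lit 8572120186) (nat_lit 836) (nat_lit 4828009734) (nat_lit 303) (nat_lit 1) (nat_lit 292) (nat_lit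 0) (nat_lit 303) (nat_lit 0) (nat_lit 250) (nat_lit 385) (nat_lit 385)) (XT.nd (nat_lit 78) (nat_lit 0) (nat_lit 76) (XT.lf (nat_lit 836) (nat_lit 18713968485) (nat_lit 76) (nat_lit 8433860183) (nat_lit 0) (nat_lit 8433860183) (nat_lit 303) (nat_lit 1) (nat_lit 293) (nat_lit 1) (nat_lit 292) (nat_lit 0) (nat_lit 251) (nat_lit 385) (nat_lit 384)) (XT.lf (nat_lit 836) (nat_lit 8918795604) (nat_lit 0) (nat_lit 16896545474) (nat_lit 760) (nat_lit 8918795604) (nat_lit 304) (nat_lit 1) (nat_lit 293) (nat_lit 1) (nat_lit 303) (nat_lit 1) (nat_lit 252) (nat_lit 385) (nat_lit 383)))) (XT.nd (nat_lit 156) (nat_lit 0) (nat_lit 76) (XT.nd (nat_lit 78) (nat_lit 0) (nat_lit 76) (XT.lf (nat_lit 836) (nat_lit 16730421255) (nat_lit 76) (nat_lit 8591772753) (nat_lit 0) (nat_lit 8591772753) (nat_lit 304) (nat_lit 1) (nat_lit 294) (nat_lit 1) (nat_lit 293) (nat_lit 1) (nat_lit 253) (nat_lit 385) (nat_lit 382)) (XT.lf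 (nat_lit 836) (nat_lit 7700852240) (nat_lit 0) (nat_lit 17718087634) (nat_lit 760) (nat_lit 7700852240) (nat_lit 305) (nat_lit 1) (nat_lit 294) (nat_lit 1) (nat_lit 304) (nat_lit 1) (nat_lit 254) (nat_lit 385) (nat_lit 381))) (XT.nd (nat_lit 78) (nat_lit 0) (nat_lit 76) (XT.lf (nat_lit 836) (nat_lit 13850484326) (nat_lit 76) (nat_lit 9249671309) (nat_lit 0) (nat_lit 9249671309) (nat_lit 305) (nat_lit 1) (nat_lit 295) (nat_lit 1) (nat_lit 294) (nat_lit 1) (nat_lit 255) (nat_lit 385) (nat_lit 380)) (XT.lf (nat_lit 836) (nat_lit 6073037338) (nat_lit 0) (nat_lit 19459639862) (nat_lit 760) (nat_lit 6073037338) (nat_lit 306) (nat_lit 1) (nat_lit 295) (nat_lit 1) (nat_lit 305) (nat_lit 1) (nat_lit 256) (nat_lit 385) (nat_lit 379))))))) (XT.nd (nat_lit 936) (nat_lit 2356) (nat_lit 0) (XT.nd (nat_lit 468) (nat_lit 1064) (nat_lit 0) (XT.nd (nat_lit 234) (nat_lit 1140) (nat_lit 0) (XT.nd (nat_lit 78) (nat_lit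 0) (nat_lit 76) (XT.lf (nat_lit 836) (nat_lit 10208962234) (nat_lit 76) (nat_lit 10336563932) (nat_lit 0) (nat_lit 10336563932) (nat_lit 306) (nat_lit 1) (nat_lit 296) (nat_lit 1) (nat_lit 295) (nat_lit 1) (nat_lit 257) (nat_lit 385) (nat_lit 378)) (XT.nd (nat_lit 78) (nat_lit 0) (nat_lit 0) (XT.lf (nat_lit 836) (nat_lit 4098366602) (nat_lit 0) (nat_lit 21988221234) (nat_lit 760) (nat_lit 4098366602) (nat_lit 307) (nat_lit 1) (nat_lit 296) (nat_lit 1) (nat_lit 306) (nat_lit 1) (nat_lit 258) (nat_lit 385) (nat_lit 377)) (XT.lf (nat_lit 836) (nat_lit 5925675874) (nat_lit 76) (nat_lit 11789225902) (nat_lit 0) (nat_lit 11789225902) (nat_lit 307) (nat_lit 1) (nat_lit 297) (nat_lit 1) (nat_lit 296) (nat_lit 1) (nat_lit 259) (nat_lit 385) (nat_lit 376)))) (XT.nd (nat_lit 78) (nat_lit 1292) (nat_lit 0) (XT.lf (nat_lit 76) (nat_lit 1832810952) (nat_lit 0) (nat_lit 25185473518) (nat_lit 760) (nat_lit 1832810952)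 (nat_lit 298) (nat_lit 1) (nat_lit 297) (nat_lit 1) (nat_lit 307) (nat_lit 1) (nat_lit 260) (nat_lit 385) (nat_lit 375)) (XT.nd (nat_lit 78) (nat_lit 532) (nat_lit 0) (XT.lf (nat_lit 836) (nat_lit 1106972237) (nat_lit 0) (nat_lit 13551422010) (nat_lit 760) (nat_lit 13551422010) (nat_lit 298) (nat_lit 1) (nat_lit 287) (nat_lit 1) (nat_lit 297) (nat_lit 1) (nat_lit 261) (nat_lit 385) (nat_lit 374)) (XT.lf (nat_lit 532) (nat_lit 26269845269) (nat_lit 0) (nat_lit 663121188) (nat_lit 456) (nat_lit 663121188) (nat_lit 287) (nat_lit 1) (nat_lit 280) (nat_lit 1) (nat_lit 286) (nat_lit 1) (nat_lit 262) (nat_lit 385) (nat_lit 373))))) (XT.nd (nat_lit 234) (nat_lit 684) (nat_lit 0) (XT.nd (nat_lit 78) (nat_lit 380) (nat_lit 0) (XT.lf (nat_lit 76) (nat_lit 11485130630) (nat_lit 0) (nat_lit 4019992654) (nat_lit 532) (nat_lit 11485130630) (nat_lit 281) (nat_lit 1) (nat_lit 280) (nat_lit 1) (nat_lit 287) (nat_lit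 1) (nat_lit 263) (nat_lit 385) (nat_lit 372)) (XT.nd (nat_lit 78) (nat_lit 0) (nat_lit 0) (XT.lf (nat_lit 456) (nat_lit 19762961710) (nat_lit 0) (nat_lit 3323610073) (nat_lit 380) (nat_lit 3323610073) (nat_lit 281) (nat_lit 1) (nat_lit 275) (nat_lit 1) (nat_lit 280) (nat_lit 1) (nat_lit 264) (nat_lit 385) (nat_lit 371)) (XT.lf (nat_lit 76) (nat_lit 8192203865) (nat_lit 0) (nat_lit 9457896788) (nat_lit 456) (nat_lit 8192203865) (nat_lit 276) (nat_lit 1) (nat_lit 275) (nat_lit 1) (nat_lit 281) (nat_lit 1) (nat_lit 265) (nat_lit 385) (nat_lit 370)))) (XT.nd (nat_lit 78) (nat_lit 304) (nat_lit 0) (XT.lf (nat_lit 456) (nat_lit 13014190551) (nat_lit 0) (nat_lit 6140007138) (nat_lit 380) (nat_lit 6140007138) (nat_lit 276) (nat_lit 1) (nat_lit 270) (nat_lit 1) (nat_lit 275) (nat_lit 1) (nat_lit 266) (nat_lit 385) (nat_lit 369)) (XT.nd (nat_lit 78) (nat_lit 304) (nat_lit 0) (XT.lf (nat_lit 76) (nat_lit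 4795556258) (nat_lit 0) (nat_lit 15170933204) (nat_lit 456) (nat_lit 4795556258) (nat_lit 271) (nat_lit 1) (nat_lit 270) (nat_lit 1) (nat_lit 276) (nat_lit 1) (nat_lit 267) (nat_lit 385) (nat_lit 368)) (XT.lf (nat_lit 380) (nat_lit 6086345729) (nat_lit 0) (nat_lit 9078614887) (nat_lit 304) (nat_lit 9078614887) (nat_lit 271) (nat_lit 1) (nat_lit 266) (nat_lit 1) (nat_lit 270) (nat_lit 1) (nat_lit 268) (nat_lit 385) (nat_lit 367)))))) (XT.nd (nat_lit 468) (nat_lit 1368) (nat_lit 0) (XT.nd (nat_lit 234) (nat_lit 304) (nat_lit 0) (XT.nd (nat_lit 78) (nat_lit 684) (nat_lit 0) (XT.lf (nat_lit 76) (nat_lit 1324348218) (nat_lit 0) (nat_lit 21096346661) (nat_lit 380) (nat_lit 1324348218) (nat_lit 267) (nat_lit 1) (nat_lit 266) (nat_lit 1) (nat_lit 271) (nat_lit 1) (nat_lit 269) (nat_lit 385) (nat_lit 366)) (XT.nd (nat_lit 78) (nat_lit 304) (nat_lit 0) (XT.lf (nat_lit 76) (nat_lit 11159338644) (nat_lit 0)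 (nat_lit 934616288) (nat_lit 380) (nat_lit 11159338644) (nat_lit 262) (nat_lit 1) (nat_lit 261) (nat_lit 1) (nat_lit 266) (nat_lit 1) (nat_lit 270) (nat_lit 385) (nat_lit 365)) (XT.lf (nat_lit 380) (nat_lit 18459305964) (nat_lit 0) (nat_lit 2160482559) (nat_lit 304) (nat_lit 2160482559) (nat_lit 262) (nat_lit 1) (nat_lit 257) (nat_lit 1) (nat_lit 261) (nat_lit 1) (nat_lit 271) (nat_lit 385) (nat_lit 364)))) (XT.nd (nat_lit 78) (nat_lit 304) (nat_lit 0) (XT.lf (nat_lit 76) (nat_lit 7240551326) (nat_lit 0) (nat_lit 7834260742) (nat_lit 380) (nat_lit 7240551326) (nat_lit 258) (nat_lit 1) (nat_lit 257) (nat_lit 1) (nat_lit 262) (nat_lit 1) (nat_lit 272) (nat_lit 385) (nat_lit 363)) (XT.nd (nat_lit 78) (nat_lit 0) (nat_lit 0) (XT.lf (nat_lit 380) (nat_lit 10565978550) (nat_lit 0) (nat_lit 5650299260) (nat_lit 304) (nat_lit 5650299260) (nat_lit 258) (nat_lit 1) (nat_lit 253) (nat_lit 1) (nat_lit 257)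 (nat_lit 1) (nat_lit 273) (nat_lit 385) (nat_lit 362)) (XT.lf (nat_lit 76) (nat_lit 3332038082) (nat_lit 0) (nat_lit 14766837131) (nat_lit 380) (nat_lit 3332038082) (nat_lit 254) (nat_lit 1) (nat_lit 253) (nat_lit 1) (nat_lit 258) (nat_lit 1) (nat_lit 274) (nat_lit 385) (nat_lit 361))))) (XT.nd (nat_lit 234) (nat_lit 760) (nat_lit 0) (XT.nd (nat_lit 78) (nat_lit 380) (nat_lit 0) (XT.lf (nat_lit 304) (nat_lit 2709803864) (nat_lit 0) (nat_lit 9147424948) (nat_lit 228) (nat_lit 9147424948) (nat_lit 254) (nat_lit 1) (nat_lit 250) (nat_lit 1) (nat_lit 253) (nat_lit 1) (nat_lit 275) (nat_lit 385) (nat_lit 360)) (XT.nd (nat_lit 78) (nat_lit 0) (nat_lit 0) (XT.lf (nat_lit 380) (nat_lit 19512002757) (nat_lit 0) (nat_lit 541420637) (nat_lit 304) (nat_lit 541420637) (nat_lit 250) (nat_lit 1) (nat_lit 245) (nat_lit 1) (nat_lit 249) (nat_lit 1) (nat_lit 276) (nat_lit 385) (nat_lit 359)) (XT.lf (nat_lit 76)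 (nat_lit 7635190928) (nat_lit 0) (nat_lit 4916920692) (nat_lit 380) (nat_lit 7635190928) (nat_lit 246) (nat_lit 1) (nat_lit 245) (nat_lit 1) (nat_lit 250) (nat_lit 1) (nat_lit 277) (nat_lit 385) (nat_lit 358)))) (XT.nd (nat_lit 156) (nat_lit 532) (nat_lit 0) (XT.nd (nat_lit 78) (nat_lit 0) (nat_lit 0) (XT.lf (nat_lit 304) (nat_lit 11151437733) (nat_lit 0) (nat_lit 4321976818) (nat_lit 228) (nat_lit 4321976818) (nat_lit 246) (nat_lit 1) (nat_lit 242) (nat_lit 1) (nat_lit 245) (nat_lit 1) (nat_lit 278) (nat_lit 385) (nat_lit 357)) (XT.lf (nat_lit 76) (nat_lit 3522911674) (nat_lit 0) (nat_lit 12367614015) (nat_lit 304) (nat_lit 3522911674) (nat_lit 243) (nat_lit 1) (nat_lit 242) (nat_lit 1) (nat_lit 246) (nat_lit 1) (nat_lit 279) (nat_lit 385) (nat_lit 356))) (XT.nd (nat_lit 78) (nat_lit 304) (nat_lit 0) (XT.lf (nat_lit 304) (nat_lit 2936236768) (nat_lit 0) (nat_lit 8051967972) (nat_lit 228) (nat_lit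 8051967972) (nat_lit 243) (nat_lit 1) (nat_lit 239) (nat_lit 1) (nat_lit 242) (nat_lit 1) (nat_lit 280) (nat_lit 385) (nat_lit 355)) (XT.lf (nat_lit 304) (nat_lit 17671530075) (nat_lit 0) (nat_lit 504622619) (nat_lit 228) (nat_lit 504622619) (nat_lit 239) (nat_lit 1) (nat_lit 235) (nat_lit 1) (nat_lit 238) (nat_lit 1) (nat_lit 281) (nat_lit 385) (nat_lit 354))))))))
noncomputable def ec193 : XT := (XT.nd (nat_lit 1950) (nat_lit 2052) (nat_lit 0) (XT.nd (nat_lit 936) (nat_lit 1292) (nat_lit 0) (XT.nd (nat_lit 468) (nat_lit 684) (nat_lit 0) (XT.nd (nat_lit 234) (nat_lit 456) (nat_lit 0) (XT.nd (nat_lit 78) (nat_lit 228) (nat_lit 0) (XT.lf (nat_lit 76) (nat_lit 6684633746) (nat_lit 0) (nat_lit 4953246485) (nat_lit 304) (nat_lit 6684633746) (nat_lit 236) (nat_lit 1) (nat_lit 235) (nat_lit 1) (nat_lit 239) (nat_lit 1) (nat_lit 282) (nat_lit 385) (nat_lit 353)) (XT.nd (nat_lit 78) (nat_lit 0) (nat_lit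 0) (XT.lf (nat_lit 304) (nat_lit 9191983486) (nat_lit 0) (nat_lit 4392762441) (nat_lit 228) (nat_lit 4392762441) (nat_lit 236) (nat_lit 1) (nat_lit 232) (nat_lit 1) (nat_lit 235) (nat_lit 1) (nat_lit 283) (nat_lit 385) (nat_lit 352)) (XT.lf (nat_lit 76) (nat_lit 2531464755) (nat_lit 0) (nat_lit 12578826457) (nat_lit 304) (nat_lit 2531464755) (nat_lit 233) (nat_lit 1) (nat_lit 232) (nat_lit 1) (nat_lit 236) (nat_lit 1) (nat_lit 284) (nat_lit 385) (nat_lit 351)))) (XT.nd (nat_lit 78) (nat_lit 304) (nat_lit 0) (XT.lf (nat_lit 228) (nat_lit 927612855) (nat_lit 0) (nat_lit 8192358881) (nat_lit 152) (nat_lit 8192358881) (nat_lit 233) (nat_lit 1) (nat_lit 230) (nat_lit 1) (nat_lit 232) (nat_lit 1) (nat_lit 285) (nat_lit 385) (nat_lit 350)) (XT.nd (nat_lit 78) (nat_lit 0) (nat_lit 0) (XT.lf (nat_lit 304) (nat_lit 14015919210) (nat_lit 0) (nat_lit 1488592212) (nat_lit 228) (nat_lit 1488592212) (nat_lit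 230) (nat_lit 1) (nat_lit 226) (nat_lit 1) (nat_lit 229) (nat_lit 1) (nat_lit 286) (nat_lit 385) (nat_lit 349)) (XT.lf (nat_lit 76) (nat_lit 4895427882) (nat_lit 0) (nat_lit 6886591132) (nat_lit 304) (nat_lit 4895427882) (nat_lit 227) (nat_lit 1) (nat_lit 226) (nat_lit 1) (nat_lit 230) (nat_lit 1) (nat_lit 287) (nat_lit 385) (nat_lit 348))))) (XT.nd (nat_lit 234) (nat_lit 304) (nat_lit 0) (XT.nd (nat_lit 78) (nat_lit 228) (nat_lit 0) (XT.lf (nat_lit 228) (nat_lit 5655911766) (nat_lit 0) (nat_lit 5357810213) (nat_lit 152) (nat_lit 5357810213) (nat_lit 227) (nat_lit 1) (nat_lit 224) (nat_lit 1) (nat_lit 226) (nat_lit 1) (nat_lit 288) (nat_lit 385) (nat_lit 347)) (XT.nd (nat_lit 78) (nat_lit 228) (nat_lit 0) (XT.lf (nat_lit 76) (nat_lit 812574998) (nat_lit 0) (nat_lit 14450619625) (nat_lit 228) (nat_lit 812574998) (nat_lit 225) (nat_lit 1) (nat_lit 224) (nat_lit 1) (nat_lit 227) (nat_lit 1) (nat_lit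 289) (nat_lit 385) (nat_lit 346)) (XT.lf (nat_lit 76) (nat_lit 6706324027) (nat_lit 0) (nat_lit 2368434116) (nat_lit 228) (nat_lit 6706324027) (nat_lit 222) (nat_lit 1) (nat_lit 221) (nat_lit 1) (nat_lit 224) (nat_lit 1) (nat_lit 290) (nat_lit 385) (nat_lit 345)))) (XT.nd (nat_lit 78) (nat_lit 152) (nat_lit 0) (XT.lf (nat_lit 228) (nat_lit 9312906296) (nat_lit 0) (nat_lit 3091632566) (nat_lit 152) (nat_lit 3091632566) (nat_lit 222) (nat_lit 1) (nat_lit 219) (nat_lit 1) (nat_lit 221) (nat_lit 1) (nat_lit 291) (nat_lit 385) (nat_lit 344)) (XT.nd (nat_lit 78) (nat_lit 152) (nat_lit 0) (XT.lf (nat_lit 76) (nat_lit 2627859870) (nat_lit 0) (nat_lit 9961838096) (nat_lit 228) (nat_lit 2627859870) (nat_lit 220) (nat_lit 1) (nat_lit 219) (nat_lit 1) (nat_lit 222) (nat_lit 1) (nat_lit 292) (nat_lit 385) (nat_lit 343)) (XT.lf (nat_lit 228) (nat_lit 1231057737) (nat_lit 0) (nat_lit 6856751320) (nat_lit 152)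 (nat_lit 6856751320) (nat_lit 220) (nat_lit 1) (nat_lit 217) (nat_lit 1) (nat_lit 219) (nat_lit 1) (nat_lit 293) (nat_lit 385) (nat_lit 342)))))) (XT.nd (nat_lit 468) (nat_lit 608) (nat_lit 0) (XT.nd (nat_lit 234) (nat_lit 304) (nat_lit 0) (XT.nd (nat_lit 78) (nat_lit 152) (nat_lit 0) (XT.lf (nat_lit 228) (nat_lit 12099630761) (nat_lit 0) (nat_lit 1289921234) (nat_lit 152) (nat_lit 1289921234) (nat_lit 217) (nat_lit 1) (nat_lit 214) (nat_lit 1) (nat_lit 216) (nat_lit 1) (nat_lit 294) (nat_lit 385) (nat_lit 341)) (XT.nd (nat_lit 78) (nat_lit 152) (nat_lit 0) (XT.lf (nat_lit 76) (nat_lit 4027996731) (nat_lit 0) (nat_lit 6360655111) (nat_lit 228) (nat_lit 4027996731) (nat_lit 215) (nat_lit 1) (nat_lit 214) (nat_lit 1) (nat_lit 217) (nat_lit 1) (nat_lit 295) (nat_lit 385) (nat_lit 340)) (XT.lf (nat_lit 228) (nat_lit 4102319109) (nat_lit 0) (nat_lit 5029567485) (nat_lit 152) (nat_lit 5029567485) (nat_lit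 215) (nat_lit 1) (nat_lit 212) (nat_lit 1) (nat_lit 214) (nat_lit 1) (nat_lit 296) (nat_lit 385) (nat_lit 339)))) (XT.nd (nat_lit 78) (nat_lit 304) (nat_lit 0) (XT.lf (nat_lit 76) (nat_lit 134831915) (nat_lit 0) (nat_lit 13645545441) (nat_lit 228) (nat_lit 134831915) (nat_lit 213) (nat_lit 1) (nat_lit 212) (nat_lit 1) (nat_lit 215) (nat_lit 1) (nat_lit 297) (nat_lit 385) (nat_lit 338)) (XT.nd (nat_lit 78) (nat_lit 152) (nat_lit 0) (XT.lf (nat_lit 76) (nat_lit 5091033272) (nat_lit 0) (nat_lit 3485332659) (nat_lit 152) (nat_lit 5091033272) (nat_lit 211) (nat_lit 1) (nat_lit 210) (nat_lit 1) (nat_lit 212) (nat_lit 1) (nat_lit 298) (nat_lit 385) (nat_lit 337)) (XT.lf (nat_lit 228) (nat_lit 6317392714) (nat_lit 0) (nat_lit 3555457813) (nat_lit 152) (nat_lit 3555457813) (nat_lit 211) (nat_lit 1) (nat_lit 208) (nat_lit 1) (nat_lit 210) (nat_lit 1) (nat_lit 299) (nat_lit 385) (nat_lit 336))))) (XT.nd (nat_lit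 234) (nat_lit 304) (nat_lit 0) (XT.nd (nat_lit 78) (nat_lit 304) (nat_lit 0) (XT.lf (nat_lit 76) (nat_lit 1266593578) (nat_lit 0) (nat_lit 10662483990) (nat_lit 228) (nat_lit 1266593578) (nat_lit 209) (nat_lit 1) (nat_lit 208) (nat_lit 1) (nat_lit 211) (nat_lit 1) (nat_lit 300) (nat_lit 385) (nat_lit 335)) (XT.nd (nat_lit 78) (nat_lit 152) (nat_lit 0) (XT.lf (nat_lit 76) (nat_lit 5880967951) (nat_lit 0) (nat_lit 1203016525) (nat_lit 152) (nat_lit 5880967951) (nat_lit 207) (nat_lit 1) (nat_lit 206) (nat_lit 1) (nat_lit 208) (nat_lit 1) (nat_lit 301) (nat_lit 385) (nat_lit 334)) (XT.lf (nat_lit 228) (nat_lit 7999624744) (nat_lit 0) (nat_lit 2370436509) (nat_lit 152) (nat_lit 2370436509) (nat_lit 207) (nat_lit 1) (nat_lit 204) (nat_lit 1) (nat_lit 206) (nat_lit 1) (nat_lit 302) (nat_lit 385) (nat_lit 333)))) (XT.nd (nat_lit 156) (nat_lit 228) (nat_lit 0) (XT.nd (nat_lit 78) (nat_lit 76) (nat_lit 0)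 (XT.lf (nat_lit 76) (nat_lit 2142664935) (nat_lit 0) (nat_lit 8235156715) (nat_lit 228) (nat_lit 2142664935) (nat_lit 205) (nat_lit 1) (nat_lit 204) (nat_lit 1) (nat_lit 207) (nat_lit 1) (nat_lit 303) (nat_lit 385) (nat_lit 332)) (XT.lf (nat_lit 152) (nat_lit 615081075) (nat_lit 0) (nat_lit 5844773026) (nat_lit 76) (nat_lit 5844773026) (nat_lit 205) (nat_lit 1) (nat_lit 203) (nat_lit 1) (nat_lit 204) (nat_lit 1) (nat_lit 304) (nat_lit 385) (nat_lit 331))) (XT.nd (nat_lit 78) (nat_lit 0) (nat_lit 0) (XT.lf (nat_lit 228) (nat_lit 9250158812) (nat_lit 0) (nat_lit 1421928332) (nat_lit 152) (nat_lit 1421928332) (nat_lit 203) (nat_lit 1) (nat_lit 200) (nat_lit 1) (nat_lit 202) (nat_lit 1) (nat_lit 305) (nat_lit 385) (nat_lit 330)) (XT.lf (nat_lit 76) (nat_lit 2810999807) (nat_lit 0) (nat_lit 6263754999) (nat_lit 228) (nat_lit 2810999807) (nat_lit 201) (nat_lit 1) (nat_lit 200) (nat_lit 1) (nat_lit 203)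 (nat_lit 1) (nat_lit 306) (nat_lit 385) (nat_lit 329))))))) (XT.nd (nat_lit 936) (nat_lit 988) (nat_lit 0) (XT.nd (nat_lit 468) (nat_lit 456) (nat_lit 0) (XT.nd (nat_lit 234) (nat_lit 304) (nat_lit 0) (XT.nd (nat_lit 78) (nat_lit 228) (nat_lit 0) (XT.lf (nat_lit 152) (nat_lit 2065581594) (nat_lit 0) (nat_lit 4808509233) (nat_lit 76) (nat_lit 4808509233) (nat_lit 201) (nat_lit 1) (nat_lit 199) (nat_lit 1) (nat_lit 200) (nat_lit 1) (nat_lit 307) (nat_lit 385) (nat_lit 328)) (XT.nd (nat_lit 78) (nat_lit 0) (nat_lit 0) (XT.lf (nat_lit 228) (nat_lit 10151888297) (nat_lit 0) (nat_lit 666742386) (nat_lit 152) (nat_lit 666742386) (nat_lit 199) (nat_lit 1) (nat_lit 196) (nat_lit 1) (nat_lit 198) (nat_lit 1) (nat_lit 308) (nat_lit 385) (nat_lit 327)) (XT.lf (nat_lit 76) (nat_lit 3310925127) (nat_lit 0) (nat_lit 4666226920) (nat_lit 228) (nat_lit 3310925127) (nat_lit 197) (nat_lit 1) (nat_lit 196) (nat_lit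 1) (nat_lit 199) (nat_lit 1) (nat_lit 309) (nat_lit 385) (nat_lit 326)))) (XT.nd (nat_lit 78) (nat_lit 228) (nat_lit 0) (XT.lf (nat_lit 152) (nat_lit 3184647539) (nat_lit 0) (nat_lit 3955972446) (nat_lit 76) (nat_lit 3955972446) (nat_lit 197) (nat_lit 1) (nat_lit 195) (nat_lit 1) (nat_lit 196) (nat_lit 1) (nat_lit 310) (nat_lit 385) (nat_lit 325)) (XT.nd (nat_lit 78) (nat_lit 0) (nat_lit 0) (XT.lf (nat_lit 228) (nat_lit 10772707197) (nat_lit 0) (nat_lit 69405304) (nat_lit 152) (nat_lit 69405304) (nat_lit 195) (nat_lit 1) (nat_lit 192) (nat_lit 1) (nat_lit 194) (nat_lit 1) (nat_lit 311) (nat_lit 385) (nat_lit 324)) (XT.lf (nat_lit 76) (nat_lit 3674676420) (nat_lit 0) (nat_lit 3375126130) (nat_lit 228) (nat_lit 3674676420) (nat_lit 193) (nat_lit 1) (nat_lit 192) (nat_lit 1) (nat_lit 195) (nat_lit 1) (nat_lit 312) (nat_lit 385) (nat_lit 323))))) (XT.nd (nat_lit 234) (nat_lit 228) (nat_lit 0) (XT.nd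 (nat_lit 78) (nat_lit 152) (nat_lit 0) (XT.lf (nat_lit 152) (nat_lit 4034577840) (nat_lit 0) (nat_lit 3254588322) (nat_lit 76) (nat_lit 3254588322) (nat_lit 193) (nat_lit 1) (nat_lit 191) (nat_lit 1) (nat_lit 192) (nat_lit 1) (nat_lit 313) (nat_lit 385) (nat_lit 322)) (XT.nd (nat_lit 78) (nat_lit 152) (nat_lit 0) (XT.lf (nat_lit 0) (nat_lit 405754323) (nat_lit 0) (nat_lit 9556977724) (nat_lit 152) (nat_lit 405754323) (nat_lit 191) (nat_lit 3) (nat_lit 191) (nat_lit 1) (nat_lit 193) (nat_lit 1) (nat_lit 314) (nat_lit 385) (nat_lit 321)) (XT.lf (nat_lit 76) (nat_lit 3928660741) (nat_lit 0) (nat_lit 2335019568) (nat_lit 152) (nat_lit 3928660741) (nat_lit 190) (nat_lit 1) (nat_lit 189) (nat_lit 1) (nat_lit 191) (nat_lit 1) (nat_lit 315) (nat_lit 385) (nat_lit 320)))) (XT.nd (nat_lit 78) (nat_lit 152) (nat_lit 0) (XT.lf (nat_lit 152) (nat_lit 4666457581) (nat_lit 0) (nat_lit 2677557867) (nat_lit 76)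 (nat_lit 2677557867) (nat_lit 190) (nat_lit 1) (nat_lit 188) (nat_lit 1) (nat_lit 189) (nat_lit 1) (nat_lit 316) (nat_lit 385) (nat_lit 319)) (XT.nd (nat_lit 78) (nat_lit 152) (nat_lit 0) (XT.lf (nat_lit 0) (nat_lit 775520138) (nat_lit 0) (nat_lit 8304254276) (nat_lit 152) (nat_lit 775520138) (nat_lit 188) (nat_lit 3) (nat_lit 188) (nat_lit 1) (nat_lit 190) (nat_lit 1) (nat_lit 317) (nat_lit 385) (nat_lit 318)) (XT.lf (nat_lit 76) (nat_lit 4094495444) (nat_lit 0) (nat_lit 1500354900) (nat_lit 152) (nat_lit 4094495444) (nat_lit 187) (nat_lit 1) (nat_lit 186) (nat_lit 1) (nat_lit 188) (nat_lit 1) (nat_lit 318) (nat_lit 385) (nat_lit 317)))))) (XT.nd (nat_lit 468) (nat_lit 532) (nat_lit 0) (XT.nd (nat_lit 234) (nat_lit 228) (nat_lit 0) (XT.nd (nat_lit 78) (nat_lit 152) (nat_lit 0) (XT.lf (nat_lit 152) (nat_lit 5122154208) (nat_lit 0) (nat_lit 2202833483) (nat_lit 76) (nat_lit 2202833483) (nat_lit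 187) (nat_lit 1) (nat_lit 185) (nat_lit 1) (nat_lit 186) (nat_lit 1) (nat_lit 319) (nat_lit 385) (nat_lit 316)) (XT.nd (nat_lit 78) (nat_lit 152) (nat_lit 0) (XT.lf (nat_lit 0) (nat_lit 1058693814) (nat_lit 0) (nat_lit 7252602022) (nat_lit 152) (nat_lit 1058693814) (nat_lit 185) (nat_lit 3) (nat_lit 185) (nat_lit 1) (nat_lit 187) (nat_lit 1) (nat_lit 320) (nat_lit 385) (nat_lit 315)) (XT.lf (nat_lit 76) (nat_lit 4189862515) (nat_lit 0) (nat_lit 833706186) (nat_lit 152) (nat_lit 4189862515) (nat_lit 184) (nat_lit 1) (nat_lit 183) (nat_lit 1) (nat_lit 185) (nat_lit 1) (nat_lit 321) (nat_lit 385) (nat_lit 314)))) (XT.nd (nat_lit 78) (nat_lit 152) (nat_lit 0) (XT.lf (nat_lit 152) (nat_lit 5435959426) (nat_lit 0) (nat_lit 1812276558) (nat_lit 76) (nat_lit 1812276558) (nat_lit 184) (nat_lit 1) (nat_lit 182) (nat_lit 1) (nat_lit 183) (nat_lit 1) (nat_lit 322) (nat_lit 385) (nat_lit 313)) (XT.nd (nat_lit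 78) (nat_lit 152) (nat_lit 0) (XT.lf (nat_lit 0) (nat_lit 1271629524) (nat_lit 0) (nat_lit 6367373135) (nat_lit 152) (nat_lit 1271629524) (nat_lit 182) (nat_lit 3) (nat_lit 182) (nat_lit 1) (nat_lit 184) (nat_lit 1) (nat_lit 323) (nat_lit 385) (nat_lit 312)) (XT.lf (nat_lit 76) (nat_lit 4229211194) (nat_lit 0) (nat_lit 304330711) (nat_lit 152) (nat_lit 4229211194) (nat_lit 181) (nat_lit 1) (nat_lit 180) (nat_lit 1) (nat_lit 182) (nat_lit 1) (nat_lit 324) (nat_lit 385) (nat_lit 311))))) (XT.nd (nat_lit 234) (nat_lit 380) (nat_lit 0) (XT.nd (nat_lit 78) (nat_lit 76) (nat_lit 0) (XT.lf (nat_lit 152) (nat_lit 5635939638) (nat_lit 0) (nat_lit 1490964409) (nat_lit 76) (nat_lit 1490964409) (nat_lit 181) (nat_lit 1) (nat_lit 179) (nat_lit 1) (nat_lit 180) (nat_lit 1) (nat_lit 325) (nat_lit 385) (nat_lit 310)) (XT.nd (nat_lit 78) (nat_lit 76) (nat_lit 0) (XT.lf (nat_lit 0) (nat_lit 1427734187) (nat_lit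 0) (nat_lit 5620015067) (nat_lit 152) (nat_lit 1427734187) (nat_lit 179) (nat_lit 3) (nat_lit 179) (nat_lit 1) (nat_lit 181) (nat_lit 1) (nat_lit 326) (nat_lit 385) (nat_lit 309)) (XT.lf (nat_lit 76) (nat_lit 116755101) (nat_lit 0) (nat_lit 4109403558) (nat_lit 76) (nat_lit 4109403558) (nat_lit 179) (nat_lit 3) (nat_lit 178) (nat_lit 1) (nat_lit 179) (nat_lit 1) (nat_lit 327) (nat_lit 385) (nat_lit 308)))) (XT.nd (nat_lit 156) (nat_lit 228) (nat_lit 0) (XT.nd (nat_lit 78) (nat_lit 0) (nat_lit 0) (XT.lf (nat_lit 152) (nat_lit 5745046597) (nat_lit 0) (nat_lit 1226620109) (nat_lit 76) (nat_lit 1226620109) (nat_lit 178) (nat_lit 1) (nat_lit 176) (nat_lit 1) (nat_lit 177) (nat_lit 1) (nat_lit 328) (nat_lit 385) (nat_lit 307)) (XT.lf (nat_lit 0) (nat_lit 1537992288) (nat_lit 0) (nat_lit 4986992143) (nat_lit 152) (nat_lit 1537992288) (nat_lit 176) (nat_lit 3) (nat_lit 176) (nat_lit 1) (nat_lit 178) (nat_lit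 1) (nat_lit 329) (nat_lit 385) (nat_lit 306))) (XT.nd (nat_lit 78) (nat_lit 152) (nat_lit 0) (XT.lf (nat_lit 76) (nat_lit 453585391) (nat_lit 0) (nat_lit 3738347158) (nat_lit 76) (nat_lit 3738347158) (nat_lit 176) (nat_lit 3) (nat_lit 175) (nat_lit 1) (nat_lit 176) (nat_lit 1) (nat_lit 330) (nat_lit 385) (nat_lit 305)) (XT.lf (nat_lit 152) (nat_lit 5782030824) (nat_lit 0) (nat_lit 1009143399) (nat_lit 76) (nat_lit 1009143399) (nat_lit 175) (nat_lit 1) (nat_lit 173) (nat_lit 1) (nat_lit 174) (nat_lit 1) (nat_lit 331) (nat_lit 385) (nat_lit 304))))))))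
noncomputable def ec194 : XT := (XT.nd (nat_lit 1950) (nat_lit 1900) (nat_lit 0) (XT.nd (nat_lit 936) (nat_lit 912) (nat_lit 0) (XT.nd (nat_lit 468) (nat_lit 456) (nat_lit 0) (XT.nd (nat_lit 234) (nat_lit 228) (nat_lit 0) (XT.nd (nat_lit 78) (nat_lit 228) (nat_lit 0) (XT.lf (nat_lit 0) (nat_lit 1611397528) (nat_lit 0) (nat_lit 4448898244) (nat_lit 152) (nat_lit 1611397528) (nat_lit 173) (nat_lit 3) (nat_lit 173) (nat_lit 1) (nat_lit 175) (nat_lit 1) (nat_lit 332) (nat_lit 385) (nat_lit 303)) (XT.nd (nat_lit 78) (nat_lit 152) (nat_lit 0) (XT.lf (nat_lit 76) (nat_lit 713671234) (nat_lit 0) (nat_lit 3416052868) (nat_lit 76) (nat_lit 3416052868) (nat_lit 173) (nat_lit 3) (nat_lit 172) (nat_lit 1) (nat_lit 173) (nat_lit 1) (nat_lit 333) (nat_lit 385) (nat_lit 302)) (XT.lf (nat_lit 152) (nat_lit 5762192755) (nat_lit 0) (nat_lit 830224772) (nat_lit 76) (nat_lit 830224772) (nat_lit 172) (nat_lit 1) (nat_lit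 170) (nat_lit 1) (nat_lit 171) (nat_lit 1) (nat_lit 334) (nat_lit 385) (nat_lit 301)))) (XT.nd (nat_lit 78) (nat_lit 228) (nat_lit 0) (XT.lf (nat_lit 0) (nat_lit 1655307844) (nat_lit 0) (nat_lit 3989726706) (nat_lit 152) (nat_lit 1655307844) (nat_lit 170) (nat_lit 3) (nat_lit 170) (nat_lit 1) (nat_lit 172) (nat_lit 1) (nat_lit 335) (nat_lit 385) (nat_lit 300)) (XT.nd (nat_lit 78) (nat_lit 152) (nat_lit 0) (XT.lf (nat_lit 76) (nat_lit 911429957) (nat_lit 0) (nat_lit 3134686015) (nat_lit 76) (nat_lit 3134686015) (nat_lit 170) (nat_lit 3) (nat_lit 169) (nat_lit 1) (nat_lit 170) (nat_lit 1) (nat_lit 336) (nat_lit 385) (nat_lit 299)) (XT.lf (nat_lit 152) (nat_lit 5698000417) (nat_lit 0) (nat_lit 683027974) (nat_lit 76) (nat_lit 683027974) (nat_lit 169) (nat_lit 1) (nat_lit 167) (nat_lit 1) (nat_lit 168) (nat_lit 1) (nat_lit 337) (nat_lit 385) (nat_lit 298))))) (XT.nd (nat_lit 234) (nat_lit 228) (nat_lit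 0) (XT.nd (nat_lit 78) (nat_lit 228) (nat_lit 0) (XT.lf (nat_lit 0) (nat_lit 1675737393) (nat_lit 0) (nat_lit 3596269568) (nat_lit 152) (nat_lit 1675737393) (nat_lit 167) (nat_lit 3) (nat_lit 167) (nat_lit 1) (nat_lit 169) (nat_lit 1) (nat_lit 338) (nat_lit 385) (nat_lit 297)) (XT.nd (nat_lit 78) (nat_lit 152) (nat_lit 0) (XT.lf (nat_lit 76) (nat_lit 1058684125) (nat_lit 0) (nat_lit 2887762387) (nat_lit 76) (nat_lit 2887762387) (nat_lit 167) (nat_lit 3) (nat_lit 166) (nat_lit 1) (nat_lit 167) (nat_lit 1) (nat_lit 339) (nat_lit 385) (nat_lit 296)) (XT.lf (nat_lit 152) (nat_lit 5599597309) (nat_lit 0) (nat_lit 561928805) (nat_lit 76) (nat_lit 561928805) (nat_lit 166) (nat_lit 1) (nat_lit 164) (nat_lit 1) (nat_lit 165) (nat_lit 1) (nat_lit 340) (nat_lit 385) (nat_lit 295)))) (XT.nd (nat_lit 78) (nat_lit 228) (nat_lit 0) (XT.lf (nat_lit 0) (nat_lit 1677596666) (nat_lit 0) (nat_lit 3257623239) (nat_lit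 152) (nat_lit 1677596666) (nat_lit 164) (nat_lit 3) (nat_lit 164) (nat_lit 1) (nat_lit 166) (nat_lit 1) (nat_lit 341) (nat_lit 385) (nat_lit 294)) (XT.nd (nat_lit 78) (nat_lit 152) (nat_lit 0) (XT.lf (nat_lit 76) (nat_lit 1165123426) (nat_lit 0) (nat_lit 2669910638) (nat_lit 76) (nat_lit 2669910638) (nat_lit 164) (nat_lit 3) (nat_lit 163) (nat_lit 1) (nat_lit 164) (nat_lit 1) (nat_lit 342) (nat_lit 385) (nat_lit 293)) (XT.lf (nat_lit 152) (nat_lit 5475219959) (nat_lit 0) (nat_lit 462300218) (nat_lit 76) (nat_lit 462300218) (nat_lit 163) (nat_lit 1) (nat_lit 161) (nat_lit 1) (nat_lit 162) (nat_lit 1) (nat_lit 343) (nat_lit 385) (nat_lit 292)))))) (XT.nd (nat_lit 468) (nat_lit 456) (nat_lit 0) (XT.nd (nat_lit 234) (nat_lit 228) (nat_lit 0) (XT.nd (nat_lit 78) (nat_lit 228) (nat_lit 0) (XT.lf (nat_lit 0) (nat_lit 1664889943) (nat_lit 0) (nat_lit 2964781715) (nat_lit 152) (nat_lit 1664889943) (nat_lit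 161) (nat_lit 3) (nat_lit 161) (nat_lit 1) (nat_lit 163) (nat_lit 1) (nat_lit 344) (nat_lit 385) (nat_lit 291)) (XT.nd (nat_lit 78) (nat_lit 152) (nat_lit 0) (XT.lf (nat_lit 76) (nat_lit 1238684569) (nat_lit 0) (nat_lit 2476676733) (nat_lit 76) (nat_lit 2476676733) (nat_lit 161) (nat_lit 3) (nat_lit 160) (nat_lit 1) (nat_lit 161) (nat_lit 1) (nat_lit 345) (nat_lit 385) (nat_lit 290)) (XT.lf (nat_lit 152) (nat_lit 5331541196) (nat_lit 0) (nat_lit 380335534) (nat_lit 76) (nat_lit 380335534) (nat_lit 160) (nat_lit 1) (nat_lit 158) (nat_lit 1) (nat_lit 159) (nat_lit 1) (nat_lit 346) (nat_lit 385) (nat_lit 289)))) (XT.nd (nat_lit 78) (nat_lit 228) (nat_lit 0) (XT.lf (nat_lit 0) (nat_lit 1640877662) (nat_lit 0) (nat_lit 2710301840) (nat_lit 152) (nat_lit 1640877662) (nat_lit 158) (nat_lit 3) (nat_lit 158) (nat_lit 1) (nat_lit 160) (nat_lit 1) (nat_lit 347) (nat_lit 385) (nat_lit 288)) (XT.nd (nat_lit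 78) (nat_lit 152) (nat_lit 0) (XT.lf (nat_lit 76) (nat_lit 1285863759) (nat_lit 0) (nat_lit 2304362976) (nat_lit 76) (nat_lit 2304362976) (nat_lit 158) (nat_lit 3) (nat_lit 157) (nat_lit 1) (nat_lit 158) (nat_lit 1) (nat_lit 348) (nat_lit 385) (nat_lit 287)) (XT.lf (nat_lit 152) (nat_lit 5173952313) (nat_lit 0) (nat_lit 312902985) (nat_lit 76) (nat_lit 312902985) (nat_lit 157) (nat_lit 1) (nat_lit 155) (nat_lit 1) (nat_lit 156) (nat_lit 1) (nat_lit 349) (nat_lit 385) (nat_lit 286))))) (XT.nd (nat_lit 234) (nat_lit 228) (nat_lit 0) (XT.nd (nat_lit 78) (nat_lit 228) (nat_lit 0) (XT.lf (nat_lit 0) (nat_lit 1608209909) (nat_lit 0) (nat_lit 2488027826) (nat_lit 152) (nat_lit 1608209909) (nat_lit 155) (nat_lit 3) (nat_lit 155) (nat_lit 1) (nat_lit 157) (nat_lit 1) (nat_lit 350) (nat_lit 385) (nat_lit 285)) (XT.nd (nat_lit 78) (nat_lit 152) (nat_lit 0) (XT.lf (nat_lit 76) (nat_lit 1311973676) (nat_lit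 0) (nat_lit 2149895502) (nat_lit 76) (nat_lit 2149895502) (nat_lit 155) (nat_lit 3) (nat_lit 154) (nat_lit 1) (nat_lit 155) (nat_lit 1) (nat_lit 351) (nat_lit 385) (nat_lit 284)) (XT.lf (nat_lit 152) (nat_lit 5006794969) (nat_lit 0) (nat_lit 257426060) (nat_lit 76) (nat_lit 257426060) (nat_lit 154) (nat_lit 1) (nat_lit 152) (nat_lit 1) (nat_lit 153) (nat_lit 1) (nat_lit 352) (nat_lit 385) (nat_lit 283)))) (XT.nd (nat_lit 156) (nat_lit 152) (nat_lit 0) (XT.nd (nat_lit 78) (nat_lit 76) (nat_lit 0) (XT.lf (nat_lit 0) (nat_lit 1569036173) (nat_lit 0) (nat_lit 2292864551) (nat_lit 152) (nat_lit 1569036173) (nat_lit 152) (nat_lit 3) (nat_lit 152) (nat_lit 1) (nat_lit 154) (nat_lit 1) (nat_lit 353) (nat_lit 385) (nat_lit 282)) (XT.lf (nat_lit 76) (nat_lit 1321354828) (nat_lit 0) (nat_lit 2010715188) (nat_lit 76) (nat_lit 2010715188) (nat_lit 152) (nat_lit 3) (nat_lit 151) (nat_lit 1) (nat_lit 152) (nat_lit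 1) (nat_lit 354) (nat_lit 385) (nat_lit 281))) (XT.nd (nat_lit 78) (nat_lit 0) (nat_lit 0) (XT.lf (nat_lit 152) (nat_lit 4833551751) (nat_lit 0) (nat_lit 211785056) (nat_lit 76) (nat_lit 211785056) (nat_lit 151) (nat_lit 1) (nat_lit 149) (nat_lit 1) (nat_lit 150) (nat_lit 1) (nat_lit 355) (nat_lit 385) (nat_lit 280)) (XT.lf (nat_lit 0) (nat_lit 1525095562) (nat_lit 0) (nat_lit 2120590960) (nat_lit 152) (nat_lit 1525095562) (nat_lit 149) (nat_lit 3) (nat_lit 149) (nat_lit 1) (nat_lit 151) (nat_lit 1) (nat_lit 356) (nat_lit 385) (nat_lit 279))))))) (XT.nd (nat_lit 936) (nat_lit 988) (nat_lit 0) (XT.nd (nat_lit 468) (nat_lit 456) (nat_lit 0) (XT.nd (nat_lit 234) (nat_lit 228) (nat_lit 0) (XT.nd (nat_lit 78) (nat_lit 152) (nat_lit 0) (XT.lf (nat_lit 76) (nat_lit 1317549351) (nat_lit 0) (nat_lit 1884687826) (nat_lit 76) (nat_lit 1884687826) (nat_lit 149) (nat_lit 3) (nat_lit 148) (nat_lit 1) (nat_lit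 149) (nat_lit 1) (nat_lit 357) (nat_lit 385) (nat_lit 278)) (XT.nd (nat_lit 78) (nat_lit 0) (nat_lit 0) (XT.lf (nat_lit 152) (nat_lit 4657002740) (nat_lit 0) (nat_lit 174236090) (nat_lit 76) (nat_lit 174236090) (nat_lit 148) (nat_lit 1) (nat_lit 146) (nat_lit 1) (nat_lit 147) (nat_lit 1) (nat_lit 358) (nat_lit 385) (nat_lit 277)) (XT.lf (nat_lit 0) (nat_lit 1477790959) (nat_lit 0) (nat_lit 1967706497) (nat_lit 152) (nat_lit 1477790959) (nat_lit 146) (nat_lit 3) (nat_lit 146) (nat_lit 1) (nat_lit 148) (nat_lit 1) (nat_lit 359) (nat_lit 385) (nat_lit 276)))) (XT.nd (nat_lit 78) (nat_lit 152) (nat_lit 0) (XT.lf (nat_lit 76) (nat_lit 1303443935) (nat_lit 0) (nat_lit 1770030162) (nat_lit 76) (nat_lit 1770030162) (nat_lit 146) (nat_lit 3) (nat_lit 145) (nat_lit 1) (nat_lit 146) (nat_lit 1) (nat_lit 360) (nat_lit 385) (nat_lit 275)) (XT.nd (nat_lit 78) (nat_lit 0) (nat_lit 0) (XT.lf (nat_lit 152) (nat_lit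 4479354110) (nat_lit 0) (nat_lit 143344462) (nat_lit 76) (nat_lit 143344462) (nat_lit 145) (nat_lit 1) (nat_lit 143) (nat_lit 1) (nat_lit 144) (nat_lit 1) (nat_lit 361) (nat_lit 385) (nat_lit 274)) (XT.lf (nat_lit 0) (nat_lit 1428249961) (nat_lit 0) (nat_lit 1831304687) (nat_lit 152) (nat_lit 1428249961) (nat_lit 143) (nat_lit 3) (nat_lit 143) (nat_lit 1) (nat_lit 145) (nat_lit 1) (nat_lit 362) (nat_lit 385) (nat_lit 273))))) (XT.nd (nat_lit 234) (nat_lit 228) (nat_lit 0) (XT.nd (nat_lit 78) (nat_lit 152) (nat_lit 0) (XT.lf (nat_lit 76) (nat_lit 1281387335) (nat_lit 0) (nat_lit 1665248978) (nat_lit 76) (nat_lit 1665248978) (nat_lit 143) (nat_lit 3) (nat_lit 142) (nat_lit 1) (nat_lit 143) (nat_lit 1) (nat_lit 363) (nat_lit 385) (nat_lit 272)) (XT.nd (nat_lit 78) (nat_lit 0) (nat_lit 0) (XT.lf (nat_lit 152) (nat_lit 4302343741) (nat_lit 0) (nat_lit 117929844) (nat_lit 76) (nat_lit 117929844) (nat_lit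 142) (nat_lit 1) (nat_lit 140) (nat_lit 1) (nat_lit 141) (nat_lit 1) (nat_lit 364) (nat_lit 385) (nat_lit 271)) (XT.lf (nat_lit 0) (nat_lit 1377374951) (nat_lit 0) (nat_lit 1708969071) (nat_lit 152) (nat_lit 1377374951) (nat_lit 140) (nat_lit 3) (nat_lit 140) (nat_lit 1) (nat_lit 142) (nat_lit 1) (nat_lit 365) (nat_lit 385) (nat_lit 270)))) (XT.nd (nat_lit 78) (nat_lit 152) (nat_lit 0) (XT.lf (nat_lit 76) (nat_lit 1253286993) (nat_lit 0) (nat_lit 1569090917) (nat_lit 76) (nat_lit 1569090917) (nat_lit 140) (nat_lit 3) (nat_lit 139) (nat_lit 1) (nat_lit 140) (nat_lit 1) (nat_lit 366) (nat_lit 385) (nat_lit 269)) (XT.nd (nat_lit 78) (nat_lit 0) (nat_lit 0) (XT.lf (nat_lit 152) (nat_lit 4127327918) (nat_lit 0) (nat_lit 97021174) (nat_lit 76) (nat_lit 97021174) (nat_lit 139) (nat_lit 1) (nat_lit 137) (nat_lit 1) (nat_lit 138) (nat_lit 1) (nat_lit 367) (nat_lit 385) (nat_lit 268)) (XT.lf (nat_lit 0)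 (nat_lit 1325884232) (nat_lit 0) (nat_lit 1598687535) (nat_lit 152) (nat_lit 1325884232) (nat_lit 137) (nat_lit 3) (nat_lit 137) (nat_lit 1) (nat_lit 139) (nat_lit 1) (nat_lit 368) (nat_lit 385) (nat_lit 267)))))) (XT.nd (nat_lit 468) (nat_lit 532) (nat_lit 0) (XT.nd (nat_lit 234) (nat_lit 228) (nat_lit 0) (XT.nd (nat_lit 78) (nat_lit 152) (nat_lit 0) (XT.lf (nat_lit 76) (nat_lit 1220688464) (nat_lit 0) (nat_lit 1480501134) (nat_lit 76) (nat_lit 1480501134) (nat_lit 137) (nat_lit 3) (nat_lit 136) (nat_lit 1) (nat_lit 137) (nat_lit 1) (nat_lit 369) (nat_lit 385) (nat_lit 266)) (XT.nd (nat_lit 78) (nat_lit 0) (nat_lit 0) (XT.lf (nat_lit 152) (nat_lit 3955352488) (nat_lit 0) (nat_lit 79819560) (nat_lit 76) (nat_lit 79819560) (nat_lit 136) (nat_lit 1) (nat_lit 134) (nat_lit 1) (nat_lit 135) (nat_lit 1) (nat_lit 370) (nat_lit 385) (nat_lit 265)) (XT.lf (nat_lit 0) (nat_lit 1274345811) (nat_lit 0) (nat_lit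 1498781764) (nat_lit 152) (nat_lit 1274345811) (nat_lit 134) (nat_lit 3) (nat_lit 134) (nat_lit 1) (nat_lit 136) (nat_lit 1) (nat_lit 371) (nat_lit 385) (nat_lit 264)))) (XT.nd (nat_lit 78) (nat_lit 152) (nat_lit 0) (XT.lf (nat_lit 76) (nat_lit 1184840709) (nat_lit 0) (nat_lit 1398589235) (nat_lit 76) (nat_lit 1398589235) (nat_lit 134) (nat_lit 3) (nat_lit 133) (nat_lit 1) (nat_lit 134) (nat_lit 1) (nat_lit 372) (nat_lit 385) (nat_lit 263)) (XT.nd (nat_lit 78) (nat_lit 0) (nat_lit 0) (XT.lf (nat_lit 152) (nat_lit 3787211229) (nat_lit 0) (nat_lit 65667750) (nat_lit 76) (nat_lit 65667750) (nat_lit 133) (nat_lit 1) (nat_lit 131) (nat_lit 1) (nat_lit 132) (nat_lit 1) (nat_lit 373) (nat_lit 385) (nat_lit 262)) (XT.lf (nat_lit 0) (nat_lit 1223205141) (nat_lit 0) (nat_lit 1407849154) (nat_lit 152) (nat_lit 1223205141) (nat_lit 131) (nat_lit 3) (nat_lit 131) (nat_lit 1) (nat_lit 133) (nat_lit 1) (nat_lit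 374) (nat_lit 385) (nat_lit 261))))) (XT.nd (nat_lit 234) (nat_lit 304) (nat_lit 0) (XT.nd (nat_lit 78) (nat_lit 152) (nat_lit 0) (XT.lf (nat_lit 76) (nat_lit 1146749754) (nat_lit 0) (nat_lit 1322601195) (nat_lit 76) (nat_lit 1322601195) (nat_lit 131) (nat_lit 3) (nat_lit 130) (nat_lit 1) (nat_lit 131) (nat_lit 1) (nat_lit 375) (nat_lit 385) (nat_lit 260)) (XT.nd (nat_lit 78) (nat_lit 0) (nat_lit 0) (XT.lf (nat_lit 152) (nat_lit 3623493716) (nat_lit 0) (nat_lit 54025020) (nat_lit 76) (nat_lit 54025020) (nat_lit 130) (nat_lit 1) (nat_lit 128) (nat_lit 1) (nat_lit 129) (nat_lit 1) (nat_lit 376) (nat_lit 385) (nat_lit 259)) (XT.lf (nat_lit 0) (nat_lit 1172807885) (nat_lit 0) (nat_lit 1324714972) (nat_lit 152) (nat_lit 1172807885) (nat_lit 128) (nat_lit 3) (nat_lit 128) (nat_lit 1) (nat_lit 130) (nat_lit 1) (nat_lit 377) (nat_lit 385) (nat_lit 258)))) (XT.nd (nat_lit 156) (nat_lit 76) (nat_lit 0) (XT.nd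 (nat_lit 78) (nat_lit 152) (nat_lit 0) (XT.lf (nat_lit 76) (nat_lit 1107222785) (nat_lit 0) (nat_lit 1251896201) (nat_lit 76) (nat_lit 1251896201) (nat_lit 128) (nat_lit 3) (nat_lit 127) (nat_lit 1) (nat_lit 128) (nat_lit 1) (nat_lit 378) (nat_lit 385) (nat_lit 257)) (XT.lf (nat_lit 152) (nat_lit 3464624547) (nat_lit 0) (nat_lit 44446518) (nat_lit 76) (nat_lit 44446518) (nat_lit 127) (nat_lit 1) (nat_lit 125) (nat_lit 1) (nat_lit 126) (nat_lit 1) (nat_lit 379) (nat_lit 385) (nat_lit 256))) (XT.nd (nat_lit 78) (nat_lit 76) (nat_lit 0) (XT.lf (nat_lit 0) (nat_lit 1123418605) (nat_lit 0) (nat_lit 1248392941) (nat_lit 152) (nat_lit 1123418605) (nat_lit 125) (nat_lit 3) (nat_lit 125) (nat_lit 1) (nat_lit 127) (nat_lit 1) (nat_lit 380) (nat_lit 385) (nat_lit 255)) (XT.lf (nat_lit 76) (nat_lit 1066904377) (nat_lit 0) (nat_lit 1185927554) (nat_lit 76) (nat_lit 1185927554) (nat_lit 125) (nat_lit 3) (nat_lit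 124) (nat_lit 1) (nat_lit 125) (nat_lit 1) (nat_lit 381) (nat_lit 385) (nat_lit 254))))))))
noncomputable def ec195 : XT := (XT.nd (nat_lit 1950) (nat_lit 1900) (nat_lit 0) (XT.nd (nat_lit 936) (nat_lit 1064) (nat_lit 0) (XT.nd (nat_lit 468) (nat_lit 456) (nat_lit 0) (XT.nd (nat_lit 234) (nat_lit 228) (nat_lit 0) (XT.nd (nat_lit 78) (nat_lit 76) (nat_lit 0) (XT.lf (nat_lit 152) (nat_lit 3310895475) (nat_lit 0) (nat_lit 36566260) (nat_lit 76) (nat_lit 36566260) (nat_lit 124) (nat_lit 1) (nat_lit 122) (nat_lit 1) (nat_lit 123) (nat_lit 1) (nat_lit 382) (nat_lit 385) (nat_lit 253)) (XT.nd (nat_lit 78) (nat_lit 76) (nat_lit 0) (XT.lf (nat_lit 0) (nat_lit 1075236081) (nat_lit 0) (nat_lit 1178052777) (nat_lit 152) (nat_lit 1075236081) (nat_lit 122) (nat_lit 3) (nat_lit 122) (nat_lit 1) (nat_lit 124) (nat_lit 1) (nat_lit 383) (nat_lit 385) (nat_lit 252)) (XT.lf (nat_lit 76) (nat_lit 1026306253) (nat_lit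 0) (nat_lit 1124226916) (nat_lit 76) (nat_lit 1124226916) (nat_lit 122) (nat_lit 3) (nat_lit 121) (nat_lit 1) (nat_lit 122) (nat_lit 1) (nat_lit 384) (nat_lit 385) (nat_lit 251)))) (XT.nd (nat_lit 78) (nat_lit 76) (nat_lit 0) (XT.lf (nat_lit 152) (nat_lit 3162491697) (nat_lit 0) (nat_lit 30083152) (nat_lit 76) (nat_lit 30083152) (nat_lit 121) (nat_lit 1) (nat_lit 119) (nat_lit 1) (nat_lit 120) (nat_lit 1) (nat_lit 385) (nat_lit 385) (nat_lit 250)) (XT.nd (nat_lit 78) (nat_lit 76) (nat_lit 0) (XT.lf (nat_lit 0) (nat_lit 1028405876) (nat_lit 0) (nat_lit 1112993426) (nat_lit 152) (nat_lit 1028405876) (nat_lit 119) (nat_lit 3) (nat_lit 119) (nat_lit 1) (nat_lit 121) (nat_lit 1) (nat_lit 386) (nat_lit 385) (nat_lit 249)) (XT.lf (nat_lit 76) (nat_lit 985831725) (nat_lit 0) (nat_lit 1066391297) (nat_lit 76) (nat_lit 1066391297) (nat_lit 119) (nat_lit 3) (nat_lit 118) (nat_lit 1) (nat_lit 119) (nat_lit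 1) (nat_lit 387) (nat_lit 385) (nat_lit 248))))) (XT.nd (nat_lit 234) (nat_lit 228) (nat_lit 0) (XT.nd (nat_lit 78) (nat_lit 76) (nat_lit 0) (XT.lf (nat_lit 152) (nat_lit 3019513361) (nat_lit 0) (nat_lit 24749484) (nat_lit 76) (nat_lit 24749484) (nat_lit 118) (nat_lit 1) (nat_lit 116) (nat_lit 1) (nat_lit 117) (nat_lit 1) (nat_lit 388) (nat_lit 385) (nat_lit 247)) (XT.nd (nat_lit 78) (nat_lit 76) (nat_lit 0) (XT.lf (nat_lit 0) (nat_lit 983030621) (nat_lit 0) (nat_lit 1052621008) (nat_lit 152) (nat_lit 983030621) (nat_lit 116) (nat_lit 3) (nat_lit 116) (nat_lit 1) (nat_lit 118) (nat_lit 1) (nat_lit 389) (nat_lit 385) (nat_lit 246)) (XT.lf (nat_lit 76) (nat_lit 945795753) (nat_lit 0) (nat_lit 1012072312) (nat_lit 76) (nat_lit 1012072312) (nat_lit 116) (nat_lit 3) (nat_lit 115) (nat_lit 1) (nat_lit 116) (nat_lit 1) (nat_lit 390) (nat_lit 385) (nat_lit 245)))) (XT.nd (nat_lit 78) (nat_lit 76) (nat_lit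 0) (XT.lf (nat_lit 152) (nat_lit 2881993129) (nat_lit 0) (nat_lit 20361462) (nat_lit 76) (nat_lit 20361462) (nat_lit 115) (nat_lit 1) (nat_lit 113) (nat_lit 1) (nat_lit 114) (nat_lit 1) (nat_lit 391) (nat_lit 385) (nat_lit 244)) (XT.nd (nat_lit 78) (nat_lit 76) (nat_lit 0) (XT.lf (nat_lit 0) (nat_lit 939178451) (nat_lit 0) (nat_lit 996430634) (nat_lit 152) (nat_lit 939178451) (nat_lit 113) (nat_lit 3) (nat_lit 113) (nat_lit 1) (nat_lit 115) (nat_lit 1) (nat_lit 392) (nat_lit 385) (nat_lit 243)) (XT.lf (nat_lit 76) (nat_lit 906441415) (nat_lit 0) (nat_lit 960967304) (nat_lit 76) (nat_lit 960967304) (nat_lit 113) (nat_lit 3) (nat_lit 112) (nat_lit 1) (nat_lit 113) (nat_lit 1) (nat_lit 393) (nat_lit 385) (nat_lit 242)))))) (XT.nd (nat_lit 468) (nat_lit 608) (nat_lit 0) (XT.nd (nat_lit 234) (nat_lit 228) (nat_lit 0) (XT.nd (nat_lit 78) (nat_lit 76) (nat_lit 0) (XT.lf (nat_lit 152) (nat_lit 2749910512)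 (nat_lit 0) (nat_lit 16751425) (nat_lit 76) (nat_lit 16751425) (nat_lit 112) (nat_lit 1) (nat_lit 110) (nat_lit 1) (nat_lit 111) (nat_lit 1) (nat_lit 394) (nat_lit 385) (nat_lit 241)) (XT.nd (nat_lit 78) (nat_lit 76) (nat_lit 0) (XT.lf (nat_lit 0) (nat_lit 896889889) (nat_lit 0) (nat_lit 943991402) (nat_lit 152) (nat_lit 896889889) (nat_lit 110) (nat_lit 3) (nat_lit 110) (nat_lit 1) (nat_lit 112) (nat_lit 1) (nat_lit 395) (nat_lit 385) (nat_lit 240)) (XT.lf (nat_lit 76) (nat_lit 867953412) (nat_lit 0) (nat_lit 912811996) (nat_lit 76) (nat_lit 912811996) (nat_lit 110) (nat_lit 3) (nat_lit 109) (nat_lit 1) (nat_lit 110) (nat_lit 1) (nat_lit 396) (nat_lit 385) (nat_lit 239)))) (XT.nd (nat_lit 78) (nat_lit 76) (nat_lit 0) (XT.lf (nat_lit 152) (nat_lit 2623203548) (nat_lit 0) (nat_lit 13781438) (nat_lit 76) (nat_lit 13781438) (nat_lit 109) (nat_lit 1) (nat_lit 107) (nat_lit 1) (nat_lit 108) (nat_lit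 1) (nat_lit 397) (nat_lit 385) (nat_lit 238)) (XT.nd (nat_lit 78) (nat_lit 76) (nat_lit 0) (XT.lf (nat_lit 0) (nat_lit 856183487) (nat_lit 0) (nat_lit 894934018) (nat_lit 152) (nat_lit 856183487) (nat_lit 107) (nat_lit 3) (nat_lit 107) (nat_lit 1) (nat_lit 109) (nat_lit 1) (nat_lit 398) (nat_lit 385) (nat_lit 237)) (XT.lf (nat_lit 76) (nat_lit 830469151) (nat_lit 0) (nat_lit 867374419) (nat_lit 76) (nat_lit 867374419) (nat_lit 107) (nat_lit 3) (nat_lit 106) (nat_lit 1) (nat_lit 107) (nat_lit 1) (nat_lit 399) (nat_lit 385) (nat_lit 236))))) (XT.nd (nat_lit 234) (nat_lit 380) (nat_lit 0) (XT.nd (nat_lit 78) (nat_lit 76) (nat_lit 0) (XT.lf (nat_lit 152) (nat_lit 2501778303) (nat_lit 0) (nat_lit 11338023) (nat_lit 76) (nat_lit 11338023) (nat_lit 106) (nat_lit 1) (nat_lit 104) (nat_lit 1) (nat_lit 105) (nat_lit 1) (nat_lit 400) (nat_lit 385) (nat_lit 235)) (XT.nd (nat_lit 78) (nat_lit 76) (nat_lit 0)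 (XT.lf (nat_lit 0) (nat_lit 817060422) (nat_lit 0) (nat_lit 848940580) (nat_lit 152) (nat_lit 817060422) (nat_lit 104) (nat_lit 3) (nat_lit 104) (nat_lit 1) (nat_lit 106) (nat_lit 1) (nat_lit 401) (nat_lit 385) (nat_lit 234)) (XT.lf (nat_lit 76) (nat_lit 794087816) (nat_lit 0) (nat_lit 824449872) (nat_lit 76) (nat_lit 824449872) (nat_lit 104) (nat_lit 3) (nat_lit 103) (nat_lit 1) (nat_lit 104) (nat_lit 1) (nat_lit 402) (nat_lit 385) (nat_lit 233)))) (XT.nd (nat_lit 156) (nat_lit 228) (nat_lit 0) (XT.nd (nat_lit 78) (nat_lit 0) (nat_lit 0) (XT.lf (nat_lit 152) (nat_lit 2385516584) (nat_lit 0) (nat_lit 9327820) (nat_lit 76) (nat_lit 9327820) (nat_lit 103) (nat_lit 1) (nat_lit 101) (nat_lit 1) (nat_lit 102) (nat_lit 1) (nat_lit 403) (nat_lit 385) (nat_lit 232)) (XT.lf (nat_lit 0) (nat_lit 779508248) (nat_lit 0) (nat_lit 805736133) (nat_lit 152) (nat_lit 779508248) (nat_lit 101) (nat_lit 3) (nat_lit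 101) (nat_lit 1) (nat_lit 103) (nat_lit 1) (nat_lit 404) (nat_lit 385) (nat_lit 231))) (XT.nd (nat_lit 78) (nat_lit 152) (nat_lit 0) (XT.lf (nat_lit 76) (nat_lit 758877813) (nat_lit 0) (nat_lit 783856751) (nat_lit 76) (nat_lit 783856751) (nat_lit 101) (nat_lit 3) (nat_lit 100) (nat_lit 1) (nat_lit 101) (nat_lit 1) (nat_lit 405) (nat_lit 385) (nat_lit 230)) (XT.lf (nat_lit 152) (nat_lit 2274282190) (nat_lit 0) (nat_lit 7674020) (nat_lit 76) (nat_lit 7674020) (nat_lit 100) (nat_lit 1) (nat_lit 98) (nat_lit 1) (nat_lit 99) (nat_lit 1) (nat_lit 406) (nat_lit 385) (nat_lit 229))))))) (XT.nd (nat_lit 1014) (nat_lit 988) (nat_lit 0) (XT.nd (nat_lit 468) (nat_lit 456) (nat_lit 0) (XT.nd (nat_lit 234) (nat_lit 228) (nat_lit 0) (XT.nd (nat_lit 78) (nat_lit 228) (nat_lit 0) (XT.lf (nat_lit 0) (nat_lit 743503953) (nat_lit 0) (nat_lit 765081699) (nat_lit 152) (nat_lit 743503953) (nat_lit 98) (nat_lit 3) (nat_lit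 98) (nat_lit 1) (nat_lit 100) (nat_lit 1) (nat_lit 407) (nat_lit 385) (nat_lit 228)) (XT.nd (nat_lit 78) (nat_lit 152) (nat_lit 0) (XT.lf (nat_lit 76) (nat_lit 724882846) (nat_lit 0) (nat_lit 745433080) (nat_lit 76) (nat_lit 745433080) (nat_lit 98) (nat_lit 3) (nat_lit 97) (nat_lit 1) (nat_lit 98) (nat_lit 1) (nat_lit 408) (nat_lit 385) (nat_lit 227)) (XT.lf (nat_lit 152) (nat_lit 2167925961) (nat_lit 0) (nat_lit 6313435) (nat_lit 76) (nat_lit 6313435) (nat_lit 97) (nat_lit 1) (nat_lit 95) (nat_lit 1) (nat_lit 96) (nat_lit 1) (nat_lit 409) (nat_lit 385) (nat_lit 226)))) (XT.nd (nat_lit 78) (nat_lit 228) (nat_lit 0) (XT.lf (nat_lit 0) (nat_lit 709016435) (nat_lit 0) (nat_lit 726768500) (nat_lit 152) (nat_lit 709016435) (nat_lit 95) (nat_lit 3) (nat_lit 95) (nat_lit 1) (nat_lit 97) (nat_lit 1) (nat_lit 410) (nat_lit 385) (nat_lit 225)) (XT.nd (nat_lit 78) (nat_lit 152) (nat_lit 0) (XT.lf (nat_lit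 76) (nat_lit 692126903) (nat_lit 0) (nat_lit 709033631) (nat_lit 76) (nat_lit 709033631) (nat_lit 95) (nat_lit 3) (nat_lit 94) (nat_lit 1) (nat_lit 95) (nat_lit 1) (nat_lit 411) (nat_lit 385) (nat_lit 224)) (XT.lf (nat_lit 152) (nat_lit 2066289838) (nat_lit 0) (nat_lit 5194079) (nat_lit 76) (nat_lit 5194079) (nat_lit 94) (nat_lit 1) (nat_lit 92) (nat_lit 1) (nat_lit 93) (nat_lit 1) (nat_lit 412) (nat_lit 385) (nat_lit 223))))) (XT.nd (nat_lit 234) (nat_lit 228) (nat_lit 0) (XT.nd (nat_lit 78) (nat_lit 228) (nat_lit 0) (XT.lf (nat_lit 0) (nat_lit 676008522) (nat_lit 0) (nat_lit 690613189) (nat_lit 152) (nat_lit 676008522) (nat_lit 92) (nat_lit 3) (nat_lit 92) (nat_lit 1) (nat_lit 94) (nat_lit 1) (nat_lit 413) (nat_lit 385) (nat_lit 222)) (XT.nd (nat_lit 78) (nat_lit 152) (nat_lit 0) (XT.lf (nat_lit 76) (nat_lit 660618317) (nat_lit 0) (nat_lit 674527525) (nat_lit 76) (nat_lit 674527525) (nat_lit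 92) (nat_lit 3) (nat_lit 91) (nat_lit 1) (nat_lit 92) (nat_lit 1) (nat_lit 414) (nat_lit 385) (nat_lit 221)) (XT.lf (nat_lit 152) (nat_lit 1969210130) (nat_lit 0) (nat_lit 4273181) (nat_lit 76) (nat_lit 4273181) (nat_lit 91) (nat_lit 1) (nat_lit 89) (nat_lit 1) (nat_lit 90) (nat_lit 1) (nat_lit 415) (nat_lit 385) (nat_lit 220)))) (XT.nd (nat_lit 156) (nat_lit 152) (nat_lit 0) (XT.nd (nat_lit 78) (nat_lit 76) (nat_lit 0) (XT.lf (nat_lit 0) (nat_lit 644438594) (nat_lit 0) (nat_lit 656453890) (nat_lit 152) (nat_lit 644438594) (nat_lit 89) (nat_lit 3) (nat_lit 89) (nat_lit 1) (nat_lit 91) (nat_lit 1) (nat_lit 416) (nat_lit 385) (nat_lit 219)) (XT.lf (nat_lit 76) (nat_lit 630353088) (nat_lit 0) (nat_lit 641796227) (nat_lit 76) (nat_lit 641796227) (nat_lit 89) (nat_lit 3) (nat_lit 88) (nat_lit 1) (nat_lit 89) (nat_lit 1) (nat_lit 417) (nat_lit 385) (nat_lit 218))) (XT.nd (nat_lit 78) (nat_lit 0) (nat_lit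 0) (XT.lf (nat_lit 152) (nat_lit 1876520111) (nat_lit 0) (nat_lit 3515557) (nat_lit 76) (nat_lit 3515557) (nat_lit 88) (nat_lit 1) (nat_lit 86) (nat_lit 1) (nat_lit 87) (nat_lit 1) (nat_lit 418) (nat_lit 385) (nat_lit 217)) (XT.lf (nat_lit 0) (nat_lit 614261903) (nat_lit 0) (nat_lit 624146917) (nat_lit 152) (nat_lit 614261903) (nat_lit 86) (nat_lit 3) (nat_lit 86) (nat_lit 1) (nat_lit 88) (nat_lit 1) (nat_lit 419) (nat_lit 385) (nat_lit 216)))))) (XT.nd (nat_lit 468) (nat_lit 532) (nat_lit 0) (XT.nd (nat_lit 234) (nat_lit 228) (nat_lit 0) (XT.nd (nat_lit 78) (nat_lit 152) (nat_lit 0) (XT.lf (nat_lit 76) (nat_lit 601317582) (nat_lit 0) (nat_lit 610731881) (nat_lit 76) (nat_lit 610731881) (nat_lit 86) (nat_lit 3) (nat_lit 85) (nat_lit 1) (nat_lit 86) (nat_lit 1) (nat_lit 420) (nat_lit 385) (nat_lit 215)) (XT.nd (nat_lit 78) (nat_lit 0) (nat_lit 0) (XT.lf (nat_lit 152) (nat_lit 1788052086) (nat_lit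 0) (nat_lit 2892257) (nat_lit 76) (nat_lit 2892257) (nat_lit 85) (nat_lit 1) (nat_lit 83) (nat_lit 1) (nat_lit 84) (nat_lit 1) (nat_lit 421) (nat_lit 385) (nat_lit 214)) (XT.lf (nat_lit 0) (nat_lit 585431622) (nat_lit 0) (nat_lit 593564048) (nat_lit 152) (nat_lit 585431622) (nat_lit 83) (nat_lit 3) (nat_lit 83) (nat_lit 1) (nat_lit 85) (nat_lit 1) (nat_lit 422) (nat_lit 385) (nat_lit 213)))) (XT.nd (nat_lit 78) (nat_lit 152) (nat_lit 0) (XT.lf (nat_lit 76) (nat_lit 573490736) (nat_lit 0) (nat_lit 581235903) (nat_lit 76) (nat_lit 581235903) (nat_lit 83) (nat_lit 3) (nat_lit 82) (nat_lit 1) (nat_lit 83) (nat_lit 1) (nat_lit 423) (nat_lit 385) (nat_lit 212)) (XT.nd (nat_lit 78) (nat_lit 0) (nat_lit 0) (XT.lf (nat_lit 152) (nat_lit 1703639015) (nat_lit 0) (nat_lit 2379467) (nat_lit 76) (nat_lit 2379467) (nat_lit 82) (nat_lit 1) (nat_lit 80) (nat_lit 1) (nat_lit 81) (nat_lit 1) (nat_lit 424) (nat_lit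 385) (nat_lit 211)) (XT.lf (nat_lit 0) (nat_lit 557899697) (nat_lit 0) (nat_lit 564590263) (nat_lit 152) (nat_lit 557899697) (nat_lit 80) (nat_lit 3) (nat_lit 80) (nat_lit 1) (nat_lit 82) (nat_lit 1) (nat_lit 425) (nat_lit 385) (nat_lit 210))))) (XT.nd (nat_lit 234) (nat_lit 304) (nat_lit 0) (XT.nd (nat_lit 78) (nat_lit 152) (nat_lit 0) (XT.lf (nat_lit 76) (nat_lit 546845841) (nat_lit 0) (nat_lit 553217809) (nat_lit 76) (nat_lit 553217809) (nat_lit 80) (nat_lit 3) (nat_lit 79) (nat_lit 1) (nat_lit 80) (nat_lit 1) (nat_lit 426) (nat_lit 385) (nat_lit 209)) (XT.nd (nat_lit 78) (nat_lit 0) (nat_lit 0) (XT.lf (nat_lit 152) (nat_lit 1623115786) (nat_lit 0) (nat_lit 1957593) (nat_lit 76) (nat_lit 1957593) (nat_lit 79) (nat_lit 1) (nat_lit 77) (nat_lit 1) (nat_lit 78) (nat_lit 1) (nat_lit 427) (nat_lit 385) (nat_lit 208)) (XT.lf (nat_lit 0) (nat_lit 531617511) (nat_lit 0) (nat_lit 537121857) (nat_lit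 152) (nat_lit 531617511) (nat_lit 77) (nat_lit 3) (nat_lit 77) (nat_lit 1) (nat_lit 79) (nat_lit 1) (nat_lit 428) (nat_lit 385) (nat_lit 207)))) (XT.nd (nat_lit 156) (nat_lit 76) (nat_lit 0) (XT.nd (nat_lit 78) (nat_lit 152) (nat_lit 0) (XT.lf (nat_lit 76) (nat_lit 521351992) (nat_lit 0) (nat_lit 526594226) (nat_lit 76) (nat_lit 526594226) (nat_lit 77) (nat_lit 3) (nat_lit 76) (nat_lit 1) (nat_lit 77) (nat_lit 1) (nat_lit 429) (nat_lit 385) (nat_lit 206)) (XT.lf (nat_lit 152) (nat_lit 1546320185) (nat_lit 0) (nat_lit 1610517) (nat_lit 76) (nat_lit 1610517) (nat_lit 76) (nat_lit 1) (nat_lit 74) (nat_lit 1) (nat_lit 75) (nat_lit 1) (nat_lit 430) (nat_lit 385) (nat_lit 205))) (XT.nd (nat_lit 78) (nat_lit 76) (nat_lit 0) (XT.lf (nat_lit 0) (nat_lit 506536422) (nat_lit 0) (nat_lit 511064861) (nat_lit 152) (nat_lit 506536422) (nat_lit 74) (nat_lit 3) (nat_lit 74) (nat_lit 1) (nat_lit 76) (nat_lit 1)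 (nat_lit 431) (nat_lit 385) (nat_lit 204)) (XT.lf (nat_lit 76) (nat_lit 496975255) (nat_lit 0) (nat_lit 501288054) (nat_lit 76) (nat_lit 501288054) (nat_lit 74) (nat_lit 3) (nat_lit 73) (nat_lit 1) (nat_lit 74) (nat_lit 1) (nat_lit 432) (nat_lit 385) (nat_lit 203))))))))
noncomputable def ec196 : XT := (XT.nd (nat_lit 39468) (nat_lit 0) (nat_lit 13224) (XT.nd (nat_lit 936) (nat_lit 228) (nat_lit 0) (XT.nd (nat_lit 468) (nat_lit 456) (nat_lit 0) (XT.nd (nat_lit 234) (nat_lit 228) (nat_lit 0) (XT.nd (nat_lit 78) (nat_lit 76) (nat_lit 0) (XT.lf (nat_lit 152) (nat_lit 1473093644) (nat_lit 0) (nat_lit 1324976) (nat_lit 76) (nat_lit 1324976) (nat_lit 73) (nat_lit 1) (nat_lit 71) (nat_lit 1) (nat_lit 72) (nat_lit 1) (nat_lit 433) (nat_lit 385) (nat_lit 202)) (XT.nd (nat_lit 78) (nat_lit 76) (nat_lit 0) (XT.lf (nat_lit 0) (nat_lit 482608178) (nat_lit 0) (nat_lit 486333736) (nat_lit 152) (nat_lit 482608178)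 (nat_lit 71) (nat_lit 3) (nat_lit 71) (nat_lit 1) (nat_lit 73) (nat_lit 1) (nat_lit 434) (nat_lit 385) (nat_lit 201)) (XT.lf (nat_lit 76) (nat_lit 473679611) (nat_lit 0) (nat_lit 477227761) (nat_lit 76) (nat_lit 477227761) (nat_lit 71) (nat_lit 3) (nat_lit 70) (nat_lit 1) (nat_lit 71) (nat_lit 1) (nat_lit 435) (nat_lit 385) (nat_lit 200)))) (XT.nd (nat_lit 78) (nat_lit 76) (nat_lit 0) (XT.lf (nat_lit 152) (nat_lit 1403281788) (nat_lit 0) (nat_lit 1090061) (nat_lit 76) (nat_lit 1090061) (nat_lit 70) (nat_lit 1) (nat_lit 68) (nat_lit 1) (nat_lit 69) (nat_lit 1) (nat_lit 436) (nat_lit 385) (nat_lit 199)) (XT.nd (nat_lit 78) (nat_lit 76) (nat_lit 0) (XT.lf (nat_lit 0) (nat_lit 459785238) (nat_lit 0) (nat_lit 462850264) (nat_lit 152) (nat_lit 459785238) (nat_lit 68) (nat_lit 3) (nat_lit 68) (nat_lit 1) (nat_lit 70) (nat_lit 1) (nat_lit 437) (nat_lit 385) (nat_lit 198)) (XT.lf (nat_lit 76) (nat_lit 451427711)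 (nat_lit 0) (nat_lit 454346783) (nat_lit 76) (nat_lit 454346783) (nat_lit 68) (nat_lit 3) (nat_lit 67) (nat_lit 1) (nat_lit 68) (nat_lit 1) (nat_lit 438) (nat_lit 385) (nat_lit 197))))) (XT.nd (nat_lit 234) (nat_lit 228) (nat_lit 0) (XT.nd (nat_lit 78) (nat_lit 76) (nat_lit 0) (XT.lf (nat_lit 152) (nat_lit 1336734829) (nat_lit 0) (nat_lit 896796) (nat_lit 76) (nat_lit 896796) (nat_lit 67) (nat_lit 1) (nat_lit 65) (nat_lit 1) (nat_lit 66) (nat_lit 1) (nat_lit 439) (nat_lit 385) (nat_lit 196)) (XT.nd (nat_lit 78) (nat_lit 76) (nat_lit 0) (XT.lf (nat_lit 0) (nat_lit 438021020) (nat_lit 0) (nat_lit 440542624) (nat_lit 152) (nat_lit 438021020) (nat_lit 65) (nat_lit 3) (nat_lit 65) (nat_lit 1) (nat_lit 67) (nat_lit 1) (nat_lit 440) (nat_lit 385) (nat_lit 195)) (XT.lf (nat_lit 76) (nat_lit 430181479) (nat_lit 0) (nat_lit 432583007) (nat_lit 76) (nat_lit 432583007) (nat_lit 65) (nat_lit 3) (nat_lit 64)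 (nat_lit 1) (nat_lit 65) (nat_lit 1) (nat_lit 441) (nat_lit 385) (nat_lit 194)))) (XT.nd (nat_lit 78) (nat_lit 76) (nat_lit 0) (XT.lf (nat_lit 152) (nat_lit 1273307842) (nat_lit 0) (nat_lit 737796) (nat_lit 76) (nat_lit 737796) (nat_lit 64) (nat_lit 1) (nat_lit 62) (nat_lit 1) (nat_lit 63) (nat_lit 1) (nat_lit 442) (nat_lit 385) (nat_lit 193)) (XT.nd (nat_lit 78) (nat_lit 76) (nat_lit 0) (XT.lf (nat_lit 0) (nat_lit 417270089) (nat_lit 0) (nat_lit 419344619) (nat_lit 152) (nat_lit 417270089) (nat_lit 62) (nat_lit 3) (nat_lit 62) (nat_lit 1) (nat_lit 64) (nat_lit 1) (nat_lit 443) (nat_lit 385) (nat_lit 192)) (XT.lf (nat_lit 76) (nat_lit 409902590) (nat_lit 0) (nat_lit 411878333) (nat_lit 76) (nat_lit 411878333) (nat_lit 62) (nat_lit 3) (nat_lit 61) (nat_lit 1) (nat_lit 62) (nat_lit 1) (nat_lit 444) (nat_lit 385) (nat_lit 191)))))) (XT.nd (nat_lit 37986) (nat_lit 0) (nat_lit 17860) (XT.nd (nat_lit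 37752) (nat_lit 0) (nat_lit 17784) (XT.nd (nat_lit 78) (nat_lit 76) (nat_lit 0) (XT.lf (nat_lit 152) (nat_lit 1212860932) (nat_lit 0) (nat_lit 606987) (nat_lit 76) (nat_lit 606987) (nat_lit 61) (nat_lit 1) (nat_lit 59) (nat_lit 1) (nat_lit 60) (nat_lit 1) (nat_lit 445) (nat_lit 385) (nat_lit 190)) (XT.nd (nat_lit 78) (nat_lit 76) (nat_lit 0) (XT.lf (nat_lit 0) (nat_lit 397488288) (nat_lit 0) (nat_lit 399195009) (nat_lit 152) (nat_lit 397488288) (nat_lit 59) (nat_lit 3) (nat_lit 59) (nat_lit 1) (nat_lit 61) (nat_lit 1) (nat_lit 446) (nat_lit 385) (nat_lit 189)) (XT.lf (nat_lit 76) (nat_lit 390552849) (nat_lit 0) (nat_lit 392178297) (nat_lit 76) (nat_lit 392178297) (nat_lit 59) (nat_lit 3) (nat_lit 58) (nat_lit 1) (nat_lit 59) (nat_lit 1) (nat_lit 447) (nat_lit 385) (nat_lit 188)))) (XT.nd (nat_lit 78) (nat_lit 0) (nat_lit 0) (XT.lf (nat_lit 836) (nat_lit 5069410221) (nat_lit 0) (nat_lit 9000726196)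 (nat_lit 836) (nat_lit 5069410221) (nat_lit 303) (nat_lit 1) (nat_lit 292) (nat_lit 0) (nat_lit 303) (nat_lit 0) (nat_lit 248) (nat_lit 386) (nat_lit 386)) (XT.nd (nat_lit 78) (nat_lit 0) (nat_lit 76) (XT.lf (nat_lit 836) (nat_lit 19649666910) (nat_lit 76) (nat_lit 8855553193) (nat_lit 0) (nat_lit 8855553193) (nat_lit 303) (nat_lit 1) (nat_lit 293) (nat_lit 1) (nat_lit 292) (nat_lit 0) (nat_lit 249) (nat_lit 386) (nat_lit 385)) (XT.lf (nat_lit 836) (nat_lit 9364735384) (nat_lit 0) (nat_lit 17741372748) (nat_lit 760) (nat_lit 9364735384) (nat_lit 304) (nat_lit 1) (nat_lit 293) (nat_lit 1) (nat_lit 303) (nat_lit 1) (nat_lit 250) (nat_lit 386) (nat_lit 384))))) (XT.nd (nat_lit 234) (nat_lit 0) (nat_lit 152) (XT.nd (nat_lit 78) (nat_lit 0) (nat_lit 76) (XT.lf (nat_lit 836) (nat_lit 17566942318) (nat_lit 76) (nat_lit 9021361391) (nat_lit 0) (nat_lit 9021361391) (nat_lit 304) (nat_lit 1) (nat_lit 294)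 (nat_lit 1) (nat_lit 293) (nat_lit 1) (nat_lit 251) (nat_lit 386) (nat_lit 383)) (XT.nd (nat_lit 78) (nat_lit 0) (nat_lit 0) (XT.lf (nat_lit 836) (nat_lit 8085894852) (nat_lit 0) (nat_lit 18603992016) (nat_lit 760) (nat_lit 8085894852) (nat_lit 305) (nat_lit 1) (nat_lit 294) (nat_lit 1) (nat_lit 304) (nat_lit 1) (nat_lit 252) (nat_lit 386) (nat_lit 382)) (XT.lf (nat_lit 836) (nat_lit 14543008542) (nat_lit 76) (nat_lit 9712154875) (nat_lit 0) (nat_lit 9712154875) (nat_lit 305) (nat_lit 1) (nat_lit 295) (nat_lit 1) (nat_lit 294) (nat_lit 1) (nat_lit 253) (nat_lit 386) (nat_lit 381)))) (XT.nd (nat_lit 156) (nat_lit 0) (nat_lit 76) (XT.nd (nat_lit 78) (nat_lit 0) (nat_lit 0) (XT.lf (nat_lit 836) (nat_lit 6376689205) (nat_lit 0) (nat_lit 20432621855) (nat_lit 760) (nat_lit 6376689205) (nat_lit 306) (nat_lit 1) (nat_lit 295) (nat_lit 1) (nat_lit 305) (nat_lit 1) (nat_lit 254) (nat_lit 386) (nat_lit 380))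 (XT.lf (nat_lit 836) (nat_lit 10719410346) (nat_lit 76) (nat_lit 10853392128) (nat_lit 0) (nat_lit 10853392128) (nat_lit 306) (nat_lit 1) (nat_lit 296) (nat_lit 1) (nat_lit 295) (nat_lit 1) (nat_lit 255) (nat_lit 386) (nat_lit 379))) (XT.nd (nat_lit 78) (nat_lit 0) (nat_lit 0) (XT.lf (nat_lit 836) (nat_lit 4303284932) (nat_lit 0) (nat_lit 23087632296) (nat_lit 760) (nat_lit 4303284932) (nat_lit 307) (nat_lit 1) (nat_lit 296) (nat_lit 1) (nat_lit 306) (nat_lit 1) (nat_lit 256) (nat_lit 386) (nat_lit 378)) (XT.lf (nat_lit 836) (nat_lit 6221959668) (nat_lit 76) (nat_lit 12378687197) (nat_lit 0) (nat_lit 12378687197) (nat_lit 307) (nat_lit 1) (nat_lit 297) (nat_lit 1) (nat_lit 296) (nat_lit 1) (nat_lit 257) (nat_lit 386) (nat_lit 377))))))) (XT.nd (nat_lit 936) (nat_lit 1900) (nat_lit 0) (XT.nd (nat_lit 468) (nat_lit 1368) (nat_lit 0) (XT.nd (nat_lit 234) (nat_lit 380) (nat_lit 0) (XT.nd (nat_lit 78)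 (nat_lit 1292) (nat_lit 0) (XT.lf (nat_lit 76) (nat_lit 1924451499) (nat_lit 0) (nat_lit 26444747194) (nat_lit 760) (nat_lit 1924451499) (nat_lit 298) (nat_lit 1) (nat_lit 297) (nat_lit 1) (nat_lit 307) (nat_lit 1) (nat_lit 258) (nat_lit 386) (nat_lit 376)) (XT.nd (nat_lit 78) (nat_lit 532) (nat_lit 0) (XT.lf (nat_lit 836) (nat_lit 1162320848) (nat_lit 0) (nat_lit 14228993110) (nat_lit 760) (nat_lit 14228993110) (nat_lit 298) (nat_lit 1) (nat_lit 287) (nat_lit 1) (nat_lit 297) (nat_lit 1) (nat_lit 259) (nat_lit 386) (nat_lit 375)) (XT.lf (nat_lit 532) (nat_lit 27583337533) (nat_lit 0) (nat_lit 696277248) (nat_lit 456) (nat_lit 696277248) (nat_lit 287) (nat_lit 1) (nat_lit 280) (nat_lit 1) (nat_lit 286) (nat_lit 1) (nat_lit 260) (nat_lit 386) (nat_lit 374)))) (XT.nd (nat_lit 78) (nat_lit 380) (nat_lit 0) (XT.lf (nat_lit 76) (nat_lit 12059387162) (nat_lit 0) (nat_lit 4220992287) (nat_lit 532) (nat_lit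 12059387162) (nat_lit 281) (nat_lit 1) (nat_lit 280) (nat_lit 1) (nat_lit 287) (nat_lit 1) (nat_lit 261) (nat_lit 386) (nat_lit 373)) (XT.nd (nat_lit 78) (nat_lit 0) (nat_lit 0) (XT.lf (nat_lit 456) (nat_lit 20751109796) (nat_lit 0) (nat_lit 3489790577) (nat_lit 380) (nat_lit 3489790577) (nat_lit 281) (nat_lit 1) (nat_lit 275) (nat_lit 1) (nat_lit 280) (nat_lit 1) (nat_lit 262) (nat_lit 386) (nat_lit 372)) (XT.lf (nat_lit 76) (nat_lit 8601814058) (nat_lit 0) (nat_lit 9930791627) (nat_lit 456) (nat_lit 8601814058) (nat_lit 276) (nat_lit 1) (nat_lit 275) (nat_lit 1) (nat_lit 281) (nat_lit 1) (nat_lit 263) (nat_lit 386) (nat_lit 371))))) (XT.nd (nat_lit 234) (nat_lit 684) (nat_lit 0) (XT.nd (nat_lit 78) (nat_lit 304) (nat_lit 0) (XT.lf (nat_lit 456) (nat_lit 13664900078) (nat_lit 0) (nat_lit 6447007495) (nat_lit 380) (nat_lit 6447007495) (nat_lit 276) (nat_lit 1) (nat_lit 270) (nat_lit 1) (nat_lit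 275) (nat_lit 1) (nat_lit 264) (nat_lit 386) (nat_lit 370)) (XT.nd (nat_lit 78) (nat_lit 304) (nat_lit 0) (XT.lf (nat_lit 76) (nat_lit 5035334071) (nat_lit 0) (nat_lit 15929479865) (nat_lit 456) (nat_lit 5035334071) (nat_lit 271) (nat_lit 1) (nat_lit 270) (nat_lit 1) (nat_lit 276) (nat_lit 1) (nat_lit 265) (nat_lit 386) (nat_lit 369)) (XT.lf (nat_lit 380) (nat_lit 6390663015) (nat_lit 0) (nat_lit 9532545632) (nat_lit 304) (nat_lit 9532545632) (nat_lit 271) (nat_lit 1) (nat_lit 266) (nat_lit 1) (nat_lit 270) (nat_lit 1) (nat_lit 266) (nat_lit 386) (nat_lit 368)))) (XT.nd (nat_lit 78) (nat_lit 684) (nat_lit 0) (XT.lf (nat_lit 76) (nat_lit 1390565629) (nat_lit 0) (nat_lit 22151163994) (nat_lit 380) (nat_lit 1390565629) (nat_lit 267) (nat_lit 1) (nat_lit 266) (nat_lit 1) (nat_lit 271) (nat_lit 1) (nat_lit 267) (nat_lit 386) (nat_lit 367)) (XT.nd (nat_lit 78) (nat_lit 304) (nat_lit 0) (XT.lf (nat_lit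 76) (nat_lit 11717305576) (nat_lit 0) (nat_lit 981347103) (nat_lit 380) (nat_lit 11717305576) (nat_lit 262) (nat_lit 1) (nat_lit 261) (nat_lit 1) (nat_lit 266) (nat_lit 1) (nat_lit 268) (nat_lit 386) (nat_lit 366)) (XT.lf (nat_lit 380) (nat_lit 19382271262) (nat_lit 0) (nat_lit 2268506687) (nat_lit 304) (nat_lit 2268506687) (nat_lit 262) (nat_lit 1) (nat_lit 257) (nat_lit 1) (nat_lit 261) (nat_lit 1) (nat_lit 269) (nat_lit 386) (nat_lit 365)))))) (XT.nd (nat_lit 468) (nat_lit 988) (nat_lit 0) (XT.nd (nat_lit 234) (nat_lit 608) (nat_lit 0) (XT.nd (nat_lit 78) (nat_lit 304) (nat_lit 0) (XT.lf (nat_lit 76) (nat_lit 7602578892) (nat_lit 0) (nat_lit 8225973779) (nat_lit 380) (nat_lit 7602578892) (nat_lit 258) (nat_lit 1) (nat_lit 257) (nat_lit 1) (nat_lit 262) (nat_lit 1) (nat_lit 270) (nat_lit 386) (nat_lit 364)) (XT.nd (nat_lit 78) (nat_lit 0) (nat_lit 0) (XT.lf (nat_lit 380) (nat_lit 11094277477)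 (nat_lit 0) (nat_lit 5932814223) (nat_lit 304) (nat_lit 5932814223) (nat_lit 258) (nat_lit 1) (nat_lit 253) (nat_lit 1) (nat_lit 257) (nat_lit 1) (nat_lit 271) (nat_lit 386) (nat_lit 363)) (XT.lf (nat_lit 76) (nat_lit 3498639987) (nat_lit 0) (nat_lit 15505178988) (nat_lit 380) (nat_lit 3498639987) (nat_lit 254) (nat_lit 1) (nat_lit 253) (nat_lit 1) (nat_lit 258) (nat_lit 1) (nat_lit 272) (nat_lit 386) (nat_lit 362)))) (XT.nd (nat_lit 78) (nat_lit 380) (nat_lit 0) (XT.lf (nat_lit 304) (nat_lit 2845294057) (nat_lit 0) (nat_lit 9604796195) (nat_lit 228) (nat_lit 9604796195) (nat_lit 254) (nat_lit 1) (nat_lit 250) (nat_lit 1) (nat_lit 253) (nat_lit 1) (nat_lit 273) (nat_lit 386) (nat_lit 361)) (XT.nd (nat_lit 78) (nat_lit 0) (nat_lit 0) (XT.lf (nat_lit 380) (nat_lit 20487602895) (nat_lit 0) (nat_lit 568491668) (nat_lit 304) (nat_lit 568491668) (nat_lit 250) (nat_lit 1) (nat_lit 245) (nat_lit 1) (nat_lit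 249) (nat_lit 1) (nat_lit 274) (nat_lit 386) (nat_lit 360)) (XT.lf (nat_lit 76) (nat_lit 8016950475) (nat_lit 0) (nat_lit 5162766727) (nat_lit 380) (nat_lit 8016950475) (nat_lit 246) (nat_lit 1) (nat_lit 245) (nat_lit 1) (nat_lit 250) (nat_lit 1) (nat_lit 275) (nat_lit 386) (nat_lit 359))))) (XT.nd (nat_lit 234) (nat_lit 532) (nat_lit 0) (XT.nd (nat_lit 78) (nat_lit 228) (nat_lit 0) (XT.lf (nat_lit 304) (nat_lit 11709009619) (nat_lit 0) (nat_lit 4538075659) (nat_lit 228) (nat_lit 4538075659) (nat_lit 246) (nat_lit 1) (nat_lit 242) (nat_lit 1) (nat_lit 245) (nat_lit 1) (nat_lit 276) (nat_lit 386) (nat_lit 358)) (XT.nd (nat_lit 78) (nat_lit 228) (nat_lit 0) (XT.lf (nat_lit 76) (nat_lit 3699057258) (nat_lit 0) (nat_lit 12985994716) (nat_lit 304) (nat_lit 3699057258) (nat_lit 243) (nat_lit 1) (nat_lit 242) (nat_lit 1) (nat_lit 246) (nat_lit 1) (nat_lit 277) (nat_lit 386) (nat_lit 357)) (XT.lf (nat_lit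 304) (nat_lit 3083048606) (nat_lit 0) (nat_lit 8454566370) (nat_lit 228) (nat_lit 8454566370) (nat_lit 243) (nat_lit 1) (nat_lit 239) (nat_lit 1) (nat_lit 242) (nat_lit 1) (nat_lit 278) (nat_lit 386) (nat_lit 356)))) (XT.nd (nat_lit 156) (nat_lit 228) (nat_lit 0) (XT.nd (nat_lit 78) (nat_lit 0) (nat_lit 0) (XT.lf (nat_lit 304) (nat_lit 18555106579) (nat_lit 0) (nat_lit 529853750) (nat_lit 228) (nat_lit 529853750) (nat_lit 239) (nat_lit 1) (nat_lit 235) (nat_lit 1) (nat_lit 238) (nat_lit 1) (nat_lit 279) (nat_lit 386) (nat_lit 355)) (XT.lf (nat_lit 76) (nat_lit 7018865434) (nat_lit 0) (nat_lit 5200908809) (nat_lit 304) (nat_lit 7018865434) (nat_lit 236) (nat_lit 1) (nat_lit 235) (nat_lit 1) (nat_lit 239) (nat_lit 1) (nat_lit 280) (nat_lit 386) (nat_lit 354))) (XT.nd (nat_lit 78) (nat_lit 0) (nat_lit 0) (XT.lf (nat_lit 304) (nat_lit 9651582660) (nat_lit 0) (nat_lit 4612400563) (nat_lit 228) (nat_lit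 4612400563) (nat_lit 236) (nat_lit 1) (nat_lit 232) (nat_lit 1) (nat_lit 235) (nat_lit 1) (nat_lit 281) (nat_lit 386) (nat_lit 353)) (XT.lf (nat_lit 76) (nat_lit 2658037993) (nat_lit 0) (nat_lit 13207767779) (nat_lit 304) (nat_lit 2658037993) (nat_lit 233) (nat_lit 1) (nat_lit 232) (nat_lit 1) (nat_lit 236) (nat_lit 1) (nat_lit 282) (nat_lit 386) (nat_lit 352))))))))
noncomputable def ec197 : XT := (XT.nd (nat_lit 1950) (nat_lit 1976) (nat_lit 0) (XT.nd (nat_lit 936) (nat_lit 1216) (nat_lit 0) (XT.nd (nat_lit 468) (nat_lit 684) (nat_lit 0) (XT.nd (nat_lit 234) (nat_lit 380) (nat_lit 0) (XT.nd (nat_lit 78) (nat_lit 304) (nat_lit 0) (XT.lf (nat_lit 228) (nat_lit 973993498) (nat_lit 0) (nat_lit 8601976825) (nat_lit 152) (nat_lit 8601976825) (nat_lit 233) (nat_lit 1) (nat_lit 230) (nat_lit 1) (nat_lit 232) (nat_lit 1) (nat_lit 283) (nat_lit 386) (nat_lit 351)) (XT.nd (nat_lit 78) (nat_lit 0) (nat_lit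 0) (XT.lf (nat_lit 304) (nat_lit 14716715170) (nat_lit 0) (nat_lit 1563021822) (nat_lit 228) (nat_lit 1563021822) (nat_lit 230) (nat_lit 1) (nat_lit 226) (nat_lit 1) (nat_lit 229) (nat_lit 1) (nat_lit 284) (nat_lit 386) (nat_lit 350)) (XT.lf (nat_lit 76) (nat_lit 5140199276) (nat_lit 0) (nat_lit 7230920689) (nat_lit 304) (nat_lit 5140199276) (nat_lit 227) (nat_lit 1) (nat_lit 226) (nat_lit 1) (nat_lit 230) (nat_lit 1) (nat_lit 285) (nat_lit 386) (nat_lit 349)))) (XT.nd (nat_lit 78) (nat_lit 228) (nat_lit 0) (XT.lf (nat_lit 228) (nat_lit 5938707354) (nat_lit 0) (nat_lit 5625700723) (nat_lit 152) (nat_lit 5625700723) (nat_lit 227) (nat_lit 1) (nat_lit 224) (nat_lit 1) (nat_lit 226) (nat_lit 1) (nat_lit 286) (nat_lit 386) (nat_lit 348)) (XT.nd (nat_lit 78) (nat_lit 228) (nat_lit 0) (XT.lf (nat_lit 76) (nat_lit 853203748) (nat_lit 0) (nat_lit 15173150606) (nat_lit 228) (nat_lit 853203748) (nat_lit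 225) (nat_lit 1) (nat_lit 224) (nat_lit 1) (nat_lit 227) (nat_lit 1) (nat_lit 287) (nat_lit 386) (nat_lit 347)) (XT.lf (nat_lit 76) (nat_lit 7041640228) (nat_lit 0) (nat_lit 2486855822) (nat_lit 228) (nat_lit 7041640228) (nat_lit 222) (nat_lit 1) (nat_lit 221) (nat_lit 1) (nat_lit 224) (nat_lit 1) (nat_lit 288) (nat_lit 386) (nat_lit 346))))) (XT.nd (nat_lit 234) (nat_lit 380) (nat_lit 0) (XT.nd (nat_lit 78) (nat_lit 152) (nat_lit 0) (XT.lf (nat_lit 228) (nat_lit 9778551611) (nat_lit 0) (nat_lit 3246214194) (nat_lit 152) (nat_lit 3246214194) (nat_lit 222) (nat_lit 1) (nat_lit 219) (nat_lit 1) (nat_lit 221) (nat_lit 1) (nat_lit 289) (nat_lit 386) (nat_lit 345)) (XT.nd (nat_lit 78) (nat_lit 152) (nat_lit 0) (XT.lf (nat_lit 76) (nat_lit 2759252864) (nat_lit 0) (nat_lit 10459930001) (nat_lit 228) (nat_lit 2759252864) (nat_lit 220) (nat_lit 1) (nat_lit 219) (nat_lit 1) (nat_lit 222) (nat_lit 1) (nat_lit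 290) (nat_lit 386) (nat_lit 344)) (XT.lf (nat_lit 228) (nat_lit 1292610624) (nat_lit 0) (nat_lit 7199588886) (nat_lit 152) (nat_lit 7199588886) (nat_lit 220) (nat_lit 1) (nat_lit 217) (nat_lit 1) (nat_lit 219) (nat_lit 1) (nat_lit 291) (nat_lit 386) (nat_lit 343)))) (XT.nd (nat_lit 78) (nat_lit 152) (nat_lit 0) (XT.lf (nat_lit 228) (nat_lit 12704612300) (nat_lit 0) (nat_lit 1354417296) (nat_lit 152) (nat_lit 1354417296) (nat_lit 217) (nat_lit 1) (nat_lit 214) (nat_lit 1) (nat_lit 216) (nat_lit 1) (nat_lit 292) (nat_lit 386) (nat_lit 342)) (XT.nd (nat_lit 78) (nat_lit 152) (nat_lit 0) (XT.lf (nat_lit 76) (nat_lit 4229396568) (nat_lit 0) (nat_lit 6678687866) (nat_lit 228) (nat_lit 4229396568) (nat_lit 215) (nat_lit 1) (nat_lit 214) (nat_lit 1) (nat_lit 217) (nat_lit 1) (nat_lit 293) (nat_lit 386) (nat_lit 341)) (XT.lf (nat_lit 228) (nat_lit 4307435064) (nat_lit 0) (nat_lit 5281045859) (nat_lit 152)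 (nat_lit 5281045859) (nat_lit 215) (nat_lit 1) (nat_lit 212) (nat_lit 1) (nat_lit 214) (nat_lit 1) (nat_lit 294) (nat_lit 386) (nat_lit 340)))))) (XT.nd (nat_lit 468) (nat_lit 608) (nat_lit 0) (XT.nd (nat_lit 234) (nat_lit 304) (nat_lit 0) (XT.nd (nat_lit 78) (nat_lit 304) (nat_lit 0) (XT.lf (nat_lit 76) (nat_lit 141573510) (nat_lit 0) (nat_lit 14327822713) (nat_lit 228) (nat_lit 141573510) (nat_lit 213) (nat_lit 1) (nat_lit 212) (nat_lit 1) (nat_lit 215) (nat_lit 1) (nat_lit 295) (nat_lit 386) (nat_lit 339)) (XT.nd (nat_lit 78) (nat_lit 152) (nat_lit 0) (XT.lf (nat_lit 76) (nat_lit 5345584935) (nat_lit 0) (nat_lit 3659599292) (nat_lit 152) (nat_lit 5345584935) (nat_lit 211) (nat_lit 1) (nat_lit 210) (nat_lit 1) (nat_lit 212) (nat_lit 1) (nat_lit 296) (nat_lit 386) (nat_lit 338)) (XT.lf (nat_lit 228) (nat_lit 6633262350) (nat_lit 0) (nat_lit 3733230703) (nat_lit 152) (nat_lit 3733230703) (nat_lit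 211) (nat_lit 1) (nat_lit 208) (nat_lit 1) (nat_lit 210) (nat_lit 1) (nat_lit 297) (nat_lit 386) (nat_lit 337)))) (XT.nd (nat_lit 78) (nat_lit 304) (nat_lit 0) (XT.lf (nat_lit 76) (nat_lit 1329923257) (nat_lit 0) (nat_lit 11195608190) (nat_lit 228) (nat_lit 1329923257) (nat_lit 209) (nat_lit 1) (nat_lit 208) (nat_lit 1) (nat_lit 211) (nat_lit 1) (nat_lit 298) (nat_lit 386) (nat_lit 336)) (XT.nd (nat_lit 78) (nat_lit 152) (nat_lit 0) (XT.lf (nat_lit 76) (nat_lit 6175016348) (nat_lit 0) (nat_lit 1263167352) (nat_lit 152) (nat_lit 6175016348) (nat_lit 207) (nat_lit 1) (nat_lit 206) (nat_lit 1) (nat_lit 208) (nat_lit 1) (nat_lit 299) (nat_lit 386) (nat_lit 335)) (XT.lf (nat_lit 228) (nat_lit 8399605981) (nat_lit 0) (nat_lit 2488958334) (nat_lit 152) (nat_lit 2488958334) (nat_lit 207) (nat_lit 1) (nat_lit 204) (nat_lit 1) (nat_lit 206) (nat_lit 1) (nat_lit 300) (nat_lit 386) (nat_lit 334))))) (XT.nd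 (nat_lit 234) (nat_lit 304) (nat_lit 0) (XT.nd (nat_lit 78) (nat_lit 304) (nat_lit 0) (XT.lf (nat_lit 76) (nat_lit 2249798182) (nat_lit 0) (nat_lit 8646914551) (nat_lit 228) (nat_lit 2249798182) (nat_lit 205) (nat_lit 1) (nat_lit 204) (nat_lit 1) (nat_lit 207) (nat_lit 1) (nat_lit 301) (nat_lit 386) (nat_lit 333)) (XT.nd (nat_lit 78) (nat_lit 228) (nat_lit 0) (XT.lf (nat_lit 152) (nat_lit 645835128) (nat_lit 0) (nat_lit 6137011678) (nat_lit 76) (nat_lit 6137011678) (nat_lit 205) (nat_lit 1) (nat_lit 203) (nat_lit 1) (nat_lit 204) (nat_lit 1) (nat_lit 302) (nat_lit 386) (nat_lit 332)) (XT.lf (nat_lit 228) (nat_lit 9712666753) (nat_lit 0) (nat_lit 1493024748) (nat_lit 152) (nat_lit 1493024748) (nat_lit 203) (nat_lit 1) (nat_lit 200) (nat_lit 1) (nat_lit 202) (nat_lit 1) (nat_lit 303) (nat_lit 386) (nat_lit 331)))) (XT.nd (nat_lit 156) (nat_lit 228) (nat_lit 0) (XT.nd (nat_lit 78) (nat_lit 76) (nat_lit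 0) (XT.lf (nat_lit 76) (nat_lit 2951549797) (nat_lit 0) (nat_lit 6576942749) (nat_lit 228) (nat_lit 2951549797) (nat_lit 201) (nat_lit 1) (nat_lit 200) (nat_lit 1) (nat_lit 203) (nat_lit 1) (nat_lit 304) (nat_lit 386) (nat_lit 330)) (XT.lf (nat_lit 152) (nat_lit 2168860674) (nat_lit 0) (nat_lit 5048934695) (nat_lit 76) (nat_lit 5048934695) (nat_lit 201) (nat_lit 1) (nat_lit 199) (nat_lit 1) (nat_lit 200) (nat_lit 1) (nat_lit 305) (nat_lit 386) (nat_lit 329))) (XT.nd (nat_lit 78) (nat_lit 0) (nat_lit 0) (XT.lf (nat_lit 228) (nat_lit 10659482712) (nat_lit 0) (nat_lit 700079505) (nat_lit 152) (nat_lit 700079505) (nat_lit 199) (nat_lit 1) (nat_lit 196) (nat_lit 1) (nat_lit 198) (nat_lit 1) (nat_lit 306) (nat_lit 386) (nat_lit 328)) (XT.lf (nat_lit 76) (nat_lit 3476471384) (nat_lit 0) (nat_lit 4899538266) (nat_lit 228) (nat_lit 3476471384) (nat_lit 197) (nat_lit 1) (nat_lit 196) (nat_lit 1) (nat_lit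 199) (nat_lit 1) (nat_lit 307) (nat_lit 386) (nat_lit 327))))))) (XT.nd (nat_lit 1014) (nat_lit 912) (nat_lit 0) (XT.nd (nat_lit 468) (nat_lit 532) (nat_lit 0) (XT.nd (nat_lit 234) (nat_lit 228) (nat_lit 0) (XT.nd (nat_lit 78) (nat_lit 228) (nat_lit 0) (XT.lf (nat_lit 152) (nat_lit 3343879916) (nat_lit 0) (nat_lit 4153771069) (nat_lit 76) (nat_lit 4153771069) (nat_lit 197) (nat_lit 1) (nat_lit 195) (nat_lit 1) (nat_lit 196) (nat_lit 1) (nat_lit 308) (nat_lit 386) (nat_lit 326)) (XT.nd (nat_lit 78) (nat_lit 0) (nat_lit 0) (XT.lf (nat_lit 228) (nat_lit 11311342557) (nat_lit 0) (nat_lit 72875570) (nat_lit 152) (nat_lit 72875570) (nat_lit 195) (nat_lit 1) (nat_lit 192) (nat_lit 1) (nat_lit 194) (nat_lit 1) (nat_lit 309) (nat_lit 386) (nat_lit 325)) (XT.lf (nat_lit 76) (nat_lit 3858410241) (nat_lit 0) (nat_lit 3543882437) (nat_lit 228) (nat_lit 3858410241) (nat_lit 193) (nat_lit 1) (nat_lit 192) (nat_lit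 1) (nat_lit 195) (nat_lit 1) (nat_lit 310) (nat_lit 386) (nat_lit 324)))) (XT.nd (nat_lit 78) (nat_lit 152) (nat_lit 0) (XT.lf (nat_lit 152) (nat_lit 4236306732) (nat_lit 0) (nat_lit 3417317738) (nat_lit 76) (nat_lit 3417317738) (nat_lit 193) (nat_lit 1) (nat_lit 191) (nat_lit 1) (nat_lit 192) (nat_lit 1) (nat_lit 311) (nat_lit 386) (nat_lit 323)) (XT.nd (nat_lit 78) (nat_lit 152) (nat_lit 0) (XT.lf (nat_lit 0) (nat_lit 426042040) (nat_lit 0) (nat_lit 10034826610) (nat_lit 152) (nat_lit 426042040) (nat_lit 191) (nat_lit 3) (nat_lit 191) (nat_lit 1) (nat_lit 193) (nat_lit 1) (nat_lit 312) (nat_lit 386) (nat_lit 322)) (XT.lf (nat_lit 76) (nat_lit 4125093778) (nat_lit 0) (nat_lit 2451770547) (nat_lit 152) (nat_lit 4125093778) (nat_lit 190) (nat_lit 1) (nat_lit 189) (nat_lit 1) (nat_lit 191) (nat_lit 1) (nat_lit 313) (nat_lit 386) (nat_lit 321))))) (XT.nd (nat_lit 234) (nat_lit 304) (nat_lit 0) (XT.nd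 (nat_lit 78) (nat_lit 152) (nat_lit 0) (XT.lf (nat_lit 152) (nat_lit 4899780460) (nat_lit 0) (nat_lit 2811435760) (nat_lit 76) (nat_lit 2811435760) (nat_lit 190) (nat_lit 1) (nat_lit 188) (nat_lit 1) (nat_lit 189) (nat_lit 1) (nat_lit 314) (nat_lit 386) (nat_lit 320)) (XT.nd (nat_lit 78) (nat_lit 152) (nat_lit 0) (XT.lf (nat_lit 0) (nat_lit 814296145) (nat_lit 0) (nat_lit 8719466990) (nat_lit 152) (nat_lit 814296145) (nat_lit 188) (nat_lit 3) (nat_lit 188) (nat_lit 1) (nat_lit 190) (nat_lit 1) (nat_lit 315) (nat_lit 386) (nat_lit 319)) (XT.lf (nat_lit 76) (nat_lit 4299220216) (nat_lit 0) (nat_lit 1575372645) (nat_lit 152) (nat_lit 4299220216) (nat_lit 187) (nat_lit 1) (nat_lit 186) (nat_lit 1) (nat_lit 188) (nat_lit 1) (nat_lit 316) (nat_lit 386) (nat_lit 318)))) (XT.nd (nat_lit 156) (nat_lit 228) (nat_lit 0) (XT.nd (nat_lit 78) (nat_lit 0) (nat_lit 0) (XT.lf (nat_lit 152) (nat_lit 5378261918)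 (nat_lit 0) (nat_lit 2312975157) (nat_lit 76) (nat_lit 2312975157) (nat_lit 187) (nat_lit 1) (nat_lit 185) (nat_lit 1) (nat_lit 186) (nat_lit 1) (nat_lit 317) (nat_lit 386) (nat_lit 317)) (XT.lf (nat_lit 0) (nat_lit 1111628505) (nat_lit 0) (nat_lit 7615232123) (nat_lit 152) (nat_lit 1111628505) (nat_lit 185) (nat_lit 3) (nat_lit 185) (nat_lit 1) (nat_lit 187) (nat_lit 1) (nat_lit 318) (nat_lit 386) (nat_lit 316))) (XT.nd (nat_lit 78) (nat_lit 76) (nat_lit 0) (XT.lf (nat_lit 76) (nat_lit 4399355641) (nat_lit 0) (nat_lit 875391496) (nat_lit 152) (nat_lit 4399355641) (nat_lit 184) (nat_lit 1) (nat_lit 183) (nat_lit 1) (nat_lit 185) (nat_lit 1) (nat_lit 319) (nat_lit 386) (nat_lit 315)) (XT.lf (nat_lit 152) (nat_lit 5707757398) (nat_lit 0) (nat_lit 1902890386) (nat_lit 76) (nat_lit 1902890386) (nat_lit 184) (nat_lit 1) (nat_lit 182) (nat_lit 1) (nat_lit 183) (nat_lit 1) (nat_lit 320) (nat_lit 386)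 (nat_lit 314)))))) (XT.nd (nat_lit 468) (nat_lit 456) (nat_lit 0) (XT.nd (nat_lit 234) (nat_lit 228) (nat_lit 0) (XT.nd (nat_lit 78) (nat_lit 228) (nat_lit 0) (XT.lf (nat_lit 0) (nat_lit 1335211000) (nat_lit 0) (nat_lit 6685741792) (nat_lit 152) (nat_lit 1335211000) (nat_lit 182) (nat_lit 3) (nat_lit 182) (nat_lit 1) (nat_lit 184) (nat_lit 1) (nat_lit 321) (nat_lit 386) (nat_lit 313)) (XT.nd (nat_lit 78) (nat_lit 76) (nat_lit 0) (XT.lf (nat_lit 76) (nat_lit 4440671753) (nat_lit 0) (nat_lit 319547247) (nat_lit 152) (nat_lit 4440671753) (nat_lit 181) (nat_lit 1) (nat_lit 180) (nat_lit 1) (nat_lit 182) (nat_lit 1) (nat_lit 322) (nat_lit 386) (nat_lit 312)) (XT.lf (nat_lit 152) (nat_lit 5917736620) (nat_lit 0) (nat_lit 1565512630) (nat_lit 76) (nat_lit 1565512630) (nat_lit 181) (nat_lit 1) (nat_lit 179) (nat_lit 1) (nat_lit 180) (nat_lit 1) (nat_lit 323) (nat_lit 386) (nat_lit 311)))) (XT.nd (nat_lit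 78) (nat_lit 228) (nat_lit 0) (XT.lf (nat_lit 0) (nat_lit 1499120897) (nat_lit 0) (nat_lit 5901015821) (nat_lit 152) (nat_lit 1499120897) (nat_lit 179) (nat_lit 3) (nat_lit 179) (nat_lit 1) (nat_lit 181) (nat_lit 1) (nat_lit 324) (nat_lit 386) (nat_lit 310)) (XT.nd (nat_lit 78) (nat_lit 152) (nat_lit 0) (XT.lf (nat_lit 76) (nat_lit 122592856) (nat_lit 0) (nat_lit 4314873736) (nat_lit 76) (nat_lit 4314873736) (nat_lit 179) (nat_lit 3) (nat_lit 178) (nat_lit 1) (nat_lit 179) (nat_lit 1) (nat_lit 325) (nat_lit 386) (nat_lit 309)) (XT.lf (nat_lit 152) (nat_lit 6032298927) (nat_lit 0) (nat_lit 1287951115) (nat_lit 76) (nat_lit 1287951115) (nat_lit 178) (nat_lit 1) (nat_lit 176) (nat_lit 1) (nat_lit 177) (nat_lit 1) (nat_lit 326) (nat_lit 386) (nat_lit 308))))) (XT.nd (nat_lit 234) (nat_lit 228) (nat_lit 0) (XT.nd (nat_lit 78) (nat_lit 228) (nat_lit 0) (XT.lf (nat_lit 0) (nat_lit 1614891903) (nat_lit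 0) (nat_lit 5236341750) (nat_lit 152) (nat_lit 1614891903) (nat_lit 176) (nat_lit 3) (nat_lit 176) (nat_lit 1) (nat_lit 178) (nat_lit 1) (nat_lit 327) (nat_lit 386) (nat_lit 307)) (XT.nd (nat_lit 78) (nat_lit 152) (nat_lit 0) (XT.lf (nat_lit 76) (nat_lit 476264661) (nat_lit 0) (nat_lit 3925264516) (nat_lit 76) (nat_lit 3925264516) (nat_lit 176) (nat_lit 3) (nat_lit 175) (nat_lit 1) (nat_lit 176) (nat_lit 1) (nat_lit 328) (nat_lit 386) (nat_lit 306)) (XT.lf (nat_lit 152) (nat_lit 6071132365) (nat_lit 0) (nat_lit 1059600569) (nat_lit 76) (nat_lit 1059600569) (nat_lit 175) (nat_lit 1) (nat_lit 173) (nat_lit 1) (nat_lit 174) (nat_lit 1) (nat_lit 329) (nat_lit 386) (nat_lit 305)))) (XT.nd (nat_lit 156) (nat_lit 152) (nat_lit 0) (XT.nd (nat_lit 78) (nat_lit 76) (nat_lit 0) (XT.lf (nat_lit 0) (nat_lit 1691967404) (nat_lit 0) (nat_lit 4671343156) (nat_lit 152) (nat_lit 1691967404) (nat_lit 173) (nat_lit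 3) (nat_lit 173) (nat_lit 1) (nat_lit 175) (nat_lit 1) (nat_lit 330) (nat_lit 386) (nat_lit 304)) (XT.lf (nat_lit 76) (nat_lit 749354795) (nat_lit 0) (nat_lit 3586855512) (nat_lit 76) (nat_lit 3586855512) (nat_lit 173) (nat_lit 3) (nat_lit 172) (nat_lit 1) (nat_lit 173) (nat_lit 1) (nat_lit 331) (nat_lit 386) (nat_lit 303))) (XT.nd (nat_lit 78) (nat_lit 0) (nat_lit 0) (XT.lf (nat_lit 152) (nat_lit 6050302393) (nat_lit 0) (nat_lit 871736011) (nat_lit 76) (nat_lit 871736011) (nat_lit 172) (nat_lit 1) (nat_lit 170) (nat_lit 1) (nat_lit 171) (nat_lit 1) (nat_lit 332) (nat_lit 386) (nat_lit 302)) (XT.lf (nat_lit 0) (nat_lit 1738073236) (nat_lit 0) (nat_lit 4189213041) (nat_lit 152) (nat_lit 1738073236) (nat_lit 170) (nat_lit 3) (nat_lit 170) (nat_lit 1) (nat_lit 172) (nat_lit 1) (nat_lit 333) (nat_lit 386) (nat_lit 301))))))))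
noncomputable def ec198 : XT := (XT.nd (nat_lit 1950) (nat_lit 1976) (nat_lit 0) (XT.nd (nat_lit 936) (nat_lit 988) (nat_lit 0) (XT.nd (nat_lit 468) (nat_lit 456) (nat_lit 0) (XT.nd (nat_lit 234) (nat_lit 228) (nat_lit 0) (XT.nd (nat_lit 78) (nat_lit 152) (nat_lit 0) (XT.lf (nat_lit 76) (nat_lit 957001455) (nat_lit 0) (nat_lit 3291420316) (nat_lit 76) (nat_lit 3291420316) (nat_lit 170) (nat_lit 3) (nat_lit 169) (nat_lit 1) (nat_lit 170) (nat_lit 1) (nat_lit 334) (nat_lit 386) (nat_lit 300)) (XT.nd (nat_lit 78) (nat_lit 0) (nat_lit 0) (XT.lf (nat_lit 152) (nat_lit 5982900438) (nat_lit 0) (nat_lit 717179373) (nat_lit 76) (nat_lit 717179373) (nat_lit 169) (nat_lit 1) (nat_lit 167) (nat_lit 1) (nat_lit 168) (nat_lit 1) (nat_lit 335) (nat_lit 386) (nat_lit 299)) (XT.lf (nat_lit 0) (nat_lit 1759524263) (nat_lit 0) (nat_lit 3776083046) (nat_lit 152) (nat_lit 1759524263) (nat_lit 167) (nat_lit 3) (nat_lit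 167) (nat_lit 1) (nat_lit 169) (nat_lit 1) (nat_lit 336) (nat_lit 386) (nat_lit 298)))) (XT.nd (nat_lit 78) (nat_lit 152) (nat_lit 0) (XT.lf (nat_lit 76) (nat_lit 1111618332) (nat_lit 0) (nat_lit 3032150506) (nat_lit 76) (nat_lit 3032150506) (nat_lit 167) (nat_lit 3) (nat_lit 166) (nat_lit 1) (nat_lit 167) (nat_lit 1) (nat_lit 337) (nat_lit 386) (nat_lit 297)) (XT.nd (nat_lit 78) (nat_lit 0) (nat_lit 0) (XT.lf (nat_lit 152) (nat_lit 5879577175) (nat_lit 0) (nat_lit 590025245) (nat_lit 76) (nat_lit 590025245) (nat_lit 166) (nat_lit 1) (nat_lit 164) (nat_lit 1) (nat_lit 165) (nat_lit 1) (nat_lit 338) (nat_lit 386) (nat_lit 296)) (XT.lf (nat_lit 0) (nat_lit 1761476499) (nat_lit 0) (nat_lit 3420504401) (nat_lit 152) (nat_lit 1761476499) (nat_lit 164) (nat_lit 3) (nat_lit 164) (nat_lit 1) (nat_lit 166) (nat_lit 1) (nat_lit 339) (nat_lit 386) (nat_lit 295))))) (XT.nd (nat_lit 234) (nat_lit 228) (nat_lit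 0) (XT.nd (nat_lit 78) (nat_lit 152) (nat_lit 0) (XT.lf (nat_lit 76) (nat_lit 1223379597) (nat_lit 0) (nat_lit 2803406170) (nat_lit 76) (nat_lit 2803406170) (nat_lit 164) (nat_lit 3) (nat_lit 163) (nat_lit 1) (nat_lit 164) (nat_lit 1) (nat_lit 340) (nat_lit 386) (nat_lit 294)) (XT.nd (nat_lit 78) (nat_lit 0) (nat_lit 0) (XT.lf (nat_lit 152) (nat_lit 5748980957) (nat_lit 0) (nat_lit 485415229) (nat_lit 76) (nat_lit 485415229) (nat_lit 163) (nat_lit 1) (nat_lit 161) (nat_lit 1) (nat_lit 162) (nat_lit 1) (nat_lit 341) (nat_lit 386) (nat_lit 293)) (XT.lf (nat_lit 0) (nat_lit 1748134441) (nat_lit 0) (nat_lit 3113020801) (nat_lit 152) (nat_lit 1748134441) (nat_lit 161) (nat_lit 3) (nat_lit 161) (nat_lit 1) (nat_lit 163) (nat_lit 1) (nat_lit 342) (nat_lit 386) (nat_lit 292)))) (XT.nd (nat_lit 78) (nat_lit 152) (nat_lit 0) (XT.lf (nat_lit 76) (nat_lit 1300618798) (nat_lit 0) (nat_lit 2600510569) (nat_lit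 76) (nat_lit 2600510569) (nat_lit 161) (nat_lit 3) (nat_lit 160) (nat_lit 1) (nat_lit 161) (nat_lit 1) (nat_lit 343) (nat_lit 386) (nat_lit 291)) (XT.nd (nat_lit 78) (nat_lit 0) (nat_lit 0) (XT.lf (nat_lit 152) (nat_lit 5598118255) (nat_lit 0) (nat_lit 399352310) (nat_lit 76) (nat_lit 399352310) (nat_lit 160) (nat_lit 1) (nat_lit 158) (nat_lit 1) (nat_lit 159) (nat_lit 1) (nat_lit 344) (nat_lit 386) (nat_lit 290)) (XT.lf (nat_lit 0) (nat_lit 1722921545) (nat_lit 0) (nat_lit 2845816932) (nat_lit 152) (nat_lit 1722921545) (nat_lit 158) (nat_lit 3) (nat_lit 158) (nat_lit 1) (nat_lit 160) (nat_lit 1) (nat_lit 345) (nat_lit 386) (nat_lit 289)))))) (XT.nd (nat_lit 468) (nat_lit 532) (nat_lit 0) (XT.nd (nat_lit 234) (nat_lit 228) (nat_lit 0) (XT.nd (nat_lit 78) (nat_lit 152) (nat_lit 0) (XT.lf (nat_lit 76) (nat_lit 1350156947) (nat_lit 0) (nat_lit 2419581124) (nat_lit 76) (nat_lit 2419581124) (nat_lit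 158) (nat_lit 3) (nat_lit 157) (nat_lit 1) (nat_lit 158) (nat_lit 1) (nat_lit 346) (nat_lit 386) (nat_lit 288)) (XT.nd (nat_lit 78) (nat_lit 0) (nat_lit 0) (XT.lf (nat_lit 152) (nat_lit 5432649928) (nat_lit 0) (nat_lit 328548134) (nat_lit 76) (nat_lit 328548134) (nat_lit 157) (nat_lit 1) (nat_lit 155) (nat_lit 1) (nat_lit 156) (nat_lit 1) (nat_lit 347) (nat_lit 386) (nat_lit 287)) (XT.lf (nat_lit 0) (nat_lit 1688620404) (nat_lit 0) (nat_lit 2612429218) (nat_lit 152) (nat_lit 1688620404) (nat_lit 155) (nat_lit 3) (nat_lit 155) (nat_lit 1) (nat_lit 157) (nat_lit 1) (nat_lit 348) (nat_lit 386) (nat_lit 286)))) (XT.nd (nat_lit 78) (nat_lit 152) (nat_lit 0) (XT.lf (nat_lit 76) (nat_lit 1377572360) (nat_lit 0) (nat_lit 2257390278) (nat_lit 76) (nat_lit 2257390278) (nat_lit 155) (nat_lit 3) (nat_lit 154) (nat_lit 1) (nat_lit 155) (nat_lit 1) (nat_lit 349) (nat_lit 386) (nat_lit 285)) (XT.nd (nat_lit 78)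 (nat_lit 0) (nat_lit 0) (XT.lf (nat_lit 152) (nat_lit 5257134717) (nat_lit 0) (nat_lit 270297363) (nat_lit 76) (nat_lit 270297363) (nat_lit 154) (nat_lit 1) (nat_lit 152) (nat_lit 1) (nat_lit 153) (nat_lit 1) (nat_lit 350) (nat_lit 386) (nat_lit 284)) (XT.lf (nat_lit 0) (nat_lit 1647487981) (nat_lit 0) (nat_lit 2407507778) (nat_lit 152) (nat_lit 1647487981) (nat_lit 152) (nat_lit 3) (nat_lit 152) (nat_lit 1) (nat_lit 154) (nat_lit 1) (nat_lit 351) (nat_lit 386) (nat_lit 283))))) (XT.nd (nat_lit 234) (nat_lit 304) (nat_lit 0) (XT.nd (nat_lit 78) (nat_lit 152) (nat_lit 0) (XT.lf (nat_lit 76) (nat_lit 1387422569) (nat_lit 0) (nat_lit 2111250947) (nat_lit 76) (nat_lit 2111250947) (nat_lit 152) (nat_lit 3) (nat_lit 151) (nat_lit 1) (nat_lit 152) (nat_lit 1) (nat_lit 352) (nat_lit 386) (nat_lit 282)) (XT.nd (nat_lit 78) (nat_lit 0) (nat_lit 0) (XT.lf (nat_lit 152) (nat_lit 5075229339) (nat_lit 0) (nat_lit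 222374309) (nat_lit 76) (nat_lit 222374309) (nat_lit 151) (nat_lit 1) (nat_lit 149) (nat_lit 1) (nat_lit 150) (nat_lit 1) (nat_lit 353) (nat_lit 386) (nat_lit 281)) (XT.lf (nat_lit 0) (nat_lit 1601350340) (nat_lit 0) (nat_lit 2226620508) (nat_lit 152) (nat_lit 1601350340) (nat_lit 149) (nat_lit 3) (nat_lit 149) (nat_lit 1) (nat_lit 151) (nat_lit 1) (nat_lit 354) (nat_lit 386) (nat_lit 280)))) (XT.nd (nat_lit 156) (nat_lit 76) (nat_lit 0) (XT.nd (nat_lit 78) (nat_lit 152) (nat_lit 0) (XT.lf (nat_lit 76) (nat_lit 1383426819) (nat_lit 0) (nat_lit 1978922217) (nat_lit 76) (nat_lit 1978922217) (nat_lit 149) (nat_lit 3) (nat_lit 148) (nat_lit 1) (nat_lit 149) (nat_lit 1) (nat_lit 355) (nat_lit 386) (nat_lit 279)) (XT.lf (nat_lit 152) (nat_lit 4889852877) (nat_lit 0) (nat_lit 182947894) (nat_lit 76) (nat_lit 182947894) (nat_lit 148) (nat_lit 1) (nat_lit 146) (nat_lit 1) (nat_lit 147) (nat_lit 1) (nat_lit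 356) (nat_lit 386) (nat_lit 278))) (XT.nd (nat_lit 78) (nat_lit 76) (nat_lit 0) (XT.lf (nat_lit 0) (nat_lit 1551680507) (nat_lit 0) (nat_lit 2066091822) (nat_lit 152) (nat_lit 1551680507) (nat_lit 146) (nat_lit 3) (nat_lit 146) (nat_lit 1) (nat_lit 148) (nat_lit 1) (nat_lit 357) (nat_lit 386) (nat_lit 277)) (XT.lf (nat_lit 76) (nat_lit 1368616132) (nat_lit 0) (nat_lit 1858531670) (nat_lit 76) (nat_lit 1858531670) (nat_lit 146) (nat_lit 3) (nat_lit 145) (nat_lit 1) (nat_lit 146) (nat_lit 1) (nat_lit 358) (nat_lit 386) (nat_lit 276))))))) (XT.nd (nat_lit 936) (nat_lit 1064) (nat_lit 0) (XT.nd (nat_lit 468) (nat_lit 456) (nat_lit 0) (XT.nd (nat_lit 234) (nat_lit 228) (nat_lit 0) (XT.nd (nat_lit 78) (nat_lit 76) (nat_lit 0) (XT.lf (nat_lit 152) (nat_lit 4703321816) (nat_lit 0) (nat_lit 150511685) (nat_lit 76) (nat_lit 150511685) (nat_lit 145) (nat_lit 1) (nat_lit 143) (nat_lit 1) (nat_lit 144) (nat_lit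 1) (nat_lit 359) (nat_lit 386) (nat_lit 275)) (XT.nd (nat_lit 78) (nat_lit 76) (nat_lit 0) (XT.lf (nat_lit 0) (nat_lit 1499662460) (nat_lit 0) (nat_lit 1922869921) (nat_lit 152) (nat_lit 1499662460) (nat_lit 143) (nat_lit 3) (nat_lit 143) (nat_lit 1) (nat_lit 145) (nat_lit 1) (nat_lit 360) (nat_lit 386) (nat_lit 274)) (XT.lf (nat_lit 76) (nat_lit 1345456702) (nat_lit 0) (nat_lit 1748511427) (nat_lit 76) (nat_lit 1748511427) (nat_lit 143) (nat_lit 3) (nat_lit 142) (nat_lit 1) (nat_lit 143) (nat_lit 1) (nat_lit 361) (nat_lit 386) (nat_lit 273)))) (XT.nd (nat_lit 78) (nat_lit 76) (nat_lit 0) (XT.lf (nat_lit 152) (nat_lit 4517460928) (nat_lit 0) (nat_lit 123826336) (nat_lit 76) (nat_lit 123826336) (nat_lit 142) (nat_lit 1) (nat_lit 140) (nat_lit 1) (nat_lit 141) (nat_lit 1) (nat_lit 362) (nat_lit 386) (nat_lit 272)) (XT.nd (nat_lit 78) (nat_lit 76) (nat_lit 0) (XT.lf (nat_lit 0) (nat_lit 1446243699)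 (nat_lit 0) (nat_lit 1794417525) (nat_lit 152) (nat_lit 1446243699) (nat_lit 140) (nat_lit 3) (nat_lit 140) (nat_lit 1) (nat_lit 142) (nat_lit 1) (nat_lit 363) (nat_lit 386) (nat_lit 271)) (XT.lf (nat_lit 76) (nat_lit 1315951343) (nat_lit 0) (nat_lit 1647545462) (nat_lit 76) (nat_lit 1647545462) (nat_lit 140) (nat_lit 3) (nat_lit 139) (nat_lit 1) (nat_lit 140) (nat_lit 1) (nat_lit 364) (nat_lit 386) (nat_lit 270))))) (XT.nd (nat_lit 234) (nat_lit 228) (nat_lit 0) (XT.nd (nat_lit 78) (nat_lit 76) (nat_lit 0) (XT.lf (nat_lit 152) (nat_lit 4333694314) (nat_lit 0) (nat_lit 101872233) (nat_lit 76) (nat_lit 101872233) (nat_lit 139) (nat_lit 1) (nat_lit 137) (nat_lit 1) (nat_lit 138) (nat_lit 1) (nat_lit 365) (nat_lit 386) (nat_lit 269)) (XT.nd (nat_lit 78) (nat_lit 76) (nat_lit 0) (XT.lf (nat_lit 0) (nat_lit 1392178444) (nat_lit 0) (nat_lit 1678621912) (nat_lit 152) (nat_lit 1392178444) (nat_lit 137)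 (nat_lit 3) (nat_lit 137) (nat_lit 1) (nat_lit 139) (nat_lit 1) (nat_lit 366) (nat_lit 386) (nat_lit 268)) (XT.lf (nat_lit 76) (nat_lit 1281722887) (nat_lit 0) (nat_lit 1554526190) (nat_lit 76) (nat_lit 1554526190) (nat_lit 137) (nat_lit 3) (nat_lit 136) (nat_lit 1) (nat_lit 137) (nat_lit 1) (nat_lit 367) (nat_lit 386) (nat_lit 267)))) (XT.nd (nat_lit 78) (nat_lit 76) (nat_lit 0) (XT.lf (nat_lit 152) (nat_lit 4153120113) (nat_lit 0) (nat_lit 83810538) (nat_lit 76) (nat_lit 83810538) (nat_lit 136) (nat_lit 1) (nat_lit 134) (nat_lit 1) (nat_lit 135) (nat_lit 1) (nat_lit 368) (nat_lit 386) (nat_lit 266)) (XT.nd (nat_lit 78) (nat_lit 76) (nat_lit 0) (XT.lf (nat_lit 0) (nat_lit 1338063102) (nat_lit 0) (nat_lit 1573720852) (nat_lit 152) (nat_lit 1338063102) (nat_lit 134) (nat_lit 3) (nat_lit 134) (nat_lit 1) (nat_lit 136) (nat_lit 1) (nat_lit 369) (nat_lit 386) (nat_lit 265)) (XT.lf (nat_lit 76) (nat_lit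 1244082745) (nat_lit 0) (nat_lit 1468518697) (nat_lit 76) (nat_lit 1468518697) (nat_lit 134) (nat_lit 3) (nat_lit 133) (nat_lit 1) (nat_lit 134) (nat_lit 1) (nat_lit 370) (nat_lit 386) (nat_lit 264)))))) (XT.nd (nat_lit 468) (nat_lit 608) (nat_lit 0) (XT.nd (nat_lit 234) (nat_lit 228) (nat_lit 0) (XT.nd (nat_lit 78) (nat_lit 76) (nat_lit 0) (XT.lf (nat_lit 152) (nat_lit 3976571791) (nat_lit 0) (nat_lit 68951137) (nat_lit 76) (nat_lit 68951137) (nat_lit 133) (nat_lit 1) (nat_lit 131) (nat_lit 1) (nat_lit 132) (nat_lit 1) (nat_lit 371) (nat_lit 386) (nat_lit 263)) (XT.nd (nat_lit 78) (nat_lit 76) (nat_lit 0) (XT.lf (nat_lit 0) (nat_lit 1284365398) (nat_lit 0) (nat_lit 1478241612) (nat_lit 152) (nat_lit 1284365398) (nat_lit 131) (nat_lit 3) (nat_lit 131) (nat_lit 1) (nat_lit 133) (nat_lit 1) (nat_lit 372) (nat_lit 386) (nat_lit 262)) (XT.lf (nat_lit 76) (nat_lit 1204087242) (nat_lit 0) (nat_lit 1388731255)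 (nat_lit 76) (nat_lit 1388731255) (nat_lit 131) (nat_lit 3) (nat_lit 130) (nat_lit 1) (nat_lit 131) (nat_lit 1) (nat_lit 373) (nat_lit 386) (nat_lit 261)))) (XT.nd (nat_lit 78) (nat_lit 76) (nat_lit 0) (XT.lf (nat_lit 152) (nat_lit 3804668401) (nat_lit 0) (nat_lit 56726271) (nat_lit 76) (nat_lit 56726271) (nat_lit 130) (nat_lit 1) (nat_lit 128) (nat_lit 1) (nat_lit 129) (nat_lit 1) (nat_lit 374) (nat_lit 386) (nat_lit 260)) (XT.nd (nat_lit 78) (nat_lit 76) (nat_lit 0) (XT.lf (nat_lit 0) (nat_lit 1231448279) (nat_lit 0) (nat_lit 1390950720) (nat_lit 152) (nat_lit 1231448279) (nat_lit 128) (nat_lit 3) (nat_lit 128) (nat_lit 1) (nat_lit 130) (nat_lit 1) (nat_lit 375) (nat_lit 386) (nat_lit 259)) (XT.lf (nat_lit 76) (nat_lit 1162583924) (nat_lit 0) (nat_lit 1314491011) (nat_lit 76) (nat_lit 1314491011) (nat_lit 128) (nat_lit 3) (nat_lit 127) (nat_lit 1) (nat_lit 128) (nat_lit 1) (nat_lit 376) (nat_lit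 386) (nat_lit 258))))) (XT.nd (nat_lit 234) (nat_lit 380) (nat_lit 0) (XT.nd (nat_lit 78) (nat_lit 76) (nat_lit 0) (XT.lf (nat_lit 152) (nat_lit 3637855775) (nat_lit 0) (nat_lit 46668843) (nat_lit 76) (nat_lit 46668843) (nat_lit 127) (nat_lit 1) (nat_lit 125) (nat_lit 1) (nat_lit 126) (nat_lit 1) (nat_lit 377) (nat_lit 386) (nat_lit 257)) (XT.nd (nat_lit 78) (nat_lit 76) (nat_lit 0) (XT.lf (nat_lit 0) (nat_lit 1179589535) (nat_lit 0) (nat_lit 1310812588) (nat_lit 152) (nat_lit 1179589535) (nat_lit 125) (nat_lit 3) (nat_lit 125) (nat_lit 1) (nat_lit 127) (nat_lit 1) (nat_lit 378) (nat_lit 386) (nat_lit 256)) (XT.lf (nat_lit 76) (nat_lit 1120249595) (nat_lit 0) (nat_lit 1245223932) (nat_lit 76) (nat_lit 1245223932) (nat_lit 125) (nat_lit 3) (nat_lit 124) (nat_lit 1) (nat_lit 125) (nat_lit 1) (nat_lit 379) (nat_lit 386) (nat_lit 255)))) (XT.nd (nat_lit 156) (nat_lit 228) (nat_lit 0) (XT.nd (nat_lit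 78) (nat_lit 0) (nat_lit 0) (XT.lf (nat_lit 152) (nat_lit 3476440249) (nat_lit 0) (nat_lit 38394573) (nat_lit 76) (nat_lit 38394573) (nat_lit 124) (nat_lit 1) (nat_lit 122) (nat_lit 1) (nat_lit 123) (nat_lit 1) (nat_lit 380) (nat_lit 386) (nat_lit 254)) (XT.lf (nat_lit 0) (nat_lit 1128997885) (nat_lit 0) (nat_lit 1236955416) (nat_lit 152) (nat_lit 1128997885) (nat_lit 122) (nat_lit 3) (nat_lit 122) (nat_lit 1) (nat_lit 124) (nat_lit 1) (nat_lit 381) (nat_lit 386) (nat_lit 253))) (XT.nd (nat_lit 78) (nat_lit 152) (nat_lit 0) (XT.lf (nat_lit 76) (nat_lit 1077621566) (nat_lit 0) (nat_lit 1180438262) (nat_lit 76) (nat_lit 1180438262) (nat_lit 122) (nat_lit 3) (nat_lit 121) (nat_lit 1) (nat_lit 122) (nat_lit 1) (nat_lit 382) (nat_lit 386) (nat_lit 252)) (XT.lf (nat_lit 152) (nat_lit 3320616282) (nat_lit 0) (nat_lit 31587310) (nat_lit 76) (nat_lit 31587310) (nat_lit 121) (nat_lit 1) (nat_lit 119) (nat_lit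 1) (nat_lit 120) (nat_lit 1) (nat_lit 383) (nat_lit 386) (nat_lit 251))))))))
noncomputable def ec199 : XT := (XT.nd (nat_lit 1950) (nat_lit 2052) (nat_lit 0) (XT.nd (nat_lit 936) (nat_lit 912) (nat_lit 0) (XT.nd (nat_lit 468) (nat_lit 456) (nat_lit 0) (XT.nd (nat_lit 234) (nat_lit 228) (nat_lit 0) (XT.nd (nat_lit 78) (nat_lit 228) (nat_lit 0) (XT.lf (nat_lit 0) (nat_lit 1079826169) (nat_lit 0) (nat_lit 1168643097) (nat_lit 152) (nat_lit 1079826169) (nat_lit 119) (nat_lit 3) (nat_lit 119) (nat_lit 1) (nat_lit 121) (nat_lit 1) (nat_lit 384) (nat_lit 386) (nat_lit 250)) (XT.nd (nat_lit 78) (nat_lit 152) (nat_lit 0) (XT.lf (nat_lit 76) (nat_lit 1035123312) (nat_lit 0) (nat_lit 1119710862) (nat_lit 76) (nat_lit 1119710862) (nat_lit 119) (nat_lit 3) (nat_lit 118) (nat_lit 1) (nat_lit 119) (nat_lit 1) (nat_lit 385) (nat_lit 386) (nat_lit 249)) (XT.lf (nat_lit 152) (nat_lit 3170489029) (nat_lit 0) (nat_lit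 25986958) (nat_lit 76) (nat_lit 25986958) (nat_lit 118) (nat_lit 1) (nat_lit 116) (nat_lit 1) (nat_lit 117) (nat_lit 1) (nat_lit 386) (nat_lit 386) (nat_lit 248)))) (XT.nd (nat_lit 78) (nat_lit 228) (nat_lit 0) (XT.lf (nat_lit 0) (nat_lit 1032182152) (nat_lit 0) (nat_lit 1105252058) (nat_lit 152) (nat_lit 1032182152) (nat_lit 116) (nat_lit 3) (nat_lit 116) (nat_lit 1) (nat_lit 118) (nat_lit 1) (nat_lit 387) (nat_lit 386) (nat_lit 247)) (XT.nd (nat_lit 78) (nat_lit 152) (nat_lit 0) (XT.lf (nat_lit 76) (nat_lit 993085541) (nat_lit 0) (nat_lit 1062675928) (nat_lit 76) (nat_lit 1062675928) (nat_lit 116) (nat_lit 3) (nat_lit 115) (nat_lit 1) (nat_lit 116) (nat_lit 1) (nat_lit 388) (nat_lit 386) (nat_lit 246)) (XT.lf (nat_lit 152) (nat_lit 3026092785) (nat_lit 0) (nat_lit 21379535) (nat_lit 76) (nat_lit 21379535) (nat_lit 115) (nat_lit 1) (nat_lit 113) (nat_lit 1) (nat_lit 114) (nat_lit 1) (nat_lit 389)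 (nat_lit 386) (nat_lit 245))))) (XT.nd (nat_lit 234) (nat_lit 228) (nat_lit 0) (XT.nd (nat_lit 78) (nat_lit 228) (nat_lit 0) (XT.lf (nat_lit 0) (nat_lit 986137373) (nat_lit 0) (nat_lit 1046252166) (nat_lit 152) (nat_lit 986137373) (nat_lit 113) (nat_lit 3) (nat_lit 113) (nat_lit 1) (nat_lit 115) (nat_lit 1) (nat_lit 390) (nat_lit 386) (nat_lit 244)) (XT.nd (nat_lit 78) (nat_lit 152) (nat_lit 0) (XT.lf (nat_lit 76) (nat_lit 951763486) (nat_lit 0) (nat_lit 1009015669) (nat_lit 76) (nat_lit 1009015669) (nat_lit 113) (nat_lit 3) (nat_lit 112) (nat_lit 1) (nat_lit 113) (nat_lit 1) (nat_lit 391) (nat_lit 386) (nat_lit 243)) (XT.lf (nat_lit 152) (nat_lit 2887406038) (nat_lit 0) (nat_lit 17588996) (nat_lit 76) (nat_lit 17588996) (nat_lit 112) (nat_lit 1) (nat_lit 110) (nat_lit 1) (nat_lit 111) (nat_lit 1) (nat_lit 392) (nat_lit 386) (nat_lit 242)))) (XT.nd (nat_lit 78) (nat_lit 228) (nat_lit 0) (XT.lf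 (nat_lit 0) (nat_lit 941734383) (nat_lit 0) (nat_lit 991190972) (nat_lit 152) (nat_lit 941734383) (nat_lit 110) (nat_lit 3) (nat_lit 110) (nat_lit 1) (nat_lit 112) (nat_lit 1) (nat_lit 393) (nat_lit 386) (nat_lit 241)) (XT.nd (nat_lit 78) (nat_lit 152) (nat_lit 0) (XT.lf (nat_lit 76) (nat_lit 911351083) (nat_lit 0) (nat_lit 958452596) (nat_lit 76) (nat_lit 958452596) (nat_lit 110) (nat_lit 3) (nat_lit 109) (nat_lit 1) (nat_lit 110) (nat_lit 1) (nat_lit 394) (nat_lit 386) (nat_lit 240)) (XT.lf (nat_lit 152) (nat_lit 2754363726) (nat_lit 0) (nat_lit 14470510) (nat_lit 76) (nat_lit 14470510) (nat_lit 109) (nat_lit 1) (nat_lit 107) (nat_lit 1) (nat_lit 108) (nat_lit 1) (nat_lit 395) (nat_lit 386) (nat_lit 239)))))) (XT.nd (nat_lit 468) (nat_lit 456) (nat_lit 0) (XT.nd (nat_lit 234) (nat_lit 228) (nat_lit 0) (XT.nd (nat_lit 78) (nat_lit 228) (nat_lit 0) (XT.lf (nat_lit 0) (nat_lit 898992661) (nat_lit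 0) (nat_lit 939680719) (nat_lit 152) (nat_lit 898992661) (nat_lit 107) (nat_lit 3) (nat_lit 107) (nat_lit 1) (nat_lit 109) (nat_lit 1) (nat_lit 396) (nat_lit 386) (nat_lit 238)) (XT.nd (nat_lit 78) (nat_lit 152) (nat_lit 0) (XT.lf (nat_lit 76) (nat_lit 871992608) (nat_lit 0) (nat_lit 910743139) (nat_lit 76) (nat_lit 910743139) (nat_lit 107) (nat_lit 3) (nat_lit 106) (nat_lit 1) (nat_lit 107) (nat_lit 1) (nat_lit 397) (nat_lit 386) (nat_lit 237)) (XT.lf (nat_lit 152) (nat_lit 2626867218) (nat_lit 0) (nat_lit 11904925) (nat_lit 76) (nat_lit 11904925) (nat_lit 106) (nat_lit 1) (nat_lit 104) (nat_lit 1) (nat_lit 105) (nat_lit 1) (nat_lit 398) (nat_lit 386) (nat_lit 236)))) (XT.nd (nat_lit 78) (nat_lit 228) (nat_lit 0) (XT.lf (nat_lit 0) (nat_lit 857913443) (nat_lit 0) (nat_lit 891387609) (nat_lit 152) (nat_lit 857913443) (nat_lit 104) (nat_lit 3) (nat_lit 104) (nat_lit 1) (nat_lit 106) (nat_lit 1)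 (nat_lit 399) (nat_lit 386) (nat_lit 235)) (XT.nd (nat_lit 78) (nat_lit 152) (nat_lit 0) (XT.lf (nat_lit 76) (nat_lit 833792207) (nat_lit 0) (nat_lit 865672365) (nat_lit 76) (nat_lit 865672365) (nat_lit 104) (nat_lit 3) (nat_lit 103) (nat_lit 1) (nat_lit 104) (nat_lit 1) (nat_lit 400) (nat_lit 386) (nat_lit 234)) (XT.lf (nat_lit 152) (nat_lit 2504792413) (nat_lit 0) (nat_lit 9794211) (nat_lit 76) (nat_lit 9794211) (nat_lit 103) (nat_lit 1) (nat_lit 101) (nat_lit 1) (nat_lit 102) (nat_lit 1) (nat_lit 401) (nat_lit 386) (nat_lit 233))))) (XT.nd (nat_lit 234) (nat_lit 228) (nat_lit 0) (XT.nd (nat_lit 78) (nat_lit 228) (nat_lit 0) (XT.lf (nat_lit 0) (nat_lit 818483661) (nat_lit 0) (nat_lit 846022940) (nat_lit 152) (nat_lit 818483661) (nat_lit 101) (nat_lit 3) (nat_lit 101) (nat_lit 1) (nat_lit 103) (nat_lit 1) (nat_lit 402) (nat_lit 386) (nat_lit 232)) (XT.nd (nat_lit 78) (nat_lit 152) (nat_lit 0)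 (XT.lf (nat_lit 76) (nat_lit 796821703) (nat_lit 0) (nat_lit 823049588) (nat_lit 76) (nat_lit 823049588) (nat_lit 101) (nat_lit 3) (nat_lit 100) (nat_lit 1) (nat_lit 101) (nat_lit 1) (nat_lit 403) (nat_lit 386) (nat_lit 231)) (XT.lf (nat_lit 152) (nat_lit 2387996300) (nat_lit 0) (nat_lit 8057721) (nat_lit 76) (nat_lit 8057721) (nat_lit 100) (nat_lit 1) (nat_lit 98) (nat_lit 1) (nat_lit 99) (nat_lit 1) (nat_lit 404) (nat_lit 386) (nat_lit 230)))) (XT.nd (nat_lit 156) (nat_lit 152) (nat_lit 0) (XT.nd (nat_lit 78) (nat_lit 76) (nat_lit 0) (XT.lf (nat_lit 0) (nat_lit 780679150) (nat_lit 0) (nat_lit 803335783) (nat_lit 152) (nat_lit 780679150) (nat_lit 98) (nat_lit 3) (nat_lit 98) (nat_lit 1) (nat_lit 100) (nat_lit 1) (nat_lit 405) (nat_lit 386) (nat_lit 229)) (XT.lf (nat_lit 76) (nat_lit 761126988) (nat_lit 0) (nat_lit 782704734) (nat_lit 76) (nat_lit 782704734) (nat_lit 98) (nat_lit 3) (nat_lit 97)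 (nat_lit 1) (nat_lit 98) (nat_lit 1) (nat_lit 406) (nat_lit 386) (nat_lit 228))) (XT.nd (nat_lit 78) (nat_lit 0) (nat_lit 0) (XT.lf (nat_lit 152) (nat_lit 2276322259) (nat_lit 0) (nat_lit 6629107) (nat_lit 76) (nat_lit 6629107) (nat_lit 97) (nat_lit 1) (nat_lit 95) (nat_lit 1) (nat_lit 96) (nat_lit 1) (nat_lit 407) (nat_lit 386) (nat_lit 227)) (XT.lf (nat_lit 0) (nat_lit 744467257) (nat_lit 0) (nat_lit 763106925) (nat_lit 152) (nat_lit 744467257) (nat_lit 95) (nat_lit 3) (nat_lit 95) (nat_lit 1) (nat_lit 97) (nat_lit 1) (nat_lit 408) (nat_lit 386) (nat_lit 226))))))) (XT.nd (nat_lit 1014) (nat_lit 1064) (nat_lit 0) (XT.nd (nat_lit 468) (nat_lit 532) (nat_lit 0) (XT.nd (nat_lit 234) (nat_lit 228) (nat_lit 0) (XT.nd (nat_lit 78) (nat_lit 152) (nat_lit 0) (XT.lf (nat_lit 76) (nat_lit 726733248) (nat_lit 0) (nat_lit 744485313) (nat_lit 76) (nat_lit 744485313) (nat_lit 95) (nat_lit 3) (nat_lit 94) (nat_lit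 1) (nat_lit 95) (nat_lit 1) (nat_lit 409) (nat_lit 386) (nat_lit 225)) (XT.nd (nat_lit 78) (nat_lit 0) (nat_lit 0) (XT.lf (nat_lit 152) (nat_lit 2169604330) (nat_lit 0) (nat_lit 5453783) (nat_lit 76) (nat_lit 5453783) (nat_lit 94) (nat_lit 1) (nat_lit 92) (nat_lit 1) (nat_lit 93) (nat_lit 1) (nat_lit 410) (nat_lit 386) (nat_lit 224)) (XT.lf (nat_lit 0) (nat_lit 709808948) (nat_lit 0) (nat_lit 725143849) (nat_lit 152) (nat_lit 709808948) (nat_lit 92) (nat_lit 3) (nat_lit 92) (nat_lit 1) (nat_lit 94) (nat_lit 1) (nat_lit 411) (nat_lit 386) (nat_lit 223)))) (XT.nd (nat_lit 78) (nat_lit 152) (nat_lit 0) (XT.lf (nat_lit 76) (nat_lit 693649233) (nat_lit 0) (nat_lit 708253901) (nat_lit 76) (nat_lit 708253901) (nat_lit 92) (nat_lit 3) (nat_lit 91) (nat_lit 1) (nat_lit 92) (nat_lit 1) (nat_lit 412) (nat_lit 386) (nat_lit 222)) (XT.nd (nat_lit 78) (nat_lit 0) (nat_lit 0) (XT.lf (nat_lit 152) (nat_lit 2067670637)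 (nat_lit 0) (nat_lit 4486841) (nat_lit 76) (nat_lit 4486841) (nat_lit 91) (nat_lit 1) (nat_lit 89) (nat_lit 1) (nat_lit 90) (nat_lit 1) (nat_lit 413) (nat_lit 386) (nat_lit 221)) (XT.lf (nat_lit 0) (nat_lit 676660524) (nat_lit 0) (nat_lit 689276585) (nat_lit 152) (nat_lit 676660524) (nat_lit 89) (nat_lit 3) (nat_lit 89) (nat_lit 1) (nat_lit 91) (nat_lit 1) (nat_lit 414) (nat_lit 386) (nat_lit 220))))) (XT.nd (nat_lit 234) (nat_lit 304) (nat_lit 0) (XT.nd (nat_lit 78) (nat_lit 152) (nat_lit 0) (XT.lf (nat_lit 76) (nat_lit 661870742) (nat_lit 0) (nat_lit 673886039) (nat_lit 76) (nat_lit 673886039) (nat_lit 89) (nat_lit 3) (nat_lit 88) (nat_lit 1) (nat_lit 89) (nat_lit 1) (nat_lit 415) (nat_lit 386) (nat_lit 219)) (XT.nd (nat_lit 78) (nat_lit 0) (nat_lit 0) (XT.lf (nat_lit 152) (nat_lit 1970346117) (nat_lit 0) (nat_lit 3691335) (nat_lit 76) (nat_lit 3691335) (nat_lit 88) (nat_lit 1) (nat_lit 86) (nat_lit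 1) (nat_lit 87) (nat_lit 1) (nat_lit 416) (nat_lit 386) (nat_lit 218)) (XT.lf (nat_lit 0) (nat_lit 644974998) (nat_lit 0) (nat_lit 655354263) (nat_lit 152) (nat_lit 644974998) (nat_lit 86) (nat_lit 3) (nat_lit 86) (nat_lit 1) (nat_lit 88) (nat_lit 1) (nat_lit 417) (nat_lit 386) (nat_lit 217)))) (XT.nd (nat_lit 156) (nat_lit 76) (nat_lit 0) (XT.nd (nat_lit 78) (nat_lit 152) (nat_lit 0) (XT.lf (nat_lit 76) (nat_lit 631383461) (nat_lit 0) (nat_lit 641268475) (nat_lit 76) (nat_lit 641268475) (nat_lit 86) (nat_lit 3) (nat_lit 85) (nat_lit 1) (nat_lit 86) (nat_lit 1) (nat_lit 418) (nat_lit 386) (nat_lit 216)) (XT.lf (nat_lit 152) (nat_lit 1877454690) (nat_lit 0) (nat_lit 3036870) (nat_lit 76) (nat_lit 3036870) (nat_lit 85) (nat_lit 1) (nat_lit 83) (nat_lit 1) (nat_lit 84) (nat_lit 1) (nat_lit 419) (nat_lit 386) (nat_lit 215))) (XT.nd (nat_lit 78) (nat_lit 76) (nat_lit 0) (XT.lf (nat_lit 0) (nat_lit 614703204)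 (nat_lit 0) (nat_lit 623242250) (nat_lit 152) (nat_lit 614703204) (nat_lit 83) (nat_lit 3) (nat_lit 83) (nat_lit 1) (nat_lit 85) (nat_lit 1) (nat_lit 420) (nat_lit 386) (nat_lit 214)) (XT.lf (nat_lit 76) (nat_lit 602165273) (nat_lit 0) (nat_lit 610297698) (nat_lit 76) (nat_lit 610297698) (nat_lit 83) (nat_lit 3) (nat_lit 82) (nat_lit 1) (nat_lit 83) (nat_lit 1) (nat_lit 421) (nat_lit 386) (nat_lit 213)))))) (XT.nd (nat_lit 468) (nat_lit 608) (nat_lit 0) (XT.nd (nat_lit 234) (nat_lit 228) (nat_lit 0) (XT.nd (nat_lit 78) (nat_lit 76) (nat_lit 0) (XT.lf (nat_lit 152) (nat_lit 1788820966) (nat_lit 0) (nat_lit 2498441) (nat_lit 76) (nat_lit 2498441) (nat_lit 82) (nat_lit 1) (nat_lit 80) (nat_lit 1) (nat_lit 81) (nat_lit 1) (nat_lit 422) (nat_lit 386) (nat_lit 212)) (XT.nd (nat_lit 78) (nat_lit 76) (nat_lit 0) (XT.lf (nat_lit 0) (nat_lit 585794682) (nat_lit 0) (nat_lit 592819776) (nat_lit 152) (nat_lit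 585794682) (nat_lit 80) (nat_lit 3) (nat_lit 80) (nat_lit 1) (nat_lit 82) (nat_lit 1) (nat_lit 423) (nat_lit 386) (nat_lit 211)) (XT.lf (nat_lit 76) (nat_lit 574188133) (nat_lit 0) (nat_lit 580878700) (nat_lit 76) (nat_lit 580878700) (nat_lit 80) (nat_lit 3) (nat_lit 79) (nat_lit 1) (nat_lit 80) (nat_lit 1) (nat_lit 424) (nat_lit 386) (nat_lit 210)))) (XT.nd (nat_lit 78) (nat_lit 76) (nat_lit 0) (XT.lf (nat_lit 152) (nat_lit 1704271575) (nat_lit 0) (nat_lit 2055473) (nat_lit 76) (nat_lit 2055473) (nat_lit 79) (nat_lit 1) (nat_lit 77) (nat_lit 1) (nat_lit 78) (nat_lit 1) (nat_lit 425) (nat_lit 386) (nat_lit 209)) (XT.nd (nat_lit 78) (nat_lit 76) (nat_lit 0) (XT.lf (nat_lit 0) (nat_lit 558198386) (nat_lit 0) (nat_lit 563977949) (nat_lit 152) (nat_lit 558198386) (nat_lit 77) (nat_lit 3) (nat_lit 77) (nat_lit 1) (nat_lit 79) (nat_lit 1) (nat_lit 426) (nat_lit 386) (nat_lit 208)) (XT.lf (nat_lit 76)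 (nat_lit 547419591) (nat_lit 0) (nat_lit 552923937) (nat_lit 76) (nat_lit 552923937) (nat_lit 77) (nat_lit 3) (nat_lit 76) (nat_lit 1) (nat_lit 77) (nat_lit 1) (nat_lit 427) (nat_lit 386) (nat_lit 207))))) (XT.nd (nat_lit 234) (nat_lit 380) (nat_lit 0) (XT.nd (nat_lit 78) (nat_lit 76) (nat_lit 0) (XT.lf (nat_lit 152) (nat_lit 1623636194) (nat_lit 0) (nat_lit 1691043) (nat_lit 76) (nat_lit 1691043) (nat_lit 76) (nat_lit 1) (nat_lit 74) (nat_lit 1) (nat_lit 75) (nat_lit 1) (nat_lit 428) (nat_lit 386) (nat_lit 206)) (XT.nd (nat_lit 78) (nat_lit 76) (nat_lit 0) (XT.lf (nat_lit 0) (nat_lit 531863244) (nat_lit 0) (nat_lit 536618104) (nat_lit 152) (nat_lit 531863244) (nat_lit 74) (nat_lit 3) (nat_lit 74) (nat_lit 1) (nat_lit 76) (nat_lit 1) (nat_lit 429) (nat_lit 386) (nat_lit 205)) (XT.lf (nat_lit 76) (nat_lit 521824017) (nat_lit 0) (nat_lit 526352456) (nat_lit 76) (nat_lit 526352456) (nat_lit 74) (nat_lit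 3) (nat_lit 73) (nat_lit 1) (nat_lit 74) (nat_lit 1) (nat_lit 430) (nat_lit 386) (nat_lit 204)))) (XT.nd (nat_lit 156) (nat_lit 228) (nat_lit 0) (XT.nd (nat_lit 78) (nat_lit 0) (nat_lit 0) (XT.lf (nat_lit 152) (nat_lit 1546748326) (nat_lit 0) (nat_lit 1391225) (nat_lit 76) (nat_lit 1391225) (nat_lit 73) (nat_lit 1) (nat_lit 71) (nat_lit 1) (nat_lit 72) (nat_lit 1) (nat_lit 431) (nat_lit 386) (nat_lit 203)) (XT.lf (nat_lit 0) (nat_lit 506738587) (nat_lit 0) (nat_lit 510650423) (nat_lit 152) (nat_lit 506738587) (nat_lit 71) (nat_lit 3) (nat_lit 71) (nat_lit 1) (nat_lit 73) (nat_lit 1) (nat_lit 432) (nat_lit 386) (nat_lit 202))) (XT.nd (nat_lit 78) (nat_lit 152) (nat_lit 0) (XT.lf (nat_lit 76) (nat_lit 497363592) (nat_lit 0) (nat_lit 501089149) (nat_lit 76) (nat_lit 501089149) (nat_lit 71) (nat_lit 3) (nat_lit 70) (nat_lit 1) (nat_lit 71) (nat_lit 1) (nat_lit 433) (nat_lit 386) (nat_lit 201)) (XT.lf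 (nat_lit 152) (nat_lit 1473445877) (nat_lit 0) (nat_lit 1144564) (nat_lit 76) (nat_lit 1144564) (nat_lit 70) (nat_lit 1) (nat_lit 68) (nat_lit 1) (nat_lit 69) (nat_lit 1) (nat_lit 434) (nat_lit 386) (nat_lit 200))))))))
noncomputable def ec200 : XT := (XT.nd (nat_lit 39312) (nat_lit 0) (nat_lit 12920) (XT.nd (nat_lit 936) (nat_lit 0) (nat_lit 0) (XT.nd (nat_lit 468) (nat_lit 456) (nat_lit 0) (XT.nd (nat_lit 234) (nat_lit 228) (nat_lit 0) (XT.nd (nat_lit 78) (nat_lit 228) (nat_lit 0) (XT.lf (nat_lit 0) (nat_lit 482774500) (nat_lit 0) (nat_lit 485992777) (nat_lit 152) (nat_lit 482774500) (nat_lit 68) (nat_lit 3) (nat_lit 68) (nat_lit 1) (nat_lit 70) (nat_lit 1) (nat_lit 435) (nat_lit 386) (nat_lit 199)) (XT.nd (nat_lit 78) (nat_lit 152) (nat_lit 0) (XT.lf (nat_lit 76) (nat_lit 473999097) (nat_lit 0) (nat_lit 477064122) (nat_lit 76) (nat_lit 477064122) (nat_lit 68) (nat_lit 3) (nat_lit 67) (nat_lit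 1) (nat_lit 68) (nat_lit 1) (nat_lit 436) (nat_lit 386) (nat_lit 198)) (XT.lf (nat_lit 152) (nat_lit 1403571571) (nat_lit 0) (nat_lit 941636) (nat_lit 76) (nat_lit 941636) (nat_lit 67) (nat_lit 1) (nat_lit 65) (nat_lit 1) (nat_lit 66) (nat_lit 1) (nat_lit 437) (nat_lit 386) (nat_lit 197)))) (XT.nd (nat_lit 78) (nat_lit 228) (nat_lit 0) (XT.lf (nat_lit 0) (nat_lit 459922071) (nat_lit 0) (nat_lit 462569756) (nat_lit 152) (nat_lit 459922071) (nat_lit 65) (nat_lit 3) (nat_lit 65) (nat_lit 1) (nat_lit 67) (nat_lit 1) (nat_lit 438) (nat_lit 386) (nat_lit 196)) (XT.nd (nat_lit 78) (nat_lit 152) (nat_lit 0) (XT.lf (nat_lit 76) (nat_lit 451690553) (nat_lit 0) (nat_lit 454212157) (nat_lit 76) (nat_lit 454212157) (nat_lit 65) (nat_lit 3) (nat_lit 64) (nat_lit 1) (nat_lit 65) (nat_lit 1) (nat_lit 439) (nat_lit 386) (nat_lit 195)) (XT.lf (nat_lit 152) (nat_lit 1336973234) (nat_lit 0) (nat_lit 774686) (nat_lit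 76) (nat_lit 774686) (nat_lit 64) (nat_lit 1) (nat_lit 62) (nat_lit 1) (nat_lit 63) (nat_lit 1) (nat_lit 440) (nat_lit 386) (nat_lit 194))))) (XT.nd (nat_lit 234) (nat_lit 228) (nat_lit 0) (XT.nd (nat_lit 78) (nat_lit 228) (nat_lit 0) (XT.lf (nat_lit 0) (nat_lit 438133593) (nat_lit 0) (nat_lit 440311850) (nat_lit 152) (nat_lit 438133593) (nat_lit 62) (nat_lit 3) (nat_lit 62) (nat_lit 1) (nat_lit 64) (nat_lit 1) (nat_lit 441) (nat_lit 386) (nat_lit 193)) (XT.nd (nat_lit 78) (nat_lit 152) (nat_lit 0) (XT.lf (nat_lit 76) (nat_lit 430397719) (nat_lit 0) (nat_lit 432472249) (nat_lit 76) (nat_lit 432472249) (nat_lit 62) (nat_lit 3) (nat_lit 61) (nat_lit 1) (nat_lit 62) (nat_lit 1) (nat_lit 442) (nat_lit 386) (nat_lit 192)) (XT.lf (nat_lit 152) (nat_lit 1273503979) (nat_lit 0) (nat_lit 637336) (nat_lit 76) (nat_lit 637336) (nat_lit 61) (nat_lit 1) (nat_lit 59) (nat_lit 1) (nat_lit 60) (nat_lit 1) (nat_lit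 443) (nat_lit 386) (nat_lit 191)))) (XT.nd (nat_lit 78) (nat_lit 228) (nat_lit 0) (XT.lf (nat_lit 0) (nat_lit 417362703) (nat_lit 0) (nat_lit 419154760) (nat_lit 152) (nat_lit 417362703) (nat_lit 59) (nat_lit 3) (nat_lit 59) (nat_lit 1) (nat_lit 61) (nat_lit 1) (nat_lit 444) (nat_lit 386) (nat_lit 190)) (XT.nd (nat_lit 78) (nat_lit 152) (nat_lit 0) (XT.lf (nat_lit 76) (nat_lit 410080491) (nat_lit 0) (nat_lit 411787212) (nat_lit 76) (nat_lit 411787212) (nat_lit 59) (nat_lit 3) (nat_lit 58) (nat_lit 1) (nat_lit 59) (nat_lit 1) (nat_lit 445) (nat_lit 386) (nat_lit 189)) (XT.lf (nat_lit 152) (nat_lit 1213022294) (nat_lit 0) (nat_lit 524338) (nat_lit 76) (nat_lit 524338) (nat_lit 58) (nat_lit 1) (nat_lit 56) (nat_lit 1) (nat_lit 57) (nat_lit 1) (nat_lit 446) (nat_lit 386) (nat_lit 188)))))) (XT.nd (nat_lit 37830) (nat_lit 0) (nat_lit 17556) (XT.nd (nat_lit 37596) (nat_lit 0) (nat_lit 18012) (XT.nd (nat_lit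 37440) (nat_lit 0) (nat_lit 17936) (XT.lf (nat_lit 0) (nat_lit 397564482) (nat_lit 0) (nat_lit 399038812) (nat_lit 152) (nat_lit 397564482) (nat_lit 56) (nat_lit 3) (nat_lit 56) (nat_lit 1) (nat_lit 58) (nat_lit 1) (nat_lit 447) (nat_lit 386) (nat_lit 187)) (XT.nd (nat_lit 78) (nat_lit 0) (nat_lit 0) (XT.lf (nat_lit 836) (nat_lit 5322880732) (nat_lit 0) (nat_lit 9450762505) (nat_lit 836) (nat_lit 5322880732) (nat_lit 303) (nat_lit 1) (nat_lit 292) (nat_lit 0) (nat_lit 303) (nat_lit 0) (nat_lit 246) (nat_lit 387) (nat_lit 387)) (XT.lf (nat_lit 836) (nat_lit 20632150255) (nat_lit 76) (nat_lit 9298330852) (nat_lit 0) (nat_lit 9298330852) (nat_lit 303) (nat_lit 1) (nat_lit 293) (nat_lit 1) (nat_lit 292) (nat_lit 0) (nat_lit 247) (nat_lit 387) (nat_lit 386)))) (XT.nd (nat_lit 78) (nat_lit 0) (nat_lit 0) (XT.lf (nat_lit 836) (nat_lit 9832972153) (nat_lit 0) (nat_lit 18628441386) (nat_lit 760) (nat_lit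 9832972153) (nat_lit 304) (nat_lit 1) (nat_lit 293) (nat_lit 1) (nat_lit 303) (nat_lit 1) (nat_lit 248) (nat_lit 387) (nat_lit 385)) (XT.nd (nat_lit 78) (nat_lit 0) (nat_lit 76) (XT.lf (nat_lit 836) (nat_lit 18445289434) (nat_lit 76) (nat_lit 9472429461) (nat_lit 0) (nat_lit 9472429461) (nat_lit 304) (nat_lit 1) (nat_lit 294) (nat_lit 1) (nat_lit 293) (nat_lit 1) (nat_lit 249) (nat_lit 387) (nat_lit 384)) (XT.lf (nat_lit 836) (nat_lit 8490189595) (nat_lit 0) (nat_lit 19534191617) (nat_lit 760) (nat_lit 8490189595) (nat_lit 305) (nat_lit 1) (nat_lit 294) (nat_lit 1) (nat_lit 304) (nat_lit 1) (nat_lit 250) (nat_lit 387) (nat_lit 383))))) (XT.nd (nat_lit 234) (nat_lit 532) (nat_lit 0) (XT.nd (nat_lit 78) (nat_lit 0) (nat_lit 76) (XT.lf (nat_lit 836) (nat_lit 15270158969) (nat_lit 76) (nat_lit 10197762619) (nat_lit 0) (nat_lit 10197762619) (nat_lit 305) (nat_lit 1) (nat_lit 295) (nat_lit 1) (nat_lit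 294) (nat_lit 1) (nat_lit 251) (nat_lit 387) (nat_lit 382)) (XT.nd (nat_lit 78) (nat_lit 0) (nat_lit 0) (XT.lf (nat_lit 836) (nat_lit 6695523666) (nat_lit 0) (nat_lit 21454252948) (nat_lit 760) (nat_lit 6695523666) (nat_lit 306) (nat_lit 1) (nat_lit 295) (nat_lit 1) (nat_lit 305) (nat_lit 1) (nat_lit 252) (nat_lit 387) (nat_lit 381)) (XT.lf (nat_lit 836) (nat_lit 11255380863) (nat_lit 76) (nat_lit 11396061735) (nat_lit 0) (nat_lit 11396061735) (nat_lit 306) (nat_lit 1) (nat_lit 296) (nat_lit 1) (nat_lit 295) (nat_lit 1) (nat_lit 253) (nat_lit 387) (nat_lit 380)))) (XT.nd (nat_lit 156) (nat_lit 684) (nat_lit 0) (XT.nd (nat_lit 78) (nat_lit 0) (nat_lit 0) (XT.lf (nat_lit 836) (nat_lit 4518449178) (nat_lit 0) (nat_lit 24242013910) (nat_lit 760) (nat_lit 4518449178) (nat_lit 307) (nat_lit 1) (nat_lit 296) (nat_lit 1) (nat_lit 306) (nat_lit 1) (nat_lit 254) (nat_lit 387) (nat_lit 379)) (XT.lf (nat_lit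 836) (nat_lit 6533057651) (nat_lit 76) (nat_lit 12997621557) (nat_lit 0) (nat_lit 12997621557) (nat_lit 307) (nat_lit 1) (nat_lit 297) (nat_lit 1) (nat_lit 296) (nat_lit 1) (nat_lit 255) (nat_lit 387) (nat_lit 378))) (XT.nd (nat_lit 78) (nat_lit 760) (nat_lit 0) (XT.lf (nat_lit 76) (nat_lit 2020674074) (nat_lit 0) (nat_lit 27766984553) (nat_lit 760) (nat_lit 2020674074) (nat_lit 298) (nat_lit 1) (nat_lit 297) (nat_lit 1) (nat_lit 307) (nat_lit 1) (nat_lit 256) (nat_lit 387) (nat_lit 377)) (XT.lf (nat_lit 836) (nat_lit 1220436891) (nat_lit 0) (nat_lit 14940442766) (nat_lit 760) (nat_lit 14940442766) (nat_lit 298) (nat_lit 1) (nat_lit 287) (nat_lit 1) (nat_lit 297) (nat_lit 1) (nat_lit 257) (nat_lit 387) (nat_lit 376))))))) (XT.nd (nat_lit 936) (nat_lit 2052) (nat_lit 0) (XT.nd (nat_lit 468) (nat_lit 1292) (nat_lit 0) (XT.nd (nat_lit 234) (nat_lit 380) (nat_lit 0) (XT.nd (nat_lit 78) (nat_lit 380)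 (nat_lit 0) (XT.lf (nat_lit 532) (nat_lit 28962504410) (nat_lit 0) (nat_lit 731091110) (nat_lit 456) (nat_lit 731091110) (nat_lit 287) (nat_lit 1) (nat_lit 280) (nat_lit 1) (nat_lit 286) (nat_lit 1) (nat_lit 258) (nat_lit 387) (nat_lit 375)) (XT.nd (nat_lit 78) (nat_lit 380) (nat_lit 0) (XT.lf (nat_lit 76) (nat_lit 12662356520) (nat_lit 0) (nat_lit 4432041901) (nat_lit 532) (nat_lit 12662356520) (nat_lit 281) (nat_lit 1) (nat_lit 280) (nat_lit 1) (nat_lit 287) (nat_lit 1) (nat_lit 259) (nat_lit 387) (nat_lit 374)) (XT.lf (nat_lit 456) (nat_lit 21788665285) (nat_lit 0) (nat_lit 3664280106) (nat_lit 380) (nat_lit 3664280106) (nat_lit 281) (nat_lit 1) (nat_lit 275) (nat_lit 1) (nat_lit 280) (nat_lit 1) (nat_lit 260) (nat_lit 387) (nat_lit 373)))) (XT.nd (nat_lit 78) (nat_lit 380) (nat_lit 0) (XT.lf (nat_lit 76) (nat_lit 9031904761) (nat_lit 0) (nat_lit 10427331209) (nat_lit 456) (nat_lit 9031904761)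 (nat_lit 276) (nat_lit 1) (nat_lit 275) (nat_lit 1) (nat_lit 281) (nat_lit 1) (nat_lit 261) (nat_lit 387) (nat_lit 372)) (XT.nd (nat_lit 78) (nat_lit 0) (nat_lit 0) (XT.lf (nat_lit 456) (nat_lit 14348145082) (nat_lit 0) (nat_lit 6769357870) (nat_lit 380) (nat_lit 6769357870) (nat_lit 276) (nat_lit 1) (nat_lit 270) (nat_lit 1) (nat_lit 275) (nat_lit 1) (nat_lit 262) (nat_lit 387) (nat_lit 371)) (XT.lf (nat_lit 76) (nat_lit 5287100775) (nat_lit 0) (nat_lit 16725953858) (nat_lit 456) (nat_lit 5287100775) (nat_lit 271) (nat_lit 1) (nat_lit 270) (nat_lit 1) (nat_lit 276) (nat_lit 1) (nat_lit 263) (nat_lit 387) (nat_lit 370))))) (XT.nd (nat_lit 234) (nat_lit 608) (nat_lit 0) (XT.nd (nat_lit 78) (nat_lit 380) (nat_lit 0) (XT.lf (nat_lit 380) (nat_lit 6710196166) (nat_lit 0) (nat_lit 10009172913) (nat_lit 304) (nat_lit 10009172913) (nat_lit 271) (nat_lit 1) (nat_lit 266) (nat_lit 1) (nat_lit 270) (nat_lit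 1) (nat_lit 264) (nat_lit 387) (nat_lit 369)) (XT.nd (nat_lit 78) (nat_lit 380) (nat_lit 0) (XT.lf (nat_lit 76) (nat_lit 1460093911) (nat_lit 0) (nat_lit 23258722193) (nat_lit 380) (nat_lit 1460093911) (nat_lit 267) (nat_lit 1) (nat_lit 266) (nat_lit 1) (nat_lit 271) (nat_lit 1) (nat_lit 265) (nat_lit 387) (nat_lit 368)) (XT.lf (nat_lit 76) (nat_lit 12303170855) (nat_lit 0) (nat_lit 1030414458) (nat_lit 380) (nat_lit 12303170855) (nat_lit 262) (nat_lit 1) (nat_lit 261) (nat_lit 1) (nat_lit 266) (nat_lit 1) (nat_lit 266) (nat_lit 387) (nat_lit 367)))) (XT.nd (nat_lit 78) (nat_lit 304) (nat_lit 0) (XT.lf (nat_lit 380) (nat_lit 20351384825) (nat_lit 0) (nat_lit 2381932022) (nat_lit 304) (nat_lit 2381932022) (nat_lit 262) (nat_lit 1) (nat_lit 257) (nat_lit 1) (nat_lit 261) (nat_lit 1) (nat_lit 267) (nat_lit 387) (nat_lit 366)) (XT.nd (nat_lit 78) (nat_lit 304) (nat_lit 0) (XT.lf (nat_lit 76) (nat_lit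 7982707837) (nat_lit 0) (nat_lit 8637272468) (nat_lit 380) (nat_lit 7982707837) (nat_lit 258) (nat_lit 1) (nat_lit 257) (nat_lit 1) (nat_lit 262) (nat_lit 1) (nat_lit 268) (nat_lit 387) (nat_lit 365)) (XT.lf (nat_lit 380) (nat_lit 11648991351) (nat_lit 0) (nat_lit 6229454934) (nat_lit 304) (nat_lit 6229454934) (nat_lit 258) (nat_lit 1) (nat_lit 253) (nat_lit 1) (nat_lit 257) (nat_lit 1) (nat_lit 269) (nat_lit 387) (nat_lit 364)))))) (XT.nd (nat_lit 468) (nat_lit 1216) (nat_lit 0) (XT.nd (nat_lit 234) (nat_lit 228) (nat_lit 0) (XT.nd (nat_lit 78) (nat_lit 608) (nat_lit 0) (XT.lf (nat_lit 76) (nat_lit 3673571986) (nat_lit 0) (nat_lit 16280437937) (nat_lit 380) (nat_lit 3673571986) (nat_lit 254) (nat_lit 1) (nat_lit 253) (nat_lit 1) (nat_lit 258) (nat_lit 1) (nat_lit 270) (nat_lit 387) (nat_lit 363)) (XT.nd (nat_lit 78) (nat_lit 380) (nat_lit 0) (XT.lf (nat_lit 304) (nat_lit 2987558760) (nat_lit 0)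 (nat_lit 10085036005) (nat_lit 228) (nat_lit 10085036005) (nat_lit 254) (nat_lit 1) (nat_lit 250) (nat_lit 1) (nat_lit 253) (nat_lit 1) (nat_lit 271) (nat_lit 387) (nat_lit 362)) (XT.lf (nat_lit 380) (nat_lit 21511983040) (nat_lit 0) (nat_lit 596916252) (nat_lit 304) (nat_lit 596916252) (nat_lit 250) (nat_lit 1) (nat_lit 245) (nat_lit 1) (nat_lit 249) (nat_lit 1) (nat_lit 272) (nat_lit 387) (nat_lit 361)))) (XT.nd (nat_lit 78) (nat_lit 228) (nat_lit 0) (XT.lf (nat_lit 76) (nat_lit 8417797999) (nat_lit 0) (nat_lit 5420905063) (nat_lit 380) (nat_lit 8417797999) (nat_lit 246) (nat_lit 1) (nat_lit 245) (nat_lit 1) (nat_lit 250) (nat_lit 1) (nat_lit 273) (nat_lit 387) (nat_lit 360)) (XT.nd (nat_lit 78) (nat_lit 0) (nat_lit 0) (XT.lf (nat_lit 304) (nat_lit 12294460100) (nat_lit 0) (nat_lit 4764979442) (nat_lit 228) (nat_lit 4764979442) (nat_lit 246) (nat_lit 1) (nat_lit 242) (nat_lit 1) (nat_lit 245)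 (nat_lit 1) (nat_lit 274) (nat_lit 387) (nat_lit 359)) (XT.lf (nat_lit 76) (nat_lit 3884010121) (nat_lit 0) (nat_lit 13635294452) (nat_lit 304) (nat_lit 3884010121) (nat_lit 243) (nat_lit 1) (nat_lit 242) (nat_lit 1) (nat_lit 246) (nat_lit 1) (nat_lit 275) (nat_lit 387) (nat_lit 358))))) (XT.nd (nat_lit 234) (nat_lit 684) (nat_lit 0) (XT.nd (nat_lit 78) (nat_lit 304) (nat_lit 0) (XT.lf (nat_lit 304) (nat_lit 3237201037) (nat_lit 0) (nat_lit 8877294689) (nat_lit 228) (nat_lit 8877294689) (nat_lit 243) (nat_lit 1) (nat_lit 239) (nat_lit 1) (nat_lit 242) (nat_lit 1) (nat_lit 276) (nat_lit 387) (nat_lit 357)) (XT.nd (nat_lit 78) (nat_lit 0) (nat_lit 0) (XT.lf (nat_lit 304) (nat_lit 19482861908) (nat_lit 0) (nat_lit 556346438) (nat_lit 228) (nat_lit 556346438) (nat_lit 239) (nat_lit 1) (nat_lit 235) (nat_lit 1) (nat_lit 238) (nat_lit 1) (nat_lit 277) (nat_lit 387) (nat_lit 356)) (XT.lf (nat_lit 76)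 (nat_lit 7369808705) (nat_lit 0) (nat_lit 5460954249) (nat_lit 304) (nat_lit 7369808705) (nat_lit 236) (nat_lit 1) (nat_lit 235) (nat_lit 1) (nat_lit 239) (nat_lit 1) (nat_lit 278) (nat_lit 387) (nat_lit 355)))) (XT.nd (nat_lit 156) (nat_lit 456) (nat_lit 0) (XT.nd (nat_lit 78) (nat_lit 0) (nat_lit 0) (XT.lf (nat_lit 304) (nat_lit 10134161793) (nat_lit 0) (nat_lit 4843020592) (nat_lit 228) (nat_lit 4843020592) (nat_lit 236) (nat_lit 1) (nat_lit 232) (nat_lit 1) (nat_lit 235) (nat_lit 1) (nat_lit 279) (nat_lit 387) (nat_lit 354)) (XT.lf (nat_lit 76) (nat_lit 2790939892) (nat_lit 0) (nat_lit 13868156168) (nat_lit 304) (nat_lit 2790939892) (nat_lit 233) (nat_lit 1) (nat_lit 232) (nat_lit 1) (nat_lit 236) (nat_lit 1) (nat_lit 280) (nat_lit 387) (nat_lit 353))) (XT.nd (nat_lit 78) (nat_lit 304) (nat_lit 0) (XT.lf (nat_lit 228) (nat_lit 1022693173) (nat_lit 0) (nat_lit 9032075666) (nat_lit 152) (nat_lit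 9032075666) (nat_lit 233) (nat_lit 1) (nat_lit 230) (nat_lit 1) (nat_lit 232) (nat_lit 1) (nat_lit 281) (nat_lit 387) (nat_lit 352)) (XT.lf (nat_lit 304) (nat_lit 15452550929) (nat_lit 0) (nat_lit 1641172914) (nat_lit 228) (nat_lit 1641172914) (nat_lit 230) (nat_lit 1) (nat_lit 226) (nat_lit 1) (nat_lit 229) (nat_lit 1) (nat_lit 282) (nat_lit 387) (nat_lit 351))))))))
noncomputable def ec201 : XT := (XT.nd (nat_lit 1950) (nat_lit 1900) (nat_lit 0) (XT.nd (nat_lit 936) (nat_lit 1368) (nat_lit 0) (XT.nd (nat_lit 468) (nat_lit 684) (nat_lit 0) (XT.nd (nat_lit 234) (nat_lit 380) (nat_lit 0) (XT.nd (nat_lit 78) (nat_lit 152) (nat_lit 0) (XT.lf (nat_lit 76) (nat_lit 5397209240) (nat_lit 0) (nat_lit 7592466723) (nat_lit 304) (nat_lit 5397209240) (nat_lit 227) (nat_lit 1) (nat_lit 226) (nat_lit 1) (nat_lit 230) (nat_lit 1) (nat_lit 283) (nat_lit 387) (nat_lit 350)) (XT.nd (nat_lit 78) (nat_lit 0) (nat_lit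 0) (XT.lf (nat_lit 228) (nat_lit 6235642722) (nat_lit 0) (nat_lit 5906985759) (nat_lit 152) (nat_lit 5906985759) (nat_lit 227) (nat_lit 1) (nat_lit 224) (nat_lit 1) (nat_lit 226) (nat_lit 1) (nat_lit 284) (nat_lit 387) (nat_lit 349)) (XT.lf (nat_lit 76) (nat_lit 895863936) (nat_lit 0) (nat_lit 15931808136) (nat_lit 228) (nat_lit 895863936) (nat_lit 225) (nat_lit 1) (nat_lit 224) (nat_lit 1) (nat_lit 227) (nat_lit 1) (nat_lit 285) (nat_lit 387) (nat_lit 348)))) (XT.nd (nat_lit 78) (nat_lit 152) (nat_lit 0) (XT.lf (nat_lit 76) (nat_lit 7393722240) (nat_lit 0) (nat_lit 2611198613) (nat_lit 228) (nat_lit 7393722240) (nat_lit 222) (nat_lit 1) (nat_lit 221) (nat_lit 1) (nat_lit 224) (nat_lit 1) (nat_lit 286) (nat_lit 387) (nat_lit 347)) (XT.nd (nat_lit 78) (nat_lit 0) (nat_lit 0) (XT.lf (nat_lit 228) (nat_lit 10267479191) (nat_lit 0) (nat_lit 3408524904) (nat_lit 152) (nat_lit 3408524904) (nat_lit 222)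 (nat_lit 1) (nat_lit 219) (nat_lit 1) (nat_lit 221) (nat_lit 1) (nat_lit 287) (nat_lit 387) (nat_lit 346)) (XT.lf (nat_lit 76) (nat_lit 2897215507) (nat_lit 0) (nat_lit 10982926501) (nat_lit 228) (nat_lit 2897215507) (nat_lit 220) (nat_lit 1) (nat_lit 219) (nat_lit 1) (nat_lit 222) (nat_lit 1) (nat_lit 288) (nat_lit 387) (nat_lit 345))))) (XT.nd (nat_lit 234) (nat_lit 304) (nat_lit 0) (XT.nd (nat_lit 78) (nat_lit 228) (nat_lit 0) (XT.lf (nat_lit 228) (nat_lit 1357241155) (nat_lit 0) (nat_lit 7559568330) (nat_lit 152) (nat_lit 7559568330) (nat_lit 220) (nat_lit 1) (nat_lit 217) (nat_lit 1) (nat_lit 219) (nat_lit 1) (nat_lit 289) (nat_lit 387) (nat_lit 344)) (XT.nd (nat_lit 78) (nat_lit 0) (nat_lit 0) (XT.lf (nat_lit 228) (nat_lit 13339842915) (nat_lit 0) (nat_lit 1422138161) (nat_lit 152) (nat_lit 1422138161) (nat_lit 217) (nat_lit 1) (nat_lit 214) (nat_lit 1) (nat_lit 216) (nat_lit 1) (nat_lit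 290) (nat_lit 387) (nat_lit 343)) (XT.lf (nat_lit 76) (nat_lit 4440866396) (nat_lit 0) (nat_lit 7012622260) (nat_lit 228) (nat_lit 4440866396) (nat_lit 215) (nat_lit 1) (nat_lit 214) (nat_lit 1) (nat_lit 217) (nat_lit 1) (nat_lit 291) (nat_lit 387) (nat_lit 342)))) (XT.nd (nat_lit 78) (nat_lit 152) (nat_lit 0) (XT.lf (nat_lit 228) (nat_lit 4522806818) (nat_lit 0) (nat_lit 5545098152) (nat_lit 152) (nat_lit 5545098152) (nat_lit 215) (nat_lit 1) (nat_lit 212) (nat_lit 1) (nat_lit 214) (nat_lit 1) (nat_lit 292) (nat_lit 387) (nat_lit 341)) (XT.nd (nat_lit 78) (nat_lit 152) (nat_lit 0) (XT.lf (nat_lit 76) (nat_lit 148652186) (nat_lit 0) (nat_lit 15044213848) (nat_lit 228) (nat_lit 148652186) (nat_lit 213) (nat_lit 1) (nat_lit 212) (nat_lit 1) (nat_lit 215) (nat_lit 1) (nat_lit 293) (nat_lit 387) (nat_lit 340)) (XT.lf (nat_lit 76) (nat_lit 5612864182) (nat_lit 0) (nat_lit 3842579256) (nat_lit 152) (nat_lit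 5612864182) (nat_lit 211) (nat_lit 1) (nat_lit 210) (nat_lit 1) (nat_lit 212) (nat_lit 1) (nat_lit 294) (nat_lit 387) (nat_lit 339)))))) (XT.nd (nat_lit 468) (nat_lit 836) (nat_lit 0) (XT.nd (nat_lit 234) (nat_lit 228) (nat_lit 0) (XT.nd (nat_lit 78) (nat_lit 152) (nat_lit 0) (XT.lf (nat_lit 228) (nat_lit 6964925467) (nat_lit 0) (nat_lit 3919892239) (nat_lit 152) (nat_lit 3919892239) (nat_lit 211) (nat_lit 1) (nat_lit 208) (nat_lit 1) (nat_lit 210) (nat_lit 1) (nat_lit 295) (nat_lit 387) (nat_lit 338)) (XT.nd (nat_lit 78) (nat_lit 152) (nat_lit 0) (XT.lf (nat_lit 76) (nat_lit 1396419419) (nat_lit 0) (nat_lit 11755388599) (nat_lit 228) (nat_lit 1396419419) (nat_lit 209) (nat_lit 1) (nat_lit 208) (nat_lit 1) (nat_lit 211) (nat_lit 1) (nat_lit 296) (nat_lit 387) (nat_lit 337)) (XT.lf (nat_lit 76) (nat_lit 6483767166) (nat_lit 0) (nat_lit 1326325719) (nat_lit 152) (nat_lit 6483767166) (nat_lit 207)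 (nat_lit 1) (nat_lit 206) (nat_lit 1) (nat_lit 208) (nat_lit 1) (nat_lit 297) (nat_lit 387) (nat_lit 336)))) (XT.nd (nat_lit 78) (nat_lit 76) (nat_lit 0) (XT.lf (nat_lit 228) (nat_lit 8819586281) (nat_lit 0) (nat_lit 2613406251) (nat_lit 152) (nat_lit 2613406251) (nat_lit 207) (nat_lit 1) (nat_lit 204) (nat_lit 1) (nat_lit 206) (nat_lit 1) (nat_lit 298) (nat_lit 387) (nat_lit 335)) (XT.nd (nat_lit 78) (nat_lit 76) (nat_lit 0) (XT.lf (nat_lit 76) (nat_lit 2362288091) (nat_lit 0) (nat_lit 9079260278) (nat_lit 228) (nat_lit 2362288091) (nat_lit 205) (nat_lit 1) (nat_lit 204) (nat_lit 1) (nat_lit 207) (nat_lit 1) (nat_lit 299) (nat_lit 387) (nat_lit 334)) (XT.lf (nat_lit 152) (nat_lit 678126885) (nat_lit 0) (nat_lit 6443862262) (nat_lit 76) (nat_lit 6443862262) (nat_lit 205) (nat_lit 1) (nat_lit 203) (nat_lit 1) (nat_lit 204) (nat_lit 1) (nat_lit 300) (nat_lit 387) (nat_lit 333))))) (XT.nd (nat_lit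 234) (nat_lit 532) (nat_lit 0) (XT.nd (nat_lit 78) (nat_lit 76) (nat_lit 0) (XT.lf (nat_lit 228) (nat_lit 10198300090) (nat_lit 0) (nat_lit 1567675986) (nat_lit 152) (nat_lit 1567675986) (nat_lit 203) (nat_lit 1) (nat_lit 200) (nat_lit 1) (nat_lit 202) (nat_lit 1) (nat_lit 301) (nat_lit 387) (nat_lit 332)) (XT.nd (nat_lit 78) (nat_lit 76) (nat_lit 0) (XT.lf (nat_lit 76) (nat_lit 3099127287) (nat_lit 0) (nat_lit 6905789887) (nat_lit 228) (nat_lit 3099127287) (nat_lit 201) (nat_lit 1) (nat_lit 200) (nat_lit 1) (nat_lit 203) (nat_lit 1) (nat_lit 302) (nat_lit 387) (nat_lit 331)) (XT.lf (nat_lit 152) (nat_lit 2277303708) (nat_lit 0) (nat_lit 5301381430) (nat_lit 76) (nat_lit 5301381430) (nat_lit 201) (nat_lit 1) (nat_lit 199) (nat_lit 1) (nat_lit 200) (nat_lit 1) (nat_lit 303) (nat_lit 387) (nat_lit 330)))) (XT.nd (nat_lit 156) (nat_lit 304) (nat_lit 0) (XT.nd (nat_lit 78) (nat_lit 0) (nat_lit 0) (XT.lf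 (nat_lit 228) (nat_lit 11192456847) (nat_lit 0) (nat_lit 735083480) (nat_lit 152) (nat_lit 735083480) (nat_lit 199) (nat_lit 1) (nat_lit 196) (nat_lit 1) (nat_lit 198) (nat_lit 1) (nat_lit 304) (nat_lit 387) (nat_lit 329)) (XT.lf (nat_lit 76) (nat_lit 3650294953) (nat_lit 0) (nat_lit 5144515179) (nat_lit 228) (nat_lit 3650294953) (nat_lit 197) (nat_lit 1) (nat_lit 196) (nat_lit 1) (nat_lit 199) (nat_lit 1) (nat_lit 305) (nat_lit 387) (nat_lit 328))) (XT.nd (nat_lit 78) (nat_lit 228) (nat_lit 0) (XT.lf (nat_lit 152) (nat_lit 3511073912) (nat_lit 0) (nat_lit 4361459622) (nat_lit 76) (nat_lit 4361459622) (nat_lit 197) (nat_lit 1) (nat_lit 195) (nat_lit 1) (nat_lit 196) (nat_lit 1) (nat_lit 306) (nat_lit 387) (nat_lit 327)) (XT.lf (nat_lit 228) (nat_lit 11876909685) (nat_lit 0) (nat_lit 76519348) (nat_lit 152) (nat_lit 76519348) (nat_lit 195) (nat_lit 1) (nat_lit 192) (nat_lit 1) (nat_lit 194) (nat_lit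 1) (nat_lit 307) (nat_lit 387) (nat_lit 326))))))) (XT.nd (nat_lit 1014) (nat_lit 988) (nat_lit 0) (XT.nd (nat_lit 468) (nat_lit 608) (nat_lit 0) (XT.nd (nat_lit 234) (nat_lit 228) (nat_lit 0) (XT.nd (nat_lit 78) (nat_lit 76) (nat_lit 0) (XT.lf (nat_lit 76) (nat_lit 4051330753) (nat_lit 0) (nat_lit 3721076559) (nat_lit 228) (nat_lit 4051330753) (nat_lit 193) (nat_lit 1) (nat_lit 192) (nat_lit 1) (nat_lit 195) (nat_lit 1) (nat_lit 308) (nat_lit 387) (nat_lit 325)) (XT.nd (nat_lit 78) (nat_lit 0) (nat_lit 0) (XT.lf (nat_lit 152) (nat_lit 4448122068) (nat_lit 0) (nat_lit 3588183625) (nat_lit 76) (nat_lit 3588183625) (nat_lit 193) (nat_lit 1) (nat_lit 191) (nat_lit 1) (nat_lit 192) (nat_lit 1) (nat_lit 309) (nat_lit 387) (nat_lit 324)) (XT.lf (nat_lit 0) (nat_lit 447344142) (nat_lit 0) (nat_lit 10536567940) (nat_lit 152) (nat_lit 447344142) (nat_lit 191) (nat_lit 3) (nat_lit 191) (nat_lit 1) (nat_lit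 193) (nat_lit 1) (nat_lit 310) (nat_lit 387) (nat_lit 323)))) (XT.nd (nat_lit 78) (nat_lit 76) (nat_lit 0) (XT.lf (nat_lit 76) (nat_lit 4331348467) (nat_lit 0) (nat_lit 2574359074) (nat_lit 152) (nat_lit 4331348467) (nat_lit 190) (nat_lit 1) (nat_lit 189) (nat_lit 1) (nat_lit 191) (nat_lit 1) (nat_lit 311) (nat_lit 387) (nat_lit 322)) (XT.nd (nat_lit 78) (nat_lit 0) (nat_lit 0) (XT.lf (nat_lit 152) (nat_lit 5144769483) (nat_lit 0) (nat_lit 2952007548) (nat_lit 76) (nat_lit 2952007548) (nat_lit 190) (nat_lit 1) (nat_lit 188) (nat_lit 1) (nat_lit 189) (nat_lit 1) (nat_lit 312) (nat_lit 387) (nat_lit 321)) (XT.lf (nat_lit 0) (nat_lit 855010952) (nat_lit 0) (nat_lit 9155440340) (nat_lit 152) (nat_lit 855010952) (nat_lit 188) (nat_lit 3) (nat_lit 188) (nat_lit 1) (nat_lit 190) (nat_lit 1) (nat_lit 313) (nat_lit 387) (nat_lit 320))))) (XT.nd (nat_lit 234) (nat_lit 380) (nat_lit 0) (XT.nd (nat_lit 78)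 (nat_lit 76) (nat_lit 0) (XT.lf (nat_lit 76) (nat_lit 4514181227) (nat_lit 0) (nat_lit 1654141277) (nat_lit 152) (nat_lit 4514181227) (nat_lit 187) (nat_lit 1) (nat_lit 186) (nat_lit 1) (nat_lit 188) (nat_lit 1) (nat_lit 314) (nat_lit 387) (nat_lit 319)) (XT.nd (nat_lit 78) (nat_lit 0) (nat_lit 0) (XT.lf (nat_lit 152) (nat_lit 5647175014) (nat_lit 0) (nat_lit 2428623915) (nat_lit 76) (nat_lit 2428623915) (nat_lit 187) (nat_lit 1) (nat_lit 185) (nat_lit 1) (nat_lit 186) (nat_lit 1) (nat_lit 315) (nat_lit 387) (nat_lit 318)) (XT.lf (nat_lit 0) (nat_lit 1167209930) (nat_lit 0) (nat_lit 7995993730) (nat_lit 152) (nat_lit 1167209930) (nat_lit 185) (nat_lit 3) (nat_lit 185) (nat_lit 1) (nat_lit 187) (nat_lit 1) (nat_lit 316) (nat_lit 387) (nat_lit 317)))) (XT.nd (nat_lit 156) (nat_lit 152) (nat_lit 0) (XT.nd (nat_lit 78) (nat_lit 76) (nat_lit 0) (XT.lf (nat_lit 76) (nat_lit 4619323423) (nat_lit 0) (nat_lit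 919161070) (nat_lit 152) (nat_lit 4619323423) (nat_lit 184) (nat_lit 1) (nat_lit 183) (nat_lit 1) (nat_lit 185) (nat_lit 1) (nat_lit 317) (nat_lit 387) (nat_lit 316)) (XT.lf (nat_lit 152) (nat_lit 5993145268) (nat_lit 0) (nat_lit 1998034905) (nat_lit 76) (nat_lit 1998034905) (nat_lit 184) (nat_lit 1) (nat_lit 182) (nat_lit 1) (nat_lit 183) (nat_lit 1) (nat_lit 318) (nat_lit 387) (nat_lit 315))) (XT.nd (nat_lit 78) (nat_lit 152) (nat_lit 0) (XT.lf (nat_lit 0) (nat_lit 1401971550) (nat_lit 0) (nat_lit 7020028881) (nat_lit 152) (nat_lit 1401971550) (nat_lit 182) (nat_lit 3) (nat_lit 182) (nat_lit 1) (nat_lit 184) (nat_lit 1) (nat_lit 319) (nat_lit 387) (nat_lit 314)) (XT.lf (nat_lit 76) (nat_lit 4662705341) (nat_lit 0) (nat_lit 335524609) (nat_lit 152) (nat_lit 4662705341) (nat_lit 181) (nat_lit 1) (nat_lit 180) (nat_lit 1) (nat_lit 182) (nat_lit 1) (nat_lit 320) (nat_lit 387) (nat_lit 313)))))) (XT.nd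 (nat_lit 468) (nat_lit 608) (nat_lit 0) (XT.nd (nat_lit 234) (nat_lit 228) (nat_lit 0) (XT.nd (nat_lit 78) (nat_lit 76) (nat_lit 0) (XT.lf (nat_lit 152) (nat_lit 6213623451) (nat_lit 0) (nat_lit 1643788261) (nat_lit 76) (nat_lit 1643788261) (nat_lit 181) (nat_lit 1) (nat_lit 179) (nat_lit 1) (nat_lit 180) (nat_lit 1) (nat_lit 321) (nat_lit 387) (nat_lit 312)) (XT.nd (nat_lit 78) (nat_lit 76) (nat_lit 0) (XT.lf (nat_lit 0) (nat_lit 1574076941) (nat_lit 0) (nat_lit 6196066612) (nat_lit 152) (nat_lit 1574076941) (nat_lit 179) (nat_lit 3) (nat_lit 179) (nat_lit 1) (nat_lit 181) (nat_lit 1) (nat_lit 322) (nat_lit 387) (nat_lit 311)) (XT.lf (nat_lit 76) (nat_lit 128722499) (nat_lit 0) (nat_lit 4530617423) (nat_lit 76) (nat_lit 4530617423) (nat_lit 179) (nat_lit 3) (nat_lit 178) (nat_lit 1) (nat_lit 179) (nat_lit 1) (nat_lit 323) (nat_lit 387) (nat_lit 310)))) (XT.nd (nat_lit 78) (nat_lit 76) (nat_lit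 0) (XT.lf (nat_lit 152) (nat_lit 6333913874) (nat_lit 0) (nat_lit 1352348670) (nat_lit 76) (nat_lit 1352348670) (nat_lit 178) (nat_lit 1) (nat_lit 176) (nat_lit 1) (nat_lit 177) (nat_lit 1) (nat_lit 324) (nat_lit 387) (nat_lit 309)) (XT.nd (nat_lit 78) (nat_lit 76) (nat_lit 0) (XT.lf (nat_lit 0) (nat_lit 1695636498) (nat_lit 0) (nat_lit 5498158838) (nat_lit 152) (nat_lit 1695636498) (nat_lit 176) (nat_lit 3) (nat_lit 176) (nat_lit 1) (nat_lit 178) (nat_lit 1) (nat_lit 325) (nat_lit 387) (nat_lit 308)) (XT.lf (nat_lit 76) (nat_lit 500077894) (nat_lit 0) (nat_lit 4121527742) (nat_lit 76) (nat_lit 4121527742) (nat_lit 176) (nat_lit 3) (nat_lit 175) (nat_lit 1) (nat_lit 176) (nat_lit 1) (nat_lit 326) (nat_lit 387) (nat_lit 307))))) (XT.nd (nat_lit 234) (nat_lit 380) (nat_lit 0) (XT.nd (nat_lit 78) (nat_lit 76) (nat_lit 0) (XT.lf (nat_lit 152) (nat_lit 6374688984) (nat_lit 0) (nat_lit 1112580598) (nat_lit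 76) (nat_lit 1112580598) (nat_lit 175) (nat_lit 1) (nat_lit 173) (nat_lit 1) (nat_lit 174) (nat_lit 1) (nat_lit 327) (nat_lit 387) (nat_lit 306)) (XT.nd (nat_lit 78) (nat_lit 76) (nat_lit 0) (XT.lf (nat_lit 0) (nat_lit 1776565774) (nat_lit 0) (nat_lit 4904910314) (nat_lit 152) (nat_lit 1776565774) (nat_lit 173) (nat_lit 3) (nat_lit 173) (nat_lit 1) (nat_lit 175) (nat_lit 1) (nat_lit 328) (nat_lit 387) (nat_lit 305)) (XT.lf (nat_lit 76) (nat_lit 786822535) (nat_lit 0) (nat_lit 3766198287) (nat_lit 76) (nat_lit 3766198287) (nat_lit 173) (nat_lit 3) (nat_lit 172) (nat_lit 1) (nat_lit 173) (nat_lit 1) (nat_lit 329) (nat_lit 387) (nat_lit 304)))) (XT.nd (nat_lit 156) (nat_lit 228) (nat_lit 0) (XT.nd (nat_lit 78) (nat_lit 0) (nat_lit 0) (XT.lf (nat_lit 152) (nat_lit 6352817512) (nat_lit 0) (nat_lit 915322811) (nat_lit 76) (nat_lit 915322811) (nat_lit 172) (nat_lit 1) (nat_lit 170) (nat_lit 1) (nat_lit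 171) (nat_lit 1) (nat_lit 330) (nat_lit 387) (nat_lit 303)) (XT.lf (nat_lit 0) (nat_lit 1824976898) (nat_lit 0) (nat_lit 4398673693) (nat_lit 152) (nat_lit 1824976898) (nat_lit 170) (nat_lit 3) (nat_lit 170) (nat_lit 1) (nat_lit 172) (nat_lit 1) (nat_lit 331) (nat_lit 387) (nat_lit 302))) (XT.nd (nat_lit 78) (nat_lit 152) (nat_lit 0) (XT.lf (nat_lit 76) (nat_lit 1004851527) (nat_lit 0) (nat_lit 3455991332) (nat_lit 76) (nat_lit 3455991332) (nat_lit 170) (nat_lit 3) (nat_lit 169) (nat_lit 1) (nat_lit 170) (nat_lit 1) (nat_lit 332) (nat_lit 387) (nat_lit 301)) (XT.lf (nat_lit 152) (nat_lit 6282045460) (nat_lit 0) (nat_lit 753038342) (nat_lit 76) (nat_lit 753038342) (nat_lit 169) (nat_lit 1) (nat_lit 167) (nat_lit 1) (nat_lit 168) (nat_lit 1) (nat_lit 333) (nat_lit 387) (nat_lit 300))))))))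
noncomputable def ec202 : XT := (XT.nd (nat_lit 1950) (nat_lit 1900) (nat_lit 0) (XT.nd (nat_lit 936) (nat_lit 912) (nat_lit 0) (XT.nd (nat_lit 468) (nat_lit 456) (nat_lit 0) (XT.nd (nat_lit 234) (nat_lit 228) (nat_lit 0) (XT.nd (nat_lit 78) (nat_lit 228) (nat_lit 0) (XT.lf (nat_lit 0) (nat_lit 1847500476) (nat_lit 0) (nat_lit 3964887199) (nat_lit 152) (nat_lit 1847500476) (nat_lit 167) (nat_lit 3) (nat_lit 167) (nat_lit 1) (nat_lit 169) (nat_lit 1) (nat_lit 334) (nat_lit 387) (nat_lit 299)) (XT.nd (nat_lit 78) (nat_lit 152) (nat_lit 0) (XT.lf (nat_lit 76) (nat_lit 1167199248) (nat_lit 0) (nat_lit 3183758032) (nat_lit 76) (nat_lit 3183758032) (nat_lit 167) (nat_lit 3) (nat_lit 166) (nat_lit 1) (nat_lit 167) (nat_lit 1) (nat_lit 335) (nat_lit 387) (nat_lit 298)) (XT.lf (nat_lit 152) (nat_lit 6173556033) (nat_lit 0) (nat_lit 619526507) (nat_lit 76) (nat_lit 619526507) (nat_lit 166) (nat_lit 1) (nat_lit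 164) (nat_lit 1) (nat_lit 165) (nat_lit 1) (nat_lit 336) (nat_lit 387) (nat_lit 297)))) (XT.nd (nat_lit 78) (nat_lit 228) (nat_lit 0) (XT.lf (nat_lit 0) (nat_lit 1849550324) (nat_lit 0) (nat_lit 3591529621) (nat_lit 152) (nat_lit 1849550324) (nat_lit 164) (nat_lit 3) (nat_lit 164) (nat_lit 1) (nat_lit 166) (nat_lit 1) (nat_lit 337) (nat_lit 387) (nat_lit 296)) (XT.nd (nat_lit 78) (nat_lit 152) (nat_lit 0) (XT.lf (nat_lit 76) (nat_lit 1284548577) (nat_lit 0) (nat_lit 2943576478) (nat_lit 76) (nat_lit 2943576478) (nat_lit 164) (nat_lit 3) (nat_lit 163) (nat_lit 1) (nat_lit 164) (nat_lit 1) (nat_lit 338) (nat_lit 387) (nat_lit 295)) (XT.lf (nat_lit 152) (nat_lit 6036430005) (nat_lit 0) (nat_lit 509685991) (nat_lit 76) (nat_lit 509685991) (nat_lit 163) (nat_lit 1) (nat_lit 161) (nat_lit 1) (nat_lit 162) (nat_lit 1) (nat_lit 339) (nat_lit 387) (nat_lit 294))))) (XT.nd (nat_lit 234) (nat_lit 228) (nat_lit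 0) (XT.nd (nat_lit 78) (nat_lit 228) (nat_lit 0) (XT.lf (nat_lit 0) (nat_lit 1835541163) (nat_lit 0) (nat_lit 3268671841) (nat_lit 152) (nat_lit 1835541163) (nat_lit 161) (nat_lit 3) (nat_lit 161) (nat_lit 1) (nat_lit 163) (nat_lit 1) (nat_lit 340) (nat_lit 387) (nat_lit 293)) (XT.nd (nat_lit 78) (nat_lit 152) (nat_lit 0) (XT.lf (nat_lit 76) (nat_lit 1365649737) (nat_lit 0) (nat_lit 2730536098) (nat_lit 76) (nat_lit 2730536098) (nat_lit 161) (nat_lit 3) (nat_lit 160) (nat_lit 1) (nat_lit 161) (nat_lit 1) (nat_lit 341) (nat_lit 387) (nat_lit 292)) (XT.lf (nat_lit 152) (nat_lit 5878024168) (nat_lit 0) (nat_lit 419319926) (nat_lit 76) (nat_lit 419319926) (nat_lit 160) (nat_lit 1) (nat_lit 158) (nat_lit 1) (nat_lit 159) (nat_lit 1) (nat_lit 342) (nat_lit 387) (nat_lit 291)))) (XT.nd (nat_lit 78) (nat_lit 228) (nat_lit 0) (XT.lf (nat_lit 0) (nat_lit 1809067622) (nat_lit 0) (nat_lit 2988107778) (nat_lit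 152) (nat_lit 1809067622) (nat_lit 158) (nat_lit 3) (nat_lit 158) (nat_lit 1) (nat_lit 160) (nat_lit 1) (nat_lit 343) (nat_lit 387) (nat_lit 290)) (XT.nd (nat_lit 78) (nat_lit 152) (nat_lit 0) (XT.lf (nat_lit 76) (nat_lit 1417664794) (nat_lit 0) (nat_lit 2540560181) (nat_lit 76) (nat_lit 2540560181) (nat_lit 158) (nat_lit 3) (nat_lit 157) (nat_lit 1) (nat_lit 158) (nat_lit 1) (nat_lit 344) (nat_lit 387) (nat_lit 289)) (XT.lf (nat_lit 152) (nat_lit 5704282425) (nat_lit 0) (nat_lit 344975541) (nat_lit 76) (nat_lit 344975541) (nat_lit 157) (nat_lit 1) (nat_lit 155) (nat_lit 1) (nat_lit 156) (nat_lit 1) (nat_lit 345) (nat_lit 387) (nat_lit 288)))))) (XT.nd (nat_lit 468) (nat_lit 456) (nat_lit 0) (XT.nd (nat_lit 234) (nat_lit 228) (nat_lit 0) (XT.nd (nat_lit 78) (nat_lit 228) (nat_lit 0) (XT.lf (nat_lit 0) (nat_lit 1773051425) (nat_lit 0) (nat_lit 2743050679) (nat_lit 152) (nat_lit 1773051425) (nat_lit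 155) (nat_lit 3) (nat_lit 155) (nat_lit 1) (nat_lit 157) (nat_lit 1) (nat_lit 346) (nat_lit 387) (nat_lit 287)) (XT.nd (nat_lit 78) (nat_lit 152) (nat_lit 0) (XT.lf (nat_lit 76) (nat_lit 1446450978) (nat_lit 0) (nat_lit 2370259791) (nat_lit 76) (nat_lit 2370259791) (nat_lit 155) (nat_lit 3) (nat_lit 154) (nat_lit 1) (nat_lit 155) (nat_lit 1) (nat_lit 347) (nat_lit 387) (nat_lit 286)) (XT.lf (nat_lit 152) (nat_lit 5519991453) (nat_lit 0) (nat_lit 283812231) (nat_lit 76) (nat_lit 283812231) (nat_lit 154) (nat_lit 1) (nat_lit 152) (nat_lit 1) (nat_lit 153) (nat_lit 1) (nat_lit 348) (nat_lit 387) (nat_lit 285)))) (XT.nd (nat_lit 78) (nat_lit 228) (nat_lit 0) (XT.lf (nat_lit 0) (nat_lit 1729862380) (nat_lit 0) (nat_lit 2527883167) (nat_lit 152) (nat_lit 1729862380) (nat_lit 152) (nat_lit 3) (nat_lit 152) (nat_lit 1) (nat_lit 154) (nat_lit 1) (nat_lit 349) (nat_lit 387) (nat_lit 284)) (XT.nd (nat_lit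 78) (nat_lit 152) (nat_lit 0) (XT.lf (nat_lit 76) (nat_lit 1456793698) (nat_lit 0) (nat_lit 2216813495) (nat_lit 76) (nat_lit 2216813495) (nat_lit 152) (nat_lit 3) (nat_lit 151) (nat_lit 1) (nat_lit 152) (nat_lit 1) (nat_lit 350) (nat_lit 387) (nat_lit 283)) (XT.lf (nat_lit 152) (nat_lit 5328990806) (nat_lit 0) (nat_lit 233493025) (nat_lit 76) (nat_lit 233493025) (nat_lit 151) (nat_lit 1) (nat_lit 149) (nat_lit 1) (nat_lit 150) (nat_lit 1) (nat_lit 351) (nat_lit 387) (nat_lit 282))))) (XT.nd (nat_lit 234) (nat_lit 228) (nat_lit 0) (XT.nd (nat_lit 78) (nat_lit 228) (nat_lit 0) (XT.lf (nat_lit 0) (nat_lit 1681417857) (nat_lit 0) (nat_lit 2337951533) (nat_lit 152) (nat_lit 1681417857) (nat_lit 149) (nat_lit 3) (nat_lit 149) (nat_lit 1) (nat_lit 151) (nat_lit 1) (nat_lit 352) (nat_lit 387) (nat_lit 281)) (XT.nd (nat_lit 78) (nat_lit 152) (nat_lit 0) (XT.lf (nat_lit 76) (nat_lit 1452598160) (nat_lit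 0) (nat_lit 2077868328) (nat_lit 76) (nat_lit 2077868328) (nat_lit 149) (nat_lit 3) (nat_lit 148) (nat_lit 1) (nat_lit 149) (nat_lit 1) (nat_lit 353) (nat_lit 387) (nat_lit 280)) (XT.lf (nat_lit 152) (nat_lit 5134345521) (nat_lit 0) (nat_lit 192095289) (nat_lit 76) (nat_lit 192095289) (nat_lit 148) (nat_lit 1) (nat_lit 146) (nat_lit 1) (nat_lit 147) (nat_lit 1) (nat_lit 354) (nat_lit 387) (nat_lit 279)))) (XT.nd (nat_lit 156) (nat_lit 152) (nat_lit 0) (XT.nd (nat_lit 78) (nat_lit 76) (nat_lit 0) (XT.lf (nat_lit 0) (nat_lit 1629264533) (nat_lit 0) (nat_lit 2169396413) (nat_lit 152) (nat_lit 1629264533) (nat_lit 146) (nat_lit 3) (nat_lit 146) (nat_lit 1) (nat_lit 148) (nat_lit 1) (nat_lit 355) (nat_lit 387) (nat_lit 278)) (XT.lf (nat_lit 76) (nat_lit 1437046939) (nat_lit 0) (nat_lit 1951458253) (nat_lit 76) (nat_lit 1951458253) (nat_lit 146) (nat_lit 3) (nat_lit 145) (nat_lit 1) (nat_lit 146) (nat_lit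 1) (nat_lit 356) (nat_lit 387) (nat_lit 277))) (XT.nd (nat_lit 78) (nat_lit 0) (nat_lit 0) (XT.lf (nat_lit 152) (nat_lit 4938487906) (nat_lit 0) (nat_lit 158037270) (nat_lit 76) (nat_lit 158037270) (nat_lit 145) (nat_lit 1) (nat_lit 143) (nat_lit 1) (nat_lit 144) (nat_lit 1) (nat_lit 357) (nat_lit 387) (nat_lit 276)) (XT.lf (nat_lit 0) (nat_lit 1574645583) (nat_lit 0) (nat_lit 2019013417) (nat_lit 152) (nat_lit 1574645583) (nat_lit 143) (nat_lit 3) (nat_lit 143) (nat_lit 1) (nat_lit 145) (nat_lit 1) (nat_lit 358) (nat_lit 387) (nat_lit 275))))))) (XT.nd (nat_lit 936) (nat_lit 988) (nat_lit 0) (XT.nd (nat_lit 468) (nat_lit 456) (nat_lit 0) (XT.nd (nat_lit 234) (nat_lit 228) (nat_lit 0) (XT.nd (nat_lit 78) (nat_lit 152) (nat_lit 0) (XT.lf (nat_lit 76) (nat_lit 1412729537) (nat_lit 0) (nat_lit 1835936999) (nat_lit 76) (nat_lit 1835936999) (nat_lit 143) (nat_lit 3) (nat_lit 142) (nat_lit 1) (nat_lit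 143) (nat_lit 1) (nat_lit 359) (nat_lit 387) (nat_lit 274)) (XT.nd (nat_lit 78) (nat_lit 0) (nat_lit 0) (XT.lf (nat_lit 152) (nat_lit 4743333974) (nat_lit 0) (nat_lit 130017653) (nat_lit 76) (nat_lit 130017653) (nat_lit 142) (nat_lit 1) (nat_lit 140) (nat_lit 1) (nat_lit 141) (nat_lit 1) (nat_lit 360) (nat_lit 387) (nat_lit 273)) (XT.lf (nat_lit 0) (nat_lit 1518555884) (nat_lit 0) (nat_lit 1884138401) (nat_lit 152) (nat_lit 1518555884) (nat_lit 140) (nat_lit 3) (nat_lit 140) (nat_lit 1) (nat_lit 142) (nat_lit 1) (nat_lit 361) (nat_lit 387) (nat_lit 272)))) (XT.nd (nat_lit 78) (nat_lit 152) (nat_lit 0) (XT.lf (nat_lit 76) (nat_lit 1381748910) (nat_lit 0) (nat_lit 1729922736) (nat_lit 76) (nat_lit 1729922736) (nat_lit 140) (nat_lit 3) (nat_lit 139) (nat_lit 1) (nat_lit 140) (nat_lit 1) (nat_lit 362) (nat_lit 387) (nat_lit 271)) (XT.nd (nat_lit 78) (nat_lit 0) (nat_lit 0) (XT.lf (nat_lit 152) (nat_lit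 4550379030) (nat_lit 0) (nat_lit 106965845) (nat_lit 76) (nat_lit 106965845) (nat_lit 139) (nat_lit 1) (nat_lit 137) (nat_lit 1) (nat_lit 138) (nat_lit 1) (nat_lit 363) (nat_lit 387) (nat_lit 270)) (XT.lf (nat_lit 0) (nat_lit 1461787366) (nat_lit 0) (nat_lit 1762553008) (nat_lit 152) (nat_lit 1461787366) (nat_lit 137) (nat_lit 3) (nat_lit 137) (nat_lit 1) (nat_lit 139) (nat_lit 1) (nat_lit 364) (nat_lit 387) (nat_lit 269))))) (XT.nd (nat_lit 234) (nat_lit 228) (nat_lit 0) (XT.nd (nat_lit 78) (nat_lit 152) (nat_lit 0) (XT.lf (nat_lit 76) (nat_lit 1345809032) (nat_lit 0) (nat_lit 1632252500) (nat_lit 76) (nat_lit 1632252500) (nat_lit 137) (nat_lit 3) (nat_lit 136) (nat_lit 1) (nat_lit 137) (nat_lit 1) (nat_lit 365) (nat_lit 387) (nat_lit 268)) (XT.nd (nat_lit 78) (nat_lit 0) (nat_lit 0) (XT.lf (nat_lit 152) (nat_lit 4360776118) (nat_lit 0) (nat_lit 88001065) (nat_lit 76) (nat_lit 88001065) (nat_lit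 136) (nat_lit 1) (nat_lit 134) (nat_lit 1) (nat_lit 135) (nat_lit 1) (nat_lit 366) (nat_lit 387) (nat_lit 267)) (XT.lf (nat_lit 0) (nat_lit 1404966257) (nat_lit 0) (nat_lit 1652406895) (nat_lit 152) (nat_lit 1404966257) (nat_lit 134) (nat_lit 3) (nat_lit 134) (nat_lit 1) (nat_lit 136) (nat_lit 1) (nat_lit 367) (nat_lit 387) (nat_lit 266)))) (XT.nd (nat_lit 78) (nat_lit 152) (nat_lit 0) (XT.lf (nat_lit 76) (nat_lit 1306286882) (nat_lit 0) (nat_lit 1541944632) (nat_lit 76) (nat_lit 1541944632) (nat_lit 134) (nat_lit 3) (nat_lit 133) (nat_lit 1) (nat_lit 134) (nat_lit 1) (nat_lit 368) (nat_lit 387) (nat_lit 265)) (XT.nd (nat_lit 78) (nat_lit 0) (nat_lit 0) (XT.lf (nat_lit 152) (nat_lit 4175400380) (nat_lit 0) (nat_lit 72398694) (nat_lit 76) (nat_lit 72398694) (nat_lit 133) (nat_lit 1) (nat_lit 131) (nat_lit 1) (nat_lit 132) (nat_lit 1) (nat_lit 369) (nat_lit 387) (nat_lit 264)) (XT.lf (nat_lit 0)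 (nat_lit 1348583668) (nat_lit 0) (nat_lit 1552153693) (nat_lit 152) (nat_lit 1348583668) (nat_lit 131) (nat_lit 3) (nat_lit 131) (nat_lit 1) (nat_lit 133) (nat_lit 1) (nat_lit 370) (nat_lit 387) (nat_lit 263)))))) (XT.nd (nat_lit 468) (nat_lit 532) (nat_lit 0) (XT.nd (nat_lit 234) (nat_lit 228) (nat_lit 0) (XT.nd (nat_lit 78) (nat_lit 152) (nat_lit 0) (XT.lf (nat_lit 76) (nat_lit 1264291604) (nat_lit 0) (nat_lit 1458167818) (nat_lit 76) (nat_lit 1458167818) (nat_lit 131) (nat_lit 3) (nat_lit 130) (nat_lit 1) (nat_lit 131) (nat_lit 1) (nat_lit 371) (nat_lit 387) (nat_lit 262)) (XT.nd (nat_lit 78) (nat_lit 0) (nat_lit 0) (XT.lf (nat_lit 152) (nat_lit 3994901822) (nat_lit 0) (nat_lit 59562585) (nat_lit 76) (nat_lit 59562585) (nat_lit 130) (nat_lit 1) (nat_lit 128) (nat_lit 1) (nat_lit 129) (nat_lit 1) (nat_lit 372) (nat_lit 387) (nat_lit 261)) (XT.lf (nat_lit 0) (nat_lit 1293020693) (nat_lit 0) (nat_lit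 1460498256) (nat_lit 152) (nat_lit 1293020693) (nat_lit 128) (nat_lit 3) (nat_lit 128) (nat_lit 1) (nat_lit 130) (nat_lit 1) (nat_lit 373) (nat_lit 387) (nat_lit 260)))) (XT.nd (nat_lit 78) (nat_lit 152) (nat_lit 0) (XT.lf (nat_lit 76) (nat_lit 1220713120) (nat_lit 0) (nat_lit 1380215561) (nat_lit 76) (nat_lit 1380215561) (nat_lit 128) (nat_lit 3) (nat_lit 127) (nat_lit 1) (nat_lit 128) (nat_lit 1) (nat_lit 374) (nat_lit 387) (nat_lit 259)) (XT.nd (nat_lit 78) (nat_lit 0) (nat_lit 0) (XT.lf (nat_lit 152) (nat_lit 3819748563) (nat_lit 0) (nat_lit 49002286) (nat_lit 76) (nat_lit 49002286) (nat_lit 127) (nat_lit 1) (nat_lit 125) (nat_lit 1) (nat_lit 126) (nat_lit 1) (nat_lit 375) (nat_lit 387) (nat_lit 258)) (XT.lf (nat_lit 0) (nat_lit 1238569012) (nat_lit 0) (nat_lit 1376353218) (nat_lit 152) (nat_lit 1238569012) (nat_lit 125) (nat_lit 3) (nat_lit 125) (nat_lit 1) (nat_lit 127) (nat_lit 1) (nat_lit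 376) (nat_lit 387) (nat_lit 257))))) (XT.nd (nat_lit 234) (nat_lit 304) (nat_lit 0) (XT.nd (nat_lit 78) (nat_lit 152) (nat_lit 0) (XT.lf (nat_lit 76) (nat_lit 1176262075) (nat_lit 0) (nat_lit 1307485128) (nat_lit 76) (nat_lit 1307485128) (nat_lit 125) (nat_lit 3) (nat_lit 124) (nat_lit 1) (nat_lit 125) (nat_lit 1) (nat_lit 377) (nat_lit 387) (nat_lit 256)) (XT.nd (nat_lit 78) (nat_lit 0) (nat_lit 0) (XT.lf (nat_lit 152) (nat_lit 3650262261) (nat_lit 0) (nat_lit 40314302) (nat_lit 76) (nat_lit 40314302) (nat_lit 124) (nat_lit 1) (nat_lit 122) (nat_lit 1) (nat_lit 123) (nat_lit 1) (nat_lit 378) (nat_lit 387) (nat_lit 255)) (XT.lf (nat_lit 0) (nat_lit 1185447780) (nat_lit 0) (nat_lit 1298803187) (nat_lit 152) (nat_lit 1185447780) (nat_lit 122) (nat_lit 3) (nat_lit 122) (nat_lit 1) (nat_lit 124) (nat_lit 1) (nat_lit 379) (nat_lit 387) (nat_lit 254)))) (XT.nd (nat_lit 156) (nat_lit 76) (nat_lit 0) (XT.nd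 (nat_lit 78) (nat_lit 152) (nat_lit 0) (XT.lf (nat_lit 76) (nat_lit 1131502644) (nat_lit 0) (nat_lit 1239460175) (nat_lit 76) (nat_lit 1239460175) (nat_lit 122) (nat_lit 3) (nat_lit 121) (nat_lit 1) (nat_lit 122) (nat_lit 1) (nat_lit 380) (nat_lit 387) (nat_lit 253)) (XT.lf (nat_lit 152) (nat_lit 3486647096) (nat_lit 0) (nat_lit 33166676) (nat_lit 76) (nat_lit 33166676) (nat_lit 121) (nat_lit 1) (nat_lit 119) (nat_lit 1) (nat_lit 120) (nat_lit 1) (nat_lit 381) (nat_lit 387) (nat_lit 252))) (XT.nd (nat_lit 78) (nat_lit 76) (nat_lit 0) (XT.lf (nat_lit 0) (nat_lit 1133817478) (nat_lit 0) (nat_lit 1227075252) (nat_lit 152) (nat_lit 1133817478) (nat_lit 119) (nat_lit 3) (nat_lit 119) (nat_lit 1) (nat_lit 121) (nat_lit 1) (nat_lit 382) (nat_lit 387) (nat_lit 251)) (XT.lf (nat_lit 76) (nat_lit 1086879477) (nat_lit 0) (nat_lit 1175696405) (nat_lit 76) (nat_lit 1175696405) (nat_lit 119) (nat_lit 3) (nat_lit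 118) (nat_lit 1) (nat_lit 119) (nat_lit 1) (nat_lit 383) (nat_lit 387) (nat_lit 250))))))))
noncomputable def ec203 : XT := (XT.nd (nat_lit 1950) (nat_lit 1900) (nat_lit 0) (XT.nd (nat_lit 936) (nat_lit 1064) (nat_lit 0) (XT.nd (nat_lit 468) (nat_lit 456) (nat_lit 0) (XT.nd (nat_lit 234) (nat_lit 228) (nat_lit 0) (XT.nd (nat_lit 78) (nat_lit 76) (nat_lit 0) (XT.lf (nat_lit 152) (nat_lit 3329013480) (nat_lit 0) (nat_lit 27286306) (nat_lit 76) (nat_lit 27286306) (nat_lit 118) (nat_lit 1) (nat_lit 116) (nat_lit 1) (nat_lit 117) (nat_lit 1) (nat_lit 384) (nat_lit 387) (nat_lit 249)) (XT.nd (nat_lit 78) (nat_lit 76) (nat_lit 0) (XT.lf (nat_lit 0) (nat_lit 1083791260) (nat_lit 0) (nat_lit 1160514661) (nat_lit 152) (nat_lit 1083791260) (nat_lit 116) (nat_lit 3) (nat_lit 116) (nat_lit 1) (nat_lit 118) (nat_lit 1) (nat_lit 385) (nat_lit 387) (nat_lit 248)) (XT.lf (nat_lit 76) (nat_lit 1042739818) (nat_lit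 0) (nat_lit 1115809724) (nat_lit 76) (nat_lit 1115809724) (nat_lit 116) (nat_lit 3) (nat_lit 115) (nat_lit 1) (nat_lit 116) (nat_lit 1) (nat_lit 386) (nat_lit 387) (nat_lit 247)))) (XT.nd (nat_lit 78) (nat_lit 76) (nat_lit 0) (XT.lf (nat_lit 152) (nat_lit 3177397424) (nat_lit 0) (nat_lit 22448511) (nat_lit 76) (nat_lit 22448511) (nat_lit 115) (nat_lit 1) (nat_lit 113) (nat_lit 1) (nat_lit 114) (nat_lit 1) (nat_lit 387) (nat_lit 387) (nat_lit 246)) (XT.nd (nat_lit 78) (nat_lit 76) (nat_lit 0) (XT.lf (nat_lit 0) (nat_lit 1035444242) (nat_lit 0) (nat_lit 1098564774) (nat_lit 152) (nat_lit 1035444242) (nat_lit 113) (nat_lit 3) (nat_lit 113) (nat_lit 1) (nat_lit 115) (nat_lit 1) (nat_lit 388) (nat_lit 387) (nat_lit 245)) (XT.lf (nat_lit 76) (nat_lit 999351660) (nat_lit 0) (nat_lit 1059466452) (nat_lit 76) (nat_lit 1059466452) (nat_lit 113) (nat_lit 3) (nat_lit 112) (nat_lit 1) (nat_lit 113) (nat_lit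 1) (nat_lit 389) (nat_lit 387) (nat_lit 244))))) (XT.nd (nat_lit 234) (nat_lit 228) (nat_lit 0) (XT.nd (nat_lit 78) (nat_lit 76) (nat_lit 0) (XT.lf (nat_lit 152) (nat_lit 3031776340) (nat_lit 0) (nat_lit 18468446) (nat_lit 76) (nat_lit 18468446) (nat_lit 112) (nat_lit 1) (nat_lit 110) (nat_lit 1) (nat_lit 111) (nat_lit 1) (nat_lit 390) (nat_lit 387) (nat_lit 243)) (XT.nd (nat_lit 78) (nat_lit 76) (nat_lit 0) (XT.lf (nat_lit 0) (nat_lit 988821103) (nat_lit 0) (nat_lit 1040750521) (nat_lit 152) (nat_lit 988821103) (nat_lit 110) (nat_lit 3) (nat_lit 110) (nat_lit 1) (nat_lit 112) (nat_lit 1) (nat_lit 391) (nat_lit 387) (nat_lit 242)) (XT.lf (nat_lit 76) (nat_lit 956918637) (nat_lit 0) (nat_lit 1006375226) (nat_lit 76) (nat_lit 1006375226) (nat_lit 110) (nat_lit 3) (nat_lit 109) (nat_lit 1) (nat_lit 110) (nat_lit 1) (nat_lit 392) (nat_lit 387) (nat_lit 241)))) (XT.nd (nat_lit 78) (nat_lit 76) (nat_lit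 0) (XT.lf (nat_lit 152) (nat_lit 2892081912) (nat_lit 0) (nat_lit 15194036) (nat_lit 76) (nat_lit 15194036) (nat_lit 109) (nat_lit 1) (nat_lit 107) (nat_lit 1) (nat_lit 108) (nat_lit 1) (nat_lit 393) (nat_lit 387) (nat_lit 240)) (XT.nd (nat_lit 78) (nat_lit 76) (nat_lit 0) (XT.lf (nat_lit 0) (nat_lit 943942294) (nat_lit 0) (nat_lit 986664755) (nat_lit 152) (nat_lit 943942294) (nat_lit 107) (nat_lit 3) (nat_lit 107) (nat_lit 1) (nat_lit 109) (nat_lit 1) (nat_lit 394) (nat_lit 387) (nat_lit 239)) (XT.lf (nat_lit 76) (nat_lit 915592239) (nat_lit 0) (nat_lit 956280296) (nat_lit 76) (nat_lit 956280296) (nat_lit 107) (nat_lit 3) (nat_lit 106) (nat_lit 1) (nat_lit 107) (nat_lit 1) (nat_lit 395) (nat_lit 387) (nat_lit 238)))))) (XT.nd (nat_lit 468) (nat_lit 608) (nat_lit 0) (XT.nd (nat_lit 234) (nat_lit 228) (nat_lit 0) (XT.nd (nat_lit 78) (nat_lit 76) (nat_lit 0) (XT.lf (nat_lit 152) (nat_lit 2758210579)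 (nat_lit 0) (nat_lit 12500171) (nat_lit 76) (nat_lit 12500171) (nat_lit 106) (nat_lit 1) (nat_lit 104) (nat_lit 1) (nat_lit 105) (nat_lit 1) (nat_lit 396) (nat_lit 387) (nat_lit 237)) (XT.nd (nat_lit 78) (nat_lit 76) (nat_lit 0) (XT.lf (nat_lit 0) (nat_lit 900809115) (nat_lit 0) (nat_lit 935956989) (nat_lit 152) (nat_lit 900809115) (nat_lit 104) (nat_lit 3) (nat_lit 104) (nat_lit 1) (nat_lit 106) (nat_lit 1) (nat_lit 397) (nat_lit 387) (nat_lit 236)) (XT.lf (nat_lit 76) (nat_lit 875481818) (nat_lit 0) (nat_lit 908955983) (nat_lit 76) (nat_lit 908955983) (nat_lit 104) (nat_lit 3) (nat_lit 103) (nat_lit 1) (nat_lit 104) (nat_lit 1) (nat_lit 398) (nat_lit 387) (nat_lit 235)))) (XT.nd (nat_lit 78) (nat_lit 76) (nat_lit 0) (XT.lf (nat_lit 152) (nat_lit 2630032034) (nat_lit 0) (nat_lit 10283921) (nat_lit 76) (nat_lit 10283921) (nat_lit 103) (nat_lit 1) (nat_lit 101) (nat_lit 1) (nat_lit 102) (nat_lit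 1) (nat_lit 399) (nat_lit 387) (nat_lit 234)) (XT.nd (nat_lit 78) (nat_lit 76) (nat_lit 0) (XT.lf (nat_lit 0) (nat_lit 859407844) (nat_lit 0) (nat_lit 888324087) (nat_lit 152) (nat_lit 859407844) (nat_lit 101) (nat_lit 3) (nat_lit 101) (nat_lit 1) (nat_lit 103) (nat_lit 1) (nat_lit 400) (nat_lit 387) (nat_lit 233)) (XT.lf (nat_lit 76) (nat_lit 836662788) (nat_lit 0) (nat_lit 864202067) (nat_lit 76) (nat_lit 864202067) (nat_lit 101) (nat_lit 3) (nat_lit 100) (nat_lit 1) (nat_lit 101) (nat_lit 1) (nat_lit 401) (nat_lit 387) (nat_lit 232))))) (XT.nd (nat_lit 234) (nat_lit 380) (nat_lit 0) (XT.nd (nat_lit 78) (nat_lit 76) (nat_lit 0) (XT.lf (nat_lit 152) (nat_lit 2507396115) (nat_lit 0) (nat_lit 8460608) (nat_lit 76) (nat_lit 8460608) (nat_lit 100) (nat_lit 1) (nat_lit 98) (nat_lit 1) (nat_lit 99) (nat_lit 1) (nat_lit 402) (nat_lit 387) (nat_lit 231)) (XT.nd (nat_lit 78) (nat_lit 76) (nat_lit 0) (XT.lf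 (nat_lit 0) (nat_lit 819713108) (nat_lit 0) (nat_lit 843502573) (nat_lit 152) (nat_lit 819713108) (nat_lit 98) (nat_lit 3) (nat_lit 98) (nat_lit 1) (nat_lit 100) (nat_lit 1) (nat_lit 403) (nat_lit 387) (nat_lit 230)) (XT.lf (nat_lit 76) (nat_lit 799183337) (nat_lit 0) (nat_lit 821839971) (nat_lit 76) (nat_lit 821839971) (nat_lit 98) (nat_lit 3) (nat_lit 97) (nat_lit 1) (nat_lit 98) (nat_lit 1) (nat_lit 404) (nat_lit 387) (nat_lit 229)))) (XT.nd (nat_lit 156) (nat_lit 228) (nat_lit 0) (XT.nd (nat_lit 78) (nat_lit 0) (nat_lit 0) (XT.lf (nat_lit 152) (nat_lit 2390138372) (nat_lit 0) (nat_lit 6960563) (nat_lit 76) (nat_lit 6960563) (nat_lit 97) (nat_lit 1) (nat_lit 95) (nat_lit 1) (nat_lit 96) (nat_lit 1) (nat_lit 405) (nat_lit 387) (nat_lit 228)) (XT.lf (nat_lit 0) (nat_lit 781690620) (nat_lit 0) (nat_lit 801262271) (nat_lit 152) (nat_lit 781690620) (nat_lit 95) (nat_lit 3) (nat_lit 95) (nat_lit 1)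 (nat_lit 97) (nat_lit 1) (nat_lit 406) (nat_lit 387) (nat_lit 227))) (XT.nd (nat_lit 78) (nat_lit 152) (nat_lit 0) (XT.lf (nat_lit 76) (nat_lit 763069910) (nat_lit 0) (nat_lit 781709578) (nat_lit 76) (nat_lit 781709578) (nat_lit 95) (nat_lit 3) (nat_lit 94) (nat_lit 1) (nat_lit 95) (nat_lit 1) (nat_lit 407) (nat_lit 387) (nat_lit 226)) (XT.lf (nat_lit 152) (nat_lit 2278084547) (nat_lit 0) (nat_lit 5726472) (nat_lit 76) (nat_lit 5726472) (nat_lit 94) (nat_lit 1) (nat_lit 92) (nat_lit 1) (nat_lit 93) (nat_lit 1) (nat_lit 408) (nat_lit 387) (nat_lit 225))))))) (XT.nd (nat_lit 1014) (nat_lit 988) (nat_lit 0) (XT.nd (nat_lit 468) (nat_lit 456) (nat_lit 0) (XT.nd (nat_lit 234) (nat_lit 228) (nat_lit 0) (XT.nd (nat_lit 78) (nat_lit 228) (nat_lit 0) (XT.lf (nat_lit 0) (nat_lit 745299395) (nat_lit 0) (nat_lit 761401041) (nat_lit 152) (nat_lit 745299395) (nat_lit 92) (nat_lit 3) (nat_lit 92) (nat_lit 1)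 (nat_lit 94) (nat_lit 1) (nat_lit 409) (nat_lit 387) (nat_lit 224)) (XT.nd (nat_lit 78) (nat_lit 152) (nat_lit 0) (XT.lf (nat_lit 76) (nat_lit 728331695) (nat_lit 0) (nat_lit 743666596) (nat_lit 76) (nat_lit 743666596) (nat_lit 92) (nat_lit 3) (nat_lit 91) (nat_lit 1) (nat_lit 92) (nat_lit 1) (nat_lit 410) (nat_lit 387) (nat_lit 223)) (XT.lf (nat_lit 152) (nat_lit 2171054169) (nat_lit 0) (nat_lit 4711183) (nat_lit 76) (nat_lit 4711183) (nat_lit 91) (nat_lit 1) (nat_lit 89) (nat_lit 1) (nat_lit 90) (nat_lit 1) (nat_lit 411) (nat_lit 387) (nat_lit 222)))) (XT.nd (nat_lit 78) (nat_lit 228) (nat_lit 0) (XT.lf (nat_lit 0) (nat_lit 710493550) (nat_lit 0) (nat_lit 723740414) (nat_lit 152) (nat_lit 710493550) (nat_lit 89) (nat_lit 3) (nat_lit 89) (nat_lit 1) (nat_lit 91) (nat_lit 1) (nat_lit 412) (nat_lit 387) (nat_lit 221)) (XT.nd (nat_lit 78) (nat_lit 152) (nat_lit 0) (XT.lf (nat_lit 76) (nat_lit 694964280)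 (nat_lit 0) (nat_lit 707580341) (nat_lit 76) (nat_lit 707580341) (nat_lit 89) (nat_lit 3) (nat_lit 88) (nat_lit 1) (nat_lit 89) (nat_lit 1) (nat_lit 413) (nat_lit 387) (nat_lit 220)) (XT.lf (nat_lit 152) (nat_lit 2068863423) (nat_lit 0) (nat_lit 3875902) (nat_lit 76) (nat_lit 3875902) (nat_lit 88) (nat_lit 1) (nat_lit 86) (nat_lit 1) (nat_lit 87) (nat_lit 1) (nat_lit 414) (nat_lit 387) (nat_lit 219))))) (XT.nd (nat_lit 234) (nat_lit 228) (nat_lit 0) (XT.nd (nat_lit 78) (nat_lit 228) (nat_lit 0) (XT.lf (nat_lit 0) (nat_lit 677223748) (nat_lit 0) (nat_lit 688121976) (nat_lit 152) (nat_lit 677223748) (nat_lit 86) (nat_lit 3) (nat_lit 86) (nat_lit 1) (nat_lit 88) (nat_lit 1) (nat_lit 415) (nat_lit 387) (nat_lit 218)) (XT.nd (nat_lit 78) (nat_lit 152) (nat_lit 0) (XT.lf (nat_lit 76) (nat_lit 662952634) (nat_lit 0) (nat_lit 673331899) (nat_lit 76) (nat_lit 673331899) (nat_lit 86) (nat_lit 3) (nat_lit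 85) (nat_lit 1) (nat_lit 86) (nat_lit 1) (nat_lit 416) (nat_lit 387) (nat_lit 217)) (XT.lf (nat_lit 152) (nat_lit 1971327425) (nat_lit 0) (nat_lit 3188714) (nat_lit 76) (nat_lit 3188714) (nat_lit 85) (nat_lit 1) (nat_lit 83) (nat_lit 1) (nat_lit 84) (nat_lit 1) (nat_lit 417) (nat_lit 387) (nat_lit 216)))) (XT.nd (nat_lit 156) (nat_lit 152) (nat_lit 0) (XT.nd (nat_lit 78) (nat_lit 76) (nat_lit 0) (XT.lf (nat_lit 0) (nat_lit 645438364) (nat_lit 0) (nat_lit 654404363) (nat_lit 152) (nat_lit 645438364) (nat_lit 83) (nat_lit 3) (nat_lit 83) (nat_lit 1) (nat_lit 85) (nat_lit 1) (nat_lit 418) (nat_lit 387) (nat_lit 215)) (XT.lf (nat_lit 76) (nat_lit 632273536) (nat_lit 0) (nat_lit 640812583) (nat_lit 76) (nat_lit 640812583) (nat_lit 83) (nat_lit 3) (nat_lit 82) (nat_lit 1) (nat_lit 83) (nat_lit 1) (nat_lit 419) (nat_lit 387) (nat_lit 214))) (XT.nd (nat_lit 78) (nat_lit 0) (nat_lit 0) (XT.lf (nat_lit 152)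 (nat_lit 1878262014) (nat_lit 0) (nat_lit 2623363) (nat_lit 76) (nat_lit 2623363) (nat_lit 82) (nat_lit 1) (nat_lit 80) (nat_lit 1) (nat_lit 81) (nat_lit 1) (nat_lit 420) (nat_lit 387) (nat_lit 213)) (XT.lf (nat_lit 0) (nat_lit 615084416) (nat_lit 0) (nat_lit 622460765) (nat_lit 152) (nat_lit 615084416) (nat_lit 80) (nat_lit 3) (nat_lit 80) (nat_lit 1) (nat_lit 82) (nat_lit 1) (nat_lit 421) (nat_lit 387) (nat_lit 212)))))) (XT.nd (nat_lit 468) (nat_lit 532) (nat_lit 0) (XT.nd (nat_lit 234) (nat_lit 228) (nat_lit 0) (XT.nd (nat_lit 78) (nat_lit 152) (nat_lit 0) (XT.lf (nat_lit 76) (nat_lit 602897540) (nat_lit 0) (nat_lit 609922635) (nat_lit 76) (nat_lit 609922635) (nat_lit 80) (nat_lit 3) (nat_lit 79) (nat_lit 1) (nat_lit 80) (nat_lit 1) (nat_lit 422) (nat_lit 387) (nat_lit 211)) (XT.nd (nat_lit 78) (nat_lit 0) (nat_lit 0) (XT.lf (nat_lit 152) (nat_lit 1789485154) (nat_lit 0) (nat_lit 2158247) (nat_lit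 76) (nat_lit 2158247) (nat_lit 79) (nat_lit 1) (nat_lit 77) (nat_lit 1) (nat_lit 78) (nat_lit 1) (nat_lit 423) (nat_lit 387) (nat_lit 210)) (XT.lf (nat_lit 0) (nat_lit 586108306) (nat_lit 0) (nat_lit 592176847) (nat_lit 152) (nat_lit 586108306) (nat_lit 77) (nat_lit 3) (nat_lit 77) (nat_lit 1) (nat_lit 79) (nat_lit 1) (nat_lit 424) (nat_lit 387) (nat_lit 209)))) (XT.nd (nat_lit 78) (nat_lit 152) (nat_lit 0) (XT.lf (nat_lit 76) (nat_lit 574790571) (nat_lit 0) (nat_lit 580570134) (nat_lit 76) (nat_lit 580570134) (nat_lit 77) (nat_lit 3) (nat_lit 76) (nat_lit 1) (nat_lit 77) (nat_lit 1) (nat_lit 425) (nat_lit 387) (nat_lit 208)) (XT.nd (nat_lit 78) (nat_lit 0) (nat_lit 0) (XT.lf (nat_lit 152) (nat_lit 1704818004) (nat_lit 0) (nat_lit 1775595) (nat_lit 76) (nat_lit 1775595) (nat_lit 76) (nat_lit 1) (nat_lit 74) (nat_lit 1) (nat_lit 75) (nat_lit 1) (nat_lit 426) (nat_lit 387) (nat_lit 207)) (XT.lf (nat_lit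 0) (nat_lit 558456406) (nat_lit 0) (nat_lit 563449010) (nat_lit 152) (nat_lit 558456406) (nat_lit 74) (nat_lit 3) (nat_lit 74) (nat_lit 1) (nat_lit 76) (nat_lit 1) (nat_lit 427) (nat_lit 387) (nat_lit 206))))) (XT.nd (nat_lit 234) (nat_lit 304) (nat_lit 0) (XT.nd (nat_lit 78) (nat_lit 152) (nat_lit 0) (XT.lf (nat_lit 76) (nat_lit 547915218) (nat_lit 0) (nat_lit 552670079) (nat_lit 76) (nat_lit 552670079) (nat_lit 74) (nat_lit 3) (nat_lit 73) (nat_lit 1) (nat_lit 74) (nat_lit 1) (nat_lit 428) (nat_lit 387) (nat_lit 205)) (XT.nd (nat_lit 78) (nat_lit 0) (nat_lit 0) (XT.lf (nat_lit 152) (nat_lit 1624085743) (nat_lit 0) (nat_lit 1460786) (nat_lit 76) (nat_lit 1460786) (nat_lit 73) (nat_lit 1) (nat_lit 71) (nat_lit 1) (nat_lit 72) (nat_lit 1) (nat_lit 429) (nat_lit 387) (nat_lit 204)) (XT.lf (nat_lit 0) (nat_lit 532075517) (nat_lit 0) (nat_lit 536182944) (nat_lit 152) (nat_lit 532075517) (nat_lit 71)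 (nat_lit 3) (nat_lit 71) (nat_lit 1) (nat_lit 73) (nat_lit 1) (nat_lit 430) (nat_lit 387) (nat_lit 203)))) (XT.nd (nat_lit 156) (nat_lit 76) (nat_lit 0) (XT.nd (nat_lit 78) (nat_lit 152) (nat_lit 0) (XT.lf (nat_lit 76) (nat_lit 522231771) (nat_lit 0) (nat_lit 526143607) (nat_lit 76) (nat_lit 526143607) (nat_lit 71) (nat_lit 3) (nat_lit 70) (nat_lit 1) (nat_lit 71) (nat_lit 1) (nat_lit 431) (nat_lit 387) (nat_lit 202)) (XT.lf (nat_lit 152) (nat_lit 1547118171) (nat_lit 0) (nat_lit 1201792) (nat_lit 76) (nat_lit 1201792) (nat_lit 70) (nat_lit 1) (nat_lit 68) (nat_lit 1) (nat_lit 69) (nat_lit 1) (nat_lit 432) (nat_lit 387) (nat_lit 201))) (XT.nd (nat_lit 78) (nat_lit 76) (nat_lit 0) (XT.lf (nat_lit 0) (nat_lit 506913225) (nat_lit 0) (nat_lit 510292416) (nat_lit 152) (nat_lit 506913225) (nat_lit 68) (nat_lit 3) (nat_lit 68) (nat_lit 1) (nat_lit 70) (nat_lit 1) (nat_lit 433) (nat_lit 387) (nat_lit 200))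 (XT.lf (nat_lit 76) (nat_lit 497699051) (nat_lit 0) (nat_lit 500917328) (nat_lit 76) (nat_lit 500917328) (nat_lit 68) (nat_lit 3) (nat_lit 67) (nat_lit 1) (nat_lit 68) (nat_lit 1) (nat_lit 434) (nat_lit 387) (nat_lit 199))))))))
noncomputable def ec204 : XT := (XT.nd (nat_lit 39156) (nat_lit 0) (nat_lit 13148) (XT.nd (nat_lit 936) (nat_lit 152) (nat_lit 0) (XT.nd (nat_lit 468) (nat_lit 456) (nat_lit 0) (XT.nd (nat_lit 234) (nat_lit 228) (nat_lit 0) (XT.nd (nat_lit 78) (nat_lit 76) (nat_lit 0) (XT.lf (nat_lit 152) (nat_lit 1473750149) (nat_lit 0) (nat_lit 988717) (nat_lit 76) (nat_lit 988717) (nat_lit 67) (nat_lit 1) (nat_lit 65) (nat_lit 1) (nat_lit 66) (nat_lit 1) (nat_lit 435) (nat_lit 387) (nat_lit 198)) (XT.nd (nat_lit 78) (nat_lit 76) (nat_lit 0) (XT.lf (nat_lit 0) (nat_lit 482918175) (nat_lit 0) (nat_lit 485698244) (nat_lit 152) (nat_lit 482918175) (nat_lit 65) (nat_lit 3) (nat_lit 65) (nat_lit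 1) (nat_lit 67) (nat_lit 1) (nat_lit 436) (nat_lit 387) (nat_lit 197)) (XT.lf (nat_lit 76) (nat_lit 474275080) (nat_lit 0) (nat_lit 476922765) (nat_lit 76) (nat_lit 476922765) (nat_lit 65) (nat_lit 3) (nat_lit 64) (nat_lit 1) (nat_lit 65) (nat_lit 1) (nat_lit 437) (nat_lit 387) (nat_lit 196)))) (XT.nd (nat_lit 78) (nat_lit 76) (nat_lit 0) (XT.lf (nat_lit 152) (nat_lit 1403821896) (nat_lit 0) (nat_lit 813420) (nat_lit 76) (nat_lit 813420) (nat_lit 64) (nat_lit 1) (nat_lit 62) (nat_lit 1) (nat_lit 63) (nat_lit 1) (nat_lit 438) (nat_lit 387) (nat_lit 195)) (XT.nd (nat_lit 78) (nat_lit 76) (nat_lit 0) (XT.lf (nat_lit 0) (nat_lit 460040273) (nat_lit 0) (nat_lit 462327442) (nat_lit 152) (nat_lit 460040273) (nat_lit 62) (nat_lit 3) (nat_lit 62) (nat_lit 1) (nat_lit 64) (nat_lit 1) (nat_lit 439) (nat_lit 387) (nat_lit 194)) (XT.lf (nat_lit 76) (nat_lit 451917605) (nat_lit 0) (nat_lit 454095862) (nat_lit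 76) (nat_lit 454095862) (nat_lit 62) (nat_lit 3) (nat_lit 61) (nat_lit 1) (nat_lit 62) (nat_lit 1) (nat_lit 440) (nat_lit 387) (nat_lit 193))))) (XT.nd (nat_lit 234) (nat_lit 228) (nat_lit 0) (XT.nd (nat_lit 78) (nat_lit 76) (nat_lit 0) (XT.lf (nat_lit 152) (nat_lit 1337179177) (nat_lit 0) (nat_lit 669203) (nat_lit 76) (nat_lit 669203) (nat_lit 61) (nat_lit 1) (nat_lit 59) (nat_lit 1) (nat_lit 60) (nat_lit 1) (nat_lit 441) (nat_lit 387) (nat_lit 192)) (XT.nd (nat_lit 78) (nat_lit 76) (nat_lit 0) (XT.lf (nat_lit 0) (nat_lit 438230838) (nat_lit 0) (nat_lit 440112498) (nat_lit 152) (nat_lit 438230838) (nat_lit 59) (nat_lit 3) (nat_lit 59) (nat_lit 1) (nat_lit 61) (nat_lit 1) (nat_lit 442) (nat_lit 387) (nat_lit 191)) (XT.lf (nat_lit 76) (nat_lit 430584516) (nat_lit 0) (nat_lit 432376573) (nat_lit 76) (nat_lit 432376573) (nat_lit 59) (nat_lit 3) (nat_lit 58) (nat_lit 1) (nat_lit 59) (nat_lit 1) (nat_lit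 443) (nat_lit 387) (nat_lit 190)))) (XT.nd (nat_lit 78) (nat_lit 76) (nat_lit 0) (XT.lf (nat_lit 152) (nat_lit 1273673409) (nat_lit 0) (nat_lit 550555) (nat_lit 76) (nat_lit 550555) (nat_lit 58) (nat_lit 1) (nat_lit 56) (nat_lit 1) (nat_lit 57) (nat_lit 1) (nat_lit 444) (nat_lit 387) (nat_lit 189)) (XT.nd (nat_lit 78) (nat_lit 76) (nat_lit 0) (XT.lf (nat_lit 0) (nat_lit 417442706) (nat_lit 0) (nat_lit 418990753) (nat_lit 152) (nat_lit 417442706) (nat_lit 56) (nat_lit 3) (nat_lit 56) (nat_lit 1) (nat_lit 58) (nat_lit 1) (nat_lit 445) (nat_lit 387) (nat_lit 188)) (XT.lf (nat_lit 76) (nat_lit 410234169) (nat_lit 0) (nat_lit 411708499) (nat_lit 76) (nat_lit 411708499) (nat_lit 56) (nat_lit 3) (nat_lit 55) (nat_lit 1) (nat_lit 56) (nat_lit 1) (nat_lit 446) (nat_lit 387) (nat_lit 187)))))) (XT.nd (nat_lit 37674) (nat_lit 0) (nat_lit 17784) (XT.nd (nat_lit 37440) (nat_lit 0) (nat_lit 18240) (XT.nd (nat_lit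 37284) (nat_lit 0) (nat_lit 18164) (XT.lf (nat_lit 152) (nat_lit 1213161684) (nat_lit 0) (nat_lit 452943) (nat_lit 76) (nat_lit 452943) (nat_lit 55) (nat_lit 1) (nat_lit 53) (nat_lit 1) (nat_lit 54) (nat_lit 1) (nat_lit 447) (nat_lit 387) (nat_lit 186)) (XT.nd (nat_lit 78) (nat_lit 0) (nat_lit 0) (XT.lf (nat_lit 836) (nat_lit 5589024769) (nat_lit 0) (nat_lit 9923300631) (nat_lit 836) (nat_lit 5589024769) (nat_lit 303) (nat_lit 1) (nat_lit 292) (nat_lit 0) (nat_lit 303) (nat_lit 0) (nat_lit 244) (nat_lit 388) (nat_lit 388)) (XT.lf (nat_lit 836) (nat_lit 21663757768) (nat_lit 76) (nat_lit 9763247395) (nat_lit 0) (nat_lit 9763247395) (nat_lit 303) (nat_lit 1) (nat_lit 293) (nat_lit 1) (nat_lit 292) (nat_lit 0) (nat_lit 245) (nat_lit 388) (nat_lit 387)))) (XT.nd (nat_lit 78) (nat_lit 0) (nat_lit 0) (XT.lf (nat_lit 836) (nat_lit 10324620761) (nat_lit 0) (nat_lit 19559863455) (nat_lit 760) (nat_lit 10324620761)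 (nat_lit 304) (nat_lit 1) (nat_lit 293) (nat_lit 1) (nat_lit 303) (nat_lit 1) (nat_lit 246) (nat_lit 388) (nat_lit 386)) (XT.nd (nat_lit 78) (nat_lit 0) (nat_lit 76) (XT.lf (nat_lit 836) (nat_lit 19367553906) (nat_lit 76) (nat_lit 9946050934) (nat_lit 0) (nat_lit 9946050934) (nat_lit 304) (nat_lit 1) (nat_lit 294) (nat_lit 1) (nat_lit 293) (nat_lit 1) (nat_lit 247) (nat_lit 388) (nat_lit 385)) (XT.lf (nat_lit 836) (nat_lit 8914699074) (nat_lit 0) (nat_lit 20510901198) (nat_lit 760) (nat_lit 8914699074) (nat_lit 305) (nat_lit 1) (nat_lit 294) (nat_lit 1) (nat_lit 304) (nat_lit 1) (nat_lit 248) (nat_lit 388) (nat_lit 384))))) (XT.nd (nat_lit 234) (nat_lit 532) (nat_lit 0) (XT.nd (nat_lit 78) (nat_lit 0) (nat_lit 76) (XT.lf (nat_lit 836) (nat_lit 16033666918) (nat_lit 76) (nat_lit 10707650750) (nat_lit 0) (nat_lit 10707650750) (nat_lit 305) (nat_lit 1) (nat_lit 295) (nat_lit 1) (nat_lit 294) (nat_lit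 1) (nat_lit 249) (nat_lit 388) (nat_lit 383)) (XT.nd (nat_lit 78) (nat_lit 0) (nat_lit 0) (XT.lf (nat_lit 836) (nat_lit 7030299849) (nat_lit 0) (nat_lit 22526965595) (nat_lit 760) (nat_lit 7030299849) (nat_lit 306) (nat_lit 1) (nat_lit 295) (nat_lit 1) (nat_lit 305) (nat_lit 1) (nat_lit 250) (nat_lit 388) (nat_lit 382)) (XT.lf (nat_lit 836) (nat_lit 11818149906) (nat_lit 76) (nat_lit 11965864822) (nat_lit 0) (nat_lit 11965864822) (nat_lit 306) (nat_lit 1) (nat_lit 296) (nat_lit 1) (nat_lit 295) (nat_lit 1) (nat_lit 251) (nat_lit 388) (nat_lit 381)))) (XT.nd (nat_lit 156) (nat_lit 684) (nat_lit 0) (XT.nd (nat_lit 78) (nat_lit 0) (nat_lit 0) (XT.lf (nat_lit 836) (nat_lit 4744371637) (nat_lit 0) (nat_lit 25454114606) (nat_lit 760) (nat_lit 4744371637) (nat_lit 307) (nat_lit 1) (nat_lit 296) (nat_lit 1) (nat_lit 306) (nat_lit 1) (nat_lit 252) (nat_lit 388) (nat_lit 380)) (XT.lf (nat_lit 836) (nat_lit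 6859710534) (nat_lit 76) (nat_lit 13647502635) (nat_lit 0) (nat_lit 13647502635) (nat_lit 307) (nat_lit 1) (nat_lit 297) (nat_lit 1) (nat_lit 296) (nat_lit 1) (nat_lit 253) (nat_lit 388) (nat_lit 379))) (XT.nd (nat_lit 78) (nat_lit 760) (nat_lit 0) (XT.lf (nat_lit 76) (nat_lit 2121707778) (nat_lit 0) (nat_lit 29155333781) (nat_lit 760) (nat_lit 2121707778) (nat_lit 298) (nat_lit 1) (nat_lit 297) (nat_lit 1) (nat_lit 307) (nat_lit 1) (nat_lit 254) (nat_lit 388) (nat_lit 378)) (XT.lf (nat_lit 836) (nat_lit 1281458735) (nat_lit 0) (nat_lit 15687464904) (nat_lit 760) (nat_lit 15687464904) (nat_lit 298) (nat_lit 1) (nat_lit 287) (nat_lit 1) (nat_lit 297) (nat_lit 1) (nat_lit 255) (nat_lit 388) (nat_lit 377))))))) (XT.nd (nat_lit 936) (nat_lit 2052) (nat_lit 0) (XT.nd (nat_lit 468) (nat_lit 1292) (nat_lit 0) (XT.nd (nat_lit 234) (nat_lit 380) (nat_lit 0) (XT.nd (nat_lit 78) (nat_lit 380) (nat_lit 0)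 (XT.lf (nat_lit 532) (nat_lit 30410629630) (nat_lit 0) (nat_lit 767645666) (nat_lit 456) (nat_lit 767645666) (nat_lit 287) (nat_lit 1) (nat_lit 280) (nat_lit 1) (nat_lit 286) (nat_lit 1) (nat_lit 256) (nat_lit 388) (nat_lit 376)) (XT.nd (nat_lit 78) (nat_lit 380) (nat_lit 0) (XT.lf (nat_lit 76) (nat_lit 13295474346) (nat_lit 0) (nat_lit 4653643996) (nat_lit 532) (nat_lit 13295474346) (nat_lit 281) (nat_lit 1) (nat_lit 280) (nat_lit 1) (nat_lit 287) (nat_lit 1) (nat_lit 257) (nat_lit 388) (nat_lit 375)) (XT.lf (nat_lit 456) (nat_lit 22878098550) (nat_lit 0) (nat_lit 3847494111) (nat_lit 380) (nat_lit 3847494111) (nat_lit 281) (nat_lit 1) (nat_lit 275) (nat_lit 1) (nat_lit 280) (nat_lit 1) (nat_lit 258) (nat_lit 388) (nat_lit 374)))) (XT.nd (nat_lit 78) (nat_lit 380) (nat_lit 0) (XT.lf (nat_lit 76) (nat_lit 9483499999) (nat_lit 0) (nat_lit 10948697769) (nat_lit 456) (nat_lit 9483499999) (nat_lit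 276) (nat_lit 1) (nat_lit 275) (nat_lit 1) (nat_lit 281) (nat_lit 1) (nat_lit 259) (nat_lit 388) (nat_lit 373)) (XT.nd (nat_lit 78) (nat_lit 0) (nat_lit 0) (XT.lf (nat_lit 456) (nat_lit 15065552336) (nat_lit 0) (nat_lit 7107825763) (nat_lit 380) (nat_lit 7107825763) (nat_lit 276) (nat_lit 1) (nat_lit 270) (nat_lit 1) (nat_lit 275) (nat_lit 1) (nat_lit 260) (nat_lit 388) (nat_lit 372)) (XT.lf (nat_lit 76) (nat_lit 5551455814) (nat_lit 0) (nat_lit 17562251551) (nat_lit 456) (nat_lit 5551455814) (nat_lit 271) (nat_lit 1) (nat_lit 270) (nat_lit 1) (nat_lit 276) (nat_lit 1) (nat_lit 261) (nat_lit 388) (nat_lit 371))))) (XT.nd (nat_lit 234) (nat_lit 608) (nat_lit 0) (XT.nd (nat_lit 78) (nat_lit 380) (nat_lit 0) (XT.lf (nat_lit 380) (nat_lit 7045705974) (nat_lit 0) (nat_lit 10509631559) (nat_lit 304) (nat_lit 10509631559) (nat_lit 271) (nat_lit 1) (nat_lit 266) (nat_lit 1) (nat_lit 270) (nat_lit 1) (nat_lit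 262) (nat_lit 388) (nat_lit 370)) (XT.nd (nat_lit 78) (nat_lit 380) (nat_lit 0) (XT.lf (nat_lit 76) (nat_lit 1533098606) (nat_lit 0) (nat_lit 24421658303) (nat_lit 380) (nat_lit 1533098606) (nat_lit 267) (nat_lit 1) (nat_lit 266) (nat_lit 1) (nat_lit 271) (nat_lit 1) (nat_lit 263) (nat_lit 388) (nat_lit 369)) (XT.lf (nat_lit 76) (nat_lit 12918329398) (nat_lit 0) (nat_lit 1081935181) (nat_lit 380) (nat_lit 12918329398) (nat_lit 262) (nat_lit 1) (nat_lit 261) (nat_lit 1) (nat_lit 266) (nat_lit 1) (nat_lit 264) (nat_lit 388) (nat_lit 368)))) (XT.nd (nat_lit 78) (nat_lit 304) (nat_lit 0) (XT.lf (nat_lit 380) (nat_lit 21368954066) (nat_lit 0) (nat_lit 2501028623) (nat_lit 304) (nat_lit 2501028623) (nat_lit 262) (nat_lit 1) (nat_lit 257) (nat_lit 1) (nat_lit 261) (nat_lit 1) (nat_lit 265) (nat_lit 388) (nat_lit 367)) (XT.nd (nat_lit 78) (nat_lit 304) (nat_lit 0) (XT.lf (nat_lit 76) (nat_lit 8381843229)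 (nat_lit 0) (nat_lit 9069136092) (nat_lit 380) (nat_lit 8381843229) (nat_lit 258) (nat_lit 1) (nat_lit 257) (nat_lit 1) (nat_lit 262) (nat_lit 1) (nat_lit 266) (nat_lit 388) (nat_lit 366)) (XT.lf (nat_lit 380) (nat_lit 12231440919) (nat_lit 0) (nat_lit 6540927681) (nat_lit 304) (nat_lit 6540927681) (nat_lit 258) (nat_lit 1) (nat_lit 253) (nat_lit 1) (nat_lit 257) (nat_lit 1) (nat_lit 267) (nat_lit 388) (nat_lit 365)))))) (XT.nd (nat_lit 468) (nat_lit 1216) (nat_lit 0) (XT.nd (nat_lit 234) (nat_lit 228) (nat_lit 0) (XT.nd (nat_lit 78) (nat_lit 608) (nat_lit 0) (XT.lf (nat_lit 76) (nat_lit 3857250585) (nat_lit 0) (nat_lit 17094459834) (nat_lit 380) (nat_lit 3857250585) (nat_lit 254) (nat_lit 1) (nat_lit 253) (nat_lit 1) (nat_lit 258) (nat_lit 1) (nat_lit 268) (nat_lit 388) (nat_lit 364)) (XT.nd (nat_lit 78) (nat_lit 380) (nat_lit 0) (XT.lf (nat_lit 304) (nat_lit 3136936698) (nat_lit 0) (nat_lit 10589287805)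 (nat_lit 228) (nat_lit 10589287805) (nat_lit 254) (nat_lit 1) (nat_lit 250) (nat_lit 1) (nat_lit 253) (nat_lit 1) (nat_lit 269) (nat_lit 388) (nat_lit 363)) (XT.lf (nat_lit 380) (nat_lit 22587582192) (nat_lit 0) (nat_lit 626762064) (nat_lit 304) (nat_lit 626762064) (nat_lit 250) (nat_lit 1) (nat_lit 245) (nat_lit 1) (nat_lit 249) (nat_lit 1) (nat_lit 270) (nat_lit 388) (nat_lit 362)))) (XT.nd (nat_lit 78) (nat_lit 228) (nat_lit 0) (XT.lf (nat_lit 76) (nat_lit 8838687899) (nat_lit 0) (nat_lit 5691950316) (nat_lit 380) (nat_lit 8838687899) (nat_lit 246) (nat_lit 1) (nat_lit 245) (nat_lit 1) (nat_lit 250) (nat_lit 1) (nat_lit 271) (nat_lit 388) (nat_lit 361)) (XT.nd (nat_lit 78) (nat_lit 0) (nat_lit 0) (XT.lf (nat_lit 304) (nat_lit 12909183105) (nat_lit 0) (nat_lit 5003228414) (nat_lit 228) (nat_lit 5003228414) (nat_lit 246) (nat_lit 1) (nat_lit 242) (nat_lit 1) (nat_lit 245) (nat_lit 1) (nat_lit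 272) (nat_lit 388) (nat_lit 360)) (XT.lf (nat_lit 76) (nat_lit 4078210627) (nat_lit 0) (nat_lit 14317059174) (nat_lit 304) (nat_lit 4078210627) (nat_lit 243) (nat_lit 1) (nat_lit 242) (nat_lit 1) (nat_lit 246) (nat_lit 1) (nat_lit 273) (nat_lit 388) (nat_lit 359))))) (XT.nd (nat_lit 234) (nat_lit 684) (nat_lit 0) (XT.nd (nat_lit 78) (nat_lit 304) (nat_lit 0) (XT.lf (nat_lit 304) (nat_lit 3399061088) (nat_lit 0) (nat_lit 9321159423) (nat_lit 228) (nat_lit 9321159423) (nat_lit 243) (nat_lit 1) (nat_lit 239) (nat_lit 1) (nat_lit 242) (nat_lit 1) (nat_lit 274) (nat_lit 388) (nat_lit 358)) (XT.nd (nat_lit 78) (nat_lit 0) (nat_lit 0) (XT.lf (nat_lit 304) (nat_lit 20457005003) (nat_lit 0) (nat_lit 584163760) (nat_lit 228) (nat_lit 584163760) (nat_lit 239) (nat_lit 1) (nat_lit 235) (nat_lit 1) (nat_lit 238) (nat_lit 1) (nat_lit 275) (nat_lit 388) (nat_lit 357)) (XT.lf (nat_lit 76) (nat_lit 7738299141)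 (nat_lit 0) (nat_lit 5734001962) (nat_lit 304) (nat_lit 7738299141) (nat_lit 236) (nat_lit 1) (nat_lit 235) (nat_lit 1) (nat_lit 239) (nat_lit 1) (nat_lit 276) (nat_lit 388) (nat_lit 356)))) (XT.nd (nat_lit 156) (nat_lit 456) (nat_lit 0) (XT.nd (nat_lit 78) (nat_lit 0) (nat_lit 0) (XT.lf (nat_lit 304) (nat_lit 10640869883) (nat_lit 0) (nat_lit 5085171621) (nat_lit 228) (nat_lit 5085171621) (nat_lit 236) (nat_lit 1) (nat_lit 232) (nat_lit 1) (nat_lit 235) (nat_lit 1) (nat_lit 277) (nat_lit 388) (nat_lit 355)) (XT.lf (nat_lit 76) (nat_lit 2930486887) (nat_lit 0) (nat_lit 14561563977) (nat_lit 304) (nat_lit 2930486887) (nat_lit 233) (nat_lit 1) (nat_lit 232) (nat_lit 1) (nat_lit 236) (nat_lit 1) (nat_lit 278) (nat_lit 388) (nat_lit 354))) (XT.nd (nat_lit 78) (nat_lit 304) (nat_lit 0) (XT.lf (nat_lit 228) (nat_lit 1073827832) (nat_lit 0) (nat_lit 9483679450) (nat_lit 152) (nat_lit 9483679450) (nat_lit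 233) (nat_lit 1) (nat_lit 230) (nat_lit 1) (nat_lit 232) (nat_lit 1) (nat_lit 279) (nat_lit 388) (nat_lit 353)) (XT.lf (nat_lit 304) (nat_lit 16225178475) (nat_lit 0) (nat_lit 1723231559) (nat_lit 228) (nat_lit 1723231559) (nat_lit 230) (nat_lit 1) (nat_lit 226) (nat_lit 1) (nat_lit 229) (nat_lit 1) (nat_lit 280) (nat_lit 388) (nat_lit 352))))))))
noncomputable def ec205 : XT := (XT.nd (nat_lit 1950) (nat_lit 1900) (nat_lit 0) (XT.nd (nat_lit 936) (nat_lit 1368) (nat_lit 0) (XT.nd (nat_lit 468) (nat_lit 684) (nat_lit 0) (XT.nd (nat_lit 234) (nat_lit 380) (nat_lit 0) (XT.nd (nat_lit 78) (nat_lit 152) (nat_lit 0) (XT.lf (nat_lit 76) (nat_lit 5667069702) (nat_lit 0) (nat_lit 7972090059) (nat_lit 304) (nat_lit 5667069702) (nat_lit 227) (nat_lit 1) (nat_lit 226) (nat_lit 1) (nat_lit 230) (nat_lit 1) (nat_lit 281) (nat_lit 388) (nat_lit 351)) (XT.nd (nat_lit 78) (nat_lit 0) (nat_lit 0) (XT.lf (nat_lit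 228) (nat_lit 6547424858) (nat_lit 0) (nat_lit 6202335047) (nat_lit 152) (nat_lit 6202335047) (nat_lit 227) (nat_lit 1) (nat_lit 224) (nat_lit 1) (nat_lit 226) (nat_lit 1) (nat_lit 282) (nat_lit 388) (nat_lit 350)) (XT.lf (nat_lit 76) (nat_lit 940657133) (nat_lit 0) (nat_lit 16728398543) (nat_lit 228) (nat_lit 940657133) (nat_lit 225) (nat_lit 1) (nat_lit 224) (nat_lit 1) (nat_lit 227) (nat_lit 1) (nat_lit 283) (nat_lit 388) (nat_lit 349)))) (XT.nd (nat_lit 78) (nat_lit 152) (nat_lit 0) (XT.lf (nat_lit 76) (nat_lit 7763408352) (nat_lit 0) (nat_lit 2741758543) (nat_lit 228) (nat_lit 7763408352) (nat_lit 222) (nat_lit 1) (nat_lit 221) (nat_lit 1) (nat_lit 224) (nat_lit 1) (nat_lit 284) (nat_lit 388) (nat_lit 348)) (XT.nd (nat_lit 78) (nat_lit 0) (nat_lit 0) (XT.lf (nat_lit 228) (nat_lit 10780853151) (nat_lit 0) (nat_lit 3578951149) (nat_lit 152) (nat_lit 3578951149) (nat_lit 222) (nat_lit 1) (nat_lit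 219) (nat_lit 1) (nat_lit 221) (nat_lit 1) (nat_lit 285) (nat_lit 388) (nat_lit 347)) (XT.lf (nat_lit 76) (nat_lit 3042076282) (nat_lit 0) (nat_lit 11532072826) (nat_lit 228) (nat_lit 3042076282) (nat_lit 220) (nat_lit 1) (nat_lit 219) (nat_lit 1) (nat_lit 222) (nat_lit 1) (nat_lit 286) (nat_lit 388) (nat_lit 346))))) (XT.nd (nat_lit 234) (nat_lit 304) (nat_lit 0) (XT.nd (nat_lit 78) (nat_lit 228) (nat_lit 0) (XT.lf (nat_lit 228) (nat_lit 1425103213) (nat_lit 0) (nat_lit 7937546747) (nat_lit 152) (nat_lit 7937546747) (nat_lit 220) (nat_lit 1) (nat_lit 217) (nat_lit 1) (nat_lit 219) (nat_lit 1) (nat_lit 287) (nat_lit 388) (nat_lit 345)) (XT.nd (nat_lit 78) (nat_lit 0) (nat_lit 0) (XT.lf (nat_lit 228) (nat_lit 14006835060) (nat_lit 0) (nat_lit 1493245069) (nat_lit 152) (nat_lit 1493245069) (nat_lit 217) (nat_lit 1) (nat_lit 214) (nat_lit 1) (nat_lit 216) (nat_lit 1) (nat_lit 288) (nat_lit 388) (nat_lit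 344)) (XT.lf (nat_lit 76) (nat_lit 4662909716) (nat_lit 0) (nat_lit 7363253373) (nat_lit 228) (nat_lit 4662909716) (nat_lit 215) (nat_lit 1) (nat_lit 214) (nat_lit 1) (nat_lit 217) (nat_lit 1) (nat_lit 289) (nat_lit 388) (nat_lit 343)))) (XT.nd (nat_lit 78) (nat_lit 152) (nat_lit 0) (XT.lf (nat_lit 228) (nat_lit 4748947159) (nat_lit 0) (nat_lit 5822353060) (nat_lit 152) (nat_lit 5822353060) (nat_lit 215) (nat_lit 1) (nat_lit 212) (nat_lit 1) (nat_lit 214) (nat_lit 1) (nat_lit 290) (nat_lit 388) (nat_lit 342)) (XT.nd (nat_lit 78) (nat_lit 152) (nat_lit 0) (XT.lf (nat_lit 76) (nat_lit 156084795) (nat_lit 0) (nat_lit 15796424541) (nat_lit 228) (nat_lit 156084795) (nat_lit 213) (nat_lit 1) (nat_lit 212) (nat_lit 1) (nat_lit 215) (nat_lit 1) (nat_lit 291) (nat_lit 388) (nat_lit 341)) (XT.lf (nat_lit 76) (nat_lit 5893507391) (nat_lit 0) (nat_lit 4034708219) (nat_lit 152) (nat_lit 5893507391) (nat_lit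 211) (nat_lit 1) (nat_lit 210) (nat_lit 1) (nat_lit 212) (nat_lit 1) (nat_lit 292) (nat_lit 388) (nat_lit 340)))))) (XT.nd (nat_lit 468) (nat_lit 836) (nat_lit 0) (XT.nd (nat_lit 234) (nat_lit 228) (nat_lit 0) (XT.nd (nat_lit 78) (nat_lit 152) (nat_lit 0) (XT.lf (nat_lit 228) (nat_lit 7313171740) (nat_lit 0) (nat_lit 4115886851) (nat_lit 152) (nat_lit 4115886851) (nat_lit 211) (nat_lit 1) (nat_lit 208) (nat_lit 1) (nat_lit 210) (nat_lit 1) (nat_lit 293) (nat_lit 388) (nat_lit 339)) (XT.nd (nat_lit 78) (nat_lit 152) (nat_lit 0) (XT.lf (nat_lit 76) (nat_lit 1466240390) (nat_lit 0) (nat_lit 12343158029) (nat_lit 228) (nat_lit 1466240390) (nat_lit 209) (nat_lit 1) (nat_lit 208) (nat_lit 1) (nat_lit 211) (nat_lit 1) (nat_lit 294) (nat_lit 388) (nat_lit 338)) (XT.lf (nat_lit 76) (nat_lit 6807955524) (nat_lit 0) (nat_lit 1392642005) (nat_lit 152) (nat_lit 6807955524) (nat_lit 207) (nat_lit 1) (nat_lit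 206) (nat_lit 1) (nat_lit 208) (nat_lit 1) (nat_lit 295) (nat_lit 388) (nat_lit 337)))) (XT.nd (nat_lit 78) (nat_lit 76) (nat_lit 0) (XT.lf (nat_lit 228) (nat_lit 9260565595) (nat_lit 0) (nat_lit 2744076564) (nat_lit 152) (nat_lit 2744076564) (nat_lit 207) (nat_lit 1) (nat_lit 204) (nat_lit 1) (nat_lit 206) (nat_lit 1) (nat_lit 296) (nat_lit 388) (nat_lit 336)) (XT.nd (nat_lit 78) (nat_lit 76) (nat_lit 0) (XT.lf (nat_lit 76) (nat_lit 2480402496) (nat_lit 0) (nat_lit 9533223292) (nat_lit 228) (nat_lit 2480402496) (nat_lit 205) (nat_lit 1) (nat_lit 204) (nat_lit 1) (nat_lit 207) (nat_lit 1) (nat_lit 297) (nat_lit 388) (nat_lit 335)) (XT.lf (nat_lit 152) (nat_lit 712033229) (nat_lit 0) (nat_lit 6766055375) (nat_lit 76) (nat_lit 6766055375) (nat_lit 205) (nat_lit 1) (nat_lit 203) (nat_lit 1) (nat_lit 204) (nat_lit 1) (nat_lit 298) (nat_lit 388) (nat_lit 334))))) (XT.nd (nat_lit 234) (nat_lit 532) (nat_lit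 0) (XT.nd (nat_lit 78) (nat_lit 76) (nat_lit 0) (XT.lf (nat_lit 228) (nat_lit 10708215095) (nat_lit 0) (nat_lit 1646059785) (nat_lit 152) (nat_lit 1646059785) (nat_lit 203) (nat_lit 1) (nat_lit 200) (nat_lit 1) (nat_lit 202) (nat_lit 1) (nat_lit 299) (nat_lit 388) (nat_lit 333)) (XT.nd (nat_lit 78) (nat_lit 76) (nat_lit 0) (XT.lf (nat_lit 76) (nat_lit 3254083651) (nat_lit 0) (nat_lit 7251079381) (nat_lit 228) (nat_lit 3254083651) (nat_lit 201) (nat_lit 1) (nat_lit 200) (nat_lit 1) (nat_lit 203) (nat_lit 1) (nat_lit 300) (nat_lit 388) (nat_lit 332)) (XT.lf (nat_lit 152) (nat_lit 2391168893) (nat_lit 0) (nat_lit 5566450501) (nat_lit 76) (nat_lit 5566450501) (nat_lit 201) (nat_lit 1) (nat_lit 199) (nat_lit 1) (nat_lit 200) (nat_lit 1) (nat_lit 301) (nat_lit 388) (nat_lit 331)))) (XT.nd (nat_lit 156) (nat_lit 304) (nat_lit 0) (XT.nd (nat_lit 78) (nat_lit 0) (nat_lit 0) (XT.lf (nat_lit 228) (nat_lit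 11752079690) (nat_lit 0) (nat_lit 771837654) (nat_lit 152) (nat_lit 771837654) (nat_lit 199) (nat_lit 1) (nat_lit 196) (nat_lit 1) (nat_lit 198) (nat_lit 1) (nat_lit 302) (nat_lit 388) (nat_lit 330)) (XT.lf (nat_lit 76) (nat_lit 3832809701) (nat_lit 0) (nat_lit 5401740938) (nat_lit 228) (nat_lit 3832809701) (nat_lit 197) (nat_lit 1) (nat_lit 196) (nat_lit 1) (nat_lit 199) (nat_lit 1) (nat_lit 303) (nat_lit 388) (nat_lit 329))) (XT.nd (nat_lit 78) (nat_lit 228) (nat_lit 0) (XT.lf (nat_lit 152) (nat_lit 3686627607) (nat_lit 0) (nat_lit 4579532603) (nat_lit 76) (nat_lit 4579532603) (nat_lit 197) (nat_lit 1) (nat_lit 195) (nat_lit 1) (nat_lit 196) (nat_lit 1) (nat_lit 304) (nat_lit 388) (nat_lit 328)) (XT.lf (nat_lit 228) (nat_lit 12470755169) (nat_lit 0) (nat_lit 80345316) (nat_lit 152) (nat_lit 80345316) (nat_lit 195) (nat_lit 1) (nat_lit 192) (nat_lit 1) (nat_lit 194) (nat_lit 1) (nat_lit 305) (nat_lit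 388) (nat_lit 327))))))) (XT.nd (nat_lit 1014) (nat_lit 988) (nat_lit 0) (XT.nd (nat_lit 468) (nat_lit 608) (nat_lit 0) (XT.nd (nat_lit 234) (nat_lit 228) (nat_lit 0) (XT.nd (nat_lit 78) (nat_lit 76) (nat_lit 0) (XT.lf (nat_lit 76) (nat_lit 4253897291) (nat_lit 0) (nat_lit 3907130387) (nat_lit 228) (nat_lit 4253897291) (nat_lit 193) (nat_lit 1) (nat_lit 192) (nat_lit 1) (nat_lit 195) (nat_lit 1) (nat_lit 306) (nat_lit 388) (nat_lit 326)) (XT.nd (nat_lit 78) (nat_lit 0) (nat_lit 0) (XT.lf (nat_lit 152) (nat_lit 4670528172) (nat_lit 0) (nat_lit 3767592806) (nat_lit 76) (nat_lit 3767592806) (nat_lit 193) (nat_lit 1) (nat_lit 191) (nat_lit 1) (nat_lit 192) (nat_lit 1) (nat_lit 307) (nat_lit 388) (nat_lit 325)) (XT.lf (nat_lit 0) (nat_lit 469711349) (nat_lit 0) (nat_lit 11063396337) (nat_lit 152) (nat_lit 469711349) (nat_lit 191) (nat_lit 3) (nat_lit 191) (nat_lit 1) (nat_lit 193) (nat_lit 1) (nat_lit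 308) (nat_lit 388) (nat_lit 324)))) (XT.nd (nat_lit 78) (nat_lit 76) (nat_lit 0) (XT.lf (nat_lit 76) (nat_lit 4547915890) (nat_lit 0) (nat_lit 2703077028) (nat_lit 152) (nat_lit 4547915890) (nat_lit 190) (nat_lit 1) (nat_lit 189) (nat_lit 1) (nat_lit 191) (nat_lit 1) (nat_lit 309) (nat_lit 388) (nat_lit 323)) (XT.nd (nat_lit 78) (nat_lit 0) (nat_lit 0) (XT.lf (nat_lit 152) (nat_lit 5402007958) (nat_lit 0) (nat_lit 3099607925) (nat_lit 76) (nat_lit 3099607925) (nat_lit 190) (nat_lit 1) (nat_lit 188) (nat_lit 1) (nat_lit 189) (nat_lit 1) (nat_lit 310) (nat_lit 388) (nat_lit 322)) (XT.lf (nat_lit 0) (nat_lit 897761500) (nat_lit 0) (nat_lit 9613212357) (nat_lit 152) (nat_lit 897761500) (nat_lit 188) (nat_lit 3) (nat_lit 188) (nat_lit 1) (nat_lit 190) (nat_lit 1) (nat_lit 311) (nat_lit 388) (nat_lit 321))))) (XT.nd (nat_lit 234) (nat_lit 380) (nat_lit 0) (XT.nd (nat_lit 78) (nat_lit 76) (nat_lit 0)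 (XT.lf (nat_lit 76) (nat_lit 4739890288) (nat_lit 0) (nat_lit 1736848341) (nat_lit 152) (nat_lit 4739890288) (nat_lit 187) (nat_lit 1) (nat_lit 186) (nat_lit 1) (nat_lit 188) (nat_lit 1) (nat_lit 312) (nat_lit 388) (nat_lit 320)) (XT.nd (nat_lit 78) (nat_lit 0) (nat_lit 0) (XT.lf (nat_lit 152) (nat_lit 5929533765) (nat_lit 0) (nat_lit 2550055111) (nat_lit 76) (nat_lit 2550055111) (nat_lit 187) (nat_lit 1) (nat_lit 185) (nat_lit 1) (nat_lit 186) (nat_lit 1) (nat_lit 313) (nat_lit 388) (nat_lit 319)) (XT.lf (nat_lit 0) (nat_lit 1225570427) (nat_lit 0) (nat_lit 8395793416) (nat_lit 152) (nat_lit 1225570427) (nat_lit 185) (nat_lit 3) (nat_lit 185) (nat_lit 1) (nat_lit 187) (nat_lit 1) (nat_lit 314) (nat_lit 388) (nat_lit 318)))) (XT.nd (nat_lit 156) (nat_lit 152) (nat_lit 0) (XT.nd (nat_lit 78) (nat_lit 76) (nat_lit 0) (XT.lf (nat_lit 76) (nat_lit 4850289594) (nat_lit 0) (nat_lit 965119124) (nat_lit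 152) (nat_lit 4850289594) (nat_lit 184) (nat_lit 1) (nat_lit 183) (nat_lit 1) (nat_lit 185) (nat_lit 1) (nat_lit 315) (nat_lit 388) (nat_lit 317)) (XT.lf (nat_lit 152) (nat_lit 6292802531) (nat_lit 0) (nat_lit 2097936651) (nat_lit 76) (nat_lit 2097936651) (nat_lit 184) (nat_lit 1) (nat_lit 182) (nat_lit 1) (nat_lit 183) (nat_lit 1) (nat_lit 316) (nat_lit 388) (nat_lit 316))) (XT.nd (nat_lit 78) (nat_lit 152) (nat_lit 0) (XT.lf (nat_lit 0) (nat_lit 1472070127) (nat_lit 0) (nat_lit 7371030326) (nat_lit 152) (nat_lit 1472070127) (nat_lit 182) (nat_lit 3) (nat_lit 182) (nat_lit 1) (nat_lit 184) (nat_lit 1) (nat_lit 317) (nat_lit 388) (nat_lit 315)) (XT.lf (nat_lit 76) (nat_lit 4895840608) (nat_lit 0) (nat_lit 352300840) (nat_lit 152) (nat_lit 4895840608) (nat_lit 181) (nat_lit 1) (nat_lit 180) (nat_lit 1) (nat_lit 182) (nat_lit 1) (nat_lit 318) (nat_lit 388) (nat_lit 314)))))) (XT.nd (nat_lit 468)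 (nat_lit 608) (nat_lit 0) (XT.nd (nat_lit 234) (nat_lit 228) (nat_lit 0) (XT.nd (nat_lit 78) (nat_lit 76) (nat_lit 0) (XT.lf (nat_lit 152) (nat_lit 6524304623) (nat_lit 0) (nat_lit 1725977674) (nat_lit 76) (nat_lit 1725977674) (nat_lit 181) (nat_lit 1) (nat_lit 179) (nat_lit 1) (nat_lit 180) (nat_lit 1) (nat_lit 319) (nat_lit 388) (nat_lit 313)) (XT.nd (nat_lit 78) (nat_lit 76) (nat_lit 0) (XT.lf (nat_lit 0) (nat_lit 1652780789) (nat_lit 0) (nat_lit 6505869942) (nat_lit 152) (nat_lit 1652780789) (nat_lit 179) (nat_lit 3) (nat_lit 179) (nat_lit 1) (nat_lit 181) (nat_lit 1) (nat_lit 320) (nat_lit 388) (nat_lit 312)) (XT.lf (nat_lit 76) (nat_lit 135158624) (nat_lit 0) (nat_lit 4757148294) (nat_lit 76) (nat_lit 4757148294) (nat_lit 179) (nat_lit 3) (nat_lit 178) (nat_lit 1) (nat_lit 179) (nat_lit 1) (nat_lit 321) (nat_lit 388) (nat_lit 311)))) (XT.nd (nat_lit 78) (nat_lit 76) (nat_lit 0) (XT.lf (nat_lit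 152) (nat_lit 6650609567) (nat_lit 0) (nat_lit 1419966104) (nat_lit 76) (nat_lit 1419966104) (nat_lit 178) (nat_lit 1) (nat_lit 176) (nat_lit 1) (nat_lit 177) (nat_lit 1) (nat_lit 322) (nat_lit 388) (nat_lit 310)) (XT.nd (nat_lit 78) (nat_lit 76) (nat_lit 0) (XT.lf (nat_lit 0) (nat_lit 1780418323) (nat_lit 0) (nat_lit 5773066780) (nat_lit 152) (nat_lit 1780418323) (nat_lit 176) (nat_lit 3) (nat_lit 176) (nat_lit 1) (nat_lit 178) (nat_lit 1) (nat_lit 323) (nat_lit 388) (nat_lit 309)) (XT.lf (nat_lit 76) (nat_lit 525081789) (nat_lit 0) (nat_lit 4327604129) (nat_lit 76) (nat_lit 4327604129) (nat_lit 176) (nat_lit 3) (nat_lit 175) (nat_lit 1) (nat_lit 176) (nat_lit 1) (nat_lit 324) (nat_lit 388) (nat_lit 308))))) (XT.nd (nat_lit 234) (nat_lit 380) (nat_lit 0) (XT.nd (nat_lit 78) (nat_lit 76) (nat_lit 0) (XT.lf (nat_lit 152) (nat_lit 6693423433) (nat_lit 0) (nat_lit 1168209628) (nat_lit 76) (nat_lit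 1168209628) (nat_lit 175) (nat_lit 1) (nat_lit 173) (nat_lit 1) (nat_lit 174) (nat_lit 1) (nat_lit 325) (nat_lit 388) (nat_lit 307)) (XT.nd (nat_lit 78) (nat_lit 76) (nat_lit 0) (XT.lf (nat_lit 0) (nat_lit 1865394063) (nat_lit 0) (nat_lit 5150155830) (nat_lit 152) (nat_lit 1865394063) (nat_lit 173) (nat_lit 3) (nat_lit 173) (nat_lit 1) (nat_lit 175) (nat_lit 1) (nat_lit 326) (nat_lit 388) (nat_lit 306)) (XT.lf (nat_lit 76) (nat_lit 826163662) (nat_lit 0) (nat_lit 3954508202) (nat_lit 76) (nat_lit 3954508202) (nat_lit 173) (nat_lit 3) (nat_lit 172) (nat_lit 1) (nat_lit 173) (nat_lit 1) (nat_lit 327) (nat_lit 388) (nat_lit 305)))) (XT.nd (nat_lit 156) (nat_lit 228) (nat_lit 0) (XT.nd (nat_lit 78) (nat_lit 0) (nat_lit 0) (XT.lf (nat_lit 152) (nat_lit 6670458388) (nat_lit 0) (nat_lit 961088952) (nat_lit 76) (nat_lit 961088952) (nat_lit 172) (nat_lit 1) (nat_lit 170) (nat_lit 1) (nat_lit 171) (nat_lit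 1) (nat_lit 328) (nat_lit 388) (nat_lit 304)) (XT.lf (nat_lit 0) (nat_lit 1916225743) (nat_lit 0) (nat_lit 4618607378) (nat_lit 152) (nat_lit 1916225743) (nat_lit 170) (nat_lit 3) (nat_lit 170) (nat_lit 1) (nat_lit 172) (nat_lit 1) (nat_lit 329) (nat_lit 388) (nat_lit 303))) (XT.nd (nat_lit 78) (nat_lit 152) (nat_lit 0) (XT.lf (nat_lit 76) (nat_lit 1055094104) (nat_lit 0) (nat_lit 3628790899) (nat_lit 76) (nat_lit 3628790899) (nat_lit 170) (nat_lit 3) (nat_lit 169) (nat_lit 1) (nat_lit 170) (nat_lit 1) (nat_lit 330) (nat_lit 388) (nat_lit 302)) (XT.lf (nat_lit 152) (nat_lit 6596147733) (nat_lit 0) (nat_lit 790690259) (nat_lit 76) (nat_lit 790690259) (nat_lit 169) (nat_lit 1) (nat_lit 167) (nat_lit 1) (nat_lit 168) (nat_lit 1) (nat_lit 331) (nat_lit 388) (nat_lit 301))))))))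
noncomputable def ec206 : XT := (XT.nd (nat_lit 1950) (nat_lit 1900) (nat_lit 0) (XT.nd (nat_lit 936) (nat_lit 912) (nat_lit 0) (XT.nd (nat_lit 468) (nat_lit 456) (nat_lit 0) (XT.nd (nat_lit 234) (nat_lit 228) (nat_lit 0) (XT.nd (nat_lit 78) (nat_lit 228) (nat_lit 0) (XT.lf (nat_lit 0) (nat_lit 1939875500) (nat_lit 0) (nat_lit 4163131559) (nat_lit 152) (nat_lit 1939875500) (nat_lit 167) (nat_lit 3) (nat_lit 167) (nat_lit 1) (nat_lit 169) (nat_lit 1) (nat_lit 332) (nat_lit 388) (nat_lit 300)) (XT.nd (nat_lit 78) (nat_lit 152) (nat_lit 0) (XT.lf (nat_lit 76) (nat_lit 1225559211) (nat_lit 0) (nat_lit 3342945933) (nat_lit 76) (nat_lit 3342945933) (nat_lit 167) (nat_lit 3) (nat_lit 166) (nat_lit 1) (nat_lit 167) (nat_lit 1) (nat_lit 333) (nat_lit 388) (nat_lit 299)) (XT.lf (nat_lit 152) (nat_lit 6482233835) (nat_lit 0) (nat_lit 650502833) (nat_lit 76) (nat_lit 650502833) (nat_lit 166) (nat_lit 1) (nat_lit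 164) (nat_lit 1) (nat_lit 165) (nat_lit 1) (nat_lit 334) (nat_lit 388) (nat_lit 298)))) (XT.nd (nat_lit 78) (nat_lit 228) (nat_lit 0) (XT.lf (nat_lit 0) (nat_lit 1942027841) (nat_lit 0) (nat_lit 3771106102) (nat_lit 152) (nat_lit 1942027841) (nat_lit 164) (nat_lit 3) (nat_lit 164) (nat_lit 1) (nat_lit 166) (nat_lit 1) (nat_lit 335) (nat_lit 388) (nat_lit 297)) (XT.nd (nat_lit 78) (nat_lit 152) (nat_lit 0) (XT.lf (nat_lit 76) (nat_lit 1348776006) (nat_lit 0) (nat_lit 3090755302) (nat_lit 76) (nat_lit 3090755302) (nat_lit 164) (nat_lit 3) (nat_lit 163) (nat_lit 1) (nat_lit 164) (nat_lit 1) (nat_lit 336) (nat_lit 388) (nat_lit 296)) (XT.lf (nat_lit 152) (nat_lit 6338251505) (nat_lit 0) (nat_lit 535170290) (nat_lit 76) (nat_lit 535170290) (nat_lit 163) (nat_lit 1) (nat_lit 161) (nat_lit 1) (nat_lit 162) (nat_lit 1) (nat_lit 337) (nat_lit 388) (nat_lit 295))))) (XT.nd (nat_lit 234) (nat_lit 228) (nat_lit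 0) (XT.nd (nat_lit 78) (nat_lit 228) (nat_lit 0) (XT.lf (nat_lit 0) (nat_lit 1927318221) (nat_lit 0) (nat_lit 3432105433) (nat_lit 152) (nat_lit 1927318221) (nat_lit 161) (nat_lit 3) (nat_lit 161) (nat_lit 1) (nat_lit 163) (nat_lit 1) (nat_lit 338) (nat_lit 388) (nat_lit 294)) (XT.nd (nat_lit 78) (nat_lit 152) (nat_lit 0) (XT.lf (nat_lit 76) (nat_lit 1433932224) (nat_lit 0) (nat_lit 2867062903) (nat_lit 76) (nat_lit 2867062903) (nat_lit 161) (nat_lit 3) (nat_lit 160) (nat_lit 1) (nat_lit 161) (nat_lit 1) (nat_lit 339) (nat_lit 388) (nat_lit 293)) (XT.lf (nat_lit 152) (nat_lit 6171925377) (nat_lit 0) (nat_lit 440285922) (nat_lit 76) (nat_lit 440285922) (nat_lit 160) (nat_lit 1) (nat_lit 158) (nat_lit 1) (nat_lit 159) (nat_lit 1) (nat_lit 340) (nat_lit 388) (nat_lit 292)))) (XT.nd (nat_lit 78) (nat_lit 228) (nat_lit 0) (XT.lf (nat_lit 0) (nat_lit 1899521004) (nat_lit 0) (nat_lit 3137513167) (nat_lit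 152) (nat_lit 1899521004) (nat_lit 158) (nat_lit 3) (nat_lit 158) (nat_lit 1) (nat_lit 160) (nat_lit 1) (nat_lit 341) (nat_lit 388) (nat_lit 291)) (XT.nd (nat_lit 78) (nat_lit 152) (nat_lit 0) (XT.lf (nat_lit 76) (nat_lit 1488548034) (nat_lit 0) (nat_lit 2667588190) (nat_lit 76) (nat_lit 2667588190) (nat_lit 158) (nat_lit 3) (nat_lit 157) (nat_lit 1) (nat_lit 158) (nat_lit 1) (nat_lit 342) (nat_lit 388) (nat_lit 290)) (XT.lf (nat_lit 152) (nat_lit 5989496546) (nat_lit 0) (nat_lit 362224318) (nat_lit 76) (nat_lit 362224318) (nat_lit 157) (nat_lit 1) (nat_lit 155) (nat_lit 1) (nat_lit 156) (nat_lit 1) (nat_lit 343) (nat_lit 388) (nat_lit 289)))))) (XT.nd (nat_lit 468) (nat_lit 456) (nat_lit 0) (XT.nd (nat_lit 234) (nat_lit 228) (nat_lit 0) (XT.nd (nat_lit 78) (nat_lit 228) (nat_lit 0) (XT.lf (nat_lit 0) (nat_lit 1861703996) (nat_lit 0) (nat_lit 2880203213) (nat_lit 152) (nat_lit 1861703996) (nat_lit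 155) (nat_lit 3) (nat_lit 155) (nat_lit 1) (nat_lit 157) (nat_lit 1) (nat_lit 344) (nat_lit 388) (nat_lit 288)) (XT.nd (nat_lit 78) (nat_lit 152) (nat_lit 0) (XT.lf (nat_lit 76) (nat_lit 1518773527) (nat_lit 0) (nat_lit 2488772781) (nat_lit 76) (nat_lit 2488772781) (nat_lit 155) (nat_lit 3) (nat_lit 154) (nat_lit 1) (nat_lit 155) (nat_lit 1) (nat_lit 345) (nat_lit 388) (nat_lit 287)) (XT.lf (nat_lit 152) (nat_lit 5795991026) (nat_lit 0) (nat_lit 298002843) (nat_lit 76) (nat_lit 298002843) (nat_lit 154) (nat_lit 1) (nat_lit 152) (nat_lit 1) (nat_lit 153) (nat_lit 1) (nat_lit 346) (nat_lit 388) (nat_lit 286)))) (XT.nd (nat_lit 78) (nat_lit 228) (nat_lit 0) (XT.lf (nat_lit 0) (nat_lit 1816355499) (nat_lit 0) (nat_lit 2654277326) (nat_lit 152) (nat_lit 1816355499) (nat_lit 152) (nat_lit 3) (nat_lit 152) (nat_lit 1) (nat_lit 154) (nat_lit 1) (nat_lit 347) (nat_lit 388) (nat_lit 285)) (XT.nd (nat_lit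 78) (nat_lit 152) (nat_lit 0) (XT.lf (nat_lit 76) (nat_lit 1529633383) (nat_lit 0) (nat_lit 2327654170) (nat_lit 76) (nat_lit 2327654170) (nat_lit 152) (nat_lit 3) (nat_lit 151) (nat_lit 1) (nat_lit 152) (nat_lit 1) (nat_lit 348) (nat_lit 388) (nat_lit 284)) (XT.lf (nat_lit 152) (nat_lit 5595440346) (nat_lit 0) (nat_lit 245167676) (nat_lit 76) (nat_lit 245167676) (nat_lit 151) (nat_lit 1) (nat_lit 149) (nat_lit 1) (nat_lit 150) (nat_lit 1) (nat_lit 349) (nat_lit 388) (nat_lit 283))))) (XT.nd (nat_lit 234) (nat_lit 228) (nat_lit 0) (XT.nd (nat_lit 78) (nat_lit 228) (nat_lit 0) (XT.lf (nat_lit 0) (nat_lit 1765488750) (nat_lit 0) (nat_lit 2454849110) (nat_lit 152) (nat_lit 1765488750) (nat_lit 149) (nat_lit 3) (nat_lit 149) (nat_lit 1) (nat_lit 151) (nat_lit 1) (nat_lit 350) (nat_lit 388) (nat_lit 282)) (XT.nd (nat_lit 78) (nat_lit 152) (nat_lit 0) (XT.lf (nat_lit 76) (nat_lit 1525228068) (nat_lit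 0) (nat_lit 2181761744) (nat_lit 76) (nat_lit 2181761744) (nat_lit 149) (nat_lit 3) (nat_lit 148) (nat_lit 1) (nat_lit 149) (nat_lit 1) (nat_lit 351) (nat_lit 388) (nat_lit 281)) (XT.lf (nat_lit 152) (nat_lit 5391062797) (nat_lit 0) (nat_lit 201700054) (nat_lit 76) (nat_lit 201700054) (nat_lit 148) (nat_lit 1) (nat_lit 146) (nat_lit 1) (nat_lit 147) (nat_lit 1) (nat_lit 352) (nat_lit 388) (nat_lit 280)))) (XT.nd (nat_lit 156) (nat_lit 152) (nat_lit 0) (XT.nd (nat_lit 78) (nat_lit 76) (nat_lit 0) (XT.lf (nat_lit 0) (nat_lit 1710727759) (nat_lit 0) (nat_lit 2277866233) (nat_lit 152) (nat_lit 1710727759) (nat_lit 146) (nat_lit 3) (nat_lit 146) (nat_lit 1) (nat_lit 148) (nat_lit 1) (nat_lit 353) (nat_lit 388) (nat_lit 279)) (XT.lf (nat_lit 76) (nat_lit 1508899286) (nat_lit 0) (nat_lit 2049031166) (nat_lit 76) (nat_lit 2049031166) (nat_lit 146) (nat_lit 3) (nat_lit 145) (nat_lit 1) (nat_lit 146) (nat_lit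 1) (nat_lit 354) (nat_lit 388) (nat_lit 278))) (XT.nd (nat_lit 78) (nat_lit 0) (nat_lit 0) (XT.lf (nat_lit 152) (nat_lit 5185412302) (nat_lit 0) (nat_lit 165939133) (nat_lit 76) (nat_lit 165939133) (nat_lit 145) (nat_lit 1) (nat_lit 143) (nat_lit 1) (nat_lit 144) (nat_lit 1) (nat_lit 355) (nat_lit 388) (nat_lit 277)) (XT.lf (nat_lit 0) (nat_lit 1653377862) (nat_lit 0) (nat_lit 2119964088) (nat_lit 152) (nat_lit 1653377862) (nat_lit 143) (nat_lit 3) (nat_lit 143) (nat_lit 1) (nat_lit 145) (nat_lit 1) (nat_lit 356) (nat_lit 388) (nat_lit 276))))))) (XT.nd (nat_lit 936) (nat_lit 988) (nat_lit 0) (XT.nd (nat_lit 468) (nat_lit 456) (nat_lit 0) (XT.nd (nat_lit 234) (nat_lit 228) (nat_lit 0) (XT.nd (nat_lit 78) (nat_lit 152) (nat_lit 0) (XT.lf (nat_lit 76) (nat_lit 1483366014) (nat_lit 0) (nat_lit 1927733849) (nat_lit 76) (nat_lit 1927733849) (nat_lit 143) (nat_lit 3) (nat_lit 142) (nat_lit 1) (nat_lit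 143) (nat_lit 1) (nat_lit 357) (nat_lit 388) (nat_lit 275)) (XT.nd (nat_lit 78) (nat_lit 0) (nat_lit 0) (XT.lf (nat_lit 152) (nat_lit 4980500673) (nat_lit 0) (nat_lit 136518535) (nat_lit 76) (nat_lit 136518535) (nat_lit 142) (nat_lit 1) (nat_lit 140) (nat_lit 1) (nat_lit 141) (nat_lit 1) (nat_lit 358) (nat_lit 388) (nat_lit 274)) (XT.lf (nat_lit 0) (nat_lit 1594483678) (nat_lit 0) (nat_lit 1978345321) (nat_lit 152) (nat_lit 1594483678) (nat_lit 140) (nat_lit 3) (nat_lit 140) (nat_lit 1) (nat_lit 142) (nat_lit 1) (nat_lit 359) (nat_lit 388) (nat_lit 273)))) (XT.nd (nat_lit 78) (nat_lit 152) (nat_lit 0) (XT.lf (nat_lit 76) (nat_lit 1450836355) (nat_lit 0) (nat_lit 1816418872) (nat_lit 76) (nat_lit 1816418872) (nat_lit 140) (nat_lit 3) (nat_lit 139) (nat_lit 1) (nat_lit 140) (nat_lit 1) (nat_lit 360) (nat_lit 388) (nat_lit 272)) (XT.nd (nat_lit 78) (nat_lit 0) (nat_lit 0) (XT.lf (nat_lit 152) (nat_lit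 4777897982) (nat_lit 0) (nat_lit 112314137) (nat_lit 76) (nat_lit 112314137) (nat_lit 139) (nat_lit 1) (nat_lit 137) (nat_lit 1) (nat_lit 138) (nat_lit 1) (nat_lit 361) (nat_lit 388) (nat_lit 271)) (XT.lf (nat_lit 0) (nat_lit 1534876734) (nat_lit 0) (nat_lit 1850680658) (nat_lit 152) (nat_lit 1534876734) (nat_lit 137) (nat_lit 3) (nat_lit 137) (nat_lit 1) (nat_lit 139) (nat_lit 1) (nat_lit 362) (nat_lit 388) (nat_lit 270))))) (XT.nd (nat_lit 234) (nat_lit 228) (nat_lit 0) (XT.nd (nat_lit 78) (nat_lit 152) (nat_lit 0) (XT.lf (nat_lit 76) (nat_lit 1413099483) (nat_lit 0) (nat_lit 1713865125) (nat_lit 76) (nat_lit 1713865125) (nat_lit 137) (nat_lit 3) (nat_lit 136) (nat_lit 1) (nat_lit 137) (nat_lit 1) (nat_lit 363) (nat_lit 388) (nat_lit 269)) (XT.nd (nat_lit 78) (nat_lit 0) (nat_lit 0) (XT.lf (nat_lit 152) (nat_lit 4578814924) (nat_lit 0) (nat_lit 92401118) (nat_lit 76) (nat_lit 92401118) (nat_lit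 136) (nat_lit 1) (nat_lit 134) (nat_lit 1) (nat_lit 135) (nat_lit 1) (nat_lit 364) (nat_lit 388) (nat_lit 268)) (XT.lf (nat_lit 0) (nat_lit 1475214570) (nat_lit 0) (nat_lit 1735027239) (nat_lit 152) (nat_lit 1475214570) (nat_lit 134) (nat_lit 3) (nat_lit 134) (nat_lit 1) (nat_lit 136) (nat_lit 1) (nat_lit 365) (nat_lit 388) (nat_lit 267)))) (XT.nd (nat_lit 78) (nat_lit 152) (nat_lit 0) (XT.lf (nat_lit 76) (nat_lit 1371601226) (nat_lit 0) (nat_lit 1619041864) (nat_lit 76) (nat_lit 1619041864) (nat_lit 134) (nat_lit 3) (nat_lit 133) (nat_lit 1) (nat_lit 134) (nat_lit 1) (nat_lit 366) (nat_lit 388) (nat_lit 266)) (XT.nd (nat_lit 78) (nat_lit 0) (nat_lit 0) (XT.lf (nat_lit 152) (nat_lit 4384170399) (nat_lit 0) (nat_lit 76018629) (nat_lit 76) (nat_lit 76018629) (nat_lit 133) (nat_lit 1) (nat_lit 131) (nat_lit 1) (nat_lit 132) (nat_lit 1) (nat_lit 367) (nat_lit 388) (nat_lit 265)) (XT.lf (nat_lit 0)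 (nat_lit 1416012851) (nat_lit 0) (nat_lit 1629761377) (nat_lit 152) (nat_lit 1416012851) (nat_lit 131) (nat_lit 3) (nat_lit 131) (nat_lit 1) (nat_lit 133) (nat_lit 1) (nat_lit 368) (nat_lit 388) (nat_lit 264)))))) (XT.nd (nat_lit 468) (nat_lit 532) (nat_lit 0) (XT.nd (nat_lit 234) (nat_lit 228) (nat_lit 0) (XT.nd (nat_lit 78) (nat_lit 152) (nat_lit 0) (XT.lf (nat_lit 76) (nat_lit 1327506184) (nat_lit 0) (nat_lit 1531076209) (nat_lit 76) (nat_lit 1531076209) (nat_lit 131) (nat_lit 3) (nat_lit 130) (nat_lit 1) (nat_lit 131) (nat_lit 1) (nat_lit 369) (nat_lit 388) (nat_lit 263)) (XT.nd (nat_lit 78) (nat_lit 0) (nat_lit 0) (XT.lf (nat_lit 152) (nat_lit 4194646913) (nat_lit 0) (nat_lit 62540714) (nat_lit 76) (nat_lit 62540714) (nat_lit 130) (nat_lit 1) (nat_lit 128) (nat_lit 1) (nat_lit 129) (nat_lit 1) (nat_lit 370) (nat_lit 388) (nat_lit 262)) (XT.lf (nat_lit 0) (nat_lit 1357671728) (nat_lit 0) (nat_lit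 1533523169) (nat_lit 152) (nat_lit 1357671728) (nat_lit 128) (nat_lit 3) (nat_lit 128) (nat_lit 1) (nat_lit 130) (nat_lit 1) (nat_lit 371) (nat_lit 388) (nat_lit 261)))) (XT.nd (nat_lit 78) (nat_lit 152) (nat_lit 0) (XT.lf (nat_lit 76) (nat_lit 1281748776) (nat_lit 0) (nat_lit 1449226340) (nat_lit 76) (nat_lit 1449226340) (nat_lit 128) (nat_lit 3) (nat_lit 127) (nat_lit 1) (nat_lit 128) (nat_lit 1) (nat_lit 372) (nat_lit 388) (nat_lit 260)) (XT.nd (nat_lit 78) (nat_lit 0) (nat_lit 0) (XT.lf (nat_lit 152) (nat_lit 4010735991) (nat_lit 0) (nat_lit 51452400) (nat_lit 76) (nat_lit 51452400) (nat_lit 127) (nat_lit 1) (nat_lit 125) (nat_lit 1) (nat_lit 126) (nat_lit 1) (nat_lit 373) (nat_lit 388) (nat_lit 259)) (XT.lf (nat_lit 0) (nat_lit 1300497463) (nat_lit 0) (nat_lit 1445170879) (nat_lit 152) (nat_lit 1300497463) (nat_lit 125) (nat_lit 3) (nat_lit 125) (nat_lit 1) (nat_lit 127) (nat_lit 1) (nat_lit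 374) (nat_lit 388) (nat_lit 258))))) (XT.nd (nat_lit 234) (nat_lit 304) (nat_lit 0) (XT.nd (nat_lit 78) (nat_lit 152) (nat_lit 0) (XT.lf (nat_lit 76) (nat_lit 1235075179) (nat_lit 0) (nat_lit 1372859385) (nat_lit 76) (nat_lit 1372859385) (nat_lit 125) (nat_lit 3) (nat_lit 124) (nat_lit 1) (nat_lit 125) (nat_lit 1) (nat_lit 375) (nat_lit 388) (nat_lit 257)) (XT.nd (nat_lit 78) (nat_lit 0) (nat_lit 0) (XT.lf (nat_lit 152) (nat_lit 3832775374) (nat_lit 0) (nat_lit 42330017) (nat_lit 76) (nat_lit 42330017) (nat_lit 124) (nat_lit 1) (nat_lit 122) (nat_lit 1) (nat_lit 123) (nat_lit 1) (nat_lit 376) (nat_lit 388) (nat_lit 256)) (XT.lf (nat_lit 0) (nat_lit 1244720169) (nat_lit 0) (nat_lit 1363743346) (nat_lit 152) (nat_lit 1244720169) (nat_lit 122) (nat_lit 3) (nat_lit 122) (nat_lit 1) (nat_lit 124) (nat_lit 1) (nat_lit 377) (nat_lit 388) (nat_lit 255)))) (XT.nd (nat_lit 156) (nat_lit 76) (nat_lit 0) (XT.nd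 (nat_lit 78) (nat_lit 152) (nat_lit 0) (XT.lf (nat_lit 76) (nat_lit 1188077777) (nat_lit 0) (nat_lit 1301433184) (nat_lit 76) (nat_lit 1301433184) (nat_lit 122) (nat_lit 3) (nat_lit 121) (nat_lit 1) (nat_lit 122) (nat_lit 1) (nat_lit 378) (nat_lit 388) (nat_lit 254)) (XT.lf (nat_lit 152) (nat_lit 3660979451) (nat_lit 0) (nat_lit 34825009) (nat_lit 76) (nat_lit 34825009) (nat_lit 121) (nat_lit 1) (nat_lit 119) (nat_lit 1) (nat_lit 120) (nat_lit 1) (nat_lit 379) (nat_lit 388) (nat_lit 253))) (XT.nd (nat_lit 78) (nat_lit 76) (nat_lit 0) (XT.lf (nat_lit 0) (nat_lit 1190508352) (nat_lit 0) (nat_lit 1288429014) (nat_lit 152) (nat_lit 1190508352) (nat_lit 119) (nat_lit 3) (nat_lit 119) (nat_lit 1) (nat_lit 121) (nat_lit 1) (nat_lit 380) (nat_lit 388) (nat_lit 252)) (XT.lf (nat_lit 76) (nat_lit 1141223451) (nat_lit 0) (nat_lit 1234481225) (nat_lit 76) (nat_lit 1234481225) (nat_lit 119) (nat_lit 3) (nat_lit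 118) (nat_lit 1) (nat_lit 119) (nat_lit 1) (nat_lit 381) (nat_lit 388) (nat_lit 251))))))))
noncomputable def ec207 : XT := (XT.nd (nat_lit 1950) (nat_lit 1900) (nat_lit 0) (XT.nd (nat_lit 936) (nat_lit 1064) (nat_lit 0) (XT.nd (nat_lit 468) (nat_lit 456) (nat_lit 0) (XT.nd (nat_lit 234) (nat_lit 228) (nat_lit 0) (XT.nd (nat_lit 78) (nat_lit 76) (nat_lit 0) (XT.lf (nat_lit 152) (nat_lit 3495464154) (nat_lit 0) (nat_lit 28650621) (nat_lit 76) (nat_lit 28650621) (nat_lit 118) (nat_lit 1) (nat_lit 116) (nat_lit 1) (nat_lit 117) (nat_lit 1) (nat_lit 382) (nat_lit 388) (nat_lit 250)) (XT.nd (nat_lit 78) (nat_lit 76) (nat_lit 0) (XT.lf (nat_lit 0) (nat_lit 1137980823) (nat_lit 0) (nat_lit 1218540394) (nat_lit 152) (nat_lit 1137980823) (nat_lit 116) (nat_lit 3) (nat_lit 116) (nat_lit 1) (nat_lit 118) (nat_lit 1) (nat_lit 383) (nat_lit 388) (nat_lit 249)) (XT.lf (nat_lit 76) (nat_lit 1094876809) (nat_lit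 0) (nat_lit 1171600211) (nat_lit 76) (nat_lit 1171600211) (nat_lit 116) (nat_lit 3) (nat_lit 115) (nat_lit 1) (nat_lit 116) (nat_lit 1) (nat_lit 384) (nat_lit 388) (nat_lit 248)))) (XT.nd (nat_lit 78) (nat_lit 76) (nat_lit 0) (XT.lf (nat_lit 152) (nat_lit 3336267296) (nat_lit 0) (nat_lit 23570937) (nat_lit 76) (nat_lit 23570937) (nat_lit 115) (nat_lit 1) (nat_lit 113) (nat_lit 1) (nat_lit 114) (nat_lit 1) (nat_lit 385) (nat_lit 388) (nat_lit 247)) (XT.nd (nat_lit 78) (nat_lit 76) (nat_lit 0) (XT.lf (nat_lit 0) (nat_lit 1087216454) (nat_lit 0) (nat_lit 1153493013) (nat_lit 152) (nat_lit 1087216454) (nat_lit 113) (nat_lit 3) (nat_lit 113) (nat_lit 1) (nat_lit 115) (nat_lit 1) (nat_lit 386) (nat_lit 388) (nat_lit 246)) (XT.lf (nat_lit 76) (nat_lit 1049319243) (nat_lit 0) (nat_lit 1112439775) (nat_lit 76) (nat_lit 1112439775) (nat_lit 113) (nat_lit 3) (nat_lit 112) (nat_lit 1) (nat_lit 113) (nat_lit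 1) (nat_lit 387) (nat_lit 388) (nat_lit 245))))) (XT.nd (nat_lit 234) (nat_lit 228) (nat_lit 0) (XT.nd (nat_lit 78) (nat_lit 76) (nat_lit 0) (XT.lf (nat_lit 152) (nat_lit 3183365157) (nat_lit 0) (nat_lit 19391868) (nat_lit 76) (nat_lit 19391868) (nat_lit 112) (nat_lit 1) (nat_lit 110) (nat_lit 1) (nat_lit 111) (nat_lit 1) (nat_lit 388) (nat_lit 388) (nat_lit 244)) (XT.nd (nat_lit 78) (nat_lit 76) (nat_lit 0) (XT.lf (nat_lit 0) (nat_lit 1038262158) (nat_lit 0) (nat_lit 1092788047) (nat_lit 152) (nat_lit 1038262158) (nat_lit 110) (nat_lit 3) (nat_lit 110) (nat_lit 1) (nat_lit 112) (nat_lit 1) (nat_lit 389) (nat_lit 388) (nat_lit 243)) (XT.lf (nat_lit 76) (nat_lit 1004764569) (nat_lit 0) (nat_lit 1056693987) (nat_lit 76) (nat_lit 1056693987) (nat_lit 110) (nat_lit 3) (nat_lit 109) (nat_lit 1) (nat_lit 110) (nat_lit 1) (nat_lit 390) (nat_lit 388) (nat_lit 242)))) (XT.nd (nat_lit 78) (nat_lit 76) (nat_lit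 0) (XT.lf (nat_lit 152) (nat_lit 3036686008) (nat_lit 0) (nat_lit 15953738) (nat_lit 76) (nat_lit 15953738) (nat_lit 109) (nat_lit 1) (nat_lit 107) (nat_lit 1) (nat_lit 108) (nat_lit 1) (nat_lit 391) (nat_lit 388) (nat_lit 241)) (XT.nd (nat_lit 78) (nat_lit 76) (nat_lit 0) (XT.lf (nat_lit 0) (nat_lit 991139409) (nat_lit 0) (nat_lit 1035997993) (nat_lit 152) (nat_lit 991139409) (nat_lit 107) (nat_lit 3) (nat_lit 107) (nat_lit 1) (nat_lit 109) (nat_lit 1) (nat_lit 392) (nat_lit 388) (nat_lit 240)) (XT.lf (nat_lit 76) (nat_lit 961371851) (nat_lit 0) (nat_lit 1004094311) (nat_lit 76) (nat_lit 1004094311) (nat_lit 107) (nat_lit 3) (nat_lit 106) (nat_lit 1) (nat_lit 107) (nat_lit 1) (nat_lit 393) (nat_lit 388) (nat_lit 239)))))) (XT.nd (nat_lit 468) (nat_lit 608) (nat_lit 0) (XT.nd (nat_lit 234) (nat_lit 228) (nat_lit 0) (XT.nd (nat_lit 78) (nat_lit 76) (nat_lit 0) (XT.lf (nat_lit 152) (nat_lit 2896121108)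 (nat_lit 0) (nat_lit 13125179) (nat_lit 76) (nat_lit 13125179) (nat_lit 106) (nat_lit 1) (nat_lit 104) (nat_lit 1) (nat_lit 105) (nat_lit 1) (nat_lit 394) (nat_lit 388) (nat_lit 238)) (XT.nd (nat_lit 78) (nat_lit 76) (nat_lit 0) (XT.lf (nat_lit 0) (nat_lit 945849571) (nat_lit 0) (nat_lit 982754839) (nat_lit 152) (nat_lit 945849571) (nat_lit 104) (nat_lit 3) (nat_lit 104) (nat_lit 1) (nat_lit 106) (nat_lit 1) (nat_lit 395) (nat_lit 388) (nat_lit 237)) (XT.lf (nat_lit 76) (nat_lit 919255908) (nat_lit 0) (nat_lit 954403783) (nat_lit 76) (nat_lit 954403783) (nat_lit 104) (nat_lit 3) (nat_lit 103) (nat_lit 1) (nat_lit 104) (nat_lit 1) (nat_lit 396) (nat_lit 388) (nat_lit 236)))) (XT.nd (nat_lit 78) (nat_lit 76) (nat_lit 0) (XT.lf (nat_lit 152) (nat_lit 2761533636) (nat_lit 0) (nat_lit 10798118) (nat_lit 76) (nat_lit 10798118) (nat_lit 103) (nat_lit 1) (nat_lit 101) (nat_lit 1) (nat_lit 102) (nat_lit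 1) (nat_lit 397) (nat_lit 388) (nat_lit 235)) (XT.nd (nat_lit 78) (nat_lit 76) (nat_lit 0) (XT.lf (nat_lit 0) (nat_lit 902378236) (nat_lit 0) (nat_lit 932740291) (nat_lit 152) (nat_lit 902378236) (nat_lit 101) (nat_lit 3) (nat_lit 101) (nat_lit 1) (nat_lit 103) (nat_lit 1) (nat_lit 398) (nat_lit 388) (nat_lit 234)) (XT.lf (nat_lit 76) (nat_lit 878495928) (nat_lit 0) (nat_lit 907412171) (nat_lit 76) (nat_lit 907412171) (nat_lit 101) (nat_lit 3) (nat_lit 100) (nat_lit 1) (nat_lit 101) (nat_lit 1) (nat_lit 399) (nat_lit 388) (nat_lit 233))))) (XT.nd (nat_lit 234) (nat_lit 380) (nat_lit 0) (XT.nd (nat_lit 78) (nat_lit 76) (nat_lit 0) (XT.lf (nat_lit 152) (nat_lit 2632765921) (nat_lit 0) (nat_lit 8883638) (nat_lit 76) (nat_lit 8883638) (nat_lit 100) (nat_lit 1) (nat_lit 98) (nat_lit 1) (nat_lit 99) (nat_lit 1) (nat_lit 400) (nat_lit 388) (nat_lit 232)) (XT.nd (nat_lit 78) (nat_lit 76) (nat_lit 0) (XT.lf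 (nat_lit 0) (nat_lit 860698763) (nat_lit 0) (nat_lit 885677701) (nat_lit 152) (nat_lit 860698763) (nat_lit 98) (nat_lit 3) (nat_lit 98) (nat_lit 1) (nat_lit 100) (nat_lit 1) (nat_lit 401) (nat_lit 388) (nat_lit 231)) (XT.lf (nat_lit 76) (nat_lit 839142504) (nat_lit 0) (nat_lit 862931969) (nat_lit 76) (nat_lit 862931969) (nat_lit 98) (nat_lit 3) (nat_lit 97) (nat_lit 1) (nat_lit 98) (nat_lit 1) (nat_lit 402) (nat_lit 388) (nat_lit 230)))) (XT.nd (nat_lit 156) (nat_lit 228) (nat_lit 0) (XT.nd (nat_lit 78) (nat_lit 0) (nat_lit 0) (XT.lf (nat_lit 152) (nat_lit 2509645290) (nat_lit 0) (nat_lit 7308591) (nat_lit 76) (nat_lit 7308591) (nat_lit 97) (nat_lit 1) (nat_lit 95) (nat_lit 1) (nat_lit 96) (nat_lit 1) (nat_lit 403) (nat_lit 388) (nat_lit 229)) (XT.lf (nat_lit 0) (nat_lit 820775151) (nat_lit 0) (nat_lit 841325385) (nat_lit 152) (nat_lit 820775151) (nat_lit 95) (nat_lit 3) (nat_lit 95) (nat_lit 1)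 (nat_lit 97) (nat_lit 1) (nat_lit 404) (nat_lit 388) (nat_lit 228))) (XT.nd (nat_lit 78) (nat_lit 152) (nat_lit 0) (XT.lf (nat_lit 76) (nat_lit 801223406) (nat_lit 0) (nat_lit 820795057) (nat_lit 76) (nat_lit 820795057) (nat_lit 95) (nat_lit 3) (nat_lit 94) (nat_lit 1) (nat_lit 95) (nat_lit 1) (nat_lit 405) (nat_lit 388) (nat_lit 227)) (XT.lf (nat_lit 152) (nat_lit 2391988774) (nat_lit 0) (nat_lit 6012796) (nat_lit 76) (nat_lit 6012796) (nat_lit 94) (nat_lit 1) (nat_lit 92) (nat_lit 1) (nat_lit 93) (nat_lit 1) (nat_lit 406) (nat_lit 388) (nat_lit 226))))))) (XT.nd (nat_lit 1014) (nat_lit 988) (nat_lit 0) (XT.nd (nat_lit 468) (nat_lit 456) (nat_lit 0) (XT.nd (nat_lit 234) (nat_lit 228) (nat_lit 0) (XT.nd (nat_lit 78) (nat_lit 228) (nat_lit 0) (XT.lf (nat_lit 0) (nat_lit 782564365) (nat_lit 0) (nat_lit 799471093) (nat_lit 152) (nat_lit 782564365) (nat_lit 92) (nat_lit 3) (nat_lit 92) (nat_lit 1)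 (nat_lit 94) (nat_lit 1) (nat_lit 407) (nat_lit 388) (nat_lit 225)) (XT.nd (nat_lit 78) (nat_lit 152) (nat_lit 0) (XT.lf (nat_lit 76) (nat_lit 764748280) (nat_lit 0) (nat_lit 780849926) (nat_lit 76) (nat_lit 780849926) (nat_lit 92) (nat_lit 3) (nat_lit 91) (nat_lit 1) (nat_lit 92) (nat_lit 1) (nat_lit 408) (nat_lit 388) (nat_lit 224)) (XT.lf (nat_lit 152) (nat_lit 2279606877) (nat_lit 0) (nat_lit 4946742) (nat_lit 76) (nat_lit 4946742) (nat_lit 91) (nat_lit 1) (nat_lit 89) (nat_lit 1) (nat_lit 90) (nat_lit 1) (nat_lit 409) (nat_lit 388) (nat_lit 223)))) (XT.nd (nat_lit 78) (nat_lit 228) (nat_lit 0) (XT.lf (nat_lit 0) (nat_lit 746018228) (nat_lit 0) (nat_lit 759927435) (nat_lit 152) (nat_lit 746018228) (nat_lit 89) (nat_lit 3) (nat_lit 89) (nat_lit 1) (nat_lit 91) (nat_lit 1) (nat_lit 410) (nat_lit 388) (nat_lit 222)) (XT.nd (nat_lit 78) (nat_lit 152) (nat_lit 0) (XT.lf (nat_lit 76) (nat_lit 729712494)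 (nat_lit 0) (nat_lit 742959358) (nat_lit 76) (nat_lit 742959358) (nat_lit 89) (nat_lit 3) (nat_lit 88) (nat_lit 1) (nat_lit 89) (nat_lit 1) (nat_lit 411) (nat_lit 388) (nat_lit 221)) (XT.lf (nat_lit 152) (nat_lit 2172306594) (nat_lit 0) (nat_lit 4069697) (nat_lit 76) (nat_lit 4069697) (nat_lit 88) (nat_lit 1) (nat_lit 86) (nat_lit 1) (nat_lit 87) (nat_lit 1) (nat_lit 412) (nat_lit 388) (nat_lit 220))))) (XT.nd (nat_lit 234) (nat_lit 228) (nat_lit 0) (XT.nd (nat_lit 78) (nat_lit 228) (nat_lit 0) (XT.lf (nat_lit 0) (nat_lit 711084935) (nat_lit 0) (nat_lit 722528075) (nat_lit 152) (nat_lit 711084935) (nat_lit 86) (nat_lit 3) (nat_lit 86) (nat_lit 1) (nat_lit 88) (nat_lit 1) (nat_lit 413) (nat_lit 388) (nat_lit 219)) (XT.nd (nat_lit 78) (nat_lit 152) (nat_lit 0) (XT.lf (nat_lit 76) (nat_lit 696100266) (nat_lit 0) (nat_lit 706998494) (nat_lit 76) (nat_lit 706998494) (nat_lit 86) (nat_lit 3) (nat_lit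 85) (nat_lit 1) (nat_lit 86) (nat_lit 1) (nat_lit 414) (nat_lit 388) (nat_lit 218)) (XT.lf (nat_lit 152) (nat_lit 2069893796) (nat_lit 0) (nat_lit 3348149) (nat_lit 76) (nat_lit 3348149) (nat_lit 85) (nat_lit 1) (nat_lit 83) (nat_lit 1) (nat_lit 84) (nat_lit 1) (nat_lit 415) (nat_lit 388) (nat_lit 217)))) (XT.nd (nat_lit 156) (nat_lit 152) (nat_lit 0) (XT.nd (nat_lit 78) (nat_lit 76) (nat_lit 0) (XT.lf (nat_lit 0) (nat_lit 677710282) (nat_lit 0) (nat_lit 687124581) (nat_lit 152) (nat_lit 677710282) (nat_lit 83) (nat_lit 3) (nat_lit 83) (nat_lit 1) (nat_lit 85) (nat_lit 1) (nat_lit 416) (nat_lit 388) (nat_lit 216)) (XT.lf (nat_lit 76) (nat_lit 663887213) (nat_lit 0) (nat_lit 672853212) (nat_lit 76) (nat_lit 672853212) (nat_lit 83) (nat_lit 3) (nat_lit 82) (nat_lit 1) (nat_lit 83) (nat_lit 1) (nat_lit 417) (nat_lit 388) (nat_lit 215))) (XT.nd (nat_lit 78) (nat_lit 0) (nat_lit 0) (XT.lf (nat_lit 152)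 (nat_lit 1972175115) (nat_lit 0) (nat_lit 2754531) (nat_lit 76) (nat_lit 2754531) (nat_lit 82) (nat_lit 1) (nat_lit 80) (nat_lit 1) (nat_lit 81) (nat_lit 1) (nat_lit 418) (nat_lit 388) (nat_lit 214)) (XT.lf (nat_lit 0) (nat_lit 645838636) (nat_lit 0) (nat_lit 653583804) (nat_lit 152) (nat_lit 645838636) (nat_lit 80) (nat_lit 3) (nat_lit 80) (nat_lit 1) (nat_lit 82) (nat_lit 1) (nat_lit 419) (nat_lit 388) (nat_lit 213)))))) (XT.nd (nat_lit 468) (nat_lit 532) (nat_lit 0) (XT.nd (nat_lit 234) (nat_lit 228) (nat_lit 0) (XT.nd (nat_lit 78) (nat_lit 152) (nat_lit 0) (XT.lf (nat_lit 76) (nat_lit 633042417) (nat_lit 0) (nat_lit 640418766) (nat_lit 76) (nat_lit 640418766) (nat_lit 80) (nat_lit 3) (nat_lit 79) (nat_lit 1) (nat_lit 80) (nat_lit 1) (nat_lit 420) (nat_lit 388) (nat_lit 212)) (XT.nd (nat_lit 78) (nat_lit 0) (nat_lit 0) (XT.lf (nat_lit 152) (nat_lit 1878959412) (nat_lit 0) (nat_lit 2266159) (nat_lit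 76) (nat_lit 2266159) (nat_lit 79) (nat_lit 1) (nat_lit 77) (nat_lit 1) (nat_lit 78) (nat_lit 1) (nat_lit 421) (nat_lit 388) (nat_lit 211)) (XT.lf (nat_lit 0) (nat_lit 615413721) (nat_lit 0) (nat_lit 621785689) (nat_lit 152) (nat_lit 615413721) (nat_lit 77) (nat_lit 3) (nat_lit 77) (nat_lit 1) (nat_lit 79) (nat_lit 1) (nat_lit 422) (nat_lit 388) (nat_lit 210)))) (XT.nd (nat_lit 78) (nat_lit 152) (nat_lit 0) (XT.lf (nat_lit 76) (nat_lit 603530099) (nat_lit 0) (nat_lit 609598640) (nat_lit 76) (nat_lit 609598640) (nat_lit 77) (nat_lit 3) (nat_lit 76) (nat_lit 1) (nat_lit 77) (nat_lit 1) (nat_lit 423) (nat_lit 388) (nat_lit 209)) (XT.nd (nat_lit 78) (nat_lit 0) (nat_lit 0) (XT.lf (nat_lit 152) (nat_lit 1790058904) (nat_lit 0) (nat_lit 1864375) (nat_lit 76) (nat_lit 1864375) (nat_lit 76) (nat_lit 1) (nat_lit 74) (nat_lit 1) (nat_lit 75) (nat_lit 1) (nat_lit 424) (nat_lit 388) (nat_lit 208)) (XT.lf (nat_lit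 0) (nat_lit 586379226) (nat_lit 0) (nat_lit 591621460) (nat_lit 152) (nat_lit 586379226) (nat_lit 74) (nat_lit 3) (nat_lit 74) (nat_lit 1) (nat_lit 76) (nat_lit 1) (nat_lit 425) (nat_lit 388) (nat_lit 207))))) (XT.nd (nat_lit 234) (nat_lit 304) (nat_lit 0) (XT.nd (nat_lit 78) (nat_lit 152) (nat_lit 0) (XT.lf (nat_lit 76) (nat_lit 575310979) (nat_lit 0) (nat_lit 580303583) (nat_lit 76) (nat_lit 580303583) (nat_lit 74) (nat_lit 3) (nat_lit 73) (nat_lit 1) (nat_lit 74) (nat_lit 1) (nat_lit 426) (nat_lit 388) (nat_lit 206)) (XT.nd (nat_lit 78) (nat_lit 0) (nat_lit 0) (XT.lf (nat_lit 152) (nat_lit 1705290030) (nat_lit 0) (nat_lit 1533826) (nat_lit 76) (nat_lit 1533826) (nat_lit 73) (nat_lit 1) (nat_lit 71) (nat_lit 1) (nat_lit 72) (nat_lit 1) (nat_lit 427) (nat_lit 388) (nat_lit 205)) (XT.lf (nat_lit 0) (nat_lit 558679293) (nat_lit 0) (nat_lit 562992092) (nat_lit 152) (nat_lit 558679293) (nat_lit 71)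 (nat_lit 3) (nat_lit 71) (nat_lit 1) (nat_lit 73) (nat_lit 1) (nat_lit 428) (nat_lit 388) (nat_lit 204)))) (XT.nd (nat_lit 156) (nat_lit 76) (nat_lit 0) (XT.nd (nat_lit 78) (nat_lit 152) (nat_lit 0) (XT.lf (nat_lit 76) (nat_lit 548343360) (nat_lit 0) (nat_lit 552450787) (nat_lit 76) (nat_lit 552450787) (nat_lit 71) (nat_lit 3) (nat_lit 70) (nat_lit 1) (nat_lit 71) (nat_lit 1) (nat_lit 429) (nat_lit 388) (nat_lit 203)) (XT.lf (nat_lit 152) (nat_lit 1624474079) (nat_lit 0) (nat_lit 1261882) (nat_lit 76) (nat_lit 1261882) (nat_lit 70) (nat_lit 1) (nat_lit 68) (nat_lit 1) (nat_lit 69) (nat_lit 1) (nat_lit 430) (nat_lit 388) (nat_lit 202))) (XT.nd (nat_lit 78) (nat_lit 76) (nat_lit 0) (XT.lf (nat_lit 0) (nat_lit 532258886) (nat_lit 0) (nat_lit 535807037) (nat_lit 152) (nat_lit 532258886) (nat_lit 68) (nat_lit 3) (nat_lit 68) (nat_lit 1) (nat_lit 70) (nat_lit 1) (nat_lit 431) (nat_lit 388) (nat_lit 201))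 (XT.lf (nat_lit 76) (nat_lit 522584004) (nat_lit 0) (nat_lit 525963195) (nat_lit 76) (nat_lit 525963195) (nat_lit 68) (nat_lit 3) (nat_lit 67) (nat_lit 1) (nat_lit 68) (nat_lit 1) (nat_lit 432) (nat_lit 388) (nat_lit 200))))))))
noncomputable def ec208 : XT := (XT.nd (nat_lit 39000) (nat_lit 0) (nat_lit 13680) (XT.nd (nat_lit 936) (nat_lit 228) (nat_lit 0) (XT.nd (nat_lit 468) (nat_lit 456) (nat_lit 0) (XT.nd (nat_lit 234) (nat_lit 228) (nat_lit 0) (XT.nd (nat_lit 78) (nat_lit 76) (nat_lit 0) (XT.lf (nat_lit 152) (nat_lit 1547437657) (nat_lit 0) (nat_lit 1038153) (nat_lit 76) (nat_lit 1038153) (nat_lit 67) (nat_lit 1) (nat_lit 65) (nat_lit 1) (nat_lit 66) (nat_lit 1) (nat_lit 433) (nat_lit 388) (nat_lit 199)) (XT.nd (nat_lit 78) (nat_lit 76) (nat_lit 0) (XT.lf (nat_lit 0) (nat_lit 507064084) (nat_lit 0) (nat_lit 509983156) (nat_lit 152) (nat_lit 507064084) (nat_lit 65) (nat_lit 3) (nat_lit 65)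 (nat_lit 1) (nat_lit 67) (nat_lit 1) (nat_lit 434) (nat_lit 388) (nat_lit 198)) (XT.lf (nat_lit 76) (nat_lit 497988834) (nat_lit 0) (nat_lit 500768903) (nat_lit 76) (nat_lit 500768903) (nat_lit 65) (nat_lit 3) (nat_lit 64) (nat_lit 1) (nat_lit 65) (nat_lit 1) (nat_lit 435) (nat_lit 388) (nat_lit 197)))) (XT.nd (nat_lit 78) (nat_lit 76) (nat_lit 0) (XT.lf (nat_lit 152) (nat_lit 1474012991) (nat_lit 0) (nat_lit 854091) (nat_lit 76) (nat_lit 854091) (nat_lit 64) (nat_lit 1) (nat_lit 62) (nat_lit 1) (nat_lit 63) (nat_lit 1) (nat_lit 436) (nat_lit 388) (nat_lit 196)) (XT.nd (nat_lit 78) (nat_lit 76) (nat_lit 0) (XT.lf (nat_lit 0) (nat_lit 483042287) (nat_lit 0) (nat_lit 485443814) (nat_lit 152) (nat_lit 483042287) (nat_lit 62) (nat_lit 3) (nat_lit 62) (nat_lit 1) (nat_lit 64) (nat_lit 1) (nat_lit 437) (nat_lit 388) (nat_lit 195)) (XT.lf (nat_lit 76) (nat_lit 474513485) (nat_lit 0) (nat_lit 476800655)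 (nat_lit 76) (nat_lit 476800655) (nat_lit 62) (nat_lit 3) (nat_lit 61) (nat_lit 1) (nat_lit 62) (nat_lit 1) (nat_lit 438) (nat_lit 388) (nat_lit 194))))) (XT.nd (nat_lit 234) (nat_lit 228) (nat_lit 0) (XT.nd (nat_lit 78) (nat_lit 76) (nat_lit 0) (XT.lf (nat_lit 152) (nat_lit 1404038136) (nat_lit 0) (nat_lit 702663) (nat_lit 76) (nat_lit 702663) (nat_lit 61) (nat_lit 1) (nat_lit 59) (nat_lit 1) (nat_lit 60) (nat_lit 1) (nat_lit 439) (nat_lit 388) (nat_lit 193)) (XT.nd (nat_lit 78) (nat_lit 76) (nat_lit 0) (XT.lf (nat_lit 0) (nat_lit 460142380) (nat_lit 0) (nat_lit 462118123) (nat_lit 152) (nat_lit 460142380) (nat_lit 59) (nat_lit 3) (nat_lit 59) (nat_lit 1) (nat_lit 61) (nat_lit 1) (nat_lit 440) (nat_lit 388) (nat_lit 192)) (XT.lf (nat_lit 76) (nat_lit 452113742) (nat_lit 0) (nat_lit 453995402) (nat_lit 76) (nat_lit 453995402) (nat_lit 59) (nat_lit 3) (nat_lit 58) (nat_lit 1) (nat_lit 59) (nat_lit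 1) (nat_lit 441) (nat_lit 388) (nat_lit 191)))) (XT.nd (nat_lit 78) (nat_lit 76) (nat_lit 0) (XT.lf (nat_lit 152) (nat_lit 1337357079) (nat_lit 0) (nat_lit 578082) (nat_lit 76) (nat_lit 578082) (nat_lit 58) (nat_lit 1) (nat_lit 56) (nat_lit 1) (nat_lit 57) (nat_lit 1) (nat_lit 442) (nat_lit 388) (nat_lit 190)) (XT.nd (nat_lit 78) (nat_lit 76) (nat_lit 0) (XT.lf (nat_lit 0) (nat_lit 438314842) (nat_lit 0) (nat_lit 439940290) (nat_lit 152) (nat_lit 438314842) (nat_lit 56) (nat_lit 3) (nat_lit 56) (nat_lit 1) (nat_lit 58) (nat_lit 1) (nat_lit 443) (nat_lit 388) (nat_lit 189)) (XT.lf (nat_lit 76) (nat_lit 430745878) (nat_lit 0) (nat_lit 432293924) (nat_lit 76) (nat_lit 432293924) (nat_lit 56) (nat_lit 3) (nat_lit 55) (nat_lit 1) (nat_lit 56) (nat_lit 1) (nat_lit 444) (nat_lit 388) (nat_lit 188)))))) (XT.nd (nat_lit 37518) (nat_lit 0) (nat_lit 18316) (XT.nd (nat_lit 37284) (nat_lit 0) (nat_lit 18240)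 (XT.nd (nat_lit 78) (nat_lit 76) (nat_lit 0) (XT.lf (nat_lit 152) (nat_lit 1273819769) (nat_lit 0) (nat_lit 475590) (nat_lit 76) (nat_lit 475590) (nat_lit 55) (nat_lit 1) (nat_lit 53) (nat_lit 1) (nat_lit 54) (nat_lit 1) (nat_lit 445) (nat_lit 388) (nat_lit 187)) (XT.nd (nat_lit 78) (nat_lit 76) (nat_lit 0) (XT.lf (nat_lit 0) (nat_lit 417511817) (nat_lit 0) (nat_lit 418849077) (nat_lit 152) (nat_lit 417511817) (nat_lit 53) (nat_lit 3) (nat_lit 53) (nat_lit 1) (nat_lit 55) (nat_lit 1) (nat_lit 446) (nat_lit 388) (nat_lit 186)) (XT.lf (nat_lit 76) (nat_lit 410366922) (nat_lit 0) (nat_lit 411640504) (nat_lit 76) (nat_lit 411640504) (nat_lit 53) (nat_lit 3) (nat_lit 52) (nat_lit 1) (nat_lit 53) (nat_lit 1) (nat_lit 447) (nat_lit 388) (nat_lit 185)))) (XT.nd (nat_lit 78) (nat_lit 0) (nat_lit 0) (XT.lf (nat_lit 836) (nat_lit 5868476007) (nat_lit 0) (nat_lit 10419465662) (nat_lit 836) (nat_lit 5868476007)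 (nat_lit 303) (nat_lit 1) (nat_lit 292) (nat_lit 0) (nat_lit 303) (nat_lit 0) (nat_lit 242) (nat_lit 389) (nat_lit 389)) (XT.nd (nat_lit 78) (nat_lit 0) (nat_lit 76) (XT.lf (nat_lit 836) (nat_lit 22746945656) (nat_lit 76) (nat_lit 10251409765) (nat_lit 0) (nat_lit 10251409765) (nat_lit 303) (nat_lit 1) (nat_lit 293) (nat_lit 1) (nat_lit 292) (nat_lit 0) (nat_lit 243) (nat_lit 389) (nat_lit 388)) (XT.lf (nat_lit 836) (nat_lit 10840851799) (nat_lit 0) (nat_lit 20537856628) (nat_lit 760) (nat_lit 10840851799) (nat_lit 304) (nat_lit 1) (nat_lit 293) (nat_lit 1) (nat_lit 303) (nat_lit 1) (nat_lit 244) (nat_lit 389) (nat_lit 387))))) (XT.nd (nat_lit 234) (nat_lit 0) (nat_lit 152) (XT.nd (nat_lit 78) (nat_lit 0) (nat_lit 76) (XT.lf (nat_lit 836) (nat_lit 20335931601) (nat_lit 76) (nat_lit 10443353480) (nat_lit 0) (nat_lit 10443353480) (nat_lit 304) (nat_lit 1) (nat_lit 294) (nat_lit 1) (nat_lit 293) (nat_lit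 1) (nat_lit 245) (nat_lit 389) (nat_lit 386)) (XT.nd (nat_lit 78) (nat_lit 0) (nat_lit 0) (XT.lf (nat_lit 836) (nat_lit 9360434028) (nat_lit 0) (nat_lit 21536446257) (nat_lit 760) (nat_lit 9360434028) (nat_lit 305) (nat_lit 1) (nat_lit 294) (nat_lit 1) (nat_lit 304) (nat_lit 1) (nat_lit 246) (nat_lit 389) (nat_lit 385)) (XT.lf (nat_lit 836) (nat_lit 16835350263) (nat_lit 76) (nat_lit 11243033287) (nat_lit 0) (nat_lit 11243033287) (nat_lit 305) (nat_lit 1) (nat_lit 295) (nat_lit 1) (nat_lit 294) (nat_lit 1) (nat_lit 247) (nat_lit 389) (nat_lit 384)))) (XT.nd (nat_lit 156) (nat_lit 0) (nat_lit 76) (XT.nd (nat_lit 78) (nat_lit 0) (nat_lit 0) (XT.lf (nat_lit 836) (nat_lit 7381814841) (nat_lit 0) (nat_lit 23653313875) (nat_lit 760) (nat_lit 7381814841) (nat_lit 306) (nat_lit 1) (nat_lit 295) (nat_lit 1) (nat_lit 305) (nat_lit 1) (nat_lit 248) (nat_lit 389) (nat_lit 383)) (XT.lf (nat_lit 836) (nat_lit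 12409057402) (nat_lit 76) (nat_lit 12564158063) (nat_lit 0) (nat_lit 12564158063) (nat_lit 306) (nat_lit 1) (nat_lit 296) (nat_lit 1) (nat_lit 295) (nat_lit 1) (nat_lit 249) (nat_lit 389) (nat_lit 382))) (XT.nd (nat_lit 78) (nat_lit 0) (nat_lit 0) (XT.lf (nat_lit 836) (nat_lit 4981590219) (nat_lit 0) (nat_lit 26726820336) (nat_lit 760) (nat_lit 4981590219) (nat_lit 307) (nat_lit 1) (nat_lit 296) (nat_lit 1) (nat_lit 306) (nat_lit 1) (nat_lit 250) (nat_lit 389) (nat_lit 381)) (XT.lf (nat_lit 836) (nat_lit 7202696060) (nat_lit 76) (nat_lit 14329877767) (nat_lit 0) (nat_lit 14329877767) (nat_lit 307) (nat_lit 1) (nat_lit 297) (nat_lit 1) (nat_lit 296) (nat_lit 1) (nat_lit 251) (nat_lit 389) (nat_lit 380))))))) (XT.nd (nat_lit 936) (nat_lit 1900) (nat_lit 0) (XT.nd (nat_lit 468) (nat_lit 1368) (nat_lit 0) (XT.nd (nat_lit 234) (nat_lit 380) (nat_lit 0) (XT.nd (nat_lit 78) (nat_lit 1292) (nat_lit 0)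 (XT.lf (nat_lit 76) (nat_lit 2227793167) (nat_lit 0) (nat_lit 30613100470) (nat_lit 760) (nat_lit 2227793167) (nat_lit 298) (nat_lit 1) (nat_lit 297) (nat_lit 1) (nat_lit 307) (nat_lit 1) (nat_lit 252) (nat_lit 389) (nat_lit 379)) (XT.nd (nat_lit 78) (nat_lit 532) (nat_lit 0) (XT.lf (nat_lit 836) (nat_lit 1345531672) (nat_lit 0) (nat_lit 16471838150) (nat_lit 760) (nat_lit 16471838150) (nat_lit 298) (nat_lit 1) (nat_lit 287) (nat_lit 1) (nat_lit 297) (nat_lit 1) (nat_lit 253) (nat_lit 389) (nat_lit 378)) (XT.lf (nat_lit 532) (nat_lit 31931161112) (nat_lit 0) (nat_lit 806027949) (nat_lit 456) (nat_lit 806027949) (nat_lit 287) (nat_lit 1) (nat_lit 280) (nat_lit 1) (nat_lit 286) (nat_lit 1) (nat_lit 254) (nat_lit 389) (nat_lit 377)))) (XT.nd (nat_lit 78) (nat_lit 380) (nat_lit 0) (XT.lf (nat_lit 76) (nat_lit 13960248063) (nat_lit 0) (nat_lit 4886326196) (nat_lit 532) (nat_lit 13960248063) (nat_lit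 281) (nat_lit 1) (nat_lit 280) (nat_lit 1) (nat_lit 287) (nat_lit 1) (nat_lit 255) (nat_lit 389) (nat_lit 376)) (XT.nd (nat_lit 78) (nat_lit 0) (nat_lit 0) (XT.lf (nat_lit 456) (nat_lit 24022003477) (nat_lit 0) (nat_lit 4039868817) (nat_lit 380) (nat_lit 4039868817) (nat_lit 281) (nat_lit 1) (nat_lit 275) (nat_lit 1) (nat_lit 280) (nat_lit 1) (nat_lit 256) (nat_lit 389) (nat_lit 375)) (XT.lf (nat_lit 76) (nat_lit 9957674999) (nat_lit 0) (nat_lit 11496132658) (nat_lit 456) (nat_lit 9957674999) (nat_lit 276) (nat_lit 1) (nat_lit 275) (nat_lit 1) (nat_lit 281) (nat_lit 1) (nat_lit 257) (nat_lit 389) (nat_lit 374))))) (XT.nd (nat_lit 234) (nat_lit 684) (nat_lit 0) (XT.nd (nat_lit 78) (nat_lit 304) (nat_lit 0) (XT.lf (nat_lit 456) (nat_lit 15818829953) (nat_lit 0) (nat_lit 7463217051) (nat_lit 380) (nat_lit 7463217051) (nat_lit 276) (nat_lit 1) (nat_lit 270) (nat_lit 1) (nat_lit 275) (nat_lit 1) (nat_lit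 258) (nat_lit 389) (nat_lit 373)) (XT.nd (nat_lit 78) (nat_lit 304) (nat_lit 0) (XT.lf (nat_lit 76) (nat_lit 5829028604) (nat_lit 0) (nat_lit 18440364128) (nat_lit 456) (nat_lit 5829028604) (nat_lit 271) (nat_lit 1) (nat_lit 270) (nat_lit 1) (nat_lit 276) (nat_lit 1) (nat_lit 259) (nat_lit 389) (nat_lit 372)) (XT.lf (nat_lit 380) (nat_lit 7397991273) (nat_lit 0) (nat_lit 11035113137) (nat_lit 304) (nat_lit 11035113137) (nat_lit 271) (nat_lit 1) (nat_lit 266) (nat_lit 1) (nat_lit 270) (nat_lit 1) (nat_lit 260) (nat_lit 389) (nat_lit 371)))) (XT.nd (nat_lit 78) (nat_lit 684) (nat_lit 0) (XT.lf (nat_lit 76) (nat_lit 1609753537) (nat_lit 0) (nat_lit 25642741218) (nat_lit 380) (nat_lit 1609753537) (nat_lit 267) (nat_lit 1) (nat_lit 266) (nat_lit 1) (nat_lit 271) (nat_lit 1) (nat_lit 261) (nat_lit 389) (nat_lit 370)) (XT.nd (nat_lit 78) (nat_lit 304) (nat_lit 0) (XT.lf (nat_lit 76) (nat_lit 13564245868)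 (nat_lit 0) (nat_lit 1136031940) (nat_lit 380) (nat_lit 13564245868) (nat_lit 262) (nat_lit 1) (nat_lit 261) (nat_lit 1) (nat_lit 266) (nat_lit 1) (nat_lit 262) (nat_lit 389) (nat_lit 369)) (XT.lf (nat_lit 380) (nat_lit 22437401770) (nat_lit 0) (nat_lit 2626080054) (nat_lit 304) (nat_lit 2626080054) (nat_lit 262) (nat_lit 1) (nat_lit 257) (nat_lit 1) (nat_lit 261) (nat_lit 1) (nat_lit 263) (nat_lit 389) (nat_lit 368)))))) (XT.nd (nat_lit 468) (nat_lit 988) (nat_lit 0) (XT.nd (nat_lit 234) (nat_lit 608) (nat_lit 0) (XT.nd (nat_lit 78) (nat_lit 304) (nat_lit 0) (XT.lf (nat_lit 76) (nat_lit 8800935390) (nat_lit 0) (nat_lit 9522592896) (nat_lit 380) (nat_lit 8800935390) (nat_lit 258) (nat_lit 1) (nat_lit 257) (nat_lit 1) (nat_lit 262) (nat_lit 1) (nat_lit 264) (nat_lit 389) (nat_lit 367)) (XT.nd (nat_lit 78) (nat_lit 0) (nat_lit 0) (XT.lf (nat_lit 380) (nat_lit 12843012965) (nat_lit 0) (nat_lit 6867974065)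 (nat_lit 304) (nat_lit 6867974065) (nat_lit 258) (nat_lit 1) (nat_lit 253) (nat_lit 1) (nat_lit 257) (nat_lit 1) (nat_lit 265) (nat_lit 389) (nat_lit 366)) (XT.lf (nat_lit 76) (nat_lit 4050113115) (nat_lit 0) (nat_lit 17949182826) (nat_lit 380) (nat_lit 4050113115) (nat_lit 254) (nat_lit 1) (nat_lit 253) (nat_lit 1) (nat_lit 258) (nat_lit 1) (nat_lit 266) (nat_lit 389) (nat_lit 365)))) (XT.nd (nat_lit 78) (nat_lit 380) (nat_lit 0) (XT.lf (nat_lit 304) (nat_lit 3293783533) (nat_lit 0) (nat_lit 11118752196) (nat_lit 228) (nat_lit 11118752196) (nat_lit 254) (nat_lit 1) (nat_lit 250) (nat_lit 1) (nat_lit 253) (nat_lit 1) (nat_lit 267) (nat_lit 389) (nat_lit 364)) (XT.nd (nat_lit 78) (nat_lit 0) (nat_lit 0) (XT.lf (nat_lit 380) (nat_lit 23716961302) (nat_lit 0) (nat_lit 658100168) (nat_lit 304) (nat_lit 658100168) (nat_lit 250) (nat_lit 1) (nat_lit 245) (nat_lit 1) (nat_lit 249) (nat_lit 1) (nat_lit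 268) (nat_lit 389) (nat_lit 363)) (XT.lf (nat_lit 76) (nat_lit 9280622294) (nat_lit 0) (nat_lit 5976547832) (nat_lit 380) (nat_lit 9280622294) (nat_lit 246) (nat_lit 1) (nat_lit 245) (nat_lit 1) (nat_lit 250) (nat_lit 1) (nat_lit 269) (nat_lit 389) (nat_lit 362))))) (XT.nd (nat_lit 234) (nat_lit 532) (nat_lit 0) (XT.nd (nat_lit 78) (nat_lit 228) (nat_lit 0) (XT.lf (nat_lit 304) (nat_lit 13554642260) (nat_lit 0) (nat_lit 5253389834) (nat_lit 228) (nat_lit 5253389834) (nat_lit 246) (nat_lit 1) (nat_lit 242) (nat_lit 1) (nat_lit 245) (nat_lit 1) (nat_lit 270) (nat_lit 389) (nat_lit 361)) (XT.nd (nat_lit 78) (nat_lit 228) (nat_lit 0) (XT.lf (nat_lit 76) (nat_lit 4282121159) (nat_lit 0) (nat_lit 15032912133) (nat_lit 304) (nat_lit 4282121159) (nat_lit 243) (nat_lit 1) (nat_lit 242) (nat_lit 1) (nat_lit 246) (nat_lit 1) (nat_lit 271) (nat_lit 389) (nat_lit 360)) (XT.lf (nat_lit 304) (nat_lit 3569014143)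 (nat_lit 0) (nat_lit 9787217394) (nat_lit 228) (nat_lit 9787217394) (nat_lit 243) (nat_lit 1) (nat_lit 239) (nat_lit 1) (nat_lit 242) (nat_lit 1) (nat_lit 272) (nat_lit 389) (nat_lit 359)))) (XT.nd (nat_lit 156) (nat_lit 228) (nat_lit 0) (XT.nd (nat_lit 78) (nat_lit 0) (nat_lit 0) (XT.lf (nat_lit 304) (nat_lit 21479855253) (nat_lit 0) (nat_lit 613371948) (nat_lit 228) (nat_lit 613371948) (nat_lit 239) (nat_lit 1) (nat_lit 235) (nat_lit 1) (nat_lit 238) (nat_lit 1) (nat_lit 273) (nat_lit 389) (nat_lit 358)) (XT.lf (nat_lit 76) (nat_lit 8125214098) (nat_lit 0) (nat_lit 6020702060) (nat_lit 304) (nat_lit 8125214098) (nat_lit 236) (nat_lit 1) (nat_lit 235) (nat_lit 1) (nat_lit 239) (nat_lit 1) (nat_lit 274) (nat_lit 389) (nat_lit 357))) (XT.nd (nat_lit 78) (nat_lit 0) (nat_lit 0) (XT.lf (nat_lit 304) (nat_lit 11172913377) (nat_lit 0) (nat_lit 5339430202) (nat_lit 228) (nat_lit 5339430202) (nat_lit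 236) (nat_lit 1) (nat_lit 232) (nat_lit 1) (nat_lit 235) (nat_lit 1) (nat_lit 275) (nat_lit 389) (nat_lit 356)) (XT.lf (nat_lit 76) (nat_lit 3077011231) (nat_lit 0) (nat_lit 15289642176) (nat_lit 304) (nat_lit 3077011231) (nat_lit 233) (nat_lit 1) (nat_lit 232) (nat_lit 1) (nat_lit 236) (nat_lit 1) (nat_lit 276) (nat_lit 389) (nat_lit 355))))))))
noncomputable def ec209 : XT := (XT.nd (nat_lit 1950) (nat_lit 1976) (nat_lit 0) (XT.nd (nat_lit 936) (nat_lit 1216) (nat_lit 0) (XT.nd (nat_lit 468) (nat_lit 684) (nat_lit 0) (XT.nd (nat_lit 234) (nat_lit 380) (nat_lit 0) (XT.nd (nat_lit 78) (nat_lit 304) (nat_lit 0) (XT.lf (nat_lit 228) (nat_lit 1127519223) (nat_lit 0) (nat_lit 9957863422) (nat_lit 152) (nat_lit 9957863422) (nat_lit 233) (nat_lit 1) (nat_lit 230) (nat_lit 1) (nat_lit 232) (nat_lit 1) (nat_lit 277) (nat_lit 389) (nat_lit 354)) (XT.nd (nat_lit 78) (nat_lit 0) (nat_lit 0) (XT.lf (nat_lit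 304) (nat_lit 17036437399) (nat_lit 0) (nat_lit 1809393137) (nat_lit 228) (nat_lit 1809393137) (nat_lit 230) (nat_lit 1) (nat_lit 226) (nat_lit 1) (nat_lit 229) (nat_lit 1) (nat_lit 278) (nat_lit 389) (nat_lit 353)) (XT.lf (nat_lit 76) (nat_lit 5950423187) (nat_lit 0) (nat_lit 8370694562) (nat_lit 304) (nat_lit 5950423187) (nat_lit 227) (nat_lit 1) (nat_lit 226) (nat_lit 1) (nat_lit 230) (nat_lit 1) (nat_lit 279) (nat_lit 389) (nat_lit 352)))) (XT.nd (nat_lit 78) (nat_lit 228) (nat_lit 0) (XT.lf (nat_lit 228) (nat_lit 6874796101) (nat_lit 0) (nat_lit 6512451800) (nat_lit 152) (nat_lit 6512451800) (nat_lit 227) (nat_lit 1) (nat_lit 224) (nat_lit 1) (nat_lit 226) (nat_lit 1) (nat_lit 280) (nat_lit 389) (nat_lit 351)) (XT.nd (nat_lit 78) (nat_lit 228) (nat_lit 0) (XT.lf (nat_lit 76) (nat_lit 987689989) (nat_lit 0) (nat_lit 17564818470) (nat_lit 228) (nat_lit 987689989) (nat_lit 225) (nat_lit 1) (nat_lit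 224) (nat_lit 1) (nat_lit 227) (nat_lit 1) (nat_lit 281) (nat_lit 389) (nat_lit 350)) (XT.lf (nat_lit 76) (nat_lit 8151578769) (nat_lit 0) (nat_lit 2878846471) (nat_lit 228) (nat_lit 8151578769) (nat_lit 222) (nat_lit 1) (nat_lit 221) (nat_lit 1) (nat_lit 224) (nat_lit 1) (nat_lit 282) (nat_lit 389) (nat_lit 349))))) (XT.nd (nat_lit 234) (nat_lit 380) (nat_lit 0) (XT.nd (nat_lit 78) (nat_lit 152) (nat_lit 0) (XT.lf (nat_lit 228) (nat_lit 11319895809) (nat_lit 0) (nat_lit 3757898707) (nat_lit 152) (nat_lit 3757898707) (nat_lit 222) (nat_lit 1) (nat_lit 219) (nat_lit 1) (nat_lit 221) (nat_lit 1) (nat_lit 283) (nat_lit 389) (nat_lit 348)) (XT.nd (nat_lit 78) (nat_lit 152) (nat_lit 0) (XT.lf (nat_lit 76) (nat_lit 3194180096) (nat_lit 0) (nat_lit 12108676467) (nat_lit 228) (nat_lit 3194180096) (nat_lit 220) (nat_lit 1) (nat_lit 219) (nat_lit 1) (nat_lit 222) (nat_lit 1) (nat_lit 284) (nat_lit 389) (nat_lit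 347)) (XT.lf (nat_lit 228) (nat_lit 1496358374) (nat_lit 0) (nat_lit 8334424084) (nat_lit 152) (nat_lit 8334424084) (nat_lit 220) (nat_lit 1) (nat_lit 217) (nat_lit 1) (nat_lit 219) (nat_lit 1) (nat_lit 285) (nat_lit 389) (nat_lit 346)))) (XT.nd (nat_lit 78) (nat_lit 152) (nat_lit 0) (XT.lf (nat_lit 228) (nat_lit 14707176813) (nat_lit 0) (nat_lit 1567907322) (nat_lit 152) (nat_lit 1567907322) (nat_lit 217) (nat_lit 1) (nat_lit 214) (nat_lit 1) (nat_lit 216) (nat_lit 1) (nat_lit 286) (nat_lit 389) (nat_lit 345)) (XT.nd (nat_lit 78) (nat_lit 152) (nat_lit 0) (XT.lf (nat_lit 76) (nat_lit 4896055202) (nat_lit 0) (nat_lit 7731416041) (nat_lit 228) (nat_lit 4896055202) (nat_lit 215) (nat_lit 1) (nat_lit 214) (nat_lit 1) (nat_lit 217) (nat_lit 1) (nat_lit 287) (nat_lit 389) (nat_lit 344)) (XT.lf (nat_lit 228) (nat_lit 4986394517) (nat_lit 0) (nat_lit 6113470713) (nat_lit 152) (nat_lit 6113470713) (nat_lit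 215) (nat_lit 1) (nat_lit 212) (nat_lit 1) (nat_lit 214) (nat_lit 1) (nat_lit 288) (nat_lit 389) (nat_lit 343)))))) (XT.nd (nat_lit 468) (nat_lit 608) (nat_lit 0) (XT.nd (nat_lit 234) (nat_lit 304) (nat_lit 0) (XT.nd (nat_lit 78) (nat_lit 304) (nat_lit 0) (XT.lf (nat_lit 76) (nat_lit 163889035) (nat_lit 0) (nat_lit 16586245768) (nat_lit 228) (nat_lit 163889035) (nat_lit 213) (nat_lit 1) (nat_lit 212) (nat_lit 1) (nat_lit 215) (nat_lit 1) (nat_lit 289) (nat_lit 389) (nat_lit 342)) (XT.nd (nat_lit 78) (nat_lit 152) (nat_lit 0) (XT.lf (nat_lit 76) (nat_lit 6188182761) (nat_lit 0) (nat_lit 4236443630) (nat_lit 152) (nat_lit 6188182761) (nat_lit 211) (nat_lit 1) (nat_lit 210) (nat_lit 1) (nat_lit 212) (nat_lit 1) (nat_lit 290) (nat_lit 389) (nat_lit 341)) (XT.lf (nat_lit 228) (nat_lit 7678830328) (nat_lit 0) (nat_lit 4321681193) (nat_lit 152) (nat_lit 4321681193) (nat_lit 211) (nat_lit 1) (nat_lit 208)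 (nat_lit 1) (nat_lit 210) (nat_lit 1) (nat_lit 291) (nat_lit 389) (nat_lit 340)))) (XT.nd (nat_lit 78) (nat_lit 304) (nat_lit 0) (XT.lf (nat_lit 76) (nat_lit 1539552410) (nat_lit 0) (nat_lit 12960315931) (nat_lit 228) (nat_lit 1539552410) (nat_lit 209) (nat_lit 1) (nat_lit 208) (nat_lit 1) (nat_lit 211) (nat_lit 1) (nat_lit 292) (nat_lit 389) (nat_lit 339)) (XT.nd (nat_lit 78) (nat_lit 152) (nat_lit 0) (XT.lf (nat_lit 76) (nat_lit 7148353300) (nat_lit 0) (nat_lit 1462274106) (nat_lit 152) (nat_lit 7148353300) (nat_lit 207) (nat_lit 1) (nat_lit 206) (nat_lit 1) (nat_lit 208) (nat_lit 1) (nat_lit 293) (nat_lit 389) (nat_lit 338)) (XT.lf (nat_lit 228) (nat_lit 9723593874) (nat_lit 0) (nat_lit 2881280392) (nat_lit 152) (nat_lit 2881280392) (nat_lit 207) (nat_lit 1) (nat_lit 204) (nat_lit 1) (nat_lit 206) (nat_lit 1) (nat_lit 294) (nat_lit 389) (nat_lit 337))))) (XT.nd (nat_lit 234) (nat_lit 304) (nat_lit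 0) (XT.nd (nat_lit 78) (nat_lit 304) (nat_lit 0) (XT.lf (nat_lit 76) (nat_lit 2604422621) (nat_lit 0) (nat_lit 10009884457) (nat_lit 228) (nat_lit 2604422621) (nat_lit 205) (nat_lit 1) (nat_lit 204) (nat_lit 1) (nat_lit 207) (nat_lit 1) (nat_lit 295) (nat_lit 389) (nat_lit 336)) (XT.nd (nat_lit 78) (nat_lit 228) (nat_lit 0) (XT.lf (nat_lit 152) (nat_lit 747634891) (nat_lit 0) (nat_lit 7104358144) (nat_lit 76) (nat_lit 7104358144) (nat_lit 205) (nat_lit 1) (nat_lit 203) (nat_lit 1) (nat_lit 204) (nat_lit 1) (nat_lit 296) (nat_lit 389) (nat_lit 335)) (XT.lf (nat_lit 228) (nat_lit 11243625850) (nat_lit 0) (nat_lit 1728362774) (nat_lit 152) (nat_lit 1728362774) (nat_lit 203) (nat_lit 1) (nat_lit 200) (nat_lit 1) (nat_lit 202) (nat_lit 1) (nat_lit 297) (nat_lit 389) (nat_lit 334)))) (XT.nd (nat_lit 156) (nat_lit 228) (nat_lit 0) (XT.nd (nat_lit 78) (nat_lit 76) (nat_lit 0) (XT.lf (nat_lit 76) (nat_lit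 3416787834) (nat_lit 0) (nat_lit 7613633350) (nat_lit 228) (nat_lit 3416787834) (nat_lit 201) (nat_lit 1) (nat_lit 200) (nat_lit 1) (nat_lit 203) (nat_lit 1) (nat_lit 298) (nat_lit 389) (nat_lit 333)) (XT.lf (nat_lit 152) (nat_lit 2510727338) (nat_lit 0) (nat_lit 5844773026) (nat_lit 76) (nat_lit 5844773026) (nat_lit 201) (nat_lit 1) (nat_lit 199) (nat_lit 1) (nat_lit 200) (nat_lit 1) (nat_lit 299) (nat_lit 389) (nat_lit 332))) (XT.nd (nat_lit 78) (nat_lit 0) (nat_lit 0) (XT.lf (nat_lit 228) (nat_lit 12339683674) (nat_lit 0) (nat_lit 810429537) (nat_lit 152) (nat_lit 810429537) (nat_lit 199) (nat_lit 1) (nat_lit 196) (nat_lit 1) (nat_lit 198) (nat_lit 1) (nat_lit 300) (nat_lit 389) (nat_lit 331)) (XT.lf (nat_lit 76) (nat_lit 4024450186) (nat_lit 0) (nat_lit 5671827985) (nat_lit 228) (nat_lit 4024450186) (nat_lit 197) (nat_lit 1) (nat_lit 196) (nat_lit 1) (nat_lit 199) (nat_lit 1) (nat_lit 301)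 (nat_lit 389) (nat_lit 330))))))) (XT.nd (nat_lit 936) (nat_lit 988) (nat_lit 0) (XT.nd (nat_lit 468) (nat_lit 456) (nat_lit 0) (XT.nd (nat_lit 234) (nat_lit 228) (nat_lit 0) (XT.nd (nat_lit 78) (nat_lit 228) (nat_lit 0) (XT.lf (nat_lit 152) (nat_lit 3870958988) (nat_lit 0) (nat_lit 4808509233) (nat_lit 76) (nat_lit 4808509233) (nat_lit 197) (nat_lit 1) (nat_lit 195) (nat_lit 1) (nat_lit 196) (nat_lit 1) (nat_lit 302) (nat_lit 389) (nat_lit 329)) (XT.nd (nat_lit 78) (nat_lit 0) (nat_lit 0) (XT.lf (nat_lit 228) (nat_lit 13094292927) (nat_lit 0) (nat_lit 84362581) (nat_lit 152) (nat_lit 84362581) (nat_lit 195) (nat_lit 1) (nat_lit 192) (nat_lit 1) (nat_lit 194) (nat_lit 1) (nat_lit 303) (nat_lit 389) (nat_lit 328)) (XT.lf (nat_lit 76) (nat_lit 4466592155) (nat_lit 0) (nat_lit 4102486906) (nat_lit 228) (nat_lit 4466592155) (nat_lit 193) (nat_lit 1) (nat_lit 192) (nat_lit 1) (nat_lit 195) (nat_lit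 1) (nat_lit 304) (nat_lit 389) (nat_lit 327)))) (XT.nd (nat_lit 78) (nat_lit 152) (nat_lit 0) (XT.lf (nat_lit 152) (nat_lit 4904054581) (nat_lit 0) (nat_lit 3955972446) (nat_lit 76) (nat_lit 3955972446) (nat_lit 193) (nat_lit 1) (nat_lit 191) (nat_lit 1) (nat_lit 192) (nat_lit 1) (nat_lit 305) (nat_lit 389) (nat_lit 326)) (XT.nd (nat_lit 78) (nat_lit 152) (nat_lit 0) (XT.lf (nat_lit 0) (nat_lit 493196916) (nat_lit 0) (nat_lit 11616566154) (nat_lit 152) (nat_lit 493196916) (nat_lit 191) (nat_lit 3) (nat_lit 191) (nat_lit 1) (nat_lit 193) (nat_lit 1) (nat_lit 306) (nat_lit 389) (nat_lit 325)) (XT.lf (nat_lit 76) (nat_lit 4775311685) (nat_lit 0) (nat_lit 2838230879) (nat_lit 152) (nat_lit 4775311685) (nat_lit 190) (nat_lit 1) (nat_lit 189) (nat_lit 1) (nat_lit 191) (nat_lit 1) (nat_lit 307) (nat_lit 389) (nat_lit 324))))) (XT.nd (nat_lit 234) (nat_lit 228) (nat_lit 0) (XT.nd (nat_lit 78) (nat_lit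 152) (nat_lit 0) (XT.lf (nat_lit 152) (nat_lit 5672108355) (nat_lit 0) (nat_lit 3254588322) (nat_lit 76) (nat_lit 3254588322) (nat_lit 190) (nat_lit 1) (nat_lit 188) (nat_lit 1) (nat_lit 189) (nat_lit 1) (nat_lit 308) (nat_lit 389) (nat_lit 323)) (XT.nd (nat_lit 78) (nat_lit 152) (nat_lit 0) (XT.lf (nat_lit 0) (nat_lit 942649575) (nat_lit 0) (nat_lit 10093872975) (nat_lit 152) (nat_lit 942649575) (nat_lit 188) (nat_lit 3) (nat_lit 188) (nat_lit 1) (nat_lit 190) (nat_lit 1) (nat_lit 309) (nat_lit 389) (nat_lit 322)) (XT.lf (nat_lit 76) (nat_lit 4976884802) (nat_lit 0) (nat_lit 1823690758) (nat_lit 152) (nat_lit 4976884802) (nat_lit 187) (nat_lit 1) (nat_lit 186) (nat_lit 1) (nat_lit 188) (nat_lit 1) (nat_lit 310) (nat_lit 389) (nat_lit 321)))) (XT.nd (nat_lit 78) (nat_lit 152) (nat_lit 0) (XT.lf (nat_lit 152) (nat_lit 6226010453) (nat_lit 0) (nat_lit 2677557867) (nat_lit 76) (nat_lit 2677557867)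 (nat_lit 187) (nat_lit 1) (nat_lit 185) (nat_lit 1) (nat_lit 186) (nat_lit 1) (nat_lit 311) (nat_lit 389) (nat_lit 320)) (XT.nd (nat_lit 78) (nat_lit 152) (nat_lit 0) (XT.lf (nat_lit 0) (nat_lit 1286848948) (nat_lit 0) (nat_lit 8815583087) (nat_lit 152) (nat_lit 1286848948) (nat_lit 185) (nat_lit 3) (nat_lit 185) (nat_lit 1) (nat_lit 187) (nat_lit 1) (nat_lit 312) (nat_lit 389) (nat_lit 319)) (XT.lf (nat_lit 76) (nat_lit 5092804074) (nat_lit 0) (nat_lit 1013375080) (nat_lit 152) (nat_lit 5092804074) (nat_lit 184) (nat_lit 1) (nat_lit 183) (nat_lit 1) (nat_lit 185) (nat_lit 1) (nat_lit 313) (nat_lit 389) (nat_lit 318)))))) (XT.nd (nat_lit 468) (nat_lit 608) (nat_lit 0) (XT.nd (nat_lit 234) (nat_lit 152) (nat_lit 0) (XT.nd (nat_lit 78) (nat_lit 152) (nat_lit 0) (XT.lf (nat_lit 152) (nat_lit 6607442658) (nat_lit 0) (nat_lit 2202833483) (nat_lit 76) (nat_lit 2202833483) (nat_lit 184) (nat_lit 1) (nat_lit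 182) (nat_lit 1) (nat_lit 183) (nat_lit 1) (nat_lit 314) (nat_lit 389) (nat_lit 317)) (XT.nd (nat_lit 78) (nat_lit 152) (nat_lit 0) (XT.lf (nat_lit 0) (nat_lit 1545673634) (nat_lit 0) (nat_lit 7739581842) (nat_lit 152) (nat_lit 1545673634) (nat_lit 182) (nat_lit 3) (nat_lit 182) (nat_lit 1) (nat_lit 184) (nat_lit 1) (nat_lit 315) (nat_lit 389) (nat_lit 316)) (XT.lf (nat_lit 76) (nat_lit 5140632639) (nat_lit 0) (nat_lit 369915882) (nat_lit 152) (nat_lit 5140632639) (nat_lit 181) (nat_lit 1) (nat_lit 180) (nat_lit 1) (nat_lit 182) (nat_lit 1) (nat_lit 316) (nat_lit 389) (nat_lit 315)))) (XT.nd (nat_lit 78) (nat_lit 76) (nat_lit 0) (XT.lf (nat_lit 152) (nat_lit 6850519854) (nat_lit 0) (nat_lit 1812276558) (nat_lit 76) (nat_lit 1812276558) (nat_lit 181) (nat_lit 1) (nat_lit 179) (nat_lit 1) (nat_lit 180) (nat_lit 1) (nat_lit 317) (nat_lit 389) (nat_lit 314)) (XT.nd (nat_lit 78) (nat_lit 76) (nat_lit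 0) (XT.lf (nat_lit 0) (nat_lit 1735419828) (nat_lit 0) (nat_lit 6831163439) (nat_lit 152) (nat_lit 1735419828) (nat_lit 179) (nat_lit 3) (nat_lit 179) (nat_lit 1) (nat_lit 181) (nat_lit 1) (nat_lit 318) (nat_lit 389) (nat_lit 313)) (XT.lf (nat_lit 76) (nat_lit 141916555) (nat_lit 0) (nat_lit 4995005709) (nat_lit 76) (nat_lit 4995005709) (nat_lit 179) (nat_lit 3) (nat_lit 178) (nat_lit 1) (nat_lit 179) (nat_lit 1) (nat_lit 319) (nat_lit 389) (nat_lit 312))))) (XT.nd (nat_lit 234) (nat_lit 380) (nat_lit 0) (XT.nd (nat_lit 78) (nat_lit 76) (nat_lit 0) (XT.lf (nat_lit 152) (nat_lit 6983140046) (nat_lit 0) (nat_lit 1490964409) (nat_lit 76) (nat_lit 1490964409) (nat_lit 178) (nat_lit 1) (nat_lit 176) (nat_lit 1) (nat_lit 177) (nat_lit 1) (nat_lit 320) (nat_lit 389) (nat_lit 311)) (XT.nd (nat_lit 78) (nat_lit 76) (nat_lit 0) (XT.lf (nat_lit 0) (nat_lit 1869439239) (nat_lit 0) (nat_lit 6061720119) (nat_lit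 152) (nat_lit 1869439239) (nat_lit 176) (nat_lit 3) (nat_lit 176) (nat_lit 1) (nat_lit 178) (nat_lit 1) (nat_lit 321) (nat_lit 389) (nat_lit 310)) (XT.lf (nat_lit 76) (nat_lit 551335878) (nat_lit 0) (nat_lit 4543984335) (nat_lit 76) (nat_lit 4543984335) (nat_lit 176) (nat_lit 3) (nat_lit 175) (nat_lit 1) (nat_lit 176) (nat_lit 1) (nat_lit 322) (nat_lit 389) (nat_lit 309)))) (XT.nd (nat_lit 156) (nat_lit 228) (nat_lit 0) (XT.nd (nat_lit 78) (nat_lit 0) (nat_lit 0) (XT.lf (nat_lit 152) (nat_lit 7028094605) (nat_lit 0) (nat_lit 1226620109) (nat_lit 76) (nat_lit 1226620109) (nat_lit 175) (nat_lit 1) (nat_lit 173) (nat_lit 1) (nat_lit 174) (nat_lit 1) (nat_lit 323) (nat_lit 389) (nat_lit 308)) (XT.lf (nat_lit 0) (nat_lit 1958663766) (nat_lit 0) (nat_lit 5407663621) (nat_lit 152) (nat_lit 1958663766) (nat_lit 173) (nat_lit 3) (nat_lit 173) (nat_lit 1) (nat_lit 175) (nat_lit 1) (nat_lit 324) (nat_lit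 389) (nat_lit 307))) (XT.nd (nat_lit 78) (nat_lit 152) (nat_lit 0) (XT.lf (nat_lit 76) (nat_lit 867471845) (nat_lit 0) (nat_lit 4152233612) (nat_lit 76) (nat_lit 4152233612) (nat_lit 173) (nat_lit 3) (nat_lit 172) (nat_lit 1) (nat_lit 173) (nat_lit 1) (nat_lit 325) (nat_lit 389) (nat_lit 306)) (XT.lf (nat_lit 152) (nat_lit 7003981308) (nat_lit 0) (nat_lit 1009143399) (nat_lit 76) (nat_lit 1009143399) (nat_lit 172) (nat_lit 1) (nat_lit 170) (nat_lit 1) (nat_lit 171) (nat_lit 1) (nat_lit 326) (nat_lit 389) (nat_lit 305))))))))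
noncomputable def ec210 : XT := (XT.nd (nat_lit 1950) (nat_lit 1900) (nat_lit 0) (XT.nd (nat_lit 936) (nat_lit 912) (nat_lit 0) (XT.nd (nat_lit 468) (nat_lit 456) (nat_lit 0) (XT.nd (nat_lit 234) (nat_lit 228) (nat_lit 0) (XT.nd (nat_lit 78) (nat_lit 228) (nat_lit 0) (XT.lf (nat_lit 0) (nat_lit 2012037030) (nat_lit 0) (nat_lit 4849537747) (nat_lit 152) (nat_lit 2012037030) (nat_lit 170) (nat_lit 3) (nat_lit 170) (nat_lit 1) (nat_lit 172) (nat_lit 1) (nat_lit 327) (nat_lit 389) (nat_lit 304)) (XT.nd (nat_lit 78) (nat_lit 152) (nat_lit 0) (XT.lf (nat_lit 76) (nat_lit 1107848809) (nat_lit 0) (nat_lit 3810230443) (nat_lit 76) (nat_lit 3810230443) (nat_lit 170) (nat_lit 3) (nat_lit 169) (nat_lit 1) (nat_lit 170) (nat_lit 1) (nat_lit 328) (nat_lit 389) (nat_lit 303)) (XT.lf (nat_lit 152) (nat_lit 6925955120) (nat_lit 0) (nat_lit 830224772) (nat_lit 76) (nat_lit 830224772) (nat_lit 169) (nat_lit 1) (nat_lit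 167) (nat_lit 1) (nat_lit 168) (nat_lit 1) (nat_lit 329) (nat_lit 389) (nat_lit 302)))) (XT.nd (nat_lit 78) (nat_lit 228) (nat_lit 0) (XT.lf (nat_lit 0) (nat_lit 2036869275) (nat_lit 0) (nat_lit 4371288137) (nat_lit 152) (nat_lit 2036869275) (nat_lit 167) (nat_lit 3) (nat_lit 167) (nat_lit 1) (nat_lit 169) (nat_lit 1) (nat_lit 330) (nat_lit 389) (nat_lit 301)) (XT.nd (nat_lit 78) (nat_lit 152) (nat_lit 0) (XT.lf (nat_lit 76) (nat_lit 1286837171) (nat_lit 0) (nat_lit 3510093230) (nat_lit 76) (nat_lit 3510093230) (nat_lit 167) (nat_lit 3) (nat_lit 166) (nat_lit 1) (nat_lit 167) (nat_lit 1) (nat_lit 331) (nat_lit 389) (nat_lit 300)) (XT.lf (nat_lit 152) (nat_lit 6806345527) (nat_lit 0) (nat_lit 683027974) (nat_lit 76) (nat_lit 683027974) (nat_lit 166) (nat_lit 1) (nat_lit 164) (nat_lit 1) (nat_lit 165) (nat_lit 1) (nat_lit 332) (nat_lit 389) (nat_lit 299))))) (XT.nd (nat_lit 234) (nat_lit 228) (nat_lit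 0) (XT.nd (nat_lit 78) (nat_lit 228) (nat_lit 0) (XT.lf (nat_lit 0) (nat_lit 2039129233) (nat_lit 0) (nat_lit 3959661407) (nat_lit 152) (nat_lit 2039129233) (nat_lit 164) (nat_lit 3) (nat_lit 164) (nat_lit 1) (nat_lit 166) (nat_lit 1) (nat_lit 333) (nat_lit 389) (nat_lit 298)) (XT.nd (nat_lit 78) (nat_lit 152) (nat_lit 0) (XT.lf (nat_lit 76) (nat_lit 1416214806) (nat_lit 0) (nat_lit 3245293067) (nat_lit 76) (nat_lit 3245293067) (nat_lit 164) (nat_lit 3) (nat_lit 163) (nat_lit 1) (nat_lit 164) (nat_lit 1) (nat_lit 334) (nat_lit 389) (nat_lit 297)) (XT.lf (nat_lit 152) (nat_lit 6655164080) (nat_lit 0) (nat_lit 561928805) (nat_lit 76) (nat_lit 561928805) (nat_lit 163) (nat_lit 1) (nat_lit 161) (nat_lit 1) (nat_lit 162) (nat_lit 1) (nat_lit 335) (nat_lit 389) (nat_lit 296)))) (XT.nd (nat_lit 78) (nat_lit 228) (nat_lit 0) (XT.lf (nat_lit 0) (nat_lit 2023684132) (nat_lit 0) (nat_lit 3603710705) (nat_lit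 152) (nat_lit 2023684132) (nat_lit 161) (nat_lit 3) (nat_lit 161) (nat_lit 1) (nat_lit 163) (nat_lit 1) (nat_lit 336) (nat_lit 389) (nat_lit 295)) (XT.nd (nat_lit 78) (nat_lit 152) (nat_lit 0) (XT.lf (nat_lit 76) (nat_lit 1505628836) (nat_lit 0) (nat_lit 3010416048) (nat_lit 76) (nat_lit 3010416048) (nat_lit 161) (nat_lit 3) (nat_lit 160) (nat_lit 1) (nat_lit 161) (nat_lit 1) (nat_lit 337) (nat_lit 389) (nat_lit 294)) (XT.lf (nat_lit 152) (nat_lit 6480521645) (nat_lit 0) (nat_lit 462300218) (nat_lit 76) (nat_lit 462300218) (nat_lit 160) (nat_lit 1) (nat_lit 158) (nat_lit 1) (nat_lit 159) (nat_lit 1) (nat_lit 338) (nat_lit 389) (nat_lit 293)))))) (XT.nd (nat_lit 468) (nat_lit 456) (nat_lit 0) (XT.nd (nat_lit 234) (nat_lit 228) (nat_lit 0) (XT.nd (nat_lit 78) (nat_lit 228) (nat_lit 0) (XT.lf (nat_lit 0) (nat_lit 1994497054) (nat_lit 0) (nat_lit 3294388826) (nat_lit 152) (nat_lit 1994497054) (nat_lit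 158) (nat_lit 3) (nat_lit 158) (nat_lit 1) (nat_lit 160) (nat_lit 1) (nat_lit 339) (nat_lit 389) (nat_lit 292)) (XT.nd (nat_lit 78) (nat_lit 152) (nat_lit 0) (XT.lf (nat_lit 76) (nat_lit 1562975436) (nat_lit 0) (nat_lit 2800967599) (nat_lit 76) (nat_lit 2800967599) (nat_lit 158) (nat_lit 3) (nat_lit 157) (nat_lit 1) (nat_lit 158) (nat_lit 1) (nat_lit 340) (nat_lit 389) (nat_lit 291)) (XT.lf (nat_lit 152) (nat_lit 6288971373) (nat_lit 0) (nat_lit 380335534) (nat_lit 76) (nat_lit 380335534) (nat_lit 157) (nat_lit 1) (nat_lit 155) (nat_lit 1) (nat_lit 156) (nat_lit 1) (nat_lit 341) (nat_lit 389) (nat_lit 290)))) (XT.nd (nat_lit 78) (nat_lit 228) (nat_lit 0) (XT.lf (nat_lit 0) (nat_lit 1954789196) (nat_lit 0) (nat_lit 3024213373) (nat_lit 152) (nat_lit 1954789196) (nat_lit 155) (nat_lit 3) (nat_lit 155) (nat_lit 1) (nat_lit 157) (nat_lit 1) (nat_lit 342) (nat_lit 389) (nat_lit 289)) (XT.nd (nat_lit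 78) (nat_lit 152) (nat_lit 0) (XT.lf (nat_lit 76) (nat_lit 1594712203) (nat_lit 0) (nat_lit 2613211420) (nat_lit 76) (nat_lit 2613211420) (nat_lit 155) (nat_lit 3) (nat_lit 154) (nat_lit 1) (nat_lit 155) (nat_lit 1) (nat_lit 343) (nat_lit 389) (nat_lit 288)) (XT.lf (nat_lit 152) (nat_lit 6085790577) (nat_lit 0) (nat_lit 312902985) (nat_lit 76) (nat_lit 312902985) (nat_lit 154) (nat_lit 1) (nat_lit 152) (nat_lit 1) (nat_lit 153) (nat_lit 1) (nat_lit 344) (nat_lit 389) (nat_lit 287))))) (XT.nd (nat_lit 234) (nat_lit 228) (nat_lit 0) (XT.nd (nat_lit 78) (nat_lit 228) (nat_lit 0) (XT.lf (nat_lit 0) (nat_lit 1907173274) (nat_lit 0) (nat_lit 2786991192) (nat_lit 152) (nat_lit 1907173274) (nat_lit 152) (nat_lit 3) (nat_lit 152) (nat_lit 1) (nat_lit 154) (nat_lit 1) (nat_lit 345) (nat_lit 389) (nat_lit 286)) (XT.nd (nat_lit 78) (nat_lit 152) (nat_lit 0) (XT.lf (nat_lit 76) (nat_lit 1606115052) (nat_lit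 0) (nat_lit 2444036878) (nat_lit 76) (nat_lit 2444036878) (nat_lit 152) (nat_lit 3) (nat_lit 151) (nat_lit 1) (nat_lit 152) (nat_lit 1) (nat_lit 346) (nat_lit 389) (nat_lit 285)) (XT.lf (nat_lit 152) (nat_lit 5875212364) (nat_lit 0) (nat_lit 257426060) (nat_lit 76) (nat_lit 257426060) (nat_lit 151) (nat_lit 1) (nat_lit 149) (nat_lit 1) (nat_lit 150) (nat_lit 1) (nat_lit 347) (nat_lit 389) (nat_lit 284)))) (XT.nd (nat_lit 156) (nat_lit 152) (nat_lit 0) (XT.nd (nat_lit 78) (nat_lit 76) (nat_lit 0) (XT.lf (nat_lit 0) (nat_lit 1853763187) (nat_lit 0) (nat_lit 2577591565) (nat_lit 152) (nat_lit 1853763187) (nat_lit 149) (nat_lit 3) (nat_lit 149) (nat_lit 1) (nat_lit 151) (nat_lit 1) (nat_lit 348) (nat_lit 389) (nat_lit 283)) (XT.lf (nat_lit 76) (nat_lit 1601489471) (nat_lit 0) (nat_lit 2290849831) (nat_lit 76) (nat_lit 2290849831) (nat_lit 149) (nat_lit 3) (nat_lit 148) (nat_lit 1) (nat_lit 149) (nat_lit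 1) (nat_lit 349) (nat_lit 389) (nat_lit 282))) (XT.nd (nat_lit 78) (nat_lit 0) (nat_lit 0) (XT.lf (nat_lit 152) (nat_lit 5660615937) (nat_lit 0) (nat_lit 211785056) (nat_lit 76) (nat_lit 211785056) (nat_lit 148) (nat_lit 1) (nat_lit 146) (nat_lit 1) (nat_lit 147) (nat_lit 1) (nat_lit 350) (nat_lit 389) (nat_lit 281)) (XT.lf (nat_lit 0) (nat_lit 1796264147) (nat_lit 0) (nat_lit 2391759545) (nat_lit 152) (nat_lit 1796264147) (nat_lit 146) (nat_lit 3) (nat_lit 146) (nat_lit 1) (nat_lit 148) (nat_lit 1) (nat_lit 351) (nat_lit 389) (nat_lit 280))))))) (XT.nd (nat_lit 936) (nat_lit 988) (nat_lit 0) (XT.nd (nat_lit 468) (nat_lit 456) (nat_lit 0) (XT.nd (nat_lit 234) (nat_lit 228) (nat_lit 0) (XT.nd (nat_lit 78) (nat_lit 152) (nat_lit 0) (XT.lf (nat_lit 76) (nat_lit 1584344250) (nat_lit 0) (nat_lit 2151482724) (nat_lit 76) (nat_lit 2151482724) (nat_lit 146) (nat_lit 3) (nat_lit 145) (nat_lit 1) (nat_lit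 146) (nat_lit 1) (nat_lit 352) (nat_lit 389) (nat_lit 279)) (XT.nd (nat_lit 78) (nat_lit 0) (nat_lit 0) (XT.lf (nat_lit 152) (nat_lit 5444682917) (nat_lit 0) (nat_lit 174236090) (nat_lit 76) (nat_lit 174236090) (nat_lit 145) (nat_lit 1) (nat_lit 143) (nat_lit 1) (nat_lit 144) (nat_lit 1) (nat_lit 353) (nat_lit 389) (nat_lit 278)) (XT.lf (nat_lit 0) (nat_lit 1736046755) (nat_lit 0) (nat_lit 2225962292) (nat_lit 152) (nat_lit 1736046755) (nat_lit 143) (nat_lit 3) (nat_lit 143) (nat_lit 1) (nat_lit 145) (nat_lit 1) (nat_lit 354) (nat_lit 389) (nat_lit 277)))) (XT.nd (nat_lit 78) (nat_lit 152) (nat_lit 0) (XT.lf (nat_lit 76) (nat_lit 1557534315) (nat_lit 0) (nat_lit 2024120541) (nat_lit 76) (nat_lit 2024120541) (nat_lit 143) (nat_lit 3) (nat_lit 142) (nat_lit 1) (nat_lit 143) (nat_lit 1) (nat_lit 355) (nat_lit 389) (nat_lit 276)) (XT.nd (nat_lit 78) (nat_lit 0) (nat_lit 0) (XT.lf (nat_lit 152) (nat_lit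 5229525707) (nat_lit 0) (nat_lit 143344462) (nat_lit 76) (nat_lit 143344462) (nat_lit 142) (nat_lit 1) (nat_lit 140) (nat_lit 1) (nat_lit 141) (nat_lit 1) (nat_lit 356) (nat_lit 389) (nat_lit 275)) (XT.lf (nat_lit 0) (nat_lit 1674207862) (nat_lit 0) (nat_lit 2077262587) (nat_lit 152) (nat_lit 1674207862) (nat_lit 140) (nat_lit 3) (nat_lit 140) (nat_lit 1) (nat_lit 142) (nat_lit 1) (nat_lit 357) (nat_lit 389) (nat_lit 274))))) (XT.nd (nat_lit 234) (nat_lit 228) (nat_lit 0) (XT.nd (nat_lit 78) (nat_lit 152) (nat_lit 0) (XT.lf (nat_lit 76) (nat_lit 1523378173) (nat_lit 0) (nat_lit 1907239816) (nat_lit 76) (nat_lit 1907239816) (nat_lit 140) (nat_lit 3) (nat_lit 139) (nat_lit 1) (nat_lit 140) (nat_lit 1) (nat_lit 358) (nat_lit 389) (nat_lit 273)) (XT.nd (nat_lit 78) (nat_lit 0) (nat_lit 0) (XT.lf (nat_lit 152) (nat_lit 5016792881) (nat_lit 0) (nat_lit 117929844) (nat_lit 76) (nat_lit 117929844) (nat_lit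 139) (nat_lit 1) (nat_lit 137) (nat_lit 1) (nat_lit 138) (nat_lit 1) (nat_lit 359) (nat_lit 389) (nat_lit 272)) (XT.lf (nat_lit 0) (nat_lit 1611620571) (nat_lit 0) (nat_lit 1943214691) (nat_lit 152) (nat_lit 1611620571) (nat_lit 137) (nat_lit 3) (nat_lit 137) (nat_lit 1) (nat_lit 139) (nat_lit 1) (nat_lit 360) (nat_lit 389) (nat_lit 271)))) (XT.nd (nat_lit 78) (nat_lit 152) (nat_lit 0) (XT.lf (nat_lit 76) (nat_lit 1483754457) (nat_lit 0) (nat_lit 1799558381) (nat_lit 76) (nat_lit 1799558381) (nat_lit 137) (nat_lit 3) (nat_lit 136) (nat_lit 1) (nat_lit 137) (nat_lit 1) (nat_lit 361) (nat_lit 389) (nat_lit 270)) (XT.nd (nat_lit 78) (nat_lit 0) (nat_lit 0) (XT.lf (nat_lit 152) (nat_lit 4807755671) (nat_lit 0) (nat_lit 97021174) (nat_lit 76) (nat_lit 97021174) (nat_lit 136) (nat_lit 1) (nat_lit 134) (nat_lit 1) (nat_lit 135) (nat_lit 1) (nat_lit 362) (nat_lit 389) (nat_lit 269)) (XT.lf (nat_lit 0)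 (nat_lit 1548975298) (nat_lit 0) (nat_lit 1821778601) (nat_lit 152) (nat_lit 1548975298) (nat_lit 134) (nat_lit 3) (nat_lit 134) (nat_lit 1) (nat_lit 136) (nat_lit 1) (nat_lit 363) (nat_lit 389) (nat_lit 268)))))) (XT.nd (nat_lit 468) (nat_lit 532) (nat_lit 0) (XT.nd (nat_lit 234) (nat_lit 228) (nat_lit 0) (XT.nd (nat_lit 78) (nat_lit 152) (nat_lit 0) (XT.lf (nat_lit 76) (nat_lit 1440181287) (nat_lit 0) (nat_lit 1699993957) (nat_lit 76) (nat_lit 1699993957) (nat_lit 134) (nat_lit 3) (nat_lit 133) (nat_lit 1) (nat_lit 134) (nat_lit 1) (nat_lit 364) (nat_lit 389) (nat_lit 267)) (XT.nd (nat_lit 78) (nat_lit 0) (nat_lit 0) (XT.lf (nat_lit 152) (nat_lit 4603378919) (nat_lit 0) (nat_lit 79819560) (nat_lit 76) (nat_lit 79819560) (nat_lit 133) (nat_lit 1) (nat_lit 131) (nat_lit 1) (nat_lit 132) (nat_lit 1) (nat_lit 365) (nat_lit 389) (nat_lit 266)) (XT.lf (nat_lit 0) (nat_lit 1486813493) (nat_lit 0) (nat_lit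 1711249446) (nat_lit 152) (nat_lit 1486813493) (nat_lit 131) (nat_lit 3) (nat_lit 131) (nat_lit 1) (nat_lit 133) (nat_lit 1) (nat_lit 366) (nat_lit 389) (nat_lit 265)))) (XT.nd (nat_lit 78) (nat_lit 152) (nat_lit 0) (XT.lf (nat_lit 76) (nat_lit 1393881493) (nat_lit 0) (nat_lit 1607630019) (nat_lit 76) (nat_lit 1607630019) (nat_lit 131) (nat_lit 3) (nat_lit 130) (nat_lit 1) (nat_lit 131) (nat_lit 1) (nat_lit 367) (nat_lit 389) (nat_lit 264)) (XT.nd (nat_lit 78) (nat_lit 0) (nat_lit 0) (XT.lf (nat_lit 152) (nat_lit 4404379258) (nat_lit 0) (nat_lit 65667750) (nat_lit 76) (nat_lit 65667750) (nat_lit 130) (nat_lit 1) (nat_lit 128) (nat_lit 1) (nat_lit 129) (nat_lit 1) (nat_lit 368) (nat_lit 389) (nat_lit 263)) (XT.lf (nat_lit 0) (nat_lit 1425555314) (nat_lit 0) (nat_lit 1610199328) (nat_lit 152) (nat_lit 1425555314) (nat_lit 128) (nat_lit 3) (nat_lit 128) (nat_lit 1) (nat_lit 130) (nat_lit 1) (nat_lit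 369) (nat_lit 389) (nat_lit 262))))) (XT.nd (nat_lit 234) (nat_lit 304) (nat_lit 0) (XT.nd (nat_lit 78) (nat_lit 152) (nat_lit 0) (XT.lf (nat_lit 76) (nat_lit 1345836215) (nat_lit 0) (nat_lit 1521687657) (nat_lit 76) (nat_lit 1521687657) (nat_lit 128) (nat_lit 3) (nat_lit 127) (nat_lit 1) (nat_lit 128) (nat_lit 1) (nat_lit 370) (nat_lit 389) (nat_lit 261)) (XT.nd (nat_lit 78) (nat_lit 0) (nat_lit 0) (XT.lf (nat_lit 152) (nat_lit 4211272791) (nat_lit 0) (nat_lit 54025020) (nat_lit 76) (nat_lit 54025020) (nat_lit 127) (nat_lit 1) (nat_lit 125) (nat_lit 1) (nat_lit 126) (nat_lit 1) (nat_lit 371) (nat_lit 389) (nat_lit 260)) (XT.lf (nat_lit 0) (nat_lit 1365522336) (nat_lit 0) (nat_lit 1517429423) (nat_lit 152) (nat_lit 1365522336) (nat_lit 125) (nat_lit 3) (nat_lit 125) (nat_lit 1) (nat_lit 127) (nat_lit 1) (nat_lit 372) (nat_lit 389) (nat_lit 259)))) (XT.nd (nat_lit 156) (nat_lit 76) (nat_lit 0) (XT.nd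 (nat_lit 78) (nat_lit 152) (nat_lit 0) (XT.lf (nat_lit 76) (nat_lit 1296828938) (nat_lit 0) (nat_lit 1441502354) (nat_lit 76) (nat_lit 1441502354) (nat_lit 125) (nat_lit 3) (nat_lit 124) (nat_lit 1) (nat_lit 125) (nat_lit 1) (nat_lit 373) (nat_lit 389) (nat_lit 258)) (XT.lf (nat_lit 152) (nat_lit 4024414143) (nat_lit 0) (nat_lit 44446518) (nat_lit 76) (nat_lit 44446518) (nat_lit 124) (nat_lit 1) (nat_lit 122) (nat_lit 1) (nat_lit 123) (nat_lit 1) (nat_lit 374) (nat_lit 389) (nat_lit 257))) (XT.nd (nat_lit 78) (nat_lit 76) (nat_lit 0) (XT.lf (nat_lit 0) (nat_lit 1306956177) (nat_lit 0) (nat_lit 1431930514) (nat_lit 152) (nat_lit 1306956177) (nat_lit 122) (nat_lit 3) (nat_lit 122) (nat_lit 1) (nat_lit 124) (nat_lit 1) (nat_lit 375) (nat_lit 389) (nat_lit 256)) (XT.lf (nat_lit 76) (nat_lit 1247481666) (nat_lit 0) (nat_lit 1366504843) (nat_lit 76) (nat_lit 1366504843) (nat_lit 122) (nat_lit 3) (nat_lit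 121) (nat_lit 1) (nat_lit 122) (nat_lit 1) (nat_lit 376) (nat_lit 389) (nat_lit 255))))))))
noncomputable def ec211 : XT := (XT.nd (nat_lit 1950) (nat_lit 1900) (nat_lit 0) (XT.nd (nat_lit 936) (nat_lit 1064) (nat_lit 0) (XT.nd (nat_lit 468) (nat_lit 456) (nat_lit 0) (XT.nd (nat_lit 234) (nat_lit 228) (nat_lit 0) (XT.nd (nat_lit 78) (nat_lit 76) (nat_lit 0) (XT.lf (nat_lit 152) (nat_lit 3844028423) (nat_lit 0) (nat_lit 36566260) (nat_lit 76) (nat_lit 36566260) (nat_lit 121) (nat_lit 1) (nat_lit 119) (nat_lit 1) (nat_lit 120) (nat_lit 1) (nat_lit 377) (nat_lit 389) (nat_lit 254)) (XT.nd (nat_lit 78) (nat_lit 76) (nat_lit 0) (XT.lf (nat_lit 0) (nat_lit 1250033769) (nat_lit 0) (nat_lit 1352850465) (nat_lit 152) (nat_lit 1250033769) (nat_lit 119) (nat_lit 3) (nat_lit 119) (nat_lit 1) (nat_lit 121) (nat_lit 1) (nat_lit 378) (nat_lit 389) (nat_lit 253)) (XT.lf (nat_lit 76) (nat_lit 1198284624) (nat_lit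 0) (nat_lit 1296205286) (nat_lit 76) (nat_lit 1296205286) (nat_lit 119) (nat_lit 3) (nat_lit 118) (nat_lit 1) (nat_lit 119) (nat_lit 1) (nat_lit 379) (nat_lit 389) (nat_lit 252)))) (XT.nd (nat_lit 78) (nat_lit 76) (nat_lit 0) (XT.lf (nat_lit 152) (nat_lit 3670237362) (nat_lit 0) (nat_lit 30083152) (nat_lit 76) (nat_lit 30083152) (nat_lit 118) (nat_lit 1) (nat_lit 116) (nat_lit 1) (nat_lit 117) (nat_lit 1) (nat_lit 380) (nat_lit 389) (nat_lit 251)) (XT.nd (nat_lit 78) (nat_lit 76) (nat_lit 0) (XT.lf (nat_lit 0) (nat_lit 1194879864) (nat_lit 0) (nat_lit 1279467414) (nat_lit 152) (nat_lit 1194879864) (nat_lit 116) (nat_lit 3) (nat_lit 116) (nat_lit 1) (nat_lit 118) (nat_lit 1) (nat_lit 381) (nat_lit 389) (nat_lit 250)) (XT.lf (nat_lit 76) (nat_lit 1149620650) (nat_lit 0) (nat_lit 1230180221) (nat_lit 76) (nat_lit 1230180221) (nat_lit 116) (nat_lit 3) (nat_lit 115) (nat_lit 1) (nat_lit 116) (nat_lit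 1) (nat_lit 382) (nat_lit 389) (nat_lit 249))))) (XT.nd (nat_lit 234) (nat_lit 228) (nat_lit 0) (XT.nd (nat_lit 78) (nat_lit 76) (nat_lit 0) (XT.lf (nat_lit 152) (nat_lit 3503080661) (nat_lit 0) (nat_lit 24749484) (nat_lit 76) (nat_lit 24749484) (nat_lit 115) (nat_lit 1) (nat_lit 113) (nat_lit 1) (nat_lit 114) (nat_lit 1) (nat_lit 383) (nat_lit 389) (nat_lit 248)) (XT.nd (nat_lit 78) (nat_lit 76) (nat_lit 0) (XT.lf (nat_lit 0) (nat_lit 1141577277) (nat_lit 0) (nat_lit 1211167664) (nat_lit 152) (nat_lit 1141577277) (nat_lit 113) (nat_lit 3) (nat_lit 113) (nat_lit 1) (nat_lit 115) (nat_lit 1) (nat_lit 384) (nat_lit 389) (nat_lit 247)) (XT.lf (nat_lit 76) (nat_lit 1101785205) (nat_lit 0) (nat_lit 1168061764) (nat_lit 76) (nat_lit 1168061764) (nat_lit 113) (nat_lit 3) (nat_lit 112) (nat_lit 1) (nat_lit 113) (nat_lit 1) (nat_lit 385) (nat_lit 389) (nat_lit 246)))) (XT.nd (nat_lit 78) (nat_lit 76) (nat_lit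 0) (XT.lf (nat_lit 152) (nat_lit 3342533414) (nat_lit 0) (nat_lit 20361462) (nat_lit 76) (nat_lit 20361462) (nat_lit 112) (nat_lit 1) (nat_lit 110) (nat_lit 1) (nat_lit 111) (nat_lit 1) (nat_lit 386) (nat_lit 389) (nat_lit 245)) (XT.nd (nat_lit 78) (nat_lit 76) (nat_lit 0) (XT.lf (nat_lit 0) (nat_lit 1090175266) (nat_lit 0) (nat_lit 1147427449) (nat_lit 152) (nat_lit 1090175266) (nat_lit 110) (nat_lit 3) (nat_lit 110) (nat_lit 1) (nat_lit 112) (nat_lit 1) (nat_lit 387) (nat_lit 389) (nat_lit 244)) (XT.lf (nat_lit 76) (nat_lit 1055002797) (nat_lit 0) (nat_lit 1109528686) (nat_lit 76) (nat_lit 1109528686) (nat_lit 110) (nat_lit 3) (nat_lit 109) (nat_lit 1) (nat_lit 110) (nat_lit 1) (nat_lit 388) (nat_lit 389) (nat_lit 243)))))) (XT.nd (nat_lit 468) (nat_lit 608) (nat_lit 0) (XT.nd (nat_lit 234) (nat_lit 228) (nat_lit 0) (XT.nd (nat_lit 78) (nat_lit 76) (nat_lit 0) (XT.lf (nat_lit 152) (nat_lit 3188520308)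 (nat_lit 0) (nat_lit 16751425) (nat_lit 76) (nat_lit 16751425) (nat_lit 109) (nat_lit 1) (nat_lit 107) (nat_lit 1) (nat_lit 108) (nat_lit 1) (nat_lit 389) (nat_lit 389) (nat_lit 242)) (XT.nd (nat_lit 78) (nat_lit 76) (nat_lit 0) (XT.lf (nat_lit 0) (nat_lit 1040696379) (nat_lit 0) (nat_lit 1087797892) (nat_lit 152) (nat_lit 1040696379) (nat_lit 107) (nat_lit 3) (nat_lit 107) (nat_lit 1) (nat_lit 109) (nat_lit 1) (nat_lit 390) (nat_lit 389) (nat_lit 241)) (XT.lf (nat_lit 76) (nat_lit 1009440443) (nat_lit 0) (nat_lit 1054299027) (nat_lit 76) (nat_lit 1054299027) (nat_lit 107) (nat_lit 3) (nat_lit 106) (nat_lit 1) (nat_lit 107) (nat_lit 1) (nat_lit 391) (nat_lit 389) (nat_lit 240)))) (XT.nd (nat_lit 78) (nat_lit 76) (nat_lit 0) (XT.lf (nat_lit 152) (nat_lit 3040927163) (nat_lit 0) (nat_lit 13781438) (nat_lit 76) (nat_lit 13781438) (nat_lit 106) (nat_lit 1) (nat_lit 104) (nat_lit 1) (nat_lit 105) (nat_lit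 1) (nat_lit 392) (nat_lit 389) (nat_lit 239)) (XT.nd (nat_lit 78) (nat_lit 76) (nat_lit 0) (XT.lf (nat_lit 0) (nat_lit 993142049) (nat_lit 0) (nat_lit 1031892580) (nat_lit 152) (nat_lit 993142049) (nat_lit 104) (nat_lit 3) (nat_lit 104) (nat_lit 1) (nat_lit 106) (nat_lit 1) (nat_lit 393) (nat_lit 389) (nat_lit 238)) (XT.lf (nat_lit 76) (nat_lit 965218704) (nat_lit 0) (nat_lit 1002123972) (nat_lit 76) (nat_lit 1002123972) (nat_lit 104) (nat_lit 3) (nat_lit 103) (nat_lit 1) (nat_lit 104) (nat_lit 1) (nat_lit 394) (nat_lit 389) (nat_lit 237))))) (XT.nd (nat_lit 234) (nat_lit 380) (nat_lit 0) (XT.nd (nat_lit 78) (nat_lit 76) (nat_lit 0) (XT.lf (nat_lit 152) (nat_lit 2899610317) (nat_lit 0) (nat_lit 11338023) (nat_lit 76) (nat_lit 11338023) (nat_lit 103) (nat_lit 1) (nat_lit 101) (nat_lit 1) (nat_lit 102) (nat_lit 1) (nat_lit 395) (nat_lit 389) (nat_lit 236)) (XT.nd (nat_lit 78) (nat_lit 76) (nat_lit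 0) (XT.lf (nat_lit 0) (nat_lit 947497148) (nat_lit 0) (nat_lit 979377306) (nat_lit 152) (nat_lit 947497148) (nat_lit 101) (nat_lit 3) (nat_lit 101) (nat_lit 1) (nat_lit 103) (nat_lit 1) (nat_lit 396) (nat_lit 389) (nat_lit 235)) (XT.lf (nat_lit 76) (nat_lit 922420724) (nat_lit 0) (nat_lit 952782779) (nat_lit 76) (nat_lit 952782779) (nat_lit 101) (nat_lit 3) (nat_lit 100) (nat_lit 1) (nat_lit 101) (nat_lit 1) (nat_lit 397) (nat_lit 389) (nat_lit 234)))) (XT.nd (nat_lit 156) (nat_lit 228) (nat_lit 0) (XT.nd (nat_lit 78) (nat_lit 0) (nat_lit 0) (XT.lf (nat_lit 152) (nat_lit 2764404217) (nat_lit 0) (nat_lit 9327820) (nat_lit 76) (nat_lit 9327820) (nat_lit 100) (nat_lit 1) (nat_lit 98) (nat_lit 1) (nat_lit 99) (nat_lit 1) (nat_lit 398) (nat_lit 389) (nat_lit 233)) (XT.lf (nat_lit 0) (nat_lit 903733702) (nat_lit 0) (nat_lit 929961586) (nat_lit 152) (nat_lit 903733702) (nat_lit 98) (nat_lit 3) (nat_lit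 98) (nat_lit 1) (nat_lit 100) (nat_lit 1) (nat_lit 399) (nat_lit 389) (nat_lit 232))) (XT.nd (nat_lit 78) (nat_lit 152) (nat_lit 0) (XT.lf (nat_lit 76) (nat_lit 881099630) (nat_lit 0) (nat_lit 906078568) (nat_lit 76) (nat_lit 906078568) (nat_lit 98) (nat_lit 3) (nat_lit 97) (nat_lit 1) (nat_lit 98) (nat_lit 1) (nat_lit 400) (nat_lit 389) (nat_lit 231)) (XT.lf (nat_lit 152) (nat_lit 2635127555) (nat_lit 0) (nat_lit 7674020) (nat_lit 76) (nat_lit 7674020) (nat_lit 97) (nat_lit 1) (nat_lit 95) (nat_lit 1) (nat_lit 96) (nat_lit 1) (nat_lit 401) (nat_lit 389) (nat_lit 230))))))) (XT.nd (nat_lit 1014) (nat_lit 988) (nat_lit 0) (XT.nd (nat_lit 468) (nat_lit 456) (nat_lit 0) (XT.nd (nat_lit 234) (nat_lit 228) (nat_lit 0) (XT.nd (nat_lit 78) (nat_lit 228) (nat_lit 0) (XT.lf (nat_lit 0) (nat_lit 861813908) (nat_lit 0) (nat_lit 883391654) (nat_lit 152) (nat_lit 861813908) (nat_lit 95) (nat_lit 3) (nat_lit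 95) (nat_lit 1) (nat_lit 97) (nat_lit 1) (nat_lit 402) (nat_lit 389) (nat_lit 229)) (XT.nd (nat_lit 78) (nat_lit 152) (nat_lit 0) (XT.lf (nat_lit 76) (nat_lit 841284576) (nat_lit 0) (nat_lit 861834810) (nat_lit 76) (nat_lit 861834810) (nat_lit 95) (nat_lit 3) (nat_lit 94) (nat_lit 1) (nat_lit 95) (nat_lit 1) (nat_lit 403) (nat_lit 389) (nat_lit 228)) (XT.lf (nat_lit 152) (nat_lit 2511588213) (nat_lit 0) (nat_lit 6313435) (nat_lit 76) (nat_lit 6313435) (nat_lit 94) (nat_lit 1) (nat_lit 92) (nat_lit 1) (nat_lit 93) (nat_lit 1) (nat_lit 404) (nat_lit 389) (nat_lit 227)))) (XT.nd (nat_lit 78) (nat_lit 228) (nat_lit 0) (XT.lf (nat_lit 0) (nat_lit 821692583) (nat_lit 0) (nat_lit 839444648) (nat_lit 152) (nat_lit 821692583) (nat_lit 92) (nat_lit 3) (nat_lit 92) (nat_lit 1) (nat_lit 94) (nat_lit 1) (nat_lit 405) (nat_lit 389) (nat_lit 226)) (XT.nd (nat_lit 78) (nat_lit 152) (nat_lit 0) (XT.lf (nat_lit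 76) (nat_lit 802985694) (nat_lit 0) (nat_lit 819892422) (nat_lit 76) (nat_lit 819892422) (nat_lit 92) (nat_lit 3) (nat_lit 91) (nat_lit 1) (nat_lit 92) (nat_lit 1) (nat_lit 406) (nat_lit 389) (nat_lit 225)) (XT.lf (nat_lit 152) (nat_lit 2393587221) (nat_lit 0) (nat_lit 5194079) (nat_lit 76) (nat_lit 5194079) (nat_lit 91) (nat_lit 1) (nat_lit 89) (nat_lit 1) (nat_lit 90) (nat_lit 1) (nat_lit 407) (nat_lit 389) (nat_lit 224))))) (XT.nd (nat_lit 234) (nat_lit 228) (nat_lit 0) (XT.nd (nat_lit 78) (nat_lit 228) (nat_lit 0) (XT.lf (nat_lit 0) (nat_lit 783319139) (nat_lit 0) (nat_lit 797923807) (nat_lit 152) (nat_lit 783319139) (nat_lit 89) (nat_lit 3) (nat_lit 89) (nat_lit 1) (nat_lit 91) (nat_lit 1) (nat_lit 408) (nat_lit 389) (nat_lit 223)) (XT.nd (nat_lit 78) (nat_lit 152) (nat_lit 0) (XT.lf (nat_lit 76) (nat_lit 766198118) (nat_lit 0) (nat_lit 780107326) (nat_lit 76) (nat_lit 780107326) (nat_lit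 89) (nat_lit 3) (nat_lit 88) (nat_lit 1) (nat_lit 89) (nat_lit 1) (nat_lit 409) (nat_lit 389) (nat_lit 222)) (XT.lf (nat_lit 152) (nat_lit 2280921923) (nat_lit 0) (nat_lit 4273181) (nat_lit 76) (nat_lit 4273181) (nat_lit 88) (nat_lit 1) (nat_lit 86) (nat_lit 1) (nat_lit 87) (nat_lit 1) (nat_lit 410) (nat_lit 389) (nat_lit 221)))) (XT.nd (nat_lit 156) (nat_lit 152) (nat_lit 0) (XT.nd (nat_lit 78) (nat_lit 76) (nat_lit 0) (XT.lf (nat_lit 0) (nat_lit 746639182) (nat_lit 0) (nat_lit 758654478) (nat_lit 152) (nat_lit 746639182) (nat_lit 86) (nat_lit 3) (nat_lit 86) (nat_lit 1) (nat_lit 88) (nat_lit 1) (nat_lit 411) (nat_lit 389) (nat_lit 220)) (XT.lf (nat_lit 76) (nat_lit 730905279) (nat_lit 0) (nat_lit 742348419) (nat_lit 76) (nat_lit 742348419) (nat_lit 86) (nat_lit 3) (nat_lit 85) (nat_lit 1) (nat_lit 86) (nat_lit 1) (nat_lit 412) (nat_lit 389) (nat_lit 219))) (XT.nd (nat_lit 78) (nat_lit 0) (nat_lit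 0) (XT.lf (nat_lit 152) (nat_lit 2173388486) (nat_lit 0) (nat_lit 3515557) (nat_lit 76) (nat_lit 3515557) (nat_lit 85) (nat_lit 1) (nat_lit 83) (nat_lit 1) (nat_lit 84) (nat_lit 1) (nat_lit 413) (nat_lit 389) (nat_lit 218)) (XT.lf (nat_lit 0) (nat_lit 711595796) (nat_lit 0) (nat_lit 721480810) (nat_lit 152) (nat_lit 711595796) (nat_lit 83) (nat_lit 3) (nat_lit 83) (nat_lit 1) (nat_lit 85) (nat_lit 1) (nat_lit 414) (nat_lit 389) (nat_lit 217)))))) (XT.nd (nat_lit 468) (nat_lit 532) (nat_lit 0) (XT.nd (nat_lit 234) (nat_lit 228) (nat_lit 0) (XT.nd (nat_lit 78) (nat_lit 152) (nat_lit 0) (XT.lf (nat_lit 76) (nat_lit 697081574) (nat_lit 0) (nat_lit 706495873) (nat_lit 76) (nat_lit 706495873) (nat_lit 83) (nat_lit 3) (nat_lit 82) (nat_lit 1) (nat_lit 83) (nat_lit 1) (nat_lit 415) (nat_lit 389) (nat_lit 216)) (XT.nd (nat_lit 78) (nat_lit 0) (nat_lit 0) (XT.lf (nat_lit 152) (nat_lit 2070783871) (nat_lit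 0) (nat_lit 2892257) (nat_lit 76) (nat_lit 2892257) (nat_lit 82) (nat_lit 1) (nat_lit 80) (nat_lit 1) (nat_lit 81) (nat_lit 1) (nat_lit 416) (nat_lit 389) (nat_lit 215)) (XT.lf (nat_lit 0) (nat_lit 678130568) (nat_lit 0) (nat_lit 686262994) (nat_lit 152) (nat_lit 678130568) (nat_lit 80) (nat_lit 3) (nat_lit 80) (nat_lit 1) (nat_lit 82) (nat_lit 1) (nat_lit 417) (nat_lit 389) (nat_lit 214)))) (XT.nd (nat_lit 78) (nat_lit 152) (nat_lit 0) (XT.lf (nat_lit 76) (nat_lit 664694538) (nat_lit 0) (nat_lit 672439705) (nat_lit 76) (nat_lit 672439705) (nat_lit 80) (nat_lit 3) (nat_lit 79) (nat_lit 1) (nat_lit 80) (nat_lit 1) (nat_lit 418) (nat_lit 389) (nat_lit 213)) (XT.nd (nat_lit 78) (nat_lit 0) (nat_lit 0) (XT.lf (nat_lit 152) (nat_lit 1972907382) (nat_lit 0) (nat_lit 2379467) (nat_lit 76) (nat_lit 2379467) (nat_lit 79) (nat_lit 1) (nat_lit 77) (nat_lit 1) (nat_lit 78) (nat_lit 1) (nat_lit 419) (nat_lit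 389) (nat_lit 212)) (XT.lf (nat_lit 0) (nat_lit 646184407) (nat_lit 0) (nat_lit 652874974) (nat_lit 152) (nat_lit 646184407) (nat_lit 77) (nat_lit 3) (nat_lit 77) (nat_lit 1) (nat_lit 79) (nat_lit 1) (nat_lit 420) (nat_lit 389) (nat_lit 211))))) (XT.nd (nat_lit 234) (nat_lit 304) (nat_lit 0) (XT.nd (nat_lit 78) (nat_lit 152) (nat_lit 0) (XT.lf (nat_lit 76) (nat_lit 633706604) (nat_lit 0) (nat_lit 640078573) (nat_lit 76) (nat_lit 640078573) (nat_lit 77) (nat_lit 3) (nat_lit 76) (nat_lit 1) (nat_lit 77) (nat_lit 1) (nat_lit 421) (nat_lit 389) (nat_lit 210)) (XT.nd (nat_lit 78) (nat_lit 0) (nat_lit 0) (XT.lf (nat_lit 152) (nat_lit 1879561849) (nat_lit 0) (nat_lit 1957593) (nat_lit 76) (nat_lit 1957593) (nat_lit 76) (nat_lit 1) (nat_lit 74) (nat_lit 1) (nat_lit 75) (nat_lit 1) (nat_lit 422) (nat_lit 389) (nat_lit 209)) (XT.lf (nat_lit 0) (nat_lit 615698187) (nat_lit 0) (nat_lit 621202533) (nat_lit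 152) (nat_lit 615698187) (nat_lit 74) (nat_lit 3) (nat_lit 74) (nat_lit 1) (nat_lit 76) (nat_lit 1) (nat_lit 423) (nat_lit 389) (nat_lit 208)))) (XT.nd (nat_lit 156) (nat_lit 76) (nat_lit 0) (XT.nd (nat_lit 78) (nat_lit 152) (nat_lit 0) (XT.lf (nat_lit 76) (nat_lit 604076528) (nat_lit 0) (nat_lit 609318762) (nat_lit 76) (nat_lit 609318762) (nat_lit 74) (nat_lit 3) (nat_lit 73) (nat_lit 1) (nat_lit 74) (nat_lit 1) (nat_lit 424) (nat_lit 389) (nat_lit 207)) (XT.lf (nat_lit 152) (nat_lit 1790554531) (nat_lit 0) (nat_lit 1610517) (nat_lit 76) (nat_lit 1610517) (nat_lit 73) (nat_lit 1) (nat_lit 71) (nat_lit 1) (nat_lit 72) (nat_lit 1) (nat_lit 425) (nat_lit 389) (nat_lit 206))) (XT.nd (nat_lit 78) (nat_lit 76) (nat_lit 0) (XT.lf (nat_lit 0) (nat_lit 586613257) (nat_lit 0) (nat_lit 591141696) (nat_lit 152) (nat_lit 586613257) (nat_lit 71) (nat_lit 3) (nat_lit 71) (nat_lit 1) (nat_lit 73) (nat_lit 1)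 (nat_lit 426) (nat_lit 389) (nat_lit 205)) (XT.lf (nat_lit 76) (nat_lit 575760528) (nat_lit 0) (nat_lit 580073327) (nat_lit 76) (nat_lit 580073327) (nat_lit 71) (nat_lit 3) (nat_lit 70) (nat_lit 1) (nat_lit 71) (nat_lit 1) (nat_lit 427) (nat_lit 389) (nat_lit 204))))))))
noncomputable def ec212 : XT := (XT.nd (nat_lit 38922) (nat_lit 0) (nat_lit 14364) (XT.nd (nat_lit 936) (nat_lit 608) (nat_lit 0) (XT.nd (nat_lit 468) (nat_lit 456) (nat_lit 0) (XT.nd (nat_lit 234) (nat_lit 228) (nat_lit 0) (XT.nd (nat_lit 78) (nat_lit 76) (nat_lit 0) (XT.lf (nat_lit 152) (nat_lit 1705697783) (nat_lit 0) (nat_lit 1324976) (nat_lit 76) (nat_lit 1324976) (nat_lit 70) (nat_lit 1) (nat_lit 68) (nat_lit 1) (nat_lit 69) (nat_lit 1) (nat_lit 428) (nat_lit 389) (nat_lit 203)) (XT.nd (nat_lit 78) (nat_lit 76) (nat_lit 0) (XT.lf (nat_lit 0) (nat_lit 558871831) (nat_lit 0) (nat_lit 562597389) (nat_lit 152) (nat_lit 558871831)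 (nat_lit 68) (nat_lit 3) (nat_lit 68) (nat_lit 1) (nat_lit 70) (nat_lit 1) (nat_lit 429) (nat_lit 389) (nat_lit 202)) (XT.lf (nat_lit 76) (nat_lit 548713204) (nat_lit 0) (nat_lit 552261355) (nat_lit 76) (nat_lit 552261355) (nat_lit 68) (nat_lit 3) (nat_lit 67) (nat_lit 1) (nat_lit 68) (nat_lit 1) (nat_lit 430) (nat_lit 389) (nat_lit 201)))) (XT.nd (nat_lit 78) (nat_lit 76) (nat_lit 0) (XT.lf (nat_lit 152) (nat_lit 1624809539) (nat_lit 0) (nat_lit 1090061) (nat_lit 76) (nat_lit 1090061) (nat_lit 67) (nat_lit 1) (nat_lit 65) (nat_lit 1) (nat_lit 66) (nat_lit 1) (nat_lit 431) (nat_lit 389) (nat_lit 200)) (XT.nd (nat_lit 78) (nat_lit 76) (nat_lit 0) (XT.lf (nat_lit 0) (nat_lit 532417288) (nat_lit 0) (nat_lit 535482314) (nat_lit 152) (nat_lit 532417288) (nat_lit 65) (nat_lit 3) (nat_lit 65) (nat_lit 1) (nat_lit 67) (nat_lit 1) (nat_lit 432) (nat_lit 389) (nat_lit 199)) (XT.lf (nat_lit 76) (nat_lit 522888276)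 (nat_lit 0) (nat_lit 525807348) (nat_lit 76) (nat_lit 525807348) (nat_lit 65) (nat_lit 3) (nat_lit 64) (nat_lit 1) (nat_lit 65) (nat_lit 1) (nat_lit 433) (nat_lit 389) (nat_lit 198))))) (XT.nd (nat_lit 234) (nat_lit 228) (nat_lit 0) (XT.nd (nat_lit 78) (nat_lit 76) (nat_lit 0) (XT.lf (nat_lit 152) (nat_lit 1547713640) (nat_lit 0) (nat_lit 896796) (nat_lit 76) (nat_lit 896796) (nat_lit 64) (nat_lit 1) (nat_lit 62) (nat_lit 1) (nat_lit 63) (nat_lit 1) (nat_lit 434) (nat_lit 389) (nat_lit 197)) (XT.nd (nat_lit 78) (nat_lit 76) (nat_lit 0) (XT.lf (nat_lit 0) (nat_lit 507194401) (nat_lit 0) (nat_lit 509716005) (nat_lit 152) (nat_lit 507194401) (nat_lit 62) (nat_lit 3) (nat_lit 62) (nat_lit 1) (nat_lit 64) (nat_lit 1) (nat_lit 435) (nat_lit 389) (nat_lit 196)) (XT.lf (nat_lit 76) (nat_lit 498239160) (nat_lit 0) (nat_lit 500640688) (nat_lit 76) (nat_lit 500640688) (nat_lit 62) (nat_lit 3) (nat_lit 61)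 (nat_lit 1) (nat_lit 62) (nat_lit 1) (nat_lit 436) (nat_lit 389) (nat_lit 195)))) (XT.nd (nat_lit 78) (nat_lit 76) (nat_lit 0) (XT.lf (nat_lit 152) (nat_lit 1474240043) (nat_lit 0) (nat_lit 737796) (nat_lit 76) (nat_lit 737796) (nat_lit 61) (nat_lit 1) (nat_lit 59) (nat_lit 1) (nat_lit 60) (nat_lit 1) (nat_lit 437) (nat_lit 389) (nat_lit 194)) (XT.nd (nat_lit 78) (nat_lit 76) (nat_lit 0) (XT.lf (nat_lit 0) (nat_lit 483149499) (nat_lit 0) (nat_lit 485224029) (nat_lit 152) (nat_lit 483149499) (nat_lit 59) (nat_lit 3) (nat_lit 59) (nat_lit 1) (nat_lit 61) (nat_lit 1) (nat_lit 438) (nat_lit 389) (nat_lit 193)) (XT.lf (nat_lit 76) (nat_lit 474719429) (nat_lit 0) (nat_lit 476695172) (nat_lit 76) (nat_lit 476695172) (nat_lit 59) (nat_lit 3) (nat_lit 58) (nat_lit 1) (nat_lit 59) (nat_lit 1) (nat_lit 439) (nat_lit 389) (nat_lit 192)))))) (XT.nd (nat_lit 468) (nat_lit 152) (nat_lit 0) (XT.nd (nat_lit 234)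 (nat_lit 228) (nat_lit 0) (XT.nd (nat_lit 78) (nat_lit 76) (nat_lit 0) (XT.lf (nat_lit 152) (nat_lit 1404224933) (nat_lit 0) (nat_lit 606987) (nat_lit 76) (nat_lit 606987) (nat_lit 58) (nat_lit 1) (nat_lit 56) (nat_lit 1) (nat_lit 57) (nat_lit 1) (nat_lit 440) (nat_lit 389) (nat_lit 191)) (XT.nd (nat_lit 78) (nat_lit 76) (nat_lit 0) (XT.lf (nat_lit 0) (nat_lit 460230584) (nat_lit 0) (nat_lit 461937305) (nat_lit 152) (nat_lit 460230584) (nat_lit 56) (nat_lit 3) (nat_lit 56) (nat_lit 1) (nat_lit 58) (nat_lit 1) (nat_lit 441) (nat_lit 389) (nat_lit 190)) (XT.lf (nat_lit 76) (nat_lit 452283172) (nat_lit 0) (nat_lit 453908620) (nat_lit 76) (nat_lit 453908620) (nat_lit 56) (nat_lit 3) (nat_lit 55) (nat_lit 1) (nat_lit 56) (nat_lit 1) (nat_lit 442) (nat_lit 389) (nat_lit 189)))) (XT.nd (nat_lit 78) (nat_lit 76) (nat_lit 0) (XT.lf (nat_lit 152) (nat_lit 1337510757) (nat_lit 0) (nat_lit 499369) (nat_lit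 76) (nat_lit 499369) (nat_lit 55) (nat_lit 1) (nat_lit 53) (nat_lit 1) (nat_lit 54) (nat_lit 1) (nat_lit 443) (nat_lit 389) (nat_lit 188)) (XT.nd (nat_lit 78) (nat_lit 76) (nat_lit 0) (XT.lf (nat_lit 0) (nat_lit 438387407) (nat_lit 0) (nat_lit 439791531) (nat_lit 152) (nat_lit 438387407) (nat_lit 53) (nat_lit 3) (nat_lit 53) (nat_lit 1) (nat_lit 55) (nat_lit 1) (nat_lit 444) (nat_lit 389) (nat_lit 187)) (XT.lf (nat_lit 76) (nat_lit 430885268) (nat_lit 0) (nat_lit 432222529) (nat_lit 76) (nat_lit 432222529) (nat_lit 53) (nat_lit 3) (nat_lit 52) (nat_lit 1) (nat_lit 53) (nat_lit 1) (nat_lit 445) (nat_lit 389) (nat_lit 186))))) (XT.nd (nat_lit 37206) (nat_lit 0) (nat_lit 18468) (XT.nd (nat_lit 37050) (nat_lit 0) (nat_lit 18392) (XT.lf (nat_lit 152) (nat_lit 1273946200) (nat_lit 0) (nat_lit 410832) (nat_lit 76) (nat_lit 410832) (nat_lit 52) (nat_lit 1) (nat_lit 50) (nat_lit 1) (nat_lit 51) (nat_lit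 1) (nat_lit 446) (nat_lit 389) (nat_lit 185)) (XT.nd (nat_lit 78) (nat_lit 0) (nat_lit 0) (XT.lf (nat_lit 836) (nat_lit 6161899808) (nat_lit 0) (nat_lit 10940438945) (nat_lit 836) (nat_lit 6161899808) (nat_lit 303) (nat_lit 1) (nat_lit 292) (nat_lit 0) (nat_lit 303) (nat_lit 0) (nat_lit 240) (nat_lit 390) (nat_lit 390)) (XT.lf (nat_lit 836) (nat_lit 23884292939) (nat_lit 76) (nat_lit 10763980253) (nat_lit 0) (nat_lit 10763980253) (nat_lit 303) (nat_lit 1) (nat_lit 293) (nat_lit 1) (nat_lit 292) (nat_lit 0) (nat_lit 241) (nat_lit 390) (nat_lit 389)))) (XT.nd (nat_lit 156) (nat_lit 0) (nat_lit 76) (XT.nd (nat_lit 78) (nat_lit 0) (nat_lit 0) (XT.lf (nat_lit 836) (nat_lit 11382894389) (nat_lit 0) (nat_lit 21564749459) (nat_lit 760) (nat_lit 11382894389) (nat_lit 304) (nat_lit 1) (nat_lit 293) (nat_lit 1) (nat_lit 303) (nat_lit 1) (nat_lit 242) (nat_lit 390) (nat_lit 388)) (XT.lf (nat_lit 836) (nat_lit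 21352728181) (nat_lit 76) (nat_lit 10965521154) (nat_lit 0) (nat_lit 10965521154) (nat_lit 304) (nat_lit 1) (nat_lit 294) (nat_lit 1) (nat_lit 293) (nat_lit 1) (nat_lit 243) (nat_lit 390) (nat_lit 387))) (XT.nd (nat_lit 78) (nat_lit 0) (nat_lit 0) (XT.lf (nat_lit 836) (nat_lit 9828455729) (nat_lit 0) (nat_lit 22613268570) (nat_lit 760) (nat_lit 9828455729) (nat_lit 305) (nat_lit 1) (nat_lit 294) (nat_lit 1) (nat_lit 304) (nat_lit 1) (nat_lit 244) (nat_lit 390) (nat_lit 386)) (XT.lf (nat_lit 836) (nat_lit 17677117777) (nat_lit 76) (nat_lit 11805184951) (nat_lit 0) (nat_lit 11805184951) (nat_lit 305) (nat_lit 1) (nat_lit 295) (nat_lit 1) (nat_lit 294) (nat_lit 1) (nat_lit 245) (nat_lit 390) (nat_lit 385))))))) (XT.nd (nat_lit 936) (nat_lit 2356) (nat_lit 0) (XT.nd (nat_lit 468) (nat_lit 1292) (nat_lit 0) (XT.nd (nat_lit 234) (nat_lit 608) (nat_lit 0) (XT.nd (nat_lit 78) (nat_lit 0) (nat_lit 0) (XT.lf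 (nat_lit 836) (nat_lit 7750905583) (nat_lit 0) (nat_lit 24835979569) (nat_lit 760) (nat_lit 7750905583) (nat_lit 306) (nat_lit 1) (nat_lit 295) (nat_lit 1) (nat_lit 305) (nat_lit 1) (nat_lit 246) (nat_lit 390) (nat_lit 384)) (XT.nd (nat_lit 78) (nat_lit 0) (nat_lit 76) (XT.lf (nat_lit 836) (nat_lit 13029510272) (nat_lit 76) (nat_lit 13192365966) (nat_lit 0) (nat_lit 13192365966) (nat_lit 306) (nat_lit 1) (nat_lit 296) (nat_lit 1) (nat_lit 295) (nat_lit 1) (nat_lit 247) (nat_lit 390) (nat_lit 383)) (XT.lf (nat_lit 836) (nat_lit 5230669730) (nat_lit 0) (nat_lit 28063161353) (nat_lit 760) (nat_lit 5230669730) (nat_lit 307) (nat_lit 1) (nat_lit 296) (nat_lit 1) (nat_lit 306) (nat_lit 1) (nat_lit 248) (nat_lit 390) (nat_lit 382)))) (XT.nd (nat_lit 78) (nat_lit 684) (nat_lit 0) (XT.lf (nat_lit 836) (nat_lit 7562830863) (nat_lit 76) (nat_lit 15046371655) (nat_lit 0) (nat_lit 15046371655) (nat_lit 307)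 (nat_lit 1) (nat_lit 297) (nat_lit 1) (nat_lit 296) (nat_lit 1) (nat_lit 249) (nat_lit 390) (nat_lit 381)) (XT.nd (nat_lit 78) (nat_lit 760) (nat_lit 0) (XT.lf (nat_lit 76) (nat_lit 2339182825) (nat_lit 0) (nat_lit 32143755494) (nat_lit 760) (nat_lit 2339182825) (nat_lit 298) (nat_lit 1) (nat_lit 297) (nat_lit 1) (nat_lit 307) (nat_lit 1) (nat_lit 250) (nat_lit 390) (nat_lit 380)) (XT.lf (nat_lit 836) (nat_lit 1412808256) (nat_lit 0) (nat_lit 17295430057) (nat_lit 760) (nat_lit 17295430057) (nat_lit 298) (nat_lit 1) (nat_lit 287) (nat_lit 1) (nat_lit 297) (nat_lit 1) (nat_lit 251) (nat_lit 390) (nat_lit 379))))) (XT.nd (nat_lit 234) (nat_lit 380) (nat_lit 0) (XT.nd (nat_lit 78) (nat_lit 380) (nat_lit 0) (XT.lf (nat_lit 532) (nat_lit 33527719167) (nat_lit 0) (nat_lit 846329346) (nat_lit 456) (nat_lit 846329346) (nat_lit 287) (nat_lit 1) (nat_lit 280) (nat_lit 1) (nat_lit 286) (nat_lit 1) (nat_lit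 252) (nat_lit 390) (nat_lit 378)) (XT.nd (nat_lit 78) (nat_lit 380) (nat_lit 0) (XT.lf (nat_lit 76) (nat_lit 14658260467) (nat_lit 0) (nat_lit 5130642506) (nat_lit 532) (nat_lit 14658260467) (nat_lit 281) (nat_lit 1) (nat_lit 280) (nat_lit 1) (nat_lit 287) (nat_lit 1) (nat_lit 253) (nat_lit 390) (nat_lit 377)) (XT.lf (nat_lit 456) (nat_lit 25223103651) (nat_lit 0) (nat_lit 4241862258) (nat_lit 380) (nat_lit 4241862258) (nat_lit 281) (nat_lit 1) (nat_lit 275) (nat_lit 1) (nat_lit 280) (nat_lit 1) (nat_lit 254) (nat_lit 390) (nat_lit 376)))) (XT.nd (nat_lit 78) (nat_lit 380) (nat_lit 0) (XT.lf (nat_lit 76) (nat_lit 10455558749) (nat_lit 0) (nat_lit 12070939291) (nat_lit 456) (nat_lit 10455558749) (nat_lit 276) (nat_lit 1) (nat_lit 275) (nat_lit 1) (nat_lit 281) (nat_lit 1) (nat_lit 255) (nat_lit 390) (nat_lit 375)) (XT.nd (nat_lit 78) (nat_lit 0) (nat_lit 0) (XT.lf (nat_lit 456) (nat_lit 16609771451)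 (nat_lit 0) (nat_lit 7836377904) (nat_lit 380) (nat_lit 7836377904) (nat_lit 276) (nat_lit 1) (nat_lit 270) (nat_lit 1) (nat_lit 275) (nat_lit 1) (nat_lit 256) (nat_lit 390) (nat_lit 374)) (XT.lf (nat_lit 76) (nat_lit 6120480035) (nat_lit 0) (nat_lit 19362382335) (nat_lit 456) (nat_lit 6120480035) (nat_lit 271) (nat_lit 1) (nat_lit 270) (nat_lit 1) (nat_lit 276) (nat_lit 1) (nat_lit 257) (nat_lit 390) (nat_lit 373)))))) (XT.nd (nat_lit 468) (nat_lit 1064) (nat_lit 0) (XT.nd (nat_lit 234) (nat_lit 608) (nat_lit 0) (XT.nd (nat_lit 78) (nat_lit 380) (nat_lit 0) (XT.lf (nat_lit 380) (nat_lit 7767890837) (nat_lit 0) (nat_lit 11586868794) (nat_lit 304) (nat_lit 11586868794) (nat_lit 271) (nat_lit 1) (nat_lit 266) (nat_lit 1) (nat_lit 270) (nat_lit 1) (nat_lit 258) (nat_lit 390) (nat_lit 372)) (XT.nd (nat_lit 78) (nat_lit 380) (nat_lit 0) (XT.lf (nat_lit 76) (nat_lit 1690241214) (nat_lit 0) (nat_lit 26924878279)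 (nat_lit 380) (nat_lit 1690241214) (nat_lit 267) (nat_lit 1) (nat_lit 266) (nat_lit 1) (nat_lit 271) (nat_lit 1) (nat_lit 259) (nat_lit 390) (nat_lit 371)) (XT.lf (nat_lit 76) (nat_lit 14242458161) (nat_lit 0) (nat_lit 1192833537) (nat_lit 380) (nat_lit 14242458161) (nat_lit 262) (nat_lit 1) (nat_lit 261) (nat_lit 1) (nat_lit 266) (nat_lit 1) (nat_lit 260) (nat_lit 390) (nat_lit 370)))) (XT.nd (nat_lit 78) (nat_lit 304) (nat_lit 0) (XT.lf (nat_lit 380) (nat_lit 23559271858) (nat_lit 0) (nat_lit 2757384057) (nat_lit 304) (nat_lit 2757384057) (nat_lit 262) (nat_lit 1) (nat_lit 257) (nat_lit 1) (nat_lit 261) (nat_lit 1) (nat_lit 261) (nat_lit 390) (nat_lit 369)) (XT.nd (nat_lit 78) (nat_lit 304) (nat_lit 0) (XT.lf (nat_lit 76) (nat_lit 9240982160) (nat_lit 0) (nat_lit 9998722541) (nat_lit 380) (nat_lit 9240982160) (nat_lit 258) (nat_lit 1) (nat_lit 257) (nat_lit 1) (nat_lit 262) (nat_lit 1) (nat_lit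 262) (nat_lit 390) (nat_lit 368)) (XT.lf (nat_lit 380) (nat_lit 13485163613) (nat_lit 0) (nat_lit 7211372768) (nat_lit 304) (nat_lit 7211372768) (nat_lit 258) (nat_lit 1) (nat_lit 253) (nat_lit 1) (nat_lit 257) (nat_lit 1) (nat_lit 263) (nat_lit 390) (nat_lit 367))))) (XT.nd (nat_lit 234) (nat_lit 456) (nat_lit 0) (XT.nd (nat_lit 78) (nat_lit 608) (nat_lit 0) (XT.lf (nat_lit 76) (nat_lit 4252618770) (nat_lit 0) (nat_lit 18846641967) (nat_lit 380) (nat_lit 4252618770) (nat_lit 254) (nat_lit 1) (nat_lit 253) (nat_lit 1) (nat_lit 258) (nat_lit 1) (nat_lit 264) (nat_lit 390) (nat_lit 366)) (XT.nd (nat_lit 78) (nat_lit 380) (nat_lit 0) (XT.lf (nat_lit 304) (nat_lit 3458472709) (nat_lit 0) (nat_lit 11674689806) (nat_lit 228) (nat_lit 11674689806) (nat_lit 254) (nat_lit 1) (nat_lit 250) (nat_lit 1) (nat_lit 253) (nat_lit 1) (nat_lit 265) (nat_lit 390) (nat_lit 365)) (XT.lf (nat_lit 380) (nat_lit 24902809367)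 (nat_lit 0) (nat_lit 691005176) (nat_lit 304) (nat_lit 691005176) (nat_lit 250) (nat_lit 1) (nat_lit 245) (nat_lit 1) (nat_lit 249) (nat_lit 1) (nat_lit 266) (nat_lit 390) (nat_lit 364)))) (XT.nd (nat_lit 156) (nat_lit 228) (nat_lit 0) (XT.nd (nat_lit 78) (nat_lit 228) (nat_lit 0) (XT.lf (nat_lit 76) (nat_lit 9744653408) (nat_lit 0) (nat_lit 6275375224) (nat_lit 380) (nat_lit 9744653408) (nat_lit 246) (nat_lit 1) (nat_lit 245) (nat_lit 1) (nat_lit 250) (nat_lit 1) (nat_lit 267) (nat_lit 390) (nat_lit 363)) (XT.lf (nat_lit 304) (nat_lit 14232374374) (nat_lit 0) (nat_lit 5516059326) (nat_lit 228) (nat_lit 5516059326) (nat_lit 246) (nat_lit 1) (nat_lit 242) (nat_lit 1) (nat_lit 245) (nat_lit 1) (nat_lit 268) (nat_lit 390) (nat_lit 362))) (XT.nd (nat_lit 78) (nat_lit 228) (nat_lit 0) (XT.lf (nat_lit 76) (nat_lit 4496227217) (nat_lit 0) (nat_lit 15784557740) (nat_lit 304) (nat_lit 4496227217) (nat_lit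 243) (nat_lit 1) (nat_lit 242) (nat_lit 1) (nat_lit 246) (nat_lit 1) (nat_lit 269) (nat_lit 390) (nat_lit 361)) (XT.lf (nat_lit 304) (nat_lit 3747464850) (nat_lit 0) (nat_lit 10276578264) (nat_lit 228) (nat_lit 10276578264) (nat_lit 243) (nat_lit 1) (nat_lit 239) (nat_lit 1) (nat_lit 242) (nat_lit 1) (nat_lit 270) (nat_lit 390) (nat_lit 360))))))))
noncomputable def ec213 : XT := (XT.nd (nat_lit 1950) (nat_lit 2052) (nat_lit 0) (XT.nd (nat_lit 936) (nat_lit 1444) (nat_lit 0) (XT.nd (nat_lit 468) (nat_lit 532) (nat_lit 0) (XT.nd (nat_lit 234) (nat_lit 456) (nat_lit 0) (XT.nd (nat_lit 78) (nat_lit 228) (nat_lit 0) (XT.lf (nat_lit 304) (nat_lit 22553848016) (nat_lit 0) (nat_lit 644040545) (nat_lit 228) (nat_lit 644040545) (nat_lit 239) (nat_lit 1) (nat_lit 235) (nat_lit 1) (nat_lit 238) (nat_lit 1) (nat_lit 271) (nat_lit 390) (nat_lit 359)) (XT.nd (nat_lit 78) (nat_lit 228) (nat_lit 0) (XT.lf (nat_lit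 76) (nat_lit 8531474803) (nat_lit 0) (nat_lit 6321737163) (nat_lit 304) (nat_lit 8531474803) (nat_lit 236) (nat_lit 1) (nat_lit 235) (nat_lit 1) (nat_lit 239) (nat_lit 1) (nat_lit 272) (nat_lit 390) (nat_lit 358)) (XT.lf (nat_lit 304) (nat_lit 11731559046) (nat_lit 0) (nat_lit 5606401712) (nat_lit 228) (nat_lit 5606401712) (nat_lit 236) (nat_lit 1) (nat_lit 232) (nat_lit 1) (nat_lit 235) (nat_lit 1) (nat_lit 273) (nat_lit 390) (nat_lit 357)))) (XT.nd (nat_lit 78) (nat_lit 456) (nat_lit 0) (XT.lf (nat_lit 76) (nat_lit 3230861793) (nat_lit 0) (nat_lit 16054124285) (nat_lit 304) (nat_lit 3230861793) (nat_lit 233) (nat_lit 1) (nat_lit 232) (nat_lit 1) (nat_lit 236) (nat_lit 1) (nat_lit 274) (nat_lit 390) (nat_lit 356)) (XT.nd (nat_lit 78) (nat_lit 304) (nat_lit 0) (XT.lf (nat_lit 228) (nat_lit 1183895185) (nat_lit 0) (nat_lit 10455756593) (nat_lit 152) (nat_lit 10455756593) (nat_lit 233) (nat_lit 1)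 (nat_lit 230) (nat_lit 1) (nat_lit 232) (nat_lit 1) (nat_lit 275) (nat_lit 390) (nat_lit 355)) (XT.lf (nat_lit 304) (nat_lit 17888259269) (nat_lit 0) (nat_lit 1899862794) (nat_lit 228) (nat_lit 1899862794) (nat_lit 230) (nat_lit 1) (nat_lit 226) (nat_lit 1) (nat_lit 229) (nat_lit 1) (nat_lit 276) (nat_lit 390) (nat_lit 354))))) (XT.nd (nat_lit 234) (nat_lit 380) (nat_lit 0) (XT.nd (nat_lit 78) (nat_lit 152) (nat_lit 0) (XT.lf (nat_lit 76) (nat_lit 6247944346) (nat_lit 0) (nat_lit 8789229290) (nat_lit 304) (nat_lit 6247944346) (nat_lit 227) (nat_lit 1) (nat_lit 226) (nat_lit 1) (nat_lit 230) (nat_lit 1) (nat_lit 277) (nat_lit 390) (nat_lit 353)) (XT.nd (nat_lit 78) (nat_lit 0) (nat_lit 0) (XT.lf (nat_lit 228) (nat_lit 7218535906) (nat_lit 0) (nat_lit 6838074390) (nat_lit 152) (nat_lit 6838074390) (nat_lit 227) (nat_lit 1) (nat_lit 224) (nat_lit 1) (nat_lit 226) (nat_lit 1) (nat_lit 278) (nat_lit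 390) (nat_lit 352)) (XT.lf (nat_lit 76) (nat_lit 1037074489) (nat_lit 0) (nat_lit 18443059394) (nat_lit 228) (nat_lit 1037074489) (nat_lit 225) (nat_lit 1) (nat_lit 224) (nat_lit 1) (nat_lit 227) (nat_lit 1) (nat_lit 279) (nat_lit 390) (nat_lit 351)))) (XT.nd (nat_lit 78) (nat_lit 152) (nat_lit 0) (XT.lf (nat_lit 76) (nat_lit 8559157708) (nat_lit 0) (nat_lit 3022788794) (nat_lit 228) (nat_lit 8559157708) (nat_lit 222) (nat_lit 1) (nat_lit 221) (nat_lit 1) (nat_lit 224) (nat_lit 1) (nat_lit 280) (nat_lit 390) (nat_lit 350)) (XT.nd (nat_lit 78) (nat_lit 0) (nat_lit 0) (XT.lf (nat_lit 228) (nat_lit 11885890599) (nat_lit 0) (nat_lit 3945793642) (nat_lit 152) (nat_lit 3945793642) (nat_lit 222) (nat_lit 1) (nat_lit 219) (nat_lit 1) (nat_lit 221) (nat_lit 1) (nat_lit 281) (nat_lit 390) (nat_lit 349)) (XT.lf (nat_lit 76) (nat_lit 3353889101) (nat_lit 0) (nat_lit 12714110291) (nat_lit 228) (nat_lit 3353889101)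 (nat_lit 220) (nat_lit 1) (nat_lit 219) (nat_lit 1) (nat_lit 222) (nat_lit 1) (nat_lit 282) (nat_lit 390) (nat_lit 348)))))) (XT.nd (nat_lit 468) (nat_lit 760) (nat_lit 0) (XT.nd (nat_lit 234) (nat_lit 304) (nat_lit 0) (XT.nd (nat_lit 78) (nat_lit 228) (nat_lit 0) (XT.lf (nat_lit 228) (nat_lit 1571176292) (nat_lit 0) (nat_lit 8751145288) (nat_lit 152) (nat_lit 8751145288) (nat_lit 220) (nat_lit 1) (nat_lit 217) (nat_lit 1) (nat_lit 219) (nat_lit 1) (nat_lit 283) (nat_lit 390) (nat_lit 347)) (XT.nd (nat_lit 78) (nat_lit 0) (nat_lit 0) (XT.lf (nat_lit 228) (nat_lit 15442535654) (nat_lit 0) (nat_lit 1646302688) (nat_lit 152) (nat_lit 1646302688) (nat_lit 217) (nat_lit 1) (nat_lit 214) (nat_lit 1) (nat_lit 216) (nat_lit 1) (nat_lit 284) (nat_lit 390) (nat_lit 346)) (XT.lf (nat_lit 76) (nat_lit 5140857962) (nat_lit 0) (nat_lit 8117986843) (nat_lit 228) (nat_lit 5140857962) (nat_lit 215) (nat_lit 1)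 (nat_lit 214) (nat_lit 1) (nat_lit 217) (nat_lit 1) (nat_lit 285) (nat_lit 390) (nat_lit 345)))) (XT.nd (nat_lit 78) (nat_lit 152) (nat_lit 0) (XT.lf (nat_lit 228) (nat_lit 5235714242) (nat_lit 0) (nat_lit 6419144249) (nat_lit 152) (nat_lit 6419144249) (nat_lit 215) (nat_lit 1) (nat_lit 212) (nat_lit 1) (nat_lit 214) (nat_lit 1) (nat_lit 286) (nat_lit 390) (nat_lit 344)) (XT.nd (nat_lit 78) (nat_lit 152) (nat_lit 0) (XT.lf (nat_lit 76) (nat_lit 172083487) (nat_lit 0) (nat_lit 17415558056) (nat_lit 228) (nat_lit 172083487) (nat_lit 213) (nat_lit 1) (nat_lit 212) (nat_lit 1) (nat_lit 215) (nat_lit 1) (nat_lit 287) (nat_lit 390) (nat_lit 343)) (XT.lf (nat_lit 76) (nat_lit 6497591899) (nat_lit 0) (nat_lit 4448265811) (nat_lit 152) (nat_lit 6497591899) (nat_lit 211) (nat_lit 1) (nat_lit 210) (nat_lit 1) (nat_lit 212) (nat_lit 1) (nat_lit 288) (nat_lit 390) (nat_lit 342))))) (XT.nd (nat_lit 234) (nat_lit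 456) (nat_lit 0) (XT.nd (nat_lit 78) (nat_lit 152) (nat_lit 0) (XT.lf (nat_lit 228) (nat_lit 8062771844) (nat_lit 0) (nat_lit 4537765253) (nat_lit 152) (nat_lit 4537765253) (nat_lit 211) (nat_lit 1) (nat_lit 208) (nat_lit 1) (nat_lit 210) (nat_lit 1) (nat_lit 289) (nat_lit 390) (nat_lit 341)) (XT.nd (nat_lit 78) (nat_lit 152) (nat_lit 0) (XT.lf (nat_lit 76) (nat_lit 1616530031) (nat_lit 0) (nat_lit 13608331727) (nat_lit 228) (nat_lit 1616530031) (nat_lit 209) (nat_lit 1) (nat_lit 208) (nat_lit 1) (nat_lit 211) (nat_lit 1) (nat_lit 290) (nat_lit 390) (nat_lit 340)) (XT.lf (nat_lit 76) (nat_lit 7505770965) (nat_lit 0) (nat_lit 1535387811) (nat_lit 152) (nat_lit 7505770965) (nat_lit 207) (nat_lit 1) (nat_lit 206) (nat_lit 1) (nat_lit 208) (nat_lit 1) (nat_lit 291) (nat_lit 390) (nat_lit 339)))) (XT.nd (nat_lit 156) (nat_lit 304) (nat_lit 0) (XT.nd (nat_lit 78) (nat_lit 0) (nat_lit 0) (XT.lf (nat_lit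 228) (nat_lit 10209773568) (nat_lit 0) (nat_lit 3025344411) (nat_lit 152) (nat_lit 3025344411) (nat_lit 207) (nat_lit 1) (nat_lit 204) (nat_lit 1) (nat_lit 206) (nat_lit 1) (nat_lit 292) (nat_lit 390) (nat_lit 338)) (XT.lf (nat_lit 76) (nat_lit 2734643752) (nat_lit 0) (nat_lit 10510378680) (nat_lit 228) (nat_lit 2734643752) (nat_lit 205) (nat_lit 1) (nat_lit 204) (nat_lit 1) (nat_lit 207) (nat_lit 1) (nat_lit 293) (nat_lit 390) (nat_lit 337))) (XT.nd (nat_lit 78) (nat_lit 228) (nat_lit 0) (XT.lf (nat_lit 152) (nat_lit 785016635) (nat_lit 0) (nat_lit 7459576051) (nat_lit 76) (nat_lit 7459576051) (nat_lit 205) (nat_lit 1) (nat_lit 203) (nat_lit 1) (nat_lit 204) (nat_lit 1) (nat_lit 294) (nat_lit 390) (nat_lit 336)) (XT.lf (nat_lit 228) (nat_lit 11805807142) (nat_lit 0) (nat_lit 1814780913) (nat_lit 152) (nat_lit 1814780913) (nat_lit 203) (nat_lit 1) (nat_lit 200) (nat_lit 1) (nat_lit 202) (nat_lit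 1) (nat_lit 295) (nat_lit 390) (nat_lit 335))))))) (XT.nd (nat_lit 1014) (nat_lit 988) (nat_lit 0) (XT.nd (nat_lit 468) (nat_lit 456) (nat_lit 0) (XT.nd (nat_lit 234) (nat_lit 304) (nat_lit 0) (XT.nd (nat_lit 78) (nat_lit 304) (nat_lit 0) (XT.lf (nat_lit 76) (nat_lit 3587627225) (nat_lit 0) (nat_lit 7994315018) (nat_lit 228) (nat_lit 3587627225) (nat_lit 201) (nat_lit 1) (nat_lit 200) (nat_lit 1) (nat_lit 203) (nat_lit 1) (nat_lit 296) (nat_lit 390) (nat_lit 334)) (XT.nd (nat_lit 78) (nat_lit 228) (nat_lit 0) (XT.lf (nat_lit 152) (nat_lit 2636263705) (nat_lit 0) (nat_lit 6137011678) (nat_lit 76) (nat_lit 6137011678) (nat_lit 201) (nat_lit 1) (nat_lit 199) (nat_lit 1) (nat_lit 200) (nat_lit 1) (nat_lit 297) (nat_lit 390) (nat_lit 333)) (XT.lf (nat_lit 228) (nat_lit 12956667858) (nat_lit 0) (nat_lit 850951014) (nat_lit 152) (nat_lit 850951014) (nat_lit 199) (nat_lit 1) (nat_lit 196) (nat_lit 1) (nat_lit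 198) (nat_lit 1) (nat_lit 298) (nat_lit 390) (nat_lit 332)))) (XT.nd (nat_lit 78) (nat_lit 304) (nat_lit 0) (XT.lf (nat_lit 76) (nat_lit 4225672695) (nat_lit 0) (nat_lit 5955419384) (nat_lit 228) (nat_lit 4225672695) (nat_lit 197) (nat_lit 1) (nat_lit 196) (nat_lit 1) (nat_lit 199) (nat_lit 1) (nat_lit 299) (nat_lit 390) (nat_lit 331)) (XT.nd (nat_lit 78) (nat_lit 228) (nat_lit 0) (XT.lf (nat_lit 152) (nat_lit 4064506937) (nat_lit 0) (nat_lit 5048934695) (nat_lit 76) (nat_lit 5048934695) (nat_lit 197) (nat_lit 1) (nat_lit 195) (nat_lit 1) (nat_lit 196) (nat_lit 1) (nat_lit 300) (nat_lit 390) (nat_lit 330)) (XT.lf (nat_lit 228) (nat_lit 13749007574) (nat_lit 0) (nat_lit 88580711) (nat_lit 152) (nat_lit 88580711) (nat_lit 195) (nat_lit 1) (nat_lit 192) (nat_lit 1) (nat_lit 194) (nat_lit 1) (nat_lit 301) (nat_lit 390) (nat_lit 329))))) (XT.nd (nat_lit 234) (nat_lit 380) (nat_lit 0) (XT.nd (nat_lit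 78) (nat_lit 76) (nat_lit 0) (XT.lf (nat_lit 76) (nat_lit 4689921763) (nat_lit 0) (nat_lit 4307611251) (nat_lit 228) (nat_lit 4689921763) (nat_lit 193) (nat_lit 1) (nat_lit 192) (nat_lit 1) (nat_lit 195) (nat_lit 1) (nat_lit 302) (nat_lit 390) (nat_lit 328)) (XT.nd (nat_lit 78) (nat_lit 0) (nat_lit 0) (XT.lf (nat_lit 152) (nat_lit 5149257310) (nat_lit 0) (nat_lit 4153771069) (nat_lit 76) (nat_lit 4153771069) (nat_lit 193) (nat_lit 1) (nat_lit 191) (nat_lit 1) (nat_lit 192) (nat_lit 1) (nat_lit 303) (nat_lit 390) (nat_lit 327)) (XT.lf (nat_lit 0) (nat_lit 517856762) (nat_lit 0) (nat_lit 12197394462) (nat_lit 152) (nat_lit 517856762) (nat_lit 191) (nat_lit 3) (nat_lit 191) (nat_lit 1) (nat_lit 193) (nat_lit 1) (nat_lit 304) (nat_lit 390) (nat_lit 326)))) (XT.nd (nat_lit 156) (nat_lit 152) (nat_lit 0) (XT.nd (nat_lit 78) (nat_lit 76) (nat_lit 0) (XT.lf (nat_lit 76) (nat_lit 5014077269) (nat_lit 0)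 (nat_lit 2980142423) (nat_lit 152) (nat_lit 5014077269) (nat_lit 190) (nat_lit 1) (nat_lit 189) (nat_lit 1) (nat_lit 191) (nat_lit 1) (nat_lit 305) (nat_lit 390) (nat_lit 325)) (XT.lf (nat_lit 152) (nat_lit 5955713773) (nat_lit 0) (nat_lit 3417317738) (nat_lit 76) (nat_lit 3417317738) (nat_lit 190) (nat_lit 1) (nat_lit 188) (nat_lit 1) (nat_lit 189) (nat_lit 1) (nat_lit 306) (nat_lit 390) (nat_lit 324))) (XT.nd (nat_lit 78) (nat_lit 152) (nat_lit 0) (XT.lf (nat_lit 0) (nat_lit 989782053) (nat_lit 0) (nat_lit 10598566623) (nat_lit 152) (nat_lit 989782053) (nat_lit 188) (nat_lit 3) (nat_lit 188) (nat_lit 1) (nat_lit 190) (nat_lit 1) (nat_lit 307) (nat_lit 390) (nat_lit 323)) (XT.lf (nat_lit 76) (nat_lit 5225729042) (nat_lit 0) (nat_lit 1914875296) (nat_lit 152) (nat_lit 5225729042) (nat_lit 187) (nat_lit 1) (nat_lit 186) (nat_lit 1) (nat_lit 188) (nat_lit 1) (nat_lit 308) (nat_lit 390) (nat_lit 322))))))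 (XT.nd (nat_lit 468) (nat_lit 532) (nat_lit 0) (XT.nd (nat_lit 234) (nat_lit 228) (nat_lit 0) (XT.nd (nat_lit 78) (nat_lit 152) (nat_lit 0) (XT.lf (nat_lit 152) (nat_lit 6537310976) (nat_lit 0) (nat_lit 2811435760) (nat_lit 76) (nat_lit 2811435760) (nat_lit 187) (nat_lit 1) (nat_lit 185) (nat_lit 1) (nat_lit 186) (nat_lit 1) (nat_lit 309) (nat_lit 390) (nat_lit 321)) (XT.nd (nat_lit 78) (nat_lit 152) (nat_lit 0) (XT.lf (nat_lit 0) (nat_lit 1351191396) (nat_lit 0) (nat_lit 9256362241) (nat_lit 152) (nat_lit 1351191396) (nat_lit 185) (nat_lit 3) (nat_lit 185) (nat_lit 1) (nat_lit 187) (nat_lit 1) (nat_lit 310) (nat_lit 390) (nat_lit 320)) (XT.lf (nat_lit 76) (nat_lit 5347444277) (nat_lit 0) (nat_lit 1064043834) (nat_lit 152) (nat_lit 5347444277) (nat_lit 184) (nat_lit 1) (nat_lit 183) (nat_lit 1) (nat_lit 185) (nat_lit 1) (nat_lit 311) (nat_lit 390) (nat_lit 319)))) (XT.nd (nat_lit 78) (nat_lit 152)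 (nat_lit 0) (XT.lf (nat_lit 152) (nat_lit 6937814790) (nat_lit 0) (nat_lit 2312975157) (nat_lit 76) (nat_lit 2312975157) (nat_lit 184) (nat_lit 1) (nat_lit 182) (nat_lit 1) (nat_lit 183) (nat_lit 1) (nat_lit 312) (nat_lit 390) (nat_lit 318)) (XT.nd (nat_lit 78) (nat_lit 152) (nat_lit 0) (XT.lf (nat_lit 0) (nat_lit 1622957316) (nat_lit 0) (nat_lit 8126560934) (nat_lit 152) (nat_lit 1622957316) (nat_lit 182) (nat_lit 3) (nat_lit 182) (nat_lit 1) (nat_lit 184) (nat_lit 1) (nat_lit 313) (nat_lit 390) (nat_lit 317)) (XT.lf (nat_lit 76) (nat_lit 5397664271) (nat_lit 0) (nat_lit 388411676) (nat_lit 152) (nat_lit 5397664271) (nat_lit 181) (nat_lit 1) (nat_lit 180) (nat_lit 1) (nat_lit 182) (nat_lit 1) (nat_lit 314) (nat_lit 390) (nat_lit 316))))) (XT.nd (nat_lit 234) (nat_lit 380) (nat_lit 0) (XT.nd (nat_lit 78) (nat_lit 76) (nat_lit 0) (XT.lf (nat_lit 152) (nat_lit 7193045847) (nat_lit 0) (nat_lit 1902890386)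 (nat_lit 76) (nat_lit 1902890386) (nat_lit 181) (nat_lit 1) (nat_lit 179) (nat_lit 1) (nat_lit 180) (nat_lit 1) (nat_lit 315) (nat_lit 390) (nat_lit 315)) (XT.nd (nat_lit 78) (nat_lit 76) (nat_lit 0) (XT.lf (nat_lit 0) (nat_lit 1822190819) (nat_lit 0) (nat_lit 7172721611) (nat_lit 152) (nat_lit 1822190819) (nat_lit 179) (nat_lit 3) (nat_lit 179) (nat_lit 1) (nat_lit 181) (nat_lit 1) (nat_lit 316) (nat_lit 390) (nat_lit 314)) (XT.lf (nat_lit 76) (nat_lit 149012383) (nat_lit 0) (nat_lit 5244755995) (nat_lit 76) (nat_lit 5244755995) (nat_lit 179) (nat_lit 3) (nat_lit 178) (nat_lit 1) (nat_lit 179) (nat_lit 1) (nat_lit 317) (nat_lit 390) (nat_lit 313)))) (XT.nd (nat_lit 156) (nat_lit 228) (nat_lit 0) (XT.nd (nat_lit 78) (nat_lit 0) (nat_lit 0) (XT.lf (nat_lit 152) (nat_lit 7332297048) (nat_lit 0) (nat_lit 1565512630) (nat_lit 76) (nat_lit 1565512630) (nat_lit 178) (nat_lit 1) (nat_lit 176) (nat_lit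 1) (nat_lit 177) (nat_lit 1) (nat_lit 318) (nat_lit 390) (nat_lit 312)) (XT.lf (nat_lit 0) (nat_lit 1962911201) (nat_lit 0) (nat_lit 6364806125) (nat_lit 152) (nat_lit 1962911201) (nat_lit 176) (nat_lit 3) (nat_lit 176) (nat_lit 1) (nat_lit 178) (nat_lit 1) (nat_lit 319) (nat_lit 390) (nat_lit 311))) (XT.nd (nat_lit 78) (nat_lit 152) (nat_lit 0) (XT.lf (nat_lit 76) (nat_lit 578902672) (nat_lit 0) (nat_lit 4771183552) (nat_lit 76) (nat_lit 4771183552) (nat_lit 176) (nat_lit 3) (nat_lit 175) (nat_lit 1) (nat_lit 176) (nat_lit 1) (nat_lit 320) (nat_lit 390) (nat_lit 310)) (XT.lf (nat_lit 152) (nat_lit 7379499335) (nat_lit 0) (nat_lit 1287951115) (nat_lit 76) (nat_lit 1287951115) (nat_lit 175) (nat_lit 1) (nat_lit 173) (nat_lit 1) (nat_lit 174) (nat_lit 1) (nat_lit 321) (nat_lit 390) (nat_lit 309))))))))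
noncomputable def ec214 : XT := (XT.nd (nat_lit 1950) (nat_lit 1900) (nat_lit 0) (XT.nd (nat_lit 936) (nat_lit 912) (nat_lit 0) (XT.nd (nat_lit 468) (nat_lit 456) (nat_lit 0) (XT.nd (nat_lit 234) (nat_lit 228) (nat_lit 0) (XT.nd (nat_lit 78) (nat_lit 228) (nat_lit 0) (XT.lf (nat_lit 0) (nat_lit 2056596954) (nat_lit 0) (nat_lit 5678046802) (nat_lit 152) (nat_lit 2056596954) (nat_lit 173) (nat_lit 3) (nat_lit 173) (nat_lit 1) (nat_lit 175) (nat_lit 1) (nat_lit 322) (nat_lit 390) (nat_lit 308)) (XT.nd (nat_lit 78) (nat_lit 152) (nat_lit 0) (XT.lf (nat_lit 76) (nat_lit 910845437) (nat_lit 0) (nat_lit 4359845292) (nat_lit 76) (nat_lit 4359845292) (nat_lit 173) (nat_lit 3) (nat_lit 172) (nat_lit 1) (nat_lit 173) (nat_lit 1) (nat_lit 323) (nat_lit 390) (nat_lit 307)) (XT.lf (nat_lit 152) (nat_lit 7354180373) (nat_lit 0) (nat_lit 1059600569) (nat_lit 76) (nat_lit 1059600569) (nat_lit 172) (nat_lit 1) (nat_lit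 170) (nat_lit 1) (nat_lit 171) (nat_lit 1) (nat_lit 324) (nat_lit 390) (nat_lit 306)))) (XT.nd (nat_lit 78) (nat_lit 228) (nat_lit 0) (XT.lf (nat_lit 0) (nat_lit 2112638882) (nat_lit 0) (nat_lit 5092014634) (nat_lit 152) (nat_lit 2112638882) (nat_lit 170) (nat_lit 3) (nat_lit 170) (nat_lit 1) (nat_lit 172) (nat_lit 1) (nat_lit 325) (nat_lit 390) (nat_lit 305)) (XT.nd (nat_lit 78) (nat_lit 152) (nat_lit 0) (XT.lf (nat_lit 76) (nat_lit 1163241249) (nat_lit 0) (nat_lit 4000741966) (nat_lit 76) (nat_lit 4000741966) (nat_lit 170) (nat_lit 3) (nat_lit 169) (nat_lit 1) (nat_lit 170) (nat_lit 1) (nat_lit 326) (nat_lit 390) (nat_lit 304)) (XT.lf (nat_lit 152) (nat_lit 7272252876) (nat_lit 0) (nat_lit 871736011) (nat_lit 76) (nat_lit 871736011) (nat_lit 169) (nat_lit 1) (nat_lit 167) (nat_lit 1) (nat_lit 168) (nat_lit 1) (nat_lit 327) (nat_lit 390) (nat_lit 303))))) (XT.nd (nat_lit 234) (nat_lit 228) (nat_lit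 0) (XT.nd (nat_lit 78) (nat_lit 228) (nat_lit 0) (XT.lf (nat_lit 0) (nat_lit 2138712739) (nat_lit 0) (nat_lit 4589852544) (nat_lit 152) (nat_lit 2138712739) (nat_lit 167) (nat_lit 3) (nat_lit 167) (nat_lit 1) (nat_lit 169) (nat_lit 1) (nat_lit 328) (nat_lit 390) (nat_lit 302)) (XT.nd (nat_lit 78) (nat_lit 152) (nat_lit 0) (XT.lf (nat_lit 76) (nat_lit 1351179030) (nat_lit 0) (nat_lit 3685597891) (nat_lit 76) (nat_lit 3685597891) (nat_lit 167) (nat_lit 3) (nat_lit 166) (nat_lit 1) (nat_lit 167) (nat_lit 1) (nat_lit 329) (nat_lit 390) (nat_lit 301)) (XT.lf (nat_lit 152) (nat_lit 7146662803) (nat_lit 0) (nat_lit 717179373) (nat_lit 76) (nat_lit 717179373) (nat_lit 166) (nat_lit 1) (nat_lit 164) (nat_lit 1) (nat_lit 165) (nat_lit 1) (nat_lit 330) (nat_lit 390) (nat_lit 300)))) (XT.nd (nat_lit 78) (nat_lit 228) (nat_lit 0) (XT.lf (nat_lit 0) (nat_lit 2141085694) (nat_lit 0) (nat_lit 4157644478) (nat_lit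 152) (nat_lit 2141085694) (nat_lit 164) (nat_lit 3) (nat_lit 164) (nat_lit 1) (nat_lit 166) (nat_lit 1) (nat_lit 331) (nat_lit 390) (nat_lit 299)) (XT.nd (nat_lit 78) (nat_lit 152) (nat_lit 0) (XT.lf (nat_lit 76) (nat_lit 1487025546) (nat_lit 0) (nat_lit 3407557721) (nat_lit 76) (nat_lit 3407557721) (nat_lit 164) (nat_lit 3) (nat_lit 163) (nat_lit 1) (nat_lit 164) (nat_lit 1) (nat_lit 332) (nat_lit 390) (nat_lit 298)) (XT.lf (nat_lit 152) (nat_lit 6987922284) (nat_lit 0) (nat_lit 590025245) (nat_lit 76) (nat_lit 590025245) (nat_lit 163) (nat_lit 1) (nat_lit 161) (nat_lit 1) (nat_lit 162) (nat_lit 1) (nat_lit 333) (nat_lit 390) (nat_lit 297)))))) (XT.nd (nat_lit 468) (nat_lit 456) (nat_lit 0) (XT.nd (nat_lit 234) (nat_lit 228) (nat_lit 0) (XT.nd (nat_lit 78) (nat_lit 228) (nat_lit 0) (XT.lf (nat_lit 0) (nat_lit 2124868339) (nat_lit 0) (nat_lit 3783896240) (nat_lit 152) (nat_lit 2124868339) (nat_lit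 161) (nat_lit 3) (nat_lit 161) (nat_lit 1) (nat_lit 163) (nat_lit 1) (nat_lit 334) (nat_lit 390) (nat_lit 296)) (XT.nd (nat_lit 78) (nat_lit 152) (nat_lit 0) (XT.lf (nat_lit 76) (nat_lit 1580910277) (nat_lit 0) (nat_lit 3160936850) (nat_lit 76) (nat_lit 3160936850) (nat_lit 161) (nat_lit 3) (nat_lit 160) (nat_lit 1) (nat_lit 161) (nat_lit 1) (nat_lit 335) (nat_lit 390) (nat_lit 295)) (XT.lf (nat_lit 152) (nat_lit 6804547728) (nat_lit 0) (nat_lit 485415229) (nat_lit 76) (nat_lit 485415229) (nat_lit 160) (nat_lit 1) (nat_lit 158) (nat_lit 1) (nat_lit 159) (nat_lit 1) (nat_lit 336) (nat_lit 390) (nat_lit 294)))) (XT.nd (nat_lit 78) (nat_lit 228) (nat_lit 0) (XT.lf (nat_lit 0) (nat_lit 2094221907) (nat_lit 0) (nat_lit 3459108267) (nat_lit 152) (nat_lit 2094221907) (nat_lit 158) (nat_lit 3) (nat_lit 158) (nat_lit 1) (nat_lit 160) (nat_lit 1) (nat_lit 337) (nat_lit 390) (nat_lit 293)) (XT.nd (nat_lit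 78) (nat_lit 152) (nat_lit 0) (XT.lf (nat_lit 76) (nat_lit 1641124207) (nat_lit 0) (nat_lit 2941015979) (nat_lit 76) (nat_lit 2941015979) (nat_lit 158) (nat_lit 3) (nat_lit 157) (nat_lit 1) (nat_lit 158) (nat_lit 1) (nat_lit 338) (nat_lit 390) (nat_lit 292)) (XT.lf (nat_lit 152) (nat_lit 6603419942) (nat_lit 0) (nat_lit 399352310) (nat_lit 76) (nat_lit 399352310) (nat_lit 157) (nat_lit 1) (nat_lit 155) (nat_lit 1) (nat_lit 156) (nat_lit 1) (nat_lit 339) (nat_lit 390) (nat_lit 291))))) (XT.nd (nat_lit 234) (nat_lit 228) (nat_lit 0) (XT.nd (nat_lit 78) (nat_lit 228) (nat_lit 0) (XT.lf (nat_lit 0) (nat_lit 2052528656) (nat_lit 0) (nat_lit 3175424042) (nat_lit 152) (nat_lit 2052528656) (nat_lit 155) (nat_lit 3) (nat_lit 155) (nat_lit 1) (nat_lit 157) (nat_lit 1) (nat_lit 340) (nat_lit 390) (nat_lit 290)) (XT.nd (nat_lit 78) (nat_lit 152) (nat_lit 0) (XT.lf (nat_lit 76) (nat_lit 1674447814) (nat_lit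 0) (nat_lit 2743871991) (nat_lit 76) (nat_lit 2743871991) (nat_lit 155) (nat_lit 3) (nat_lit 154) (nat_lit 1) (nat_lit 155) (nat_lit 1) (nat_lit 341) (nat_lit 390) (nat_lit 289)) (XT.lf (nat_lit 152) (nat_lit 6390080106) (nat_lit 0) (nat_lit 328548134) (nat_lit 76) (nat_lit 328548134) (nat_lit 154) (nat_lit 1) (nat_lit 152) (nat_lit 1) (nat_lit 153) (nat_lit 1) (nat_lit 342) (nat_lit 390) (nat_lit 288)))) (XT.nd (nat_lit 156) (nat_lit 152) (nat_lit 0) (XT.nd (nat_lit 78) (nat_lit 76) (nat_lit 0) (XT.lf (nat_lit 0) (nat_lit 2002531938) (nat_lit 0) (nat_lit 2926340752) (nat_lit 152) (nat_lit 2002531938) (nat_lit 152) (nat_lit 3) (nat_lit 152) (nat_lit 1) (nat_lit 154) (nat_lit 1) (nat_lit 343) (nat_lit 390) (nat_lit 287)) (XT.lf (nat_lit 76) (nat_lit 1686420804) (nat_lit 0) (nat_lit 2566238722) (nat_lit 76) (nat_lit 2566238722) (nat_lit 152) (nat_lit 3) (nat_lit 151) (nat_lit 1) (nat_lit 152) (nat_lit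 1) (nat_lit 344) (nat_lit 390) (nat_lit 286))) (XT.nd (nat_lit 78) (nat_lit 0) (nat_lit 0) (XT.lf (nat_lit 152) (nat_lit 6168972982) (nat_lit 0) (nat_lit 270297363) (nat_lit 76) (nat_lit 270297363) (nat_lit 151) (nat_lit 1) (nat_lit 149) (nat_lit 1) (nat_lit 150) (nat_lit 1) (nat_lit 345) (nat_lit 390) (nat_lit 285)) (XT.lf (nat_lit 0) (nat_lit 1946451347) (nat_lit 0) (nat_lit 2706471144) (nat_lit 152) (nat_lit 1946451347) (nat_lit 149) (nat_lit 3) (nat_lit 149) (nat_lit 1) (nat_lit 151) (nat_lit 1) (nat_lit 346) (nat_lit 390) (nat_lit 284))))))) (XT.nd (nat_lit 936) (nat_lit 988) (nat_lit 0) (XT.nd (nat_lit 468) (nat_lit 456) (nat_lit 0) (XT.nd (nat_lit 234) (nat_lit 228) (nat_lit 0) (XT.nd (nat_lit 78) (nat_lit 152) (nat_lit 0) (XT.lf (nat_lit 76) (nat_lit 1681563945) (nat_lit 0) (nat_lit 2405392323) (nat_lit 76) (nat_lit 2405392323) (nat_lit 149) (nat_lit 3) (nat_lit 148) (nat_lit 1) (nat_lit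 149) (nat_lit 1) (nat_lit 347) (nat_lit 390) (nat_lit 283)) (XT.nd (nat_lit 78) (nat_lit 0) (nat_lit 0) (XT.lf (nat_lit 152) (nat_lit 5943646734) (nat_lit 0) (nat_lit 222374309) (nat_lit 76) (nat_lit 222374309) (nat_lit 148) (nat_lit 1) (nat_lit 146) (nat_lit 1) (nat_lit 147) (nat_lit 1) (nat_lit 348) (nat_lit 390) (nat_lit 282)) (XT.lf (nat_lit 0) (nat_lit 1886077355) (nat_lit 0) (nat_lit 2511347522) (nat_lit 152) (nat_lit 1886077355) (nat_lit 146) (nat_lit 3) (nat_lit 146) (nat_lit 1) (nat_lit 148) (nat_lit 1) (nat_lit 349) (nat_lit 390) (nat_lit 281)))) (XT.nd (nat_lit 78) (nat_lit 152) (nat_lit 0) (XT.lf (nat_lit 76) (nat_lit 1663561462) (nat_lit 0) (nat_lit 2259056860) (nat_lit 76) (nat_lit 2259056860) (nat_lit 146) (nat_lit 3) (nat_lit 145) (nat_lit 1) (nat_lit 146) (nat_lit 1) (nat_lit 350) (nat_lit 390) (nat_lit 280)) (XT.nd (nat_lit 78) (nat_lit 0) (nat_lit 0) (XT.lf (nat_lit 152) (nat_lit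 5716917063) (nat_lit 0) (nat_lit 182947894) (nat_lit 76) (nat_lit 182947894) (nat_lit 145) (nat_lit 1) (nat_lit 143) (nat_lit 1) (nat_lit 144) (nat_lit 1) (nat_lit 351) (nat_lit 390) (nat_lit 279)) (XT.lf (nat_lit 0) (nat_lit 1822849093) (nat_lit 0) (nat_lit 2337260407) (nat_lit 152) (nat_lit 1822849093) (nat_lit 143) (nat_lit 3) (nat_lit 143) (nat_lit 1) (nat_lit 145) (nat_lit 1) (nat_lit 352) (nat_lit 390) (nat_lit 278))))) (XT.nd (nat_lit 234) (nat_lit 228) (nat_lit 0) (XT.nd (nat_lit 78) (nat_lit 152) (nat_lit 0) (XT.lf (nat_lit 76) (nat_lit 1635411031) (nat_lit 0) (nat_lit 2125326568) (nat_lit 76) (nat_lit 2125326568) (nat_lit 143) (nat_lit 3) (nat_lit 142) (nat_lit 1) (nat_lit 143) (nat_lit 1) (nat_lit 353) (nat_lit 390) (nat_lit 277)) (XT.nd (nat_lit 78) (nat_lit 0) (nat_lit 0) (XT.lf (nat_lit 152) (nat_lit 5491001992) (nat_lit 0) (nat_lit 150511685) (nat_lit 76) (nat_lit 150511685) (nat_lit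 142) (nat_lit 1) (nat_lit 140) (nat_lit 1) (nat_lit 141) (nat_lit 1) (nat_lit 354) (nat_lit 390) (nat_lit 276)) (XT.lf (nat_lit 0) (nat_lit 1757918255) (nat_lit 0) (nat_lit 2181125717) (nat_lit 152) (nat_lit 1757918255) (nat_lit 140) (nat_lit 3) (nat_lit 140) (nat_lit 1) (nat_lit 142) (nat_lit 1) (nat_lit 355) (nat_lit 390) (nat_lit 275)))) (XT.nd (nat_lit 78) (nat_lit 152) (nat_lit 0) (XT.lf (nat_lit 76) (nat_lit 1599547082) (nat_lit 0) (nat_lit 2002601807) (nat_lit 76) (nat_lit 2002601807) (nat_lit 140) (nat_lit 3) (nat_lit 139) (nat_lit 1) (nat_lit 140) (nat_lit 1) (nat_lit 356) (nat_lit 390) (nat_lit 274)) (XT.nd (nat_lit 78) (nat_lit 0) (nat_lit 0) (XT.lf (nat_lit 152) (nat_lit 5267632525) (nat_lit 0) (nat_lit 123826336) (nat_lit 76) (nat_lit 123826336) (nat_lit 139) (nat_lit 1) (nat_lit 137) (nat_lit 1) (nat_lit 138) (nat_lit 1) (nat_lit 357) (nat_lit 390) (nat_lit 273)) (XT.lf (nat_lit 0)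 (nat_lit 1692201600) (nat_lit 0) (nat_lit 2040375425) (nat_lit 152) (nat_lit 1692201600) (nat_lit 137) (nat_lit 3) (nat_lit 137) (nat_lit 1) (nat_lit 139) (nat_lit 1) (nat_lit 358) (nat_lit 390) (nat_lit 272)))))) (XT.nd (nat_lit 468) (nat_lit 532) (nat_lit 0) (XT.nd (nat_lit 234) (nat_lit 228) (nat_lit 0) (XT.nd (nat_lit 78) (nat_lit 152) (nat_lit 0) (XT.lf (nat_lit 76) (nat_lit 1557942180) (nat_lit 0) (nat_lit 1889536300) (nat_lit 76) (nat_lit 1889536300) (nat_lit 137) (nat_lit 3) (nat_lit 136) (nat_lit 1) (nat_lit 137) (nat_lit 1) (nat_lit 359) (nat_lit 390) (nat_lit 271)) (XT.nd (nat_lit 78) (nat_lit 0) (nat_lit 0) (XT.lf (nat_lit 152) (nat_lit 5048143454) (nat_lit 0) (nat_lit 101872233) (nat_lit 76) (nat_lit 101872233) (nat_lit 136) (nat_lit 1) (nat_lit 134) (nat_lit 1) (nat_lit 135) (nat_lit 1) (nat_lit 360) (nat_lit 390) (nat_lit 270)) (XT.lf (nat_lit 0) (nat_lit 1626424063) (nat_lit 0)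 (nat_lit 1912867532) (nat_lit 152) (nat_lit 1626424063) (nat_lit 134) (nat_lit 3) (nat_lit 134) (nat_lit 1) (nat_lit 136) (nat_lit 1) (nat_lit 361) (nat_lit 390) (nat_lit 269)))) (XT.nd (nat_lit 78) (nat_lit 152) (nat_lit 0) (XT.lf (nat_lit 76) (nat_lit 1512190352) (nat_lit 0) (nat_lit 1784993655) (nat_lit 76) (nat_lit 1784993655) (nat_lit 134) (nat_lit 3) (nat_lit 133) (nat_lit 1) (nat_lit 134) (nat_lit 1) (nat_lit 362) (nat_lit 390) (nat_lit 268)) (XT.nd (nat_lit 78) (nat_lit 0) (nat_lit 0) (XT.lf (nat_lit 152) (nat_lit 4833547865) (nat_lit 0) (nat_lit 83810538) (nat_lit 76) (nat_lit 83810538) (nat_lit 133) (nat_lit 1) (nat_lit 131) (nat_lit 1) (nat_lit 132) (nat_lit 1) (nat_lit 363) (nat_lit 390) (nat_lit 267)) (XT.lf (nat_lit 0) (nat_lit 1561154168) (nat_lit 0) (nat_lit 1796811918) (nat_lit 152) (nat_lit 1561154168) (nat_lit 131) (nat_lit 3) (nat_lit 131) (nat_lit 1) (nat_lit 133) (nat_lit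 1) (nat_lit 364) (nat_lit 390) (nat_lit 266))))) (XT.nd (nat_lit 234) (nat_lit 304) (nat_lit 0) (XT.nd (nat_lit 78) (nat_lit 152) (nat_lit 0) (XT.lf (nat_lit 76) (nat_lit 1463575568) (nat_lit 0) (nat_lit 1688011520) (nat_lit 76) (nat_lit 1688011520) (nat_lit 131) (nat_lit 3) (nat_lit 130) (nat_lit 1) (nat_lit 131) (nat_lit 1) (nat_lit 365) (nat_lit 390) (nat_lit 265)) (XT.nd (nat_lit 78) (nat_lit 0) (nat_lit 0) (XT.lf (nat_lit 152) (nat_lit 4624598221) (nat_lit 0) (nat_lit 68951137) (nat_lit 76) (nat_lit 68951137) (nat_lit 130) (nat_lit 1) (nat_lit 128) (nat_lit 1) (nat_lit 129) (nat_lit 1) (nat_lit 366) (nat_lit 390) (nat_lit 264)) (XT.lf (nat_lit 0) (nat_lit 1496833080) (nat_lit 0) (nat_lit 1690709294) (nat_lit 152) (nat_lit 1496833080) (nat_lit 128) (nat_lit 3) (nat_lit 128) (nat_lit 1) (nat_lit 130) (nat_lit 1) (nat_lit 367) (nat_lit 390) (nat_lit 263)))) (XT.nd (nat_lit 156) (nat_lit 76) (nat_lit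 0) (XT.nd (nat_lit 78) (nat_lit 152) (nat_lit 0) (XT.lf (nat_lit 76) (nat_lit 1413128026) (nat_lit 0) (nat_lit 1597772039) (nat_lit 76) (nat_lit 1597772039) (nat_lit 128) (nat_lit 3) (nat_lit 127) (nat_lit 1) (nat_lit 128) (nat_lit 1) (nat_lit 368) (nat_lit 390) (nat_lit 262)) (XT.lf (nat_lit 152) (nat_lit 4421836431) (nat_lit 0) (nat_lit 56726271) (nat_lit 76) (nat_lit 56726271) (nat_lit 127) (nat_lit 1) (nat_lit 125) (nat_lit 1) (nat_lit 126) (nat_lit 1) (nat_lit 369) (nat_lit 390) (nat_lit 261))) (XT.nd (nat_lit 78) (nat_lit 76) (nat_lit 0) (XT.lf (nat_lit 0) (nat_lit 1433798453) (nat_lit 0) (nat_lit 1593300894) (nat_lit 152) (nat_lit 1433798453) (nat_lit 125) (nat_lit 3) (nat_lit 125) (nat_lit 1) (nat_lit 127) (nat_lit 1) (nat_lit 370) (nat_lit 390) (nat_lit 260)) (XT.lf (nat_lit 76) (nat_lit 1361670385) (nat_lit 0) (nat_lit 1513577472) (nat_lit 76) (nat_lit 1513577472) (nat_lit 125) (nat_lit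 3) (nat_lit 124) (nat_lit 1) (nat_lit 125) (nat_lit 1) (nat_lit 371) (nat_lit 390) (nat_lit 259))))))))
noncomputable def ec215 : XT := (XT.nd (nat_lit 1950) (nat_lit 1900) (nat_lit 0) (XT.nd (nat_lit 936) (nat_lit 1064) (nat_lit 0) (XT.nd (nat_lit 468) (nat_lit 456) (nat_lit 0) (XT.nd (nat_lit 234) (nat_lit 228) (nat_lit 0) (XT.nd (nat_lit 78) (nat_lit 76) (nat_lit 0) (XT.lf (nat_lit 152) (nat_lit 4225634850) (nat_lit 0) (nat_lit 46668843) (nat_lit 76) (nat_lit 46668843) (nat_lit 124) (nat_lit 1) (nat_lit 122) (nat_lit 1) (nat_lit 123) (nat_lit 1) (nat_lit 372) (nat_lit 390) (nat_lit 258)) (XT.nd (nat_lit 78) (nat_lit 76) (nat_lit 0) (XT.lf (nat_lit 0) (nat_lit 1372303986) (nat_lit 0) (nat_lit 1503527039) (nat_lit 152) (nat_lit 1372303986) (nat_lit 122) (nat_lit 3) (nat_lit 122) (nat_lit 1) (nat_lit 124) (nat_lit 1) (nat_lit 373) (nat_lit 390) (nat_lit 257)) (XT.lf (nat_lit 76) (nat_lit 1309855749)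 (nat_lit 0) (nat_lit 1434830085) (nat_lit 76) (nat_lit 1434830085) (nat_lit 122) (nat_lit 3) (nat_lit 121) (nat_lit 1) (nat_lit 122) (nat_lit 1) (nat_lit 374) (nat_lit 390) (nat_lit 256)))) (XT.nd (nat_lit 78) (nat_lit 76) (nat_lit 0) (XT.lf (nat_lit 152) (nat_lit 4036229844) (nat_lit 0) (nat_lit 38394573) (nat_lit 76) (nat_lit 38394573) (nat_lit 121) (nat_lit 1) (nat_lit 119) (nat_lit 1) (nat_lit 120) (nat_lit 1) (nat_lit 375) (nat_lit 390) (nat_lit 255)) (XT.nd (nat_lit 78) (nat_lit 76) (nat_lit 0) (XT.lf (nat_lit 0) (nat_lit 1312535458) (nat_lit 0) (nat_lit 1420492988) (nat_lit 152) (nat_lit 1312535458) (nat_lit 119) (nat_lit 3) (nat_lit 119) (nat_lit 1) (nat_lit 121) (nat_lit 1) (nat_lit 376) (nat_lit 390) (nat_lit 254)) (XT.lf (nat_lit 76) (nat_lit 1258198855) (nat_lit 0) (nat_lit 1361015551) (nat_lit 76) (nat_lit 1361015551) (nat_lit 119) (nat_lit 3) (nat_lit 118) (nat_lit 1) (nat_lit 119)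 (nat_lit 1) (nat_lit 377) (nat_lit 390) (nat_lit 253))))) (XT.nd (nat_lit 234) (nat_lit 228) (nat_lit 0) (XT.nd (nat_lit 78) (nat_lit 76) (nat_lit 0) (XT.lf (nat_lit 152) (nat_lit 3853749230) (nat_lit 0) (nat_lit 31587310) (nat_lit 76) (nat_lit 31587310) (nat_lit 118) (nat_lit 1) (nat_lit 116) (nat_lit 1) (nat_lit 117) (nat_lit 1) (nat_lit 378) (nat_lit 390) (nat_lit 252)) (XT.nd (nat_lit 78) (nat_lit 76) (nat_lit 0) (XT.lf (nat_lit 0) (nat_lit 1254623857) (nat_lit 0) (nat_lit 1343440785) (nat_lit 152) (nat_lit 1254623857) (nat_lit 116) (nat_lit 3) (nat_lit 116) (nat_lit 1) (nat_lit 118) (nat_lit 1) (nat_lit 379) (nat_lit 390) (nat_lit 251)) (XT.lf (nat_lit 76) (nat_lit 1207101682) (nat_lit 0) (nat_lit 1291689232) (nat_lit 76) (nat_lit 1291689232) (nat_lit 116) (nat_lit 3) (nat_lit 115) (nat_lit 1) (nat_lit 116) (nat_lit 1) (nat_lit 380) (nat_lit 390) (nat_lit 250)))) (XT.nd (nat_lit 78) (nat_lit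 76) (nat_lit 0) (XT.lf (nat_lit 152) (nat_lit 3678234694) (nat_lit 0) (nat_lit 25986958) (nat_lit 76) (nat_lit 25986958) (nat_lit 115) (nat_lit 1) (nat_lit 113) (nat_lit 1) (nat_lit 114) (nat_lit 1) (nat_lit 381) (nat_lit 390) (nat_lit 249)) (XT.nd (nat_lit 78) (nat_lit 76) (nat_lit 0) (XT.lf (nat_lit 0) (nat_lit 1198656141) (nat_lit 0) (nat_lit 1271726047) (nat_lit 152) (nat_lit 1198656141) (nat_lit 113) (nat_lit 3) (nat_lit 113) (nat_lit 1) (nat_lit 115) (nat_lit 1) (nat_lit 382) (nat_lit 390) (nat_lit 248)) (XT.lf (nat_lit 76) (nat_lit 1156874465) (nat_lit 0) (nat_lit 1226464852) (nat_lit 76) (nat_lit 1226464852) (nat_lit 113) (nat_lit 3) (nat_lit 112) (nat_lit 1) (nat_lit 113) (nat_lit 1) (nat_lit 383) (nat_lit 390) (nat_lit 247)))))) (XT.nd (nat_lit 468) (nat_lit 608) (nat_lit 0) (XT.nd (nat_lit 234) (nat_lit 228) (nat_lit 0) (XT.nd (nat_lit 78) (nat_lit 76) (nat_lit 0) (XT.lf (nat_lit 152)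 (nat_lit 3509660085) (nat_lit 0) (nat_lit 21379535) (nat_lit 76) (nat_lit 21379535) (nat_lit 112) (nat_lit 1) (nat_lit 110) (nat_lit 1) (nat_lit 111) (nat_lit 1) (nat_lit 384) (nat_lit 390) (nat_lit 246)) (XT.nd (nat_lit 78) (nat_lit 76) (nat_lit 0) (XT.lf (nat_lit 0) (nat_lit 1144684029) (nat_lit 0) (nat_lit 1204798822) (nat_lit 152) (nat_lit 1144684029) (nat_lit 110) (nat_lit 3) (nat_lit 110) (nat_lit 1) (nat_lit 112) (nat_lit 1) (nat_lit 385) (nat_lit 390) (nat_lit 245)) (XT.lf (nat_lit 76) (nat_lit 1107752937) (nat_lit 0) (nat_lit 1165005121) (nat_lit 76) (nat_lit 1165005121) (nat_lit 110) (nat_lit 3) (nat_lit 109) (nat_lit 1) (nat_lit 110) (nat_lit 1) (nat_lit 386) (nat_lit 390) (nat_lit 244)))) (XT.nd (nat_lit 78) (nat_lit 76) (nat_lit 0) (XT.lf (nat_lit 152) (nat_lit 3347946323) (nat_lit 0) (nat_lit 17588996) (nat_lit 76) (nat_lit 17588996) (nat_lit 109) (nat_lit 1) (nat_lit 107) (nat_lit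 1) (nat_lit 108) (nat_lit 1) (nat_lit 387) (nat_lit 390) (nat_lit 243)) (XT.nd (nat_lit 78) (nat_lit 76) (nat_lit 0) (XT.lf (nat_lit 0) (nat_lit 1092731198) (nat_lit 0) (nat_lit 1142187787) (nat_lit 152) (nat_lit 1092731198) (nat_lit 107) (nat_lit 3) (nat_lit 107) (nat_lit 1) (nat_lit 109) (nat_lit 1) (nat_lit 388) (nat_lit 390) (nat_lit 242)) (XT.lf (nat_lit 76) (nat_lit 1059912465) (nat_lit 0) (nat_lit 1107013978) (nat_lit 76) (nat_lit 1107013978) (nat_lit 107) (nat_lit 3) (nat_lit 106) (nat_lit 1) (nat_lit 107) (nat_lit 1) (nat_lit 389) (nat_lit 390) (nat_lit 241))))) (XT.nd (nat_lit 234) (nat_lit 380) (nat_lit 0) (XT.nd (nat_lit 78) (nat_lit 76) (nat_lit 0) (XT.lf (nat_lit 152) (nat_lit 3192973522) (nat_lit 0) (nat_lit 14470510) (nat_lit 76) (nat_lit 14470510) (nat_lit 106) (nat_lit 1) (nat_lit 104) (nat_lit 1) (nat_lit 105) (nat_lit 1) (nat_lit 390) (nat_lit 390) (nat_lit 240)) (XT.nd (nat_lit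 78) (nat_lit 76) (nat_lit 0) (XT.lf (nat_lit 0) (nat_lit 1042799152) (nat_lit 0) (nat_lit 1083487210) (nat_lit 152) (nat_lit 1042799152) (nat_lit 104) (nat_lit 3) (nat_lit 104) (nat_lit 1) (nat_lit 106) (nat_lit 1) (nat_lit 391) (nat_lit 390) (nat_lit 239)) (XT.lf (nat_lit 76) (nat_lit 1013479639) (nat_lit 0) (nat_lit 1052230170) (nat_lit 76) (nat_lit 1052230170) (nat_lit 104) (nat_lit 3) (nat_lit 103) (nat_lit 1) (nat_lit 104) (nat_lit 1) (nat_lit 392) (nat_lit 390) (nat_lit 238)))) (XT.nd (nat_lit 156) (nat_lit 228) (nat_lit 0) (XT.nd (nat_lit 78) (nat_lit 0) (nat_lit 0) (XT.lf (nat_lit 152) (nat_lit 3044590833) (nat_lit 0) (nat_lit 11904925) (nat_lit 76) (nat_lit 11904925) (nat_lit 103) (nat_lit 1) (nat_lit 101) (nat_lit 1) (nat_lit 102) (nat_lit 1) (nat_lit 393) (nat_lit 390) (nat_lit 237)) (XT.lf (nat_lit 0) (nat_lit 994872005) (nat_lit 0) (nat_lit 1028346171) (nat_lit 152) (nat_lit 994872005)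 (nat_lit 101) (nat_lit 3) (nat_lit 101) (nat_lit 1) (nat_lit 103) (nat_lit 1) (nat_lit 394) (nat_lit 390) (nat_lit 236))) (XT.nd (nat_lit 78) (nat_lit 152) (nat_lit 0) (XT.lf (nat_lit 76) (nat_lit 968541760) (nat_lit 0) (nat_lit 1000421918) (nat_lit 76) (nat_lit 1000421918) (nat_lit 101) (nat_lit 3) (nat_lit 100) (nat_lit 1) (nat_lit 101) (nat_lit 1) (nat_lit 395) (nat_lit 390) (nat_lit 235)) (XT.lf (nat_lit 152) (nat_lit 2902624428) (nat_lit 0) (nat_lit 9794211) (nat_lit 76) (nat_lit 9794211) (nat_lit 100) (nat_lit 1) (nat_lit 98) (nat_lit 1) (nat_lit 99) (nat_lit 1) (nat_lit 396) (nat_lit 390) (nat_lit 234))))))) (XT.nd (nat_lit 1014) (nat_lit 988) (nat_lit 0) (XT.nd (nat_lit 468) (nat_lit 456) (nat_lit 0) (XT.nd (nat_lit 234) (nat_lit 228) (nat_lit 0) (XT.nd (nat_lit 78) (nat_lit 228) (nat_lit 0) (XT.lf (nat_lit 0) (nat_lit 948920387) (nat_lit 0) (nat_lit 976459666) (nat_lit 152) (nat_lit 948920387)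 (nat_lit 98) (nat_lit 3) (nat_lit 98) (nat_lit 1) (nat_lit 100) (nat_lit 1) (nat_lit 397) (nat_lit 390) (nat_lit 233)) (XT.nd (nat_lit 78) (nat_lit 152) (nat_lit 0) (XT.lf (nat_lit 76) (nat_lit 925154611) (nat_lit 0) (nat_lit 951382496) (nat_lit 76) (nat_lit 951382496) (nat_lit 98) (nat_lit 3) (nat_lit 97) (nat_lit 1) (nat_lit 98) (nat_lit 1) (nat_lit 398) (nat_lit 390) (nat_lit 232)) (XT.lf (nat_lit 152) (nat_lit 2766883933) (nat_lit 0) (nat_lit 8057721) (nat_lit 76) (nat_lit 8057721) (nat_lit 97) (nat_lit 1) (nat_lit 95) (nat_lit 1) (nat_lit 96) (nat_lit 1) (nat_lit 399) (nat_lit 390) (nat_lit 231)))) (XT.nd (nat_lit 78) (nat_lit 228) (nat_lit 0) (XT.lf (nat_lit 0) (nat_lit 904904604) (nat_lit 0) (nat_lit 927561237) (nat_lit 152) (nat_lit 904904604) (nat_lit 95) (nat_lit 3) (nat_lit 95) (nat_lit 1) (nat_lit 97) (nat_lit 1) (nat_lit 400) (nat_lit 390) (nat_lit 230)) (XT.nd (nat_lit 78) (nat_lit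 152) (nat_lit 0) (XT.lf (nat_lit 76) (nat_lit 883348805) (nat_lit 0) (nat_lit 904926551) (nat_lit 76) (nat_lit 904926551) (nat_lit 95) (nat_lit 3) (nat_lit 94) (nat_lit 1) (nat_lit 95) (nat_lit 1) (nat_lit 401) (nat_lit 390) (nat_lit 229)) (XT.lf (nat_lit 152) (nat_lit 2637167623) (nat_lit 0) (nat_lit 6629107) (nat_lit 76) (nat_lit 6629107) (nat_lit 94) (nat_lit 1) (nat_lit 92) (nat_lit 1) (nat_lit 93) (nat_lit 1) (nat_lit 402) (nat_lit 390) (nat_lit 228))))) (XT.nd (nat_lit 234) (nat_lit 228) (nat_lit 0) (XT.nd (nat_lit 78) (nat_lit 228) (nat_lit 0) (XT.lf (nat_lit 0) (nat_lit 862777212) (nat_lit 0) (nat_lit 881416881) (nat_lit 152) (nat_lit 862777212) (nat_lit 92) (nat_lit 3) (nat_lit 92) (nat_lit 1) (nat_lit 94) (nat_lit 1) (nat_lit 403) (nat_lit 390) (nat_lit 227)) (XT.nd (nat_lit 78) (nat_lit 152) (nat_lit 0) (XT.lf (nat_lit 76) (nat_lit 843134978) (nat_lit 0) (nat_lit 860887043) (nat_lit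 76) (nat_lit 860887043) (nat_lit 92) (nat_lit 3) (nat_lit 91) (nat_lit 1) (nat_lit 92) (nat_lit 1) (nat_lit 404) (nat_lit 390) (nat_lit 226)) (XT.lf (nat_lit 152) (nat_lit 2513266582) (nat_lit 0) (nat_lit 5453783) (nat_lit 76) (nat_lit 5453783) (nat_lit 91) (nat_lit 1) (nat_lit 89) (nat_lit 1) (nat_lit 90) (nat_lit 1) (nat_lit 405) (nat_lit 390) (nat_lit 225)))) (XT.nd (nat_lit 156) (nat_lit 152) (nat_lit 0) (XT.nd (nat_lit 78) (nat_lit 76) (nat_lit 0) (XT.lf (nat_lit 0) (nat_lit 822485096) (nat_lit 0) (nat_lit 837819997) (nat_lit 152) (nat_lit 822485096) (nat_lit 89) (nat_lit 3) (nat_lit 89) (nat_lit 1) (nat_lit 91) (nat_lit 1) (nat_lit 406) (nat_lit 390) (nat_lit 224)) (XT.lf (nat_lit 76) (nat_lit 804508024) (nat_lit 0) (nat_lit 819112692) (nat_lit 76) (nat_lit 819112692) (nat_lit 89) (nat_lit 3) (nat_lit 88) (nat_lit 1) (nat_lit 89) (nat_lit 1) (nat_lit 407) (nat_lit 390) (nat_lit 223))) (XT.nd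 (nat_lit 78) (nat_lit 0) (nat_lit 0) (XT.lf (nat_lit 152) (nat_lit 2394968020) (nat_lit 0) (nat_lit 4486841) (nat_lit 76) (nat_lit 4486841) (nat_lit 88) (nat_lit 1) (nat_lit 86) (nat_lit 1) (nat_lit 87) (nat_lit 1) (nat_lit 408) (nat_lit 390) (nat_lit 222)) (XT.lf (nat_lit 0) (nat_lit 783971141) (nat_lit 0) (nat_lit 796587202) (nat_lit 152) (nat_lit 783971141) (nat_lit 86) (nat_lit 3) (nat_lit 86) (nat_lit 1) (nat_lit 88) (nat_lit 1) (nat_lit 409) (nat_lit 390) (nat_lit 221)))))) (XT.nd (nat_lit 468) (nat_lit 532) (nat_lit 0) (XT.nd (nat_lit 234) (nat_lit 228) (nat_lit 0) (XT.nd (nat_lit 78) (nat_lit 152) (nat_lit 0) (XT.lf (nat_lit 76) (nat_lit 767450543) (nat_lit 0) (nat_lit 779465840) (nat_lit 76) (nat_lit 779465840) (nat_lit 86) (nat_lit 3) (nat_lit 85) (nat_lit 1) (nat_lit 86) (nat_lit 1) (nat_lit 410) (nat_lit 390) (nat_lit 220)) (XT.nd (nat_lit 78) (nat_lit 0) (nat_lit 0) (XT.lf (nat_lit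 152) (nat_lit 2282057910) (nat_lit 0) (nat_lit 3691335) (nat_lit 76) (nat_lit 3691335) (nat_lit 85) (nat_lit 1) (nat_lit 83) (nat_lit 1) (nat_lit 84) (nat_lit 1) (nat_lit 411) (nat_lit 390) (nat_lit 219)) (XT.lf (nat_lit 0) (nat_lit 747175586) (nat_lit 0) (nat_lit 757554851) (nat_lit 152) (nat_lit 747175586) (nat_lit 83) (nat_lit 3) (nat_lit 83) (nat_lit 1) (nat_lit 85) (nat_lit 1) (nat_lit 412) (nat_lit 390) (nat_lit 218)))) (XT.nd (nat_lit 78) (nat_lit 152) (nat_lit 0) (XT.lf (nat_lit 76) (nat_lit 731935653) (nat_lit 0) (nat_lit 741820667) (nat_lit 76) (nat_lit 741820667) (nat_lit 83) (nat_lit 3) (nat_lit 82) (nat_lit 1) (nat_lit 83) (nat_lit 1) (nat_lit 413) (nat_lit 390) (nat_lit 217)) (XT.nd (nat_lit 78) (nat_lit 0) (nat_lit 0) (XT.lf (nat_lit 152) (nat_lit 2174323064) (nat_lit 0) (nat_lit 3036870) (nat_lit 76) (nat_lit 3036870) (nat_lit 82) (nat_lit 1) (nat_lit 80) (nat_lit 1) (nat_lit 81)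 (nat_lit 1) (nat_lit 414) (nat_lit 390) (nat_lit 216)) (XT.lf (nat_lit 0) (nat_lit 712037097) (nat_lit 0) (nat_lit 720576144) (nat_lit 152) (nat_lit 712037097) (nat_lit 80) (nat_lit 3) (nat_lit 80) (nat_lit 1) (nat_lit 82) (nat_lit 1) (nat_lit 415) (nat_lit 390) (nat_lit 215))))) (XT.nd (nat_lit 234) (nat_lit 304) (nat_lit 0) (XT.nd (nat_lit 78) (nat_lit 152) (nat_lit 0) (XT.lf (nat_lit 76) (nat_lit 697929264) (nat_lit 0) (nat_lit 706061690) (nat_lit 76) (nat_lit 706061690) (nat_lit 80) (nat_lit 3) (nat_lit 79) (nat_lit 1) (nat_lit 80) (nat_lit 1) (nat_lit 416) (nat_lit 390) (nat_lit 214)) (XT.nd (nat_lit 78) (nat_lit 0) (nat_lit 0) (XT.lf (nat_lit 152) (nat_lit 2071552751) (nat_lit 0) (nat_lit 2498441) (nat_lit 76) (nat_lit 2498441) (nat_lit 79) (nat_lit 1) (nat_lit 77) (nat_lit 1) (nat_lit 78) (nat_lit 1) (nat_lit 417) (nat_lit 390) (nat_lit 213)) (XT.lf (nat_lit 0) (nat_lit 678493628) (nat_lit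 0) (nat_lit 685518722) (nat_lit 152) (nat_lit 678493628) (nat_lit 77) (nat_lit 3) (nat_lit 77) (nat_lit 1) (nat_lit 79) (nat_lit 1) (nat_lit 418) (nat_lit 390) (nat_lit 212)))) (XT.nd (nat_lit 156) (nat_lit 76) (nat_lit 0) (XT.nd (nat_lit 78) (nat_lit 152) (nat_lit 0) (XT.lf (nat_lit 76) (nat_lit 665391935) (nat_lit 0) (nat_lit 672082501) (nat_lit 76) (nat_lit 672082501) (nat_lit 77) (nat_lit 3) (nat_lit 76) (nat_lit 1) (nat_lit 77) (nat_lit 1) (nat_lit 419) (nat_lit 390) (nat_lit 211)) (XT.lf (nat_lit 152) (nat_lit 1973539942) (nat_lit 0) (nat_lit 2055473) (nat_lit 76) (nat_lit 2055473) (nat_lit 76) (nat_lit 1) (nat_lit 74) (nat_lit 1) (nat_lit 75) (nat_lit 1) (nat_lit 420) (nat_lit 390) (nat_lit 210))) (XT.nd (nat_lit 78) (nat_lit 76) (nat_lit 0) (XT.lf (nat_lit 0) (nat_lit 646483097) (nat_lit 0) (nat_lit 652262660) (nat_lit 152) (nat_lit 646483097) (nat_lit 74) (nat_lit 3) (nat_lit 74) (nat_lit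 1) (nat_lit 76) (nat_lit 1) (nat_lit 421) (nat_lit 390) (nat_lit 209)) (XT.lf (nat_lit 76) (nat_lit 634280355) (nat_lit 0) (nat_lit 639784700) (nat_lit 76) (nat_lit 639784700) (nat_lit 74) (nat_lit 3) (nat_lit 73) (nat_lit 1) (nat_lit 74) (nat_lit 1) (nat_lit 422) (nat_lit 390) (nat_lit 208))))))))
noncomputable def ec216 : XT := (XT.nd (nat_lit 38766) (nat_lit 0) (nat_lit 15276) (XT.nd (nat_lit 936) (nat_lit 912) (nat_lit 0) (XT.nd (nat_lit 468) (nat_lit 456) (nat_lit 0) (XT.nd (nat_lit 234) (nat_lit 228) (nat_lit 0) (XT.nd (nat_lit 78) (nat_lit 76) (nat_lit 0) (XT.lf (nat_lit 152) (nat_lit 1880082258) (nat_lit 0) (nat_lit 1691043) (nat_lit 76) (nat_lit 1691043) (nat_lit 73) (nat_lit 1) (nat_lit 71) (nat_lit 1) (nat_lit 72) (nat_lit 1) (nat_lit 423) (nat_lit 390) (nat_lit 207)) (XT.nd (nat_lit 78) (nat_lit 76) (nat_lit 0) (XT.lf (nat_lit 0) (nat_lit 615943920) (nat_lit 0) (nat_lit 620698781) (nat_lit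 152) (nat_lit 615943920) (nat_lit 71) (nat_lit 3) (nat_lit 71) (nat_lit 1) (nat_lit 73) (nat_lit 1) (nat_lit 424) (nat_lit 390) (nat_lit 206)) (XT.lf (nat_lit 76) (nat_lit 604548554) (nat_lit 0) (nat_lit 609076993) (nat_lit 76) (nat_lit 609076993) (nat_lit 71) (nat_lit 3) (nat_lit 70) (nat_lit 1) (nat_lit 71) (nat_lit 1) (nat_lit 425) (nat_lit 390) (nat_lit 205)))) (XT.nd (nat_lit 78) (nat_lit 76) (nat_lit 0) (XT.lf (nat_lit 152) (nat_lit 1790982673) (nat_lit 0) (nat_lit 1391225) (nat_lit 76) (nat_lit 1391225) (nat_lit 70) (nat_lit 1) (nat_lit 68) (nat_lit 1) (nat_lit 69) (nat_lit 1) (nat_lit 426) (nat_lit 390) (nat_lit 204)) (XT.nd (nat_lit 78) (nat_lit 76) (nat_lit 0) (XT.lf (nat_lit 0) (nat_lit 586815422) (nat_lit 0) (nat_lit 590727258) (nat_lit 152) (nat_lit 586815422) (nat_lit 68) (nat_lit 3) (nat_lit 68) (nat_lit 1) (nat_lit 70) (nat_lit 1) (nat_lit 427) (nat_lit 390) (nat_lit 203)) (XT.lf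 (nat_lit 76) (nat_lit 576148865) (nat_lit 0) (nat_lit 579874422) (nat_lit 76) (nat_lit 579874422) (nat_lit 68) (nat_lit 3) (nat_lit 67) (nat_lit 1) (nat_lit 68) (nat_lit 1) (nat_lit 428) (nat_lit 390) (nat_lit 202))))) (XT.nd (nat_lit 234) (nat_lit 228) (nat_lit 0) (XT.nd (nat_lit 78) (nat_lit 76) (nat_lit 0) (XT.lf (nat_lit 152) (nat_lit 1706050016) (nat_lit 0) (nat_lit 1144564) (nat_lit 76) (nat_lit 1144564) (nat_lit 67) (nat_lit 1) (nat_lit 65) (nat_lit 1) (nat_lit 66) (nat_lit 1) (nat_lit 429) (nat_lit 390) (nat_lit 201)) (XT.nd (nat_lit 78) (nat_lit 76) (nat_lit 0) (XT.lf (nat_lit 0) (nat_lit 559038152) (nat_lit 0) (nat_lit 562256429) (nat_lit 152) (nat_lit 559038152) (nat_lit 65) (nat_lit 3) (nat_lit 65) (nat_lit 1) (nat_lit 67) (nat_lit 1) (nat_lit 430) (nat_lit 390) (nat_lit 200)) (XT.lf (nat_lit 76) (nat_lit 549032690) (nat_lit 0) (nat_lit 552097716) (nat_lit 76) (nat_lit 552097716) (nat_lit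 65) (nat_lit 3) (nat_lit 64) (nat_lit 1) (nat_lit 65) (nat_lit 1) (nat_lit 431) (nat_lit 390) (nat_lit 199)))) (XT.nd (nat_lit 78) (nat_lit 76) (nat_lit 0) (XT.lf (nat_lit 152) (nat_lit 1625099322) (nat_lit 0) (nat_lit 941636) (nat_lit 76) (nat_lit 941636) (nat_lit 64) (nat_lit 1) (nat_lit 62) (nat_lit 1) (nat_lit 63) (nat_lit 1) (nat_lit 432) (nat_lit 390) (nat_lit 198)) (XT.nd (nat_lit 78) (nat_lit 76) (nat_lit 0) (XT.lf (nat_lit 0) (nat_lit 532554121) (nat_lit 0) (nat_lit 535201805) (nat_lit 152) (nat_lit 532554121) (nat_lit 62) (nat_lit 3) (nat_lit 62) (nat_lit 1) (nat_lit 64) (nat_lit 1) (nat_lit 433) (nat_lit 390) (nat_lit 197)) (XT.lf (nat_lit 76) (nat_lit 523151118) (nat_lit 0) (nat_lit 525672722) (nat_lit 76) (nat_lit 525672722) (nat_lit 62) (nat_lit 3) (nat_lit 61) (nat_lit 1) (nat_lit 62) (nat_lit 1) (nat_lit 434) (nat_lit 390) (nat_lit 196)))))) (XT.nd (nat_lit 468) (nat_lit 456) (nat_lit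 0) (XT.nd (nat_lit 234) (nat_lit 228) (nat_lit 0) (XT.nd (nat_lit 78) (nat_lit 76) (nat_lit 0) (XT.lf (nat_lit 152) (nat_lit 1547952045) (nat_lit 0) (nat_lit 774686) (nat_lit 76) (nat_lit 774686) (nat_lit 61) (nat_lit 1) (nat_lit 59) (nat_lit 1) (nat_lit 60) (nat_lit 1) (nat_lit 435) (nat_lit 390) (nat_lit 195)) (XT.nd (nat_lit 78) (nat_lit 76) (nat_lit 0) (XT.lf (nat_lit 0) (nat_lit 507306974) (nat_lit 0) (nat_lit 509485231) (nat_lit 152) (nat_lit 507306974) (nat_lit 59) (nat_lit 3) (nat_lit 59) (nat_lit 1) (nat_lit 61) (nat_lit 1) (nat_lit 436) (nat_lit 390) (nat_lit 194)) (XT.lf (nat_lit 76) (nat_lit 498455400) (nat_lit 0) (nat_lit 500529930) (nat_lit 76) (nat_lit 500529930) (nat_lit 59) (nat_lit 3) (nat_lit 58) (nat_lit 1) (nat_lit 59) (nat_lit 1) (nat_lit 437) (nat_lit 390) (nat_lit 193)))) (XT.nd (nat_lit 78) (nat_lit 76) (nat_lit 0) (XT.lf (nat_lit 152) (nat_lit 1474436180) (nat_lit 0) (nat_lit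 637336) (nat_lit 76) (nat_lit 637336) (nat_lit 58) (nat_lit 1) (nat_lit 56) (nat_lit 1) (nat_lit 57) (nat_lit 1) (nat_lit 438) (nat_lit 390) (nat_lit 192)) (XT.nd (nat_lit 78) (nat_lit 76) (nat_lit 0) (XT.lf (nat_lit 0) (nat_lit 483242113) (nat_lit 0) (nat_lit 485034170) (nat_lit 152) (nat_lit 483242113) (nat_lit 56) (nat_lit 3) (nat_lit 56) (nat_lit 1) (nat_lit 58) (nat_lit 1) (nat_lit 439) (nat_lit 390) (nat_lit 191)) (XT.lf (nat_lit 76) (nat_lit 474897330) (nat_lit 0) (nat_lit 476604051) (nat_lit 76) (nat_lit 476604051) (nat_lit 56) (nat_lit 3) (nat_lit 55) (nat_lit 1) (nat_lit 56) (nat_lit 1) (nat_lit 440) (nat_lit 390) (nat_lit 190))))) (XT.nd (nat_lit 234) (nat_lit 228) (nat_lit 0) (XT.nd (nat_lit 78) (nat_lit 76) (nat_lit 0) (XT.lf (nat_lit 152) (nat_lit 1404386295) (nat_lit 0) (nat_lit 524338) (nat_lit 76) (nat_lit 524338) (nat_lit 55) (nat_lit 1) (nat_lit 53) (nat_lit 1) (nat_lit 54) (nat_lit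 1) (nat_lit 441) (nat_lit 390) (nat_lit 189)) (XT.nd (nat_lit 78) (nat_lit 76) (nat_lit 0) (XT.lf (nat_lit 0) (nat_lit 460306778) (nat_lit 0) (nat_lit 461781108) (nat_lit 152) (nat_lit 460306778) (nat_lit 53) (nat_lit 3) (nat_lit 53) (nat_lit 1) (nat_lit 55) (nat_lit 1) (nat_lit 442) (nat_lit 390) (nat_lit 188)) (XT.lf (nat_lit 76) (nat_lit 452429532) (nat_lit 0) (nat_lit 453833655) (nat_lit 76) (nat_lit 453833655) (nat_lit 53) (nat_lit 3) (nat_lit 52) (nat_lit 1) (nat_lit 53) (nat_lit 1) (nat_lit 443) (nat_lit 390) (nat_lit 187)))) (XT.nd (nat_lit 156) (nat_lit 76) (nat_lit 0) (XT.nd (nat_lit 78) (nat_lit 0) (nat_lit 0) (XT.lf (nat_lit 152) (nat_lit 1337643510) (nat_lit 0) (nat_lit 431374) (nat_lit 76) (nat_lit 431374) (nat_lit 52) (nat_lit 1) (nat_lit 50) (nat_lit 1) (nat_lit 51) (nat_lit 1) (nat_lit 444) (nat_lit 390) (nat_lit 186)) (XT.lf (nat_lit 0) (nat_lit 438450092) (nat_lit 0) (nat_lit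 439663027) (nat_lit 152) (nat_lit 438450092) (nat_lit 50) (nat_lit 3) (nat_lit 50) (nat_lit 1) (nat_lit 52) (nat_lit 1) (nat_lit 445) (nat_lit 390) (nat_lit 185))) (XT.nd (nat_lit 36894) (nat_lit 0) (nat_lit 18468) (XT.lf (nat_lit 76) (nat_lit 431005679) (nat_lit 0) (nat_lit 432160855) (nat_lit 76) (nat_lit 432160855) (nat_lit 50) (nat_lit 3) (nat_lit 49) (nat_lit 1) (nat_lit 50) (nat_lit 1) (nat_lit 446) (nat_lit 390) (nat_lit 184)) (XT.lf (nat_lit 836) (nat_lit 6469994798) (nat_lit 0) (nat_lit 11487460893) (nat_lit 836) (nat_lit 6469994798) (nat_lit 303) (nat_lit 1) (nat_lit 292) (nat_lit 0) (nat_lit 303) (nat_lit 0) (nat_lit 238) (nat_lit 391) (nat_lit 391))))))) (XT.nd (nat_lit 936) (nat_lit 2280) (nat_lit 0) (XT.nd (nat_lit 468) (nat_lit 912) (nat_lit 0) (XT.nd (nat_lit 234) (nat_lit 0) (nat_lit 152) (XT.nd (nat_lit 78) (nat_lit 0) (nat_lit 76) (XT.lf (nat_lit 836) (nat_lit 25078507586) (nat_lit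 76) (nat_lit 11302179265) (nat_lit 0) (nat_lit 11302179265) (nat_lit 303) (nat_lit 1) (nat_lit 293) (nat_lit 1) (nat_lit 292) (nat_lit 0) (nat_lit 239) (nat_lit 391) (nat_lit 390)) (XT.nd (nat_lit 78) (nat_lit 0) (nat_lit 0) (XT.lf (nat_lit 836) (nat_lit 11952039109) (nat_lit 0) (nat_lit 22642986932) (nat_lit 760) (nat_lit 11952039109) (nat_lit 304) (nat_lit 1) (nat_lit 293) (nat_lit 1) (nat_lit 303) (nat_lit 1) (nat_lit 240) (nat_lit 391) (nat_lit 389)) (XT.lf (nat_lit 836) (nat_lit 22420364590) (nat_lit 76) (nat_lit 11513797212) (nat_lit 0) (nat_lit 11513797212) (nat_lit 304) (nat_lit 1) (nat_lit 294) (nat_lit 1) (nat_lit 293) (nat_lit 1) (nat_lit 241) (nat_lit 391) (nat_lit 388)))) (XT.nd (nat_lit 78) (nat_lit 0) (nat_lit 0) (XT.lf (nat_lit 836) (nat_lit 10319878516) (nat_lit 0) (nat_lit 23743931999) (nat_lit 760) (nat_lit 10319878516) (nat_lit 305) (nat_lit 1) (nat_lit 294) (nat_lit 1) (nat_lit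 304) (nat_lit 1) (nat_lit 242) (nat_lit 391) (nat_lit 387)) (XT.nd (nat_lit 78) (nat_lit 0) (nat_lit 76) (XT.lf (nat_lit 836) (nat_lit 18560973665) (nat_lit 76) (nat_lit 12395444199) (nat_lit 0) (nat_lit 12395444199) (nat_lit 305) (nat_lit 1) (nat_lit 295) (nat_lit 1) (nat_lit 294) (nat_lit 1) (nat_lit 243) (nat_lit 391) (nat_lit 386)) (XT.lf (nat_lit 836) (nat_lit 8138450863) (nat_lit 0) (nat_lit 26077778547) (nat_lit 760) (nat_lit 8138450863) (nat_lit 306) (nat_lit 1) (nat_lit 295) (nat_lit 1) (nat_lit 305) (nat_lit 1) (nat_lit 244) (nat_lit 391) (nat_lit 385))))) (XT.nd (nat_lit 234) (nat_lit 1140) (nat_lit 0) (XT.nd (nat_lit 78) (nat_lit 0) (nat_lit 76) (XT.lf (nat_lit 836) (nat_lit 13680985785) (nat_lit 76) (nat_lit 13851984264) (nat_lit 0) (nat_lit 13851984264) (nat_lit 306) (nat_lit 1) (nat_lit 296) (nat_lit 1) (nat_lit 295) (nat_lit 1) (nat_lit 245) (nat_lit 391) (nat_lit 384)) (XT.nd (nat_lit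 78) (nat_lit 0) (nat_lit 0) (XT.lf (nat_lit 836) (nat_lit 5492203217) (nat_lit 0) (nat_lit 29466319421) (nat_lit 760) (nat_lit 5492203217) (nat_lit 307) (nat_lit 1) (nat_lit 296) (nat_lit 1) (nat_lit 306) (nat_lit 1) (nat_lit 246) (nat_lit 391) (nat_lit 383)) (XT.lf (nat_lit 836) (nat_lit 7940972407) (nat_lit 76) (nat_lit 15798690238) (nat_lit 0) (nat_lit 15798690238) (nat_lit 307) (nat_lit 1) (nat_lit 297) (nat_lit 1) (nat_lit 296) (nat_lit 1) (nat_lit 247) (nat_lit 391) (nat_lit 382)))) (XT.nd (nat_lit 78) (nat_lit 1292) (nat_lit 0) (XT.lf (nat_lit 76) (nat_lit 2456141967) (nat_lit 0) (nat_lit 33750943268) (nat_lit 760) (nat_lit 2456141967) (nat_lit 298) (nat_lit 1) (nat_lit 297) (nat_lit 1) (nat_lit 307) (nat_lit 1) (nat_lit 248) (nat_lit 391) (nat_lit 381)) (XT.nd (nat_lit 78) (nat_lit 532) (nat_lit 0) (XT.lf (nat_lit 836) (nat_lit 1483448669) (nat_lit 0) (nat_lit 18160201560) (nat_lit 760)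 (nat_lit 18160201560) (nat_lit 298) (nat_lit 1) (nat_lit 287) (nat_lit 1) (nat_lit 297) (nat_lit 1) (nat_lit 249) (nat_lit 391) (nat_lit 380)) (XT.lf (nat_lit 532) (nat_lit 35204105126) (nat_lit 0) (nat_lit 888645814) (nat_lit 456) (nat_lit 888645814) (nat_lit 287) (nat_lit 1) (nat_lit 280) (nat_lit 1) (nat_lit 286) (nat_lit 1) (nat_lit 250) (nat_lit 391) (nat_lit 379)))))) (XT.nd (nat_lit 468) (nat_lit 1216) (nat_lit 0) (XT.nd (nat_lit 234) (nat_lit 684) (nat_lit 0) (XT.nd (nat_lit 78) (nat_lit 380) (nat_lit 0) (XT.lf (nat_lit 76) (nat_lit 15391173490) (nat_lit 0) (nat_lit 5387174631) (nat_lit 532) (nat_lit 15391173490) (nat_lit 281) (nat_lit 1) (nat_lit 280) (nat_lit 1) (nat_lit 287) (nat_lit 1) (nat_lit 251) (nat_lit 391) (nat_lit 378)) (XT.nd (nat_lit 78) (nat_lit 0) (nat_lit 0) (XT.lf (nat_lit 456) (nat_lit 26484258834) (nat_lit 0) (nat_lit 4453955371) (nat_lit 380) (nat_lit 4453955371) (nat_lit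 281) (nat_lit 1) (nat_lit 275) (nat_lit 1) (nat_lit 280) (nat_lit 1) (nat_lit 252) (nat_lit 391) (nat_lit 377)) (XT.lf (nat_lit 76) (nat_lit 10978336686) (nat_lit 0) (nat_lit 12674486255) (nat_lit 456) (nat_lit 10978336686) (nat_lit 276) (nat_lit 1) (nat_lit 275) (nat_lit 1) (nat_lit 281) (nat_lit 1) (nat_lit 253) (nat_lit 391) (nat_lit 376)))) (XT.nd (nat_lit 78) (nat_lit 304) (nat_lit 0) (XT.lf (nat_lit 456) (nat_lit 17440260023) (nat_lit 0) (nat_lit 8228196799) (nat_lit 380) (nat_lit 8228196799) (nat_lit 276) (nat_lit 1) (nat_lit 270) (nat_lit 1) (nat_lit 275) (nat_lit 1) (nat_lit 254) (nat_lit 391) (nat_lit 375)) (XT.nd (nat_lit 78) (nat_lit 304) (nat_lit 0) (XT.lf (nat_lit 76) (nat_lit 6426504036) (nat_lit 0) (nat_lit 20330501451) (nat_lit 456) (nat_lit 6426504036) (nat_lit 271) (nat_lit 1) (nat_lit 270) (nat_lit 1) (nat_lit 276) (nat_lit 1) (nat_lit 255) (nat_lit 391) (nat_lit 374)) (XT.lf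 (nat_lit 380) (nat_lit 8156285379) (nat_lit 0) (nat_lit 12166212233) (nat_lit 304) (nat_lit 12166212233) (nat_lit 271) (nat_lit 1) (nat_lit 266) (nat_lit 1) (nat_lit 270) (nat_lit 1) (nat_lit 256) (nat_lit 391) (nat_lit 373))))) (XT.nd (nat_lit 234) (nat_lit 532) (nat_lit 0) (XT.nd (nat_lit 78) (nat_lit 684) (nat_lit 0) (XT.lf (nat_lit 76) (nat_lit 1774753274) (nat_lit 0) (nat_lit 28271122193) (nat_lit 380) (nat_lit 1774753274) (nat_lit 267) (nat_lit 1) (nat_lit 266) (nat_lit 1) (nat_lit 271) (nat_lit 1) (nat_lit 257) (nat_lit 391) (nat_lit 372)) (XT.nd (nat_lit 78) (nat_lit 304) (nat_lit 0) (XT.lf (nat_lit 76) (nat_lit 14954581069) (nat_lit 0) (nat_lit 1252475214) (nat_lit 380) (nat_lit 14954581069) (nat_lit 262) (nat_lit 1) (nat_lit 261) (nat_lit 1) (nat_lit 266) (nat_lit 1) (nat_lit 258) (nat_lit 391) (nat_lit 371)) (XT.lf (nat_lit 380) (nat_lit 24737235451) (nat_lit 0) (nat_lit 2895253260)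 (nat_lit 304) (nat_lit 2895253260) (nat_lit 262) (nat_lit 1) (nat_lit 257) (nat_lit 1) (nat_lit 261) (nat_lit 1) (nat_lit 259) (nat_lit 391) (nat_lit 370)))) (XT.nd (nat_lit 156) (nat_lit 228) (nat_lit 0) (XT.nd (nat_lit 78) (nat_lit 304) (nat_lit 0) (XT.lf (nat_lit 76) (nat_lit 9703031268) (nat_lit 0) (nat_lit 10498658668) (nat_lit 380) (nat_lit 9703031268) (nat_lit 258) (nat_lit 1) (nat_lit 257) (nat_lit 1) (nat_lit 262) (nat_lit 1) (nat_lit 260) (nat_lit 391) (nat_lit 369)) (XT.lf (nat_lit 380) (nat_lit 14159421794) (nat_lit 0) (nat_lit 7571941407) (nat_lit 304) (nat_lit 7571941407) (nat_lit 258) (nat_lit 1) (nat_lit 253) (nat_lit 1) (nat_lit 257) (nat_lit 1) (nat_lit 261) (nat_lit 391) (nat_lit 368))) (XT.nd (nat_lit 78) (nat_lit 228) (nat_lit 0) (XT.lf (nat_lit 76) (nat_lit 4465249709) (nat_lit 0) (nat_lit 19788974066) (nat_lit 380) (nat_lit 4465249709) (nat_lit 254) (nat_lit 1) (nat_lit 253)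 (nat_lit 1) (nat_lit 258) (nat_lit 1) (nat_lit 262) (nat_lit 391) (nat_lit 367)) (XT.lf (nat_lit 304) (nat_lit 3631396345) (nat_lit 0) (nat_lit 12258424296) (nat_lit 228) (nat_lit 12258424296) (nat_lit 254) (nat_lit 1) (nat_lit 250) (nat_lit 1) (nat_lit 253) (nat_lit 1) (nat_lit 263) (nat_lit 391) (nat_lit 366))))))))
noncomputable def ec217 : XT := (XT.nd (nat_lit 1950) (nat_lit 2204) (nat_lit 0) (XT.nd (nat_lit 936) (nat_lit 1368) (nat_lit 0) (XT.nd (nat_lit 468) (nat_lit 684) (nat_lit 0) (XT.nd (nat_lit 234) (nat_lit 532) (nat_lit 0) (XT.nd (nat_lit 78) (nat_lit 228) (nat_lit 0) (XT.lf (nat_lit 380) (nat_lit 26147949835) (nat_lit 0) (nat_lit 725555435) (nat_lit 304) (nat_lit 725555435) (nat_lit 250) (nat_lit 1) (nat_lit 245) (nat_lit 1) (nat_lit 249) (nat_lit 1) (nat_lit 264) (nat_lit 391) (nat_lit 365)) (XT.nd (nat_lit 78) (nat_lit 228) (nat_lit 0) (XT.lf (nat_lit 76) (nat_lit 10231886079)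 (nat_lit 0) (nat_lit 6589143985) (nat_lit 380) (nat_lit 10231886079) (nat_lit 246) (nat_lit 1) (nat_lit 245) (nat_lit 1) (nat_lit 250) (nat_lit 1) (nat_lit 265) (nat_lit 391) (nat_lit 364)) (XT.lf (nat_lit 304) (nat_lit 14943993092) (nat_lit 0) (nat_lit 5791862292) (nat_lit 228) (nat_lit 5791862292) (nat_lit 246) (nat_lit 1) (nat_lit 242) (nat_lit 1) (nat_lit 245) (nat_lit 1) (nat_lit 266) (nat_lit 391) (nat_lit 363)))) (XT.nd (nat_lit 78) (nat_lit 532) (nat_lit 0) (XT.lf (nat_lit 76) (nat_lit 4721038577) (nat_lit 0) (nat_lit 16573785627) (nat_lit 304) (nat_lit 4721038577) (nat_lit 243) (nat_lit 1) (nat_lit 242) (nat_lit 1) (nat_lit 246) (nat_lit 1) (nat_lit 267) (nat_lit 391) (nat_lit 362)) (XT.nd (nat_lit 78) (nat_lit 304) (nat_lit 0) (XT.lf (nat_lit 304) (nat_lit 3934838093) (nat_lit 0) (nat_lit 10790407177) (nat_lit 228) (nat_lit 10790407177) (nat_lit 243) (nat_lit 1) (nat_lit 239) (nat_lit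 1) (nat_lit 242) (nat_lit 1) (nat_lit 268) (nat_lit 391) (nat_lit 361)) (XT.lf (nat_lit 304) (nat_lit 23681540417) (nat_lit 0) (nat_lit 676242572) (nat_lit 228) (nat_lit 676242572) (nat_lit 239) (nat_lit 1) (nat_lit 235) (nat_lit 1) (nat_lit 238) (nat_lit 1) (nat_lit 269) (nat_lit 391) (nat_lit 360))))) (XT.nd (nat_lit 234) (nat_lit 456) (nat_lit 0) (XT.nd (nat_lit 78) (nat_lit 228) (nat_lit 0) (XT.lf (nat_lit 76) (nat_lit 8958048543) (nat_lit 0) (nat_lit 6637824021) (nat_lit 304) (nat_lit 8958048543) (nat_lit 236) (nat_lit 1) (nat_lit 235) (nat_lit 1) (nat_lit 239) (nat_lit 1) (nat_lit 270) (nat_lit 391) (nat_lit 359)) (XT.nd (nat_lit 78) (nat_lit 0) (nat_lit 0) (XT.lf (nat_lit 304) (nat_lit 12318136998) (nat_lit 0) (nat_lit 5886721798) (nat_lit 228) (nat_lit 5886721798) (nat_lit 236) (nat_lit 1) (nat_lit 232) (nat_lit 1) (nat_lit 235) (nat_lit 1) (nat_lit 271) (nat_lit 391) (nat_lit 358)) (XT.lf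 (nat_lit 76) (nat_lit 3392404883) (nat_lit 0) (nat_lit 16856830499) (nat_lit 304) (nat_lit 3392404883) (nat_lit 233) (nat_lit 1) (nat_lit 232) (nat_lit 1) (nat_lit 236) (nat_lit 1) (nat_lit 272) (nat_lit 391) (nat_lit 357)))) (XT.nd (nat_lit 78) (nat_lit 304) (nat_lit 0) (XT.lf (nat_lit 228) (nat_lit 1243089944) (nat_lit 0) (nat_lit 10978544423) (nat_lit 152) (nat_lit 10978544423) (nat_lit 233) (nat_lit 1) (nat_lit 230) (nat_lit 1) (nat_lit 232) (nat_lit 1) (nat_lit 273) (nat_lit 391) (nat_lit 356)) (XT.nd (nat_lit 78) (nat_lit 0) (nat_lit 0) (XT.lf (nat_lit 304) (nat_lit 18782672232) (nat_lit 0) (nat_lit 1994855934) (nat_lit 228) (nat_lit 1994855934) (nat_lit 230) (nat_lit 1) (nat_lit 226) (nat_lit 1) (nat_lit 229) (nat_lit 1) (nat_lit 274) (nat_lit 391) (nat_lit 355)) (XT.lf (nat_lit 76) (nat_lit 6560341564) (nat_lit 0) (nat_lit 9228690755) (nat_lit 304) (nat_lit 6560341564) (nat_lit 227) (nat_lit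 1) (nat_lit 226) (nat_lit 1) (nat_lit 230) (nat_lit 1) (nat_lit 275) (nat_lit 391) (nat_lit 354)))))) (XT.nd (nat_lit 468) (nat_lit 684) (nat_lit 0) (XT.nd (nat_lit 234) (nat_lit 304) (nat_lit 0) (XT.nd (nat_lit 78) (nat_lit 228) (nat_lit 0) (XT.lf (nat_lit 228) (nat_lit 7579462701) (nat_lit 0) (nat_lit 7179978109) (nat_lit 152) (nat_lit 7179978109) (nat_lit 227) (nat_lit 1) (nat_lit 224) (nat_lit 1) (nat_lit 226) (nat_lit 1) (nat_lit 276) (nat_lit 391) (nat_lit 353)) (XT.nd (nat_lit 78) (nat_lit 228) (nat_lit 0) (XT.lf (nat_lit 76) (nat_lit 1088928213) (nat_lit 0) (nat_lit 19365212363) (nat_lit 228) (nat_lit 1088928213) (nat_lit 225) (nat_lit 1) (nat_lit 224) (nat_lit 1) (nat_lit 227) (nat_lit 1) (nat_lit 277) (nat_lit 391) (nat_lit 352)) (XT.lf (nat_lit 76) (nat_lit 8987115593) (nat_lit 0) (nat_lit 3173928234) (nat_lit 228) (nat_lit 8987115593) (nat_lit 222) (nat_lit 1) (nat_lit 221) (nat_lit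 1) (nat_lit 224) (nat_lit 1) (nat_lit 278) (nat_lit 391) (nat_lit 351)))) (XT.nd (nat_lit 78) (nat_lit 152) (nat_lit 0) (XT.lf (nat_lit 228) (nat_lit 12480185129) (nat_lit 0) (nat_lit 4143083324) (nat_lit 152) (nat_lit 4143083324) (nat_lit 222) (nat_lit 1) (nat_lit 219) (nat_lit 1) (nat_lit 221) (nat_lit 1) (nat_lit 279) (nat_lit 391) (nat_lit 350)) (XT.nd (nat_lit 78) (nat_lit 152) (nat_lit 0) (XT.lf (nat_lit 76) (nat_lit 3521583556) (nat_lit 0) (nat_lit 13349815805) (nat_lit 228) (nat_lit 3521583556) (nat_lit 220) (nat_lit 1) (nat_lit 219) (nat_lit 1) (nat_lit 222) (nat_lit 1) (nat_lit 280) (nat_lit 391) (nat_lit 349)) (XT.lf (nat_lit 228) (nat_lit 1649735107) (nat_lit 0) (nat_lit 9188702553) (nat_lit 152) (nat_lit 9188702553) (nat_lit 220) (nat_lit 1) (nat_lit 217) (nat_lit 1) (nat_lit 219) (nat_lit 1) (nat_lit 281) (nat_lit 391) (nat_lit 348))))) (XT.nd (nat_lit 234) (nat_lit 304) (nat_lit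 0) (XT.nd (nat_lit 78) (nat_lit 152) (nat_lit 0) (XT.lf (nat_lit 228) (nat_lit 16214662437) (nat_lit 0) (nat_lit 1728617823) (nat_lit 152) (nat_lit 1728617823) (nat_lit 217) (nat_lit 1) (nat_lit 214) (nat_lit 1) (nat_lit 216) (nat_lit 1) (nat_lit 282) (nat_lit 391) (nat_lit 347)) (XT.nd (nat_lit 78) (nat_lit 152) (nat_lit 0) (XT.lf (nat_lit 76) (nat_lit 5397900860) (nat_lit 0) (nat_lit 8523886185) (nat_lit 228) (nat_lit 5397900860) (nat_lit 215) (nat_lit 1) (nat_lit 214) (nat_lit 1) (nat_lit 217) (nat_lit 1) (nat_lit 283) (nat_lit 391) (nat_lit 346)) (XT.lf (nat_lit 228) (nat_lit 5497499955) (nat_lit 0) (nat_lit 6740101461) (nat_lit 152) (nat_lit 6740101461) (nat_lit 215) (nat_lit 1) (nat_lit 212) (nat_lit 1) (nat_lit 214) (nat_lit 1) (nat_lit 284) (nat_lit 391) (nat_lit 345)))) (XT.nd (nat_lit 156) (nat_lit 152) (nat_lit 0) (XT.nd (nat_lit 78) (nat_lit 152) (nat_lit 0) (XT.lf (nat_lit 76) (nat_lit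 180687661) (nat_lit 0) (nat_lit 18286335959) (nat_lit 228) (nat_lit 180687661) (nat_lit 213) (nat_lit 1) (nat_lit 212) (nat_lit 1) (nat_lit 215) (nat_lit 1) (nat_lit 285) (nat_lit 391) (nat_lit 344)) (XT.lf (nat_lit 76) (nat_lit 6822471494) (nat_lit 0) (nat_lit 4670679102) (nat_lit 152) (nat_lit 6822471494) (nat_lit 211) (nat_lit 1) (nat_lit 210) (nat_lit 1) (nat_lit 212) (nat_lit 1) (nat_lit 286) (nat_lit 391) (nat_lit 343))) (XT.nd (nat_lit 78) (nat_lit 0) (nat_lit 0) (XT.lf (nat_lit 228) (nat_lit 8465910436) (nat_lit 0) (nat_lit 4764653515) (nat_lit 152) (nat_lit 4764653515) (nat_lit 211) (nat_lit 1) (nat_lit 208) (nat_lit 1) (nat_lit 210) (nat_lit 1) (nat_lit 287) (nat_lit 391) (nat_lit 342)) (XT.lf (nat_lit 76) (nat_lit 1697356532) (nat_lit 0) (nat_lit 14288748314) (nat_lit 228) (nat_lit 1697356532) (nat_lit 209) (nat_lit 1) (nat_lit 208) (nat_lit 1) (nat_lit 211) (nat_lit 1) (nat_lit 288)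 (nat_lit 391) (nat_lit 341))))))) (XT.nd (nat_lit 1014) (nat_lit 912) (nat_lit 0) (XT.nd (nat_lit 468) (nat_lit 684) (nat_lit 0) (XT.nd (nat_lit 234) (nat_lit 304) (nat_lit 0) (XT.nd (nat_lit 78) (nat_lit 152) (nat_lit 0) (XT.lf (nat_lit 76) (nat_lit 7881059514) (nat_lit 0) (nat_lit 1612157201) (nat_lit 152) (nat_lit 7881059514) (nat_lit 207) (nat_lit 1) (nat_lit 206) (nat_lit 1) (nat_lit 208) (nat_lit 1) (nat_lit 289) (nat_lit 391) (nat_lit 340)) (XT.nd (nat_lit 78) (nat_lit 0) (nat_lit 0) (XT.lf (nat_lit 228) (nat_lit 10720262247) (nat_lit 0) (nat_lit 3176611632) (nat_lit 152) (nat_lit 3176611632) (nat_lit 207) (nat_lit 1) (nat_lit 204) (nat_lit 1) (nat_lit 206) (nat_lit 1) (nat_lit 290) (nat_lit 391) (nat_lit 339)) (XT.lf (nat_lit 76) (nat_lit 2871375940) (nat_lit 0) (nat_lit 11035897614) (nat_lit 228) (nat_lit 2871375940) (nat_lit 205) (nat_lit 1) (nat_lit 204) (nat_lit 1) (nat_lit 207) (nat_lit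 1) (nat_lit 291) (nat_lit 391) (nat_lit 338)))) (XT.nd (nat_lit 78) (nat_lit 228) (nat_lit 0) (XT.lf (nat_lit 152) (nat_lit 824267467) (nat_lit 0) (nat_lit 7832554853) (nat_lit 76) (nat_lit 7832554853) (nat_lit 205) (nat_lit 1) (nat_lit 203) (nat_lit 1) (nat_lit 204) (nat_lit 1) (nat_lit 292) (nat_lit 391) (nat_lit 337)) (XT.nd (nat_lit 78) (nat_lit 0) (nat_lit 0) (XT.lf (nat_lit 228) (nat_lit 12396097499) (nat_lit 0) (nat_lit 1905519959) (nat_lit 152) (nat_lit 1905519959) (nat_lit 203) (nat_lit 1) (nat_lit 200) (nat_lit 1) (nat_lit 202) (nat_lit 1) (nat_lit 293) (nat_lit 391) (nat_lit 336)) (XT.lf (nat_lit 76) (nat_lit 3767008587) (nat_lit 0) (nat_lit 8394030768) (nat_lit 228) (nat_lit 3767008587) (nat_lit 201) (nat_lit 1) (nat_lit 200) (nat_lit 1) (nat_lit 203) (nat_lit 1) (nat_lit 294) (nat_lit 391) (nat_lit 335))))) (XT.nd (nat_lit 234) (nat_lit 380) (nat_lit 0) (XT.nd (nat_lit 78) (nat_lit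 228) (nat_lit 0) (XT.lf (nat_lit 152) (nat_lit 2768076890) (nat_lit 0) (nat_lit 6443862262) (nat_lit 76) (nat_lit 6443862262) (nat_lit 201) (nat_lit 1) (nat_lit 199) (nat_lit 1) (nat_lit 200) (nat_lit 1) (nat_lit 295) (nat_lit 391) (nat_lit 334)) (XT.nd (nat_lit 78) (nat_lit 0) (nat_lit 0) (XT.lf (nat_lit 228) (nat_lit 13604501251) (nat_lit 0) (nat_lit 893498565) (nat_lit 152) (nat_lit 893498565) (nat_lit 199) (nat_lit 1) (nat_lit 196) (nat_lit 1) (nat_lit 198) (nat_lit 1) (nat_lit 296) (nat_lit 391) (nat_lit 333)) (XT.lf (nat_lit 76) (nat_lit 4436956330) (nat_lit 0) (nat_lit 6253190353) (nat_lit 228) (nat_lit 4436956330) (nat_lit 197) (nat_lit 1) (nat_lit 196) (nat_lit 1) (nat_lit 199) (nat_lit 1) (nat_lit 297) (nat_lit 391) (nat_lit 332)))) (XT.nd (nat_lit 156) (nat_lit 76) (nat_lit 0) (XT.nd (nat_lit 78) (nat_lit 228) (nat_lit 0) (XT.lf (nat_lit 152) (nat_lit 4267732284) (nat_lit 0) (nat_lit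 5301381430) (nat_lit 76) (nat_lit 5301381430) (nat_lit 197) (nat_lit 1) (nat_lit 195) (nat_lit 1) (nat_lit 196) (nat_lit 1) (nat_lit 298) (nat_lit 391) (nat_lit 331)) (XT.lf (nat_lit 228) (nat_lit 14436457952) (nat_lit 0) (nat_lit 93009746) (nat_lit 152) (nat_lit 93009746) (nat_lit 195) (nat_lit 1) (nat_lit 192) (nat_lit 1) (nat_lit 194) (nat_lit 1) (nat_lit 299) (nat_lit 391) (nat_lit 330))) (XT.nd (nat_lit 78) (nat_lit 76) (nat_lit 0) (XT.lf (nat_lit 76) (nat_lit 4924417851) (nat_lit 0) (nat_lit 4522991814) (nat_lit 228) (nat_lit 4924417851) (nat_lit 193) (nat_lit 1) (nat_lit 192) (nat_lit 1) (nat_lit 195) (nat_lit 1) (nat_lit 300) (nat_lit 391) (nat_lit 329)) (XT.lf (nat_lit 152) (nat_lit 5406720175) (nat_lit 0) (nat_lit 4361459622) (nat_lit 76) (nat_lit 4361459622) (nat_lit 193) (nat_lit 1) (nat_lit 191) (nat_lit 1) (nat_lit 192) (nat_lit 1) (nat_lit 301) (nat_lit 391) (nat_lit 328)))))) (XT.nd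 (nat_lit 468) (nat_lit 456) (nat_lit 0) (XT.nd (nat_lit 234) (nat_lit 228) (nat_lit 0) (XT.nd (nat_lit 78) (nat_lit 228) (nat_lit 0) (XT.lf (nat_lit 0) (nat_lit 543749600) (nat_lit 0) (nat_lit 12807264185) (nat_lit 152) (nat_lit 543749600) (nat_lit 191) (nat_lit 3) (nat_lit 191) (nat_lit 1) (nat_lit 193) (nat_lit 1) (nat_lit 302) (nat_lit 391) (nat_lit 327)) (XT.nd (nat_lit 78) (nat_lit 76) (nat_lit 0) (XT.lf (nat_lit 76) (nat_lit 5264781132) (nat_lit 0) (nat_lit 3129149544) (nat_lit 152) (nat_lit 5264781132) (nat_lit 190) (nat_lit 1) (nat_lit 189) (nat_lit 1) (nat_lit 191) (nat_lit 1) (nat_lit 303) (nat_lit 391) (nat_lit 326)) (XT.lf (nat_lit 152) (nat_lit 6253499462) (nat_lit 0) (nat_lit 3588183625) (nat_lit 76) (nat_lit 3588183625) (nat_lit 190) (nat_lit 1) (nat_lit 188) (nat_lit 1) (nat_lit 189) (nat_lit 1) (nat_lit 304) (nat_lit 391) (nat_lit 325)))) (XT.nd (nat_lit 78) (nat_lit 228) (nat_lit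 0) (XT.lf (nat_lit 0) (nat_lit 1039271156) (nat_lit 0) (nat_lit 11128494955) (nat_lit 152) (nat_lit 1039271156) (nat_lit 188) (nat_lit 3) (nat_lit 188) (nat_lit 1) (nat_lit 190) (nat_lit 1) (nat_lit 305) (nat_lit 391) (nat_lit 324)) (XT.nd (nat_lit 78) (nat_lit 76) (nat_lit 0) (XT.lf (nat_lit 76) (nat_lit 5487015495) (nat_lit 0) (nat_lit 2010619061) (nat_lit 152) (nat_lit 5487015495) (nat_lit 187) (nat_lit 1) (nat_lit 186) (nat_lit 1) (nat_lit 188) (nat_lit 1) (nat_lit 306) (nat_lit 391) (nat_lit 323)) (XT.lf (nat_lit 152) (nat_lit 6864176525) (nat_lit 0) (nat_lit 2952007548) (nat_lit 76) (nat_lit 2952007548) (nat_lit 187) (nat_lit 1) (nat_lit 185) (nat_lit 1) (nat_lit 186) (nat_lit 1) (nat_lit 307) (nat_lit 391) (nat_lit 322))))) (XT.nd (nat_lit 234) (nat_lit 228) (nat_lit 0) (XT.nd (nat_lit 78) (nat_lit 228) (nat_lit 0) (XT.lf (nat_lit 0) (nat_lit 1418750965) (nat_lit 0) (nat_lit 9719180353)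 (nat_lit 152) (nat_lit 1418750965) (nat_lit 185) (nat_lit 3) (nat_lit 185) (nat_lit 1) (nat_lit 187) (nat_lit 1) (nat_lit 308) (nat_lit 391) (nat_lit 321)) (XT.nd (nat_lit 78) (nat_lit 76) (nat_lit 0) (XT.lf (nat_lit 76) (nat_lit 5614816491) (nat_lit 0) (nat_lit 1117246026) (nat_lit 152) (nat_lit 5614816491) (nat_lit 184) (nat_lit 1) (nat_lit 183) (nat_lit 1) (nat_lit 185) (nat_lit 1) (nat_lit 309) (nat_lit 391) (nat_lit 320)) (XT.lf (nat_lit 152) (nat_lit 7284705530) (nat_lit 0) (nat_lit 2428623915) (nat_lit 76) (nat_lit 2428623915) (nat_lit 184) (nat_lit 1) (nat_lit 182) (nat_lit 1) (nat_lit 183) (nat_lit 1) (nat_lit 310) (nat_lit 391) (nat_lit 319)))) (XT.nd (nat_lit 156) (nat_lit 76) (nat_lit 0) (XT.nd (nat_lit 78) (nat_lit 152) (nat_lit 0) (XT.lf (nat_lit 0) (nat_lit 1704105181) (nat_lit 0) (nat_lit 8532888981) (nat_lit 152) (nat_lit 1704105181) (nat_lit 182) (nat_lit 3) (nat_lit 182) (nat_lit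 1) (nat_lit 184) (nat_lit 1) (nat_lit 311) (nat_lit 391) (nat_lit 318)) (XT.lf (nat_lit 76) (nat_lit 5667547484) (nat_lit 0) (nat_lit 407832260) (nat_lit 152) (nat_lit 5667547484) (nat_lit 181) (nat_lit 1) (nat_lit 180) (nat_lit 1) (nat_lit 182) (nat_lit 1) (nat_lit 312) (nat_lit 391) (nat_lit 317))) (XT.nd (nat_lit 78) (nat_lit 0) (nat_lit 0) (XT.lf (nat_lit 152) (nat_lit 7552698140) (nat_lit 0) (nat_lit 1998034905) (nat_lit 76) (nat_lit 1998034905) (nat_lit 181) (nat_lit 1) (nat_lit 179) (nat_lit 1) (nat_lit 180) (nat_lit 1) (nat_lit 313) (nat_lit 391) (nat_lit 316)) (XT.lf (nat_lit 0) (nat_lit 1913300360) (nat_lit 0) (nat_lit 7531357692) (nat_lit 152) (nat_lit 1913300360) (nat_lit 179) (nat_lit 3) (nat_lit 179) (nat_lit 1) (nat_lit 181) (nat_lit 1) (nat_lit 314) (nat_lit 391) (nat_lit 315))))))))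
noncomputable def ec218 : XT := (XT.nd (nat_lit 1950) (nat_lit 1976) (nat_lit 0) (XT.nd (nat_lit 936) (nat_lit 988) (nat_lit 0) (XT.nd (nat_lit 468) (nat_lit 456) (nat_lit 0) (XT.nd (nat_lit 234) (nat_lit 228) (nat_lit 0) (XT.nd (nat_lit 78) (nat_lit 152) (nat_lit 0) (XT.lf (nat_lit 76) (nat_lit 156463002) (nat_lit 0) (nat_lit 5506993794) (nat_lit 76) (nat_lit 5506993794) (nat_lit 179) (nat_lit 3) (nat_lit 178) (nat_lit 1) (nat_lit 179) (nat_lit 1) (nat_lit 315) (nat_lit 391) (nat_lit 314)) (XT.nd (nat_lit 78) (nat_lit 0) (nat_lit 0) (XT.lf (nat_lit 152) (nat_lit 7698911900) (nat_lit 0) (nat_lit 1643788261) (nat_lit 76) (nat_lit 1643788261) (nat_lit 178) (nat_lit 1) (nat_lit 176) (nat_lit 1) (nat_lit 177) (nat_lit 1) (nat_lit 316) (nat_lit 391) (nat_lit 313)) (XT.lf (nat_lit 0) (nat_lit 2061056761) (nat_lit 0) (nat_lit 6683046431) (nat_lit 152) (nat_lit 2061056761) (nat_lit 176) (nat_lit 3) (nat_lit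 176) (nat_lit 1) (nat_lit 178) (nat_lit 1) (nat_lit 317) (nat_lit 391) (nat_lit 312)))) (XT.nd (nat_lit 78) (nat_lit 152) (nat_lit 0) (XT.lf (nat_lit 76) (nat_lit 607847806) (nat_lit 0) (nat_lit 5009742729) (nat_lit 76) (nat_lit 5009742729) (nat_lit 176) (nat_lit 3) (nat_lit 175) (nat_lit 1) (nat_lit 176) (nat_lit 1) (nat_lit 318) (nat_lit 391) (nat_lit 311)) (XT.nd (nat_lit 78) (nat_lit 0) (nat_lit 0) (XT.lf (nat_lit 152) (nat_lit 7748474302) (nat_lit 0) (nat_lit 1352348670) (nat_lit 76) (nat_lit 1352348670) (nat_lit 175) (nat_lit 1) (nat_lit 173) (nat_lit 1) (nat_lit 174) (nat_lit 1) (nat_lit 319) (nat_lit 391) (nat_lit 310)) (XT.lf (nat_lit 0) (nat_lit 2159426802) (nat_lit 0) (nat_lit 5961949142) (nat_lit 152) (nat_lit 2159426802) (nat_lit 173) (nat_lit 3) (nat_lit 173) (nat_lit 1) (nat_lit 175) (nat_lit 1) (nat_lit 320) (nat_lit 391) (nat_lit 309))))) (XT.nd (nat_lit 234) (nat_lit 228) (nat_lit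 0) (XT.nd (nat_lit 78) (nat_lit 152) (nat_lit 0) (XT.lf (nat_lit 76) (nat_lit 956387709) (nat_lit 0) (nat_lit 4577837557) (nat_lit 76) (nat_lit 4577837557) (nat_lit 173) (nat_lit 3) (nat_lit 172) (nat_lit 1) (nat_lit 173) (nat_lit 1) (nat_lit 321) (nat_lit 391) (nat_lit 308)) (XT.nd (nat_lit 78) (nat_lit 0) (nat_lit 0) (XT.lf (nat_lit 152) (nat_lit 7721889392) (nat_lit 0) (nat_lit 1112580598) (nat_lit 76) (nat_lit 1112580598) (nat_lit 172) (nat_lit 1) (nat_lit 170) (nat_lit 1) (nat_lit 171) (nat_lit 1) (nat_lit 322) (nat_lit 391) (nat_lit 307)) (XT.lf (nat_lit 0) (nat_lit 2218270826) (nat_lit 0) (nat_lit 5346615366) (nat_lit 152) (nat_lit 2218270826) (nat_lit 170) (nat_lit 3) (nat_lit 170) (nat_lit 1) (nat_lit 172) (nat_lit 1) (nat_lit 323) (nat_lit 391) (nat_lit 306)))) (XT.nd (nat_lit 78) (nat_lit 152) (nat_lit 0) (XT.lf (nat_lit 76) (nat_lit 1221403312) (nat_lit 0) (nat_lit 4200779064) (nat_lit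 76) (nat_lit 4200779064) (nat_lit 170) (nat_lit 3) (nat_lit 169) (nat_lit 1) (nat_lit 170) (nat_lit 1) (nat_lit 324) (nat_lit 391) (nat_lit 305)) (XT.nd (nat_lit 78) (nat_lit 0) (nat_lit 0) (XT.lf (nat_lit 152) (nat_lit 7635865520) (nat_lit 0) (nat_lit 915322811) (nat_lit 76) (nat_lit 915322811) (nat_lit 169) (nat_lit 1) (nat_lit 167) (nat_lit 1) (nat_lit 168) (nat_lit 1) (nat_lit 325) (nat_lit 391) (nat_lit 304)) (XT.lf (nat_lit 0) (nat_lit 2245648376) (nat_lit 0) (nat_lit 4819345171) (nat_lit 152) (nat_lit 2245648376) (nat_lit 167) (nat_lit 3) (nat_lit 167) (nat_lit 1) (nat_lit 169) (nat_lit 1) (nat_lit 326) (nat_lit 391) (nat_lit 303)))))) (XT.nd (nat_lit 468) (nat_lit 532) (nat_lit 0) (XT.nd (nat_lit 234) (nat_lit 228) (nat_lit 0) (XT.nd (nat_lit 78) (nat_lit 152) (nat_lit 0) (XT.lf (nat_lit 76) (nat_lit 1418737981) (nat_lit 0) (nat_lit 3869877786) (nat_lit 76) (nat_lit 3869877786) (nat_lit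 167) (nat_lit 3) (nat_lit 166) (nat_lit 1) (nat_lit 167) (nat_lit 1) (nat_lit 327) (nat_lit 391) (nat_lit 302)) (XT.nd (nat_lit 78) (nat_lit 0) (nat_lit 0) (XT.lf (nat_lit 152) (nat_lit 7503995944) (nat_lit 0) (nat_lit 753038342) (nat_lit 76) (nat_lit 753038342) (nat_lit 166) (nat_lit 1) (nat_lit 164) (nat_lit 1) (nat_lit 165) (nat_lit 1) (nat_lit 328) (nat_lit 391) (nat_lit 301)) (XT.lf (nat_lit 0) (nat_lit 2248139979) (nat_lit 0) (nat_lit 4365526701) (nat_lit 152) (nat_lit 2248139979) (nat_lit 164) (nat_lit 3) (nat_lit 164) (nat_lit 1) (nat_lit 166) (nat_lit 1) (nat_lit 329) (nat_lit 391) (nat_lit 300)))) (XT.nd (nat_lit 78) (nat_lit 152) (nat_lit 0) (XT.lf (nat_lit 76) (nat_lit 1561376824) (nat_lit 0) (nat_lit 3577935607) (nat_lit 76) (nat_lit 3577935607) (nat_lit 164) (nat_lit 3) (nat_lit 163) (nat_lit 1) (nat_lit 164) (nat_lit 1) (nat_lit 330) (nat_lit 391) (nat_lit 299)) (XT.nd (nat_lit 78)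 (nat_lit 0) (nat_lit 0) (XT.lf (nat_lit 152) (nat_lit 7337318398) (nat_lit 0) (nat_lit 619526507) (nat_lit 76) (nat_lit 619526507) (nat_lit 163) (nat_lit 1) (nat_lit 161) (nat_lit 1) (nat_lit 162) (nat_lit 1) (nat_lit 331) (nat_lit 391) (nat_lit 298)) (XT.lf (nat_lit 0) (nat_lit 2231111756) (nat_lit 0) (nat_lit 3973091052) (nat_lit 152) (nat_lit 2231111756) (nat_lit 161) (nat_lit 3) (nat_lit 161) (nat_lit 1) (nat_lit 163) (nat_lit 1) (nat_lit 332) (nat_lit 391) (nat_lit 297))))) (XT.nd (nat_lit 234) (nat_lit 304) (nat_lit 0) (XT.nd (nat_lit 78) (nat_lit 152) (nat_lit 0) (XT.lf (nat_lit 76) (nat_lit 1659955791) (nat_lit 0) (nat_lit 3318983693) (nat_lit 76) (nat_lit 3318983693) (nat_lit 161) (nat_lit 3) (nat_lit 160) (nat_lit 1) (nat_lit 161) (nat_lit 1) (nat_lit 333) (nat_lit 391) (nat_lit 296)) (XT.nd (nat_lit 78) (nat_lit 0) (nat_lit 0) (XT.lf (nat_lit 152) (nat_lit 7144775114) (nat_lit 0) (nat_lit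 509685991) (nat_lit 76) (nat_lit 509685991) (nat_lit 160) (nat_lit 1) (nat_lit 158) (nat_lit 1) (nat_lit 159) (nat_lit 1) (nat_lit 334) (nat_lit 391) (nat_lit 295)) (XT.lf (nat_lit 0) (nat_lit 2198933002) (nat_lit 0) (nat_lit 3632063680) (nat_lit 152) (nat_lit 2198933002) (nat_lit 158) (nat_lit 3) (nat_lit 158) (nat_lit 1) (nat_lit 160) (nat_lit 1) (nat_lit 335) (nat_lit 391) (nat_lit 294)))) (XT.nd (nat_lit 156) (nat_lit 76) (nat_lit 0) (XT.nd (nat_lit 78) (nat_lit 152) (nat_lit 0) (XT.lf (nat_lit 76) (nat_lit 1723180418) (nat_lit 0) (nat_lit 3088066778) (nat_lit 76) (nat_lit 3088066778) (nat_lit 158) (nat_lit 3) (nat_lit 157) (nat_lit 1) (nat_lit 158) (nat_lit 1) (nat_lit 336) (nat_lit 391) (nat_lit 293)) (XT.lf (nat_lit 152) (nat_lit 6933590939) (nat_lit 0) (nat_lit 419319926) (nat_lit 76) (nat_lit 419319926) (nat_lit 157) (nat_lit 1) (nat_lit 155) (nat_lit 1) (nat_lit 156) (nat_lit 1) (nat_lit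 337) (nat_lit 391) (nat_lit 292))) (XT.nd (nat_lit 78) (nat_lit 76) (nat_lit 0) (XT.lf (nat_lit 0) (nat_lit 2155155088) (nat_lit 0) (nat_lit 3334195244) (nat_lit 152) (nat_lit 2155155088) (nat_lit 155) (nat_lit 3) (nat_lit 155) (nat_lit 1) (nat_lit 157) (nat_lit 1) (nat_lit 338) (nat_lit 391) (nat_lit 291)) (XT.lf (nat_lit 76) (nat_lit 1758170204) (nat_lit 0) (nat_lit 2881065591) (nat_lit 76) (nat_lit 2881065591) (nat_lit 155) (nat_lit 3) (nat_lit 154) (nat_lit 1) (nat_lit 155) (nat_lit 1) (nat_lit 339) (nat_lit 391) (nat_lit 290))))))) (XT.nd (nat_lit 936) (nat_lit 1064) (nat_lit 0) (XT.nd (nat_lit 468) (nat_lit 456) (nat_lit 0) (XT.nd (nat_lit 234) (nat_lit 228) (nat_lit 0) (XT.nd (nat_lit 78) (nat_lit 76) (nat_lit 0) (XT.lf (nat_lit 152) (nat_lit 6709584111) (nat_lit 0) (nat_lit 344975541) (nat_lit 76) (nat_lit 344975541) (nat_lit 154) (nat_lit 1) (nat_lit 152) (nat_lit 1) (nat_lit 153) (nat_lit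 1) (nat_lit 340) (nat_lit 391) (nat_lit 289)) (XT.nd (nat_lit 78) (nat_lit 76) (nat_lit 0) (XT.lf (nat_lit 0) (nat_lit 2102658535) (nat_lit 0) (nat_lit 3072657789) (nat_lit 152) (nat_lit 2102658535) (nat_lit 152) (nat_lit 3) (nat_lit 152) (nat_lit 1) (nat_lit 154) (nat_lit 1) (nat_lit 341) (nat_lit 391) (nat_lit 288)) (XT.lf (nat_lit 76) (nat_lit 1770741845) (nat_lit 0) (nat_lit 2694550658) (nat_lit 76) (nat_lit 2694550658) (nat_lit 152) (nat_lit 3) (nat_lit 151) (nat_lit 1) (nat_lit 152) (nat_lit 1) (nat_lit 342) (nat_lit 391) (nat_lit 287)))) (XT.nd (nat_lit 78) (nat_lit 76) (nat_lit 0) (XT.lf (nat_lit 152) (nat_lit 6477421631) (nat_lit 0) (nat_lit 283812231) (nat_lit 76) (nat_lit 283812231) (nat_lit 151) (nat_lit 1) (nat_lit 149) (nat_lit 1) (nat_lit 150) (nat_lit 1) (nat_lit 343) (nat_lit 391) (nat_lit 286)) (XT.nd (nat_lit 78) (nat_lit 76) (nat_lit 0) (XT.lf (nat_lit 0) (nat_lit 2043773914)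 (nat_lit 0) (nat_lit 2841794701) (nat_lit 152) (nat_lit 2043773914) (nat_lit 149) (nat_lit 3) (nat_lit 149) (nat_lit 1) (nat_lit 151) (nat_lit 1) (nat_lit 344) (nat_lit 391) (nat_lit 285)) (XT.lf (nat_lit 76) (nat_lit 1765642142) (nat_lit 0) (nat_lit 2525661939) (nat_lit 76) (nat_lit 2525661939) (nat_lit 149) (nat_lit 3) (nat_lit 148) (nat_lit 1) (nat_lit 149) (nat_lit 1) (nat_lit 345) (nat_lit 391) (nat_lit 284))))) (XT.nd (nat_lit 234) (nat_lit 228) (nat_lit 0) (XT.nd (nat_lit 78) (nat_lit 76) (nat_lit 0) (XT.lf (nat_lit 152) (nat_lit 6240829071) (nat_lit 0) (nat_lit 233493025) (nat_lit 76) (nat_lit 233493025) (nat_lit 148) (nat_lit 1) (nat_lit 146) (nat_lit 1) (nat_lit 147) (nat_lit 1) (nat_lit 346) (nat_lit 391) (nat_lit 283)) (XT.nd (nat_lit 78) (nat_lit 76) (nat_lit 0) (XT.lf (nat_lit 0) (nat_lit 1980381222) (nat_lit 0) (nat_lit 2636914899) (nat_lit 152) (nat_lit 1980381222) (nat_lit 146)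 (nat_lit 3) (nat_lit 146) (nat_lit 1) (nat_lit 148) (nat_lit 1) (nat_lit 347) (nat_lit 391) (nat_lit 282)) (XT.lf (nat_lit 76) (nat_lit 1746739536) (nat_lit 0) (nat_lit 2372009703) (nat_lit 76) (nat_lit 2372009703) (nat_lit 146) (nat_lit 3) (nat_lit 145) (nat_lit 1) (nat_lit 146) (nat_lit 1) (nat_lit 348) (nat_lit 391) (nat_lit 281)))) (XT.nd (nat_lit 78) (nat_lit 76) (nat_lit 0) (XT.lf (nat_lit 152) (nat_lit 6002762916) (nat_lit 0) (nat_lit 192095289) (nat_lit 76) (nat_lit 192095289) (nat_lit 145) (nat_lit 1) (nat_lit 143) (nat_lit 1) (nat_lit 144) (nat_lit 1) (nat_lit 349) (nat_lit 391) (nat_lit 280)) (XT.nd (nat_lit 78) (nat_lit 76) (nat_lit 0) (XT.lf (nat_lit 0) (nat_lit 1913991547) (nat_lit 0) (nat_lit 2454123427) (nat_lit 152) (nat_lit 1913991547) (nat_lit 143) (nat_lit 3) (nat_lit 143) (nat_lit 1) (nat_lit 145) (nat_lit 1) (nat_lit 350) (nat_lit 391) (nat_lit 279)) (XT.lf (nat_lit 76) (nat_lit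 1717181582) (nat_lit 0) (nat_lit 2231592897) (nat_lit 76) (nat_lit 2231592897) (nat_lit 143) (nat_lit 3) (nat_lit 142) (nat_lit 1) (nat_lit 143) (nat_lit 1) (nat_lit 351) (nat_lit 391) (nat_lit 278)))))) (XT.nd (nat_lit 468) (nat_lit 608) (nat_lit 0) (XT.nd (nat_lit 234) (nat_lit 228) (nat_lit 0) (XT.nd (nat_lit 78) (nat_lit 76) (nat_lit 0) (XT.lf (nat_lit 152) (nat_lit 5765552092) (nat_lit 0) (nat_lit 158037270) (nat_lit 76) (nat_lit 158037270) (nat_lit 142) (nat_lit 1) (nat_lit 140) (nat_lit 1) (nat_lit 141) (nat_lit 1) (nat_lit 352) (nat_lit 391) (nat_lit 277)) (XT.nd (nat_lit 78) (nat_lit 76) (nat_lit 0) (XT.lf (nat_lit 0) (nat_lit 1845814168) (nat_lit 0) (nat_lit 2290182003) (nat_lit 152) (nat_lit 1845814168) (nat_lit 140) (nat_lit 3) (nat_lit 140) (nat_lit 1) (nat_lit 142) (nat_lit 1) (nat_lit 353) (nat_lit 391) (nat_lit 276)) (XT.lf (nat_lit 76) (nat_lit 1679524436) (nat_lit 0) (nat_lit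 2102731897) (nat_lit 76) (nat_lit 2102731897) (nat_lit 140) (nat_lit 3) (nat_lit 139) (nat_lit 1) (nat_lit 140) (nat_lit 1) (nat_lit 354) (nat_lit 391) (nat_lit 275)))) (XT.nd (nat_lit 78) (nat_lit 76) (nat_lit 0) (XT.lf (nat_lit 152) (nat_lit 5531014151) (nat_lit 0) (nat_lit 130017653) (nat_lit 76) (nat_lit 130017653) (nat_lit 139) (nat_lit 1) (nat_lit 137) (nat_lit 1) (nat_lit 138) (nat_lit 1) (nat_lit 355) (nat_lit 391) (nat_lit 274)) (XT.nd (nat_lit 78) (nat_lit 76) (nat_lit 0) (XT.lf (nat_lit 0) (nat_lit 1776811680) (nat_lit 0) (nat_lit 2142394197) (nat_lit 152) (nat_lit 1776811680) (nat_lit 137) (nat_lit 3) (nat_lit 137) (nat_lit 1) (nat_lit 139) (nat_lit 1) (nat_lit 356) (nat_lit 391) (nat_lit 273)) (XT.lf (nat_lit 76) (nat_lit 1635839289) (nat_lit 0) (nat_lit 1984013115) (nat_lit 76) (nat_lit 1984013115) (nat_lit 137) (nat_lit 3) (nat_lit 136) (nat_lit 1) (nat_lit 137) (nat_lit 1) (nat_lit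 357) (nat_lit 391) (nat_lit 272))))) (XT.nd (nat_lit 234) (nat_lit 380) (nat_lit 0) (XT.nd (nat_lit 78) (nat_lit 76) (nat_lit 0) (XT.lf (nat_lit 152) (nat_lit 5300550627) (nat_lit 0) (nat_lit 106965845) (nat_lit 76) (nat_lit 106965845) (nat_lit 136) (nat_lit 1) (nat_lit 134) (nat_lit 1) (nat_lit 135) (nat_lit 1) (nat_lit 358) (nat_lit 391) (nat_lit 271)) (XT.nd (nat_lit 78) (nat_lit 76) (nat_lit 0) (XT.lf (nat_lit 0) (nat_lit 1707745267) (nat_lit 0) (nat_lit 2008510908) (nat_lit 152) (nat_lit 1707745267) (nat_lit 134) (nat_lit 3) (nat_lit 134) (nat_lit 1) (nat_lit 136) (nat_lit 1) (nat_lit 359) (nat_lit 391) (nat_lit 270)) (XT.lf (nat_lit 76) (nat_lit 1587799869) (nat_lit 0) (nat_lit 1874243337) (nat_lit 76) (nat_lit 1874243337) (nat_lit 134) (nat_lit 3) (nat_lit 133) (nat_lit 1) (nat_lit 134) (nat_lit 1) (nat_lit 360) (nat_lit 391) (nat_lit 269)))) (XT.nd (nat_lit 156) (nat_lit 228) (nat_lit 0)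 (XT.nd (nat_lit 78) (nat_lit 0) (nat_lit 0) (XT.lf (nat_lit 152) (nat_lit 5075225258) (nat_lit 0) (nat_lit 88001065) (nat_lit 76) (nat_lit 88001065) (nat_lit 133) (nat_lit 1) (nat_lit 131) (nat_lit 1) (nat_lit 132) (nat_lit 1) (nat_lit 361) (nat_lit 391) (nat_lit 268)) (XT.lf (nat_lit 0) (nat_lit 1639211877) (nat_lit 0) (nat_lit 1886652514) (nat_lit 152) (nat_lit 1639211877) (nat_lit 131) (nat_lit 3) (nat_lit 131) (nat_lit 1) (nat_lit 133) (nat_lit 1) (nat_lit 362) (nat_lit 391) (nat_lit 267))) (XT.nd (nat_lit 78) (nat_lit 152) (nat_lit 0) (XT.lf (nat_lit 76) (nat_lit 1536754346) (nat_lit 0) (nat_lit 1772412096) (nat_lit 76) (nat_lit 1772412096) (nat_lit 131) (nat_lit 3) (nat_lit 130) (nat_lit 1) (nat_lit 131) (nat_lit 1) (nat_lit 363) (nat_lit 391) (nat_lit 266)) (XT.lf (nat_lit 152) (nat_lit 4855828132) (nat_lit 0) (nat_lit 72398694) (nat_lit 76) (nat_lit 72398694) (nat_lit 130) (nat_lit 1) (nat_lit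 128) (nat_lit 1) (nat_lit 129) (nat_lit 1) (nat_lit 364) (nat_lit 391) (nat_lit 265))))))))
noncomputable def ec219 : XT := (XT.nd (nat_lit 1950) (nat_lit 2052) (nat_lit 0) (XT.nd (nat_lit 936) (nat_lit 912) (nat_lit 0) (XT.nd (nat_lit 468) (nat_lit 456) (nat_lit 0) (XT.nd (nat_lit 234) (nat_lit 228) (nat_lit 0) (XT.nd (nat_lit 78) (nat_lit 228) (nat_lit 0) (XT.lf (nat_lit 0) (nat_lit 1571674734) (nat_lit 0) (nat_lit 1775244759) (nat_lit 152) (nat_lit 1571674734) (nat_lit 128) (nat_lit 3) (nat_lit 128) (nat_lit 1) (nat_lit 130) (nat_lit 1) (nat_lit 365) (nat_lit 391) (nat_lit 264)) (XT.nd (nat_lit 78) (nat_lit 152) (nat_lit 0) (XT.lf (nat_lit 76) (nat_lit 1483784427) (nat_lit 0) (nat_lit 1677660641) (nat_lit 76) (nat_lit 1677660641) (nat_lit 128) (nat_lit 3) (nat_lit 127) (nat_lit 1) (nat_lit 128) (nat_lit 1) (nat_lit 366) (nat_lit 391) (nat_lit 263)) (XT.lf (nat_lit 152) (nat_lit 4642928252) (nat_lit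 0) (nat_lit 59562585) (nat_lit 76) (nat_lit 59562585) (nat_lit 127) (nat_lit 1) (nat_lit 125) (nat_lit 1) (nat_lit 126) (nat_lit 1) (nat_lit 367) (nat_lit 391) (nat_lit 262)))) (XT.nd (nat_lit 78) (nat_lit 228) (nat_lit 0) (XT.lf (nat_lit 0) (nat_lit 1505488375) (nat_lit 0) (nat_lit 1672965939) (nat_lit 152) (nat_lit 1505488375) (nat_lit 125) (nat_lit 3) (nat_lit 125) (nat_lit 1) (nat_lit 127) (nat_lit 1) (nat_lit 368) (nat_lit 391) (nat_lit 261)) (XT.nd (nat_lit 78) (nat_lit 152) (nat_lit 0) (XT.lf (nat_lit 76) (nat_lit 1429753904) (nat_lit 0) (nat_lit 1589256346) (nat_lit 76) (nat_lit 1589256346) (nat_lit 125) (nat_lit 3) (nat_lit 124) (nat_lit 1) (nat_lit 125) (nat_lit 1) (nat_lit 369) (nat_lit 391) (nat_lit 260)) (XT.lf (nat_lit 152) (nat_lit 4436916593) (nat_lit 0) (nat_lit 49002286) (nat_lit 76) (nat_lit 49002286) (nat_lit 124) (nat_lit 1) (nat_lit 122) (nat_lit 1) (nat_lit 123) (nat_lit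 1) (nat_lit 370) (nat_lit 391) (nat_lit 259))))) (XT.nd (nat_lit 234) (nat_lit 228) (nat_lit 0) (XT.nd (nat_lit 78) (nat_lit 228) (nat_lit 0) (XT.lf (nat_lit 0) (nat_lit 1440919185) (nat_lit 0) (nat_lit 1578703391) (nat_lit 152) (nat_lit 1440919185) (nat_lit 122) (nat_lit 3) (nat_lit 122) (nat_lit 1) (nat_lit 124) (nat_lit 1) (nat_lit 371) (nat_lit 391) (nat_lit 258)) (XT.nd (nat_lit 78) (nat_lit 152) (nat_lit 0) (XT.lf (nat_lit 76) (nat_lit 1375348536) (nat_lit 0) (nat_lit 1506571589) (nat_lit 76) (nat_lit 1506571589) (nat_lit 122) (nat_lit 3) (nat_lit 121) (nat_lit 1) (nat_lit 122) (nat_lit 1) (nat_lit 372) (nat_lit 391) (nat_lit 257)) (XT.lf (nat_lit 152) (nat_lit 4238041337) (nat_lit 0) (nat_lit 40314302) (nat_lit 76) (nat_lit 40314302) (nat_lit 121) (nat_lit 1) (nat_lit 119) (nat_lit 1) (nat_lit 120) (nat_lit 1) (nat_lit 373) (nat_lit 391) (nat_lit 256)))) (XT.nd (nat_lit 78) (nat_lit 228)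 (nat_lit 0) (XT.lf (nat_lit 0) (nat_lit 1378162231) (nat_lit 0) (nat_lit 1491517638) (nat_lit 152) (nat_lit 1378162231) (nat_lit 119) (nat_lit 3) (nat_lit 119) (nat_lit 1) (nat_lit 121) (nat_lit 1) (nat_lit 374) (nat_lit 391) (nat_lit 255)) (XT.nd (nat_lit 78) (nat_lit 152) (nat_lit 0) (XT.lf (nat_lit 76) (nat_lit 1321108798) (nat_lit 0) (nat_lit 1429066328) (nat_lit 76) (nat_lit 1429066328) (nat_lit 119) (nat_lit 3) (nat_lit 118) (nat_lit 1) (nat_lit 119) (nat_lit 1) (nat_lit 375) (nat_lit 391) (nat_lit 254)) (XT.lf (nat_lit 152) (nat_lit 4046436691) (nat_lit 0) (nat_lit 33166676) (nat_lit 76) (nat_lit 33166676) (nat_lit 118) (nat_lit 1) (nat_lit 116) (nat_lit 1) (nat_lit 117) (nat_lit 1) (nat_lit 376) (nat_lit 391) (nat_lit 253)))))) (XT.nd (nat_lit 468) (nat_lit 456) (nat_lit 0) (XT.nd (nat_lit 234) (nat_lit 228) (nat_lit 0) (XT.nd (nat_lit 78) (nat_lit 228) (nat_lit 0) (XT.lf (nat_lit 0) (nat_lit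 1317355050) (nat_lit 0) (nat_lit 1410612824) (nat_lit 152) (nat_lit 1317355050) (nat_lit 116) (nat_lit 3) (nat_lit 116) (nat_lit 1) (nat_lit 118) (nat_lit 1) (nat_lit 377) (nat_lit 391) (nat_lit 252)) (XT.nd (nat_lit 78) (nat_lit 152) (nat_lit 0) (XT.lf (nat_lit 76) (nat_lit 1267456766) (nat_lit 0) (nat_lit 1356273694) (nat_lit 76) (nat_lit 1356273694) (nat_lit 116) (nat_lit 3) (nat_lit 115) (nat_lit 1) (nat_lit 116) (nat_lit 1) (nat_lit 378) (nat_lit 391) (nat_lit 251)) (XT.lf (nat_lit 152) (nat_lit 3862146428) (nat_lit 0) (nat_lit 27286306) (nat_lit 76) (nat_lit 27286306) (nat_lit 115) (nat_lit 1) (nat_lit 113) (nat_lit 1) (nat_lit 114) (nat_lit 1) (nat_lit 379) (nat_lit 391) (nat_lit 250)))) (XT.nd (nat_lit 78) (nat_lit 228) (nat_lit 0) (XT.lf (nat_lit 0) (nat_lit 1258588948) (nat_lit 0) (nat_lit 1335312349) (nat_lit 152) (nat_lit 1258588948) (nat_lit 113) (nat_lit 3) (nat_lit 113) (nat_lit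 1) (nat_lit 115) (nat_lit 1) (nat_lit 380) (nat_lit 391) (nat_lit 249)) (XT.nd (nat_lit 78) (nat_lit 152) (nat_lit 0) (XT.lf (nat_lit 76) (nat_lit 1214718189) (nat_lit 0) (nat_lit 1287788095) (nat_lit 76) (nat_lit 1287788095) (nat_lit 113) (nat_lit 3) (nat_lit 112) (nat_lit 1) (nat_lit 113) (nat_lit 1) (nat_lit 381) (nat_lit 391) (nat_lit 248)) (XT.lf (nat_lit 152) (nat_lit 3685143089) (nat_lit 0) (nat_lit 22448511) (nat_lit 76) (nat_lit 22448511) (nat_lit 112) (nat_lit 1) (nat_lit 110) (nat_lit 1) (nat_lit 111) (nat_lit 1) (nat_lit 382) (nat_lit 391) (nat_lit 247))))) (XT.nd (nat_lit 234) (nat_lit 228) (nat_lit 0) (XT.nd (nat_lit 78) (nat_lit 228) (nat_lit 0) (XT.lf (nat_lit 0) (nat_lit 1201918231) (nat_lit 0) (nat_lit 1265038763) (nat_lit 152) (nat_lit 1201918231) (nat_lit 110) (nat_lit 3) (nat_lit 110) (nat_lit 1) (nat_lit 112) (nat_lit 1) (nat_lit 383) (nat_lit 391) (nat_lit 246)) (XT.nd (nat_lit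 78) (nat_lit 152) (nat_lit 0) (XT.lf (nat_lit 76) (nat_lit 1163140584) (nat_lit 0) (nat_lit 1223255377) (nat_lit 76) (nat_lit 1223255377) (nat_lit 110) (nat_lit 3) (nat_lit 109) (nat_lit 1) (nat_lit 110) (nat_lit 1) (nat_lit 384) (nat_lit 391) (nat_lit 245)) (XT.lf (nat_lit 152) (nat_lit 3515343640) (nat_lit 0) (nat_lit 18468446) (nat_lit 76) (nat_lit 18468446) (nat_lit 109) (nat_lit 1) (nat_lit 107) (nat_lit 1) (nat_lit 108) (nat_lit 1) (nat_lit 385) (nat_lit 391) (nat_lit 244)))) (XT.nd (nat_lit 156) (nat_lit 152) (nat_lit 0) (XT.nd (nat_lit 78) (nat_lit 76) (nat_lit 0) (XT.lf (nat_lit 0) (nat_lit 1147367758) (nat_lit 0) (nat_lit 1199297177) (nat_lit 152) (nat_lit 1147367758) (nat_lit 107) (nat_lit 3) (nat_lit 107) (nat_lit 1) (nat_lit 109) (nat_lit 1) (nat_lit 386) (nat_lit 391) (nat_lit 243)) (XT.lf (nat_lit 76) (nat_lit 1112908089) (nat_lit 0) (nat_lit 1162364677) (nat_lit 76) (nat_lit 1162364677)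 (nat_lit 107) (nat_lit 3) (nat_lit 106) (nat_lit 1) (nat_lit 107) (nat_lit 1) (nat_lit 387) (nat_lit 391) (nat_lit 242))) (XT.nd (nat_lit 78) (nat_lit 0) (nat_lit 0) (XT.lf (nat_lit 152) (nat_lit 3352622198) (nat_lit 0) (nat_lit 15194036) (nat_lit 76) (nat_lit 15194036) (nat_lit 106) (nat_lit 1) (nat_lit 104) (nat_lit 1) (nat_lit 105) (nat_lit 1) (nat_lit 388) (nat_lit 391) (nat_lit 241)) (XT.lf (nat_lit 0) (nat_lit 1094939109) (nat_lit 0) (nat_lit 1137661570) (nat_lit 152) (nat_lit 1094939109) (nat_lit 104) (nat_lit 3) (nat_lit 104) (nat_lit 1) (nat_lit 106) (nat_lit 1) (nat_lit 389) (nat_lit 391) (nat_lit 240))))))) (XT.nd (nat_lit 1014) (nat_lit 1064) (nat_lit 0) (XT.nd (nat_lit 468) (nat_lit 532) (nat_lit 0) (XT.nd (nat_lit 234) (nat_lit 228) (nat_lit 0) (XT.nd (nat_lit 78) (nat_lit 152) (nat_lit 0) (XT.lf (nat_lit 76) (nat_lit 1064153621) (nat_lit 0) (nat_lit 1104841679) (nat_lit 76) (nat_lit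 1104841679) (nat_lit 104) (nat_lit 3) (nat_lit 103) (nat_lit 1) (nat_lit 104) (nat_lit 1) (nat_lit 390) (nat_lit 391) (nat_lit 239)) (XT.nd (nat_lit 78) (nat_lit 0) (nat_lit 0) (XT.lf (nat_lit 152) (nat_lit 3196820375) (nat_lit 0) (nat_lit 12500171) (nat_lit 76) (nat_lit 12500171) (nat_lit 103) (nat_lit 1) (nat_lit 101) (nat_lit 1) (nat_lit 102) (nat_lit 1) (nat_lit 391) (nat_lit 391) (nat_lit 238)) (XT.lf (nat_lit 0) (nat_lit 1044615605) (nat_lit 0) (nat_lit 1079763480) (nat_lit 152) (nat_lit 1044615605) (nat_lit 101) (nat_lit 3) (nat_lit 101) (nat_lit 1) (nat_lit 103) (nat_lit 1) (nat_lit 392) (nat_lit 391) (nat_lit 237)))) (XT.nd (nat_lit 78) (nat_lit 152) (nat_lit 0) (XT.lf (nat_lit 76) (nat_lit 1016968848) (nat_lit 0) (nat_lit 1050443014) (nat_lit 76) (nat_lit 1050443014) (nat_lit 101) (nat_lit 3) (nat_lit 100) (nat_lit 1) (nat_lit 101) (nat_lit 1) (nat_lit 393) (nat_lit 391) (nat_lit 236))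 (XT.nd (nat_lit 78) (nat_lit 0) (nat_lit 0) (XT.lf (nat_lit 152) (nat_lit 3047755649) (nat_lit 0) (nat_lit 10283921) (nat_lit 76) (nat_lit 10283921) (nat_lit 100) (nat_lit 1) (nat_lit 98) (nat_lit 1) (nat_lit 99) (nat_lit 1) (nat_lit 394) (nat_lit 391) (nat_lit 235)) (XT.lf (nat_lit 0) (nat_lit 996366406) (nat_lit 0) (nat_lit 1025282649) (nat_lit 152) (nat_lit 996366406) (nat_lit 98) (nat_lit 3) (nat_lit 98) (nat_lit 1) (nat_lit 100) (nat_lit 1) (nat_lit 395) (nat_lit 391) (nat_lit 234))))) (XT.nd (nat_lit 234) (nat_lit 304) (nat_lit 0) (XT.nd (nat_lit 78) (nat_lit 152) (nat_lit 0) (XT.lf (nat_lit 76) (nat_lit 971412342) (nat_lit 0) (nat_lit 998951621) (nat_lit 76) (nat_lit 998951621) (nat_lit 98) (nat_lit 3) (nat_lit 97) (nat_lit 1) (nat_lit 98) (nat_lit 1) (nat_lit 396) (nat_lit 391) (nat_lit 233)) (XT.nd (nat_lit 78) (nat_lit 0) (nat_lit 0) (XT.lf (nat_lit 152) (nat_lit 2905228129) (nat_lit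 0) (nat_lit 8460608) (nat_lit 76) (nat_lit 8460608) (nat_lit 97) (nat_lit 1) (nat_lit 95) (nat_lit 1) (nat_lit 96) (nat_lit 1) (nat_lit 397) (nat_lit 391) (nat_lit 232)) (XT.lf (nat_lit 0) (nat_lit 950149834) (nat_lit 0) (nat_lit 973939299) (nat_lit 152) (nat_lit 950149834) (nat_lit 95) (nat_lit 3) (nat_lit 95) (nat_lit 1) (nat_lit 97) (nat_lit 1) (nat_lit 398) (nat_lit 391) (nat_lit 231)))) (XT.nd (nat_lit 156) (nat_lit 76) (nat_lit 0) (XT.nd (nat_lit 78) (nat_lit 152) (nat_lit 0) (XT.lf (nat_lit 76) (nat_lit 927516245) (nat_lit 0) (nat_lit 950172878) (nat_lit 76) (nat_lit 950172878) (nat_lit 95) (nat_lit 3) (nat_lit 94) (nat_lit 1) (nat_lit 95) (nat_lit 1) (nat_lit 399) (nat_lit 391) (nat_lit 230)) (XT.lf (nat_lit 152) (nat_lit 2769026005) (nat_lit 0) (nat_lit 6960563) (nat_lit 76) (nat_lit 6960563) (nat_lit 94) (nat_lit 1) (nat_lit 92) (nat_lit 1) (nat_lit 93) (nat_lit 1) (nat_lit 400) (nat_lit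 391) (nat_lit 229))) (XT.nd (nat_lit 78) (nat_lit 76) (nat_lit 0) (XT.lf (nat_lit 0) (nat_lit 905916073) (nat_lit 0) (nat_lit 925487725) (nat_lit 152) (nat_lit 905916073) (nat_lit 92) (nat_lit 3) (nat_lit 92) (nat_lit 1) (nat_lit 94) (nat_lit 1) (nat_lit 401) (nat_lit 391) (nat_lit 228)) (XT.lf (nat_lit 76) (nat_lit 885291727) (nat_lit 0) (nat_lit 903931395) (nat_lit 76) (nat_lit 903931395) (nat_lit 92) (nat_lit 3) (nat_lit 91) (nat_lit 1) (nat_lit 92) (nat_lit 1) (nat_lit 402) (nat_lit 391) (nat_lit 227)))))) (XT.nd (nat_lit 468) (nat_lit 608) (nat_lit 0) (XT.nd (nat_lit 234) (nat_lit 228) (nat_lit 0) (XT.nd (nat_lit 78) (nat_lit 76) (nat_lit 0) (XT.lf (nat_lit 152) (nat_lit 2638929911) (nat_lit 0) (nat_lit 5726472) (nat_lit 76) (nat_lit 5726472) (nat_lit 91) (nat_lit 1) (nat_lit 89) (nat_lit 1) (nat_lit 90) (nat_lit 1) (nat_lit 403) (nat_lit 391) (nat_lit 226)) (XT.nd (nat_lit 78) (nat_lit 76)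 (nat_lit 0) (XT.lf (nat_lit 0) (nat_lit 863609351) (nat_lit 0) (nat_lit 879710997) (nat_lit 152) (nat_lit 863609351) (nat_lit 89) (nat_lit 3) (nat_lit 89) (nat_lit 1) (nat_lit 91) (nat_lit 1) (nat_lit 404) (nat_lit 391) (nat_lit 225)) (XT.lf (nat_lit 76) (nat_lit 844733425) (nat_lit 0) (nat_lit 860068327) (nat_lit 76) (nat_lit 860068327) (nat_lit 89) (nat_lit 3) (nat_lit 88) (nat_lit 1) (nat_lit 89) (nat_lit 1) (nat_lit 405) (nat_lit 391) (nat_lit 224)))) (XT.nd (nat_lit 78) (nat_lit 76) (nat_lit 0) (XT.lf (nat_lit 152) (nat_lit 2514716421) (nat_lit 0) (nat_lit 4711183) (nat_lit 76) (nat_lit 4711183) (nat_lit 88) (nat_lit 1) (nat_lit 86) (nat_lit 1) (nat_lit 87) (nat_lit 1) (nat_lit 406) (nat_lit 391) (nat_lit 223)) (XT.nd (nat_lit 78) (nat_lit 76) (nat_lit 0) (XT.lf (nat_lit 0) (nat_lit 823169698) (nat_lit 0) (nat_lit 836416562) (nat_lit 152) (nat_lit 823169698) (nat_lit 86) (nat_lit 3) (nat_lit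 86) (nat_lit 1) (nat_lit 88) (nat_lit 1) (nat_lit 407) (nat_lit 391) (nat_lit 222)) (XT.lf (nat_lit 76) (nat_lit 805823071) (nat_lit 0) (nat_lit 818439132) (nat_lit 76) (nat_lit 818439132) (nat_lit 86) (nat_lit 3) (nat_lit 85) (nat_lit 1) (nat_lit 86) (nat_lit 1) (nat_lit 408) (nat_lit 391) (nat_lit 221))))) (XT.nd (nat_lit 234) (nat_lit 380) (nat_lit 0) (XT.nd (nat_lit 78) (nat_lit 76) (nat_lit 0) (XT.lf (nat_lit 152) (nat_lit 2396160805) (nat_lit 0) (nat_lit 3875902) (nat_lit 76) (nat_lit 3875902) (nat_lit 85) (nat_lit 1) (nat_lit 83) (nat_lit 1) (nat_lit 84) (nat_lit 1) (nat_lit 409) (nat_lit 391) (nat_lit 220)) (XT.nd (nat_lit 78) (nat_lit 76) (nat_lit 0) (XT.lf (nat_lit 0) (nat_lit 784534365) (nat_lit 0) (nat_lit 795432593) (nat_lit 152) (nat_lit 784534365) (nat_lit 83) (nat_lit 3) (nat_lit 83) (nat_lit 1) (nat_lit 85) (nat_lit 1) (nat_lit 410) (nat_lit 391) (nat_lit 219)) (XT.lf (nat_lit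 76) (nat_lit 768532435) (nat_lit 0) (nat_lit 778911700) (nat_lit 76) (nat_lit 778911700) (nat_lit 83) (nat_lit 3) (nat_lit 82) (nat_lit 1) (nat_lit 83) (nat_lit 1) (nat_lit 411) (nat_lit 391) (nat_lit 218)))) (XT.nd (nat_lit 156) (nat_lit 228) (nat_lit 0) (XT.nd (nat_lit 78) (nat_lit 0) (nat_lit 0) (XT.lf (nat_lit 152) (nat_lit 2283039218) (nat_lit 0) (nat_lit 3188714) (nat_lit 76) (nat_lit 3188714) (nat_lit 82) (nat_lit 1) (nat_lit 80) (nat_lit 1) (nat_lit 81) (nat_lit 1) (nat_lit 412) (nat_lit 391) (nat_lit 217)) (XT.lf (nat_lit 0) (nat_lit 747638952) (nat_lit 0) (nat_lit 756604951) (nat_lit 152) (nat_lit 747638952) (nat_lit 80) (nat_lit 3) (nat_lit 80) (nat_lit 1) (nat_lit 82) (nat_lit 1) (nat_lit 413) (nat_lit 391) (nat_lit 216))) (XT.nd (nat_lit 78) (nat_lit 152) (nat_lit 0) (XT.lf (nat_lit 76) (nat_lit 732825728) (nat_lit 0) (nat_lit 741364774) (nat_lit 76) (nat_lit 741364774) (nat_lit 80)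 (nat_lit 3) (nat_lit 79) (nat_lit 1) (nat_lit 80) (nat_lit 1) (nat_lit 414) (nat_lit 391) (nat_lit 215)) (XT.lf (nat_lit 152) (nat_lit 2175130389) (nat_lit 0) (nat_lit 2623363) (nat_lit 76) (nat_lit 2623363) (nat_lit 79) (nat_lit 1) (nat_lit 77) (nat_lit 1) (nat_lit 78) (nat_lit 1) (nat_lit 415) (nat_lit 391) (nat_lit 214))))))))
noncomputable def ec220 : XT := (XT.nd (nat_lit 1950) (nat_lit 456) (nat_lit 0) (XT.nd (nat_lit 936) (nat_lit 912) (nat_lit 0) (XT.nd (nat_lit 468) (nat_lit 456) (nat_lit 0) (XT.nd (nat_lit 234) (nat_lit 228) (nat_lit 0) (XT.nd (nat_lit 78) (nat_lit 228) (nat_lit 0) (XT.lf (nat_lit 0) (nat_lit 712418309) (nat_lit 0) (nat_lit 719794659) (nat_lit 152) (nat_lit 712418309) (nat_lit 77) (nat_lit 3) (nat_lit 77) (nat_lit 1) (nat_lit 79) (nat_lit 1) (nat_lit 416) (nat_lit 391) (nat_lit 213)) (XT.nd (nat_lit 78) (nat_lit 152) (nat_lit 0) (XT.lf (nat_lit 76) (nat_lit 698661531)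 (nat_lit 0) (nat_lit 705686626) (nat_lit 76) (nat_lit 705686626) (nat_lit 77) (nat_lit 3) (nat_lit 76) (nat_lit 1) (nat_lit 77) (nat_lit 1) (nat_lit 417) (nat_lit 391) (nat_lit 212)) (XT.lf (nat_lit 152) (nat_lit 2072216939) (nat_lit 0) (nat_lit 2158247) (nat_lit 76) (nat_lit 2158247) (nat_lit 76) (nat_lit 1) (nat_lit 74) (nat_lit 1) (nat_lit 75) (nat_lit 1) (nat_lit 418) (nat_lit 391) (nat_lit 211)))) (XT.nd (nat_lit 78) (nat_lit 228) (nat_lit 0) (XT.lf (nat_lit 0) (nat_lit 678807252) (nat_lit 0) (nat_lit 684875793) (nat_lit 152) (nat_lit 678807252) (nat_lit 74) (nat_lit 3) (nat_lit 74) (nat_lit 1) (nat_lit 76) (nat_lit 1) (nat_lit 419) (nat_lit 391) (nat_lit 210)) (XT.nd (nat_lit 78) (nat_lit 152) (nat_lit 0) (XT.lf (nat_lit 76) (nat_lit 665994373) (nat_lit 0) (nat_lit 671773935) (nat_lit 76) (nat_lit 671773935) (nat_lit 74) (nat_lit 3) (nat_lit 73) (nat_lit 1) (nat_lit 74) (nat_lit 1) (nat_lit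 420) (nat_lit 391) (nat_lit 209)) (XT.lf (nat_lit 152) (nat_lit 1974086371) (nat_lit 0) (nat_lit 1775595) (nat_lit 76) (nat_lit 1775595) (nat_lit 73) (nat_lit 1) (nat_lit 71) (nat_lit 1) (nat_lit 72) (nat_lit 1) (nat_lit 421) (nat_lit 391) (nat_lit 208))))) (XT.nd (nat_lit 234) (nat_lit 228) (nat_lit 0) (XT.nd (nat_lit 78) (nat_lit 228) (nat_lit 0) (XT.lf (nat_lit 0) (nat_lit 646741116) (nat_lit 0) (nat_lit 651733720) (nat_lit 152) (nat_lit 646741116) (nat_lit 71) (nat_lit 3) (nat_lit 71) (nat_lit 1) (nat_lit 73) (nat_lit 1) (nat_lit 422) (nat_lit 391) (nat_lit 207)) (XT.nd (nat_lit 78) (nat_lit 152) (nat_lit 0) (XT.lf (nat_lit 76) (nat_lit 634775982) (nat_lit 0) (nat_lit 639530843) (nat_lit 76) (nat_lit 639530843) (nat_lit 71) (nat_lit 3) (nat_lit 70) (nat_lit 1) (nat_lit 71) (nat_lit 1) (nat_lit 423) (nat_lit 391) (nat_lit 206)) (XT.lf (nat_lit 152) (nat_lit 1880531806) (nat_lit 0) (nat_lit 1460786)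 (nat_lit 76) (nat_lit 1460786) (nat_lit 70) (nat_lit 1) (nat_lit 68) (nat_lit 1) (nat_lit 69) (nat_lit 1) (nat_lit 424) (nat_lit 391) (nat_lit 205)))) (XT.nd (nat_lit 78) (nat_lit 228) (nat_lit 0) (XT.lf (nat_lit 0) (nat_lit 616156193) (nat_lit 0) (nat_lit 620263621) (nat_lit 152) (nat_lit 616156193) (nat_lit 68) (nat_lit 3) (nat_lit 68) (nat_lit 1) (nat_lit 70) (nat_lit 1) (nat_lit 425) (nat_lit 391) (nat_lit 204)) (XT.nd (nat_lit 78) (nat_lit 152) (nat_lit 0) (XT.lf (nat_lit 76) (nat_lit 604956308) (nat_lit 0) (nat_lit 608868144) (nat_lit 76) (nat_lit 608868144) (nat_lit 68) (nat_lit 3) (nat_lit 67) (nat_lit 1) (nat_lit 68) (nat_lit 1) (nat_lit 426) (nat_lit 391) (nat_lit 203)) (XT.lf (nat_lit 152) (nat_lit 1791352517) (nat_lit 0) (nat_lit 1201792) (nat_lit 76) (nat_lit 1201792) (nat_lit 67) (nat_lit 1) (nat_lit 65) (nat_lit 1) (nat_lit 66) (nat_lit 1) (nat_lit 427) (nat_lit 391) (nat_lit 202))))))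 (XT.nd (nat_lit 468) (nat_lit 456) (nat_lit 0) (XT.nd (nat_lit 234) (nat_lit 228) (nat_lit 0) (XT.nd (nat_lit 78) (nat_lit 228) (nat_lit 0) (XT.lf (nat_lit 0) (nat_lit 586990060) (nat_lit 0) (nat_lit 590369251) (nat_lit 152) (nat_lit 586990060) (nat_lit 65) (nat_lit 3) (nat_lit 65) (nat_lit 1) (nat_lit 67) (nat_lit 1) (nat_lit 428) (nat_lit 391) (nat_lit 201)) (XT.nd (nat_lit 78) (nat_lit 152) (nat_lit 0) (XT.lf (nat_lit 76) (nat_lit 576484325) (nat_lit 0) (nat_lit 579702601) (nat_lit 76) (nat_lit 579702601) (nat_lit 65) (nat_lit 3) (nat_lit 64) (nat_lit 1) (nat_lit 65) (nat_lit 1) (nat_lit 429) (nat_lit 391) (nat_lit 200)) (XT.lf (nat_lit 152) (nat_lit 1706354288) (nat_lit 0) (nat_lit 988717) (nat_lit 76) (nat_lit 988717) (nat_lit 64) (nat_lit 1) (nat_lit 62) (nat_lit 1) (nat_lit 63) (nat_lit 1) (nat_lit 430) (nat_lit 391) (nat_lit 199)))) (XT.nd (nat_lit 78) (nat_lit 228) (nat_lit 0) (XT.lf (nat_lit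 0) (nat_lit 559181827) (nat_lit 0) (nat_lit 561961896) (nat_lit 152) (nat_lit 559181827) (nat_lit 62) (nat_lit 3) (nat_lit 62) (nat_lit 1) (nat_lit 64) (nat_lit 1) (nat_lit 431) (nat_lit 391) (nat_lit 198)) (XT.nd (nat_lit 78) (nat_lit 152) (nat_lit 0) (XT.lf (nat_lit 76) (nat_lit 549308674) (nat_lit 0) (nat_lit 551956358) (nat_lit 76) (nat_lit 551956358) (nat_lit 62) (nat_lit 3) (nat_lit 61) (nat_lit 1) (nat_lit 62) (nat_lit 1) (nat_lit 432) (nat_lit 391) (nat_lit 197)) (XT.lf (nat_lit 152) (nat_lit 1625349648) (nat_lit 0) (nat_lit 813420) (nat_lit 76) (nat_lit 813420) (nat_lit 61) (nat_lit 1) (nat_lit 59) (nat_lit 1) (nat_lit 60) (nat_lit 1) (nat_lit 433) (nat_lit 391) (nat_lit 196))))) (XT.nd (nat_lit 234) (nat_lit 228) (nat_lit 0) (XT.nd (nat_lit 78) (nat_lit 228) (nat_lit 0) (XT.lf (nat_lit 0) (nat_lit 532672323) (nat_lit 0) (nat_lit 534959492) (nat_lit 152) (nat_lit 532672323) (nat_lit 59)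 (nat_lit 3) (nat_lit 59) (nat_lit 1) (nat_lit 61) (nat_lit 1) (nat_lit 434) (nat_lit 391) (nat_lit 195)) (XT.nd (nat_lit 78) (nat_lit 152) (nat_lit 0) (XT.lf (nat_lit 76) (nat_lit 523378170) (nat_lit 0) (nat_lit 525556427) (nat_lit 76) (nat_lit 525556427) (nat_lit 59) (nat_lit 3) (nat_lit 58) (nat_lit 1) (nat_lit 59) (nat_lit 1) (nat_lit 435) (nat_lit 391) (nat_lit 194)) (XT.lf (nat_lit 152) (nat_lit 1548157989) (nat_lit 0) (nat_lit 669203) (nat_lit 76) (nat_lit 669203) (nat_lit 58) (nat_lit 1) (nat_lit 56) (nat_lit 1) (nat_lit 57) (nat_lit 1) (nat_lit 436) (nat_lit 391) (nat_lit 193)))) (XT.nd (nat_lit 156) (nat_lit 152) (nat_lit 0) (XT.nd (nat_lit 78) (nat_lit 76) (nat_lit 0) (XT.lf (nat_lit 0) (nat_lit 507404219) (nat_lit 0) (nat_lit 509285879) (nat_lit 152) (nat_lit 507404219) (nat_lit 56) (nat_lit 3) (nat_lit 56) (nat_lit 1) (nat_lit 58) (nat_lit 1) (nat_lit 437) (nat_lit 391) (nat_lit 192))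 (XT.lf (nat_lit 76) (nat_lit 498642197) (nat_lit 0) (nat_lit 500434254) (nat_lit 76) (nat_lit 500434254) (nat_lit 56) (nat_lit 3) (nat_lit 55) (nat_lit 1) (nat_lit 56) (nat_lit 1) (nat_lit 438) (nat_lit 391) (nat_lit 191))) (XT.nd (nat_lit 78) (nat_lit 0) (nat_lit 0) (XT.lf (nat_lit 152) (nat_lit 1474605610) (nat_lit 0) (nat_lit 550555) (nat_lit 76) (nat_lit 550555) (nat_lit 55) (nat_lit 1) (nat_lit 53) (nat_lit 1) (nat_lit 54) (nat_lit 1) (nat_lit 439) (nat_lit 391) (nat_lit 190)) (XT.lf (nat_lit 0) (nat_lit 483322117) (nat_lit 0) (nat_lit 484870163) (nat_lit 152) (nat_lit 483322117) (nat_lit 53) (nat_lit 3) (nat_lit 53) (nat_lit 1) (nat_lit 55) (nat_lit 1) (nat_lit 440) (nat_lit 391) (nat_lit 189))))))) (XT.nd (nat_lit 37596) (nat_lit 0) (nat_lit 16644) (XT.nd (nat_lit 37128) (nat_lit 0) (nat_lit 18620) (XT.nd (nat_lit 234) (nat_lit 228) (nat_lit 0) (XT.nd (nat_lit 78) (nat_lit 152) (nat_lit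 0) (XT.lf (nat_lit 76) (nat_lit 475051008) (nat_lit 0) (nat_lit 476525338) (nat_lit 76) (nat_lit 476525338) (nat_lit 53) (nat_lit 3) (nat_lit 52) (nat_lit 1) (nat_lit 53) (nat_lit 1) (nat_lit 441) (nat_lit 391) (nat_lit 188)) (XT.nd (nat_lit 78) (nat_lit 0) (nat_lit 0) (XT.lf (nat_lit 152) (nat_lit 1404525686) (nat_lit 0) (nat_lit 452943) (nat_lit 76) (nat_lit 452943) (nat_lit 52) (nat_lit 1) (nat_lit 50) (nat_lit 1) (nat_lit 51) (nat_lit 1) (nat_lit 442) (nat_lit 391) (nat_lit 187)) (XT.lf (nat_lit 0) (nat_lit 460372597) (nat_lit 0) (nat_lit 461646178) (nat_lit 152) (nat_lit 460372597) (nat_lit 50) (nat_lit 3) (nat_lit 50) (nat_lit 1) (nat_lit 52) (nat_lit 1) (nat_lit 443) (nat_lit 391) (nat_lit 186)))) (XT.nd (nat_lit 78) (nat_lit 152) (nat_lit 0) (XT.lf (nat_lit 76) (nat_lit 452555963) (nat_lit 0) (nat_lit 453768898) (nat_lit 76) (nat_lit 453768898) (nat_lit 50) (nat_lit 3) (nat_lit 49) (nat_lit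 1) (nat_lit 50) (nat_lit 1) (nat_lit 444) (nat_lit 391) (nat_lit 185)) (XT.nd (nat_lit 78) (nat_lit 0) (nat_lit 0) (XT.lf (nat_lit 152) (nat_lit 1337758187) (nat_lit 0) (nat_lit 372637) (nat_lit 76) (nat_lit 372637) (nat_lit 49) (nat_lit 1) (nat_lit 47) (nat_lit 1) (nat_lit 48) (nat_lit 1) (nat_lit 445) (nat_lit 391) (nat_lit 184)) (XT.lf (nat_lit 0) (nat_lit 438504242) (nat_lit 0) (nat_lit 439552020) (nat_lit 152) (nat_lit 438504242) (nat_lit 47) (nat_lit 3) (nat_lit 47) (nat_lit 1) (nat_lit 49) (nat_lit 1) (nat_lit 446) (nat_lit 391) (nat_lit 183))))) (XT.nd (nat_lit 234) (nat_lit 0) (nat_lit 76) (XT.nd (nat_lit 78) (nat_lit 0) (nat_lit 0) (XT.lf (nat_lit 836) (nat_lit 6793494538) (nat_lit 0) (nat_lit 12061833937) (nat_lit 836) (nat_lit 6793494538) (nat_lit 303) (nat_lit 1) (nat_lit 292) (nat_lit 0) (nat_lit 303) (nat_lit 0) (nat_lit 236) (nat_lit 392) (nat_lit 392)) (XT.nd (nat_lit 78) (nat_lit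 0) (nat_lit 76) (XT.lf (nat_lit 836) (nat_lit 26332432966) (nat_lit 76) (nat_lit 11867288229) (nat_lit 0) (nat_lit 11867288229) (nat_lit 303) (nat_lit 1) (nat_lit 293) (nat_lit 1) (nat_lit 292) (nat_lit 0) (nat_lit 237) (nat_lit 392) (nat_lit 391)) (XT.lf (nat_lit 836) (nat_lit 12549641064) (nat_lit 0) (nat_lit 23775136279) (nat_lit 760) (nat_lit 12549641064) (nat_lit 304) (nat_lit 1) (nat_lit 293) (nat_lit 1) (nat_lit 303) (nat_lit 1) (nat_lit 238) (nat_lit 392) (nat_lit 390)))) (XT.nd (nat_lit 78) (nat_lit 0) (nat_lit 76) (XT.lf (nat_lit 836) (nat_lit 23541382820) (nat_lit 76) (nat_lit 12089487073) (nat_lit 0) (nat_lit 12089487073) (nat_lit 304) (nat_lit 1) (nat_lit 294) (nat_lit 1) (nat_lit 293) (nat_lit 1) (nat_lit 239) (nat_lit 392) (nat_lit 389)) (XT.nd (nat_lit 78) (nat_lit 0) (nat_lit 0) (XT.lf (nat_lit 836) (nat_lit 10835872442) (nat_lit 0) (nat_lit 24931128599) (nat_lit 760) (nat_lit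 10835872442) (nat_lit 305) (nat_lit 1) (nat_lit 294) (nat_lit 1) (nat_lit 304) (nat_lit 1) (nat_lit 240) (nat_lit 392) (nat_lit 388)) (XT.lf (nat_lit 836) (nat_lit 19489022349) (nat_lit 76) (nat_lit 13015216409) (nat_lit 0) (nat_lit 13015216409) (nat_lit 305) (nat_lit 1) (nat_lit 295) (nat_lit 1) (nat_lit 294) (nat_lit 1) (nat_lit 241) (nat_lit 392) (nat_lit 387)))))) (XT.nd (nat_lit 468) (nat_lit 1596) (nat_lit 0) (XT.nd (nat_lit 234) (nat_lit 608) (nat_lit 0) (XT.nd (nat_lit 78) (nat_lit 0) (nat_lit 0) (XT.lf (nat_lit 836) (nat_lit 8545373406) (nat_lit 0) (nat_lit 27381667475) (nat_lit 760) (nat_lit 8545373406) (nat_lit 306) (nat_lit 1) (nat_lit 295) (nat_lit 1) (nat_lit 305) (nat_lit 1) (nat_lit 242) (nat_lit 392) (nat_lit 386)) (XT.nd (nat_lit 78) (nat_lit 0) (nat_lit 76) (XT.lf (nat_lit 836) (nat_lit 14365035074) (nat_lit 76) (nat_lit 14544583477) (nat_lit 0) (nat_lit 14544583477) (nat_lit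 306) (nat_lit 1) (nat_lit 296) (nat_lit 1) (nat_lit 295) (nat_lit 1) (nat_lit 243) (nat_lit 392) (nat_lit 385)) (XT.lf (nat_lit 836) (nat_lit 5766813378) (nat_lit 0) (nat_lit 30939635392) (nat_lit 760) (nat_lit 5766813378) (nat_lit 307) (nat_lit 1) (nat_lit 296) (nat_lit 1) (nat_lit 306) (nat_lit 1) (nat_lit 244) (nat_lit 392) (nat_lit 384)))) (XT.nd (nat_lit 78) (nat_lit 684) (nat_lit 0) (XT.lf (nat_lit 836) (nat_lit 8338021027) (nat_lit 76) (nat_lit 16588624750) (nat_lit 0) (nat_lit 16588624750) (nat_lit 307) (nat_lit 1) (nat_lit 297) (nat_lit 1) (nat_lit 296) (nat_lit 1) (nat_lit 245) (nat_lit 392) (nat_lit 383)) (XT.nd (nat_lit 78) (nat_lit 760) (nat_lit 0) (XT.lf (nat_lit 76) (nat_lit 2578949065) (nat_lit 0) (nat_lit 35438490432) (nat_lit 760) (nat_lit 2578949065) (nat_lit 298) (nat_lit 1) (nat_lit 297) (nat_lit 1) (nat_lit 307) (nat_lit 1) (nat_lit 246) (nat_lit 392) (nat_lit 382)) (XT.lf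 (nat_lit 836) (nat_lit 1557621102) (nat_lit 0) (nat_lit 19068211638) (nat_lit 760) (nat_lit 19068211638) (nat_lit 298) (nat_lit 1) (nat_lit 287) (nat_lit 1) (nat_lit 297) (nat_lit 1) (nat_lit 247) (nat_lit 392) (nat_lit 381))))) (XT.nd (nat_lit 234) (nat_lit 684) (nat_lit 0) (XT.nd (nat_lit 78) (nat_lit 380) (nat_lit 0) (XT.lf (nat_lit 532) (nat_lit 36964310382) (nat_lit 0) (nat_lit 933078104) (nat_lit 456) (nat_lit 933078104) (nat_lit 287) (nat_lit 1) (nat_lit 280) (nat_lit 1) (nat_lit 286) (nat_lit 1) (nat_lit 248) (nat_lit 392) (nat_lit 380)) (XT.nd (nat_lit 78) (nat_lit 380) (nat_lit 0) (XT.lf (nat_lit 76) (nat_lit 16160732165) (nat_lit 0) (nat_lit 5656533363) (nat_lit 532) (nat_lit 16160732165) (nat_lit 281) (nat_lit 1) (nat_lit 280) (nat_lit 1) (nat_lit 287) (nat_lit 1) (nat_lit 249) (nat_lit 392) (nat_lit 379)) (XT.lf (nat_lit 456) (nat_lit 27808471775) (nat_lit 0) (nat_lit 4676653139) (nat_lit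 380) (nat_lit 4676653139) (nat_lit 281) (nat_lit 1) (nat_lit 275) (nat_lit 1) (nat_lit 280) (nat_lit 1) (nat_lit 250) (nat_lit 392) (nat_lit 378)))) (XT.nd (nat_lit 156) (nat_lit 304) (nat_lit 0) (XT.nd (nat_lit 78) (nat_lit 380) (nat_lit 0) (XT.lf (nat_lit 76) (nat_lit 11527253521) (nat_lit 0) (nat_lit 13308210568) (nat_lit 456) (nat_lit 11527253521) (nat_lit 276) (nat_lit 1) (nat_lit 275) (nat_lit 1) (nat_lit 281) (nat_lit 1) (nat_lit 251) (nat_lit 392) (nat_lit 377)) (XT.lf (nat_lit 456) (nat_lit 18312273024) (nat_lit 0) (nat_lit 8639606639) (nat_lit 380) (nat_lit 8639606639) (nat_lit 276) (nat_lit 1) (nat_lit 270) (nat_lit 1) (nat_lit 275) (nat_lit 1) (nat_lit 252) (nat_lit 392) (nat_lit 376))) (XT.nd (nat_lit 78) (nat_lit 304) (nat_lit 0) (XT.lf (nat_lit 76) (nat_lit 6747829238) (nat_lit 0) (nat_lit 21347026524) (nat_lit 456) (nat_lit 6747829238) (nat_lit 271) (nat_lit 1) (nat_lit 270) (nat_lit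 1) (nat_lit 276) (nat_lit 1) (nat_lit 253) (nat_lit 392) (nat_lit 375)) (XT.lf (nat_lit 380) (nat_lit 8564099648) (nat_lit 0) (nat_lit 12774522845) (nat_lit 304) (nat_lit 12774522845) (nat_lit 271) (nat_lit 1) (nat_lit 266) (nat_lit 1) (nat_lit 270) (nat_lit 1) (nat_lit 254) (nat_lit 392) (nat_lit 374))))))))
noncomputable def ec221 : XT := (XT.nd (nat_lit 1950) (nat_lit 2432) (nat_lit 0) (XT.nd (nat_lit 936) (nat_lit 1672) (nat_lit 0) (XT.nd (nat_lit 468) (nat_lit 1064) (nat_lit 0) (XT.nd (nat_lit 234) (nat_lit 304) (nat_lit 0) (XT.nd (nat_lit 78) (nat_lit 684) (nat_lit 0) (XT.lf (nat_lit 76) (nat_lit 1863490938) (nat_lit 0) (nat_lit 29684678303) (nat_lit 380) (nat_lit 1863490938) (nat_lit 267) (nat_lit 1) (nat_lit 266) (nat_lit 1) (nat_lit 271) (nat_lit 1) (nat_lit 255) (nat_lit 392) (nat_lit 373)) (XT.nd (nat_lit 78) (nat_lit 304) (nat_lit 0) (XT.lf (nat_lit 76) (nat_lit 15702310123) (nat_lit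 0) (nat_lit 1315098974) (nat_lit 380) (nat_lit 15702310123) (nat_lit 262) (nat_lit 1) (nat_lit 261) (nat_lit 1) (nat_lit 266) (nat_lit 1) (nat_lit 256) (nat_lit 392) (nat_lit 372)) (XT.lf (nat_lit 380) (nat_lit 25974097224) (nat_lit 0) (nat_lit 3040015923) (nat_lit 304) (nat_lit 3040015923) (nat_lit 262) (nat_lit 1) (nat_lit 257) (nat_lit 1) (nat_lit 261) (nat_lit 1) (nat_lit 257) (nat_lit 392) (nat_lit 371)))) (XT.nd (nat_lit 78) (nat_lit 304) (nat_lit 0) (XT.lf (nat_lit 76) (nat_lit 10188182831) (nat_lit 0) (nat_lit 11023591602) (nat_lit 380) (nat_lit 10188182831) (nat_lit 258) (nat_lit 1) (nat_lit 257) (nat_lit 1) (nat_lit 262) (nat_lit 1) (nat_lit 258) (nat_lit 392) (nat_lit 370)) (XT.nd (nat_lit 78) (nat_lit 0) (nat_lit 0) (XT.lf (nat_lit 380) (nat_lit 14867392884) (nat_lit 0) (nat_lit 7950538477) (nat_lit 304) (nat_lit 7950538477) (nat_lit 258) (nat_lit 1) (nat_lit 253) (nat_lit 1) (nat_lit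 257) (nat_lit 1) (nat_lit 259) (nat_lit 392) (nat_lit 369)) (XT.lf (nat_lit 76) (nat_lit 4688512194) (nat_lit 0) (nat_lit 20778422769) (nat_lit 380) (nat_lit 4688512194) (nat_lit 254) (nat_lit 1) (nat_lit 253) (nat_lit 1) (nat_lit 258) (nat_lit 1) (nat_lit 260) (nat_lit 392) (nat_lit 368))))) (XT.nd (nat_lit 234) (nat_lit 456) (nat_lit 0) (XT.nd (nat_lit 78) (nat_lit 380) (nat_lit 0) (XT.lf (nat_lit 304) (nat_lit 3812966162) (nat_lit 0) (nat_lit 12871345511) (nat_lit 228) (nat_lit 12871345511) (nat_lit 254) (nat_lit 1) (nat_lit 250) (nat_lit 1) (nat_lit 253) (nat_lit 1) (nat_lit 261) (nat_lit 392) (nat_lit 367)) (XT.nd (nat_lit 78) (nat_lit 0) (nat_lit 0) (XT.lf (nat_lit 380) (nat_lit 27455347327) (nat_lit 0) (nat_lit 761833207) (nat_lit 304) (nat_lit 761833207) (nat_lit 250) (nat_lit 1) (nat_lit 245) (nat_lit 1) (nat_lit 249) (nat_lit 1) (nat_lit 262) (nat_lit 392) (nat_lit 366)) (XT.lf (nat_lit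 76) (nat_lit 10743480383) (nat_lit 0) (nat_lit 6918601184) (nat_lit 380) (nat_lit 10743480383) (nat_lit 246) (nat_lit 1) (nat_lit 245) (nat_lit 1) (nat_lit 250) (nat_lit 1) (nat_lit 263) (nat_lit 392) (nat_lit 365)))) (XT.nd (nat_lit 78) (nat_lit 228) (nat_lit 0) (XT.lf (nat_lit 304) (nat_lit 15691192747) (nat_lit 0) (nat_lit 6081455407) (nat_lit 228) (nat_lit 6081455407) (nat_lit 246) (nat_lit 1) (nat_lit 242) (nat_lit 1) (nat_lit 245) (nat_lit 1) (nat_lit 264) (nat_lit 392) (nat_lit 364)) (XT.nd (nat_lit 78) (nat_lit 228) (nat_lit 0) (XT.lf (nat_lit 76) (nat_lit 4957090506) (nat_lit 0) (nat_lit 17402474908) (nat_lit 304) (nat_lit 4957090506) (nat_lit 243) (nat_lit 1) (nat_lit 242) (nat_lit 1) (nat_lit 246) (nat_lit 1) (nat_lit 265) (nat_lit 392) (nat_lit 363)) (XT.lf (nat_lit 304) (nat_lit 4131579997) (nat_lit 0) (nat_lit 11329927536) (nat_lit 228) (nat_lit 11329927536) (nat_lit 243) (nat_lit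 1) (nat_lit 239) (nat_lit 1) (nat_lit 242) (nat_lit 1) (nat_lit 266) (nat_lit 392) (nat_lit 362)))))) (XT.nd (nat_lit 468) (nat_lit 684) (nat_lit 0) (XT.nd (nat_lit 234) (nat_lit 456) (nat_lit 0) (XT.nd (nat_lit 78) (nat_lit 228) (nat_lit 0) (XT.lf (nat_lit 304) (nat_lit 24865617438) (nat_lit 0) (nat_lit 710054701) (nat_lit 228) (nat_lit 710054701) (nat_lit 239) (nat_lit 1) (nat_lit 235) (nat_lit 1) (nat_lit 238) (nat_lit 1) (nat_lit 267) (nat_lit 392) (nat_lit 361)) (XT.nd (nat_lit 78) (nat_lit 228) (nat_lit 0) (XT.lf (nat_lit 76) (nat_lit 9405950970) (nat_lit 0) (nat_lit 6969715222) (nat_lit 304) (nat_lit 9405950970) (nat_lit 236) (nat_lit 1) (nat_lit 235) (nat_lit 1) (nat_lit 239) (nat_lit 1) (nat_lit 268) (nat_lit 392) (nat_lit 360)) (XT.lf (nat_lit 304) (nat_lit 12934043848) (nat_lit 0) (nat_lit 6181057888) (nat_lit 228) (nat_lit 6181057888) (nat_lit 236) (nat_lit 1) (nat_lit 232) (nat_lit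 1) (nat_lit 235) (nat_lit 1) (nat_lit 269) (nat_lit 392) (nat_lit 359)))) (XT.nd (nat_lit 78) (nat_lit 456) (nat_lit 0) (XT.lf (nat_lit 76) (nat_lit 3562025127) (nat_lit 0) (nat_lit 17699672024) (nat_lit 304) (nat_lit 3562025127) (nat_lit 233) (nat_lit 1) (nat_lit 232) (nat_lit 1) (nat_lit 236) (nat_lit 1) (nat_lit 270) (nat_lit 392) (nat_lit 358)) (XT.nd (nat_lit 78) (nat_lit 304) (nat_lit 0) (XT.lf (nat_lit 228) (nat_lit 1305244441) (nat_lit 0) (nat_lit 11527471644) (nat_lit 152) (nat_lit 11527471644) (nat_lit 233) (nat_lit 1) (nat_lit 230) (nat_lit 1) (nat_lit 232) (nat_lit 1) (nat_lit 271) (nat_lit 392) (nat_lit 357)) (XT.lf (nat_lit 304) (nat_lit 19721805844) (nat_lit 0) (nat_lit 2094598731) (nat_lit 228) (nat_lit 2094598731) (nat_lit 230) (nat_lit 1) (nat_lit 226) (nat_lit 1) (nat_lit 229) (nat_lit 1) (nat_lit 272) (nat_lit 392) (nat_lit 356))))) (XT.nd (nat_lit 234) (nat_lit 532) (nat_lit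 0) (XT.nd (nat_lit 78) (nat_lit 152) (nat_lit 0) (XT.lf (nat_lit 76) (nat_lit 6888358642) (nat_lit 0) (nat_lit 9690125293) (nat_lit 304) (nat_lit 6888358642) (nat_lit 227) (nat_lit 1) (nat_lit 226) (nat_lit 1) (nat_lit 230) (nat_lit 1) (nat_lit 273) (nat_lit 392) (nat_lit 355)) (XT.nd (nat_lit 78) (nat_lit 0) (nat_lit 0) (XT.lf (nat_lit 228) (nat_lit 7958435836) (nat_lit 0) (nat_lit 7538977015) (nat_lit 152) (nat_lit 7538977015) (nat_lit 227) (nat_lit 1) (nat_lit 224) (nat_lit 1) (nat_lit 226) (nat_lit 1) (nat_lit 274) (nat_lit 392) (nat_lit 354)) (XT.lf (nat_lit 76) (nat_lit 1143374624) (nat_lit 0) (nat_lit 20333472982) (nat_lit 228) (nat_lit 1143374624) (nat_lit 225) (nat_lit 1) (nat_lit 224) (nat_lit 1) (nat_lit 227) (nat_lit 1) (nat_lit 275) (nat_lit 392) (nat_lit 353)))) (XT.nd (nat_lit 156) (nat_lit 152) (nat_lit 0) (XT.nd (nat_lit 78) (nat_lit 152) (nat_lit 0) (XT.lf (nat_lit 76) (nat_lit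 9436471373) (nat_lit 0) (nat_lit 3332624646) (nat_lit 228) (nat_lit 9436471373) (nat_lit 222) (nat_lit 1) (nat_lit 221) (nat_lit 1) (nat_lit 224) (nat_lit 1) (nat_lit 276) (nat_lit 392) (nat_lit 352)) (XT.lf (nat_lit 228) (nat_lit 13104194386) (nat_lit 0) (nat_lit 4350237490) (nat_lit 152) (nat_lit 4350237490) (nat_lit 222) (nat_lit 1) (nat_lit 219) (nat_lit 1) (nat_lit 221) (nat_lit 1) (nat_lit 277) (nat_lit 392) (nat_lit 351))) (XT.nd (nat_lit 78) (nat_lit 152) (nat_lit 0) (XT.lf (nat_lit 76) (nat_lit 3697662734) (nat_lit 0) (nat_lit 14017306595) (nat_lit 228) (nat_lit 3697662734) (nat_lit 220) (nat_lit 1) (nat_lit 219) (nat_lit 1) (nat_lit 222) (nat_lit 1) (nat_lit 278) (nat_lit 392) (nat_lit 350)) (XT.lf (nat_lit 228) (nat_lit 1732221862) (nat_lit 0) (nat_lit 9648137680) (nat_lit 152) (nat_lit 9648137680) (nat_lit 220) (nat_lit 1) (nat_lit 217) (nat_lit 1) (nat_lit 219) (nat_lit 1) (nat_lit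 279) (nat_lit 392) (nat_lit 349))))))) (XT.nd (nat_lit 1014) (nat_lit 1140) (nat_lit 0) (XT.nd (nat_lit 468) (nat_lit 608) (nat_lit 0) (XT.nd (nat_lit 234) (nat_lit 304) (nat_lit 0) (XT.nd (nat_lit 78) (nat_lit 152) (nat_lit 0) (XT.lf (nat_lit 228) (nat_lit 17025395559) (nat_lit 0) (nat_lit 1815048714) (nat_lit 152) (nat_lit 1815048714) (nat_lit 217) (nat_lit 1) (nat_lit 214) (nat_lit 1) (nat_lit 216) (nat_lit 1) (nat_lit 280) (nat_lit 392) (nat_lit 348)) (XT.nd (nat_lit 78) (nat_lit 152) (nat_lit 0) (XT.lf (nat_lit 76) (nat_lit 5667795903) (nat_lit 0) (nat_lit 8950080495) (nat_lit 228) (nat_lit 5667795903) (nat_lit 215) (nat_lit 1) (nat_lit 214) (nat_lit 1) (nat_lit 217) (nat_lit 1) (nat_lit 281) (nat_lit 392) (nat_lit 347)) (XT.lf (nat_lit 228) (nat_lit 5772374952) (nat_lit 0) (nat_lit 7077106534) (nat_lit 152) (nat_lit 7077106534) (nat_lit 215) (nat_lit 1) (nat_lit 212) (nat_lit 1) (nat_lit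 214) (nat_lit 1) (nat_lit 282) (nat_lit 392) (nat_lit 346)))) (XT.nd (nat_lit 78) (nat_lit 304) (nat_lit 0) (XT.lf (nat_lit 76) (nat_lit 189722044) (nat_lit 0) (nat_lit 19200652757) (nat_lit 228) (nat_lit 189722044) (nat_lit 213) (nat_lit 1) (nat_lit 212) (nat_lit 1) (nat_lit 215) (nat_lit 1) (nat_lit 283) (nat_lit 392) (nat_lit 345)) (XT.nd (nat_lit 78) (nat_lit 152) (nat_lit 0) (XT.lf (nat_lit 76) (nat_lit 7163595069) (nat_lit 0) (nat_lit 4904213057) (nat_lit 152) (nat_lit 7163595069) (nat_lit 211) (nat_lit 1) (nat_lit 210) (nat_lit 1) (nat_lit 212) (nat_lit 1) (nat_lit 284) (nat_lit 392) (nat_lit 344)) (XT.lf (nat_lit 228) (nat_lit 8889205958) (nat_lit 0) (nat_lit 5002886191) (nat_lit 152) (nat_lit 5002886191) (nat_lit 211) (nat_lit 1) (nat_lit 208) (nat_lit 1) (nat_lit 210) (nat_lit 1) (nat_lit 285) (nat_lit 392) (nat_lit 343))))) (XT.nd (nat_lit 234) (nat_lit 304) (nat_lit 0) (XT.nd (nat_lit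 78) (nat_lit 304) (nat_lit 0) (XT.lf (nat_lit 76) (nat_lit 1782224359) (nat_lit 0) (nat_lit 15003185729) (nat_lit 228) (nat_lit 1782224359) (nat_lit 209) (nat_lit 1) (nat_lit 208) (nat_lit 1) (nat_lit 211) (nat_lit 1) (nat_lit 286) (nat_lit 392) (nat_lit 342)) (XT.nd (nat_lit 78) (nat_lit 152) (nat_lit 0) (XT.lf (nat_lit 76) (nat_lit 8275112489) (nat_lit 0) (nat_lit 1692765062) (nat_lit 152) (nat_lit 8275112489) (nat_lit 207) (nat_lit 1) (nat_lit 206) (nat_lit 1) (nat_lit 208) (nat_lit 1) (nat_lit 287) (nat_lit 392) (nat_lit 341)) (XT.lf (nat_lit 228) (nat_lit 11256275359) (nat_lit 0) (nat_lit 3335442214) (nat_lit 152) (nat_lit 3335442214) (nat_lit 207) (nat_lit 1) (nat_lit 204) (nat_lit 1) (nat_lit 206) (nat_lit 1) (nat_lit 288) (nat_lit 392) (nat_lit 340)))) (XT.nd (nat_lit 156) (nat_lit 228) (nat_lit 0) (XT.nd (nat_lit 78) (nat_lit 76) (nat_lit 0) (XT.lf (nat_lit 76) (nat_lit 3014944737) (nat_lit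 0) (nat_lit 11587692495) (nat_lit 228) (nat_lit 3014944737) (nat_lit 205) (nat_lit 1) (nat_lit 204) (nat_lit 1) (nat_lit 207) (nat_lit 1) (nat_lit 289) (nat_lit 392) (nat_lit 339)) (XT.lf (nat_lit 152) (nat_lit 865480840) (nat_lit 0) (nat_lit 8224182596) (nat_lit 76) (nat_lit 8224182596) (nat_lit 205) (nat_lit 1) (nat_lit 203) (nat_lit 1) (nat_lit 204) (nat_lit 1) (nat_lit 290) (nat_lit 392) (nat_lit 338))) (XT.nd (nat_lit 78) (nat_lit 0) (nat_lit 0) (XT.lf (nat_lit 228) (nat_lit 13015902374) (nat_lit 0) (nat_lit 2000795957) (nat_lit 152) (nat_lit 2000795957) (nat_lit 203) (nat_lit 1) (nat_lit 200) (nat_lit 1) (nat_lit 202) (nat_lit 1) (nat_lit 291) (nat_lit 392) (nat_lit 337)) (XT.lf (nat_lit 76) (nat_lit 3955359016) (nat_lit 0) (nat_lit 8813732307) (nat_lit 228) (nat_lit 3955359016) (nat_lit 201) (nat_lit 1) (nat_lit 200) (nat_lit 1) (nat_lit 203) (nat_lit 1) (nat_lit 292) (nat_lit 392) (nat_lit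 336)))))) (XT.nd (nat_lit 468) (nat_lit 532) (nat_lit 0) (XT.nd (nat_lit 234) (nat_lit 304) (nat_lit 0) (XT.nd (nat_lit 78) (nat_lit 228) (nat_lit 0) (XT.lf (nat_lit 152) (nat_lit 2906480735) (nat_lit 0) (nat_lit 6766055375) (nat_lit 76) (nat_lit 6766055375) (nat_lit 201) (nat_lit 1) (nat_lit 199) (nat_lit 1) (nat_lit 200) (nat_lit 1) (nat_lit 293) (nat_lit 392) (nat_lit 335)) (XT.nd (nat_lit 78) (nat_lit 0) (nat_lit 0) (XT.lf (nat_lit 228) (nat_lit 14284726313) (nat_lit 0) (nat_lit 938173493) (nat_lit 152) (nat_lit 938173493) (nat_lit 199) (nat_lit 1) (nat_lit 196) (nat_lit 1) (nat_lit 198) (nat_lit 1) (nat_lit 294) (nat_lit 392) (nat_lit 334)) (XT.lf (nat_lit 76) (nat_lit 4658804146) (nat_lit 0) (nat_lit 6565849871) (nat_lit 228) (nat_lit 4658804146) (nat_lit 197) (nat_lit 1) (nat_lit 196) (nat_lit 1) (nat_lit 199) (nat_lit 1) (nat_lit 295) (nat_lit 392) (nat_lit 333)))) (XT.nd (nat_lit 78) (nat_lit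 228) (nat_lit 0) (XT.lf (nat_lit 152) (nat_lit 4481118898) (nat_lit 0) (nat_lit 5566450501) (nat_lit 76) (nat_lit 5566450501) (nat_lit 197) (nat_lit 1) (nat_lit 195) (nat_lit 1) (nat_lit 196) (nat_lit 1) (nat_lit 296) (nat_lit 392) (nat_lit 332)) (XT.nd (nat_lit 78) (nat_lit 0) (nat_lit 0) (XT.lf (nat_lit 228) (nat_lit 15158280850) (nat_lit 0) (nat_lit 97660233) (nat_lit 152) (nat_lit 97660233) (nat_lit 195) (nat_lit 1) (nat_lit 192) (nat_lit 1) (nat_lit 194) (nat_lit 1) (nat_lit 297) (nat_lit 392) (nat_lit 331)) (XT.lf (nat_lit 76) (nat_lit 5170638744) (nat_lit 0) (nat_lit 4749141405) (nat_lit 228) (nat_lit 5170638744) (nat_lit 193) (nat_lit 1) (nat_lit 192) (nat_lit 1) (nat_lit 195) (nat_lit 1) (nat_lit 298) (nat_lit 392) (nat_lit 330))))) (XT.nd (nat_lit 234) (nat_lit 304) (nat_lit 0) (XT.nd (nat_lit 78) (nat_lit 152) (nat_lit 0) (XT.lf (nat_lit 152) (nat_lit 5677056184) (nat_lit 0) (nat_lit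 4579532603) (nat_lit 76) (nat_lit 4579532603) (nat_lit 193) (nat_lit 1) (nat_lit 191) (nat_lit 1) (nat_lit 192) (nat_lit 1) (nat_lit 299) (nat_lit 392) (nat_lit 329)) (XT.nd (nat_lit 78) (nat_lit 152) (nat_lit 0) (XT.lf (nat_lit 0) (nat_lit 570937080) (nat_lit 0) (nat_lit 13447627394) (nat_lit 152) (nat_lit 570937080) (nat_lit 191) (nat_lit 3) (nat_lit 191) (nat_lit 1) (nat_lit 193) (nat_lit 1) (nat_lit 300) (nat_lit 392) (nat_lit 328)) (XT.lf (nat_lit 76) (nat_lit 5528020189) (nat_lit 0) (nat_lit 3285607022) (nat_lit 152) (nat_lit 5528020189) (nat_lit 190) (nat_lit 1) (nat_lit 189) (nat_lit 1) (nat_lit 191) (nat_lit 1) (nat_lit 301) (nat_lit 392) (nat_lit 327)))) (XT.nd (nat_lit 156) (nat_lit 228) (nat_lit 0) (XT.nd (nat_lit 78) (nat_lit 0) (nat_lit 0) (XT.lf (nat_lit 152) (nat_lit 6566174435) (nat_lit 0) (nat_lit 3767592806) (nat_lit 76) (nat_lit 3767592806) (nat_lit 190) (nat_lit 1) (nat_lit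 188) (nat_lit 1) (nat_lit 189) (nat_lit 1) (nat_lit 302) (nat_lit 392) (nat_lit 326)) (XT.lf (nat_lit 0) (nat_lit 1091234714) (nat_lit 0) (nat_lit 11684919702) (nat_lit 152) (nat_lit 1091234714) (nat_lit 188) (nat_lit 3) (nat_lit 188) (nat_lit 1) (nat_lit 190) (nat_lit 1) (nat_lit 303) (nat_lit 392) (nat_lit 325))) (XT.nd (nat_lit 78) (nat_lit 76) (nat_lit 0) (XT.lf (nat_lit 76) (nat_lit 5761366269) (nat_lit 0) (nat_lit 2111150014) (nat_lit 152) (nat_lit 5761366269) (nat_lit 187) (nat_lit 1) (nat_lit 186) (nat_lit 1) (nat_lit 188) (nat_lit 1) (nat_lit 304) (nat_lit 392) (nat_lit 324)) (XT.lf (nat_lit 152) (nat_lit 7207385351) (nat_lit 0) (nat_lit 3099607925) (nat_lit 76) (nat_lit 3099607925) (nat_lit 187) (nat_lit 1) (nat_lit 185) (nat_lit 1) (nat_lit 186) (nat_lit 1) (nat_lit 305) (nat_lit 392) (nat_lit 323))))))))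
noncomputable def ec222 : XT := (XT.nd (nat_lit 1950) (nat_lit 1900) (nat_lit 0) (XT.nd (nat_lit 936) (nat_lit 912) (nat_lit 0) (XT.nd (nat_lit 468) (nat_lit 456) (nat_lit 0) (XT.nd (nat_lit 234) (nat_lit 228) (nat_lit 0) (XT.nd (nat_lit 78) (nat_lit 228) (nat_lit 0) (XT.lf (nat_lit 0) (nat_lit 1489688514) (nat_lit 0) (nat_lit 10205139371) (nat_lit 152) (nat_lit 1489688514) (nat_lit 185) (nat_lit 3) (nat_lit 185) (nat_lit 1) (nat_lit 187) (nat_lit 1) (nat_lit 306) (nat_lit 392) (nat_lit 322)) (XT.nd (nat_lit 78) (nat_lit 76) (nat_lit 0) (XT.lf (nat_lit 76) (nat_lit 5895557316) (nat_lit 0) (nat_lit 1173108327) (nat_lit 152) (nat_lit 5895557316) (nat_lit 184) (nat_lit 1) (nat_lit 183) (nat_lit 1) (nat_lit 185) (nat_lit 1) (nat_lit 307) (nat_lit 392) (nat_lit 321)) (XT.lf (nat_lit 152) (nat_lit 7648940807) (nat_lit 0) (nat_lit 2550055111) (nat_lit 76) (nat_lit 2550055111) (nat_lit 184) (nat_lit 1)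 (nat_lit 182) (nat_lit 1) (nat_lit 183) (nat_lit 1) (nat_lit 308) (nat_lit 392) (nat_lit 320)))) (XT.nd (nat_lit 78) (nat_lit 228) (nat_lit 0) (XT.lf (nat_lit 0) (nat_lit 1789310440) (nat_lit 0) (nat_lit 8959533430) (nat_lit 152) (nat_lit 1789310440) (nat_lit 182) (nat_lit 3) (nat_lit 182) (nat_lit 1) (nat_lit 184) (nat_lit 1) (nat_lit 309) (nat_lit 392) (nat_lit 319)) (XT.nd (nat_lit 78) (nat_lit 76) (nat_lit 0) (XT.lf (nat_lit 76) (nat_lit 5950924858) (nat_lit 0) (nat_lit 428223873) (nat_lit 152) (nat_lit 5950924858) (nat_lit 181) (nat_lit 1) (nat_lit 180) (nat_lit 1) (nat_lit 182) (nat_lit 1) (nat_lit 310) (nat_lit 392) (nat_lit 318)) (XT.lf (nat_lit 152) (nat_lit 7930333047) (nat_lit 0) (nat_lit 2097936651) (nat_lit 76) (nat_lit 2097936651) (nat_lit 181) (nat_lit 1) (nat_lit 179) (nat_lit 1) (nat_lit 180) (nat_lit 1) (nat_lit 311) (nat_lit 392) (nat_lit 317))))) (XT.nd (nat_lit 234) (nat_lit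 228) (nat_lit 0) (XT.nd (nat_lit 78) (nat_lit 228) (nat_lit 0) (XT.lf (nat_lit 0) (nat_lit 2008965379) (nat_lit 0) (nat_lit 7907925577) (nat_lit 152) (nat_lit 2008965379) (nat_lit 179) (nat_lit 3) (nat_lit 179) (nat_lit 1) (nat_lit 181) (nat_lit 1) (nat_lit 312) (nat_lit 392) (nat_lit 316)) (XT.nd (nat_lit 78) (nat_lit 152) (nat_lit 0) (XT.lf (nat_lit 76) (nat_lit 164286153) (nat_lit 0) (nat_lit 5782343484) (nat_lit 76) (nat_lit 5782343484) (nat_lit 179) (nat_lit 3) (nat_lit 178) (nat_lit 1) (nat_lit 179) (nat_lit 1) (nat_lit 313) (nat_lit 392) (nat_lit 315)) (XT.lf (nat_lit 152) (nat_lit 8083857495) (nat_lit 0) (nat_lit 1725977674) (nat_lit 76) (nat_lit 1725977674) (nat_lit 178) (nat_lit 1) (nat_lit 176) (nat_lit 1) (nat_lit 177) (nat_lit 1) (nat_lit 314) (nat_lit 392) (nat_lit 314)))) (XT.nd (nat_lit 78) (nat_lit 228) (nat_lit 0) (XT.lf (nat_lit 0) (nat_lit 2164109599) (nat_lit 0) (nat_lit 7017198753)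 (nat_lit 152) (nat_lit 2164109599) (nat_lit 176) (nat_lit 3) (nat_lit 176) (nat_lit 1) (nat_lit 178) (nat_lit 1) (nat_lit 315) (nat_lit 392) (nat_lit 313)) (XT.nd (nat_lit 78) (nat_lit 152) (nat_lit 0) (XT.lf (nat_lit 76) (nat_lit 638240196) (nat_lit 0) (nat_lit 5260229866) (nat_lit 76) (nat_lit 5260229866) (nat_lit 176) (nat_lit 3) (nat_lit 175) (nat_lit 1) (nat_lit 176) (nat_lit 1) (nat_lit 316) (nat_lit 392) (nat_lit 312)) (XT.lf (nat_lit 152) (nat_lit 8135898017) (nat_lit 0) (nat_lit 1419966104) (nat_lit 76) (nat_lit 1419966104) (nat_lit 175) (nat_lit 1) (nat_lit 173) (nat_lit 1) (nat_lit 174) (nat_lit 1) (nat_lit 317) (nat_lit 392) (nat_lit 311)))))) (XT.nd (nat_lit 468) (nat_lit 456) (nat_lit 0) (XT.nd (nat_lit 234) (nat_lit 228) (nat_lit 0) (XT.nd (nat_lit 78) (nat_lit 228) (nat_lit 0) (XT.lf (nat_lit 0) (nat_lit 2267398142) (nat_lit 0) (nat_lit 6260046599) (nat_lit 152) (nat_lit 2267398142)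 (nat_lit 173) (nat_lit 3) (nat_lit 173) (nat_lit 1) (nat_lit 175) (nat_lit 1) (nat_lit 318) (nat_lit 392) (nat_lit 310)) (XT.nd (nat_lit 78) (nat_lit 152) (nat_lit 0) (XT.lf (nat_lit 76) (nat_lit 1004207095) (nat_lit 0) (nat_lit 4806729435) (nat_lit 76) (nat_lit 4806729435) (nat_lit 173) (nat_lit 3) (nat_lit 172) (nat_lit 1) (nat_lit 173) (nat_lit 1) (nat_lit 319) (nat_lit 392) (nat_lit 309)) (XT.lf (nat_lit 152) (nat_lit 8107983861) (nat_lit 0) (nat_lit 1168209628) (nat_lit 76) (nat_lit 1168209628) (nat_lit 172) (nat_lit 1) (nat_lit 170) (nat_lit 1) (nat_lit 171) (nat_lit 1) (nat_lit 320) (nat_lit 392) (nat_lit 308)))) (XT.nd (nat_lit 78) (nat_lit 228) (nat_lit 0) (XT.lf (nat_lit 0) (nat_lit 2329184367) (nat_lit 0) (nat_lit 5613946134) (nat_lit 152) (nat_lit 2329184367) (nat_lit 170) (nat_lit 3) (nat_lit 170) (nat_lit 1) (nat_lit 172) (nat_lit 1) (nat_lit 321) (nat_lit 392) (nat_lit 307)) (XT.nd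 (nat_lit 78) (nat_lit 152) (nat_lit 0) (XT.lf (nat_lit 76) (nat_lit 1282473478) (nat_lit 0) (nat_lit 4410818017) (nat_lit 76) (nat_lit 4410818017) (nat_lit 170) (nat_lit 3) (nat_lit 169) (nat_lit 1) (nat_lit 170) (nat_lit 1) (nat_lit 322) (nat_lit 392) (nat_lit 306)) (XT.lf (nat_lit 152) (nat_lit 8017658796) (nat_lit 0) (nat_lit 961088952) (nat_lit 76) (nat_lit 961088952) (nat_lit 169) (nat_lit 1) (nat_lit 167) (nat_lit 1) (nat_lit 168) (nat_lit 1) (nat_lit 323) (nat_lit 392) (nat_lit 305))))) (XT.nd (nat_lit 234) (nat_lit 228) (nat_lit 0) (XT.nd (nat_lit 78) (nat_lit 228) (nat_lit 0) (XT.lf (nat_lit 0) (nat_lit 2357930795) (nat_lit 0) (nat_lit 5060312429) (nat_lit 152) (nat_lit 2357930795) (nat_lit 167) (nat_lit 3) (nat_lit 167) (nat_lit 1) (nat_lit 169) (nat_lit 1) (nat_lit 324) (nat_lit 392) (nat_lit 304)) (XT.nd (nat_lit 78) (nat_lit 152) (nat_lit 0) (XT.lf (nat_lit 76) (nat_lit 1489674880)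 (nat_lit 0) (nat_lit 4063371675) (nat_lit 76) (nat_lit 4063371675) (nat_lit 167) (nat_lit 3) (nat_lit 166) (nat_lit 1) (nat_lit 167) (nat_lit 1) (nat_lit 325) (nat_lit 392) (nat_lit 303)) (XT.lf (nat_lit 152) (nat_lit 7879195741) (nat_lit 0) (nat_lit 790690259) (nat_lit 76) (nat_lit 790690259) (nat_lit 166) (nat_lit 1) (nat_lit 164) (nat_lit 1) (nat_lit 165) (nat_lit 1) (nat_lit 326) (nat_lit 392) (nat_lit 302)))) (XT.nd (nat_lit 156) (nat_lit 152) (nat_lit 0) (XT.nd (nat_lit 78) (nat_lit 76) (nat_lit 0) (XT.lf (nat_lit 0) (nat_lit 2360546978) (nat_lit 0) (nat_lit 4583803037) (nat_lit 152) (nat_lit 2360546978) (nat_lit 164) (nat_lit 3) (nat_lit 164) (nat_lit 1) (nat_lit 166) (nat_lit 1) (nat_lit 327) (nat_lit 392) (nat_lit 301)) (XT.lf (nat_lit 76) (nat_lit 1639445665) (nat_lit 0) (nat_lit 3756832387) (nat_lit 76) (nat_lit 3756832387) (nat_lit 164) (nat_lit 3) (nat_lit 163) (nat_lit 1) (nat_lit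 164) (nat_lit 1) (nat_lit 328) (nat_lit 392) (nat_lit 300))) (XT.nd (nat_lit 78) (nat_lit 0) (nat_lit 0) (XT.lf (nat_lit 152) (nat_lit 7704184318) (nat_lit 0) (nat_lit 650502833) (nat_lit 76) (nat_lit 650502833) (nat_lit 163) (nat_lit 1) (nat_lit 161) (nat_lit 1) (nat_lit 162) (nat_lit 1) (nat_lit 329) (nat_lit 392) (nat_lit 299)) (XT.lf (nat_lit 0) (nat_lit 2342667343) (nat_lit 0) (nat_lit 4171745605) (nat_lit 152) (nat_lit 2342667343) (nat_lit 161) (nat_lit 3) (nat_lit 161) (nat_lit 1) (nat_lit 163) (nat_lit 1) (nat_lit 330) (nat_lit 392) (nat_lit 298))))))) (XT.nd (nat_lit 936) (nat_lit 988) (nat_lit 0) (XT.nd (nat_lit 468) (nat_lit 456) (nat_lit 0) (XT.nd (nat_lit 234) (nat_lit 228) (nat_lit 0) (XT.nd (nat_lit 78) (nat_lit 152) (nat_lit 0) (XT.lf (nat_lit 76) (nat_lit 1742953581) (nat_lit 0) (nat_lit 3484932877) (nat_lit 76) (nat_lit 3484932877) (nat_lit 161) (nat_lit 3) (nat_lit 160) (nat_lit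 1) (nat_lit 161) (nat_lit 1) (nat_lit 331) (nat_lit 392) (nat_lit 297)) (XT.nd (nat_lit 78) (nat_lit 0) (nat_lit 0) (XT.lf (nat_lit 152) (nat_lit 7502013870) (nat_lit 0) (nat_lit 535170290) (nat_lit 76) (nat_lit 535170290) (nat_lit 160) (nat_lit 1) (nat_lit 158) (nat_lit 1) (nat_lit 159) (nat_lit 1) (nat_lit 332) (nat_lit 392) (nat_lit 296)) (XT.lf (nat_lit 0) (nat_lit 2308879652) (nat_lit 0) (nat_lit 3813666864) (nat_lit 152) (nat_lit 2308879652) (nat_lit 158) (nat_lit 3) (nat_lit 158) (nat_lit 1) (nat_lit 160) (nat_lit 1) (nat_lit 333) (nat_lit 392) (nat_lit 295)))) (XT.nd (nat_lit 78) (nat_lit 152) (nat_lit 0) (XT.lf (nat_lit 76) (nat_lit 1809339439) (nat_lit 0) (nat_lit 3242470117) (nat_lit 76) (nat_lit 3242470117) (nat_lit 158) (nat_lit 3) (nat_lit 157) (nat_lit 1) (nat_lit 158) (nat_lit 1) (nat_lit 334) (nat_lit 392) (nat_lit 294)) (XT.nd (nat_lit 78) (nat_lit 0) (nat_lit 0) (XT.lf (nat_lit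 152) (nat_lit 7280270486) (nat_lit 0) (nat_lit 440285922) (nat_lit 76) (nat_lit 440285922) (nat_lit 157) (nat_lit 1) (nat_lit 155) (nat_lit 1) (nat_lit 156) (nat_lit 1) (nat_lit 335) (nat_lit 392) (nat_lit 293)) (XT.lf (nat_lit 0) (nat_lit 2262912843) (nat_lit 0) (nat_lit 3500905006) (nat_lit 152) (nat_lit 2262912843) (nat_lit 155) (nat_lit 3) (nat_lit 155) (nat_lit 1) (nat_lit 157) (nat_lit 1) (nat_lit 336) (nat_lit 392) (nat_lit 292))))) (XT.nd (nat_lit 234) (nat_lit 228) (nat_lit 0) (XT.nd (nat_lit 78) (nat_lit 152) (nat_lit 0) (XT.lf (nat_lit 76) (nat_lit 1846078714) (nat_lit 0) (nat_lit 3025118870) (nat_lit 76) (nat_lit 3025118870) (nat_lit 155) (nat_lit 3) (nat_lit 154) (nat_lit 1) (nat_lit 155) (nat_lit 1) (nat_lit 337) (nat_lit 392) (nat_lit 291)) (XT.nd (nat_lit 78) (nat_lit 0) (nat_lit 0) (XT.lf (nat_lit 152) (nat_lit 7045063317) (nat_lit 0) (nat_lit 362224318) (nat_lit 76) (nat_lit 362224318)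 (nat_lit 154) (nat_lit 1) (nat_lit 152) (nat_lit 1) (nat_lit 153) (nat_lit 1) (nat_lit 338) (nat_lit 392) (nat_lit 290)) (XT.lf (nat_lit 0) (nat_lit 2207791462) (nat_lit 0) (nat_lit 3226290679) (nat_lit 152) (nat_lit 2207791462) (nat_lit 152) (nat_lit 3) (nat_lit 152) (nat_lit 1) (nat_lit 154) (nat_lit 1) (nat_lit 339) (nat_lit 392) (nat_lit 289)))) (XT.nd (nat_lit 78) (nat_lit 152) (nat_lit 0) (XT.lf (nat_lit 76) (nat_lit 1859278937) (nat_lit 0) (nat_lit 2829278191) (nat_lit 76) (nat_lit 2829278191) (nat_lit 152) (nat_lit 3) (nat_lit 151) (nat_lit 1) (nat_lit 152) (nat_lit 1) (nat_lit 340) (nat_lit 392) (nat_lit 288)) (XT.nd (nat_lit 78) (nat_lit 0) (nat_lit 0) (XT.lf (nat_lit 152) (nat_lit 6801292713) (nat_lit 0) (nat_lit 298002843) (nat_lit 76) (nat_lit 298002843) (nat_lit 151) (nat_lit 1) (nat_lit 149) (nat_lit 1) (nat_lit 150) (nat_lit 1) (nat_lit 341) (nat_lit 392) (nat_lit 287)) (XT.lf (nat_lit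 0) (nat_lit 2145962610) (nat_lit 0) (nat_lit 2983884436) (nat_lit 152) (nat_lit 2145962610) (nat_lit 149) (nat_lit 3) (nat_lit 149) (nat_lit 1) (nat_lit 151) (nat_lit 1) (nat_lit 342) (nat_lit 392) (nat_lit 286)))))) (XT.nd (nat_lit 468) (nat_lit 532) (nat_lit 0) (XT.nd (nat_lit 234) (nat_lit 228) (nat_lit 0) (XT.nd (nat_lit 78) (nat_lit 152) (nat_lit 0) (XT.lf (nat_lit 76) (nat_lit 1853924249) (nat_lit 0) (nat_lit 2651945036) (nat_lit 76) (nat_lit 2651945036) (nat_lit 149) (nat_lit 3) (nat_lit 148) (nat_lit 1) (nat_lit 149) (nat_lit 1) (nat_lit 343) (nat_lit 392) (nat_lit 285)) (XT.nd (nat_lit 78) (nat_lit 0) (nat_lit 0) (XT.lf (nat_lit 152) (nat_lit 6552870524) (nat_lit 0) (nat_lit 245167676) (nat_lit 76) (nat_lit 245167676) (nat_lit 148) (nat_lit 1) (nat_lit 146) (nat_lit 1) (nat_lit 147) (nat_lit 1) (nat_lit 344) (nat_lit 392) (nat_lit 284)) (XT.lf (nat_lit 0) (nat_lit 2079400283) (nat_lit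 0) (nat_lit 2768760644) (nat_lit 152) (nat_lit 2079400283) (nat_lit 146) (nat_lit 3) (nat_lit 146) (nat_lit 1) (nat_lit 148) (nat_lit 1) (nat_lit 345) (nat_lit 392) (nat_lit 283)))) (XT.nd (nat_lit 78) (nat_lit 152) (nat_lit 0) (XT.lf (nat_lit 76) (nat_lit 1834076512) (nat_lit 0) (nat_lit 2490610189) (nat_lit 76) (nat_lit 2490610189) (nat_lit 146) (nat_lit 3) (nat_lit 145) (nat_lit 1) (nat_lit 146) (nat_lit 1) (nat_lit 346) (nat_lit 392) (nat_lit 282)) (XT.nd (nat_lit 78) (nat_lit 0) (nat_lit 0) (XT.lf (nat_lit 152) (nat_lit 6302901062) (nat_lit 0) (nat_lit 201700054) (nat_lit 76) (nat_lit 201700054) (nat_lit 145) (nat_lit 1) (nat_lit 143) (nat_lit 1) (nat_lit 144) (nat_lit 1) (nat_lit 347) (nat_lit 392) (nat_lit 281)) (XT.lf (nat_lit 0) (nat_lit 2009691125) (nat_lit 0) (nat_lit 2576829599) (nat_lit 152) (nat_lit 2009691125) (nat_lit 143) (nat_lit 3) (nat_lit 143) (nat_lit 1) (nat_lit 145) (nat_lit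 1) (nat_lit 348) (nat_lit 392) (nat_lit 280))))) (XT.nd (nat_lit 234) (nat_lit 304) (nat_lit 0) (XT.nd (nat_lit 78) (nat_lit 152) (nat_lit 0) (XT.lf (nat_lit 76) (nat_lit 1803040661) (nat_lit 0) (nat_lit 2343172541) (nat_lit 76) (nat_lit 2343172541) (nat_lit 143) (nat_lit 3) (nat_lit 142) (nat_lit 1) (nat_lit 143) (nat_lit 1) (nat_lit 349) (nat_lit 392) (nat_lit 279)) (XT.nd (nat_lit 78) (nat_lit 0) (nat_lit 0) (XT.lf (nat_lit 152) (nat_lit 6053829696) (nat_lit 0) (nat_lit 165939133) (nat_lit 76) (nat_lit 165939133) (nat_lit 142) (nat_lit 1) (nat_lit 140) (nat_lit 1) (nat_lit 141) (nat_lit 1) (nat_lit 350) (nat_lit 392) (nat_lit 278)) (XT.lf (nat_lit 0) (nat_lit 1938104876) (nat_lit 0) (nat_lit 2404691103) (nat_lit 152) (nat_lit 1938104876) (nat_lit 140) (nat_lit 3) (nat_lit 140) (nat_lit 1) (nat_lit 142) (nat_lit 1) (nat_lit 351) (nat_lit 392) (nat_lit 277)))) (XT.nd (nat_lit 156) (nat_lit 76)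 (nat_lit 0) (XT.nd (nat_lit 78) (nat_lit 152) (nat_lit 0) (XT.lf (nat_lit 76) (nat_lit 1763500658) (nat_lit 0) (nat_lit 2207868492) (nat_lit 76) (nat_lit 2207868492) (nat_lit 140) (nat_lit 3) (nat_lit 139) (nat_lit 1) (nat_lit 140) (nat_lit 1) (nat_lit 352) (nat_lit 392) (nat_lit 276)) (XT.lf (nat_lit 152) (nat_lit 5807564859) (nat_lit 0) (nat_lit 136518535) (nat_lit 76) (nat_lit 136518535) (nat_lit 139) (nat_lit 1) (nat_lit 137) (nat_lit 1) (nat_lit 138) (nat_lit 1) (nat_lit 353) (nat_lit 392) (nat_lit 275))) (XT.nd (nat_lit 78) (nat_lit 76) (nat_lit 0) (XT.lf (nat_lit 0) (nat_lit 1865652264) (nat_lit 0) (nat_lit 2249513907) (nat_lit 152) (nat_lit 1865652264) (nat_lit 137) (nat_lit 3) (nat_lit 137) (nat_lit 1) (nat_lit 139) (nat_lit 1) (nat_lit 354) (nat_lit 392) (nat_lit 274)) (XT.lf (nat_lit 76) (nat_lit 1717631254) (nat_lit 0) (nat_lit 2083213771) (nat_lit 76) (nat_lit 2083213771) (nat_lit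 137) (nat_lit 3) (nat_lit 136) (nat_lit 1) (nat_lit 137) (nat_lit 1) (nat_lit 355) (nat_lit 392) (nat_lit 273))))))))
noncomputable def ec223 : XT := (XT.nd (nat_lit 1950) (nat_lit 1900) (nat_lit 0) (XT.nd (nat_lit 936) (nat_lit 1064) (nat_lit 0) (XT.nd (nat_lit 468) (nat_lit 456) (nat_lit 0) (XT.nd (nat_lit 234) (nat_lit 228) (nat_lit 0) (XT.nd (nat_lit 78) (nat_lit 76) (nat_lit 0) (XT.lf (nat_lit 152) (nat_lit 5565578158) (nat_lit 0) (nat_lit 112314137) (nat_lit 76) (nat_lit 112314137) (nat_lit 136) (nat_lit 1) (nat_lit 134) (nat_lit 1) (nat_lit 135) (nat_lit 1) (nat_lit 356) (nat_lit 392) (nat_lit 272)) (XT.nd (nat_lit 78) (nat_lit 76) (nat_lit 0) (XT.lf (nat_lit 0) (nat_lit 1793132530) (nat_lit 0) (nat_lit 2108936454) (nat_lit 152) (nat_lit 1793132530) (nat_lit 134) (nat_lit 3) (nat_lit 134) (nat_lit 1) (nat_lit 136) (nat_lit 1) (nat_lit 357) (nat_lit 392) (nat_lit 271)) (XT.lf (nat_lit 76)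 (nat_lit 1667189863) (nat_lit 0) (nat_lit 1967955504) (nat_lit 76) (nat_lit 1967955504) (nat_lit 134) (nat_lit 3) (nat_lit 133) (nat_lit 1) (nat_lit 134) (nat_lit 1) (nat_lit 358) (nat_lit 392) (nat_lit 270)))) (XT.nd (nat_lit 78) (nat_lit 76) (nat_lit 0) (XT.lf (nat_lit 152) (nat_lit 5328986521) (nat_lit 0) (nat_lit 92401118) (nat_lit 76) (nat_lit 92401118) (nat_lit 133) (nat_lit 1) (nat_lit 131) (nat_lit 1) (nat_lit 132) (nat_lit 1) (nat_lit 359) (nat_lit 392) (nat_lit 269)) (XT.nd (nat_lit 78) (nat_lit 76) (nat_lit 0) (XT.lf (nat_lit 0) (nat_lit 1721172470) (nat_lit 0) (nat_lit 1980985140) (nat_lit 152) (nat_lit 1721172470) (nat_lit 131) (nat_lit 3) (nat_lit 131) (nat_lit 1) (nat_lit 133) (nat_lit 1) (nat_lit 360) (nat_lit 392) (nat_lit 268)) (XT.lf (nat_lit 76) (nat_lit 1613592064) (nat_lit 0) (nat_lit 1861032701) (nat_lit 76) (nat_lit 1861032701) (nat_lit 131) (nat_lit 3) (nat_lit 130) (nat_lit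 1) (nat_lit 131) (nat_lit 1) (nat_lit 361) (nat_lit 392) (nat_lit 267))))) (XT.nd (nat_lit 234) (nat_lit 228) (nat_lit 0) (XT.nd (nat_lit 78) (nat_lit 76) (nat_lit 0) (XT.lf (nat_lit 152) (nat_lit 5098619539) (nat_lit 0) (nat_lit 76018629) (nat_lit 76) (nat_lit 76018629) (nat_lit 130) (nat_lit 1) (nat_lit 128) (nat_lit 1) (nat_lit 129) (nat_lit 1) (nat_lit 362) (nat_lit 392) (nat_lit 266)) (XT.nd (nat_lit 78) (nat_lit 76) (nat_lit 0) (XT.lf (nat_lit 0) (nat_lit 1650258471) (nat_lit 0) (nat_lit 1864006997) (nat_lit 152) (nat_lit 1650258471) (nat_lit 128) (nat_lit 3) (nat_lit 128) (nat_lit 1) (nat_lit 130) (nat_lit 1) (nat_lit 363) (nat_lit 392) (nat_lit 265)) (XT.lf (nat_lit 76) (nat_lit 1557973648) (nat_lit 0) (nat_lit 1761543673) (nat_lit 76) (nat_lit 1761543673) (nat_lit 128) (nat_lit 3) (nat_lit 127) (nat_lit 1) (nat_lit 128) (nat_lit 1) (nat_lit 364) (nat_lit 392) (nat_lit 264)))) (XT.nd (nat_lit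 78) (nat_lit 76) (nat_lit 0) (XT.lf (nat_lit 152) (nat_lit 4875074665) (nat_lit 0) (nat_lit 62540714) (nat_lit 76) (nat_lit 62540714) (nat_lit 127) (nat_lit 1) (nat_lit 125) (nat_lit 1) (nat_lit 126) (nat_lit 1) (nat_lit 365) (nat_lit 392) (nat_lit 263)) (XT.nd (nat_lit 78) (nat_lit 76) (nat_lit 0) (XT.lf (nat_lit 0) (nat_lit 1580762794) (nat_lit 0) (nat_lit 1756614236) (nat_lit 152) (nat_lit 1580762794) (nat_lit 125) (nat_lit 3) (nat_lit 125) (nat_lit 1) (nat_lit 127) (nat_lit 1) (nat_lit 366) (nat_lit 392) (nat_lit 262)) (XT.lf (nat_lit 76) (nat_lit 1501241599) (nat_lit 0) (nat_lit 1668719163) (nat_lit 76) (nat_lit 1668719163) (nat_lit 125) (nat_lit 3) (nat_lit 124) (nat_lit 1) (nat_lit 125) (nat_lit 1) (nat_lit 367) (nat_lit 392) (nat_lit 261)))))) (XT.nd (nat_lit 468) (nat_lit 608) (nat_lit 0) (XT.nd (nat_lit 234) (nat_lit 228) (nat_lit 0) (XT.nd (nat_lit 78) (nat_lit 76) (nat_lit 0) (XT.lf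 (nat_lit 152) (nat_lit 4658762422) (nat_lit 0) (nat_lit 51452400) (nat_lit 76) (nat_lit 51452400) (nat_lit 124) (nat_lit 1) (nat_lit 122) (nat_lit 1) (nat_lit 123) (nat_lit 1) (nat_lit 368) (nat_lit 392) (nat_lit 260)) (XT.nd (nat_lit 78) (nat_lit 76) (nat_lit 0) (XT.lf (nat_lit 0) (nat_lit 1512965145) (nat_lit 0) (nat_lit 1657638561) (nat_lit 152) (nat_lit 1512965145) (nat_lit 122) (nat_lit 3) (nat_lit 122) (nat_lit 1) (nat_lit 124) (nat_lit 1) (nat_lit 369) (nat_lit 392) (nat_lit 259)) (XT.lf (nat_lit 76) (nat_lit 1444115963) (nat_lit 0) (nat_lit 1581900169) (nat_lit 76) (nat_lit 1581900169) (nat_lit 122) (nat_lit 3) (nat_lit 121) (nat_lit 1) (nat_lit 122) (nat_lit 1) (nat_lit 370) (nat_lit 392) (nat_lit 258)))) (XT.nd (nat_lit 78) (nat_lit 76) (nat_lit 0) (XT.lf (nat_lit 152) (nat_lit 4449943403) (nat_lit 0) (nat_lit 42330017) (nat_lit 76) (nat_lit 42330017) (nat_lit 121) (nat_lit 1) (nat_lit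 119) (nat_lit 1) (nat_lit 120) (nat_lit 1) (nat_lit 371) (nat_lit 392) (nat_lit 257)) (XT.nd (nat_lit 78) (nat_lit 76) (nat_lit 0) (XT.lf (nat_lit 0) (nat_lit 1447070342) (nat_lit 0) (nat_lit 1566093520) (nat_lit 152) (nat_lit 1447070342) (nat_lit 119) (nat_lit 3) (nat_lit 119) (nat_lit 1) (nat_lit 121) (nat_lit 1) (nat_lit 372) (nat_lit 392) (nat_lit 256)) (XT.lf (nat_lit 76) (nat_lit 1387164238) (nat_lit 0) (nat_lit 1500519645) (nat_lit 76) (nat_lit 1500519645) (nat_lit 119) (nat_lit 3) (nat_lit 118) (nat_lit 1) (nat_lit 119) (nat_lit 1) (nat_lit 373) (nat_lit 392) (nat_lit 255))))) (XT.nd (nat_lit 234) (nat_lit 380) (nat_lit 0) (XT.nd (nat_lit 78) (nat_lit 76) (nat_lit 0) (XT.lf (nat_lit 152) (nat_lit 4248758526) (nat_lit 0) (nat_lit 34825009) (nat_lit 76) (nat_lit 34825009) (nat_lit 118) (nat_lit 1) (nat_lit 116) (nat_lit 1) (nat_lit 117) (nat_lit 1) (nat_lit 374) (nat_lit 392) (nat_lit 254))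 (XT.nd (nat_lit 78) (nat_lit 76) (nat_lit 0) (XT.lf (nat_lit 0) (nat_lit 1383222803) (nat_lit 0) (nat_lit 1481143465) (nat_lit 152) (nat_lit 1383222803) (nat_lit 116) (nat_lit 3) (nat_lit 116) (nat_lit 1) (nat_lit 118) (nat_lit 1) (nat_lit 375) (nat_lit 392) (nat_lit 253)) (XT.lf (nat_lit 76) (nat_lit 1330829605) (nat_lit 0) (nat_lit 1424087379) (nat_lit 76) (nat_lit 1424087379) (nat_lit 116) (nat_lit 3) (nat_lit 115) (nat_lit 1) (nat_lit 116) (nat_lit 1) (nat_lit 376) (nat_lit 392) (nat_lit 252)))) (XT.nd (nat_lit 156) (nat_lit 228) (nat_lit 0) (XT.nd (nat_lit 78) (nat_lit 0) (nat_lit 0) (XT.lf (nat_lit 152) (nat_lit 4055253750) (nat_lit 0) (nat_lit 28650621) (nat_lit 76) (nat_lit 28650621) (nat_lit 115) (nat_lit 1) (nat_lit 113) (nat_lit 1) (nat_lit 114) (nat_lit 1) (nat_lit 377) (nat_lit 392) (nat_lit 251)) (XT.lf (nat_lit 0) (nat_lit 1321518395) (nat_lit 0) (nat_lit 1402077967) (nat_lit 152)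 (nat_lit 1321518395) (nat_lit 113) (nat_lit 3) (nat_lit 113) (nat_lit 1) (nat_lit 115) (nat_lit 1) (nat_lit 378) (nat_lit 392) (nat_lit 250))) (XT.nd (nat_lit 78) (nat_lit 152) (nat_lit 0) (XT.lf (nat_lit 76) (nat_lit 1275454098) (nat_lit 0) (nat_lit 1352177500) (nat_lit 76) (nat_lit 1352177500) (nat_lit 113) (nat_lit 3) (nat_lit 112) (nat_lit 1) (nat_lit 113) (nat_lit 1) (nat_lit 379) (nat_lit 392) (nat_lit 249)) (XT.lf (nat_lit 152) (nat_lit 3869400244) (nat_lit 0) (nat_lit 23570937) (nat_lit 76) (nat_lit 23570937) (nat_lit 112) (nat_lit 1) (nat_lit 110) (nat_lit 1) (nat_lit 111) (nat_lit 1) (nat_lit 380) (nat_lit 392) (nat_lit 248))))))) (XT.nd (nat_lit 1014) (nat_lit 988) (nat_lit 0) (XT.nd (nat_lit 468) (nat_lit 456) (nat_lit 0) (XT.nd (nat_lit 234) (nat_lit 228) (nat_lit 0) (XT.nd (nat_lit 78) (nat_lit 228) (nat_lit 0) (XT.lf (nat_lit 0) (nat_lit 1262014142) (nat_lit 0) (nat_lit 1328290701)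 (nat_lit 152) (nat_lit 1262014142) (nat_lit 110) (nat_lit 3) (nat_lit 110) (nat_lit 1) (nat_lit 112) (nat_lit 1) (nat_lit 381) (nat_lit 392) (nat_lit 247)) (XT.nd (nat_lit 78) (nat_lit 152) (nat_lit 0) (XT.lf (nat_lit 76) (nat_lit 1221297613) (nat_lit 0) (nat_lit 1284418146) (nat_lit 76) (nat_lit 1284418146) (nat_lit 110) (nat_lit 3) (nat_lit 109) (nat_lit 1) (nat_lit 110) (nat_lit 1) (nat_lit 382) (nat_lit 392) (nat_lit 246)) (XT.lf (nat_lit 152) (nat_lit 3691110822) (nat_lit 0) (nat_lit 19391868) (nat_lit 76) (nat_lit 19391868) (nat_lit 109) (nat_lit 1) (nat_lit 107) (nat_lit 1) (nat_lit 108) (nat_lit 1) (nat_lit 383) (nat_lit 392) (nat_lit 245)))) (XT.nd (nat_lit 78) (nat_lit 228) (nat_lit 0) (XT.lf (nat_lit 0) (nat_lit 1204736146) (nat_lit 0) (nat_lit 1259262035) (nat_lit 152) (nat_lit 1204736146) (nat_lit 107) (nat_lit 3) (nat_lit 107) (nat_lit 1) (nat_lit 109) (nat_lit 1) (nat_lit 384) (nat_lit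 392) (nat_lit 244)) (XT.nd (nat_lit 78) (nat_lit 152) (nat_lit 0) (XT.lf (nat_lit 76) (nat_lit 1168553493) (nat_lit 0) (nat_lit 1220482911) (nat_lit 76) (nat_lit 1220482911) (nat_lit 107) (nat_lit 3) (nat_lit 106) (nat_lit 1) (nat_lit 107) (nat_lit 1) (nat_lit 385) (nat_lit 392) (nat_lit 243)) (XT.lf (nat_lit 152) (nat_lit 3520253308) (nat_lit 0) (nat_lit 15953738) (nat_lit 76) (nat_lit 15953738) (nat_lit 106) (nat_lit 1) (nat_lit 104) (nat_lit 1) (nat_lit 105) (nat_lit 1) (nat_lit 386) (nat_lit 392) (nat_lit 242))))) (XT.nd (nat_lit 234) (nat_lit 228) (nat_lit 0) (XT.nd (nat_lit 78) (nat_lit 228) (nat_lit 0) (XT.lf (nat_lit 0) (nat_lit 1149686065) (nat_lit 0) (nat_lit 1194544649) (nat_lit 152) (nat_lit 1149686065) (nat_lit 104) (nat_lit 3) (nat_lit 104) (nat_lit 1) (nat_lit 106) (nat_lit 1) (nat_lit 387) (nat_lit 392) (nat_lit 241)) (XT.nd (nat_lit 78) (nat_lit 152) (nat_lit 0) (XT.lf (nat_lit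 76) (nat_lit 1117361302) (nat_lit 0) (nat_lit 1160083763) (nat_lit 76) (nat_lit 1160083763) (nat_lit 104) (nat_lit 3) (nat_lit 103) (nat_lit 1) (nat_lit 104) (nat_lit 1) (nat_lit 388) (nat_lit 392) (nat_lit 240)) (XT.lf (nat_lit 152) (nat_lit 3356661394) (nat_lit 0) (nat_lit 13125179) (nat_lit 76) (nat_lit 13125179) (nat_lit 103) (nat_lit 1) (nat_lit 101) (nat_lit 1) (nat_lit 102) (nat_lit 1) (nat_lit 389) (nat_lit 392) (nat_lit 239)))) (XT.nd (nat_lit 156) (nat_lit 152) (nat_lit 0) (XT.nd (nat_lit 78) (nat_lit 76) (nat_lit 0) (XT.lf (nat_lit 0) (nat_lit 1096846386) (nat_lit 0) (nat_lit 1133751654) (nat_lit 152) (nat_lit 1096846386) (nat_lit 101) (nat_lit 3) (nat_lit 101) (nat_lit 1) (nat_lit 103) (nat_lit 1) (nat_lit 390) (nat_lit 392) (nat_lit 238)) (XT.lf (nat_lit 76) (nat_lit 1067817291) (nat_lit 0) (nat_lit 1102965165) (nat_lit 76) (nat_lit 1102965165) (nat_lit 101) (nat_lit 3) (nat_lit 100)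 (nat_lit 1) (nat_lit 101) (nat_lit 1) (nat_lit 391) (nat_lit 392) (nat_lit 237))) (XT.nd (nat_lit 78) (nat_lit 0) (nat_lit 0) (XT.lf (nat_lit 152) (nat_lit 3200143431) (nat_lit 0) (nat_lit 10798118) (nat_lit 76) (nat_lit 10798118) (nat_lit 100) (nat_lit 1) (nat_lit 98) (nat_lit 1) (nat_lit 99) (nat_lit 1) (nat_lit 392) (nat_lit 392) (nat_lit 236)) (XT.lf (nat_lit 0) (nat_lit 1046184726) (nat_lit 0) (nat_lit 1076546782) (nat_lit 152) (nat_lit 1046184726) (nat_lit 98) (nat_lit 3) (nat_lit 98) (nat_lit 1) (nat_lit 100) (nat_lit 1) (nat_lit 393) (nat_lit 392) (nat_lit 235)))))) (XT.nd (nat_lit 468) (nat_lit 532) (nat_lit 0) (XT.nd (nat_lit 234) (nat_lit 228) (nat_lit 0) (XT.nd (nat_lit 78) (nat_lit 152) (nat_lit 0) (XT.lf (nat_lit 76) (nat_lit 1019982959) (nat_lit 0) (nat_lit 1048899202) (nat_lit 76) (nat_lit 1048899202) (nat_lit 98) (nat_lit 3) (nat_lit 97) (nat_lit 1) (nat_lit 98) (nat_lit 1) (nat_lit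 394) (nat_lit 392) (nat_lit 234)) (XT.nd (nat_lit 78) (nat_lit 0) (nat_lit 0) (XT.lf (nat_lit 152) (nat_lit 3050489536) (nat_lit 0) (nat_lit 8883638) (nat_lit 76) (nat_lit 8883638) (nat_lit 97) (nat_lit 1) (nat_lit 95) (nat_lit 1) (nat_lit 96) (nat_lit 1) (nat_lit 395) (nat_lit 392) (nat_lit 233)) (XT.lf (nat_lit 0) (nat_lit 997657326) (nat_lit 0) (nat_lit 1022636264) (nat_lit 152) (nat_lit 997657326) (nat_lit 95) (nat_lit 3) (nat_lit 95) (nat_lit 1) (nat_lit 97) (nat_lit 1) (nat_lit 396) (nat_lit 392) (nat_lit 232)))) (XT.nd (nat_lit 78) (nat_lit 152) (nat_lit 0) (XT.lf (nat_lit 76) (nat_lit 973892058) (nat_lit 0) (nat_lit 997681522) (nat_lit 76) (nat_lit 997681522) (nat_lit 95) (nat_lit 3) (nat_lit 94) (nat_lit 1) (nat_lit 95) (nat_lit 1) (nat_lit 397) (nat_lit 392) (nat_lit 231)) (XT.nd (nat_lit 78) (nat_lit 0) (nat_lit 0) (XT.lf (nat_lit 152) (nat_lit 2907477305) (nat_lit 0) (nat_lit 7308591)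 (nat_lit 76) (nat_lit 7308591) (nat_lit 94) (nat_lit 1) (nat_lit 92) (nat_lit 1) (nat_lit 93) (nat_lit 1) (nat_lit 398) (nat_lit 392) (nat_lit 230)) (XT.lf (nat_lit 0) (nat_lit 951211877) (nat_lit 0) (nat_lit 971762111) (nat_lit 152) (nat_lit 951211877) (nat_lit 92) (nat_lit 3) (nat_lit 92) (nat_lit 1) (nat_lit 94) (nat_lit 1) (nat_lit 399) (nat_lit 392) (nat_lit 229))))) (XT.nd (nat_lit 234) (nat_lit 304) (nat_lit 0) (XT.nd (nat_lit 78) (nat_lit 152) (nat_lit 0) (XT.lf (nat_lit 76) (nat_lit 929556314) (nat_lit 0) (nat_lit 949127965) (nat_lit 76) (nat_lit 949127965) (nat_lit 92) (nat_lit 3) (nat_lit 91) (nat_lit 1) (nat_lit 92) (nat_lit 1) (nat_lit 400) (nat_lit 392) (nat_lit 228)) (XT.nd (nat_lit 78) (nat_lit 0) (nat_lit 0) (XT.lf (nat_lit 152) (nat_lit 2770876407) (nat_lit 0) (nat_lit 6012796) (nat_lit 76) (nat_lit 6012796) (nat_lit 91) (nat_lit 1) (nat_lit 89) (nat_lit 1) (nat_lit 90) (nat_lit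 1) (nat_lit 401) (nat_lit 392) (nat_lit 227)) (XT.lf (nat_lit 0) (nat_lit 906789818) (nat_lit 0) (nat_lit 923696547) (nat_lit 152) (nat_lit 906789818) (nat_lit 89) (nat_lit 3) (nat_lit 89) (nat_lit 1) (nat_lit 91) (nat_lit 1) (nat_lit 402) (nat_lit 392) (nat_lit 226)))) (XT.nd (nat_lit 156) (nat_lit 76) (nat_lit 0) (XT.nd (nat_lit 78) (nat_lit 152) (nat_lit 0) (XT.lf (nat_lit 76) (nat_lit 886970097) (nat_lit 0) (nat_lit 903071743) (nat_lit 76) (nat_lit 903071743) (nat_lit 89) (nat_lit 3) (nat_lit 88) (nat_lit 1) (nat_lit 89) (nat_lit 1) (nat_lit 403) (nat_lit 392) (nat_lit 225)) (XT.lf (nat_lit 152) (nat_lit 2640452242) (nat_lit 0) (nat_lit 4946742) (nat_lit 76) (nat_lit 4946742) (nat_lit 88) (nat_lit 1) (nat_lit 86) (nat_lit 1) (nat_lit 87) (nat_lit 1) (nat_lit 404) (nat_lit 392) (nat_lit 224))) (XT.nd (nat_lit 78) (nat_lit 76) (nat_lit 0) (XT.lf (nat_lit 0) (nat_lit 864328183) (nat_lit 0) (nat_lit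 878237391) (nat_lit 152) (nat_lit 864328183) (nat_lit 86) (nat_lit 3) (nat_lit 86) (nat_lit 1) (nat_lit 88) (nat_lit 1) (nat_lit 405) (nat_lit 392) (nat_lit 223)) (XT.lf (nat_lit 76) (nat_lit 846114224) (nat_lit 0) (nat_lit 859361088) (nat_lit 76) (nat_lit 859361088) (nat_lit 86) (nat_lit 3) (nat_lit 85) (nat_lit 1) (nat_lit 86) (nat_lit 1) (nat_lit 406) (nat_lit 392) (nat_lit 222))))))))
noncomputable def ec224 : XT := (XT.nd (nat_lit 1950) (nat_lit 1140) (nat_lit 0) (XT.nd (nat_lit 936) (nat_lit 1064) (nat_lit 0) (XT.nd (nat_lit 468) (nat_lit 456) (nat_lit 0) (XT.nd (nat_lit 234) (nat_lit 228) (nat_lit 0) (XT.nd (nat_lit 78) (nat_lit 76) (nat_lit 0) (XT.lf (nat_lit 152) (nat_lit 2515968846) (nat_lit 0) (nat_lit 4069697) (nat_lit 76) (nat_lit 4069697) (nat_lit 85) (nat_lit 1) (nat_lit 83) (nat_lit 1) (nat_lit 84) (nat_lit 1) (nat_lit 407) (nat_lit 392) (nat_lit 221)) (XT.nd (nat_lit 78) (nat_lit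 76) (nat_lit 0) (XT.lf (nat_lit 0) (nat_lit 823761083) (nat_lit 0) (nat_lit 835204223) (nat_lit 152) (nat_lit 823761083) (nat_lit 83) (nat_lit 3) (nat_lit 83) (nat_lit 1) (nat_lit 85) (nat_lit 1) (nat_lit 408) (nat_lit 392) (nat_lit 220)) (XT.lf (nat_lit 76) (nat_lit 806959057) (nat_lit 0) (nat_lit 817857285) (nat_lit 76) (nat_lit 817857285) (nat_lit 83) (nat_lit 3) (nat_lit 82) (nat_lit 1) (nat_lit 83) (nat_lit 1) (nat_lit 409) (nat_lit 392) (nat_lit 219)))) (XT.nd (nat_lit 78) (nat_lit 76) (nat_lit 0) (XT.lf (nat_lit 152) (nat_lit 2397191179) (nat_lit 0) (nat_lit 3348149) (nat_lit 76) (nat_lit 3348149) (nat_lit 82) (nat_lit 1) (nat_lit 80) (nat_lit 1) (nat_lit 81) (nat_lit 1) (nat_lit 410) (nat_lit 392) (nat_lit 218)) (XT.nd (nat_lit 78) (nat_lit 76) (nat_lit 0) (XT.lf (nat_lit 0) (nat_lit 785020899) (nat_lit 0) (nat_lit 794435198) (nat_lit 152) (nat_lit 785020899) (nat_lit 80) (nat_lit 3) (nat_lit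 80) (nat_lit 1) (nat_lit 82) (nat_lit 1) (nat_lit 411) (nat_lit 392) (nat_lit 217)) (XT.lf (nat_lit 76) (nat_lit 769467014) (nat_lit 0) (nat_lit 778433013) (nat_lit 76) (nat_lit 778433013) (nat_lit 80) (nat_lit 3) (nat_lit 79) (nat_lit 1) (nat_lit 80) (nat_lit 1) (nat_lit 412) (nat_lit 392) (nat_lit 216))))) (XT.nd (nat_lit 234) (nat_lit 228) (nat_lit 0) (XT.nd (nat_lit 78) (nat_lit 76) (nat_lit 0) (XT.lf (nat_lit 152) (nat_lit 2283886908) (nat_lit 0) (nat_lit 2754531) (nat_lit 76) (nat_lit 2754531) (nat_lit 79) (nat_lit 1) (nat_lit 77) (nat_lit 1) (nat_lit 78) (nat_lit 1) (nat_lit 413) (nat_lit 392) (nat_lit 215)) (XT.nd (nat_lit 78) (nat_lit 76) (nat_lit 0) (XT.lf (nat_lit 0) (nat_lit 748039224) (nat_lit 0) (nat_lit 755784392) (nat_lit 152) (nat_lit 748039224) (nat_lit 77) (nat_lit 3) (nat_lit 77) (nat_lit 1) (nat_lit 79) (nat_lit 1) (nat_lit 414) (nat_lit 392) (nat_lit 214)) (XT.lf (nat_lit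 76) (nat_lit 733594608) (nat_lit 0) (nat_lit 740970958) (nat_lit 76) (nat_lit 740970958) (nat_lit 77) (nat_lit 3) (nat_lit 76) (nat_lit 1) (nat_lit 77) (nat_lit 1) (nat_lit 415) (nat_lit 392) (nat_lit 213)))) (XT.nd (nat_lit 78) (nat_lit 76) (nat_lit 0) (XT.lf (nat_lit 152) (nat_lit 2175827786) (nat_lit 0) (nat_lit 2266159) (nat_lit 76) (nat_lit 2266159) (nat_lit 76) (nat_lit 1) (nat_lit 74) (nat_lit 1) (nat_lit 75) (nat_lit 1) (nat_lit 416) (nat_lit 392) (nat_lit 212)) (XT.nd (nat_lit 78) (nat_lit 76) (nat_lit 0) (XT.lf (nat_lit 0) (nat_lit 712747614) (nat_lit 0) (nat_lit 719119582) (nat_lit 152) (nat_lit 712747614) (nat_lit 74) (nat_lit 3) (nat_lit 74) (nat_lit 1) (nat_lit 76) (nat_lit 1) (nat_lit 417) (nat_lit 392) (nat_lit 211)) (XT.lf (nat_lit 76) (nat_lit 699294091) (nat_lit 0) (nat_lit 705362632) (nat_lit 76) (nat_lit 705362632) (nat_lit 74) (nat_lit 3) (nat_lit 73) (nat_lit 1) (nat_lit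 74) (nat_lit 1) (nat_lit 418) (nat_lit 392) (nat_lit 210)))))) (XT.nd (nat_lit 468) (nat_lit 608) (nat_lit 0) (XT.nd (nat_lit 234) (nat_lit 228) (nat_lit 0) (XT.nd (nat_lit 78) (nat_lit 76) (nat_lit 0) (XT.lf (nat_lit 152) (nat_lit 2072790689) (nat_lit 0) (nat_lit 1864375) (nat_lit 76) (nat_lit 1864375) (nat_lit 73) (nat_lit 1) (nat_lit 71) (nat_lit 1) (nat_lit 72) (nat_lit 1) (nat_lit 419) (nat_lit 392) (nat_lit 209)) (XT.nd (nat_lit 78) (nat_lit 76) (nat_lit 0) (XT.lf (nat_lit 0) (nat_lit 679078172) (nat_lit 0) (nat_lit 684320406) (nat_lit 152) (nat_lit 679078172) (nat_lit 71) (nat_lit 3) (nat_lit 71) (nat_lit 1) (nat_lit 73) (nat_lit 1) (nat_lit 420) (nat_lit 392) (nat_lit 208)) (XT.lf (nat_lit 76) (nat_lit 666514781) (nat_lit 0) (nat_lit 671507385) (nat_lit 76) (nat_lit 671507385) (nat_lit 71) (nat_lit 3) (nat_lit 70) (nat_lit 1) (nat_lit 71) (nat_lit 1) (nat_lit 421) (nat_lit 392) (nat_lit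 207)))) (XT.nd (nat_lit 78) (nat_lit 76) (nat_lit 0) (XT.lf (nat_lit 152) (nat_lit 1974558397) (nat_lit 0) (nat_lit 1533826) (nat_lit 76) (nat_lit 1533826) (nat_lit 70) (nat_lit 1) (nat_lit 68) (nat_lit 1) (nat_lit 69) (nat_lit 1) (nat_lit 422) (nat_lit 392) (nat_lit 206)) (XT.nd (nat_lit 78) (nat_lit 76) (nat_lit 0) (XT.lf (nat_lit 0) (nat_lit 646964003) (nat_lit 0) (nat_lit 651276802) (nat_lit 152) (nat_lit 646964003) (nat_lit 68) (nat_lit 3) (nat_lit 68) (nat_lit 1) (nat_lit 70) (nat_lit 1) (nat_lit 423) (nat_lit 392) (nat_lit 205)) (XT.lf (nat_lit 76) (nat_lit 635204123) (nat_lit 0) (nat_lit 639311551) (nat_lit 76) (nat_lit 639311551) (nat_lit 68) (nat_lit 3) (nat_lit 67) (nat_lit 1) (nat_lit 68) (nat_lit 1) (nat_lit 424) (nat_lit 392) (nat_lit 204))))) (XT.nd (nat_lit 234) (nat_lit 380) (nat_lit 0) (XT.nd (nat_lit 78) (nat_lit 76) (nat_lit 0) (XT.lf (nat_lit 152) (nat_lit 1880920143) (nat_lit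 0) (nat_lit 1261882) (nat_lit 76) (nat_lit 1261882) (nat_lit 67) (nat_lit 1) (nat_lit 65) (nat_lit 1) (nat_lit 66) (nat_lit 1) (nat_lit 425) (nat_lit 392) (nat_lit 203)) (XT.nd (nat_lit 78) (nat_lit 76) (nat_lit 0) (XT.lf (nat_lit 0) (nat_lit 616339563) (nat_lit 0) (nat_lit 619887713) (nat_lit 152) (nat_lit 616339563) (nat_lit 65) (nat_lit 3) (nat_lit 65) (nat_lit 1) (nat_lit 67) (nat_lit 1) (nat_lit 426) (nat_lit 392) (nat_lit 202)) (XT.lf (nat_lit 76) (nat_lit 605308541) (nat_lit 0) (nat_lit 608687732) (nat_lit 76) (nat_lit 608687732) (nat_lit 65) (nat_lit 3) (nat_lit 64) (nat_lit 1) (nat_lit 65) (nat_lit 1) (nat_lit 427) (nat_lit 392) (nat_lit 201)))) (XT.nd (nat_lit 156) (nat_lit 228) (nat_lit 0) (XT.nd (nat_lit 78) (nat_lit 0) (nat_lit 0) (XT.lf (nat_lit 152) (nat_lit 1791672003) (nat_lit 0) (nat_lit 1038153) (nat_lit 76) (nat_lit 1038153) (nat_lit 64) (nat_lit 1) (nat_lit 62) (nat_lit 1)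 (nat_lit 63) (nat_lit 1) (nat_lit 428) (nat_lit 392) (nat_lit 200)) (XT.lf (nat_lit 0) (nat_lit 587140919) (nat_lit 0) (nat_lit 590059991) (nat_lit 152) (nat_lit 587140919) (nat_lit 62) (nat_lit 3) (nat_lit 62) (nat_lit 1) (nat_lit 64) (nat_lit 1) (nat_lit 429) (nat_lit 392) (nat_lit 199))) (XT.nd (nat_lit 78) (nat_lit 152) (nat_lit 0) (XT.lf (nat_lit 76) (nat_lit 576774107) (nat_lit 0) (nat_lit 579554176) (nat_lit 76) (nat_lit 579554176) (nat_lit 62) (nat_lit 3) (nat_lit 61) (nat_lit 1) (nat_lit 62) (nat_lit 1) (nat_lit 430) (nat_lit 392) (nat_lit 198)) (XT.lf (nat_lit 152) (nat_lit 1706617130) (nat_lit 0) (nat_lit 854091) (nat_lit 76) (nat_lit 854091) (nat_lit 61) (nat_lit 1) (nat_lit 59) (nat_lit 1) (nat_lit 60) (nat_lit 1) (nat_lit 431) (nat_lit 392) (nat_lit 197))))))) (XT.nd (nat_lit 936) (nat_lit 228) (nat_lit 0) (XT.nd (nat_lit 468) (nat_lit 456) (nat_lit 0) (XT.nd (nat_lit 234) (nat_lit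 228) (nat_lit 0) (XT.nd (nat_lit 78) (nat_lit 228) (nat_lit 0) (XT.lf (nat_lit 0) (nat_lit 559305939) (nat_lit 0) (nat_lit 561707467) (nat_lit 152) (nat_lit 559305939) (nat_lit 59) (nat_lit 3) (nat_lit 59) (nat_lit 1) (nat_lit 61) (nat_lit 1) (nat_lit 432) (nat_lit 392) (nat_lit 196)) (XT.nd (nat_lit 78) (nat_lit 152) (nat_lit 0) (XT.lf (nat_lit 76) (nat_lit 549547079) (nat_lit 0) (nat_lit 551834248) (nat_lit 76) (nat_lit 551834248) (nat_lit 59) (nat_lit 3) (nat_lit 58) (nat_lit 1) (nat_lit 59) (nat_lit 1) (nat_lit 433) (nat_lit 392) (nat_lit 195)) (XT.lf (nat_lit 152) (nat_lit 1625565888) (nat_lit 0) (nat_lit 702663) (nat_lit 76) (nat_lit 702663) (nat_lit 58) (nat_lit 1) (nat_lit 56) (nat_lit 1) (nat_lit 57) (nat_lit 1) (nat_lit 434) (nat_lit 392) (nat_lit 194)))) (XT.nd (nat_lit 78) (nat_lit 228) (nat_lit 0) (XT.lf (nat_lit 0) (nat_lit 532774430) (nat_lit 0) (nat_lit 534750173) (nat_lit 152)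 (nat_lit 532774430) (nat_lit 56) (nat_lit 3) (nat_lit 56) (nat_lit 1) (nat_lit 58) (nat_lit 1) (nat_lit 435) (nat_lit 392) (nat_lit 193)) (XT.nd (nat_lit 78) (nat_lit 152) (nat_lit 0) (XT.lf (nat_lit 76) (nat_lit 523574307) (nat_lit 0) (nat_lit 525455967) (nat_lit 76) (nat_lit 525455967) (nat_lit 56) (nat_lit 3) (nat_lit 55) (nat_lit 1) (nat_lit 56) (nat_lit 1) (nat_lit 436) (nat_lit 392) (nat_lit 192)) (XT.lf (nat_lit 152) (nat_lit 1548335890) (nat_lit 0) (nat_lit 578082) (nat_lit 76) (nat_lit 578082) (nat_lit 55) (nat_lit 1) (nat_lit 53) (nat_lit 1) (nat_lit 54) (nat_lit 1) (nat_lit 437) (nat_lit 392) (nat_lit 191))))) (XT.nd (nat_lit 234) (nat_lit 228) (nat_lit 0) (XT.nd (nat_lit 78) (nat_lit 228) (nat_lit 0) (XT.lf (nat_lit 0) (nat_lit 507488223) (nat_lit 0) (nat_lit 509113671) (nat_lit 152) (nat_lit 507488223) (nat_lit 53) (nat_lit 3) (nat_lit 53) (nat_lit 1) (nat_lit 55) (nat_lit 1) (nat_lit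 438) (nat_lit 392) (nat_lit 190)) (XT.nd (nat_lit 78) (nat_lit 152) (nat_lit 0) (XT.lf (nat_lit 76) (nat_lit 498803559) (nat_lit 0) (nat_lit 500351605) (nat_lit 76) (nat_lit 500351605) (nat_lit 53) (nat_lit 3) (nat_lit 52) (nat_lit 1) (nat_lit 53) (nat_lit 1) (nat_lit 439) (nat_lit 392) (nat_lit 189)) (XT.lf (nat_lit 152) (nat_lit 1474751970) (nat_lit 0) (nat_lit 475590) (nat_lit 76) (nat_lit 475590) (nat_lit 52) (nat_lit 1) (nat_lit 50) (nat_lit 1) (nat_lit 51) (nat_lit 1) (nat_lit 440) (nat_lit 392) (nat_lit 188)))) (XT.nd (nat_lit 78) (nat_lit 228) (nat_lit 0) (XT.lf (nat_lit 0) (nat_lit 483391227) (nat_lit 0) (nat_lit 484728487) (nat_lit 152) (nat_lit 483391227) (nat_lit 50) (nat_lit 3) (nat_lit 50) (nat_lit 1) (nat_lit 52) (nat_lit 1) (nat_lit 441) (nat_lit 392) (nat_lit 187)) (XT.nd (nat_lit 78) (nat_lit 152) (nat_lit 0) (XT.lf (nat_lit 76) (nat_lit 475183761) (nat_lit 0) (nat_lit 476457343)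 (nat_lit 76) (nat_lit 476457343) (nat_lit 50) (nat_lit 3) (nat_lit 49) (nat_lit 1) (nat_lit 50) (nat_lit 1) (nat_lit 442) (nat_lit 392) (nat_lit 186)) (XT.lf (nat_lit 152) (nat_lit 1404646096) (nat_lit 0) (nat_lit 391269) (nat_lit 76) (nat_lit 391269) (nat_lit 49) (nat_lit 1) (nat_lit 47) (nat_lit 1) (nat_lit 48) (nat_lit 1) (nat_lit 443) (nat_lit 392) (nat_lit 185)))))) (XT.nd (nat_lit 36972) (nat_lit 0) (nat_lit 18924) (XT.nd (nat_lit 36738) (nat_lit 0) (nat_lit 18848) (XT.nd (nat_lit 78) (nat_lit 228) (nat_lit 0) (XT.lf (nat_lit 0) (nat_lit 460429454) (nat_lit 0) (nat_lit 461529621) (nat_lit 152) (nat_lit 460429454) (nat_lit 47) (nat_lit 3) (nat_lit 47) (nat_lit 1) (nat_lit 49) (nat_lit 1) (nat_lit 444) (nat_lit 392) (nat_lit 184)) (XT.nd (nat_lit 78) (nat_lit 152) (nat_lit 0) (XT.lf (nat_lit 76) (nat_lit 452665179) (nat_lit 0) (nat_lit 453712958) (nat_lit 76) (nat_lit 453712958) (nat_lit 47)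 (nat_lit 3) (nat_lit 46) (nat_lit 1) (nat_lit 47) (nat_lit 1) (nat_lit 445) (nat_lit 392) (nat_lit 183)) (XT.lf (nat_lit 152) (nat_lit 1337857249) (nat_lit 0) (nat_lit 321898) (nat_lit 76) (nat_lit 321898) (nat_lit 46) (nat_lit 1) (nat_lit 44) (nat_lit 1) (nat_lit 45) (nat_lit 1) (nat_lit 446) (nat_lit 392) (nat_lit 182)))) (XT.nd (nat_lit 78) (nat_lit 0) (nat_lit 0) (XT.lf (nat_lit 836) (nat_lit 7133169265) (nat_lit 0) (nat_lit 12664925634) (nat_lit 836) (nat_lit 7133169265) (nat_lit 303) (nat_lit 1) (nat_lit 292) (nat_lit 0) (nat_lit 303) (nat_lit 0) (nat_lit 234) (nat_lit 393) (nat_lit 393)) (XT.nd (nat_lit 78) (nat_lit 0) (nat_lit 76) (XT.lf (nat_lit 836) (nat_lit 27649054614) (nat_lit 76) (nat_lit 12460652640) (nat_lit 0) (nat_lit 12460652640) (nat_lit 303) (nat_lit 1) (nat_lit 293) (nat_lit 1) (nat_lit 292) (nat_lit 0) (nat_lit 235) (nat_lit 393) (nat_lit 392)) (XT.lf (nat_lit 836) (nat_lit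 13177123117) (nat_lit 0) (nat_lit 24963893093) (nat_lit 760) (nat_lit 13177123117) (nat_lit 304) (nat_lit 1) (nat_lit 293) (nat_lit 1) (nat_lit 303) (nat_lit 1) (nat_lit 236) (nat_lit 393) (nat_lit 391))))) (XT.nd (nat_lit 234) (nat_lit 0) (nat_lit 152) (XT.nd (nat_lit 78) (nat_lit 0) (nat_lit 76) (XT.lf (nat_lit 836) (nat_lit 24718451961) (nat_lit 76) (nat_lit 12693961426) (nat_lit 0) (nat_lit 12693961426) (nat_lit 304) (nat_lit 1) (nat_lit 294) (nat_lit 1) (nat_lit 293) (nat_lit 1) (nat_lit 237) (nat_lit 393) (nat_lit 390)) (XT.nd (nat_lit 78) (nat_lit 0) (nat_lit 0) (XT.lf (nat_lit 836) (nat_lit 11377666064) (nat_lit 0) (nat_lit 26177685029) (nat_lit 760) (nat_lit 11377666064) (nat_lit 305) (nat_lit 1) (nat_lit 294) (nat_lit 1) (nat_lit 304) (nat_lit 1) (nat_lit 238) (nat_lit 393) (nat_lit 389)) (XT.lf (nat_lit 836) (nat_lit 20463473466) (nat_lit 76) (nat_lit 13665977229) (nat_lit 0) (nat_lit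 13665977229) (nat_lit 305) (nat_lit 1) (nat_lit 295) (nat_lit 1) (nat_lit 294) (nat_lit 1) (nat_lit 239) (nat_lit 393) (nat_lit 388)))) (XT.nd (nat_lit 156) (nat_lit 0) (nat_lit 76) (XT.nd (nat_lit 78) (nat_lit 0) (nat_lit 0) (XT.lf (nat_lit 836) (nat_lit 8972642076) (nat_lit 0) (nat_lit 28750750849) (nat_lit 760) (nat_lit 8972642076) (nat_lit 306) (nat_lit 1) (nat_lit 295) (nat_lit 1) (nat_lit 305) (nat_lit 1) (nat_lit 240) (nat_lit 393) (nat_lit 387)) (XT.lf (nat_lit 836) (nat_lit 15083286828) (nat_lit 76) (nat_lit 15271812651) (nat_lit 0) (nat_lit 15271812651) (nat_lit 306) (nat_lit 1) (nat_lit 296) (nat_lit 1) (nat_lit 295) (nat_lit 1) (nat_lit 241) (nat_lit 393) (nat_lit 386))) (XT.nd (nat_lit 78) (nat_lit 0) (nat_lit 0) (XT.lf (nat_lit 836) (nat_lit 6055154046) (nat_lit 0) (nat_lit 32486617161) (nat_lit 760) (nat_lit 6055154046) (nat_lit 307) (nat_lit 1) (nat_lit 296) (nat_lit 1) (nat_lit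 306) (nat_lit 1) (nat_lit 242) (nat_lit 393) (nat_lit 385)) (XT.lf (nat_lit 836) (nat_lit 8754922078) (nat_lit 76) (nat_lit 17418055988) (nat_lit 0) (nat_lit 17418055988) (nat_lit 307) (nat_lit 1) (nat_lit 297) (nat_lit 1) (nat_lit 296) (nat_lit 1) (nat_lit 243) (nat_lit 393) (nat_lit 384))))))))
noncomputable def ec225 : XT := (XT.nd (nat_lit 1950) (nat_lit 2736) (nat_lit 0) (XT.nd (nat_lit 936) (nat_lit 1900) (nat_lit 0) (XT.nd (nat_lit 468) (nat_lit 1368) (nat_lit 0) (XT.nd (nat_lit 234) (nat_lit 380) (nat_lit 0) (XT.nd (nat_lit 78) (nat_lit 1292) (nat_lit 0) (XT.lf (nat_lit 76) (nat_lit 2707896518) (nat_lit 0) (nat_lit 37210414953) (nat_lit 760) (nat_lit 2707896518) (nat_lit 298) (nat_lit 1) (nat_lit 297) (nat_lit 1) (nat_lit 307) (nat_lit 1) (nat_lit 244) (nat_lit 393) (nat_lit 383)) (XT.nd (nat_lit 78) (nat_lit 532) (nat_lit 0) (XT.lf (nat_lit 836) (nat_lit 1635502157) (nat_lit 0) (nat_lit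 20021622220) (nat_lit 760) (nat_lit 20021622220) (nat_lit 298) (nat_lit 1) (nat_lit 287) (nat_lit 1) (nat_lit 297) (nat_lit 1) (nat_lit 245) (nat_lit 393) (nat_lit 382)) (XT.lf (nat_lit 532) (nat_lit 38812525901) (nat_lit 0) (nat_lit 979732010) (nat_lit 456) (nat_lit 979732010) (nat_lit 287) (nat_lit 1) (nat_lit 280) (nat_lit 1) (nat_lit 286) (nat_lit 1) (nat_lit 246) (nat_lit 393) (nat_lit 381)))) (XT.nd (nat_lit 78) (nat_lit 380) (nat_lit 0) (XT.lf (nat_lit 76) (nat_lit 16968768773) (nat_lit 0) (nat_lit 5939360031) (nat_lit 532) (nat_lit 16968768773) (nat_lit 281) (nat_lit 1) (nat_lit 280) (nat_lit 1) (nat_lit 287) (nat_lit 1) (nat_lit 247) (nat_lit 393) (nat_lit 380)) (XT.nd (nat_lit 78) (nat_lit 0) (nat_lit 0) (XT.lf (nat_lit 456) (nat_lit 29198895364) (nat_lit 0) (nat_lit 4910485796) (nat_lit 380) (nat_lit 4910485796) (nat_lit 281) (nat_lit 1) (nat_lit 275) (nat_lit 1) (nat_lit 280) (nat_lit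 1) (nat_lit 248) (nat_lit 393) (nat_lit 379)) (XT.lf (nat_lit 76) (nat_lit 12103616197) (nat_lit 0) (nat_lit 13973621096) (nat_lit 456) (nat_lit 12103616197) (nat_lit 276) (nat_lit 1) (nat_lit 275) (nat_lit 1) (nat_lit 281) (nat_lit 1) (nat_lit 249) (nat_lit 393) (nat_lit 378))))) (XT.nd (nat_lit 234) (nat_lit 684) (nat_lit 0) (XT.nd (nat_lit 78) (nat_lit 304) (nat_lit 0) (XT.lf (nat_lit 456) (nat_lit 19227886676) (nat_lit 0) (nat_lit 9071586971) (nat_lit 380) (nat_lit 9071586971) (nat_lit 276) (nat_lit 1) (nat_lit 270) (nat_lit 1) (nat_lit 275) (nat_lit 1) (nat_lit 250) (nat_lit 393) (nat_lit 377)) (XT.nd (nat_lit 78) (nat_lit 304) (nat_lit 0) (XT.lf (nat_lit 76) (nat_lit 7085220700) (nat_lit 0) (nat_lit 22414377850) (nat_lit 456) (nat_lit 7085220700) (nat_lit 271) (nat_lit 1) (nat_lit 270) (nat_lit 1) (nat_lit 276) (nat_lit 1) (nat_lit 251) (nat_lit 393) (nat_lit 376)) (XT.lf (nat_lit 380) (nat_lit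 8992304630) (nat_lit 0) (nat_lit 13413248987) (nat_lit 304) (nat_lit 13413248987) (nat_lit 271) (nat_lit 1) (nat_lit 266) (nat_lit 1) (nat_lit 270) (nat_lit 1) (nat_lit 252) (nat_lit 393) (nat_lit 375)))) (XT.nd (nat_lit 78) (nat_lit 684) (nat_lit 0) (XT.lf (nat_lit 76) (nat_lit 1956665485) (nat_lit 0) (nat_lit 31168912218) (nat_lit 380) (nat_lit 1956665485) (nat_lit 267) (nat_lit 1) (nat_lit 266) (nat_lit 1) (nat_lit 271) (nat_lit 1) (nat_lit 253) (nat_lit 393) (nat_lit 374)) (XT.nd (nat_lit 78) (nat_lit 304) (nat_lit 0) (XT.lf (nat_lit 76) (nat_lit 16487425629) (nat_lit 0) (nat_lit 1380853923) (nat_lit 380) (nat_lit 16487425629) (nat_lit 262) (nat_lit 1) (nat_lit 261) (nat_lit 1) (nat_lit 266) (nat_lit 1) (nat_lit 254) (nat_lit 393) (nat_lit 373)) (XT.lf (nat_lit 380) (nat_lit 27272802085) (nat_lit 0) (nat_lit 3192016719) (nat_lit 304) (nat_lit 3192016719) (nat_lit 262) (nat_lit 1) (nat_lit 257)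 (nat_lit 1) (nat_lit 261) (nat_lit 1) (nat_lit 255) (nat_lit 393) (nat_lit 372)))))) (XT.nd (nat_lit 468) (nat_lit 988) (nat_lit 0) (XT.nd (nat_lit 234) (nat_lit 608) (nat_lit 0) (XT.nd (nat_lit 78) (nat_lit 304) (nat_lit 0) (XT.lf (nat_lit 76) (nat_lit 10697591973) (nat_lit 0) (nat_lit 11574771182) (nat_lit 380) (nat_lit 10697591973) (nat_lit 258) (nat_lit 1) (nat_lit 257) (nat_lit 1) (nat_lit 262) (nat_lit 1) (nat_lit 256) (nat_lit 393) (nat_lit 371)) (XT.nd (nat_lit 78) (nat_lit 0) (nat_lit 0) (XT.lf (nat_lit 380) (nat_lit 15610762528) (nat_lit 0) (nat_lit 8348065401) (nat_lit 304) (nat_lit 8348065401) (nat_lit 258) (nat_lit 1) (nat_lit 253) (nat_lit 1) (nat_lit 257) (nat_lit 1) (nat_lit 257) (nat_lit 393) (nat_lit 370)) (XT.lf (nat_lit 76) (nat_lit 4922937804) (nat_lit 0) (nat_lit 21817343907) (nat_lit 380) (nat_lit 4922937804) (nat_lit 254) (nat_lit 1) (nat_lit 253) (nat_lit 1) (nat_lit 258)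 (nat_lit 1) (nat_lit 258) (nat_lit 393) (nat_lit 369)))) (XT.nd (nat_lit 78) (nat_lit 380) (nat_lit 0) (XT.lf (nat_lit 304) (nat_lit 4003614470) (nat_lit 0) (nat_lit 13514912786) (nat_lit 228) (nat_lit 13514912786) (nat_lit 254) (nat_lit 1) (nat_lit 250) (nat_lit 1) (nat_lit 253) (nat_lit 1) (nat_lit 259) (nat_lit 393) (nat_lit 368)) (XT.nd (nat_lit 78) (nat_lit 0) (nat_lit 0) (XT.lf (nat_lit 380) (nat_lit 28828114693) (nat_lit 0) (nat_lit 799924867) (nat_lit 304) (nat_lit 799924867) (nat_lit 250) (nat_lit 1) (nat_lit 245) (nat_lit 1) (nat_lit 249) (nat_lit 1) (nat_lit 260) (nat_lit 393) (nat_lit 367)) (XT.lf (nat_lit 76) (nat_lit 11280654402) (nat_lit 0) (nat_lit 7264531243) (nat_lit 380) (nat_lit 11280654402) (nat_lit 246) (nat_lit 1) (nat_lit 245) (nat_lit 1) (nat_lit 250) (nat_lit 1) (nat_lit 261) (nat_lit 393) (nat_lit 366))))) (XT.nd (nat_lit 234) (nat_lit 532) (nat_lit 0) (XT.nd (nat_lit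 78) (nat_lit 228) (nat_lit 0) (XT.lf (nat_lit 304) (nat_lit 16475752384) (nat_lit 0) (nat_lit 6385528177) (nat_lit 228) (nat_lit 6385528177) (nat_lit 246) (nat_lit 1) (nat_lit 242) (nat_lit 1) (nat_lit 245) (nat_lit 1) (nat_lit 262) (nat_lit 393) (nat_lit 365)) (XT.nd (nat_lit 78) (nat_lit 228) (nat_lit 0) (XT.lf (nat_lit 76) (nat_lit 5204945032) (nat_lit 0) (nat_lit 18272598654) (nat_lit 304) (nat_lit 5204945032) (nat_lit 243) (nat_lit 1) (nat_lit 242) (nat_lit 1) (nat_lit 246) (nat_lit 1) (nat_lit 263) (nat_lit 393) (nat_lit 364)) (XT.lf (nat_lit 304) (nat_lit 4338158997) (nat_lit 0) (nat_lit 11896423913) (nat_lit 228) (nat_lit 11896423913) (nat_lit 243) (nat_lit 1) (nat_lit 239) (nat_lit 1) (nat_lit 242) (nat_lit 1) (nat_lit 264) (nat_lit 393) (nat_lit 363)))) (XT.nd (nat_lit 156) (nat_lit 228) (nat_lit 0) (XT.nd (nat_lit 78) (nat_lit 0) (nat_lit 0) (XT.lf (nat_lit 304) (nat_lit 26108898309)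 (nat_lit 0) (nat_lit 745557436) (nat_lit 228) (nat_lit 745557436) (nat_lit 239) (nat_lit 1) (nat_lit 235) (nat_lit 1) (nat_lit 238) (nat_lit 1) (nat_lit 265) (nat_lit 393) (nat_lit 362)) (XT.lf (nat_lit 76) (nat_lit 9876248518) (nat_lit 0) (nat_lit 7318200984) (nat_lit 304) (nat_lit 9876248518) (nat_lit 236) (nat_lit 1) (nat_lit 235) (nat_lit 1) (nat_lit 239) (nat_lit 1) (nat_lit 266) (nat_lit 393) (nat_lit 361))) (XT.nd (nat_lit 78) (nat_lit 0) (nat_lit 0) (XT.lf (nat_lit 304) (nat_lit 13580746040) (nat_lit 0) (nat_lit 6490110782) (nat_lit 228) (nat_lit 6490110782) (nat_lit 236) (nat_lit 1) (nat_lit 232) (nat_lit 1) (nat_lit 235) (nat_lit 1) (nat_lit 267) (nat_lit 393) (nat_lit 360)) (XT.lf (nat_lit 76) (nat_lit 3740126383) (nat_lit 0) (nat_lit 18584655625) (nat_lit 304) (nat_lit 3740126383) (nat_lit 233) (nat_lit 1) (nat_lit 232) (nat_lit 1) (nat_lit 236) (nat_lit 1) (nat_lit 268) (nat_lit 393)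 (nat_lit 359))))))) (XT.nd (nat_lit 936) (nat_lit 1216) (nat_lit 0) (XT.nd (nat_lit 468) (nat_lit 684) (nat_lit 0) (XT.nd (nat_lit 234) (nat_lit 380) (nat_lit 0) (XT.nd (nat_lit 78) (nat_lit 304) (nat_lit 0) (XT.lf (nat_lit 228) (nat_lit 1370506663) (nat_lit 0) (nat_lit 12103845226) (nat_lit 152) (nat_lit 12103845226) (nat_lit 233) (nat_lit 1) (nat_lit 230) (nat_lit 1) (nat_lit 232) (nat_lit 1) (nat_lit 269) (nat_lit 393) (nat_lit 358)) (XT.nd (nat_lit 78) (nat_lit 0) (nat_lit 0) (XT.lf (nat_lit 304) (nat_lit 20707896136) (nat_lit 0) (nat_lit 2199328667) (nat_lit 228) (nat_lit 2199328667) (nat_lit 230) (nat_lit 1) (nat_lit 226) (nat_lit 1) (nat_lit 229) (nat_lit 1) (nat_lit 270) (nat_lit 393) (nat_lit 357)) (XT.lf (nat_lit 76) (nat_lit 7232776574) (nat_lit 0) (nat_lit 10174631557) (nat_lit 304) (nat_lit 7232776574) (nat_lit 227) (nat_lit 1) (nat_lit 226) (nat_lit 1) (nat_lit 230) (nat_lit 1) (nat_lit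 271) (nat_lit 393) (nat_lit 356)))) (XT.nd (nat_lit 78) (nat_lit 228) (nat_lit 0) (XT.lf (nat_lit 228) (nat_lit 8356357628) (nat_lit 0) (nat_lit 7915925866) (nat_lit 152) (nat_lit 7915925866) (nat_lit 227) (nat_lit 1) (nat_lit 224) (nat_lit 1) (nat_lit 226) (nat_lit 1) (nat_lit 272) (nat_lit 393) (nat_lit 355)) (XT.nd (nat_lit 78) (nat_lit 228) (nat_lit 0) (XT.lf (nat_lit 76) (nat_lit 1200543355) (nat_lit 0) (nat_lit 21350146631) (nat_lit 228) (nat_lit 1200543355) (nat_lit 225) (nat_lit 1) (nat_lit 224) (nat_lit 1) (nat_lit 227) (nat_lit 1) (nat_lit 273) (nat_lit 393) (nat_lit 354)) (XT.lf (nat_lit 76) (nat_lit 9908294942) (nat_lit 0) (nat_lit 3499255878) (nat_lit 228) (nat_lit 9908294942) (nat_lit 222) (nat_lit 1) (nat_lit 221) (nat_lit 1) (nat_lit 224) (nat_lit 1) (nat_lit 274) (nat_lit 393) (nat_lit 353))))) (XT.nd (nat_lit 234) (nat_lit 380) (nat_lit 0) (XT.nd (nat_lit 78) (nat_lit 152) (nat_lit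 0) (XT.lf (nat_lit 228) (nat_lit 13759404105) (nat_lit 0) (nat_lit 4567749365) (nat_lit 152) (nat_lit 4567749365) (nat_lit 222) (nat_lit 1) (nat_lit 219) (nat_lit 1) (nat_lit 221) (nat_lit 1) (nat_lit 275) (nat_lit 393) (nat_lit 352)) (XT.nd (nat_lit 78) (nat_lit 152) (nat_lit 0) (XT.lf (nat_lit 76) (nat_lit 3882545871) (nat_lit 0) (nat_lit 14718171925) (nat_lit 228) (nat_lit 3882545871) (nat_lit 220) (nat_lit 1) (nat_lit 219) (nat_lit 1) (nat_lit 222) (nat_lit 1) (nat_lit 276) (nat_lit 393) (nat_lit 351)) (XT.lf (nat_lit 228) (nat_lit 1818832955) (nat_lit 0) (nat_lit 10130544564) (nat_lit 152) (nat_lit 10130544564) (nat_lit 220) (nat_lit 1) (nat_lit 217) (nat_lit 1) (nat_lit 219) (nat_lit 1) (nat_lit 277) (nat_lit 393) (nat_lit 350)))) (XT.nd (nat_lit 78) (nat_lit 152) (nat_lit 0) (XT.lf (nat_lit 228) (nat_lit 17876665337) (nat_lit 0) (nat_lit 1905801150) (nat_lit 152) (nat_lit 1905801150) (nat_lit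 217) (nat_lit 1) (nat_lit 214) (nat_lit 1) (nat_lit 216) (nat_lit 1) (nat_lit 278) (nat_lit 393) (nat_lit 349)) (XT.nd (nat_lit 78) (nat_lit 152) (nat_lit 0) (XT.lf (nat_lit 76) (nat_lit 5951185698) (nat_lit 0) (nat_lit 9397584519) (nat_lit 228) (nat_lit 5951185698) (nat_lit 215) (nat_lit 1) (nat_lit 214) (nat_lit 1) (nat_lit 217) (nat_lit 1) (nat_lit 279) (nat_lit 393) (nat_lit 348)) (XT.lf (nat_lit 228) (nat_lit 6060993700) (nat_lit 0) (nat_lit 7430961861) (nat_lit 152) (nat_lit 7430961861) (nat_lit 215) (nat_lit 1) (nat_lit 212) (nat_lit 1) (nat_lit 214) (nat_lit 1) (nat_lit 280) (nat_lit 393) (nat_lit 347)))))) (XT.nd (nat_lit 468) (nat_lit 608) (nat_lit 0) (XT.nd (nat_lit 234) (nat_lit 304) (nat_lit 0) (XT.nd (nat_lit 78) (nat_lit 304) (nat_lit 0) (XT.lf (nat_lit 76) (nat_lit 199208147) (nat_lit 0) (nat_lit 20160685395) (nat_lit 228) (nat_lit 199208147) (nat_lit 213) (nat_lit 1) (nat_lit 212)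 (nat_lit 1) (nat_lit 215) (nat_lit 1) (nat_lit 281) (nat_lit 393) (nat_lit 346)) (XT.nd (nat_lit 78) (nat_lit 152) (nat_lit 0) (XT.lf (nat_lit 76) (nat_lit 7521774822) (nat_lit 0) (nat_lit 5149423710) (nat_lit 152) (nat_lit 7521774822) (nat_lit 211) (nat_lit 1) (nat_lit 210) (nat_lit 1) (nat_lit 212) (nat_lit 1) (nat_lit 282) (nat_lit 393) (nat_lit 345)) (XT.lf (nat_lit 228) (nat_lit 9333666256) (nat_lit 0) (nat_lit 5253030501) (nat_lit 152) (nat_lit 5253030501) (nat_lit 211) (nat_lit 1) (nat_lit 208) (nat_lit 1) (nat_lit 210) (nat_lit 1) (nat_lit 283) (nat_lit 393) (nat_lit 344)))) (XT.nd (nat_lit 78) (nat_lit 304) (nat_lit 0) (XT.lf (nat_lit 76) (nat_lit 1871335577) (nat_lit 0) (nat_lit 15753345016) (nat_lit 228) (nat_lit 1871335577) (nat_lit 209) (nat_lit 1) (nat_lit 208) (nat_lit 1) (nat_lit 211) (nat_lit 1) (nat_lit 284) (nat_lit 393) (nat_lit 343)) (XT.nd (nat_lit 78) (nat_lit 152) (nat_lit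 0) (XT.lf (nat_lit 76) (nat_lit 8688868114) (nat_lit 0) (nat_lit 1777403315) (nat_lit 152) (nat_lit 8688868114) (nat_lit 207) (nat_lit 1) (nat_lit 206) (nat_lit 1) (nat_lit 208) (nat_lit 1) (nat_lit 285) (nat_lit 393) (nat_lit 342)) (XT.lf (nat_lit 228) (nat_lit 11819089127) (nat_lit 0) (nat_lit 3502214324) (nat_lit 152) (nat_lit 3502214324) (nat_lit 207) (nat_lit 1) (nat_lit 204) (nat_lit 1) (nat_lit 206) (nat_lit 1) (nat_lit 286) (nat_lit 393) (nat_lit 341))))) (XT.nd (nat_lit 234) (nat_lit 304) (nat_lit 0) (XT.nd (nat_lit 78) (nat_lit 304) (nat_lit 0) (XT.lf (nat_lit 76) (nat_lit 3165691973) (nat_lit 0) (nat_lit 12167077119) (nat_lit 228) (nat_lit 3165691973) (nat_lit 205) (nat_lit 1) (nat_lit 204) (nat_lit 1) (nat_lit 207) (nat_lit 1) (nat_lit 287) (nat_lit 393) (nat_lit 340)) (XT.nd (nat_lit 78) (nat_lit 228) (nat_lit 0) (XT.lf (nat_lit 152) (nat_lit 908754882) (nat_lit 0) (nat_lit 8635391726)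 (nat_lit 76) (nat_lit 8635391726) (nat_lit 205) (nat_lit 1) (nat_lit 203) (nat_lit 1) (nat_lit 204) (nat_lit 1) (nat_lit 288) (nat_lit 393) (nat_lit 339)) (XT.lf (nat_lit 228) (nat_lit 13666697493) (nat_lit 0) (nat_lit 2100835755) (nat_lit 152) (nat_lit 2100835755) (nat_lit 203) (nat_lit 1) (nat_lit 200) (nat_lit 1) (nat_lit 202) (nat_lit 1) (nat_lit 289) (nat_lit 393) (nat_lit 338)))) (XT.nd (nat_lit 156) (nat_lit 228) (nat_lit 0) (XT.nd (nat_lit 78) (nat_lit 76) (nat_lit 0) (XT.lf (nat_lit 76) (nat_lit 4153126967) (nat_lit 0) (nat_lit 9254418922) (nat_lit 228) (nat_lit 4153126967) (nat_lit 201) (nat_lit 1) (nat_lit 200) (nat_lit 1) (nat_lit 203) (nat_lit 1) (nat_lit 290) (nat_lit 393) (nat_lit 337)) (XT.lf (nat_lit 152) (nat_lit 3051804771) (nat_lit 0) (nat_lit 7104358144) (nat_lit 76) (nat_lit 7104358144) (nat_lit 201) (nat_lit 1) (nat_lit 199) (nat_lit 1) (nat_lit 200) (nat_lit 1) (nat_lit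 291) (nat_lit 393) (nat_lit 336))) (XT.nd (nat_lit 78) (nat_lit 0) (nat_lit 0) (XT.lf (nat_lit 228) (nat_lit 14998962629) (nat_lit 0) (nat_lit 985082168) (nat_lit 152) (nat_lit 985082168) (nat_lit 199) (nat_lit 1) (nat_lit 196) (nat_lit 1) (nat_lit 198) (nat_lit 1) (nat_lit 292) (nat_lit 393) (nat_lit 335)) (XT.lf (nat_lit 76) (nat_lit 4891744354) (nat_lit 0) (nat_lit 6894142365) (nat_lit 228) (nat_lit 4891744354) (nat_lit 197) (nat_lit 1) (nat_lit 196) (nat_lit 1) (nat_lit 199) (nat_lit 1) (nat_lit 293) (nat_lit 393) (nat_lit 334))))))))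
noncomputable def ec226 : XT := (XT.nd (nat_lit 1950) (nat_lit 1824) (nat_lit 0) (XT.nd (nat_lit 936) (nat_lit 988) (nat_lit 0) (XT.nd (nat_lit 468) (nat_lit 456) (nat_lit 0) (XT.nd (nat_lit 234) (nat_lit 228) (nat_lit 0) (XT.nd (nat_lit 78) (nat_lit 228) (nat_lit 0) (XT.lf (nat_lit 152) (nat_lit 4705174843) (nat_lit 0) (nat_lit 5844773026) (nat_lit 76) (nat_lit 5844773026) (nat_lit 197) (nat_lit 1) (nat_lit 195) (nat_lit 1) (nat_lit 196) (nat_lit 1) (nat_lit 294) (nat_lit 393) (nat_lit 333)) (XT.nd (nat_lit 78) (nat_lit 0) (nat_lit 0) (XT.lf (nat_lit 228) (nat_lit 15916194893) (nat_lit 0) (nat_lit 102543245) (nat_lit 152) (nat_lit 102543245) (nat_lit 195) (nat_lit 1) (nat_lit 192) (nat_lit 1) (nat_lit 194) (nat_lit 1) (nat_lit 295) (nat_lit 393) (nat_lit 332)) (XT.lf (nat_lit 76) (nat_lit 5429170681) (nat_lit 0) (nat_lit 4986598475) (nat_lit 228) (nat_lit 5429170681) (nat_lit 193) (nat_lit 1)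 (nat_lit 192) (nat_lit 1) (nat_lit 195) (nat_lit 1) (nat_lit 296) (nat_lit 393) (nat_lit 331)))) (XT.nd (nat_lit 78) (nat_lit 152) (nat_lit 0) (XT.lf (nat_lit 152) (nat_lit 5960908993) (nat_lit 0) (nat_lit 4808509233) (nat_lit 76) (nat_lit 4808509233) (nat_lit 193) (nat_lit 1) (nat_lit 191) (nat_lit 1) (nat_lit 192) (nat_lit 1) (nat_lit 297) (nat_lit 393) (nat_lit 330)) (XT.nd (nat_lit 78) (nat_lit 152) (nat_lit 0) (XT.lf (nat_lit 0) (nat_lit 599483934) (nat_lit 0) (nat_lit 14120008764) (nat_lit 152) (nat_lit 599483934) (nat_lit 191) (nat_lit 3) (nat_lit 191) (nat_lit 1) (nat_lit 193) (nat_lit 1) (nat_lit 298) (nat_lit 393) (nat_lit 329)) (XT.lf (nat_lit 76) (nat_lit 5804421198) (nat_lit 0) (nat_lit 3449887373) (nat_lit 152) (nat_lit 5804421198) (nat_lit 190) (nat_lit 1) (nat_lit 189) (nat_lit 1) (nat_lit 191) (nat_lit 1) (nat_lit 299) (nat_lit 393) (nat_lit 328))))) (XT.nd (nat_lit 234) (nat_lit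 228) (nat_lit 0) (XT.nd (nat_lit 78) (nat_lit 152) (nat_lit 0) (XT.lf (nat_lit 152) (nat_lit 6894483157) (nat_lit 0) (nat_lit 3955972446) (nat_lit 76) (nat_lit 3955972446) (nat_lit 190) (nat_lit 1) (nat_lit 188) (nat_lit 1) (nat_lit 189) (nat_lit 1) (nat_lit 300) (nat_lit 393) (nat_lit 327)) (XT.nd (nat_lit 78) (nat_lit 152) (nat_lit 0) (XT.lf (nat_lit 0) (nat_lit 1145796450) (nat_lit 0) (nat_lit 12269165688) (nat_lit 152) (nat_lit 1145796450) (nat_lit 188) (nat_lit 3) (nat_lit 188) (nat_lit 1) (nat_lit 190) (nat_lit 1) (nat_lit 301) (nat_lit 393) (nat_lit 326)) (XT.lf (nat_lit 76) (nat_lit 6049434583) (nat_lit 0) (nat_lit 2216707514) (nat_lit 152) (nat_lit 6049434583) (nat_lit 187) (nat_lit 1) (nat_lit 186) (nat_lit 1) (nat_lit 188) (nat_lit 1) (nat_lit 302) (nat_lit 393) (nat_lit 325)))) (XT.nd (nat_lit 78) (nat_lit 152) (nat_lit 0) (XT.lf (nat_lit 152) (nat_lit 7567754619) (nat_lit 0) (nat_lit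 3254588322) (nat_lit 76) (nat_lit 3254588322) (nat_lit 187) (nat_lit 1) (nat_lit 185) (nat_lit 1) (nat_lit 186) (nat_lit 1) (nat_lit 303) (nat_lit 393) (nat_lit 324)) (XT.nd (nat_lit 78) (nat_lit 152) (nat_lit 0) (XT.lf (nat_lit 0) (nat_lit 1564172940) (nat_lit 0) (nat_lit 10715396340) (nat_lit 152) (nat_lit 1564172940) (nat_lit 185) (nat_lit 3) (nat_lit 185) (nat_lit 1) (nat_lit 187) (nat_lit 1) (nat_lit 304) (nat_lit 393) (nat_lit 323)) (XT.lf (nat_lit 76) (nat_lit 6190335182) (nat_lit 0) (nat_lit 1231763744) (nat_lit 152) (nat_lit 6190335182) (nat_lit 184) (nat_lit 1) (nat_lit 183) (nat_lit 1) (nat_lit 185) (nat_lit 1) (nat_lit 305) (nat_lit 393) (nat_lit 322)))))) (XT.nd (nat_lit 468) (nat_lit 608) (nat_lit 0) (XT.nd (nat_lit 234) (nat_lit 152) (nat_lit 0) (XT.nd (nat_lit 78) (nat_lit 152) (nat_lit 0) (XT.lf (nat_lit 152) (nat_lit 8031387847) (nat_lit 0) (nat_lit 2677557867) (nat_lit 76) (nat_lit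 2677557867) (nat_lit 184) (nat_lit 1) (nat_lit 182) (nat_lit 1) (nat_lit 183) (nat_lit 1) (nat_lit 306) (nat_lit 393) (nat_lit 321)) (XT.nd (nat_lit 78) (nat_lit 152) (nat_lit 0) (XT.lf (nat_lit 0) (nat_lit 1878775963) (nat_lit 0) (nat_lit 9407510101) (nat_lit 152) (nat_lit 1878775963) (nat_lit 182) (nat_lit 3) (nat_lit 182) (nat_lit 1) (nat_lit 184) (nat_lit 1) (nat_lit 307) (nat_lit 393) (nat_lit 320)) (XT.lf (nat_lit 76) (nat_lit 6248471101) (nat_lit 0) (nat_lit 449635066) (nat_lit 152) (nat_lit 6248471101) (nat_lit 181) (nat_lit 1) (nat_lit 180) (nat_lit 1) (nat_lit 182) (nat_lit 1) (nat_lit 308) (nat_lit 393) (nat_lit 319)))) (XT.nd (nat_lit 78) (nat_lit 76) (nat_lit 0) (XT.lf (nat_lit 152) (nat_lit 8326849699) (nat_lit 0) (nat_lit 2202833483) (nat_lit 76) (nat_lit 2202833483) (nat_lit 181) (nat_lit 1) (nat_lit 179) (nat_lit 1) (nat_lit 180) (nat_lit 1) (nat_lit 309) (nat_lit 393) (nat_lit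 318)) (XT.nd (nat_lit 78) (nat_lit 76) (nat_lit 0) (XT.lf (nat_lit 0) (nat_lit 2109413647) (nat_lit 0) (nat_lit 8303321855) (nat_lit 152) (nat_lit 2109413647) (nat_lit 179) (nat_lit 3) (nat_lit 179) (nat_lit 1) (nat_lit 181) (nat_lit 1) (nat_lit 310) (nat_lit 393) (nat_lit 317)) (XT.lf (nat_lit 76) (nat_lit 172500460) (nat_lit 0) (nat_lit 6071460658) (nat_lit 76) (nat_lit 6071460658) (nat_lit 179) (nat_lit 3) (nat_lit 178) (nat_lit 1) (nat_lit 179) (nat_lit 1) (nat_lit 311) (nat_lit 393) (nat_lit 316))))) (XT.nd (nat_lit 234) (nat_lit 380) (nat_lit 0) (XT.nd (nat_lit 78) (nat_lit 76) (nat_lit 0) (XT.lf (nat_lit 152) (nat_lit 8488050370) (nat_lit 0) (nat_lit 1812276558) (nat_lit 76) (nat_lit 1812276558) (nat_lit 178) (nat_lit 1) (nat_lit 176) (nat_lit 1) (nat_lit 177) (nat_lit 1) (nat_lit 312) (nat_lit 393) (nat_lit 315)) (XT.nd (nat_lit 78) (nat_lit 76) (nat_lit 0) (XT.lf (nat_lit 0) (nat_lit 2272315079)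 (nat_lit 0) (nat_lit 7368058690) (nat_lit 152) (nat_lit 2272315079) (nat_lit 176) (nat_lit 3) (nat_lit 176) (nat_lit 1) (nat_lit 178) (nat_lit 1) (nat_lit 313) (nat_lit 393) (nat_lit 314)) (XT.lf (nat_lit 76) (nat_lit 670152206) (nat_lit 0) (nat_lit 5523241359) (nat_lit 76) (nat_lit 5523241359) (nat_lit 176) (nat_lit 3) (nat_lit 175) (nat_lit 1) (nat_lit 176) (nat_lit 1) (nat_lit 314) (nat_lit 393) (nat_lit 313)))) (XT.nd (nat_lit 156) (nat_lit 228) (nat_lit 0) (XT.nd (nat_lit 78) (nat_lit 0) (nat_lit 0) (XT.lf (nat_lit 152) (nat_lit 8542692918) (nat_lit 0) (nat_lit 1490964409) (nat_lit 76) (nat_lit 1490964409) (nat_lit 175) (nat_lit 1) (nat_lit 173) (nat_lit 1) (nat_lit 174) (nat_lit 1) (nat_lit 315) (nat_lit 393) (nat_lit 312)) (XT.lf (nat_lit 0) (nat_lit 2380768049) (nat_lit 0) (nat_lit 6573048929) (nat_lit 152) (nat_lit 2380768049) (nat_lit 173) (nat_lit 3) (nat_lit 173) (nat_lit 1) (nat_lit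 175) (nat_lit 1) (nat_lit 316) (nat_lit 393) (nat_lit 311))) (XT.nd (nat_lit 78) (nat_lit 152) (nat_lit 0) (XT.lf (nat_lit 76) (nat_lit 1054417450) (nat_lit 0) (nat_lit 5047065907) (nat_lit 76) (nat_lit 5047065907) (nat_lit 173) (nat_lit 3) (nat_lit 172) (nat_lit 1) (nat_lit 173) (nat_lit 1) (nat_lit 317) (nat_lit 393) (nat_lit 310)) (XT.lf (nat_lit 152) (nat_lit 8513383054) (nat_lit 0) (nat_lit 1226620109) (nat_lit 76) (nat_lit 1226620109) (nat_lit 172) (nat_lit 1) (nat_lit 170) (nat_lit 1) (nat_lit 171) (nat_lit 1) (nat_lit 318) (nat_lit 393) (nat_lit 309))))))) (XT.nd (nat_lit 936) (nat_lit 912) (nat_lit 0) (XT.nd (nat_lit 468) (nat_lit 456) (nat_lit 0) (XT.nd (nat_lit 234) (nat_lit 228) (nat_lit 0) (XT.nd (nat_lit 78) (nat_lit 228) (nat_lit 0) (XT.lf (nat_lit 0) (nat_lit 2445643586) (nat_lit 0) (nat_lit 5894643441) (nat_lit 152) (nat_lit 2445643586) (nat_lit 170) (nat_lit 3) (nat_lit 170) (nat_lit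 1) (nat_lit 172) (nat_lit 1) (nat_lit 319) (nat_lit 393) (nat_lit 308)) (XT.nd (nat_lit 78) (nat_lit 152) (nat_lit 0) (XT.lf (nat_lit 76) (nat_lit 1346597151) (nat_lit 0) (nat_lit 4631358918) (nat_lit 76) (nat_lit 4631358918) (nat_lit 170) (nat_lit 3) (nat_lit 169) (nat_lit 1) (nat_lit 170) (nat_lit 1) (nat_lit 320) (nat_lit 393) (nat_lit 307)) (XT.lf (nat_lit 152) (nat_lit 8418541736) (nat_lit 0) (nat_lit 1009143399) (nat_lit 76) (nat_lit 1009143399) (nat_lit 169) (nat_lit 1) (nat_lit 167) (nat_lit 1) (nat_lit 168) (nat_lit 1) (nat_lit 321) (nat_lit 393) (nat_lit 306)))) (XT.nd (nat_lit 78) (nat_lit 228) (nat_lit 0) (XT.lf (nat_lit 0) (nat_lit 2475827335) (nat_lit 0) (nat_lit 5313328051) (nat_lit 152) (nat_lit 2475827335) (nat_lit 167) (nat_lit 3) (nat_lit 167) (nat_lit 1) (nat_lit 169) (nat_lit 1) (nat_lit 322) (nat_lit 393) (nat_lit 305)) (XT.nd (nat_lit 78) (nat_lit 152) (nat_lit 0) (XT.lf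 (nat_lit 76) (nat_lit 1564158625) (nat_lit 0) (nat_lit 4266540259) (nat_lit 76) (nat_lit 4266540259) (nat_lit 167) (nat_lit 3) (nat_lit 166) (nat_lit 1) (nat_lit 167) (nat_lit 1) (nat_lit 323) (nat_lit 393) (nat_lit 304)) (XT.lf (nat_lit 152) (nat_lit 8273155528) (nat_lit 0) (nat_lit 830224772) (nat_lit 76) (nat_lit 830224772) (nat_lit 166) (nat_lit 1) (nat_lit 164) (nat_lit 1) (nat_lit 165) (nat_lit 1) (nat_lit 324) (nat_lit 393) (nat_lit 303))))) (XT.nd (nat_lit 234) (nat_lit 228) (nat_lit 0) (XT.nd (nat_lit 78) (nat_lit 228) (nat_lit 0) (XT.lf (nat_lit 0) (nat_lit 2478574327) (nat_lit 0) (nat_lit 4812993188) (nat_lit 152) (nat_lit 2478574327) (nat_lit 164) (nat_lit 3) (nat_lit 164) (nat_lit 1) (nat_lit 166) (nat_lit 1) (nat_lit 325) (nat_lit 393) (nat_lit 302)) (XT.nd (nat_lit 78) (nat_lit 152) (nat_lit 0) (XT.lf (nat_lit 76) (nat_lit 1721417948) (nat_lit 0) (nat_lit 3944674007) (nat_lit 76)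 (nat_lit 3944674007) (nat_lit 164) (nat_lit 3) (nat_lit 163) (nat_lit 1) (nat_lit 164) (nat_lit 1) (nat_lit 326) (nat_lit 393) (nat_lit 301)) (XT.lf (nat_lit 152) (nat_lit 8089393534) (nat_lit 0) (nat_lit 683027974) (nat_lit 76) (nat_lit 683027974) (nat_lit 163) (nat_lit 1) (nat_lit 161) (nat_lit 1) (nat_lit 162) (nat_lit 1) (nat_lit 327) (nat_lit 393) (nat_lit 300)))) (XT.nd (nat_lit 78) (nat_lit 228) (nat_lit 0) (XT.lf (nat_lit 0) (nat_lit 2459800711) (nat_lit 0) (nat_lit 4380332885) (nat_lit 152) (nat_lit 2459800711) (nat_lit 161) (nat_lit 3) (nat_lit 161) (nat_lit 1) (nat_lit 163) (nat_lit 1) (nat_lit 328) (nat_lit 393) (nat_lit 299)) (XT.nd (nat_lit 78) (nat_lit 152) (nat_lit 0) (XT.lf (nat_lit 76) (nat_lit 1830101260) (nat_lit 0) (nat_lit 3659179521) (nat_lit 76) (nat_lit 3659179521) (nat_lit 161) (nat_lit 3) (nat_lit 160) (nat_lit 1) (nat_lit 161) (nat_lit 1) (nat_lit 329) (nat_lit 393)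 (nat_lit 298)) (XT.lf (nat_lit 152) (nat_lit 7877114563) (nat_lit 0) (nat_lit 561928805) (nat_lit 76) (nat_lit 561928805) (nat_lit 160) (nat_lit 1) (nat_lit 158) (nat_lit 1) (nat_lit 159) (nat_lit 1) (nat_lit 330) (nat_lit 393) (nat_lit 297)))))) (XT.nd (nat_lit 468) (nat_lit 456) (nat_lit 0) (XT.nd (nat_lit 234) (nat_lit 228) (nat_lit 0) (XT.nd (nat_lit 78) (nat_lit 228) (nat_lit 0) (XT.lf (nat_lit 0) (nat_lit 2424323635) (nat_lit 0) (nat_lit 4004350208) (nat_lit 152) (nat_lit 2424323635) (nat_lit 158) (nat_lit 3) (nat_lit 158) (nat_lit 1) (nat_lit 160) (nat_lit 1) (nat_lit 331) (nat_lit 393) (nat_lit 296)) (XT.nd (nat_lit 78) (nat_lit 152) (nat_lit 0) (XT.lf (nat_lit 76) (nat_lit 1899806411) (nat_lit 0) (nat_lit 3404593623) (nat_lit 76) (nat_lit 3404593623) (nat_lit 158) (nat_lit 3) (nat_lit 157) (nat_lit 1) (nat_lit 158) (nat_lit 1) (nat_lit 332) (nat_lit 393) (nat_lit 295)) (XT.lf (nat_lit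 152) (nat_lit 7644284011) (nat_lit 0) (nat_lit 462300218) (nat_lit 76) (nat_lit 462300218) (nat_lit 157) (nat_lit 1) (nat_lit 155) (nat_lit 1) (nat_lit 156) (nat_lit 1) (nat_lit 333) (nat_lit 393) (nat_lit 294)))) (XT.nd (nat_lit 78) (nat_lit 228) (nat_lit 0) (XT.lf (nat_lit 0) (nat_lit 2376058485) (nat_lit 0) (nat_lit 3675950257) (nat_lit 152) (nat_lit 2376058485) (nat_lit 155) (nat_lit 3) (nat_lit 155) (nat_lit 1) (nat_lit 157) (nat_lit 1) (nat_lit 334) (nat_lit 393) (nat_lit 293)) (XT.nd (nat_lit 78) (nat_lit 152) (nat_lit 0) (XT.lf (nat_lit 76) (nat_lit 1938382650) (nat_lit 0) (nat_lit 3176374814) (nat_lit 76) (nat_lit 3176374814) (nat_lit 155) (nat_lit 3) (nat_lit 154) (nat_lit 1) (nat_lit 155) (nat_lit 1) (nat_lit 335) (nat_lit 393) (nat_lit 292)) (XT.lf (nat_lit 152) (nat_lit 7397316483) (nat_lit 0) (nat_lit 380335534) (nat_lit 76) (nat_lit 380335534) (nat_lit 154) (nat_lit 1) (nat_lit 152)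 (nat_lit 1) (nat_lit 153) (nat_lit 1) (nat_lit 336) (nat_lit 393) (nat_lit 291))))) (XT.nd (nat_lit 234) (nat_lit 228) (nat_lit 0) (XT.nd (nat_lit 78) (nat_lit 228) (nat_lit 0) (XT.lf (nat_lit 0) (nat_lit 2318181035) (nat_lit 0) (nat_lit 3387605213) (nat_lit 152) (nat_lit 2318181035) (nat_lit 152) (nat_lit 3) (nat_lit 152) (nat_lit 1) (nat_lit 154) (nat_lit 1) (nat_lit 337) (nat_lit 393) (nat_lit 290)) (XT.nd (nat_lit 78) (nat_lit 152) (nat_lit 0) (XT.lf (nat_lit 76) (nat_lit 1952242884) (nat_lit 0) (nat_lit 2970742101) (nat_lit 76) (nat_lit 2970742101) (nat_lit 152) (nat_lit 3) (nat_lit 151) (nat_lit 1) (nat_lit 152) (nat_lit 1) (nat_lit 338) (nat_lit 393) (nat_lit 289)) (XT.lf (nat_lit 152) (nat_lit 7141357348) (nat_lit 0) (nat_lit 312902985) (nat_lit 76) (nat_lit 312902985) (nat_lit 151) (nat_lit 1) (nat_lit 149) (nat_lit 1) (nat_lit 150) (nat_lit 1) (nat_lit 339) (nat_lit 393) (nat_lit 288))))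 (XT.nd (nat_lit 156) (nat_lit 152) (nat_lit 0) (XT.nd (nat_lit 78) (nat_lit 76) (nat_lit 0) (XT.lf (nat_lit 0) (nat_lit 2253260740) (nat_lit 0) (nat_lit 3133078658) (nat_lit 152) (nat_lit 2253260740) (nat_lit 149) (nat_lit 3) (nat_lit 149) (nat_lit 1) (nat_lit 151) (nat_lit 1) (nat_lit 340) (nat_lit 393) (nat_lit 287)) (XT.lf (nat_lit 76) (nat_lit 1946620462) (nat_lit 0) (nat_lit 2784542288) (nat_lit 76) (nat_lit 2784542288) (nat_lit 149) (nat_lit 3) (nat_lit 148) (nat_lit 1) (nat_lit 149) (nat_lit 1) (nat_lit 341) (nat_lit 393) (nat_lit 286))) (XT.nd (nat_lit 78) (nat_lit 0) (nat_lit 0) (XT.lf (nat_lit 152) (nat_lit 6880514050) (nat_lit 0) (nat_lit 257426060) (nat_lit 76) (nat_lit 257426060) (nat_lit 148) (nat_lit 1) (nat_lit 146) (nat_lit 1) (nat_lit 147) (nat_lit 1) (nat_lit 342) (nat_lit 393) (nat_lit 285)) (XT.lf (nat_lit 0) (nat_lit 2183370298) (nat_lit 0) (nat_lit 2907198676) (nat_lit 152)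 (nat_lit 2183370298) (nat_lit 146) (nat_lit 3) (nat_lit 146) (nat_lit 1) (nat_lit 148) (nat_lit 1) (nat_lit 343) (nat_lit 393) (nat_lit 284))))))))
noncomputable def ec227 : XT := (XT.nd (nat_lit 1950) (nat_lit 1976) (nat_lit 0) (XT.nd (nat_lit 936) (nat_lit 988) (nat_lit 0) (XT.nd (nat_lit 468) (nat_lit 456) (nat_lit 0) (XT.nd (nat_lit 234) (nat_lit 228) (nat_lit 0) (XT.nd (nat_lit 78) (nat_lit 152) (nat_lit 0) (XT.lf (nat_lit 76) (nat_lit 1925780338) (nat_lit 0) (nat_lit 2615140698) (nat_lit 76) (nat_lit 2615140698) (nat_lit 146) (nat_lit 3) (nat_lit 145) (nat_lit 1) (nat_lit 146) (nat_lit 1) (nat_lit 344) (nat_lit 393) (nat_lit 283)) (XT.nd (nat_lit 78) (nat_lit 0) (nat_lit 0) (XT.lf (nat_lit 152) (nat_lit 6618046115) (nat_lit 0) (nat_lit 211785056) (nat_lit 76) (nat_lit 211785056) (nat_lit 145) (nat_lit 1) (nat_lit 143) (nat_lit 1) (nat_lit 144) (nat_lit 1) (nat_lit 345) (nat_lit 393) (nat_lit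 282)) (XT.lf (nat_lit 0) (nat_lit 2110175681) (nat_lit 0) (nat_lit 2705671079) (nat_lit 152) (nat_lit 2110175681) (nat_lit 143) (nat_lit 3) (nat_lit 143) (nat_lit 1) (nat_lit 145) (nat_lit 1) (nat_lit 346) (nat_lit 393) (nat_lit 281)))) (XT.nd (nat_lit 78) (nat_lit 152) (nat_lit 0) (XT.lf (nat_lit 76) (nat_lit 1893192694) (nat_lit 0) (nat_lit 2460331169) (nat_lit 76) (nat_lit 2460331169) (nat_lit 143) (nat_lit 3) (nat_lit 142) (nat_lit 1) (nat_lit 143) (nat_lit 1) (nat_lit 347) (nat_lit 393) (nat_lit 280)) (XT.nd (nat_lit 78) (nat_lit 0) (nat_lit 0) (XT.lf (nat_lit 152) (nat_lit 6356521181) (nat_lit 0) (nat_lit 174236090) (nat_lit 76) (nat_lit 174236090) (nat_lit 142) (nat_lit 1) (nat_lit 140) (nat_lit 1) (nat_lit 141) (nat_lit 1) (nat_lit 348) (nat_lit 393) (nat_lit 279)) (XT.lf (nat_lit 0) (nat_lit 2035010120) (nat_lit 0) (nat_lit 2524925658) (nat_lit 152) (nat_lit 2035010120) (nat_lit 140) (nat_lit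 3) (nat_lit 140) (nat_lit 1) (nat_lit 142) (nat_lit 1) (nat_lit 349) (nat_lit 393) (nat_lit 278))))) (XT.nd (nat_lit 234) (nat_lit 228) (nat_lit 0) (XT.nd (nat_lit 78) (nat_lit 152) (nat_lit 0) (XT.lf (nat_lit 76) (nat_lit 1851675690) (nat_lit 0) (nat_lit 2318261917) (nat_lit 76) (nat_lit 2318261917) (nat_lit 140) (nat_lit 3) (nat_lit 139) (nat_lit 1) (nat_lit 140) (nat_lit 1) (nat_lit 350) (nat_lit 393) (nat_lit 277)) (XT.nd (nat_lit 78) (nat_lit 0) (nat_lit 0) (XT.lf (nat_lit 152) (nat_lit 6097943102) (nat_lit 0) (nat_lit 143344462) (nat_lit 76) (nat_lit 143344462) (nat_lit 139) (nat_lit 1) (nat_lit 137) (nat_lit 1) (nat_lit 138) (nat_lit 1) (nat_lit 351) (nat_lit 393) (nat_lit 276)) (XT.lf (nat_lit 0) (nat_lit 1958934877) (nat_lit 0) (nat_lit 2361989602) (nat_lit 152) (nat_lit 1958934877) (nat_lit 137) (nat_lit 3) (nat_lit 137) (nat_lit 1) (nat_lit 139) (nat_lit 1) (nat_lit 352) (nat_lit 393)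 (nat_lit 275)))) (XT.nd (nat_lit 78) (nat_lit 152) (nat_lit 0) (XT.lf (nat_lit 76) (nat_lit 1803512816) (nat_lit 0) (nat_lit 2187374460) (nat_lit 76) (nat_lit 2187374460) (nat_lit 137) (nat_lit 3) (nat_lit 136) (nat_lit 1) (nat_lit 137) (nat_lit 1) (nat_lit 353) (nat_lit 393) (nat_lit 274)) (XT.nd (nat_lit 78) (nat_lit 0) (nat_lit 0) (XT.lf (nat_lit 152) (nat_lit 5843857066) (nat_lit 0) (nat_lit 117929844) (nat_lit 76) (nat_lit 117929844) (nat_lit 136) (nat_lit 1) (nat_lit 134) (nat_lit 1) (nat_lit 135) (nat_lit 1) (nat_lit 354) (nat_lit 393) (nat_lit 273)) (XT.lf (nat_lit 0) (nat_lit 1882789156) (nat_lit 0) (nat_lit 2214383276) (nat_lit 152) (nat_lit 1882789156) (nat_lit 134) (nat_lit 3) (nat_lit 134) (nat_lit 1) (nat_lit 136) (nat_lit 1) (nat_lit 355) (nat_lit 393) (nat_lit 272)))))) (XT.nd (nat_lit 468) (nat_lit 532) (nat_lit 0) (XT.nd (nat_lit 234) (nat_lit 228) (nat_lit 0) (XT.nd (nat_lit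 78) (nat_lit 152) (nat_lit 0) (XT.lf (nat_lit 76) (nat_lit 1750549356) (nat_lit 0) (nat_lit 2066353280) (nat_lit 76) (nat_lit 2066353280) (nat_lit 134) (nat_lit 3) (nat_lit 133) (nat_lit 1) (nat_lit 134) (nat_lit 1) (nat_lit 356) (nat_lit 393) (nat_lit 271)) (XT.nd (nat_lit 78) (nat_lit 0) (nat_lit 0) (XT.lf (nat_lit 152) (nat_lit 5595435847) (nat_lit 0) (nat_lit 97021174) (nat_lit 76) (nat_lit 97021174) (nat_lit 133) (nat_lit 1) (nat_lit 131) (nat_lit 1) (nat_lit 132) (nat_lit 1) (nat_lit 357) (nat_lit 393) (nat_lit 270)) (XT.lf (nat_lit 0) (nat_lit 1807231094) (nat_lit 0) (nat_lit 2080034397) (nat_lit 152) (nat_lit 1807231094) (nat_lit 131) (nat_lit 3) (nat_lit 131) (nat_lit 1) (nat_lit 133) (nat_lit 1) (nat_lit 358) (nat_lit 393) (nat_lit 269)))) (XT.nd (nat_lit 78) (nat_lit 152) (nat_lit 0) (XT.lf (nat_lit 76) (nat_lit 1694271667) (nat_lit 0) (nat_lit 1954084336) (nat_lit 76) (nat_lit 1954084336)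 (nat_lit 131) (nat_lit 3) (nat_lit 130) (nat_lit 1) (nat_lit 131) (nat_lit 1) (nat_lit 359) (nat_lit 393) (nat_lit 268)) (XT.nd (nat_lit 78) (nat_lit 0) (nat_lit 0) (XT.lf (nat_lit 152) (nat_lit 5353550516) (nat_lit 0) (nat_lit 79819560) (nat_lit 76) (nat_lit 79819560) (nat_lit 130) (nat_lit 1) (nat_lit 128) (nat_lit 1) (nat_lit 129) (nat_lit 1) (nat_lit 360) (nat_lit 393) (nat_lit 267)) (XT.lf (nat_lit 0) (nat_lit 1732771394) (nat_lit 0) (nat_lit 1957207347) (nat_lit 152) (nat_lit 1732771394) (nat_lit 128) (nat_lit 3) (nat_lit 128) (nat_lit 1) (nat_lit 130) (nat_lit 1) (nat_lit 361) (nat_lit 393) (nat_lit 266))))) (XT.nd (nat_lit 234) (nat_lit 304) (nat_lit 0) (XT.nd (nat_lit 78) (nat_lit 152) (nat_lit 0) (XT.lf (nat_lit 76) (nat_lit 1635872331) (nat_lit 0) (nat_lit 1849620857) (nat_lit 76) (nat_lit 1849620857) (nat_lit 128) (nat_lit 3) (nat_lit 127) (nat_lit 1) (nat_lit 128) (nat_lit 1) (nat_lit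 362) (nat_lit 393) (nat_lit 265)) (XT.nd (nat_lit 78) (nat_lit 0) (nat_lit 0) (XT.lf (nat_lit 152) (nat_lit 5118828398) (nat_lit 0) (nat_lit 65667750) (nat_lit 76) (nat_lit 65667750) (nat_lit 127) (nat_lit 1) (nat_lit 125) (nat_lit 1) (nat_lit 126) (nat_lit 1) (nat_lit 363) (nat_lit 393) (nat_lit 264)) (XT.lf (nat_lit 0) (nat_lit 1659800934) (nat_lit 0) (nat_lit 1844444947) (nat_lit 152) (nat_lit 1659800934) (nat_lit 125) (nat_lit 3) (nat_lit 125) (nat_lit 1) (nat_lit 127) (nat_lit 1) (nat_lit 364) (nat_lit 393) (nat_lit 263)))) (XT.nd (nat_lit 156) (nat_lit 76) (nat_lit 0) (XT.nd (nat_lit 78) (nat_lit 152) (nat_lit 0) (XT.lf (nat_lit 76) (nat_lit 1576303679) (nat_lit 0) (nat_lit 1752155121) (nat_lit 76) (nat_lit 1752155121) (nat_lit 125) (nat_lit 3) (nat_lit 124) (nat_lit 1) (nat_lit 125) (nat_lit 1) (nat_lit 365) (nat_lit 393) (nat_lit 262)) (XT.lf (nat_lit 152) (nat_lit 4891700543) (nat_lit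 0) (nat_lit 54025020) (nat_lit 76) (nat_lit 54025020) (nat_lit 124) (nat_lit 1) (nat_lit 122) (nat_lit 1) (nat_lit 123) (nat_lit 1) (nat_lit 366) (nat_lit 393) (nat_lit 261))) (XT.nd (nat_lit 78) (nat_lit 76) (nat_lit 0) (XT.lf (nat_lit 0) (nat_lit 1588613402) (nat_lit 0) (nat_lit 1740520489) (nat_lit 152) (nat_lit 1588613402) (nat_lit 122) (nat_lit 3) (nat_lit 122) (nat_lit 1) (nat_lit 124) (nat_lit 1) (nat_lit 367) (nat_lit 393) (nat_lit 260)) (XT.lf (nat_lit 76) (nat_lit 1516321761) (nat_lit 0) (nat_lit 1660995177) (nat_lit 76) (nat_lit 1660995177) (nat_lit 122) (nat_lit 3) (nat_lit 121) (nat_lit 1) (nat_lit 122) (nat_lit 1) (nat_lit 368) (nat_lit 393) (nat_lit 259))))))) (XT.nd (nat_lit 1014) (nat_lit 912) (nat_lit 0) (XT.nd (nat_lit 468) (nat_lit 608) (nat_lit 0) (XT.nd (nat_lit 234) (nat_lit 228) (nat_lit 0) (XT.nd (nat_lit 78) (nat_lit 76) (nat_lit 0) (XT.lf (nat_lit 152) (nat_lit 4672440574)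 (nat_lit 0) (nat_lit 44446518) (nat_lit 76) (nat_lit 44446518) (nat_lit 121) (nat_lit 1) (nat_lit 119) (nat_lit 1) (nat_lit 120) (nat_lit 1) (nat_lit 369) (nat_lit 393) (nat_lit 258)) (XT.nd (nat_lit 78) (nat_lit 76) (nat_lit 0) (XT.lf (nat_lit 0) (nat_lit 1519423859) (nat_lit 0) (nat_lit 1644398196) (nat_lit 152) (nat_lit 1519423859) (nat_lit 119) (nat_lit 3) (nat_lit 119) (nat_lit 1) (nat_lit 121) (nat_lit 1) (nat_lit 370) (nat_lit 393) (nat_lit 257)) (XT.lf (nat_lit 76) (nat_lit 1456522450) (nat_lit 0) (nat_lit 1575545627) (nat_lit 76) (nat_lit 1575545627) (nat_lit 119) (nat_lit 3) (nat_lit 118) (nat_lit 1) (nat_lit 119) (nat_lit 1) (nat_lit 371) (nat_lit 393) (nat_lit 256)))) (XT.nd (nat_lit 78) (nat_lit 76) (nat_lit 0) (XT.lf (nat_lit 152) (nat_lit 4461196452) (nat_lit 0) (nat_lit 36566260) (nat_lit 76) (nat_lit 36566260) (nat_lit 118) (nat_lit 1) (nat_lit 116) (nat_lit 1) (nat_lit 117) (nat_lit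 1) (nat_lit 372) (nat_lit 393) (nat_lit 255)) (XT.nd (nat_lit 78) (nat_lit 76) (nat_lit 0) (XT.lf (nat_lit 0) (nat_lit 1452383943) (nat_lit 0) (nat_lit 1555200639) (nat_lit 152) (nat_lit 1452383943) (nat_lit 116) (nat_lit 3) (nat_lit 116) (nat_lit 1) (nat_lit 118) (nat_lit 1) (nat_lit 373) (nat_lit 393) (nat_lit 254)) (XT.lf (nat_lit 76) (nat_lit 1397371085) (nat_lit 0) (nat_lit 1495291748) (nat_lit 76) (nat_lit 1495291748) (nat_lit 116) (nat_lit 3) (nat_lit 115) (nat_lit 1) (nat_lit 116) (nat_lit 1) (nat_lit 374) (nat_lit 393) (nat_lit 253))))) (XT.nd (nat_lit 234) (nat_lit 380) (nat_lit 0) (XT.nd (nat_lit 78) (nat_lit 76) (nat_lit 0) (XT.lf (nat_lit 152) (nat_lit 4258016437) (nat_lit 0) (nat_lit 30083152) (nat_lit 76) (nat_lit 30083152) (nat_lit 115) (nat_lit 1) (nat_lit 113) (nat_lit 1) (nat_lit 114) (nat_lit 1) (nat_lit 375) (nat_lit 393) (nat_lit 252)) (XT.nd (nat_lit 78) (nat_lit 76) (nat_lit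 0) (XT.lf (nat_lit 0) (nat_lit 1387594315) (nat_lit 0) (nat_lit 1472181865) (nat_lit 152) (nat_lit 1387594315) (nat_lit 113) (nat_lit 3) (nat_lit 113) (nat_lit 1) (nat_lit 115) (nat_lit 1) (nat_lit 376) (nat_lit 393) (nat_lit 251)) (XT.lf (nat_lit 76) (nat_lit 1339226803) (nat_lit 0) (nat_lit 1419786375) (nat_lit 76) (nat_lit 1419786375) (nat_lit 113) (nat_lit 3) (nat_lit 112) (nat_lit 1) (nat_lit 113) (nat_lit 1) (nat_lit 377) (nat_lit 393) (nat_lit 250)))) (XT.nd (nat_lit 156) (nat_lit 228) (nat_lit 0) (XT.nd (nat_lit 78) (nat_lit 0) (nat_lit 0) (XT.lf (nat_lit 152) (nat_lit 4062870256) (nat_lit 0) (nat_lit 24749484) (nat_lit 76) (nat_lit 24749484) (nat_lit 112) (nat_lit 1) (nat_lit 110) (nat_lit 1) (nat_lit 111) (nat_lit 1) (nat_lit 378) (nat_lit 393) (nat_lit 249)) (XT.lf (nat_lit 0) (nat_lit 1325114849) (nat_lit 0) (nat_lit 1394705236) (nat_lit 152) (nat_lit 1325114849) (nat_lit 110) (nat_lit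 3) (nat_lit 110) (nat_lit 1) (nat_lit 112) (nat_lit 1) (nat_lit 379) (nat_lit 393) (nat_lit 248))) (XT.nd (nat_lit 78) (nat_lit 152) (nat_lit 0) (XT.lf (nat_lit 76) (nat_lit 1282362494) (nat_lit 0) (nat_lit 1348639053) (nat_lit 76) (nat_lit 1348639053) (nat_lit 110) (nat_lit 3) (nat_lit 109) (nat_lit 1) (nat_lit 110) (nat_lit 1) (nat_lit 380) (nat_lit 393) (nat_lit 247)) (XT.lf (nat_lit 152) (nat_lit 3875666363) (nat_lit 0) (nat_lit 20361462) (nat_lit 76) (nat_lit 20361462) (nat_lit 109) (nat_lit 1) (nat_lit 107) (nat_lit 1) (nat_lit 108) (nat_lit 1) (nat_lit 381) (nat_lit 393) (nat_lit 246)))))) (XT.nd (nat_lit 468) (nat_lit 456) (nat_lit 0) (XT.nd (nat_lit 234) (nat_lit 228) (nat_lit 0) (XT.nd (nat_lit 78) (nat_lit 228) (nat_lit 0) (XT.lf (nat_lit 0) (nat_lit 1264972954) (nat_lit 0) (nat_lit 1322225137) (nat_lit 152) (nat_lit 1264972954) (nat_lit 107) (nat_lit 3) (nat_lit 107) (nat_lit 1) (nat_lit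 109) (nat_lit 1) (nat_lit 382) (nat_lit 393) (nat_lit 245)) (XT.nd (nat_lit 78) (nat_lit 152) (nat_lit 0) (XT.lf (nat_lit 76) (nat_lit 1226981168) (nat_lit 0) (nat_lit 1281507057) (nat_lit 76) (nat_lit 1281507057) (nat_lit 107) (nat_lit 3) (nat_lit 106) (nat_lit 1) (nat_lit 107) (nat_lit 1) (nat_lit 383) (nat_lit 393) (nat_lit 244)) (XT.lf (nat_lit 152) (nat_lit 3696265973) (nat_lit 0) (nat_lit 16751425) (nat_lit 76) (nat_lit 16751425) (nat_lit 106) (nat_lit 1) (nat_lit 104) (nat_lit 1) (nat_lit 105) (nat_lit 1) (nat_lit 384) (nat_lit 393) (nat_lit 243)))) (XT.nd (nat_lit 78) (nat_lit 228) (nat_lit 0) (XT.lf (nat_lit 0) (nat_lit 1207170368) (nat_lit 0) (nat_lit 1254271881) (nat_lit 152) (nat_lit 1207170368) (nat_lit 104) (nat_lit 3) (nat_lit 104) (nat_lit 1) (nat_lit 106) (nat_lit 1) (nat_lit 385) (nat_lit 393) (nat_lit 242)) (XT.nd (nat_lit 78) (nat_lit 152) (nat_lit 0) (XT.lf (nat_lit 76) (nat_lit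 1173229367) (nat_lit 0) (nat_lit 1218087951) (nat_lit 76) (nat_lit 1218087951) (nat_lit 104) (nat_lit 3) (nat_lit 103) (nat_lit 1) (nat_lit 104) (nat_lit 1) (nat_lit 386) (nat_lit 393) (nat_lit 241)) (XT.lf (nat_lit 152) (nat_lit 3524494463) (nat_lit 0) (nat_lit 13781438) (nat_lit 76) (nat_lit 13781438) (nat_lit 103) (nat_lit 1) (nat_lit 101) (nat_lit 1) (nat_lit 102) (nat_lit 1) (nat_lit 387) (nat_lit 393) (nat_lit 240))))) (XT.nd (nat_lit 234) (nat_lit 228) (nat_lit 0) (XT.nd (nat_lit 78) (nat_lit 228) (nat_lit 0) (XT.lf (nat_lit 0) (nat_lit 1151688705) (nat_lit 0) (nat_lit 1190439236) (nat_lit 152) (nat_lit 1151688705) (nat_lit 101) (nat_lit 3) (nat_lit 101) (nat_lit 1) (nat_lit 103) (nat_lit 1) (nat_lit 388) (nat_lit 393) (nat_lit 239)) (XT.nd (nat_lit 78) (nat_lit 152) (nat_lit 0) (XT.lf (nat_lit 76) (nat_lit 1121208155) (nat_lit 0) (nat_lit 1158113423) (nat_lit 76) (nat_lit 1158113423) (nat_lit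 101) (nat_lit 3) (nat_lit 100) (nat_lit 1) (nat_lit 101) (nat_lit 1) (nat_lit 389) (nat_lit 393) (nat_lit 238)) (XT.lf (nat_lit 152) (nat_lit 3360150603) (nat_lit 0) (nat_lit 11338023) (nat_lit 76) (nat_lit 11338023) (nat_lit 100) (nat_lit 1) (nat_lit 98) (nat_lit 1) (nat_lit 99) (nat_lit 1) (nat_lit 390) (nat_lit 393) (nat_lit 237)))) (XT.nd (nat_lit 156) (nat_lit 152) (nat_lit 0) (XT.nd (nat_lit 78) (nat_lit 76) (nat_lit 0) (XT.lf (nat_lit 0) (nat_lit 1098493963) (nat_lit 0) (nat_lit 1130374121) (nat_lit 152) (nat_lit 1098493963) (nat_lit 98) (nat_lit 3) (nat_lit 98) (nat_lit 1) (nat_lit 100) (nat_lit 1) (nat_lit 391) (nat_lit 393) (nat_lit 236)) (XT.lf (nat_lit 76) (nat_lit 1070982107) (nat_lit 0) (nat_lit 1101344162) (nat_lit 76) (nat_lit 1101344162) (nat_lit 98) (nat_lit 3) (nat_lit 97) (nat_lit 1) (nat_lit 98) (nat_lit 1) (nat_lit 392) (nat_lit 393) (nat_lit 235))) (XT.nd (nat_lit 78) (nat_lit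 0) (nat_lit 0) (XT.lf (nat_lit 152) (nat_lit 3203014013) (nat_lit 0) (nat_lit 9327820) (nat_lit 76) (nat_lit 9327820) (nat_lit 97) (nat_lit 1) (nat_lit 95) (nat_lit 1) (nat_lit 96) (nat_lit 1) (nat_lit 393) (nat_lit 393) (nat_lit 234)) (XT.lf (nat_lit 0) (nat_lit 1047540192) (nat_lit 0) (nat_lit 1073768077) (nat_lit 152) (nat_lit 1047540192) (nat_lit 95) (nat_lit 3) (nat_lit 95) (nat_lit 1) (nat_lit 97) (nat_lit 1) (nat_lit 394) (nat_lit 393) (nat_lit 233))))))))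
noncomputable def ec228 : XT := (XT.nd (nat_lit 1950) (nat_lit 1976) (nat_lit 0) (XT.nd (nat_lit 936) (nat_lit 988) (nat_lit 0) (XT.nd (nat_lit 468) (nat_lit 456) (nat_lit 0) (XT.nd (nat_lit 234) (nat_lit 228) (nat_lit 0) (XT.nd (nat_lit 78) (nat_lit 152) (nat_lit 0) (XT.lf (nat_lit 76) (nat_lit 1022586660) (nat_lit 0) (nat_lit 1047565598) (nat_lit 76) (nat_lit 1047565598) (nat_lit 95) (nat_lit 3) (nat_lit 94) (nat_lit 1) (nat_lit 95) (nat_lit 1) (nat_lit 395) (nat_lit 393) (nat_lit 232)) (XT.nd (nat_lit 78) (nat_lit 0) (nat_lit 0) (XT.lf (nat_lit 152) (nat_lit 3052851170) (nat_lit 0) (nat_lit 7674020) (nat_lit 76) (nat_lit 7674020) (nat_lit 94) (nat_lit 1) (nat_lit 92) (nat_lit 1) (nat_lit 93) (nat_lit 1) (nat_lit 396) (nat_lit 393) (nat_lit 231)) (XT.lf (nat_lit 0) (nat_lit 998772471) (nat_lit 0) (nat_lit 1020350216) (nat_lit 152) (nat_lit 998772471) (nat_lit 92) (nat_lit 3) (nat_lit 92) (nat_lit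 1) (nat_lit 94) (nat_lit 1) (nat_lit 397) (nat_lit 393) (nat_lit 230)))) (XT.nd (nat_lit 78) (nat_lit 152) (nat_lit 0) (XT.lf (nat_lit 76) (nat_lit 976034129) (nat_lit 0) (nat_lit 996584364) (nat_lit 76) (nat_lit 996584364) (nat_lit 92) (nat_lit 3) (nat_lit 91) (nat_lit 1) (nat_lit 92) (nat_lit 1) (nat_lit 398) (nat_lit 393) (nat_lit 229)) (XT.nd (nat_lit 78) (nat_lit 0) (nat_lit 0) (XT.lf (nat_lit 152) (nat_lit 2909420227) (nat_lit 0) (nat_lit 6313435) (nat_lit 76) (nat_lit 6313435) (nat_lit 91) (nat_lit 1) (nat_lit 89) (nat_lit 1) (nat_lit 90) (nat_lit 1) (nat_lit 399) (nat_lit 393) (nat_lit 228)) (XT.lf (nat_lit 0) (nat_lit 952129309) (nat_lit 0) (nat_lit 969881374) (nat_lit 152) (nat_lit 952129309) (nat_lit 89) (nat_lit 3) (nat_lit 89) (nat_lit 1) (nat_lit 91) (nat_lit 1) (nat_lit 400) (nat_lit 393) (nat_lit 227))))) (XT.nd (nat_lit 234) (nat_lit 228) (nat_lit 0) (XT.nd (nat_lit 78) (nat_lit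 152) (nat_lit 0) (XT.lf (nat_lit 76) (nat_lit 931318602) (nat_lit 0) (nat_lit 948225330) (nat_lit 76) (nat_lit 948225330) (nat_lit 89) (nat_lit 3) (nat_lit 88) (nat_lit 1) (nat_lit 89) (nat_lit 1) (nat_lit 401) (nat_lit 393) (nat_lit 226)) (XT.nd (nat_lit 78) (nat_lit 0) (nat_lit 0) (XT.lf (nat_lit 152) (nat_lit 2772474854) (nat_lit 0) (nat_lit 5194079) (nat_lit 76) (nat_lit 5194079) (nat_lit 88) (nat_lit 1) (nat_lit 86) (nat_lit 1) (nat_lit 87) (nat_lit 1) (nat_lit 402) (nat_lit 393) (nat_lit 225)) (XT.lf (nat_lit 0) (nat_lit 907544592) (nat_lit 0) (nat_lit 922149260) (nat_lit 152) (nat_lit 907544592) (nat_lit 86) (nat_lit 3) (nat_lit 86) (nat_lit 1) (nat_lit 88) (nat_lit 1) (nat_lit 403) (nat_lit 393) (nat_lit 224)))) (XT.nd (nat_lit 78) (nat_lit 152) (nat_lit 0) (XT.lf (nat_lit 76) (nat_lit 888419935) (nat_lit 0) (nat_lit 902329143) (nat_lit 76) (nat_lit 902329143) (nat_lit 86) (nat_lit 3) (nat_lit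 85) (nat_lit 1) (nat_lit 86) (nat_lit 1) (nat_lit 404) (nat_lit 393) (nat_lit 223)) (XT.nd (nat_lit 78) (nat_lit 0) (nat_lit 0) (XT.lf (nat_lit 152) (nat_lit 2641767288) (nat_lit 0) (nat_lit 4273181) (nat_lit 76) (nat_lit 4273181) (nat_lit 85) (nat_lit 1) (nat_lit 83) (nat_lit 1) (nat_lit 84) (nat_lit 1) (nat_lit 405) (nat_lit 393) (nat_lit 222)) (XT.lf (nat_lit 0) (nat_lit 864949138) (nat_lit 0) (nat_lit 876964434) (nat_lit 152) (nat_lit 864949138) (nat_lit 83) (nat_lit 3) (nat_lit 83) (nat_lit 1) (nat_lit 85) (nat_lit 1) (nat_lit 406) (nat_lit 393) (nat_lit 221)))))) (XT.nd (nat_lit 468) (nat_lit 532) (nat_lit 0) (XT.nd (nat_lit 234) (nat_lit 228) (nat_lit 0) (XT.nd (nat_lit 78) (nat_lit 152) (nat_lit 0) (XT.lf (nat_lit 76) (nat_lit 847307010) (nat_lit 0) (nat_lit 858750149) (nat_lit 76) (nat_lit 858750149) (nat_lit 83) (nat_lit 3) (nat_lit 82) (nat_lit 1) (nat_lit 83) (nat_lit 1) (nat_lit 407)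 (nat_lit 393) (nat_lit 220)) (XT.nd (nat_lit 78) (nat_lit 0) (nat_lit 0) (XT.lf (nat_lit 152) (nat_lit 2517050738) (nat_lit 0) (nat_lit 3515557) (nat_lit 76) (nat_lit 3515557) (nat_lit 82) (nat_lit 1) (nat_lit 80) (nat_lit 1) (nat_lit 81) (nat_lit 1) (nat_lit 408) (nat_lit 393) (nat_lit 219)) (XT.lf (nat_lit 0) (nat_lit 824271944) (nat_lit 0) (nat_lit 834156958) (nat_lit 152) (nat_lit 824271944) (nat_lit 80) (nat_lit 3) (nat_lit 80) (nat_lit 1) (nat_lit 82) (nat_lit 1) (nat_lit 409) (nat_lit 393) (nat_lit 218)))) (XT.nd (nat_lit 78) (nat_lit 152) (nat_lit 0) (XT.lf (nat_lit 76) (nat_lit 807940365) (nat_lit 0) (nat_lit 817354664) (nat_lit 76) (nat_lit 817354664) (nat_lit 80) (nat_lit 3) (nat_lit 79) (nat_lit 1) (nat_lit 80) (nat_lit 1) (nat_lit 410) (nat_lit 393) (nat_lit 217)) (XT.nd (nat_lit 78) (nat_lit 0) (nat_lit 0) (XT.lf (nat_lit 152) (nat_lit 2398081254) (nat_lit 0) (nat_lit 2892257) (nat_lit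 76) (nat_lit 2892257) (nat_lit 79) (nat_lit 1) (nat_lit 77) (nat_lit 1) (nat_lit 78) (nat_lit 1) (nat_lit 411) (nat_lit 393) (nat_lit 216)) (XT.lf (nat_lit 0) (nat_lit 785441186) (nat_lit 0) (nat_lit 793573611) (nat_lit 152) (nat_lit 785441186) (nat_lit 77) (nat_lit 3) (nat_lit 77) (nat_lit 1) (nat_lit 79) (nat_lit 1) (nat_lit 412) (nat_lit 393) (nat_lit 215))))) (XT.nd (nat_lit 234) (nat_lit 304) (nat_lit 0) (XT.nd (nat_lit 78) (nat_lit 152) (nat_lit 0) (XT.lf (nat_lit 76) (nat_lit 770274338) (nat_lit 0) (nat_lit 778019506) (nat_lit 76) (nat_lit 778019506) (nat_lit 77) (nat_lit 3) (nat_lit 76) (nat_lit 1) (nat_lit 77) (nat_lit 1) (nat_lit 413) (nat_lit 393) (nat_lit 214)) (XT.nd (nat_lit 78) (nat_lit 0) (nat_lit 0) (XT.lf (nat_lit 152) (nat_lit 2284619175) (nat_lit 0) (nat_lit 2379467) (nat_lit 76) (nat_lit 2379467) (nat_lit 76) (nat_lit 1) (nat_lit 74) (nat_lit 1) (nat_lit 75) (nat_lit 1) (nat_lit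 414) (nat_lit 393) (nat_lit 213)) (XT.lf (nat_lit 0) (nat_lit 748384995) (nat_lit 0) (nat_lit 755075562) (nat_lit 152) (nat_lit 748384995) (nat_lit 74) (nat_lit 3) (nat_lit 74) (nat_lit 1) (nat_lit 76) (nat_lit 1) (nat_lit 415) (nat_lit 393) (nat_lit 212)))) (XT.nd (nat_lit 156) (nat_lit 76) (nat_lit 0) (XT.nd (nat_lit 78) (nat_lit 152) (nat_lit 0) (XT.lf (nat_lit 76) (nat_lit 734258796) (nat_lit 0) (nat_lit 740630764) (nat_lit 76) (nat_lit 740630764) (nat_lit 74) (nat_lit 3) (nat_lit 73) (nat_lit 1) (nat_lit 74) (nat_lit 1) (nat_lit 416) (nat_lit 393) (nat_lit 211)) (XT.lf (nat_lit 152) (nat_lit 2176430224) (nat_lit 0) (nat_lit 1957593) (nat_lit 76) (nat_lit 1957593) (nat_lit 73) (nat_lit 1) (nat_lit 71) (nat_lit 1) (nat_lit 72) (nat_lit 1) (nat_lit 417) (nat_lit 393) (nat_lit 210))) (XT.nd (nat_lit 78) (nat_lit 76) (nat_lit 0) (XT.lf (nat_lit 0) (nat_lit 713032081) (nat_lit 0) (nat_lit 718536426)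 (nat_lit 152) (nat_lit 713032081) (nat_lit 71) (nat_lit 3) (nat_lit 71) (nat_lit 1) (nat_lit 73) (nat_lit 1) (nat_lit 418) (nat_lit 393) (nat_lit 209)) (XT.lf (nat_lit 76) (nat_lit 699840520) (nat_lit 0) (nat_lit 705082754) (nat_lit 76) (nat_lit 705082754) (nat_lit 71) (nat_lit 3) (nat_lit 70) (nat_lit 1) (nat_lit 71) (nat_lit 1) (nat_lit 419) (nat_lit 393) (nat_lit 208))))))) (XT.nd (nat_lit 936) (nat_lit 1064) (nat_lit 0) (XT.nd (nat_lit 468) (nat_lit 456) (nat_lit 0) (XT.nd (nat_lit 234) (nat_lit 228) (nat_lit 0) (XT.nd (nat_lit 78) (nat_lit 76) (nat_lit 0) (XT.lf (nat_lit 152) (nat_lit 2073286316) (nat_lit 0) (nat_lit 1610517) (nat_lit 76) (nat_lit 1610517) (nat_lit 70) (nat_lit 1) (nat_lit 68) (nat_lit 1) (nat_lit 69) (nat_lit 1) (nat_lit 420) (nat_lit 393) (nat_lit 207)) (XT.nd (nat_lit 78) (nat_lit 76) (nat_lit 0) (XT.lf (nat_lit 0) (nat_lit 679312203) (nat_lit 0) (nat_lit 683840642) (nat_lit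 152) (nat_lit 679312203) (nat_lit 68) (nat_lit 3) (nat_lit 68) (nat_lit 1) (nat_lit 70) (nat_lit 1) (nat_lit 421) (nat_lit 393) (nat_lit 206)) (XT.lf (nat_lit 76) (nat_lit 666964329) (nat_lit 0) (nat_lit 671277128) (nat_lit 76) (nat_lit 671277128) (nat_lit 68) (nat_lit 3) (nat_lit 67) (nat_lit 1) (nat_lit 68) (nat_lit 1) (nat_lit 422) (nat_lit 393) (nat_lit 205)))) (XT.nd (nat_lit 78) (nat_lit 76) (nat_lit 0) (XT.lf (nat_lit 152) (nat_lit 1974966150) (nat_lit 0) (nat_lit 1324976) (nat_lit 76) (nat_lit 1324976) (nat_lit 67) (nat_lit 1) (nat_lit 65) (nat_lit 1) (nat_lit 66) (nat_lit 1) (nat_lit 423) (nat_lit 393) (nat_lit 204)) (XT.nd (nat_lit 78) (nat_lit 76) (nat_lit 0) (XT.lf (nat_lit 0) (nat_lit 647156541) (nat_lit 0) (nat_lit 650882099) (nat_lit 152) (nat_lit 647156541) (nat_lit 65) (nat_lit 3) (nat_lit 65) (nat_lit 1) (nat_lit 67) (nat_lit 1) (nat_lit 424) (nat_lit 393) (nat_lit 203)) (XT.lf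 (nat_lit 76) (nat_lit 635573968) (nat_lit 0) (nat_lit 639122118) (nat_lit 76) (nat_lit 639122118) (nat_lit 65) (nat_lit 3) (nat_lit 64) (nat_lit 1) (nat_lit 65) (nat_lit 1) (nat_lit 425) (nat_lit 393) (nat_lit 202))))) (XT.nd (nat_lit 234) (nat_lit 228) (nat_lit 0) (XT.nd (nat_lit 78) (nat_lit 76) (nat_lit 0) (XT.lf (nat_lit 152) (nat_lit 1881255603) (nat_lit 0) (nat_lit 1090061) (nat_lit 76) (nat_lit 1090061) (nat_lit 64) (nat_lit 1) (nat_lit 62) (nat_lit 1) (nat_lit 63) (nat_lit 1) (nat_lit 426) (nat_lit 393) (nat_lit 201)) (XT.nd (nat_lit 78) (nat_lit 76) (nat_lit 0) (XT.lf (nat_lit 0) (nat_lit 616497965) (nat_lit 0) (nat_lit 619562990) (nat_lit 152) (nat_lit 616497965) (nat_lit 62) (nat_lit 3) (nat_lit 62) (nat_lit 1) (nat_lit 64) (nat_lit 1) (nat_lit 427) (nat_lit 393) (nat_lit 200)) (XT.lf (nat_lit 76) (nat_lit 605612813) (nat_lit 0) (nat_lit 608531885) (nat_lit 76) (nat_lit 608531885) (nat_lit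 62) (nat_lit 3) (nat_lit 61) (nat_lit 1) (nat_lit 62) (nat_lit 1) (nat_lit 428) (nat_lit 393) (nat_lit 199)))) (XT.nd (nat_lit 78) (nat_lit 76) (nat_lit 0) (XT.lf (nat_lit 152) (nat_lit 1791947987) (nat_lit 0) (nat_lit 896796) (nat_lit 76) (nat_lit 896796) (nat_lit 61) (nat_lit 1) (nat_lit 59) (nat_lit 1) (nat_lit 60) (nat_lit 1) (nat_lit 429) (nat_lit 393) (nat_lit 198)) (XT.nd (nat_lit 78) (nat_lit 76) (nat_lit 0) (XT.lf (nat_lit 0) (nat_lit 587271236) (nat_lit 0) (nat_lit 589792840) (nat_lit 152) (nat_lit 587271236) (nat_lit 59) (nat_lit 3) (nat_lit 59) (nat_lit 1) (nat_lit 61) (nat_lit 1) (nat_lit 430) (nat_lit 393) (nat_lit 197)) (XT.lf (nat_lit 76) (nat_lit 577024433) (nat_lit 0) (nat_lit 579425961) (nat_lit 76) (nat_lit 579425961) (nat_lit 59) (nat_lit 3) (nat_lit 58) (nat_lit 1) (nat_lit 59) (nat_lit 1) (nat_lit 431) (nat_lit 393) (nat_lit 196)))))) (XT.nd (nat_lit 468) (nat_lit 608) (nat_lit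 0) (XT.nd (nat_lit 234) (nat_lit 228) (nat_lit 0) (XT.nd (nat_lit 78) (nat_lit 76) (nat_lit 0) (XT.lf (nat_lit 152) (nat_lit 1706844183) (nat_lit 0) (nat_lit 737796) (nat_lit 76) (nat_lit 737796) (nat_lit 58) (nat_lit 1) (nat_lit 56) (nat_lit 1) (nat_lit 57) (nat_lit 1) (nat_lit 432) (nat_lit 393) (nat_lit 195)) (XT.nd (nat_lit 78) (nat_lit 76) (nat_lit 0) (XT.lf (nat_lit 0) (nat_lit 559413151) (nat_lit 0) (nat_lit 561487681) (nat_lit 152) (nat_lit 559413151) (nat_lit 56) (nat_lit 3) (nat_lit 56) (nat_lit 1) (nat_lit 58) (nat_lit 1) (nat_lit 433) (nat_lit 393) (nat_lit 194)) (XT.lf (nat_lit 76) (nat_lit 549753022) (nat_lit 0) (nat_lit 551728765) (nat_lit 76) (nat_lit 551728765) (nat_lit 56) (nat_lit 3) (nat_lit 55) (nat_lit 1) (nat_lit 56) (nat_lit 1) (nat_lit 434) (nat_lit 393) (nat_lit 193)))) (XT.nd (nat_lit 78) (nat_lit 76) (nat_lit 0) (XT.lf (nat_lit 152) (nat_lit 1625752685) (nat_lit 0) (nat_lit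 606987) (nat_lit 76) (nat_lit 606987) (nat_lit 55) (nat_lit 1) (nat_lit 53) (nat_lit 1) (nat_lit 54) (nat_lit 1) (nat_lit 435) (nat_lit 393) (nat_lit 192)) (XT.nd (nat_lit 78) (nat_lit 76) (nat_lit 0) (XT.lf (nat_lit 0) (nat_lit 532862634) (nat_lit 0) (nat_lit 534569355) (nat_lit 152) (nat_lit 532862634) (nat_lit 53) (nat_lit 3) (nat_lit 53) (nat_lit 1) (nat_lit 55) (nat_lit 1) (nat_lit 436) (nat_lit 393) (nat_lit 191)) (XT.lf (nat_lit 76) (nat_lit 523743737) (nat_lit 0) (nat_lit 525369185) (nat_lit 76) (nat_lit 525369185) (nat_lit 53) (nat_lit 3) (nat_lit 52) (nat_lit 1) (nat_lit 53) (nat_lit 1) (nat_lit 437) (nat_lit 393) (nat_lit 190))))) (XT.nd (nat_lit 234) (nat_lit 380) (nat_lit 0) (XT.nd (nat_lit 78) (nat_lit 76) (nat_lit 0) (XT.lf (nat_lit 152) (nat_lit 1548489568) (nat_lit 0) (nat_lit 499369) (nat_lit 76) (nat_lit 499369) (nat_lit 52) (nat_lit 1) (nat_lit 50) (nat_lit 1) (nat_lit 51) (nat_lit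 1) (nat_lit 438) (nat_lit 393) (nat_lit 189)) (XT.nd (nat_lit 78) (nat_lit 76) (nat_lit 0) (XT.lf (nat_lit 0) (nat_lit 507560788) (nat_lit 0) (nat_lit 508964912) (nat_lit 152) (nat_lit 507560788) (nat_lit 50) (nat_lit 3) (nat_lit 50) (nat_lit 1) (nat_lit 52) (nat_lit 1) (nat_lit 439) (nat_lit 393) (nat_lit 188)) (XT.lf (nat_lit 76) (nat_lit 498942949) (nat_lit 0) (nat_lit 500280210) (nat_lit 76) (nat_lit 500280210) (nat_lit 50) (nat_lit 3) (nat_lit 49) (nat_lit 1) (nat_lit 50) (nat_lit 1) (nat_lit 440) (nat_lit 393) (nat_lit 187)))) (XT.nd (nat_lit 156) (nat_lit 228) (nat_lit 0) (XT.nd (nat_lit 78) (nat_lit 0) (nat_lit 0) (XT.lf (nat_lit 152) (nat_lit 1474878401) (nat_lit 0) (nat_lit 410832) (nat_lit 76) (nat_lit 410832) (nat_lit 49) (nat_lit 1) (nat_lit 47) (nat_lit 1) (nat_lit 48) (nat_lit 1) (nat_lit 441) (nat_lit 393) (nat_lit 186)) (XT.lf (nat_lit 0) (nat_lit 483450927) (nat_lit 0) (nat_lit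 484606103) (nat_lit 152) (nat_lit 483450927) (nat_lit 47) (nat_lit 3) (nat_lit 47) (nat_lit 1) (nat_lit 49) (nat_lit 1) (nat_lit 442) (nat_lit 393) (nat_lit 185))) (XT.nd (nat_lit 78) (nat_lit 152) (nat_lit 0) (XT.lf (nat_lit 76) (nat_lit 475298438) (nat_lit 0) (nat_lit 476398606) (nat_lit 76) (nat_lit 476398606) (nat_lit 47) (nat_lit 3) (nat_lit 46) (nat_lit 1) (nat_lit 47) (nat_lit 1) (nat_lit 443) (nat_lit 393) (nat_lit 184)) (XT.lf (nat_lit 152) (nat_lit 1404750112) (nat_lit 0) (nat_lit 337993) (nat_lit 76) (nat_lit 337993) (nat_lit 46) (nat_lit 1) (nat_lit 44) (nat_lit 1) (nat_lit 45) (nat_lit 1) (nat_lit 444) (nat_lit 393) (nat_lit 183))))))))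
noncomputable def ec229 : XT := (XT.nd (nat_lit 38298) (nat_lit 0) (nat_lit 12692) (XT.nd (nat_lit 37284) (nat_lit 0) (nat_lit 16264) (XT.nd (nat_lit 36816) (nat_lit 0) (nat_lit 19076) (XT.nd (nat_lit 36582) (nat_lit 0) (nat_lit 18924) (XT.nd (nat_lit 78) (nat_lit 76) (nat_lit 0) (XT.lf (nat_lit 0) (nat_lit 460478569) (nat_lit 0) (nat_lit 461428935) (nat_lit 152) (nat_lit 460478569) (nat_lit 44) (nat_lit 3) (nat_lit 44) (nat_lit 1) (nat_lit 46) (nat_lit 1) (nat_lit 445) (nat_lit 393) (nat_lit 182)) (XT.nd (nat_lit 36426) (nat_lit 0) (nat_lit 18924) (XT.lf (nat_lit 76) (nat_lit 452759524) (nat_lit 0) (nat_lit 453664635) (nat_lit 76) (nat_lit 453664635) (nat_lit 44) (nat_lit 3) (nat_lit 43) (nat_lit 1) (nat_lit 44) (nat_lit 1) (nat_lit 446) (nat_lit 393) (nat_lit 181)) (XT.lf (nat_lit 836) (nat_lit 7489827728) (nat_lit 0) (nat_lit 13298171916) (nat_lit 836) (nat_lit 7489827728) (nat_lit 303) (nat_lit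 1) (nat_lit 292) (nat_lit 0) (nat_lit 303) (nat_lit 0) (nat_lit 232) (nat_lit 394) (nat_lit 394)))) (XT.nd (nat_lit 78) (nat_lit 0) (nat_lit 76) (XT.lf (nat_lit 836) (nat_lit 29031507345) (nat_lit 76) (nat_lit 13083685272) (nat_lit 0) (nat_lit 13083685272) (nat_lit 303) (nat_lit 1) (nat_lit 293) (nat_lit 1) (nat_lit 292) (nat_lit 0) (nat_lit 233) (nat_lit 394) (nat_lit 393)) (XT.nd (nat_lit 78) (nat_lit 0) (nat_lit 0) (XT.lf (nat_lit 836) (nat_lit 13835979273) (nat_lit 0) (nat_lit 26212087747) (nat_lit 760) (nat_lit 13835979273) (nat_lit 304) (nat_lit 1) (nat_lit 293) (nat_lit 1) (nat_lit 303) (nat_lit 1) (nat_lit 234) (nat_lit 394) (nat_lit 392)) (XT.lf (nat_lit 836) (nat_lit 25954374559) (nat_lit 76) (nat_lit 13328659498) (nat_lit 0) (nat_lit 13328659498) (nat_lit 304) (nat_lit 1) (nat_lit 294) (nat_lit 1) (nat_lit 293) (nat_lit 1) (nat_lit 235) (nat_lit 394) (nat_lit 391))))) (XT.nd (nat_lit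 234) (nat_lit 0) (nat_lit 76) (XT.nd (nat_lit 78) (nat_lit 0) (nat_lit 0) (XT.lf (nat_lit 836) (nat_lit 11946549367) (nat_lit 0) (nat_lit 27486569280) (nat_lit 760) (nat_lit 11946549367) (nat_lit 305) (nat_lit 1) (nat_lit 294) (nat_lit 1) (nat_lit 304) (nat_lit 1) (nat_lit 236) (nat_lit 394) (nat_lit 390)) (XT.nd (nat_lit 78) (nat_lit 0) (nat_lit 76) (XT.lf (nat_lit 836) (nat_lit 21486647140) (nat_lit 76) (nat_lit 14349276091) (nat_lit 0) (nat_lit 14349276091) (nat_lit 305) (nat_lit 1) (nat_lit 295) (nat_lit 1) (nat_lit 294) (nat_lit 1) (nat_lit 237) (nat_lit 394) (nat_lit 389)) (XT.lf (nat_lit 836) (nat_lit 9421274180) (nat_lit 0) (nat_lit 30188288391) (nat_lit 760) (nat_lit 9421274180) (nat_lit 306) (nat_lit 1) (nat_lit 295) (nat_lit 1) (nat_lit 305) (nat_lit 1) (nat_lit 238) (nat_lit 394) (nat_lit 388)))) (XT.nd (nat_lit 78) (nat_lit 0) (nat_lit 76) (XT.lf (nat_lit 836) (nat_lit 15837451170)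 (nat_lit 76) (nat_lit 16035403284) (nat_lit 0) (nat_lit 16035403284) (nat_lit 306) (nat_lit 1) (nat_lit 296) (nat_lit 1) (nat_lit 295) (nat_lit 1) (nat_lit 239) (nat_lit 394) (nat_lit 387)) (XT.nd (nat_lit 78) (nat_lit 0) (nat_lit 0) (XT.lf (nat_lit 836) (nat_lit 6357911749) (nat_lit 0) (nat_lit 34110948020) (nat_lit 760) (nat_lit 6357911749) (nat_lit 307) (nat_lit 1) (nat_lit 296) (nat_lit 1) (nat_lit 306) (nat_lit 1) (nat_lit 240) (nat_lit 394) (nat_lit 386)) (XT.lf (nat_lit 836) (nat_lit 9192668182) (nat_lit 76) (nat_lit 18288958787) (nat_lit 0) (nat_lit 18288958787) (nat_lit 307) (nat_lit 1) (nat_lit 297) (nat_lit 1) (nat_lit 296) (nat_lit 1) (nat_lit 241) (nat_lit 394) (nat_lit 385)))))) (XT.nd (nat_lit 468) (nat_lit 1368) (nat_lit 0) (XT.nd (nat_lit 234) (nat_lit 380) (nat_lit 0) (XT.nd (nat_lit 78) (nat_lit 1292) (nat_lit 0) (XT.lf (nat_lit 76) (nat_lit 2843291344) (nat_lit 0) (nat_lit 39070935701)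 (nat_lit 760) (nat_lit 2843291344) (nat_lit 298) (nat_lit 1) (nat_lit 297) (nat_lit 1) (nat_lit 307) (nat_lit 1) (nat_lit 242) (nat_lit 394) (nat_lit 384)) (XT.nd (nat_lit 78) (nat_lit 532) (nat_lit 0) (XT.lf (nat_lit 836) (nat_lit 1717277265) (nat_lit 0) (nat_lit 21022703331) (nat_lit 760) (nat_lit 21022703331) (nat_lit 298) (nat_lit 1) (nat_lit 287) (nat_lit 1) (nat_lit 297) (nat_lit 1) (nat_lit 243) (nat_lit 394) (nat_lit 383)) (XT.lf (nat_lit 532) (nat_lit 40753152196) (nat_lit 0) (nat_lit 1028718610) (nat_lit 456) (nat_lit 1028718610) (nat_lit 287) (nat_lit 1) (nat_lit 280) (nat_lit 1) (nat_lit 286) (nat_lit 1) (nat_lit 244) (nat_lit 394) (nat_lit 382)))) (XT.nd (nat_lit 78) (nat_lit 380) (nat_lit 0) (XT.lf (nat_lit 76) (nat_lit 17817207211) (nat_lit 0) (nat_lit 6236328032) (nat_lit 532) (nat_lit 17817207211) (nat_lit 281) (nat_lit 1) (nat_lit 280) (nat_lit 1) (nat_lit 287) (nat_lit 1) (nat_lit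 245) (nat_lit 394) (nat_lit 381)) (XT.nd (nat_lit 78) (nat_lit 0) (nat_lit 0) (XT.lf (nat_lit 456) (nat_lit 30658840132) (nat_lit 0) (nat_lit 5156010086) (nat_lit 380) (nat_lit 5156010086) (nat_lit 281) (nat_lit 1) (nat_lit 275) (nat_lit 1) (nat_lit 280) (nat_lit 1) (nat_lit 246) (nat_lit 394) (nat_lit 380)) (XT.lf (nat_lit 76) (nat_lit 12708797007) (nat_lit 0) (nat_lit 14672302151) (nat_lit 456) (nat_lit 12708797007) (nat_lit 276) (nat_lit 1) (nat_lit 275) (nat_lit 1) (nat_lit 281) (nat_lit 1) (nat_lit 247) (nat_lit 394) (nat_lit 379))))) (XT.nd (nat_lit 234) (nat_lit 684) (nat_lit 0) (XT.nd (nat_lit 78) (nat_lit 304) (nat_lit 0) (XT.lf (nat_lit 456) (nat_lit 20189281009) (nat_lit 0) (nat_lit 9525166320) (nat_lit 380) (nat_lit 9525166320) (nat_lit 276) (nat_lit 1) (nat_lit 270) (nat_lit 1) (nat_lit 275) (nat_lit 1) (nat_lit 248) (nat_lit 394) (nat_lit 378)) (XT.nd (nat_lit 78) (nat_lit 304) (nat_lit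 0) (XT.lf (nat_lit 76) (nat_lit 7439481735) (nat_lit 0) (nat_lit 23535096743) (nat_lit 456) (nat_lit 7439481735) (nat_lit 271) (nat_lit 1) (nat_lit 270) (nat_lit 1) (nat_lit 276) (nat_lit 1) (nat_lit 249) (nat_lit 394) (nat_lit 377)) (XT.lf (nat_lit 380) (nat_lit 9441919862) (nat_lit 0) (nat_lit 14083911437) (nat_lit 304) (nat_lit 14083911437) (nat_lit 271) (nat_lit 1) (nat_lit 266) (nat_lit 1) (nat_lit 270) (nat_lit 1) (nat_lit 250) (nat_lit 394) (nat_lit 376)))) (XT.nd (nat_lit 156) (nat_lit 304) (nat_lit 0) (XT.nd (nat_lit 78) (nat_lit 380) (nat_lit 0) (XT.lf (nat_lit 76) (nat_lit 2054498759) (nat_lit 0) (nat_lit 32727357829) (nat_lit 380) (nat_lit 2054498759) (nat_lit 267) (nat_lit 1) (nat_lit 266) (nat_lit 1) (nat_lit 271) (nat_lit 1) (nat_lit 251) (nat_lit 394) (nat_lit 375)) (XT.lf (nat_lit 76) (nat_lit 17311796910) (nat_lit 0) (nat_lit 1449896619) (nat_lit 380) (nat_lit 17311796910) (nat_lit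 262) (nat_lit 1) (nat_lit 261) (nat_lit 1) (nat_lit 266) (nat_lit 1) (nat_lit 252) (nat_lit 394) (nat_lit 374))) (XT.nd (nat_lit 78) (nat_lit 0) (nat_lit 0) (XT.lf (nat_lit 380) (nat_lit 28636442189) (nat_lit 0) (nat_lit 3351617555) (nat_lit 304) (nat_lit 3351617555) (nat_lit 262) (nat_lit 1) (nat_lit 257) (nat_lit 1) (nat_lit 261) (nat_lit 1) (nat_lit 253) (nat_lit 394) (nat_lit 373)) (XT.lf (nat_lit 76) (nat_lit 11232471572) (nat_lit 0) (nat_lit 12153509741) (nat_lit 380) (nat_lit 11232471572) (nat_lit 258) (nat_lit 1) (nat_lit 257) (nat_lit 1) (nat_lit 262) (nat_lit 1) (nat_lit 254) (nat_lit 394) (nat_lit 372))))))) (XT.nd (nat_lit 1014) (nat_lit 1520) (nat_lit 0) (XT.nd (nat_lit 468) (nat_lit 912) (nat_lit 0) (XT.nd (nat_lit 234) (nat_lit 608) (nat_lit 0) (XT.nd (nat_lit 78) (nat_lit 228) (nat_lit 0) (XT.lf (nat_lit 380) (nat_lit 16391300654) (nat_lit 0) (nat_lit 8765468671) (nat_lit 304) (nat_lit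 8765468671) (nat_lit 258) (nat_lit 1) (nat_lit 253) (nat_lit 1) (nat_lit 257) (nat_lit 1) (nat_lit 255) (nat_lit 394) (nat_lit 371)) (XT.nd (nat_lit 78) (nat_lit 228) (nat_lit 0) (XT.lf (nat_lit 76) (nat_lit 5169084694) (nat_lit 0) (nat_lit 22908211103) (nat_lit 380) (nat_lit 5169084694) (nat_lit 254) (nat_lit 1) (nat_lit 253) (nat_lit 1) (nat_lit 258) (nat_lit 1) (nat_lit 256) (nat_lit 394) (nat_lit 370)) (XT.lf (nat_lit 304) (nat_lit 4203795194) (nat_lit 0) (nat_lit 14190658426) (nat_lit 228) (nat_lit 14190658426) (nat_lit 254) (nat_lit 1) (nat_lit 250) (nat_lit 1) (nat_lit 253) (nat_lit 1) (nat_lit 257) (nat_lit 394) (nat_lit 369)))) (XT.nd (nat_lit 78) (nat_lit 228) (nat_lit 0) (XT.lf (nat_lit 380) (nat_lit 30269520428) (nat_lit 0) (nat_lit 839921111) (nat_lit 304) (nat_lit 839921111) (nat_lit 250) (nat_lit 1) (nat_lit 245) (nat_lit 1) (nat_lit 249) (nat_lit 1) (nat_lit 258) (nat_lit 394) (nat_lit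 368)) (XT.nd (nat_lit 78) (nat_lit 228) (nat_lit 0) (XT.lf (nat_lit 76) (nat_lit 11844687122) (nat_lit 0) (nat_lit 7627757806) (nat_lit 380) (nat_lit 11844687122) (nat_lit 246) (nat_lit 1) (nat_lit 245) (nat_lit 1) (nat_lit 250) (nat_lit 1) (nat_lit 259) (nat_lit 394) (nat_lit 367)) (XT.lf (nat_lit 304) (nat_lit 17299540003) (nat_lit 0) (nat_lit 6704804586) (nat_lit 228) (nat_lit 6704804586) (nat_lit 246) (nat_lit 1) (nat_lit 242) (nat_lit 1) (nat_lit 245) (nat_lit 1) (nat_lit 260) (nat_lit 394) (nat_lit 366))))) (XT.nd (nat_lit 234) (nat_lit 380) (nat_lit 0) (XT.nd (nat_lit 78) (nat_lit 532) (nat_lit 0) (XT.lf (nat_lit 76) (nat_lit 5465192283) (nat_lit 0) (nat_lit 19186228586) (nat_lit 304) (nat_lit 5465192283) (nat_lit 243) (nat_lit 1) (nat_lit 242) (nat_lit 1) (nat_lit 246) (nat_lit 1) (nat_lit 261) (nat_lit 394) (nat_lit 365)) (XT.nd (nat_lit 78) (nat_lit 304) (nat_lit 0) (XT.lf (nat_lit 304)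 (nat_lit 4555066947) (nat_lit 0) (nat_lit 12491245109) (nat_lit 228) (nat_lit 12491245109) (nat_lit 243) (nat_lit 1) (nat_lit 239) (nat_lit 1) (nat_lit 242) (nat_lit 1) (nat_lit 262) (nat_lit 394) (nat_lit 364)) (XT.lf (nat_lit 304) (nat_lit 27414343225) (nat_lit 0) (nat_lit 782835308) (nat_lit 228) (nat_lit 782835308) (nat_lit 239) (nat_lit 1) (nat_lit 235) (nat_lit 1) (nat_lit 238) (nat_lit 1) (nat_lit 263) (nat_lit 394) (nat_lit 363)))) (XT.nd (nat_lit 156) (nat_lit 152) (nat_lit 0) (XT.nd (nat_lit 78) (nat_lit 228) (nat_lit 0) (XT.lf (nat_lit 76) (nat_lit 10370060944) (nat_lit 0) (nat_lit 7684111033) (nat_lit 304) (nat_lit 10370060944) (nat_lit 236) (nat_lit 1) (nat_lit 235) (nat_lit 1) (nat_lit 239) (nat_lit 1) (nat_lit 264) (nat_lit 394) (nat_lit 362)) (XT.lf (nat_lit 304) (nat_lit 14259783342) (nat_lit 0) (nat_lit 6814616322) (nat_lit 228) (nat_lit 6814616322) (nat_lit 236) (nat_lit 1) (nat_lit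 232) (nat_lit 1) (nat_lit 235) (nat_lit 1) (nat_lit 265) (nat_lit 394) (nat_lit 361))) (XT.nd (nat_lit 78) (nat_lit 152) (nat_lit 0) (XT.lf (nat_lit 76) (nat_lit 3927132702) (nat_lit 0) (nat_lit 19513888406) (nat_lit 304) (nat_lit 3927132702) (nat_lit 233) (nat_lit 1) (nat_lit 232) (nat_lit 1) (nat_lit 236) (nat_lit 1) (nat_lit 266) (nat_lit 394) (nat_lit 360)) (XT.lf (nat_lit 228) (nat_lit 1439031996) (nat_lit 0) (nat_lit 12709037488) (nat_lit 152) (nat_lit 12709037488) (nat_lit 233) (nat_lit 1) (nat_lit 230) (nat_lit 1) (nat_lit 232) (nat_lit 1) (nat_lit 267) (nat_lit 394) (nat_lit 359)))))) (XT.nd (nat_lit 468) (nat_lit 684) (nat_lit 0) (XT.nd (nat_lit 234) (nat_lit 380) (nat_lit 0) (XT.nd (nat_lit 78) (nat_lit 152) (nat_lit 0) (XT.lf (nat_lit 304) (nat_lit 21743290943) (nat_lit 0) (nat_lit 2309295100) (nat_lit 228) (nat_lit 2309295100) (nat_lit 230) (nat_lit 1) (nat_lit 226) (nat_lit 1) (nat_lit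 229) (nat_lit 1) (nat_lit 268) (nat_lit 394) (nat_lit 358)) (XT.nd (nat_lit 78) (nat_lit 152) (nat_lit 0) (XT.lf (nat_lit 76) (nat_lit 7594415403) (nat_lit 0) (nat_lit 10683363135) (nat_lit 304) (nat_lit 7594415403) (nat_lit 227) (nat_lit 1) (nat_lit 226) (nat_lit 1) (nat_lit 230) (nat_lit 1) (nat_lit 269) (nat_lit 394) (nat_lit 357)) (XT.lf (nat_lit 228) (nat_lit 8774175509) (nat_lit 0) (nat_lit 8311722159) (nat_lit 152) (nat_lit 8311722159) (nat_lit 227) (nat_lit 1) (nat_lit 224) (nat_lit 1) (nat_lit 226) (nat_lit 1) (nat_lit 270) (nat_lit 394) (nat_lit 356)))) (XT.nd (nat_lit 78) (nat_lit 380) (nat_lit 0) (XT.lf (nat_lit 76) (nat_lit 1260570523) (nat_lit 0) (nat_lit 22417653962) (nat_lit 228) (nat_lit 1260570523) (nat_lit 225) (nat_lit 1) (nat_lit 224) (nat_lit 1) (nat_lit 227) (nat_lit 1) (nat_lit 271) (nat_lit 394) (nat_lit 355)) (XT.nd (nat_lit 78) (nat_lit 152) (nat_lit 0) (XT.lf (nat_lit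 76) (nat_lit 10403709689) (nat_lit 0) (nat_lit 3674218672) (nat_lit 228) (nat_lit 10403709689) (nat_lit 222) (nat_lit 1) (nat_lit 221) (nat_lit 1) (nat_lit 224) (nat_lit 1) (nat_lit 272) (nat_lit 394) (nat_lit 354)) (XT.lf (nat_lit 228) (nat_lit 14447374310) (nat_lit 0) (nat_lit 4796136833) (nat_lit 152) (nat_lit 4796136833) (nat_lit 222) (nat_lit 1) (nat_lit 219) (nat_lit 1) (nat_lit 221) (nat_lit 1) (nat_lit 273) (nat_lit 394) (nat_lit 353))))) (XT.nd (nat_lit 234) (nat_lit 304) (nat_lit 0) (XT.nd (nat_lit 78) (nat_lit 380) (nat_lit 0) (XT.lf (nat_lit 76) (nat_lit 4076673164) (nat_lit 0) (nat_lit 15454080521) (nat_lit 228) (nat_lit 4076673164) (nat_lit 220) (nat_lit 1) (nat_lit 219) (nat_lit 1) (nat_lit 222) (nat_lit 1) (nat_lit 274) (nat_lit 394) (nat_lit 352)) (XT.nd (nat_lit 78) (nat_lit 228) (nat_lit 0) (XT.lf (nat_lit 228) (nat_lit 1909774603) (nat_lit 0) (nat_lit 10637071793) (nat_lit 152)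 (nat_lit 10637071793) (nat_lit 220) (nat_lit 1) (nat_lit 217) (nat_lit 1) (nat_lit 219) (nat_lit 1) (nat_lit 275) (nat_lit 394) (nat_lit 351)) (XT.lf (nat_lit 228) (nat_lit 18770498603) (nat_lit 0) (nat_lit 2001091207) (nat_lit 152) (nat_lit 2001091207) (nat_lit 217) (nat_lit 1) (nat_lit 214) (nat_lit 1) (nat_lit 216) (nat_lit 1) (nat_lit 276) (nat_lit 394) (nat_lit 350)))) (XT.nd (nat_lit 156) (nat_lit 152) (nat_lit 0) (XT.nd (nat_lit 78) (nat_lit 152) (nat_lit 0) (XT.lf (nat_lit 76) (nat_lit 6248744983) (nat_lit 0) (nat_lit 9867463745) (nat_lit 228) (nat_lit 6248744983) (nat_lit 215) (nat_lit 1) (nat_lit 214) (nat_lit 1) (nat_lit 217) (nat_lit 1) (nat_lit 277) (nat_lit 394) (nat_lit 349)) (XT.lf (nat_lit 228) (nat_lit 6364043385) (nat_lit 0) (nat_lit 7802509954) (nat_lit 152) (nat_lit 7802509954) (nat_lit 215) (nat_lit 1) (nat_lit 212) (nat_lit 1) (nat_lit 214) (nat_lit 1) (nat_lit 278) (nat_lit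 394) (nat_lit 348))) (XT.nd (nat_lit 78) (nat_lit 152) (nat_lit 0) (XT.lf (nat_lit 76) (nat_lit 209168554) (nat_lit 0) (nat_lit 21168719665) (nat_lit 228) (nat_lit 209168554) (nat_lit 213) (nat_lit 1) (nat_lit 212) (nat_lit 1) (nat_lit 215) (nat_lit 1) (nat_lit 279) (nat_lit 394) (nat_lit 347)) (XT.lf (nat_lit 76) (nat_lit 7897863563) (nat_lit 0) (nat_lit 5406894896) (nat_lit 152) (nat_lit 7897863563) (nat_lit 211) (nat_lit 1) (nat_lit 210) (nat_lit 1) (nat_lit 212) (nat_lit 1) (nat_lit 280) (nat_lit 394) (nat_lit 346))))))))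
noncomputable def ec230 : XT := (XT.nd (nat_lit 1950) (nat_lit 1900) (nat_lit 0) (XT.nd (nat_lit 936) (nat_lit 988) (nat_lit 0) (XT.nd (nat_lit 468) (nat_lit 608) (nat_lit 0) (XT.nd (nat_lit 234) (nat_lit 228) (nat_lit 0) (XT.nd (nat_lit 78) (nat_lit 152) (nat_lit 0) (XT.lf (nat_lit 228) (nat_lit 9800349569) (nat_lit 0) (nat_lit 5515682026) (nat_lit 152) (nat_lit 5515682026) (nat_lit 211) (nat_lit 1) (nat_lit 208) (nat_lit 1) (nat_lit 210) (nat_lit 1) (nat_lit 281) (nat_lit 394) (nat_lit 345)) (XT.nd (nat_lit 78) (nat_lit 152) (nat_lit 0) (XT.lf (nat_lit 76) (nat_lit 1964902356) (nat_lit 0) (nat_lit 16541012267) (nat_lit 228) (nat_lit 1964902356) (nat_lit 209) (nat_lit 1) (nat_lit 208) (nat_lit 1) (nat_lit 211) (nat_lit 1) (nat_lit 282) (nat_lit 394) (nat_lit 344)) (XT.lf (nat_lit 76) (nat_lit 9123311520) (nat_lit 0) (nat_lit 1866273480) (nat_lit 152) (nat_lit 9123311520) (nat_lit 207) (nat_lit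 1) (nat_lit 206) (nat_lit 1) (nat_lit 208) (nat_lit 1) (nat_lit 283) (nat_lit 394) (nat_lit 343)))) (XT.nd (nat_lit 78) (nat_lit 76) (nat_lit 0) (XT.lf (nat_lit 228) (nat_lit 12410043583) (nat_lit 0) (nat_lit 3677325040) (nat_lit 152) (nat_lit 3677325040) (nat_lit 207) (nat_lit 1) (nat_lit 204) (nat_lit 1) (nat_lit 206) (nat_lit 1) (nat_lit 284) (nat_lit 394) (nat_lit 342)) (XT.nd (nat_lit 78) (nat_lit 76) (nat_lit 0) (XT.lf (nat_lit 76) (nat_lit 3323976572) (nat_lit 0) (nat_lit 12775430975) (nat_lit 228) (nat_lit 3323976572) (nat_lit 205) (nat_lit 1) (nat_lit 204) (nat_lit 1) (nat_lit 207) (nat_lit 1) (nat_lit 285) (nat_lit 394) (nat_lit 341)) (XT.lf (nat_lit 152) (nat_lit 954192627) (nat_lit 0) (nat_lit 9067161312) (nat_lit 76) (nat_lit 9067161312) (nat_lit 205) (nat_lit 1) (nat_lit 203) (nat_lit 1) (nat_lit 204) (nat_lit 1) (nat_lit 286) (nat_lit 394) (nat_lit 340))))) (XT.nd (nat_lit 234) (nat_lit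 304) (nat_lit 0) (XT.nd (nat_lit 78) (nat_lit 76) (nat_lit 0) (XT.lf (nat_lit 228) (nat_lit 14350032368) (nat_lit 0) (nat_lit 2205877542) (nat_lit 152) (nat_lit 2205877542) (nat_lit 203) (nat_lit 1) (nat_lit 200) (nat_lit 1) (nat_lit 202) (nat_lit 1) (nat_lit 287) (nat_lit 394) (nat_lit 339)) (XT.nd (nat_lit 78) (nat_lit 76) (nat_lit 0) (XT.lf (nat_lit 76) (nat_lit 4360783315) (nat_lit 0) (nat_lit 9717139868) (nat_lit 228) (nat_lit 4360783315) (nat_lit 201) (nat_lit 1) (nat_lit 200) (nat_lit 1) (nat_lit 203) (nat_lit 1) (nat_lit 288) (nat_lit 394) (nat_lit 338)) (XT.lf (nat_lit 152) (nat_lit 3204395010) (nat_lit 0) (nat_lit 7459576051) (nat_lit 76) (nat_lit 7459576051) (nat_lit 201) (nat_lit 1) (nat_lit 199) (nat_lit 1) (nat_lit 200) (nat_lit 1) (nat_lit 289) (nat_lit 394) (nat_lit 337)))) (XT.nd (nat_lit 78) (nat_lit 76) (nat_lit 0) (XT.lf (nat_lit 228) (nat_lit 15748910760) (nat_lit 0) (nat_lit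 1034336276) (nat_lit 152) (nat_lit 1034336276) (nat_lit 199) (nat_lit 1) (nat_lit 196) (nat_lit 1) (nat_lit 198) (nat_lit 1) (nat_lit 290) (nat_lit 394) (nat_lit 336)) (XT.nd (nat_lit 78) (nat_lit 76) (nat_lit 0) (XT.lf (nat_lit 76) (nat_lit 5136331571) (nat_lit 0) (nat_lit 7238849483) (nat_lit 228) (nat_lit 5136331571) (nat_lit 197) (nat_lit 1) (nat_lit 196) (nat_lit 1) (nat_lit 199) (nat_lit 1) (nat_lit 291) (nat_lit 394) (nat_lit 335)) (XT.lf (nat_lit 152) (nat_lit 4940433586) (nat_lit 0) (nat_lit 6137011678) (nat_lit 76) (nat_lit 6137011678) (nat_lit 197) (nat_lit 1) (nat_lit 195) (nat_lit 1) (nat_lit 196) (nat_lit 1) (nat_lit 292) (nat_lit 394) (nat_lit 334)))))) (XT.nd (nat_lit 468) (nat_lit 456) (nat_lit 0) (XT.nd (nat_lit 234) (nat_lit 228) (nat_lit 0) (XT.nd (nat_lit 78) (nat_lit 76) (nat_lit 0) (XT.lf (nat_lit 228) (nat_lit 16712004637) (nat_lit 0) (nat_lit 107670407) (nat_lit 152) (nat_lit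 107670407) (nat_lit 195) (nat_lit 1) (nat_lit 192) (nat_lit 1) (nat_lit 194) (nat_lit 1) (nat_lit 293) (nat_lit 394) (nat_lit 333)) (XT.nd (nat_lit 78) (nat_lit 76) (nat_lit 0) (XT.lf (nat_lit 76) (nat_lit 5700629215) (nat_lit 0) (nat_lit 5235928399) (nat_lit 228) (nat_lit 5700629215) (nat_lit 193) (nat_lit 1) (nat_lit 192) (nat_lit 1) (nat_lit 195) (nat_lit 1) (nat_lit 294) (nat_lit 394) (nat_lit 332)) (XT.lf (nat_lit 152) (nat_lit 6258954443) (nat_lit 0) (nat_lit 5048934695) (nat_lit 76) (nat_lit 5048934695) (nat_lit 193) (nat_lit 1) (nat_lit 191) (nat_lit 1) (nat_lit 192) (nat_lit 1) (nat_lit 295) (nat_lit 394) (nat_lit 331)))) (XT.nd (nat_lit 78) (nat_lit 228) (nat_lit 0) (XT.lf (nat_lit 0) (nat_lit 629458131) (nat_lit 0) (nat_lit 14826009202) (nat_lit 152) (nat_lit 629458131) (nat_lit 191) (nat_lit 3) (nat_lit 191) (nat_lit 1) (nat_lit 193) (nat_lit 1) (nat_lit 296) (nat_lit 394) (nat_lit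 330)) (XT.nd (nat_lit 78) (nat_lit 76) (nat_lit 0) (XT.lf (nat_lit 76) (nat_lit 6094642258) (nat_lit 0) (nat_lit 3622381741) (nat_lit 152) (nat_lit 6094642258) (nat_lit 190) (nat_lit 1) (nat_lit 189) (nat_lit 1) (nat_lit 191) (nat_lit 1) (nat_lit 297) (nat_lit 394) (nat_lit 329)) (XT.lf (nat_lit 152) (nat_lit 7239207315) (nat_lit 0) (nat_lit 4153771069) (nat_lit 76) (nat_lit 4153771069) (nat_lit 190) (nat_lit 1) (nat_lit 188) (nat_lit 1) (nat_lit 189) (nat_lit 1) (nat_lit 298) (nat_lit 394) (nat_lit 328))))) (XT.nd (nat_lit 234) (nat_lit 228) (nat_lit 0) (XT.nd (nat_lit 78) (nat_lit 228) (nat_lit 0) (XT.lf (nat_lit 0) (nat_lit 1203086272) (nat_lit 0) (nat_lit 12882623972) (nat_lit 152) (nat_lit 1203086272) (nat_lit 188) (nat_lit 3) (nat_lit 188) (nat_lit 1) (nat_lit 190) (nat_lit 1) (nat_lit 299) (nat_lit 394) (nat_lit 327)) (XT.nd (nat_lit 78) (nat_lit 76) (nat_lit 0) (XT.lf (nat_lit 76) (nat_lit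 6351906312) (nat_lit 0) (nat_lit 2327542890) (nat_lit 152) (nat_lit 6351906312) (nat_lit 187) (nat_lit 1) (nat_lit 186) (nat_lit 1) (nat_lit 188) (nat_lit 1) (nat_lit 300) (nat_lit 394) (nat_lit 326)) (XT.lf (nat_lit 152) (nat_lit 7946142350) (nat_lit 0) (nat_lit 3417317738) (nat_lit 76) (nat_lit 3417317738) (nat_lit 187) (nat_lit 1) (nat_lit 185) (nat_lit 1) (nat_lit 186) (nat_lit 1) (nat_lit 301) (nat_lit 394) (nat_lit 325)))) (XT.nd (nat_lit 156) (nat_lit 76) (nat_lit 0) (XT.nd (nat_lit 78) (nat_lit 152) (nat_lit 0) (XT.lf (nat_lit 0) (nat_lit 1642381587) (nat_lit 0) (nat_lit 11251166157) (nat_lit 152) (nat_lit 1642381587) (nat_lit 185) (nat_lit 3) (nat_lit 185) (nat_lit 1) (nat_lit 187) (nat_lit 1) (nat_lit 302) (nat_lit 394) (nat_lit 324)) (XT.lf (nat_lit 76) (nat_lit 6499851941) (nat_lit 0) (nat_lit 1293351931) (nat_lit 152) (nat_lit 6499851941) (nat_lit 184) (nat_lit 1) (nat_lit 183) (nat_lit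 1) (nat_lit 185) (nat_lit 1) (nat_lit 303) (nat_lit 394) (nat_lit 323))) (XT.nd (nat_lit 78) (nat_lit 0) (nat_lit 0) (XT.lf (nat_lit 152) (nat_lit 8432957239) (nat_lit 0) (nat_lit 2811435760) (nat_lit 76) (nat_lit 2811435760) (nat_lit 184) (nat_lit 1) (nat_lit 182) (nat_lit 1) (nat_lit 183) (nat_lit 1) (nat_lit 304) (nat_lit 394) (nat_lit 322)) (XT.lf (nat_lit 0) (nat_lit 1972714761) (nat_lit 0) (nat_lit 9877885606) (nat_lit 152) (nat_lit 1972714761) (nat_lit 182) (nat_lit 3) (nat_lit 182) (nat_lit 1) (nat_lit 184) (nat_lit 1) (nat_lit 305) (nat_lit 394) (nat_lit 321))))))) (XT.nd (nat_lit 936) (nat_lit 988) (nat_lit 0) (XT.nd (nat_lit 468) (nat_lit 456) (nat_lit 0) (XT.nd (nat_lit 234) (nat_lit 228) (nat_lit 0) (XT.nd (nat_lit 78) (nat_lit 76) (nat_lit 0) (XT.lf (nat_lit 76) (nat_lit 6560894657) (nat_lit 0) (nat_lit 472116820) (nat_lit 152) (nat_lit 6560894657) (nat_lit 181) (nat_lit 1) (nat_lit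 180) (nat_lit 1) (nat_lit 182) (nat_lit 1) (nat_lit 306) (nat_lit 394) (nat_lit 320)) (XT.nd (nat_lit 78) (nat_lit 0) (nat_lit 0) (XT.lf (nat_lit 152) (nat_lit 8743192184) (nat_lit 0) (nat_lit 2312975157) (nat_lit 76) (nat_lit 2312975157) (nat_lit 181) (nat_lit 1) (nat_lit 179) (nat_lit 1) (nat_lit 180) (nat_lit 1) (nat_lit 307) (nat_lit 394) (nat_lit 319)) (XT.lf (nat_lit 0) (nat_lit 2214884330) (nat_lit 0) (nat_lit 8718487948) (nat_lit 152) (nat_lit 2214884330) (nat_lit 179) (nat_lit 3) (nat_lit 179) (nat_lit 1) (nat_lit 181) (nat_lit 1) (nat_lit 308) (nat_lit 394) (nat_lit 318)))) (XT.nd (nat_lit 78) (nat_lit 152) (nat_lit 0) (XT.lf (nat_lit 76) (nat_lit 181125483) (nat_lit 0) (nat_lit 6375033691) (nat_lit 76) (nat_lit 6375033691) (nat_lit 179) (nat_lit 3) (nat_lit 178) (nat_lit 1) (nat_lit 179) (nat_lit 1) (nat_lit 309) (nat_lit 394) (nat_lit 317)) (XT.nd (nat_lit 78) (nat_lit 0) (nat_lit 0)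 (XT.lf (nat_lit 152) (nat_lit 8912452889) (nat_lit 0) (nat_lit 1902890386) (nat_lit 76) (nat_lit 1902890386) (nat_lit 178) (nat_lit 1) (nat_lit 176) (nat_lit 1) (nat_lit 177) (nat_lit 1) (nat_lit 310) (nat_lit 394) (nat_lit 316)) (XT.lf (nat_lit 0) (nat_lit 2385930833) (nat_lit 0) (nat_lit 7736461625) (nat_lit 152) (nat_lit 2385930833) (nat_lit 176) (nat_lit 3) (nat_lit 176) (nat_lit 1) (nat_lit 178) (nat_lit 1) (nat_lit 311) (nat_lit 394) (nat_lit 315))))) (XT.nd (nat_lit 234) (nat_lit 228) (nat_lit 0) (XT.nd (nat_lit 78) (nat_lit 152) (nat_lit 0) (XT.lf (nat_lit 76) (nat_lit 703659816) (nat_lit 0) (nat_lit 5799403427) (nat_lit 76) (nat_lit 5799403427) (nat_lit 176) (nat_lit 3) (nat_lit 175) (nat_lit 1) (nat_lit 176) (nat_lit 1) (nat_lit 312) (nat_lit 394) (nat_lit 314)) (XT.nd (nat_lit 78) (nat_lit 0) (nat_lit 0) (XT.lf (nat_lit 152) (nat_lit 8969827564) (nat_lit 0) (nat_lit 1565512630) (nat_lit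 76) (nat_lit 1565512630) (nat_lit 175) (nat_lit 1) (nat_lit 173) (nat_lit 1) (nat_lit 174) (nat_lit 1) (nat_lit 313) (nat_lit 394) (nat_lit 313)) (XT.lf (nat_lit 0) (nat_lit 2499806452) (nat_lit 0) (nat_lit 6901701376) (nat_lit 152) (nat_lit 2499806452) (nat_lit 173) (nat_lit 3) (nat_lit 173) (nat_lit 1) (nat_lit 175) (nat_lit 1) (nat_lit 314) (nat_lit 394) (nat_lit 312)))) (XT.nd (nat_lit 78) (nat_lit 152) (nat_lit 0) (XT.lf (nat_lit 76) (nat_lit 1107138322) (nat_lit 0) (nat_lit 5299419202) (nat_lit 76) (nat_lit 5299419202) (nat_lit 173) (nat_lit 3) (nat_lit 172) (nat_lit 1) (nat_lit 173) (nat_lit 1) (nat_lit 315) (nat_lit 394) (nat_lit 311)) (XT.nd (nat_lit 78) (nat_lit 0) (nat_lit 0) (XT.lf (nat_lit 152) (nat_lit 8939052207) (nat_lit 0) (nat_lit 1287951115) (nat_lit 76) (nat_lit 1287951115) (nat_lit 172) (nat_lit 1) (nat_lit 170) (nat_lit 1) (nat_lit 171) (nat_lit 1) (nat_lit 316) (nat_lit 394)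 (nat_lit 310)) (XT.lf (nat_lit 0) (nat_lit 2567925765) (nat_lit 0) (nat_lit 6189375613) (nat_lit 152) (nat_lit 2567925765) (nat_lit 170) (nat_lit 3) (nat_lit 170) (nat_lit 1) (nat_lit 172) (nat_lit 1) (nat_lit 317) (nat_lit 394) (nat_lit 309)))))) (XT.nd (nat_lit 468) (nat_lit 532) (nat_lit 0) (XT.nd (nat_lit 234) (nat_lit 228) (nat_lit 0) (XT.nd (nat_lit 78) (nat_lit 152) (nat_lit 0) (XT.lf (nat_lit 76) (nat_lit 1413927009) (nat_lit 0) (nat_lit 4862926864) (nat_lit 76) (nat_lit 4862926864) (nat_lit 170) (nat_lit 3) (nat_lit 169) (nat_lit 1) (nat_lit 170) (nat_lit 1) (nat_lit 318) (nat_lit 394) (nat_lit 308)) (XT.nd (nat_lit 78) (nat_lit 0) (nat_lit 0) (XT.lf (nat_lit 152) (nat_lit 8839468822) (nat_lit 0) (nat_lit 1059600569) (nat_lit 76) (nat_lit 1059600569) (nat_lit 169) (nat_lit 1) (nat_lit 167) (nat_lit 1) (nat_lit 168) (nat_lit 1) (nat_lit 319) (nat_lit 394) (nat_lit 307)) (XT.lf (nat_lit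 0) (nat_lit 2599618701) (nat_lit 0) (nat_lit 5578994453) (nat_lit 152) (nat_lit 2599618701) (nat_lit 167) (nat_lit 3) (nat_lit 167) (nat_lit 1) (nat_lit 169) (nat_lit 1) (nat_lit 320) (nat_lit 394) (nat_lit 306)))) (XT.nd (nat_lit 78) (nat_lit 152) (nat_lit 0) (XT.lf (nat_lit 76) (nat_lit 1642366556) (nat_lit 0) (nat_lit 4479867272) (nat_lit 76) (nat_lit 4479867272) (nat_lit 167) (nat_lit 3) (nat_lit 166) (nat_lit 1) (nat_lit 167) (nat_lit 1) (nat_lit 321) (nat_lit 394) (nat_lit 305)) (XT.nd (nat_lit 78) (nat_lit 0) (nat_lit 0) (XT.lf (nat_lit 152) (nat_lit 8686813304) (nat_lit 0) (nat_lit 871736011) (nat_lit 76) (nat_lit 871736011) (nat_lit 166) (nat_lit 1) (nat_lit 164) (nat_lit 1) (nat_lit 165) (nat_lit 1) (nat_lit 322) (nat_lit 394) (nat_lit 304)) (XT.lf (nat_lit 0) (nat_lit 2602503043) (nat_lit 0) (nat_lit 5053642848) (nat_lit 152) (nat_lit 2602503043) (nat_lit 164) (nat_lit 3) (nat_lit 164)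 (nat_lit 1) (nat_lit 166) (nat_lit 1) (nat_lit 323) (nat_lit 394) (nat_lit 303))))) (XT.nd (nat_lit 234) (nat_lit 304) (nat_lit 0) (XT.nd (nat_lit 78) (nat_lit 152) (nat_lit 0) (XT.lf (nat_lit 76) (nat_lit 1807488845) (nat_lit 0) (nat_lit 4141907707) (nat_lit 76) (nat_lit 4141907707) (nat_lit 164) (nat_lit 3) (nat_lit 163) (nat_lit 1) (nat_lit 164) (nat_lit 1) (nat_lit 324) (nat_lit 394) (nat_lit 302)) (XT.nd (nat_lit 78) (nat_lit 0) (nat_lit 0) (XT.lf (nat_lit 152) (nat_lit 8493863211) (nat_lit 0) (nat_lit 717179373) (nat_lit 76) (nat_lit 717179373) (nat_lit 163) (nat_lit 1) (nat_lit 161) (nat_lit 1) (nat_lit 162) (nat_lit 1) (nat_lit 325) (nat_lit 394) (nat_lit 301)) (XT.lf (nat_lit 0) (nat_lit 2582790746) (nat_lit 0) (nat_lit 4599349529) (nat_lit 152) (nat_lit 2582790746) (nat_lit 161) (nat_lit 3) (nat_lit 161) (nat_lit 1) (nat_lit 163) (nat_lit 1) (nat_lit 326) (nat_lit 394) (nat_lit 300))))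 (XT.nd (nat_lit 156) (nat_lit 76) (nat_lit 0) (XT.nd (nat_lit 78) (nat_lit 152) (nat_lit 0) (XT.lf (nat_lit 76) (nat_lit 1921606323) (nat_lit 0) (nat_lit 3842138497) (nat_lit 76) (nat_lit 3842138497) (nat_lit 161) (nat_lit 3) (nat_lit 160) (nat_lit 1) (nat_lit 161) (nat_lit 1) (nat_lit 327) (nat_lit 394) (nat_lit 299)) (XT.lf (nat_lit 152) (nat_lit 8270970292) (nat_lit 0) (nat_lit 590025245) (nat_lit 76) (nat_lit 590025245) (nat_lit 160) (nat_lit 1) (nat_lit 158) (nat_lit 1) (nat_lit 159) (nat_lit 1) (nat_lit 328) (nat_lit 394) (nat_lit 298))) (XT.nd (nat_lit 78) (nat_lit 76) (nat_lit 0) (XT.lf (nat_lit 0) (nat_lit 2545539816) (nat_lit 0) (nat_lit 4204567718) (nat_lit 152) (nat_lit 2545539816) (nat_lit 158) (nat_lit 3) (nat_lit 158) (nat_lit 1) (nat_lit 160) (nat_lit 1) (nat_lit 329) (nat_lit 394) (nat_lit 297)) (XT.lf (nat_lit 76) (nat_lit 1994796731) (nat_lit 0) (nat_lit 3574823304) (nat_lit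 76) (nat_lit 3574823304) (nat_lit 158) (nat_lit 3) (nat_lit 157) (nat_lit 1) (nat_lit 158) (nat_lit 1) (nat_lit 330) (nat_lit 394) (nat_lit 296))))))))
noncomputable def ec231 : XT := (XT.nd (nat_lit 1950) (nat_lit 1900) (nat_lit 0) (XT.nd (nat_lit 936) (nat_lit 1064) (nat_lit 0) (XT.nd (nat_lit 468) (nat_lit 456) (nat_lit 0) (XT.nd (nat_lit 234) (nat_lit 228) (nat_lit 0) (XT.nd (nat_lit 78) (nat_lit 76) (nat_lit 0) (XT.lf (nat_lit 152) (nat_lit 8026498211) (nat_lit 0) (nat_lit 485415229) (nat_lit 76) (nat_lit 485415229) (nat_lit 157) (nat_lit 1) (nat_lit 155) (nat_lit 1) (nat_lit 156) (nat_lit 1) (nat_lit 331) (nat_lit 394) (nat_lit 295)) (XT.nd (nat_lit 78) (nat_lit 76) (nat_lit 0) (XT.lf (nat_lit 0) (nat_lit 2494861409) (nat_lit 0) (nat_lit 3859747770) (nat_lit 152) (nat_lit 2494861409) (nat_lit 155) (nat_lit 3) (nat_lit 155) (nat_lit 1) (nat_lit 157) (nat_lit 1) (nat_lit 332) (nat_lit 394)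 (nat_lit 294)) (XT.lf (nat_lit 76) (nat_lit 2035301783) (nat_lit 0) (nat_lit 3335193554) (nat_lit 76) (nat_lit 3335193554) (nat_lit 155) (nat_lit 3) (nat_lit 154) (nat_lit 1) (nat_lit 155) (nat_lit 1) (nat_lit 333) (nat_lit 394) (nat_lit 293)))) (XT.nd (nat_lit 78) (nat_lit 76) (nat_lit 0) (XT.lf (nat_lit 152) (nat_lit 7767182307) (nat_lit 0) (nat_lit 399352310) (nat_lit 76) (nat_lit 399352310) (nat_lit 154) (nat_lit 1) (nat_lit 152) (nat_lit 1) (nat_lit 153) (nat_lit 1) (nat_lit 334) (nat_lit 394) (nat_lit 292)) (XT.nd (nat_lit 78) (nat_lit 76) (nat_lit 0) (XT.lf (nat_lit 0) (nat_lit 2434090087) (nat_lit 0) (nat_lit 3556985473) (nat_lit 152) (nat_lit 2434090087) (nat_lit 152) (nat_lit 3) (nat_lit 152) (nat_lit 1) (nat_lit 154) (nat_lit 1) (nat_lit 335) (nat_lit 394) (nat_lit 291)) (XT.lf (nat_lit 76) (nat_lit 2049855028) (nat_lit 0) (nat_lit 3119279206) (nat_lit 76) (nat_lit 3119279206) (nat_lit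 152) (nat_lit 3) (nat_lit 151) (nat_lit 1) (nat_lit 152) (nat_lit 1) (nat_lit 336) (nat_lit 394) (nat_lit 290))))) (XT.nd (nat_lit 234) (nat_lit 228) (nat_lit 0) (XT.nd (nat_lit 78) (nat_lit 76) (nat_lit 0) (XT.lf (nat_lit 152) (nat_lit 7498425216) (nat_lit 0) (nat_lit 328548134) (nat_lit 76) (nat_lit 328548134) (nat_lit 151) (nat_lit 1) (nat_lit 149) (nat_lit 1) (nat_lit 150) (nat_lit 1) (nat_lit 337) (nat_lit 394) (nat_lit 289)) (XT.nd (nat_lit 78) (nat_lit 76) (nat_lit 0) (XT.lf (nat_lit 0) (nat_lit 2365923777) (nat_lit 0) (nat_lit 3289732591) (nat_lit 152) (nat_lit 2365923777) (nat_lit 149) (nat_lit 3) (nat_lit 149) (nat_lit 1) (nat_lit 151) (nat_lit 1) (nat_lit 338) (nat_lit 394) (nat_lit 288)) (XT.lf (nat_lit 76) (nat_lit 2043951485) (nat_lit 0) (nat_lit 2923769402) (nat_lit 76) (nat_lit 2923769402) (nat_lit 149) (nat_lit 3) (nat_lit 148) (nat_lit 1) (nat_lit 149) (nat_lit 1) (nat_lit 339)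 (nat_lit 394) (nat_lit 287)))) (XT.nd (nat_lit 78) (nat_lit 76) (nat_lit 0) (XT.lf (nat_lit 152) (nat_lit 7224539753) (nat_lit 0) (nat_lit 270297363) (nat_lit 76) (nat_lit 270297363) (nat_lit 148) (nat_lit 1) (nat_lit 146) (nat_lit 1) (nat_lit 147) (nat_lit 1) (nat_lit 340) (nat_lit 394) (nat_lit 286)) (XT.nd (nat_lit 78) (nat_lit 76) (nat_lit 0) (XT.lf (nat_lit 0) (nat_lit 2292538813) (nat_lit 0) (nat_lit 3052558610) (nat_lit 152) (nat_lit 2292538813) (nat_lit 146) (nat_lit 3) (nat_lit 146) (nat_lit 1) (nat_lit 148) (nat_lit 1) (nat_lit 341) (nat_lit 394) (nat_lit 285)) (XT.lf (nat_lit 76) (nat_lit 2022069355) (nat_lit 0) (nat_lit 2745897733) (nat_lit 76) (nat_lit 2745897733) (nat_lit 146) (nat_lit 3) (nat_lit 145) (nat_lit 1) (nat_lit 146) (nat_lit 1) (nat_lit 342) (nat_lit 394) (nat_lit 284)))))) (XT.nd (nat_lit 468) (nat_lit 608) (nat_lit 0) (XT.nd (nat_lit 234) (nat_lit 228) (nat_lit 0) (XT.nd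 (nat_lit 78) (nat_lit 76) (nat_lit 0) (XT.lf (nat_lit 152) (nat_lit 6948948420) (nat_lit 0) (nat_lit 222374309) (nat_lit 76) (nat_lit 222374309) (nat_lit 145) (nat_lit 1) (nat_lit 143) (nat_lit 1) (nat_lit 144) (nat_lit 1) (nat_lit 343) (nat_lit 394) (nat_lit 283)) (XT.nd (nat_lit 78) (nat_lit 76) (nat_lit 0) (XT.lf (nat_lit 0) (nat_lit 2215684465) (nat_lit 0) (nat_lit 2840954633) (nat_lit 152) (nat_lit 2215684465) (nat_lit 143) (nat_lit 3) (nat_lit 143) (nat_lit 1) (nat_lit 145) (nat_lit 1) (nat_lit 344) (nat_lit 394) (nat_lit 282)) (XT.lf (nat_lit 76) (nat_lit 1987852329) (nat_lit 0) (nat_lit 2583347727) (nat_lit 76) (nat_lit 2583347727) (nat_lit 143) (nat_lit 3) (nat_lit 142) (nat_lit 1) (nat_lit 143) (nat_lit 1) (nat_lit 345) (nat_lit 394) (nat_lit 281)))) (XT.nd (nat_lit 78) (nat_lit 76) (nat_lit 0) (XT.lf (nat_lit 152) (nat_lit 6674347240) (nat_lit 0) (nat_lit 182947894) (nat_lit 76) (nat_lit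 182947894) (nat_lit 142) (nat_lit 1) (nat_lit 140) (nat_lit 1) (nat_lit 141) (nat_lit 1) (nat_lit 346) (nat_lit 394) (nat_lit 280)) (XT.nd (nat_lit 78) (nat_lit 76) (nat_lit 0) (XT.lf (nat_lit 0) (nat_lit 2136760626) (nat_lit 0) (nat_lit 2651171941) (nat_lit 152) (nat_lit 2136760626) (nat_lit 140) (nat_lit 3) (nat_lit 140) (nat_lit 1) (nat_lit 142) (nat_lit 1) (nat_lit 347) (nat_lit 394) (nat_lit 279)) (XT.lf (nat_lit 76) (nat_lit 1944259475) (nat_lit 0) (nat_lit 2434175013) (nat_lit 76) (nat_lit 2434175013) (nat_lit 140) (nat_lit 3) (nat_lit 139) (nat_lit 1) (nat_lit 140) (nat_lit 1) (nat_lit 348) (nat_lit 394) (nat_lit 278))))) (XT.nd (nat_lit 234) (nat_lit 380) (nat_lit 0) (XT.nd (nat_lit 78) (nat_lit 76) (nat_lit 0) (XT.lf (nat_lit 152) (nat_lit 6402840257) (nat_lit 0) (nat_lit 150511685) (nat_lit 76) (nat_lit 150511685) (nat_lit 139) (nat_lit 1) (nat_lit 137) (nat_lit 1) (nat_lit 138) (nat_lit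 1) (nat_lit 349) (nat_lit 394) (nat_lit 277)) (XT.nd (nat_lit 78) (nat_lit 76) (nat_lit 0) (XT.lf (nat_lit 0) (nat_lit 2056881621) (nat_lit 0) (nat_lit 2480089082) (nat_lit 152) (nat_lit 2056881621) (nat_lit 137) (nat_lit 3) (nat_lit 137) (nat_lit 1) (nat_lit 139) (nat_lit 1) (nat_lit 350) (nat_lit 394) (nat_lit 276)) (XT.lf (nat_lit 76) (nat_lit 1893688457) (nat_lit 0) (nat_lit 2296743183) (nat_lit 76) (nat_lit 2296743183) (nat_lit 137) (nat_lit 3) (nat_lit 136) (nat_lit 1) (nat_lit 137) (nat_lit 1) (nat_lit 351) (nat_lit 394) (nat_lit 275)))) (XT.nd (nat_lit 156) (nat_lit 228) (nat_lit 0) (XT.nd (nat_lit 78) (nat_lit 0) (nat_lit 0) (XT.lf (nat_lit 152) (nat_lit 6136049920) (nat_lit 0) (nat_lit 123826336) (nat_lit 76) (nat_lit 123826336) (nat_lit 136) (nat_lit 1) (nat_lit 134) (nat_lit 1) (nat_lit 135) (nat_lit 1) (nat_lit 352) (nat_lit 394) (nat_lit 274)) (XT.lf (nat_lit 0) (nat_lit 1976928614)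 (nat_lit 0) (nat_lit 2325102440) (nat_lit 152) (nat_lit 1976928614) (nat_lit 134) (nat_lit 3) (nat_lit 134) (nat_lit 1) (nat_lit 136) (nat_lit 1) (nat_lit 353) (nat_lit 394) (nat_lit 273))) (XT.nd (nat_lit 78) (nat_lit 152) (nat_lit 0) (XT.lf (nat_lit 76) (nat_lit 1838076824) (nat_lit 0) (nat_lit 2169670944) (nat_lit 76) (nat_lit 2169670944) (nat_lit 134) (nat_lit 3) (nat_lit 133) (nat_lit 1) (nat_lit 134) (nat_lit 1) (nat_lit 354) (nat_lit 394) (nat_lit 272)) (XT.lf (nat_lit 152) (nat_lit 5875207640) (nat_lit 0) (nat_lit 101872233) (nat_lit 76) (nat_lit 101872233) (nat_lit 133) (nat_lit 1) (nat_lit 131) (nat_lit 1) (nat_lit 132) (nat_lit 1) (nat_lit 355) (nat_lit 394) (nat_lit 271))))))) (XT.nd (nat_lit 1014) (nat_lit 988) (nat_lit 0) (XT.nd (nat_lit 468) (nat_lit 456) (nat_lit 0) (XT.nd (nat_lit 234) (nat_lit 228) (nat_lit 0) (XT.nd (nat_lit 78) (nat_lit 228) (nat_lit 0) (XT.lf (nat_lit 0) (nat_lit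 1897592649) (nat_lit 0) (nat_lit 2184036117) (nat_lit 152) (nat_lit 1897592649) (nat_lit 131) (nat_lit 3) (nat_lit 131) (nat_lit 1) (nat_lit 133) (nat_lit 1) (nat_lit 356) (nat_lit 394) (nat_lit 270)) (XT.nd (nat_lit 78) (nat_lit 152) (nat_lit 0) (XT.lf (nat_lit 76) (nat_lit 1778985250) (nat_lit 0) (nat_lit 2051788553) (nat_lit 76) (nat_lit 2051788553) (nat_lit 131) (nat_lit 3) (nat_lit 130) (nat_lit 1) (nat_lit 131) (nat_lit 1) (nat_lit 357) (nat_lit 394) (nat_lit 269)) (XT.lf (nat_lit 152) (nat_lit 5621228042) (nat_lit 0) (nat_lit 83810538) (nat_lit 76) (nat_lit 83810538) (nat_lit 130) (nat_lit 1) (nat_lit 128) (nat_lit 1) (nat_lit 129) (nat_lit 1) (nat_lit 358) (nat_lit 394) (nat_lit 268)))) (XT.nd (nat_lit 78) (nat_lit 228) (nat_lit 0) (XT.lf (nat_lit 0) (nat_lit 1819409964) (nat_lit 0) (nat_lit 2055067714) (nat_lit 152) (nat_lit 1819409964) (nat_lit 128) (nat_lit 3) (nat_lit 128) (nat_lit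 1) (nat_lit 130) (nat_lit 1) (nat_lit 359) (nat_lit 394) (nat_lit 267)) (XT.nd (nat_lit 78) (nat_lit 152) (nat_lit 0) (XT.lf (nat_lit 76) (nat_lit 1717665947) (nat_lit 0) (nat_lit 1942101900) (nat_lit 76) (nat_lit 1942101900) (nat_lit 128) (nat_lit 3) (nat_lit 127) (nat_lit 1) (nat_lit 128) (nat_lit 1) (nat_lit 360) (nat_lit 394) (nat_lit 266)) (XT.lf (nat_lit 152) (nat_lit 5374769818) (nat_lit 0) (nat_lit 68951137) (nat_lit 76) (nat_lit 68951137) (nat_lit 127) (nat_lit 1) (nat_lit 125) (nat_lit 1) (nat_lit 126) (nat_lit 1) (nat_lit 361) (nat_lit 394) (nat_lit 265))))) (XT.nd (nat_lit 234) (nat_lit 228) (nat_lit 0) (XT.nd (nat_lit 78) (nat_lit 228) (nat_lit 0) (XT.lf (nat_lit 0) (nat_lit 1742790980) (nat_lit 0) (nat_lit 1936667195) (nat_lit 152) (nat_lit 1742790980) (nat_lit 125) (nat_lit 3) (nat_lit 125) (nat_lit 1) (nat_lit 127) (nat_lit 1) (nat_lit 362) (nat_lit 394) (nat_lit 264)) (XT.nd (nat_lit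 78) (nat_lit 152) (nat_lit 0) (XT.lf (nat_lit 76) (nat_lit 1655118863) (nat_lit 0) (nat_lit 1839762877) (nat_lit 76) (nat_lit 1839762877) (nat_lit 125) (nat_lit 3) (nat_lit 124) (nat_lit 1) (nat_lit 125) (nat_lit 1) (nat_lit 363) (nat_lit 394) (nat_lit 263)) (XT.lf (nat_lit 152) (nat_lit 5136285571) (nat_lit 0) (nat_lit 56726271) (nat_lit 76) (nat_lit 56726271) (nat_lit 124) (nat_lit 1) (nat_lit 122) (nat_lit 1) (nat_lit 123) (nat_lit 1) (nat_lit 364) (nat_lit 394) (nat_lit 262)))) (XT.nd (nat_lit 156) (nat_lit 152) (nat_lit 0) (XT.nd (nat_lit 78) (nat_lit 76) (nat_lit 0) (XT.lf (nat_lit 0) (nat_lit 1668044072) (nat_lit 0) (nat_lit 1827546513) (nat_lit 152) (nat_lit 1668044072) (nat_lit 122) (nat_lit 3) (nat_lit 122) (nat_lit 1) (nat_lit 124) (nat_lit 1) (nat_lit 365) (nat_lit 394) (nat_lit 261)) (XT.lf (nat_lit 76) (nat_lit 1592137849) (nat_lit 0) (nat_lit 1744044936) (nat_lit 76) (nat_lit 1744044936)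 (nat_lit 122) (nat_lit 3) (nat_lit 121) (nat_lit 1) (nat_lit 122) (nat_lit 1) (nat_lit 366) (nat_lit 394) (nat_lit 260))) (XT.nd (nat_lit 78) (nat_lit 0) (nat_lit 0) (XT.lf (nat_lit 152) (nat_lit 4906062602) (nat_lit 0) (nat_lit 46668843) (nat_lit 76) (nat_lit 46668843) (nat_lit 121) (nat_lit 1) (nat_lit 119) (nat_lit 1) (nat_lit 120) (nat_lit 1) (nat_lit 367) (nat_lit 394) (nat_lit 259)) (XT.lf (nat_lit 0) (nat_lit 1595395052) (nat_lit 0) (nat_lit 1726618106) (nat_lit 152) (nat_lit 1595395052) (nat_lit 119) (nat_lit 3) (nat_lit 119) (nat_lit 1) (nat_lit 121) (nat_lit 1) (nat_lit 368) (nat_lit 394) (nat_lit 258)))))) (XT.nd (nat_lit 468) (nat_lit 532) (nat_lit 0) (XT.nd (nat_lit 234) (nat_lit 228) (nat_lit 0) (XT.nd (nat_lit 78) (nat_lit 152) (nat_lit 0) (XT.lf (nat_lit 76) (nat_lit 1529348572) (nat_lit 0) (nat_lit 1654322909) (nat_lit 76) (nat_lit 1654322909) (nat_lit 119) (nat_lit 3) (nat_lit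 118) (nat_lit 1) (nat_lit 119) (nat_lit 1) (nat_lit 369) (nat_lit 394) (nat_lit 257)) (XT.nd (nat_lit 78) (nat_lit 0) (nat_lit 0) (XT.lf (nat_lit 152) (nat_lit 4684256275) (nat_lit 0) (nat_lit 38394573) (nat_lit 76) (nat_lit 38394573) (nat_lit 118) (nat_lit 1) (nat_lit 116) (nat_lit 1) (nat_lit 117) (nat_lit 1) (nat_lit 370) (nat_lit 394) (nat_lit 256)) (XT.lf (nat_lit 0) (nat_lit 1525003140) (nat_lit 0) (nat_lit 1632960671) (nat_lit 152) (nat_lit 1525003140) (nat_lit 116) (nat_lit 3) (nat_lit 116) (nat_lit 1) (nat_lit 118) (nat_lit 1) (nat_lit 371) (nat_lit 394) (nat_lit 255)))) (XT.nd (nat_lit 78) (nat_lit 152) (nat_lit 0) (XT.lf (nat_lit 76) (nat_lit 1467239639) (nat_lit 0) (nat_lit 1570056335) (nat_lit 76) (nat_lit 1570056335) (nat_lit 116) (nat_lit 3) (nat_lit 115) (nat_lit 1) (nat_lit 116) (nat_lit 1) (nat_lit 372) (nat_lit 394) (nat_lit 254)) (XT.nd (nat_lit 78) (nat_lit 0) (nat_lit 0) (XT.lf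 (nat_lit 152) (nat_lit 4470917259) (nat_lit 0) (nat_lit 31587310) (nat_lit 76) (nat_lit 31587310) (nat_lit 115) (nat_lit 1) (nat_lit 113) (nat_lit 1) (nat_lit 114) (nat_lit 1) (nat_lit 373) (nat_lit 394) (nat_lit 253)) (XT.lf (nat_lit 0) (nat_lit 1456974031) (nat_lit 0) (nat_lit 1545790958) (nat_lit 152) (nat_lit 1456974031) (nat_lit 113) (nat_lit 3) (nat_lit 113) (nat_lit 1) (nat_lit 115) (nat_lit 1) (nat_lit 374) (nat_lit 394) (nat_lit 252))))) (XT.nd (nat_lit 234) (nat_lit 304) (nat_lit 0) (XT.nd (nat_lit 78) (nat_lit 152) (nat_lit 0) (XT.lf (nat_lit 76) (nat_lit 1406188143) (nat_lit 0) (nat_lit 1490775693) (nat_lit 76) (nat_lit 1490775693) (nat_lit 113) (nat_lit 3) (nat_lit 112) (nat_lit 1) (nat_lit 113) (nat_lit 1) (nat_lit 375) (nat_lit 394) (nat_lit 251)) (XT.nd (nat_lit 78) (nat_lit 0) (nat_lit 0) (XT.lf (nat_lit 152) (nat_lit 4266013769) (nat_lit 0) (nat_lit 25986958) (nat_lit 76) (nat_lit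 25986958) (nat_lit 112) (nat_lit 1) (nat_lit 110) (nat_lit 1) (nat_lit 111) (nat_lit 1) (nat_lit 376) (nat_lit 394) (nat_lit 250)) (XT.lf (nat_lit 0) (nat_lit 1391370592) (nat_lit 0) (nat_lit 1464440498) (nat_lit 152) (nat_lit 1391370592) (nat_lit 110) (nat_lit 3) (nat_lit 110) (nat_lit 1) (nat_lit 112) (nat_lit 1) (nat_lit 377) (nat_lit 394) (nat_lit 249)))) (XT.nd (nat_lit 156) (nat_lit 76) (nat_lit 0) (XT.nd (nat_lit 78) (nat_lit 152) (nat_lit 0) (XT.lf (nat_lit 76) (nat_lit 1346480619) (nat_lit 0) (nat_lit 1416071006) (nat_lit 76) (nat_lit 1416071006) (nat_lit 110) (nat_lit 3) (nat_lit 109) (nat_lit 1) (nat_lit 110) (nat_lit 1) (nat_lit 378) (nat_lit 394) (nat_lit 248)) (XT.lf (nat_lit 152) (nat_lit 4069449681) (nat_lit 0) (nat_lit 21379535) (nat_lit 76) (nat_lit 21379535) (nat_lit 109) (nat_lit 1) (nat_lit 107) (nat_lit 1) (nat_lit 108) (nat_lit 1) (nat_lit 379) (nat_lit 394) (nat_lit 247)))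 (XT.nd (nat_lit 78) (nat_lit 76) (nat_lit 0) (XT.lf (nat_lit 0) (nat_lit 1328221601) (nat_lit 0) (nat_lit 1388336394) (nat_lit 152) (nat_lit 1328221601) (nat_lit 107) (nat_lit 3) (nat_lit 107) (nat_lit 1) (nat_lit 109) (nat_lit 1) (nat_lit 380) (nat_lit 394) (nat_lit 246)) (XT.lf (nat_lit 76) (nat_lit 1288330226) (nat_lit 0) (nat_lit 1345582410) (nat_lit 76) (nat_lit 1345582410) (nat_lit 107) (nat_lit 3) (nat_lit 106) (nat_lit 1) (nat_lit 107) (nat_lit 1) (nat_lit 381) (nat_lit 394) (nat_lit 245))))))))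
noncomputable def ec232 : XT := (XT.nd (nat_lit 1950) (nat_lit 1824) (nat_lit 0) (XT.nd (nat_lit 936) (nat_lit 1064) (nat_lit 0) (XT.nd (nat_lit 468) (nat_lit 456) (nat_lit 0) (XT.nd (nat_lit 234) (nat_lit 228) (nat_lit 0) (XT.nd (nat_lit 78) (nat_lit 76) (nat_lit 0) (XT.lf (nat_lit 152) (nat_lit 3881079272) (nat_lit 0) (nat_lit 17588996) (nat_lit 76) (nat_lit 17588996) (nat_lit 106) (nat_lit 1) (nat_lit 104) (nat_lit 1) (nat_lit 105) (nat_lit 1) (nat_lit 382) (nat_lit 394) (nat_lit 244)) (XT.nd (nat_lit 78) (nat_lit 76) (nat_lit 0) (XT.lf (nat_lit 0) (nat_lit 1267528886) (nat_lit 0) (nat_lit 1316985475) (nat_lit 152) (nat_lit 1267528886) (nat_lit 104) (nat_lit 3) (nat_lit 104) (nat_lit 1) (nat_lit 106) (nat_lit 1) (nat_lit 383) (nat_lit 394) (nat_lit 243)) (XT.lf (nat_lit 76) (nat_lit 1231890836) (nat_lit 0) (nat_lit 1278992349) (nat_lit 76) (nat_lit 1278992349) (nat_lit 104) (nat_lit 3) (nat_lit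 103) (nat_lit 1) (nat_lit 104) (nat_lit 1) (nat_lit 384) (nat_lit 394) (nat_lit 242)))) (XT.nd (nat_lit 78) (nat_lit 76) (nat_lit 0) (XT.lf (nat_lit 152) (nat_lit 3700719187) (nat_lit 0) (nat_lit 14470510) (nat_lit 76) (nat_lit 14470510) (nat_lit 103) (nat_lit 1) (nat_lit 101) (nat_lit 1) (nat_lit 102) (nat_lit 1) (nat_lit 385) (nat_lit 394) (nat_lit 241)) (XT.nd (nat_lit 78) (nat_lit 76) (nat_lit 0) (XT.lf (nat_lit 0) (nat_lit 1209273140) (nat_lit 0) (nat_lit 1249961198) (nat_lit 152) (nat_lit 1209273140) (nat_lit 101) (nat_lit 3) (nat_lit 101) (nat_lit 1) (nat_lit 103) (nat_lit 1) (nat_lit 386) (nat_lit 394) (nat_lit 240)) (XT.lf (nat_lit 76) (nat_lit 1177268563) (nat_lit 0) (nat_lit 1216019095) (nat_lit 76) (nat_lit 1216019095) (nat_lit 101) (nat_lit 3) (nat_lit 100) (nat_lit 1) (nat_lit 101) (nat_lit 1) (nat_lit 387) (nat_lit 394) (nat_lit 239))))) (XT.nd (nat_lit 234) (nat_lit 228) (nat_lit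 0) (XT.nd (nat_lit 78) (nat_lit 76) (nat_lit 0) (XT.lf (nat_lit 152) (nat_lit 3528158133) (nat_lit 0) (nat_lit 11904925) (nat_lit 76) (nat_lit 11904925) (nat_lit 100) (nat_lit 1) (nat_lit 98) (nat_lit 1) (nat_lit 99) (nat_lit 1) (nat_lit 388) (nat_lit 394) (nat_lit 238)) (XT.nd (nat_lit 78) (nat_lit 76) (nat_lit 0) (XT.lf (nat_lit 0) (nat_lit 1153418661) (nat_lit 0) (nat_lit 1186892827) (nat_lit 152) (nat_lit 1153418661) (nat_lit 98) (nat_lit 3) (nat_lit 98) (nat_lit 1) (nat_lit 100) (nat_lit 1) (nat_lit 389) (nat_lit 394) (nat_lit 237)) (XT.lf (nat_lit 76) (nat_lit 1124531212) (nat_lit 0) (nat_lit 1156411370) (nat_lit 76) (nat_lit 1156411370) (nat_lit 98) (nat_lit 3) (nat_lit 97) (nat_lit 1) (nat_lit 98) (nat_lit 1) (nat_lit 390) (nat_lit 394) (nat_lit 236)))) (XT.nd (nat_lit 78) (nat_lit 76) (nat_lit 0) (XT.lf (nat_lit 152) (nat_lit 3363164713) (nat_lit 0) (nat_lit 9794211) (nat_lit 76) (nat_lit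 9794211) (nat_lit 97) (nat_lit 1) (nat_lit 95) (nat_lit 1) (nat_lit 96) (nat_lit 1) (nat_lit 391) (nat_lit 394) (nat_lit 235)) (XT.nd (nat_lit 78) (nat_lit 76) (nat_lit 0) (XT.lf (nat_lit 0) (nat_lit 1099917202) (nat_lit 0) (nat_lit 1127456481) (nat_lit 152) (nat_lit 1099917202) (nat_lit 95) (nat_lit 3) (nat_lit 95) (nat_lit 1) (nat_lit 97) (nat_lit 1) (nat_lit 392) (nat_lit 394) (nat_lit 234)) (XT.lf (nat_lit 76) (nat_lit 1073715994) (nat_lit 0) (nat_lit 1099943878) (nat_lit 76) (nat_lit 1099943878) (nat_lit 95) (nat_lit 3) (nat_lit 94) (nat_lit 1) (nat_lit 95) (nat_lit 1) (nat_lit 393) (nat_lit 394) (nat_lit 233)))))) (XT.nd (nat_lit 468) (nat_lit 608) (nat_lit 0) (XT.nd (nat_lit 234) (nat_lit 228) (nat_lit 0) (XT.nd (nat_lit 78) (nat_lit 76) (nat_lit 0) (XT.lf (nat_lit 152) (nat_lit 3205493729) (nat_lit 0) (nat_lit 8057721) (nat_lit 76) (nat_lit 8057721) (nat_lit 94) (nat_lit 1) (nat_lit 92)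 (nat_lit 1) (nat_lit 93) (nat_lit 1) (nat_lit 394) (nat_lit 394) (nat_lit 232)) (XT.nd (nat_lit 78) (nat_lit 76) (nat_lit 0) (XT.lf (nat_lit 0) (nat_lit 1048711094) (nat_lit 0) (nat_lit 1071367727) (nat_lit 152) (nat_lit 1048711094) (nat_lit 92) (nat_lit 3) (nat_lit 92) (nat_lit 1) (nat_lit 94) (nat_lit 1) (nat_lit 395) (nat_lit 394) (nat_lit 231)) (XT.lf (nat_lit 76) (nat_lit 1024835836) (nat_lit 0) (nat_lit 1046413582) (nat_lit 76) (nat_lit 1046413582) (nat_lit 92) (nat_lit 3) (nat_lit 91) (nat_lit 1) (nat_lit 92) (nat_lit 1) (nat_lit 396) (nat_lit 394) (nat_lit 230)))) (XT.nd (nat_lit 78) (nat_lit 76) (nat_lit 0) (XT.lf (nat_lit 152) (nat_lit 3054891239) (nat_lit 0) (nat_lit 6629107) (nat_lit 76) (nat_lit 6629107) (nat_lit 91) (nat_lit 1) (nat_lit 89) (nat_lit 1) (nat_lit 90) (nat_lit 1) (nat_lit 397) (nat_lit 394) (nat_lit 229)) (XT.nd (nat_lit 78) (nat_lit 76) (nat_lit 0) (XT.lf (nat_lit 0)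 (nat_lit 999735775) (nat_lit 0) (nat_lit 1018375443) (nat_lit 152) (nat_lit 999735775) (nat_lit 89) (nat_lit 3) (nat_lit 89) (nat_lit 1) (nat_lit 91) (nat_lit 1) (nat_lit 398) (nat_lit 394) (nat_lit 228)) (XT.lf (nat_lit 76) (nat_lit 977884532) (nat_lit 0) (nat_lit 995636597) (nat_lit 76) (nat_lit 995636597) (nat_lit 89) (nat_lit 3) (nat_lit 88) (nat_lit 1) (nat_lit 89) (nat_lit 1) (nat_lit 399) (nat_lit 394) (nat_lit 227))))) (XT.nd (nat_lit 234) (nat_lit 380) (nat_lit 0) (XT.nd (nat_lit 78) (nat_lit 76) (nat_lit 0) (XT.lf (nat_lit 152) (nat_lit 2911098597) (nat_lit 0) (nat_lit 5453783) (nat_lit 76) (nat_lit 5453783) (nat_lit 88) (nat_lit 1) (nat_lit 86) (nat_lit 1) (nat_lit 87) (nat_lit 1) (nat_lit 400) (nat_lit 394) (nat_lit 226)) (XT.nd (nat_lit 78) (nat_lit 76) (nat_lit 0) (XT.lf (nat_lit 0) (nat_lit 952921822) (nat_lit 0) (nat_lit 968256723) (nat_lit 152) (nat_lit 952921822) (nat_lit 86)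 (nat_lit 3) (nat_lit 86) (nat_lit 1) (nat_lit 88) (nat_lit 1) (nat_lit 401) (nat_lit 394) (nat_lit 225)) (XT.lf (nat_lit 76) (nat_lit 932840932) (nat_lit 0) (nat_lit 947445600) (nat_lit 76) (nat_lit 947445600) (nat_lit 86) (nat_lit 3) (nat_lit 85) (nat_lit 1) (nat_lit 86) (nat_lit 1) (nat_lit 402) (nat_lit 394) (nat_lit 224)))) (XT.nd (nat_lit 156) (nat_lit 228) (nat_lit 0) (XT.nd (nat_lit 78) (nat_lit 0) (nat_lit 0) (XT.lf (nat_lit 152) (nat_lit 2773855652) (nat_lit 0) (nat_lit 4486841) (nat_lit 76) (nat_lit 4486841) (nat_lit 85) (nat_lit 1) (nat_lit 83) (nat_lit 1) (nat_lit 84) (nat_lit 1) (nat_lit 403) (nat_lit 394) (nat_lit 223)) (XT.lf (nat_lit 0) (nat_lit 908196595) (nat_lit 0) (nat_lit 920812656) (nat_lit 152) (nat_lit 908196595) (nat_lit 83) (nat_lit 3) (nat_lit 83) (nat_lit 1) (nat_lit 85) (nat_lit 1) (nat_lit 404) (nat_lit 394) (nat_lit 222))) (XT.nd (nat_lit 78) (nat_lit 152) (nat_lit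 0) (XT.lf (nat_lit 76) (nat_lit 889672360) (nat_lit 0) (nat_lit 901687657) (nat_lit 76) (nat_lit 901687657) (nat_lit 83) (nat_lit 3) (nat_lit 82) (nat_lit 1) (nat_lit 83) (nat_lit 1) (nat_lit 405) (nat_lit 394) (nat_lit 221)) (XT.lf (nat_lit 152) (nat_lit 2642903275) (nat_lit 0) (nat_lit 3691335) (nat_lit 76) (nat_lit 3691335) (nat_lit 82) (nat_lit 1) (nat_lit 80) (nat_lit 1) (nat_lit 81) (nat_lit 1) (nat_lit 406) (nat_lit 394) (nat_lit 220))))))) (XT.nd (nat_lit 936) (nat_lit 912) (nat_lit 0) (XT.nd (nat_lit 468) (nat_lit 456) (nat_lit 0) (XT.nd (nat_lit 234) (nat_lit 228) (nat_lit 0) (XT.nd (nat_lit 78) (nat_lit 228) (nat_lit 0) (XT.lf (nat_lit 0) (nat_lit 865485541) (nat_lit 0) (nat_lit 875864806) (nat_lit 152) (nat_lit 865485541) (nat_lit 80) (nat_lit 3) (nat_lit 80) (nat_lit 1) (nat_lit 82) (nat_lit 1) (nat_lit 407) (nat_lit 394) (nat_lit 219)) (XT.nd (nat_lit 78) (nat_lit 152) (nat_lit 0)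 (XT.lf (nat_lit 76) (nat_lit 848337383) (nat_lit 0) (nat_lit 858222397) (nat_lit 76) (nat_lit 858222397) (nat_lit 80) (nat_lit 3) (nat_lit 79) (nat_lit 1) (nat_lit 80) (nat_lit 1) (nat_lit 408) (nat_lit 394) (nat_lit 218)) (XT.lf (nat_lit 152) (nat_lit 2517985316) (nat_lit 0) (nat_lit 3036870) (nat_lit 76) (nat_lit 3036870) (nat_lit 79) (nat_lit 1) (nat_lit 77) (nat_lit 1) (nat_lit 78) (nat_lit 1) (nat_lit 409) (nat_lit 394) (nat_lit 217)))) (XT.nd (nat_lit 78) (nat_lit 228) (nat_lit 0) (XT.lf (nat_lit 0) (nat_lit 824713245) (nat_lit 0) (nat_lit 833252292) (nat_lit 152) (nat_lit 824713245) (nat_lit 77) (nat_lit 3) (nat_lit 77) (nat_lit 1) (nat_lit 79) (nat_lit 1) (nat_lit 410) (nat_lit 394) (nat_lit 216)) (XT.nd (nat_lit 78) (nat_lit 152) (nat_lit 0) (XT.lf (nat_lit 76) (nat_lit 808788055) (nat_lit 0) (nat_lit 816920481) (nat_lit 76) (nat_lit 816920481) (nat_lit 77) (nat_lit 3) (nat_lit 76) (nat_lit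 1) (nat_lit 77) (nat_lit 1) (nat_lit 411) (nat_lit 394) (nat_lit 215)) (XT.lf (nat_lit 152) (nat_lit 2398850134) (nat_lit 0) (nat_lit 2498441) (nat_lit 76) (nat_lit 2498441) (nat_lit 76) (nat_lit 1) (nat_lit 74) (nat_lit 1) (nat_lit 75) (nat_lit 1) (nat_lit 412) (nat_lit 394) (nat_lit 214))))) (XT.nd (nat_lit 234) (nat_lit 228) (nat_lit 0) (XT.nd (nat_lit 78) (nat_lit 228) (nat_lit 0) (XT.lf (nat_lit 0) (nat_lit 785804245) (nat_lit 0) (nat_lit 792829340) (nat_lit 152) (nat_lit 785804245) (nat_lit 74) (nat_lit 3) (nat_lit 74) (nat_lit 1) (nat_lit 76) (nat_lit 1) (nat_lit 413) (nat_lit 394) (nat_lit 213)) (XT.nd (nat_lit 78) (nat_lit 152) (nat_lit 0) (XT.lf (nat_lit 76) (nat_lit 770971736) (nat_lit 0) (nat_lit 777662302) (nat_lit 76) (nat_lit 777662302) (nat_lit 74) (nat_lit 3) (nat_lit 73) (nat_lit 1) (nat_lit 74) (nat_lit 1) (nat_lit 414) (nat_lit 394) (nat_lit 212)) (XT.lf (nat_lit 152) (nat_lit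 2285251735) (nat_lit 0) (nat_lit 2055473) (nat_lit 76) (nat_lit 2055473) (nat_lit 73) (nat_lit 1) (nat_lit 71) (nat_lit 1) (nat_lit 72) (nat_lit 1) (nat_lit 415) (nat_lit 394) (nat_lit 211)))) (XT.nd (nat_lit 78) (nat_lit 228) (nat_lit 0) (XT.lf (nat_lit 0) (nat_lit 748683685) (nat_lit 0) (nat_lit 754463248) (nat_lit 152) (nat_lit 748683685) (nat_lit 71) (nat_lit 3) (nat_lit 71) (nat_lit 1) (nat_lit 73) (nat_lit 1) (nat_lit 416) (nat_lit 394) (nat_lit 210)) (XT.nd (nat_lit 78) (nat_lit 152) (nat_lit 0) (XT.lf (nat_lit 76) (nat_lit 734832546) (nat_lit 0) (nat_lit 740336892) (nat_lit 76) (nat_lit 740336892) (nat_lit 71) (nat_lit 3) (nat_lit 70) (nat_lit 1) (nat_lit 71) (nat_lit 1) (nat_lit 417) (nat_lit 394) (nat_lit 209)) (XT.lf (nat_lit 152) (nat_lit 2176950632) (nat_lit 0) (nat_lit 1691043) (nat_lit 76) (nat_lit 1691043) (nat_lit 70) (nat_lit 1) (nat_lit 68) (nat_lit 1) (nat_lit 69) (nat_lit 1)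 (nat_lit 418) (nat_lit 394) (nat_lit 208)))))) (XT.nd (nat_lit 468) (nat_lit 456) (nat_lit 0) (XT.nd (nat_lit 234) (nat_lit 228) (nat_lit 0) (XT.nd (nat_lit 78) (nat_lit 228) (nat_lit 0) (XT.lf (nat_lit 0) (nat_lit 713277813) (nat_lit 0) (nat_lit 718032674) (nat_lit 152) (nat_lit 713277813) (nat_lit 68) (nat_lit 3) (nat_lit 68) (nat_lit 1) (nat_lit 70) (nat_lit 1) (nat_lit 419) (nat_lit 394) (nat_lit 207)) (XT.nd (nat_lit 78) (nat_lit 152) (nat_lit 0) (XT.lf (nat_lit 76) (nat_lit 700312546) (nat_lit 0) (nat_lit 704840985) (nat_lit 76) (nat_lit 704840985) (nat_lit 68) (nat_lit 3) (nat_lit 67) (nat_lit 1) (nat_lit 68) (nat_lit 1) (nat_lit 420) (nat_lit 394) (nat_lit 206)) (XT.lf (nat_lit 152) (nat_lit 2073714458) (nat_lit 0) (nat_lit 1391225) (nat_lit 76) (nat_lit 1391225) (nat_lit 67) (nat_lit 1) (nat_lit 65) (nat_lit 1) (nat_lit 66) (nat_lit 1) (nat_lit 421) (nat_lit 394) (nat_lit 205)))) (XT.nd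 (nat_lit 78) (nat_lit 228) (nat_lit 0) (XT.lf (nat_lit 0) (nat_lit 679514368) (nat_lit 0) (nat_lit 683426204) (nat_lit 152) (nat_lit 679514368) (nat_lit 65) (nat_lit 3) (nat_lit 65) (nat_lit 1) (nat_lit 67) (nat_lit 1) (nat_lit 422) (nat_lit 394) (nat_lit 204)) (XT.nd (nat_lit 78) (nat_lit 152) (nat_lit 0) (XT.lf (nat_lit 76) (nat_lit 667352666) (nat_lit 0) (nat_lit 671078224) (nat_lit 76) (nat_lit 671078224) (nat_lit 65) (nat_lit 3) (nat_lit 64) (nat_lit 1) (nat_lit 65) (nat_lit 1) (nat_lit 423) (nat_lit 394) (nat_lit 203)) (XT.lf (nat_lit 152) (nat_lit 1975318383) (nat_lit 0) (nat_lit 1144564) (nat_lit 76) (nat_lit 1144564) (nat_lit 64) (nat_lit 1) (nat_lit 62) (nat_lit 1) (nat_lit 63) (nat_lit 1) (nat_lit 424) (nat_lit 394) (nat_lit 202))))) (XT.nd (nat_lit 234) (nat_lit 228) (nat_lit 0) (XT.nd (nat_lit 78) (nat_lit 228) (nat_lit 0) (XT.lf (nat_lit 0) (nat_lit 647322863) (nat_lit 0) (nat_lit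 650541140) (nat_lit 152) (nat_lit 647322863) (nat_lit 62) (nat_lit 3) (nat_lit 62) (nat_lit 1) (nat_lit 64) (nat_lit 1) (nat_lit 425) (nat_lit 394) (nat_lit 201)) (XT.nd (nat_lit 78) (nat_lit 152) (nat_lit 0) (XT.lf (nat_lit 76) (nat_lit 635893453) (nat_lit 0) (nat_lit 638958479) (nat_lit 76) (nat_lit 638958479) (nat_lit 62) (nat_lit 3) (nat_lit 61) (nat_lit 1) (nat_lit 62) (nat_lit 1) (nat_lit 426) (nat_lit 394) (nat_lit 200)) (XT.lf (nat_lit 152) (nat_lit 1881545386) (nat_lit 0) (nat_lit 941636) (nat_lit 76) (nat_lit 941636) (nat_lit 61) (nat_lit 1) (nat_lit 59) (nat_lit 1) (nat_lit 60) (nat_lit 1) (nat_lit 427) (nat_lit 394) (nat_lit 199)))) (XT.nd (nat_lit 156) (nat_lit 152) (nat_lit 0) (XT.nd (nat_lit 78) (nat_lit 76) (nat_lit 0) (XT.lf (nat_lit 0) (nat_lit 616634798) (nat_lit 0) (nat_lit 619282482) (nat_lit 152) (nat_lit 616634798) (nat_lit 59) (nat_lit 3) (nat_lit 59) (nat_lit 1) (nat_lit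 61) (nat_lit 1) (nat_lit 428) (nat_lit 394) (nat_lit 198)) (XT.lf (nat_lit 76) (nat_lit 605875654) (nat_lit 0) (nat_lit 608397259) (nat_lit 76) (nat_lit 608397259) (nat_lit 59) (nat_lit 3) (nat_lit 58) (nat_lit 1) (nat_lit 59) (nat_lit 1) (nat_lit 429) (nat_lit 394) (nat_lit 197))) (XT.nd (nat_lit 78) (nat_lit 0) (nat_lit 0) (XT.lf (nat_lit 152) (nat_lit 1792186392) (nat_lit 0) (nat_lit 774686) (nat_lit 76) (nat_lit 774686) (nat_lit 58) (nat_lit 1) (nat_lit 56) (nat_lit 1) (nat_lit 57) (nat_lit 1) (nat_lit 430) (nat_lit 394) (nat_lit 196)) (XT.lf (nat_lit 0) (nat_lit 587383809) (nat_lit 0) (nat_lit 589562065) (nat_lit 152) (nat_lit 587383809) (nat_lit 56) (nat_lit 3) (nat_lit 56) (nat_lit 1) (nat_lit 58) (nat_lit 1) (nat_lit 431) (nat_lit 394) (nat_lit 195))))))))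
noncomputable def ec233 : XT := (XT.nd (nat_lit 38142) (nat_lit 0) (nat_lit 14364) (XT.nd (nat_lit 936) (nat_lit 228) (nat_lit 0) (XT.nd (nat_lit 468) (nat_lit 456) (nat_lit 0) (XT.nd (nat_lit 234) (nat_lit 228) (nat_lit 0) (XT.nd (nat_lit 78) (nat_lit 152) (nat_lit 0) (XT.lf (nat_lit 76) (nat_lit 577240673) (nat_lit 0) (nat_lit 579315203) (nat_lit 76) (nat_lit 579315203) (nat_lit 56) (nat_lit 3) (nat_lit 55) (nat_lit 1) (nat_lit 56) (nat_lit 1) (nat_lit 432) (nat_lit 394) (nat_lit 194)) (XT.nd (nat_lit 78) (nat_lit 0) (nat_lit 0) (XT.lf (nat_lit 152) (nat_lit 1707040319) (nat_lit 0) (nat_lit 637336) (nat_lit 76) (nat_lit 637336) (nat_lit 55) (nat_lit 1) (nat_lit 53) (nat_lit 1) (nat_lit 54) (nat_lit 1) (nat_lit 433) (nat_lit 394) (nat_lit 193)) (XT.lf (nat_lit 0) (nat_lit 559505765) (nat_lit 0) (nat_lit 561297822) (nat_lit 152) (nat_lit 559505765) (nat_lit 53) (nat_lit 3) (nat_lit 53) (nat_lit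 1) (nat_lit 55) (nat_lit 1) (nat_lit 434) (nat_lit 394) (nat_lit 192)))) (XT.nd (nat_lit 78) (nat_lit 152) (nat_lit 0) (XT.lf (nat_lit 76) (nat_lit 549930924) (nat_lit 0) (nat_lit 551637645) (nat_lit 76) (nat_lit 551637645) (nat_lit 53) (nat_lit 3) (nat_lit 52) (nat_lit 1) (nat_lit 53) (nat_lit 1) (nat_lit 435) (nat_lit 394) (nat_lit 191)) (XT.nd (nat_lit 78) (nat_lit 0) (nat_lit 0) (XT.lf (nat_lit 152) (nat_lit 1625914047) (nat_lit 0) (nat_lit 524338) (nat_lit 76) (nat_lit 524338) (nat_lit 52) (nat_lit 1) (nat_lit 50) (nat_lit 1) (nat_lit 51) (nat_lit 1) (nat_lit 436) (nat_lit 394) (nat_lit 190)) (XT.lf (nat_lit 0) (nat_lit 532938828) (nat_lit 0) (nat_lit 534413157) (nat_lit 152) (nat_lit 532938828) (nat_lit 50) (nat_lit 3) (nat_lit 50) (nat_lit 1) (nat_lit 52) (nat_lit 1) (nat_lit 437) (nat_lit 394) (nat_lit 189))))) (XT.nd (nat_lit 234) (nat_lit 228) (nat_lit 0) (XT.nd (nat_lit 78) (nat_lit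 152) (nat_lit 0) (XT.lf (nat_lit 76) (nat_lit 523890097) (nat_lit 0) (nat_lit 525294220) (nat_lit 76) (nat_lit 525294220) (nat_lit 50) (nat_lit 3) (nat_lit 49) (nat_lit 1) (nat_lit 50) (nat_lit 1) (nat_lit 438) (nat_lit 394) (nat_lit 188)) (XT.nd (nat_lit 78) (nat_lit 0) (nat_lit 0) (XT.lf (nat_lit 152) (nat_lit 1548622321) (nat_lit 0) (nat_lit 431374) (nat_lit 76) (nat_lit 431374) (nat_lit 49) (nat_lit 1) (nat_lit 47) (nat_lit 1) (nat_lit 48) (nat_lit 1) (nat_lit 439) (nat_lit 394) (nat_lit 187)) (XT.lf (nat_lit 0) (nat_lit 507623473) (nat_lit 0) (nat_lit 508836408) (nat_lit 152) (nat_lit 507623473) (nat_lit 47) (nat_lit 3) (nat_lit 47) (nat_lit 1) (nat_lit 49) (nat_lit 1) (nat_lit 440) (nat_lit 394) (nat_lit 186)))) (XT.nd (nat_lit 78) (nat_lit 152) (nat_lit 0) (XT.lf (nat_lit 76) (nat_lit 499063360) (nat_lit 0) (nat_lit 500218536) (nat_lit 76) (nat_lit 500218536) (nat_lit 47) (nat_lit 3) (nat_lit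 46) (nat_lit 1) (nat_lit 47) (nat_lit 1) (nat_lit 441) (nat_lit 394) (nat_lit 185)) (XT.nd (nat_lit 78) (nat_lit 0) (nat_lit 0) (XT.lf (nat_lit 152) (nat_lit 1474987617) (nat_lit 0) (nat_lit 354892) (nat_lit 76) (nat_lit 354892) (nat_lit 46) (nat_lit 1) (nat_lit 44) (nat_lit 1) (nat_lit 45) (nat_lit 1) (nat_lit 442) (nat_lit 394) (nat_lit 184)) (XT.lf (nat_lit 0) (nat_lit 483502498) (nat_lit 0) (nat_lit 484500382) (nat_lit 152) (nat_lit 483502498) (nat_lit 44) (nat_lit 3) (nat_lit 44) (nat_lit 1) (nat_lit 46) (nat_lit 1) (nat_lit 443) (nat_lit 394) (nat_lit 183)))))) (XT.nd (nat_lit 36660) (nat_lit 0) (nat_lit 19152) (XT.nd (nat_lit 36426) (nat_lit 0) (nat_lit 19076) (XT.nd (nat_lit 78) (nat_lit 152) (nat_lit 0) (XT.lf (nat_lit 76) (nat_lit 475397501) (nat_lit 0) (nat_lit 476347867) (nat_lit 76) (nat_lit 476347867) (nat_lit 44) (nat_lit 3) (nat_lit 43) (nat_lit 1) (nat_lit 44) (nat_lit 1) (nat_lit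 444) (nat_lit 394) (nat_lit 182)) (XT.nd (nat_lit 78) (nat_lit 0) (nat_lit 0) (XT.lf (nat_lit 152) (nat_lit 1404839964) (nat_lit 0) (nat_lit 291971) (nat_lit 76) (nat_lit 291971) (nat_lit 43) (nat_lit 1) (nat_lit 41) (nat_lit 1) (nat_lit 42) (nat_lit 1) (nat_lit 445) (nat_lit 394) (nat_lit 181)) (XT.lf (nat_lit 0) (nat_lit 460520997) (nat_lit 0) (nat_lit 461341959) (nat_lit 152) (nat_lit 460520997) (nat_lit 41) (nat_lit 3) (nat_lit 41) (nat_lit 1) (nat_lit 43) (nat_lit 1) (nat_lit 446) (nat_lit 394) (nat_lit 180)))) (XT.nd (nat_lit 78) (nat_lit 0) (nat_lit 0) (XT.lf (nat_lit 836) (nat_lit 7864319115) (nat_lit 0) (nat_lit 13963080512) (nat_lit 836) (nat_lit 7864319115) (nat_lit 303) (nat_lit 1) (nat_lit 292) (nat_lit 0) (nat_lit 303) (nat_lit 0) (nat_lit 230) (nat_lit 395) (nat_lit 395)) (XT.nd (nat_lit 78) (nat_lit 0) (nat_lit 76) (XT.lf (nat_lit 836) (nat_lit 30483082712) (nat_lit 76) (nat_lit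 13737869536) (nat_lit 0) (nat_lit 13737869536) (nat_lit 303) (nat_lit 1) (nat_lit 293) (nat_lit 1) (nat_lit 292) (nat_lit 0) (nat_lit 231) (nat_lit 395) (nat_lit 394)) (XT.lf (nat_lit 836) (nat_lit 14527778237) (nat_lit 0) (nat_lit 27522692135) (nat_lit 760) (nat_lit 14527778237) (nat_lit 304) (nat_lit 1) (nat_lit 293) (nat_lit 1) (nat_lit 303) (nat_lit 1) (nat_lit 232) (nat_lit 395) (nat_lit 393))))) (XT.nd (nat_lit 234) (nat_lit 0) (nat_lit 152) (XT.nd (nat_lit 78) (nat_lit 0) (nat_lit 76) (XT.lf (nat_lit 836) (nat_lit 27252093287) (nat_lit 76) (nat_lit 13995092473) (nat_lit 0) (nat_lit 13995092473) (nat_lit 304) (nat_lit 1) (nat_lit 294) (nat_lit 1) (nat_lit 293) (nat_lit 1) (nat_lit 233) (nat_lit 395) (nat_lit 392)) (XT.nd (nat_lit 78) (nat_lit 0) (nat_lit 0) (XT.lf (nat_lit 836) (nat_lit 12543876836) (nat_lit 0) (nat_lit 28860897744) (nat_lit 760) (nat_lit 12543876836) (nat_lit 305) (nat_lit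 1) (nat_lit 294) (nat_lit 1) (nat_lit 304) (nat_lit 1) (nat_lit 234) (nat_lit 395) (nat_lit 391)) (XT.lf (nat_lit 836) (nat_lit 22560979497) (nat_lit 76) (nat_lit 15066739896) (nat_lit 0) (nat_lit 15066739896) (nat_lit 305) (nat_lit 1) (nat_lit 295) (nat_lit 1) (nat_lit 294) (nat_lit 1) (nat_lit 235) (nat_lit 395) (nat_lit 390)))) (XT.nd (nat_lit 156) (nat_lit 0) (nat_lit 76) (XT.nd (nat_lit 78) (nat_lit 0) (nat_lit 0) (XT.lf (nat_lit 836) (nat_lit 9892337889) (nat_lit 0) (nat_lit 31697702811) (nat_lit 760) (nat_lit 9892337889) (nat_lit 306) (nat_lit 1) (nat_lit 295) (nat_lit 1) (nat_lit 305) (nat_lit 1) (nat_lit 236) (nat_lit 395) (nat_lit 389)) (XT.lf (nat_lit 836) (nat_lit 16629323728) (nat_lit 76) (nat_lit 16837173448) (nat_lit 0) (nat_lit 16837173448) (nat_lit 306) (nat_lit 1) (nat_lit 296) (nat_lit 1) (nat_lit 295) (nat_lit 1) (nat_lit 237) (nat_lit 395) (nat_lit 388))) (XT.nd (nat_lit 78)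 (nat_lit 0) (nat_lit 0) (XT.lf (nat_lit 836) (nat_lit 6675807336) (nat_lit 0) (nat_lit 35816495421) (nat_lit 760) (nat_lit 6675807336) (nat_lit 307) (nat_lit 1) (nat_lit 296) (nat_lit 1) (nat_lit 306) (nat_lit 1) (nat_lit 238) (nat_lit 395) (nat_lit 387)) (XT.lf (nat_lit 836) (nat_lit 9652301591) (nat_lit 76) (nat_lit 19203406726) (nat_lit 0) (nat_lit 19203406726) (nat_lit 307) (nat_lit 1) (nat_lit 297) (nat_lit 1) (nat_lit 296) (nat_lit 1) (nat_lit 239) (nat_lit 395) (nat_lit 386))))))) (XT.nd (nat_lit 1014) (nat_lit 2052) (nat_lit 0) (XT.nd (nat_lit 468) (nat_lit 1368) (nat_lit 0) (XT.nd (nat_lit 234) (nat_lit 380) (nat_lit 0) (XT.nd (nat_lit 78) (nat_lit 1292) (nat_lit 0) (XT.lf (nat_lit 76) (nat_lit 2985455911) (nat_lit 0) (nat_lit 41024482486) (nat_lit 760) (nat_lit 2985455911) (nat_lit 298) (nat_lit 1) (nat_lit 297) (nat_lit 1) (nat_lit 307) (nat_lit 1) (nat_lit 240) (nat_lit 395) (nat_lit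 385)) (XT.nd (nat_lit 78) (nat_lit 532) (nat_lit 0) (XT.lf (nat_lit 836) (nat_lit 1803141128) (nat_lit 0) (nat_lit 22073838497) (nat_lit 760) (nat_lit 22073838497) (nat_lit 298) (nat_lit 1) (nat_lit 287) (nat_lit 1) (nat_lit 297) (nat_lit 1) (nat_lit 241) (nat_lit 395) (nat_lit 384)) (XT.lf (nat_lit 532) (nat_lit 42790809806) (nat_lit 0) (nat_lit 1080154541) (nat_lit 456) (nat_lit 1080154541) (nat_lit 287) (nat_lit 1) (nat_lit 280) (nat_lit 1) (nat_lit 286) (nat_lit 1) (nat_lit 242) (nat_lit 395) (nat_lit 383)))) (XT.nd (nat_lit 78) (nat_lit 380) (nat_lit 0) (XT.lf (nat_lit 76) (nat_lit 18708067572) (nat_lit 0) (nat_lit 6548144434) (nat_lit 532) (nat_lit 18708067572) (nat_lit 281) (nat_lit 1) (nat_lit 280) (nat_lit 1) (nat_lit 287) (nat_lit 1) (nat_lit 243) (nat_lit 395) (nat_lit 382)) (XT.nd (nat_lit 78) (nat_lit 0) (nat_lit 0) (XT.lf (nat_lit 456) (nat_lit 32191782139) (nat_lit 0) (nat_lit 5413810591)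 (nat_lit 380) (nat_lit 5413810591) (nat_lit 281) (nat_lit 1) (nat_lit 275) (nat_lit 1) (nat_lit 280) (nat_lit 1) (nat_lit 244) (nat_lit 395) (nat_lit 381)) (XT.lf (nat_lit 76) (nat_lit 13344236857) (nat_lit 0) (nat_lit 15405917259) (nat_lit 456) (nat_lit 13344236857) (nat_lit 276) (nat_lit 1) (nat_lit 275) (nat_lit 1) (nat_lit 281) (nat_lit 1) (nat_lit 245) (nat_lit 395) (nat_lit 380))))) (XT.nd (nat_lit 234) (nat_lit 684) (nat_lit 0) (XT.nd (nat_lit 78) (nat_lit 304) (nat_lit 0) (XT.lf (nat_lit 456) (nat_lit 21198745060) (nat_lit 0) (nat_lit 10001424636) (nat_lit 380) (nat_lit 10001424636) (nat_lit 276) (nat_lit 1) (nat_lit 270) (nat_lit 1) (nat_lit 275) (nat_lit 1) (nat_lit 246) (nat_lit 395) (nat_lit 379)) (XT.nd (nat_lit 78) (nat_lit 304) (nat_lit 0) (XT.lf (nat_lit 76) (nat_lit 7811455822) (nat_lit 0) (nat_lit 24711851580) (nat_lit 456) (nat_lit 7811455822) (nat_lit 271) (nat_lit 1) (nat_lit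 270) (nat_lit 1) (nat_lit 276) (nat_lit 1) (nat_lit 247) (nat_lit 395) (nat_lit 378)) (XT.lf (nat_lit 380) (nat_lit 9914015855) (nat_lit 0) (nat_lit 14788107009) (nat_lit 304) (nat_lit 14788107009) (nat_lit 271) (nat_lit 1) (nat_lit 266) (nat_lit 1) (nat_lit 270) (nat_lit 1) (nat_lit 248) (nat_lit 395) (nat_lit 377)))) (XT.nd (nat_lit 156) (nat_lit 304) (nat_lit 0) (XT.nd (nat_lit 78) (nat_lit 380) (nat_lit 0) (XT.lf (nat_lit 76) (nat_lit 2157223697) (nat_lit 0) (nat_lit 34363725720) (nat_lit 380) (nat_lit 2157223697) (nat_lit 267) (nat_lit 1) (nat_lit 266) (nat_lit 1) (nat_lit 271) (nat_lit 1) (nat_lit 249) (nat_lit 395) (nat_lit 376)) (XT.lf (nat_lit 76) (nat_lit 18177386756) (nat_lit 0) (nat_lit 1522391450) (nat_lit 380) (nat_lit 18177386756) (nat_lit 262) (nat_lit 1) (nat_lit 261) (nat_lit 1) (nat_lit 266) (nat_lit 1) (nat_lit 250) (nat_lit 395) (nat_lit 375))) (XT.nd (nat_lit 78) (nat_lit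 0) (nat_lit 0) (XT.lf (nat_lit 380) (nat_lit 30068264299) (nat_lit 0) (nat_lit 3519198432) (nat_lit 304) (nat_lit 3519198432) (nat_lit 262) (nat_lit 1) (nat_lit 257) (nat_lit 1) (nat_lit 261) (nat_lit 1) (nat_lit 251) (nat_lit 395) (nat_lit 374)) (XT.lf (nat_lit 76) (nat_lit 11794095150) (nat_lit 0) (nat_lit 12761185228) (nat_lit 380) (nat_lit 11794095150) (nat_lit 258) (nat_lit 1) (nat_lit 257) (nat_lit 1) (nat_lit 262) (nat_lit 1) (nat_lit 252) (nat_lit 395) (nat_lit 373)))))) (XT.nd (nat_lit 468) (nat_lit 912) (nat_lit 0) (XT.nd (nat_lit 234) (nat_lit 608) (nat_lit 0) (XT.nd (nat_lit 78) (nat_lit 228) (nat_lit 0) (XT.lf (nat_lit 380) (nat_lit 17210865687) (nat_lit 0) (nat_lit 9203742105) (nat_lit 304) (nat_lit 9203742105) (nat_lit 258) (nat_lit 1) (nat_lit 253) (nat_lit 1) (nat_lit 257) (nat_lit 1) (nat_lit 253) (nat_lit 395) (nat_lit 372)) (XT.nd (nat_lit 78) (nat_lit 228) (nat_lit 0) (XT.lf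 (nat_lit 76) (nat_lit 5427538929) (nat_lit 0) (nat_lit 24053621658) (nat_lit 380) (nat_lit 5427538929) (nat_lit 254) (nat_lit 1) (nat_lit 253) (nat_lit 1) (nat_lit 258) (nat_lit 1) (nat_lit 254) (nat_lit 395) (nat_lit 371)) (XT.lf (nat_lit 304) (nat_lit 4413984954) (nat_lit 0) (nat_lit 14900191347) (nat_lit 228) (nat_lit 14900191347) (nat_lit 254) (nat_lit 1) (nat_lit 250) (nat_lit 1) (nat_lit 253) (nat_lit 1) (nat_lit 255) (nat_lit 395) (nat_lit 370)))) (XT.nd (nat_lit 78) (nat_lit 228) (nat_lit 0) (XT.lf (nat_lit 380) (nat_lit 31782996449) (nat_lit 0) (nat_lit 881917166) (nat_lit 304) (nat_lit 881917166) (nat_lit 250) (nat_lit 1) (nat_lit 245) (nat_lit 1) (nat_lit 249) (nat_lit 1) (nat_lit 256) (nat_lit 395) (nat_lit 369)) (XT.nd (nat_lit 78) (nat_lit 228) (nat_lit 0) (XT.lf (nat_lit 76) (nat_lit 12436921478) (nat_lit 0) (nat_lit 8009145696) (nat_lit 380) (nat_lit 12436921478) (nat_lit 246) (nat_lit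 1) (nat_lit 245) (nat_lit 1) (nat_lit 250) (nat_lit 1) (nat_lit 257) (nat_lit 395) (nat_lit 368)) (XT.lf (nat_lit 304) (nat_lit 18164517004) (nat_lit 0) (nat_lit 7040044816) (nat_lit 228) (nat_lit 7040044816) (nat_lit 246) (nat_lit 1) (nat_lit 242) (nat_lit 1) (nat_lit 245) (nat_lit 1) (nat_lit 258) (nat_lit 395) (nat_lit 367))))) (XT.nd (nat_lit 234) (nat_lit 380) (nat_lit 0) (XT.nd (nat_lit 78) (nat_lit 532) (nat_lit 0) (XT.lf (nat_lit 76) (nat_lit 5738451897) (nat_lit 0) (nat_lit 20145540016) (nat_lit 304) (nat_lit 5738451897) (nat_lit 243) (nat_lit 1) (nat_lit 242) (nat_lit 1) (nat_lit 246) (nat_lit 1) (nat_lit 259) (nat_lit 395) (nat_lit 366)) (XT.nd (nat_lit 78) (nat_lit 304) (nat_lit 0) (XT.lf (nat_lit 304) (nat_lit 4782820294) (nat_lit 0) (nat_lit 13115807364) (nat_lit 228) (nat_lit 13115807364) (nat_lit 243) (nat_lit 1) (nat_lit 239) (nat_lit 1) (nat_lit 242) (nat_lit 1) (nat_lit 260)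 (nat_lit 395) (nat_lit 365)) (XT.lf (nat_lit 304) (nat_lit 28785060386) (nat_lit 0) (nat_lit 821977073) (nat_lit 228) (nat_lit 821977073) (nat_lit 239) (nat_lit 1) (nat_lit 235) (nat_lit 1) (nat_lit 238) (nat_lit 1) (nat_lit 261) (nat_lit 395) (nat_lit 364)))) (XT.nd (nat_lit 156) (nat_lit 152) (nat_lit 0) (XT.nd (nat_lit 78) (nat_lit 228) (nat_lit 0) (XT.lf (nat_lit 76) (nat_lit 10888563992) (nat_lit 0) (nat_lit 8068316584) (nat_lit 304) (nat_lit 10888563992) (nat_lit 236) (nat_lit 1) (nat_lit 235) (nat_lit 1) (nat_lit 239) (nat_lit 1) (nat_lit 262) (nat_lit 395) (nat_lit 363)) (XT.lf (nat_lit 304) (nat_lit 14972772510) (nat_lit 0) (nat_lit 7155347138) (nat_lit 228) (nat_lit 7155347138) (nat_lit 236) (nat_lit 1) (nat_lit 232) (nat_lit 1) (nat_lit 235) (nat_lit 1) (nat_lit 263) (nat_lit 395) (nat_lit 362))) (XT.nd (nat_lit 78) (nat_lit 152) (nat_lit 0) (XT.lf (nat_lit 76) (nat_lit 4123489338) (nat_lit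 0) (nat_lit 20489582827) (nat_lit 304) (nat_lit 4123489338) (nat_lit 233) (nat_lit 1) (nat_lit 232) (nat_lit 1) (nat_lit 236) (nat_lit 1) (nat_lit 264) (nat_lit 395) (nat_lit 361)) (XT.lf (nat_lit 228) (nat_lit 1510983596) (nat_lit 0) (nat_lit 13344489362) (nat_lit 152) (nat_lit 13344489362) (nat_lit 233) (nat_lit 1) (nat_lit 230) (nat_lit 1) (nat_lit 232) (nat_lit 1) (nat_lit 265) (nat_lit 395) (nat_lit 360))))))))
noncomputable def ec234 : XT := (XT.nd (nat_lit 1950) (nat_lit 1900) (nat_lit 0) (XT.nd (nat_lit 936) (nat_lit 1292) (nat_lit 0) (XT.nd (nat_lit 468) (nat_lit 532) (nat_lit 0) (XT.nd (nat_lit 234) (nat_lit 380) (nat_lit 0) (XT.nd (nat_lit 78) (nat_lit 152) (nat_lit 0) (XT.lf (nat_lit 304) (nat_lit 22830455490) (nat_lit 0) (nat_lit 2424759855) (nat_lit 228) (nat_lit 2424759855) (nat_lit 230) (nat_lit 1) (nat_lit 226) (nat_lit 1) (nat_lit 229) (nat_lit 1) (nat_lit 266) (nat_lit 395) (nat_lit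 359)) (XT.nd (nat_lit 78) (nat_lit 152) (nat_lit 0) (XT.lf (nat_lit 76) (nat_lit 7974136173) (nat_lit 0) (nat_lit 11217531292) (nat_lit 304) (nat_lit 7974136173) (nat_lit 227) (nat_lit 1) (nat_lit 226) (nat_lit 1) (nat_lit 230) (nat_lit 1) (nat_lit 267) (nat_lit 395) (nat_lit 358)) (XT.lf (nat_lit 228) (nat_lit 9212884285) (nat_lit 0) (nat_lit 8727308267) (nat_lit 152) (nat_lit 8727308267) (nat_lit 227) (nat_lit 1) (nat_lit 224) (nat_lit 1) (nat_lit 226) (nat_lit 1) (nat_lit 268) (nat_lit 395) (nat_lit 357)))) (XT.nd (nat_lit 78) (nat_lit 380) (nat_lit 0) (XT.lf (nat_lit 76) (nat_lit 1323599049) (nat_lit 0) (nat_lit 23538536660) (nat_lit 228) (nat_lit 1323599049) (nat_lit 225) (nat_lit 1) (nat_lit 224) (nat_lit 1) (nat_lit 227) (nat_lit 1) (nat_lit 269) (nat_lit 395) (nat_lit 356)) (XT.nd (nat_lit 78) (nat_lit 152) (nat_lit 0) (XT.lf (nat_lit 76) (nat_lit 10923895173) (nat_lit 0) (nat_lit 3857929605)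 (nat_lit 228) (nat_lit 10923895173) (nat_lit 222) (nat_lit 1) (nat_lit 221) (nat_lit 1) (nat_lit 224) (nat_lit 1) (nat_lit 270) (nat_lit 395) (nat_lit 355)) (XT.lf (nat_lit 228) (nat_lit 15169743026) (nat_lit 0) (nat_lit 5035943675) (nat_lit 152) (nat_lit 5035943675) (nat_lit 222) (nat_lit 1) (nat_lit 219) (nat_lit 1) (nat_lit 221) (nat_lit 1) (nat_lit 271) (nat_lit 395) (nat_lit 354))))) (XT.nd (nat_lit 234) (nat_lit 152) (nat_lit 0) (XT.nd (nat_lit 78) (nat_lit 380) (nat_lit 0) (XT.lf (nat_lit 76) (nat_lit 4280506823) (nat_lit 0) (nat_lit 16226784548) (nat_lit 228) (nat_lit 4280506823) (nat_lit 220) (nat_lit 1) (nat_lit 219) (nat_lit 1) (nat_lit 222) (nat_lit 1) (nat_lit 272) (nat_lit 395) (nat_lit 353)) (XT.nd (nat_lit 78) (nat_lit 228) (nat_lit 0) (XT.lf (nat_lit 228) (nat_lit 2005263333) (nat_lit 0) (nat_lit 11168925382) (nat_lit 152) (nat_lit 11168925382) (nat_lit 220) (nat_lit 1) (nat_lit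 217) (nat_lit 1) (nat_lit 219) (nat_lit 1) (nat_lit 273) (nat_lit 395) (nat_lit 352)) (XT.lf (nat_lit 228) (nat_lit 19709023534) (nat_lit 0) (nat_lit 2101145768) (nat_lit 152) (nat_lit 2101145768) (nat_lit 217) (nat_lit 1) (nat_lit 214) (nat_lit 1) (nat_lit 216) (nat_lit 1) (nat_lit 274) (nat_lit 395) (nat_lit 351)))) (XT.nd (nat_lit 78) (nat_lit 152) (nat_lit 0) (XT.lf (nat_lit 76) (nat_lit 6561182232) (nat_lit 0) (nat_lit 10360836933) (nat_lit 228) (nat_lit 6561182232) (nat_lit 215) (nat_lit 1) (nat_lit 214) (nat_lit 1) (nat_lit 217) (nat_lit 1) (nat_lit 275) (nat_lit 395) (nat_lit 350)) (XT.nd (nat_lit 78) (nat_lit 0) (nat_lit 0) (XT.lf (nat_lit 228) (nat_lit 6682245554) (nat_lit 0) (nat_lit 8192635452) (nat_lit 152) (nat_lit 8192635452) (nat_lit 215) (nat_lit 1) (nat_lit 212) (nat_lit 1) (nat_lit 214) (nat_lit 1) (nat_lit 276) (nat_lit 395) (nat_lit 349)) (XT.lf (nat_lit 76) (nat_lit 219626982)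 (nat_lit 0) (nat_lit 22227155648) (nat_lit 228) (nat_lit 219626982) (nat_lit 213) (nat_lit 1) (nat_lit 212) (nat_lit 1) (nat_lit 215) (nat_lit 1) (nat_lit 277) (nat_lit 395) (nat_lit 348)))))) (XT.nd (nat_lit 468) (nat_lit 684) (nat_lit 0) (XT.nd (nat_lit 234) (nat_lit 304) (nat_lit 0) (XT.nd (nat_lit 78) (nat_lit 152) (nat_lit 0) (XT.lf (nat_lit 76) (nat_lit 8292756741) (nat_lit 0) (nat_lit 5677239640) (nat_lit 152) (nat_lit 8292756741) (nat_lit 211) (nat_lit 1) (nat_lit 210) (nat_lit 1) (nat_lit 212) (nat_lit 1) (nat_lit 278) (nat_lit 395) (nat_lit 347)) (XT.nd (nat_lit 78) (nat_lit 0) (nat_lit 0) (XT.lf (nat_lit 228) (nat_lit 10290367047) (nat_lit 0) (nat_lit 5791466127) (nat_lit 152) (nat_lit 5791466127) (nat_lit 211) (nat_lit 1) (nat_lit 208) (nat_lit 1) (nat_lit 210) (nat_lit 1) (nat_lit 279) (nat_lit 395) (nat_lit 346)) (XT.lf (nat_lit 76) (nat_lit 2063147473) (nat_lit 0) (nat_lit 17368062880)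 (nat_lit 228) (nat_lit 2063147473) (nat_lit 209) (nat_lit 1) (nat_lit 208) (nat_lit 1) (nat_lit 211) (nat_lit 1) (nat_lit 280) (nat_lit 395) (nat_lit 345)))) (XT.nd (nat_lit 78) (nat_lit 152) (nat_lit 0) (XT.lf (nat_lit 76) (nat_lit 9579477096) (nat_lit 0) (nat_lit 1959587154) (nat_lit 152) (nat_lit 9579477096) (nat_lit 207) (nat_lit 1) (nat_lit 206) (nat_lit 1) (nat_lit 208) (nat_lit 1) (nat_lit 281) (nat_lit 395) (nat_lit 344)) (XT.nd (nat_lit 78) (nat_lit 0) (nat_lit 0) (XT.lf (nat_lit 228) (nat_lit 13030545762) (nat_lit 0) (nat_lit 3861191293) (nat_lit 152) (nat_lit 3861191293) (nat_lit 207) (nat_lit 1) (nat_lit 204) (nat_lit 1) (nat_lit 206) (nat_lit 1) (nat_lit 282) (nat_lit 395) (nat_lit 343)) (XT.lf (nat_lit 76) (nat_lit 3490175401) (nat_lit 0) (nat_lit 13414202524) (nat_lit 228) (nat_lit 3490175401) (nat_lit 205) (nat_lit 1) (nat_lit 204) (nat_lit 1) (nat_lit 207) (nat_lit 1) (nat_lit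 283) (nat_lit 395) (nat_lit 342))))) (XT.nd (nat_lit 234) (nat_lit 380) (nat_lit 0) (XT.nd (nat_lit 78) (nat_lit 228) (nat_lit 0) (XT.lf (nat_lit 152) (nat_lit 1001902258) (nat_lit 0) (nat_lit 9520519378) (nat_lit 76) (nat_lit 9520519378) (nat_lit 205) (nat_lit 1) (nat_lit 203) (nat_lit 1) (nat_lit 204) (nat_lit 1) (nat_lit 284) (nat_lit 395) (nat_lit 341)) (XT.nd (nat_lit 78) (nat_lit 0) (nat_lit 0) (XT.lf (nat_lit 228) (nat_lit 15067533986) (nat_lit 0) (nat_lit 2316171420) (nat_lit 152) (nat_lit 2316171420) (nat_lit 203) (nat_lit 1) (nat_lit 200) (nat_lit 1) (nat_lit 202) (nat_lit 1) (nat_lit 285) (nat_lit 395) (nat_lit 340)) (XT.lf (nat_lit 76) (nat_lit 4578822481) (nat_lit 0) (nat_lit 10202996862) (nat_lit 228) (nat_lit 4578822481) (nat_lit 201) (nat_lit 1) (nat_lit 200) (nat_lit 1) (nat_lit 203) (nat_lit 1) (nat_lit 286) (nat_lit 395) (nat_lit 339)))) (XT.nd (nat_lit 156) (nat_lit 76) (nat_lit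 0) (XT.nd (nat_lit 78) (nat_lit 228) (nat_lit 0) (XT.lf (nat_lit 152) (nat_lit 3364614761) (nat_lit 0) (nat_lit 7832554853) (nat_lit 76) (nat_lit 7832554853) (nat_lit 201) (nat_lit 1) (nat_lit 199) (nat_lit 1) (nat_lit 200) (nat_lit 1) (nat_lit 287) (nat_lit 395) (nat_lit 338)) (XT.lf (nat_lit 228) (nat_lit 16536356299) (nat_lit 0) (nat_lit 1086053090) (nat_lit 152) (nat_lit 1086053090) (nat_lit 199) (nat_lit 1) (nat_lit 196) (nat_lit 1) (nat_lit 198) (nat_lit 1) (nat_lit 288) (nat_lit 395) (nat_lit 337))) (XT.nd (nat_lit 78) (nat_lit 76) (nat_lit 0) (XT.lf (nat_lit 76) (nat_lit 5393148150) (nat_lit 0) (nat_lit 7600791957) (nat_lit 228) (nat_lit 5393148150) (nat_lit 197) (nat_lit 1) (nat_lit 196) (nat_lit 1) (nat_lit 199) (nat_lit 1) (nat_lit 289) (nat_lit 395) (nat_lit 336)) (XT.lf (nat_lit 152) (nat_lit 5187455265) (nat_lit 0) (nat_lit 6443862262) (nat_lit 76) (nat_lit 6443862262) (nat_lit 197)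 (nat_lit 1) (nat_lit 195) (nat_lit 1) (nat_lit 196) (nat_lit 1) (nat_lit 290) (nat_lit 395) (nat_lit 335))))))) (XT.nd (nat_lit 936) (nat_lit 912) (nat_lit 0) (XT.nd (nat_lit 468) (nat_lit 456) (nat_lit 0) (XT.nd (nat_lit 234) (nat_lit 228) (nat_lit 0) (XT.nd (nat_lit 78) (nat_lit 76) (nat_lit 0) (XT.lf (nat_lit 228) (nat_lit 17547604869) (nat_lit 0) (nat_lit 113053928) (nat_lit 152) (nat_lit 113053928) (nat_lit 195) (nat_lit 1) (nat_lit 192) (nat_lit 1) (nat_lit 194) (nat_lit 1) (nat_lit 291) (nat_lit 395) (nat_lit 334)) (XT.nd (nat_lit 78) (nat_lit 76) (nat_lit 0) (XT.lf (nat_lit 76) (nat_lit 5985660676) (nat_lit 0) (nat_lit 5497724819) (nat_lit 228) (nat_lit 5985660676) (nat_lit 193) (nat_lit 1) (nat_lit 192) (nat_lit 1) (nat_lit 195) (nat_lit 1) (nat_lit 292) (nat_lit 395) (nat_lit 333)) (XT.lf (nat_lit 152) (nat_lit 6571902165) (nat_lit 0) (nat_lit 5301381430) (nat_lit 76) (nat_lit 5301381430)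 (nat_lit 193) (nat_lit 1) (nat_lit 191) (nat_lit 1) (nat_lit 192) (nat_lit 1) (nat_lit 293) (nat_lit 395) (nat_lit 332)))) (XT.nd (nat_lit 78) (nat_lit 228) (nat_lit 0) (XT.lf (nat_lit 0) (nat_lit 660931038) (nat_lit 0) (nat_lit 15567309663) (nat_lit 152) (nat_lit 660931038) (nat_lit 191) (nat_lit 3) (nat_lit 191) (nat_lit 1) (nat_lit 193) (nat_lit 1) (nat_lit 294) (nat_lit 395) (nat_lit 331)) (XT.nd (nat_lit 78) (nat_lit 76) (nat_lit 0) (XT.lf (nat_lit 76) (nat_lit 6399374371) (nat_lit 0) (nat_lit 3803500829) (nat_lit 152) (nat_lit 6399374371) (nat_lit 190) (nat_lit 1) (nat_lit 189) (nat_lit 1) (nat_lit 191) (nat_lit 1) (nat_lit 295) (nat_lit 395) (nat_lit 330)) (XT.lf (nat_lit 152) (nat_lit 7601167681) (nat_lit 0) (nat_lit 4361459622) (nat_lit 76) (nat_lit 4361459622) (nat_lit 190) (nat_lit 1) (nat_lit 188) (nat_lit 1) (nat_lit 189) (nat_lit 1) (nat_lit 296) (nat_lit 395) (nat_lit 329))))) (XT.nd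 (nat_lit 234) (nat_lit 228) (nat_lit 0) (XT.nd (nat_lit 78) (nat_lit 228) (nat_lit 0) (XT.lf (nat_lit 0) (nat_lit 1263240586) (nat_lit 0) (nat_lit 13526755171) (nat_lit 152) (nat_lit 1263240586) (nat_lit 188) (nat_lit 3) (nat_lit 188) (nat_lit 1) (nat_lit 190) (nat_lit 1) (nat_lit 297) (nat_lit 395) (nat_lit 328)) (XT.nd (nat_lit 78) (nat_lit 76) (nat_lit 0) (XT.lf (nat_lit 76) (nat_lit 6669501628) (nat_lit 0) (nat_lit 2443920035) (nat_lit 152) (nat_lit 6669501628) (nat_lit 187) (nat_lit 1) (nat_lit 186) (nat_lit 1) (nat_lit 188) (nat_lit 1) (nat_lit 298) (nat_lit 395) (nat_lit 327)) (XT.lf (nat_lit 152) (nat_lit 8343449467) (nat_lit 0) (nat_lit 3588183625) (nat_lit 76) (nat_lit 3588183625) (nat_lit 187) (nat_lit 1) (nat_lit 185) (nat_lit 1) (nat_lit 186) (nat_lit 1) (nat_lit 299) (nat_lit 395) (nat_lit 326)))) (XT.nd (nat_lit 78) (nat_lit 228) (nat_lit 0) (XT.lf (nat_lit 0) (nat_lit 1724500666)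 (nat_lit 0) (nat_lit 11813724465) (nat_lit 152) (nat_lit 1724500666) (nat_lit 185) (nat_lit 3) (nat_lit 185) (nat_lit 1) (nat_lit 187) (nat_lit 1) (nat_lit 300) (nat_lit 395) (nat_lit 325)) (XT.nd (nat_lit 78) (nat_lit 76) (nat_lit 0) (XT.lf (nat_lit 76) (nat_lit 6824844538) (nat_lit 0) (nat_lit 1358019527) (nat_lit 152) (nat_lit 6824844538) (nat_lit 184) (nat_lit 1) (nat_lit 183) (nat_lit 1) (nat_lit 185) (nat_lit 1) (nat_lit 301) (nat_lit 395) (nat_lit 324)) (XT.lf (nat_lit 152) (nat_lit 8854605101) (nat_lit 0) (nat_lit 2952007548) (nat_lit 76) (nat_lit 2952007548) (nat_lit 184) (nat_lit 1) (nat_lit 182) (nat_lit 1) (nat_lit 183) (nat_lit 1) (nat_lit 302) (nat_lit 395) (nat_lit 323)))))) (XT.nd (nat_lit 468) (nat_lit 456) (nat_lit 0) (XT.nd (nat_lit 234) (nat_lit 228) (nat_lit 0) (XT.nd (nat_lit 78) (nat_lit 228) (nat_lit 0) (XT.lf (nat_lit 0) (nat_lit 2071350499) (nat_lit 0) (nat_lit 10371779887)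 (nat_lit 152) (nat_lit 2071350499) (nat_lit 182) (nat_lit 3) (nat_lit 182) (nat_lit 1) (nat_lit 184) (nat_lit 1) (nat_lit 303) (nat_lit 395) (nat_lit 322)) (XT.nd (nat_lit 78) (nat_lit 76) (nat_lit 0) (XT.lf (nat_lit 76) (nat_lit 6888939389) (nat_lit 0) (nat_lit 495722661) (nat_lit 152) (nat_lit 6888939389) (nat_lit 181) (nat_lit 1) (nat_lit 180) (nat_lit 1) (nat_lit 182) (nat_lit 1) (nat_lit 304) (nat_lit 395) (nat_lit 321)) (XT.lf (nat_lit 152) (nat_lit 9180351793) (nat_lit 0) (nat_lit 2428623915) (nat_lit 76) (nat_lit 2428623915) (nat_lit 181) (nat_lit 1) (nat_lit 179) (nat_lit 1) (nat_lit 180) (nat_lit 1) (nat_lit 305) (nat_lit 395) (nat_lit 320)))) (XT.nd (nat_lit 78) (nat_lit 228) (nat_lit 0) (XT.lf (nat_lit 0) (nat_lit 2325628546) (nat_lit 0) (nat_lit 9154412346) (nat_lit 152) (nat_lit 2325628546) (nat_lit 179) (nat_lit 3) (nat_lit 179) (nat_lit 1) (nat_lit 181) (nat_lit 1) (nat_lit 306)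 (nat_lit 395) (nat_lit 319)) (XT.nd (nat_lit 78) (nat_lit 152) (nat_lit 0) (XT.lf (nat_lit 76) (nat_lit 190181757) (nat_lit 0) (nat_lit 6693785376) (nat_lit 76) (nat_lit 6693785376) (nat_lit 179) (nat_lit 3) (nat_lit 178) (nat_lit 1) (nat_lit 179) (nat_lit 1) (nat_lit 307) (nat_lit 395) (nat_lit 318)) (XT.lf (nat_lit 152) (nat_lit 9358075533) (nat_lit 0) (nat_lit 1998034905) (nat_lit 76) (nat_lit 1998034905) (nat_lit 178) (nat_lit 1) (nat_lit 176) (nat_lit 1) (nat_lit 177) (nat_lit 1) (nat_lit 308) (nat_lit 395) (nat_lit 317))))) (XT.nd (nat_lit 234) (nat_lit 228) (nat_lit 0) (XT.nd (nat_lit 78) (nat_lit 228) (nat_lit 0) (XT.lf (nat_lit 0) (nat_lit 2505227375) (nat_lit 0) (nat_lit 8123284706) (nat_lit 152) (nat_lit 2505227375) (nat_lit 176) (nat_lit 3) (nat_lit 176) (nat_lit 1) (nat_lit 178) (nat_lit 1) (nat_lit 309) (nat_lit 395) (nat_lit 316)) (XT.nd (nat_lit 78) (nat_lit 152) (nat_lit 0) (XT.lf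 (nat_lit 76) (nat_lit 738842807) (nat_lit 0) (nat_lit 6089373599) (nat_lit 76) (nat_lit 6089373599) (nat_lit 176) (nat_lit 3) (nat_lit 175) (nat_lit 1) (nat_lit 176) (nat_lit 1) (nat_lit 310) (nat_lit 395) (nat_lit 315)) (XT.lf (nat_lit 152) (nat_lit 9418318942) (nat_lit 0) (nat_lit 1643788261) (nat_lit 76) (nat_lit 1643788261) (nat_lit 175) (nat_lit 1) (nat_lit 173) (nat_lit 1) (nat_lit 174) (nat_lit 1) (nat_lit 311) (nat_lit 395) (nat_lit 314)))) (XT.nd (nat_lit 156) (nat_lit 152) (nat_lit 0) (XT.nd (nat_lit 78) (nat_lit 76) (nat_lit 0) (XT.lf (nat_lit 0) (nat_lit 2624796775) (nat_lit 0) (nat_lit 7246786445) (nat_lit 152) (nat_lit 2624796775) (nat_lit 173) (nat_lit 3) (nat_lit 173) (nat_lit 1) (nat_lit 175) (nat_lit 1) (nat_lit 312) (nat_lit 395) (nat_lit 313)) (XT.lf (nat_lit 76) (nat_lit 1162495238) (nat_lit 0) (nat_lit 5564390162) (nat_lit 76) (nat_lit 5564390162) (nat_lit 173) (nat_lit 3)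 (nat_lit 172) (nat_lit 1) (nat_lit 173) (nat_lit 1) (nat_lit 313) (nat_lit 395) (nat_lit 312))) (XT.nd (nat_lit 78) (nat_lit 0) (nat_lit 0) (XT.lf (nat_lit 152) (nat_lit 9386004817) (nat_lit 0) (nat_lit 1352348670) (nat_lit 76) (nat_lit 1352348670) (nat_lit 172) (nat_lit 1) (nat_lit 170) (nat_lit 1) (nat_lit 171) (nat_lit 1) (nat_lit 314) (nat_lit 395) (nat_lit 311)) (XT.lf (nat_lit 0) (nat_lit 2696322053) (nat_lit 0) (nat_lit 6498844393) (nat_lit 152) (nat_lit 2696322053) (nat_lit 170) (nat_lit 3) (nat_lit 170) (nat_lit 1) (nat_lit 172) (nat_lit 1) (nat_lit 315) (nat_lit 395) (nat_lit 310))))))))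
noncomputable def ec235 : XT := (XT.nd (nat_lit 1950) (nat_lit 1976) (nat_lit 0) (XT.nd (nat_lit 936) (nat_lit 988) (nat_lit 0) (XT.nd (nat_lit 468) (nat_lit 456) (nat_lit 0) (XT.nd (nat_lit 234) (nat_lit 228) (nat_lit 0) (XT.nd (nat_lit 78) (nat_lit 152) (nat_lit 0) (XT.lf (nat_lit 76) (nat_lit 1484623360) (nat_lit 0) (nat_lit 5106073207) (nat_lit 76) (nat_lit 5106073207) (nat_lit 170) (nat_lit 3) (nat_lit 169) (nat_lit 1) (nat_lit 170) (nat_lit 1) (nat_lit 316) (nat_lit 395) (nat_lit 309)) (XT.nd (nat_lit 78) (nat_lit 0) (nat_lit 0) (XT.lf (nat_lit 152) (nat_lit 9281442264) (nat_lit 0) (nat_lit 1112580598) (nat_lit 76) (nat_lit 1112580598) (nat_lit 169) (nat_lit 1) (nat_lit 167) (nat_lit 1) (nat_lit 168) (nat_lit 1) (nat_lit 317) (nat_lit 395) (nat_lit 308)) (XT.lf (nat_lit 0) (nat_lit 2729599636) (nat_lit 0) (nat_lit 5857944176) (nat_lit 152) (nat_lit 2729599636) (nat_lit 167) (nat_lit 3) (nat_lit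 167) (nat_lit 1) (nat_lit 169) (nat_lit 1) (nat_lit 318) (nat_lit 395) (nat_lit 307)))) (XT.nd (nat_lit 78) (nat_lit 152) (nat_lit 0) (XT.lf (nat_lit 76) (nat_lit 1724484884) (nat_lit 0) (nat_lit 4703860636) (nat_lit 76) (nat_lit 4703860636) (nat_lit 167) (nat_lit 3) (nat_lit 166) (nat_lit 1) (nat_lit 167) (nat_lit 1) (nat_lit 319) (nat_lit 395) (nat_lit 306)) (XT.nd (nat_lit 78) (nat_lit 0) (nat_lit 0) (XT.lf (nat_lit 152) (nat_lit 9121153969) (nat_lit 0) (nat_lit 915322811) (nat_lit 76) (nat_lit 915322811) (nat_lit 166) (nat_lit 1) (nat_lit 164) (nat_lit 1) (nat_lit 165) (nat_lit 1) (nat_lit 320) (nat_lit 395) (nat_lit 305)) (XT.lf (nat_lit 0) (nat_lit 2732628196) (nat_lit 0) (nat_lit 5306324990) (nat_lit 152) (nat_lit 2732628196) (nat_lit 164) (nat_lit 3) (nat_lit 164) (nat_lit 1) (nat_lit 166) (nat_lit 1) (nat_lit 321) (nat_lit 395) (nat_lit 304))))) (XT.nd (nat_lit 234) (nat_lit 228) (nat_lit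 0) (XT.nd (nat_lit 78) (nat_lit 152) (nat_lit 0) (XT.lf (nat_lit 76) (nat_lit 1897863288) (nat_lit 0) (nat_lit 4349003092) (nat_lit 76) (nat_lit 4349003092) (nat_lit 164) (nat_lit 3) (nat_lit 163) (nat_lit 1) (nat_lit 164) (nat_lit 1) (nat_lit 322) (nat_lit 395) (nat_lit 303)) (XT.nd (nat_lit 78) (nat_lit 0) (nat_lit 0) (XT.lf (nat_lit 152) (nat_lit 8918556372) (nat_lit 0) (nat_lit 753038342) (nat_lit 76) (nat_lit 753038342) (nat_lit 163) (nat_lit 1) (nat_lit 161) (nat_lit 1) (nat_lit 162) (nat_lit 1) (nat_lit 323) (nat_lit 395) (nat_lit 302)) (XT.lf (nat_lit 0) (nat_lit 2711930283) (nat_lit 0) (nat_lit 4829317006) (nat_lit 152) (nat_lit 2711930283) (nat_lit 161) (nat_lit 3) (nat_lit 161) (nat_lit 1) (nat_lit 163) (nat_lit 1) (nat_lit 324) (nat_lit 395) (nat_lit 301)))) (XT.nd (nat_lit 78) (nat_lit 152) (nat_lit 0) (XT.lf (nat_lit 76) (nat_lit 2017686639) (nat_lit 0) (nat_lit 4034245422) (nat_lit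 76) (nat_lit 4034245422) (nat_lit 161) (nat_lit 3) (nat_lit 160) (nat_lit 1) (nat_lit 161) (nat_lit 1) (nat_lit 325) (nat_lit 395) (nat_lit 300)) (XT.nd (nat_lit 78) (nat_lit 0) (nat_lit 0) (XT.lf (nat_lit 152) (nat_lit 8684518806) (nat_lit 0) (nat_lit 619526507) (nat_lit 76) (nat_lit 619526507) (nat_lit 160) (nat_lit 1) (nat_lit 158) (nat_lit 1) (nat_lit 159) (nat_lit 1) (nat_lit 326) (nat_lit 395) (nat_lit 299)) (XT.lf (nat_lit 0) (nat_lit 2672816807) (nat_lit 0) (nat_lit 4414796104) (nat_lit 152) (nat_lit 2672816807) (nat_lit 158) (nat_lit 3) (nat_lit 158) (nat_lit 1) (nat_lit 160) (nat_lit 1) (nat_lit 327) (nat_lit 395) (nat_lit 298)))))) (XT.nd (nat_lit 468) (nat_lit 532) (nat_lit 0) (XT.nd (nat_lit 234) (nat_lit 228) (nat_lit 0) (XT.nd (nat_lit 78) (nat_lit 152) (nat_lit 0) (XT.lf (nat_lit 76) (nat_lit 2094536568) (nat_lit 0) (nat_lit 3753564469) (nat_lit 76) (nat_lit 3753564469) (nat_lit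 158) (nat_lit 3) (nat_lit 157) (nat_lit 1) (nat_lit 158) (nat_lit 1) (nat_lit 328) (nat_lit 395) (nat_lit 297)) (XT.nd (nat_lit 78) (nat_lit 0) (nat_lit 0) (XT.lf (nat_lit 152) (nat_lit 8427823122) (nat_lit 0) (nat_lit 509685991) (nat_lit 76) (nat_lit 509685991) (nat_lit 157) (nat_lit 1) (nat_lit 155) (nat_lit 1) (nat_lit 156) (nat_lit 1) (nat_lit 329) (nat_lit 395) (nat_lit 296)) (XT.lf (nat_lit 0) (nat_lit 2619604480) (nat_lit 0) (nat_lit 4052735158) (nat_lit 152) (nat_lit 2619604480) (nat_lit 155) (nat_lit 3) (nat_lit 155) (nat_lit 1) (nat_lit 157) (nat_lit 1) (nat_lit 330) (nat_lit 395) (nat_lit 295)))) (XT.nd (nat_lit 78) (nat_lit 152) (nat_lit 0) (XT.lf (nat_lit 76) (nat_lit 2137066872) (nat_lit 0) (nat_lit 3501953232) (nat_lit 76) (nat_lit 3501953232) (nat_lit 155) (nat_lit 3) (nat_lit 154) (nat_lit 1) (nat_lit 155) (nat_lit 1) (nat_lit 331) (nat_lit 395) (nat_lit 294)) (XT.nd (nat_lit 78)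 (nat_lit 0) (nat_lit 0) (XT.lf (nat_lit 152) (nat_lit 8155541422) (nat_lit 0) (nat_lit 419319926) (nat_lit 76) (nat_lit 419319926) (nat_lit 154) (nat_lit 1) (nat_lit 152) (nat_lit 1) (nat_lit 153) (nat_lit 1) (nat_lit 332) (nat_lit 395) (nat_lit 293)) (XT.lf (nat_lit 0) (nat_lit 2555794591) (nat_lit 0) (nat_lit 3734834747) (nat_lit 152) (nat_lit 2555794591) (nat_lit 152) (nat_lit 3) (nat_lit 152) (nat_lit 1) (nat_lit 154) (nat_lit 1) (nat_lit 333) (nat_lit 395) (nat_lit 292))))) (XT.nd (nat_lit 234) (nat_lit 304) (nat_lit 0) (XT.nd (nat_lit 78) (nat_lit 152) (nat_lit 0) (XT.lf (nat_lit 76) (nat_lit 2152347779) (nat_lit 0) (nat_lit 3275243166) (nat_lit 76) (nat_lit 3275243166) (nat_lit 152) (nat_lit 3) (nat_lit 151) (nat_lit 1) (nat_lit 152) (nat_lit 1) (nat_lit 334) (nat_lit 395) (nat_lit 291)) (XT.nd (nat_lit 78) (nat_lit 0) (nat_lit 0) (XT.lf (nat_lit 152) (nat_lit 7873346476) (nat_lit 0) (nat_lit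 344975541) (nat_lit 76) (nat_lit 344975541) (nat_lit 151) (nat_lit 1) (nat_lit 149) (nat_lit 1) (nat_lit 150) (nat_lit 1) (nat_lit 335) (nat_lit 395) (nat_lit 290)) (XT.lf (nat_lit 0) (nat_lit 2484219966) (nat_lit 0) (nat_lit 3454219220) (nat_lit 152) (nat_lit 2484219966) (nat_lit 149) (nat_lit 3) (nat_lit 149) (nat_lit 1) (nat_lit 151) (nat_lit 1) (nat_lit 336) (nat_lit 395) (nat_lit 289)))) (XT.nd (nat_lit 156) (nat_lit 76) (nat_lit 0) (XT.nd (nat_lit 78) (nat_lit 152) (nat_lit 0) (XT.lf (nat_lit 76) (nat_lit 2146149059) (nat_lit 0) (nat_lit 3069957873) (nat_lit 76) (nat_lit 3069957873) (nat_lit 149) (nat_lit 3) (nat_lit 148) (nat_lit 1) (nat_lit 149) (nat_lit 1) (nat_lit 337) (nat_lit 395) (nat_lit 288)) (XT.lf (nat_lit 152) (nat_lit 7585766740) (nat_lit 0) (nat_lit 283812231) (nat_lit 76) (nat_lit 283812231) (nat_lit 148) (nat_lit 1) (nat_lit 146) (nat_lit 1) (nat_lit 147) (nat_lit 1) (nat_lit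 338) (nat_lit 395) (nat_lit 287))) (XT.nd (nat_lit 78) (nat_lit 76) (nat_lit 0) (XT.lf (nat_lit 0) (nat_lit 2407165753) (nat_lit 0) (nat_lit 3205186540) (nat_lit 152) (nat_lit 2407165753) (nat_lit 146) (nat_lit 3) (nat_lit 146) (nat_lit 1) (nat_lit 148) (nat_lit 1) (nat_lit 339) (nat_lit 395) (nat_lit 286)) (XT.lf (nat_lit 76) (nat_lit 2123172823) (nat_lit 0) (nat_lit 2883192620) (nat_lit 76) (nat_lit 2883192620) (nat_lit 146) (nat_lit 3) (nat_lit 145) (nat_lit 1) (nat_lit 146) (nat_lit 1) (nat_lit 340) (nat_lit 395) (nat_lit 285))))))) (XT.nd (nat_lit 1014) (nat_lit 912) (nat_lit 0) (XT.nd (nat_lit 468) (nat_lit 608) (nat_lit 0) (XT.nd (nat_lit 234) (nat_lit 228) (nat_lit 0) (XT.nd (nat_lit 78) (nat_lit 76) (nat_lit 0) (XT.lf (nat_lit 152) (nat_lit 7296395841) (nat_lit 0) (nat_lit 233493025) (nat_lit 76) (nat_lit 233493025) (nat_lit 145) (nat_lit 1) (nat_lit 143) (nat_lit 1) (nat_lit 144) (nat_lit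 1) (nat_lit 341) (nat_lit 395) (nat_lit 284)) (XT.nd (nat_lit 78) (nat_lit 76) (nat_lit 0) (XT.lf (nat_lit 0) (nat_lit 2326468688) (nat_lit 0) (nat_lit 2983002365) (nat_lit 152) (nat_lit 2326468688) (nat_lit 143) (nat_lit 3) (nat_lit 143) (nat_lit 1) (nat_lit 145) (nat_lit 1) (nat_lit 342) (nat_lit 395) (nat_lit 283)) (XT.lf (nat_lit 76) (nat_lit 2087244946) (nat_lit 0) (nat_lit 2712515113) (nat_lit 76) (nat_lit 2712515113) (nat_lit 143) (nat_lit 3) (nat_lit 142) (nat_lit 1) (nat_lit 143) (nat_lit 1) (nat_lit 343) (nat_lit 395) (nat_lit 282)))) (XT.nd (nat_lit 78) (nat_lit 76) (nat_lit 0) (XT.lf (nat_lit 152) (nat_lit 7008064602) (nat_lit 0) (nat_lit 192095289) (nat_lit 76) (nat_lit 192095289) (nat_lit 142) (nat_lit 1) (nat_lit 140) (nat_lit 1) (nat_lit 141) (nat_lit 1) (nat_lit 344) (nat_lit 395) (nat_lit 281)) (XT.nd (nat_lit 78) (nat_lit 76) (nat_lit 0) (XT.lf (nat_lit 0) (nat_lit 2243598658)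 (nat_lit 0) (nat_lit 2783730538) (nat_lit 152) (nat_lit 2243598658) (nat_lit 140) (nat_lit 3) (nat_lit 140) (nat_lit 1) (nat_lit 142) (nat_lit 1) (nat_lit 345) (nat_lit 395) (nat_lit 280)) (XT.lf (nat_lit 76) (nat_lit 2041472449) (nat_lit 0) (nat_lit 2555883763) (nat_lit 76) (nat_lit 2555883763) (nat_lit 140) (nat_lit 3) (nat_lit 139) (nat_lit 1) (nat_lit 140) (nat_lit 1) (nat_lit 346) (nat_lit 395) (nat_lit 279))))) (XT.nd (nat_lit 234) (nat_lit 380) (nat_lit 0) (XT.nd (nat_lit 78) (nat_lit 76) (nat_lit 0) (XT.lf (nat_lit 152) (nat_lit 6722982270) (nat_lit 0) (nat_lit 158037270) (nat_lit 76) (nat_lit 158037270) (nat_lit 139) (nat_lit 1) (nat_lit 137) (nat_lit 1) (nat_lit 138) (nat_lit 1) (nat_lit 347) (nat_lit 395) (nat_lit 278)) (XT.nd (nat_lit 78) (nat_lit 76) (nat_lit 0) (XT.lf (nat_lit 0) (nat_lit 2159725702) (nat_lit 0) (nat_lit 2604093536) (nat_lit 152) (nat_lit 2159725702) (nat_lit 137)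 (nat_lit 3) (nat_lit 137) (nat_lit 1) (nat_lit 139) (nat_lit 1) (nat_lit 348) (nat_lit 395) (nat_lit 277)) (XT.lf (nat_lit 76) (nat_lit 1988372880) (nat_lit 0) (nat_lit 2411580342) (nat_lit 76) (nat_lit 2411580342) (nat_lit 137) (nat_lit 3) (nat_lit 136) (nat_lit 1) (nat_lit 137) (nat_lit 1) (nat_lit 349) (nat_lit 395) (nat_lit 276)))) (XT.nd (nat_lit 156) (nat_lit 228) (nat_lit 0) (XT.nd (nat_lit 78) (nat_lit 0) (nat_lit 0) (XT.lf (nat_lit 152) (nat_lit 6442852416) (nat_lit 0) (nat_lit 130017653) (nat_lit 76) (nat_lit 130017653) (nat_lit 136) (nat_lit 1) (nat_lit 134) (nat_lit 1) (nat_lit 135) (nat_lit 1) (nat_lit 350) (nat_lit 395) (nat_lit 275)) (XT.lf (nat_lit 0) (nat_lit 2075775045) (nat_lit 0) (nat_lit 2441357562) (nat_lit 152) (nat_lit 2075775045) (nat_lit 134) (nat_lit 3) (nat_lit 134) (nat_lit 1) (nat_lit 136) (nat_lit 1) (nat_lit 351) (nat_lit 395) (nat_lit 274))) (XT.nd (nat_lit 78)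 (nat_lit 152) (nat_lit 0) (XT.lf (nat_lit 76) (nat_lit 1929980665) (nat_lit 0) (nat_lit 2278154491) (nat_lit 76) (nat_lit 2278154491) (nat_lit 134) (nat_lit 3) (nat_lit 133) (nat_lit 1) (nat_lit 134) (nat_lit 1) (nat_lit 352) (nat_lit 395) (nat_lit 273)) (XT.lf (nat_lit 152) (nat_lit 6168968022) (nat_lit 0) (nat_lit 106965845) (nat_lit 76) (nat_lit 106965845) (nat_lit 133) (nat_lit 1) (nat_lit 131) (nat_lit 1) (nat_lit 132) (nat_lit 1) (nat_lit 353) (nat_lit 395) (nat_lit 272)))))) (XT.nd (nat_lit 468) (nat_lit 456) (nat_lit 0) (XT.nd (nat_lit 234) (nat_lit 228) (nat_lit 0) (XT.nd (nat_lit 78) (nat_lit 228) (nat_lit 0) (XT.lf (nat_lit 0) (nat_lit 1992472281) (nat_lit 0) (nat_lit 2293237923) (nat_lit 152) (nat_lit 1992472281) (nat_lit 131) (nat_lit 3) (nat_lit 131) (nat_lit 1) (nat_lit 133) (nat_lit 1) (nat_lit 354) (nat_lit 395) (nat_lit 271)) (XT.nd (nat_lit 78) (nat_lit 152) (nat_lit 0) (XT.lf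 (nat_lit 76) (nat_lit 1867934513) (nat_lit 0) (nat_lit 2154377981) (nat_lit 76) (nat_lit 2154377981) (nat_lit 131) (nat_lit 3) (nat_lit 130) (nat_lit 1) (nat_lit 131) (nat_lit 1) (nat_lit 355) (nat_lit 395) (nat_lit 270)) (XT.lf (nat_lit 152) (nat_lit 5902289444) (nat_lit 0) (nat_lit 88001065) (nat_lit 76) (nat_lit 88001065) (nat_lit 130) (nat_lit 1) (nat_lit 128) (nat_lit 1) (nat_lit 129) (nat_lit 1) (nat_lit 356) (nat_lit 395) (nat_lit 269)))) (XT.nd (nat_lit 78) (nat_lit 228) (nat_lit 0) (XT.lf (nat_lit 0) (nat_lit 1910380462) (nat_lit 0) (nat_lit 2157821100) (nat_lit 152) (nat_lit 1910380462) (nat_lit 128) (nat_lit 3) (nat_lit 128) (nat_lit 1) (nat_lit 130) (nat_lit 1) (nat_lit 357) (nat_lit 395) (nat_lit 268)) (XT.nd (nat_lit 78) (nat_lit 152) (nat_lit 0) (XT.lf (nat_lit 76) (nat_lit 1803549245) (nat_lit 0) (nat_lit 2039206995) (nat_lit 76) (nat_lit 2039206995) (nat_lit 128) (nat_lit 3) (nat_lit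 127) (nat_lit 1) (nat_lit 128) (nat_lit 1) (nat_lit 358) (nat_lit 395) (nat_lit 267)) (XT.lf (nat_lit 152) (nat_lit 5643508309) (nat_lit 0) (nat_lit 72398694) (nat_lit 76) (nat_lit 72398694) (nat_lit 127) (nat_lit 1) (nat_lit 125) (nat_lit 1) (nat_lit 126) (nat_lit 1) (nat_lit 359) (nat_lit 395) (nat_lit 266))))) (XT.nd (nat_lit 234) (nat_lit 228) (nat_lit 0) (XT.nd (nat_lit 78) (nat_lit 228) (nat_lit 0) (XT.lf (nat_lit 0) (nat_lit 1829930529) (nat_lit 0) (nat_lit 2033500554) (nat_lit 152) (nat_lit 1829930529) (nat_lit 125) (nat_lit 3) (nat_lit 125) (nat_lit 1) (nat_lit 127) (nat_lit 1) (nat_lit 360) (nat_lit 395) (nat_lit 265)) (XT.nd (nat_lit 78) (nat_lit 152) (nat_lit 0) (XT.lf (nat_lit 76) (nat_lit 1737874807) (nat_lit 0) (nat_lit 1931751021) (nat_lit 76) (nat_lit 1931751021) (nat_lit 125) (nat_lit 3) (nat_lit 124) (nat_lit 1) (nat_lit 125) (nat_lit 1) (nat_lit 361) (nat_lit 395) (nat_lit 264))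 (XT.lf (nat_lit 152) (nat_lit 5393099849) (nat_lit 0) (nat_lit 59562585) (nat_lit 76) (nat_lit 59562585) (nat_lit 124) (nat_lit 1) (nat_lit 122) (nat_lit 1) (nat_lit 123) (nat_lit 1) (nat_lit 362) (nat_lit 395) (nat_lit 263)))) (XT.nd (nat_lit 156) (nat_lit 152) (nat_lit 0) (XT.nd (nat_lit 78) (nat_lit 76) (nat_lit 0) (XT.lf (nat_lit 0) (nat_lit 1751446276) (nat_lit 0) (nat_lit 1918923839) (nat_lit 152) (nat_lit 1751446276) (nat_lit 122) (nat_lit 3) (nat_lit 122) (nat_lit 1) (nat_lit 124) (nat_lit 1) (nat_lit 363) (nat_lit 395) (nat_lit 262)) (XT.lf (nat_lit 76) (nat_lit 1671744742) (nat_lit 0) (nat_lit 1831247183) (nat_lit 76) (nat_lit 1831247183) (nat_lit 122) (nat_lit 3) (nat_lit 121) (nat_lit 1) (nat_lit 122) (nat_lit 1) (nat_lit 364) (nat_lit 395) (nat_lit 261))) (XT.nd (nat_lit 78) (nat_lit 0) (nat_lit 0) (XT.lf (nat_lit 152) (nat_lit 5151365732) (nat_lit 0) (nat_lit 49002286) (nat_lit 76)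 (nat_lit 49002286) (nat_lit 121) (nat_lit 1) (nat_lit 119) (nat_lit 1) (nat_lit 120) (nat_lit 1) (nat_lit 365) (nat_lit 395) (nat_lit 260)) (XT.lf (nat_lit 0) (nat_lit 1675164805) (nat_lit 0) (nat_lit 1812949011) (nat_lit 152) (nat_lit 1675164805) (nat_lit 119) (nat_lit 3) (nat_lit 119) (nat_lit 1) (nat_lit 121) (nat_lit 1) (nat_lit 366) (nat_lit 395) (nat_lit 259))))))))
noncomputable def ec236 : XT := (XT.nd (nat_lit 1950) (nat_lit 1976) (nat_lit 0) (XT.nd (nat_lit 936) (nat_lit 988) (nat_lit 0) (XT.nd (nat_lit 468) (nat_lit 456) (nat_lit 0) (XT.nd (nat_lit 234) (nat_lit 228) (nat_lit 0) (XT.nd (nat_lit 78) (nat_lit 152) (nat_lit 0) (XT.lf (nat_lit 76) (nat_lit 1605816001) (nat_lit 0) (nat_lit 1737039054) (nat_lit 76) (nat_lit 1737039054) (nat_lit 119) (nat_lit 3) (nat_lit 118) (nat_lit 1) (nat_lit 119) (nat_lit 1) (nat_lit 367) (nat_lit 395) (nat_lit 258)) (XT.nd (nat_lit 78) (nat_lit 0) (nat_lit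 0) (XT.lf (nat_lit 152) (nat_lit 4918469089) (nat_lit 0) (nat_lit 40314302) (nat_lit 76) (nat_lit 40314302) (nat_lit 118) (nat_lit 1) (nat_lit 116) (nat_lit 1) (nat_lit 117) (nat_lit 1) (nat_lit 368) (nat_lit 395) (nat_lit 257)) (XT.lf (nat_lit 0) (nat_lit 1601253297) (nat_lit 0) (nat_lit 1714608704) (nat_lit 152) (nat_lit 1601253297) (nat_lit 116) (nat_lit 3) (nat_lit 116) (nat_lit 1) (nat_lit 118) (nat_lit 1) (nat_lit 369) (nat_lit 395) (nat_lit 256)))) (XT.nd (nat_lit 78) (nat_lit 152) (nat_lit 0) (XT.lf (nat_lit 76) (nat_lit 1540601621) (nat_lit 0) (nat_lit 1648559152) (nat_lit 76) (nat_lit 1648559152) (nat_lit 116) (nat_lit 3) (nat_lit 115) (nat_lit 1) (nat_lit 116) (nat_lit 1) (nat_lit 370) (nat_lit 395) (nat_lit 255)) (XT.nd (nat_lit 78) (nat_lit 0) (nat_lit 0) (XT.lf (nat_lit 152) (nat_lit 4694463122) (nat_lit 0) (nat_lit 33166676) (nat_lit 76) (nat_lit 33166676) (nat_lit 115) (nat_lit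 1) (nat_lit 113) (nat_lit 1) (nat_lit 114) (nat_lit 1) (nat_lit 371) (nat_lit 395) (nat_lit 254)) (XT.lf (nat_lit 0) (nat_lit 1529822732) (nat_lit 0) (nat_lit 1623080506) (nat_lit 152) (nat_lit 1529822732) (nat_lit 113) (nat_lit 3) (nat_lit 113) (nat_lit 1) (nat_lit 115) (nat_lit 1) (nat_lit 372) (nat_lit 395) (nat_lit 253))))) (XT.nd (nat_lit 234) (nat_lit 228) (nat_lit 0) (XT.nd (nat_lit 78) (nat_lit 152) (nat_lit 0) (XT.lf (nat_lit 76) (nat_lit 1476497550) (nat_lit 0) (nat_lit 1565314478) (nat_lit 76) (nat_lit 1565314478) (nat_lit 113) (nat_lit 3) (nat_lit 112) (nat_lit 1) (nat_lit 113) (nat_lit 1) (nat_lit 373) (nat_lit 395) (nat_lit 252)) (XT.nd (nat_lit 78) (nat_lit 0) (nat_lit 0) (XT.lf (nat_lit 152) (nat_lit 4479314458) (nat_lit 0) (nat_lit 27286306) (nat_lit 76) (nat_lit 27286306) (nat_lit 112) (nat_lit 1) (nat_lit 110) (nat_lit 1) (nat_lit 111) (nat_lit 1) (nat_lit 374) (nat_lit 395)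 (nat_lit 251)) (XT.lf (nat_lit 0) (nat_lit 1460939121) (nat_lit 0) (nat_lit 1537662523) (nat_lit 152) (nat_lit 1460939121) (nat_lit 110) (nat_lit 3) (nat_lit 110) (nat_lit 1) (nat_lit 112) (nat_lit 1) (nat_lit 375) (nat_lit 395) (nat_lit 250)))) (XT.nd (nat_lit 78) (nat_lit 152) (nat_lit 0) (XT.lf (nat_lit 76) (nat_lit 1413804650) (nat_lit 0) (nat_lit 1486874556) (nat_lit 76) (nat_lit 1486874556) (nat_lit 110) (nat_lit 3) (nat_lit 109) (nat_lit 1) (nat_lit 110) (nat_lit 1) (nat_lit 376) (nat_lit 395) (nat_lit 249)) (XT.nd (nat_lit 78) (nat_lit 0) (nat_lit 0) (XT.lf (nat_lit 152) (nat_lit 4272922165) (nat_lit 0) (nat_lit 22448511) (nat_lit 76) (nat_lit 22448511) (nat_lit 109) (nat_lit 1) (nat_lit 107) (nat_lit 1) (nat_lit 108) (nat_lit 1) (nat_lit 377) (nat_lit 395) (nat_lit 248)) (XT.lf (nat_lit 0) (nat_lit 1394632682) (nat_lit 0) (nat_lit 1457753214) (nat_lit 152) (nat_lit 1394632682) (nat_lit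 107) (nat_lit 3) (nat_lit 107) (nat_lit 1) (nat_lit 109) (nat_lit 1) (nat_lit 378) (nat_lit 395) (nat_lit 247)))))) (XT.nd (nat_lit 468) (nat_lit 532) (nat_lit 0) (XT.nd (nat_lit 234) (nat_lit 228) (nat_lit 0) (XT.nd (nat_lit 78) (nat_lit 152) (nat_lit 0) (XT.lf (nat_lit 76) (nat_lit 1352746737) (nat_lit 0) (nat_lit 1412861530) (nat_lit 76) (nat_lit 1412861530) (nat_lit 107) (nat_lit 3) (nat_lit 106) (nat_lit 1) (nat_lit 107) (nat_lit 1) (nat_lit 379) (nat_lit 395) (nat_lit 246)) (XT.nd (nat_lit 78) (nat_lit 0) (nat_lit 0) (XT.lf (nat_lit 152) (nat_lit 4075133235) (nat_lit 0) (nat_lit 18468446) (nat_lit 76) (nat_lit 18468446) (nat_lit 106) (nat_lit 1) (nat_lit 104) (nat_lit 1) (nat_lit 105) (nat_lit 1) (nat_lit 380) (nat_lit 395) (nat_lit 245)) (XT.lf (nat_lit 0) (nat_lit 1330905331) (nat_lit 0) (nat_lit 1382834749) (nat_lit 152) (nat_lit 1330905331) (nat_lit 104) (nat_lit 3) (nat_lit 104) (nat_lit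 1) (nat_lit 106) (nat_lit 1) (nat_lit 381) (nat_lit 395) (nat_lit 244)))) (XT.nd (nat_lit 78) (nat_lit 152) (nat_lit 0) (XT.lf (nat_lit 76) (nat_lit 1293485377) (nat_lit 0) (nat_lit 1342941966) (nat_lit 76) (nat_lit 1342941966) (nat_lit 104) (nat_lit 3) (nat_lit 103) (nat_lit 1) (nat_lit 104) (nat_lit 1) (nat_lit 382) (nat_lit 395) (nat_lit 243)) (XT.nd (nat_lit 78) (nat_lit 0) (nat_lit 0) (XT.lf (nat_lit 152) (nat_lit 3885755146) (nat_lit 0) (nat_lit 15194036) (nat_lit 76) (nat_lit 15194036) (nat_lit 103) (nat_lit 1) (nat_lit 101) (nat_lit 1) (nat_lit 102) (nat_lit 1) (nat_lit 383) (nat_lit 395) (nat_lit 242)) (XT.lf (nat_lit 0) (nat_lit 1269736797) (nat_lit 0) (nat_lit 1312459258) (nat_lit 152) (nat_lit 1269736797) (nat_lit 101) (nat_lit 3) (nat_lit 101) (nat_lit 1) (nat_lit 103) (nat_lit 1) (nat_lit 384) (nat_lit 395) (nat_lit 241))))) (XT.nd (nat_lit 234) (nat_lit 304) (nat_lit 0) (XT.nd (nat_lit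 78) (nat_lit 152) (nat_lit 0) (XT.lf (nat_lit 76) (nat_lit 1236131991) (nat_lit 0) (nat_lit 1276820049) (nat_lit 76) (nat_lit 1276820049) (nat_lit 101) (nat_lit 3) (nat_lit 100) (nat_lit 1) (nat_lit 101) (nat_lit 1) (nat_lit 385) (nat_lit 395) (nat_lit 240)) (XT.nd (nat_lit 78) (nat_lit 0) (nat_lit 0) (XT.lf (nat_lit 152) (nat_lit 3704566040) (nat_lit 0) (nat_lit 12500171) (nat_lit 76) (nat_lit 12500171) (nat_lit 100) (nat_lit 1) (nat_lit 98) (nat_lit 1) (nat_lit 99) (nat_lit 1) (nat_lit 386) (nat_lit 395) (nat_lit 239)) (XT.lf (nat_lit 0) (nat_lit 1211089594) (nat_lit 0) (nat_lit 1246237468) (nat_lit 152) (nat_lit 1211089594) (nat_lit 98) (nat_lit 3) (nat_lit 98) (nat_lit 1) (nat_lit 100) (nat_lit 1) (nat_lit 387) (nat_lit 395) (nat_lit 238)))) (XT.nd (nat_lit 156) (nat_lit 76) (nat_lit 0) (XT.nd (nat_lit 78) (nat_lit 152) (nat_lit 0) (XT.lf (nat_lit 76) (nat_lit 1180757773) (nat_lit 0) (nat_lit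 1214231939) (nat_lit 76) (nat_lit 1214231939) (nat_lit 98) (nat_lit 3) (nat_lit 97) (nat_lit 1) (nat_lit 98) (nat_lit 1) (nat_lit 388) (nat_lit 395) (nat_lit 237)) (XT.lf (nat_lit 152) (nat_lit 3531322949) (nat_lit 0) (nat_lit 10283921) (nat_lit 76) (nat_lit 10283921) (nat_lit 97) (nat_lit 1) (nat_lit 95) (nat_lit 1) (nat_lit 96) (nat_lit 1) (nat_lit 389) (nat_lit 395) (nat_lit 236))) (XT.nd (nat_lit 78) (nat_lit 76) (nat_lit 0) (XT.lf (nat_lit 0) (nat_lit 1154913062) (nat_lit 0) (nat_lit 1183829305) (nat_lit 152) (nat_lit 1154913062) (nat_lit 95) (nat_lit 3) (nat_lit 95) (nat_lit 1) (nat_lit 97) (nat_lit 1) (nat_lit 390) (nat_lit 395) (nat_lit 235)) (XT.lf (nat_lit 76) (nat_lit 1127401793) (nat_lit 0) (nat_lit 1154941072) (nat_lit 76) (nat_lit 1154941072) (nat_lit 95) (nat_lit 3) (nat_lit 94) (nat_lit 1) (nat_lit 95) (nat_lit 1) (nat_lit 391) (nat_lit 395) (nat_lit 234))))))) (XT.nd (nat_lit 936)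 (nat_lit 1064) (nat_lit 0) (XT.nd (nat_lit 468) (nat_lit 456) (nat_lit 0) (XT.nd (nat_lit 234) (nat_lit 228) (nat_lit 0) (XT.nd (nat_lit 78) (nat_lit 76) (nat_lit 0) (XT.lf (nat_lit 152) (nat_lit 3365768415) (nat_lit 0) (nat_lit 8460608) (nat_lit 76) (nat_lit 8460608) (nat_lit 94) (nat_lit 1) (nat_lit 92) (nat_lit 1) (nat_lit 93) (nat_lit 1) (nat_lit 392) (nat_lit 395) (nat_lit 233)) (XT.nd (nat_lit 78) (nat_lit 76) (nat_lit 0) (XT.lf (nat_lit 0) (nat_lit 1101146649) (nat_lit 0) (nat_lit 1124936114) (nat_lit 152) (nat_lit 1101146649) (nat_lit 92) (nat_lit 3) (nat_lit 92) (nat_lit 1) (nat_lit 94) (nat_lit 1) (nat_lit 393) (nat_lit 395) (nat_lit 232)) (XT.lf (nat_lit 76) (nat_lit 1076077628) (nat_lit 0) (nat_lit 1098734261) (nat_lit 76) (nat_lit 1098734261) (nat_lit 92) (nat_lit 3) (nat_lit 91) (nat_lit 1) (nat_lit 92) (nat_lit 1) (nat_lit 394) (nat_lit 395) (nat_lit 231)))) (XT.nd (nat_lit 78) (nat_lit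 76) (nat_lit 0) (XT.lf (nat_lit 152) (nat_lit 3207635801) (nat_lit 0) (nat_lit 6960563) (nat_lit 76) (nat_lit 6960563) (nat_lit 91) (nat_lit 1) (nat_lit 89) (nat_lit 1) (nat_lit 90) (nat_lit 1) (nat_lit 395) (nat_lit 395) (nat_lit 230)) (XT.nd (nat_lit 78) (nat_lit 76) (nat_lit 0) (XT.lf (nat_lit 0) (nat_lit 1049722564) (nat_lit 0) (nat_lit 1069294215) (nat_lit 152) (nat_lit 1049722564) (nat_lit 89) (nat_lit 3) (nat_lit 89) (nat_lit 1) (nat_lit 91) (nat_lit 1) (nat_lit 396) (nat_lit 395) (nat_lit 229)) (XT.lf (nat_lit 76) (nat_lit 1026778758) (nat_lit 0) (nat_lit 1045418426) (nat_lit 76) (nat_lit 1045418426) (nat_lit 89) (nat_lit 3) (nat_lit 88) (nat_lit 1) (nat_lit 89) (nat_lit 1) (nat_lit 397) (nat_lit 395) (nat_lit 228))))) (XT.nd (nat_lit 234) (nat_lit 228) (nat_lit 0) (XT.nd (nat_lit 78) (nat_lit 76) (nat_lit 0) (XT.lf (nat_lit 152) (nat_lit 3056653526) (nat_lit 0) (nat_lit 5726472) (nat_lit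 76) (nat_lit 5726472) (nat_lit 88) (nat_lit 1) (nat_lit 86) (nat_lit 1) (nat_lit 87) (nat_lit 1) (nat_lit 398) (nat_lit 395) (nat_lit 227)) (XT.nd (nat_lit 78) (nat_lit 76) (nat_lit 0) (XT.lf (nat_lit 0) (nat_lit 1000567913) (nat_lit 0) (nat_lit 1016669559) (nat_lit 152) (nat_lit 1000567913) (nat_lit 86) (nat_lit 3) (nat_lit 86) (nat_lit 1) (nat_lit 88) (nat_lit 1) (nat_lit 399) (nat_lit 395) (nat_lit 226)) (XT.lf (nat_lit 76) (nat_lit 979482979) (nat_lit 0) (nat_lit 994817880) (nat_lit 76) (nat_lit 994817880) (nat_lit 86) (nat_lit 3) (nat_lit 85) (nat_lit 1) (nat_lit 86) (nat_lit 1) (nat_lit 400) (nat_lit 395) (nat_lit 225)))) (XT.nd (nat_lit 78) (nat_lit 76) (nat_lit 0) (XT.lf (nat_lit 152) (nat_lit 2912548435) (nat_lit 0) (nat_lit 4711183) (nat_lit 76) (nat_lit 4711183) (nat_lit 85) (nat_lit 1) (nat_lit 83) (nat_lit 1) (nat_lit 84) (nat_lit 1) (nat_lit 401) (nat_lit 395) (nat_lit 224)) (XT.nd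 (nat_lit 78) (nat_lit 76) (nat_lit 0) (XT.lf (nat_lit 0) (nat_lit 953606424) (nat_lit 0) (nat_lit 966853288) (nat_lit 152) (nat_lit 953606424) (nat_lit 83) (nat_lit 3) (nat_lit 83) (nat_lit 1) (nat_lit 85) (nat_lit 1) (nat_lit 402) (nat_lit 395) (nat_lit 223)) (XT.lf (nat_lit 76) (nat_lit 934155978) (nat_lit 0) (nat_lit 946772039) (nat_lit 76) (nat_lit 946772039) (nat_lit 83) (nat_lit 3) (nat_lit 82) (nat_lit 1) (nat_lit 83) (nat_lit 1) (nat_lit 403) (nat_lit 395) (nat_lit 222)))))) (XT.nd (nat_lit 468) (nat_lit 608) (nat_lit 0) (XT.nd (nat_lit 234) (nat_lit 228) (nat_lit 0) (XT.nd (nat_lit 78) (nat_lit 76) (nat_lit 0) (XT.lf (nat_lit 152) (nat_lit 2775048438) (nat_lit 0) (nat_lit 3875902) (nat_lit 76) (nat_lit 3875902) (nat_lit 82) (nat_lit 1) (nat_lit 80) (nat_lit 1) (nat_lit 81) (nat_lit 1) (nat_lit 404) (nat_lit 395) (nat_lit 221)) (XT.nd (nat_lit 78) (nat_lit 76) (nat_lit 0) (XT.lf (nat_lit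 0) (nat_lit 908759819) (nat_lit 0) (nat_lit 919658046) (nat_lit 152) (nat_lit 908759819) (nat_lit 80) (nat_lit 3) (nat_lit 80) (nat_lit 1) (nat_lit 82) (nat_lit 1) (nat_lit 405) (nat_lit 395) (nat_lit 220)) (XT.lf (nat_lit 76) (nat_lit 890754252) (nat_lit 0) (nat_lit 901133517) (nat_lit 76) (nat_lit 901133517) (nat_lit 80) (nat_lit 3) (nat_lit 79) (nat_lit 1) (nat_lit 80) (nat_lit 1) (nat_lit 406) (nat_lit 395) (nat_lit 219)))) (XT.nd (nat_lit 78) (nat_lit 76) (nat_lit 0) (XT.lf (nat_lit 152) (nat_lit 2643884582) (nat_lit 0) (nat_lit 3188714) (nat_lit 76) (nat_lit 3188714) (nat_lit 79) (nat_lit 1) (nat_lit 77) (nat_lit 1) (nat_lit 78) (nat_lit 1) (nat_lit 407) (nat_lit 395) (nat_lit 218)) (XT.nd (nat_lit 78) (nat_lit 76) (nat_lit 0) (XT.lf (nat_lit 0) (nat_lit 865948907) (nat_lit 0) (nat_lit 874914906) (nat_lit 152) (nat_lit 865948907) (nat_lit 77) (nat_lit 3) (nat_lit 77) (nat_lit 1) (nat_lit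 79) (nat_lit 1) (nat_lit 408) (nat_lit 395) (nat_lit 217)) (XT.lf (nat_lit 76) (nat_lit 849227458) (nat_lit 0) (nat_lit 857766505) (nat_lit 76) (nat_lit 857766505) (nat_lit 77) (nat_lit 3) (nat_lit 76) (nat_lit 1) (nat_lit 77) (nat_lit 1) (nat_lit 409) (nat_lit 395) (nat_lit 216))))) (XT.nd (nat_lit 234) (nat_lit 380) (nat_lit 0) (XT.nd (nat_lit 78) (nat_lit 76) (nat_lit 0) (XT.lf (nat_lit 152) (nat_lit 2518792641) (nat_lit 0) (nat_lit 2623363) (nat_lit 76) (nat_lit 2623363) (nat_lit 76) (nat_lit 1) (nat_lit 74) (nat_lit 1) (nat_lit 75) (nat_lit 1) (nat_lit 410) (nat_lit 395) (nat_lit 215)) (XT.nd (nat_lit 78) (nat_lit 76) (nat_lit 0) (XT.lf (nat_lit 0) (nat_lit 825094457) (nat_lit 0) (nat_lit 832470807) (nat_lit 152) (nat_lit 825094457) (nat_lit 74) (nat_lit 3) (nat_lit 74) (nat_lit 1) (nat_lit 76) (nat_lit 1) (nat_lit 411) (nat_lit 395) (nat_lit 214)) (XT.lf (nat_lit 76) (nat_lit 809520322) (nat_lit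 0) (nat_lit 816545417) (nat_lit 76) (nat_lit 816545417) (nat_lit 74) (nat_lit 3) (nat_lit 73) (nat_lit 1) (nat_lit 74) (nat_lit 1) (nat_lit 412) (nat_lit 395) (nat_lit 213)))) (XT.nd (nat_lit 156) (nat_lit 228) (nat_lit 0) (XT.nd (nat_lit 78) (nat_lit 0) (nat_lit 0) (XT.lf (nat_lit 152) (nat_lit 2399514322) (nat_lit 0) (nat_lit 2158247) (nat_lit 76) (nat_lit 2158247) (nat_lit 73) (nat_lit 1) (nat_lit 71) (nat_lit 1) (nat_lit 72) (nat_lit 1) (nat_lit 413) (nat_lit 395) (nat_lit 212)) (XT.lf (nat_lit 0) (nat_lit 786117869) (nat_lit 0) (nat_lit 792186410) (nat_lit 152) (nat_lit 786117869) (nat_lit 71) (nat_lit 3) (nat_lit 71) (nat_lit 1) (nat_lit 73) (nat_lit 1) (nat_lit 414) (nat_lit 395) (nat_lit 211))) (XT.nd (nat_lit 78) (nat_lit 152) (nat_lit 0) (XT.lf (nat_lit 76) (nat_lit 771574173) (nat_lit 0) (nat_lit 777353736) (nat_lit 76) (nat_lit 777353736) (nat_lit 71) (nat_lit 3) (nat_lit 70) (nat_lit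 1) (nat_lit 71) (nat_lit 1) (nat_lit 415) (nat_lit 395) (nat_lit 210)) (XT.lf (nat_lit 152) (nat_lit 2285798164) (nat_lit 0) (nat_lit 1775595) (nat_lit 76) (nat_lit 1775595) (nat_lit 70) (nat_lit 1) (nat_lit 68) (nat_lit 1) (nat_lit 69) (nat_lit 1) (nat_lit 416) (nat_lit 395) (nat_lit 209))))))))
noncomputable def ec237 : XT := (XT.nd (nat_lit 1950) (nat_lit 456) (nat_lit 0) (XT.nd (nat_lit 936) (nat_lit 912) (nat_lit 0) (XT.nd (nat_lit 468) (nat_lit 456) (nat_lit 0) (XT.nd (nat_lit 234) (nat_lit 228) (nat_lit 0) (XT.nd (nat_lit 78) (nat_lit 228) (nat_lit 0) (XT.lf (nat_lit 0) (nat_lit 748941704) (nat_lit 0) (nat_lit 753934308) (nat_lit 152) (nat_lit 748941704) (nat_lit 68) (nat_lit 3) (nat_lit 68) (nat_lit 1) (nat_lit 70) (nat_lit 1) (nat_lit 417) (nat_lit 395) (nat_lit 208)) (XT.nd (nat_lit 78) (nat_lit 152) (nat_lit 0) (XT.lf (nat_lit 76) (nat_lit 735328173) (nat_lit 0) (nat_lit 740083034) (nat_lit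 76) (nat_lit 740083034) (nat_lit 68) (nat_lit 3) (nat_lit 67) (nat_lit 1) (nat_lit 68) (nat_lit 1) (nat_lit 418) (nat_lit 395) (nat_lit 207)) (XT.lf (nat_lit 152) (nat_lit 2177400181) (nat_lit 0) (nat_lit 1460786) (nat_lit 76) (nat_lit 1460786) (nat_lit 67) (nat_lit 1) (nat_lit 65) (nat_lit 1) (nat_lit 66) (nat_lit 1) (nat_lit 419) (nat_lit 395) (nat_lit 206)))) (XT.nd (nat_lit 78) (nat_lit 228) (nat_lit 0) (XT.lf (nat_lit 0) (nat_lit 713490087) (nat_lit 0) (nat_lit 717597514) (nat_lit 152) (nat_lit 713490087) (nat_lit 65) (nat_lit 3) (nat_lit 65) (nat_lit 1) (nat_lit 67) (nat_lit 1) (nat_lit 420) (nat_lit 395) (nat_lit 205)) (XT.nd (nat_lit 78) (nat_lit 152) (nat_lit 0) (XT.lf (nat_lit 76) (nat_lit 700720300) (nat_lit 0) (nat_lit 704632135) (nat_lit 76) (nat_lit 704632135) (nat_lit 65) (nat_lit 3) (nat_lit 64) (nat_lit 1) (nat_lit 65) (nat_lit 1) (nat_lit 421) (nat_lit 395) (nat_lit 204)) (XT.lf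 (nat_lit 152) (nat_lit 2074084302) (nat_lit 0) (nat_lit 1201792) (nat_lit 76) (nat_lit 1201792) (nat_lit 64) (nat_lit 1) (nat_lit 62) (nat_lit 1) (nat_lit 63) (nat_lit 1) (nat_lit 422) (nat_lit 395) (nat_lit 203))))) (XT.nd (nat_lit 234) (nat_lit 228) (nat_lit 0) (XT.nd (nat_lit 78) (nat_lit 228) (nat_lit 0) (XT.lf (nat_lit 0) (nat_lit 679689006) (nat_lit 0) (nat_lit 683068197) (nat_lit 152) (nat_lit 679689006) (nat_lit 62) (nat_lit 3) (nat_lit 62) (nat_lit 1) (nat_lit 64) (nat_lit 1) (nat_lit 423) (nat_lit 395) (nat_lit 202)) (XT.nd (nat_lit 78) (nat_lit 152) (nat_lit 0) (XT.lf (nat_lit 76) (nat_lit 667688126) (nat_lit 0) (nat_lit 670906403) (nat_lit 76) (nat_lit 670906403) (nat_lit 62) (nat_lit 3) (nat_lit 61) (nat_lit 1) (nat_lit 62) (nat_lit 1) (nat_lit 424) (nat_lit 395) (nat_lit 201)) (XT.lf (nat_lit 152) (nat_lit 1975622655) (nat_lit 0) (nat_lit 988717) (nat_lit 76) (nat_lit 988717) (nat_lit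 61) (nat_lit 1) (nat_lit 59) (nat_lit 1) (nat_lit 60) (nat_lit 1) (nat_lit 425) (nat_lit 395) (nat_lit 200)))) (XT.nd (nat_lit 78) (nat_lit 228) (nat_lit 0) (XT.lf (nat_lit 0) (nat_lit 647466538) (nat_lit 0) (nat_lit 650246606) (nat_lit 152) (nat_lit 647466538) (nat_lit 59) (nat_lit 3) (nat_lit 59) (nat_lit 1) (nat_lit 61) (nat_lit 1) (nat_lit 426) (nat_lit 395) (nat_lit 199)) (XT.nd (nat_lit 78) (nat_lit 152) (nat_lit 0) (XT.lf (nat_lit 76) (nat_lit 636169437) (nat_lit 0) (nat_lit 638817122) (nat_lit 76) (nat_lit 638817122) (nat_lit 59) (nat_lit 3) (nat_lit 58) (nat_lit 1) (nat_lit 59) (nat_lit 1) (nat_lit 427) (nat_lit 395) (nat_lit 198)) (XT.lf (nat_lit 152) (nat_lit 1881795711) (nat_lit 0) (nat_lit 813420) (nat_lit 76) (nat_lit 813420) (nat_lit 58) (nat_lit 1) (nat_lit 56) (nat_lit 1) (nat_lit 57) (nat_lit 1) (nat_lit 428) (nat_lit 395) (nat_lit 197)))))) (XT.nd (nat_lit 468) (nat_lit 456)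 (nat_lit 0) (XT.nd (nat_lit 234) (nat_lit 228) (nat_lit 0) (XT.nd (nat_lit 78) (nat_lit 228) (nat_lit 0) (XT.lf (nat_lit 0) (nat_lit 616752999) (nat_lit 0) (nat_lit 619040169) (nat_lit 152) (nat_lit 616752999) (nat_lit 56) (nat_lit 3) (nat_lit 56) (nat_lit 1) (nat_lit 58) (nat_lit 1) (nat_lit 429) (nat_lit 395) (nat_lit 196)) (XT.nd (nat_lit 78) (nat_lit 152) (nat_lit 0) (XT.lf (nat_lit 76) (nat_lit 606102707) (nat_lit 0) (nat_lit 608280963) (nat_lit 76) (nat_lit 608280963) (nat_lit 56) (nat_lit 3) (nat_lit 55) (nat_lit 1) (nat_lit 56) (nat_lit 1) (nat_lit 430) (nat_lit 395) (nat_lit 195)) (XT.lf (nat_lit 152) (nat_lit 1792392335) (nat_lit 0) (nat_lit 669203) (nat_lit 76) (nat_lit 669203) (nat_lit 55) (nat_lit 1) (nat_lit 53) (nat_lit 1) (nat_lit 54) (nat_lit 1) (nat_lit 431) (nat_lit 395) (nat_lit 194)))) (XT.nd (nat_lit 78) (nat_lit 228) (nat_lit 0) (XT.lf (nat_lit 0) (nat_lit 587481054) (nat_lit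 0) (nat_lit 589362714) (nat_lit 152) (nat_lit 587481054) (nat_lit 53) (nat_lit 3) (nat_lit 53) (nat_lit 1) (nat_lit 55) (nat_lit 1) (nat_lit 432) (nat_lit 395) (nat_lit 193)) (XT.nd (nat_lit 78) (nat_lit 152) (nat_lit 0) (XT.lf (nat_lit 76) (nat_lit 577427470) (nat_lit 0) (nat_lit 579219527) (nat_lit 76) (nat_lit 579219527) (nat_lit 53) (nat_lit 3) (nat_lit 52) (nat_lit 1) (nat_lit 53) (nat_lit 1) (nat_lit 433) (nat_lit 395) (nat_lit 192)) (XT.lf (nat_lit 152) (nat_lit 1707209749) (nat_lit 0) (nat_lit 550555) (nat_lit 76) (nat_lit 550555) (nat_lit 52) (nat_lit 1) (nat_lit 50) (nat_lit 1) (nat_lit 51) (nat_lit 1) (nat_lit 434) (nat_lit 395) (nat_lit 191))))) (XT.nd (nat_lit 234) (nat_lit 228) (nat_lit 0) (XT.nd (nat_lit 78) (nat_lit 228) (nat_lit 0) (XT.lf (nat_lit 0) (nat_lit 559585769) (nat_lit 0) (nat_lit 561133815) (nat_lit 152) (nat_lit 559585769) (nat_lit 50) (nat_lit 3) (nat_lit 50) (nat_lit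 1) (nat_lit 52) (nat_lit 1) (nat_lit 435) (nat_lit 395) (nat_lit 190)) (XT.nd (nat_lit 78) (nat_lit 152) (nat_lit 0) (XT.lf (nat_lit 76) (nat_lit 550084602) (nat_lit 0) (nat_lit 551558932) (nat_lit 76) (nat_lit 551558932) (nat_lit 50) (nat_lit 3) (nat_lit 49) (nat_lit 1) (nat_lit 50) (nat_lit 1) (nat_lit 436) (nat_lit 395) (nat_lit 189)) (XT.lf (nat_lit 152) (nat_lit 1626053437) (nat_lit 0) (nat_lit 452943) (nat_lit 76) (nat_lit 452943) (nat_lit 49) (nat_lit 1) (nat_lit 47) (nat_lit 1) (nat_lit 48) (nat_lit 1) (nat_lit 437) (nat_lit 395) (nat_lit 188)))) (XT.nd (nat_lit 156) (nat_lit 152) (nat_lit 0) (XT.nd (nat_lit 78) (nat_lit 76) (nat_lit 0) (XT.lf (nat_lit 0) (nat_lit 533004647) (nat_lit 0) (nat_lit 534278228) (nat_lit 152) (nat_lit 533004647) (nat_lit 47) (nat_lit 3) (nat_lit 47) (nat_lit 1) (nat_lit 49) (nat_lit 1) (nat_lit 438) (nat_lit 395) (nat_lit 187)) (XT.lf (nat_lit 76) (nat_lit 524016528)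 (nat_lit 0) (nat_lit 525229463) (nat_lit 76) (nat_lit 525229463) (nat_lit 47) (nat_lit 3) (nat_lit 46) (nat_lit 1) (nat_lit 47) (nat_lit 1) (nat_lit 439) (nat_lit 395) (nat_lit 186))) (XT.nd (nat_lit 78) (nat_lit 0) (nat_lit 0) (XT.lf (nat_lit 152) (nat_lit 1548736998) (nat_lit 0) (nat_lit 372637) (nat_lit 76) (nat_lit 372637) (nat_lit 46) (nat_lit 1) (nat_lit 44) (nat_lit 1) (nat_lit 45) (nat_lit 1) (nat_lit 440) (nat_lit 395) (nat_lit 185)) (XT.lf (nat_lit 0) (nat_lit 507677623) (nat_lit 0) (nat_lit 508725401) (nat_lit 152) (nat_lit 507677623) (nat_lit 44) (nat_lit 3) (nat_lit 44) (nat_lit 1) (nat_lit 46) (nat_lit 1) (nat_lit 441) (nat_lit 395) (nat_lit 184))))))) (XT.nd (nat_lit 37050) (nat_lit 0) (nat_lit 16948) (XT.nd (nat_lit 36504) (nat_lit 0) (nat_lit 19304) (XT.nd (nat_lit 234) (nat_lit 228) (nat_lit 0) (XT.nd (nat_lit 78) (nat_lit 152) (nat_lit 0) (XT.lf (nat_lit 76) (nat_lit 499167376)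 (nat_lit 0) (nat_lit 500165260) (nat_lit 76) (nat_lit 500165260) (nat_lit 44) (nat_lit 3) (nat_lit 43) (nat_lit 1) (nat_lit 44) (nat_lit 1) (nat_lit 442) (nat_lit 395) (nat_lit 183)) (XT.nd (nat_lit 78) (nat_lit 0) (nat_lit 0) (XT.lf (nat_lit 152) (nat_lit 1475081962) (nat_lit 0) (nat_lit 306569) (nat_lit 76) (nat_lit 306569) (nat_lit 43) (nat_lit 1) (nat_lit 41) (nat_lit 1) (nat_lit 42) (nat_lit 1) (nat_lit 443) (nat_lit 395) (nat_lit 182)) (XT.lf (nat_lit 0) (nat_lit 483547047) (nat_lit 0) (nat_lit 484409057) (nat_lit 152) (nat_lit 483547047) (nat_lit 41) (nat_lit 3) (nat_lit 41) (nat_lit 1) (nat_lit 43) (nat_lit 1) (nat_lit 444) (nat_lit 395) (nat_lit 181)))) (XT.nd (nat_lit 78) (nat_lit 152) (nat_lit 0) (XT.lf (nat_lit 76) (nat_lit 475483074) (nat_lit 0) (nat_lit 476304036) (nat_lit 76) (nat_lit 476304036) (nat_lit 41) (nat_lit 3) (nat_lit 40) (nat_lit 1) (nat_lit 41) (nat_lit 1) (nat_lit 445)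 (nat_lit 395) (nat_lit 180)) (XT.nd (nat_lit 36114) (nat_lit 0) (nat_lit 19304) (XT.lf (nat_lit 152) (nat_lit 1404917582) (nat_lit 0) (nat_lit 252215) (nat_lit 76) (nat_lit 252215) (nat_lit 40) (nat_lit 1) (nat_lit 38) (nat_lit 1) (nat_lit 39) (nat_lit 1) (nat_lit 446) (nat_lit 395) (nat_lit 179)) (XT.lf (nat_lit 836) (nat_lit 8257535071) (nat_lit 0) (nat_lit 14661234538) (nat_lit 836) (nat_lit 8257535071) (nat_lit 303) (nat_lit 1) (nat_lit 292) (nat_lit 0) (nat_lit 303) (nat_lit 0) (nat_lit 228) (nat_lit 396) (nat_lit 396))))) (XT.nd (nat_lit 234) (nat_lit 0) (nat_lit 152) (XT.nd (nat_lit 78) (nat_lit 0) (nat_lit 76) (XT.lf (nat_lit 836) (nat_lit 32007236848) (nat_lit 76) (nat_lit 14424763013) (nat_lit 0) (nat_lit 14424763013) (nat_lit 303) (nat_lit 1) (nat_lit 293) (nat_lit 1) (nat_lit 292) (nat_lit 0) (nat_lit 229) (nat_lit 396) (nat_lit 395)) (XT.nd (nat_lit 78) (nat_lit 0) (nat_lit 0) (XT.lf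 (nat_lit 836) (nat_lit 15254167149) (nat_lit 0) (nat_lit 28898826741) (nat_lit 760) (nat_lit 15254167149) (nat_lit 304) (nat_lit 1) (nat_lit 293) (nat_lit 1) (nat_lit 303) (nat_lit 1) (nat_lit 230) (nat_lit 396) (nat_lit 394)) (XT.lf (nat_lit 836) (nat_lit 28614697951) (nat_lit 76) (nat_lit 14694847096) (nat_lit 0) (nat_lit 14694847096) (nat_lit 304) (nat_lit 1) (nat_lit 294) (nat_lit 1) (nat_lit 293) (nat_lit 1) (nat_lit 231) (nat_lit 396) (nat_lit 393)))) (XT.nd (nat_lit 156) (nat_lit 0) (nat_lit 76) (XT.nd (nat_lit 78) (nat_lit 0) (nat_lit 0) (XT.lf (nat_lit 836) (nat_lit 13171070677) (nat_lit 0) (nat_lit 30303942632) (nat_lit 760) (nat_lit 13171070677) (nat_lit 305) (nat_lit 1) (nat_lit 294) (nat_lit 1) (nat_lit 304) (nat_lit 1) (nat_lit 232) (nat_lit 396) (nat_lit 392)) (XT.lf (nat_lit 836) (nat_lit 23689028471) (nat_lit 76) (nat_lit 15820076890) (nat_lit 0) (nat_lit 15820076890) (nat_lit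 305) (nat_lit 1) (nat_lit 295) (nat_lit 1) (nat_lit 294) (nat_lit 1) (nat_lit 233) (nat_lit 396) (nat_lit 391))) (XT.nd (nat_lit 78) (nat_lit 0) (nat_lit 0) (XT.lf (nat_lit 836) (nat_lit 10386954783) (nat_lit 0) (nat_lit 33282587951) (nat_lit 760) (nat_lit 10386954783) (nat_lit 306) (nat_lit 1) (nat_lit 295) (nat_lit 1) (nat_lit 305) (nat_lit 1) (nat_lit 234) (nat_lit 396) (nat_lit 390)) (XT.lf (nat_lit 836) (nat_lit 17460789915) (nat_lit 76) (nat_lit 17679032120) (nat_lit 0) (nat_lit 17679032120) (nat_lit 306) (nat_lit 1) (nat_lit 296) (nat_lit 1) (nat_lit 295) (nat_lit 1) (nat_lit 235) (nat_lit 396) (nat_lit 389)))))) (XT.nd (nat_lit 468) (nat_lit 1444) (nat_lit 0) (XT.nd (nat_lit 234) (nat_lit 1216) (nat_lit 0) (XT.nd (nat_lit 78) (nat_lit 0) (nat_lit 0) (XT.lf (nat_lit 836) (nat_lit 7009597703) (nat_lit 0) (nat_lit 37607320192) (nat_lit 760) (nat_lit 7009597703) (nat_lit 307) (nat_lit 1) (nat_lit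 296) (nat_lit 1) (nat_lit 306) (nat_lit 1) (nat_lit 236) (nat_lit 396) (nat_lit 388)) (XT.nd (nat_lit 78) (nat_lit 0) (nat_lit 76) (XT.lf (nat_lit 836) (nat_lit 10134916671) (nat_lit 76) (nat_lit 20163577063) (nat_lit 0) (nat_lit 20163577063) (nat_lit 307) (nat_lit 1) (nat_lit 297) (nat_lit 1) (nat_lit 296) (nat_lit 1) (nat_lit 237) (nat_lit 396) (nat_lit 387)) (XT.lf (nat_lit 76) (nat_lit 3134728707) (nat_lit 0) (nat_lit 43075706611) (nat_lit 760) (nat_lit 3134728707) (nat_lit 298) (nat_lit 1) (nat_lit 297) (nat_lit 1) (nat_lit 307) (nat_lit 1) (nat_lit 238) (nat_lit 396) (nat_lit 386)))) (XT.nd (nat_lit 78) (nat_lit 532) (nat_lit 0) (XT.lf (nat_lit 836) (nat_lit 1893298185) (nat_lit 0) (nat_lit 23177530422) (nat_lit 760) (nat_lit 23177530422) (nat_lit 298) (nat_lit 1) (nat_lit 287) (nat_lit 1) (nat_lit 297) (nat_lit 1) (nat_lit 239) (nat_lit 396) (nat_lit 385)) (XT.nd (nat_lit 78) (nat_lit 0)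 (nat_lit 0) (XT.lf (nat_lit 532) (nat_lit 44930350296) (nat_lit 0) (nat_lit 1134162268) (nat_lit 456) (nat_lit 1134162268) (nat_lit 287) (nat_lit 1) (nat_lit 280) (nat_lit 1) (nat_lit 286) (nat_lit 1) (nat_lit 240) (nat_lit 396) (nat_lit 384)) (XT.lf (nat_lit 76) (nat_lit 19643470951) (nat_lit 0) (nat_lit 6875551656) (nat_lit 532) (nat_lit 19643470951) (nat_lit 281) (nat_lit 1) (nat_lit 280) (nat_lit 1) (nat_lit 287) (nat_lit 1) (nat_lit 241) (nat_lit 396) (nat_lit 383))))) (XT.nd (nat_lit 234) (nat_lit 684) (nat_lit 0) (XT.nd (nat_lit 78) (nat_lit 380) (nat_lit 0) (XT.lf (nat_lit 456) (nat_lit 33801371246) (nat_lit 0) (nat_lit 5684501120) (nat_lit 380) (nat_lit 5684501120) (nat_lit 281) (nat_lit 1) (nat_lit 275) (nat_lit 1) (nat_lit 280) (nat_lit 1) (nat_lit 242) (nat_lit 396) (nat_lit 382)) (XT.nd (nat_lit 78) (nat_lit 380) (nat_lit 0) (XT.lf (nat_lit 76) (nat_lit 14011448700) (nat_lit 0) (nat_lit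 16176213122) (nat_lit 456) (nat_lit 14011448700) (nat_lit 276) (nat_lit 1) (nat_lit 275) (nat_lit 1) (nat_lit 281) (nat_lit 1) (nat_lit 243) (nat_lit 396) (nat_lit 381)) (XT.lf (nat_lit 456) (nat_lit 22258682313) (nat_lit 0) (nat_lit 10501495867) (nat_lit 380) (nat_lit 10501495867) (nat_lit 276) (nat_lit 1) (nat_lit 270) (nat_lit 1) (nat_lit 275) (nat_lit 1) (nat_lit 244) (nat_lit 396) (nat_lit 380)))) (XT.nd (nat_lit 156) (nat_lit 380) (nat_lit 0) (XT.nd (nat_lit 78) (nat_lit 304) (nat_lit 0) (XT.lf (nat_lit 76) (nat_lit 8202028613) (nat_lit 0) (nat_lit 25947444159) (nat_lit 456) (nat_lit 8202028613) (nat_lit 271) (nat_lit 1) (nat_lit 270) (nat_lit 1) (nat_lit 276) (nat_lit 1) (nat_lit 245) (nat_lit 396) (nat_lit 379)) (XT.lf (nat_lit 380) (nat_lit 10409716647) (nat_lit 0) (nat_lit 15527512359) (nat_lit 304) (nat_lit 15527512359) (nat_lit 271) (nat_lit 1) (nat_lit 266) (nat_lit 1) (nat_lit 270)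 (nat_lit 1) (nat_lit 246) (nat_lit 396) (nat_lit 378))) (XT.nd (nat_lit 78) (nat_lit 380) (nat_lit 0) (XT.lf (nat_lit 76) (nat_lit 2265084882) (nat_lit 0) (nat_lit 36081912006) (nat_lit 380) (nat_lit 2265084882) (nat_lit 267) (nat_lit 1) (nat_lit 266) (nat_lit 1) (nat_lit 271) (nat_lit 1) (nat_lit 247) (nat_lit 396) (nat_lit 377)) (XT.lf (nat_lit 76) (nat_lit 19086256094) (nat_lit 0) (nat_lit 1598511023) (nat_lit 380) (nat_lit 19086256094) (nat_lit 262) (nat_lit 1) (nat_lit 261) (nat_lit 1) (nat_lit 266) (nat_lit 1) (nat_lit 248) (nat_lit 396) (nat_lit 376))))))))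
noncomputable def ec238 : XT := (XT.nd (nat_lit 1950) (nat_lit 2204) (nat_lit 0) (XT.nd (nat_lit 936) (nat_lit 1596) (nat_lit 0) (XT.nd (nat_lit 468) (nat_lit 760) (nat_lit 0) (XT.nd (nat_lit 234) (nat_lit 608) (nat_lit 0) (XT.nd (nat_lit 78) (nat_lit 304) (nat_lit 0) (XT.lf (nat_lit 380) (nat_lit 31571677514) (nat_lit 0) (nat_lit 3695158354) (nat_lit 304) (nat_lit 3695158354) (nat_lit 262) (nat_lit 1) (nat_lit 257) (nat_lit 1) (nat_lit 261) (nat_lit 1) (nat_lit 249) (nat_lit 396) (nat_lit 375)) (XT.nd (nat_lit 78) (nat_lit 304) (nat_lit 0) (XT.lf (nat_lit 76) (nat_lit 12383799908) (nat_lit 0) (nat_lit 13399244489) (nat_lit 380) (nat_lit 12383799908) (nat_lit 258) (nat_lit 1) (nat_lit 257) (nat_lit 1) (nat_lit 262) (nat_lit 1) (nat_lit 250) (nat_lit 396) (nat_lit 374)) (XT.lf (nat_lit 380) (nat_lit 18071408971) (nat_lit 0) (nat_lit 9663929210) (nat_lit 304) (nat_lit 9663929210) (nat_lit 258) (nat_lit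 1) (nat_lit 253) (nat_lit 1) (nat_lit 257) (nat_lit 1) (nat_lit 251) (nat_lit 396) (nat_lit 373)))) (XT.nd (nat_lit 78) (nat_lit 608) (nat_lit 0) (XT.lf (nat_lit 76) (nat_lit 5698915875) (nat_lit 0) (nat_lit 25256302741) (nat_lit 380) (nat_lit 5698915875) (nat_lit 254) (nat_lit 1) (nat_lit 253) (nat_lit 1) (nat_lit 258) (nat_lit 1) (nat_lit 252) (nat_lit 396) (nat_lit 372)) (XT.nd (nat_lit 78) (nat_lit 380) (nat_lit 0) (XT.lf (nat_lit 304) (nat_lit 4634684201) (nat_lit 0) (nat_lit 15645200914) (nat_lit 228) (nat_lit 15645200914) (nat_lit 254) (nat_lit 1) (nat_lit 250) (nat_lit 1) (nat_lit 253) (nat_lit 1) (nat_lit 253) (nat_lit 396) (nat_lit 371)) (XT.lf (nat_lit 380) (nat_lit 33372146272) (nat_lit 0) (nat_lit 926013024) (nat_lit 304) (nat_lit 926013024) (nat_lit 250) (nat_lit 1) (nat_lit 245) (nat_lit 1) (nat_lit 249) (nat_lit 1) (nat_lit 254) (nat_lit 396) (nat_lit 370))))) (XT.nd (nat_lit 234)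 (nat_lit 532) (nat_lit 0) (XT.nd (nat_lit 78) (nat_lit 228) (nat_lit 0) (XT.lf (nat_lit 76) (nat_lit 13058767552) (nat_lit 0) (nat_lit 8409602981) (nat_lit 380) (nat_lit 13058767552) (nat_lit 246) (nat_lit 1) (nat_lit 245) (nat_lit 1) (nat_lit 250) (nat_lit 1) (nat_lit 255) (nat_lit 396) (nat_lit 369)) (XT.nd (nat_lit 78) (nat_lit 0) (nat_lit 0) (XT.lf (nat_lit 304) (nat_lit 19072742854) (nat_lit 0) (nat_lit 7392047056) (nat_lit 228) (nat_lit 7392047056) (nat_lit 246) (nat_lit 1) (nat_lit 242) (nat_lit 1) (nat_lit 245) (nat_lit 1) (nat_lit 256) (nat_lit 396) (nat_lit 368)) (XT.lf (nat_lit 76) (nat_lit 6025374492) (nat_lit 0) (nat_lit 21152817017) (nat_lit 304) (nat_lit 6025374492) (nat_lit 243) (nat_lit 1) (nat_lit 242) (nat_lit 1) (nat_lit 246) (nat_lit 1) (nat_lit 257) (nat_lit 396) (nat_lit 367)))) (XT.nd (nat_lit 78) (nat_lit 304) (nat_lit 0) (XT.lf (nat_lit 304) (nat_lit 5021961309) (nat_lit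 0) (nat_lit 13771597732) (nat_lit 228) (nat_lit 13771597732) (nat_lit 243) (nat_lit 1) (nat_lit 239) (nat_lit 1) (nat_lit 242) (nat_lit 1) (nat_lit 258) (nat_lit 396) (nat_lit 366)) (XT.nd (nat_lit 78) (nat_lit 0) (nat_lit 0) (XT.lf (nat_lit 304) (nat_lit 30224313406) (nat_lit 0) (nat_lit 863075927) (nat_lit 228) (nat_lit 863075927) (nat_lit 239) (nat_lit 1) (nat_lit 235) (nat_lit 1) (nat_lit 238) (nat_lit 1) (nat_lit 259) (nat_lit 396) (nat_lit 365)) (XT.lf (nat_lit 76) (nat_lit 11432992191) (nat_lit 0) (nat_lit 8471732414) (nat_lit 304) (nat_lit 11432992191) (nat_lit 236) (nat_lit 1) (nat_lit 235) (nat_lit 1) (nat_lit 239) (nat_lit 1) (nat_lit 260) (nat_lit 396) (nat_lit 364)))))) (XT.nd (nat_lit 468) (nat_lit 760) (nat_lit 0) (XT.nd (nat_lit 234) (nat_lit 456) (nat_lit 0) (XT.nd (nat_lit 78) (nat_lit 152) (nat_lit 0) (XT.lf (nat_lit 304) (nat_lit 15721411135) (nat_lit 0) (nat_lit 7513114495)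 (nat_lit 228) (nat_lit 7513114495) (nat_lit 236) (nat_lit 1) (nat_lit 232) (nat_lit 1) (nat_lit 235) (nat_lit 1) (nat_lit 261) (nat_lit 396) (nat_lit 363)) (XT.nd (nat_lit 78) (nat_lit 152) (nat_lit 0) (XT.lf (nat_lit 76) (nat_lit 4329663804) (nat_lit 0) (nat_lit 21514061968) (nat_lit 304) (nat_lit 4329663804) (nat_lit 233) (nat_lit 1) (nat_lit 232) (nat_lit 1) (nat_lit 236) (nat_lit 1) (nat_lit 262) (nat_lit 396) (nat_lit 362)) (XT.lf (nat_lit 228) (nat_lit 1586532776) (nat_lit 0) (nat_lit 14011713830) (nat_lit 152) (nat_lit 14011713830) (nat_lit 233) (nat_lit 1) (nat_lit 230) (nat_lit 1) (nat_lit 232) (nat_lit 1) (nat_lit 263) (nat_lit 396) (nat_lit 361)))) (XT.nd (nat_lit 78) (nat_lit 152) (nat_lit 0) (XT.lf (nat_lit 304) (nat_lit 23971978265) (nat_lit 0) (nat_lit 2545997848) (nat_lit 228) (nat_lit 2545997848) (nat_lit 230) (nat_lit 1) (nat_lit 226) (nat_lit 1) (nat_lit 229) (nat_lit 1) (nat_lit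 264) (nat_lit 396) (nat_lit 360)) (XT.nd (nat_lit 78) (nat_lit 152) (nat_lit 0) (XT.lf (nat_lit 76) (nat_lit 8372842982) (nat_lit 0) (nat_lit 11778407857) (nat_lit 304) (nat_lit 8372842982) (nat_lit 227) (nat_lit 1) (nat_lit 226) (nat_lit 1) (nat_lit 230) (nat_lit 1) (nat_lit 265) (nat_lit 396) (nat_lit 359)) (XT.lf (nat_lit 228) (nat_lit 9673528499) (nat_lit 0) (nat_lit 9163673680) (nat_lit 152) (nat_lit 9163673680) (nat_lit 227) (nat_lit 1) (nat_lit 224) (nat_lit 1) (nat_lit 226) (nat_lit 1) (nat_lit 266) (nat_lit 396) (nat_lit 358))))) (XT.nd (nat_lit 234) (nat_lit 380) (nat_lit 0) (XT.nd (nat_lit 78) (nat_lit 380) (nat_lit 0) (XT.lf (nat_lit 76) (nat_lit 1389779001) (nat_lit 0) (nat_lit 24715463493) (nat_lit 228) (nat_lit 1389779001) (nat_lit 225) (nat_lit 1) (nat_lit 224) (nat_lit 1) (nat_lit 227) (nat_lit 1) (nat_lit 267) (nat_lit 396) (nat_lit 357)) (XT.nd (nat_lit 78) (nat_lit 152) (nat_lit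 0) (XT.lf (nat_lit 76) (nat_lit 11470089932) (nat_lit 0) (nat_lit 4050826086) (nat_lit 228) (nat_lit 11470089932) (nat_lit 222) (nat_lit 1) (nat_lit 221) (nat_lit 1) (nat_lit 224) (nat_lit 1) (nat_lit 268) (nat_lit 396) (nat_lit 356)) (XT.lf (nat_lit 228) (nat_lit 15928230177) (nat_lit 0) (nat_lit 5287740859) (nat_lit 152) (nat_lit 5287740859) (nat_lit 222) (nat_lit 1) (nat_lit 219) (nat_lit 1) (nat_lit 221) (nat_lit 1) (nat_lit 269) (nat_lit 396) (nat_lit 355)))) (XT.nd (nat_lit 156) (nat_lit 228) (nat_lit 0) (XT.nd (nat_lit 78) (nat_lit 152) (nat_lit 0) (XT.lf (nat_lit 76) (nat_lit 4494532164) (nat_lit 0) (nat_lit 17038123775) (nat_lit 228) (nat_lit 4494532164) (nat_lit 220) (nat_lit 1) (nat_lit 219) (nat_lit 1) (nat_lit 222) (nat_lit 1) (nat_lit 270) (nat_lit 396) (nat_lit 354)) (XT.lf (nat_lit 228) (nat_lit 2105526500) (nat_lit 0) (nat_lit 11727371651) (nat_lit 152) (nat_lit 11727371651) (nat_lit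 220) (nat_lit 1) (nat_lit 217) (nat_lit 1) (nat_lit 219) (nat_lit 1) (nat_lit 271) (nat_lit 396) (nat_lit 353))) (XT.nd (nat_lit 78) (nat_lit 0) (nat_lit 0) (XT.lf (nat_lit 228) (nat_lit 20694474710) (nat_lit 0) (nat_lit 2206203056) (nat_lit 152) (nat_lit 2206203056) (nat_lit 217) (nat_lit 1) (nat_lit 214) (nat_lit 1) (nat_lit 216) (nat_lit 1) (nat_lit 272) (nat_lit 396) (nat_lit 352)) (XT.lf (nat_lit 76) (nat_lit 6889241344) (nat_lit 0) (nat_lit 10878878779) (nat_lit 228) (nat_lit 6889241344) (nat_lit 215) (nat_lit 1) (nat_lit 214) (nat_lit 1) (nat_lit 217) (nat_lit 1) (nat_lit 273) (nat_lit 396) (nat_lit 351))))))) (XT.nd (nat_lit 936) (nat_lit 1064) (nat_lit 0) (XT.nd (nat_lit 468) (nat_lit 532) (nat_lit 0) (XT.nd (nat_lit 234) (nat_lit 304) (nat_lit 0) (XT.nd (nat_lit 78) (nat_lit 152) (nat_lit 0) (XT.lf (nat_lit 228) (nat_lit 7016357832) (nat_lit 0) (nat_lit 8602267225) (nat_lit 152) (nat_lit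 8602267225) (nat_lit 215) (nat_lit 1) (nat_lit 212) (nat_lit 1) (nat_lit 214) (nat_lit 1) (nat_lit 274) (nat_lit 396) (nat_lit 350)) (XT.nd (nat_lit 78) (nat_lit 152) (nat_lit 0) (XT.lf (nat_lit 76) (nat_lit 230608331) (nat_lit 0) (nat_lit 23338513430) (nat_lit 228) (nat_lit 230608331) (nat_lit 213) (nat_lit 1) (nat_lit 212) (nat_lit 1) (nat_lit 215) (nat_lit 1) (nat_lit 275) (nat_lit 396) (nat_lit 349)) (XT.lf (nat_lit 76) (nat_lit 8707394579) (nat_lit 0) (nat_lit 5961101622) (nat_lit 152) (nat_lit 8707394579) (nat_lit 211) (nat_lit 1) (nat_lit 210) (nat_lit 1) (nat_lit 212) (nat_lit 1) (nat_lit 276) (nat_lit 396) (nat_lit 348)))) (XT.nd (nat_lit 78) (nat_lit 152) (nat_lit 0) (XT.lf (nat_lit 228) (nat_lit 10804885400) (nat_lit 0) (nat_lit 6081039434) (nat_lit 152) (nat_lit 6081039434) (nat_lit 211) (nat_lit 1) (nat_lit 208) (nat_lit 1) (nat_lit 210) (nat_lit 1) (nat_lit 277) (nat_lit 396) (nat_lit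 347)) (XT.nd (nat_lit 78) (nat_lit 152) (nat_lit 0) (XT.lf (nat_lit 76) (nat_lit 2166304847) (nat_lit 0) (nat_lit 18236466024) (nat_lit 228) (nat_lit 2166304847) (nat_lit 209) (nat_lit 1) (nat_lit 208) (nat_lit 1) (nat_lit 211) (nat_lit 1) (nat_lit 278) (nat_lit 396) (nat_lit 346)) (XT.lf (nat_lit 76) (nat_lit 10058450950) (nat_lit 0) (nat_lit 2057566512) (nat_lit 152) (nat_lit 10058450950) (nat_lit 207) (nat_lit 1) (nat_lit 206) (nat_lit 1) (nat_lit 208) (nat_lit 1) (nat_lit 279) (nat_lit 396) (nat_lit 345))))) (XT.nd (nat_lit 234) (nat_lit 304) (nat_lit 0) (XT.nd (nat_lit 78) (nat_lit 76) (nat_lit 0) (XT.lf (nat_lit 228) (nat_lit 13682073051) (nat_lit 0) (nat_lit 4054250857) (nat_lit 152) (nat_lit 4054250857) (nat_lit 207) (nat_lit 1) (nat_lit 204) (nat_lit 1) (nat_lit 206) (nat_lit 1) (nat_lit 280) (nat_lit 396) (nat_lit 344)) (XT.nd (nat_lit 78) (nat_lit 76) (nat_lit 0) (XT.lf (nat_lit 76)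 (nat_lit 3664684171) (nat_lit 0) (nat_lit 14084912650) (nat_lit 228) (nat_lit 3664684171) (nat_lit 205) (nat_lit 1) (nat_lit 204) (nat_lit 1) (nat_lit 207) (nat_lit 1) (nat_lit 281) (nat_lit 396) (nat_lit 343)) (XT.lf (nat_lit 152) (nat_lit 1051997371) (nat_lit 0) (nat_lit 9996545347) (nat_lit 76) (nat_lit 9996545347) (nat_lit 205) (nat_lit 1) (nat_lit 203) (nat_lit 1) (nat_lit 204) (nat_lit 1) (nat_lit 282) (nat_lit 396) (nat_lit 342)))) (XT.nd (nat_lit 78) (nat_lit 76) (nat_lit 0) (XT.lf (nat_lit 228) (nat_lit 15820910685) (nat_lit 0) (nat_lit 2431979991) (nat_lit 152) (nat_lit 2431979991) (nat_lit 203) (nat_lit 1) (nat_lit 200) (nat_lit 1) (nat_lit 202) (nat_lit 1) (nat_lit 283) (nat_lit 396) (nat_lit 341)) (XT.nd (nat_lit 78) (nat_lit 76) (nat_lit 0) (XT.lf (nat_lit 76) (nat_lit 4807763605) (nat_lit 0) (nat_lit 10713146705) (nat_lit 228) (nat_lit 4807763605) (nat_lit 201) (nat_lit 1) (nat_lit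 200) (nat_lit 1) (nat_lit 203) (nat_lit 1) (nat_lit 284) (nat_lit 396) (nat_lit 340)) (XT.lf (nat_lit 152) (nat_lit 3532845499) (nat_lit 0) (nat_lit 8224182596) (nat_lit 76) (nat_lit 8224182596) (nat_lit 201) (nat_lit 1) (nat_lit 199) (nat_lit 1) (nat_lit 200) (nat_lit 1) (nat_lit 285) (nat_lit 396) (nat_lit 339)))))) (XT.nd (nat_lit 468) (nat_lit 456) (nat_lit 0) (XT.nd (nat_lit 234) (nat_lit 304) (nat_lit 0) (XT.nd (nat_lit 78) (nat_lit 76) (nat_lit 0) (XT.lf (nat_lit 228) (nat_lit 17363174113) (nat_lit 0) (nat_lit 1140355745) (nat_lit 152) (nat_lit 1140355745) (nat_lit 199) (nat_lit 1) (nat_lit 196) (nat_lit 1) (nat_lit 198) (nat_lit 1) (nat_lit 286) (nat_lit 396) (nat_lit 338)) (XT.nd (nat_lit 78) (nat_lit 76) (nat_lit 0) (XT.lf (nat_lit 76) (nat_lit 5662805558) (nat_lit 0) (nat_lit 7980831555) (nat_lit 228) (nat_lit 5662805558) (nat_lit 197) (nat_lit 1) (nat_lit 196) (nat_lit 1) (nat_lit 199)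 (nat_lit 1) (nat_lit 287) (nat_lit 396) (nat_lit 337)) (XT.lf (nat_lit 152) (nat_lit 5446828028) (nat_lit 0) (nat_lit 6766055375) (nat_lit 76) (nat_lit 6766055375) (nat_lit 197) (nat_lit 1) (nat_lit 195) (nat_lit 1) (nat_lit 196) (nat_lit 1) (nat_lit 288) (nat_lit 396) (nat_lit 336)))) (XT.nd (nat_lit 78) (nat_lit 76) (nat_lit 0) (XT.lf (nat_lit 228) (nat_lit 18424985113) (nat_lit 0) (nat_lit 118706624) (nat_lit 152) (nat_lit 118706624) (nat_lit 195) (nat_lit 1) (nat_lit 192) (nat_lit 1) (nat_lit 194) (nat_lit 1) (nat_lit 289) (nat_lit 396) (nat_lit 335)) (XT.nd (nat_lit 78) (nat_lit 76) (nat_lit 0) (XT.lf (nat_lit 76) (nat_lit 6284943710) (nat_lit 0) (nat_lit 5772611060) (nat_lit 228) (nat_lit 6284943710) (nat_lit 193) (nat_lit 1) (nat_lit 192) (nat_lit 1) (nat_lit 195) (nat_lit 1) (nat_lit 290) (nat_lit 396) (nat_lit 334)) (XT.lf (nat_lit 152) (nat_lit 6900497273) (nat_lit 0) (nat_lit 5566450501)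 (nat_lit 76) (nat_lit 5566450501) (nat_lit 193) (nat_lit 1) (nat_lit 191) (nat_lit 1) (nat_lit 192) (nat_lit 1) (nat_lit 291) (nat_lit 396) (nat_lit 333))))) (XT.nd (nat_lit 234) (nat_lit 228) (nat_lit 0) (XT.nd (nat_lit 78) (nat_lit 228) (nat_lit 0) (XT.lf (nat_lit 0) (nat_lit 693977590) (nat_lit 0) (nat_lit 16345675146) (nat_lit 152) (nat_lit 693977590) (nat_lit 191) (nat_lit 3) (nat_lit 191) (nat_lit 1) (nat_lit 193) (nat_lit 1) (nat_lit 292) (nat_lit 396) (nat_lit 332)) (XT.nd (nat_lit 78) (nat_lit 76) (nat_lit 0) (XT.lf (nat_lit 76) (nat_lit 6719343090) (nat_lit 0) (nat_lit 3993675870) (nat_lit 152) (nat_lit 6719343090) (nat_lit 190) (nat_lit 1) (nat_lit 189) (nat_lit 1) (nat_lit 191) (nat_lit 1) (nat_lit 293) (nat_lit 396) (nat_lit 331)) (XT.lf (nat_lit 152) (nat_lit 7981226065) (nat_lit 0) (nat_lit 4579532603) (nat_lit 76) (nat_lit 4579532603) (nat_lit 190) (nat_lit 1) (nat_lit 188) (nat_lit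 1) (nat_lit 189) (nat_lit 1) (nat_lit 294) (nat_lit 396) (nat_lit 330)))) (XT.nd (nat_lit 156) (nat_lit 76) (nat_lit 0) (XT.nd (nat_lit 78) (nat_lit 152) (nat_lit 0) (XT.lf (nat_lit 0) (nat_lit 1326402615) (nat_lit 0) (nat_lit 14203092929) (nat_lit 152) (nat_lit 1326402615) (nat_lit 188) (nat_lit 3) (nat_lit 188) (nat_lit 1) (nat_lit 190) (nat_lit 1) (nat_lit 295) (nat_lit 396) (nat_lit 329)) (XT.lf (nat_lit 76) (nat_lit 7002976709) (nat_lit 0) (nat_lit 2566116036) (nat_lit 152) (nat_lit 7002976709) (nat_lit 187) (nat_lit 1) (nat_lit 186) (nat_lit 1) (nat_lit 188) (nat_lit 1) (nat_lit 296) (nat_lit 396) (nat_lit 328))) (XT.nd (nat_lit 78) (nat_lit 0) (nat_lit 0) (XT.lf (nat_lit 152) (nat_lit 8760621941) (nat_lit 0) (nat_lit 3767592806) (nat_lit 76) (nat_lit 3767592806) (nat_lit 187) (nat_lit 1) (nat_lit 185) (nat_lit 1) (nat_lit 186) (nat_lit 1) (nat_lit 297) (nat_lit 396) (nat_lit 327)) (XT.lf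 (nat_lit 0) (nat_lit 1810725699) (nat_lit 0) (nat_lit 12404410688) (nat_lit 152) (nat_lit 1810725699) (nat_lit 185) (nat_lit 3) (nat_lit 185) (nat_lit 1) (nat_lit 187) (nat_lit 1) (nat_lit 298) (nat_lit 396) (nat_lit 326))))))))
noncomputable def ec239 : XT := (XT.nd (nat_lit 1950) (nat_lit 1976) (nat_lit 0) (XT.nd (nat_lit 936) (nat_lit 988) (nat_lit 0) (XT.nd (nat_lit 468) (nat_lit 456) (nat_lit 0) (XT.nd (nat_lit 234) (nat_lit 228) (nat_lit 0) (XT.nd (nat_lit 78) (nat_lit 76) (nat_lit 0) (XT.lf (nat_lit 76) (nat_lit 7166086765) (nat_lit 0) (nat_lit 1425920504) (nat_lit 152) (nat_lit 7166086765) (nat_lit 184) (nat_lit 1) (nat_lit 183) (nat_lit 1) (nat_lit 185) (nat_lit 1) (nat_lit 299) (nat_lit 396) (nat_lit 325)) (XT.nd (nat_lit 78) (nat_lit 0) (nat_lit 0) (XT.lf (nat_lit 152) (nat_lit 9297335356) (nat_lit 0) (nat_lit 3099607925) (nat_lit 76) (nat_lit 3099607925) (nat_lit 184) (nat_lit 1) (nat_lit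 182) (nat_lit 1) (nat_lit 183) (nat_lit 1) (nat_lit 300) (nat_lit 396) (nat_lit 324)) (XT.lf (nat_lit 0) (nat_lit 2174918024) (nat_lit 0) (nat_lit 10890368881) (nat_lit 152) (nat_lit 2174918024) (nat_lit 182) (nat_lit 3) (nat_lit 182) (nat_lit 1) (nat_lit 184) (nat_lit 1) (nat_lit 301) (nat_lit 396) (nat_lit 323)))) (XT.nd (nat_lit 78) (nat_lit 76) (nat_lit 0) (XT.lf (nat_lit 76) (nat_lit 7233386359) (nat_lit 0) (nat_lit 520508794) (nat_lit 152) (nat_lit 7233386359) (nat_lit 181) (nat_lit 1) (nat_lit 180) (nat_lit 1) (nat_lit 182) (nat_lit 1) (nat_lit 302) (nat_lit 396) (nat_lit 322)) (XT.nd (nat_lit 78) (nat_lit 0) (nat_lit 0) (XT.lf (nat_lit 152) (nat_lit 9639369383) (nat_lit 0) (nat_lit 2550055111) (nat_lit 76) (nat_lit 2550055111) (nat_lit 181) (nat_lit 1) (nat_lit 179) (nat_lit 1) (nat_lit 180) (nat_lit 1) (nat_lit 303) (nat_lit 396) (nat_lit 321)) (XT.lf (nat_lit 0) (nat_lit 2441909974) (nat_lit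 0) (nat_lit 9612132963) (nat_lit 152) (nat_lit 2441909974) (nat_lit 179) (nat_lit 3) (nat_lit 179) (nat_lit 1) (nat_lit 181) (nat_lit 1) (nat_lit 304) (nat_lit 396) (nat_lit 320))))) (XT.nd (nat_lit 234) (nat_lit 228) (nat_lit 0) (XT.nd (nat_lit 78) (nat_lit 152) (nat_lit 0) (XT.lf (nat_lit 76) (nat_lit 199690845) (nat_lit 0) (nat_lit 7028474645) (nat_lit 76) (nat_lit 7028474645) (nat_lit 179) (nat_lit 3) (nat_lit 178) (nat_lit 1) (nat_lit 179) (nat_lit 1) (nat_lit 305) (nat_lit 396) (nat_lit 319)) (XT.nd (nat_lit 78) (nat_lit 0) (nat_lit 0) (XT.lf (nat_lit 152) (nat_lit 9825979310) (nat_lit 0) (nat_lit 2097936651) (nat_lit 76) (nat_lit 2097936651) (nat_lit 178) (nat_lit 1) (nat_lit 176) (nat_lit 1) (nat_lit 177) (nat_lit 1) (nat_lit 306) (nat_lit 396) (nat_lit 318)) (XT.lf (nat_lit 0) (nat_lit 2630488743) (nat_lit 0) (nat_lit 8529448942) (nat_lit 152) (nat_lit 2630488743) (nat_lit 176) (nat_lit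 3) (nat_lit 176) (nat_lit 1) (nat_lit 178) (nat_lit 1) (nat_lit 307) (nat_lit 396) (nat_lit 317)))) (XT.nd (nat_lit 78) (nat_lit 152) (nat_lit 0) (XT.lf (nat_lit 76) (nat_lit 775784947) (nat_lit 0) (nat_lit 6393842279) (nat_lit 76) (nat_lit 6393842279) (nat_lit 176) (nat_lit 3) (nat_lit 175) (nat_lit 1) (nat_lit 176) (nat_lit 1) (nat_lit 308) (nat_lit 396) (nat_lit 316)) (XT.nd (nat_lit 78) (nat_lit 0) (nat_lit 0) (XT.lf (nat_lit 152) (nat_lit 9889234889) (nat_lit 0) (nat_lit 1725977674) (nat_lit 76) (nat_lit 1725977674) (nat_lit 175) (nat_lit 1) (nat_lit 173) (nat_lit 1) (nat_lit 174) (nat_lit 1) (nat_lit 309) (nat_lit 396) (nat_lit 315)) (XT.lf (nat_lit 0) (nat_lit 2756036613) (nat_lit 0) (nat_lit 7609125767) (nat_lit 152) (nat_lit 2756036613) (nat_lit 173) (nat_lit 3) (nat_lit 173) (nat_lit 1) (nat_lit 175) (nat_lit 1) (nat_lit 310) (nat_lit 396) (nat_lit 314)))))) (XT.nd (nat_lit 468) (nat_lit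 532) (nat_lit 0) (XT.nd (nat_lit 234) (nat_lit 228) (nat_lit 0) (XT.nd (nat_lit 78) (nat_lit 152) (nat_lit 0) (XT.lf (nat_lit 76) (nat_lit 1220620000) (nat_lit 0) (nat_lit 5842609670) (nat_lit 76) (nat_lit 5842609670) (nat_lit 173) (nat_lit 3) (nat_lit 172) (nat_lit 1) (nat_lit 173) (nat_lit 1) (nat_lit 311) (nat_lit 396) (nat_lit 313)) (XT.nd (nat_lit 78) (nat_lit 0) (nat_lit 0) (XT.lf (nat_lit 152) (nat_lit 9855305058) (nat_lit 0) (nat_lit 1419966104) (nat_lit 76) (nat_lit 1419966104) (nat_lit 172) (nat_lit 1) (nat_lit 170) (nat_lit 1) (nat_lit 171) (nat_lit 1) (nat_lit 312) (nat_lit 396) (nat_lit 312)) (XT.lf (nat_lit 0) (nat_lit 2831138156) (nat_lit 0) (nat_lit 6823786613) (nat_lit 152) (nat_lit 2831138156) (nat_lit 170) (nat_lit 3) (nat_lit 170) (nat_lit 1) (nat_lit 172) (nat_lit 1) (nat_lit 313) (nat_lit 396) (nat_lit 311)))) (XT.nd (nat_lit 78) (nat_lit 152) (nat_lit 0) (XT.lf (nat_lit 76)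 (nat_lit 1558854528) (nat_lit 0) (nat_lit 5361376868) (nat_lit 76) (nat_lit 5361376868) (nat_lit 170) (nat_lit 3) (nat_lit 169) (nat_lit 1) (nat_lit 170) (nat_lit 1) (nat_lit 314) (nat_lit 396) (nat_lit 310)) (XT.nd (nat_lit 78) (nat_lit 0) (nat_lit 0) (XT.lf (nat_lit 152) (nat_lit 9745514377) (nat_lit 0) (nat_lit 1168209628) (nat_lit 76) (nat_lit 1168209628) (nat_lit 169) (nat_lit 1) (nat_lit 167) (nat_lit 1) (nat_lit 168) (nat_lit 1) (nat_lit 315) (nat_lit 396) (nat_lit 309)) (XT.lf (nat_lit 0) (nat_lit 2866079618) (nat_lit 0) (nat_lit 6150841385) (nat_lit 152) (nat_lit 2866079618) (nat_lit 167) (nat_lit 3) (nat_lit 167) (nat_lit 1) (nat_lit 169) (nat_lit 1) (nat_lit 316) (nat_lit 396) (nat_lit 308))))) (XT.nd (nat_lit 234) (nat_lit 304) (nat_lit 0) (XT.nd (nat_lit 78) (nat_lit 152) (nat_lit 0) (XT.lf (nat_lit 76) (nat_lit 1810709128) (nat_lit 0) (nat_lit 4939053667) (nat_lit 76) (nat_lit 4939053667)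 (nat_lit 167) (nat_lit 3) (nat_lit 166) (nat_lit 1) (nat_lit 167) (nat_lit 1) (nat_lit 317) (nat_lit 396) (nat_lit 307)) (XT.nd (nat_lit 78) (nat_lit 0) (nat_lit 0) (XT.lf (nat_lit 152) (nat_lit 9577211668) (nat_lit 0) (nat_lit 961088952) (nat_lit 76) (nat_lit 961088952) (nat_lit 166) (nat_lit 1) (nat_lit 164) (nat_lit 1) (nat_lit 165) (nat_lit 1) (nat_lit 318) (nat_lit 396) (nat_lit 306)) (XT.lf (nat_lit 0) (nat_lit 2869259605) (nat_lit 0) (nat_lit 5571641240) (nat_lit 152) (nat_lit 2869259605) (nat_lit 164) (nat_lit 3) (nat_lit 164) (nat_lit 1) (nat_lit 166) (nat_lit 1) (nat_lit 319) (nat_lit 396) (nat_lit 305)))) (XT.nd (nat_lit 156) (nat_lit 76) (nat_lit 0) (XT.nd (nat_lit 78) (nat_lit 152) (nat_lit 0) (XT.lf (nat_lit 76) (nat_lit 1992756452) (nat_lit 0) (nat_lit 4566453247) (nat_lit 76) (nat_lit 4566453247) (nat_lit 164) (nat_lit 3) (nat_lit 163) (nat_lit 1) (nat_lit 164) (nat_lit 1) (nat_lit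 320) (nat_lit 396) (nat_lit 304)) (XT.lf (nat_lit 152) (nat_lit 9364484190) (nat_lit 0) (nat_lit 790690259) (nat_lit 76) (nat_lit 790690259) (nat_lit 163) (nat_lit 1) (nat_lit 161) (nat_lit 1) (nat_lit 162) (nat_lit 1) (nat_lit 321) (nat_lit 396) (nat_lit 303))) (XT.nd (nat_lit 78) (nat_lit 76) (nat_lit 0) (XT.lf (nat_lit 0) (nat_lit 2847526798) (nat_lit 0) (nat_lit 5070782856) (nat_lit 152) (nat_lit 2847526798) (nat_lit 161) (nat_lit 3) (nat_lit 161) (nat_lit 1) (nat_lit 163) (nat_lit 1) (nat_lit 322) (nat_lit 396) (nat_lit 302)) (XT.lf (nat_lit 76) (nat_lit 2118570971) (nat_lit 0) (nat_lit 4235957693) (nat_lit 76) (nat_lit 4235957693) (nat_lit 161) (nat_lit 3) (nat_lit 160) (nat_lit 1) (nat_lit 161) (nat_lit 1) (nat_lit 323) (nat_lit 396) (nat_lit 301))))))) (XT.nd (nat_lit 1014) (nat_lit 912) (nat_lit 0) (XT.nd (nat_lit 468) (nat_lit 608) (nat_lit 0) (XT.nd (nat_lit 234) (nat_lit 228) (nat_lit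 0) (XT.nd (nat_lit 78) (nat_lit 76) (nat_lit 0) (XT.lf (nat_lit 152) (nat_lit 9118744747) (nat_lit 0) (nat_lit 650502833) (nat_lit 76) (nat_lit 650502833) (nat_lit 160) (nat_lit 1) (nat_lit 158) (nat_lit 1) (nat_lit 159) (nat_lit 1) (nat_lit 324) (nat_lit 396) (nat_lit 300)) (XT.nd (nat_lit 78) (nat_lit 76) (nat_lit 0) (XT.lf (nat_lit 0) (nat_lit 2806457648) (nat_lit 0) (nat_lit 4635535909) (nat_lit 152) (nat_lit 2806457648) (nat_lit 158) (nat_lit 3) (nat_lit 158) (nat_lit 1) (nat_lit 160) (nat_lit 1) (nat_lit 325) (nat_lit 396) (nat_lit 299)) (XT.lf (nat_lit 76) (nat_lit 2199263396) (nat_lit 0) (nat_lit 3941242693) (nat_lit 76) (nat_lit 3941242693) (nat_lit 158) (nat_lit 3) (nat_lit 157) (nat_lit 1) (nat_lit 158) (nat_lit 1) (nat_lit 326) (nat_lit 396) (nat_lit 298)))) (XT.nd (nat_lit 78) (nat_lit 76) (nat_lit 0) (XT.lf (nat_lit 152) (nat_lit 8849214278) (nat_lit 0) (nat_lit 535170290) (nat_lit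 76) (nat_lit 535170290) (nat_lit 157) (nat_lit 1) (nat_lit 155) (nat_lit 1) (nat_lit 156) (nat_lit 1) (nat_lit 327) (nat_lit 396) (nat_lit 297)) (XT.nd (nat_lit 78) (nat_lit 76) (nat_lit 0) (XT.lf (nat_lit 0) (nat_lit 2750584704) (nat_lit 0) (nat_lit 4255371916) (nat_lit 152) (nat_lit 2750584704) (nat_lit 155) (nat_lit 3) (nat_lit 155) (nat_lit 1) (nat_lit 157) (nat_lit 1) (nat_lit 328) (nat_lit 396) (nat_lit 296)) (XT.lf (nat_lit 76) (nat_lit 2243920216) (nat_lit 0) (nat_lit 3677050894) (nat_lit 76) (nat_lit 3677050894) (nat_lit 155) (nat_lit 3) (nat_lit 154) (nat_lit 1) (nat_lit 155) (nat_lit 1) (nat_lit 329) (nat_lit 396) (nat_lit 295))))) (XT.nd (nat_lit 234) (nat_lit 380) (nat_lit 0) (XT.nd (nat_lit 78) (nat_lit 76) (nat_lit 0) (XT.lf (nat_lit 152) (nat_lit 8563318494) (nat_lit 0) (nat_lit 440285922) (nat_lit 76) (nat_lit 440285922) (nat_lit 154) (nat_lit 1) (nat_lit 152) (nat_lit 1) (nat_lit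 153) (nat_lit 1) (nat_lit 330) (nat_lit 396) (nat_lit 294)) (XT.nd (nat_lit 78) (nat_lit 76) (nat_lit 0) (XT.lf (nat_lit 0) (nat_lit 2683584321) (nat_lit 0) (nat_lit 3921576484) (nat_lit 152) (nat_lit 2683584321) (nat_lit 152) (nat_lit 3) (nat_lit 152) (nat_lit 1) (nat_lit 154) (nat_lit 1) (nat_lit 331) (nat_lit 396) (nat_lit 293)) (XT.lf (nat_lit 76) (nat_lit 2259965168) (nat_lit 0) (nat_lit 3439005324) (nat_lit 76) (nat_lit 3439005324) (nat_lit 152) (nat_lit 3) (nat_lit 151) (nat_lit 1) (nat_lit 152) (nat_lit 1) (nat_lit 332) (nat_lit 396) (nat_lit 292)))) (XT.nd (nat_lit 156) (nat_lit 228) (nat_lit 0) (XT.nd (nat_lit 78) (nat_lit 0) (nat_lit 0) (XT.lf (nat_lit 152) (nat_lit 8267013800) (nat_lit 0) (nat_lit 362224318) (nat_lit 76) (nat_lit 362224318) (nat_lit 151) (nat_lit 1) (nat_lit 149) (nat_lit 1) (nat_lit 150) (nat_lit 1) (nat_lit 333) (nat_lit 396) (nat_lit 291)) (XT.lf (nat_lit 0) (nat_lit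 2608430965) (nat_lit 0) (nat_lit 3626930181) (nat_lit 152) (nat_lit 2608430965) (nat_lit 149) (nat_lit 3) (nat_lit 149) (nat_lit 1) (nat_lit 151) (nat_lit 1) (nat_lit 334) (nat_lit 396) (nat_lit 290))) (XT.nd (nat_lit 78) (nat_lit 152) (nat_lit 0) (XT.lf (nat_lit 76) (nat_lit 2253456512) (nat_lit 0) (nat_lit 3223455766) (nat_lit 76) (nat_lit 3223455766) (nat_lit 149) (nat_lit 3) (nat_lit 148) (nat_lit 1) (nat_lit 149) (nat_lit 1) (nat_lit 335) (nat_lit 396) (nat_lit 289)) (XT.lf (nat_lit 152) (nat_lit 7965055078) (nat_lit 0) (nat_lit 298002843) (nat_lit 76) (nat_lit 298002843) (nat_lit 148) (nat_lit 1) (nat_lit 146) (nat_lit 1) (nat_lit 147) (nat_lit 1) (nat_lit 336) (nat_lit 396) (nat_lit 288)))))) (XT.nd (nat_lit 468) (nat_lit 456) (nat_lit 0) (XT.nd (nat_lit 234) (nat_lit 228) (nat_lit 0) (XT.nd (nat_lit 78) (nat_lit 228) (nat_lit 0) (XT.lf (nat_lit 0) (nat_lit 2527524041) (nat_lit 0) (nat_lit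 3365445867) (nat_lit 152) (nat_lit 2527524041) (nat_lit 146) (nat_lit 3) (nat_lit 146) (nat_lit 1) (nat_lit 148) (nat_lit 1) (nat_lit 337) (nat_lit 396) (nat_lit 287)) (XT.nd (nat_lit 78) (nat_lit 152) (nat_lit 0) (XT.lf (nat_lit 76) (nat_lit 2229331464) (nat_lit 0) (nat_lit 3027352251) (nat_lit 76) (nat_lit 3027352251) (nat_lit 146) (nat_lit 3) (nat_lit 145) (nat_lit 1) (nat_lit 146) (nat_lit 1) (nat_lit 338) (nat_lit 396) (nat_lit 286)) (XT.lf (nat_lit 152) (nat_lit 7661215634) (nat_lit 0) (nat_lit 245167676) (nat_lit 76) (nat_lit 245167676) (nat_lit 145) (nat_lit 1) (nat_lit 143) (nat_lit 1) (nat_lit 144) (nat_lit 1) (nat_lit 339) (nat_lit 396) (nat_lit 285)))) (XT.nd (nat_lit 78) (nat_lit 228) (nat_lit 0) (XT.lf (nat_lit 0) (nat_lit 2442792123) (nat_lit 0) (nat_lit 3132152483) (nat_lit 152) (nat_lit 2442792123) (nat_lit 143) (nat_lit 3) (nat_lit 143) (nat_lit 1) (nat_lit 145) (nat_lit 1) (nat_lit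 340) (nat_lit 396) (nat_lit 284)) (XT.nd (nat_lit 78) (nat_lit 152) (nat_lit 0) (XT.lf (nat_lit 76) (nat_lit 2191607193) (nat_lit 0) (nat_lit 2848140869) (nat_lit 76) (nat_lit 2848140869) (nat_lit 143) (nat_lit 3) (nat_lit 142) (nat_lit 1) (nat_lit 143) (nat_lit 1) (nat_lit 341) (nat_lit 396) (nat_lit 283)) (XT.lf (nat_lit 152) (nat_lit 7358467833) (nat_lit 0) (nat_lit 201700054) (nat_lit 76) (nat_lit 201700054) (nat_lit 142) (nat_lit 1) (nat_lit 140) (nat_lit 1) (nat_lit 141) (nat_lit 1) (nat_lit 342) (nat_lit 396) (nat_lit 282))))) (XT.nd (nat_lit 234) (nat_lit 228) (nat_lit 0) (XT.nd (nat_lit 78) (nat_lit 228) (nat_lit 0) (XT.lf (nat_lit 0) (nat_lit 2355778591) (nat_lit 0) (nat_lit 2922917065) (nat_lit 152) (nat_lit 2355778591) (nat_lit 140) (nat_lit 3) (nat_lit 140) (nat_lit 1) (nat_lit 142) (nat_lit 1) (nat_lit 343) (nat_lit 396) (nat_lit 281)) (XT.nd (nat_lit 78) (nat_lit 152) (nat_lit 0)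 (XT.lf (nat_lit 76) (nat_lit 2143546071) (nat_lit 0) (nat_lit 2683677951) (nat_lit 76) (nat_lit 2683677951) (nat_lit 140) (nat_lit 3) (nat_lit 139) (nat_lit 1) (nat_lit 140) (nat_lit 1) (nat_lit 344) (nat_lit 396) (nat_lit 280)) (XT.lf (nat_lit 152) (nat_lit 7059131383) (nat_lit 0) (nat_lit 165939133) (nat_lit 76) (nat_lit 165939133) (nat_lit 139) (nat_lit 1) (nat_lit 137) (nat_lit 1) (nat_lit 138) (nat_lit 1) (nat_lit 345) (nat_lit 396) (nat_lit 279)))) (XT.nd (nat_lit 156) (nat_lit 152) (nat_lit 0) (XT.nd (nat_lit 78) (nat_lit 76) (nat_lit 0) (XT.lf (nat_lit 0) (nat_lit 2267711987) (nat_lit 0) (nat_lit 2734298213) (nat_lit 152) (nat_lit 2267711987) (nat_lit 137) (nat_lit 3) (nat_lit 137) (nat_lit 1) (nat_lit 139) (nat_lit 1) (nat_lit 346) (nat_lit 396) (nat_lit 278)) (XT.lf (nat_lit 76) (nat_lit 2087791524) (nat_lit 0) (nat_lit 2532159359) (nat_lit 76) (nat_lit 2532159359) (nat_lit 137) (nat_lit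 3) (nat_lit 136) (nat_lit 1) (nat_lit 137) (nat_lit 1) (nat_lit 347) (nat_lit 396) (nat_lit 277))) (XT.nd (nat_lit 78) (nat_lit 0) (nat_lit 0) (XT.lf (nat_lit 152) (nat_lit 6764995036) (nat_lit 0) (nat_lit 136518535) (nat_lit 76) (nat_lit 136518535) (nat_lit 136) (nat_lit 1) (nat_lit 134) (nat_lit 1) (nat_lit 135) (nat_lit 1) (nat_lit 348) (nat_lit 396) (nat_lit 276)) (XT.lf (nat_lit 0) (nat_lit 2179563797) (nat_lit 0) (nat_lit 2563425440) (nat_lit 152) (nat_lit 2179563797) (nat_lit 134) (nat_lit 3) (nat_lit 134) (nat_lit 1) (nat_lit 136) (nat_lit 1) (nat_lit 349) (nat_lit 396) (nat_lit 275))))))))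
noncomputable def ec240 : XT := (XT.nd (nat_lit 1950) (nat_lit 1976) (nat_lit 0) (XT.nd (nat_lit 936) (nat_lit 988) (nat_lit 0) (XT.nd (nat_lit 468) (nat_lit 456) (nat_lit 0) (XT.nd (nat_lit 234) (nat_lit 228) (nat_lit 0) (XT.nd (nat_lit 78) (nat_lit 152) (nat_lit 0) (XT.lf (nat_lit 76) (nat_lit 2026479698) (nat_lit 0) (nat_lit 2392062215) (nat_lit 76) (nat_lit 2392062215) (nat_lit 134) (nat_lit 3) (nat_lit 133) (nat_lit 1) (nat_lit 134) (nat_lit 1) (nat_lit 350) (nat_lit 396) (nat_lit 274)) (XT.nd (nat_lit 78) (nat_lit 0) (nat_lit 0) (XT.lf (nat_lit 152) (nat_lit 6477416423) (nat_lit 0) (nat_lit 112314137) (nat_lit 76) (nat_lit 112314137) (nat_lit 133) (nat_lit 1) (nat_lit 131) (nat_lit 1) (nat_lit 132) (nat_lit 1) (nat_lit 351) (nat_lit 396) (nat_lit 273)) (XT.lf (nat_lit 0) (nat_lit 2092095895) (nat_lit 0) (nat_lit 2407899819) (nat_lit 152) (nat_lit 2092095895) (nat_lit 131) (nat_lit 3) (nat_lit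 131) (nat_lit 1) (nat_lit 133) (nat_lit 1) (nat_lit 352) (nat_lit 396) (nat_lit 272)))) (XT.nd (nat_lit 78) (nat_lit 152) (nat_lit 0) (XT.lf (nat_lit 76) (nat_lit 1961331238) (nat_lit 0) (nat_lit 2262096880) (nat_lit 76) (nat_lit 2262096880) (nat_lit 131) (nat_lit 3) (nat_lit 130) (nat_lit 1) (nat_lit 131) (nat_lit 1) (nat_lit 353) (nat_lit 396) (nat_lit 271)) (XT.nd (nat_lit 78) (nat_lit 0) (nat_lit 0) (XT.lf (nat_lit 152) (nat_lit 6197403916) (nat_lit 0) (nat_lit 92401118) (nat_lit 76) (nat_lit 92401118) (nat_lit 130) (nat_lit 1) (nat_lit 128) (nat_lit 1) (nat_lit 129) (nat_lit 1) (nat_lit 354) (nat_lit 396) (nat_lit 270)) (XT.lf (nat_lit 0) (nat_lit 2005899485) (nat_lit 0) (nat_lit 2265712155) (nat_lit 152) (nat_lit 2005899485) (nat_lit 128) (nat_lit 3) (nat_lit 128) (nat_lit 1) (nat_lit 130) (nat_lit 1) (nat_lit 355) (nat_lit 396) (nat_lit 269))))) (XT.nd (nat_lit 234) (nat_lit 228) (nat_lit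 0) (XT.nd (nat_lit 78) (nat_lit 152) (nat_lit 0) (XT.lf (nat_lit 76) (nat_lit 1893726707) (nat_lit 0) (nat_lit 2141167345) (nat_lit 76) (nat_lit 2141167345) (nat_lit 128) (nat_lit 3) (nat_lit 127) (nat_lit 1) (nat_lit 128) (nat_lit 1) (nat_lit 356) (nat_lit 396) (nat_lit 268)) (XT.nd (nat_lit 78) (nat_lit 0) (nat_lit 0) (XT.lf (nat_lit 152) (nat_lit 5925683724) (nat_lit 0) (nat_lit 76018629) (nat_lit 76) (nat_lit 76018629) (nat_lit 127) (nat_lit 1) (nat_lit 125) (nat_lit 1) (nat_lit 126) (nat_lit 1) (nat_lit 357) (nat_lit 396) (nat_lit 267)) (XT.lf (nat_lit 0) (nat_lit 1921427056) (nat_lit 0) (nat_lit 2135175582) (nat_lit 152) (nat_lit 1921427056) (nat_lit 125) (nat_lit 3) (nat_lit 125) (nat_lit 1) (nat_lit 127) (nat_lit 1) (nat_lit 358) (nat_lit 396) (nat_lit 266)))) (XT.nd (nat_lit 78) (nat_lit 152) (nat_lit 0) (XT.lf (nat_lit 76) (nat_lit 1824768547) (nat_lit 0) (nat_lit 2028338572) (nat_lit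 76) (nat_lit 2028338572) (nat_lit 125) (nat_lit 3) (nat_lit 124) (nat_lit 1) (nat_lit 125) (nat_lit 1) (nat_lit 359) (nat_lit 396) (nat_lit 265)) (XT.nd (nat_lit 78) (nat_lit 0) (nat_lit 0) (XT.lf (nat_lit 152) (nat_lit 5662754842) (nat_lit 0) (nat_lit 62540714) (nat_lit 76) (nat_lit 62540714) (nat_lit 124) (nat_lit 1) (nat_lit 122) (nat_lit 1) (nat_lit 123) (nat_lit 1) (nat_lit 360) (nat_lit 396) (nat_lit 264)) (XT.lf (nat_lit 0) (nat_lit 1839018590) (nat_lit 0) (nat_lit 2014870031) (nat_lit 152) (nat_lit 1839018590) (nat_lit 122) (nat_lit 3) (nat_lit 122) (nat_lit 1) (nat_lit 124) (nat_lit 1) (nat_lit 361) (nat_lit 396) (nat_lit 263)))))) (XT.nd (nat_lit 468) (nat_lit 532) (nat_lit 0) (XT.nd (nat_lit 234) (nat_lit 228) (nat_lit 0) (XT.nd (nat_lit 78) (nat_lit 152) (nat_lit 0) (XT.lf (nat_lit 76) (nat_lit 1755331979) (nat_lit 0) (nat_lit 1922809542) (nat_lit 76) (nat_lit 1922809542) (nat_lit 122)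 (nat_lit 3) (nat_lit 121) (nat_lit 1) (nat_lit 122) (nat_lit 1) (nat_lit 362) (nat_lit 396) (nat_lit 262)) (XT.nd (nat_lit 78) (nat_lit 0) (nat_lit 0) (XT.lf (nat_lit 152) (nat_lit 5408934019) (nat_lit 0) (nat_lit 51452400) (nat_lit 76) (nat_lit 51452400) (nat_lit 121) (nat_lit 1) (nat_lit 119) (nat_lit 1) (nat_lit 120) (nat_lit 1) (nat_lit 363) (nat_lit 396) (nat_lit 261)) (XT.lf (nat_lit 0) (nat_lit 1758923045) (nat_lit 0) (nat_lit 1903596462) (nat_lit 152) (nat_lit 1758923045) (nat_lit 119) (nat_lit 3) (nat_lit 119) (nat_lit 1) (nat_lit 121) (nat_lit 1) (nat_lit 364) (nat_lit 396) (nat_lit 260)))) (XT.nd (nat_lit 78) (nat_lit 152) (nat_lit 0) (XT.lf (nat_lit 76) (nat_lit 1686106801) (nat_lit 0) (nat_lit 1823891007) (nat_lit 76) (nat_lit 1823891007) (nat_lit 119) (nat_lit 3) (nat_lit 118) (nat_lit 1) (nat_lit 119) (nat_lit 1) (nat_lit 365) (nat_lit 396) (nat_lit 259)) (XT.nd (nat_lit 78) (nat_lit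 0) (nat_lit 0) (XT.lf (nat_lit 152) (nat_lit 5164392543) (nat_lit 0) (nat_lit 42330017) (nat_lit 76) (nat_lit 42330017) (nat_lit 118) (nat_lit 1) (nat_lit 116) (nat_lit 1) (nat_lit 117) (nat_lit 1) (nat_lit 366) (nat_lit 396) (nat_lit 258)) (XT.lf (nat_lit 0) (nat_lit 1681315962) (nat_lit 0) (nat_lit 1800339139) (nat_lit 152) (nat_lit 1681315962) (nat_lit 116) (nat_lit 3) (nat_lit 116) (nat_lit 1) (nat_lit 118) (nat_lit 1) (nat_lit 367) (nat_lit 396) (nat_lit 257))))) (XT.nd (nat_lit 234) (nat_lit 304) (nat_lit 0) (XT.nd (nat_lit 78) (nat_lit 152) (nat_lit 0) (XT.lf (nat_lit 76) (nat_lit 1617631702) (nat_lit 0) (nat_lit 1730987109) (nat_lit 76) (nat_lit 1730987109) (nat_lit 116) (nat_lit 3) (nat_lit 115) (nat_lit 1) (nat_lit 116) (nat_lit 1) (nat_lit 368) (nat_lit 396) (nat_lit 256)) (XT.nd (nat_lit 78) (nat_lit 0) (nat_lit 0) (XT.lf (nat_lit 152) (nat_lit 4929186278) (nat_lit 0) (nat_lit 34825009)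 (nat_lit 76) (nat_lit 34825009) (nat_lit 115) (nat_lit 1) (nat_lit 113) (nat_lit 1) (nat_lit 114) (nat_lit 1) (nat_lit 369) (nat_lit 396) (nat_lit 255)) (XT.lf (nat_lit 0) (nat_lit 1606313869) (nat_lit 0) (nat_lit 1704234532) (nat_lit 152) (nat_lit 1606313869) (nat_lit 113) (nat_lit 3) (nat_lit 113) (nat_lit 1) (nat_lit 115) (nat_lit 1) (nat_lit 370) (nat_lit 396) (nat_lit 254)))) (XT.nd (nat_lit 156) (nat_lit 76) (nat_lit 0) (XT.nd (nat_lit 78) (nat_lit 152) (nat_lit 0) (XT.lf (nat_lit 76) (nat_lit 1550322428) (nat_lit 0) (nat_lit 1643580202) (nat_lit 76) (nat_lit 1643580202) (nat_lit 113) (nat_lit 3) (nat_lit 112) (nat_lit 1) (nat_lit 113) (nat_lit 1) (nat_lit 371) (nat_lit 396) (nat_lit 253)) (XT.lf (nat_lit 152) (nat_lit 4703280180) (nat_lit 0) (nat_lit 28650621) (nat_lit 76) (nat_lit 28650621) (nat_lit 112) (nat_lit 1) (nat_lit 110) (nat_lit 1) (nat_lit 111) (nat_lit 1) (nat_lit 372) (nat_lit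 396) (nat_lit 252))) (XT.nd (nat_lit 78) (nat_lit 76) (nat_lit 0) (XT.lf (nat_lit 0) (nat_lit 1533986077) (nat_lit 0) (nat_lit 1614545649) (nat_lit 152) (nat_lit 1533986077) (nat_lit 110) (nat_lit 3) (nat_lit 110) (nat_lit 1) (nat_lit 112) (nat_lit 1) (nat_lit 373) (nat_lit 396) (nat_lit 251)) (XT.lf (nat_lit 76) (nat_lit 1484494882) (nat_lit 0) (nat_lit 1561218284) (nat_lit 76) (nat_lit 1561218284) (nat_lit 110) (nat_lit 3) (nat_lit 109) (nat_lit 1) (nat_lit 110) (nat_lit 1) (nat_lit 374) (nat_lit 396) (nat_lit 250))))))) (XT.nd (nat_lit 936) (nat_lit 1064) (nat_lit 0) (XT.nd (nat_lit 468) (nat_lit 456) (nat_lit 0) (XT.nd (nat_lit 234) (nat_lit 228) (nat_lit 0) (XT.nd (nat_lit 78) (nat_lit 76) (nat_lit 0) (XT.lf (nat_lit 152) (nat_lit 4486568273) (nat_lit 0) (nat_lit 23570937) (nat_lit 76) (nat_lit 23570937) (nat_lit 109) (nat_lit 1) (nat_lit 107) (nat_lit 1) (nat_lit 108) (nat_lit 1) (nat_lit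 375) (nat_lit 396) (nat_lit 249)) (XT.nd (nat_lit 78) (nat_lit 76) (nat_lit 0) (XT.lf (nat_lit 0) (nat_lit 1464364316) (nat_lit 0) (nat_lit 1530640875) (nat_lit 152) (nat_lit 1464364316) (nat_lit 107) (nat_lit 3) (nat_lit 107) (nat_lit 1) (nat_lit 109) (nat_lit 1) (nat_lit 376) (nat_lit 396) (nat_lit 248)) (XT.lf (nat_lit 76) (nat_lit 1420384074) (nat_lit 0) (nat_lit 1483504607) (nat_lit 76) (nat_lit 1483504607) (nat_lit 107) (nat_lit 3) (nat_lit 106) (nat_lit 1) (nat_lit 107) (nat_lit 1) (nat_lit 377) (nat_lit 396) (nat_lit 247)))) (XT.nd (nat_lit 78) (nat_lit 76) (nat_lit 0) (XT.lf (nat_lit 152) (nat_lit 4278889897) (nat_lit 0) (nat_lit 19391868) (nat_lit 76) (nat_lit 19391868) (nat_lit 106) (nat_lit 1) (nat_lit 104) (nat_lit 1) (nat_lit 105) (nat_lit 1) (nat_lit 378) (nat_lit 396) (nat_lit 246)) (XT.nd (nat_lit 78) (nat_lit 76) (nat_lit 0) (XT.lf (nat_lit 0) (nat_lit 1397450597) (nat_lit 0)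 (nat_lit 1451976486) (nat_lit 152) (nat_lit 1397450597) (nat_lit 104) (nat_lit 3) (nat_lit 104) (nat_lit 1) (nat_lit 106) (nat_lit 1) (nat_lit 379) (nat_lit 396) (nat_lit 245)) (XT.lf (nat_lit 76) (nat_lit 1358159646) (nat_lit 0) (nat_lit 1410089064) (nat_lit 76) (nat_lit 1410089064) (nat_lit 104) (nat_lit 3) (nat_lit 103) (nat_lit 1) (nat_lit 104) (nat_lit 1) (nat_lit 380) (nat_lit 396) (nat_lit 244))))) (XT.nd (nat_lit 234) (nat_lit 228) (nat_lit 0) (XT.nd (nat_lit 78) (nat_lit 76) (nat_lit 0) (XT.lf (nat_lit 152) (nat_lit 4080042903) (nat_lit 0) (nat_lit 15953738) (nat_lit 76) (nat_lit 15953738) (nat_lit 103) (nat_lit 1) (nat_lit 101) (nat_lit 1) (nat_lit 102) (nat_lit 1) (nat_lit 381) (nat_lit 396) (nat_lit 243)) (XT.nd (nat_lit 78) (nat_lit 76) (nat_lit 0) (XT.lf (nat_lit 0) (nat_lit 1333223637) (nat_lit 0) (nat_lit 1378082221) (nat_lit 152) (nat_lit 1333223637) (nat_lit 101) (nat_lit 3) (nat_lit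 101) (nat_lit 1) (nat_lit 103) (nat_lit 1) (nat_lit 382) (nat_lit 396) (nat_lit 242)) (XT.lf (nat_lit 76) (nat_lit 1297938591) (nat_lit 0) (nat_lit 1340661052) (nat_lit 76) (nat_lit 1340661052) (nat_lit 101) (nat_lit 3) (nat_lit 100) (nat_lit 1) (nat_lit 101) (nat_lit 1) (nat_lit 383) (nat_lit 396) (nat_lit 241)))) (XT.nd (nat_lit 78) (nat_lit 76) (nat_lit 0) (XT.lf (nat_lit 152) (nat_lit 3889794342) (nat_lit 0) (nat_lit 13125179) (nat_lit 76) (nat_lit 13125179) (nat_lit 100) (nat_lit 1) (nat_lit 98) (nat_lit 1) (nat_lit 99) (nat_lit 1) (nat_lit 384) (nat_lit 396) (nat_lit 240)) (XT.nd (nat_lit 78) (nat_lit 76) (nat_lit 0) (XT.lf (nat_lit 0) (nat_lit 1271644074) (nat_lit 0) (nat_lit 1308549341) (nat_lit 152) (nat_lit 1271644074) (nat_lit 98) (nat_lit 3) (nat_lit 98) (nat_lit 1) (nat_lit 100) (nat_lit 1) (nat_lit 385) (nat_lit 396) (nat_lit 239)) (XT.lf (nat_lit 76) (nat_lit 1239795661) (nat_lit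 0) (nat_lit 1274943536) (nat_lit 76) (nat_lit 1274943536) (nat_lit 98) (nat_lit 3) (nat_lit 97) (nat_lit 1) (nat_lit 98) (nat_lit 1) (nat_lit 386) (nat_lit 396) (nat_lit 238)))))) (XT.nd (nat_lit 468) (nat_lit 608) (nat_lit 0) (XT.nd (nat_lit 234) (nat_lit 228) (nat_lit 0) (XT.nd (nat_lit 78) (nat_lit 76) (nat_lit 0) (XT.lf (nat_lit 152) (nat_lit 3707889097) (nat_lit 0) (nat_lit 10798118) (nat_lit 76) (nat_lit 10798118) (nat_lit 97) (nat_lit 1) (nat_lit 95) (nat_lit 1) (nat_lit 96) (nat_lit 1) (nat_lit 387) (nat_lit 396) (nat_lit 237)) (XT.nd (nat_lit 78) (nat_lit 76) (nat_lit 0) (XT.lf (nat_lit 0) (nat_lit 1212658715) (nat_lit 0) (nat_lit 1243020770) (nat_lit 152) (nat_lit 1212658715) (nat_lit 95) (nat_lit 3) (nat_lit 95) (nat_lit 1) (nat_lit 97) (nat_lit 1) (nat_lit 388) (nat_lit 396) (nat_lit 236)) (XT.lf (nat_lit 76) (nat_lit 1183771883) (nat_lit 0) (nat_lit 1212688126) (nat_lit 76) (nat_lit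 1212688126) (nat_lit 95) (nat_lit 3) (nat_lit 94) (nat_lit 1) (nat_lit 95) (nat_lit 1) (nat_lit 389) (nat_lit 396) (nat_lit 235)))) (XT.nd (nat_lit 78) (nat_lit 76) (nat_lit 0) (XT.lf (nat_lit 152) (nat_lit 3534056836) (nat_lit 0) (nat_lit 8883638) (nat_lit 76) (nat_lit 8883638) (nat_lit 94) (nat_lit 1) (nat_lit 92) (nat_lit 1) (nat_lit 93) (nat_lit 1) (nat_lit 390) (nat_lit 396) (nat_lit 234)) (XT.nd (nat_lit 78) (nat_lit 76) (nat_lit 0) (XT.lf (nat_lit 0) (nat_lit 1156203981) (nat_lit 0) (nat_lit 1181182919) (nat_lit 152) (nat_lit 1156203981) (nat_lit 92) (nat_lit 3) (nat_lit 92) (nat_lit 1) (nat_lit 94) (nat_lit 1) (nat_lit 391) (nat_lit 396) (nat_lit 233)) (XT.lf (nat_lit 76) (nat_lit 1129881509) (nat_lit 0) (nat_lit 1153670974) (nat_lit 76) (nat_lit 1153670974) (nat_lit 92) (nat_lit 3) (nat_lit 91) (nat_lit 1) (nat_lit 92) (nat_lit 1) (nat_lit 392) (nat_lit 396) (nat_lit 232))))) (XT.nd (nat_lit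 234) (nat_lit 380) (nat_lit 0) (XT.nd (nat_lit 78) (nat_lit 76) (nat_lit 0) (XT.lf (nat_lit 152) (nat_lit 3368017591) (nat_lit 0) (nat_lit 7308591) (nat_lit 76) (nat_lit 7308591) (nat_lit 91) (nat_lit 1) (nat_lit 89) (nat_lit 1) (nat_lit 90) (nat_lit 1) (nat_lit 393) (nat_lit 396) (nat_lit 231)) (XT.nd (nat_lit 78) (nat_lit 76) (nat_lit 0) (XT.lf (nat_lit 0) (nat_lit 1102208692) (nat_lit 0) (nat_lit 1122758926) (nat_lit 152) (nat_lit 1102208692) (nat_lit 89) (nat_lit 3) (nat_lit 89) (nat_lit 1) (nat_lit 91) (nat_lit 1) (nat_lit 394) (nat_lit 396) (nat_lit 230)) (XT.lf (nat_lit 76) (nat_lit 1078117696) (nat_lit 0) (nat_lit 1097689348) (nat_lit 76) (nat_lit 1097689348) (nat_lit 89) (nat_lit 3) (nat_lit 88) (nat_lit 1) (nat_lit 89) (nat_lit 1) (nat_lit 395) (nat_lit 396) (nat_lit 229)))) (XT.nd (nat_lit 156) (nat_lit 228) (nat_lit 0) (XT.nd (nat_lit 78) (nat_lit 0) (nat_lit 0) (XT.lf (nat_lit 152)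 (nat_lit 3209486203) (nat_lit 0) (nat_lit 6012796) (nat_lit 76) (nat_lit 6012796) (nat_lit 88) (nat_lit 1) (nat_lit 86) (nat_lit 1) (nat_lit 87) (nat_lit 1) (nat_lit 396) (nat_lit 396) (nat_lit 228)) (XT.lf (nat_lit 0) (nat_lit 1050596309) (nat_lit 0) (nat_lit 1067503037) (nat_lit 152) (nat_lit 1050596309) (nat_lit 86) (nat_lit 3) (nat_lit 86) (nat_lit 1) (nat_lit 88) (nat_lit 1) (nat_lit 397) (nat_lit 396) (nat_lit 227))) (XT.nd (nat_lit 78) (nat_lit 152) (nat_lit 0) (XT.lf (nat_lit 76) (nat_lit 1028457128) (nat_lit 0) (nat_lit 1044558774) (nat_lit 76) (nat_lit 1044558774) (nat_lit 86) (nat_lit 3) (nat_lit 85) (nat_lit 1) (nat_lit 86) (nat_lit 1) (nat_lit 398) (nat_lit 396) (nat_lit 226)) (XT.lf (nat_lit 152) (nat_lit 3058175857) (nat_lit 0) (nat_lit 4946742) (nat_lit 76) (nat_lit 4946742) (nat_lit 85) (nat_lit 1) (nat_lit 83) (nat_lit 1) (nat_lit 84) (nat_lit 1) (nat_lit 399) (nat_lit 396) (nat_lit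 225))))))))
noncomputable def ec241 : XT := (XT.nd (nat_lit 1950) (nat_lit 1672) (nat_lit 0) (XT.nd (nat_lit 936) (nat_lit 912) (nat_lit 0) (XT.nd (nat_lit 468) (nat_lit 456) (nat_lit 0) (XT.nd (nat_lit 234) (nat_lit 228) (nat_lit 0) (XT.nd (nat_lit 78) (nat_lit 228) (nat_lit 0) (XT.lf (nat_lit 0) (nat_lit 1001286746) (nat_lit 0) (nat_lit 1015195953) (nat_lit 152) (nat_lit 1001286746) (nat_lit 83) (nat_lit 3) (nat_lit 83) (nat_lit 1) (nat_lit 85) (nat_lit 1) (nat_lit 400) (nat_lit 396) (nat_lit 224)) (XT.nd (nat_lit 78) (nat_lit 152) (nat_lit 0) (XT.lf (nat_lit 76) (nat_lit 980863777) (nat_lit 0) (nat_lit 994110641) (nat_lit 76) (nat_lit 994110641) (nat_lit 83) (nat_lit 3) (nat_lit 82) (nat_lit 1) (nat_lit 83) (nat_lit 1) (nat_lit 401) (nat_lit 396) (nat_lit 223)) (XT.lf (nat_lit 152) (nat_lit 2913800860) (nat_lit 0) (nat_lit 4069697) (nat_lit 76) (nat_lit 4069697) (nat_lit 82) (nat_lit 1) (nat_lit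 80) (nat_lit 1) (nat_lit 81) (nat_lit 1) (nat_lit 402) (nat_lit 396) (nat_lit 222)))) (XT.nd (nat_lit 78) (nat_lit 228) (nat_lit 0) (XT.lf (nat_lit 0) (nat_lit 954197810) (nat_lit 0) (nat_lit 965640949) (nat_lit 152) (nat_lit 954197810) (nat_lit 80) (nat_lit 3) (nat_lit 80) (nat_lit 1) (nat_lit 82) (nat_lit 1) (nat_lit 403) (nat_lit 396) (nat_lit 221)) (XT.nd (nat_lit 78) (nat_lit 152) (nat_lit 0) (XT.lf (nat_lit 76) (nat_lit 935291965) (nat_lit 0) (nat_lit 946190193) (nat_lit 76) (nat_lit 946190193) (nat_lit 80) (nat_lit 3) (nat_lit 79) (nat_lit 1) (nat_lit 80) (nat_lit 1) (nat_lit 404) (nat_lit 396) (nat_lit 220)) (XT.lf (nat_lit 152) (nat_lit 2776078811) (nat_lit 0) (nat_lit 3348149) (nat_lit 76) (nat_lit 3348149) (nat_lit 79) (nat_lit 1) (nat_lit 77) (nat_lit 1) (nat_lit 78) (nat_lit 1) (nat_lit 405) (nat_lit 396) (nat_lit 219))))) (XT.nd (nat_lit 234) (nat_lit 228) (nat_lit 0) (XT.nd (nat_lit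 78) (nat_lit 228) (nat_lit 0) (XT.lf (nat_lit 0) (nat_lit 909246353) (nat_lit 0) (nat_lit 918660652) (nat_lit 152) (nat_lit 909246353) (nat_lit 77) (nat_lit 3) (nat_lit 77) (nat_lit 1) (nat_lit 79) (nat_lit 1) (nat_lit 406) (nat_lit 396) (nat_lit 218)) (XT.nd (nat_lit 78) (nat_lit 152) (nat_lit 0) (XT.lf (nat_lit 76) (nat_lit 891688831) (nat_lit 0) (nat_lit 900654830) (nat_lit 76) (nat_lit 900654830) (nat_lit 77) (nat_lit 3) (nat_lit 76) (nat_lit 1) (nat_lit 77) (nat_lit 1) (nat_lit 407) (nat_lit 396) (nat_lit 217)) (XT.lf (nat_lit 152) (nat_lit 2644732273) (nat_lit 0) (nat_lit 2754531) (nat_lit 76) (nat_lit 2754531) (nat_lit 76) (nat_lit 1) (nat_lit 74) (nat_lit 1) (nat_lit 75) (nat_lit 1) (nat_lit 408) (nat_lit 396) (nat_lit 216)))) (XT.nd (nat_lit 78) (nat_lit 228) (nat_lit 0) (XT.lf (nat_lit 0) (nat_lit 866349180) (nat_lit 0) (nat_lit 874094347) (nat_lit 152) (nat_lit 866349180) (nat_lit 74)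 (nat_lit 3) (nat_lit 74) (nat_lit 1) (nat_lit 76) (nat_lit 1) (nat_lit 409) (nat_lit 396) (nat_lit 215)) (XT.nd (nat_lit 78) (nat_lit 152) (nat_lit 0) (XT.lf (nat_lit 76) (nat_lit 849996339) (nat_lit 0) (nat_lit 857372688) (nat_lit 76) (nat_lit 857372688) (nat_lit 74) (nat_lit 3) (nat_lit 73) (nat_lit 1) (nat_lit 74) (nat_lit 1) (nat_lit 410) (nat_lit 396) (nat_lit 214)) (XT.lf (nat_lit 152) (nat_lit 2519490038) (nat_lit 0) (nat_lit 2266159) (nat_lit 76) (nat_lit 2266159) (nat_lit 73) (nat_lit 1) (nat_lit 71) (nat_lit 1) (nat_lit 72) (nat_lit 1) (nat_lit 411) (nat_lit 396) (nat_lit 213)))))) (XT.nd (nat_lit 468) (nat_lit 456) (nat_lit 0) (XT.nd (nat_lit 234) (nat_lit 228) (nat_lit 0) (XT.nd (nat_lit 78) (nat_lit 228) (nat_lit 0) (XT.lf (nat_lit 0) (nat_lit 825423763) (nat_lit 0) (nat_lit 831795731) (nat_lit 152) (nat_lit 825423763) (nat_lit 71) (nat_lit 3) (nat_lit 71) (nat_lit 1) (nat_lit 73)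 (nat_lit 1) (nat_lit 412) (nat_lit 396) (nat_lit 212)) (XT.nd (nat_lit 78) (nat_lit 152) (nat_lit 0) (XT.lf (nat_lit 76) (nat_lit 810152882) (nat_lit 0) (nat_lit 816221423) (nat_lit 76) (nat_lit 816221423) (nat_lit 71) (nat_lit 3) (nat_lit 70) (nat_lit 1) (nat_lit 71) (nat_lit 1) (nat_lit 413) (nat_lit 396) (nat_lit 211)) (XT.lf (nat_lit 152) (nat_lit 2400088072) (nat_lit 0) (nat_lit 1864375) (nat_lit 76) (nat_lit 1864375) (nat_lit 70) (nat_lit 1) (nat_lit 68) (nat_lit 1) (nat_lit 69) (nat_lit 1) (nat_lit 414) (nat_lit 396) (nat_lit 210)))) (XT.nd (nat_lit 78) (nat_lit 228) (nat_lit 0) (XT.lf (nat_lit 0) (nat_lit 786388789) (nat_lit 0) (nat_lit 791631023) (nat_lit 152) (nat_lit 786388789) (nat_lit 68) (nat_lit 3) (nat_lit 68) (nat_lit 1) (nat_lit 70) (nat_lit 1) (nat_lit 415) (nat_lit 396) (nat_lit 209)) (XT.nd (nat_lit 78) (nat_lit 152) (nat_lit 0) (XT.lf (nat_lit 76) (nat_lit 772094582) (nat_lit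 0) (nat_lit 777087186) (nat_lit 76) (nat_lit 777087186) (nat_lit 68) (nat_lit 3) (nat_lit 67) (nat_lit 1) (nat_lit 68) (nat_lit 1) (nat_lit 416) (nat_lit 396) (nat_lit 208)) (XT.lf (nat_lit 152) (nat_lit 2286270190) (nat_lit 0) (nat_lit 1533826) (nat_lit 76) (nat_lit 1533826) (nat_lit 67) (nat_lit 1) (nat_lit 65) (nat_lit 1) (nat_lit 66) (nat_lit 1) (nat_lit 417) (nat_lit 396) (nat_lit 207))))) (XT.nd (nat_lit 234) (nat_lit 228) (nat_lit 0) (XT.nd (nat_lit 78) (nat_lit 228) (nat_lit 0) (XT.lf (nat_lit 0) (nat_lit 749164591) (nat_lit 0) (nat_lit 753477390) (nat_lit 152) (nat_lit 749164591) (nat_lit 65) (nat_lit 3) (nat_lit 65) (nat_lit 1) (nat_lit 67) (nat_lit 1) (nat_lit 418) (nat_lit 396) (nat_lit 206)) (XT.nd (nat_lit 78) (nat_lit 152) (nat_lit 0) (XT.lf (nat_lit 76) (nat_lit 735756315) (nat_lit 0) (nat_lit 739863742) (nat_lit 76) (nat_lit 739863742) (nat_lit 65) (nat_lit 3) (nat_lit 64) (nat_lit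 1) (nat_lit 65) (nat_lit 1) (nat_lit 419) (nat_lit 396) (nat_lit 205)) (XT.lf (nat_lit 152) (nat_lit 2177788518) (nat_lit 0) (nat_lit 1261882) (nat_lit 76) (nat_lit 1261882) (nat_lit 64) (nat_lit 1) (nat_lit 62) (nat_lit 1) (nat_lit 63) (nat_lit 1) (nat_lit 420) (nat_lit 396) (nat_lit 204)))) (XT.nd (nat_lit 156) (nat_lit 152) (nat_lit 0) (XT.nd (nat_lit 78) (nat_lit 76) (nat_lit 0) (XT.lf (nat_lit 0) (nat_lit 713673456) (nat_lit 0) (nat_lit 717221607) (nat_lit 152) (nat_lit 713673456) (nat_lit 62) (nat_lit 3) (nat_lit 62) (nat_lit 1) (nat_lit 64) (nat_lit 1) (nat_lit 421) (nat_lit 396) (nat_lit 203)) (XT.lf (nat_lit 76) (nat_lit 701072533) (nat_lit 0) (nat_lit 704451723) (nat_lit 76) (nat_lit 704451723) (nat_lit 62) (nat_lit 3) (nat_lit 61) (nat_lit 1) (nat_lit 62) (nat_lit 1) (nat_lit 422) (nat_lit 396) (nat_lit 202))) (XT.nd (nat_lit 78) (nat_lit 0) (nat_lit 0) (XT.lf (nat_lit 152) (nat_lit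 2074403788) (nat_lit 0) (nat_lit 1038153) (nat_lit 76) (nat_lit 1038153) (nat_lit 61) (nat_lit 1) (nat_lit 59) (nat_lit 1) (nat_lit 60) (nat_lit 1) (nat_lit 423) (nat_lit 396) (nat_lit 201)) (XT.lf (nat_lit 0) (nat_lit 679839865) (nat_lit 0) (nat_lit 682758937) (nat_lit 152) (nat_lit 679839865) (nat_lit 59) (nat_lit 3) (nat_lit 59) (nat_lit 1) (nat_lit 61) (nat_lit 1) (nat_lit 424) (nat_lit 396) (nat_lit 200))))))) (XT.nd (nat_lit 936) (nat_lit 760) (nat_lit 0) (XT.nd (nat_lit 468) (nat_lit 456) (nat_lit 0) (XT.nd (nat_lit 234) (nat_lit 228) (nat_lit 0) (XT.nd (nat_lit 78) (nat_lit 152) (nat_lit 0) (XT.lf (nat_lit 76) (nat_lit 667977909) (nat_lit 0) (nat_lit 670757978) (nat_lit 76) (nat_lit 670757978) (nat_lit 59) (nat_lit 3) (nat_lit 58) (nat_lit 1) (nat_lit 59) (nat_lit 1) (nat_lit 425) (nat_lit 396) (nat_lit 199)) (XT.nd (nat_lit 78) (nat_lit 0) (nat_lit 0) (XT.lf (nat_lit 152) (nat_lit 1975885497)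 (nat_lit 0) (nat_lit 854091) (nat_lit 76) (nat_lit 854091) (nat_lit 58) (nat_lit 1) (nat_lit 56) (nat_lit 1) (nat_lit 57) (nat_lit 1) (nat_lit 426) (nat_lit 396) (nat_lit 198)) (XT.lf (nat_lit 0) (nat_lit 647590649) (nat_lit 0) (nat_lit 649992177) (nat_lit 152) (nat_lit 647590649) (nat_lit 56) (nat_lit 3) (nat_lit 56) (nat_lit 1) (nat_lit 58) (nat_lit 1) (nat_lit 427) (nat_lit 396) (nat_lit 197)))) (XT.nd (nat_lit 78) (nat_lit 152) (nat_lit 0) (XT.lf (nat_lit 76) (nat_lit 636407842) (nat_lit 0) (nat_lit 638695012) (nat_lit 76) (nat_lit 638695012) (nat_lit 56) (nat_lit 3) (nat_lit 55) (nat_lit 1) (nat_lit 56) (nat_lit 1) (nat_lit 428) (nat_lit 396) (nat_lit 196)) (XT.nd (nat_lit 78) (nat_lit 0) (nat_lit 0) (XT.lf (nat_lit 152) (nat_lit 1882011952) (nat_lit 0) (nat_lit 702663) (nat_lit 76) (nat_lit 702663) (nat_lit 55) (nat_lit 1) (nat_lit 53) (nat_lit 1) (nat_lit 54) (nat_lit 1) (nat_lit 429) (nat_lit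 396) (nat_lit 195)) (XT.lf (nat_lit 0) (nat_lit 616855106) (nat_lit 0) (nat_lit 618830849) (nat_lit 152) (nat_lit 616855106) (nat_lit 53) (nat_lit 3) (nat_lit 53) (nat_lit 1) (nat_lit 55) (nat_lit 1) (nat_lit 430) (nat_lit 396) (nat_lit 194))))) (XT.nd (nat_lit 234) (nat_lit 228) (nat_lit 0) (XT.nd (nat_lit 78) (nat_lit 152) (nat_lit 0) (XT.lf (nat_lit 76) (nat_lit 606298843) (nat_lit 0) (nat_lit 608180503) (nat_lit 76) (nat_lit 608180503) (nat_lit 53) (nat_lit 3) (nat_lit 52) (nat_lit 1) (nat_lit 53) (nat_lit 1) (nat_lit 431) (nat_lit 396) (nat_lit 193)) (XT.nd (nat_lit 78) (nat_lit 0) (nat_lit 0) (XT.lf (nat_lit 152) (nat_lit 1792570237) (nat_lit 0) (nat_lit 578082) (nat_lit 76) (nat_lit 578082) (nat_lit 52) (nat_lit 1) (nat_lit 50) (nat_lit 1) (nat_lit 51) (nat_lit 1) (nat_lit 432) (nat_lit 396) (nat_lit 192)) (XT.lf (nat_lit 0) (nat_lit 587565057) (nat_lit 0) (nat_lit 589190506) (nat_lit 152)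 (nat_lit 587565057) (nat_lit 50) (nat_lit 3) (nat_lit 50) (nat_lit 1) (nat_lit 52) (nat_lit 1) (nat_lit 433) (nat_lit 396) (nat_lit 191)))) (XT.nd (nat_lit 78) (nat_lit 152) (nat_lit 0) (XT.lf (nat_lit 76) (nat_lit 577588832) (nat_lit 0) (nat_lit 579136878) (nat_lit 76) (nat_lit 579136878) (nat_lit 50) (nat_lit 3) (nat_lit 49) (nat_lit 1) (nat_lit 50) (nat_lit 1) (nat_lit 434) (nat_lit 396) (nat_lit 190)) (XT.nd (nat_lit 78) (nat_lit 0) (nat_lit 0) (XT.lf (nat_lit 152) (nat_lit 1707356109) (nat_lit 0) (nat_lit 475590) (nat_lit 76) (nat_lit 475590) (nat_lit 49) (nat_lit 1) (nat_lit 47) (nat_lit 1) (nat_lit 48) (nat_lit 1) (nat_lit 435) (nat_lit 396) (nat_lit 189)) (XT.lf (nat_lit 0) (nat_lit 559654879) (nat_lit 0) (nat_lit 560992140) (nat_lit 152) (nat_lit 559654879) (nat_lit 47) (nat_lit 3) (nat_lit 47) (nat_lit 1) (nat_lit 49) (nat_lit 1) (nat_lit 436) (nat_lit 396) (nat_lit 188)))))) (XT.nd (nat_lit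 468) (nat_lit 304) (nat_lit 0) (XT.nd (nat_lit 234) (nat_lit 228) (nat_lit 0) (XT.nd (nat_lit 78) (nat_lit 152) (nat_lit 0) (XT.lf (nat_lit 76) (nat_lit 550217355) (nat_lit 0) (nat_lit 551490936) (nat_lit 76) (nat_lit 551490936) (nat_lit 47) (nat_lit 3) (nat_lit 46) (nat_lit 1) (nat_lit 47) (nat_lit 1) (nat_lit 437) (nat_lit 396) (nat_lit 187)) (XT.nd (nat_lit 78) (nat_lit 0) (nat_lit 0) (XT.lf (nat_lit 152) (nat_lit 1626173848) (nat_lit 0) (nat_lit 391269) (nat_lit 76) (nat_lit 391269) (nat_lit 46) (nat_lit 1) (nat_lit 44) (nat_lit 1) (nat_lit 45) (nat_lit 1) (nat_lit 438) (nat_lit 396) (nat_lit 186)) (XT.lf (nat_lit 0) (nat_lit 533061504) (nat_lit 0) (nat_lit 534161671) (nat_lit 152) (nat_lit 533061504) (nat_lit 44) (nat_lit 3) (nat_lit 44) (nat_lit 1) (nat_lit 46) (nat_lit 1) (nat_lit 439) (nat_lit 396) (nat_lit 185)))) (XT.nd (nat_lit 78) (nat_lit 152) (nat_lit 0) (XT.lf (nat_lit 76) (nat_lit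 524125744) (nat_lit 0) (nat_lit 525173523) (nat_lit 76) (nat_lit 525173523) (nat_lit 44) (nat_lit 3) (nat_lit 43) (nat_lit 1) (nat_lit 44) (nat_lit 1) (nat_lit 440) (nat_lit 396) (nat_lit 184)) (XT.nd (nat_lit 78) (nat_lit 0) (nat_lit 0) (XT.lf (nat_lit 152) (nat_lit 1548836060) (nat_lit 0) (nat_lit 321898) (nat_lit 76) (nat_lit 321898) (nat_lit 43) (nat_lit 1) (nat_lit 41) (nat_lit 1) (nat_lit 42) (nat_lit 1) (nat_lit 441) (nat_lit 396) (nat_lit 183)) (XT.lf (nat_lit 0) (nat_lit 507724399) (nat_lit 0) (nat_lit 508629509) (nat_lit 152) (nat_lit 507724399) (nat_lit 41) (nat_lit 3) (nat_lit 41) (nat_lit 1) (nat_lit 43) (nat_lit 1) (nat_lit 442) (nat_lit 396) (nat_lit 182))))) (XT.nd (nat_lit 234) (nat_lit 76) (nat_lit 0) (XT.nd (nat_lit 78) (nat_lit 152) (nat_lit 0) (XT.lf (nat_lit 76) (nat_lit 499257228) (nat_lit 0) (nat_lit 500119238) (nat_lit 76) (nat_lit 500119238) (nat_lit 41) (nat_lit 3) (nat_lit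 40) (nat_lit 1) (nat_lit 41) (nat_lit 1) (nat_lit 443) (nat_lit 396) (nat_lit 181)) (XT.nd (nat_lit 78) (nat_lit 0) (nat_lit 0) (XT.lf (nat_lit 152) (nat_lit 1475163461) (nat_lit 0) (nat_lit 264826) (nat_lit 76) (nat_lit 264826) (nat_lit 40) (nat_lit 1) (nat_lit 38) (nat_lit 1) (nat_lit 39) (nat_lit 1) (nat_lit 444) (nat_lit 396) (nat_lit 180)) (XT.lf (nat_lit 0) (nat_lit 483585530) (nat_lit 0) (nat_lit 484330166) (nat_lit 152) (nat_lit 483585530) (nat_lit 38) (nat_lit 3) (nat_lit 38) (nat_lit 1) (nat_lit 40) (nat_lit 1) (nat_lit 445) (nat_lit 396) (nat_lit 179)))) (XT.nd (nat_lit 36036) (nat_lit 0) (nat_lit 19380) (XT.nd (nat_lit 35958) (nat_lit 0) (nat_lit 19380) (XT.lf (nat_lit 76) (nat_lit 475556996) (nat_lit 0) (nat_lit 476266174) (nat_lit 76) (nat_lit 476266174) (nat_lit 38) (nat_lit 3) (nat_lit 37) (nat_lit 1) (nat_lit 38) (nat_lit 1) (nat_lit 446) (nat_lit 396) (nat_lit 178)) (XT.lf (nat_lit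 836) (nat_lit 8670411824) (nat_lit 0) (nat_lit 15394296264) (nat_lit 836) (nat_lit 8670411824) (nat_lit 303) (nat_lit 1) (nat_lit 292) (nat_lit 0) (nat_lit 303) (nat_lit 0) (nat_lit 226) (nat_lit 397) (nat_lit 397))) (XT.nd (nat_lit 78) (nat_lit 0) (nat_lit 76) (XT.lf (nat_lit 836) (nat_lit 33607598690) (nat_lit 76) (nat_lit 15146001163) (nat_lit 0) (nat_lit 15146001163) (nat_lit 303) (nat_lit 1) (nat_lit 293) (nat_lit 1) (nat_lit 292) (nat_lit 0) (nat_lit 227) (nat_lit 397) (nat_lit 396)) (XT.lf (nat_lit 836) (nat_lit 16016875506) (nat_lit 0) (nat_lit 30343768078) (nat_lit 760) (nat_lit 16016875506) (nat_lit 304) (nat_lit 1) (nat_lit 293) (nat_lit 1) (nat_lit 303) (nat_lit 1) (nat_lit 228) (nat_lit 397) (nat_lit 395))))))))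
noncomputable def ec242 : XT := (XT.nd (nat_lit 1950) (nat_lit 3116) (nat_lit 0) (XT.nd (nat_lit 936) (nat_lit 2280) (nat_lit 0) (XT.nd (nat_lit 468) (nat_lit 1368) (nat_lit 0) (XT.nd (nat_lit 234) (nat_lit 0) (nat_lit 152) (XT.nd (nat_lit 78) (nat_lit 0) (nat_lit 76) (XT.lf (nat_lit 836) (nat_lit 30045432849) (nat_lit 76) (nat_lit 15429589451) (nat_lit 0) (nat_lit 15429589451) (nat_lit 304) (nat_lit 1) (nat_lit 294) (nat_lit 1) (nat_lit 293) (nat_lit 1) (nat_lit 229) (nat_lit 397) (nat_lit 394)) (XT.nd (nat_lit 78) (nat_lit 0) (nat_lit 0) (XT.lf (nat_lit 836) (nat_lit 13829624211) (nat_lit 0) (nat_lit 31819139763) (nat_lit 760) (nat_lit 13829624211) (nat_lit 305) (nat_lit 1) (nat_lit 294) (nat_lit 1) (nat_lit 304) (nat_lit 1) (nat_lit 230) (nat_lit 397) (nat_lit 393)) (XT.lf (nat_lit 836) (nat_lit 24873479895) (nat_lit 76) (nat_lit 16611080735) (nat_lit 0) (nat_lit 16611080735) (nat_lit 305) (nat_lit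 1) (nat_lit 295) (nat_lit 1) (nat_lit 294) (nat_lit 1) (nat_lit 231) (nat_lit 397) (nat_lit 392)))) (XT.nd (nat_lit 78) (nat_lit 0) (nat_lit 0) (XT.lf (nat_lit 836) (nat_lit 10906302523) (nat_lit 0) (nat_lit 34946717349) (nat_lit 760) (nat_lit 10906302523) (nat_lit 306) (nat_lit 1) (nat_lit 295) (nat_lit 1) (nat_lit 305) (nat_lit 1) (nat_lit 232) (nat_lit 397) (nat_lit 391)) (XT.nd (nat_lit 78) (nat_lit 0) (nat_lit 76) (XT.lf (nat_lit 836) (nat_lit 18333829410) (nat_lit 76) (nat_lit 18562983726) (nat_lit 0) (nat_lit 18562983726) (nat_lit 306) (nat_lit 1) (nat_lit 296) (nat_lit 1) (nat_lit 295) (nat_lit 1) (nat_lit 233) (nat_lit 397) (nat_lit 390)) (XT.lf (nat_lit 836) (nat_lit 7360077588) (nat_lit 0) (nat_lit 39487686201) (nat_lit 760) (nat_lit 7360077588) (nat_lit 307) (nat_lit 1) (nat_lit 296) (nat_lit 1) (nat_lit 306) (nat_lit 1) (nat_lit 234) (nat_lit 397) (nat_lit 389))))) (XT.nd (nat_lit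 234) (nat_lit 912) (nat_lit 0) (XT.nd (nat_lit 78) (nat_lit 684) (nat_lit 0) (XT.lf (nat_lit 836) (nat_lit 10641662505) (nat_lit 76) (nat_lit 21171755916) (nat_lit 0) (nat_lit 21171755916) (nat_lit 307) (nat_lit 1) (nat_lit 297) (nat_lit 1) (nat_lit 296) (nat_lit 1) (nat_lit 235) (nat_lit 397) (nat_lit 388)) (XT.nd (nat_lit 78) (nat_lit 760) (nat_lit 0) (XT.lf (nat_lit 76) (nat_lit 3291465142) (nat_lit 0) (nat_lit 45229491941) (nat_lit 760) (nat_lit 3291465142) (nat_lit 298) (nat_lit 1) (nat_lit 297) (nat_lit 1) (nat_lit 307) (nat_lit 1) (nat_lit 236) (nat_lit 397) (nat_lit 387)) (XT.lf (nat_lit 836) (nat_lit 1987963094) (nat_lit 0) (nat_lit 24336406943) (nat_lit 760) (nat_lit 24336406943) (nat_lit 298) (nat_lit 1) (nat_lit 287) (nat_lit 1) (nat_lit 297) (nat_lit 1) (nat_lit 237) (nat_lit 397) (nat_lit 386)))) (XT.nd (nat_lit 78) (nat_lit 380) (nat_lit 0) (XT.lf (nat_lit 532) (nat_lit 47176867811)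 (nat_lit 0) (nat_lit 1190870381) (nat_lit 456) (nat_lit 1190870381) (nat_lit 287) (nat_lit 1) (nat_lit 280) (nat_lit 1) (nat_lit 286) (nat_lit 1) (nat_lit 238) (nat_lit 397) (nat_lit 385)) (XT.nd (nat_lit 78) (nat_lit 380) (nat_lit 0) (XT.lf (nat_lit 76) (nat_lit 20625644498) (nat_lit 0) (nat_lit 7219329239) (nat_lit 532) (nat_lit 20625644498) (nat_lit 281) (nat_lit 1) (nat_lit 280) (nat_lit 1) (nat_lit 287) (nat_lit 1) (nat_lit 239) (nat_lit 397) (nat_lit 384)) (XT.lf (nat_lit 456) (nat_lit 35491439808) (nat_lit 0) (nat_lit 5968726176) (nat_lit 380) (nat_lit 5968726176) (nat_lit 281) (nat_lit 1) (nat_lit 275) (nat_lit 1) (nat_lit 280) (nat_lit 1) (nat_lit 240) (nat_lit 397) (nat_lit 383)))))) (XT.nd (nat_lit 468) (nat_lit 1216) (nat_lit 0) (XT.nd (nat_lit 234) (nat_lit 684) (nat_lit 0) (XT.nd (nat_lit 78) (nat_lit 380) (nat_lit 0) (XT.lf (nat_lit 76) (nat_lit 14712021135) (nat_lit 0) (nat_lit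 16985023778) (nat_lit 456) (nat_lit 14712021135) (nat_lit 276) (nat_lit 1) (nat_lit 275) (nat_lit 1) (nat_lit 281) (nat_lit 1) (nat_lit 241) (nat_lit 397) (nat_lit 382)) (XT.nd (nat_lit 78) (nat_lit 0) (nat_lit 0) (XT.lf (nat_lit 456) (nat_lit 23371616429) (nat_lit 0) (nat_lit 11026570661) (nat_lit 380) (nat_lit 11026570661) (nat_lit 276) (nat_lit 1) (nat_lit 270) (nat_lit 1) (nat_lit 275) (nat_lit 1) (nat_lit 242) (nat_lit 397) (nat_lit 381)) (XT.lf (nat_lit 76) (nat_lit 8612130044) (nat_lit 0) (nat_lit 27244816367) (nat_lit 456) (nat_lit 8612130044) (nat_lit 271) (nat_lit 1) (nat_lit 270) (nat_lit 1) (nat_lit 276) (nat_lit 1) (nat_lit 243) (nat_lit 397) (nat_lit 380)))) (XT.nd (nat_lit 78) (nat_lit 380) (nat_lit 0) (XT.lf (nat_lit 380) (nat_lit 10930202480) (nat_lit 0) (nat_lit 16303887977) (nat_lit 304) (nat_lit 16303887977) (nat_lit 271) (nat_lit 1) (nat_lit 266) (nat_lit 1) (nat_lit 270) (nat_lit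 1) (nat_lit 244) (nat_lit 397) (nat_lit 379)) (XT.nd (nat_lit 78) (nat_lit 380) (nat_lit 0) (XT.lf (nat_lit 76) (nat_lit 2378339126) (nat_lit 0) (nat_lit 37886007607) (nat_lit 380) (nat_lit 2378339126) (nat_lit 267) (nat_lit 1) (nat_lit 266) (nat_lit 1) (nat_lit 271) (nat_lit 1) (nat_lit 245) (nat_lit 397) (nat_lit 378)) (XT.lf (nat_lit 76) (nat_lit 20040568899) (nat_lit 0) (nat_lit 1678436574) (nat_lit 380) (nat_lit 20040568899) (nat_lit 262) (nat_lit 1) (nat_lit 261) (nat_lit 1) (nat_lit 266) (nat_lit 1) (nat_lit 246) (nat_lit 397) (nat_lit 377))))) (XT.nd (nat_lit 234) (nat_lit 608) (nat_lit 0) (XT.nd (nat_lit 78) (nat_lit 304) (nat_lit 0) (XT.lf (nat_lit 380) (nat_lit 33150261389) (nat_lit 0) (nat_lit 3879916272) (nat_lit 304) (nat_lit 3879916272) (nat_lit 262) (nat_lit 1) (nat_lit 257) (nat_lit 1) (nat_lit 261) (nat_lit 1) (nat_lit 247) (nat_lit 397) (nat_lit 376)) (XT.nd (nat_lit 78) (nat_lit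 304) (nat_lit 0) (XT.lf (nat_lit 76) (nat_lit 13002989903) (nat_lit 0) (nat_lit 14069206714) (nat_lit 380) (nat_lit 13002989903) (nat_lit 258) (nat_lit 1) (nat_lit 257) (nat_lit 1) (nat_lit 262) (nat_lit 1) (nat_lit 248) (nat_lit 397) (nat_lit 375)) (XT.lf (nat_lit 380) (nat_lit 18974979420) (nat_lit 0) (nat_lit 10147125670) (nat_lit 304) (nat_lit 10147125670) (nat_lit 258) (nat_lit 1) (nat_lit 253) (nat_lit 1) (nat_lit 257) (nat_lit 1) (nat_lit 249) (nat_lit 397) (nat_lit 374)))) (XT.nd (nat_lit 156) (nat_lit 380) (nat_lit 0) (XT.nd (nat_lit 78) (nat_lit 228) (nat_lit 0) (XT.lf (nat_lit 76) (nat_lit 5983861669) (nat_lit 0) (nat_lit 26519117878) (nat_lit 380) (nat_lit 5983861669) (nat_lit 254) (nat_lit 1) (nat_lit 253) (nat_lit 1) (nat_lit 258) (nat_lit 1) (nat_lit 250) (nat_lit 397) (nat_lit 373)) (XT.lf (nat_lit 304) (nat_lit 4866418411) (nat_lit 0) (nat_lit 16427460960) (nat_lit 228) (nat_lit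 16427460960) (nat_lit 254) (nat_lit 1) (nat_lit 250) (nat_lit 1) (nat_lit 253) (nat_lit 1) (nat_lit 251) (nat_lit 397) (nat_lit 372))) (XT.nd (nat_lit 78) (nat_lit 0) (nat_lit 0) (XT.lf (nat_lit 380) (nat_lit 35040753586) (nat_lit 0) (nat_lit 972313676) (nat_lit 304) (nat_lit 972313676) (nat_lit 250) (nat_lit 1) (nat_lit 245) (nat_lit 1) (nat_lit 249) (nat_lit 1) (nat_lit 252) (nat_lit 397) (nat_lit 371)) (XT.lf (nat_lit 76) (nat_lit 13711705930) (nat_lit 0) (nat_lit 8830083130) (nat_lit 380) (nat_lit 13711705930) (nat_lit 246) (nat_lit 1) (nat_lit 245) (nat_lit 1) (nat_lit 250) (nat_lit 1) (nat_lit 253) (nat_lit 397) (nat_lit 370))))))) (XT.nd (nat_lit 936) (nat_lit 1520) (nat_lit 0) (XT.nd (nat_lit 468) (nat_lit 608) (nat_lit 0) (XT.nd (nat_lit 234) (nat_lit 532) (nat_lit 0) (XT.nd (nat_lit 78) (nat_lit 228) (nat_lit 0) (XT.lf (nat_lit 304) (nat_lit 20026379997) (nat_lit 0) (nat_lit 7761649409)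 (nat_lit 228) (nat_lit 7761649409) (nat_lit 246) (nat_lit 1) (nat_lit 242) (nat_lit 1) (nat_lit 245) (nat_lit 1) (nat_lit 254) (nat_lit 397) (nat_lit 369)) (XT.nd (nat_lit 78) (nat_lit 228) (nat_lit 0) (XT.lf (nat_lit 76) (nat_lit 6326643217) (nat_lit 0) (nat_lit 22210457867) (nat_lit 304) (nat_lit 6326643217) (nat_lit 243) (nat_lit 1) (nat_lit 242) (nat_lit 1) (nat_lit 246) (nat_lit 1) (nat_lit 255) (nat_lit 397) (nat_lit 368)) (XT.lf (nat_lit 304) (nat_lit 5273059375) (nat_lit 0) (nat_lit 14460177619) (nat_lit 228) (nat_lit 14460177619) (nat_lit 243) (nat_lit 1) (nat_lit 239) (nat_lit 1) (nat_lit 242) (nat_lit 1) (nat_lit 256) (nat_lit 397) (nat_lit 367)))) (XT.nd (nat_lit 78) (nat_lit 228) (nat_lit 0) (XT.lf (nat_lit 304) (nat_lit 31735529076) (nat_lit 0) (nat_lit 906229723) (nat_lit 228) (nat_lit 906229723) (nat_lit 239) (nat_lit 1) (nat_lit 235) (nat_lit 1) (nat_lit 238) (nat_lit 1) (nat_lit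 257) (nat_lit 397) (nat_lit 366)) (XT.nd (nat_lit 78) (nat_lit 228) (nat_lit 0) (XT.lf (nat_lit 76) (nat_lit 12004641801) (nat_lit 0) (nat_lit 8895319034) (nat_lit 304) (nat_lit 12004641801) (nat_lit 236) (nat_lit 1) (nat_lit 235) (nat_lit 1) (nat_lit 239) (nat_lit 1) (nat_lit 258) (nat_lit 397) (nat_lit 365)) (XT.lf (nat_lit 304) (nat_lit 16507481692) (nat_lit 0) (nat_lit 7888770219) (nat_lit 228) (nat_lit 7888770219) (nat_lit 236) (nat_lit 1) (nat_lit 232) (nat_lit 1) (nat_lit 235) (nat_lit 1) (nat_lit 259) (nat_lit 397) (nat_lit 364))))) (XT.nd (nat_lit 234) (nat_lit 152) (nat_lit 0) (XT.nd (nat_lit 78) (nat_lit 456) (nat_lit 0) (XT.lf (nat_lit 76) (nat_lit 4546146995) (nat_lit 0) (nat_lit 22589765066) (nat_lit 304) (nat_lit 4546146995) (nat_lit 233) (nat_lit 1) (nat_lit 232) (nat_lit 1) (nat_lit 236) (nat_lit 1) (nat_lit 260) (nat_lit 397) (nat_lit 363)) (XT.nd (nat_lit 78) (nat_lit 304) (nat_lit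 0) (XT.lf (nat_lit 228) (nat_lit 1665859415) (nat_lit 0) (nat_lit 14712299522) (nat_lit 152) (nat_lit 14712299522) (nat_lit 233) (nat_lit 1) (nat_lit 230) (nat_lit 1) (nat_lit 232) (nat_lit 1) (nat_lit 261) (nat_lit 397) (nat_lit 362)) (XT.lf (nat_lit 304) (nat_lit 25170577178) (nat_lit 0) (nat_lit 2673297741) (nat_lit 228) (nat_lit 2673297741) (nat_lit 230) (nat_lit 1) (nat_lit 226) (nat_lit 1) (nat_lit 229) (nat_lit 1) (nat_lit 262) (nat_lit 397) (nat_lit 361)))) (XT.nd (nat_lit 78) (nat_lit 152) (nat_lit 0) (XT.lf (nat_lit 76) (nat_lit 8791485131) (nat_lit 0) (nat_lit 12367328249) (nat_lit 304) (nat_lit 8791485131) (nat_lit 227) (nat_lit 1) (nat_lit 226) (nat_lit 1) (nat_lit 230) (nat_lit 1) (nat_lit 263) (nat_lit 397) (nat_lit 360)) (XT.nd (nat_lit 78) (nat_lit 0) (nat_lit 0) (XT.lf (nat_lit 228) (nat_lit 10157204924) (nat_lit 0) (nat_lit 9621857364) (nat_lit 152) (nat_lit 9621857364) (nat_lit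 227) (nat_lit 1) (nat_lit 224) (nat_lit 1) (nat_lit 226) (nat_lit 1) (nat_lit 264) (nat_lit 397) (nat_lit 359)) (XT.lf (nat_lit 76) (nat_lit 1459267951) (nat_lit 0) (nat_lit 25951236668) (nat_lit 228) (nat_lit 1459267951) (nat_lit 225) (nat_lit 1) (nat_lit 224) (nat_lit 1) (nat_lit 227) (nat_lit 1) (nat_lit 265) (nat_lit 397) (nat_lit 358)))))) (XT.nd (nat_lit 468) (nat_lit 760) (nat_lit 0) (XT.nd (nat_lit 234) (nat_lit 380) (nat_lit 0) (XT.nd (nat_lit 78) (nat_lit 152) (nat_lit 0) (XT.lf (nat_lit 76) (nat_lit 12043594429) (nat_lit 0) (nat_lit 4253367390) (nat_lit 228) (nat_lit 12043594429) (nat_lit 222) (nat_lit 1) (nat_lit 221) (nat_lit 1) (nat_lit 224) (nat_lit 1) (nat_lit 266) (nat_lit 397) (nat_lit 357)) (XT.nd (nat_lit 78) (nat_lit 0) (nat_lit 0) (XT.lf (nat_lit 228) (nat_lit 16724641686) (nat_lit 0) (nat_lit 5552127902) (nat_lit 152) (nat_lit 5552127902) (nat_lit 222) (nat_lit 1) (nat_lit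 219) (nat_lit 1) (nat_lit 221) (nat_lit 1) (nat_lit 267) (nat_lit 397) (nat_lit 356)) (XT.lf (nat_lit 76) (nat_lit 4719258772) (nat_lit 0) (nat_lit 17890029964) (nat_lit 228) (nat_lit 4719258772) (nat_lit 220) (nat_lit 1) (nat_lit 219) (nat_lit 1) (nat_lit 222) (nat_lit 1) (nat_lit 268) (nat_lit 397) (nat_lit 355)))) (XT.nd (nat_lit 78) (nat_lit 228) (nat_lit 0) (XT.lf (nat_lit 228) (nat_lit 2210802825) (nat_lit 0) (nat_lit 12313740234) (nat_lit 152) (nat_lit 12313740234) (nat_lit 220) (nat_lit 1) (nat_lit 217) (nat_lit 1) (nat_lit 219) (nat_lit 1) (nat_lit 269) (nat_lit 397) (nat_lit 354)) (XT.nd (nat_lit 78) (nat_lit 0) (nat_lit 0) (XT.lf (nat_lit 228) (nat_lit 21729198446) (nat_lit 0) (nat_lit 2316513209) (nat_lit 152) (nat_lit 2316513209) (nat_lit 217) (nat_lit 1) (nat_lit 214) (nat_lit 1) (nat_lit 216) (nat_lit 1) (nat_lit 270) (nat_lit 397) (nat_lit 353)) (XT.lf (nat_lit 76) (nat_lit 7233703411)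 (nat_lit 0) (nat_lit 11422822718) (nat_lit 228) (nat_lit 7233703411) (nat_lit 215) (nat_lit 1) (nat_lit 214) (nat_lit 1) (nat_lit 217) (nat_lit 1) (nat_lit 271) (nat_lit 397) (nat_lit 352))))) (XT.nd (nat_lit 234) (nat_lit 456) (nat_lit 0) (XT.nd (nat_lit 78) (nat_lit 152) (nat_lit 0) (XT.lf (nat_lit 228) (nat_lit 7367175724) (nat_lit 0) (nat_lit 9032380586) (nat_lit 152) (nat_lit 9032380586) (nat_lit 215) (nat_lit 1) (nat_lit 212) (nat_lit 1) (nat_lit 214) (nat_lit 1) (nat_lit 272) (nat_lit 397) (nat_lit 351)) (XT.nd (nat_lit 78) (nat_lit 152) (nat_lit 0) (XT.lf (nat_lit 76) (nat_lit 242138747) (nat_lit 0) (nat_lit 24505439102) (nat_lit 228) (nat_lit 242138747) (nat_lit 213) (nat_lit 1) (nat_lit 212) (nat_lit 1) (nat_lit 215) (nat_lit 1) (nat_lit 273) (nat_lit 397) (nat_lit 350)) (XT.lf (nat_lit 76) (nat_lit 9142764307) (nat_lit 0) (nat_lit 6259156704) (nat_lit 152) (nat_lit 9142764307) (nat_lit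 211) (nat_lit 1) (nat_lit 210) (nat_lit 1) (nat_lit 212) (nat_lit 1) (nat_lit 274) (nat_lit 397) (nat_lit 349)))) (XT.nd (nat_lit 156) (nat_lit 304) (nat_lit 0) (XT.nd (nat_lit 78) (nat_lit 0) (nat_lit 0) (XT.lf (nat_lit 228) (nat_lit 11345129670) (nat_lit 0) (nat_lit 6385091405) (nat_lit 152) (nat_lit 6385091405) (nat_lit 211) (nat_lit 1) (nat_lit 208) (nat_lit 1) (nat_lit 210) (nat_lit 1) (nat_lit 275) (nat_lit 397) (nat_lit 348)) (XT.lf (nat_lit 76) (nat_lit 2274620089) (nat_lit 0) (nat_lit 19148289325) (nat_lit 228) (nat_lit 2274620089) (nat_lit 209) (nat_lit 1) (nat_lit 208) (nat_lit 1) (nat_lit 211) (nat_lit 1) (nat_lit 276) (nat_lit 397) (nat_lit 347))) (XT.nd (nat_lit 78) (nat_lit 152) (nat_lit 0) (XT.lf (nat_lit 76) (nat_lit 10561373498) (nat_lit 0) (nat_lit 2160444838) (nat_lit 152) (nat_lit 10561373498) (nat_lit 207) (nat_lit 1) (nat_lit 206) (nat_lit 1) (nat_lit 208) (nat_lit 1) (nat_lit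 277) (nat_lit 397) (nat_lit 346)) (XT.lf (nat_lit 228) (nat_lit 14366176703) (nat_lit 0) (nat_lit 4256963400) (nat_lit 152) (nat_lit 4256963400) (nat_lit 207) (nat_lit 1) (nat_lit 204) (nat_lit 1) (nat_lit 206) (nat_lit 1) (nat_lit 278) (nat_lit 397) (nat_lit 345))))))))
noncomputable def ec243 : XT := (XT.nd (nat_lit 1950) (nat_lit 1976) (nat_lit 0) (XT.nd (nat_lit 936) (nat_lit 988) (nat_lit 0) (XT.nd (nat_lit 468) (nat_lit 380) (nat_lit 0) (XT.nd (nat_lit 234) (nat_lit 304) (nat_lit 0) (XT.nd (nat_lit 78) (nat_lit 304) (nat_lit 0) (XT.lf (nat_lit 76) (nat_lit 3847918379) (nat_lit 0) (nat_lit 14789158283) (nat_lit 228) (nat_lit 3847918379) (nat_lit 205) (nat_lit 1) (nat_lit 204) (nat_lit 1) (nat_lit 207) (nat_lit 1) (nat_lit 279) (nat_lit 397) (nat_lit 344)) (XT.nd (nat_lit 78) (nat_lit 228) (nat_lit 0) (XT.lf (nat_lit 152) (nat_lit 1104597239) (nat_lit 0) (nat_lit 10496372614) (nat_lit 76) (nat_lit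 10496372614) (nat_lit 205) (nat_lit 1) (nat_lit 203) (nat_lit 1) (nat_lit 204) (nat_lit 1) (nat_lit 280) (nat_lit 397) (nat_lit 343)) (XT.lf (nat_lit 228) (nat_lit 16611956220) (nat_lit 0) (nat_lit 2553578990) (nat_lit 152) (nat_lit 2553578990) (nat_lit 203) (nat_lit 1) (nat_lit 200) (nat_lit 1) (nat_lit 202) (nat_lit 1) (nat_lit 281) (nat_lit 397) (nat_lit 342)))) (XT.nd (nat_lit 78) (nat_lit 304) (nat_lit 0) (XT.lf (nat_lit 76) (nat_lit 5048151785) (nat_lit 0) (nat_lit 11248804040) (nat_lit 228) (nat_lit 5048151785) (nat_lit 201) (nat_lit 1) (nat_lit 200) (nat_lit 1) (nat_lit 203) (nat_lit 1) (nat_lit 282) (nat_lit 397) (nat_lit 341)) (XT.nd (nat_lit 78) (nat_lit 228) (nat_lit 0) (XT.lf (nat_lit 152) (nat_lit 3709487774) (nat_lit 0) (nat_lit 8635391726) (nat_lit 76) (nat_lit 8635391726) (nat_lit 201) (nat_lit 1) (nat_lit 199) (nat_lit 1) (nat_lit 200) (nat_lit 1) (nat_lit 283) (nat_lit 397) (nat_lit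 340)) (XT.lf (nat_lit 228) (nat_lit 18231332819) (nat_lit 0) (nat_lit 1197373532) (nat_lit 152) (nat_lit 1197373532) (nat_lit 199) (nat_lit 1) (nat_lit 196) (nat_lit 1) (nat_lit 198) (nat_lit 1) (nat_lit 284) (nat_lit 397) (nat_lit 339))))) (XT.nd (nat_lit 234) (nat_lit 76) (nat_lit 0) (XT.nd (nat_lit 78) (nat_lit 304) (nat_lit 0) (XT.lf (nat_lit 76) (nat_lit 5945945835) (nat_lit 0) (nat_lit 8379873133) (nat_lit 228) (nat_lit 5945945835) (nat_lit 197) (nat_lit 1) (nat_lit 196) (nat_lit 1) (nat_lit 199) (nat_lit 1) (nat_lit 285) (nat_lit 397) (nat_lit 338)) (XT.nd (nat_lit 78) (nat_lit 228) (nat_lit 0) (XT.lf (nat_lit 152) (nat_lit 5719169430) (nat_lit 0) (nat_lit 7104358144) (nat_lit 76) (nat_lit 7104358144) (nat_lit 197) (nat_lit 1) (nat_lit 195) (nat_lit 1) (nat_lit 196) (nat_lit 1) (nat_lit 286) (nat_lit 397) (nat_lit 337)) (XT.lf (nat_lit 228) (nat_lit 19346234368) (nat_lit 0) (nat_lit 124641955)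 (nat_lit 152) (nat_lit 124641955) (nat_lit 195) (nat_lit 1) (nat_lit 192) (nat_lit 1) (nat_lit 194) (nat_lit 1) (nat_lit 287) (nat_lit 397) (nat_lit 336)))) (XT.nd (nat_lit 78) (nat_lit 76) (nat_lit 0) (XT.lf (nat_lit 76) (nat_lit 6599190895) (nat_lit 0) (nat_lit 6061241613) (nat_lit 228) (nat_lit 6599190895) (nat_lit 193) (nat_lit 1) (nat_lit 192) (nat_lit 1) (nat_lit 195) (nat_lit 1) (nat_lit 288) (nat_lit 397) (nat_lit 335)) (XT.nd (nat_lit 78) (nat_lit 0) (nat_lit 0) (XT.lf (nat_lit 152) (nat_lit 7245522137) (nat_lit 0) (nat_lit 5844773026) (nat_lit 76) (nat_lit 5844773026) (nat_lit 193) (nat_lit 1) (nat_lit 191) (nat_lit 1) (nat_lit 192) (nat_lit 1) (nat_lit 289) (nat_lit 397) (nat_lit 334)) (XT.lf (nat_lit 0) (nat_lit 728676469) (nat_lit 0) (nat_lit 17162958903) (nat_lit 152) (nat_lit 728676469) (nat_lit 191) (nat_lit 3) (nat_lit 191) (nat_lit 1) (nat_lit 193) (nat_lit 1) (nat_lit 290) (nat_lit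 397) (nat_lit 333)))))) (XT.nd (nat_lit 468) (nat_lit 532) (nat_lit 0) (XT.nd (nat_lit 234) (nat_lit 228) (nat_lit 0) (XT.nd (nat_lit 78) (nat_lit 76) (nat_lit 0) (XT.lf (nat_lit 76) (nat_lit 7055310244) (nat_lit 0) (nat_lit 4193359664) (nat_lit 152) (nat_lit 7055310244) (nat_lit 190) (nat_lit 1) (nat_lit 189) (nat_lit 1) (nat_lit 191) (nat_lit 1) (nat_lit 291) (nat_lit 397) (nat_lit 332)) (XT.nd (nat_lit 78) (nat_lit 0) (nat_lit 0) (XT.lf (nat_lit 152) (nat_lit 8380287368) (nat_lit 0) (nat_lit 4808509233) (nat_lit 76) (nat_lit 4808509233) (nat_lit 190) (nat_lit 1) (nat_lit 188) (nat_lit 1) (nat_lit 189) (nat_lit 1) (nat_lit 292) (nat_lit 397) (nat_lit 331)) (XT.lf (nat_lit 0) (nat_lit 1392722746) (nat_lit 0) (nat_lit 14913247576) (nat_lit 152) (nat_lit 1392722746) (nat_lit 188) (nat_lit 3) (nat_lit 188) (nat_lit 1) (nat_lit 190) (nat_lit 1) (nat_lit 293) (nat_lit 397) (nat_lit 330)))) (XT.nd (nat_lit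 78) (nat_lit 76) (nat_lit 0) (XT.lf (nat_lit 76) (nat_lit 7353125544) (nat_lit 0) (nat_lit 2694421838) (nat_lit 152) (nat_lit 7353125544) (nat_lit 187) (nat_lit 1) (nat_lit 186) (nat_lit 1) (nat_lit 188) (nat_lit 1) (nat_lit 294) (nat_lit 397) (nat_lit 329)) (XT.nd (nat_lit 78) (nat_lit 0) (nat_lit 0) (XT.lf (nat_lit 152) (nat_lit 9198653038) (nat_lit 0) (nat_lit 3955972446) (nat_lit 76) (nat_lit 3955972446) (nat_lit 187) (nat_lit 1) (nat_lit 185) (nat_lit 1) (nat_lit 186) (nat_lit 1) (nat_lit 295) (nat_lit 397) (nat_lit 328)) (XT.lf (nat_lit 0) (nat_lit 1901261984) (nat_lit 0) (nat_lit 13024631222) (nat_lit 152) (nat_lit 1901261984) (nat_lit 185) (nat_lit 3) (nat_lit 185) (nat_lit 1) (nat_lit 187) (nat_lit 1) (nat_lit 296) (nat_lit 397) (nat_lit 327))))) (XT.nd (nat_lit 234) (nat_lit 304) (nat_lit 0) (XT.nd (nat_lit 78) (nat_lit 76) (nat_lit 0) (XT.lf (nat_lit 76) (nat_lit 7524391103) (nat_lit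 0) (nat_lit 1497216529) (nat_lit 152) (nat_lit 7524391103) (nat_lit 184) (nat_lit 1) (nat_lit 183) (nat_lit 1) (nat_lit 185) (nat_lit 1) (nat_lit 297) (nat_lit 397) (nat_lit 326)) (XT.nd (nat_lit 78) (nat_lit 0) (nat_lit 0) (XT.lf (nat_lit 152) (nat_lit 9762202124) (nat_lit 0) (nat_lit 3254588322) (nat_lit 76) (nat_lit 3254588322) (nat_lit 184) (nat_lit 1) (nat_lit 182) (nat_lit 1) (nat_lit 183) (nat_lit 1) (nat_lit 298) (nat_lit 397) (nat_lit 325)) (XT.lf (nat_lit 0) (nat_lit 2283663925) (nat_lit 0) (nat_lit 11434887325) (nat_lit 152) (nat_lit 2283663925) (nat_lit 182) (nat_lit 3) (nat_lit 182) (nat_lit 1) (nat_lit 184) (nat_lit 1) (nat_lit 299) (nat_lit 397) (nat_lit 324)))) (XT.nd (nat_lit 156) (nat_lit 76) (nat_lit 0) (XT.nd (nat_lit 78) (nat_lit 76) (nat_lit 0) (XT.lf (nat_lit 76) (nat_lit 7595055677) (nat_lit 0) (nat_lit 546534234) (nat_lit 152) (nat_lit 7595055677) (nat_lit 181) (nat_lit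 1) (nat_lit 180) (nat_lit 1) (nat_lit 182) (nat_lit 1) (nat_lit 300) (nat_lit 397) (nat_lit 323)) (XT.lf (nat_lit 152) (nat_lit 10121337852) (nat_lit 0) (nat_lit 2677557867) (nat_lit 76) (nat_lit 2677557867) (nat_lit 181) (nat_lit 1) (nat_lit 179) (nat_lit 1) (nat_lit 180) (nat_lit 1) (nat_lit 301) (nat_lit 397) (nat_lit 322))) (XT.nd (nat_lit 78) (nat_lit 76) (nat_lit 0) (XT.lf (nat_lit 0) (nat_lit 2564005472) (nat_lit 0) (nat_lit 10092739611) (nat_lit 152) (nat_lit 2564005472) (nat_lit 179) (nat_lit 3) (nat_lit 179) (nat_lit 1) (nat_lit 181) (nat_lit 1) (nat_lit 302) (nat_lit 397) (nat_lit 321)) (XT.lf (nat_lit 76) (nat_lit 209675388) (nat_lit 0) (nat_lit 7379898377) (nat_lit 76) (nat_lit 7379898377) (nat_lit 179) (nat_lit 3) (nat_lit 178) (nat_lit 1) (nat_lit 179) (nat_lit 1) (nat_lit 303) (nat_lit 397) (nat_lit 320))))))) (XT.nd (nat_lit 1014) (nat_lit 912) (nat_lit 0) (XT.nd (nat_lit 468)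 (nat_lit 608) (nat_lit 0) (XT.nd (nat_lit 234) (nat_lit 228) (nat_lit 0) (XT.nd (nat_lit 78) (nat_lit 76) (nat_lit 0) (XT.lf (nat_lit 152) (nat_lit 10317278275) (nat_lit 0) (nat_lit 2202833483) (nat_lit 76) (nat_lit 2202833483) (nat_lit 178) (nat_lit 1) (nat_lit 176) (nat_lit 1) (nat_lit 177) (nat_lit 1) (nat_lit 304) (nat_lit 397) (nat_lit 319)) (XT.nd (nat_lit 78) (nat_lit 76) (nat_lit 0) (XT.lf (nat_lit 0) (nat_lit 2762013181) (nat_lit 0) (nat_lit 8955921389) (nat_lit 152) (nat_lit 2762013181) (nat_lit 176) (nat_lit 3) (nat_lit 176) (nat_lit 1) (nat_lit 178) (nat_lit 1) (nat_lit 305) (nat_lit 397) (nat_lit 318)) (XT.lf (nat_lit 76) (nat_lit 814574195) (nat_lit 0) (nat_lit 6713534393) (nat_lit 76) (nat_lit 6713534393) (nat_lit 176) (nat_lit 3) (nat_lit 175) (nat_lit 1) (nat_lit 176) (nat_lit 1) (nat_lit 306) (nat_lit 397) (nat_lit 317)))) (XT.nd (nat_lit 78) (nat_lit 76) (nat_lit 0) (XT.lf (nat_lit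 152) (nat_lit 10383696633) (nat_lit 0) (nat_lit 1812276558) (nat_lit 76) (nat_lit 1812276558) (nat_lit 175) (nat_lit 1) (nat_lit 173) (nat_lit 1) (nat_lit 174) (nat_lit 1) (nat_lit 307) (nat_lit 397) (nat_lit 316)) (XT.nd (nat_lit 78) (nat_lit 76) (nat_lit 0) (XT.lf (nat_lit 0) (nat_lit 2893838444) (nat_lit 0) (nat_lit 7989582055) (nat_lit 152) (nat_lit 2893838444) (nat_lit 173) (nat_lit 3) (nat_lit 173) (nat_lit 1) (nat_lit 175) (nat_lit 1) (nat_lit 308) (nat_lit 397) (nat_lit 315)) (XT.lf (nat_lit 76) (nat_lit 1281651000) (nat_lit 0) (nat_lit 6134740154) (nat_lit 76) (nat_lit 6134740154) (nat_lit 173) (nat_lit 3) (nat_lit 172) (nat_lit 1) (nat_lit 173) (nat_lit 1) (nat_lit 309) (nat_lit 397) (nat_lit 314))))) (XT.nd (nat_lit 234) (nat_lit 380) (nat_lit 0) (XT.nd (nat_lit 78) (nat_lit 76) (nat_lit 0) (XT.lf (nat_lit 152) (nat_lit 10348070311) (nat_lit 0) (nat_lit 1490964409) (nat_lit 76) (nat_lit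 1490964409) (nat_lit 172) (nat_lit 1) (nat_lit 170) (nat_lit 1) (nat_lit 171) (nat_lit 1) (nat_lit 310) (nat_lit 397) (nat_lit 313)) (XT.nd (nat_lit 78) (nat_lit 76) (nat_lit 0) (XT.lf (nat_lit 0) (nat_lit 2972695064) (nat_lit 0) (nat_lit 7164975944) (nat_lit 152) (nat_lit 2972695064) (nat_lit 170) (nat_lit 3) (nat_lit 170) (nat_lit 1) (nat_lit 172) (nat_lit 1) (nat_lit 311) (nat_lit 397) (nat_lit 312)) (XT.lf (nat_lit 76) (nat_lit 1636797254) (nat_lit 0) (nat_lit 5629445711) (nat_lit 76) (nat_lit 5629445711) (nat_lit 170) (nat_lit 3) (nat_lit 169) (nat_lit 1) (nat_lit 170) (nat_lit 1) (nat_lit 312) (nat_lit 397) (nat_lit 311)))) (XT.nd (nat_lit 156) (nat_lit 228) (nat_lit 0) (XT.nd (nat_lit 78) (nat_lit 0) (nat_lit 0) (XT.lf (nat_lit 152) (nat_lit 10232790096) (nat_lit 0) (nat_lit 1226620109) (nat_lit 76) (nat_lit 1226620109) (nat_lit 169) (nat_lit 1) (nat_lit 167) (nat_lit 1) (nat_lit 168) (nat_lit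 1) (nat_lit 313) (nat_lit 397) (nat_lit 310)) (XT.lf (nat_lit 0) (nat_lit 3009383599) (nat_lit 0) (nat_lit 6458383454) (nat_lit 152) (nat_lit 3009383599) (nat_lit 167) (nat_lit 3) (nat_lit 167) (nat_lit 1) (nat_lit 169) (nat_lit 1) (nat_lit 314) (nat_lit 397) (nat_lit 309))) (XT.nd (nat_lit 78) (nat_lit 152) (nat_lit 0) (XT.lf (nat_lit 76) (nat_lit 1901244584) (nat_lit 0) (nat_lit 5186006351) (nat_lit 76) (nat_lit 5186006351) (nat_lit 167) (nat_lit 3) (nat_lit 166) (nat_lit 1) (nat_lit 167) (nat_lit 1) (nat_lit 315) (nat_lit 397) (nat_lit 308)) (XT.lf (nat_lit 152) (nat_lit 10056072251) (nat_lit 0) (nat_lit 1009143399) (nat_lit 76) (nat_lit 1009143399) (nat_lit 166) (nat_lit 1) (nat_lit 164) (nat_lit 1) (nat_lit 165) (nat_lit 1) (nat_lit 316) (nat_lit 397) (nat_lit 307)))))) (XT.nd (nat_lit 468) (nat_lit 456) (nat_lit 0) (XT.nd (nat_lit 234) (nat_lit 228) (nat_lit 0) (XT.nd (nat_lit 78) (nat_lit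 228) (nat_lit 0) (XT.lf (nat_lit 0) (nat_lit 3012722586) (nat_lit 0) (nat_lit 5850223302) (nat_lit 152) (nat_lit 3012722586) (nat_lit 164) (nat_lit 3) (nat_lit 164) (nat_lit 1) (nat_lit 166) (nat_lit 1) (nat_lit 317) (nat_lit 397) (nat_lit 306)) (XT.nd (nat_lit 78) (nat_lit 152) (nat_lit 0) (XT.lf (nat_lit 76) (nat_lit 2092394275) (nat_lit 0) (nat_lit 4794775909) (nat_lit 76) (nat_lit 4794775909) (nat_lit 164) (nat_lit 3) (nat_lit 163) (nat_lit 1) (nat_lit 164) (nat_lit 1) (nat_lit 318) (nat_lit 397) (nat_lit 305)) (XT.lf (nat_lit 152) (nat_lit 9832708400) (nat_lit 0) (nat_lit 830224772) (nat_lit 76) (nat_lit 830224772) (nat_lit 163) (nat_lit 1) (nat_lit 161) (nat_lit 1) (nat_lit 162) (nat_lit 1) (nat_lit 319) (nat_lit 397) (nat_lit 304)))) (XT.nd (nat_lit 78) (nat_lit 228) (nat_lit 0) (XT.lf (nat_lit 0) (nat_lit 2989903138) (nat_lit 0) (nat_lit 5324321999) (nat_lit 152) (nat_lit 2989903138) (nat_lit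 161) (nat_lit 3) (nat_lit 161) (nat_lit 1) (nat_lit 163) (nat_lit 1) (nat_lit 320) (nat_lit 397) (nat_lit 303)) (XT.nd (nat_lit 78) (nat_lit 152) (nat_lit 0) (XT.lf (nat_lit 76) (nat_lit 2224499520) (nat_lit 0) (nat_lit 4447755578) (nat_lit 76) (nat_lit 4447755578) (nat_lit 161) (nat_lit 3) (nat_lit 160) (nat_lit 1) (nat_lit 161) (nat_lit 1) (nat_lit 321) (nat_lit 397) (nat_lit 302)) (XT.lf (nat_lit 152) (nat_lit 9574681984) (nat_lit 0) (nat_lit 683027974) (nat_lit 76) (nat_lit 683027974) (nat_lit 160) (nat_lit 1) (nat_lit 158) (nat_lit 1) (nat_lit 159) (nat_lit 1) (nat_lit 322) (nat_lit 397) (nat_lit 301))))) (XT.nd (nat_lit 234) (nat_lit 228) (nat_lit 0) (XT.nd (nat_lit 78) (nat_lit 228) (nat_lit 0) (XT.lf (nat_lit 0) (nat_lit 2946780530) (nat_lit 0) (nat_lit 4867312705) (nat_lit 152) (nat_lit 2946780530) (nat_lit 158) (nat_lit 3) (nat_lit 158) (nat_lit 1) (nat_lit 160) (nat_lit 1) (nat_lit 323)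 (nat_lit 397) (nat_lit 300)) (XT.nd (nat_lit 78) (nat_lit 152) (nat_lit 0) (XT.lf (nat_lit 76) (nat_lit 2309226566) (nat_lit 0) (nat_lit 4138304828) (nat_lit 76) (nat_lit 4138304828) (nat_lit 158) (nat_lit 3) (nat_lit 157) (nat_lit 1) (nat_lit 158) (nat_lit 1) (nat_lit 324) (nat_lit 397) (nat_lit 299)) (XT.lf (nat_lit 152) (nat_lit 9291674992) (nat_lit 0) (nat_lit 561928805) (nat_lit 76) (nat_lit 561928805) (nat_lit 157) (nat_lit 1) (nat_lit 155) (nat_lit 1) (nat_lit 156) (nat_lit 1) (nat_lit 325) (nat_lit 397) (nat_lit 298)))) (XT.nd (nat_lit 156) (nat_lit 152) (nat_lit 0) (XT.nd (nat_lit 78) (nat_lit 76) (nat_lit 0) (XT.lf (nat_lit 0) (nat_lit 2888113939) (nat_lit 0) (nat_lit 4468140512) (nat_lit 152) (nat_lit 2888113939) (nat_lit 155) (nat_lit 3) (nat_lit 155) (nat_lit 1) (nat_lit 157) (nat_lit 1) (nat_lit 326) (nat_lit 397) (nat_lit 297)) (XT.lf (nat_lit 76) (nat_lit 2356116226) (nat_lit 0)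 (nat_lit 3860903439) (nat_lit 76) (nat_lit 3860903439) (nat_lit 155) (nat_lit 3) (nat_lit 154) (nat_lit 1) (nat_lit 155) (nat_lit 1) (nat_lit 327) (nat_lit 397) (nat_lit 296))) (XT.nd (nat_lit 78) (nat_lit 0) (nat_lit 0) (XT.lf (nat_lit 152) (nat_lit 8991484418) (nat_lit 0) (nat_lit 462300218) (nat_lit 76) (nat_lit 462300218) (nat_lit 154) (nat_lit 1) (nat_lit 152) (nat_lit 1) (nat_lit 153) (nat_lit 1) (nat_lit 328) (nat_lit 397) (nat_lit 295)) (XT.lf (nat_lit 0) (nat_lit 2817763537) (nat_lit 0) (nat_lit 4117655308) (nat_lit 152) (nat_lit 2817763537) (nat_lit 152) (nat_lit 3) (nat_lit 152) (nat_lit 1) (nat_lit 154) (nat_lit 1) (nat_lit 329) (nat_lit 397) (nat_lit 294))))))))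
noncomputable def ec244 : XT := (XT.nd (nat_lit 1950) (nat_lit 1976) (nat_lit 0) (XT.nd (nat_lit 936) (nat_lit 988) (nat_lit 0) (XT.nd (nat_lit 468) (nat_lit 456) (nat_lit 0) (XT.nd (nat_lit 234) (nat_lit 228) (nat_lit 0) (XT.nd (nat_lit 78) (nat_lit 152) (nat_lit 0) (XT.lf (nat_lit 76) (nat_lit 2372963427) (nat_lit 0) (nat_lit 3610955590) (nat_lit 76) (nat_lit 3610955590) (nat_lit 152) (nat_lit 3) (nat_lit 151) (nat_lit 1) (nat_lit 152) (nat_lit 1) (nat_lit 330) (nat_lit 397) (nat_lit 293)) (XT.nd (nat_lit 78) (nat_lit 0) (nat_lit 0) (XT.lf (nat_lit 152) (nat_lit 8680364490) (nat_lit 0) (nat_lit 380335534) (nat_lit 76) (nat_lit 380335534) (nat_lit 151) (nat_lit 1) (nat_lit 149) (nat_lit 1) (nat_lit 150) (nat_lit 1) (nat_lit 331) (nat_lit 397) (nat_lit 292)) (XT.lf (nat_lit 0) (nat_lit 2738852513) (nat_lit 0) (nat_lit 3808276690) (nat_lit 152) (nat_lit 2738852513) (nat_lit 149) (nat_lit 3) (nat_lit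 149) (nat_lit 1) (nat_lit 151) (nat_lit 1) (nat_lit 332) (nat_lit 397) (nat_lit 291)))) (XT.nd (nat_lit 78) (nat_lit 152) (nat_lit 0) (XT.lf (nat_lit 76) (nat_lit 2366129338) (nat_lit 0) (nat_lit 3384628555) (nat_lit 76) (nat_lit 3384628555) (nat_lit 149) (nat_lit 3) (nat_lit 148) (nat_lit 1) (nat_lit 149) (nat_lit 1) (nat_lit 333) (nat_lit 397) (nat_lit 290)) (XT.nd (nat_lit 78) (nat_lit 0) (nat_lit 0) (XT.lf (nat_lit 152) (nat_lit 8363307831) (nat_lit 0) (nat_lit 312902985) (nat_lit 76) (nat_lit 312902985) (nat_lit 148) (nat_lit 1) (nat_lit 146) (nat_lit 1) (nat_lit 147) (nat_lit 1) (nat_lit 334) (nat_lit 397) (nat_lit 289)) (XT.lf (nat_lit 0) (nat_lit 2653900243) (nat_lit 0) (nat_lit 3533718160) (nat_lit 152) (nat_lit 2653900243) (nat_lit 146) (nat_lit 3) (nat_lit 146) (nat_lit 1) (nat_lit 148) (nat_lit 1) (nat_lit 335) (nat_lit 397) (nat_lit 288))))) (XT.nd (nat_lit 234) (nat_lit 228) (nat_lit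 0) (XT.nd (nat_lit 78) (nat_lit 152) (nat_lit 0) (XT.lf (nat_lit 76) (nat_lit 2340798037) (nat_lit 0) (nat_lit 3178719863) (nat_lit 76) (nat_lit 3178719863) (nat_lit 146) (nat_lit 3) (nat_lit 145) (nat_lit 1) (nat_lit 146) (nat_lit 1) (nat_lit 336) (nat_lit 397) (nat_lit 287)) (XT.nd (nat_lit 78) (nat_lit 0) (nat_lit 0) (XT.lf (nat_lit 152) (nat_lit 8044276415) (nat_lit 0) (nat_lit 257426060) (nat_lit 76) (nat_lit 257426060) (nat_lit 145) (nat_lit 1) (nat_lit 143) (nat_lit 1) (nat_lit 144) (nat_lit 1) (nat_lit 337) (nat_lit 397) (nat_lit 286)) (XT.lf (nat_lit 0) (nat_lit 2564931729) (nat_lit 0) (nat_lit 3288760107) (nat_lit 152) (nat_lit 2564931729) (nat_lit 143) (nat_lit 3) (nat_lit 143) (nat_lit 1) (nat_lit 145) (nat_lit 1) (nat_lit 338) (nat_lit 397) (nat_lit 285)))) (XT.nd (nat_lit 78) (nat_lit 152) (nat_lit 0) (XT.lf (nat_lit 76) (nat_lit 2301187553) (nat_lit 0) (nat_lit 2990547913) (nat_lit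 76) (nat_lit 2990547913) (nat_lit 143) (nat_lit 3) (nat_lit 142) (nat_lit 1) (nat_lit 143) (nat_lit 1) (nat_lit 339) (nat_lit 397) (nat_lit 284)) (XT.nd (nat_lit 78) (nat_lit 0) (nat_lit 0) (XT.lf (nat_lit 152) (nat_lit 7726391224) (nat_lit 0) (nat_lit 211785056) (nat_lit 76) (nat_lit 211785056) (nat_lit 142) (nat_lit 1) (nat_lit 140) (nat_lit 1) (nat_lit 141) (nat_lit 1) (nat_lit 340) (nat_lit 397) (nat_lit 283)) (XT.lf (nat_lit 0) (nat_lit 2473567520) (nat_lit 0) (nat_lit 3069062918) (nat_lit 152) (nat_lit 2473567520) (nat_lit 140) (nat_lit 3) (nat_lit 140) (nat_lit 1) (nat_lit 142) (nat_lit 1) (nat_lit 341) (nat_lit 397) (nat_lit 282)))))) (XT.nd (nat_lit 468) (nat_lit 532) (nat_lit 0) (XT.nd (nat_lit 234) (nat_lit 228) (nat_lit 0) (XT.nd (nat_lit 78) (nat_lit 152) (nat_lit 0) (XT.lf (nat_lit 76) (nat_lit 2250723375) (nat_lit 0) (nat_lit 2817861849) (nat_lit 76) (nat_lit 2817861849) (nat_lit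 140) (nat_lit 3) (nat_lit 139) (nat_lit 1) (nat_lit 140) (nat_lit 1) (nat_lit 342) (nat_lit 397) (nat_lit 281)) (XT.nd (nat_lit 78) (nat_lit 0) (nat_lit 0) (XT.lf (nat_lit 152) (nat_lit 7412087952) (nat_lit 0) (nat_lit 174236090) (nat_lit 76) (nat_lit 174236090) (nat_lit 139) (nat_lit 1) (nat_lit 137) (nat_lit 1) (nat_lit 138) (nat_lit 1) (nat_lit 343) (nat_lit 397) (nat_lit 280)) (XT.lf (nat_lit 0) (nat_lit 2381097586) (nat_lit 0) (nat_lit 2871013124) (nat_lit 152) (nat_lit 2381097586) (nat_lit 137) (nat_lit 3) (nat_lit 137) (nat_lit 1) (nat_lit 139) (nat_lit 1) (nat_lit 344) (nat_lit 397) (nat_lit 279)))) (XT.nd (nat_lit 78) (nat_lit 152) (nat_lit 0) (XT.lf (nat_lit 76) (nat_lit 2192181100) (nat_lit 0) (nat_lit 2658767327) (nat_lit 76) (nat_lit 2658767327) (nat_lit 137) (nat_lit 3) (nat_lit 136) (nat_lit 1) (nat_lit 137) (nat_lit 1) (nat_lit 345) (nat_lit 397) (nat_lit 278)) (XT.nd (nat_lit 78)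 (nat_lit 0) (nat_lit 0) (XT.lf (nat_lit 152) (nat_lit 7103244788) (nat_lit 0) (nat_lit 143344462) (nat_lit 76) (nat_lit 143344462) (nat_lit 136) (nat_lit 1) (nat_lit 134) (nat_lit 1) (nat_lit 135) (nat_lit 1) (nat_lit 346) (nat_lit 397) (nat_lit 277)) (XT.lf (nat_lit 0) (nat_lit 2288541987) (nat_lit 0) (nat_lit 2691596712) (nat_lit 152) (nat_lit 2288541987) (nat_lit 134) (nat_lit 3) (nat_lit 134) (nat_lit 1) (nat_lit 136) (nat_lit 1) (nat_lit 347) (nat_lit 397) (nat_lit 276))))) (XT.nd (nat_lit 234) (nat_lit 304) (nat_lit 0) (XT.nd (nat_lit 78) (nat_lit 152) (nat_lit 0) (XT.lf (nat_lit 76) (nat_lit 2127803683) (nat_lit 0) (nat_lit 2511665326) (nat_lit 76) (nat_lit 2511665326) (nat_lit 134) (nat_lit 3) (nat_lit 133) (nat_lit 1) (nat_lit 134) (nat_lit 1) (nat_lit 348) (nat_lit 397) (nat_lit 275)) (XT.nd (nat_lit 78) (nat_lit 0) (nat_lit 0) (XT.lf (nat_lit 152) (nat_lit 6801287244) (nat_lit 0) (nat_lit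 117929844) (nat_lit 76) (nat_lit 117929844) (nat_lit 133) (nat_lit 1) (nat_lit 131) (nat_lit 1) (nat_lit 132) (nat_lit 1) (nat_lit 349) (nat_lit 397) (nat_lit 274)) (XT.lf (nat_lit 0) (nat_lit 2196700690) (nat_lit 0) (nat_lit 2528294810) (nat_lit 152) (nat_lit 2196700690) (nat_lit 131) (nat_lit 3) (nat_lit 131) (nat_lit 1) (nat_lit 133) (nat_lit 1) (nat_lit 350) (nat_lit 397) (nat_lit 273)))) (XT.nd (nat_lit 156) (nat_lit 76) (nat_lit 0) (XT.nd (nat_lit 78) (nat_lit 152) (nat_lit 0) (XT.lf (nat_lit 76) (nat_lit 2059397800) (nat_lit 0) (nat_lit 2375201724) (nat_lit 76) (nat_lit 2375201724) (nat_lit 131) (nat_lit 3) (nat_lit 130) (nat_lit 1) (nat_lit 131) (nat_lit 1) (nat_lit 351) (nat_lit 397) (nat_lit 272)) (XT.lf (nat_lit 152) (nat_lit 6507274112) (nat_lit 0) (nat_lit 97021174) (nat_lit 76) (nat_lit 97021174) (nat_lit 130) (nat_lit 1) (nat_lit 128) (nat_lit 1) (nat_lit 129) (nat_lit 1) (nat_lit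 352) (nat_lit 397) (nat_lit 271))) (XT.nd (nat_lit 78) (nat_lit 76) (nat_lit 0) (XT.lf (nat_lit 0) (nat_lit 2106194459) (nat_lit 0) (nat_lit 2378997763) (nat_lit 152) (nat_lit 2106194459) (nat_lit 128) (nat_lit 3) (nat_lit 128) (nat_lit 1) (nat_lit 130) (nat_lit 1) (nat_lit 353) (nat_lit 397) (nat_lit 270)) (XT.lf (nat_lit 76) (nat_lit 1988413042) (nat_lit 0) (nat_lit 2248225712) (nat_lit 76) (nat_lit 2248225712) (nat_lit 128) (nat_lit 3) (nat_lit 127) (nat_lit 1) (nat_lit 128) (nat_lit 1) (nat_lit 354) (nat_lit 397) (nat_lit 269))))))) (XT.nd (nat_lit 936) (nat_lit 1064) (nat_lit 0) (XT.nd (nat_lit 468) (nat_lit 456) (nat_lit 0) (XT.nd (nat_lit 234) (nat_lit 228) (nat_lit 0) (XT.nd (nat_lit 78) (nat_lit 76) (nat_lit 0) (XT.lf (nat_lit 152) (nat_lit 6221967911) (nat_lit 0) (nat_lit 79819560) (nat_lit 76) (nat_lit 79819560) (nat_lit 127) (nat_lit 1) (nat_lit 125) (nat_lit 1) (nat_lit 126) (nat_lit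 1) (nat_lit 355) (nat_lit 397) (nat_lit 268)) (XT.nd (nat_lit 78) (nat_lit 76) (nat_lit 0) (XT.lf (nat_lit 0) (nat_lit 2017498409) (nat_lit 0) (nat_lit 2241934361) (nat_lit 152) (nat_lit 2017498409) (nat_lit 125) (nat_lit 3) (nat_lit 125) (nat_lit 1) (nat_lit 127) (nat_lit 1) (nat_lit 356) (nat_lit 397) (nat_lit 267)) (XT.lf (nat_lit 76) (nat_lit 1916006974) (nat_lit 0) (nat_lit 2129755501) (nat_lit 76) (nat_lit 2129755501) (nat_lit 125) (nat_lit 3) (nat_lit 124) (nat_lit 1) (nat_lit 125) (nat_lit 1) (nat_lit 357) (nat_lit 397) (nat_lit 266)))) (XT.nd (nat_lit 78) (nat_lit 76) (nat_lit 0) (XT.lf (nat_lit 152) (nat_lit 5945892584) (nat_lit 0) (nat_lit 65667750) (nat_lit 76) (nat_lit 65667750) (nat_lit 124) (nat_lit 1) (nat_lit 122) (nat_lit 1) (nat_lit 123) (nat_lit 1) (nat_lit 358) (nat_lit 397) (nat_lit 265)) (XT.nd (nat_lit 78) (nat_lit 76) (nat_lit 0) (XT.lf (nat_lit 0) (nat_lit 1930969519)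 (nat_lit 0) (nat_lit 2115613533) (nat_lit 152) (nat_lit 1930969519) (nat_lit 122) (nat_lit 3) (nat_lit 122) (nat_lit 1) (nat_lit 124) (nat_lit 1) (nat_lit 359) (nat_lit 397) (nat_lit 264)) (XT.lf (nat_lit 76) (nat_lit 1843098578) (nat_lit 0) (nat_lit 2018950020) (nat_lit 76) (nat_lit 2018950020) (nat_lit 122) (nat_lit 3) (nat_lit 121) (nat_lit 1) (nat_lit 122) (nat_lit 1) (nat_lit 360) (nat_lit 397) (nat_lit 263))))) (XT.nd (nat_lit 234) (nat_lit 228) (nat_lit 0) (XT.nd (nat_lit 78) (nat_lit 76) (nat_lit 0) (XT.lf (nat_lit 152) (nat_lit 5679380720) (nat_lit 0) (nat_lit 54025020) (nat_lit 76) (nat_lit 54025020) (nat_lit 121) (nat_lit 1) (nat_lit 119) (nat_lit 1) (nat_lit 120) (nat_lit 1) (nat_lit 361) (nat_lit 397) (nat_lit 262)) (XT.nd (nat_lit 78) (nat_lit 76) (nat_lit 0) (XT.lf (nat_lit 0) (nat_lit 1846869198) (nat_lit 0) (nat_lit 1998776285) (nat_lit 152) (nat_lit 1846869198) (nat_lit 119) (nat_lit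 3) (nat_lit 119) (nat_lit 1) (nat_lit 121) (nat_lit 1) (nat_lit 362) (nat_lit 397) (nat_lit 261)) (XT.lf (nat_lit 76) (nat_lit 1770412141) (nat_lit 0) (nat_lit 1915085557) (nat_lit 76) (nat_lit 1915085557) (nat_lit 119) (nat_lit 3) (nat_lit 118) (nat_lit 1) (nat_lit 119) (nat_lit 1) (nat_lit 363) (nat_lit 397) (nat_lit 260)))) (XT.nd (nat_lit 78) (nat_lit 76) (nat_lit 0) (XT.lf (nat_lit 152) (nat_lit 5422612170) (nat_lit 0) (nat_lit 44446518) (nat_lit 76) (nat_lit 44446518) (nat_lit 118) (nat_lit 1) (nat_lit 116) (nat_lit 1) (nat_lit 117) (nat_lit 1) (nat_lit 364) (nat_lit 397) (nat_lit 259)) (XT.nd (nat_lit 78) (nat_lit 76) (nat_lit 0) (XT.lf (nat_lit 0) (nat_lit 1765381760) (nat_lit 0) (nat_lit 1890356096) (nat_lit 152) (nat_lit 1765381760) (nat_lit 116) (nat_lit 3) (nat_lit 116) (nat_lit 1) (nat_lit 118) (nat_lit 1) (nat_lit 365) (nat_lit 397) (nat_lit 258)) (XT.lf (nat_lit 76) (nat_lit 1698513287)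 (nat_lit 0) (nat_lit 1817536465) (nat_lit 76) (nat_lit 1817536465) (nat_lit 116) (nat_lit 3) (nat_lit 115) (nat_lit 1) (nat_lit 116) (nat_lit 1) (nat_lit 366) (nat_lit 397) (nat_lit 257)))))) (XT.nd (nat_lit 468) (nat_lit 608) (nat_lit 0) (XT.nd (nat_lit 234) (nat_lit 228) (nat_lit 0) (XT.nd (nat_lit 78) (nat_lit 76) (nat_lit 0) (XT.lf (nat_lit 152) (nat_lit 5175645592) (nat_lit 0) (nat_lit 36566260) (nat_lit 76) (nat_lit 36566260) (nat_lit 115) (nat_lit 1) (nat_lit 113) (nat_lit 1) (nat_lit 114) (nat_lit 1) (nat_lit 367) (nat_lit 397) (nat_lit 256)) (XT.nd (nat_lit 78) (nat_lit 76) (nat_lit 0) (XT.lf (nat_lit 0) (nat_lit 1686629562) (nat_lit 0) (nat_lit 1789446258) (nat_lit 152) (nat_lit 1686629562) (nat_lit 113) (nat_lit 3) (nat_lit 113) (nat_lit 1) (nat_lit 115) (nat_lit 1) (nat_lit 368) (nat_lit 397) (nat_lit 255)) (XT.lf (nat_lit 76) (nat_lit 1627838549) (nat_lit 0) (nat_lit 1725759212) (nat_lit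 76) (nat_lit 1725759212) (nat_lit 113) (nat_lit 3) (nat_lit 112) (nat_lit 1) (nat_lit 113) (nat_lit 1) (nat_lit 369) (nat_lit 397) (nat_lit 254)))) (XT.nd (nat_lit 78) (nat_lit 76) (nat_lit 0) (XT.lf (nat_lit 152) (nat_lit 4938444189) (nat_lit 0) (nat_lit 30083152) (nat_lit 76) (nat_lit 30083152) (nat_lit 112) (nat_lit 1) (nat_lit 110) (nat_lit 1) (nat_lit 111) (nat_lit 1) (nat_lit 370) (nat_lit 397) (nat_lit 253)) (XT.nd (nat_lit 78) (nat_lit 76) (nat_lit 0) (XT.lf (nat_lit 0) (nat_lit 1610685381) (nat_lit 0) (nat_lit 1695272931) (nat_lit 152) (nat_lit 1610685381) (nat_lit 110) (nat_lit 3) (nat_lit 110) (nat_lit 1) (nat_lit 112) (nat_lit 1) (nat_lit 371) (nat_lit 397) (nat_lit 252)) (XT.lf (nat_lit 76) (nat_lit 1558719626) (nat_lit 0) (nat_lit 1639279198) (nat_lit 76) (nat_lit 1639279198) (nat_lit 110) (nat_lit 3) (nat_lit 109) (nat_lit 1) (nat_lit 110) (nat_lit 1) (nat_lit 372) (nat_lit 397)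 (nat_lit 251))))) (XT.nd (nat_lit 234) (nat_lit 380) (nat_lit 0) (XT.nd (nat_lit 78) (nat_lit 76) (nat_lit 0) (XT.lf (nat_lit 152) (nat_lit 4710896687) (nat_lit 0) (nat_lit 24749484) (nat_lit 76) (nat_lit 24749484) (nat_lit 109) (nat_lit 1) (nat_lit 107) (nat_lit 1) (nat_lit 108) (nat_lit 1) (nat_lit 373) (nat_lit 397) (nat_lit 250)) (XT.nd (nat_lit 78) (nat_lit 76) (nat_lit 0) (XT.lf (nat_lit 0) (nat_lit 1537582531) (nat_lit 0) (nat_lit 1607172918) (nat_lit 152) (nat_lit 1537582531) (nat_lit 107) (nat_lit 3) (nat_lit 107) (nat_lit 1) (nat_lit 109) (nat_lit 1) (nat_lit 374) (nat_lit 397) (nat_lit 249)) (XT.lf (nat_lit 76) (nat_lit 1491403278) (nat_lit 0) (nat_lit 1557679837) (nat_lit 76) (nat_lit 1557679837) (nat_lit 107) (nat_lit 3) (nat_lit 106) (nat_lit 1) (nat_lit 107) (nat_lit 1) (nat_lit 375) (nat_lit 397) (nat_lit 248)))) (XT.nd (nat_lit 156) (nat_lit 228) (nat_lit 0) (XT.nd (nat_lit 78)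 (nat_lit 0) (nat_lit 0) (XT.lf (nat_lit 152) (nat_lit 4492834392) (nat_lit 0) (nat_lit 20361462) (nat_lit 76) (nat_lit 20361462) (nat_lit 106) (nat_lit 1) (nat_lit 104) (nat_lit 1) (nat_lit 105) (nat_lit 1) (nat_lit 376) (nat_lit 397) (nat_lit 247)) (XT.lf (nat_lit 0) (nat_lit 1467323127) (nat_lit 0) (nat_lit 1524575311) (nat_lit 152) (nat_lit 1467323127) (nat_lit 104) (nat_lit 3) (nat_lit 104) (nat_lit 1) (nat_lit 106) (nat_lit 1) (nat_lit 377) (nat_lit 397) (nat_lit 246))) (XT.nd (nat_lit 78) (nat_lit 152) (nat_lit 0) (XT.lf (nat_lit 76) (nat_lit 1426067629) (nat_lit 0) (nat_lit 1480593518) (nat_lit 76) (nat_lit 1480593518) (nat_lit 104) (nat_lit 3) (nat_lit 103) (nat_lit 1) (nat_lit 104) (nat_lit 1) (nat_lit 378) (nat_lit 397) (nat_lit 245)) (XT.lf (nat_lit 152) (nat_lit 4284045048) (nat_lit 0) (nat_lit 16751425) (nat_lit 76) (nat_lit 16751425) (nat_lit 103) (nat_lit 1) (nat_lit 101) (nat_lit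 1) (nat_lit 102) (nat_lit 1) (nat_lit 379) (nat_lit 397) (nat_lit 244))))))))
noncomputable def ec245 : XT := (XT.nd (nat_lit 1950) (nat_lit 2052) (nat_lit 0) (XT.nd (nat_lit 936) (nat_lit 912) (nat_lit 0) (XT.nd (nat_lit 468) (nat_lit 456) (nat_lit 0) (XT.nd (nat_lit 234) (nat_lit 228) (nat_lit 0) (XT.nd (nat_lit 78) (nat_lit 228) (nat_lit 0) (XT.lf (nat_lit 0) (nat_lit 1399884819) (nat_lit 0) (nat_lit 1446986332) (nat_lit 152) (nat_lit 1399884819) (nat_lit 101) (nat_lit 3) (nat_lit 101) (nat_lit 1) (nat_lit 103) (nat_lit 1) (nat_lit 380) (nat_lit 397) (nat_lit 243)) (XT.nd (nat_lit 78) (nat_lit 152) (nat_lit 0) (XT.lf (nat_lit 76) (nat_lit 1362835521) (nat_lit 0) (nat_lit 1407694104) (nat_lit 76) (nat_lit 1407694104) (nat_lit 101) (nat_lit 3) (nat_lit 100) (nat_lit 1) (nat_lit 101) (nat_lit 1) (nat_lit 381) (nat_lit 397) (nat_lit 242)) (XT.lf (nat_lit 152) (nat_lit 4084284059) (nat_lit 0) (nat_lit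 13781438) (nat_lit 76) (nat_lit 13781438) (nat_lit 100) (nat_lit 1) (nat_lit 98) (nat_lit 1) (nat_lit 99) (nat_lit 1) (nat_lit 382) (nat_lit 397) (nat_lit 241)))) (XT.nd (nat_lit 78) (nat_lit 228) (nat_lit 0) (XT.lf (nat_lit 0) (nat_lit 1335226277) (nat_lit 0) (nat_lit 1373976809) (nat_lit 152) (nat_lit 1335226277) (nat_lit 98) (nat_lit 3) (nat_lit 98) (nat_lit 1) (nat_lit 100) (nat_lit 1) (nat_lit 383) (nat_lit 397) (nat_lit 240)) (XT.nd (nat_lit 78) (nat_lit 152) (nat_lit 0) (XT.lf (nat_lit 76) (nat_lit 1301785444) (nat_lit 0) (nat_lit 1338690712) (nat_lit 76) (nat_lit 1338690712) (nat_lit 98) (nat_lit 3) (nat_lit 97) (nat_lit 1) (nat_lit 98) (nat_lit 1) (nat_lit 384) (nat_lit 397) (nat_lit 239)) (XT.lf (nat_lit 152) (nat_lit 3893283551) (nat_lit 0) (nat_lit 11338023) (nat_lit 76) (nat_lit 11338023) (nat_lit 97) (nat_lit 1) (nat_lit 95) (nat_lit 1) (nat_lit 96) (nat_lit 1) (nat_lit 385) (nat_lit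 397) (nat_lit 238))))) (XT.nd (nat_lit 234) (nat_lit 228) (nat_lit 0) (XT.nd (nat_lit 78) (nat_lit 228) (nat_lit 0) (XT.lf (nat_lit 0) (nat_lit 1273291651) (nat_lit 0) (nat_lit 1305171809) (nat_lit 152) (nat_lit 1273291651) (nat_lit 95) (nat_lit 3) (nat_lit 95) (nat_lit 1) (nat_lit 97) (nat_lit 1) (nat_lit 386) (nat_lit 397) (nat_lit 237)) (XT.nd (nat_lit 78) (nat_lit 152) (nat_lit 0) (XT.lf (nat_lit 76) (nat_lit 1242960477) (nat_lit 0) (nat_lit 1273322532) (nat_lit 76) (nat_lit 1273322532) (nat_lit 95) (nat_lit 3) (nat_lit 94) (nat_lit 1) (nat_lit 95) (nat_lit 1) (nat_lit 387) (nat_lit 397) (nat_lit 236)) (XT.lf (nat_lit 152) (nat_lit 3710759678) (nat_lit 0) (nat_lit 9327820) (nat_lit 76) (nat_lit 9327820) (nat_lit 94) (nat_lit 1) (nat_lit 92) (nat_lit 1) (nat_lit 93) (nat_lit 1) (nat_lit 388) (nat_lit 397) (nat_lit 235)))) (XT.nd (nat_lit 78) (nat_lit 228) (nat_lit 0) (XT.lf (nat_lit 0) (nat_lit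 1214014181) (nat_lit 0) (nat_lit 1240242065) (nat_lit 152) (nat_lit 1214014181) (nat_lit 92) (nat_lit 3) (nat_lit 92) (nat_lit 1) (nat_lit 94) (nat_lit 1) (nat_lit 389) (nat_lit 397) (nat_lit 234)) (XT.nd (nat_lit 78) (nat_lit 152) (nat_lit 0) (XT.lf (nat_lit 76) (nat_lit 1186375585) (nat_lit 0) (nat_lit 1211354523) (nat_lit 76) (nat_lit 1211354523) (nat_lit 92) (nat_lit 3) (nat_lit 91) (nat_lit 1) (nat_lit 92) (nat_lit 1) (nat_lit 390) (nat_lit 397) (nat_lit 233)) (XT.lf (nat_lit 152) (nat_lit 3536418470) (nat_lit 0) (nat_lit 7674020) (nat_lit 76) (nat_lit 7674020) (nat_lit 91) (nat_lit 1) (nat_lit 89) (nat_lit 1) (nat_lit 90) (nat_lit 1) (nat_lit 391) (nat_lit 397) (nat_lit 232)))))) (XT.nd (nat_lit 468) (nat_lit 456) (nat_lit 0) (XT.nd (nat_lit 234) (nat_lit 228) (nat_lit 0) (XT.nd (nat_lit 78) (nat_lit 228) (nat_lit 0) (XT.lf (nat_lit 0) (nat_lit 1157319126) (nat_lit 0) (nat_lit 1178896872)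 (nat_lit 152) (nat_lit 1157319126) (nat_lit 89) (nat_lit 3) (nat_lit 89) (nat_lit 1) (nat_lit 91) (nat_lit 1) (nat_lit 392) (nat_lit 397) (nat_lit 231)) (XT.nd (nat_lit 78) (nat_lit 152) (nat_lit 0) (XT.lf (nat_lit 76) (nat_lit 1132023581) (nat_lit 0) (nat_lit 1152573815) (nat_lit 76) (nat_lit 1152573815) (nat_lit 89) (nat_lit 3) (nat_lit 88) (nat_lit 1) (nat_lit 89) (nat_lit 1) (nat_lit 393) (nat_lit 397) (nat_lit 230)) (XT.lf (nat_lit 152) (nat_lit 3369960513) (nat_lit 0) (nat_lit 6313435) (nat_lit 76) (nat_lit 6313435) (nat_lit 88) (nat_lit 1) (nat_lit 86) (nat_lit 1) (nat_lit 87) (nat_lit 1) (nat_lit 394) (nat_lit 397) (nat_lit 229)))) (XT.nd (nat_lit 78) (nat_lit 228) (nat_lit 0) (XT.lf (nat_lit 0) (nat_lit 1103126124) (nat_lit 0) (nat_lit 1120878189) (nat_lit 152) (nat_lit 1103126124) (nat_lit 86) (nat_lit 3) (nat_lit 86) (nat_lit 1) (nat_lit 88) (nat_lit 1) (nat_lit 395) (nat_lit 397) (nat_lit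 228)) (XT.nd (nat_lit 78) (nat_lit 152) (nat_lit 0) (XT.lf (nat_lit 76) (nat_lit 1079879984) (nat_lit 0) (nat_lit 1096786713) (nat_lit 76) (nat_lit 1096786713) (nat_lit 86) (nat_lit 3) (nat_lit 85) (nat_lit 1) (nat_lit 86) (nat_lit 1) (nat_lit 396) (nat_lit 397) (nat_lit 227)) (XT.lf (nat_lit 152) (nat_lit 3211084650) (nat_lit 0) (nat_lit 5194079) (nat_lit 76) (nat_lit 5194079) (nat_lit 85) (nat_lit 1) (nat_lit 83) (nat_lit 1) (nat_lit 84) (nat_lit 1) (nat_lit 397) (nat_lit 397) (nat_lit 226))))) (XT.nd (nat_lit 234) (nat_lit 228) (nat_lit 0) (XT.nd (nat_lit 78) (nat_lit 228) (nat_lit 0) (XT.lf (nat_lit 0) (nat_lit 1051351083) (nat_lit 0) (nat_lit 1065955751) (nat_lit 152) (nat_lit 1051351083) (nat_lit 83) (nat_lit 3) (nat_lit 83) (nat_lit 1) (nat_lit 85) (nat_lit 1) (nat_lit 398) (nat_lit 397) (nat_lit 225)) (XT.nd (nat_lit 78) (nat_lit 152) (nat_lit 0) (XT.lf (nat_lit 76) (nat_lit 1029906966)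 (nat_lit 0) (nat_lit 1043816174) (nat_lit 76) (nat_lit 1043816174) (nat_lit 83) (nat_lit 3) (nat_lit 82) (nat_lit 1) (nat_lit 83) (nat_lit 1) (nat_lit 399) (nat_lit 397) (nat_lit 224)) (XT.lf (nat_lit 152) (nat_lit 3059490903) (nat_lit 0) (nat_lit 4273181) (nat_lit 76) (nat_lit 4273181) (nat_lit 82) (nat_lit 1) (nat_lit 80) (nat_lit 1) (nat_lit 81) (nat_lit 1) (nat_lit 400) (nat_lit 397) (nat_lit 223)))) (XT.nd (nat_lit 156) (nat_lit 152) (nat_lit 0) (XT.nd (nat_lit 78) (nat_lit 76) (nat_lit 0) (XT.lf (nat_lit 0) (nat_lit 1001907700) (nat_lit 0) (nat_lit 1013922996) (nat_lit 152) (nat_lit 1001907700) (nat_lit 80) (nat_lit 3) (nat_lit 80) (nat_lit 1) (nat_lit 82) (nat_lit 1) (nat_lit 401) (nat_lit 397) (nat_lit 222)) (XT.lf (nat_lit 76) (nat_lit 982056563) (nat_lit 0) (nat_lit 993499702) (nat_lit 76) (nat_lit 993499702) (nat_lit 80) (nat_lit 3) (nat_lit 79) (nat_lit 1) (nat_lit 80) (nat_lit 1) (nat_lit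 402) (nat_lit 397) (nat_lit 221))) (XT.nd (nat_lit 78) (nat_lit 0) (nat_lit 0) (XT.lf (nat_lit 152) (nat_lit 2914882752) (nat_lit 0) (nat_lit 3515557) (nat_lit 76) (nat_lit 3515557) (nat_lit 79) (nat_lit 1) (nat_lit 77) (nat_lit 1) (nat_lit 78) (nat_lit 1) (nat_lit 403) (nat_lit 397) (nat_lit 220)) (XT.lf (nat_lit 0) (nat_lit 954708670) (nat_lit 0) (nat_lit 964593684) (nat_lit 152) (nat_lit 954708670) (nat_lit 77) (nat_lit 3) (nat_lit 77) (nat_lit 1) (nat_lit 79) (nat_lit 1) (nat_lit 404) (nat_lit 397) (nat_lit 219))))))) (XT.nd (nat_lit 1014) (nat_lit 1064) (nat_lit 0) (XT.nd (nat_lit 468) (nat_lit 532) (nat_lit 0) (XT.nd (nat_lit 234) (nat_lit 228) (nat_lit 0) (XT.nd (nat_lit 78) (nat_lit 152) (nat_lit 0) (XT.lf (nat_lit 76) (nat_lit 936273273) (nat_lit 0) (nat_lit 945687572) (nat_lit 76) (nat_lit 945687572) (nat_lit 77) (nat_lit 3) (nat_lit 76) (nat_lit 1) (nat_lit 77) (nat_lit 1) (nat_lit 405)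 (nat_lit 397) (nat_lit 218)) (XT.nd (nat_lit 78) (nat_lit 0) (nat_lit 0) (XT.lf (nat_lit 152) (nat_lit 2776968887) (nat_lit 0) (nat_lit 2892257) (nat_lit 76) (nat_lit 2892257) (nat_lit 76) (nat_lit 1) (nat_lit 74) (nat_lit 1) (nat_lit 75) (nat_lit 1) (nat_lit 406) (nat_lit 397) (nat_lit 217)) (XT.lf (nat_lit 0) (nat_lit 909666639) (nat_lit 0) (nat_lit 917799064) (nat_lit 152) (nat_lit 909666639) (nat_lit 74) (nat_lit 3) (nat_lit 74) (nat_lit 1) (nat_lit 76) (nat_lit 1) (nat_lit 407) (nat_lit 397) (nat_lit 216)))) (XT.nd (nat_lit 78) (nat_lit 152) (nat_lit 0) (XT.lf (nat_lit 76) (nat_lit 892496155) (nat_lit 0) (nat_lit 900241323) (nat_lit 76) (nat_lit 900241323) (nat_lit 74) (nat_lit 3) (nat_lit 73) (nat_lit 1) (nat_lit 74) (nat_lit 1) (nat_lit 408) (nat_lit 397) (nat_lit 215)) (XT.nd (nat_lit 78) (nat_lit 0) (nat_lit 0) (XT.lf (nat_lit 152) (nat_lit 2645464540) (nat_lit 0) (nat_lit 2379467) (nat_lit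 76) (nat_lit 2379467) (nat_lit 73) (nat_lit 1) (nat_lit 71) (nat_lit 1) (nat_lit 72) (nat_lit 1) (nat_lit 409) (nat_lit 397) (nat_lit 214)) (XT.lf (nat_lit 0) (nat_lit 866694951) (nat_lit 0) (nat_lit 873385517) (nat_lit 152) (nat_lit 866694951) (nat_lit 71) (nat_lit 3) (nat_lit 71) (nat_lit 1) (nat_lit 73) (nat_lit 1) (nat_lit 410) (nat_lit 397) (nat_lit 213))))) (XT.nd (nat_lit 234) (nat_lit 304) (nat_lit 0) (XT.nd (nat_lit 78) (nat_lit 152) (nat_lit 0) (XT.lf (nat_lit 76) (nat_lit 850660526) (nat_lit 0) (nat_lit 857032494) (nat_lit 76) (nat_lit 857032494) (nat_lit 71) (nat_lit 3) (nat_lit 70) (nat_lit 1) (nat_lit 71) (nat_lit 1) (nat_lit 411) (nat_lit 397) (nat_lit 212)) (XT.nd (nat_lit 78) (nat_lit 0) (nat_lit 0) (XT.lf (nat_lit 152) (nat_lit 2520092476) (nat_lit 0) (nat_lit 1957593) (nat_lit 76) (nat_lit 1957593) (nat_lit 70) (nat_lit 1) (nat_lit 68) (nat_lit 1) (nat_lit 69) (nat_lit 1) (nat_lit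 412) (nat_lit 397) (nat_lit 211)) (XT.lf (nat_lit 0) (nat_lit 825708229) (nat_lit 0) (nat_lit 831212575) (nat_lit 152) (nat_lit 825708229) (nat_lit 68) (nat_lit 3) (nat_lit 68) (nat_lit 1) (nat_lit 70) (nat_lit 1) (nat_lit 413) (nat_lit 397) (nat_lit 210)))) (XT.nd (nat_lit 156) (nat_lit 76) (nat_lit 0) (XT.nd (nat_lit 78) (nat_lit 152) (nat_lit 0) (XT.lf (nat_lit 76) (nat_lit 810699311) (nat_lit 0) (nat_lit 815941545) (nat_lit 76) (nat_lit 815941545) (nat_lit 68) (nat_lit 3) (nat_lit 67) (nat_lit 1) (nat_lit 68) (nat_lit 1) (nat_lit 414) (nat_lit 397) (nat_lit 209)) (XT.lf (nat_lit 152) (nat_lit 2400583699) (nat_lit 0) (nat_lit 1610517) (nat_lit 76) (nat_lit 1610517) (nat_lit 67) (nat_lit 1) (nat_lit 65) (nat_lit 1) (nat_lit 66) (nat_lit 1) (nat_lit 415) (nat_lit 397) (nat_lit 208))) (XT.nd (nat_lit 78) (nat_lit 76) (nat_lit 0) (XT.lf (nat_lit 0) (nat_lit 786622821) (nat_lit 0) (nat_lit 791151259)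 (nat_lit 152) (nat_lit 786622821) (nat_lit 65) (nat_lit 3) (nat_lit 65) (nat_lit 1) (nat_lit 67) (nat_lit 1) (nat_lit 416) (nat_lit 397) (nat_lit 207)) (XT.lf (nat_lit 76) (nat_lit 772544130) (nat_lit 0) (nat_lit 776856929) (nat_lit 76) (nat_lit 776856929) (nat_lit 65) (nat_lit 3) (nat_lit 64) (nat_lit 1) (nat_lit 65) (nat_lit 1) (nat_lit 417) (nat_lit 397) (nat_lit 206)))))) (XT.nd (nat_lit 468) (nat_lit 608) (nat_lit 0) (XT.nd (nat_lit 234) (nat_lit 228) (nat_lit 0) (XT.nd (nat_lit 78) (nat_lit 76) (nat_lit 0) (XT.lf (nat_lit 152) (nat_lit 2286677943) (nat_lit 0) (nat_lit 1324976) (nat_lit 76) (nat_lit 1324976) (nat_lit 64) (nat_lit 1) (nat_lit 62) (nat_lit 1) (nat_lit 63) (nat_lit 1) (nat_lit 418) (nat_lit 397) (nat_lit 205)) (XT.nd (nat_lit 78) (nat_lit 76) (nat_lit 0) (XT.lf (nat_lit 0) (nat_lit 749357129) (nat_lit 0) (nat_lit 753082687) (nat_lit 152) (nat_lit 749357129) (nat_lit 62) (nat_lit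 3) (nat_lit 62) (nat_lit 1) (nat_lit 64) (nat_lit 1) (nat_lit 419) (nat_lit 397) (nat_lit 204)) (XT.lf (nat_lit 76) (nat_lit 736126159) (nat_lit 0) (nat_lit 739674309) (nat_lit 76) (nat_lit 739674309) (nat_lit 62) (nat_lit 3) (nat_lit 61) (nat_lit 1) (nat_lit 62) (nat_lit 1) (nat_lit 420) (nat_lit 397) (nat_lit 203)))) (XT.nd (nat_lit 78) (nat_lit 76) (nat_lit 0) (XT.lf (nat_lit 152) (nat_lit 2178123978) (nat_lit 0) (nat_lit 1090061) (nat_lit 76) (nat_lit 1090061) (nat_lit 61) (nat_lit 1) (nat_lit 59) (nat_lit 1) (nat_lit 60) (nat_lit 1) (nat_lit 421) (nat_lit 397) (nat_lit 202)) (XT.nd (nat_lit 78) (nat_lit 76) (nat_lit 0) (XT.lf (nat_lit 0) (nat_lit 713831858) (nat_lit 0) (nat_lit 716896883) (nat_lit 152) (nat_lit 713831858) (nat_lit 59) (nat_lit 3) (nat_lit 59) (nat_lit 1) (nat_lit 61) (nat_lit 1) (nat_lit 422) (nat_lit 397) (nat_lit 201)) (XT.lf (nat_lit 76) (nat_lit 701376805) (nat_lit 0)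 (nat_lit 704295877) (nat_lit 76) (nat_lit 704295877) (nat_lit 59) (nat_lit 3) (nat_lit 58) (nat_lit 1) (nat_lit 59) (nat_lit 1) (nat_lit 423) (nat_lit 397) (nat_lit 200))))) (XT.nd (nat_lit 234) (nat_lit 380) (nat_lit 0) (XT.nd (nat_lit 78) (nat_lit 76) (nat_lit 0) (XT.lf (nat_lit 152) (nat_lit 2074679772) (nat_lit 0) (nat_lit 896796) (nat_lit 76) (nat_lit 896796) (nat_lit 58) (nat_lit 1) (nat_lit 56) (nat_lit 1) (nat_lit 57) (nat_lit 1) (nat_lit 424) (nat_lit 397) (nat_lit 199)) (XT.nd (nat_lit 78) (nat_lit 76) (nat_lit 0) (XT.lf (nat_lit 0) (nat_lit 679970182) (nat_lit 0) (nat_lit 682491786) (nat_lit 152) (nat_lit 679970182) (nat_lit 56) (nat_lit 3) (nat_lit 56) (nat_lit 1) (nat_lit 58) (nat_lit 1) (nat_lit 425) (nat_lit 397) (nat_lit 198)) (XT.lf (nat_lit 76) (nat_lit 668228234) (nat_lit 0) (nat_lit 670629762) (nat_lit 76) (nat_lit 670629762) (nat_lit 56) (nat_lit 3) (nat_lit 55) (nat_lit 1)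 (nat_lit 56) (nat_lit 1) (nat_lit 426) (nat_lit 397) (nat_lit 197)))) (XT.nd (nat_lit 156) (nat_lit 228) (nat_lit 0) (XT.nd (nat_lit 78) (nat_lit 0) (nat_lit 0) (XT.lf (nat_lit 152) (nat_lit 1976112549) (nat_lit 0) (nat_lit 737796) (nat_lit 76) (nat_lit 737796) (nat_lit 55) (nat_lit 1) (nat_lit 53) (nat_lit 1) (nat_lit 54) (nat_lit 1) (nat_lit 427) (nat_lit 397) (nat_lit 196)) (XT.lf (nat_lit 0) (nat_lit 647697862) (nat_lit 0) (nat_lit 649772392) (nat_lit 152) (nat_lit 647697862) (nat_lit 53) (nat_lit 3) (nat_lit 53) (nat_lit 1) (nat_lit 55) (nat_lit 1) (nat_lit 428) (nat_lit 397) (nat_lit 195))) (XT.nd (nat_lit 78) (nat_lit 152) (nat_lit 0) (XT.lf (nat_lit 76) (nat_lit 636613786) (nat_lit 0) (nat_lit 638589528) (nat_lit 76) (nat_lit 638589528) (nat_lit 53) (nat_lit 3) (nat_lit 52) (nat_lit 1) (nat_lit 53) (nat_lit 1) (nat_lit 429) (nat_lit 397) (nat_lit 194)) (XT.lf (nat_lit 152) (nat_lit 1882198748)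 (nat_lit 0) (nat_lit 606987) (nat_lit 76) (nat_lit 606987) (nat_lit 52) (nat_lit 1) (nat_lit 50) (nat_lit 1) (nat_lit 51) (nat_lit 1) (nat_lit 430) (nat_lit 397) (nat_lit 193))))))))
noncomputable def ec246 : XT := (XT.nd (nat_lit 37752) (nat_lit 0) (nat_lit 14972) (XT.nd (nat_lit 936) (nat_lit 228) (nat_lit 0) (XT.nd (nat_lit 468) (nat_lit 456) (nat_lit 0) (XT.nd (nat_lit 234) (nat_lit 228) (nat_lit 0) (XT.nd (nat_lit 78) (nat_lit 228) (nat_lit 0) (XT.lf (nat_lit 0) (nat_lit 616943310) (nat_lit 0) (nat_lit 618650031) (nat_lit 152) (nat_lit 616943310) (nat_lit 50) (nat_lit 3) (nat_lit 50) (nat_lit 1) (nat_lit 52) (nat_lit 1) (nat_lit 431) (nat_lit 397) (nat_lit 192)) (XT.nd (nat_lit 78) (nat_lit 152) (nat_lit 0) (XT.lf (nat_lit 76) (nat_lit 606468274) (nat_lit 0) (nat_lit 608093722) (nat_lit 76) (nat_lit 608093722) (nat_lit 50) (nat_lit 3) (nat_lit 49) (nat_lit 1) (nat_lit 50) (nat_lit 1) (nat_lit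 432) (nat_lit 397) (nat_lit 191)) (XT.lf (nat_lit 152) (nat_lit 1792723915) (nat_lit 0) (nat_lit 499369) (nat_lit 76) (nat_lit 499369) (nat_lit 49) (nat_lit 1) (nat_lit 47) (nat_lit 1) (nat_lit 48) (nat_lit 1) (nat_lit 433) (nat_lit 397) (nat_lit 190)))) (XT.nd (nat_lit 78) (nat_lit 228) (nat_lit 0) (XT.lf (nat_lit 0) (nat_lit 587637623) (nat_lit 0) (nat_lit 589041747) (nat_lit 152) (nat_lit 587637623) (nat_lit 47) (nat_lit 3) (nat_lit 47) (nat_lit 1) (nat_lit 49) (nat_lit 1) (nat_lit 434) (nat_lit 397) (nat_lit 189)) (XT.nd (nat_lit 78) (nat_lit 152) (nat_lit 0) (XT.lf (nat_lit 76) (nat_lit 577728222) (nat_lit 0) (nat_lit 579065483) (nat_lit 76) (nat_lit 579065483) (nat_lit 47) (nat_lit 3) (nat_lit 46) (nat_lit 1) (nat_lit 47) (nat_lit 1) (nat_lit 435) (nat_lit 397) (nat_lit 188)) (XT.lf (nat_lit 152) (nat_lit 1707482541) (nat_lit 0) (nat_lit 410832) (nat_lit 76) (nat_lit 410832) (nat_lit 46)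 (nat_lit 1) (nat_lit 44) (nat_lit 1) (nat_lit 45) (nat_lit 1) (nat_lit 436) (nat_lit 397) (nat_lit 187))))) (XT.nd (nat_lit 234) (nat_lit 228) (nat_lit 0) (XT.nd (nat_lit 78) (nat_lit 228) (nat_lit 0) (XT.lf (nat_lit 0) (nat_lit 559714579) (nat_lit 0) (nat_lit 560869755) (nat_lit 152) (nat_lit 559714579) (nat_lit 44) (nat_lit 3) (nat_lit 44) (nat_lit 1) (nat_lit 46) (nat_lit 1) (nat_lit 437) (nat_lit 397) (nat_lit 186)) (XT.nd (nat_lit 78) (nat_lit 152) (nat_lit 0) (XT.lf (nat_lit 76) (nat_lit 550332032) (nat_lit 0) (nat_lit 551432199) (nat_lit 76) (nat_lit 551432199) (nat_lit 44) (nat_lit 3) (nat_lit 43) (nat_lit 1) (nat_lit 44) (nat_lit 1) (nat_lit 438) (nat_lit 397) (nat_lit 185)) (XT.lf (nat_lit 152) (nat_lit 1626277863) (nat_lit 0) (nat_lit 337993) (nat_lit 76) (nat_lit 337993) (nat_lit 43) (nat_lit 1) (nat_lit 41) (nat_lit 1) (nat_lit 42) (nat_lit 1) (nat_lit 439) (nat_lit 397) (nat_lit 184))))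 (XT.nd (nat_lit 78) (nat_lit 228) (nat_lit 0) (XT.lf (nat_lit 0) (nat_lit 533110619) (nat_lit 0) (nat_lit 534060985) (nat_lit 152) (nat_lit 533110619) (nat_lit 41) (nat_lit 3) (nat_lit 41) (nat_lit 1) (nat_lit 43) (nat_lit 1) (nat_lit 440) (nat_lit 397) (nat_lit 183)) (XT.nd (nat_lit 78) (nat_lit 152) (nat_lit 0) (XT.lf (nat_lit 76) (nat_lit 524220089) (nat_lit 0) (nat_lit 525125200) (nat_lit 76) (nat_lit 525125200) (nat_lit 41) (nat_lit 3) (nat_lit 40) (nat_lit 1) (nat_lit 41) (nat_lit 1) (nat_lit 441) (nat_lit 397) (nat_lit 182)) (XT.lf (nat_lit 152) (nat_lit 1548921634) (nat_lit 0) (nat_lit 278067) (nat_lit 76) (nat_lit 278067) (nat_lit 40) (nat_lit 1) (nat_lit 38) (nat_lit 1) (nat_lit 39) (nat_lit 1) (nat_lit 442) (nat_lit 397) (nat_lit 181)))))) (XT.nd (nat_lit 36270) (nat_lit 0) (nat_lit 19608) (XT.nd (nat_lit 36036) (nat_lit 0) (nat_lit 19532) (XT.nd (nat_lit 78) (nat_lit 228) (nat_lit 0)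 (XT.lf (nat_lit 0) (nat_lit 507764806) (nat_lit 0) (nat_lit 508546675) (nat_lit 152) (nat_lit 507764806) (nat_lit 38) (nat_lit 3) (nat_lit 38) (nat_lit 1) (nat_lit 40) (nat_lit 1) (nat_lit 443) (nat_lit 397) (nat_lit 180)) (XT.nd (nat_lit 78) (nat_lit 152) (nat_lit 0) (XT.lf (nat_lit 76) (nat_lit 499334846) (nat_lit 0) (nat_lit 500079483) (nat_lit 76) (nat_lit 500079483) (nat_lit 38) (nat_lit 3) (nat_lit 37) (nat_lit 1) (nat_lit 38) (nat_lit 1) (nat_lit 444) (nat_lit 397) (nat_lit 179)) (XT.lf (nat_lit 152) (nat_lit 1475233863) (nat_lit 0) (nat_lit 228767) (nat_lit 76) (nat_lit 228767) (nat_lit 37) (nat_lit 1) (nat_lit 35) (nat_lit 1) (nat_lit 36) (nat_lit 1) (nat_lit 445) (nat_lit 397) (nat_lit 178)))) (XT.nd (nat_lit 78) (nat_lit 0) (nat_lit 0) (XT.lf (nat_lit 836) (nat_lit 9103932415) (nat_lit 0) (nat_lit 16164011078) (nat_lit 836) (nat_lit 9103932415) (nat_lit 303) (nat_lit 1) (nat_lit 292)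 (nat_lit 0) (nat_lit 303) (nat_lit 0) (nat_lit 224) (nat_lit 398) (nat_lit 398)) (XT.nd (nat_lit 78) (nat_lit 0) (nat_lit 76) (XT.lf (nat_lit 836) (nat_lit 35287978625) (nat_lit 76) (nat_lit 15903301222) (nat_lit 0) (nat_lit 15903301222) (nat_lit 303) (nat_lit 1) (nat_lit 293) (nat_lit 1) (nat_lit 292) (nat_lit 0) (nat_lit 225) (nat_lit 398) (nat_lit 397)) (XT.lf (nat_lit 836) (nat_lit 16817719282) (nat_lit 0) (nat_lit 31860956482) (nat_lit 760) (nat_lit 16817719282) (nat_lit 304) (nat_lit 1) (nat_lit 293) (nat_lit 1) (nat_lit 303) (nat_lit 1) (nat_lit 226) (nat_lit 398) (nat_lit 396))))) (XT.nd (nat_lit 234) (nat_lit 0) (nat_lit 152) (XT.nd (nat_lit 78) (nat_lit 0) (nat_lit 76) (XT.lf (nat_lit 836) (nat_lit 31547704491) (nat_lit 76) (nat_lit 16201068924) (nat_lit 0) (nat_lit 16201068924) (nat_lit 304) (nat_lit 1) (nat_lit 294) (nat_lit 1) (nat_lit 293) (nat_lit 1) (nat_lit 227) (nat_lit 398) (nat_lit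 395)) (XT.nd (nat_lit 78) (nat_lit 0) (nat_lit 0) (XT.lf (nat_lit 836) (nat_lit 14521105422) (nat_lit 0) (nat_lit 33410096751) (nat_lit 760) (nat_lit 14521105422) (nat_lit 305) (nat_lit 1) (nat_lit 294) (nat_lit 1) (nat_lit 304) (nat_lit 1) (nat_lit 228) (nat_lit 398) (nat_lit 394)) (XT.lf (nat_lit 836) (nat_lit 26117153890) (nat_lit 76) (nat_lit 17441634772) (nat_lit 0) (nat_lit 17441634772) (nat_lit 305) (nat_lit 1) (nat_lit 295) (nat_lit 1) (nat_lit 294) (nat_lit 1) (nat_lit 229) (nat_lit 398) (nat_lit 393)))) (XT.nd (nat_lit 156) (nat_lit 0) (nat_lit 76) (XT.nd (nat_lit 78) (nat_lit 0) (nat_lit 0) (XT.lf (nat_lit 836) (nat_lit 11451617649) (nat_lit 0) (nat_lit 36694053216) (nat_lit 760) (nat_lit 11451617649) (nat_lit 306) (nat_lit 1) (nat_lit 295) (nat_lit 1) (nat_lit 305) (nat_lit 1) (nat_lit 230) (nat_lit 398) (nat_lit 392)) (XT.lf (nat_lit 836) (nat_lit 19250520881) (nat_lit 76) (nat_lit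 19491132913) (nat_lit 0) (nat_lit 19491132913) (nat_lit 306) (nat_lit 1) (nat_lit 296) (nat_lit 1) (nat_lit 295) (nat_lit 1) (nat_lit 231) (nat_lit 398) (nat_lit 391))) (XT.nd (nat_lit 78) (nat_lit 0) (nat_lit 0) (XT.lf (nat_lit 836) (nat_lit 7728081468) (nat_lit 0) (nat_lit 41462070511) (nat_lit 760) (nat_lit 7728081468) (nat_lit 307) (nat_lit 1) (nat_lit 296) (nat_lit 1) (nat_lit 306) (nat_lit 1) (nat_lit 232) (nat_lit 398) (nat_lit 390)) (XT.lf (nat_lit 836) (nat_lit 11173745630) (nat_lit 76) (nat_lit 22230343712) (nat_lit 0) (nat_lit 22230343712) (nat_lit 307) (nat_lit 1) (nat_lit 297) (nat_lit 1) (nat_lit 296) (nat_lit 1) (nat_lit 233) (nat_lit 398) (nat_lit 389))))))) (XT.nd (nat_lit 936) (nat_lit 1900) (nat_lit 0) (XT.nd (nat_lit 468) (nat_lit 1368) (nat_lit 0) (XT.nd (nat_lit 234) (nat_lit 380) (nat_lit 0) (XT.nd (nat_lit 78) (nat_lit 1292) (nat_lit 0) (XT.lf (nat_lit 76) (nat_lit 3456038400)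 (nat_lit 0) (nat_lit 47490966538) (nat_lit 760) (nat_lit 3456038400) (nat_lit 298) (nat_lit 1) (nat_lit 297) (nat_lit 1) (nat_lit 307) (nat_lit 1) (nat_lit 234) (nat_lit 398) (nat_lit 388)) (XT.nd (nat_lit 78) (nat_lit 532) (nat_lit 0) (XT.lf (nat_lit 836) (nat_lit 2087361249) (nat_lit 0) (nat_lit 25553227291) (nat_lit 760) (nat_lit 25553227291) (nat_lit 298) (nat_lit 1) (nat_lit 287) (nat_lit 1) (nat_lit 297) (nat_lit 1) (nat_lit 235) (nat_lit 398) (nat_lit 387)) (XT.lf (nat_lit 532) (nat_lit 49535711202) (nat_lit 0) (nat_lit 1250413900) (nat_lit 456) (nat_lit 1250413900) (nat_lit 287) (nat_lit 1) (nat_lit 280) (nat_lit 1) (nat_lit 286) (nat_lit 1) (nat_lit 236) (nat_lit 398) (nat_lit 386)))) (XT.nd (nat_lit 78) (nat_lit 380) (nat_lit 0) (XT.lf (nat_lit 76) (nat_lit 21656926723) (nat_lit 0) (nat_lit 7580295701) (nat_lit 532) (nat_lit 21656926723) (nat_lit 281) (nat_lit 1) (nat_lit 280) (nat_lit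 1) (nat_lit 287) (nat_lit 1) (nat_lit 237) (nat_lit 398) (nat_lit 385)) (XT.nd (nat_lit 78) (nat_lit 0) (nat_lit 0) (XT.lf (nat_lit 456) (nat_lit 37266011799) (nat_lit 0) (nat_lit 6267162485) (nat_lit 380) (nat_lit 6267162485) (nat_lit 281) (nat_lit 1) (nat_lit 275) (nat_lit 1) (nat_lit 280) (nat_lit 1) (nat_lit 238) (nat_lit 398) (nat_lit 384)) (XT.lf (nat_lit 76) (nat_lit 15447622192) (nat_lit 0) (nat_lit 17834274967) (nat_lit 456) (nat_lit 15447622192) (nat_lit 276) (nat_lit 1) (nat_lit 275) (nat_lit 1) (nat_lit 281) (nat_lit 1) (nat_lit 239) (nat_lit 398) (nat_lit 383))))) (XT.nd (nat_lit 234) (nat_lit 684) (nat_lit 0) (XT.nd (nat_lit 78) (nat_lit 304) (nat_lit 0) (XT.lf (nat_lit 456) (nat_lit 24540197250) (nat_lit 0) (nat_lit 11577899194) (nat_lit 380) (nat_lit 11577899194) (nat_lit 276) (nat_lit 1) (nat_lit 270) (nat_lit 1) (nat_lit 275) (nat_lit 1) (nat_lit 240) (nat_lit 398) (nat_lit 382))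 (XT.nd (nat_lit 78) (nat_lit 304) (nat_lit 0) (XT.lf (nat_lit 76) (nat_lit 9042736546) (nat_lit 0) (nat_lit 28607057185) (nat_lit 456) (nat_lit 9042736546) (nat_lit 271) (nat_lit 1) (nat_lit 270) (nat_lit 1) (nat_lit 276) (nat_lit 1) (nat_lit 241) (nat_lit 398) (nat_lit 381)) (XT.lf (nat_lit 380) (nat_lit 11476712604) (nat_lit 0) (nat_lit 17119082376) (nat_lit 304) (nat_lit 17119082376) (nat_lit 271) (nat_lit 1) (nat_lit 266) (nat_lit 1) (nat_lit 270) (nat_lit 1) (nat_lit 242) (nat_lit 398) (nat_lit 380)))) (XT.nd (nat_lit 78) (nat_lit 684) (nat_lit 0) (XT.lf (nat_lit 76) (nat_lit 2497256083) (nat_lit 0) (nat_lit 39780307987) (nat_lit 380) (nat_lit 2497256083) (nat_lit 267) (nat_lit 1) (nat_lit 266) (nat_lit 1) (nat_lit 271) (nat_lit 1) (nat_lit 243) (nat_lit 398) (nat_lit 379)) (XT.nd (nat_lit 78) (nat_lit 304) (nat_lit 0) (XT.lf (nat_lit 76) (nat_lit 21042597344) (nat_lit 0) (nat_lit 1762358403)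 (nat_lit 380) (nat_lit 21042597344) (nat_lit 262) (nat_lit 1) (nat_lit 261) (nat_lit 1) (nat_lit 266) (nat_lit 1) (nat_lit 244) (nat_lit 398) (nat_lit 378)) (XT.lf (nat_lit 380) (nat_lit 34807774459) (nat_lit 0) (nat_lit 4073912085) (nat_lit 304) (nat_lit 4073912085) (nat_lit 262) (nat_lit 1) (nat_lit 257) (nat_lit 1) (nat_lit 261) (nat_lit 1) (nat_lit 245) (nat_lit 398) (nat_lit 377)))))) (XT.nd (nat_lit 468) (nat_lit 988) (nat_lit 0) (XT.nd (nat_lit 234) (nat_lit 608) (nat_lit 0) (XT.nd (nat_lit 78) (nat_lit 304) (nat_lit 0) (XT.lf (nat_lit 76) (nat_lit 13653139398) (nat_lit 0) (nat_lit 14772667049) (nat_lit 380) (nat_lit 13653139398) (nat_lit 258) (nat_lit 1) (nat_lit 257) (nat_lit 1) (nat_lit 262) (nat_lit 1) (nat_lit 246) (nat_lit 398) (nat_lit 376)) (XT.nd (nat_lit 78) (nat_lit 0) (nat_lit 0) (XT.lf (nat_lit 380) (nat_lit 19923728391) (nat_lit 0) (nat_lit 10654481954) (nat_lit 304) (nat_lit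 10654481954) (nat_lit 258) (nat_lit 1) (nat_lit 253) (nat_lit 1) (nat_lit 257) (nat_lit 1) (nat_lit 247) (nat_lit 398) (nat_lit 375)) (XT.lf (nat_lit 76) (nat_lit 6283054753) (nat_lit 0) (nat_lit 27845073772) (nat_lit 380) (nat_lit 6283054753) (nat_lit 254) (nat_lit 1) (nat_lit 253) (nat_lit 1) (nat_lit 258) (nat_lit 1) (nat_lit 248) (nat_lit 398) (nat_lit 374)))) (XT.nd (nat_lit 78) (nat_lit 380) (nat_lit 0) (XT.lf (nat_lit 304) (nat_lit 5109739332) (nat_lit 0) (nat_lit 17248834008) (nat_lit 228) (nat_lit 17248834008) (nat_lit 254) (nat_lit 1) (nat_lit 250) (nat_lit 1) (nat_lit 253) (nat_lit 1) (nat_lit 249) (nat_lit 398) (nat_lit 373)) (XT.nd (nat_lit 78) (nat_lit 0) (nat_lit 0) (XT.lf (nat_lit 380) (nat_lit 36792791265) (nat_lit 0) (nat_lit 1020929359) (nat_lit 304) (nat_lit 1020929359) (nat_lit 250) (nat_lit 1) (nat_lit 245) (nat_lit 1) (nat_lit 249) (nat_lit 1) (nat_lit 250) (nat_lit 398)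 (nat_lit 372)) (XT.lf (nat_lit 76) (nat_lit 14397291226) (nat_lit 0) (nat_lit 9271587286) (nat_lit 380) (nat_lit 14397291226) (nat_lit 246) (nat_lit 1) (nat_lit 245) (nat_lit 1) (nat_lit 250) (nat_lit 1) (nat_lit 251) (nat_lit 398) (nat_lit 371))))) (XT.nd (nat_lit 234) (nat_lit 532) (nat_lit 0) (XT.nd (nat_lit 78) (nat_lit 228) (nat_lit 0) (XT.lf (nat_lit 304) (nat_lit 21027698996) (nat_lit 0) (nat_lit 8149731880) (nat_lit 228) (nat_lit 8149731880) (nat_lit 246) (nat_lit 1) (nat_lit 242) (nat_lit 1) (nat_lit 245) (nat_lit 1) (nat_lit 252) (nat_lit 398) (nat_lit 370)) (XT.nd (nat_lit 78) (nat_lit 228) (nat_lit 0) (XT.lf (nat_lit 76) (nat_lit 6642975378) (nat_lit 0) (nat_lit 23320980761) (nat_lit 304) (nat_lit 6642975378) (nat_lit 243) (nat_lit 1) (nat_lit 242) (nat_lit 1) (nat_lit 246) (nat_lit 1) (nat_lit 253) (nat_lit 398) (nat_lit 369)) (XT.lf (nat_lit 304) (nat_lit 5536712343) (nat_lit 0) (nat_lit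 15183186500) (nat_lit 228) (nat_lit 15183186500) (nat_lit 243) (nat_lit 1) (nat_lit 239) (nat_lit 1) (nat_lit 242) (nat_lit 1) (nat_lit 254) (nat_lit 398) (nat_lit 368)))) (XT.nd (nat_lit 156) (nat_lit 228) (nat_lit 0) (XT.nd (nat_lit 78) (nat_lit 0) (nat_lit 0) (XT.lf (nat_lit 304) (nat_lit 33322305530) (nat_lit 0) (nat_lit 951541209) (nat_lit 228) (nat_lit 951541209) (nat_lit 239) (nat_lit 1) (nat_lit 235) (nat_lit 1) (nat_lit 238) (nat_lit 1) (nat_lit 255) (nat_lit 398) (nat_lit 367)) (XT.lf (nat_lit 76) (nat_lit 12604873891) (nat_lit 0) (nat_lit 9340084986) (nat_lit 304) (nat_lit 12604873891) (nat_lit 236) (nat_lit 1) (nat_lit 235) (nat_lit 1) (nat_lit 239) (nat_lit 1) (nat_lit 256) (nat_lit 398) (nat_lit 366))) (XT.nd (nat_lit 78) (nat_lit 0) (nat_lit 0) (XT.lf (nat_lit 304) (nat_lit 17332855776) (nat_lit 0) (nat_lit 8283208730) (nat_lit 228) (nat_lit 8283208730) (nat_lit 236) (nat_lit 1)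 (nat_lit 232) (nat_lit 1) (nat_lit 235) (nat_lit 1) (nat_lit 257) (nat_lit 398) (nat_lit 365)) (XT.lf (nat_lit 76) (nat_lit 4773454344) (nat_lit 0) (nat_lit 23719253320) (nat_lit 304) (nat_lit 4773454344) (nat_lit 233) (nat_lit 1) (nat_lit 232) (nat_lit 1) (nat_lit 236) (nat_lit 1) (nat_lit 258) (nat_lit 398) (nat_lit 364))))))))
noncomputable def ec247 : XT := (XT.nd (nat_lit 1950) (nat_lit 1976) (nat_lit 0) (XT.nd (nat_lit 936) (nat_lit 1216) (nat_lit 0) (XT.nd (nat_lit 468) (nat_lit 684) (nat_lit 0) (XT.nd (nat_lit 234) (nat_lit 380) (nat_lit 0) (XT.nd (nat_lit 78) (nat_lit 304) (nat_lit 0) (XT.lf (nat_lit 228) (nat_lit 1749152386) (nat_lit 0) (nat_lit 15447914498) (nat_lit 152) (nat_lit 15447914498) (nat_lit 233) (nat_lit 1) (nat_lit 230) (nat_lit 1) (nat_lit 232) (nat_lit 1) (nat_lit 259) (nat_lit 398) (nat_lit 363)) (XT.nd (nat_lit 78) (nat_lit 0) (nat_lit 0) (XT.lf (nat_lit 304) (nat_lit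 26429106037) (nat_lit 0) (nat_lit 2806962628) (nat_lit 228) (nat_lit 2806962628) (nat_lit 230) (nat_lit 1) (nat_lit 226) (nat_lit 1) (nat_lit 229) (nat_lit 1) (nat_lit 260) (nat_lit 398) (nat_lit 362)) (XT.lf (nat_lit 76) (nat_lit 9231059387) (nat_lit 0) (nat_lit 12985694662) (nat_lit 304) (nat_lit 9231059387) (nat_lit 227) (nat_lit 1) (nat_lit 226) (nat_lit 1) (nat_lit 230) (nat_lit 1) (nat_lit 261) (nat_lit 398) (nat_lit 361)))) (XT.nd (nat_lit 78) (nat_lit 228) (nat_lit 0) (XT.lf (nat_lit 228) (nat_lit 10665065170) (nat_lit 0) (nat_lit 10102950233) (nat_lit 152) (nat_lit 10102950233) (nat_lit 227) (nat_lit 1) (nat_lit 224) (nat_lit 1) (nat_lit 226) (nat_lit 1) (nat_lit 262) (nat_lit 398) (nat_lit 360)) (XT.nd (nat_lit 78) (nat_lit 228) (nat_lit 0) (XT.lf (nat_lit 76) (nat_lit 1532231349) (nat_lit 0) (nat_lit 27248798502) (nat_lit 228) (nat_lit 1532231349) (nat_lit 225) (nat_lit 1) (nat_lit 224)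 (nat_lit 1) (nat_lit 227) (nat_lit 1) (nat_lit 263) (nat_lit 398) (nat_lit 359)) (XT.lf (nat_lit 76) (nat_lit 12645774150) (nat_lit 0) (nat_lit 4466035760) (nat_lit 228) (nat_lit 12645774150) (nat_lit 222) (nat_lit 1) (nat_lit 221) (nat_lit 1) (nat_lit 224) (nat_lit 1) (nat_lit 264) (nat_lit 398) (nat_lit 358))))) (XT.nd (nat_lit 234) (nat_lit 380) (nat_lit 0) (XT.nd (nat_lit 78) (nat_lit 152) (nat_lit 0) (XT.lf (nat_lit 228) (nat_lit 17560873770) (nat_lit 0) (nat_lit 5829734297) (nat_lit 152) (nat_lit 5829734297) (nat_lit 222) (nat_lit 1) (nat_lit 219) (nat_lit 1) (nat_lit 221) (nat_lit 1) (nat_lit 265) (nat_lit 398) (nat_lit 357)) (XT.nd (nat_lit 78) (nat_lit 152) (nat_lit 0) (XT.lf (nat_lit 76) (nat_lit 4955221711) (nat_lit 0) (nat_lit 18784531462) (nat_lit 228) (nat_lit 4955221711) (nat_lit 220) (nat_lit 1) (nat_lit 219) (nat_lit 1) (nat_lit 222) (nat_lit 1) (nat_lit 266) (nat_lit 398) (nat_lit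 356)) (XT.lf (nat_lit 228) (nat_lit 2321342966) (nat_lit 0) (nat_lit 12929427246) (nat_lit 152) (nat_lit 12929427246) (nat_lit 220) (nat_lit 1) (nat_lit 217) (nat_lit 1) (nat_lit 219) (nat_lit 1) (nat_lit 267) (nat_lit 398) (nat_lit 355)))) (XT.nd (nat_lit 78) (nat_lit 152) (nat_lit 0) (XT.lf (nat_lit 228) (nat_lit 22815658368) (nat_lit 0) (nat_lit 2432338869) (nat_lit 152) (nat_lit 2432338869) (nat_lit 217) (nat_lit 1) (nat_lit 214) (nat_lit 1) (nat_lit 216) (nat_lit 1) (nat_lit 268) (nat_lit 398) (nat_lit 354)) (XT.nd (nat_lit 78) (nat_lit 152) (nat_lit 0) (XT.lf (nat_lit 76) (nat_lit 7595388581) (nat_lit 0) (nat_lit 11993963854) (nat_lit 228) (nat_lit 7595388581) (nat_lit 215) (nat_lit 1) (nat_lit 214) (nat_lit 1) (nat_lit 217) (nat_lit 1) (nat_lit 269) (nat_lit 398) (nat_lit 353)) (XT.lf (nat_lit 228) (nat_lit 7735534510) (nat_lit 0) (nat_lit 9483999615) (nat_lit 152) (nat_lit 9483999615) (nat_lit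 215) (nat_lit 1) (nat_lit 212) (nat_lit 1) (nat_lit 214) (nat_lit 1) (nat_lit 270) (nat_lit 398) (nat_lit 352)))))) (XT.nd (nat_lit 468) (nat_lit 608) (nat_lit 0) (XT.nd (nat_lit 234) (nat_lit 304) (nat_lit 0) (XT.nd (nat_lit 78) (nat_lit 304) (nat_lit 0) (XT.lf (nat_lit 76) (nat_lit 254245685) (nat_lit 0) (nat_lit 25730711057) (nat_lit 228) (nat_lit 254245685) (nat_lit 213) (nat_lit 1) (nat_lit 212) (nat_lit 1) (nat_lit 215) (nat_lit 1) (nat_lit 271) (nat_lit 398) (nat_lit 351)) (XT.nd (nat_lit 78) (nat_lit 152) (nat_lit 0) (XT.lf (nat_lit 76) (nat_lit 9599902523) (nat_lit 0) (nat_lit 6572114539) (nat_lit 152) (nat_lit 9599902523) (nat_lit 211) (nat_lit 1) (nat_lit 210) (nat_lit 1) (nat_lit 212) (nat_lit 1) (nat_lit 272) (nat_lit 398) (nat_lit 350)) (XT.lf (nat_lit 228) (nat_lit 11912386153) (nat_lit 0) (nat_lit 6704345976) (nat_lit 152) (nat_lit 6704345976) (nat_lit 211) (nat_lit 1) (nat_lit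 208) (nat_lit 1) (nat_lit 210) (nat_lit 1) (nat_lit 273) (nat_lit 398) (nat_lit 349)))) (XT.nd (nat_lit 78) (nat_lit 304) (nat_lit 0) (XT.lf (nat_lit 76) (nat_lit 2388351094) (nat_lit 0) (nat_lit 20105703791) (nat_lit 228) (nat_lit 2388351094) (nat_lit 209) (nat_lit 1) (nat_lit 208) (nat_lit 1) (nat_lit 211) (nat_lit 1) (nat_lit 274) (nat_lit 398) (nat_lit 348)) (XT.nd (nat_lit 78) (nat_lit 152) (nat_lit 0) (XT.lf (nat_lit 76) (nat_lit 11089442173) (nat_lit 0) (nat_lit 2268467080) (nat_lit 152) (nat_lit 11089442173) (nat_lit 207) (nat_lit 1) (nat_lit 206) (nat_lit 1) (nat_lit 208) (nat_lit 1) (nat_lit 275) (nat_lit 398) (nat_lit 347)) (XT.lf (nat_lit 228) (nat_lit 15084485538) (nat_lit 0) (nat_lit 4469811570) (nat_lit 152) (nat_lit 4469811570) (nat_lit 207) (nat_lit 1) (nat_lit 204) (nat_lit 1) (nat_lit 206) (nat_lit 1) (nat_lit 276) (nat_lit 398) (nat_lit 346))))) (XT.nd (nat_lit 234) (nat_lit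 304) (nat_lit 0) (XT.nd (nat_lit 78) (nat_lit 304) (nat_lit 0) (XT.lf (nat_lit 76) (nat_lit 4040314298) (nat_lit 0) (nat_lit 15528616197) (nat_lit 228) (nat_lit 4040314298) (nat_lit 205) (nat_lit 1) (nat_lit 204) (nat_lit 1) (nat_lit 207) (nat_lit 1) (nat_lit 277) (nat_lit 398) (nat_lit 345)) (XT.nd (nat_lit 78) (nat_lit 228) (nat_lit 0) (XT.lf (nat_lit 152) (nat_lit 1159827101) (nat_lit 0) (nat_lit 11021191245) (nat_lit 76) (nat_lit 11021191245) (nat_lit 205) (nat_lit 1) (nat_lit 203) (nat_lit 1) (nat_lit 204) (nat_lit 1) (nat_lit 278) (nat_lit 398) (nat_lit 344)) (XT.lf (nat_lit 228) (nat_lit 17442554031) (nat_lit 0) (nat_lit 2681257940) (nat_lit 152) (nat_lit 2681257940) (nat_lit 203) (nat_lit 1) (nat_lit 200) (nat_lit 1) (nat_lit 202) (nat_lit 1) (nat_lit 279) (nat_lit 398) (nat_lit 343)))) (XT.nd (nat_lit 156) (nat_lit 228) (nat_lit 0) (XT.nd (nat_lit 78) (nat_lit 76) (nat_lit 0) (XT.lf (nat_lit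 76) (nat_lit 5300559375) (nat_lit 0) (nat_lit 11811244242) (nat_lit 228) (nat_lit 5300559375) (nat_lit 201) (nat_lit 1) (nat_lit 200) (nat_lit 1) (nat_lit 203) (nat_lit 1) (nat_lit 280) (nat_lit 398) (nat_lit 342)) (XT.lf (nat_lit 152) (nat_lit 3894962162) (nat_lit 0) (nat_lit 9067161312) (nat_lit 76) (nat_lit 9067161312) (nat_lit 201) (nat_lit 1) (nat_lit 199) (nat_lit 1) (nat_lit 200) (nat_lit 1) (nat_lit 281) (nat_lit 398) (nat_lit 341))) (XT.nd (nat_lit 78) (nat_lit 0) (nat_lit 0) (XT.lf (nat_lit 228) (nat_lit 19142899460) (nat_lit 0) (nat_lit 1257242208) (nat_lit 152) (nat_lit 1257242208) (nat_lit 199) (nat_lit 1) (nat_lit 196) (nat_lit 1) (nat_lit 198) (nat_lit 1) (nat_lit 282) (nat_lit 398) (nat_lit 340)) (XT.lf (nat_lit 76) (nat_lit 6243243127) (nat_lit 0) (nat_lit 8798866789) (nat_lit 228) (nat_lit 6243243127) (nat_lit 197) (nat_lit 1) (nat_lit 196) (nat_lit 1) (nat_lit 199) (nat_lit 1)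 (nat_lit 283) (nat_lit 398) (nat_lit 339))))))) (XT.nd (nat_lit 1014) (nat_lit 912) (nat_lit 0) (XT.nd (nat_lit 468) (nat_lit 532) (nat_lit 0) (XT.nd (nat_lit 234) (nat_lit 228) (nat_lit 0) (XT.nd (nat_lit 78) (nat_lit 228) (nat_lit 0) (XT.lf (nat_lit 152) (nat_lit 6005127901) (nat_lit 0) (nat_lit 7459576051) (nat_lit 76) (nat_lit 7459576051) (nat_lit 197) (nat_lit 1) (nat_lit 195) (nat_lit 1) (nat_lit 196) (nat_lit 1) (nat_lit 284) (nat_lit 398) (nat_lit 338)) (XT.nd (nat_lit 78) (nat_lit 0) (nat_lit 0) (XT.lf (nat_lit 228) (nat_lit 20313546087) (nat_lit 0) (nat_lit 130874053) (nat_lit 152) (nat_lit 130874053) (nat_lit 195) (nat_lit 1) (nat_lit 192) (nat_lit 1) (nat_lit 194) (nat_lit 1) (nat_lit 285) (nat_lit 398) (nat_lit 337)) (XT.lf (nat_lit 76) (nat_lit 6929150440) (nat_lit 0) (nat_lit 6364303693) (nat_lit 228) (nat_lit 6929150440) (nat_lit 193) (nat_lit 1) (nat_lit 192) (nat_lit 1) (nat_lit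 195) (nat_lit 1) (nat_lit 286) (nat_lit 398) (nat_lit 336)))) (XT.nd (nat_lit 78) (nat_lit 152) (nat_lit 0) (XT.lf (nat_lit 152) (nat_lit 7607798244) (nat_lit 0) (nat_lit 6137011678) (nat_lit 76) (nat_lit 6137011678) (nat_lit 193) (nat_lit 1) (nat_lit 191) (nat_lit 1) (nat_lit 192) (nat_lit 1) (nat_lit 287) (nat_lit 398) (nat_lit 335)) (XT.nd (nat_lit 78) (nat_lit 152) (nat_lit 0) (XT.lf (nat_lit 0) (nat_lit 765110293) (nat_lit 0) (nat_lit 18021106848) (nat_lit 152) (nat_lit 765110293) (nat_lit 191) (nat_lit 3) (nat_lit 191) (nat_lit 1) (nat_lit 193) (nat_lit 1) (nat_lit 288) (nat_lit 398) (nat_lit 334)) (XT.lf (nat_lit 76) (nat_lit 7408075757) (nat_lit 0) (nat_lit 4403027647) (nat_lit 152) (nat_lit 7408075757) (nat_lit 190) (nat_lit 1) (nat_lit 189) (nat_lit 1) (nat_lit 191) (nat_lit 1) (nat_lit 289) (nat_lit 398) (nat_lit 333))))) (XT.nd (nat_lit 234) (nat_lit 304) (nat_lit 0) (XT.nd (nat_lit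 78) (nat_lit 152) (nat_lit 0) (XT.lf (nat_lit 152) (nat_lit 8799301736) (nat_lit 0) (nat_lit 5048934695) (nat_lit 76) (nat_lit 5048934695) (nat_lit 190) (nat_lit 1) (nat_lit 188) (nat_lit 1) (nat_lit 189) (nat_lit 1) (nat_lit 290) (nat_lit 398) (nat_lit 332)) (XT.nd (nat_lit 78) (nat_lit 152) (nat_lit 0) (XT.lf (nat_lit 0) (nat_lit 1462358883) (nat_lit 0) (nat_lit 15658909954) (nat_lit 152) (nat_lit 1462358883) (nat_lit 188) (nat_lit 3) (nat_lit 188) (nat_lit 1) (nat_lit 190) (nat_lit 1) (nat_lit 291) (nat_lit 398) (nat_lit 331)) (XT.lf (nat_lit 76) (nat_lit 7720781822) (nat_lit 0) (nat_lit 2829142930) (nat_lit 152) (nat_lit 7720781822) (nat_lit 187) (nat_lit 1) (nat_lit 186) (nat_lit 1) (nat_lit 188) (nat_lit 1) (nat_lit 292) (nat_lit 398) (nat_lit 330)))) (XT.nd (nat_lit 156) (nat_lit 228) (nat_lit 0) (XT.nd (nat_lit 78) (nat_lit 0) (nat_lit 0) (XT.lf (nat_lit 152) (nat_lit 9658585689) (nat_lit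 0) (nat_lit 4153771069) (nat_lit 76) (nat_lit 4153771069) (nat_lit 187) (nat_lit 1) (nat_lit 185) (nat_lit 1) (nat_lit 186) (nat_lit 1) (nat_lit 293) (nat_lit 398) (nat_lit 329)) (XT.lf (nat_lit 0) (nat_lit 1996325083) (nat_lit 0) (nat_lit 13675862783) (nat_lit 152) (nat_lit 1996325083) (nat_lit 185) (nat_lit 3) (nat_lit 185) (nat_lit 1) (nat_lit 187) (nat_lit 1) (nat_lit 294) (nat_lit 398) (nat_lit 328))) (XT.nd (nat_lit 78) (nat_lit 76) (nat_lit 0) (XT.lf (nat_lit 76) (nat_lit 7900610658) (nat_lit 0) (nat_lit 1572077355) (nat_lit 152) (nat_lit 7900610658) (nat_lit 184) (nat_lit 1) (nat_lit 183) (nat_lit 1) (nat_lit 185) (nat_lit 1) (nat_lit 295) (nat_lit 398) (nat_lit 327)) (XT.lf (nat_lit 152) (nat_lit 10250312230) (nat_lit 0) (nat_lit 3417317738) (nat_lit 76) (nat_lit 3417317738) (nat_lit 184) (nat_lit 1) (nat_lit 182) (nat_lit 1) (nat_lit 183) (nat_lit 1) (nat_lit 296) (nat_lit 398) (nat_lit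 326)))))) (XT.nd (nat_lit 468) (nat_lit 456) (nat_lit 0) (XT.nd (nat_lit 234) (nat_lit 228) (nat_lit 0) (XT.nd (nat_lit 78) (nat_lit 228) (nat_lit 0) (XT.lf (nat_lit 0) (nat_lit 2397847121) (nat_lit 0) (nat_lit 12006631691) (nat_lit 152) (nat_lit 2397847121) (nat_lit 182) (nat_lit 3) (nat_lit 182) (nat_lit 1) (nat_lit 184) (nat_lit 1) (nat_lit 297) (nat_lit 398) (nat_lit 325)) (XT.nd (nat_lit 78) (nat_lit 76) (nat_lit 0) (XT.lf (nat_lit 76) (nat_lit 7974808461) (nat_lit 0) (nat_lit 573860945) (nat_lit 152) (nat_lit 7974808461) (nat_lit 181) (nat_lit 1) (nat_lit 180) (nat_lit 1) (nat_lit 182) (nat_lit 1) (nat_lit 298) (nat_lit 398) (nat_lit 324)) (XT.lf (nat_lit 152) (nat_lit 10627404745) (nat_lit 0) (nat_lit 2811435760) (nat_lit 76) (nat_lit 2811435760) (nat_lit 181) (nat_lit 1) (nat_lit 179) (nat_lit 1) (nat_lit 180) (nat_lit 1) (nat_lit 299) (nat_lit 398) (nat_lit 323)))) (XT.nd (nat_lit 78)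 (nat_lit 228) (nat_lit 0) (XT.lf (nat_lit 0) (nat_lit 2692205746) (nat_lit 0) (nat_lit 10597376592) (nat_lit 152) (nat_lit 2692205746) (nat_lit 179) (nat_lit 3) (nat_lit 179) (nat_lit 1) (nat_lit 181) (nat_lit 1) (nat_lit 300) (nat_lit 398) (nat_lit 322)) (XT.nd (nat_lit 78) (nat_lit 152) (nat_lit 0) (XT.lf (nat_lit 76) (nat_lit 220159157) (nat_lit 0) (nat_lit 7748893296) (nat_lit 76) (nat_lit 7748893296) (nat_lit 179) (nat_lit 3) (nat_lit 178) (nat_lit 1) (nat_lit 179) (nat_lit 1) (nat_lit 301) (nat_lit 398) (nat_lit 321)) (XT.lf (nat_lit 152) (nat_lit 10833142189) (nat_lit 0) (nat_lit 2312975157) (nat_lit 76) (nat_lit 2312975157) (nat_lit 178) (nat_lit 1) (nat_lit 176) (nat_lit 1) (nat_lit 177) (nat_lit 1) (nat_lit 302) (nat_lit 398) (nat_lit 320))))) (XT.nd (nat_lit 234) (nat_lit 228) (nat_lit 0) (XT.nd (nat_lit 78) (nat_lit 228) (nat_lit 0) (XT.lf (nat_lit 0) (nat_lit 2900113840) (nat_lit 0)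 (nat_lit 9403717458) (nat_lit 152) (nat_lit 2900113840) (nat_lit 176) (nat_lit 3) (nat_lit 176) (nat_lit 1) (nat_lit 178) (nat_lit 1) (nat_lit 303) (nat_lit 398) (nat_lit 319)) (XT.nd (nat_lit 78) (nat_lit 152) (nat_lit 0) (XT.lf (nat_lit 76) (nat_lit 855302904) (nat_lit 0) (nat_lit 7049211112) (nat_lit 76) (nat_lit 7049211112) (nat_lit 176) (nat_lit 3) (nat_lit 175) (nat_lit 1) (nat_lit 176) (nat_lit 1) (nat_lit 304) (nat_lit 398) (nat_lit 318)) (XT.lf (nat_lit 152) (nat_lit 10902881465) (nat_lit 0) (nat_lit 1902890386) (nat_lit 76) (nat_lit 1902890386) (nat_lit 175) (nat_lit 1) (nat_lit 173) (nat_lit 1) (nat_lit 174) (nat_lit 1) (nat_lit 305) (nat_lit 398) (nat_lit 317)))) (XT.nd (nat_lit 156) (nat_lit 152) (nat_lit 0) (XT.nd (nat_lit 78) (nat_lit 76) (nat_lit 0) (XT.lf (nat_lit 0) (nat_lit 3038530366) (nat_lit 0) (nat_lit 8389061158) (nat_lit 152) (nat_lit 3038530366) (nat_lit 173) (nat_lit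 3) (nat_lit 173) (nat_lit 1) (nat_lit 175) (nat_lit 1) (nat_lit 306) (nat_lit 398) (nat_lit 316)) (XT.lf (nat_lit 76) (nat_lit 1345733550) (nat_lit 0) (nat_lit 6441477162) (nat_lit 76) (nat_lit 6441477162) (nat_lit 173) (nat_lit 3) (nat_lit 172) (nat_lit 1) (nat_lit 173) (nat_lit 1) (nat_lit 307) (nat_lit 398) (nat_lit 315))) (XT.nd (nat_lit 78) (nat_lit 0) (nat_lit 0) (XT.lf (nat_lit 152) (nat_lit 10865473827) (nat_lit 0) (nat_lit 1565512630) (nat_lit 76) (nat_lit 1565512630) (nat_lit 172) (nat_lit 1) (nat_lit 170) (nat_lit 1) (nat_lit 171) (nat_lit 1) (nat_lit 308) (nat_lit 398) (nat_lit 314)) (XT.lf (nat_lit 0) (nat_lit 3121329817) (nat_lit 0) (nat_lit 7523224741) (nat_lit 152) (nat_lit 3121329817) (nat_lit 170) (nat_lit 3) (nat_lit 170) (nat_lit 1) (nat_lit 172) (nat_lit 1) (nat_lit 309) (nat_lit 398) (nat_lit 313))))))))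
noncomputable def ec248 : XT := (XT.nd (nat_lit 1950) (nat_lit 1976) (nat_lit 0) (XT.nd (nat_lit 936) (nat_lit 988) (nat_lit 0) (XT.nd (nat_lit 468) (nat_lit 456) (nat_lit 0) (XT.nd (nat_lit 234) (nat_lit 228) (nat_lit 0) (XT.nd (nat_lit 78) (nat_lit 152) (nat_lit 0) (XT.lf (nat_lit 76) (nat_lit 1718637117) (nat_lit 0) (nat_lit 5910917997) (nat_lit 76) (nat_lit 5910917997) (nat_lit 170) (nat_lit 3) (nat_lit 169) (nat_lit 1) (nat_lit 170) (nat_lit 1) (nat_lit 310) (nat_lit 398) (nat_lit 312)) (XT.nd (nat_lit 78) (nat_lit 0) (nat_lit 0) (XT.lf (nat_lit 152) (nat_lit 10744429601) (nat_lit 0) (nat_lit 1287951115) (nat_lit 76) (nat_lit 1287951115) (nat_lit 169) (nat_lit 1) (nat_lit 167) (nat_lit 1) (nat_lit 168) (nat_lit 1) (nat_lit 311) (nat_lit 398) (nat_lit 311)) (XT.lf (nat_lit 0) (nat_lit 3159852779) (nat_lit 0) (nat_lit 6781302627) (nat_lit 152) (nat_lit 3159852779) (nat_lit 167) (nat_lit 3) (nat_lit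 167) (nat_lit 1) (nat_lit 169) (nat_lit 1) (nat_lit 312) (nat_lit 398) (nat_lit 310)))) (XT.nd (nat_lit 78) (nat_lit 152) (nat_lit 0) (XT.lf (nat_lit 76) (nat_lit 1996306813) (nat_lit 0) (nat_lit 5445306668) (nat_lit 76) (nat_lit 5445306668) (nat_lit 167) (nat_lit 3) (nat_lit 166) (nat_lit 1) (nat_lit 167) (nat_lit 1) (nat_lit 313) (nat_lit 398) (nat_lit 309)) (XT.nd (nat_lit 78) (nat_lit 0) (nat_lit 0) (XT.lf (nat_lit 152) (nat_lit 10558875864) (nat_lit 0) (nat_lit 1059600569) (nat_lit 76) (nat_lit 1059600569) (nat_lit 166) (nat_lit 1) (nat_lit 164) (nat_lit 1) (nat_lit 165) (nat_lit 1) (nat_lit 314) (nat_lit 398) (nat_lit 308)) (XT.lf (nat_lit 0) (nat_lit 3163358715) (nat_lit 0) (nat_lit 6142734467) (nat_lit 152) (nat_lit 3163358715) (nat_lit 164) (nat_lit 3) (nat_lit 164) (nat_lit 1) (nat_lit 166) (nat_lit 1) (nat_lit 315) (nat_lit 398) (nat_lit 307))))) (XT.nd (nat_lit 234) (nat_lit 228) (nat_lit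 0) (XT.nd (nat_lit 78) (nat_lit 152) (nat_lit 0) (XT.lf (nat_lit 76) (nat_lit 2197013989) (nat_lit 0) (nat_lit 5034514705) (nat_lit 76) (nat_lit 5034514705) (nat_lit 164) (nat_lit 3) (nat_lit 163) (nat_lit 1) (nat_lit 164) (nat_lit 1) (nat_lit 316) (nat_lit 398) (nat_lit 306)) (XT.nd (nat_lit 78) (nat_lit 0) (nat_lit 0) (XT.lf (nat_lit 152) (nat_lit 10324343820) (nat_lit 0) (nat_lit 871736011) (nat_lit 76) (nat_lit 871736011) (nat_lit 163) (nat_lit 1) (nat_lit 161) (nat_lit 1) (nat_lit 162) (nat_lit 1) (nat_lit 317) (nat_lit 398) (nat_lit 305)) (XT.lf (nat_lit 0) (nat_lit 3139398294) (nat_lit 0) (nat_lit 5590538099) (nat_lit 152) (nat_lit 3139398294) (nat_lit 161) (nat_lit 3) (nat_lit 161) (nat_lit 1) (nat_lit 163) (nat_lit 1) (nat_lit 318) (nat_lit 398) (nat_lit 304)))) (XT.nd (nat_lit 78) (nat_lit 152) (nat_lit 0) (XT.lf (nat_lit 76) (nat_lit 2335724496) (nat_lit 0) (nat_lit 4670143357) (nat_lit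 76) (nat_lit 4670143357) (nat_lit 161) (nat_lit 3) (nat_lit 160) (nat_lit 1) (nat_lit 161) (nat_lit 1) (nat_lit 319) (nat_lit 398) (nat_lit 303)) (XT.nd (nat_lit 78) (nat_lit 0) (nat_lit 0) (XT.lf (nat_lit 152) (nat_lit 10053416083) (nat_lit 0) (nat_lit 717179373) (nat_lit 76) (nat_lit 717179373) (nat_lit 160) (nat_lit 1) (nat_lit 158) (nat_lit 1) (nat_lit 159) (nat_lit 1) (nat_lit 320) (nat_lit 398) (nat_lit 302)) (XT.lf (nat_lit 0) (nat_lit 3094119557) (nat_lit 0) (nat_lit 5110678340) (nat_lit 152) (nat_lit 3094119557) (nat_lit 158) (nat_lit 3) (nat_lit 158) (nat_lit 1) (nat_lit 160) (nat_lit 1) (nat_lit 321) (nat_lit 398) (nat_lit 301)))))) (XT.nd (nat_lit 468) (nat_lit 532) (nat_lit 0) (XT.nd (nat_lit 234) (nat_lit 228) (nat_lit 0) (XT.nd (nat_lit 78) (nat_lit 152) (nat_lit 0) (XT.lf (nat_lit 76) (nat_lit 2424687895) (nat_lit 0) (nat_lit 4345220069) (nat_lit 76) (nat_lit 4345220069) (nat_lit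 158) (nat_lit 3) (nat_lit 157) (nat_lit 1) (nat_lit 158) (nat_lit 1) (nat_lit 322) (nat_lit 398) (nat_lit 300)) (XT.nd (nat_lit 78) (nat_lit 0) (nat_lit 0) (XT.lf (nat_lit 152) (nat_lit 9756258741) (nat_lit 0) (nat_lit 590025245) (nat_lit 76) (nat_lit 590025245) (nat_lit 157) (nat_lit 1) (nat_lit 155) (nat_lit 1) (nat_lit 156) (nat_lit 1) (nat_lit 323) (nat_lit 398) (nat_lit 299)) (XT.lf (nat_lit 0) (nat_lit 3032519636) (nat_lit 0) (nat_lit 4691547538) (nat_lit 152) (nat_lit 3032519636) (nat_lit 155) (nat_lit 3) (nat_lit 155) (nat_lit 1) (nat_lit 157) (nat_lit 1) (nat_lit 324) (nat_lit 398) (nat_lit 298)))) (XT.nd (nat_lit 78) (nat_lit 152) (nat_lit 0) (XT.lf (nat_lit 76) (nat_lit 2473922038) (nat_lit 0) (nat_lit 4053948611) (nat_lit 76) (nat_lit 4053948611) (nat_lit 155) (nat_lit 3) (nat_lit 154) (nat_lit 1) (nat_lit 155) (nat_lit 1) (nat_lit 325) (nat_lit 398) (nat_lit 297)) (XT.nd (nat_lit 78)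 (nat_lit 0) (nat_lit 0) (XT.lf (nat_lit 152) (nat_lit 9441058639) (nat_lit 0) (nat_lit 485415229) (nat_lit 76) (nat_lit 485415229) (nat_lit 154) (nat_lit 1) (nat_lit 152) (nat_lit 1) (nat_lit 153) (nat_lit 1) (nat_lit 326) (nat_lit 398) (nat_lit 296)) (XT.lf (nat_lit 0) (nat_lit 2958651714) (nat_lit 0) (nat_lit 4323538074) (nat_lit 152) (nat_lit 2958651714) (nat_lit 152) (nat_lit 3) (nat_lit 152) (nat_lit 1) (nat_lit 154) (nat_lit 1) (nat_lit 327) (nat_lit 398) (nat_lit 295))))) (XT.nd (nat_lit 234) (nat_lit 304) (nat_lit 0) (XT.nd (nat_lit 78) (nat_lit 152) (nat_lit 0) (XT.lf (nat_lit 76) (nat_lit 2491611598) (nat_lit 0) (nat_lit 3791503370) (nat_lit 76) (nat_lit 3791503370) (nat_lit 152) (nat_lit 3) (nat_lit 151) (nat_lit 1) (nat_lit 152) (nat_lit 1) (nat_lit 328) (nat_lit 398) (nat_lit 294)) (XT.nd (nat_lit 78) (nat_lit 0) (nat_lit 0) (XT.lf (nat_lit 152) (nat_lit 9114382715) (nat_lit 0) (nat_lit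 399352310) (nat_lit 76) (nat_lit 399352310) (nat_lit 151) (nat_lit 1) (nat_lit 149) (nat_lit 1) (nat_lit 150) (nat_lit 1) (nat_lit 329) (nat_lit 398) (nat_lit 293)) (XT.lf (nat_lit 0) (nat_lit 2875795138) (nat_lit 0) (nat_lit 3998690525) (nat_lit 152) (nat_lit 2875795138) (nat_lit 149) (nat_lit 3) (nat_lit 149) (nat_lit 1) (nat_lit 151) (nat_lit 1) (nat_lit 330) (nat_lit 398) (nat_lit 292)))) (XT.nd (nat_lit 156) (nat_lit 76) (nat_lit 0) (XT.nd (nat_lit 78) (nat_lit 152) (nat_lit 0) (XT.lf (nat_lit 76) (nat_lit 2484435805) (nat_lit 0) (nat_lit 3553859982) (nat_lit 76) (nat_lit 3553859982) (nat_lit 149) (nat_lit 3) (nat_lit 148) (nat_lit 1) (nat_lit 149) (nat_lit 1) (nat_lit 331) (nat_lit 398) (nat_lit 291)) (XT.lf (nat_lit 152) (nat_lit 8781473223) (nat_lit 0) (nat_lit 328548134) (nat_lit 76) (nat_lit 328548134) (nat_lit 148) (nat_lit 1) (nat_lit 146) (nat_lit 1) (nat_lit 147) (nat_lit 1) (nat_lit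 332) (nat_lit 398) (nat_lit 290))) (XT.nd (nat_lit 78) (nat_lit 76) (nat_lit 0) (XT.lf (nat_lit 0) (nat_lit 2786595255) (nat_lit 0) (nat_lit 3710404069) (nat_lit 152) (nat_lit 2786595255) (nat_lit 146) (nat_lit 3) (nat_lit 146) (nat_lit 1) (nat_lit 148) (nat_lit 1) (nat_lit 333) (nat_lit 398) (nat_lit 289)) (XT.lf (nat_lit 76) (nat_lit 2457837939) (nat_lit 0) (nat_lit 3337655856) (nat_lit 76) (nat_lit 3337655856) (nat_lit 146) (nat_lit 3) (nat_lit 145) (nat_lit 1) (nat_lit 146) (nat_lit 1) (nat_lit 334) (nat_lit 398) (nat_lit 288))))))) (XT.nd (nat_lit 936) (nat_lit 1064) (nat_lit 0) (XT.nd (nat_lit 468) (nat_lit 456) (nat_lit 0) (XT.nd (nat_lit 234) (nat_lit 228) (nat_lit 0) (XT.nd (nat_lit 78) (nat_lit 76) (nat_lit 0) (XT.lf (nat_lit 152) (nat_lit 8446490236) (nat_lit 0) (nat_lit 270297363) (nat_lit 76) (nat_lit 270297363) (nat_lit 145) (nat_lit 1) (nat_lit 143) (nat_lit 1) (nat_lit 144) (nat_lit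 1) (nat_lit 335) (nat_lit 398) (nat_lit 287)) (XT.nd (nat_lit 78) (nat_lit 76) (nat_lit 0) (XT.lf (nat_lit 0) (nat_lit 2693178315) (nat_lit 0) (nat_lit 3453198112) (nat_lit 152) (nat_lit 2693178315) (nat_lit 143) (nat_lit 3) (nat_lit 143) (nat_lit 1) (nat_lit 145) (nat_lit 1) (nat_lit 336) (nat_lit 398) (nat_lit 286)) (XT.lf (nat_lit 76) (nat_lit 2416246930) (nat_lit 0) (nat_lit 3140075308) (nat_lit 76) (nat_lit 3140075308) (nat_lit 143) (nat_lit 3) (nat_lit 142) (nat_lit 1) (nat_lit 143) (nat_lit 1) (nat_lit 337) (nat_lit 398) (nat_lit 285)))) (XT.nd (nat_lit 78) (nat_lit 76) (nat_lit 0) (XT.lf (nat_lit 152) (nat_lit 8112710785) (nat_lit 0) (nat_lit 222374309) (nat_lit 76) (nat_lit 222374309) (nat_lit 142) (nat_lit 1) (nat_lit 140) (nat_lit 1) (nat_lit 141) (nat_lit 1) (nat_lit 338) (nat_lit 398) (nat_lit 284)) (XT.nd (nat_lit 78) (nat_lit 76) (nat_lit 0) (XT.lf (nat_lit 0) (nat_lit 2597245896)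 (nat_lit 0) (nat_lit 3222516064) (nat_lit 152) (nat_lit 2597245896) (nat_lit 140) (nat_lit 3) (nat_lit 140) (nat_lit 1) (nat_lit 142) (nat_lit 1) (nat_lit 339) (nat_lit 398) (nat_lit 283)) (XT.lf (nat_lit 76) (nat_lit 2363259544) (nat_lit 0) (nat_lit 2958754942) (nat_lit 76) (nat_lit 2958754942) (nat_lit 140) (nat_lit 3) (nat_lit 139) (nat_lit 1) (nat_lit 140) (nat_lit 1) (nat_lit 340) (nat_lit 398) (nat_lit 282))))) (XT.nd (nat_lit 234) (nat_lit 228) (nat_lit 0) (XT.nd (nat_lit 78) (nat_lit 76) (nat_lit 0) (XT.lf (nat_lit 152) (nat_lit 7782692350) (nat_lit 0) (nat_lit 182947894) (nat_lit 76) (nat_lit 182947894) (nat_lit 139) (nat_lit 1) (nat_lit 137) (nat_lit 1) (nat_lit 138) (nat_lit 1) (nat_lit 341) (nat_lit 398) (nat_lit 281)) (XT.nd (nat_lit 78) (nat_lit 76) (nat_lit 0) (XT.lf (nat_lit 0) (nat_lit 2500152465) (nat_lit 0) (nat_lit 3014563780) (nat_lit 152) (nat_lit 2500152465) (nat_lit 137)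 (nat_lit 3) (nat_lit 137) (nat_lit 1) (nat_lit 139) (nat_lit 1) (nat_lit 342) (nat_lit 398) (nat_lit 280)) (XT.lf (nat_lit 76) (nat_lit 2301790155) (nat_lit 0) (nat_lit 2791705693) (nat_lit 76) (nat_lit 2791705693) (nat_lit 137) (nat_lit 3) (nat_lit 136) (nat_lit 1) (nat_lit 137) (nat_lit 1) (nat_lit 343) (nat_lit 398) (nat_lit 279)))) (XT.nd (nat_lit 78) (nat_lit 76) (nat_lit 0) (XT.lf (nat_lit 152) (nat_lit 7458407028) (nat_lit 0) (nat_lit 150511685) (nat_lit 76) (nat_lit 150511685) (nat_lit 136) (nat_lit 1) (nat_lit 134) (nat_lit 1) (nat_lit 135) (nat_lit 1) (nat_lit 344) (nat_lit 398) (nat_lit 278)) (XT.nd (nat_lit 78) (nat_lit 76) (nat_lit 0) (XT.lf (nat_lit 0) (nat_lit 2402969087) (nat_lit 0) (nat_lit 2826176548) (nat_lit 152) (nat_lit 2402969087) (nat_lit 134) (nat_lit 3) (nat_lit 134) (nat_lit 1) (nat_lit 136) (nat_lit 1) (nat_lit 345) (nat_lit 398) (nat_lit 277)) (XT.lf (nat_lit 76) (nat_lit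 2234193867) (nat_lit 0) (nat_lit 2637248593) (nat_lit 76) (nat_lit 2637248593) (nat_lit 134) (nat_lit 3) (nat_lit 133) (nat_lit 1) (nat_lit 134) (nat_lit 1) (nat_lit 346) (nat_lit 398) (nat_lit 276)))))) (XT.nd (nat_lit 468) (nat_lit 608) (nat_lit 0) (XT.nd (nat_lit 234) (nat_lit 228) (nat_lit 0) (XT.nd (nat_lit 78) (nat_lit 76) (nat_lit 0) (XT.lf (nat_lit 152) (nat_lit 7141351606) (nat_lit 0) (nat_lit 123826336) (nat_lit 76) (nat_lit 123826336) (nat_lit 133) (nat_lit 1) (nat_lit 131) (nat_lit 1) (nat_lit 132) (nat_lit 1) (nat_lit 347) (nat_lit 398) (nat_lit 275)) (XT.nd (nat_lit 78) (nat_lit 76) (nat_lit 0) (XT.lf (nat_lit 0) (nat_lit 2306535725) (nat_lit 0) (nat_lit 2654709551) (nat_lit 152) (nat_lit 2306535725) (nat_lit 131) (nat_lit 3) (nat_lit 131) (nat_lit 1) (nat_lit 133) (nat_lit 1) (nat_lit 348) (nat_lit 398) (nat_lit 274)) (XT.lf (nat_lit 76) (nat_lit 2162367690) (nat_lit 0) (nat_lit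 2493961810) (nat_lit 76) (nat_lit 2493961810) (nat_lit 131) (nat_lit 3) (nat_lit 130) (nat_lit 1) (nat_lit 131) (nat_lit 1) (nat_lit 349) (nat_lit 398) (nat_lit 273)))) (XT.nd (nat_lit 78) (nat_lit 76) (nat_lit 0) (XT.lf (nat_lit 152) (nat_lit 6832637818) (nat_lit 0) (nat_lit 101872233) (nat_lit 76) (nat_lit 101872233) (nat_lit 130) (nat_lit 1) (nat_lit 128) (nat_lit 1) (nat_lit 129) (nat_lit 1) (nat_lit 350) (nat_lit 398) (nat_lit 272)) (XT.nd (nat_lit 78) (nat_lit 76) (nat_lit 0) (XT.lf (nat_lit 0) (nat_lit 2211504182) (nat_lit 0) (nat_lit 2497947651) (nat_lit 152) (nat_lit 2211504182) (nat_lit 128) (nat_lit 3) (nat_lit 128) (nat_lit 1) (nat_lit 130) (nat_lit 1) (nat_lit 351) (nat_lit 398) (nat_lit 271)) (XT.lf (nat_lit 76) (nat_lit 2087833695) (nat_lit 0) (nat_lit 2360636998) (nat_lit 76) (nat_lit 2360636998) (nat_lit 128) (nat_lit 3) (nat_lit 127) (nat_lit 1) (nat_lit 128) (nat_lit 1) (nat_lit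 352) (nat_lit 398) (nat_lit 270))))) (XT.nd (nat_lit 234) (nat_lit 380) (nat_lit 0) (XT.nd (nat_lit 78) (nat_lit 76) (nat_lit 0) (XT.lf (nat_lit 152) (nat_lit 6533066306) (nat_lit 0) (nat_lit 83810538) (nat_lit 76) (nat_lit 83810538) (nat_lit 127) (nat_lit 1) (nat_lit 125) (nat_lit 1) (nat_lit 126) (nat_lit 1) (nat_lit 353) (nat_lit 398) (nat_lit 269)) (XT.nd (nat_lit 78) (nat_lit 76) (nat_lit 0) (XT.lf (nat_lit 0) (nat_lit 2118373329) (nat_lit 0) (nat_lit 2354031079) (nat_lit 152) (nat_lit 2118373329) (nat_lit 125) (nat_lit 3) (nat_lit 125) (nat_lit 1) (nat_lit 127) (nat_lit 1) (nat_lit 354) (nat_lit 398) (nat_lit 268)) (XT.lf (nat_lit 76) (nat_lit 2011807323) (nat_lit 0) (nat_lit 2236243276) (nat_lit 76) (nat_lit 2236243276) (nat_lit 125) (nat_lit 3) (nat_lit 124) (nat_lit 1) (nat_lit 125) (nat_lit 1) (nat_lit 355) (nat_lit 398) (nat_lit 267)))) (XT.nd (nat_lit 156) (nat_lit 228) (nat_lit 0)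 (XT.nd (nat_lit 78) (nat_lit 0) (nat_lit 0) (XT.lf (nat_lit 152) (nat_lit 6243187213) (nat_lit 0) (nat_lit 68951137) (nat_lit 76) (nat_lit 68951137) (nat_lit 124) (nat_lit 1) (nat_lit 122) (nat_lit 1) (nat_lit 123) (nat_lit 1) (nat_lit 356) (nat_lit 398) (nat_lit 266)) (XT.lf (nat_lit 0) (nat_lit 2027517995) (nat_lit 0) (nat_lit 2221394209) (nat_lit 152) (nat_lit 2027517995) (nat_lit 122) (nat_lit 3) (nat_lit 122) (nat_lit 1) (nat_lit 124) (nat_lit 1) (nat_lit 357) (nat_lit 398) (nat_lit 265))) (XT.nd (nat_lit 78) (nat_lit 152) (nat_lit 0) (XT.lf (nat_lit 76) (nat_lit 1935253507) (nat_lit 0) (nat_lit 2119897521) (nat_lit 76) (nat_lit 2119897521) (nat_lit 122) (nat_lit 3) (nat_lit 121) (nat_lit 1) (nat_lit 122) (nat_lit 1) (nat_lit 358) (nat_lit 398) (nat_lit 264)) (XT.lf (nat_lit 152) (nat_lit 5963349756) (nat_lit 0) (nat_lit 56726271) (nat_lit 76) (nat_lit 56726271) (nat_lit 121) (nat_lit 1) (nat_lit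 119) (nat_lit 1) (nat_lit 120) (nat_lit 1) (nat_lit 359) (nat_lit 398) (nat_lit 263))))))))
noncomputable def ec249 : XT := (XT.nd (nat_lit 1950) (nat_lit 2052) (nat_lit 0) (XT.nd (nat_lit 936) (nat_lit 912) (nat_lit 0) (XT.nd (nat_lit 468) (nat_lit 456) (nat_lit 0) (XT.nd (nat_lit 234) (nat_lit 228) (nat_lit 0) (XT.nd (nat_lit 78) (nat_lit 228) (nat_lit 0) (XT.lf (nat_lit 0) (nat_lit 1939212658) (nat_lit 0) (nat_lit 2098715099) (nat_lit 152) (nat_lit 1939212658) (nat_lit 119) (nat_lit 3) (nat_lit 119) (nat_lit 1) (nat_lit 121) (nat_lit 1) (nat_lit 360) (nat_lit 398) (nat_lit 262)) (XT.nd (nat_lit 78) (nat_lit 152) (nat_lit 0) (XT.lf (nat_lit 76) (nat_lit 1858932748) (nat_lit 0) (nat_lit 2010839835) (nat_lit 76) (nat_lit 2010839835) (nat_lit 119) (nat_lit 3) (nat_lit 118) (nat_lit 1) (nat_lit 119) (nat_lit 1) (nat_lit 361) (nat_lit 398) (nat_lit 261)) (XT.lf (nat_lit 152) (nat_lit 5693742779) (nat_lit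 0) (nat_lit 46668843) (nat_lit 76) (nat_lit 46668843) (nat_lit 118) (nat_lit 1) (nat_lit 116) (nat_lit 1) (nat_lit 117) (nat_lit 1) (nat_lit 362) (nat_lit 398) (nat_lit 260)))) (XT.nd (nat_lit 78) (nat_lit 228) (nat_lit 0) (XT.lf (nat_lit 0) (nat_lit 1853650848) (nat_lit 0) (nat_lit 1984873901) (nat_lit 152) (nat_lit 1853650848) (nat_lit 116) (nat_lit 3) (nat_lit 116) (nat_lit 1) (nat_lit 118) (nat_lit 1) (nat_lit 363) (nat_lit 398) (nat_lit 259)) (XT.nd (nat_lit 78) (nat_lit 152) (nat_lit 0) (XT.lf (nat_lit 76) (nat_lit 1783438952) (nat_lit 0) (nat_lit 1908413288) (nat_lit 76) (nat_lit 1908413288) (nat_lit 116) (nat_lit 3) (nat_lit 115) (nat_lit 1) (nat_lit 116) (nat_lit 1) (nat_lit 364) (nat_lit 398) (nat_lit 258)) (XT.lf (nat_lit 152) (nat_lit 5434427872) (nat_lit 0) (nat_lit 38394573) (nat_lit 76) (nat_lit 38394573) (nat_lit 115) (nat_lit 1) (nat_lit 113) (nat_lit 1) (nat_lit 114) (nat_lit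 1) (nat_lit 365) (nat_lit 398) (nat_lit 257))))) (XT.nd (nat_lit 234) (nat_lit 228) (nat_lit 0) (XT.nd (nat_lit 78) (nat_lit 228) (nat_lit 0) (XT.lf (nat_lit 0) (nat_lit 1770961041) (nat_lit 0) (nat_lit 1878918571) (nat_lit 152) (nat_lit 1770961041) (nat_lit 113) (nat_lit 3) (nat_lit 113) (nat_lit 1) (nat_lit 115) (nat_lit 1) (nat_lit 366) (nat_lit 398) (nat_lit 256)) (XT.nd (nat_lit 78) (nat_lit 152) (nat_lit 0) (XT.lf (nat_lit 76) (nat_lit 1709230477) (nat_lit 0) (nat_lit 1812047173) (nat_lit 76) (nat_lit 1812047173) (nat_lit 113) (nat_lit 3) (nat_lit 112) (nat_lit 1) (nat_lit 113) (nat_lit 1) (nat_lit 367) (nat_lit 398) (nat_lit 255)) (XT.lf (nat_lit 152) (nat_lit 5185366399) (nat_lit 0) (nat_lit 31587310) (nat_lit 76) (nat_lit 31587310) (nat_lit 112) (nat_lit 1) (nat_lit 110) (nat_lit 1) (nat_lit 111) (nat_lit 1) (nat_lit 368) (nat_lit 398) (nat_lit 254)))) (XT.nd (nat_lit 78) (nat_lit 228)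 (nat_lit 0) (XT.lf (nat_lit 0) (nat_lit 1691219650) (nat_lit 0) (nat_lit 1780036578) (nat_lit 152) (nat_lit 1691219650) (nat_lit 110) (nat_lit 3) (nat_lit 110) (nat_lit 1) (nat_lit 112) (nat_lit 1) (nat_lit 369) (nat_lit 398) (nat_lit 253)) (XT.nd (nat_lit 78) (nat_lit 152) (nat_lit 0) (XT.lf (nat_lit 76) (nat_lit 1636655608) (nat_lit 0) (nat_lit 1721243158) (nat_lit 76) (nat_lit 1721243158) (nat_lit 110) (nat_lit 3) (nat_lit 109) (nat_lit 1) (nat_lit 110) (nat_lit 1) (nat_lit 370) (nat_lit 398) (nat_lit 252)) (XT.lf (nat_lit 152) (nat_lit 4946441521) (nat_lit 0) (nat_lit 25986958) (nat_lit 76) (nat_lit 25986958) (nat_lit 109) (nat_lit 1) (nat_lit 107) (nat_lit 1) (nat_lit 108) (nat_lit 1) (nat_lit 371) (nat_lit 398) (nat_lit 251)))))) (XT.nd (nat_lit 468) (nat_lit 456) (nat_lit 0) (XT.nd (nat_lit 234) (nat_lit 228) (nat_lit 0) (XT.nd (nat_lit 78) (nat_lit 228) (nat_lit 0) (XT.lf (nat_lit 0) (nat_lit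 1614461658) (nat_lit 0) (nat_lit 1687531564) (nat_lit 152) (nat_lit 1614461658) (nat_lit 107) (nat_lit 3) (nat_lit 107) (nat_lit 1) (nat_lit 109) (nat_lit 1) (nat_lit 372) (nat_lit 398) (nat_lit 250)) (XT.nd (nat_lit 78) (nat_lit 152) (nat_lit 0) (XT.lf (nat_lit 76) (nat_lit 1565973442) (nat_lit 0) (nat_lit 1635563829) (nat_lit 76) (nat_lit 1635563829) (nat_lit 107) (nat_lit 3) (nat_lit 106) (nat_lit 1) (nat_lit 107) (nat_lit 1) (nat_lit 373) (nat_lit 398) (nat_lit 249)) (XT.lf (nat_lit 152) (nat_lit 4717476112) (nat_lit 0) (nat_lit 21379535) (nat_lit 76) (nat_lit 21379535) (nat_lit 106) (nat_lit 1) (nat_lit 104) (nat_lit 1) (nat_lit 105) (nat_lit 1) (nat_lit 374) (nat_lit 398) (nat_lit 248)))) (XT.nd (nat_lit 78) (nat_lit 228) (nat_lit 0) (XT.lf (nat_lit 0) (nat_lit 1540689284) (nat_lit 0) (nat_lit 1600804076) (nat_lit 152) (nat_lit 1540689284) (nat_lit 104) (nat_lit 3) (nat_lit 104) (nat_lit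 1) (nat_lit 106) (nat_lit 1) (nat_lit 375) (nat_lit 398) (nat_lit 247)) (XT.nd (nat_lit 78) (nat_lit 152) (nat_lit 0) (XT.lf (nat_lit 76) (nat_lit 1497371010) (nat_lit 0) (nat_lit 1554623194) (nat_lit 76) (nat_lit 1554623194) (nat_lit 104) (nat_lit 3) (nat_lit 103) (nat_lit 1) (nat_lit 104) (nat_lit 1) (nat_lit 376) (nat_lit 398) (nat_lit 246)) (XT.lf (nat_lit 152) (nat_lit 4498247301) (nat_lit 0) (nat_lit 17588996) (nat_lit 76) (nat_lit 17588996) (nat_lit 103) (nat_lit 1) (nat_lit 101) (nat_lit 1) (nat_lit 102) (nat_lit 1) (nat_lit 377) (nat_lit 398) (nat_lit 245))))) (XT.nd (nat_lit 234) (nat_lit 228) (nat_lit 0) (XT.nd (nat_lit 78) (nat_lit 228) (nat_lit 0) (XT.lf (nat_lit 0) (nat_lit 1469879060) (nat_lit 0) (nat_lit 1519335649) (nat_lit 152) (nat_lit 1469879060) (nat_lit 101) (nat_lit 3) (nat_lit 101) (nat_lit 1) (nat_lit 103) (nat_lit 1) (nat_lit 378) (nat_lit 398) (nat_lit 244)) (XT.nd (nat_lit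 78) (nat_lit 152) (nat_lit 0) (XT.lf (nat_lit 76) (nat_lit 1430977297) (nat_lit 0) (nat_lit 1478078810) (nat_lit 76) (nat_lit 1478078810) (nat_lit 101) (nat_lit 3) (nat_lit 100) (nat_lit 1) (nat_lit 101) (nat_lit 1) (nat_lit 379) (nat_lit 398) (nat_lit 243)) (XT.lf (nat_lit 152) (nat_lit 4288498262) (nat_lit 0) (nat_lit 14470510) (nat_lit 76) (nat_lit 14470510) (nat_lit 100) (nat_lit 1) (nat_lit 98) (nat_lit 1) (nat_lit 99) (nat_lit 1) (nat_lit 380) (nat_lit 398) (nat_lit 242)))) (XT.nd (nat_lit 156) (nat_lit 152) (nat_lit 0) (XT.nd (nat_lit 78) (nat_lit 76) (nat_lit 0) (XT.lf (nat_lit 0) (nat_lit 1401987591) (nat_lit 0) (nat_lit 1442675649) (nat_lit 152) (nat_lit 1401987591) (nat_lit 98) (nat_lit 3) (nat_lit 98) (nat_lit 1) (nat_lit 100) (nat_lit 1) (nat_lit 381) (nat_lit 398) (nat_lit 241)) (XT.lf (nat_lit 76) (nat_lit 1366874717) (nat_lit 0) (nat_lit 1405625248) (nat_lit 76) (nat_lit 1405625248)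 (nat_lit 98) (nat_lit 3) (nat_lit 97) (nat_lit 1) (nat_lit 98) (nat_lit 1) (nat_lit 382) (nat_lit 398) (nat_lit 240))) (XT.nd (nat_lit 78) (nat_lit 0) (nat_lit 0) (XT.lf (nat_lit 152) (nat_lit 4087947729) (nat_lit 0) (nat_lit 11904925) (nat_lit 76) (nat_lit 11904925) (nat_lit 97) (nat_lit 1) (nat_lit 95) (nat_lit 1) (nat_lit 96) (nat_lit 1) (nat_lit 383) (nat_lit 398) (nat_lit 239)) (XT.lf (nat_lit 0) (nat_lit 1336956233) (nat_lit 0) (nat_lit 1370430399) (nat_lit 152) (nat_lit 1336956233) (nat_lit 95) (nat_lit 3) (nat_lit 95) (nat_lit 1) (nat_lit 97) (nat_lit 1) (nat_lit 384) (nat_lit 398) (nat_lit 238))))))) (XT.nd (nat_lit 1014) (nat_lit 1064) (nat_lit 0) (XT.nd (nat_lit 468) (nat_lit 532) (nat_lit 0) (XT.nd (nat_lit 234) (nat_lit 228) (nat_lit 0) (XT.nd (nat_lit 78) (nat_lit 152) (nat_lit 0) (XT.lf (nat_lit 76) (nat_lit 1305108501) (nat_lit 0) (nat_lit 1336988659) (nat_lit 76) (nat_lit 1336988659)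 (nat_lit 95) (nat_lit 3) (nat_lit 94) (nat_lit 1) (nat_lit 95) (nat_lit 1) (nat_lit 385) (nat_lit 398) (nat_lit 237)) (XT.nd (nat_lit 78) (nat_lit 0) (nat_lit 0) (XT.lf (nat_lit 152) (nat_lit 3896297662) (nat_lit 0) (nat_lit 9794211) (nat_lit 76) (nat_lit 9794211) (nat_lit 94) (nat_lit 1) (nat_lit 92) (nat_lit 1) (nat_lit 93) (nat_lit 1) (nat_lit 386) (nat_lit 398) (nat_lit 236)) (XT.lf (nat_lit 0) (nat_lit 1274714890) (nat_lit 0) (nat_lit 1302254169) (nat_lit 152) (nat_lit 1274714890) (nat_lit 92) (nat_lit 3) (nat_lit 92) (nat_lit 1) (nat_lit 94) (nat_lit 1) (nat_lit 387) (nat_lit 398) (nat_lit 235)))) (XT.nd (nat_lit 78) (nat_lit 152) (nat_lit 0) (XT.lf (nat_lit 76) (nat_lit 1245694364) (nat_lit 0) (nat_lit 1271922249) (nat_lit 76) (nat_lit 1271922249) (nat_lit 92) (nat_lit 3) (nat_lit 91) (nat_lit 1) (nat_lit 92) (nat_lit 1) (nat_lit 388) (nat_lit 398) (nat_lit 234)) (XT.nd (nat_lit 78) (nat_lit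 0) (nat_lit 0) (XT.lf (nat_lit 152) (nat_lit 3713239394) (nat_lit 0) (nat_lit 8057721) (nat_lit 76) (nat_lit 8057721) (nat_lit 91) (nat_lit 1) (nat_lit 89) (nat_lit 1) (nat_lit 90) (nat_lit 1) (nat_lit 389) (nat_lit 398) (nat_lit 233)) (XT.lf (nat_lit 0) (nat_lit 1215185083) (nat_lit 0) (nat_lit 1237841716) (nat_lit 152) (nat_lit 1215185083) (nat_lit 89) (nat_lit 3) (nat_lit 89) (nat_lit 1) (nat_lit 91) (nat_lit 1) (nat_lit 390) (nat_lit 398) (nat_lit 232))))) (XT.nd (nat_lit 234) (nat_lit 304) (nat_lit 0) (XT.nd (nat_lit 78) (nat_lit 152) (nat_lit 0) (XT.lf (nat_lit 76) (nat_lit 1188624760) (nat_lit 0) (nat_lit 1210202506) (nat_lit 76) (nat_lit 1210202506) (nat_lit 89) (nat_lit 3) (nat_lit 88) (nat_lit 1) (nat_lit 89) (nat_lit 1) (nat_lit 391) (nat_lit 398) (nat_lit 231)) (XT.nd (nat_lit 78) (nat_lit 0) (nat_lit 0) (XT.lf (nat_lit 152) (nat_lit 3538458539) (nat_lit 0) (nat_lit 6629107) (nat_lit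 76) (nat_lit 6629107) (nat_lit 88) (nat_lit 1) (nat_lit 86) (nat_lit 1) (nat_lit 87) (nat_lit 1) (nat_lit 392) (nat_lit 398) (nat_lit 230)) (XT.lf (nat_lit 0) (nat_lit 1158282431) (nat_lit 0) (nat_lit 1176922099) (nat_lit 152) (nat_lit 1158282431) (nat_lit 86) (nat_lit 3) (nat_lit 86) (nat_lit 1) (nat_lit 88) (nat_lit 1) (nat_lit 393) (nat_lit 398) (nat_lit 229)))) (XT.nd (nat_lit 156) (nat_lit 76) (nat_lit 0) (XT.nd (nat_lit 78) (nat_lit 152) (nat_lit 0) (XT.lf (nat_lit 76) (nat_lit 1133873983) (nat_lit 0) (nat_lit 1151626048) (nat_lit 76) (nat_lit 1151626048) (nat_lit 86) (nat_lit 3) (nat_lit 85) (nat_lit 1) (nat_lit 86) (nat_lit 1) (nat_lit 394) (nat_lit 398) (nat_lit 228)) (XT.lf (nat_lit 152) (nat_lit 3371638882) (nat_lit 0) (nat_lit 5453783) (nat_lit 76) (nat_lit 5453783) (nat_lit 85) (nat_lit 1) (nat_lit 83) (nat_lit 1) (nat_lit 84) (nat_lit 1) (nat_lit 395) (nat_lit 398) (nat_lit 227)))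 (XT.nd (nat_lit 78) (nat_lit 76) (nat_lit 0) (XT.lf (nat_lit 0) (nat_lit 1103918637) (nat_lit 0) (nat_lit 1119253538) (nat_lit 152) (nat_lit 1103918637) (nat_lit 83) (nat_lit 3) (nat_lit 83) (nat_lit 1) (nat_lit 85) (nat_lit 1) (nat_lit 396) (nat_lit 398) (nat_lit 226)) (XT.lf (nat_lit 76) (nat_lit 1081402315) (nat_lit 0) (nat_lit 1096006982) (nat_lit 76) (nat_lit 1096006982) (nat_lit 83) (nat_lit 3) (nat_lit 82) (nat_lit 1) (nat_lit 83) (nat_lit 1) (nat_lit 397) (nat_lit 398) (nat_lit 225)))))) (XT.nd (nat_lit 468) (nat_lit 608) (nat_lit 0) (XT.nd (nat_lit 234) (nat_lit 228) (nat_lit 0) (XT.nd (nat_lit 78) (nat_lit 76) (nat_lit 0) (XT.lf (nat_lit 152) (nat_lit 3212465448) (nat_lit 0) (nat_lit 4486841) (nat_lit 76) (nat_lit 4486841) (nat_lit 82) (nat_lit 1) (nat_lit 80) (nat_lit 1) (nat_lit 81) (nat_lit 1) (nat_lit 398) (nat_lit 398) (nat_lit 224)) (XT.nd (nat_lit 78) (nat_lit 76) (nat_lit 0) (XT.lf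 (nat_lit 0) (nat_lit 1052003085) (nat_lit 0) (nat_lit 1064619146) (nat_lit 152) (nat_lit 1052003085) (nat_lit 80) (nat_lit 3) (nat_lit 80) (nat_lit 1) (nat_lit 82) (nat_lit 1) (nat_lit 399) (nat_lit 398) (nat_lit 223)) (XT.lf (nat_lit 76) (nat_lit 1031159391) (nat_lit 0) (nat_lit 1043174688) (nat_lit 76) (nat_lit 1043174688) (nat_lit 80) (nat_lit 3) (nat_lit 79) (nat_lit 1) (nat_lit 80) (nat_lit 1) (nat_lit 400) (nat_lit 398) (nat_lit 222)))) (XT.nd (nat_lit 78) (nat_lit 76) (nat_lit 0) (XT.lf (nat_lit 152) (nat_lit 3060626890) (nat_lit 0) (nat_lit 3691335) (nat_lit 76) (nat_lit 3691335) (nat_lit 79) (nat_lit 1) (nat_lit 77) (nat_lit 1) (nat_lit 78) (nat_lit 1) (nat_lit 401) (nat_lit 398) (nat_lit 221)) (XT.nd (nat_lit 78) (nat_lit 76) (nat_lit 0) (XT.lf (nat_lit 0) (nat_lit 1002444104) (nat_lit 0) (nat_lit 1012823368) (nat_lit 152) (nat_lit 1002444104) (nat_lit 77) (nat_lit 3) (nat_lit 77) (nat_lit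 1) (nat_lit 79) (nat_lit 1) (nat_lit 402) (nat_lit 398) (nat_lit 220)) (XT.lf (nat_lit 76) (nat_lit 983086936) (nat_lit 0) (nat_lit 992971950) (nat_lit 76) (nat_lit 992971950) (nat_lit 77) (nat_lit 3) (nat_lit 76) (nat_lit 1) (nat_lit 77) (nat_lit 1) (nat_lit 403) (nat_lit 398) (nat_lit 219))))) (XT.nd (nat_lit 234) (nat_lit 380) (nat_lit 0) (XT.nd (nat_lit 78) (nat_lit 76) (nat_lit 0) (XT.lf (nat_lit 152) (nat_lit 2915817331) (nat_lit 0) (nat_lit 3036870) (nat_lit 76) (nat_lit 3036870) (nat_lit 76) (nat_lit 1) (nat_lit 74) (nat_lit 1) (nat_lit 75) (nat_lit 1) (nat_lit 404) (nat_lit 398) (nat_lit 218)) (XT.nd (nat_lit 78) (nat_lit 76) (nat_lit 0) (XT.lf (nat_lit 0) (nat_lit 955149971) (nat_lit 0) (nat_lit 963689018) (nat_lit 152) (nat_lit 955149971) (nat_lit 74) (nat_lit 3) (nat_lit 74) (nat_lit 1) (nat_lit 76) (nat_lit 1) (nat_lit 405) (nat_lit 398) (nat_lit 217)) (XT.lf (nat_lit 76) (nat_lit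 937120963) (nat_lit 0) (nat_lit 945253389) (nat_lit 76) (nat_lit 945253389) (nat_lit 74) (nat_lit 3) (nat_lit 73) (nat_lit 1) (nat_lit 74) (nat_lit 1) (nat_lit 406) (nat_lit 398) (nat_lit 216)))) (XT.nd (nat_lit 156) (nat_lit 228) (nat_lit 0) (XT.nd (nat_lit 78) (nat_lit 0) (nat_lit 0) (XT.lf (nat_lit 152) (nat_lit 2777737767) (nat_lit 0) (nat_lit 2498441) (nat_lit 76) (nat_lit 2498441) (nat_lit 73) (nat_lit 1) (nat_lit 71) (nat_lit 1) (nat_lit 72) (nat_lit 1) (nat_lit 407) (nat_lit 398) (nat_lit 215)) (XT.lf (nat_lit 0) (nat_lit 910029698) (nat_lit 0) (nat_lit 917054793) (nat_lit 152) (nat_lit 910029698) (nat_lit 71) (nat_lit 3) (nat_lit 71) (nat_lit 1) (nat_lit 73) (nat_lit 1) (nat_lit 408) (nat_lit 398) (nat_lit 214))) (XT.nd (nat_lit 78) (nat_lit 152) (nat_lit 0) (XT.lf (nat_lit 76) (nat_lit 893193553) (nat_lit 0) (nat_lit 899884119) (nat_lit 76) (nat_lit 899884119) (nat_lit 71) (nat_lit 3)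 (nat_lit 70) (nat_lit 1) (nat_lit 71) (nat_lit 1) (nat_lit 409) (nat_lit 398) (nat_lit 213)) (XT.lf (nat_lit 152) (nat_lit 2646097100) (nat_lit 0) (nat_lit 2055473) (nat_lit 76) (nat_lit 2055473) (nat_lit 70) (nat_lit 1) (nat_lit 68) (nat_lit 1) (nat_lit 69) (nat_lit 1) (nat_lit 410) (nat_lit 398) (nat_lit 212))))))))
noncomputable def ec250 : XT := (XT.nd (nat_lit 1950) (nat_lit 760) (nat_lit 0) (XT.nd (nat_lit 936) (nat_lit 912) (nat_lit 0) (XT.nd (nat_lit 468) (nat_lit 456) (nat_lit 0) (XT.nd (nat_lit 234) (nat_lit 228) (nat_lit 0) (XT.nd (nat_lit 78) (nat_lit 228) (nat_lit 0) (XT.lf (nat_lit 0) (nat_lit 866993640) (nat_lit 0) (nat_lit 872773203) (nat_lit 152) (nat_lit 866993640) (nat_lit 68) (nat_lit 3) (nat_lit 68) (nat_lit 1) (nat_lit 70) (nat_lit 1) (nat_lit 411) (nat_lit 398) (nat_lit 211)) (XT.nd (nat_lit 78) (nat_lit 152) (nat_lit 0) (XT.lf (nat_lit 76) (nat_lit 851234277) (nat_lit 0)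 (nat_lit 856738622) (nat_lit 76) (nat_lit 856738622) (nat_lit 68) (nat_lit 3) (nat_lit 67) (nat_lit 1) (nat_lit 68) (nat_lit 1) (nat_lit 412) (nat_lit 398) (nat_lit 210)) (XT.lf (nat_lit 152) (nat_lit 2520612884) (nat_lit 0) (nat_lit 1691043) (nat_lit 76) (nat_lit 1691043) (nat_lit 67) (nat_lit 1) (nat_lit 65) (nat_lit 1) (nat_lit 66) (nat_lit 1) (nat_lit 413) (nat_lit 398) (nat_lit 209)))) (XT.nd (nat_lit 78) (nat_lit 228) (nat_lit 0) (XT.lf (nat_lit 0) (nat_lit 825953962) (nat_lit 0) (nat_lit 830708822) (nat_lit 152) (nat_lit 825953962) (nat_lit 65) (nat_lit 3) (nat_lit 65) (nat_lit 1) (nat_lit 67) (nat_lit 1) (nat_lit 414) (nat_lit 398) (nat_lit 208)) (XT.nd (nat_lit 78) (nat_lit 152) (nat_lit 0) (XT.lf (nat_lit 76) (nat_lit 811171337) (nat_lit 0) (nat_lit 815699776) (nat_lit 76) (nat_lit 815699776) (nat_lit 65) (nat_lit 3) (nat_lit 64) (nat_lit 1) (nat_lit 65) (nat_lit 1) (nat_lit 415) (nat_lit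 398) (nat_lit 207)) (XT.lf (nat_lit 152) (nat_lit 2401011841) (nat_lit 0) (nat_lit 1391225) (nat_lit 76) (nat_lit 1391225) (nat_lit 64) (nat_lit 1) (nat_lit 62) (nat_lit 1) (nat_lit 63) (nat_lit 1) (nat_lit 416) (nat_lit 398) (nat_lit 206))))) (XT.nd (nat_lit 234) (nat_lit 228) (nat_lit 0) (XT.nd (nat_lit 78) (nat_lit 228) (nat_lit 0) (XT.lf (nat_lit 0) (nat_lit 786824986) (nat_lit 0) (nat_lit 790736821) (nat_lit 152) (nat_lit 786824986) (nat_lit 62) (nat_lit 3) (nat_lit 62) (nat_lit 1) (nat_lit 64) (nat_lit 1) (nat_lit 417) (nat_lit 398) (nat_lit 205)) (XT.nd (nat_lit 78) (nat_lit 152) (nat_lit 0) (XT.lf (nat_lit 76) (nat_lit 772932467) (nat_lit 0) (nat_lit 776658025) (nat_lit 76) (nat_lit 776658025) (nat_lit 62) (nat_lit 3) (nat_lit 61) (nat_lit 1) (nat_lit 62) (nat_lit 1) (nat_lit 418) (nat_lit 398) (nat_lit 204)) (XT.lf (nat_lit 152) (nat_lit 2287030176) (nat_lit 0) (nat_lit 1144564) (nat_lit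 76) (nat_lit 1144564) (nat_lit 61) (nat_lit 1) (nat_lit 59) (nat_lit 1) (nat_lit 60) (nat_lit 1) (nat_lit 419) (nat_lit 398) (nat_lit 203)))) (XT.nd (nat_lit 78) (nat_lit 228) (nat_lit 0) (XT.lf (nat_lit 0) (nat_lit 749523451) (nat_lit 0) (nat_lit 752741728) (nat_lit 152) (nat_lit 749523451) (nat_lit 59) (nat_lit 3) (nat_lit 59) (nat_lit 1) (nat_lit 61) (nat_lit 1) (nat_lit 420) (nat_lit 398) (nat_lit 202)) (XT.nd (nat_lit 78) (nat_lit 152) (nat_lit 0) (XT.lf (nat_lit 76) (nat_lit 736445645) (nat_lit 0) (nat_lit 739510670) (nat_lit 76) (nat_lit 739510670) (nat_lit 59) (nat_lit 3) (nat_lit 58) (nat_lit 1) (nat_lit 59) (nat_lit 1) (nat_lit 421) (nat_lit 398) (nat_lit 201)) (XT.lf (nat_lit 152) (nat_lit 2178413760) (nat_lit 0) (nat_lit 941636) (nat_lit 76) (nat_lit 941636) (nat_lit 58) (nat_lit 1) (nat_lit 56) (nat_lit 1) (nat_lit 57) (nat_lit 1) (nat_lit 422) (nat_lit 398) (nat_lit 200)))))) (XT.nd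 (nat_lit 468) (nat_lit 456) (nat_lit 0) (XT.nd (nat_lit 234) (nat_lit 228) (nat_lit 0) (XT.nd (nat_lit 78) (nat_lit 228) (nat_lit 0) (XT.lf (nat_lit 0) (nat_lit 713968691) (nat_lit 0) (nat_lit 716616375) (nat_lit 152) (nat_lit 713968691) (nat_lit 56) (nat_lit 3) (nat_lit 56) (nat_lit 1) (nat_lit 58) (nat_lit 1) (nat_lit 423) (nat_lit 398) (nat_lit 199)) (XT.nd (nat_lit 78) (nat_lit 152) (nat_lit 0) (XT.lf (nat_lit 76) (nat_lit 701639646) (nat_lit 0) (nat_lit 704161250) (nat_lit 76) (nat_lit 704161250) (nat_lit 56) (nat_lit 3) (nat_lit 55) (nat_lit 1) (nat_lit 56) (nat_lit 1) (nat_lit 424) (nat_lit 398) (nat_lit 198)) (XT.lf (nat_lit 152) (nat_lit 2074918177) (nat_lit 0) (nat_lit 774686) (nat_lit 76) (nat_lit 774686) (nat_lit 55) (nat_lit 1) (nat_lit 53) (nat_lit 1) (nat_lit 54) (nat_lit 1) (nat_lit 425) (nat_lit 398) (nat_lit 197)))) (XT.nd (nat_lit 78) (nat_lit 228) (nat_lit 0) (XT.lf (nat_lit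 0) (nat_lit 680082755) (nat_lit 0) (nat_lit 682261011) (nat_lit 152) (nat_lit 680082755) (nat_lit 53) (nat_lit 3) (nat_lit 53) (nat_lit 1) (nat_lit 55) (nat_lit 1) (nat_lit 426) (nat_lit 398) (nat_lit 196)) (XT.nd (nat_lit 78) (nat_lit 152) (nat_lit 0) (XT.lf (nat_lit 76) (nat_lit 668444475) (nat_lit 0) (nat_lit 670519005) (nat_lit 76) (nat_lit 670519005) (nat_lit 53) (nat_lit 3) (nat_lit 52) (nat_lit 1) (nat_lit 53) (nat_lit 1) (nat_lit 427) (nat_lit 398) (nat_lit 195)) (XT.lf (nat_lit 152) (nat_lit 1976308686) (nat_lit 0) (nat_lit 637336) (nat_lit 76) (nat_lit 637336) (nat_lit 52) (nat_lit 1) (nat_lit 50) (nat_lit 1) (nat_lit 51) (nat_lit 1) (nat_lit 428) (nat_lit 398) (nat_lit 194))))) (XT.nd (nat_lit 234) (nat_lit 228) (nat_lit 0) (XT.nd (nat_lit 78) (nat_lit 228) (nat_lit 0) (XT.lf (nat_lit 0) (nat_lit 647790476) (nat_lit 0) (nat_lit 649582533) (nat_lit 152) (nat_lit 647790476) (nat_lit 50)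 (nat_lit 3) (nat_lit 50) (nat_lit 1) (nat_lit 52) (nat_lit 1) (nat_lit 429) (nat_lit 398) (nat_lit 193)) (XT.nd (nat_lit 78) (nat_lit 152) (nat_lit 0) (XT.lf (nat_lit 76) (nat_lit 636791687) (nat_lit 0) (nat_lit 638498408) (nat_lit 76) (nat_lit 638498408) (nat_lit 50) (nat_lit 3) (nat_lit 49) (nat_lit 1) (nat_lit 50) (nat_lit 1) (nat_lit 430) (nat_lit 398) (nat_lit 192)) (XT.lf (nat_lit 152) (nat_lit 1882360110) (nat_lit 0) (nat_lit 524338) (nat_lit 76) (nat_lit 524338) (nat_lit 49) (nat_lit 1) (nat_lit 47) (nat_lit 1) (nat_lit 48) (nat_lit 1) (nat_lit 431) (nat_lit 398) (nat_lit 191)))) (XT.nd (nat_lit 156) (nat_lit 152) (nat_lit 0) (XT.nd (nat_lit 78) (nat_lit 76) (nat_lit 0) (XT.lf (nat_lit 0) (nat_lit 617019504) (nat_lit 0) (nat_lit 618493834) (nat_lit 152) (nat_lit 617019504) (nat_lit 47) (nat_lit 3) (nat_lit 47) (nat_lit 1) (nat_lit 49) (nat_lit 1) (nat_lit 432) (nat_lit 398) (nat_lit 190))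 (XT.lf (nat_lit 76) (nat_lit 606614634) (nat_lit 0) (nat_lit 608018757) (nat_lit 76) (nat_lit 608018757) (nat_lit 47) (nat_lit 3) (nat_lit 46) (nat_lit 1) (nat_lit 47) (nat_lit 1) (nat_lit 433) (nat_lit 398) (nat_lit 189))) (XT.nd (nat_lit 78) (nat_lit 0) (nat_lit 0) (XT.lf (nat_lit 152) (nat_lit 1792856668) (nat_lit 0) (nat_lit 431374) (nat_lit 76) (nat_lit 431374) (nat_lit 46) (nat_lit 1) (nat_lit 44) (nat_lit 1) (nat_lit 45) (nat_lit 1) (nat_lit 434) (nat_lit 398) (nat_lit 188)) (XT.lf (nat_lit 0) (nat_lit 587700308) (nat_lit 0) (nat_lit 588913243) (nat_lit 152) (nat_lit 587700308) (nat_lit 44) (nat_lit 3) (nat_lit 44) (nat_lit 1) (nat_lit 46) (nat_lit 1) (nat_lit 435) (nat_lit 398) (nat_lit 187))))))) (XT.nd (nat_lit 36582) (nat_lit 0) (nat_lit 18316) (XT.nd (nat_lit 468) (nat_lit 304) (nat_lit 0) (XT.nd (nat_lit 234) (nat_lit 228) (nat_lit 0) (XT.nd (nat_lit 78) (nat_lit 152) (nat_lit 0) (XT.lf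 (nat_lit 76) (nat_lit 577848633) (nat_lit 0) (nat_lit 579003809) (nat_lit 76) (nat_lit 579003809) (nat_lit 44) (nat_lit 3) (nat_lit 43) (nat_lit 1) (nat_lit 44) (nat_lit 1) (nat_lit 436) (nat_lit 398) (nat_lit 186)) (XT.nd (nat_lit 78) (nat_lit 0) (nat_lit 0) (XT.lf (nat_lit 152) (nat_lit 1707591757) (nat_lit 0) (nat_lit 354892) (nat_lit 76) (nat_lit 354892) (nat_lit 43) (nat_lit 1) (nat_lit 41) (nat_lit 1) (nat_lit 42) (nat_lit 1) (nat_lit 437) (nat_lit 398) (nat_lit 185)) (XT.lf (nat_lit 0) (nat_lit 559766150) (nat_lit 0) (nat_lit 560764034) (nat_lit 152) (nat_lit 559766150) (nat_lit 41) (nat_lit 3) (nat_lit 41) (nat_lit 1) (nat_lit 43) (nat_lit 1) (nat_lit 438) (nat_lit 398) (nat_lit 184)))) (XT.nd (nat_lit 78) (nat_lit 152) (nat_lit 0) (XT.lf (nat_lit 76) (nat_lit 550431094) (nat_lit 0) (nat_lit 551381460) (nat_lit 76) (nat_lit 551381460) (nat_lit 41) (nat_lit 3) (nat_lit 40) (nat_lit 1) (nat_lit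 41) (nat_lit 1) (nat_lit 439) (nat_lit 398) (nat_lit 183)) (XT.nd (nat_lit 78) (nat_lit 0) (nat_lit 0) (XT.lf (nat_lit 152) (nat_lit 1626367716) (nat_lit 0) (nat_lit 291971) (nat_lit 76) (nat_lit 291971) (nat_lit 40) (nat_lit 1) (nat_lit 38) (nat_lit 1) (nat_lit 39) (nat_lit 1) (nat_lit 440) (nat_lit 398) (nat_lit 182)) (XT.lf (nat_lit 0) (nat_lit 533153046) (nat_lit 0) (nat_lit 533974008) (nat_lit 152) (nat_lit 533153046) (nat_lit 38) (nat_lit 3) (nat_lit 38) (nat_lit 1) (nat_lit 40) (nat_lit 1) (nat_lit 441) (nat_lit 398) (nat_lit 181))))) (XT.nd (nat_lit 234) (nat_lit 76) (nat_lit 0) (XT.nd (nat_lit 78) (nat_lit 152) (nat_lit 0) (XT.lf (nat_lit 76) (nat_lit 524301588) (nat_lit 0) (nat_lit 525083457) (nat_lit 76) (nat_lit 525083457) (nat_lit 38) (nat_lit 3) (nat_lit 37) (nat_lit 1) (nat_lit 38) (nat_lit 1) (nat_lit 442) (nat_lit 398) (nat_lit 180)) (XT.nd (nat_lit 78) (nat_lit 0) (nat_lit 0)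 (XT.lf (nat_lit 152) (nat_lit 1548995556) (nat_lit 0) (nat_lit 240205) (nat_lit 76) (nat_lit 240205) (nat_lit 37) (nat_lit 1) (nat_lit 35) (nat_lit 1) (nat_lit 36) (nat_lit 1) (nat_lit 443) (nat_lit 398) (nat_lit 179)) (XT.lf (nat_lit 0) (nat_lit 507799711) (nat_lit 0) (nat_lit 508475119) (nat_lit 152) (nat_lit 507799711) (nat_lit 35) (nat_lit 3) (nat_lit 35) (nat_lit 1) (nat_lit 37) (nat_lit 1) (nat_lit 444) (nat_lit 398) (nat_lit 178)))) (XT.nd (nat_lit 35724) (nat_lit 0) (nat_lit 19608) (XT.lf (nat_lit 76) (nat_lit 499401895) (nat_lit 0) (nat_lit 500045140) (nat_lit 76) (nat_lit 500045140) (nat_lit 35) (nat_lit 3) (nat_lit 34) (nat_lit 1) (nat_lit 35) (nat_lit 1) (nat_lit 445) (nat_lit 398) (nat_lit 177)) (XT.nd (nat_lit 78) (nat_lit 0) (nat_lit 0) (XT.lf (nat_lit 836) (nat_lit 9559129036) (nat_lit 0) (nat_lit 16972211632) (nat_lit 836) (nat_lit 9559129036) (nat_lit 303) (nat_lit 1) (nat_lit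 292) (nat_lit 0) (nat_lit 303) (nat_lit 0) (nat_lit 222) (nat_lit 399) (nat_lit 399)) (XT.lf (nat_lit 836) (nat_lit 37052377556) (nat_lit 76) (nat_lit 16698466283) (nat_lit 0) (nat_lit 16698466283) (nat_lit 303) (nat_lit 1) (nat_lit 293) (nat_lit 1) (nat_lit 292) (nat_lit 0) (nat_lit 223) (nat_lit 399) (nat_lit 398)))))) (XT.nd (nat_lit 468) (nat_lit 1368) (nat_lit 0) (XT.nd (nat_lit 234) (nat_lit 0) (nat_lit 76) (XT.nd (nat_lit 78) (nat_lit 0) (nat_lit 0) (XT.lf (nat_lit 836) (nat_lit 17658605246) (nat_lit 0) (nat_lit 33454004307) (nat_lit 760) (nat_lit 17658605246) (nat_lit 304) (nat_lit 1) (nat_lit 293) (nat_lit 1) (nat_lit 303) (nat_lit 1) (nat_lit 224) (nat_lit 399) (nat_lit 397)) (XT.nd (nat_lit 78) (nat_lit 0) (nat_lit 76) (XT.lf (nat_lit 836) (nat_lit 33125089716) (nat_lit 76) (nat_lit 17011122370) (nat_lit 0) (nat_lit 17011122370) (nat_lit 304) (nat_lit 1) (nat_lit 294) (nat_lit 1) (nat_lit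 293) (nat_lit 1) (nat_lit 225) (nat_lit 399) (nat_lit 396)) (XT.lf (nat_lit 836) (nat_lit 15247160693) (nat_lit 0) (nat_lit 35080601589) (nat_lit 760) (nat_lit 15247160693) (nat_lit 305) (nat_lit 1) (nat_lit 294) (nat_lit 1) (nat_lit 304) (nat_lit 1) (nat_lit 226) (nat_lit 399) (nat_lit 395)))) (XT.nd (nat_lit 78) (nat_lit 0) (nat_lit 76) (XT.lf (nat_lit 836) (nat_lit 27423011584) (nat_lit 76) (nat_lit 18313716510) (nat_lit 0) (nat_lit 18313716510) (nat_lit 305) (nat_lit 1) (nat_lit 295) (nat_lit 1) (nat_lit 294) (nat_lit 1) (nat_lit 227) (nat_lit 399) (nat_lit 394)) (XT.nd (nat_lit 78) (nat_lit 0) (nat_lit 0) (XT.lf (nat_lit 836) (nat_lit 12024198531) (nat_lit 0) (nat_lit 38528755877) (nat_lit 760) (nat_lit 12024198531) (nat_lit 306) (nat_lit 1) (nat_lit 295) (nat_lit 1) (nat_lit 305) (nat_lit 1) (nat_lit 228) (nat_lit 399) (nat_lit 393)) (XT.lf (nat_lit 836) (nat_lit 20213046925) (nat_lit 76)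 (nat_lit 20465689558) (nat_lit 0) (nat_lit 20465689558) (nat_lit 306) (nat_lit 1) (nat_lit 296) (nat_lit 1) (nat_lit 295) (nat_lit 1) (nat_lit 229) (nat_lit 399) (nat_lit 392))))) (XT.nd (nat_lit 234) (nat_lit 1596) (nat_lit 0) (XT.nd (nat_lit 78) (nat_lit 0) (nat_lit 0) (XT.lf (nat_lit 836) (nat_lit 8114485541) (nat_lit 0) (nat_lit 43535174037) (nat_lit 760) (nat_lit 8114485541) (nat_lit 307) (nat_lit 1) (nat_lit 296) (nat_lit 1) (nat_lit 306) (nat_lit 1) (nat_lit 230) (nat_lit 399) (nat_lit 391)) (XT.nd (nat_lit 78) (nat_lit 0) (nat_lit 76) (XT.lf (nat_lit 836) (nat_lit 11732432911) (nat_lit 76) (nat_lit 23341860897) (nat_lit 0) (nat_lit 23341860897) (nat_lit 307) (nat_lit 1) (nat_lit 297) (nat_lit 1) (nat_lit 296) (nat_lit 1) (nat_lit 231) (nat_lit 399) (nat_lit 390)) (XT.lf (nat_lit 76) (nat_lit 3628840320) (nat_lit 0) (nat_lit 49865514865) (nat_lit 760) (nat_lit 3628840320) (nat_lit 298) (nat_lit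 1) (nat_lit 297) (nat_lit 1) (nat_lit 307) (nat_lit 1) (nat_lit 232) (nat_lit 399) (nat_lit 389)))) (XT.nd (nat_lit 156) (nat_lit 380) (nat_lit 0) (XT.nd (nat_lit 78) (nat_lit 532) (nat_lit 0) (XT.lf (nat_lit 836) (nat_lit 2191729311) (nat_lit 0) (nat_lit 26830888655) (nat_lit 760) (nat_lit 26830888655) (nat_lit 298) (nat_lit 1) (nat_lit 287) (nat_lit 1) (nat_lit 297) (nat_lit 1) (nat_lit 233) (nat_lit 399) (nat_lit 388)) (XT.lf (nat_lit 532) (nat_lit 52012496762) (nat_lit 0) (nat_lit 1312934595) (nat_lit 456) (nat_lit 1312934595) (nat_lit 287) (nat_lit 1) (nat_lit 280) (nat_lit 1) (nat_lit 286) (nat_lit 1) (nat_lit 234) (nat_lit 399) (nat_lit 387))) (XT.nd (nat_lit 78) (nat_lit 380) (nat_lit 0) (XT.lf (nat_lit 76) (nat_lit 22739773059) (nat_lit 0) (nat_lit 7959310486) (nat_lit 532) (nat_lit 22739773059) (nat_lit 281) (nat_lit 1) (nat_lit 280) (nat_lit 1) (nat_lit 287) (nat_lit 1) (nat_lit 235)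 (nat_lit 399) (nat_lit 386)) (XT.lf (nat_lit 456) (nat_lit 39129312389) (nat_lit 0) (nat_lit 6580520609) (nat_lit 380) (nat_lit 6580520609) (nat_lit 281) (nat_lit 1) (nat_lit 275) (nat_lit 1) (nat_lit 280) (nat_lit 1) (nat_lit 236) (nat_lit 399) (nat_lit 385))))))))
noncomputable def ec251 : XT := (XT.nd (nat_lit 1950) (nat_lit 2660) (nat_lit 0) (XT.nd (nat_lit 936) (nat_lit 1596) (nat_lit 0) (XT.nd (nat_lit 468) (nat_lit 1216) (nat_lit 0) (XT.nd (nat_lit 234) (nat_lit 684) (nat_lit 0) (XT.nd (nat_lit 78) (nat_lit 380) (nat_lit 0) (XT.lf (nat_lit 76) (nat_lit 16220003301) (nat_lit 0) (nat_lit 18725988715) (nat_lit 456) (nat_lit 16220003301) (nat_lit 276) (nat_lit 1) (nat_lit 275) (nat_lit 1) (nat_lit 281) (nat_lit 1) (nat_lit 237) (nat_lit 399) (nat_lit 384)) (XT.nd (nat_lit 78) (nat_lit 0) (nat_lit 0) (XT.lf (nat_lit 456) (nat_lit 25767207113) (nat_lit 0) (nat_lit 12156794154) (nat_lit 380) (nat_lit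 12156794154) (nat_lit 276) (nat_lit 1) (nat_lit 270) (nat_lit 1) (nat_lit 275) (nat_lit 1) (nat_lit 238) (nat_lit 399) (nat_lit 383)) (XT.lf (nat_lit 76) (nat_lit 9494873373) (nat_lit 0) (nat_lit 30037410045) (nat_lit 456) (nat_lit 9494873373) (nat_lit 271) (nat_lit 1) (nat_lit 270) (nat_lit 1) (nat_lit 276) (nat_lit 1) (nat_lit 239) (nat_lit 399) (nat_lit 382)))) (XT.nd (nat_lit 78) (nat_lit 380) (nat_lit 0) (XT.lf (nat_lit 380) (nat_lit 12050548234) (nat_lit 0) (nat_lit 17975036495) (nat_lit 304) (nat_lit 17975036495) (nat_lit 271) (nat_lit 1) (nat_lit 266) (nat_lit 1) (nat_lit 270) (nat_lit 1) (nat_lit 240) (nat_lit 399) (nat_lit 381)) (XT.nd (nat_lit 78) (nat_lit 380) (nat_lit 0) (XT.lf (nat_lit 76) (nat_lit 2622118887) (nat_lit 0) (nat_lit 41769323387) (nat_lit 380) (nat_lit 2622118887) (nat_lit 267) (nat_lit 1) (nat_lit 266) (nat_lit 1) (nat_lit 271) (nat_lit 1) (nat_lit 241) (nat_lit 399)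 (nat_lit 380)) (XT.lf (nat_lit 76) (nat_lit 22094727211) (nat_lit 0) (nat_lit 1850476323) (nat_lit 380) (nat_lit 22094727211) (nat_lit 262) (nat_lit 1) (nat_lit 261) (nat_lit 1) (nat_lit 266) (nat_lit 1) (nat_lit 242) (nat_lit 399) (nat_lit 379))))) (XT.nd (nat_lit 234) (nat_lit 608) (nat_lit 0) (XT.nd (nat_lit 78) (nat_lit 304) (nat_lit 0) (XT.lf (nat_lit 380) (nat_lit 36548163182) (nat_lit 0) (nat_lit 4277607690) (nat_lit 304) (nat_lit 4277607690) (nat_lit 262) (nat_lit 1) (nat_lit 257) (nat_lit 1) (nat_lit 261) (nat_lit 1) (nat_lit 243) (nat_lit 399) (nat_lit 378)) (XT.nd (nat_lit 78) (nat_lit 304) (nat_lit 0) (XT.lf (nat_lit 76) (nat_lit 14335796368) (nat_lit 0) (nat_lit 15511300402) (nat_lit 380) (nat_lit 14335796368) (nat_lit 258) (nat_lit 1) (nat_lit 257) (nat_lit 1) (nat_lit 262) (nat_lit 1) (nat_lit 244) (nat_lit 399) (nat_lit 377)) (XT.lf (nat_lit 380) (nat_lit 20919914810) (nat_lit 0)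 (nat_lit 11187206052) (nat_lit 304) (nat_lit 11187206052) (nat_lit 258) (nat_lit 1) (nat_lit 253) (nat_lit 1) (nat_lit 257) (nat_lit 1) (nat_lit 245) (nat_lit 399) (nat_lit 376)))) (XT.nd (nat_lit 78) (nat_lit 608) (nat_lit 0) (XT.lf (nat_lit 76) (nat_lit 6597207490) (nat_lit 0) (nat_lit 29237327461) (nat_lit 380) (nat_lit 6597207490) (nat_lit 254) (nat_lit 1) (nat_lit 253) (nat_lit 1) (nat_lit 258) (nat_lit 1) (nat_lit 246) (nat_lit 399) (nat_lit 375)) (XT.nd (nat_lit 78) (nat_lit 380) (nat_lit 0) (XT.lf (nat_lit 304) (nat_lit 5365226299) (nat_lit 0) (nat_lit 18111275708) (nat_lit 228) (nat_lit 18111275708) (nat_lit 254) (nat_lit 1) (nat_lit 250) (nat_lit 1) (nat_lit 253) (nat_lit 1) (nat_lit 247) (nat_lit 399) (nat_lit 374)) (XT.lf (nat_lit 380) (nat_lit 38632430828) (nat_lit 0) (nat_lit 1071975827) (nat_lit 304) (nat_lit 1071975827) (nat_lit 250) (nat_lit 1) (nat_lit 245) (nat_lit 1) (nat_lit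 249) (nat_lit 1) (nat_lit 248) (nat_lit 399) (nat_lit 373)))))) (XT.nd (nat_lit 468) (nat_lit 836) (nat_lit 0) (XT.nd (nat_lit 234) (nat_lit 532) (nat_lit 0) (XT.nd (nat_lit 78) (nat_lit 228) (nat_lit 0) (XT.lf (nat_lit 76) (nat_lit 15117155787) (nat_lit 0) (nat_lit 9735166651) (nat_lit 380) (nat_lit 15117155787) (nat_lit 246) (nat_lit 1) (nat_lit 245) (nat_lit 1) (nat_lit 250) (nat_lit 1) (nat_lit 249) (nat_lit 399) (nat_lit 372)) (XT.nd (nat_lit 78) (nat_lit 0) (nat_lit 0) (XT.lf (nat_lit 304) (nat_lit 22079083946) (nat_lit 0) (nat_lit 8557218474) (nat_lit 228) (nat_lit 8557218474) (nat_lit 246) (nat_lit 1) (nat_lit 242) (nat_lit 1) (nat_lit 245) (nat_lit 1) (nat_lit 250) (nat_lit 399) (nat_lit 371)) (XT.lf (nat_lit 76) (nat_lit 6975124147) (nat_lit 0) (nat_lit 24487029799) (nat_lit 304) (nat_lit 6975124147) (nat_lit 243) (nat_lit 1) (nat_lit 242) (nat_lit 1) (nat_lit 246) (nat_lit 1) (nat_lit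 251) (nat_lit 399) (nat_lit 370)))) (XT.nd (nat_lit 78) (nat_lit 304) (nat_lit 0) (XT.lf (nat_lit 304) (nat_lit 5813547960) (nat_lit 0) (nat_lit 15942345825) (nat_lit 228) (nat_lit 15942345825) (nat_lit 243) (nat_lit 1) (nat_lit 239) (nat_lit 1) (nat_lit 242) (nat_lit 1) (nat_lit 252) (nat_lit 399) (nat_lit 369)) (XT.nd (nat_lit 78) (nat_lit 0) (nat_lit 0) (XT.lf (nat_lit 304) (nat_lit 34988420806) (nat_lit 0) (nat_lit 999118270) (nat_lit 228) (nat_lit 999118270) (nat_lit 239) (nat_lit 1) (nat_lit 235) (nat_lit 1) (nat_lit 238) (nat_lit 1) (nat_lit 253) (nat_lit 399) (nat_lit 368)) (XT.lf (nat_lit 76) (nat_lit 13235117585) (nat_lit 0) (nat_lit 9807089235) (nat_lit 304) (nat_lit 13235117585) (nat_lit 236) (nat_lit 1) (nat_lit 235) (nat_lit 1) (nat_lit 239) (nat_lit 1) (nat_lit 254) (nat_lit 399) (nat_lit 367))))) (XT.nd (nat_lit 234) (nat_lit 456) (nat_lit 0) (XT.nd (nat_lit 78) (nat_lit 152) (nat_lit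 0) (XT.lf (nat_lit 304) (nat_lit 18199498565) (nat_lit 0) (nat_lit 8697369167) (nat_lit 228) (nat_lit 8697369167) (nat_lit 236) (nat_lit 1) (nat_lit 232) (nat_lit 1) (nat_lit 235) (nat_lit 1) (nat_lit 255) (nat_lit 399) (nat_lit 366)) (XT.nd (nat_lit 78) (nat_lit 152) (nat_lit 0) (XT.lf (nat_lit 76) (nat_lit 5012127062) (nat_lit 0) (nat_lit 24905215986) (nat_lit 304) (nat_lit 5012127062) (nat_lit 233) (nat_lit 1) (nat_lit 232) (nat_lit 1) (nat_lit 236) (nat_lit 1) (nat_lit 256) (nat_lit 399) (nat_lit 365)) (XT.lf (nat_lit 228) (nat_lit 1836610005) (nat_lit 0) (nat_lit 16220310223) (nat_lit 152) (nat_lit 16220310223) (nat_lit 233) (nat_lit 1) (nat_lit 230) (nat_lit 1) (nat_lit 232) (nat_lit 1) (nat_lit 257) (nat_lit 399) (nat_lit 364)))) (XT.nd (nat_lit 156) (nat_lit 152) (nat_lit 0) (XT.nd (nat_lit 78) (nat_lit 0) (nat_lit 0) (XT.lf (nat_lit 304) (nat_lit 27750561339) (nat_lit 0) (nat_lit 2947310759)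 (nat_lit 228) (nat_lit 2947310759) (nat_lit 230) (nat_lit 1) (nat_lit 226) (nat_lit 1) (nat_lit 229) (nat_lit 1) (nat_lit 258) (nat_lit 399) (nat_lit 363)) (XT.lf (nat_lit 76) (nat_lit 9692612357) (nat_lit 0) (nat_lit 13634979395) (nat_lit 304) (nat_lit 9692612357) (nat_lit 227) (nat_lit 1) (nat_lit 226) (nat_lit 1) (nat_lit 230) (nat_lit 1) (nat_lit 259) (nat_lit 399) (nat_lit 362))) (XT.nd (nat_lit 78) (nat_lit 0) (nat_lit 0) (XT.lf (nat_lit 228) (nat_lit 11198318429) (nat_lit 0) (nat_lit 10608097744) (nat_lit 152) (nat_lit 10608097744) (nat_lit 227) (nat_lit 1) (nat_lit 224) (nat_lit 1) (nat_lit 226) (nat_lit 1) (nat_lit 260) (nat_lit 399) (nat_lit 361)) (XT.lf (nat_lit 76) (nat_lit 1608842917) (nat_lit 0) (nat_lit 28611238427) (nat_lit 228) (nat_lit 1608842917) (nat_lit 225) (nat_lit 1) (nat_lit 224) (nat_lit 1) (nat_lit 227) (nat_lit 1) (nat_lit 261) (nat_lit 399) (nat_lit 360))))))) (XT.nd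 (nat_lit 1014) (nat_lit 1140) (nat_lit 0) (XT.nd (nat_lit 468) (nat_lit 760) (nat_lit 0) (XT.nd (nat_lit 234) (nat_lit 380) (nat_lit 0) (XT.nd (nat_lit 78) (nat_lit 152) (nat_lit 0) (XT.lf (nat_lit 76) (nat_lit 13278062858) (nat_lit 0) (nat_lit 4689337548) (nat_lit 228) (nat_lit 13278062858) (nat_lit 222) (nat_lit 1) (nat_lit 221) (nat_lit 1) (nat_lit 224) (nat_lit 1) (nat_lit 262) (nat_lit 399) (nat_lit 359)) (XT.nd (nat_lit 78) (nat_lit 0) (nat_lit 0) (XT.lf (nat_lit 228) (nat_lit 18438917459) (nat_lit 0) (nat_lit 6121221012) (nat_lit 152) (nat_lit 6121221012) (nat_lit 222) (nat_lit 1) (nat_lit 219) (nat_lit 1) (nat_lit 221) (nat_lit 1) (nat_lit 263) (nat_lit 399) (nat_lit 358)) (XT.lf (nat_lit 76) (nat_lit 5202982796) (nat_lit 0) (nat_lit 19723758035) (nat_lit 228) (nat_lit 5202982796) (nat_lit 220) (nat_lit 1) (nat_lit 219) (nat_lit 1) (nat_lit 222) (nat_lit 1) (nat_lit 264) (nat_lit 399) (nat_lit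 357)))) (XT.nd (nat_lit 78) (nat_lit 228) (nat_lit 0) (XT.lf (nat_lit 228) (nat_lit 2437410115) (nat_lit 0) (nat_lit 13575898608) (nat_lit 152) (nat_lit 13575898608) (nat_lit 220) (nat_lit 1) (nat_lit 217) (nat_lit 1) (nat_lit 219) (nat_lit 1) (nat_lit 265) (nat_lit 399) (nat_lit 356)) (XT.nd (nat_lit 78) (nat_lit 0) (nat_lit 0) (XT.lf (nat_lit 228) (nat_lit 23956441287) (nat_lit 0) (nat_lit 2553955813) (nat_lit 152) (nat_lit 2553955813) (nat_lit 217) (nat_lit 1) (nat_lit 214) (nat_lit 1) (nat_lit 216) (nat_lit 1) (nat_lit 266) (nat_lit 399) (nat_lit 355)) (XT.lf (nat_lit 76) (nat_lit 7975158011) (nat_lit 0) (nat_lit 12593662047) (nat_lit 228) (nat_lit 7975158011) (nat_lit 215) (nat_lit 1) (nat_lit 214) (nat_lit 1) (nat_lit 217) (nat_lit 1) (nat_lit 267) (nat_lit 399) (nat_lit 354))))) (XT.nd (nat_lit 234) (nat_lit 456) (nat_lit 0) (XT.nd (nat_lit 78) (nat_lit 152) (nat_lit 0) (XT.lf (nat_lit 228)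 (nat_lit 8122311235) (nat_lit 0) (nat_lit 9958199596) (nat_lit 152) (nat_lit 9958199596) (nat_lit 215) (nat_lit 1) (nat_lit 212) (nat_lit 1) (nat_lit 214) (nat_lit 1) (nat_lit 268) (nat_lit 399) (nat_lit 353)) (XT.nd (nat_lit 78) (nat_lit 152) (nat_lit 0) (XT.lf (nat_lit 76) (nat_lit 266957969) (nat_lit 0) (nat_lit 27017246610) (nat_lit 228) (nat_lit 266957969) (nat_lit 213) (nat_lit 1) (nat_lit 212) (nat_lit 1) (nat_lit 215) (nat_lit 1) (nat_lit 269) (nat_lit 399) (nat_lit 352)) (XT.lf (nat_lit 76) (nat_lit 10079897649) (nat_lit 0) (nat_lit 6900720266) (nat_lit 152) (nat_lit 10079897649) (nat_lit 211) (nat_lit 1) (nat_lit 210) (nat_lit 1) (nat_lit 212) (nat_lit 1) (nat_lit 270) (nat_lit 399) (nat_lit 351)))) (XT.nd (nat_lit 156) (nat_lit 304) (nat_lit 0) (XT.nd (nat_lit 78) (nat_lit 0) (nat_lit 0) (XT.lf (nat_lit 228) (nat_lit 12508005461) (nat_lit 0) (nat_lit 7039563274) (nat_lit 152) (nat_lit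 7039563274) (nat_lit 211) (nat_lit 1) (nat_lit 208) (nat_lit 1) (nat_lit 210) (nat_lit 1) (nat_lit 271) (nat_lit 399) (nat_lit 350)) (XT.lf (nat_lit 76) (nat_lit 2507768649) (nat_lit 0) (nat_lit 21110988981) (nat_lit 228) (nat_lit 2507768649) (nat_lit 209) (nat_lit 1) (nat_lit 208) (nat_lit 1) (nat_lit 211) (nat_lit 1) (nat_lit 272) (nat_lit 399) (nat_lit 349))) (XT.nd (nat_lit 78) (nat_lit 152) (nat_lit 0) (XT.lf (nat_lit 76) (nat_lit 11643914281) (nat_lit 0) (nat_lit 2381890434) (nat_lit 152) (nat_lit 11643914281) (nat_lit 207) (nat_lit 1) (nat_lit 206) (nat_lit 1) (nat_lit 208) (nat_lit 1) (nat_lit 273) (nat_lit 399) (nat_lit 348)) (XT.lf (nat_lit 228) (nat_lit 15838709815) (nat_lit 0) (nat_lit 4693302149) (nat_lit 152) (nat_lit 4693302149) (nat_lit 207) (nat_lit 1) (nat_lit 204) (nat_lit 1) (nat_lit 206) (nat_lit 1) (nat_lit 274) (nat_lit 399) (nat_lit 347)))))) (XT.nd (nat_lit 468) (nat_lit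 532) (nat_lit 0) (XT.nd (nat_lit 234) (nat_lit 304) (nat_lit 0) (XT.nd (nat_lit 78) (nat_lit 304) (nat_lit 0) (XT.lf (nat_lit 76) (nat_lit 4242330013) (nat_lit 0) (nat_lit 16305047007) (nat_lit 228) (nat_lit 4242330013) (nat_lit 205) (nat_lit 1) (nat_lit 204) (nat_lit 1) (nat_lit 207) (nat_lit 1) (nat_lit 275) (nat_lit 399) (nat_lit 346)) (XT.nd (nat_lit 78) (nat_lit 228) (nat_lit 0) (XT.lf (nat_lit 152) (nat_lit 1217818457) (nat_lit 0) (nat_lit 11572250807) (nat_lit 76) (nat_lit 11572250807) (nat_lit 205) (nat_lit 1) (nat_lit 203) (nat_lit 1) (nat_lit 204) (nat_lit 1) (nat_lit 276) (nat_lit 399) (nat_lit 345)) (XT.lf (nat_lit 228) (nat_lit 18314681732) (nat_lit 0) (nat_lit 2815320837) (nat_lit 152) (nat_lit 2815320837) (nat_lit 203) (nat_lit 1) (nat_lit 200) (nat_lit 1) (nat_lit 202) (nat_lit 1) (nat_lit 277) (nat_lit 399) (nat_lit 344)))) (XT.nd (nat_lit 78) (nat_lit 304) (nat_lit 0) (XT.lf (nat_lit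 76) (nat_lit 5565587343) (nat_lit 0) (nat_lit 12401806454) (nat_lit 228) (nat_lit 5565587343) (nat_lit 201) (nat_lit 1) (nat_lit 200) (nat_lit 1) (nat_lit 203) (nat_lit 1) (nat_lit 278) (nat_lit 399) (nat_lit 343)) (XT.nd (nat_lit 78) (nat_lit 228) (nat_lit 0) (XT.lf (nat_lit 152) (nat_lit 4089710270) (nat_lit 0) (nat_lit 9520519378) (nat_lit 76) (nat_lit 9520519378) (nat_lit 201) (nat_lit 1) (nat_lit 199) (nat_lit 1) (nat_lit 200) (nat_lit 1) (nat_lit 279) (nat_lit 399) (nat_lit 342)) (XT.lf (nat_lit 228) (nat_lit 20100044433) (nat_lit 0) (nat_lit 1320104319) (nat_lit 152) (nat_lit 1320104319) (nat_lit 199) (nat_lit 1) (nat_lit 196) (nat_lit 1) (nat_lit 198) (nat_lit 1) (nat_lit 280) (nat_lit 399) (nat_lit 341))))) (XT.nd (nat_lit 234) (nat_lit 228) (nat_lit 0) (XT.nd (nat_lit 78) (nat_lit 304) (nat_lit 0) (XT.lf (nat_lit 76) (nat_lit 6555405284) (nat_lit 0) (nat_lit 9238810129) (nat_lit 228)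 (nat_lit 6555405284) (nat_lit 197) (nat_lit 1) (nat_lit 196) (nat_lit 1) (nat_lit 199) (nat_lit 1) (nat_lit 281) (nat_lit 399) (nat_lit 340)) (XT.nd (nat_lit 78) (nat_lit 228) (nat_lit 0) (XT.lf (nat_lit 152) (nat_lit 6305384296) (nat_lit 0) (nat_lit 7832554853) (nat_lit 76) (nat_lit 7832554853) (nat_lit 197) (nat_lit 1) (nat_lit 195) (nat_lit 1) (nat_lit 196) (nat_lit 1) (nat_lit 282) (nat_lit 399) (nat_lit 339)) (XT.lf (nat_lit 228) (nat_lit 21329223391) (nat_lit 0) (nat_lit 137417756) (nat_lit 152) (nat_lit 137417756) (nat_lit 195) (nat_lit 1) (nat_lit 192) (nat_lit 1) (nat_lit 194) (nat_lit 1) (nat_lit 283) (nat_lit 399) (nat_lit 338)))) (XT.nd (nat_lit 156) (nat_lit 152) (nat_lit 0) (XT.nd (nat_lit 78) (nat_lit 76) (nat_lit 0) (XT.lf (nat_lit 76) (nat_lit 7275607962) (nat_lit 0) (nat_lit 6682518878) (nat_lit 228) (nat_lit 7275607962) (nat_lit 193) (nat_lit 1) (nat_lit 192) (nat_lit 1) (nat_lit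 195) (nat_lit 1) (nat_lit 284) (nat_lit 399) (nat_lit 337)) (XT.lf (nat_lit 152) (nat_lit 7988188156) (nat_lit 0) (nat_lit 6443862262) (nat_lit 76) (nat_lit 6443862262) (nat_lit 193) (nat_lit 1) (nat_lit 191) (nat_lit 1) (nat_lit 192) (nat_lit 1) (nat_lit 285) (nat_lit 399) (nat_lit 336))) (XT.nd (nat_lit 78) (nat_lit 152) (nat_lit 0) (XT.lf (nat_lit 0) (nat_lit 803365807) (nat_lit 0) (nat_lit 18922162191) (nat_lit 152) (nat_lit 803365807) (nat_lit 191) (nat_lit 3) (nat_lit 191) (nat_lit 1) (nat_lit 193) (nat_lit 1) (nat_lit 286) (nat_lit 399) (nat_lit 335)) (XT.lf (nat_lit 76) (nat_lit 7778479545) (nat_lit 0) (nat_lit 4623179029) (nat_lit 152) (nat_lit 7778479545) (nat_lit 190) (nat_lit 1) (nat_lit 189) (nat_lit 1) (nat_lit 191) (nat_lit 1) (nat_lit 287) (nat_lit 399) (nat_lit 334))))))))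
noncomputable def ec252 : XT := (XT.nd (nat_lit 1950) (nat_lit 1824) (nat_lit 0) (XT.nd (nat_lit 936) (nat_lit 1064) (nat_lit 0) (XT.nd (nat_lit 468) (nat_lit 380) (nat_lit 0) (XT.nd (nat_lit 234) (nat_lit 228) (nat_lit 0) (XT.nd (nat_lit 78) (nat_lit 152) (nat_lit 0) (XT.lf (nat_lit 152) (nat_lit 9239266823) (nat_lit 0) (nat_lit 5301381430) (nat_lit 76) (nat_lit 5301381430) (nat_lit 190) (nat_lit 1) (nat_lit 188) (nat_lit 1) (nat_lit 189) (nat_lit 1) (nat_lit 288) (nat_lit 399) (nat_lit 333)) (XT.nd (nat_lit 78) (nat_lit 152) (nat_lit 0) (XT.lf (nat_lit 0) (nat_lit 1535476827) (nat_lit 0) (nat_lit 16441855452) (nat_lit 152) (nat_lit 1535476827) (nat_lit 188) (nat_lit 3) (nat_lit 188) (nat_lit 1) (nat_lit 190) (nat_lit 1) (nat_lit 289) (nat_lit 399) (nat_lit 332)) (XT.lf (nat_lit 76) (nat_lit 8106820913) (nat_lit 0) (nat_lit 2970600077) (nat_lit 152) (nat_lit 8106820913) (nat_lit 187) (nat_lit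 1) (nat_lit 186) (nat_lit 1) (nat_lit 188) (nat_lit 1) (nat_lit 290) (nat_lit 399) (nat_lit 331)))) (XT.nd (nat_lit 78) (nat_lit 152) (nat_lit 0) (XT.lf (nat_lit 152) (nat_lit 10141514974) (nat_lit 0) (nat_lit 4361459622) (nat_lit 76) (nat_lit 4361459622) (nat_lit 187) (nat_lit 1) (nat_lit 185) (nat_lit 1) (nat_lit 186) (nat_lit 1) (nat_lit 291) (nat_lit 399) (nat_lit 330)) (XT.nd (nat_lit 78) (nat_lit 152) (nat_lit 0) (XT.lf (nat_lit 0) (nat_lit 2096141338) (nat_lit 0) (nat_lit 14359655923) (nat_lit 152) (nat_lit 2096141338) (nat_lit 185) (nat_lit 3) (nat_lit 185) (nat_lit 1) (nat_lit 187) (nat_lit 1) (nat_lit 292) (nat_lit 399) (nat_lit 329)) (XT.lf (nat_lit 76) (nat_lit 8295641191) (nat_lit 0) (nat_lit 1650681223) (nat_lit 152) (nat_lit 8295641191) (nat_lit 184) (nat_lit 1) (nat_lit 183) (nat_lit 1) (nat_lit 185) (nat_lit 1) (nat_lit 293) (nat_lit 399) (nat_lit 328))))) (XT.nd (nat_lit 234)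 (nat_lit 152) (nat_lit 0) (XT.nd (nat_lit 78) (nat_lit 152) (nat_lit 0) (XT.lf (nat_lit 152) (nat_lit 10762827842) (nat_lit 0) (nat_lit 3588183625) (nat_lit 76) (nat_lit 3588183625) (nat_lit 184) (nat_lit 1) (nat_lit 182) (nat_lit 1) (nat_lit 183) (nat_lit 1) (nat_lit 294) (nat_lit 399) (nat_lit 327)) (XT.nd (nat_lit 78) (nat_lit 152) (nat_lit 0) (XT.lf (nat_lit 0) (nat_lit 2517739477) (nat_lit 0) (nat_lit 12606963276) (nat_lit 152) (nat_lit 2517739477) (nat_lit 182) (nat_lit 3) (nat_lit 182) (nat_lit 1) (nat_lit 184) (nat_lit 1) (nat_lit 295) (nat_lit 399) (nat_lit 326)) (XT.lf (nat_lit 76) (nat_lit 8373548884) (nat_lit 0) (nat_lit 602553993) (nat_lit 152) (nat_lit 8373548884) (nat_lit 181) (nat_lit 1) (nat_lit 180) (nat_lit 1) (nat_lit 182) (nat_lit 1) (nat_lit 296) (nat_lit 399) (nat_lit 325)))) (XT.nd (nat_lit 78) (nat_lit 76) (nat_lit 0) (XT.lf (nat_lit 152) (nat_lit 11158774982) (nat_lit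 0) (nat_lit 2952007548) (nat_lit 76) (nat_lit 2952007548) (nat_lit 181) (nat_lit 1) (nat_lit 179) (nat_lit 1) (nat_lit 180) (nat_lit 1) (nat_lit 297) (nat_lit 399) (nat_lit 324)) (XT.nd (nat_lit 78) (nat_lit 76) (nat_lit 0) (XT.lf (nat_lit 0) (nat_lit 2826816033) (nat_lit 0) (nat_lit 11127245421) (nat_lit 152) (nat_lit 2826816033) (nat_lit 179) (nat_lit 3) (nat_lit 179) (nat_lit 1) (nat_lit 181) (nat_lit 1) (nat_lit 298) (nat_lit 399) (nat_lit 323)) (XT.lf (nat_lit 76) (nat_lit 231167115) (nat_lit 0) (nat_lit 8136337961) (nat_lit 76) (nat_lit 8136337961) (nat_lit 179) (nat_lit 3) (nat_lit 178) (nat_lit 1) (nat_lit 179) (nat_lit 1) (nat_lit 299) (nat_lit 399) (nat_lit 322)))))) (XT.nd (nat_lit 468) (nat_lit 608) (nat_lit 0) (XT.nd (nat_lit 234) (nat_lit 228) (nat_lit 0) (XT.nd (nat_lit 78) (nat_lit 76) (nat_lit 0) (XT.lf (nat_lit 152) (nat_lit 11374799299) (nat_lit 0) (nat_lit 2428623915) (nat_lit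 76) (nat_lit 2428623915) (nat_lit 178) (nat_lit 1) (nat_lit 176) (nat_lit 1) (nat_lit 177) (nat_lit 1) (nat_lit 300) (nat_lit 399) (nat_lit 321)) (XT.nd (nat_lit 78) (nat_lit 76) (nat_lit 0) (XT.lf (nat_lit 0) (nat_lit 3045119532) (nat_lit 0) (nat_lit 9873903331) (nat_lit 152) (nat_lit 3045119532) (nat_lit 176) (nat_lit 3) (nat_lit 176) (nat_lit 1) (nat_lit 178) (nat_lit 1) (nat_lit 301) (nat_lit 399) (nat_lit 320)) (XT.lf (nat_lit 76) (nat_lit 898068050) (nat_lit 0) (nat_lit 7401671668) (nat_lit 76) (nat_lit 7401671668) (nat_lit 176) (nat_lit 3) (nat_lit 175) (nat_lit 1) (nat_lit 176) (nat_lit 1) (nat_lit 302) (nat_lit 399) (nat_lit 319)))) (XT.nd (nat_lit 78) (nat_lit 76) (nat_lit 0) (XT.lf (nat_lit 152) (nat_lit 11448025538) (nat_lit 0) (nat_lit 1998034905) (nat_lit 76) (nat_lit 1998034905) (nat_lit 175) (nat_lit 1) (nat_lit 173) (nat_lit 1) (nat_lit 174) (nat_lit 1) (nat_lit 303) (nat_lit 399)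 (nat_lit 318)) (XT.nd (nat_lit 78) (nat_lit 76) (nat_lit 0) (XT.lf (nat_lit 0) (nat_lit 3190456885) (nat_lit 0) (nat_lit 8808514216) (nat_lit 152) (nat_lit 3190456885) (nat_lit 173) (nat_lit 3) (nat_lit 173) (nat_lit 1) (nat_lit 175) (nat_lit 1) (nat_lit 304) (nat_lit 399) (nat_lit 317)) (XT.lf (nat_lit 76) (nat_lit 1413020228) (nat_lit 0) (nat_lit 6763551020) (nat_lit 76) (nat_lit 6763551020) (nat_lit 173) (nat_lit 3) (nat_lit 172) (nat_lit 1) (nat_lit 173) (nat_lit 1) (nat_lit 305) (nat_lit 399) (nat_lit 316))))) (XT.nd (nat_lit 234) (nat_lit 380) (nat_lit 0) (XT.nd (nat_lit 78) (nat_lit 76) (nat_lit 0) (XT.lf (nat_lit 152) (nat_lit 11408747518) (nat_lit 0) (nat_lit 1643788261) (nat_lit 76) (nat_lit 1643788261) (nat_lit 172) (nat_lit 1) (nat_lit 170) (nat_lit 1) (nat_lit 171) (nat_lit 1) (nat_lit 306) (nat_lit 399) (nat_lit 315)) (XT.nd (nat_lit 78) (nat_lit 76) (nat_lit 0) (XT.lf (nat_lit 0)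 (nat_lit 3277396308) (nat_lit 0) (nat_lit 7899385978) (nat_lit 152) (nat_lit 3277396308) (nat_lit 170) (nat_lit 3) (nat_lit 170) (nat_lit 1) (nat_lit 172) (nat_lit 1) (nat_lit 307) (nat_lit 399) (nat_lit 314)) (XT.lf (nat_lit 76) (nat_lit 1804568973) (nat_lit 0) (nat_lit 6206463897) (nat_lit 76) (nat_lit 6206463897) (nat_lit 170) (nat_lit 3) (nat_lit 169) (nat_lit 1) (nat_lit 170) (nat_lit 1) (nat_lit 308) (nat_lit 399) (nat_lit 313)))) (XT.nd (nat_lit 156) (nat_lit 228) (nat_lit 0) (XT.nd (nat_lit 78) (nat_lit 0) (nat_lit 0) (XT.lf (nat_lit 152) (nat_lit 11281651081) (nat_lit 0) (nat_lit 1352348670) (nat_lit 76) (nat_lit 1352348670) (nat_lit 169) (nat_lit 1) (nat_lit 167) (nat_lit 1) (nat_lit 168) (nat_lit 1) (nat_lit 309) (nat_lit 399) (nat_lit 312)) (XT.lf (nat_lit 0) (nat_lit 3317845418) (nat_lit 0) (nat_lit 7120367758) (nat_lit 152) (nat_lit 3317845418) (nat_lit 167) (nat_lit 3) (nat_lit 167)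 (nat_lit 1) (nat_lit 169) (nat_lit 1) (nat_lit 310) (nat_lit 399) (nat_lit 311))) (XT.nd (nat_lit 78) (nat_lit 152) (nat_lit 0) (XT.lf (nat_lit 76) (nat_lit 2096122154) (nat_lit 0) (nat_lit 5717572002) (nat_lit 76) (nat_lit 5717572002) (nat_lit 167) (nat_lit 3) (nat_lit 166) (nat_lit 1) (nat_lit 167) (nat_lit 1) (nat_lit 311) (nat_lit 399) (nat_lit 310)) (XT.lf (nat_lit 152) (nat_lit 11086819657) (nat_lit 0) (nat_lit 1112580598) (nat_lit 76) (nat_lit 1112580598) (nat_lit 166) (nat_lit 1) (nat_lit 164) (nat_lit 1) (nat_lit 165) (nat_lit 1) (nat_lit 312) (nat_lit 399) (nat_lit 309))))))) (XT.nd (nat_lit 936) (nat_lit 912) (nat_lit 0) (XT.nd (nat_lit 468) (nat_lit 456) (nat_lit 0) (XT.nd (nat_lit 234) (nat_lit 228) (nat_lit 0) (XT.nd (nat_lit 78) (nat_lit 228) (nat_lit 0) (XT.lf (nat_lit 0) (nat_lit 3321526651) (nat_lit 0) (nat_lit 6449871190) (nat_lit 152) (nat_lit 3321526651) (nat_lit 164) (nat_lit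 3) (nat_lit 164) (nat_lit 1) (nat_lit 166) (nat_lit 1) (nat_lit 313) (nat_lit 399) (nat_lit 308)) (XT.nd (nat_lit 78) (nat_lit 152) (nat_lit 0) (XT.lf (nat_lit 76) (nat_lit 2306864688) (nat_lit 0) (nat_lit 5286240440) (nat_lit 76) (nat_lit 5286240440) (nat_lit 164) (nat_lit 3) (nat_lit 163) (nat_lit 1) (nat_lit 164) (nat_lit 1) (nat_lit 314) (nat_lit 399) (nat_lit 307)) (XT.lf (nat_lit 152) (nat_lit 10840561011) (nat_lit 0) (nat_lit 915322811) (nat_lit 76) (nat_lit 915322811) (nat_lit 163) (nat_lit 1) (nat_lit 161) (nat_lit 1) (nat_lit 162) (nat_lit 1) (nat_lit 315) (nat_lit 399) (nat_lit 306)))) (XT.nd (nat_lit 78) (nat_lit 228) (nat_lit 0) (XT.lf (nat_lit 0) (nat_lit 3296368209) (nat_lit 0) (nat_lit 5870065004) (nat_lit 152) (nat_lit 3296368209) (nat_lit 161) (nat_lit 3) (nat_lit 161) (nat_lit 1) (nat_lit 163) (nat_lit 1) (nat_lit 316) (nat_lit 399) (nat_lit 305)) (XT.nd (nat_lit 78) (nat_lit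 152) (nat_lit 0) (XT.lf (nat_lit 76) (nat_lit 2452510720) (nat_lit 0) (nat_lit 4903650525) (nat_lit 76) (nat_lit 4903650525) (nat_lit 161) (nat_lit 3) (nat_lit 160) (nat_lit 1) (nat_lit 161) (nat_lit 1) (nat_lit 317) (nat_lit 399) (nat_lit 304)) (XT.lf (nat_lit 152) (nat_lit 10556086887) (nat_lit 0) (nat_lit 753038342) (nat_lit 76) (nat_lit 753038342) (nat_lit 160) (nat_lit 1) (nat_lit 158) (nat_lit 1) (nat_lit 159) (nat_lit 1) (nat_lit 318) (nat_lit 399) (nat_lit 303))))) (XT.nd (nat_lit 234) (nat_lit 228) (nat_lit 0) (XT.nd (nat_lit 78) (nat_lit 228) (nat_lit 0) (XT.lf (nat_lit 0) (nat_lit 3248825534) (nat_lit 0) (nat_lit 5366212257) (nat_lit 152) (nat_lit 3248825534) (nat_lit 158) (nat_lit 3) (nat_lit 158) (nat_lit 1) (nat_lit 160) (nat_lit 1) (nat_lit 319) (nat_lit 399) (nat_lit 302)) (XT.nd (nat_lit 78) (nat_lit 152) (nat_lit 0) (XT.lf (nat_lit 76) (nat_lit 2545922289) (nat_lit 0) (nat_lit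 4562481073) (nat_lit 76) (nat_lit 4562481073) (nat_lit 158) (nat_lit 3) (nat_lit 157) (nat_lit 1) (nat_lit 158) (nat_lit 1) (nat_lit 320) (nat_lit 399) (nat_lit 301)) (XT.lf (nat_lit 152) (nat_lit 10244071678) (nat_lit 0) (nat_lit 619526507) (nat_lit 76) (nat_lit 619526507) (nat_lit 157) (nat_lit 1) (nat_lit 155) (nat_lit 1) (nat_lit 156) (nat_lit 1) (nat_lit 321) (nat_lit 399) (nat_lit 300)))) (XT.nd (nat_lit 78) (nat_lit 228) (nat_lit 0) (XT.lf (nat_lit 0) (nat_lit 3184145618) (nat_lit 0) (nat_lit 4926124914) (nat_lit 152) (nat_lit 3184145618) (nat_lit 155) (nat_lit 3) (nat_lit 155) (nat_lit 1) (nat_lit 157) (nat_lit 1) (nat_lit 322) (nat_lit 399) (nat_lit 299)) (XT.nd (nat_lit 78) (nat_lit 152) (nat_lit 0) (XT.lf (nat_lit 76) (nat_lit 2597618140) (nat_lit 0) (nat_lit 4256646041) (nat_lit 76) (nat_lit 4256646041) (nat_lit 155) (nat_lit 3) (nat_lit 154) (nat_lit 1) (nat_lit 155) (nat_lit 1) (nat_lit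 323) (nat_lit 399) (nat_lit 298)) (XT.lf (nat_lit 152) (nat_lit 9913111571) (nat_lit 0) (nat_lit 509685991) (nat_lit 76) (nat_lit 509685991) (nat_lit 154) (nat_lit 1) (nat_lit 152) (nat_lit 1) (nat_lit 153) (nat_lit 1) (nat_lit 324) (nat_lit 399) (nat_lit 297)))))) (XT.nd (nat_lit 468) (nat_lit 456) (nat_lit 0) (XT.nd (nat_lit 234) (nat_lit 228) (nat_lit 0) (XT.nd (nat_lit 78) (nat_lit 228) (nat_lit 0) (XT.lf (nat_lit 0) (nat_lit 3106584299) (nat_lit 0) (nat_lit 4539714978) (nat_lit 152) (nat_lit 3106584299) (nat_lit 152) (nat_lit 3) (nat_lit 152) (nat_lit 1) (nat_lit 154) (nat_lit 1) (nat_lit 325) (nat_lit 399) (nat_lit 296)) (XT.nd (nat_lit 78) (nat_lit 152) (nat_lit 0) (XT.lf (nat_lit 76) (nat_lit 2616192178) (nat_lit 0) (nat_lit 3981078539) (nat_lit 76) (nat_lit 3981078539) (nat_lit 152) (nat_lit 3) (nat_lit 151) (nat_lit 1) (nat_lit 152) (nat_lit 1) (nat_lit 326) (nat_lit 399) (nat_lit 295))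 (XT.lf (nat_lit 152) (nat_lit 9570101851) (nat_lit 0) (nat_lit 419319926) (nat_lit 76) (nat_lit 419319926) (nat_lit 151) (nat_lit 1) (nat_lit 149) (nat_lit 1) (nat_lit 150) (nat_lit 1) (nat_lit 327) (nat_lit 399) (nat_lit 294)))) (XT.nd (nat_lit 78) (nat_lit 228) (nat_lit 0) (XT.lf (nat_lit 0) (nat_lit 3019584895) (nat_lit 0) (nat_lit 4198625051) (nat_lit 152) (nat_lit 3019584895) (nat_lit 149) (nat_lit 3) (nat_lit 149) (nat_lit 1) (nat_lit 151) (nat_lit 1) (nat_lit 328) (nat_lit 399) (nat_lit 293)) (XT.nd (nat_lit 78) (nat_lit 152) (nat_lit 0) (XT.lf (nat_lit 76) (nat_lit 2608657595) (nat_lit 0) (nat_lit 3731552981) (nat_lit 76) (nat_lit 3731552981) (nat_lit 149) (nat_lit 3) (nat_lit 148) (nat_lit 1) (nat_lit 149) (nat_lit 1) (nat_lit 329) (nat_lit 399) (nat_lit 292)) (XT.lf (nat_lit 152) (nat_lit 9220546884) (nat_lit 0) (nat_lit 344975541) (nat_lit 76) (nat_lit 344975541) (nat_lit 148) (nat_lit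 1) (nat_lit 146) (nat_lit 1) (nat_lit 147) (nat_lit 1) (nat_lit 330) (nat_lit 399) (nat_lit 291))))) (XT.nd (nat_lit 234) (nat_lit 228) (nat_lit 0) (XT.nd (nat_lit 78) (nat_lit 228) (nat_lit 0) (XT.lf (nat_lit 0) (nat_lit 2925925018) (nat_lit 0) (nat_lit 3895924272) (nat_lit 152) (nat_lit 2925925018) (nat_lit 146) (nat_lit 3) (nat_lit 146) (nat_lit 1) (nat_lit 148) (nat_lit 1) (nat_lit 331) (nat_lit 399) (nat_lit 290)) (XT.nd (nat_lit 78) (nat_lit 152) (nat_lit 0) (XT.lf (nat_lit 76) (nat_lit 2580729836) (nat_lit 0) (nat_lit 3504538649) (nat_lit 76) (nat_lit 3504538649) (nat_lit 146) (nat_lit 3) (nat_lit 145) (nat_lit 1) (nat_lit 146) (nat_lit 1) (nat_lit 332) (nat_lit 399) (nat_lit 289)) (XT.lf (nat_lit 152) (nat_lit 8868814748) (nat_lit 0) (nat_lit 283812231) (nat_lit 76) (nat_lit 283812231) (nat_lit 145) (nat_lit 1) (nat_lit 143) (nat_lit 1) (nat_lit 144) (nat_lit 1) (nat_lit 333) (nat_lit 399)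 (nat_lit 288)))) (XT.nd (nat_lit 156) (nat_lit 152) (nat_lit 0) (XT.nd (nat_lit 78) (nat_lit 76) (nat_lit 0) (XT.lf (nat_lit 0) (nat_lit 2827837231) (nat_lit 0) (nat_lit 3625858018) (nat_lit 152) (nat_lit 2827837231) (nat_lit 143) (nat_lit 3) (nat_lit 143) (nat_lit 1) (nat_lit 145) (nat_lit 1) (nat_lit 334) (nat_lit 399) (nat_lit 287)) (XT.lf (nat_lit 76) (nat_lit 2537059277) (nat_lit 0) (nat_lit 3297079074) (nat_lit 76) (nat_lit 3297079074) (nat_lit 143) (nat_lit 3) (nat_lit 142) (nat_lit 1) (nat_lit 143) (nat_lit 1) (nat_lit 335) (nat_lit 399) (nat_lit 286))) (XT.nd (nat_lit 78) (nat_lit 0) (nat_lit 0) (XT.lf (nat_lit 152) (nat_lit 8518346325) (nat_lit 0) (nat_lit 233493025) (nat_lit 76) (nat_lit 233493025) (nat_lit 142) (nat_lit 1) (nat_lit 140) (nat_lit 1) (nat_lit 141) (nat_lit 1) (nat_lit 336) (nat_lit 399) (nat_lit 285)) (XT.lf (nat_lit 0) (nat_lit 2727108191) (nat_lit 0) (nat_lit 3383641867)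 (nat_lit 152) (nat_lit 2727108191) (nat_lit 140) (nat_lit 3) (nat_lit 140) (nat_lit 1) (nat_lit 142) (nat_lit 1) (nat_lit 337) (nat_lit 399) (nat_lit 284))))))))
noncomputable def ec253 : XT := (XT.nd (nat_lit 1950) (nat_lit 1976) (nat_lit 0) (XT.nd (nat_lit 936) (nat_lit 988) (nat_lit 0) (XT.nd (nat_lit 468) (nat_lit 456) (nat_lit 0) (XT.nd (nat_lit 234) (nat_lit 228) (nat_lit 0) (XT.nd (nat_lit 78) (nat_lit 152) (nat_lit 0) (XT.lf (nat_lit 76) (nat_lit 2481422521) (nat_lit 0) (nat_lit 3106692689) (nat_lit 76) (nat_lit 3106692689) (nat_lit 140) (nat_lit 3) (nat_lit 139) (nat_lit 1) (nat_lit 140) (nat_lit 1) (nat_lit 338) (nat_lit 399) (nat_lit 283)) (XT.nd (nat_lit 78) (nat_lit 0) (nat_lit 0) (XT.lf (nat_lit 152) (nat_lit 8171826967) (nat_lit 0) (nat_lit 192095289) (nat_lit 76) (nat_lit 192095289) (nat_lit 139) (nat_lit 1) (nat_lit 137) (nat_lit 1) (nat_lit 138) (nat_lit 1) (nat_lit 339) (nat_lit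 399) (nat_lit 282)) (XT.lf (nat_lit 0) (nat_lit 2625160089) (nat_lit 0) (nat_lit 3165291969) (nat_lit 152) (nat_lit 2625160089) (nat_lit 137) (nat_lit 3) (nat_lit 137) (nat_lit 1) (nat_lit 139) (nat_lit 1) (nat_lit 340) (nat_lit 399) (nat_lit 281)))) (XT.nd (nat_lit 78) (nat_lit 152) (nat_lit 0) (XT.lf (nat_lit 76) (nat_lit 2416879663) (nat_lit 0) (nat_lit 2931290978) (nat_lit 76) (nat_lit 2931290978) (nat_lit 137) (nat_lit 3) (nat_lit 136) (nat_lit 1) (nat_lit 137) (nat_lit 1) (nat_lit 341) (nat_lit 399) (nat_lit 280)) (XT.nd (nat_lit 78) (nat_lit 0) (nat_lit 0) (XT.lf (nat_lit 152) (nat_lit 7831327379) (nat_lit 0) (nat_lit 158037270) (nat_lit 76) (nat_lit 158037270) (nat_lit 136) (nat_lit 1) (nat_lit 134) (nat_lit 1) (nat_lit 135) (nat_lit 1) (nat_lit 342) (nat_lit 399) (nat_lit 279)) (XT.lf (nat_lit 0) (nat_lit 2523117541) (nat_lit 0) (nat_lit 2967485375) (nat_lit 152) (nat_lit 2523117541) (nat_lit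 134) (nat_lit 3) (nat_lit 134) (nat_lit 1) (nat_lit 136) (nat_lit 1) (nat_lit 343) (nat_lit 399) (nat_lit 278))))) (XT.nd (nat_lit 234) (nat_lit 228) (nat_lit 0) (XT.nd (nat_lit 78) (nat_lit 152) (nat_lit 0) (XT.lf (nat_lit 76) (nat_lit 2345903561) (nat_lit 0) (nat_lit 2769111022) (nat_lit 76) (nat_lit 2769111022) (nat_lit 134) (nat_lit 3) (nat_lit 133) (nat_lit 1) (nat_lit 134) (nat_lit 1) (nat_lit 344) (nat_lit 399) (nat_lit 277)) (XT.nd (nat_lit 78) (nat_lit 0) (nat_lit 0) (XT.lf (nat_lit 152) (nat_lit 7498419187) (nat_lit 0) (nat_lit 130017653) (nat_lit 76) (nat_lit 130017653) (nat_lit 133) (nat_lit 1) (nat_lit 131) (nat_lit 1) (nat_lit 132) (nat_lit 1) (nat_lit 345) (nat_lit 399) (nat_lit 276)) (XT.lf (nat_lit 0) (nat_lit 2421862511) (nat_lit 0) (nat_lit 2787445028) (nat_lit 152) (nat_lit 2421862511) (nat_lit 131) (nat_lit 3) (nat_lit 131) (nat_lit 1) (nat_lit 133) (nat_lit 1) (nat_lit 346)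 (nat_lit 399) (nat_lit 275)))) (XT.nd (nat_lit 78) (nat_lit 152) (nat_lit 0) (XT.lf (nat_lit 76) (nat_lit 2270486075) (nat_lit 0) (nat_lit 2618659901) (nat_lit 76) (nat_lit 2618659901) (nat_lit 131) (nat_lit 3) (nat_lit 130) (nat_lit 1) (nat_lit 131) (nat_lit 1) (nat_lit 347) (nat_lit 399) (nat_lit 274)) (XT.nd (nat_lit 78) (nat_lit 0) (nat_lit 0) (XT.lf (nat_lit 152) (nat_lit 7174269708) (nat_lit 0) (nat_lit 106965845) (nat_lit 76) (nat_lit 106965845) (nat_lit 130) (nat_lit 1) (nat_lit 128) (nat_lit 1) (nat_lit 129) (nat_lit 1) (nat_lit 348) (nat_lit 399) (nat_lit 273)) (XT.lf (nat_lit 0) (nat_lit 2322079392) (nat_lit 0) (nat_lit 2622845033) (nat_lit 152) (nat_lit 2322079392) (nat_lit 128) (nat_lit 3) (nat_lit 128) (nat_lit 1) (nat_lit 130) (nat_lit 1) (nat_lit 349) (nat_lit 399) (nat_lit 272)))))) (XT.nd (nat_lit 468) (nat_lit 532) (nat_lit 0) (XT.nd (nat_lit 234) (nat_lit 228) (nat_lit 0) (XT.nd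 (nat_lit 78) (nat_lit 152) (nat_lit 0) (XT.lf (nat_lit 76) (nat_lit 2192225379) (nat_lit 0) (nat_lit 2478668848) (nat_lit 76) (nat_lit 2478668848) (nat_lit 128) (nat_lit 3) (nat_lit 127) (nat_lit 1) (nat_lit 128) (nat_lit 1) (nat_lit 350) (nat_lit 399) (nat_lit 271)) (XT.nd (nat_lit 78) (nat_lit 0) (nat_lit 0) (XT.lf (nat_lit 152) (nat_lit 6859719622) (nat_lit 0) (nat_lit 88001065) (nat_lit 76) (nat_lit 88001065) (nat_lit 127) (nat_lit 1) (nat_lit 125) (nat_lit 1) (nat_lit 126) (nat_lit 1) (nat_lit 351) (nat_lit 399) (nat_lit 270)) (XT.lf (nat_lit 0) (nat_lit 2224291996) (nat_lit 0) (nat_lit 2471732633) (nat_lit 152) (nat_lit 2224291996) (nat_lit 125) (nat_lit 3) (nat_lit 125) (nat_lit 1) (nat_lit 127) (nat_lit 1) (nat_lit 352) (nat_lit 399) (nat_lit 269)))) (XT.nd (nat_lit 78) (nat_lit 152) (nat_lit 0) (XT.lf (nat_lit 76) (nat_lit 2112397689) (nat_lit 0) (nat_lit 2348055439) (nat_lit 76) (nat_lit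 2348055439) (nat_lit 125) (nat_lit 3) (nat_lit 124) (nat_lit 1) (nat_lit 125) (nat_lit 1) (nat_lit 353) (nat_lit 399) (nat_lit 268)) (XT.nd (nat_lit 78) (nat_lit 0) (nat_lit 0) (XT.lf (nat_lit 152) (nat_lit 6555346574) (nat_lit 0) (nat_lit 72398694) (nat_lit 76) (nat_lit 72398694) (nat_lit 124) (nat_lit 1) (nat_lit 122) (nat_lit 1) (nat_lit 123) (nat_lit 1) (nat_lit 354) (nat_lit 399) (nat_lit 267)) (XT.lf (nat_lit 0) (nat_lit 2128893895) (nat_lit 0) (nat_lit 2332463920) (nat_lit 152) (nat_lit 2128893895) (nat_lit 122) (nat_lit 3) (nat_lit 122) (nat_lit 1) (nat_lit 124) (nat_lit 1) (nat_lit 355) (nat_lit 399) (nat_lit 266))))) (XT.nd (nat_lit 234) (nat_lit 304) (nat_lit 0) (XT.nd (nat_lit 78) (nat_lit 152) (nat_lit 0) (XT.lf (nat_lit 76) (nat_lit 2032016182) (nat_lit 0) (nat_lit 2225892397) (nat_lit 76) (nat_lit 2225892397) (nat_lit 122) (nat_lit 3) (nat_lit 121) (nat_lit 1) (nat_lit 122) (nat_lit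 1) (nat_lit 356) (nat_lit 399) (nat_lit 265)) (XT.nd (nat_lit 78) (nat_lit 0) (nat_lit 0) (XT.lf (nat_lit 152) (nat_lit 6261517244) (nat_lit 0) (nat_lit 59562585) (nat_lit 76) (nat_lit 59562585) (nat_lit 121) (nat_lit 1) (nat_lit 119) (nat_lit 1) (nat_lit 120) (nat_lit 1) (nat_lit 357) (nat_lit 399) (nat_lit 264)) (XT.lf (nat_lit 0) (nat_lit 2036173290) (nat_lit 0) (nat_lit 2203650854) (nat_lit 152) (nat_lit 2036173290) (nat_lit 119) (nat_lit 3) (nat_lit 119) (nat_lit 1) (nat_lit 121) (nat_lit 1) (nat_lit 358) (nat_lit 399) (nat_lit 263)))) (XT.nd (nat_lit 156) (nat_lit 76) (nat_lit 0) (XT.nd (nat_lit 78) (nat_lit 152) (nat_lit 0) (XT.lf (nat_lit 76) (nat_lit 1951879385) (nat_lit 0) (nat_lit 2111381827) (nat_lit 76) (nat_lit 2111381827) (nat_lit 119) (nat_lit 3) (nat_lit 118) (nat_lit 1) (nat_lit 119) (nat_lit 1) (nat_lit 359) (nat_lit 399) (nat_lit 262)) (XT.lf (nat_lit 152) (nat_lit 5978429918)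 (nat_lit 0) (nat_lit 49002286) (nat_lit 76) (nat_lit 49002286) (nat_lit 118) (nat_lit 1) (nat_lit 116) (nat_lit 1) (nat_lit 117) (nat_lit 1) (nat_lit 360) (nat_lit 399) (nat_lit 261))) (XT.nd (nat_lit 78) (nat_lit 76) (nat_lit 0) (XT.lf (nat_lit 0) (nat_lit 1946333391) (nat_lit 0) (nat_lit 2084117596) (nat_lit 152) (nat_lit 1946333391) (nat_lit 116) (nat_lit 3) (nat_lit 116) (nat_lit 1) (nat_lit 118) (nat_lit 1) (nat_lit 361) (nat_lit 399) (nat_lit 260)) (XT.lf (nat_lit 76) (nat_lit 1872610899) (nat_lit 0) (nat_lit 2003833953) (nat_lit 76) (nat_lit 2003833953) (nat_lit 116) (nat_lit 3) (nat_lit 115) (nat_lit 1) (nat_lit 116) (nat_lit 1) (nat_lit 362) (nat_lit 399) (nat_lit 259))))))) (XT.nd (nat_lit 1014) (nat_lit 912) (nat_lit 0) (XT.nd (nat_lit 468) (nat_lit 608) (nat_lit 0) (XT.nd (nat_lit 234) (nat_lit 228) (nat_lit 0) (XT.nd (nat_lit 78) (nat_lit 76) (nat_lit 0) (XT.lf (nat_lit 152) (nat_lit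 5706149265) (nat_lit 0) (nat_lit 40314302) (nat_lit 76) (nat_lit 40314302) (nat_lit 115) (nat_lit 1) (nat_lit 113) (nat_lit 1) (nat_lit 114) (nat_lit 1) (nat_lit 363) (nat_lit 399) (nat_lit 258)) (XT.nd (nat_lit 78) (nat_lit 76) (nat_lit 0) (XT.lf (nat_lit 0) (nat_lit 1859509093) (nat_lit 0) (nat_lit 1972864500) (nat_lit 152) (nat_lit 1859509093) (nat_lit 113) (nat_lit 3) (nat_lit 113) (nat_lit 1) (nat_lit 115) (nat_lit 1) (nat_lit 364) (nat_lit 399) (nat_lit 257)) (XT.lf (nat_lit 76) (nat_lit 1794692001) (nat_lit 0) (nat_lit 1902649531) (nat_lit 76) (nat_lit 1902649531) (nat_lit 113) (nat_lit 3) (nat_lit 112) (nat_lit 1) (nat_lit 113) (nat_lit 1) (nat_lit 365) (nat_lit 399) (nat_lit 256)))) (XT.nd (nat_lit 78) (nat_lit 76) (nat_lit 0) (XT.lf (nat_lit 152) (nat_lit 5444634719) (nat_lit 0) (nat_lit 33166676) (nat_lit 76) (nat_lit 33166676) (nat_lit 112) (nat_lit 1) (nat_lit 110) (nat_lit 1) (nat_lit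 111) (nat_lit 1) (nat_lit 366) (nat_lit 399) (nat_lit 255)) (XT.nd (nat_lit 78) (nat_lit 76) (nat_lit 0) (XT.lf (nat_lit 0) (nat_lit 1775780633) (nat_lit 0) (nat_lit 1869038407) (nat_lit 152) (nat_lit 1775780633) (nat_lit 110) (nat_lit 3) (nat_lit 110) (nat_lit 1) (nat_lit 112) (nat_lit 1) (nat_lit 367) (nat_lit 399) (nat_lit 254)) (XT.lf (nat_lit 76) (nat_lit 1718488388) (nat_lit 0) (nat_lit 1807305316) (nat_lit 76) (nat_lit 1807305316) (nat_lit 110) (nat_lit 3) (nat_lit 109) (nat_lit 1) (nat_lit 110) (nat_lit 1) (nat_lit 368) (nat_lit 399) (nat_lit 253))))) (XT.nd (nat_lit 234) (nat_lit 380) (nat_lit 0) (XT.nd (nat_lit 78) (nat_lit 76) (nat_lit 0) (XT.lf (nat_lit 152) (nat_lit 5193763597) (nat_lit 0) (nat_lit 27286306) (nat_lit 76) (nat_lit 27286306) (nat_lit 109) (nat_lit 1) (nat_lit 107) (nat_lit 1) (nat_lit 108) (nat_lit 1) (nat_lit 369) (nat_lit 399) (nat_lit 252)) (XT.nd (nat_lit 78) (nat_lit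 76) (nat_lit 0) (XT.lf (nat_lit 0) (nat_lit 1695184741) (nat_lit 0) (nat_lit 1771908142) (nat_lit 152) (nat_lit 1695184741) (nat_lit 107) (nat_lit 3) (nat_lit 107) (nat_lit 1) (nat_lit 109) (nat_lit 1) (nat_lit 370) (nat_lit 399) (nat_lit 251)) (XT.lf (nat_lit 76) (nat_lit 1644272114) (nat_lit 0) (nat_lit 1717342020) (nat_lit 76) (nat_lit 1717342020) (nat_lit 107) (nat_lit 3) (nat_lit 106) (nat_lit 1) (nat_lit 107) (nat_lit 1) (nat_lit 371) (nat_lit 399) (nat_lit 250)))) (XT.nd (nat_lit 156) (nat_lit 228) (nat_lit 0) (XT.nd (nat_lit 78) (nat_lit 0) (nat_lit 0) (XT.lf (nat_lit 152) (nat_lit 4953349917) (nat_lit 0) (nat_lit 22448511) (nat_lit 76) (nat_lit 22448511) (nat_lit 106) (nat_lit 1) (nat_lit 104) (nat_lit 1) (nat_lit 105) (nat_lit 1) (nat_lit 372) (nat_lit 399) (nat_lit 249)) (XT.lf (nat_lit 0) (nat_lit 1617723748) (nat_lit 0) (nat_lit 1680844280) (nat_lit 152) (nat_lit 1617723748) (nat_lit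 104) (nat_lit 3) (nat_lit 104) (nat_lit 1) (nat_lit 106) (nat_lit 1) (nat_lit 373) (nat_lit 399) (nat_lit 248))) (XT.nd (nat_lit 78) (nat_lit 152) (nat_lit 0) (XT.lf (nat_lit 76) (nat_lit 1572239561) (nat_lit 0) (nat_lit 1632354353) (nat_lit 76) (nat_lit 1632354353) (nat_lit 104) (nat_lit 3) (nat_lit 103) (nat_lit 1) (nat_lit 104) (nat_lit 1) (nat_lit 374) (nat_lit 399) (nat_lit 247)) (XT.lf (nat_lit 152) (nat_lit 4723159666) (nat_lit 0) (nat_lit 18468446) (nat_lit 76) (nat_lit 18468446) (nat_lit 103) (nat_lit 1) (nat_lit 101) (nat_lit 1) (nat_lit 102) (nat_lit 1) (nat_lit 375) (nat_lit 399) (nat_lit 246)))))) (XT.nd (nat_lit 468) (nat_lit 456) (nat_lit 0) (XT.nd (nat_lit 234) (nat_lit 228) (nat_lit 0) (XT.nd (nat_lit 78) (nat_lit 228) (nat_lit 0) (XT.lf (nat_lit 0) (nat_lit 1543373013) (nat_lit 0) (nat_lit 1595302431) (nat_lit 152) (nat_lit 1543373013) (nat_lit 101) (nat_lit 3) (nat_lit 101) (nat_lit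 1) (nat_lit 103) (nat_lit 1) (nat_lit 376) (nat_lit 399) (nat_lit 245)) (XT.nd (nat_lit 78) (nat_lit 152) (nat_lit 0) (XT.lf (nat_lit 76) (nat_lit 1502526162) (nat_lit 0) (nat_lit 1551982750) (nat_lit 76) (nat_lit 1551982750) (nat_lit 101) (nat_lit 3) (nat_lit 100) (nat_lit 1) (nat_lit 101) (nat_lit 1) (nat_lit 377) (nat_lit 399) (nat_lit 244)) (XT.lf (nat_lit 152) (nat_lit 4502923175) (nat_lit 0) (nat_lit 15194036) (nat_lit 76) (nat_lit 15194036) (nat_lit 100) (nat_lit 1) (nat_lit 98) (nat_lit 1) (nat_lit 99) (nat_lit 1) (nat_lit 378) (nat_lit 399) (nat_lit 243)))) (XT.nd (nat_lit 78) (nat_lit 228) (nat_lit 0) (XT.lf (nat_lit 0) (nat_lit 1472086971) (nat_lit 0) (nat_lit 1514809432) (nat_lit 152) (nat_lit 1472086971) (nat_lit 98) (nat_lit 3) (nat_lit 98) (nat_lit 1) (nat_lit 100) (nat_lit 1) (nat_lit 379) (nat_lit 399) (nat_lit 242)) (XT.nd (nat_lit 78) (nat_lit 152) (nat_lit 0) (XT.lf (nat_lit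 76) (nat_lit 1435218453) (nat_lit 0) (nat_lit 1475906510) (nat_lit 76) (nat_lit 1475906510) (nat_lit 98) (nat_lit 3) (nat_lit 97) (nat_lit 1) (nat_lit 98) (nat_lit 1) (nat_lit 380) (nat_lit 399) (nat_lit 241)) (XT.lf (nat_lit 152) (nat_lit 4292345115) (nat_lit 0) (nat_lit 12500171) (nat_lit 76) (nat_lit 12500171) (nat_lit 97) (nat_lit 1) (nat_lit 95) (nat_lit 1) (nat_lit 96) (nat_lit 1) (nat_lit 381) (nat_lit 399) (nat_lit 240))))) (XT.nd (nat_lit 234) (nat_lit 228) (nat_lit 0) (XT.nd (nat_lit 78) (nat_lit 228) (nat_lit 0) (XT.lf (nat_lit 0) (nat_lit 1403804045) (nat_lit 0) (nat_lit 1438951919) (nat_lit 152) (nat_lit 1403804045) (nat_lit 95) (nat_lit 3) (nat_lit 95) (nat_lit 1) (nat_lit 97) (nat_lit 1) (nat_lit 382) (nat_lit 399) (nat_lit 239)) (XT.nd (nat_lit 78) (nat_lit 152) (nat_lit 0) (XT.lf (nat_lit 76) (nat_lit 1370363926) (nat_lit 0) (nat_lit 1403838092) (nat_lit 76) (nat_lit 1403838092)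 (nat_lit 95) (nat_lit 3) (nat_lit 94) (nat_lit 1) (nat_lit 95) (nat_lit 1) (nat_lit 383) (nat_lit 399) (nat_lit 238)) (XT.lf (nat_lit 152) (nat_lit 4091112545) (nat_lit 0) (nat_lit 10283921) (nat_lit 76) (nat_lit 10283921) (nat_lit 94) (nat_lit 1) (nat_lit 92) (nat_lit 1) (nat_lit 93) (nat_lit 1) (nat_lit 384) (nat_lit 399) (nat_lit 237)))) (XT.nd (nat_lit 156) (nat_lit 152) (nat_lit 0) (XT.nd (nat_lit 78) (nat_lit 76) (nat_lit 0) (XT.lf (nat_lit 0) (nat_lit 1338450634) (nat_lit 0) (nat_lit 1367366877) (nat_lit 152) (nat_lit 1338450634) (nat_lit 92) (nat_lit 3) (nat_lit 92) (nat_lit 1) (nat_lit 94) (nat_lit 1) (nat_lit 385) (nat_lit 399) (nat_lit 236)) (XT.lf (nat_lit 76) (nat_lit 1307979082) (nat_lit 0) (nat_lit 1335518361) (nat_lit 76) (nat_lit 1335518361) (nat_lit 92) (nat_lit 3) (nat_lit 91) (nat_lit 1) (nat_lit 92) (nat_lit 1) (nat_lit 386) (nat_lit 399) (nat_lit 235))) (XT.nd (nat_lit 78)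 (nat_lit 0) (nat_lit 0) (XT.lf (nat_lit 152) (nat_lit 3898901363) (nat_lit 0) (nat_lit 8460608) (nat_lit 76) (nat_lit 8460608) (nat_lit 91) (nat_lit 1) (nat_lit 89) (nat_lit 1) (nat_lit 90) (nat_lit 1) (nat_lit 387) (nat_lit 399) (nat_lit 234)) (XT.lf (nat_lit 0) (nat_lit 1275944337) (nat_lit 0) (nat_lit 1299733802) (nat_lit 152) (nat_lit 1275944337) (nat_lit 89) (nat_lit 3) (nat_lit 89) (nat_lit 1) (nat_lit 91) (nat_lit 1) (nat_lit 388) (nat_lit 399) (nat_lit 233))))))))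
noncomputable def ec254 : XT := (XT.nd (nat_lit 1950) (nat_lit 1976) (nat_lit 0) (XT.nd (nat_lit 936) (nat_lit 988) (nat_lit 0) (XT.nd (nat_lit 468) (nat_lit 456) (nat_lit 0) (XT.nd (nat_lit 234) (nat_lit 228) (nat_lit 0) (XT.nd (nat_lit 78) (nat_lit 152) (nat_lit 0) (XT.lf (nat_lit 76) (nat_lit 1248055998) (nat_lit 0) (nat_lit 1270712631) (nat_lit 76) (nat_lit 1270712631) (nat_lit 89) (nat_lit 3) (nat_lit 88) (nat_lit 1) (nat_lit 89) (nat_lit 1) (nat_lit 389) (nat_lit 399) (nat_lit 232)) (XT.nd (nat_lit 78) (nat_lit 0) (nat_lit 0) (XT.lf (nat_lit 152) (nat_lit 3715381466) (nat_lit 0) (nat_lit 6960563) (nat_lit 76) (nat_lit 6960563) (nat_lit 88) (nat_lit 1) (nat_lit 86) (nat_lit 1) (nat_lit 87) (nat_lit 1) (nat_lit 390) (nat_lit 399) (nat_lit 231)) (XT.lf (nat_lit 0) (nat_lit 1216196552) (nat_lit 0) (nat_lit 1235768204) (nat_lit 152) (nat_lit 1216196552) (nat_lit 86) (nat_lit 3) (nat_lit 86) (nat_lit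 1) (nat_lit 88) (nat_lit 1) (nat_lit 391) (nat_lit 399) (nat_lit 230)))) (XT.nd (nat_lit 78) (nat_lit 152) (nat_lit 0) (XT.lf (nat_lit 76) (nat_lit 1190567683) (nat_lit 0) (nat_lit 1209207351) (nat_lit 76) (nat_lit 1209207351) (nat_lit 86) (nat_lit 3) (nat_lit 85) (nat_lit 1) (nat_lit 86) (nat_lit 1) (nat_lit 392) (nat_lit 399) (nat_lit 229)) (XT.nd (nat_lit 78) (nat_lit 0) (nat_lit 0) (XT.lf (nat_lit 152) (nat_lit 3540220826) (nat_lit 0) (nat_lit 5726472) (nat_lit 76) (nat_lit 5726472) (nat_lit 85) (nat_lit 1) (nat_lit 83) (nat_lit 1) (nat_lit 84) (nat_lit 1) (nat_lit 393) (nat_lit 399) (nat_lit 228)) (XT.lf (nat_lit 0) (nat_lit 1159114569) (nat_lit 0) (nat_lit 1175216215) (nat_lit 152) (nat_lit 1159114569) (nat_lit 83) (nat_lit 3) (nat_lit 83) (nat_lit 1) (nat_lit 85) (nat_lit 1) (nat_lit 394) (nat_lit 399) (nat_lit 227))))) (XT.nd (nat_lit 234) (nat_lit 228) (nat_lit 0) (XT.nd (nat_lit 78) (nat_lit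 152) (nat_lit 0) (XT.lf (nat_lit 76) (nat_lit 1135472430) (nat_lit 0) (nat_lit 1150807331) (nat_lit 76) (nat_lit 1150807331) (nat_lit 83) (nat_lit 3) (nat_lit 82) (nat_lit 1) (nat_lit 83) (nat_lit 1) (nat_lit 395) (nat_lit 399) (nat_lit 226)) (XT.nd (nat_lit 78) (nat_lit 0) (nat_lit 0) (XT.lf (nat_lit 152) (nat_lit 3373088721) (nat_lit 0) (nat_lit 4711183) (nat_lit 76) (nat_lit 4711183) (nat_lit 82) (nat_lit 1) (nat_lit 80) (nat_lit 1) (nat_lit 81) (nat_lit 1) (nat_lit 396) (nat_lit 399) (nat_lit 225)) (XT.lf (nat_lit 0) (nat_lit 1104603239) (nat_lit 0) (nat_lit 1117850103) (nat_lit 152) (nat_lit 1104603239) (nat_lit 80) (nat_lit 3) (nat_lit 80) (nat_lit 1) (nat_lit 82) (nat_lit 1) (nat_lit 397) (nat_lit 399) (nat_lit 224)))) (XT.nd (nat_lit 78) (nat_lit 152) (nat_lit 0) (XT.lf (nat_lit 76) (nat_lit 1082717361) (nat_lit 0) (nat_lit 1095333422) (nat_lit 76) (nat_lit 1095333422) (nat_lit 80) (nat_lit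 3) (nat_lit 79) (nat_lit 1) (nat_lit 80) (nat_lit 1) (nat_lit 398) (nat_lit 399) (nat_lit 223)) (XT.nd (nat_lit 78) (nat_lit 0) (nat_lit 0) (XT.lf (nat_lit 152) (nat_lit 3213658234) (nat_lit 0) (nat_lit 3875902) (nat_lit 76) (nat_lit 3875902) (nat_lit 79) (nat_lit 1) (nat_lit 77) (nat_lit 1) (nat_lit 78) (nat_lit 1) (nat_lit 399) (nat_lit 399) (nat_lit 222)) (XT.lf (nat_lit 0) (nat_lit 1052566309) (nat_lit 0) (nat_lit 1063464537) (nat_lit 152) (nat_lit 1052566309) (nat_lit 77) (nat_lit 3) (nat_lit 77) (nat_lit 1) (nat_lit 79) (nat_lit 1) (nat_lit 400) (nat_lit 399) (nat_lit 221)))))) (XT.nd (nat_lit 468) (nat_lit 532) (nat_lit 0) (XT.nd (nat_lit 234) (nat_lit 228) (nat_lit 0) (XT.nd (nat_lit 78) (nat_lit 152) (nat_lit 0) (XT.lf (nat_lit 76) (nat_lit 1032241283) (nat_lit 0) (nat_lit 1042620548) (nat_lit 76) (nat_lit 1042620548) (nat_lit 77) (nat_lit 3) (nat_lit 76) (nat_lit 1) (nat_lit 77) (nat_lit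 1) (nat_lit 401) (nat_lit 399) (nat_lit 220)) (XT.nd (nat_lit 78) (nat_lit 0) (nat_lit 0) (XT.lf (nat_lit 152) (nat_lit 3061608197) (nat_lit 0) (nat_lit 3188714) (nat_lit 76) (nat_lit 3188714) (nat_lit 76) (nat_lit 1) (nat_lit 74) (nat_lit 1) (nat_lit 75) (nat_lit 1) (nat_lit 402) (nat_lit 399) (nat_lit 219)) (XT.lf (nat_lit 0) (nat_lit 1002907470) (nat_lit 0) (nat_lit 1011873469) (nat_lit 152) (nat_lit 1002907470) (nat_lit 74) (nat_lit 3) (nat_lit 74) (nat_lit 1) (nat_lit 76) (nat_lit 1) (nat_lit 403) (nat_lit 399) (nat_lit 218)))) (XT.nd (nat_lit 78) (nat_lit 152) (nat_lit 0) (XT.lf (nat_lit 76) (nat_lit 983977011) (nat_lit 0) (nat_lit 992516058) (nat_lit 76) (nat_lit 992516058) (nat_lit 74) (nat_lit 3) (nat_lit 73) (nat_lit 1) (nat_lit 74) (nat_lit 1) (nat_lit 404) (nat_lit 399) (nat_lit 217)) (XT.nd (nat_lit 78) (nat_lit 0) (nat_lit 0) (XT.lf (nat_lit 152) (nat_lit 2916624655) (nat_lit 0) (nat_lit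 2623363) (nat_lit 76) (nat_lit 2623363) (nat_lit 73) (nat_lit 1) (nat_lit 71) (nat_lit 1) (nat_lit 72) (nat_lit 1) (nat_lit 405) (nat_lit 399) (nat_lit 216)) (XT.lf (nat_lit 0) (nat_lit 955531183) (nat_lit 0) (nat_lit 962907533) (nat_lit 152) (nat_lit 955531183) (nat_lit 71) (nat_lit 3) (nat_lit 71) (nat_lit 1) (nat_lit 73) (nat_lit 1) (nat_lit 406) (nat_lit 399) (nat_lit 215))))) (XT.nd (nat_lit 234) (nat_lit 304) (nat_lit 0) (XT.nd (nat_lit 78) (nat_lit 152) (nat_lit 0) (XT.lf (nat_lit 76) (nat_lit 937853230) (nat_lit 0) (nat_lit 944878325) (nat_lit 76) (nat_lit 944878325) (nat_lit 71) (nat_lit 3) (nat_lit 70) (nat_lit 1) (nat_lit 71) (nat_lit 1) (nat_lit 407) (nat_lit 399) (nat_lit 214)) (XT.nd (nat_lit 78) (nat_lit 0) (nat_lit 0) (XT.lf (nat_lit 152) (nat_lit 2778401955) (nat_lit 0) (nat_lit 2158247) (nat_lit 76) (nat_lit 2158247) (nat_lit 70) (nat_lit 1) (nat_lit 68) (nat_lit 1) (nat_lit 69)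 (nat_lit 1) (nat_lit 408) (nat_lit 399) (nat_lit 213)) (XT.lf (nat_lit 0) (nat_lit 910343322) (nat_lit 0) (nat_lit 916411864) (nat_lit 152) (nat_lit 910343322) (nat_lit 68) (nat_lit 3) (nat_lit 68) (nat_lit 1) (nat_lit 70) (nat_lit 1) (nat_lit 409) (nat_lit 399) (nat_lit 212)))) (XT.nd (nat_lit 156) (nat_lit 76) (nat_lit 0) (XT.nd (nat_lit 78) (nat_lit 152) (nat_lit 0) (XT.lf (nat_lit 76) (nat_lit 893795990) (nat_lit 0) (nat_lit 899575553) (nat_lit 76) (nat_lit 899575553) (nat_lit 68) (nat_lit 3) (nat_lit 67) (nat_lit 1) (nat_lit 68) (nat_lit 1) (nat_lit 410) (nat_lit 399) (nat_lit 211)) (XT.lf (nat_lit 152) (nat_lit 2646643529) (nat_lit 0) (nat_lit 1775595) (nat_lit 76) (nat_lit 1775595) (nat_lit 67) (nat_lit 1) (nat_lit 65) (nat_lit 1) (nat_lit 66) (nat_lit 1) (nat_lit 411) (nat_lit 399) (nat_lit 210))) (XT.nd (nat_lit 78) (nat_lit 76) (nat_lit 0) (XT.lf (nat_lit 0) (nat_lit 867251660) (nat_lit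 0) (nat_lit 872244264) (nat_lit 152) (nat_lit 867251660) (nat_lit 65) (nat_lit 3) (nat_lit 65) (nat_lit 1) (nat_lit 67) (nat_lit 1) (nat_lit 412) (nat_lit 399) (nat_lit 209)) (XT.lf (nat_lit 76) (nat_lit 851729904) (nat_lit 0) (nat_lit 856484764) (nat_lit 76) (nat_lit 856484764) (nat_lit 65) (nat_lit 3) (nat_lit 64) (nat_lit 1) (nat_lit 65) (nat_lit 1) (nat_lit 413) (nat_lit 399) (nat_lit 208))))))) (XT.nd (nat_lit 936) (nat_lit 1064) (nat_lit 0) (XT.nd (nat_lit 468) (nat_lit 456) (nat_lit 0) (XT.nd (nat_lit 234) (nat_lit 228) (nat_lit 0) (XT.nd (nat_lit 78) (nat_lit 76) (nat_lit 0) (XT.lf (nat_lit 152) (nat_lit 2521062433) (nat_lit 0) (nat_lit 1460786) (nat_lit 76) (nat_lit 1460786) (nat_lit 64) (nat_lit 1) (nat_lit 62) (nat_lit 1) (nat_lit 63) (nat_lit 1) (nat_lit 414) (nat_lit 399) (nat_lit 207)) (XT.nd (nat_lit 78) (nat_lit 76) (nat_lit 0) (XT.lf (nat_lit 0) (nat_lit 826166235) (nat_lit 0)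 (nat_lit 830273662) (nat_lit 152) (nat_lit 826166235) (nat_lit 62) (nat_lit 3) (nat_lit 62) (nat_lit 1) (nat_lit 64) (nat_lit 1) (nat_lit 415) (nat_lit 399) (nat_lit 206)) (XT.lf (nat_lit 76) (nat_lit 811579091) (nat_lit 0) (nat_lit 815490926) (nat_lit 76) (nat_lit 815490926) (nat_lit 62) (nat_lit 3) (nat_lit 61) (nat_lit 1) (nat_lit 62) (nat_lit 1) (nat_lit 416) (nat_lit 399) (nat_lit 205)))) (XT.nd (nat_lit 78) (nat_lit 76) (nat_lit 0) (XT.lf (nat_lit 152) (nat_lit 2401381685) (nat_lit 0) (nat_lit 1201792) (nat_lit 76) (nat_lit 1201792) (nat_lit 61) (nat_lit 1) (nat_lit 59) (nat_lit 1) (nat_lit 60) (nat_lit 1) (nat_lit 417) (nat_lit 399) (nat_lit 204)) (XT.nd (nat_lit 78) (nat_lit 76) (nat_lit 0) (XT.lf (nat_lit 0) (nat_lit 786999623) (nat_lit 0) (nat_lit 790378814) (nat_lit 152) (nat_lit 786999623) (nat_lit 59) (nat_lit 3) (nat_lit 59) (nat_lit 1) (nat_lit 61) (nat_lit 1) (nat_lit 418) (nat_lit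 399) (nat_lit 203)) (XT.lf (nat_lit 76) (nat_lit 773267927) (nat_lit 0) (nat_lit 776486204) (nat_lit 76) (nat_lit 776486204) (nat_lit 59) (nat_lit 3) (nat_lit 58) (nat_lit 1) (nat_lit 59) (nat_lit 1) (nat_lit 419) (nat_lit 399) (nat_lit 202))))) (XT.nd (nat_lit 234) (nat_lit 228) (nat_lit 0) (XT.nd (nat_lit 78) (nat_lit 76) (nat_lit 0) (XT.lf (nat_lit 152) (nat_lit 2287334448) (nat_lit 0) (nat_lit 988717) (nat_lit 76) (nat_lit 988717) (nat_lit 58) (nat_lit 1) (nat_lit 56) (nat_lit 1) (nat_lit 57) (nat_lit 1) (nat_lit 420) (nat_lit 399) (nat_lit 201)) (XT.nd (nat_lit 78) (nat_lit 76) (nat_lit 0) (XT.lf (nat_lit 0) (nat_lit 749667126) (nat_lit 0) (nat_lit 752447194) (nat_lit 152) (nat_lit 749667126) (nat_lit 56) (nat_lit 3) (nat_lit 56) (nat_lit 1) (nat_lit 58) (nat_lit 1) (nat_lit 421) (nat_lit 399) (nat_lit 200)) (XT.lf (nat_lit 76) (nat_lit 736721629) (nat_lit 0) (nat_lit 739369313) (nat_lit 76)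 (nat_lit 739369313) (nat_lit 56) (nat_lit 3) (nat_lit 55) (nat_lit 1) (nat_lit 56) (nat_lit 1) (nat_lit 422) (nat_lit 399) (nat_lit 199)))) (XT.nd (nat_lit 78) (nat_lit 76) (nat_lit 0) (XT.lf (nat_lit 152) (nat_lit 2178664086) (nat_lit 0) (nat_lit 813420) (nat_lit 76) (nat_lit 813420) (nat_lit 55) (nat_lit 1) (nat_lit 53) (nat_lit 1) (nat_lit 54) (nat_lit 1) (nat_lit 423) (nat_lit 399) (nat_lit 198)) (XT.nd (nat_lit 78) (nat_lit 76) (nat_lit 0) (XT.lf (nat_lit 0) (nat_lit 714086893) (nat_lit 0) (nat_lit 716374062) (nat_lit 152) (nat_lit 714086893) (nat_lit 53) (nat_lit 3) (nat_lit 53) (nat_lit 1) (nat_lit 55) (nat_lit 1) (nat_lit 424) (nat_lit 399) (nat_lit 197)) (XT.lf (nat_lit 76) (nat_lit 701866699) (nat_lit 0) (nat_lit 704044955) (nat_lit 76) (nat_lit 704044955) (nat_lit 53) (nat_lit 3) (nat_lit 52) (nat_lit 1) (nat_lit 53) (nat_lit 1) (nat_lit 425) (nat_lit 399) (nat_lit 196)))))) (XT.nd (nat_lit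 468) (nat_lit 608) (nat_lit 0) (XT.nd (nat_lit 234) (nat_lit 228) (nat_lit 0) (XT.nd (nat_lit 78) (nat_lit 76) (nat_lit 0) (XT.lf (nat_lit 152) (nat_lit 2075124120) (nat_lit 0) (nat_lit 669203) (nat_lit 76) (nat_lit 669203) (nat_lit 52) (nat_lit 1) (nat_lit 50) (nat_lit 1) (nat_lit 51) (nat_lit 1) (nat_lit 426) (nat_lit 399) (nat_lit 195)) (XT.nd (nat_lit 78) (nat_lit 76) (nat_lit 0) (XT.lf (nat_lit 0) (nat_lit 680180000) (nat_lit 0) (nat_lit 682061660) (nat_lit 152) (nat_lit 680180000) (nat_lit 50) (nat_lit 3) (nat_lit 50) (nat_lit 1) (nat_lit 52) (nat_lit 1) (nat_lit 427) (nat_lit 399) (nat_lit 194)) (XT.lf (nat_lit 76) (nat_lit 668631272) (nat_lit 0) (nat_lit 670423329) (nat_lit 76) (nat_lit 670423329) (nat_lit 50) (nat_lit 3) (nat_lit 49) (nat_lit 1) (nat_lit 50) (nat_lit 1) (nat_lit 428) (nat_lit 399) (nat_lit 193)))) (XT.nd (nat_lit 78) (nat_lit 76) (nat_lit 0) (XT.lf (nat_lit 152) (nat_lit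 1976478116) (nat_lit 0) (nat_lit 550555) (nat_lit 76) (nat_lit 550555) (nat_lit 49) (nat_lit 1) (nat_lit 47) (nat_lit 1) (nat_lit 48) (nat_lit 1) (nat_lit 429) (nat_lit 399) (nat_lit 192)) (XT.nd (nat_lit 78) (nat_lit 76) (nat_lit 0) (XT.lf (nat_lit 0) (nat_lit 647870479) (nat_lit 0) (nat_lit 649418526) (nat_lit 152) (nat_lit 647870479) (nat_lit 47) (nat_lit 3) (nat_lit 47) (nat_lit 1) (nat_lit 49) (nat_lit 1) (nat_lit 430) (nat_lit 399) (nat_lit 191)) (XT.lf (nat_lit 76) (nat_lit 636945365) (nat_lit 0) (nat_lit 638419695) (nat_lit 76) (nat_lit 638419695) (nat_lit 47) (nat_lit 3) (nat_lit 46) (nat_lit 1) (nat_lit 47) (nat_lit 1) (nat_lit 431) (nat_lit 399) (nat_lit 190))))) (XT.nd (nat_lit 234) (nat_lit 380) (nat_lit 0) (XT.nd (nat_lit 78) (nat_lit 76) (nat_lit 0) (XT.lf (nat_lit 152) (nat_lit 1882499501) (nat_lit 0) (nat_lit 452943) (nat_lit 76) (nat_lit 452943) (nat_lit 46) (nat_lit 1) (nat_lit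 44) (nat_lit 1) (nat_lit 45) (nat_lit 1) (nat_lit 432) (nat_lit 399) (nat_lit 189)) (XT.nd (nat_lit 78) (nat_lit 76) (nat_lit 0) (XT.lf (nat_lit 0) (nat_lit 617085323) (nat_lit 0) (nat_lit 618358905) (nat_lit 152) (nat_lit 617085323) (nat_lit 44) (nat_lit 3) (nat_lit 44) (nat_lit 1) (nat_lit 46) (nat_lit 1) (nat_lit 433) (nat_lit 399) (nat_lit 188)) (XT.lf (nat_lit 76) (nat_lit 606741065) (nat_lit 0) (nat_lit 607954000) (nat_lit 76) (nat_lit 607954000) (nat_lit 44) (nat_lit 3) (nat_lit 43) (nat_lit 1) (nat_lit 44) (nat_lit 1) (nat_lit 434) (nat_lit 399) (nat_lit 187)))) (XT.nd (nat_lit 156) (nat_lit 228) (nat_lit 0) (XT.nd (nat_lit 78) (nat_lit 0) (nat_lit 0) (XT.lf (nat_lit 152) (nat_lit 1792971345) (nat_lit 0) (nat_lit 372637) (nat_lit 76) (nat_lit 372637) (nat_lit 43) (nat_lit 1) (nat_lit 41) (nat_lit 1) (nat_lit 42) (nat_lit 1) (nat_lit 435) (nat_lit 399) (nat_lit 186)) (XT.lf (nat_lit 0) (nat_lit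 587754457) (nat_lit 0) (nat_lit 588802236) (nat_lit 152) (nat_lit 587754457) (nat_lit 41) (nat_lit 3) (nat_lit 41) (nat_lit 1) (nat_lit 43) (nat_lit 1) (nat_lit 436) (nat_lit 399) (nat_lit 185))) (XT.nd (nat_lit 78) (nat_lit 152) (nat_lit 0) (XT.lf (nat_lit 76) (nat_lit 577952649) (nat_lit 0) (nat_lit 578950533) (nat_lit 76) (nat_lit 578950533) (nat_lit 41) (nat_lit 3) (nat_lit 40) (nat_lit 1) (nat_lit 41) (nat_lit 1) (nat_lit 437) (nat_lit 399) (nat_lit 184)) (XT.lf (nat_lit 152) (nat_lit 1707686102) (nat_lit 0) (nat_lit 306569) (nat_lit 76) (nat_lit 306569) (nat_lit 40) (nat_lit 1) (nat_lit 38) (nat_lit 1) (nat_lit 39) (nat_lit 1) (nat_lit 438) (nat_lit 399) (nat_lit 183))))))))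
noncomputable def ec255 : XT := (XT.nd (nat_lit 37440) (nat_lit 0) (nat_lit 14060) (XT.nd (nat_lit 36426) (nat_lit 0) (nat_lit 18088) (XT.nd (nat_lit 468) (nat_lit 0) (nat_lit 0) (XT.nd (nat_lit 234) (nat_lit 228) (nat_lit 0) (XT.nd (nat_lit 78) (nat_lit 228) (nat_lit 0) (XT.lf (nat_lit 0) (nat_lit 559810699) (nat_lit 0) (nat_lit 560672709) (nat_lit 152) (nat_lit 559810699) (nat_lit 38) (nat_lit 3) (nat_lit 38) (nat_lit 1) (nat_lit 40) (nat_lit 1) (nat_lit 439) (nat_lit 399) (nat_lit 182)) (XT.nd (nat_lit 78) (nat_lit 152) (nat_lit 0) (XT.lf (nat_lit 76) (nat_lit 550516668) (nat_lit 0) (nat_lit 551337630) (nat_lit 76) (nat_lit 551337630) (nat_lit 38) (nat_lit 3) (nat_lit 37) (nat_lit 1) (nat_lit 38) (nat_lit 1) (nat_lit 440) (nat_lit 399) (nat_lit 181)) (XT.lf (nat_lit 152) (nat_lit 1626445334) (nat_lit 0) (nat_lit 252215) (nat_lit 76) (nat_lit 252215) (nat_lit 37) (nat_lit 1) (nat_lit 35) (nat_lit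 1) (nat_lit 36) (nat_lit 1) (nat_lit 441) (nat_lit 399) (nat_lit 180)))) (XT.nd (nat_lit 78) (nat_lit 228) (nat_lit 0) (XT.lf (nat_lit 0) (nat_lit 533189697) (nat_lit 0) (nat_lit 533898875) (nat_lit 152) (nat_lit 533189697) (nat_lit 35) (nat_lit 3) (nat_lit 35) (nat_lit 1) (nat_lit 37) (nat_lit 1) (nat_lit 442) (nat_lit 399) (nat_lit 179)) (XT.nd (nat_lit 78) (nat_lit 152) (nat_lit 0) (XT.lf (nat_lit 76) (nat_lit 524371990) (nat_lit 0) (nat_lit 525047397) (nat_lit 76) (nat_lit 525047397) (nat_lit 35) (nat_lit 3) (nat_lit 34) (nat_lit 1) (nat_lit 35) (nat_lit 1) (nat_lit 443) (nat_lit 399) (nat_lit 178)) (XT.lf (nat_lit 152) (nat_lit 1549059412) (nat_lit 0) (nat_lit 207498) (nat_lit 76) (nat_lit 207498) (nat_lit 34) (nat_lit 1) (nat_lit 32) (nat_lit 1) (nat_lit 33) (nat_lit 1) (nat_lit 444) (nat_lit 399) (nat_lit 177))))) (XT.nd (nat_lit 35724) (nat_lit 0) (nat_lit 19836) (XT.nd (nat_lit 35568)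 (nat_lit 0) (nat_lit 19760) (XT.lf (nat_lit 0) (nat_lit 507829864) (nat_lit 0) (nat_lit 508413306) (nat_lit 152) (nat_lit 507829864) (nat_lit 32) (nat_lit 3) (nat_lit 32) (nat_lit 1) (nat_lit 34) (nat_lit 1) (nat_lit 445) (nat_lit 399) (nat_lit 176)) (XT.nd (nat_lit 78) (nat_lit 0) (nat_lit 0) (XT.lf (nat_lit 836) (nat_lit 10037085488) (nat_lit 0) (nat_lit 17820822213) (nat_lit 836) (nat_lit 10037085488) (nat_lit 303) (nat_lit 1) (nat_lit 292) (nat_lit 0) (nat_lit 303) (nat_lit 0) (nat_lit 220) (nat_lit 400) (nat_lit 400)) (XT.lf (nat_lit 836) (nat_lit 38904996434) (nat_lit 76) (nat_lit 17533389597) (nat_lit 0) (nat_lit 17533389597) (nat_lit 303) (nat_lit 1) (nat_lit 293) (nat_lit 1) (nat_lit 292) (nat_lit 0) (nat_lit 221) (nat_lit 400) (nat_lit 399)))) (XT.nd (nat_lit 78) (nat_lit 0) (nat_lit 0) (XT.lf (nat_lit 836) (nat_lit 18541535508) (nat_lit 0) (nat_lit 35126704522) (nat_lit 760) (nat_lit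 18541535508) (nat_lit 304) (nat_lit 1) (nat_lit 293) (nat_lit 1) (nat_lit 303) (nat_lit 1) (nat_lit 222) (nat_lit 400) (nat_lit 398)) (XT.nd (nat_lit 78) (nat_lit 0) (nat_lit 76) (XT.lf (nat_lit 836) (nat_lit 34781344202) (nat_lit 76) (nat_lit 17861678488) (nat_lit 0) (nat_lit 17861678488) (nat_lit 304) (nat_lit 1) (nat_lit 294) (nat_lit 1) (nat_lit 293) (nat_lit 1) (nat_lit 223) (nat_lit 400) (nat_lit 397)) (XT.lf (nat_lit 836) (nat_lit 16009518728) (nat_lit 0) (nat_lit 36834631669) (nat_lit 760) (nat_lit 16009518728) (nat_lit 305) (nat_lit 1) (nat_lit 294) (nat_lit 1) (nat_lit 304) (nat_lit 1) (nat_lit 224) (nat_lit 400) (nat_lit 396)))))) (XT.nd (nat_lit 468) (nat_lit 1824) (nat_lit 0) (XT.nd (nat_lit 234) (nat_lit 0) (nat_lit 152) (XT.nd (nat_lit 78) (nat_lit 0) (nat_lit 76) (XT.lf (nat_lit 836) (nat_lit 28794162164) (nat_lit 76) (nat_lit 19229402336) (nat_lit 0) (nat_lit 19229402336) (nat_lit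 305) (nat_lit 1) (nat_lit 295) (nat_lit 1) (nat_lit 294) (nat_lit 1) (nat_lit 225) (nat_lit 400) (nat_lit 395)) (XT.nd (nat_lit 78) (nat_lit 0) (nat_lit 0) (XT.lf (nat_lit 836) (nat_lit 12625408458) (nat_lit 0) (nat_lit 40455193671) (nat_lit 760) (nat_lit 12625408458) (nat_lit 306) (nat_lit 1) (nat_lit 295) (nat_lit 1) (nat_lit 305) (nat_lit 1) (nat_lit 226) (nat_lit 400) (nat_lit 394)) (XT.lf (nat_lit 836) (nat_lit 21223699271) (nat_lit 76) (nat_lit 21488974036) (nat_lit 0) (nat_lit 21488974036) (nat_lit 306) (nat_lit 1) (nat_lit 296) (nat_lit 1) (nat_lit 295) (nat_lit 1) (nat_lit 227) (nat_lit 400) (nat_lit 393)))) (XT.nd (nat_lit 78) (nat_lit 0) (nat_lit 0) (XT.lf (nat_lit 836) (nat_lit 8520209818) (nat_lit 0) (nat_lit 45711932739) (nat_lit 760) (nat_lit 8520209818) (nat_lit 307) (nat_lit 1) (nat_lit 296) (nat_lit 1) (nat_lit 306) (nat_lit 1) (nat_lit 228) (nat_lit 400) (nat_lit 392)) (XT.nd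 (nat_lit 78) (nat_lit 0) (nat_lit 76) (XT.lf (nat_lit 836) (nat_lit 12319054557) (nat_lit 76) (nat_lit 24508953942) (nat_lit 0) (nat_lit 24508953942) (nat_lit 307) (nat_lit 1) (nat_lit 297) (nat_lit 1) (nat_lit 296) (nat_lit 1) (nat_lit 229) (nat_lit 400) (nat_lit 391)) (XT.lf (nat_lit 76) (nat_lit 3810282336) (nat_lit 0) (nat_lit 52358790608) (nat_lit 760) (nat_lit 3810282336) (nat_lit 298) (nat_lit 1) (nat_lit 297) (nat_lit 1) (nat_lit 307) (nat_lit 1) (nat_lit 230) (nat_lit 400) (nat_lit 390))))) (XT.nd (nat_lit 234) (nat_lit 760) (nat_lit 0) (XT.nd (nat_lit 78) (nat_lit 532) (nat_lit 0) (XT.lf (nat_lit 836) (nat_lit 2301315777) (nat_lit 0) (nat_lit 28172433088) (nat_lit 760) (nat_lit 28172433088) (nat_lit 298) (nat_lit 1) (nat_lit 287) (nat_lit 1) (nat_lit 297) (nat_lit 1) (nat_lit 231) (nat_lit 400) (nat_lit 389)) (XT.nd (nat_lit 78) (nat_lit 0) (nat_lit 0) (XT.lf (nat_lit 532) (nat_lit 54613121600)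 (nat_lit 0) (nat_lit 1378581325) (nat_lit 456) (nat_lit 1378581325) (nat_lit 287) (nat_lit 1) (nat_lit 280) (nat_lit 1) (nat_lit 286) (nat_lit 1) (nat_lit 232) (nat_lit 400) (nat_lit 388)) (XT.lf (nat_lit 76) (nat_lit 23876761712) (nat_lit 0) (nat_lit 8357276010) (nat_lit 532) (nat_lit 23876761712) (nat_lit 281) (nat_lit 1) (nat_lit 280) (nat_lit 1) (nat_lit 287) (nat_lit 1) (nat_lit 233) (nat_lit 400) (nat_lit 387)))) (XT.nd (nat_lit 156) (nat_lit 380) (nat_lit 0) (XT.nd (nat_lit 78) (nat_lit 0) (nat_lit 0) (XT.lf (nat_lit 456) (nat_lit 41085778008) (nat_lit 0) (nat_lit 6909546640) (nat_lit 380) (nat_lit 6909546640) (nat_lit 281) (nat_lit 1) (nat_lit 275) (nat_lit 1) (nat_lit 280) (nat_lit 1) (nat_lit 234) (nat_lit 400) (nat_lit 386)) (XT.lf (nat_lit 76) (nat_lit 17031003467) (nat_lit 0) (nat_lit 19662288151) (nat_lit 456) (nat_lit 17031003467) (nat_lit 276) (nat_lit 1) (nat_lit 275) (nat_lit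 1) (nat_lit 281) (nat_lit 1) (nat_lit 235) (nat_lit 400) (nat_lit 385))) (XT.nd (nat_lit 78) (nat_lit 0) (nat_lit 0) (XT.lf (nat_lit 456) (nat_lit 27055567468) (nat_lit 0) (nat_lit 12764633861) (nat_lit 380) (nat_lit 12764633861) (nat_lit 276) (nat_lit 1) (nat_lit 270) (nat_lit 1) (nat_lit 275) (nat_lit 1) (nat_lit 236) (nat_lit 400) (nat_lit 384)) (XT.lf (nat_lit 76) (nat_lit 9969617042) (nat_lit 0) (nat_lit 31539280547) (nat_lit 456) (nat_lit 9969617042) (nat_lit 271) (nat_lit 1) (nat_lit 270) (nat_lit 1) (nat_lit 276) (nat_lit 1) (nat_lit 237) (nat_lit 400) (nat_lit 383))))))) (XT.nd (nat_lit 1014) (nat_lit 1672) (nat_lit 0) (XT.nd (nat_lit 468) (nat_lit 1064) (nat_lit 0) (XT.nd (nat_lit 234) (nat_lit 608) (nat_lit 0) (XT.nd (nat_lit 78) (nat_lit 380) (nat_lit 0) (XT.lf (nat_lit 380) (nat_lit 12653075646) (nat_lit 0) (nat_lit 18873788319) (nat_lit 304) (nat_lit 18873788319) (nat_lit 271) (nat_lit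 1) (nat_lit 266) (nat_lit 1) (nat_lit 270) (nat_lit 1) (nat_lit 238) (nat_lit 400) (nat_lit 382)) (XT.nd (nat_lit 78) (nat_lit 380) (nat_lit 0) (XT.lf (nat_lit 76) (nat_lit 2753224831) (nat_lit 0) (nat_lit 43857789556) (nat_lit 380) (nat_lit 2753224831) (nat_lit 267) (nat_lit 1) (nat_lit 266) (nat_lit 1) (nat_lit 271) (nat_lit 1) (nat_lit 239) (nat_lit 400) (nat_lit 381)) (XT.lf (nat_lit 76) (nat_lit 23199463571) (nat_lit 0) (nat_lit 1943000139) (nat_lit 380) (nat_lit 23199463571) (nat_lit 262) (nat_lit 1) (nat_lit 261) (nat_lit 1) (nat_lit 266) (nat_lit 1) (nat_lit 240) (nat_lit 400) (nat_lit 380)))) (XT.nd (nat_lit 78) (nat_lit 304) (nat_lit 0) (XT.lf (nat_lit 380) (nat_lit 38375571341) (nat_lit 0) (nat_lit 4491488074) (nat_lit 304) (nat_lit 4491488074) (nat_lit 262) (nat_lit 1) (nat_lit 257) (nat_lit 1) (nat_lit 261) (nat_lit 1) (nat_lit 241) (nat_lit 400) (nat_lit 379)) (XT.nd (nat_lit 78)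 (nat_lit 304) (nat_lit 0) (XT.lf (nat_lit 76) (nat_lit 15052586187) (nat_lit 0) (nat_lit 16286865422) (nat_lit 380) (nat_lit 15052586187) (nat_lit 258) (nat_lit 1) (nat_lit 257) (nat_lit 1) (nat_lit 262) (nat_lit 1) (nat_lit 242) (nat_lit 400) (nat_lit 378)) (XT.lf (nat_lit 380) (nat_lit 21965910551) (nat_lit 0) (nat_lit 11746566354) (nat_lit 304) (nat_lit 11746566354) (nat_lit 258) (nat_lit 1) (nat_lit 253) (nat_lit 1) (nat_lit 257) (nat_lit 1) (nat_lit 243) (nat_lit 400) (nat_lit 377))))) (XT.nd (nat_lit 234) (nat_lit 456) (nat_lit 0) (XT.nd (nat_lit 78) (nat_lit 608) (nat_lit 0) (XT.lf (nat_lit 76) (nat_lit 6927067865) (nat_lit 0) (nat_lit 30699193834) (nat_lit 380) (nat_lit 6927067865) (nat_lit 254) (nat_lit 1) (nat_lit 253) (nat_lit 1) (nat_lit 258) (nat_lit 1) (nat_lit 244) (nat_lit 400) (nat_lit 376)) (XT.nd (nat_lit 78) (nat_lit 380) (nat_lit 0) (XT.lf (nat_lit 304) (nat_lit 5633487614)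 (nat_lit 0) (nat_lit 19016839494) (nat_lit 228) (nat_lit 19016839494) (nat_lit 254) (nat_lit 1) (nat_lit 250) (nat_lit 1) (nat_lit 253) (nat_lit 1) (nat_lit 245) (nat_lit 400) (nat_lit 375)) (XT.lf (nat_lit 380) (nat_lit 40564052370) (nat_lit 0) (nat_lit 1125574619) (nat_lit 304) (nat_lit 1125574619) (nat_lit 250) (nat_lit 1) (nat_lit 245) (nat_lit 1) (nat_lit 249) (nat_lit 1) (nat_lit 246) (nat_lit 400) (nat_lit 374)))) (XT.nd (nat_lit 156) (nat_lit 228) (nat_lit 0) (XT.nd (nat_lit 78) (nat_lit 228) (nat_lit 0) (XT.lf (nat_lit 76) (nat_lit 15873013577) (nat_lit 0) (nat_lit 10221924983) (nat_lit 380) (nat_lit 15873013577) (nat_lit 246) (nat_lit 1) (nat_lit 245) (nat_lit 1) (nat_lit 250) (nat_lit 1) (nat_lit 247) (nat_lit 400) (nat_lit 373)) (XT.lf (nat_lit 304) (nat_lit 23183038144) (nat_lit 0) (nat_lit 8985079398) (nat_lit 228) (nat_lit 8985079398) (nat_lit 246) (nat_lit 1) (nat_lit 242) (nat_lit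 1) (nat_lit 245) (nat_lit 1) (nat_lit 248) (nat_lit 400) (nat_lit 372))) (XT.nd (nat_lit 78) (nat_lit 228) (nat_lit 0) (XT.lf (nat_lit 76) (nat_lit 7323880354) (nat_lit 0) (nat_lit 25711381289) (nat_lit 304) (nat_lit 7323880354) (nat_lit 243) (nat_lit 1) (nat_lit 242) (nat_lit 1) (nat_lit 246) (nat_lit 1) (nat_lit 249) (nat_lit 400) (nat_lit 371)) (XT.lf (nat_lit 304) (nat_lit 6104225359) (nat_lit 0) (nat_lit 16739463116) (nat_lit 228) (nat_lit 16739463116) (nat_lit 243) (nat_lit 1) (nat_lit 239) (nat_lit 1) (nat_lit 242) (nat_lit 1) (nat_lit 250) (nat_lit 400) (nat_lit 370)))))) (XT.nd (nat_lit 468) (nat_lit 684) (nat_lit 0) (XT.nd (nat_lit 234) (nat_lit 456) (nat_lit 0) (XT.nd (nat_lit 78) (nat_lit 228) (nat_lit 0) (XT.lf (nat_lit 304) (nat_lit 36737841847) (nat_lit 0) (nat_lit 1049074183) (nat_lit 228) (nat_lit 1049074183) (nat_lit 239) (nat_lit 1) (nat_lit 235) (nat_lit 1) (nat_lit 238) (nat_lit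 1) (nat_lit 251) (nat_lit 400) (nat_lit 369)) (XT.nd (nat_lit 78) (nat_lit 228) (nat_lit 0) (XT.lf (nat_lit 76) (nat_lit 13896873465) (nat_lit 0) (nat_lit 10297443697) (nat_lit 304) (nat_lit 13896873465) (nat_lit 236) (nat_lit 1) (nat_lit 235) (nat_lit 1) (nat_lit 239) (nat_lit 1) (nat_lit 252) (nat_lit 400) (nat_lit 368)) (XT.lf (nat_lit 304) (nat_lit 19109473494) (nat_lit 0) (nat_lit 9132237625) (nat_lit 228) (nat_lit 9132237625) (nat_lit 236) (nat_lit 1) (nat_lit 232) (nat_lit 1) (nat_lit 235) (nat_lit 1) (nat_lit 253) (nat_lit 400) (nat_lit 367)))) (XT.nd (nat_lit 78) (nat_lit 456) (nat_lit 0) (XT.lf (nat_lit 76) (nat_lit 5262733415) (nat_lit 0) (nat_lit 26150476785) (nat_lit 304) (nat_lit 5262733415) (nat_lit 233) (nat_lit 1) (nat_lit 232) (nat_lit 1) (nat_lit 236) (nat_lit 1) (nat_lit 254) (nat_lit 400) (nat_lit 366)) (XT.nd (nat_lit 78) (nat_lit 304) (nat_lit 0) (XT.lf (nat_lit 228) (nat_lit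 1928440505) (nat_lit 0) (nat_lit 17031325734) (nat_lit 152) (nat_lit 17031325734) (nat_lit 233) (nat_lit 1) (nat_lit 230) (nat_lit 1) (nat_lit 232) (nat_lit 1) (nat_lit 255) (nat_lit 400) (nat_lit 365)) (XT.lf (nat_lit 304) (nat_lit 29138089406) (nat_lit 0) (nat_lit 3094676297) (nat_lit 228) (nat_lit 3094676297) (nat_lit 230) (nat_lit 1) (nat_lit 226) (nat_lit 1) (nat_lit 229) (nat_lit 1) (nat_lit 256) (nat_lit 400) (nat_lit 364))))) (XT.nd (nat_lit 234) (nat_lit 532) (nat_lit 0) (XT.nd (nat_lit 78) (nat_lit 152) (nat_lit 0) (XT.lf (nat_lit 76) (nat_lit 10177242974) (nat_lit 0) (nat_lit 14316728365) (nat_lit 304) (nat_lit 10177242974) (nat_lit 227) (nat_lit 1) (nat_lit 226) (nat_lit 1) (nat_lit 230) (nat_lit 1) (nat_lit 257) (nat_lit 400) (nat_lit 363)) (XT.nd (nat_lit 78) (nat_lit 0) (nat_lit 0) (XT.lf (nat_lit 228) (nat_lit 11758234350) (nat_lit 0) (nat_lit 11138502631) (nat_lit 152) (nat_lit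 11138502631) (nat_lit 227) (nat_lit 1) (nat_lit 224) (nat_lit 1) (nat_lit 226) (nat_lit 1) (nat_lit 258) (nat_lit 400) (nat_lit 362)) (XT.lf (nat_lit 76) (nat_lit 1689285062) (nat_lit 0) (nat_lit 30041800348) (nat_lit 228) (nat_lit 1689285062) (nat_lit 225) (nat_lit 1) (nat_lit 224) (nat_lit 1) (nat_lit 227) (nat_lit 1) (nat_lit 259) (nat_lit 400) (nat_lit 361)))) (XT.nd (nat_lit 156) (nat_lit 152) (nat_lit 0) (XT.nd (nat_lit 78) (nat_lit 152) (nat_lit 0) (XT.lf (nat_lit 76) (nat_lit 13941966001) (nat_lit 0) (nat_lit 4923804425) (nat_lit 228) (nat_lit 13941966001) (nat_lit 222) (nat_lit 1) (nat_lit 221) (nat_lit 1) (nat_lit 224) (nat_lit 1) (nat_lit 260) (nat_lit 400) (nat_lit 360)) (XT.lf (nat_lit 228) (nat_lit 19360863332) (nat_lit 0) (nat_lit 6427282062) (nat_lit 152) (nat_lit 6427282062) (nat_lit 222) (nat_lit 1) (nat_lit 219) (nat_lit 1) (nat_lit 221) (nat_lit 1) (nat_lit 261) (nat_lit 400)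 (nat_lit 359))) (XT.nd (nat_lit 78) (nat_lit 152) (nat_lit 0) (XT.lf (nat_lit 76) (nat_lit 5463131936) (nat_lit 0) (nat_lit 20709945937) (nat_lit 228) (nat_lit 5463131936) (nat_lit 220) (nat_lit 1) (nat_lit 219) (nat_lit 1) (nat_lit 222) (nat_lit 1) (nat_lit 262) (nat_lit 400) (nat_lit 358)) (XT.lf (nat_lit 228) (nat_lit 2559280621) (nat_lit 0) (nat_lit 14254693539) (nat_lit 152) (nat_lit 14254693539) (nat_lit 220) (nat_lit 1) (nat_lit 217) (nat_lit 1) (nat_lit 219) (nat_lit 1) (nat_lit 263) (nat_lit 400) (nat_lit 357))))))))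
noncomputable def ec256 : XT := (XT.nd (nat_lit 1950) (nat_lit 1900) (nat_lit 0) (XT.nd (nat_lit 936) (nat_lit 1064) (nat_lit 0) (XT.nd (nat_lit 468) (nat_lit 608) (nat_lit 0) (XT.nd (nat_lit 234) (nat_lit 304) (nat_lit 0) (XT.nd (nat_lit 78) (nat_lit 152) (nat_lit 0) (XT.lf (nat_lit 228) (nat_lit 25154263351) (nat_lit 0) (nat_lit 2681653603) (nat_lit 152) (nat_lit 2681653603) (nat_lit 217) (nat_lit 1) (nat_lit 214) (nat_lit 1) (nat_lit 216) (nat_lit 1) (nat_lit 264) (nat_lit 400) (nat_lit 356)) (XT.nd (nat_lit 78) (nat_lit 152) (nat_lit 0) (XT.lf (nat_lit 76) (nat_lit 8373915911) (nat_lit 0) (nat_lit 13223345150) (nat_lit 228) (nat_lit 8373915911) (nat_lit 215) (nat_lit 1) (nat_lit 214) (nat_lit 1) (nat_lit 217) (nat_lit 1) (nat_lit 265) (nat_lit 400) (nat_lit 355)) (XT.lf (nat_lit 228) (nat_lit 8528426797) (nat_lit 0) (nat_lit 10456109576) (nat_lit 152) (nat_lit 10456109576) (nat_lit 215) (nat_lit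 1) (nat_lit 212) (nat_lit 1) (nat_lit 214) (nat_lit 1) (nat_lit 266) (nat_lit 400) (nat_lit 354)))) (XT.nd (nat_lit 78) (nat_lit 304) (nat_lit 0) (XT.lf (nat_lit 76) (nat_lit 280305868) (nat_lit 0) (nat_lit 28368108940) (nat_lit 228) (nat_lit 280305868) (nat_lit 213) (nat_lit 1) (nat_lit 212) (nat_lit 1) (nat_lit 215) (nat_lit 1) (nat_lit 267) (nat_lit 400) (nat_lit 353)) (XT.nd (nat_lit 78) (nat_lit 152) (nat_lit 0) (XT.lf (nat_lit 76) (nat_lit 10583892532) (nat_lit 0) (nat_lit 7245756279) (nat_lit 152) (nat_lit 10583892532) (nat_lit 211) (nat_lit 1) (nat_lit 210) (nat_lit 1) (nat_lit 212) (nat_lit 1) (nat_lit 268) (nat_lit 400) (nat_lit 352)) (XT.lf (nat_lit 228) (nat_lit 13133405734) (nat_lit 0) (nat_lit 7391541438) (nat_lit 152) (nat_lit 7391541438) (nat_lit 211) (nat_lit 1) (nat_lit 208) (nat_lit 1) (nat_lit 210) (nat_lit 1) (nat_lit 269) (nat_lit 400) (nat_lit 351))))) (XT.nd (nat_lit 234)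 (nat_lit 304) (nat_lit 0) (XT.nd (nat_lit 78) (nat_lit 304) (nat_lit 0) (XT.lf (nat_lit 76) (nat_lit 2633157081) (nat_lit 0) (nat_lit 22166538430) (nat_lit 228) (nat_lit 2633157081) (nat_lit 209) (nat_lit 1) (nat_lit 208) (nat_lit 1) (nat_lit 211) (nat_lit 1) (nat_lit 270) (nat_lit 400) (nat_lit 350)) (XT.nd (nat_lit 78) (nat_lit 152) (nat_lit 0) (XT.lf (nat_lit 76) (nat_lit 12226109996) (nat_lit 0) (nat_lit 2500984955) (nat_lit 152) (nat_lit 12226109996) (nat_lit 207) (nat_lit 1) (nat_lit 206) (nat_lit 1) (nat_lit 208) (nat_lit 1) (nat_lit 271) (nat_lit 400) (nat_lit 349)) (XT.lf (nat_lit 228) (nat_lit 16630645306) (nat_lit 0) (nat_lit 4927967256) (nat_lit 152) (nat_lit 4927967256) (nat_lit 207) (nat_lit 1) (nat_lit 204) (nat_lit 1) (nat_lit 206) (nat_lit 1) (nat_lit 272) (nat_lit 400) (nat_lit 348)))) (XT.nd (nat_lit 78) (nat_lit 304) (nat_lit 0) (XT.lf (nat_lit 76) (nat_lit 4454446514) (nat_lit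 0) (nat_lit 17120299357) (nat_lit 228) (nat_lit 4454446514) (nat_lit 205) (nat_lit 1) (nat_lit 204) (nat_lit 1) (nat_lit 207) (nat_lit 1) (nat_lit 273) (nat_lit 400) (nat_lit 347)) (XT.nd (nat_lit 78) (nat_lit 228) (nat_lit 0) (XT.lf (nat_lit 152) (nat_lit 1278709379) (nat_lit 0) (nat_lit 12150863347) (nat_lit 76) (nat_lit 12150863347) (nat_lit 205) (nat_lit 1) (nat_lit 203) (nat_lit 1) (nat_lit 204) (nat_lit 1) (nat_lit 274) (nat_lit 400) (nat_lit 346)) (XT.lf (nat_lit 228) (nat_lit 19230415819) (nat_lit 0) (nat_lit 2956086879) (nat_lit 152) (nat_lit 2956086879) (nat_lit 203) (nat_lit 1) (nat_lit 200) (nat_lit 1) (nat_lit 202) (nat_lit 1) (nat_lit 275) (nat_lit 400) (nat_lit 345)))))) (XT.nd (nat_lit 468) (nat_lit 456) (nat_lit 0) (XT.nd (nat_lit 234) (nat_lit 304) (nat_lit 0) (XT.nd (nat_lit 78) (nat_lit 304) (nat_lit 0) (XT.lf (nat_lit 76) (nat_lit 5843866711) (nat_lit 0) (nat_lit 13021896777)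 (nat_lit 228) (nat_lit 5843866711) (nat_lit 201) (nat_lit 1) (nat_lit 200) (nat_lit 1) (nat_lit 203) (nat_lit 1) (nat_lit 276) (nat_lit 400) (nat_lit 344)) (XT.nd (nat_lit 78) (nat_lit 228) (nat_lit 0) (XT.lf (nat_lit 152) (nat_lit 4294195784) (nat_lit 0) (nat_lit 9996545347) (nat_lit 76) (nat_lit 9996545347) (nat_lit 201) (nat_lit 1) (nat_lit 199) (nat_lit 1) (nat_lit 200) (nat_lit 1) (nat_lit 277) (nat_lit 400) (nat_lit 343)) (XT.lf (nat_lit 228) (nat_lit 21105046655) (nat_lit 0) (nat_lit 1386109535) (nat_lit 152) (nat_lit 1386109535) (nat_lit 199) (nat_lit 1) (nat_lit 196) (nat_lit 1) (nat_lit 198) (nat_lit 1) (nat_lit 278) (nat_lit 400) (nat_lit 342)))) (XT.nd (nat_lit 78) (nat_lit 304) (nat_lit 0) (XT.lf (nat_lit 76) (nat_lit 6883175548) (nat_lit 0) (nat_lit 9700750635) (nat_lit 228) (nat_lit 6883175548) (nat_lit 197) (nat_lit 1) (nat_lit 196) (nat_lit 1) (nat_lit 199) (nat_lit 1) (nat_lit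 279) (nat_lit 400) (nat_lit 341)) (XT.nd (nat_lit 78) (nat_lit 228) (nat_lit 0) (XT.lf (nat_lit 152) (nat_lit 6620653511) (nat_lit 0) (nat_lit 8224182596) (nat_lit 76) (nat_lit 8224182596) (nat_lit 197) (nat_lit 1) (nat_lit 195) (nat_lit 1) (nat_lit 196) (nat_lit 1) (nat_lit 280) (nat_lit 400) (nat_lit 340)) (XT.lf (nat_lit 228) (nat_lit 22395684561) (nat_lit 0) (nat_lit 144288644) (nat_lit 152) (nat_lit 144288644) (nat_lit 195) (nat_lit 1) (nat_lit 192) (nat_lit 1) (nat_lit 194) (nat_lit 1) (nat_lit 281) (nat_lit 400) (nat_lit 339))))) (XT.nd (nat_lit 234) (nat_lit 380) (nat_lit 0) (XT.nd (nat_lit 78) (nat_lit 76) (nat_lit 0) (XT.lf (nat_lit 76) (nat_lit 7639388360) (nat_lit 0) (nat_lit 7016644822) (nat_lit 228) (nat_lit 7639388360) (nat_lit 193) (nat_lit 1) (nat_lit 192) (nat_lit 1) (nat_lit 195) (nat_lit 1) (nat_lit 282) (nat_lit 400) (nat_lit 338)) (XT.nd (nat_lit 78) (nat_lit 0) (nat_lit 0)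 (XT.lf (nat_lit 152) (nat_lit 8387597564) (nat_lit 0) (nat_lit 6766055375) (nat_lit 76) (nat_lit 6766055375) (nat_lit 193) (nat_lit 1) (nat_lit 191) (nat_lit 1) (nat_lit 192) (nat_lit 1) (nat_lit 283) (nat_lit 400) (nat_lit 337)) (XT.lf (nat_lit 0) (nat_lit 843534098) (nat_lit 0) (nat_lit 19868270300) (nat_lit 152) (nat_lit 843534098) (nat_lit 191) (nat_lit 3) (nat_lit 191) (nat_lit 1) (nat_lit 193) (nat_lit 1) (nat_lit 284) (nat_lit 400) (nat_lit 336)))) (XT.nd (nat_lit 156) (nat_lit 152) (nat_lit 0) (XT.nd (nat_lit 78) (nat_lit 76) (nat_lit 0) (XT.lf (nat_lit 76) (nat_lit 8167403522) (nat_lit 0) (nat_lit 4854337981) (nat_lit 152) (nat_lit 8167403522) (nat_lit 190) (nat_lit 1) (nat_lit 189) (nat_lit 1) (nat_lit 191) (nat_lit 1) (nat_lit 285) (nat_lit 400) (nat_lit 335)) (XT.lf (nat_lit 152) (nat_lit 9701230164) (nat_lit 0) (nat_lit 5566450501) (nat_lit 76) (nat_lit 5566450501) (nat_lit 190) (nat_lit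 1) (nat_lit 188) (nat_lit 1) (nat_lit 189) (nat_lit 1) (nat_lit 286) (nat_lit 400) (nat_lit 334))) (XT.nd (nat_lit 78) (nat_lit 152) (nat_lit 0) (XT.lf (nat_lit 0) (nat_lit 1612250669) (nat_lit 0) (nat_lit 17263948225) (nat_lit 152) (nat_lit 1612250669) (nat_lit 188) (nat_lit 3) (nat_lit 188) (nat_lit 1) (nat_lit 190) (nat_lit 1) (nat_lit 287) (nat_lit 400) (nat_lit 333)) (XT.lf (nat_lit 76) (nat_lit 8512161959) (nat_lit 0) (nat_lit 3119130080) (nat_lit 152) (nat_lit 8512161959) (nat_lit 187) (nat_lit 1) (nat_lit 186) (nat_lit 1) (nat_lit 188) (nat_lit 1) (nat_lit 288) (nat_lit 400) (nat_lit 332))))))) (XT.nd (nat_lit 936) (nat_lit 1064) (nat_lit 0) (XT.nd (nat_lit 468) (nat_lit 380) (nat_lit 0) (XT.nd (nat_lit 234) (nat_lit 228) (nat_lit 0) (XT.nd (nat_lit 78) (nat_lit 152) (nat_lit 0) (XT.lf (nat_lit 152) (nat_lit 10648590723) (nat_lit 0) (nat_lit 4579532603) (nat_lit 76) (nat_lit 4579532603)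 (nat_lit 187) (nat_lit 1) (nat_lit 185) (nat_lit 1) (nat_lit 186) (nat_lit 1) (nat_lit 289) (nat_lit 400) (nat_lit 331)) (XT.nd (nat_lit 78) (nat_lit 152) (nat_lit 0) (XT.lf (nat_lit 0) (nat_lit 2200948404) (nat_lit 0) (nat_lit 15077638719) (nat_lit 152) (nat_lit 2200948404) (nat_lit 185) (nat_lit 3) (nat_lit 185) (nat_lit 1) (nat_lit 187) (nat_lit 1) (nat_lit 290) (nat_lit 400) (nat_lit 330)) (XT.lf (nat_lit 76) (nat_lit 8710423251) (nat_lit 0) (nat_lit 1733215284) (nat_lit 152) (nat_lit 8710423251) (nat_lit 184) (nat_lit 1) (nat_lit 183) (nat_lit 1) (nat_lit 185) (nat_lit 1) (nat_lit 291) (nat_lit 400) (nat_lit 329)))) (XT.nd (nat_lit 78) (nat_lit 152) (nat_lit 0) (XT.lf (nat_lit 152) (nat_lit 11300969234) (nat_lit 0) (nat_lit 3767592806) (nat_lit 76) (nat_lit 3767592806) (nat_lit 184) (nat_lit 1) (nat_lit 182) (nat_lit 1) (nat_lit 183) (nat_lit 1) (nat_lit 292) (nat_lit 400) (nat_lit 328)) (XT.nd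 (nat_lit 78) (nat_lit 152) (nat_lit 0) (XT.lf (nat_lit 0) (nat_lit 2643626451) (nat_lit 0) (nat_lit 13237311440) (nat_lit 152) (nat_lit 2643626451) (nat_lit 182) (nat_lit 3) (nat_lit 182) (nat_lit 1) (nat_lit 184) (nat_lit 1) (nat_lit 293) (nat_lit 400) (nat_lit 327)) (XT.lf (nat_lit 76) (nat_lit 8792226328) (nat_lit 0) (nat_lit 632681692) (nat_lit 152) (nat_lit 8792226328) (nat_lit 181) (nat_lit 1) (nat_lit 180) (nat_lit 1) (nat_lit 182) (nat_lit 1) (nat_lit 294) (nat_lit 400) (nat_lit 326))))) (XT.nd (nat_lit 234) (nat_lit 228) (nat_lit 0) (XT.nd (nat_lit 78) (nat_lit 76) (nat_lit 0) (XT.lf (nat_lit 152) (nat_lit 11716713731) (nat_lit 0) (nat_lit 3099607925) (nat_lit 76) (nat_lit 3099607925) (nat_lit 181) (nat_lit 1) (nat_lit 179) (nat_lit 1) (nat_lit 180) (nat_lit 1) (nat_lit 295) (nat_lit 400) (nat_lit 325)) (XT.nd (nat_lit 78) (nat_lit 76) (nat_lit 0) (XT.lf (nat_lit 0) (nat_lit 2968156835)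 (nat_lit 0) (nat_lit 11683607692) (nat_lit 152) (nat_lit 2968156835) (nat_lit 179) (nat_lit 3) (nat_lit 179) (nat_lit 1) (nat_lit 181) (nat_lit 1) (nat_lit 296) (nat_lit 400) (nat_lit 324)) (XT.lf (nat_lit 76) (nat_lit 242725471) (nat_lit 0) (nat_lit 8543154859) (nat_lit 76) (nat_lit 8543154859) (nat_lit 179) (nat_lit 3) (nat_lit 178) (nat_lit 1) (nat_lit 179) (nat_lit 1) (nat_lit 297) (nat_lit 400) (nat_lit 323)))) (XT.nd (nat_lit 78) (nat_lit 76) (nat_lit 0) (XT.lf (nat_lit 152) (nat_lit 11943539264) (nat_lit 0) (nat_lit 2550055111) (nat_lit 76) (nat_lit 2550055111) (nat_lit 178) (nat_lit 1) (nat_lit 176) (nat_lit 1) (nat_lit 177) (nat_lit 1) (nat_lit 298) (nat_lit 400) (nat_lit 322)) (XT.nd (nat_lit 78) (nat_lit 76) (nat_lit 0) (XT.lf (nat_lit 0) (nat_lit 3197375508) (nat_lit 0) (nat_lit 10367598498) (nat_lit 152) (nat_lit 3197375508) (nat_lit 176) (nat_lit 3) (nat_lit 176) (nat_lit 1) (nat_lit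 178) (nat_lit 1) (nat_lit 299) (nat_lit 400) (nat_lit 321)) (XT.lf (nat_lit 76) (nat_lit 942971452) (nat_lit 0) (nat_lit 7771755251) (nat_lit 76) (nat_lit 7771755251) (nat_lit 176) (nat_lit 3) (nat_lit 175) (nat_lit 1) (nat_lit 176) (nat_lit 1) (nat_lit 300) (nat_lit 400) (nat_lit 320)))))) (XT.nd (nat_lit 468) (nat_lit 608) (nat_lit 0) (XT.nd (nat_lit 234) (nat_lit 228) (nat_lit 0) (XT.nd (nat_lit 78) (nat_lit 76) (nat_lit 0) (XT.lf (nat_lit 152) (nat_lit 12020426815) (nat_lit 0) (nat_lit 2097936651) (nat_lit 76) (nat_lit 2097936651) (nat_lit 175) (nat_lit 1) (nat_lit 173) (nat_lit 1) (nat_lit 174) (nat_lit 1) (nat_lit 301) (nat_lit 400) (nat_lit 319)) (XT.nd (nat_lit 78) (nat_lit 76) (nat_lit 0) (XT.lf (nat_lit 0) (nat_lit 3349979729) (nat_lit 0) (nat_lit 9248939927) (nat_lit 152) (nat_lit 3349979729) (nat_lit 173) (nat_lit 3) (nat_lit 173) (nat_lit 1) (nat_lit 175) (nat_lit 1) (nat_lit 302)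 (nat_lit 400) (nat_lit 318)) (XT.lf (nat_lit 76) (nat_lit 1483671239) (nat_lit 0) (nat_lit 7101728571) (nat_lit 76) (nat_lit 7101728571) (nat_lit 173) (nat_lit 3) (nat_lit 172) (nat_lit 1) (nat_lit 173) (nat_lit 1) (nat_lit 303) (nat_lit 400) (nat_lit 317)))) (XT.nd (nat_lit 78) (nat_lit 76) (nat_lit 0) (XT.lf (nat_lit 152) (nat_lit 11979184894) (nat_lit 0) (nat_lit 1725977674) (nat_lit 76) (nat_lit 1725977674) (nat_lit 172) (nat_lit 1) (nat_lit 170) (nat_lit 1) (nat_lit 171) (nat_lit 1) (nat_lit 304) (nat_lit 400) (nat_lit 316)) (XT.nd (nat_lit 78) (nat_lit 76) (nat_lit 0) (XT.lf (nat_lit 0) (nat_lit 3441266123) (nat_lit 0) (nat_lit 8294355277) (nat_lit 152) (nat_lit 3441266123) (nat_lit 170) (nat_lit 3) (nat_lit 170) (nat_lit 1) (nat_lit 172) (nat_lit 1) (nat_lit 305) (nat_lit 400) (nat_lit 315)) (XT.lf (nat_lit 76) (nat_lit 1894797421) (nat_lit 0) (nat_lit 6516787091) (nat_lit 76) (nat_lit 6516787091)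 (nat_lit 170) (nat_lit 3) (nat_lit 169) (nat_lit 1) (nat_lit 170) (nat_lit 1) (nat_lit 306) (nat_lit 400) (nat_lit 314))))) (XT.nd (nat_lit 234) (nat_lit 380) (nat_lit 0) (XT.nd (nat_lit 78) (nat_lit 76) (nat_lit 0) (XT.lf (nat_lit 152) (nat_lit 11845733635) (nat_lit 0) (nat_lit 1419966104) (nat_lit 76) (nat_lit 1419966104) (nat_lit 169) (nat_lit 1) (nat_lit 167) (nat_lit 1) (nat_lit 168) (nat_lit 1) (nat_lit 307) (nat_lit 400) (nat_lit 313)) (XT.nd (nat_lit 78) (nat_lit 76) (nat_lit 0) (XT.lf (nat_lit 0) (nat_lit 3483737689) (nat_lit 0) (nat_lit 7476386146) (nat_lit 152) (nat_lit 3483737689) (nat_lit 167) (nat_lit 3) (nat_lit 167) (nat_lit 1) (nat_lit 169) (nat_lit 1) (nat_lit 308) (nat_lit 400) (nat_lit 312)) (XT.lf (nat_lit 76) (nat_lit 2200928262) (nat_lit 0) (nat_lit 6003450602) (nat_lit 76) (nat_lit 6003450602) (nat_lit 167) (nat_lit 3) (nat_lit 166) (nat_lit 1) (nat_lit 167) (nat_lit 1)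 (nat_lit 309) (nat_lit 400) (nat_lit 311)))) (XT.nd (nat_lit 156) (nat_lit 228) (nat_lit 0) (XT.nd (nat_lit 78) (nat_lit 0) (nat_lit 0) (XT.lf (nat_lit 152) (nat_lit 11641160640) (nat_lit 0) (nat_lit 1168209628) (nat_lit 76) (nat_lit 1168209628) (nat_lit 166) (nat_lit 1) (nat_lit 164) (nat_lit 1) (nat_lit 165) (nat_lit 1) (nat_lit 310) (nat_lit 400) (nat_lit 310)) (XT.lf (nat_lit 0) (nat_lit 3487602983) (nat_lit 0) (nat_lit 6772364750) (nat_lit 152) (nat_lit 3487602983) (nat_lit 164) (nat_lit 3) (nat_lit 164) (nat_lit 1) (nat_lit 166) (nat_lit 1) (nat_lit 311) (nat_lit 400) (nat_lit 309))) (XT.nd (nat_lit 78) (nat_lit 152) (nat_lit 0) (XT.lf (nat_lit 76) (nat_lit 2422207922) (nat_lit 0) (nat_lit 5550552462) (nat_lit 76) (nat_lit 5550552462) (nat_lit 164) (nat_lit 3) (nat_lit 163) (nat_lit 1) (nat_lit 164) (nat_lit 1) (nat_lit 312) (nat_lit 400) (nat_lit 308)) (XT.lf (nat_lit 152) (nat_lit 11382589061)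 (nat_lit 0) (nat_lit 961088952) (nat_lit 76) (nat_lit 961088952) (nat_lit 163) (nat_lit 1) (nat_lit 161) (nat_lit 1) (nat_lit 162) (nat_lit 1) (nat_lit 313) (nat_lit 400) (nat_lit 307))))))))
noncomputable def ec257 : XT := (XT.nd (nat_lit 1950) (nat_lit 1900) (nat_lit 0) (XT.nd (nat_lit 936) (nat_lit 912) (nat_lit 0) (XT.nd (nat_lit 468) (nat_lit 456) (nat_lit 0) (XT.nd (nat_lit 234) (nat_lit 228) (nat_lit 0) (XT.nd (nat_lit 78) (nat_lit 228) (nat_lit 0) (XT.lf (nat_lit 0) (nat_lit 3461186620) (nat_lit 0) (nat_lit 6163568254) (nat_lit 152) (nat_lit 3461186620) (nat_lit 161) (nat_lit 3) (nat_lit 161) (nat_lit 1) (nat_lit 163) (nat_lit 1) (nat_lit 314) (nat_lit 400) (nat_lit 306)) (XT.nd (nat_lit 78) (nat_lit 152) (nat_lit 0) (XT.lf (nat_lit 76) (nat_lit 2575136256) (nat_lit 0) (nat_lit 5148833051) (nat_lit 76) (nat_lit 5148833051) (nat_lit 161) (nat_lit 3) (nat_lit 160) (nat_lit 1) (nat_lit 161)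 (nat_lit 1) (nat_lit 315) (nat_lit 400) (nat_lit 305)) (XT.lf (nat_lit 152) (nat_lit 11083891232) (nat_lit 0) (nat_lit 790690259) (nat_lit 76) (nat_lit 790690259) (nat_lit 160) (nat_lit 1) (nat_lit 158) (nat_lit 1) (nat_lit 159) (nat_lit 1) (nat_lit 316) (nat_lit 400) (nat_lit 304)))) (XT.nd (nat_lit 78) (nat_lit 228) (nat_lit 0) (XT.lf (nat_lit 0) (nat_lit 3411266811) (nat_lit 0) (nat_lit 5634522870) (nat_lit 152) (nat_lit 3411266811) (nat_lit 158) (nat_lit 3) (nat_lit 158) (nat_lit 1) (nat_lit 160) (nat_lit 1) (nat_lit 317) (nat_lit 400) (nat_lit 303)) (XT.nd (nat_lit 78) (nat_lit 152) (nat_lit 0) (XT.lf (nat_lit 76) (nat_lit 2673218404) (nat_lit 0) (nat_lit 4790605126) (nat_lit 76) (nat_lit 4790605126) (nat_lit 158) (nat_lit 3) (nat_lit 157) (nat_lit 1) (nat_lit 158) (nat_lit 1) (nat_lit 318) (nat_lit 400) (nat_lit 302)) (XT.lf (nat_lit 152) (nat_lit 10756275262) (nat_lit 0) (nat_lit 650502833)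 (nat_lit 76) (nat_lit 650502833) (nat_lit 157) (nat_lit 1) (nat_lit 155) (nat_lit 1) (nat_lit 156) (nat_lit 1) (nat_lit 319) (nat_lit 400) (nat_lit 301))))) (XT.nd (nat_lit 234) (nat_lit 228) (nat_lit 0) (XT.nd (nat_lit 78) (nat_lit 228) (nat_lit 0) (XT.lf (nat_lit 0) (nat_lit 3343352899) (nat_lit 0) (nat_lit 5172431160) (nat_lit 152) (nat_lit 3343352899) (nat_lit 155) (nat_lit 3) (nat_lit 155) (nat_lit 1) (nat_lit 157) (nat_lit 1) (nat_lit 320) (nat_lit 400) (nat_lit 300)) (XT.nd (nat_lit 78) (nat_lit 152) (nat_lit 0) (XT.lf (nat_lit 76) (nat_lit 2727499047) (nat_lit 0) (nat_lit 4469478343) (nat_lit 76) (nat_lit 4469478343) (nat_lit 155) (nat_lit 3) (nat_lit 154) (nat_lit 1) (nat_lit 155) (nat_lit 1) (nat_lit 321) (nat_lit 400) (nat_lit 299)) (XT.lf (nat_lit 152) (nat_lit 10408767150) (nat_lit 0) (nat_lit 535170290) (nat_lit 76) (nat_lit 535170290) (nat_lit 154) (nat_lit 1) (nat_lit 152) (nat_lit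 1) (nat_lit 153) (nat_lit 1) (nat_lit 322) (nat_lit 400) (nat_lit 298)))) (XT.nd (nat_lit 78) (nat_lit 228) (nat_lit 0) (XT.lf (nat_lit 0) (nat_lit 3261913514) (nat_lit 0) (nat_lit 4766700727) (nat_lit 152) (nat_lit 3261913514) (nat_lit 152) (nat_lit 3) (nat_lit 152) (nat_lit 1) (nat_lit 154) (nat_lit 1) (nat_lit 323) (nat_lit 400) (nat_lit 297)) (XT.nd (nat_lit 78) (nat_lit 152) (nat_lit 0) (XT.lf (nat_lit 76) (nat_lit 2747001787) (nat_lit 0) (nat_lit 4180132466) (nat_lit 76) (nat_lit 4180132466) (nat_lit 152) (nat_lit 3) (nat_lit 151) (nat_lit 1) (nat_lit 152) (nat_lit 1) (nat_lit 324) (nat_lit 400) (nat_lit 296)) (XT.lf (nat_lit 152) (nat_lit 10048606943) (nat_lit 0) (nat_lit 440285922) (nat_lit 76) (nat_lit 440285922) (nat_lit 151) (nat_lit 1) (nat_lit 149) (nat_lit 1) (nat_lit 150) (nat_lit 1) (nat_lit 325) (nat_lit 400) (nat_lit 295)))))) (XT.nd (nat_lit 468) (nat_lit 456) (nat_lit 0) (XT.nd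 (nat_lit 234) (nat_lit 228) (nat_lit 0) (XT.nd (nat_lit 78) (nat_lit 228) (nat_lit 0) (XT.lf (nat_lit 0) (nat_lit 3170564140) (nat_lit 0) (nat_lit 4408556304) (nat_lit 152) (nat_lit 3170564140) (nat_lit 149) (nat_lit 3) (nat_lit 149) (nat_lit 1) (nat_lit 151) (nat_lit 1) (nat_lit 326) (nat_lit 400) (nat_lit 294)) (XT.nd (nat_lit 78) (nat_lit 152) (nat_lit 0) (XT.lf (nat_lit 76) (nat_lit 2739090475) (nat_lit 0) (nat_lit 3918130631) (nat_lit 76) (nat_lit 3918130631) (nat_lit 149) (nat_lit 3) (nat_lit 148) (nat_lit 1) (nat_lit 149) (nat_lit 1) (nat_lit 327) (nat_lit 400) (nat_lit 293)) (XT.lf (nat_lit 152) (nat_lit 9681574228) (nat_lit 0) (nat_lit 362224318) (nat_lit 76) (nat_lit 362224318) (nat_lit 148) (nat_lit 1) (nat_lit 146) (nat_lit 1) (nat_lit 147) (nat_lit 1) (nat_lit 328) (nat_lit 400) (nat_lit 292)))) (XT.nd (nat_lit 78) (nat_lit 228) (nat_lit 0) (XT.lf (nat_lit 0) (nat_lit 3072221269) (nat_lit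 0) (nat_lit 4090720486) (nat_lit 152) (nat_lit 3072221269) (nat_lit 146) (nat_lit 3) (nat_lit 146) (nat_lit 1) (nat_lit 148) (nat_lit 1) (nat_lit 329) (nat_lit 400) (nat_lit 291)) (XT.nd (nat_lit 78) (nat_lit 152) (nat_lit 0) (XT.lf (nat_lit 76) (nat_lit 2709766328) (nat_lit 0) (nat_lit 3679765582) (nat_lit 76) (nat_lit 3679765582) (nat_lit 146) (nat_lit 3) (nat_lit 145) (nat_lit 1) (nat_lit 146) (nat_lit 1) (nat_lit 330) (nat_lit 400) (nat_lit 290)) (XT.lf (nat_lit 152) (nat_lit 9312255485) (nat_lit 0) (nat_lit 298002843) (nat_lit 76) (nat_lit 298002843) (nat_lit 145) (nat_lit 1) (nat_lit 143) (nat_lit 1) (nat_lit 144) (nat_lit 1) (nat_lit 331) (nat_lit 400) (nat_lit 289))))) (XT.nd (nat_lit 234) (nat_lit 228) (nat_lit 0) (XT.nd (nat_lit 78) (nat_lit 228) (nat_lit 0) (XT.lf (nat_lit 0) (nat_lit 2969229093) (nat_lit 0) (nat_lit 3807150919) (nat_lit 152) (nat_lit 2969229093) (nat_lit 143) (nat_lit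 3) (nat_lit 143) (nat_lit 1) (nat_lit 145) (nat_lit 1) (nat_lit 332) (nat_lit 400) (nat_lit 288)) (XT.nd (nat_lit 78) (nat_lit 152) (nat_lit 0) (XT.lf (nat_lit 76) (nat_lit 2663912241) (nat_lit 0) (nat_lit 3461933027) (nat_lit 76) (nat_lit 3461933027) (nat_lit 143) (nat_lit 3) (nat_lit 142) (nat_lit 1) (nat_lit 143) (nat_lit 1) (nat_lit 333) (nat_lit 400) (nat_lit 287)) (XT.lf (nat_lit 152) (nat_lit 8944263641) (nat_lit 0) (nat_lit 245167676) (nat_lit 76) (nat_lit 245167676) (nat_lit 142) (nat_lit 1) (nat_lit 140) (nat_lit 1) (nat_lit 141) (nat_lit 1) (nat_lit 334) (nat_lit 400) (nat_lit 286)))) (XT.nd (nat_lit 156) (nat_lit 152) (nat_lit 0) (XT.nd (nat_lit 78) (nat_lit 76) (nat_lit 0) (XT.lf (nat_lit 0) (nat_lit 2863463601) (nat_lit 0) (nat_lit 3552823961) (nat_lit 152) (nat_lit 2863463601) (nat_lit 140) (nat_lit 3) (nat_lit 140) (nat_lit 1) (nat_lit 142) (nat_lit 1) (nat_lit 335) (nat_lit 400)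 (nat_lit 285)) (XT.lf (nat_lit 76) (nat_lit 2605493647) (nat_lit 0) (nat_lit 3262027323) (nat_lit 76) (nat_lit 3262027323) (nat_lit 140) (nat_lit 3) (nat_lit 139) (nat_lit 1) (nat_lit 140) (nat_lit 1) (nat_lit 336) (nat_lit 400) (nat_lit 284))) (XT.nd (nat_lit 78) (nat_lit 0) (nat_lit 0) (XT.lf (nat_lit 152) (nat_lit 8580418316) (nat_lit 0) (nat_lit 201700054) (nat_lit 76) (nat_lit 201700054) (nat_lit 139) (nat_lit 1) (nat_lit 137) (nat_lit 1) (nat_lit 138) (nat_lit 1) (nat_lit 337) (nat_lit 400) (nat_lit 283)) (XT.lf (nat_lit 0) (nat_lit 2756418093) (nat_lit 0) (nat_lit 3323556568) (nat_lit 152) (nat_lit 2756418093) (nat_lit 137) (nat_lit 3) (nat_lit 137) (nat_lit 1) (nat_lit 139) (nat_lit 1) (nat_lit 338) (nat_lit 400) (nat_lit 282))))))) (XT.nd (nat_lit 936) (nat_lit 988) (nat_lit 0) (XT.nd (nat_lit 468) (nat_lit 456) (nat_lit 0) (XT.nd (nat_lit 234) (nat_lit 228) (nat_lit 0) (XT.nd (nat_lit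 78) (nat_lit 152) (nat_lit 0) (XT.lf (nat_lit 76) (nat_lit 2537723646) (nat_lit 0) (nat_lit 3077855527) (nat_lit 76) (nat_lit 3077855527) (nat_lit 137) (nat_lit 3) (nat_lit 136) (nat_lit 1) (nat_lit 137) (nat_lit 1) (nat_lit 339) (nat_lit 400) (nat_lit 281)) (XT.nd (nat_lit 78) (nat_lit 0) (nat_lit 0) (XT.lf (nat_lit 152) (nat_lit 8222893748) (nat_lit 0) (nat_lit 165939133) (nat_lit 76) (nat_lit 165939133) (nat_lit 136) (nat_lit 1) (nat_lit 134) (nat_lit 1) (nat_lit 135) (nat_lit 1) (nat_lit 340) (nat_lit 400) (nat_lit 280)) (XT.lf (nat_lit 0) (nat_lit 2649273418) (nat_lit 0) (nat_lit 3115859644) (nat_lit 152) (nat_lit 2649273418) (nat_lit 134) (nat_lit 3) (nat_lit 134) (nat_lit 1) (nat_lit 136) (nat_lit 1) (nat_lit 341) (nat_lit 400) (nat_lit 279)))) (XT.nd (nat_lit 78) (nat_lit 152) (nat_lit 0) (XT.lf (nat_lit 76) (nat_lit 2463198739) (nat_lit 0) (nat_lit 2907566573) (nat_lit 76) (nat_lit 2907566573)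 (nat_lit 134) (nat_lit 3) (nat_lit 133) (nat_lit 1) (nat_lit 134) (nat_lit 1) (nat_lit 342) (nat_lit 400) (nat_lit 278)) (XT.nd (nat_lit 78) (nat_lit 0) (nat_lit 0) (XT.lf (nat_lit 152) (nat_lit 7873340146) (nat_lit 0) (nat_lit 136518535) (nat_lit 76) (nat_lit 136518535) (nat_lit 133) (nat_lit 1) (nat_lit 131) (nat_lit 1) (nat_lit 132) (nat_lit 1) (nat_lit 343) (nat_lit 400) (nat_lit 277)) (XT.lf (nat_lit 0) (nat_lit 2542955636) (nat_lit 0) (nat_lit 2926817280) (nat_lit 152) (nat_lit 2542955636) (nat_lit 131) (nat_lit 3) (nat_lit 131) (nat_lit 1) (nat_lit 133) (nat_lit 1) (nat_lit 344) (nat_lit 400) (nat_lit 276))))) (XT.nd (nat_lit 234) (nat_lit 228) (nat_lit 0) (XT.nd (nat_lit 78) (nat_lit 152) (nat_lit 0) (XT.lf (nat_lit 76) (nat_lit 2384010379) (nat_lit 0) (nat_lit 2749592896) (nat_lit 76) (nat_lit 2749592896) (nat_lit 131) (nat_lit 3) (nat_lit 130) (nat_lit 1) (nat_lit 131) (nat_lit 1) (nat_lit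 345) (nat_lit 400) (nat_lit 275)) (XT.nd (nat_lit 78) (nat_lit 0) (nat_lit 0) (XT.lf (nat_lit 152) (nat_lit 7532983194) (nat_lit 0) (nat_lit 112314137) (nat_lit 76) (nat_lit 112314137) (nat_lit 130) (nat_lit 1) (nat_lit 128) (nat_lit 1) (nat_lit 129) (nat_lit 1) (nat_lit 346) (nat_lit 400) (nat_lit 274)) (XT.lf (nat_lit 0) (nat_lit 2438183361) (nat_lit 0) (nat_lit 2753987285) (nat_lit 152) (nat_lit 2438183361) (nat_lit 128) (nat_lit 3) (nat_lit 128) (nat_lit 1) (nat_lit 130) (nat_lit 1) (nat_lit 347) (nat_lit 400) (nat_lit 273)))) (XT.nd (nat_lit 78) (nat_lit 152) (nat_lit 0) (XT.lf (nat_lit 76) (nat_lit 2301836648) (nat_lit 0) (nat_lit 2602602290) (nat_lit 76) (nat_lit 2602602290) (nat_lit 128) (nat_lit 3) (nat_lit 127) (nat_lit 1) (nat_lit 128) (nat_lit 1) (nat_lit 348) (nat_lit 400) (nat_lit 272)) (XT.nd (nat_lit 78) (nat_lit 0) (nat_lit 0) (XT.lf (nat_lit 152) (nat_lit 7202705603) (nat_lit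 0) (nat_lit 92401118) (nat_lit 76) (nat_lit 92401118) (nat_lit 127) (nat_lit 1) (nat_lit 125) (nat_lit 1) (nat_lit 126) (nat_lit 1) (nat_lit 349) (nat_lit 400) (nat_lit 271)) (XT.lf (nat_lit 0) (nat_lit 2335506596) (nat_lit 0) (nat_lit 2595319265) (nat_lit 152) (nat_lit 2335506596) (nat_lit 125) (nat_lit 3) (nat_lit 125) (nat_lit 1) (nat_lit 127) (nat_lit 1) (nat_lit 350) (nat_lit 400) (nat_lit 270)))))) (XT.nd (nat_lit 468) (nat_lit 532) (nat_lit 0) (XT.nd (nat_lit 234) (nat_lit 228) (nat_lit 0) (XT.nd (nat_lit 78) (nat_lit 152) (nat_lit 0) (XT.lf (nat_lit 76) (nat_lit 2218017574) (nat_lit 0) (nat_lit 2465458211) (nat_lit 76) (nat_lit 2465458211) (nat_lit 125) (nat_lit 3) (nat_lit 124) (nat_lit 1) (nat_lit 125) (nat_lit 1) (nat_lit 351) (nat_lit 400) (nat_lit 269)) (XT.nd (nat_lit 78) (nat_lit 0) (nat_lit 0) (XT.lf (nat_lit 152) (nat_lit 6883113902) (nat_lit 0) (nat_lit 76018629) (nat_lit 76)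 (nat_lit 76018629) (nat_lit 124) (nat_lit 1) (nat_lit 122) (nat_lit 1) (nat_lit 123) (nat_lit 1) (nat_lit 352) (nat_lit 400) (nat_lit 268)) (XT.lf (nat_lit 0) (nat_lit 2235338590) (nat_lit 0) (nat_lit 2449087116) (nat_lit 152) (nat_lit 2235338590) (nat_lit 122) (nat_lit 3) (nat_lit 122) (nat_lit 1) (nat_lit 124) (nat_lit 1) (nat_lit 353) (nat_lit 400) (nat_lit 267)))) (XT.nd (nat_lit 78) (nat_lit 152) (nat_lit 0) (XT.lf (nat_lit 76) (nat_lit 2133616991) (nat_lit 0) (nat_lit 2337187016) (nat_lit 76) (nat_lit 2337187016) (nat_lit 122) (nat_lit 3) (nat_lit 121) (nat_lit 1) (nat_lit 122) (nat_lit 1) (nat_lit 354) (nat_lit 400) (nat_lit 266)) (XT.nd (nat_lit 78) (nat_lit 0) (nat_lit 0) (XT.lf (nat_lit 152) (nat_lit 6574593106) (nat_lit 0) (nat_lit 62540714) (nat_lit 76) (nat_lit 62540714) (nat_lit 121) (nat_lit 1) (nat_lit 119) (nat_lit 1) (nat_lit 120) (nat_lit 1) (nat_lit 355) (nat_lit 400) (nat_lit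 265)) (XT.lf (nat_lit 0) (nat_lit 2137981955) (nat_lit 0) (nat_lit 2313833397) (nat_lit 152) (nat_lit 2137981955) (nat_lit 119) (nat_lit 3) (nat_lit 119) (nat_lit 1) (nat_lit 121) (nat_lit 1) (nat_lit 356) (nat_lit 400) (nat_lit 264))))) (XT.nd (nat_lit 234) (nat_lit 304) (nat_lit 0) (XT.nd (nat_lit 78) (nat_lit 152) (nat_lit 0) (XT.lf (nat_lit 76) (nat_lit 2049473355) (nat_lit 0) (nat_lit 2216950918) (nat_lit 76) (nat_lit 2216950918) (nat_lit 119) (nat_lit 3) (nat_lit 118) (nat_lit 1) (nat_lit 119) (nat_lit 1) (nat_lit 357) (nat_lit 400) (nat_lit 263)) (XT.nd (nat_lit 78) (nat_lit 0) (nat_lit 0) (XT.lf (nat_lit 152) (nat_lit 6277351414) (nat_lit 0) (nat_lit 51452400) (nat_lit 76) (nat_lit 51452400) (nat_lit 118) (nat_lit 1) (nat_lit 116) (nat_lit 1) (nat_lit 117) (nat_lit 1) (nat_lit 358) (nat_lit 400) (nat_lit 262)) (XT.lf (nat_lit 0) (nat_lit 2043650060) (nat_lit 0) (nat_lit 2188323476) (nat_lit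 152) (nat_lit 2043650060) (nat_lit 116) (nat_lit 3) (nat_lit 116) (nat_lit 1) (nat_lit 118) (nat_lit 1) (nat_lit 359) (nat_lit 400) (nat_lit 261)))) (XT.nd (nat_lit 156) (nat_lit 76) (nat_lit 0) (XT.nd (nat_lit 78) (nat_lit 152) (nat_lit 0) (XT.lf (nat_lit 76) (nat_lit 1966241444) (nat_lit 0) (nat_lit 2104025650) (nat_lit 76) (nat_lit 2104025650) (nat_lit 116) (nat_lit 3) (nat_lit 115) (nat_lit 1) (nat_lit 116) (nat_lit 1) (nat_lit 360) (nat_lit 400) (nat_lit 260)) (XT.lf (nat_lit 152) (nat_lit 5991456729) (nat_lit 0) (nat_lit 42330017) (nat_lit 76) (nat_lit 42330017) (nat_lit 115) (nat_lit 1) (nat_lit 113) (nat_lit 1) (nat_lit 114) (nat_lit 1) (nat_lit 361) (nat_lit 400) (nat_lit 259))) (XT.nd (nat_lit 78) (nat_lit 76) (nat_lit 0) (XT.lf (nat_lit 0) (nat_lit 1952484547) (nat_lit 0) (nat_lit 2071507725) (nat_lit 152) (nat_lit 1952484547) (nat_lit 113) (nat_lit 3) (nat_lit 113) (nat_lit 1) (nat_lit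 115) (nat_lit 1) (nat_lit 362) (nat_lit 400) (nat_lit 258)) (XT.lf (nat_lit 76) (nat_lit 1884426601) (nat_lit 0) (nat_lit 1997782008) (nat_lit 76) (nat_lit 1997782008) (nat_lit 113) (nat_lit 3) (nat_lit 112) (nat_lit 1) (nat_lit 113) (nat_lit 1) (nat_lit 363) (nat_lit 400) (nat_lit 257))))))))
noncomputable def ec258 : XT := (XT.nd (nat_lit 1950) (nat_lit 1824) (nat_lit 0) (XT.nd (nat_lit 936) (nat_lit 1064) (nat_lit 0) (XT.nd (nat_lit 468) (nat_lit 456) (nat_lit 0) (XT.nd (nat_lit 234) (nat_lit 228) (nat_lit 0) (XT.nd (nat_lit 78) (nat_lit 76) (nat_lit 0) (XT.lf (nat_lit 152) (nat_lit 5716866455) (nat_lit 0) (nat_lit 34825009) (nat_lit 76) (nat_lit 34825009) (nat_lit 112) (nat_lit 1) (nat_lit 110) (nat_lit 1) (nat_lit 111) (nat_lit 1) (nat_lit 364) (nat_lit 400) (nat_lit 256)) (XT.nd (nat_lit 78) (nat_lit 76) (nat_lit 0) (XT.lf (nat_lit 0) (nat_lit 1864569665) (nat_lit 0) (nat_lit 1962490327)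 (nat_lit 152) (nat_lit 1864569665) (nat_lit 110) (nat_lit 3) (nat_lit 110) (nat_lit 1) (nat_lit 112) (nat_lit 1) (nat_lit 365) (nat_lit 400) (nat_lit 255)) (XT.lf (nat_lit 76) (nat_lit 1804412807) (nat_lit 0) (nat_lit 1897670581) (nat_lit 76) (nat_lit 1897670581) (nat_lit 110) (nat_lit 3) (nat_lit 109) (nat_lit 1) (nat_lit 110) (nat_lit 1) (nat_lit 366) (nat_lit 400) (nat_lit 254)))) (XT.nd (nat_lit 78) (nat_lit 76) (nat_lit 0) (XT.lf (nat_lit 152) (nat_lit 5453451777) (nat_lit 0) (nat_lit 28650621) (nat_lit 76) (nat_lit 28650621) (nat_lit 109) (nat_lit 1) (nat_lit 107) (nat_lit 1) (nat_lit 108) (nat_lit 1) (nat_lit 367) (nat_lit 400) (nat_lit 253)) (XT.nd (nat_lit 78) (nat_lit 76) (nat_lit 0) (XT.lf (nat_lit 0) (nat_lit 1779943978) (nat_lit 0) (nat_lit 1860503550) (nat_lit 152) (nat_lit 1779943978) (nat_lit 107) (nat_lit 3) (nat_lit 107) (nat_lit 1) (nat_lit 109) (nat_lit 1) (nat_lit 368) (nat_lit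 400) (nat_lit 252)) (XT.lf (nat_lit 76) (nat_lit 1726485720) (nat_lit 0) (nat_lit 1803209121) (nat_lit 76) (nat_lit 1803209121) (nat_lit 107) (nat_lit 3) (nat_lit 106) (nat_lit 1) (nat_lit 107) (nat_lit 1) (nat_lit 369) (nat_lit 400) (nat_lit 251))))) (XT.nd (nat_lit 234) (nat_lit 228) (nat_lit 0) (XT.nd (nat_lit 78) (nat_lit 76) (nat_lit 0) (XT.lf (nat_lit 152) (nat_lit 5201017413) (nat_lit 0) (nat_lit 23570937) (nat_lit 76) (nat_lit 23570937) (nat_lit 106) (nat_lit 1) (nat_lit 104) (nat_lit 1) (nat_lit 105) (nat_lit 1) (nat_lit 370) (nat_lit 400) (nat_lit 250)) (XT.nd (nat_lit 78) (nat_lit 76) (nat_lit 0) (XT.lf (nat_lit 0) (nat_lit 1698609935) (nat_lit 0) (nat_lit 1764886494) (nat_lit 152) (nat_lit 1698609935) (nat_lit 104) (nat_lit 3) (nat_lit 104) (nat_lit 1) (nat_lit 106) (nat_lit 1) (nat_lit 371) (nat_lit 400) (nat_lit 249)) (XT.lf (nat_lit 76) (nat_lit 1650851539) (nat_lit 0) (nat_lit 1713972071)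 (nat_lit 76) (nat_lit 1713972071) (nat_lit 104) (nat_lit 3) (nat_lit 103) (nat_lit 1) (nat_lit 104) (nat_lit 1) (nat_lit 372) (nat_lit 400) (nat_lit 248)))) (XT.nd (nat_lit 78) (nat_lit 76) (nat_lit 0) (XT.lf (nat_lit 152) (nat_lit 4959317649) (nat_lit 0) (nat_lit 19391868) (nat_lit 76) (nat_lit 19391868) (nat_lit 103) (nat_lit 1) (nat_lit 101) (nat_lit 1) (nat_lit 102) (nat_lit 1) (nat_lit 373) (nat_lit 400) (nat_lit 247)) (XT.nd (nat_lit 78) (nat_lit 76) (nat_lit 0) (XT.lf (nat_lit 0) (nat_lit 1620541664) (nat_lit 0) (nat_lit 1675067553) (nat_lit 152) (nat_lit 1620541664) (nat_lit 101) (nat_lit 3) (nat_lit 101) (nat_lit 1) (nat_lit 103) (nat_lit 1) (nat_lit 374) (nat_lit 400) (nat_lit 246)) (XT.lf (nat_lit 76) (nat_lit 1577652470) (nat_lit 0) (nat_lit 1629581888) (nat_lit 76) (nat_lit 1629581888) (nat_lit 101) (nat_lit 3) (nat_lit 100) (nat_lit 1) (nat_lit 101) (nat_lit 1) (nat_lit 375) (nat_lit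 400) (nat_lit 245)))))) (XT.nd (nat_lit 468) (nat_lit 608) (nat_lit 0) (XT.nd (nat_lit 234) (nat_lit 228) (nat_lit 0) (XT.nd (nat_lit 78) (nat_lit 76) (nat_lit 0) (XT.lf (nat_lit 152) (nat_lit 4728069334) (nat_lit 0) (nat_lit 15953738) (nat_lit 76) (nat_lit 15953738) (nat_lit 100) (nat_lit 1) (nat_lit 98) (nat_lit 1) (nat_lit 99) (nat_lit 1) (nat_lit 376) (nat_lit 400) (nat_lit 244)) (XT.nd (nat_lit 78) (nat_lit 76) (nat_lit 0) (XT.lf (nat_lit 0) (nat_lit 1545691319) (nat_lit 0) (nat_lit 1590549903) (nat_lit 152) (nat_lit 1545691319) (nat_lit 98) (nat_lit 3) (nat_lit 98) (nat_lit 1) (nat_lit 100) (nat_lit 1) (nat_lit 377) (nat_lit 400) (nat_lit 243)) (XT.lf (nat_lit 76) (nat_lit 1506979375) (nat_lit 0) (nat_lit 1549701836) (nat_lit 76) (nat_lit 1549701836) (nat_lit 98) (nat_lit 3) (nat_lit 97) (nat_lit 1) (nat_lit 98) (nat_lit 1) (nat_lit 378) (nat_lit 400) (nat_lit 242)))) (XT.nd (nat_lit 78)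 (nat_lit 76) (nat_lit 0) (XT.lf (nat_lit 152) (nat_lit 4506962371) (nat_lit 0) (nat_lit 13125179) (nat_lit 76) (nat_lit 13125179) (nat_lit 97) (nat_lit 1) (nat_lit 95) (nat_lit 1) (nat_lit 96) (nat_lit 1) (nat_lit 379) (nat_lit 400) (nat_lit 241)) (XT.nd (nat_lit 78) (nat_lit 76) (nat_lit 0) (XT.lf (nat_lit 0) (nat_lit 1473994247) (nat_lit 0) (nat_lit 1510899515) (nat_lit 152) (nat_lit 1473994247) (nat_lit 95) (nat_lit 3) (nat_lit 95) (nat_lit 1) (nat_lit 97) (nat_lit 1) (nat_lit 380) (nat_lit 400) (nat_lit 240)) (XT.lf (nat_lit 76) (nat_lit 1438882122) (nat_lit 0) (nat_lit 1474029997) (nat_lit 76) (nat_lit 1474029997) (nat_lit 95) (nat_lit 3) (nat_lit 94) (nat_lit 1) (nat_lit 95) (nat_lit 1) (nat_lit 381) (nat_lit 400) (nat_lit 239))))) (XT.nd (nat_lit 234) (nat_lit 380) (nat_lit 0) (XT.nd (nat_lit 78) (nat_lit 76) (nat_lit 0) (XT.lf (nat_lit 152) (nat_lit 4295668172) (nat_lit 0) (nat_lit 10798118)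 (nat_lit 76) (nat_lit 10798118) (nat_lit 94) (nat_lit 1) (nat_lit 92) (nat_lit 1) (nat_lit 93) (nat_lit 1) (nat_lit 382) (nat_lit 400) (nat_lit 238)) (XT.nd (nat_lit 78) (nat_lit 76) (nat_lit 0) (XT.lf (nat_lit 0) (nat_lit 1405373166) (nat_lit 0) (nat_lit 1435735221) (nat_lit 152) (nat_lit 1405373166) (nat_lit 92) (nat_lit 3) (nat_lit 92) (nat_lit 1) (nat_lit 94) (nat_lit 1) (nat_lit 383) (nat_lit 400) (nat_lit 237)) (XT.lf (nat_lit 76) (nat_lit 1373378036) (nat_lit 0) (nat_lit 1402294279) (nat_lit 76) (nat_lit 1402294279) (nat_lit 92) (nat_lit 3) (nat_lit 91) (nat_lit 1) (nat_lit 92) (nat_lit 1) (nat_lit 384) (nat_lit 400) (nat_lit 236)))) (XT.nd (nat_lit 156) (nat_lit 228) (nat_lit 0) (XT.nd (nat_lit 78) (nat_lit 0) (nat_lit 0) (XT.lf (nat_lit 152) (nat_lit 4093846432) (nat_lit 0) (nat_lit 8883638) (nat_lit 76) (nat_lit 8883638) (nat_lit 91) (nat_lit 1) (nat_lit 89) (nat_lit 1) (nat_lit 90) (nat_lit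 1) (nat_lit 385) (nat_lit 400) (nat_lit 235)) (XT.lf (nat_lit 0) (nat_lit 1339741554) (nat_lit 0) (nat_lit 1364720492) (nat_lit 152) (nat_lit 1339741554) (nat_lit 89) (nat_lit 3) (nat_lit 89) (nat_lit 1) (nat_lit 91) (nat_lit 1) (nat_lit 386) (nat_lit 400) (nat_lit 234))) (XT.nd (nat_lit 78) (nat_lit 152) (nat_lit 0) (XT.lf (nat_lit 76) (nat_lit 1310458798) (nat_lit 0) (nat_lit 1334248263) (nat_lit 76) (nat_lit 1334248263) (nat_lit 89) (nat_lit 3) (nat_lit 88) (nat_lit 1) (nat_lit 89) (nat_lit 1) (nat_lit 387) (nat_lit 400) (nat_lit 233)) (XT.lf (nat_lit 152) (nat_lit 3901150539) (nat_lit 0) (nat_lit 7308591) (nat_lit 76) (nat_lit 7308591) (nat_lit 88) (nat_lit 1) (nat_lit 86) (nat_lit 1) (nat_lit 87) (nat_lit 1) (nat_lit 388) (nat_lit 400) (nat_lit 232))))))) (XT.nd (nat_lit 936) (nat_lit 912) (nat_lit 0) (XT.nd (nat_lit 468) (nat_lit 456) (nat_lit 0) (XT.nd (nat_lit 234) (nat_lit 228) (nat_lit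 0) (XT.nd (nat_lit 78) (nat_lit 228) (nat_lit 0) (XT.lf (nat_lit 0) (nat_lit 1277006380) (nat_lit 0) (nat_lit 1297556614) (nat_lit 152) (nat_lit 1277006380) (nat_lit 86) (nat_lit 3) (nat_lit 86) (nat_lit 1) (nat_lit 88) (nat_lit 1) (nat_lit 389) (nat_lit 400) (nat_lit 231)) (XT.nd (nat_lit 78) (nat_lit 152) (nat_lit 0) (XT.lf (nat_lit 76) (nat_lit 1250096067) (nat_lit 0) (nat_lit 1269667718) (nat_lit 76) (nat_lit 1269667718) (nat_lit 86) (nat_lit 3) (nat_lit 85) (nat_lit 1) (nat_lit 86) (nat_lit 1) (nat_lit 390) (nat_lit 400) (nat_lit 230)) (XT.lf (nat_lit 152) (nat_lit 3717231868) (nat_lit 0) (nat_lit 6012796) (nat_lit 76) (nat_lit 6012796) (nat_lit 85) (nat_lit 1) (nat_lit 83) (nat_lit 1) (nat_lit 84) (nat_lit 1) (nat_lit 391) (nat_lit 400) (nat_lit 229)))) (XT.nd (nat_lit 78) (nat_lit 228) (nat_lit 0) (XT.lf (nat_lit 0) (nat_lit 1217070297) (nat_lit 0) (nat_lit 1233977026) (nat_lit 152) (nat_lit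 1217070297) (nat_lit 83) (nat_lit 3) (nat_lit 83) (nat_lit 1) (nat_lit 85) (nat_lit 1) (nat_lit 392) (nat_lit 400) (nat_lit 228)) (XT.nd (nat_lit 78) (nat_lit 152) (nat_lit 0) (XT.lf (nat_lit 76) (nat_lit 1192246052) (nat_lit 0) (nat_lit 1208347698) (nat_lit 76) (nat_lit 1208347698) (nat_lit 83) (nat_lit 3) (nat_lit 82) (nat_lit 1) (nat_lit 83) (nat_lit 1) (nat_lit 393) (nat_lit 400) (nat_lit 227)) (XT.lf (nat_lit 152) (nat_lit 3541743157) (nat_lit 0) (nat_lit 4946742) (nat_lit 76) (nat_lit 4946742) (nat_lit 82) (nat_lit 1) (nat_lit 80) (nat_lit 1) (nat_lit 81) (nat_lit 1) (nat_lit 394) (nat_lit 400) (nat_lit 226))))) (XT.nd (nat_lit 234) (nat_lit 228) (nat_lit 0) (XT.nd (nat_lit 78) (nat_lit 228) (nat_lit 0) (XT.lf (nat_lit 0) (nat_lit 1159833401) (nat_lit 0) (nat_lit 1173742609) (nat_lit 152) (nat_lit 1159833401) (nat_lit 80) (nat_lit 3) (nat_lit 80) (nat_lit 1) (nat_lit 82) (nat_lit 1) (nat_lit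 395) (nat_lit 400) (nat_lit 225)) (XT.nd (nat_lit 78) (nat_lit 152) (nat_lit 0) (XT.lf (nat_lit 76) (nat_lit 1136853229) (nat_lit 0) (nat_lit 1150100093) (nat_lit 76) (nat_lit 1150100093) (nat_lit 80) (nat_lit 3) (nat_lit 79) (nat_lit 1) (nat_lit 80) (nat_lit 1) (nat_lit 396) (nat_lit 400) (nat_lit 224)) (XT.lf (nat_lit 152) (nat_lit 3374341146) (nat_lit 0) (nat_lit 4069697) (nat_lit 76) (nat_lit 4069697) (nat_lit 79) (nat_lit 1) (nat_lit 77) (nat_lit 1) (nat_lit 78) (nat_lit 1) (nat_lit 397) (nat_lit 400) (nat_lit 223)))) (XT.nd (nat_lit 78) (nat_lit 228) (nat_lit 0) (XT.lf (nat_lit 0) (nat_lit 1105194625) (nat_lit 0) (nat_lit 1116637764) (nat_lit 152) (nat_lit 1105194625) (nat_lit 77) (nat_lit 3) (nat_lit 77) (nat_lit 1) (nat_lit 79) (nat_lit 1) (nat_lit 398) (nat_lit 400) (nat_lit 222)) (XT.nd (nat_lit 78) (nat_lit 152) (nat_lit 0) (XT.lf (nat_lit 76) (nat_lit 1083853347) (nat_lit 0) (nat_lit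 1094751575) (nat_lit 76) (nat_lit 1094751575) (nat_lit 77) (nat_lit 3) (nat_lit 76) (nat_lit 1) (nat_lit 77) (nat_lit 1) (nat_lit 399) (nat_lit 400) (nat_lit 221)) (XT.lf (nat_lit 152) (nat_lit 3214688607) (nat_lit 0) (nat_lit 3348149) (nat_lit 76) (nat_lit 3348149) (nat_lit 76) (nat_lit 1) (nat_lit 74) (nat_lit 1) (nat_lit 75) (nat_lit 1) (nat_lit 400) (nat_lit 400) (nat_lit 220)))))) (XT.nd (nat_lit 468) (nat_lit 456) (nat_lit 0) (XT.nd (nat_lit 234) (nat_lit 228) (nat_lit 0) (XT.nd (nat_lit 78) (nat_lit 228) (nat_lit 0) (XT.lf (nat_lit 0) (nat_lit 1053052843) (nat_lit 0) (nat_lit 1062467142) (nat_lit 152) (nat_lit 1053052843) (nat_lit 74) (nat_lit 3) (nat_lit 74) (nat_lit 1) (nat_lit 76) (nat_lit 1) (nat_lit 401) (nat_lit 400) (nat_lit 219)) (XT.nd (nat_lit 78) (nat_lit 152) (nat_lit 0) (XT.lf (nat_lit 76) (nat_lit 1033175862) (nat_lit 0) (nat_lit 1042141861) (nat_lit 76) (nat_lit 1042141861)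 (nat_lit 74) (nat_lit 3) (nat_lit 73) (nat_lit 1) (nat_lit 74) (nat_lit 1) (nat_lit 402) (nat_lit 400) (nat_lit 218)) (XT.lf (nat_lit 152) (nat_lit 3062455888) (nat_lit 0) (nat_lit 2754531) (nat_lit 76) (nat_lit 2754531) (nat_lit 73) (nat_lit 1) (nat_lit 71) (nat_lit 1) (nat_lit 72) (nat_lit 1) (nat_lit 403) (nat_lit 400) (nat_lit 217)))) (XT.nd (nat_lit 78) (nat_lit 228) (nat_lit 0) (XT.lf (nat_lit 0) (nat_lit 1003307742) (nat_lit 0) (nat_lit 1011052909) (nat_lit 152) (nat_lit 1003307742) (nat_lit 71) (nat_lit 3) (nat_lit 71) (nat_lit 1) (nat_lit 73) (nat_lit 1) (nat_lit 404) (nat_lit 400) (nat_lit 216)) (XT.nd (nat_lit 78) (nat_lit 152) (nat_lit 0) (XT.lf (nat_lit 76) (nat_lit 984745892) (nat_lit 0) (nat_lit 992122241) (nat_lit 76) (nat_lit 992122241) (nat_lit 71) (nat_lit 3) (nat_lit 70) (nat_lit 1) (nat_lit 71) (nat_lit 1) (nat_lit 405) (nat_lit 400) (nat_lit 215)) (XT.lf (nat_lit 152) (nat_lit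 2917322052) (nat_lit 0) (nat_lit 2266159) (nat_lit 76) (nat_lit 2266159) (nat_lit 70) (nat_lit 1) (nat_lit 68) (nat_lit 1) (nat_lit 69) (nat_lit 1) (nat_lit 406) (nat_lit 400) (nat_lit 214))))) (XT.nd (nat_lit 234) (nat_lit 228) (nat_lit 0) (XT.nd (nat_lit 78) (nat_lit 228) (nat_lit 0) (XT.lf (nat_lit 0) (nat_lit 955860489) (nat_lit 0) (nat_lit 962232457) (nat_lit 152) (nat_lit 955860489) (nat_lit 68) (nat_lit 3) (nat_lit 68) (nat_lit 1) (nat_lit 70) (nat_lit 1) (nat_lit 407) (nat_lit 400) (nat_lit 213)) (XT.nd (nat_lit 78) (nat_lit 152) (nat_lit 0) (XT.lf (nat_lit 76) (nat_lit 938485790) (nat_lit 0) (nat_lit 944554331) (nat_lit 76) (nat_lit 944554331) (nat_lit 68) (nat_lit 3) (nat_lit 67) (nat_lit 1) (nat_lit 68) (nat_lit 1) (nat_lit 408) (nat_lit 400) (nat_lit 212)) (XT.lf (nat_lit 152) (nat_lit 2778975705) (nat_lit 0) (nat_lit 1864375) (nat_lit 76) (nat_lit 1864375) (nat_lit 67) (nat_lit 1)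 (nat_lit 65) (nat_lit 1) (nat_lit 66) (nat_lit 1) (nat_lit 409) (nat_lit 400) (nat_lit 211)))) (XT.nd (nat_lit 156) (nat_lit 152) (nat_lit 0) (XT.nd (nat_lit 78) (nat_lit 76) (nat_lit 0) (XT.lf (nat_lit 0) (nat_lit 910614243) (nat_lit 0) (nat_lit 915856477) (nat_lit 152) (nat_lit 910614243) (nat_lit 65) (nat_lit 3) (nat_lit 65) (nat_lit 1) (nat_lit 67) (nat_lit 1) (nat_lit 410) (nat_lit 400) (nat_lit 210)) (XT.lf (nat_lit 76) (nat_lit 894316399) (nat_lit 0) (nat_lit 899309003) (nat_lit 76) (nat_lit 899309003) (nat_lit 65) (nat_lit 3) (nat_lit 64) (nat_lit 1) (nat_lit 65) (nat_lit 1) (nat_lit 411) (nat_lit 400) (nat_lit 209))) (XT.nd (nat_lit 78) (nat_lit 0) (nat_lit 0) (XT.lf (nat_lit 152) (nat_lit 2647115554) (nat_lit 0) (nat_lit 1533826) (nat_lit 76) (nat_lit 1533826) (nat_lit 64) (nat_lit 1) (nat_lit 62) (nat_lit 1) (nat_lit 63) (nat_lit 1) (nat_lit 412) (nat_lit 400) (nat_lit 208)) (XT.lf (nat_lit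 0) (nat_lit 867474547) (nat_lit 0) (nat_lit 871787346) (nat_lit 152) (nat_lit 867474547) (nat_lit 62) (nat_lit 3) (nat_lit 62) (nat_lit 1) (nat_lit 64) (nat_lit 1) (nat_lit 413) (nat_lit 400) (nat_lit 207))))))))
noncomputable def ec259 : XT := (XT.nd (nat_lit 1950) (nat_lit 608) (nat_lit 0) (XT.nd (nat_lit 936) (nat_lit 988) (nat_lit 0) (XT.nd (nat_lit 468) (nat_lit 456) (nat_lit 0) (XT.nd (nat_lit 234) (nat_lit 228) (nat_lit 0) (XT.nd (nat_lit 78) (nat_lit 152) (nat_lit 0) (XT.lf (nat_lit 76) (nat_lit 852158045) (nat_lit 0) (nat_lit 856265473) (nat_lit 76) (nat_lit 856265473) (nat_lit 62) (nat_lit 3) (nat_lit 61) (nat_lit 1) (nat_lit 62) (nat_lit 1) (nat_lit 414) (nat_lit 400) (nat_lit 206)) (XT.nd (nat_lit 78) (nat_lit 0) (nat_lit 0) (XT.lf (nat_lit 152) (nat_lit 2521450770) (nat_lit 0) (nat_lit 1261882) (nat_lit 76) (nat_lit 1261882) (nat_lit 61) (nat_lit 1) (nat_lit 59) (nat_lit 1) (nat_lit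 60) (nat_lit 1) (nat_lit 415) (nat_lit 400) (nat_lit 205)) (XT.lf (nat_lit 0) (nat_lit 826349604) (nat_lit 0) (nat_lit 829897755) (nat_lit 152) (nat_lit 826349604) (nat_lit 59) (nat_lit 3) (nat_lit 59) (nat_lit 1) (nat_lit 61) (nat_lit 1) (nat_lit 416) (nat_lit 400) (nat_lit 204)))) (XT.nd (nat_lit 78) (nat_lit 152) (nat_lit 0) (XT.lf (nat_lit 76) (nat_lit 811931323) (nat_lit 0) (nat_lit 815310514) (nat_lit 76) (nat_lit 815310514) (nat_lit 59) (nat_lit 3) (nat_lit 58) (nat_lit 1) (nat_lit 59) (nat_lit 1) (nat_lit 417) (nat_lit 400) (nat_lit 203)) (XT.nd (nat_lit 78) (nat_lit 0) (nat_lit 0) (XT.lf (nat_lit 152) (nat_lit 2401701171) (nat_lit 0) (nat_lit 1038153) (nat_lit 76) (nat_lit 1038153) (nat_lit 58) (nat_lit 1) (nat_lit 56) (nat_lit 1) (nat_lit 57) (nat_lit 1) (nat_lit 418) (nat_lit 400) (nat_lit 202)) (XT.lf (nat_lit 0) (nat_lit 787150482) (nat_lit 0) (nat_lit 790069554) (nat_lit 152) (nat_lit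 787150482) (nat_lit 56) (nat_lit 3) (nat_lit 56) (nat_lit 1) (nat_lit 58) (nat_lit 1) (nat_lit 419) (nat_lit 400) (nat_lit 201))))) (XT.nd (nat_lit 234) (nat_lit 228) (nat_lit 0) (XT.nd (nat_lit 78) (nat_lit 152) (nat_lit 0) (XT.lf (nat_lit 76) (nat_lit 773557710) (nat_lit 0) (nat_lit 776337779) (nat_lit 76) (nat_lit 776337779) (nat_lit 56) (nat_lit 3) (nat_lit 55) (nat_lit 1) (nat_lit 56) (nat_lit 1) (nat_lit 420) (nat_lit 400) (nat_lit 200)) (XT.nd (nat_lit 78) (nat_lit 0) (nat_lit 0) (XT.lf (nat_lit 152) (nat_lit 2287597290) (nat_lit 0) (nat_lit 854091) (nat_lit 76) (nat_lit 854091) (nat_lit 55) (nat_lit 1) (nat_lit 53) (nat_lit 1) (nat_lit 54) (nat_lit 1) (nat_lit 421) (nat_lit 400) (nat_lit 199)) (XT.lf (nat_lit 0) (nat_lit 749791237) (nat_lit 0) (nat_lit 752192765) (nat_lit 152) (nat_lit 749791237) (nat_lit 53) (nat_lit 3) (nat_lit 53) (nat_lit 1) (nat_lit 55) (nat_lit 1) (nat_lit 422) (nat_lit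 400) (nat_lit 198)))) (XT.nd (nat_lit 78) (nat_lit 152) (nat_lit 0) (XT.lf (nat_lit 76) (nat_lit 736960034) (nat_lit 0) (nat_lit 739247203) (nat_lit 76) (nat_lit 739247203) (nat_lit 53) (nat_lit 3) (nat_lit 52) (nat_lit 1) (nat_lit 53) (nat_lit 1) (nat_lit 423) (nat_lit 400) (nat_lit 197)) (XT.nd (nat_lit 78) (nat_lit 0) (nat_lit 0) (XT.lf (nat_lit 152) (nat_lit 2178880326) (nat_lit 0) (nat_lit 702663) (nat_lit 76) (nat_lit 702663) (nat_lit 52) (nat_lit 1) (nat_lit 50) (nat_lit 1) (nat_lit 51) (nat_lit 1) (nat_lit 424) (nat_lit 400) (nat_lit 196)) (XT.lf (nat_lit 0) (nat_lit 714189000) (nat_lit 0) (nat_lit 716164743) (nat_lit 152) (nat_lit 714189000) (nat_lit 50) (nat_lit 3) (nat_lit 50) (nat_lit 1) (nat_lit 52) (nat_lit 1) (nat_lit 425) (nat_lit 400) (nat_lit 195)))))) (XT.nd (nat_lit 468) (nat_lit 532) (nat_lit 0) (XT.nd (nat_lit 234) (nat_lit 228) (nat_lit 0) (XT.nd (nat_lit 78) (nat_lit 152)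 (nat_lit 0) (XT.lf (nat_lit 76) (nat_lit 702062835) (nat_lit 0) (nat_lit 703944495) (nat_lit 76) (nat_lit 703944495) (nat_lit 50) (nat_lit 3) (nat_lit 49) (nat_lit 1) (nat_lit 50) (nat_lit 1) (nat_lit 426) (nat_lit 400) (nat_lit 194)) (XT.nd (nat_lit 78) (nat_lit 0) (nat_lit 0) (XT.lf (nat_lit 152) (nat_lit 2075302022) (nat_lit 0) (nat_lit 578082) (nat_lit 76) (nat_lit 578082) (nat_lit 49) (nat_lit 1) (nat_lit 47) (nat_lit 1) (nat_lit 48) (nat_lit 1) (nat_lit 427) (nat_lit 400) (nat_lit 193)) (XT.lf (nat_lit 0) (nat_lit 680264003) (nat_lit 0) (nat_lit 681889452) (nat_lit 152) (nat_lit 680264003) (nat_lit 47) (nat_lit 3) (nat_lit 47) (nat_lit 1) (nat_lit 49) (nat_lit 1) (nat_lit 428) (nat_lit 400) (nat_lit 192)))) (XT.nd (nat_lit 78) (nat_lit 152) (nat_lit 0) (XT.lf (nat_lit 76) (nat_lit 668792634) (nat_lit 0) (nat_lit 670340680) (nat_lit 76) (nat_lit 670340680) (nat_lit 47) (nat_lit 3) (nat_lit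 46) (nat_lit 1) (nat_lit 47) (nat_lit 1) (nat_lit 429) (nat_lit 400) (nat_lit 191)) (XT.nd (nat_lit 78) (nat_lit 0) (nat_lit 0) (XT.lf (nat_lit 152) (nat_lit 1976624476) (nat_lit 0) (nat_lit 475590) (nat_lit 76) (nat_lit 475590) (nat_lit 46) (nat_lit 1) (nat_lit 44) (nat_lit 1) (nat_lit 45) (nat_lit 1) (nat_lit 430) (nat_lit 400) (nat_lit 190)) (XT.lf (nat_lit 0) (nat_lit 647939589) (nat_lit 0) (nat_lit 649276850) (nat_lit 152) (nat_lit 647939589) (nat_lit 44) (nat_lit 3) (nat_lit 44) (nat_lit 1) (nat_lit 46) (nat_lit 1) (nat_lit 431) (nat_lit 400) (nat_lit 189))))) (XT.nd (nat_lit 234) (nat_lit 304) (nat_lit 0) (XT.nd (nat_lit 78) (nat_lit 152) (nat_lit 0) (XT.lf (nat_lit 76) (nat_lit 637078118) (nat_lit 0) (nat_lit 638351700) (nat_lit 76) (nat_lit 638351700) (nat_lit 44) (nat_lit 3) (nat_lit 43) (nat_lit 1) (nat_lit 44) (nat_lit 1) (nat_lit 432) (nat_lit 400) (nat_lit 188)) (XT.nd (nat_lit 78)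 (nat_lit 0) (nat_lit 0) (XT.lf (nat_lit 152) (nat_lit 1882619912) (nat_lit 0) (nat_lit 391269) (nat_lit 76) (nat_lit 391269) (nat_lit 43) (nat_lit 1) (nat_lit 41) (nat_lit 1) (nat_lit 42) (nat_lit 1) (nat_lit 433) (nat_lit 400) (nat_lit 187)) (XT.lf (nat_lit 0) (nat_lit 617142180) (nat_lit 0) (nat_lit 618242348) (nat_lit 152) (nat_lit 617142180) (nat_lit 41) (nat_lit 3) (nat_lit 41) (nat_lit 1) (nat_lit 43) (nat_lit 1) (nat_lit 434) (nat_lit 400) (nat_lit 186)))) (XT.nd (nat_lit 156) (nat_lit 76) (nat_lit 0) (XT.nd (nat_lit 78) (nat_lit 152) (nat_lit 0) (XT.lf (nat_lit 76) (nat_lit 606850281) (nat_lit 0) (nat_lit 607898060) (nat_lit 76) (nat_lit 607898060) (nat_lit 41) (nat_lit 3) (nat_lit 40) (nat_lit 1) (nat_lit 41) (nat_lit 1) (nat_lit 435) (nat_lit 400) (nat_lit 185)) (XT.lf (nat_lit 152) (nat_lit 1793070407) (nat_lit 0) (nat_lit 321898) (nat_lit 76) (nat_lit 321898) (nat_lit 40) (nat_lit 1)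 (nat_lit 38) (nat_lit 1) (nat_lit 39) (nat_lit 1) (nat_lit 436) (nat_lit 400) (nat_lit 184))) (XT.nd (nat_lit 78) (nat_lit 76) (nat_lit 0) (XT.lf (nat_lit 0) (nat_lit 587801234) (nat_lit 0) (nat_lit 588706344) (nat_lit 152) (nat_lit 587801234) (nat_lit 38) (nat_lit 3) (nat_lit 38) (nat_lit 1) (nat_lit 40) (nat_lit 1) (nat_lit 437) (nat_lit 400) (nat_lit 183)) (XT.lf (nat_lit 76) (nat_lit 578042501) (nat_lit 0) (nat_lit 578904511) (nat_lit 76) (nat_lit 578904511) (nat_lit 38) (nat_lit 3) (nat_lit 37) (nat_lit 1) (nat_lit 38) (nat_lit 1) (nat_lit 438) (nat_lit 400) (nat_lit 182))))))) (XT.nd (nat_lit 36348) (nat_lit 0) (nat_lit 18012) (XT.nd (nat_lit 468) (nat_lit 152) (nat_lit 0) (XT.nd (nat_lit 234) (nat_lit 228) (nat_lit 0) (XT.nd (nat_lit 78) (nat_lit 76) (nat_lit 0) (XT.lf (nat_lit 152) (nat_lit 1707767600) (nat_lit 0) (nat_lit 264826) (nat_lit 76) (nat_lit 264826) (nat_lit 37) (nat_lit 1) (nat_lit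 35) (nat_lit 1) (nat_lit 36) (nat_lit 1) (nat_lit 439) (nat_lit 400) (nat_lit 181)) (XT.nd (nat_lit 78) (nat_lit 76) (nat_lit 0) (XT.lf (nat_lit 0) (nat_lit 559849182) (nat_lit 0) (nat_lit 560593819) (nat_lit 152) (nat_lit 559849182) (nat_lit 35) (nat_lit 3) (nat_lit 35) (nat_lit 1) (nat_lit 37) (nat_lit 1) (nat_lit 440) (nat_lit 400) (nat_lit 180)) (XT.lf (nat_lit 76) (nat_lit 550590589) (nat_lit 0) (nat_lit 551299767) (nat_lit 76) (nat_lit 551299767) (nat_lit 35) (nat_lit 3) (nat_lit 34) (nat_lit 1) (nat_lit 35) (nat_lit 1) (nat_lit 441) (nat_lit 400) (nat_lit 179)))) (XT.nd (nat_lit 78) (nat_lit 76) (nat_lit 0) (XT.lf (nat_lit 152) (nat_lit 1626512383) (nat_lit 0) (nat_lit 217873) (nat_lit 76) (nat_lit 217873) (nat_lit 34) (nat_lit 1) (nat_lit 32) (nat_lit 1) (nat_lit 33) (nat_lit 1) (nat_lit 442) (nat_lit 400) (nat_lit 178)) (XT.nd (nat_lit 78) (nat_lit 76) (nat_lit 0) (XT.lf (nat_lit 0) (nat_lit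 533221357) (nat_lit 0) (nat_lit 533833972) (nat_lit 152) (nat_lit 533221357) (nat_lit 32) (nat_lit 3) (nat_lit 32) (nat_lit 1) (nat_lit 34) (nat_lit 1) (nat_lit 443) (nat_lit 400) (nat_lit 177)) (XT.lf (nat_lit 76) (nat_lit 524432805) (nat_lit 0) (nat_lit 525016248) (nat_lit 76) (nat_lit 525016248) (nat_lit 32) (nat_lit 3) (nat_lit 31) (nat_lit 1) (nat_lit 32) (nat_lit 1) (nat_lit 444) (nat_lit 400) (nat_lit 176))))) (XT.nd (nat_lit 35568) (nat_lit 0) (nat_lit 20064) (XT.nd (nat_lit 35412) (nat_lit 0) (nat_lit 19988) (XT.lf (nat_lit 152) (nat_lit 1549114574) (nat_lit 0) (nat_lit 179244) (nat_lit 76) (nat_lit 179244) (nat_lit 31) (nat_lit 1) (nat_lit 29) (nat_lit 1) (nat_lit 30) (nat_lit 1) (nat_lit 445) (nat_lit 400) (nat_lit 175)) (XT.nd (nat_lit 78) (nat_lit 0) (nat_lit 0) (XT.lf (nat_lit 836) (nat_lit 10538939762) (nat_lit 0) (nat_lit 18711863324) (nat_lit 836) (nat_lit 10538939762) (nat_lit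 303) (nat_lit 1) (nat_lit 292) (nat_lit 0) (nat_lit 303) (nat_lit 0) (nat_lit 218) (nat_lit 401) (nat_lit 401)) (XT.lf (nat_lit 836) (nat_lit 40850246255) (nat_lit 76) (nat_lit 18410059077) (nat_lit 0) (nat_lit 18410059077) (nat_lit 303) (nat_lit 1) (nat_lit 293) (nat_lit 1) (nat_lit 292) (nat_lit 0) (nat_lit 219) (nat_lit 401) (nat_lit 400)))) (XT.nd (nat_lit 156) (nat_lit 0) (nat_lit 76) (XT.nd (nat_lit 78) (nat_lit 0) (nat_lit 0) (XT.lf (nat_lit 836) (nat_lit 19468612283) (nat_lit 0) (nat_lit 36883039748) (nat_lit 760) (nat_lit 19468612283) (nat_lit 304) (nat_lit 1) (nat_lit 293) (nat_lit 1) (nat_lit 303) (nat_lit 1) (nat_lit 220) (nat_lit 401) (nat_lit 399)) (XT.lf (nat_lit 836) (nat_lit 36520411412) (nat_lit 76) (nat_lit 18754762413) (nat_lit 0) (nat_lit 18754762413) (nat_lit 304) (nat_lit 1) (nat_lit 294) (nat_lit 1) (nat_lit 293) (nat_lit 1) (nat_lit 221) (nat_lit 401) (nat_lit 398))) (XT.nd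 (nat_lit 78) (nat_lit 0) (nat_lit 0) (XT.lf (nat_lit 836) (nat_lit 16809994664) (nat_lit 0) (nat_lit 38676363252) (nat_lit 760) (nat_lit 16809994664) (nat_lit 305) (nat_lit 1) (nat_lit 294) (nat_lit 1) (nat_lit 304) (nat_lit 1) (nat_lit 222) (nat_lit 401) (nat_lit 397)) (XT.lf (nat_lit 836) (nat_lit 30233870272) (nat_lit 76) (nat_lit 20190872453) (nat_lit 0) (nat_lit 20190872453) (nat_lit 305) (nat_lit 1) (nat_lit 295) (nat_lit 1) (nat_lit 294) (nat_lit 1) (nat_lit 223) (nat_lit 401) (nat_lit 396)))))) (XT.nd (nat_lit 468) (nat_lit 1596) (nat_lit 0) (XT.nd (nat_lit 234) (nat_lit 608) (nat_lit 0) (XT.nd (nat_lit 78) (nat_lit 0) (nat_lit 0) (XT.lf (nat_lit 836) (nat_lit 13256678881) (nat_lit 0) (nat_lit 42477953354) (nat_lit 760) (nat_lit 13256678881) (nat_lit 306) (nat_lit 1) (nat_lit 295) (nat_lit 1) (nat_lit 305) (nat_lit 1) (nat_lit 224) (nat_lit 401) (nat_lit 395)) (XT.nd (nat_lit 78) (nat_lit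 0) (nat_lit 76) (XT.lf (nat_lit 836) (nat_lit 22284884235) (nat_lit 76) (nat_lit 22563422738) (nat_lit 0) (nat_lit 22563422738) (nat_lit 306) (nat_lit 1) (nat_lit 296) (nat_lit 1) (nat_lit 295) (nat_lit 1) (nat_lit 225) (nat_lit 401) (nat_lit 394)) (XT.lf (nat_lit 836) (nat_lit 8946220309) (nat_lit 0) (nat_lit 47997529376) (nat_lit 760) (nat_lit 8946220309) (nat_lit 307) (nat_lit 1) (nat_lit 296) (nat_lit 1) (nat_lit 306) (nat_lit 1) (nat_lit 226) (nat_lit 401) (nat_lit 393)))) (XT.nd (nat_lit 78) (nat_lit 684) (nat_lit 0) (XT.lf (nat_lit 836) (nat_lit 12935007285) (nat_lit 76) (nat_lit 25734401639) (nat_lit 0) (nat_lit 25734401639) (nat_lit 307) (nat_lit 1) (nat_lit 297) (nat_lit 1) (nat_lit 296) (nat_lit 1) (nat_lit 227) (nat_lit 401) (nat_lit 392)) (XT.nd (nat_lit 78) (nat_lit 760) (nat_lit 0) (XT.lf (nat_lit 76) (nat_lit 4000796452) (nat_lit 0) (nat_lit 54976730139) (nat_lit 760) (nat_lit 4000796452)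 (nat_lit 298) (nat_lit 1) (nat_lit 297) (nat_lit 1) (nat_lit 307) (nat_lit 1) (nat_lit 228) (nat_lit 401) (nat_lit 391)) (XT.lf (nat_lit 836) (nat_lit 2416381566) (nat_lit 0) (nat_lit 29581054742) (nat_lit 760) (nat_lit 29581054742) (nat_lit 298) (nat_lit 1) (nat_lit 287) (nat_lit 1) (nat_lit 297) (nat_lit 1) (nat_lit 229) (nat_lit 401) (nat_lit 390))))) (XT.nd (nat_lit 234) (nat_lit 684) (nat_lit 0) (XT.nd (nat_lit 78) (nat_lit 380) (nat_lit 0) (XT.lf (nat_lit 532) (nat_lit 57343777680) (nat_lit 0) (nat_lit 1447510391) (nat_lit 456) (nat_lit 1447510391) (nat_lit 287) (nat_lit 1) (nat_lit 280) (nat_lit 1) (nat_lit 286) (nat_lit 1) (nat_lit 230) (nat_lit 401) (nat_lit 389)) (XT.nd (nat_lit 78) (nat_lit 380) (nat_lit 0) (XT.lf (nat_lit 76) (nat_lit 25070599798) (nat_lit 0) (nat_lit 8775139810) (nat_lit 532) (nat_lit 25070599798) (nat_lit 281) (nat_lit 1) (nat_lit 280) (nat_lit 1) (nat_lit 287) (nat_lit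 1) (nat_lit 231) (nat_lit 401) (nat_lit 388)) (XT.lf (nat_lit 456) (nat_lit 43140066909) (nat_lit 0) (nat_lit 7255023972) (nat_lit 380) (nat_lit 7255023972) (nat_lit 281) (nat_lit 1) (nat_lit 275) (nat_lit 1) (nat_lit 280) (nat_lit 1) (nat_lit 232) (nat_lit 401) (nat_lit 387)))) (XT.nd (nat_lit 156) (nat_lit 304) (nat_lit 0) (XT.nd (nat_lit 78) (nat_lit 380) (nat_lit 0) (XT.lf (nat_lit 76) (nat_lit 17882553640) (nat_lit 0) (nat_lit 20645402558) (nat_lit 456) (nat_lit 17882553640) (nat_lit 276) (nat_lit 1) (nat_lit 275) (nat_lit 1) (nat_lit 281) (nat_lit 1) (nat_lit 233) (nat_lit 401) (nat_lit 386)) (XT.lf (nat_lit 456) (nat_lit 28408345842) (nat_lit 0) (nat_lit 13402865554) (nat_lit 380) (nat_lit 13402865554) (nat_lit 276) (nat_lit 1) (nat_lit 270) (nat_lit 1) (nat_lit 275) (nat_lit 1) (nat_lit 234) (nat_lit 401) (nat_lit 385))) (XT.nd (nat_lit 78) (nat_lit 304) (nat_lit 0) (XT.lf (nat_lit 76)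 (nat_lit 10468097894) (nat_lit 0) (nat_lit 33116244574) (nat_lit 456) (nat_lit 10468097894) (nat_lit 271) (nat_lit 1) (nat_lit 270) (nat_lit 1) (nat_lit 276) (nat_lit 1) (nat_lit 235) (nat_lit 401) (nat_lit 384)) (XT.lf (nat_lit 380) (nat_lit 13285729428) (nat_lit 0) (nat_lit 19817477735) (nat_lit 304) (nat_lit 19817477735) (nat_lit 271) (nat_lit 1) (nat_lit 266) (nat_lit 1) (nat_lit 270) (nat_lit 1) (nat_lit 236) (nat_lit 401) (nat_lit 383))))))))
noncomputable def ec260 : XT := (XT.nd (nat_lit 1950) (nat_lit 2356) (nat_lit 0) (XT.nd (nat_lit 936) (nat_lit 1672) (nat_lit 0) (XT.nd (nat_lit 468) (nat_lit 1064) (nat_lit 0) (XT.nd (nat_lit 234) (nat_lit 304) (nat_lit 0) (XT.nd (nat_lit 78) (nat_lit 684) (nat_lit 0) (XT.lf (nat_lit 76) (nat_lit 2890886073) (nat_lit 0) (nat_lit 46050679034) (nat_lit 380) (nat_lit 2890886073) (nat_lit 267) (nat_lit 1) (nat_lit 266) (nat_lit 1) (nat_lit 271) (nat_lit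 1) (nat_lit 237) (nat_lit 401) (nat_lit 382)) (XT.nd (nat_lit 78) (nat_lit 304) (nat_lit 0) (XT.lf (nat_lit 76) (nat_lit 24359436750) (nat_lit 0) (nat_lit 2040150146) (nat_lit 380) (nat_lit 24359436750) (nat_lit 262) (nat_lit 1) (nat_lit 261) (nat_lit 1) (nat_lit 266) (nat_lit 1) (nat_lit 238) (nat_lit 401) (nat_lit 381)) (XT.lf (nat_lit 380) (nat_lit 40294349908) (nat_lit 0) (nat_lit 4716062478) (nat_lit 304) (nat_lit 4716062478) (nat_lit 262) (nat_lit 1) (nat_lit 257) (nat_lit 1) (nat_lit 261) (nat_lit 1) (nat_lit 239) (nat_lit 401) (nat_lit 380)))) (XT.nd (nat_lit 78) (nat_lit 304) (nat_lit 0) (XT.lf (nat_lit 76) (nat_lit 15805215496) (nat_lit 0) (nat_lit 17101208693) (nat_lit 380) (nat_lit 15805215496) (nat_lit 258) (nat_lit 1) (nat_lit 257) (nat_lit 1) (nat_lit 262) (nat_lit 1) (nat_lit 240) (nat_lit 401) (nat_lit 379)) (XT.nd (nat_lit 78) (nat_lit 0) (nat_lit 0) (XT.lf (nat_lit 380) (nat_lit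 23064206079) (nat_lit 0) (nat_lit 12333894672) (nat_lit 304) (nat_lit 12333894672) (nat_lit 258) (nat_lit 1) (nat_lit 253) (nat_lit 1) (nat_lit 257) (nat_lit 1) (nat_lit 241) (nat_lit 401) (nat_lit 378)) (XT.lf (nat_lit 76) (nat_lit 7273421258) (nat_lit 0) (nat_lit 32234153525) (nat_lit 380) (nat_lit 7273421258) (nat_lit 254) (nat_lit 1) (nat_lit 253) (nat_lit 1) (nat_lit 258) (nat_lit 1) (nat_lit 242) (nat_lit 401) (nat_lit 377))))) (XT.nd (nat_lit 234) (nat_lit 456) (nat_lit 0) (XT.nd (nat_lit 78) (nat_lit 380) (nat_lit 0) (XT.lf (nat_lit 304) (nat_lit 5915161994) (nat_lit 0) (nat_lit 19967681469) (nat_lit 228) (nat_lit 19967681469) (nat_lit 254) (nat_lit 1) (nat_lit 250) (nat_lit 1) (nat_lit 253) (nat_lit 1) (nat_lit 243) (nat_lit 401) (nat_lit 376)) (XT.nd (nat_lit 78) (nat_lit 0) (nat_lit 0) (XT.lf (nat_lit 380) (nat_lit 42592254988) (nat_lit 0) (nat_lit 1181853350) (nat_lit 304) (nat_lit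 1181853350) (nat_lit 250) (nat_lit 1) (nat_lit 245) (nat_lit 1) (nat_lit 249) (nat_lit 1) (nat_lit 244) (nat_lit 401) (nat_lit 375)) (XT.lf (nat_lit 76) (nat_lit 16666664256) (nat_lit 0) (nat_lit 10733021233) (nat_lit 380) (nat_lit 16666664256) (nat_lit 246) (nat_lit 1) (nat_lit 245) (nat_lit 1) (nat_lit 250) (nat_lit 1) (nat_lit 245) (nat_lit 401) (nat_lit 374)))) (XT.nd (nat_lit 78) (nat_lit 228) (nat_lit 0) (XT.lf (nat_lit 304) (nat_lit 24342190051) (nat_lit 0) (nat_lit 9434333367) (nat_lit 228) (nat_lit 9434333367) (nat_lit 246) (nat_lit 1) (nat_lit 242) (nat_lit 1) (nat_lit 245) (nat_lit 1) (nat_lit 246) (nat_lit 401) (nat_lit 373)) (XT.nd (nat_lit 78) (nat_lit 228) (nat_lit 0) (XT.lf (nat_lit 76) (nat_lit 7690074372) (nat_lit 0) (nat_lit 26996950353) (nat_lit 304) (nat_lit 7690074372) (nat_lit 243) (nat_lit 1) (nat_lit 242) (nat_lit 1) (nat_lit 246) (nat_lit 1) (nat_lit 247) (nat_lit 401)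 (nat_lit 372)) (XT.lf (nat_lit 304) (nat_lit 6409436626) (nat_lit 0) (nat_lit 17576436272) (nat_lit 228) (nat_lit 17576436272) (nat_lit 243) (nat_lit 1) (nat_lit 239) (nat_lit 1) (nat_lit 242) (nat_lit 1) (nat_lit 248) (nat_lit 401) (nat_lit 371)))))) (XT.nd (nat_lit 468) (nat_lit 684) (nat_lit 0) (XT.nd (nat_lit 234) (nat_lit 456) (nat_lit 0) (XT.nd (nat_lit 78) (nat_lit 228) (nat_lit 0) (XT.lf (nat_lit 304) (nat_lit 38574733939) (nat_lit 0) (nat_lit 1101527893) (nat_lit 228) (nat_lit 1101527893) (nat_lit 239) (nat_lit 1) (nat_lit 235) (nat_lit 1) (nat_lit 238) (nat_lit 1) (nat_lit 249) (nat_lit 401) (nat_lit 370)) (XT.nd (nat_lit 78) (nat_lit 228) (nat_lit 0) (XT.lf (nat_lit 76) (nat_lit 14591717138) (nat_lit 0) (nat_lit 10812315882) (nat_lit 304) (nat_lit 14591717138) (nat_lit 236) (nat_lit 1) (nat_lit 235) (nat_lit 1) (nat_lit 239) (nat_lit 1) (nat_lit 250) (nat_lit 401) (nat_lit 369)) (XT.lf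 (nat_lit 304) (nat_lit 20064947168) (nat_lit 0) (nat_lit 9588849506) (nat_lit 228) (nat_lit 9588849506) (nat_lit 236) (nat_lit 1) (nat_lit 232) (nat_lit 1) (nat_lit 235) (nat_lit 1) (nat_lit 251) (nat_lit 401) (nat_lit 368)))) (XT.nd (nat_lit 78) (nat_lit 456) (nat_lit 0) (XT.lf (nat_lit 76) (nat_lit 5525870086) (nat_lit 0) (nat_lit 27458000624) (nat_lit 304) (nat_lit 5525870086) (nat_lit 233) (nat_lit 1) (nat_lit 232) (nat_lit 1) (nat_lit 236) (nat_lit 1) (nat_lit 252) (nat_lit 401) (nat_lit 367)) (XT.nd (nat_lit 78) (nat_lit 304) (nat_lit 0) (XT.lf (nat_lit 228) (nat_lit 2024862531) (nat_lit 0) (nat_lit 17882892021) (nat_lit 152) (nat_lit 17882892021) (nat_lit 233) (nat_lit 1) (nat_lit 230) (nat_lit 1) (nat_lit 232) (nat_lit 1) (nat_lit 253) (nat_lit 401) (nat_lit 366)) (XT.lf (nat_lit 304) (nat_lit 30594993876) (nat_lit 0) (nat_lit 3249410112) (nat_lit 228) (nat_lit 3249410112) (nat_lit 230)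 (nat_lit 1) (nat_lit 226) (nat_lit 1) (nat_lit 229) (nat_lit 1) (nat_lit 254) (nat_lit 401) (nat_lit 365))))) (XT.nd (nat_lit 234) (nat_lit 532) (nat_lit 0) (XT.nd (nat_lit 78) (nat_lit 152) (nat_lit 0) (XT.lf (nat_lit 76) (nat_lit 10686105123) (nat_lit 0) (nat_lit 15032564783) (nat_lit 304) (nat_lit 10686105123) (nat_lit 227) (nat_lit 1) (nat_lit 226) (nat_lit 1) (nat_lit 230) (nat_lit 1) (nat_lit 255) (nat_lit 401) (nat_lit 364)) (XT.nd (nat_lit 78) (nat_lit 0) (nat_lit 0) (XT.lf (nat_lit 228) (nat_lit 12346146068) (nat_lit 0) (nat_lit 11695427763) (nat_lit 152) (nat_lit 11695427763) (nat_lit 227) (nat_lit 1) (nat_lit 224) (nat_lit 1) (nat_lit 226) (nat_lit 1) (nat_lit 256) (nat_lit 401) (nat_lit 363)) (XT.lf (nat_lit 76) (nat_lit 1773749316) (nat_lit 0) (nat_lit 31543890365) (nat_lit 228) (nat_lit 1773749316) (nat_lit 225) (nat_lit 1) (nat_lit 224) (nat_lit 1) (nat_lit 227) (nat_lit 1) (nat_lit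 257) (nat_lit 401) (nat_lit 362)))) (XT.nd (nat_lit 156) (nat_lit 152) (nat_lit 0) (XT.nd (nat_lit 78) (nat_lit 152) (nat_lit 0) (XT.lf (nat_lit 76) (nat_lit 14639064301) (nat_lit 0) (nat_lit 5169994646) (nat_lit 228) (nat_lit 14639064301) (nat_lit 222) (nat_lit 1) (nat_lit 221) (nat_lit 1) (nat_lit 224) (nat_lit 1) (nat_lit 258) (nat_lit 401) (nat_lit 361)) (XT.lf (nat_lit 228) (nat_lit 20328906498) (nat_lit 0) (nat_lit 6748646165) (nat_lit 152) (nat_lit 6748646165) (nat_lit 222) (nat_lit 1) (nat_lit 219) (nat_lit 1) (nat_lit 221) (nat_lit 1) (nat_lit 259) (nat_lit 401) (nat_lit 360))) (XT.nd (nat_lit 78) (nat_lit 152) (nat_lit 0) (XT.lf (nat_lit 76) (nat_lit 5736288533) (nat_lit 0) (nat_lit 21745443234) (nat_lit 228) (nat_lit 5736288533) (nat_lit 220) (nat_lit 1) (nat_lit 219) (nat_lit 1) (nat_lit 222) (nat_lit 1) (nat_lit 260) (nat_lit 401) (nat_lit 359)) (XT.lf (nat_lit 228) (nat_lit 2687244652)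 (nat_lit 0) (nat_lit 14967428215) (nat_lit 152) (nat_lit 14967428215) (nat_lit 220) (nat_lit 1) (nat_lit 217) (nat_lit 1) (nat_lit 219) (nat_lit 1) (nat_lit 261) (nat_lit 401) (nat_lit 358))))))) (XT.nd (nat_lit 936) (nat_lit 1064) (nat_lit 0) (XT.nd (nat_lit 468) (nat_lit 608) (nat_lit 0) (XT.nd (nat_lit 234) (nat_lit 304) (nat_lit 0) (XT.nd (nat_lit 78) (nat_lit 152) (nat_lit 0) (XT.lf (nat_lit 228) (nat_lit 26411976519) (nat_lit 0) (nat_lit 2815736284) (nat_lit 152) (nat_lit 2815736284) (nat_lit 217) (nat_lit 1) (nat_lit 214) (nat_lit 1) (nat_lit 216) (nat_lit 1) (nat_lit 262) (nat_lit 401) (nat_lit 357)) (XT.nd (nat_lit 78) (nat_lit 152) (nat_lit 0) (XT.lf (nat_lit 76) (nat_lit 8792611707) (nat_lit 0) (nat_lit 13884512407) (nat_lit 228) (nat_lit 8792611707) (nat_lit 215) (nat_lit 1) (nat_lit 214) (nat_lit 1) (nat_lit 217) (nat_lit 1) (nat_lit 263) (nat_lit 401) (nat_lit 356)) (XT.lf (nat_lit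 228) (nat_lit 8954848137) (nat_lit 0) (nat_lit 10978915055) (nat_lit 152) (nat_lit 10978915055) (nat_lit 215) (nat_lit 1) (nat_lit 212) (nat_lit 1) (nat_lit 214) (nat_lit 1) (nat_lit 264) (nat_lit 401) (nat_lit 355)))) (XT.nd (nat_lit 78) (nat_lit 304) (nat_lit 0) (XT.lf (nat_lit 76) (nat_lit 294321161) (nat_lit 0) (nat_lit 29786514387) (nat_lit 228) (nat_lit 294321161) (nat_lit 213) (nat_lit 1) (nat_lit 212) (nat_lit 1) (nat_lit 215) (nat_lit 1) (nat_lit 265) (nat_lit 401) (nat_lit 354)) (XT.nd (nat_lit 78) (nat_lit 152) (nat_lit 0) (XT.lf (nat_lit 76) (nat_lit 11113087158) (nat_lit 0) (nat_lit 7608044093) (nat_lit 152) (nat_lit 11113087158) (nat_lit 211) (nat_lit 1) (nat_lit 210) (nat_lit 1) (nat_lit 212) (nat_lit 1) (nat_lit 266) (nat_lit 401) (nat_lit 353)) (XT.lf (nat_lit 228) (nat_lit 13790076021) (nat_lit 0) (nat_lit 7761118510) (nat_lit 152) (nat_lit 7761118510) (nat_lit 211) (nat_lit 1)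 (nat_lit 208) (nat_lit 1) (nat_lit 210) (nat_lit 1) (nat_lit 267) (nat_lit 401) (nat_lit 352))))) (XT.nd (nat_lit 234) (nat_lit 304) (nat_lit 0) (XT.nd (nat_lit 78) (nat_lit 304) (nat_lit 0) (XT.lf (nat_lit 76) (nat_lit 2764814935) (nat_lit 0) (nat_lit 23274865352) (nat_lit 228) (nat_lit 2764814935) (nat_lit 209) (nat_lit 1) (nat_lit 208) (nat_lit 1) (nat_lit 211) (nat_lit 1) (nat_lit 268) (nat_lit 401) (nat_lit 351)) (XT.nd (nat_lit 78) (nat_lit 152) (nat_lit 0) (XT.lf (nat_lit 76) (nat_lit 12837415495) (nat_lit 0) (nat_lit 2626034203) (nat_lit 152) (nat_lit 12837415495) (nat_lit 207) (nat_lit 1) (nat_lit 206) (nat_lit 1) (nat_lit 208) (nat_lit 1) (nat_lit 269) (nat_lit 401) (nat_lit 350)) (XT.lf (nat_lit 228) (nat_lit 17462177571) (nat_lit 0) (nat_lit 5174365619) (nat_lit 152) (nat_lit 5174365619) (nat_lit 207) (nat_lit 1) (nat_lit 204) (nat_lit 1) (nat_lit 206) (nat_lit 1) (nat_lit 270) (nat_lit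 401) (nat_lit 349)))) (XT.nd (nat_lit 78) (nat_lit 304) (nat_lit 0) (XT.lf (nat_lit 76) (nat_lit 4677168840) (nat_lit 0) (nat_lit 17976314325) (nat_lit 228) (nat_lit 4677168840) (nat_lit 205) (nat_lit 1) (nat_lit 204) (nat_lit 1) (nat_lit 207) (nat_lit 1) (nat_lit 271) (nat_lit 401) (nat_lit 348)) (XT.nd (nat_lit 78) (nat_lit 228) (nat_lit 0) (XT.lf (nat_lit 152) (nat_lit 1342644848) (nat_lit 0) (nat_lit 12758406515) (nat_lit 76) (nat_lit 12758406515) (nat_lit 205) (nat_lit 1) (nat_lit 203) (nat_lit 1) (nat_lit 204) (nat_lit 1) (nat_lit 272) (nat_lit 401) (nat_lit 347)) (XT.lf (nat_lit 228) (nat_lit 20191936610) (nat_lit 0) (nat_lit 3103891223) (nat_lit 152) (nat_lit 3103891223) (nat_lit 203) (nat_lit 1) (nat_lit 200) (nat_lit 1) (nat_lit 202) (nat_lit 1) (nat_lit 273) (nat_lit 401) (nat_lit 346)))))) (XT.nd (nat_lit 468) (nat_lit 456) (nat_lit 0) (XT.nd (nat_lit 234) (nat_lit 304) (nat_lit 0)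 (XT.nd (nat_lit 78) (nat_lit 304) (nat_lit 0) (XT.lf (nat_lit 76) (nat_lit 6136060046) (nat_lit 0) (nat_lit 13672991616) (nat_lit 228) (nat_lit 6136060046) (nat_lit 201) (nat_lit 1) (nat_lit 200) (nat_lit 1) (nat_lit 203) (nat_lit 1) (nat_lit 274) (nat_lit 401) (nat_lit 345)) (XT.nd (nat_lit 78) (nat_lit 228) (nat_lit 0) (XT.lf (nat_lit 152) (nat_lit 4508905573) (nat_lit 0) (nat_lit 10496372614) (nat_lit 76) (nat_lit 10496372614) (nat_lit 201) (nat_lit 1) (nat_lit 199) (nat_lit 1) (nat_lit 200) (nat_lit 1) (nat_lit 275) (nat_lit 401) (nat_lit 344)) (XT.lf (nat_lit 228) (nat_lit 22160298988) (nat_lit 0) (nat_lit 1455415012) (nat_lit 152) (nat_lit 1455415012) (nat_lit 199) (nat_lit 1) (nat_lit 196) (nat_lit 1) (nat_lit 198) (nat_lit 1) (nat_lit 276) (nat_lit 401) (nat_lit 343)))) (XT.nd (nat_lit 78) (nat_lit 304) (nat_lit 0) (XT.lf (nat_lit 76) (nat_lit 7227334325) (nat_lit 0) (nat_lit 10185788167)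 (nat_lit 228) (nat_lit 7227334325) (nat_lit 197) (nat_lit 1) (nat_lit 196) (nat_lit 1) (nat_lit 199) (nat_lit 1) (nat_lit 277) (nat_lit 401) (nat_lit 342)) (XT.nd (nat_lit 78) (nat_lit 228) (nat_lit 0) (XT.lf (nat_lit 152) (nat_lit 6951686187) (nat_lit 0) (nat_lit 8635391726) (nat_lit 76) (nat_lit 8635391726) (nat_lit 197) (nat_lit 1) (nat_lit 195) (nat_lit 1) (nat_lit 196) (nat_lit 1) (nat_lit 278) (nat_lit 401) (nat_lit 341)) (XT.lf (nat_lit 228) (nat_lit 23515468789) (nat_lit 0) (nat_lit 151503076) (nat_lit 152) (nat_lit 151503076) (nat_lit 195) (nat_lit 1) (nat_lit 192) (nat_lit 1) (nat_lit 194) (nat_lit 1) (nat_lit 279) (nat_lit 401) (nat_lit 340))))) (XT.nd (nat_lit 234) (nat_lit 380) (nat_lit 0) (XT.nd (nat_lit 78) (nat_lit 76) (nat_lit 0) (XT.lf (nat_lit 76) (nat_lit 8021357778) (nat_lit 0) (nat_lit 7367477063) (nat_lit 228) (nat_lit 8021357778) (nat_lit 193) (nat_lit 1) (nat_lit 192) (nat_lit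 1) (nat_lit 195) (nat_lit 1) (nat_lit 280) (nat_lit 401) (nat_lit 339)) (XT.nd (nat_lit 78) (nat_lit 0) (nat_lit 0) (XT.lf (nat_lit 152) (nat_lit 8806977442) (nat_lit 0) (nat_lit 7104358144) (nat_lit 76) (nat_lit 7104358144) (nat_lit 193) (nat_lit 1) (nat_lit 191) (nat_lit 1) (nat_lit 192) (nat_lit 1) (nat_lit 281) (nat_lit 401) (nat_lit 338)) (XT.lf (nat_lit 0) (nat_lit 885710802) (nat_lit 0) (nat_lit 20861683815) (nat_lit 152) (nat_lit 885710802) (nat_lit 191) (nat_lit 3) (nat_lit 191) (nat_lit 1) (nat_lit 193) (nat_lit 1) (nat_lit 282) (nat_lit 401) (nat_lit 337)))) (XT.nd (nat_lit 156) (nat_lit 152) (nat_lit 0) (XT.nd (nat_lit 78) (nat_lit 76) (nat_lit 0) (XT.lf (nat_lit 76) (nat_lit 8575773698) (nat_lit 0) (nat_lit 5097054880) (nat_lit 152) (nat_lit 8575773698) (nat_lit 190) (nat_lit 1) (nat_lit 189) (nat_lit 1) (nat_lit 191) (nat_lit 1) (nat_lit 283) (nat_lit 401) (nat_lit 336)) (XT.lf (nat_lit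 152) (nat_lit 10186291672) (nat_lit 0) (nat_lit 5844773026) (nat_lit 76) (nat_lit 5844773026) (nat_lit 190) (nat_lit 1) (nat_lit 188) (nat_lit 1) (nat_lit 189) (nat_lit 1) (nat_lit 284) (nat_lit 401) (nat_lit 335))) (XT.nd (nat_lit 78) (nat_lit 152) (nat_lit 0) (XT.lf (nat_lit 0) (nat_lit 1692863202) (nat_lit 0) (nat_lit 18127145636) (nat_lit 152) (nat_lit 1692863202) (nat_lit 188) (nat_lit 3) (nat_lit 188) (nat_lit 1) (nat_lit 190) (nat_lit 1) (nat_lit 285) (nat_lit 401) (nat_lit 334)) (XT.lf (nat_lit 76) (nat_lit 8937770056) (nat_lit 0) (nat_lit 3275086585) (nat_lit 152) (nat_lit 8937770056) (nat_lit 187) (nat_lit 1) (nat_lit 186) (nat_lit 1) (nat_lit 188) (nat_lit 1) (nat_lit 286) (nat_lit 401) (nat_lit 333))))))))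
noncomputable def ec261 : XT := (XT.nd (nat_lit 1950) (nat_lit 1900) (nat_lit 0) (XT.nd (nat_lit 936) (nat_lit 1064) (nat_lit 0) (XT.nd (nat_lit 468) (nat_lit 380) (nat_lit 0) (XT.nd (nat_lit 234) (nat_lit 228) (nat_lit 0) (XT.nd (nat_lit 78) (nat_lit 152) (nat_lit 0) (XT.lf (nat_lit 152) (nat_lit 11181020259) (nat_lit 0) (nat_lit 4808509233) (nat_lit 76) (nat_lit 4808509233) (nat_lit 187) (nat_lit 1) (nat_lit 185) (nat_lit 1) (nat_lit 186) (nat_lit 1) (nat_lit 287) (nat_lit 401) (nat_lit 332)) (XT.nd (nat_lit 78) (nat_lit 152) (nat_lit 0) (XT.lf (nat_lit 0) (nat_lit 2310995825) (nat_lit 0) (nat_lit 15831520655) (nat_lit 152) (nat_lit 2310995825) (nat_lit 185) (nat_lit 3) (nat_lit 185) (nat_lit 1) (nat_lit 187) (nat_lit 1) (nat_lit 288) (nat_lit 401) (nat_lit 331)) (XT.lf (nat_lit 76) (nat_lit 9145944413) (nat_lit 0) (nat_lit 1819876049) (nat_lit 152) (nat_lit 9145944413) (nat_lit 184) (nat_lit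 1) (nat_lit 183) (nat_lit 1) (nat_lit 185) (nat_lit 1) (nat_lit 289) (nat_lit 401) (nat_lit 330)))) (XT.nd (nat_lit 78) (nat_lit 152) (nat_lit 0) (XT.lf (nat_lit 152) (nat_lit 11866017696) (nat_lit 0) (nat_lit 3955972446) (nat_lit 76) (nat_lit 3955972446) (nat_lit 184) (nat_lit 1) (nat_lit 182) (nat_lit 1) (nat_lit 183) (nat_lit 1) (nat_lit 290) (nat_lit 401) (nat_lit 329)) (XT.nd (nat_lit 78) (nat_lit 152) (nat_lit 0) (XT.lf (nat_lit 0) (nat_lit 2775807774) (nat_lit 0) (nat_lit 13899177012) (nat_lit 152) (nat_lit 2775807774) (nat_lit 182) (nat_lit 3) (nat_lit 182) (nat_lit 1) (nat_lit 184) (nat_lit 1) (nat_lit 291) (nat_lit 401) (nat_lit 328)) (XT.lf (nat_lit 76) (nat_lit 9231837644) (nat_lit 0) (nat_lit 664315777) (nat_lit 152) (nat_lit 9231837644) (nat_lit 181) (nat_lit 1) (nat_lit 180) (nat_lit 1) (nat_lit 182) (nat_lit 1) (nat_lit 292) (nat_lit 401) (nat_lit 327))))) (XT.nd (nat_lit 234) (nat_lit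 228) (nat_lit 0) (XT.nd (nat_lit 78) (nat_lit 76) (nat_lit 0) (XT.lf (nat_lit 152) (nat_lit 12302549418) (nat_lit 0) (nat_lit 3254588322) (nat_lit 76) (nat_lit 3254588322) (nat_lit 181) (nat_lit 1) (nat_lit 179) (nat_lit 1) (nat_lit 180) (nat_lit 1) (nat_lit 293) (nat_lit 401) (nat_lit 326)) (XT.nd (nat_lit 78) (nat_lit 76) (nat_lit 0) (XT.lf (nat_lit 0) (nat_lit 3116564677) (nat_lit 0) (nat_lit 12267788077) (nat_lit 152) (nat_lit 3116564677) (nat_lit 179) (nat_lit 3) (nat_lit 179) (nat_lit 1) (nat_lit 181) (nat_lit 1) (nat_lit 294) (nat_lit 401) (nat_lit 325)) (XT.lf (nat_lit 76) (nat_lit 254861744) (nat_lit 0) (nat_lit 8970312602) (nat_lit 76) (nat_lit 8970312602) (nat_lit 179) (nat_lit 3) (nat_lit 178) (nat_lit 1) (nat_lit 179) (nat_lit 1) (nat_lit 295) (nat_lit 401) (nat_lit 324)))) (XT.nd (nat_lit 78) (nat_lit 76) (nat_lit 0) (XT.lf (nat_lit 152) (nat_lit 12540716227) (nat_lit 0) (nat_lit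 2677557867) (nat_lit 76) (nat_lit 2677557867) (nat_lit 178) (nat_lit 1) (nat_lit 176) (nat_lit 1) (nat_lit 177) (nat_lit 1) (nat_lit 296) (nat_lit 401) (nat_lit 323)) (XT.nd (nat_lit 78) (nat_lit 76) (nat_lit 0) (XT.lf (nat_lit 0) (nat_lit 3357244284) (nat_lit 0) (nat_lit 10885978423) (nat_lit 152) (nat_lit 3357244284) (nat_lit 176) (nat_lit 3) (nat_lit 176) (nat_lit 1) (nat_lit 178) (nat_lit 1) (nat_lit 297) (nat_lit 401) (nat_lit 322)) (XT.lf (nat_lit 76) (nat_lit 990120025) (nat_lit 0) (nat_lit 8160343014) (nat_lit 76) (nat_lit 8160343014) (nat_lit 176) (nat_lit 3) (nat_lit 175) (nat_lit 1) (nat_lit 176) (nat_lit 1) (nat_lit 298) (nat_lit 401) (nat_lit 321)))))) (XT.nd (nat_lit 468) (nat_lit 608) (nat_lit 0) (XT.nd (nat_lit 234) (nat_lit 228) (nat_lit 0) (XT.nd (nat_lit 78) (nat_lit 76) (nat_lit 0) (XT.lf (nat_lit 152) (nat_lit 12621448156) (nat_lit 0) (nat_lit 2202833483) (nat_lit 76) (nat_lit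 2202833483) (nat_lit 175) (nat_lit 1) (nat_lit 173) (nat_lit 1) (nat_lit 174) (nat_lit 1) (nat_lit 299) (nat_lit 401) (nat_lit 320)) (XT.nd (nat_lit 78) (nat_lit 76) (nat_lit 0) (XT.lf (nat_lit 0) (nat_lit 3517478715) (nat_lit 0) (nat_lit 9711386923) (nat_lit 152) (nat_lit 3517478715) (nat_lit 173) (nat_lit 3) (nat_lit 173) (nat_lit 1) (nat_lit 175) (nat_lit 1) (nat_lit 300) (nat_lit 401) (nat_lit 319)) (XT.lf (nat_lit 76) (nat_lit 1557854801) (nat_lit 0) (nat_lit 7456814999) (nat_lit 76) (nat_lit 7456814999) (nat_lit 173) (nat_lit 3) (nat_lit 172) (nat_lit 1) (nat_lit 173) (nat_lit 1) (nat_lit 301) (nat_lit 401) (nat_lit 318)))) (XT.nd (nat_lit 78) (nat_lit 76) (nat_lit 0) (XT.lf (nat_lit 152) (nat_lit 12578144139) (nat_lit 0) (nat_lit 1812276558) (nat_lit 76) (nat_lit 1812276558) (nat_lit 172) (nat_lit 1) (nat_lit 170) (nat_lit 1) (nat_lit 171) (nat_lit 1) (nat_lit 302) (nat_lit 401) (nat_lit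 317)) (XT.nd (nat_lit 78) (nat_lit 76) (nat_lit 0) (XT.lf (nat_lit 0) (nat_lit 3613329429) (nat_lit 0) (nat_lit 8709073041) (nat_lit 152) (nat_lit 3613329429) (nat_lit 170) (nat_lit 3) (nat_lit 170) (nat_lit 1) (nat_lit 172) (nat_lit 1) (nat_lit 303) (nat_lit 401) (nat_lit 316)) (XT.lf (nat_lit 76) (nat_lit 1989537292) (nat_lit 0) (nat_lit 6842626446) (nat_lit 76) (nat_lit 6842626446) (nat_lit 170) (nat_lit 3) (nat_lit 169) (nat_lit 1) (nat_lit 170) (nat_lit 1) (nat_lit 304) (nat_lit 401) (nat_lit 315))))) (XT.nd (nat_lit 234) (nat_lit 380) (nat_lit 0) (XT.nd (nat_lit 78) (nat_lit 76) (nat_lit 0) (XT.lf (nat_lit 152) (nat_lit 12438020316) (nat_lit 0) (nat_lit 1490964409) (nat_lit 76) (nat_lit 1490964409) (nat_lit 169) (nat_lit 1) (nat_lit 167) (nat_lit 1) (nat_lit 168) (nat_lit 1) (nat_lit 305) (nat_lit 401) (nat_lit 314)) (XT.nd (nat_lit 78) (nat_lit 76) (nat_lit 0) (XT.lf (nat_lit 0) (nat_lit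 3657924574) (nat_lit 0) (nat_lit 7850205454) (nat_lit 152) (nat_lit 3657924574) (nat_lit 167) (nat_lit 3) (nat_lit 167) (nat_lit 1) (nat_lit 169) (nat_lit 1) (nat_lit 306) (nat_lit 401) (nat_lit 313)) (XT.lf (nat_lit 76) (nat_lit 2310974675) (nat_lit 0) (nat_lit 6303623132) (nat_lit 76) (nat_lit 6303623132) (nat_lit 167) (nat_lit 3) (nat_lit 166) (nat_lit 1) (nat_lit 167) (nat_lit 1) (nat_lit 307) (nat_lit 401) (nat_lit 312)))) (XT.nd (nat_lit 156) (nat_lit 228) (nat_lit 0) (XT.nd (nat_lit 78) (nat_lit 0) (nat_lit 0) (XT.lf (nat_lit 152) (nat_lit 12223218672) (nat_lit 0) (nat_lit 1226620109) (nat_lit 76) (nat_lit 1226620109) (nat_lit 166) (nat_lit 1) (nat_lit 164) (nat_lit 1) (nat_lit 165) (nat_lit 1) (nat_lit 308) (nat_lit 401) (nat_lit 311)) (XT.lf (nat_lit 0) (nat_lit 3661983132) (nat_lit 0) (nat_lit 7110982987) (nat_lit 152) (nat_lit 3661983132) (nat_lit 164) (nat_lit 3) (nat_lit 164) (nat_lit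 1) (nat_lit 166) (nat_lit 1) (nat_lit 309) (nat_lit 401) (nat_lit 310))) (XT.nd (nat_lit 78) (nat_lit 152) (nat_lit 0) (XT.lf (nat_lit 76) (nat_lit 2543318319) (nat_lit 0) (nat_lit 5828080085) (nat_lit 76) (nat_lit 5828080085) (nat_lit 164) (nat_lit 3) (nat_lit 163) (nat_lit 1) (nat_lit 164) (nat_lit 1) (nat_lit 310) (nat_lit 401) (nat_lit 309)) (XT.lf (nat_lit 152) (nat_lit 11951718515) (nat_lit 0) (nat_lit 1009143399) (nat_lit 76) (nat_lit 1009143399) (nat_lit 163) (nat_lit 1) (nat_lit 161) (nat_lit 1) (nat_lit 162) (nat_lit 1) (nat_lit 311) (nat_lit 401) (nat_lit 308))))))) (XT.nd (nat_lit 1014) (nat_lit 988) (nat_lit 0) (XT.nd (nat_lit 468) (nat_lit 456) (nat_lit 0) (XT.nd (nat_lit 234) (nat_lit 228) (nat_lit 0) (XT.nd (nat_lit 78) (nat_lit 228) (nat_lit 0) (XT.lf (nat_lit 0) (nat_lit 3634245951) (nat_lit 0) (nat_lit 6471746667) (nat_lit 152) (nat_lit 3634245951) (nat_lit 161) (nat_lit 3) (nat_lit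 161) (nat_lit 1) (nat_lit 163) (nat_lit 1) (nat_lit 312) (nat_lit 401) (nat_lit 307)) (XT.nd (nat_lit 78) (nat_lit 152) (nat_lit 0) (XT.lf (nat_lit 76) (nat_lit 2703893069) (nat_lit 0) (nat_lit 5406274704) (nat_lit 76) (nat_lit 5406274704) (nat_lit 161) (nat_lit 3) (nat_lit 160) (nat_lit 1) (nat_lit 161) (nat_lit 1) (nat_lit 313) (nat_lit 401) (nat_lit 306)) (XT.lf (nat_lit 152) (nat_lit 11638085793) (nat_lit 0) (nat_lit 830224772) (nat_lit 76) (nat_lit 830224772) (nat_lit 160) (nat_lit 1) (nat_lit 158) (nat_lit 1) (nat_lit 159) (nat_lit 1) (nat_lit 314) (nat_lit 401) (nat_lit 305)))) (XT.nd (nat_lit 78) (nat_lit 228) (nat_lit 0) (XT.lf (nat_lit 0) (nat_lit 3581830152) (nat_lit 0) (nat_lit 5916249013) (nat_lit 152) (nat_lit 3581830152) (nat_lit 158) (nat_lit 3) (nat_lit 158) (nat_lit 1) (nat_lit 160) (nat_lit 1) (nat_lit 315) (nat_lit 401) (nat_lit 304)) (XT.nd (nat_lit 78) (nat_lit 152) (nat_lit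 0) (XT.lf (nat_lit 76) (nat_lit 2806879324) (nat_lit 0) (nat_lit 5030135383) (nat_lit 76) (nat_lit 5030135383) (nat_lit 158) (nat_lit 3) (nat_lit 157) (nat_lit 1) (nat_lit 158) (nat_lit 1) (nat_lit 316) (nat_lit 401) (nat_lit 303)) (XT.lf (nat_lit 152) (nat_lit 11294089025) (nat_lit 0) (nat_lit 683027974) (nat_lit 76) (nat_lit 683027974) (nat_lit 157) (nat_lit 1) (nat_lit 155) (nat_lit 1) (nat_lit 156) (nat_lit 1) (nat_lit 317) (nat_lit 401) (nat_lit 302))))) (XT.nd (nat_lit 234) (nat_lit 228) (nat_lit 0) (XT.nd (nat_lit 78) (nat_lit 228) (nat_lit 0) (XT.lf (nat_lit 0) (nat_lit 3510520544) (nat_lit 0) (nat_lit 5431052718) (nat_lit 152) (nat_lit 3510520544) (nat_lit 155) (nat_lit 3) (nat_lit 155) (nat_lit 1) (nat_lit 157) (nat_lit 1) (nat_lit 318) (nat_lit 401) (nat_lit 301)) (XT.nd (nat_lit 78) (nat_lit 152) (nat_lit 0) (XT.lf (nat_lit 76) (nat_lit 2863873999) (nat_lit 0) (nat_lit 4692952260) (nat_lit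 76) (nat_lit 4692952260) (nat_lit 155) (nat_lit 3) (nat_lit 154) (nat_lit 1) (nat_lit 155) (nat_lit 1) (nat_lit 319) (nat_lit 401) (nat_lit 300)) (XT.lf (nat_lit 152) (nat_lit 10929205507) (nat_lit 0) (nat_lit 561928805) (nat_lit 76) (nat_lit 561928805) (nat_lit 154) (nat_lit 1) (nat_lit 152) (nat_lit 1) (nat_lit 153) (nat_lit 1) (nat_lit 320) (nat_lit 401) (nat_lit 299)))) (XT.nd (nat_lit 156) (nat_lit 152) (nat_lit 0) (XT.nd (nat_lit 78) (nat_lit 76) (nat_lit 0) (XT.lf (nat_lit 0) (nat_lit 3425009190) (nat_lit 0) (nat_lit 5005035763) (nat_lit 152) (nat_lit 3425009190) (nat_lit 152) (nat_lit 3) (nat_lit 152) (nat_lit 1) (nat_lit 154) (nat_lit 1) (nat_lit 321) (nat_lit 401) (nat_lit 298)) (XT.lf (nat_lit 76) (nat_lit 2884351877) (nat_lit 0) (nat_lit 4389139089) (nat_lit 76) (nat_lit 4389139089) (nat_lit 152) (nat_lit 3) (nat_lit 151) (nat_lit 1) (nat_lit 152) (nat_lit 1) (nat_lit 322) (nat_lit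 401) (nat_lit 297))) (XT.nd (nat_lit 78) (nat_lit 0) (nat_lit 0) (XT.lf (nat_lit 152) (nat_lit 10551037290) (nat_lit 0) (nat_lit 462300218) (nat_lit 76) (nat_lit 462300218) (nat_lit 151) (nat_lit 1) (nat_lit 149) (nat_lit 1) (nat_lit 150) (nat_lit 1) (nat_lit 323) (nat_lit 401) (nat_lit 296)) (XT.lf (nat_lit 0) (nat_lit 3329092347) (nat_lit 0) (nat_lit 4628984119) (nat_lit 152) (nat_lit 3329092347) (nat_lit 149) (nat_lit 3) (nat_lit 149) (nat_lit 1) (nat_lit 151) (nat_lit 1) (nat_lit 324) (nat_lit 401) (nat_lit 295)))))) (XT.nd (nat_lit 468) (nat_lit 532) (nat_lit 0) (XT.nd (nat_lit 234) (nat_lit 228) (nat_lit 0) (XT.nd (nat_lit 78) (nat_lit 152) (nat_lit 0) (XT.lf (nat_lit 76) (nat_lit 2876044999) (nat_lit 0) (nat_lit 4114037162) (nat_lit 76) (nat_lit 4114037162) (nat_lit 149) (nat_lit 3) (nat_lit 148) (nat_lit 1) (nat_lit 149) (nat_lit 1) (nat_lit 325) (nat_lit 401) (nat_lit 294)) (XT.nd (nat_lit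 78) (nat_lit 0) (nat_lit 0) (XT.lf (nat_lit 152) (nat_lit 10165652940) (nat_lit 0) (nat_lit 380335534) (nat_lit 76) (nat_lit 380335534) (nat_lit 148) (nat_lit 1) (nat_lit 146) (nat_lit 1) (nat_lit 147) (nat_lit 1) (nat_lit 326) (nat_lit 401) (nat_lit 293)) (XT.lf (nat_lit 0) (nat_lit 3225832332) (nat_lit 0) (nat_lit 4295256510) (nat_lit 152) (nat_lit 3225832332) (nat_lit 146) (nat_lit 3) (nat_lit 146) (nat_lit 1) (nat_lit 148) (nat_lit 1) (nat_lit 327) (nat_lit 401) (nat_lit 292)))) (XT.nd (nat_lit 78) (nat_lit 152) (nat_lit 0) (XT.lf (nat_lit 76) (nat_lit 2845254644) (nat_lit 0) (nat_lit 3863753861) (nat_lit 76) (nat_lit 3863753861) (nat_lit 146) (nat_lit 3) (nat_lit 145) (nat_lit 1) (nat_lit 146) (nat_lit 1) (nat_lit 328) (nat_lit 401) (nat_lit 291)) (XT.nd (nat_lit 78) (nat_lit 0) (nat_lit 0) (XT.lf (nat_lit 152) (nat_lit 9777868260) (nat_lit 0) (nat_lit 312902985) (nat_lit 76) (nat_lit 312902985)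 (nat_lit 145) (nat_lit 1) (nat_lit 143) (nat_lit 1) (nat_lit 144) (nat_lit 1) (nat_lit 329) (nat_lit 401) (nat_lit 290)) (XT.lf (nat_lit 0) (nat_lit 3117690547) (nat_lit 0) (nat_lit 3997508465) (nat_lit 152) (nat_lit 3117690547) (nat_lit 143) (nat_lit 3) (nat_lit 143) (nat_lit 1) (nat_lit 145) (nat_lit 1) (nat_lit 330) (nat_lit 401) (nat_lit 289))))) (XT.nd (nat_lit 234) (nat_lit 304) (nat_lit 0) (XT.nd (nat_lit 78) (nat_lit 152) (nat_lit 0) (XT.lf (nat_lit 76) (nat_lit 2797107853) (nat_lit 0) (nat_lit 3635029679) (nat_lit 76) (nat_lit 3635029679) (nat_lit 143) (nat_lit 3) (nat_lit 142) (nat_lit 1) (nat_lit 143) (nat_lit 1) (nat_lit 331) (nat_lit 401) (nat_lit 288)) (XT.nd (nat_lit 78) (nat_lit 0) (nat_lit 0) (XT.lf (nat_lit 152) (nat_lit 9391476823) (nat_lit 0) (nat_lit 257426060) (nat_lit 76) (nat_lit 257426060) (nat_lit 142) (nat_lit 1) (nat_lit 140) (nat_lit 1) (nat_lit 141) (nat_lit 1) (nat_lit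 332) (nat_lit 401) (nat_lit 287)) (XT.lf (nat_lit 0) (nat_lit 3006636781) (nat_lit 0) (nat_lit 3730465159) (nat_lit 152) (nat_lit 3006636781) (nat_lit 140) (nat_lit 3) (nat_lit 140) (nat_lit 1) (nat_lit 142) (nat_lit 1) (nat_lit 333) (nat_lit 401) (nat_lit 286)))) (XT.nd (nat_lit 156) (nat_lit 76) (nat_lit 0) (XT.nd (nat_lit 78) (nat_lit 152) (nat_lit 0) (XT.lf (nat_lit 76) (nat_lit 2735768329) (nat_lit 0) (nat_lit 3425128689) (nat_lit 76) (nat_lit 3425128689) (nat_lit 140) (nat_lit 3) (nat_lit 139) (nat_lit 1) (nat_lit 140) (nat_lit 1) (nat_lit 334) (nat_lit 401) (nat_lit 285)) (XT.lf (nat_lit 152) (nat_lit 9009439232) (nat_lit 0) (nat_lit 211785056) (nat_lit 76) (nat_lit 211785056) (nat_lit 139) (nat_lit 1) (nat_lit 137) (nat_lit 1) (nat_lit 138) (nat_lit 1) (nat_lit 335) (nat_lit 401) (nat_lit 284))) (XT.nd (nat_lit 78) (nat_lit 76) (nat_lit 0) (XT.lf (nat_lit 0) (nat_lit 2894238998) (nat_lit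 0) (nat_lit 3489734396) (nat_lit 152) (nat_lit 2894238998) (nat_lit 137) (nat_lit 3) (nat_lit 137) (nat_lit 1) (nat_lit 139) (nat_lit 1) (nat_lit 336) (nat_lit 401) (nat_lit 283)) (XT.lf (nat_lit 76) (nat_lit 2664609829) (nat_lit 0) (nat_lit 3231748303) (nat_lit 76) (nat_lit 3231748303) (nat_lit 137) (nat_lit 3) (nat_lit 136) (nat_lit 1) (nat_lit 137) (nat_lit 1) (nat_lit 337) (nat_lit 401) (nat_lit 282))))))))
noncomputable def ec262 : XT := (XT.nd (nat_lit 1950) (nat_lit 1824) (nat_lit 0) (XT.nd (nat_lit 936) (nat_lit 1064) (nat_lit 0) (XT.nd (nat_lit 468) (nat_lit 456) (nat_lit 0) (XT.nd (nat_lit 234) (nat_lit 228) (nat_lit 0) (XT.nd (nat_lit 78) (nat_lit 76) (nat_lit 0) (XT.lf (nat_lit 152) (nat_lit 8634038436) (nat_lit 0) (nat_lit 174236090) (nat_lit 76) (nat_lit 174236090) (nat_lit 136) (nat_lit 1) (nat_lit 134) (nat_lit 1) (nat_lit 135) (nat_lit 1) (nat_lit 338) (nat_lit 401) (nat_lit 281))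 (XT.nd (nat_lit 78) (nat_lit 76) (nat_lit 0) (XT.lf (nat_lit 0) (nat_lit 2781737089) (nat_lit 0) (nat_lit 3271652626) (nat_lit 152) (nat_lit 2781737089) (nat_lit 134) (nat_lit 3) (nat_lit 134) (nat_lit 1) (nat_lit 136) (nat_lit 1) (nat_lit 339) (nat_lit 401) (nat_lit 280)) (XT.lf (nat_lit 76) (nat_lit 2586358676) (nat_lit 0) (nat_lit 3052944902) (nat_lit 76) (nat_lit 3052944902) (nat_lit 134) (nat_lit 3) (nat_lit 133) (nat_lit 1) (nat_lit 134) (nat_lit 1) (nat_lit 340) (nat_lit 401) (nat_lit 279)))) (XT.nd (nat_lit 78) (nat_lit 76) (nat_lit 0) (XT.lf (nat_lit 152) (nat_lit 8267007153) (nat_lit 0) (nat_lit 143344462) (nat_lit 76) (nat_lit 143344462) (nat_lit 133) (nat_lit 1) (nat_lit 131) (nat_lit 1) (nat_lit 132) (nat_lit 1) (nat_lit 341) (nat_lit 401) (nat_lit 278)) (XT.nd (nat_lit 78) (nat_lit 76) (nat_lit 0) (XT.lf (nat_lit 0) (nat_lit 2670103418) (nat_lit 0) (nat_lit 3073158144) (nat_lit 152)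 (nat_lit 2670103418) (nat_lit 131) (nat_lit 3) (nat_lit 131) (nat_lit 1) (nat_lit 133) (nat_lit 1) (nat_lit 342) (nat_lit 401) (nat_lit 277)) (XT.lf (nat_lit 76) (nat_lit 2503210898) (nat_lit 0) (nat_lit 2887072541) (nat_lit 76) (nat_lit 2887072541) (nat_lit 131) (nat_lit 3) (nat_lit 130) (nat_lit 1) (nat_lit 131) (nat_lit 1) (nat_lit 343) (nat_lit 401) (nat_lit 276))))) (XT.nd (nat_lit 234) (nat_lit 228) (nat_lit 0) (XT.nd (nat_lit 78) (nat_lit 76) (nat_lit 0) (XT.lf (nat_lit 152) (nat_lit 7909632354) (nat_lit 0) (nat_lit 117929844) (nat_lit 76) (nat_lit 117929844) (nat_lit 130) (nat_lit 1) (nat_lit 128) (nat_lit 1) (nat_lit 129) (nat_lit 1) (nat_lit 344) (nat_lit 401) (nat_lit 275)) (XT.nd (nat_lit 78) (nat_lit 76) (nat_lit 0) (XT.lf (nat_lit 0) (nat_lit 2560092529) (nat_lit 0) (nat_lit 2891686649) (nat_lit 152) (nat_lit 2560092529) (nat_lit 128) (nat_lit 3) (nat_lit 128) (nat_lit 1) (nat_lit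 130) (nat_lit 1) (nat_lit 345) (nat_lit 401) (nat_lit 274)) (XT.lf (nat_lit 76) (nat_lit 2416928481) (nat_lit 0) (nat_lit 2732732405) (nat_lit 76) (nat_lit 2732732405) (nat_lit 128) (nat_lit 3) (nat_lit 127) (nat_lit 1) (nat_lit 128) (nat_lit 1) (nat_lit 346) (nat_lit 401) (nat_lit 273)))) (XT.nd (nat_lit 78) (nat_lit 76) (nat_lit 0) (XT.lf (nat_lit 152) (nat_lit 7562840883) (nat_lit 0) (nat_lit 97021174) (nat_lit 76) (nat_lit 97021174) (nat_lit 127) (nat_lit 1) (nat_lit 125) (nat_lit 1) (nat_lit 126) (nat_lit 1) (nat_lit 347) (nat_lit 401) (nat_lit 272)) (XT.nd (nat_lit 78) (nat_lit 76) (nat_lit 0) (XT.lf (nat_lit 0) (nat_lit 2452281925) (nat_lit 0) (nat_lit 2725085228) (nat_lit 152) (nat_lit 2452281925) (nat_lit 125) (nat_lit 3) (nat_lit 125) (nat_lit 1) (nat_lit 127) (nat_lit 1) (nat_lit 348) (nat_lit 401) (nat_lit 271)) (XT.lf (nat_lit 76) (nat_lit 2328918452) (nat_lit 0) (nat_lit 2588731122)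 (nat_lit 76) (nat_lit 2588731122) (nat_lit 125) (nat_lit 3) (nat_lit 124) (nat_lit 1) (nat_lit 125) (nat_lit 1) (nat_lit 349) (nat_lit 401) (nat_lit 270)))))) (XT.nd (nat_lit 468) (nat_lit 608) (nat_lit 0) (XT.nd (nat_lit 234) (nat_lit 228) (nat_lit 0) (XT.nd (nat_lit 78) (nat_lit 76) (nat_lit 0) (XT.lf (nat_lit 152) (nat_lit 7227269597) (nat_lit 0) (nat_lit 79819560) (nat_lit 76) (nat_lit 79819560) (nat_lit 124) (nat_lit 1) (nat_lit 122) (nat_lit 1) (nat_lit 123) (nat_lit 1) (nat_lit 350) (nat_lit 401) (nat_lit 269)) (XT.nd (nat_lit 78) (nat_lit 76) (nat_lit 0) (XT.lf (nat_lit 0) (nat_lit 2347105519) (nat_lit 0) (nat_lit 2571541472) (nat_lit 152) (nat_lit 2347105519) (nat_lit 122) (nat_lit 3) (nat_lit 122) (nat_lit 1) (nat_lit 124) (nat_lit 1) (nat_lit 351) (nat_lit 401) (nat_lit 268)) (XT.lf (nat_lit 76) (nat_lit 2240297841) (nat_lit 0) (nat_lit 2454046367) (nat_lit 76) (nat_lit 2454046367) (nat_lit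 122) (nat_lit 3) (nat_lit 121) (nat_lit 1) (nat_lit 122) (nat_lit 1) (nat_lit 352) (nat_lit 401) (nat_lit 267)))) (XT.nd (nat_lit 78) (nat_lit 76) (nat_lit 0) (XT.lf (nat_lit 152) (nat_lit 6903322761) (nat_lit 0) (nat_lit 65667750) (nat_lit 76) (nat_lit 65667750) (nat_lit 121) (nat_lit 1) (nat_lit 119) (nat_lit 1) (nat_lit 120) (nat_lit 1) (nat_lit 353) (nat_lit 401) (nat_lit 266)) (XT.nd (nat_lit 78) (nat_lit 76) (nat_lit 0) (XT.lf (nat_lit 0) (nat_lit 2244881053) (nat_lit 0) (nat_lit 2429525066) (nat_lit 152) (nat_lit 2244881053) (nat_lit 119) (nat_lit 3) (nat_lit 119) (nat_lit 1) (nat_lit 121) (nat_lit 1) (nat_lit 354) (nat_lit 401) (nat_lit 265)) (XT.lf (nat_lit 76) (nat_lit 2151947022) (nat_lit 0) (nat_lit 2327798464) (nat_lit 76) (nat_lit 2327798464) (nat_lit 119) (nat_lit 3) (nat_lit 118) (nat_lit 1) (nat_lit 119) (nat_lit 1) (nat_lit 355) (nat_lit 401) (nat_lit 264))))) (XT.nd (nat_lit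 234) (nat_lit 380) (nat_lit 0) (XT.nd (nat_lit 78) (nat_lit 76) (nat_lit 0) (XT.lf (nat_lit 152) (nat_lit 6591218985) (nat_lit 0) (nat_lit 54025020) (nat_lit 76) (nat_lit 54025020) (nat_lit 118) (nat_lit 1) (nat_lit 116) (nat_lit 1) (nat_lit 117) (nat_lit 1) (nat_lit 356) (nat_lit 401) (nat_lit 263)) (XT.nd (nat_lit 78) (nat_lit 76) (nat_lit 0) (XT.lf (nat_lit 0) (nat_lit 2145832563) (nat_lit 0) (nat_lit 2297739650) (nat_lit 152) (nat_lit 2145832563) (nat_lit 116) (nat_lit 3) (nat_lit 116) (nat_lit 1) (nat_lit 118) (nat_lit 1) (nat_lit 357) (nat_lit 401) (nat_lit 262)) (XT.lf (nat_lit 76) (nat_lit 2064553517) (nat_lit 0) (nat_lit 2209226933) (nat_lit 76) (nat_lit 2209226933) (nat_lit 116) (nat_lit 3) (nat_lit 115) (nat_lit 1) (nat_lit 116) (nat_lit 1) (nat_lit 358) (nat_lit 401) (nat_lit 261)))) (XT.nd (nat_lit 156) (nat_lit 228) (nat_lit 0) (XT.nd (nat_lit 78) (nat_lit 0) (nat_lit 0) (XT.lf (nat_lit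 152) (nat_lit 6291029565) (nat_lit 0) (nat_lit 44446518) (nat_lit 76) (nat_lit 44446518) (nat_lit 115) (nat_lit 1) (nat_lit 113) (nat_lit 1) (nat_lit 114) (nat_lit 1) (nat_lit 359) (nat_lit 401) (nat_lit 260)) (XT.lf (nat_lit 0) (nat_lit 2050108775) (nat_lit 0) (nat_lit 2175083111) (nat_lit 152) (nat_lit 2050108775) (nat_lit 113) (nat_lit 3) (nat_lit 113) (nat_lit 1) (nat_lit 115) (nat_lit 1) (nat_lit 360) (nat_lit 401) (nat_lit 259))) (XT.nd (nat_lit 78) (nat_lit 152) (nat_lit 0) (XT.lf (nat_lit 76) (nat_lit 1978647931) (nat_lit 0) (nat_lit 2097671108) (nat_lit 76) (nat_lit 2097671108) (nat_lit 113) (nat_lit 3) (nat_lit 112) (nat_lit 1) (nat_lit 113) (nat_lit 1) (nat_lit 361) (nat_lit 401) (nat_lit 258)) (XT.lf (nat_lit 152) (nat_lit 6002709778) (nat_lit 0) (nat_lit 36566260) (nat_lit 76) (nat_lit 36566260) (nat_lit 112) (nat_lit 1) (nat_lit 110) (nat_lit 1) (nat_lit 111) (nat_lit 1) (nat_lit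 362) (nat_lit 401) (nat_lit 257))))))) (XT.nd (nat_lit 936) (nat_lit 912) (nat_lit 0) (XT.nd (nat_lit 468) (nat_lit 456) (nat_lit 0) (XT.nd (nat_lit 234) (nat_lit 228) (nat_lit 0) (XT.nd (nat_lit 78) (nat_lit 228) (nat_lit 0) (XT.lf (nat_lit 0) (nat_lit 1957798148) (nat_lit 0) (nat_lit 2060614844) (nat_lit 152) (nat_lit 1957798148) (nat_lit 110) (nat_lit 3) (nat_lit 110) (nat_lit 1) (nat_lit 112) (nat_lit 1) (nat_lit 363) (nat_lit 401) (nat_lit 256)) (XT.nd (nat_lit 78) (nat_lit 152) (nat_lit 0) (XT.lf (nat_lit 76) (nat_lit 1894633448) (nat_lit 0) (nat_lit 1992554111) (nat_lit 76) (nat_lit 1992554111) (nat_lit 110) (nat_lit 3) (nat_lit 109) (nat_lit 1) (nat_lit 110) (nat_lit 1) (nat_lit 364) (nat_lit 401) (nat_lit 255)) (XT.lf (nat_lit 152) (nat_lit 5726124366) (nat_lit 0) (nat_lit 30083152) (nat_lit 76) (nat_lit 30083152) (nat_lit 109) (nat_lit 1) (nat_lit 107) (nat_lit 1) (nat_lit 108) (nat_lit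 1) (nat_lit 365) (nat_lit 401) (nat_lit 254)))) (XT.nd (nat_lit 78) (nat_lit 228) (nat_lit 0) (XT.lf (nat_lit 0) (nat_lit 1868941177) (nat_lit 0) (nat_lit 1953528727) (nat_lit 152) (nat_lit 1868941177) (nat_lit 107) (nat_lit 3) (nat_lit 107) (nat_lit 1) (nat_lit 109) (nat_lit 1) (nat_lit 366) (nat_lit 401) (nat_lit 253)) (XT.nd (nat_lit 78) (nat_lit 152) (nat_lit 0) (XT.lf (nat_lit 76) (nat_lit 1812810006) (nat_lit 0) (nat_lit 1893369577) (nat_lit 76) (nat_lit 1893369577) (nat_lit 107) (nat_lit 3) (nat_lit 106) (nat_lit 1) (nat_lit 107) (nat_lit 1) (nat_lit 367) (nat_lit 401) (nat_lit 252)) (XT.lf (nat_lit 152) (nat_lit 5461068284) (nat_lit 0) (nat_lit 24749484) (nat_lit 76) (nat_lit 24749484) (nat_lit 106) (nat_lit 1) (nat_lit 104) (nat_lit 1) (nat_lit 105) (nat_lit 1) (nat_lit 368) (nat_lit 401) (nat_lit 251))))) (XT.nd (nat_lit 234) (nat_lit 228) (nat_lit 0) (XT.nd (nat_lit 78) (nat_lit 228)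 (nat_lit 0) (XT.lf (nat_lit 0) (nat_lit 1783540432) (nat_lit 0) (nat_lit 1853130819) (nat_lit 152) (nat_lit 1783540432) (nat_lit 104) (nat_lit 3) (nat_lit 104) (nat_lit 1) (nat_lit 106) (nat_lit 1) (nat_lit 369) (nat_lit 401) (nat_lit 250)) (XT.nd (nat_lit 78) (nat_lit 152) (nat_lit 0) (XT.lf (nat_lit 76) (nat_lit 1733394116) (nat_lit 0) (nat_lit 1799670675) (nat_lit 76) (nat_lit 1799670675) (nat_lit 104) (nat_lit 3) (nat_lit 103) (nat_lit 1) (nat_lit 104) (nat_lit 1) (nat_lit 370) (nat_lit 401) (nat_lit 249)) (XT.lf (nat_lit 152) (nat_lit 5207283532) (nat_lit 0) (nat_lit 20361462) (nat_lit 76) (nat_lit 20361462) (nat_lit 103) (nat_lit 1) (nat_lit 101) (nat_lit 1) (nat_lit 102) (nat_lit 1) (nat_lit 371) (nat_lit 401) (nat_lit 248)))) (XT.nd (nat_lit 78) (nat_lit 228) (nat_lit 0) (XT.lf (nat_lit 0) (nat_lit 1701568747) (nat_lit 0) (nat_lit 1758820930) (nat_lit 152) (nat_lit 1701568747) (nat_lit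 101) (nat_lit 3) (nat_lit 101) (nat_lit 1) (nat_lit 103) (nat_lit 1) (nat_lit 372) (nat_lit 401) (nat_lit 247)) (XT.nd (nat_lit 78) (nat_lit 152) (nat_lit 0) (XT.lf (nat_lit 76) (nat_lit 1656535093) (nat_lit 0) (nat_lit 1711060982) (nat_lit 76) (nat_lit 1711060982) (nat_lit 101) (nat_lit 3) (nat_lit 100) (nat_lit 1) (nat_lit 101) (nat_lit 1) (nat_lit 373) (nat_lit 401) (nat_lit 246)) (XT.lf (nat_lit 152) (nat_lit 4964472801) (nat_lit 0) (nat_lit 16751425) (nat_lit 76) (nat_lit 16751425) (nat_lit 100) (nat_lit 1) (nat_lit 98) (nat_lit 1) (nat_lit 99) (nat_lit 1) (nat_lit 374) (nat_lit 401) (nat_lit 245)))))) (XT.nd (nat_lit 468) (nat_lit 456) (nat_lit 0) (XT.nd (nat_lit 234) (nat_lit 228) (nat_lit 0) (XT.nd (nat_lit 78) (nat_lit 228) (nat_lit 0) (XT.lf (nat_lit 0) (nat_lit 1622975885) (nat_lit 0) (nat_lit 1670077398) (nat_lit 152) (nat_lit 1622975885) (nat_lit 98) (nat_lit 3) (nat_lit 98) (nat_lit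 1) (nat_lit 100) (nat_lit 1) (nat_lit 375) (nat_lit 401) (nat_lit 244)) (XT.nd (nat_lit 78) (nat_lit 152) (nat_lit 0) (XT.lf (nat_lit 76) (nat_lit 1582328344) (nat_lit 0) (nat_lit 1627186928) (nat_lit 76) (nat_lit 1627186928) (nat_lit 98) (nat_lit 3) (nat_lit 97) (nat_lit 1) (nat_lit 98) (nat_lit 1) (nat_lit 376) (nat_lit 401) (nat_lit 243)) (XT.lf (nat_lit 152) (nat_lit 4732310490) (nat_lit 0) (nat_lit 13781438) (nat_lit 76) (nat_lit 13781438) (nat_lit 97) (nat_lit 1) (nat_lit 95) (nat_lit 1) (nat_lit 96) (nat_lit 1) (nat_lit 377) (nat_lit 401) (nat_lit 242)))) (XT.nd (nat_lit 78) (nat_lit 228) (nat_lit 0) (XT.lf (nat_lit 0) (nat_lit 1547693959) (nat_lit 0) (nat_lit 1586444491) (nat_lit 152) (nat_lit 1547693959) (nat_lit 95) (nat_lit 3) (nat_lit 95) (nat_lit 1) (nat_lit 97) (nat_lit 1) (nat_lit 378) (nat_lit 401) (nat_lit 241)) (XT.nd (nat_lit 78) (nat_lit 152) (nat_lit 0) (XT.lf (nat_lit 76)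 (nat_lit 1510826229) (nat_lit 0) (nat_lit 1547731496) (nat_lit 76) (nat_lit 1547731496) (nat_lit 95) (nat_lit 3) (nat_lit 94) (nat_lit 1) (nat_lit 95) (nat_lit 1) (nat_lit 379) (nat_lit 401) (nat_lit 240)) (XT.lf (nat_lit 152) (nat_lit 4510451581) (nat_lit 0) (nat_lit 11338023) (nat_lit 76) (nat_lit 11338023) (nat_lit 94) (nat_lit 1) (nat_lit 92) (nat_lit 1) (nat_lit 93) (nat_lit 1) (nat_lit 380) (nat_lit 401) (nat_lit 239))))) (XT.nd (nat_lit 234) (nat_lit 228) (nat_lit 0) (XT.nd (nat_lit 78) (nat_lit 228) (nat_lit 0) (XT.lf (nat_lit 0) (nat_lit 1475641824) (nat_lit 0) (nat_lit 1507521982) (nat_lit 152) (nat_lit 1475641824) (nat_lit 92) (nat_lit 3) (nat_lit 92) (nat_lit 1) (nat_lit 94) (nat_lit 1) (nat_lit 381) (nat_lit 401) (nat_lit 238)) (XT.nd (nat_lit 78) (nat_lit 152) (nat_lit 0) (XT.lf (nat_lit 76) (nat_lit 1442046938) (nat_lit 0) (nat_lit 1472408993) (nat_lit 76) (nat_lit 1472408993) (nat_lit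 92) (nat_lit 3) (nat_lit 91) (nat_lit 1) (nat_lit 92) (nat_lit 1) (nat_lit 382) (nat_lit 401) (nat_lit 237)) (XT.lf (nat_lit 152) (nat_lit 4298538753) (nat_lit 0) (nat_lit 9327820) (nat_lit 76) (nat_lit 9327820) (nat_lit 91) (nat_lit 1) (nat_lit 89) (nat_lit 1) (nat_lit 90) (nat_lit 1) (nat_lit 383) (nat_lit 401) (nat_lit 236)))) (XT.nd (nat_lit 156) (nat_lit 152) (nat_lit 0) (XT.nd (nat_lit 78) (nat_lit 76) (nat_lit 0) (XT.lf (nat_lit 0) (nat_lit 1406728631) (nat_lit 0) (nat_lit 1432956516) (nat_lit 152) (nat_lit 1406728631) (nat_lit 89) (nat_lit 3) (nat_lit 89) (nat_lit 1) (nat_lit 91) (nat_lit 1) (nat_lit 384) (nat_lit 401) (nat_lit 235)) (XT.lf (nat_lit 76) (nat_lit 1375981738) (nat_lit 0) (nat_lit 1400960676) (nat_lit 76) (nat_lit 1400960676) (nat_lit 89) (nat_lit 3) (nat_lit 88) (nat_lit 1) (nat_lit 89) (nat_lit 1) (nat_lit 385) (nat_lit 401) (nat_lit 234))) (XT.nd (nat_lit 78) (nat_lit 0)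 (nat_lit 0) (XT.lf (nat_lit 152) (nat_lit 4096208066) (nat_lit 0) (nat_lit 7674020) (nat_lit 76) (nat_lit 7674020) (nat_lit 88) (nat_lit 1) (nat_lit 86) (nat_lit 1) (nat_lit 87) (nat_lit 1) (nat_lit 386) (nat_lit 401) (nat_lit 233)) (XT.lf (nat_lit 0) (nat_lit 1340856699) (nat_lit 0) (nat_lit 1362434445) (nat_lit 152) (nat_lit 1340856699) (nat_lit 86) (nat_lit 3) (nat_lit 86) (nat_lit 1) (nat_lit 88) (nat_lit 1) (nat_lit 387) (nat_lit 401) (nat_lit 232))))))))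
noncomputable def ec263 : XT := (XT.nd (nat_lit 1950) (nat_lit 1976) (nat_lit 0) (XT.nd (nat_lit 936) (nat_lit 988) (nat_lit 0) (XT.nd (nat_lit 468) (nat_lit 456) (nat_lit 0) (XT.nd (nat_lit 234) (nat_lit 228) (nat_lit 0) (XT.nd (nat_lit 78) (nat_lit 152) (nat_lit 0) (XT.lf (nat_lit 76) (nat_lit 1312600870) (nat_lit 0) (nat_lit 1333151104) (nat_lit 76) (nat_lit 1333151104) (nat_lit 86) (nat_lit 3) (nat_lit 85) (nat_lit 1) (nat_lit 86) (nat_lit 1) (nat_lit 388) (nat_lit 401) (nat_lit 231)) (XT.nd (nat_lit 78) (nat_lit 0) (nat_lit 0) (XT.lf (nat_lit 152) (nat_lit 3903093461) (nat_lit 0) (nat_lit 6313435) (nat_lit 76) (nat_lit 6313435) (nat_lit 85) (nat_lit 1) (nat_lit 83) (nat_lit 1) (nat_lit 84) (nat_lit 1) (nat_lit 389) (nat_lit 401) (nat_lit 230)) (XT.lf (nat_lit 0) (nat_lit 1277923812) (nat_lit 0) (nat_lit 1295675877) (nat_lit 152) (nat_lit 1277923812) (nat_lit 83) (nat_lit 3) (nat_lit 83) (nat_lit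 1) (nat_lit 85) (nat_lit 1) (nat_lit 390) (nat_lit 401) (nat_lit 229)))) (XT.nd (nat_lit 78) (nat_lit 152) (nat_lit 0) (XT.lf (nat_lit 76) (nat_lit 1251858354) (nat_lit 0) (nat_lit 1268765083) (nat_lit 76) (nat_lit 1268765083) (nat_lit 83) (nat_lit 3) (nat_lit 82) (nat_lit 1) (nat_lit 83) (nat_lit 1) (nat_lit 391) (nat_lit 401) (nat_lit 228)) (XT.nd (nat_lit 78) (nat_lit 0) (nat_lit 0) (XT.lf (nat_lit 152) (nat_lit 3718830315) (nat_lit 0) (nat_lit 5194079) (nat_lit 76) (nat_lit 5194079) (nat_lit 82) (nat_lit 1) (nat_lit 80) (nat_lit 1) (nat_lit 81) (nat_lit 1) (nat_lit 392) (nat_lit 401) (nat_lit 227)) (XT.lf (nat_lit 0) (nat_lit 1217825071) (nat_lit 0) (nat_lit 1232429739) (nat_lit 152) (nat_lit 1217825071) (nat_lit 80) (nat_lit 3) (nat_lit 80) (nat_lit 1) (nat_lit 82) (nat_lit 1) (nat_lit 393) (nat_lit 401) (nat_lit 226))))) (XT.nd (nat_lit 234) (nat_lit 228) (nat_lit 0) (XT.nd (nat_lit 78) (nat_lit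 152) (nat_lit 0) (XT.lf (nat_lit 76) (nat_lit 1193695890) (nat_lit 0) (nat_lit 1207605098) (nat_lit 76) (nat_lit 1207605098) (nat_lit 80) (nat_lit 3) (nat_lit 79) (nat_lit 1) (nat_lit 80) (nat_lit 1) (nat_lit 394) (nat_lit 401) (nat_lit 225)) (XT.nd (nat_lit 78) (nat_lit 0) (nat_lit 0) (XT.lf (nat_lit 152) (nat_lit 3543058203) (nat_lit 0) (nat_lit 4273181) (nat_lit 76) (nat_lit 4273181) (nat_lit 79) (nat_lit 1) (nat_lit 77) (nat_lit 1) (nat_lit 78) (nat_lit 1) (nat_lit 395) (nat_lit 401) (nat_lit 224)) (XT.lf (nat_lit 0) (nat_lit 1160454356) (nat_lit 0) (nat_lit 1172469652) (nat_lit 152) (nat_lit 1160454356) (nat_lit 77) (nat_lit 3) (nat_lit 77) (nat_lit 1) (nat_lit 79) (nat_lit 1) (nat_lit 396) (nat_lit 401) (nat_lit 223)))) (XT.nd (nat_lit 78) (nat_lit 152) (nat_lit 0) (XT.lf (nat_lit 76) (nat_lit 1138046015) (nat_lit 0) (nat_lit 1149489154) (nat_lit 76) (nat_lit 1149489154) (nat_lit 77) (nat_lit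 3) (nat_lit 76) (nat_lit 1) (nat_lit 77) (nat_lit 1) (nat_lit 397) (nat_lit 401) (nat_lit 222)) (XT.nd (nat_lit 78) (nat_lit 0) (nat_lit 0) (XT.lf (nat_lit 152) (nat_lit 3375423038) (nat_lit 0) (nat_lit 3515557) (nat_lit 76) (nat_lit 3515557) (nat_lit 76) (nat_lit 1) (nat_lit 74) (nat_lit 1) (nat_lit 75) (nat_lit 1) (nat_lit 398) (nat_lit 401) (nat_lit 221)) (XT.lf (nat_lit 0) (nat_lit 1105705485) (nat_lit 0) (nat_lit 1115590499) (nat_lit 152) (nat_lit 1105705485) (nat_lit 74) (nat_lit 3) (nat_lit 74) (nat_lit 1) (nat_lit 76) (nat_lit 1) (nat_lit 399) (nat_lit 401) (nat_lit 220)))))) (XT.nd (nat_lit 468) (nat_lit 532) (nat_lit 0) (XT.nd (nat_lit 234) (nat_lit 228) (nat_lit 0) (XT.nd (nat_lit 78) (nat_lit 152) (nat_lit 0) (XT.lf (nat_lit 76) (nat_lit 1084834655) (nat_lit 0) (nat_lit 1094248954) (nat_lit 76) (nat_lit 1094248954) (nat_lit 74) (nat_lit 3) (nat_lit 73) (nat_lit 1) (nat_lit 74) (nat_lit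 1) (nat_lit 400) (nat_lit 401) (nat_lit 219)) (XT.nd (nat_lit 78) (nat_lit 0) (nat_lit 0) (XT.lf (nat_lit 152) (nat_lit 3215578682) (nat_lit 0) (nat_lit 2892257) (nat_lit 76) (nat_lit 2892257) (nat_lit 73) (nat_lit 1) (nat_lit 71) (nat_lit 1) (nat_lit 72) (nat_lit 1) (nat_lit 401) (nat_lit 401) (nat_lit 218)) (XT.lf (nat_lit 0) (nat_lit 1053473130) (nat_lit 0) (nat_lit 1061605555) (nat_lit 152) (nat_lit 1053473130) (nat_lit 71) (nat_lit 3) (nat_lit 71) (nat_lit 1) (nat_lit 73) (nat_lit 1) (nat_lit 402) (nat_lit 401) (nat_lit 217)))) (XT.nd (nat_lit 78) (nat_lit 152) (nat_lit 0) (XT.lf (nat_lit 76) (nat_lit 1033983186) (nat_lit 0) (nat_lit 1041728354) (nat_lit 76) (nat_lit 1041728354) (nat_lit 71) (nat_lit 3) (nat_lit 70) (nat_lit 1) (nat_lit 71) (nat_lit 1) (nat_lit 403) (nat_lit 401) (nat_lit 216)) (XT.nd (nat_lit 78) (nat_lit 0) (nat_lit 0) (XT.lf (nat_lit 152) (nat_lit 3063188155) (nat_lit 0)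 (nat_lit 2379467) (nat_lit 76) (nat_lit 2379467) (nat_lit 70) (nat_lit 1) (nat_lit 68) (nat_lit 1) (nat_lit 69) (nat_lit 1) (nat_lit 404) (nat_lit 401) (nat_lit 215)) (XT.lf (nat_lit 0) (nat_lit 1003653513) (nat_lit 0) (nat_lit 1010344080) (nat_lit 152) (nat_lit 1003653513) (nat_lit 68) (nat_lit 3) (nat_lit 68) (nat_lit 1) (nat_lit 70) (nat_lit 1) (nat_lit 405) (nat_lit 401) (nat_lit 214))))) (XT.nd (nat_lit 234) (nat_lit 304) (nat_lit 0) (XT.nd (nat_lit 78) (nat_lit 152) (nat_lit 0) (XT.lf (nat_lit 76) (nat_lit 985410080) (nat_lit 0) (nat_lit 991782048) (nat_lit 76) (nat_lit 991782048) (nat_lit 68) (nat_lit 3) (nat_lit 67) (nat_lit 1) (nat_lit 68) (nat_lit 1) (nat_lit 406) (nat_lit 401) (nat_lit 213)) (XT.nd (nat_lit 78) (nat_lit 0) (nat_lit 0) (XT.lf (nat_lit 152) (nat_lit 2917924490) (nat_lit 0) (nat_lit 1957593) (nat_lit 76) (nat_lit 1957593) (nat_lit 67) (nat_lit 1) (nat_lit 65) (nat_lit 1)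 (nat_lit 66) (nat_lit 1) (nat_lit 407) (nat_lit 401) (nat_lit 212)) (XT.lf (nat_lit 0) (nat_lit 956144955) (nat_lit 0) (nat_lit 961649301) (nat_lit 152) (nat_lit 956144955) (nat_lit 65) (nat_lit 3) (nat_lit 65) (nat_lit 1) (nat_lit 67) (nat_lit 1) (nat_lit 408) (nat_lit 401) (nat_lit 211)))) (XT.nd (nat_lit 156) (nat_lit 76) (nat_lit 0) (XT.nd (nat_lit 78) (nat_lit 152) (nat_lit 0) (XT.lf (nat_lit 76) (nat_lit 939032219) (nat_lit 0) (nat_lit 944274453) (nat_lit 76) (nat_lit 944274453) (nat_lit 65) (nat_lit 3) (nat_lit 64) (nat_lit 1) (nat_lit 65) (nat_lit 1) (nat_lit 409) (nat_lit 401) (nat_lit 210)) (XT.lf (nat_lit 152) (nat_lit 2779471332) (nat_lit 0) (nat_lit 1610517) (nat_lit 76) (nat_lit 1610517) (nat_lit 64) (nat_lit 1) (nat_lit 62) (nat_lit 1) (nat_lit 63) (nat_lit 1) (nat_lit 410) (nat_lit 401) (nat_lit 209))) (XT.nd (nat_lit 78) (nat_lit 76) (nat_lit 0) (XT.lf (nat_lit 0) (nat_lit 910848274)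 (nat_lit 0) (nat_lit 915376713) (nat_lit 152) (nat_lit 910848274) (nat_lit 62) (nat_lit 3) (nat_lit 62) (nat_lit 1) (nat_lit 64) (nat_lit 1) (nat_lit 411) (nat_lit 401) (nat_lit 208)) (XT.lf (nat_lit 76) (nat_lit 894765947) (nat_lit 0) (nat_lit 899078746) (nat_lit 76) (nat_lit 899078746) (nat_lit 62) (nat_lit 3) (nat_lit 61) (nat_lit 1) (nat_lit 62) (nat_lit 1) (nat_lit 412) (nat_lit 401) (nat_lit 207))))))) (XT.nd (nat_lit 1014) (nat_lit 912) (nat_lit 0) (XT.nd (nat_lit 468) (nat_lit 608) (nat_lit 0) (XT.nd (nat_lit 234) (nat_lit 228) (nat_lit 0) (XT.nd (nat_lit 78) (nat_lit 76) (nat_lit 0) (XT.lf (nat_lit 152) (nat_lit 2647523308) (nat_lit 0) (nat_lit 1324976) (nat_lit 76) (nat_lit 1324976) (nat_lit 61) (nat_lit 1) (nat_lit 59) (nat_lit 1) (nat_lit 60) (nat_lit 1) (nat_lit 413) (nat_lit 401) (nat_lit 206)) (XT.nd (nat_lit 78) (nat_lit 76) (nat_lit 0) (XT.lf (nat_lit 0) (nat_lit 867667085) (nat_lit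 0) (nat_lit 871392643) (nat_lit 152) (nat_lit 867667085) (nat_lit 59) (nat_lit 3) (nat_lit 59) (nat_lit 1) (nat_lit 61) (nat_lit 1) (nat_lit 414) (nat_lit 401) (nat_lit 205)) (XT.lf (nat_lit 76) (nat_lit 852527890) (nat_lit 0) (nat_lit 856076040) (nat_lit 76) (nat_lit 856076040) (nat_lit 59) (nat_lit 3) (nat_lit 58) (nat_lit 1) (nat_lit 59) (nat_lit 1) (nat_lit 415) (nat_lit 401) (nat_lit 204)))) (XT.nd (nat_lit 78) (nat_lit 76) (nat_lit 0) (XT.lf (nat_lit 152) (nat_lit 2521786230) (nat_lit 0) (nat_lit 1090061) (nat_lit 76) (nat_lit 1090061) (nat_lit 58) (nat_lit 1) (nat_lit 56) (nat_lit 1) (nat_lit 57) (nat_lit 1) (nat_lit 416) (nat_lit 401) (nat_lit 203)) (XT.nd (nat_lit 78) (nat_lit 76) (nat_lit 0) (XT.lf (nat_lit 0) (nat_lit 826508006) (nat_lit 0) (nat_lit 829573032) (nat_lit 152) (nat_lit 826508006) (nat_lit 56) (nat_lit 3) (nat_lit 56) (nat_lit 1) (nat_lit 58) (nat_lit 1) (nat_lit 417) (nat_lit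 401) (nat_lit 202)) (XT.lf (nat_lit 76) (nat_lit 812235596) (nat_lit 0) (nat_lit 815154668) (nat_lit 76) (nat_lit 815154668) (nat_lit 56) (nat_lit 3) (nat_lit 55) (nat_lit 1) (nat_lit 56) (nat_lit 1) (nat_lit 418) (nat_lit 401) (nat_lit 201))))) (XT.nd (nat_lit 234) (nat_lit 380) (nat_lit 0) (XT.nd (nat_lit 78) (nat_lit 76) (nat_lit 0) (XT.lf (nat_lit 152) (nat_lit 2401977155) (nat_lit 0) (nat_lit 896796) (nat_lit 76) (nat_lit 896796) (nat_lit 55) (nat_lit 1) (nat_lit 53) (nat_lit 1) (nat_lit 54) (nat_lit 1) (nat_lit 419) (nat_lit 401) (nat_lit 200)) (XT.nd (nat_lit 78) (nat_lit 76) (nat_lit 0) (XT.lf (nat_lit 0) (nat_lit 787280799) (nat_lit 0) (nat_lit 789802403) (nat_lit 152) (nat_lit 787280799) (nat_lit 53) (nat_lit 3) (nat_lit 53) (nat_lit 1) (nat_lit 55) (nat_lit 1) (nat_lit 420) (nat_lit 401) (nat_lit 199)) (XT.lf (nat_lit 76) (nat_lit 773808035) (nat_lit 0) (nat_lit 776209563) (nat_lit 76)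 (nat_lit 776209563) (nat_lit 53) (nat_lit 3) (nat_lit 52) (nat_lit 1) (nat_lit 53) (nat_lit 1) (nat_lit 421) (nat_lit 401) (nat_lit 198)))) (XT.nd (nat_lit 156) (nat_lit 228) (nat_lit 0) (XT.nd (nat_lit 78) (nat_lit 0) (nat_lit 0) (XT.lf (nat_lit 152) (nat_lit 2287824343) (nat_lit 0) (nat_lit 737796) (nat_lit 76) (nat_lit 737796) (nat_lit 52) (nat_lit 1) (nat_lit 50) (nat_lit 1) (nat_lit 51) (nat_lit 1) (nat_lit 422) (nat_lit 401) (nat_lit 197)) (XT.lf (nat_lit 0) (nat_lit 749898450) (nat_lit 0) (nat_lit 751972980) (nat_lit 152) (nat_lit 749898450) (nat_lit 50) (nat_lit 3) (nat_lit 50) (nat_lit 1) (nat_lit 52) (nat_lit 1) (nat_lit 423) (nat_lit 401) (nat_lit 196))) (XT.nd (nat_lit 78) (nat_lit 152) (nat_lit 0) (XT.lf (nat_lit 76) (nat_lit 737165977) (nat_lit 0) (nat_lit 739141720) (nat_lit 76) (nat_lit 739141720) (nat_lit 50) (nat_lit 3) (nat_lit 49) (nat_lit 1) (nat_lit 50) (nat_lit 1) (nat_lit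 424) (nat_lit 401) (nat_lit 195)) (XT.lf (nat_lit 152) (nat_lit 2179067123) (nat_lit 0) (nat_lit 606987) (nat_lit 76) (nat_lit 606987) (nat_lit 49) (nat_lit 1) (nat_lit 47) (nat_lit 1) (nat_lit 48) (nat_lit 1) (nat_lit 425) (nat_lit 401) (nat_lit 194)))))) (XT.nd (nat_lit 468) (nat_lit 456) (nat_lit 0) (XT.nd (nat_lit 234) (nat_lit 228) (nat_lit 0) (XT.nd (nat_lit 78) (nat_lit 228) (nat_lit 0) (XT.lf (nat_lit 0) (nat_lit 714277204) (nat_lit 0) (nat_lit 715983925) (nat_lit 152) (nat_lit 714277204) (nat_lit 47) (nat_lit 3) (nat_lit 47) (nat_lit 1) (nat_lit 49) (nat_lit 1) (nat_lit 426) (nat_lit 401) (nat_lit 193)) (XT.nd (nat_lit 78) (nat_lit 152) (nat_lit 0) (XT.lf (nat_lit 76) (nat_lit 702232265) (nat_lit 0) (nat_lit 703857714) (nat_lit 76) (nat_lit 703857714) (nat_lit 47) (nat_lit 3) (nat_lit 46) (nat_lit 1) (nat_lit 47) (nat_lit 1) (nat_lit 427) (nat_lit 401) (nat_lit 192)) (XT.lf (nat_lit 152)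 (nat_lit 2075455700) (nat_lit 0) (nat_lit 499369) (nat_lit 76) (nat_lit 499369) (nat_lit 46) (nat_lit 1) (nat_lit 44) (nat_lit 1) (nat_lit 45) (nat_lit 1) (nat_lit 428) (nat_lit 401) (nat_lit 191)))) (XT.nd (nat_lit 78) (nat_lit 228) (nat_lit 0) (XT.lf (nat_lit 0) (nat_lit 680336569) (nat_lit 0) (nat_lit 681740693) (nat_lit 152) (nat_lit 680336569) (nat_lit 44) (nat_lit 3) (nat_lit 44) (nat_lit 1) (nat_lit 46) (nat_lit 1) (nat_lit 429) (nat_lit 401) (nat_lit 190)) (XT.nd (nat_lit 78) (nat_lit 152) (nat_lit 0) (XT.lf (nat_lit 76) (nat_lit 668932024) (nat_lit 0) (nat_lit 670269285) (nat_lit 76) (nat_lit 670269285) (nat_lit 44) (nat_lit 3) (nat_lit 43) (nat_lit 1) (nat_lit 44) (nat_lit 1) (nat_lit 430) (nat_lit 401) (nat_lit 189)) (XT.lf (nat_lit 152) (nat_lit 1976750907) (nat_lit 0) (nat_lit 410832) (nat_lit 76) (nat_lit 410832) (nat_lit 43) (nat_lit 1) (nat_lit 41) (nat_lit 1) (nat_lit 42) (nat_lit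 1) (nat_lit 431) (nat_lit 401) (nat_lit 188))))) (XT.nd (nat_lit 234) (nat_lit 228) (nat_lit 0) (XT.nd (nat_lit 78) (nat_lit 228) (nat_lit 0) (XT.lf (nat_lit 0) (nat_lit 647999289) (nat_lit 0) (nat_lit 649154465) (nat_lit 152) (nat_lit 647999289) (nat_lit 41) (nat_lit 3) (nat_lit 41) (nat_lit 1) (nat_lit 43) (nat_lit 1) (nat_lit 432) (nat_lit 401) (nat_lit 187)) (XT.nd (nat_lit 78) (nat_lit 152) (nat_lit 0) (XT.lf (nat_lit 76) (nat_lit 637192795) (nat_lit 0) (nat_lit 638292963) (nat_lit 76) (nat_lit 638292963) (nat_lit 41) (nat_lit 3) (nat_lit 40) (nat_lit 1) (nat_lit 41) (nat_lit 1) (nat_lit 433) (nat_lit 401) (nat_lit 186)) (XT.lf (nat_lit 152) (nat_lit 1882723927) (nat_lit 0) (nat_lit 337993) (nat_lit 76) (nat_lit 337993) (nat_lit 40) (nat_lit 1) (nat_lit 38) (nat_lit 1) (nat_lit 39) (nat_lit 1) (nat_lit 434) (nat_lit 401) (nat_lit 185)))) (XT.nd (nat_lit 156) (nat_lit 152) (nat_lit 0) (XT.nd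 (nat_lit 78) (nat_lit 76) (nat_lit 0) (XT.lf (nat_lit 0) (nat_lit 617191296) (nat_lit 0) (nat_lit 618141662) (nat_lit 152) (nat_lit 617191296) (nat_lit 38) (nat_lit 3) (nat_lit 38) (nat_lit 1) (nat_lit 40) (nat_lit 1) (nat_lit 435) (nat_lit 401) (nat_lit 184)) (XT.lf (nat_lit 76) (nat_lit 606944626) (nat_lit 0) (nat_lit 607849737) (nat_lit 76) (nat_lit 607849737) (nat_lit 38) (nat_lit 3) (nat_lit 37) (nat_lit 1) (nat_lit 38) (nat_lit 1) (nat_lit 436) (nat_lit 401) (nat_lit 183))) (XT.nd (nat_lit 78) (nat_lit 0) (nat_lit 0) (XT.lf (nat_lit 152) (nat_lit 1793155980) (nat_lit 0) (nat_lit 278067) (nat_lit 76) (nat_lit 278067) (nat_lit 37) (nat_lit 1) (nat_lit 35) (nat_lit 1) (nat_lit 36) (nat_lit 1) (nat_lit 437) (nat_lit 401) (nat_lit 182)) (XT.lf (nat_lit 0) (nat_lit 587841641) (nat_lit 0) (nat_lit 588623510) (nat_lit 152) (nat_lit 587841641) (nat_lit 35) (nat_lit 3) (nat_lit 35) (nat_lit 1) (nat_lit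 37) (nat_lit 1) (nat_lit 438) (nat_lit 401) (nat_lit 181))))))))
noncomputable def ec264 : XT := (XT.nd (nat_lit 37128) (nat_lit 0) (nat_lit 14516) (XT.nd (nat_lit 36114) (nat_lit 0) (nat_lit 18392) (XT.nd (nat_lit 468) (nat_lit 76) (nat_lit 0) (XT.nd (nat_lit 234) (nat_lit 228) (nat_lit 0) (XT.nd (nat_lit 78) (nat_lit 152) (nat_lit 0) (XT.lf (nat_lit 76) (nat_lit 578120119) (nat_lit 0) (nat_lit 578864756) (nat_lit 76) (nat_lit 578864756) (nat_lit 35) (nat_lit 3) (nat_lit 34) (nat_lit 1) (nat_lit 35) (nat_lit 1) (nat_lit 439) (nat_lit 401) (nat_lit 180)) (XT.nd (nat_lit 78) (nat_lit 0) (nat_lit 0) (XT.lf (nat_lit 152) (nat_lit 1707838002) (nat_lit 0) (nat_lit 228767) (nat_lit 76) (nat_lit 228767) (nat_lit 34) (nat_lit 1) (nat_lit 32) (nat_lit 1) (nat_lit 33) (nat_lit 1) (nat_lit 440) (nat_lit 401) (nat_lit 179)) (XT.lf (nat_lit 0) (nat_lit 559882425) (nat_lit 0) (nat_lit 560525670) (nat_lit 152)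 (nat_lit 559882425) (nat_lit 32) (nat_lit 3) (nat_lit 32) (nat_lit 1) (nat_lit 34) (nat_lit 1) (nat_lit 441) (nat_lit 401) (nat_lit 178)))) (XT.nd (nat_lit 78) (nat_lit 152) (nat_lit 0) (XT.lf (nat_lit 76) (nat_lit 550654446) (nat_lit 0) (nat_lit 551267060) (nat_lit 76) (nat_lit 551267060) (nat_lit 32) (nat_lit 3) (nat_lit 31) (nat_lit 1) (nat_lit 32) (nat_lit 1) (nat_lit 442) (nat_lit 401) (nat_lit 177)) (XT.nd (nat_lit 78) (nat_lit 0) (nat_lit 0) (XT.lf (nat_lit 152) (nat_lit 1626570303) (nat_lit 0) (nat_lit 188207) (nat_lit 76) (nat_lit 188207) (nat_lit 31) (nat_lit 1) (nat_lit 29) (nat_lit 1) (nat_lit 30) (nat_lit 1) (nat_lit 443) (nat_lit 401) (nat_lit 176)) (XT.lf (nat_lit 0) (nat_lit 533248706) (nat_lit 0) (nat_lit 533777906) (nat_lit 152) (nat_lit 533248706) (nat_lit 29) (nat_lit 3) (nat_lit 29) (nat_lit 1) (nat_lit 31) (nat_lit 1) (nat_lit 444) (nat_lit 401) (nat_lit 175))))) (XT.nd (nat_lit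 35412) (nat_lit 0) (nat_lit 20140) (XT.nd (nat_lit 35256) (nat_lit 0) (nat_lit 20064) (XT.lf (nat_lit 76) (nat_lit 524485340) (nat_lit 0) (nat_lit 524989340) (nat_lit 76) (nat_lit 524989340) (nat_lit 29) (nat_lit 3) (nat_lit 28) (nat_lit 1) (nat_lit 29) (nat_lit 1) (nat_lit 445) (nat_lit 401) (nat_lit 174)) (XT.nd (nat_lit 78) (nat_lit 0) (nat_lit 0) (XT.lf (nat_lit 836) (nat_lit 11065886751) (nat_lit 0) (nat_lit 19647456490) (nat_lit 836) (nat_lit 11065886751) (nat_lit 303) (nat_lit 1) (nat_lit 292) (nat_lit 0) (nat_lit 303) (nat_lit 0) (nat_lit 216) (nat_lit 402) (nat_lit 402)) (XT.lf (nat_lit 836) (nat_lit 42892758568) (nat_lit 76) (nat_lit 19330562031) (nat_lit 0) (nat_lit 19330562031) (nat_lit 303) (nat_lit 1) (nat_lit 293) (nat_lit 1) (nat_lit 292) (nat_lit 0) (nat_lit 217) (nat_lit 402) (nat_lit 401)))) (XT.nd (nat_lit 78) (nat_lit 0) (nat_lit 0) (XT.lf (nat_lit 836) (nat_lit 20442042898)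 (nat_lit 0) (nat_lit 38727191735) (nat_lit 760) (nat_lit 20442042898) (nat_lit 304) (nat_lit 1) (nat_lit 293) (nat_lit 1) (nat_lit 303) (nat_lit 1) (nat_lit 218) (nat_lit 402) (nat_lit 400)) (XT.nd (nat_lit 78) (nat_lit 0) (nat_lit 76) (XT.lf (nat_lit 836) (nat_lit 38346431983) (nat_lit 76) (nat_lit 19692500533) (nat_lit 0) (nat_lit 19692500533) (nat_lit 304) (nat_lit 1) (nat_lit 294) (nat_lit 1) (nat_lit 293) (nat_lit 1) (nat_lit 219) (nat_lit 402) (nat_lit 399)) (XT.lf (nat_lit 836) (nat_lit 17650494397) (nat_lit 0) (nat_lit 40610181415) (nat_lit 760) (nat_lit 17650494397) (nat_lit 305) (nat_lit 1) (nat_lit 294) (nat_lit 1) (nat_lit 304) (nat_lit 1) (nat_lit 220) (nat_lit 402) (nat_lit 398)))))) (XT.nd (nat_lit 468) (nat_lit 1824) (nat_lit 0) (XT.nd (nat_lit 234) (nat_lit 0) (nat_lit 152) (XT.nd (nat_lit 78) (nat_lit 0) (nat_lit 76) (XT.lf (nat_lit 836) (nat_lit 31745563785) (nat_lit 76) (nat_lit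 21200416075) (nat_lit 0) (nat_lit 21200416075) (nat_lit 305) (nat_lit 1) (nat_lit 295) (nat_lit 1) (nat_lit 294) (nat_lit 1) (nat_lit 221) (nat_lit 402) (nat_lit 397)) (XT.nd (nat_lit 78) (nat_lit 0) (nat_lit 0) (XT.lf (nat_lit 836) (nat_lit 13919512825) (nat_lit 0) (nat_lit 44601851022) (nat_lit 760) (nat_lit 13919512825) (nat_lit 306) (nat_lit 1) (nat_lit 295) (nat_lit 1) (nat_lit 305) (nat_lit 1) (nat_lit 222) (nat_lit 402) (nat_lit 396)) (XT.lf (nat_lit 836) (nat_lit 23399128447) (nat_lit 76) (nat_lit 23691593875) (nat_lit 0) (nat_lit 23691593875) (nat_lit 306) (nat_lit 1) (nat_lit 296) (nat_lit 1) (nat_lit 295) (nat_lit 1) (nat_lit 223) (nat_lit 402) (nat_lit 395)))) (XT.nd (nat_lit 78) (nat_lit 0) (nat_lit 0) (XT.lf (nat_lit 836) (nat_lit 9393531325) (nat_lit 0) (nat_lit 50397405845) (nat_lit 760) (nat_lit 9393531325) (nat_lit 307) (nat_lit 1) (nat_lit 296) (nat_lit 1) (nat_lit 306) (nat_lit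 1) (nat_lit 224) (nat_lit 402) (nat_lit 394)) (XT.nd (nat_lit 78) (nat_lit 0) (nat_lit 76) (XT.lf (nat_lit 836) (nat_lit 13581757649) (nat_lit 76) (nat_lit 27021121721) (nat_lit 0) (nat_lit 27021121721) (nat_lit 307) (nat_lit 1) (nat_lit 297) (nat_lit 1) (nat_lit 296) (nat_lit 1) (nat_lit 225) (nat_lit 402) (nat_lit 393)) (XT.lf (nat_lit 76) (nat_lit 4200836275) (nat_lit 0) (nat_lit 57725566646) (nat_lit 760) (nat_lit 4200836275) (nat_lit 298) (nat_lit 1) (nat_lit 297) (nat_lit 1) (nat_lit 307) (nat_lit 1) (nat_lit 226) (nat_lit 402) (nat_lit 392))))) (XT.nd (nat_lit 234) (nat_lit 760) (nat_lit 0) (XT.nd (nat_lit 78) (nat_lit 532) (nat_lit 0) (XT.lf (nat_lit 836) (nat_lit 2537200644) (nat_lit 0) (nat_lit 31060107480) (nat_lit 760) (nat_lit 31060107480) (nat_lit 298) (nat_lit 1) (nat_lit 287) (nat_lit 1) (nat_lit 297) (nat_lit 1) (nat_lit 227) (nat_lit 402) (nat_lit 391)) (XT.nd (nat_lit 78) (nat_lit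 0) (nat_lit 0) (XT.lf (nat_lit 532) (nat_lit 60210966564) (nat_lit 0) (nat_lit 1519885911) (nat_lit 456) (nat_lit 1519885911) (nat_lit 287) (nat_lit 1) (nat_lit 280) (nat_lit 1) (nat_lit 286) (nat_lit 1) (nat_lit 228) (nat_lit 402) (nat_lit 390)) (XT.lf (nat_lit 76) (nat_lit 26324129788) (nat_lit 0) (nat_lit 9213896801) (nat_lit 532) (nat_lit 26324129788) (nat_lit 281) (nat_lit 1) (nat_lit 280) (nat_lit 1) (nat_lit 287) (nat_lit 1) (nat_lit 229) (nat_lit 402) (nat_lit 389)))) (XT.nd (nat_lit 156) (nat_lit 380) (nat_lit 0) (XT.nd (nat_lit 78) (nat_lit 0) (nat_lit 0) (XT.lf (nat_lit 456) (nat_lit 45297070254) (nat_lit 0) (nat_lit 7617775170) (nat_lit 380) (nat_lit 7617775170) (nat_lit 281) (nat_lit 1) (nat_lit 275) (nat_lit 1) (nat_lit 280) (nat_lit 1) (nat_lit 230) (nat_lit 402) (nat_lit 388)) (XT.lf (nat_lit 76) (nat_lit 18776681322) (nat_lit 0) (nat_lit 21677672686) (nat_lit 456) (nat_lit 18776681322)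 (nat_lit 276) (nat_lit 1) (nat_lit 275) (nat_lit 1) (nat_lit 281) (nat_lit 1) (nat_lit 231) (nat_lit 402) (nat_lit 387))) (XT.nd (nat_lit 78) (nat_lit 0) (nat_lit 0) (XT.lf (nat_lit 456) (nat_lit 29828763134) (nat_lit 0) (nat_lit 14073008832) (nat_lit 380) (nat_lit 14073008832) (nat_lit 276) (nat_lit 1) (nat_lit 270) (nat_lit 1) (nat_lit 275) (nat_lit 1) (nat_lit 232) (nat_lit 402) (nat_lit 386)) (XT.lf (nat_lit 76) (nat_lit 10991502789) (nat_lit 0) (nat_lit 34772056803) (nat_lit 456) (nat_lit 10991502789) (nat_lit 271) (nat_lit 1) (nat_lit 270) (nat_lit 1) (nat_lit 276) (nat_lit 1) (nat_lit 233) (nat_lit 402) (nat_lit 385))))))) (XT.nd (nat_lit 936) (nat_lit 1748) (nat_lit 0) (XT.nd (nat_lit 468) (nat_lit 836) (nat_lit 0) (XT.nd (nat_lit 234) (nat_lit 608) (nat_lit 0) (XT.nd (nat_lit 78) (nat_lit 380) (nat_lit 0) (XT.lf (nat_lit 380) (nat_lit 13950015899) (nat_lit 0) (nat_lit 20808351622) (nat_lit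 304) (nat_lit 20808351622) (nat_lit 271) (nat_lit 1) (nat_lit 266) (nat_lit 1) (nat_lit 270) (nat_lit 1) (nat_lit 234) (nat_lit 402) (nat_lit 384)) (XT.nd (nat_lit 78) (nat_lit 380) (nat_lit 0) (XT.lf (nat_lit 76) (nat_lit 3035430377) (nat_lit 0) (nat_lit 48353212985) (nat_lit 380) (nat_lit 3035430377) (nat_lit 267) (nat_lit 1) (nat_lit 266) (nat_lit 1) (nat_lit 271) (nat_lit 1) (nat_lit 235) (nat_lit 402) (nat_lit 383)) (XT.lf (nat_lit 76) (nat_lit 25577408587) (nat_lit 0) (nat_lit 2142157653) (nat_lit 380) (nat_lit 25577408587) (nat_lit 262) (nat_lit 1) (nat_lit 261) (nat_lit 1) (nat_lit 266) (nat_lit 1) (nat_lit 236) (nat_lit 402) (nat_lit 382)))) (XT.nd (nat_lit 78) (nat_lit 304) (nat_lit 0) (XT.lf (nat_lit 380) (nat_lit 42309067403) (nat_lit 0) (nat_lit 4951865602) (nat_lit 304) (nat_lit 4951865602) (nat_lit 262) (nat_lit 1) (nat_lit 257) (nat_lit 1) (nat_lit 261) (nat_lit 1) (nat_lit 237)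 (nat_lit 402) (nat_lit 381)) (XT.nd (nat_lit 78) (nat_lit 304) (nat_lit 0) (XT.lf (nat_lit 76) (nat_lit 16595476271) (nat_lit 0) (nat_lit 17956269128) (nat_lit 380) (nat_lit 16595476271) (nat_lit 258) (nat_lit 1) (nat_lit 257) (nat_lit 1) (nat_lit 262) (nat_lit 1) (nat_lit 238) (nat_lit 402) (nat_lit 380)) (XT.lf (nat_lit 380) (nat_lit 24217416383) (nat_lit 0) (nat_lit 12950589406) (nat_lit 304) (nat_lit 12950589406) (nat_lit 258) (nat_lit 1) (nat_lit 253) (nat_lit 1) (nat_lit 257) (nat_lit 1) (nat_lit 239) (nat_lit 402) (nat_lit 379))))) (XT.nd (nat_lit 234) (nat_lit 228) (nat_lit 0) (XT.nd (nat_lit 78) (nat_lit 608) (nat_lit 0) (XT.lf (nat_lit 76) (nat_lit 7637092321) (nat_lit 0) (nat_lit 33845861202) (nat_lit 380) (nat_lit 7637092321) (nat_lit 254) (nat_lit 1) (nat_lit 253) (nat_lit 1) (nat_lit 258) (nat_lit 1) (nat_lit 240) (nat_lit 402) (nat_lit 378)) (XT.nd (nat_lit 78) (nat_lit 380) (nat_lit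 0) (XT.lf (nat_lit 304) (nat_lit 6210920094) (nat_lit 0) (nat_lit 20966065542) (nat_lit 228) (nat_lit 20966065542) (nat_lit 254) (nat_lit 1) (nat_lit 250) (nat_lit 1) (nat_lit 253) (nat_lit 1) (nat_lit 241) (nat_lit 402) (nat_lit 377)) (XT.lf (nat_lit 380) (nat_lit 44721867738) (nat_lit 0) (nat_lit 1240946017) (nat_lit 304) (nat_lit 1240946017) (nat_lit 250) (nat_lit 1) (nat_lit 245) (nat_lit 1) (nat_lit 249) (nat_lit 1) (nat_lit 242) (nat_lit 402) (nat_lit 376)))) (XT.nd (nat_lit 78) (nat_lit 228) (nat_lit 0) (XT.lf (nat_lit 76) (nat_lit 17499997469) (nat_lit 0) (nat_lit 11269672294) (nat_lit 380) (nat_lit 17499997469) (nat_lit 246) (nat_lit 1) (nat_lit 245) (nat_lit 1) (nat_lit 250) (nat_lit 1) (nat_lit 243) (nat_lit 402) (nat_lit 375)) (XT.nd (nat_lit 78) (nat_lit 0) (nat_lit 0) (XT.lf (nat_lit 304) (nat_lit 25559299553) (nat_lit 0) (nat_lit 9906050036) (nat_lit 228) (nat_lit 9906050036) (nat_lit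 246) (nat_lit 1) (nat_lit 242) (nat_lit 1) (nat_lit 245) (nat_lit 1) (nat_lit 244) (nat_lit 402) (nat_lit 374)) (XT.lf (nat_lit 76) (nat_lit 8074578091) (nat_lit 0) (nat_lit 28346797871) (nat_lit 304) (nat_lit 8074578091) (nat_lit 243) (nat_lit 1) (nat_lit 242) (nat_lit 1) (nat_lit 246) (nat_lit 1) (nat_lit 245) (nat_lit 402) (nat_lit 373)))))) (XT.nd (nat_lit 468) (nat_lit 836) (nat_lit 0) (XT.nd (nat_lit 234) (nat_lit 380) (nat_lit 0) (XT.nd (nat_lit 78) (nat_lit 304) (nat_lit 0) (XT.lf (nat_lit 304) (nat_lit 6729908458) (nat_lit 0) (nat_lit 18455258086) (nat_lit 228) (nat_lit 18455258086) (nat_lit 243) (nat_lit 1) (nat_lit 239) (nat_lit 1) (nat_lit 242) (nat_lit 1) (nat_lit 246) (nat_lit 402) (nat_lit 372)) (XT.nd (nat_lit 78) (nat_lit 0) (nat_lit 0) (XT.lf (nat_lit 304) (nat_lit 40503470636) (nat_lit 0) (nat_lit 1156604287) (nat_lit 228) (nat_lit 1156604287) (nat_lit 239) (nat_lit 1) (nat_lit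 235) (nat_lit 1) (nat_lit 238) (nat_lit 1) (nat_lit 247) (nat_lit 402) (nat_lit 371)) (XT.lf (nat_lit 76) (nat_lit 15321302995) (nat_lit 0) (nat_lit 11352931676) (nat_lit 304) (nat_lit 15321302995) (nat_lit 236) (nat_lit 1) (nat_lit 235) (nat_lit 1) (nat_lit 239) (nat_lit 1) (nat_lit 248) (nat_lit 402) (nat_lit 370)))) (XT.nd (nat_lit 78) (nat_lit 152) (nat_lit 0) (XT.lf (nat_lit 304) (nat_lit 21068194527) (nat_lit 0) (nat_lit 10068291982) (nat_lit 228) (nat_lit 10068291982) (nat_lit 236) (nat_lit 1) (nat_lit 232) (nat_lit 1) (nat_lit 235) (nat_lit 1) (nat_lit 249) (nat_lit 402) (nat_lit 369)) (XT.nd (nat_lit 78) (nat_lit 152) (nat_lit 0) (XT.lf (nat_lit 76) (nat_lit 5802163590) (nat_lit 0) (nat_lit 28830900656) (nat_lit 304) (nat_lit 5802163590) (nat_lit 233) (nat_lit 1) (nat_lit 232) (nat_lit 1) (nat_lit 236) (nat_lit 1) (nat_lit 250) (nat_lit 402) (nat_lit 368)) (XT.lf (nat_lit 228) (nat_lit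 2126105657) (nat_lit 0) (nat_lit 18777036622) (nat_lit 152) (nat_lit 18777036622) (nat_lit 233) (nat_lit 1) (nat_lit 230) (nat_lit 1) (nat_lit 232) (nat_lit 1) (nat_lit 251) (nat_lit 402) (nat_lit 367))))) (XT.nd (nat_lit 234) (nat_lit 380) (nat_lit 0) (XT.nd (nat_lit 78) (nat_lit 152) (nat_lit 0) (XT.lf (nat_lit 304) (nat_lit 32124743570) (nat_lit 0) (nat_lit 3411880618) (nat_lit 228) (nat_lit 3411880618) (nat_lit 230) (nat_lit 1) (nat_lit 226) (nat_lit 1) (nat_lit 229) (nat_lit 1) (nat_lit 252) (nat_lit 402) (nat_lit 366)) (XT.nd (nat_lit 78) (nat_lit 152) (nat_lit 0) (XT.lf (nat_lit 76) (nat_lit 11220410379) (nat_lit 0) (nat_lit 15784193022) (nat_lit 304) (nat_lit 11220410379) (nat_lit 227) (nat_lit 1) (nat_lit 226) (nat_lit 1) (nat_lit 230) (nat_lit 1) (nat_lit 253) (nat_lit 402) (nat_lit 365)) (XT.lf (nat_lit 228) (nat_lit 12963453371) (nat_lit 0) (nat_lit 12280199151) (nat_lit 152) (nat_lit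 12280199151) (nat_lit 227) (nat_lit 1) (nat_lit 224) (nat_lit 1) (nat_lit 226) (nat_lit 1) (nat_lit 254) (nat_lit 402) (nat_lit 364)))) (XT.nd (nat_lit 156) (nat_lit 152) (nat_lit 0) (XT.nd (nat_lit 78) (nat_lit 228) (nat_lit 0) (XT.lf (nat_lit 76) (nat_lit 1862436781) (nat_lit 0) (nat_lit 33121084884) (nat_lit 228) (nat_lit 1862436781) (nat_lit 225) (nat_lit 1) (nat_lit 224) (nat_lit 1) (nat_lit 227) (nat_lit 1) (nat_lit 255) (nat_lit 402) (nat_lit 363)) (XT.lf (nat_lit 76) (nat_lit 15371017516) (nat_lit 0) (nat_lit 5428494379) (nat_lit 228) (nat_lit 15371017516) (nat_lit 222) (nat_lit 1) (nat_lit 221) (nat_lit 1) (nat_lit 224) (nat_lit 1) (nat_lit 256) (nat_lit 402) (nat_lit 362))) (XT.nd (nat_lit 78) (nat_lit 0) (nat_lit 0) (XT.lf (nat_lit 228) (nat_lit 21345351823) (nat_lit 0) (nat_lit 7086078474) (nat_lit 152) (nat_lit 7086078474) (nat_lit 222) (nat_lit 1) (nat_lit 219) (nat_lit 1) (nat_lit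 221) (nat_lit 1) (nat_lit 257) (nat_lit 402) (nat_lit 361)) (XT.lf (nat_lit 76) (nat_lit 6023102960) (nat_lit 0) (nat_lit 22832715395) (nat_lit 228) (nat_lit 6023102960) (nat_lit 220) (nat_lit 1) (nat_lit 219) (nat_lit 1) (nat_lit 222) (nat_lit 1) (nat_lit 258) (nat_lit 402) (nat_lit 360))))))))
noncomputable def ec265 : XT := (XT.nd (nat_lit 1950) (nat_lit 2052) (nat_lit 0) (XT.nd (nat_lit 936) (nat_lit 1140) (nat_lit 0) (XT.nd (nat_lit 468) (nat_lit 532) (nat_lit 0) (XT.nd (nat_lit 234) (nat_lit 304) (nat_lit 0) (XT.nd (nat_lit 78) (nat_lit 228) (nat_lit 0) (XT.lf (nat_lit 228) (nat_lit 2821606884) (nat_lit 0) (nat_lit 15715799626) (nat_lit 152) (nat_lit 15715799626) (nat_lit 220) (nat_lit 1) (nat_lit 217) (nat_lit 1) (nat_lit 219) (nat_lit 1) (nat_lit 259) (nat_lit 402) (nat_lit 359)) (XT.nd (nat_lit 78) (nat_lit 0) (nat_lit 0) (XT.lf (nat_lit 228) (nat_lit 27732575344) (nat_lit 0) (nat_lit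 2956523098) (nat_lit 152) (nat_lit 2956523098) (nat_lit 217) (nat_lit 1) (nat_lit 214) (nat_lit 1) (nat_lit 216) (nat_lit 1) (nat_lit 260) (nat_lit 402) (nat_lit 358)) (XT.lf (nat_lit 76) (nat_lit 9232242292) (nat_lit 0) (nat_lit 14578738027) (nat_lit 228) (nat_lit 9232242292) (nat_lit 215) (nat_lit 1) (nat_lit 214) (nat_lit 1) (nat_lit 217) (nat_lit 1) (nat_lit 261) (nat_lit 402) (nat_lit 357)))) (XT.nd (nat_lit 78) (nat_lit 152) (nat_lit 0) (XT.lf (nat_lit 228) (nat_lit 9402590544) (nat_lit 0) (nat_lit 11527860807) (nat_lit 152) (nat_lit 11527860807) (nat_lit 215) (nat_lit 1) (nat_lit 212) (nat_lit 1) (nat_lit 214) (nat_lit 1) (nat_lit 262) (nat_lit 402) (nat_lit 356)) (XT.nd (nat_lit 78) (nat_lit 152) (nat_lit 0) (XT.lf (nat_lit 76) (nat_lit 309037219) (nat_lit 0) (nat_lit 31275840107) (nat_lit 228) (nat_lit 309037219) (nat_lit 213) (nat_lit 1) (nat_lit 212) (nat_lit 1) (nat_lit 215) (nat_lit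 1) (nat_lit 263) (nat_lit 402) (nat_lit 355)) (XT.lf (nat_lit 76) (nat_lit 11668741516) (nat_lit 0) (nat_lit 7988446298) (nat_lit 152) (nat_lit 11668741516) (nat_lit 211) (nat_lit 1) (nat_lit 210) (nat_lit 1) (nat_lit 212) (nat_lit 1) (nat_lit 264) (nat_lit 402) (nat_lit 354))))) (XT.nd (nat_lit 234) (nat_lit 228) (nat_lit 0) (XT.nd (nat_lit 78) (nat_lit 152) (nat_lit 0) (XT.lf (nat_lit 228) (nat_lit 14479579822) (nat_lit 0) (nat_lit 8149174436) (nat_lit 152) (nat_lit 8149174436) (nat_lit 211) (nat_lit 1) (nat_lit 208) (nat_lit 1) (nat_lit 210) (nat_lit 1) (nat_lit 265) (nat_lit 402) (nat_lit 353)) (XT.nd (nat_lit 78) (nat_lit 152) (nat_lit 0) (XT.lf (nat_lit 76) (nat_lit 2903055682) (nat_lit 0) (nat_lit 24438608619) (nat_lit 228) (nat_lit 2903055682) (nat_lit 209) (nat_lit 1) (nat_lit 208) (nat_lit 1) (nat_lit 211) (nat_lit 1) (nat_lit 266) (nat_lit 402) (nat_lit 352)) (XT.lf (nat_lit 76) (nat_lit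 13479286270) (nat_lit 0) (nat_lit 2757335913) (nat_lit 152) (nat_lit 13479286270) (nat_lit 207) (nat_lit 1) (nat_lit 206) (nat_lit 1) (nat_lit 208) (nat_lit 1) (nat_lit 267) (nat_lit 402) (nat_lit 351)))) (XT.nd (nat_lit 78) (nat_lit 76) (nat_lit 0) (XT.lf (nat_lit 228) (nat_lit 18335286450) (nat_lit 0) (nat_lit 5433083900) (nat_lit 152) (nat_lit 5433083900) (nat_lit 207) (nat_lit 1) (nat_lit 204) (nat_lit 1) (nat_lit 206) (nat_lit 1) (nat_lit 268) (nat_lit 402) (nat_lit 350)) (XT.nd (nat_lit 78) (nat_lit 76) (nat_lit 0) (XT.lf (nat_lit 76) (nat_lit 4911027282) (nat_lit 0) (nat_lit 18875130041) (nat_lit 228) (nat_lit 4911027282) (nat_lit 205) (nat_lit 1) (nat_lit 204) (nat_lit 1) (nat_lit 207) (nat_lit 1) (nat_lit 269) (nat_lit 402) (nat_lit 349)) (XT.lf (nat_lit 152) (nat_lit 1409777091) (nat_lit 0) (nat_lit 13396326841) (nat_lit 76) (nat_lit 13396326841) (nat_lit 205) (nat_lit 1) (nat_lit 203)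 (nat_lit 1) (nat_lit 204) (nat_lit 1) (nat_lit 270) (nat_lit 402) (nat_lit 348)))))) (XT.nd (nat_lit 468) (nat_lit 532) (nat_lit 0) (XT.nd (nat_lit 234) (nat_lit 304) (nat_lit 0) (XT.nd (nat_lit 78) (nat_lit 76) (nat_lit 0) (XT.lf (nat_lit 228) (nat_lit 21201533440) (nat_lit 0) (nat_lit 3259085784) (nat_lit 152) (nat_lit 3259085784) (nat_lit 203) (nat_lit 1) (nat_lit 200) (nat_lit 1) (nat_lit 202) (nat_lit 1) (nat_lit 271) (nat_lit 402) (nat_lit 347)) (XT.nd (nat_lit 78) (nat_lit 76) (nat_lit 0) (XT.lf (nat_lit 76) (nat_lit 6442863049) (nat_lit 0) (nat_lit 14356641197) (nat_lit 228) (nat_lit 6442863049) (nat_lit 201) (nat_lit 1) (nat_lit 200) (nat_lit 1) (nat_lit 203) (nat_lit 1) (nat_lit 272) (nat_lit 402) (nat_lit 346)) (XT.lf (nat_lit 152) (nat_lit 4734350852) (nat_lit 0) (nat_lit 11021191245) (nat_lit 76) (nat_lit 11021191245) (nat_lit 201) (nat_lit 1) (nat_lit 199) (nat_lit 1) (nat_lit 200)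 (nat_lit 1) (nat_lit 273) (nat_lit 402) (nat_lit 345)))) (XT.nd (nat_lit 78) (nat_lit 76) (nat_lit 0) (XT.lf (nat_lit 228) (nat_lit 23268313937) (nat_lit 0) (nat_lit 1528185762) (nat_lit 152) (nat_lit 1528185762) (nat_lit 199) (nat_lit 1) (nat_lit 196) (nat_lit 1) (nat_lit 198) (nat_lit 1) (nat_lit 274) (nat_lit 402) (nat_lit 344)) (XT.nd (nat_lit 78) (nat_lit 76) (nat_lit 0) (XT.lf (nat_lit 76) (nat_lit 7588701042) (nat_lit 0) (nat_lit 10695077575) (nat_lit 228) (nat_lit 7588701042) (nat_lit 197) (nat_lit 1) (nat_lit 196) (nat_lit 1) (nat_lit 199) (nat_lit 1) (nat_lit 275) (nat_lit 402) (nat_lit 343)) (XT.lf (nat_lit 152) (nat_lit 7299270496) (nat_lit 0) (nat_lit 9067161312) (nat_lit 76) (nat_lit 9067161312) (nat_lit 197) (nat_lit 1) (nat_lit 195) (nat_lit 1) (nat_lit 196) (nat_lit 1) (nat_lit 276) (nat_lit 402) (nat_lit 342))))) (XT.nd (nat_lit 234) (nat_lit 228) (nat_lit 0) (XT.nd (nat_lit 78)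 (nat_lit 76) (nat_lit 0) (XT.lf (nat_lit 228) (nat_lit 24691242228) (nat_lit 0) (nat_lit 159078230) (nat_lit 152) (nat_lit 159078230) (nat_lit 195) (nat_lit 1) (nat_lit 192) (nat_lit 1) (nat_lit 194) (nat_lit 1) (nat_lit 277) (nat_lit 402) (nat_lit 341)) (XT.nd (nat_lit 78) (nat_lit 76) (nat_lit 0) (XT.lf (nat_lit 76) (nat_lit 8422425667) (nat_lit 0) (nat_lit 7735850916) (nat_lit 228) (nat_lit 8422425667) (nat_lit 193) (nat_lit 1) (nat_lit 192) (nat_lit 1) (nat_lit 195) (nat_lit 1) (nat_lit 278) (nat_lit 402) (nat_lit 340)) (XT.lf (nat_lit 152) (nat_lit 9247326314) (nat_lit 0) (nat_lit 7459576051) (nat_lit 76) (nat_lit 7459576051) (nat_lit 193) (nat_lit 1) (nat_lit 191) (nat_lit 1) (nat_lit 192) (nat_lit 1) (nat_lit 279) (nat_lit 402) (nat_lit 339)))) (XT.nd (nat_lit 156) (nat_lit 76) (nat_lit 0) (XT.nd (nat_lit 78) (nat_lit 152) (nat_lit 0) (XT.lf (nat_lit 0) (nat_lit 929996343) (nat_lit 0) (nat_lit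 21904768006) (nat_lit 152) (nat_lit 929996343) (nat_lit 191) (nat_lit 3) (nat_lit 191) (nat_lit 1) (nat_lit 193) (nat_lit 1) (nat_lit 280) (nat_lit 402) (nat_lit 338)) (XT.lf (nat_lit 76) (nat_lit 9004562383) (nat_lit 0) (nat_lit 5351907624) (nat_lit 152) (nat_lit 9004562383) (nat_lit 190) (nat_lit 1) (nat_lit 189) (nat_lit 1) (nat_lit 191) (nat_lit 1) (nat_lit 281) (nat_lit 402) (nat_lit 337))) (XT.nd (nat_lit 78) (nat_lit 0) (nat_lit 0) (XT.lf (nat_lit 152) (nat_lit 10695606256) (nat_lit 0) (nat_lit 6137011678) (nat_lit 76) (nat_lit 6137011678) (nat_lit 190) (nat_lit 1) (nat_lit 188) (nat_lit 1) (nat_lit 189) (nat_lit 1) (nat_lit 282) (nat_lit 402) (nat_lit 336)) (XT.lf (nat_lit 0) (nat_lit 1777506362) (nat_lit 0) (nat_lit 19033502918) (nat_lit 152) (nat_lit 1777506362) (nat_lit 188) (nat_lit 3) (nat_lit 188) (nat_lit 1) (nat_lit 190) (nat_lit 1) (nat_lit 283) (nat_lit 402) (nat_lit 335)))))))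 (XT.nd (nat_lit 1014) (nat_lit 1064) (nat_lit 0) (XT.nd (nat_lit 468) (nat_lit 532) (nat_lit 0) (XT.nd (nat_lit 234) (nat_lit 228) (nat_lit 0) (XT.nd (nat_lit 78) (nat_lit 76) (nat_lit 0) (XT.lf (nat_lit 76) (nat_lit 9384658559) (nat_lit 0) (nat_lit 3438840914) (nat_lit 152) (nat_lit 9384658559) (nat_lit 187) (nat_lit 1) (nat_lit 186) (nat_lit 1) (nat_lit 188) (nat_lit 1) (nat_lit 284) (nat_lit 402) (nat_lit 334)) (XT.nd (nat_lit 78) (nat_lit 0) (nat_lit 0) (XT.lf (nat_lit 152) (nat_lit 11740071272) (nat_lit 0) (nat_lit 5048934695) (nat_lit 76) (nat_lit 5048934695) (nat_lit 187) (nat_lit 1) (nat_lit 185) (nat_lit 1) (nat_lit 186) (nat_lit 1) (nat_lit 285) (nat_lit 402) (nat_lit 333)) (XT.lf (nat_lit 0) (nat_lit 2426545616) (nat_lit 0) (nat_lit 16623096687) (nat_lit 152) (nat_lit 2426545616) (nat_lit 185) (nat_lit 3) (nat_lit 185) (nat_lit 1) (nat_lit 187) (nat_lit 1) (nat_lit 286) (nat_lit 402)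 (nat_lit 332)))) (XT.nd (nat_lit 78) (nat_lit 76) (nat_lit 0) (XT.lf (nat_lit 76) (nat_lit 9603241634) (nat_lit 0) (nat_lit 1910869851) (nat_lit 152) (nat_lit 9603241634) (nat_lit 184) (nat_lit 1) (nat_lit 183) (nat_lit 1) (nat_lit 185) (nat_lit 1) (nat_lit 287) (nat_lit 402) (nat_lit 331)) (XT.nd (nat_lit 78) (nat_lit 0) (nat_lit 0) (XT.lf (nat_lit 152) (nat_lit 12459318581) (nat_lit 0) (nat_lit 4153771069) (nat_lit 76) (nat_lit 4153771069) (nat_lit 184) (nat_lit 1) (nat_lit 182) (nat_lit 1) (nat_lit 183) (nat_lit 1) (nat_lit 288) (nat_lit 402) (nat_lit 330)) (XT.lf (nat_lit 0) (nat_lit 2914598162) (nat_lit 0) (nat_lit 14594135862) (nat_lit 152) (nat_lit 2914598162) (nat_lit 182) (nat_lit 3) (nat_lit 182) (nat_lit 1) (nat_lit 184) (nat_lit 1) (nat_lit 289) (nat_lit 402) (nat_lit 329))))) (XT.nd (nat_lit 234) (nat_lit 304) (nat_lit 0) (XT.nd (nat_lit 78) (nat_lit 76) (nat_lit 0) (XT.lf (nat_lit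 76) (nat_lit 9693429527) (nat_lit 0) (nat_lit 697531566) (nat_lit 152) (nat_lit 9693429527) (nat_lit 181) (nat_lit 1) (nat_lit 180) (nat_lit 1) (nat_lit 182) (nat_lit 1) (nat_lit 290) (nat_lit 402) (nat_lit 328)) (XT.nd (nat_lit 78) (nat_lit 0) (nat_lit 0) (XT.lf (nat_lit 152) (nat_lit 12917676889) (nat_lit 0) (nat_lit 3417317738) (nat_lit 76) (nat_lit 3417317738) (nat_lit 181) (nat_lit 1) (nat_lit 179) (nat_lit 1) (nat_lit 180) (nat_lit 1) (nat_lit 291) (nat_lit 402) (nat_lit 327)) (XT.lf (nat_lit 0) (nat_lit 3272392911) (nat_lit 0) (nat_lit 12881177481) (nat_lit 152) (nat_lit 3272392911) (nat_lit 179) (nat_lit 3) (nat_lit 179) (nat_lit 1) (nat_lit 181) (nat_lit 1) (nat_lit 292) (nat_lit 402) (nat_lit 326)))) (XT.nd (nat_lit 156) (nat_lit 76) (nat_lit 0) (XT.nd (nat_lit 78) (nat_lit 152) (nat_lit 0) (XT.lf (nat_lit 76) (nat_lit 267604831) (nat_lit 0) (nat_lit 9418828232) (nat_lit 76) (nat_lit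 9418828232) (nat_lit 179) (nat_lit 3) (nat_lit 178) (nat_lit 1) (nat_lit 179) (nat_lit 1) (nat_lit 293) (nat_lit 402) (nat_lit 325)) (XT.lf (nat_lit 152) (nat_lit 13167752038) (nat_lit 0) (nat_lit 2811435760) (nat_lit 76) (nat_lit 2811435760) (nat_lit 178) (nat_lit 1) (nat_lit 176) (nat_lit 1) (nat_lit 177) (nat_lit 1) (nat_lit 294) (nat_lit 402) (nat_lit 324))) (XT.nd (nat_lit 78) (nat_lit 76) (nat_lit 0) (XT.lf (nat_lit 0) (nat_lit 3525106498) (nat_lit 0) (nat_lit 11430277344) (nat_lit 152) (nat_lit 3525106498) (nat_lit 176) (nat_lit 3) (nat_lit 176) (nat_lit 1) (nat_lit 178) (nat_lit 1) (nat_lit 295) (nat_lit 402) (nat_lit 323)) (XT.lf (nat_lit 76) (nat_lit 1039626026) (nat_lit 0) (nat_lit 8568360165) (nat_lit 76) (nat_lit 8568360165) (nat_lit 176) (nat_lit 3) (nat_lit 175) (nat_lit 1) (nat_lit 176) (nat_lit 1) (nat_lit 296) (nat_lit 402) (nat_lit 322)))))) (XT.nd (nat_lit 468) (nat_lit 608)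 (nat_lit 0) (XT.nd (nat_lit 234) (nat_lit 228) (nat_lit 0) (XT.nd (nat_lit 78) (nat_lit 76) (nat_lit 0) (XT.lf (nat_lit 152) (nat_lit 13252520564) (nat_lit 0) (nat_lit 2312975157) (nat_lit 76) (nat_lit 2312975157) (nat_lit 175) (nat_lit 1) (nat_lit 173) (nat_lit 1) (nat_lit 174) (nat_lit 1) (nat_lit 297) (nat_lit 402) (nat_lit 321)) (XT.nd (nat_lit 78) (nat_lit 76) (nat_lit 0) (XT.lf (nat_lit 0) (nat_lit 3693352651) (nat_lit 0) (nat_lit 10196956269) (nat_lit 152) (nat_lit 3693352651) (nat_lit 173) (nat_lit 3) (nat_lit 173) (nat_lit 1) (nat_lit 175) (nat_lit 1) (nat_lit 298) (nat_lit 402) (nat_lit 320)) (XT.lf (nat_lit 76) (nat_lit 1635747541) (nat_lit 0) (nat_lit 7829655749) (nat_lit 76) (nat_lit 7829655749) (nat_lit 173) (nat_lit 3) (nat_lit 172) (nat_lit 1) (nat_lit 173) (nat_lit 1) (nat_lit 299) (nat_lit 402) (nat_lit 319)))) (XT.nd (nat_lit 78) (nat_lit 76) (nat_lit 0) (XT.lf (nat_lit 152)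 (nat_lit 13207051346) (nat_lit 0) (nat_lit 1902890386) (nat_lit 76) (nat_lit 1902890386) (nat_lit 172) (nat_lit 1) (nat_lit 170) (nat_lit 1) (nat_lit 171) (nat_lit 1) (nat_lit 300) (nat_lit 402) (nat_lit 318)) (XT.nd (nat_lit 78) (nat_lit 76) (nat_lit 0) (XT.lf (nat_lit 0) (nat_lit 3793995901) (nat_lit 0) (nat_lit 9144526693) (nat_lit 152) (nat_lit 3793995901) (nat_lit 170) (nat_lit 3) (nat_lit 170) (nat_lit 1) (nat_lit 172) (nat_lit 1) (nat_lit 301) (nat_lit 402) (nat_lit 317)) (XT.lf (nat_lit 76) (nat_lit 2089014157) (nat_lit 0) (nat_lit 7184757768) (nat_lit 76) (nat_lit 7184757768) (nat_lit 170) (nat_lit 3) (nat_lit 169) (nat_lit 1) (nat_lit 170) (nat_lit 1) (nat_lit 302) (nat_lit 402) (nat_lit 316))))) (XT.nd (nat_lit 234) (nat_lit 380) (nat_lit 0) (XT.nd (nat_lit 78) (nat_lit 76) (nat_lit 0) (XT.lf (nat_lit 152) (nat_lit 13059921332) (nat_lit 0) (nat_lit 1565512630) (nat_lit 76) (nat_lit 1565512630)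 (nat_lit 169) (nat_lit 1) (nat_lit 167) (nat_lit 1) (nat_lit 168) (nat_lit 1) (nat_lit 303) (nat_lit 402) (nat_lit 315)) (XT.nd (nat_lit 78) (nat_lit 76) (nat_lit 0) (XT.lf (nat_lit 0) (nat_lit 3840820802) (nat_lit 0) (nat_lit 8242715726) (nat_lit 152) (nat_lit 3840820802) (nat_lit 167) (nat_lit 3) (nat_lit 167) (nat_lit 1) (nat_lit 169) (nat_lit 1) (nat_lit 304) (nat_lit 402) (nat_lit 314)) (XT.lf (nat_lit 76) (nat_lit 2426523409) (nat_lit 0) (nat_lit 6618804289) (nat_lit 76) (nat_lit 6618804289) (nat_lit 167) (nat_lit 3) (nat_lit 166) (nat_lit 1) (nat_lit 167) (nat_lit 1) (nat_lit 305) (nat_lit 402) (nat_lit 313)))) (XT.nd (nat_lit 156) (nat_lit 228) (nat_lit 0) (XT.nd (nat_lit 78) (nat_lit 0) (nat_lit 0) (XT.lf (nat_lit 152) (nat_lit 12834379606) (nat_lit 0) (nat_lit 1287951115) (nat_lit 76) (nat_lit 1287951115) (nat_lit 166) (nat_lit 1) (nat_lit 164) (nat_lit 1) (nat_lit 165) (nat_lit 1) (nat_lit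 306) (nat_lit 402) (nat_lit 312)) (XT.lf (nat_lit 0) (nat_lit 3845082289) (nat_lit 0) (nat_lit 7466532137) (nat_lit 152) (nat_lit 3845082289) (nat_lit 164) (nat_lit 3) (nat_lit 164) (nat_lit 1) (nat_lit 166) (nat_lit 1) (nat_lit 307) (nat_lit 402) (nat_lit 311))) (XT.nd (nat_lit 78) (nat_lit 152) (nat_lit 0) (XT.lf (nat_lit 76) (nat_lit 2670484234) (nat_lit 0) (nat_lit 6119484089) (nat_lit 76) (nat_lit 6119484089) (nat_lit 164) (nat_lit 3) (nat_lit 163) (nat_lit 1) (nat_lit 164) (nat_lit 1) (nat_lit 308) (nat_lit 402) (nat_lit 310)) (XT.lf (nat_lit 152) (nat_lit 12549304440) (nat_lit 0) (nat_lit 1059600569) (nat_lit 76) (nat_lit 1059600569) (nat_lit 163) (nat_lit 1) (nat_lit 161) (nat_lit 1) (nat_lit 162) (nat_lit 1) (nat_lit 309) (nat_lit 402) (nat_lit 309))))))))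
noncomputable def ec266 : XT := (XT.nd (nat_lit 1950) (nat_lit 1900) (nat_lit 0) (XT.nd (nat_lit 936) (nat_lit 912) (nat_lit 0) (XT.nd (nat_lit 468) (nat_lit 456) (nat_lit 0) (XT.nd (nat_lit 234) (nat_lit 228) (nat_lit 0) (XT.nd (nat_lit 78) (nat_lit 228) (nat_lit 0) (XT.lf (nat_lit 0) (nat_lit 3815958248) (nat_lit 0) (nat_lit 6795334000) (nat_lit 152) (nat_lit 3815958248) (nat_lit 161) (nat_lit 3) (nat_lit 161) (nat_lit 1) (nat_lit 163) (nat_lit 1) (nat_lit 310) (nat_lit 402) (nat_lit 308)) (XT.nd (nat_lit 78) (nat_lit 152) (nat_lit 0) (XT.lf (nat_lit 76) (nat_lit 2839087723) (nat_lit 0) (nat_lit 5676588439) (nat_lit 76) (nat_lit 5676588439) (nat_lit 161) (nat_lit 3) (nat_lit 160) (nat_lit 1) (nat_lit 161) (nat_lit 1) (nat_lit 311) (nat_lit 402) (nat_lit 307)) (XT.lf (nat_lit 152) (nat_lit 12219990083) (nat_lit 0) (nat_lit 871736011) (nat_lit 76) (nat_lit 871736011) (nat_lit 160) (nat_lit 1) (nat_lit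 158) (nat_lit 1) (nat_lit 159) (nat_lit 1) (nat_lit 312) (nat_lit 402) (nat_lit 306)))) (XT.nd (nat_lit 78) (nat_lit 228) (nat_lit 0) (XT.lf (nat_lit 0) (nat_lit 3760921659) (nat_lit 0) (nat_lit 6212061464) (nat_lit 152) (nat_lit 3760921659) (nat_lit 158) (nat_lit 3) (nat_lit 158) (nat_lit 1) (nat_lit 160) (nat_lit 1) (nat_lit 313) (nat_lit 402) (nat_lit 305)) (XT.nd (nat_lit 78) (nat_lit 152) (nat_lit 0) (XT.lf (nat_lit 76) (nat_lit 2947223290) (nat_lit 0) (nat_lit 5281642152) (nat_lit 76) (nat_lit 5281642152) (nat_lit 158) (nat_lit 3) (nat_lit 157) (nat_lit 1) (nat_lit 158) (nat_lit 1) (nat_lit 314) (nat_lit 402) (nat_lit 304)) (XT.lf (nat_lit 152) (nat_lit 11858793477) (nat_lit 0) (nat_lit 717179373) (nat_lit 76) (nat_lit 717179373) (nat_lit 157) (nat_lit 1) (nat_lit 155) (nat_lit 1) (nat_lit 156) (nat_lit 1) (nat_lit 315) (nat_lit 402) (nat_lit 303))))) (XT.nd (nat_lit 234) (nat_lit 228) (nat_lit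 0) (XT.nd (nat_lit 78) (nat_lit 228) (nat_lit 0) (XT.lf (nat_lit 0) (nat_lit 3686046571) (nat_lit 0) (nat_lit 5702605354) (nat_lit 152) (nat_lit 3686046571) (nat_lit 155) (nat_lit 3) (nat_lit 155) (nat_lit 1) (nat_lit 157) (nat_lit 1) (nat_lit 316) (nat_lit 402) (nat_lit 302)) (XT.nd (nat_lit 78) (nat_lit 152) (nat_lit 0) (XT.lf (nat_lit 76) (nat_lit 3007067699) (nat_lit 0) (nat_lit 4927599873) (nat_lit 76) (nat_lit 4927599873) (nat_lit 155) (nat_lit 3) (nat_lit 154) (nat_lit 1) (nat_lit 155) (nat_lit 1) (nat_lit 317) (nat_lit 402) (nat_lit 301)) (XT.lf (nat_lit 152) (nat_lit 11475665783) (nat_lit 0) (nat_lit 590025245) (nat_lit 76) (nat_lit 590025245) (nat_lit 154) (nat_lit 1) (nat_lit 152) (nat_lit 1) (nat_lit 153) (nat_lit 1) (nat_lit 318) (nat_lit 402) (nat_lit 300)))) (XT.nd (nat_lit 78) (nat_lit 228) (nat_lit 0) (XT.lf (nat_lit 0) (nat_lit 3596259650) (nat_lit 0) (nat_lit 5255287551) (nat_lit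 152) (nat_lit 3596259650) (nat_lit 152) (nat_lit 3) (nat_lit 152) (nat_lit 1) (nat_lit 154) (nat_lit 1) (nat_lit 319) (nat_lit 402) (nat_lit 299)) (XT.nd (nat_lit 78) (nat_lit 152) (nat_lit 0) (XT.lf (nat_lit 76) (nat_lit 3028569470) (nat_lit 0) (nat_lit 4608596043) (nat_lit 76) (nat_lit 4608596043) (nat_lit 152) (nat_lit 3) (nat_lit 151) (nat_lit 1) (nat_lit 152) (nat_lit 1) (nat_lit 320) (nat_lit 402) (nat_lit 298)) (XT.lf (nat_lit 152) (nat_lit 11078589155) (nat_lit 0) (nat_lit 485415229) (nat_lit 76) (nat_lit 485415229) (nat_lit 151) (nat_lit 1) (nat_lit 149) (nat_lit 1) (nat_lit 150) (nat_lit 1) (nat_lit 321) (nat_lit 402) (nat_lit 297)))))) (XT.nd (nat_lit 468) (nat_lit 456) (nat_lit 0) (XT.nd (nat_lit 234) (nat_lit 228) (nat_lit 0) (XT.nd (nat_lit 78) (nat_lit 228) (nat_lit 0) (XT.lf (nat_lit 0) (nat_lit 3495546965) (nat_lit 0) (nat_lit 4860433325) (nat_lit 152) (nat_lit 3495546965) (nat_lit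 149) (nat_lit 3) (nat_lit 149) (nat_lit 1) (nat_lit 151) (nat_lit 1) (nat_lit 322) (nat_lit 402) (nat_lit 296)) (XT.nd (nat_lit 78) (nat_lit 152) (nat_lit 0) (XT.lf (nat_lit 76) (nat_lit 3019847248) (nat_lit 0) (nat_lit 4319739020) (nat_lit 76) (nat_lit 4319739020) (nat_lit 149) (nat_lit 3) (nat_lit 148) (nat_lit 1) (nat_lit 149) (nat_lit 1) (nat_lit 323) (nat_lit 402) (nat_lit 295)) (XT.lf (nat_lit 152) (nat_lit 10673935587) (nat_lit 0) (nat_lit 399352310) (nat_lit 76) (nat_lit 399352310) (nat_lit 148) (nat_lit 1) (nat_lit 146) (nat_lit 1) (nat_lit 147) (nat_lit 1) (nat_lit 324) (nat_lit 402) (nat_lit 294)))) (XT.nd (nat_lit 78) (nat_lit 228) (nat_lit 0) (XT.lf (nat_lit 0) (nat_lit 3387123949) (nat_lit 0) (nat_lit 4510019335) (nat_lit 152) (nat_lit 3387123949) (nat_lit 146) (nat_lit 3) (nat_lit 146) (nat_lit 1) (nat_lit 148) (nat_lit 1) (nat_lit 325) (nat_lit 402) (nat_lit 293)) (XT.nd (nat_lit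 78) (nat_lit 152) (nat_lit 0) (XT.lf (nat_lit 76) (nat_lit 2987517376) (nat_lit 0) (nat_lit 4056941554) (nat_lit 76) (nat_lit 4056941554) (nat_lit 146) (nat_lit 3) (nat_lit 145) (nat_lit 1) (nat_lit 146) (nat_lit 1) (nat_lit 326) (nat_lit 402) (nat_lit 292)) (XT.lf (nat_lit 152) (nat_lit 10266761673) (nat_lit 0) (nat_lit 328548134) (nat_lit 76) (nat_lit 328548134) (nat_lit 145) (nat_lit 1) (nat_lit 143) (nat_lit 1) (nat_lit 144) (nat_lit 1) (nat_lit 327) (nat_lit 402) (nat_lit 291))))) (XT.nd (nat_lit 234) (nat_lit 228) (nat_lit 0) (XT.nd (nat_lit 78) (nat_lit 228) (nat_lit 0) (XT.lf (nat_lit 0) (nat_lit 3273575075) (nat_lit 0) (nat_lit 4197383888) (nat_lit 152) (nat_lit 3273575075) (nat_lit 143) (nat_lit 3) (nat_lit 143) (nat_lit 1) (nat_lit 145) (nat_lit 1) (nat_lit 328) (nat_lit 402) (nat_lit 290)) (XT.nd (nat_lit 78) (nat_lit 152) (nat_lit 0) (XT.lf (nat_lit 76) (nat_lit 2936963245) (nat_lit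 0) (nat_lit 3816781163) (nat_lit 76) (nat_lit 3816781163) (nat_lit 143) (nat_lit 3) (nat_lit 142) (nat_lit 1) (nat_lit 143) (nat_lit 1) (nat_lit 329) (nat_lit 402) (nat_lit 289)) (XT.lf (nat_lit 152) (nat_lit 9861050664) (nat_lit 0) (nat_lit 270297363) (nat_lit 76) (nat_lit 270297363) (nat_lit 142) (nat_lit 1) (nat_lit 140) (nat_lit 1) (nat_lit 141) (nat_lit 1) (nat_lit 330) (nat_lit 402) (nat_lit 288)))) (XT.nd (nat_lit 156) (nat_lit 152) (nat_lit 0) (XT.nd (nat_lit 78) (nat_lit 76) (nat_lit 0) (XT.lf (nat_lit 0) (nat_lit 3156968620) (nat_lit 0) (nat_lit 3916988417) (nat_lit 152) (nat_lit 3156968620) (nat_lit 140) (nat_lit 3) (nat_lit 140) (nat_lit 1) (nat_lit 142) (nat_lit 1) (nat_lit 331) (nat_lit 402) (nat_lit 287)) (XT.lf (nat_lit 76) (nat_lit 2872556746) (nat_lit 0) (nat_lit 3596385124) (nat_lit 76) (nat_lit 3596385124) (nat_lit 140) (nat_lit 3) (nat_lit 139) (nat_lit 1) (nat_lit 140) (nat_lit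 1) (nat_lit 332) (nat_lit 402) (nat_lit 286))) (XT.nd (nat_lit 78) (nat_lit 0) (nat_lit 0) (XT.lf (nat_lit 152) (nat_lit 9459911193) (nat_lit 0) (nat_lit 222374309) (nat_lit 76) (nat_lit 222374309) (nat_lit 139) (nat_lit 1) (nat_lit 137) (nat_lit 1) (nat_lit 138) (nat_lit 1) (nat_lit 333) (nat_lit 402) (nat_lit 285)) (XT.lf (nat_lit 0) (nat_lit 3038950948) (nat_lit 0) (nat_lit 3664221116) (nat_lit 152) (nat_lit 3038950948) (nat_lit 137) (nat_lit 3) (nat_lit 137) (nat_lit 1) (nat_lit 139) (nat_lit 1) (nat_lit 334) (nat_lit 402) (nat_lit 284))))))) (XT.nd (nat_lit 936) (nat_lit 988) (nat_lit 0) (XT.nd (nat_lit 468) (nat_lit 456) (nat_lit 0) (XT.nd (nat_lit 234) (nat_lit 228) (nat_lit 0) (XT.nd (nat_lit 78) (nat_lit 152) (nat_lit 0) (XT.lf (nat_lit 76) (nat_lit 2797840320) (nat_lit 0) (nat_lit 3393335718) (nat_lit 76) (nat_lit 3393335718) (nat_lit 137) (nat_lit 3) (nat_lit 136) (nat_lit 1) (nat_lit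 137) (nat_lit 1) (nat_lit 335) (nat_lit 402) (nat_lit 283)) (XT.nd (nat_lit 78) (nat_lit 0) (nat_lit 0) (XT.lf (nat_lit 152) (nat_lit 9065740357) (nat_lit 0) (nat_lit 182947894) (nat_lit 76) (nat_lit 182947894) (nat_lit 136) (nat_lit 1) (nat_lit 134) (nat_lit 1) (nat_lit 135) (nat_lit 1) (nat_lit 336) (nat_lit 402) (nat_lit 282)) (XT.lf (nat_lit 0) (nat_lit 2920823943) (nat_lit 0) (nat_lit 3435235258) (nat_lit 152) (nat_lit 2920823943) (nat_lit 134) (nat_lit 3) (nat_lit 134) (nat_lit 1) (nat_lit 136) (nat_lit 1) (nat_lit 337) (nat_lit 402) (nat_lit 281)))) (XT.nd (nat_lit 78) (nat_lit 152) (nat_lit 0) (XT.lf (nat_lit 76) (nat_lit 2715676609) (nat_lit 0) (nat_lit 3205592147) (nat_lit 76) (nat_lit 3205592147) (nat_lit 134) (nat_lit 3) (nat_lit 133) (nat_lit 1) (nat_lit 134) (nat_lit 1) (nat_lit 338) (nat_lit 402) (nat_lit 280)) (XT.nd (nat_lit 78) (nat_lit 0) (nat_lit 0) (XT.lf (nat_lit 152) (nat_lit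 8680357511) (nat_lit 0) (nat_lit 150511685) (nat_lit 76) (nat_lit 150511685) (nat_lit 133) (nat_lit 1) (nat_lit 131) (nat_lit 1) (nat_lit 132) (nat_lit 1) (nat_lit 339) (nat_lit 402) (nat_lit 279)) (XT.lf (nat_lit 0) (nat_lit 2803608589) (nat_lit 0) (nat_lit 3226816051) (nat_lit 152) (nat_lit 2803608589) (nat_lit 131) (nat_lit 3) (nat_lit 131) (nat_lit 1) (nat_lit 133) (nat_lit 1) (nat_lit 340) (nat_lit 402) (nat_lit 278))))) (XT.nd (nat_lit 234) (nat_lit 228) (nat_lit 0) (XT.nd (nat_lit 78) (nat_lit 152) (nat_lit 0) (XT.lf (nat_lit 76) (nat_lit 2628371443) (nat_lit 0) (nat_lit 3031426168) (nat_lit 76) (nat_lit 3031426168) (nat_lit 131) (nat_lit 3) (nat_lit 130) (nat_lit 1) (nat_lit 131) (nat_lit 1) (nat_lit 341) (nat_lit 402) (nat_lit 277)) (XT.nd (nat_lit 78) (nat_lit 0) (nat_lit 0) (XT.lf (nat_lit 152) (nat_lit 8305113971) (nat_lit 0) (nat_lit 123826336) (nat_lit 76) (nat_lit 123826336) (nat_lit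 130) (nat_lit 1) (nat_lit 128) (nat_lit 1) (nat_lit 129) (nat_lit 1) (nat_lit 342) (nat_lit 402) (nat_lit 276)) (XT.lf (nat_lit 0) (nat_lit 2688097156) (nat_lit 0) (nat_lit 3036270982) (nat_lit 152) (nat_lit 2688097156) (nat_lit 128) (nat_lit 3) (nat_lit 128) (nat_lit 1) (nat_lit 130) (nat_lit 1) (nat_lit 343) (nat_lit 402) (nat_lit 275)))) (XT.nd (nat_lit 78) (nat_lit 152) (nat_lit 0) (XT.lf (nat_lit 76) (nat_lit 2537774905) (nat_lit 0) (nat_lit 2869369025) (nat_lit 76) (nat_lit 2869369025) (nat_lit 128) (nat_lit 3) (nat_lit 127) (nat_lit 1) (nat_lit 128) (nat_lit 1) (nat_lit 344) (nat_lit 402) (nat_lit 274)) (XT.nd (nat_lit 78) (nat_lit 0) (nat_lit 0) (XT.lf (nat_lit 152) (nat_lit 7940982927) (nat_lit 0) (nat_lit 101872233) (nat_lit 76) (nat_lit 101872233) (nat_lit 127) (nat_lit 1) (nat_lit 125) (nat_lit 1) (nat_lit 126) (nat_lit 1) (nat_lit 345) (nat_lit 402) (nat_lit 273)) (XT.lf (nat_lit 0)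 (nat_lit 2574896022) (nat_lit 0) (nat_lit 2861339490) (nat_lit 152) (nat_lit 2574896022) (nat_lit 125) (nat_lit 3) (nat_lit 125) (nat_lit 1) (nat_lit 127) (nat_lit 1) (nat_lit 346) (nat_lit 402) (nat_lit 272)))))) (XT.nd (nat_lit 468) (nat_lit 532) (nat_lit 0) (XT.nd (nat_lit 234) (nat_lit 228) (nat_lit 0) (XT.nd (nat_lit 78) (nat_lit 152) (nat_lit 0) (XT.lf (nat_lit 76) (nat_lit 2445364375) (nat_lit 0) (nat_lit 2718167678) (nat_lit 76) (nat_lit 2718167678) (nat_lit 125) (nat_lit 3) (nat_lit 124) (nat_lit 1) (nat_lit 125) (nat_lit 1) (nat_lit 347) (nat_lit 402) (nat_lit 271)) (XT.nd (nat_lit 78) (nat_lit 0) (nat_lit 0) (XT.lf (nat_lit 152) (nat_lit 7588633077) (nat_lit 0) (nat_lit 83810538) (nat_lit 76) (nat_lit 83810538) (nat_lit 124) (nat_lit 1) (nat_lit 122) (nat_lit 1) (nat_lit 123) (nat_lit 1) (nat_lit 348) (nat_lit 402) (nat_lit 270)) (XT.lf (nat_lit 0) (nat_lit 2464460795) (nat_lit 0) (nat_lit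 2700118545) (nat_lit 152) (nat_lit 2464460795) (nat_lit 122) (nat_lit 3) (nat_lit 122) (nat_lit 1) (nat_lit 124) (nat_lit 1) (nat_lit 349) (nat_lit 402) (nat_lit 269)))) (XT.nd (nat_lit 78) (nat_lit 152) (nat_lit 0) (XT.lf (nat_lit 76) (nat_lit 2352312733) (nat_lit 0) (nat_lit 2576748686) (nat_lit 76) (nat_lit 2576748686) (nat_lit 122) (nat_lit 3) (nat_lit 121) (nat_lit 1) (nat_lit 122) (nat_lit 1) (nat_lit 350) (nat_lit 402) (nat_lit 268)) (XT.nd (nat_lit 78) (nat_lit 0) (nat_lit 0) (XT.lf (nat_lit 152) (nat_lit 7248488899) (nat_lit 0) (nat_lit 68951137) (nat_lit 76) (nat_lit 68951137) (nat_lit 121) (nat_lit 1) (nat_lit 119) (nat_lit 1) (nat_lit 120) (nat_lit 1) (nat_lit 351) (nat_lit 402) (nat_lit 267)) (XT.lf (nat_lit 0) (nat_lit 2357125105) (nat_lit 0) (nat_lit 2551001320) (nat_lit 152) (nat_lit 2357125105) (nat_lit 119) (nat_lit 3) (nat_lit 119) (nat_lit 1) (nat_lit 121) (nat_lit 1) (nat_lit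 352) (nat_lit 402) (nat_lit 266))))) (XT.nd (nat_lit 234) (nat_lit 304) (nat_lit 0) (XT.nd (nat_lit 78) (nat_lit 152) (nat_lit 0) (XT.lf (nat_lit 76) (nat_lit 2259544374) (nat_lit 0) (nat_lit 2444188387) (nat_lit 76) (nat_lit 2444188387) (nat_lit 119) (nat_lit 3) (nat_lit 118) (nat_lit 1) (nat_lit 119) (nat_lit 1) (nat_lit 353) (nat_lit 402) (nat_lit 265)) (XT.nd (nat_lit 78) (nat_lit 0) (nat_lit 0) (XT.lf (nat_lit 152) (nat_lit 6920779934) (nat_lit 0) (nat_lit 56726271) (nat_lit 76) (nat_lit 56726271) (nat_lit 118) (nat_lit 1) (nat_lit 116) (nat_lit 1) (nat_lit 117) (nat_lit 1) (nat_lit 354) (nat_lit 402) (nat_lit 264)) (XT.lf (nat_lit 0) (nat_lit 2253124191) (nat_lit 0) (nat_lit 2412626633) (nat_lit 152) (nat_lit 2253124191) (nat_lit 116) (nat_lit 3) (nat_lit 116) (nat_lit 1) (nat_lit 118) (nat_lit 1) (nat_lit 355) (nat_lit 402) (nat_lit 263)))) (XT.nd (nat_lit 156) (nat_lit 76) (nat_lit 0) (XT.nd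 (nat_lit 78) (nat_lit 152) (nat_lit 0) (XT.lf (nat_lit 76) (nat_lit 2167781192) (nat_lit 0) (nat_lit 2319688279) (nat_lit 76) (nat_lit 2319688279) (nat_lit 116) (nat_lit 3) (nat_lit 115) (nat_lit 1) (nat_lit 116) (nat_lit 1) (nat_lit 356) (nat_lit 402) (nat_lit 262)) (XT.lf (nat_lit 152) (nat_lit 6605581043) (nat_lit 0) (nat_lit 46668843) (nat_lit 76) (nat_lit 46668843) (nat_lit 115) (nat_lit 1) (nat_lit 113) (nat_lit 1) (nat_lit 114) (nat_lit 1) (nat_lit 357) (nat_lit 402) (nat_lit 261))) (XT.nd (nat_lit 78) (nat_lit 76) (nat_lit 0) (XT.lf (nat_lit 0) (nat_lit 2152614214) (nat_lit 0) (nat_lit 2283837267) (nat_lit 152) (nat_lit 2152614213) (nat_lit 113) (nat_lit 3) (nat_lit 113) (nat_lit 1) (nat_lit 115) (nat_lit 1) (nat_lit 358) (nat_lit 402) (nat_lit 260)) (XT.lf (nat_lit 76) (nat_lit 2077580327) (nat_lit 0) (nat_lit 2202554664) (nat_lit 76) (nat_lit 2202554664) (nat_lit 113) (nat_lit 3) (nat_lit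 112) (nat_lit 1) (nat_lit 113) (nat_lit 1) (nat_lit 359) (nat_lit 402) (nat_lit 259))))))))
noncomputable def ec267 : XT := (XT.nd (nat_lit 1950) (nat_lit 1900) (nat_lit 0) (XT.nd (nat_lit 936) (nat_lit 1064) (nat_lit 0) (XT.nd (nat_lit 468) (nat_lit 456) (nat_lit 0) (XT.nd (nat_lit 234) (nat_lit 228) (nat_lit 0) (XT.nd (nat_lit 78) (nat_lit 76) (nat_lit 0) (XT.lf (nat_lit 152) (nat_lit 6302845267) (nat_lit 0) (nat_lit 38394573) (nat_lit 76) (nat_lit 38394573) (nat_lit 112) (nat_lit 1) (nat_lit 110) (nat_lit 1) (nat_lit 111) (nat_lit 1) (nat_lit 360) (nat_lit 402) (nat_lit 258)) (XT.nd (nat_lit 78) (nat_lit 76) (nat_lit 0) (XT.lf (nat_lit 0) (nat_lit 2055688055) (nat_lit 0) (nat_lit 2163645586) (nat_lit 152) (nat_lit 2055688055) (nat_lit 110) (nat_lit 3) (nat_lit 110) (nat_lit 1) (nat_lit 112) (nat_lit 1) (nat_lit 361) (nat_lit 402) (nat_lit 257)) (XT.lf (nat_lit 76) (nat_lit 1989365120) (nat_lit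 0) (nat_lit 2092181816) (nat_lit 76) (nat_lit 2092181816) (nat_lit 110) (nat_lit 3) (nat_lit 109) (nat_lit 1) (nat_lit 110) (nat_lit 1) (nat_lit 362) (nat_lit 402) (nat_lit 256)))) (XT.nd (nat_lit 78) (nat_lit 76) (nat_lit 0) (XT.lf (nat_lit 152) (nat_lit 6012430584) (nat_lit 0) (nat_lit 31587310) (nat_lit 76) (nat_lit 31587310) (nat_lit 109) (nat_lit 1) (nat_lit 107) (nat_lit 1) (nat_lit 108) (nat_lit 1) (nat_lit 363) (nat_lit 402) (nat_lit 255)) (XT.nd (nat_lit 78) (nat_lit 76) (nat_lit 0) (XT.lf (nat_lit 0) (nat_lit 1962388236) (nat_lit 0) (nat_lit 2051205163) (nat_lit 152) (nat_lit 1962388236) (nat_lit 107) (nat_lit 3) (nat_lit 107) (nat_lit 1) (nat_lit 109) (nat_lit 1) (nat_lit 364) (nat_lit 402) (nat_lit 254)) (XT.lf (nat_lit 76) (nat_lit 1903450506) (nat_lit 0) (nat_lit 1988038056) (nat_lit 76) (nat_lit 1988038056) (nat_lit 107) (nat_lit 3) (nat_lit 106) (nat_lit 1) (nat_lit 107) (nat_lit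 1) (nat_lit 365) (nat_lit 402) (nat_lit 253))))) (XT.nd (nat_lit 234) (nat_lit 228) (nat_lit 0) (XT.nd (nat_lit 78) (nat_lit 76) (nat_lit 0) (XT.lf (nat_lit 152) (nat_lit 5734121698) (nat_lit 0) (nat_lit 25986958) (nat_lit 76) (nat_lit 25986958) (nat_lit 106) (nat_lit 1) (nat_lit 104) (nat_lit 1) (nat_lit 105) (nat_lit 1) (nat_lit 366) (nat_lit 402) (nat_lit 252)) (XT.nd (nat_lit 78) (nat_lit 76) (nat_lit 0) (XT.lf (nat_lit 0) (nat_lit 1872717454) (nat_lit 0) (nat_lit 1945787360) (nat_lit 152) (nat_lit 1872717454) (nat_lit 104) (nat_lit 3) (nat_lit 104) (nat_lit 1) (nat_lit 106) (nat_lit 1) (nat_lit 367) (nat_lit 402) (nat_lit 251)) (XT.lf (nat_lit 76) (nat_lit 1820063822) (nat_lit 0) (nat_lit 1889654208) (nat_lit 76) (nat_lit 1889654208) (nat_lit 104) (nat_lit 3) (nat_lit 103) (nat_lit 1) (nat_lit 104) (nat_lit 1) (nat_lit 368) (nat_lit 402) (nat_lit 250)))) (XT.nd (nat_lit 78) (nat_lit 76) (nat_lit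 0) (XT.lf (nat_lit 152) (nat_lit 5467647708) (nat_lit 0) (nat_lit 21379535) (nat_lit 76) (nat_lit 21379535) (nat_lit 103) (nat_lit 1) (nat_lit 101) (nat_lit 1) (nat_lit 102) (nat_lit 1) (nat_lit 369) (nat_lit 402) (nat_lit 249)) (XT.nd (nat_lit 78) (nat_lit 76) (nat_lit 0) (XT.lf (nat_lit 0) (nat_lit 1786647184) (nat_lit 0) (nat_lit 1846761977) (nat_lit 152) (nat_lit 1786647184) (nat_lit 101) (nat_lit 3) (nat_lit 101) (nat_lit 1) (nat_lit 103) (nat_lit 1) (nat_lit 370) (nat_lit 402) (nat_lit 248)) (XT.lf (nat_lit 76) (nat_lit 1739361848) (nat_lit 0) (nat_lit 1796614031) (nat_lit 76) (nat_lit 1796614031) (nat_lit 101) (nat_lit 3) (nat_lit 100) (nat_lit 1) (nat_lit 101) (nat_lit 1) (nat_lit 371) (nat_lit 402) (nat_lit 247)))))) (XT.nd (nat_lit 468) (nat_lit 608) (nat_lit 0) (XT.nd (nat_lit 234) (nat_lit 228) (nat_lit 0) (XT.nd (nat_lit 78) (nat_lit 76) (nat_lit 0) (XT.lf (nat_lit 152) (nat_lit 5212696441)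 (nat_lit 0) (nat_lit 17588996) (nat_lit 76) (nat_lit 17588996) (nat_lit 100) (nat_lit 1) (nat_lit 98) (nat_lit 1) (nat_lit 99) (nat_lit 1) (nat_lit 372) (nat_lit 402) (nat_lit 246)) (XT.nd (nat_lit 78) (nat_lit 76) (nat_lit 0) (XT.lf (nat_lit 0) (nat_lit 1704124680) (nat_lit 0) (nat_lit 1753581268) (nat_lit 152) (nat_lit 1704124680) (nat_lit 98) (nat_lit 3) (nat_lit 98) (nat_lit 1) (nat_lit 100) (nat_lit 1) (nat_lit 373) (nat_lit 402) (nat_lit 245)) (XT.lf (nat_lit 76) (nat_lit 1661444761) (nat_lit 0) (nat_lit 1708546274) (nat_lit 76) (nat_lit 1708546274) (nat_lit 98) (nat_lit 3) (nat_lit 97) (nat_lit 1) (nat_lit 98) (nat_lit 1) (nat_lit 374) (nat_lit 402) (nat_lit 244)))) (XT.nd (nat_lit 78) (nat_lit 76) (nat_lit 0) (XT.lf (nat_lit 152) (nat_lit 4968926014) (nat_lit 0) (nat_lit 14470510) (nat_lit 76) (nat_lit 14470510) (nat_lit 97) (nat_lit 1) (nat_lit 95) (nat_lit 1) (nat_lit 96) (nat_lit 1)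 (nat_lit 375) (nat_lit 402) (nat_lit 243)) (XT.nd (nat_lit 78) (nat_lit 76) (nat_lit 0) (XT.lf (nat_lit 0) (nat_lit 1625078657) (nat_lit 0) (nat_lit 1665766715) (nat_lit 152) (nat_lit 1625078657) (nat_lit 95) (nat_lit 3) (nat_lit 95) (nat_lit 1) (nat_lit 97) (nat_lit 1) (nat_lit 376) (nat_lit 402) (nat_lit 242)) (XT.lf (nat_lit 76) (nat_lit 1586367540) (nat_lit 0) (nat_lit 1625118071) (nat_lit 76) (nat_lit 1625118071) (nat_lit 95) (nat_lit 3) (nat_lit 94) (nat_lit 1) (nat_lit 95) (nat_lit 1) (nat_lit 377) (nat_lit 402) (nat_lit 241))))) (XT.nd (nat_lit 234) (nat_lit 380) (nat_lit 0) (XT.nd (nat_lit 78) (nat_lit 76) (nat_lit 0) (XT.lf (nat_lit 152) (nat_lit 4735974160) (nat_lit 0) (nat_lit 11904925) (nat_lit 76) (nat_lit 11904925) (nat_lit 94) (nat_lit 1) (nat_lit 92) (nat_lit 1) (nat_lit 93) (nat_lit 1) (nat_lit 378) (nat_lit 402) (nat_lit 240)) (XT.nd (nat_lit 78) (nat_lit 76) (nat_lit 0) (XT.lf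 (nat_lit 0) (nat_lit 1549423915) (nat_lit 0) (nat_lit 1582898081) (nat_lit 152) (nat_lit 1549423915) (nat_lit 92) (nat_lit 3) (nat_lit 92) (nat_lit 1) (nat_lit 94) (nat_lit 1) (nat_lit 379) (nat_lit 402) (nat_lit 239)) (XT.lf (nat_lit 76) (nat_lit 1514149285) (nat_lit 0) (nat_lit 1546029443) (nat_lit 76) (nat_lit 1546029443) (nat_lit 92) (nat_lit 3) (nat_lit 91) (nat_lit 1) (nat_lit 92) (nat_lit 1) (nat_lit 380) (nat_lit 402) (nat_lit 238)))) (XT.nd (nat_lit 156) (nat_lit 228) (nat_lit 0) (XT.nd (nat_lit 78) (nat_lit 0) (nat_lit 0) (XT.lf (nat_lit 152) (nat_lit 4513465691) (nat_lit 0) (nat_lit 9794211) (nat_lit 76) (nat_lit 9794211) (nat_lit 91) (nat_lit 1) (nat_lit 89) (nat_lit 1) (nat_lit 90) (nat_lit 1) (nat_lit 381) (nat_lit 402) (nat_lit 237)) (XT.lf (nat_lit 0) (nat_lit 1477065063) (nat_lit 0) (nat_lit 1504604342) (nat_lit 152) (nat_lit 1477065063) (nat_lit 89) (nat_lit 3) (nat_lit 89) (nat_lit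 1) (nat_lit 91) (nat_lit 1) (nat_lit 382) (nat_lit 402) (nat_lit 236))) (XT.nd (nat_lit 78) (nat_lit 152) (nat_lit 0) (XT.lf (nat_lit 76) (nat_lit 1444780825) (nat_lit 0) (nat_lit 1471008710) (nat_lit 76) (nat_lit 1471008710) (nat_lit 89) (nat_lit 3) (nat_lit 88) (nat_lit 1) (nat_lit 89) (nat_lit 1) (nat_lit 383) (nat_lit 402) (nat_lit 235)) (XT.lf (nat_lit 152) (nat_lit 4301018469) (nat_lit 0) (nat_lit 8057721) (nat_lit 76) (nat_lit 8057721) (nat_lit 88) (nat_lit 1) (nat_lit 86) (nat_lit 1) (nat_lit 87) (nat_lit 1) (nat_lit 384) (nat_lit 402) (nat_lit 234))))))) (XT.nd (nat_lit 1014) (nat_lit 988) (nat_lit 0) (XT.nd (nat_lit 468) (nat_lit 456) (nat_lit 0) (XT.nd (nat_lit 234) (nat_lit 228) (nat_lit 0) (XT.nd (nat_lit 78) (nat_lit 228) (nat_lit 0) (XT.lf (nat_lit 0) (nat_lit 1407899534) (nat_lit 0) (nat_lit 1430556167) (nat_lit 152) (nat_lit 1407899534) (nat_lit 86) (nat_lit 3) (nat_lit 86) (nat_lit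 1) (nat_lit 88) (nat_lit 1) (nat_lit 385) (nat_lit 402) (nat_lit 233)) (XT.nd (nat_lit 78) (nat_lit 152) (nat_lit 0) (XT.lf (nat_lit 76) (nat_lit 1378230914) (nat_lit 0) (nat_lit 1399808659) (nat_lit 76) (nat_lit 1399808659) (nat_lit 86) (nat_lit 3) (nat_lit 85) (nat_lit 1) (nat_lit 86) (nat_lit 1) (nat_lit 386) (nat_lit 402) (nat_lit 232)) (XT.lf (nat_lit 152) (nat_lit 4098248134) (nat_lit 0) (nat_lit 6629107) (nat_lit 76) (nat_lit 6629107) (nat_lit 85) (nat_lit 1) (nat_lit 83) (nat_lit 1) (nat_lit 84) (nat_lit 1) (nat_lit 387) (nat_lit 402) (nat_lit 231)))) (XT.nd (nat_lit 78) (nat_lit 228) (nat_lit 0) (XT.lf (nat_lit 0) (nat_lit 1341820003) (nat_lit 0) (nat_lit 1360459671) (nat_lit 152) (nat_lit 1341820003) (nat_lit 83) (nat_lit 3) (nat_lit 83) (nat_lit 1) (nat_lit 85) (nat_lit 1) (nat_lit 388) (nat_lit 402) (nat_lit 230)) (XT.nd (nat_lit 78) (nat_lit 152) (nat_lit 0) (XT.lf (nat_lit 76) (nat_lit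 1314451272) (nat_lit 0) (nat_lit 1332203337) (nat_lit 76) (nat_lit 1332203337) (nat_lit 83) (nat_lit 3) (nat_lit 82) (nat_lit 1) (nat_lit 83) (nat_lit 1) (nat_lit 389) (nat_lit 402) (nat_lit 229)) (XT.lf (nat_lit 152) (nat_lit 3904771831) (nat_lit 0) (nat_lit 5453783) (nat_lit 76) (nat_lit 5453783) (nat_lit 82) (nat_lit 1) (nat_lit 80) (nat_lit 1) (nat_lit 81) (nat_lit 1) (nat_lit 390) (nat_lit 402) (nat_lit 228))))) (XT.nd (nat_lit 234) (nat_lit 228) (nat_lit 0) (XT.nd (nat_lit 78) (nat_lit 228) (nat_lit 0) (XT.lf (nat_lit 0) (nat_lit 1278716325) (nat_lit 0) (nat_lit 1294051226) (nat_lit 152) (nat_lit 1278716325) (nat_lit 80) (nat_lit 3) (nat_lit 80) (nat_lit 1) (nat_lit 82) (nat_lit 1) (nat_lit 391) (nat_lit 402) (nat_lit 227)) (XT.nd (nat_lit 78) (nat_lit 152) (nat_lit 0) (XT.lf (nat_lit 76) (nat_lit 1253380685) (nat_lit 0) (nat_lit 1267985353) (nat_lit 76) (nat_lit 1267985353) (nat_lit 80)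 (nat_lit 3) (nat_lit 79) (nat_lit 1) (nat_lit 80) (nat_lit 1) (nat_lit 392) (nat_lit 402) (nat_lit 226)) (XT.lf (nat_lit 152) (nat_lit 3720211113) (nat_lit 0) (nat_lit 4486841) (nat_lit 76) (nat_lit 4486841) (nat_lit 79) (nat_lit 1) (nat_lit 77) (nat_lit 1) (nat_lit 78) (nat_lit 1) (nat_lit 393) (nat_lit 402) (nat_lit 225)))) (XT.nd (nat_lit 156) (nat_lit 152) (nat_lit 0) (XT.nd (nat_lit 78) (nat_lit 76) (nat_lit 0) (XT.lf (nat_lit 0) (nat_lit 1218477074) (nat_lit 0) (nat_lit 1231093135) (nat_lit 152) (nat_lit 1218477074) (nat_lit 77) (nat_lit 3) (nat_lit 77) (nat_lit 1) (nat_lit 79) (nat_lit 1) (nat_lit 394) (nat_lit 402) (nat_lit 224)) (XT.lf (nat_lit 76) (nat_lit 1194948316) (nat_lit 0) (nat_lit 1206963612) (nat_lit 76) (nat_lit 1206963612) (nat_lit 77) (nat_lit 3) (nat_lit 76) (nat_lit 1) (nat_lit 77) (nat_lit 1) (nat_lit 395) (nat_lit 402) (nat_lit 223))) (XT.nd (nat_lit 78) (nat_lit 0) (nat_lit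 0) (XT.lf (nat_lit 152) (nat_lit 3544194190) (nat_lit 0) (nat_lit 3691335) (nat_lit 76) (nat_lit 3691335) (nat_lit 76) (nat_lit 1) (nat_lit 74) (nat_lit 1) (nat_lit 75) (nat_lit 1) (nat_lit 396) (nat_lit 402) (nat_lit 222)) (XT.lf (nat_lit 0) (nat_lit 1160990760) (nat_lit 0) (nat_lit 1171370024) (nat_lit 152) (nat_lit 1160990760) (nat_lit 74) (nat_lit 3) (nat_lit 74) (nat_lit 1) (nat_lit 76) (nat_lit 1) (nat_lit 397) (nat_lit 402) (nat_lit 221)))))) (XT.nd (nat_lit 468) (nat_lit 532) (nat_lit 0) (XT.nd (nat_lit 234) (nat_lit 228) (nat_lit 0) (XT.nd (nat_lit 78) (nat_lit 152) (nat_lit 0) (XT.lf (nat_lit 76) (nat_lit 1139076388) (nat_lit 0) (nat_lit 1148961402) (nat_lit 76) (nat_lit 1148961402) (nat_lit 74) (nat_lit 3) (nat_lit 73) (nat_lit 1) (nat_lit 74) (nat_lit 1) (nat_lit 398) (nat_lit 402) (nat_lit 220)) (XT.nd (nat_lit 78) (nat_lit 0) (nat_lit 0) (XT.lf (nat_lit 152) (nat_lit 3376357617) (nat_lit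 0) (nat_lit 3036870) (nat_lit 76) (nat_lit 3036870) (nat_lit 73) (nat_lit 1) (nat_lit 71) (nat_lit 1) (nat_lit 72) (nat_lit 1) (nat_lit 399) (nat_lit 402) (nat_lit 219)) (XT.lf (nat_lit 0) (nat_lit 1106146786) (nat_lit 0) (nat_lit 1114685833) (nat_lit 152) (nat_lit 1106146786) (nat_lit 71) (nat_lit 3) (nat_lit 71) (nat_lit 1) (nat_lit 73) (nat_lit 1) (nat_lit 400) (nat_lit 402) (nat_lit 218)))) (XT.nd (nat_lit 78) (nat_lit 152) (nat_lit 0) (XT.lf (nat_lit 76) (nat_lit 1085682346) (nat_lit 0) (nat_lit 1093814771) (nat_lit 76) (nat_lit 1093814771) (nat_lit 71) (nat_lit 3) (nat_lit 70) (nat_lit 1) (nat_lit 71) (nat_lit 1) (nat_lit 401) (nat_lit 402) (nat_lit 217)) (XT.nd (nat_lit 78) (nat_lit 0) (nat_lit 0) (XT.lf (nat_lit 152) (nat_lit 3216347563) (nat_lit 0) (nat_lit 2498441) (nat_lit 76) (nat_lit 2498441) (nat_lit 70) (nat_lit 1) (nat_lit 68) (nat_lit 1) (nat_lit 69) (nat_lit 1) (nat_lit 402) (nat_lit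 402) (nat_lit 216)) (XT.lf (nat_lit 0) (nat_lit 1053836189) (nat_lit 0) (nat_lit 1060861284) (nat_lit 152) (nat_lit 1053836189) (nat_lit 68) (nat_lit 3) (nat_lit 68) (nat_lit 1) (nat_lit 70) (nat_lit 1) (nat_lit 403) (nat_lit 402) (nat_lit 215))))) (XT.nd (nat_lit 234) (nat_lit 304) (nat_lit 0) (XT.nd (nat_lit 78) (nat_lit 152) (nat_lit 0) (XT.lf (nat_lit 76) (nat_lit 1034680584) (nat_lit 0) (nat_lit 1041371150) (nat_lit 76) (nat_lit 1041371150) (nat_lit 68) (nat_lit 3) (nat_lit 67) (nat_lit 1) (nat_lit 68) (nat_lit 1) (nat_lit 404) (nat_lit 402) (nat_lit 214)) (XT.nd (nat_lit 78) (nat_lit 0) (nat_lit 0) (XT.lf (nat_lit 152) (nat_lit 3063820715) (nat_lit 0) (nat_lit 2055473) (nat_lit 76) (nat_lit 2055473) (nat_lit 67) (nat_lit 1) (nat_lit 65) (nat_lit 1) (nat_lit 66) (nat_lit 1) (nat_lit 405) (nat_lit 402) (nat_lit 213)) (XT.lf (nat_lit 0) (nat_lit 1003952203) (nat_lit 0) (nat_lit 1009731766) (nat_lit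 152) (nat_lit 1003952203) (nat_lit 65) (nat_lit 3) (nat_lit 65) (nat_lit 1) (nat_lit 67) (nat_lit 1) (nat_lit 406) (nat_lit 402) (nat_lit 212)))) (XT.nd (nat_lit 156) (nat_lit 76) (nat_lit 0) (XT.nd (nat_lit 78) (nat_lit 152) (nat_lit 0) (XT.lf (nat_lit 76) (nat_lit 985983830) (nat_lit 0) (nat_lit 991488176) (nat_lit 76) (nat_lit 991488176) (nat_lit 65) (nat_lit 3) (nat_lit 64) (nat_lit 1) (nat_lit 65) (nat_lit 1) (nat_lit 407) (nat_lit 402) (nat_lit 211)) (XT.lf (nat_lit 152) (nat_lit 2918444899) (nat_lit 0) (nat_lit 1691043) (nat_lit 76) (nat_lit 1691043) (nat_lit 64) (nat_lit 1) (nat_lit 62) (nat_lit 1) (nat_lit 63) (nat_lit 1) (nat_lit 408) (nat_lit 402) (nat_lit 210))) (XT.nd (nat_lit 78) (nat_lit 76) (nat_lit 0) (XT.lf (nat_lit 0) (nat_lit 956390688) (nat_lit 0) (nat_lit 961145548) (nat_lit 152) (nat_lit 956390688) (nat_lit 62) (nat_lit 3) (nat_lit 62) (nat_lit 1) (nat_lit 64) (nat_lit 1)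 (nat_lit 409) (nat_lit 402) (nat_lit 209)) (XT.lf (nat_lit 76) (nat_lit 939504245) (nat_lit 0) (nat_lit 944032684) (nat_lit 76) (nat_lit 944032684) (nat_lit 62) (nat_lit 3) (nat_lit 61) (nat_lit 1) (nat_lit 62) (nat_lit 1) (nat_lit 410) (nat_lit 402) (nat_lit 208))))))))
noncomputable def ec268 : XT := (XT.nd (nat_lit 1950) (nat_lit 684) (nat_lit 0) (XT.nd (nat_lit 936) (nat_lit 1064) (nat_lit 0) (XT.nd (nat_lit 468) (nat_lit 456) (nat_lit 0) (XT.nd (nat_lit 234) (nat_lit 228) (nat_lit 0) (XT.nd (nat_lit 78) (nat_lit 76) (nat_lit 0) (XT.lf (nat_lit 152) (nat_lit 2779899473) (nat_lit 0) (nat_lit 1391225) (nat_lit 76) (nat_lit 1391225) (nat_lit 61) (nat_lit 1) (nat_lit 59) (nat_lit 1) (nat_lit 60) (nat_lit 1) (nat_lit 411) (nat_lit 402) (nat_lit 207)) (XT.nd (nat_lit 78) (nat_lit 76) (nat_lit 0) (XT.lf (nat_lit 0) (nat_lit 911050439) (nat_lit 0) (nat_lit 914962275) (nat_lit 152) (nat_lit 911050439)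 (nat_lit 59) (nat_lit 3) (nat_lit 59) (nat_lit 1) (nat_lit 61) (nat_lit 1) (nat_lit 412) (nat_lit 402) (nat_lit 206)) (XT.lf (nat_lit 76) (nat_lit 895154284) (nat_lit 0) (nat_lit 898879842) (nat_lit 76) (nat_lit 898879842) (nat_lit 59) (nat_lit 3) (nat_lit 58) (nat_lit 1) (nat_lit 59) (nat_lit 1) (nat_lit 413) (nat_lit 402) (nat_lit 205)))) (XT.nd (nat_lit 78) (nat_lit 76) (nat_lit 0) (XT.lf (nat_lit 152) (nat_lit 2647875541) (nat_lit 0) (nat_lit 1144564) (nat_lit 76) (nat_lit 1144564) (nat_lit 58) (nat_lit 1) (nat_lit 56) (nat_lit 1) (nat_lit 57) (nat_lit 1) (nat_lit 414) (nat_lit 402) (nat_lit 204)) (XT.nd (nat_lit 78) (nat_lit 76) (nat_lit 0) (XT.lf (nat_lit 0) (nat_lit 867833406) (nat_lit 0) (nat_lit 871051683) (nat_lit 152) (nat_lit 867833406) (nat_lit 56) (nat_lit 3) (nat_lit 56) (nat_lit 1) (nat_lit 58) (nat_lit 1) (nat_lit 415) (nat_lit 402) (nat_lit 203)) (XT.lf (nat_lit 76) (nat_lit 852847375)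 (nat_lit 0) (nat_lit 855912401) (nat_lit 76) (nat_lit 855912401) (nat_lit 56) (nat_lit 3) (nat_lit 55) (nat_lit 1) (nat_lit 56) (nat_lit 1) (nat_lit 416) (nat_lit 402) (nat_lit 202))))) (XT.nd (nat_lit 234) (nat_lit 228) (nat_lit 0) (XT.nd (nat_lit 78) (nat_lit 76) (nat_lit 0) (XT.lf (nat_lit 152) (nat_lit 2522076012) (nat_lit 0) (nat_lit 941636) (nat_lit 76) (nat_lit 941636) (nat_lit 55) (nat_lit 1) (nat_lit 53) (nat_lit 1) (nat_lit 54) (nat_lit 1) (nat_lit 417) (nat_lit 402) (nat_lit 201)) (XT.nd (nat_lit 78) (nat_lit 76) (nat_lit 0) (XT.lf (nat_lit 0) (nat_lit 826644839) (nat_lit 0) (nat_lit 829292524) (nat_lit 152) (nat_lit 826644839) (nat_lit 53) (nat_lit 3) (nat_lit 53) (nat_lit 1) (nat_lit 55) (nat_lit 1) (nat_lit 418) (nat_lit 402) (nat_lit 200)) (XT.lf (nat_lit 76) (nat_lit 812498437) (nat_lit 0) (nat_lit 815020041) (nat_lit 76) (nat_lit 815020041) (nat_lit 53) (nat_lit 3) (nat_lit 52)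 (nat_lit 1) (nat_lit 53) (nat_lit 1) (nat_lit 419) (nat_lit 402) (nat_lit 199)))) (XT.nd (nat_lit 78) (nat_lit 76) (nat_lit 0) (XT.lf (nat_lit 152) (nat_lit 2402215560) (nat_lit 0) (nat_lit 774686) (nat_lit 76) (nat_lit 774686) (nat_lit 52) (nat_lit 1) (nat_lit 50) (nat_lit 1) (nat_lit 51) (nat_lit 1) (nat_lit 420) (nat_lit 402) (nat_lit 198)) (XT.nd (nat_lit 78) (nat_lit 76) (nat_lit 0) (XT.lf (nat_lit 0) (nat_lit 787393372) (nat_lit 0) (nat_lit 789571629) (nat_lit 152) (nat_lit 787393372) (nat_lit 50) (nat_lit 3) (nat_lit 50) (nat_lit 1) (nat_lit 52) (nat_lit 1) (nat_lit 421) (nat_lit 402) (nat_lit 197)) (XT.lf (nat_lit 76) (nat_lit 774024276) (nat_lit 0) (nat_lit 776098806) (nat_lit 76) (nat_lit 776098806) (nat_lit 50) (nat_lit 3) (nat_lit 49) (nat_lit 1) (nat_lit 50) (nat_lit 1) (nat_lit 422) (nat_lit 402) (nat_lit 196)))))) (XT.nd (nat_lit 468) (nat_lit 608) (nat_lit 0) (XT.nd (nat_lit 234)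 (nat_lit 228) (nat_lit 0) (XT.nd (nat_lit 78) (nat_lit 76) (nat_lit 0) (XT.lf (nat_lit 152) (nat_lit 2288020479) (nat_lit 0) (nat_lit 637336) (nat_lit 76) (nat_lit 637336) (nat_lit 49) (nat_lit 1) (nat_lit 47) (nat_lit 1) (nat_lit 48) (nat_lit 1) (nat_lit 423) (nat_lit 402) (nat_lit 195)) (XT.nd (nat_lit 78) (nat_lit 76) (nat_lit 0) (XT.lf (nat_lit 0) (nat_lit 749991064) (nat_lit 0) (nat_lit 751783121) (nat_lit 152) (nat_lit 749991064) (nat_lit 47) (nat_lit 3) (nat_lit 47) (nat_lit 1) (nat_lit 49) (nat_lit 1) (nat_lit 424) (nat_lit 402) (nat_lit 194)) (XT.lf (nat_lit 76) (nat_lit 737343879) (nat_lit 0) (nat_lit 739050600) (nat_lit 76) (nat_lit 739050600) (nat_lit 47) (nat_lit 3) (nat_lit 46) (nat_lit 1) (nat_lit 47) (nat_lit 1) (nat_lit 425) (nat_lit 402) (nat_lit 193)))) (XT.nd (nat_lit 78) (nat_lit 76) (nat_lit 0) (XT.lf (nat_lit 152) (nat_lit 2179228485) (nat_lit 0) (nat_lit 524338) (nat_lit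 76) (nat_lit 524338) (nat_lit 46) (nat_lit 1) (nat_lit 44) (nat_lit 1) (nat_lit 45) (nat_lit 1) (nat_lit 426) (nat_lit 402) (nat_lit 192)) (XT.nd (nat_lit 78) (nat_lit 76) (nat_lit 0) (XT.lf (nat_lit 0) (nat_lit 714353397) (nat_lit 0) (nat_lit 715827727) (nat_lit 152) (nat_lit 714353397) (nat_lit 44) (nat_lit 3) (nat_lit 44) (nat_lit 1) (nat_lit 46) (nat_lit 1) (nat_lit 427) (nat_lit 402) (nat_lit 191)) (XT.lf (nat_lit 76) (nat_lit 702378625) (nat_lit 0) (nat_lit 703782749) (nat_lit 76) (nat_lit 703782749) (nat_lit 44) (nat_lit 3) (nat_lit 43) (nat_lit 1) (nat_lit 44) (nat_lit 1) (nat_lit 428) (nat_lit 402) (nat_lit 190))))) (XT.nd (nat_lit 234) (nat_lit 380) (nat_lit 0) (XT.nd (nat_lit 78) (nat_lit 76) (nat_lit 0) (XT.lf (nat_lit 152) (nat_lit 2075588453) (nat_lit 0) (nat_lit 431374) (nat_lit 76) (nat_lit 431374) (nat_lit 43) (nat_lit 1) (nat_lit 41) (nat_lit 1) (nat_lit 42) (nat_lit 1) (nat_lit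 429) (nat_lit 402) (nat_lit 189)) (XT.nd (nat_lit 78) (nat_lit 76) (nat_lit 0) (XT.lf (nat_lit 0) (nat_lit 680399254) (nat_lit 0) (nat_lit 681612189) (nat_lit 152) (nat_lit 680399254) (nat_lit 41) (nat_lit 3) (nat_lit 41) (nat_lit 1) (nat_lit 43) (nat_lit 1) (nat_lit 430) (nat_lit 402) (nat_lit 188)) (XT.lf (nat_lit 76) (nat_lit 669052435) (nat_lit 0) (nat_lit 670207611) (nat_lit 76) (nat_lit 670207611) (nat_lit 41) (nat_lit 3) (nat_lit 40) (nat_lit 1) (nat_lit 41) (nat_lit 1) (nat_lit 431) (nat_lit 402) (nat_lit 187)))) (XT.nd (nat_lit 156) (nat_lit 228) (nat_lit 0) (XT.nd (nat_lit 78) (nat_lit 0) (nat_lit 0) (XT.lf (nat_lit 152) (nat_lit 1976860124) (nat_lit 0) (nat_lit 354892) (nat_lit 76) (nat_lit 354892) (nat_lit 40) (nat_lit 1) (nat_lit 38) (nat_lit 1) (nat_lit 39) (nat_lit 1) (nat_lit 432) (nat_lit 402) (nat_lit 186)) (XT.lf (nat_lit 0) (nat_lit 648050860) (nat_lit 0) (nat_lit 649048745)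 (nat_lit 152) (nat_lit 648050860) (nat_lit 38) (nat_lit 3) (nat_lit 38) (nat_lit 1) (nat_lit 40) (nat_lit 1) (nat_lit 433) (nat_lit 402) (nat_lit 185))) (XT.nd (nat_lit 78) (nat_lit 152) (nat_lit 0) (XT.lf (nat_lit 76) (nat_lit 637291857) (nat_lit 0) (nat_lit 638242223) (nat_lit 76) (nat_lit 638242223) (nat_lit 38) (nat_lit 3) (nat_lit 37) (nat_lit 1) (nat_lit 38) (nat_lit 1) (nat_lit 434) (nat_lit 402) (nat_lit 184)) (XT.lf (nat_lit 152) (nat_lit 1882813780) (nat_lit 0) (nat_lit 291971) (nat_lit 76) (nat_lit 291971) (nat_lit 37) (nat_lit 1) (nat_lit 35) (nat_lit 1) (nat_lit 36) (nat_lit 1) (nat_lit 435) (nat_lit 402) (nat_lit 183))))))) (XT.nd (nat_lit 35958) (nat_lit 0) (nat_lit 18924) (XT.nd (nat_lit 468) (nat_lit 228) (nat_lit 0) (XT.nd (nat_lit 234) (nat_lit 228) (nat_lit 0) (XT.nd (nat_lit 78) (nat_lit 228) (nat_lit 0) (XT.lf (nat_lit 0) (nat_lit 617233723) (nat_lit 0) (nat_lit 618054685)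 (nat_lit 152) (nat_lit 617233723) (nat_lit 35) (nat_lit 3) (nat_lit 35) (nat_lit 1) (nat_lit 37) (nat_lit 1) (nat_lit 436) (nat_lit 402) (nat_lit 182)) (XT.nd (nat_lit 78) (nat_lit 152) (nat_lit 0) (XT.lf (nat_lit 76) (nat_lit 607026125) (nat_lit 0) (nat_lit 607807993) (nat_lit 76) (nat_lit 607807993) (nat_lit 35) (nat_lit 3) (nat_lit 34) (nat_lit 1) (nat_lit 35) (nat_lit 1) (nat_lit 437) (nat_lit 402) (nat_lit 181)) (XT.lf (nat_lit 152) (nat_lit 1793229902) (nat_lit 0) (nat_lit 240205) (nat_lit 76) (nat_lit 240205) (nat_lit 34) (nat_lit 1) (nat_lit 32) (nat_lit 1) (nat_lit 33) (nat_lit 1) (nat_lit 438) (nat_lit 402) (nat_lit 180)))) (XT.nd (nat_lit 78) (nat_lit 228) (nat_lit 0) (XT.lf (nat_lit 0) (nat_lit 587876546) (nat_lit 0) (nat_lit 588551954) (nat_lit 152) (nat_lit 587876546) (nat_lit 32) (nat_lit 3) (nat_lit 32) (nat_lit 1) (nat_lit 34) (nat_lit 1) (nat_lit 439) (nat_lit 402) (nat_lit 179))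 (XT.nd (nat_lit 78) (nat_lit 152) (nat_lit 0) (XT.lf (nat_lit 76) (nat_lit 578187168) (nat_lit 0) (nat_lit 578830413) (nat_lit 76) (nat_lit 578830413) (nat_lit 32) (nat_lit 3) (nat_lit 31) (nat_lit 1) (nat_lit 32) (nat_lit 1) (nat_lit 440) (nat_lit 402) (nat_lit 178)) (XT.lf (nat_lit 152) (nat_lit 1707898818) (nat_lit 0) (nat_lit 197617) (nat_lit 76) (nat_lit 197617) (nat_lit 31) (nat_lit 1) (nat_lit 29) (nat_lit 1) (nat_lit 30) (nat_lit 1) (nat_lit 441) (nat_lit 402) (nat_lit 177))))) (XT.nd (nat_lit 234) (nat_lit 0) (nat_lit 0) (XT.nd (nat_lit 78) (nat_lit 228) (nat_lit 0) (XT.lf (nat_lit 0) (nat_lit 559911142) (nat_lit 0) (nat_lit 560466801) (nat_lit 152) (nat_lit 559911142) (nat_lit 29) (nat_lit 3) (nat_lit 29) (nat_lit 1) (nat_lit 31) (nat_lit 1) (nat_lit 442) (nat_lit 402) (nat_lit 176)) (XT.nd (nat_lit 78) (nat_lit 152) (nat_lit 0) (XT.lf (nat_lit 76) (nat_lit 550709607) (nat_lit 0) (nat_lit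 551238807) (nat_lit 76) (nat_lit 551238807) (nat_lit 29) (nat_lit 3) (nat_lit 28) (nat_lit 1) (nat_lit 29) (nat_lit 1) (nat_lit 443) (nat_lit 402) (nat_lit 175)) (XT.lf (nat_lit 152) (nat_lit 1626620336) (nat_lit 0) (nat_lit 162580) (nat_lit 76) (nat_lit 162580) (nat_lit 28) (nat_lit 1) (nat_lit 26) (nat_lit 1) (nat_lit 27) (nat_lit 1) (nat_lit 444) (nat_lit 402) (nat_lit 174)))) (XT.nd (nat_lit 35100) (nat_lit 0) (nat_lit 20216) (XT.lf (nat_lit 0) (nat_lit 533272332) (nat_lit 0) (nat_lit 533729474) (nat_lit 152) (nat_lit 533272332) (nat_lit 26) (nat_lit 3) (nat_lit 26) (nat_lit 1) (nat_lit 28) (nat_lit 1) (nat_lit 445) (nat_lit 402) (nat_lit 173)) (XT.nd (nat_lit 78) (nat_lit 0) (nat_lit 0) (XT.lf (nat_lit 836) (nat_lit 11619181088) (nat_lit 0) (nat_lit 20629829315) (nat_lit 836) (nat_lit 11619181088) (nat_lit 303) (nat_lit 1) (nat_lit 292) (nat_lit 0) (nat_lit 303) (nat_lit 0) (nat_lit 214) (nat_lit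 403) (nat_lit 403)) (XT.lf (nat_lit 836) (nat_lit 45037396497) (nat_lit 76) (nat_lit 20297090132) (nat_lit 0) (nat_lit 20297090132) (nat_lit 303) (nat_lit 1) (nat_lit 293) (nat_lit 1) (nat_lit 292) (nat_lit 0) (nat_lit 215) (nat_lit 403) (nat_lit 402)))))) (XT.nd (nat_lit 468) (nat_lit 1368) (nat_lit 0) (XT.nd (nat_lit 234) (nat_lit 0) (nat_lit 76) (XT.nd (nat_lit 78) (nat_lit 0) (nat_lit 0) (XT.lf (nat_lit 836) (nat_lit 21464145042) (nat_lit 0) (nat_lit 40663551322) (nat_lit 760) (nat_lit 21464145042) (nat_lit 304) (nat_lit 1) (nat_lit 293) (nat_lit 1) (nat_lit 303) (nat_lit 1) (nat_lit 216) (nat_lit 403) (nat_lit 401)) (XT.nd (nat_lit 78) (nat_lit 0) (nat_lit 76) (XT.lf (nat_lit 836) (nat_lit 40263753582) (nat_lit 76) (nat_lit 20677125560) (nat_lit 0) (nat_lit 20677125560) (nat_lit 304) (nat_lit 1) (nat_lit 294) (nat_lit 1) (nat_lit 293) (nat_lit 1) (nat_lit 217) (nat_lit 403) (nat_lit 400))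 (XT.lf (nat_lit 836) (nat_lit 18533019117) (nat_lit 0) (nat_lit 42640690485) (nat_lit 760) (nat_lit 18533019117) (nat_lit 305) (nat_lit 1) (nat_lit 294) (nat_lit 1) (nat_lit 304) (nat_lit 1) (nat_lit 218) (nat_lit 403) (nat_lit 399)))) (XT.nd (nat_lit 78) (nat_lit 0) (nat_lit 76) (XT.lf (nat_lit 836) (nat_lit 33332841975) (nat_lit 76) (nat_lit 22260436879) (nat_lit 0) (nat_lit 22260436879) (nat_lit 305) (nat_lit 1) (nat_lit 295) (nat_lit 1) (nat_lit 294) (nat_lit 1) (nat_lit 219) (nat_lit 403) (nat_lit 398)) (XT.nd (nat_lit 78) (nat_lit 0) (nat_lit 0) (XT.lf (nat_lit 836) (nat_lit 14615488466) (nat_lit 0) (nat_lit 46831943573) (nat_lit 760) (nat_lit 14615488466) (nat_lit 306) (nat_lit 1) (nat_lit 295) (nat_lit 1) (nat_lit 305) (nat_lit 1) (nat_lit 220) (nat_lit 403) (nat_lit 397)) (XT.lf (nat_lit 836) (nat_lit 24569084869) (nat_lit 76) (nat_lit 24876173569) (nat_lit 0) (nat_lit 24876173569) (nat_lit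 306) (nat_lit 1) (nat_lit 296) (nat_lit 1) (nat_lit 295) (nat_lit 1) (nat_lit 221) (nat_lit 403) (nat_lit 396))))) (XT.nd (nat_lit 234) (nat_lit 1596) (nat_lit 0) (XT.nd (nat_lit 78) (nat_lit 0) (nat_lit 0) (XT.lf (nat_lit 836) (nat_lit 9863207891) (nat_lit 0) (nat_lit 52917276137) (nat_lit 760) (nat_lit 9863207891) (nat_lit 307) (nat_lit 1) (nat_lit 296) (nat_lit 1) (nat_lit 306) (nat_lit 1) (nat_lit 222) (nat_lit 403) (nat_lit 395)) (XT.nd (nat_lit 78) (nat_lit 0) (nat_lit 76) (XT.lf (nat_lit 836) (nat_lit 14260845532) (nat_lit 76) (nat_lit 28372177807) (nat_lit 0) (nat_lit 28372177807) (nat_lit 307) (nat_lit 1) (nat_lit 297) (nat_lit 1) (nat_lit 296) (nat_lit 1) (nat_lit 223) (nat_lit 403) (nat_lit 394)) (XT.lf (nat_lit 76) (nat_lit 4410878089) (nat_lit 0) (nat_lit 60611844978) (nat_lit 760) (nat_lit 4410878089) (nat_lit 298) (nat_lit 1) (nat_lit 297) (nat_lit 1) (nat_lit 307) (nat_lit 1) (nat_lit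 224) (nat_lit 403) (nat_lit 393)))) (XT.nd (nat_lit 156) (nat_lit 380) (nat_lit 0) (XT.nd (nat_lit 78) (nat_lit 532) (nat_lit 0) (XT.lf (nat_lit 836) (nat_lit 2664060676) (nat_lit 0) (nat_lit 32613112854) (nat_lit 760) (nat_lit 32613112854) (nat_lit 298) (nat_lit 1) (nat_lit 287) (nat_lit 1) (nat_lit 297) (nat_lit 1) (nat_lit 225) (nat_lit 403) (nat_lit 392)) (XT.lf (nat_lit 532) (nat_lit 63221514892) (nat_lit 0) (nat_lit 1595880207) (nat_lit 456) (nat_lit 1595880207) (nat_lit 287) (nat_lit 1) (nat_lit 280) (nat_lit 1) (nat_lit 286) (nat_lit 1) (nat_lit 226) (nat_lit 403) (nat_lit 391))) (XT.nd (nat_lit 78) (nat_lit 380) (nat_lit 0) (XT.lf (nat_lit 76) (nat_lit 27640336277) (nat_lit 0) (nat_lit 9674591641) (nat_lit 532) (nat_lit 27640336277) (nat_lit 281) (nat_lit 1) (nat_lit 280) (nat_lit 1) (nat_lit 287) (nat_lit 1) (nat_lit 227) (nat_lit 403) (nat_lit 390)) (XT.lf (nat_lit 456) (nat_lit 47561923767)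 (nat_lit 0) (nat_lit 7998663929) (nat_lit 380) (nat_lit 7998663929) (nat_lit 281) (nat_lit 1) (nat_lit 275) (nat_lit 1) (nat_lit 280) (nat_lit 1) (nat_lit 228) (nat_lit 403) (nat_lit 389))))))))
noncomputable def ec269 : XT := (XT.nd (nat_lit 1950) (nat_lit 2660) (nat_lit 0) (XT.nd (nat_lit 936) (nat_lit 1596) (nat_lit 0) (XT.nd (nat_lit 468) (nat_lit 1216) (nat_lit 0) (XT.nd (nat_lit 234) (nat_lit 684) (nat_lit 0) (XT.nd (nat_lit 78) (nat_lit 380) (nat_lit 0) (XT.lf (nat_lit 76) (nat_lit 19715515388) (nat_lit 0) (nat_lit 22761556321) (nat_lit 456) (nat_lit 19715515388) (nat_lit 276) (nat_lit 1) (nat_lit 275) (nat_lit 1) (nat_lit 281) (nat_lit 1) (nat_lit 229) (nat_lit 403) (nat_lit 388)) (XT.nd (nat_lit 78) (nat_lit 0) (nat_lit 0) (XT.lf (nat_lit 456) (nat_lit 31320201291) (nat_lit 0) (nat_lit 14776659274) (nat_lit 380) (nat_lit 14776659274) (nat_lit 276) (nat_lit 1) (nat_lit 270) (nat_lit 1)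 (nat_lit 275) (nat_lit 1) (nat_lit 230) (nat_lit 403) (nat_lit 387)) (XT.lf (nat_lit 76) (nat_lit 11541077928) (nat_lit 0) (nat_lit 36510659643) (nat_lit 456) (nat_lit 11541077928) (nat_lit 271) (nat_lit 1) (nat_lit 270) (nat_lit 1) (nat_lit 276) (nat_lit 1) (nat_lit 231) (nat_lit 403) (nat_lit 386)))) (XT.nd (nat_lit 78) (nat_lit 380) (nat_lit 0) (XT.lf (nat_lit 380) (nat_lit 14647516694) (nat_lit 0) (nat_lit 21848769203) (nat_lit 304) (nat_lit 21848769203) (nat_lit 271) (nat_lit 1) (nat_lit 266) (nat_lit 1) (nat_lit 270) (nat_lit 1) (nat_lit 232) (nat_lit 403) (nat_lit 385)) (XT.nd (nat_lit 78) (nat_lit 380) (nat_lit 0) (XT.lf (nat_lit 76) (nat_lit 3187201895) (nat_lit 0) (nat_lit 50770873635) (nat_lit 380) (nat_lit 3187201895) (nat_lit 267) (nat_lit 1) (nat_lit 266) (nat_lit 1) (nat_lit 271) (nat_lit 1) (nat_lit 233) (nat_lit 403) (nat_lit 384)) (XT.lf (nat_lit 76) (nat_lit 26856279017) (nat_lit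 0) (nat_lit 2249265536) (nat_lit 380) (nat_lit 26856279017) (nat_lit 262) (nat_lit 1) (nat_lit 261) (nat_lit 1) (nat_lit 266) (nat_lit 1) (nat_lit 234) (nat_lit 403) (nat_lit 383))))) (XT.nd (nat_lit 234) (nat_lit 608) (nat_lit 0) (XT.nd (nat_lit 78) (nat_lit 304) (nat_lit 0) (XT.lf (nat_lit 380) (nat_lit 44424520773) (nat_lit 0) (nat_lit 5199458882) (nat_lit 304) (nat_lit 5199458882) (nat_lit 262) (nat_lit 1) (nat_lit 257) (nat_lit 1) (nat_lit 261) (nat_lit 1) (nat_lit 235) (nat_lit 403) (nat_lit 382)) (XT.nd (nat_lit 78) (nat_lit 304) (nat_lit 0) (XT.lf (nat_lit 76) (nat_lit 17425250084) (nat_lit 0) (nat_lit 18854082584) (nat_lit 380) (nat_lit 17425250084) (nat_lit 258) (nat_lit 1) (nat_lit 257) (nat_lit 1) (nat_lit 262) (nat_lit 1) (nat_lit 236) (nat_lit 403) (nat_lit 381)) (XT.lf (nat_lit 380) (nat_lit 25428287202) (nat_lit 0) (nat_lit 13598118876) (nat_lit 304) (nat_lit 13598118876) (nat_lit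 258) (nat_lit 1) (nat_lit 253) (nat_lit 1) (nat_lit 257) (nat_lit 1) (nat_lit 237) (nat_lit 403) (nat_lit 380)))) (XT.nd (nat_lit 78) (nat_lit 608) (nat_lit 0) (XT.lf (nat_lit 76) (nat_lit 8018946937) (nat_lit 0) (nat_lit 35538154262) (nat_lit 380) (nat_lit 8018946937) (nat_lit 254) (nat_lit 1) (nat_lit 253) (nat_lit 1) (nat_lit 258) (nat_lit 1) (nat_lit 238) (nat_lit 403) (nat_lit 379)) (XT.nd (nat_lit 78) (nat_lit 380) (nat_lit 0) (XT.lf (nat_lit 304) (nat_lit 6521466099) (nat_lit 0) (nat_lit 22014368819) (nat_lit 228) (nat_lit 22014368819) (nat_lit 254) (nat_lit 1) (nat_lit 250) (nat_lit 1) (nat_lit 253) (nat_lit 1) (nat_lit 239) (nat_lit 403) (nat_lit 378)) (XT.lf (nat_lit 380) (nat_lit 46957961124) (nat_lit 0) (nat_lit 1302993318) (nat_lit 304) (nat_lit 1302993318) (nat_lit 250) (nat_lit 1) (nat_lit 245) (nat_lit 1) (nat_lit 249) (nat_lit 1) (nat_lit 240) (nat_lit 403) (nat_lit 377)))))) (XT.nd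 (nat_lit 468) (nat_lit 836) (nat_lit 0) (XT.nd (nat_lit 234) (nat_lit 532) (nat_lit 0) (XT.nd (nat_lit 78) (nat_lit 228) (nat_lit 0) (XT.lf (nat_lit 76) (nat_lit 18374997342) (nat_lit 0) (nat_lit 11833155909) (nat_lit 380) (nat_lit 18374997342) (nat_lit 246) (nat_lit 1) (nat_lit 245) (nat_lit 1) (nat_lit 250) (nat_lit 1) (nat_lit 241) (nat_lit 403) (nat_lit 376)) (XT.nd (nat_lit 78) (nat_lit 0) (nat_lit 0) (XT.lf (nat_lit 304) (nat_lit 26837264531) (nat_lit 0) (nat_lit 10401352538) (nat_lit 228) (nat_lit 10401352538) (nat_lit 246) (nat_lit 1) (nat_lit 242) (nat_lit 1) (nat_lit 245) (nat_lit 1) (nat_lit 242) (nat_lit 403) (nat_lit 375)) (XT.lf (nat_lit 76) (nat_lit 8478306995) (nat_lit 0) (nat_lit 29764137765) (nat_lit 304) (nat_lit 8478306995) (nat_lit 243) (nat_lit 1) (nat_lit 242) (nat_lit 1) (nat_lit 246) (nat_lit 1) (nat_lit 243) (nat_lit 403) (nat_lit 374)))) (XT.nd (nat_lit 78) (nat_lit 304)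 (nat_lit 0) (XT.lf (nat_lit 304) (nat_lit 7066403881) (nat_lit 0) (nat_lit 19378020990) (nat_lit 228) (nat_lit 19378020990) (nat_lit 243) (nat_lit 1) (nat_lit 239) (nat_lit 1) (nat_lit 242) (nat_lit 1) (nat_lit 244) (nat_lit 403) (nat_lit 373)) (XT.nd (nat_lit 78) (nat_lit 0) (nat_lit 0) (XT.lf (nat_lit 304) (nat_lit 42528644168) (nat_lit 0) (nat_lit 1214434502) (nat_lit 228) (nat_lit 1214434502) (nat_lit 239) (nat_lit 1) (nat_lit 235) (nat_lit 1) (nat_lit 238) (nat_lit 1) (nat_lit 245) (nat_lit 403) (nat_lit 372)) (XT.lf (nat_lit 76) (nat_lit 16087368145) (nat_lit 0) (nat_lit 11920578260) (nat_lit 304) (nat_lit 16087368145) (nat_lit 236) (nat_lit 1) (nat_lit 235) (nat_lit 1) (nat_lit 239) (nat_lit 1) (nat_lit 246) (nat_lit 403) (nat_lit 371))))) (XT.nd (nat_lit 234) (nat_lit 456) (nat_lit 0) (XT.nd (nat_lit 78) (nat_lit 152) (nat_lit 0) (XT.lf (nat_lit 304) (nat_lit 22121604253) (nat_lit 0) (nat_lit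 10571706581) (nat_lit 228) (nat_lit 10571706581) (nat_lit 236) (nat_lit 1) (nat_lit 232) (nat_lit 1) (nat_lit 235) (nat_lit 1) (nat_lit 247) (nat_lit 403) (nat_lit 370)) (XT.nd (nat_lit 78) (nat_lit 152) (nat_lit 0) (XT.lf (nat_lit 76) (nat_lit 6092271769) (nat_lit 0) (nat_lit 30272445688) (nat_lit 304) (nat_lit 6092271769) (nat_lit 233) (nat_lit 1) (nat_lit 232) (nat_lit 1) (nat_lit 236) (nat_lit 1) (nat_lit 248) (nat_lit 403) (nat_lit 369)) (XT.lf (nat_lit 228) (nat_lit 2232410940) (nat_lit 0) (nat_lit 19715888453) (nat_lit 152) (nat_lit 19715888453) (nat_lit 233) (nat_lit 1) (nat_lit 230) (nat_lit 1) (nat_lit 232) (nat_lit 1) (nat_lit 249) (nat_lit 403) (nat_lit 368)))) (XT.nd (nat_lit 156) (nat_lit 152) (nat_lit 0) (XT.nd (nat_lit 78) (nat_lit 0) (nat_lit 0) (XT.lf (nat_lit 304) (nat_lit 33730980749) (nat_lit 0) (nat_lit 3582474649) (nat_lit 228) (nat_lit 3582474649) (nat_lit 230) (nat_lit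 1) (nat_lit 226) (nat_lit 1) (nat_lit 229) (nat_lit 1) (nat_lit 250) (nat_lit 403) (nat_lit 367)) (XT.lf (nat_lit 76) (nat_lit 11781430898) (nat_lit 0) (nat_lit 16573402673) (nat_lit 304) (nat_lit 11781430898) (nat_lit 227) (nat_lit 1) (nat_lit 226) (nat_lit 1) (nat_lit 230) (nat_lit 1) (nat_lit 251) (nat_lit 403) (nat_lit 366))) (XT.nd (nat_lit 78) (nat_lit 0) (nat_lit 0) (XT.lf (nat_lit 228) (nat_lit 13611626040) (nat_lit 0) (nat_lit 12894209109) (nat_lit 152) (nat_lit 12894209109) (nat_lit 227) (nat_lit 1) (nat_lit 224) (nat_lit 1) (nat_lit 226) (nat_lit 1) (nat_lit 252) (nat_lit 403) (nat_lit 365)) (XT.lf (nat_lit 76) (nat_lit 1955558620) (nat_lit 0) (nat_lit 34777139128) (nat_lit 228) (nat_lit 1955558620) (nat_lit 225) (nat_lit 1) (nat_lit 224) (nat_lit 1) (nat_lit 227) (nat_lit 1) (nat_lit 253) (nat_lit 403) (nat_lit 364))))))) (XT.nd (nat_lit 1014) (nat_lit 1140) (nat_lit 0) (XT.nd (nat_lit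 468) (nat_lit 760) (nat_lit 0) (XT.nd (nat_lit 234) (nat_lit 380) (nat_lit 0) (XT.nd (nat_lit 78) (nat_lit 152) (nat_lit 0) (XT.lf (nat_lit 76) (nat_lit 16139568391) (nat_lit 0) (nat_lit 5699919097) (nat_lit 228) (nat_lit 16139568391) (nat_lit 222) (nat_lit 1) (nat_lit 221) (nat_lit 1) (nat_lit 224) (nat_lit 1) (nat_lit 254) (nat_lit 403) (nat_lit 363)) (XT.nd (nat_lit 78) (nat_lit 0) (nat_lit 0) (XT.lf (nat_lit 228) (nat_lit 22412619414) (nat_lit 0) (nat_lit 7440382397) (nat_lit 152) (nat_lit 7440382397) (nat_lit 222) (nat_lit 1) (nat_lit 219) (nat_lit 1) (nat_lit 221) (nat_lit 1) (nat_lit 255) (nat_lit 403) (nat_lit 362)) (XT.lf (nat_lit 76) (nat_lit 6324258108) (nat_lit 0) (nat_lit 23974351165) (nat_lit 228) (nat_lit 6324258108) (nat_lit 220) (nat_lit 1) (nat_lit 219) (nat_lit 1) (nat_lit 222) (nat_lit 1) (nat_lit 256) (nat_lit 403) (nat_lit 361)))) (XT.nd (nat_lit 78) (nat_lit 228) (nat_lit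 0) (XT.lf (nat_lit 228) (nat_lit 2962687229) (nat_lit 0) (nat_lit 16501589608) (nat_lit 152) (nat_lit 16501589608) (nat_lit 220) (nat_lit 1) (nat_lit 217) (nat_lit 1) (nat_lit 219) (nat_lit 1) (nat_lit 257) (nat_lit 403) (nat_lit 360)) (XT.nd (nat_lit 78) (nat_lit 0) (nat_lit 0) (XT.lf (nat_lit 228) (nat_lit 29119204112) (nat_lit 0) (nat_lit 3104349253) (nat_lit 152) (nat_lit 3104349253) (nat_lit 217) (nat_lit 1) (nat_lit 214) (nat_lit 1) (nat_lit 216) (nat_lit 1) (nat_lit 258) (nat_lit 403) (nat_lit 359)) (XT.lf (nat_lit 76) (nat_lit 9693854407) (nat_lit 0) (nat_lit 15307674929) (nat_lit 228) (nat_lit 9693854407) (nat_lit 215) (nat_lit 1) (nat_lit 214) (nat_lit 1) (nat_lit 217) (nat_lit 1) (nat_lit 259) (nat_lit 403) (nat_lit 358))))) (XT.nd (nat_lit 234) (nat_lit 456) (nat_lit 0) (XT.nd (nat_lit 78) (nat_lit 152) (nat_lit 0) (XT.lf (nat_lit 228) (nat_lit 9872720071) (nat_lit 0) (nat_lit 12104253848)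 (nat_lit 152) (nat_lit 12104253848) (nat_lit 215) (nat_lit 1) (nat_lit 212) (nat_lit 1) (nat_lit 214) (nat_lit 1) (nat_lit 260) (nat_lit 403) (nat_lit 357)) (XT.nd (nat_lit 78) (nat_lit 152) (nat_lit 0) (XT.lf (nat_lit 76) (nat_lit 324489080) (nat_lit 0) (nat_lit 32839632112) (nat_lit 228) (nat_lit 324489080) (nat_lit 213) (nat_lit 1) (nat_lit 212) (nat_lit 1) (nat_lit 215) (nat_lit 1) (nat_lit 261) (nat_lit 403) (nat_lit 356)) (XT.lf (nat_lit 76) (nat_lit 12252178592) (nat_lit 0) (nat_lit 8387868613) (nat_lit 152) (nat_lit 12252178592) (nat_lit 211) (nat_lit 1) (nat_lit 210) (nat_lit 1) (nat_lit 212) (nat_lit 1) (nat_lit 262) (nat_lit 403) (nat_lit 355)))) (XT.nd (nat_lit 156) (nat_lit 304) (nat_lit 0) (XT.nd (nat_lit 78) (nat_lit 0) (nat_lit 0) (XT.lf (nat_lit 228) (nat_lit 15203558813) (nat_lit 0) (nat_lit 8556633157) (nat_lit 152) (nat_lit 8556633157) (nat_lit 211) (nat_lit 1) (nat_lit 208)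 (nat_lit 1) (nat_lit 210) (nat_lit 1) (nat_lit 263) (nat_lit 403) (nat_lit 354)) (XT.lf (nat_lit 76) (nat_lit 3048208466) (nat_lit 0) (nat_lit 25660539050) (nat_lit 228) (nat_lit 3048208466) (nat_lit 209) (nat_lit 1) (nat_lit 208) (nat_lit 1) (nat_lit 211) (nat_lit 1) (nat_lit 264) (nat_lit 403) (nat_lit 353))) (XT.nd (nat_lit 78) (nat_lit 152) (nat_lit 0) (XT.lf (nat_lit 76) (nat_lit 14153250584) (nat_lit 0) (nat_lit 2895202709) (nat_lit 152) (nat_lit 14153250584) (nat_lit 207) (nat_lit 1) (nat_lit 206) (nat_lit 1) (nat_lit 208) (nat_lit 1) (nat_lit 265) (nat_lit 403) (nat_lit 352)) (XT.lf (nat_lit 228) (nat_lit 19252050773) (nat_lit 0) (nat_lit 5704738095) (nat_lit 152) (nat_lit 5704738095) (nat_lit 207) (nat_lit 1) (nat_lit 204) (nat_lit 1) (nat_lit 206) (nat_lit 1) (nat_lit 266) (nat_lit 403) (nat_lit 351)))))) (XT.nd (nat_lit 468) (nat_lit 532) (nat_lit 0) (XT.nd (nat_lit 234) (nat_lit 304)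 (nat_lit 0) (XT.nd (nat_lit 78) (nat_lit 304) (nat_lit 0) (XT.lf (nat_lit 76) (nat_lit 5156578646) (nat_lit 0) (nat_lit 19818886543) (nat_lit 228) (nat_lit 5156578646) (nat_lit 205) (nat_lit 1) (nat_lit 204) (nat_lit 1) (nat_lit 207) (nat_lit 1) (nat_lit 267) (nat_lit 403) (nat_lit 350)) (XT.nd (nat_lit 78) (nat_lit 228) (nat_lit 0) (XT.lf (nat_lit 152) (nat_lit 1480265945) (nat_lit 0) (nat_lit 14066143183) (nat_lit 76) (nat_lit 14066143183) (nat_lit 205) (nat_lit 1) (nat_lit 203) (nat_lit 1) (nat_lit 204) (nat_lit 1) (nat_lit 268) (nat_lit 403) (nat_lit 349)) (XT.lf (nat_lit 228) (nat_lit 22261610112) (nat_lit 0) (nat_lit 3422040073) (nat_lit 152) (nat_lit 3422040073) (nat_lit 203) (nat_lit 1) (nat_lit 200) (nat_lit 1) (nat_lit 202) (nat_lit 1) (nat_lit 269) (nat_lit 403) (nat_lit 348)))) (XT.nd (nat_lit 78) (nat_lit 304) (nat_lit 0) (XT.lf (nat_lit 76) (nat_lit 6765006201) (nat_lit 0) (nat_lit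 15074473257) (nat_lit 228) (nat_lit 6765006201) (nat_lit 201) (nat_lit 1) (nat_lit 200) (nat_lit 1) (nat_lit 203) (nat_lit 1) (nat_lit 270) (nat_lit 403) (nat_lit 347)) (XT.nd (nat_lit 78) (nat_lit 228) (nat_lit 0) (XT.lf (nat_lit 152) (nat_lit 4971068394) (nat_lit 0) (nat_lit 11572250807) (nat_lit 76) (nat_lit 11572250807) (nat_lit 201) (nat_lit 1) (nat_lit 199) (nat_lit 1) (nat_lit 200) (nat_lit 1) (nat_lit 271) (nat_lit 403) (nat_lit 346)) (XT.lf (nat_lit 228) (nat_lit 24431729634) (nat_lit 0) (nat_lit 1604595050) (nat_lit 152) (nat_lit 1604595050) (nat_lit 199) (nat_lit 1) (nat_lit 196) (nat_lit 1) (nat_lit 198) (nat_lit 1) (nat_lit 272) (nat_lit 403) (nat_lit 345))))) (XT.nd (nat_lit 234) (nat_lit 228) (nat_lit 0) (XT.nd (nat_lit 78) (nat_lit 304) (nat_lit 0) (XT.lf (nat_lit 76) (nat_lit 7968136094) (nat_lit 0) (nat_lit 11229831454) (nat_lit 228) (nat_lit 7968136094) (nat_lit 197) (nat_lit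 1) (nat_lit 196) (nat_lit 1) (nat_lit 199) (nat_lit 1) (nat_lit 273) (nat_lit 403) (nat_lit 344)) (XT.nd (nat_lit 78) (nat_lit 228) (nat_lit 0) (XT.lf (nat_lit 152) (nat_lit 7664234021) (nat_lit 0) (nat_lit 9520519378) (nat_lit 76) (nat_lit 9520519378) (nat_lit 197) (nat_lit 1) (nat_lit 195) (nat_lit 1) (nat_lit 196) (nat_lit 1) (nat_lit 274) (nat_lit 403) (nat_lit 343)) (XT.lf (nat_lit 228) (nat_lit 25925804340) (nat_lit 0) (nat_lit 167032141) (nat_lit 152) (nat_lit 167032141) (nat_lit 195) (nat_lit 1) (nat_lit 192) (nat_lit 1) (nat_lit 194) (nat_lit 1) (nat_lit 275) (nat_lit 403) (nat_lit 342)))) (XT.nd (nat_lit 156) (nat_lit 152) (nat_lit 0) (XT.nd (nat_lit 78) (nat_lit 76) (nat_lit 0) (XT.lf (nat_lit 76) (nat_lit 8843546951) (nat_lit 0) (nat_lit 8122643462) (nat_lit 228) (nat_lit 8843546951) (nat_lit 193) (nat_lit 1) (nat_lit 192) (nat_lit 1) (nat_lit 195) (nat_lit 1) (nat_lit 276) (nat_lit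 403) (nat_lit 341)) (XT.lf (nat_lit 152) (nat_lit 9709692630) (nat_lit 0) (nat_lit 7832554853) (nat_lit 76) (nat_lit 7832554853) (nat_lit 193) (nat_lit 1) (nat_lit 191) (nat_lit 1) (nat_lit 192) (nat_lit 1) (nat_lit 277) (nat_lit 403) (nat_lit 340))) (XT.nd (nat_lit 78) (nat_lit 152) (nat_lit 0) (XT.lf (nat_lit 0) (nat_lit 976496160) (nat_lit 0) (nat_lit 23000006406) (nat_lit 152) (nat_lit 976496160) (nat_lit 191) (nat_lit 3) (nat_lit 191) (nat_lit 1) (nat_lit 193) (nat_lit 1) (nat_lit 278) (nat_lit 403) (nat_lit 339)) (XT.lf (nat_lit 76) (nat_lit 9454790502) (nat_lit 0) (nat_lit 5619503005) (nat_lit 152) (nat_lit 9454790502) (nat_lit 190) (nat_lit 1) (nat_lit 189) (nat_lit 1) (nat_lit 191) (nat_lit 1) (nat_lit 279) (nat_lit 403) (nat_lit 338))))))))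
noncomputable def ec270 : XT := (XT.nd (nat_lit 1950) (nat_lit 1824) (nat_lit 0) (XT.nd (nat_lit 936) (nat_lit 1064) (nat_lit 0) (XT.nd (nat_lit 468) (nat_lit 380) (nat_lit 0) (XT.nd (nat_lit 234) (nat_lit 228) (nat_lit 0) (XT.nd (nat_lit 78) (nat_lit 152) (nat_lit 0) (XT.lf (nat_lit 152) (nat_lit 11230386569) (nat_lit 0) (nat_lit 6443862262) (nat_lit 76) (nat_lit 6443862262) (nat_lit 190) (nat_lit 1) (nat_lit 188) (nat_lit 1) (nat_lit 189) (nat_lit 1) (nat_lit 280) (nat_lit 403) (nat_lit 337)) (XT.nd (nat_lit 78) (nat_lit 152) (nat_lit 0) (XT.lf (nat_lit 0) (nat_lit 1866381680) (nat_lit 0) (nat_lit 19985178064) (nat_lit 152) (nat_lit 1866381680) (nat_lit 188) (nat_lit 3) (nat_lit 188) (nat_lit 1) (nat_lit 190) (nat_lit 1) (nat_lit 281) (nat_lit 403) (nat_lit 336)) (XT.lf (nat_lit 76) (nat_lit 9853891487) (nat_lit 0) (nat_lit 3610782959) (nat_lit 152) (nat_lit 9853891487) (nat_lit 187) (nat_lit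 1) (nat_lit 186) (nat_lit 1) (nat_lit 188) (nat_lit 1) (nat_lit 282) (nat_lit 403) (nat_lit 335)))) (XT.nd (nat_lit 78) (nat_lit 152) (nat_lit 0) (XT.lf (nat_lit 152) (nat_lit 12327074835) (nat_lit 0) (nat_lit 5301381430) (nat_lit 76) (nat_lit 5301381430) (nat_lit 187) (nat_lit 1) (nat_lit 185) (nat_lit 1) (nat_lit 186) (nat_lit 1) (nat_lit 283) (nat_lit 403) (nat_lit 334)) (XT.nd (nat_lit 78) (nat_lit 152) (nat_lit 0) (XT.lf (nat_lit 0) (nat_lit 2547872897) (nat_lit 0) (nat_lit 17454251522) (nat_lit 152) (nat_lit 2547872897) (nat_lit 185) (nat_lit 3) (nat_lit 185) (nat_lit 1) (nat_lit 187) (nat_lit 1) (nat_lit 284) (nat_lit 403) (nat_lit 333)) (XT.lf (nat_lit 76) (nat_lit 10083403715) (nat_lit 0) (nat_lit 2006413344) (nat_lit 152) (nat_lit 10083403715) (nat_lit 184) (nat_lit 1) (nat_lit 183) (nat_lit 1) (nat_lit 185) (nat_lit 1) (nat_lit 285) (nat_lit 403) (nat_lit 332))))) (XT.nd (nat_lit 234)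 (nat_lit 152) (nat_lit 0) (XT.nd (nat_lit 78) (nat_lit 152) (nat_lit 0) (XT.lf (nat_lit 152) (nat_lit 13082284510) (nat_lit 0) (nat_lit 4361459622) (nat_lit 76) (nat_lit 4361459622) (nat_lit 184) (nat_lit 1) (nat_lit 182) (nat_lit 1) (nat_lit 183) (nat_lit 1) (nat_lit 286) (nat_lit 403) (nat_lit 331)) (XT.nd (nat_lit 78) (nat_lit 152) (nat_lit 0) (XT.lf (nat_lit 0) (nat_lit 3060328071) (nat_lit 0) (nat_lit 15323842656) (nat_lit 152) (nat_lit 3060328071) (nat_lit 182) (nat_lit 3) (nat_lit 182) (nat_lit 1) (nat_lit 184) (nat_lit 1) (nat_lit 287) (nat_lit 403) (nat_lit 330)) (XT.lf (nat_lit 76) (nat_lit 10178101003) (nat_lit 0) (nat_lit 732408144) (nat_lit 152) (nat_lit 10178101003) (nat_lit 181) (nat_lit 1) (nat_lit 180) (nat_lit 1) (nat_lit 182) (nat_lit 1) (nat_lit 288) (nat_lit 403) (nat_lit 329)))) (XT.nd (nat_lit 78) (nat_lit 76) (nat_lit 0) (XT.lf (nat_lit 152) (nat_lit 13563560733) (nat_lit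 0) (nat_lit 3588183625) (nat_lit 76) (nat_lit 3588183625) (nat_lit 181) (nat_lit 1) (nat_lit 179) (nat_lit 1) (nat_lit 180) (nat_lit 1) (nat_lit 289) (nat_lit 403) (nat_lit 328)) (XT.nd (nat_lit 78) (nat_lit 76) (nat_lit 0) (XT.lf (nat_lit 0) (nat_lit 3436012556) (nat_lit 0) (nat_lit 13525236355) (nat_lit 152) (nat_lit 3436012556) (nat_lit 179) (nat_lit 3) (nat_lit 179) (nat_lit 1) (nat_lit 181) (nat_lit 1) (nat_lit 290) (nat_lit 403) (nat_lit 327)) (XT.lf (nat_lit 76) (nat_lit 280985073) (nat_lit 0) (nat_lit 9889769643) (nat_lit 76) (nat_lit 9889769643) (nat_lit 179) (nat_lit 3) (nat_lit 178) (nat_lit 1) (nat_lit 179) (nat_lit 1) (nat_lit 291) (nat_lit 403) (nat_lit 326)))))) (XT.nd (nat_lit 468) (nat_lit 608) (nat_lit 0) (XT.nd (nat_lit 234) (nat_lit 228) (nat_lit 0) (XT.nd (nat_lit 78) (nat_lit 76) (nat_lit 0) (XT.lf (nat_lit 152) (nat_lit 13826139640) (nat_lit 0) (nat_lit 2952007548) (nat_lit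 76) (nat_lit 2952007548) (nat_lit 178) (nat_lit 1) (nat_lit 176) (nat_lit 1) (nat_lit 177) (nat_lit 1) (nat_lit 292) (nat_lit 403) (nat_lit 325)) (XT.nd (nat_lit 78) (nat_lit 76) (nat_lit 0) (XT.lf (nat_lit 0) (nat_lit 3701361823) (nat_lit 0) (nat_lit 12001791211) (nat_lit 152) (nat_lit 3701361823) (nat_lit 176) (nat_lit 3) (nat_lit 176) (nat_lit 1) (nat_lit 178) (nat_lit 1) (nat_lit 293) (nat_lit 403) (nat_lit 324)) (XT.lf (nat_lit 76) (nat_lit 1091607327) (nat_lit 0) (nat_lit 8996778173) (nat_lit 76) (nat_lit 8996778173) (nat_lit 176) (nat_lit 3) (nat_lit 175) (nat_lit 1) (nat_lit 176) (nat_lit 1) (nat_lit 294) (nat_lit 403) (nat_lit 323)))) (XT.nd (nat_lit 78) (nat_lit 76) (nat_lit 0) (XT.lf (nat_lit 152) (nat_lit 13915146592) (nat_lit 0) (nat_lit 2428623915) (nat_lit 76) (nat_lit 2428623915) (nat_lit 175) (nat_lit 1) (nat_lit 173) (nat_lit 1) (nat_lit 174) (nat_lit 1) (nat_lit 295) (nat_lit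 403) (nat_lit 322)) (XT.nd (nat_lit 78) (nat_lit 76) (nat_lit 0) (XT.lf (nat_lit 0) (nat_lit 3878020284) (nat_lit 0) (nat_lit 10706804083) (nat_lit 152) (nat_lit 3878020284) (nat_lit 173) (nat_lit 3) (nat_lit 173) (nat_lit 1) (nat_lit 175) (nat_lit 1) (nat_lit 296) (nat_lit 403) (nat_lit 321)) (XT.lf (nat_lit 76) (nat_lit 1717534918) (nat_lit 0) (nat_lit 8221138537) (nat_lit 76) (nat_lit 8221138537) (nat_lit 173) (nat_lit 3) (nat_lit 172) (nat_lit 1) (nat_lit 173) (nat_lit 1) (nat_lit 297) (nat_lit 403) (nat_lit 320))))) (XT.nd (nat_lit 234) (nat_lit 380) (nat_lit 0) (XT.nd (nat_lit 78) (nat_lit 76) (nat_lit 0) (XT.lf (nat_lit 152) (nat_lit 13867403913) (nat_lit 0) (nat_lit 1998034905) (nat_lit 76) (nat_lit 1998034905) (nat_lit 172) (nat_lit 1) (nat_lit 170) (nat_lit 1) (nat_lit 171) (nat_lit 1) (nat_lit 298) (nat_lit 403) (nat_lit 319)) (XT.nd (nat_lit 78) (nat_lit 76) (nat_lit 0) (XT.lf (nat_lit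 0) (nat_lit 3983695696) (nat_lit 0) (nat_lit 9601753027) (nat_lit 152) (nat_lit 3983695696) (nat_lit 170) (nat_lit 3) (nat_lit 170) (nat_lit 1) (nat_lit 172) (nat_lit 1) (nat_lit 299) (nat_lit 403) (nat_lit 318)) (XT.lf (nat_lit 76) (nat_lit 2193464865) (nat_lit 0) (nat_lit 7543995657) (nat_lit 76) (nat_lit 7543995657) (nat_lit 170) (nat_lit 3) (nat_lit 169) (nat_lit 1) (nat_lit 170) (nat_lit 1) (nat_lit 300) (nat_lit 403) (nat_lit 317)))) (XT.nd (nat_lit 156) (nat_lit 228) (nat_lit 0) (XT.nd (nat_lit 78) (nat_lit 0) (nat_lit 0) (XT.lf (nat_lit 152) (nat_lit 13712917399) (nat_lit 0) (nat_lit 1643788261) (nat_lit 76) (nat_lit 1643788261) (nat_lit 169) (nat_lit 1) (nat_lit 167) (nat_lit 1) (nat_lit 168) (nat_lit 1) (nat_lit 301) (nat_lit 403) (nat_lit 316)) (XT.lf (nat_lit 0) (nat_lit 4032861843) (nat_lit 0) (nat_lit 8654851513) (nat_lit 152) (nat_lit 4032861843) (nat_lit 167) (nat_lit 3) (nat_lit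 167) (nat_lit 1) (nat_lit 169) (nat_lit 1) (nat_lit 302) (nat_lit 403) (nat_lit 315))) (XT.nd (nat_lit 78) (nat_lit 152) (nat_lit 0) (XT.lf (nat_lit 76) (nat_lit 2547849579) (nat_lit 0) (nat_lit 6949744503) (nat_lit 76) (nat_lit 6949744503) (nat_lit 167) (nat_lit 3) (nat_lit 166) (nat_lit 1) (nat_lit 167) (nat_lit 1) (nat_lit 303) (nat_lit 403) (nat_lit 314)) (XT.lf (nat_lit 152) (nat_lit 13476098586) (nat_lit 0) (nat_lit 1352348670) (nat_lit 76) (nat_lit 1352348670) (nat_lit 166) (nat_lit 1) (nat_lit 164) (nat_lit 1) (nat_lit 165) (nat_lit 1) (nat_lit 304) (nat_lit 403) (nat_lit 313))))))) (XT.nd (nat_lit 936) (nat_lit 912) (nat_lit 0) (XT.nd (nat_lit 468) (nat_lit 456) (nat_lit 0) (XT.nd (nat_lit 234) (nat_lit 228) (nat_lit 0) (XT.nd (nat_lit 78) (nat_lit 228) (nat_lit 0) (XT.lf (nat_lit 0) (nat_lit 4037336404) (nat_lit 0) (nat_lit 7839858744) (nat_lit 152) (nat_lit 4037336404) (nat_lit 164)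 (nat_lit 3) (nat_lit 164) (nat_lit 1) (nat_lit 166) (nat_lit 1) (nat_lit 305) (nat_lit 403) (nat_lit 312)) (XT.nd (nat_lit 78) (nat_lit 152) (nat_lit 0) (XT.lf (nat_lit 76) (nat_lit 2804008446) (nat_lit 0) (nat_lit 6425458294) (nat_lit 76) (nat_lit 6425458294) (nat_lit 164) (nat_lit 3) (nat_lit 163) (nat_lit 1) (nat_lit 164) (nat_lit 1) (nat_lit 306) (nat_lit 403) (nat_lit 311)) (XT.lf (nat_lit 152) (nat_lit 13176769662) (nat_lit 0) (nat_lit 1112580598) (nat_lit 76) (nat_lit 1112580598) (nat_lit 163) (nat_lit 1) (nat_lit 161) (nat_lit 1) (nat_lit 162) (nat_lit 1) (nat_lit 307) (nat_lit 403) (nat_lit 310)))) (XT.nd (nat_lit 78) (nat_lit 228) (nat_lit 0) (XT.lf (nat_lit 0) (nat_lit 4006756161) (nat_lit 0) (nat_lit 7135100700) (nat_lit 152) (nat_lit 4006756161) (nat_lit 161) (nat_lit 3) (nat_lit 161) (nat_lit 1) (nat_lit 163) (nat_lit 1) (nat_lit 308) (nat_lit 403) (nat_lit 309)) (XT.nd (nat_lit 78)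 (nat_lit 152) (nat_lit 0) (XT.lf (nat_lit 76) (nat_lit 2981042109) (nat_lit 0) (nat_lit 5960417861) (nat_lit 76) (nat_lit 5960417861) (nat_lit 161) (nat_lit 3) (nat_lit 160) (nat_lit 1) (nat_lit 161) (nat_lit 1) (nat_lit 309) (nat_lit 403) (nat_lit 308)) (XT.lf (nat_lit 152) (nat_lit 12830989587) (nat_lit 0) (nat_lit 915322811) (nat_lit 76) (nat_lit 915322811) (nat_lit 160) (nat_lit 1) (nat_lit 158) (nat_lit 1) (nat_lit 159) (nat_lit 1) (nat_lit 310) (nat_lit 403) (nat_lit 307))))) (XT.nd (nat_lit 234) (nat_lit 228) (nat_lit 0) (XT.nd (nat_lit 78) (nat_lit 228) (nat_lit 0) (XT.lf (nat_lit 0) (nat_lit 3948967742) (nat_lit 0) (nat_lit 6522664537) (nat_lit 152) (nat_lit 3948967742) (nat_lit 158) (nat_lit 3) (nat_lit 158) (nat_lit 1) (nat_lit 160) (nat_lit 1) (nat_lit 311) (nat_lit 403) (nat_lit 306)) (XT.nd (nat_lit 78) (nat_lit 152) (nat_lit 0) (XT.lf (nat_lit 76) (nat_lit 3094584455) (nat_lit 0)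 (nat_lit 5545724259) (nat_lit 76) (nat_lit 5545724259) (nat_lit 158) (nat_lit 3) (nat_lit 157) (nat_lit 1) (nat_lit 158) (nat_lit 1) (nat_lit 312) (nat_lit 403) (nat_lit 305)) (XT.lf (nat_lit 152) (nat_lit 12451733151) (nat_lit 0) (nat_lit 753038342) (nat_lit 76) (nat_lit 753038342) (nat_lit 157) (nat_lit 1) (nat_lit 155) (nat_lit 1) (nat_lit 156) (nat_lit 1) (nat_lit 313) (nat_lit 403) (nat_lit 304)))) (XT.nd (nat_lit 78) (nat_lit 228) (nat_lit 0) (XT.lf (nat_lit 0) (nat_lit 3870348899) (nat_lit 0) (nat_lit 5987735622) (nat_lit 152) (nat_lit 3870348899) (nat_lit 155) (nat_lit 3) (nat_lit 155) (nat_lit 1) (nat_lit 157) (nat_lit 1) (nat_lit 314) (nat_lit 403) (nat_lit 303)) (XT.nd (nat_lit 78) (nat_lit 152) (nat_lit 0) (XT.lf (nat_lit 76) (nat_lit 3157421084) (nat_lit 0) (nat_lit 5173979867) (nat_lit 76) (nat_lit 5173979867) (nat_lit 155) (nat_lit 3) (nat_lit 154) (nat_lit 1) (nat_lit 155) (nat_lit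 1) (nat_lit 315) (nat_lit 403) (nat_lit 302)) (XT.lf (nat_lit 152) (nat_lit 12049449072) (nat_lit 0) (nat_lit 619526507) (nat_lit 76) (nat_lit 619526507) (nat_lit 154) (nat_lit 1) (nat_lit 152) (nat_lit 1) (nat_lit 153) (nat_lit 1) (nat_lit 316) (nat_lit 403) (nat_lit 301)))))) (XT.nd (nat_lit 468) (nat_lit 456) (nat_lit 0) (XT.nd (nat_lit 234) (nat_lit 228) (nat_lit 0) (XT.nd (nat_lit 78) (nat_lit 228) (nat_lit 0) (XT.lf (nat_lit 0) (nat_lit 3776072632) (nat_lit 0) (nat_lit 5518051929) (nat_lit 152) (nat_lit 3776072632) (nat_lit 152) (nat_lit 3) (nat_lit 152) (nat_lit 1) (nat_lit 154) (nat_lit 1) (nat_lit 317) (nat_lit 403) (nat_lit 300)) (XT.nd (nat_lit 78) (nat_lit 152) (nat_lit 0) (XT.lf (nat_lit 76) (nat_lit 3179997944) (nat_lit 0) (nat_lit 4839025845) (nat_lit 76) (nat_lit 4839025845) (nat_lit 152) (nat_lit 3) (nat_lit 151) (nat_lit 1) (nat_lit 152) (nat_lit 1) (nat_lit 318) (nat_lit 403)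 (nat_lit 299)) (XT.lf (nat_lit 152) (nat_lit 11632518613) (nat_lit 0) (nat_lit 509685991) (nat_lit 76) (nat_lit 509685991) (nat_lit 151) (nat_lit 1) (nat_lit 149) (nat_lit 1) (nat_lit 150) (nat_lit 1) (nat_lit 319) (nat_lit 403) (nat_lit 298)))) (XT.nd (nat_lit 78) (nat_lit 228) (nat_lit 0) (XT.lf (nat_lit 0) (nat_lit 3670324313) (nat_lit 0) (nat_lit 5103454991) (nat_lit 152) (nat_lit 3670324313) (nat_lit 149) (nat_lit 3) (nat_lit 149) (nat_lit 1) (nat_lit 151) (nat_lit 1) (nat_lit 320) (nat_lit 403) (nat_lit 297)) (XT.nd (nat_lit 78) (nat_lit 152) (nat_lit 0) (XT.lf (nat_lit 76) (nat_lit 3170839611) (nat_lit 0) (nat_lit 4535725971) (nat_lit 76) (nat_lit 4535725971) (nat_lit 149) (nat_lit 3) (nat_lit 148) (nat_lit 1) (nat_lit 149) (nat_lit 1) (nat_lit 321) (nat_lit 403) (nat_lit 296)) (XT.lf (nat_lit 152) (nat_lit 11207632366) (nat_lit 0) (nat_lit 419319926) (nat_lit 76) (nat_lit 419319926) (nat_lit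 148) (nat_lit 1) (nat_lit 146) (nat_lit 1) (nat_lit 147) (nat_lit 1) (nat_lit 322) (nat_lit 403) (nat_lit 295))))) (XT.nd (nat_lit 234) (nat_lit 228) (nat_lit 0) (XT.nd (nat_lit 78) (nat_lit 228) (nat_lit 0) (XT.lf (nat_lit 0) (nat_lit 3556480146) (nat_lit 0) (nat_lit 4735520302) (nat_lit 152) (nat_lit 3556480146) (nat_lit 146) (nat_lit 3) (nat_lit 146) (nat_lit 1) (nat_lit 148) (nat_lit 1) (nat_lit 323) (nat_lit 403) (nat_lit 294)) (XT.nd (nat_lit 78) (nat_lit 152) (nat_lit 0) (XT.lf (nat_lit 76) (nat_lit 3136893245) (nat_lit 0) (nat_lit 4259788632) (nat_lit 76) (nat_lit 4259788632) (nat_lit 146) (nat_lit 3) (nat_lit 145) (nat_lit 1) (nat_lit 146) (nat_lit 1) (nat_lit 324) (nat_lit 403) (nat_lit 293)) (XT.lf (nat_lit 152) (nat_lit 10780099756) (nat_lit 0) (nat_lit 344975541) (nat_lit 76) (nat_lit 344975541) (nat_lit 145) (nat_lit 1) (nat_lit 143) (nat_lit 1) (nat_lit 144) (nat_lit 1) (nat_lit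 325) (nat_lit 403) (nat_lit 292)))) (XT.nd (nat_lit 156) (nat_lit 152) (nat_lit 0) (XT.nd (nat_lit 78) (nat_lit 76) (nat_lit 0) (XT.lf (nat_lit 0) (nat_lit 3437253828) (nat_lit 0) (nat_lit 4407253083) (nat_lit 152) (nat_lit 3437253828) (nat_lit 143) (nat_lit 3) (nat_lit 143) (nat_lit 1) (nat_lit 145) (nat_lit 1) (nat_lit 326) (nat_lit 403) (nat_lit 291)) (XT.lf (nat_lit 76) (nat_lit 3083811408) (nat_lit 0) (nat_lit 4007620221) (nat_lit 76) (nat_lit 4007620221) (nat_lit 143) (nat_lit 3) (nat_lit 142) (nat_lit 1) (nat_lit 143) (nat_lit 1) (nat_lit 327) (nat_lit 403) (nat_lit 290))) (XT.nd (nat_lit 78) (nat_lit 0) (nat_lit 0) (XT.lf (nat_lit 152) (nat_lit 10354103198) (nat_lit 0) (nat_lit 283812231) (nat_lit 76) (nat_lit 283812231) (nat_lit 142) (nat_lit 1) (nat_lit 140) (nat_lit 1) (nat_lit 141) (nat_lit 1) (nat_lit 328) (nat_lit 403) (nat_lit 289)) (XT.lf (nat_lit 0) (nat_lit 3314817051) (nat_lit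 0) (nat_lit 4112837837) (nat_lit 152) (nat_lit 3314817051) (nat_lit 140) (nat_lit 3) (nat_lit 140) (nat_lit 1) (nat_lit 142) (nat_lit 1) (nat_lit 329) (nat_lit 403) (nat_lit 288))))))))
noncomputable def ec271 : XT := (XT.nd (nat_lit 1950) (nat_lit 1976) (nat_lit 0) (XT.nd (nat_lit 936) (nat_lit 988) (nat_lit 0) (XT.nd (nat_lit 468) (nat_lit 456) (nat_lit 0) (XT.nd (nat_lit 234) (nat_lit 228) (nat_lit 0) (XT.nd (nat_lit 78) (nat_lit 152) (nat_lit 0) (XT.lf (nat_lit 76) (nat_lit 3016184583) (nat_lit 0) (nat_lit 3776204380) (nat_lit 76) (nat_lit 3776204380) (nat_lit 140) (nat_lit 3) (nat_lit 139) (nat_lit 1) (nat_lit 140) (nat_lit 1) (nat_lit 330) (nat_lit 403) (nat_lit 287)) (XT.nd (nat_lit 78) (nat_lit 0) (nat_lit 0) (XT.lf (nat_lit 152) (nat_lit 9932906753) (nat_lit 0) (nat_lit 233493025) (nat_lit 76) (nat_lit 233493025) (nat_lit 139) (nat_lit 1) (nat_lit 137) (nat_lit 1) (nat_lit 138) (nat_lit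 1) (nat_lit 331) (nat_lit 403) (nat_lit 286)) (XT.lf (nat_lit 0) (nat_lit 3190898495) (nat_lit 0) (nat_lit 3847432172) (nat_lit 152) (nat_lit 3190898495) (nat_lit 137) (nat_lit 3) (nat_lit 137) (nat_lit 1) (nat_lit 139) (nat_lit 1) (nat_lit 332) (nat_lit 403) (nat_lit 285)))) (XT.nd (nat_lit 78) (nat_lit 152) (nat_lit 0) (XT.lf (nat_lit 76) (nat_lit 2937732336) (nat_lit 0) (nat_lit 3563002504) (nat_lit 76) (nat_lit 3563002504) (nat_lit 137) (nat_lit 3) (nat_lit 136) (nat_lit 1) (nat_lit 137) (nat_lit 1) (nat_lit 333) (nat_lit 403) (nat_lit 284)) (XT.nd (nat_lit 78) (nat_lit 0) (nat_lit 0) (XT.lf (nat_lit 152) (nat_lit 9519027375) (nat_lit 0) (nat_lit 192095289) (nat_lit 76) (nat_lit 192095289) (nat_lit 136) (nat_lit 1) (nat_lit 134) (nat_lit 1) (nat_lit 135) (nat_lit 1) (nat_lit 334) (nat_lit 403) (nat_lit 283)) (XT.lf (nat_lit 0) (nat_lit 3066865141) (nat_lit 0) (nat_lit 3606997021) (nat_lit 152)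 (nat_lit 3066865141) (nat_lit 134) (nat_lit 3) (nat_lit 134) (nat_lit 1) (nat_lit 136) (nat_lit 1) (nat_lit 335) (nat_lit 403) (nat_lit 282))))) (XT.nd (nat_lit 234) (nat_lit 228) (nat_lit 0) (XT.nd (nat_lit 78) (nat_lit 152) (nat_lit 0) (XT.lf (nat_lit 76) (nat_lit 2851460440) (nat_lit 0) (nat_lit 3365871755) (nat_lit 76) (nat_lit 3365871755) (nat_lit 134) (nat_lit 3) (nat_lit 133) (nat_lit 1) (nat_lit 134) (nat_lit 1) (nat_lit 336) (nat_lit 403) (nat_lit 281)) (XT.nd (nat_lit 78) (nat_lit 0) (nat_lit 0) (XT.lf (nat_lit 152) (nat_lit 9114375387) (nat_lit 0) (nat_lit 158037270) (nat_lit 76) (nat_lit 158037270) (nat_lit 133) (nat_lit 1) (nat_lit 131) (nat_lit 1) (nat_lit 132) (nat_lit 1) (nat_lit 337) (nat_lit 403) (nat_lit 280)) (XT.lf (nat_lit 0) (nat_lit 2943789019) (nat_lit 0) (nat_lit 3388156853) (nat_lit 152) (nat_lit 2943789019) (nat_lit 131) (nat_lit 3) (nat_lit 131) (nat_lit 1) (nat_lit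 133) (nat_lit 1) (nat_lit 338) (nat_lit 403) (nat_lit 279)))) (XT.nd (nat_lit 78) (nat_lit 152) (nat_lit 0) (XT.lf (nat_lit 76) (nat_lit 2759790015) (nat_lit 0) (nat_lit 3182997476) (nat_lit 76) (nat_lit 3182997476) (nat_lit 131) (nat_lit 3) (nat_lit 130) (nat_lit 1) (nat_lit 131) (nat_lit 1) (nat_lit 339) (nat_lit 403) (nat_lit 278)) (XT.nd (nat_lit 78) (nat_lit 0) (nat_lit 0) (XT.lf (nat_lit 152) (nat_lit 8720369670) (nat_lit 0) (nat_lit 130017653) (nat_lit 76) (nat_lit 130017653) (nat_lit 130) (nat_lit 1) (nat_lit 128) (nat_lit 1) (nat_lit 129) (nat_lit 1) (nat_lit 340) (nat_lit 403) (nat_lit 277)) (XT.lf (nat_lit 0) (nat_lit 2822502014) (nat_lit 0) (nat_lit 3188084531) (nat_lit 152) (nat_lit 2822502014) (nat_lit 128) (nat_lit 3) (nat_lit 128) (nat_lit 1) (nat_lit 130) (nat_lit 1) (nat_lit 341) (nat_lit 403) (nat_lit 276)))))) (XT.nd (nat_lit 468) (nat_lit 532) (nat_lit 0) (XT.nd (nat_lit 234)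 (nat_lit 228) (nat_lit 0) (XT.nd (nat_lit 78) (nat_lit 152) (nat_lit 0) (XT.lf (nat_lit 76) (nat_lit 2664663650) (nat_lit 0) (nat_lit 3012837476) (nat_lit 76) (nat_lit 3012837476) (nat_lit 128) (nat_lit 3) (nat_lit 127) (nat_lit 1) (nat_lit 128) (nat_lit 1) (nat_lit 342) (nat_lit 403) (nat_lit 275)) (XT.nd (nat_lit 78) (nat_lit 0) (nat_lit 0) (XT.lf (nat_lit 152) (nat_lit 8338032073) (nat_lit 0) (nat_lit 106965845) (nat_lit 76) (nat_lit 106965845) (nat_lit 127) (nat_lit 1) (nat_lit 125) (nat_lit 1) (nat_lit 126) (nat_lit 1) (nat_lit 343) (nat_lit 403) (nat_lit 274)) (XT.lf (nat_lit 0) (nat_lit 2703640823) (nat_lit 0) (nat_lit 3004406464) (nat_lit 152) (nat_lit 2703640823) (nat_lit 125) (nat_lit 3) (nat_lit 125) (nat_lit 1) (nat_lit 127) (nat_lit 1) (nat_lit 344) (nat_lit 403) (nat_lit 273)))) (XT.nd (nat_lit 78) (nat_lit 152) (nat_lit 0) (XT.lf (nat_lit 76) (nat_lit 2567632594) (nat_lit 0) (nat_lit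 2854076062) (nat_lit 76) (nat_lit 2854076062) (nat_lit 125) (nat_lit 3) (nat_lit 124) (nat_lit 1) (nat_lit 125) (nat_lit 1) (nat_lit 345) (nat_lit 403) (nat_lit 272)) (XT.nd (nat_lit 78) (nat_lit 0) (nat_lit 0) (XT.lf (nat_lit 152) (nat_lit 7968064731) (nat_lit 0) (nat_lit 88001065) (nat_lit 76) (nat_lit 88001065) (nat_lit 124) (nat_lit 1) (nat_lit 122) (nat_lit 1) (nat_lit 123) (nat_lit 1) (nat_lit 346) (nat_lit 403) (nat_lit 271)) (XT.lf (nat_lit 0) (nat_lit 2587683835) (nat_lit 0) (nat_lit 2835124473) (nat_lit 152) (nat_lit 2587683835) (nat_lit 122) (nat_lit 3) (nat_lit 122) (nat_lit 1) (nat_lit 124) (nat_lit 1) (nat_lit 347) (nat_lit 403) (nat_lit 270))))) (XT.nd (nat_lit 234) (nat_lit 304) (nat_lit 0) (XT.nd (nat_lit 78) (nat_lit 152) (nat_lit 0) (XT.lf (nat_lit 76) (nat_lit 2469928370) (nat_lit 0) (nat_lit 2705586120) (nat_lit 76) (nat_lit 2705586120) (nat_lit 122) (nat_lit 3) (nat_lit 121)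 (nat_lit 1) (nat_lit 122) (nat_lit 1) (nat_lit 348) (nat_lit 403) (nat_lit 269)) (XT.nd (nat_lit 78) (nat_lit 0) (nat_lit 0) (XT.lf (nat_lit 152) (nat_lit 7610913344) (nat_lit 0) (nat_lit 72398694) (nat_lit 76) (nat_lit 72398694) (nat_lit 121) (nat_lit 1) (nat_lit 119) (nat_lit 1) (nat_lit 120) (nat_lit 1) (nat_lit 349) (nat_lit 403) (nat_lit 268)) (XT.lf (nat_lit 0) (nat_lit 2474981361) (nat_lit 0) (nat_lit 2678551386) (nat_lit 152) (nat_lit 2474981361) (nat_lit 119) (nat_lit 3) (nat_lit 119) (nat_lit 1) (nat_lit 121) (nat_lit 1) (nat_lit 350) (nat_lit 403) (nat_lit 267)))) (XT.nd (nat_lit 156) (nat_lit 76) (nat_lit 0) (XT.nd (nat_lit 78) (nat_lit 152) (nat_lit 0) (XT.lf (nat_lit 76) (nat_lit 2372521592) (nat_lit 0) (nat_lit 2566397807) (nat_lit 76) (nat_lit 2566397807) (nat_lit 119) (nat_lit 3) (nat_lit 118) (nat_lit 1) (nat_lit 119) (nat_lit 1) (nat_lit 351) (nat_lit 403) (nat_lit 266)) (XT.lf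 (nat_lit 152) (nat_lit 7266818931) (nat_lit 0) (nat_lit 59562585) (nat_lit 76) (nat_lit 59562585) (nat_lit 118) (nat_lit 1) (nat_lit 116) (nat_lit 1) (nat_lit 117) (nat_lit 1) (nat_lit 352) (nat_lit 403) (nat_lit 265))) (XT.nd (nat_lit 78) (nat_lit 76) (nat_lit 0) (XT.lf (nat_lit 0) (nat_lit 2365780401) (nat_lit 0) (nat_lit 2533257964) (nat_lit 152) (nat_lit 2365780401) (nat_lit 116) (nat_lit 3) (nat_lit 116) (nat_lit 1) (nat_lit 118) (nat_lit 1) (nat_lit 353) (nat_lit 403) (nat_lit 264)) (XT.lf (nat_lit 76) (nat_lit 2276170252) (nat_lit 0) (nat_lit 2435672693) (nat_lit 76) (nat_lit 2435672693) (nat_lit 116) (nat_lit 3) (nat_lit 115) (nat_lit 1) (nat_lit 116) (nat_lit 1) (nat_lit 354) (nat_lit 403) (nat_lit 263))))))) (XT.nd (nat_lit 1014) (nat_lit 912) (nat_lit 0) (XT.nd (nat_lit 468) (nat_lit 608) (nat_lit 0) (XT.nd (nat_lit 234) (nat_lit 228) (nat_lit 0) (XT.nd (nat_lit 78) (nat_lit 76) (nat_lit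 0) (XT.lf (nat_lit 152) (nat_lit 6935860096) (nat_lit 0) (nat_lit 49002286) (nat_lit 76) (nat_lit 49002286) (nat_lit 115) (nat_lit 1) (nat_lit 113) (nat_lit 1) (nat_lit 114) (nat_lit 1) (nat_lit 355) (nat_lit 403) (nat_lit 262)) (XT.nd (nat_lit 78) (nat_lit 76) (nat_lit 0) (XT.lf (nat_lit 0) (nat_lit 2260244924) (nat_lit 0) (nat_lit 2398029130) (nat_lit 152) (nat_lit 2260244924) (nat_lit 113) (nat_lit 3) (nat_lit 113) (nat_lit 1) (nat_lit 115) (nat_lit 1) (nat_lit 356) (nat_lit 403) (nat_lit 261)) (XT.lf (nat_lit 76) (nat_lit 2181459344) (nat_lit 0) (nat_lit 2312682397) (nat_lit 76) (nat_lit 2312682397) (nat_lit 113) (nat_lit 3) (nat_lit 112) (nat_lit 1) (nat_lit 113) (nat_lit 1) (nat_lit 357) (nat_lit 403) (nat_lit 260)))) (XT.nd (nat_lit 78) (nat_lit 76) (nat_lit 0) (XT.lf (nat_lit 152) (nat_lit 6617987530) (nat_lit 0) (nat_lit 40314302) (nat_lit 76) (nat_lit 40314302) (nat_lit 112) (nat_lit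 1) (nat_lit 110) (nat_lit 1) (nat_lit 111) (nat_lit 1) (nat_lit 358) (nat_lit 403) (nat_lit 259)) (XT.nd (nat_lit 78) (nat_lit 76) (nat_lit 0) (XT.lf (nat_lit 0) (nat_lit 2158472458) (nat_lit 0) (nat_lit 2271827865) (nat_lit 152) (nat_lit 2158472458) (nat_lit 110) (nat_lit 3) (nat_lit 110) (nat_lit 1) (nat_lit 112) (nat_lit 1) (nat_lit 359) (nat_lit 403) (nat_lit 258)) (XT.lf (nat_lit 76) (nat_lit 2088833376) (nat_lit 0) (nat_lit 2196790907) (nat_lit 76) (nat_lit 2196790907) (nat_lit 110) (nat_lit 3) (nat_lit 109) (nat_lit 1) (nat_lit 110) (nat_lit 1) (nat_lit 360) (nat_lit 403) (nat_lit 257))))) (XT.nd (nat_lit 234) (nat_lit 380) (nat_lit 0) (XT.nd (nat_lit 78) (nat_lit 76) (nat_lit 0) (XT.lf (nat_lit 152) (nat_lit 6313052114) (nat_lit 0) (nat_lit 33166676) (nat_lit 76) (nat_lit 33166676) (nat_lit 109) (nat_lit 1) (nat_lit 107) (nat_lit 1) (nat_lit 108) (nat_lit 1) (nat_lit 361) (nat_lit 403)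 (nat_lit 256)) (XT.nd (nat_lit 78) (nat_lit 76) (nat_lit 0) (XT.lf (nat_lit 0) (nat_lit 2060507648) (nat_lit 0) (nat_lit 2153765422) (nat_lit 152) (nat_lit 2060507648) (nat_lit 107) (nat_lit 3) (nat_lit 107) (nat_lit 1) (nat_lit 109) (nat_lit 1) (nat_lit 362) (nat_lit 403) (nat_lit 255)) (XT.lf (nat_lit 76) (nat_lit 1998623032) (nat_lit 0) (nat_lit 2087439959) (nat_lit 76) (nat_lit 2087439959) (nat_lit 107) (nat_lit 3) (nat_lit 106) (nat_lit 1) (nat_lit 107) (nat_lit 1) (nat_lit 363) (nat_lit 403) (nat_lit 254)))) (XT.nd (nat_lit 156) (nat_lit 228) (nat_lit 0) (XT.nd (nat_lit 78) (nat_lit 0) (nat_lit 0) (XT.lf (nat_lit 152) (nat_lit 6020827783) (nat_lit 0) (nat_lit 27286306) (nat_lit 76) (nat_lit 27286306) (nat_lit 106) (nat_lit 1) (nat_lit 104) (nat_lit 1) (nat_lit 105) (nat_lit 1) (nat_lit 364) (nat_lit 403) (nat_lit 253)) (XT.lf (nat_lit 0) (nat_lit 1966353326) (nat_lit 0) (nat_lit 2043076728)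 (nat_lit 152) (nat_lit 1966353326) (nat_lit 104) (nat_lit 3) (nat_lit 104) (nat_lit 1) (nat_lit 106) (nat_lit 1) (nat_lit 365) (nat_lit 403) (nat_lit 252))) (XT.nd (nat_lit 78) (nat_lit 152) (nat_lit 0) (XT.lf (nat_lit 76) (nat_lit 1911067013) (nat_lit 0) (nat_lit 1984136919) (nat_lit 76) (nat_lit 1984136919) (nat_lit 104) (nat_lit 3) (nat_lit 103) (nat_lit 1) (nat_lit 104) (nat_lit 1) (nat_lit 366) (nat_lit 403) (nat_lit 251)) (XT.lf (nat_lit 152) (nat_lit 5741030094) (nat_lit 0) (nat_lit 22448511) (nat_lit 76) (nat_lit 22448511) (nat_lit 103) (nat_lit 1) (nat_lit 101) (nat_lit 1) (nat_lit 102) (nat_lit 1) (nat_lit 367) (nat_lit 403) (nat_lit 250)))))) (XT.nd (nat_lit 468) (nat_lit 456) (nat_lit 0) (XT.nd (nat_lit 234) (nat_lit 228) (nat_lit 0) (XT.nd (nat_lit 78) (nat_lit 228) (nat_lit 0) (XT.lf (nat_lit 0) (nat_lit 1875979543) (nat_lit 0) (nat_lit 1939100076) (nat_lit 152) (nat_lit 1875979543)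 (nat_lit 101) (nat_lit 3) (nat_lit 101) (nat_lit 1) (nat_lit 103) (nat_lit 1) (nat_lit 368) (nat_lit 403) (nat_lit 249)) (XT.nd (nat_lit 78) (nat_lit 152) (nat_lit 0) (XT.lf (nat_lit 76) (nat_lit 1826329940) (nat_lit 0) (nat_lit 1886444733) (nat_lit 76) (nat_lit 1886444733) (nat_lit 101) (nat_lit 3) (nat_lit 100) (nat_lit 1) (nat_lit 101) (nat_lit 1) (nat_lit 369) (nat_lit 403) (nat_lit 248)) (XT.lf (nat_lit 152) (nat_lit 5473331263) (nat_lit 0) (nat_lit 18468446) (nat_lit 76) (nat_lit 18468446) (nat_lit 100) (nat_lit 1) (nat_lit 98) (nat_lit 1) (nat_lit 99) (nat_lit 1) (nat_lit 370) (nat_lit 403) (nat_lit 247)))) (XT.nd (nat_lit 78) (nat_lit 228) (nat_lit 0) (XT.lf (nat_lit 0) (nat_lit 1789330914) (nat_lit 0) (nat_lit 1841260332) (nat_lit 152) (nat_lit 1789330914) (nat_lit 98) (nat_lit 3) (nat_lit 98) (nat_lit 1) (nat_lit 100) (nat_lit 1) (nat_lit 371) (nat_lit 403) (nat_lit 246)) (XT.nd (nat_lit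 78) (nat_lit 152) (nat_lit 0) (XT.lf (nat_lit 76) (nat_lit 1744516999) (nat_lit 0) (nat_lit 1793973588) (nat_lit 76) (nat_lit 1793973588) (nat_lit 98) (nat_lit 3) (nat_lit 97) (nat_lit 1) (nat_lit 98) (nat_lit 1) (nat_lit 372) (nat_lit 403) (nat_lit 245)) (XT.lf (nat_lit 152) (nat_lit 5217372315) (nat_lit 0) (nat_lit 15194036) (nat_lit 76) (nat_lit 15194036) (nat_lit 97) (nat_lit 1) (nat_lit 95) (nat_lit 1) (nat_lit 96) (nat_lit 1) (nat_lit 373) (nat_lit 403) (nat_lit 244))))) (XT.nd (nat_lit 234) (nat_lit 228) (nat_lit 0) (XT.nd (nat_lit 78) (nat_lit 228) (nat_lit 0) (XT.lf (nat_lit 0) (nat_lit 1706332590) (nat_lit 0) (nat_lit 1749055051) (nat_lit 152) (nat_lit 1706332590) (nat_lit 95) (nat_lit 3) (nat_lit 95) (nat_lit 1) (nat_lit 97) (nat_lit 1) (nat_lit 374) (nat_lit 403) (nat_lit 243)) (XT.nd (nat_lit 78) (nat_lit 152) (nat_lit 0) (XT.lf (nat_lit 76) (nat_lit 1665685917) (nat_lit 0) (nat_lit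 1706373975) (nat_lit 76) (nat_lit 1706373975) (nat_lit 95) (nat_lit 3) (nat_lit 94) (nat_lit 1) (nat_lit 95) (nat_lit 1) (nat_lit 375) (nat_lit 403) (nat_lit 242)) (XT.lf (nat_lit 152) (nat_lit 4972772868) (nat_lit 0) (nat_lit 12500171) (nat_lit 76) (nat_lit 12500171) (nat_lit 94) (nat_lit 1) (nat_lit 92) (nat_lit 1) (nat_lit 93) (nat_lit 1) (nat_lit 376) (nat_lit 403) (nat_lit 241)))) (XT.nd (nat_lit 156) (nat_lit 152) (nat_lit 0) (XT.nd (nat_lit 78) (nat_lit 76) (nat_lit 0) (XT.lf (nat_lit 0) (nat_lit 1626895111) (nat_lit 0) (nat_lit 1662042985) (nat_lit 152) (nat_lit 1626895111) (nat_lit 92) (nat_lit 3) (nat_lit 92) (nat_lit 1) (nat_lit 94) (nat_lit 1) (nat_lit 377) (nat_lit 403) (nat_lit 240)) (XT.lf (nat_lit 76) (nat_lit 1589856749) (nat_lit 0) (nat_lit 1623330915) (nat_lit 76) (nat_lit 1623330915) (nat_lit 92) (nat_lit 3) (nat_lit 91) (nat_lit 1) (nat_lit 92) (nat_lit 1) (nat_lit 378) (nat_lit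 403) (nat_lit 239))) (XT.nd (nat_lit 78) (nat_lit 0) (nat_lit 0) (XT.lf (nat_lit 152) (nat_lit 4739138975) (nat_lit 0) (nat_lit 10283921) (nat_lit 76) (nat_lit 10283921) (nat_lit 91) (nat_lit 1) (nat_lit 89) (nat_lit 1) (nat_lit 90) (nat_lit 1) (nat_lit 379) (nat_lit 403) (nat_lit 238)) (XT.lf (nat_lit 0) (nat_lit 1550918316) (nat_lit 0) (nat_lit 1579834559) (nat_lit 152) (nat_lit 1550918316) (nat_lit 89) (nat_lit 3) (nat_lit 89) (nat_lit 1) (nat_lit 91) (nat_lit 1) (nat_lit 380) (nat_lit 403) (nat_lit 237))))))))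
noncomputable def ec272 : XT := (XT.nd (nat_lit 1950) (nat_lit 1976) (nat_lit 0) (XT.nd (nat_lit 936) (nat_lit 988) (nat_lit 0) (XT.nd (nat_lit 468) (nat_lit 456) (nat_lit 0) (XT.nd (nat_lit 234) (nat_lit 228) (nat_lit 0) (XT.nd (nat_lit 78) (nat_lit 152) (nat_lit 0) (XT.lf (nat_lit 76) (nat_lit 1517019866) (nat_lit 0) (nat_lit 1544559145) (nat_lit 76) (nat_lit 1544559145) (nat_lit 89) (nat_lit 3) (nat_lit 88) (nat_lit 1) (nat_lit 89) (nat_lit 1) (nat_lit 381) (nat_lit 403) (nat_lit 236)) (XT.nd (nat_lit 78) (nat_lit 0) (nat_lit 0) (XT.lf (nat_lit 152) (nat_lit 4516069393) (nat_lit 0) (nat_lit 8460608) (nat_lit 76) (nat_lit 8460608) (nat_lit 88) (nat_lit 1) (nat_lit 86) (nat_lit 1) (nat_lit 87) (nat_lit 1) (nat_lit 382) (nat_lit 403) (nat_lit 235)) (XT.lf (nat_lit 0) (nat_lit 1478294510) (nat_lit 0) (nat_lit 1502083975) (nat_lit 152) (nat_lit 1478294510) (nat_lit 86) (nat_lit 3) (nat_lit 86) (nat_lit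 1) (nat_lit 88) (nat_lit 1) (nat_lit 383) (nat_lit 403) (nat_lit 234)))) (XT.nd (nat_lit 78) (nat_lit 152) (nat_lit 0) (XT.lf (nat_lit 76) (nat_lit 1447142459) (nat_lit 0) (nat_lit 1469799092) (nat_lit 76) (nat_lit 1469799092) (nat_lit 86) (nat_lit 3) (nat_lit 85) (nat_lit 1) (nat_lit 86) (nat_lit 1) (nat_lit 384) (nat_lit 403) (nat_lit 233)) (XT.nd (nat_lit 78) (nat_lit 0) (nat_lit 0) (XT.lf (nat_lit 152) (nat_lit 4303160541) (nat_lit 0) (nat_lit 6960563) (nat_lit 76) (nat_lit 6960563) (nat_lit 85) (nat_lit 1) (nat_lit 83) (nat_lit 1) (nat_lit 84) (nat_lit 1) (nat_lit 385) (nat_lit 403) (nat_lit 232)) (XT.lf (nat_lit 0) (nat_lit 1408911003) (nat_lit 0) (nat_lit 1428482655) (nat_lit 152) (nat_lit 1408911003) (nat_lit 83) (nat_lit 3) (nat_lit 83) (nat_lit 1) (nat_lit 85) (nat_lit 1) (nat_lit 386) (nat_lit 403) (nat_lit 231))))) (XT.nd (nat_lit 234) (nat_lit 228) (nat_lit 0) (XT.nd (nat_lit 78) (nat_lit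 152) (nat_lit 0) (XT.lf (nat_lit 76) (nat_lit 1380173836) (nat_lit 0) (nat_lit 1398813504) (nat_lit 76) (nat_lit 1398813504) (nat_lit 83) (nat_lit 3) (nat_lit 82) (nat_lit 1) (nat_lit 83) (nat_lit 1) (nat_lit 387) (nat_lit 403) (nat_lit 230)) (XT.nd (nat_lit 78) (nat_lit 0) (nat_lit 0) (XT.lf (nat_lit 152) (nat_lit 4100010422) (nat_lit 0) (nat_lit 5726472) (nat_lit 76) (nat_lit 5726472) (nat_lit 82) (nat_lit 1) (nat_lit 80) (nat_lit 1) (nat_lit 81) (nat_lit 1) (nat_lit 388) (nat_lit 403) (nat_lit 229)) (XT.lf (nat_lit 0) (nat_lit 1342652141) (nat_lit 0) (nat_lit 1358753787) (nat_lit 152) (nat_lit 1342652141) (nat_lit 80) (nat_lit 3) (nat_lit 80) (nat_lit 1) (nat_lit 82) (nat_lit 1) (nat_lit 389) (nat_lit 403) (nat_lit 228)))) (XT.nd (nat_lit 78) (nat_lit 152) (nat_lit 0) (XT.lf (nat_lit 76) (nat_lit 1316049719) (nat_lit 0) (nat_lit 1331384620) (nat_lit 76) (nat_lit 1331384620) (nat_lit 80) (nat_lit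 3) (nat_lit 79) (nat_lit 1) (nat_lit 80) (nat_lit 1) (nat_lit 390) (nat_lit 403) (nat_lit 227)) (XT.nd (nat_lit 78) (nat_lit 0) (nat_lit 0) (XT.lf (nat_lit 152) (nat_lit 3906221669) (nat_lit 0) (nat_lit 4711183) (nat_lit 76) (nat_lit 4711183) (nat_lit 79) (nat_lit 1) (nat_lit 77) (nat_lit 1) (nat_lit 78) (nat_lit 1) (nat_lit 391) (nat_lit 403) (nat_lit 226)) (XT.lf (nat_lit 0) (nat_lit 1279400927) (nat_lit 0) (nat_lit 1292647791) (nat_lit 152) (nat_lit 1279400927) (nat_lit 77) (nat_lit 3) (nat_lit 77) (nat_lit 1) (nat_lit 79) (nat_lit 1) (nat_lit 392) (nat_lit 403) (nat_lit 225)))))) (XT.nd (nat_lit 468) (nat_lit 532) (nat_lit 0) (XT.nd (nat_lit 234) (nat_lit 228) (nat_lit 0) (XT.nd (nat_lit 78) (nat_lit 152) (nat_lit 0) (XT.lf (nat_lit 76) (nat_lit 1254695731) (nat_lit 0) (nat_lit 1267311792) (nat_lit 76) (nat_lit 1267311792) (nat_lit 77) (nat_lit 3) (nat_lit 76) (nat_lit 1) (nat_lit 77) (nat_lit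 1) (nat_lit 393) (nat_lit 403) (nat_lit 224)) (XT.nd (nat_lit 78) (nat_lit 0) (nat_lit 0) (XT.lf (nat_lit 152) (nat_lit 3721403899) (nat_lit 0) (nat_lit 3875902) (nat_lit 76) (nat_lit 3875902) (nat_lit 76) (nat_lit 1) (nat_lit 74) (nat_lit 1) (nat_lit 75) (nat_lit 1) (nat_lit 394) (nat_lit 403) (nat_lit 223)) (XT.lf (nat_lit 0) (nat_lit 1219040298) (nat_lit 0) (nat_lit 1229938525) (nat_lit 152) (nat_lit 1219040298) (nat_lit 74) (nat_lit 3) (nat_lit 74) (nat_lit 1) (nat_lit 76) (nat_lit 1) (nat_lit 395) (nat_lit 403) (nat_lit 222)))) (XT.nd (nat_lit 78) (nat_lit 152) (nat_lit 0) (XT.lf (nat_lit 76) (nat_lit 1196030207) (nat_lit 0) (nat_lit 1206409472) (nat_lit 76) (nat_lit 1206409472) (nat_lit 74) (nat_lit 3) (nat_lit 73) (nat_lit 1) (nat_lit 74) (nat_lit 1) (nat_lit 396) (nat_lit 403) (nat_lit 221)) (XT.nd (nat_lit 78) (nat_lit 0) (nat_lit 0) (XT.lf (nat_lit 152) (nat_lit 3545175498) (nat_lit 0)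 (nat_lit 3188714) (nat_lit 76) (nat_lit 3188714) (nat_lit 73) (nat_lit 1) (nat_lit 71) (nat_lit 1) (nat_lit 72) (nat_lit 1) (nat_lit 397) (nat_lit 403) (nat_lit 220)) (XT.lf (nat_lit 0) (nat_lit 1161454125) (nat_lit 0) (nat_lit 1170420124) (nat_lit 152) (nat_lit 1161454125) (nat_lit 71) (nat_lit 3) (nat_lit 71) (nat_lit 1) (nat_lit 73) (nat_lit 1) (nat_lit 398) (nat_lit 403) (nat_lit 219))))) (XT.nd (nat_lit 234) (nat_lit 304) (nat_lit 0) (XT.nd (nat_lit 78) (nat_lit 152) (nat_lit 0) (XT.lf (nat_lit 76) (nat_lit 1139966463) (nat_lit 0) (nat_lit 1148505510) (nat_lit 76) (nat_lit 1148505510) (nat_lit 71) (nat_lit 3) (nat_lit 70) (nat_lit 1) (nat_lit 71) (nat_lit 1) (nat_lit 399) (nat_lit 403) (nat_lit 218)) (XT.nd (nat_lit 78) (nat_lit 0) (nat_lit 0) (XT.lf (nat_lit 152) (nat_lit 3377164941) (nat_lit 0) (nat_lit 2623363) (nat_lit 76) (nat_lit 2623363) (nat_lit 70) (nat_lit 1) (nat_lit 68) (nat_lit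 1) (nat_lit 69) (nat_lit 1) (nat_lit 400) (nat_lit 403) (nat_lit 217)) (XT.lf (nat_lit 0) (nat_lit 1106527998) (nat_lit 0) (nat_lit 1113904348) (nat_lit 152) (nat_lit 1106527998) (nat_lit 68) (nat_lit 3) (nat_lit 68) (nat_lit 1) (nat_lit 70) (nat_lit 1) (nat_lit 401) (nat_lit 403) (nat_lit 216)))) (XT.nd (nat_lit 156) (nat_lit 76) (nat_lit 0) (XT.nd (nat_lit 78) (nat_lit 152) (nat_lit 0) (XT.lf (nat_lit 76) (nat_lit 1086414613) (nat_lit 0) (nat_lit 1093439708) (nat_lit 76) (nat_lit 1093439708) (nat_lit 68) (nat_lit 3) (nat_lit 67) (nat_lit 1) (nat_lit 68) (nat_lit 1) (nat_lit 402) (nat_lit 403) (nat_lit 215)) (XT.lf (nat_lit 152) (nat_lit 3217011751) (nat_lit 0) (nat_lit 2158247) (nat_lit 76) (nat_lit 2158247) (nat_lit 67) (nat_lit 1) (nat_lit 65) (nat_lit 1) (nat_lit 66) (nat_lit 1) (nat_lit 403) (nat_lit 403) (nat_lit 214))) (XT.nd (nat_lit 78) (nat_lit 76) (nat_lit 0) (XT.lf (nat_lit 0) (nat_lit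 1054149813) (nat_lit 0) (nat_lit 1060218354) (nat_lit 152) (nat_lit 1054149813) (nat_lit 65) (nat_lit 3) (nat_lit 65) (nat_lit 1) (nat_lit 67) (nat_lit 1) (nat_lit 404) (nat_lit 403) (nat_lit 213)) (XT.lf (nat_lit 76) (nat_lit 1035283021) (nat_lit 0) (nat_lit 1041062584) (nat_lit 76) (nat_lit 1041062584) (nat_lit 65) (nat_lit 3) (nat_lit 64) (nat_lit 1) (nat_lit 65) (nat_lit 1) (nat_lit 405) (nat_lit 403) (nat_lit 212))))))) (XT.nd (nat_lit 936) (nat_lit 1064) (nat_lit 0) (XT.nd (nat_lit 468) (nat_lit 456) (nat_lit 0) (XT.nd (nat_lit 234) (nat_lit 228) (nat_lit 0) (XT.nd (nat_lit 78) (nat_lit 76) (nat_lit 0) (XT.lf (nat_lit 152) (nat_lit 3064367144) (nat_lit 0) (nat_lit 1775595) (nat_lit 76) (nat_lit 1775595) (nat_lit 64) (nat_lit 1) (nat_lit 62) (nat_lit 1) (nat_lit 63) (nat_lit 1) (nat_lit 406) (nat_lit 403) (nat_lit 211)) (XT.nd (nat_lit 78) (nat_lit 76) (nat_lit 0) (XT.lf (nat_lit 0) (nat_lit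 1004210222) (nat_lit 0) (nat_lit 1009202826) (nat_lit 152) (nat_lit 1004210222) (nat_lit 62) (nat_lit 3) (nat_lit 62) (nat_lit 1) (nat_lit 64) (nat_lit 1) (nat_lit 407) (nat_lit 403) (nat_lit 210)) (XT.lf (nat_lit 76) (nat_lit 986479457) (nat_lit 0) (nat_lit 991234318) (nat_lit 76) (nat_lit 991234318) (nat_lit 62) (nat_lit 3) (nat_lit 61) (nat_lit 1) (nat_lit 62) (nat_lit 1) (nat_lit 408) (nat_lit 403) (nat_lit 209)))) (XT.nd (nat_lit 78) (nat_lit 76) (nat_lit 0) (XT.lf (nat_lit 152) (nat_lit 2918894447) (nat_lit 0) (nat_lit 1460786) (nat_lit 76) (nat_lit 1460786) (nat_lit 61) (nat_lit 1) (nat_lit 59) (nat_lit 1) (nat_lit 60) (nat_lit 1) (nat_lit 409) (nat_lit 403) (nat_lit 208)) (XT.nd (nat_lit 78) (nat_lit 76) (nat_lit 0) (XT.lf (nat_lit 0) (nat_lit 956602961) (nat_lit 0) (nat_lit 960710388) (nat_lit 152) (nat_lit 956602961) (nat_lit 59) (nat_lit 3) (nat_lit 59) (nat_lit 1) (nat_lit 61) (nat_lit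 1) (nat_lit 410) (nat_lit 403) (nat_lit 207)) (XT.lf (nat_lit 76) (nat_lit 939911998) (nat_lit 0) (nat_lit 943823834) (nat_lit 76) (nat_lit 943823834) (nat_lit 59) (nat_lit 3) (nat_lit 58) (nat_lit 1) (nat_lit 59) (nat_lit 1) (nat_lit 411) (nat_lit 403) (nat_lit 206))))) (XT.nd (nat_lit 234) (nat_lit 228) (nat_lit 0) (XT.nd (nat_lit 78) (nat_lit 76) (nat_lit 0) (XT.lf (nat_lit 152) (nat_lit 2780269318) (nat_lit 0) (nat_lit 1201792) (nat_lit 76) (nat_lit 1201792) (nat_lit 58) (nat_lit 1) (nat_lit 56) (nat_lit 1) (nat_lit 57) (nat_lit 1) (nat_lit 412) (nat_lit 403) (nat_lit 205)) (XT.nd (nat_lit 78) (nat_lit 76) (nat_lit 0) (XT.lf (nat_lit 0) (nat_lit 911225077) (nat_lit 0) (nat_lit 914604267) (nat_lit 152) (nat_lit 911225077) (nat_lit 56) (nat_lit 3) (nat_lit 56) (nat_lit 1) (nat_lit 58) (nat_lit 1) (nat_lit 413) (nat_lit 403) (nat_lit 204)) (XT.lf (nat_lit 76) (nat_lit 895489744) (nat_lit 0) (nat_lit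 898708021) (nat_lit 76) (nat_lit 898708021) (nat_lit 56) (nat_lit 3) (nat_lit 55) (nat_lit 1) (nat_lit 56) (nat_lit 1) (nat_lit 414) (nat_lit 403) (nat_lit 203)))) (XT.nd (nat_lit 78) (nat_lit 76) (nat_lit 0) (XT.lf (nat_lit 152) (nat_lit 2648179813) (nat_lit 0) (nat_lit 988717) (nat_lit 76) (nat_lit 988717) (nat_lit 55) (nat_lit 1) (nat_lit 53) (nat_lit 1) (nat_lit 54) (nat_lit 1) (nat_lit 415) (nat_lit 403) (nat_lit 202)) (XT.nd (nat_lit 78) (nat_lit 76) (nat_lit 0) (XT.lf (nat_lit 0) (nat_lit 867977081) (nat_lit 0) (nat_lit 870757150) (nat_lit 152) (nat_lit 867977081) (nat_lit 53) (nat_lit 3) (nat_lit 53) (nat_lit 1) (nat_lit 55) (nat_lit 1) (nat_lit 416) (nat_lit 403) (nat_lit 201)) (XT.lf (nat_lit 76) (nat_lit 853123359) (nat_lit 0) (nat_lit 855771043) (nat_lit 76) (nat_lit 855771043) (nat_lit 53) (nat_lit 3) (nat_lit 52) (nat_lit 1) (nat_lit 53) (nat_lit 1) (nat_lit 417) (nat_lit 403) (nat_lit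 200)))))) (XT.nd (nat_lit 468) (nat_lit 608) (nat_lit 0) (XT.nd (nat_lit 234) (nat_lit 228) (nat_lit 0) (XT.nd (nat_lit 78) (nat_lit 76) (nat_lit 0) (XT.lf (nat_lit 152) (nat_lit 2522326338) (nat_lit 0) (nat_lit 813420) (nat_lit 76) (nat_lit 813420) (nat_lit 52) (nat_lit 1) (nat_lit 50) (nat_lit 1) (nat_lit 51) (nat_lit 1) (nat_lit 418) (nat_lit 403) (nat_lit 199)) (XT.nd (nat_lit 78) (nat_lit 76) (nat_lit 0) (XT.lf (nat_lit 0) (nat_lit 826763041) (nat_lit 0) (nat_lit 829050210) (nat_lit 152) (nat_lit 826763041) (nat_lit 50) (nat_lit 3) (nat_lit 50) (nat_lit 1) (nat_lit 52) (nat_lit 1) (nat_lit 419) (nat_lit 403) (nat_lit 198)) (XT.lf (nat_lit 76) (nat_lit 812725490) (nat_lit 0) (nat_lit 814903746) (nat_lit 76) (nat_lit 814903746) (nat_lit 50) (nat_lit 3) (nat_lit 49) (nat_lit 1) (nat_lit 50) (nat_lit 1) (nat_lit 420) (nat_lit 403) (nat_lit 197)))) (XT.nd (nat_lit 78) (nat_lit 76) (nat_lit 0) (XT.lf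 (nat_lit 152) (nat_lit 2402421503) (nat_lit 0) (nat_lit 669203) (nat_lit 76) (nat_lit 669203) (nat_lit 49) (nat_lit 1) (nat_lit 47) (nat_lit 1) (nat_lit 48) (nat_lit 1) (nat_lit 421) (nat_lit 403) (nat_lit 196)) (XT.nd (nat_lit 78) (nat_lit 76) (nat_lit 0) (XT.lf (nat_lit 0) (nat_lit 787490617) (nat_lit 0) (nat_lit 789372277) (nat_lit 152) (nat_lit 787490617) (nat_lit 47) (nat_lit 3) (nat_lit 47) (nat_lit 1) (nat_lit 49) (nat_lit 1) (nat_lit 422) (nat_lit 403) (nat_lit 195)) (XT.lf (nat_lit 76) (nat_lit 774211073) (nat_lit 0) (nat_lit 776003130) (nat_lit 76) (nat_lit 776003130) (nat_lit 47) (nat_lit 3) (nat_lit 46) (nat_lit 1) (nat_lit 47) (nat_lit 1) (nat_lit 423) (nat_lit 403) (nat_lit 194))))) (XT.nd (nat_lit 234) (nat_lit 380) (nat_lit 0) (XT.nd (nat_lit 78) (nat_lit 76) (nat_lit 0) (XT.lf (nat_lit 152) (nat_lit 2288189909) (nat_lit 0) (nat_lit 550555) (nat_lit 76) (nat_lit 550555) (nat_lit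 46) (nat_lit 1) (nat_lit 44) (nat_lit 1) (nat_lit 45) (nat_lit 1) (nat_lit 424) (nat_lit 403) (nat_lit 193)) (XT.nd (nat_lit 78) (nat_lit 76) (nat_lit 0) (XT.lf (nat_lit 0) (nat_lit 750071067) (nat_lit 0) (nat_lit 751619114) (nat_lit 152) (nat_lit 750071067) (nat_lit 44) (nat_lit 3) (nat_lit 44) (nat_lit 1) (nat_lit 46) (nat_lit 1) (nat_lit 425) (nat_lit 403) (nat_lit 192)) (XT.lf (nat_lit 76) (nat_lit 737497557) (nat_lit 0) (nat_lit 738971886) (nat_lit 76) (nat_lit 738971886) (nat_lit 44) (nat_lit 3) (nat_lit 43) (nat_lit 1) (nat_lit 44) (nat_lit 1) (nat_lit 426) (nat_lit 403) (nat_lit 191)))) (XT.nd (nat_lit 156) (nat_lit 228) (nat_lit 0) (XT.nd (nat_lit 78) (nat_lit 0) (nat_lit 0) (XT.lf (nat_lit 152) (nat_lit 2179367875) (nat_lit 0) (nat_lit 452943) (nat_lit 76) (nat_lit 452943) (nat_lit 43) (nat_lit 1) (nat_lit 41) (nat_lit 1) (nat_lit 42) (nat_lit 1) (nat_lit 427) (nat_lit 403) (nat_lit 190))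 (XT.lf (nat_lit 0) (nat_lit 714419217) (nat_lit 0) (nat_lit 715692798) (nat_lit 152) (nat_lit 714419217) (nat_lit 41) (nat_lit 3) (nat_lit 41) (nat_lit 1) (nat_lit 43) (nat_lit 1) (nat_lit 428) (nat_lit 403) (nat_lit 189))) (XT.nd (nat_lit 78) (nat_lit 152) (nat_lit 0) (XT.lf (nat_lit 76) (nat_lit 702505057) (nat_lit 0) (nat_lit 703717991) (nat_lit 76) (nat_lit 703717991) (nat_lit 41) (nat_lit 3) (nat_lit 40) (nat_lit 1) (nat_lit 41) (nat_lit 1) (nat_lit 429) (nat_lit 403) (nat_lit 188)) (XT.lf (nat_lit 152) (nat_lit 2075703130) (nat_lit 0) (nat_lit 372637) (nat_lit 76) (nat_lit 372637) (nat_lit 40) (nat_lit 1) (nat_lit 38) (nat_lit 1) (nat_lit 39) (nat_lit 1) (nat_lit 430) (nat_lit 403) (nat_lit 187))))))))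
noncomputable def ec273 : XT := (XT.nd (nat_lit 36816) (nat_lit 0) (nat_lit 15884) (XT.nd (nat_lit 936) (nat_lit 228) (nat_lit 0) (XT.nd (nat_lit 468) (nat_lit 456) (nat_lit 0) (XT.nd (nat_lit 234) (nat_lit 228) (nat_lit 0) (XT.nd (nat_lit 78) (nat_lit 228) (nat_lit 0) (XT.lf (nat_lit 0) (nat_lit 680453403) (nat_lit 0) (nat_lit 681501182) (nat_lit 152) (nat_lit 680453403) (nat_lit 38) (nat_lit 3) (nat_lit 38) (nat_lit 1) (nat_lit 40) (nat_lit 1) (nat_lit 431) (nat_lit 403) (nat_lit 186)) (XT.nd (nat_lit 78) (nat_lit 152) (nat_lit 0) (XT.lf (nat_lit 76) (nat_lit 669156450) (nat_lit 0) (nat_lit 670154335) (nat_lit 76) (nat_lit 670154335) (nat_lit 38) (nat_lit 3) (nat_lit 37) (nat_lit 1) (nat_lit 38) (nat_lit 1) (nat_lit 432) (nat_lit 403) (nat_lit 185)) (XT.lf (nat_lit 152) (nat_lit 1976954469) (nat_lit 0) (nat_lit 306569) (nat_lit 76) (nat_lit 306569) (nat_lit 37) (nat_lit 1) (nat_lit 35) (nat_lit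 1) (nat_lit 36) (nat_lit 1) (nat_lit 433) (nat_lit 403) (nat_lit 184)))) (XT.nd (nat_lit 78) (nat_lit 228) (nat_lit 0) (XT.lf (nat_lit 0) (nat_lit 648095409) (nat_lit 0) (nat_lit 648957419) (nat_lit 152) (nat_lit 648095409) (nat_lit 35) (nat_lit 3) (nat_lit 35) (nat_lit 1) (nat_lit 37) (nat_lit 1) (nat_lit 434) (nat_lit 403) (nat_lit 183)) (XT.nd (nat_lit 78) (nat_lit 152) (nat_lit 0) (XT.lf (nat_lit 76) (nat_lit 637377431) (nat_lit 0) (nat_lit 638198393) (nat_lit 76) (nat_lit 638198393) (nat_lit 35) (nat_lit 3) (nat_lit 34) (nat_lit 1) (nat_lit 35) (nat_lit 1) (nat_lit 435) (nat_lit 403) (nat_lit 182)) (XT.lf (nat_lit 152) (nat_lit 1882891397) (nat_lit 0) (nat_lit 252215) (nat_lit 76) (nat_lit 252215) (nat_lit 34) (nat_lit 1) (nat_lit 32) (nat_lit 1) (nat_lit 33) (nat_lit 1) (nat_lit 436) (nat_lit 403) (nat_lit 181))))) (XT.nd (nat_lit 234) (nat_lit 228) (nat_lit 0) (XT.nd (nat_lit 78) (nat_lit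 228) (nat_lit 0) (XT.lf (nat_lit 0) (nat_lit 617270374) (nat_lit 0) (nat_lit 617979551) (nat_lit 152) (nat_lit 617270374) (nat_lit 32) (nat_lit 3) (nat_lit 32) (nat_lit 1) (nat_lit 34) (nat_lit 1) (nat_lit 437) (nat_lit 403) (nat_lit 180)) (XT.nd (nat_lit 78) (nat_lit 152) (nat_lit 0) (XT.lf (nat_lit 76) (nat_lit 607096526) (nat_lit 0) (nat_lit 607771934) (nat_lit 76) (nat_lit 607771934) (nat_lit 32) (nat_lit 3) (nat_lit 31) (nat_lit 1) (nat_lit 32) (nat_lit 1) (nat_lit 438) (nat_lit 403) (nat_lit 179)) (XT.lf (nat_lit 152) (nat_lit 1793293759) (nat_lit 0) (nat_lit 207498) (nat_lit 76) (nat_lit 207498) (nat_lit 31) (nat_lit 1) (nat_lit 29) (nat_lit 1) (nat_lit 30) (nat_lit 1) (nat_lit 439) (nat_lit 403) (nat_lit 178)))) (XT.nd (nat_lit 78) (nat_lit 228) (nat_lit 0) (XT.lf (nat_lit 0) (nat_lit 587906699) (nat_lit 0) (nat_lit 588490141) (nat_lit 152) (nat_lit 587906699) (nat_lit 29) (nat_lit 3) (nat_lit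 29) (nat_lit 1) (nat_lit 31) (nat_lit 1) (nat_lit 440) (nat_lit 403) (nat_lit 177)) (XT.nd (nat_lit 78) (nat_lit 152) (nat_lit 0) (XT.lf (nat_lit 76) (nat_lit 578245088) (nat_lit 0) (nat_lit 578800747) (nat_lit 76) (nat_lit 578800747) (nat_lit 29) (nat_lit 3) (nat_lit 28) (nat_lit 1) (nat_lit 29) (nat_lit 1) (nat_lit 441) (nat_lit 403) (nat_lit 176)) (XT.lf (nat_lit 152) (nat_lit 1707951353) (nat_lit 0) (nat_lit 170709) (nat_lit 76) (nat_lit 170709) (nat_lit 28) (nat_lit 1) (nat_lit 26) (nat_lit 1) (nat_lit 27) (nat_lit 1) (nat_lit 442) (nat_lit 403) (nat_lit 175)))))) (XT.nd (nat_lit 35334) (nat_lit 0) (nat_lit 20520) (XT.nd (nat_lit 35100) (nat_lit 0) (nat_lit 20444) (XT.nd (nat_lit 78) (nat_lit 228) (nat_lit 0) (XT.lf (nat_lit 0) (nat_lit 559935948) (nat_lit 0) (nat_lit 560415948) (nat_lit 152) (nat_lit 559935948) (nat_lit 26) (nat_lit 3) (nat_lit 26) (nat_lit 1) (nat_lit 28) (nat_lit 1) (nat_lit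 443) (nat_lit 403) (nat_lit 174)) (XT.nd (nat_lit 78) (nat_lit 152) (nat_lit 0) (XT.lf (nat_lit 76) (nat_lit 550757258) (nat_lit 0) (nat_lit 551214400) (nat_lit 76) (nat_lit 551214400) (nat_lit 26) (nat_lit 3) (nat_lit 25) (nat_lit 1) (nat_lit 26) (nat_lit 1) (nat_lit 444) (nat_lit 403) (nat_lit 173)) (XT.lf (nat_lit 152) (nat_lit 1626663556) (nat_lit 0) (nat_lit 140443) (nat_lit 76) (nat_lit 140443) (nat_lit 25) (nat_lit 1) (nat_lit 23) (nat_lit 1) (nat_lit 24) (nat_lit 1) (nat_lit 445) (nat_lit 403) (nat_lit 172)))) (XT.nd (nat_lit 78) (nat_lit 0) (nat_lit 0) (XT.lf (nat_lit 836) (nat_lit 12200140143) (nat_lit 0) (nat_lit 21661320780) (nat_lit 836) (nat_lit 12200140143) (nat_lit 303) (nat_lit 1) (nat_lit 292) (nat_lit 0) (nat_lit 303) (nat_lit 0) (nat_lit 212) (nat_lit 404) (nat_lit 404)) (XT.nd (nat_lit 78) (nat_lit 0) (nat_lit 76) (XT.lf (nat_lit 836) (nat_lit 47289266321) (nat_lit 76) (nat_lit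 21311944639) (nat_lit 0) (nat_lit 21311944639) (nat_lit 303) (nat_lit 1) (nat_lit 293) (nat_lit 1) (nat_lit 292) (nat_lit 0) (nat_lit 213) (nat_lit 404) (nat_lit 403)) (XT.lf (nat_lit 836) (nat_lit 22537352295) (nat_lit 0) (nat_lit 42696728888) (nat_lit 760) (nat_lit 22537352295) (nat_lit 304) (nat_lit 1) (nat_lit 293) (nat_lit 1) (nat_lit 303) (nat_lit 1) (nat_lit 214) (nat_lit 404) (nat_lit 402))))) (XT.nd (nat_lit 234) (nat_lit 0) (nat_lit 152) (XT.nd (nat_lit 78) (nat_lit 0) (nat_lit 76) (XT.lf (nat_lit 836) (nat_lit 42276941261) (nat_lit 76) (nat_lit 21710981838) (nat_lit 0) (nat_lit 21710981838) (nat_lit 304) (nat_lit 1) (nat_lit 294) (nat_lit 1) (nat_lit 293) (nat_lit 1) (nat_lit 215) (nat_lit 404) (nat_lit 401)) (XT.nd (nat_lit 78) (nat_lit 0) (nat_lit 0) (XT.lf (nat_lit 836) (nat_lit 19459670073) (nat_lit 0) (nat_lit 44772725010) (nat_lit 760) (nat_lit 19459670073) (nat_lit 305) (nat_lit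 1) (nat_lit 294) (nat_lit 1) (nat_lit 304) (nat_lit 1) (nat_lit 216) (nat_lit 404) (nat_lit 400)) (XT.lf (nat_lit 836) (nat_lit 34999484073) (nat_lit 76) (nat_lit 23373458723) (nat_lit 0) (nat_lit 23373458723) (nat_lit 305) (nat_lit 1) (nat_lit 295) (nat_lit 1) (nat_lit 294) (nat_lit 1) (nat_lit 217) (nat_lit 404) (nat_lit 399)))) (XT.nd (nat_lit 156) (nat_lit 0) (nat_lit 76) (XT.nd (nat_lit 78) (nat_lit 0) (nat_lit 0) (XT.lf (nat_lit 836) (nat_lit 15346262889) (nat_lit 0) (nat_lit 49173540752) (nat_lit 760) (nat_lit 15346262889) (nat_lit 306) (nat_lit 1) (nat_lit 295) (nat_lit 1) (nat_lit 305) (nat_lit 1) (nat_lit 218) (nat_lit 404) (nat_lit 398)) (XT.lf (nat_lit 836) (nat_lit 25797539112) (nat_lit 76) (nat_lit 26119982247) (nat_lit 0) (nat_lit 26119982247) (nat_lit 306) (nat_lit 1) (nat_lit 296) (nat_lit 1) (nat_lit 295) (nat_lit 1) (nat_lit 219) (nat_lit 404) (nat_lit 397))) (XT.nd (nat_lit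 78) (nat_lit 0) (nat_lit 0) (XT.lf (nat_lit 836) (nat_lit 10356368285) (nat_lit 0) (nat_lit 55563139944) (nat_lit 760) (nat_lit 10356368285) (nat_lit 307) (nat_lit 1) (nat_lit 296) (nat_lit 1) (nat_lit 306) (nat_lit 1) (nat_lit 220) (nat_lit 404) (nat_lit 396)) (XT.lf (nat_lit 836) (nat_lit 14973887808) (nat_lit 76) (nat_lit 29790786698) (nat_lit 0) (nat_lit 29790786698) (nat_lit 307) (nat_lit 1) (nat_lit 297) (nat_lit 1) (nat_lit 296) (nat_lit 1) (nat_lit 221) (nat_lit 404) (nat_lit 395))))))) (XT.nd (nat_lit 936) (nat_lit 1900) (nat_lit 0) (XT.nd (nat_lit 468) (nat_lit 1368) (nat_lit 0) (XT.nd (nat_lit 234) (nat_lit 380) (nat_lit 0) (XT.nd (nat_lit 78) (nat_lit 1292) (nat_lit 0) (XT.lf (nat_lit 76) (nat_lit 4631421993) (nat_lit 0) (nat_lit 63642437227) (nat_lit 760) (nat_lit 4631421993) (nat_lit 298) (nat_lit 1) (nat_lit 297) (nat_lit 1) (nat_lit 307) (nat_lit 1) (nat_lit 222) (nat_lit 404) (nat_lit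 394)) (XT.nd (nat_lit 78) (nat_lit 532) (nat_lit 0) (XT.lf (nat_lit 836) (nat_lit 2797263710) (nat_lit 0) (nat_lit 34243768496) (nat_lit 760) (nat_lit 34243768496) (nat_lit 298) (nat_lit 1) (nat_lit 287) (nat_lit 1) (nat_lit 297) (nat_lit 1) (nat_lit 223) (nat_lit 404) (nat_lit 393)) (XT.lf (nat_lit 532) (nat_lit 66382590637) (nat_lit 0) (nat_lit 1675674217) (nat_lit 456) (nat_lit 1675674217) (nat_lit 287) (nat_lit 1) (nat_lit 280) (nat_lit 1) (nat_lit 286) (nat_lit 1) (nat_lit 224) (nat_lit 404) (nat_lit 392)))) (XT.nd (nat_lit 78) (nat_lit 380) (nat_lit 0) (XT.lf (nat_lit 76) (nat_lit 29022353091) (nat_lit 0) (nat_lit 10158321223) (nat_lit 532) (nat_lit 29022353091) (nat_lit 281) (nat_lit 1) (nat_lit 280) (nat_lit 1) (nat_lit 287) (nat_lit 1) (nat_lit 225) (nat_lit 404) (nat_lit 391)) (XT.nd (nat_lit 78) (nat_lit 0) (nat_lit 0) (XT.lf (nat_lit 456) (nat_lit 49940019955) (nat_lit 0) (nat_lit 8398597125)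 (nat_lit 380) (nat_lit 8398597125) (nat_lit 281) (nat_lit 1) (nat_lit 275) (nat_lit 1) (nat_lit 280) (nat_lit 1) (nat_lit 226) (nat_lit 404) (nat_lit 390)) (XT.lf (nat_lit 76) (nat_lit 20701291157) (nat_lit 0) (nat_lit 23899634137) (nat_lit 456) (nat_lit 20701291157) (nat_lit 276) (nat_lit 1) (nat_lit 275) (nat_lit 1) (nat_lit 281) (nat_lit 1) (nat_lit 227) (nat_lit 404) (nat_lit 389))))) (XT.nd (nat_lit 234) (nat_lit 684) (nat_lit 0) (XT.nd (nat_lit 78) (nat_lit 304) (nat_lit 0) (XT.lf (nat_lit 456) (nat_lit 32886211355) (nat_lit 0) (nat_lit 15515492237) (nat_lit 380) (nat_lit 15515492237) (nat_lit 276) (nat_lit 1) (nat_lit 270) (nat_lit 1) (nat_lit 275) (nat_lit 1) (nat_lit 228) (nat_lit 404) (nat_lit 388)) (XT.nd (nat_lit 78) (nat_lit 304) (nat_lit 0) (XT.lf (nat_lit 76) (nat_lit 12118131825) (nat_lit 0) (nat_lit 38336192625) (nat_lit 456) (nat_lit 12118131825) (nat_lit 271) (nat_lit 1) (nat_lit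 270) (nat_lit 1) (nat_lit 276) (nat_lit 1) (nat_lit 229) (nat_lit 404) (nat_lit 387)) (XT.lf (nat_lit 380) (nat_lit 15379892529) (nat_lit 0) (nat_lit 22941207664) (nat_lit 304) (nat_lit 22941207664) (nat_lit 271) (nat_lit 1) (nat_lit 266) (nat_lit 1) (nat_lit 270) (nat_lit 1) (nat_lit 230) (nat_lit 404) (nat_lit 386)))) (XT.nd (nat_lit 78) (nat_lit 684) (nat_lit 0) (XT.lf (nat_lit 76) (nat_lit 3346561990) (nat_lit 0) (nat_lit 53309417316) (nat_lit 380) (nat_lit 3346561990) (nat_lit 267) (nat_lit 1) (nat_lit 266) (nat_lit 1) (nat_lit 271) (nat_lit 1) (nat_lit 231) (nat_lit 404) (nat_lit 385)) (XT.nd (nat_lit 78) (nat_lit 304) (nat_lit 0) (XT.lf (nat_lit 76) (nat_lit 28199092968) (nat_lit 0) (nat_lit 2361728813) (nat_lit 380) (nat_lit 28199092968) (nat_lit 262) (nat_lit 1) (nat_lit 261) (nat_lit 1) (nat_lit 266) (nat_lit 1) (nat_lit 232) (nat_lit 404) (nat_lit 384)) (XT.lf (nat_lit 380) (nat_lit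 46645746812) (nat_lit 0) (nat_lit 5459431826) (nat_lit 304) (nat_lit 5459431826) (nat_lit 262) (nat_lit 1) (nat_lit 257) (nat_lit 1) (nat_lit 261) (nat_lit 1) (nat_lit 233) (nat_lit 404) (nat_lit 383)))))) (XT.nd (nat_lit 468) (nat_lit 988) (nat_lit 0) (XT.nd (nat_lit 234) (nat_lit 608) (nat_lit 0) (XT.nd (nat_lit 78) (nat_lit 304) (nat_lit 0) (XT.lf (nat_lit 76) (nat_lit 18296512589) (nat_lit 0) (nat_lit 19796786714) (nat_lit 380) (nat_lit 18296512589) (nat_lit 258) (nat_lit 1) (nat_lit 257) (nat_lit 1) (nat_lit 262) (nat_lit 1) (nat_lit 234) (nat_lit 404) (nat_lit 382)) (XT.nd (nat_lit 78) (nat_lit 0) (nat_lit 0) (XT.lf (nat_lit 380) (nat_lit 26699701562) (nat_lit 0) (nat_lit 14278024820) (nat_lit 304) (nat_lit 14278024820) (nat_lit 258) (nat_lit 1) (nat_lit 253) (nat_lit 1) (nat_lit 257) (nat_lit 1) (nat_lit 235) (nat_lit 404) (nat_lit 381)) (XT.lf (nat_lit 76) (nat_lit 8419894284) (nat_lit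 0) (nat_lit 37315061975) (nat_lit 380) (nat_lit 8419894284) (nat_lit 254) (nat_lit 1) (nat_lit 253) (nat_lit 1) (nat_lit 258) (nat_lit 1) (nat_lit 236) (nat_lit 404) (nat_lit 380)))) (XT.nd (nat_lit 78) (nat_lit 380) (nat_lit 0) (XT.lf (nat_lit 304) (nat_lit 6847539404) (nat_lit 0) (nat_lit 23115087260) (nat_lit 228) (nat_lit 23115087260) (nat_lit 254) (nat_lit 1) (nat_lit 250) (nat_lit 1) (nat_lit 253) (nat_lit 1) (nat_lit 237) (nat_lit 404) (nat_lit 379)) (XT.nd (nat_lit 78) (nat_lit 0) (nat_lit 0) (XT.lf (nat_lit 380) (nat_lit 49305859181) (nat_lit 0) (nat_lit 1368142984) (nat_lit 304) (nat_lit 1368142984) (nat_lit 250) (nat_lit 1) (nat_lit 245) (nat_lit 1) (nat_lit 249) (nat_lit 1) (nat_lit 238) (nat_lit 404) (nat_lit 378)) (XT.lf (nat_lit 76) (nat_lit 19293747209) (nat_lit 0) (nat_lit 12424813704) (nat_lit 380) (nat_lit 19293747209) (nat_lit 246) (nat_lit 1) (nat_lit 245) (nat_lit 1) (nat_lit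 250) (nat_lit 1) (nat_lit 239) (nat_lit 404) (nat_lit 377))))) (XT.nd (nat_lit 234) (nat_lit 532) (nat_lit 0) (XT.nd (nat_lit 78) (nat_lit 228) (nat_lit 0) (XT.lf (nat_lit 304) (nat_lit 28179127758) (nat_lit 0) (nat_lit 10921420165) (nat_lit 228) (nat_lit 10921420165) (nat_lit 246) (nat_lit 1) (nat_lit 242) (nat_lit 1) (nat_lit 245) (nat_lit 1) (nat_lit 240) (nat_lit 404) (nat_lit 376)) (XT.nd (nat_lit 78) (nat_lit 228) (nat_lit 0) (XT.lf (nat_lit 76) (nat_lit 8902222345) (nat_lit 0) (nat_lit 31252344653) (nat_lit 304) (nat_lit 8902222345) (nat_lit 243) (nat_lit 1) (nat_lit 242) (nat_lit 1) (nat_lit 246) (nat_lit 1) (nat_lit 241) (nat_lit 404) (nat_lit 375)) (XT.lf (nat_lit 304) (nat_lit 7419724075) (nat_lit 0) (nat_lit 20346922040) (nat_lit 228) (nat_lit 20346922040) (nat_lit 243) (nat_lit 1) (nat_lit 239) (nat_lit 1) (nat_lit 242) (nat_lit 1) (nat_lit 242) (nat_lit 404) (nat_lit 374)))) (XT.nd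 (nat_lit 156) (nat_lit 228) (nat_lit 0) (XT.nd (nat_lit 78) (nat_lit 0) (nat_lit 0) (XT.lf (nat_lit 304) (nat_lit 44655076376) (nat_lit 0) (nat_lit 1275156227) (nat_lit 228) (nat_lit 1275156227) (nat_lit 239) (nat_lit 1) (nat_lit 235) (nat_lit 1) (nat_lit 238) (nat_lit 1) (nat_lit 243) (nat_lit 404) (nat_lit 373)) (XT.lf (nat_lit 76) (nat_lit 16891736552) (nat_lit 0) (nat_lit 12516607173) (nat_lit 304) (nat_lit 16891736552) (nat_lit 236) (nat_lit 1) (nat_lit 235) (nat_lit 1) (nat_lit 239) (nat_lit 1) (nat_lit 244) (nat_lit 404) (nat_lit 372))) (XT.nd (nat_lit 78) (nat_lit 0) (nat_lit 0) (XT.lf (nat_lit 304) (nat_lit 23227684466) (nat_lit 0) (nat_lit 11100291910) (nat_lit 228) (nat_lit 11100291910) (nat_lit 236) (nat_lit 1) (nat_lit 232) (nat_lit 1) (nat_lit 235) (nat_lit 1) (nat_lit 245) (nat_lit 404) (nat_lit 371)) (XT.lf (nat_lit 76) (nat_lit 6396885358) (nat_lit 0) (nat_lit 31786067973) (nat_lit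 304) (nat_lit 6396885358) (nat_lit 233) (nat_lit 1) (nat_lit 232) (nat_lit 1) (nat_lit 236) (nat_lit 1) (nat_lit 246) (nat_lit 404) (nat_lit 370))))))))
noncomputable def ec274 : XT := (XT.nd (nat_lit 1950) (nat_lit 1976) (nat_lit 0) (XT.nd (nat_lit 936) (nat_lit 1216) (nat_lit 0) (XT.nd (nat_lit 468) (nat_lit 684) (nat_lit 0) (XT.nd (nat_lit 234) (nat_lit 380) (nat_lit 0) (XT.nd (nat_lit 78) (nat_lit 304) (nat_lit 0) (XT.lf (nat_lit 228) (nat_lit 2344031487) (nat_lit 0) (nat_lit 20701682876) (nat_lit 152) (nat_lit 20701682876) (nat_lit 233) (nat_lit 1) (nat_lit 230) (nat_lit 1) (nat_lit 232) (nat_lit 1) (nat_lit 247) (nat_lit 404) (nat_lit 369)) (XT.nd (nat_lit 78) (nat_lit 0) (nat_lit 0) (XT.lf (nat_lit 304) (nat_lit 35417529786) (nat_lit 0) (nat_lit 3761598381) (nat_lit 228) (nat_lit 3761598381) (nat_lit 230) (nat_lit 1) (nat_lit 226) (nat_lit 1) (nat_lit 229) (nat_lit 1) (nat_lit 248) (nat_lit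 404) (nat_lit 368)) (XT.lf (nat_lit 76) (nat_lit 12370502443) (nat_lit 0) (nat_lit 17402072807) (nat_lit 304) (nat_lit 12370502443) (nat_lit 227) (nat_lit 1) (nat_lit 226) (nat_lit 1) (nat_lit 230) (nat_lit 1) (nat_lit 249) (nat_lit 404) (nat_lit 367)))) (XT.nd (nat_lit 78) (nat_lit 228) (nat_lit 0) (XT.lf (nat_lit 228) (nat_lit 14292207342) (nat_lit 0) (nat_lit 13538919564) (nat_lit 152) (nat_lit 13538919564) (nat_lit 227) (nat_lit 1) (nat_lit 224) (nat_lit 1) (nat_lit 226) (nat_lit 1) (nat_lit 250) (nat_lit 404) (nat_lit 366)) (XT.nd (nat_lit 78) (nat_lit 228) (nat_lit 0) (XT.lf (nat_lit 76) (nat_lit 2053336552) (nat_lit 0) (nat_lit 36515996084) (nat_lit 228) (nat_lit 2053336552) (nat_lit 225) (nat_lit 1) (nat_lit 224) (nat_lit 1) (nat_lit 227) (nat_lit 1) (nat_lit 251) (nat_lit 404) (nat_lit 365)) (XT.lf (nat_lit 76) (nat_lit 16946546811) (nat_lit 0) (nat_lit 5984915052) (nat_lit 228) (nat_lit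 16946546811) (nat_lit 222) (nat_lit 1) (nat_lit 221) (nat_lit 1) (nat_lit 224) (nat_lit 1) (nat_lit 252) (nat_lit 404) (nat_lit 364))))) (XT.nd (nat_lit 234) (nat_lit 380) (nat_lit 0) (XT.nd (nat_lit 78) (nat_lit 152) (nat_lit 0) (XT.lf (nat_lit 228) (nat_lit 23533250385) (nat_lit 0) (nat_lit 7812401517) (nat_lit 152) (nat_lit 7812401517) (nat_lit 222) (nat_lit 1) (nat_lit 219) (nat_lit 1) (nat_lit 221) (nat_lit 1) (nat_lit 253) (nat_lit 404) (nat_lit 363)) (XT.nd (nat_lit 78) (nat_lit 152) (nat_lit 0) (XT.lf (nat_lit 76) (nat_lit 6640471013) (nat_lit 0) (nat_lit 25173068723) (nat_lit 228) (nat_lit 6640471013) (nat_lit 220) (nat_lit 1) (nat_lit 219) (nat_lit 1) (nat_lit 222) (nat_lit 1) (nat_lit 254) (nat_lit 404) (nat_lit 362)) (XT.lf (nat_lit 228) (nat_lit 3110821590) (nat_lit 0) (nat_lit 17326669088) (nat_lit 152) (nat_lit 17326669088) (nat_lit 220) (nat_lit 1) (nat_lit 217) (nat_lit 1) (nat_lit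 219) (nat_lit 1) (nat_lit 255) (nat_lit 404) (nat_lit 361)))) (XT.nd (nat_lit 78) (nat_lit 152) (nat_lit 0) (XT.lf (nat_lit 228) (nat_lit 30575164317) (nat_lit 0) (nat_lit 3259566715) (nat_lit 152) (nat_lit 3259566715) (nat_lit 217) (nat_lit 1) (nat_lit 214) (nat_lit 1) (nat_lit 216) (nat_lit 1) (nat_lit 256) (nat_lit 404) (nat_lit 360)) (XT.nd (nat_lit 78) (nat_lit 152) (nat_lit 0) (XT.lf (nat_lit 76) (nat_lit 10178547127) (nat_lit 0) (nat_lit 16073058675) (nat_lit 228) (nat_lit 10178547127) (nat_lit 215) (nat_lit 1) (nat_lit 214) (nat_lit 1) (nat_lit 217) (nat_lit 1) (nat_lit 257) (nat_lit 404) (nat_lit 359)) (XT.lf (nat_lit 228) (nat_lit 10366356075) (nat_lit 0) (nat_lit 12709466540) (nat_lit 152) (nat_lit 12709466540) (nat_lit 215) (nat_lit 1) (nat_lit 212) (nat_lit 1) (nat_lit 214) (nat_lit 1) (nat_lit 258) (nat_lit 404) (nat_lit 358)))))) (XT.nd (nat_lit 468) (nat_lit 608) (nat_lit 0) (XT.nd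 (nat_lit 234) (nat_lit 304) (nat_lit 0) (XT.nd (nat_lit 78) (nat_lit 304) (nat_lit 0) (XT.lf (nat_lit 76) (nat_lit 340713534) (nat_lit 0) (nat_lit 34481613718) (nat_lit 228) (nat_lit 340713534) (nat_lit 213) (nat_lit 1) (nat_lit 212) (nat_lit 1) (nat_lit 215) (nat_lit 1) (nat_lit 259) (nat_lit 404) (nat_lit 357)) (XT.nd (nat_lit 78) (nat_lit 152) (nat_lit 0) (XT.lf (nat_lit 76) (nat_lit 12864787521) (nat_lit 0) (nat_lit 8807262043) (nat_lit 152) (nat_lit 12864787521) (nat_lit 211) (nat_lit 1) (nat_lit 210) (nat_lit 1) (nat_lit 212) (nat_lit 1) (nat_lit 260) (nat_lit 404) (nat_lit 356)) (XT.lf (nat_lit 228) (nat_lit 15963736753) (nat_lit 0) (nat_lit 8984464815) (nat_lit 152) (nat_lit 8984464815) (nat_lit 211) (nat_lit 1) (nat_lit 208) (nat_lit 1) (nat_lit 210) (nat_lit 1) (nat_lit 261) (nat_lit 404) (nat_lit 355)))) (XT.nd (nat_lit 78) (nat_lit 304) (nat_lit 0) (XT.lf (nat_lit 76) (nat_lit 3200618889)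 (nat_lit 0) (nat_lit 26943566003) (nat_lit 228) (nat_lit 3200618889) (nat_lit 209) (nat_lit 1) (nat_lit 208) (nat_lit 1) (nat_lit 211) (nat_lit 1) (nat_lit 262) (nat_lit 404) (nat_lit 354)) (XT.nd (nat_lit 78) (nat_lit 152) (nat_lit 0) (XT.lf (nat_lit 76) (nat_lit 14860913113) (nat_lit 0) (nat_lit 3039962845) (nat_lit 152) (nat_lit 14860913113) (nat_lit 207) (nat_lit 1) (nat_lit 206) (nat_lit 1) (nat_lit 208) (nat_lit 1) (nat_lit 263) (nat_lit 404) (nat_lit 353)) (XT.lf (nat_lit 228) (nat_lit 20214653311) (nat_lit 0) (nat_lit 5989975000) (nat_lit 152) (nat_lit 5989975000) (nat_lit 207) (nat_lit 1) (nat_lit 204) (nat_lit 1) (nat_lit 206) (nat_lit 1) (nat_lit 264) (nat_lit 404) (nat_lit 352))))) (XT.nd (nat_lit 234) (nat_lit 304) (nat_lit 0) (XT.nd (nat_lit 78) (nat_lit 304) (nat_lit 0) (XT.lf (nat_lit 76) (nat_lit 5414407578) (nat_lit 0) (nat_lit 20809830871) (nat_lit 228) (nat_lit 5414407578) (nat_lit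 205) (nat_lit 1) (nat_lit 204) (nat_lit 1) (nat_lit 207) (nat_lit 1) (nat_lit 265) (nat_lit 404) (nat_lit 351)) (XT.nd (nat_lit 78) (nat_lit 228) (nat_lit 0) (XT.lf (nat_lit 152) (nat_lit 1554279243) (nat_lit 0) (nat_lit 14769450342) (nat_lit 76) (nat_lit 14769450342) (nat_lit 205) (nat_lit 1) (nat_lit 203) (nat_lit 1) (nat_lit 204) (nat_lit 1) (nat_lit 266) (nat_lit 404) (nat_lit 350)) (XT.lf (nat_lit 228) (nat_lit 23374690618) (nat_lit 0) (nat_lit 3593142077) (nat_lit 152) (nat_lit 3593142077) (nat_lit 203) (nat_lit 1) (nat_lit 200) (nat_lit 1) (nat_lit 202) (nat_lit 1) (nat_lit 267) (nat_lit 404) (nat_lit 349)))) (XT.nd (nat_lit 156) (nat_lit 228) (nat_lit 0) (XT.nd (nat_lit 78) (nat_lit 76) (nat_lit 0) (XT.lf (nat_lit 76) (nat_lit 7103256511) (nat_lit 0) (nat_lit 15828196920) (nat_lit 228) (nat_lit 7103256511) (nat_lit 201) (nat_lit 1) (nat_lit 200) (nat_lit 1) (nat_lit 203) (nat_lit 1) (nat_lit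 268) (nat_lit 404) (nat_lit 348)) (XT.lf (nat_lit 152) (nat_lit 5219621814) (nat_lit 0) (nat_lit 12150863347) (nat_lit 76) (nat_lit 12150863347) (nat_lit 201) (nat_lit 1) (nat_lit 199) (nat_lit 1) (nat_lit 200) (nat_lit 1) (nat_lit 269) (nat_lit 404) (nat_lit 347))) (XT.nd (nat_lit 78) (nat_lit 0) (nat_lit 0) (XT.lf (nat_lit 228) (nat_lit 25653316116) (nat_lit 0) (nat_lit 1684824803) (nat_lit 152) (nat_lit 1684824803) (nat_lit 199) (nat_lit 1) (nat_lit 196) (nat_lit 1) (nat_lit 198) (nat_lit 1) (nat_lit 270) (nat_lit 404) (nat_lit 346)) (XT.lf (nat_lit 76) (nat_lit 8366542898) (nat_lit 0) (nat_lit 11791323027) (nat_lit 228) (nat_lit 8366542898) (nat_lit 197) (nat_lit 1) (nat_lit 196) (nat_lit 1) (nat_lit 199) (nat_lit 1) (nat_lit 271) (nat_lit 404) (nat_lit 345))))))) (XT.nd (nat_lit 936) (nat_lit 988) (nat_lit 0) (XT.nd (nat_lit 468) (nat_lit 456) (nat_lit 0) (XT.nd (nat_lit 234) (nat_lit 228)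 (nat_lit 0) (XT.nd (nat_lit 78) (nat_lit 228) (nat_lit 0) (XT.lf (nat_lit 152) (nat_lit 8047445722) (nat_lit 0) (nat_lit 9996545347) (nat_lit 76) (nat_lit 9996545347) (nat_lit 197) (nat_lit 1) (nat_lit 195) (nat_lit 1) (nat_lit 196) (nat_lit 1) (nat_lit 272) (nat_lit 404) (nat_lit 344)) (XT.nd (nat_lit 78) (nat_lit 0) (nat_lit 0) (XT.lf (nat_lit 228) (nat_lit 27222094557) (nat_lit 0) (nat_lit 175383748) (nat_lit 152) (nat_lit 175383748) (nat_lit 195) (nat_lit 1) (nat_lit 192) (nat_lit 1) (nat_lit 194) (nat_lit 1) (nat_lit 273) (nat_lit 404) (nat_lit 343)) (XT.lf (nat_lit 76) (nat_lit 9285724298) (nat_lit 0) (nat_lit 8528775635) (nat_lit 228) (nat_lit 9285724298) (nat_lit 193) (nat_lit 1) (nat_lit 192) (nat_lit 1) (nat_lit 195) (nat_lit 1) (nat_lit 274) (nat_lit 404) (nat_lit 342)))) (XT.nd (nat_lit 78) (nat_lit 152) (nat_lit 0) (XT.lf (nat_lit 152) (nat_lit 10195177261) (nat_lit 0) (nat_lit 8224182596)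 (nat_lit 76) (nat_lit 8224182596) (nat_lit 193) (nat_lit 1) (nat_lit 191) (nat_lit 1) (nat_lit 192) (nat_lit 1) (nat_lit 275) (nat_lit 404) (nat_lit 341)) (XT.nd (nat_lit 78) (nat_lit 152) (nat_lit 0) (XT.lf (nat_lit 0) (nat_lit 1025320968) (nat_lit 0) (nat_lit 24150006727) (nat_lit 152) (nat_lit 1025320968) (nat_lit 191) (nat_lit 3) (nat_lit 191) (nat_lit 1) (nat_lit 193) (nat_lit 1) (nat_lit 276) (nat_lit 404) (nat_lit 340)) (XT.lf (nat_lit 76) (nat_lit 9927530027) (nat_lit 0) (nat_lit 5900478155) (nat_lit 152) (nat_lit 9927530027) (nat_lit 190) (nat_lit 1) (nat_lit 189) (nat_lit 1) (nat_lit 191) (nat_lit 1) (nat_lit 277) (nat_lit 404) (nat_lit 339))))) (XT.nd (nat_lit 234) (nat_lit 228) (nat_lit 0) (XT.nd (nat_lit 78) (nat_lit 152) (nat_lit 0) (XT.lf (nat_lit 152) (nat_lit 11791905897) (nat_lit 0) (nat_lit 6766055375) (nat_lit 76) (nat_lit 6766055375) (nat_lit 190) (nat_lit 1) (nat_lit 188)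 (nat_lit 1) (nat_lit 189) (nat_lit 1) (nat_lit 278) (nat_lit 404) (nat_lit 338)) (XT.nd (nat_lit 78) (nat_lit 152) (nat_lit 0) (XT.lf (nat_lit 0) (nat_lit 1959700764) (nat_lit 0) (nat_lit 20984436967) (nat_lit 152) (nat_lit 1959700764) (nat_lit 188) (nat_lit 3) (nat_lit 188) (nat_lit 1) (nat_lit 190) (nat_lit 1) (nat_lit 279) (nat_lit 404) (nat_lit 337)) (XT.lf (nat_lit 76) (nat_lit 10346586062) (nat_lit 0) (nat_lit 3791322107) (nat_lit 152) (nat_lit 10346586062) (nat_lit 187) (nat_lit 1) (nat_lit 186) (nat_lit 1) (nat_lit 188) (nat_lit 1) (nat_lit 280) (nat_lit 404) (nat_lit 336)))) (XT.nd (nat_lit 78) (nat_lit 152) (nat_lit 0) (XT.lf (nat_lit 152) (nat_lit 12943428577) (nat_lit 0) (nat_lit 5566450501) (nat_lit 76) (nat_lit 5566450501) (nat_lit 187) (nat_lit 1) (nat_lit 185) (nat_lit 1) (nat_lit 186) (nat_lit 1) (nat_lit 281) (nat_lit 404) (nat_lit 335)) (XT.nd (nat_lit 78) (nat_lit 152) (nat_lit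 0) (XT.lf (nat_lit 0) (nat_lit 2675266542) (nat_lit 0) (nat_lit 18326964098) (nat_lit 152) (nat_lit 2675266542) (nat_lit 185) (nat_lit 3) (nat_lit 185) (nat_lit 1) (nat_lit 187) (nat_lit 1) (nat_lit 282) (nat_lit 404) (nat_lit 334)) (XT.lf (nat_lit 76) (nat_lit 10587573901) (nat_lit 0) (nat_lit 2106734011) (nat_lit 152) (nat_lit 10587573901) (nat_lit 184) (nat_lit 1) (nat_lit 183) (nat_lit 1) (nat_lit 185) (nat_lit 1) (nat_lit 283) (nat_lit 404) (nat_lit 333)))))) (XT.nd (nat_lit 468) (nat_lit 608) (nat_lit 0) (XT.nd (nat_lit 234) (nat_lit 152) (nat_lit 0) (XT.nd (nat_lit 78) (nat_lit 152) (nat_lit 0) (XT.lf (nat_lit 152) (nat_lit 13736398735) (nat_lit 0) (nat_lit 4579532603) (nat_lit 76) (nat_lit 4579532603) (nat_lit 184) (nat_lit 1) (nat_lit 182) (nat_lit 1) (nat_lit 183) (nat_lit 1) (nat_lit 284) (nat_lit 404) (nat_lit 332)) (XT.nd (nat_lit 78) (nat_lit 152) (nat_lit 0) (XT.lf (nat_lit 0) (nat_lit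 3213344474) (nat_lit 0) (nat_lit 16090034788) (nat_lit 152) (nat_lit 3213344474) (nat_lit 182) (nat_lit 3) (nat_lit 182) (nat_lit 1) (nat_lit 184) (nat_lit 1) (nat_lit 285) (nat_lit 404) (nat_lit 331)) (XT.lf (nat_lit 76) (nat_lit 10687006053) (nat_lit 0) (nat_lit 769028551) (nat_lit 152) (nat_lit 10687006053) (nat_lit 181) (nat_lit 1) (nat_lit 180) (nat_lit 1) (nat_lit 182) (nat_lit 1) (nat_lit 286) (nat_lit 404) (nat_lit 330)))) (XT.nd (nat_lit 78) (nat_lit 76) (nat_lit 0) (XT.lf (nat_lit 152) (nat_lit 14241738770) (nat_lit 0) (nat_lit 3767592806) (nat_lit 76) (nat_lit 3767592806) (nat_lit 181) (nat_lit 1) (nat_lit 179) (nat_lit 1) (nat_lit 180) (nat_lit 1) (nat_lit 287) (nat_lit 404) (nat_lit 329)) (XT.nd (nat_lit 78) (nat_lit 76) (nat_lit 0) (XT.lf (nat_lit 0) (nat_lit 3607813184) (nat_lit 0) (nat_lit 14201498173) (nat_lit 152) (nat_lit 3607813184) (nat_lit 179) (nat_lit 3) (nat_lit 179) (nat_lit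 1) (nat_lit 181) (nat_lit 1) (nat_lit 288) (nat_lit 404) (nat_lit 328)) (XT.lf (nat_lit 76) (nat_lit 295034327) (nat_lit 0) (nat_lit 10384258125) (nat_lit 76) (nat_lit 10384258125) (nat_lit 179) (nat_lit 3) (nat_lit 178) (nat_lit 1) (nat_lit 179) (nat_lit 1) (nat_lit 289) (nat_lit 404) (nat_lit 327))))) (XT.nd (nat_lit 234) (nat_lit 380) (nat_lit 0) (XT.nd (nat_lit 78) (nat_lit 76) (nat_lit 0) (XT.lf (nat_lit 152) (nat_lit 14517446622) (nat_lit 0) (nat_lit 3099607925) (nat_lit 76) (nat_lit 3099607925) (nat_lit 178) (nat_lit 1) (nat_lit 176) (nat_lit 1) (nat_lit 177) (nat_lit 1) (nat_lit 290) (nat_lit 404) (nat_lit 326)) (XT.nd (nat_lit 78) (nat_lit 76) (nat_lit 0) (XT.lf (nat_lit 0) (nat_lit 3886429914) (nat_lit 0) (nat_lit 12601880771) (nat_lit 152) (nat_lit 3886429914) (nat_lit 176) (nat_lit 3) (nat_lit 176) (nat_lit 1) (nat_lit 178) (nat_lit 1) (nat_lit 291) (nat_lit 404) (nat_lit 325)) (XT.lf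 (nat_lit 76) (nat_lit 1146187694) (nat_lit 0) (nat_lit 9446617082) (nat_lit 76) (nat_lit 9446617082) (nat_lit 176) (nat_lit 3) (nat_lit 175) (nat_lit 1) (nat_lit 176) (nat_lit 1) (nat_lit 292) (nat_lit 404) (nat_lit 324)))) (XT.nd (nat_lit 156) (nat_lit 228) (nat_lit 0) (XT.nd (nat_lit 78) (nat_lit 0) (nat_lit 0) (XT.lf (nat_lit 152) (nat_lit 14610903922) (nat_lit 0) (nat_lit 2550055111) (nat_lit 76) (nat_lit 2550055111) (nat_lit 175) (nat_lit 1) (nat_lit 173) (nat_lit 1) (nat_lit 174) (nat_lit 1) (nat_lit 293) (nat_lit 404) (nat_lit 323)) (XT.lf (nat_lit 0) (nat_lit 4071921298) (nat_lit 0) (nat_lit 11242144287) (nat_lit 152) (nat_lit 4071921298) (nat_lit 173) (nat_lit 3) (nat_lit 173) (nat_lit 1) (nat_lit 175) (nat_lit 1) (nat_lit 294) (nat_lit 404) (nat_lit 322))) (XT.nd (nat_lit 78) (nat_lit 152) (nat_lit 0) (XT.lf (nat_lit 76) (nat_lit 1803411664) (nat_lit 0) (nat_lit 8632195464) (nat_lit 76)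 (nat_lit 8632195464) (nat_lit 173) (nat_lit 3) (nat_lit 172) (nat_lit 1) (nat_lit 173) (nat_lit 1) (nat_lit 295) (nat_lit 404) (nat_lit 321)) (XT.lf (nat_lit 152) (nat_lit 14560774109) (nat_lit 0) (nat_lit 2097936651) (nat_lit 76) (nat_lit 2097936651) (nat_lit 172) (nat_lit 1) (nat_lit 170) (nat_lit 1) (nat_lit 171) (nat_lit 1) (nat_lit 296) (nat_lit 404) (nat_lit 320))))))))
noncomputable def ec275 : XT := (XT.nd (nat_lit 1950) (nat_lit 2052) (nat_lit 0) (XT.nd (nat_lit 936) (nat_lit 912) (nat_lit 0) (XT.nd (nat_lit 468) (nat_lit 456) (nat_lit 0) (XT.nd (nat_lit 234) (nat_lit 228) (nat_lit 0) (XT.nd (nat_lit 78) (nat_lit 228) (nat_lit 0) (XT.lf (nat_lit 0) (nat_lit 4182880481) (nat_lit 0) (nat_lit 10081840679) (nat_lit 152) (nat_lit 4182880481) (nat_lit 170) (nat_lit 3) (nat_lit 170) (nat_lit 1) (nat_lit 172) (nat_lit 1) (nat_lit 297) (nat_lit 404) (nat_lit 319)) (XT.nd (nat_lit 78) (nat_lit 152)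 (nat_lit 0) (XT.lf (nat_lit 76) (nat_lit 2303138108) (nat_lit 0) (nat_lit 7921195440) (nat_lit 76) (nat_lit 7921195440) (nat_lit 170) (nat_lit 3) (nat_lit 169) (nat_lit 1) (nat_lit 170) (nat_lit 1) (nat_lit 298) (nat_lit 404) (nat_lit 318)) (XT.lf (nat_lit 152) (nat_lit 14398563269) (nat_lit 0) (nat_lit 1725977674) (nat_lit 76) (nat_lit 1725977674) (nat_lit 169) (nat_lit 1) (nat_lit 167) (nat_lit 1) (nat_lit 168) (nat_lit 1) (nat_lit 299) (nat_lit 404) (nat_lit 317)))) (XT.nd (nat_lit 78) (nat_lit 228) (nat_lit 0) (XT.lf (nat_lit 0) (nat_lit 4234504935) (nat_lit 0) (nat_lit 9087594088) (nat_lit 152) (nat_lit 4234504935) (nat_lit 167) (nat_lit 3) (nat_lit 167) (nat_lit 1) (nat_lit 169) (nat_lit 1) (nat_lit 300) (nat_lit 404) (nat_lit 316)) (XT.nd (nat_lit 78) (nat_lit 152) (nat_lit 0) (XT.lf (nat_lit 76) (nat_lit 2675242058) (nat_lit 0) (nat_lit 7297231728) (nat_lit 76) (nat_lit 7297231728) (nat_lit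 167) (nat_lit 3) (nat_lit 166) (nat_lit 1) (nat_lit 167) (nat_lit 1) (nat_lit 301) (nat_lit 404) (nat_lit 315)) (XT.lf (nat_lit 152) (nat_lit 14149903515) (nat_lit 0) (nat_lit 1419966104) (nat_lit 76) (nat_lit 1419966104) (nat_lit 166) (nat_lit 1) (nat_lit 164) (nat_lit 1) (nat_lit 165) (nat_lit 1) (nat_lit 302) (nat_lit 404) (nat_lit 314))))) (XT.nd (nat_lit 234) (nat_lit 228) (nat_lit 0) (XT.nd (nat_lit 78) (nat_lit 228) (nat_lit 0) (XT.lf (nat_lit 0) (nat_lit 4239203224) (nat_lit 0) (nat_lit 8231851681) (nat_lit 152) (nat_lit 4239203224) (nat_lit 164) (nat_lit 3) (nat_lit 164) (nat_lit 1) (nat_lit 166) (nat_lit 1) (nat_lit 303) (nat_lit 404) (nat_lit 313)) (XT.nd (nat_lit 78) (nat_lit 152) (nat_lit 0) (XT.lf (nat_lit 76) (nat_lit 2944208869) (nat_lit 0) (nat_lit 6746731209) (nat_lit 76) (nat_lit 6746731209) (nat_lit 164) (nat_lit 3) (nat_lit 163) (nat_lit 1) (nat_lit 164) (nat_lit 1) (nat_lit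 304) (nat_lit 404) (nat_lit 312)) (XT.lf (nat_lit 152) (nat_lit 13835608145) (nat_lit 0) (nat_lit 1168209628) (nat_lit 76) (nat_lit 1168209628) (nat_lit 163) (nat_lit 1) (nat_lit 161) (nat_lit 1) (nat_lit 162) (nat_lit 1) (nat_lit 305) (nat_lit 404) (nat_lit 311)))) (XT.nd (nat_lit 78) (nat_lit 228) (nat_lit 0) (XT.lf (nat_lit 0) (nat_lit 4207093969) (nat_lit 0) (nat_lit 7491855735) (nat_lit 152) (nat_lit 4207093969) (nat_lit 161) (nat_lit 3) (nat_lit 161) (nat_lit 1) (nat_lit 163) (nat_lit 1) (nat_lit 306) (nat_lit 404) (nat_lit 310)) (XT.nd (nat_lit 78) (nat_lit 152) (nat_lit 0) (XT.lf (nat_lit 76) (nat_lit 3130094214) (nat_lit 0) (nat_lit 6258438754) (nat_lit 76) (nat_lit 6258438754) (nat_lit 161) (nat_lit 3) (nat_lit 160) (nat_lit 1) (nat_lit 161) (nat_lit 1) (nat_lit 307) (nat_lit 404) (nat_lit 309)) (XT.lf (nat_lit 152) (nat_lit 13472539067) (nat_lit 0) (nat_lit 961088952) (nat_lit 76) (nat_lit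 961088952) (nat_lit 160) (nat_lit 1) (nat_lit 158) (nat_lit 1) (nat_lit 159) (nat_lit 1) (nat_lit 308) (nat_lit 404) (nat_lit 308)))))) (XT.nd (nat_lit 468) (nat_lit 456) (nat_lit 0) (XT.nd (nat_lit 234) (nat_lit 228) (nat_lit 0) (XT.nd (nat_lit 78) (nat_lit 228) (nat_lit 0) (XT.lf (nat_lit 0) (nat_lit 4146416130) (nat_lit 0) (nat_lit 6848797764) (nat_lit 152) (nat_lit 4146416130) (nat_lit 158) (nat_lit 3) (nat_lit 158) (nat_lit 1) (nat_lit 160) (nat_lit 1) (nat_lit 309) (nat_lit 404) (nat_lit 307)) (XT.nd (nat_lit 78) (nat_lit 152) (nat_lit 0) (XT.lf (nat_lit 76) (nat_lit 3249313678) (nat_lit 0) (nat_lit 5823010472) (nat_lit 76) (nat_lit 5823010472) (nat_lit 158) (nat_lit 3) (nat_lit 157) (nat_lit 1) (nat_lit 158) (nat_lit 1) (nat_lit 310) (nat_lit 404) (nat_lit 306)) (XT.lf (nat_lit 152) (nat_lit 13074319808) (nat_lit 0) (nat_lit 790690259) (nat_lit 76) (nat_lit 790690259) (nat_lit 157) (nat_lit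 1) (nat_lit 155) (nat_lit 1) (nat_lit 156) (nat_lit 1) (nat_lit 311) (nat_lit 404) (nat_lit 305)))) (XT.nd (nat_lit 78) (nat_lit 228) (nat_lit 0) (XT.lf (nat_lit 0) (nat_lit 4063866344) (nat_lit 0) (nat_lit 6287122403) (nat_lit 152) (nat_lit 4063866344) (nat_lit 155) (nat_lit 3) (nat_lit 155) (nat_lit 1) (nat_lit 157) (nat_lit 1) (nat_lit 312) (nat_lit 404) (nat_lit 304)) (XT.nd (nat_lit 78) (nat_lit 152) (nat_lit 0) (XT.lf (nat_lit 76) (nat_lit 3315292138) (nat_lit 0) (nat_lit 5432678861) (nat_lit 76) (nat_lit 5432678861) (nat_lit 155) (nat_lit 3) (nat_lit 154) (nat_lit 1) (nat_lit 155) (nat_lit 1) (nat_lit 313) (nat_lit 404) (nat_lit 303)) (XT.lf (nat_lit 152) (nat_lit 12651921525) (nat_lit 0) (nat_lit 650502833) (nat_lit 76) (nat_lit 650502833) (nat_lit 154) (nat_lit 1) (nat_lit 152) (nat_lit 1) (nat_lit 153) (nat_lit 1) (nat_lit 314) (nat_lit 404) (nat_lit 302))))) (XT.nd (nat_lit 234) (nat_lit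 228) (nat_lit 0) (XT.nd (nat_lit 78) (nat_lit 228) (nat_lit 0) (XT.lf (nat_lit 0) (nat_lit 3964876264) (nat_lit 0) (nat_lit 5793954525) (nat_lit 152) (nat_lit 3964876264) (nat_lit 152) (nat_lit 3) (nat_lit 152) (nat_lit 1) (nat_lit 154) (nat_lit 1) (nat_lit 315) (nat_lit 404) (nat_lit 301)) (XT.nd (nat_lit 78) (nat_lit 152) (nat_lit 0) (XT.lf (nat_lit 76) (nat_lit 3338997841) (nat_lit 0) (nat_lit 5080977138) (nat_lit 76) (nat_lit 5080977138) (nat_lit 152) (nat_lit 3) (nat_lit 151) (nat_lit 1) (nat_lit 152) (nat_lit 1) (nat_lit 316) (nat_lit 404) (nat_lit 300)) (XT.lf (nat_lit 152) (nat_lit 12214144543) (nat_lit 0) (nat_lit 535170290) (nat_lit 76) (nat_lit 535170290) (nat_lit 151) (nat_lit 1) (nat_lit 149) (nat_lit 1) (nat_lit 150) (nat_lit 1) (nat_lit 317) (nat_lit 404) (nat_lit 299)))) (XT.nd (nat_lit 156) (nat_lit 152) (nat_lit 0) (XT.nd (nat_lit 78) (nat_lit 76) (nat_lit 0) (XT.lf (nat_lit 0)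 (nat_lit 3853840529) (nat_lit 0) (nat_lit 5358627741) (nat_lit 152) (nat_lit 3853840529) (nat_lit 149) (nat_lit 3) (nat_lit 149) (nat_lit 1) (nat_lit 151) (nat_lit 1) (nat_lit 318) (nat_lit 404) (nat_lit 298)) (XT.lf (nat_lit 76) (nat_lit 3329381592) (nat_lit 0) (nat_lit 4762512270) (nat_lit 76) (nat_lit 4762512270) (nat_lit 149) (nat_lit 3) (nat_lit 148) (nat_lit 1) (nat_lit 149) (nat_lit 1) (nat_lit 319) (nat_lit 404) (nat_lit 297))) (XT.nd (nat_lit 78) (nat_lit 0) (nat_lit 0) (XT.lf (nat_lit 152) (nat_lit 11768013985) (nat_lit 0) (nat_lit 440285922) (nat_lit 76) (nat_lit 440285922) (nat_lit 148) (nat_lit 1) (nat_lit 146) (nat_lit 1) (nat_lit 147) (nat_lit 1) (nat_lit 320) (nat_lit 404) (nat_lit 296)) (XT.lf (nat_lit 0) (nat_lit 3734304154) (nat_lit 0) (nat_lit 4972296317) (nat_lit 152) (nat_lit 3734304154) (nat_lit 146) (nat_lit 3) (nat_lit 146) (nat_lit 1) (nat_lit 148) (nat_lit 1) (nat_lit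 321) (nat_lit 404) (nat_lit 295))))))) (XT.nd (nat_lit 1014) (nat_lit 1064) (nat_lit 0) (XT.nd (nat_lit 468) (nat_lit 532) (nat_lit 0) (XT.nd (nat_lit 234) (nat_lit 228) (nat_lit 0) (XT.nd (nat_lit 78) (nat_lit 152) (nat_lit 0) (XT.lf (nat_lit 76) (nat_lit 3293737908) (nat_lit 0) (nat_lit 4472778063) (nat_lit 76) (nat_lit 4472778063) (nat_lit 146) (nat_lit 3) (nat_lit 145) (nat_lit 1) (nat_lit 146) (nat_lit 1) (nat_lit 322) (nat_lit 404) (nat_lit 294)) (XT.nd (nat_lit 78) (nat_lit 0) (nat_lit 0) (XT.lf (nat_lit 152) (nat_lit 11319104744) (nat_lit 0) (nat_lit 362224318) (nat_lit 76) (nat_lit 362224318) (nat_lit 145) (nat_lit 1) (nat_lit 143) (nat_lit 1) (nat_lit 144) (nat_lit 1) (nat_lit 323) (nat_lit 404) (nat_lit 293)) (XT.lf (nat_lit 0) (nat_lit 3609116520) (nat_lit 0) (nat_lit 4627615737) (nat_lit 152) (nat_lit 3609116520) (nat_lit 143) (nat_lit 3) (nat_lit 143) (nat_lit 1) (nat_lit 145) (nat_lit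 1) (nat_lit 324) (nat_lit 404) (nat_lit 292)))) (XT.nd (nat_lit 78) (nat_lit 152) (nat_lit 0) (XT.lf (nat_lit 76) (nat_lit 3238001978) (nat_lit 0) (nat_lit 4208001232) (nat_lit 76) (nat_lit 4208001232) (nat_lit 143) (nat_lit 3) (nat_lit 142) (nat_lit 1) (nat_lit 143) (nat_lit 1) (nat_lit 325) (nat_lit 404) (nat_lit 291)) (XT.nd (nat_lit 78) (nat_lit 0) (nat_lit 0) (XT.lf (nat_lit 152) (nat_lit 10871808357) (nat_lit 0) (nat_lit 298002843) (nat_lit 76) (nat_lit 298002843) (nat_lit 142) (nat_lit 1) (nat_lit 140) (nat_lit 1) (nat_lit 141) (nat_lit 1) (nat_lit 326) (nat_lit 404) (nat_lit 290)) (XT.lf (nat_lit 0) (nat_lit 3480557903) (nat_lit 0) (nat_lit 4318479729) (nat_lit 152) (nat_lit 3480557903) (nat_lit 140) (nat_lit 3) (nat_lit 140) (nat_lit 1) (nat_lit 142) (nat_lit 1) (nat_lit 327) (nat_lit 404) (nat_lit 289))))) (XT.nd (nat_lit 234) (nat_lit 304) (nat_lit 0) (XT.nd (nat_lit 78) (nat_lit 152)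 (nat_lit 0) (XT.lf (nat_lit 76) (nat_lit 3166993812) (nat_lit 0) (nat_lit 3965014599) (nat_lit 76) (nat_lit 3965014599) (nat_lit 140) (nat_lit 3) (nat_lit 139) (nat_lit 1) (nat_lit 140) (nat_lit 1) (nat_lit 328) (nat_lit 404) (nat_lit 288)) (XT.nd (nat_lit 78) (nat_lit 0) (nat_lit 0) (XT.lf (nat_lit 152) (nat_lit 10429552091) (nat_lit 0) (nat_lit 245167676) (nat_lit 76) (nat_lit 245167676) (nat_lit 139) (nat_lit 1) (nat_lit 137) (nat_lit 1) (nat_lit 138) (nat_lit 1) (nat_lit 329) (nat_lit 404) (nat_lit 287)) (XT.lf (nat_lit 0) (nat_lit 3350443420) (nat_lit 0) (nat_lit 4039803780) (nat_lit 152) (nat_lit 3350443420) (nat_lit 137) (nat_lit 3) (nat_lit 137) (nat_lit 1) (nat_lit 139) (nat_lit 1) (nat_lit 330) (nat_lit 404) (nat_lit 286)))) (XT.nd (nat_lit 156) (nat_lit 76) (nat_lit 0) (XT.nd (nat_lit 78) (nat_lit 152) (nat_lit 0) (XT.lf (nat_lit 76) (nat_lit 3084618953) (nat_lit 0) (nat_lit 3741152629)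 (nat_lit 76) (nat_lit 3741152629) (nat_lit 137) (nat_lit 3) (nat_lit 136) (nat_lit 1) (nat_lit 137) (nat_lit 1) (nat_lit 331) (nat_lit 404) (nat_lit 285)) (XT.lf (nat_lit 152) (nat_lit 9994978744) (nat_lit 0) (nat_lit 201700054) (nat_lit 76) (nat_lit 201700054) (nat_lit 136) (nat_lit 1) (nat_lit 134) (nat_lit 1) (nat_lit 135) (nat_lit 1) (nat_lit 332) (nat_lit 404) (nat_lit 284))) (XT.nd (nat_lit 78) (nat_lit 76) (nat_lit 0) (XT.lf (nat_lit 0) (nat_lit 3220208398) (nat_lit 0) (nat_lit 3787346872) (nat_lit 152) (nat_lit 3220208398) (nat_lit 134) (nat_lit 3) (nat_lit 134) (nat_lit 1) (nat_lit 136) (nat_lit 1) (nat_lit 333) (nat_lit 404) (nat_lit 283)) (XT.lf (nat_lit 76) (nat_lit 2994033462) (nat_lit 0) (nat_lit 3534165342) (nat_lit 76) (nat_lit 3534165342) (nat_lit 134) (nat_lit 3) (nat_lit 133) (nat_lit 1) (nat_lit 134) (nat_lit 1) (nat_lit 334) (nat_lit 404) (nat_lit 282)))))) (XT.nd (nat_lit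 468) (nat_lit 608) (nat_lit 0) (XT.nd (nat_lit 234) (nat_lit 228) (nat_lit 0) (XT.nd (nat_lit 78) (nat_lit 76) (nat_lit 0) (XT.lf (nat_lit 152) (nat_lit 9570094156) (nat_lit 0) (nat_lit 165939133) (nat_lit 76) (nat_lit 165939133) (nat_lit 133) (nat_lit 1) (nat_lit 131) (nat_lit 1) (nat_lit 132) (nat_lit 1) (nat_lit 335) (nat_lit 404) (nat_lit 281)) (XT.nd (nat_lit 78) (nat_lit 76) (nat_lit 0) (XT.lf (nat_lit 0) (nat_lit 3090978470) (nat_lit 0) (nat_lit 3557564696) (nat_lit 152) (nat_lit 3090978470) (nat_lit 131) (nat_lit 3) (nat_lit 131) (nat_lit 1) (nat_lit 133) (nat_lit 1) (nat_lit 336) (nat_lit 404) (nat_lit 280)) (XT.lf (nat_lit 76) (nat_lit 2897779515) (nat_lit 0) (nat_lit 3342147350) (nat_lit 76) (nat_lit 3342147350) (nat_lit 131) (nat_lit 3) (nat_lit 130) (nat_lit 1) (nat_lit 131) (nat_lit 1) (nat_lit 337) (nat_lit 404) (nat_lit 279)))) (XT.nd (nat_lit 78) (nat_lit 76) (nat_lit 0) (XT.lf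 (nat_lit 152) (nat_lit 9156388153) (nat_lit 0) (nat_lit 136518535) (nat_lit 76) (nat_lit 136518535) (nat_lit 130) (nat_lit 1) (nat_lit 128) (nat_lit 1) (nat_lit 129) (nat_lit 1) (nat_lit 338) (nat_lit 404) (nat_lit 278)) (XT.nd (nat_lit 78) (nat_lit 76) (nat_lit 0) (XT.lf (nat_lit 0) (nat_lit 2963627114) (nat_lit 0) (nat_lit 3347488757) (nat_lit 152) (nat_lit 2963627114) (nat_lit 128) (nat_lit 3) (nat_lit 128) (nat_lit 1) (nat_lit 130) (nat_lit 1) (nat_lit 339) (nat_lit 404) (nat_lit 277)) (XT.lf (nat_lit 76) (nat_lit 2797896833) (nat_lit 0) (nat_lit 3163479350) (nat_lit 76) (nat_lit 3163479350) (nat_lit 128) (nat_lit 3) (nat_lit 127) (nat_lit 1) (nat_lit 128) (nat_lit 1) (nat_lit 340) (nat_lit 404) (nat_lit 276))))) (XT.nd (nat_lit 234) (nat_lit 380) (nat_lit 0) (XT.nd (nat_lit 78) (nat_lit 76) (nat_lit 0) (XT.lf (nat_lit 152) (nat_lit 8754933677) (nat_lit 0) (nat_lit 112314137) (nat_lit 76) (nat_lit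 112314137) (nat_lit 127) (nat_lit 1) (nat_lit 125) (nat_lit 1) (nat_lit 126) (nat_lit 1) (nat_lit 341) (nat_lit 404) (nat_lit 275)) (XT.nd (nat_lit 78) (nat_lit 76) (nat_lit 0) (XT.lf (nat_lit 0) (nat_lit 2838822864) (nat_lit 0) (nat_lit 3154626788) (nat_lit 152) (nat_lit 2838822864) (nat_lit 125) (nat_lit 3) (nat_lit 125) (nat_lit 1) (nat_lit 127) (nat_lit 1) (nat_lit 342) (nat_lit 404) (nat_lit 274)) (XT.lf (nat_lit 76) (nat_lit 2696014224) (nat_lit 0) (nat_lit 2996779865) (nat_lit 76) (nat_lit 2996779865) (nat_lit 125) (nat_lit 3) (nat_lit 124) (nat_lit 1) (nat_lit 125) (nat_lit 1) (nat_lit 343) (nat_lit 404) (nat_lit 273)))) (XT.nd (nat_lit 156) (nat_lit 228) (nat_lit 0) (XT.nd (nat_lit 78) (nat_lit 0) (nat_lit 0) (XT.lf (nat_lit 152) (nat_lit 8366467968) (nat_lit 0) (nat_lit 92401118) (nat_lit 76) (nat_lit 92401118) (nat_lit 124) (nat_lit 1) (nat_lit 122) (nat_lit 1) (nat_lit 123) (nat_lit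 1) (nat_lit 344) (nat_lit 404) (nat_lit 272)) (XT.lf (nat_lit 0) (nat_lit 2717068027) (nat_lit 0) (nat_lit 2976880696) (nat_lit 152) (nat_lit 2717068027) (nat_lit 122) (nat_lit 3) (nat_lit 122) (nat_lit 1) (nat_lit 124) (nat_lit 1) (nat_lit 345) (nat_lit 404) (nat_lit 271))) (XT.nd (nat_lit 78) (nat_lit 152) (nat_lit 0) (XT.lf (nat_lit 76) (nat_lit 2593424788) (nat_lit 0) (nat_lit 2840865426) (nat_lit 76) (nat_lit 2840865426) (nat_lit 122) (nat_lit 3) (nat_lit 121) (nat_lit 1) (nat_lit 122) (nat_lit 1) (nat_lit 346) (nat_lit 404) (nat_lit 270)) (XT.lf (nat_lit 152) (nat_lit 7991459012) (nat_lit 0) (nat_lit 76018629) (nat_lit 76) (nat_lit 76018629) (nat_lit 121) (nat_lit 1) (nat_lit 119) (nat_lit 1) (nat_lit 120) (nat_lit 1) (nat_lit 347) (nat_lit 404) (nat_lit 269))))))))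
noncomputable def ec276 : XT := (XT.nd (nat_lit 1950) (nat_lit 1900) (nat_lit 0) (XT.nd (nat_lit 936) (nat_lit 912) (nat_lit 0) (XT.nd (nat_lit 468) (nat_lit 456) (nat_lit 0) (XT.nd (nat_lit 234) (nat_lit 228) (nat_lit 0) (XT.nd (nat_lit 78) (nat_lit 228) (nat_lit 0) (XT.lf (nat_lit 0) (nat_lit 2598730429) (nat_lit 0) (nat_lit 2812478955) (nat_lit 152) (nat_lit 2598730429) (nat_lit 119) (nat_lit 3) (nat_lit 119) (nat_lit 1) (nat_lit 121) (nat_lit 1) (nat_lit 348) (nat_lit 404) (nat_lit 268)) (XT.nd (nat_lit 78) (nat_lit 152) (nat_lit 0) (XT.lf (nat_lit 76) (nat_lit 2491147672) (nat_lit 0) (nat_lit 2694717697) (nat_lit 76) (nat_lit 2694717697) (nat_lit 119) (nat_lit 3) (nat_lit 118) (nat_lit 1) (nat_lit 119) (nat_lit 1) (nat_lit 349) (nat_lit 404) (nat_lit 267)) (XT.lf (nat_lit 152) (nat_lit 7630159877) (nat_lit 0) (nat_lit 62540714) (nat_lit 76) (nat_lit 62540714) (nat_lit 118) (nat_lit 1) (nat_lit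 116) (nat_lit 1) (nat_lit 117) (nat_lit 1) (nat_lit 350) (nat_lit 404) (nat_lit 266)))) (XT.nd (nat_lit 78) (nat_lit 228) (nat_lit 0) (XT.lf (nat_lit 0) (nat_lit 2484069421) (nat_lit 0) (nat_lit 2659920862) (nat_lit 152) (nat_lit 2484069421) (nat_lit 116) (nat_lit 3) (nat_lit 116) (nat_lit 1) (nat_lit 118) (nat_lit 1) (nat_lit 351) (nat_lit 404) (nat_lit 265)) (XT.nd (nat_lit 78) (nat_lit 152) (nat_lit 0) (XT.lf (nat_lit 76) (nat_lit 2389978765) (nat_lit 0) (nat_lit 2557456328) (nat_lit 76) (nat_lit 2557456328) (nat_lit 116) (nat_lit 3) (nat_lit 115) (nat_lit 1) (nat_lit 116) (nat_lit 1) (nat_lit 352) (nat_lit 404) (nat_lit 264)) (XT.lf (nat_lit 152) (nat_lit 7282653100) (nat_lit 0) (nat_lit 51452400) (nat_lit 76) (nat_lit 51452400) (nat_lit 115) (nat_lit 1) (nat_lit 113) (nat_lit 1) (nat_lit 114) (nat_lit 1) (nat_lit 353) (nat_lit 404) (nat_lit 263))))) (XT.nd (nat_lit 234) (nat_lit 228) (nat_lit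 0) (XT.nd (nat_lit 78) (nat_lit 228) (nat_lit 0) (XT.lf (nat_lit 0) (nat_lit 2373257170) (nat_lit 0) (nat_lit 2517930587) (nat_lit 152) (nat_lit 2373257170) (nat_lit 113) (nat_lit 3) (nat_lit 113) (nat_lit 1) (nat_lit 115) (nat_lit 1) (nat_lit 354) (nat_lit 404) (nat_lit 262)) (XT.nd (nat_lit 78) (nat_lit 152) (nat_lit 0) (XT.lf (nat_lit 76) (nat_lit 2290532311) (nat_lit 0) (nat_lit 2428316517) (nat_lit 76) (nat_lit 2428316517) (nat_lit 113) (nat_lit 3) (nat_lit 112) (nat_lit 1) (nat_lit 113) (nat_lit 1) (nat_lit 355) (nat_lit 404) (nat_lit 261)) (XT.lf (nat_lit 152) (nat_lit 6948886906) (nat_lit 0) (nat_lit 42330017) (nat_lit 76) (nat_lit 42330017) (nat_lit 112) (nat_lit 1) (nat_lit 110) (nat_lit 1) (nat_lit 111) (nat_lit 1) (nat_lit 356) (nat_lit 404) (nat_lit 260)))) (XT.nd (nat_lit 78) (nat_lit 228) (nat_lit 0) (XT.lf (nat_lit 0) (nat_lit 2266396081) (nat_lit 0) (nat_lit 2385419259) (nat_lit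 152) (nat_lit 2266396081) (nat_lit 110) (nat_lit 3) (nat_lit 110) (nat_lit 1) (nat_lit 112) (nat_lit 1) (nat_lit 357) (nat_lit 404) (nat_lit 259)) (XT.nd (nat_lit 78) (nat_lit 152) (nat_lit 0) (XT.lf (nat_lit 76) (nat_lit 2193275045) (nat_lit 0) (nat_lit 2306630452) (nat_lit 76) (nat_lit 2306630452) (nat_lit 110) (nat_lit 3) (nat_lit 109) (nat_lit 1) (nat_lit 110) (nat_lit 1) (nat_lit 358) (nat_lit 404) (nat_lit 258)) (XT.lf (nat_lit 152) (nat_lit 6628704719) (nat_lit 0) (nat_lit 34825009) (nat_lit 76) (nat_lit 34825009) (nat_lit 109) (nat_lit 1) (nat_lit 107) (nat_lit 1) (nat_lit 108) (nat_lit 1) (nat_lit 359) (nat_lit 404) (nat_lit 257)))))) (XT.nd (nat_lit 468) (nat_lit 456) (nat_lit 0) (XT.nd (nat_lit 234) (nat_lit 228) (nat_lit 0) (XT.nd (nat_lit 78) (nat_lit 228) (nat_lit 0) (XT.lf (nat_lit 0) (nat_lit 2163533030) (nat_lit 0) (nat_lit 2261453693) (nat_lit 152) (nat_lit 2163533030) (nat_lit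 107) (nat_lit 3) (nat_lit 107) (nat_lit 1) (nat_lit 109) (nat_lit 1) (nat_lit 360) (nat_lit 404) (nat_lit 256)) (XT.nd (nat_lit 78) (nat_lit 152) (nat_lit 0) (XT.lf (nat_lit 76) (nat_lit 2098554183) (nat_lit 0) (nat_lit 2191811957) (nat_lit 76) (nat_lit 2191811957) (nat_lit 107) (nat_lit 3) (nat_lit 106) (nat_lit 1) (nat_lit 107) (nat_lit 1) (nat_lit 361) (nat_lit 404) (nat_lit 255)) (XT.lf (nat_lit 152) (nat_lit 6321869172) (nat_lit 0) (nat_lit 28650621) (nat_lit 76) (nat_lit 28650621) (nat_lit 106) (nat_lit 1) (nat_lit 104) (nat_lit 1) (nat_lit 105) (nat_lit 1) (nat_lit 362) (nat_lit 404) (nat_lit 254)))) (XT.nd (nat_lit 78) (nat_lit 228) (nat_lit 0) (XT.lf (nat_lit 0) (nat_lit 2064670993) (nat_lit 0) (nat_lit 2145230564) (nat_lit 152) (nat_lit 2064670993) (nat_lit 104) (nat_lit 3) (nat_lit 104) (nat_lit 1) (nat_lit 106) (nat_lit 1) (nat_lit 363) (nat_lit 404) (nat_lit 253)) (XT.nd (nat_lit 78)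 (nat_lit 152) (nat_lit 0) (XT.lf (nat_lit 76) (nat_lit 2006620363) (nat_lit 0) (nat_lit 2083343765) (nat_lit 76) (nat_lit 2083343765) (nat_lit 104) (nat_lit 3) (nat_lit 103) (nat_lit 1) (nat_lit 104) (nat_lit 1) (nat_lit 364) (nat_lit 404) (nat_lit 252)) (XT.lf (nat_lit 152) (nat_lit 6028081599) (nat_lit 0) (nat_lit 23570937) (nat_lit 76) (nat_lit 23570937) (nat_lit 103) (nat_lit 1) (nat_lit 101) (nat_lit 1) (nat_lit 102) (nat_lit 1) (nat_lit 365) (nat_lit 404) (nat_lit 251))))) (XT.nd (nat_lit 234) (nat_lit 228) (nat_lit 0) (XT.nd (nat_lit 78) (nat_lit 228) (nat_lit 0) (XT.lf (nat_lit 0) (nat_lit 1969778521) (nat_lit 0) (nat_lit 2036055080) (nat_lit 152) (nat_lit 1969778521) (nat_lit 101) (nat_lit 3) (nat_lit 101) (nat_lit 1) (nat_lit 103) (nat_lit 1) (nat_lit 366) (nat_lit 404) (nat_lit 250)) (XT.nd (nat_lit 78) (nat_lit 152) (nat_lit 0) (XT.lf (nat_lit 76) (nat_lit 1917646437) (nat_lit 0) (nat_lit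 1980766970) (nat_lit 76) (nat_lit 1980766970) (nat_lit 101) (nat_lit 3) (nat_lit 100) (nat_lit 1) (nat_lit 101) (nat_lit 1) (nat_lit 367) (nat_lit 404) (nat_lit 249)) (XT.lf (nat_lit 152) (nat_lit 5746997826) (nat_lit 0) (nat_lit 19391868) (nat_lit 76) (nat_lit 19391868) (nat_lit 100) (nat_lit 1) (nat_lit 98) (nat_lit 1) (nat_lit 99) (nat_lit 1) (nat_lit 368) (nat_lit 404) (nat_lit 248)))) (XT.nd (nat_lit 156) (nat_lit 152) (nat_lit 0) (XT.nd (nat_lit 78) (nat_lit 76) (nat_lit 0) (XT.lf (nat_lit 0) (nat_lit 1878797459) (nat_lit 0) (nat_lit 1933323348) (nat_lit 152) (nat_lit 1878797459) (nat_lit 98) (nat_lit 3) (nat_lit 98) (nat_lit 1) (nat_lit 100) (nat_lit 1) (nat_lit 369) (nat_lit 404) (nat_lit 247)) (XT.lf (nat_lit 76) (nat_lit 1831742849) (nat_lit 0) (nat_lit 1883672267) (nat_lit 76) (nat_lit 1883672267) (nat_lit 98) (nat_lit 3) (nat_lit 97) (nat_lit 1) (nat_lit 98) (nat_lit 1) (nat_lit 370)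 (nat_lit 404) (nat_lit 246))) (XT.nd (nat_lit 78) (nat_lit 0) (nat_lit 0) (XT.lf (nat_lit 152) (nat_lit 5478240931) (nat_lit 0) (nat_lit 15953738) (nat_lit 76) (nat_lit 15953738) (nat_lit 97) (nat_lit 1) (nat_lit 95) (nat_lit 1) (nat_lit 96) (nat_lit 1) (nat_lit 371) (nat_lit 404) (nat_lit 245)) (XT.lf (nat_lit 0) (nat_lit 1791649220) (nat_lit 0) (nat_lit 1836507804) (nat_lit 152) (nat_lit 1791649220) (nat_lit 95) (nat_lit 3) (nat_lit 95) (nat_lit 1) (nat_lit 97) (nat_lit 1) (nat_lit 372) (nat_lit 404) (nat_lit 244))))))) (XT.nd (nat_lit 936) (nat_lit 988) (nat_lit 0) (XT.nd (nat_lit 468) (nat_lit 456) (nat_lit 0) (XT.nd (nat_lit 234) (nat_lit 228) (nat_lit 0) (XT.nd (nat_lit 78) (nat_lit 152) (nat_lit 0) (XT.lf (nat_lit 76) (nat_lit 1748970213) (nat_lit 0) (nat_lit 1791692674) (nat_lit 76) (nat_lit 1791692674) (nat_lit 95) (nat_lit 3) (nat_lit 94) (nat_lit 1) (nat_lit 95) (nat_lit 1) (nat_lit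 373) (nat_lit 404) (nat_lit 243)) (XT.nd (nat_lit 78) (nat_lit 0) (nat_lit 0) (XT.lf (nat_lit 152) (nat_lit 5221411511) (nat_lit 0) (nat_lit 13125179) (nat_lit 76) (nat_lit 13125179) (nat_lit 94) (nat_lit 1) (nat_lit 92) (nat_lit 1) (nat_lit 93) (nat_lit 1) (nat_lit 374) (nat_lit 404) (nat_lit 242)) (XT.lf (nat_lit 0) (nat_lit 1708239867) (nat_lit 0) (nat_lit 1745145135) (nat_lit 152) (nat_lit 1708239867) (nat_lit 92) (nat_lit 3) (nat_lit 92) (nat_lit 1) (nat_lit 94) (nat_lit 1) (nat_lit 375) (nat_lit 404) (nat_lit 241)))) (XT.nd (nat_lit 78) (nat_lit 152) (nat_lit 0) (XT.lf (nat_lit 76) (nat_lit 1669349587) (nat_lit 0) (nat_lit 1704497461) (nat_lit 76) (nat_lit 1704497461) (nat_lit 92) (nat_lit 3) (nat_lit 91) (nat_lit 1) (nat_lit 92) (nat_lit 1) (nat_lit 376) (nat_lit 404) (nat_lit 240)) (XT.nd (nat_lit 78) (nat_lit 0) (nat_lit 0) (XT.lf (nat_lit 152) (nat_lit 4976095924) (nat_lit 0) (nat_lit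 10798118) (nat_lit 76) (nat_lit 10798118) (nat_lit 91) (nat_lit 1) (nat_lit 89) (nat_lit 1) (nat_lit 90) (nat_lit 1) (nat_lit 377) (nat_lit 404) (nat_lit 239)) (XT.lf (nat_lit 0) (nat_lit 1628464232) (nat_lit 0) (nat_lit 1658826287) (nat_lit 152) (nat_lit 1628464232) (nat_lit 89) (nat_lit 3) (nat_lit 89) (nat_lit 1) (nat_lit 91) (nat_lit 1) (nat_lit 378) (nat_lit 404) (nat_lit 238))))) (XT.nd (nat_lit 234) (nat_lit 228) (nat_lit 0) (XT.nd (nat_lit 78) (nat_lit 152) (nat_lit 0) (XT.lf (nat_lit 76) (nat_lit 1592870860) (nat_lit 0) (nat_lit 1621787103) (nat_lit 76) (nat_lit 1621787103) (nat_lit 89) (nat_lit 3) (nat_lit 88) (nat_lit 1) (nat_lit 89) (nat_lit 1) (nat_lit 379) (nat_lit 404) (nat_lit 237)) (XT.nd (nat_lit 78) (nat_lit 0) (nat_lit 0) (XT.lf (nat_lit 152) (nat_lit 4741872862) (nat_lit 0) (nat_lit 8883638) (nat_lit 76) (nat_lit 8883638) (nat_lit 88) (nat_lit 1) (nat_lit 86) (nat_lit 1) (nat_lit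 87) (nat_lit 1) (nat_lit 380) (nat_lit 404) (nat_lit 236)) (XT.lf (nat_lit 0) (nat_lit 1552209236) (nat_lit 0) (nat_lit 1577188174) (nat_lit 152) (nat_lit 1552209236) (nat_lit 86) (nat_lit 3) (nat_lit 86) (nat_lit 1) (nat_lit 88) (nat_lit 1) (nat_lit 381) (nat_lit 404) (nat_lit 235)))) (XT.nd (nat_lit 78) (nat_lit 152) (nat_lit 0) (XT.lf (nat_lit 76) (nat_lit 1519499582) (nat_lit 0) (nat_lit 1543289047) (nat_lit 76) (nat_lit 1543289047) (nat_lit 86) (nat_lit 3) (nat_lit 85) (nat_lit 1) (nat_lit 86) (nat_lit 1) (nat_lit 382) (nat_lit 404) (nat_lit 234)) (XT.nd (nat_lit 78) (nat_lit 0) (nat_lit 0) (XT.lf (nat_lit 152) (nat_lit 4518318568) (nat_lit 0) (nat_lit 7308591) (nat_lit 76) (nat_lit 7308591) (nat_lit 85) (nat_lit 1) (nat_lit 83) (nat_lit 1) (nat_lit 84) (nat_lit 1) (nat_lit 383) (nat_lit 404) (nat_lit 233)) (XT.lf (nat_lit 0) (nat_lit 1479356553) (nat_lit 0) (nat_lit 1499906787) (nat_lit 152)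 (nat_lit 1479356553) (nat_lit 83) (nat_lit 3) (nat_lit 83) (nat_lit 1) (nat_lit 85) (nat_lit 1) (nat_lit 384) (nat_lit 404) (nat_lit 232)))))) (XT.nd (nat_lit 468) (nat_lit 532) (nat_lit 0) (XT.nd (nat_lit 234) (nat_lit 228) (nat_lit 0) (XT.nd (nat_lit 78) (nat_lit 152) (nat_lit 0) (XT.lf (nat_lit 76) (nat_lit 1449182528) (nat_lit 0) (nat_lit 1468754179) (nat_lit 76) (nat_lit 1468754179) (nat_lit 83) (nat_lit 3) (nat_lit 82) (nat_lit 1) (nat_lit 83) (nat_lit 1) (nat_lit 385) (nat_lit 404) (nat_lit 231)) (XT.nd (nat_lit 78) (nat_lit 0) (nat_lit 0) (XT.lf (nat_lit 152) (nat_lit 4305010943) (nat_lit 0) (nat_lit 6012796) (nat_lit 76) (nat_lit 6012796) (nat_lit 82) (nat_lit 1) (nat_lit 80) (nat_lit 1) (nat_lit 81) (nat_lit 1) (nat_lit 386) (nat_lit 404) (nat_lit 230)) (XT.lf (nat_lit 0) (nat_lit 1409784748) (nat_lit 0) (nat_lit 1426691477) (nat_lit 152) (nat_lit 1409784748) (nat_lit 80) (nat_lit 3)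 (nat_lit 80) (nat_lit 1) (nat_lit 82) (nat_lit 1) (nat_lit 387) (nat_lit 404) (nat_lit 229)))) (XT.nd (nat_lit 78) (nat_lit 152) (nat_lit 0) (XT.lf (nat_lit 76) (nat_lit 1381852205) (nat_lit 0) (nat_lit 1397953851) (nat_lit 76) (nat_lit 1397953851) (nat_lit 80) (nat_lit 3) (nat_lit 79) (nat_lit 1) (nat_lit 80) (nat_lit 1) (nat_lit 388) (nat_lit 404) (nat_lit 228)) (XT.nd (nat_lit 78) (nat_lit 0) (nat_lit 0) (XT.lf (nat_lit 152) (nat_lit 4101532753) (nat_lit 0) (nat_lit 4946742) (nat_lit 76) (nat_lit 4946742) (nat_lit 79) (nat_lit 1) (nat_lit 77) (nat_lit 1) (nat_lit 78) (nat_lit 1) (nat_lit 389) (nat_lit 404) (nat_lit 227)) (XT.lf (nat_lit 0) (nat_lit 1343370974) (nat_lit 0) (nat_lit 1357280181) (nat_lit 152) (nat_lit 1343370974) (nat_lit 77) (nat_lit 3) (nat_lit 77) (nat_lit 1) (nat_lit 79) (nat_lit 1) (nat_lit 390) (nat_lit 404) (nat_lit 226))))) (XT.nd (nat_lit 234) (nat_lit 304) (nat_lit 0)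 (XT.nd (nat_lit 78) (nat_lit 152) (nat_lit 0) (XT.lf (nat_lit 76) (nat_lit 1317430518) (nat_lit 0) (nat_lit 1330677382) (nat_lit 76) (nat_lit 1330677382) (nat_lit 77) (nat_lit 3) (nat_lit 76) (nat_lit 1) (nat_lit 77) (nat_lit 1) (nat_lit 391) (nat_lit 404) (nat_lit 225)) (XT.nd (nat_lit 78) (nat_lit 0) (nat_lit 0) (XT.lf (nat_lit 152) (nat_lit 3907474094) (nat_lit 0) (nat_lit 4069697) (nat_lit 76) (nat_lit 4069697) (nat_lit 76) (nat_lit 1) (nat_lit 74) (nat_lit 1) (nat_lit 75) (nat_lit 1) (nat_lit 392) (nat_lit 404) (nat_lit 224)) (XT.lf (nat_lit 0) (nat_lit 1279992312) (nat_lit 0) (nat_lit 1291435452) (nat_lit 152) (nat_lit 1279992312) (nat_lit 74) (nat_lit 3) (nat_lit 74) (nat_lit 1) (nat_lit 76) (nat_lit 1) (nat_lit 393) (nat_lit 404) (nat_lit 223)))) (XT.nd (nat_lit 156) (nat_lit 76) (nat_lit 0) (XT.nd (nat_lit 78) (nat_lit 152) (nat_lit 0) (XT.lf (nat_lit 76) (nat_lit 1255831718) (nat_lit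 0) (nat_lit 1266729946) (nat_lit 76) (nat_lit 1266729946) (nat_lit 74) (nat_lit 3) (nat_lit 73) (nat_lit 1) (nat_lit 74) (nat_lit 1) (nat_lit 394) (nat_lit 404) (nat_lit 222)) (XT.lf (nat_lit 152) (nat_lit 3722434272) (nat_lit 0) (nat_lit 3348149) (nat_lit 76) (nat_lit 3348149) (nat_lit 73) (nat_lit 1) (nat_lit 71) (nat_lit 1) (nat_lit 72) (nat_lit 1) (nat_lit 395) (nat_lit 404) (nat_lit 221))) (XT.nd (nat_lit 78) (nat_lit 76) (nat_lit 0) (XT.lf (nat_lit 0) (nat_lit 1219526832) (nat_lit 0) (nat_lit 1228941131) (nat_lit 152) (nat_lit 1219526832) (nat_lit 71) (nat_lit 3) (nat_lit 71) (nat_lit 1) (nat_lit 73) (nat_lit 1) (nat_lit 396) (nat_lit 404) (nat_lit 220)) (XT.lf (nat_lit 76) (nat_lit 1196964786) (nat_lit 0) (nat_lit 1205930785) (nat_lit 76) (nat_lit 1205930785) (nat_lit 71) (nat_lit 3) (nat_lit 70) (nat_lit 1) (nat_lit 71) (nat_lit 1) (nat_lit 397) (nat_lit 404) (nat_lit 219))))))))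
noncomputable def ec277 : XT := (XT.nd (nat_lit 1950) (nat_lit 1596) (nat_lit 0) (XT.nd (nat_lit 936) (nat_lit 1064) (nat_lit 0) (XT.nd (nat_lit 468) (nat_lit 456) (nat_lit 0) (XT.nd (nat_lit 234) (nat_lit 228) (nat_lit 0) (XT.nd (nat_lit 78) (nat_lit 76) (nat_lit 0) (XT.lf (nat_lit 152) (nat_lit 3546023188) (nat_lit 0) (nat_lit 2754531) (nat_lit 76) (nat_lit 2754531) (nat_lit 70) (nat_lit 1) (nat_lit 68) (nat_lit 1) (nat_lit 69) (nat_lit 1) (nat_lit 398) (nat_lit 404) (nat_lit 218)) (XT.nd (nat_lit 78) (nat_lit 76) (nat_lit 0) (XT.lf (nat_lit 0) (nat_lit 1161854398) (nat_lit 0) (nat_lit 1169599565) (nat_lit 152) (nat_lit 1161854398) (nat_lit 68) (nat_lit 3) (nat_lit 68) (nat_lit 1) (nat_lit 70) (nat_lit 1) (nat_lit 399) (nat_lit 404) (nat_lit 217)) (XT.lf (nat_lit 76) (nat_lit 1140735343) (nat_lit 0) (nat_lit 1148111693) (nat_lit 76) (nat_lit 1148111693) (nat_lit 68) (nat_lit 3) (nat_lit 67) (nat_lit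 1) (nat_lit 68) (nat_lit 1) (nat_lit 400) (nat_lit 404) (nat_lit 216)))) (XT.nd (nat_lit 78) (nat_lit 76) (nat_lit 0) (XT.lf (nat_lit 152) (nat_lit 3377862338) (nat_lit 0) (nat_lit 2266159) (nat_lit 76) (nat_lit 2266159) (nat_lit 67) (nat_lit 1) (nat_lit 65) (nat_lit 1) (nat_lit 66) (nat_lit 1) (nat_lit 401) (nat_lit 404) (nat_lit 215)) (XT.nd (nat_lit 78) (nat_lit 76) (nat_lit 0) (XT.lf (nat_lit 0) (nat_lit 1106857304) (nat_lit 0) (nat_lit 1113229272) (nat_lit 152) (nat_lit 1106857304) (nat_lit 65) (nat_lit 3) (nat_lit 65) (nat_lit 1) (nat_lit 67) (nat_lit 1) (nat_lit 402) (nat_lit 404) (nat_lit 214)) (XT.lf (nat_lit 76) (nat_lit 1087047173) (nat_lit 0) (nat_lit 1093115714) (nat_lit 76) (nat_lit 1093115714) (nat_lit 65) (nat_lit 3) (nat_lit 64) (nat_lit 1) (nat_lit 65) (nat_lit 1) (nat_lit 403) (nat_lit 404) (nat_lit 213))))) (XT.nd (nat_lit 234) (nat_lit 228) (nat_lit 0) (XT.nd (nat_lit 78) (nat_lit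 76) (nat_lit 0) (XT.lf (nat_lit 152) (nat_lit 3217585501) (nat_lit 0) (nat_lit 1864375) (nat_lit 76) (nat_lit 1864375) (nat_lit 64) (nat_lit 1) (nat_lit 62) (nat_lit 1) (nat_lit 63) (nat_lit 1) (nat_lit 404) (nat_lit 404) (nat_lit 212)) (XT.nd (nat_lit 78) (nat_lit 76) (nat_lit 0) (XT.lf (nat_lit 0) (nat_lit 1054420733) (nat_lit 0) (nat_lit 1059662967) (nat_lit 152) (nat_lit 1054420733) (nat_lit 62) (nat_lit 3) (nat_lit 62) (nat_lit 1) (nat_lit 64) (nat_lit 1) (nat_lit 405) (nat_lit 404) (nat_lit 211)) (XT.lf (nat_lit 76) (nat_lit 1035803430) (nat_lit 0) (nat_lit 1040796034) (nat_lit 76) (nat_lit 1040796034) (nat_lit 62) (nat_lit 3) (nat_lit 61) (nat_lit 1) (nat_lit 62) (nat_lit 1) (nat_lit 406) (nat_lit 404) (nat_lit 210)))) (XT.nd (nat_lit 78) (nat_lit 76) (nat_lit 0) (XT.lf (nat_lit 152) (nat_lit 3064839170) (nat_lit 0) (nat_lit 1533826) (nat_lit 76) (nat_lit 1533826) (nat_lit 61) (nat_lit 1)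 (nat_lit 59) (nat_lit 1) (nat_lit 60) (nat_lit 1) (nat_lit 407) (nat_lit 404) (nat_lit 209)) (XT.nd (nat_lit 78) (nat_lit 76) (nat_lit 0) (XT.lf (nat_lit 0) (nat_lit 1004433109) (nat_lit 0) (nat_lit 1008745908) (nat_lit 152) (nat_lit 1004433109) (nat_lit 59) (nat_lit 3) (nat_lit 59) (nat_lit 1) (nat_lit 61) (nat_lit 1) (nat_lit 408) (nat_lit 404) (nat_lit 208)) (XT.lf (nat_lit 76) (nat_lit 986907598) (nat_lit 0) (nat_lit 991015026) (nat_lit 76) (nat_lit 991015026) (nat_lit 59) (nat_lit 3) (nat_lit 58) (nat_lit 1) (nat_lit 59) (nat_lit 1) (nat_lit 409) (nat_lit 404) (nat_lit 207)))))) (XT.nd (nat_lit 468) (nat_lit 608) (nat_lit 0) (XT.nd (nat_lit 234) (nat_lit 228) (nat_lit 0) (XT.nd (nat_lit 78) (nat_lit 76) (nat_lit 0) (XT.lf (nat_lit 152) (nat_lit 2919282784) (nat_lit 0) (nat_lit 1261882) (nat_lit 76) (nat_lit 1261882) (nat_lit 58) (nat_lit 1) (nat_lit 56) (nat_lit 1) (nat_lit 57) (nat_lit 1)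 (nat_lit 410) (nat_lit 404) (nat_lit 206)) (XT.nd (nat_lit 78) (nat_lit 76) (nat_lit 0) (XT.lf (nat_lit 0) (nat_lit 956786330) (nat_lit 0) (nat_lit 960334481) (nat_lit 152) (nat_lit 956786330) (nat_lit 56) (nat_lit 3) (nat_lit 56) (nat_lit 1) (nat_lit 58) (nat_lit 1) (nat_lit 411) (nat_lit 404) (nat_lit 205)) (XT.lf (nat_lit 76) (nat_lit 940264231) (nat_lit 0) (nat_lit 943643422) (nat_lit 76) (nat_lit 943643422) (nat_lit 56) (nat_lit 3) (nat_lit 55) (nat_lit 1) (nat_lit 56) (nat_lit 1) (nat_lit 412) (nat_lit 404) (nat_lit 204)))) (XT.nd (nat_lit 78) (nat_lit 76) (nat_lit 0) (XT.lf (nat_lit 152) (nat_lit 2780588804) (nat_lit 0) (nat_lit 1038153) (nat_lit 76) (nat_lit 1038153) (nat_lit 55) (nat_lit 1) (nat_lit 53) (nat_lit 1) (nat_lit 54) (nat_lit 1) (nat_lit 413) (nat_lit 404) (nat_lit 203)) (XT.nd (nat_lit 78) (nat_lit 76) (nat_lit 0) (XT.lf (nat_lit 0) (nat_lit 911375935) (nat_lit 0) (nat_lit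 914295007) (nat_lit 152) (nat_lit 911375935) (nat_lit 53) (nat_lit 3) (nat_lit 53) (nat_lit 1) (nat_lit 55) (nat_lit 1) (nat_lit 414) (nat_lit 404) (nat_lit 202)) (XT.lf (nat_lit 76) (nat_lit 895779527) (nat_lit 0) (nat_lit 898559596) (nat_lit 76) (nat_lit 898559596) (nat_lit 53) (nat_lit 3) (nat_lit 52) (nat_lit 1) (nat_lit 53) (nat_lit 1) (nat_lit 415) (nat_lit 404) (nat_lit 201))))) (XT.nd (nat_lit 234) (nat_lit 380) (nat_lit 0) (XT.nd (nat_lit 78) (nat_lit 76) (nat_lit 0) (XT.lf (nat_lit 152) (nat_lit 2648442655) (nat_lit 0) (nat_lit 854091) (nat_lit 76) (nat_lit 854091) (nat_lit 52) (nat_lit 1) (nat_lit 50) (nat_lit 1) (nat_lit 51) (nat_lit 1) (nat_lit 416) (nat_lit 404) (nat_lit 200)) (XT.nd (nat_lit 78) (nat_lit 76) (nat_lit 0) (XT.lf (nat_lit 0) (nat_lit 868101193) (nat_lit 0) (nat_lit 870502721) (nat_lit 152) (nat_lit 868101193) (nat_lit 50) (nat_lit 3) (nat_lit 50) (nat_lit 1) (nat_lit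 52) (nat_lit 1) (nat_lit 417) (nat_lit 404) (nat_lit 199)) (XT.lf (nat_lit 76) (nat_lit 853361764) (nat_lit 0) (nat_lit 855648934) (nat_lit 76) (nat_lit 855648934) (nat_lit 50) (nat_lit 3) (nat_lit 49) (nat_lit 1) (nat_lit 50) (nat_lit 1) (nat_lit 418) (nat_lit 404) (nat_lit 198)))) (XT.nd (nat_lit 156) (nat_lit 228) (nat_lit 0) (XT.nd (nat_lit 78) (nat_lit 0) (nat_lit 0) (XT.lf (nat_lit 152) (nat_lit 2522542578) (nat_lit 0) (nat_lit 702663) (nat_lit 76) (nat_lit 702663) (nat_lit 49) (nat_lit 1) (nat_lit 47) (nat_lit 1) (nat_lit 48) (nat_lit 1) (nat_lit 419) (nat_lit 404) (nat_lit 197)) (XT.lf (nat_lit 0) (nat_lit 826865148) (nat_lit 0) (nat_lit 828840891) (nat_lit 152) (nat_lit 826865148) (nat_lit 47) (nat_lit 3) (nat_lit 47) (nat_lit 1) (nat_lit 49) (nat_lit 1) (nat_lit 420) (nat_lit 404) (nat_lit 196))) (XT.nd (nat_lit 78) (nat_lit 152) (nat_lit 0) (XT.lf (nat_lit 76) (nat_lit 812921626) (nat_lit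 0) (nat_lit 814803286) (nat_lit 76) (nat_lit 814803286) (nat_lit 47) (nat_lit 3) (nat_lit 46) (nat_lit 1) (nat_lit 47) (nat_lit 1) (nat_lit 421) (nat_lit 404) (nat_lit 195)) (XT.lf (nat_lit 152) (nat_lit 2402599405) (nat_lit 0) (nat_lit 578082) (nat_lit 76) (nat_lit 578082) (nat_lit 46) (nat_lit 1) (nat_lit 44) (nat_lit 1) (nat_lit 45) (nat_lit 1) (nat_lit 422) (nat_lit 404) (nat_lit 194))))))) (XT.nd (nat_lit 1014) (nat_lit 684) (nat_lit 0) (XT.nd (nat_lit 468) (nat_lit 456) (nat_lit 0) (XT.nd (nat_lit 234) (nat_lit 228) (nat_lit 0) (XT.nd (nat_lit 78) (nat_lit 228) (nat_lit 0) (XT.lf (nat_lit 0) (nat_lit 787574621) (nat_lit 0) (nat_lit 789200069) (nat_lit 152) (nat_lit 787574621) (nat_lit 44) (nat_lit 3) (nat_lit 44) (nat_lit 1) (nat_lit 46) (nat_lit 1) (nat_lit 423) (nat_lit 404) (nat_lit 193)) (XT.nd (nat_lit 78) (nat_lit 152) (nat_lit 0) (XT.lf (nat_lit 76) (nat_lit 774372434) (nat_lit 0)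 (nat_lit 775920481) (nat_lit 76) (nat_lit 775920481) (nat_lit 44) (nat_lit 3) (nat_lit 43) (nat_lit 1) (nat_lit 44) (nat_lit 1) (nat_lit 424) (nat_lit 404) (nat_lit 192)) (XT.lf (nat_lit 152) (nat_lit 2288336269) (nat_lit 0) (nat_lit 475590) (nat_lit 76) (nat_lit 475590) (nat_lit 43) (nat_lit 1) (nat_lit 41) (nat_lit 1) (nat_lit 42) (nat_lit 1) (nat_lit 425) (nat_lit 404) (nat_lit 191)))) (XT.nd (nat_lit 78) (nat_lit 228) (nat_lit 0) (XT.lf (nat_lit 0) (nat_lit 750140177) (nat_lit 0) (nat_lit 751477438) (nat_lit 152) (nat_lit 750140177) (nat_lit 41) (nat_lit 3) (nat_lit 41) (nat_lit 1) (nat_lit 43) (nat_lit 1) (nat_lit 426) (nat_lit 404) (nat_lit 190)) (XT.nd (nat_lit 78) (nat_lit 152) (nat_lit 0) (XT.lf (nat_lit 76) (nat_lit 737630310) (nat_lit 0) (nat_lit 738903891) (nat_lit 76) (nat_lit 738903891) (nat_lit 41) (nat_lit 3) (nat_lit 40) (nat_lit 1) (nat_lit 41) (nat_lit 1) (nat_lit 427) (nat_lit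 404) (nat_lit 189)) (XT.lf (nat_lit 152) (nat_lit 2179488286) (nat_lit 0) (nat_lit 391269) (nat_lit 76) (nat_lit 391269) (nat_lit 40) (nat_lit 1) (nat_lit 38) (nat_lit 1) (nat_lit 39) (nat_lit 1) (nat_lit 428) (nat_lit 404) (nat_lit 188))))) (XT.nd (nat_lit 234) (nat_lit 228) (nat_lit 0) (XT.nd (nat_lit 78) (nat_lit 228) (nat_lit 0) (XT.lf (nat_lit 0) (nat_lit 714476074) (nat_lit 0) (nat_lit 715576241) (nat_lit 152) (nat_lit 714476074) (nat_lit 38) (nat_lit 3) (nat_lit 38) (nat_lit 1) (nat_lit 40) (nat_lit 1) (nat_lit 429) (nat_lit 404) (nat_lit 187)) (XT.nd (nat_lit 78) (nat_lit 152) (nat_lit 0) (XT.lf (nat_lit 76) (nat_lit 702614273) (nat_lit 0) (nat_lit 703662051) (nat_lit 76) (nat_lit 703662051) (nat_lit 38) (nat_lit 3) (nat_lit 37) (nat_lit 1) (nat_lit 38) (nat_lit 1) (nat_lit 430) (nat_lit 404) (nat_lit 186)) (XT.lf (nat_lit 152) (nat_lit 2075802192) (nat_lit 0) (nat_lit 321898) (nat_lit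 76) (nat_lit 321898) (nat_lit 37) (nat_lit 1) (nat_lit 35) (nat_lit 1) (nat_lit 36) (nat_lit 1) (nat_lit 431) (nat_lit 404) (nat_lit 185)))) (XT.nd (nat_lit 156) (nat_lit 152) (nat_lit 0) (XT.nd (nat_lit 78) (nat_lit 76) (nat_lit 0) (XT.lf (nat_lit 0) (nat_lit 680500180) (nat_lit 0) (nat_lit 681405290) (nat_lit 152) (nat_lit 680500180) (nat_lit 35) (nat_lit 3) (nat_lit 35) (nat_lit 1) (nat_lit 37) (nat_lit 1) (nat_lit 432) (nat_lit 404) (nat_lit 184)) (XT.lf (nat_lit 76) (nat_lit 669246303) (nat_lit 0) (nat_lit 670108313) (nat_lit 76) (nat_lit 670108313) (nat_lit 35) (nat_lit 3) (nat_lit 34) (nat_lit 1) (nat_lit 35) (nat_lit 1) (nat_lit 433) (nat_lit 404) (nat_lit 183))) (XT.nd (nat_lit 78) (nat_lit 0) (nat_lit 0) (XT.lf (nat_lit 152) (nat_lit 1977035967) (nat_lit 0) (nat_lit 264826) (nat_lit 76) (nat_lit 264826) (nat_lit 34) (nat_lit 1) (nat_lit 32) (nat_lit 1) (nat_lit 33) (nat_lit 1) (nat_lit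 434) (nat_lit 404) (nat_lit 182)) (XT.lf (nat_lit 0) (nat_lit 648133892) (nat_lit 0) (nat_lit 648878529) (nat_lit 152) (nat_lit 648133892) (nat_lit 32) (nat_lit 3) (nat_lit 32) (nat_lit 1) (nat_lit 34) (nat_lit 1) (nat_lit 435) (nat_lit 404) (nat_lit 181)))))) (XT.nd (nat_lit 468) (nat_lit 228) (nat_lit 0) (XT.nd (nat_lit 234) (nat_lit 228) (nat_lit 0) (XT.nd (nat_lit 78) (nat_lit 152) (nat_lit 0) (XT.lf (nat_lit 76) (nat_lit 637451353) (nat_lit 0) (nat_lit 638160531) (nat_lit 76) (nat_lit 638160531) (nat_lit 32) (nat_lit 3) (nat_lit 31) (nat_lit 1) (nat_lit 32) (nat_lit 1) (nat_lit 436) (nat_lit 404) (nat_lit 180)) (XT.nd (nat_lit 78) (nat_lit 0) (nat_lit 0) (XT.lf (nat_lit 152) (nat_lit 1882958447) (nat_lit 0) (nat_lit 217873) (nat_lit 76) (nat_lit 217873) (nat_lit 31) (nat_lit 1) (nat_lit 29) (nat_lit 1) (nat_lit 30) (nat_lit 1) (nat_lit 437) (nat_lit 404) (nat_lit 179)) (XT.lf (nat_lit 0) (nat_lit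 617302034) (nat_lit 0) (nat_lit 617914648) (nat_lit 152) (nat_lit 617302034) (nat_lit 29) (nat_lit 3) (nat_lit 29) (nat_lit 1) (nat_lit 31) (nat_lit 1) (nat_lit 438) (nat_lit 404) (nat_lit 178)))) (XT.nd (nat_lit 78) (nat_lit 152) (nat_lit 0) (XT.lf (nat_lit 76) (nat_lit 607157342) (nat_lit 0) (nat_lit 607740784) (nat_lit 76) (nat_lit 607740784) (nat_lit 29) (nat_lit 3) (nat_lit 28) (nat_lit 1) (nat_lit 29) (nat_lit 1) (nat_lit 439) (nat_lit 404) (nat_lit 177)) (XT.nd (nat_lit 78) (nat_lit 0) (nat_lit 0) (XT.lf (nat_lit 152) (nat_lit 1793348920) (nat_lit 0) (nat_lit 179244) (nat_lit 76) (nat_lit 179244) (nat_lit 28) (nat_lit 1) (nat_lit 26) (nat_lit 1) (nat_lit 27) (nat_lit 1) (nat_lit 440) (nat_lit 404) (nat_lit 176)) (XT.lf (nat_lit 0) (nat_lit 587932746) (nat_lit 0) (nat_lit 588436745) (nat_lit 152) (nat_lit 587932746) (nat_lit 26) (nat_lit 3) (nat_lit 26) (nat_lit 1) (nat_lit 28) (nat_lit 1)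 (nat_lit 441) (nat_lit 404) (nat_lit 175))))) (XT.nd (nat_lit 35022) (nat_lit 0) (nat_lit 20444) (XT.nd (nat_lit 78) (nat_lit 152) (nat_lit 0) (XT.lf (nat_lit 76) (nat_lit 578295121) (nat_lit 0) (nat_lit 578775120) (nat_lit 76) (nat_lit 578775120) (nat_lit 26) (nat_lit 3) (nat_lit 25) (nat_lit 1) (nat_lit 26) (nat_lit 1) (nat_lit 442) (nat_lit 404) (nat_lit 174)) (XT.nd (nat_lit 78) (nat_lit 0) (nat_lit 0) (XT.lf (nat_lit 152) (nat_lit 1707996734) (nat_lit 0) (nat_lit 147465) (nat_lit 76) (nat_lit 147465) (nat_lit 25) (nat_lit 1) (nat_lit 23) (nat_lit 1) (nat_lit 24) (nat_lit 1) (nat_lit 443) (nat_lit 404) (nat_lit 173)) (XT.lf (nat_lit 0) (nat_lit 559957377) (nat_lit 0) (nat_lit 560372019) (nat_lit 152) (nat_lit 559957377) (nat_lit 23) (nat_lit 3) (nat_lit 23) (nat_lit 1) (nat_lit 25) (nat_lit 1) (nat_lit 444) (nat_lit 404) (nat_lit 172)))) (XT.nd (nat_lit 156) (nat_lit 0) (nat_lit 76) (XT.nd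 (nat_lit 78) (nat_lit 0) (nat_lit 0) (XT.lf (nat_lit 836) (nat_lit 12810147150) (nat_lit 0) (nat_lit 22744386819) (nat_lit 836) (nat_lit 12810147150) (nat_lit 303) (nat_lit 1) (nat_lit 292) (nat_lit 0) (nat_lit 303) (nat_lit 0) (nat_lit 210) (nat_lit 405) (nat_lit 405)) (XT.lf (nat_lit 836) (nat_lit 49653729637) (nat_lit 76) (nat_lit 22377541871) (nat_lit 0) (nat_lit 22377541871) (nat_lit 303) (nat_lit 1) (nat_lit 293) (nat_lit 1) (nat_lit 292) (nat_lit 0) (nat_lit 211) (nat_lit 405) (nat_lit 404))) (XT.nd (nat_lit 78) (nat_lit 0) (nat_lit 0) (XT.lf (nat_lit 836) (nat_lit 23664219909) (nat_lit 0) (nat_lit 44831565333) (nat_lit 760) (nat_lit 23664219909) (nat_lit 304) (nat_lit 1) (nat_lit 293) (nat_lit 1) (nat_lit 303) (nat_lit 1) (nat_lit 212) (nat_lit 405) (nat_lit 403)) (XT.lf (nat_lit 836) (nat_lit 44390788324) (nat_lit 76) (nat_lit 22796530930) (nat_lit 0) (nat_lit 22796530930) (nat_lit 304)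 (nat_lit 1) (nat_lit 294) (nat_lit 1) (nat_lit 293) (nat_lit 1) (nat_lit 213) (nat_lit 405) (nat_lit 402))))))))
noncomputable def ec278 : XT := (XT.nd (nat_lit 1950) (nat_lit 2888) (nat_lit 0) (XT.nd (nat_lit 936) (nat_lit 2508) (nat_lit 0) (XT.nd (nat_lit 468) (nat_lit 1444) (nat_lit 0) (XT.nd (nat_lit 234) (nat_lit 0) (nat_lit 76) (XT.nd (nat_lit 78) (nat_lit 0) (nat_lit 0) (XT.lf (nat_lit 836) (nat_lit 20432653577) (nat_lit 0) (nat_lit 47011361260) (nat_lit 760) (nat_lit 20432653577) (nat_lit 305) (nat_lit 1) (nat_lit 294) (nat_lit 1) (nat_lit 304) (nat_lit 1) (nat_lit 214) (nat_lit 405) (nat_lit 401)) (XT.nd (nat_lit 78) (nat_lit 0) (nat_lit 76) (XT.lf (nat_lit 836) (nat_lit 36749458277) (nat_lit 76) (nat_lit 24542131659) (nat_lit 0) (nat_lit 24542131659) (nat_lit 305) (nat_lit 1) (nat_lit 295) (nat_lit 1) (nat_lit 294) (nat_lit 1) (nat_lit 215) (nat_lit 405) (nat_lit 400)) (XT.lf (nat_lit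 836) (nat_lit 16113576034) (nat_lit 0) (nat_lit 51632217790) (nat_lit 760) (nat_lit 16113576034) (nat_lit 306) (nat_lit 1) (nat_lit 295) (nat_lit 1) (nat_lit 305) (nat_lit 1) (nat_lit 216) (nat_lit 405) (nat_lit 399)))) (XT.nd (nat_lit 78) (nat_lit 0) (nat_lit 76) (XT.lf (nat_lit 836) (nat_lit 27087416068) (nat_lit 76) (nat_lit 27425981360) (nat_lit 0) (nat_lit 27425981360) (nat_lit 306) (nat_lit 1) (nat_lit 296) (nat_lit 1) (nat_lit 295) (nat_lit 1) (nat_lit 217) (nat_lit 405) (nat_lit 398)) (XT.nd (nat_lit 78) (nat_lit 0) (nat_lit 0) (XT.lf (nat_lit 836) (nat_lit 10874186700) (nat_lit 0) (nat_lit 58341296941) (nat_lit 760) (nat_lit 10874186700) (nat_lit 307) (nat_lit 1) (nat_lit 296) (nat_lit 1) (nat_lit 306) (nat_lit 1) (nat_lit 218) (nat_lit 405) (nat_lit 397)) (XT.lf (nat_lit 836) (nat_lit 15722582199) (nat_lit 76) (nat_lit 31280326033) (nat_lit 0) (nat_lit 31280326033) (nat_lit 307) (nat_lit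 1) (nat_lit 297) (nat_lit 1) (nat_lit 296) (nat_lit 1) (nat_lit 219) (nat_lit 405) (nat_lit 396))))) (XT.nd (nat_lit 234) (nat_lit 380) (nat_lit 0) (XT.nd (nat_lit 78) (nat_lit 1292) (nat_lit 0) (XT.lf (nat_lit 76) (nat_lit 4862993093) (nat_lit 0) (nat_lit 66824559089) (nat_lit 760) (nat_lit 4862993093) (nat_lit 298) (nat_lit 1) (nat_lit 297) (nat_lit 1) (nat_lit 307) (nat_lit 1) (nat_lit 220) (nat_lit 405) (nat_lit 395)) (XT.nd (nat_lit 78) (nat_lit 532) (nat_lit 0) (XT.lf (nat_lit 836) (nat_lit 2937126896) (nat_lit 0) (nat_lit 35955956921) (nat_lit 760) (nat_lit 35955956921) (nat_lit 298) (nat_lit 1) (nat_lit 287) (nat_lit 1) (nat_lit 297) (nat_lit 1) (nat_lit 221) (nat_lit 405) (nat_lit 394)) (XT.lf (nat_lit 532) (nat_lit 69701720169) (nat_lit 0) (nat_lit 1759457928) (nat_lit 456) (nat_lit 1759457928) (nat_lit 287) (nat_lit 1) (nat_lit 280) (nat_lit 1) (nat_lit 286) (nat_lit 1) (nat_lit 222)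 (nat_lit 405) (nat_lit 393)))) (XT.nd (nat_lit 78) (nat_lit 380) (nat_lit 0) (XT.lf (nat_lit 76) (nat_lit 30473470746) (nat_lit 0) (nat_lit 10666237284) (nat_lit 532) (nat_lit 30473470746) (nat_lit 281) (nat_lit 1) (nat_lit 280) (nat_lit 1) (nat_lit 287) (nat_lit 1) (nat_lit 223) (nat_lit 405) (nat_lit 392)) (XT.nd (nat_lit 78) (nat_lit 0) (nat_lit 0) (XT.lf (nat_lit 456) (nat_lit 52437020953) (nat_lit 0) (nat_lit 8818526982) (nat_lit 380) (nat_lit 8818526982) (nat_lit 281) (nat_lit 1) (nat_lit 275) (nat_lit 1) (nat_lit 280) (nat_lit 1) (nat_lit 224) (nat_lit 405) (nat_lit 391)) (XT.lf (nat_lit 76) (nat_lit 21736355715) (nat_lit 0) (nat_lit 25094615844) (nat_lit 456) (nat_lit 21736355715) (nat_lit 276) (nat_lit 1) (nat_lit 275) (nat_lit 1) (nat_lit 281) (nat_lit 1) (nat_lit 225) (nat_lit 405) (nat_lit 390)))))) (XT.nd (nat_lit 468) (nat_lit 1140) (nat_lit 0) (XT.nd (nat_lit 234) (nat_lit 684) (nat_lit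 0) (XT.nd (nat_lit 78) (nat_lit 304) (nat_lit 0) (XT.lf (nat_lit 456) (nat_lit 34530521923) (nat_lit 0) (nat_lit 16291266849) (nat_lit 380) (nat_lit 16291266849) (nat_lit 276) (nat_lit 1) (nat_lit 270) (nat_lit 1) (nat_lit 275) (nat_lit 1) (nat_lit 226) (nat_lit 405) (nat_lit 389)) (XT.nd (nat_lit 78) (nat_lit 304) (nat_lit 0) (XT.lf (nat_lit 76) (nat_lit 12724038416) (nat_lit 0) (nat_lit 40253002257) (nat_lit 456) (nat_lit 12724038416) (nat_lit 271) (nat_lit 1) (nat_lit 270) (nat_lit 1) (nat_lit 276) (nat_lit 1) (nat_lit 227) (nat_lit 405) (nat_lit 388)) (XT.lf (nat_lit 380) (nat_lit 16148887156) (nat_lit 0) (nat_lit 24088268047) (nat_lit 304) (nat_lit 24088268047) (nat_lit 271) (nat_lit 1) (nat_lit 266) (nat_lit 1) (nat_lit 270) (nat_lit 1) (nat_lit 228) (nat_lit 405) (nat_lit 387)))) (XT.nd (nat_lit 78) (nat_lit 684) (nat_lit 0) (XT.lf (nat_lit 76) (nat_lit 3513890090) (nat_lit 0) (nat_lit 55974888182)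 (nat_lit 380) (nat_lit 3513890090) (nat_lit 267) (nat_lit 1) (nat_lit 266) (nat_lit 1) (nat_lit 271) (nat_lit 1) (nat_lit 229) (nat_lit 405) (nat_lit 386)) (XT.nd (nat_lit 78) (nat_lit 304) (nat_lit 0) (XT.lf (nat_lit 76) (nat_lit 29609047616) (nat_lit 0) (nat_lit 2479815253) (nat_lit 380) (nat_lit 29609047616) (nat_lit 262) (nat_lit 1) (nat_lit 261) (nat_lit 1) (nat_lit 266) (nat_lit 1) (nat_lit 230) (nat_lit 405) (nat_lit 385)) (XT.lf (nat_lit 380) (nat_lit 48978034153) (nat_lit 0) (nat_lit 5732403417) (nat_lit 304) (nat_lit 5732403417) (nat_lit 262) (nat_lit 1) (nat_lit 257) (nat_lit 1) (nat_lit 261) (nat_lit 1) (nat_lit 231) (nat_lit 405) (nat_lit 384))))) (XT.nd (nat_lit 234) (nat_lit 836) (nat_lit 0) (XT.nd (nat_lit 78) (nat_lit 304) (nat_lit 0) (XT.lf (nat_lit 76) (nat_lit 19211338218) (nat_lit 0) (nat_lit 20786626049) (nat_lit 380) (nat_lit 19211338218) (nat_lit 258) (nat_lit 1) (nat_lit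 257) (nat_lit 1) (nat_lit 262) (nat_lit 1) (nat_lit 232) (nat_lit 405) (nat_lit 383)) (XT.nd (nat_lit 78) (nat_lit 0) (nat_lit 0) (XT.lf (nat_lit 380) (nat_lit 28034686640) (nat_lit 0) (nat_lit 14991926061) (nat_lit 304) (nat_lit 14991926061) (nat_lit 258) (nat_lit 1) (nat_lit 253) (nat_lit 1) (nat_lit 257) (nat_lit 1) (nat_lit 233) (nat_lit 405) (nat_lit 382)) (XT.lf (nat_lit 76) (nat_lit 8840888998) (nat_lit 0) (nat_lit 39180815074) (nat_lit 380) (nat_lit 8840888998) (nat_lit 254) (nat_lit 1) (nat_lit 253) (nat_lit 1) (nat_lit 258) (nat_lit 1) (nat_lit 234) (nat_lit 405) (nat_lit 381)))) (XT.nd (nat_lit 156) (nat_lit 228) (nat_lit 0) (XT.nd (nat_lit 78) (nat_lit 380) (nat_lit 0) (XT.lf (nat_lit 304) (nat_lit 7189916374) (nat_lit 0) (nat_lit 24270841623) (nat_lit 228) (nat_lit 24270841623) (nat_lit 254) (nat_lit 1) (nat_lit 250) (nat_lit 1) (nat_lit 253) (nat_lit 1) (nat_lit 235) (nat_lit 405)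 (nat_lit 380)) (XT.lf (nat_lit 380) (nat_lit 51771152140) (nat_lit 0) (nat_lit 1436550133) (nat_lit 304) (nat_lit 1436550133) (nat_lit 250) (nat_lit 1) (nat_lit 245) (nat_lit 1) (nat_lit 249) (nat_lit 1) (nat_lit 236) (nat_lit 405) (nat_lit 379))) (XT.nd (nat_lit 78) (nat_lit 228) (nat_lit 0) (XT.lf (nat_lit 76) (nat_lit 20258434570) (nat_lit 0) (nat_lit 13046054390) (nat_lit 380) (nat_lit 20258434570) (nat_lit 246) (nat_lit 1) (nat_lit 245) (nat_lit 1) (nat_lit 250) (nat_lit 1) (nat_lit 237) (nat_lit 405) (nat_lit 378)) (XT.lf (nat_lit 304) (nat_lit 29588084146) (nat_lit 0) (nat_lit 11467491173) (nat_lit 228) (nat_lit 11467491173) (nat_lit 246) (nat_lit 1) (nat_lit 242) (nat_lit 1) (nat_lit 245) (nat_lit 1) (nat_lit 238) (nat_lit 405) (nat_lit 377))))))) (XT.nd (nat_lit 936) (nat_lit 1292) (nat_lit 0) (XT.nd (nat_lit 468) (nat_lit 836) (nat_lit 0) (XT.nd (nat_lit 234) (nat_lit 228) (nat_lit 0)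 (XT.nd (nat_lit 78) (nat_lit 532) (nat_lit 0) (XT.lf (nat_lit 76) (nat_lit 9347333462) (nat_lit 0) (nat_lit 32814961886) (nat_lit 304) (nat_lit 9347333462) (nat_lit 243) (nat_lit 1) (nat_lit 242) (nat_lit 1) (nat_lit 246) (nat_lit 1) (nat_lit 239) (nat_lit 405) (nat_lit 376)) (XT.nd (nat_lit 78) (nat_lit 304) (nat_lit 0) (XT.lf (nat_lit 304) (nat_lit 7790710279) (nat_lit 0) (nat_lit 21364268142) (nat_lit 228) (nat_lit 21364268142) (nat_lit 243) (nat_lit 1) (nat_lit 239) (nat_lit 1) (nat_lit 242) (nat_lit 1) (nat_lit 240) (nat_lit 405) (nat_lit 375)) (XT.lf (nat_lit 304) (nat_lit 46887830195) (nat_lit 0) (nat_lit 1338914038) (nat_lit 228) (nat_lit 1338914038) (nat_lit 239) (nat_lit 1) (nat_lit 235) (nat_lit 1) (nat_lit 238) (nat_lit 1) (nat_lit 241) (nat_lit 405) (nat_lit 374)))) (XT.nd (nat_lit 78) (nat_lit 228) (nat_lit 0) (XT.lf (nat_lit 76) (nat_lit 17736323380) (nat_lit 0) (nat_lit 13142437532)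 (nat_lit 304) (nat_lit 17736323380) (nat_lit 236) (nat_lit 1) (nat_lit 235) (nat_lit 1) (nat_lit 239) (nat_lit 1) (nat_lit 242) (nat_lit 405) (nat_lit 373)) (XT.nd (nat_lit 78) (nat_lit 0) (nat_lit 0) (XT.lf (nat_lit 304) (nat_lit 24389068689) (nat_lit 0) (nat_lit 11655306506) (nat_lit 228) (nat_lit 11655306506) (nat_lit 236) (nat_lit 1) (nat_lit 232) (nat_lit 1) (nat_lit 235) (nat_lit 1) (nat_lit 243) (nat_lit 405) (nat_lit 372)) (XT.lf (nat_lit 76) (nat_lit 6716729626) (nat_lit 0) (nat_lit 33375371372) (nat_lit 304) (nat_lit 6716729626) (nat_lit 233) (nat_lit 1) (nat_lit 232) (nat_lit 1) (nat_lit 236) (nat_lit 1) (nat_lit 244) (nat_lit 405) (nat_lit 371))))) (XT.nd (nat_lit 234) (nat_lit 380) (nat_lit 0) (XT.nd (nat_lit 78) (nat_lit 304) (nat_lit 0) (XT.lf (nat_lit 228) (nat_lit 2461233061) (nat_lit 0) (nat_lit 21736767020) (nat_lit 152) (nat_lit 21736767020) (nat_lit 233) (nat_lit 1) (nat_lit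 230) (nat_lit 1) (nat_lit 232) (nat_lit 1) (nat_lit 245) (nat_lit 405) (nat_lit 370)) (XT.nd (nat_lit 78) (nat_lit 0) (nat_lit 0) (XT.lf (nat_lit 304) (nat_lit 37188406276) (nat_lit 0) (nat_lit 3949678300) (nat_lit 228) (nat_lit 3949678300) (nat_lit 230) (nat_lit 1) (nat_lit 226) (nat_lit 1) (nat_lit 229) (nat_lit 1) (nat_lit 246) (nat_lit 405) (nat_lit 369)) (XT.lf (nat_lit 76) (nat_lit 12989027565) (nat_lit 0) (nat_lit 18272176447) (nat_lit 304) (nat_lit 12989027565) (nat_lit 227) (nat_lit 1) (nat_lit 226) (nat_lit 1) (nat_lit 230) (nat_lit 1) (nat_lit 247) (nat_lit 405) (nat_lit 368)))) (XT.nd (nat_lit 78) (nat_lit 228) (nat_lit 0) (XT.lf (nat_lit 228) (nat_lit 15006817709) (nat_lit 0) (nat_lit 14215865543) (nat_lit 152) (nat_lit 14215865543) (nat_lit 227) (nat_lit 1) (nat_lit 224) (nat_lit 1) (nat_lit 226) (nat_lit 1) (nat_lit 248) (nat_lit 405) (nat_lit 367)) (XT.nd (nat_lit 78) (nat_lit 228)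 (nat_lit 0) (XT.lf (nat_lit 76) (nat_lit 2156003379) (nat_lit 0) (nat_lit 38341795889) (nat_lit 228) (nat_lit 2156003379) (nat_lit 225) (nat_lit 1) (nat_lit 224) (nat_lit 1) (nat_lit 227) (nat_lit 1) (nat_lit 249) (nat_lit 405) (nat_lit 366)) (XT.lf (nat_lit 76) (nat_lit 17793874152) (nat_lit 0) (nat_lit 6284160805) (nat_lit 228) (nat_lit 17793874152) (nat_lit 222) (nat_lit 1) (nat_lit 221) (nat_lit 1) (nat_lit 224) (nat_lit 1) (nat_lit 250) (nat_lit 405) (nat_lit 365)))))) (XT.nd (nat_lit 468) (nat_lit 608) (nat_lit 0) (XT.nd (nat_lit 234) (nat_lit 380) (nat_lit 0) (XT.nd (nat_lit 78) (nat_lit 152) (nat_lit 0) (XT.lf (nat_lit 228) (nat_lit 24709912904) (nat_lit 0) (nat_lit 8203021593) (nat_lit 152) (nat_lit 8203021593) (nat_lit 222) (nat_lit 1) (nat_lit 219) (nat_lit 1) (nat_lit 221) (nat_lit 1) (nat_lit 251) (nat_lit 405) (nat_lit 364)) (XT.nd (nat_lit 78) (nat_lit 152) (nat_lit 0) (XT.lf (nat_lit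 76) (nat_lit 6972494564) (nat_lit 0) (nat_lit 26431722160) (nat_lit 228) (nat_lit 6972494564) (nat_lit 220) (nat_lit 1) (nat_lit 219) (nat_lit 1) (nat_lit 222) (nat_lit 1) (nat_lit 252) (nat_lit 405) (nat_lit 363)) (XT.lf (nat_lit 228) (nat_lit 3266362669) (nat_lit 0) (nat_lit 18193002542) (nat_lit 152) (nat_lit 18193002542) (nat_lit 220) (nat_lit 1) (nat_lit 217) (nat_lit 1) (nat_lit 219) (nat_lit 1) (nat_lit 253) (nat_lit 405) (nat_lit 362)))) (XT.nd (nat_lit 78) (nat_lit 152) (nat_lit 0) (XT.lf (nat_lit 228) (nat_lit 32103922533) (nat_lit 0) (nat_lit 3422545051) (nat_lit 152) (nat_lit 3422545051) (nat_lit 217) (nat_lit 1) (nat_lit 214) (nat_lit 1) (nat_lit 216) (nat_lit 1) (nat_lit 254) (nat_lit 405) (nat_lit 361)) (XT.nd (nat_lit 78) (nat_lit 152) (nat_lit 0) (XT.lf (nat_lit 76) (nat_lit 10687474483) (nat_lit 0) (nat_lit 16876711609) (nat_lit 228) (nat_lit 10687474483) (nat_lit 215) (nat_lit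 1) (nat_lit 214) (nat_lit 1) (nat_lit 217) (nat_lit 1) (nat_lit 255) (nat_lit 405) (nat_lit 360)) (XT.lf (nat_lit 228) (nat_lit 10884673878) (nat_lit 0) (nat_lit 13344939867) (nat_lit 152) (nat_lit 13344939867) (nat_lit 215) (nat_lit 1) (nat_lit 212) (nat_lit 1) (nat_lit 214) (nat_lit 1) (nat_lit 256) (nat_lit 405) (nat_lit 359))))) (XT.nd (nat_lit 234) (nat_lit 304) (nat_lit 0) (XT.nd (nat_lit 78) (nat_lit 304) (nat_lit 0) (XT.lf (nat_lit 76) (nat_lit 357749211) (nat_lit 0) (nat_lit 36205694404) (nat_lit 228) (nat_lit 357749211) (nat_lit 213) (nat_lit 1) (nat_lit 212) (nat_lit 1) (nat_lit 215) (nat_lit 1) (nat_lit 257) (nat_lit 405) (nat_lit 358)) (XT.nd (nat_lit 78) (nat_lit 152) (nat_lit 0) (XT.lf (nat_lit 76) (nat_lit 13508026898) (nat_lit 0) (nat_lit 9247625146) (nat_lit 152) (nat_lit 13508026898) (nat_lit 211) (nat_lit 1) (nat_lit 210) (nat_lit 1) (nat_lit 212) (nat_lit 1) (nat_lit 258) (nat_lit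 405) (nat_lit 357)) (XT.lf (nat_lit 228) (nat_lit 16761923591) (nat_lit 0) (nat_lit 9433688056) (nat_lit 152) (nat_lit 9433688056) (nat_lit 211) (nat_lit 1) (nat_lit 208) (nat_lit 1) (nat_lit 210) (nat_lit 1) (nat_lit 259) (nat_lit 405) (nat_lit 356)))) (XT.nd (nat_lit 156) (nat_lit 152) (nat_lit 0) (XT.nd (nat_lit 78) (nat_lit 152) (nat_lit 0) (XT.lf (nat_lit 76) (nat_lit 3360649834) (nat_lit 0) (nat_lit 28290744303) (nat_lit 228) (nat_lit 3360649834) (nat_lit 209) (nat_lit 1) (nat_lit 208) (nat_lit 1) (nat_lit 211) (nat_lit 1) (nat_lit 260) (nat_lit 405) (nat_lit 355)) (XT.lf (nat_lit 76) (nat_lit 15603958769) (nat_lit 0) (nat_lit 3191960987) (nat_lit 152) (nat_lit 15603958769) (nat_lit 207) (nat_lit 1) (nat_lit 206) (nat_lit 1) (nat_lit 208) (nat_lit 1) (nat_lit 261) (nat_lit 405) (nat_lit 354))) (XT.nd (nat_lit 78) (nat_lit 0) (nat_lit 0) (XT.lf (nat_lit 228) (nat_lit 21225385977) (nat_lit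 0) (nat_lit 6289473750) (nat_lit 152) (nat_lit 6289473750) (nat_lit 207) (nat_lit 1) (nat_lit 204) (nat_lit 1) (nat_lit 206) (nat_lit 1) (nat_lit 262) (nat_lit 405) (nat_lit 353)) (XT.lf (nat_lit 76) (nat_lit 5685127957) (nat_lit 0) (nat_lit 21850322414) (nat_lit 228) (nat_lit 5685127957) (nat_lit 205) (nat_lit 1) (nat_lit 204) (nat_lit 1) (nat_lit 207) (nat_lit 1) (nat_lit 263) (nat_lit 405) (nat_lit 352))))))))
noncomputable def ec279 : XT := (XT.nd (nat_lit 1950) (nat_lit 1900) (nat_lit 0) (XT.nd (nat_lit 936) (nat_lit 988) (nat_lit 0) (XT.nd (nat_lit 468) (nat_lit 532) (nat_lit 0) (XT.nd (nat_lit 234) (nat_lit 304) (nat_lit 0) (XT.nd (nat_lit 78) (nat_lit 228) (nat_lit 0) (XT.lf (nat_lit 152) (nat_lit 1631993205) (nat_lit 0) (nat_lit 15507922859) (nat_lit 76) (nat_lit 15507922859) (nat_lit 205) (nat_lit 1) (nat_lit 203) (nat_lit 1) (nat_lit 204) (nat_lit 1) (nat_lit 264) (nat_lit 405) (nat_lit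 351)) (XT.nd (nat_lit 78) (nat_lit 0) (nat_lit 0) (XT.lf (nat_lit 228) (nat_lit 24543425149) (nat_lit 0) (nat_lit 3772799180) (nat_lit 152) (nat_lit 3772799180) (nat_lit 203) (nat_lit 1) (nat_lit 200) (nat_lit 1) (nat_lit 202) (nat_lit 1) (nat_lit 265) (nat_lit 405) (nat_lit 350)) (XT.lf (nat_lit 76) (nat_lit 7458419337) (nat_lit 0) (nat_lit 16619606766) (nat_lit 228) (nat_lit 7458419337) (nat_lit 201) (nat_lit 1) (nat_lit 200) (nat_lit 1) (nat_lit 203) (nat_lit 1) (nat_lit 266) (nat_lit 405) (nat_lit 349)))) (XT.nd (nat_lit 78) (nat_lit 228) (nat_lit 0) (XT.lf (nat_lit 152) (nat_lit 5480602905) (nat_lit 0) (nat_lit 12758406515) (nat_lit 76) (nat_lit 12758406515) (nat_lit 201) (nat_lit 1) (nat_lit 199) (nat_lit 1) (nat_lit 200) (nat_lit 1) (nat_lit 267) (nat_lit 405) (nat_lit 348)) (XT.nd (nat_lit 78) (nat_lit 0) (nat_lit 0) (XT.lf (nat_lit 228) (nat_lit 26935981921) (nat_lit 0) (nat_lit 1769066043)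 (nat_lit 152) (nat_lit 1769066043) (nat_lit 199) (nat_lit 1) (nat_lit 196) (nat_lit 1) (nat_lit 198) (nat_lit 1) (nat_lit 268) (nat_lit 405) (nat_lit 347)) (XT.lf (nat_lit 76) (nat_lit 8784870043) (nat_lit 0) (nat_lit 12380889178) (nat_lit 228) (nat_lit 8784870043) (nat_lit 197) (nat_lit 1) (nat_lit 196) (nat_lit 1) (nat_lit 199) (nat_lit 1) (nat_lit 269) (nat_lit 405) (nat_lit 346))))) (XT.nd (nat_lit 234) (nat_lit 228) (nat_lit 0) (XT.nd (nat_lit 78) (nat_lit 228) (nat_lit 0) (XT.lf (nat_lit 152) (nat_lit 8449818008) (nat_lit 0) (nat_lit 10496372614) (nat_lit 76) (nat_lit 10496372614) (nat_lit 197) (nat_lit 1) (nat_lit 195) (nat_lit 1) (nat_lit 196) (nat_lit 1) (nat_lit 270) (nat_lit 405) (nat_lit 345)) (XT.nd (nat_lit 78) (nat_lit 0) (nat_lit 0) (XT.lf (nat_lit 228) (nat_lit 28583199285) (nat_lit 0) (nat_lit 184152936) (nat_lit 152) (nat_lit 184152936) (nat_lit 195) (nat_lit 1) (nat_lit 192)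 (nat_lit 1) (nat_lit 194) (nat_lit 1) (nat_lit 271) (nat_lit 405) (nat_lit 344)) (XT.lf (nat_lit 76) (nat_lit 9750010513) (nat_lit 0) (nat_lit 8955214417) (nat_lit 228) (nat_lit 9750010513) (nat_lit 193) (nat_lit 1) (nat_lit 192) (nat_lit 1) (nat_lit 195) (nat_lit 1) (nat_lit 272) (nat_lit 405) (nat_lit 343)))) (XT.nd (nat_lit 78) (nat_lit 152) (nat_lit 0) (XT.lf (nat_lit 152) (nat_lit 10704936124) (nat_lit 0) (nat_lit 8635391726) (nat_lit 76) (nat_lit 8635391726) (nat_lit 193) (nat_lit 1) (nat_lit 191) (nat_lit 1) (nat_lit 192) (nat_lit 1) (nat_lit 273) (nat_lit 405) (nat_lit 342)) (XT.nd (nat_lit 78) (nat_lit 152) (nat_lit 0) (XT.lf (nat_lit 0) (nat_lit 1076587016) (nat_lit 0) (nat_lit 25357507063) (nat_lit 152) (nat_lit 1076587016) (nat_lit 191) (nat_lit 3) (nat_lit 191) (nat_lit 1) (nat_lit 193) (nat_lit 1) (nat_lit 274) (nat_lit 405) (nat_lit 341)) (XT.lf (nat_lit 76) (nat_lit 10423906528)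 (nat_lit 0) (nat_lit 6195502063) (nat_lit 152) (nat_lit 10423906528) (nat_lit 190) (nat_lit 1) (nat_lit 189) (nat_lit 1) (nat_lit 191) (nat_lit 1) (nat_lit 275) (nat_lit 405) (nat_lit 340)))))) (XT.nd (nat_lit 468) (nat_lit 532) (nat_lit 0) (XT.nd (nat_lit 234) (nat_lit 228) (nat_lit 0) (XT.nd (nat_lit 78) (nat_lit 152) (nat_lit 0) (XT.lf (nat_lit 152) (nat_lit 12381501192) (nat_lit 0) (nat_lit 7104358144) (nat_lit 76) (nat_lit 7104358144) (nat_lit 190) (nat_lit 1) (nat_lit 188) (nat_lit 1) (nat_lit 189) (nat_lit 1) (nat_lit 276) (nat_lit 405) (nat_lit 339)) (XT.nd (nat_lit 78) (nat_lit 152) (nat_lit 0) (XT.lf (nat_lit 0) (nat_lit 2057685803) (nat_lit 0) (nat_lit 22033658815) (nat_lit 152) (nat_lit 2057685803) (nat_lit 188) (nat_lit 3) (nat_lit 188) (nat_lit 1) (nat_lit 190) (nat_lit 1) (nat_lit 277) (nat_lit 405) (nat_lit 338)) (XT.lf (nat_lit 76) (nat_lit 10863915365) (nat_lit 0) (nat_lit 3980888213)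 (nat_lit 152) (nat_lit 10863915365) (nat_lit 187) (nat_lit 1) (nat_lit 186) (nat_lit 1) (nat_lit 188) (nat_lit 1) (nat_lit 278) (nat_lit 405) (nat_lit 337)))) (XT.nd (nat_lit 78) (nat_lit 152) (nat_lit 0) (XT.lf (nat_lit 152) (nat_lit 13590600006) (nat_lit 0) (nat_lit 5844773026) (nat_lit 76) (nat_lit 5844773026) (nat_lit 187) (nat_lit 1) (nat_lit 185) (nat_lit 1) (nat_lit 186) (nat_lit 1) (nat_lit 279) (nat_lit 405) (nat_lit 336)) (XT.nd (nat_lit 78) (nat_lit 152) (nat_lit 0) (XT.lf (nat_lit 0) (nat_lit 2809029869) (nat_lit 0) (nat_lit 19243312303) (nat_lit 152) (nat_lit 2809029869) (nat_lit 185) (nat_lit 3) (nat_lit 185) (nat_lit 1) (nat_lit 187) (nat_lit 1) (nat_lit 280) (nat_lit 405) (nat_lit 335)) (XT.lf (nat_lit 76) (nat_lit 11116952596) (nat_lit 0) (nat_lit 2212070711) (nat_lit 152) (nat_lit 11116952596) (nat_lit 184) (nat_lit 1) (nat_lit 183) (nat_lit 1) (nat_lit 185) (nat_lit 1) (nat_lit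 281) (nat_lit 405) (nat_lit 334))))) (XT.nd (nat_lit 234) (nat_lit 304) (nat_lit 0) (XT.nd (nat_lit 78) (nat_lit 152) (nat_lit 0) (XT.lf (nat_lit 152) (nat_lit 14423218672) (nat_lit 0) (nat_lit 4808509233) (nat_lit 76) (nat_lit 4808509233) (nat_lit 184) (nat_lit 1) (nat_lit 182) (nat_lit 1) (nat_lit 183) (nat_lit 1) (nat_lit 282) (nat_lit 405) (nat_lit 333)) (XT.nd (nat_lit 78) (nat_lit 152) (nat_lit 0) (XT.lf (nat_lit 0) (nat_lit 3374011698) (nat_lit 0) (nat_lit 16894536528) (nat_lit 152) (nat_lit 3374011698) (nat_lit 182) (nat_lit 3) (nat_lit 182) (nat_lit 1) (nat_lit 184) (nat_lit 1) (nat_lit 283) (nat_lit 405) (nat_lit 332)) (XT.lf (nat_lit 76) (nat_lit 11221356356) (nat_lit 0) (nat_lit 807479979) (nat_lit 152) (nat_lit 11221356356) (nat_lit 181) (nat_lit 1) (nat_lit 180) (nat_lit 1) (nat_lit 182) (nat_lit 1) (nat_lit 284) (nat_lit 405) (nat_lit 331)))) (XT.nd (nat_lit 156) (nat_lit 228) (nat_lit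 0) (XT.nd (nat_lit 78) (nat_lit 0) (nat_lit 0) (XT.lf (nat_lit 152) (nat_lit 14953825708) (nat_lit 0) (nat_lit 3955972446) (nat_lit 76) (nat_lit 3955972446) (nat_lit 181) (nat_lit 1) (nat_lit 179) (nat_lit 1) (nat_lit 180) (nat_lit 1) (nat_lit 285) (nat_lit 405) (nat_lit 330)) (XT.lf (nat_lit 0) (nat_lit 3788203843) (nat_lit 0) (nat_lit 14911573081) (nat_lit 152) (nat_lit 3788203843) (nat_lit 179) (nat_lit 3) (nat_lit 179) (nat_lit 1) (nat_lit 181) (nat_lit 1) (nat_lit 286) (nat_lit 405) (nat_lit 329))) (XT.nd (nat_lit 78) (nat_lit 152) (nat_lit 0) (XT.lf (nat_lit 76) (nat_lit 309786043) (nat_lit 0) (nat_lit 10903471032) (nat_lit 76) (nat_lit 10903471032) (nat_lit 179) (nat_lit 3) (nat_lit 178) (nat_lit 1) (nat_lit 179) (nat_lit 1) (nat_lit 287) (nat_lit 405) (nat_lit 328)) (XT.lf (nat_lit 152) (nat_lit 15243318953) (nat_lit 0) (nat_lit 3254588322) (nat_lit 76) (nat_lit 3254588322) (nat_lit 178)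 (nat_lit 1) (nat_lit 176) (nat_lit 1) (nat_lit 177) (nat_lit 1) (nat_lit 288) (nat_lit 405) (nat_lit 327))))))) (XT.nd (nat_lit 1014) (nat_lit 988) (nat_lit 0) (XT.nd (nat_lit 468) (nat_lit 456) (nat_lit 0) (XT.nd (nat_lit 234) (nat_lit 228) (nat_lit 0) (XT.nd (nat_lit 78) (nat_lit 228) (nat_lit 0) (XT.lf (nat_lit 0) (nat_lit 4080751410) (nat_lit 0) (nat_lit 13231974810) (nat_lit 152) (nat_lit 4080751410) (nat_lit 176) (nat_lit 3) (nat_lit 176) (nat_lit 1) (nat_lit 178) (nat_lit 1) (nat_lit 289) (nat_lit 405) (nat_lit 326)) (XT.nd (nat_lit 78) (nat_lit 152) (nat_lit 0) (XT.lf (nat_lit 76) (nat_lit 1203497078) (nat_lit 0) (nat_lit 9918947936) (nat_lit 76) (nat_lit 9918947936) (nat_lit 176) (nat_lit 3) (nat_lit 175) (nat_lit 1) (nat_lit 176) (nat_lit 1) (nat_lit 290) (nat_lit 405) (nat_lit 325)) (XT.lf (nat_lit 152) (nat_lit 15341449118) (nat_lit 0) (nat_lit 2677557867) (nat_lit 76) (nat_lit 2677557867)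 (nat_lit 175) (nat_lit 1) (nat_lit 173) (nat_lit 1) (nat_lit 174) (nat_lit 1) (nat_lit 291) (nat_lit 405) (nat_lit 324)))) (XT.nd (nat_lit 78) (nat_lit 228) (nat_lit 0) (XT.lf (nat_lit 0) (nat_lit 4275517363) (nat_lit 0) (nat_lit 11804251502) (nat_lit 152) (nat_lit 4275517363) (nat_lit 173) (nat_lit 3) (nat_lit 173) (nat_lit 1) (nat_lit 175) (nat_lit 1) (nat_lit 292) (nat_lit 405) (nat_lit 323)) (XT.nd (nat_lit 78) (nat_lit 152) (nat_lit 0) (XT.lf (nat_lit 76) (nat_lit 1893582248) (nat_lit 0) (nat_lit 9063805237) (nat_lit 76) (nat_lit 9063805237) (nat_lit 173) (nat_lit 3) (nat_lit 172) (nat_lit 1) (nat_lit 173) (nat_lit 1) (nat_lit 293) (nat_lit 405) (nat_lit 322)) (XT.lf (nat_lit 152) (nat_lit 15288812814) (nat_lit 0) (nat_lit 2202833483) (nat_lit 76) (nat_lit 2202833483) (nat_lit 172) (nat_lit 1) (nat_lit 170) (nat_lit 1) (nat_lit 171) (nat_lit 1) (nat_lit 294) (nat_lit 405) (nat_lit 321)))))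 (XT.nd (nat_lit 234) (nat_lit 228) (nat_lit 0) (XT.nd (nat_lit 78) (nat_lit 228) (nat_lit 0) (XT.lf (nat_lit 0) (nat_lit 4392024505) (nat_lit 0) (nat_lit 10585932713) (nat_lit 152) (nat_lit 4392024505) (nat_lit 170) (nat_lit 3) (nat_lit 170) (nat_lit 1) (nat_lit 172) (nat_lit 1) (nat_lit 295) (nat_lit 405) (nat_lit 320)) (XT.nd (nat_lit 78) (nat_lit 152) (nat_lit 0) (XT.lf (nat_lit 76) (nat_lit 2418295014) (nat_lit 0) (nat_lit 8317255212) (nat_lit 76) (nat_lit 8317255212) (nat_lit 170) (nat_lit 3) (nat_lit 169) (nat_lit 1) (nat_lit 170) (nat_lit 1) (nat_lit 296) (nat_lit 405) (nat_lit 319)) (XT.lf (nat_lit 152) (nat_lit 15118491432) (nat_lit 0) (nat_lit 1812276558) (nat_lit 76) (nat_lit 1812276558) (nat_lit 169) (nat_lit 1) (nat_lit 167) (nat_lit 1) (nat_lit 168) (nat_lit 1) (nat_lit 297) (nat_lit 405) (nat_lit 318)))) (XT.nd (nat_lit 156) (nat_lit 152) (nat_lit 0) (XT.nd (nat_lit 78) (nat_lit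 76) (nat_lit 0) (XT.lf (nat_lit 0) (nat_lit 4446230181) (nat_lit 0) (nat_lit 9541973793) (nat_lit 152) (nat_lit 4446230181) (nat_lit 167) (nat_lit 3) (nat_lit 167) (nat_lit 1) (nat_lit 169) (nat_lit 1) (nat_lit 298) (nat_lit 405) (nat_lit 317)) (XT.lf (nat_lit 76) (nat_lit 2809004161) (nat_lit 0) (nat_lit 7662093315) (nat_lit 76) (nat_lit 7662093315) (nat_lit 167) (nat_lit 3) (nat_lit 166) (nat_lit 1) (nat_lit 167) (nat_lit 1) (nat_lit 299) (nat_lit 405) (nat_lit 316))) (XT.nd (nat_lit 78) (nat_lit 0) (nat_lit 0) (XT.lf (nat_lit 152) (nat_lit 14857398691) (nat_lit 0) (nat_lit 1490964409) (nat_lit 76) (nat_lit 1490964409) (nat_lit 166) (nat_lit 1) (nat_lit 164) (nat_lit 1) (nat_lit 165) (nat_lit 1) (nat_lit 300) (nat_lit 405) (nat_lit 315)) (XT.lf (nat_lit 0) (nat_lit 4451163385) (nat_lit 0) (nat_lit 8643444265) (nat_lit 152) (nat_lit 4451163385) (nat_lit 164) (nat_lit 3) (nat_lit 164) (nat_lit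 1) (nat_lit 166) (nat_lit 1) (nat_lit 301) (nat_lit 405) (nat_lit 314)))))) (XT.nd (nat_lit 468) (nat_lit 532) (nat_lit 0) (XT.nd (nat_lit 234) (nat_lit 228) (nat_lit 0) (XT.nd (nat_lit 78) (nat_lit 152) (nat_lit 0) (XT.lf (nat_lit 76) (nat_lit 3091419312) (nat_lit 0) (nat_lit 7084067769) (nat_lit 76) (nat_lit 7084067769) (nat_lit 164) (nat_lit 3) (nat_lit 163) (nat_lit 1) (nat_lit 164) (nat_lit 1) (nat_lit 302) (nat_lit 405) (nat_lit 313)) (XT.nd (nat_lit 78) (nat_lit 0) (nat_lit 0) (XT.lf (nat_lit 152) (nat_lit 14527388553) (nat_lit 0) (nat_lit 1226620109) (nat_lit 76) (nat_lit 1226620109) (nat_lit 163) (nat_lit 1) (nat_lit 161) (nat_lit 1) (nat_lit 162) (nat_lit 1) (nat_lit 303) (nat_lit 405) (nat_lit 312)) (XT.lf (nat_lit 0) (nat_lit 4417448667) (nat_lit 0) (nat_lit 7866448522) (nat_lit 152) (nat_lit 4417448667) (nat_lit 161) (nat_lit 3) (nat_lit 161) (nat_lit 1) (nat_lit 163) (nat_lit 1) (nat_lit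 304) (nat_lit 405) (nat_lit 311)))) (XT.nd (nat_lit 78) (nat_lit 152) (nat_lit 0) (XT.lf (nat_lit 76) (nat_lit 3286598925) (nat_lit 0) (nat_lit 6571360692) (nat_lit 76) (nat_lit 6571360692) (nat_lit 161) (nat_lit 3) (nat_lit 160) (nat_lit 1) (nat_lit 161) (nat_lit 1) (nat_lit 305) (nat_lit 405) (nat_lit 310)) (XT.nd (nat_lit 78) (nat_lit 0) (nat_lit 0) (XT.lf (nat_lit 152) (nat_lit 14146166020) (nat_lit 0) (nat_lit 1009143399) (nat_lit 76) (nat_lit 1009143399) (nat_lit 160) (nat_lit 1) (nat_lit 158) (nat_lit 1) (nat_lit 159) (nat_lit 1) (nat_lit 306) (nat_lit 405) (nat_lit 309)) (XT.lf (nat_lit 0) (nat_lit 4353736936) (nat_lit 0) (nat_lit 7191237652) (nat_lit 152) (nat_lit 4353736936) (nat_lit 158) (nat_lit 3) (nat_lit 158) (nat_lit 1) (nat_lit 160) (nat_lit 1) (nat_lit 307) (nat_lit 405) (nat_lit 308))))) (XT.nd (nat_lit 234) (nat_lit 304) (nat_lit 0) (XT.nd (nat_lit 78) (nat_lit 152) (nat_lit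 0) (XT.lf (nat_lit 76) (nat_lit 3411779361) (nat_lit 0) (nat_lit 6114160996) (nat_lit 76) (nat_lit 6114160996) (nat_lit 158) (nat_lit 3) (nat_lit 157) (nat_lit 1) (nat_lit 158) (nat_lit 1) (nat_lit 308) (nat_lit 405) (nat_lit 307)) (XT.nd (nat_lit 78) (nat_lit 0) (nat_lit 0) (XT.lf (nat_lit 152) (nat_lit 13728035799) (nat_lit 0) (nat_lit 830224772) (nat_lit 76) (nat_lit 830224772) (nat_lit 157) (nat_lit 1) (nat_lit 155) (nat_lit 1) (nat_lit 156) (nat_lit 1) (nat_lit 309) (nat_lit 405) (nat_lit 306)) (XT.lf (nat_lit 0) (nat_lit 4267059662) (nat_lit 0) (nat_lit 6601478523) (nat_lit 152) (nat_lit 4267059662) (nat_lit 155) (nat_lit 3) (nat_lit 155) (nat_lit 1) (nat_lit 157) (nat_lit 1) (nat_lit 310) (nat_lit 405) (nat_lit 305)))) (XT.nd (nat_lit 156) (nat_lit 76) (nat_lit 0) (XT.nd (nat_lit 78) (nat_lit 152) (nat_lit 0) (XT.lf (nat_lit 76) (nat_lit 3481056745) (nat_lit 0) (nat_lit 5704312804) (nat_lit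 76) (nat_lit 5704312804) (nat_lit 155) (nat_lit 3) (nat_lit 154) (nat_lit 1) (nat_lit 155) (nat_lit 1) (nat_lit 311) (nat_lit 405) (nat_lit 304)) (XT.lf (nat_lit 152) (nat_lit 13284517602) (nat_lit 0) (nat_lit 683027974) (nat_lit 76) (nat_lit 683027974) (nat_lit 154) (nat_lit 1) (nat_lit 152) (nat_lit 1) (nat_lit 153) (nat_lit 1) (nat_lit 312) (nat_lit 405) (nat_lit 303))) (XT.nd (nat_lit 78) (nat_lit 76) (nat_lit 0) (XT.lf (nat_lit 0) (nat_lit 4163120077) (nat_lit 0) (nat_lit 6083652251) (nat_lit 152) (nat_lit 4163120077) (nat_lit 152) (nat_lit 3) (nat_lit 152) (nat_lit 1) (nat_lit 154) (nat_lit 1) (nat_lit 313) (nat_lit 405) (nat_lit 302)) (XT.lf (nat_lit 76) (nat_lit 3505947733) (nat_lit 0) (nat_lit 5335025995) (nat_lit 76) (nat_lit 5335025995) (nat_lit 152) (nat_lit 3) (nat_lit 151) (nat_lit 1) (nat_lit 152) (nat_lit 1) (nat_lit 314) (nat_lit 405) (nat_lit 301))))))))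
noncomputable def ec280 : XT := (XT.nd (nat_lit 1950) (nat_lit 1824) (nat_lit 0) (XT.nd (nat_lit 936) (nat_lit 1064) (nat_lit 0) (XT.nd (nat_lit 468) (nat_lit 456) (nat_lit 0) (XT.nd (nat_lit 234) (nat_lit 228) (nat_lit 0) (XT.nd (nat_lit 78) (nat_lit 76) (nat_lit 0) (XT.lf (nat_lit 152) (nat_lit 12824851771) (nat_lit 0) (nat_lit 561928805) (nat_lit 76) (nat_lit 561928805) (nat_lit 151) (nat_lit 1) (nat_lit 149) (nat_lit 1) (nat_lit 150) (nat_lit 1) (nat_lit 315) (nat_lit 405) (nat_lit 300)) (XT.nd (nat_lit 78) (nat_lit 76) (nat_lit 0) (XT.lf (nat_lit 0) (nat_lit 4046532555) (nat_lit 0) (nat_lit 5626559128) (nat_lit 152) (nat_lit 4046532555) (nat_lit 149) (nat_lit 3) (nat_lit 149) (nat_lit 1) (nat_lit 151) (nat_lit 1) (nat_lit 316) (nat_lit 405) (nat_lit 299)) (XT.lf (nat_lit 76) (nat_lit 3495850671) (nat_lit 0) (nat_lit 5000637883) (nat_lit 76) (nat_lit 5000637883) (nat_lit 149) (nat_lit 3) (nat_lit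 148) (nat_lit 1) (nat_lit 149) (nat_lit 1) (nat_lit 317) (nat_lit 405) (nat_lit 298)))) (XT.nd (nat_lit 78) (nat_lit 76) (nat_lit 0) (XT.lf (nat_lit 152) (nat_lit 12356414684) (nat_lit 0) (nat_lit 462300218) (nat_lit 76) (nat_lit 462300218) (nat_lit 148) (nat_lit 1) (nat_lit 146) (nat_lit 1) (nat_lit 147) (nat_lit 1) (nat_lit 318) (nat_lit 405) (nat_lit 297)) (XT.nd (nat_lit 78) (nat_lit 76) (nat_lit 0) (XT.lf (nat_lit 0) (nat_lit 3921019362) (nat_lit 0) (nat_lit 5220911133) (nat_lit 152) (nat_lit 3921019362) (nat_lit 146) (nat_lit 3) (nat_lit 146) (nat_lit 1) (nat_lit 148) (nat_lit 1) (nat_lit 319) (nat_lit 405) (nat_lit 296)) (XT.lf (nat_lit 76) (nat_lit 3458424803) (nat_lit 0) (nat_lit 4696416966) (nat_lit 76) (nat_lit 4696416966) (nat_lit 146) (nat_lit 3) (nat_lit 145) (nat_lit 1) (nat_lit 146) (nat_lit 1) (nat_lit 320) (nat_lit 405) (nat_lit 295))))) (XT.nd (nat_lit 234) (nat_lit 228) (nat_lit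 0) (XT.nd (nat_lit 78) (nat_lit 76) (nat_lit 0) (XT.lf (nat_lit 152) (nat_lit 11885059981) (nat_lit 0) (nat_lit 380335534) (nat_lit 76) (nat_lit 380335534) (nat_lit 145) (nat_lit 1) (nat_lit 143) (nat_lit 1) (nat_lit 144) (nat_lit 1) (nat_lit 321) (nat_lit 405) (nat_lit 294)) (XT.nd (nat_lit 78) (nat_lit 76) (nat_lit 0) (XT.lf (nat_lit 0) (nat_lit 3789572346) (nat_lit 0) (nat_lit 4858996524) (nat_lit 152) (nat_lit 3789572346) (nat_lit 143) (nat_lit 3) (nat_lit 143) (nat_lit 1) (nat_lit 145) (nat_lit 1) (nat_lit 322) (nat_lit 405) (nat_lit 293)) (XT.lf (nat_lit 76) (nat_lit 3399902077) (nat_lit 0) (nat_lit 4418401294) (nat_lit 76) (nat_lit 4418401294) (nat_lit 143) (nat_lit 3) (nat_lit 142) (nat_lit 1) (nat_lit 143) (nat_lit 1) (nat_lit 323) (nat_lit 405) (nat_lit 292)))) (XT.nd (nat_lit 78) (nat_lit 76) (nat_lit 0) (XT.lf (nat_lit 152) (nat_lit 11415398775) (nat_lit 0) (nat_lit 312902985) (nat_lit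 76) (nat_lit 312902985) (nat_lit 142) (nat_lit 1) (nat_lit 140) (nat_lit 1) (nat_lit 141) (nat_lit 1) (nat_lit 324) (nat_lit 405) (nat_lit 291)) (XT.nd (nat_lit 78) (nat_lit 76) (nat_lit 0) (XT.lf (nat_lit 0) (nat_lit 3654585798) (nat_lit 0) (nat_lit 4534403716) (nat_lit 152) (nat_lit 3654585798) (nat_lit 140) (nat_lit 3) (nat_lit 140) (nat_lit 1) (nat_lit 142) (nat_lit 1) (nat_lit 325) (nat_lit 405) (nat_lit 290)) (XT.lf (nat_lit 76) (nat_lit 3325343503) (nat_lit 0) (nat_lit 4163265329) (nat_lit 76) (nat_lit 4163265329) (nat_lit 140) (nat_lit 3) (nat_lit 139) (nat_lit 1) (nat_lit 140) (nat_lit 1) (nat_lit 326) (nat_lit 405) (nat_lit 289)))))) (XT.nd (nat_lit 468) (nat_lit 608) (nat_lit 0) (XT.nd (nat_lit 234) (nat_lit 228) (nat_lit 0) (XT.nd (nat_lit 78) (nat_lit 76) (nat_lit 0) (XT.lf (nat_lit 152) (nat_lit 10951029695) (nat_lit 0) (nat_lit 257426060) (nat_lit 76) (nat_lit 257426060) (nat_lit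 139) (nat_lit 1) (nat_lit 137) (nat_lit 1) (nat_lit 138) (nat_lit 1) (nat_lit 327) (nat_lit 405) (nat_lit 288)) (XT.nd (nat_lit 78) (nat_lit 76) (nat_lit 0) (XT.lf (nat_lit 0) (nat_lit 3517965591) (nat_lit 0) (nat_lit 4241793969) (nat_lit 152) (nat_lit 3517965591) (nat_lit 137) (nat_lit 3) (nat_lit 137) (nat_lit 1) (nat_lit 139) (nat_lit 1) (nat_lit 328) (nat_lit 405) (nat_lit 287)) (XT.lf (nat_lit 76) (nat_lit 3238849901) (nat_lit 0) (nat_lit 3928210261) (nat_lit 76) (nat_lit 3928210261) (nat_lit 137) (nat_lit 3) (nat_lit 136) (nat_lit 1) (nat_lit 137) (nat_lit 1) (nat_lit 329) (nat_lit 405) (nat_lit 286)))) (XT.nd (nat_lit 78) (nat_lit 76) (nat_lit 0) (XT.lf (nat_lit 152) (nat_lit 10494727681) (nat_lit 0) (nat_lit 211785056) (nat_lit 76) (nat_lit 211785056) (nat_lit 136) (nat_lit 1) (nat_lit 134) (nat_lit 1) (nat_lit 135) (nat_lit 1) (nat_lit 330) (nat_lit 405) (nat_lit 285)) (XT.nd (nat_lit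 78) (nat_lit 76) (nat_lit 0) (XT.lf (nat_lit 0) (nat_lit 3381218817) (nat_lit 0) (nat_lit 3976714215) (nat_lit 152) (nat_lit 3381218817) (nat_lit 134) (nat_lit 3) (nat_lit 134) (nat_lit 1) (nat_lit 136) (nat_lit 1) (nat_lit 331) (nat_lit 405) (nat_lit 284)) (XT.lf (nat_lit 76) (nat_lit 3143735135) (nat_lit 0) (nat_lit 3710873609) (nat_lit 76) (nat_lit 3710873609) (nat_lit 134) (nat_lit 3) (nat_lit 133) (nat_lit 1) (nat_lit 134) (nat_lit 1) (nat_lit 332) (nat_lit 405) (nat_lit 283))))) (XT.nd (nat_lit 234) (nat_lit 380) (nat_lit 0) (XT.nd (nat_lit 78) (nat_lit 76) (nat_lit 0) (XT.lf (nat_lit 152) (nat_lit 10048598864) (nat_lit 0) (nat_lit 174236090) (nat_lit 76) (nat_lit 174236090) (nat_lit 133) (nat_lit 1) (nat_lit 131) (nat_lit 1) (nat_lit 132) (nat_lit 1) (nat_lit 333) (nat_lit 405) (nat_lit 282)) (XT.nd (nat_lit 78) (nat_lit 76) (nat_lit 0) (XT.lf (nat_lit 0) (nat_lit 3245527393) (nat_lit 0)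 (nat_lit 3735442931) (nat_lit 152) (nat_lit 3245527393) (nat_lit 131) (nat_lit 3) (nat_lit 131) (nat_lit 1) (nat_lit 133) (nat_lit 1) (nat_lit 334) (nat_lit 405) (nat_lit 281)) (XT.lf (nat_lit 76) (nat_lit 3042668491) (nat_lit 0) (nat_lit 3509254718) (nat_lit 76) (nat_lit 3509254718) (nat_lit 131) (nat_lit 3) (nat_lit 130) (nat_lit 1) (nat_lit 131) (nat_lit 1) (nat_lit 335) (nat_lit 405) (nat_lit 280)))) (XT.nd (nat_lit 156) (nat_lit 228) (nat_lit 0) (XT.nd (nat_lit 78) (nat_lit 0) (nat_lit 0) (XT.lf (nat_lit 152) (nat_lit 9614207561) (nat_lit 0) (nat_lit 143344462) (nat_lit 76) (nat_lit 143344462) (nat_lit 130) (nat_lit 1) (nat_lit 128) (nat_lit 1) (nat_lit 129) (nat_lit 1) (nat_lit 336) (nat_lit 405) (nat_lit 279)) (XT.lf (nat_lit 0) (nat_lit 3111808470) (nat_lit 0) (nat_lit 3514863195) (nat_lit 152) (nat_lit 3111808470) (nat_lit 128) (nat_lit 3) (nat_lit 128) (nat_lit 1) (nat_lit 130) (nat_lit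 1) (nat_lit 337) (nat_lit 405) (nat_lit 278))) (XT.nd (nat_lit 78) (nat_lit 152) (nat_lit 0) (XT.lf (nat_lit 76) (nat_lit 2937791674) (nat_lit 0) (nat_lit 3321653317) (nat_lit 76) (nat_lit 3321653317) (nat_lit 128) (nat_lit 3) (nat_lit 127) (nat_lit 1) (nat_lit 128) (nat_lit 1) (nat_lit 338) (nat_lit 405) (nat_lit 277)) (XT.lf (nat_lit 152) (nat_lit 9192680361) (nat_lit 0) (nat_lit 117929844) (nat_lit 76) (nat_lit 117929844) (nat_lit 127) (nat_lit 1) (nat_lit 125) (nat_lit 1) (nat_lit 126) (nat_lit 1) (nat_lit 339) (nat_lit 405) (nat_lit 276))))))) (XT.nd (nat_lit 936) (nat_lit 912) (nat_lit 0) (XT.nd (nat_lit 468) (nat_lit 456) (nat_lit 0) (XT.nd (nat_lit 234) (nat_lit 228) (nat_lit 0) (XT.nd (nat_lit 78) (nat_lit 228) (nat_lit 0) (XT.lf (nat_lit 0) (nat_lit 2980764007) (nat_lit 0) (nat_lit 3312358127) (nat_lit 152) (nat_lit 2980764007) (nat_lit 125) (nat_lit 3) (nat_lit 125) (nat_lit 1) (nat_lit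 127) (nat_lit 1) (nat_lit 340) (nat_lit 405) (nat_lit 275)) (XT.nd (nat_lit 78) (nat_lit 152) (nat_lit 0) (XT.lf (nat_lit 76) (nat_lit 2830814935) (nat_lit 0) (nat_lit 3146618859) (nat_lit 76) (nat_lit 3146618859) (nat_lit 125) (nat_lit 3) (nat_lit 124) (nat_lit 1) (nat_lit 125) (nat_lit 1) (nat_lit 341) (nat_lit 405) (nat_lit 274)) (XT.lf (nat_lit 152) (nat_lit 8784791366) (nat_lit 0) (nat_lit 97021174) (nat_lit 76) (nat_lit 97021174) (nat_lit 124) (nat_lit 1) (nat_lit 122) (nat_lit 1) (nat_lit 123) (nat_lit 1) (nat_lit 342) (nat_lit 405) (nat_lit 273)))) (XT.nd (nat_lit 78) (nat_lit 228) (nat_lit 0) (XT.lf (nat_lit 0) (nat_lit 2852921428) (nat_lit 0) (nat_lit 3125724731) (nat_lit 152) (nat_lit 2852921428) (nat_lit 122) (nat_lit 3) (nat_lit 122) (nat_lit 1) (nat_lit 124) (nat_lit 1) (nat_lit 343) (nat_lit 405) (nat_lit 272)) (XT.nd (nat_lit 78) (nat_lit 152) (nat_lit 0) (XT.lf (nat_lit 76) (nat_lit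 2723096028) (nat_lit 0) (nat_lit 2982908697) (nat_lit 76) (nat_lit 2982908697) (nat_lit 122) (nat_lit 3) (nat_lit 121) (nat_lit 1) (nat_lit 122) (nat_lit 1) (nat_lit 344) (nat_lit 405) (nat_lit 271)) (XT.lf (nat_lit 152) (nat_lit 8391031962) (nat_lit 0) (nat_lit 79819560) (nat_lit 76) (nat_lit 79819560) (nat_lit 121) (nat_lit 1) (nat_lit 119) (nat_lit 1) (nat_lit 120) (nat_lit 1) (nat_lit 345) (nat_lit 405) (nat_lit 270))))) (XT.nd (nat_lit 234) (nat_lit 228) (nat_lit 0) (XT.nd (nat_lit 78) (nat_lit 228) (nat_lit 0) (XT.lf (nat_lit 0) (nat_lit 2728666950) (nat_lit 0) (nat_lit 2953102903) (nat_lit 152) (nat_lit 2728666950) (nat_lit 119) (nat_lit 3) (nat_lit 119) (nat_lit 1) (nat_lit 121) (nat_lit 1) (nat_lit 346) (nat_lit 405) (nat_lit 269)) (XT.nd (nat_lit 78) (nat_lit 152) (nat_lit 0) (XT.lf (nat_lit 76) (nat_lit 2615705056) (nat_lit 0) (nat_lit 2829453582) (nat_lit 76) (nat_lit 2829453582) (nat_lit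 119) (nat_lit 3) (nat_lit 118) (nat_lit 1) (nat_lit 119) (nat_lit 1) (nat_lit 347) (nat_lit 405) (nat_lit 268)) (XT.lf (nat_lit 152) (nat_lit 8011667871) (nat_lit 0) (nat_lit 65667750) (nat_lit 76) (nat_lit 65667750) (nat_lit 118) (nat_lit 1) (nat_lit 116) (nat_lit 1) (nat_lit 117) (nat_lit 1) (nat_lit 348) (nat_lit 405) (nat_lit 267)))) (XT.nd (nat_lit 78) (nat_lit 228) (nat_lit 0) (XT.lf (nat_lit 0) (nat_lit 2608272892) (nat_lit 0) (nat_lit 2792916906) (nat_lit 152) (nat_lit 2608272892) (nat_lit 116) (nat_lit 3) (nat_lit 116) (nat_lit 1) (nat_lit 118) (nat_lit 1) (nat_lit 349) (nat_lit 405) (nat_lit 266)) (XT.nd (nat_lit 78) (nat_lit 152) (nat_lit 0) (XT.lf (nat_lit 76) (nat_lit 2509477703) (nat_lit 0) (nat_lit 2685329144) (nat_lit 76) (nat_lit 2685329144) (nat_lit 116) (nat_lit 3) (nat_lit 115) (nat_lit 1) (nat_lit 116) (nat_lit 1) (nat_lit 350) (nat_lit 405) (nat_lit 265)) (XT.lf (nat_lit 152)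 (nat_lit 7646785756) (nat_lit 0) (nat_lit 54025020) (nat_lit 76) (nat_lit 54025020) (nat_lit 115) (nat_lit 1) (nat_lit 113) (nat_lit 1) (nat_lit 114) (nat_lit 1) (nat_lit 351) (nat_lit 405) (nat_lit 264)))))) (XT.nd (nat_lit 468) (nat_lit 456) (nat_lit 0) (XT.nd (nat_lit 234) (nat_lit 228) (nat_lit 0) (XT.nd (nat_lit 78) (nat_lit 228) (nat_lit 0) (XT.lf (nat_lit 0) (nat_lit 2491920029) (nat_lit 0) (nat_lit 2643827116) (nat_lit 152) (nat_lit 2491920029) (nat_lit 113) (nat_lit 3) (nat_lit 113) (nat_lit 1) (nat_lit 115) (nat_lit 1) (nat_lit 352) (nat_lit 405) (nat_lit 263)) (XT.nd (nat_lit 78) (nat_lit 152) (nat_lit 0) (XT.lf (nat_lit 76) (nat_lit 2405058927) (nat_lit 0) (nat_lit 2549732343) (nat_lit 76) (nat_lit 2549732343) (nat_lit 113) (nat_lit 3) (nat_lit 112) (nat_lit 1) (nat_lit 113) (nat_lit 1) (nat_lit 353) (nat_lit 405) (nat_lit 262)) (XT.lf (nat_lit 152) (nat_lit 7296331252) (nat_lit 0)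 (nat_lit 44446518) (nat_lit 76) (nat_lit 44446518) (nat_lit 112) (nat_lit 1) (nat_lit 110) (nat_lit 1) (nat_lit 111) (nat_lit 1) (nat_lit 354) (nat_lit 405) (nat_lit 261)))) (XT.nd (nat_lit 78) (nat_lit 228) (nat_lit 0) (XT.lf (nat_lit 0) (nat_lit 2379715885) (nat_lit 0) (nat_lit 2504690222) (nat_lit 152) (nat_lit 2379715885) (nat_lit 110) (nat_lit 3) (nat_lit 110) (nat_lit 1) (nat_lit 112) (nat_lit 1) (nat_lit 355) (nat_lit 405) (nat_lit 260)) (XT.nd (nat_lit 78) (nat_lit 152) (nat_lit 0) (XT.lf (nat_lit 76) (nat_lit 2302938797) (nat_lit 0) (nat_lit 2421961975) (nat_lit 76) (nat_lit 2421961975) (nat_lit 110) (nat_lit 3) (nat_lit 109) (nat_lit 1) (nat_lit 110) (nat_lit 1) (nat_lit 356) (nat_lit 405) (nat_lit 259)) (XT.lf (nat_lit 152) (nat_lit 6960139955) (nat_lit 0) (nat_lit 36566260) (nat_lit 76) (nat_lit 36566260) (nat_lit 109) (nat_lit 1) (nat_lit 107) (nat_lit 1) (nat_lit 108) (nat_lit 1)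 (nat_lit 357) (nat_lit 405) (nat_lit 258))))) (XT.nd (nat_lit 234) (nat_lit 228) (nat_lit 0) (XT.nd (nat_lit 78) (nat_lit 228) (nat_lit 0) (XT.lf (nat_lit 0) (nat_lit 2271709682) (nat_lit 0) (nat_lit 2374526377) (nat_lit 152) (nat_lit 2271709682) (nat_lit 107) (nat_lit 3) (nat_lit 107) (nat_lit 1) (nat_lit 109) (nat_lit 1) (nat_lit 358) (nat_lit 405) (nat_lit 257)) (XT.nd (nat_lit 78) (nat_lit 152) (nat_lit 0) (XT.lf (nat_lit 76) (nat_lit 2203481892) (nat_lit 0) (nat_lit 2301402555) (nat_lit 76) (nat_lit 2301402555) (nat_lit 107) (nat_lit 3) (nat_lit 106) (nat_lit 1) (nat_lit 107) (nat_lit 1) (nat_lit 359) (nat_lit 405) (nat_lit 256)) (XT.lf (nat_lit 152) (nat_lit 6637962631) (nat_lit 0) (nat_lit 30083152) (nat_lit 76) (nat_lit 30083152) (nat_lit 106) (nat_lit 1) (nat_lit 104) (nat_lit 1) (nat_lit 105) (nat_lit 1) (nat_lit 360) (nat_lit 405) (nat_lit 255)))) (XT.nd (nat_lit 156) (nat_lit 152) (nat_lit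 0) (XT.nd (nat_lit 78) (nat_lit 76) (nat_lit 0) (XT.lf (nat_lit 0) (nat_lit 2167904542) (nat_lit 0) (nat_lit 2252492092) (nat_lit 152) (nat_lit 2167904542) (nat_lit 104) (nat_lit 3) (nat_lit 104) (nat_lit 1) (nat_lit 106) (nat_lit 1) (nat_lit 361) (nat_lit 405) (nat_lit 254)) (XT.lf (nat_lit 76) (nat_lit 2106951382) (nat_lit 0) (nat_lit 2187510953) (nat_lit 76) (nat_lit 2187510953) (nat_lit 104) (nat_lit 3) (nat_lit 103) (nat_lit 1) (nat_lit 104) (nat_lit 1) (nat_lit 362) (nat_lit 405) (nat_lit 253))) (XT.nd (nat_lit 78) (nat_lit 0) (nat_lit 0) (XT.lf (nat_lit 152) (nat_lit 6329485679) (nat_lit 0) (nat_lit 24749484) (nat_lit 76) (nat_lit 24749484) (nat_lit 103) (nat_lit 1) (nat_lit 101) (nat_lit 1) (nat_lit 102) (nat_lit 1) (nat_lit 363) (nat_lit 405) (nat_lit 252)) (XT.lf (nat_lit 0) (nat_lit 2068267447) (nat_lit 0) (nat_lit 2137857834) (nat_lit 152) (nat_lit 2068267447) (nat_lit 101) (nat_lit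 3) (nat_lit 101) (nat_lit 1) (nat_lit 103) (nat_lit 1) (nat_lit 364) (nat_lit 405) (nat_lit 251))))))))
noncomputable def ec281 : XT := (XT.nd (nat_lit 1950) (nat_lit 1976) (nat_lit 0) (XT.nd (nat_lit 936) (nat_lit 988) (nat_lit 0) (XT.nd (nat_lit 468) (nat_lit 456) (nat_lit 0) (XT.nd (nat_lit 234) (nat_lit 228) (nat_lit 0) (XT.nd (nat_lit 78) (nat_lit 152) (nat_lit 0) (XT.lf (nat_lit 76) (nat_lit 2013528759) (nat_lit 0) (nat_lit 2079805318) (nat_lit 76) (nat_lit 2079805318) (nat_lit 101) (nat_lit 3) (nat_lit 100) (nat_lit 1) (nat_lit 101) (nat_lit 1) (nat_lit 365) (nat_lit 405) (nat_lit 250)) (XT.nd (nat_lit 78) (nat_lit 0) (nat_lit 0) (XT.lf (nat_lit 152) (nat_lit 6034347717) (nat_lit 0) (nat_lit 20361462) (nat_lit 76) (nat_lit 20361462) (nat_lit 100) (nat_lit 1) (nat_lit 98) (nat_lit 1) (nat_lit 99) (nat_lit 1) (nat_lit 366) (nat_lit 405) (nat_lit 249)) (XT.lf (nat_lit 0) (nat_lit 1972737332)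 (nat_lit 0) (nat_lit 2029989516) (nat_lit 152) (nat_lit 1972737332) (nat_lit 98) (nat_lit 3) (nat_lit 98) (nat_lit 1) (nat_lit 100) (nat_lit 1) (nat_lit 367) (nat_lit 405) (nat_lit 248)))) (XT.nd (nat_lit 78) (nat_lit 152) (nat_lit 0) (XT.lf (nat_lit 76) (nat_lit 1923329992) (nat_lit 0) (nat_lit 1977855881) (nat_lit 76) (nat_lit 1977855881) (nat_lit 98) (nat_lit 3) (nat_lit 97) (nat_lit 1) (nat_lit 98) (nat_lit 1) (nat_lit 368) (nat_lit 405) (nat_lit 247)) (XT.nd (nat_lit 78) (nat_lit 0) (nat_lit 0) (XT.lf (nat_lit 152) (nat_lit 5752152977) (nat_lit 0) (nat_lit 16751425) (nat_lit 76) (nat_lit 16751425) (nat_lit 97) (nat_lit 1) (nat_lit 95) (nat_lit 1) (nat_lit 96) (nat_lit 1) (nat_lit 369) (nat_lit 405) (nat_lit 246)) (XT.lf (nat_lit 0) (nat_lit 1881231681) (nat_lit 0) (nat_lit 1928333194) (nat_lit 152) (nat_lit 1881231681) (nat_lit 95) (nat_lit 3) (nat_lit 95) (nat_lit 1) (nat_lit 97) (nat_lit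 1) (nat_lit 370) (nat_lit 405) (nat_lit 245))))) (XT.nd (nat_lit 234) (nat_lit 228) (nat_lit 0) (XT.nd (nat_lit 78) (nat_lit 152) (nat_lit 0) (XT.lf (nat_lit 76) (nat_lit 1836418724) (nat_lit 0) (nat_lit 1881277307) (nat_lit 76) (nat_lit 1881277307) (nat_lit 95) (nat_lit 3) (nat_lit 94) (nat_lit 1) (nat_lit 95) (nat_lit 1) (nat_lit 371) (nat_lit 405) (nat_lit 244)) (XT.nd (nat_lit 78) (nat_lit 0) (nat_lit 0) (XT.lf (nat_lit 152) (nat_lit 5482482087) (nat_lit 0) (nat_lit 13781438) (nat_lit 76) (nat_lit 13781438) (nat_lit 94) (nat_lit 1) (nat_lit 92) (nat_lit 1) (nat_lit 93) (nat_lit 1) (nat_lit 372) (nat_lit 405) (nat_lit 243)) (XT.lf (nat_lit 0) (nat_lit 1793651860) (nat_lit 0) (nat_lit 1832402391) (nat_lit 152) (nat_lit 1793651860) (nat_lit 92) (nat_lit 3) (nat_lit 92) (nat_lit 1) (nat_lit 94) (nat_lit 1) (nat_lit 373) (nat_lit 405) (nat_lit 242)))) (XT.nd (nat_lit 78) (nat_lit 152) (nat_lit 0)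 (XT.lf (nat_lit 76) (nat_lit 1752817066) (nat_lit 0) (nat_lit 1789722334) (nat_lit 76) (nat_lit 1789722334) (nat_lit 92) (nat_lit 3) (nat_lit 91) (nat_lit 1) (nat_lit 92) (nat_lit 1) (nat_lit 374) (nat_lit 405) (nat_lit 241)) (XT.nd (nat_lit 78) (nat_lit 0) (nat_lit 0) (XT.lf (nat_lit 152) (nat_lit 5224900720) (nat_lit 0) (nat_lit 11338023) (nat_lit 76) (nat_lit 11338023) (nat_lit 91) (nat_lit 1) (nat_lit 89) (nat_lit 1) (nat_lit 90) (nat_lit 1) (nat_lit 375) (nat_lit 405) (nat_lit 240)) (XT.lf (nat_lit 0) (nat_lit 1709887444) (nat_lit 0) (nat_lit 1741767602) (nat_lit 152) (nat_lit 1709887444) (nat_lit 89) (nat_lit 3) (nat_lit 89) (nat_lit 1) (nat_lit 91) (nat_lit 1) (nat_lit 376) (nat_lit 405) (nat_lit 239)))))) (XT.nd (nat_lit 468) (nat_lit 532) (nat_lit 0) (XT.nd (nat_lit 234) (nat_lit 228) (nat_lit 0) (XT.nd (nat_lit 78) (nat_lit 152) (nat_lit 0) (XT.lf (nat_lit 76) (nat_lit 1672514403) (nat_lit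 0) (nat_lit 1702876458) (nat_lit 76) (nat_lit 1702876458) (nat_lit 89) (nat_lit 3) (nat_lit 88) (nat_lit 1) (nat_lit 89) (nat_lit 1) (nat_lit 377) (nat_lit 405) (nat_lit 238)) (XT.nd (nat_lit 78) (nat_lit 0) (nat_lit 0) (XT.lf (nat_lit 152) (nat_lit 4978966505) (nat_lit 0) (nat_lit 9327820) (nat_lit 76) (nat_lit 9327820) (nat_lit 88) (nat_lit 1) (nat_lit 86) (nat_lit 1) (nat_lit 87) (nat_lit 1) (nat_lit 378) (nat_lit 405) (nat_lit 237)) (XT.lf (nat_lit 0) (nat_lit 1629819698) (nat_lit 0) (nat_lit 1656047583) (nat_lit 152) (nat_lit 1629819698) (nat_lit 86) (nat_lit 3) (nat_lit 86) (nat_lit 1) (nat_lit 88) (nat_lit 1) (nat_lit 379) (nat_lit 405) (nat_lit 236)))) (XT.nd (nat_lit 78) (nat_lit 152) (nat_lit 0) (XT.lf (nat_lit 76) (nat_lit 1595474561) (nat_lit 0) (nat_lit 1620453499) (nat_lit 76) (nat_lit 1620453499) (nat_lit 86) (nat_lit 3) (nat_lit 85) (nat_lit 1) (nat_lit 86) (nat_lit 1) (nat_lit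 380) (nat_lit 405) (nat_lit 235)) (XT.nd (nat_lit 78) (nat_lit 0) (nat_lit 0) (XT.lf (nat_lit 152) (nat_lit 4744234497) (nat_lit 0) (nat_lit 7674020) (nat_lit 76) (nat_lit 7674020) (nat_lit 85) (nat_lit 1) (nat_lit 83) (nat_lit 1) (nat_lit 84) (nat_lit 1) (nat_lit 381) (nat_lit 405) (nat_lit 234)) (XT.lf (nat_lit 0) (nat_lit 1553324381) (nat_lit 0) (nat_lit 1574902127) (nat_lit 152) (nat_lit 1553324381) (nat_lit 83) (nat_lit 3) (nat_lit 83) (nat_lit 1) (nat_lit 85) (nat_lit 1) (nat_lit 382) (nat_lit 405) (nat_lit 233))))) (XT.nd (nat_lit 234) (nat_lit 304) (nat_lit 0) (XT.nd (nat_lit 78) (nat_lit 152) (nat_lit 0) (XT.lf (nat_lit 76) (nat_lit 1521641654) (nat_lit 0) (nat_lit 1542191888) (nat_lit 76) (nat_lit 1542191888) (nat_lit 83) (nat_lit 3) (nat_lit 82) (nat_lit 1) (nat_lit 83) (nat_lit 1) (nat_lit 383) (nat_lit 405) (nat_lit 232)) (XT.nd (nat_lit 78) (nat_lit 0) (nat_lit 0) (XT.lf (nat_lit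 152) (nat_lit 4520261490) (nat_lit 0) (nat_lit 6313435) (nat_lit 76) (nat_lit 6313435) (nat_lit 82) (nat_lit 1) (nat_lit 80) (nat_lit 1) (nat_lit 81) (nat_lit 1) (nat_lit 384) (nat_lit 405) (nat_lit 231)) (XT.lf (nat_lit 0) (nat_lit 1480273986) (nat_lit 0) (nat_lit 1498026051) (nat_lit 152) (nat_lit 1480273986) (nat_lit 80) (nat_lit 3) (nat_lit 80) (nat_lit 1) (nat_lit 82) (nat_lit 1) (nat_lit 385) (nat_lit 405) (nat_lit 230)))) (XT.nd (nat_lit 156) (nat_lit 76) (nat_lit 0) (XT.nd (nat_lit 78) (nat_lit 152) (nat_lit 0) (XT.lf (nat_lit 76) (nat_lit 1450944816) (nat_lit 0) (nat_lit 1467851544) (nat_lit 76) (nat_lit 1467851544) (nat_lit 80) (nat_lit 3) (nat_lit 79) (nat_lit 1) (nat_lit 80) (nat_lit 1) (nat_lit 386) (nat_lit 405) (nat_lit 229)) (XT.lf (nat_lit 152) (nat_lit 4306609390) (nat_lit 0) (nat_lit 5194079) (nat_lit 76) (nat_lit 5194079) (nat_lit 79) (nat_lit 1) (nat_lit 77) (nat_lit 1) (nat_lit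 78) (nat_lit 1) (nat_lit 387) (nat_lit 405) (nat_lit 228))) (XT.nd (nat_lit 78) (nat_lit 76) (nat_lit 0) (XT.lf (nat_lit 0) (nat_lit 1410539522) (nat_lit 0) (nat_lit 1425144190) (nat_lit 152) (nat_lit 1410539522) (nat_lit 77) (nat_lit 3) (nat_lit 77) (nat_lit 1) (nat_lit 79) (nat_lit 1) (nat_lit 388) (nat_lit 405) (nat_lit 227)) (XT.lf (nat_lit 76) (nat_lit 1383302044) (nat_lit 0) (nat_lit 1397211251) (nat_lit 76) (nat_lit 1397211251) (nat_lit 77) (nat_lit 3) (nat_lit 76) (nat_lit 1) (nat_lit 77) (nat_lit 1) (nat_lit 389) (nat_lit 405) (nat_lit 226))))))) (XT.nd (nat_lit 1014) (nat_lit 912) (nat_lit 0) (XT.nd (nat_lit 468) (nat_lit 608) (nat_lit 0) (XT.nd (nat_lit 234) (nat_lit 228) (nat_lit 0) (XT.nd (nat_lit 78) (nat_lit 76) (nat_lit 0) (XT.lf (nat_lit 152) (nat_lit 4102847799) (nat_lit 0) (nat_lit 4273181) (nat_lit 76) (nat_lit 4273181) (nat_lit 76) (nat_lit 1) (nat_lit 74) (nat_lit 1) (nat_lit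 75) (nat_lit 1) (nat_lit 390) (nat_lit 405) (nat_lit 225)) (XT.nd (nat_lit 78) (nat_lit 76) (nat_lit 0) (XT.lf (nat_lit 0) (nat_lit 1343991928) (nat_lit 0) (nat_lit 1356007224) (nat_lit 152) (nat_lit 1343991928) (nat_lit 74) (nat_lit 3) (nat_lit 74) (nat_lit 1) (nat_lit 76) (nat_lit 1) (nat_lit 391) (nat_lit 405) (nat_lit 224)) (XT.lf (nat_lit 76) (nat_lit 1318623304) (nat_lit 0) (nat_lit 1330066443) (nat_lit 76) (nat_lit 1330066443) (nat_lit 74) (nat_lit 3) (nat_lit 73) (nat_lit 1) (nat_lit 74) (nat_lit 1) (nat_lit 392) (nat_lit 405) (nat_lit 223)))) (XT.nd (nat_lit 78) (nat_lit 76) (nat_lit 0) (XT.lf (nat_lit 152) (nat_lit 3908555986) (nat_lit 0) (nat_lit 3515557) (nat_lit 76) (nat_lit 3515557) (nat_lit 73) (nat_lit 1) (nat_lit 71) (nat_lit 1) (nat_lit 72) (nat_lit 1) (nat_lit 393) (nat_lit 405) (nat_lit 222)) (XT.nd (nat_lit 78) (nat_lit 76) (nat_lit 0) (XT.lf (nat_lit 0) (nat_lit 1280503173)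 (nat_lit 0) (nat_lit 1290388187) (nat_lit 152) (nat_lit 1280503173) (nat_lit 71) (nat_lit 3) (nat_lit 71) (nat_lit 1) (nat_lit 73) (nat_lit 1) (nat_lit 394) (nat_lit 405) (nat_lit 221)) (XT.lf (nat_lit 76) (nat_lit 1256813026) (nat_lit 0) (nat_lit 1266227325) (nat_lit 76) (nat_lit 1266227325) (nat_lit 71) (nat_lit 3) (nat_lit 70) (nat_lit 1) (nat_lit 71) (nat_lit 1) (nat_lit 395) (nat_lit 405) (nat_lit 220))))) (XT.nd (nat_lit 234) (nat_lit 380) (nat_lit 0) (XT.nd (nat_lit 78) (nat_lit 76) (nat_lit 0) (XT.lf (nat_lit 152) (nat_lit 3723324348) (nat_lit 0) (nat_lit 2892257) (nat_lit 76) (nat_lit 2892257) (nat_lit 70) (nat_lit 1) (nat_lit 68) (nat_lit 1) (nat_lit 69) (nat_lit 1) (nat_lit 396) (nat_lit 405) (nat_lit 219)) (XT.nd (nat_lit 78) (nat_lit 76) (nat_lit 0) (XT.lf (nat_lit 0) (nat_lit 1219947118) (nat_lit 0) (nat_lit 1228079543) (nat_lit 152) (nat_lit 1219947118) (nat_lit 68) (nat_lit 3) (nat_lit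 68) (nat_lit 1) (nat_lit 70) (nat_lit 1) (nat_lit 397) (nat_lit 405) (nat_lit 218)) (XT.lf (nat_lit 76) (nat_lit 1197772111) (nat_lit 0) (nat_lit 1205517278) (nat_lit 76) (nat_lit 1205517278) (nat_lit 68) (nat_lit 3) (nat_lit 67) (nat_lit 1) (nat_lit 68) (nat_lit 1) (nat_lit 398) (nat_lit 405) (nat_lit 217)))) (XT.nd (nat_lit 156) (nat_lit 228) (nat_lit 0) (XT.nd (nat_lit 78) (nat_lit 0) (nat_lit 0) (XT.lf (nat_lit 152) (nat_lit 3546755455) (nat_lit 0) (nat_lit 2379467) (nat_lit 76) (nat_lit 2379467) (nat_lit 67) (nat_lit 1) (nat_lit 65) (nat_lit 1) (nat_lit 66) (nat_lit 1) (nat_lit 399) (nat_lit 405) (nat_lit 216)) (XT.lf (nat_lit 0) (nat_lit 1162200169) (nat_lit 0) (nat_lit 1168890735) (nat_lit 152) (nat_lit 1162200169) (nat_lit 65) (nat_lit 3) (nat_lit 65) (nat_lit 1) (nat_lit 67) (nat_lit 1) (nat_lit 400) (nat_lit 405) (nat_lit 215))) (XT.nd (nat_lit 78) (nat_lit 152) (nat_lit 0) (XT.lf (nat_lit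 76) (nat_lit 1141399531) (nat_lit 0) (nat_lit 1147771499) (nat_lit 76) (nat_lit 1147771499) (nat_lit 65) (nat_lit 3) (nat_lit 64) (nat_lit 1) (nat_lit 65) (nat_lit 1) (nat_lit 401) (nat_lit 405) (nat_lit 214)) (XT.lf (nat_lit 152) (nat_lit 3378464776) (nat_lit 0) (nat_lit 1957593) (nat_lit 76) (nat_lit 1957593) (nat_lit 64) (nat_lit 1) (nat_lit 62) (nat_lit 1) (nat_lit 63) (nat_lit 1) (nat_lit 402) (nat_lit 405) (nat_lit 213)))))) (XT.nd (nat_lit 468) (nat_lit 456) (nat_lit 0) (XT.nd (nat_lit 234) (nat_lit 228) (nat_lit 0) (XT.nd (nat_lit 78) (nat_lit 228) (nat_lit 0) (XT.lf (nat_lit 0) (nat_lit 1107141770) (nat_lit 0) (nat_lit 1112646116) (nat_lit 152) (nat_lit 1107141770) (nat_lit 62) (nat_lit 3) (nat_lit 62) (nat_lit 1) (nat_lit 64) (nat_lit 1) (nat_lit 403) (nat_lit 405) (nat_lit 212)) (XT.nd (nat_lit 78) (nat_lit 152) (nat_lit 0) (XT.lf (nat_lit 76) (nat_lit 1087593601) (nat_lit 0) (nat_lit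 1092835835) (nat_lit 76) (nat_lit 1092835835) (nat_lit 62) (nat_lit 3) (nat_lit 61) (nat_lit 1) (nat_lit 62) (nat_lit 1) (nat_lit 404) (nat_lit 405) (nat_lit 211)) (XT.lf (nat_lit 152) (nat_lit 3218081128) (nat_lit 0) (nat_lit 1610517) (nat_lit 76) (nat_lit 1610517) (nat_lit 61) (nat_lit 1) (nat_lit 59) (nat_lit 1) (nat_lit 60) (nat_lit 1) (nat_lit 405) (nat_lit 405) (nat_lit 210)))) (XT.nd (nat_lit 78) (nat_lit 228) (nat_lit 0) (XT.lf (nat_lit 0) (nat_lit 1054654764) (nat_lit 0) (nat_lit 1059183203) (nat_lit 152) (nat_lit 1054654764) (nat_lit 59) (nat_lit 3) (nat_lit 59) (nat_lit 1) (nat_lit 61) (nat_lit 1) (nat_lit 406) (nat_lit 405) (nat_lit 209)) (XT.nd (nat_lit 78) (nat_lit 152) (nat_lit 0) (XT.lf (nat_lit 76) (nat_lit 1036252978) (nat_lit 0) (nat_lit 1040565777) (nat_lit 76) (nat_lit 1040565777) (nat_lit 59) (nat_lit 3) (nat_lit 58) (nat_lit 1) (nat_lit 59) (nat_lit 1) (nat_lit 407) (nat_lit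 405) (nat_lit 208)) (XT.lf (nat_lit 152) (nat_lit 3065246923) (nat_lit 0) (nat_lit 1324976) (nat_lit 76) (nat_lit 1324976) (nat_lit 58) (nat_lit 1) (nat_lit 56) (nat_lit 1) (nat_lit 57) (nat_lit 1) (nat_lit 408) (nat_lit 405) (nat_lit 207))))) (XT.nd (nat_lit 234) (nat_lit 228) (nat_lit 0) (XT.nd (nat_lit 78) (nat_lit 228) (nat_lit 0) (XT.lf (nat_lit 0) (nat_lit 1004625647) (nat_lit 0) (nat_lit 1008351205) (nat_lit 152) (nat_lit 1004625647) (nat_lit 56) (nat_lit 3) (nat_lit 56) (nat_lit 1) (nat_lit 58) (nat_lit 1) (nat_lit 409) (nat_lit 405) (nat_lit 206)) (XT.nd (nat_lit 78) (nat_lit 152) (nat_lit 0) (XT.lf (nat_lit 76) (nat_lit 987277443) (nat_lit 0) (nat_lit 990825593) (nat_lit 76) (nat_lit 990825593) (nat_lit 56) (nat_lit 3) (nat_lit 55) (nat_lit 1) (nat_lit 56) (nat_lit 1) (nat_lit 410) (nat_lit 405) (nat_lit 205)) (XT.lf (nat_lit 152) (nat_lit 2919618244) (nat_lit 0) (nat_lit 1090061) (nat_lit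 76) (nat_lit 1090061) (nat_lit 55) (nat_lit 1) (nat_lit 53) (nat_lit 1) (nat_lit 54) (nat_lit 1) (nat_lit 411) (nat_lit 405) (nat_lit 204)))) (XT.nd (nat_lit 156) (nat_lit 152) (nat_lit 0) (XT.nd (nat_lit 78) (nat_lit 76) (nat_lit 0) (XT.lf (nat_lit 0) (nat_lit 956944732) (nat_lit 0) (nat_lit 960009758) (nat_lit 152) (nat_lit 956944732) (nat_lit 53) (nat_lit 3) (nat_lit 53) (nat_lit 1) (nat_lit 55) (nat_lit 1) (nat_lit 412) (nat_lit 405) (nat_lit 203)) (XT.lf (nat_lit 76) (nat_lit 940568503) (nat_lit 0) (nat_lit 943487575) (nat_lit 76) (nat_lit 943487575) (nat_lit 53) (nat_lit 3) (nat_lit 52) (nat_lit 1) (nat_lit 53) (nat_lit 1) (nat_lit 413) (nat_lit 405) (nat_lit 202))) (XT.nd (nat_lit 78) (nat_lit 0) (nat_lit 0) (XT.lf (nat_lit 152) (nat_lit 2780864787) (nat_lit 0) (nat_lit 896796) (nat_lit 76) (nat_lit 896796) (nat_lit 52) (nat_lit 1) (nat_lit 50) (nat_lit 1) (nat_lit 51) (nat_lit 1) (nat_lit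 414) (nat_lit 405) (nat_lit 201)) (XT.lf (nat_lit 0) (nat_lit 911506253) (nat_lit 0) (nat_lit 914027857) (nat_lit 152) (nat_lit 911506253) (nat_lit 50) (nat_lit 3) (nat_lit 50) (nat_lit 1) (nat_lit 52) (nat_lit 1) (nat_lit 415) (nat_lit 405) (nat_lit 200))))))))
noncomputable def ec282 : XT := (XT.nd (nat_lit 1950) (nat_lit 380) (nat_lit 0) (XT.nd (nat_lit 936) (nat_lit 988) (nat_lit 0) (XT.nd (nat_lit 468) (nat_lit 456) (nat_lit 0) (XT.nd (nat_lit 234) (nat_lit 228) (nat_lit 0) (XT.nd (nat_lit 78) (nat_lit 152) (nat_lit 0) (XT.lf (nat_lit 76) (nat_lit 896029852) (nat_lit 0) (nat_lit 898431380) (nat_lit 76) (nat_lit 898431380) (nat_lit 50) (nat_lit 3) (nat_lit 49) (nat_lit 1) (nat_lit 50) (nat_lit 1) (nat_lit 416) (nat_lit 405) (nat_lit 199)) (XT.nd (nat_lit 78) (nat_lit 0) (nat_lit 0) (XT.lf (nat_lit 152) (nat_lit 2648669707) (nat_lit 0) (nat_lit 737796) (nat_lit 76) (nat_lit 737796) (nat_lit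 49) (nat_lit 1) (nat_lit 47) (nat_lit 1) (nat_lit 48) (nat_lit 1) (nat_lit 417) (nat_lit 405) (nat_lit 198)) (XT.lf (nat_lit 0) (nat_lit 868208405) (nat_lit 0) (nat_lit 870282935) (nat_lit 152) (nat_lit 868208405) (nat_lit 47) (nat_lit 3) (nat_lit 47) (nat_lit 1) (nat_lit 49) (nat_lit 1) (nat_lit 418) (nat_lit 405) (nat_lit 197)))) (XT.nd (nat_lit 78) (nat_lit 152) (nat_lit 0) (XT.lf (nat_lit 76) (nat_lit 853567708) (nat_lit 0) (nat_lit 855543450) (nat_lit 76) (nat_lit 855543450) (nat_lit 47) (nat_lit 3) (nat_lit 46) (nat_lit 1) (nat_lit 47) (nat_lit 1) (nat_lit 419) (nat_lit 405) (nat_lit 196)) (XT.nd (nat_lit 78) (nat_lit 0) (nat_lit 0) (XT.lf (nat_lit 152) (nat_lit 2522729375) (nat_lit 0) (nat_lit 606987) (nat_lit 76) (nat_lit 606987) (nat_lit 46) (nat_lit 1) (nat_lit 44) (nat_lit 1) (nat_lit 45) (nat_lit 1) (nat_lit 420) (nat_lit 405) (nat_lit 195)) (XT.lf (nat_lit 0) (nat_lit 826953352) (nat_lit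 0) (nat_lit 828660073) (nat_lit 152) (nat_lit 826953352) (nat_lit 44) (nat_lit 3) (nat_lit 44) (nat_lit 1) (nat_lit 46) (nat_lit 1) (nat_lit 421) (nat_lit 405) (nat_lit 194))))) (XT.nd (nat_lit 234) (nat_lit 228) (nat_lit 0) (XT.nd (nat_lit 78) (nat_lit 152) (nat_lit 0) (XT.lf (nat_lit 76) (nat_lit 813091056) (nat_lit 0) (nat_lit 814716505) (nat_lit 76) (nat_lit 814716505) (nat_lit 44) (nat_lit 3) (nat_lit 43) (nat_lit 1) (nat_lit 44) (nat_lit 1) (nat_lit 422) (nat_lit 405) (nat_lit 193)) (XT.nd (nat_lit 78) (nat_lit 0) (nat_lit 0) (XT.lf (nat_lit 152) (nat_lit 2402753083) (nat_lit 0) (nat_lit 499369) (nat_lit 76) (nat_lit 499369) (nat_lit 43) (nat_lit 1) (nat_lit 41) (nat_lit 1) (nat_lit 42) (nat_lit 1) (nat_lit 423) (nat_lit 405) (nat_lit 192)) (XT.lf (nat_lit 0) (nat_lit 787647186) (nat_lit 0) (nat_lit 789051310) (nat_lit 152) (nat_lit 787647186) (nat_lit 41) (nat_lit 3) (nat_lit 41) (nat_lit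 1) (nat_lit 43) (nat_lit 1) (nat_lit 424) (nat_lit 405) (nat_lit 191)))) (XT.nd (nat_lit 78) (nat_lit 152) (nat_lit 0) (XT.lf (nat_lit 76) (nat_lit 774511825) (nat_lit 0) (nat_lit 775849086) (nat_lit 76) (nat_lit 775849086) (nat_lit 41) (nat_lit 3) (nat_lit 40) (nat_lit 1) (nat_lit 41) (nat_lit 1) (nat_lit 425) (nat_lit 405) (nat_lit 190)) (XT.nd (nat_lit 78) (nat_lit 0) (nat_lit 0) (XT.lf (nat_lit 152) (nat_lit 2288462701) (nat_lit 0) (nat_lit 410832) (nat_lit 76) (nat_lit 410832) (nat_lit 40) (nat_lit 1) (nat_lit 38) (nat_lit 1) (nat_lit 39) (nat_lit 1) (nat_lit 426) (nat_lit 405) (nat_lit 189)) (XT.lf (nat_lit 0) (nat_lit 750199877) (nat_lit 0) (nat_lit 751355053) (nat_lit 152) (nat_lit 750199877) (nat_lit 38) (nat_lit 3) (nat_lit 38) (nat_lit 1) (nat_lit 40) (nat_lit 1) (nat_lit 427) (nat_lit 405) (nat_lit 188)))))) (XT.nd (nat_lit 468) (nat_lit 532) (nat_lit 0) (XT.nd (nat_lit 234) (nat_lit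 228) (nat_lit 0) (XT.nd (nat_lit 78) (nat_lit 152) (nat_lit 0) (XT.lf (nat_lit 76) (nat_lit 737744986) (nat_lit 0) (nat_lit 738845154) (nat_lit 76) (nat_lit 738845154) (nat_lit 38) (nat_lit 3) (nat_lit 37) (nat_lit 1) (nat_lit 38) (nat_lit 1) (nat_lit 428) (nat_lit 405) (nat_lit 187)) (XT.nd (nat_lit 78) (nat_lit 0) (nat_lit 0) (XT.lf (nat_lit 152) (nat_lit 2179592302) (nat_lit 0) (nat_lit 337993) (nat_lit 76) (nat_lit 337993) (nat_lit 37) (nat_lit 1) (nat_lit 35) (nat_lit 1) (nat_lit 36) (nat_lit 1) (nat_lit 429) (nat_lit 405) (nat_lit 186)) (XT.lf (nat_lit 0) (nat_lit 714525189) (nat_lit 0) (nat_lit 715475555) (nat_lit 152) (nat_lit 714525189) (nat_lit 35) (nat_lit 3) (nat_lit 35) (nat_lit 1) (nat_lit 37) (nat_lit 1) (nat_lit 430) (nat_lit 405) (nat_lit 185)))) (XT.nd (nat_lit 78) (nat_lit 152) (nat_lit 0) (XT.lf (nat_lit 76) (nat_lit 702708618) (nat_lit 0) (nat_lit 703613728) (nat_lit 76) (nat_lit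 703613728) (nat_lit 35) (nat_lit 3) (nat_lit 34) (nat_lit 1) (nat_lit 35) (nat_lit 1) (nat_lit 431) (nat_lit 405) (nat_lit 184)) (XT.nd (nat_lit 78) (nat_lit 0) (nat_lit 0) (XT.lf (nat_lit 152) (nat_lit 2075887766) (nat_lit 0) (nat_lit 278067) (nat_lit 76) (nat_lit 278067) (nat_lit 34) (nat_lit 1) (nat_lit 32) (nat_lit 1) (nat_lit 33) (nat_lit 1) (nat_lit 432) (nat_lit 405) (nat_lit 183)) (XT.lf (nat_lit 0) (nat_lit 680540587) (nat_lit 0) (nat_lit 681322456) (nat_lit 152) (nat_lit 680540587) (nat_lit 32) (nat_lit 3) (nat_lit 32) (nat_lit 1) (nat_lit 34) (nat_lit 1) (nat_lit 433) (nat_lit 405) (nat_lit 182))))) (XT.nd (nat_lit 234) (nat_lit 304) (nat_lit 0) (XT.nd (nat_lit 78) (nat_lit 152) (nat_lit 0) (XT.lf (nat_lit 76) (nat_lit 669323921) (nat_lit 0) (nat_lit 670068557) (nat_lit 76) (nat_lit 670068557) (nat_lit 32) (nat_lit 3) (nat_lit 31) (nat_lit 1) (nat_lit 32) (nat_lit 1) (nat_lit 434) (nat_lit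 405) (nat_lit 181)) (XT.nd (nat_lit 78) (nat_lit 0) (nat_lit 0) (XT.lf (nat_lit 152) (nat_lit 1977106369) (nat_lit 0) (nat_lit 228767) (nat_lit 76) (nat_lit 228767) (nat_lit 31) (nat_lit 1) (nat_lit 29) (nat_lit 1) (nat_lit 30) (nat_lit 1) (nat_lit 435) (nat_lit 405) (nat_lit 180)) (XT.lf (nat_lit 0) (nat_lit 648167135) (nat_lit 0) (nat_lit 648810381) (nat_lit 152) (nat_lit 648167135) (nat_lit 29) (nat_lit 3) (nat_lit 29) (nat_lit 1) (nat_lit 31) (nat_lit 1) (nat_lit 436) (nat_lit 405) (nat_lit 179)))) (XT.nd (nat_lit 156) (nat_lit 76) (nat_lit 0) (XT.nd (nat_lit 78) (nat_lit 152) (nat_lit 0) (XT.lf (nat_lit 76) (nat_lit 637515209) (nat_lit 0) (nat_lit 638127824) (nat_lit 76) (nat_lit 638127824) (nat_lit 29) (nat_lit 3) (nat_lit 28) (nat_lit 1) (nat_lit 29) (nat_lit 1) (nat_lit 437) (nat_lit 405) (nat_lit 178)) (XT.lf (nat_lit 152) (nat_lit 1883016366) (nat_lit 0) (nat_lit 188207) (nat_lit 76)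 (nat_lit 188207) (nat_lit 28) (nat_lit 1) (nat_lit 26) (nat_lit 1) (nat_lit 27) (nat_lit 1) (nat_lit 438) (nat_lit 405) (nat_lit 177))) (XT.nd (nat_lit 78) (nat_lit 76) (nat_lit 0) (XT.lf (nat_lit 0) (nat_lit 617329383) (nat_lit 0) (nat_lit 617858582) (nat_lit 152) (nat_lit 617329383) (nat_lit 26) (nat_lit 3) (nat_lit 26) (nat_lit 1) (nat_lit 28) (nat_lit 1) (nat_lit 439) (nat_lit 405) (nat_lit 176)) (XT.lf (nat_lit 76) (nat_lit 607209877) (nat_lit 0) (nat_lit 607713876) (nat_lit 76) (nat_lit 607713876) (nat_lit 26) (nat_lit 3) (nat_lit 25) (nat_lit 1) (nat_lit 26) (nat_lit 1) (nat_lit 440) (nat_lit 405) (nat_lit 175))))))) (XT.nd (nat_lit 35568) (nat_lit 0) (nat_lit 18316) (XT.nd (nat_lit 35100) (nat_lit 0) (nat_lit 20748) (XT.nd (nat_lit 234) (nat_lit 152) (nat_lit 0) (XT.nd (nat_lit 78) (nat_lit 76) (nat_lit 0) (XT.lf (nat_lit 152) (nat_lit 1793396571) (nat_lit 0) (nat_lit 154838) (nat_lit 76)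 (nat_lit 154838) (nat_lit 25) (nat_lit 1) (nat_lit 23) (nat_lit 1) (nat_lit 24) (nat_lit 1) (nat_lit 441) (nat_lit 405) (nat_lit 174)) (XT.nd (nat_lit 78) (nat_lit 76) (nat_lit 0) (XT.lf (nat_lit 0) (nat_lit 587955246) (nat_lit 0) (nat_lit 588390620) (nat_lit 152) (nat_lit 587955246) (nat_lit 23) (nat_lit 3) (nat_lit 23) (nat_lit 1) (nat_lit 25) (nat_lit 1) (nat_lit 442) (nat_lit 405) (nat_lit 173)) (XT.lf (nat_lit 76) (nat_lit 578338341) (nat_lit 0) (nat_lit 578752983) (nat_lit 76) (nat_lit 578752983) (nat_lit 23) (nat_lit 3) (nat_lit 22) (nat_lit 1) (nat_lit 23) (nat_lit 1) (nat_lit 443) (nat_lit 405) (nat_lit 172)))) (XT.nd (nat_lit 34710) (nat_lit 0) (nat_lit 20672) (XT.lf (nat_lit 152) (nat_lit 1708035936) (nat_lit 0) (nat_lit 127386) (nat_lit 76) (nat_lit 127386) (nat_lit 22) (nat_lit 1) (nat_lit 20) (nat_lit 1) (nat_lit 21) (nat_lit 1) (nat_lit 444) (nat_lit 405) (nat_lit 171)) (XT.nd (nat_lit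 78) (nat_lit 0) (nat_lit 0) (XT.lf (nat_lit 836) (nat_lit 13450654507) (nat_lit 0) (nat_lit 23881606160) (nat_lit 836) (nat_lit 13450654507) (nat_lit 303) (nat_lit 1) (nat_lit 292) (nat_lit 0) (nat_lit 303) (nat_lit 0) (nat_lit 208) (nat_lit 406) (nat_lit 406)) (XT.lf (nat_lit 836) (nat_lit 52136416119) (nat_lit 76) (nat_lit 23496418964) (nat_lit 0) (nat_lit 23496418964) (nat_lit 303) (nat_lit 1) (nat_lit 293) (nat_lit 1) (nat_lit 292) (nat_lit 0) (nat_lit 209) (nat_lit 406) (nat_lit 405))))) (XT.nd (nat_lit 234) (nat_lit 0) (nat_lit 76) (XT.nd (nat_lit 78) (nat_lit 0) (nat_lit 0) (XT.lf (nat_lit 836) (nat_lit 24847430905) (nat_lit 0) (nat_lit 47073143600) (nat_lit 760) (nat_lit 24847430905) (nat_lit 304) (nat_lit 1) (nat_lit 293) (nat_lit 1) (nat_lit 303) (nat_lit 1) (nat_lit 210) (nat_lit 406) (nat_lit 404)) (XT.nd (nat_lit 78) (nat_lit 0) (nat_lit 76) (XT.lf (nat_lit 836) (nat_lit 46610327740)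 (nat_lit 76) (nat_lit 23936357477) (nat_lit 0) (nat_lit 23936357477) (nat_lit 304) (nat_lit 1) (nat_lit 294) (nat_lit 1) (nat_lit 293) (nat_lit 1) (nat_lit 211) (nat_lit 406) (nat_lit 403)) (XT.lf (nat_lit 836) (nat_lit 21454286256) (nat_lit 0) (nat_lit 49361929323) (nat_lit 760) (nat_lit 21454286256) (nat_lit 305) (nat_lit 1) (nat_lit 294) (nat_lit 1) (nat_lit 304) (nat_lit 1) (nat_lit 212) (nat_lit 406) (nat_lit 402)))) (XT.nd (nat_lit 78) (nat_lit 0) (nat_lit 76) (XT.lf (nat_lit 836) (nat_lit 38586931191) (nat_lit 76) (nat_lit 25769238242) (nat_lit 0) (nat_lit 25769238242) (nat_lit 305) (nat_lit 1) (nat_lit 295) (nat_lit 1) (nat_lit 294) (nat_lit 1) (nat_lit 213) (nat_lit 406) (nat_lit 401)) (XT.nd (nat_lit 78) (nat_lit 0) (nat_lit 0) (XT.lf (nat_lit 836) (nat_lit 16919254836) (nat_lit 0) (nat_lit 54213828679) (nat_lit 760) (nat_lit 16919254836) (nat_lit 306) (nat_lit 1) (nat_lit 295) (nat_lit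 1) (nat_lit 305) (nat_lit 1) (nat_lit 214) (nat_lit 406) (nat_lit 400)) (XT.lf (nat_lit 836) (nat_lit 28441786872) (nat_lit 76) (nat_lit 28797280428) (nat_lit 0) (nat_lit 28797280428) (nat_lit 306) (nat_lit 1) (nat_lit 296) (nat_lit 1) (nat_lit 295) (nat_lit 1) (nat_lit 215) (nat_lit 406) (nat_lit 399)))))) (XT.nd (nat_lit 468) (nat_lit 1444) (nat_lit 0) (XT.nd (nat_lit 234) (nat_lit 1216) (nat_lit 0) (XT.nd (nat_lit 78) (nat_lit 0) (nat_lit 0) (XT.lf (nat_lit 836) (nat_lit 11417896035) (nat_lit 0) (nat_lit 61258361788) (nat_lit 760) (nat_lit 11417896035) (nat_lit 307) (nat_lit 1) (nat_lit 296) (nat_lit 1) (nat_lit 306) (nat_lit 1) (nat_lit 216) (nat_lit 406) (nat_lit 398)) (XT.nd (nat_lit 78) (nat_lit 0) (nat_lit 76) (XT.lf (nat_lit 836) (nat_lit 16508711309) (nat_lit 76) (nat_lit 32844342334) (nat_lit 0) (nat_lit 32844342334) (nat_lit 307) (nat_lit 1) (nat_lit 297) (nat_lit 1) (nat_lit 296) (nat_lit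 1) (nat_lit 217) (nat_lit 406) (nat_lit 397)) (XT.lf (nat_lit 76) (nat_lit 5106142748) (nat_lit 0) (nat_lit 70165787043) (nat_lit 760) (nat_lit 5106142748) (nat_lit 298) (nat_lit 1) (nat_lit 297) (nat_lit 1) (nat_lit 307) (nat_lit 1) (nat_lit 218) (nat_lit 406) (nat_lit 396)))) (XT.nd (nat_lit 78) (nat_lit 532) (nat_lit 0) (XT.lf (nat_lit 836) (nat_lit 3083983241) (nat_lit 0) (nat_lit 37753754767) (nat_lit 760) (nat_lit 37753754767) (nat_lit 298) (nat_lit 1) (nat_lit 287) (nat_lit 1) (nat_lit 297) (nat_lit 1) (nat_lit 219) (nat_lit 406) (nat_lit 395)) (XT.nd (nat_lit 78) (nat_lit 0) (nat_lit 0) (XT.lf (nat_lit 532) (nat_lit 73186806177) (nat_lit 0) (nat_lit 1847430824) (nat_lit 456) (nat_lit 1847430824) (nat_lit 287) (nat_lit 1) (nat_lit 280) (nat_lit 1) (nat_lit 286) (nat_lit 1) (nat_lit 220) (nat_lit 406) (nat_lit 394)) (XT.lf (nat_lit 76) (nat_lit 31997144283) (nat_lit 0) (nat_lit 11199549148)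 (nat_lit 532) (nat_lit 31997144283) (nat_lit 281) (nat_lit 1) (nat_lit 280) (nat_lit 1) (nat_lit 287) (nat_lit 1) (nat_lit 221) (nat_lit 406) (nat_lit 393))))) (XT.nd (nat_lit 234) (nat_lit 684) (nat_lit 0) (XT.nd (nat_lit 78) (nat_lit 380) (nat_lit 0) (XT.lf (nat_lit 456) (nat_lit 55058872001) (nat_lit 0) (nat_lit 9259453331) (nat_lit 380) (nat_lit 9259453331) (nat_lit 281) (nat_lit 1) (nat_lit 275) (nat_lit 1) (nat_lit 280) (nat_lit 1) (nat_lit 222) (nat_lit 406) (nat_lit 392)) (XT.nd (nat_lit 78) (nat_lit 380) (nat_lit 0) (XT.lf (nat_lit 76) (nat_lit 22823173501) (nat_lit 0) (nat_lit 26349346636) (nat_lit 456) (nat_lit 22823173501) (nat_lit 276) (nat_lit 1) (nat_lit 275) (nat_lit 1) (nat_lit 281) (nat_lit 1) (nat_lit 223) (nat_lit 406) (nat_lit 391)) (XT.lf (nat_lit 456) (nat_lit 36257048019) (nat_lit 0) (nat_lit 17105830192) (nat_lit 380) (nat_lit 17105830192) (nat_lit 276) (nat_lit 1) (nat_lit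 270) (nat_lit 1) (nat_lit 275) (nat_lit 1) (nat_lit 224) (nat_lit 406) (nat_lit 390)))) (XT.nd (nat_lit 156) (nat_lit 380) (nat_lit 0) (XT.nd (nat_lit 78) (nat_lit 304) (nat_lit 0) (XT.lf (nat_lit 76) (nat_lit 13360240337) (nat_lit 0) (nat_lit 42265652369) (nat_lit 456) (nat_lit 13360240337) (nat_lit 271) (nat_lit 1) (nat_lit 270) (nat_lit 1) (nat_lit 276) (nat_lit 1) (nat_lit 225) (nat_lit 406) (nat_lit 389)) (XT.lf (nat_lit 380) (nat_lit 16956331514) (nat_lit 0) (nat_lit 25292681449) (nat_lit 304) (nat_lit 25292681449) (nat_lit 271) (nat_lit 1) (nat_lit 266) (nat_lit 1) (nat_lit 270) (nat_lit 1) (nat_lit 226) (nat_lit 406) (nat_lit 388))) (XT.nd (nat_lit 78) (nat_lit 380) (nat_lit 0) (XT.lf (nat_lit 76) (nat_lit 3689584594) (nat_lit 0) (nat_lit 58773632591) (nat_lit 380) (nat_lit 3689584594) (nat_lit 267) (nat_lit 1) (nat_lit 266) (nat_lit 1) (nat_lit 271) (nat_lit 1) (nat_lit 227) (nat_lit 406)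 (nat_lit 387)) (XT.lf (nat_lit 76) (nat_lit 31089499997) (nat_lit 0) (nat_lit 2603806016) (nat_lit 380) (nat_lit 31089499997) (nat_lit 262) (nat_lit 1) (nat_lit 261) (nat_lit 1) (nat_lit 266) (nat_lit 1) (nat_lit 228) (nat_lit 406) (nat_lit 386))))))))
noncomputable def ec283 : XT := (XT.nd (nat_lit 1950) (nat_lit 2356) (nat_lit 0) (XT.nd (nat_lit 936) (nat_lit 1596) (nat_lit 0) (XT.nd (nat_lit 468) (nat_lit 760) (nat_lit 0) (XT.nd (nat_lit 234) (nat_lit 608) (nat_lit 0) (XT.nd (nat_lit 78) (nat_lit 304) (nat_lit 0) (XT.lf (nat_lit 380) (nat_lit 51426935860) (nat_lit 0) (nat_lit 6019023588) (nat_lit 304) (nat_lit 6019023588) (nat_lit 262) (nat_lit 1) (nat_lit 257) (nat_lit 1) (nat_lit 261) (nat_lit 1) (nat_lit 229) (nat_lit 406) (nat_lit 385)) (XT.nd (nat_lit 78) (nat_lit 304) (nat_lit 0) (XT.lf (nat_lit 76) (nat_lit 20171905129) (nat_lit 0) (nat_lit 21825957352) (nat_lit 380) (nat_lit 20171905129)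 (nat_lit 258) (nat_lit 1) (nat_lit 257) (nat_lit 1) (nat_lit 262) (nat_lit 1) (nat_lit 230) (nat_lit 406) (nat_lit 384)) (XT.lf (nat_lit 380) (nat_lit 29436420972) (nat_lit 0) (nat_lit 15741522364) (nat_lit 304) (nat_lit 15741522364) (nat_lit 258) (nat_lit 1) (nat_lit 253) (nat_lit 1) (nat_lit 257) (nat_lit 1) (nat_lit 231) (nat_lit 406) (nat_lit 383)))) (XT.nd (nat_lit 78) (nat_lit 608) (nat_lit 0) (XT.lf (nat_lit 76) (nat_lit 9282933448) (nat_lit 0) (nat_lit 41139855827) (nat_lit 380) (nat_lit 9282933448) (nat_lit 254) (nat_lit 1) (nat_lit 253) (nat_lit 1) (nat_lit 258) (nat_lit 1) (nat_lit 232) (nat_lit 406) (nat_lit 382)) (XT.nd (nat_lit 78) (nat_lit 380) (nat_lit 0) (XT.lf (nat_lit 304) (nat_lit 7549412193) (nat_lit 0) (nat_lit 25484383704) (nat_lit 228) (nat_lit 25484383704) (nat_lit 254) (nat_lit 1) (nat_lit 250) (nat_lit 1) (nat_lit 253) (nat_lit 1) (nat_lit 233) (nat_lit 406) (nat_lit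 381)) (XT.lf (nat_lit 380) (nat_lit 54359709747) (nat_lit 0) (nat_lit 1508377640) (nat_lit 304) (nat_lit 1508377640) (nat_lit 250) (nat_lit 1) (nat_lit 245) (nat_lit 1) (nat_lit 249) (nat_lit 1) (nat_lit 234) (nat_lit 406) (nat_lit 380))))) (XT.nd (nat_lit 234) (nat_lit 532) (nat_lit 0) (XT.nd (nat_lit 78) (nat_lit 228) (nat_lit 0) (XT.lf (nat_lit 76) (nat_lit 21271356298) (nat_lit 0) (nat_lit 13698357109) (nat_lit 380) (nat_lit 21271356298) (nat_lit 246) (nat_lit 1) (nat_lit 245) (nat_lit 1) (nat_lit 250) (nat_lit 1) (nat_lit 235) (nat_lit 406) (nat_lit 379)) (XT.nd (nat_lit 78) (nat_lit 0) (nat_lit 0) (XT.lf (nat_lit 304) (nat_lit 31067488353) (nat_lit 0) (nat_lit 12040865732) (nat_lit 228) (nat_lit 12040865732) (nat_lit 246) (nat_lit 1) (nat_lit 242) (nat_lit 1) (nat_lit 245) (nat_lit 1) (nat_lit 236) (nat_lit 406) (nat_lit 378)) (XT.lf (nat_lit 76) (nat_lit 9814700135) (nat_lit 0) (nat_lit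 34455709980) (nat_lit 304) (nat_lit 9814700135) (nat_lit 243) (nat_lit 1) (nat_lit 242) (nat_lit 1) (nat_lit 246) (nat_lit 1) (nat_lit 237) (nat_lit 406) (nat_lit 377)))) (XT.nd (nat_lit 78) (nat_lit 304) (nat_lit 0) (XT.lf (nat_lit 304) (nat_lit 8180245793) (nat_lit 0) (nat_lit 22432481549) (nat_lit 228) (nat_lit 22432481549) (nat_lit 243) (nat_lit 1) (nat_lit 239) (nat_lit 1) (nat_lit 242) (nat_lit 1) (nat_lit 238) (nat_lit 406) (nat_lit 376)) (XT.nd (nat_lit 78) (nat_lit 0) (nat_lit 0) (XT.lf (nat_lit 304) (nat_lit 49232221705) (nat_lit 0) (nat_lit 1405859740) (nat_lit 228) (nat_lit 1405859740) (nat_lit 239) (nat_lit 1) (nat_lit 235) (nat_lit 1) (nat_lit 238) (nat_lit 1) (nat_lit 239) (nat_lit 406) (nat_lit 375)) (XT.lf (nat_lit 76) (nat_lit 18623139549) (nat_lit 0) (nat_lit 13799559408) (nat_lit 304) (nat_lit 18623139549) (nat_lit 236) (nat_lit 1) (nat_lit 235) (nat_lit 1) (nat_lit 239) (nat_lit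 1) (nat_lit 240) (nat_lit 406) (nat_lit 374)))))) (XT.nd (nat_lit 468) (nat_lit 760) (nat_lit 0) (XT.nd (nat_lit 234) (nat_lit 456) (nat_lit 0) (XT.nd (nat_lit 78) (nat_lit 152) (nat_lit 0) (XT.lf (nat_lit 304) (nat_lit 25608522124) (nat_lit 0) (nat_lit 12238071831) (nat_lit 228) (nat_lit 12238071831) (nat_lit 236) (nat_lit 1) (nat_lit 232) (nat_lit 1) (nat_lit 235) (nat_lit 1) (nat_lit 241) (nat_lit 406) (nat_lit 373)) (XT.nd (nat_lit 78) (nat_lit 152) (nat_lit 0) (XT.lf (nat_lit 76) (nat_lit 7052566107) (nat_lit 0) (nat_lit 35044139940) (nat_lit 304) (nat_lit 7052566107) (nat_lit 233) (nat_lit 1) (nat_lit 232) (nat_lit 1) (nat_lit 236) (nat_lit 1) (nat_lit 242) (nat_lit 406) (nat_lit 372)) (XT.lf (nat_lit 228) (nat_lit 2584294714) (nat_lit 0) (nat_lit 22823605371) (nat_lit 152) (nat_lit 22823605371) (nat_lit 233) (nat_lit 1) (nat_lit 230) (nat_lit 1) (nat_lit 232) (nat_lit 1) (nat_lit 243) (nat_lit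 406) (nat_lit 371)))) (XT.nd (nat_lit 78) (nat_lit 152) (nat_lit 0) (XT.lf (nat_lit 304) (nat_lit 39047826589) (nat_lit 0) (nat_lit 4147162215) (nat_lit 228) (nat_lit 4147162215) (nat_lit 230) (nat_lit 1) (nat_lit 226) (nat_lit 1) (nat_lit 229) (nat_lit 1) (nat_lit 244) (nat_lit 406) (nat_lit 370)) (XT.nd (nat_lit 78) (nat_lit 152) (nat_lit 0) (XT.lf (nat_lit 76) (nat_lit 13638478944) (nat_lit 0) (nat_lit 19185785270) (nat_lit 304) (nat_lit 13638478944) (nat_lit 227) (nat_lit 1) (nat_lit 226) (nat_lit 1) (nat_lit 230) (nat_lit 1) (nat_lit 245) (nat_lit 406) (nat_lit 369)) (XT.lf (nat_lit 228) (nat_lit 15757158594) (nat_lit 0) (nat_lit 14926658820) (nat_lit 152) (nat_lit 14926658820) (nat_lit 227) (nat_lit 1) (nat_lit 224) (nat_lit 1) (nat_lit 226) (nat_lit 1) (nat_lit 246) (nat_lit 406) (nat_lit 368))))) (XT.nd (nat_lit 234) (nat_lit 380) (nat_lit 0) (XT.nd (nat_lit 78) (nat_lit 380) (nat_lit 0)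 (XT.lf (nat_lit 76) (nat_lit 2263803548) (nat_lit 0) (nat_lit 40258885683) (nat_lit 228) (nat_lit 2263803548) (nat_lit 225) (nat_lit 1) (nat_lit 224) (nat_lit 1) (nat_lit 227) (nat_lit 1) (nat_lit 247) (nat_lit 406) (nat_lit 367)) (XT.nd (nat_lit 78) (nat_lit 152) (nat_lit 0) (XT.lf (nat_lit 76) (nat_lit 18683567859) (nat_lit 0) (nat_lit 6598368845) (nat_lit 228) (nat_lit 18683567859) (nat_lit 222) (nat_lit 1) (nat_lit 221) (nat_lit 1) (nat_lit 224) (nat_lit 1) (nat_lit 248) (nat_lit 406) (nat_lit 366)) (XT.lf (nat_lit 228) (nat_lit 25945408550) (nat_lit 0) (nat_lit 8613172673) (nat_lit 152) (nat_lit 8613172673) (nat_lit 222) (nat_lit 1) (nat_lit 219) (nat_lit 1) (nat_lit 221) (nat_lit 1) (nat_lit 249) (nat_lit 406) (nat_lit 365)))) (XT.nd (nat_lit 156) (nat_lit 228) (nat_lit 0) (XT.nd (nat_lit 78) (nat_lit 152) (nat_lit 0) (XT.lf (nat_lit 76) (nat_lit 7321119292) (nat_lit 0) (nat_lit 27753308268)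 (nat_lit 228) (nat_lit 7321119292) (nat_lit 220) (nat_lit 1) (nat_lit 219) (nat_lit 1) (nat_lit 222) (nat_lit 1) (nat_lit 250) (nat_lit 406) (nat_lit 364)) (XT.lf (nat_lit 228) (nat_lit 3429680803) (nat_lit 0) (nat_lit 19102652670) (nat_lit 152) (nat_lit 19102652670) (nat_lit 220) (nat_lit 1) (nat_lit 217) (nat_lit 1) (nat_lit 219) (nat_lit 1) (nat_lit 251) (nat_lit 406) (nat_lit 363))) (XT.nd (nat_lit 78) (nat_lit 0) (nat_lit 0) (XT.lf (nat_lit 228) (nat_lit 33709118660) (nat_lit 0) (nat_lit 3593672304) (nat_lit 152) (nat_lit 3593672304) (nat_lit 217) (nat_lit 1) (nat_lit 214) (nat_lit 1) (nat_lit 216) (nat_lit 1) (nat_lit 252) (nat_lit 406) (nat_lit 362)) (XT.lf (nat_lit 76) (nat_lit 11221848208) (nat_lit 0) (nat_lit 17720547190) (nat_lit 228) (nat_lit 11221848208) (nat_lit 215) (nat_lit 1) (nat_lit 214) (nat_lit 1) (nat_lit 217) (nat_lit 1) (nat_lit 253) (nat_lit 406) (nat_lit 361))))))) (XT.nd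 (nat_lit 1014) (nat_lit 988) (nat_lit 0) (XT.nd (nat_lit 468) (nat_lit 760) (nat_lit 0) (XT.nd (nat_lit 234) (nat_lit 304) (nat_lit 0) (XT.nd (nat_lit 78) (nat_lit 152) (nat_lit 0) (XT.lf (nat_lit 228) (nat_lit 11428907572) (nat_lit 0) (nat_lit 14012186860) (nat_lit 152) (nat_lit 14012186860) (nat_lit 215) (nat_lit 1) (nat_lit 212) (nat_lit 1) (nat_lit 214) (nat_lit 1) (nat_lit 254) (nat_lit 406) (nat_lit 360)) (XT.nd (nat_lit 78) (nat_lit 152) (nat_lit 0) (XT.lf (nat_lit 76) (nat_lit 375636671) (nat_lit 0) (nat_lit 38015979124) (nat_lit 228) (nat_lit 375636671) (nat_lit 213) (nat_lit 1) (nat_lit 212) (nat_lit 1) (nat_lit 215) (nat_lit 1) (nat_lit 255) (nat_lit 406) (nat_lit 359)) (XT.lf (nat_lit 76) (nat_lit 14183428243) (nat_lit 0) (nat_lit 9710006403) (nat_lit 152) (nat_lit 14183428243) (nat_lit 211) (nat_lit 1) (nat_lit 210) (nat_lit 1) (nat_lit 212) (nat_lit 1) (nat_lit 256) (nat_lit 406)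 (nat_lit 358)))) (XT.nd (nat_lit 78) (nat_lit 152) (nat_lit 0) (XT.lf (nat_lit 228) (nat_lit 17600019771) (nat_lit 0) (nat_lit 9905372459) (nat_lit 152) (nat_lit 9905372459) (nat_lit 211) (nat_lit 1) (nat_lit 208) (nat_lit 1) (nat_lit 210) (nat_lit 1) (nat_lit 257) (nat_lit 406) (nat_lit 357)) (XT.nd (nat_lit 78) (nat_lit 152) (nat_lit 0) (XT.lf (nat_lit 76) (nat_lit 3528682326) (nat_lit 0) (nat_lit 29705281518) (nat_lit 228) (nat_lit 3528682326) (nat_lit 209) (nat_lit 1) (nat_lit 208) (nat_lit 1) (nat_lit 211) (nat_lit 1) (nat_lit 258) (nat_lit 406) (nat_lit 356)) (XT.lf (nat_lit 76) (nat_lit 16384156707) (nat_lit 0) (nat_lit 3351559036) (nat_lit 152) (nat_lit 16384156707) (nat_lit 207) (nat_lit 1) (nat_lit 206) (nat_lit 1) (nat_lit 208) (nat_lit 1) (nat_lit 259) (nat_lit 406) (nat_lit 355))))) (XT.nd (nat_lit 234) (nat_lit 532) (nat_lit 0) (XT.nd (nat_lit 78) (nat_lit 76) (nat_lit 0) (XT.lf (nat_lit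 228) (nat_lit 22286655276) (nat_lit 0) (nat_lit 6603947437) (nat_lit 152) (nat_lit 6603947437) (nat_lit 207) (nat_lit 1) (nat_lit 204) (nat_lit 1) (nat_lit 206) (nat_lit 1) (nat_lit 260) (nat_lit 406) (nat_lit 354)) (XT.nd (nat_lit 78) (nat_lit 76) (nat_lit 0) (XT.lf (nat_lit 76) (nat_lit 5969384355) (nat_lit 0) (nat_lit 22942838535) (nat_lit 228) (nat_lit 5969384355) (nat_lit 205) (nat_lit 1) (nat_lit 204) (nat_lit 1) (nat_lit 207) (nat_lit 1) (nat_lit 261) (nat_lit 406) (nat_lit 353)) (XT.lf (nat_lit 152) (nat_lit 1713592865) (nat_lit 0) (nat_lit 16283319002) (nat_lit 76) (nat_lit 16283319002) (nat_lit 205) (nat_lit 1) (nat_lit 203) (nat_lit 1) (nat_lit 204) (nat_lit 1) (nat_lit 262) (nat_lit 406) (nat_lit 352)))) (XT.nd (nat_lit 156) (nat_lit 304) (nat_lit 0) (XT.nd (nat_lit 78) (nat_lit 0) (nat_lit 0) (XT.lf (nat_lit 228) (nat_lit 25770596406) (nat_lit 0) (nat_lit 3961439139) (nat_lit 152)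 (nat_lit 3961439139) (nat_lit 203) (nat_lit 1) (nat_lit 200) (nat_lit 1) (nat_lit 202) (nat_lit 1) (nat_lit 263) (nat_lit 406) (nat_lit 351)) (XT.lf (nat_lit 76) (nat_lit 7831340303) (nat_lit 0) (nat_lit 17450587104) (nat_lit 228) (nat_lit 7831340303) (nat_lit 201) (nat_lit 1) (nat_lit 200) (nat_lit 1) (nat_lit 203) (nat_lit 1) (nat_lit 264) (nat_lit 406) (nat_lit 350))) (XT.nd (nat_lit 78) (nat_lit 228) (nat_lit 0) (XT.lf (nat_lit 152) (nat_lit 5754633050) (nat_lit 0) (nat_lit 13396326841) (nat_lit 76) (nat_lit 13396326841) (nat_lit 201) (nat_lit 1) (nat_lit 199) (nat_lit 1) (nat_lit 200) (nat_lit 1) (nat_lit 265) (nat_lit 406) (nat_lit 349)) (XT.lf (nat_lit 228) (nat_lit 28282781018) (nat_lit 0) (nat_lit 1857519345) (nat_lit 152) (nat_lit 1857519345) (nat_lit 199) (nat_lit 1) (nat_lit 196) (nat_lit 1) (nat_lit 198) (nat_lit 1) (nat_lit 266) (nat_lit 406) (nat_lit 348)))))) (XT.nd (nat_lit 468)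 (nat_lit 608) (nat_lit 0) (XT.nd (nat_lit 234) (nat_lit 76) (nat_lit 0) (XT.nd (nat_lit 78) (nat_lit 304) (nat_lit 0) (XT.lf (nat_lit 76) (nat_lit 9224113546) (nat_lit 0) (nat_lit 12999933637) (nat_lit 228) (nat_lit 9224113546) (nat_lit 197) (nat_lit 1) (nat_lit 196) (nat_lit 1) (nat_lit 199) (nat_lit 1) (nat_lit 267) (nat_lit 406) (nat_lit 347)) (XT.nd (nat_lit 78) (nat_lit 228) (nat_lit 0) (XT.lf (nat_lit 152) (nat_lit 8872308908) (nat_lit 0) (nat_lit 11021191245) (nat_lit 76) (nat_lit 11021191245) (nat_lit 197) (nat_lit 1) (nat_lit 195) (nat_lit 1) (nat_lit 196) (nat_lit 1) (nat_lit 268) (nat_lit 406) (nat_lit 346)) (XT.lf (nat_lit 228) (nat_lit 30012359249) (nat_lit 0) (nat_lit 193360583) (nat_lit 152) (nat_lit 193360583) (nat_lit 195) (nat_lit 1) (nat_lit 192) (nat_lit 1) (nat_lit 194) (nat_lit 1) (nat_lit 269) (nat_lit 406) (nat_lit 345)))) (XT.nd (nat_lit 78) (nat_lit 76) (nat_lit 0) (XT.lf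 (nat_lit 76) (nat_lit 10237511039) (nat_lit 0) (nat_lit 9402975138) (nat_lit 228) (nat_lit 10237511039) (nat_lit 193) (nat_lit 1) (nat_lit 192) (nat_lit 1) (nat_lit 195) (nat_lit 1) (nat_lit 270) (nat_lit 406) (nat_lit 344)) (XT.nd (nat_lit 78) (nat_lit 0) (nat_lit 0) (XT.lf (nat_lit 152) (nat_lit 11240182931) (nat_lit 0) (nat_lit 9067161312) (nat_lit 76) (nat_lit 9067161312) (nat_lit 193) (nat_lit 1) (nat_lit 191) (nat_lit 1) (nat_lit 192) (nat_lit 1) (nat_lit 271) (nat_lit 406) (nat_lit 343)) (XT.lf (nat_lit 0) (nat_lit 1130416367) (nat_lit 0) (nat_lit 26625382416) (nat_lit 152) (nat_lit 1130416367) (nat_lit 191) (nat_lit 3) (nat_lit 191) (nat_lit 1) (nat_lit 193) (nat_lit 1) (nat_lit 272) (nat_lit 406) (nat_lit 342))))) (XT.nd (nat_lit 234) (nat_lit 380) (nat_lit 0) (XT.nd (nat_lit 78) (nat_lit 76) (nat_lit 0) (XT.lf (nat_lit 76) (nat_lit 10945101855) (nat_lit 0) (nat_lit 6505277166) (nat_lit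 152) (nat_lit 10945101855) (nat_lit 190) (nat_lit 1) (nat_lit 189) (nat_lit 1) (nat_lit 191) (nat_lit 1) (nat_lit 273) (nat_lit 406) (nat_lit 341)) (XT.nd (nat_lit 78) (nat_lit 0) (nat_lit 0) (XT.lf (nat_lit 152) (nat_lit 13000576252) (nat_lit 0) (nat_lit 7459576051) (nat_lit 76) (nat_lit 7459576051) (nat_lit 190) (nat_lit 1) (nat_lit 188) (nat_lit 1) (nat_lit 189) (nat_lit 1) (nat_lit 274) (nat_lit 406) (nat_lit 340)) (XT.lf (nat_lit 0) (nat_lit 2160570093) (nat_lit 0) (nat_lit 23135341756) (nat_lit 152) (nat_lit 2160570093) (nat_lit 188) (nat_lit 3) (nat_lit 188) (nat_lit 1) (nat_lit 190) (nat_lit 1) (nat_lit 275) (nat_lit 406) (nat_lit 339)))) (XT.nd (nat_lit 156) (nat_lit 152) (nat_lit 0) (XT.nd (nat_lit 78) (nat_lit 76) (nat_lit 0) (XT.lf (nat_lit 76) (nat_lit 11407111133) (nat_lit 0) (nat_lit 4179932624) (nat_lit 152) (nat_lit 11407111133) (nat_lit 187) (nat_lit 1) (nat_lit 186) (nat_lit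 1) (nat_lit 188) (nat_lit 1) (nat_lit 276) (nat_lit 406) (nat_lit 338)) (XT.lf (nat_lit 152) (nat_lit 14270130006) (nat_lit 0) (nat_lit 6137011678) (nat_lit 76) (nat_lit 6137011678) (nat_lit 187) (nat_lit 1) (nat_lit 185) (nat_lit 1) (nat_lit 186) (nat_lit 1) (nat_lit 277) (nat_lit 406) (nat_lit 337))) (XT.nd (nat_lit 78) (nat_lit 152) (nat_lit 0) (XT.lf (nat_lit 0) (nat_lit 2949481362) (nat_lit 0) (nat_lit 20205477918) (nat_lit 152) (nat_lit 2949481362) (nat_lit 185) (nat_lit 3) (nat_lit 185) (nat_lit 1) (nat_lit 187) (nat_lit 1) (nat_lit 278) (nat_lit 406) (nat_lit 336)) (XT.lf (nat_lit 76) (nat_lit 11672800226) (nat_lit 0) (nat_lit 2322674247) (nat_lit 152) (nat_lit 11672800226) (nat_lit 184) (nat_lit 1) (nat_lit 183) (nat_lit 1) (nat_lit 185) (nat_lit 1) (nat_lit 279) (nat_lit 406) (nat_lit 335))))))))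
noncomputable def ec284 : XT := (XT.nd (nat_lit 1950) (nat_lit 1824) (nat_lit 0) (XT.nd (nat_lit 936) (nat_lit 1064) (nat_lit 0) (XT.nd (nat_lit 468) (nat_lit 456) (nat_lit 0) (XT.nd (nat_lit 234) (nat_lit 152) (nat_lit 0) (XT.nd (nat_lit 78) (nat_lit 152) (nat_lit 0) (XT.lf (nat_lit 152) (nat_lit 15144379606) (nat_lit 0) (nat_lit 5048934695) (nat_lit 76) (nat_lit 5048934695) (nat_lit 184) (nat_lit 1) (nat_lit 182) (nat_lit 1) (nat_lit 183) (nat_lit 1) (nat_lit 280) (nat_lit 406) (nat_lit 334)) (XT.nd (nat_lit 78) (nat_lit 152) (nat_lit 0) (XT.lf (nat_lit 0) (nat_lit 3542712283) (nat_lit 0) (nat_lit 17739263354) (nat_lit 152) (nat_lit 3542712283) (nat_lit 182) (nat_lit 3) (nat_lit 182) (nat_lit 1) (nat_lit 184) (nat_lit 1) (nat_lit 281) (nat_lit 406) (nat_lit 333)) (XT.lf (nat_lit 76) (nat_lit 11782424174) (nat_lit 0) (nat_lit 847853978) (nat_lit 152) (nat_lit 11782424174) (nat_lit 181) (nat_lit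 1) (nat_lit 180) (nat_lit 1) (nat_lit 182) (nat_lit 1) (nat_lit 282) (nat_lit 406) (nat_lit 332)))) (XT.nd (nat_lit 78) (nat_lit 76) (nat_lit 0) (XT.lf (nat_lit 152) (nat_lit 15701516994) (nat_lit 0) (nat_lit 4153771069) (nat_lit 76) (nat_lit 4153771069) (nat_lit 181) (nat_lit 1) (nat_lit 179) (nat_lit 1) (nat_lit 180) (nat_lit 1) (nat_lit 283) (nat_lit 406) (nat_lit 331)) (XT.nd (nat_lit 78) (nat_lit 76) (nat_lit 0) (XT.lf (nat_lit 0) (nat_lit 3977614036) (nat_lit 0) (nat_lit 15657151736) (nat_lit 152) (nat_lit 3977614036) (nat_lit 179) (nat_lit 3) (nat_lit 179) (nat_lit 1) (nat_lit 181) (nat_lit 1) (nat_lit 284) (nat_lit 406) (nat_lit 330)) (XT.lf (nat_lit 76) (nat_lit 325275345) (nat_lit 0) (nat_lit 11448644583) (nat_lit 76) (nat_lit 11448644583) (nat_lit 179) (nat_lit 3) (nat_lit 178) (nat_lit 1) (nat_lit 179) (nat_lit 1) (nat_lit 285) (nat_lit 406) (nat_lit 329))))) (XT.nd (nat_lit 234) (nat_lit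 228) (nat_lit 0) (XT.nd (nat_lit 78) (nat_lit 76) (nat_lit 0) (XT.lf (nat_lit 152) (nat_lit 16005484901) (nat_lit 0) (nat_lit 3417317738) (nat_lit 76) (nat_lit 3417317738) (nat_lit 178) (nat_lit 1) (nat_lit 176) (nat_lit 1) (nat_lit 177) (nat_lit 1) (nat_lit 286) (nat_lit 406) (nat_lit 328)) (XT.nd (nat_lit 78) (nat_lit 76) (nat_lit 0) (XT.lf (nat_lit 0) (nat_lit 4284788980) (nat_lit 0) (nat_lit 13893573551) (nat_lit 152) (nat_lit 4284788980) (nat_lit 176) (nat_lit 3) (nat_lit 176) (nat_lit 1) (nat_lit 178) (nat_lit 1) (nat_lit 287) (nat_lit 406) (nat_lit 327)) (XT.lf (nat_lit 76) (nat_lit 1263671932) (nat_lit 0) (nat_lit 10414895332) (nat_lit 76) (nat_lit 10414895332) (nat_lit 176) (nat_lit 3) (nat_lit 175) (nat_lit 1) (nat_lit 176) (nat_lit 1) (nat_lit 288) (nat_lit 406) (nat_lit 326)))) (XT.nd (nat_lit 78) (nat_lit 76) (nat_lit 0) (XT.lf (nat_lit 152) (nat_lit 16108521574) (nat_lit 0) (nat_lit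 2811435760) (nat_lit 76) (nat_lit 2811435760) (nat_lit 175) (nat_lit 1) (nat_lit 173) (nat_lit 1) (nat_lit 174) (nat_lit 1) (nat_lit 289) (nat_lit 406) (nat_lit 325)) (XT.nd (nat_lit 78) (nat_lit 76) (nat_lit 0) (XT.lf (nat_lit 0) (nat_lit 4489293231) (nat_lit 0) (nat_lit 12394464077) (nat_lit 152) (nat_lit 4489293231) (nat_lit 173) (nat_lit 3) (nat_lit 173) (nat_lit 1) (nat_lit 175) (nat_lit 1) (nat_lit 290) (nat_lit 406) (nat_lit 324)) (XT.lf (nat_lit 76) (nat_lit 1988261360) (nat_lit 0) (nat_lit 9516995499) (nat_lit 76) (nat_lit 9516995499) (nat_lit 173) (nat_lit 3) (nat_lit 172) (nat_lit 1) (nat_lit 173) (nat_lit 1) (nat_lit 291) (nat_lit 406) (nat_lit 323)))))) (XT.nd (nat_lit 468) (nat_lit 608) (nat_lit 0) (XT.nd (nat_lit 234) (nat_lit 228) (nat_lit 0) (XT.nd (nat_lit 78) (nat_lit 76) (nat_lit 0) (XT.lf (nat_lit 152) (nat_lit 16053253455) (nat_lit 0) (nat_lit 2312975157) (nat_lit 76) (nat_lit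 2312975157) (nat_lit 172) (nat_lit 1) (nat_lit 170) (nat_lit 1) (nat_lit 171) (nat_lit 1) (nat_lit 292) (nat_lit 406) (nat_lit 322)) (XT.nd (nat_lit 78) (nat_lit 76) (nat_lit 0) (XT.lf (nat_lit 0) (nat_lit 4611625730) (nat_lit 0) (nat_lit 11115229349) (nat_lit 152) (nat_lit 4611625730) (nat_lit 170) (nat_lit 3) (nat_lit 170) (nat_lit 1) (nat_lit 172) (nat_lit 1) (nat_lit 293) (nat_lit 406) (nat_lit 321)) (XT.lf (nat_lit 76) (nat_lit 2539209764) (nat_lit 0) (nat_lit 8733117972) (nat_lit 76) (nat_lit 8733117972) (nat_lit 170) (nat_lit 3) (nat_lit 169) (nat_lit 1) (nat_lit 170) (nat_lit 1) (nat_lit 294) (nat_lit 406) (nat_lit 320)))) (XT.nd (nat_lit 78) (nat_lit 76) (nat_lit 0) (XT.lf (nat_lit 152) (nat_lit 15874416004) (nat_lit 0) (nat_lit 1902890386) (nat_lit 76) (nat_lit 1902890386) (nat_lit 169) (nat_lit 1) (nat_lit 167) (nat_lit 1) (nat_lit 168) (nat_lit 1) (nat_lit 295) (nat_lit 406) (nat_lit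 319)) (XT.nd (nat_lit 78) (nat_lit 76) (nat_lit 0) (XT.lf (nat_lit 0) (nat_lit 4668541691) (nat_lit 0) (nat_lit 10019072482) (nat_lit 152) (nat_lit 4668541691) (nat_lit 167) (nat_lit 3) (nat_lit 167) (nat_lit 1) (nat_lit 169) (nat_lit 1) (nat_lit 296) (nat_lit 406) (nat_lit 318)) (XT.lf (nat_lit 76) (nat_lit 2949454369) (nat_lit 0) (nat_lit 8045197981) (nat_lit 76) (nat_lit 8045197981) (nat_lit 167) (nat_lit 3) (nat_lit 166) (nat_lit 1) (nat_lit 167) (nat_lit 1) (nat_lit 297) (nat_lit 406) (nat_lit 317))))) (XT.nd (nat_lit 234) (nat_lit 380) (nat_lit 0) (XT.nd (nat_lit 78) (nat_lit 76) (nat_lit 0) (XT.lf (nat_lit 152) (nat_lit 15600268626) (nat_lit 0) (nat_lit 1565512630) (nat_lit 76) (nat_lit 1565512630) (nat_lit 166) (nat_lit 1) (nat_lit 164) (nat_lit 1) (nat_lit 165) (nat_lit 1) (nat_lit 298) (nat_lit 406) (nat_lit 316)) (XT.nd (nat_lit 78) (nat_lit 76) (nat_lit 0) (XT.lf (nat_lit 0) (nat_lit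 4673721554) (nat_lit 0) (nat_lit 9075616478) (nat_lit 152) (nat_lit 4673721554) (nat_lit 164) (nat_lit 3) (nat_lit 164) (nat_lit 1) (nat_lit 166) (nat_lit 1) (nat_lit 299) (nat_lit 406) (nat_lit 315)) (XT.lf (nat_lit 76) (nat_lit 3245990278) (nat_lit 0) (nat_lit 7438271158) (nat_lit 76) (nat_lit 7438271158) (nat_lit 164) (nat_lit 3) (nat_lit 163) (nat_lit 1) (nat_lit 164) (nat_lit 1) (nat_lit 300) (nat_lit 406) (nat_lit 314)))) (XT.nd (nat_lit 156) (nat_lit 228) (nat_lit 0) (XT.nd (nat_lit 78) (nat_lit 0) (nat_lit 0) (XT.lf (nat_lit 152) (nat_lit 15253757980) (nat_lit 0) (nat_lit 1287951115) (nat_lit 76) (nat_lit 1287951115) (nat_lit 163) (nat_lit 1) (nat_lit 161) (nat_lit 1) (nat_lit 162) (nat_lit 1) (nat_lit 301) (nat_lit 406) (nat_lit 313)) (XT.lf (nat_lit 0) (nat_lit 4638321101) (nat_lit 0) (nat_lit 8259770948) (nat_lit 152) (nat_lit 4638321101) (nat_lit 161) (nat_lit 3) (nat_lit 161) (nat_lit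 1) (nat_lit 163) (nat_lit 1) (nat_lit 302) (nat_lit 406) (nat_lit 312))) (XT.nd (nat_lit 78) (nat_lit 152) (nat_lit 0) (XT.lf (nat_lit 76) (nat_lit 3450928872) (nat_lit 0) (nat_lit 6899928726) (nat_lit 76) (nat_lit 6899928726) (nat_lit 161) (nat_lit 3) (nat_lit 160) (nat_lit 1) (nat_lit 161) (nat_lit 1) (nat_lit 303) (nat_lit 406) (nat_lit 311)) (XT.lf (nat_lit 152) (nat_lit 14853474321) (nat_lit 0) (nat_lit 1059600569) (nat_lit 76) (nat_lit 1059600569) (nat_lit 160) (nat_lit 1) (nat_lit 158) (nat_lit 1) (nat_lit 159) (nat_lit 1) (nat_lit 304) (nat_lit 406) (nat_lit 310))))))) (XT.nd (nat_lit 936) (nat_lit 912) (nat_lit 0) (XT.nd (nat_lit 468) (nat_lit 456) (nat_lit 0) (XT.nd (nat_lit 234) (nat_lit 228) (nat_lit 0) (XT.nd (nat_lit 78) (nat_lit 228) (nat_lit 0) (XT.lf (nat_lit 0) (nat_lit 4571423783) (nat_lit 0) (nat_lit 7550799535) (nat_lit 152) (nat_lit 4571423783) (nat_lit 158) (nat_lit 3) (nat_lit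 158) (nat_lit 1) (nat_lit 160) (nat_lit 1) (nat_lit 305) (nat_lit 406) (nat_lit 309)) (XT.nd (nat_lit 78) (nat_lit 152) (nat_lit 0) (XT.lf (nat_lit 76) (nat_lit 3582368330) (nat_lit 0) (nat_lit 6419869046) (nat_lit 76) (nat_lit 6419869046) (nat_lit 158) (nat_lit 3) (nat_lit 157) (nat_lit 1) (nat_lit 158) (nat_lit 1) (nat_lit 306) (nat_lit 406) (nat_lit 308)) (XT.lf (nat_lit 152) (nat_lit 14414437589) (nat_lit 0) (nat_lit 871736011) (nat_lit 76) (nat_lit 871736011) (nat_lit 157) (nat_lit 1) (nat_lit 155) (nat_lit 1) (nat_lit 156) (nat_lit 1) (nat_lit 307) (nat_lit 406) (nat_lit 307)))) (XT.nd (nat_lit 78) (nat_lit 228) (nat_lit 0) (XT.lf (nat_lit 0) (nat_lit 4480412645) (nat_lit 0) (nat_lit 6931552449) (nat_lit 152) (nat_lit 4480412645) (nat_lit 155) (nat_lit 3) (nat_lit 155) (nat_lit 1) (nat_lit 157) (nat_lit 1) (nat_lit 308) (nat_lit 406) (nat_lit 306)) (XT.nd (nat_lit 78) (nat_lit 152) (nat_lit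 0) (XT.lf (nat_lit 76) (nat_lit 3655109582) (nat_lit 0) (nat_lit 5989528444) (nat_lit 76) (nat_lit 5989528444) (nat_lit 155) (nat_lit 3) (nat_lit 154) (nat_lit 1) (nat_lit 155) (nat_lit 1) (nat_lit 309) (nat_lit 406) (nat_lit 305)) (XT.lf (nat_lit 152) (nat_lit 13948743482) (nat_lit 0) (nat_lit 717179373) (nat_lit 76) (nat_lit 717179373) (nat_lit 154) (nat_lit 1) (nat_lit 152) (nat_lit 1) (nat_lit 153) (nat_lit 1) (nat_lit 310) (nat_lit 406) (nat_lit 304))))) (XT.nd (nat_lit 234) (nat_lit 228) (nat_lit 0) (XT.nd (nat_lit 78) (nat_lit 228) (nat_lit 0) (XT.lf (nat_lit 0) (nat_lit 4371276081) (nat_lit 0) (nat_lit 6387834864) (nat_lit 152) (nat_lit 4371276081) (nat_lit 152) (nat_lit 3) (nat_lit 152) (nat_lit 1) (nat_lit 154) (nat_lit 1) (nat_lit 311) (nat_lit 406) (nat_lit 303)) (XT.nd (nat_lit 78) (nat_lit 152) (nat_lit 0) (XT.lf (nat_lit 76) (nat_lit 3681245120) (nat_lit 0) (nat_lit 5601777294) (nat_lit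 76) (nat_lit 5601777294) (nat_lit 152) (nat_lit 3) (nat_lit 151) (nat_lit 1) (nat_lit 152) (nat_lit 1) (nat_lit 312) (nat_lit 406) (nat_lit 302)) (XT.lf (nat_lit 152) (nat_lit 13466094359) (nat_lit 0) (nat_lit 590025245) (nat_lit 76) (nat_lit 590025245) (nat_lit 151) (nat_lit 1) (nat_lit 149) (nat_lit 1) (nat_lit 150) (nat_lit 1) (nat_lit 313) (nat_lit 406) (nat_lit 301)))) (XT.nd (nat_lit 78) (nat_lit 228) (nat_lit 0) (XT.lf (nat_lit 0) (nat_lit 4248859183) (nat_lit 0) (nat_lit 5907887084) (nat_lit 152) (nat_lit 4248859183) (nat_lit 149) (nat_lit 3) (nat_lit 149) (nat_lit 1) (nat_lit 151) (nat_lit 1) (nat_lit 314) (nat_lit 406) (nat_lit 300)) (XT.nd (nat_lit 78) (nat_lit 152) (nat_lit 0) (XT.lf (nat_lit 76) (nat_lit 3670643205) (nat_lit 0) (nat_lit 5250669778) (nat_lit 76) (nat_lit 5250669778) (nat_lit 149) (nat_lit 3) (nat_lit 148) (nat_lit 1) (nat_lit 149) (nat_lit 1) (nat_lit 315) (nat_lit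 406) (nat_lit 299)) (XT.lf (nat_lit 152) (nat_lit 12974235418) (nat_lit 0) (nat_lit 485415229) (nat_lit 76) (nat_lit 485415229) (nat_lit 148) (nat_lit 1) (nat_lit 146) (nat_lit 1) (nat_lit 147) (nat_lit 1) (nat_lit 316) (nat_lit 406) (nat_lit 298)))))) (XT.nd (nat_lit 468) (nat_lit 456) (nat_lit 0) (XT.nd (nat_lit 234) (nat_lit 228) (nat_lit 0) (XT.nd (nat_lit 78) (nat_lit 228) (nat_lit 0) (XT.lf (nat_lit 0) (nat_lit 4117070330) (nat_lit 0) (nat_lit 5481956690) (nat_lit 152) (nat_lit 4117070330) (nat_lit 146) (nat_lit 3) (nat_lit 146) (nat_lit 1) (nat_lit 148) (nat_lit 1) (nat_lit 317) (nat_lit 406) (nat_lit 297)) (XT.nd (nat_lit 78) (nat_lit 152) (nat_lit 0) (XT.lf (nat_lit 76) (nat_lit 3631346043) (nat_lit 0) (nat_lit 4931237815) (nat_lit 76) (nat_lit 4931237815) (nat_lit 146) (nat_lit 3) (nat_lit 145) (nat_lit 1) (nat_lit 146) (nat_lit 1) (nat_lit 318) (nat_lit 406) (nat_lit 296)) (XT.lf (nat_lit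 152) (nat_lit 12479312980) (nat_lit 0) (nat_lit 399352310) (nat_lit 76) (nat_lit 399352310) (nat_lit 145) (nat_lit 1) (nat_lit 143) (nat_lit 1) (nat_lit 144) (nat_lit 1) (nat_lit 319) (nat_lit 406) (nat_lit 295)))) (XT.nd (nat_lit 78) (nat_lit 228) (nat_lit 0) (XT.lf (nat_lit 0) (nat_lit 3979050963) (nat_lit 0) (nat_lit 5101946350) (nat_lit 152) (nat_lit 3979050963) (nat_lit 143) (nat_lit 3) (nat_lit 143) (nat_lit 1) (nat_lit 145) (nat_lit 1) (nat_lit 320) (nat_lit 406) (nat_lit 294)) (XT.nd (nat_lit 78) (nat_lit 152) (nat_lit 0) (XT.lf (nat_lit 76) (nat_lit 3569897181) (nat_lit 0) (nat_lit 4639321358) (nat_lit 76) (nat_lit 4639321358) (nat_lit 143) (nat_lit 3) (nat_lit 142) (nat_lit 1) (nat_lit 143) (nat_lit 1) (nat_lit 321) (nat_lit 406) (nat_lit 293)) (XT.lf (nat_lit 152) (nat_lit 11986168714) (nat_lit 0) (nat_lit 328548134) (nat_lit 76) (nat_lit 328548134) (nat_lit 142) (nat_lit 1) (nat_lit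 140) (nat_lit 1) (nat_lit 141) (nat_lit 1) (nat_lit 322) (nat_lit 406) (nat_lit 292))))) (XT.nd (nat_lit 234) (nat_lit 228) (nat_lit 0) (XT.nd (nat_lit 78) (nat_lit 228) (nat_lit 0) (XT.lf (nat_lit 0) (nat_lit 3837315088) (nat_lit 0) (nat_lit 4761123902) (nat_lit 152) (nat_lit 3837315088) (nat_lit 140) (nat_lit 3) (nat_lit 140) (nat_lit 1) (nat_lit 142) (nat_lit 1) (nat_lit 323) (nat_lit 406) (nat_lit 291)) (XT.nd (nat_lit 78) (nat_lit 152) (nat_lit 0) (XT.lf (nat_lit 76) (nat_lit 3491610678) (nat_lit 0) (nat_lit 4371428595) (nat_lit 76) (nat_lit 4371428595) (nat_lit 140) (nat_lit 3) (nat_lit 139) (nat_lit 1) (nat_lit 140) (nat_lit 1) (nat_lit 324) (nat_lit 406) (nat_lit 290)) (XT.lf (nat_lit 152) (nat_lit 11498581180) (nat_lit 0) (nat_lit 270297363) (nat_lit 76) (nat_lit 270297363) (nat_lit 139) (nat_lit 1) (nat_lit 137) (nat_lit 1) (nat_lit 138) (nat_lit 1) (nat_lit 325) (nat_lit 406) (nat_lit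 289)))) (XT.nd (nat_lit 156) (nat_lit 152) (nat_lit 0) (XT.nd (nat_lit 78) (nat_lit 76) (nat_lit 0) (XT.lf (nat_lit 0) (nat_lit 3693863871) (nat_lit 0) (nat_lit 4453883668) (nat_lit 152) (nat_lit 3693863871) (nat_lit 137) (nat_lit 3) (nat_lit 137) (nat_lit 1) (nat_lit 139) (nat_lit 1) (nat_lit 326) (nat_lit 406) (nat_lit 288)) (XT.lf (nat_lit 76) (nat_lit 3400792396) (nat_lit 0) (nat_lit 4124620774) (nat_lit 76) (nat_lit 4124620774) (nat_lit 137) (nat_lit 3) (nat_lit 136) (nat_lit 1) (nat_lit 137) (nat_lit 1) (nat_lit 327) (nat_lit 406) (nat_lit 287))) (XT.nd (nat_lit 78) (nat_lit 0) (nat_lit 0) (XT.lf (nat_lit 152) (nat_lit 11019464065) (nat_lit 0) (nat_lit 222374309) (nat_lit 76) (nat_lit 222374309) (nat_lit 136) (nat_lit 1) (nat_lit 134) (nat_lit 1) (nat_lit 135) (nat_lit 1) (nat_lit 328) (nat_lit 406) (nat_lit 286)) (XT.lf (nat_lit 0) (nat_lit 3550279758) (nat_lit 0) (nat_lit 4175549926) (nat_lit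 152) (nat_lit 3550279758) (nat_lit 134) (nat_lit 3) (nat_lit 134) (nat_lit 1) (nat_lit 136) (nat_lit 1) (nat_lit 329) (nat_lit 406) (nat_lit 285))))))))
noncomputable def ec285 : XT := (XT.nd (nat_lit 1950) (nat_lit 1976) (nat_lit 0) (XT.nd (nat_lit 936) (nat_lit 988) (nat_lit 0) (XT.nd (nat_lit 468) (nat_lit 456) (nat_lit 0) (XT.nd (nat_lit 234) (nat_lit 228) (nat_lit 0) (XT.nd (nat_lit 78) (nat_lit 152) (nat_lit 0) (XT.lf (nat_lit 76) (nat_lit 3300921892) (nat_lit 0) (nat_lit 3896417290) (nat_lit 76) (nat_lit 3896417290) (nat_lit 134) (nat_lit 3) (nat_lit 133) (nat_lit 1) (nat_lit 134) (nat_lit 1) (nat_lit 330) (nat_lit 406) (nat_lit 284)) (XT.nd (nat_lit 78) (nat_lit 0) (nat_lit 0) (XT.lf (nat_lit 152) (nat_lit 10551028807) (nat_lit 0) (nat_lit 182947894) (nat_lit 76) (nat_lit 182947894) (nat_lit 133) (nat_lit 1) (nat_lit 131) (nat_lit 1) (nat_lit 132) (nat_lit 1) (nat_lit 331) (nat_lit 406)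 (nat_lit 283)) (XT.lf (nat_lit 0) (nat_lit 3407803763) (nat_lit 0) (nat_lit 3922215077) (nat_lit 152) (nat_lit 3407803763) (nat_lit 131) (nat_lit 3) (nat_lit 131) (nat_lit 1) (nat_lit 133) (nat_lit 1) (nat_lit 332) (nat_lit 406) (nat_lit 282)))) (XT.nd (nat_lit 78) (nat_lit 152) (nat_lit 0) (XT.lf (nat_lit 76) (nat_lit 3194801916) (nat_lit 0) (nat_lit 3684717453) (nat_lit 76) (nat_lit 3684717453) (nat_lit 131) (nat_lit 3) (nat_lit 130) (nat_lit 1) (nat_lit 131) (nat_lit 1) (nat_lit 333) (nat_lit 406) (nat_lit 281)) (XT.nd (nat_lit 78) (nat_lit 0) (nat_lit 0) (XT.lf (nat_lit 152) (nat_lit 10094917939) (nat_lit 0) (nat_lit 150511685) (nat_lit 76) (nat_lit 150511685) (nat_lit 130) (nat_lit 1) (nat_lit 128) (nat_lit 1) (nat_lit 129) (nat_lit 1) (nat_lit 334) (nat_lit 406) (nat_lit 280)) (XT.lf (nat_lit 0) (nat_lit 3267398894) (nat_lit 0) (nat_lit 3690606355) (nat_lit 152) (nat_lit 3267398894) (nat_lit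 128) (nat_lit 3) (nat_lit 128) (nat_lit 1) (nat_lit 130) (nat_lit 1) (nat_lit 335) (nat_lit 406) (nat_lit 279))))) (XT.nd (nat_lit 234) (nat_lit 228) (nat_lit 0) (XT.nd (nat_lit 78) (nat_lit 152) (nat_lit 0) (XT.lf (nat_lit 76) (nat_lit 3084681258) (nat_lit 0) (nat_lit 3487735983) (nat_lit 76) (nat_lit 3487735983) (nat_lit 128) (nat_lit 3) (nat_lit 127) (nat_lit 1) (nat_lit 128) (nat_lit 1) (nat_lit 336) (nat_lit 406) (nat_lit 278)) (XT.nd (nat_lit 78) (nat_lit 0) (nat_lit 0) (XT.lf (nat_lit 152) (nat_lit 9652314379) (nat_lit 0) (nat_lit 123826336) (nat_lit 76) (nat_lit 123826336) (nat_lit 127) (nat_lit 1) (nat_lit 125) (nat_lit 1) (nat_lit 126) (nat_lit 1) (nat_lit 337) (nat_lit 406) (nat_lit 277)) (XT.lf (nat_lit 0) (nat_lit 3129802207) (nat_lit 0) (nat_lit 3477976033) (nat_lit 152) (nat_lit 3129802207) (nat_lit 125) (nat_lit 3) (nat_lit 125) (nat_lit 1) (nat_lit 127) (nat_lit 1) (nat_lit 338)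 (nat_lit 406) (nat_lit 276)))) (XT.nd (nat_lit 78) (nat_lit 152) (nat_lit 0) (XT.lf (nat_lit 76) (nat_lit 2972355682) (nat_lit 0) (nat_lit 3303949802) (nat_lit 76) (nat_lit 3303949802) (nat_lit 125) (nat_lit 3) (nat_lit 124) (nat_lit 1) (nat_lit 125) (nat_lit 1) (nat_lit 339) (nat_lit 406) (nat_lit 275)) (XT.nd (nat_lit 78) (nat_lit 0) (nat_lit 0) (XT.lf (nat_lit 152) (nat_lit 9224030934) (nat_lit 0) (nat_lit 101872233) (nat_lit 76) (nat_lit 101872233) (nat_lit 124) (nat_lit 1) (nat_lit 122) (nat_lit 1) (nat_lit 123) (nat_lit 1) (nat_lit 340) (nat_lit 406) (nat_lit 274)) (XT.lf (nat_lit 0) (nat_lit 2995567499) (nat_lit 0) (nat_lit 3282010968) (nat_lit 152) (nat_lit 2995567499) (nat_lit 122) (nat_lit 3) (nat_lit 122) (nat_lit 1) (nat_lit 124) (nat_lit 1) (nat_lit 341) (nat_lit 406) (nat_lit 273)))))) (XT.nd (nat_lit 468) (nat_lit 532) (nat_lit 0) (XT.nd (nat_lit 234) (nat_lit 228) (nat_lit 0) (XT.nd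 (nat_lit 78) (nat_lit 152) (nat_lit 0) (XT.lf (nat_lit 76) (nat_lit 2859250829) (nat_lit 0) (nat_lit 3132054132) (nat_lit 76) (nat_lit 3132054132) (nat_lit 122) (nat_lit 3) (nat_lit 121) (nat_lit 1) (nat_lit 122) (nat_lit 1) (nat_lit 342) (nat_lit 406) (nat_lit 272)) (XT.nd (nat_lit 78) (nat_lit 0) (nat_lit 0) (XT.lf (nat_lit 152) (nat_lit 8810583560) (nat_lit 0) (nat_lit 83810538) (nat_lit 76) (nat_lit 83810538) (nat_lit 121) (nat_lit 1) (nat_lit 119) (nat_lit 1) (nat_lit 120) (nat_lit 1) (nat_lit 343) (nat_lit 406) (nat_lit 271)) (XT.lf (nat_lit 0) (nat_lit 2865100298) (nat_lit 0) (nat_lit 3100758048) (nat_lit 152) (nat_lit 2865100298) (nat_lit 119) (nat_lit 3) (nat_lit 119) (nat_lit 1) (nat_lit 121) (nat_lit 1) (nat_lit 344) (nat_lit 406) (nat_lit 270)))) (XT.nd (nat_lit 78) (nat_lit 152) (nat_lit 0) (XT.lf (nat_lit 76) (nat_lit 2746490308) (nat_lit 0) (nat_lit 2970926261) (nat_lit 76) (nat_lit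 2970926261) (nat_lit 119) (nat_lit 3) (nat_lit 118) (nat_lit 1) (nat_lit 119) (nat_lit 1) (nat_lit 345) (nat_lit 406) (nat_lit 269)) (XT.nd (nat_lit 78) (nat_lit 0) (nat_lit 0) (XT.lf (nat_lit 152) (nat_lit 8412251265) (nat_lit 0) (nat_lit 68951137) (nat_lit 76) (nat_lit 68951137) (nat_lit 118) (nat_lit 1) (nat_lit 116) (nat_lit 1) (nat_lit 117) (nat_lit 1) (nat_lit 346) (nat_lit 406) (nat_lit 268)) (XT.lf (nat_lit 0) (nat_lit 2738686537) (nat_lit 0) (nat_lit 2932562751) (nat_lit 152) (nat_lit 2738686537) (nat_lit 116) (nat_lit 3) (nat_lit 116) (nat_lit 1) (nat_lit 118) (nat_lit 1) (nat_lit 347) (nat_lit 406) (nat_lit 267))))) (XT.nd (nat_lit 234) (nat_lit 304) (nat_lit 0) (XT.nd (nat_lit 78) (nat_lit 152) (nat_lit 0) (XT.lf (nat_lit 76) (nat_lit 2634951588) (nat_lit 0) (nat_lit 2819595602) (nat_lit 76) (nat_lit 2819595602) (nat_lit 116) (nat_lit 3) (nat_lit 115) (nat_lit 1) (nat_lit 116) (nat_lit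 1) (nat_lit 348) (nat_lit 406) (nat_lit 266)) (XT.nd (nat_lit 78) (nat_lit 0) (nat_lit 0) (XT.lf (nat_lit 152) (nat_lit 8029125043) (nat_lit 0) (nat_lit 56726271) (nat_lit 76) (nat_lit 56726271) (nat_lit 115) (nat_lit 1) (nat_lit 113) (nat_lit 1) (nat_lit 114) (nat_lit 1) (nat_lit 349) (nat_lit 406) (nat_lit 265)) (XT.lf (nat_lit 0) (nat_lit 2616516030) (nat_lit 0) (nat_lit 2776018472) (nat_lit 152) (nat_lit 2616516030) (nat_lit 113) (nat_lit 3) (nat_lit 113) (nat_lit 1) (nat_lit 115) (nat_lit 1) (nat_lit 350) (nat_lit 406) (nat_lit 264)))) (XT.nd (nat_lit 156) (nat_lit 76) (nat_lit 0) (XT.nd (nat_lit 78) (nat_lit 152) (nat_lit 0) (XT.lf (nat_lit 76) (nat_lit 2525311873) (nat_lit 0) (nat_lit 2677218960) (nat_lit 76) (nat_lit 2677218960) (nat_lit 113) (nat_lit 3) (nat_lit 112) (nat_lit 1) (nat_lit 113) (nat_lit 1) (nat_lit 351) (nat_lit 406) (nat_lit 263)) (XT.lf (nat_lit 152) (nat_lit 7661147814)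 (nat_lit 0) (nat_lit 46668843) (nat_lit 76) (nat_lit 46668843) (nat_lit 112) (nat_lit 1) (nat_lit 110) (nat_lit 1) (nat_lit 111) (nat_lit 1) (nat_lit 352) (nat_lit 406) (nat_lit 262))) (XT.nd (nat_lit 78) (nat_lit 76) (nat_lit 0) (XT.lf (nat_lit 0) (nat_lit 2498701679) (nat_lit 0) (nat_lit 2629924733) (nat_lit 152) (nat_lit 2498701679) (nat_lit 110) (nat_lit 3) (nat_lit 110) (nat_lit 1) (nat_lit 112) (nat_lit 1) (nat_lit 353) (nat_lit 406) (nat_lit 261)) (XT.lf (nat_lit 76) (nat_lit 2418085737) (nat_lit 0) (nat_lit 2543060074) (nat_lit 76) (nat_lit 2543060074) (nat_lit 110) (nat_lit 3) (nat_lit 109) (nat_lit 1) (nat_lit 110) (nat_lit 1) (nat_lit 354) (nat_lit 406) (nat_lit 260))))))) (XT.nd (nat_lit 1014) (nat_lit 912) (nat_lit 0) (XT.nd (nat_lit 468) (nat_lit 608) (nat_lit 0) (XT.nd (nat_lit 234) (nat_lit 228) (nat_lit 0) (XT.nd (nat_lit 78) (nat_lit 76) (nat_lit 0) (XT.lf (nat_lit 152) (nat_lit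 7308146953) (nat_lit 0) (nat_lit 38394573) (nat_lit 76) (nat_lit 38394573) (nat_lit 109) (nat_lit 1) (nat_lit 107) (nat_lit 1) (nat_lit 108) (nat_lit 1) (nat_lit 355) (nat_lit 406) (nat_lit 259)) (XT.nd (nat_lit 78) (nat_lit 76) (nat_lit 0) (XT.lf (nat_lit 0) (nat_lit 2385295166) (nat_lit 0) (nat_lit 2493252696) (nat_lit 152) (nat_lit 2385295166) (nat_lit 107) (nat_lit 3) (nat_lit 107) (nat_lit 1) (nat_lit 109) (nat_lit 1) (nat_lit 356) (nat_lit 406) (nat_lit 258)) (XT.lf (nat_lit 76) (nat_lit 2313655987) (nat_lit 0) (nat_lit 2416472683) (nat_lit 76) (nat_lit 2416472683) (nat_lit 107) (nat_lit 3) (nat_lit 106) (nat_lit 1) (nat_lit 107) (nat_lit 1) (nat_lit 357) (nat_lit 406) (nat_lit 257)))) (XT.nd (nat_lit 78) (nat_lit 76) (nat_lit 0) (XT.lf (nat_lit 152) (nat_lit 6969860762) (nat_lit 0) (nat_lit 31587310) (nat_lit 76) (nat_lit 31587310) (nat_lit 106) (nat_lit 1) (nat_lit 104) (nat_lit 1) (nat_lit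 105) (nat_lit 1) (nat_lit 358) (nat_lit 406) (nat_lit 256)) (XT.nd (nat_lit 78) (nat_lit 76) (nat_lit 0) (XT.lf (nat_lit 0) (nat_lit 2276299770) (nat_lit 0) (nat_lit 2365116697) (nat_lit 152) (nat_lit 2276299770) (nat_lit 104) (nat_lit 3) (nat_lit 104) (nat_lit 1) (nat_lit 106) (nat_lit 1) (nat_lit 359) (nat_lit 406) (nat_lit 255)) (XT.lf (nat_lit 76) (nat_lit 2212298951) (nat_lit 0) (nat_lit 2296886501) (nat_lit 76) (nat_lit 2296886501) (nat_lit 104) (nat_lit 3) (nat_lit 103) (nat_lit 1) (nat_lit 104) (nat_lit 1) (nat_lit 360) (nat_lit 406) (nat_lit 254))))) (XT.nd (nat_lit 234) (nat_lit 380) (nat_lit 0) (XT.nd (nat_lit 78) (nat_lit 76) (nat_lit 0) (XT.lf (nat_lit 152) (nat_lit 6645959963) (nat_lit 0) (nat_lit 25986958) (nat_lit 76) (nat_lit 25986958) (nat_lit 103) (nat_lit 1) (nat_lit 101) (nat_lit 1) (nat_lit 102) (nat_lit 1) (nat_lit 361) (nat_lit 406) (nat_lit 253)) (XT.nd (nat_lit 78) (nat_lit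 76) (nat_lit 0) (XT.lf (nat_lit 0) (nat_lit 2171680819) (nat_lit 0) (nat_lit 2244750725) (nat_lit 152) (nat_lit 2171680819) (nat_lit 101) (nat_lit 3) (nat_lit 101) (nat_lit 1) (nat_lit 103) (nat_lit 1) (nat_lit 362) (nat_lit 406) (nat_lit 252)) (XT.lf (nat_lit 76) (nat_lit 2114205197) (nat_lit 0) (nat_lit 2183795584) (nat_lit 76) (nat_lit 2183795584) (nat_lit 101) (nat_lit 3) (nat_lit 100) (nat_lit 1) (nat_lit 101) (nat_lit 1) (nat_lit 363) (nat_lit 406) (nat_lit 251)))) (XT.nd (nat_lit 156) (nat_lit 228) (nat_lit 0) (XT.nd (nat_lit 78) (nat_lit 0) (nat_lit 0) (XT.lf (nat_lit 152) (nat_lit 6336065103) (nat_lit 0) (nat_lit 21379535) (nat_lit 76) (nat_lit 21379535) (nat_lit 100) (nat_lit 1) (nat_lit 98) (nat_lit 1) (nat_lit 99) (nat_lit 1) (nat_lit 364) (nat_lit 406) (nat_lit 250)) (XT.lf (nat_lit 0) (nat_lit 2071374199) (nat_lit 0) (nat_lit 2131488992) (nat_lit 152) (nat_lit 2071374199) (nat_lit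 98) (nat_lit 3) (nat_lit 98) (nat_lit 1) (nat_lit 100) (nat_lit 1) (nat_lit 365) (nat_lit 406) (nat_lit 249))) (XT.nd (nat_lit 78) (nat_lit 152) (nat_lit 0) (XT.lf (nat_lit 76) (nat_lit 2019496491) (nat_lit 0) (nat_lit 2076748675) (nat_lit 76) (nat_lit 2076748675) (nat_lit 98) (nat_lit 3) (nat_lit 97) (nat_lit 1) (nat_lit 98) (nat_lit 1) (nat_lit 366) (nat_lit 406) (nat_lit 248)) (XT.lf (nat_lit 152) (nat_lit 6039760626) (nat_lit 0) (nat_lit 17588996) (nat_lit 76) (nat_lit 17588996) (nat_lit 97) (nat_lit 1) (nat_lit 95) (nat_lit 1) (nat_lit 96) (nat_lit 1) (nat_lit 367) (nat_lit 406) (nat_lit 247)))))) (XT.nd (nat_lit 468) (nat_lit 456) (nat_lit 0) (XT.nd (nat_lit 234) (nat_lit 228) (nat_lit 0) (XT.nd (nat_lit 78) (nat_lit 228) (nat_lit 0) (XT.lf (nat_lit 0) (nat_lit 1975293265) (nat_lit 0) (nat_lit 2024749854) (nat_lit 152) (nat_lit 1975293265) (nat_lit 95) (nat_lit 3) (nat_lit 95) (nat_lit 1)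 (nat_lit 97) (nat_lit 1) (nat_lit 368) (nat_lit 406) (nat_lit 246)) (XT.nd (nat_lit 78) (nat_lit 152) (nat_lit 0) (XT.lf (nat_lit 76) (nat_lit 1928239660) (nat_lit 0) (nat_lit 1975341173) (nat_lit 76) (nat_lit 1975341173) (nat_lit 95) (nat_lit 3) (nat_lit 94) (nat_lit 1) (nat_lit 95) (nat_lit 1) (nat_lit 369) (nat_lit 406) (nat_lit 245)) (XT.lf (nat_lit 152) (nat_lit 5756606191) (nat_lit 0) (nat_lit 14470510) (nat_lit 76) (nat_lit 14470510) (nat_lit 94) (nat_lit 1) (nat_lit 92) (nat_lit 1) (nat_lit 93) (nat_lit 1) (nat_lit 370) (nat_lit 406) (nat_lit 244)))) (XT.nd (nat_lit 78) (nat_lit 228) (nat_lit 0) (XT.lf (nat_lit 0) (nat_lit 1883334453) (nat_lit 0) (nat_lit 1924022511) (nat_lit 152) (nat_lit 1883334453) (nat_lit 92) (nat_lit 3) (nat_lit 92) (nat_lit 1) (nat_lit 94) (nat_lit 1) (nat_lit 371) (nat_lit 406) (nat_lit 243)) (XT.nd (nat_lit 78) (nat_lit 152) (nat_lit 0) (XT.lf (nat_lit 76) (nat_lit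 1840457920) (nat_lit 0) (nat_lit 1879208451) (nat_lit 76) (nat_lit 1879208451) (nat_lit 92) (nat_lit 3) (nat_lit 91) (nat_lit 1) (nat_lit 92) (nat_lit 1) (nat_lit 372) (nat_lit 406) (nat_lit 242)) (XT.lf (nat_lit 152) (nat_lit 5486145756) (nat_lit 0) (nat_lit 11904925) (nat_lit 76) (nat_lit 11904925) (nat_lit 91) (nat_lit 1) (nat_lit 89) (nat_lit 1) (nat_lit 90) (nat_lit 1) (nat_lit 373) (nat_lit 406) (nat_lit 241))))) (XT.nd (nat_lit 234) (nat_lit 228) (nat_lit 0) (XT.nd (nat_lit 78) (nat_lit 228) (nat_lit 0) (XT.lf (nat_lit 0) (nat_lit 1795381816) (nat_lit 0) (nat_lit 1828855982) (nat_lit 152) (nat_lit 1795381816) (nat_lit 89) (nat_lit 3) (nat_lit 89) (nat_lit 1) (nat_lit 91) (nat_lit 1) (nat_lit 374) (nat_lit 406) (nat_lit 240)) (XT.nd (nat_lit 78) (nat_lit 152) (nat_lit 0) (XT.lf (nat_lit 76) (nat_lit 1756140123) (nat_lit 0) (nat_lit 1788020281) (nat_lit 76) (nat_lit 1788020281) (nat_lit 89)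 (nat_lit 3) (nat_lit 88) (nat_lit 1) (nat_lit 89) (nat_lit 1) (nat_lit 375) (nat_lit 406) (nat_lit 239)) (XT.lf (nat_lit 152) (nat_lit 5227914831) (nat_lit 0) (nat_lit 9794211) (nat_lit 76) (nat_lit 9794211) (nat_lit 88) (nat_lit 1) (nat_lit 86) (nat_lit 1) (nat_lit 87) (nat_lit 1) (nat_lit 376) (nat_lit 406) (nat_lit 238)))) (XT.nd (nat_lit 156) (nat_lit 152) (nat_lit 0) (XT.nd (nat_lit 78) (nat_lit 76) (nat_lit 0) (XT.lf (nat_lit 0) (nat_lit 1711310683) (nat_lit 0) (nat_lit 1738849962) (nat_lit 152) (nat_lit 1711310683) (nat_lit 86) (nat_lit 3) (nat_lit 86) (nat_lit 1) (nat_lit 88) (nat_lit 1) (nat_lit 377) (nat_lit 406) (nat_lit 237)) (XT.lf (nat_lit 76) (nat_lit 1675248289) (nat_lit 0) (nat_lit 1701476174) (nat_lit 76) (nat_lit 1701476174) (nat_lit 86) (nat_lit 3) (nat_lit 85) (nat_lit 1) (nat_lit 86) (nat_lit 1) (nat_lit 378) (nat_lit 406) (nat_lit 236))) (XT.nd (nat_lit 78) (nat_lit 0) (nat_lit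 0) (XT.lf (nat_lit 152) (nat_lit 4981446221) (nat_lit 0) (nat_lit 8057721) (nat_lit 76) (nat_lit 8057721) (nat_lit 85) (nat_lit 1) (nat_lit 83) (nat_lit 1) (nat_lit 84) (nat_lit 1) (nat_lit 379) (nat_lit 406) (nat_lit 235)) (XT.lf (nat_lit 0) (nat_lit 1630990600) (nat_lit 0) (nat_lit 1653647233) (nat_lit 152) (nat_lit 1630990600) (nat_lit 83) (nat_lit 3) (nat_lit 83) (nat_lit 1) (nat_lit 85) (nat_lit 1) (nat_lit 380) (nat_lit 406) (nat_lit 234))))))))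
noncomputable def ec286 : XT := (XT.nd (nat_lit 1950) (nat_lit 1976) (nat_lit 0) (XT.nd (nat_lit 936) (nat_lit 988) (nat_lit 0) (XT.nd (nat_lit 468) (nat_lit 456) (nat_lit 0) (XT.nd (nat_lit 234) (nat_lit 228) (nat_lit 0) (XT.nd (nat_lit 78) (nat_lit 152) (nat_lit 0) (XT.lf (nat_lit 76) (nat_lit 1597723737) (nat_lit 0) (nat_lit 1619301483) (nat_lit 76) (nat_lit 1619301483) (nat_lit 83) (nat_lit 3) (nat_lit 82) (nat_lit 1) (nat_lit 83) (nat_lit 1) (nat_lit 381) (nat_lit 406) (nat_lit 233)) (XT.nd (nat_lit 78) (nat_lit 0) (nat_lit 0) (XT.lf (nat_lit 152) (nat_lit 4746274565) (nat_lit 0) (nat_lit 6629107) (nat_lit 76) (nat_lit 6629107) (nat_lit 82) (nat_lit 1) (nat_lit 80) (nat_lit 1) (nat_lit 81) (nat_lit 1) (nat_lit 382) (nat_lit 406) (nat_lit 232)) (XT.lf (nat_lit 0) (nat_lit 1554287685) (nat_lit 0) (nat_lit 1572927353) (nat_lit 152) (nat_lit 1554287685) (nat_lit 80) (nat_lit 3) (nat_lit 80) (nat_lit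 1) (nat_lit 82) (nat_lit 1) (nat_lit 383) (nat_lit 406) (nat_lit 231)))) (XT.nd (nat_lit 78) (nat_lit 152) (nat_lit 0) (XT.lf (nat_lit 76) (nat_lit 1523492056) (nat_lit 0) (nat_lit 1541244121) (nat_lit 76) (nat_lit 1541244121) (nat_lit 80) (nat_lit 3) (nat_lit 79) (nat_lit 1) (nat_lit 80) (nat_lit 1) (nat_lit 384) (nat_lit 406) (nat_lit 230)) (XT.nd (nat_lit 78) (nat_lit 0) (nat_lit 0) (XT.lf (nat_lit 152) (nat_lit 4521939860) (nat_lit 0) (nat_lit 5453783) (nat_lit 76) (nat_lit 5453783) (nat_lit 79) (nat_lit 1) (nat_lit 77) (nat_lit 1) (nat_lit 78) (nat_lit 1) (nat_lit 385) (nat_lit 406) (nat_lit 229)) (XT.lf (nat_lit 0) (nat_lit 1481066499) (nat_lit 0) (nat_lit 1496401400) (nat_lit 152) (nat_lit 1481066499) (nat_lit 77) (nat_lit 3) (nat_lit 77) (nat_lit 1) (nat_lit 79) (nat_lit 1) (nat_lit 386) (nat_lit 406) (nat_lit 228))))) (XT.nd (nat_lit 234) (nat_lit 228) (nat_lit 0) (XT.nd (nat_lit 78) (nat_lit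 152) (nat_lit 0) (XT.lf (nat_lit 76) (nat_lit 1452467146) (nat_lit 0) (nat_lit 1467071814) (nat_lit 76) (nat_lit 1467071814) (nat_lit 77) (nat_lit 3) (nat_lit 76) (nat_lit 1) (nat_lit 77) (nat_lit 1) (nat_lit 387) (nat_lit 406) (nat_lit 227)) (XT.nd (nat_lit 78) (nat_lit 0) (nat_lit 0) (XT.lf (nat_lit 152) (nat_lit 4307990189) (nat_lit 0) (nat_lit 4486841) (nat_lit 76) (nat_lit 4486841) (nat_lit 76) (nat_lit 1) (nat_lit 74) (nat_lit 1) (nat_lit 75) (nat_lit 1) (nat_lit 388) (nat_lit 406) (nat_lit 226)) (XT.lf (nat_lit 0) (nat_lit 1411191525) (nat_lit 0) (nat_lit 1423807586) (nat_lit 152) (nat_lit 1411191525) (nat_lit 74) (nat_lit 3) (nat_lit 74) (nat_lit 1) (nat_lit 76) (nat_lit 1) (nat_lit 389) (nat_lit 406) (nat_lit 225)))) (XT.nd (nat_lit 78) (nat_lit 152) (nat_lit 0) (XT.lf (nat_lit 76) (nat_lit 1384554469) (nat_lit 0) (nat_lit 1396569765) (nat_lit 76) (nat_lit 1396569765) (nat_lit 74) (nat_lit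 3) (nat_lit 73) (nat_lit 1) (nat_lit 74) (nat_lit 1) (nat_lit 390) (nat_lit 406) (nat_lit 224)) (XT.nd (nat_lit 78) (nat_lit 0) (nat_lit 0) (XT.lf (nat_lit 152) (nat_lit 4103983785) (nat_lit 0) (nat_lit 3691335) (nat_lit 76) (nat_lit 3691335) (nat_lit 73) (nat_lit 1) (nat_lit 71) (nat_lit 1) (nat_lit 72) (nat_lit 1) (nat_lit 391) (nat_lit 406) (nat_lit 223)) (XT.lf (nat_lit 0) (nat_lit 1344528332) (nat_lit 0) (nat_lit 1354907597) (nat_lit 152) (nat_lit 1344528332) (nat_lit 71) (nat_lit 3) (nat_lit 71) (nat_lit 1) (nat_lit 73) (nat_lit 1) (nat_lit 392) (nat_lit 406) (nat_lit 222)))))) (XT.nd (nat_lit 468) (nat_lit 532) (nat_lit 0) (XT.nd (nat_lit 234) (nat_lit 228) (nat_lit 0) (XT.nd (nat_lit 78) (nat_lit 152) (nat_lit 0) (XT.lf (nat_lit 76) (nat_lit 1319653677) (nat_lit 0) (nat_lit 1329538691) (nat_lit 76) (nat_lit 1329538691) (nat_lit 71) (nat_lit 3) (nat_lit 70) (nat_lit 1) (nat_lit 71) (nat_lit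 1) (nat_lit 393) (nat_lit 406) (nat_lit 221)) (XT.nd (nat_lit 78) (nat_lit 0) (nat_lit 0) (XT.lf (nat_lit 152) (nat_lit 3909490565) (nat_lit 0) (nat_lit 3036870) (nat_lit 76) (nat_lit 3036870) (nat_lit 70) (nat_lit 1) (nat_lit 68) (nat_lit 1) (nat_lit 69) (nat_lit 1) (nat_lit 394) (nat_lit 406) (nat_lit 220)) (XT.lf (nat_lit 0) (nat_lit 1280944474) (nat_lit 0) (nat_lit 1289483521) (nat_lit 152) (nat_lit 1280944474) (nat_lit 68) (nat_lit 3) (nat_lit 68) (nat_lit 1) (nat_lit 70) (nat_lit 1) (nat_lit 395) (nat_lit 406) (nat_lit 219)))) (XT.nd (nat_lit 78) (nat_lit 152) (nat_lit 0) (XT.lf (nat_lit 76) (nat_lit 1257660716) (nat_lit 0) (nat_lit 1265793142) (nat_lit 76) (nat_lit 1265793142) (nat_lit 68) (nat_lit 3) (nat_lit 67) (nat_lit 1) (nat_lit 68) (nat_lit 1) (nat_lit 396) (nat_lit 406) (nat_lit 218)) (XT.nd (nat_lit 78) (nat_lit 0) (nat_lit 0) (XT.lf (nat_lit 152) (nat_lit 3724093228) (nat_lit 0)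 (nat_lit 2498441) (nat_lit 76) (nat_lit 2498441) (nat_lit 67) (nat_lit 1) (nat_lit 65) (nat_lit 1) (nat_lit 66) (nat_lit 1) (nat_lit 397) (nat_lit 406) (nat_lit 217)) (XT.lf (nat_lit 0) (nat_lit 1220310177) (nat_lit 0) (nat_lit 1227335272) (nat_lit 152) (nat_lit 1220310177) (nat_lit 65) (nat_lit 3) (nat_lit 65) (nat_lit 1) (nat_lit 67) (nat_lit 1) (nat_lit 398) (nat_lit 406) (nat_lit 216))))) (XT.nd (nat_lit 234) (nat_lit 304) (nat_lit 0) (XT.nd (nat_lit 78) (nat_lit 152) (nat_lit 0) (XT.lf (nat_lit 76) (nat_lit 1198469508) (nat_lit 0) (nat_lit 1205160074) (nat_lit 76) (nat_lit 1205160074) (nat_lit 65) (nat_lit 3) (nat_lit 64) (nat_lit 1) (nat_lit 65) (nat_lit 1) (nat_lit 399) (nat_lit 406) (nat_lit 215)) (XT.nd (nat_lit 78) (nat_lit 0) (nat_lit 0) (XT.lf (nat_lit 152) (nat_lit 3547388015) (nat_lit 0) (nat_lit 2055473) (nat_lit 76) (nat_lit 2055473) (nat_lit 64) (nat_lit 1) (nat_lit 62) (nat_lit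 1) (nat_lit 63) (nat_lit 1) (nat_lit 400) (nat_lit 406) (nat_lit 214)) (XT.lf (nat_lit 0) (nat_lit 1162498858) (nat_lit 0) (nat_lit 1168278421) (nat_lit 152) (nat_lit 1162498858) (nat_lit 62) (nat_lit 3) (nat_lit 62) (nat_lit 1) (nat_lit 64) (nat_lit 1) (nat_lit 401) (nat_lit 406) (nat_lit 213)))) (XT.nd (nat_lit 156) (nat_lit 76) (nat_lit 0) (XT.nd (nat_lit 78) (nat_lit 152) (nat_lit 0) (XT.lf (nat_lit 76) (nat_lit 1141973282) (nat_lit 0) (nat_lit 1147477627) (nat_lit 76) (nat_lit 1147477627) (nat_lit 62) (nat_lit 3) (nat_lit 61) (nat_lit 1) (nat_lit 62) (nat_lit 1) (nat_lit 402) (nat_lit 406) (nat_lit 212)) (XT.lf (nat_lit 152) (nat_lit 3378985185) (nat_lit 0) (nat_lit 1691043) (nat_lit 76) (nat_lit 1691043) (nat_lit 61) (nat_lit 1) (nat_lit 59) (nat_lit 1) (nat_lit 60) (nat_lit 1) (nat_lit 403) (nat_lit 406) (nat_lit 211))) (XT.nd (nat_lit 78) (nat_lit 76) (nat_lit 0) (XT.lf (nat_lit 0) (nat_lit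 1107387503) (nat_lit 0) (nat_lit 1112142363) (nat_lit 152) (nat_lit 1107387503) (nat_lit 59) (nat_lit 3) (nat_lit 59) (nat_lit 1) (nat_lit 61) (nat_lit 1) (nat_lit 404) (nat_lit 406) (nat_lit 210)) (XT.lf (nat_lit 76) (nat_lit 1088065627) (nat_lit 0) (nat_lit 1092594066) (nat_lit 76) (nat_lit 1092594066) (nat_lit 59) (nat_lit 3) (nat_lit 58) (nat_lit 1) (nat_lit 59) (nat_lit 1) (nat_lit 405) (nat_lit 406) (nat_lit 209))))))) (XT.nd (nat_lit 936) (nat_lit 1064) (nat_lit 0) (XT.nd (nat_lit 468) (nat_lit 456) (nat_lit 0) (XT.nd (nat_lit 234) (nat_lit 228) (nat_lit 0) (XT.nd (nat_lit 78) (nat_lit 76) (nat_lit 0) (XT.lf (nat_lit 152) (nat_lit 3218509269) (nat_lit 0) (nat_lit 1391225) (nat_lit 76) (nat_lit 1391225) (nat_lit 58) (nat_lit 1) (nat_lit 56) (nat_lit 1) (nat_lit 57) (nat_lit 1) (nat_lit 406) (nat_lit 406) (nat_lit 208)) (XT.nd (nat_lit 78) (nat_lit 76) (nat_lit 0) (XT.lf (nat_lit 0) (nat_lit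 1054856929) (nat_lit 0) (nat_lit 1058768765) (nat_lit 152) (nat_lit 1054856929) (nat_lit 56) (nat_lit 3) (nat_lit 56) (nat_lit 1) (nat_lit 58) (nat_lit 1) (nat_lit 407) (nat_lit 406) (nat_lit 207)) (XT.lf (nat_lit 76) (nat_lit 1036641315) (nat_lit 0) (nat_lit 1040366873) (nat_lit 76) (nat_lit 1040366873) (nat_lit 56) (nat_lit 3) (nat_lit 55) (nat_lit 1) (nat_lit 56) (nat_lit 1) (nat_lit 408) (nat_lit 406) (nat_lit 206)))) (XT.nd (nat_lit 78) (nat_lit 76) (nat_lit 0) (XT.lf (nat_lit 152) (nat_lit 3065599156) (nat_lit 0) (nat_lit 1144564) (nat_lit 76) (nat_lit 1144564) (nat_lit 55) (nat_lit 1) (nat_lit 53) (nat_lit 1) (nat_lit 54) (nat_lit 1) (nat_lit 409) (nat_lit 406) (nat_lit 205)) (XT.nd (nat_lit 78) (nat_lit 76) (nat_lit 0) (XT.lf (nat_lit 0) (nat_lit 1004791969) (nat_lit 0) (nat_lit 1008010246) (nat_lit 152) (nat_lit 1004791969) (nat_lit 53) (nat_lit 3) (nat_lit 53) (nat_lit 1) (nat_lit 55)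 (nat_lit 1) (nat_lit 410) (nat_lit 406) (nat_lit 204)) (XT.lf (nat_lit 76) (nat_lit 987596929) (nat_lit 0) (nat_lit 990661954) (nat_lit 76) (nat_lit 990661954) (nat_lit 53) (nat_lit 3) (nat_lit 52) (nat_lit 1) (nat_lit 53) (nat_lit 1) (nat_lit 411) (nat_lit 406) (nat_lit 203))))) (XT.nd (nat_lit 234) (nat_lit 228) (nat_lit 0) (XT.nd (nat_lit 78) (nat_lit 76) (nat_lit 0) (XT.lf (nat_lit 152) (nat_lit 2919908027) (nat_lit 0) (nat_lit 941636) (nat_lit 76) (nat_lit 941636) (nat_lit 52) (nat_lit 1) (nat_lit 50) (nat_lit 1) (nat_lit 51) (nat_lit 1) (nat_lit 412) (nat_lit 406) (nat_lit 202)) (XT.nd (nat_lit 78) (nat_lit 76) (nat_lit 0) (XT.lf (nat_lit 0) (nat_lit 957081565) (nat_lit 0) (nat_lit 959729250) (nat_lit 152) (nat_lit 957081565) (nat_lit 50) (nat_lit 3) (nat_lit 50) (nat_lit 1) (nat_lit 52) (nat_lit 1) (nat_lit 413) (nat_lit 406) (nat_lit 201)) (XT.lf (nat_lit 76) (nat_lit 940831345) (nat_lit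 0) (nat_lit 943352949) (nat_lit 76) (nat_lit 943352949) (nat_lit 50) (nat_lit 3) (nat_lit 49) (nat_lit 1) (nat_lit 50) (nat_lit 1) (nat_lit 414) (nat_lit 406) (nat_lit 200)))) (XT.nd (nat_lit 78) (nat_lit 76) (nat_lit 0) (XT.lf (nat_lit 152) (nat_lit 2781103193) (nat_lit 0) (nat_lit 774686) (nat_lit 76) (nat_lit 774686) (nat_lit 49) (nat_lit 1) (nat_lit 47) (nat_lit 1) (nat_lit 48) (nat_lit 1) (nat_lit 415) (nat_lit 406) (nat_lit 199)) (XT.nd (nat_lit 78) (nat_lit 76) (nat_lit 0) (XT.lf (nat_lit 0) (nat_lit 911618826) (nat_lit 0) (nat_lit 913797082) (nat_lit 152) (nat_lit 911618826) (nat_lit 47) (nat_lit 3) (nat_lit 47) (nat_lit 1) (nat_lit 49) (nat_lit 1) (nat_lit 416) (nat_lit 406) (nat_lit 198)) (XT.lf (nat_lit 76) (nat_lit 896246093) (nat_lit 0) (nat_lit 898320623) (nat_lit 76) (nat_lit 898320623) (nat_lit 47) (nat_lit 3) (nat_lit 46) (nat_lit 1) (nat_lit 47) (nat_lit 1) (nat_lit 417) (nat_lit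 406) (nat_lit 197)))))) (XT.nd (nat_lit 468) (nat_lit 608) (nat_lit 0) (XT.nd (nat_lit 234) (nat_lit 228) (nat_lit 0) (XT.nd (nat_lit 78) (nat_lit 76) (nat_lit 0) (XT.lf (nat_lit 152) (nat_lit 2648865844) (nat_lit 0) (nat_lit 637336) (nat_lit 76) (nat_lit 637336) (nat_lit 46) (nat_lit 1) (nat_lit 44) (nat_lit 1) (nat_lit 45) (nat_lit 1) (nat_lit 418) (nat_lit 406) (nat_lit 196)) (XT.nd (nat_lit 78) (nat_lit 76) (nat_lit 0) (XT.lf (nat_lit 0) (nat_lit 868301019) (nat_lit 0) (nat_lit 870093076) (nat_lit 152) (nat_lit 868301019) (nat_lit 44) (nat_lit 3) (nat_lit 44) (nat_lit 1) (nat_lit 46) (nat_lit 1) (nat_lit 419) (nat_lit 406) (nat_lit 195)) (XT.lf (nat_lit 76) (nat_lit 853745609) (nat_lit 0) (nat_lit 855452330) (nat_lit 76) (nat_lit 855452330) (nat_lit 44) (nat_lit 3) (nat_lit 43) (nat_lit 1) (nat_lit 44) (nat_lit 1) (nat_lit 420) (nat_lit 406) (nat_lit 194)))) (XT.nd (nat_lit 78) (nat_lit 76)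 (nat_lit 0) (XT.lf (nat_lit 152) (nat_lit 2522890737) (nat_lit 0) (nat_lit 524338) (nat_lit 76) (nat_lit 524338) (nat_lit 43) (nat_lit 1) (nat_lit 41) (nat_lit 1) (nat_lit 42) (nat_lit 1) (nat_lit 421) (nat_lit 406) (nat_lit 193)) (XT.nd (nat_lit 78) (nat_lit 76) (nat_lit 0) (XT.lf (nat_lit 0) (nat_lit 827029546) (nat_lit 0) (nat_lit 828503875) (nat_lit 152) (nat_lit 827029546) (nat_lit 41) (nat_lit 3) (nat_lit 41) (nat_lit 1) (nat_lit 43) (nat_lit 1) (nat_lit 422) (nat_lit 406) (nat_lit 192)) (XT.lf (nat_lit 76) (nat_lit 813237416) (nat_lit 0) (nat_lit 814641540) (nat_lit 76) (nat_lit 814641540) (nat_lit 41) (nat_lit 3) (nat_lit 40) (nat_lit 1) (nat_lit 41) (nat_lit 1) (nat_lit 423) (nat_lit 406) (nat_lit 191))))) (XT.nd (nat_lit 234) (nat_lit 380) (nat_lit 0) (XT.nd (nat_lit 78) (nat_lit 76) (nat_lit 0) (XT.lf (nat_lit 152) (nat_lit 2402885836) (nat_lit 0) (nat_lit 431374) (nat_lit 76) (nat_lit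 431374) (nat_lit 40) (nat_lit 1) (nat_lit 38) (nat_lit 1) (nat_lit 39) (nat_lit 1) (nat_lit 424) (nat_lit 406) (nat_lit 190)) (XT.nd (nat_lit 78) (nat_lit 76) (nat_lit 0) (XT.lf (nat_lit 0) (nat_lit 787709871) (nat_lit 0) (nat_lit 788922806) (nat_lit 152) (nat_lit 787709871) (nat_lit 38) (nat_lit 3) (nat_lit 38) (nat_lit 1) (nat_lit 40) (nat_lit 1) (nat_lit 425) (nat_lit 406) (nat_lit 189)) (XT.lf (nat_lit 76) (nat_lit 774632236) (nat_lit 0) (nat_lit 775787412) (nat_lit 76) (nat_lit 775787412) (nat_lit 38) (nat_lit 3) (nat_lit 37) (nat_lit 1) (nat_lit 38) (nat_lit 1) (nat_lit 426) (nat_lit 406) (nat_lit 188)))) (XT.nd (nat_lit 156) (nat_lit 228) (nat_lit 0) (XT.nd (nat_lit 78) (nat_lit 0) (nat_lit 0) (XT.lf (nat_lit 152) (nat_lit 2288571917) (nat_lit 0) (nat_lit 354892) (nat_lit 76) (nat_lit 354892) (nat_lit 37) (nat_lit 1) (nat_lit 35) (nat_lit 1) (nat_lit 36) (nat_lit 1) (nat_lit 427) (nat_lit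 406) (nat_lit 187)) (XT.lf (nat_lit 0) (nat_lit 750251448) (nat_lit 0) (nat_lit 751249333) (nat_lit 152) (nat_lit 750251448) (nat_lit 35) (nat_lit 3) (nat_lit 35) (nat_lit 1) (nat_lit 37) (nat_lit 1) (nat_lit 428) (nat_lit 406) (nat_lit 186))) (XT.nd (nat_lit 78) (nat_lit 152) (nat_lit 0) (XT.lf (nat_lit 76) (nat_lit 737844049) (nat_lit 0) (nat_lit 738794415) (nat_lit 76) (nat_lit 738794415) (nat_lit 35) (nat_lit 3) (nat_lit 34) (nat_lit 1) (nat_lit 35) (nat_lit 1) (nat_lit 429) (nat_lit 406) (nat_lit 185)) (XT.lf (nat_lit 152) (nat_lit 2179682154) (nat_lit 0) (nat_lit 291971) (nat_lit 76) (nat_lit 291971) (nat_lit 34) (nat_lit 1) (nat_lit 32) (nat_lit 1) (nat_lit 33) (nat_lit 1) (nat_lit 430) (nat_lit 406) (nat_lit 184))))))))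
noncomputable def ec287 : XT := (XT.nd (nat_lit 36426) (nat_lit 0) (nat_lit 15732) (XT.nd (nat_lit 936) (nat_lit 76) (nat_lit 0) (XT.nd (nat_lit 468) (nat_lit 456) (nat_lit 0) (XT.nd (nat_lit 234) (nat_lit 228) (nat_lit 0) (XT.nd (nat_lit 78) (nat_lit 228) (nat_lit 0) (XT.lf (nat_lit 0) (nat_lit 714567616) (nat_lit 0) (nat_lit 715388578) (nat_lit 152) (nat_lit 714567616) (nat_lit 32) (nat_lit 3) (nat_lit 32) (nat_lit 1) (nat_lit 34) (nat_lit 1) (nat_lit 431) (nat_lit 406) (nat_lit 183)) (XT.nd (nat_lit 78) (nat_lit 152) (nat_lit 0) (XT.lf (nat_lit 76) (nat_lit 702790117) (nat_lit 0) (nat_lit 703571985) (nat_lit 76) (nat_lit 703571985) (nat_lit 32) (nat_lit 3) (nat_lit 31) (nat_lit 1) (nat_lit 32) (nat_lit 1) (nat_lit 432) (nat_lit 406) (nat_lit 182)) (XT.lf (nat_lit 152) (nat_lit 2075961687) (nat_lit 0) (nat_lit 240205) (nat_lit 76) (nat_lit 240205) (nat_lit 31) (nat_lit 1) (nat_lit 29) (nat_lit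 1) (nat_lit 30) (nat_lit 1) (nat_lit 433) (nat_lit 406) (nat_lit 181)))) (XT.nd (nat_lit 78) (nat_lit 228) (nat_lit 0) (XT.lf (nat_lit 0) (nat_lit 680575492) (nat_lit 0) (nat_lit 681250900) (nat_lit 152) (nat_lit 680575492) (nat_lit 29) (nat_lit 3) (nat_lit 29) (nat_lit 1) (nat_lit 31) (nat_lit 1) (nat_lit 434) (nat_lit 406) (nat_lit 180)) (XT.nd (nat_lit 78) (nat_lit 152) (nat_lit 0) (XT.lf (nat_lit 76) (nat_lit 669390970) (nat_lit 0) (nat_lit 670034215) (nat_lit 76) (nat_lit 670034215) (nat_lit 29) (nat_lit 3) (nat_lit 28) (nat_lit 1) (nat_lit 29) (nat_lit 1) (nat_lit 435) (nat_lit 406) (nat_lit 179)) (XT.lf (nat_lit 152) (nat_lit 1977167185) (nat_lit 0) (nat_lit 197617) (nat_lit 76) (nat_lit 197617) (nat_lit 28) (nat_lit 1) (nat_lit 26) (nat_lit 1) (nat_lit 27) (nat_lit 1) (nat_lit 436) (nat_lit 406) (nat_lit 178))))) (XT.nd (nat_lit 234) (nat_lit 228) (nat_lit 0) (XT.nd (nat_lit 78) (nat_lit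 228) (nat_lit 0) (XT.lf (nat_lit 0) (nat_lit 648195852) (nat_lit 0) (nat_lit 648751511) (nat_lit 152) (nat_lit 648195852) (nat_lit 26) (nat_lit 3) (nat_lit 26) (nat_lit 1) (nat_lit 28) (nat_lit 1) (nat_lit 437) (nat_lit 406) (nat_lit 177)) (XT.nd (nat_lit 78) (nat_lit 152) (nat_lit 0) (XT.lf (nat_lit 76) (nat_lit 637570371) (nat_lit 0) (nat_lit 638099570) (nat_lit 76) (nat_lit 638099570) (nat_lit 26) (nat_lit 3) (nat_lit 25) (nat_lit 1) (nat_lit 26) (nat_lit 1) (nat_lit 438) (nat_lit 406) (nat_lit 176)) (XT.lf (nat_lit 152) (nat_lit 1883066399) (nat_lit 0) (nat_lit 162580) (nat_lit 76) (nat_lit 162580) (nat_lit 25) (nat_lit 1) (nat_lit 23) (nat_lit 1) (nat_lit 24) (nat_lit 1) (nat_lit 439) (nat_lit 406) (nat_lit 175)))) (XT.nd (nat_lit 78) (nat_lit 228) (nat_lit 0) (XT.lf (nat_lit 0) (nat_lit 617353008) (nat_lit 0) (nat_lit 617810151) (nat_lit 152) (nat_lit 617353008) (nat_lit 23) (nat_lit 3) (nat_lit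 23) (nat_lit 1) (nat_lit 25) (nat_lit 1) (nat_lit 440) (nat_lit 406) (nat_lit 174)) (XT.nd (nat_lit 78) (nat_lit 152) (nat_lit 0) (XT.lf (nat_lit 76) (nat_lit 607255259) (nat_lit 0) (nat_lit 607690632) (nat_lit 76) (nat_lit 607690632) (nat_lit 23) (nat_lit 3) (nat_lit 22) (nat_lit 1) (nat_lit 23) (nat_lit 1) (nat_lit 441) (nat_lit 406) (nat_lit 173)) (XT.lf (nat_lit 152) (nat_lit 1793437733) (nat_lit 0) (nat_lit 133755) (nat_lit 76) (nat_lit 133755) (nat_lit 22) (nat_lit 1) (nat_lit 20) (nat_lit 1) (nat_lit 21) (nat_lit 1) (nat_lit 442) (nat_lit 406) (nat_lit 172)))))) (XT.nd (nat_lit 34944) (nat_lit 0) (nat_lit 20900) (XT.nd (nat_lit 34710) (nat_lit 0) (nat_lit 20748) (XT.nd (nat_lit 78) (nat_lit 76) (nat_lit 0) (XT.lf (nat_lit 0) (nat_lit 587974682) (nat_lit 0) (nat_lit 588350775) (nat_lit 152) (nat_lit 587974682) (nat_lit 20) (nat_lit 3) (nat_lit 20) (nat_lit 1) (nat_lit 22) (nat_lit 1) (nat_lit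 443) (nat_lit 406) (nat_lit 171)) (XT.nd (nat_lit 34554) (nat_lit 0) (nat_lit 20748) (XT.lf (nat_lit 76) (nat_lit 578375677) (nat_lit 0) (nat_lit 578733860) (nat_lit 76) (nat_lit 578733860) (nat_lit 20) (nat_lit 3) (nat_lit 19) (nat_lit 1) (nat_lit 20) (nat_lit 1) (nat_lit 444) (nat_lit 406) (nat_lit 170)) (XT.lf (nat_lit 836) (nat_lit 14123187233) (nat_lit 0) (nat_lit 25075686469) (nat_lit 836) (nat_lit 14123187233) (nat_lit 303) (nat_lit 1) (nat_lit 292) (nat_lit 0) (nat_lit 303) (nat_lit 0) (nat_lit 206) (nat_lit 407) (nat_lit 407)))) (XT.nd (nat_lit 78) (nat_lit 0) (nat_lit 76) (XT.lf (nat_lit 836) (nat_lit 54743236925) (nat_lit 76) (nat_lit 24671239913) (nat_lit 0) (nat_lit 24671239913) (nat_lit 303) (nat_lit 1) (nat_lit 293) (nat_lit 1) (nat_lit 292) (nat_lit 0) (nat_lit 207) (nat_lit 407) (nat_lit 406)) (XT.nd (nat_lit 78) (nat_lit 0) (nat_lit 0) (XT.lf (nat_lit 836) (nat_lit 26089802450)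 (nat_lit 0) (nat_lit 49426800780) (nat_lit 760) (nat_lit 26089802450) (nat_lit 304) (nat_lit 1) (nat_lit 293) (nat_lit 1) (nat_lit 303) (nat_lit 1) (nat_lit 208) (nat_lit 407) (nat_lit 405)) (XT.lf (nat_lit 836) (nat_lit 48940844127) (nat_lit 76) (nat_lit 25133175351) (nat_lit 0) (nat_lit 25133175351) (nat_lit 304) (nat_lit 1) (nat_lit 294) (nat_lit 1) (nat_lit 293) (nat_lit 1) (nat_lit 209) (nat_lit 407) (nat_lit 404))))) (XT.nd (nat_lit 234) (nat_lit 0) (nat_lit 76) (XT.nd (nat_lit 78) (nat_lit 0) (nat_lit 0) (XT.lf (nat_lit 836) (nat_lit 22527000568) (nat_lit 0) (nat_lit 51830025789) (nat_lit 760) (nat_lit 22527000568) (nat_lit 305) (nat_lit 1) (nat_lit 294) (nat_lit 1) (nat_lit 304) (nat_lit 1) (nat_lit 210) (nat_lit 407) (nat_lit 403)) (XT.nd (nat_lit 78) (nat_lit 0) (nat_lit 76) (XT.lf (nat_lit 836) (nat_lit 40516277751) (nat_lit 76) (nat_lit 27057700154) (nat_lit 0) (nat_lit 27057700154)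 (nat_lit 305) (nat_lit 1) (nat_lit 295) (nat_lit 1) (nat_lit 294) (nat_lit 1) (nat_lit 211) (nat_lit 407) (nat_lit 402)) (XT.lf (nat_lit 836) (nat_lit 17765217577) (nat_lit 0) (nat_lit 56924520113) (nat_lit 760) (nat_lit 17765217577) (nat_lit 306) (nat_lit 1) (nat_lit 295) (nat_lit 1) (nat_lit 305) (nat_lit 1) (nat_lit 212) (nat_lit 407) (nat_lit 401)))) (XT.nd (nat_lit 156) (nat_lit 0) (nat_lit 76) (XT.nd (nat_lit 78) (nat_lit 0) (nat_lit 76) (XT.lf (nat_lit 836) (nat_lit 29863876215) (nat_lit 76) (nat_lit 30237144449) (nat_lit 0) (nat_lit 30237144449) (nat_lit 306) (nat_lit 1) (nat_lit 296) (nat_lit 1) (nat_lit 295) (nat_lit 1) (nat_lit 213) (nat_lit 407) (nat_lit 400)) (XT.lf (nat_lit 836) (nat_lit 11988790837) (nat_lit 0) (nat_lit 64321279877) (nat_lit 760) (nat_lit 11988790837) (nat_lit 307) (nat_lit 1) (nat_lit 296) (nat_lit 1) (nat_lit 306) (nat_lit 1) (nat_lit 214) (nat_lit 407) (nat_lit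 399))) (XT.nd (nat_lit 78) (nat_lit 0) (nat_lit 76) (XT.lf (nat_lit 836) (nat_lit 17334146874) (nat_lit 76) (nat_lit 34486559451) (nat_lit 0) (nat_lit 34486559451) (nat_lit 307) (nat_lit 1) (nat_lit 297) (nat_lit 1) (nat_lit 296) (nat_lit 1) (nat_lit 215) (nat_lit 407) (nat_lit 398)) (XT.lf (nat_lit 76) (nat_lit 5361449885) (nat_lit 0) (nat_lit 73674076395) (nat_lit 760) (nat_lit 5361449885) (nat_lit 298) (nat_lit 1) (nat_lit 297) (nat_lit 1) (nat_lit 307) (nat_lit 1) (nat_lit 216) (nat_lit 407) (nat_lit 397))))))) (XT.nd (nat_lit 1014) (nat_lit 2052) (nat_lit 0) (XT.nd (nat_lit 468) (nat_lit 1292) (nat_lit 0) (XT.nd (nat_lit 234) (nat_lit 760) (nat_lit 0) (XT.nd (nat_lit 78) (nat_lit 532) (nat_lit 0) (XT.lf (nat_lit 836) (nat_lit 3238182403) (nat_lit 0) (nat_lit 39641442506) (nat_lit 760) (nat_lit 39641442506) (nat_lit 298) (nat_lit 1) (nat_lit 287) (nat_lit 1) (nat_lit 297) (nat_lit 1) (nat_lit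 217) (nat_lit 407) (nat_lit 396)) (XT.nd (nat_lit 78) (nat_lit 0) (nat_lit 0) (XT.lf (nat_lit 532) (nat_lit 76846146486) (nat_lit 0) (nat_lit 1939802365) (nat_lit 456) (nat_lit 1939802365) (nat_lit 287) (nat_lit 1) (nat_lit 280) (nat_lit 1) (nat_lit 286) (nat_lit 1) (nat_lit 218) (nat_lit 407) (nat_lit 395)) (XT.lf (nat_lit 76) (nat_lit 33597001497) (nat_lit 0) (nat_lit 11759526606) (nat_lit 532) (nat_lit 33597001497) (nat_lit 281) (nat_lit 1) (nat_lit 280) (nat_lit 1) (nat_lit 287) (nat_lit 1) (nat_lit 219) (nat_lit 407) (nat_lit 394)))) (XT.nd (nat_lit 78) (nat_lit 380) (nat_lit 0) (XT.lf (nat_lit 456) (nat_lit 57811815601) (nat_lit 0) (nat_lit 9722425997) (nat_lit 380) (nat_lit 9722425997) (nat_lit 281) (nat_lit 1) (nat_lit 275) (nat_lit 1) (nat_lit 280) (nat_lit 1) (nat_lit 220) (nat_lit 407) (nat_lit 393)) (XT.nd (nat_lit 78) (nat_lit 380) (nat_lit 0) (XT.lf (nat_lit 76) (nat_lit 23964332176)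 (nat_lit 0) (nat_lit 27666813968) (nat_lit 456) (nat_lit 23964332176) (nat_lit 276) (nat_lit 1) (nat_lit 275) (nat_lit 1) (nat_lit 281) (nat_lit 1) (nat_lit 221) (nat_lit 407) (nat_lit 392)) (XT.lf (nat_lit 456) (nat_lit 38069900420) (nat_lit 0) (nat_lit 17961121701) (nat_lit 380) (nat_lit 17961121701) (nat_lit 276) (nat_lit 1) (nat_lit 270) (nat_lit 1) (nat_lit 275) (nat_lit 1) (nat_lit 222) (nat_lit 407) (nat_lit 391))))) (XT.nd (nat_lit 234) (nat_lit 988) (nat_lit 0) (XT.nd (nat_lit 78) (nat_lit 304) (nat_lit 0) (XT.lf (nat_lit 76) (nat_lit 14028252354) (nat_lit 0) (nat_lit 44378934988) (nat_lit 456) (nat_lit 14028252354) (nat_lit 271) (nat_lit 1) (nat_lit 270) (nat_lit 1) (nat_lit 276) (nat_lit 1) (nat_lit 223) (nat_lit 407) (nat_lit 390)) (XT.nd (nat_lit 78) (nat_lit 0) (nat_lit 0) (XT.lf (nat_lit 380) (nat_lit 17804148089) (nat_lit 0) (nat_lit 26557315522) (nat_lit 304) (nat_lit 26557315522)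 (nat_lit 271) (nat_lit 1) (nat_lit 266) (nat_lit 1) (nat_lit 270) (nat_lit 1) (nat_lit 224) (nat_lit 407) (nat_lit 389)) (XT.lf (nat_lit 76) (nat_lit 3874063824) (nat_lit 0) (nat_lit 61712314221) (nat_lit 380) (nat_lit 3874063824) (nat_lit 267) (nat_lit 1) (nat_lit 266) (nat_lit 1) (nat_lit 271) (nat_lit 1) (nat_lit 225) (nat_lit 407) (nat_lit 388)))) (XT.nd (nat_lit 156) (nat_lit 304) (nat_lit 0) (XT.nd (nat_lit 78) (nat_lit 304) (nat_lit 0) (XT.lf (nat_lit 76) (nat_lit 32643974997) (nat_lit 0) (nat_lit 2733996317) (nat_lit 380) (nat_lit 32643974997) (nat_lit 262) (nat_lit 1) (nat_lit 261) (nat_lit 1) (nat_lit 266) (nat_lit 1) (nat_lit 226) (nat_lit 407) (nat_lit 387)) (XT.lf (nat_lit 380) (nat_lit 53998282654) (nat_lit 0) (nat_lit 6319974768) (nat_lit 304) (nat_lit 6319974768) (nat_lit 262) (nat_lit 1) (nat_lit 257) (nat_lit 1) (nat_lit 261) (nat_lit 1) (nat_lit 227) (nat_lit 407) (nat_lit 386)))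 (XT.nd (nat_lit 78) (nat_lit 304) (nat_lit 0) (XT.lf (nat_lit 76) (nat_lit 21180500385) (nat_lit 0) (nat_lit 22917255219) (nat_lit 380) (nat_lit 21180500385) (nat_lit 258) (nat_lit 1) (nat_lit 257) (nat_lit 1) (nat_lit 262) (nat_lit 1) (nat_lit 228) (nat_lit 407) (nat_lit 385)) (XT.lf (nat_lit 380) (nat_lit 30908242021) (nat_lit 0) (nat_lit 16528598482) (nat_lit 304) (nat_lit 16528598482) (nat_lit 258) (nat_lit 1) (nat_lit 253) (nat_lit 1) (nat_lit 257) (nat_lit 1) (nat_lit 229) (nat_lit 407) (nat_lit 384)))))) (XT.nd (nat_lit 468) (nat_lit 1216) (nat_lit 0) (XT.nd (nat_lit 234) (nat_lit 228) (nat_lit 0) (XT.nd (nat_lit 78) (nat_lit 608) (nat_lit 0) (XT.lf (nat_lit 76) (nat_lit 9747080121) (nat_lit 0) (nat_lit 43196848619) (nat_lit 380) (nat_lit 9747080121) (nat_lit 254) (nat_lit 1) (nat_lit 253) (nat_lit 1) (nat_lit 258) (nat_lit 1) (nat_lit 230) (nat_lit 407) (nat_lit 383)) (XT.nd (nat_lit 78)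 (nat_lit 380) (nat_lit 0) (XT.lf (nat_lit 304) (nat_lit 7926882802) (nat_lit 0) (nat_lit 26758602890) (nat_lit 228) (nat_lit 26758602890) (nat_lit 254) (nat_lit 1) (nat_lit 250) (nat_lit 1) (nat_lit 253) (nat_lit 1) (nat_lit 231) (nat_lit 407) (nat_lit 382)) (XT.lf (nat_lit 380) (nat_lit 57077695234) (nat_lit 0) (nat_lit 1583796522) (nat_lit 304) (nat_lit 1583796522) (nat_lit 250) (nat_lit 1) (nat_lit 245) (nat_lit 1) (nat_lit 249) (nat_lit 1) (nat_lit 232) (nat_lit 407) (nat_lit 381)))) (XT.nd (nat_lit 78) (nat_lit 228) (nat_lit 0) (XT.lf (nat_lit 76) (nat_lit 22334924113) (nat_lit 0) (nat_lit 14383274965) (nat_lit 380) (nat_lit 22334924113) (nat_lit 246) (nat_lit 1) (nat_lit 245) (nat_lit 1) (nat_lit 250) (nat_lit 1) (nat_lit 233) (nat_lit 407) (nat_lit 380)) (XT.nd (nat_lit 78) (nat_lit 0) (nat_lit 0) (XT.lf (nat_lit 304) (nat_lit 32620862771) (nat_lit 0) (nat_lit 12642909018) (nat_lit 228)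 (nat_lit 12642909018) (nat_lit 246) (nat_lit 1) (nat_lit 242) (nat_lit 1) (nat_lit 245) (nat_lit 1) (nat_lit 234) (nat_lit 407) (nat_lit 379)) (XT.lf (nat_lit 76) (nat_lit 10305435142) (nat_lit 0) (nat_lit 36178495479) (nat_lit 304) (nat_lit 10305435142) (nat_lit 243) (nat_lit 1) (nat_lit 242) (nat_lit 1) (nat_lit 246) (nat_lit 1) (nat_lit 235) (nat_lit 407) (nat_lit 378))))) (XT.nd (nat_lit 234) (nat_lit 684) (nat_lit 0) (XT.nd (nat_lit 78) (nat_lit 304) (nat_lit 0) (XT.lf (nat_lit 304) (nat_lit 8589258082) (nat_lit 0) (nat_lit 23554105626) (nat_lit 228) (nat_lit 23554105626) (nat_lit 243) (nat_lit 1) (nat_lit 239) (nat_lit 1) (nat_lit 242) (nat_lit 1) (nat_lit 236) (nat_lit 407) (nat_lit 377)) (XT.nd (nat_lit 78) (nat_lit 0) (nat_lit 0) (XT.lf (nat_lit 304) (nat_lit 51693832790) (nat_lit 0) (nat_lit 1476152727) (nat_lit 228) (nat_lit 1476152727) (nat_lit 239) (nat_lit 1) (nat_lit 235) (nat_lit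 1) (nat_lit 238) (nat_lit 1) (nat_lit 237) (nat_lit 407) (nat_lit 376)) (XT.lf (nat_lit 76) (nat_lit 19554296526) (nat_lit 0) (nat_lit 14489537379) (nat_lit 304) (nat_lit 19554296526) (nat_lit 236) (nat_lit 1) (nat_lit 235) (nat_lit 1) (nat_lit 239) (nat_lit 1) (nat_lit 238) (nat_lit 407) (nat_lit 375)))) (XT.nd (nat_lit 156) (nat_lit 456) (nat_lit 0) (XT.nd (nat_lit 78) (nat_lit 0) (nat_lit 0) (XT.lf (nat_lit 304) (nat_lit 26888948230) (nat_lit 0) (nat_lit 12849975422) (nat_lit 228) (nat_lit 12849975422) (nat_lit 236) (nat_lit 1) (nat_lit 232) (nat_lit 1) (nat_lit 235) (nat_lit 1) (nat_lit 239) (nat_lit 407) (nat_lit 374)) (XT.lf (nat_lit 76) (nat_lit 7405194413) (nat_lit 0) (nat_lit 36796346937) (nat_lit 304) (nat_lit 7405194413) (nat_lit 233) (nat_lit 1) (nat_lit 232) (nat_lit 1) (nat_lit 236) (nat_lit 1) (nat_lit 240) (nat_lit 407) (nat_lit 373))) (XT.nd (nat_lit 78) (nat_lit 304) (nat_lit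 0) (XT.lf (nat_lit 228) (nat_lit 2713509450) (nat_lit 0) (nat_lit 23964785639) (nat_lit 152) (nat_lit 23964785639) (nat_lit 233) (nat_lit 1) (nat_lit 230) (nat_lit 1) (nat_lit 232) (nat_lit 1) (nat_lit 241) (nat_lit 407) (nat_lit 372)) (XT.lf (nat_lit 304) (nat_lit 41000217919) (nat_lit 0) (nat_lit 4354520326) (nat_lit 228) (nat_lit 4354520326) (nat_lit 230) (nat_lit 1) (nat_lit 226) (nat_lit 1) (nat_lit 229) (nat_lit 1) (nat_lit 242) (nat_lit 407) (nat_lit 371))))))))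
noncomputable def ec288 : XT := (XT.nd (nat_lit 1950) (nat_lit 1748) (nat_lit 0) (XT.nd (nat_lit 936) (nat_lit 1368) (nat_lit 0) (XT.nd (nat_lit 468) (nat_lit 684) (nat_lit 0) (XT.nd (nat_lit 234) (nat_lit 380) (nat_lit 0) (XT.nd (nat_lit 78) (nat_lit 152) (nat_lit 0) (XT.lf (nat_lit 76) (nat_lit 14320402891) (nat_lit 0) (nat_lit 20145074533) (nat_lit 304) (nat_lit 14320402891) (nat_lit 227) (nat_lit 1) (nat_lit 226) (nat_lit 1) (nat_lit 230) (nat_lit 1) (nat_lit 243) (nat_lit 407) (nat_lit 370)) (XT.nd (nat_lit 78) (nat_lit 0) (nat_lit 0) (XT.lf (nat_lit 228) (nat_lit 16545016524) (nat_lit 0) (nat_lit 15672991761) (nat_lit 152) (nat_lit 15672991761) (nat_lit 227) (nat_lit 1) (nat_lit 224) (nat_lit 1) (nat_lit 226) (nat_lit 1) (nat_lit 244) (nat_lit 407) (nat_lit 369)) (XT.lf (nat_lit 76) (nat_lit 2376993726) (nat_lit 0) (nat_lit 42271829967) (nat_lit 228) (nat_lit 2376993726) (nat_lit 225) (nat_lit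 1) (nat_lit 224) (nat_lit 1) (nat_lit 227) (nat_lit 1) (nat_lit 245) (nat_lit 407) (nat_lit 368)))) (XT.nd (nat_lit 78) (nat_lit 152) (nat_lit 0) (XT.lf (nat_lit 76) (nat_lit 19617746252) (nat_lit 0) (nat_lit 6928287288) (nat_lit 228) (nat_lit 19617746252) (nat_lit 222) (nat_lit 1) (nat_lit 221) (nat_lit 1) (nat_lit 224) (nat_lit 1) (nat_lit 246) (nat_lit 407) (nat_lit 367)) (XT.nd (nat_lit 78) (nat_lit 0) (nat_lit 0) (XT.lf (nat_lit 228) (nat_lit 27242678977) (nat_lit 0) (nat_lit 9043831307) (nat_lit 152) (nat_lit 9043831307) (nat_lit 222) (nat_lit 1) (nat_lit 219) (nat_lit 1) (nat_lit 221) (nat_lit 1) (nat_lit 247) (nat_lit 407) (nat_lit 366)) (XT.lf (nat_lit 76) (nat_lit 7687175256) (nat_lit 0) (nat_lit 29140973681) (nat_lit 228) (nat_lit 7687175256) (nat_lit 220) (nat_lit 1) (nat_lit 219) (nat_lit 1) (nat_lit 222) (nat_lit 1) (nat_lit 248) (nat_lit 407) (nat_lit 365))))) (XT.nd (nat_lit 234)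 (nat_lit 304) (nat_lit 0) (XT.nd (nat_lit 78) (nat_lit 228) (nat_lit 0) (XT.lf (nat_lit 228) (nat_lit 3601164843) (nat_lit 0) (nat_lit 20057785303) (nat_lit 152) (nat_lit 20057785303) (nat_lit 220) (nat_lit 1) (nat_lit 217) (nat_lit 1) (nat_lit 219) (nat_lit 1) (nat_lit 249) (nat_lit 407) (nat_lit 364)) (XT.nd (nat_lit 78) (nat_lit 0) (nat_lit 0) (XT.lf (nat_lit 228) (nat_lit 35394574593) (nat_lit 0) (nat_lit 3773355919) (nat_lit 152) (nat_lit 3773355919) (nat_lit 217) (nat_lit 1) (nat_lit 214) (nat_lit 1) (nat_lit 216) (nat_lit 1) (nat_lit 250) (nat_lit 407) (nat_lit 363)) (XT.lf (nat_lit 76) (nat_lit 11782940618) (nat_lit 0) (nat_lit 18606574549) (nat_lit 228) (nat_lit 11782940618) (nat_lit 215) (nat_lit 1) (nat_lit 214) (nat_lit 1) (nat_lit 217) (nat_lit 1) (nat_lit 251) (nat_lit 407) (nat_lit 362)))) (XT.nd (nat_lit 78) (nat_lit 152) (nat_lit 0) (XT.lf (nat_lit 228) (nat_lit 12000352951) (nat_lit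 0) (nat_lit 14712796204) (nat_lit 152) (nat_lit 14712796204) (nat_lit 215) (nat_lit 1) (nat_lit 212) (nat_lit 1) (nat_lit 214) (nat_lit 1) (nat_lit 252) (nat_lit 407) (nat_lit 361)) (XT.nd (nat_lit 78) (nat_lit 152) (nat_lit 0) (XT.lf (nat_lit 76) (nat_lit 394418505) (nat_lit 0) (nat_lit 39916778080) (nat_lit 228) (nat_lit 394418505) (nat_lit 213) (nat_lit 1) (nat_lit 212) (nat_lit 1) (nat_lit 215) (nat_lit 1) (nat_lit 253) (nat_lit 407) (nat_lit 360)) (XT.lf (nat_lit 76) (nat_lit 14892599655) (nat_lit 0) (nat_lit 10195506723) (nat_lit 152) (nat_lit 14892599655) (nat_lit 211) (nat_lit 1) (nat_lit 210) (nat_lit 1) (nat_lit 212) (nat_lit 1) (nat_lit 254) (nat_lit 407) (nat_lit 359)))))) (XT.nd (nat_lit 468) (nat_lit 836) (nat_lit 0) (XT.nd (nat_lit 234) (nat_lit 228) (nat_lit 0) (XT.nd (nat_lit 78) (nat_lit 152) (nat_lit 0) (XT.lf (nat_lit 228) (nat_lit 18480020759) (nat_lit 0) (nat_lit 10400641082)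 (nat_lit 152) (nat_lit 10400641082) (nat_lit 211) (nat_lit 1) (nat_lit 208) (nat_lit 1) (nat_lit 210) (nat_lit 1) (nat_lit 255) (nat_lit 407) (nat_lit 358)) (XT.nd (nat_lit 78) (nat_lit 152) (nat_lit 0) (XT.lf (nat_lit 76) (nat_lit 3705116442) (nat_lit 0) (nat_lit 31190545594) (nat_lit 228) (nat_lit 3705116442) (nat_lit 209) (nat_lit 1) (nat_lit 208) (nat_lit 1) (nat_lit 211) (nat_lit 1) (nat_lit 256) (nat_lit 407) (nat_lit 357)) (XT.lf (nat_lit 76) (nat_lit 17203364542) (nat_lit 0) (nat_lit 3519136988) (nat_lit 152) (nat_lit 17203364542) (nat_lit 207) (nat_lit 1) (nat_lit 206) (nat_lit 1) (nat_lit 208) (nat_lit 1) (nat_lit 257) (nat_lit 407) (nat_lit 356)))) (XT.nd (nat_lit 78) (nat_lit 76) (nat_lit 0) (XT.lf (nat_lit 228) (nat_lit 23400988039) (nat_lit 0) (nat_lit 6934144809) (nat_lit 152) (nat_lit 6934144809) (nat_lit 207) (nat_lit 1) (nat_lit 204) (nat_lit 1) (nat_lit 206) (nat_lit 1) (nat_lit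 258) (nat_lit 407) (nat_lit 355)) (XT.nd (nat_lit 78) (nat_lit 76) (nat_lit 0) (XT.lf (nat_lit 76) (nat_lit 6267853573) (nat_lit 0) (nat_lit 24089980462) (nat_lit 228) (nat_lit 6267853573) (nat_lit 205) (nat_lit 1) (nat_lit 204) (nat_lit 1) (nat_lit 207) (nat_lit 1) (nat_lit 259) (nat_lit 407) (nat_lit 354)) (XT.lf (nat_lit 152) (nat_lit 1799272508) (nat_lit 0) (nat_lit 17097484952) (nat_lit 76) (nat_lit 17097484952) (nat_lit 205) (nat_lit 1) (nat_lit 203) (nat_lit 1) (nat_lit 204) (nat_lit 1) (nat_lit 260) (nat_lit 407) (nat_lit 353))))) (XT.nd (nat_lit 234) (nat_lit 532) (nat_lit 0) (XT.nd (nat_lit 78) (nat_lit 76) (nat_lit 0) (XT.lf (nat_lit 228) (nat_lit 27059126227) (nat_lit 0) (nat_lit 4159511096) (nat_lit 152) (nat_lit 4159511096) (nat_lit 203) (nat_lit 1) (nat_lit 200) (nat_lit 1) (nat_lit 202) (nat_lit 1) (nat_lit 261) (nat_lit 407) (nat_lit 352)) (XT.nd (nat_lit 78) (nat_lit 76) (nat_lit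 0) (XT.lf (nat_lit 76) (nat_lit 8222907319) (nat_lit 0) (nat_lit 18323116459) (nat_lit 228) (nat_lit 8222907319) (nat_lit 201) (nat_lit 1) (nat_lit 200) (nat_lit 1) (nat_lit 203) (nat_lit 1) (nat_lit 262) (nat_lit 407) (nat_lit 351)) (XT.lf (nat_lit 152) (nat_lit 6042364703) (nat_lit 0) (nat_lit 14066143183) (nat_lit 76) (nat_lit 14066143183) (nat_lit 201) (nat_lit 1) (nat_lit 199) (nat_lit 1) (nat_lit 200) (nat_lit 1) (nat_lit 263) (nat_lit 407) (nat_lit 350)))) (XT.nd (nat_lit 156) (nat_lit 304) (nat_lit 0) (XT.nd (nat_lit 78) (nat_lit 0) (nat_lit 0) (XT.lf (nat_lit 228) (nat_lit 29696920068) (nat_lit 0) (nat_lit 1950395312) (nat_lit 152) (nat_lit 1950395312) (nat_lit 199) (nat_lit 1) (nat_lit 196) (nat_lit 1) (nat_lit 198) (nat_lit 1) (nat_lit 264) (nat_lit 407) (nat_lit 349)) (XT.lf (nat_lit 76) (nat_lit 9685319223) (nat_lit 0) (nat_lit 13649930319) (nat_lit 228) (nat_lit 9685319223) (nat_lit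 197) (nat_lit 1) (nat_lit 196) (nat_lit 1) (nat_lit 199) (nat_lit 1) (nat_lit 265) (nat_lit 407) (nat_lit 348))) (XT.nd (nat_lit 78) (nat_lit 228) (nat_lit 0) (XT.lf (nat_lit 152) (nat_lit 9315924354) (nat_lit 0) (nat_lit 11572250807) (nat_lit 76) (nat_lit 11572250807) (nat_lit 197) (nat_lit 1) (nat_lit 195) (nat_lit 1) (nat_lit 196) (nat_lit 1) (nat_lit 266) (nat_lit 407) (nat_lit 347)) (XT.lf (nat_lit 228) (nat_lit 31512977211) (nat_lit 0) (nat_lit 203028612) (nat_lit 152) (nat_lit 203028612) (nat_lit 195) (nat_lit 1) (nat_lit 192) (nat_lit 1) (nat_lit 194) (nat_lit 1) (nat_lit 267) (nat_lit 407) (nat_lit 346))))))) (XT.nd (nat_lit 936) (nat_lit 988) (nat_lit 0) (XT.nd (nat_lit 468) (nat_lit 456) (nat_lit 0) (XT.nd (nat_lit 234) (nat_lit 228) (nat_lit 0) (XT.nd (nat_lit 78) (nat_lit 76) (nat_lit 0) (XT.lf (nat_lit 76) (nat_lit 10749386591) (nat_lit 0) (nat_lit 9873123895) (nat_lit 228) (nat_lit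 10749386591) (nat_lit 193) (nat_lit 1) (nat_lit 192) (nat_lit 1) (nat_lit 195) (nat_lit 1) (nat_lit 268) (nat_lit 407) (nat_lit 345)) (XT.nd (nat_lit 78) (nat_lit 0) (nat_lit 0) (XT.lf (nat_lit 152) (nat_lit 11802192077) (nat_lit 0) (nat_lit 9520519378) (nat_lit 76) (nat_lit 9520519378) (nat_lit 193) (nat_lit 1) (nat_lit 191) (nat_lit 1) (nat_lit 192) (nat_lit 1) (nat_lit 269) (nat_lit 407) (nat_lit 344)) (XT.lf (nat_lit 0) (nat_lit 1186937185) (nat_lit 0) (nat_lit 27956651537) (nat_lit 152) (nat_lit 1186937185) (nat_lit 191) (nat_lit 3) (nat_lit 191) (nat_lit 1) (nat_lit 193) (nat_lit 1) (nat_lit 270) (nat_lit 407) (nat_lit 343)))) (XT.nd (nat_lit 78) (nat_lit 76) (nat_lit 0) (XT.lf (nat_lit 76) (nat_lit 11492356948) (nat_lit 0) (nat_lit 6830541024) (nat_lit 152) (nat_lit 11492356948) (nat_lit 190) (nat_lit 1) (nat_lit 189) (nat_lit 1) (nat_lit 191) (nat_lit 1) (nat_lit 271) (nat_lit 407) (nat_lit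 342)) (XT.nd (nat_lit 78) (nat_lit 0) (nat_lit 0) (XT.lf (nat_lit 152) (nat_lit 13650605065) (nat_lit 0) (nat_lit 7832554853) (nat_lit 76) (nat_lit 7832554853) (nat_lit 190) (nat_lit 1) (nat_lit 188) (nat_lit 1) (nat_lit 189) (nat_lit 1) (nat_lit 272) (nat_lit 407) (nat_lit 341)) (XT.lf (nat_lit 0) (nat_lit 2268598597) (nat_lit 0) (nat_lit 24292108844) (nat_lit 152) (nat_lit 2268598597) (nat_lit 188) (nat_lit 3) (nat_lit 188) (nat_lit 1) (nat_lit 190) (nat_lit 1) (nat_lit 273) (nat_lit 407) (nat_lit 340))))) (XT.nd (nat_lit 234) (nat_lit 228) (nat_lit 0) (XT.nd (nat_lit 78) (nat_lit 76) (nat_lit 0) (XT.lf (nat_lit 76) (nat_lit 11977466690) (nat_lit 0) (nat_lit 4388929255) (nat_lit 152) (nat_lit 11977466690) (nat_lit 187) (nat_lit 1) (nat_lit 186) (nat_lit 1) (nat_lit 188) (nat_lit 1) (nat_lit 274) (nat_lit 407) (nat_lit 339)) (XT.nd (nat_lit 78) (nat_lit 0) (nat_lit 0) (XT.lf (nat_lit 152) (nat_lit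 14983636507) (nat_lit 0) (nat_lit 6443862262) (nat_lit 76) (nat_lit 6443862262) (nat_lit 187) (nat_lit 1) (nat_lit 185) (nat_lit 1) (nat_lit 186) (nat_lit 1) (nat_lit 275) (nat_lit 407) (nat_lit 338)) (XT.lf (nat_lit 0) (nat_lit 3096955430) (nat_lit 0) (nat_lit 21215751814) (nat_lit 152) (nat_lit 3096955430) (nat_lit 185) (nat_lit 3) (nat_lit 185) (nat_lit 1) (nat_lit 187) (nat_lit 1) (nat_lit 276) (nat_lit 407) (nat_lit 337)))) (XT.nd (nat_lit 78) (nat_lit 76) (nat_lit 0) (XT.lf (nat_lit 76) (nat_lit 12256440238) (nat_lit 0) (nat_lit 2438807959) (nat_lit 152) (nat_lit 12256440238) (nat_lit 184) (nat_lit 1) (nat_lit 183) (nat_lit 1) (nat_lit 185) (nat_lit 1) (nat_lit 277) (nat_lit 407) (nat_lit 336)) (XT.nd (nat_lit 78) (nat_lit 0) (nat_lit 0) (XT.lf (nat_lit 152) (nat_lit 15901598586) (nat_lit 0) (nat_lit 5301381430) (nat_lit 76) (nat_lit 5301381430) (nat_lit 184) (nat_lit 1) (nat_lit 182) (nat_lit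 1) (nat_lit 183) (nat_lit 1) (nat_lit 278) (nat_lit 407) (nat_lit 335)) (XT.lf (nat_lit 0) (nat_lit 3719847897) (nat_lit 0) (nat_lit 18626226522) (nat_lit 152) (nat_lit 3719847897) (nat_lit 182) (nat_lit 3) (nat_lit 182) (nat_lit 1) (nat_lit 184) (nat_lit 1) (nat_lit 279) (nat_lit 407) (nat_lit 334)))))) (XT.nd (nat_lit 468) (nat_lit 532) (nat_lit 0) (XT.nd (nat_lit 234) (nat_lit 228) (nat_lit 0) (XT.nd (nat_lit 78) (nat_lit 76) (nat_lit 0) (XT.lf (nat_lit 76) (nat_lit 12371545382) (nat_lit 0) (nat_lit 890246677) (nat_lit 152) (nat_lit 12371545382) (nat_lit 181) (nat_lit 1) (nat_lit 180) (nat_lit 1) (nat_lit 182) (nat_lit 1) (nat_lit 280) (nat_lit 407) (nat_lit 333)) (XT.nd (nat_lit 78) (nat_lit 0) (nat_lit 0) (XT.lf (nat_lit 152) (nat_lit 16486592843) (nat_lit 0) (nat_lit 4361459622) (nat_lit 76) (nat_lit 4361459622) (nat_lit 181) (nat_lit 1) (nat_lit 179) (nat_lit 1) (nat_lit 180) (nat_lit 1)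 (nat_lit 281) (nat_lit 407) (nat_lit 332)) (XT.lf (nat_lit 0) (nat_lit 4176494737) (nat_lit 0) (nat_lit 16440009322) (nat_lit 152) (nat_lit 4176494737) (nat_lit 179) (nat_lit 3) (nat_lit 179) (nat_lit 1) (nat_lit 181) (nat_lit 1) (nat_lit 282) (nat_lit 407) (nat_lit 331)))) (XT.nd (nat_lit 78) (nat_lit 152) (nat_lit 0) (XT.lf (nat_lit 76) (nat_lit 341539113) (nat_lit 0) (nat_lit 12021076813) (nat_lit 76) (nat_lit 12021076813) (nat_lit 179) (nat_lit 3) (nat_lit 178) (nat_lit 1) (nat_lit 179) (nat_lit 1) (nat_lit 283) (nat_lit 407) (nat_lit 330)) (XT.nd (nat_lit 78) (nat_lit 0) (nat_lit 0) (XT.lf (nat_lit 152) (nat_lit 16805759146) (nat_lit 0) (nat_lit 3588183625) (nat_lit 76) (nat_lit 3588183625) (nat_lit 178) (nat_lit 1) (nat_lit 176) (nat_lit 1) (nat_lit 177) (nat_lit 1) (nat_lit 284) (nat_lit 407) (nat_lit 329)) (XT.lf (nat_lit 0) (nat_lit 4499028429) (nat_lit 0) (nat_lit 14588252228) (nat_lit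 152) (nat_lit 4499028429) (nat_lit 176) (nat_lit 3) (nat_lit 176) (nat_lit 1) (nat_lit 178) (nat_lit 1) (nat_lit 285) (nat_lit 407) (nat_lit 328))))) (XT.nd (nat_lit 234) (nat_lit 304) (nat_lit 0) (XT.nd (nat_lit 78) (nat_lit 152) (nat_lit 0) (XT.lf (nat_lit 76) (nat_lit 1326855529) (nat_lit 0) (nat_lit 10935640099) (nat_lit 76) (nat_lit 10935640099) (nat_lit 176) (nat_lit 3) (nat_lit 175) (nat_lit 1) (nat_lit 176) (nat_lit 1) (nat_lit 286) (nat_lit 407) (nat_lit 327)) (XT.nd (nat_lit 78) (nat_lit 0) (nat_lit 0) (XT.lf (nat_lit 152) (nat_lit 16913947652) (nat_lit 0) (nat_lit 2952007548) (nat_lit 76) (nat_lit 2952007548) (nat_lit 175) (nat_lit 1) (nat_lit 173) (nat_lit 1) (nat_lit 174) (nat_lit 1) (nat_lit 287) (nat_lit 407) (nat_lit 326)) (XT.lf (nat_lit 0) (nat_lit 4713757893) (nat_lit 0) (nat_lit 13014187281) (nat_lit 152) (nat_lit 4713757893) (nat_lit 173) (nat_lit 3) (nat_lit 173) (nat_lit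 1) (nat_lit 175) (nat_lit 1) (nat_lit 288) (nat_lit 407) (nat_lit 325)))) (XT.nd (nat_lit 156) (nat_lit 76) (nat_lit 0) (XT.nd (nat_lit 78) (nat_lit 152) (nat_lit 0) (XT.lf (nat_lit 76) (nat_lit 2087674428) (nat_lit 0) (nat_lit 9992845274) (nat_lit 76) (nat_lit 9992845274) (nat_lit 173) (nat_lit 3) (nat_lit 172) (nat_lit 1) (nat_lit 173) (nat_lit 1) (nat_lit 289) (nat_lit 407) (nat_lit 324)) (XT.lf (nat_lit 152) (nat_lit 16855916128) (nat_lit 0) (nat_lit 2428623915) (nat_lit 76) (nat_lit 2428623915) (nat_lit 172) (nat_lit 1) (nat_lit 170) (nat_lit 1) (nat_lit 171) (nat_lit 1) (nat_lit 290) (nat_lit 407) (nat_lit 323))) (XT.nd (nat_lit 78) (nat_lit 76) (nat_lit 0) (XT.lf (nat_lit 0) (nat_lit 4842207017) (nat_lit 0) (nat_lit 11670990816) (nat_lit 152) (nat_lit 4842207017) (nat_lit 170) (nat_lit 3) (nat_lit 170) (nat_lit 1) (nat_lit 172) (nat_lit 1) (nat_lit 291) (nat_lit 407) (nat_lit 322)) (XT.lf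 (nat_lit 76) (nat_lit 2666170252) (nat_lit 0) (nat_lit 9169773871) (nat_lit 76) (nat_lit 9169773871) (nat_lit 170) (nat_lit 3) (nat_lit 169) (nat_lit 1) (nat_lit 170) (nat_lit 1) (nat_lit 292) (nat_lit 407) (nat_lit 321))))))))
noncomputable def ec289 : XT := (XT.nd (nat_lit 1950) (nat_lit 1824) (nat_lit 0) (XT.nd (nat_lit 936) (nat_lit 1064) (nat_lit 0) (XT.nd (nat_lit 468) (nat_lit 456) (nat_lit 0) (XT.nd (nat_lit 234) (nat_lit 228) (nat_lit 0) (XT.nd (nat_lit 78) (nat_lit 76) (nat_lit 0) (XT.lf (nat_lit 152) (nat_lit 16668136804) (nat_lit 0) (nat_lit 1998034905) (nat_lit 76) (nat_lit 1998034905) (nat_lit 169) (nat_lit 1) (nat_lit 167) (nat_lit 1) (nat_lit 168) (nat_lit 1) (nat_lit 293) (nat_lit 407) (nat_lit 320)) (XT.nd (nat_lit 78) (nat_lit 76) (nat_lit 0) (XT.lf (nat_lit 0) (nat_lit 4901968775) (nat_lit 0) (nat_lit 10520026107) (nat_lit 152) (nat_lit 4901968775) (nat_lit 167) (nat_lit 3)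 (nat_lit 167) (nat_lit 1) (nat_lit 169) (nat_lit 1) (nat_lit 294) (nat_lit 407) (nat_lit 319)) (XT.lf (nat_lit 76) (nat_lit 3096927088) (nat_lit 0) (nat_lit 8447457880) (nat_lit 76) (nat_lit 8447457880) (nat_lit 167) (nat_lit 3) (nat_lit 166) (nat_lit 1) (nat_lit 167) (nat_lit 1) (nat_lit 295) (nat_lit 407) (nat_lit 318)))) (XT.nd (nat_lit 78) (nat_lit 76) (nat_lit 0) (XT.lf (nat_lit 152) (nat_lit 16380282057) (nat_lit 0) (nat_lit 1643788261) (nat_lit 76) (nat_lit 1643788261) (nat_lit 166) (nat_lit 1) (nat_lit 164) (nat_lit 1) (nat_lit 165) (nat_lit 1) (nat_lit 296) (nat_lit 407) (nat_lit 317)) (XT.nd (nat_lit 78) (nat_lit 76) (nat_lit 0) (XT.lf (nat_lit 0) (nat_lit 4907407632) (nat_lit 0) (nat_lit 9529397302) (nat_lit 152) (nat_lit 4907407632) (nat_lit 164) (nat_lit 3) (nat_lit 164) (nat_lit 1) (nat_lit 166) (nat_lit 1) (nat_lit 297) (nat_lit 407) (nat_lit 316)) (XT.lf (nat_lit 76) (nat_lit 3408289792)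 (nat_lit 0) (nat_lit 7810184715) (nat_lit 76) (nat_lit 7810184715) (nat_lit 164) (nat_lit 3) (nat_lit 163) (nat_lit 1) (nat_lit 164) (nat_lit 1) (nat_lit 298) (nat_lit 407) (nat_lit 315))))) (XT.nd (nat_lit 234) (nat_lit 228) (nat_lit 0) (XT.nd (nat_lit 78) (nat_lit 76) (nat_lit 0) (XT.lf (nat_lit 152) (nat_lit 16016445880) (nat_lit 0) (nat_lit 1352348670) (nat_lit 76) (nat_lit 1352348670) (nat_lit 163) (nat_lit 1) (nat_lit 161) (nat_lit 1) (nat_lit 162) (nat_lit 1) (nat_lit 299) (nat_lit 407) (nat_lit 314)) (XT.nd (nat_lit 78) (nat_lit 76) (nat_lit 0) (XT.lf (nat_lit 0) (nat_lit 4870237156) (nat_lit 0) (nat_lit 8672759496) (nat_lit 152) (nat_lit 4870237156) (nat_lit 161) (nat_lit 3) (nat_lit 161) (nat_lit 1) (nat_lit 163) (nat_lit 1) (nat_lit 300) (nat_lit 407) (nat_lit 313)) (XT.lf (nat_lit 76) (nat_lit 3623475315) (nat_lit 0) (nat_lit 7244925163) (nat_lit 76) (nat_lit 7244925163) (nat_lit 161)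 (nat_lit 3) (nat_lit 160) (nat_lit 1) (nat_lit 161) (nat_lit 1) (nat_lit 301) (nat_lit 407) (nat_lit 312)))) (XT.nd (nat_lit 78) (nat_lit 76) (nat_lit 0) (XT.lf (nat_lit 152) (nat_lit 15596148037) (nat_lit 0) (nat_lit 1112580598) (nat_lit 76) (nat_lit 1112580598) (nat_lit 160) (nat_lit 1) (nat_lit 158) (nat_lit 1) (nat_lit 159) (nat_lit 1) (nat_lit 302) (nat_lit 407) (nat_lit 311)) (XT.nd (nat_lit 78) (nat_lit 76) (nat_lit 0) (XT.lf (nat_lit 0) (nat_lit 4799994972) (nat_lit 0) (nat_lit 7928339512) (nat_lit 152) (nat_lit 4799994972) (nat_lit 158) (nat_lit 3) (nat_lit 158) (nat_lit 1) (nat_lit 160) (nat_lit 1) (nat_lit 303) (nat_lit 407) (nat_lit 310)) (XT.lf (nat_lit 76) (nat_lit 3761486746) (nat_lit 0) (nat_lit 6740862498) (nat_lit 76) (nat_lit 6740862498) (nat_lit 158) (nat_lit 3) (nat_lit 157) (nat_lit 1) (nat_lit 158) (nat_lit 1) (nat_lit 304) (nat_lit 407) (nat_lit 309)))))) (XT.nd (nat_lit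 468) (nat_lit 608) (nat_lit 0) (XT.nd (nat_lit 234) (nat_lit 228) (nat_lit 0) (XT.nd (nat_lit 78) (nat_lit 76) (nat_lit 0) (XT.lf (nat_lit 152) (nat_lit 15135159468) (nat_lit 0) (nat_lit 915322811) (nat_lit 76) (nat_lit 915322811) (nat_lit 157) (nat_lit 1) (nat_lit 155) (nat_lit 1) (nat_lit 156) (nat_lit 1) (nat_lit 305) (nat_lit 407) (nat_lit 308)) (XT.nd (nat_lit 78) (nat_lit 76) (nat_lit 0) (XT.lf (nat_lit 0) (nat_lit 4704433277) (nat_lit 0) (nat_lit 7278130072) (nat_lit 152) (nat_lit 4704433277) (nat_lit 155) (nat_lit 3) (nat_lit 155) (nat_lit 1) (nat_lit 157) (nat_lit 1) (nat_lit 306) (nat_lit 407) (nat_lit 307)) (XT.lf (nat_lit 76) (nat_lit 3837865061) (nat_lit 0) (nat_lit 6289004866) (nat_lit 76) (nat_lit 6289004866) (nat_lit 155) (nat_lit 3) (nat_lit 154) (nat_lit 1) (nat_lit 155) (nat_lit 1) (nat_lit 307) (nat_lit 407) (nat_lit 306)))) (XT.nd (nat_lit 78) (nat_lit 76) (nat_lit 0) (XT.lf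 (nat_lit 152) (nat_lit 14646180656) (nat_lit 0) (nat_lit 753038342) (nat_lit 76) (nat_lit 753038342) (nat_lit 154) (nat_lit 1) (nat_lit 152) (nat_lit 1) (nat_lit 153) (nat_lit 1) (nat_lit 308) (nat_lit 407) (nat_lit 305)) (XT.nd (nat_lit 78) (nat_lit 76) (nat_lit 0) (XT.lf (nat_lit 0) (nat_lit 4589839885) (nat_lit 0) (nat_lit 6707226607) (nat_lit 152) (nat_lit 4589839885) (nat_lit 152) (nat_lit 3) (nat_lit 152) (nat_lit 1) (nat_lit 154) (nat_lit 1) (nat_lit 309) (nat_lit 407) (nat_lit 304)) (XT.lf (nat_lit 76) (nat_lit 3865307376) (nat_lit 0) (nat_lit 5881866159) (nat_lit 76) (nat_lit 5881866159) (nat_lit 152) (nat_lit 3) (nat_lit 151) (nat_lit 1) (nat_lit 152) (nat_lit 1) (nat_lit 310) (nat_lit 407) (nat_lit 303))))) (XT.nd (nat_lit 234) (nat_lit 380) (nat_lit 0) (XT.nd (nat_lit 78) (nat_lit 76) (nat_lit 0) (XT.lf (nat_lit 152) (nat_lit 14139399077) (nat_lit 0) (nat_lit 619526507) (nat_lit 76)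 (nat_lit 619526507) (nat_lit 151) (nat_lit 1) (nat_lit 149) (nat_lit 1) (nat_lit 150) (nat_lit 1) (nat_lit 311) (nat_lit 407) (nat_lit 302)) (XT.nd (nat_lit 78) (nat_lit 76) (nat_lit 0) (XT.lf (nat_lit 0) (nat_lit 4461302142) (nat_lit 0) (nat_lit 6203281439) (nat_lit 152) (nat_lit 4461302142) (nat_lit 149) (nat_lit 3) (nat_lit 149) (nat_lit 1) (nat_lit 151) (nat_lit 1) (nat_lit 312) (nat_lit 407) (nat_lit 301)) (XT.lf (nat_lit 76) (nat_lit 3854175365) (nat_lit 0) (nat_lit 5513203267) (nat_lit 76) (nat_lit 5513203267) (nat_lit 149) (nat_lit 3) (nat_lit 148) (nat_lit 1) (nat_lit 149) (nat_lit 1) (nat_lit 313) (nat_lit 407) (nat_lit 300)))) (XT.nd (nat_lit 156) (nat_lit 228) (nat_lit 0) (XT.nd (nat_lit 78) (nat_lit 0) (nat_lit 0) (XT.lf (nat_lit 152) (nat_lit 13622947189) (nat_lit 0) (nat_lit 509685991) (nat_lit 76) (nat_lit 509685991) (nat_lit 148) (nat_lit 1) (nat_lit 146) (nat_lit 1) (nat_lit 147)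 (nat_lit 1) (nat_lit 314) (nat_lit 407) (nat_lit 299)) (XT.lf (nat_lit 0) (nat_lit 4322923846) (nat_lit 0) (nat_lit 5756054524) (nat_lit 152) (nat_lit 4322923846) (nat_lit 146) (nat_lit 3) (nat_lit 146) (nat_lit 1) (nat_lit 148) (nat_lit 1) (nat_lit 315) (nat_lit 407) (nat_lit 298))) (XT.nd (nat_lit 78) (nat_lit 152) (nat_lit 0) (XT.lf (nat_lit 76) (nat_lit 3812913345) (nat_lit 0) (nat_lit 5177799706) (nat_lit 76) (nat_lit 5177799706) (nat_lit 146) (nat_lit 3) (nat_lit 145) (nat_lit 1) (nat_lit 146) (nat_lit 1) (nat_lit 316) (nat_lit 407) (nat_lit 297)) (XT.lf (nat_lit 152) (nat_lit 13103278630) (nat_lit 0) (nat_lit 419319926) (nat_lit 76) (nat_lit 419319926) (nat_lit 145) (nat_lit 1) (nat_lit 143) (nat_lit 1) (nat_lit 144) (nat_lit 1) (nat_lit 317) (nat_lit 407) (nat_lit 296))))))) (XT.nd (nat_lit 936) (nat_lit 912) (nat_lit 0) (XT.nd (nat_lit 468) (nat_lit 456) (nat_lit 0) (XT.nd (nat_lit 234)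 (nat_lit 228) (nat_lit 0) (XT.nd (nat_lit 78) (nat_lit 228) (nat_lit 0) (XT.lf (nat_lit 0) (nat_lit 4178003511) (nat_lit 0) (nat_lit 5357043667) (nat_lit 152) (nat_lit 4178003511) (nat_lit 143) (nat_lit 3) (nat_lit 143) (nat_lit 1) (nat_lit 145) (nat_lit 1) (nat_lit 318) (nat_lit 407) (nat_lit 295)) (XT.nd (nat_lit 78) (nat_lit 152) (nat_lit 0) (XT.lf (nat_lit 76) (nat_lit 3748392040) (nat_lit 0) (nat_lit 4871287426) (nat_lit 76) (nat_lit 4871287426) (nat_lit 143) (nat_lit 3) (nat_lit 142) (nat_lit 1) (nat_lit 143) (nat_lit 1) (nat_lit 319) (nat_lit 407) (nat_lit 294)) (XT.lf (nat_lit 152) (nat_lit 12585477150) (nat_lit 0) (nat_lit 344975541) (nat_lit 76) (nat_lit 344975541) (nat_lit 142) (nat_lit 1) (nat_lit 140) (nat_lit 1) (nat_lit 141) (nat_lit 1) (nat_lit 320) (nat_lit 407) (nat_lit 293)))) (XT.nd (nat_lit 78) (nat_lit 228) (nat_lit 0) (XT.lf (nat_lit 0) (nat_lit 4029180843) (nat_lit 0) (nat_lit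 4999180097) (nat_lit 152) (nat_lit 4029180843) (nat_lit 140) (nat_lit 3) (nat_lit 140) (nat_lit 1) (nat_lit 142) (nat_lit 1) (nat_lit 321) (nat_lit 407) (nat_lit 292)) (XT.nd (nat_lit 78) (nat_lit 152) (nat_lit 0) (XT.lf (nat_lit 76) (nat_lit 3666191212) (nat_lit 0) (nat_lit 4590000025) (nat_lit 76) (nat_lit 4590000025) (nat_lit 140) (nat_lit 3) (nat_lit 139) (nat_lit 1) (nat_lit 140) (nat_lit 1) (nat_lit 322) (nat_lit 407) (nat_lit 291)) (XT.lf (nat_lit 152) (nat_lit 12073510239) (nat_lit 0) (nat_lit 283812231) (nat_lit 76) (nat_lit 283812231) (nat_lit 139) (nat_lit 1) (nat_lit 137) (nat_lit 1) (nat_lit 138) (nat_lit 1) (nat_lit 323) (nat_lit 407) (nat_lit 290))))) (XT.nd (nat_lit 234) (nat_lit 228) (nat_lit 0) (XT.nd (nat_lit 78) (nat_lit 228) (nat_lit 0) (XT.lf (nat_lit 0) (nat_lit 3878557064) (nat_lit 0) (nat_lit 4676577851) (nat_lit 152) (nat_lit 3878557064) (nat_lit 137) (nat_lit 3) (nat_lit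 137) (nat_lit 1) (nat_lit 139) (nat_lit 1) (nat_lit 324) (nat_lit 407) (nat_lit 289)) (XT.nd (nat_lit 78) (nat_lit 152) (nat_lit 0) (XT.lf (nat_lit 76) (nat_lit 3570832016) (nat_lit 0) (nat_lit 4330851813) (nat_lit 76) (nat_lit 4330851813) (nat_lit 137) (nat_lit 3) (nat_lit 136) (nat_lit 1) (nat_lit 137) (nat_lit 1) (nat_lit 325) (nat_lit 407) (nat_lit 288)) (XT.lf (nat_lit 152) (nat_lit 11570437269) (nat_lit 0) (nat_lit 233493025) (nat_lit 76) (nat_lit 233493025) (nat_lit 136) (nat_lit 1) (nat_lit 134) (nat_lit 1) (nat_lit 135) (nat_lit 1) (nat_lit 326) (nat_lit 407) (nat_lit 287)))) (XT.nd (nat_lit 78) (nat_lit 228) (nat_lit 0) (XT.lf (nat_lit 0) (nat_lit 3727793746) (nat_lit 0) (nat_lit 4384327423) (nat_lit 152) (nat_lit 3727793746) (nat_lit 134) (nat_lit 3) (nat_lit 134) (nat_lit 1) (nat_lit 136) (nat_lit 1) (nat_lit 327) (nat_lit 407) (nat_lit 286)) (XT.nd (nat_lit 78) (nat_lit 152) (nat_lit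 0) (XT.lf (nat_lit 76) (nat_lit 3465967987) (nat_lit 0) (nat_lit 4091238154) (nat_lit 76) (nat_lit 4091238154) (nat_lit 134) (nat_lit 3) (nat_lit 133) (nat_lit 1) (nat_lit 134) (nat_lit 1) (nat_lit 328) (nat_lit 407) (nat_lit 285)) (XT.lf (nat_lit 152) (nat_lit 11078580247) (nat_lit 0) (nat_lit 192095289) (nat_lit 76) (nat_lit 192095289) (nat_lit 133) (nat_lit 1) (nat_lit 131) (nat_lit 1) (nat_lit 132) (nat_lit 1) (nat_lit 329) (nat_lit 407) (nat_lit 284)))))) (XT.nd (nat_lit 468) (nat_lit 456) (nat_lit 0) (XT.nd (nat_lit 234) (nat_lit 228) (nat_lit 0) (XT.nd (nat_lit 78) (nat_lit 228) (nat_lit 0) (XT.lf (nat_lit 0) (nat_lit 3578193951) (nat_lit 0) (nat_lit 4118325831) (nat_lit 152) (nat_lit 3578193951) (nat_lit 131) (nat_lit 3) (nat_lit 131) (nat_lit 1) (nat_lit 133) (nat_lit 1) (nat_lit 330) (nat_lit 407) (nat_lit 283)) (XT.nd (nat_lit 78) (nat_lit 152) (nat_lit 0) (XT.lf (nat_lit 76) (nat_lit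 3354542012) (nat_lit 0) (nat_lit 3868953326) (nat_lit 76) (nat_lit 3868953326) (nat_lit 131) (nat_lit 3) (nat_lit 130) (nat_lit 1) (nat_lit 131) (nat_lit 1) (nat_lit 331) (nat_lit 407) (nat_lit 282)) (XT.lf (nat_lit 152) (nat_lit 10599663836) (nat_lit 0) (nat_lit 158037270) (nat_lit 76) (nat_lit 158037270) (nat_lit 130) (nat_lit 1) (nat_lit 128) (nat_lit 1) (nat_lit 129) (nat_lit 1) (nat_lit 332) (nat_lit 407) (nat_lit 281)))) (XT.nd (nat_lit 78) (nat_lit 228) (nat_lit 0) (XT.lf (nat_lit 0) (nat_lit 3430768838) (nat_lit 0) (nat_lit 3875136673) (nat_lit 152) (nat_lit 3430768838) (nat_lit 128) (nat_lit 3) (nat_lit 128) (nat_lit 1) (nat_lit 130) (nat_lit 1) (nat_lit 333) (nat_lit 407) (nat_lit 280)) (XT.nd (nat_lit 78) (nat_lit 152) (nat_lit 0) (XT.lf (nat_lit 76) (nat_lit 3238915321) (nat_lit 0) (nat_lit 3662122783) (nat_lit 76) (nat_lit 3662122783) (nat_lit 128) (nat_lit 3) (nat_lit 127) (nat_lit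 1) (nat_lit 128) (nat_lit 1) (nat_lit 334) (nat_lit 407) (nat_lit 279)) (XT.lf (nat_lit 152) (nat_lit 10134930098) (nat_lit 0) (nat_lit 130017653) (nat_lit 76) (nat_lit 130017653) (nat_lit 127) (nat_lit 1) (nat_lit 125) (nat_lit 1) (nat_lit 126) (nat_lit 1) (nat_lit 335) (nat_lit 407) (nat_lit 278))))) (XT.nd (nat_lit 234) (nat_lit 228) (nat_lit 0) (XT.nd (nat_lit 78) (nat_lit 228) (nat_lit 0) (XT.lf (nat_lit 0) (nat_lit 3286292318) (nat_lit 0) (nat_lit 3651874835) (nat_lit 152) (nat_lit 3286292318) (nat_lit 125) (nat_lit 3) (nat_lit 125) (nat_lit 1) (nat_lit 127) (nat_lit 1) (nat_lit 336) (nat_lit 407) (nat_lit 277)) (XT.nd (nat_lit 78) (nat_lit 152) (nat_lit 0) (XT.lf (nat_lit 76) (nat_lit 3120973466) (nat_lit 0) (nat_lit 3469147292) (nat_lit 76) (nat_lit 3469147292) (nat_lit 125) (nat_lit 3) (nat_lit 124) (nat_lit 1) (nat_lit 125) (nat_lit 1) (nat_lit 337) (nat_lit 407) (nat_lit 276)) (XT.lf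 (nat_lit 152) (nat_lit 9685232481) (nat_lit 0) (nat_lit 106965845) (nat_lit 76) (nat_lit 106965845) (nat_lit 124) (nat_lit 1) (nat_lit 122) (nat_lit 1) (nat_lit 123) (nat_lit 1) (nat_lit 338) (nat_lit 407) (nat_lit 275)))) (XT.nd (nat_lit 156) (nat_lit 152) (nat_lit 0) (XT.nd (nat_lit 78) (nat_lit 76) (nat_lit 0) (XT.lf (nat_lit 0) (nat_lit 3145345874) (nat_lit 0) (nat_lit 3446111516) (nat_lit 152) (nat_lit 3145345874) (nat_lit 122) (nat_lit 3) (nat_lit 122) (nat_lit 1) (nat_lit 124) (nat_lit 1) (nat_lit 339) (nat_lit 407) (nat_lit 274)) (XT.lf (nat_lit 76) (nat_lit 3002213371) (nat_lit 0) (nat_lit 3288656839) (nat_lit 76) (nat_lit 3288656839) (nat_lit 122) (nat_lit 3) (nat_lit 121) (nat_lit 1) (nat_lit 122) (nat_lit 1) (nat_lit 340) (nat_lit 407) (nat_lit 273))) (XT.nd (nat_lit 78) (nat_lit 0) (nat_lit 0) (XT.lf (nat_lit 152) (nat_lit 9251112739) (nat_lit 0) (nat_lit 88001065) (nat_lit 76) (nat_lit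 88001065) (nat_lit 121) (nat_lit 1) (nat_lit 119) (nat_lit 1) (nat_lit 120) (nat_lit 1) (nat_lit 341) (nat_lit 407) (nat_lit 272)) (XT.lf (nat_lit 0) (nat_lit 3008355313) (nat_lit 0) (nat_lit 3255795950) (nat_lit 152) (nat_lit 3008355313) (nat_lit 119) (nat_lit 3) (nat_lit 119) (nat_lit 1) (nat_lit 121) (nat_lit 1) (nat_lit 342) (nat_lit 407) (nat_lit 271))))))))
noncomputable def ec290 : XT := (XT.nd (nat_lit 1950) (nat_lit 1976) (nat_lit 0) (XT.nd (nat_lit 936) (nat_lit 988) (nat_lit 0) (XT.nd (nat_lit 468) (nat_lit 456) (nat_lit 0) (XT.nd (nat_lit 234) (nat_lit 228) (nat_lit 0) (XT.nd (nat_lit 78) (nat_lit 152) (nat_lit 0) (XT.lf (nat_lit 76) (nat_lit 2883814824) (nat_lit 0) (nat_lit 3119472574) (nat_lit 76) (nat_lit 3119472574) (nat_lit 119) (nat_lit 3) (nat_lit 118) (nat_lit 1) (nat_lit 119) (nat_lit 1) (nat_lit 343) (nat_lit 407) (nat_lit 270)) (XT.nd (nat_lit 78) (nat_lit 0) (nat_lit 0)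 (XT.lf (nat_lit 152) (nat_lit 8832863828) (nat_lit 0) (nat_lit 72398694) (nat_lit 76) (nat_lit 72398694) (nat_lit 118) (nat_lit 1) (nat_lit 116) (nat_lit 1) (nat_lit 117) (nat_lit 1) (nat_lit 344) (nat_lit 407) (nat_lit 269)) (XT.lf (nat_lit 0) (nat_lit 2875620863) (nat_lit 0) (nat_lit 3079190889) (nat_lit 152) (nat_lit 2875620863) (nat_lit 116) (nat_lit 3) (nat_lit 116) (nat_lit 1) (nat_lit 118) (nat_lit 1) (nat_lit 345) (nat_lit 407) (nat_lit 268)))) (XT.nd (nat_lit 78) (nat_lit 152) (nat_lit 0) (XT.lf (nat_lit 76) (nat_lit 2766699167) (nat_lit 0) (nat_lit 2960575382) (nat_lit 76) (nat_lit 2960575382) (nat_lit 116) (nat_lit 3) (nat_lit 115) (nat_lit 1) (nat_lit 116) (nat_lit 1) (nat_lit 346) (nat_lit 407) (nat_lit 267)) (XT.nd (nat_lit 78) (nat_lit 0) (nat_lit 0) (XT.lf (nat_lit 152) (nat_lit 8430581296) (nat_lit 0) (nat_lit 59562585) (nat_lit 76) (nat_lit 59562585) (nat_lit 115) (nat_lit 1)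 (nat_lit 113) (nat_lit 1) (nat_lit 114) (nat_lit 1) (nat_lit 347) (nat_lit 407) (nat_lit 266)) (XT.lf (nat_lit 0) (nat_lit 2747341832) (nat_lit 0) (nat_lit 2914819395) (nat_lit 152) (nat_lit 2747341832) (nat_lit 113) (nat_lit 3) (nat_lit 113) (nat_lit 1) (nat_lit 115) (nat_lit 1) (nat_lit 348) (nat_lit 407) (nat_lit 265))))) (XT.nd (nat_lit 234) (nat_lit 228) (nat_lit 0) (XT.nd (nat_lit 78) (nat_lit 152) (nat_lit 0) (XT.lf (nat_lit 76) (nat_lit 2651577467) (nat_lit 0) (nat_lit 2811079908) (nat_lit 76) (nat_lit 2811079908) (nat_lit 113) (nat_lit 3) (nat_lit 112) (nat_lit 1) (nat_lit 113) (nat_lit 1) (nat_lit 349) (nat_lit 407) (nat_lit 264)) (XT.nd (nat_lit 78) (nat_lit 0) (nat_lit 0) (XT.lf (nat_lit 152) (nat_lit 8044205205) (nat_lit 0) (nat_lit 49002286) (nat_lit 76) (nat_lit 49002286) (nat_lit 112) (nat_lit 1) (nat_lit 110) (nat_lit 1) (nat_lit 111) (nat_lit 1) (nat_lit 350) (nat_lit 407) (nat_lit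 263)) (XT.lf (nat_lit 0) (nat_lit 2623636763) (nat_lit 0) (nat_lit 2761420969) (nat_lit 152) (nat_lit 2623636763) (nat_lit 110) (nat_lit 3) (nat_lit 110) (nat_lit 1) (nat_lit 112) (nat_lit 1) (nat_lit 351) (nat_lit 407) (nat_lit 262)))) (XT.nd (nat_lit 78) (nat_lit 152) (nat_lit 0) (XT.lf (nat_lit 76) (nat_lit 2538990024) (nat_lit 0) (nat_lit 2670213077) (nat_lit 76) (nat_lit 2670213077) (nat_lit 110) (nat_lit 3) (nat_lit 109) (nat_lit 1) (nat_lit 110) (nat_lit 1) (nat_lit 352) (nat_lit 407) (nat_lit 261)) (XT.nd (nat_lit 78) (nat_lit 0) (nat_lit 0) (XT.lf (nat_lit 152) (nat_lit 7673554301) (nat_lit 0) (nat_lit 40314302) (nat_lit 76) (nat_lit 40314302) (nat_lit 109) (nat_lit 1) (nat_lit 107) (nat_lit 1) (nat_lit 108) (nat_lit 1) (nat_lit 353) (nat_lit 407) (nat_lit 260)) (XT.lf (nat_lit 0) (nat_lit 2504559924) (nat_lit 0) (nat_lit 2617915331) (nat_lit 152) (nat_lit 2504559924) (nat_lit 107) (nat_lit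 3) (nat_lit 107) (nat_lit 1) (nat_lit 109) (nat_lit 1) (nat_lit 354) (nat_lit 407) (nat_lit 259)))))) (XT.nd (nat_lit 468) (nat_lit 532) (nat_lit 0) (XT.nd (nat_lit 234) (nat_lit 228) (nat_lit 0) (XT.nd (nat_lit 78) (nat_lit 152) (nat_lit 0) (XT.lf (nat_lit 76) (nat_lit 2429338786) (nat_lit 0) (nat_lit 2537296317) (nat_lit 76) (nat_lit 2537296317) (nat_lit 107) (nat_lit 3) (nat_lit 106) (nat_lit 1) (nat_lit 107) (nat_lit 1) (nat_lit 355) (nat_lit 407) (nat_lit 258)) (XT.nd (nat_lit 78) (nat_lit 0) (nat_lit 0) (XT.lf (nat_lit 152) (nat_lit 7318353800) (nat_lit 0) (nat_lit 33166676) (nat_lit 76) (nat_lit 33166676) (nat_lit 106) (nat_lit 1) (nat_lit 104) (nat_lit 1) (nat_lit 105) (nat_lit 1) (nat_lit 356) (nat_lit 407) (nat_lit 257)) (XT.lf (nat_lit 0) (nat_lit 2390114758) (nat_lit 0) (nat_lit 2483372532) (nat_lit 152) (nat_lit 2390114758) (nat_lit 104) (nat_lit 3) (nat_lit 104) (nat_lit 1) (nat_lit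 106) (nat_lit 1) (nat_lit 357) (nat_lit 407) (nat_lit 256)))) (XT.nd (nat_lit 78) (nat_lit 152) (nat_lit 0) (XT.lf (nat_lit 76) (nat_lit 2322913898) (nat_lit 0) (nat_lit 2411730826) (nat_lit 76) (nat_lit 2411730826) (nat_lit 104) (nat_lit 3) (nat_lit 103) (nat_lit 1) (nat_lit 104) (nat_lit 1) (nat_lit 358) (nat_lit 407) (nat_lit 255)) (XT.nd (nat_lit 78) (nat_lit 0) (nat_lit 0) (XT.lf (nat_lit 152) (nat_lit 6978257961) (nat_lit 0) (nat_lit 27286306) (nat_lit 76) (nat_lit 27286306) (nat_lit 103) (nat_lit 1) (nat_lit 101) (nat_lit 1) (nat_lit 102) (nat_lit 1) (nat_lit 359) (nat_lit 407) (nat_lit 254)) (XT.lf (nat_lit 0) (nat_lit 2280264860) (nat_lit 0) (nat_lit 2356988262) (nat_lit 152) (nat_lit 2280264860) (nat_lit 101) (nat_lit 3) (nat_lit 101) (nat_lit 1) (nat_lit 103) (nat_lit 1) (nat_lit 360) (nat_lit 407) (nat_lit 253))))) (XT.nd (nat_lit 234) (nat_lit 304) (nat_lit 0) (XT.nd (nat_lit 78) (nat_lit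 152) (nat_lit 0) (XT.lf (nat_lit 76) (nat_lit 2219915457) (nat_lit 0) (nat_lit 2292985363) (nat_lit 76) (nat_lit 2292985363) (nat_lit 101) (nat_lit 3) (nat_lit 100) (nat_lit 1) (nat_lit 101) (nat_lit 1) (nat_lit 361) (nat_lit 407) (nat_lit 252)) (XT.nd (nat_lit 78) (nat_lit 0) (nat_lit 0) (XT.lf (nat_lit 152) (nat_lit 6652868358) (nat_lit 0) (nat_lit 22448511) (nat_lit 76) (nat_lit 22448511) (nat_lit 100) (nat_lit 1) (nat_lit 98) (nat_lit 1) (nat_lit 99) (nat_lit 1) (nat_lit 362) (nat_lit 407) (nat_lit 251)) (XT.lf (nat_lit 0) (nat_lit 2174942909) (nat_lit 0) (nat_lit 2238063441) (nat_lit 152) (nat_lit 2174942909) (nat_lit 98) (nat_lit 3) (nat_lit 98) (nat_lit 1) (nat_lit 100) (nat_lit 1) (nat_lit 363) (nat_lit 407) (nat_lit 250)))) (XT.nd (nat_lit 156) (nat_lit 76) (nat_lit 0) (XT.nd (nat_lit 78) (nat_lit 152) (nat_lit 0) (XT.lf (nat_lit 76) (nat_lit 2120471316) (nat_lit 0) (nat_lit 2180586109)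 (nat_lit 76) (nat_lit 2180586109) (nat_lit 98) (nat_lit 3) (nat_lit 97) (nat_lit 1) (nat_lit 98) (nat_lit 1) (nat_lit 364) (nat_lit 407) (nat_lit 249)) (XT.lf (nat_lit 152) (nat_lit 6341748658) (nat_lit 0) (nat_lit 18468446) (nat_lit 76) (nat_lit 18468446) (nat_lit 97) (nat_lit 1) (nat_lit 95) (nat_lit 1) (nat_lit 96) (nat_lit 1) (nat_lit 365) (nat_lit 407) (nat_lit 248))) (XT.nd (nat_lit 78) (nat_lit 76) (nat_lit 0) (XT.lf (nat_lit 0) (nat_lit 2074057928) (nat_lit 0) (nat_lit 2125987346) (nat_lit 152) (nat_lit 2074057928) (nat_lit 95) (nat_lit 3) (nat_lit 95) (nat_lit 1) (nat_lit 97) (nat_lit 1) (nat_lit 366) (nat_lit 407) (nat_lit 247)) (XT.lf (nat_lit 76) (nat_lit 2024651643) (nat_lit 0) (nat_lit 2074108231) (nat_lit 76) (nat_lit 2074108231) (nat_lit 95) (nat_lit 3) (nat_lit 94) (nat_lit 1) (nat_lit 95) (nat_lit 1) (nat_lit 367) (nat_lit 407) (nat_lit 246))))))) (XT.nd (nat_lit 936) (nat_lit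 1064) (nat_lit 0) (XT.nd (nat_lit 468) (nat_lit 456) (nat_lit 0) (XT.nd (nat_lit 234) (nat_lit 228) (nat_lit 0) (XT.nd (nat_lit 78) (nat_lit 76) (nat_lit 0) (XT.lf (nat_lit 152) (nat_lit 6044436501) (nat_lit 0) (nat_lit 15194036) (nat_lit 76) (nat_lit 15194036) (nat_lit 94) (nat_lit 1) (nat_lit 92) (nat_lit 1) (nat_lit 93) (nat_lit 1) (nat_lit 368) (nat_lit 407) (nat_lit 245)) (XT.nd (nat_lit 78) (nat_lit 76) (nat_lit 0) (XT.lf (nat_lit 0) (nat_lit 1977501176) (nat_lit 0) (nat_lit 2020223637) (nat_lit 152) (nat_lit 1977501176) (nat_lit 92) (nat_lit 3) (nat_lit 92) (nat_lit 1) (nat_lit 94) (nat_lit 1) (nat_lit 369) (nat_lit 407) (nat_lit 244)) (XT.lf (nat_lit 76) (nat_lit 1932480816) (nat_lit 0) (nat_lit 1973168873) (nat_lit 76) (nat_lit 1973168873) (nat_lit 92) (nat_lit 3) (nat_lit 91) (nat_lit 1) (nat_lit 92) (nat_lit 1) (nat_lit 370) (nat_lit 407) (nat_lit 243)))) (XT.nd (nat_lit 78) (nat_lit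 76) (nat_lit 0) (XT.lf (nat_lit 152) (nat_lit 5760453044) (nat_lit 0) (nat_lit 12500171) (nat_lit 76) (nat_lit 12500171) (nat_lit 91) (nat_lit 1) (nat_lit 89) (nat_lit 1) (nat_lit 90) (nat_lit 1) (nat_lit 371) (nat_lit 407) (nat_lit 242)) (XT.nd (nat_lit 78) (nat_lit 76) (nat_lit 0) (XT.lf (nat_lit 0) (nat_lit 1885150907) (nat_lit 0) (nat_lit 1920298781) (nat_lit 152) (nat_lit 1885150907) (nat_lit 89) (nat_lit 3) (nat_lit 89) (nat_lit 1) (nat_lit 91) (nat_lit 1) (nat_lit 372) (nat_lit 407) (nat_lit 241)) (XT.lf (nat_lit 76) (nat_lit 1843947129) (nat_lit 0) (nat_lit 1877421295) (nat_lit 76) (nat_lit 1877421295) (nat_lit 89) (nat_lit 3) (nat_lit 88) (nat_lit 1) (nat_lit 89) (nat_lit 1) (nat_lit 373) (nat_lit 407) (nat_lit 240))))) (XT.nd (nat_lit 234) (nat_lit 228) (nat_lit 0) (XT.nd (nat_lit 78) (nat_lit 76) (nat_lit 0) (XT.lf (nat_lit 152) (nat_lit 5489310572) (nat_lit 0) (nat_lit 10283921) (nat_lit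 76) (nat_lit 10283921) (nat_lit 88) (nat_lit 1) (nat_lit 86) (nat_lit 1) (nat_lit 87) (nat_lit 1) (nat_lit 374) (nat_lit 407) (nat_lit 239)) (XT.nd (nat_lit 78) (nat_lit 76) (nat_lit 0) (XT.lf (nat_lit 0) (nat_lit 1796876217) (nat_lit 0) (nat_lit 1825792460) (nat_lit 152) (nat_lit 1796876217) (nat_lit 86) (nat_lit 3) (nat_lit 86) (nat_lit 1) (nat_lit 88) (nat_lit 1) (nat_lit 375) (nat_lit 407) (nat_lit 238)) (XT.lf (nat_lit 76) (nat_lit 1759010704) (nat_lit 0) (nat_lit 1786549983) (nat_lit 76) (nat_lit 1786549983) (nat_lit 86) (nat_lit 3) (nat_lit 85) (nat_lit 1) (nat_lit 86) (nat_lit 1) (nat_lit 376) (nat_lit 407) (nat_lit 237)))) (XT.nd (nat_lit 78) (nat_lit 76) (nat_lit 0) (XT.lf (nat_lit 152) (nat_lit 5230518532) (nat_lit 0) (nat_lit 8460608) (nat_lit 76) (nat_lit 8460608) (nat_lit 85) (nat_lit 1) (nat_lit 83) (nat_lit 1) (nat_lit 84) (nat_lit 1) (nat_lit 377) (nat_lit 407) (nat_lit 236)) (XT.nd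 (nat_lit 78) (nat_lit 76) (nat_lit 0) (XT.lf (nat_lit 0) (nat_lit 1712540130) (nat_lit 0) (nat_lit 1736329595) (nat_lit 152) (nat_lit 1712540130) (nat_lit 83) (nat_lit 3) (nat_lit 83) (nat_lit 1) (nat_lit 85) (nat_lit 1) (nat_lit 378) (nat_lit 407) (nat_lit 235)) (XT.lf (nat_lit 76) (nat_lit 1677609924) (nat_lit 0) (nat_lit 1700266557) (nat_lit 76) (nat_lit 1700266557) (nat_lit 83) (nat_lit 3) (nat_lit 82) (nat_lit 1) (nat_lit 83) (nat_lit 1) (nat_lit 379) (nat_lit 407) (nat_lit 234)))))) (XT.nd (nat_lit 468) (nat_lit 608) (nat_lit 0) (XT.nd (nat_lit 234) (nat_lit 228) (nat_lit 0) (XT.nd (nat_lit 78) (nat_lit 76) (nat_lit 0) (XT.lf (nat_lit 152) (nat_lit 4983588293) (nat_lit 0) (nat_lit 6960563) (nat_lit 76) (nat_lit 6960563) (nat_lit 82) (nat_lit 1) (nat_lit 80) (nat_lit 1) (nat_lit 81) (nat_lit 1) (nat_lit 380) (nat_lit 407) (nat_lit 233)) (XT.nd (nat_lit 78) (nat_lit 76) (nat_lit 0) (XT.lf (nat_lit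 0) (nat_lit 1632002069) (nat_lit 0) (nat_lit 1651573721) (nat_lit 152) (nat_lit 1632002069) (nat_lit 80) (nat_lit 3) (nat_lit 80) (nat_lit 1) (nat_lit 82) (nat_lit 1) (nat_lit 381) (nat_lit 407) (nat_lit 232)) (XT.lf (nat_lit 76) (nat_lit 1599666659) (nat_lit 0) (nat_lit 1618306327) (nat_lit 76) (nat_lit 1618306327) (nat_lit 80) (nat_lit 3) (nat_lit 79) (nat_lit 1) (nat_lit 80) (nat_lit 1) (nat_lit 382) (nat_lit 407) (nat_lit 231)))) (XT.nd (nat_lit 78) (nat_lit 76) (nat_lit 0) (XT.lf (nat_lit 152) (nat_lit 4748036853) (nat_lit 0) (nat_lit 5726472) (nat_lit 76) (nat_lit 5726472) (nat_lit 79) (nat_lit 1) (nat_lit 77) (nat_lit 1) (nat_lit 78) (nat_lit 1) (nat_lit 383) (nat_lit 407) (nat_lit 230)) (XT.nd (nat_lit 78) (nat_lit 76) (nat_lit 0) (XT.lf (nat_lit 0) (nat_lit 1555119823) (nat_lit 0) (nat_lit 1571221470) (nat_lit 152) (nat_lit 1555119823) (nat_lit 77) (nat_lit 3) (nat_lit 77) (nat_lit 1)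 (nat_lit 79) (nat_lit 1) (nat_lit 384) (nat_lit 407) (nat_lit 229)) (XT.lf (nat_lit 76) (nat_lit 1525090503) (nat_lit 0) (nat_lit 1540425404) (nat_lit 76) (nat_lit 1540425404) (nat_lit 77) (nat_lit 3) (nat_lit 76) (nat_lit 1) (nat_lit 77) (nat_lit 1) (nat_lit 385) (nat_lit 407) (nat_lit 228))))) (XT.nd (nat_lit 234) (nat_lit 380) (nat_lit 0) (XT.nd (nat_lit 78) (nat_lit 76) (nat_lit 0) (XT.lf (nat_lit 152) (nat_lit 4523389698) (nat_lit 0) (nat_lit 4711183) (nat_lit 76) (nat_lit 4711183) (nat_lit 76) (nat_lit 1) (nat_lit 74) (nat_lit 1) (nat_lit 75) (nat_lit 1) (nat_lit 386) (nat_lit 407) (nat_lit 227)) (XT.nd (nat_lit 78) (nat_lit 76) (nat_lit 0) (XT.lf (nat_lit 0) (nat_lit 1481751101) (nat_lit 0) (nat_lit 1494997965) (nat_lit 152) (nat_lit 1481751101) (nat_lit 74) (nat_lit 3) (nat_lit 74) (nat_lit 1) (nat_lit 76) (nat_lit 1) (nat_lit 387) (nat_lit 407) (nat_lit 226)) (XT.lf (nat_lit 76) (nat_lit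 1453782192) (nat_lit 0) (nat_lit 1466398253) (nat_lit 76) (nat_lit 1466398253) (nat_lit 74) (nat_lit 3) (nat_lit 73) (nat_lit 1) (nat_lit 74) (nat_lit 1) (nat_lit 388) (nat_lit 407) (nat_lit 225)))) (XT.nd (nat_lit 156) (nat_lit 228) (nat_lit 0) (XT.nd (nat_lit 78) (nat_lit 0) (nat_lit 0) (XT.lf (nat_lit 152) (nat_lit 4309182975) (nat_lit 0) (nat_lit 3875902) (nat_lit 76) (nat_lit 3875902) (nat_lit 73) (nat_lit 1) (nat_lit 71) (nat_lit 1) (nat_lit 72) (nat_lit 1) (nat_lit 389) (nat_lit 407) (nat_lit 224)) (XT.lf (nat_lit 0) (nat_lit 1411754749) (nat_lit 0) (nat_lit 1422652976) (nat_lit 152) (nat_lit 1411754749) (nat_lit 71) (nat_lit 3) (nat_lit 71) (nat_lit 1) (nat_lit 73) (nat_lit 1) (nat_lit 390) (nat_lit 407) (nat_lit 223))) (XT.nd (nat_lit 78) (nat_lit 152) (nat_lit 0) (XT.lf (nat_lit 76) (nat_lit 1385636361) (nat_lit 0) (nat_lit 1396015625) (nat_lit 76) (nat_lit 1396015625) (nat_lit 71) (nat_lit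 3) (nat_lit 70) (nat_lit 1) (nat_lit 71) (nat_lit 1) (nat_lit 391) (nat_lit 407) (nat_lit 222)) (XT.lf (nat_lit 152) (nat_lit 4104965093) (nat_lit 0) (nat_lit 3188714) (nat_lit 76) (nat_lit 3188714) (nat_lit 70) (nat_lit 1) (nat_lit 68) (nat_lit 1) (nat_lit 69) (nat_lit 1) (nat_lit 392) (nat_lit 407) (nat_lit 221))))))))
noncomputable def ec291 : XT := (XT.nd (nat_lit 1950) (nat_lit 2052) (nat_lit 0) (XT.nd (nat_lit 936) (nat_lit 912) (nat_lit 0) (XT.nd (nat_lit 468) (nat_lit 456) (nat_lit 0) (XT.nd (nat_lit 234) (nat_lit 228) (nat_lit 0) (XT.nd (nat_lit 78) (nat_lit 228) (nat_lit 0) (XT.lf (nat_lit 0) (nat_lit 1344991698) (nat_lit 0) (nat_lit 1353957697) (nat_lit 152) (nat_lit 1344991698) (nat_lit 68) (nat_lit 3) (nat_lit 68) (nat_lit 1) (nat_lit 70) (nat_lit 1) (nat_lit 393) (nat_lit 407) (nat_lit 220)) (XT.nd (nat_lit 78) (nat_lit 152) (nat_lit 0) (XT.lf (nat_lit 76) (nat_lit 1320543752) (nat_lit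 0) (nat_lit 1329082799) (nat_lit 76) (nat_lit 1329082799) (nat_lit 68) (nat_lit 3) (nat_lit 67) (nat_lit 1) (nat_lit 68) (nat_lit 1) (nat_lit 394) (nat_lit 407) (nat_lit 219)) (XT.lf (nat_lit 152) (nat_lit 3910297889) (nat_lit 0) (nat_lit 2623363) (nat_lit 76) (nat_lit 2623363) (nat_lit 67) (nat_lit 1) (nat_lit 65) (nat_lit 1) (nat_lit 66) (nat_lit 1) (nat_lit 395) (nat_lit 407) (nat_lit 218)))) (XT.nd (nat_lit 78) (nat_lit 228) (nat_lit 0) (XT.lf (nat_lit 0) (nat_lit 1281325686) (nat_lit 0) (nat_lit 1288702036) (nat_lit 152) (nat_lit 1281325686) (nat_lit 65) (nat_lit 3) (nat_lit 65) (nat_lit 1) (nat_lit 67) (nat_lit 1) (nat_lit 396) (nat_lit 407) (nat_lit 217)) (XT.nd (nat_lit 78) (nat_lit 152) (nat_lit 0) (XT.lf (nat_lit 76) (nat_lit 1258392983) (nat_lit 0) (nat_lit 1265418078) (nat_lit 76) (nat_lit 1265418078) (nat_lit 65) (nat_lit 3) (nat_lit 64) (nat_lit 1) (nat_lit 65) (nat_lit 1) (nat_lit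 397) (nat_lit 407) (nat_lit 216)) (XT.lf (nat_lit 152) (nat_lit 3724757416) (nat_lit 0) (nat_lit 2158247) (nat_lit 76) (nat_lit 2158247) (nat_lit 64) (nat_lit 1) (nat_lit 62) (nat_lit 1) (nat_lit 63) (nat_lit 1) (nat_lit 398) (nat_lit 407) (nat_lit 215))))) (XT.nd (nat_lit 234) (nat_lit 228) (nat_lit 0) (XT.nd (nat_lit 78) (nat_lit 228) (nat_lit 0) (XT.lf (nat_lit 0) (nat_lit 1220623801) (nat_lit 0) (nat_lit 1226692343) (nat_lit 152) (nat_lit 1220623801) (nat_lit 62) (nat_lit 3) (nat_lit 62) (nat_lit 1) (nat_lit 64) (nat_lit 1) (nat_lit 399) (nat_lit 407) (nat_lit 214)) (XT.nd (nat_lit 78) (nat_lit 152) (nat_lit 0) (XT.lf (nat_lit 76) (nat_lit 1199071946) (nat_lit 0) (nat_lit 1204851509) (nat_lit 76) (nat_lit 1204851509) (nat_lit 62) (nat_lit 3) (nat_lit 61) (nat_lit 1) (nat_lit 62) (nat_lit 1) (nat_lit 400) (nat_lit 407) (nat_lit 213)) (XT.lf (nat_lit 152) (nat_lit 3547934444) (nat_lit 0) (nat_lit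 1775595) (nat_lit 76) (nat_lit 1775595) (nat_lit 61) (nat_lit 1) (nat_lit 59) (nat_lit 1) (nat_lit 60) (nat_lit 1) (nat_lit 401) (nat_lit 407) (nat_lit 212)))) (XT.nd (nat_lit 78) (nat_lit 228) (nat_lit 0) (XT.lf (nat_lit 0) (nat_lit 1162756878) (nat_lit 0) (nat_lit 1167749482) (nat_lit 152) (nat_lit 1162756878) (nat_lit 59) (nat_lit 3) (nat_lit 59) (nat_lit 1) (nat_lit 61) (nat_lit 1) (nat_lit 402) (nat_lit 407) (nat_lit 211)) (XT.nd (nat_lit 78) (nat_lit 152) (nat_lit 0) (XT.lf (nat_lit 76) (nat_lit 1142468909) (nat_lit 0) (nat_lit 1147223769) (nat_lit 76) (nat_lit 1147223769) (nat_lit 59) (nat_lit 3) (nat_lit 58) (nat_lit 1) (nat_lit 59) (nat_lit 1) (nat_lit 403) (nat_lit 407) (nat_lit 210)) (XT.lf (nat_lit 152) (nat_lit 3379434733) (nat_lit 0) (nat_lit 1460786) (nat_lit 76) (nat_lit 1460786) (nat_lit 58) (nat_lit 1) (nat_lit 56) (nat_lit 1) (nat_lit 57) (nat_lit 1) (nat_lit 404) (nat_lit 407)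 (nat_lit 209)))))) (XT.nd (nat_lit 468) (nat_lit 456) (nat_lit 0) (XT.nd (nat_lit 234) (nat_lit 228) (nat_lit 0) (XT.nd (nat_lit 78) (nat_lit 228) (nat_lit 0) (XT.lf (nat_lit 0) (nat_lit 1107599776) (nat_lit 0) (nat_lit 1111707203) (nat_lit 152) (nat_lit 1107599776) (nat_lit 56) (nat_lit 3) (nat_lit 56) (nat_lit 1) (nat_lit 58) (nat_lit 1) (nat_lit 405) (nat_lit 407) (nat_lit 208)) (XT.nd (nat_lit 78) (nat_lit 152) (nat_lit 0) (XT.lf (nat_lit 76) (nat_lit 1088473381) (nat_lit 0) (nat_lit 1092385217) (nat_lit 76) (nat_lit 1092385217) (nat_lit 56) (nat_lit 3) (nat_lit 55) (nat_lit 1) (nat_lit 56) (nat_lit 1) (nat_lit 406) (nat_lit 407) (nat_lit 207)) (XT.lf (nat_lit 152) (nat_lit 3218879114) (nat_lit 0) (nat_lit 1201792) (nat_lit 76) (nat_lit 1201792) (nat_lit 55) (nat_lit 1) (nat_lit 53) (nat_lit 1) (nat_lit 54) (nat_lit 1) (nat_lit 407) (nat_lit 407) (nat_lit 206)))) (XT.nd (nat_lit 78) (nat_lit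 228) (nat_lit 0) (XT.lf (nat_lit 0) (nat_lit 1055031567) (nat_lit 0) (nat_lit 1058410758) (nat_lit 152) (nat_lit 1055031567) (nat_lit 53) (nat_lit 3) (nat_lit 53) (nat_lit 1) (nat_lit 55) (nat_lit 1) (nat_lit 408) (nat_lit 407) (nat_lit 205)) (XT.nd (nat_lit 78) (nat_lit 152) (nat_lit 0) (XT.lf (nat_lit 76) (nat_lit 1036976775) (nat_lit 0) (nat_lit 1040195052) (nat_lit 76) (nat_lit 1040195052) (nat_lit 53) (nat_lit 3) (nat_lit 52) (nat_lit 1) (nat_lit 53) (nat_lit 1) (nat_lit 409) (nat_lit 407) (nat_lit 204)) (XT.lf (nat_lit 152) (nat_lit 3065903428) (nat_lit 0) (nat_lit 988717) (nat_lit 76) (nat_lit 988717) (nat_lit 52) (nat_lit 1) (nat_lit 50) (nat_lit 1) (nat_lit 51) (nat_lit 1) (nat_lit 410) (nat_lit 407) (nat_lit 203))))) (XT.nd (nat_lit 234) (nat_lit 228) (nat_lit 0) (XT.nd (nat_lit 78) (nat_lit 228) (nat_lit 0) (XT.lf (nat_lit 0) (nat_lit 1004935644) (nat_lit 0) (nat_lit 1007715712) (nat_lit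 152) (nat_lit 1004935644) (nat_lit 50) (nat_lit 3) (nat_lit 50) (nat_lit 1) (nat_lit 52) (nat_lit 1) (nat_lit 411) (nat_lit 407) (nat_lit 202)) (XT.nd (nat_lit 78) (nat_lit 152) (nat_lit 0) (XT.lf (nat_lit 76) (nat_lit 987872912) (nat_lit 0) (nat_lit 990520597) (nat_lit 76) (nat_lit 990520597) (nat_lit 50) (nat_lit 3) (nat_lit 49) (nat_lit 1) (nat_lit 50) (nat_lit 1) (nat_lit 412) (nat_lit 407) (nat_lit 201)) (XT.lf (nat_lit 152) (nat_lit 2920158352) (nat_lit 0) (nat_lit 813420) (nat_lit 76) (nat_lit 813420) (nat_lit 49) (nat_lit 1) (nat_lit 47) (nat_lit 1) (nat_lit 48) (nat_lit 1) (nat_lit 413) (nat_lit 407) (nat_lit 200)))) (XT.nd (nat_lit 156) (nat_lit 152) (nat_lit 0) (XT.nd (nat_lit 78) (nat_lit 76) (nat_lit 0) (XT.lf (nat_lit 0) (nat_lit 957199767) (nat_lit 0) (nat_lit 959486936) (nat_lit 152) (nat_lit 957199767) (nat_lit 47) (nat_lit 3) (nat_lit 47) (nat_lit 1) (nat_lit 49) (nat_lit 1) (nat_lit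 414) (nat_lit 407) (nat_lit 199)) (XT.lf (nat_lit 76) (nat_lit 941058398) (nat_lit 0) (nat_lit 943236654) (nat_lit 76) (nat_lit 943236654) (nat_lit 47) (nat_lit 3) (nat_lit 46) (nat_lit 1) (nat_lit 47) (nat_lit 1) (nat_lit 415) (nat_lit 407) (nat_lit 198))) (XT.nd (nat_lit 78) (nat_lit 0) (nat_lit 0) (XT.lf (nat_lit 152) (nat_lit 2781309136) (nat_lit 0) (nat_lit 669203) (nat_lit 76) (nat_lit 669203) (nat_lit 46) (nat_lit 1) (nat_lit 44) (nat_lit 1) (nat_lit 45) (nat_lit 1) (nat_lit 416) (nat_lit 407) (nat_lit 197)) (XT.lf (nat_lit 0) (nat_lit 911716070) (nat_lit 0) (nat_lit 913597730) (nat_lit 152) (nat_lit 911716070) (nat_lit 44) (nat_lit 3) (nat_lit 44) (nat_lit 1) (nat_lit 46) (nat_lit 1) (nat_lit 417) (nat_lit 407) (nat_lit 196))))))) (XT.nd (nat_lit 1014) (nat_lit 1064) (nat_lit 0) (XT.nd (nat_lit 468) (nat_lit 532) (nat_lit 0) (XT.nd (nat_lit 234) (nat_lit 228) (nat_lit 0) (XT.nd (nat_lit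 78) (nat_lit 152) (nat_lit 0) (XT.lf (nat_lit 76) (nat_lit 896432890) (nat_lit 0) (nat_lit 898224947) (nat_lit 76) (nat_lit 898224947) (nat_lit 44) (nat_lit 3) (nat_lit 43) (nat_lit 1) (nat_lit 44) (nat_lit 1) (nat_lit 418) (nat_lit 407) (nat_lit 195)) (XT.nd (nat_lit 78) (nat_lit 0) (nat_lit 0) (XT.lf (nat_lit 152) (nat_lit 2649035274) (nat_lit 0) (nat_lit 550555) (nat_lit 76) (nat_lit 550555) (nat_lit 43) (nat_lit 1) (nat_lit 41) (nat_lit 1) (nat_lit 42) (nat_lit 1) (nat_lit 419) (nat_lit 407) (nat_lit 194)) (XT.lf (nat_lit 0) (nat_lit 868381023) (nat_lit 0) (nat_lit 869929069) (nat_lit 152) (nat_lit 868381023) (nat_lit 41) (nat_lit 3) (nat_lit 41) (nat_lit 1) (nat_lit 43) (nat_lit 1) (nat_lit 420) (nat_lit 407) (nat_lit 193)))) (XT.nd (nat_lit 78) (nat_lit 152) (nat_lit 0) (XT.lf (nat_lit 76) (nat_lit 853899287) (nat_lit 0) (nat_lit 855373617) (nat_lit 76) (nat_lit 855373617) (nat_lit 41) (nat_lit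 3) (nat_lit 40) (nat_lit 1) (nat_lit 41) (nat_lit 1) (nat_lit 421) (nat_lit 407) (nat_lit 192)) (XT.nd (nat_lit 78) (nat_lit 0) (nat_lit 0) (XT.lf (nat_lit 152) (nat_lit 2523030127) (nat_lit 0) (nat_lit 452943) (nat_lit 76) (nat_lit 452943) (nat_lit 40) (nat_lit 1) (nat_lit 38) (nat_lit 1) (nat_lit 39) (nat_lit 1) (nat_lit 422) (nat_lit 407) (nat_lit 191)) (XT.lf (nat_lit 0) (nat_lit 827095365) (nat_lit 0) (nat_lit 828368946) (nat_lit 152) (nat_lit 827095365) (nat_lit 38) (nat_lit 3) (nat_lit 38) (nat_lit 1) (nat_lit 40) (nat_lit 1) (nat_lit 423) (nat_lit 407) (nat_lit 190))))) (XT.nd (nat_lit 234) (nat_lit 304) (nat_lit 0) (XT.nd (nat_lit 78) (nat_lit 152) (nat_lit 0) (XT.lf (nat_lit 76) (nat_lit 813363848) (nat_lit 0) (nat_lit 814576782) (nat_lit 76) (nat_lit 814576782) (nat_lit 38) (nat_lit 3) (nat_lit 37) (nat_lit 1) (nat_lit 38) (nat_lit 1) (nat_lit 424) (nat_lit 407) (nat_lit 189)) (XT.nd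 (nat_lit 78) (nat_lit 0) (nat_lit 0) (XT.lf (nat_lit 152) (nat_lit 2403000513) (nat_lit 0) (nat_lit 372637) (nat_lit 76) (nat_lit 372637) (nat_lit 37) (nat_lit 1) (nat_lit 35) (nat_lit 1) (nat_lit 36) (nat_lit 1) (nat_lit 425) (nat_lit 407) (nat_lit 188)) (XT.lf (nat_lit 0) (nat_lit 787764021) (nat_lit 0) (nat_lit 788811799) (nat_lit 152) (nat_lit 787764021) (nat_lit 35) (nat_lit 3) (nat_lit 35) (nat_lit 1) (nat_lit 37) (nat_lit 1) (nat_lit 426) (nat_lit 407) (nat_lit 187)))) (XT.nd (nat_lit 156) (nat_lit 76) (nat_lit 0) (XT.nd (nat_lit 78) (nat_lit 152) (nat_lit 0) (XT.lf (nat_lit 76) (nat_lit 774736251) (nat_lit 0) (nat_lit 775734136) (nat_lit 76) (nat_lit 775734136) (nat_lit 35) (nat_lit 3) (nat_lit 34) (nat_lit 1) (nat_lit 35) (nat_lit 1) (nat_lit 427) (nat_lit 407) (nat_lit 186)) (XT.lf (nat_lit 152) (nat_lit 2288666262) (nat_lit 0) (nat_lit 306569) (nat_lit 76) (nat_lit 306569) (nat_lit 34)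 (nat_lit 1) (nat_lit 32) (nat_lit 1) (nat_lit 33) (nat_lit 1) (nat_lit 428) (nat_lit 407) (nat_lit 185))) (XT.nd (nat_lit 78) (nat_lit 76) (nat_lit 0) (XT.lf (nat_lit 0) (nat_lit 750295997) (nat_lit 0) (nat_lit 751158007) (nat_lit 152) (nat_lit 750295997) (nat_lit 32) (nat_lit 3) (nat_lit 32) (nat_lit 1) (nat_lit 34) (nat_lit 1) (nat_lit 429) (nat_lit 407) (nat_lit 184)) (XT.lf (nat_lit 76) (nat_lit 737929622) (nat_lit 0) (nat_lit 738750584) (nat_lit 76) (nat_lit 738750584) (nat_lit 32) (nat_lit 3) (nat_lit 31) (nat_lit 1) (nat_lit 32) (nat_lit 1) (nat_lit 430) (nat_lit 407) (nat_lit 183)))))) (XT.nd (nat_lit 468) (nat_lit 608) (nat_lit 0) (XT.nd (nat_lit 234) (nat_lit 228) (nat_lit 0) (XT.nd (nat_lit 78) (nat_lit 76) (nat_lit 0) (XT.lf (nat_lit 152) (nat_lit 2179759772) (nat_lit 0) (nat_lit 252215) (nat_lit 76) (nat_lit 252215) (nat_lit 31) (nat_lit 1) (nat_lit 29) (nat_lit 1) (nat_lit 30) (nat_lit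 1) (nat_lit 431) (nat_lit 407) (nat_lit 182)) (XT.nd (nat_lit 78) (nat_lit 76) (nat_lit 0) (XT.lf (nat_lit 0) (nat_lit 714604267) (nat_lit 0) (nat_lit 715313445) (nat_lit 152) (nat_lit 714604267) (nat_lit 29) (nat_lit 3) (nat_lit 29) (nat_lit 1) (nat_lit 31) (nat_lit 1) (nat_lit 432) (nat_lit 407) (nat_lit 181)) (XT.lf (nat_lit 76) (nat_lit 702860518) (nat_lit 0) (nat_lit 703535926) (nat_lit 76) (nat_lit 703535926) (nat_lit 29) (nat_lit 3) (nat_lit 28) (nat_lit 1) (nat_lit 29) (nat_lit 1) (nat_lit 433) (nat_lit 407) (nat_lit 180)))) (XT.nd (nat_lit 78) (nat_lit 76) (nat_lit 0) (XT.lf (nat_lit 152) (nat_lit 2076025544) (nat_lit 0) (nat_lit 207498) (nat_lit 76) (nat_lit 207498) (nat_lit 28) (nat_lit 1) (nat_lit 26) (nat_lit 1) (nat_lit 27) (nat_lit 1) (nat_lit 434) (nat_lit 407) (nat_lit 179)) (XT.nd (nat_lit 78) (nat_lit 76) (nat_lit 0) (XT.lf (nat_lit 0) (nat_lit 680605645) (nat_lit 0) (nat_lit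 681189087) (nat_lit 152) (nat_lit 680605645) (nat_lit 26) (nat_lit 3) (nat_lit 26) (nat_lit 1) (nat_lit 28) (nat_lit 1) (nat_lit 435) (nat_lit 407) (nat_lit 178)) (XT.lf (nat_lit 76) (nat_lit 669448889) (nat_lit 0) (nat_lit 670004549) (nat_lit 76) (nat_lit 670004549) (nat_lit 26) (nat_lit 3) (nat_lit 25) (nat_lit 1) (nat_lit 26) (nat_lit 1) (nat_lit 436) (nat_lit 407) (nat_lit 177))))) (XT.nd (nat_lit 234) (nat_lit 380) (nat_lit 0) (XT.nd (nat_lit 78) (nat_lit 76) (nat_lit 0) (XT.lf (nat_lit 152) (nat_lit 1977219719) (nat_lit 0) (nat_lit 170709) (nat_lit 76) (nat_lit 170709) (nat_lit 25) (nat_lit 1) (nat_lit 23) (nat_lit 1) (nat_lit 24) (nat_lit 1) (nat_lit 437) (nat_lit 407) (nat_lit 176)) (XT.nd (nat_lit 78) (nat_lit 76) (nat_lit 0) (XT.lf (nat_lit 0) (nat_lit 648220659) (nat_lit 0) (nat_lit 648700658) (nat_lit 152) (nat_lit 648220659) (nat_lit 23) (nat_lit 3) (nat_lit 23) (nat_lit 1) (nat_lit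 25) (nat_lit 1) (nat_lit 438) (nat_lit 407) (nat_lit 175)) (XT.lf (nat_lit 76) (nat_lit 637618021) (nat_lit 0) (nat_lit 638075164) (nat_lit 76) (nat_lit 638075164) (nat_lit 23) (nat_lit 3) (nat_lit 22) (nat_lit 1) (nat_lit 23) (nat_lit 1) (nat_lit 439) (nat_lit 407) (nat_lit 174)))) (XT.nd (nat_lit 156) (nat_lit 228) (nat_lit 0) (XT.nd (nat_lit 78) (nat_lit 0) (nat_lit 0) (XT.lf (nat_lit 152) (nat_lit 1883109620) (nat_lit 0) (nat_lit 140443) (nat_lit 76) (nat_lit 140443) (nat_lit 22) (nat_lit 1) (nat_lit 20) (nat_lit 1) (nat_lit 21) (nat_lit 1) (nat_lit 440) (nat_lit 407) (nat_lit 173)) (XT.lf (nat_lit 0) (nat_lit 617373417) (nat_lit 0) (nat_lit 617768313) (nat_lit 152) (nat_lit 617373417) (nat_lit 20) (nat_lit 3) (nat_lit 20) (nat_lit 1) (nat_lit 22) (nat_lit 1) (nat_lit 441) (nat_lit 407) (nat_lit 172))) (XT.nd (nat_lit 78) (nat_lit 152) (nat_lit 0) (XT.lf (nat_lit 76) (nat_lit 607294461) (nat_lit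 0) (nat_lit 607670553) (nat_lit 76) (nat_lit 607670553) (nat_lit 20) (nat_lit 3) (nat_lit 19) (nat_lit 1) (nat_lit 20) (nat_lit 1) (nat_lit 442) (nat_lit 407) (nat_lit 171)) (XT.lf (nat_lit 152) (nat_lit 1793473291) (nat_lit 0) (nat_lit 115542) (nat_lit 76) (nat_lit 115542) (nat_lit 19) (nat_lit 1) (nat_lit 17) (nat_lit 1) (nat_lit 18) (nat_lit 1) (nat_lit 443) (nat_lit 407) (nat_lit 170))))))))
noncomputable def ec292 : XT := (XT.nd (nat_lit 1950) (nat_lit 3420) (nat_lit 0) (XT.nd (nat_lit 936) (nat_lit 2584) (nat_lit 0) (XT.nd (nat_lit 468) (nat_lit 380) (nat_lit 0) (XT.nd (nat_lit 234) (nat_lit 0) (nat_lit 76) (XT.nd (nat_lit 78) (nat_lit 0) (nat_lit 0) (XT.lf (nat_lit 836) (nat_lit 14829346594) (nat_lit 0) (nat_lit 26329470792) (nat_lit 836) (nat_lit 14829346594) (nat_lit 303) (nat_lit 1) (nat_lit 292) (nat_lit 0) (nat_lit 303) (nat_lit 0) (nat_lit 204) (nat_lit 408) (nat_lit 408)) (XT.nd (nat_lit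 78) (nat_lit 0) (nat_lit 76) (XT.lf (nat_lit 836) (nat_lit 57480398772) (nat_lit 76) (nat_lit 25904801908) (nat_lit 0) (nat_lit 25904801908) (nat_lit 303) (nat_lit 1) (nat_lit 293) (nat_lit 1) (nat_lit 292) (nat_lit 0) (nat_lit 205) (nat_lit 408) (nat_lit 407)) (XT.lf (nat_lit 836) (nat_lit 27394292573) (nat_lit 0) (nat_lit 51898140819) (nat_lit 760) (nat_lit 27394292573) (nat_lit 304) (nat_lit 1) (nat_lit 293) (nat_lit 1) (nat_lit 303) (nat_lit 1) (nat_lit 206) (nat_lit 408) (nat_lit 406)))) (XT.nd (nat_lit 78) (nat_lit 0) (nat_lit 76) (XT.lf (nat_lit 836) (nat_lit 51387886334) (nat_lit 76) (nat_lit 26389834118) (nat_lit 0) (nat_lit 26389834118) (nat_lit 304) (nat_lit 1) (nat_lit 294) (nat_lit 1) (nat_lit 293) (nat_lit 1) (nat_lit 207) (nat_lit 408) (nat_lit 405)) (XT.nd (nat_lit 78) (nat_lit 0) (nat_lit 0) (XT.lf (nat_lit 836) (nat_lit 23653350597) (nat_lit 0) (nat_lit 54421527079) (nat_lit 760)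 (nat_lit 23653350597) (nat_lit 305) (nat_lit 1) (nat_lit 294) (nat_lit 1) (nat_lit 304) (nat_lit 1) (nat_lit 208) (nat_lit 408) (nat_lit 404)) (XT.lf (nat_lit 836) (nat_lit 42542091638) (nat_lit 76) (nat_lit 28410585162) (nat_lit 0) (nat_lit 28410585162) (nat_lit 305) (nat_lit 1) (nat_lit 295) (nat_lit 1) (nat_lit 294) (nat_lit 1) (nat_lit 209) (nat_lit 408) (nat_lit 403))))) (XT.nd (nat_lit 234) (nat_lit 608) (nat_lit 0) (XT.nd (nat_lit 78) (nat_lit 0) (nat_lit 0) (XT.lf (nat_lit 836) (nat_lit 18653478456) (nat_lit 0) (nat_lit 59770746119) (nat_lit 760) (nat_lit 18653478456) (nat_lit 306) (nat_lit 1) (nat_lit 295) (nat_lit 1) (nat_lit 305) (nat_lit 1) (nat_lit 210) (nat_lit 408) (nat_lit 402)) (XT.nd (nat_lit 78) (nat_lit 0) (nat_lit 76) (XT.lf (nat_lit 836) (nat_lit 31357070026) (nat_lit 76) (nat_lit 31749001672) (nat_lit 0) (nat_lit 31749001672) (nat_lit 306) (nat_lit 1) (nat_lit 296) (nat_lit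 1) (nat_lit 295) (nat_lit 1) (nat_lit 211) (nat_lit 408) (nat_lit 401)) (XT.lf (nat_lit 836) (nat_lit 12588230378) (nat_lit 0) (nat_lit 67537343871) (nat_lit 760) (nat_lit 12588230378) (nat_lit 307) (nat_lit 1) (nat_lit 296) (nat_lit 1) (nat_lit 306) (nat_lit 1) (nat_lit 212) (nat_lit 408) (nat_lit 400)))) (XT.nd (nat_lit 78) (nat_lit 684) (nat_lit 0) (XT.lf (nat_lit 836) (nat_lit 18200854218) (nat_lit 76) (nat_lit 36210887424) (nat_lit 0) (nat_lit 36210887424) (nat_lit 307) (nat_lit 1) (nat_lit 297) (nat_lit 1) (nat_lit 296) (nat_lit 1) (nat_lit 213) (nat_lit 408) (nat_lit 399)) (XT.nd (nat_lit 78) (nat_lit 760) (nat_lit 0) (XT.lf (nat_lit 76) (nat_lit 5629522379) (nat_lit 0) (nat_lit 77357780215) (nat_lit 760) (nat_lit 5629522379) (nat_lit 298) (nat_lit 1) (nat_lit 297) (nat_lit 1) (nat_lit 307) (nat_lit 1) (nat_lit 214) (nat_lit 408) (nat_lit 398)) (XT.lf (nat_lit 836) (nat_lit 3400091523) (nat_lit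 0) (nat_lit 41623514631) (nat_lit 760) (nat_lit 41623514631) (nat_lit 298) (nat_lit 1) (nat_lit 287) (nat_lit 1) (nat_lit 297) (nat_lit 1) (nat_lit 215) (nat_lit 408) (nat_lit 397)))))) (XT.nd (nat_lit 468) (nat_lit 1292) (nat_lit 0) (XT.nd (nat_lit 234) (nat_lit 380) (nat_lit 0) (XT.nd (nat_lit 78) (nat_lit 380) (nat_lit 0) (XT.lf (nat_lit 532) (nat_lit 80688453810) (nat_lit 0) (nat_lit 2036792484) (nat_lit 456) (nat_lit 2036792484) (nat_lit 287) (nat_lit 1) (nat_lit 280) (nat_lit 1) (nat_lit 286) (nat_lit 1) (nat_lit 216) (nat_lit 408) (nat_lit 396)) (XT.nd (nat_lit 78) (nat_lit 380) (nat_lit 0) (XT.lf (nat_lit 76) (nat_lit 35276851572) (nat_lit 0) (nat_lit 12347502936) (nat_lit 532) (nat_lit 35276851572) (nat_lit 281) (nat_lit 1) (nat_lit 280) (nat_lit 1) (nat_lit 287) (nat_lit 1) (nat_lit 217) (nat_lit 408) (nat_lit 395)) (XT.lf (nat_lit 456) (nat_lit 60702406381) (nat_lit 0) (nat_lit 10208547297)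 (nat_lit 380) (nat_lit 10208547297) (nat_lit 281) (nat_lit 1) (nat_lit 275) (nat_lit 1) (nat_lit 280) (nat_lit 1) (nat_lit 218) (nat_lit 408) (nat_lit 394)))) (XT.nd (nat_lit 78) (nat_lit 380) (nat_lit 0) (XT.lf (nat_lit 76) (nat_lit 25162548785) (nat_lit 0) (nat_lit 29050154666) (nat_lit 456) (nat_lit 25162548785) (nat_lit 276) (nat_lit 1) (nat_lit 275) (nat_lit 1) (nat_lit 281) (nat_lit 1) (nat_lit 219) (nat_lit 408) (nat_lit 393)) (XT.nd (nat_lit 78) (nat_lit 0) (nat_lit 0) (XT.lf (nat_lit 456) (nat_lit 39973395441) (nat_lit 0) (nat_lit 18859177786) (nat_lit 380) (nat_lit 18859177786) (nat_lit 276) (nat_lit 1) (nat_lit 270) (nat_lit 1) (nat_lit 275) (nat_lit 1) (nat_lit 220) (nat_lit 408) (nat_lit 392)) (XT.lf (nat_lit 76) (nat_lit 14729664971) (nat_lit 0) (nat_lit 46597881737) (nat_lit 456) (nat_lit 14729664971) (nat_lit 271) (nat_lit 1) (nat_lit 270) (nat_lit 1) (nat_lit 276) (nat_lit 1) (nat_lit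 221) (nat_lit 408) (nat_lit 391))))) (XT.nd (nat_lit 234) (nat_lit 608) (nat_lit 0) (XT.nd (nat_lit 78) (nat_lit 380) (nat_lit 0) (XT.lf (nat_lit 380) (nat_lit 18694355494) (nat_lit 0) (nat_lit 27885181298) (nat_lit 304) (nat_lit 27885181298) (nat_lit 271) (nat_lit 1) (nat_lit 266) (nat_lit 1) (nat_lit 270) (nat_lit 1) (nat_lit 222) (nat_lit 408) (nat_lit 390)) (XT.nd (nat_lit 78) (nat_lit 380) (nat_lit 0) (XT.lf (nat_lit 76) (nat_lit 4067767015) (nat_lit 0) (nat_lit 64797929932) (nat_lit 380) (nat_lit 4067767015) (nat_lit 267) (nat_lit 1) (nat_lit 266) (nat_lit 1) (nat_lit 271) (nat_lit 1) (nat_lit 223) (nat_lit 408) (nat_lit 389)) (XT.lf (nat_lit 76) (nat_lit 34276173747) (nat_lit 0) (nat_lit 2870696133) (nat_lit 380) (nat_lit 34276173747) (nat_lit 262) (nat_lit 1) (nat_lit 261) (nat_lit 1) (nat_lit 266) (nat_lit 1) (nat_lit 224) (nat_lit 408) (nat_lit 388)))) (XT.nd (nat_lit 156) (nat_lit 304)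 (nat_lit 0) (XT.nd (nat_lit 78) (nat_lit 0) (nat_lit 0) (XT.lf (nat_lit 380) (nat_lit 56698196786) (nat_lit 0) (nat_lit 6635973506) (nat_lit 304) (nat_lit 6635973506) (nat_lit 262) (nat_lit 1) (nat_lit 257) (nat_lit 1) (nat_lit 261) (nat_lit 1) (nat_lit 225) (nat_lit 408) (nat_lit 387)) (XT.lf (nat_lit 76) (nat_lit 22239525405) (nat_lit 0) (nat_lit 24063117980) (nat_lit 380) (nat_lit 22239525405) (nat_lit 258) (nat_lit 1) (nat_lit 257) (nat_lit 1) (nat_lit 262) (nat_lit 1) (nat_lit 226) (nat_lit 408) (nat_lit 386))) (XT.nd (nat_lit 78) (nat_lit 0) (nat_lit 0) (XT.lf (nat_lit 380) (nat_lit 32453654122) (nat_lit 0) (nat_lit 17355028406) (nat_lit 304) (nat_lit 17355028406) (nat_lit 258) (nat_lit 1) (nat_lit 253) (nat_lit 1) (nat_lit 257) (nat_lit 1) (nat_lit 227) (nat_lit 408) (nat_lit 385)) (XT.lf (nat_lit 76) (nat_lit 10234434127) (nat_lit 0) (nat_lit 45356691050) (nat_lit 380) (nat_lit 10234434127)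 (nat_lit 254) (nat_lit 1) (nat_lit 253) (nat_lit 1) (nat_lit 258) (nat_lit 1) (nat_lit 228) (nat_lit 408) (nat_lit 384))))))) (XT.nd (nat_lit 936) (nat_lit 1368) (nat_lit 0) (XT.nd (nat_lit 468) (nat_lit 988) (nat_lit 0) (XT.nd (nat_lit 234) (nat_lit 456) (nat_lit 0) (XT.nd (nat_lit 78) (nat_lit 380) (nat_lit 0) (XT.lf (nat_lit 304) (nat_lit 8323226942) (nat_lit 0) (nat_lit 28096533034) (nat_lit 228) (nat_lit 28096533034) (nat_lit 254) (nat_lit 1) (nat_lit 250) (nat_lit 1) (nat_lit 253) (nat_lit 1) (nat_lit 229) (nat_lit 408) (nat_lit 383)) (XT.nd (nat_lit 78) (nat_lit 0) (nat_lit 0) (XT.lf (nat_lit 380) (nat_lit 59931579996) (nat_lit 0) (nat_lit 1662986348) (nat_lit 304) (nat_lit 1662986348) (nat_lit 250) (nat_lit 1) (nat_lit 245) (nat_lit 1) (nat_lit 249) (nat_lit 1) (nat_lit 230) (nat_lit 408) (nat_lit 382)) (XT.lf (nat_lit 76) (nat_lit 23451670319) (nat_lit 0) (nat_lit 15102438713) (nat_lit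 380) (nat_lit 23451670319) (nat_lit 246) (nat_lit 1) (nat_lit 245) (nat_lit 1) (nat_lit 250) (nat_lit 1) (nat_lit 231) (nat_lit 408) (nat_lit 381)))) (XT.nd (nat_lit 78) (nat_lit 228) (nat_lit 0) (XT.lf (nat_lit 304) (nat_lit 34251905909) (nat_lit 0) (nat_lit 13275054469) (nat_lit 228) (nat_lit 13275054469) (nat_lit 246) (nat_lit 1) (nat_lit 242) (nat_lit 1) (nat_lit 245) (nat_lit 1) (nat_lit 232) (nat_lit 408) (nat_lit 380)) (XT.nd (nat_lit 78) (nat_lit 228) (nat_lit 0) (XT.lf (nat_lit 76) (nat_lit 10820706899) (nat_lit 0) (nat_lit 37987420253) (nat_lit 304) (nat_lit 10820706899) (nat_lit 243) (nat_lit 1) (nat_lit 242) (nat_lit 1) (nat_lit 246) (nat_lit 1) (nat_lit 233) (nat_lit 408) (nat_lit 379)) (XT.lf (nat_lit 304) (nat_lit 9018720986) (nat_lit 0) (nat_lit 24731810908) (nat_lit 228) (nat_lit 24731810908) (nat_lit 243) (nat_lit 1) (nat_lit 239) (nat_lit 1) (nat_lit 242) (nat_lit 1) (nat_lit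 234) (nat_lit 408) (nat_lit 378))))) (XT.nd (nat_lit 234) (nat_lit 456) (nat_lit 0) (XT.nd (nat_lit 78) (nat_lit 228) (nat_lit 0) (XT.lf (nat_lit 304) (nat_lit 54278524429) (nat_lit 0) (nat_lit 1549960364) (nat_lit 228) (nat_lit 1549960364) (nat_lit 239) (nat_lit 1) (nat_lit 235) (nat_lit 1) (nat_lit 238) (nat_lit 1) (nat_lit 235) (nat_lit 408) (nat_lit 377)) (XT.nd (nat_lit 78) (nat_lit 228) (nat_lit 0) (XT.lf (nat_lit 76) (nat_lit 20532011352) (nat_lit 0) (nat_lit 15214014248) (nat_lit 304) (nat_lit 20532011352) (nat_lit 236) (nat_lit 1) (nat_lit 235) (nat_lit 1) (nat_lit 239) (nat_lit 1) (nat_lit 236) (nat_lit 408) (nat_lit 376)) (XT.lf (nat_lit 304) (nat_lit 28233395641) (nat_lit 0) (nat_lit 13492474194) (nat_lit 228) (nat_lit 13492474194) (nat_lit 236) (nat_lit 1) (nat_lit 232) (nat_lit 1) (nat_lit 235) (nat_lit 1) (nat_lit 237) (nat_lit 408) (nat_lit 375)))) (XT.nd (nat_lit 78) (nat_lit 456)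 (nat_lit 0) (XT.lf (nat_lit 76) (nat_lit 7775454133) (nat_lit 0) (nat_lit 38636164284) (nat_lit 304) (nat_lit 7775454133) (nat_lit 233) (nat_lit 1) (nat_lit 232) (nat_lit 1) (nat_lit 236) (nat_lit 1) (nat_lit 238) (nat_lit 408) (nat_lit 374)) (XT.nd (nat_lit 78) (nat_lit 304) (nat_lit 0) (XT.lf (nat_lit 228) (nat_lit 2849184923) (nat_lit 0) (nat_lit 25163024921) (nat_lit 152) (nat_lit 25163024921) (nat_lit 233) (nat_lit 1) (nat_lit 230) (nat_lit 1) (nat_lit 232) (nat_lit 1) (nat_lit 239) (nat_lit 408) (nat_lit 373)) (XT.lf (nat_lit 304) (nat_lit 43050228815) (nat_lit 0) (nat_lit 4572246342) (nat_lit 228) (nat_lit 4572246342) (nat_lit 230) (nat_lit 1) (nat_lit 226) (nat_lit 1) (nat_lit 229) (nat_lit 1) (nat_lit 240) (nat_lit 408) (nat_lit 372)))))) (XT.nd (nat_lit 468) (nat_lit 836) (nat_lit 0) (XT.nd (nat_lit 234) (nat_lit 380) (nat_lit 0) (XT.nd (nat_lit 78) (nat_lit 152) (nat_lit 0) (XT.lf (nat_lit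 76) (nat_lit 15036423036) (nat_lit 0) (nat_lit 21152328260) (nat_lit 304) (nat_lit 15036423036) (nat_lit 227) (nat_lit 1) (nat_lit 226) (nat_lit 1) (nat_lit 230) (nat_lit 1) (nat_lit 241) (nat_lit 408) (nat_lit 371)) (XT.nd (nat_lit 78) (nat_lit 0) (nat_lit 0) (XT.lf (nat_lit 228) (nat_lit 17372267350) (nat_lit 0) (nat_lit 16456641349) (nat_lit 152) (nat_lit 16456641349) (nat_lit 227) (nat_lit 1) (nat_lit 224) (nat_lit 1) (nat_lit 226) (nat_lit 1) (nat_lit 242) (nat_lit 408) (nat_lit 370)) (XT.lf (nat_lit 76) (nat_lit 2495843412) (nat_lit 0) (nat_lit 44385421466) (nat_lit 228) (nat_lit 2495843412) (nat_lit 225) (nat_lit 1) (nat_lit 224) (nat_lit 1) (nat_lit 227) (nat_lit 1) (nat_lit 243) (nat_lit 408) (nat_lit 369)))) (XT.nd (nat_lit 78) (nat_lit 152) (nat_lit 0) (XT.lf (nat_lit 76) (nat_lit 20598633565) (nat_lit 0) (nat_lit 7274701652) (nat_lit 228) (nat_lit 20598633565) (nat_lit 222) (nat_lit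 1) (nat_lit 221) (nat_lit 1) (nat_lit 224) (nat_lit 1) (nat_lit 244) (nat_lit 408) (nat_lit 368)) (XT.nd (nat_lit 78) (nat_lit 0) (nat_lit 0) (XT.lf (nat_lit 228) (nat_lit 28604812926) (nat_lit 0) (nat_lit 9496022872) (nat_lit 152) (nat_lit 9496022872) (nat_lit 222) (nat_lit 1) (nat_lit 219) (nat_lit 1) (nat_lit 221) (nat_lit 1) (nat_lit 245) (nat_lit 408) (nat_lit 367)) (XT.lf (nat_lit 76) (nat_lit 8071534019) (nat_lit 0) (nat_lit 30598022365) (nat_lit 228) (nat_lit 8071534019) (nat_lit 220) (nat_lit 1) (nat_lit 219) (nat_lit 1) (nat_lit 222) (nat_lit 1) (nat_lit 246) (nat_lit 408) (nat_lit 366))))) (XT.nd (nat_lit 234) (nat_lit 456) (nat_lit 0) (XT.nd (nat_lit 78) (nat_lit 228) (nat_lit 0) (XT.lf (nat_lit 228) (nat_lit 3781223085) (nat_lit 0) (nat_lit 21060674568) (nat_lit 152) (nat_lit 21060674568) (nat_lit 220) (nat_lit 1) (nat_lit 217) (nat_lit 1) (nat_lit 219) (nat_lit 1) (nat_lit 247) (nat_lit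 408) (nat_lit 365)) (XT.nd (nat_lit 78) (nat_lit 0) (nat_lit 0) (XT.lf (nat_lit 228) (nat_lit 37164303323) (nat_lit 0) (nat_lit 3962023715) (nat_lit 152) (nat_lit 3962023715) (nat_lit 217) (nat_lit 1) (nat_lit 214) (nat_lit 1) (nat_lit 216) (nat_lit 1) (nat_lit 248) (nat_lit 408) (nat_lit 364)) (XT.lf (nat_lit 76) (nat_lit 12372087649) (nat_lit 0) (nat_lit 19536903277) (nat_lit 228) (nat_lit 12372087649) (nat_lit 215) (nat_lit 1) (nat_lit 214) (nat_lit 1) (nat_lit 217) (nat_lit 1) (nat_lit 249) (nat_lit 408) (nat_lit 363)))) (XT.nd (nat_lit 156) (nat_lit 304) (nat_lit 0) (XT.nd (nat_lit 78) (nat_lit 0) (nat_lit 0) (XT.lf (nat_lit 228) (nat_lit 12600370599) (nat_lit 0) (nat_lit 15448436014) (nat_lit 152) (nat_lit 15448436014) (nat_lit 215) (nat_lit 1) (nat_lit 212) (nat_lit 1) (nat_lit 214) (nat_lit 1) (nat_lit 250) (nat_lit 408) (nat_lit 362)) (XT.lf (nat_lit 76) (nat_lit 414139430) (nat_lit 0)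 (nat_lit 41912616984) (nat_lit 228) (nat_lit 414139430) (nat_lit 213) (nat_lit 1) (nat_lit 212) (nat_lit 1) (nat_lit 215) (nat_lit 1) (nat_lit 251) (nat_lit 408) (nat_lit 361))) (XT.nd (nat_lit 78) (nat_lit 152) (nat_lit 0) (XT.lf (nat_lit 76) (nat_lit 15637229637) (nat_lit 0) (nat_lit 10705282059) (nat_lit 152) (nat_lit 15637229637) (nat_lit 211) (nat_lit 1) (nat_lit 210) (nat_lit 1) (nat_lit 212) (nat_lit 1) (nat_lit 252) (nat_lit 408) (nat_lit 360)) (XT.lf (nat_lit 228) (nat_lit 19404021797) (nat_lit 0) (nat_lit 10920673136) (nat_lit 152) (nat_lit 10920673136) (nat_lit 211) (nat_lit 1) (nat_lit 208) (nat_lit 1) (nat_lit 210) (nat_lit 1) (nat_lit 253) (nat_lit 408) (nat_lit 359))))))))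
noncomputable def ec293 : XT := (XT.nd (nat_lit 1950) (nat_lit 1900) (nat_lit 0) (XT.nd (nat_lit 936) (nat_lit 912) (nat_lit 0) (XT.nd (nat_lit 468) (nat_lit 608) (nat_lit 0) (XT.nd (nat_lit 234) (nat_lit 304) (nat_lit 0) (XT.nd (nat_lit 78) (nat_lit 304) (nat_lit 0) (XT.lf (nat_lit 76) (nat_lit 3890372264) (nat_lit 0) (nat_lit 32750072874) (nat_lit 228) (nat_lit 3890372264) (nat_lit 209) (nat_lit 1) (nat_lit 208) (nat_lit 1) (nat_lit 211) (nat_lit 1) (nat_lit 254) (nat_lit 408) (nat_lit 358)) (XT.nd (nat_lit 78) (nat_lit 152) (nat_lit 0) (XT.lf (nat_lit 76) (nat_lit 18063532770) (nat_lit 0) (nat_lit 3695093837) (nat_lit 152) (nat_lit 18063532770) (nat_lit 207) (nat_lit 1) (nat_lit 206) (nat_lit 1) (nat_lit 208) (nat_lit 1) (nat_lit 255) (nat_lit 408) (nat_lit 357)) (XT.lf (nat_lit 228) (nat_lit 24571037441) (nat_lit 0) (nat_lit 7280852050) (nat_lit 152) (nat_lit 7280852050) (nat_lit 207) (nat_lit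 1) (nat_lit 204) (nat_lit 1) (nat_lit 206) (nat_lit 1) (nat_lit 256) (nat_lit 408) (nat_lit 356)))) (XT.nd (nat_lit 78) (nat_lit 304) (nat_lit 0) (XT.lf (nat_lit 76) (nat_lit 6581246251) (nat_lit 0) (nat_lit 25294479485) (nat_lit 228) (nat_lit 6581246251) (nat_lit 205) (nat_lit 1) (nat_lit 204) (nat_lit 1) (nat_lit 207) (nat_lit 1) (nat_lit 257) (nat_lit 408) (nat_lit 355)) (XT.nd (nat_lit 78) (nat_lit 228) (nat_lit 0) (XT.lf (nat_lit 152) (nat_lit 1889236134) (nat_lit 0) (nat_lit 17952359200) (nat_lit 76) (nat_lit 17952359200) (nat_lit 205) (nat_lit 1) (nat_lit 203) (nat_lit 1) (nat_lit 204) (nat_lit 1) (nat_lit 258) (nat_lit 408) (nat_lit 354)) (XT.lf (nat_lit 228) (nat_lit 28412082538) (nat_lit 0) (nat_lit 4367486651) (nat_lit 152) (nat_lit 4367486651) (nat_lit 203) (nat_lit 1) (nat_lit 200) (nat_lit 1) (nat_lit 202) (nat_lit 1) (nat_lit 259) (nat_lit 408) (nat_lit 353))))) (XT.nd (nat_lit 234)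 (nat_lit 304) (nat_lit 0) (XT.nd (nat_lit 78) (nat_lit 304) (nat_lit 0) (XT.lf (nat_lit 76) (nat_lit 8634052685) (nat_lit 0) (nat_lit 19239272282) (nat_lit 228) (nat_lit 8634052685) (nat_lit 201) (nat_lit 1) (nat_lit 200) (nat_lit 1) (nat_lit 203) (nat_lit 1) (nat_lit 260) (nat_lit 408) (nat_lit 352)) (XT.nd (nat_lit 78) (nat_lit 228) (nat_lit 0) (XT.lf (nat_lit 152) (nat_lit 6344482938) (nat_lit 0) (nat_lit 14769450342) (nat_lit 76) (nat_lit 14769450342) (nat_lit 201) (nat_lit 1) (nat_lit 199) (nat_lit 1) (nat_lit 200) (nat_lit 1) (nat_lit 261) (nat_lit 408) (nat_lit 351)) (XT.lf (nat_lit 228) (nat_lit 31181766072) (nat_lit 0) (nat_lit 2047915078) (nat_lit 152) (nat_lit 2047915078) (nat_lit 199) (nat_lit 1) (nat_lit 196) (nat_lit 1) (nat_lit 198) (nat_lit 1) (nat_lit 262) (nat_lit 408) (nat_lit 350)))) (XT.nd (nat_lit 78) (nat_lit 304) (nat_lit 0) (XT.lf (nat_lit 76) (nat_lit 10169585184) (nat_lit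 0) (nat_lit 14332426835) (nat_lit 228) (nat_lit 10169585184) (nat_lit 197) (nat_lit 1) (nat_lit 196) (nat_lit 1) (nat_lit 199) (nat_lit 1) (nat_lit 263) (nat_lit 408) (nat_lit 349)) (XT.nd (nat_lit 78) (nat_lit 228) (nat_lit 0) (XT.lf (nat_lit 152) (nat_lit 9781720571) (nat_lit 0) (nat_lit 12150863347) (nat_lit 76) (nat_lit 12150863347) (nat_lit 197) (nat_lit 1) (nat_lit 195) (nat_lit 1) (nat_lit 196) (nat_lit 1) (nat_lit 264) (nat_lit 408) (nat_lit 348)) (XT.lf (nat_lit 228) (nat_lit 33088626072) (nat_lit 0) (nat_lit 213180042) (nat_lit 152) (nat_lit 213180042) (nat_lit 195) (nat_lit 1) (nat_lit 192) (nat_lit 1) (nat_lit 194) (nat_lit 1) (nat_lit 265) (nat_lit 408) (nat_lit 347)))))) (XT.nd (nat_lit 468) (nat_lit 608) (nat_lit 0) (XT.nd (nat_lit 234) (nat_lit 228) (nat_lit 0) (XT.nd (nat_lit 78) (nat_lit 76) (nat_lit 0) (XT.lf (nat_lit 76) (nat_lit 11286855920) (nat_lit 0) (nat_lit 10366780090)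 (nat_lit 228) (nat_lit 11286855920) (nat_lit 193) (nat_lit 1) (nat_lit 192) (nat_lit 1) (nat_lit 195) (nat_lit 1) (nat_lit 266) (nat_lit 408) (nat_lit 346)) (XT.nd (nat_lit 78) (nat_lit 0) (nat_lit 0) (XT.lf (nat_lit 152) (nat_lit 12392301681) (nat_lit 0) (nat_lit 9996545347) (nat_lit 76) (nat_lit 9996545347) (nat_lit 193) (nat_lit 1) (nat_lit 191) (nat_lit 1) (nat_lit 192) (nat_lit 1) (nat_lit 267) (nat_lit 408) (nat_lit 345)) (XT.lf (nat_lit 0) (nat_lit 1246284045) (nat_lit 0) (nat_lit 29354484114) (nat_lit 152) (nat_lit 1246284045) (nat_lit 191) (nat_lit 3) (nat_lit 191) (nat_lit 1) (nat_lit 193) (nat_lit 1) (nat_lit 268) (nat_lit 408) (nat_lit 344)))) (XT.nd (nat_lit 78) (nat_lit 76) (nat_lit 0) (XT.lf (nat_lit 76) (nat_lit 12066974795) (nat_lit 0) (nat_lit 7172068076) (nat_lit 152) (nat_lit 12066974795) (nat_lit 190) (nat_lit 1) (nat_lit 189) (nat_lit 1) (nat_lit 191) (nat_lit 1) (nat_lit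 269) (nat_lit 408) (nat_lit 343)) (XT.nd (nat_lit 78) (nat_lit 0) (nat_lit 0) (XT.lf (nat_lit 152) (nat_lit 14333135318) (nat_lit 0) (nat_lit 8224182596) (nat_lit 76) (nat_lit 8224182596) (nat_lit 190) (nat_lit 1) (nat_lit 188) (nat_lit 1) (nat_lit 189) (nat_lit 1) (nat_lit 270) (nat_lit 408) (nat_lit 342)) (XT.lf (nat_lit 0) (nat_lit 2382028527) (nat_lit 0) (nat_lit 25506714286) (nat_lit 152) (nat_lit 2382028527) (nat_lit 188) (nat_lit 3) (nat_lit 188) (nat_lit 1) (nat_lit 190) (nat_lit 1) (nat_lit 271) (nat_lit 408) (nat_lit 341))))) (XT.nd (nat_lit 234) (nat_lit 380) (nat_lit 0) (XT.nd (nat_lit 78) (nat_lit 76) (nat_lit 0) (XT.lf (nat_lit 76) (nat_lit 12576340024) (nat_lit 0) (nat_lit 4608375718) (nat_lit 152) (nat_lit 12576340024) (nat_lit 187) (nat_lit 1) (nat_lit 186) (nat_lit 1) (nat_lit 188) (nat_lit 1) (nat_lit 272) (nat_lit 408) (nat_lit 340)) (XT.nd (nat_lit 78) (nat_lit 0) (nat_lit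 0) (XT.lf (nat_lit 152) (nat_lit 15732818332) (nat_lit 0) (nat_lit 6766055375) (nat_lit 76) (nat_lit 6766055375) (nat_lit 187) (nat_lit 1) (nat_lit 185) (nat_lit 1) (nat_lit 186) (nat_lit 1) (nat_lit 273) (nat_lit 408) (nat_lit 339)) (XT.lf (nat_lit 0) (nat_lit 3251803202) (nat_lit 0) (nat_lit 22276539405) (nat_lit 152) (nat_lit 3251803202) (nat_lit 185) (nat_lit 3) (nat_lit 185) (nat_lit 1) (nat_lit 187) (nat_lit 1) (nat_lit 274) (nat_lit 408) (nat_lit 338)))) (XT.nd (nat_lit 156) (nat_lit 152) (nat_lit 0) (XT.nd (nat_lit 78) (nat_lit 76) (nat_lit 0) (XT.lf (nat_lit 76) (nat_lit 12869262249) (nat_lit 0) (nat_lit 2560748357) (nat_lit 152) (nat_lit 12869262249) (nat_lit 184) (nat_lit 1) (nat_lit 183) (nat_lit 1) (nat_lit 185) (nat_lit 1) (nat_lit 275) (nat_lit 408) (nat_lit 337)) (XT.lf (nat_lit 152) (nat_lit 16696678515) (nat_lit 0) (nat_lit 5566450501) (nat_lit 76) (nat_lit 5566450501) (nat_lit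 184) (nat_lit 1) (nat_lit 182) (nat_lit 1) (nat_lit 183) (nat_lit 1) (nat_lit 276) (nat_lit 408) (nat_lit 336))) (XT.nd (nat_lit 78) (nat_lit 152) (nat_lit 0) (XT.lf (nat_lit 0) (nat_lit 3905840292) (nat_lit 0) (nat_lit 19557537848) (nat_lit 152) (nat_lit 3905840292) (nat_lit 182) (nat_lit 3) (nat_lit 182) (nat_lit 1) (nat_lit 184) (nat_lit 1) (nat_lit 277) (nat_lit 408) (nat_lit 335)) (XT.lf (nat_lit 76) (nat_lit 12990122652) (nat_lit 0) (nat_lit 934759011) (nat_lit 152) (nat_lit 12990122652) (nat_lit 181) (nat_lit 1) (nat_lit 180) (nat_lit 1) (nat_lit 182) (nat_lit 1) (nat_lit 278) (nat_lit 408) (nat_lit 334))))))) (XT.nd (nat_lit 1014) (nat_lit 912) (nat_lit 0) (XT.nd (nat_lit 468) (nat_lit 608) (nat_lit 0) (XT.nd (nat_lit 234) (nat_lit 228) (nat_lit 0) (XT.nd (nat_lit 78) (nat_lit 76) (nat_lit 0) (XT.lf (nat_lit 152) (nat_lit 17310922485) (nat_lit 0) (nat_lit 4579532603) (nat_lit 76) (nat_lit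 4579532603) (nat_lit 181) (nat_lit 1) (nat_lit 179) (nat_lit 1) (nat_lit 180) (nat_lit 1) (nat_lit 279) (nat_lit 408) (nat_lit 333)) (XT.nd (nat_lit 78) (nat_lit 76) (nat_lit 0) (XT.lf (nat_lit 0) (nat_lit 4385319474) (nat_lit 0) (nat_lit 17262009788) (nat_lit 152) (nat_lit 4385319474) (nat_lit 179) (nat_lit 3) (nat_lit 179) (nat_lit 1) (nat_lit 181) (nat_lit 1) (nat_lit 280) (nat_lit 408) (nat_lit 332)) (XT.lf (nat_lit 76) (nat_lit 358616068) (nat_lit 0) (nat_lit 12622130653) (nat_lit 76) (nat_lit 12622130653) (nat_lit 179) (nat_lit 3) (nat_lit 178) (nat_lit 1) (nat_lit 179) (nat_lit 1) (nat_lit 281) (nat_lit 408) (nat_lit 331)))) (XT.nd (nat_lit 78) (nat_lit 76) (nat_lit 0) (XT.lf (nat_lit 152) (nat_lit 17646047103) (nat_lit 0) (nat_lit 3767592806) (nat_lit 76) (nat_lit 3767592806) (nat_lit 178) (nat_lit 1) (nat_lit 176) (nat_lit 1) (nat_lit 177) (nat_lit 1) (nat_lit 282) (nat_lit 408) (nat_lit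 330)) (XT.nd (nat_lit 78) (nat_lit 76) (nat_lit 0) (XT.lf (nat_lit 0) (nat_lit 4723979851) (nat_lit 0) (nat_lit 15317664840) (nat_lit 152) (nat_lit 4723979851) (nat_lit 176) (nat_lit 3) (nat_lit 176) (nat_lit 1) (nat_lit 178) (nat_lit 1) (nat_lit 283) (nat_lit 408) (nat_lit 329)) (XT.lf (nat_lit 76) (nat_lit 1393198305) (nat_lit 0) (nat_lit 11482422104) (nat_lit 76) (nat_lit 11482422104) (nat_lit 176) (nat_lit 3) (nat_lit 175) (nat_lit 1) (nat_lit 176) (nat_lit 1) (nat_lit 284) (nat_lit 408) (nat_lit 328))))) (XT.nd (nat_lit 234) (nat_lit 380) (nat_lit 0) (XT.nd (nat_lit 78) (nat_lit 76) (nat_lit 0) (XT.lf (nat_lit 152) (nat_lit 17759645035) (nat_lit 0) (nat_lit 3099607925) (nat_lit 76) (nat_lit 3099607925) (nat_lit 175) (nat_lit 1) (nat_lit 173) (nat_lit 1) (nat_lit 174) (nat_lit 1) (nat_lit 285) (nat_lit 408) (nat_lit 327)) (XT.nd (nat_lit 78) (nat_lit 76) (nat_lit 0) (XT.lf (nat_lit 0) (nat_lit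 4949445787) (nat_lit 0) (nat_lit 13664896645) (nat_lit 152) (nat_lit 4949445787) (nat_lit 173) (nat_lit 3) (nat_lit 173) (nat_lit 1) (nat_lit 175) (nat_lit 1) (nat_lit 286) (nat_lit 408) (nat_lit 326)) (XT.lf (nat_lit 76) (nat_lit 2192058149) (nat_lit 0) (nat_lit 10492487537) (nat_lit 76) (nat_lit 10492487537) (nat_lit 173) (nat_lit 3) (nat_lit 172) (nat_lit 1) (nat_lit 173) (nat_lit 1) (nat_lit 287) (nat_lit 408) (nat_lit 325)))) (XT.nd (nat_lit 156) (nat_lit 228) (nat_lit 0) (XT.nd (nat_lit 78) (nat_lit 0) (nat_lit 0) (XT.lf (nat_lit 152) (nat_lit 17698711934) (nat_lit 0) (nat_lit 2550055111) (nat_lit 76) (nat_lit 2550055111) (nat_lit 172) (nat_lit 1) (nat_lit 170) (nat_lit 1) (nat_lit 171) (nat_lit 1) (nat_lit 288) (nat_lit 408) (nat_lit 324)) (XT.lf (nat_lit 0) (nat_lit 5084317368) (nat_lit 0) (nat_lit 12254540357) (nat_lit 152) (nat_lit 5084317368) (nat_lit 170) (nat_lit 3) (nat_lit 170) (nat_lit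 1) (nat_lit 172) (nat_lit 1) (nat_lit 289) (nat_lit 408) (nat_lit 323))) (XT.nd (nat_lit 78) (nat_lit 152) (nat_lit 0) (XT.lf (nat_lit 76) (nat_lit 2799478765) (nat_lit 0) (nat_lit 9628262564) (nat_lit 76) (nat_lit 9628262564) (nat_lit 170) (nat_lit 3) (nat_lit 169) (nat_lit 1) (nat_lit 170) (nat_lit 1) (nat_lit 290) (nat_lit 408) (nat_lit 322)) (XT.lf (nat_lit 152) (nat_lit 17501543644) (nat_lit 0) (nat_lit 2097936651) (nat_lit 76) (nat_lit 2097936651) (nat_lit 169) (nat_lit 1) (nat_lit 167) (nat_lit 1) (nat_lit 168) (nat_lit 1) (nat_lit 291) (nat_lit 408) (nat_lit 321)))))) (XT.nd (nat_lit 468) (nat_lit 456) (nat_lit 0) (XT.nd (nat_lit 234) (nat_lit 228) (nat_lit 0) (XT.nd (nat_lit 78) (nat_lit 228) (nat_lit 0) (XT.lf (nat_lit 0) (nat_lit 5147067214) (nat_lit 0) (nat_lit 11046027412) (nat_lit 152) (nat_lit 5147067214) (nat_lit 167) (nat_lit 3) (nat_lit 167) (nat_lit 1) (nat_lit 169) (nat_lit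 1) (nat_lit 292) (nat_lit 408) (nat_lit 320)) (XT.nd (nat_lit 78) (nat_lit 152) (nat_lit 0) (XT.lf (nat_lit 76) (nat_lit 3251773442) (nat_lit 0) (nat_lit 8869830774) (nat_lit 76) (nat_lit 8869830774) (nat_lit 167) (nat_lit 3) (nat_lit 166) (nat_lit 1) (nat_lit 167) (nat_lit 1) (nat_lit 293) (nat_lit 408) (nat_lit 319)) (XT.lf (nat_lit 152) (nat_lit 17199296160) (nat_lit 0) (nat_lit 1725977674) (nat_lit 76) (nat_lit 1725977674) (nat_lit 166) (nat_lit 1) (nat_lit 164) (nat_lit 1) (nat_lit 165) (nat_lit 1) (nat_lit 294) (nat_lit 408) (nat_lit 318)))) (XT.nd (nat_lit 78) (nat_lit 228) (nat_lit 0) (XT.lf (nat_lit 0) (nat_lit 5152778014) (nat_lit 0) (nat_lit 10005867167) (nat_lit 152) (nat_lit 5152778014) (nat_lit 164) (nat_lit 3) (nat_lit 164) (nat_lit 1) (nat_lit 166) (nat_lit 1) (nat_lit 295) (nat_lit 408) (nat_lit 317)) (XT.nd (nat_lit 78) (nat_lit 152) (nat_lit 0) (XT.lf (nat_lit 76) (nat_lit 3578704281)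 (nat_lit 0) (nat_lit 8200693951) (nat_lit 76) (nat_lit 8200693951) (nat_lit 164) (nat_lit 3) (nat_lit 163) (nat_lit 1) (nat_lit 164) (nat_lit 1) (nat_lit 296) (nat_lit 408) (nat_lit 316)) (XT.lf (nat_lit 152) (nat_lit 16817268174) (nat_lit 0) (nat_lit 1419966104) (nat_lit 76) (nat_lit 1419966104) (nat_lit 163) (nat_lit 1) (nat_lit 161) (nat_lit 1) (nat_lit 162) (nat_lit 1) (nat_lit 297) (nat_lit 408) (nat_lit 315))))) (XT.nd (nat_lit 234) (nat_lit 228) (nat_lit 0) (XT.nd (nat_lit 78) (nat_lit 228) (nat_lit 0) (XT.lf (nat_lit 0) (nat_lit 5113749013) (nat_lit 0) (nat_lit 9106397470) (nat_lit 152) (nat_lit 5113749013) (nat_lit 161) (nat_lit 3) (nat_lit 161) (nat_lit 1) (nat_lit 163) (nat_lit 1) (nat_lit 298) (nat_lit 408) (nat_lit 314)) (XT.nd (nat_lit 78) (nat_lit 152) (nat_lit 0) (XT.lf (nat_lit 76) (nat_lit 3804649081) (nat_lit 0) (nat_lit 7607171421) (nat_lit 76) (nat_lit 7607171421) (nat_lit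 161) (nat_lit 3) (nat_lit 160) (nat_lit 1) (nat_lit 161) (nat_lit 1) (nat_lit 299) (nat_lit 408) (nat_lit 313)) (XT.lf (nat_lit 152) (nat_lit 16375955439) (nat_lit 0) (nat_lit 1168209628) (nat_lit 76) (nat_lit 1168209628) (nat_lit 160) (nat_lit 1) (nat_lit 158) (nat_lit 1) (nat_lit 159) (nat_lit 1) (nat_lit 300) (nat_lit 408) (nat_lit 312)))) (XT.nd (nat_lit 156) (nat_lit 152) (nat_lit 0) (XT.nd (nat_lit 78) (nat_lit 76) (nat_lit 0) (XT.lf (nat_lit 0) (nat_lit 5039994721) (nat_lit 0) (nat_lit 8324756487) (nat_lit 152) (nat_lit 5039994721) (nat_lit 158) (nat_lit 3) (nat_lit 158) (nat_lit 1) (nat_lit 160) (nat_lit 1) (nat_lit 301) (nat_lit 408) (nat_lit 311)) (XT.lf (nat_lit 76) (nat_lit 3949561083) (nat_lit 0) (nat_lit 7077905623) (nat_lit 76) (nat_lit 7077905623) (nat_lit 158) (nat_lit 3) (nat_lit 157) (nat_lit 1) (nat_lit 158) (nat_lit 1) (nat_lit 302) (nat_lit 408) (nat_lit 310))) (XT.nd (nat_lit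 78) (nat_lit 0) (nat_lit 0) (XT.lf (nat_lit 152) (nat_lit 15891917441) (nat_lit 0) (nat_lit 961088952) (nat_lit 76) (nat_lit 961088952) (nat_lit 157) (nat_lit 1) (nat_lit 155) (nat_lit 1) (nat_lit 156) (nat_lit 1) (nat_lit 303) (nat_lit 408) (nat_lit 309)) (XT.lf (nat_lit 0) (nat_lit 4939654941) (nat_lit 0) (nat_lit 7642036575) (nat_lit 152) (nat_lit 4939654941) (nat_lit 155) (nat_lit 3) (nat_lit 155) (nat_lit 1) (nat_lit 157) (nat_lit 1) (nat_lit 304) (nat_lit 408) (nat_lit 308))))))))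
noncomputable def ec294 : XT := (XT.nd (nat_lit 1950) (nat_lit 1976) (nat_lit 0) (XT.nd (nat_lit 936) (nat_lit 988) (nat_lit 0) (XT.nd (nat_lit 468) (nat_lit 456) (nat_lit 0) (XT.nd (nat_lit 234) (nat_lit 228) (nat_lit 0) (XT.nd (nat_lit 78) (nat_lit 152) (nat_lit 0) (XT.lf (nat_lit 76) (nat_lit 4029758315) (nat_lit 0) (nat_lit 6603455109) (nat_lit 76) (nat_lit 6603455109) (nat_lit 155) (nat_lit 3) (nat_lit 154) (nat_lit 1) (nat_lit 155) (nat_lit 1) (nat_lit 305) (nat_lit 408) (nat_lit 307)) (XT.nd (nat_lit 78) (nat_lit 0) (nat_lit 0) (XT.lf (nat_lit 152) (nat_lit 15378489689) (nat_lit 0) (nat_lit 790690259) (nat_lit 76) (nat_lit 790690259) (nat_lit 154) (nat_lit 1) (nat_lit 152) (nat_lit 1) (nat_lit 153) (nat_lit 1) (nat_lit 306) (nat_lit 408) (nat_lit 306)) (XT.lf (nat_lit 0) (nat_lit 4819331879) (nat_lit 0) (nat_lit 7042587938) (nat_lit 152) (nat_lit 4819331879) (nat_lit 152) (nat_lit 3) (nat_lit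 152) (nat_lit 1) (nat_lit 154) (nat_lit 1) (nat_lit 307) (nat_lit 408) (nat_lit 305)))) (XT.nd (nat_lit 78) (nat_lit 152) (nat_lit 0) (XT.lf (nat_lit 76) (nat_lit 4058572745) (nat_lit 0) (nat_lit 6175959467) (nat_lit 76) (nat_lit 6175959467) (nat_lit 152) (nat_lit 3) (nat_lit 151) (nat_lit 1) (nat_lit 152) (nat_lit 1) (nat_lit 308) (nat_lit 408) (nat_lit 304)) (XT.nd (nat_lit 78) (nat_lit 0) (nat_lit 0) (XT.lf (nat_lit 152) (nat_lit 14846369031) (nat_lit 0) (nat_lit 650502833) (nat_lit 76) (nat_lit 650502833) (nat_lit 151) (nat_lit 1) (nat_lit 149) (nat_lit 1) (nat_lit 150) (nat_lit 1) (nat_lit 309) (nat_lit 408) (nat_lit 303)) (XT.lf (nat_lit 0) (nat_lit 4684367249) (nat_lit 0) (nat_lit 6513445511) (nat_lit 152) (nat_lit 4684367249) (nat_lit 149) (nat_lit 3) (nat_lit 149) (nat_lit 1) (nat_lit 151) (nat_lit 1) (nat_lit 310) (nat_lit 408) (nat_lit 302))))) (XT.nd (nat_lit 234) (nat_lit 228) (nat_lit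 0) (XT.nd (nat_lit 78) (nat_lit 152) (nat_lit 0) (XT.lf (nat_lit 76) (nat_lit 4046884133) (nat_lit 0) (nat_lit 5788863430) (nat_lit 76) (nat_lit 5788863430) (nat_lit 149) (nat_lit 3) (nat_lit 148) (nat_lit 1) (nat_lit 149) (nat_lit 1) (nat_lit 311) (nat_lit 408) (nat_lit 301)) (XT.nd (nat_lit 78) (nat_lit 0) (nat_lit 0) (XT.lf (nat_lit 152) (nat_lit 14304094549) (nat_lit 0) (nat_lit 535170290) (nat_lit 76) (nat_lit 535170290) (nat_lit 148) (nat_lit 1) (nat_lit 146) (nat_lit 1) (nat_lit 147) (nat_lit 1) (nat_lit 312) (nat_lit 408) (nat_lit 300)) (XT.lf (nat_lit 0) (nat_lit 4539070038) (nat_lit 0) (nat_lit 6043857251) (nat_lit 152) (nat_lit 4539070038) (nat_lit 146) (nat_lit 3) (nat_lit 146) (nat_lit 1) (nat_lit 148) (nat_lit 1) (nat_lit 313) (nat_lit 408) (nat_lit 299)))) (XT.nd (nat_lit 78) (nat_lit 152) (nat_lit 0) (XT.lf (nat_lit 76) (nat_lit 4003559013) (nat_lit 0) (nat_lit 5436689691) (nat_lit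 76) (nat_lit 5436689691) (nat_lit 146) (nat_lit 3) (nat_lit 145) (nat_lit 1) (nat_lit 146) (nat_lit 1) (nat_lit 314) (nat_lit 408) (nat_lit 298)) (XT.nd (nat_lit 78) (nat_lit 0) (nat_lit 0) (XT.lf (nat_lit 152) (nat_lit 13758442561) (nat_lit 0) (nat_lit 440285922) (nat_lit 76) (nat_lit 440285922) (nat_lit 145) (nat_lit 1) (nat_lit 143) (nat_lit 1) (nat_lit 144) (nat_lit 1) (nat_lit 315) (nat_lit 408) (nat_lit 297)) (XT.lf (nat_lit 0) (nat_lit 4386903687) (nat_lit 0) (nat_lit 5624895851) (nat_lit 152) (nat_lit 4386903687) (nat_lit 143) (nat_lit 3) (nat_lit 143) (nat_lit 1) (nat_lit 145) (nat_lit 1) (nat_lit 316) (nat_lit 408) (nat_lit 296)))))) (XT.nd (nat_lit 468) (nat_lit 532) (nat_lit 0) (XT.nd (nat_lit 234) (nat_lit 228) (nat_lit 0) (XT.nd (nat_lit 78) (nat_lit 152) (nat_lit 0) (XT.lf (nat_lit 76) (nat_lit 3935811642) (nat_lit 0) (nat_lit 5114851798) (nat_lit 76) (nat_lit 5114851798) (nat_lit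 143) (nat_lit 3) (nat_lit 142) (nat_lit 1) (nat_lit 143) (nat_lit 1) (nat_lit 317) (nat_lit 408) (nat_lit 295)) (XT.nd (nat_lit 78) (nat_lit 0) (nat_lit 0) (XT.lf (nat_lit 152) (nat_lit 13214751007) (nat_lit 0) (nat_lit 362224318) (nat_lit 76) (nat_lit 362224318) (nat_lit 142) (nat_lit 1) (nat_lit 140) (nat_lit 1) (nat_lit 141) (nat_lit 1) (nat_lit 318) (nat_lit 408) (nat_lit 294)) (XT.lf (nat_lit 0) (nat_lit 4230639885) (nat_lit 0) (nat_lit 5249139102) (nat_lit 152) (nat_lit 4230639885) (nat_lit 140) (nat_lit 3) (nat_lit 140) (nat_lit 1) (nat_lit 142) (nat_lit 1) (nat_lit 319) (nat_lit 408) (nat_lit 293)))) (XT.nd (nat_lit 78) (nat_lit 152) (nat_lit 0) (XT.lf (nat_lit 76) (nat_lit 3849500773) (nat_lit 0) (nat_lit 4819500027) (nat_lit 76) (nat_lit 4819500027) (nat_lit 140) (nat_lit 3) (nat_lit 139) (nat_lit 1) (nat_lit 140) (nat_lit 1) (nat_lit 320) (nat_lit 408) (nat_lit 292)) (XT.nd (nat_lit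 78) (nat_lit 0) (nat_lit 0) (XT.lf (nat_lit 152) (nat_lit 12677185751) (nat_lit 0) (nat_lit 298002843) (nat_lit 76) (nat_lit 298002843) (nat_lit 139) (nat_lit 1) (nat_lit 137) (nat_lit 1) (nat_lit 138) (nat_lit 1) (nat_lit 321) (nat_lit 408) (nat_lit 291)) (XT.lf (nat_lit 0) (nat_lit 4072484917) (nat_lit 0) (nat_lit 4910406744) (nat_lit 152) (nat_lit 4072484917) (nat_lit 137) (nat_lit 3) (nat_lit 137) (nat_lit 1) (nat_lit 139) (nat_lit 1) (nat_lit 322) (nat_lit 408) (nat_lit 290))))) (XT.nd (nat_lit 234) (nat_lit 304) (nat_lit 0) (XT.nd (nat_lit 78) (nat_lit 152) (nat_lit 0) (XT.lf (nat_lit 76) (nat_lit 3749373617) (nat_lit 0) (nat_lit 4547394403) (nat_lit 76) (nat_lit 4547394403) (nat_lit 137) (nat_lit 3) (nat_lit 136) (nat_lit 1) (nat_lit 137) (nat_lit 1) (nat_lit 323) (nat_lit 408) (nat_lit 289)) (XT.nd (nat_lit 78) (nat_lit 0) (nat_lit 0) (XT.lf (nat_lit 152) (nat_lit 12148959132) (nat_lit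 0) (nat_lit 245167676) (nat_lit 76) (nat_lit 245167676) (nat_lit 136) (nat_lit 1) (nat_lit 134) (nat_lit 1) (nat_lit 135) (nat_lit 1) (nat_lit 324) (nat_lit 408) (nat_lit 288)) (XT.lf (nat_lit 0) (nat_lit 3914183434) (nat_lit 0) (nat_lit 4603543794) (nat_lit 152) (nat_lit 3914183434) (nat_lit 134) (nat_lit 3) (nat_lit 134) (nat_lit 1) (nat_lit 136) (nat_lit 1) (nat_lit 325) (nat_lit 408) (nat_lit 287)))) (XT.nd (nat_lit 156) (nat_lit 76) (nat_lit 0) (XT.nd (nat_lit 78) (nat_lit 152) (nat_lit 0) (XT.lf (nat_lit 76) (nat_lit 3639266386) (nat_lit 0) (nat_lit 4295800062) (nat_lit 76) (nat_lit 4295800062) (nat_lit 134) (nat_lit 3) (nat_lit 133) (nat_lit 1) (nat_lit 134) (nat_lit 1) (nat_lit 326) (nat_lit 408) (nat_lit 286)) (XT.lf (nat_lit 152) (nat_lit 11632509260) (nat_lit 0) (nat_lit 201700054) (nat_lit 76) (nat_lit 201700054) (nat_lit 133) (nat_lit 1) (nat_lit 131) (nat_lit 1) (nat_lit 132) (nat_lit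 1) (nat_lit 327) (nat_lit 408) (nat_lit 285))) (XT.nd (nat_lit 78) (nat_lit 76) (nat_lit 0) (XT.lf (nat_lit 0) (nat_lit 3757103649) (nat_lit 0) (nat_lit 4324242123) (nat_lit 152) (nat_lit 3757103649) (nat_lit 131) (nat_lit 3) (nat_lit 131) (nat_lit 1) (nat_lit 133) (nat_lit 1) (nat_lit 328) (nat_lit 408) (nat_lit 284)) (XT.lf (nat_lit 76) (nat_lit 3522269112) (nat_lit 0) (nat_lit 4062400992) (nat_lit 76) (nat_lit 4062400992) (nat_lit 131) (nat_lit 3) (nat_lit 130) (nat_lit 1) (nat_lit 131) (nat_lit 1) (nat_lit 329) (nat_lit 408) (nat_lit 283))))))) (XT.nd (nat_lit 936) (nat_lit 1064) (nat_lit 0) (XT.nd (nat_lit 468) (nat_lit 456) (nat_lit 0) (XT.nd (nat_lit 234) (nat_lit 228) (nat_lit 0) (XT.nd (nat_lit 78) (nat_lit 76) (nat_lit 0) (XT.lf (nat_lit 152) (nat_lit 11129647028) (nat_lit 0) (nat_lit 165939133) (nat_lit 76) (nat_lit 165939133) (nat_lit 130) (nat_lit 1) (nat_lit 128) (nat_lit 1) (nat_lit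 129) (nat_lit 1) (nat_lit 330) (nat_lit 408) (nat_lit 282)) (XT.nd (nat_lit 78) (nat_lit 76) (nat_lit 0) (XT.lf (nat_lit 0) (nat_lit 3602307280) (nat_lit 0) (nat_lit 4068893507) (nat_lit 152) (nat_lit 3602307280) (nat_lit 128) (nat_lit 3) (nat_lit 128) (nat_lit 1) (nat_lit 130) (nat_lit 1) (nat_lit 331) (nat_lit 408) (nat_lit 281)) (XT.lf (nat_lit 76) (nat_lit 3400861087) (nat_lit 0) (nat_lit 3845228922) (nat_lit 76) (nat_lit 3845228922) (nat_lit 128) (nat_lit 3) (nat_lit 127) (nat_lit 1) (nat_lit 128) (nat_lit 1) (nat_lit 332) (nat_lit 408) (nat_lit 280)))) (XT.nd (nat_lit 78) (nat_lit 76) (nat_lit 0) (XT.lf (nat_lit 152) (nat_lit 10641676603) (nat_lit 0) (nat_lit 136518535) (nat_lit 76) (nat_lit 136518535) (nat_lit 127) (nat_lit 1) (nat_lit 125) (nat_lit 1) (nat_lit 126) (nat_lit 1) (nat_lit 333) (nat_lit 408) (nat_lit 279)) (XT.nd (nat_lit 78) (nat_lit 76) (nat_lit 0) (XT.lf (nat_lit 0) (nat_lit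 3450606934) (nat_lit 0) (nat_lit 3834468577) (nat_lit 152) (nat_lit 3450606934) (nat_lit 125) (nat_lit 3) (nat_lit 125) (nat_lit 1) (nat_lit 127) (nat_lit 1) (nat_lit 334) (nat_lit 408) (nat_lit 278)) (XT.lf (nat_lit 76) (nat_lit 3277022139) (nat_lit 0) (nat_lit 3642604656) (nat_lit 76) (nat_lit 3642604656) (nat_lit 125) (nat_lit 3) (nat_lit 124) (nat_lit 1) (nat_lit 125) (nat_lit 1) (nat_lit 335) (nat_lit 408) (nat_lit 277))))) (XT.nd (nat_lit 234) (nat_lit 228) (nat_lit 0) (XT.nd (nat_lit 78) (nat_lit 76) (nat_lit 0) (XT.lf (nat_lit 152) (nat_lit 10169494105) (nat_lit 0) (nat_lit 112314137) (nat_lit 76) (nat_lit 112314137) (nat_lit 124) (nat_lit 1) (nat_lit 122) (nat_lit 1) (nat_lit 123) (nat_lit 1) (nat_lit 336) (nat_lit 408) (nat_lit 276)) (XT.nd (nat_lit 78) (nat_lit 76) (nat_lit 0) (XT.lf (nat_lit 0) (nat_lit 3302613168) (nat_lit 0) (nat_lit 3618417092) (nat_lit 152) (nat_lit 3302613168)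 (nat_lit 122) (nat_lit 3) (nat_lit 122) (nat_lit 1) (nat_lit 124) (nat_lit 1) (nat_lit 337) (nat_lit 408) (nat_lit 275)) (XT.lf (nat_lit 76) (nat_lit 3152324039) (nat_lit 0) (nat_lit 3453089681) (nat_lit 76) (nat_lit 3453089681) (nat_lit 122) (nat_lit 3) (nat_lit 121) (nat_lit 1) (nat_lit 122) (nat_lit 1) (nat_lit 338) (nat_lit 408) (nat_lit 274)))) (XT.nd (nat_lit 78) (nat_lit 76) (nat_lit 0) (XT.lf (nat_lit 152) (nat_lit 9713668376) (nat_lit 0) (nat_lit 92401118) (nat_lit 76) (nat_lit 92401118) (nat_lit 121) (nat_lit 1) (nat_lit 119) (nat_lit 1) (nat_lit 120) (nat_lit 1) (nat_lit 339) (nat_lit 408) (nat_lit 273)) (XT.nd (nat_lit 78) (nat_lit 76) (nat_lit 0) (XT.lf (nat_lit 0) (nat_lit 3158773078) (nat_lit 0) (nat_lit 3418585748) (nat_lit 152) (nat_lit 3158773078) (nat_lit 119) (nat_lit 3) (nat_lit 119) (nat_lit 1) (nat_lit 121) (nat_lit 1) (nat_lit 340) (nat_lit 408) (nat_lit 272)) (XT.lf (nat_lit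 76) (nat_lit 3028005565) (nat_lit 0) (nat_lit 3275446203) (nat_lit 76) (nat_lit 3275446203) (nat_lit 119) (nat_lit 3) (nat_lit 118) (nat_lit 1) (nat_lit 119) (nat_lit 1) (nat_lit 341) (nat_lit 408) (nat_lit 271)))))) (XT.nd (nat_lit 468) (nat_lit 608) (nat_lit 0) (XT.nd (nat_lit 234) (nat_lit 228) (nat_lit 0) (XT.nd (nat_lit 78) (nat_lit 76) (nat_lit 0) (XT.lf (nat_lit 152) (nat_lit 9274507019) (nat_lit 0) (nat_lit 76018629) (nat_lit 76) (nat_lit 76018629) (nat_lit 118) (nat_lit 1) (nat_lit 116) (nat_lit 1) (nat_lit 117) (nat_lit 1) (nat_lit 342) (nat_lit 408) (nat_lit 270)) (XT.nd (nat_lit 78) (nat_lit 76) (nat_lit 0) (XT.lf (nat_lit 0) (nat_lit 3019401907) (nat_lit 0) (nat_lit 3233150433) (nat_lit 152) (nat_lit 3019401907) (nat_lit 116) (nat_lit 3) (nat_lit 116) (nat_lit 1) (nat_lit 118) (nat_lit 1) (nat_lit 343) (nat_lit 408) (nat_lit 269)) (XT.lf (nat_lit 76) (nat_lit 2905034126) (nat_lit 0)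 (nat_lit 3108604151) (nat_lit 76) (nat_lit 3108604151) (nat_lit 116) (nat_lit 3) (nat_lit 115) (nat_lit 1) (nat_lit 116) (nat_lit 1) (nat_lit 344) (nat_lit 408) (nat_lit 268)))) (XT.nd (nat_lit 78) (nat_lit 76) (nat_lit 0) (XT.lf (nat_lit 152) (nat_lit 8852110360) (nat_lit 0) (nat_lit 62540714) (nat_lit 76) (nat_lit 62540714) (nat_lit 115) (nat_lit 1) (nat_lit 113) (nat_lit 1) (nat_lit 114) (nat_lit 1) (nat_lit 345) (nat_lit 408) (nat_lit 267)) (XT.nd (nat_lit 78) (nat_lit 76) (nat_lit 0) (XT.lf (nat_lit 0) (nat_lit 2884708924) (nat_lit 0) (nat_lit 3060560365) (nat_lit 152) (nat_lit 2884708924) (nat_lit 113) (nat_lit 3) (nat_lit 113) (nat_lit 1) (nat_lit 115) (nat_lit 1) (nat_lit 346) (nat_lit 408) (nat_lit 266)) (XT.lf (nat_lit 76) (nat_lit 2784156340) (nat_lit 0) (nat_lit 2951633903) (nat_lit 76) (nat_lit 2951633903) (nat_lit 113) (nat_lit 3) (nat_lit 112) (nat_lit 1) (nat_lit 113) (nat_lit 1)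 (nat_lit 347) (nat_lit 408) (nat_lit 265))))) (XT.nd (nat_lit 234) (nat_lit 380) (nat_lit 0) (XT.nd (nat_lit 78) (nat_lit 76) (nat_lit 0) (XT.lf (nat_lit 152) (nat_lit 8446415465) (nat_lit 0) (nat_lit 51452400) (nat_lit 76) (nat_lit 51452400) (nat_lit 112) (nat_lit 1) (nat_lit 110) (nat_lit 1) (nat_lit 111) (nat_lit 1) (nat_lit 348) (nat_lit 408) (nat_lit 264)) (XT.nd (nat_lit 78) (nat_lit 76) (nat_lit 0) (XT.lf (nat_lit 0) (nat_lit 2754818602) (nat_lit 0) (nat_lit 2899492018) (nat_lit 152) (nat_lit 2754818602) (nat_lit 110) (nat_lit 3) (nat_lit 110) (nat_lit 1) (nat_lit 112) (nat_lit 1) (nat_lit 349) (nat_lit 408) (nat_lit 263)) (XT.lf (nat_lit 76) (nat_lit 2665939525) (nat_lit 0) (nat_lit 2803723731) (nat_lit 76) (nat_lit 2803723731) (nat_lit 110) (nat_lit 3) (nat_lit 109) (nat_lit 1) (nat_lit 110) (nat_lit 1) (nat_lit 350) (nat_lit 408) (nat_lit 262)))) (XT.nd (nat_lit 156) (nat_lit 228) (nat_lit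 0) (XT.nd (nat_lit 78) (nat_lit 0) (nat_lit 0) (XT.lf (nat_lit 152) (nat_lit 8057232016) (nat_lit 0) (nat_lit 42330017) (nat_lit 76) (nat_lit 42330017) (nat_lit 109) (nat_lit 1) (nat_lit 107) (nat_lit 1) (nat_lit 108) (nat_lit 1) (nat_lit 351) (nat_lit 408) (nat_lit 261)) (XT.lf (nat_lit 0) (nat_lit 2629787920) (nat_lit 0) (nat_lit 2748811098) (nat_lit 152) (nat_lit 2629787920) (nat_lit 107) (nat_lit 3) (nat_lit 107) (nat_lit 1) (nat_lit 109) (nat_lit 1) (nat_lit 352) (nat_lit 408) (nat_lit 260))) (XT.nd (nat_lit 78) (nat_lit 152) (nat_lit 0) (XT.lf (nat_lit 76) (nat_lit 2550805726) (nat_lit 0) (nat_lit 2664161133) (nat_lit 76) (nat_lit 2664161133) (nat_lit 107) (nat_lit 3) (nat_lit 106) (nat_lit 1) (nat_lit 107) (nat_lit 1) (nat_lit 353) (nat_lit 408) (nat_lit 259)) (XT.lf (nat_lit 152) (nat_lit 7684271490) (nat_lit 0) (nat_lit 34825009) (nat_lit 76) (nat_lit 34825009) (nat_lit 106) (nat_lit 1)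 (nat_lit 104) (nat_lit 1) (nat_lit 105) (nat_lit 1) (nat_lit 354) (nat_lit 408) (nat_lit 258))))))))
noncomputable def ec295 : XT := (XT.nd (nat_lit 1950) (nat_lit 2052) (nat_lit 0) (XT.nd (nat_lit 936) (nat_lit 912) (nat_lit 0) (XT.nd (nat_lit 468) (nat_lit 456) (nat_lit 0) (XT.nd (nat_lit 234) (nat_lit 228) (nat_lit 0) (XT.nd (nat_lit 78) (nat_lit 228) (nat_lit 0) (XT.lf (nat_lit 0) (nat_lit 2509620496) (nat_lit 0) (nat_lit 2607541159) (nat_lit 152) (nat_lit 2509620496) (nat_lit 104) (nat_lit 3) (nat_lit 104) (nat_lit 1) (nat_lit 106) (nat_lit 1) (nat_lit 355) (nat_lit 408) (nat_lit 257)) (XT.nd (nat_lit 78) (nat_lit 152) (nat_lit 0) (XT.lf (nat_lit 76) (nat_lit 2439059593) (nat_lit 0) (nat_lit 2532317367) (nat_lit 76) (nat_lit 2532317367) (nat_lit 104) (nat_lit 3) (nat_lit 103) (nat_lit 1) (nat_lit 104) (nat_lit 1) (nat_lit 356) (nat_lit 408) (nat_lit 256)) (XT.lf (nat_lit 152) (nat_lit 7327170859)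 (nat_lit 0) (nat_lit 28650621) (nat_lit 76) (nat_lit 28650621) (nat_lit 103) (nat_lit 1) (nat_lit 101) (nat_lit 1) (nat_lit 102) (nat_lit 1) (nat_lit 357) (nat_lit 408) (nat_lit 255)))) (XT.nd (nat_lit 78) (nat_lit 228) (nat_lit 0) (XT.lf (nat_lit 0) (nat_lit 2394278103) (nat_lit 0) (nat_lit 2474837675) (nat_lit 152) (nat_lit 2394278103) (nat_lit 101) (nat_lit 3) (nat_lit 101) (nat_lit 1) (nat_lit 103) (nat_lit 1) (nat_lit 358) (nat_lit 408) (nat_lit 254)) (XT.nd (nat_lit 78) (nat_lit 152) (nat_lit 0) (XT.lf (nat_lit 76) (nat_lit 2330911230) (nat_lit 0) (nat_lit 2407634631) (nat_lit 76) (nat_lit 2407634631) (nat_lit 101) (nat_lit 3) (nat_lit 100) (nat_lit 1) (nat_lit 101) (nat_lit 1) (nat_lit 359) (nat_lit 408) (nat_lit 253)) (XT.lf (nat_lit 152) (nat_lit 6985511776) (nat_lit 0) (nat_lit 23570937) (nat_lit 76) (nat_lit 23570937) (nat_lit 100) (nat_lit 1) (nat_lit 98) (nat_lit 1) (nat_lit 99) (nat_lit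 1) (nat_lit 360) (nat_lit 408) (nat_lit 252))))) (XT.nd (nat_lit 234) (nat_lit 228) (nat_lit 0) (XT.nd (nat_lit 78) (nat_lit 228) (nat_lit 0) (XT.lf (nat_lit 0) (nat_lit 2283690054) (nat_lit 0) (nat_lit 2349966613) (nat_lit 152) (nat_lit 2283690054) (nat_lit 98) (nat_lit 3) (nat_lit 98) (nat_lit 1) (nat_lit 100) (nat_lit 1) (nat_lit 361) (nat_lit 408) (nat_lit 251)) (XT.nd (nat_lit 78) (nat_lit 152) (nat_lit 0) (XT.lf (nat_lit 76) (nat_lit 2226494882) (nat_lit 0) (nat_lit 2289615414) (nat_lit 76) (nat_lit 2289615414) (nat_lit 98) (nat_lit 3) (nat_lit 97) (nat_lit 1) (nat_lit 98) (nat_lit 1) (nat_lit 362) (nat_lit 408) (nat_lit 250)) (XT.lf (nat_lit 152) (nat_lit 6658836091) (nat_lit 0) (nat_lit 19391868) (nat_lit 76) (nat_lit 19391868) (nat_lit 97) (nat_lit 1) (nat_lit 95) (nat_lit 1) (nat_lit 96) (nat_lit 1) (nat_lit 363) (nat_lit 408) (nat_lit 249)))) (XT.nd (nat_lit 78) (nat_lit 228) (nat_lit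 0) (XT.lf (nat_lit 0) (nat_lit 2177760825) (nat_lit 0) (nat_lit 2232286714) (nat_lit 152) (nat_lit 2177760825) (nat_lit 95) (nat_lit 3) (nat_lit 95) (nat_lit 1) (nat_lit 97) (nat_lit 1) (nat_lit 364) (nat_lit 408) (nat_lit 248)) (XT.nd (nat_lit 78) (nat_lit 152) (nat_lit 0) (XT.lf (nat_lit 76) (nat_lit 2125884225) (nat_lit 0) (nat_lit 2177813643) (nat_lit 76) (nat_lit 2177813643) (nat_lit 95) (nat_lit 3) (nat_lit 94) (nat_lit 1) (nat_lit 95) (nat_lit 1) (nat_lit 365) (nat_lit 408) (nat_lit 247)) (XT.lf (nat_lit 152) (nat_lit 6346658326) (nat_lit 0) (nat_lit 15953738) (nat_lit 76) (nat_lit 15953738) (nat_lit 94) (nat_lit 1) (nat_lit 92) (nat_lit 1) (nat_lit 93) (nat_lit 1) (nat_lit 366) (nat_lit 408) (nat_lit 246)))))) (XT.nd (nat_lit 468) (nat_lit 456) (nat_lit 0) (XT.nd (nat_lit 234) (nat_lit 228) (nat_lit 0) (XT.nd (nat_lit 78) (nat_lit 228) (nat_lit 0) (XT.lf (nat_lit 0) (nat_lit 2076376235)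 (nat_lit 0) (nat_lit 2121234818) (nat_lit 152) (nat_lit 2076376235) (nat_lit 92) (nat_lit 3) (nat_lit 92) (nat_lit 1) (nat_lit 94) (nat_lit 1) (nat_lit 367) (nat_lit 408) (nat_lit 245)) (XT.nd (nat_lit 78) (nat_lit 152) (nat_lit 0) (XT.lf (nat_lit 76) (nat_lit 2029104856) (nat_lit 0) (nat_lit 2071827317) (nat_lit 76) (nat_lit 2071827317) (nat_lit 92) (nat_lit 3) (nat_lit 91) (nat_lit 1) (nat_lit 92) (nat_lit 1) (nat_lit 368) (nat_lit 408) (nat_lit 244)) (XT.lf (nat_lit 152) (nat_lit 6048475697) (nat_lit 0) (nat_lit 13125179) (nat_lit 76) (nat_lit 13125179) (nat_lit 91) (nat_lit 1) (nat_lit 89) (nat_lit 1) (nat_lit 90) (nat_lit 1) (nat_lit 369) (nat_lit 408) (nat_lit 243)))) (XT.nd (nat_lit 78) (nat_lit 228) (nat_lit 0) (XT.lf (nat_lit 0) (nat_lit 1979408452) (nat_lit 0) (nat_lit 2016313720) (nat_lit 152) (nat_lit 1979408452) (nat_lit 89) (nat_lit 3) (nat_lit 89) (nat_lit 1) (nat_lit 91) (nat_lit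 1) (nat_lit 370) (nat_lit 408) (nat_lit 242)) (XT.nd (nat_lit 78) (nat_lit 152) (nat_lit 0) (XT.lf (nat_lit 76) (nat_lit 1936144485) (nat_lit 0) (nat_lit 1971292360) (nat_lit 76) (nat_lit 1971292360) (nat_lit 89) (nat_lit 3) (nat_lit 88) (nat_lit 1) (nat_lit 89) (nat_lit 1) (nat_lit 371) (nat_lit 408) (nat_lit 241)) (XT.lf (nat_lit 152) (nat_lit 5763776101) (nat_lit 0) (nat_lit 10798118) (nat_lit 76) (nat_lit 10798118) (nat_lit 88) (nat_lit 1) (nat_lit 86) (nat_lit 1) (nat_lit 87) (nat_lit 1) (nat_lit 372) (nat_lit 408) (nat_lit 240))))) (XT.nd (nat_lit 234) (nat_lit 228) (nat_lit 0) (XT.nd (nat_lit 78) (nat_lit 228) (nat_lit 0) (XT.lf (nat_lit 0) (nat_lit 1886720028) (nat_lit 0) (nat_lit 1917082083) (nat_lit 152) (nat_lit 1886720028) (nat_lit 86) (nat_lit 3) (nat_lit 86) (nat_lit 1) (nat_lit 88) (nat_lit 1) (nat_lit 373) (nat_lit 408) (nat_lit 239)) (XT.nd (nat_lit 78) (nat_lit 152) (nat_lit 0)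 (XT.lf (nat_lit 76) (nat_lit 1846961239) (nat_lit 0) (nat_lit 1875877482) (nat_lit 76) (nat_lit 1875877482) (nat_lit 86) (nat_lit 3) (nat_lit 85) (nat_lit 1) (nat_lit 86) (nat_lit 1) (nat_lit 374) (nat_lit 408) (nat_lit 238)) (XT.lf (nat_lit 152) (nat_lit 5492044459) (nat_lit 0) (nat_lit 8883638) (nat_lit 76) (nat_lit 8883638) (nat_lit 85) (nat_lit 1) (nat_lit 83) (nat_lit 1) (nat_lit 84) (nat_lit 1) (nat_lit 375) (nat_lit 408) (nat_lit 237)))) (XT.nd (nat_lit 156) (nat_lit 152) (nat_lit 0) (XT.nd (nat_lit 78) (nat_lit 76) (nat_lit 0) (XT.lf (nat_lit 0) (nat_lit 1798167137) (nat_lit 0) (nat_lit 1823146075) (nat_lit 152) (nat_lit 1798167137) (nat_lit 83) (nat_lit 3) (nat_lit 83) (nat_lit 1) (nat_lit 85) (nat_lit 1) (nat_lit 376) (nat_lit 408) (nat_lit 236)) (XT.lf (nat_lit 76) (nat_lit 1761490420) (nat_lit 0) (nat_lit 1785279885) (nat_lit 76) (nat_lit 1785279885) (nat_lit 83) (nat_lit 3) (nat_lit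 82) (nat_lit 1) (nat_lit 83) (nat_lit 1) (nat_lit 377) (nat_lit 408) (nat_lit 235))) (XT.nd (nat_lit 78) (nat_lit 0) (nat_lit 0) (XT.lf (nat_lit 152) (nat_lit 5232767708) (nat_lit 0) (nat_lit 7308591) (nat_lit 76) (nat_lit 7308591) (nat_lit 82) (nat_lit 1) (nat_lit 80) (nat_lit 1) (nat_lit 81) (nat_lit 1) (nat_lit 378) (nat_lit 408) (nat_lit 234)) (XT.lf (nat_lit 0) (nat_lit 1713602173) (nat_lit 0) (nat_lit 1734152407) (nat_lit 152) (nat_lit 1713602173) (nat_lit 80) (nat_lit 3) (nat_lit 80) (nat_lit 1) (nat_lit 82) (nat_lit 1) (nat_lit 379) (nat_lit 408) (nat_lit 233))))))) (XT.nd (nat_lit 1014) (nat_lit 1064) (nat_lit 0) (XT.nd (nat_lit 468) (nat_lit 532) (nat_lit 0) (XT.nd (nat_lit 234) (nat_lit 228) (nat_lit 0) (XT.nd (nat_lit 78) (nat_lit 152) (nat_lit 0) (XT.lf (nat_lit 76) (nat_lit 1679649992) (nat_lit 0) (nat_lit 1699221644) (nat_lit 76) (nat_lit 1699221644) (nat_lit 80) (nat_lit 3) (nat_lit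 79) (nat_lit 1) (nat_lit 80) (nat_lit 1) (nat_lit 380) (nat_lit 408) (nat_lit 232)) (XT.nd (nat_lit 78) (nat_lit 0) (nat_lit 0) (XT.lf (nat_lit 152) (nat_lit 4985438695) (nat_lit 0) (nat_lit 6012796) (nat_lit 76) (nat_lit 6012796) (nat_lit 79) (nat_lit 1) (nat_lit 77) (nat_lit 1) (nat_lit 78) (nat_lit 1) (nat_lit 381) (nat_lit 408) (nat_lit 231)) (XT.lf (nat_lit 0) (nat_lit 1632875815) (nat_lit 0) (nat_lit 1649782543) (nat_lit 152) (nat_lit 1632875815) (nat_lit 77) (nat_lit 3) (nat_lit 77) (nat_lit 1) (nat_lit 79) (nat_lit 1) (nat_lit 382) (nat_lit 408) (nat_lit 230)))) (XT.nd (nat_lit 78) (nat_lit 152) (nat_lit 0) (XT.lf (nat_lit 76) (nat_lit 1601345029) (nat_lit 0) (nat_lit 1617446675) (nat_lit 76) (nat_lit 1617446675) (nat_lit 77) (nat_lit 3) (nat_lit 76) (nat_lit 1) (nat_lit 77) (nat_lit 1) (nat_lit 383) (nat_lit 408) (nat_lit 229)) (XT.nd (nat_lit 78) (nat_lit 0) (nat_lit 0) (XT.lf (nat_lit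 152) (nat_lit 4749559183) (nat_lit 0) (nat_lit 4946742) (nat_lit 76) (nat_lit 4946742) (nat_lit 76) (nat_lit 1) (nat_lit 74) (nat_lit 1) (nat_lit 75) (nat_lit 1) (nat_lit 384) (nat_lit 408) (nat_lit 228)) (XT.lf (nat_lit 0) (nat_lit 1555838656) (nat_lit 0) (nat_lit 1569747863) (nat_lit 152) (nat_lit 1555838656) (nat_lit 74) (nat_lit 3) (nat_lit 74) (nat_lit 1) (nat_lit 76) (nat_lit 1) (nat_lit 385) (nat_lit 408) (nat_lit 227))))) (XT.nd (nat_lit 234) (nat_lit 304) (nat_lit 0) (XT.nd (nat_lit 78) (nat_lit 152) (nat_lit 0) (XT.lf (nat_lit 76) (nat_lit 1526471302) (nat_lit 0) (nat_lit 1539718166) (nat_lit 76) (nat_lit 1539718166) (nat_lit 74) (nat_lit 3) (nat_lit 73) (nat_lit 1) (nat_lit 74) (nat_lit 1) (nat_lit 386) (nat_lit 408) (nat_lit 226)) (XT.nd (nat_lit 78) (nat_lit 0) (nat_lit 0) (XT.lf (nat_lit 152) (nat_lit 4524642123) (nat_lit 0) (nat_lit 4069697) (nat_lit 76) (nat_lit 4069697) (nat_lit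 73) (nat_lit 1) (nat_lit 71) (nat_lit 1) (nat_lit 72) (nat_lit 1) (nat_lit 387) (nat_lit 408) (nat_lit 225)) (XT.lf (nat_lit 0) (nat_lit 1482342486) (nat_lit 0) (nat_lit 1493785625) (nat_lit 152) (nat_lit 1482342486) (nat_lit 71) (nat_lit 3) (nat_lit 71) (nat_lit 1) (nat_lit 73) (nat_lit 1) (nat_lit 388) (nat_lit 408) (nat_lit 224)))) (XT.nd (nat_lit 156) (nat_lit 76) (nat_lit 0) (XT.nd (nat_lit 78) (nat_lit 152) (nat_lit 0) (XT.lf (nat_lit 76) (nat_lit 1454918179) (nat_lit 0) (nat_lit 1465816407) (nat_lit 76) (nat_lit 1465816407) (nat_lit 71) (nat_lit 3) (nat_lit 70) (nat_lit 1) (nat_lit 71) (nat_lit 1) (nat_lit 389) (nat_lit 408) (nat_lit 223)) (XT.lf (nat_lit 152) (nat_lit 4310213348) (nat_lit 0) (nat_lit 3348149) (nat_lit 76) (nat_lit 3348149) (nat_lit 70) (nat_lit 1) (nat_lit 68) (nat_lit 1) (nat_lit 69) (nat_lit 1) (nat_lit 390) (nat_lit 408) (nat_lit 222))) (XT.nd (nat_lit 78) (nat_lit 76)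 (nat_lit 0) (XT.lf (nat_lit 0) (nat_lit 1412241283) (nat_lit 0) (nat_lit 1421655582) (nat_lit 152) (nat_lit 1412241283) (nat_lit 68) (nat_lit 3) (nat_lit 68) (nat_lit 1) (nat_lit 70) (nat_lit 1) (nat_lit 391) (nat_lit 408) (nat_lit 221)) (XT.lf (nat_lit 76) (nat_lit 1386570940) (nat_lit 0) (nat_lit 1395536939) (nat_lit 76) (nat_lit 1395536939) (nat_lit 68) (nat_lit 3) (nat_lit 67) (nat_lit 1) (nat_lit 68) (nat_lit 1) (nat_lit 392) (nat_lit 408) (nat_lit 220)))))) (XT.nd (nat_lit 468) (nat_lit 608) (nat_lit 0) (XT.nd (nat_lit 234) (nat_lit 228) (nat_lit 0) (XT.nd (nat_lit 78) (nat_lit 76) (nat_lit 0) (XT.lf (nat_lit 152) (nat_lit 4105812784) (nat_lit 0) (nat_lit 2754531) (nat_lit 76) (nat_lit 2754531) (nat_lit 67) (nat_lit 1) (nat_lit 65) (nat_lit 1) (nat_lit 66) (nat_lit 1) (nat_lit 393) (nat_lit 408) (nat_lit 219)) (XT.nd (nat_lit 78) (nat_lit 76) (nat_lit 0) (XT.lf (nat_lit 0) (nat_lit 1345391970)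 (nat_lit 0) (nat_lit 1353137138) (nat_lit 152) (nat_lit 1345391970) (nat_lit 65) (nat_lit 3) (nat_lit 65) (nat_lit 1) (nat_lit 67) (nat_lit 1) (nat_lit 394) (nat_lit 408) (nat_lit 218)) (XT.lf (nat_lit 76) (nat_lit 1321312632) (nat_lit 0) (nat_lit 1328688982) (nat_lit 76) (nat_lit 1328688982) (nat_lit 65) (nat_lit 3) (nat_lit 64) (nat_lit 1) (nat_lit 65) (nat_lit 1) (nat_lit 395) (nat_lit 408) (nat_lit 217)))) (XT.nd (nat_lit 78) (nat_lit 76) (nat_lit 0) (XT.lf (nat_lit 152) (nat_lit 3910995286) (nat_lit 0) (nat_lit 2266159) (nat_lit 76) (nat_lit 2266159) (nat_lit 64) (nat_lit 1) (nat_lit 62) (nat_lit 1) (nat_lit 63) (nat_lit 1) (nat_lit 396) (nat_lit 408) (nat_lit 216)) (XT.nd (nat_lit 78) (nat_lit 76) (nat_lit 0) (XT.lf (nat_lit 0) (nat_lit 1281654992) (nat_lit 0) (nat_lit 1288026960) (nat_lit 152) (nat_lit 1281654992) (nat_lit 62) (nat_lit 3) (nat_lit 62) (nat_lit 1) (nat_lit 64) (nat_lit 1)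 (nat_lit 397) (nat_lit 408) (nat_lit 215)) (XT.lf (nat_lit 76) (nat_lit 1259025543) (nat_lit 0) (nat_lit 1265094084) (nat_lit 76) (nat_lit 1265094084) (nat_lit 62) (nat_lit 3) (nat_lit 61) (nat_lit 1) (nat_lit 62) (nat_lit 1) (nat_lit 398) (nat_lit 408) (nat_lit 214))))) (XT.nd (nat_lit 234) (nat_lit 380) (nat_lit 0) (XT.nd (nat_lit 78) (nat_lit 76) (nat_lit 0) (XT.lf (nat_lit 152) (nat_lit 3725331166) (nat_lit 0) (nat_lit 1864375) (nat_lit 76) (nat_lit 1864375) (nat_lit 61) (nat_lit 1) (nat_lit 59) (nat_lit 1) (nat_lit 60) (nat_lit 1) (nat_lit 399) (nat_lit 408) (nat_lit 213)) (XT.nd (nat_lit 78) (nat_lit 76) (nat_lit 0) (XT.lf (nat_lit 0) (nat_lit 1220894722) (nat_lit 0) (nat_lit 1226136956) (nat_lit 152) (nat_lit 1220894722) (nat_lit 59) (nat_lit 3) (nat_lit 59) (nat_lit 1) (nat_lit 61) (nat_lit 1) (nat_lit 400) (nat_lit 408) (nat_lit 212)) (XT.lf (nat_lit 76) (nat_lit 1199592354) (nat_lit 0)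 (nat_lit 1204584958) (nat_lit 76) (nat_lit 1204584958) (nat_lit 59) (nat_lit 3) (nat_lit 58) (nat_lit 1) (nat_lit 59) (nat_lit 1) (nat_lit 401) (nat_lit 408) (nat_lit 211)))) (XT.nd (nat_lit 156) (nat_lit 228) (nat_lit 0) (XT.nd (nat_lit 78) (nat_lit 0) (nat_lit 0) (XT.lf (nat_lit 152) (nat_lit 3548406470) (nat_lit 0) (nat_lit 1533826) (nat_lit 76) (nat_lit 1533826) (nat_lit 58) (nat_lit 1) (nat_lit 56) (nat_lit 1) (nat_lit 57) (nat_lit 1) (nat_lit 402) (nat_lit 408) (nat_lit 210)) (XT.lf (nat_lit 0) (nat_lit 1162979765) (nat_lit 0) (nat_lit 1167292564) (nat_lit 152) (nat_lit 1162979765) (nat_lit 56) (nat_lit 3) (nat_lit 56) (nat_lit 1) (nat_lit 58) (nat_lit 1) (nat_lit 403) (nat_lit 408) (nat_lit 209))) (XT.nd (nat_lit 78) (nat_lit 152) (nat_lit 0) (XT.lf (nat_lit 76) (nat_lit 1142897050) (nat_lit 0) (nat_lit 1147004477) (nat_lit 76) (nat_lit 1147004477) (nat_lit 56) (nat_lit 3) (nat_lit 55) (nat_lit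 1) (nat_lit 56) (nat_lit 1) (nat_lit 404) (nat_lit 408) (nat_lit 208)) (XT.lf (nat_lit 152) (nat_lit 3379823070) (nat_lit 0) (nat_lit 1261882) (nat_lit 76) (nat_lit 1261882) (nat_lit 55) (nat_lit 1) (nat_lit 53) (nat_lit 1) (nat_lit 54) (nat_lit 1) (nat_lit 405) (nat_lit 408) (nat_lit 207))))))))
noncomputable def ec296 : XT := (XT.nd (nat_lit 1950) (nat_lit 988) (nat_lit 0) (XT.nd (nat_lit 936) (nat_lit 912) (nat_lit 0) (XT.nd (nat_lit 468) (nat_lit 456) (nat_lit 0) (XT.nd (nat_lit 234) (nat_lit 228) (nat_lit 0) (XT.nd (nat_lit 78) (nat_lit 228) (nat_lit 0) (XT.lf (nat_lit 0) (nat_lit 1107783145) (nat_lit 0) (nat_lit 1111331296) (nat_lit 152) (nat_lit 1107783145) (nat_lit 53) (nat_lit 3) (nat_lit 53) (nat_lit 1) (nat_lit 55) (nat_lit 1) (nat_lit 406) (nat_lit 408) (nat_lit 206)) (XT.nd (nat_lit 78) (nat_lit 152) (nat_lit 0) (XT.lf (nat_lit 76) (nat_lit 1088825614) (nat_lit 0) (nat_lit 1092204805)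 (nat_lit 76) (nat_lit 1092204805) (nat_lit 53) (nat_lit 3) (nat_lit 52) (nat_lit 1) (nat_lit 53) (nat_lit 1) (nat_lit 407) (nat_lit 408) (nat_lit 205)) (XT.lf (nat_lit 152) (nat_lit 3219198600) (nat_lit 0) (nat_lit 1038153) (nat_lit 76) (nat_lit 1038153) (nat_lit 52) (nat_lit 1) (nat_lit 50) (nat_lit 1) (nat_lit 51) (nat_lit 1) (nat_lit 408) (nat_lit 408) (nat_lit 204)))) (XT.nd (nat_lit 78) (nat_lit 228) (nat_lit 0) (XT.lf (nat_lit 0) (nat_lit 1055182426) (nat_lit 0) (nat_lit 1058101498) (nat_lit 152) (nat_lit 1055182426) (nat_lit 50) (nat_lit 3) (nat_lit 50) (nat_lit 1) (nat_lit 52) (nat_lit 1) (nat_lit 409) (nat_lit 408) (nat_lit 203)) (XT.nd (nat_lit 78) (nat_lit 152) (nat_lit 0) (XT.lf (nat_lit 76) (nat_lit 1037266558) (nat_lit 0) (nat_lit 1040046627) (nat_lit 76) (nat_lit 1040046627) (nat_lit 50) (nat_lit 3) (nat_lit 49) (nat_lit 1) (nat_lit 50) (nat_lit 1) (nat_lit 410) (nat_lit 408) (nat_lit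 202)) (XT.lf (nat_lit 152) (nat_lit 3066166270) (nat_lit 0) (nat_lit 854091) (nat_lit 76) (nat_lit 854091) (nat_lit 49) (nat_lit 1) (nat_lit 47) (nat_lit 1) (nat_lit 48) (nat_lit 1) (nat_lit 411) (nat_lit 408) (nat_lit 201))))) (XT.nd (nat_lit 234) (nat_lit 228) (nat_lit 0) (XT.nd (nat_lit 78) (nat_lit 228) (nat_lit 0) (XT.lf (nat_lit 0) (nat_lit 1005059755) (nat_lit 0) (nat_lit 1007461283) (nat_lit 152) (nat_lit 1005059755) (nat_lit 47) (nat_lit 3) (nat_lit 47) (nat_lit 1) (nat_lit 49) (nat_lit 1) (nat_lit 412) (nat_lit 408) (nat_lit 200)) (XT.nd (nat_lit 78) (nat_lit 152) (nat_lit 0) (XT.lf (nat_lit 76) (nat_lit 988111317) (nat_lit 0) (nat_lit 990398487) (nat_lit 76) (nat_lit 990398487) (nat_lit 47) (nat_lit 3) (nat_lit 46) (nat_lit 1) (nat_lit 47) (nat_lit 1) (nat_lit 413) (nat_lit 408) (nat_lit 199)) (XT.lf (nat_lit 152) (nat_lit 2920374593) (nat_lit 0) (nat_lit 702663) (nat_lit 76) (nat_lit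 702663) (nat_lit 46) (nat_lit 1) (nat_lit 44) (nat_lit 1) (nat_lit 45) (nat_lit 1) (nat_lit 414) (nat_lit 408) (nat_lit 198)))) (XT.nd (nat_lit 78) (nat_lit 228) (nat_lit 0) (XT.lf (nat_lit 0) (nat_lit 957301874) (nat_lit 0) (nat_lit 959277617) (nat_lit 152) (nat_lit 957301874) (nat_lit 44) (nat_lit 3) (nat_lit 44) (nat_lit 1) (nat_lit 46) (nat_lit 1) (nat_lit 415) (nat_lit 408) (nat_lit 197)) (XT.nd (nat_lit 78) (nat_lit 152) (nat_lit 0) (XT.lf (nat_lit 76) (nat_lit 941254534) (nat_lit 0) (nat_lit 943136194) (nat_lit 76) (nat_lit 943136194) (nat_lit 44) (nat_lit 3) (nat_lit 43) (nat_lit 1) (nat_lit 44) (nat_lit 1) (nat_lit 416) (nat_lit 408) (nat_lit 196)) (XT.lf (nat_lit 152) (nat_lit 2781487037) (nat_lit 0) (nat_lit 578082) (nat_lit 76) (nat_lit 578082) (nat_lit 43) (nat_lit 1) (nat_lit 41) (nat_lit 1) (nat_lit 42) (nat_lit 1) (nat_lit 417) (nat_lit 408) (nat_lit 195)))))) (XT.nd (nat_lit 468)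 (nat_lit 456) (nat_lit 0) (XT.nd (nat_lit 234) (nat_lit 228) (nat_lit 0) (XT.nd (nat_lit 78) (nat_lit 228) (nat_lit 0) (XT.lf (nat_lit 0) (nat_lit 911800074) (nat_lit 0) (nat_lit 913425523) (nat_lit 152) (nat_lit 911800074) (nat_lit 41) (nat_lit 3) (nat_lit 41) (nat_lit 1) (nat_lit 43) (nat_lit 1) (nat_lit 418) (nat_lit 408) (nat_lit 194)) (XT.nd (nat_lit 78) (nat_lit 152) (nat_lit 0) (XT.lf (nat_lit 76) (nat_lit 896594252) (nat_lit 0) (nat_lit 898142298) (nat_lit 76) (nat_lit 898142298) (nat_lit 41) (nat_lit 3) (nat_lit 40) (nat_lit 1) (nat_lit 41) (nat_lit 1) (nat_lit 419) (nat_lit 408) (nat_lit 193)) (XT.lf (nat_lit 152) (nat_lit 2649181634) (nat_lit 0) (nat_lit 475590) (nat_lit 76) (nat_lit 475590) (nat_lit 40) (nat_lit 1) (nat_lit 38) (nat_lit 1) (nat_lit 39) (nat_lit 1) (nat_lit 420) (nat_lit 408) (nat_lit 192)))) (XT.nd (nat_lit 78) (nat_lit 228) (nat_lit 0) (XT.lf (nat_lit 0) (nat_lit 868450133)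 (nat_lit 0) (nat_lit 869787394) (nat_lit 152) (nat_lit 868450133) (nat_lit 38) (nat_lit 3) (nat_lit 38) (nat_lit 1) (nat_lit 40) (nat_lit 1) (nat_lit 421) (nat_lit 408) (nat_lit 191)) (XT.nd (nat_lit 78) (nat_lit 152) (nat_lit 0) (XT.lf (nat_lit 76) (nat_lit 854032040) (nat_lit 0) (nat_lit 855305621) (nat_lit 76) (nat_lit 855305621) (nat_lit 38) (nat_lit 3) (nat_lit 37) (nat_lit 1) (nat_lit 38) (nat_lit 1) (nat_lit 422) (nat_lit 408) (nat_lit 190)) (XT.lf (nat_lit 152) (nat_lit 2523150538) (nat_lit 0) (nat_lit 391269) (nat_lit 76) (nat_lit 391269) (nat_lit 37) (nat_lit 1) (nat_lit 35) (nat_lit 1) (nat_lit 36) (nat_lit 1) (nat_lit 423) (nat_lit 408) (nat_lit 189))))) (XT.nd (nat_lit 234) (nat_lit 228) (nat_lit 0) (XT.nd (nat_lit 78) (nat_lit 228) (nat_lit 0) (XT.lf (nat_lit 0) (nat_lit 827152222) (nat_lit 0) (nat_lit 828252389) (nat_lit 152) (nat_lit 827152222) (nat_lit 35) (nat_lit 3) (nat_lit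 35) (nat_lit 1) (nat_lit 37) (nat_lit 1) (nat_lit 424) (nat_lit 408) (nat_lit 188)) (XT.nd (nat_lit 78) (nat_lit 152) (nat_lit 0) (XT.lf (nat_lit 76) (nat_lit 813473064) (nat_lit 0) (nat_lit 814520842) (nat_lit 76) (nat_lit 814520842) (nat_lit 35) (nat_lit 3) (nat_lit 34) (nat_lit 1) (nat_lit 35) (nat_lit 1) (nat_lit 425) (nat_lit 408) (nat_lit 187)) (XT.lf (nat_lit 152) (nat_lit 2403099575) (nat_lit 0) (nat_lit 321898) (nat_lit 76) (nat_lit 321898) (nat_lit 34) (nat_lit 1) (nat_lit 32) (nat_lit 1) (nat_lit 33) (nat_lit 1) (nat_lit 426) (nat_lit 408) (nat_lit 186)))) (XT.nd (nat_lit 156) (nat_lit 152) (nat_lit 0) (XT.nd (nat_lit 78) (nat_lit 76) (nat_lit 0) (XT.lf (nat_lit 0) (nat_lit 787810797) (nat_lit 0) (nat_lit 788715908) (nat_lit 152) (nat_lit 787810797) (nat_lit 32) (nat_lit 3) (nat_lit 32) (nat_lit 1) (nat_lit 34) (nat_lit 1) (nat_lit 427) (nat_lit 408) (nat_lit 185)) (XT.lf (nat_lit 76)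 (nat_lit 774826104) (nat_lit 0) (nat_lit 775688114) (nat_lit 76) (nat_lit 775688114) (nat_lit 32) (nat_lit 3) (nat_lit 31) (nat_lit 1) (nat_lit 32) (nat_lit 1) (nat_lit 428) (nat_lit 408) (nat_lit 184))) (XT.nd (nat_lit 78) (nat_lit 0) (nat_lit 0) (XT.lf (nat_lit 152) (nat_lit 2288747760) (nat_lit 0) (nat_lit 264826) (nat_lit 76) (nat_lit 264826) (nat_lit 31) (nat_lit 1) (nat_lit 29) (nat_lit 1) (nat_lit 30) (nat_lit 1) (nat_lit 429) (nat_lit 408) (nat_lit 183)) (XT.lf (nat_lit 0) (nat_lit 750334480) (nat_lit 0) (nat_lit 751079117) (nat_lit 152) (nat_lit 750334480) (nat_lit 29) (nat_lit 3) (nat_lit 29) (nat_lit 1) (nat_lit 31) (nat_lit 1) (nat_lit 430) (nat_lit 408) (nat_lit 182))))))) (XT.nd (nat_lit 936) (nat_lit 76) (nat_lit 0) (XT.nd (nat_lit 468) (nat_lit 456) (nat_lit 0) (XT.nd (nat_lit 234) (nat_lit 228) (nat_lit 0) (XT.nd (nat_lit 78) (nat_lit 152) (nat_lit 0) (XT.lf (nat_lit 76) (nat_lit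 738003544) (nat_lit 0) (nat_lit 738712722) (nat_lit 76) (nat_lit 738712722) (nat_lit 29) (nat_lit 3) (nat_lit 28) (nat_lit 1) (nat_lit 29) (nat_lit 1) (nat_lit 431) (nat_lit 408) (nat_lit 181)) (XT.nd (nat_lit 78) (nat_lit 0) (nat_lit 0) (XT.lf (nat_lit 152) (nat_lit 2179826821) (nat_lit 0) (nat_lit 217873) (nat_lit 76) (nat_lit 217873) (nat_lit 28) (nat_lit 1) (nat_lit 26) (nat_lit 1) (nat_lit 27) (nat_lit 1) (nat_lit 432) (nat_lit 408) (nat_lit 180)) (XT.lf (nat_lit 0) (nat_lit 714635927) (nat_lit 0) (nat_lit 715248541) (nat_lit 152) (nat_lit 714635927) (nat_lit 26) (nat_lit 3) (nat_lit 26) (nat_lit 1) (nat_lit 28) (nat_lit 1) (nat_lit 433) (nat_lit 408) (nat_lit 179)))) (XT.nd (nat_lit 78) (nat_lit 152) (nat_lit 0) (XT.lf (nat_lit 76) (nat_lit 702921334) (nat_lit 0) (nat_lit 703504776) (nat_lit 76) (nat_lit 703504776) (nat_lit 26) (nat_lit 3) (nat_lit 25) (nat_lit 1) (nat_lit 26) (nat_lit 1)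 (nat_lit 434) (nat_lit 408) (nat_lit 178)) (XT.nd (nat_lit 78) (nat_lit 0) (nat_lit 0) (XT.lf (nat_lit 152) (nat_lit 2076080705) (nat_lit 0) (nat_lit 179244) (nat_lit 76) (nat_lit 179244) (nat_lit 25) (nat_lit 1) (nat_lit 23) (nat_lit 1) (nat_lit 24) (nat_lit 1) (nat_lit 435) (nat_lit 408) (nat_lit 177)) (XT.lf (nat_lit 0) (nat_lit 680631692) (nat_lit 0) (nat_lit 681135691) (nat_lit 152) (nat_lit 680631692) (nat_lit 23) (nat_lit 3) (nat_lit 23) (nat_lit 1) (nat_lit 25) (nat_lit 1) (nat_lit 436) (nat_lit 408) (nat_lit 176))))) (XT.nd (nat_lit 234) (nat_lit 228) (nat_lit 0) (XT.nd (nat_lit 78) (nat_lit 152) (nat_lit 0) (XT.lf (nat_lit 76) (nat_lit 669498923) (nat_lit 0) (nat_lit 669978922) (nat_lit 76) (nat_lit 669978922) (nat_lit 23) (nat_lit 3) (nat_lit 22) (nat_lit 1) (nat_lit 23) (nat_lit 1) (nat_lit 437) (nat_lit 408) (nat_lit 175)) (XT.nd (nat_lit 78) (nat_lit 0) (nat_lit 0) (XT.lf (nat_lit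 152) (nat_lit 1977265101) (nat_lit 0) (nat_lit 147465) (nat_lit 76) (nat_lit 147465) (nat_lit 22) (nat_lit 1) (nat_lit 20) (nat_lit 1) (nat_lit 21) (nat_lit 1) (nat_lit 438) (nat_lit 408) (nat_lit 174)) (XT.lf (nat_lit 0) (nat_lit 648242087) (nat_lit 0) (nat_lit 648656729) (nat_lit 152) (nat_lit 648242087) (nat_lit 20) (nat_lit 3) (nat_lit 20) (nat_lit 1) (nat_lit 22) (nat_lit 1) (nat_lit 439) (nat_lit 408) (nat_lit 173)))) (XT.nd (nat_lit 78) (nat_lit 152) (nat_lit 0) (XT.lf (nat_lit 76) (nat_lit 637659184) (nat_lit 0) (nat_lit 638054081) (nat_lit 76) (nat_lit 638054081) (nat_lit 20) (nat_lit 3) (nat_lit 19) (nat_lit 1) (nat_lit 20) (nat_lit 1) (nat_lit 440) (nat_lit 408) (nat_lit 172)) (XT.nd (nat_lit 78) (nat_lit 0) (nat_lit 0) (XT.lf (nat_lit 152) (nat_lit 1883146955) (nat_lit 0) (nat_lit 121320) (nat_lit 76) (nat_lit 121320) (nat_lit 19) (nat_lit 1) (nat_lit 17) (nat_lit 1) (nat_lit 18) (nat_lit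 1) (nat_lit 441) (nat_lit 408) (nat_lit 171)) (XT.lf (nat_lit 0) (nat_lit 617391046) (nat_lit 0) (nat_lit 617732173) (nat_lit 152) (nat_lit 617391046) (nat_lit 17) (nat_lit 3) (nat_lit 17) (nat_lit 1) (nat_lit 19) (nat_lit 1) (nat_lit 442) (nat_lit 408) (nat_lit 170)))))) (XT.nd (nat_lit 34710) (nat_lit 0) (nat_lit 20596) (XT.nd (nat_lit 34476) (nat_lit 0) (nat_lit 21052) (XT.nd (nat_lit 34320) (nat_lit 0) (nat_lit 20976) (XT.lf (nat_lit 76) (nat_lit 607328325) (nat_lit 0) (nat_lit 607653208) (nat_lit 76) (nat_lit 607653208) (nat_lit 17) (nat_lit 3) (nat_lit 16) (nat_lit 1) (nat_lit 17) (nat_lit 1) (nat_lit 443) (nat_lit 408) (nat_lit 169)) (XT.nd (nat_lit 78) (nat_lit 0) (nat_lit 0) (XT.lf (nat_lit 836) (nat_lit 15570813924) (nat_lit 0) (nat_lit 27645944332) (nat_lit 836) (nat_lit 15570813924) (nat_lit 303) (nat_lit 1) (nat_lit 292) (nat_lit 0) (nat_lit 303) (nat_lit 0) (nat_lit 202) (nat_lit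 409) (nat_lit 409)) (XT.lf (nat_lit 836) (nat_lit 60354418710) (nat_lit 76) (nat_lit 27200042004) (nat_lit 0) (nat_lit 27200042004) (nat_lit 303) (nat_lit 1) (nat_lit 293) (nat_lit 1) (nat_lit 292) (nat_lit 0) (nat_lit 203) (nat_lit 409) (nat_lit 408)))) (XT.nd (nat_lit 78) (nat_lit 0) (nat_lit 0) (XT.lf (nat_lit 836) (nat_lit 28764007201) (nat_lit 0) (nat_lit 54493047860) (nat_lit 760) (nat_lit 28764007201) (nat_lit 304) (nat_lit 1) (nat_lit 293) (nat_lit 1) (nat_lit 303) (nat_lit 1) (nat_lit 204) (nat_lit 409) (nat_lit 407)) (XT.nd (nat_lit 78) (nat_lit 0) (nat_lit 76) (XT.lf (nat_lit 836) (nat_lit 53957280650) (nat_lit 76) (nat_lit 27709325824) (nat_lit 0) (nat_lit 27709325824) (nat_lit 304) (nat_lit 1) (nat_lit 294) (nat_lit 1) (nat_lit 293) (nat_lit 1) (nat_lit 205) (nat_lit 409) (nat_lit 406)) (XT.lf (nat_lit 836) (nat_lit 24836018127) (nat_lit 0) (nat_lit 57142603433) (nat_lit 760) (nat_lit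 24836018127) (nat_lit 305) (nat_lit 1) (nat_lit 294) (nat_lit 1) (nat_lit 304) (nat_lit 1) (nat_lit 206) (nat_lit 409) (nat_lit 405))))) (XT.nd (nat_lit 234) (nat_lit 532) (nat_lit 0) (XT.nd (nat_lit 78) (nat_lit 0) (nat_lit 76) (XT.lf (nat_lit 836) (nat_lit 44669196220) (nat_lit 76) (nat_lit 29831114420) (nat_lit 0) (nat_lit 29831114420) (nat_lit 305) (nat_lit 1) (nat_lit 295) (nat_lit 1) (nat_lit 294) (nat_lit 1) (nat_lit 207) (nat_lit 409) (nat_lit 404)) (XT.nd (nat_lit 78) (nat_lit 0) (nat_lit 0) (XT.lf (nat_lit 836) (nat_lit 19586152379) (nat_lit 0) (nat_lit 62759283425) (nat_lit 760) (nat_lit 19586152379) (nat_lit 306) (nat_lit 1) (nat_lit 295) (nat_lit 1) (nat_lit 305) (nat_lit 1) (nat_lit 208) (nat_lit 409) (nat_lit 403)) (XT.lf (nat_lit 836) (nat_lit 32924923527) (nat_lit 76) (nat_lit 33336451755) (nat_lit 0) (nat_lit 33336451755) (nat_lit 306) (nat_lit 1) (nat_lit 296) (nat_lit 1) (nat_lit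 295) (nat_lit 1) (nat_lit 209) (nat_lit 409) (nat_lit 402)))) (XT.nd (nat_lit 156) (nat_lit 684) (nat_lit 0) (XT.nd (nat_lit 78) (nat_lit 0) (nat_lit 0) (XT.lf (nat_lit 836) (nat_lit 13217641897) (nat_lit 0) (nat_lit 70914211065) (nat_lit 760) (nat_lit 13217641897) (nat_lit 307) (nat_lit 1) (nat_lit 296) (nat_lit 1) (nat_lit 306) (nat_lit 1) (nat_lit 210) (nat_lit 409) (nat_lit 401)) (XT.lf (nat_lit 836) (nat_lit 19110896929) (nat_lit 76) (nat_lit 38021431795) (nat_lit 0) (nat_lit 38021431795) (nat_lit 307) (nat_lit 1) (nat_lit 297) (nat_lit 1) (nat_lit 296) (nat_lit 1) (nat_lit 211) (nat_lit 409) (nat_lit 400))) (XT.nd (nat_lit 78) (nat_lit 760) (nat_lit 0) (XT.lf (nat_lit 76) (nat_lit 5910998498) (nat_lit 0) (nat_lit 81225669226) (nat_lit 760) (nat_lit 5910998498) (nat_lit 298) (nat_lit 1) (nat_lit 297) (nat_lit 1) (nat_lit 307) (nat_lit 1) (nat_lit 212) (nat_lit 409) (nat_lit 399)) (XT.lf (nat_lit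 836) (nat_lit 3570096099) (nat_lit 0) (nat_lit 43704690362) (nat_lit 760) (nat_lit 43704690362) (nat_lit 298) (nat_lit 1) (nat_lit 287) (nat_lit 1) (nat_lit 297) (nat_lit 1) (nat_lit 213) (nat_lit 409) (nat_lit 398))))))))
noncomputable def ec297 : XT := (XT.nd (nat_lit 1950) (nat_lit 2584) (nat_lit 0) (XT.nd (nat_lit 936) (nat_lit 2052) (nat_lit 0) (XT.nd (nat_lit 468) (nat_lit 1292) (nat_lit 0) (XT.nd (nat_lit 234) (nat_lit 380) (nat_lit 0) (XT.nd (nat_lit 78) (nat_lit 380) (nat_lit 0) (XT.lf (nat_lit 532) (nat_lit 84722876501) (nat_lit 0) (nat_lit 2138632108) (nat_lit 456) (nat_lit 2138632108) (nat_lit 287) (nat_lit 1) (nat_lit 280) (nat_lit 1) (nat_lit 286) (nat_lit 1) (nat_lit 214) (nat_lit 409) (nat_lit 397)) (XT.nd (nat_lit 78) (nat_lit 380) (nat_lit 0) (XT.lf (nat_lit 76) (nat_lit 37040694151) (nat_lit 0) (nat_lit 12964878083) (nat_lit 532) (nat_lit 37040694151) (nat_lit 281) (nat_lit 1)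 (nat_lit 280) (nat_lit 1) (nat_lit 287) (nat_lit 1) (nat_lit 215) (nat_lit 409) (nat_lit 396)) (XT.lf (nat_lit 456) (nat_lit 63737526700) (nat_lit 0) (nat_lit 10718974662) (nat_lit 380) (nat_lit 10718974662) (nat_lit 281) (nat_lit 1) (nat_lit 275) (nat_lit 1) (nat_lit 280) (nat_lit 1) (nat_lit 216) (nat_lit 409) (nat_lit 395)))) (XT.nd (nat_lit 78) (nat_lit 380) (nat_lit 0) (XT.lf (nat_lit 76) (nat_lit 26420676224) (nat_lit 0) (nat_lit 30502662399) (nat_lit 456) (nat_lit 26420676224) (nat_lit 276) (nat_lit 1) (nat_lit 275) (nat_lit 1) (nat_lit 281) (nat_lit 1) (nat_lit 217) (nat_lit 409) (nat_lit 394)) (XT.nd (nat_lit 78) (nat_lit 0) (nat_lit 0) (XT.lf (nat_lit 456) (nat_lit 41972065213) (nat_lit 0) (nat_lit 19802136676) (nat_lit 380) (nat_lit 19802136676) (nat_lit 276) (nat_lit 1) (nat_lit 270) (nat_lit 1) (nat_lit 275) (nat_lit 1) (nat_lit 218) (nat_lit 409) (nat_lit 393)) (XT.lf (nat_lit 76)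 (nat_lit 15466148220) (nat_lit 0) (nat_lit 48927775824) (nat_lit 456) (nat_lit 15466148220) (nat_lit 271) (nat_lit 1) (nat_lit 270) (nat_lit 1) (nat_lit 276) (nat_lit 1) (nat_lit 219) (nat_lit 409) (nat_lit 392))))) (XT.nd (nat_lit 234) (nat_lit 608) (nat_lit 0) (XT.nd (nat_lit 78) (nat_lit 380) (nat_lit 0) (XT.lf (nat_lit 380) (nat_lit 19629073268) (nat_lit 0) (nat_lit 29279440363) (nat_lit 304) (nat_lit 29279440363) (nat_lit 271) (nat_lit 1) (nat_lit 266) (nat_lit 1) (nat_lit 270) (nat_lit 1) (nat_lit 220) (nat_lit 409) (nat_lit 391)) (XT.nd (nat_lit 78) (nat_lit 380) (nat_lit 0) (XT.lf (nat_lit 76) (nat_lit 4271155366) (nat_lit 0) (nat_lit 68037826429) (nat_lit 380) (nat_lit 4271155366) (nat_lit 267) (nat_lit 1) (nat_lit 266) (nat_lit 1) (nat_lit 271) (nat_lit 1) (nat_lit 221) (nat_lit 409) (nat_lit 390)) (XT.lf (nat_lit 76) (nat_lit 35989982434) (nat_lit 0) (nat_lit 3014230939) (nat_lit 380)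 (nat_lit 35989982434) (nat_lit 262) (nat_lit 1) (nat_lit 261) (nat_lit 1) (nat_lit 266) (nat_lit 1) (nat_lit 222) (nat_lit 409) (nat_lit 389)))) (XT.nd (nat_lit 78) (nat_lit 304) (nat_lit 0) (XT.lf (nat_lit 380) (nat_lit 59533106626) (nat_lit 0) (nat_lit 6967772181) (nat_lit 304) (nat_lit 6967772181) (nat_lit 262) (nat_lit 1) (nat_lit 257) (nat_lit 1) (nat_lit 261) (nat_lit 1) (nat_lit 223) (nat_lit 409) (nat_lit 388)) (XT.nd (nat_lit 78) (nat_lit 304) (nat_lit 0) (XT.lf (nat_lit 76) (nat_lit 23351501675) (nat_lit 0) (nat_lit 25266273879) (nat_lit 380) (nat_lit 23351501675) (nat_lit 258) (nat_lit 1) (nat_lit 257) (nat_lit 1) (nat_lit 262) (nat_lit 1) (nat_lit 224) (nat_lit 409) (nat_lit 387)) (XT.lf (nat_lit 380) (nat_lit 34076336828) (nat_lit 0) (nat_lit 18222779826) (nat_lit 304) (nat_lit 18222779826) (nat_lit 258) (nat_lit 1) (nat_lit 253) (nat_lit 1) (nat_lit 257) (nat_lit 1) (nat_lit 225)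 (nat_lit 409) (nat_lit 386)))))) (XT.nd (nat_lit 468) (nat_lit 1216) (nat_lit 0) (XT.nd (nat_lit 234) (nat_lit 228) (nat_lit 0) (XT.nd (nat_lit 78) (nat_lit 608) (nat_lit 0) (XT.lf (nat_lit 76) (nat_lit 10746155833) (nat_lit 0) (nat_lit 47624525602) (nat_lit 380) (nat_lit 10746155833) (nat_lit 254) (nat_lit 1) (nat_lit 253) (nat_lit 1) (nat_lit 258) (nat_lit 1) (nat_lit 226) (nat_lit 409) (nat_lit 385)) (XT.nd (nat_lit 78) (nat_lit 380) (nat_lit 0) (XT.lf (nat_lit 304) (nat_lit 8739388290) (nat_lit 0) (nat_lit 29501359686) (nat_lit 228) (nat_lit 29501359686) (nat_lit 254) (nat_lit 1) (nat_lit 250) (nat_lit 1) (nat_lit 253) (nat_lit 1) (nat_lit 227) (nat_lit 409) (nat_lit 384)) (XT.lf (nat_lit 380) (nat_lit 62928158996) (nat_lit 0) (nat_lit 1746135666) (nat_lit 304) (nat_lit 1746135666) (nat_lit 250) (nat_lit 1) (nat_lit 245) (nat_lit 1) (nat_lit 249) (nat_lit 1) (nat_lit 228) (nat_lit 409) (nat_lit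 383)))) (XT.nd (nat_lit 78) (nat_lit 228) (nat_lit 0) (XT.lf (nat_lit 76) (nat_lit 24624253835) (nat_lit 0) (nat_lit 15857560649) (nat_lit 380) (nat_lit 24624253835) (nat_lit 246) (nat_lit 1) (nat_lit 245) (nat_lit 1) (nat_lit 250) (nat_lit 1) (nat_lit 229) (nat_lit 409) (nat_lit 382)) (XT.nd (nat_lit 78) (nat_lit 0) (nat_lit 0) (XT.lf (nat_lit 304) (nat_lit 35964501205) (nat_lit 0) (nat_lit 13938807193) (nat_lit 228) (nat_lit 13938807193) (nat_lit 246) (nat_lit 1) (nat_lit 242) (nat_lit 1) (nat_lit 245) (nat_lit 1) (nat_lit 230) (nat_lit 409) (nat_lit 381)) (XT.lf (nat_lit 76) (nat_lit 11361742244) (nat_lit 0) (nat_lit 39886791266) (nat_lit 304) (nat_lit 11361742244) (nat_lit 243) (nat_lit 1) (nat_lit 242) (nat_lit 1) (nat_lit 246) (nat_lit 1) (nat_lit 231) (nat_lit 409) (nat_lit 380))))) (XT.nd (nat_lit 234) (nat_lit 684) (nat_lit 0) (XT.nd (nat_lit 78) (nat_lit 304) (nat_lit 0) (XT.lf (nat_lit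 304) (nat_lit 9469657036) (nat_lit 0) (nat_lit 25968401453) (nat_lit 228) (nat_lit 25968401453) (nat_lit 243) (nat_lit 1) (nat_lit 239) (nat_lit 1) (nat_lit 242) (nat_lit 1) (nat_lit 232) (nat_lit 409) (nat_lit 379)) (XT.nd (nat_lit 78) (nat_lit 0) (nat_lit 0) (XT.lf (nat_lit 304) (nat_lit 56992450651) (nat_lit 0) (nat_lit 1627458382) (nat_lit 228) (nat_lit 1627458382) (nat_lit 239) (nat_lit 1) (nat_lit 235) (nat_lit 1) (nat_lit 238) (nat_lit 1) (nat_lit 233) (nat_lit 409) (nat_lit 378)) (XT.lf (nat_lit 76) (nat_lit 21558611920) (nat_lit 0) (nat_lit 15974714960) (nat_lit 304) (nat_lit 21558611920) (nat_lit 236) (nat_lit 1) (nat_lit 235) (nat_lit 1) (nat_lit 239) (nat_lit 1) (nat_lit 234) (nat_lit 409) (nat_lit 377)))) (XT.nd (nat_lit 156) (nat_lit 456) (nat_lit 0) (XT.nd (nat_lit 78) (nat_lit 0) (nat_lit 0) (XT.lf (nat_lit 304) (nat_lit 29645065423) (nat_lit 0) (nat_lit 14167097903) (nat_lit 228)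 (nat_lit 14167097903) (nat_lit 236) (nat_lit 1) (nat_lit 232) (nat_lit 1) (nat_lit 235) (nat_lit 1) (nat_lit 235) (nat_lit 409) (nat_lit 376)) (XT.lf (nat_lit 76) (nat_lit 8164226840) (nat_lit 0) (nat_lit 40567972498) (nat_lit 304) (nat_lit 8164226840) (nat_lit 233) (nat_lit 1) (nat_lit 232) (nat_lit 1) (nat_lit 236) (nat_lit 1) (nat_lit 236) (nat_lit 409) (nat_lit 375))) (XT.nd (nat_lit 78) (nat_lit 304) (nat_lit 0) (XT.lf (nat_lit 228) (nat_lit 2991644169) (nat_lit 0) (nat_lit 26421176167) (nat_lit 152) (nat_lit 26421176167) (nat_lit 233) (nat_lit 1) (nat_lit 230) (nat_lit 1) (nat_lit 232) (nat_lit 1) (nat_lit 237) (nat_lit 409) (nat_lit 374)) (XT.lf (nat_lit 304) (nat_lit 45202740256) (nat_lit 0) (nat_lit 4800858659) (nat_lit 228) (nat_lit 4800858659) (nat_lit 230) (nat_lit 1) (nat_lit 226) (nat_lit 1) (nat_lit 229) (nat_lit 1) (nat_lit 238) (nat_lit 409) (nat_lit 373))))))) (XT.nd (nat_lit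 1014) (nat_lit 1216) (nat_lit 0) (XT.nd (nat_lit 468) (nat_lit 836) (nat_lit 0) (XT.nd (nat_lit 234) (nat_lit 380) (nat_lit 0) (XT.nd (nat_lit 78) (nat_lit 152) (nat_lit 0) (XT.lf (nat_lit 76) (nat_lit 15788244187) (nat_lit 0) (nat_lit 22209944673) (nat_lit 304) (nat_lit 15788244187) (nat_lit 227) (nat_lit 1) (nat_lit 226) (nat_lit 1) (nat_lit 230) (nat_lit 1) (nat_lit 239) (nat_lit 409) (nat_lit 372)) (XT.nd (nat_lit 78) (nat_lit 0) (nat_lit 0) (XT.lf (nat_lit 228) (nat_lit 18240880718) (nat_lit 0) (nat_lit 17279473416) (nat_lit 152) (nat_lit 17279473416) (nat_lit 227) (nat_lit 1) (nat_lit 224) (nat_lit 1) (nat_lit 226) (nat_lit 1) (nat_lit 240) (nat_lit 409) (nat_lit 371)) (XT.lf (nat_lit 76) (nat_lit 2620635582) (nat_lit 0) (nat_lit 46604692539) (nat_lit 228) (nat_lit 2620635582) (nat_lit 225) (nat_lit 1) (nat_lit 224) (nat_lit 1) (nat_lit 227) (nat_lit 1) (nat_lit 241) (nat_lit 409) (nat_lit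 370)))) (XT.nd (nat_lit 78) (nat_lit 152) (nat_lit 0) (XT.lf (nat_lit 76) (nat_lit 21628565243) (nat_lit 0) (nat_lit 7638436735) (nat_lit 228) (nat_lit 21628565243) (nat_lit 222) (nat_lit 1) (nat_lit 221) (nat_lit 1) (nat_lit 224) (nat_lit 1) (nat_lit 242) (nat_lit 409) (nat_lit 369)) (XT.nd (nat_lit 78) (nat_lit 0) (nat_lit 0) (XT.lf (nat_lit 228) (nat_lit 30035053572) (nat_lit 0) (nat_lit 9970824016) (nat_lit 152) (nat_lit 9970824016) (nat_lit 222) (nat_lit 1) (nat_lit 219) (nat_lit 1) (nat_lit 221) (nat_lit 1) (nat_lit 243) (nat_lit 409) (nat_lit 368)) (XT.lf (nat_lit 76) (nat_lit 8475110720) (nat_lit 0) (nat_lit 32127923483) (nat_lit 228) (nat_lit 8475110720) (nat_lit 220) (nat_lit 1) (nat_lit 219) (nat_lit 1) (nat_lit 222) (nat_lit 1) (nat_lit 244) (nat_lit 409) (nat_lit 367))))) (XT.nd (nat_lit 234) (nat_lit 456) (nat_lit 0) (XT.nd (nat_lit 78) (nat_lit 228) (nat_lit 0) (XT.lf (nat_lit 228)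 (nat_lit 3970284240) (nat_lit 0) (nat_lit 22113708297) (nat_lit 152) (nat_lit 22113708297) (nat_lit 220) (nat_lit 1) (nat_lit 217) (nat_lit 1) (nat_lit 219) (nat_lit 1) (nat_lit 245) (nat_lit 409) (nat_lit 366)) (XT.nd (nat_lit 78) (nat_lit 0) (nat_lit 0) (XT.lf (nat_lit 228) (nat_lit 39022518489) (nat_lit 0) (nat_lit 4160124901) (nat_lit 152) (nat_lit 4160124901) (nat_lit 217) (nat_lit 1) (nat_lit 214) (nat_lit 1) (nat_lit 216) (nat_lit 1) (nat_lit 246) (nat_lit 409) (nat_lit 365)) (XT.lf (nat_lit 76) (nat_lit 12990692031) (nat_lit 0) (nat_lit 20513748440) (nat_lit 228) (nat_lit 12990692031) (nat_lit 215) (nat_lit 1) (nat_lit 214) (nat_lit 1) (nat_lit 217) (nat_lit 1) (nat_lit 247) (nat_lit 409) (nat_lit 364)))) (XT.nd (nat_lit 156) (nat_lit 304) (nat_lit 0) (XT.nd (nat_lit 78) (nat_lit 0) (nat_lit 0) (XT.lf (nat_lit 228) (nat_lit 13230389129) (nat_lit 0) (nat_lit 16220857814) (nat_lit 152) (nat_lit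 16220857814) (nat_lit 215) (nat_lit 1) (nat_lit 212) (nat_lit 1) (nat_lit 214) (nat_lit 1) (nat_lit 248) (nat_lit 409) (nat_lit 363)) (XT.lf (nat_lit 76) (nat_lit 434846402) (nat_lit 0) (nat_lit 44008247833) (nat_lit 228) (nat_lit 434846402) (nat_lit 213) (nat_lit 1) (nat_lit 212) (nat_lit 1) (nat_lit 215) (nat_lit 1) (nat_lit 249) (nat_lit 409) (nat_lit 362))) (XT.nd (nat_lit 78) (nat_lit 152) (nat_lit 0) (XT.lf (nat_lit 76) (nat_lit 16419091119) (nat_lit 0) (nat_lit 11240546162) (nat_lit 152) (nat_lit 16419091119) (nat_lit 211) (nat_lit 1) (nat_lit 210) (nat_lit 1) (nat_lit 212) (nat_lit 1) (nat_lit 250) (nat_lit 409) (nat_lit 361)) (XT.lf (nat_lit 228) (nat_lit 20374222887) (nat_lit 0) (nat_lit 11466706793) (nat_lit 152) (nat_lit 11466706793) (nat_lit 211) (nat_lit 1) (nat_lit 208) (nat_lit 1) (nat_lit 210) (nat_lit 1) (nat_lit 251) (nat_lit 409) (nat_lit 360)))))) (XT.nd (nat_lit 468) (nat_lit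 608) (nat_lit 0) (XT.nd (nat_lit 234) (nat_lit 304) (nat_lit 0) (XT.nd (nat_lit 78) (nat_lit 304) (nat_lit 0) (XT.lf (nat_lit 76) (nat_lit 4084890877) (nat_lit 0) (nat_lit 34387576518) (nat_lit 228) (nat_lit 4084890877) (nat_lit 209) (nat_lit 1) (nat_lit 208) (nat_lit 1) (nat_lit 211) (nat_lit 1) (nat_lit 252) (nat_lit 409) (nat_lit 359)) (XT.nd (nat_lit 78) (nat_lit 152) (nat_lit 0) (XT.lf (nat_lit 76) (nat_lit 18966709408) (nat_lit 0) (nat_lit 3879848529) (nat_lit 152) (nat_lit 18966709408) (nat_lit 207) (nat_lit 1) (nat_lit 206) (nat_lit 1) (nat_lit 208) (nat_lit 1) (nat_lit 253) (nat_lit 409) (nat_lit 358)) (XT.lf (nat_lit 228) (nat_lit 25799589313) (nat_lit 0) (nat_lit 7644894652) (nat_lit 152) (nat_lit 7644894652) (nat_lit 207) (nat_lit 1) (nat_lit 204) (nat_lit 1) (nat_lit 206) (nat_lit 1) (nat_lit 254) (nat_lit 409) (nat_lit 357)))) (XT.nd (nat_lit 78) (nat_lit 304) (nat_lit 0) (XT.lf (nat_lit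 76) (nat_lit 6910308564) (nat_lit 0) (nat_lit 26559203459) (nat_lit 228) (nat_lit 6910308564) (nat_lit 205) (nat_lit 1) (nat_lit 204) (nat_lit 1) (nat_lit 207) (nat_lit 1) (nat_lit 255) (nat_lit 409) (nat_lit 356)) (XT.nd (nat_lit 78) (nat_lit 228) (nat_lit 0) (XT.lf (nat_lit 152) (nat_lit 1983697941) (nat_lit 0) (nat_lit 18849977160) (nat_lit 76) (nat_lit 18849977160) (nat_lit 205) (nat_lit 1) (nat_lit 203) (nat_lit 1) (nat_lit 204) (nat_lit 1) (nat_lit 256) (nat_lit 409) (nat_lit 355)) (XT.lf (nat_lit 228) (nat_lit 29832686665) (nat_lit 0) (nat_lit 4585860984) (nat_lit 152) (nat_lit 4585860984) (nat_lit 203) (nat_lit 1) (nat_lit 200) (nat_lit 1) (nat_lit 202) (nat_lit 1) (nat_lit 257) (nat_lit 409) (nat_lit 354))))) (XT.nd (nat_lit 234) (nat_lit 304) (nat_lit 0) (XT.nd (nat_lit 78) (nat_lit 304) (nat_lit 0) (XT.lf (nat_lit 76) (nat_lit 9065755319) (nat_lit 0) (nat_lit 20201235896) (nat_lit 228)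 (nat_lit 9065755319) (nat_lit 201) (nat_lit 1) (nat_lit 200) (nat_lit 1) (nat_lit 203) (nat_lit 1) (nat_lit 258) (nat_lit 409) (nat_lit 353)) (XT.nd (nat_lit 78) (nat_lit 228) (nat_lit 0) (XT.lf (nat_lit 152) (nat_lit 6661707085) (nat_lit 0) (nat_lit 15507922859) (nat_lit 76) (nat_lit 15507922859) (nat_lit 201) (nat_lit 1) (nat_lit 199) (nat_lit 1) (nat_lit 200) (nat_lit 1) (nat_lit 259) (nat_lit 409) (nat_lit 352)) (XT.lf (nat_lit 228) (nat_lit 32740854375) (nat_lit 0) (nat_lit 2150310832) (nat_lit 152) (nat_lit 2150310832) (nat_lit 199) (nat_lit 1) (nat_lit 196) (nat_lit 1) (nat_lit 198) (nat_lit 1) (nat_lit 260) (nat_lit 409) (nat_lit 351)))) (XT.nd (nat_lit 156) (nat_lit 228) (nat_lit 0) (XT.nd (nat_lit 78) (nat_lit 76) (nat_lit 0) (XT.lf (nat_lit 76) (nat_lit 10678064443) (nat_lit 0) (nat_lit 15049048177) (nat_lit 228) (nat_lit 10678064443) (nat_lit 197) (nat_lit 1) (nat_lit 196) (nat_lit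 1) (nat_lit 199) (nat_lit 1) (nat_lit 261) (nat_lit 409) (nat_lit 350)) (XT.lf (nat_lit 152) (nat_lit 10270806600) (nat_lit 0) (nat_lit 12758406515) (nat_lit 76) (nat_lit 12758406515) (nat_lit 197) (nat_lit 1) (nat_lit 195) (nat_lit 1) (nat_lit 196) (nat_lit 1) (nat_lit 262) (nat_lit 409) (nat_lit 349))) (XT.nd (nat_lit 78) (nat_lit 0) (nat_lit 0) (XT.lf (nat_lit 228) (nat_lit 34743057375) (nat_lit 0) (nat_lit 223839045) (nat_lit 152) (nat_lit 223839045) (nat_lit 195) (nat_lit 1) (nat_lit 192) (nat_lit 1) (nat_lit 194) (nat_lit 1) (nat_lit 263) (nat_lit 409) (nat_lit 348)) (XT.lf (nat_lit 76) (nat_lit 11851198716) (nat_lit 0) (nat_lit 10885119094) (nat_lit 228) (nat_lit 11851198716) (nat_lit 193) (nat_lit 1) (nat_lit 192) (nat_lit 1) (nat_lit 195) (nat_lit 1) (nat_lit 264) (nat_lit 409) (nat_lit 347))))))))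
noncomputable def ec298 : XT := (XT.nd (nat_lit 1950) (nat_lit 1824) (nat_lit 0) (XT.nd (nat_lit 936) (nat_lit 988) (nat_lit 0) (XT.nd (nat_lit 468) (nat_lit 456) (nat_lit 0) (XT.nd (nat_lit 234) (nat_lit 228) (nat_lit 0) (XT.nd (nat_lit 78) (nat_lit 152) (nat_lit 0) (XT.lf (nat_lit 152) (nat_lit 13011916765) (nat_lit 0) (nat_lit 10496372614) (nat_lit 76) (nat_lit 10496372614) (nat_lit 193) (nat_lit 1) (nat_lit 191) (nat_lit 1) (nat_lit 192) (nat_lit 1) (nat_lit 265) (nat_lit 409) (nat_lit 346)) (XT.nd (nat_lit 78) (nat_lit 152) (nat_lit 0) (XT.lf (nat_lit 0) (nat_lit 1308598247) (nat_lit 0) (nat_lit 30822208320) (nat_lit 152) (nat_lit 1308598247) (nat_lit 191) (nat_lit 3) (nat_lit 191) (nat_lit 1) (nat_lit 193) (nat_lit 1) (nat_lit 266) (nat_lit 409) (nat_lit 345)) (XT.lf (nat_lit 76) (nat_lit 12670323535) (nat_lit 0) (nat_lit 7530671479) (nat_lit 152) (nat_lit 12670323535) (nat_lit 190) (nat_lit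 1) (nat_lit 189) (nat_lit 1) (nat_lit 191) (nat_lit 1) (nat_lit 267) (nat_lit 409) (nat_lit 344)))) (XT.nd (nat_lit 78) (nat_lit 152) (nat_lit 0) (XT.lf (nat_lit 152) (nat_lit 15049792084) (nat_lit 0) (nat_lit 8635391726) (nat_lit 76) (nat_lit 8635391726) (nat_lit 190) (nat_lit 1) (nat_lit 188) (nat_lit 1) (nat_lit 189) (nat_lit 1) (nat_lit 268) (nat_lit 409) (nat_lit 343)) (XT.nd (nat_lit 78) (nat_lit 152) (nat_lit 0) (XT.lf (nat_lit 0) (nat_lit 2501129954) (nat_lit 0) (nat_lit 26782050001) (nat_lit 152) (nat_lit 2501129954) (nat_lit 188) (nat_lit 3) (nat_lit 188) (nat_lit 1) (nat_lit 190) (nat_lit 1) (nat_lit 269) (nat_lit 409) (nat_lit 342)) (XT.lf (nat_lit 76) (nat_lit 13205157025) (nat_lit 0) (nat_lit 4838794503) (nat_lit 152) (nat_lit 13205157025) (nat_lit 187) (nat_lit 1) (nat_lit 186) (nat_lit 1) (nat_lit 188) (nat_lit 1) (nat_lit 270) (nat_lit 409) (nat_lit 341))))) (XT.nd (nat_lit 234)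 (nat_lit 228) (nat_lit 0) (XT.nd (nat_lit 78) (nat_lit 152) (nat_lit 0) (XT.lf (nat_lit 152) (nat_lit 16519459249) (nat_lit 0) (nat_lit 7104358144) (nat_lit 76) (nat_lit 7104358144) (nat_lit 187) (nat_lit 1) (nat_lit 185) (nat_lit 1) (nat_lit 186) (nat_lit 1) (nat_lit 271) (nat_lit 409) (nat_lit 340)) (XT.nd (nat_lit 78) (nat_lit 152) (nat_lit 0) (XT.lf (nat_lit 0) (nat_lit 3414393362) (nat_lit 0) (nat_lit 23390366375) (nat_lit 152) (nat_lit 3414393362) (nat_lit 185) (nat_lit 3) (nat_lit 185) (nat_lit 1) (nat_lit 187) (nat_lit 1) (nat_lit 272) (nat_lit 409) (nat_lit 339)) (XT.lf (nat_lit 76) (nat_lit 13512725362) (nat_lit 0) (nat_lit 2688785775) (nat_lit 152) (nat_lit 13512725362) (nat_lit 184) (nat_lit 1) (nat_lit 183) (nat_lit 1) (nat_lit 185) (nat_lit 1) (nat_lit 273) (nat_lit 409) (nat_lit 338)))) (XT.nd (nat_lit 78) (nat_lit 152) (nat_lit 0) (XT.lf (nat_lit 152) (nat_lit 17531512441) (nat_lit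 0) (nat_lit 5844773026) (nat_lit 76) (nat_lit 5844773026) (nat_lit 184) (nat_lit 1) (nat_lit 182) (nat_lit 1) (nat_lit 183) (nat_lit 1) (nat_lit 274) (nat_lit 409) (nat_lit 337)) (XT.nd (nat_lit 78) (nat_lit 152) (nat_lit 0) (XT.lf (nat_lit 0) (nat_lit 4101132306) (nat_lit 0) (nat_lit 20535414740) (nat_lit 152) (nat_lit 4101132306) (nat_lit 182) (nat_lit 3) (nat_lit 182) (nat_lit 1) (nat_lit 184) (nat_lit 1) (nat_lit 275) (nat_lit 409) (nat_lit 336)) (XT.lf (nat_lit 76) (nat_lit 13639628784) (nat_lit 0) (nat_lit 981496961) (nat_lit 152) (nat_lit 13639628784) (nat_lit 181) (nat_lit 1) (nat_lit 180) (nat_lit 1) (nat_lit 182) (nat_lit 1) (nat_lit 276) (nat_lit 409) (nat_lit 335)))))) (XT.nd (nat_lit 468) (nat_lit 608) (nat_lit 0) (XT.nd (nat_lit 234) (nat_lit 228) (nat_lit 0) (XT.nd (nat_lit 78) (nat_lit 76) (nat_lit 0) (XT.lf (nat_lit 152) (nat_lit 18176468610) (nat_lit 0) (nat_lit 4808509233) (nat_lit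 76) (nat_lit 4808509233) (nat_lit 181) (nat_lit 1) (nat_lit 179) (nat_lit 1) (nat_lit 180) (nat_lit 1) (nat_lit 277) (nat_lit 409) (nat_lit 334)) (XT.nd (nat_lit 78) (nat_lit 76) (nat_lit 0) (XT.lf (nat_lit 0) (nat_lit 4604585448) (nat_lit 0) (nat_lit 18125110278) (nat_lit 152) (nat_lit 4604585448) (nat_lit 179) (nat_lit 3) (nat_lit 179) (nat_lit 1) (nat_lit 181) (nat_lit 1) (nat_lit 278) (nat_lit 409) (nat_lit 333)) (XT.lf (nat_lit 76) (nat_lit 376546872) (nat_lit 0) (nat_lit 13253237186) (nat_lit 76) (nat_lit 13253237186) (nat_lit 179) (nat_lit 3) (nat_lit 178) (nat_lit 1) (nat_lit 179) (nat_lit 1) (nat_lit 279) (nat_lit 409) (nat_lit 332)))) (XT.nd (nat_lit 78) (nat_lit 76) (nat_lit 0) (XT.lf (nat_lit 152) (nat_lit 18528349459) (nat_lit 0) (nat_lit 3955972446) (nat_lit 76) (nat_lit 3955972446) (nat_lit 178) (nat_lit 1) (nat_lit 176) (nat_lit 1) (nat_lit 177) (nat_lit 1) (nat_lit 280) (nat_lit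 409) (nat_lit 331)) (XT.nd (nat_lit 78) (nat_lit 76) (nat_lit 0) (XT.lf (nat_lit 0) (nat_lit 4960178843) (nat_lit 0) (nat_lit 16083548082) (nat_lit 152) (nat_lit 4960178843) (nat_lit 176) (nat_lit 3) (nat_lit 176) (nat_lit 1) (nat_lit 178) (nat_lit 1) (nat_lit 281) (nat_lit 409) (nat_lit 330)) (XT.lf (nat_lit 76) (nat_lit 1462858221) (nat_lit 0) (nat_lit 12056543209) (nat_lit 76) (nat_lit 12056543209) (nat_lit 176) (nat_lit 3) (nat_lit 175) (nat_lit 1) (nat_lit 176) (nat_lit 1) (nat_lit 282) (nat_lit 409) (nat_lit 329))))) (XT.nd (nat_lit 234) (nat_lit 380) (nat_lit 0) (XT.nd (nat_lit 78) (nat_lit 76) (nat_lit 0) (XT.lf (nat_lit 152) (nat_lit 18647627287) (nat_lit 0) (nat_lit 3254588322) (nat_lit 76) (nat_lit 3254588322) (nat_lit 175) (nat_lit 1) (nat_lit 173) (nat_lit 1) (nat_lit 174) (nat_lit 1) (nat_lit 283) (nat_lit 409) (nat_lit 328)) (XT.nd (nat_lit 78) (nat_lit 76) (nat_lit 0) (XT.lf (nat_lit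 0) (nat_lit 5196918077) (nat_lit 0) (nat_lit 14348141477) (nat_lit 152) (nat_lit 5196918077) (nat_lit 173) (nat_lit 3) (nat_lit 173) (nat_lit 1) (nat_lit 175) (nat_lit 1) (nat_lit 284) (nat_lit 409) (nat_lit 327)) (XT.lf (nat_lit 76) (nat_lit 2301661057) (nat_lit 0) (nat_lit 11017111914) (nat_lit 76) (nat_lit 11017111914) (nat_lit 173) (nat_lit 3) (nat_lit 172) (nat_lit 1) (nat_lit 173) (nat_lit 1) (nat_lit 285) (nat_lit 409) (nat_lit 326)))) (XT.nd (nat_lit 156) (nat_lit 228) (nat_lit 0) (XT.nd (nat_lit 78) (nat_lit 0) (nat_lit 0) (XT.lf (nat_lit 152) (nat_lit 18583647531) (nat_lit 0) (nat_lit 2677557867) (nat_lit 76) (nat_lit 2677557867) (nat_lit 172) (nat_lit 1) (nat_lit 170) (nat_lit 1) (nat_lit 171) (nat_lit 1) (nat_lit 286) (nat_lit 409) (nat_lit 325)) (XT.lf (nat_lit 0) (nat_lit 5338533236) (nat_lit 0) (nat_lit 12867267375) (nat_lit 152) (nat_lit 5338533236) (nat_lit 170) (nat_lit 3) (nat_lit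 170) (nat_lit 1) (nat_lit 172) (nat_lit 1) (nat_lit 287) (nat_lit 409) (nat_lit 324))) (XT.nd (nat_lit 78) (nat_lit 152) (nat_lit 0) (XT.lf (nat_lit 76) (nat_lit 2939452703) (nat_lit 0) (nat_lit 10109675693) (nat_lit 76) (nat_lit 10109675693) (nat_lit 170) (nat_lit 3) (nat_lit 169) (nat_lit 1) (nat_lit 170) (nat_lit 1) (nat_lit 288) (nat_lit 409) (nat_lit 323)) (XT.lf (nat_lit 152) (nat_lit 18376620827) (nat_lit 0) (nat_lit 2202833483) (nat_lit 76) (nat_lit 2202833483) (nat_lit 169) (nat_lit 1) (nat_lit 167) (nat_lit 1) (nat_lit 168) (nat_lit 1) (nat_lit 289) (nat_lit 409) (nat_lit 322))))))) (XT.nd (nat_lit 936) (nat_lit 912) (nat_lit 0) (XT.nd (nat_lit 468) (nat_lit 456) (nat_lit 0) (XT.nd (nat_lit 234) (nat_lit 228) (nat_lit 0) (XT.nd (nat_lit 78) (nat_lit 228) (nat_lit 0) (XT.lf (nat_lit 0) (nat_lit 5404420575) (nat_lit 0) (nat_lit 11598328783) (nat_lit 152) (nat_lit 5404420575) (nat_lit 167)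 (nat_lit 3) (nat_lit 167) (nat_lit 1) (nat_lit 169) (nat_lit 1) (nat_lit 290) (nat_lit 409) (nat_lit 321)) (XT.nd (nat_lit 78) (nat_lit 152) (nat_lit 0) (XT.lf (nat_lit 76) (nat_lit 3414362114) (nat_lit 0) (nat_lit 9313322312) (nat_lit 76) (nat_lit 9313322312) (nat_lit 167) (nat_lit 3) (nat_lit 166) (nat_lit 1) (nat_lit 167) (nat_lit 1) (nat_lit 291) (nat_lit 409) (nat_lit 320)) (XT.lf (nat_lit 152) (nat_lit 18059260968) (nat_lit 0) (nat_lit 1812276558) (nat_lit 76) (nat_lit 1812276558) (nat_lit 166) (nat_lit 1) (nat_lit 164) (nat_lit 1) (nat_lit 165) (nat_lit 1) (nat_lit 292) (nat_lit 409) (nat_lit 319)))) (XT.nd (nat_lit 78) (nat_lit 228) (nat_lit 0) (XT.lf (nat_lit 0) (nat_lit 5410416914) (nat_lit 0) (nat_lit 10506160526) (nat_lit 152) (nat_lit 5410416914) (nat_lit 164) (nat_lit 3) (nat_lit 164) (nat_lit 1) (nat_lit 166) (nat_lit 1) (nat_lit 293) (nat_lit 409) (nat_lit 318)) (XT.nd (nat_lit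 78) (nat_lit 152) (nat_lit 0) (XT.lf (nat_lit 76) (nat_lit 3757639495) (nat_lit 0) (nat_lit 8610728649) (nat_lit 76) (nat_lit 8610728649) (nat_lit 164) (nat_lit 3) (nat_lit 163) (nat_lit 1) (nat_lit 164) (nat_lit 1) (nat_lit 294) (nat_lit 409) (nat_lit 317)) (XT.lf (nat_lit 152) (nat_lit 17658131582) (nat_lit 0) (nat_lit 1490964409) (nat_lit 76) (nat_lit 1490964409) (nat_lit 163) (nat_lit 1) (nat_lit 161) (nat_lit 1) (nat_lit 162) (nat_lit 1) (nat_lit 295) (nat_lit 409) (nat_lit 316))))) (XT.nd (nat_lit 234) (nat_lit 228) (nat_lit 0) (XT.nd (nat_lit 78) (nat_lit 228) (nat_lit 0) (XT.lf (nat_lit 0) (nat_lit 5369436464) (nat_lit 0) (nat_lit 9561717344) (nat_lit 152) (nat_lit 5369436464) (nat_lit 161) (nat_lit 3) (nat_lit 161) (nat_lit 1) (nat_lit 163) (nat_lit 1) (nat_lit 296) (nat_lit 409) (nat_lit 315)) (XT.nd (nat_lit 78) (nat_lit 152) (nat_lit 0) (XT.lf (nat_lit 76) (nat_lit 3994881535) (nat_lit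 0) (nat_lit 7987529992) (nat_lit 76) (nat_lit 7987529992) (nat_lit 161) (nat_lit 3) (nat_lit 160) (nat_lit 1) (nat_lit 161) (nat_lit 1) (nat_lit 297) (nat_lit 409) (nat_lit 314)) (XT.lf (nat_lit 152) (nat_lit 17194753211) (nat_lit 0) (nat_lit 1226620109) (nat_lit 76) (nat_lit 1226620109) (nat_lit 160) (nat_lit 1) (nat_lit 158) (nat_lit 1) (nat_lit 159) (nat_lit 1) (nat_lit 298) (nat_lit 409) (nat_lit 313)))) (XT.nd (nat_lit 78) (nat_lit 228) (nat_lit 0) (XT.lf (nat_lit 0) (nat_lit 5291994457) (nat_lit 0) (nat_lit 8740994312) (nat_lit 152) (nat_lit 5291994457) (nat_lit 158) (nat_lit 3) (nat_lit 158) (nat_lit 1) (nat_lit 160) (nat_lit 1) (nat_lit 299) (nat_lit 409) (nat_lit 312)) (XT.nd (nat_lit 78) (nat_lit 152) (nat_lit 0) (XT.lf (nat_lit 76) (nat_lit 4147039138) (nat_lit 0) (nat_lit 7431800904) (nat_lit 76) (nat_lit 7431800904) (nat_lit 158) (nat_lit 3) (nat_lit 157) (nat_lit 1) (nat_lit 158)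 (nat_lit 1) (nat_lit 300) (nat_lit 409) (nat_lit 311)) (XT.lf (nat_lit 152) (nat_lit 16686513313) (nat_lit 0) (nat_lit 1009143399) (nat_lit 76) (nat_lit 1009143399) (nat_lit 157) (nat_lit 1) (nat_lit 155) (nat_lit 1) (nat_lit 156) (nat_lit 1) (nat_lit 301) (nat_lit 409) (nat_lit 310)))))) (XT.nd (nat_lit 468) (nat_lit 456) (nat_lit 0) (XT.nd (nat_lit 234) (nat_lit 228) (nat_lit 0) (XT.nd (nat_lit 78) (nat_lit 228) (nat_lit 0) (XT.lf (nat_lit 0) (nat_lit 5186637688) (nat_lit 0) (nat_lit 8024138404) (nat_lit 152) (nat_lit 5186637688) (nat_lit 155) (nat_lit 3) (nat_lit 155) (nat_lit 1) (nat_lit 157) (nat_lit 1) (nat_lit 302) (nat_lit 409) (nat_lit 309)) (XT.nd (nat_lit 78) (nat_lit 152) (nat_lit 0) (XT.lf (nat_lit 76) (nat_lit 4231246230) (nat_lit 0) (nat_lit 6933627865) (nat_lit 76) (nat_lit 6933627865) (nat_lit 155) (nat_lit 3) (nat_lit 154) (nat_lit 1) (nat_lit 155) (nat_lit 1) (nat_lit 303) (nat_lit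 409) (nat_lit 308)) (XT.lf (nat_lit 152) (nat_lit 16147414173) (nat_lit 0) (nat_lit 830224772) (nat_lit 76) (nat_lit 830224772) (nat_lit 154) (nat_lit 1) (nat_lit 152) (nat_lit 1) (nat_lit 153) (nat_lit 1) (nat_lit 304) (nat_lit 409) (nat_lit 307)))) (XT.nd (nat_lit 78) (nat_lit 228) (nat_lit 0) (XT.lf (nat_lit 0) (nat_lit 5060298473) (nat_lit 0) (nat_lit 7394717335) (nat_lit 152) (nat_lit 5060298473) (nat_lit 152) (nat_lit 3) (nat_lit 152) (nat_lit 1) (nat_lit 154) (nat_lit 1) (nat_lit 305) (nat_lit 409) (nat_lit 306)) (XT.nd (nat_lit 78) (nat_lit 152) (nat_lit 0) (XT.lf (nat_lit 76) (nat_lit 4261501382) (nat_lit 0) (nat_lit 6484757441) (nat_lit 76) (nat_lit 6484757441) (nat_lit 152) (nat_lit 3) (nat_lit 151) (nat_lit 1) (nat_lit 152) (nat_lit 1) (nat_lit 306) (nat_lit 409) (nat_lit 305)) (XT.lf (nat_lit 152) (nat_lit 15588687483) (nat_lit 0) (nat_lit 683027974) (nat_lit 76) (nat_lit 683027974)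 (nat_lit 151) (nat_lit 1) (nat_lit 149) (nat_lit 1) (nat_lit 150) (nat_lit 1) (nat_lit 307) (nat_lit 409) (nat_lit 304))))) (XT.nd (nat_lit 234) (nat_lit 228) (nat_lit 0) (XT.nd (nat_lit 78) (nat_lit 228) (nat_lit 0) (XT.lf (nat_lit 0) (nat_lit 4918585612) (nat_lit 0) (nat_lit 6839117786) (nat_lit 152) (nat_lit 4918585612) (nat_lit 149) (nat_lit 3) (nat_lit 149) (nat_lit 1) (nat_lit 151) (nat_lit 1) (nat_lit 308) (nat_lit 409) (nat_lit 303)) (XT.nd (nat_lit 78) (nat_lit 152) (nat_lit 0) (XT.lf (nat_lit 76) (nat_lit 4249228340) (nat_lit 0) (nat_lit 6078306601) (nat_lit 76) (nat_lit 6078306601) (nat_lit 149) (nat_lit 3) (nat_lit 148) (nat_lit 1) (nat_lit 149) (nat_lit 1) (nat_lit 309) (nat_lit 409) (nat_lit 302)) (XT.lf (nat_lit 152) (nat_lit 15019299276) (nat_lit 0) (nat_lit 561928805) (nat_lit 76) (nat_lit 561928805) (nat_lit 148) (nat_lit 1) (nat_lit 146) (nat_lit 1) (nat_lit 147) (nat_lit 1)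 (nat_lit 310) (nat_lit 409) (nat_lit 301)))) (XT.nd (nat_lit 156) (nat_lit 152) (nat_lit 0) (XT.nd (nat_lit 78) (nat_lit 76) (nat_lit 0) (XT.lf (nat_lit 0) (nat_lit 4766023540) (nat_lit 0) (nat_lit 6346050113) (nat_lit 152) (nat_lit 4766023540) (nat_lit 146) (nat_lit 3) (nat_lit 146) (nat_lit 1) (nat_lit 148) (nat_lit 1) (nat_lit 311) (nat_lit 409) (nat_lit 300)) (XT.lf (nat_lit 76) (nat_lit 4203736963) (nat_lit 0) (nat_lit 5708524175) (nat_lit 76) (nat_lit 5708524175) (nat_lit 146) (nat_lit 3) (nat_lit 145) (nat_lit 1) (nat_lit 146) (nat_lit 1) (nat_lit 312) (nat_lit 409) (nat_lit 299))) (XT.nd (nat_lit 78) (nat_lit 0) (nat_lit 0) (XT.lf (nat_lit 152) (nat_lit 14446364689) (nat_lit 0) (nat_lit 462300218) (nat_lit 76) (nat_lit 462300218) (nat_lit 145) (nat_lit 1) (nat_lit 143) (nat_lit 1) (nat_lit 144) (nat_lit 1) (nat_lit 313) (nat_lit 409) (nat_lit 298)) (XT.lf (nat_lit 0) (nat_lit 4606248871)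 (nat_lit 0) (nat_lit 5906140643) (nat_lit 152) (nat_lit 4606248871) (nat_lit 143) (nat_lit 3) (nat_lit 143) (nat_lit 1) (nat_lit 145) (nat_lit 1) (nat_lit 314) (nat_lit 409) (nat_lit 297))))))))
noncomputable def ec299 : XT := (XT.nd (nat_lit 1950) (nat_lit 1976) (nat_lit 0) (XT.nd (nat_lit 936) (nat_lit 988) (nat_lit 0) (XT.nd (nat_lit 468) (nat_lit 456) (nat_lit 0) (XT.nd (nat_lit 234) (nat_lit 228) (nat_lit 0) (XT.nd (nat_lit 78) (nat_lit 152) (nat_lit 0) (XT.lf (nat_lit 76) (nat_lit 4132602224) (nat_lit 0) (nat_lit 5370594388) (nat_lit 76) (nat_lit 5370594388) (nat_lit 143) (nat_lit 3) (nat_lit 142) (nat_lit 1) (nat_lit 143) (nat_lit 1) (nat_lit 315) (nat_lit 409) (nat_lit 296)) (XT.nd (nat_lit 78) (nat_lit 0) (nat_lit 0) (XT.lf (nat_lit 152) (nat_lit 13875488558) (nat_lit 0) (nat_lit 380335534) (nat_lit 76) (nat_lit 380335534) (nat_lit 142) (nat_lit 1) (nat_lit 140) (nat_lit 1) (nat_lit 141)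 (nat_lit 1) (nat_lit 316) (nat_lit 409) (nat_lit 295)) (XT.lf (nat_lit 0) (nat_lit 4442171879) (nat_lit 0) (nat_lit 5511596057) (nat_lit 152) (nat_lit 4442171879) (nat_lit 140) (nat_lit 3) (nat_lit 140) (nat_lit 1) (nat_lit 142) (nat_lit 1) (nat_lit 317) (nat_lit 409) (nat_lit 294)))) (XT.nd (nat_lit 78) (nat_lit 152) (nat_lit 0) (XT.lf (nat_lit 76) (nat_lit 4041975811) (nat_lit 0) (nat_lit 5060475028) (nat_lit 76) (nat_lit 5060475028) (nat_lit 140) (nat_lit 3) (nat_lit 139) (nat_lit 1) (nat_lit 140) (nat_lit 1) (nat_lit 318) (nat_lit 409) (nat_lit 293)) (XT.nd (nat_lit 78) (nat_lit 0) (nat_lit 0) (XT.lf (nat_lit 152) (nat_lit 13311045039) (nat_lit 0) (nat_lit 312902985) (nat_lit 76) (nat_lit 312902985) (nat_lit 139) (nat_lit 1) (nat_lit 137) (nat_lit 1) (nat_lit 138) (nat_lit 1) (nat_lit 319) (nat_lit 409) (nat_lit 292)) (XT.lf (nat_lit 0) (nat_lit 4276109163) (nat_lit 0) (nat_lit 5155927081)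 (nat_lit 152) (nat_lit 4276109163) (nat_lit 137) (nat_lit 3) (nat_lit 137) (nat_lit 1) (nat_lit 139) (nat_lit 1) (nat_lit 320) (nat_lit 409) (nat_lit 291))))) (XT.nd (nat_lit 234) (nat_lit 228) (nat_lit 0) (XT.nd (nat_lit 78) (nat_lit 152) (nat_lit 0) (XT.lf (nat_lit 76) (nat_lit 3936842297) (nat_lit 0) (nat_lit 4774764124) (nat_lit 76) (nat_lit 4774764124) (nat_lit 137) (nat_lit 3) (nat_lit 136) (nat_lit 1) (nat_lit 137) (nat_lit 1) (nat_lit 321) (nat_lit 409) (nat_lit 290)) (XT.nd (nat_lit 78) (nat_lit 0) (nat_lit 0) (XT.lf (nat_lit 152) (nat_lit 12756407089) (nat_lit 0) (nat_lit 257426060) (nat_lit 76) (nat_lit 257426060) (nat_lit 136) (nat_lit 1) (nat_lit 134) (nat_lit 1) (nat_lit 135) (nat_lit 1) (nat_lit 322) (nat_lit 409) (nat_lit 289)) (XT.lf (nat_lit 0) (nat_lit 4109892605) (nat_lit 0) (nat_lit 4833720983) (nat_lit 152) (nat_lit 4109892605) (nat_lit 134) (nat_lit 3) (nat_lit 134) (nat_lit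 1) (nat_lit 136) (nat_lit 1) (nat_lit 323) (nat_lit 409) (nat_lit 288)))) (XT.nd (nat_lit 78) (nat_lit 152) (nat_lit 0) (XT.lf (nat_lit 76) (nat_lit 3821229705) (nat_lit 0) (nat_lit 4510590065) (nat_lit 76) (nat_lit 4510590065) (nat_lit 134) (nat_lit 3) (nat_lit 133) (nat_lit 1) (nat_lit 134) (nat_lit 1) (nat_lit 324) (nat_lit 409) (nat_lit 287)) (XT.nd (nat_lit 78) (nat_lit 0) (nat_lit 0) (XT.lf (nat_lit 152) (nat_lit 12214134723) (nat_lit 0) (nat_lit 211785056) (nat_lit 76) (nat_lit 211785056) (nat_lit 133) (nat_lit 1) (nat_lit 131) (nat_lit 1) (nat_lit 132) (nat_lit 1) (nat_lit 325) (nat_lit 409) (nat_lit 286)) (XT.lf (nat_lit 0) (nat_lit 3944958831) (nat_lit 0) (nat_lit 4540454229) (nat_lit 152) (nat_lit 3944958831) (nat_lit 131) (nat_lit 3) (nat_lit 131) (nat_lit 1) (nat_lit 133) (nat_lit 1) (nat_lit 326) (nat_lit 409) (nat_lit 285)))))) (XT.nd (nat_lit 468) (nat_lit 532) (nat_lit 0) (XT.nd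 (nat_lit 234) (nat_lit 228) (nat_lit 0) (XT.nd (nat_lit 78) (nat_lit 152) (nat_lit 0) (XT.lf (nat_lit 76) (nat_lit 3698382568) (nat_lit 0) (nat_lit 4265521042) (nat_lit 76) (nat_lit 4265521042) (nat_lit 131) (nat_lit 3) (nat_lit 130) (nat_lit 1) (nat_lit 131) (nat_lit 1) (nat_lit 327) (nat_lit 409) (nat_lit 284)) (XT.nd (nat_lit 78) (nat_lit 0) (nat_lit 0) (XT.lf (nat_lit 152) (nat_lit 11686129379) (nat_lit 0) (nat_lit 174236090) (nat_lit 76) (nat_lit 174236090) (nat_lit 130) (nat_lit 1) (nat_lit 128) (nat_lit 1) (nat_lit 129) (nat_lit 1) (nat_lit 328) (nat_lit 409) (nat_lit 283)) (XT.lf (nat_lit 0) (nat_lit 3782422644) (nat_lit 0) (nat_lit 4272338182) (nat_lit 152) (nat_lit 3782422644) (nat_lit 128) (nat_lit 3) (nat_lit 128) (nat_lit 1) (nat_lit 130) (nat_lit 1) (nat_lit 329) (nat_lit 409) (nat_lit 282)))) (XT.nd (nat_lit 78) (nat_lit 152) (nat_lit 0) (XT.lf (nat_lit 76) (nat_lit 3570904141) (nat_lit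 0) (nat_lit 4037490368) (nat_lit 76) (nat_lit 4037490368) (nat_lit 128) (nat_lit 3) (nat_lit 127) (nat_lit 1) (nat_lit 128) (nat_lit 1) (nat_lit 330) (nat_lit 409) (nat_lit 281)) (XT.nd (nat_lit 78) (nat_lit 0) (nat_lit 0) (XT.lf (nat_lit 152) (nat_lit 11173760433) (nat_lit 0) (nat_lit 143344462) (nat_lit 76) (nat_lit 143344462) (nat_lit 127) (nat_lit 1) (nat_lit 125) (nat_lit 1) (nat_lit 126) (nat_lit 1) (nat_lit 331) (nat_lit 409) (nat_lit 280)) (XT.lf (nat_lit 0) (nat_lit 3623137281) (nat_lit 0) (nat_lit 4026192006) (nat_lit 152) (nat_lit 3623137281) (nat_lit 125) (nat_lit 3) (nat_lit 125) (nat_lit 1) (nat_lit 127) (nat_lit 1) (nat_lit 332) (nat_lit 409) (nat_lit 279))))) (XT.nd (nat_lit 234) (nat_lit 304) (nat_lit 0) (XT.nd (nat_lit 78) (nat_lit 152) (nat_lit 0) (XT.lf (nat_lit 76) (nat_lit 3440873246) (nat_lit 0) (nat_lit 3824734889) (nat_lit 76) (nat_lit 3824734889) (nat_lit 125) (nat_lit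 3) (nat_lit 124) (nat_lit 1) (nat_lit 125) (nat_lit 1) (nat_lit 333) (nat_lit 409) (nat_lit 278)) (XT.nd (nat_lit 78) (nat_lit 0) (nat_lit 0) (XT.lf (nat_lit 152) (nat_lit 10677968811) (nat_lit 0) (nat_lit 117929844) (nat_lit 76) (nat_lit 117929844) (nat_lit 124) (nat_lit 1) (nat_lit 122) (nat_lit 1) (nat_lit 123) (nat_lit 1) (nat_lit 334) (nat_lit 409) (nat_lit 277)) (XT.lf (nat_lit 0) (nat_lit 3467743827) (nat_lit 0) (nat_lit 3799337947) (nat_lit 152) (nat_lit 3467743827) (nat_lit 122) (nat_lit 3) (nat_lit 122) (nat_lit 1) (nat_lit 124) (nat_lit 1) (nat_lit 335) (nat_lit 409) (nat_lit 276)))) (XT.nd (nat_lit 156) (nat_lit 76) (nat_lit 0) (XT.nd (nat_lit 78) (nat_lit 152) (nat_lit 0) (XT.lf (nat_lit 76) (nat_lit 3309940241) (nat_lit 0) (nat_lit 3625744165) (nat_lit 76) (nat_lit 3625744165) (nat_lit 122) (nat_lit 3) (nat_lit 121) (nat_lit 1) (nat_lit 122) (nat_lit 1) (nat_lit 336) (nat_lit 409)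 (nat_lit 275)) (XT.lf (nat_lit 152) (nat_lit 10199351794) (nat_lit 0) (nat_lit 97021174) (nat_lit 76) (nat_lit 97021174) (nat_lit 121) (nat_lit 1) (nat_lit 119) (nat_lit 1) (nat_lit 120) (nat_lit 1) (nat_lit 337) (nat_lit 409) (nat_lit 274))) (XT.nd (nat_lit 78) (nat_lit 76) (nat_lit 0) (XT.lf (nat_lit 0) (nat_lit 3316711732) (nat_lit 0) (nat_lit 3589515035) (nat_lit 152) (nat_lit 3316711732) (nat_lit 119) (nat_lit 3) (nat_lit 119) (nat_lit 1) (nat_lit 121) (nat_lit 1) (nat_lit 338) (nat_lit 409) (nat_lit 273)) (XT.lf (nat_lit 76) (nat_lit 3179405843) (nat_lit 0) (nat_lit 3439218513) (nat_lit 76) (nat_lit 3439218513) (nat_lit 119) (nat_lit 3) (nat_lit 118) (nat_lit 1) (nat_lit 119) (nat_lit 1) (nat_lit 339) (nat_lit 409) (nat_lit 272))))))) (XT.nd (nat_lit 1014) (nat_lit 912) (nat_lit 0) (XT.nd (nat_lit 468) (nat_lit 608) (nat_lit 0) (XT.nd (nat_lit 234) (nat_lit 228) (nat_lit 0) (XT.nd (nat_lit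 78) (nat_lit 76) (nat_lit 0) (XT.lf (nat_lit 152) (nat_lit 9738232370) (nat_lit 0) (nat_lit 79819560) (nat_lit 76) (nat_lit 79819560) (nat_lit 118) (nat_lit 1) (nat_lit 116) (nat_lit 1) (nat_lit 117) (nat_lit 1) (nat_lit 340) (nat_lit 409) (nat_lit 271)) (XT.nd (nat_lit 78) (nat_lit 76) (nat_lit 0) (XT.lf (nat_lit 0) (nat_lit 3170372002) (nat_lit 0) (nat_lit 3394807955) (nat_lit 152) (nat_lit 3170372002) (nat_lit 116) (nat_lit 3) (nat_lit 116) (nat_lit 1) (nat_lit 118) (nat_lit 1) (nat_lit 341) (nat_lit 409) (nat_lit 270)) (XT.lf (nat_lit 76) (nat_lit 3050285832) (nat_lit 0) (nat_lit 3264034359) (nat_lit 76) (nat_lit 3264034359) (nat_lit 116) (nat_lit 3) (nat_lit 115) (nat_lit 1) (nat_lit 116) (nat_lit 1) (nat_lit 342) (nat_lit 409) (nat_lit 269)))) (XT.nd (nat_lit 78) (nat_lit 76) (nat_lit 0) (XT.lf (nat_lit 152) (nat_lit 9294715878) (nat_lit 0) (nat_lit 65667750) (nat_lit 76) (nat_lit 65667750)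 (nat_lit 115) (nat_lit 1) (nat_lit 113) (nat_lit 1) (nat_lit 114) (nat_lit 1) (nat_lit 343) (nat_lit 409) (nat_lit 268)) (XT.nd (nat_lit 78) (nat_lit 76) (nat_lit 0) (XT.lf (nat_lit 0) (nat_lit 3028944370) (nat_lit 0) (nat_lit 3213588383) (nat_lit 152) (nat_lit 3028944370) (nat_lit 113) (nat_lit 3) (nat_lit 113) (nat_lit 1) (nat_lit 115) (nat_lit 1) (nat_lit 344) (nat_lit 409) (nat_lit 267)) (XT.lf (nat_lit 76) (nat_lit 2923364157) (nat_lit 0) (nat_lit 3099215598) (nat_lit 76) (nat_lit 3099215598) (nat_lit 113) (nat_lit 3) (nat_lit 112) (nat_lit 1) (nat_lit 113) (nat_lit 1) (nat_lit 345) (nat_lit 409) (nat_lit 266))))) (XT.nd (nat_lit 234) (nat_lit 380) (nat_lit 0) (XT.nd (nat_lit 78) (nat_lit 76) (nat_lit 0) (XT.lf (nat_lit 152) (nat_lit 8868736239) (nat_lit 0) (nat_lit 54025020) (nat_lit 76) (nat_lit 54025020) (nat_lit 112) (nat_lit 1) (nat_lit 110) (nat_lit 1) (nat_lit 111) (nat_lit 1) (nat_lit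 346) (nat_lit 409) (nat_lit 265)) (XT.nd (nat_lit 78) (nat_lit 76) (nat_lit 0) (XT.lf (nat_lit 0) (nat_lit 2892559532) (nat_lit 0) (nat_lit 3044466619) (nat_lit 152) (nat_lit 2892559532) (nat_lit 110) (nat_lit 3) (nat_lit 110) (nat_lit 1) (nat_lit 112) (nat_lit 1) (nat_lit 347) (nat_lit 409) (nat_lit 264)) (XT.lf (nat_lit 76) (nat_lit 2799236502) (nat_lit 0) (nat_lit 2943909918) (nat_lit 76) (nat_lit 2943909918) (nat_lit 110) (nat_lit 3) (nat_lit 109) (nat_lit 1) (nat_lit 110) (nat_lit 1) (nat_lit 348) (nat_lit 409) (nat_lit 263)))) (XT.nd (nat_lit 156) (nat_lit 228) (nat_lit 0) (XT.nd (nat_lit 78) (nat_lit 0) (nat_lit 0) (XT.lf (nat_lit 152) (nat_lit 8460093617) (nat_lit 0) (nat_lit 44446518) (nat_lit 76) (nat_lit 44446518) (nat_lit 109) (nat_lit 1) (nat_lit 107) (nat_lit 1) (nat_lit 108) (nat_lit 1) (nat_lit 349) (nat_lit 409) (nat_lit 262)) (XT.lf (nat_lit 0) (nat_lit 2761277316) (nat_lit 0)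 (nat_lit 2886251653) (nat_lit 152) (nat_lit 2761277316) (nat_lit 107) (nat_lit 3) (nat_lit 107) (nat_lit 1) (nat_lit 109) (nat_lit 1) (nat_lit 350) (nat_lit 409) (nat_lit 261))) (XT.nd (nat_lit 78) (nat_lit 152) (nat_lit 0) (XT.lf (nat_lit 76) (nat_lit 2678346012) (nat_lit 0) (nat_lit 2797369189) (nat_lit 76) (nat_lit 2797369189) (nat_lit 107) (nat_lit 3) (nat_lit 106) (nat_lit 1) (nat_lit 107) (nat_lit 1) (nat_lit 351) (nat_lit 409) (nat_lit 260)) (XT.lf (nat_lit 152) (nat_lit 8068485065) (nat_lit 0) (nat_lit 36566260) (nat_lit 76) (nat_lit 36566260) (nat_lit 106) (nat_lit 1) (nat_lit 104) (nat_lit 1) (nat_lit 105) (nat_lit 1) (nat_lit 352) (nat_lit 409) (nat_lit 259)))))) (XT.nd (nat_lit 468) (nat_lit 456) (nat_lit 0) (XT.nd (nat_lit 234) (nat_lit 228) (nat_lit 0) (XT.nd (nat_lit 78) (nat_lit 228) (nat_lit 0) (XT.lf (nat_lit 0) (nat_lit 2635101521) (nat_lit 0) (nat_lit 2737918217) (nat_lit 152)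 (nat_lit 2635101521) (nat_lit 104) (nat_lit 3) (nat_lit 104) (nat_lit 1) (nat_lit 106) (nat_lit 1) (nat_lit 353) (nat_lit 409) (nat_lit 258)) (XT.nd (nat_lit 78) (nat_lit 152) (nat_lit 0) (XT.lf (nat_lit 76) (nat_lit 2561012573) (nat_lit 0) (nat_lit 2658933235) (nat_lit 76) (nat_lit 2658933235) (nat_lit 104) (nat_lit 3) (nat_lit 103) (nat_lit 1) (nat_lit 104) (nat_lit 1) (nat_lit 354) (nat_lit 409) (nat_lit 257)) (XT.lf (nat_lit 152) (nat_lit 7693529402) (nat_lit 0) (nat_lit 30083152) (nat_lit 76) (nat_lit 30083152) (nat_lit 103) (nat_lit 1) (nat_lit 101) (nat_lit 1) (nat_lit 102) (nat_lit 1) (nat_lit 355) (nat_lit 409) (nat_lit 256)))) (XT.nd (nat_lit 78) (nat_lit 228) (nat_lit 0) (XT.lf (nat_lit 0) (nat_lit 2513992008) (nat_lit 0) (nat_lit 2598579558) (nat_lit 152) (nat_lit 2513992008) (nat_lit 101) (nat_lit 3) (nat_lit 101) (nat_lit 1) (nat_lit 103) (nat_lit 1) (nat_lit 356) (nat_lit 409) (nat_lit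 255)) (XT.nd (nat_lit 78) (nat_lit 152) (nat_lit 0) (XT.lf (nat_lit 76) (nat_lit 2447456792) (nat_lit 0) (nat_lit 2528016363) (nat_lit 76) (nat_lit 2528016363) (nat_lit 101) (nat_lit 3) (nat_lit 100) (nat_lit 1) (nat_lit 101) (nat_lit 1) (nat_lit 357) (nat_lit 409) (nat_lit 254)) (XT.lf (nat_lit 152) (nat_lit 7334787365) (nat_lit 0) (nat_lit 24749484) (nat_lit 76) (nat_lit 24749484) (nat_lit 100) (nat_lit 1) (nat_lit 98) (nat_lit 1) (nat_lit 99) (nat_lit 1) (nat_lit 358) (nat_lit 409) (nat_lit 253))))) (XT.nd (nat_lit 234) (nat_lit 228) (nat_lit 0) (XT.nd (nat_lit 78) (nat_lit 228) (nat_lit 0) (XT.lf (nat_lit 0) (nat_lit 2397874557) (nat_lit 0) (nat_lit 2467464944) (nat_lit 152) (nat_lit 2397874557) (nat_lit 98) (nat_lit 3) (nat_lit 98) (nat_lit 1) (nat_lit 100) (nat_lit 1) (nat_lit 359) (nat_lit 409) (nat_lit 252)) (XT.nd (nat_lit 78) (nat_lit 152) (nat_lit 0) (XT.lf (nat_lit 76) (nat_lit 2337819626)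 (nat_lit 0) (nat_lit 2404096185) (nat_lit 76) (nat_lit 2404096185) (nat_lit 98) (nat_lit 3) (nat_lit 97) (nat_lit 1) (nat_lit 98) (nat_lit 1) (nat_lit 360) (nat_lit 409) (nat_lit 251)) (XT.lf (nat_lit 152) (nat_lit 6991777895) (nat_lit 0) (nat_lit 20361462) (nat_lit 76) (nat_lit 20361462) (nat_lit 97) (nat_lit 1) (nat_lit 95) (nat_lit 1) (nat_lit 96) (nat_lit 1) (nat_lit 361) (nat_lit 409) (nat_lit 250)))) (XT.nd (nat_lit 156) (nat_lit 152) (nat_lit 0) (XT.nd (nat_lit 78) (nat_lit 76) (nat_lit 0) (XT.lf (nat_lit 0) (nat_lit 2286648866) (nat_lit 0) (nat_lit 2343901049) (nat_lit 152) (nat_lit 2286648866) (nat_lit 95) (nat_lit 3) (nat_lit 95) (nat_lit 1) (nat_lit 97) (nat_lit 1) (nat_lit 362) (nat_lit 409) (nat_lit 249)) (XT.lf (nat_lit 76) (nat_lit 2232178436) (nat_lit 0) (nat_lit 2286704325) (nat_lit 76) (nat_lit 2286704325) (nat_lit 95) (nat_lit 3) (nat_lit 94) (nat_lit 1) (nat_lit 95) (nat_lit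 1) (nat_lit 363) (nat_lit 409) (nat_lit 248))) (XT.nd (nat_lit 78) (nat_lit 0) (nat_lit 0) (XT.lf (nat_lit 152) (nat_lit 6663991242) (nat_lit 0) (nat_lit 16751425) (nat_lit 76) (nat_lit 16751425) (nat_lit 94) (nat_lit 1) (nat_lit 92) (nat_lit 1) (nat_lit 93) (nat_lit 1) (nat_lit 364) (nat_lit 409) (nat_lit 247)) (XT.lf (nat_lit 0) (nat_lit 2180195046) (nat_lit 0) (nat_lit 2227296559) (nat_lit 152) (nat_lit 2180195046) (nat_lit 92) (nat_lit 3) (nat_lit 92) (nat_lit 1) (nat_lit 94) (nat_lit 1) (nat_lit 365) (nat_lit 409) (nat_lit 246))))))))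
noncomputable def ec300 : XT := (XT.nd (nat_lit 1950) (nat_lit 1976) (nat_lit 0) (XT.nd (nat_lit 936) (nat_lit 988) (nat_lit 0) (XT.nd (nat_lit 468) (nat_lit 456) (nat_lit 0) (XT.nd (nat_lit 234) (nat_lit 228) (nat_lit 0) (XT.nd (nat_lit 78) (nat_lit 152) (nat_lit 0) (XT.lf (nat_lit 76) (nat_lit 2130560099) (nat_lit 0) (nat_lit 2175418683) (nat_lit 76) (nat_lit 2175418683) (nat_lit 92) (nat_lit 3) (nat_lit 91) (nat_lit 1) (nat_lit 92) (nat_lit 1) (nat_lit 366) (nat_lit 409) (nat_lit 245)) (XT.nd (nat_lit 78) (nat_lit 0) (nat_lit 0) (XT.lf (nat_lit 152) (nat_lit 6350899481) (nat_lit 0) (nat_lit 13781438) (nat_lit 76) (nat_lit 13781438) (nat_lit 91) (nat_lit 1) (nat_lit 89) (nat_lit 1) (nat_lit 90) (nat_lit 1) (nat_lit 367) (nat_lit 409) (nat_lit 244)) (XT.lf (nat_lit 0) (nat_lit 2078378875) (nat_lit 0) (nat_lit 2117129406) (nat_lit 152) (nat_lit 2078378875) (nat_lit 89) (nat_lit 3) (nat_lit 89)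 (nat_lit 1) (nat_lit 91) (nat_lit 1) (nat_lit 368) (nat_lit 409) (nat_lit 243)))) (XT.nd (nat_lit 78) (nat_lit 152) (nat_lit 0) (XT.lf (nat_lit 76) (nat_lit 2032951710) (nat_lit 0) (nat_lit 2069856978) (nat_lit 76) (nat_lit 2069856978) (nat_lit 89) (nat_lit 3) (nat_lit 88) (nat_lit 1) (nat_lit 89) (nat_lit 1) (nat_lit 369) (nat_lit 409) (nat_lit 242)) (XT.nd (nat_lit 78) (nat_lit 0) (nat_lit 0) (XT.lf (nat_lit 152) (nat_lit 6051964906) (nat_lit 0) (nat_lit 11338023) (nat_lit 76) (nat_lit 11338023) (nat_lit 88) (nat_lit 1) (nat_lit 86) (nat_lit 1) (nat_lit 87) (nat_lit 1) (nat_lit 370) (nat_lit 409) (nat_lit 241)) (XT.lf (nat_lit 0) (nat_lit 1981056029) (nat_lit 0) (nat_lit 2012936187) (nat_lit 152) (nat_lit 1981056029) (nat_lit 86) (nat_lit 3) (nat_lit 86) (nat_lit 1) (nat_lit 88) (nat_lit 1) (nat_lit 371) (nat_lit 409) (nat_lit 240))))) (XT.nd (nat_lit 234) (nat_lit 228) (nat_lit 0) (XT.nd (nat_lit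 78) (nat_lit 152) (nat_lit 0) (XT.lf (nat_lit 76) (nat_lit 1939309301) (nat_lit 0) (nat_lit 1969671356) (nat_lit 76) (nat_lit 1969671356) (nat_lit 86) (nat_lit 3) (nat_lit 85) (nat_lit 1) (nat_lit 86) (nat_lit 1) (nat_lit 372) (nat_lit 409) (nat_lit 239)) (XT.nd (nat_lit 78) (nat_lit 0) (nat_lit 0) (XT.lf (nat_lit 152) (nat_lit 5766646682) (nat_lit 0) (nat_lit 9327820) (nat_lit 76) (nat_lit 9327820) (nat_lit 85) (nat_lit 1) (nat_lit 83) (nat_lit 1) (nat_lit 84) (nat_lit 1) (nat_lit 373) (nat_lit 409) (nat_lit 238)) (XT.lf (nat_lit 0) (nat_lit 1888075493) (nat_lit 0) (nat_lit 1914303378) (nat_lit 152) (nat_lit 1888075493) (nat_lit 83) (nat_lit 3) (nat_lit 83) (nat_lit 1) (nat_lit 85) (nat_lit 1) (nat_lit 374) (nat_lit 409) (nat_lit 237)))) (XT.nd (nat_lit 78) (nat_lit 152) (nat_lit 0) (XT.lf (nat_lit 76) (nat_lit 1849564941) (nat_lit 0) (nat_lit 1874543879) (nat_lit 76) (nat_lit 1874543879) (nat_lit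 83) (nat_lit 3) (nat_lit 82) (nat_lit 1) (nat_lit 83) (nat_lit 1) (nat_lit 375) (nat_lit 409) (nat_lit 236)) (XT.nd (nat_lit 78) (nat_lit 0) (nat_lit 0) (XT.lf (nat_lit 152) (nat_lit 5494406093) (nat_lit 0) (nat_lit 7674020) (nat_lit 76) (nat_lit 7674020) (nat_lit 82) (nat_lit 1) (nat_lit 80) (nat_lit 1) (nat_lit 81) (nat_lit 1) (nat_lit 376) (nat_lit 409) (nat_lit 235)) (XT.lf (nat_lit 0) (nat_lit 1799282282) (nat_lit 0) (nat_lit 1820860027) (nat_lit 152) (nat_lit 1799282282) (nat_lit 80) (nat_lit 3) (nat_lit 80) (nat_lit 1) (nat_lit 82) (nat_lit 1) (nat_lit 377) (nat_lit 409) (nat_lit 234)))))) (XT.nd (nat_lit 468) (nat_lit 532) (nat_lit 0) (XT.nd (nat_lit 234) (nat_lit 228) (nat_lit 0) (XT.nd (nat_lit 78) (nat_lit 152) (nat_lit 0) (XT.lf (nat_lit 76) (nat_lit 1763632492) (nat_lit 0) (nat_lit 1784182726) (nat_lit 76) (nat_lit 1784182726) (nat_lit 80) (nat_lit 3) (nat_lit 79) (nat_lit 1) (nat_lit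 80) (nat_lit 1) (nat_lit 378) (nat_lit 409) (nat_lit 233)) (XT.nd (nat_lit 78) (nat_lit 0) (nat_lit 0) (XT.lf (nat_lit 152) (nat_lit 5234710630) (nat_lit 0) (nat_lit 6313435) (nat_lit 76) (nat_lit 6313435) (nat_lit 79) (nat_lit 1) (nat_lit 77) (nat_lit 1) (nat_lit 78) (nat_lit 1) (nat_lit 379) (nat_lit 409) (nat_lit 232)) (XT.lf (nat_lit 0) (nat_lit 1714519605) (nat_lit 0) (nat_lit 1732271670) (nat_lit 152) (nat_lit 1714519605) (nat_lit 77) (nat_lit 3) (nat_lit 77) (nat_lit 1) (nat_lit 79) (nat_lit 1) (nat_lit 380) (nat_lit 409) (nat_lit 231)))) (XT.nd (nat_lit 78) (nat_lit 152) (nat_lit 0) (XT.lf (nat_lit 76) (nat_lit 1681412280) (nat_lit 0) (nat_lit 1698319008) (nat_lit 76) (nat_lit 1698319008) (nat_lit 77) (nat_lit 3) (nat_lit 76) (nat_lit 1) (nat_lit 77) (nat_lit 1) (nat_lit 381) (nat_lit 409) (nat_lit 230)) (XT.nd (nat_lit 78) (nat_lit 0) (nat_lit 0) (XT.lf (nat_lit 152) (nat_lit 4987037142)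 (nat_lit 0) (nat_lit 5194079) (nat_lit 76) (nat_lit 5194079) (nat_lit 76) (nat_lit 1) (nat_lit 74) (nat_lit 1) (nat_lit 75) (nat_lit 1) (nat_lit 382) (nat_lit 409) (nat_lit 229)) (XT.lf (nat_lit 0) (nat_lit 1633630589) (nat_lit 0) (nat_lit 1648235256) (nat_lit 152) (nat_lit 1633630589) (nat_lit 74) (nat_lit 3) (nat_lit 74) (nat_lit 1) (nat_lit 76) (nat_lit 1) (nat_lit 383) (nat_lit 409) (nat_lit 228))))) (XT.nd (nat_lit 234) (nat_lit 304) (nat_lit 0) (XT.nd (nat_lit 78) (nat_lit 152) (nat_lit 0) (XT.lf (nat_lit 76) (nat_lit 1602794867) (nat_lit 0) (nat_lit 1616704074) (nat_lit 76) (nat_lit 1616704074) (nat_lit 74) (nat_lit 3) (nat_lit 73) (nat_lit 1) (nat_lit 74) (nat_lit 1) (nat_lit 384) (nat_lit 409) (nat_lit 227)) (XT.nd (nat_lit 78) (nat_lit 0) (nat_lit 0) (XT.lf (nat_lit 152) (nat_lit 4750874230) (nat_lit 0) (nat_lit 4273181) (nat_lit 76) (nat_lit 4273181) (nat_lit 73) (nat_lit 1) (nat_lit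 71) (nat_lit 1) (nat_lit 72) (nat_lit 1) (nat_lit 385) (nat_lit 409) (nat_lit 226)) (XT.lf (nat_lit 0) (nat_lit 1556459610) (nat_lit 0) (nat_lit 1568474907) (nat_lit 152) (nat_lit 1556459610) (nat_lit 71) (nat_lit 3) (nat_lit 71) (nat_lit 1) (nat_lit 73) (nat_lit 1) (nat_lit 386) (nat_lit 409) (nat_lit 225)))) (XT.nd (nat_lit 156) (nat_lit 76) (nat_lit 0) (XT.nd (nat_lit 78) (nat_lit 152) (nat_lit 0) (XT.lf (nat_lit 76) (nat_lit 1527664088) (nat_lit 0) (nat_lit 1539107227) (nat_lit 76) (nat_lit 1539107227) (nat_lit 71) (nat_lit 3) (nat_lit 70) (nat_lit 1) (nat_lit 71) (nat_lit 1) (nat_lit 387) (nat_lit 409) (nat_lit 224)) (XT.lf (nat_lit 152) (nat_lit 4525724015) (nat_lit 0) (nat_lit 3515557) (nat_lit 76) (nat_lit 3515557) (nat_lit 70) (nat_lit 1) (nat_lit 68) (nat_lit 1) (nat_lit 69) (nat_lit 1) (nat_lit 388) (nat_lit 409) (nat_lit 223))) (XT.nd (nat_lit 78) (nat_lit 76) (nat_lit 0) (XT.lf (nat_lit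 0) (nat_lit 1482853347) (nat_lit 0) (nat_lit 1492738361) (nat_lit 152) (nat_lit 1482853347) (nat_lit 68) (nat_lit 3) (nat_lit 68) (nat_lit 1) (nat_lit 70) (nat_lit 1) (nat_lit 389) (nat_lit 409) (nat_lit 222)) (XT.lf (nat_lit 76) (nat_lit 1455899487) (nat_lit 0) (nat_lit 1465313786) (nat_lit 76) (nat_lit 1465313786) (nat_lit 68) (nat_lit 3) (nat_lit 67) (nat_lit 1) (nat_lit 68) (nat_lit 1) (nat_lit 390) (nat_lit 409) (nat_lit 221))))))) (XT.nd (nat_lit 936) (nat_lit 1064) (nat_lit 0) (XT.nd (nat_lit 468) (nat_lit 456) (nat_lit 0) (XT.nd (nat_lit 234) (nat_lit 228) (nat_lit 0) (XT.nd (nat_lit 78) (nat_lit 76) (nat_lit 0) (XT.lf (nat_lit 152) (nat_lit 4311103423) (nat_lit 0) (nat_lit 2892257) (nat_lit 76) (nat_lit 2892257) (nat_lit 67) (nat_lit 1) (nat_lit 65) (nat_lit 1) (nat_lit 66) (nat_lit 1) (nat_lit 391) (nat_lit 409) (nat_lit 220)) (XT.nd (nat_lit 78) (nat_lit 76) (nat_lit 0) (XT.lf (nat_lit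 0) (nat_lit 1412661569) (nat_lit 0) (nat_lit 1420793994) (nat_lit 152) (nat_lit 1412661569) (nat_lit 65) (nat_lit 3) (nat_lit 65) (nat_lit 1) (nat_lit 67) (nat_lit 1) (nat_lit 392) (nat_lit 409) (nat_lit 219)) (XT.lf (nat_lit 76) (nat_lit 1387378264) (nat_lit 0) (nat_lit 1395123431) (nat_lit 76) (nat_lit 1395123431) (nat_lit 65) (nat_lit 3) (nat_lit 64) (nat_lit 1) (nat_lit 65) (nat_lit 1) (nat_lit 393) (nat_lit 409) (nat_lit 218)))) (XT.nd (nat_lit 78) (nat_lit 76) (nat_lit 0) (XT.lf (nat_lit 152) (nat_lit 4106545051) (nat_lit 0) (nat_lit 2379467) (nat_lit 76) (nat_lit 2379467) (nat_lit 64) (nat_lit 1) (nat_lit 62) (nat_lit 1) (nat_lit 63) (nat_lit 1) (nat_lit 394) (nat_lit 409) (nat_lit 217)) (XT.nd (nat_lit 78) (nat_lit 76) (nat_lit 0) (XT.lf (nat_lit 0) (nat_lit 1345737741) (nat_lit 0) (nat_lit 1352428308) (nat_lit 152) (nat_lit 1345737741) (nat_lit 62) (nat_lit 3) (nat_lit 62) (nat_lit 1)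 (nat_lit 64) (nat_lit 1) (nat_lit 395) (nat_lit 409) (nat_lit 216)) (XT.lf (nat_lit 76) (nat_lit 1321976820) (nat_lit 0) (nat_lit 1328348788) (nat_lit 76) (nat_lit 1328348788) (nat_lit 62) (nat_lit 3) (nat_lit 61) (nat_lit 1) (nat_lit 62) (nat_lit 1) (nat_lit 396) (nat_lit 409) (nat_lit 215))))) (XT.nd (nat_lit 234) (nat_lit 228) (nat_lit 0) (XT.nd (nat_lit 78) (nat_lit 76) (nat_lit 0) (XT.lf (nat_lit 152) (nat_lit 3911597724) (nat_lit 0) (nat_lit 1957593) (nat_lit 76) (nat_lit 1957593) (nat_lit 61) (nat_lit 1) (nat_lit 59) (nat_lit 1) (nat_lit 60) (nat_lit 1) (nat_lit 397) (nat_lit 409) (nat_lit 214)) (XT.nd (nat_lit 78) (nat_lit 76) (nat_lit 0) (XT.lf (nat_lit 0) (nat_lit 1281939458) (nat_lit 0) (nat_lit 1287443804) (nat_lit 152) (nat_lit 1281939458) (nat_lit 59) (nat_lit 3) (nat_lit 59) (nat_lit 1) (nat_lit 61) (nat_lit 1) (nat_lit 398) (nat_lit 409) (nat_lit 213)) (XT.lf (nat_lit 76) (nat_lit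 1259571972) (nat_lit 0) (nat_lit 1264814206) (nat_lit 76) (nat_lit 1264814206) (nat_lit 59) (nat_lit 3) (nat_lit 58) (nat_lit 1) (nat_lit 59) (nat_lit 1) (nat_lit 399) (nat_lit 409) (nat_lit 212)))) (XT.nd (nat_lit 78) (nat_lit 76) (nat_lit 0) (XT.lf (nat_lit 152) (nat_lit 3725826793) (nat_lit 0) (nat_lit 1610517) (nat_lit 76) (nat_lit 1610517) (nat_lit 58) (nat_lit 1) (nat_lit 56) (nat_lit 1) (nat_lit 57) (nat_lit 1) (nat_lit 400) (nat_lit 409) (nat_lit 211)) (XT.nd (nat_lit 78) (nat_lit 76) (nat_lit 0) (XT.lf (nat_lit 0) (nat_lit 1221128753) (nat_lit 0) (nat_lit 1225657192) (nat_lit 152) (nat_lit 1221128753) (nat_lit 56) (nat_lit 3) (nat_lit 56) (nat_lit 1) (nat_lit 58) (nat_lit 1) (nat_lit 401) (nat_lit 409) (nat_lit 210)) (XT.lf (nat_lit 76) (nat_lit 1200041903) (nat_lit 0) (nat_lit 1204354701) (nat_lit 76) (nat_lit 1204354701) (nat_lit 56) (nat_lit 3) (nat_lit 55) (nat_lit 1) (nat_lit 56)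 (nat_lit 1) (nat_lit 402) (nat_lit 409) (nat_lit 209)))))) (XT.nd (nat_lit 468) (nat_lit 608) (nat_lit 0) (XT.nd (nat_lit 234) (nat_lit 228) (nat_lit 0) (XT.nd (nat_lit 78) (nat_lit 76) (nat_lit 0) (XT.lf (nat_lit 152) (nat_lit 3548814223) (nat_lit 0) (nat_lit 1324976) (nat_lit 76) (nat_lit 1324976) (nat_lit 55) (nat_lit 1) (nat_lit 53) (nat_lit 1) (nat_lit 54) (nat_lit 1) (nat_lit 403) (nat_lit 409) (nat_lit 208)) (XT.nd (nat_lit 78) (nat_lit 76) (nat_lit 0) (XT.lf (nat_lit 0) (nat_lit 1163172303) (nat_lit 0) (nat_lit 1166897861) (nat_lit 152) (nat_lit 1163172303) (nat_lit 53) (nat_lit 3) (nat_lit 53) (nat_lit 1) (nat_lit 55) (nat_lit 1) (nat_lit 404) (nat_lit 409) (nat_lit 207)) (XT.lf (nat_lit 76) (nat_lit 1143266895) (nat_lit 0) (nat_lit 1146815045) (nat_lit 76) (nat_lit 1146815045) (nat_lit 53) (nat_lit 3) (nat_lit 52) (nat_lit 1) (nat_lit 53) (nat_lit 1) (nat_lit 405) (nat_lit 409) (nat_lit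 206)))) (XT.nd (nat_lit 78) (nat_lit 76) (nat_lit 0) (XT.lf (nat_lit 152) (nat_lit 3380158530) (nat_lit 0) (nat_lit 1090061) (nat_lit 76) (nat_lit 1090061) (nat_lit 52) (nat_lit 1) (nat_lit 50) (nat_lit 1) (nat_lit 51) (nat_lit 1) (nat_lit 406) (nat_lit 409) (nat_lit 205)) (XT.nd (nat_lit 78) (nat_lit 76) (nat_lit 0) (XT.lf (nat_lit 0) (nat_lit 1107941547) (nat_lit 0) (nat_lit 1111006573) (nat_lit 152) (nat_lit 1107941547) (nat_lit 50) (nat_lit 3) (nat_lit 50) (nat_lit 1) (nat_lit 52) (nat_lit 1) (nat_lit 407) (nat_lit 409) (nat_lit 204)) (XT.lf (nat_lit 76) (nat_lit 1089129886) (nat_lit 0) (nat_lit 1092048958) (nat_lit 76) (nat_lit 1092048958) (nat_lit 50) (nat_lit 3) (nat_lit 49) (nat_lit 1) (nat_lit 50) (nat_lit 1) (nat_lit 408) (nat_lit 409) (nat_lit 203))))) (XT.nd (nat_lit 234) (nat_lit 380) (nat_lit 0) (XT.nd (nat_lit 78) (nat_lit 76) (nat_lit 0) (XT.lf (nat_lit 152) (nat_lit 3219474583)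 (nat_lit 0) (nat_lit 896796) (nat_lit 76) (nat_lit 896796) (nat_lit 49) (nat_lit 1) (nat_lit 47) (nat_lit 1) (nat_lit 48) (nat_lit 1) (nat_lit 409) (nat_lit 409) (nat_lit 202)) (XT.nd (nat_lit 78) (nat_lit 76) (nat_lit 0) (XT.lf (nat_lit 0) (nat_lit 1055312743) (nat_lit 0) (nat_lit 1057834347) (nat_lit 152) (nat_lit 1055312743) (nat_lit 47) (nat_lit 3) (nat_lit 47) (nat_lit 1) (nat_lit 49) (nat_lit 1) (nat_lit 410) (nat_lit 409) (nat_lit 201)) (XT.lf (nat_lit 76) (nat_lit 1037516883) (nat_lit 0) (nat_lit 1039918411) (nat_lit 76) (nat_lit 1039918411) (nat_lit 47) (nat_lit 3) (nat_lit 46) (nat_lit 1) (nat_lit 47) (nat_lit 1) (nat_lit 411) (nat_lit 409) (nat_lit 200)))) (XT.nd (nat_lit 156) (nat_lit 228) (nat_lit 0) (XT.nd (nat_lit 78) (nat_lit 0) (nat_lit 0) (XT.lf (nat_lit 152) (nat_lit 3066393322) (nat_lit 0) (nat_lit 737796) (nat_lit 76) (nat_lit 737796) (nat_lit 46) (nat_lit 1) (nat_lit 44) (nat_lit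 1) (nat_lit 45) (nat_lit 1) (nat_lit 412) (nat_lit 409) (nat_lit 199)) (XT.lf (nat_lit 0) (nat_lit 1005166968) (nat_lit 0) (nat_lit 1007241498) (nat_lit 152) (nat_lit 1005166968) (nat_lit 44) (nat_lit 3) (nat_lit 44) (nat_lit 1) (nat_lit 46) (nat_lit 1) (nat_lit 413) (nat_lit 409) (nat_lit 198))) (XT.nd (nat_lit 78) (nat_lit 152) (nat_lit 0) (XT.lf (nat_lit 76) (nat_lit 988317261) (nat_lit 0) (nat_lit 990293004) (nat_lit 76) (nat_lit 990293004) (nat_lit 44) (nat_lit 3) (nat_lit 43) (nat_lit 1) (nat_lit 44) (nat_lit 1) (nat_lit 414) (nat_lit 409) (nat_lit 197)) (XT.lf (nat_lit 152) (nat_lit 2920561389) (nat_lit 0) (nat_lit 606987) (nat_lit 76) (nat_lit 606987) (nat_lit 43) (nat_lit 1) (nat_lit 41) (nat_lit 1) (nat_lit 42) (nat_lit 1) (nat_lit 415) (nat_lit 409) (nat_lit 196))))))))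
noncomputable def ec301 : XT := (XT.nd (nat_lit 1950) (nat_lit 228) (nat_lit 0) (XT.nd (nat_lit 936) (nat_lit 912) (nat_lit 0) (XT.nd (nat_lit 468) (nat_lit 456) (nat_lit 0) (XT.nd (nat_lit 234) (nat_lit 228) (nat_lit 0) (XT.nd (nat_lit 78) (nat_lit 228) (nat_lit 0) (XT.lf (nat_lit 0) (nat_lit 957390078) (nat_lit 0) (nat_lit 959096799) (nat_lit 152) (nat_lit 957390078) (nat_lit 41) (nat_lit 3) (nat_lit 41) (nat_lit 1) (nat_lit 43) (nat_lit 1) (nat_lit 416) (nat_lit 409) (nat_lit 195)) (XT.nd (nat_lit 78) (nat_lit 152) (nat_lit 0) (XT.lf (nat_lit 76) (nat_lit 941423964) (nat_lit 0) (nat_lit 943049413) (nat_lit 76) (nat_lit 943049413) (nat_lit 41) (nat_lit 3) (nat_lit 40) (nat_lit 1) (nat_lit 41) (nat_lit 1) (nat_lit 417) (nat_lit 409) (nat_lit 194)) (XT.lf (nat_lit 152) (nat_lit 2781640716) (nat_lit 0) (nat_lit 499369) (nat_lit 76) (nat_lit 499369) (nat_lit 40) (nat_lit 1) (nat_lit 38) (nat_lit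 1) (nat_lit 39) (nat_lit 1) (nat_lit 418) (nat_lit 409) (nat_lit 193)))) (XT.nd (nat_lit 78) (nat_lit 228) (nat_lit 0) (XT.lf (nat_lit 0) (nat_lit 911872640) (nat_lit 0) (nat_lit 913276763) (nat_lit 152) (nat_lit 911872640) (nat_lit 38) (nat_lit 3) (nat_lit 38) (nat_lit 1) (nat_lit 40) (nat_lit 1) (nat_lit 419) (nat_lit 409) (nat_lit 192)) (XT.nd (nat_lit 78) (nat_lit 152) (nat_lit 0) (XT.lf (nat_lit 76) (nat_lit 896733642) (nat_lit 0) (nat_lit 898070903) (nat_lit 76) (nat_lit 898070903) (nat_lit 38) (nat_lit 3) (nat_lit 37) (nat_lit 1) (nat_lit 38) (nat_lit 1) (nat_lit 420) (nat_lit 409) (nat_lit 191)) (XT.lf (nat_lit 152) (nat_lit 2649308065) (nat_lit 0) (nat_lit 410832) (nat_lit 76) (nat_lit 410832) (nat_lit 37) (nat_lit 1) (nat_lit 35) (nat_lit 1) (nat_lit 36) (nat_lit 1) (nat_lit 421) (nat_lit 409) (nat_lit 190))))) (XT.nd (nat_lit 234) (nat_lit 228) (nat_lit 0) (XT.nd (nat_lit 78) (nat_lit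 228) (nat_lit 0) (XT.lf (nat_lit 0) (nat_lit 868509833) (nat_lit 0) (nat_lit 869665009) (nat_lit 152) (nat_lit 868509833) (nat_lit 35) (nat_lit 3) (nat_lit 35) (nat_lit 1) (nat_lit 37) (nat_lit 1) (nat_lit 422) (nat_lit 409) (nat_lit 189)) (XT.nd (nat_lit 78) (nat_lit 152) (nat_lit 0) (XT.lf (nat_lit 76) (nat_lit 854146717) (nat_lit 0) (nat_lit 855246885) (nat_lit 76) (nat_lit 855246885) (nat_lit 35) (nat_lit 3) (nat_lit 34) (nat_lit 1) (nat_lit 35) (nat_lit 1) (nat_lit 423) (nat_lit 409) (nat_lit 188)) (XT.lf (nat_lit 152) (nat_lit 2523254554) (nat_lit 0) (nat_lit 337993) (nat_lit 76) (nat_lit 337993) (nat_lit 34) (nat_lit 1) (nat_lit 32) (nat_lit 1) (nat_lit 33) (nat_lit 1) (nat_lit 424) (nat_lit 409) (nat_lit 187)))) (XT.nd (nat_lit 78) (nat_lit 228) (nat_lit 0) (XT.lf (nat_lit 0) (nat_lit 827201337) (nat_lit 0) (nat_lit 828151703) (nat_lit 152) (nat_lit 827201337) (nat_lit 32) (nat_lit 3) (nat_lit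 32) (nat_lit 1) (nat_lit 34) (nat_lit 1) (nat_lit 425) (nat_lit 409) (nat_lit 186)) (XT.nd (nat_lit 78) (nat_lit 152) (nat_lit 0) (XT.lf (nat_lit 76) (nat_lit 813567409) (nat_lit 0) (nat_lit 814472519) (nat_lit 76) (nat_lit 814472519) (nat_lit 32) (nat_lit 3) (nat_lit 31) (nat_lit 1) (nat_lit 32) (nat_lit 1) (nat_lit 426) (nat_lit 409) (nat_lit 185)) (XT.lf (nat_lit 152) (nat_lit 2403185149) (nat_lit 0) (nat_lit 278067) (nat_lit 76) (nat_lit 278067) (nat_lit 31) (nat_lit 1) (nat_lit 29) (nat_lit 1) (nat_lit 30) (nat_lit 1) (nat_lit 427) (nat_lit 409) (nat_lit 184)))))) (XT.nd (nat_lit 468) (nat_lit 456) (nat_lit 0) (XT.nd (nat_lit 234) (nat_lit 228) (nat_lit 0) (XT.nd (nat_lit 78) (nat_lit 228) (nat_lit 0) (XT.lf (nat_lit 0) (nat_lit 787851204) (nat_lit 0) (nat_lit 788633073) (nat_lit 152) (nat_lit 787851204) (nat_lit 29) (nat_lit 3) (nat_lit 29) (nat_lit 1) (nat_lit 31) (nat_lit 1) (nat_lit 428)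 (nat_lit 409) (nat_lit 183)) (XT.nd (nat_lit 78) (nat_lit 152) (nat_lit 0) (XT.lf (nat_lit 76) (nat_lit 774903721) (nat_lit 0) (nat_lit 775648358) (nat_lit 76) (nat_lit 775648358) (nat_lit 29) (nat_lit 3) (nat_lit 28) (nat_lit 1) (nat_lit 29) (nat_lit 1) (nat_lit 429) (nat_lit 409) (nat_lit 182)) (XT.lf (nat_lit 152) (nat_lit 2288818162) (nat_lit 0) (nat_lit 228767) (nat_lit 76) (nat_lit 228767) (nat_lit 28) (nat_lit 1) (nat_lit 26) (nat_lit 1) (nat_lit 27) (nat_lit 1) (nat_lit 430) (nat_lit 409) (nat_lit 181)))) (XT.nd (nat_lit 78) (nat_lit 228) (nat_lit 0) (XT.lf (nat_lit 0) (nat_lit 750367723) (nat_lit 0) (nat_lit 751010969) (nat_lit 152) (nat_lit 750367723) (nat_lit 26) (nat_lit 3) (nat_lit 26) (nat_lit 1) (nat_lit 28) (nat_lit 1) (nat_lit 431) (nat_lit 409) (nat_lit 180)) (XT.nd (nat_lit 78) (nat_lit 152) (nat_lit 0) (XT.lf (nat_lit 76) (nat_lit 738067401) (nat_lit 0) (nat_lit 738680015) (nat_lit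 76) (nat_lit 738680015) (nat_lit 26) (nat_lit 3) (nat_lit 25) (nat_lit 1) (nat_lit 26) (nat_lit 1) (nat_lit 432) (nat_lit 409) (nat_lit 179)) (XT.lf (nat_lit 152) (nat_lit 2179884741) (nat_lit 0) (nat_lit 188207) (nat_lit 76) (nat_lit 188207) (nat_lit 25) (nat_lit 1) (nat_lit 23) (nat_lit 1) (nat_lit 24) (nat_lit 1) (nat_lit 433) (nat_lit 409) (nat_lit 178))))) (XT.nd (nat_lit 234) (nat_lit 228) (nat_lit 0) (XT.nd (nat_lit 78) (nat_lit 228) (nat_lit 0) (XT.lf (nat_lit 0) (nat_lit 714663276) (nat_lit 0) (nat_lit 715192476) (nat_lit 152) (nat_lit 714663276) (nat_lit 23) (nat_lit 3) (nat_lit 23) (nat_lit 1) (nat_lit 25) (nat_lit 1) (nat_lit 434) (nat_lit 409) (nat_lit 177)) (XT.nd (nat_lit 78) (nat_lit 152) (nat_lit 0) (XT.lf (nat_lit 76) (nat_lit 702973869) (nat_lit 0) (nat_lit 703477868) (nat_lit 76) (nat_lit 703477868) (nat_lit 23) (nat_lit 3) (nat_lit 22) (nat_lit 1) (nat_lit 23) (nat_lit 1) (nat_lit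 435) (nat_lit 409) (nat_lit 176)) (XT.lf (nat_lit 152) (nat_lit 2076128356) (nat_lit 0) (nat_lit 154838) (nat_lit 76) (nat_lit 154838) (nat_lit 22) (nat_lit 1) (nat_lit 20) (nat_lit 1) (nat_lit 21) (nat_lit 1) (nat_lit 436) (nat_lit 409) (nat_lit 175)))) (XT.nd (nat_lit 156) (nat_lit 152) (nat_lit 0) (XT.nd (nat_lit 78) (nat_lit 76) (nat_lit 0) (XT.lf (nat_lit 0) (nat_lit 680654192) (nat_lit 0) (nat_lit 681089566) (nat_lit 152) (nat_lit 680654192) (nat_lit 20) (nat_lit 3) (nat_lit 20) (nat_lit 1) (nat_lit 22) (nat_lit 1) (nat_lit 437) (nat_lit 409) (nat_lit 174)) (XT.lf (nat_lit 76) (nat_lit 669542143) (nat_lit 0) (nat_lit 669956785) (nat_lit 76) (nat_lit 669956785) (nat_lit 20) (nat_lit 3) (nat_lit 19) (nat_lit 1) (nat_lit 20) (nat_lit 1) (nat_lit 438) (nat_lit 409) (nat_lit 173))) (XT.nd (nat_lit 78) (nat_lit 0) (nat_lit 0) (XT.lf (nat_lit 152) (nat_lit 1977304303) (nat_lit 0) (nat_lit 127386)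 (nat_lit 76) (nat_lit 127386) (nat_lit 19) (nat_lit 1) (nat_lit 17) (nat_lit 1) (nat_lit 18) (nat_lit 1) (nat_lit 439) (nat_lit 409) (nat_lit 172)) (XT.lf (nat_lit 0) (nat_lit 648260598) (nat_lit 0) (nat_lit 648618781) (nat_lit 152) (nat_lit 648260598) (nat_lit 17) (nat_lit 3) (nat_lit 17) (nat_lit 1) (nat_lit 19) (nat_lit 1) (nat_lit 440) (nat_lit 409) (nat_lit 171))))))) (XT.nd (nat_lit 35100) (nat_lit 0) (nat_lit 18468) (XT.nd (nat_lit 34554) (nat_lit 0) (nat_lit 21204) (XT.nd (nat_lit 34320) (nat_lit 0) (nat_lit 21128) (XT.nd (nat_lit 78) (nat_lit 152) (nat_lit 0) (XT.lf (nat_lit 76) (nat_lit 637694742) (nat_lit 0) (nat_lit 638035868) (nat_lit 76) (nat_lit 638035868) (nat_lit 17) (nat_lit 3) (nat_lit 16) (nat_lit 1) (nat_lit 17) (nat_lit 1) (nat_lit 441) (nat_lit 409) (nat_lit 170)) (XT.nd (nat_lit 78) (nat_lit 0) (nat_lit 0) (XT.lf (nat_lit 152) (nat_lit 1883179207) (nat_lit 0) (nat_lit 104800)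 (nat_lit 76) (nat_lit 104800) (nat_lit 16) (nat_lit 1) (nat_lit 14) (nat_lit 1) (nat_lit 15) (nat_lit 1) (nat_lit 442) (nat_lit 409) (nat_lit 169)) (XT.lf (nat_lit 0) (nat_lit 617406275) (nat_lit 0) (nat_lit 617700953) (nat_lit 152) (nat_lit 617406275) (nat_lit 14) (nat_lit 3) (nat_lit 14) (nat_lit 1) (nat_lit 16) (nat_lit 1) (nat_lit 443) (nat_lit 409) (nat_lit 168)))) (XT.nd (nat_lit 78) (nat_lit 0) (nat_lit 0) (XT.lf (nat_lit 836) (nat_lit 16349354620) (nat_lit 0) (nat_lit 29028241548) (nat_lit 836) (nat_lit 16349354620) (nat_lit 303) (nat_lit 1) (nat_lit 292) (nat_lit 0) (nat_lit 303) (nat_lit 0) (nat_lit 200) (nat_lit 410) (nat_lit 410)) (XT.nd (nat_lit 78) (nat_lit 0) (nat_lit 76) (XT.lf (nat_lit 836) (nat_lit 63372139646) (nat_lit 76) (nat_lit 28560044104) (nat_lit 0) (nat_lit 28560044104) (nat_lit 303) (nat_lit 1) (nat_lit 293) (nat_lit 1) (nat_lit 292) (nat_lit 0) (nat_lit 201) (nat_lit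 410) (nat_lit 409)) (XT.lf (nat_lit 836) (nat_lit 30202207561) (nat_lit 0) (nat_lit 57217700253) (nat_lit 760) (nat_lit 30202207561) (nat_lit 304) (nat_lit 1) (nat_lit 293) (nat_lit 1) (nat_lit 303) (nat_lit 1) (nat_lit 202) (nat_lit 410) (nat_lit 408))))) (XT.nd (nat_lit 234) (nat_lit 0) (nat_lit 152) (XT.nd (nat_lit 78) (nat_lit 0) (nat_lit 76) (XT.lf (nat_lit 836) (nat_lit 56655144683) (nat_lit 76) (nat_lit 29094792115) (nat_lit 0) (nat_lit 29094792115) (nat_lit 304) (nat_lit 1) (nat_lit 294) (nat_lit 1) (nat_lit 293) (nat_lit 1) (nat_lit 203) (nat_lit 410) (nat_lit 407)) (XT.nd (nat_lit 78) (nat_lit 0) (nat_lit 0) (XT.lf (nat_lit 836) (nat_lit 26077819033) (nat_lit 0) (nat_lit 59999733604) (nat_lit 760) (nat_lit 26077819033) (nat_lit 305) (nat_lit 1) (nat_lit 294) (nat_lit 1) (nat_lit 304) (nat_lit 1) (nat_lit 204) (nat_lit 410) (nat_lit 406)) (XT.lf (nat_lit 836) (nat_lit 46902656031) (nat_lit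 76) (nat_lit 31322670141) (nat_lit 0) (nat_lit 31322670141) (nat_lit 305) (nat_lit 1) (nat_lit 295) (nat_lit 1) (nat_lit 294) (nat_lit 1) (nat_lit 205) (nat_lit 410) (nat_lit 405)))) (XT.nd (nat_lit 156) (nat_lit 0) (nat_lit 76) (XT.nd (nat_lit 78) (nat_lit 0) (nat_lit 0) (XT.lf (nat_lit 836) (nat_lit 20565459998) (nat_lit 0) (nat_lit 65897247596) (nat_lit 760) (nat_lit 20565459998) (nat_lit 306) (nat_lit 1) (nat_lit 295) (nat_lit 1) (nat_lit 305) (nat_lit 1) (nat_lit 206) (nat_lit 410) (nat_lit 404)) (XT.lf (nat_lit 836) (nat_lit 34571169704) (nat_lit 76) (nat_lit 35003274343) (nat_lit 0) (nat_lit 35003274343) (nat_lit 306) (nat_lit 1) (nat_lit 296) (nat_lit 1) (nat_lit 295) (nat_lit 1) (nat_lit 207) (nat_lit 410) (nat_lit 403))) (XT.nd (nat_lit 78) (nat_lit 0) (nat_lit 0) (XT.lf (nat_lit 836) (nat_lit 13878523992) (nat_lit 0) (nat_lit 74459921618) (nat_lit 760) (nat_lit 13878523992) (nat_lit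 307) (nat_lit 1) (nat_lit 296) (nat_lit 1) (nat_lit 306) (nat_lit 1) (nat_lit 208) (nat_lit 410) (nat_lit 402)) (XT.lf (nat_lit 836) (nat_lit 20066441775) (nat_lit 76) (nat_lit 39922503385) (nat_lit 0) (nat_lit 39922503385) (nat_lit 307) (nat_lit 1) (nat_lit 297) (nat_lit 1) (nat_lit 296) (nat_lit 1) (nat_lit 209) (nat_lit 410) (nat_lit 401)))))) (XT.nd (nat_lit 468) (nat_lit 1368) (nat_lit 0) (XT.nd (nat_lit 234) (nat_lit 380) (nat_lit 0) (XT.nd (nat_lit 78) (nat_lit 1292) (nat_lit 0) (XT.lf (nat_lit 76) (nat_lit 6206548423) (nat_lit 0) (nat_lit 85286952687) (nat_lit 760) (nat_lit 6206548423) (nat_lit 298) (nat_lit 1) (nat_lit 297) (nat_lit 1) (nat_lit 307) (nat_lit 1) (nat_lit 210) (nat_lit 410) (nat_lit 400)) (XT.nd (nat_lit 78) (nat_lit 532) (nat_lit 0) (XT.lf (nat_lit 836) (nat_lit 3748600904) (nat_lit 0) (nat_lit 45889924881) (nat_lit 760) (nat_lit 45889924881) (nat_lit 298) (nat_lit 1) (nat_lit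 287) (nat_lit 1) (nat_lit 297) (nat_lit 1) (nat_lit 211) (nat_lit 410) (nat_lit 399)) (XT.lf (nat_lit 532) (nat_lit 88959020326) (nat_lit 0) (nat_lit 2245563713) (nat_lit 456) (nat_lit 2245563713) (nat_lit 287) (nat_lit 1) (nat_lit 280) (nat_lit 1) (nat_lit 286) (nat_lit 1) (nat_lit 212) (nat_lit 410) (nat_lit 398)))) (XT.nd (nat_lit 78) (nat_lit 380) (nat_lit 0) (XT.lf (nat_lit 76) (nat_lit 38892728858) (nat_lit 0) (nat_lit 13613121987) (nat_lit 532) (nat_lit 38892728858) (nat_lit 281) (nat_lit 1) (nat_lit 280) (nat_lit 1) (nat_lit 287) (nat_lit 1) (nat_lit 213) (nat_lit 410) (nat_lit 397)) (XT.nd (nat_lit 78) (nat_lit 0) (nat_lit 0) (XT.lf (nat_lit 456) (nat_lit 66924403035) (nat_lit 0) (nat_lit 11254923395) (nat_lit 380) (nat_lit 11254923395) (nat_lit 281) (nat_lit 1) (nat_lit 275) (nat_lit 1) (nat_lit 280) (nat_lit 1) (nat_lit 214) (nat_lit 410) (nat_lit 396)) (XT.lf (nat_lit 76) (nat_lit 27741710036)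 (nat_lit 0) (nat_lit 32027795519) (nat_lit 456) (nat_lit 27741710036) (nat_lit 276) (nat_lit 1) (nat_lit 275) (nat_lit 1) (nat_lit 281) (nat_lit 1) (nat_lit 215) (nat_lit 410) (nat_lit 395))))) (XT.nd (nat_lit 234) (nat_lit 684) (nat_lit 0) (XT.nd (nat_lit 78) (nat_lit 304) (nat_lit 0) (XT.lf (nat_lit 456) (nat_lit 44070668474) (nat_lit 0) (nat_lit 20792243510) (nat_lit 380) (nat_lit 20792243510) (nat_lit 276) (nat_lit 1) (nat_lit 270) (nat_lit 1) (nat_lit 275) (nat_lit 1) (nat_lit 216) (nat_lit 410) (nat_lit 394)) (XT.nd (nat_lit 78) (nat_lit 304) (nat_lit 0) (XT.lf (nat_lit 76) (nat_lit 16239455631) (nat_lit 0) (nat_lit 51374164616) (nat_lit 456) (nat_lit 16239455631) (nat_lit 271) (nat_lit 1) (nat_lit 270) (nat_lit 1) (nat_lit 276) (nat_lit 1) (nat_lit 217) (nat_lit 410) (nat_lit 393)) (XT.lf (nat_lit 380) (nat_lit 20610526932) (nat_lit 0) (nat_lit 30743412381) (nat_lit 304) (nat_lit 30743412381)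 (nat_lit 271) (nat_lit 1) (nat_lit 266) (nat_lit 1) (nat_lit 270) (nat_lit 1) (nat_lit 218) (nat_lit 410) (nat_lit 392)))) (XT.nd (nat_lit 156) (nat_lit 304) (nat_lit 0) (XT.nd (nat_lit 78) (nat_lit 380) (nat_lit 0) (XT.lf (nat_lit 76) (nat_lit 4484713134) (nat_lit 0) (nat_lit 71439717750) (nat_lit 380) (nat_lit 4484713134) (nat_lit 267) (nat_lit 1) (nat_lit 266) (nat_lit 1) (nat_lit 271) (nat_lit 1) (nat_lit 219) (nat_lit 410) (nat_lit 391)) (XT.lf (nat_lit 76) (nat_lit 37789481556) (nat_lit 0) (nat_lit 3164942486) (nat_lit 380) (nat_lit 37789481556) (nat_lit 262) (nat_lit 1) (nat_lit 261) (nat_lit 1) (nat_lit 266) (nat_lit 1) (nat_lit 220) (nat_lit 410) (nat_lit 390))) (XT.nd (nat_lit 78) (nat_lit 0) (nat_lit 0) (XT.lf (nat_lit 380) (nat_lit 62509761957) (nat_lit 0) (nat_lit 7316160791) (nat_lit 304) (nat_lit 7316160791) (nat_lit 262) (nat_lit 1) (nat_lit 257) (nat_lit 1) (nat_lit 261) (nat_lit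 1) (nat_lit 221) (nat_lit 410) (nat_lit 389)) (XT.lf (nat_lit 76) (nat_lit 24519076759) (nat_lit 0) (nat_lit 26529587573) (nat_lit 380) (nat_lit 24519076759) (nat_lit 258) (nat_lit 1) (nat_lit 257) (nat_lit 1) (nat_lit 262) (nat_lit 1) (nat_lit 222) (nat_lit 410) (nat_lit 388))))))))
noncomputable def ec302 : XT := (XT.nd (nat_lit 1950) (nat_lit 2280) (nat_lit 0) (XT.nd (nat_lit 936) (nat_lit 1520) (nat_lit 0) (XT.nd (nat_lit 468) (nat_lit 760) (nat_lit 0) (XT.nd (nat_lit 234) (nat_lit 608) (nat_lit 0) (XT.nd (nat_lit 78) (nat_lit 228) (nat_lit 0) (XT.lf (nat_lit 380) (nat_lit 35780153669) (nat_lit 0) (nat_lit 19133918818) (nat_lit 304) (nat_lit 19133918818) (nat_lit 258) (nat_lit 1) (nat_lit 253) (nat_lit 1) (nat_lit 257) (nat_lit 1) (nat_lit 223) (nat_lit 410) (nat_lit 387)) (XT.nd (nat_lit 78) (nat_lit 228) (nat_lit 0) (XT.lf (nat_lit 76) (nat_lit 11283463625) (nat_lit 0) (nat_lit 50005751882)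 (nat_lit 380) (nat_lit 11283463625) (nat_lit 254) (nat_lit 1) (nat_lit 253) (nat_lit 1) (nat_lit 258) (nat_lit 1) (nat_lit 224) (nat_lit 410) (nat_lit 386)) (XT.lf (nat_lit 304) (nat_lit 9176357704) (nat_lit 0) (nat_lit 30976427670) (nat_lit 228) (nat_lit 30976427670) (nat_lit 254) (nat_lit 1) (nat_lit 250) (nat_lit 1) (nat_lit 253) (nat_lit 1) (nat_lit 225) (nat_lit 410) (nat_lit 385)))) (XT.nd (nat_lit 78) (nat_lit 228) (nat_lit 0) (XT.lf (nat_lit 380) (nat_lit 66074566945) (nat_lit 0) (nat_lit 1833442449) (nat_lit 304) (nat_lit 1833442449) (nat_lit 250) (nat_lit 1) (nat_lit 245) (nat_lit 1) (nat_lit 249) (nat_lit 1) (nat_lit 226) (nat_lit 410) (nat_lit 384)) (XT.nd (nat_lit 78) (nat_lit 228) (nat_lit 0) (XT.lf (nat_lit 76) (nat_lit 25855466526) (nat_lit 0) (nat_lit 16650438681) (nat_lit 380) (nat_lit 25855466526) (nat_lit 246) (nat_lit 1) (nat_lit 245) (nat_lit 1) (nat_lit 250) (nat_lit 1) (nat_lit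 227) (nat_lit 410) (nat_lit 383)) (XT.lf (nat_lit 304) (nat_lit 37762726265) (nat_lit 0) (nat_lit 14635747552) (nat_lit 228) (nat_lit 14635747552) (nat_lit 246) (nat_lit 1) (nat_lit 242) (nat_lit 1) (nat_lit 245) (nat_lit 1) (nat_lit 228) (nat_lit 410) (nat_lit 382))))) (XT.nd (nat_lit 234) (nat_lit 228) (nat_lit 0) (XT.nd (nat_lit 78) (nat_lit 532) (nat_lit 0) (XT.lf (nat_lit 76) (nat_lit 11929829356) (nat_lit 0) (nat_lit 41881130829) (nat_lit 304) (nat_lit 11929829356) (nat_lit 243) (nat_lit 1) (nat_lit 242) (nat_lit 1) (nat_lit 246) (nat_lit 1) (nat_lit 229) (nat_lit 410) (nat_lit 381)) (XT.nd (nat_lit 78) (nat_lit 304) (nat_lit 0) (XT.lf (nat_lit 304) (nat_lit 9943139887) (nat_lit 0) (nat_lit 27266821526) (nat_lit 228) (nat_lit 27266821526) (nat_lit 243) (nat_lit 1) (nat_lit 239) (nat_lit 1) (nat_lit 242) (nat_lit 1) (nat_lit 230) (nat_lit 410) (nat_lit 380)) (XT.lf (nat_lit 304) (nat_lit 59842073184)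 (nat_lit 0) (nat_lit 1708831301) (nat_lit 228) (nat_lit 1708831301) (nat_lit 239) (nat_lit 1) (nat_lit 235) (nat_lit 1) (nat_lit 238) (nat_lit 1) (nat_lit 231) (nat_lit 410) (nat_lit 379)))) (XT.nd (nat_lit 78) (nat_lit 228) (nat_lit 0) (XT.lf (nat_lit 76) (nat_lit 22636542516) (nat_lit 0) (nat_lit 16773450708) (nat_lit 304) (nat_lit 22636542516) (nat_lit 236) (nat_lit 1) (nat_lit 235) (nat_lit 1) (nat_lit 239) (nat_lit 1) (nat_lit 232) (nat_lit 410) (nat_lit 378)) (XT.nd (nat_lit 78) (nat_lit 0) (nat_lit 0) (XT.lf (nat_lit 304) (nat_lit 31127318695) (nat_lit 0) (nat_lit 14875452798) (nat_lit 228) (nat_lit 14875452798) (nat_lit 236) (nat_lit 1) (nat_lit 232) (nat_lit 1) (nat_lit 235) (nat_lit 1) (nat_lit 233) (nat_lit 410) (nat_lit 377)) (XT.lf (nat_lit 76) (nat_lit 8572438182) (nat_lit 0) (nat_lit 42596371123) (nat_lit 304) (nat_lit 8572438182) (nat_lit 233) (nat_lit 1) (nat_lit 232) (nat_lit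 1) (nat_lit 236) (nat_lit 1) (nat_lit 234) (nat_lit 410) (nat_lit 376)))))) (XT.nd (nat_lit 468) (nat_lit 684) (nat_lit 0) (XT.nd (nat_lit 234) (nat_lit 380) (nat_lit 0) (XT.nd (nat_lit 78) (nat_lit 304) (nat_lit 0) (XT.lf (nat_lit 228) (nat_lit 3141226377) (nat_lit 0) (nat_lit 27742234976) (nat_lit 152) (nat_lit 27742234976) (nat_lit 233) (nat_lit 1) (nat_lit 230) (nat_lit 1) (nat_lit 232) (nat_lit 1) (nat_lit 235) (nat_lit 410) (nat_lit 375)) (XT.nd (nat_lit 78) (nat_lit 0) (nat_lit 0) (XT.lf (nat_lit 304) (nat_lit 47462877268) (nat_lit 0) (nat_lit 5040901592) (nat_lit 228) (nat_lit 5040901592) (nat_lit 230) (nat_lit 1) (nat_lit 226) (nat_lit 1) (nat_lit 229) (nat_lit 1) (nat_lit 236) (nat_lit 410) (nat_lit 374)) (XT.lf (nat_lit 76) (nat_lit 16577656397) (nat_lit 0) (nat_lit 23320441907) (nat_lit 304) (nat_lit 16577656397) (nat_lit 227) (nat_lit 1) (nat_lit 226) (nat_lit 1) (nat_lit 230) (nat_lit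 1) (nat_lit 237) (nat_lit 410) (nat_lit 373)))) (XT.nd (nat_lit 78) (nat_lit 228) (nat_lit 0) (XT.lf (nat_lit 228) (nat_lit 19152924754) (nat_lit 0) (nat_lit 18143447087) (nat_lit 152) (nat_lit 18143447087) (nat_lit 227) (nat_lit 1) (nat_lit 224) (nat_lit 1) (nat_lit 226) (nat_lit 1) (nat_lit 238) (nat_lit 410) (nat_lit 372)) (XT.nd (nat_lit 78) (nat_lit 228) (nat_lit 0) (XT.lf (nat_lit 76) (nat_lit 2751667362) (nat_lit 0) (nat_lit 48934927166) (nat_lit 228) (nat_lit 2751667362) (nat_lit 225) (nat_lit 1) (nat_lit 224) (nat_lit 1) (nat_lit 227) (nat_lit 1) (nat_lit 239) (nat_lit 410) (nat_lit 371)) (XT.lf (nat_lit 76) (nat_lit 22709993505) (nat_lit 0) (nat_lit 8020358571) (nat_lit 228) (nat_lit 22709993505) (nat_lit 222) (nat_lit 1) (nat_lit 221) (nat_lit 1) (nat_lit 224) (nat_lit 1) (nat_lit 240) (nat_lit 410) (nat_lit 370))))) (XT.nd (nat_lit 234) (nat_lit 380) (nat_lit 0) (XT.nd (nat_lit 78)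 (nat_lit 152) (nat_lit 0) (XT.lf (nat_lit 228) (nat_lit 31536806251) (nat_lit 0) (nat_lit 10469365216) (nat_lit 152) (nat_lit 10469365216) (nat_lit 222) (nat_lit 1) (nat_lit 219) (nat_lit 1) (nat_lit 221) (nat_lit 1) (nat_lit 241) (nat_lit 410) (nat_lit 369)) (XT.nd (nat_lit 78) (nat_lit 152) (nat_lit 0) (XT.lf (nat_lit 76) (nat_lit 8898866256) (nat_lit 0) (nat_lit 33734319658) (nat_lit 228) (nat_lit 8898866256) (nat_lit 220) (nat_lit 1) (nat_lit 219) (nat_lit 1) (nat_lit 222) (nat_lit 1) (nat_lit 242) (nat_lit 410) (nat_lit 368)) (XT.lf (nat_lit 228) (nat_lit 4168798452) (nat_lit 0) (nat_lit 23219393712) (nat_lit 152) (nat_lit 23219393712) (nat_lit 220) (nat_lit 1) (nat_lit 217) (nat_lit 1) (nat_lit 219) (nat_lit 1) (nat_lit 243) (nat_lit 410) (nat_lit 367)))) (XT.nd (nat_lit 156) (nat_lit 152) (nat_lit 0) (XT.nd (nat_lit 78) (nat_lit 0) (nat_lit 0) (XT.lf (nat_lit 228) (nat_lit 40973644413) (nat_lit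 0) (nat_lit 4368131146) (nat_lit 152) (nat_lit 4368131146) (nat_lit 217) (nat_lit 1) (nat_lit 214) (nat_lit 1) (nat_lit 216) (nat_lit 1) (nat_lit 244) (nat_lit 410) (nat_lit 366)) (XT.lf (nat_lit 76) (nat_lit 13640226633) (nat_lit 0) (nat_lit 21539435862) (nat_lit 228) (nat_lit 13640226633) (nat_lit 215) (nat_lit 1) (nat_lit 214) (nat_lit 1) (nat_lit 217) (nat_lit 1) (nat_lit 245) (nat_lit 410) (nat_lit 365))) (XT.nd (nat_lit 78) (nat_lit 0) (nat_lit 0) (XT.lf (nat_lit 228) (nat_lit 13891908585) (nat_lit 0) (nat_lit 17031900705) (nat_lit 152) (nat_lit 17031900705) (nat_lit 215) (nat_lit 1) (nat_lit 212) (nat_lit 1) (nat_lit 214) (nat_lit 1) (nat_lit 246) (nat_lit 410) (nat_lit 364)) (XT.lf (nat_lit 76) (nat_lit 456588722) (nat_lit 0) (nat_lit 46208660225) (nat_lit 228) (nat_lit 456588722) (nat_lit 213) (nat_lit 1) (nat_lit 212) (nat_lit 1) (nat_lit 215) (nat_lit 1) (nat_lit 247) (nat_lit 410) (nat_lit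 363))))))) (XT.nd (nat_lit 936) (nat_lit 1064) (nat_lit 0) (XT.nd (nat_lit 468) (nat_lit 608) (nat_lit 0) (XT.nd (nat_lit 234) (nat_lit 304) (nat_lit 0) (XT.nd (nat_lit 78) (nat_lit 152) (nat_lit 0) (XT.lf (nat_lit 76) (nat_lit 17240045675) (nat_lit 0) (nat_lit 11802573470) (nat_lit 152) (nat_lit 17240045675) (nat_lit 211) (nat_lit 1) (nat_lit 210) (nat_lit 1) (nat_lit 212) (nat_lit 1) (nat_lit 248) (nat_lit 410) (nat_lit 362)) (XT.nd (nat_lit 78) (nat_lit 0) (nat_lit 0) (XT.lf (nat_lit 228) (nat_lit 21392934031) (nat_lit 0) (nat_lit 12040042133) (nat_lit 152) (nat_lit 12040042133) (nat_lit 211) (nat_lit 1) (nat_lit 208) (nat_lit 1) (nat_lit 210) (nat_lit 1) (nat_lit 249) (nat_lit 410) (nat_lit 361)) (XT.lf (nat_lit 76) (nat_lit 4289135421) (nat_lit 0) (nat_lit 36106955343) (nat_lit 228) (nat_lit 4289135421) (nat_lit 209) (nat_lit 1) (nat_lit 208) (nat_lit 1) (nat_lit 211) (nat_lit 1) (nat_lit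 250) (nat_lit 410) (nat_lit 360)))) (XT.nd (nat_lit 78) (nat_lit 152) (nat_lit 0) (XT.lf (nat_lit 76) (nat_lit 19915044878) (nat_lit 0) (nat_lit 4073840956) (nat_lit 152) (nat_lit 19915044878) (nat_lit 207) (nat_lit 1) (nat_lit 206) (nat_lit 1) (nat_lit 208) (nat_lit 1) (nat_lit 251) (nat_lit 410) (nat_lit 359)) (XT.nd (nat_lit 78) (nat_lit 0) (nat_lit 0) (XT.lf (nat_lit 228) (nat_lit 27089568779) (nat_lit 0) (nat_lit 8027139385) (nat_lit 152) (nat_lit 8027139385) (nat_lit 207) (nat_lit 1) (nat_lit 204) (nat_lit 1) (nat_lit 206) (nat_lit 1) (nat_lit 252) (nat_lit 410) (nat_lit 358)) (XT.lf (nat_lit 76) (nat_lit 7255823992) (nat_lit 0) (nat_lit 27887163632) (nat_lit 228) (nat_lit 7255823992) (nat_lit 205) (nat_lit 1) (nat_lit 204) (nat_lit 1) (nat_lit 207) (nat_lit 1) (nat_lit 253) (nat_lit 410) (nat_lit 357))))) (XT.nd (nat_lit 234) (nat_lit 304) (nat_lit 0) (XT.nd (nat_lit 78) (nat_lit 228) (nat_lit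 0) (XT.lf (nat_lit 152) (nat_lit 2082882838) (nat_lit 0) (nat_lit 19792476018) (nat_lit 76) (nat_lit 19792476018) (nat_lit 205) (nat_lit 1) (nat_lit 203) (nat_lit 1) (nat_lit 204) (nat_lit 1) (nat_lit 254) (nat_lit 410) (nat_lit 356)) (XT.nd (nat_lit 78) (nat_lit 0) (nat_lit 0) (XT.lf (nat_lit 228) (nat_lit 31324320998) (nat_lit 0) (nat_lit 4815154033) (nat_lit 152) (nat_lit 4815154033) (nat_lit 203) (nat_lit 1) (nat_lit 200) (nat_lit 1) (nat_lit 202) (nat_lit 1) (nat_lit 255) (nat_lit 410) (nat_lit 355)) (XT.lf (nat_lit 76) (nat_lit 9519043085) (nat_lit 0) (nat_lit 21211297691) (nat_lit 228) (nat_lit 9519043085) (nat_lit 201) (nat_lit 1) (nat_lit 200) (nat_lit 1) (nat_lit 203) (nat_lit 1) (nat_lit 256) (nat_lit 410) (nat_lit 354)))) (XT.nd (nat_lit 78) (nat_lit 228) (nat_lit 0) (XT.lf (nat_lit 152) (nat_lit 6994792439) (nat_lit 0) (nat_lit 16283319002) (nat_lit 76) (nat_lit 16283319002) (nat_lit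 201) (nat_lit 1) (nat_lit 199) (nat_lit 1) (nat_lit 200) (nat_lit 1) (nat_lit 257) (nat_lit 410) (nat_lit 353)) (XT.nd (nat_lit 78) (nat_lit 0) (nat_lit 0) (XT.lf (nat_lit 228) (nat_lit 34377897094) (nat_lit 0) (nat_lit 2257826374) (nat_lit 152) (nat_lit 2257826374) (nat_lit 199) (nat_lit 1) (nat_lit 196) (nat_lit 1) (nat_lit 198) (nat_lit 1) (nat_lit 258) (nat_lit 410) (nat_lit 352)) (XT.lf (nat_lit 76) (nat_lit 11211967665) (nat_lit 0) (nat_lit 15801500586) (nat_lit 228) (nat_lit 11211967665) (nat_lit 197) (nat_lit 1) (nat_lit 196) (nat_lit 1) (nat_lit 199) (nat_lit 1) (nat_lit 259) (nat_lit 410) (nat_lit 351)))))) (XT.nd (nat_lit 468) (nat_lit 532) (nat_lit 0) (XT.nd (nat_lit 234) (nat_lit 228) (nat_lit 0) (XT.nd (nat_lit 78) (nat_lit 228) (nat_lit 0) (XT.lf (nat_lit 152) (nat_lit 10784346930) (nat_lit 0) (nat_lit 13396326841) (nat_lit 76) (nat_lit 13396326841) (nat_lit 197) (nat_lit 1) (nat_lit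 195) (nat_lit 1) (nat_lit 196) (nat_lit 1) (nat_lit 260) (nat_lit 410) (nat_lit 350)) (XT.nd (nat_lit 78) (nat_lit 0) (nat_lit 0) (XT.lf (nat_lit 228) (nat_lit 36480210244) (nat_lit 0) (nat_lit 235030997) (nat_lit 152) (nat_lit 235030997) (nat_lit 195) (nat_lit 1) (nat_lit 192) (nat_lit 1) (nat_lit 194) (nat_lit 1) (nat_lit 261) (nat_lit 410) (nat_lit 349)) (XT.lf (nat_lit 76) (nat_lit 12443758652) (nat_lit 0) (nat_lit 11429375049) (nat_lit 228) (nat_lit 12443758652) (nat_lit 193) (nat_lit 1) (nat_lit 192) (nat_lit 1) (nat_lit 195) (nat_lit 1) (nat_lit 262) (nat_lit 410) (nat_lit 348)))) (XT.nd (nat_lit 78) (nat_lit 152) (nat_lit 0) (XT.lf (nat_lit 152) (nat_lit 13662512603) (nat_lit 0) (nat_lit 11021191245) (nat_lit 76) (nat_lit 11021191245) (nat_lit 193) (nat_lit 1) (nat_lit 191) (nat_lit 1) (nat_lit 192) (nat_lit 1) (nat_lit 263) (nat_lit 410) (nat_lit 347)) (XT.nd (nat_lit 78) (nat_lit 152)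 (nat_lit 0) (XT.lf (nat_lit 0) (nat_lit 1374028159) (nat_lit 0) (nat_lit 32363318736) (nat_lit 152) (nat_lit 1374028159) (nat_lit 191) (nat_lit 3) (nat_lit 191) (nat_lit 1) (nat_lit 193) (nat_lit 1) (nat_lit 264) (nat_lit 410) (nat_lit 346)) (XT.lf (nat_lit 76) (nat_lit 13303839712) (nat_lit 0) (nat_lit 7907205053) (nat_lit 152) (nat_lit 13303839712) (nat_lit 190) (nat_lit 1) (nat_lit 189) (nat_lit 1) (nat_lit 191) (nat_lit 1) (nat_lit 265) (nat_lit 410) (nat_lit 345))))) (XT.nd (nat_lit 234) (nat_lit 304) (nat_lit 0) (XT.nd (nat_lit 78) (nat_lit 152) (nat_lit 0) (XT.lf (nat_lit 152) (nat_lit 15802281688) (nat_lit 0) (nat_lit 9067161312) (nat_lit 76) (nat_lit 9067161312) (nat_lit 190) (nat_lit 1) (nat_lit 188) (nat_lit 1) (nat_lit 189) (nat_lit 1) (nat_lit 266) (nat_lit 410) (nat_lit 344)) (XT.nd (nat_lit 78) (nat_lit 152) (nat_lit 0) (XT.lf (nat_lit 0) (nat_lit 2626186451) (nat_lit 0) (nat_lit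 28121152501) (nat_lit 152) (nat_lit 2626186451) (nat_lit 188) (nat_lit 3) (nat_lit 188) (nat_lit 1) (nat_lit 190) (nat_lit 1) (nat_lit 267) (nat_lit 410) (nat_lit 343)) (XT.lf (nat_lit 76) (nat_lit 13865414877) (nat_lit 0) (nat_lit 5080734229) (nat_lit 152) (nat_lit 13865414877) (nat_lit 187) (nat_lit 1) (nat_lit 186) (nat_lit 1) (nat_lit 188) (nat_lit 1) (nat_lit 268) (nat_lit 410) (nat_lit 342)))) (XT.nd (nat_lit 156) (nat_lit 228) (nat_lit 0) (XT.nd (nat_lit 78) (nat_lit 0) (nat_lit 0) (XT.lf (nat_lit 152) (nat_lit 17345432211) (nat_lit 0) (nat_lit 7459576051) (nat_lit 76) (nat_lit 7459576051) (nat_lit 187) (nat_lit 1) (nat_lit 185) (nat_lit 1) (nat_lit 186) (nat_lit 1) (nat_lit 269) (nat_lit 410) (nat_lit 341)) (XT.lf (nat_lit 0) (nat_lit 3585113030) (nat_lit 0) (nat_lit 24559884694) (nat_lit 152) (nat_lit 3585113030) (nat_lit 185) (nat_lit 3) (nat_lit 185) (nat_lit 1) (nat_lit 187) (nat_lit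 1) (nat_lit 270) (nat_lit 410) (nat_lit 340))) (XT.nd (nat_lit 78) (nat_lit 76) (nat_lit 0) (XT.lf (nat_lit 76) (nat_lit 14188361630) (nat_lit 0) (nat_lit 2823225064) (nat_lit 152) (nat_lit 14188361630) (nat_lit 184) (nat_lit 1) (nat_lit 183) (nat_lit 1) (nat_lit 185) (nat_lit 1) (nat_lit 271) (nat_lit 410) (nat_lit 339)) (XT.lf (nat_lit 152) (nat_lit 18408088063) (nat_lit 0) (nat_lit 6137011678) (nat_lit 76) (nat_lit 6137011678) (nat_lit 184) (nat_lit 1) (nat_lit 182) (nat_lit 1) (nat_lit 183) (nat_lit 1) (nat_lit 272) (nat_lit 410) (nat_lit 338))))))))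
noncomputable def ec303 : XT := (XT.nd (nat_lit 1950) (nat_lit 2052) (nat_lit 0) (XT.nd (nat_lit 936) (nat_lit 912) (nat_lit 0) (XT.nd (nat_lit 468) (nat_lit 456) (nat_lit 0) (XT.nd (nat_lit 234) (nat_lit 228) (nat_lit 0) (XT.nd (nat_lit 78) (nat_lit 228) (nat_lit 0) (XT.lf (nat_lit 0) (nat_lit 4306188922) (nat_lit 0) (nat_lit 21562185478) (nat_lit 152) (nat_lit 4306188922) (nat_lit 182) (nat_lit 3) (nat_lit 182) (nat_lit 1) (nat_lit 184) (nat_lit 1) (nat_lit 273) (nat_lit 410) (nat_lit 337)) (XT.nd (nat_lit 78) (nat_lit 76) (nat_lit 0) (XT.lf (nat_lit 76) (nat_lit 14321610223) (nat_lit 0) (nat_lit 1030571809) (nat_lit 152) (nat_lit 14321610223) (nat_lit 181) (nat_lit 1) (nat_lit 180) (nat_lit 1) (nat_lit 182) (nat_lit 1) (nat_lit 274) (nat_lit 410) (nat_lit 336)) (XT.lf (nat_lit 152) (nat_lit 19085292040) (nat_lit 0) (nat_lit 5048934695) (nat_lit 76) (nat_lit 5048934695) (nat_lit 181) (nat_lit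 1) (nat_lit 179) (nat_lit 1) (nat_lit 180) (nat_lit 1) (nat_lit 275) (nat_lit 410) (nat_lit 335)))) (XT.nd (nat_lit 78) (nat_lit 228) (nat_lit 0) (XT.lf (nat_lit 0) (nat_lit 4834814720) (nat_lit 0) (nat_lit 19031365792) (nat_lit 152) (nat_lit 4834814720) (nat_lit 179) (nat_lit 3) (nat_lit 179) (nat_lit 1) (nat_lit 181) (nat_lit 1) (nat_lit 276) (nat_lit 410) (nat_lit 334)) (XT.nd (nat_lit 78) (nat_lit 152) (nat_lit 0) (XT.lf (nat_lit 76) (nat_lit 395374215) (nat_lit 0) (nat_lit 13915899045) (nat_lit 76) (nat_lit 13915899045) (nat_lit 179) (nat_lit 3) (nat_lit 178) (nat_lit 1) (nat_lit 179) (nat_lit 1) (nat_lit 277) (nat_lit 410) (nat_lit 333)) (XT.lf (nat_lit 152) (nat_lit 19454766931) (nat_lit 0) (nat_lit 4153771069) (nat_lit 76) (nat_lit 4153771069) (nat_lit 178) (nat_lit 1) (nat_lit 176) (nat_lit 1) (nat_lit 177) (nat_lit 1) (nat_lit 278) (nat_lit 410) (nat_lit 332))))) (XT.nd (nat_lit 234)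 (nat_lit 228) (nat_lit 0) (XT.nd (nat_lit 78) (nat_lit 228) (nat_lit 0) (XT.lf (nat_lit 0) (nat_lit 5208187786) (nat_lit 0) (nat_lit 16887725486) (nat_lit 152) (nat_lit 5208187786) (nat_lit 176) (nat_lit 3) (nat_lit 176) (nat_lit 1) (nat_lit 178) (nat_lit 1) (nat_lit 279) (nat_lit 410) (nat_lit 331)) (XT.nd (nat_lit 78) (nat_lit 152) (nat_lit 0) (XT.lf (nat_lit 76) (nat_lit 1536001132) (nat_lit 0) (nat_lit 12659370370) (nat_lit 76) (nat_lit 12659370370) (nat_lit 176) (nat_lit 3) (nat_lit 175) (nat_lit 1) (nat_lit 176) (nat_lit 1) (nat_lit 280) (nat_lit 410) (nat_lit 330)) (XT.lf (nat_lit 152) (nat_lit 19580008651) (nat_lit 0) (nat_lit 3417317738) (nat_lit 76) (nat_lit 3417317738) (nat_lit 175) (nat_lit 1) (nat_lit 173) (nat_lit 1) (nat_lit 174) (nat_lit 1) (nat_lit 281) (nat_lit 410) (nat_lit 329)))) (XT.nd (nat_lit 78) (nat_lit 228) (nat_lit 0) (XT.lf (nat_lit 0) (nat_lit 5456763980) (nat_lit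 0) (nat_lit 15065548551) (nat_lit 152) (nat_lit 5456763980) (nat_lit 173) (nat_lit 3) (nat_lit 173) (nat_lit 1) (nat_lit 175) (nat_lit 1) (nat_lit 282) (nat_lit 410) (nat_lit 328)) (XT.nd (nat_lit 78) (nat_lit 152) (nat_lit 0) (XT.lf (nat_lit 76) (nat_lit 2416744110) (nat_lit 0) (nat_lit 11567967510) (nat_lit 76) (nat_lit 11567967510) (nat_lit 173) (nat_lit 3) (nat_lit 172) (nat_lit 1) (nat_lit 173) (nat_lit 1) (nat_lit 283) (nat_lit 410) (nat_lit 327)) (XT.lf (nat_lit 152) (nat_lit 19512829907) (nat_lit 0) (nat_lit 2811435760) (nat_lit 76) (nat_lit 2811435760) (nat_lit 172) (nat_lit 1) (nat_lit 170) (nat_lit 1) (nat_lit 171) (nat_lit 1) (nat_lit 284) (nat_lit 410) (nat_lit 326)))))) (XT.nd (nat_lit 468) (nat_lit 456) (nat_lit 0) (XT.nd (nat_lit 234) (nat_lit 228) (nat_lit 0) (XT.nd (nat_lit 78) (nat_lit 228) (nat_lit 0) (XT.lf (nat_lit 0) (nat_lit 5605459898) (nat_lit 0) (nat_lit 13510630743)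 (nat_lit 152) (nat_lit 5605459898) (nat_lit 170) (nat_lit 3) (nat_lit 170) (nat_lit 1) (nat_lit 172) (nat_lit 1) (nat_lit 285) (nat_lit 410) (nat_lit 325)) (XT.nd (nat_lit 78) (nat_lit 152) (nat_lit 0) (XT.lf (nat_lit 76) (nat_lit 3086425339) (nat_lit 0) (nat_lit 10615159477) (nat_lit 76) (nat_lit 10615159477) (nat_lit 170) (nat_lit 3) (nat_lit 169) (nat_lit 1) (nat_lit 170) (nat_lit 1) (nat_lit 286) (nat_lit 410) (nat_lit 324)) (XT.lf (nat_lit 152) (nat_lit 19295451868) (nat_lit 0) (nat_lit 2312975157) (nat_lit 76) (nat_lit 2312975157) (nat_lit 169) (nat_lit 1) (nat_lit 167) (nat_lit 1) (nat_lit 168) (nat_lit 1) (nat_lit 287) (nat_lit 410) (nat_lit 323)))) (XT.nd (nat_lit 78) (nat_lit 228) (nat_lit 0) (XT.lf (nat_lit 0) (nat_lit 5674641603) (nat_lit 0) (nat_lit 12178245222) (nat_lit 152) (nat_lit 5674641603) (nat_lit 167) (nat_lit 3) (nat_lit 167) (nat_lit 1) (nat_lit 169) (nat_lit 1) (nat_lit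 288) (nat_lit 410) (nat_lit 322)) (XT.nd (nat_lit 78) (nat_lit 152) (nat_lit 0) (XT.lf (nat_lit 76) (nat_lit 3585080220) (nat_lit 0) (nat_lit 9778988428) (nat_lit 76) (nat_lit 9778988428) (nat_lit 167) (nat_lit 3) (nat_lit 166) (nat_lit 1) (nat_lit 167) (nat_lit 1) (nat_lit 289) (nat_lit 410) (nat_lit 321)) (XT.lf (nat_lit 152) (nat_lit 18962224016) (nat_lit 0) (nat_lit 1902890386) (nat_lit 76) (nat_lit 1902890386) (nat_lit 166) (nat_lit 1) (nat_lit 164) (nat_lit 1) (nat_lit 165) (nat_lit 1) (nat_lit 290) (nat_lit 410) (nat_lit 320))))) (XT.nd (nat_lit 234) (nat_lit 228) (nat_lit 0) (XT.nd (nat_lit 78) (nat_lit 228) (nat_lit 0) (XT.lf (nat_lit 0) (nat_lit 5680937760) (nat_lit 0) (nat_lit 11031468552) (nat_lit 152) (nat_lit 5680937760) (nat_lit 164) (nat_lit 3) (nat_lit 164) (nat_lit 1) (nat_lit 166) (nat_lit 1) (nat_lit 291) (nat_lit 410) (nat_lit 319)) (XT.nd (nat_lit 78) (nat_lit 152) (nat_lit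 0) (XT.lf (nat_lit 76) (nat_lit 3945521470) (nat_lit 0) (nat_lit 9041265081) (nat_lit 76) (nat_lit 9041265081) (nat_lit 164) (nat_lit 3) (nat_lit 163) (nat_lit 1) (nat_lit 164) (nat_lit 1) (nat_lit 292) (nat_lit 410) (nat_lit 318)) (XT.lf (nat_lit 152) (nat_lit 18541038161) (nat_lit 0) (nat_lit 1565512630) (nat_lit 76) (nat_lit 1565512630) (nat_lit 163) (nat_lit 1) (nat_lit 161) (nat_lit 1) (nat_lit 162) (nat_lit 1) (nat_lit 293) (nat_lit 410) (nat_lit 317)))) (XT.nd (nat_lit 156) (nat_lit 152) (nat_lit 0) (XT.nd (nat_lit 78) (nat_lit 76) (nat_lit 0) (XT.lf (nat_lit 0) (nat_lit 5637908287) (nat_lit 0) (nat_lit 10039803211) (nat_lit 152) (nat_lit 5637908287) (nat_lit 161) (nat_lit 3) (nat_lit 161) (nat_lit 1) (nat_lit 163) (nat_lit 1) (nat_lit 294) (nat_lit 410) (nat_lit 316)) (XT.lf (nat_lit 76) (nat_lit 4194625612) (nat_lit 0) (nat_lit 8386906492) (nat_lit 76) (nat_lit 8386906492) (nat_lit 161)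 (nat_lit 3) (nat_lit 160) (nat_lit 1) (nat_lit 161) (nat_lit 1) (nat_lit 295) (nat_lit 410) (nat_lit 315))) (XT.nd (nat_lit 78) (nat_lit 0) (nat_lit 0) (XT.lf (nat_lit 152) (nat_lit 18054490872) (nat_lit 0) (nat_lit 1287951115) (nat_lit 76) (nat_lit 1287951115) (nat_lit 160) (nat_lit 1) (nat_lit 158) (nat_lit 1) (nat_lit 159) (nat_lit 1) (nat_lit 296) (nat_lit 410) (nat_lit 314)) (XT.lf (nat_lit 0) (nat_lit 5556594180) (nat_lit 0) (nat_lit 9178044027) (nat_lit 152) (nat_lit 5556594180) (nat_lit 158) (nat_lit 3) (nat_lit 158) (nat_lit 1) (nat_lit 160) (nat_lit 1) (nat_lit 297) (nat_lit 410) (nat_lit 313))))))) (XT.nd (nat_lit 1014) (nat_lit 1064) (nat_lit 0) (XT.nd (nat_lit 468) (nat_lit 532) (nat_lit 0) (XT.nd (nat_lit 234) (nat_lit 228) (nat_lit 0) (XT.nd (nat_lit 78) (nat_lit 152) (nat_lit 0) (XT.lf (nat_lit 76) (nat_lit 4354391094) (nat_lit 0) (nat_lit 7803390949) (nat_lit 76) (nat_lit 7803390949)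 (nat_lit 158) (nat_lit 3) (nat_lit 157) (nat_lit 1) (nat_lit 158) (nat_lit 1) (nat_lit 298) (nat_lit 410) (nat_lit 312)) (XT.nd (nat_lit 78) (nat_lit 0) (nat_lit 0) (XT.lf (nat_lit 152) (nat_lit 17520838979) (nat_lit 0) (nat_lit 1059600569) (nat_lit 76) (nat_lit 1059600569) (nat_lit 157) (nat_lit 1) (nat_lit 155) (nat_lit 1) (nat_lit 156) (nat_lit 1) (nat_lit 299) (nat_lit 410) (nat_lit 311)) (XT.lf (nat_lit 0) (nat_lit 5445969572) (nat_lit 0) (nat_lit 8425345324) (nat_lit 152) (nat_lit 5445969572) (nat_lit 155) (nat_lit 3) (nat_lit 155) (nat_lit 1) (nat_lit 157) (nat_lit 1) (nat_lit 300) (nat_lit 410) (nat_lit 310)))) (XT.nd (nat_lit 78) (nat_lit 152) (nat_lit 0) (XT.lf (nat_lit 76) (nat_lit 4442808542) (nat_lit 0) (nat_lit 7280309258) (nat_lit 76) (nat_lit 7280309258) (nat_lit 155) (nat_lit 3) (nat_lit 154) (nat_lit 1) (nat_lit 155) (nat_lit 1) (nat_lit 301) (nat_lit 410) (nat_lit 309)) (XT.nd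 (nat_lit 78) (nat_lit 0) (nat_lit 0) (XT.lf (nat_lit 152) (nat_lit 16954784882) (nat_lit 0) (nat_lit 871736011) (nat_lit 76) (nat_lit 871736011) (nat_lit 154) (nat_lit 1) (nat_lit 152) (nat_lit 1) (nat_lit 153) (nat_lit 1) (nat_lit 302) (nat_lit 410) (nat_lit 308)) (XT.lf (nat_lit 0) (nat_lit 5313313397) (nat_lit 0) (nat_lit 7764453201) (nat_lit 152) (nat_lit 5313313397) (nat_lit 152) (nat_lit 3) (nat_lit 152) (nat_lit 1) (nat_lit 154) (nat_lit 1) (nat_lit 303) (nat_lit 410) (nat_lit 307))))) (XT.nd (nat_lit 234) (nat_lit 304) (nat_lit 0) (XT.nd (nat_lit 78) (nat_lit 152) (nat_lit 0) (XT.lf (nat_lit 76) (nat_lit 4474576451) (nat_lit 0) (nat_lit 6808995313) (nat_lit 76) (nat_lit 6808995313) (nat_lit 152) (nat_lit 3) (nat_lit 151) (nat_lit 1) (nat_lit 152) (nat_lit 1) (nat_lit 304) (nat_lit 410) (nat_lit 306)) (XT.nd (nat_lit 78) (nat_lit 0) (nat_lit 0) (XT.lf (nat_lit 152) (nat_lit 16368121857)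 (nat_lit 0) (nat_lit 717179373) (nat_lit 76) (nat_lit 717179373) (nat_lit 151) (nat_lit 1) (nat_lit 149) (nat_lit 1) (nat_lit 150) (nat_lit 1) (nat_lit 305) (nat_lit 410) (nat_lit 305)) (XT.lf (nat_lit 0) (nat_lit 5164514892) (nat_lit 0) (nat_lit 7181073675) (nat_lit 152) (nat_lit 5164514892) (nat_lit 149) (nat_lit 3) (nat_lit 149) (nat_lit 1) (nat_lit 151) (nat_lit 1) (nat_lit 306) (nat_lit 410) (nat_lit 304)))) (XT.nd (nat_lit 156) (nat_lit 76) (nat_lit 0) (XT.nd (nat_lit 78) (nat_lit 152) (nat_lit 0) (XT.lf (nat_lit 76) (nat_lit 4461689757) (nat_lit 0) (nat_lit 6382221931) (nat_lit 76) (nat_lit 6382221931) (nat_lit 149) (nat_lit 3) (nat_lit 148) (nat_lit 1) (nat_lit 149) (nat_lit 1) (nat_lit 307) (nat_lit 410) (nat_lit 303)) (XT.lf (nat_lit 152) (nat_lit 15770264240) (nat_lit 0) (nat_lit 590025245) (nat_lit 76) (nat_lit 590025245) (nat_lit 148) (nat_lit 1) (nat_lit 146) (nat_lit 1) (nat_lit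 147) (nat_lit 1) (nat_lit 308) (nat_lit 410) (nat_lit 302))) (XT.nd (nat_lit 78) (nat_lit 76) (nat_lit 0) (XT.lf (nat_lit 0) (nat_lit 5004324717) (nat_lit 0) (nat_lit 6663352619) (nat_lit 152) (nat_lit 5004324717) (nat_lit 146) (nat_lit 3) (nat_lit 146) (nat_lit 1) (nat_lit 148) (nat_lit 1) (nat_lit 309) (nat_lit 410) (nat_lit 301)) (XT.lf (nat_lit 76) (nat_lit 4413923811) (nat_lit 0) (nat_lit 5993950384) (nat_lit 76) (nat_lit 5993950384) (nat_lit 146) (nat_lit 3) (nat_lit 145) (nat_lit 1) (nat_lit 146) (nat_lit 1) (nat_lit 310) (nat_lit 410) (nat_lit 300)))))) (XT.nd (nat_lit 468) (nat_lit 608) (nat_lit 0) (XT.nd (nat_lit 234) (nat_lit 228) (nat_lit 0) (XT.nd (nat_lit 78) (nat_lit 76) (nat_lit 0) (XT.lf (nat_lit 152) (nat_lit 15168682924) (nat_lit 0) (nat_lit 485415229) (nat_lit 76) (nat_lit 485415229) (nat_lit 145) (nat_lit 1) (nat_lit 143) (nat_lit 1) (nat_lit 144) (nat_lit 1) (nat_lit 311)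 (nat_lit 410) (nat_lit 299)) (XT.nd (nat_lit 78) (nat_lit 76) (nat_lit 0) (XT.lf (nat_lit 0) (nat_lit 4836561315) (nat_lit 0) (nat_lit 6201447675) (nat_lit 152) (nat_lit 4836561315) (nat_lit 143) (nat_lit 3) (nat_lit 143) (nat_lit 1) (nat_lit 145) (nat_lit 1) (nat_lit 312) (nat_lit 410) (nat_lit 298)) (XT.lf (nat_lit 76) (nat_lit 4339232335) (nat_lit 0) (nat_lit 5639124107) (nat_lit 76) (nat_lit 5639124107) (nat_lit 143) (nat_lit 3) (nat_lit 142) (nat_lit 1) (nat_lit 143) (nat_lit 1) (nat_lit 313) (nat_lit 410) (nat_lit 297)))) (XT.nd (nat_lit 78) (nat_lit 76) (nat_lit 0) (XT.lf (nat_lit 152) (nat_lit 14569262986) (nat_lit 0) (nat_lit 399352310) (nat_lit 76) (nat_lit 399352310) (nat_lit 142) (nat_lit 1) (nat_lit 140) (nat_lit 1) (nat_lit 141) (nat_lit 1) (nat_lit 314) (nat_lit 410) (nat_lit 296)) (XT.nd (nat_lit 78) (nat_lit 76) (nat_lit 0) (XT.lf (nat_lit 0) (nat_lit 4664280473) (nat_lit 0) (nat_lit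 5787175860) (nat_lit 152) (nat_lit 4664280473) (nat_lit 140) (nat_lit 3) (nat_lit 140) (nat_lit 1) (nat_lit 142) (nat_lit 1) (nat_lit 315) (nat_lit 410) (nat_lit 295)) (XT.lf (nat_lit 76) (nat_lit 4244074602) (nat_lit 0) (nat_lit 5313498779) (nat_lit 76) (nat_lit 5313498779) (nat_lit 140) (nat_lit 3) (nat_lit 139) (nat_lit 1) (nat_lit 140) (nat_lit 1) (nat_lit 316) (nat_lit 410) (nat_lit 294))))) (XT.nd (nat_lit 234) (nat_lit 380) (nat_lit 0) (XT.nd (nat_lit 78) (nat_lit 76) (nat_lit 0) (XT.lf (nat_lit 152) (nat_lit 13976597290) (nat_lit 0) (nat_lit 328548134) (nat_lit 76) (nat_lit 328548134) (nat_lit 139) (nat_lit 1) (nat_lit 137) (nat_lit 1) (nat_lit 138) (nat_lit 1) (nat_lit 317) (nat_lit 410) (nat_lit 293)) (XT.nd (nat_lit 78) (nat_lit 76) (nat_lit 0) (XT.lf (nat_lit 0) (nat_lit 4489914622) (nat_lit 0) (nat_lit 5413723435) (nat_lit 152) (nat_lit 4489914622) (nat_lit 137) (nat_lit 3) (nat_lit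 137) (nat_lit 1) (nat_lit 139) (nat_lit 1) (nat_lit 318) (nat_lit 410) (nat_lit 292)) (XT.lf (nat_lit 76) (nat_lit 4133684412) (nat_lit 0) (nat_lit 5013502330) (nat_lit 76) (nat_lit 5013502330) (nat_lit 137) (nat_lit 3) (nat_lit 136) (nat_lit 1) (nat_lit 137) (nat_lit 1) (nat_lit 319) (nat_lit 410) (nat_lit 291)))) (XT.nd (nat_lit 156) (nat_lit 228) (nat_lit 0) (XT.nd (nat_lit 78) (nat_lit 0) (nat_lit 0) (XT.lf (nat_lit 152) (nat_lit 13394227443) (nat_lit 0) (nat_lit 270297363) (nat_lit 76) (nat_lit 270297363) (nat_lit 136) (nat_lit 1) (nat_lit 134) (nat_lit 1) (nat_lit 135) (nat_lit 1) (nat_lit 320) (nat_lit 410) (nat_lit 290)) (XT.lf (nat_lit 0) (nat_lit 4315387236) (nat_lit 0) (nat_lit 5075407033) (nat_lit 152) (nat_lit 4315387236) (nat_lit 134) (nat_lit 3) (nat_lit 134) (nat_lit 1) (nat_lit 136) (nat_lit 1) (nat_lit 321) (nat_lit 410) (nat_lit 289))) (XT.nd (nat_lit 78) (nat_lit 152) (nat_lit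 0) (XT.lf (nat_lit 76) (nat_lit 4012291191) (nat_lit 0) (nat_lit 4736119569) (nat_lit 76) (nat_lit 4736119569) (nat_lit 134) (nat_lit 3) (nat_lit 133) (nat_lit 1) (nat_lit 134) (nat_lit 1) (nat_lit 322) (nat_lit 410) (nat_lit 288)) (XT.lf (nat_lit 152) (nat_lit 12824841459) (nat_lit 0) (nat_lit 222374309) (nat_lit 76) (nat_lit 222374309) (nat_lit 133) (nat_lit 1) (nat_lit 131) (nat_lit 1) (nat_lit 132) (nat_lit 1) (nat_lit 323) (nat_lit 410) (nat_lit 287))))))))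
noncomputable def ec304 : XT := (XT.nd (nat_lit 1950) (nat_lit 1900) (nat_lit 0) (XT.nd (nat_lit 936) (nat_lit 912) (nat_lit 0) (XT.nd (nat_lit 468) (nat_lit 456) (nat_lit 0) (XT.nd (nat_lit 234) (nat_lit 228) (nat_lit 0) (XT.nd (nat_lit 78) (nat_lit 228) (nat_lit 0) (XT.lf (nat_lit 0) (nat_lit 4142206773) (nat_lit 0) (nat_lit 4767476941) (nat_lit 152) (nat_lit 4142206773) (nat_lit 131) (nat_lit 3) (nat_lit 131) (nat_lit 1) (nat_lit 133) (nat_lit 1) (nat_lit 324) (nat_lit 410) (nat_lit 286)) (XT.nd (nat_lit 78) (nat_lit 152) (nat_lit 0) (XT.lf (nat_lit 76) (nat_lit 3883301696) (nat_lit 0) (nat_lit 4478797094) (nat_lit 76) (nat_lit 4478797094) (nat_lit 131) (nat_lit 3) (nat_lit 130) (nat_lit 1) (nat_lit 131) (nat_lit 1) (nat_lit 325) (nat_lit 410) (nat_lit 285)) (XT.lf (nat_lit 152) (nat_lit 12270435848) (nat_lit 0) (nat_lit 182947894) (nat_lit 76) (nat_lit 182947894) (nat_lit 130) (nat_lit 1) (nat_lit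 128) (nat_lit 1) (nat_lit 129) (nat_lit 1) (nat_lit 326) (nat_lit 410) (nat_lit 284)))) (XT.nd (nat_lit 78) (nat_lit 228) (nat_lit 0) (XT.lf (nat_lit 0) (nat_lit 3971543776) (nat_lit 0) (nat_lit 4485955091) (nat_lit 152) (nat_lit 3971543776) (nat_lit 128) (nat_lit 3) (nat_lit 128) (nat_lit 1) (nat_lit 130) (nat_lit 1) (nat_lit 327) (nat_lit 410) (nat_lit 283)) (XT.nd (nat_lit 78) (nat_lit 152) (nat_lit 0) (XT.lf (nat_lit 76) (nat_lit 3749449349) (nat_lit 0) (nat_lit 4239364886) (nat_lit 76) (nat_lit 4239364886) (nat_lit 128) (nat_lit 3) (nat_lit 127) (nat_lit 1) (nat_lit 128) (nat_lit 1) (nat_lit 328) (nat_lit 410) (nat_lit 282)) (XT.lf (nat_lit 152) (nat_lit 11732448455) (nat_lit 0) (nat_lit 150511685) (nat_lit 76) (nat_lit 150511685) (nat_lit 127) (nat_lit 1) (nat_lit 125) (nat_lit 1) (nat_lit 126) (nat_lit 1) (nat_lit 329) (nat_lit 410) (nat_lit 281))))) (XT.nd (nat_lit 234) (nat_lit 228) (nat_lit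 0) (XT.nd (nat_lit 78) (nat_lit 228) (nat_lit 0) (XT.lf (nat_lit 0) (nat_lit 3804294145) (nat_lit 0) (nat_lit 4227501606) (nat_lit 152) (nat_lit 3804294145) (nat_lit 125) (nat_lit 3) (nat_lit 125) (nat_lit 1) (nat_lit 127) (nat_lit 1) (nat_lit 330) (nat_lit 410) (nat_lit 280)) (XT.nd (nat_lit 78) (nat_lit 152) (nat_lit 0) (XT.lf (nat_lit 76) (nat_lit 3612916908) (nat_lit 0) (nat_lit 4015971634) (nat_lit 76) (nat_lit 4015971634) (nat_lit 125) (nat_lit 3) (nat_lit 124) (nat_lit 1) (nat_lit 125) (nat_lit 1) (nat_lit 331) (nat_lit 410) (nat_lit 279)) (XT.lf (nat_lit 152) (nat_lit 11211867251) (nat_lit 0) (nat_lit 123826336) (nat_lit 76) (nat_lit 123826336) (nat_lit 124) (nat_lit 1) (nat_lit 122) (nat_lit 1) (nat_lit 123) (nat_lit 1) (nat_lit 332) (nat_lit 410) (nat_lit 278)))) (XT.nd (nat_lit 78) (nat_lit 228) (nat_lit 0) (XT.lf (nat_lit 0) (nat_lit 3641131018) (nat_lit 0) (nat_lit 3989304844) (nat_lit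 152) (nat_lit 3641131018) (nat_lit 122) (nat_lit 3) (nat_lit 122) (nat_lit 1) (nat_lit 124) (nat_lit 1) (nat_lit 333) (nat_lit 410) (nat_lit 277)) (XT.nd (nat_lit 78) (nat_lit 152) (nat_lit 0) (XT.lf (nat_lit 76) (nat_lit 3475437253) (nat_lit 0) (nat_lit 3807031373) (nat_lit 76) (nat_lit 3807031373) (nat_lit 122) (nat_lit 3) (nat_lit 121) (nat_lit 1) (nat_lit 122) (nat_lit 1) (nat_lit 334) (nat_lit 410) (nat_lit 276)) (XT.lf (nat_lit 152) (nat_lit 10709319384) (nat_lit 0) (nat_lit 101872233) (nat_lit 76) (nat_lit 101872233) (nat_lit 121) (nat_lit 1) (nat_lit 119) (nat_lit 1) (nat_lit 120) (nat_lit 1) (nat_lit 335) (nat_lit 410) (nat_lit 275)))))) (XT.nd (nat_lit 468) (nat_lit 456) (nat_lit 0) (XT.nd (nat_lit 234) (nat_lit 228) (nat_lit 0) (XT.nd (nat_lit 78) (nat_lit 228) (nat_lit 0) (XT.lf (nat_lit 0) (nat_lit 3482547319) (nat_lit 0) (nat_lit 3768990787) (nat_lit 152) (nat_lit 3482547319) (nat_lit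 119) (nat_lit 3) (nat_lit 119) (nat_lit 1) (nat_lit 121) (nat_lit 1) (nat_lit 336) (nat_lit 410) (nat_lit 274)) (XT.nd (nat_lit 78) (nat_lit 152) (nat_lit 0) (XT.lf (nat_lit 76) (nat_lit 3338376135) (nat_lit 0) (nat_lit 3611179439) (nat_lit 76) (nat_lit 3611179439) (nat_lit 119) (nat_lit 3) (nat_lit 118) (nat_lit 1) (nat_lit 119) (nat_lit 1) (nat_lit 337) (nat_lit 410) (nat_lit 273)) (XT.lf (nat_lit 152) (nat_lit 10225143989) (nat_lit 0) (nat_lit 83810538) (nat_lit 76) (nat_lit 83810538) (nat_lit 118) (nat_lit 1) (nat_lit 116) (nat_lit 1) (nat_lit 117) (nat_lit 1) (nat_lit 338) (nat_lit 410) (nat_lit 272)))) (XT.nd (nat_lit 78) (nat_lit 228) (nat_lit 0) (XT.lf (nat_lit 0) (nat_lit 3328890602) (nat_lit 0) (nat_lit 3564548352) (nat_lit 152) (nat_lit 3328890602) (nat_lit 116) (nat_lit 3) (nat_lit 116) (nat_lit 1) (nat_lit 118) (nat_lit 1) (nat_lit 339) (nat_lit 410) (nat_lit 271)) (XT.nd (nat_lit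 78) (nat_lit 152) (nat_lit 0) (XT.lf (nat_lit 76) (nat_lit 3202800124) (nat_lit 0) (nat_lit 3427236076) (nat_lit 76) (nat_lit 3427236076) (nat_lit 116) (nat_lit 3) (nat_lit 115) (nat_lit 1) (nat_lit 116) (nat_lit 1) (nat_lit 340) (nat_lit 410) (nat_lit 270)) (XT.lf (nat_lit 152) (nat_lit 9759451672) (nat_lit 0) (nat_lit 68951137) (nat_lit 76) (nat_lit 68951137) (nat_lit 115) (nat_lit 1) (nat_lit 113) (nat_lit 1) (nat_lit 114) (nat_lit 1) (nat_lit 341) (nat_lit 410) (nat_lit 269))))) (XT.nd (nat_lit 234) (nat_lit 228) (nat_lit 0) (XT.nd (nat_lit 78) (nat_lit 228) (nat_lit 0) (XT.lf (nat_lit 0) (nat_lit 3180391588) (nat_lit 0) (nat_lit 3374267803) (nat_lit 152) (nat_lit 3180391588) (nat_lit 113) (nat_lit 3) (nat_lit 113) (nat_lit 1) (nat_lit 115) (nat_lit 1) (nat_lit 342) (nat_lit 410) (nat_lit 268)) (XT.nd (nat_lit 78) (nat_lit 152) (nat_lit 0) (XT.lf (nat_lit 76) (nat_lit 3069532365) (nat_lit 0)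 (nat_lit 3254176378) (nat_lit 76) (nat_lit 3254176378) (nat_lit 113) (nat_lit 3) (nat_lit 112) (nat_lit 1) (nat_lit 113) (nat_lit 1) (nat_lit 343) (nat_lit 410) (nat_lit 267)) (XT.lf (nat_lit 152) (nat_lit 9312173051) (nat_lit 0) (nat_lit 56726271) (nat_lit 76) (nat_lit 56726271) (nat_lit 112) (nat_lit 1) (nat_lit 110) (nat_lit 1) (nat_lit 111) (nat_lit 1) (nat_lit 344) (nat_lit 410) (nat_lit 266)))) (XT.nd (nat_lit 156) (nat_lit 152) (nat_lit 0) (XT.nd (nat_lit 78) (nat_lit 76) (nat_lit 0) (XT.lf (nat_lit 0) (nat_lit 3037187508) (nat_lit 0) (nat_lit 3196689950) (nat_lit 152) (nat_lit 3037187508) (nat_lit 110) (nat_lit 3) (nat_lit 110) (nat_lit 1) (nat_lit 112) (nat_lit 1) (nat_lit 345) (nat_lit 410) (nat_lit 265)) (XT.lf (nat_lit 76) (nat_lit 2939198327) (nat_lit 0) (nat_lit 3091105414) (nat_lit 76) (nat_lit 3091105414) (nat_lit 110) (nat_lit 3) (nat_lit 109) (nat_lit 1) (nat_lit 110) (nat_lit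 1) (nat_lit 346) (nat_lit 410) (nat_lit 264))) (XT.nd (nat_lit 78) (nat_lit 0) (nat_lit 0) (XT.lf (nat_lit 152) (nat_lit 8883098298) (nat_lit 0) (nat_lit 46668843) (nat_lit 76) (nat_lit 46668843) (nat_lit 109) (nat_lit 1) (nat_lit 107) (nat_lit 1) (nat_lit 108) (nat_lit 1) (nat_lit 347) (nat_lit 410) (nat_lit 263)) (XT.lf (nat_lit 0) (nat_lit 2899341182) (nat_lit 0) (nat_lit 3030564235) (nat_lit 152) (nat_lit 2899341182) (nat_lit 107) (nat_lit 3) (nat_lit 107) (nat_lit 1) (nat_lit 109) (nat_lit 1) (nat_lit 348) (nat_lit 410) (nat_lit 262))))))) (XT.nd (nat_lit 936) (nat_lit 988) (nat_lit 0) (XT.nd (nat_lit 468) (nat_lit 456) (nat_lit 0) (XT.nd (nat_lit 234) (nat_lit 228) (nat_lit 0) (XT.nd (nat_lit 78) (nat_lit 152) (nat_lit 0) (XT.lf (nat_lit 76) (nat_lit 2812263313) (nat_lit 0) (nat_lit 2937237649) (nat_lit 76) (nat_lit 2937237649) (nat_lit 107) (nat_lit 3) (nat_lit 106) (nat_lit 1) (nat_lit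 107) (nat_lit 1) (nat_lit 349) (nat_lit 410) (nat_lit 261)) (XT.nd (nat_lit 78) (nat_lit 0) (nat_lit 0) (XT.lf (nat_lit 152) (nat_lit 8471909318) (nat_lit 0) (nat_lit 38394573) (nat_lit 76) (nat_lit 38394573) (nat_lit 106) (nat_lit 1) (nat_lit 104) (nat_lit 1) (nat_lit 105) (nat_lit 1) (nat_lit 350) (nat_lit 410) (nat_lit 260)) (XT.lf (nat_lit 0) (nat_lit 2766856597) (nat_lit 0) (nat_lit 2874814127) (nat_lit 152) (nat_lit 2766856597) (nat_lit 104) (nat_lit 3) (nat_lit 104) (nat_lit 1) (nat_lit 106) (nat_lit 1) (nat_lit 351) (nat_lit 410) (nat_lit 259)))) (XT.nd (nat_lit 78) (nat_lit 152) (nat_lit 0) (XT.lf (nat_lit 76) (nat_lit 2689063201) (nat_lit 0) (nat_lit 2791879897) (nat_lit 76) (nat_lit 2791879897) (nat_lit 104) (nat_lit 3) (nat_lit 103) (nat_lit 1) (nat_lit 104) (nat_lit 1) (nat_lit 352) (nat_lit 410) (nat_lit 258)) (XT.nd (nat_lit 78) (nat_lit 0) (nat_lit 0) (XT.lf (nat_lit 152) (nat_lit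 8078205872) (nat_lit 0) (nat_lit 31587310) (nat_lit 76) (nat_lit 31587310) (nat_lit 103) (nat_lit 1) (nat_lit 101) (nat_lit 1) (nat_lit 102) (nat_lit 1) (nat_lit 353) (nat_lit 410) (nat_lit 257)) (XT.lf (nat_lit 0) (nat_lit 2639691609) (nat_lit 0) (nat_lit 2728508536) (nat_lit 152) (nat_lit 2639691609) (nat_lit 101) (nat_lit 3) (nat_lit 101) (nat_lit 1) (nat_lit 103) (nat_lit 1) (nat_lit 354) (nat_lit 410) (nat_lit 256))))) (XT.nd (nat_lit 234) (nat_lit 228) (nat_lit 0) (XT.nd (nat_lit 78) (nat_lit 152) (nat_lit 0) (XT.lf (nat_lit 76) (nat_lit 2569829631) (nat_lit 0) (nat_lit 2654417181) (nat_lit 76) (nat_lit 2654417181) (nat_lit 101) (nat_lit 3) (nat_lit 100) (nat_lit 1) (nat_lit 101) (nat_lit 1) (nat_lit 355) (nat_lit 410) (nat_lit 255)) (XT.nd (nat_lit 78) (nat_lit 0) (nat_lit 0) (XT.lf (nat_lit 152) (nat_lit 7701526733) (nat_lit 0) (nat_lit 25986958) (nat_lit 76) (nat_lit 25986958) (nat_lit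 100) (nat_lit 1) (nat_lit 98) (nat_lit 1) (nat_lit 99) (nat_lit 1) (nat_lit 356) (nat_lit 410) (nat_lit 254)) (XT.lf (nat_lit 0) (nat_lit 2517768285) (nat_lit 0) (nat_lit 2590838191) (nat_lit 152) (nat_lit 2517768285) (nat_lit 98) (nat_lit 3) (nat_lit 98) (nat_lit 1) (nat_lit 100) (nat_lit 1) (nat_lit 357) (nat_lit 410) (nat_lit 253)))) (XT.nd (nat_lit 78) (nat_lit 152) (nat_lit 0) (XT.lf (nat_lit 76) (nat_lit 2454710607) (nat_lit 0) (nat_lit 2524300994) (nat_lit 76) (nat_lit 2524300994) (nat_lit 98) (nat_lit 3) (nat_lit 97) (nat_lit 1) (nat_lit 98) (nat_lit 1) (nat_lit 358) (nat_lit 410) (nat_lit 252)) (XT.nd (nat_lit 78) (nat_lit 0) (nat_lit 0) (XT.lf (nat_lit 152) (nat_lit 7341366790) (nat_lit 0) (nat_lit 21379535) (nat_lit 76) (nat_lit 21379535) (nat_lit 97) (nat_lit 1) (nat_lit 95) (nat_lit 1) (nat_lit 96) (nat_lit 1) (nat_lit 359) (nat_lit 410) (nat_lit 251)) (XT.lf (nat_lit 0) (nat_lit 2400981309)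 (nat_lit 0) (nat_lit 2461096102) (nat_lit 152) (nat_lit 2400981309) (nat_lit 95) (nat_lit 3) (nat_lit 95) (nat_lit 1) (nat_lit 97) (nat_lit 1) (nat_lit 360) (nat_lit 410) (nat_lit 250)))))) (XT.nd (nat_lit 468) (nat_lit 532) (nat_lit 0) (XT.nd (nat_lit 234) (nat_lit 228) (nat_lit 0) (XT.nd (nat_lit 78) (nat_lit 152) (nat_lit 0) (XT.lf (nat_lit 76) (nat_lit 2343787358) (nat_lit 0) (nat_lit 2401039541) (nat_lit 76) (nat_lit 2401039541) (nat_lit 95) (nat_lit 3) (nat_lit 94) (nat_lit 1) (nat_lit 95) (nat_lit 1) (nat_lit 361) (nat_lit 410) (nat_lit 249)) (XT.nd (nat_lit 78) (nat_lit 0) (nat_lit 0) (XT.lf (nat_lit 152) (nat_lit 6997190804) (nat_lit 0) (nat_lit 17588996) (nat_lit 76) (nat_lit 17588996) (nat_lit 94) (nat_lit 1) (nat_lit 92) (nat_lit 1) (nat_lit 93) (nat_lit 1) (nat_lit 362) (nat_lit 410) (nat_lit 248)) (XT.lf (nat_lit 0) (nat_lit 2289204799) (nat_lit 0) (nat_lit 2338661387) (nat_lit 152)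 (nat_lit 2289204799) (nat_lit 92) (nat_lit 3) (nat_lit 92) (nat_lit 1) (nat_lit 94) (nat_lit 1) (nat_lit 363) (nat_lit 410) (nat_lit 247)))) (XT.nd (nat_lit 78) (nat_lit 152) (nat_lit 0) (XT.lf (nat_lit 76) (nat_lit 2237088104) (nat_lit 0) (nat_lit 2284189617) (nat_lit 76) (nat_lit 2284189617) (nat_lit 92) (nat_lit 3) (nat_lit 91) (nat_lit 1) (nat_lit 92) (nat_lit 1) (nat_lit 364) (nat_lit 410) (nat_lit 246)) (XT.nd (nat_lit 78) (nat_lit 0) (nat_lit 0) (XT.lf (nat_lit 152) (nat_lit 6668444456) (nat_lit 0) (nat_lit 14470510) (nat_lit 76) (nat_lit 14470510) (nat_lit 91) (nat_lit 1) (nat_lit 89) (nat_lit 1) (nat_lit 90) (nat_lit 1) (nat_lit 365) (nat_lit 410) (nat_lit 245)) (XT.lf (nat_lit 0) (nat_lit 2182297819) (nat_lit 0) (nat_lit 2222985876) (nat_lit 152) (nat_lit 2182297819) (nat_lit 89) (nat_lit 3) (nat_lit 89) (nat_lit 1) (nat_lit 91) (nat_lit 1) (nat_lit 366) (nat_lit 410) (nat_lit 244)))))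 (XT.nd (nat_lit 234) (nat_lit 304) (nat_lit 0) (XT.nd (nat_lit 78) (nat_lit 152) (nat_lit 0) (XT.lf (nat_lit 76) (nat_lit 2134599295) (nat_lit 0) (nat_lit 2173349827) (nat_lit 76) (nat_lit 2173349827) (nat_lit 89) (nat_lit 3) (nat_lit 88) (nat_lit 1) (nat_lit 89) (nat_lit 1) (nat_lit 367) (nat_lit 410) (nat_lit 243)) (XT.nd (nat_lit 78) (nat_lit 0) (nat_lit 0) (XT.lf (nat_lit 152) (nat_lit 6354563151) (nat_lit 0) (nat_lit 11904925) (nat_lit 76) (nat_lit 11904925) (nat_lit 88) (nat_lit 1) (nat_lit 86) (nat_lit 1) (nat_lit 87) (nat_lit 1) (nat_lit 368) (nat_lit 410) (nat_lit 242)) (XT.lf (nat_lit 0) (nat_lit 2080108831) (nat_lit 0) (nat_lit 2113582997) (nat_lit 152) (nat_lit 2080108831) (nat_lit 86) (nat_lit 3) (nat_lit 86) (nat_lit 1) (nat_lit 88) (nat_lit 1) (nat_lit 369) (nat_lit 410) (nat_lit 241)))) (XT.nd (nat_lit 156) (nat_lit 76) (nat_lit 0) (XT.nd (nat_lit 78) (nat_lit 152) (nat_lit 0) (XT.lf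 (nat_lit 76) (nat_lit 2036274766) (nat_lit 0) (nat_lit 2068154924) (nat_lit 76) (nat_lit 2068154924) (nat_lit 86) (nat_lit 3) (nat_lit 85) (nat_lit 1) (nat_lit 86) (nat_lit 1) (nat_lit 370) (nat_lit 410) (nat_lit 240)) (XT.lf (nat_lit 152) (nat_lit 6054979016) (nat_lit 0) (nat_lit 9794211) (nat_lit 76) (nat_lit 9794211) (nat_lit 85) (nat_lit 1) (nat_lit 83) (nat_lit 1) (nat_lit 84) (nat_lit 1) (nat_lit 371) (nat_lit 410) (nat_lit 239))) (XT.nd (nat_lit 78) (nat_lit 76) (nat_lit 0) (XT.lf (nat_lit 0) (nat_lit 1982479268) (nat_lit 0) (nat_lit 2010018547) (nat_lit 152) (nat_lit 1982479268) (nat_lit 83) (nat_lit 3) (nat_lit 83) (nat_lit 1) (nat_lit 85) (nat_lit 1) (nat_lit 372) (nat_lit 410) (nat_lit 238)) (XT.lf (nat_lit 76) (nat_lit 1942043188) (nat_lit 0) (nat_lit 1968271073) (nat_lit 76) (nat_lit 1968271073) (nat_lit 83) (nat_lit 3) (nat_lit 82) (nat_lit 1) (nat_lit 83) (nat_lit 1) (nat_lit 373)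 (nat_lit 410) (nat_lit 237))))))))
noncomputable def ec305 : XT := (XT.nd (nat_lit 1950) (nat_lit 1824) (nat_lit 0) (XT.nd (nat_lit 936) (nat_lit 1064) (nat_lit 0) (XT.nd (nat_lit 468) (nat_lit 456) (nat_lit 0) (XT.nd (nat_lit 234) (nat_lit 228) (nat_lit 0) (XT.nd (nat_lit 78) (nat_lit 76) (nat_lit 0) (XT.lf (nat_lit 152) (nat_lit 5769126398) (nat_lit 0) (nat_lit 8057721) (nat_lit 76) (nat_lit 8057721) (nat_lit 82) (nat_lit 1) (nat_lit 80) (nat_lit 1) (nat_lit 81) (nat_lit 1) (nat_lit 374) (nat_lit 410) (nat_lit 236)) (XT.nd (nat_lit 78) (nat_lit 76) (nat_lit 0) (XT.lf (nat_lit 0) (nat_lit 1889246396) (nat_lit 0) (nat_lit 1911903029) (nat_lit 152) (nat_lit 1889246396) (nat_lit 80) (nat_lit 3) (nat_lit 80) (nat_lit 1) (nat_lit 82) (nat_lit 1) (nat_lit 375) (nat_lit 410) (nat_lit 235)) (XT.lf (nat_lit 76) (nat_lit 1851814116) (nat_lit 0) (nat_lit 1873391862) (nat_lit 76) (nat_lit 1873391862) (nat_lit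 80) (nat_lit 3) (nat_lit 79) (nat_lit 1) (nat_lit 80) (nat_lit 1) (nat_lit 376) (nat_lit 410) (nat_lit 234)))) (XT.nd (nat_lit 78) (nat_lit 76) (nat_lit 0) (XT.lf (nat_lit 152) (nat_lit 5496446162) (nat_lit 0) (nat_lit 6629107) (nat_lit 76) (nat_lit 6629107) (nat_lit 79) (nat_lit 1) (nat_lit 77) (nat_lit 1) (nat_lit 78) (nat_lit 1) (nat_lit 377) (nat_lit 410) (nat_lit 233)) (XT.nd (nat_lit 78) (nat_lit 76) (nat_lit 0) (XT.lf (nat_lit 0) (nat_lit 1800245586) (nat_lit 0) (nat_lit 1818885254) (nat_lit 152) (nat_lit 1800245586) (nat_lit 77) (nat_lit 3) (nat_lit 77) (nat_lit 1) (nat_lit 79) (nat_lit 1) (nat_lit 378) (nat_lit 410) (nat_lit 232)) (XT.lf (nat_lit 76) (nat_lit 1765482894) (nat_lit 0) (nat_lit 1783234959) (nat_lit 76) (nat_lit 1783234959) (nat_lit 77) (nat_lit 3) (nat_lit 76) (nat_lit 1) (nat_lit 77) (nat_lit 1) (nat_lit 379) (nat_lit 410) (nat_lit 231))))) (XT.nd (nat_lit 234) (nat_lit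 228) (nat_lit 0) (XT.nd (nat_lit 78) (nat_lit 76) (nat_lit 0) (XT.lf (nat_lit 152) (nat_lit 5236389000) (nat_lit 0) (nat_lit 5453783) (nat_lit 76) (nat_lit 5453783) (nat_lit 76) (nat_lit 1) (nat_lit 74) (nat_lit 1) (nat_lit 75) (nat_lit 1) (nat_lit 380) (nat_lit 410) (nat_lit 230)) (XT.nd (nat_lit 78) (nat_lit 76) (nat_lit 0) (XT.lf (nat_lit 0) (nat_lit 1715312118) (nat_lit 0) (nat_lit 1730647019) (nat_lit 152) (nat_lit 1715312118) (nat_lit 74) (nat_lit 3) (nat_lit 74) (nat_lit 1) (nat_lit 76) (nat_lit 1) (nat_lit 381) (nat_lit 410) (nat_lit 229)) (XT.lf (nat_lit 76) (nat_lit 1682934611) (nat_lit 0) (nat_lit 1697539278) (nat_lit 76) (nat_lit 1697539278) (nat_lit 74) (nat_lit 3) (nat_lit 73) (nat_lit 1) (nat_lit 74) (nat_lit 1) (nat_lit 382) (nat_lit 410) (nat_lit 228)))) (XT.nd (nat_lit 78) (nat_lit 76) (nat_lit 0) (XT.lf (nat_lit 152) (nat_lit 4988417941) (nat_lit 0) (nat_lit 4486841) (nat_lit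 76) (nat_lit 4486841) (nat_lit 73) (nat_lit 1) (nat_lit 71) (nat_lit 1) (nat_lit 72) (nat_lit 1) (nat_lit 383) (nat_lit 410) (nat_lit 227)) (XT.nd (nat_lit 78) (nat_lit 76) (nat_lit 0) (XT.lf (nat_lit 0) (nat_lit 1634282591) (nat_lit 0) (nat_lit 1646898652) (nat_lit 152) (nat_lit 1634282591) (nat_lit 71) (nat_lit 3) (nat_lit 71) (nat_lit 1) (nat_lit 73) (nat_lit 1) (nat_lit 384) (nat_lit 410) (nat_lit 226)) (XT.lf (nat_lit 76) (nat_lit 1604047292) (nat_lit 0) (nat_lit 1616062588) (nat_lit 76) (nat_lit 1616062588) (nat_lit 71) (nat_lit 3) (nat_lit 70) (nat_lit 1) (nat_lit 71) (nat_lit 1) (nat_lit 385) (nat_lit 410) (nat_lit 225)))))) (XT.nd (nat_lit 468) (nat_lit 608) (nat_lit 0) (XT.nd (nat_lit 234) (nat_lit 228) (nat_lit 0) (XT.nd (nat_lit 78) (nat_lit 76) (nat_lit 0) (XT.lf (nat_lit 152) (nat_lit 4752010216) (nat_lit 0) (nat_lit 3691335) (nat_lit 76) (nat_lit 3691335) (nat_lit 70) (nat_lit 1)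 (nat_lit 68) (nat_lit 1) (nat_lit 69) (nat_lit 1) (nat_lit 386) (nat_lit 410) (nat_lit 224)) (XT.nd (nat_lit 78) (nat_lit 76) (nat_lit 0) (XT.lf (nat_lit 0) (nat_lit 1556996014) (nat_lit 0) (nat_lit 1567375279) (nat_lit 152) (nat_lit 1556996014) (nat_lit 68) (nat_lit 3) (nat_lit 68) (nat_lit 1) (nat_lit 70) (nat_lit 1) (nat_lit 387) (nat_lit 410) (nat_lit 223)) (XT.lf (nat_lit 76) (nat_lit 1528694461) (nat_lit 0) (nat_lit 1538579475) (nat_lit 76) (nat_lit 1538579475) (nat_lit 68) (nat_lit 3) (nat_lit 67) (nat_lit 1) (nat_lit 68) (nat_lit 1) (nat_lit 388) (nat_lit 410) (nat_lit 222)))) (XT.nd (nat_lit 78) (nat_lit 76) (nat_lit 0) (XT.lf (nat_lit 152) (nat_lit 4526658594) (nat_lit 0) (nat_lit 3036870) (nat_lit 76) (nat_lit 3036870) (nat_lit 67) (nat_lit 1) (nat_lit 65) (nat_lit 1) (nat_lit 66) (nat_lit 1) (nat_lit 389) (nat_lit 410) (nat_lit 221)) (XT.nd (nat_lit 78) (nat_lit 76) (nat_lit 0) (XT.lf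 (nat_lit 0) (nat_lit 1483294647) (nat_lit 0) (nat_lit 1491833694) (nat_lit 152) (nat_lit 1483294647) (nat_lit 65) (nat_lit 3) (nat_lit 65) (nat_lit 1) (nat_lit 67) (nat_lit 1) (nat_lit 390) (nat_lit 410) (nat_lit 220)) (XT.lf (nat_lit 76) (nat_lit 1456747177) (nat_lit 0) (nat_lit 1464879603) (nat_lit 76) (nat_lit 1464879603) (nat_lit 65) (nat_lit 3) (nat_lit 64) (nat_lit 1) (nat_lit 65) (nat_lit 1) (nat_lit 391) (nat_lit 410) (nat_lit 219))))) (XT.nd (nat_lit 234) (nat_lit 380) (nat_lit 0) (XT.nd (nat_lit 78) (nat_lit 76) (nat_lit 0) (XT.lf (nat_lit 152) (nat_lit 4311872303) (nat_lit 0) (nat_lit 2498441) (nat_lit 76) (nat_lit 2498441) (nat_lit 64) (nat_lit 1) (nat_lit 62) (nat_lit 1) (nat_lit 63) (nat_lit 1) (nat_lit 392) (nat_lit 410) (nat_lit 218)) (XT.nd (nat_lit 78) (nat_lit 76) (nat_lit 0) (XT.lf (nat_lit 0) (nat_lit 1413024628) (nat_lit 0) (nat_lit 1420049723) (nat_lit 152) (nat_lit 1413024628)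 (nat_lit 62) (nat_lit 3) (nat_lit 62) (nat_lit 1) (nat_lit 64) (nat_lit 1) (nat_lit 393) (nat_lit 410) (nat_lit 217)) (XT.lf (nat_lit 76) (nat_lit 1388075661) (nat_lit 0) (nat_lit 1394766228) (nat_lit 76) (nat_lit 1394766228) (nat_lit 62) (nat_lit 3) (nat_lit 61) (nat_lit 1) (nat_lit 62) (nat_lit 1) (nat_lit 394) (nat_lit 410) (nat_lit 216)))) (XT.nd (nat_lit 156) (nat_lit 228) (nat_lit 0) (XT.nd (nat_lit 78) (nat_lit 0) (nat_lit 0) (XT.lf (nat_lit 152) (nat_lit 4107177611) (nat_lit 0) (nat_lit 2055473) (nat_lit 76) (nat_lit 2055473) (nat_lit 61) (nat_lit 1) (nat_lit 59) (nat_lit 1) (nat_lit 60) (nat_lit 1) (nat_lit 395) (nat_lit 410) (nat_lit 215)) (XT.lf (nat_lit 0) (nat_lit 1346036431) (nat_lit 0) (nat_lit 1351815994) (nat_lit 152) (nat_lit 1346036431) (nat_lit 59) (nat_lit 3) (nat_lit 59) (nat_lit 1) (nat_lit 61) (nat_lit 1) (nat_lit 396) (nat_lit 410) (nat_lit 214))) (XT.nd (nat_lit 78) (nat_lit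 152) (nat_lit 0) (XT.lf (nat_lit 76) (nat_lit 1322550570) (nat_lit 0) (nat_lit 1328054916) (nat_lit 76) (nat_lit 1328054916) (nat_lit 59) (nat_lit 3) (nat_lit 58) (nat_lit 1) (nat_lit 59) (nat_lit 1) (nat_lit 397) (nat_lit 410) (nat_lit 213)) (XT.lf (nat_lit 152) (nat_lit 3912118133) (nat_lit 0) (nat_lit 1691043) (nat_lit 76) (nat_lit 1691043) (nat_lit 58) (nat_lit 1) (nat_lit 56) (nat_lit 1) (nat_lit 57) (nat_lit 1) (nat_lit 398) (nat_lit 410) (nat_lit 212))))))) (XT.nd (nat_lit 936) (nat_lit 912) (nat_lit 0) (XT.nd (nat_lit 468) (nat_lit 456) (nat_lit 0) (XT.nd (nat_lit 234) (nat_lit 228) (nat_lit 0) (XT.nd (nat_lit 78) (nat_lit 228) (nat_lit 0) (XT.lf (nat_lit 0) (nat_lit 1282185191) (nat_lit 0) (nat_lit 1286940051) (nat_lit 152) (nat_lit 1282185191) (nat_lit 56) (nat_lit 3) (nat_lit 56) (nat_lit 1) (nat_lit 58) (nat_lit 1) (nat_lit 399) (nat_lit 410) (nat_lit 211)) (XT.nd (nat_lit 78) (nat_lit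 152) (nat_lit 0) (XT.lf (nat_lit 76) (nat_lit 1260043998) (nat_lit 0) (nat_lit 1264572436) (nat_lit 76) (nat_lit 1264572436) (nat_lit 56) (nat_lit 3) (nat_lit 55) (nat_lit 1) (nat_lit 56) (nat_lit 1) (nat_lit 400) (nat_lit 410) (nat_lit 210)) (XT.lf (nat_lit 152) (nat_lit 3726254934) (nat_lit 0) (nat_lit 1391225) (nat_lit 76) (nat_lit 1391225) (nat_lit 55) (nat_lit 1) (nat_lit 53) (nat_lit 1) (nat_lit 54) (nat_lit 1) (nat_lit 401) (nat_lit 410) (nat_lit 209)))) (XT.nd (nat_lit 78) (nat_lit 228) (nat_lit 0) (XT.lf (nat_lit 0) (nat_lit 1221330918) (nat_lit 0) (nat_lit 1225242754) (nat_lit 152) (nat_lit 1221330918) (nat_lit 53) (nat_lit 3) (nat_lit 53) (nat_lit 1) (nat_lit 55) (nat_lit 1) (nat_lit 402) (nat_lit 410) (nat_lit 208)) (XT.nd (nat_lit 78) (nat_lit 152) (nat_lit 0) (XT.lf (nat_lit 76) (nat_lit 1200430239) (nat_lit 0) (nat_lit 1204155797) (nat_lit 76) (nat_lit 1204155797) (nat_lit 53) (nat_lit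 3) (nat_lit 52) (nat_lit 1) (nat_lit 53) (nat_lit 1) (nat_lit 403) (nat_lit 410) (nat_lit 207)) (XT.lf (nat_lit 152) (nat_lit 3549166456) (nat_lit 0) (nat_lit 1144564) (nat_lit 76) (nat_lit 1144564) (nat_lit 52) (nat_lit 1) (nat_lit 50) (nat_lit 1) (nat_lit 51) (nat_lit 1) (nat_lit 404) (nat_lit 410) (nat_lit 206))))) (XT.nd (nat_lit 234) (nat_lit 228) (nat_lit 0) (XT.nd (nat_lit 78) (nat_lit 228) (nat_lit 0) (XT.lf (nat_lit 0) (nat_lit 1163338624) (nat_lit 0) (nat_lit 1166556901) (nat_lit 152) (nat_lit 1163338624) (nat_lit 50) (nat_lit 3) (nat_lit 50) (nat_lit 1) (nat_lit 52) (nat_lit 1) (nat_lit 405) (nat_lit 410) (nat_lit 205)) (XT.nd (nat_lit 78) (nat_lit 152) (nat_lit 0) (XT.lf (nat_lit 76) (nat_lit 1143586380) (nat_lit 0) (nat_lit 1146651406) (nat_lit 76) (nat_lit 1146651406) (nat_lit 50) (nat_lit 3) (nat_lit 49) (nat_lit 1) (nat_lit 50) (nat_lit 1) (nat_lit 406) (nat_lit 410) (nat_lit 204))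 (XT.lf (nat_lit 152) (nat_lit 3380448313) (nat_lit 0) (nat_lit 941636) (nat_lit 76) (nat_lit 941636) (nat_lit 49) (nat_lit 1) (nat_lit 47) (nat_lit 1) (nat_lit 48) (nat_lit 1) (nat_lit 407) (nat_lit 410) (nat_lit 203)))) (XT.nd (nat_lit 78) (nat_lit 228) (nat_lit 0) (XT.lf (nat_lit 0) (nat_lit 1108078380) (nat_lit 0) (nat_lit 1110726065) (nat_lit 152) (nat_lit 1108078380) (nat_lit 47) (nat_lit 3) (nat_lit 47) (nat_lit 1) (nat_lit 49) (nat_lit 1) (nat_lit 408) (nat_lit 410) (nat_lit 202)) (XT.nd (nat_lit 78) (nat_lit 152) (nat_lit 0) (XT.lf (nat_lit 76) (nat_lit 1089392728) (nat_lit 0) (nat_lit 1091914332) (nat_lit 76) (nat_lit 1091914332) (nat_lit 47) (nat_lit 3) (nat_lit 46) (nat_lit 1) (nat_lit 47) (nat_lit 1) (nat_lit 409) (nat_lit 410) (nat_lit 201)) (XT.lf (nat_lit 152) (nat_lit 3219712989) (nat_lit 0) (nat_lit 774686) (nat_lit 76) (nat_lit 774686) (nat_lit 46) (nat_lit 1) (nat_lit 44) (nat_lit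 1) (nat_lit 45) (nat_lit 1) (nat_lit 410) (nat_lit 410) (nat_lit 200)))))) (XT.nd (nat_lit 468) (nat_lit 456) (nat_lit 0) (XT.nd (nat_lit 234) (nat_lit 228) (nat_lit 0) (XT.nd (nat_lit 78) (nat_lit 228) (nat_lit 0) (XT.lf (nat_lit 0) (nat_lit 1055425316) (nat_lit 0) (nat_lit 1057603573) (nat_lit 152) (nat_lit 1055425316) (nat_lit 44) (nat_lit 3) (nat_lit 44) (nat_lit 1) (nat_lit 46) (nat_lit 1) (nat_lit 411) (nat_lit 410) (nat_lit 199)) (XT.nd (nat_lit 78) (nat_lit 152) (nat_lit 0) (XT.lf (nat_lit 76) (nat_lit 1037733124) (nat_lit 0) (nat_lit 1039807654) (nat_lit 76) (nat_lit 1039807654) (nat_lit 44) (nat_lit 3) (nat_lit 43) (nat_lit 1) (nat_lit 44) (nat_lit 1) (nat_lit 412) (nat_lit 410) (nat_lit 198)) (XT.lf (nat_lit 152) (nat_lit 3066589459) (nat_lit 0) (nat_lit 637336) (nat_lit 76) (nat_lit 637336) (nat_lit 43) (nat_lit 1) (nat_lit 41) (nat_lit 1) (nat_lit 42) (nat_lit 1) (nat_lit 413) (nat_lit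 410) (nat_lit 197)))) (XT.nd (nat_lit 78) (nat_lit 228) (nat_lit 0) (XT.lf (nat_lit 0) (nat_lit 1005259582) (nat_lit 0) (nat_lit 1007051639) (nat_lit 152) (nat_lit 1005259582) (nat_lit 41) (nat_lit 3) (nat_lit 41) (nat_lit 1) (nat_lit 43) (nat_lit 1) (nat_lit 414) (nat_lit 410) (nat_lit 196)) (XT.nd (nat_lit 78) (nat_lit 152) (nat_lit 0) (XT.lf (nat_lit 76) (nat_lit 988495162) (nat_lit 0) (nat_lit 990201883) (nat_lit 76) (nat_lit 990201883) (nat_lit 41) (nat_lit 3) (nat_lit 40) (nat_lit 1) (nat_lit 41) (nat_lit 1) (nat_lit 415) (nat_lit 410) (nat_lit 195)) (XT.lf (nat_lit 152) (nat_lit 2920722751) (nat_lit 0) (nat_lit 524338) (nat_lit 76) (nat_lit 524338) (nat_lit 40) (nat_lit 1) (nat_lit 38) (nat_lit 1) (nat_lit 39) (nat_lit 1) (nat_lit 416) (nat_lit 410) (nat_lit 194))))) (XT.nd (nat_lit 234) (nat_lit 228) (nat_lit 0) (XT.nd (nat_lit 78) (nat_lit 228) (nat_lit 0) (XT.lf (nat_lit 0) (nat_lit 957466272)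 (nat_lit 0) (nat_lit 958940601) (nat_lit 152) (nat_lit 957466272) (nat_lit 38) (nat_lit 3) (nat_lit 38) (nat_lit 1) (nat_lit 40) (nat_lit 1) (nat_lit 417) (nat_lit 410) (nat_lit 193)) (XT.nd (nat_lit 78) (nat_lit 152) (nat_lit 0) (XT.lf (nat_lit 76) (nat_lit 941570324) (nat_lit 0) (nat_lit 942974448) (nat_lit 76) (nat_lit 942974448) (nat_lit 38) (nat_lit 3) (nat_lit 37) (nat_lit 1) (nat_lit 38) (nat_lit 1) (nat_lit 418) (nat_lit 410) (nat_lit 192)) (XT.lf (nat_lit 152) (nat_lit 2781773468) (nat_lit 0) (nat_lit 431374) (nat_lit 76) (nat_lit 431374) (nat_lit 37) (nat_lit 1) (nat_lit 35) (nat_lit 1) (nat_lit 36) (nat_lit 1) (nat_lit 419) (nat_lit 410) (nat_lit 191)))) (XT.nd (nat_lit 156) (nat_lit 152) (nat_lit 0) (XT.nd (nat_lit 78) (nat_lit 76) (nat_lit 0) (XT.lf (nat_lit 0) (nat_lit 911935325) (nat_lit 0) (nat_lit 913148259) (nat_lit 152) (nat_lit 911935325) (nat_lit 35) (nat_lit 3) (nat_lit 35)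 (nat_lit 1) (nat_lit 37) (nat_lit 1) (nat_lit 420) (nat_lit 410) (nat_lit 190)) (XT.lf (nat_lit 76) (nat_lit 896854053) (nat_lit 0) (nat_lit 898009229) (nat_lit 76) (nat_lit 898009229) (nat_lit 35) (nat_lit 3) (nat_lit 34) (nat_lit 1) (nat_lit 35) (nat_lit 1) (nat_lit 421) (nat_lit 410) (nat_lit 189))) (XT.nd (nat_lit 78) (nat_lit 0) (nat_lit 0) (XT.lf (nat_lit 152) (nat_lit 2649417281) (nat_lit 0) (nat_lit 354892) (nat_lit 76) (nat_lit 354892) (nat_lit 34) (nat_lit 1) (nat_lit 32) (nat_lit 1) (nat_lit 33) (nat_lit 1) (nat_lit 422) (nat_lit 410) (nat_lit 188)) (XT.lf (nat_lit 0) (nat_lit 868561404) (nat_lit 0) (nat_lit 869559288) (nat_lit 152) (nat_lit 868561404) (nat_lit 32) (nat_lit 3) (nat_lit 32) (nat_lit 1) (nat_lit 34) (nat_lit 1) (nat_lit 423) (nat_lit 410) (nat_lit 187))))))))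
noncomputable def ec306 : XT := (XT.nd (nat_lit 35958) (nat_lit 0) (nat_lit 17176) (XT.nd (nat_lit 936) (nat_lit 532) (nat_lit 0) (XT.nd (nat_lit 468) (nat_lit 456) (nat_lit 0) (XT.nd (nat_lit 234) (nat_lit 228) (nat_lit 0) (XT.nd (nat_lit 78) (nat_lit 152) (nat_lit 0) (XT.lf (nat_lit 76) (nat_lit 854245779) (nat_lit 0) (nat_lit 855196145) (nat_lit 76) (nat_lit 855196145) (nat_lit 32) (nat_lit 3) (nat_lit 31) (nat_lit 1) (nat_lit 32) (nat_lit 1) (nat_lit 424) (nat_lit 410) (nat_lit 186)) (XT.nd (nat_lit 78) (nat_lit 0) (nat_lit 0) (XT.lf (nat_lit 152) (nat_lit 2523344406) (nat_lit 0) (nat_lit 291971) (nat_lit 76) (nat_lit 291971) (nat_lit 31) (nat_lit 1) (nat_lit 29) (nat_lit 1) (nat_lit 30) (nat_lit 1) (nat_lit 425) (nat_lit 410) (nat_lit 185)) (XT.lf (nat_lit 0) (nat_lit 827243765) (nat_lit 0) (nat_lit 828064727) (nat_lit 152) (nat_lit 827243765) (nat_lit 29) (nat_lit 3) (nat_lit 29) (nat_lit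 1) (nat_lit 31) (nat_lit 1) (nat_lit 426) (nat_lit 410) (nat_lit 184)))) (XT.nd (nat_lit 78) (nat_lit 152) (nat_lit 0) (XT.lf (nat_lit 76) (nat_lit 813648908) (nat_lit 0) (nat_lit 814430776) (nat_lit 76) (nat_lit 814430776) (nat_lit 29) (nat_lit 3) (nat_lit 28) (nat_lit 1) (nat_lit 29) (nat_lit 1) (nat_lit 427) (nat_lit 410) (nat_lit 183)) (XT.nd (nat_lit 78) (nat_lit 0) (nat_lit 0) (XT.lf (nat_lit 152) (nat_lit 2403259070) (nat_lit 0) (nat_lit 240205) (nat_lit 76) (nat_lit 240205) (nat_lit 28) (nat_lit 1) (nat_lit 26) (nat_lit 1) (nat_lit 27) (nat_lit 1) (nat_lit 428) (nat_lit 410) (nat_lit 182)) (XT.lf (nat_lit 0) (nat_lit 787886110) (nat_lit 0) (nat_lit 788561517) (nat_lit 152) (nat_lit 787886110) (nat_lit 26) (nat_lit 3) (nat_lit 26) (nat_lit 1) (nat_lit 28) (nat_lit 1) (nat_lit 429) (nat_lit 410) (nat_lit 181))))) (XT.nd (nat_lit 234) (nat_lit 228) (nat_lit 0) (XT.nd (nat_lit 78) (nat_lit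 152) (nat_lit 0) (XT.lf (nat_lit 76) (nat_lit 774970771) (nat_lit 0) (nat_lit 775614016) (nat_lit 76) (nat_lit 775614016) (nat_lit 26) (nat_lit 3) (nat_lit 25) (nat_lit 1) (nat_lit 26) (nat_lit 1) (nat_lit 430) (nat_lit 410) (nat_lit 180)) (XT.nd (nat_lit 78) (nat_lit 0) (nat_lit 0) (XT.lf (nat_lit 152) (nat_lit 2288878978) (nat_lit 0) (nat_lit 197617) (nat_lit 76) (nat_lit 197617) (nat_lit 25) (nat_lit 1) (nat_lit 23) (nat_lit 1) (nat_lit 24) (nat_lit 1) (nat_lit 431) (nat_lit 410) (nat_lit 179)) (XT.lf (nat_lit 0) (nat_lit 750396440) (nat_lit 0) (nat_lit 750952099) (nat_lit 152) (nat_lit 750396440) (nat_lit 23) (nat_lit 3) (nat_lit 23) (nat_lit 1) (nat_lit 25) (nat_lit 1) (nat_lit 432) (nat_lit 410) (nat_lit 178)))) (XT.nd (nat_lit 78) (nat_lit 152) (nat_lit 0) (XT.lf (nat_lit 76) (nat_lit 738122562) (nat_lit 0) (nat_lit 738651762) (nat_lit 76) (nat_lit 738651762) (nat_lit 23) (nat_lit 3) (nat_lit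 22) (nat_lit 1) (nat_lit 23) (nat_lit 1) (nat_lit 433) (nat_lit 410) (nat_lit 177)) (XT.nd (nat_lit 78) (nat_lit 0) (nat_lit 0) (XT.lf (nat_lit 152) (nat_lit 2179934774) (nat_lit 0) (nat_lit 162580) (nat_lit 76) (nat_lit 162580) (nat_lit 22) (nat_lit 1) (nat_lit 20) (nat_lit 1) (nat_lit 21) (nat_lit 1) (nat_lit 434) (nat_lit 410) (nat_lit 176)) (XT.lf (nat_lit 0) (nat_lit 714686901) (nat_lit 0) (nat_lit 715144044) (nat_lit 152) (nat_lit 714686901) (nat_lit 20) (nat_lit 3) (nat_lit 20) (nat_lit 1) (nat_lit 22) (nat_lit 1) (nat_lit 435) (nat_lit 410) (nat_lit 175)))))) (XT.nd (nat_lit 468) (nat_lit 76) (nat_lit 0) (XT.nd (nat_lit 234) (nat_lit 228) (nat_lit 0) (XT.nd (nat_lit 78) (nat_lit 152) (nat_lit 0) (XT.lf (nat_lit 76) (nat_lit 703019250) (nat_lit 0) (nat_lit 703454624) (nat_lit 76) (nat_lit 703454624) (nat_lit 20) (nat_lit 3) (nat_lit 19) (nat_lit 1) (nat_lit 20) (nat_lit 1) (nat_lit 436)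 (nat_lit 410) (nat_lit 174)) (XT.nd (nat_lit 78) (nat_lit 0) (nat_lit 0) (XT.lf (nat_lit 152) (nat_lit 2076169518) (nat_lit 0) (nat_lit 133755) (nat_lit 76) (nat_lit 133755) (nat_lit 19) (nat_lit 1) (nat_lit 17) (nat_lit 1) (nat_lit 18) (nat_lit 1) (nat_lit 437) (nat_lit 410) (nat_lit 173)) (XT.lf (nat_lit 0) (nat_lit 680673628) (nat_lit 0) (nat_lit 681049721) (nat_lit 152) (nat_lit 680673628) (nat_lit 17) (nat_lit 3) (nat_lit 17) (nat_lit 1) (nat_lit 19) (nat_lit 1) (nat_lit 438) (nat_lit 410) (nat_lit 172)))) (XT.nd (nat_lit 78) (nat_lit 152) (nat_lit 0) (XT.lf (nat_lit 76) (nat_lit 669579479) (nat_lit 0) (nat_lit 669937662) (nat_lit 76) (nat_lit 669937662) (nat_lit 17) (nat_lit 3) (nat_lit 16) (nat_lit 1) (nat_lit 17) (nat_lit 1) (nat_lit 439) (nat_lit 410) (nat_lit 171)) (XT.nd (nat_lit 78) (nat_lit 0) (nat_lit 0) (XT.lf (nat_lit 152) (nat_lit 1977338168) (nat_lit 0) (nat_lit 110040) (nat_lit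 76) (nat_lit 110040) (nat_lit 16) (nat_lit 1) (nat_lit 14) (nat_lit 1) (nat_lit 15) (nat_lit 1) (nat_lit 440) (nat_lit 410) (nat_lit 170)) (XT.lf (nat_lit 0) (nat_lit 648276589) (nat_lit 0) (nat_lit 648586001) (nat_lit 152) (nat_lit 648276589) (nat_lit 14) (nat_lit 3) (nat_lit 14) (nat_lit 1) (nat_lit 16) (nat_lit 1) (nat_lit 441) (nat_lit 410) (nat_lit 169))))) (XT.nd (nat_lit 34242) (nat_lit 0) (nat_lit 21280) (XT.nd (nat_lit 34086) (nat_lit 0) (nat_lit 21204) (XT.lf (nat_lit 76) (nat_lit 637725458) (nat_lit 0) (nat_lit 638020136) (nat_lit 76) (nat_lit 638020136) (nat_lit 14) (nat_lit 3) (nat_lit 13) (nat_lit 1) (nat_lit 14) (nat_lit 1) (nat_lit 442) (nat_lit 410) (nat_lit 168)) (XT.nd (nat_lit 78) (nat_lit 0) (nat_lit 0) (XT.lf (nat_lit 836) (nat_lit 17166822351) (nat_lit 0) (nat_lit 30479653626) (nat_lit 836) (nat_lit 17166822351) (nat_lit 303) (nat_lit 1) (nat_lit 292) (nat_lit 0) (nat_lit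 303) (nat_lit 0) (nat_lit 198) (nat_lit 411) (nat_lit 411)) (XT.lf (nat_lit 836) (nat_lit 66540746628) (nat_lit 76) (nat_lit 29988046309) (nat_lit 0) (nat_lit 29988046309) (nat_lit 303) (nat_lit 1) (nat_lit 293) (nat_lit 1) (nat_lit 292) (nat_lit 0) (nat_lit 199) (nat_lit 411) (nat_lit 410)))) (XT.nd (nat_lit 156) (nat_lit 0) (nat_lit 76) (XT.nd (nat_lit 78) (nat_lit 0) (nat_lit 0) (XT.lf (nat_lit 836) (nat_lit 31712317939) (nat_lit 0) (nat_lit 60078585265) (nat_lit 760) (nat_lit 31712317939) (nat_lit 304) (nat_lit 1) (nat_lit 293) (nat_lit 1) (nat_lit 303) (nat_lit 1) (nat_lit 200) (nat_lit 411) (nat_lit 409)) (XT.lf (nat_lit 836) (nat_lit 59487901917) (nat_lit 76) (nat_lit 30549531721) (nat_lit 0) (nat_lit 30549531721) (nat_lit 304) (nat_lit 1) (nat_lit 294) (nat_lit 1) (nat_lit 293) (nat_lit 1) (nat_lit 201) (nat_lit 411) (nat_lit 408))) (XT.nd (nat_lit 78) (nat_lit 0) (nat_lit 0) (XT.lf (nat_lit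 836) (nat_lit 27381709985) (nat_lit 0) (nat_lit 62999720285) (nat_lit 760) (nat_lit 27381709985) (nat_lit 305) (nat_lit 1) (nat_lit 294) (nat_lit 1) (nat_lit 304) (nat_lit 1) (nat_lit 202) (nat_lit 411) (nat_lit 407)) (XT.lf (nat_lit 836) (nat_lit 49247788833) (nat_lit 76) (nat_lit 32888803648) (nat_lit 0) (nat_lit 32888803648) (nat_lit 305) (nat_lit 1) (nat_lit 295) (nat_lit 1) (nat_lit 294) (nat_lit 1) (nat_lit 203) (nat_lit 411) (nat_lit 406))))))) (XT.nd (nat_lit 936) (nat_lit 2356) (nat_lit 0) (XT.nd (nat_lit 468) (nat_lit 1292) (nat_lit 0) (XT.nd (nat_lit 234) (nat_lit 608) (nat_lit 0) (XT.nd (nat_lit 78) (nat_lit 0) (nat_lit 0) (XT.lf (nat_lit 836) (nat_lit 21593732998) (nat_lit 0) (nat_lit 69192109976) (nat_lit 760) (nat_lit 21593732998) (nat_lit 306) (nat_lit 1) (nat_lit 295) (nat_lit 1) (nat_lit 305) (nat_lit 1) (nat_lit 204) (nat_lit 411) (nat_lit 405)) (XT.nd (nat_lit 78) (nat_lit 0)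 (nat_lit 76) (XT.lf (nat_lit 836) (nat_lit 36299728189) (nat_lit 76) (nat_lit 36753438060) (nat_lit 0) (nat_lit 36753438060) (nat_lit 306) (nat_lit 1) (nat_lit 296) (nat_lit 1) (nat_lit 295) (nat_lit 1) (nat_lit 205) (nat_lit 411) (nat_lit 404)) (XT.lf (nat_lit 836) (nat_lit 14572450192) (nat_lit 0) (nat_lit 78182917699) (nat_lit 760) (nat_lit 14572450192) (nat_lit 307) (nat_lit 1) (nat_lit 296) (nat_lit 1) (nat_lit 306) (nat_lit 1) (nat_lit 206) (nat_lit 411) (nat_lit 403)))) (XT.nd (nat_lit 78) (nat_lit 684) (nat_lit 0) (XT.lf (nat_lit 836) (nat_lit 21069763864) (nat_lit 76) (nat_lit 41918628554) (nat_lit 0) (nat_lit 41918628554) (nat_lit 307) (nat_lit 1) (nat_lit 297) (nat_lit 1) (nat_lit 296) (nat_lit 1) (nat_lit 207) (nat_lit 411) (nat_lit 402)) (XT.nd (nat_lit 78) (nat_lit 760) (nat_lit 0) (XT.lf (nat_lit 76) (nat_lit 6516875844) (nat_lit 0) (nat_lit 89551300321) (nat_lit 760) (nat_lit 6516875844)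 (nat_lit 298) (nat_lit 1) (nat_lit 297) (nat_lit 1) (nat_lit 307) (nat_lit 1) (nat_lit 208) (nat_lit 411) (nat_lit 401)) (XT.lf (nat_lit 836) (nat_lit 3936030949) (nat_lit 0) (nat_lit 48184421125) (nat_lit 760) (nat_lit 48184421125) (nat_lit 298) (nat_lit 1) (nat_lit 287) (nat_lit 1) (nat_lit 297) (nat_lit 1) (nat_lit 209) (nat_lit 411) (nat_lit 400))))) (XT.nd (nat_lit 234) (nat_lit 380) (nat_lit 0) (XT.nd (nat_lit 78) (nat_lit 380) (nat_lit 0) (XT.lf (nat_lit 532) (nat_lit 93406971342) (nat_lit 0) (nat_lit 2357841899) (nat_lit 456) (nat_lit 2357841899) (nat_lit 287) (nat_lit 1) (nat_lit 280) (nat_lit 1) (nat_lit 286) (nat_lit 1) (nat_lit 210) (nat_lit 411) (nat_lit 399)) (XT.nd (nat_lit 78) (nat_lit 380) (nat_lit 0) (XT.lf (nat_lit 76) (nat_lit 40837365301) (nat_lit 0) (nat_lit 14293778087) (nat_lit 532) (nat_lit 40837365301) (nat_lit 281) (nat_lit 1) (nat_lit 280) (nat_lit 1) (nat_lit 287) (nat_lit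 1) (nat_lit 211) (nat_lit 411) (nat_lit 398)) (XT.lf (nat_lit 456) (nat_lit 70270623187) (nat_lit 0) (nat_lit 11817669565) (nat_lit 380) (nat_lit 11817669565) (nat_lit 281) (nat_lit 1) (nat_lit 275) (nat_lit 1) (nat_lit 280) (nat_lit 1) (nat_lit 212) (nat_lit 411) (nat_lit 397)))) (XT.nd (nat_lit 78) (nat_lit 380) (nat_lit 0) (XT.lf (nat_lit 76) (nat_lit 29128795537) (nat_lit 0) (nat_lit 33629185295) (nat_lit 456) (nat_lit 29128795537) (nat_lit 276) (nat_lit 1) (nat_lit 275) (nat_lit 1) (nat_lit 281) (nat_lit 1) (nat_lit 213) (nat_lit 411) (nat_lit 396)) (XT.nd (nat_lit 78) (nat_lit 0) (nat_lit 0) (XT.lf (nat_lit 456) (nat_lit 46274201897) (nat_lit 0) (nat_lit 21831855685) (nat_lit 380) (nat_lit 21831855685) (nat_lit 276) (nat_lit 1) (nat_lit 270) (nat_lit 1) (nat_lit 275) (nat_lit 1) (nat_lit 214) (nat_lit 411) (nat_lit 395)) (XT.lf (nat_lit 76) (nat_lit 17051428413) (nat_lit 0) (nat_lit 53942872846)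 (nat_lit 456) (nat_lit 17051428413) (nat_lit 271) (nat_lit 1) (nat_lit 270) (nat_lit 1) (nat_lit 276) (nat_lit 1) (nat_lit 215) (nat_lit 411) (nat_lit 394)))))) (XT.nd (nat_lit 468) (nat_lit 1064) (nat_lit 0) (XT.nd (nat_lit 234) (nat_lit 608) (nat_lit 0) (XT.nd (nat_lit 78) (nat_lit 380) (nat_lit 0) (XT.lf (nat_lit 380) (nat_lit 21641053278) (nat_lit 0) (nat_lit 32280583000) (nat_lit 304) (nat_lit 32280583000) (nat_lit 271) (nat_lit 1) (nat_lit 266) (nat_lit 1) (nat_lit 270) (nat_lit 1) (nat_lit 216) (nat_lit 411) (nat_lit 393)) (XT.nd (nat_lit 78) (nat_lit 380) (nat_lit 0) (XT.lf (nat_lit 76) (nat_lit 4708948791) (nat_lit 0) (nat_lit 75011703638) (nat_lit 380) (nat_lit 4708948791) (nat_lit 267) (nat_lit 1) (nat_lit 266) (nat_lit 1) (nat_lit 271) (nat_lit 1) (nat_lit 217) (nat_lit 411) (nat_lit 392)) (XT.lf (nat_lit 76) (nat_lit 39678955633) (nat_lit 0) (nat_lit 3323189611) (nat_lit 380) (nat_lit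 39678955633) (nat_lit 262) (nat_lit 1) (nat_lit 261) (nat_lit 1) (nat_lit 266) (nat_lit 1) (nat_lit 218) (nat_lit 411) (nat_lit 391)))) (XT.nd (nat_lit 78) (nat_lit 304) (nat_lit 0) (XT.lf (nat_lit 380) (nat_lit 65635250055) (nat_lit 0) (nat_lit 7681968830) (nat_lit 304) (nat_lit 7681968830) (nat_lit 262) (nat_lit 1) (nat_lit 257) (nat_lit 1) (nat_lit 261) (nat_lit 1) (nat_lit 219) (nat_lit 411) (nat_lit 390)) (XT.nd (nat_lit 78) (nat_lit 304) (nat_lit 0) (XT.lf (nat_lit 76) (nat_lit 25745030597) (nat_lit 0) (nat_lit 27856066952) (nat_lit 380) (nat_lit 25745030597) (nat_lit 258) (nat_lit 1) (nat_lit 257) (nat_lit 1) (nat_lit 262) (nat_lit 1) (nat_lit 220) (nat_lit 411) (nat_lit 389)) (XT.lf (nat_lit 380) (nat_lit 37569161353) (nat_lit 0) (nat_lit 20090614759) (nat_lit 304) (nat_lit 20090614759) (nat_lit 258) (nat_lit 1) (nat_lit 253) (nat_lit 1) (nat_lit 257) (nat_lit 1) (nat_lit 221) (nat_lit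 411) (nat_lit 388))))) (XT.nd (nat_lit 234) (nat_lit 456) (nat_lit 0) (XT.nd (nat_lit 78) (nat_lit 608) (nat_lit 0) (XT.lf (nat_lit 76) (nat_lit 11847636806) (nat_lit 0) (nat_lit 52506039476) (nat_lit 380) (nat_lit 11847636806) (nat_lit 254) (nat_lit 1) (nat_lit 253) (nat_lit 1) (nat_lit 258) (nat_lit 1) (nat_lit 222) (nat_lit 411) (nat_lit 387)) (XT.nd (nat_lit 78) (nat_lit 380) (nat_lit 0) (XT.lf (nat_lit 304) (nat_lit 9635175589) (nat_lit 0) (nat_lit 32525249054) (nat_lit 228) (nat_lit 32525249054) (nat_lit 254) (nat_lit 1) (nat_lit 250) (nat_lit 1) (nat_lit 253) (nat_lit 1) (nat_lit 223) (nat_lit 411) (nat_lit 386)) (XT.lf (nat_lit 380) (nat_lit 69378295293) (nat_lit 0) (nat_lit 1925114571) (nat_lit 304) (nat_lit 1925114571) (nat_lit 250) (nat_lit 1) (nat_lit 245) (nat_lit 1) (nat_lit 249) (nat_lit 1) (nat_lit 224) (nat_lit 411) (nat_lit 385)))) (XT.nd (nat_lit 156) (nat_lit 228) (nat_lit 0)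 (XT.nd (nat_lit 78) (nat_lit 228) (nat_lit 0) (XT.lf (nat_lit 76) (nat_lit 27148239853) (nat_lit 0) (nat_lit 17482960615) (nat_lit 380) (nat_lit 27148239853) (nat_lit 246) (nat_lit 1) (nat_lit 245) (nat_lit 1) (nat_lit 250) (nat_lit 1) (nat_lit 225) (nat_lit 411) (nat_lit 384)) (XT.lf (nat_lit 304) (nat_lit 39650862578) (nat_lit 0) (nat_lit 15367534930) (nat_lit 228) (nat_lit 15367534930) (nat_lit 246) (nat_lit 1) (nat_lit 242) (nat_lit 1) (nat_lit 245) (nat_lit 1) (nat_lit 226) (nat_lit 411) (nat_lit 383))) (XT.nd (nat_lit 78) (nat_lit 228) (nat_lit 0) (XT.lf (nat_lit 76) (nat_lit 12526320824) (nat_lit 0) (nat_lit 43975187370) (nat_lit 304) (nat_lit 12526320824) (nat_lit 243) (nat_lit 1) (nat_lit 242) (nat_lit 1) (nat_lit 246) (nat_lit 1) (nat_lit 227) (nat_lit 411) (nat_lit 382)) (XT.lf (nat_lit 304) (nat_lit 10440296882) (nat_lit 0) (nat_lit 28630162602) (nat_lit 228) (nat_lit 28630162602) (nat_lit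 243) (nat_lit 1) (nat_lit 239) (nat_lit 1) (nat_lit 242) (nat_lit 1) (nat_lit 228) (nat_lit 411) (nat_lit 381))))))))
noncomputable def ec307 : XT := (XT.nd (nat_lit 1950) (nat_lit 2052) (nat_lit 0) (XT.nd (nat_lit 936) (nat_lit 1444) (nat_lit 0) (XT.nd (nat_lit 468) (nat_lit 532) (nat_lit 0) (XT.nd (nat_lit 234) (nat_lit 456) (nat_lit 0) (XT.nd (nat_lit 78) (nat_lit 228) (nat_lit 0) (XT.lf (nat_lit 304) (nat_lit 62834176843) (nat_lit 0) (nat_lit 1794272866) (nat_lit 228) (nat_lit 1794272866) (nat_lit 239) (nat_lit 1) (nat_lit 235) (nat_lit 1) (nat_lit 238) (nat_lit 1) (nat_lit 229) (nat_lit 411) (nat_lit 380)) (XT.nd (nat_lit 78) (nat_lit 228) (nat_lit 0) (XT.lf (nat_lit 76) (nat_lit 23768369642) (nat_lit 0) (nat_lit 17612123244) (nat_lit 304) (nat_lit 23768369642) (nat_lit 236) (nat_lit 1) (nat_lit 235) (nat_lit 1) (nat_lit 239) (nat_lit 1) (nat_lit 230) (nat_lit 411) (nat_lit 379)) (XT.lf (nat_lit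 304) (nat_lit 32683684629) (nat_lit 0) (nat_lit 15619225438) (nat_lit 228) (nat_lit 15619225438) (nat_lit 236) (nat_lit 1) (nat_lit 232) (nat_lit 1) (nat_lit 235) (nat_lit 1) (nat_lit 231) (nat_lit 411) (nat_lit 378)))) (XT.nd (nat_lit 78) (nat_lit 456) (nat_lit 0) (XT.lf (nat_lit 76) (nat_lit 9001060091) (nat_lit 0) (nat_lit 44726189679) (nat_lit 304) (nat_lit 9001060091) (nat_lit 233) (nat_lit 1) (nat_lit 232) (nat_lit 1) (nat_lit 236) (nat_lit 1) (nat_lit 232) (nat_lit 411) (nat_lit 377)) (XT.nd (nat_lit 78) (nat_lit 304) (nat_lit 0) (XT.lf (nat_lit 228) (nat_lit 3298287696) (nat_lit 0) (nat_lit 29129346724) (nat_lit 152) (nat_lit 29129346724) (nat_lit 233) (nat_lit 1) (nat_lit 230) (nat_lit 1) (nat_lit 232) (nat_lit 1) (nat_lit 233) (nat_lit 411) (nat_lit 376)) (XT.lf (nat_lit 304) (nat_lit 49836021132) (nat_lit 0) (nat_lit 5292946672) (nat_lit 228) (nat_lit 5292946672) (nat_lit 230) (nat_lit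 1) (nat_lit 226) (nat_lit 1) (nat_lit 229) (nat_lit 1) (nat_lit 234) (nat_lit 411) (nat_lit 375))))) (XT.nd (nat_lit 234) (nat_lit 380) (nat_lit 0) (XT.nd (nat_lit 78) (nat_lit 152) (nat_lit 0) (XT.lf (nat_lit 76) (nat_lit 17406539217) (nat_lit 0) (nat_lit 24486464002) (nat_lit 304) (nat_lit 17406539217) (nat_lit 227) (nat_lit 1) (nat_lit 226) (nat_lit 1) (nat_lit 230) (nat_lit 1) (nat_lit 235) (nat_lit 411) (nat_lit 374)) (XT.nd (nat_lit 78) (nat_lit 0) (nat_lit 0) (XT.lf (nat_lit 228) (nat_lit 20110570992) (nat_lit 0) (nat_lit 19050619441) (nat_lit 152) (nat_lit 19050619441) (nat_lit 227) (nat_lit 1) (nat_lit 224) (nat_lit 1) (nat_lit 226) (nat_lit 1) (nat_lit 236) (nat_lit 411) (nat_lit 373)) (XT.lf (nat_lit 76) (nat_lit 2889250730) (nat_lit 0) (nat_lit 51381673524) (nat_lit 228) (nat_lit 2889250730) (nat_lit 225) (nat_lit 1) (nat_lit 224) (nat_lit 1) (nat_lit 227) (nat_lit 1) (nat_lit 237)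 (nat_lit 411) (nat_lit 372)))) (XT.nd (nat_lit 78) (nat_lit 152) (nat_lit 0) (XT.lf (nat_lit 76) (nat_lit 23845493181) (nat_lit 0) (nat_lit 8421376500) (nat_lit 228) (nat_lit 23845493181) (nat_lit 222) (nat_lit 1) (nat_lit 221) (nat_lit 1) (nat_lit 224) (nat_lit 1) (nat_lit 238) (nat_lit 411) (nat_lit 371)) (XT.nd (nat_lit 78) (nat_lit 0) (nat_lit 0) (XT.lf (nat_lit 228) (nat_lit 33113646564) (nat_lit 0) (nat_lit 10992833477) (nat_lit 152) (nat_lit 10992833477) (nat_lit 222) (nat_lit 1) (nat_lit 219) (nat_lit 1) (nat_lit 221) (nat_lit 1) (nat_lit 239) (nat_lit 411) (nat_lit 370)) (XT.lf (nat_lit 76) (nat_lit 9343809569) (nat_lit 0) (nat_lit 35421035641) (nat_lit 228) (nat_lit 9343809569) (nat_lit 220) (nat_lit 1) (nat_lit 219) (nat_lit 1) (nat_lit 222) (nat_lit 1) (nat_lit 240) (nat_lit 411) (nat_lit 369)))))) (XT.nd (nat_lit 468) (nat_lit 760) (nat_lit 0) (XT.nd (nat_lit 234) (nat_lit 304) (nat_lit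 0) (XT.nd (nat_lit 78) (nat_lit 228) (nat_lit 0) (XT.lf (nat_lit 228) (nat_lit 4377238374) (nat_lit 0) (nat_lit 24380363397) (nat_lit 152) (nat_lit 24380363397) (nat_lit 220) (nat_lit 1) (nat_lit 217) (nat_lit 1) (nat_lit 219) (nat_lit 1) (nat_lit 241) (nat_lit 411) (nat_lit 368)) (XT.nd (nat_lit 78) (nat_lit 0) (nat_lit 0) (XT.lf (nat_lit 228) (nat_lit 43022326634) (nat_lit 0) (nat_lit 4586537703) (nat_lit 152) (nat_lit 4586537703) (nat_lit 217) (nat_lit 1) (nat_lit 214) (nat_lit 1) (nat_lit 216) (nat_lit 1) (nat_lit 242) (nat_lit 411) (nat_lit 367)) (XT.lf (nat_lit 76) (nat_lit 14322237965) (nat_lit 0) (nat_lit 22616407656) (nat_lit 228) (nat_lit 14322237965) (nat_lit 215) (nat_lit 1) (nat_lit 214) (nat_lit 1) (nat_lit 217) (nat_lit 1) (nat_lit 243) (nat_lit 411) (nat_lit 366)))) (XT.nd (nat_lit 78) (nat_lit 152) (nat_lit 0) (XT.lf (nat_lit 228) (nat_lit 14586504014) (nat_lit 0) (nat_lit 17883495740)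 (nat_lit 152) (nat_lit 17883495740) (nat_lit 215) (nat_lit 1) (nat_lit 212) (nat_lit 1) (nat_lit 214) (nat_lit 1) (nat_lit 244) (nat_lit 411) (nat_lit 365)) (XT.nd (nat_lit 78) (nat_lit 152) (nat_lit 0) (XT.lf (nat_lit 76) (nat_lit 479418158) (nat_lit 0) (nat_lit 48519093236) (nat_lit 228) (nat_lit 479418158) (nat_lit 213) (nat_lit 1) (nat_lit 212) (nat_lit 1) (nat_lit 215) (nat_lit 1) (nat_lit 245) (nat_lit 411) (nat_lit 364)) (XT.lf (nat_lit 76) (nat_lit 18102047959) (nat_lit 0) (nat_lit 12392702144) (nat_lit 152) (nat_lit 18102047959) (nat_lit 211) (nat_lit 1) (nat_lit 210) (nat_lit 1) (nat_lit 212) (nat_lit 1) (nat_lit 246) (nat_lit 411) (nat_lit 363))))) (XT.nd (nat_lit 234) (nat_lit 456) (nat_lit 0) (XT.nd (nat_lit 78) (nat_lit 152) (nat_lit 0) (XT.lf (nat_lit 228) (nat_lit 22462580733) (nat_lit 0) (nat_lit 12642044239) (nat_lit 152) (nat_lit 12642044239) (nat_lit 211) (nat_lit 1) (nat_lit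 208) (nat_lit 1) (nat_lit 210) (nat_lit 1) (nat_lit 247) (nat_lit 411) (nat_lit 362)) (XT.nd (nat_lit 78) (nat_lit 152) (nat_lit 0) (XT.lf (nat_lit 76) (nat_lit 4503592192) (nat_lit 0) (nat_lit 37912303111) (nat_lit 228) (nat_lit 4503592192) (nat_lit 209) (nat_lit 1) (nat_lit 208) (nat_lit 1) (nat_lit 211) (nat_lit 1) (nat_lit 248) (nat_lit 411) (nat_lit 361)) (XT.lf (nat_lit 76) (nat_lit 20910797122) (nat_lit 0) (nat_lit 4277533004) (nat_lit 152) (nat_lit 20910797122) (nat_lit 207) (nat_lit 1) (nat_lit 206) (nat_lit 1) (nat_lit 208) (nat_lit 1) (nat_lit 249) (nat_lit 411) (nat_lit 360)))) (XT.nd (nat_lit 156) (nat_lit 304) (nat_lit 0) (XT.nd (nat_lit 78) (nat_lit 0) (nat_lit 0) (XT.lf (nat_lit 228) (nat_lit 28444047218) (nat_lit 0) (nat_lit 8428496354) (nat_lit 152) (nat_lit 8428496354) (nat_lit 207) (nat_lit 1) (nat_lit 204) (nat_lit 1) (nat_lit 206) (nat_lit 1) (nat_lit 250) (nat_lit 411) (nat_lit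 359)) (XT.lf (nat_lit 76) (nat_lit 7618615192) (nat_lit 0) (nat_lit 29281521814) (nat_lit 228) (nat_lit 7618615192) (nat_lit 205) (nat_lit 1) (nat_lit 204) (nat_lit 1) (nat_lit 207) (nat_lit 1) (nat_lit 251) (nat_lit 411) (nat_lit 358))) (XT.nd (nat_lit 78) (nat_lit 228) (nat_lit 0) (XT.lf (nat_lit 152) (nat_lit 2187026979) (nat_lit 0) (nat_lit 20782099819) (nat_lit 76) (nat_lit 20782099819) (nat_lit 205) (nat_lit 1) (nat_lit 203) (nat_lit 1) (nat_lit 204) (nat_lit 1) (nat_lit 252) (nat_lit 411) (nat_lit 357)) (XT.lf (nat_lit 228) (nat_lit 32890537048) (nat_lit 0) (nat_lit 5055911735) (nat_lit 152) (nat_lit 5055911735) (nat_lit 203) (nat_lit 1) (nat_lit 200) (nat_lit 1) (nat_lit 202) (nat_lit 1) (nat_lit 253) (nat_lit 411) (nat_lit 356))))))) (XT.nd (nat_lit 1014) (nat_lit 988) (nat_lit 0) (XT.nd (nat_lit 468) (nat_lit 456) (nat_lit 0) (XT.nd (nat_lit 234) (nat_lit 304) (nat_lit 0) (XT.nd (nat_lit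 78) (nat_lit 304) (nat_lit 0) (XT.lf (nat_lit 76) (nat_lit 9994995239) (nat_lit 0) (nat_lit 22271862576) (nat_lit 228) (nat_lit 9994995239) (nat_lit 201) (nat_lit 1) (nat_lit 200) (nat_lit 1) (nat_lit 203) (nat_lit 1) (nat_lit 254) (nat_lit 411) (nat_lit 355)) (XT.nd (nat_lit 78) (nat_lit 228) (nat_lit 0) (XT.lf (nat_lit 152) (nat_lit 7344532061) (nat_lit 0) (nat_lit 17097484952) (nat_lit 76) (nat_lit 17097484952) (nat_lit 201) (nat_lit 1) (nat_lit 199) (nat_lit 1) (nat_lit 200) (nat_lit 1) (nat_lit 255) (nat_lit 411) (nat_lit 354)) (XT.lf (nat_lit 228) (nat_lit 36096791949) (nat_lit 0) (nat_lit 2370717692) (nat_lit 152) (nat_lit 2370717692) (nat_lit 199) (nat_lit 1) (nat_lit 196) (nat_lit 1) (nat_lit 198) (nat_lit 1) (nat_lit 256) (nat_lit 411) (nat_lit 353)))) (XT.nd (nat_lit 78) (nat_lit 304) (nat_lit 0) (XT.lf (nat_lit 76) (nat_lit 11772566049) (nat_lit 0) (nat_lit 16591575615) (nat_lit 228)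 (nat_lit 11772566049) (nat_lit 197) (nat_lit 1) (nat_lit 196) (nat_lit 1) (nat_lit 199) (nat_lit 1) (nat_lit 257) (nat_lit 411) (nat_lit 352)) (XT.nd (nat_lit 78) (nat_lit 228) (nat_lit 0) (XT.lf (nat_lit 152) (nat_lit 11323564277) (nat_lit 0) (nat_lit 14066143183) (nat_lit 76) (nat_lit 14066143183) (nat_lit 197) (nat_lit 1) (nat_lit 195) (nat_lit 1) (nat_lit 196) (nat_lit 1) (nat_lit 258) (nat_lit 411) (nat_lit 351)) (XT.lf (nat_lit 228) (nat_lit 38304220756) (nat_lit 0) (nat_lit 246782547) (nat_lit 152) (nat_lit 246782547) (nat_lit 195) (nat_lit 1) (nat_lit 192) (nat_lit 1) (nat_lit 194) (nat_lit 1) (nat_lit 259) (nat_lit 411) (nat_lit 350))))) (XT.nd (nat_lit 234) (nat_lit 380) (nat_lit 0) (XT.nd (nat_lit 78) (nat_lit 76) (nat_lit 0) (XT.lf (nat_lit 76) (nat_lit 13065946585) (nat_lit 0) (nat_lit 12000843801) (nat_lit 228) (nat_lit 13065946585) (nat_lit 193) (nat_lit 1) (nat_lit 192) (nat_lit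 1) (nat_lit 195) (nat_lit 1) (nat_lit 260) (nat_lit 411) (nat_lit 349)) (XT.nd (nat_lit 78) (nat_lit 0) (nat_lit 0) (XT.lf (nat_lit 152) (nat_lit 14345638234) (nat_lit 0) (nat_lit 11572250807) (nat_lit 76) (nat_lit 11572250807) (nat_lit 193) (nat_lit 1) (nat_lit 191) (nat_lit 1) (nat_lit 192) (nat_lit 1) (nat_lit 261) (nat_lit 411) (nat_lit 348)) (XT.lf (nat_lit 0) (nat_lit 1442729567) (nat_lit 0) (nat_lit 33981484673) (nat_lit 152) (nat_lit 1442729567) (nat_lit 191) (nat_lit 3) (nat_lit 191) (nat_lit 1) (nat_lit 193) (nat_lit 1) (nat_lit 262) (nat_lit 411) (nat_lit 347)))) (XT.nd (nat_lit 156) (nat_lit 152) (nat_lit 0) (XT.nd (nat_lit 78) (nat_lit 76) (nat_lit 0) (XT.lf (nat_lit 76) (nat_lit 13969031697) (nat_lit 0) (nat_lit 8302565306) (nat_lit 152) (nat_lit 13969031697) (nat_lit 190) (nat_lit 1) (nat_lit 189) (nat_lit 1) (nat_lit 191) (nat_lit 1) (nat_lit 263) (nat_lit 411) (nat_lit 346)) (XT.lf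 (nat_lit 152) (nat_lit 16592395772) (nat_lit 0) (nat_lit 9520519378) (nat_lit 76) (nat_lit 9520519378) (nat_lit 190) (nat_lit 1) (nat_lit 188) (nat_lit 1) (nat_lit 189) (nat_lit 1) (nat_lit 264) (nat_lit 411) (nat_lit 345))) (XT.nd (nat_lit 78) (nat_lit 152) (nat_lit 0) (XT.lf (nat_lit 0) (nat_lit 2757495774) (nat_lit 0) (nat_lit 29527210126) (nat_lit 152) (nat_lit 2757495774) (nat_lit 188) (nat_lit 3) (nat_lit 188) (nat_lit 1) (nat_lit 190) (nat_lit 1) (nat_lit 265) (nat_lit 411) (nat_lit 344)) (XT.lf (nat_lit 76) (nat_lit 14558685621) (nat_lit 0) (nat_lit 5334770940) (nat_lit 152) (nat_lit 14558685621) (nat_lit 187) (nat_lit 1) (nat_lit 186) (nat_lit 1) (nat_lit 188) (nat_lit 1) (nat_lit 266) (nat_lit 411) (nat_lit 343)))))) (XT.nd (nat_lit 468) (nat_lit 532) (nat_lit 0) (XT.nd (nat_lit 234) (nat_lit 228) (nat_lit 0) (XT.nd (nat_lit 78) (nat_lit 152) (nat_lit 0) (XT.lf (nat_lit 152) (nat_lit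 18212703822) (nat_lit 0) (nat_lit 7832554853) (nat_lit 76) (nat_lit 7832554853) (nat_lit 187) (nat_lit 1) (nat_lit 185) (nat_lit 1) (nat_lit 186) (nat_lit 1) (nat_lit 267) (nat_lit 411) (nat_lit 342)) (XT.nd (nat_lit 78) (nat_lit 152) (nat_lit 0) (XT.lf (nat_lit 0) (nat_lit 3764368682) (nat_lit 0) (nat_lit 25787878928) (nat_lit 152) (nat_lit 3764368682) (nat_lit 185) (nat_lit 3) (nat_lit 185) (nat_lit 1) (nat_lit 187) (nat_lit 1) (nat_lit 268) (nat_lit 411) (nat_lit 341)) (XT.lf (nat_lit 76) (nat_lit 14897779712) (nat_lit 0) (nat_lit 2964386317) (nat_lit 152) (nat_lit 14897779712) (nat_lit 184) (nat_lit 1) (nat_lit 183) (nat_lit 1) (nat_lit 185) (nat_lit 1) (nat_lit 269) (nat_lit 411) (nat_lit 340)))) (XT.nd (nat_lit 78) (nat_lit 152) (nat_lit 0) (XT.lf (nat_lit 152) (nat_lit 19328492466) (nat_lit 0) (nat_lit 6443862262) (nat_lit 76) (nat_lit 6443862262) (nat_lit 184) (nat_lit 1) (nat_lit 182)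 (nat_lit 1) (nat_lit 183) (nat_lit 1) (nat_lit 270) (nat_lit 411) (nat_lit 339)) (XT.nd (nat_lit 78) (nat_lit 152) (nat_lit 0) (XT.lf (nat_lit 0) (nat_lit 4521498368) (nat_lit 0) (nat_lit 22640294751) (nat_lit 152) (nat_lit 4521498368) (nat_lit 182) (nat_lit 3) (nat_lit 182) (nat_lit 1) (nat_lit 184) (nat_lit 1) (nat_lit 271) (nat_lit 411) (nat_lit 338)) (XT.lf (nat_lit 76) (nat_lit 15037690735) (nat_lit 0) (nat_lit 1082100400) (nat_lit 152) (nat_lit 15037690735) (nat_lit 181) (nat_lit 1) (nat_lit 180) (nat_lit 1) (nat_lit 182) (nat_lit 1) (nat_lit 272) (nat_lit 411) (nat_lit 337))))) (XT.nd (nat_lit 234) (nat_lit 380) (nat_lit 0) (XT.nd (nat_lit 78) (nat_lit 76) (nat_lit 0) (XT.lf (nat_lit 152) (nat_lit 20039556642) (nat_lit 0) (nat_lit 5301381430) (nat_lit 76) (nat_lit 5301381430) (nat_lit 181) (nat_lit 1) (nat_lit 179) (nat_lit 1) (nat_lit 180) (nat_lit 1) (nat_lit 273) (nat_lit 411) (nat_lit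 336)) (XT.nd (nat_lit 78) (nat_lit 76) (nat_lit 0) (XT.lf (nat_lit 0) (nat_lit 5076555456) (nat_lit 0) (nat_lit 19982934081) (nat_lit 152) (nat_lit 5076555456) (nat_lit 179) (nat_lit 3) (nat_lit 179) (nat_lit 1) (nat_lit 181) (nat_lit 1) (nat_lit 274) (nat_lit 411) (nat_lit 335)) (XT.lf (nat_lit 76) (nat_lit 415142926) (nat_lit 0) (nat_lit 14611693997) (nat_lit 76) (nat_lit 14611693997) (nat_lit 179) (nat_lit 3) (nat_lit 178) (nat_lit 1) (nat_lit 179) (nat_lit 1) (nat_lit 275) (nat_lit 411) (nat_lit 334)))) (XT.nd (nat_lit 156) (nat_lit 228) (nat_lit 0) (XT.nd (nat_lit 78) (nat_lit 0) (nat_lit 0) (XT.lf (nat_lit 152) (nat_lit 20427505278) (nat_lit 0) (nat_lit 4361459622) (nat_lit 76) (nat_lit 4361459622) (nat_lit 178) (nat_lit 1) (nat_lit 176) (nat_lit 1) (nat_lit 177) (nat_lit 1) (nat_lit 276) (nat_lit 411) (nat_lit 333)) (XT.lf (nat_lit 0) (nat_lit 5468597175) (nat_lit 0) (nat_lit 17732111760)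 (nat_lit 152) (nat_lit 5468597175) (nat_lit 176) (nat_lit 3) (nat_lit 176) (nat_lit 1) (nat_lit 178) (nat_lit 1) (nat_lit 277) (nat_lit 411) (nat_lit 332))) (XT.nd (nat_lit 78) (nat_lit 152) (nat_lit 0) (XT.lf (nat_lit 76) (nat_lit 1612801188) (nat_lit 0) (nat_lit 13292338888) (nat_lit 76) (nat_lit 13292338888) (nat_lit 176) (nat_lit 3) (nat_lit 175) (nat_lit 1) (nat_lit 176) (nat_lit 1) (nat_lit 278) (nat_lit 411) (nat_lit 331)) (XT.lf (nat_lit 152) (nat_lit 20559009084) (nat_lit 0) (nat_lit 3588183625) (nat_lit 76) (nat_lit 3588183625) (nat_lit 175) (nat_lit 1) (nat_lit 173) (nat_lit 1) (nat_lit 174) (nat_lit 1) (nat_lit 279) (nat_lit 411) (nat_lit 330))))))))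
noncomputable def ec308 : XT := (XT.nd (nat_lit 1950) (nat_lit 1900) (nat_lit 0) (XT.nd (nat_lit 936) (nat_lit 912) (nat_lit 0) (XT.nd (nat_lit 468) (nat_lit 456) (nat_lit 0) (XT.nd (nat_lit 234) (nat_lit 228) (nat_lit 0) (XT.nd (nat_lit 78) (nat_lit 228) (nat_lit 0) (XT.lf (nat_lit 0) (nat_lit 5729602180) (nat_lit 0) (nat_lit 15818825978) (nat_lit 152) (nat_lit 5729602180) (nat_lit 173) (nat_lit 3) (nat_lit 173) (nat_lit 1) (nat_lit 175) (nat_lit 1) (nat_lit 280) (nat_lit 411) (nat_lit 329)) (XT.nd (nat_lit 78) (nat_lit 152) (nat_lit 0) (XT.lf (nat_lit 76) (nat_lit 2537581315) (nat_lit 0) (nat_lit 12146365885) (nat_lit 76) (nat_lit 12146365885) (nat_lit 173) (nat_lit 3) (nat_lit 172) (nat_lit 1) (nat_lit 173) (nat_lit 1) (nat_lit 281) (nat_lit 411) (nat_lit 328)) (XT.lf (nat_lit 152) (nat_lit 20488471403) (nat_lit 0) (nat_lit 2952007548) (nat_lit 76) (nat_lit 2952007548) (nat_lit 172) (nat_lit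 1) (nat_lit 170) (nat_lit 1) (nat_lit 171) (nat_lit 1) (nat_lit 282) (nat_lit 411) (nat_lit 327)))) (XT.nd (nat_lit 78) (nat_lit 228) (nat_lit 0) (XT.lf (nat_lit 0) (nat_lit 5885732893) (nat_lit 0) (nat_lit 14186162281) (nat_lit 152) (nat_lit 5885732893) (nat_lit 170) (nat_lit 3) (nat_lit 170) (nat_lit 1) (nat_lit 172) (nat_lit 1) (nat_lit 283) (nat_lit 411) (nat_lit 326)) (XT.nd (nat_lit 78) (nat_lit 152) (nat_lit 0) (XT.lf (nat_lit 76) (nat_lit 3240746606) (nat_lit 0) (nat_lit 11145917451) (nat_lit 76) (nat_lit 11145917451) (nat_lit 170) (nat_lit 3) (nat_lit 169) (nat_lit 1) (nat_lit 170) (nat_lit 1) (nat_lit 284) (nat_lit 411) (nat_lit 325)) (XT.lf (nat_lit 152) (nat_lit 20260224461) (nat_lit 0) (nat_lit 2428623915) (nat_lit 76) (nat_lit 2428623915) (nat_lit 169) (nat_lit 1) (nat_lit 167) (nat_lit 1) (nat_lit 168) (nat_lit 1) (nat_lit 285) (nat_lit 411) (nat_lit 324))))) (XT.nd (nat_lit 234)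 (nat_lit 228) (nat_lit 0) (XT.nd (nat_lit 78) (nat_lit 228) (nat_lit 0) (XT.lf (nat_lit 0) (nat_lit 5958373683) (nat_lit 0) (nat_lit 12787157483) (nat_lit 152) (nat_lit 5958373683) (nat_lit 167) (nat_lit 3) (nat_lit 167) (nat_lit 1) (nat_lit 169) (nat_lit 1) (nat_lit 286) (nat_lit 411) (nat_lit 323)) (XT.nd (nat_lit 78) (nat_lit 152) (nat_lit 0) (XT.lf (nat_lit 76) (nat_lit 3764334231) (nat_lit 0) (nat_lit 10267937849) (nat_lit 76) (nat_lit 10267937849) (nat_lit 167) (nat_lit 3) (nat_lit 166) (nat_lit 1) (nat_lit 167) (nat_lit 1) (nat_lit 287) (nat_lit 411) (nat_lit 322)) (XT.lf (nat_lit 152) (nat_lit 19910335217) (nat_lit 0) (nat_lit 1998034905) (nat_lit 76) (nat_lit 1998034905) (nat_lit 166) (nat_lit 1) (nat_lit 164) (nat_lit 1) (nat_lit 165) (nat_lit 1) (nat_lit 288) (nat_lit 411) (nat_lit 321)))) (XT.nd (nat_lit 78) (nat_lit 228) (nat_lit 0) (XT.lf (nat_lit 0) (nat_lit 5964984648) (nat_lit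 0) (nat_lit 11583041980) (nat_lit 152) (nat_lit 5964984648) (nat_lit 164) (nat_lit 3) (nat_lit 164) (nat_lit 1) (nat_lit 166) (nat_lit 1) (nat_lit 289) (nat_lit 411) (nat_lit 320)) (XT.nd (nat_lit 78) (nat_lit 152) (nat_lit 0) (XT.lf (nat_lit 76) (nat_lit 4142797544) (nat_lit 0) (nat_lit 9493328335) (nat_lit 76) (nat_lit 9493328335) (nat_lit 164) (nat_lit 3) (nat_lit 163) (nat_lit 1) (nat_lit 164) (nat_lit 1) (nat_lit 290) (nat_lit 411) (nat_lit 319)) (XT.lf (nat_lit 152) (nat_lit 19468090069) (nat_lit 0) (nat_lit 1643788261) (nat_lit 76) (nat_lit 1643788261) (nat_lit 163) (nat_lit 1) (nat_lit 161) (nat_lit 1) (nat_lit 162) (nat_lit 1) (nat_lit 291) (nat_lit 411) (nat_lit 318)))))) (XT.nd (nat_lit 468) (nat_lit 456) (nat_lit 0) (XT.nd (nat_lit 234) (nat_lit 228) (nat_lit 0) (XT.nd (nat_lit 78) (nat_lit 228) (nat_lit 0) (XT.lf (nat_lit 0) (nat_lit 5919803702) (nat_lit 0) (nat_lit 10541793372) (nat_lit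 152) (nat_lit 5919803702) (nat_lit 161) (nat_lit 3) (nat_lit 161) (nat_lit 1) (nat_lit 163) (nat_lit 1) (nat_lit 292) (nat_lit 411) (nat_lit 317)) (XT.nd (nat_lit 78) (nat_lit 152) (nat_lit 0) (XT.lf (nat_lit 76) (nat_lit 4404356892) (nat_lit 0) (nat_lit 8806251816) (nat_lit 76) (nat_lit 8806251816) (nat_lit 161) (nat_lit 3) (nat_lit 160) (nat_lit 1) (nat_lit 161) (nat_lit 1) (nat_lit 293) (nat_lit 411) (nat_lit 316)) (XT.lf (nat_lit 152) (nat_lit 18957215415) (nat_lit 0) (nat_lit 1352348670) (nat_lit 76) (nat_lit 1352348670) (nat_lit 160) (nat_lit 1) (nat_lit 158) (nat_lit 1) (nat_lit 159) (nat_lit 1) (nat_lit 294) (nat_lit 411) (nat_lit 315)))) (XT.nd (nat_lit 78) (nat_lit 228) (nat_lit 0) (XT.lf (nat_lit 0) (nat_lit 5834423889) (nat_lit 0) (nat_lit 9636946229) (nat_lit 152) (nat_lit 5834423889) (nat_lit 158) (nat_lit 3) (nat_lit 158) (nat_lit 1) (nat_lit 160) (nat_lit 1) (nat_lit 295) (nat_lit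 411) (nat_lit 314)) (XT.nd (nat_lit 78) (nat_lit 152) (nat_lit 0) (XT.lf (nat_lit 76) (nat_lit 4572110649) (nat_lit 0) (nat_lit 8193560497) (nat_lit 76) (nat_lit 8193560497) (nat_lit 158) (nat_lit 3) (nat_lit 157) (nat_lit 1) (nat_lit 158) (nat_lit 1) (nat_lit 296) (nat_lit 411) (nat_lit 313)) (XT.lf (nat_lit 152) (nat_lit 18396880928) (nat_lit 0) (nat_lit 1112580598) (nat_lit 76) (nat_lit 1112580598) (nat_lit 157) (nat_lit 1) (nat_lit 155) (nat_lit 1) (nat_lit 156) (nat_lit 1) (nat_lit 297) (nat_lit 411) (nat_lit 312))))) (XT.nd (nat_lit 234) (nat_lit 228) (nat_lit 0) (XT.nd (nat_lit 78) (nat_lit 228) (nat_lit 0) (XT.lf (nat_lit 0) (nat_lit 5718268051) (nat_lit 0) (nat_lit 8846612591) (nat_lit 152) (nat_lit 5718268051) (nat_lit 155) (nat_lit 3) (nat_lit 155) (nat_lit 1) (nat_lit 157) (nat_lit 1) (nat_lit 298) (nat_lit 411) (nat_lit 311)) (XT.nd (nat_lit 78) (nat_lit 152) (nat_lit 0) (XT.lf (nat_lit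 76) (nat_lit 4664948969) (nat_lit 0) (nat_lit 7644324721) (nat_lit 76) (nat_lit 7644324721) (nat_lit 155) (nat_lit 3) (nat_lit 154) (nat_lit 1) (nat_lit 155) (nat_lit 1) (nat_lit 299) (nat_lit 411) (nat_lit 310)) (XT.lf (nat_lit 152) (nat_lit 17802524126) (nat_lit 0) (nat_lit 915322811) (nat_lit 76) (nat_lit 915322811) (nat_lit 154) (nat_lit 1) (nat_lit 152) (nat_lit 1) (nat_lit 153) (nat_lit 1) (nat_lit 300) (nat_lit 411) (nat_lit 309)))) (XT.nd (nat_lit 156) (nat_lit 152) (nat_lit 0) (XT.nd (nat_lit 78) (nat_lit 76) (nat_lit 0) (XT.lf (nat_lit 0) (nat_lit 5578979067) (nat_lit 0) (nat_lit 8152675861) (nat_lit 152) (nat_lit 5578979067) (nat_lit 152) (nat_lit 3) (nat_lit 152) (nat_lit 1) (nat_lit 154) (nat_lit 1) (nat_lit 301) (nat_lit 411) (nat_lit 308)) (XT.lf (nat_lit 76) (nat_lit 4698305274) (nat_lit 0) (nat_lit 7149445078) (nat_lit 76) (nat_lit 7149445078) (nat_lit 152) (nat_lit 3) (nat_lit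 151) (nat_lit 1) (nat_lit 152) (nat_lit 1) (nat_lit 302) (nat_lit 411) (nat_lit 307))) (XT.nd (nat_lit 78) (nat_lit 0) (nat_lit 0) (XT.lf (nat_lit 152) (nat_lit 17186527950) (nat_lit 0) (nat_lit 753038342) (nat_lit 76) (nat_lit 753038342) (nat_lit 151) (nat_lit 1) (nat_lit 149) (nat_lit 1) (nat_lit 150) (nat_lit 1) (nat_lit 303) (nat_lit 411) (nat_lit 306)) (XT.lf (nat_lit 0) (nat_lit 5422740637) (nat_lit 0) (nat_lit 7540127359) (nat_lit 152) (nat_lit 5422740637) (nat_lit 149) (nat_lit 3) (nat_lit 149) (nat_lit 1) (nat_lit 151) (nat_lit 1) (nat_lit 304) (nat_lit 411) (nat_lit 305))))))) (XT.nd (nat_lit 936) (nat_lit 988) (nat_lit 0) (XT.nd (nat_lit 468) (nat_lit 456) (nat_lit 0) (XT.nd (nat_lit 234) (nat_lit 228) (nat_lit 0) (XT.nd (nat_lit 78) (nat_lit 152) (nat_lit 0) (XT.lf (nat_lit 76) (nat_lit 4684774245) (nat_lit 0) (nat_lit 6701333028) (nat_lit 76) (nat_lit 6701333028) (nat_lit 149) (nat_lit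 3) (nat_lit 148) (nat_lit 1) (nat_lit 149) (nat_lit 1) (nat_lit 305) (nat_lit 411) (nat_lit 304)) (XT.nd (nat_lit 78) (nat_lit 0) (nat_lit 0) (XT.lf (nat_lit 152) (nat_lit 16558777452) (nat_lit 0) (nat_lit 619526507) (nat_lit 76) (nat_lit 619526507) (nat_lit 148) (nat_lit 1) (nat_lit 146) (nat_lit 1) (nat_lit 147) (nat_lit 1) (nat_lit 306) (nat_lit 411) (nat_lit 303)) (XT.lf (nat_lit 0) (nat_lit 5254540953) (nat_lit 0) (nat_lit 6996520250) (nat_lit 152) (nat_lit 5254540953) (nat_lit 146) (nat_lit 3) (nat_lit 146) (nat_lit 1) (nat_lit 148) (nat_lit 1) (nat_lit 307) (nat_lit 411) (nat_lit 302)))) (XT.nd (nat_lit 78) (nat_lit 152) (nat_lit 0) (XT.lf (nat_lit 76) (nat_lit 4634620002) (nat_lit 0) (nat_lit 6293647904) (nat_lit 76) (nat_lit 6293647904) (nat_lit 146) (nat_lit 3) (nat_lit 145) (nat_lit 1) (nat_lit 146) (nat_lit 1) (nat_lit 308) (nat_lit 411) (nat_lit 301)) (XT.nd (nat_lit 78) (nat_lit 0)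 (nat_lit 0) (XT.lf (nat_lit 152) (nat_lit 15927117070) (nat_lit 0) (nat_lit 509685991) (nat_lit 76) (nat_lit 509685991) (nat_lit 145) (nat_lit 1) (nat_lit 143) (nat_lit 1) (nat_lit 144) (nat_lit 1) (nat_lit 309) (nat_lit 411) (nat_lit 300)) (XT.lf (nat_lit 0) (nat_lit 5078389381) (nat_lit 0) (nat_lit 6511520059) (nat_lit 152) (nat_lit 5078389381) (nat_lit 143) (nat_lit 3) (nat_lit 143) (nat_lit 1) (nat_lit 145) (nat_lit 1) (nat_lit 310) (nat_lit 411) (nat_lit 299))))) (XT.nd (nat_lit 234) (nat_lit 228) (nat_lit 0) (XT.nd (nat_lit 78) (nat_lit 152) (nat_lit 0) (XT.lf (nat_lit 76) (nat_lit 4556193952) (nat_lit 0) (nat_lit 5921080312) (nat_lit 76) (nat_lit 5921080312) (nat_lit 143) (nat_lit 3) (nat_lit 142) (nat_lit 1) (nat_lit 143) (nat_lit 1) (nat_lit 311) (nat_lit 411) (nat_lit 298)) (XT.nd (nat_lit 78) (nat_lit 0) (nat_lit 0) (XT.lf (nat_lit 152) (nat_lit 15297726135) (nat_lit 0) (nat_lit 419319926)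 (nat_lit 76) (nat_lit 419319926) (nat_lit 142) (nat_lit 1) (nat_lit 140) (nat_lit 1) (nat_lit 141) (nat_lit 1) (nat_lit 312) (nat_lit 411) (nat_lit 297)) (XT.lf (nat_lit 0) (nat_lit 4897494497) (nat_lit 0) (nat_lit 6076534653) (nat_lit 152) (nat_lit 4897494497) (nat_lit 140) (nat_lit 3) (nat_lit 140) (nat_lit 1) (nat_lit 142) (nat_lit 1) (nat_lit 313) (nat_lit 411) (nat_lit 296)))) (XT.nd (nat_lit 78) (nat_lit 152) (nat_lit 0) (XT.lf (nat_lit 76) (nat_lit 4456278332) (nat_lit 0) (nat_lit 5579173718) (nat_lit 76) (nat_lit 5579173718) (nat_lit 140) (nat_lit 3) (nat_lit 139) (nat_lit 1) (nat_lit 140) (nat_lit 1) (nat_lit 314) (nat_lit 411) (nat_lit 295)) (XT.nd (nat_lit 78) (nat_lit 0) (nat_lit 0) (XT.lf (nat_lit 152) (nat_lit 14675427155) (nat_lit 0) (nat_lit 344975541) (nat_lit 76) (nat_lit 344975541) (nat_lit 139) (nat_lit 1) (nat_lit 137) (nat_lit 1) (nat_lit 138) (nat_lit 1) (nat_lit 315) (nat_lit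 411) (nat_lit 294)) (XT.lf (nat_lit 0) (nat_lit 4714410353) (nat_lit 0) (nat_lit 5684409607) (nat_lit 152) (nat_lit 4714410353) (nat_lit 137) (nat_lit 3) (nat_lit 137) (nat_lit 1) (nat_lit 139) (nat_lit 1) (nat_lit 316) (nat_lit 411) (nat_lit 293)))))) (XT.nd (nat_lit 468) (nat_lit 532) (nat_lit 0) (XT.nd (nat_lit 234) (nat_lit 228) (nat_lit 0) (XT.nd (nat_lit 78) (nat_lit 152) (nat_lit 0) (XT.lf (nat_lit 76) (nat_lit 4340368633) (nat_lit 0) (nat_lit 5264177446) (nat_lit 76) (nat_lit 5264177446) (nat_lit 137) (nat_lit 3) (nat_lit 136) (nat_lit 1) (nat_lit 137) (nat_lit 1) (nat_lit 317) (nat_lit 411) (nat_lit 292)) (XT.nd (nat_lit 78) (nat_lit 0) (nat_lit 0) (XT.lf (nat_lit 152) (nat_lit 14063938815) (nat_lit 0) (nat_lit 283812231) (nat_lit 76) (nat_lit 283812231) (nat_lit 136) (nat_lit 1) (nat_lit 134) (nat_lit 1) (nat_lit 135) (nat_lit 1) (nat_lit 318) (nat_lit 411) (nat_lit 291)) (XT.lf (nat_lit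 0) (nat_lit 4531156597) (nat_lit 0) (nat_lit 5329177384) (nat_lit 152) (nat_lit 4531156597) (nat_lit 134) (nat_lit 3) (nat_lit 134) (nat_lit 1) (nat_lit 136) (nat_lit 1) (nat_lit 319) (nat_lit 411) (nat_lit 290)))) (XT.nd (nat_lit 78) (nat_lit 152) (nat_lit 0) (XT.lf (nat_lit 76) (nat_lit 4212905750) (nat_lit 0) (nat_lit 4972925547) (nat_lit 76) (nat_lit 4972925547) (nat_lit 134) (nat_lit 3) (nat_lit 133) (nat_lit 1) (nat_lit 134) (nat_lit 1) (nat_lit 320) (nat_lit 411) (nat_lit 289)) (XT.nd (nat_lit 78) (nat_lit 0) (nat_lit 0) (XT.lf (nat_lit 152) (nat_lit 13466083532) (nat_lit 0) (nat_lit 233493025) (nat_lit 76) (nat_lit 233493025) (nat_lit 133) (nat_lit 1) (nat_lit 131) (nat_lit 1) (nat_lit 132) (nat_lit 1) (nat_lit 321) (nat_lit 411) (nat_lit 288)) (XT.lf (nat_lit 0) (nat_lit 4349317111) (nat_lit 0) (nat_lit 5005850788) (nat_lit 152) (nat_lit 4349317111) (nat_lit 131) (nat_lit 3) (nat_lit 131)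 (nat_lit 1) (nat_lit 133) (nat_lit 1) (nat_lit 322) (nat_lit 411) (nat_lit 287))))) (XT.nd (nat_lit 234) (nat_lit 304) (nat_lit 0) (XT.nd (nat_lit 78) (nat_lit 152) (nat_lit 0) (XT.lf (nat_lit 76) (nat_lit 4077466781) (nat_lit 0) (nat_lit 4702736949) (nat_lit 76) (nat_lit 4702736949) (nat_lit 131) (nat_lit 3) (nat_lit 130) (nat_lit 1) (nat_lit 131) (nat_lit 1) (nat_lit 323) (nat_lit 411) (nat_lit 286)) (XT.nd (nat_lit 78) (nat_lit 0) (nat_lit 0) (XT.lf (nat_lit 152) (nat_lit 12883957641) (nat_lit 0) (nat_lit 192095289) (nat_lit 76) (nat_lit 192095289) (nat_lit 130) (nat_lit 1) (nat_lit 128) (nat_lit 1) (nat_lit 129) (nat_lit 1) (nat_lit 324) (nat_lit 411) (nat_lit 285)) (XT.lf (nat_lit 0) (nat_lit 4170120965) (nat_lit 0) (nat_lit 4710252846) (nat_lit 152) (nat_lit 4170120965) (nat_lit 128) (nat_lit 3) (nat_lit 128) (nat_lit 1) (nat_lit 130) (nat_lit 1) (nat_lit 325) (nat_lit 411) (nat_lit 284))))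 (XT.nd (nat_lit 156) (nat_lit 76) (nat_lit 0) (XT.nd (nat_lit 78) (nat_lit 152) (nat_lit 0) (XT.lf (nat_lit 76) (nat_lit 3936921816) (nat_lit 0) (nat_lit 4451333131) (nat_lit 76) (nat_lit 4451333131) (nat_lit 128) (nat_lit 3) (nat_lit 127) (nat_lit 1) (nat_lit 128) (nat_lit 1) (nat_lit 326) (nat_lit 411) (nat_lit 283)) (XT.lf (nat_lit 152) (nat_lit 12319070878) (nat_lit 0) (nat_lit 158037270) (nat_lit 76) (nat_lit 158037270) (nat_lit 127) (nat_lit 1) (nat_lit 125) (nat_lit 1) (nat_lit 126) (nat_lit 1) (nat_lit 327) (nat_lit 411) (nat_lit 282))) (XT.nd (nat_lit 78) (nat_lit 76) (nat_lit 0) (XT.lf (nat_lit 0) (nat_lit 3994508852) (nat_lit 0) (nat_lit 4438876686) (nat_lit 152) (nat_lit 3994508852) (nat_lit 125) (nat_lit 3) (nat_lit 125) (nat_lit 1) (nat_lit 127) (nat_lit 1) (nat_lit 328) (nat_lit 411) (nat_lit 281)) (XT.lf (nat_lit 76) (nat_lit 3793562754) (nat_lit 0) (nat_lit 4216770215) (nat_lit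 76) (nat_lit 4216770215) (nat_lit 125) (nat_lit 3) (nat_lit 124) (nat_lit 1) (nat_lit 125) (nat_lit 1) (nat_lit 329) (nat_lit 411) (nat_lit 280))))))))
noncomputable def ec309 : XT := (XT.nd (nat_lit 1950) (nat_lit 1900) (nat_lit 0) (XT.nd (nat_lit 936) (nat_lit 1064) (nat_lit 0) (XT.nd (nat_lit 468) (nat_lit 456) (nat_lit 0) (XT.nd (nat_lit 234) (nat_lit 228) (nat_lit 0) (XT.nd (nat_lit 78) (nat_lit 76) (nat_lit 0) (XT.lf (nat_lit 152) (nat_lit 11772460614) (nat_lit 0) (nat_lit 130017653) (nat_lit 76) (nat_lit 130017653) (nat_lit 124) (nat_lit 1) (nat_lit 122) (nat_lit 1) (nat_lit 123) (nat_lit 1) (nat_lit 330) (nat_lit 411) (nat_lit 279)) (XT.nd (nat_lit 78) (nat_lit 76) (nat_lit 0) (XT.lf (nat_lit 0) (nat_lit 3823187569) (nat_lit 0) (nat_lit 4188770086) (nat_lit 152) (nat_lit 3823187569) (nat_lit 122) (nat_lit 3) (nat_lit 122) (nat_lit 1) (nat_lit 124) (nat_lit 1) (nat_lit 331) (nat_lit 411)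 (nat_lit 278)) (XT.lf (nat_lit 76) (nat_lit 3649209116) (nat_lit 0) (nat_lit 3997382942) (nat_lit 76) (nat_lit 3997382942) (nat_lit 122) (nat_lit 3) (nat_lit 121) (nat_lit 1) (nat_lit 122) (nat_lit 1) (nat_lit 332) (nat_lit 411) (nat_lit 277)))) (XT.nd (nat_lit 78) (nat_lit 76) (nat_lit 0) (XT.lf (nat_lit 152) (nat_lit 11244785353) (nat_lit 0) (nat_lit 106965845) (nat_lit 76) (nat_lit 106965845) (nat_lit 121) (nat_lit 1) (nat_lit 119) (nat_lit 1) (nat_lit 120) (nat_lit 1) (nat_lit 333) (nat_lit 411) (nat_lit 276)) (XT.nd (nat_lit 78) (nat_lit 76) (nat_lit 0) (XT.lf (nat_lit 0) (nat_lit 3656674685) (nat_lit 0) (nat_lit 3957440327) (nat_lit 152) (nat_lit 3656674685) (nat_lit 119) (nat_lit 3) (nat_lit 119) (nat_lit 1) (nat_lit 121) (nat_lit 1) (nat_lit 334) (nat_lit 411) (nat_lit 275)) (XT.lf (nat_lit 76) (nat_lit 3505294942) (nat_lit 0) (nat_lit 3791738410) (nat_lit 76) (nat_lit 3791738410) (nat_lit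 119) (nat_lit 3) (nat_lit 118) (nat_lit 1) (nat_lit 119) (nat_lit 1) (nat_lit 335) (nat_lit 411) (nat_lit 274))))) (XT.nd (nat_lit 234) (nat_lit 228) (nat_lit 0) (XT.nd (nat_lit 78) (nat_lit 76) (nat_lit 0) (XT.lf (nat_lit 152) (nat_lit 10736401188) (nat_lit 0) (nat_lit 88001065) (nat_lit 76) (nat_lit 88001065) (nat_lit 118) (nat_lit 1) (nat_lit 116) (nat_lit 1) (nat_lit 117) (nat_lit 1) (nat_lit 336) (nat_lit 411) (nat_lit 273)) (XT.nd (nat_lit 78) (nat_lit 76) (nat_lit 0) (XT.lf (nat_lit 0) (nat_lit 3495335132) (nat_lit 0) (nat_lit 3742775770) (nat_lit 152) (nat_lit 3495335132) (nat_lit 116) (nat_lit 3) (nat_lit 116) (nat_lit 1) (nat_lit 118) (nat_lit 1) (nat_lit 337) (nat_lit 411) (nat_lit 272)) (XT.lf (nat_lit 76) (nat_lit 3362940130) (nat_lit 0) (nat_lit 3598597880) (nat_lit 76) (nat_lit 3598597880) (nat_lit 116) (nat_lit 3) (nat_lit 115) (nat_lit 1) (nat_lit 116) (nat_lit 1) (nat_lit 338)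 (nat_lit 411) (nat_lit 271)))) (XT.nd (nat_lit 78) (nat_lit 76) (nat_lit 0) (XT.lf (nat_lit 152) (nat_lit 10247424256) (nat_lit 0) (nat_lit 72398694) (nat_lit 76) (nat_lit 72398694) (nat_lit 115) (nat_lit 1) (nat_lit 113) (nat_lit 1) (nat_lit 114) (nat_lit 1) (nat_lit 339) (nat_lit 411) (nat_lit 270)) (XT.nd (nat_lit 78) (nat_lit 76) (nat_lit 0) (XT.lf (nat_lit 0) (nat_lit 3339411168) (nat_lit 0) (nat_lit 3542981193) (nat_lit 152) (nat_lit 3339411168) (nat_lit 113) (nat_lit 3) (nat_lit 113) (nat_lit 1) (nat_lit 115) (nat_lit 1) (nat_lit 340) (nat_lit 411) (nat_lit 269)) (XT.lf (nat_lit 76) (nat_lit 3223008983) (nat_lit 0) (nat_lit 3416885197) (nat_lit 76) (nat_lit 3416885197) (nat_lit 113) (nat_lit 3) (nat_lit 112) (nat_lit 1) (nat_lit 113) (nat_lit 1) (nat_lit 341) (nat_lit 411) (nat_lit 268)))))) (XT.nd (nat_lit 468) (nat_lit 608) (nat_lit 0) (XT.nd (nat_lit 234) (nat_lit 228) (nat_lit 0) (XT.nd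 (nat_lit 78) (nat_lit 76) (nat_lit 0) (XT.lf (nat_lit 152) (nat_lit 9777781703) (nat_lit 0) (nat_lit 59562585) (nat_lit 76) (nat_lit 59562585) (nat_lit 112) (nat_lit 1) (nat_lit 110) (nat_lit 1) (nat_lit 111) (nat_lit 1) (nat_lit 342) (nat_lit 411) (nat_lit 267)) (XT.nd (nat_lit 78) (nat_lit 76) (nat_lit 0) (XT.lf (nat_lit 0) (nat_lit 3189046884) (nat_lit 0) (nat_lit 3356524447) (nat_lit 152) (nat_lit 3189046884) (nat_lit 110) (nat_lit 3) (nat_lit 110) (nat_lit 1) (nat_lit 112) (nat_lit 1) (nat_lit 343) (nat_lit 411) (nat_lit 266)) (XT.lf (nat_lit 76) (nat_lit 3086158243) (nat_lit 0) (nat_lit 3245660685) (nat_lit 76) (nat_lit 3245660685) (nat_lit 110) (nat_lit 3) (nat_lit 109) (nat_lit 1) (nat_lit 110) (nat_lit 1) (nat_lit 344) (nat_lit 411) (nat_lit 265)))) (XT.nd (nat_lit 78) (nat_lit 76) (nat_lit 0) (XT.lf (nat_lit 152) (nat_lit 9327253213) (nat_lit 0) (nat_lit 49002286) (nat_lit 76) (nat_lit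 49002286) (nat_lit 109) (nat_lit 1) (nat_lit 107) (nat_lit 1) (nat_lit 108) (nat_lit 1) (nat_lit 345) (nat_lit 411) (nat_lit 264)) (XT.nd (nat_lit 78) (nat_lit 76) (nat_lit 0) (XT.lf (nat_lit 0) (nat_lit 3044308241) (nat_lit 0) (nat_lit 3182092447) (nat_lit 152) (nat_lit 3044308241) (nat_lit 107) (nat_lit 3) (nat_lit 107) (nat_lit 1) (nat_lit 109) (nat_lit 1) (nat_lit 346) (nat_lit 411) (nat_lit 263)) (XT.lf (nat_lit 76) (nat_lit 2952876478) (nat_lit 0) (nat_lit 3084099531) (nat_lit 76) (nat_lit 3084099531) (nat_lit 107) (nat_lit 3) (nat_lit 106) (nat_lit 1) (nat_lit 107) (nat_lit 1) (nat_lit 347) (nat_lit 411) (nat_lit 262))))) (XT.nd (nat_lit 234) (nat_lit 380) (nat_lit 0) (XT.nd (nat_lit 78) (nat_lit 76) (nat_lit 0) (XT.lf (nat_lit 152) (nat_lit 8895504784) (nat_lit 0) (nat_lit 40314302) (nat_lit 76) (nat_lit 40314302) (nat_lit 106) (nat_lit 1) (nat_lit 104) (nat_lit 1) (nat_lit 105) (nat_lit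 1) (nat_lit 348) (nat_lit 411) (nat_lit 261)) (XT.nd (nat_lit 78) (nat_lit 76) (nat_lit 0) (XT.lf (nat_lit 0) (nat_lit 2905199427) (nat_lit 0) (nat_lit 3018554834) (nat_lit 152) (nat_lit 2905199427) (nat_lit 104) (nat_lit 3) (nat_lit 104) (nat_lit 1) (nat_lit 106) (nat_lit 1) (nat_lit 349) (nat_lit 411) (nat_lit 260)) (XT.lf (nat_lit 76) (nat_lit 2823516362) (nat_lit 0) (nat_lit 2931473892) (nat_lit 76) (nat_lit 2931473892) (nat_lit 104) (nat_lit 3) (nat_lit 103) (nat_lit 1) (nat_lit 104) (nat_lit 1) (nat_lit 350) (nat_lit 411) (nat_lit 259)))) (XT.nd (nat_lit 156) (nat_lit 228) (nat_lit 0) (XT.nd (nat_lit 78) (nat_lit 0) (nat_lit 0) (XT.lf (nat_lit 152) (nat_lit 8482116165) (nat_lit 0) (nat_lit 33166676) (nat_lit 76) (nat_lit 33166676) (nat_lit 103) (nat_lit 1) (nat_lit 101) (nat_lit 1) (nat_lit 102) (nat_lit 1) (nat_lit 351) (nat_lit 411) (nat_lit 258)) (XT.lf (nat_lit 0) (nat_lit 2771676189)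 (nat_lit 0) (nat_lit 2864933963) (nat_lit 152) (nat_lit 2771676189) (nat_lit 101) (nat_lit 3) (nat_lit 101) (nat_lit 1) (nat_lit 103) (nat_lit 1) (nat_lit 352) (nat_lit 411) (nat_lit 257))) (XT.nd (nat_lit 78) (nat_lit 152) (nat_lit 0) (XT.lf (nat_lit 76) (nat_lit 2698321113) (nat_lit 0) (nat_lit 2787138040) (nat_lit 76) (nat_lit 2787138040) (nat_lit 101) (nat_lit 3) (nat_lit 100) (nat_lit 1) (nat_lit 101) (nat_lit 1) (nat_lit 353) (nat_lit 411) (nat_lit 256)) (XT.lf (nat_lit 152) (nat_lit 8086603070) (nat_lit 0) (nat_lit 27286306) (nat_lit 76) (nat_lit 27286306) (nat_lit 100) (nat_lit 1) (nat_lit 98) (nat_lit 1) (nat_lit 99) (nat_lit 1) (nat_lit 354) (nat_lit 411) (nat_lit 255))))))) (XT.nd (nat_lit 1014) (nat_lit 988) (nat_lit 0) (XT.nd (nat_lit 468) (nat_lit 456) (nat_lit 0) (XT.nd (nat_lit 234) (nat_lit 228) (nat_lit 0) (XT.nd (nat_lit 78) (nat_lit 228) (nat_lit 0) (XT.lf (nat_lit 0) (nat_lit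 2643656699) (nat_lit 0) (nat_lit 2720380101) (nat_lit 152) (nat_lit 2643656699) (nat_lit 98) (nat_lit 3) (nat_lit 98) (nat_lit 1) (nat_lit 100) (nat_lit 1) (nat_lit 355) (nat_lit 411) (nat_lit 254)) (XT.nd (nat_lit 78) (nat_lit 152) (nat_lit 0) (XT.lf (nat_lit 76) (nat_lit 2577446138) (nat_lit 0) (nat_lit 2650516044) (nat_lit 76) (nat_lit 2650516044) (nat_lit 98) (nat_lit 3) (nat_lit 97) (nat_lit 1) (nat_lit 98) (nat_lit 1) (nat_lit 356) (nat_lit 411) (nat_lit 253)) (XT.lf (nat_lit 152) (nat_lit 7708435129) (nat_lit 0) (nat_lit 22448511) (nat_lit 76) (nat_lit 22448511) (nat_lit 97) (nat_lit 1) (nat_lit 95) (nat_lit 1) (nat_lit 96) (nat_lit 1) (nat_lit 357) (nat_lit 411) (nat_lit 252)))) (XT.nd (nat_lit 78) (nat_lit 228) (nat_lit 0) (XT.lf (nat_lit 0) (nat_lit 2521030375) (nat_lit 0) (nat_lit 2584150907) (nat_lit 152) (nat_lit 2521030375) (nat_lit 95) (nat_lit 3) (nat_lit 95) (nat_lit 1) (nat_lit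 97) (nat_lit 1) (nat_lit 358) (nat_lit 411) (nat_lit 251)) (XT.nd (nat_lit 78) (nat_lit 152) (nat_lit 0) (XT.lf (nat_lit 76) (nat_lit 2460976726) (nat_lit 0) (nat_lit 2521091519) (nat_lit 76) (nat_lit 2521091519) (nat_lit 95) (nat_lit 3) (nat_lit 94) (nat_lit 1) (nat_lit 95) (nat_lit 1) (nat_lit 359) (nat_lit 411) (nat_lit 250)) (XT.lf (nat_lit 152) (nat_lit 7347050344) (nat_lit 0) (nat_lit 18468446) (nat_lit 76) (nat_lit 18468446) (nat_lit 94) (nat_lit 1) (nat_lit 92) (nat_lit 1) (nat_lit 93) (nat_lit 1) (nat_lit 360) (nat_lit 411) (nat_lit 249))))) (XT.nd (nat_lit 234) (nat_lit 228) (nat_lit 0) (XT.nd (nat_lit 78) (nat_lit 228) (nat_lit 0) (XT.lf (nat_lit 0) (nat_lit 2403665039) (nat_lit 0) (nat_lit 2455594457) (nat_lit 152) (nat_lit 2403665039) (nat_lit 92) (nat_lit 3) (nat_lit 92) (nat_lit 1) (nat_lit 94) (nat_lit 1) (nat_lit 361) (nat_lit 411) (nat_lit 248)) (XT.nd (nat_lit 78) (nat_lit 152)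 (nat_lit 0) (XT.lf (nat_lit 76) (nat_lit 2348942509) (nat_lit 0) (nat_lit 2398399098) (nat_lit 76) (nat_lit 2398399098) (nat_lit 92) (nat_lit 3) (nat_lit 91) (nat_lit 1) (nat_lit 92) (nat_lit 1) (nat_lit 362) (nat_lit 411) (nat_lit 247)) (XT.lf (nat_lit 152) (nat_lit 7001866678) (nat_lit 0) (nat_lit 15194036) (nat_lit 76) (nat_lit 15194036) (nat_lit 91) (nat_lit 1) (nat_lit 89) (nat_lit 1) (nat_lit 90) (nat_lit 1) (nat_lit 363) (nat_lit 411) (nat_lit 246)))) (XT.nd (nat_lit 156) (nat_lit 152) (nat_lit 0) (XT.nd (nat_lit 78) (nat_lit 76) (nat_lit 0) (XT.lf (nat_lit 0) (nat_lit 2291412709) (nat_lit 0) (nat_lit 2334135170) (nat_lit 152) (nat_lit 2291412709) (nat_lit 89) (nat_lit 3) (nat_lit 89) (nat_lit 1) (nat_lit 91) (nat_lit 1) (nat_lit 364) (nat_lit 411) (nat_lit 245)) (XT.lf (nat_lit 76) (nat_lit 2241329260) (nat_lit 0) (nat_lit 2282017318) (nat_lit 76) (nat_lit 2282017318) (nat_lit 89) (nat_lit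 3) (nat_lit 88) (nat_lit 1) (nat_lit 89) (nat_lit 1) (nat_lit 365) (nat_lit 411) (nat_lit 244))) (XT.nd (nat_lit 78) (nat_lit 0) (nat_lit 0) (XT.lf (nat_lit 152) (nat_lit 6672291309) (nat_lit 0) (nat_lit 12500171) (nat_lit 76) (nat_lit 12500171) (nat_lit 88) (nat_lit 1) (nat_lit 86) (nat_lit 1) (nat_lit 87) (nat_lit 1) (nat_lit 366) (nat_lit 411) (nat_lit 243)) (XT.lf (nat_lit 0) (nat_lit 2184114272) (nat_lit 0) (nat_lit 2219262146) (nat_lit 152) (nat_lit 2184114272) (nat_lit 86) (nat_lit 3) (nat_lit 86) (nat_lit 1) (nat_lit 88) (nat_lit 1) (nat_lit 367) (nat_lit 411) (nat_lit 242)))))) (XT.nd (nat_lit 468) (nat_lit 532) (nat_lit 0) (XT.nd (nat_lit 234) (nat_lit 228) (nat_lit 0) (XT.nd (nat_lit 78) (nat_lit 152) (nat_lit 0) (XT.lf (nat_lit 76) (nat_lit 2138088505) (nat_lit 0) (nat_lit 2171562671) (nat_lit 76) (nat_lit 2171562671) (nat_lit 86) (nat_lit 3) (nat_lit 85) (nat_lit 1) (nat_lit 86) (nat_lit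 1) (nat_lit 368) (nat_lit 411) (nat_lit 241)) (XT.nd (nat_lit 78) (nat_lit 0) (nat_lit 0) (XT.lf (nat_lit 152) (nat_lit 6357727967) (nat_lit 0) (nat_lit 10283921) (nat_lit 76) (nat_lit 10283921) (nat_lit 85) (nat_lit 1) (nat_lit 83) (nat_lit 1) (nat_lit 84) (nat_lit 1) (nat_lit 369) (nat_lit 411) (nat_lit 240)) (XT.lf (nat_lit 0) (nat_lit 2081603232) (nat_lit 0) (nat_lit 2110519475) (nat_lit 152) (nat_lit 2081603232) (nat_lit 83) (nat_lit 3) (nat_lit 83) (nat_lit 1) (nat_lit 85) (nat_lit 1) (nat_lit 370) (nat_lit 411) (nat_lit 239)))) (XT.nd (nat_lit 78) (nat_lit 152) (nat_lit 0) (XT.lf (nat_lit 76) (nat_lit 2039145347) (nat_lit 0) (nat_lit 2066684627) (nat_lit 76) (nat_lit 2066684627) (nat_lit 83) (nat_lit 3) (nat_lit 82) (nat_lit 1) (nat_lit 83) (nat_lit 1) (nat_lit 371) (nat_lit 411) (nat_lit 238)) (XT.nd (nat_lit 78) (nat_lit 0) (nat_lit 0) (XT.lf (nat_lit 152) (nat_lit 6057582718) (nat_lit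 0) (nat_lit 8460608) (nat_lit 76) (nat_lit 8460608) (nat_lit 82) (nat_lit 1) (nat_lit 80) (nat_lit 1) (nat_lit 81) (nat_lit 1) (nat_lit 372) (nat_lit 411) (nat_lit 237)) (XT.lf (nat_lit 0) (nat_lit 1983708715) (nat_lit 0) (nat_lit 2007498180) (nat_lit 152) (nat_lit 1983708715) (nat_lit 80) (nat_lit 3) (nat_lit 80) (nat_lit 1) (nat_lit 82) (nat_lit 1) (nat_lit 373) (nat_lit 411) (nat_lit 236))))) (XT.nd (nat_lit 234) (nat_lit 304) (nat_lit 0) (XT.nd (nat_lit 78) (nat_lit 152) (nat_lit 0) (XT.lf (nat_lit 76) (nat_lit 1944404822) (nat_lit 0) (nat_lit 1967061455) (nat_lit 76) (nat_lit 1967061455) (nat_lit 80) (nat_lit 3) (nat_lit 79) (nat_lit 1) (nat_lit 80) (nat_lit 1) (nat_lit 374) (nat_lit 411) (nat_lit 235)) (XT.nd (nat_lit 78) (nat_lit 0) (nat_lit 0) (XT.lf (nat_lit 152) (nat_lit 5771268470) (nat_lit 0) (nat_lit 6960563) (nat_lit 76) (nat_lit 6960563) (nat_lit 79) (nat_lit 1) (nat_lit 77) (nat_lit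 1) (nat_lit 78) (nat_lit 1) (nat_lit 375) (nat_lit 411) (nat_lit 234)) (XT.lf (nat_lit 0) (nat_lit 1890257865) (nat_lit 0) (nat_lit 1909829517) (nat_lit 152) (nat_lit 1890257865) (nat_lit 77) (nat_lit 3) (nat_lit 77) (nat_lit 1) (nat_lit 79) (nat_lit 1) (nat_lit 376) (nat_lit 411) (nat_lit 233)))) (XT.nd (nat_lit 156) (nat_lit 76) (nat_lit 0) (XT.nd (nat_lit 78) (nat_lit 152) (nat_lit 0) (XT.lf (nat_lit 76) (nat_lit 1853757039) (nat_lit 0) (nat_lit 1872396707) (nat_lit 76) (nat_lit 1872396707) (nat_lit 77) (nat_lit 3) (nat_lit 76) (nat_lit 1) (nat_lit 77) (nat_lit 1) (nat_lit 377) (nat_lit 411) (nat_lit 232)) (XT.lf (nat_lit 152) (nat_lit 5498208450) (nat_lit 0) (nat_lit 5726472) (nat_lit 76) (nat_lit 5726472) (nat_lit 76) (nat_lit 1) (nat_lit 74) (nat_lit 1) (nat_lit 75) (nat_lit 1) (nat_lit 378) (nat_lit 411) (nat_lit 231))) (XT.nd (nat_lit 78) (nat_lit 76) (nat_lit 0) (XT.lf (nat_lit 0) (nat_lit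 1801077724) (nat_lit 0) (nat_lit 1817179370) (nat_lit 152) (nat_lit 1801077724) (nat_lit 74) (nat_lit 3) (nat_lit 74) (nat_lit 1) (nat_lit 76) (nat_lit 1) (nat_lit 379) (nat_lit 411) (nat_lit 230)) (XT.lf (nat_lit 76) (nat_lit 1767081341) (nat_lit 0) (nat_lit 1782416242) (nat_lit 76) (nat_lit 1782416242) (nat_lit 74) (nat_lit 3) (nat_lit 73) (nat_lit 1) (nat_lit 74) (nat_lit 1) (nat_lit 380) (nat_lit 411) (nat_lit 229))))))))
noncomputable def ec310 : XT := (XT.nd (nat_lit 1950) (nat_lit 1824) (nat_lit 0) (XT.nd (nat_lit 936) (nat_lit 1064) (nat_lit 0) (XT.nd (nat_lit 468) (nat_lit 456) (nat_lit 0) (XT.nd (nat_lit 234) (nat_lit 228) (nat_lit 0) (XT.nd (nat_lit 78) (nat_lit 76) (nat_lit 0) (XT.lf (nat_lit 152) (nat_lit 5237838838) (nat_lit 0) (nat_lit 4711183) (nat_lit 76) (nat_lit 4711183) (nat_lit 73) (nat_lit 1) (nat_lit 71) (nat_lit 1) (nat_lit 72) (nat_lit 1) (nat_lit 381) (nat_lit 411) (nat_lit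 228)) (XT.nd (nat_lit 78) (nat_lit 76) (nat_lit 0) (XT.lf (nat_lit 0) (nat_lit 1715996720) (nat_lit 0) (nat_lit 1729243585) (nat_lit 152) (nat_lit 1715996720) (nat_lit 71) (nat_lit 3) (nat_lit 71) (nat_lit 1) (nat_lit 73) (nat_lit 1) (nat_lit 382) (nat_lit 411) (nat_lit 227)) (XT.lf (nat_lit 76) (nat_lit 1684249657) (nat_lit 0) (nat_lit 1696865718) (nat_lit 76) (nat_lit 1696865718) (nat_lit 71) (nat_lit 3) (nat_lit 70) (nat_lit 1) (nat_lit 71) (nat_lit 1) (nat_lit 383) (nat_lit 411) (nat_lit 226)))) (XT.nd (nat_lit 78) (nat_lit 76) (nat_lit 0) (XT.lf (nat_lit 152) (nat_lit 4989610727) (nat_lit 0) (nat_lit 3875902) (nat_lit 76) (nat_lit 3875902) (nat_lit 70) (nat_lit 1) (nat_lit 68) (nat_lit 1) (nat_lit 69) (nat_lit 1) (nat_lit 384) (nat_lit 411) (nat_lit 225)) (XT.nd (nat_lit 78) (nat_lit 76) (nat_lit 0) (XT.lf (nat_lit 0) (nat_lit 1634845815) (nat_lit 0) (nat_lit 1645744043) (nat_lit 152) (nat_lit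 1634845815) (nat_lit 68) (nat_lit 3) (nat_lit 68) (nat_lit 1) (nat_lit 70) (nat_lit 1) (nat_lit 385) (nat_lit 411) (nat_lit 224)) (XT.lf (nat_lit 76) (nat_lit 1605129184) (nat_lit 0) (nat_lit 1615508449) (nat_lit 76) (nat_lit 1615508449) (nat_lit 68) (nat_lit 3) (nat_lit 67) (nat_lit 1) (nat_lit 68) (nat_lit 1) (nat_lit 386) (nat_lit 411) (nat_lit 223))))) (XT.nd (nat_lit 234) (nat_lit 228) (nat_lit 0) (XT.nd (nat_lit 78) (nat_lit 76) (nat_lit 0) (XT.lf (nat_lit 152) (nat_lit 4752991524) (nat_lit 0) (nat_lit 3188714) (nat_lit 76) (nat_lit 3188714) (nat_lit 67) (nat_lit 1) (nat_lit 65) (nat_lit 1) (nat_lit 66) (nat_lit 1) (nat_lit 387) (nat_lit 411) (nat_lit 222)) (XT.nd (nat_lit 78) (nat_lit 76) (nat_lit 0) (XT.lf (nat_lit 0) (nat_lit 1557459380) (nat_lit 0) (nat_lit 1566425379) (nat_lit 152) (nat_lit 1557459380) (nat_lit 65) (nat_lit 3) (nat_lit 65) (nat_lit 1) (nat_lit 67) (nat_lit 1) (nat_lit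 388) (nat_lit 411) (nat_lit 221)) (XT.lf (nat_lit 76) (nat_lit 1529584536) (nat_lit 0) (nat_lit 1538123583) (nat_lit 76) (nat_lit 1538123583) (nat_lit 65) (nat_lit 3) (nat_lit 64) (nat_lit 1) (nat_lit 65) (nat_lit 1) (nat_lit 389) (nat_lit 411) (nat_lit 220)))) (XT.nd (nat_lit 78) (nat_lit 76) (nat_lit 0) (XT.lf (nat_lit 152) (nat_lit 4527465919) (nat_lit 0) (nat_lit 2623363) (nat_lit 76) (nat_lit 2623363) (nat_lit 64) (nat_lit 1) (nat_lit 62) (nat_lit 1) (nat_lit 63) (nat_lit 1) (nat_lit 390) (nat_lit 411) (nat_lit 219)) (XT.nd (nat_lit 78) (nat_lit 76) (nat_lit 0) (XT.lf (nat_lit 0) (nat_lit 1483675860) (nat_lit 0) (nat_lit 1491052209) (nat_lit 152) (nat_lit 1483675860) (nat_lit 62) (nat_lit 3) (nat_lit 62) (nat_lit 1) (nat_lit 64) (nat_lit 1) (nat_lit 391) (nat_lit 411) (nat_lit 218)) (XT.lf (nat_lit 76) (nat_lit 1457479444) (nat_lit 0) (nat_lit 1464504539) (nat_lit 76) (nat_lit 1464504539)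 (nat_lit 62) (nat_lit 3) (nat_lit 61) (nat_lit 1) (nat_lit 62) (nat_lit 1) (nat_lit 392) (nat_lit 411) (nat_lit 217)))))) (XT.nd (nat_lit 468) (nat_lit 608) (nat_lit 0) (XT.nd (nat_lit 234) (nat_lit 228) (nat_lit 0) (XT.nd (nat_lit 78) (nat_lit 76) (nat_lit 0) (XT.lf (nat_lit 152) (nat_lit 4312536491) (nat_lit 0) (nat_lit 2158247) (nat_lit 76) (nat_lit 2158247) (nat_lit 61) (nat_lit 1) (nat_lit 59) (nat_lit 1) (nat_lit 60) (nat_lit 1) (nat_lit 393) (nat_lit 411) (nat_lit 216)) (XT.nd (nat_lit 78) (nat_lit 76) (nat_lit 0) (XT.lf (nat_lit 0) (nat_lit 1413338252) (nat_lit 0) (nat_lit 1419406793) (nat_lit 152) (nat_lit 1413338252) (nat_lit 59) (nat_lit 3) (nat_lit 59) (nat_lit 1) (nat_lit 61) (nat_lit 1) (nat_lit 394) (nat_lit 411) (nat_lit 215)) (XT.lf (nat_lit 76) (nat_lit 1388678099) (nat_lit 0) (nat_lit 1394457662) (nat_lit 76) (nat_lit 1394457662) (nat_lit 59) (nat_lit 3) (nat_lit 58) (nat_lit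 1) (nat_lit 59) (nat_lit 1) (nat_lit 395) (nat_lit 411) (nat_lit 214)))) (XT.nd (nat_lit 78) (nat_lit 76) (nat_lit 0) (XT.lf (nat_lit 152) (nat_lit 4107724039) (nat_lit 0) (nat_lit 1775595) (nat_lit 76) (nat_lit 1775595) (nat_lit 58) (nat_lit 1) (nat_lit 56) (nat_lit 1) (nat_lit 57) (nat_lit 1) (nat_lit 396) (nat_lit 411) (nat_lit 213)) (XT.nd (nat_lit 78) (nat_lit 76) (nat_lit 0) (XT.lf (nat_lit 0) (nat_lit 1346294450) (nat_lit 0) (nat_lit 1351287054) (nat_lit 152) (nat_lit 1346294450) (nat_lit 56) (nat_lit 3) (nat_lit 56) (nat_lit 1) (nat_lit 58) (nat_lit 1) (nat_lit 397) (nat_lit 411) (nat_lit 212)) (XT.lf (nat_lit 76) (nat_lit 1323046198) (nat_lit 0) (nat_lit 1327801058) (nat_lit 76) (nat_lit 1327801058) (nat_lit 56) (nat_lit 3) (nat_lit 55) (nat_lit 1) (nat_lit 56) (nat_lit 1) (nat_lit 398) (nat_lit 411) (nat_lit 211))))) (XT.nd (nat_lit 234) (nat_lit 380) (nat_lit 0) (XT.nd (nat_lit 78) (nat_lit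 76) (nat_lit 0) (XT.lf (nat_lit 152) (nat_lit 3912567681) (nat_lit 0) (nat_lit 1460786) (nat_lit 76) (nat_lit 1460786) (nat_lit 55) (nat_lit 1) (nat_lit 53) (nat_lit 1) (nat_lit 54) (nat_lit 1) (nat_lit 399) (nat_lit 411) (nat_lit 210)) (XT.nd (nat_lit 78) (nat_lit 76) (nat_lit 0) (XT.lf (nat_lit 0) (nat_lit 1282397464) (nat_lit 0) (nat_lit 1286504891) (nat_lit 152) (nat_lit 1282397464) (nat_lit 53) (nat_lit 3) (nat_lit 53) (nat_lit 1) (nat_lit 55) (nat_lit 1) (nat_lit 400) (nat_lit 411) (nat_lit 209)) (XT.lf (nat_lit 76) (nat_lit 1260451751) (nat_lit 0) (nat_lit 1264363587) (nat_lit 76) (nat_lit 1264363587) (nat_lit 53) (nat_lit 3) (nat_lit 52) (nat_lit 1) (nat_lit 53) (nat_lit 1) (nat_lit 401) (nat_lit 411) (nat_lit 208)))) (XT.nd (nat_lit 156) (nat_lit 228) (nat_lit 0) (XT.nd (nat_lit 78) (nat_lit 0) (nat_lit 0) (XT.lf (nat_lit 152) (nat_lit 3726624779) (nat_lit 0) (nat_lit 1201792) (nat_lit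 76) (nat_lit 1201792) (nat_lit 52) (nat_lit 1) (nat_lit 50) (nat_lit 1) (nat_lit 51) (nat_lit 1) (nat_lit 402) (nat_lit 411) (nat_lit 207)) (XT.lf (nat_lit 0) (nat_lit 1221505556) (nat_lit 0) (nat_lit 1224884746) (nat_lit 152) (nat_lit 1221505556) (nat_lit 50) (nat_lit 3) (nat_lit 50) (nat_lit 1) (nat_lit 52) (nat_lit 1) (nat_lit 403) (nat_lit 411) (nat_lit 206))) (XT.nd (nat_lit 78) (nat_lit 152) (nat_lit 0) (XT.lf (nat_lit 76) (nat_lit 1200765699) (nat_lit 0) (nat_lit 1203983976) (nat_lit 76) (nat_lit 1203983976) (nat_lit 50) (nat_lit 3) (nat_lit 49) (nat_lit 1) (nat_lit 50) (nat_lit 1) (nat_lit 404) (nat_lit 411) (nat_lit 205)) (XT.lf (nat_lit 152) (nat_lit 3549470728) (nat_lit 0) (nat_lit 988717) (nat_lit 76) (nat_lit 988717) (nat_lit 49) (nat_lit 1) (nat_lit 47) (nat_lit 1) (nat_lit 48) (nat_lit 1) (nat_lit 405) (nat_lit 411) (nat_lit 204))))))) (XT.nd (nat_lit 936) (nat_lit 912) (nat_lit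 0) (XT.nd (nat_lit 468) (nat_lit 456) (nat_lit 0) (XT.nd (nat_lit 234) (nat_lit 228) (nat_lit 0) (XT.nd (nat_lit 78) (nat_lit 228) (nat_lit 0) (XT.lf (nat_lit 0) (nat_lit 1163482299) (nat_lit 0) (nat_lit 1166262368) (nat_lit 152) (nat_lit 1163482299) (nat_lit 47) (nat_lit 3) (nat_lit 47) (nat_lit 1) (nat_lit 49) (nat_lit 1) (nat_lit 406) (nat_lit 411) (nat_lit 203)) (XT.nd (nat_lit 78) (nat_lit 152) (nat_lit 0) (XT.lf (nat_lit 76) (nat_lit 1143862364) (nat_lit 0) (nat_lit 1146510048) (nat_lit 76) (nat_lit 1146510048) (nat_lit 47) (nat_lit 3) (nat_lit 46) (nat_lit 1) (nat_lit 47) (nat_lit 1) (nat_lit 407) (nat_lit 411) (nat_lit 202)) (XT.lf (nat_lit 152) (nat_lit 3380698638) (nat_lit 0) (nat_lit 813420) (nat_lit 76) (nat_lit 813420) (nat_lit 46) (nat_lit 1) (nat_lit 44) (nat_lit 1) (nat_lit 45) (nat_lit 1) (nat_lit 408) (nat_lit 411) (nat_lit 201)))) (XT.nd (nat_lit 78) (nat_lit 228) (nat_lit 0)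 (XT.lf (nat_lit 0) (nat_lit 1108196582) (nat_lit 0) (nat_lit 1110483751) (nat_lit 152) (nat_lit 1108196582) (nat_lit 44) (nat_lit 3) (nat_lit 44) (nat_lit 1) (nat_lit 46) (nat_lit 1) (nat_lit 409) (nat_lit 411) (nat_lit 200)) (XT.nd (nat_lit 78) (nat_lit 152) (nat_lit 0) (XT.lf (nat_lit 76) (nat_lit 1089619780) (nat_lit 0) (nat_lit 1091798037) (nat_lit 76) (nat_lit 1091798037) (nat_lit 44) (nat_lit 3) (nat_lit 43) (nat_lit 1) (nat_lit 44) (nat_lit 1) (nat_lit 410) (nat_lit 411) (nat_lit 199)) (XT.lf (nat_lit 152) (nat_lit 3219918932) (nat_lit 0) (nat_lit 669203) (nat_lit 76) (nat_lit 669203) (nat_lit 43) (nat_lit 1) (nat_lit 41) (nat_lit 1) (nat_lit 42) (nat_lit 1) (nat_lit 411) (nat_lit 411) (nat_lit 198))))) (XT.nd (nat_lit 234) (nat_lit 228) (nat_lit 0) (XT.nd (nat_lit 78) (nat_lit 228) (nat_lit 0) (XT.lf (nat_lit 0) (nat_lit 1055522561) (nat_lit 0) (nat_lit 1057404221) (nat_lit 152) (nat_lit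 1055522561) (nat_lit 41) (nat_lit 3) (nat_lit 41) (nat_lit 1) (nat_lit 43) (nat_lit 1) (nat_lit 412) (nat_lit 411) (nat_lit 197)) (XT.nd (nat_lit 78) (nat_lit 152) (nat_lit 0) (XT.lf (nat_lit 76) (nat_lit 1037919921) (nat_lit 0) (nat_lit 1039711978) (nat_lit 76) (nat_lit 1039711978) (nat_lit 41) (nat_lit 3) (nat_lit 40) (nat_lit 1) (nat_lit 41) (nat_lit 1) (nat_lit 413) (nat_lit 411) (nat_lit 196)) (XT.lf (nat_lit 152) (nat_lit 3066758889) (nat_lit 0) (nat_lit 550555) (nat_lit 76) (nat_lit 550555) (nat_lit 40) (nat_lit 1) (nat_lit 38) (nat_lit 1) (nat_lit 39) (nat_lit 1) (nat_lit 414) (nat_lit 411) (nat_lit 195)))) (XT.nd (nat_lit 78) (nat_lit 228) (nat_lit 0) (XT.lf (nat_lit 0) (nat_lit 1005339585) (nat_lit 0) (nat_lit 1006887631) (nat_lit 152) (nat_lit 1005339585) (nat_lit 38) (nat_lit 3) (nat_lit 38) (nat_lit 1) (nat_lit 40) (nat_lit 1) (nat_lit 415) (nat_lit 411) (nat_lit 194)) (XT.nd (nat_lit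 78) (nat_lit 152) (nat_lit 0) (XT.lf (nat_lit 76) (nat_lit 988648840) (nat_lit 0) (nat_lit 990123170) (nat_lit 76) (nat_lit 990123170) (nat_lit 38) (nat_lit 3) (nat_lit 37) (nat_lit 1) (nat_lit 38) (nat_lit 1) (nat_lit 416) (nat_lit 411) (nat_lit 193)) (XT.lf (nat_lit 152) (nat_lit 2920862142) (nat_lit 0) (nat_lit 452943) (nat_lit 76) (nat_lit 452943) (nat_lit 37) (nat_lit 1) (nat_lit 35) (nat_lit 1) (nat_lit 36) (nat_lit 1) (nat_lit 417) (nat_lit 411) (nat_lit 192)))))) (XT.nd (nat_lit 468) (nat_lit 456) (nat_lit 0) (XT.nd (nat_lit 234) (nat_lit 228) (nat_lit 0) (XT.nd (nat_lit 78) (nat_lit 228) (nat_lit 0) (XT.lf (nat_lit 0) (nat_lit 957532091) (nat_lit 0) (nat_lit 958805672) (nat_lit 152) (nat_lit 957532091) (nat_lit 35) (nat_lit 3) (nat_lit 35) (nat_lit 1) (nat_lit 37) (nat_lit 1) (nat_lit 418) (nat_lit 411) (nat_lit 191)) (XT.nd (nat_lit 78) (nat_lit 152) (nat_lit 0) (XT.lf (nat_lit 76) (nat_lit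 941696756) (nat_lit 0) (nat_lit 942909690) (nat_lit 76) (nat_lit 942909690) (nat_lit 35) (nat_lit 3) (nat_lit 34) (nat_lit 1) (nat_lit 35) (nat_lit 1) (nat_lit 419) (nat_lit 411) (nat_lit 190)) (XT.lf (nat_lit 152) (nat_lit 2781888145) (nat_lit 0) (nat_lit 372637) (nat_lit 76) (nat_lit 372637) (nat_lit 34) (nat_lit 1) (nat_lit 32) (nat_lit 1) (nat_lit 33) (nat_lit 1) (nat_lit 420) (nat_lit 411) (nat_lit 189)))) (XT.nd (nat_lit 78) (nat_lit 228) (nat_lit 0) (XT.lf (nat_lit 0) (nat_lit 911989474) (nat_lit 0) (nat_lit 913037253) (nat_lit 152) (nat_lit 911989474) (nat_lit 32) (nat_lit 3) (nat_lit 32) (nat_lit 1) (nat_lit 34) (nat_lit 1) (nat_lit 421) (nat_lit 411) (nat_lit 188)) (XT.nd (nat_lit 78) (nat_lit 152) (nat_lit 0) (XT.lf (nat_lit 76) (nat_lit 896958068) (nat_lit 0) (nat_lit 897955953) (nat_lit 76) (nat_lit 897955953) (nat_lit 32) (nat_lit 3) (nat_lit 31) (nat_lit 1) (nat_lit 32) (nat_lit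 1) (nat_lit 422) (nat_lit 411) (nat_lit 187)) (XT.lf (nat_lit 152) (nat_lit 2649511626) (nat_lit 0) (nat_lit 306569) (nat_lit 76) (nat_lit 306569) (nat_lit 31) (nat_lit 1) (nat_lit 29) (nat_lit 1) (nat_lit 30) (nat_lit 1) (nat_lit 423) (nat_lit 411) (nat_lit 186))))) (XT.nd (nat_lit 234) (nat_lit 228) (nat_lit 0) (XT.nd (nat_lit 78) (nat_lit 228) (nat_lit 0) (XT.lf (nat_lit 0) (nat_lit 868605953) (nat_lit 0) (nat_lit 869467963) (nat_lit 152) (nat_lit 868605953) (nat_lit 29) (nat_lit 3) (nat_lit 29) (nat_lit 1) (nat_lit 31) (nat_lit 1) (nat_lit 424) (nat_lit 411) (nat_lit 185)) (XT.nd (nat_lit 78) (nat_lit 152) (nat_lit 0) (XT.lf (nat_lit 76) (nat_lit 854331353) (nat_lit 0) (nat_lit 855152315) (nat_lit 76) (nat_lit 855152315) (nat_lit 29) (nat_lit 3) (nat_lit 28) (nat_lit 1) (nat_lit 29) (nat_lit 1) (nat_lit 425) (nat_lit 411) (nat_lit 184)) (XT.lf (nat_lit 152) (nat_lit 2523422024) (nat_lit 0)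 (nat_lit 252215) (nat_lit 76) (nat_lit 252215) (nat_lit 28) (nat_lit 1) (nat_lit 26) (nat_lit 1) (nat_lit 27) (nat_lit 1) (nat_lit 426) (nat_lit 411) (nat_lit 183)))) (XT.nd (nat_lit 156) (nat_lit 152) (nat_lit 0) (XT.nd (nat_lit 78) (nat_lit 76) (nat_lit 0) (XT.lf (nat_lit 0) (nat_lit 827280415) (nat_lit 0) (nat_lit 827989593) (nat_lit 152) (nat_lit 827280415) (nat_lit 26) (nat_lit 3) (nat_lit 26) (nat_lit 1) (nat_lit 28) (nat_lit 1) (nat_lit 427) (nat_lit 411) (nat_lit 182)) (XT.lf (nat_lit 76) (nat_lit 813719309) (nat_lit 0) (nat_lit 814394717) (nat_lit 76) (nat_lit 814394717) (nat_lit 26) (nat_lit 3) (nat_lit 25) (nat_lit 1) (nat_lit 26) (nat_lit 1) (nat_lit 428) (nat_lit 411) (nat_lit 181))) (XT.nd (nat_lit 78) (nat_lit 0) (nat_lit 0) (XT.lf (nat_lit 152) (nat_lit 2403322927) (nat_lit 0) (nat_lit 207498) (nat_lit 76) (nat_lit 207498) (nat_lit 25) (nat_lit 1) (nat_lit 23) (nat_lit 1) (nat_lit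 24) (nat_lit 1) (nat_lit 429) (nat_lit 411) (nat_lit 180)) (XT.lf (nat_lit 0) (nat_lit 787916262) (nat_lit 0) (nat_lit 788499704) (nat_lit 152) (nat_lit 787916262) (nat_lit 23) (nat_lit 3) (nat_lit 23) (nat_lit 1) (nat_lit 25) (nat_lit 1) (nat_lit 430) (nat_lit 411) (nat_lit 179))))))))
noncomputable def ec311 : XT := (XT.nd (nat_lit 35802) (nat_lit 0) (nat_lit 16188) (XT.nd (nat_lit 34788) (nat_lit 0) (nat_lit 20444) (XT.nd (nat_lit 468) (nat_lit 456) (nat_lit 0) (XT.nd (nat_lit 234) (nat_lit 228) (nat_lit 0) (XT.nd (nat_lit 78) (nat_lit 152) (nat_lit 0) (XT.lf (nat_lit 76) (nat_lit 775028690) (nat_lit 0) (nat_lit 775584350) (nat_lit 76) (nat_lit 775584350) (nat_lit 23) (nat_lit 3) (nat_lit 22) (nat_lit 1) (nat_lit 23) (nat_lit 1) (nat_lit 431) (nat_lit 411) (nat_lit 178)) (XT.nd (nat_lit 78) (nat_lit 0) (nat_lit 0) (XT.lf (nat_lit 152) (nat_lit 2288931513) (nat_lit 0) (nat_lit 170709) (nat_lit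 76) (nat_lit 170709) (nat_lit 22) (nat_lit 1) (nat_lit 20) (nat_lit 1) (nat_lit 21) (nat_lit 1) (nat_lit 432) (nat_lit 411) (nat_lit 177)) (XT.lf (nat_lit 0) (nat_lit 750421247) (nat_lit 0) (nat_lit 750901246) (nat_lit 152) (nat_lit 750421247) (nat_lit 20) (nat_lit 3) (nat_lit 20) (nat_lit 1) (nat_lit 22) (nat_lit 1) (nat_lit 433) (nat_lit 411) (nat_lit 176)))) (XT.nd (nat_lit 78) (nat_lit 152) (nat_lit 0) (XT.lf (nat_lit 76) (nat_lit 738170213) (nat_lit 0) (nat_lit 738627355) (nat_lit 76) (nat_lit 738627355) (nat_lit 20) (nat_lit 3) (nat_lit 19) (nat_lit 1) (nat_lit 20) (nat_lit 1) (nat_lit 434) (nat_lit 411) (nat_lit 175)) (XT.nd (nat_lit 78) (nat_lit 0) (nat_lit 0) (XT.lf (nat_lit 152) (nat_lit 2179977994) (nat_lit 0) (nat_lit 140443) (nat_lit 76) (nat_lit 140443) (nat_lit 19) (nat_lit 1) (nat_lit 17) (nat_lit 1) (nat_lit 18) (nat_lit 1) (nat_lit 435) (nat_lit 411) (nat_lit 174)) (XT.lf (nat_lit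 0) (nat_lit 714707310) (nat_lit 0) (nat_lit 715102207) (nat_lit 152) (nat_lit 714707310) (nat_lit 17) (nat_lit 3) (nat_lit 17) (nat_lit 1) (nat_lit 19) (nat_lit 1) (nat_lit 436) (nat_lit 411) (nat_lit 173))))) (XT.nd (nat_lit 234) (nat_lit 228) (nat_lit 0) (XT.nd (nat_lit 78) (nat_lit 152) (nat_lit 0) (XT.lf (nat_lit 76) (nat_lit 703058453) (nat_lit 0) (nat_lit 703434545) (nat_lit 76) (nat_lit 703434545) (nat_lit 17) (nat_lit 3) (nat_lit 16) (nat_lit 1) (nat_lit 17) (nat_lit 1) (nat_lit 437) (nat_lit 411) (nat_lit 172)) (XT.nd (nat_lit 78) (nat_lit 0) (nat_lit 0) (XT.lf (nat_lit 152) (nat_lit 2076205076) (nat_lit 0) (nat_lit 115542) (nat_lit 76) (nat_lit 115542) (nat_lit 16) (nat_lit 1) (nat_lit 14) (nat_lit 1) (nat_lit 15) (nat_lit 1) (nat_lit 438) (nat_lit 411) (nat_lit 171)) (XT.lf (nat_lit 0) (nat_lit 680690418) (nat_lit 0) (nat_lit 681015301) (nat_lit 152) (nat_lit 680690418) (nat_lit 14)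 (nat_lit 3) (nat_lit 14) (nat_lit 1) (nat_lit 16) (nat_lit 1) (nat_lit 439) (nat_lit 411) (nat_lit 170)))) (XT.nd (nat_lit 78) (nat_lit 152) (nat_lit 0) (XT.lf (nat_lit 76) (nat_lit 669611730) (nat_lit 0) (nat_lit 669921142) (nat_lit 76) (nat_lit 669921142) (nat_lit 14) (nat_lit 3) (nat_lit 13) (nat_lit 1) (nat_lit 14) (nat_lit 1) (nat_lit 440) (nat_lit 411) (nat_lit 169)) (XT.nd (nat_lit 78) (nat_lit 0) (nat_lit 0) (XT.lf (nat_lit 152) (nat_lit 1977367421) (nat_lit 0) (nat_lit 95057) (nat_lit 76) (nat_lit 95057) (nat_lit 13) (nat_lit 1) (nat_lit 11) (nat_lit 1) (nat_lit 12) (nat_lit 1) (nat_lit 441) (nat_lit 411) (nat_lit 168)) (XT.lf (nat_lit 0) (nat_lit 648290402) (nat_lit 0) (nat_lit 648557684) (nat_lit 152) (nat_lit 648290402) (nat_lit 11) (nat_lit 3) (nat_lit 11) (nat_lit 1) (nat_lit 13) (nat_lit 1) (nat_lit 442) (nat_lit 411) (nat_lit 167)))))) (XT.nd (nat_lit 468) (nat_lit 912) (nat_lit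 0) (XT.nd (nat_lit 234) (nat_lit 0) (nat_lit 76) (XT.nd (nat_lit 78) (nat_lit 0) (nat_lit 0) (XT.lf (nat_lit 836) (nat_lit 18025163469) (nat_lit 0) (nat_lit 32003636307) (nat_lit 836) (nat_lit 18025163469) (nat_lit 303) (nat_lit 1) (nat_lit 292) (nat_lit 0) (nat_lit 303) (nat_lit 0) (nat_lit 196) (nat_lit 412) (nat_lit 412)) (XT.nd (nat_lit 78) (nat_lit 0) (nat_lit 76) (XT.lf (nat_lit 836) (nat_lit 69867783960) (nat_lit 76) (nat_lit 31487448625) (nat_lit 0) (nat_lit 31487448625) (nat_lit 303) (nat_lit 1) (nat_lit 293) (nat_lit 1) (nat_lit 292) (nat_lit 0) (nat_lit 197) (nat_lit 412) (nat_lit 411)) (XT.lf (nat_lit 836) (nat_lit 33297933836) (nat_lit 0) (nat_lit 63082514528) (nat_lit 760) (nat_lit 33297933836) (nat_lit 304) (nat_lit 1) (nat_lit 293) (nat_lit 1) (nat_lit 303) (nat_lit 1) (nat_lit 198) (nat_lit 412) (nat_lit 410)))) (XT.nd (nat_lit 78) (nat_lit 0) (nat_lit 76) (XT.lf (nat_lit 836)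 (nat_lit 62462297013) (nat_lit 76) (nat_lit 32077008307) (nat_lit 0) (nat_lit 32077008307) (nat_lit 304) (nat_lit 1) (nat_lit 294) (nat_lit 1) (nat_lit 293) (nat_lit 1) (nat_lit 199) (nat_lit 412) (nat_lit 409)) (XT.nd (nat_lit 78) (nat_lit 0) (nat_lit 0) (XT.lf (nat_lit 836) (nat_lit 28750795484) (nat_lit 0) (nat_lit 66149706299) (nat_lit 760) (nat_lit 28750795484) (nat_lit 305) (nat_lit 1) (nat_lit 294) (nat_lit 1) (nat_lit 304) (nat_lit 1) (nat_lit 200) (nat_lit 412) (nat_lit 408)) (XT.lf (nat_lit 836) (nat_lit 51710178274) (nat_lit 76) (nat_lit 34533243831) (nat_lit 0) (nat_lit 34533243831) (nat_lit 305) (nat_lit 1) (nat_lit 295) (nat_lit 1) (nat_lit 294) (nat_lit 1) (nat_lit 201) (nat_lit 412) (nat_lit 407))))) (XT.nd (nat_lit 234) (nat_lit 1140) (nat_lit 0) (XT.nd (nat_lit 78) (nat_lit 0) (nat_lit 0) (XT.lf (nat_lit 836) (nat_lit 22673419648) (nat_lit 0) (nat_lit 72651715475) (nat_lit 760)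 (nat_lit 22673419648) (nat_lit 306) (nat_lit 1) (nat_lit 295) (nat_lit 1) (nat_lit 305) (nat_lit 1) (nat_lit 202) (nat_lit 412) (nat_lit 406)) (XT.nd (nat_lit 78) (nat_lit 0) (nat_lit 76) (XT.lf (nat_lit 836) (nat_lit 38114714598) (nat_lit 76) (nat_lit 38591109963) (nat_lit 0) (nat_lit 38591109963) (nat_lit 306) (nat_lit 1) (nat_lit 296) (nat_lit 1) (nat_lit 295) (nat_lit 1) (nat_lit 203) (nat_lit 412) (nat_lit 405)) (XT.lf (nat_lit 836) (nat_lit 15301072701) (nat_lit 0) (nat_lit 82092063584) (nat_lit 760) (nat_lit 15301072701) (nat_lit 307) (nat_lit 1) (nat_lit 296) (nat_lit 1) (nat_lit 306) (nat_lit 1) (nat_lit 204) (nat_lit 412) (nat_lit 404)))) (XT.nd (nat_lit 156) (nat_lit 1216) (nat_lit 0) (XT.nd (nat_lit 78) (nat_lit 0) (nat_lit 76) (XT.lf (nat_lit 836) (nat_lit 22123252057) (nat_lit 76) (nat_lit 44014559981) (nat_lit 0) (nat_lit 44014559981) (nat_lit 307) (nat_lit 1) (nat_lit 297) (nat_lit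 1) (nat_lit 296) (nat_lit 1) (nat_lit 205) (nat_lit 412) (nat_lit 403)) (XT.lf (nat_lit 76) (nat_lit 6842719637) (nat_lit 0) (nat_lit 94028865337) (nat_lit 760) (nat_lit 6842719637) (nat_lit 298) (nat_lit 1) (nat_lit 297) (nat_lit 1) (nat_lit 307) (nat_lit 1) (nat_lit 206) (nat_lit 412) (nat_lit 402))) (XT.nd (nat_lit 78) (nat_lit 532) (nat_lit 0) (XT.lf (nat_lit 836) (nat_lit 4132832497) (nat_lit 0) (nat_lit 50593642181) (nat_lit 760) (nat_lit 50593642181) (nat_lit 298) (nat_lit 1) (nat_lit 287) (nat_lit 1) (nat_lit 297) (nat_lit 1) (nat_lit 207) (nat_lit 412) (nat_lit 401)) (XT.lf (nat_lit 532) (nat_lit 98077319909) (nat_lit 0) (nat_lit 2475733994) (nat_lit 456) (nat_lit 2475733994) (nat_lit 287) (nat_lit 1) (nat_lit 280) (nat_lit 1) (nat_lit 286) (nat_lit 1) (nat_lit 208) (nat_lit 412) (nat_lit 400))))))) (XT.nd (nat_lit 1014) (nat_lit 1976) (nat_lit 0) (XT.nd (nat_lit 468) (nat_lit 1216) (nat_lit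 0) (XT.nd (nat_lit 234) (nat_lit 684) (nat_lit 0) (XT.nd (nat_lit 78) (nat_lit 380) (nat_lit 0) (XT.lf (nat_lit 76) (nat_lit 42879233566) (nat_lit 0) (nat_lit 15008466991) (nat_lit 532) (nat_lit 42879233566) (nat_lit 281) (nat_lit 1) (nat_lit 280) (nat_lit 1) (nat_lit 287) (nat_lit 1) (nat_lit 209) (nat_lit 412) (nat_lit 399)) (XT.nd (nat_lit 78) (nat_lit 0) (nat_lit 0) (XT.lf (nat_lit 456) (nat_lit 73784154346) (nat_lit 0) (nat_lit 12408553043) (nat_lit 380) (nat_lit 12408553043) (nat_lit 281) (nat_lit 1) (nat_lit 275) (nat_lit 1) (nat_lit 280) (nat_lit 1) (nat_lit 210) (nat_lit 412) (nat_lit 398)) (XT.lf (nat_lit 76) (nat_lit 30585235314) (nat_lit 0) (nat_lit 35310644560) (nat_lit 456) (nat_lit 30585235314) (nat_lit 276) (nat_lit 1) (nat_lit 275) (nat_lit 1) (nat_lit 281) (nat_lit 1) (nat_lit 211) (nat_lit 412) (nat_lit 397)))) (XT.nd (nat_lit 78) (nat_lit 304) (nat_lit 0) (XT.lf (nat_lit 456)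 (nat_lit 48587911992) (nat_lit 0) (nat_lit 22923448469) (nat_lit 380) (nat_lit 22923448469) (nat_lit 276) (nat_lit 1) (nat_lit 270) (nat_lit 1) (nat_lit 275) (nat_lit 1) (nat_lit 212) (nat_lit 412) (nat_lit 396)) (XT.nd (nat_lit 78) (nat_lit 304) (nat_lit 0) (XT.lf (nat_lit 76) (nat_lit 17903999833) (nat_lit 0) (nat_lit 56640016489) (nat_lit 456) (nat_lit 17903999833) (nat_lit 271) (nat_lit 1) (nat_lit 270) (nat_lit 1) (nat_lit 276) (nat_lit 1) (nat_lit 213) (nat_lit 412) (nat_lit 395)) (XT.lf (nat_lit 380) (nat_lit 22723105942) (nat_lit 0) (nat_lit 33894612150) (nat_lit 304) (nat_lit 33894612150) (nat_lit 271) (nat_lit 1) (nat_lit 266) (nat_lit 1) (nat_lit 270) (nat_lit 1) (nat_lit 214) (nat_lit 412) (nat_lit 394))))) (XT.nd (nat_lit 234) (nat_lit 532) (nat_lit 0) (XT.nd (nat_lit 78) (nat_lit 684) (nat_lit 0) (XT.lf (nat_lit 76) (nat_lit 4944396231) (nat_lit 0) (nat_lit 78762288820) (nat_lit 380)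 (nat_lit 4944396231) (nat_lit 267) (nat_lit 1) (nat_lit 266) (nat_lit 1) (nat_lit 271) (nat_lit 1) (nat_lit 215) (nat_lit 412) (nat_lit 393)) (XT.nd (nat_lit 78) (nat_lit 304) (nat_lit 0) (XT.lf (nat_lit 76) (nat_lit 41662903415) (nat_lit 0) (nat_lit 3489349091) (nat_lit 380) (nat_lit 41662903415) (nat_lit 262) (nat_lit 1) (nat_lit 261) (nat_lit 1) (nat_lit 266) (nat_lit 1) (nat_lit 216) (nat_lit 412) (nat_lit 392)) (XT.lf (nat_lit 380) (nat_lit 68917012557) (nat_lit 0) (nat_lit 8066067272) (nat_lit 304) (nat_lit 8066067272) (nat_lit 262) (nat_lit 1) (nat_lit 257) (nat_lit 1) (nat_lit 261) (nat_lit 1) (nat_lit 217) (nat_lit 412) (nat_lit 391)))) (XT.nd (nat_lit 156) (nat_lit 228) (nat_lit 0) (XT.nd (nat_lit 78) (nat_lit 304) (nat_lit 0) (XT.lf (nat_lit 76) (nat_lit 27032282127) (nat_lit 0) (nat_lit 29248870300) (nat_lit 380) (nat_lit 27032282127) (nat_lit 258) (nat_lit 1) (nat_lit 257) (nat_lit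 1) (nat_lit 262) (nat_lit 1) (nat_lit 218) (nat_lit 412) (nat_lit 390)) (XT.lf (nat_lit 380) (nat_lit 39447619420) (nat_lit 0) (nat_lit 21095145497) (nat_lit 304) (nat_lit 21095145497) (nat_lit 258) (nat_lit 1) (nat_lit 253) (nat_lit 1) (nat_lit 257) (nat_lit 1) (nat_lit 219) (nat_lit 412) (nat_lit 389))) (XT.nd (nat_lit 78) (nat_lit 228) (nat_lit 0) (XT.lf (nat_lit 76) (nat_lit 12440018646) (nat_lit 0) (nat_lit 55131341450) (nat_lit 380) (nat_lit 12440018646) (nat_lit 254) (nat_lit 1) (nat_lit 253) (nat_lit 1) (nat_lit 258) (nat_lit 1) (nat_lit 220) (nat_lit 412) (nat_lit 388)) (XT.lf (nat_lit 304) (nat_lit 10116934369) (nat_lit 0) (nat_lit 34151511506) (nat_lit 228) (nat_lit 34151511506) (nat_lit 254) (nat_lit 1) (nat_lit 250) (nat_lit 1) (nat_lit 253) (nat_lit 1) (nat_lit 221) (nat_lit 412) (nat_lit 387)))))) (XT.nd (nat_lit 468) (nat_lit 836) (nat_lit 0) (XT.nd (nat_lit 234) (nat_lit 532) (nat_lit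 0) (XT.nd (nat_lit 78) (nat_lit 228) (nat_lit 0) (XT.lf (nat_lit 380) (nat_lit 72847210057) (nat_lit 0) (nat_lit 2021370300) (nat_lit 304) (nat_lit 2021370300) (nat_lit 250) (nat_lit 1) (nat_lit 245) (nat_lit 1) (nat_lit 249) (nat_lit 1) (nat_lit 222) (nat_lit 412) (nat_lit 386)) (XT.nd (nat_lit 78) (nat_lit 228) (nat_lit 0) (XT.lf (nat_lit 76) (nat_lit 28505651845) (nat_lit 0) (nat_lit 18357108646) (nat_lit 380) (nat_lit 28505651845) (nat_lit 246) (nat_lit 1) (nat_lit 245) (nat_lit 1) (nat_lit 250) (nat_lit 1) (nat_lit 223) (nat_lit 412) (nat_lit 385)) (XT.lf (nat_lit 304) (nat_lit 41633405707) (nat_lit 0) (nat_lit 16135911676) (nat_lit 228) (nat_lit 16135911676) (nat_lit 246) (nat_lit 1) (nat_lit 242) (nat_lit 1) (nat_lit 245) (nat_lit 1) (nat_lit 224) (nat_lit 412) (nat_lit 384)))) (XT.nd (nat_lit 78) (nat_lit 532) (nat_lit 0) (XT.lf (nat_lit 76) (nat_lit 13152636865) (nat_lit 0) (nat_lit 46173946739)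 (nat_lit 304) (nat_lit 13152636865) (nat_lit 243) (nat_lit 1) (nat_lit 242) (nat_lit 1) (nat_lit 246) (nat_lit 1) (nat_lit 225) (nat_lit 412) (nat_lit 383)) (XT.nd (nat_lit 78) (nat_lit 304) (nat_lit 0) (XT.lf (nat_lit 304) (nat_lit 10962311726) (nat_lit 0) (nat_lit 30061670732) (nat_lit 228) (nat_lit 30061670732) (nat_lit 243) (nat_lit 1) (nat_lit 239) (nat_lit 1) (nat_lit 242) (nat_lit 1) (nat_lit 226) (nat_lit 412) (nat_lit 382)) (XT.lf (nat_lit 304) (nat_lit 65975885685) (nat_lit 0) (nat_lit 1883986509) (nat_lit 228) (nat_lit 1883986509) (nat_lit 239) (nat_lit 1) (nat_lit 235) (nat_lit 1) (nat_lit 238) (nat_lit 1) (nat_lit 227) (nat_lit 412) (nat_lit 381))))) (XT.nd (nat_lit 234) (nat_lit 608) (nat_lit 0) (XT.nd (nat_lit 78) (nat_lit 228) (nat_lit 0) (XT.lf (nat_lit 76) (nat_lit 24956788124) (nat_lit 0) (nat_lit 18492729406) (nat_lit 304) (nat_lit 24956788124) (nat_lit 236) (nat_lit 1) (nat_lit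 235) (nat_lit 1) (nat_lit 239) (nat_lit 1) (nat_lit 228) (nat_lit 412) (nat_lit 380)) (XT.nd (nat_lit 78) (nat_lit 0) (nat_lit 0) (XT.lf (nat_lit 304) (nat_lit 34317868861) (nat_lit 0) (nat_lit 16400186710) (nat_lit 228) (nat_lit 16400186710) (nat_lit 236) (nat_lit 1) (nat_lit 232) (nat_lit 1) (nat_lit 235) (nat_lit 1) (nat_lit 229) (nat_lit 412) (nat_lit 379)) (XT.lf (nat_lit 76) (nat_lit 9451113096) (nat_lit 0) (nat_lit 46962499163) (nat_lit 304) (nat_lit 9451113096) (nat_lit 233) (nat_lit 1) (nat_lit 232) (nat_lit 1) (nat_lit 236) (nat_lit 1) (nat_lit 230) (nat_lit 412) (nat_lit 378)))) (XT.nd (nat_lit 156) (nat_lit 152) (nat_lit 0) (XT.nd (nat_lit 78) (nat_lit 304) (nat_lit 0) (XT.lf (nat_lit 228) (nat_lit 3463202081) (nat_lit 0) (nat_lit 30585814061) (nat_lit 152) (nat_lit 30585814061) (nat_lit 233) (nat_lit 1) (nat_lit 230) (nat_lit 1) (nat_lit 232) (nat_lit 1) (nat_lit 231) (nat_lit 412)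 (nat_lit 377)) (XT.lf (nat_lit 304) (nat_lit 52327822188) (nat_lit 0) (nat_lit 5557594006) (nat_lit 228) (nat_lit 5557594006) (nat_lit 230) (nat_lit 1) (nat_lit 226) (nat_lit 1) (nat_lit 229) (nat_lit 1) (nat_lit 232) (nat_lit 412) (nat_lit 376))) (XT.nd (nat_lit 78) (nat_lit 152) (nat_lit 0) (XT.lf (nat_lit 76) (nat_lit 18276866177) (nat_lit 0) (nat_lit 25710787202) (nat_lit 304) (nat_lit 18276866177) (nat_lit 227) (nat_lit 1) (nat_lit 226) (nat_lit 1) (nat_lit 230) (nat_lit 1) (nat_lit 233) (nat_lit 412) (nat_lit 375)) (XT.lf (nat_lit 228) (nat_lit 21116099541) (nat_lit 0) (nat_lit 20003150414) (nat_lit 152) (nat_lit 20003150414) (nat_lit 227) (nat_lit 1) (nat_lit 224) (nat_lit 1) (nat_lit 226) (nat_lit 1) (nat_lit 234) (nat_lit 412) (nat_lit 374))))))))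
noncomputable def ec312 : XT := (XT.nd (nat_lit 1950) (nat_lit 1824) (nat_lit 0) (XT.nd (nat_lit 936) (nat_lit 1292) (nat_lit 0) (XT.nd (nat_lit 468) (nat_lit 456) (nat_lit 0) (XT.nd (nat_lit 234) (nat_lit 380) (nat_lit 0) (XT.nd (nat_lit 78) (nat_lit 380) (nat_lit 0) (XT.lf (nat_lit 76) (nat_lit 3033713266) (nat_lit 0) (nat_lit 53950757201) (nat_lit 228) (nat_lit 3033713266) (nat_lit 225) (nat_lit 1) (nat_lit 224) (nat_lit 1) (nat_lit 227) (nat_lit 1) (nat_lit 235) (nat_lit 412) (nat_lit 373)) (XT.nd (nat_lit 78) (nat_lit 152) (nat_lit 0) (XT.lf (nat_lit 76) (nat_lit 25037767840) (nat_lit 0) (nat_lit 8842445325) (nat_lit 228) (nat_lit 25037767840) (nat_lit 222) (nat_lit 1) (nat_lit 221) (nat_lit 1) (nat_lit 224) (nat_lit 1) (nat_lit 236) (nat_lit 412) (nat_lit 372)) (XT.lf (nat_lit 228) (nat_lit 34769328892) (nat_lit 0) (nat_lit 11542475151) (nat_lit 152) (nat_lit 11542475151) (nat_lit 222) (nat_lit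 1) (nat_lit 219) (nat_lit 1) (nat_lit 221) (nat_lit 1) (nat_lit 237) (nat_lit 412) (nat_lit 371)))) (XT.nd (nat_lit 78) (nat_lit 380) (nat_lit 0) (XT.lf (nat_lit 76) (nat_lit 9811000048) (nat_lit 0) (nat_lit 37192087423) (nat_lit 228) (nat_lit 9811000048) (nat_lit 220) (nat_lit 1) (nat_lit 219) (nat_lit 1) (nat_lit 222) (nat_lit 1) (nat_lit 238) (nat_lit 412) (nat_lit 370)) (XT.nd (nat_lit 78) (nat_lit 228) (nat_lit 0) (XT.lf (nat_lit 228) (nat_lit 4596100293) (nat_lit 0) (nat_lit 25599381567) (nat_lit 152) (nat_lit 25599381567) (nat_lit 220) (nat_lit 1) (nat_lit 217) (nat_lit 1) (nat_lit 219) (nat_lit 1) (nat_lit 239) (nat_lit 412) (nat_lit 369)) (XT.lf (nat_lit 228) (nat_lit 45173442966) (nat_lit 0) (nat_lit 4815864588) (nat_lit 152) (nat_lit 4815864588) (nat_lit 217) (nat_lit 1) (nat_lit 214) (nat_lit 1) (nat_lit 216) (nat_lit 1) (nat_lit 240) (nat_lit 412) (nat_lit 368))))) (XT.nd (nat_lit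 234) (nat_lit 304) (nat_lit 0) (XT.nd (nat_lit 78) (nat_lit 152) (nat_lit 0) (XT.lf (nat_lit 76) (nat_lit 15038349863) (nat_lit 0) (nat_lit 23747228038) (nat_lit 228) (nat_lit 15038349863) (nat_lit 215) (nat_lit 1) (nat_lit 214) (nat_lit 1) (nat_lit 217) (nat_lit 1) (nat_lit 241) (nat_lit 412) (nat_lit 367)) (XT.nd (nat_lit 78) (nat_lit 0) (nat_lit 0) (XT.lf (nat_lit 228) (nat_lit 15315829215) (nat_lit 0) (nat_lit 18777670528) (nat_lit 152) (nat_lit 18777670528) (nat_lit 215) (nat_lit 1) (nat_lit 212) (nat_lit 1) (nat_lit 214) (nat_lit 1) (nat_lit 242) (nat_lit 412) (nat_lit 366)) (XT.lf (nat_lit 76) (nat_lit 503389066) (nat_lit 0) (nat_lit 50945047898) (nat_lit 228) (nat_lit 503389066) (nat_lit 213) (nat_lit 1) (nat_lit 212) (nat_lit 1) (nat_lit 215) (nat_lit 1) (nat_lit 243) (nat_lit 412) (nat_lit 365)))) (XT.nd (nat_lit 78) (nat_lit 152) (nat_lit 0) (XT.lf (nat_lit 76) (nat_lit 19007150357)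 (nat_lit 0) (nat_lit 13012337251) (nat_lit 152) (nat_lit 19007150357) (nat_lit 211) (nat_lit 1) (nat_lit 210) (nat_lit 1) (nat_lit 212) (nat_lit 1) (nat_lit 244) (nat_lit 412) (nat_lit 364)) (XT.nd (nat_lit 78) (nat_lit 0) (nat_lit 0) (XT.lf (nat_lit 228) (nat_lit 23585709770) (nat_lit 0) (nat_lit 13274146451) (nat_lit 152) (nat_lit 13274146451) (nat_lit 211) (nat_lit 1) (nat_lit 208) (nat_lit 1) (nat_lit 210) (nat_lit 1) (nat_lit 245) (nat_lit 412) (nat_lit 363)) (XT.lf (nat_lit 76) (nat_lit 4728771802) (nat_lit 0) (nat_lit 39807918266) (nat_lit 228) (nat_lit 4728771802) (nat_lit 209) (nat_lit 1) (nat_lit 208) (nat_lit 1) (nat_lit 211) (nat_lit 1) (nat_lit 246) (nat_lit 412) (nat_lit 362)))))) (XT.nd (nat_lit 468) (nat_lit 684) (nat_lit 0) (XT.nd (nat_lit 234) (nat_lit 304) (nat_lit 0) (XT.nd (nat_lit 78) (nat_lit 152) (nat_lit 0) (XT.lf (nat_lit 76) (nat_lit 21956336979) (nat_lit 0) (nat_lit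 4491409654) (nat_lit 152) (nat_lit 21956336979) (nat_lit 207) (nat_lit 1) (nat_lit 206) (nat_lit 1) (nat_lit 208) (nat_lit 1) (nat_lit 247) (nat_lit 412) (nat_lit 361)) (XT.nd (nat_lit 78) (nat_lit 0) (nat_lit 0) (XT.lf (nat_lit 228) (nat_lit 29866249579) (nat_lit 0) (nat_lit 8849921172) (nat_lit 152) (nat_lit 8849921172) (nat_lit 207) (nat_lit 1) (nat_lit 204) (nat_lit 1) (nat_lit 206) (nat_lit 1) (nat_lit 248) (nat_lit 412) (nat_lit 360)) (XT.lf (nat_lit 76) (nat_lit 7999545951) (nat_lit 0) (nat_lit 30745597904) (nat_lit 228) (nat_lit 7999545951) (nat_lit 205) (nat_lit 1) (nat_lit 204) (nat_lit 1) (nat_lit 207) (nat_lit 1) (nat_lit 249) (nat_lit 412) (nat_lit 359)))) (XT.nd (nat_lit 78) (nat_lit 228) (nat_lit 0) (XT.lf (nat_lit 152) (nat_lit 2296378328) (nat_lit 0) (nat_lit 21821204810) (nat_lit 76) (nat_lit 21821204810) (nat_lit 205) (nat_lit 1) (nat_lit 203) (nat_lit 1) (nat_lit 204) (nat_lit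 1) (nat_lit 250) (nat_lit 412) (nat_lit 358)) (XT.nd (nat_lit 78) (nat_lit 0) (nat_lit 0) (XT.lf (nat_lit 228) (nat_lit 34535063900) (nat_lit 0) (nat_lit 5308707322) (nat_lit 152) (nat_lit 5308707322) (nat_lit 203) (nat_lit 1) (nat_lit 200) (nat_lit 1) (nat_lit 202) (nat_lit 1) (nat_lit 251) (nat_lit 412) (nat_lit 357)) (XT.lf (nat_lit 76) (nat_lit 10494745001) (nat_lit 0) (nat_lit 23385455704) (nat_lit 228) (nat_lit 10494745001) (nat_lit 201) (nat_lit 1) (nat_lit 200) (nat_lit 1) (nat_lit 203) (nat_lit 1) (nat_lit 252) (nat_lit 412) (nat_lit 356))))) (XT.nd (nat_lit 234) (nat_lit 380) (nat_lit 0) (XT.nd (nat_lit 78) (nat_lit 228) (nat_lit 0) (XT.lf (nat_lit 152) (nat_lit 7711758664) (nat_lit 0) (nat_lit 17952359200) (nat_lit 76) (nat_lit 17952359200) (nat_lit 201) (nat_lit 1) (nat_lit 199) (nat_lit 1) (nat_lit 200) (nat_lit 1) (nat_lit 253) (nat_lit 412) (nat_lit 355)) (XT.nd (nat_lit 78) (nat_lit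 0) (nat_lit 0) (XT.lf (nat_lit 228) (nat_lit 37901631546) (nat_lit 0) (nat_lit 2489253577) (nat_lit 152) (nat_lit 2489253577) (nat_lit 199) (nat_lit 1) (nat_lit 196) (nat_lit 1) (nat_lit 198) (nat_lit 1) (nat_lit 254) (nat_lit 412) (nat_lit 354)) (XT.lf (nat_lit 76) (nat_lit 12361194351) (nat_lit 0) (nat_lit 17421154396) (nat_lit 228) (nat_lit 12361194351) (nat_lit 197) (nat_lit 1) (nat_lit 196) (nat_lit 1) (nat_lit 199) (nat_lit 1) (nat_lit 255) (nat_lit 412) (nat_lit 353)))) (XT.nd (nat_lit 156) (nat_lit 76) (nat_lit 0) (XT.nd (nat_lit 78) (nat_lit 228) (nat_lit 0) (XT.lf (nat_lit 152) (nat_lit 11889742490) (nat_lit 0) (nat_lit 14769450342) (nat_lit 76) (nat_lit 14769450342) (nat_lit 197) (nat_lit 1) (nat_lit 195) (nat_lit 1) (nat_lit 196) (nat_lit 1) (nat_lit 256) (nat_lit 412) (nat_lit 352)) (XT.lf (nat_lit 228) (nat_lit 40219431794) (nat_lit 0) (nat_lit 259121674) (nat_lit 152) (nat_lit 259121674)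 (nat_lit 195) (nat_lit 1) (nat_lit 192) (nat_lit 1) (nat_lit 194) (nat_lit 1) (nat_lit 257) (nat_lit 412) (nat_lit 351))) (XT.nd (nat_lit 78) (nat_lit 76) (nat_lit 0) (XT.lf (nat_lit 76) (nat_lit 13719243914) (nat_lit 0) (nat_lit 12600885991) (nat_lit 228) (nat_lit 13719243914) (nat_lit 193) (nat_lit 1) (nat_lit 192) (nat_lit 1) (nat_lit 195) (nat_lit 1) (nat_lit 258) (nat_lit 412) (nat_lit 350)) (XT.lf (nat_lit 152) (nat_lit 15062920145) (nat_lit 0) (nat_lit 12150863347) (nat_lit 76) (nat_lit 12150863347) (nat_lit 193) (nat_lit 1) (nat_lit 191) (nat_lit 1) (nat_lit 192) (nat_lit 1) (nat_lit 259) (nat_lit 412) (nat_lit 349))))))) (XT.nd (nat_lit 936) (nat_lit 912) (nat_lit 0) (XT.nd (nat_lit 468) (nat_lit 456) (nat_lit 0) (XT.nd (nat_lit 234) (nat_lit 228) (nat_lit 0) (XT.nd (nat_lit 78) (nat_lit 228) (nat_lit 0) (XT.lf (nat_lit 0) (nat_lit 1514866046) (nat_lit 0) (nat_lit 35680558906) (nat_lit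 152) (nat_lit 1514866046) (nat_lit 191) (nat_lit 3) (nat_lit 191) (nat_lit 1) (nat_lit 193) (nat_lit 1) (nat_lit 260) (nat_lit 412) (nat_lit 348)) (XT.nd (nat_lit 78) (nat_lit 76) (nat_lit 0) (XT.lf (nat_lit 76) (nat_lit 14667483282) (nat_lit 0) (nat_lit 8717693572) (nat_lit 152) (nat_lit 14667483282) (nat_lit 190) (nat_lit 1) (nat_lit 189) (nat_lit 1) (nat_lit 191) (nat_lit 1) (nat_lit 261) (nat_lit 412) (nat_lit 347)) (XT.lf (nat_lit 152) (nat_lit 17422015561) (nat_lit 0) (nat_lit 9996545347) (nat_lit 76) (nat_lit 9996545347) (nat_lit 190) (nat_lit 1) (nat_lit 188) (nat_lit 1) (nat_lit 189) (nat_lit 1) (nat_lit 262) (nat_lit 412) (nat_lit 346)))) (XT.nd (nat_lit 78) (nat_lit 228) (nat_lit 0) (XT.lf (nat_lit 0) (nat_lit 2895370563) (nat_lit 0) (nat_lit 31003570632) (nat_lit 152) (nat_lit 2895370563) (nat_lit 188) (nat_lit 3) (nat_lit 188) (nat_lit 1) (nat_lit 190) (nat_lit 1) (nat_lit 263) (nat_lit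 412) (nat_lit 345)) (XT.nd (nat_lit 78) (nat_lit 76) (nat_lit 0) (XT.lf (nat_lit 76) (nat_lit 15286619902) (nat_lit 0) (nat_lit 5601509487) (nat_lit 152) (nat_lit 15286619902) (nat_lit 187) (nat_lit 1) (nat_lit 186) (nat_lit 1) (nat_lit 188) (nat_lit 1) (nat_lit 264) (nat_lit 412) (nat_lit 344)) (XT.lf (nat_lit 152) (nat_lit 19123339013) (nat_lit 0) (nat_lit 8224182596) (nat_lit 76) (nat_lit 8224182596) (nat_lit 187) (nat_lit 1) (nat_lit 185) (nat_lit 1) (nat_lit 186) (nat_lit 1) (nat_lit 265) (nat_lit 412) (nat_lit 343))))) (XT.nd (nat_lit 234) (nat_lit 228) (nat_lit 0) (XT.nd (nat_lit 78) (nat_lit 228) (nat_lit 0) (XT.lf (nat_lit 0) (nat_lit 3952587116) (nat_lit 0) (nat_lit 27077272875) (nat_lit 152) (nat_lit 3952587116) (nat_lit 185) (nat_lit 3) (nat_lit 185) (nat_lit 1) (nat_lit 187) (nat_lit 1) (nat_lit 266) (nat_lit 412) (nat_lit 342)) (XT.nd (nat_lit 78) (nat_lit 76) (nat_lit 0) (XT.lf (nat_lit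 76) (nat_lit 15642668697) (nat_lit 0) (nat_lit 3112605633) (nat_lit 152) (nat_lit 15642668697) (nat_lit 184) (nat_lit 1) (nat_lit 183) (nat_lit 1) (nat_lit 185) (nat_lit 1) (nat_lit 267) (nat_lit 412) (nat_lit 341)) (XT.lf (nat_lit 152) (nat_lit 20294917090) (nat_lit 0) (nat_lit 6766055375) (nat_lit 76) (nat_lit 6766055375) (nat_lit 184) (nat_lit 1) (nat_lit 182) (nat_lit 1) (nat_lit 183) (nat_lit 1) (nat_lit 268) (nat_lit 412) (nat_lit 340)))) (XT.nd (nat_lit 78) (nat_lit 228) (nat_lit 0) (XT.lf (nat_lit 0) (nat_lit 4747573286) (nat_lit 0) (nat_lit 23772309489) (nat_lit 152) (nat_lit 4747573286) (nat_lit 182) (nat_lit 3) (nat_lit 182) (nat_lit 1) (nat_lit 184) (nat_lit 1) (nat_lit 269) (nat_lit 412) (nat_lit 339)) (XT.nd (nat_lit 78) (nat_lit 76) (nat_lit 0) (XT.lf (nat_lit 76) (nat_lit 15789575271) (nat_lit 0) (nat_lit 1136205420) (nat_lit 152) (nat_lit 15789575271) (nat_lit 181) (nat_lit 1)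 (nat_lit 180) (nat_lit 1) (nat_lit 182) (nat_lit 1) (nat_lit 270) (nat_lit 412) (nat_lit 338)) (XT.lf (nat_lit 152) (nat_lit 21041534474) (nat_lit 0) (nat_lit 5566450501) (nat_lit 76) (nat_lit 5566450501) (nat_lit 181) (nat_lit 1) (nat_lit 179) (nat_lit 1) (nat_lit 180) (nat_lit 1) (nat_lit 271) (nat_lit 412) (nat_lit 337)))))) (XT.nd (nat_lit 468) (nat_lit 456) (nat_lit 0) (XT.nd (nat_lit 234) (nat_lit 228) (nat_lit 0) (XT.nd (nat_lit 78) (nat_lit 228) (nat_lit 0) (XT.lf (nat_lit 0) (nat_lit 5330383229) (nat_lit 0) (nat_lit 20982080786) (nat_lit 152) (nat_lit 5330383229) (nat_lit 179) (nat_lit 3) (nat_lit 179) (nat_lit 1) (nat_lit 181) (nat_lit 1) (nat_lit 272) (nat_lit 412) (nat_lit 336)) (XT.nd (nat_lit 78) (nat_lit 152) (nat_lit 0) (XT.lf (nat_lit 76) (nat_lit 435900072) (nat_lit 0) (nat_lit 15342278697) (nat_lit 76) (nat_lit 15342278697) (nat_lit 179) (nat_lit 3) (nat_lit 178) (nat_lit 1)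 (nat_lit 179) (nat_lit 1) (nat_lit 273) (nat_lit 412) (nat_lit 335)) (XT.lf (nat_lit 152) (nat_lit 21448880542) (nat_lit 0) (nat_lit 4579532603) (nat_lit 76) (nat_lit 4579532603) (nat_lit 178) (nat_lit 1) (nat_lit 176) (nat_lit 1) (nat_lit 177) (nat_lit 1) (nat_lit 274) (nat_lit 412) (nat_lit 334)))) (XT.nd (nat_lit 78) (nat_lit 228) (nat_lit 0) (XT.lf (nat_lit 0) (nat_lit 5742027034) (nat_lit 0) (nat_lit 18618717348) (nat_lit 152) (nat_lit 5742027034) (nat_lit 176) (nat_lit 3) (nat_lit 176) (nat_lit 1) (nat_lit 178) (nat_lit 1) (nat_lit 275) (nat_lit 412) (nat_lit 333)) (XT.nd (nat_lit 78) (nat_lit 152) (nat_lit 0) (XT.lf (nat_lit 76) (nat_lit 1693441248) (nat_lit 0) (nat_lit 13956955833) (nat_lit 76) (nat_lit 13956955833) (nat_lit 176) (nat_lit 3) (nat_lit 175) (nat_lit 1) (nat_lit 176) (nat_lit 1) (nat_lit 276) (nat_lit 412) (nat_lit 332)) (XT.lf (nat_lit 152) (nat_lit 21586959538) (nat_lit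 0) (nat_lit 3767592806) (nat_lit 76) (nat_lit 3767592806) (nat_lit 175) (nat_lit 1) (nat_lit 173) (nat_lit 1) (nat_lit 174) (nat_lit 1) (nat_lit 277) (nat_lit 412) (nat_lit 331))))) (XT.nd (nat_lit 234) (nat_lit 228) (nat_lit 0) (XT.nd (nat_lit 78) (nat_lit 228) (nat_lit 0) (XT.lf (nat_lit 0) (nat_lit 6016082289) (nat_lit 0) (nat_lit 16609767277) (nat_lit 152) (nat_lit 6016082289) (nat_lit 173) (nat_lit 3) (nat_lit 173) (nat_lit 1) (nat_lit 175) (nat_lit 1) (nat_lit 278) (nat_lit 412) (nat_lit 330)) (XT.nd (nat_lit 78) (nat_lit 152) (nat_lit 0) (XT.lf (nat_lit 76) (nat_lit 2664460381) (nat_lit 0) (nat_lit 12753684180) (nat_lit 76) (nat_lit 12753684180) (nat_lit 173) (nat_lit 3) (nat_lit 172) (nat_lit 1) (nat_lit 173) (nat_lit 1) (nat_lit 279) (nat_lit 412) (nat_lit 329)) (XT.lf (nat_lit 152) (nat_lit 21512894973) (nat_lit 0) (nat_lit 3099607925) (nat_lit 76) (nat_lit 3099607925) (nat_lit 172) (nat_lit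 1) (nat_lit 170) (nat_lit 1) (nat_lit 171) (nat_lit 1) (nat_lit 280) (nat_lit 412) (nat_lit 328)))) (XT.nd (nat_lit 156) (nat_lit 152) (nat_lit 0) (XT.nd (nat_lit 78) (nat_lit 76) (nat_lit 0) (XT.lf (nat_lit 0) (nat_lit 6180019537) (nat_lit 0) (nat_lit 14895470395) (nat_lit 152) (nat_lit 6180019537) (nat_lit 170) (nat_lit 3) (nat_lit 170) (nat_lit 1) (nat_lit 172) (nat_lit 1) (nat_lit 281) (nat_lit 412) (nat_lit 327)) (XT.lf (nat_lit 76) (nat_lit 3402783936) (nat_lit 0) (nat_lit 11703213324) (nat_lit 76) (nat_lit 11703213324) (nat_lit 170) (nat_lit 3) (nat_lit 169) (nat_lit 1) (nat_lit 170) (nat_lit 1) (nat_lit 282) (nat_lit 412) (nat_lit 326))) (XT.nd (nat_lit 78) (nat_lit 0) (nat_lit 0) (XT.lf (nat_lit 152) (nat_lit 21273235685) (nat_lit 0) (nat_lit 2550055111) (nat_lit 76) (nat_lit 2550055111) (nat_lit 169) (nat_lit 1) (nat_lit 167) (nat_lit 1) (nat_lit 168) (nat_lit 1) (nat_lit 283) (nat_lit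 412) (nat_lit 325)) (XT.lf (nat_lit 0) (nat_lit 6256292368) (nat_lit 0) (nat_lit 13426515357) (nat_lit 152) (nat_lit 6256292368) (nat_lit 167) (nat_lit 3) (nat_lit 167) (nat_lit 1) (nat_lit 169) (nat_lit 1) (nat_lit 284) (nat_lit 412) (nat_lit 324))))))))
noncomputable def ec313 : XT := (XT.nd (nat_lit 1950) (nat_lit 1976) (nat_lit 0) (XT.nd (nat_lit 936) (nat_lit 988) (nat_lit 0) (XT.nd (nat_lit 468) (nat_lit 456) (nat_lit 0) (XT.nd (nat_lit 234) (nat_lit 228) (nat_lit 0) (XT.nd (nat_lit 78) (nat_lit 152) (nat_lit 0) (XT.lf (nat_lit 76) (nat_lit 3952550943) (nat_lit 0) (nat_lit 10781334742) (nat_lit 76) (nat_lit 10781334742) (nat_lit 167) (nat_lit 3) (nat_lit 166) (nat_lit 1) (nat_lit 167) (nat_lit 1) (nat_lit 285) (nat_lit 412) (nat_lit 323)) (XT.nd (nat_lit 78) (nat_lit 0) (nat_lit 0) (XT.lf (nat_lit 152) (nat_lit 20905851978) (nat_lit 0) (nat_lit 2097936651) (nat_lit 76) (nat_lit 2097936651)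 (nat_lit 166) (nat_lit 1) (nat_lit 164) (nat_lit 1) (nat_lit 165) (nat_lit 1) (nat_lit 286) (nat_lit 412) (nat_lit 322)) (XT.lf (nat_lit 0) (nat_lit 6263233881) (nat_lit 0) (nat_lit 12162194079) (nat_lit 152) (nat_lit 6263233881) (nat_lit 164) (nat_lit 3) (nat_lit 164) (nat_lit 1) (nat_lit 166) (nat_lit 1) (nat_lit 287) (nat_lit 412) (nat_lit 321)))) (XT.nd (nat_lit 78) (nat_lit 152) (nat_lit 0) (XT.lf (nat_lit 76) (nat_lit 4349937421) (nat_lit 0) (nat_lit 9967994752) (nat_lit 76) (nat_lit 9967994752) (nat_lit 164) (nat_lit 3) (nat_lit 163) (nat_lit 1) (nat_lit 164) (nat_lit 1) (nat_lit 288) (nat_lit 412) (nat_lit 320)) (XT.nd (nat_lit 78) (nat_lit 0) (nat_lit 0) (XT.lf (nat_lit 152) (nat_lit 20441494573) (nat_lit 0) (nat_lit 1725977674) (nat_lit 76) (nat_lit 1725977674) (nat_lit 163) (nat_lit 1) (nat_lit 161) (nat_lit 1) (nat_lit 162) (nat_lit 1) (nat_lit 289) (nat_lit 412) (nat_lit 319)) (XT.lf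 (nat_lit 0) (nat_lit 6215793887) (nat_lit 0) (nat_lit 11068883040) (nat_lit 152) (nat_lit 6215793887) (nat_lit 161) (nat_lit 3) (nat_lit 161) (nat_lit 1) (nat_lit 163) (nat_lit 1) (nat_lit 290) (nat_lit 412) (nat_lit 318))))) (XT.nd (nat_lit 234) (nat_lit 228) (nat_lit 0) (XT.nd (nat_lit 78) (nat_lit 152) (nat_lit 0) (XT.lf (nat_lit 76) (nat_lit 4624574737) (nat_lit 0) (nat_lit 9246564407) (nat_lit 76) (nat_lit 9246564407) (nat_lit 161) (nat_lit 3) (nat_lit 160) (nat_lit 1) (nat_lit 161) (nat_lit 1) (nat_lit 291) (nat_lit 412) (nat_lit 317)) (XT.nd (nat_lit 78) (nat_lit 0) (nat_lit 0) (XT.lf (nat_lit 152) (nat_lit 19905076186) (nat_lit 0) (nat_lit 1419966104) (nat_lit 76) (nat_lit 1419966104) (nat_lit 160) (nat_lit 1) (nat_lit 158) (nat_lit 1) (nat_lit 159) (nat_lit 1) (nat_lit 292) (nat_lit 412) (nat_lit 316)) (XT.lf (nat_lit 0) (nat_lit 6126145083) (nat_lit 0) (nat_lit 10118793540) (nat_lit 152)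 (nat_lit 6126145083) (nat_lit 158) (nat_lit 3) (nat_lit 158) (nat_lit 1) (nat_lit 160) (nat_lit 1) (nat_lit 293) (nat_lit 412) (nat_lit 315)))) (XT.nd (nat_lit 78) (nat_lit 152) (nat_lit 0) (XT.lf (nat_lit 76) (nat_lit 4800716182) (nat_lit 0) (nat_lit 8603238522) (nat_lit 76) (nat_lit 8603238522) (nat_lit 158) (nat_lit 3) (nat_lit 157) (nat_lit 1) (nat_lit 158) (nat_lit 1) (nat_lit 294) (nat_lit 412) (nat_lit 314)) (XT.nd (nat_lit 78) (nat_lit 0) (nat_lit 0) (XT.lf (nat_lit 152) (nat_lit 19316724975) (nat_lit 0) (nat_lit 1168209628) (nat_lit 76) (nat_lit 1168209628) (nat_lit 157) (nat_lit 1) (nat_lit 155) (nat_lit 1) (nat_lit 156) (nat_lit 1) (nat_lit 295) (nat_lit 412) (nat_lit 313)) (XT.lf (nat_lit 0) (nat_lit 6004181454) (nat_lit 0) (nat_lit 9288943220) (nat_lit 152) (nat_lit 6004181454) (nat_lit 155) (nat_lit 3) (nat_lit 155) (nat_lit 1) (nat_lit 157) (nat_lit 1) (nat_lit 296) (nat_lit 412)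 (nat_lit 312)))))) (XT.nd (nat_lit 468) (nat_lit 532) (nat_lit 0) (XT.nd (nat_lit 234) (nat_lit 228) (nat_lit 0) (XT.nd (nat_lit 78) (nat_lit 152) (nat_lit 0) (XT.lf (nat_lit 76) (nat_lit 4898196417) (nat_lit 0) (nat_lit 8026540957) (nat_lit 76) (nat_lit 8026540957) (nat_lit 155) (nat_lit 3) (nat_lit 154) (nat_lit 1) (nat_lit 155) (nat_lit 1) (nat_lit 297) (nat_lit 412) (nat_lit 311)) (XT.nd (nat_lit 78) (nat_lit 0) (nat_lit 0) (XT.lf (nat_lit 152) (nat_lit 18692650332) (nat_lit 0) (nat_lit 961088952) (nat_lit 76) (nat_lit 961088952) (nat_lit 154) (nat_lit 1) (nat_lit 152) (nat_lit 1) (nat_lit 153) (nat_lit 1) (nat_lit 298) (nat_lit 412) (nat_lit 310)) (XT.lf (nat_lit 0) (nat_lit 5857928020) (nat_lit 0) (nat_lit 8560309654) (nat_lit 152) (nat_lit 5857928020) (nat_lit 152) (nat_lit 3) (nat_lit 152) (nat_lit 1) (nat_lit 154) (nat_lit 1) (nat_lit 299) (nat_lit 412) (nat_lit 309)))) (XT.nd (nat_lit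 78) (nat_lit 152) (nat_lit 0) (XT.lf (nat_lit 76) (nat_lit 4933220537) (nat_lit 0) (nat_lit 7506917332) (nat_lit 76) (nat_lit 7506917332) (nat_lit 152) (nat_lit 3) (nat_lit 151) (nat_lit 1) (nat_lit 152) (nat_lit 1) (nat_lit 300) (nat_lit 412) (nat_lit 308)) (XT.nd (nat_lit 78) (nat_lit 0) (nat_lit 0) (XT.lf (nat_lit 152) (nat_lit 18045854347) (nat_lit 0) (nat_lit 790690259) (nat_lit 76) (nat_lit 790690259) (nat_lit 151) (nat_lit 1) (nat_lit 149) (nat_lit 1) (nat_lit 150) (nat_lit 1) (nat_lit 301) (nat_lit 412) (nat_lit 307)) (XT.lf (nat_lit 0) (nat_lit 5693877669) (nat_lit 0) (nat_lit 7917133727) (nat_lit 152) (nat_lit 5693877669) (nat_lit 149) (nat_lit 3) (nat_lit 149) (nat_lit 1) (nat_lit 151) (nat_lit 1) (nat_lit 302) (nat_lit 412) (nat_lit 306))))) (XT.nd (nat_lit 234) (nat_lit 304) (nat_lit 0) (XT.nd (nat_lit 78) (nat_lit 152) (nat_lit 0) (XT.lf (nat_lit 76) (nat_lit 4919012957) (nat_lit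 0) (nat_lit 7036399679) (nat_lit 76) (nat_lit 7036399679) (nat_lit 149) (nat_lit 3) (nat_lit 148) (nat_lit 1) (nat_lit 149) (nat_lit 1) (nat_lit 303) (nat_lit 412) (nat_lit 305)) (XT.nd (nat_lit 78) (nat_lit 0) (nat_lit 0) (XT.lf (nat_lit 152) (nat_lit 17386716324) (nat_lit 0) (nat_lit 650502833) (nat_lit 76) (nat_lit 650502833) (nat_lit 148) (nat_lit 1) (nat_lit 146) (nat_lit 1) (nat_lit 147) (nat_lit 1) (nat_lit 304) (nat_lit 412) (nat_lit 304)) (XT.lf (nat_lit 0) (nat_lit 5517268001) (nat_lit 0) (nat_lit 7346346262) (nat_lit 152) (nat_lit 5517268001) (nat_lit 146) (nat_lit 3) (nat_lit 146) (nat_lit 1) (nat_lit 148) (nat_lit 1) (nat_lit 305) (nat_lit 412) (nat_lit 303)))) (XT.nd (nat_lit 156) (nat_lit 76) (nat_lit 0) (XT.nd (nat_lit 78) (nat_lit 152) (nat_lit 0) (XT.lf (nat_lit 76) (nat_lit 4866351002) (nat_lit 0) (nat_lit 6608330299) (nat_lit 76) (nat_lit 6608330299) (nat_lit 146) (nat_lit 3)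 (nat_lit 145) (nat_lit 1) (nat_lit 146) (nat_lit 1) (nat_lit 306) (nat_lit 412) (nat_lit 302)) (XT.lf (nat_lit 152) (nat_lit 16723472923) (nat_lit 0) (nat_lit 535170290) (nat_lit 76) (nat_lit 535170290) (nat_lit 145) (nat_lit 1) (nat_lit 143) (nat_lit 1) (nat_lit 144) (nat_lit 1) (nat_lit 307) (nat_lit 412) (nat_lit 301))) (XT.nd (nat_lit 78) (nat_lit 76) (nat_lit 0) (XT.lf (nat_lit 0) (nat_lit 5332308850) (nat_lit 0) (nat_lit 6837096062) (nat_lit 152) (nat_lit 5332308850) (nat_lit 143) (nat_lit 3) (nat_lit 143) (nat_lit 1) (nat_lit 145) (nat_lit 1) (nat_lit 308) (nat_lit 412) (nat_lit 300)) (XT.lf (nat_lit 76) (nat_lit 4784003650) (nat_lit 0) (nat_lit 6217134328) (nat_lit 76) (nat_lit 6217134328) (nat_lit 143) (nat_lit 3) (nat_lit 142) (nat_lit 1) (nat_lit 143) (nat_lit 1) (nat_lit 309) (nat_lit 412) (nat_lit 299))))))) (XT.nd (nat_lit 1014) (nat_lit 912) (nat_lit 0) (XT.nd (nat_lit 468) (nat_lit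 608) (nat_lit 0) (XT.nd (nat_lit 234) (nat_lit 228) (nat_lit 0) (XT.nd (nat_lit 78) (nat_lit 76) (nat_lit 0) (XT.lf (nat_lit 152) (nat_lit 16062612442) (nat_lit 0) (nat_lit 440285922) (nat_lit 76) (nat_lit 440285922) (nat_lit 142) (nat_lit 1) (nat_lit 140) (nat_lit 1) (nat_lit 141) (nat_lit 1) (nat_lit 310) (nat_lit 412) (nat_lit 298)) (XT.nd (nat_lit 78) (nat_lit 76) (nat_lit 0) (XT.lf (nat_lit 0) (nat_lit 5142369222) (nat_lit 0) (nat_lit 6380361385) (nat_lit 152) (nat_lit 5142369222) (nat_lit 140) (nat_lit 3) (nat_lit 140) (nat_lit 1) (nat_lit 142) (nat_lit 1) (nat_lit 311) (nat_lit 412) (nat_lit 297)) (XT.lf (nat_lit 76) (nat_lit 4679092249) (nat_lit 0) (nat_lit 5858132404) (nat_lit 76) (nat_lit 5858132404) (nat_lit 140) (nat_lit 3) (nat_lit 139) (nat_lit 1) (nat_lit 140) (nat_lit 1) (nat_lit 312) (nat_lit 412) (nat_lit 296)))) (XT.nd (nat_lit 78) (nat_lit 76) (nat_lit 0) (XT.lf (nat_lit 152)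 (nat_lit 15409198513) (nat_lit 0) (nat_lit 362224318) (nat_lit 76) (nat_lit 362224318) (nat_lit 139) (nat_lit 1) (nat_lit 137) (nat_lit 1) (nat_lit 138) (nat_lit 1) (nat_lit 313) (nat_lit 412) (nat_lit 295)) (XT.nd (nat_lit 78) (nat_lit 76) (nat_lit 0) (XT.lf (nat_lit 0) (nat_lit 4950130870) (nat_lit 0) (nat_lit 5968630087) (nat_lit 152) (nat_lit 4950130870) (nat_lit 137) (nat_lit 3) (nat_lit 137) (nat_lit 1) (nat_lit 139) (nat_lit 1) (nat_lit 314) (nat_lit 412) (nat_lit 294)) (XT.lf (nat_lit 76) (nat_lit 4557387065) (nat_lit 0) (nat_lit 5527386319) (nat_lit 76) (nat_lit 5527386319) (nat_lit 137) (nat_lit 3) (nat_lit 136) (nat_lit 1) (nat_lit 137) (nat_lit 1) (nat_lit 315) (nat_lit 412) (nat_lit 293))))) (XT.nd (nat_lit 234) (nat_lit 380) (nat_lit 0) (XT.nd (nat_lit 78) (nat_lit 76) (nat_lit 0) (XT.lf (nat_lit 152) (nat_lit 14767135756) (nat_lit 0) (nat_lit 298002843) (nat_lit 76) (nat_lit 298002843)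 (nat_lit 136) (nat_lit 1) (nat_lit 134) (nat_lit 1) (nat_lit 135) (nat_lit 1) (nat_lit 316) (nat_lit 412) (nat_lit 292)) (XT.nd (nat_lit 78) (nat_lit 76) (nat_lit 0) (XT.lf (nat_lit 0) (nat_lit 4757714427) (nat_lit 0) (nat_lit 5595636254) (nat_lit 152) (nat_lit 4757714427) (nat_lit 134) (nat_lit 3) (nat_lit 134) (nat_lit 1) (nat_lit 136) (nat_lit 1) (nat_lit 317) (nat_lit 412) (nat_lit 291)) (XT.lf (nat_lit 76) (nat_lit 4423551038) (nat_lit 0) (nat_lit 5221571824) (nat_lit 76) (nat_lit 5221571824) (nat_lit 134) (nat_lit 3) (nat_lit 133) (nat_lit 1) (nat_lit 134) (nat_lit 1) (nat_lit 318) (nat_lit 412) (nat_lit 290)))) (XT.nd (nat_lit 156) (nat_lit 228) (nat_lit 0) (XT.nd (nat_lit 78) (nat_lit 0) (nat_lit 0) (XT.lf (nat_lit 152) (nat_lit 14139387708) (nat_lit 0) (nat_lit 245167676) (nat_lit 76) (nat_lit 245167676) (nat_lit 133) (nat_lit 1) (nat_lit 131) (nat_lit 1) (nat_lit 132) (nat_lit 1) (nat_lit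 319) (nat_lit 412) (nat_lit 289)) (XT.lf (nat_lit 0) (nat_lit 4566782967) (nat_lit 0) (nat_lit 5256143327) (nat_lit 152) (nat_lit 4566782967) (nat_lit 131) (nat_lit 3) (nat_lit 131) (nat_lit 1) (nat_lit 133) (nat_lit 1) (nat_lit 320) (nat_lit 412) (nat_lit 288))) (XT.nd (nat_lit 78) (nat_lit 152) (nat_lit 0) (XT.lf (nat_lit 76) (nat_lit 4281340120) (nat_lit 0) (nat_lit 4937873796) (nat_lit 76) (nat_lit 4937873796) (nat_lit 131) (nat_lit 3) (nat_lit 130) (nat_lit 1) (nat_lit 131) (nat_lit 1) (nat_lit 321) (nat_lit 412) (nat_lit 287)) (XT.lf (nat_lit 152) (nat_lit 13528155523) (nat_lit 0) (nat_lit 201700054) (nat_lit 76) (nat_lit 201700054) (nat_lit 130) (nat_lit 1) (nat_lit 128) (nat_lit 1) (nat_lit 129) (nat_lit 1) (nat_lit 322) (nat_lit 412) (nat_lit 286)))))) (XT.nd (nat_lit 468) (nat_lit 456) (nat_lit 0) (XT.nd (nat_lit 234) (nat_lit 228) (nat_lit 0) (XT.nd (nat_lit 78) (nat_lit 228) (nat_lit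 0) (XT.lf (nat_lit 0) (nat_lit 4378627014) (nat_lit 0) (nat_lit 4945765488) (nat_lit 152) (nat_lit 4378627014) (nat_lit 128) (nat_lit 3) (nat_lit 128) (nat_lit 1) (nat_lit 130) (nat_lit 1) (nat_lit 323) (nat_lit 412) (nat_lit 285)) (XT.nd (nat_lit 78) (nat_lit 152) (nat_lit 0) (XT.lf (nat_lit 76) (nat_lit 4133767907) (nat_lit 0) (nat_lit 4673899787) (nat_lit 76) (nat_lit 4673899787) (nat_lit 128) (nat_lit 3) (nat_lit 127) (nat_lit 1) (nat_lit 128) (nat_lit 1) (nat_lit 324) (nat_lit 412) (nat_lit 284)) (XT.lf (nat_lit 152) (nat_lit 12935024421) (nat_lit 0) (nat_lit 165939133) (nat_lit 76) (nat_lit 165939133) (nat_lit 127) (nat_lit 1) (nat_lit 125) (nat_lit 1) (nat_lit 126) (nat_lit 1) (nat_lit 325) (nat_lit 412) (nat_lit 283)))) (XT.nd (nat_lit 78) (nat_lit 228) (nat_lit 0) (XT.lf (nat_lit 0) (nat_lit 4194234294) (nat_lit 0) (nat_lit 4660820521) (nat_lit 152) (nat_lit 4194234294) (nat_lit 125) (nat_lit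 3) (nat_lit 125) (nat_lit 1) (nat_lit 127) (nat_lit 1) (nat_lit 326) (nat_lit 412) (nat_lit 282)) (XT.nd (nat_lit 78) (nat_lit 152) (nat_lit 0) (XT.lf (nat_lit 76) (nat_lit 3983240891) (nat_lit 0) (nat_lit 4427608726) (nat_lit 76) (nat_lit 4427608726) (nat_lit 125) (nat_lit 3) (nat_lit 124) (nat_lit 1) (nat_lit 125) (nat_lit 1) (nat_lit 327) (nat_lit 412) (nat_lit 281)) (XT.lf (nat_lit 152) (nat_lit 12361083644) (nat_lit 0) (nat_lit 136518535) (nat_lit 76) (nat_lit 136518535) (nat_lit 124) (nat_lit 1) (nat_lit 122) (nat_lit 1) (nat_lit 123) (nat_lit 1) (nat_lit 328) (nat_lit 412) (nat_lit 280))))) (XT.nd (nat_lit 234) (nat_lit 228) (nat_lit 0) (XT.nd (nat_lit 78) (nat_lit 228) (nat_lit 0) (XT.lf (nat_lit 0) (nat_lit 4014346947) (nat_lit 0) (nat_lit 4398208591) (nat_lit 152) (nat_lit 4014346947) (nat_lit 122) (nat_lit 3) (nat_lit 122) (nat_lit 1) (nat_lit 124) (nat_lit 1) (nat_lit 329) (nat_lit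 412) (nat_lit 279)) (XT.nd (nat_lit 78) (nat_lit 152) (nat_lit 0) (XT.lf (nat_lit 76) (nat_lit 3831669572) (nat_lit 0) (nat_lit 4197252089) (nat_lit 76) (nat_lit 4197252089) (nat_lit 122) (nat_lit 3) (nat_lit 121) (nat_lit 1) (nat_lit 122) (nat_lit 1) (nat_lit 330) (nat_lit 412) (nat_lit 278)) (XT.lf (nat_lit 152) (nat_lit 11807024621) (nat_lit 0) (nat_lit 112314137) (nat_lit 76) (nat_lit 112314137) (nat_lit 121) (nat_lit 1) (nat_lit 119) (nat_lit 1) (nat_lit 120) (nat_lit 1) (nat_lit 331) (nat_lit 412) (nat_lit 277)))) (XT.nd (nat_lit 156) (nat_lit 152) (nat_lit 0) (XT.nd (nat_lit 78) (nat_lit 76) (nat_lit 0) (XT.lf (nat_lit 0) (nat_lit 3839508419) (nat_lit 0) (nat_lit 4155312343) (nat_lit 152) (nat_lit 3839508419) (nat_lit 119) (nat_lit 3) (nat_lit 119) (nat_lit 1) (nat_lit 121) (nat_lit 1) (nat_lit 332) (nat_lit 412) (nat_lit 276)) (XT.lf (nat_lit 76) (nat_lit 3680559689) (nat_lit 0) (nat_lit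 3981325331) (nat_lit 76) (nat_lit 3981325331) (nat_lit 119) (nat_lit 3) (nat_lit 118) (nat_lit 1) (nat_lit 119) (nat_lit 1) (nat_lit 333) (nat_lit 412) (nat_lit 275))) (XT.nd (nat_lit 78) (nat_lit 0) (nat_lit 0) (XT.lf (nat_lit 152) (nat_lit 11273221248) (nat_lit 0) (nat_lit 92401118) (nat_lit 76) (nat_lit 92401118) (nat_lit 118) (nat_lit 1) (nat_lit 116) (nat_lit 1) (nat_lit 117) (nat_lit 1) (nat_lit 334) (nat_lit 412) (nat_lit 274)) (XT.lf (nat_lit 0) (nat_lit 3670101889) (nat_lit 0) (nat_lit 3929914559) (nat_lit 152) (nat_lit 3670101889) (nat_lit 116) (nat_lit 3) (nat_lit 116) (nat_lit 1) (nat_lit 118) (nat_lit 1) (nat_lit 335) (nat_lit 412) (nat_lit 273))))))))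
noncomputable def ec314 : XT := (XT.nd (nat_lit 1950) (nat_lit 1976) (nat_lit 0) (XT.nd (nat_lit 936) (nat_lit 988) (nat_lit 0) (XT.nd (nat_lit 468) (nat_lit 456) (nat_lit 0) (XT.nd (nat_lit 234) (nat_lit 228) (nat_lit 0) (XT.nd (nat_lit 78) (nat_lit 152) (nat_lit 0) (XT.lf (nat_lit 76) (nat_lit 3531087137) (nat_lit 0) (nat_lit 3778527774) (nat_lit 76) (nat_lit 3778527774) (nat_lit 116) (nat_lit 3) (nat_lit 115) (nat_lit 1) (nat_lit 116) (nat_lit 1) (nat_lit 336) (nat_lit 412) (nat_lit 272)) (XT.nd (nat_lit 78) (nat_lit 0) (nat_lit 0) (XT.lf (nat_lit 152) (nat_lit 10759795469) (nat_lit 0) (nat_lit 76018629) (nat_lit 76) (nat_lit 76018629) (nat_lit 115) (nat_lit 1) (nat_lit 113) (nat_lit 1) (nat_lit 114) (nat_lit 1) (nat_lit 337) (nat_lit 412) (nat_lit 271)) (XT.lf (nat_lit 0) (nat_lit 3506381726) (nat_lit 0) (nat_lit 3720130252) (nat_lit 152) (nat_lit 3506381726) (nat_lit 113) (nat_lit 3) (nat_lit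 113) (nat_lit 1) (nat_lit 115) (nat_lit 1) (nat_lit 338) (nat_lit 412) (nat_lit 270)))) (XT.nd (nat_lit 78) (nat_lit 152) (nat_lit 0) (XT.lf (nat_lit 76) (nat_lit 3384159432) (nat_lit 0) (nat_lit 3587729457) (nat_lit 76) (nat_lit 3587729457) (nat_lit 113) (nat_lit 3) (nat_lit 112) (nat_lit 1) (nat_lit 113) (nat_lit 1) (nat_lit 339) (nat_lit 412) (nat_lit 269)) (XT.nd (nat_lit 78) (nat_lit 0) (nat_lit 0) (XT.lf (nat_lit 152) (nat_lit 10266670788) (nat_lit 0) (nat_lit 62540714) (nat_lit 76) (nat_lit 62540714) (nat_lit 112) (nat_lit 1) (nat_lit 110) (nat_lit 1) (nat_lit 111) (nat_lit 1) (nat_lit 340) (nat_lit 412) (nat_lit 268)) (XT.lf (nat_lit 0) (nat_lit 3348499228) (nat_lit 0) (nat_lit 3524350670) (nat_lit 152) (nat_lit 3348499228) (nat_lit 110) (nat_lit 3) (nat_lit 110) (nat_lit 1) (nat_lit 112) (nat_lit 1) (nat_lit 341) (nat_lit 412) (nat_lit 267))))) (XT.nd (nat_lit 234) (nat_lit 228) (nat_lit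 0) (XT.nd (nat_lit 78) (nat_lit 152) (nat_lit 0) (XT.lf (nat_lit 76) (nat_lit 3240466155) (nat_lit 0) (nat_lit 3407943719) (nat_lit 76) (nat_lit 3407943719) (nat_lit 110) (nat_lit 3) (nat_lit 109) (nat_lit 1) (nat_lit 110) (nat_lit 1) (nat_lit 342) (nat_lit 412) (nat_lit 266)) (XT.nd (nat_lit 78) (nat_lit 0) (nat_lit 0) (XT.lf (nat_lit 152) (nat_lit 9793615873) (nat_lit 0) (nat_lit 51452400) (nat_lit 76) (nat_lit 51452400) (nat_lit 109) (nat_lit 1) (nat_lit 107) (nat_lit 1) (nat_lit 108) (nat_lit 1) (nat_lit 343) (nat_lit 412) (nat_lit 265)) (XT.lf (nat_lit 0) (nat_lit 3196523653) (nat_lit 0) (nat_lit 3341197069) (nat_lit 152) (nat_lit 3196523653) (nat_lit 107) (nat_lit 3) (nat_lit 107) (nat_lit 1) (nat_lit 109) (nat_lit 1) (nat_lit 344) (nat_lit 412) (nat_lit 264)))) (XT.nd (nat_lit 78) (nat_lit 152) (nat_lit 0) (XT.lf (nat_lit 76) (nat_lit 3100520302) (nat_lit 0) (nat_lit 3238304508) (nat_lit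 76) (nat_lit 3238304508) (nat_lit 107) (nat_lit 3) (nat_lit 106) (nat_lit 1) (nat_lit 107) (nat_lit 1) (nat_lit 345) (nat_lit 412) (nat_lit 263)) (XT.nd (nat_lit 78) (nat_lit 0) (nat_lit 0) (XT.lf (nat_lit 152) (nat_lit 9340280023) (nat_lit 0) (nat_lit 42330017) (nat_lit 76) (nat_lit 42330017) (nat_lit 106) (nat_lit 1) (nat_lit 104) (nat_lit 1) (nat_lit 105) (nat_lit 1) (nat_lit 346) (nat_lit 412) (nat_lit 262)) (XT.lf (nat_lit 0) (nat_lit 3050459398) (nat_lit 0) (nat_lit 3169482576) (nat_lit 152) (nat_lit 3050459398) (nat_lit 104) (nat_lit 3) (nat_lit 104) (nat_lit 1) (nat_lit 106) (nat_lit 1) (nat_lit 347) (nat_lit 412) (nat_lit 261)))))) (XT.nd (nat_lit 468) (nat_lit 532) (nat_lit 0) (XT.nd (nat_lit 234) (nat_lit 228) (nat_lit 0) (XT.nd (nat_lit 78) (nat_lit 152) (nat_lit 0) (XT.lf (nat_lit 76) (nat_lit 2964692180) (nat_lit 0) (nat_lit 3078047587) (nat_lit 76) (nat_lit 3078047587) (nat_lit 104)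 (nat_lit 3) (nat_lit 103) (nat_lit 1) (nat_lit 104) (nat_lit 1) (nat_lit 348) (nat_lit 412) (nat_lit 260)) (XT.nd (nat_lit 78) (nat_lit 0) (nat_lit 0) (XT.lf (nat_lit 152) (nat_lit 8906221974) (nat_lit 0) (nat_lit 34825009) (nat_lit 76) (nat_lit 34825009) (nat_lit 103) (nat_lit 1) (nat_lit 101) (nat_lit 1) (nat_lit 102) (nat_lit 1) (nat_lit 349) (nat_lit 412) (nat_lit 259)) (XT.lf (nat_lit 0) (nat_lit 2910259999) (nat_lit 0) (nat_lit 3008180661) (nat_lit 152) (nat_lit 2910259999) (nat_lit 101) (nat_lit 3) (nat_lit 101) (nat_lit 1) (nat_lit 103) (nat_lit 1) (nat_lit 350) (nat_lit 412) (nat_lit 258)))) (XT.nd (nat_lit 78) (nat_lit 152) (nat_lit 0) (XT.lf (nat_lit 76) (nat_lit 2833237168) (nat_lit 0) (nat_lit 2926494942) (nat_lit 76) (nat_lit 2926494942) (nat_lit 101) (nat_lit 3) (nat_lit 100) (nat_lit 1) (nat_lit 101) (nat_lit 1) (nat_lit 351) (nat_lit 412) (nat_lit 257)) (XT.nd (nat_lit 78) (nat_lit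 0) (nat_lit 0) (XT.lf (nat_lit 152) (nat_lit 8490933224) (nat_lit 0) (nat_lit 28650621) (nat_lit 76) (nat_lit 28650621) (nat_lit 100) (nat_lit 1) (nat_lit 98) (nat_lit 1) (nat_lit 99) (nat_lit 1) (nat_lit 352) (nat_lit 412) (nat_lit 256)) (XT.lf (nat_lit 0) (nat_lit 2775839534) (nat_lit 0) (nat_lit 2856399106) (nat_lit 152) (nat_lit 2775839534) (nat_lit 98) (nat_lit 3) (nat_lit 98) (nat_lit 1) (nat_lit 100) (nat_lit 1) (nat_lit 353) (nat_lit 412) (nat_lit 255))))) (XT.nd (nat_lit 234) (nat_lit 304) (nat_lit 0) (XT.nd (nat_lit 78) (nat_lit 152) (nat_lit 0) (XT.lf (nat_lit 76) (nat_lit 2706318445) (nat_lit 0) (nat_lit 2783041846) (nat_lit 76) (nat_lit 2783041846) (nat_lit 98) (nat_lit 3) (nat_lit 97) (nat_lit 1) (nat_lit 98) (nat_lit 1) (nat_lit 354) (nat_lit 412) (nat_lit 254)) (XT.nd (nat_lit 78) (nat_lit 0) (nat_lit 0) (XT.lf (nat_lit 152) (nat_lit 8093856886) (nat_lit 0) (nat_lit 23570937) (nat_lit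 76) (nat_lit 23570937) (nat_lit 97) (nat_lit 1) (nat_lit 95) (nat_lit 1) (nat_lit 96) (nat_lit 1) (nat_lit 355) (nat_lit 412) (nat_lit 253)) (XT.lf (nat_lit 0) (nat_lit 2647081894) (nat_lit 0) (nat_lit 2713358452) (nat_lit 152) (nat_lit 2647081894) (nat_lit 95) (nat_lit 3) (nat_lit 95) (nat_lit 1) (nat_lit 97) (nat_lit 1) (nat_lit 356) (nat_lit 412) (nat_lit 252)))) (XT.nd (nat_lit 156) (nat_lit 76) (nat_lit 0) (XT.nd (nat_lit 78) (nat_lit 152) (nat_lit 0) (XT.lf (nat_lit 76) (nat_lit 2584025562) (nat_lit 0) (nat_lit 2647146095) (nat_lit 76) (nat_lit 2647146095) (nat_lit 95) (nat_lit 3) (nat_lit 94) (nat_lit 1) (nat_lit 95) (nat_lit 1) (nat_lit 357) (nat_lit 412) (nat_lit 251)) (XT.lf (nat_lit 152) (nat_lit 7714402862) (nat_lit 0) (nat_lit 19391868) (nat_lit 76) (nat_lit 19391868) (nat_lit 94) (nat_lit 1) (nat_lit 92) (nat_lit 1) (nat_lit 93) (nat_lit 1) (nat_lit 358) (nat_lit 412) (nat_lit 250)))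 (XT.nd (nat_lit 78) (nat_lit 76) (nat_lit 0) (XT.lf (nat_lit 0) (nat_lit 2523848291) (nat_lit 0) (nat_lit 2578374180) (nat_lit 152) (nat_lit 2523848291) (nat_lit 92) (nat_lit 3) (nat_lit 92) (nat_lit 1) (nat_lit 94) (nat_lit 1) (nat_lit 359) (nat_lit 412) (nat_lit 249)) (XT.lf (nat_lit 76) (nat_lit 2466389635) (nat_lit 0) (nat_lit 2518319053) (nat_lit 76) (nat_lit 2518319053) (nat_lit 92) (nat_lit 3) (nat_lit 91) (nat_lit 1) (nat_lit 92) (nat_lit 1) (nat_lit 360) (nat_lit 412) (nat_lit 248))))))) (XT.nd (nat_lit 936) (nat_lit 1064) (nat_lit 0) (XT.nd (nat_lit 468) (nat_lit 456) (nat_lit 0) (XT.nd (nat_lit 234) (nat_lit 228) (nat_lit 0) (XT.nd (nat_lit 78) (nat_lit 76) (nat_lit 0) (XT.lf (nat_lit 152) (nat_lit 7351960012) (nat_lit 0) (nat_lit 15953738) (nat_lit 76) (nat_lit 15953738) (nat_lit 91) (nat_lit 1) (nat_lit 89) (nat_lit 1) (nat_lit 90) (nat_lit 1) (nat_lit 361) (nat_lit 412) (nat_lit 247))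 (XT.nd (nat_lit 78) (nat_lit 76) (nat_lit 0) (XT.lf (nat_lit 0) (nat_lit 2405983345) (nat_lit 0) (nat_lit 2450841929) (nat_lit 152) (nat_lit 2405983345) (nat_lit 89) (nat_lit 3) (nat_lit 89) (nat_lit 1) (nat_lit 91) (nat_lit 1) (nat_lit 362) (nat_lit 412) (nat_lit 246)) (XT.lf (nat_lit 76) (nat_lit 2353395723) (nat_lit 0) (nat_lit 2396118184) (nat_lit 76) (nat_lit 2396118184) (nat_lit 89) (nat_lit 3) (nat_lit 88) (nat_lit 1) (nat_lit 89) (nat_lit 1) (nat_lit 363) (nat_lit 412) (nat_lit 245)))) (XT.nd (nat_lit 78) (nat_lit 76) (nat_lit 0) (XT.lf (nat_lit 152) (nat_lit 7005905874) (nat_lit 0) (nat_lit 13125179) (nat_lit 76) (nat_lit 13125179) (nat_lit 88) (nat_lit 1) (nat_lit 86) (nat_lit 1) (nat_lit 87) (nat_lit 1) (nat_lit 364) (nat_lit 412) (nat_lit 244)) (XT.nd (nat_lit 78) (nat_lit 76) (nat_lit 0) (XT.lf (nat_lit 0) (nat_lit 2293319986) (nat_lit 0) (nat_lit 2330225254) (nat_lit 152) (nat_lit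 2293319986) (nat_lit 86) (nat_lit 3) (nat_lit 86) (nat_lit 1) (nat_lit 88) (nat_lit 1) (nat_lit 365) (nat_lit 412) (nat_lit 243)) (XT.lf (nat_lit 76) (nat_lit 2244992930) (nat_lit 0) (nat_lit 2280140804) (nat_lit 76) (nat_lit 2280140804) (nat_lit 86) (nat_lit 3) (nat_lit 85) (nat_lit 1) (nat_lit 86) (nat_lit 1) (nat_lit 366) (nat_lit 412) (nat_lit 242))))) (XT.nd (nat_lit 234) (nat_lit 228) (nat_lit 0) (XT.nd (nat_lit 78) (nat_lit 76) (nat_lit 0) (XT.lf (nat_lit 152) (nat_lit 6675614365) (nat_lit 0) (nat_lit 10798118) (nat_lit 76) (nat_lit 10798118) (nat_lit 85) (nat_lit 1) (nat_lit 83) (nat_lit 1) (nat_lit 84) (nat_lit 1) (nat_lit 367) (nat_lit 412) (nat_lit 241)) (XT.nd (nat_lit 78) (nat_lit 76) (nat_lit 0) (XT.lf (nat_lit 0) (nat_lit 2185683393) (nat_lit 0) (nat_lit 2216045448) (nat_lit 152) (nat_lit 2185683393) (nat_lit 83) (nat_lit 3) (nat_lit 83) (nat_lit 1) (nat_lit 85) (nat_lit 1) (nat_lit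 368) (nat_lit 412) (nat_lit 240)) (XT.lf (nat_lit 76) (nat_lit 2141102615) (nat_lit 0) (nat_lit 2170018858) (nat_lit 76) (nat_lit 2170018858) (nat_lit 83) (nat_lit 3) (nat_lit 82) (nat_lit 1) (nat_lit 83) (nat_lit 1) (nat_lit 369) (nat_lit 412) (nat_lit 239)))) (XT.nd (nat_lit 78) (nat_lit 76) (nat_lit 0) (XT.lf (nat_lit 152) (nat_lit 6360461854) (nat_lit 0) (nat_lit 8883638) (nat_lit 76) (nat_lit 8883638) (nat_lit 82) (nat_lit 1) (nat_lit 80) (nat_lit 1) (nat_lit 81) (nat_lit 1) (nat_lit 370) (nat_lit 412) (nat_lit 238)) (XT.nd (nat_lit 78) (nat_lit 76) (nat_lit 0) (XT.lf (nat_lit 0) (nat_lit 2082894151) (nat_lit 0) (nat_lit 2107873089) (nat_lit 152) (nat_lit 2082894151) (nat_lit 80) (nat_lit 3) (nat_lit 80) (nat_lit 1) (nat_lit 82) (nat_lit 1) (nat_lit 371) (nat_lit 412) (nat_lit 237)) (XT.lf (nat_lit 76) (nat_lit 2041625063) (nat_lit 0) (nat_lit 2065414528) (nat_lit 76) (nat_lit 2065414528)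 (nat_lit 80) (nat_lit 3) (nat_lit 79) (nat_lit 1) (nat_lit 80) (nat_lit 1) (nat_lit 372) (nat_lit 412) (nat_lit 236)))))) (XT.nd (nat_lit 468) (nat_lit 608) (nat_lit 0) (XT.nd (nat_lit 234) (nat_lit 228) (nat_lit 0) (XT.nd (nat_lit 78) (nat_lit 76) (nat_lit 0) (XT.lf (nat_lit 152) (nat_lit 6059831893) (nat_lit 0) (nat_lit 7308591) (nat_lit 76) (nat_lit 7308591) (nat_lit 79) (nat_lit 1) (nat_lit 77) (nat_lit 1) (nat_lit 78) (nat_lit 1) (nat_lit 373) (nat_lit 412) (nat_lit 235)) (XT.nd (nat_lit 78) (nat_lit 76) (nat_lit 0) (XT.lf (nat_lit 0) (nat_lit 1984770758) (nat_lit 0) (nat_lit 2005320992) (nat_lit 152) (nat_lit 1984770758) (nat_lit 77) (nat_lit 3) (nat_lit 77) (nat_lit 1) (nat_lit 79) (nat_lit 1) (nat_lit 374) (nat_lit 412) (nat_lit 234)) (XT.lf (nat_lit 76) (nat_lit 1946444891) (nat_lit 0) (nat_lit 1966016542) (nat_lit 76) (nat_lit 1966016542) (nat_lit 77) (nat_lit 3) (nat_lit 76) (nat_lit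 1) (nat_lit 77) (nat_lit 1) (nat_lit 375) (nat_lit 412) (nat_lit 233)))) (XT.nd (nat_lit 78) (nat_lit 76) (nat_lit 0) (XT.lf (nat_lit 152) (nat_lit 5773118872) (nat_lit 0) (nat_lit 6012796) (nat_lit 76) (nat_lit 6012796) (nat_lit 76) (nat_lit 1) (nat_lit 74) (nat_lit 1) (nat_lit 75) (nat_lit 1) (nat_lit 376) (nat_lit 412) (nat_lit 232)) (XT.nd (nat_lit 78) (nat_lit 76) (nat_lit 0) (XT.lf (nat_lit 0) (nat_lit 1891131610) (nat_lit 0) (nat_lit 1908038339) (nat_lit 152) (nat_lit 1891131610) (nat_lit 74) (nat_lit 3) (nat_lit 74) (nat_lit 1) (nat_lit 76) (nat_lit 1) (nat_lit 377) (nat_lit 412) (nat_lit 231)) (XT.lf (nat_lit 76) (nat_lit 1855435408) (nat_lit 0) (nat_lit 1871537054) (nat_lit 76) (nat_lit 1871537054) (nat_lit 74) (nat_lit 3) (nat_lit 73) (nat_lit 1) (nat_lit 74) (nat_lit 1) (nat_lit 378) (nat_lit 412) (nat_lit 230))))) (XT.nd (nat_lit 234) (nat_lit 380) (nat_lit 0) (XT.nd (nat_lit 78) (nat_lit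 76) (nat_lit 0) (XT.lf (nat_lit 152) (nat_lit 5499730780) (nat_lit 0) (nat_lit 4946742) (nat_lit 76) (nat_lit 4946742) (nat_lit 73) (nat_lit 1) (nat_lit 71) (nat_lit 1) (nat_lit 72) (nat_lit 1) (nat_lit 379) (nat_lit 412) (nat_lit 229)) (XT.nd (nat_lit 78) (nat_lit 76) (nat_lit 0) (XT.lf (nat_lit 0) (nat_lit 1801796556) (nat_lit 0) (nat_lit 1815705764) (nat_lit 152) (nat_lit 1801796556) (nat_lit 71) (nat_lit 3) (nat_lit 71) (nat_lit 1) (nat_lit 73) (nat_lit 1) (nat_lit 380) (nat_lit 412) (nat_lit 228)) (XT.lf (nat_lit 76) (nat_lit 1768462140) (nat_lit 0) (nat_lit 1781709004) (nat_lit 76) (nat_lit 1781709004) (nat_lit 71) (nat_lit 3) (nat_lit 70) (nat_lit 1) (nat_lit 71) (nat_lit 1) (nat_lit 381) (nat_lit 412) (nat_lit 227)))) (XT.nd (nat_lit 156) (nat_lit 228) (nat_lit 0) (XT.nd (nat_lit 78) (nat_lit 0) (nat_lit 0) (XT.lf (nat_lit 152) (nat_lit 5239091263) (nat_lit 0) (nat_lit 4069697) (nat_lit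 76) (nat_lit 4069697) (nat_lit 70) (nat_lit 1) (nat_lit 68) (nat_lit 1) (nat_lit 69) (nat_lit 1) (nat_lit 382) (nat_lit 412) (nat_lit 226)) (XT.lf (nat_lit 0) (nat_lit 1716588106) (nat_lit 0) (nat_lit 1728031245) (nat_lit 152) (nat_lit 1716588106) (nat_lit 68) (nat_lit 3) (nat_lit 68) (nat_lit 1) (nat_lit 70) (nat_lit 1) (nat_lit 383) (nat_lit 412) (nat_lit 225))) (XT.nd (nat_lit 78) (nat_lit 152) (nat_lit 0) (XT.lf (nat_lit 76) (nat_lit 1685385643) (nat_lit 0) (nat_lit 1696283871) (nat_lit 76) (nat_lit 1696283871) (nat_lit 68) (nat_lit 3) (nat_lit 67) (nat_lit 1) (nat_lit 68) (nat_lit 1) (nat_lit 384) (nat_lit 412) (nat_lit 224)) (XT.lf (nat_lit 152) (nat_lit 4990641100) (nat_lit 0) (nat_lit 3348149) (nat_lit 76) (nat_lit 3348149) (nat_lit 67) (nat_lit 1) (nat_lit 65) (nat_lit 1) (nat_lit 66) (nat_lit 1) (nat_lit 385) (nat_lit 412) (nat_lit 223))))))))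
noncomputable def ec315 : XT := (XT.nd (nat_lit 1950) (nat_lit 2052) (nat_lit 0) (XT.nd (nat_lit 936) (nat_lit 912) (nat_lit 0) (XT.nd (nat_lit 468) (nat_lit 456) (nat_lit 0) (XT.nd (nat_lit 234) (nat_lit 228) (nat_lit 0) (XT.nd (nat_lit 78) (nat_lit 228) (nat_lit 0) (XT.lf (nat_lit 0) (nat_lit 1635332349) (nat_lit 0) (nat_lit 1644746648) (nat_lit 152) (nat_lit 1635332349) (nat_lit 65) (nat_lit 3) (nat_lit 65) (nat_lit 1) (nat_lit 67) (nat_lit 1) (nat_lit 386) (nat_lit 412) (nat_lit 222)) (XT.nd (nat_lit 78) (nat_lit 152) (nat_lit 0) (XT.lf (nat_lit 76) (nat_lit 1606063763) (nat_lit 0) (nat_lit 1615029762) (nat_lit 76) (nat_lit 1615029762) (nat_lit 65) (nat_lit 3) (nat_lit 64) (nat_lit 1) (nat_lit 65) (nat_lit 1) (nat_lit 387) (nat_lit 412) (nat_lit 221)) (XT.lf (nat_lit 152) (nat_lit 4753839214) (nat_lit 0) (nat_lit 2754531) (nat_lit 76) (nat_lit 2754531) (nat_lit 64) (nat_lit 1) (nat_lit 62)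 (nat_lit 1) (nat_lit 63) (nat_lit 1) (nat_lit 388) (nat_lit 412) (nat_lit 220)))) (XT.nd (nat_lit 78) (nat_lit 228) (nat_lit 0) (XT.lf (nat_lit 0) (nat_lit 1557859653) (nat_lit 0) (nat_lit 1565604820) (nat_lit 152) (nat_lit 1557859653) (nat_lit 62) (nat_lit 3) (nat_lit 62) (nat_lit 1) (nat_lit 64) (nat_lit 1) (nat_lit 389) (nat_lit 412) (nat_lit 219)) (XT.nd (nat_lit 78) (nat_lit 152) (nat_lit 0) (XT.lf (nat_lit 76) (nat_lit 1530353416) (nat_lit 0) (nat_lit 1537729766) (nat_lit 76) (nat_lit 1537729766) (nat_lit 62) (nat_lit 3) (nat_lit 61) (nat_lit 1) (nat_lit 62) (nat_lit 1) (nat_lit 390) (nat_lit 412) (nat_lit 218)) (XT.lf (nat_lit 152) (nat_lit 4528163316) (nat_lit 0) (nat_lit 2266159) (nat_lit 76) (nat_lit 2266159) (nat_lit 61) (nat_lit 1) (nat_lit 59) (nat_lit 1) (nat_lit 60) (nat_lit 1) (nat_lit 391) (nat_lit 412) (nat_lit 217))))) (XT.nd (nat_lit 234) (nat_lit 228) (nat_lit 0) (XT.nd (nat_lit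 78) (nat_lit 228) (nat_lit 0) (XT.lf (nat_lit 0) (nat_lit 1484005165) (nat_lit 0) (nat_lit 1490377133) (nat_lit 152) (nat_lit 1484005165) (nat_lit 59) (nat_lit 3) (nat_lit 59) (nat_lit 1) (nat_lit 61) (nat_lit 1) (nat_lit 392) (nat_lit 412) (nat_lit 216)) (XT.nd (nat_lit 78) (nat_lit 152) (nat_lit 0) (XT.lf (nat_lit 76) (nat_lit 1458112004) (nat_lit 0) (nat_lit 1464180545) (nat_lit 76) (nat_lit 1464180545) (nat_lit 59) (nat_lit 3) (nat_lit 58) (nat_lit 1) (nat_lit 59) (nat_lit 1) (nat_lit 393) (nat_lit 412) (nat_lit 215)) (XT.lf (nat_lit 152) (nat_lit 4313110241) (nat_lit 0) (nat_lit 1864375) (nat_lit 76) (nat_lit 1864375) (nat_lit 58) (nat_lit 1) (nat_lit 56) (nat_lit 1) (nat_lit 57) (nat_lit 1) (nat_lit 394) (nat_lit 412) (nat_lit 214)))) (XT.nd (nat_lit 78) (nat_lit 228) (nat_lit 0) (XT.lf (nat_lit 0) (nat_lit 1413609173) (nat_lit 0) (nat_lit 1418851407) (nat_lit 152) (nat_lit 1413609173) (nat_lit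 56) (nat_lit 3) (nat_lit 56) (nat_lit 1) (nat_lit 58) (nat_lit 1) (nat_lit 395) (nat_lit 412) (nat_lit 213)) (XT.nd (nat_lit 78) (nat_lit 152) (nat_lit 0) (XT.lf (nat_lit 76) (nat_lit 1389198507) (nat_lit 0) (nat_lit 1394191111) (nat_lit 76) (nat_lit 1394191111) (nat_lit 56) (nat_lit 3) (nat_lit 55) (nat_lit 1) (nat_lit 56) (nat_lit 1) (nat_lit 396) (nat_lit 412) (nat_lit 212)) (XT.lf (nat_lit 152) (nat_lit 4108196065) (nat_lit 0) (nat_lit 1533826) (nat_lit 76) (nat_lit 1533826) (nat_lit 55) (nat_lit 1) (nat_lit 53) (nat_lit 1) (nat_lit 54) (nat_lit 1) (nat_lit 397) (nat_lit 412) (nat_lit 211)))))) (XT.nd (nat_lit 468) (nat_lit 456) (nat_lit 0) (XT.nd (nat_lit 234) (nat_lit 228) (nat_lit 0) (XT.nd (nat_lit 78) (nat_lit 228) (nat_lit 0) (XT.lf (nat_lit 0) (nat_lit 1346517337) (nat_lit 0) (nat_lit 1350830136) (nat_lit 152) (nat_lit 1346517337) (nat_lit 53) (nat_lit 3) (nat_lit 53) (nat_lit 1) (nat_lit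 55) (nat_lit 1) (nat_lit 398) (nat_lit 412) (nat_lit 210)) (XT.nd (nat_lit 78) (nat_lit 152) (nat_lit 0) (XT.lf (nat_lit 76) (nat_lit 1323474339) (nat_lit 0) (nat_lit 1327581766) (nat_lit 76) (nat_lit 1327581766) (nat_lit 53) (nat_lit 3) (nat_lit 52) (nat_lit 1) (nat_lit 53) (nat_lit 1) (nat_lit 399) (nat_lit 412) (nat_lit 209)) (XT.lf (nat_lit 152) (nat_lit 3912956018) (nat_lit 0) (nat_lit 1261882) (nat_lit 76) (nat_lit 1261882) (nat_lit 52) (nat_lit 1) (nat_lit 50) (nat_lit 1) (nat_lit 51) (nat_lit 1) (nat_lit 400) (nat_lit 412) (nat_lit 208)))) (XT.nd (nat_lit 78) (nat_lit 228) (nat_lit 0) (XT.lf (nat_lit 0) (nat_lit 1282580833) (nat_lit 0) (nat_lit 1286128984) (nat_lit 152) (nat_lit 1282580833) (nat_lit 50) (nat_lit 3) (nat_lit 50) (nat_lit 1) (nat_lit 52) (nat_lit 1) (nat_lit 401) (nat_lit 412) (nat_lit 207)) (XT.nd (nat_lit 78) (nat_lit 152) (nat_lit 0) (XT.lf (nat_lit 76) (nat_lit 1260803984)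 (nat_lit 0) (nat_lit 1264183175) (nat_lit 76) (nat_lit 1264183175) (nat_lit 50) (nat_lit 3) (nat_lit 49) (nat_lit 1) (nat_lit 50) (nat_lit 1) (nat_lit 402) (nat_lit 412) (nat_lit 206)) (XT.lf (nat_lit 152) (nat_lit 3726944265) (nat_lit 0) (nat_lit 1038153) (nat_lit 76) (nat_lit 1038153) (nat_lit 49) (nat_lit 1) (nat_lit 47) (nat_lit 1) (nat_lit 48) (nat_lit 1) (nat_lit 403) (nat_lit 412) (nat_lit 205))))) (XT.nd (nat_lit 234) (nat_lit 228) (nat_lit 0) (XT.nd (nat_lit 78) (nat_lit 228) (nat_lit 0) (XT.lf (nat_lit 0) (nat_lit 1221656414) (nat_lit 0) (nat_lit 1224575486) (nat_lit 152) (nat_lit 1221656414) (nat_lit 47) (nat_lit 3) (nat_lit 47) (nat_lit 1) (nat_lit 49) (nat_lit 1) (nat_lit 404) (nat_lit 412) (nat_lit 204)) (XT.nd (nat_lit 78) (nat_lit 152) (nat_lit 0) (XT.lf (nat_lit 76) (nat_lit 1201055482) (nat_lit 0) (nat_lit 1203835551) (nat_lit 76) (nat_lit 1203835551) (nat_lit 47) (nat_lit 3)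 (nat_lit 46) (nat_lit 1) (nat_lit 47) (nat_lit 1) (nat_lit 405) (nat_lit 412) (nat_lit 203)) (XT.lf (nat_lit 152) (nat_lit 3549733570) (nat_lit 0) (nat_lit 854091) (nat_lit 76) (nat_lit 854091) (nat_lit 46) (nat_lit 1) (nat_lit 44) (nat_lit 1) (nat_lit 45) (nat_lit 1) (nat_lit 406) (nat_lit 412) (nat_lit 202)))) (XT.nd (nat_lit 156) (nat_lit 152) (nat_lit 0) (XT.nd (nat_lit 78) (nat_lit 76) (nat_lit 0) (XT.lf (nat_lit 0) (nat_lit 1163606411) (nat_lit 0) (nat_lit 1166007939) (nat_lit 152) (nat_lit 1163606411) (nat_lit 44) (nat_lit 3) (nat_lit 44) (nat_lit 1) (nat_lit 46) (nat_lit 1) (nat_lit 407) (nat_lit 412) (nat_lit 201)) (XT.lf (nat_lit 76) (nat_lit 1144100769) (nat_lit 0) (nat_lit 1146387938) (nat_lit 76) (nat_lit 1146387938) (nat_lit 44) (nat_lit 3) (nat_lit 43) (nat_lit 1) (nat_lit 44) (nat_lit 1) (nat_lit 408) (nat_lit 412) (nat_lit 200))) (XT.nd (nat_lit 78) (nat_lit 0) (nat_lit 0) (XT.lf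 (nat_lit 152) (nat_lit 3380914878) (nat_lit 0) (nat_lit 702663) (nat_lit 76) (nat_lit 702663) (nat_lit 43) (nat_lit 1) (nat_lit 41) (nat_lit 1) (nat_lit 42) (nat_lit 1) (nat_lit 409) (nat_lit 412) (nat_lit 199)) (XT.lf (nat_lit 0) (nat_lit 1108298689) (nat_lit 0) (nat_lit 1110274432) (nat_lit 152) (nat_lit 1108298689) (nat_lit 41) (nat_lit 3) (nat_lit 41) (nat_lit 1) (nat_lit 43) (nat_lit 1) (nat_lit 410) (nat_lit 412) (nat_lit 198))))))) (XT.nd (nat_lit 1014) (nat_lit 1064) (nat_lit 0) (XT.nd (nat_lit 468) (nat_lit 532) (nat_lit 0) (XT.nd (nat_lit 234) (nat_lit 228) (nat_lit 0) (XT.nd (nat_lit 78) (nat_lit 152) (nat_lit 0) (XT.lf (nat_lit 76) (nat_lit 1089815917) (nat_lit 0) (nat_lit 1091697576) (nat_lit 76) (nat_lit 1091697576) (nat_lit 41) (nat_lit 3) (nat_lit 40) (nat_lit 1) (nat_lit 41) (nat_lit 1) (nat_lit 411) (nat_lit 412) (nat_lit 197)) (XT.nd (nat_lit 78) (nat_lit 0) (nat_lit 0) (XT.lf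 (nat_lit 152) (nat_lit 3220096833) (nat_lit 0) (nat_lit 578082) (nat_lit 76) (nat_lit 578082) (nat_lit 40) (nat_lit 1) (nat_lit 38) (nat_lit 1) (nat_lit 39) (nat_lit 1) (nat_lit 412) (nat_lit 412) (nat_lit 196)) (XT.lf (nat_lit 0) (nat_lit 1055606565) (nat_lit 0) (nat_lit 1057232013) (nat_lit 152) (nat_lit 1055606565) (nat_lit 38) (nat_lit 3) (nat_lit 38) (nat_lit 1) (nat_lit 40) (nat_lit 1) (nat_lit 413) (nat_lit 412) (nat_lit 195)))) (XT.nd (nat_lit 78) (nat_lit 152) (nat_lit 0) (XT.lf (nat_lit 76) (nat_lit 1038081282) (nat_lit 0) (nat_lit 1039629329) (nat_lit 76) (nat_lit 1039629329) (nat_lit 38) (nat_lit 3) (nat_lit 37) (nat_lit 1) (nat_lit 38) (nat_lit 1) (nat_lit 414) (nat_lit 412) (nat_lit 194)) (XT.nd (nat_lit 78) (nat_lit 0) (nat_lit 0) (XT.lf (nat_lit 152) (nat_lit 3066905249) (nat_lit 0) (nat_lit 475590) (nat_lit 76) (nat_lit 475590) (nat_lit 37) (nat_lit 1) (nat_lit 35) (nat_lit 1)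 (nat_lit 36) (nat_lit 1) (nat_lit 415) (nat_lit 412) (nat_lit 193)) (XT.lf (nat_lit 0) (nat_lit 1005408695) (nat_lit 0) (nat_lit 1006745956) (nat_lit 152) (nat_lit 1005408695) (nat_lit 35) (nat_lit 3) (nat_lit 35) (nat_lit 1) (nat_lit 37) (nat_lit 1) (nat_lit 416) (nat_lit 412) (nat_lit 192))))) (XT.nd (nat_lit 234) (nat_lit 304) (nat_lit 0) (XT.nd (nat_lit 78) (nat_lit 152) (nat_lit 0) (XT.lf (nat_lit 76) (nat_lit 988781593) (nat_lit 0) (nat_lit 990055175) (nat_lit 76) (nat_lit 990055175) (nat_lit 35) (nat_lit 3) (nat_lit 34) (nat_lit 1) (nat_lit 35) (nat_lit 1) (nat_lit 417) (nat_lit 412) (nat_lit 191)) (XT.nd (nat_lit 78) (nat_lit 0) (nat_lit 0) (XT.lf (nat_lit 152) (nat_lit 2920982553) (nat_lit 0) (nat_lit 391269) (nat_lit 76) (nat_lit 391269) (nat_lit 34) (nat_lit 1) (nat_lit 32) (nat_lit 1) (nat_lit 33) (nat_lit 1) (nat_lit 418) (nat_lit 412) (nat_lit 190)) (XT.lf (nat_lit 0) (nat_lit 957588948)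 (nat_lit 0) (nat_lit 958689115) (nat_lit 152) (nat_lit 957588948) (nat_lit 32) (nat_lit 3) (nat_lit 32) (nat_lit 1) (nat_lit 34) (nat_lit 1) (nat_lit 419) (nat_lit 412) (nat_lit 189)))) (XT.nd (nat_lit 156) (nat_lit 76) (nat_lit 0) (XT.nd (nat_lit 78) (nat_lit 152) (nat_lit 0) (XT.lf (nat_lit 76) (nat_lit 941805972) (nat_lit 0) (nat_lit 942853750) (nat_lit 76) (nat_lit 942853750) (nat_lit 32) (nat_lit 3) (nat_lit 31) (nat_lit 1) (nat_lit 32) (nat_lit 1) (nat_lit 420) (nat_lit 412) (nat_lit 188)) (XT.lf (nat_lit 152) (nat_lit 2781987208) (nat_lit 0) (nat_lit 321898) (nat_lit 76) (nat_lit 321898) (nat_lit 31) (nat_lit 1) (nat_lit 29) (nat_lit 1) (nat_lit 30) (nat_lit 1) (nat_lit 421) (nat_lit 412) (nat_lit 187))) (XT.nd (nat_lit 78) (nat_lit 76) (nat_lit 0) (XT.lf (nat_lit 0) (nat_lit 912036250) (nat_lit 0) (nat_lit 912941361) (nat_lit 152) (nat_lit 912036250) (nat_lit 29) (nat_lit 3) (nat_lit 29)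 (nat_lit 1) (nat_lit 31) (nat_lit 1) (nat_lit 422) (nat_lit 412) (nat_lit 186)) (XT.lf (nat_lit 76) (nat_lit 897047921) (nat_lit 0) (nat_lit 897909931) (nat_lit 76) (nat_lit 897909931) (nat_lit 29) (nat_lit 3) (nat_lit 28) (nat_lit 1) (nat_lit 29) (nat_lit 1) (nat_lit 423) (nat_lit 412) (nat_lit 185)))))) (XT.nd (nat_lit 468) (nat_lit 608) (nat_lit 0) (XT.nd (nat_lit 234) (nat_lit 228) (nat_lit 0) (XT.nd (nat_lit 78) (nat_lit 76) (nat_lit 0) (XT.lf (nat_lit 152) (nat_lit 2649593125) (nat_lit 0) (nat_lit 264826) (nat_lit 76) (nat_lit 264826) (nat_lit 28) (nat_lit 1) (nat_lit 26) (nat_lit 1) (nat_lit 27) (nat_lit 1) (nat_lit 424) (nat_lit 412) (nat_lit 184)) (XT.nd (nat_lit 78) (nat_lit 76) (nat_lit 0) (XT.lf (nat_lit 0) (nat_lit 868644436) (nat_lit 0) (nat_lit 869389073) (nat_lit 152) (nat_lit 868644436) (nat_lit 26) (nat_lit 3) (nat_lit 26) (nat_lit 1) (nat_lit 28) (nat_lit 1) (nat_lit 425) (nat_lit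 412) (nat_lit 183)) (XT.lf (nat_lit 76) (nat_lit 854405275) (nat_lit 0) (nat_lit 855114453) (nat_lit 76) (nat_lit 855114453) (nat_lit 26) (nat_lit 3) (nat_lit 25) (nat_lit 1) (nat_lit 26) (nat_lit 1) (nat_lit 426) (nat_lit 412) (nat_lit 182)))) (XT.nd (nat_lit 78) (nat_lit 76) (nat_lit 0) (XT.lf (nat_lit 152) (nat_lit 2523489073) (nat_lit 0) (nat_lit 217873) (nat_lit 76) (nat_lit 217873) (nat_lit 25) (nat_lit 1) (nat_lit 23) (nat_lit 1) (nat_lit 24) (nat_lit 1) (nat_lit 427) (nat_lit 412) (nat_lit 181)) (XT.nd (nat_lit 78) (nat_lit 76) (nat_lit 0) (XT.lf (nat_lit 0) (nat_lit 827312075) (nat_lit 0) (nat_lit 827924690) (nat_lit 152) (nat_lit 827312075) (nat_lit 23) (nat_lit 3) (nat_lit 23) (nat_lit 1) (nat_lit 25) (nat_lit 1) (nat_lit 428) (nat_lit 412) (nat_lit 180)) (XT.lf (nat_lit 76) (nat_lit 813780125) (nat_lit 0) (nat_lit 814363567) (nat_lit 76) (nat_lit 814363567) (nat_lit 23) (nat_lit 3)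 (nat_lit 22) (nat_lit 1) (nat_lit 23) (nat_lit 1) (nat_lit 429) (nat_lit 412) (nat_lit 179))))) (XT.nd (nat_lit 234) (nat_lit 380) (nat_lit 0) (XT.nd (nat_lit 78) (nat_lit 76) (nat_lit 0) (XT.lf (nat_lit 152) (nat_lit 2403378088) (nat_lit 0) (nat_lit 179244) (nat_lit 76) (nat_lit 179244) (nat_lit 22) (nat_lit 1) (nat_lit 20) (nat_lit 1) (nat_lit 21) (nat_lit 1) (nat_lit 430) (nat_lit 412) (nat_lit 178)) (XT.nd (nat_lit 78) (nat_lit 76) (nat_lit 0) (XT.lf (nat_lit 0) (nat_lit 787942309) (nat_lit 0) (nat_lit 788446308) (nat_lit 152) (nat_lit 787942309) (nat_lit 20) (nat_lit 3) (nat_lit 20) (nat_lit 1) (nat_lit 22) (nat_lit 1) (nat_lit 431) (nat_lit 412) (nat_lit 177)) (XT.lf (nat_lit 76) (nat_lit 775078723) (nat_lit 0) (nat_lit 775558723) (nat_lit 76) (nat_lit 775558723) (nat_lit 20) (nat_lit 3) (nat_lit 19) (nat_lit 1) (nat_lit 20) (nat_lit 1) (nat_lit 432) (nat_lit 412) (nat_lit 176)))) (XT.nd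 (nat_lit 156) (nat_lit 228) (nat_lit 0) (XT.nd (nat_lit 78) (nat_lit 0) (nat_lit 0) (XT.lf (nat_lit 152) (nat_lit 2288976894) (nat_lit 0) (nat_lit 147465) (nat_lit 76) (nat_lit 147465) (nat_lit 19) (nat_lit 1) (nat_lit 17) (nat_lit 1) (nat_lit 18) (nat_lit 1) (nat_lit 433) (nat_lit 412) (nat_lit 175)) (XT.lf (nat_lit 0) (nat_lit 750442675) (nat_lit 0) (nat_lit 750857317) (nat_lit 152) (nat_lit 750442675) (nat_lit 17) (nat_lit 3) (nat_lit 17) (nat_lit 1) (nat_lit 19) (nat_lit 1) (nat_lit 434) (nat_lit 412) (nat_lit 174))) (XT.nd (nat_lit 78) (nat_lit 152) (nat_lit 0) (XT.lf (nat_lit 76) (nat_lit 738211375) (nat_lit 0) (nat_lit 738606272) (nat_lit 76) (nat_lit 738606272) (nat_lit 17) (nat_lit 3) (nat_lit 16) (nat_lit 1) (nat_lit 17) (nat_lit 1) (nat_lit 435) (nat_lit 412) (nat_lit 173)) (XT.lf (nat_lit 152) (nat_lit 2180015330) (nat_lit 0) (nat_lit 121320) (nat_lit 76) (nat_lit 121320) (nat_lit 16)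 (nat_lit 1) (nat_lit 14) (nat_lit 1) (nat_lit 15) (nat_lit 1) (nat_lit 436) (nat_lit 412) (nat_lit 172))))))))
noncomputable def ec316 : XT := (XT.nd (nat_lit 35646) (nat_lit 0) (nat_lit 15884) (XT.nd (nat_lit 34632) (nat_lit 0) (nat_lit 19608) (XT.nd (nat_lit 34164) (nat_lit 0) (nat_lit 21584) (XT.nd (nat_lit 234) (nat_lit 228) (nat_lit 0) (XT.nd (nat_lit 78) (nat_lit 228) (nat_lit 0) (XT.lf (nat_lit 0) (nat_lit 714724939) (nat_lit 0) (nat_lit 715066066) (nat_lit 152) (nat_lit 714724939) (nat_lit 14) (nat_lit 3) (nat_lit 14) (nat_lit 1) (nat_lit 16) (nat_lit 1) (nat_lit 437) (nat_lit 412) (nat_lit 171)) (XT.nd (nat_lit 78) (nat_lit 152) (nat_lit 0) (XT.lf (nat_lit 76) (nat_lit 703092317) (nat_lit 0) (nat_lit 703417200) (nat_lit 76) (nat_lit 703417200) (nat_lit 14) (nat_lit 3) (nat_lit 13) (nat_lit 1) (nat_lit 14) (nat_lit 1) (nat_lit 438) (nat_lit 412) (nat_lit 170)) (XT.lf (nat_lit 152) (nat_lit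 2076235792) (nat_lit 0) (nat_lit 99810) (nat_lit 76) (nat_lit 99810) (nat_lit 13) (nat_lit 1) (nat_lit 11) (nat_lit 1) (nat_lit 12) (nat_lit 1) (nat_lit 439) (nat_lit 412) (nat_lit 169)))) (XT.nd (nat_lit 78) (nat_lit 228) (nat_lit 0) (XT.lf (nat_lit 0) (nat_lit 680704922) (nat_lit 0) (nat_lit 680985568) (nat_lit 152) (nat_lit 680704922) (nat_lit 11) (nat_lit 3) (nat_lit 11) (nat_lit 1) (nat_lit 13) (nat_lit 1) (nat_lit 440) (nat_lit 412) (nat_lit 168)) (XT.nd (nat_lit 78) (nat_lit 152) (nat_lit 0) (XT.lf (nat_lit 76) (nat_lit 669639591) (nat_lit 0) (nat_lit 669906872) (nat_lit 76) (nat_lit 669906872) (nat_lit 11) (nat_lit 3) (nat_lit 10) (nat_lit 1) (nat_lit 11) (nat_lit 1) (nat_lit 441) (nat_lit 412) (nat_lit 167)) (XT.lf (nat_lit 152) (nat_lit 1977392691) (nat_lit 0) (nat_lit 82114) (nat_lit 76) (nat_lit 82114) (nat_lit 10) (nat_lit 1) (nat_lit 8) (nat_lit 1) (nat_lit 9) (nat_lit 1) (nat_lit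 442) (nat_lit 412) (nat_lit 166))))) (XT.nd (nat_lit 234) (nat_lit 0) (nat_lit 76) (XT.nd (nat_lit 78) (nat_lit 0) (nat_lit 0) (XT.lf (nat_lit 836) (nat_lit 18926421642) (nat_lit 0) (nat_lit 33603818122) (nat_lit 836) (nat_lit 18926421642) (nat_lit 303) (nat_lit 1) (nat_lit 292) (nat_lit 0) (nat_lit 303) (nat_lit 0) (nat_lit 194) (nat_lit 413) (nat_lit 413)) (XT.nd (nat_lit 78) (nat_lit 0) (nat_lit 76) (XT.lf (nat_lit 836) (nat_lit 73361173158) (nat_lit 76) (nat_lit 33061821056) (nat_lit 0) (nat_lit 33061821056) (nat_lit 303) (nat_lit 1) (nat_lit 293) (nat_lit 1) (nat_lit 292) (nat_lit 0) (nat_lit 195) (nat_lit 413) (nat_lit 412)) (XT.lf (nat_lit 836) (nat_lit 34962830528) (nat_lit 0) (nat_lit 66236640255) (nat_lit 760) (nat_lit 34962830528) (nat_lit 304) (nat_lit 1) (nat_lit 293) (nat_lit 1) (nat_lit 303) (nat_lit 1) (nat_lit 196) (nat_lit 413) (nat_lit 411)))) (XT.nd (nat_lit 78) (nat_lit 0)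 (nat_lit 76) (XT.lf (nat_lit 836) (nat_lit 65585411864) (nat_lit 76) (nat_lit 33680858722) (nat_lit 0) (nat_lit 33680858722) (nat_lit 304) (nat_lit 1) (nat_lit 294) (nat_lit 1) (nat_lit 293) (nat_lit 1) (nat_lit 197) (nat_lit 413) (nat_lit 410)) (XT.nd (nat_lit 78) (nat_lit 0) (nat_lit 0) (XT.lf (nat_lit 836) (nat_lit 30188335258) (nat_lit 0) (nat_lit 69457191614) (nat_lit 760) (nat_lit 30188335258) (nat_lit 305) (nat_lit 1) (nat_lit 294) (nat_lit 1) (nat_lit 304) (nat_lit 1) (nat_lit 198) (nat_lit 413) (nat_lit 409)) (XT.lf (nat_lit 836) (nat_lit 54295687188) (nat_lit 76) (nat_lit 36259906022) (nat_lit 0) (nat_lit 36259906022) (nat_lit 305) (nat_lit 1) (nat_lit 295) (nat_lit 1) (nat_lit 294) (nat_lit 1) (nat_lit 199) (nat_lit 413) (nat_lit 408)))))) (XT.nd (nat_lit 468) (nat_lit 1596) (nat_lit 0) (XT.nd (nat_lit 234) (nat_lit 608) (nat_lit 0) (XT.nd (nat_lit 78) (nat_lit 0) (nat_lit 0) (XT.lf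 (nat_lit 836) (nat_lit 23807090631) (nat_lit 0) (nat_lit 76284301248) (nat_lit 760) (nat_lit 23807090631) (nat_lit 306) (nat_lit 1) (nat_lit 295) (nat_lit 1) (nat_lit 305) (nat_lit 1) (nat_lit 200) (nat_lit 413) (nat_lit 407)) (XT.nd (nat_lit 78) (nat_lit 0) (nat_lit 76) (XT.lf (nat_lit 836) (nat_lit 40020450328) (nat_lit 76) (nat_lit 40520665462) (nat_lit 0) (nat_lit 40520665462) (nat_lit 306) (nat_lit 1) (nat_lit 296) (nat_lit 1) (nat_lit 295) (nat_lit 1) (nat_lit 201) (nat_lit 413) (nat_lit 406)) (XT.lf (nat_lit 836) (nat_lit 16066126337) (nat_lit 0) (nat_lit 86196666763) (nat_lit 760) (nat_lit 16066126337) (nat_lit 307) (nat_lit 1) (nat_lit 296) (nat_lit 1) (nat_lit 306) (nat_lit 1) (nat_lit 202) (nat_lit 413) (nat_lit 405)))) (XT.nd (nat_lit 78) (nat_lit 684) (nat_lit 0) (XT.lf (nat_lit 836) (nat_lit 23229414660) (nat_lit 76) (nat_lit 46215287981) (nat_lit 0) (nat_lit 46215287981) (nat_lit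 307) (nat_lit 1) (nat_lit 297) (nat_lit 1) (nat_lit 296) (nat_lit 1) (nat_lit 203) (nat_lit 413) (nat_lit 404)) (XT.nd (nat_lit 78) (nat_lit 760) (nat_lit 0) (XT.lf (nat_lit 76) (nat_lit 7184855618) (nat_lit 0) (nat_lit 98730308604) (nat_lit 760) (nat_lit 7184855618) (nat_lit 298) (nat_lit 1) (nat_lit 297) (nat_lit 1) (nat_lit 307) (nat_lit 1) (nat_lit 204) (nat_lit 413) (nat_lit 403)) (XT.lf (nat_lit 836) (nat_lit 4339474121) (nat_lit 0) (nat_lit 53123324290) (nat_lit 760) (nat_lit 53123324290) (nat_lit 298) (nat_lit 1) (nat_lit 287) (nat_lit 1) (nat_lit 297) (nat_lit 1) (nat_lit 205) (nat_lit 413) (nat_lit 402))))) (XT.nd (nat_lit 234) (nat_lit 684) (nat_lit 0) (XT.nd (nat_lit 78) (nat_lit 380) (nat_lit 0) (XT.lf (nat_lit 532) (nat_lit 102981185905) (nat_lit 0) (nat_lit 2599520694) (nat_lit 456) (nat_lit 2599520694) (nat_lit 287) (nat_lit 1) (nat_lit 280) (nat_lit 1) (nat_lit 286) (nat_lit 1)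 (nat_lit 206) (nat_lit 413) (nat_lit 401)) (XT.nd (nat_lit 78) (nat_lit 380) (nat_lit 0) (XT.lf (nat_lit 76) (nat_lit 45023195245) (nat_lit 0) (nat_lit 15758890341) (nat_lit 532) (nat_lit 45023195245) (nat_lit 281) (nat_lit 1) (nat_lit 280) (nat_lit 1) (nat_lit 287) (nat_lit 1) (nat_lit 207) (nat_lit 413) (nat_lit 400)) (XT.lf (nat_lit 456) (nat_lit 77473362064) (nat_lit 0) (nat_lit 13028980695) (nat_lit 380) (nat_lit 13028980695) (nat_lit 281) (nat_lit 1) (nat_lit 275) (nat_lit 1) (nat_lit 280) (nat_lit 1) (nat_lit 208) (nat_lit 413) (nat_lit 399)))) (XT.nd (nat_lit 156) (nat_lit 304) (nat_lit 0) (XT.nd (nat_lit 78) (nat_lit 380) (nat_lit 0) (XT.lf (nat_lit 76) (nat_lit 32114497080) (nat_lit 0) (nat_lit 37076176788) (nat_lit 456) (nat_lit 32114497080) (nat_lit 276) (nat_lit 1) (nat_lit 275) (nat_lit 1) (nat_lit 281) (nat_lit 1) (nat_lit 209) (nat_lit 413) (nat_lit 398)) (XT.lf (nat_lit 456) (nat_lit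 51017307592) (nat_lit 0) (nat_lit 24069620893) (nat_lit 380) (nat_lit 24069620893) (nat_lit 276) (nat_lit 1) (nat_lit 270) (nat_lit 1) (nat_lit 275) (nat_lit 1) (nat_lit 210) (nat_lit 413) (nat_lit 397))) (XT.nd (nat_lit 78) (nat_lit 304) (nat_lit 0) (XT.lf (nat_lit 76) (nat_lit 18799199825) (nat_lit 0) (nat_lit 59472017313) (nat_lit 456) (nat_lit 18799199825) (nat_lit 271) (nat_lit 1) (nat_lit 270) (nat_lit 1) (nat_lit 276) (nat_lit 1) (nat_lit 211) (nat_lit 413) (nat_lit 396)) (XT.lf (nat_lit 380) (nat_lit 23859261240) (nat_lit 0) (nat_lit 35589342757) (nat_lit 304) (nat_lit 35589342757) (nat_lit 271) (nat_lit 1) (nat_lit 266) (nat_lit 1) (nat_lit 270) (nat_lit 1) (nat_lit 212) (nat_lit 413) (nat_lit 395))))))) (XT.nd (nat_lit 936) (nat_lit 1672) (nat_lit 0) (XT.nd (nat_lit 468) (nat_lit 1064) (nat_lit 0) (XT.nd (nat_lit 234) (nat_lit 304) (nat_lit 0) (XT.nd (nat_lit 78) (nat_lit 684) (nat_lit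 0) (XT.lf (nat_lit 76) (nat_lit 5191616042) (nat_lit 0) (nat_lit 82700403261) (nat_lit 380) (nat_lit 5191616042) (nat_lit 267) (nat_lit 1) (nat_lit 266) (nat_lit 1) (nat_lit 271) (nat_lit 1) (nat_lit 213) (nat_lit 413) (nat_lit 394)) (XT.nd (nat_lit 78) (nat_lit 304) (nat_lit 0) (XT.lf (nat_lit 76) (nat_lit 43746048586) (nat_lit 0) (nat_lit 3663816546) (nat_lit 380) (nat_lit 43746048586) (nat_lit 262) (nat_lit 1) (nat_lit 261) (nat_lit 1) (nat_lit 266) (nat_lit 1) (nat_lit 214) (nat_lit 413) (nat_lit 393)) (XT.lf (nat_lit 380) (nat_lit 72362863185) (nat_lit 0) (nat_lit 8469370635) (nat_lit 304) (nat_lit 8469370635) (nat_lit 262) (nat_lit 1) (nat_lit 257) (nat_lit 1) (nat_lit 261) (nat_lit 1) (nat_lit 215) (nat_lit 413) (nat_lit 392)))) (XT.nd (nat_lit 78) (nat_lit 304) (nat_lit 0) (XT.lf (nat_lit 76) (nat_lit 28383896233) (nat_lit 0) (nat_lit 30711313815) (nat_lit 380) (nat_lit 28383896233) (nat_lit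 258) (nat_lit 1) (nat_lit 257) (nat_lit 1) (nat_lit 262) (nat_lit 1) (nat_lit 216) (nat_lit 413) (nat_lit 391)) (XT.nd (nat_lit 78) (nat_lit 0) (nat_lit 0) (XT.lf (nat_lit 380) (nat_lit 41420000391) (nat_lit 0) (nat_lit 22149902771) (nat_lit 304) (nat_lit 22149902771) (nat_lit 258) (nat_lit 1) (nat_lit 253) (nat_lit 1) (nat_lit 257) (nat_lit 1) (nat_lit 217) (nat_lit 413) (nat_lit 390)) (XT.lf (nat_lit 76) (nat_lit 13062019579) (nat_lit 0) (nat_lit 57887908523) (nat_lit 380) (nat_lit 13062019579) (nat_lit 254) (nat_lit 1) (nat_lit 253) (nat_lit 1) (nat_lit 258) (nat_lit 1) (nat_lit 218) (nat_lit 413) (nat_lit 389))))) (XT.nd (nat_lit 234) (nat_lit 456) (nat_lit 0) (XT.nd (nat_lit 78) (nat_lit 380) (nat_lit 0) (XT.lf (nat_lit 304) (nat_lit 10622781087) (nat_lit 0) (nat_lit 35859087082) (nat_lit 228) (nat_lit 35859087082) (nat_lit 254) (nat_lit 1) (nat_lit 250) (nat_lit 1) (nat_lit 253) (nat_lit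 1) (nat_lit 219) (nat_lit 413) (nat_lit 388)) (XT.nd (nat_lit 78) (nat_lit 0) (nat_lit 0) (XT.lf (nat_lit 380) (nat_lit 76489570560) (nat_lit 0) (nat_lit 2122438815) (nat_lit 304) (nat_lit 2122438815) (nat_lit 250) (nat_lit 1) (nat_lit 245) (nat_lit 1) (nat_lit 249) (nat_lit 1) (nat_lit 220) (nat_lit 413) (nat_lit 387)) (XT.lf (nat_lit 76) (nat_lit 29930934438) (nat_lit 0) (nat_lit 19274964078) (nat_lit 380) (nat_lit 29930934438) (nat_lit 246) (nat_lit 1) (nat_lit 245) (nat_lit 1) (nat_lit 250) (nat_lit 1) (nat_lit 221) (nat_lit 413) (nat_lit 386)))) (XT.nd (nat_lit 78) (nat_lit 228) (nat_lit 0) (XT.lf (nat_lit 304) (nat_lit 43715075992) (nat_lit 0) (nat_lit 16942707260) (nat_lit 228) (nat_lit 16942707260) (nat_lit 246) (nat_lit 1) (nat_lit 242) (nat_lit 1) (nat_lit 245) (nat_lit 1) (nat_lit 222) (nat_lit 413) (nat_lit 385)) (XT.nd (nat_lit 78) (nat_lit 228) (nat_lit 0) (XT.lf (nat_lit 76) (nat_lit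 13810268709) (nat_lit 0) (nat_lit 48482644076) (nat_lit 304) (nat_lit 13810268709) (nat_lit 243) (nat_lit 1) (nat_lit 242) (nat_lit 1) (nat_lit 246) (nat_lit 1) (nat_lit 223) (nat_lit 413) (nat_lit 384)) (XT.lf (nat_lit 304) (nat_lit 11510427312) (nat_lit 0) (nat_lit 31564754269) (nat_lit 228) (nat_lit 31564754269) (nat_lit 243) (nat_lit 1) (nat_lit 239) (nat_lit 1) (nat_lit 242) (nat_lit 1) (nat_lit 224) (nat_lit 413) (nat_lit 383)))))) (XT.nd (nat_lit 468) (nat_lit 684) (nat_lit 0) (XT.nd (nat_lit 234) (nat_lit 456) (nat_lit 0) (XT.nd (nat_lit 78) (nat_lit 228) (nat_lit 0) (XT.lf (nat_lit 304) (nat_lit 69274679969) (nat_lit 0) (nat_lit 1978185835) (nat_lit 228) (nat_lit 1978185835) (nat_lit 239) (nat_lit 1) (nat_lit 235) (nat_lit 1) (nat_lit 238) (nat_lit 1) (nat_lit 225) (nat_lit 413) (nat_lit 382)) (XT.nd (nat_lit 78) (nat_lit 228) (nat_lit 0) (XT.lf (nat_lit 76) (nat_lit 26204627530) (nat_lit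 0) (nat_lit 19417365876) (nat_lit 304) (nat_lit 26204627530) (nat_lit 236) (nat_lit 1) (nat_lit 235) (nat_lit 1) (nat_lit 239) (nat_lit 1) (nat_lit 226) (nat_lit 413) (nat_lit 381)) (XT.lf (nat_lit 304) (nat_lit 36033762304) (nat_lit 0) (nat_lit 17220196046) (nat_lit 228) (nat_lit 17220196046) (nat_lit 236) (nat_lit 1) (nat_lit 232) (nat_lit 1) (nat_lit 235) (nat_lit 1) (nat_lit 227) (nat_lit 413) (nat_lit 380)))) (XT.nd (nat_lit 78) (nat_lit 456) (nat_lit 0) (XT.lf (nat_lit 76) (nat_lit 9923668750) (nat_lit 0) (nat_lit 49310624122) (nat_lit 304) (nat_lit 9923668750) (nat_lit 233) (nat_lit 1) (nat_lit 232) (nat_lit 1) (nat_lit 236) (nat_lit 1) (nat_lit 228) (nat_lit 413) (nat_lit 379)) (XT.nd (nat_lit 78) (nat_lit 304) (nat_lit 0) (XT.lf (nat_lit 228) (nat_lit 3636362185) (nat_lit 0) (nat_lit 32115104764) (nat_lit 152) (nat_lit 32115104764) (nat_lit 233) (nat_lit 1) (nat_lit 230) (nat_lit 1) (nat_lit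 232) (nat_lit 1) (nat_lit 229) (nat_lit 413) (nat_lit 378)) (XT.lf (nat_lit 304) (nat_lit 54944213298) (nat_lit 0) (nat_lit 5835473706) (nat_lit 228) (nat_lit 5835473706) (nat_lit 230) (nat_lit 1) (nat_lit 226) (nat_lit 1) (nat_lit 229) (nat_lit 1) (nat_lit 230) (nat_lit 413) (nat_lit 377))))) (XT.nd (nat_lit 234) (nat_lit 532) (nat_lit 0) (XT.nd (nat_lit 78) (nat_lit 152) (nat_lit 0) (XT.lf (nat_lit 76) (nat_lit 19190709486) (nat_lit 0) (nat_lit 26996326562) (nat_lit 304) (nat_lit 19190709486) (nat_lit 227) (nat_lit 1) (nat_lit 226) (nat_lit 1) (nat_lit 230) (nat_lit 1) (nat_lit 231) (nat_lit 413) (nat_lit 376)) (XT.nd (nat_lit 78) (nat_lit 0) (nat_lit 0) (XT.lf (nat_lit 228) (nat_lit 22171904518) (nat_lit 0) (nat_lit 21003307934) (nat_lit 152) (nat_lit 21003307934) (nat_lit 227) (nat_lit 1) (nat_lit 224) (nat_lit 1) (nat_lit 226) (nat_lit 1) (nat_lit 232) (nat_lit 413) (nat_lit 375)) (XT.lf (nat_lit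 76) (nat_lit 3185398930) (nat_lit 0) (nat_lit 56648295061) (nat_lit 228) (nat_lit 3185398930) (nat_lit 225) (nat_lit 1) (nat_lit 224) (nat_lit 1) (nat_lit 227) (nat_lit 1) (nat_lit 233) (nat_lit 413) (nat_lit 374)))) (XT.nd (nat_lit 156) (nat_lit 152) (nat_lit 0) (XT.nd (nat_lit 78) (nat_lit 152) (nat_lit 0) (XT.lf (nat_lit 76) (nat_lit 26289656232) (nat_lit 0) (nat_lit 9284567591) (nat_lit 228) (nat_lit 26289656232) (nat_lit 222) (nat_lit 1) (nat_lit 221) (nat_lit 1) (nat_lit 224) (nat_lit 1) (nat_lit 234) (nat_lit 413) (nat_lit 373)) (XT.lf (nat_lit 228) (nat_lit 36507795337) (nat_lit 0) (nat_lit 12119598909) (nat_lit 152) (nat_lit 12119598909) (nat_lit 222) (nat_lit 1) (nat_lit 219) (nat_lit 1) (nat_lit 221) (nat_lit 1) (nat_lit 235) (nat_lit 413) (nat_lit 372))) (XT.nd (nat_lit 78) (nat_lit 152) (nat_lit 0) (XT.lf (nat_lit 76) (nat_lit 10301550050) (nat_lit 0) (nat_lit 39051691794) (nat_lit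 228) (nat_lit 10301550050) (nat_lit 220) (nat_lit 1) (nat_lit 219) (nat_lit 1) (nat_lit 222) (nat_lit 1) (nat_lit 236) (nat_lit 413) (nat_lit 371)) (XT.lf (nat_lit 228) (nat_lit 4825905308) (nat_lit 0) (nat_lit 26879350645) (nat_lit 152) (nat_lit 26879350645) (nat_lit 220) (nat_lit 1) (nat_lit 217) (nat_lit 1) (nat_lit 219) (nat_lit 1) (nat_lit 237) (nat_lit 413) (nat_lit 370))))))))
noncomputable def ec317 : XT := (XT.nd (nat_lit 1950) (nat_lit 1900) (nat_lit 0) (XT.nd (nat_lit 936) (nat_lit 1064) (nat_lit 0) (XT.nd (nat_lit 468) (nat_lit 608) (nat_lit 0) (XT.nd (nat_lit 234) (nat_lit 304) (nat_lit 0) (XT.nd (nat_lit 78) (nat_lit 152) (nat_lit 0) (XT.lf (nat_lit 228) (nat_lit 47432115114) (nat_lit 0) (nat_lit 5056657818) (nat_lit 152) (nat_lit 5056657818) (nat_lit 217) (nat_lit 1) (nat_lit 214) (nat_lit 1) (nat_lit 216) (nat_lit 1) (nat_lit 238) (nat_lit 413) (nat_lit 369)) (XT.nd (nat_lit 78)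 (nat_lit 152) (nat_lit 0) (XT.lf (nat_lit 76) (nat_lit 15790267356) (nat_lit 0) (nat_lit 24934589440) (nat_lit 228) (nat_lit 15790267356) (nat_lit 215) (nat_lit 1) (nat_lit 214) (nat_lit 1) (nat_lit 217) (nat_lit 1) (nat_lit 239) (nat_lit 413) (nat_lit 368)) (XT.lf (nat_lit 228) (nat_lit 16081620676) (nat_lit 0) (nat_lit 19716554054) (nat_lit 152) (nat_lit 19716554054) (nat_lit 215) (nat_lit 1) (nat_lit 212) (nat_lit 1) (nat_lit 214) (nat_lit 1) (nat_lit 240) (nat_lit 413) (nat_lit 367)))) (XT.nd (nat_lit 78) (nat_lit 304) (nat_lit 0) (XT.lf (nat_lit 76) (nat_lit 528558519) (nat_lit 0) (nat_lit 53492300293) (nat_lit 228) (nat_lit 528558519) (nat_lit 213) (nat_lit 1) (nat_lit 212) (nat_lit 1) (nat_lit 215) (nat_lit 1) (nat_lit 241) (nat_lit 413) (nat_lit 366)) (XT.nd (nat_lit 78) (nat_lit 152) (nat_lit 0) (XT.lf (nat_lit 76) (nat_lit 19957507875) (nat_lit 0) (nat_lit 13662954114) (nat_lit 152) (nat_lit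 19957507875) (nat_lit 211) (nat_lit 1) (nat_lit 210) (nat_lit 1) (nat_lit 212) (nat_lit 1) (nat_lit 242) (nat_lit 413) (nat_lit 365)) (XT.lf (nat_lit 228) (nat_lit 24764995258) (nat_lit 0) (nat_lit 13937853774) (nat_lit 152) (nat_lit 13937853774) (nat_lit 211) (nat_lit 1) (nat_lit 208) (nat_lit 1) (nat_lit 210) (nat_lit 1) (nat_lit 243) (nat_lit 413) (nat_lit 364))))) (XT.nd (nat_lit 234) (nat_lit 304) (nat_lit 0) (XT.nd (nat_lit 78) (nat_lit 304) (nat_lit 0) (XT.lf (nat_lit 76) (nat_lit 4965210392) (nat_lit 0) (nat_lit 41798314180) (nat_lit 228) (nat_lit 4965210392) (nat_lit 209) (nat_lit 1) (nat_lit 208) (nat_lit 1) (nat_lit 211) (nat_lit 1) (nat_lit 244) (nat_lit 413) (nat_lit 363)) (XT.nd (nat_lit 78) (nat_lit 152) (nat_lit 0) (XT.lf (nat_lit 76) (nat_lit 23054153827) (nat_lit 0) (nat_lit 4715980137) (nat_lit 152) (nat_lit 23054153827) (nat_lit 207) (nat_lit 1) (nat_lit 206) (nat_lit 1) (nat_lit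 208) (nat_lit 1) (nat_lit 245) (nat_lit 413) (nat_lit 362)) (XT.lf (nat_lit 228) (nat_lit 31359562058) (nat_lit 0) (nat_lit 9292417230) (nat_lit 152) (nat_lit 9292417230) (nat_lit 207) (nat_lit 1) (nat_lit 204) (nat_lit 1) (nat_lit 206) (nat_lit 1) (nat_lit 246) (nat_lit 413) (nat_lit 361)))) (XT.nd (nat_lit 78) (nat_lit 304) (nat_lit 0) (XT.lf (nat_lit 76) (nat_lit 8399523249) (nat_lit 0) (nat_lit 32282877800) (nat_lit 228) (nat_lit 8399523249) (nat_lit 205) (nat_lit 1) (nat_lit 204) (nat_lit 1) (nat_lit 207) (nat_lit 1) (nat_lit 247) (nat_lit 413) (nat_lit 360)) (XT.nd (nat_lit 78) (nat_lit 228) (nat_lit 0) (XT.lf (nat_lit 152) (nat_lit 2411197245) (nat_lit 0) (nat_lit 22912265050) (nat_lit 76) (nat_lit 22912265050) (nat_lit 205) (nat_lit 1) (nat_lit 203) (nat_lit 1) (nat_lit 204) (nat_lit 1) (nat_lit 248) (nat_lit 413) (nat_lit 359)) (XT.lf (nat_lit 228) (nat_lit 36261817095) (nat_lit 0) (nat_lit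 5574142688) (nat_lit 152) (nat_lit 5574142688) (nat_lit 203) (nat_lit 1) (nat_lit 200) (nat_lit 1) (nat_lit 202) (nat_lit 1) (nat_lit 249) (nat_lit 413) (nat_lit 358)))))) (XT.nd (nat_lit 468) (nat_lit 456) (nat_lit 0) (XT.nd (nat_lit 234) (nat_lit 304) (nat_lit 0) (XT.nd (nat_lit 78) (nat_lit 304) (nat_lit 0) (XT.lf (nat_lit 76) (nat_lit 11019482251) (nat_lit 0) (nat_lit 24554728490) (nat_lit 228) (nat_lit 11019482251) (nat_lit 201) (nat_lit 1) (nat_lit 200) (nat_lit 1) (nat_lit 203) (nat_lit 1) (nat_lit 250) (nat_lit 413) (nat_lit 357)) (XT.nd (nat_lit 78) (nat_lit 228) (nat_lit 0) (XT.lf (nat_lit 152) (nat_lit 8097346597) (nat_lit 0) (nat_lit 18849977160) (nat_lit 76) (nat_lit 18849977160) (nat_lit 201) (nat_lit 1) (nat_lit 199) (nat_lit 1) (nat_lit 200) (nat_lit 1) (nat_lit 251) (nat_lit 413) (nat_lit 356)) (XT.lf (nat_lit 228) (nat_lit 39796713124) (nat_lit 0) (nat_lit 2613716256) (nat_lit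 152) (nat_lit 2613716256) (nat_lit 199) (nat_lit 1) (nat_lit 196) (nat_lit 1) (nat_lit 198) (nat_lit 1) (nat_lit 252) (nat_lit 413) (nat_lit 355)))) (XT.nd (nat_lit 78) (nat_lit 304) (nat_lit 0) (XT.lf (nat_lit 76) (nat_lit 12979254069) (nat_lit 0) (nat_lit 18292212116) (nat_lit 228) (nat_lit 12979254069) (nat_lit 197) (nat_lit 1) (nat_lit 196) (nat_lit 1) (nat_lit 199) (nat_lit 1) (nat_lit 253) (nat_lit 413) (nat_lit 354)) (XT.nd (nat_lit 78) (nat_lit 228) (nat_lit 0) (XT.lf (nat_lit 152) (nat_lit 12484229615) (nat_lit 0) (nat_lit 15507922859) (nat_lit 76) (nat_lit 15507922859) (nat_lit 197) (nat_lit 1) (nat_lit 195) (nat_lit 1) (nat_lit 196) (nat_lit 1) (nat_lit 254) (nat_lit 413) (nat_lit 353)) (XT.lf (nat_lit 228) (nat_lit 42230403384) (nat_lit 0) (nat_lit 272077758) (nat_lit 152) (nat_lit 272077758) (nat_lit 195) (nat_lit 1) (nat_lit 192) (nat_lit 1) (nat_lit 194) (nat_lit 1) (nat_lit 255)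 (nat_lit 413) (nat_lit 352))))) (XT.nd (nat_lit 234) (nat_lit 380) (nat_lit 0) (XT.nd (nat_lit 78) (nat_lit 76) (nat_lit 0) (XT.lf (nat_lit 76) (nat_lit 14405206110) (nat_lit 0) (nat_lit 13230930291) (nat_lit 228) (nat_lit 14405206110) (nat_lit 193) (nat_lit 1) (nat_lit 192) (nat_lit 1) (nat_lit 195) (nat_lit 1) (nat_lit 256) (nat_lit 413) (nat_lit 351)) (XT.nd (nat_lit 78) (nat_lit 0) (nat_lit 0) (XT.lf (nat_lit 152) (nat_lit 15816066153) (nat_lit 0) (nat_lit 12758406515) (nat_lit 76) (nat_lit 12758406515) (nat_lit 193) (nat_lit 1) (nat_lit 191) (nat_lit 1) (nat_lit 192) (nat_lit 1) (nat_lit 257) (nat_lit 413) (nat_lit 350)) (XT.lf (nat_lit 0) (nat_lit 1590609348) (nat_lit 0) (nat_lit 37464586852) (nat_lit 152) (nat_lit 1590609348) (nat_lit 191) (nat_lit 3) (nat_lit 191) (nat_lit 1) (nat_lit 193) (nat_lit 1) (nat_lit 258) (nat_lit 413) (nat_lit 349)))) (XT.nd (nat_lit 156) (nat_lit 152) (nat_lit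 0) (XT.nd (nat_lit 78) (nat_lit 76) (nat_lit 0) (XT.lf (nat_lit 76) (nat_lit 15400857446) (nat_lit 0) (nat_lit 9153578250) (nat_lit 152) (nat_lit 15400857446) (nat_lit 190) (nat_lit 1) (nat_lit 189) (nat_lit 1) (nat_lit 191) (nat_lit 1) (nat_lit 259) (nat_lit 413) (nat_lit 348)) (XT.lf (nat_lit 152) (nat_lit 18293116339) (nat_lit 0) (nat_lit 10496372614) (nat_lit 76) (nat_lit 10496372614) (nat_lit 190) (nat_lit 1) (nat_lit 188) (nat_lit 1) (nat_lit 189) (nat_lit 1) (nat_lit 260) (nat_lit 413) (nat_lit 347))) (XT.nd (nat_lit 78) (nat_lit 152) (nat_lit 0) (XT.lf (nat_lit 0) (nat_lit 3040139091) (nat_lit 0) (nat_lit 32553749164) (nat_lit 152) (nat_lit 3040139091) (nat_lit 188) (nat_lit 3) (nat_lit 188) (nat_lit 1) (nat_lit 190) (nat_lit 1) (nat_lit 261) (nat_lit 413) (nat_lit 346)) (XT.lf (nat_lit 76) (nat_lit 16050950897) (nat_lit 0) (nat_lit 5881584961) (nat_lit 152) (nat_lit 16050950897) (nat_lit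 187) (nat_lit 1) (nat_lit 186) (nat_lit 1) (nat_lit 188) (nat_lit 1) (nat_lit 262) (nat_lit 413) (nat_lit 345))))))) (XT.nd (nat_lit 1014) (nat_lit 912) (nat_lit 0) (XT.nd (nat_lit 468) (nat_lit 532) (nat_lit 0) (XT.nd (nat_lit 234) (nat_lit 228) (nat_lit 0) (XT.nd (nat_lit 78) (nat_lit 152) (nat_lit 0) (XT.lf (nat_lit 152) (nat_lit 20079505964) (nat_lit 0) (nat_lit 8635391726) (nat_lit 76) (nat_lit 8635391726) (nat_lit 187) (nat_lit 1) (nat_lit 185) (nat_lit 1) (nat_lit 186) (nat_lit 1) (nat_lit 263) (nat_lit 413) (nat_lit 344)) (XT.nd (nat_lit 78) (nat_lit 152) (nat_lit 0) (XT.lf (nat_lit 0) (nat_lit 4150216472) (nat_lit 0) (nat_lit 28431136519) (nat_lit 152) (nat_lit 4150216472) (nat_lit 185) (nat_lit 3) (nat_lit 185) (nat_lit 1) (nat_lit 187) (nat_lit 1) (nat_lit 264) (nat_lit 413) (nat_lit 343)) (XT.lf (nat_lit 76) (nat_lit 16424802132) (nat_lit 0) (nat_lit 3268235915) (nat_lit 152) (nat_lit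 16424802132) (nat_lit 184) (nat_lit 1) (nat_lit 183) (nat_lit 1) (nat_lit 185) (nat_lit 1) (nat_lit 265) (nat_lit 413) (nat_lit 342)))) (XT.nd (nat_lit 78) (nat_lit 152) (nat_lit 0) (XT.lf (nat_lit 152) (nat_lit 21309662944) (nat_lit 0) (nat_lit 7104358144) (nat_lit 76) (nat_lit 7104358144) (nat_lit 184) (nat_lit 1) (nat_lit 182) (nat_lit 1) (nat_lit 183) (nat_lit 1) (nat_lit 266) (nat_lit 413) (nat_lit 341)) (XT.nd (nat_lit 78) (nat_lit 152) (nat_lit 0) (XT.lf (nat_lit 0) (nat_lit 4984951951) (nat_lit 0) (nat_lit 24960924964) (nat_lit 152) (nat_lit 4984951951) (nat_lit 182) (nat_lit 3) (nat_lit 182) (nat_lit 1) (nat_lit 184) (nat_lit 1) (nat_lit 267) (nat_lit 413) (nat_lit 340)) (XT.lf (nat_lit 76) (nat_lit 16579054035) (nat_lit 0) (nat_lit 1193015691) (nat_lit 152) (nat_lit 16579054035) (nat_lit 181) (nat_lit 1) (nat_lit 180) (nat_lit 1) (nat_lit 182) (nat_lit 1) (nat_lit 268) (nat_lit 413) (nat_lit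 339))))) (XT.nd (nat_lit 234) (nat_lit 380) (nat_lit 0) (XT.nd (nat_lit 78) (nat_lit 76) (nat_lit 0) (XT.lf (nat_lit 152) (nat_lit 22093611198) (nat_lit 0) (nat_lit 5844773026) (nat_lit 76) (nat_lit 5844773026) (nat_lit 181) (nat_lit 1) (nat_lit 179) (nat_lit 1) (nat_lit 180) (nat_lit 1) (nat_lit 269) (nat_lit 413) (nat_lit 338)) (XT.nd (nat_lit 78) (nat_lit 76) (nat_lit 0) (XT.lf (nat_lit 0) (nat_lit 5596902391) (nat_lit 0) (nat_lit 22031184825) (nat_lit 152) (nat_lit 5596902391) (nat_lit 179) (nat_lit 3) (nat_lit 179) (nat_lit 1) (nat_lit 181) (nat_lit 1) (nat_lit 270) (nat_lit 413) (nat_lit 337)) (XT.lf (nat_lit 76) (nat_lit 457695076) (nat_lit 0) (nat_lit 16109392632) (nat_lit 76) (nat_lit 16109392632) (nat_lit 179) (nat_lit 3) (nat_lit 178) (nat_lit 1) (nat_lit 179) (nat_lit 1) (nat_lit 271) (nat_lit 413) (nat_lit 336)))) (XT.nd (nat_lit 156) (nat_lit 228) (nat_lit 0) (XT.nd (nat_lit 78) (nat_lit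 0) (nat_lit 0) (XT.lf (nat_lit 152) (nat_lit 22521324569) (nat_lit 0) (nat_lit 4808509233) (nat_lit 76) (nat_lit 4808509233) (nat_lit 178) (nat_lit 1) (nat_lit 176) (nat_lit 1) (nat_lit 177) (nat_lit 1) (nat_lit 272) (nat_lit 413) (nat_lit 335)) (XT.lf (nat_lit 0) (nat_lit 6029128385) (nat_lit 0) (nat_lit 19549653215) (nat_lit 152) (nat_lit 6029128385) (nat_lit 176) (nat_lit 3) (nat_lit 176) (nat_lit 1) (nat_lit 178) (nat_lit 1) (nat_lit 273) (nat_lit 413) (nat_lit 334))) (XT.nd (nat_lit 78) (nat_lit 152) (nat_lit 0) (XT.lf (nat_lit 76) (nat_lit 1778113310) (nat_lit 0) (nat_lit 14654803624) (nat_lit 76) (nat_lit 14654803624) (nat_lit 176) (nat_lit 3) (nat_lit 175) (nat_lit 1) (nat_lit 176) (nat_lit 1) (nat_lit 274) (nat_lit 413) (nat_lit 333)) (XT.lf (nat_lit 152) (nat_lit 22666307515) (nat_lit 0) (nat_lit 3955972446) (nat_lit 76) (nat_lit 3955972446) (nat_lit 175) (nat_lit 1) (nat_lit 173) (nat_lit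 1) (nat_lit 174) (nat_lit 1) (nat_lit 275) (nat_lit 413) (nat_lit 332)))))) (XT.nd (nat_lit 468) (nat_lit 456) (nat_lit 0) (XT.nd (nat_lit 234) (nat_lit 228) (nat_lit 0) (XT.nd (nat_lit 78) (nat_lit 228) (nat_lit 0) (XT.lf (nat_lit 0) (nat_lit 6316886403) (nat_lit 0) (nat_lit 17440255641) (nat_lit 152) (nat_lit 6316886403) (nat_lit 173) (nat_lit 3) (nat_lit 173) (nat_lit 1) (nat_lit 175) (nat_lit 1) (nat_lit 276) (nat_lit 413) (nat_lit 331)) (XT.nd (nat_lit 78) (nat_lit 152) (nat_lit 0) (XT.lf (nat_lit 76) (nat_lit 2797683400) (nat_lit 0) (nat_lit 13391368389) (nat_lit 76) (nat_lit 13391368389) (nat_lit 173) (nat_lit 3) (nat_lit 172) (nat_lit 1) (nat_lit 173) (nat_lit 1) (nat_lit 277) (nat_lit 413) (nat_lit 330)) (XT.lf (nat_lit 152) (nat_lit 22588539722) (nat_lit 0) (nat_lit 3254588322) (nat_lit 76) (nat_lit 3254588322) (nat_lit 172) (nat_lit 1) (nat_lit 170) (nat_lit 1) (nat_lit 171) (nat_lit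 1) (nat_lit 278) (nat_lit 413) (nat_lit 329)))) (XT.nd (nat_lit 78) (nat_lit 228) (nat_lit 0) (XT.lf (nat_lit 0) (nat_lit 6489020514) (nat_lit 0) (nat_lit 15640243914) (nat_lit 152) (nat_lit 6489020514) (nat_lit 170) (nat_lit 3) (nat_lit 170) (nat_lit 1) (nat_lit 172) (nat_lit 1) (nat_lit 279) (nat_lit 413) (nat_lit 328)) (XT.nd (nat_lit 78) (nat_lit 152) (nat_lit 0) (XT.lf (nat_lit 76) (nat_lit 3572923133) (nat_lit 0) (nat_lit 12288373990) (nat_lit 76) (nat_lit 12288373990) (nat_lit 170) (nat_lit 3) (nat_lit 169) (nat_lit 1) (nat_lit 170) (nat_lit 1) (nat_lit 280) (nat_lit 413) (nat_lit 327)) (XT.lf (nat_lit 152) (nat_lit 22336897469) (nat_lit 0) (nat_lit 2677557867) (nat_lit 76) (nat_lit 2677557867) (nat_lit 169) (nat_lit 1) (nat_lit 167) (nat_lit 1) (nat_lit 168) (nat_lit 1) (nat_lit 281) (nat_lit 413) (nat_lit 326))))) (XT.nd (nat_lit 234) (nat_lit 228) (nat_lit 0) (XT.nd (nat_lit 78) (nat_lit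 228) (nat_lit 0) (XT.lf (nat_lit 0) (nat_lit 6569106986) (nat_lit 0) (nat_lit 14097841125) (nat_lit 152) (nat_lit 6569106986) (nat_lit 167) (nat_lit 3) (nat_lit 167) (nat_lit 1) (nat_lit 169) (nat_lit 1) (nat_lit 282) (nat_lit 413) (nat_lit 325)) (XT.nd (nat_lit 78) (nat_lit 152) (nat_lit 0) (XT.lf (nat_lit 76) (nat_lit 4150178490) (nat_lit 0) (nat_lit 11320401479) (nat_lit 76) (nat_lit 11320401479) (nat_lit 167) (nat_lit 3) (nat_lit 166) (nat_lit 1) (nat_lit 167) (nat_lit 1) (nat_lit 283) (nat_lit 413) (nat_lit 324)) (XT.lf (nat_lit 152) (nat_lit 21951144577) (nat_lit 0) (nat_lit 2202833483) (nat_lit 76) (nat_lit 2202833483) (nat_lit 166) (nat_lit 1) (nat_lit 164) (nat_lit 1) (nat_lit 165) (nat_lit 1) (nat_lit 284) (nat_lit 413) (nat_lit 323)))) (XT.nd (nat_lit 156) (nat_lit 152) (nat_lit 0) (XT.nd (nat_lit 78) (nat_lit 76) (nat_lit 0) (XT.lf (nat_lit 0) (nat_lit 6576395575) (nat_lit 0) (nat_lit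 12770303783) (nat_lit 152) (nat_lit 6576395575) (nat_lit 164) (nat_lit 3) (nat_lit 164) (nat_lit 1) (nat_lit 166) (nat_lit 1) (nat_lit 285) (nat_lit 413) (nat_lit 322)) (XT.lf (nat_lit 76) (nat_lit 4567434292) (nat_lit 0) (nat_lit 10466394490) (nat_lit 76) (nat_lit 10466394490) (nat_lit 164) (nat_lit 3) (nat_lit 163) (nat_lit 1) (nat_lit 164) (nat_lit 1) (nat_lit 286) (nat_lit 413) (nat_lit 321))) (XT.nd (nat_lit 78) (nat_lit 0) (nat_lit 0) (XT.lf (nat_lit 152) (nat_lit 21463569302) (nat_lit 0) (nat_lit 1812276558) (nat_lit 76) (nat_lit 1812276558) (nat_lit 163) (nat_lit 1) (nat_lit 161) (nat_lit 1) (nat_lit 162) (nat_lit 1) (nat_lit 287) (nat_lit 413) (nat_lit 320)) (XT.lf (nat_lit 0) (nat_lit 6526583581) (nat_lit 0) (nat_lit 11622327193) (nat_lit 152) (nat_lit 6526583581) (nat_lit 161) (nat_lit 3) (nat_lit 161) (nat_lit 1) (nat_lit 163) (nat_lit 1) (nat_lit 288) (nat_lit 413) (nat_lit 319))))))))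
noncomputable def ec318 : XT := (XT.nd (nat_lit 1950) (nat_lit 1976) (nat_lit 0) (XT.nd (nat_lit 936) (nat_lit 988) (nat_lit 0) (XT.nd (nat_lit 468) (nat_lit 456) (nat_lit 0) (XT.nd (nat_lit 234) (nat_lit 228) (nat_lit 0) (XT.nd (nat_lit 78) (nat_lit 152) (nat_lit 0) (XT.lf (nat_lit 76) (nat_lit 4855803474) (nat_lit 0) (nat_lit 9708892627) (nat_lit 76) (nat_lit 9708892627) (nat_lit 161) (nat_lit 3) (nat_lit 160) (nat_lit 1) (nat_lit 161) (nat_lit 1) (nat_lit 289) (nat_lit 413) (nat_lit 318)) (XT.nd (nat_lit 78) (nat_lit 0) (nat_lit 0) (XT.lf (nat_lit 152) (nat_lit 20900329995) (nat_lit 0) (nat_lit 1490964409) (nat_lit 76) (nat_lit 1490964409) (nat_lit 160) (nat_lit 1) (nat_lit 158) (nat_lit 1) (nat_lit 159) (nat_lit 1) (nat_lit 290) (nat_lit 413) (nat_lit 317)) (XT.lf (nat_lit 0) (nat_lit 6432452337) (nat_lit 0) (nat_lit 10624733217) (nat_lit 152) (nat_lit 6432452337) (nat_lit 158) (nat_lit 3)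 (nat_lit 158) (nat_lit 1) (nat_lit 160) (nat_lit 1) (nat_lit 291) (nat_lit 413) (nat_lit 316)))) (XT.nd (nat_lit 78) (nat_lit 152) (nat_lit 0) (XT.lf (nat_lit 76) (nat_lit 5040751991) (nat_lit 0) (nat_lit 9033400448) (nat_lit 76) (nat_lit 9033400448) (nat_lit 158) (nat_lit 3) (nat_lit 157) (nat_lit 1) (nat_lit 158) (nat_lit 1) (nat_lit 292) (nat_lit 413) (nat_lit 315)) (XT.nd (nat_lit 78) (nat_lit 0) (nat_lit 0) (XT.lf (nat_lit 152) (nat_lit 20282561223) (nat_lit 0) (nat_lit 1226620109) (nat_lit 76) (nat_lit 1226620109) (nat_lit 157) (nat_lit 1) (nat_lit 155) (nat_lit 1) (nat_lit 156) (nat_lit 1) (nat_lit 293) (nat_lit 413) (nat_lit 314)) (XT.lf (nat_lit 0) (nat_lit 6304390526) (nat_lit 0) (nat_lit 9753390381) (nat_lit 152) (nat_lit 6304390526) (nat_lit 155) (nat_lit 3) (nat_lit 155) (nat_lit 1) (nat_lit 157) (nat_lit 1) (nat_lit 294) (nat_lit 413) (nat_lit 313))))) (XT.nd (nat_lit 234) (nat_lit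 228) (nat_lit 0) (XT.nd (nat_lit 78) (nat_lit 152) (nat_lit 0) (XT.lf (nat_lit 76) (nat_lit 5143106238) (nat_lit 0) (nat_lit 8427868005) (nat_lit 76) (nat_lit 8427868005) (nat_lit 155) (nat_lit 3) (nat_lit 154) (nat_lit 1) (nat_lit 155) (nat_lit 1) (nat_lit 295) (nat_lit 413) (nat_lit 312)) (XT.nd (nat_lit 78) (nat_lit 0) (nat_lit 0) (XT.lf (nat_lit 152) (nat_lit 19627282849) (nat_lit 0) (nat_lit 1009143399) (nat_lit 76) (nat_lit 1009143399) (nat_lit 154) (nat_lit 1) (nat_lit 152) (nat_lit 1) (nat_lit 153) (nat_lit 1) (nat_lit 296) (nat_lit 413) (nat_lit 311)) (XT.lf (nat_lit 0) (nat_lit 6150824421) (nat_lit 0) (nat_lit 8988325137) (nat_lit 152) (nat_lit 6150824421) (nat_lit 152) (nat_lit 3) (nat_lit 152) (nat_lit 1) (nat_lit 154) (nat_lit 1) (nat_lit 297) (nat_lit 413) (nat_lit 310)))) (XT.nd (nat_lit 78) (nat_lit 152) (nat_lit 0) (XT.lf (nat_lit 76) (nat_lit 5179881564) (nat_lit 0) (nat_lit 7882263199)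 (nat_lit 76) (nat_lit 7882263199) (nat_lit 152) (nat_lit 3) (nat_lit 151) (nat_lit 1) (nat_lit 152) (nat_lit 1) (nat_lit 298) (nat_lit 413) (nat_lit 309)) (XT.nd (nat_lit 78) (nat_lit 0) (nat_lit 0) (XT.lf (nat_lit 152) (nat_lit 18948147064) (nat_lit 0) (nat_lit 830224772) (nat_lit 76) (nat_lit 830224772) (nat_lit 151) (nat_lit 1) (nat_lit 149) (nat_lit 1) (nat_lit 150) (nat_lit 1) (nat_lit 299) (nat_lit 413) (nat_lit 308)) (XT.lf (nat_lit 0) (nat_lit 5978571552) (nat_lit 0) (nat_lit 8312990414) (nat_lit 152) (nat_lit 5978571552) (nat_lit 149) (nat_lit 3) (nat_lit 149) (nat_lit 1) (nat_lit 151) (nat_lit 1) (nat_lit 300) (nat_lit 413) (nat_lit 307)))))) (XT.nd (nat_lit 468) (nat_lit 532) (nat_lit 0) (XT.nd (nat_lit 234) (nat_lit 228) (nat_lit 0) (XT.nd (nat_lit 78) (nat_lit 152) (nat_lit 0) (XT.lf (nat_lit 76) (nat_lit 5164963605) (nat_lit 0) (nat_lit 7388219663) (nat_lit 76) (nat_lit 7388219663)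 (nat_lit 149) (nat_lit 3) (nat_lit 148) (nat_lit 1) (nat_lit 149) (nat_lit 1) (nat_lit 301) (nat_lit 413) (nat_lit 306)) (XT.nd (nat_lit 78) (nat_lit 0) (nat_lit 0) (XT.lf (nat_lit 152) (nat_lit 18256052141) (nat_lit 0) (nat_lit 683027974) (nat_lit 76) (nat_lit 683027974) (nat_lit 148) (nat_lit 1) (nat_lit 146) (nat_lit 1) (nat_lit 147) (nat_lit 1) (nat_lit 302) (nat_lit 413) (nat_lit 305)) (XT.lf (nat_lit 0) (nat_lit 5793131401) (nat_lit 0) (nat_lit 7713663576) (nat_lit 152) (nat_lit 5793131401) (nat_lit 146) (nat_lit 3) (nat_lit 146) (nat_lit 1) (nat_lit 148) (nat_lit 1) (nat_lit 303) (nat_lit 413) (nat_lit 304)))) (XT.nd (nat_lit 78) (nat_lit 152) (nat_lit 0) (XT.lf (nat_lit 76) (nat_lit 5109668552) (nat_lit 0) (nat_lit 6938746814) (nat_lit 76) (nat_lit 6938746814) (nat_lit 146) (nat_lit 3) (nat_lit 145) (nat_lit 1) (nat_lit 146) (nat_lit 1) (nat_lit 304) (nat_lit 413) (nat_lit 303)) (XT.nd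 (nat_lit 78) (nat_lit 0) (nat_lit 0) (XT.lf (nat_lit 152) (nat_lit 17559646569) (nat_lit 0) (nat_lit 561928805) (nat_lit 76) (nat_lit 561928805) (nat_lit 145) (nat_lit 1) (nat_lit 143) (nat_lit 1) (nat_lit 144) (nat_lit 1) (nat_lit 305) (nat_lit 413) (nat_lit 302)) (XT.lf (nat_lit 0) (nat_lit 5598924292) (nat_lit 0) (nat_lit 7178950865) (nat_lit 152) (nat_lit 5598924292) (nat_lit 143) (nat_lit 3) (nat_lit 143) (nat_lit 1) (nat_lit 145) (nat_lit 1) (nat_lit 306) (nat_lit 413) (nat_lit 301))))) (XT.nd (nat_lit 234) (nat_lit 304) (nat_lit 0) (XT.nd (nat_lit 78) (nat_lit 152) (nat_lit 0) (XT.lf (nat_lit 76) (nat_lit 5023203832) (nat_lit 0) (nat_lit 6527991044) (nat_lit 76) (nat_lit 6527991044) (nat_lit 143) (nat_lit 3) (nat_lit 142) (nat_lit 1) (nat_lit 143) (nat_lit 1) (nat_lit 307) (nat_lit 413) (nat_lit 300)) (XT.nd (nat_lit 78) (nat_lit 0) (nat_lit 0) (XT.lf (nat_lit 152) (nat_lit 16865743064)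 (nat_lit 0) (nat_lit 462300218) (nat_lit 76) (nat_lit 462300218) (nat_lit 142) (nat_lit 1) (nat_lit 140) (nat_lit 1) (nat_lit 141) (nat_lit 1) (nat_lit 308) (nat_lit 413) (nat_lit 299)) (XT.lf (nat_lit 0) (nat_lit 5399487683) (nat_lit 0) (nat_lit 6699379455) (nat_lit 152) (nat_lit 5399487683) (nat_lit 140) (nat_lit 3) (nat_lit 140) (nat_lit 1) (nat_lit 142) (nat_lit 1) (nat_lit 309) (nat_lit 413) (nat_lit 298)))) (XT.nd (nat_lit 156) (nat_lit 76) (nat_lit 0) (XT.nd (nat_lit 78) (nat_lit 152) (nat_lit 0) (XT.lf (nat_lit 76) (nat_lit 4913046861) (nat_lit 0) (nat_lit 6151039025) (nat_lit 76) (nat_lit 6151039025) (nat_lit 140) (nat_lit 3) (nat_lit 139) (nat_lit 1) (nat_lit 140) (nat_lit 1) (nat_lit 310) (nat_lit 413) (nat_lit 297)) (XT.lf (nat_lit 152) (nat_lit 16179658438) (nat_lit 0) (nat_lit 380335534) (nat_lit 76) (nat_lit 380335534) (nat_lit 139) (nat_lit 1) (nat_lit 137) (nat_lit 1) (nat_lit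 138) (nat_lit 1) (nat_lit 311) (nat_lit 413) (nat_lit 296))) (XT.nd (nat_lit 78) (nat_lit 76) (nat_lit 0) (XT.lf (nat_lit 0) (nat_lit 5197637414) (nat_lit 0) (nat_lit 6267061591) (nat_lit 152) (nat_lit 5197637414) (nat_lit 137) (nat_lit 3) (nat_lit 137) (nat_lit 1) (nat_lit 139) (nat_lit 1) (nat_lit 312) (nat_lit 413) (nat_lit 295)) (XT.lf (nat_lit 76) (nat_lit 4785256418) (nat_lit 0) (nat_lit 5803755635) (nat_lit 76) (nat_lit 5803755635) (nat_lit 137) (nat_lit 3) (nat_lit 136) (nat_lit 1) (nat_lit 137) (nat_lit 1) (nat_lit 313) (nat_lit 413) (nat_lit 294))))))) (XT.nd (nat_lit 936) (nat_lit 1064) (nat_lit 0) (XT.nd (nat_lit 468) (nat_lit 456) (nat_lit 0) (XT.nd (nat_lit 234) (nat_lit 228) (nat_lit 0) (XT.nd (nat_lit 78) (nat_lit 76) (nat_lit 0) (XT.lf (nat_lit 152) (nat_lit 15505492544) (nat_lit 0) (nat_lit 312902985) (nat_lit 76) (nat_lit 312902985) (nat_lit 136) (nat_lit 1) (nat_lit 134) (nat_lit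 1) (nat_lit 135) (nat_lit 1) (nat_lit 314) (nat_lit 413) (nat_lit 293)) (XT.nd (nat_lit 78) (nat_lit 76) (nat_lit 0) (XT.lf (nat_lit 0) (nat_lit 4995600149) (nat_lit 0) (nat_lit 5875418066) (nat_lit 152) (nat_lit 4995600149) (nat_lit 134) (nat_lit 3) (nat_lit 134) (nat_lit 1) (nat_lit 136) (nat_lit 1) (nat_lit 315) (nat_lit 413) (nat_lit 292)) (XT.lf (nat_lit 76) (nat_lit 4644728589) (nat_lit 0) (nat_lit 5482650416) (nat_lit 76) (nat_lit 5482650416) (nat_lit 134) (nat_lit 3) (nat_lit 133) (nat_lit 1) (nat_lit 134) (nat_lit 1) (nat_lit 316) (nat_lit 413) (nat_lit 291)))) (XT.nd (nat_lit 78) (nat_lit 76) (nat_lit 0) (XT.lf (nat_lit 152) (nat_lit 14846357094) (nat_lit 0) (nat_lit 257426060) (nat_lit 76) (nat_lit 257426060) (nat_lit 133) (nat_lit 1) (nat_lit 131) (nat_lit 1) (nat_lit 132) (nat_lit 1) (nat_lit 317) (nat_lit 413) (nat_lit 290)) (XT.nd (nat_lit 78) (nat_lit 76) (nat_lit 0) (XT.lf (nat_lit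 0) (nat_lit 4795122115) (nat_lit 0) (nat_lit 5518950493) (nat_lit 152) (nat_lit 4795122115) (nat_lit 131) (nat_lit 3) (nat_lit 131) (nat_lit 1) (nat_lit 133) (nat_lit 1) (nat_lit 318) (nat_lit 413) (nat_lit 289)) (XT.lf (nat_lit 76) (nat_lit 4495407126) (nat_lit 0) (nat_lit 5184767486) (nat_lit 76) (nat_lit 5184767486) (nat_lit 131) (nat_lit 3) (nat_lit 130) (nat_lit 1) (nat_lit 131) (nat_lit 1) (nat_lit 319) (nat_lit 413) (nat_lit 288))))) (XT.nd (nat_lit 234) (nat_lit 228) (nat_lit 0) (XT.nd (nat_lit 78) (nat_lit 76) (nat_lit 0) (XT.lf (nat_lit 152) (nat_lit 14204563299) (nat_lit 0) (nat_lit 211785056) (nat_lit 76) (nat_lit 211785056) (nat_lit 130) (nat_lit 1) (nat_lit 128) (nat_lit 1) (nat_lit 129) (nat_lit 1) (nat_lit 320) (nat_lit 413) (nat_lit 287)) (XT.nd (nat_lit 78) (nat_lit 76) (nat_lit 0) (XT.lf (nat_lit 0) (nat_lit 4597558364) (nat_lit 0) (nat_lit 5193053762) (nat_lit 152) (nat_lit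 4597558364) (nat_lit 128) (nat_lit 3) (nat_lit 128) (nat_lit 1) (nat_lit 130) (nat_lit 1) (nat_lit 321) (nat_lit 413) (nat_lit 286)) (XT.lf (nat_lit 76) (nat_lit 4340456302) (nat_lit 0) (nat_lit 4907594776) (nat_lit 76) (nat_lit 4907594776) (nat_lit 128) (nat_lit 3) (nat_lit 127) (nat_lit 1) (nat_lit 128) (nat_lit 1) (nat_lit 322) (nat_lit 413) (nat_lit 285)))) (XT.nd (nat_lit 78) (nat_lit 76) (nat_lit 0) (XT.lf (nat_lit 152) (nat_lit 13581775643) (nat_lit 0) (nat_lit 174236090) (nat_lit 76) (nat_lit 174236090) (nat_lit 127) (nat_lit 1) (nat_lit 125) (nat_lit 1) (nat_lit 126) (nat_lit 1) (nat_lit 323) (nat_lit 413) (nat_lit 284)) (XT.nd (nat_lit 78) (nat_lit 76) (nat_lit 0) (XT.lf (nat_lit 0) (nat_lit 4403946009) (nat_lit 0) (nat_lit 4893861547) (nat_lit 152) (nat_lit 4403946009) (nat_lit 125) (nat_lit 3) (nat_lit 125) (nat_lit 1) (nat_lit 127) (nat_lit 1) (nat_lit 324) (nat_lit 413) (nat_lit 283))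 (XT.lf (nat_lit 76) (nat_lit 4182402936) (nat_lit 0) (nat_lit 4648989162) (nat_lit 76) (nat_lit 4648989162) (nat_lit 125) (nat_lit 3) (nat_lit 124) (nat_lit 1) (nat_lit 125) (nat_lit 1) (nat_lit 325) (nat_lit 413) (nat_lit 282)))))) (XT.nd (nat_lit 468) (nat_lit 608) (nat_lit 0) (XT.nd (nat_lit 234) (nat_lit 228) (nat_lit 0) (XT.nd (nat_lit 78) (nat_lit 76) (nat_lit 0) (XT.lf (nat_lit 152) (nat_lit 12979137827) (nat_lit 0) (nat_lit 143344462) (nat_lit 76) (nat_lit 143344462) (nat_lit 124) (nat_lit 1) (nat_lit 122) (nat_lit 1) (nat_lit 123) (nat_lit 1) (nat_lit 326) (nat_lit 413) (nat_lit 281)) (XT.nd (nat_lit 78) (nat_lit 76) (nat_lit 0) (XT.lf (nat_lit 0) (nat_lit 4215064295) (nat_lit 0) (nat_lit 4618119020) (nat_lit 152) (nat_lit 4215064295) (nat_lit 122) (nat_lit 3) (nat_lit 122) (nat_lit 1) (nat_lit 124) (nat_lit 1) (nat_lit 327) (nat_lit 413) (nat_lit 280)) (XT.lf (nat_lit 76) (nat_lit 4023253050)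 (nat_lit 0) (nat_lit 4407114693) (nat_lit 76) (nat_lit 4407114693) (nat_lit 122) (nat_lit 3) (nat_lit 121) (nat_lit 1) (nat_lit 122) (nat_lit 1) (nat_lit 328) (nat_lit 413) (nat_lit 279)))) (XT.nd (nat_lit 78) (nat_lit 76) (nat_lit 0) (XT.lf (nat_lit 152) (nat_lit 12397375852) (nat_lit 0) (nat_lit 117929844) (nat_lit 76) (nat_lit 117929844) (nat_lit 121) (nat_lit 1) (nat_lit 119) (nat_lit 1) (nat_lit 120) (nat_lit 1) (nat_lit 329) (nat_lit 413) (nat_lit 278)) (XT.nd (nat_lit 78) (nat_lit 76) (nat_lit 0) (XT.lf (nat_lit 0) (nat_lit 4031483840) (nat_lit 0) (nat_lit 4363077960) (nat_lit 152) (nat_lit 4031483840) (nat_lit 119) (nat_lit 3) (nat_lit 119) (nat_lit 1) (nat_lit 121) (nat_lit 1) (nat_lit 330) (nat_lit 413) (nat_lit 277)) (XT.lf (nat_lit 76) (nat_lit 3864587674) (nat_lit 0) (nat_lit 4180391598) (nat_lit 76) (nat_lit 4180391598) (nat_lit 119) (nat_lit 3) (nat_lit 118) (nat_lit 1) (nat_lit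 119) (nat_lit 1) (nat_lit 331) (nat_lit 413) (nat_lit 276))))) (XT.nd (nat_lit 234) (nat_lit 380) (nat_lit 0) (XT.nd (nat_lit 78) (nat_lit 76) (nat_lit 0) (XT.lf (nat_lit 152) (nat_lit 11836882310) (nat_lit 0) (nat_lit 97021174) (nat_lit 76) (nat_lit 97021174) (nat_lit 118) (nat_lit 1) (nat_lit 116) (nat_lit 1) (nat_lit 117) (nat_lit 1) (nat_lit 332) (nat_lit 413) (nat_lit 275)) (XT.nd (nat_lit 78) (nat_lit 76) (nat_lit 0) (XT.lf (nat_lit 0) (nat_lit 3853606983) (nat_lit 0) (nat_lit 4126410287) (nat_lit 152) (nat_lit 3853606983) (nat_lit 116) (nat_lit 3) (nat_lit 116) (nat_lit 1) (nat_lit 118) (nat_lit 1) (nat_lit 333) (nat_lit 413) (nat_lit 274)) (XT.lf (nat_lit 76) (nat_lit 3707641493) (nat_lit 0) (nat_lit 3967454163) (nat_lit 76) (nat_lit 3967454163) (nat_lit 116) (nat_lit 3) (nat_lit 115) (nat_lit 1) (nat_lit 116) (nat_lit 1) (nat_lit 334) (nat_lit 413) (nat_lit 273)))) (XT.nd (nat_lit 156)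 (nat_lit 228) (nat_lit 0) (XT.nd (nat_lit 78) (nat_lit 0) (nat_lit 0) (XT.lf (nat_lit 152) (nat_lit 11297785242) (nat_lit 0) (nat_lit 79819560) (nat_lit 76) (nat_lit 79819560) (nat_lit 115) (nat_lit 1) (nat_lit 113) (nat_lit 1) (nat_lit 114) (nat_lit 1) (nat_lit 335) (nat_lit 413) (nat_lit 272)) (XT.lf (nat_lit 0) (nat_lit 3681700813) (nat_lit 0) (nat_lit 3906136765) (nat_lit 152) (nat_lit 3681700813) (nat_lit 113) (nat_lit 3) (nat_lit 113) (nat_lit 1) (nat_lit 115) (nat_lit 1) (nat_lit 336) (nat_lit 413) (nat_lit 271))) (XT.nd (nat_lit 78) (nat_lit 152) (nat_lit 0) (XT.lf (nat_lit 76) (nat_lit 3553367404) (nat_lit 0) (nat_lit 3767115930) (nat_lit 76) (nat_lit 3767115930) (nat_lit 113) (nat_lit 3) (nat_lit 112) (nat_lit 1) (nat_lit 113) (nat_lit 1) (nat_lit 337) (nat_lit 413) (nat_lit 270)) (XT.lf (nat_lit 152) (nat_lit 10780004328) (nat_lit 0) (nat_lit 65667750) (nat_lit 76) (nat_lit 65667750)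 (nat_lit 112) (nat_lit 1) (nat_lit 110) (nat_lit 1) (nat_lit 111) (nat_lit 1) (nat_lit 338) (nat_lit 413) (nat_lit 269))))))))
noncomputable def ec319 : XT := (XT.nd (nat_lit 1950) (nat_lit 2052) (nat_lit 0) (XT.nd (nat_lit 936) (nat_lit 912) (nat_lit 0) (XT.nd (nat_lit 468) (nat_lit 456) (nat_lit 0) (XT.nd (nat_lit 234) (nat_lit 228) (nat_lit 0) (XT.nd (nat_lit 78) (nat_lit 228) (nat_lit 0) (XT.lf (nat_lit 0) (nat_lit 3515924189) (nat_lit 0) (nat_lit 3700568203) (nat_lit 152) (nat_lit 3515924189) (nat_lit 110) (nat_lit 3) (nat_lit 110) (nat_lit 1) (nat_lit 112) (nat_lit 1) (nat_lit 339) (nat_lit 413) (nat_lit 268)) (XT.nd (nat_lit 78) (nat_lit 152) (nat_lit 0) (XT.lf (nat_lit 76) (nat_lit 3402489463) (nat_lit 0) (nat_lit 3578340905) (nat_lit 76) (nat_lit 3578340905) (nat_lit 110) (nat_lit 3) (nat_lit 109) (nat_lit 1) (nat_lit 110) (nat_lit 1) (nat_lit 340) (nat_lit 413) (nat_lit 267)) (XT.lf (nat_lit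 152) (nat_lit 10283296667) (nat_lit 0) (nat_lit 54025020) (nat_lit 76) (nat_lit 54025020) (nat_lit 109) (nat_lit 1) (nat_lit 107) (nat_lit 1) (nat_lit 108) (nat_lit 1) (nat_lit 341) (nat_lit 413) (nat_lit 266)))) (XT.nd (nat_lit 78) (nat_lit 228) (nat_lit 0) (XT.lf (nat_lit 0) (nat_lit 3356349836) (nat_lit 0) (nat_lit 3508256923) (nat_lit 152) (nat_lit 3356349836) (nat_lit 107) (nat_lit 3) (nat_lit 107) (nat_lit 1) (nat_lit 109) (nat_lit 1) (nat_lit 342) (nat_lit 413) (nat_lit 265)) (XT.nd (nat_lit 78) (nat_lit 152) (nat_lit 0) (XT.lf (nat_lit 76) (nat_lit 3255546317) (nat_lit 0) (nat_lit 3400219733) (nat_lit 76) (nat_lit 3400219733) (nat_lit 107) (nat_lit 3) (nat_lit 106) (nat_lit 1) (nat_lit 107) (nat_lit 1) (nat_lit 343) (nat_lit 413) (nat_lit 264)) (XT.lf (nat_lit 152) (nat_lit 9807294025) (nat_lit 0) (nat_lit 44446518) (nat_lit 76) (nat_lit 44446518) (nat_lit 106) (nat_lit 1) (nat_lit 104)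 (nat_lit 1) (nat_lit 105) (nat_lit 1) (nat_lit 344) (nat_lit 413) (nat_lit 263))))) (XT.nd (nat_lit 234) (nat_lit 228) (nat_lit 0) (XT.nd (nat_lit 78) (nat_lit 228) (nat_lit 0) (XT.lf (nat_lit 0) (nat_lit 3202982368) (nat_lit 0) (nat_lit 3327956704) (nat_lit 152) (nat_lit 3202982368) (nat_lit 104) (nat_lit 3) (nat_lit 104) (nat_lit 1) (nat_lit 106) (nat_lit 1) (nat_lit 345) (nat_lit 413) (nat_lit 262)) (XT.nd (nat_lit 78) (nat_lit 152) (nat_lit 0) (XT.lf (nat_lit 76) (nat_lit 3112926789) (nat_lit 0) (nat_lit 3231949966) (nat_lit 76) (nat_lit 3231949966) (nat_lit 104) (nat_lit 3) (nat_lit 103) (nat_lit 1) (nat_lit 104) (nat_lit 1) (nat_lit 346) (nat_lit 413) (nat_lit 261)) (XT.lf (nat_lit 152) (nat_lit 9351533072) (nat_lit 0) (nat_lit 36566260) (nat_lit 76) (nat_lit 36566260) (nat_lit 103) (nat_lit 1) (nat_lit 101) (nat_lit 1) (nat_lit 102) (nat_lit 1) (nat_lit 347) (nat_lit 413) (nat_lit 260))))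 (XT.nd (nat_lit 78) (nat_lit 228) (nat_lit 0) (XT.lf (nat_lit 0) (nat_lit 3055772999) (nat_lit 0) (nat_lit 3158589694) (nat_lit 152) (nat_lit 3055772999) (nat_lit 101) (nat_lit 3) (nat_lit 101) (nat_lit 1) (nat_lit 103) (nat_lit 1) (nat_lit 348) (nat_lit 413) (nat_lit 259)) (XT.nd (nat_lit 78) (nat_lit 152) (nat_lit 0) (XT.lf (nat_lit 76) (nat_lit 2974899027) (nat_lit 0) (nat_lit 3072819689) (nat_lit 76) (nat_lit 3072819689) (nat_lit 101) (nat_lit 3) (nat_lit 100) (nat_lit 1) (nat_lit 101) (nat_lit 1) (nat_lit 349) (nat_lit 413) (nat_lit 258)) (XT.lf (nat_lit 152) (nat_lit 8915479885) (nat_lit 0) (nat_lit 30083152) (nat_lit 76) (nat_lit 30083152) (nat_lit 100) (nat_lit 1) (nat_lit 98) (nat_lit 1) (nat_lit 99) (nat_lit 1) (nat_lit 350) (nat_lit 413) (nat_lit 257)))))) (XT.nd (nat_lit 468) (nat_lit 456) (nat_lit 0) (XT.nd (nat_lit 234) (nat_lit 228) (nat_lit 0) (XT.nd (nat_lit 78) (nat_lit 228) (nat_lit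 0) (XT.lf (nat_lit 0) (nat_lit 2914631511) (nat_lit 0) (nat_lit 2999219061) (nat_lit 152) (nat_lit 2914631511) (nat_lit 98) (nat_lit 3) (nat_lit 98) (nat_lit 1) (nat_lit 100) (nat_lit 1) (nat_lit 351) (nat_lit 413) (nat_lit 256)) (XT.nd (nat_lit 78) (nat_lit 152) (nat_lit 0) (XT.lf (nat_lit 76) (nat_lit 2841634367) (nat_lit 0) (nat_lit 2922193938) (nat_lit 76) (nat_lit 2922193938) (nat_lit 98) (nat_lit 3) (nat_lit 97) (nat_lit 1) (nat_lit 98) (nat_lit 1) (nat_lit 352) (nat_lit 413) (nat_lit 255)) (XT.lf (nat_lit 152) (nat_lit 8498549730) (nat_lit 0) (nat_lit 24749484) (nat_lit 76) (nat_lit 24749484) (nat_lit 97) (nat_lit 1) (nat_lit 95) (nat_lit 1) (nat_lit 96) (nat_lit 1) (nat_lit 353) (nat_lit 413) (nat_lit 254)))) (XT.nd (nat_lit 78) (nat_lit 228) (nat_lit 0) (XT.lf (nat_lit 0) (nat_lit 2779435988) (nat_lit 0) (nat_lit 2849026375) (nat_lit 152) (nat_lit 2779435988) (nat_lit 95) (nat_lit 3) (nat_lit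 95) (nat_lit 1) (nat_lit 97) (nat_lit 1) (nat_lit 354) (nat_lit 413) (nat_lit 253)) (XT.nd (nat_lit 78) (nat_lit 152) (nat_lit 0) (XT.lf (nat_lit 76) (nat_lit 2713226840) (nat_lit 0) (nat_lit 2779503399) (nat_lit 76) (nat_lit 2779503399) (nat_lit 95) (nat_lit 3) (nat_lit 94) (nat_lit 1) (nat_lit 95) (nat_lit 1) (nat_lit 355) (nat_lit 413) (nat_lit 252)) (XT.lf (nat_lit 152) (nat_lit 8100123005) (nat_lit 0) (nat_lit 20361462) (nat_lit 76) (nat_lit 20361462) (nat_lit 94) (nat_lit 1) (nat_lit 92) (nat_lit 1) (nat_lit 93) (nat_lit 1) (nat_lit 356) (nat_lit 413) (nat_lit 251))))) (XT.nd (nat_lit 234) (nat_lit 228) (nat_lit 0) (XT.nd (nat_lit 78) (nat_lit 228) (nat_lit 0) (XT.lf (nat_lit 0) (nat_lit 2650040705) (nat_lit 0) (nat_lit 2707292889) (nat_lit 152) (nat_lit 2650040705) (nat_lit 92) (nat_lit 3) (nat_lit 92) (nat_lit 1) (nat_lit 94) (nat_lit 1) (nat_lit 357) (nat_lit 413) (nat_lit 250)) (XT.nd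 (nat_lit 78) (nat_lit 152) (nat_lit 0) (XT.lf (nat_lit 76) (nat_lit 2589709117) (nat_lit 0) (nat_lit 2644235006) (nat_lit 76) (nat_lit 2644235006) (nat_lit 92) (nat_lit 3) (nat_lit 91) (nat_lit 1) (nat_lit 92) (nat_lit 1) (nat_lit 358) (nat_lit 413) (nat_lit 249)) (XT.lf (nat_lit 152) (nat_lit 7719558013) (nat_lit 0) (nat_lit 16751425) (nat_lit 76) (nat_lit 16751425) (nat_lit 91) (nat_lit 1) (nat_lit 89) (nat_lit 1) (nat_lit 90) (nat_lit 1) (nat_lit 359) (nat_lit 413) (nat_lit 248)))) (XT.nd (nat_lit 156) (nat_lit 152) (nat_lit 0) (XT.nd (nat_lit 78) (nat_lit 76) (nat_lit 0) (XT.lf (nat_lit 0) (nat_lit 2526282512) (nat_lit 0) (nat_lit 2573384025) (nat_lit 152) (nat_lit 2526282512) (nat_lit 89) (nat_lit 3) (nat_lit 89) (nat_lit 1) (nat_lit 91) (nat_lit 1) (nat_lit 360) (nat_lit 413) (nat_lit 247)) (XT.lf (nat_lit 76) (nat_lit 2471065509) (nat_lit 0) (nat_lit 2515924093) (nat_lit 76) (nat_lit 2515924093)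 (nat_lit 89) (nat_lit 3) (nat_lit 88) (nat_lit 1) (nat_lit 89) (nat_lit 1) (nat_lit 361) (nat_lit 413) (nat_lit 246))) (XT.nd (nat_lit 78) (nat_lit 0) (nat_lit 0) (XT.lf (nat_lit 152) (nat_lit 7356201168) (nat_lit 0) (nat_lit 13781438) (nat_lit 76) (nat_lit 13781438) (nat_lit 88) (nat_lit 1) (nat_lit 86) (nat_lit 1) (nat_lit 87) (nat_lit 1) (nat_lit 362) (nat_lit 413) (nat_lit 245)) (XT.lf (nat_lit 0) (nat_lit 2407985985) (nat_lit 0) (nat_lit 2446736516) (nat_lit 152) (nat_lit 2407985985) (nat_lit 86) (nat_lit 3) (nat_lit 86) (nat_lit 1) (nat_lit 88) (nat_lit 1) (nat_lit 363) (nat_lit 413) (nat_lit 244))))))) (XT.nd (nat_lit 1014) (nat_lit 1064) (nat_lit 0) (XT.nd (nat_lit 468) (nat_lit 532) (nat_lit 0) (XT.nd (nat_lit 234) (nat_lit 228) (nat_lit 0) (XT.nd (nat_lit 78) (nat_lit 152) (nat_lit 0) (XT.lf (nat_lit 76) (nat_lit 2357242576) (nat_lit 0) (nat_lit 2394147844) (nat_lit 76) (nat_lit 2394147844)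 (nat_lit 86) (nat_lit 3) (nat_lit 85) (nat_lit 1) (nat_lit 86) (nat_lit 1) (nat_lit 364) (nat_lit 413) (nat_lit 243)) (XT.nd (nat_lit 78) (nat_lit 0) (nat_lit 0) (XT.lf (nat_lit 152) (nat_lit 7009395084) (nat_lit 0) (nat_lit 11338023) (nat_lit 76) (nat_lit 11338023) (nat_lit 85) (nat_lit 1) (nat_lit 83) (nat_lit 1) (nat_lit 84) (nat_lit 1) (nat_lit 365) (nat_lit 413) (nat_lit 242)) (XT.lf (nat_lit 0) (nat_lit 2294967563) (nat_lit 0) (nat_lit 2326847721) (nat_lit 152) (nat_lit 2294967563) (nat_lit 83) (nat_lit 3) (nat_lit 83) (nat_lit 1) (nat_lit 85) (nat_lit 1) (nat_lit 366) (nat_lit 413) (nat_lit 241)))) (XT.nd (nat_lit 78) (nat_lit 152) (nat_lit 0) (XT.lf (nat_lit 76) (nat_lit 2248157746) (nat_lit 0) (nat_lit 2278519801) (nat_lit 76) (nat_lit 2278519801) (nat_lit 83) (nat_lit 3) (nat_lit 82) (nat_lit 1) (nat_lit 83) (nat_lit 1) (nat_lit 367) (nat_lit 413) (nat_lit 240)) (XT.nd (nat_lit 78) (nat_lit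 0) (nat_lit 0) (XT.lf (nat_lit 152) (nat_lit 6678484947) (nat_lit 0) (nat_lit 9327820) (nat_lit 76) (nat_lit 9327820) (nat_lit 82) (nat_lit 1) (nat_lit 80) (nat_lit 1) (nat_lit 81) (nat_lit 1) (nat_lit 368) (nat_lit 413) (nat_lit 239)) (XT.lf (nat_lit 0) (nat_lit 2187038859) (nat_lit 0) (nat_lit 2213266744) (nat_lit 152) (nat_lit 2187038859) (nat_lit 80) (nat_lit 3) (nat_lit 80) (nat_lit 1) (nat_lit 82) (nat_lit 1) (nat_lit 369) (nat_lit 413) (nat_lit 238))))) (XT.nd (nat_lit 234) (nat_lit 304) (nat_lit 0) (XT.nd (nat_lit 78) (nat_lit 152) (nat_lit 0) (XT.lf (nat_lit 76) (nat_lit 2143706317) (nat_lit 0) (nat_lit 2168685255) (nat_lit 76) (nat_lit 2168685255) (nat_lit 80) (nat_lit 3) (nat_lit 79) (nat_lit 1) (nat_lit 80) (nat_lit 1) (nat_lit 370) (nat_lit 413) (nat_lit 237)) (XT.nd (nat_lit 78) (nat_lit 0) (nat_lit 0) (XT.lf (nat_lit 152) (nat_lit 6362823488) (nat_lit 0) (nat_lit 7674020) (nat_lit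 76) (nat_lit 7674020) (nat_lit 79) (nat_lit 1) (nat_lit 77) (nat_lit 1) (nat_lit 78) (nat_lit 1) (nat_lit 371) (nat_lit 413) (nat_lit 236)) (XT.lf (nat_lit 0) (nat_lit 2084009296) (nat_lit 0) (nat_lit 2105587042) (nat_lit 152) (nat_lit 2084009296) (nat_lit 77) (nat_lit 3) (nat_lit 77) (nat_lit 1) (nat_lit 79) (nat_lit 1) (nat_lit 372) (nat_lit 413) (nat_lit 235)))) (XT.nd (nat_lit 156) (nat_lit 76) (nat_lit 0) (XT.nd (nat_lit 78) (nat_lit 152) (nat_lit 0) (XT.lf (nat_lit 76) (nat_lit 2043767135) (nat_lit 0) (nat_lit 2064317369) (nat_lit 76) (nat_lit 2064317369) (nat_lit 77) (nat_lit 3) (nat_lit 76) (nat_lit 1) (nat_lit 77) (nat_lit 1) (nat_lit 373) (nat_lit 413) (nat_lit 234)) (XT.lf (nat_lit 152) (nat_lit 6061774816) (nat_lit 0) (nat_lit 6313435) (nat_lit 76) (nat_lit 6313435) (nat_lit 76) (nat_lit 1) (nat_lit 74) (nat_lit 1) (nat_lit 75) (nat_lit 1) (nat_lit 374) (nat_lit 413) (nat_lit 233)))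 (XT.nd (nat_lit 78) (nat_lit 76) (nat_lit 0) (XT.lf (nat_lit 0) (nat_lit 1985688191) (nat_lit 0) (nat_lit 2003440256) (nat_lit 152) (nat_lit 1985688191) (nat_lit 74) (nat_lit 3) (nat_lit 74) (nat_lit 1) (nat_lit 76) (nat_lit 1) (nat_lit 375) (nat_lit 413) (nat_lit 232)) (XT.lf (nat_lit 76) (nat_lit 1948207179) (nat_lit 0) (nat_lit 1965113907) (nat_lit 76) (nat_lit 1965113907) (nat_lit 74) (nat_lit 3) (nat_lit 73) (nat_lit 1) (nat_lit 74) (nat_lit 1) (nat_lit 376) (nat_lit 413) (nat_lit 231)))))) (XT.nd (nat_lit 468) (nat_lit 608) (nat_lit 0) (XT.nd (nat_lit 234) (nat_lit 228) (nat_lit 0) (XT.nd (nat_lit 78) (nat_lit 76) (nat_lit 0) (XT.lf (nat_lit 152) (nat_lit 5774717319) (nat_lit 0) (nat_lit 5194079) (nat_lit 76) (nat_lit 5194079) (nat_lit 73) (nat_lit 1) (nat_lit 71) (nat_lit 1) (nat_lit 72) (nat_lit 1) (nat_lit 377) (nat_lit 413) (nat_lit 230)) (XT.nd (nat_lit 78) (nat_lit 76) (nat_lit 0) (XT.lf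 (nat_lit 0) (nat_lit 1891886384) (nat_lit 0) (nat_lit 1906491052) (nat_lit 152) (nat_lit 1891886384) (nat_lit 71) (nat_lit 3) (nat_lit 71) (nat_lit 1) (nat_lit 73) (nat_lit 1) (nat_lit 378) (nat_lit 413) (nat_lit 229)) (XT.lf (nat_lit 76) (nat_lit 1856885247) (nat_lit 0) (nat_lit 1870794454) (nat_lit 76) (nat_lit 1870794454) (nat_lit 71) (nat_lit 3) (nat_lit 70) (nat_lit 1) (nat_lit 71) (nat_lit 1) (nat_lit 379) (nat_lit 413) (nat_lit 228)))) (XT.nd (nat_lit 78) (nat_lit 76) (nat_lit 0) (XT.lf (nat_lit 152) (nat_lit 5501045826) (nat_lit 0) (nat_lit 4273181) (nat_lit 76) (nat_lit 4273181) (nat_lit 70) (nat_lit 1) (nat_lit 68) (nat_lit 1) (nat_lit 69) (nat_lit 1) (nat_lit 380) (nat_lit 413) (nat_lit 227)) (XT.nd (nat_lit 78) (nat_lit 76) (nat_lit 0) (XT.lf (nat_lit 0) (nat_lit 1802417511) (nat_lit 0) (nat_lit 1814432807) (nat_lit 152) (nat_lit 1802417511) (nat_lit 68) (nat_lit 3) (nat_lit 68) (nat_lit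 1) (nat_lit 70) (nat_lit 1) (nat_lit 381) (nat_lit 413) (nat_lit 226)) (XT.lf (nat_lit 76) (nat_lit 1769654925) (nat_lit 0) (nat_lit 1781098065) (nat_lit 76) (nat_lit 1781098065) (nat_lit 68) (nat_lit 3) (nat_lit 67) (nat_lit 1) (nat_lit 68) (nat_lit 1) (nat_lit 382) (nat_lit 413) (nat_lit 225))))) (XT.nd (nat_lit 234) (nat_lit 380) (nat_lit 0) (XT.nd (nat_lit 78) (nat_lit 76) (nat_lit 0) (XT.lf (nat_lit 152) (nat_lit 5240173155) (nat_lit 0) (nat_lit 3515557) (nat_lit 76) (nat_lit 3515557) (nat_lit 67) (nat_lit 1) (nat_lit 65) (nat_lit 1) (nat_lit 66) (nat_lit 1) (nat_lit 383) (nat_lit 413) (nat_lit 224)) (XT.nd (nat_lit 78) (nat_lit 76) (nat_lit 0) (XT.lf (nat_lit 0) (nat_lit 1717098966) (nat_lit 0) (nat_lit 1726983980) (nat_lit 152) (nat_lit 1717098966) (nat_lit 65) (nat_lit 3) (nat_lit 65) (nat_lit 1) (nat_lit 67) (nat_lit 1) (nat_lit 384) (nat_lit 413) (nat_lit 223)) (XT.lf (nat_lit 76) (nat_lit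 1686366951) (nat_lit 0) (nat_lit 1695781250) (nat_lit 76) (nat_lit 1695781250) (nat_lit 65) (nat_lit 3) (nat_lit 64) (nat_lit 1) (nat_lit 65) (nat_lit 1) (nat_lit 385) (nat_lit 413) (nat_lit 222)))) (XT.nd (nat_lit 156) (nat_lit 228) (nat_lit 0) (XT.nd (nat_lit 78) (nat_lit 0) (nat_lit 0) (XT.lf (nat_lit 152) (nat_lit 4991531175) (nat_lit 0) (nat_lit 2892257) (nat_lit 76) (nat_lit 2892257) (nat_lit 64) (nat_lit 1) (nat_lit 62) (nat_lit 1) (nat_lit 63) (nat_lit 1) (nat_lit 386) (nat_lit 413) (nat_lit 221)) (XT.lf (nat_lit 0) (nat_lit 1635752635) (nat_lit 0) (nat_lit 1643885061) (nat_lit 152) (nat_lit 1635752635) (nat_lit 62) (nat_lit 3) (nat_lit 62) (nat_lit 1) (nat_lit 64) (nat_lit 1) (nat_lit 387) (nat_lit 413) (nat_lit 220))) (XT.nd (nat_lit 78) (nat_lit 152) (nat_lit 0) (XT.lf (nat_lit 76) (nat_lit 1606871087) (nat_lit 0) (nat_lit 1614616254) (nat_lit 76) (nat_lit 1614616254) (nat_lit 62) (nat_lit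 3) (nat_lit 61) (nat_lit 1) (nat_lit 62) (nat_lit 1) (nat_lit 388) (nat_lit 413) (nat_lit 219)) (XT.lf (nat_lit 152) (nat_lit 4754571481) (nat_lit 0) (nat_lit 2379467) (nat_lit 76) (nat_lit 2379467) (nat_lit 61) (nat_lit 1) (nat_lit 59) (nat_lit 1) (nat_lit 60) (nat_lit 1) (nat_lit 389) (nat_lit 413) (nat_lit 218))))))))
noncomputable def ec320 : XT := (XT.nd (nat_lit 1950) (nat_lit 1900) (nat_lit 0) (XT.nd (nat_lit 936) (nat_lit 912) (nat_lit 0) (XT.nd (nat_lit 468) (nat_lit 456) (nat_lit 0) (XT.nd (nat_lit 234) (nat_lit 228) (nat_lit 0) (XT.nd (nat_lit 78) (nat_lit 228) (nat_lit 0) (XT.lf (nat_lit 0) (nat_lit 1558205423) (nat_lit 0) (nat_lit 1564895990) (nat_lit 152) (nat_lit 1558205423) (nat_lit 59) (nat_lit 3) (nat_lit 59) (nat_lit 1) (nat_lit 61) (nat_lit 1) (nat_lit 390) (nat_lit 413) (nat_lit 217)) (XT.nd (nat_lit 78) (nat_lit 152) (nat_lit 0) (XT.lf (nat_lit 76) (nat_lit 1531017604) (nat_lit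 0) (nat_lit 1537389572) (nat_lit 76) (nat_lit 1537389572) (nat_lit 59) (nat_lit 3) (nat_lit 58) (nat_lit 1) (nat_lit 59) (nat_lit 1) (nat_lit 391) (nat_lit 413) (nat_lit 216)) (XT.lf (nat_lit 152) (nat_lit 4528765754) (nat_lit 0) (nat_lit 1957593) (nat_lit 76) (nat_lit 1957593) (nat_lit 58) (nat_lit 1) (nat_lit 56) (nat_lit 1) (nat_lit 57) (nat_lit 1) (nat_lit 392) (nat_lit 413) (nat_lit 215)))) (XT.nd (nat_lit 78) (nat_lit 228) (nat_lit 0) (XT.lf (nat_lit 0) (nat_lit 1484289631) (nat_lit 0) (nat_lit 1489793977) (nat_lit 152) (nat_lit 1484289631) (nat_lit 56) (nat_lit 3) (nat_lit 56) (nat_lit 1) (nat_lit 58) (nat_lit 1) (nat_lit 393) (nat_lit 413) (nat_lit 214)) (XT.nd (nat_lit 78) (nat_lit 152) (nat_lit 0) (XT.lf (nat_lit 76) (nat_lit 1458658433) (nat_lit 0) (nat_lit 1463900667) (nat_lit 76) (nat_lit 1463900667) (nat_lit 56) (nat_lit 3) (nat_lit 55) (nat_lit 1) (nat_lit 56) (nat_lit 1) (nat_lit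 394) (nat_lit 413) (nat_lit 213)) (XT.lf (nat_lit 152) (nat_lit 4313605869) (nat_lit 0) (nat_lit 1610517) (nat_lit 76) (nat_lit 1610517) (nat_lit 55) (nat_lit 1) (nat_lit 53) (nat_lit 1) (nat_lit 54) (nat_lit 1) (nat_lit 395) (nat_lit 413) (nat_lit 212))))) (XT.nd (nat_lit 234) (nat_lit 228) (nat_lit 0) (XT.nd (nat_lit 78) (nat_lit 228) (nat_lit 0) (XT.lf (nat_lit 0) (nat_lit 1413843204) (nat_lit 0) (nat_lit 1418371643) (nat_lit 152) (nat_lit 1413843204) (nat_lit 53) (nat_lit 3) (nat_lit 53) (nat_lit 1) (nat_lit 55) (nat_lit 1) (nat_lit 396) (nat_lit 413) (nat_lit 211)) (XT.nd (nat_lit 78) (nat_lit 152) (nat_lit 0) (XT.lf (nat_lit 76) (nat_lit 1389648056) (nat_lit 0) (nat_lit 1393960855) (nat_lit 76) (nat_lit 1393960855) (nat_lit 53) (nat_lit 3) (nat_lit 52) (nat_lit 1) (nat_lit 53) (nat_lit 1) (nat_lit 397) (nat_lit 413) (nat_lit 210)) (XT.lf (nat_lit 152) (nat_lit 4108603819) (nat_lit 0) (nat_lit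 1324976) (nat_lit 76) (nat_lit 1324976) (nat_lit 52) (nat_lit 1) (nat_lit 50) (nat_lit 1) (nat_lit 51) (nat_lit 1) (nat_lit 398) (nat_lit 413) (nat_lit 209)))) (XT.nd (nat_lit 78) (nat_lit 228) (nat_lit 0) (XT.lf (nat_lit 0) (nat_lit 1346709875) (nat_lit 0) (nat_lit 1350435433) (nat_lit 152) (nat_lit 1346709875) (nat_lit 50) (nat_lit 3) (nat_lit 50) (nat_lit 1) (nat_lit 52) (nat_lit 1) (nat_lit 399) (nat_lit 413) (nat_lit 208)) (XT.nd (nat_lit 78) (nat_lit 152) (nat_lit 0) (XT.lf (nat_lit 76) (nat_lit 1323844184) (nat_lit 0) (nat_lit 1327392334) (nat_lit 76) (nat_lit 1327392334) (nat_lit 50) (nat_lit 3) (nat_lit 49) (nat_lit 1) (nat_lit 50) (nat_lit 1) (nat_lit 400) (nat_lit 413) (nat_lit 207)) (XT.lf (nat_lit 152) (nat_lit 3913291478) (nat_lit 0) (nat_lit 1090061) (nat_lit 76) (nat_lit 1090061) (nat_lit 49) (nat_lit 1) (nat_lit 47) (nat_lit 1) (nat_lit 48) (nat_lit 1) (nat_lit 401) (nat_lit 413)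 (nat_lit 206)))))) (XT.nd (nat_lit 468) (nat_lit 456) (nat_lit 0) (XT.nd (nat_lit 234) (nat_lit 228) (nat_lit 0) (XT.nd (nat_lit 78) (nat_lit 228) (nat_lit 0) (XT.lf (nat_lit 0) (nat_lit 1282739235) (nat_lit 0) (nat_lit 1285804261) (nat_lit 152) (nat_lit 1282739235) (nat_lit 47) (nat_lit 3) (nat_lit 47) (nat_lit 1) (nat_lit 49) (nat_lit 1) (nat_lit 402) (nat_lit 413) (nat_lit 205)) (XT.nd (nat_lit 78) (nat_lit 152) (nat_lit 0) (XT.lf (nat_lit 76) (nat_lit 1261108256) (nat_lit 0) (nat_lit 1264027328) (nat_lit 76) (nat_lit 1264027328) (nat_lit 47) (nat_lit 3) (nat_lit 46) (nat_lit 1) (nat_lit 47) (nat_lit 1) (nat_lit 403) (nat_lit 413) (nat_lit 204)) (XT.lf (nat_lit 152) (nat_lit 3727220248) (nat_lit 0) (nat_lit 896796) (nat_lit 76) (nat_lit 896796) (nat_lit 46) (nat_lit 1) (nat_lit 44) (nat_lit 1) (nat_lit 45) (nat_lit 1) (nat_lit 404) (nat_lit 413) (nat_lit 203)))) (XT.nd (nat_lit 78) (nat_lit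 228) (nat_lit 0) (XT.lf (nat_lit 0) (nat_lit 1221786732) (nat_lit 0) (nat_lit 1224308336) (nat_lit 152) (nat_lit 1221786732) (nat_lit 44) (nat_lit 3) (nat_lit 44) (nat_lit 1) (nat_lit 46) (nat_lit 1) (nat_lit 405) (nat_lit 413) (nat_lit 202)) (XT.nd (nat_lit 78) (nat_lit 152) (nat_lit 0) (XT.lf (nat_lit 76) (nat_lit 1201305808) (nat_lit 0) (nat_lit 1203707335) (nat_lit 76) (nat_lit 1203707335) (nat_lit 44) (nat_lit 3) (nat_lit 43) (nat_lit 1) (nat_lit 44) (nat_lit 1) (nat_lit 406) (nat_lit 413) (nat_lit 201)) (XT.lf (nat_lit 152) (nat_lit 3549960622) (nat_lit 0) (nat_lit 737796) (nat_lit 76) (nat_lit 737796) (nat_lit 43) (nat_lit 1) (nat_lit 41) (nat_lit 1) (nat_lit 42) (nat_lit 1) (nat_lit 407) (nat_lit 413) (nat_lit 200))))) (XT.nd (nat_lit 234) (nat_lit 228) (nat_lit 0) (XT.nd (nat_lit 78) (nat_lit 228) (nat_lit 0) (XT.lf (nat_lit 0) (nat_lit 1163713623) (nat_lit 0) (nat_lit 1165788153) (nat_lit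 152) (nat_lit 1163713623) (nat_lit 41) (nat_lit 3) (nat_lit 41) (nat_lit 1) (nat_lit 43) (nat_lit 1) (nat_lit 408) (nat_lit 413) (nat_lit 199)) (XT.nd (nat_lit 78) (nat_lit 152) (nat_lit 0) (XT.lf (nat_lit 76) (nat_lit 1144306712) (nat_lit 0) (nat_lit 1146282455) (nat_lit 76) (nat_lit 1146282455) (nat_lit 41) (nat_lit 3) (nat_lit 40) (nat_lit 1) (nat_lit 41) (nat_lit 1) (nat_lit 409) (nat_lit 413) (nat_lit 198)) (XT.lf (nat_lit 152) (nat_lit 3381101675) (nat_lit 0) (nat_lit 606987) (nat_lit 76) (nat_lit 606987) (nat_lit 40) (nat_lit 1) (nat_lit 38) (nat_lit 1) (nat_lit 39) (nat_lit 1) (nat_lit 410) (nat_lit 413) (nat_lit 197)))) (XT.nd (nat_lit 156) (nat_lit 152) (nat_lit 0) (XT.nd (nat_lit 78) (nat_lit 76) (nat_lit 0) (XT.lf (nat_lit 0) (nat_lit 1108386893) (nat_lit 0) (nat_lit 1110093614) (nat_lit 152) (nat_lit 1108386893) (nat_lit 38) (nat_lit 3) (nat_lit 38) (nat_lit 1) (nat_lit 40) (nat_lit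 1) (nat_lit 411) (nat_lit 413) (nat_lit 196)) (XT.lf (nat_lit 76) (nat_lit 1089985347) (nat_lit 0) (nat_lit 1091610795) (nat_lit 76) (nat_lit 1091610795) (nat_lit 38) (nat_lit 3) (nat_lit 37) (nat_lit 1) (nat_lit 38) (nat_lit 1) (nat_lit 412) (nat_lit 413) (nat_lit 195))) (XT.nd (nat_lit 78) (nat_lit 0) (nat_lit 0) (XT.lf (nat_lit 152) (nat_lit 3220250511) (nat_lit 0) (nat_lit 499369) (nat_lit 76) (nat_lit 499369) (nat_lit 37) (nat_lit 1) (nat_lit 35) (nat_lit 1) (nat_lit 36) (nat_lit 1) (nat_lit 413) (nat_lit 413) (nat_lit 194)) (XT.lf (nat_lit 0) (nat_lit 1055679130) (nat_lit 0) (nat_lit 1057083254) (nat_lit 152) (nat_lit 1055679130) (nat_lit 35) (nat_lit 3) (nat_lit 35) (nat_lit 1) (nat_lit 37) (nat_lit 1) (nat_lit 414) (nat_lit 413) (nat_lit 193))))))) (XT.nd (nat_lit 936) (nat_lit 988) (nat_lit 0) (XT.nd (nat_lit 468) (nat_lit 456) (nat_lit 0) (XT.nd (nat_lit 234) (nat_lit 228) (nat_lit 0)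 (XT.nd (nat_lit 78) (nat_lit 152) (nat_lit 0) (XT.lf (nat_lit 76) (nat_lit 1038220673) (nat_lit 0) (nat_lit 1039557934) (nat_lit 76) (nat_lit 1039557934) (nat_lit 35) (nat_lit 3) (nat_lit 34) (nat_lit 1) (nat_lit 35) (nat_lit 1) (nat_lit 415) (nat_lit 413) (nat_lit 192)) (XT.nd (nat_lit 78) (nat_lit 0) (nat_lit 0) (XT.lf (nat_lit 152) (nat_lit 3067031680) (nat_lit 0) (nat_lit 410832) (nat_lit 76) (nat_lit 410832) (nat_lit 34) (nat_lit 1) (nat_lit 32) (nat_lit 1) (nat_lit 33) (nat_lit 1) (nat_lit 416) (nat_lit 413) (nat_lit 191)) (XT.lf (nat_lit 0) (nat_lit 1005468395) (nat_lit 0) (nat_lit 1006623571) (nat_lit 152) (nat_lit 1005468395) (nat_lit 32) (nat_lit 3) (nat_lit 32) (nat_lit 1) (nat_lit 34) (nat_lit 1) (nat_lit 417) (nat_lit 413) (nat_lit 190)))) (XT.nd (nat_lit 78) (nat_lit 152) (nat_lit 0) (XT.lf (nat_lit 76) (nat_lit 988896270) (nat_lit 0) (nat_lit 989996438) (nat_lit 76) (nat_lit 989996438)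 (nat_lit 32) (nat_lit 3) (nat_lit 31) (nat_lit 1) (nat_lit 32) (nat_lit 1) (nat_lit 418) (nat_lit 413) (nat_lit 189)) (XT.nd (nat_lit 78) (nat_lit 0) (nat_lit 0) (XT.lf (nat_lit 152) (nat_lit 2921086568) (nat_lit 0) (nat_lit 337993) (nat_lit 76) (nat_lit 337993) (nat_lit 31) (nat_lit 1) (nat_lit 29) (nat_lit 1) (nat_lit 30) (nat_lit 1) (nat_lit 419) (nat_lit 413) (nat_lit 188)) (XT.lf (nat_lit 0) (nat_lit 957638063) (nat_lit 0) (nat_lit 958588429) (nat_lit 152) (nat_lit 957638063) (nat_lit 29) (nat_lit 3) (nat_lit 29) (nat_lit 1) (nat_lit 31) (nat_lit 1) (nat_lit 420) (nat_lit 413) (nat_lit 187))))) (XT.nd (nat_lit 234) (nat_lit 228) (nat_lit 0) (XT.nd (nat_lit 78) (nat_lit 152) (nat_lit 0) (XT.lf (nat_lit 76) (nat_lit 941900317) (nat_lit 0) (nat_lit 942805427) (nat_lit 76) (nat_lit 942805427) (nat_lit 29) (nat_lit 3) (nat_lit 28) (nat_lit 1) (nat_lit 29) (nat_lit 1) (nat_lit 421) (nat_lit 413)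 (nat_lit 186)) (XT.nd (nat_lit 78) (nat_lit 0) (nat_lit 0) (XT.lf (nat_lit 152) (nat_lit 2782072781) (nat_lit 0) (nat_lit 278067) (nat_lit 76) (nat_lit 278067) (nat_lit 28) (nat_lit 1) (nat_lit 26) (nat_lit 1) (nat_lit 27) (nat_lit 1) (nat_lit 422) (nat_lit 413) (nat_lit 185)) (XT.lf (nat_lit 0) (nat_lit 912076658) (nat_lit 0) (nat_lit 912858526) (nat_lit 152) (nat_lit 912076658) (nat_lit 26) (nat_lit 3) (nat_lit 26) (nat_lit 1) (nat_lit 28) (nat_lit 1) (nat_lit 423) (nat_lit 413) (nat_lit 184)))) (XT.nd (nat_lit 78) (nat_lit 152) (nat_lit 0) (XT.lf (nat_lit 76) (nat_lit 897125538) (nat_lit 0) (nat_lit 897870175) (nat_lit 76) (nat_lit 897870175) (nat_lit 26) (nat_lit 3) (nat_lit 25) (nat_lit 1) (nat_lit 26) (nat_lit 1) (nat_lit 424) (nat_lit 413) (nat_lit 183)) (XT.nd (nat_lit 78) (nat_lit 0) (nat_lit 0) (XT.lf (nat_lit 152) (nat_lit 2649663527) (nat_lit 0) (nat_lit 228767) (nat_lit 76) (nat_lit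 228767) (nat_lit 25) (nat_lit 1) (nat_lit 23) (nat_lit 1) (nat_lit 24) (nat_lit 1) (nat_lit 425) (nat_lit 413) (nat_lit 182)) (XT.lf (nat_lit 0) (nat_lit 868677679) (nat_lit 0) (nat_lit 869320924) (nat_lit 152) (nat_lit 868677679) (nat_lit 23) (nat_lit 3) (nat_lit 23) (nat_lit 1) (nat_lit 25) (nat_lit 1) (nat_lit 426) (nat_lit 413) (nat_lit 181)))))) (XT.nd (nat_lit 468) (nat_lit 532) (nat_lit 0) (XT.nd (nat_lit 234) (nat_lit 228) (nat_lit 0) (XT.nd (nat_lit 78) (nat_lit 152) (nat_lit 0) (XT.lf (nat_lit 76) (nat_lit 854469131) (nat_lit 0) (nat_lit 855081746) (nat_lit 76) (nat_lit 855081746) (nat_lit 23) (nat_lit 3) (nat_lit 22) (nat_lit 1) (nat_lit 23) (nat_lit 1) (nat_lit 427) (nat_lit 413) (nat_lit 180)) (XT.nd (nat_lit 78) (nat_lit 0) (nat_lit 0) (XT.lf (nat_lit 152) (nat_lit 2523546993) (nat_lit 0) (nat_lit 188207) (nat_lit 76) (nat_lit 188207) (nat_lit 22) (nat_lit 1) (nat_lit 20) (nat_lit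 1) (nat_lit 21) (nat_lit 1) (nat_lit 428) (nat_lit 413) (nat_lit 179)) (XT.lf (nat_lit 0) (nat_lit 827339424) (nat_lit 0) (nat_lit 827868624) (nat_lit 152) (nat_lit 827339424) (nat_lit 20) (nat_lit 3) (nat_lit 20) (nat_lit 1) (nat_lit 22) (nat_lit 1) (nat_lit 429) (nat_lit 413) (nat_lit 178)))) (XT.nd (nat_lit 78) (nat_lit 152) (nat_lit 0) (XT.lf (nat_lit 76) (nat_lit 813832660) (nat_lit 0) (nat_lit 814336659) (nat_lit 76) (nat_lit 814336659) (nat_lit 20) (nat_lit 3) (nat_lit 19) (nat_lit 1) (nat_lit 20) (nat_lit 1) (nat_lit 430) (nat_lit 413) (nat_lit 177)) (XT.nd (nat_lit 78) (nat_lit 0) (nat_lit 0) (XT.lf (nat_lit 152) (nat_lit 2403425739) (nat_lit 0) (nat_lit 154838) (nat_lit 76) (nat_lit 154838) (nat_lit 19) (nat_lit 1) (nat_lit 17) (nat_lit 1) (nat_lit 18) (nat_lit 1) (nat_lit 431) (nat_lit 413) (nat_lit 176)) (XT.lf (nat_lit 0) (nat_lit 787964809) (nat_lit 0) (nat_lit 788400183) (nat_lit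 152) (nat_lit 787964809) (nat_lit 17) (nat_lit 3) (nat_lit 17) (nat_lit 1) (nat_lit 19) (nat_lit 1) (nat_lit 432) (nat_lit 413) (nat_lit 175))))) (XT.nd (nat_lit 234) (nat_lit 304) (nat_lit 0) (XT.nd (nat_lit 78) (nat_lit 152) (nat_lit 0) (XT.lf (nat_lit 76) (nat_lit 775121944) (nat_lit 0) (nat_lit 775536586) (nat_lit 76) (nat_lit 775536586) (nat_lit 17) (nat_lit 3) (nat_lit 16) (nat_lit 1) (nat_lit 17) (nat_lit 1) (nat_lit 433) (nat_lit 413) (nat_lit 174)) (XT.nd (nat_lit 78) (nat_lit 0) (nat_lit 0) (XT.lf (nat_lit 152) (nat_lit 2289016096) (nat_lit 0) (nat_lit 127386) (nat_lit 76) (nat_lit 127386) (nat_lit 16) (nat_lit 1) (nat_lit 14) (nat_lit 1) (nat_lit 15) (nat_lit 1) (nat_lit 434) (nat_lit 413) (nat_lit 173)) (XT.lf (nat_lit 0) (nat_lit 750461186) (nat_lit 0) (nat_lit 750819369) (nat_lit 152) (nat_lit 750461186) (nat_lit 14) (nat_lit 3) (nat_lit 14) (nat_lit 1) (nat_lit 16) (nat_lit 1) (nat_lit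 435) (nat_lit 413) (nat_lit 172)))) (XT.nd (nat_lit 156) (nat_lit 76) (nat_lit 0) (XT.nd (nat_lit 78) (nat_lit 152) (nat_lit 0) (XT.lf (nat_lit 76) (nat_lit 738246933) (nat_lit 0) (nat_lit 738588060) (nat_lit 76) (nat_lit 738588060) (nat_lit 14) (nat_lit 3) (nat_lit 13) (nat_lit 1) (nat_lit 14) (nat_lit 1) (nat_lit 436) (nat_lit 413) (nat_lit 171)) (XT.lf (nat_lit 152) (nat_lit 2180047582) (nat_lit 0) (nat_lit 104800) (nat_lit 76) (nat_lit 104800) (nat_lit 13) (nat_lit 1) (nat_lit 11) (nat_lit 1) (nat_lit 12) (nat_lit 1) (nat_lit 437) (nat_lit 413) (nat_lit 170))) (XT.nd (nat_lit 78) (nat_lit 76) (nat_lit 0) (XT.lf (nat_lit 0) (nat_lit 714740168) (nat_lit 0) (nat_lit 715034847) (nat_lit 152) (nat_lit 714740168) (nat_lit 11) (nat_lit 3) (nat_lit 11) (nat_lit 1) (nat_lit 13) (nat_lit 1) (nat_lit 438) (nat_lit 413) (nat_lit 169)) (XT.lf (nat_lit 76) (nat_lit 703121570) (nat_lit 0) (nat_lit 703402216)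 (nat_lit 76) (nat_lit 703402216) (nat_lit 11) (nat_lit 3) (nat_lit 10) (nat_lit 1) (nat_lit 11) (nat_lit 1) (nat_lit 439) (nat_lit 413) (nat_lit 168))))))))
noncomputable def ec321 : XT := (XT.nd (nat_lit 35490) (nat_lit 0) (nat_lit 15580) (XT.nd (nat_lit 34476) (nat_lit 0) (nat_lit 19000) (XT.nd (nat_lit 34008) (nat_lit 0) (nat_lit 21736) (XT.nd (nat_lit 33774) (nat_lit 0) (nat_lit 21660) (XT.nd (nat_lit 78) (nat_lit 76) (nat_lit 0) (XT.lf (nat_lit 152) (nat_lit 2076262326) (nat_lit 0) (nat_lit 86219) (nat_lit 76) (nat_lit 86219) (nat_lit 10) (nat_lit 1) (nat_lit 8) (nat_lit 1) (nat_lit 9) (nat_lit 1) (nat_lit 440) (nat_lit 413) (nat_lit 167)) (XT.nd (nat_lit 78) (nat_lit 76) (nat_lit 0) (XT.lf (nat_lit 0) (nat_lit 680717451) (nat_lit 0) (nat_lit 680959884) (nat_lit 152) (nat_lit 680717451) (nat_lit 8) (nat_lit 3) (nat_lit 8) (nat_lit 1) (nat_lit 10) (nat_lit 1) (nat_lit 441) (nat_lit 413) (nat_lit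 166)) (XT.lf (nat_lit 76) (nat_lit 669663658) (nat_lit 0) (nat_lit 669894546) (nat_lit 76) (nat_lit 669894546) (nat_lit 8) (nat_lit 3) (nat_lit 7) (nat_lit 1) (nat_lit 8) (nat_lit 1) (nat_lit 442) (nat_lit 413) (nat_lit 165)))) (XT.nd (nat_lit 78) (nat_lit 0) (nat_lit 0) (XT.lf (nat_lit 836) (nat_lit 19872742725) (nat_lit 0) (nat_lit 35284009028) (nat_lit 836) (nat_lit 19872742725) (nat_lit 303) (nat_lit 1) (nat_lit 292) (nat_lit 0) (nat_lit 303) (nat_lit 0) (nat_lit 192) (nat_lit 414) (nat_lit 414)) (XT.nd (nat_lit 78) (nat_lit 0) (nat_lit 76) (XT.lf (nat_lit 836) (nat_lit 77029231815) (nat_lit 76) (nat_lit 34714912109) (nat_lit 0) (nat_lit 34714912109) (nat_lit 303) (nat_lit 1) (nat_lit 293) (nat_lit 1) (nat_lit 292) (nat_lit 0) (nat_lit 193) (nat_lit 414) (nat_lit 413)) (XT.lf (nat_lit 836) (nat_lit 36710972055) (nat_lit 0) (nat_lit 69548472268) (nat_lit 760) (nat_lit 36710972055) (nat_lit 304)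 (nat_lit 1) (nat_lit 293) (nat_lit 1) (nat_lit 303) (nat_lit 1) (nat_lit 194) (nat_lit 414) (nat_lit 412))))) (XT.nd (nat_lit 234) (nat_lit 0) (nat_lit 152) (XT.nd (nat_lit 78) (nat_lit 0) (nat_lit 76) (XT.lf (nat_lit 836) (nat_lit 68864682457) (nat_lit 76) (nat_lit 35364901659) (nat_lit 0) (nat_lit 35364901659) (nat_lit 304) (nat_lit 1) (nat_lit 294) (nat_lit 1) (nat_lit 293) (nat_lit 1) (nat_lit 195) (nat_lit 414) (nat_lit 411)) (XT.nd (nat_lit 78) (nat_lit 0) (nat_lit 0) (XT.lf (nat_lit 836) (nat_lit 31697752021) (nat_lit 0) (nat_lit 72930051195) (nat_lit 760) (nat_lit 31697752021) (nat_lit 305) (nat_lit 1) (nat_lit 294) (nat_lit 1) (nat_lit 304) (nat_lit 1) (nat_lit 196) (nat_lit 414) (nat_lit 410)) (XT.lf (nat_lit 836) (nat_lit 57010471548) (nat_lit 76) (nat_lit 38072901323) (nat_lit 0) (nat_lit 38072901323) (nat_lit 305) (nat_lit 1) (nat_lit 295) (nat_lit 1) (nat_lit 294) (nat_lit 1) (nat_lit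 197) (nat_lit 414) (nat_lit 409)))) (XT.nd (nat_lit 78) (nat_lit 0) (nat_lit 0) (XT.lf (nat_lit 836) (nat_lit 24997445162) (nat_lit 0) (nat_lit 80098516311) (nat_lit 760) (nat_lit 24997445162) (nat_lit 306) (nat_lit 1) (nat_lit 295) (nat_lit 1) (nat_lit 305) (nat_lit 1) (nat_lit 198) (nat_lit 414) (nat_lit 408)) (XT.nd (nat_lit 78) (nat_lit 0) (nat_lit 76) (XT.lf (nat_lit 836) (nat_lit 42021472845) (nat_lit 76) (nat_lit 42546698735) (nat_lit 0) (nat_lit 42546698735) (nat_lit 306) (nat_lit 1) (nat_lit 296) (nat_lit 1) (nat_lit 295) (nat_lit 1) (nat_lit 199) (nat_lit 414) (nat_lit 407)) (XT.lf (nat_lit 836) (nat_lit 16869432653) (nat_lit 0) (nat_lit 90506500101) (nat_lit 760) (nat_lit 16869432653) (nat_lit 307) (nat_lit 1) (nat_lit 296) (nat_lit 1) (nat_lit 306) (nat_lit 1) (nat_lit 200) (nat_lit 414) (nat_lit 406)))))) (XT.nd (nat_lit 468) (nat_lit 1368) (nat_lit 0) (XT.nd (nat_lit 234) (nat_lit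 912) (nat_lit 0) (XT.nd (nat_lit 78) (nat_lit 684) (nat_lit 0) (XT.lf (nat_lit 836) (nat_lit 24390885393) (nat_lit 76) (nat_lit 48526052380) (nat_lit 0) (nat_lit 48526052380) (nat_lit 307) (nat_lit 1) (nat_lit 297) (nat_lit 1) (nat_lit 296) (nat_lit 1) (nat_lit 201) (nat_lit 414) (nat_lit 405)) (XT.nd (nat_lit 78) (nat_lit 760) (nat_lit 0) (XT.lf (nat_lit 76) (nat_lit 7544098399) (nat_lit 0) (nat_lit 103666824035) (nat_lit 760) (nat_lit 7544098399) (nat_lit 298) (nat_lit 1) (nat_lit 297) (nat_lit 1) (nat_lit 307) (nat_lit 1) (nat_lit 202) (nat_lit 414) (nat_lit 404)) (XT.lf (nat_lit 836) (nat_lit 4556447828) (nat_lit 0) (nat_lit 55779490505) (nat_lit 760) (nat_lit 55779490505) (nat_lit 298) (nat_lit 1) (nat_lit 287) (nat_lit 1) (nat_lit 297) (nat_lit 1) (nat_lit 203) (nat_lit 414) (nat_lit 403)))) (XT.nd (nat_lit 78) (nat_lit 380) (nat_lit 0) (XT.lf (nat_lit 532) (nat_lit 108130245200) (nat_lit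 0) (nat_lit 2729496728) (nat_lit 456) (nat_lit 2729496728) (nat_lit 287) (nat_lit 1) (nat_lit 280) (nat_lit 1) (nat_lit 286) (nat_lit 1) (nat_lit 204) (nat_lit 414) (nat_lit 402)) (XT.nd (nat_lit 78) (nat_lit 380) (nat_lit 0) (XT.lf (nat_lit 76) (nat_lit 47274355007) (nat_lit 0) (nat_lit 16546834858) (nat_lit 532) (nat_lit 47274355007) (nat_lit 281) (nat_lit 1) (nat_lit 280) (nat_lit 1) (nat_lit 287) (nat_lit 1) (nat_lit 205) (nat_lit 414) (nat_lit 401)) (XT.lf (nat_lit 456) (nat_lit 81347030167) (nat_lit 0) (nat_lit 13680429730) (nat_lit 380) (nat_lit 13680429730) (nat_lit 281) (nat_lit 1) (nat_lit 275) (nat_lit 1) (nat_lit 280) (nat_lit 1) (nat_lit 206) (nat_lit 414) (nat_lit 400))))) (XT.nd (nat_lit 234) (nat_lit 988) (nat_lit 0) (XT.nd (nat_lit 78) (nat_lit 380) (nat_lit 0) (XT.lf (nat_lit 76) (nat_lit 33720221934) (nat_lit 0) (nat_lit 38929985628) (nat_lit 456) (nat_lit 33720221934) (nat_lit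 276) (nat_lit 1) (nat_lit 275) (nat_lit 1) (nat_lit 281) (nat_lit 1) (nat_lit 207) (nat_lit 414) (nat_lit 399)) (XT.nd (nat_lit 78) (nat_lit 0) (nat_lit 0) (XT.lf (nat_lit 456) (nat_lit 53568172972) (nat_lit 0) (nat_lit 25273101938) (nat_lit 380) (nat_lit 25273101938) (nat_lit 276) (nat_lit 1) (nat_lit 270) (nat_lit 1) (nat_lit 275) (nat_lit 1) (nat_lit 208) (nat_lit 414) (nat_lit 398)) (XT.lf (nat_lit 76) (nat_lit 19739159816) (nat_lit 0) (nat_lit 62445618179) (nat_lit 456) (nat_lit 19739159816) (nat_lit 271) (nat_lit 1) (nat_lit 270) (nat_lit 1) (nat_lit 276) (nat_lit 1) (nat_lit 209) (nat_lit 414) (nat_lit 397)))) (XT.nd (nat_lit 156) (nat_lit 684) (nat_lit 0) (XT.nd (nat_lit 78) (nat_lit 0) (nat_lit 0) (XT.lf (nat_lit 380) (nat_lit 25052224302) (nat_lit 0) (nat_lit 37368809895) (nat_lit 304) (nat_lit 37368809895) (nat_lit 271) (nat_lit 1) (nat_lit 266) (nat_lit 1) (nat_lit 270) (nat_lit 1)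 (nat_lit 210) (nat_lit 414) (nat_lit 396)) (XT.lf (nat_lit 76) (nat_lit 5451196844) (nat_lit 0) (nat_lit 86835423424) (nat_lit 380) (nat_lit 5451196844) (nat_lit 267) (nat_lit 1) (nat_lit 266) (nat_lit 1) (nat_lit 271) (nat_lit 1) (nat_lit 211) (nat_lit 414) (nat_lit 395))) (XT.nd (nat_lit 78) (nat_lit 304) (nat_lit 0) (XT.lf (nat_lit 76) (nat_lit 45933351015) (nat_lit 0) (nat_lit 3847007373) (nat_lit 380) (nat_lit 45933351015) (nat_lit 262) (nat_lit 1) (nat_lit 261) (nat_lit 1) (nat_lit 266) (nat_lit 1) (nat_lit 212) (nat_lit 414) (nat_lit 394)) (XT.lf (nat_lit 380) (nat_lit 75981006345) (nat_lit 0) (nat_lit 8892839167) (nat_lit 304) (nat_lit 8892839167) (nat_lit 262) (nat_lit 1) (nat_lit 257) (nat_lit 1) (nat_lit 261) (nat_lit 1) (nat_lit 213) (nat_lit 414) (nat_lit 393))))))) (XT.nd (nat_lit 936) (nat_lit 1520) (nat_lit 0) (XT.nd (nat_lit 468) (nat_lit 988) (nat_lit 0) (XT.nd (nat_lit 234) (nat_lit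 608) (nat_lit 0) (XT.nd (nat_lit 78) (nat_lit 304) (nat_lit 0) (XT.lf (nat_lit 76) (nat_lit 29803091045) (nat_lit 0) (nat_lit 32246879506) (nat_lit 380) (nat_lit 29803091045) (nat_lit 258) (nat_lit 1) (nat_lit 257) (nat_lit 1) (nat_lit 262) (nat_lit 1) (nat_lit 214) (nat_lit 414) (nat_lit 392)) (XT.nd (nat_lit 78) (nat_lit 0) (nat_lit 0) (XT.lf (nat_lit 380) (nat_lit 43491000411) (nat_lit 0) (nat_lit 23257397910) (nat_lit 304) (nat_lit 23257397910) (nat_lit 258) (nat_lit 1) (nat_lit 253) (nat_lit 1) (nat_lit 257) (nat_lit 1) (nat_lit 215) (nat_lit 414) (nat_lit 391)) (XT.lf (nat_lit 76) (nat_lit 13715120558) (nat_lit 0) (nat_lit 60782303949) (nat_lit 380) (nat_lit 13715120558) (nat_lit 254) (nat_lit 1) (nat_lit 253) (nat_lit 1) (nat_lit 258) (nat_lit 1) (nat_lit 216) (nat_lit 414) (nat_lit 390)))) (XT.nd (nat_lit 78) (nat_lit 380) (nat_lit 0) (XT.lf (nat_lit 304) (nat_lit 11153920142) (nat_lit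 0) (nat_lit 37652041436) (nat_lit 228) (nat_lit 37652041436) (nat_lit 254) (nat_lit 1) (nat_lit 250) (nat_lit 1) (nat_lit 253) (nat_lit 1) (nat_lit 217) (nat_lit 414) (nat_lit 389)) (XT.nd (nat_lit 78) (nat_lit 0) (nat_lit 0) (XT.lf (nat_lit 380) (nat_lit 80314049088) (nat_lit 0) (nat_lit 2228560756) (nat_lit 304) (nat_lit 2228560756) (nat_lit 250) (nat_lit 1) (nat_lit 245) (nat_lit 1) (nat_lit 249) (nat_lit 1) (nat_lit 218) (nat_lit 414) (nat_lit 388)) (XT.lf (nat_lit 76) (nat_lit 31427481160) (nat_lit 0) (nat_lit 20238712282) (nat_lit 380) (nat_lit 31427481160) (nat_lit 246) (nat_lit 1) (nat_lit 245) (nat_lit 1) (nat_lit 250) (nat_lit 1) (nat_lit 219) (nat_lit 414) (nat_lit 387))))) (XT.nd (nat_lit 234) (nat_lit 532) (nat_lit 0) (XT.nd (nat_lit 78) (nat_lit 228) (nat_lit 0) (XT.lf (nat_lit 304) (nat_lit 45900829792) (nat_lit 0) (nat_lit 17789842623) (nat_lit 228) (nat_lit 17789842623) (nat_lit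 246) (nat_lit 1) (nat_lit 242) (nat_lit 1) (nat_lit 245) (nat_lit 1) (nat_lit 220) (nat_lit 414) (nat_lit 386)) (XT.nd (nat_lit 78) (nat_lit 228) (nat_lit 0) (XT.lf (nat_lit 76) (nat_lit 14500782144) (nat_lit 0) (nat_lit 50906776280) (nat_lit 304) (nat_lit 14500782144) (nat_lit 243) (nat_lit 1) (nat_lit 242) (nat_lit 1) (nat_lit 246) (nat_lit 1) (nat_lit 221) (nat_lit 414) (nat_lit 385)) (XT.lf (nat_lit 304) (nat_lit 12085948678) (nat_lit 0) (nat_lit 33142991982) (nat_lit 228) (nat_lit 33142991982) (nat_lit 243) (nat_lit 1) (nat_lit 239) (nat_lit 1) (nat_lit 242) (nat_lit 1) (nat_lit 222) (nat_lit 414) (nat_lit 384)))) (XT.nd (nat_lit 78) (nat_lit 228) (nat_lit 0) (XT.lf (nat_lit 304) (nat_lit 72738413968) (nat_lit 0) (nat_lit 2077095127) (nat_lit 228) (nat_lit 2077095127) (nat_lit 239) (nat_lit 1) (nat_lit 235) (nat_lit 1) (nat_lit 238) (nat_lit 1) (nat_lit 223) (nat_lit 414) (nat_lit 383)) (XT.nd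 (nat_lit 78) (nat_lit 228) (nat_lit 0) (XT.lf (nat_lit 76) (nat_lit 27514858907) (nat_lit 0) (nat_lit 20388234170) (nat_lit 304) (nat_lit 27514858907) (nat_lit 236) (nat_lit 1) (nat_lit 235) (nat_lit 1) (nat_lit 239) (nat_lit 1) (nat_lit 224) (nat_lit 414) (nat_lit 382)) (XT.lf (nat_lit 304) (nat_lit 37835450419) (nat_lit 0) (nat_lit 18081205848) (nat_lit 228) (nat_lit 18081205848) (nat_lit 236) (nat_lit 1) (nat_lit 232) (nat_lit 1) (nat_lit 235) (nat_lit 1) (nat_lit 225) (nat_lit 414) (nat_lit 381)))))) (XT.nd (nat_lit 468) (nat_lit 912) (nat_lit 0) (XT.nd (nat_lit 234) (nat_lit 152) (nat_lit 0) (XT.nd (nat_lit 78) (nat_lit 456) (nat_lit 0) (XT.lf (nat_lit 76) (nat_lit 10419852188) (nat_lit 0) (nat_lit 51776155328) (nat_lit 304) (nat_lit 10419852188) (nat_lit 233) (nat_lit 1) (nat_lit 232) (nat_lit 1) (nat_lit 236) (nat_lit 1) (nat_lit 226) (nat_lit 414) (nat_lit 380)) (XT.nd (nat_lit 78) (nat_lit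 304) (nat_lit 0) (XT.lf (nat_lit 228) (nat_lit 3818180294) (nat_lit 0) (nat_lit 33720860002) (nat_lit 152) (nat_lit 33720860002) (nat_lit 233) (nat_lit 1) (nat_lit 230) (nat_lit 1) (nat_lit 232) (nat_lit 1) (nat_lit 227) (nat_lit 414) (nat_lit 379)) (XT.lf (nat_lit 304) (nat_lit 57691423963) (nat_lit 0) (nat_lit 6127247391) (nat_lit 228) (nat_lit 6127247391) (nat_lit 230) (nat_lit 1) (nat_lit 226) (nat_lit 1) (nat_lit 229) (nat_lit 1) (nat_lit 228) (nat_lit 414) (nat_lit 378)))) (XT.nd (nat_lit 78) (nat_lit 152) (nat_lit 0) (XT.lf (nat_lit 76) (nat_lit 20150244961) (nat_lit 0) (nat_lit 28346142891) (nat_lit 304) (nat_lit 20150244961) (nat_lit 227) (nat_lit 1) (nat_lit 226) (nat_lit 1) (nat_lit 230) (nat_lit 1) (nat_lit 229) (nat_lit 414) (nat_lit 377)) (XT.nd (nat_lit 78) (nat_lit 0) (nat_lit 0) (XT.lf (nat_lit 228) (nat_lit 23280499744) (nat_lit 0) (nat_lit 22053473331) (nat_lit 152) (nat_lit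 22053473331) (nat_lit 227) (nat_lit 1) (nat_lit 224) (nat_lit 1) (nat_lit 226) (nat_lit 1) (nat_lit 230) (nat_lit 414) (nat_lit 376)) (XT.lf (nat_lit 76) (nat_lit 3344668876) (nat_lit 0) (nat_lit 59480709814) (nat_lit 228) (nat_lit 3344668876) (nat_lit 225) (nat_lit 1) (nat_lit 224) (nat_lit 1) (nat_lit 227) (nat_lit 1) (nat_lit 231) (nat_lit 414) (nat_lit 375))))) (XT.nd (nat_lit 234) (nat_lit 532) (nat_lit 0) (XT.nd (nat_lit 78) (nat_lit 152) (nat_lit 0) (XT.lf (nat_lit 76) (nat_lit 27604139043) (nat_lit 0) (nat_lit 9748795971) (nat_lit 228) (nat_lit 27604139043) (nat_lit 222) (nat_lit 1) (nat_lit 221) (nat_lit 1) (nat_lit 224) (nat_lit 1) (nat_lit 232) (nat_lit 414) (nat_lit 374)) (XT.nd (nat_lit 78) (nat_lit 0) (nat_lit 0) (XT.lf (nat_lit 228) (nat_lit 38333185103) (nat_lit 0) (nat_lit 12725578854) (nat_lit 152) (nat_lit 12725578854) (nat_lit 222) (nat_lit 1) (nat_lit 219) (nat_lit 1) (nat_lit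 221) (nat_lit 1) (nat_lit 233) (nat_lit 414) (nat_lit 373)) (XT.lf (nat_lit 76) (nat_lit 10816627553) (nat_lit 0) (nat_lit 41004276383) (nat_lit 228) (nat_lit 10816627553) (nat_lit 220) (nat_lit 1) (nat_lit 219) (nat_lit 1) (nat_lit 222) (nat_lit 1) (nat_lit 234) (nat_lit 414) (nat_lit 372)))) (XT.nd (nat_lit 156) (nat_lit 152) (nat_lit 0) (XT.nd (nat_lit 78) (nat_lit 228) (nat_lit 0) (XT.lf (nat_lit 228) (nat_lit 5067200573) (nat_lit 0) (nat_lit 28223318178) (nat_lit 152) (nat_lit 28223318178) (nat_lit 220) (nat_lit 1) (nat_lit 217) (nat_lit 1) (nat_lit 219) (nat_lit 1) (nat_lit 235) (nat_lit 414) (nat_lit 371)) (XT.lf (nat_lit 228) (nat_lit 49803720870) (nat_lit 0) (nat_lit 5309490709) (nat_lit 152) (nat_lit 5309490709) (nat_lit 217) (nat_lit 1) (nat_lit 214) (nat_lit 1) (nat_lit 216) (nat_lit 1) (nat_lit 236) (nat_lit 414) (nat_lit 370))) (XT.nd (nat_lit 78) (nat_lit 152) (nat_lit 0) (XT.lf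 (nat_lit 76) (nat_lit 16579780724) (nat_lit 0) (nat_lit 26181318912) (nat_lit 228) (nat_lit 16579780724) (nat_lit 215) (nat_lit 1) (nat_lit 214) (nat_lit 1) (nat_lit 217) (nat_lit 1) (nat_lit 237) (nat_lit 414) (nat_lit 369)) (XT.lf (nat_lit 228) (nat_lit 16885701710) (nat_lit 0) (nat_lit 20702381757) (nat_lit 152) (nat_lit 20702381757) (nat_lit 215) (nat_lit 1) (nat_lit 212) (nat_lit 1) (nat_lit 214) (nat_lit 1) (nat_lit 238) (nat_lit 414) (nat_lit 368))))))))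
noncomputable def ec322 : XT := (XT.nd (nat_lit 1950) (nat_lit 1900) (nat_lit 0) (XT.nd (nat_lit 936) (nat_lit 988) (nat_lit 0) (XT.nd (nat_lit 468) (nat_lit 608) (nat_lit 0) (XT.nd (nat_lit 234) (nat_lit 304) (nat_lit 0) (XT.nd (nat_lit 78) (nat_lit 304) (nat_lit 0) (XT.lf (nat_lit 76) (nat_lit 554986445) (nat_lit 0) (nat_lit 56166915308) (nat_lit 228) (nat_lit 554986445) (nat_lit 213) (nat_lit 1) (nat_lit 212) (nat_lit 1) (nat_lit 215) (nat_lit 1) (nat_lit 239) (nat_lit 414) (nat_lit 367)) (XT.nd (nat_lit 78) (nat_lit 152) (nat_lit 0) (XT.lf (nat_lit 76) (nat_lit 20955383269) (nat_lit 0) (nat_lit 14346101819) (nat_lit 152) (nat_lit 20955383269) (nat_lit 211) (nat_lit 1) (nat_lit 210) (nat_lit 1) (nat_lit 212) (nat_lit 1) (nat_lit 240) (nat_lit 414) (nat_lit 366)) (XT.lf (nat_lit 228) (nat_lit 26003245021) (nat_lit 0) (nat_lit 14634746462) (nat_lit 152) (nat_lit 14634746462) (nat_lit 211) (nat_lit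 1) (nat_lit 208) (nat_lit 1) (nat_lit 210) (nat_lit 1) (nat_lit 241) (nat_lit 414) (nat_lit 365)))) (XT.nd (nat_lit 78) (nat_lit 304) (nat_lit 0) (XT.lf (nat_lit 76) (nat_lit 5213470912) (nat_lit 0) (nat_lit 43888229889) (nat_lit 228) (nat_lit 5213470912) (nat_lit 209) (nat_lit 1) (nat_lit 208) (nat_lit 1) (nat_lit 211) (nat_lit 1) (nat_lit 242) (nat_lit 414) (nat_lit 364)) (XT.nd (nat_lit 78) (nat_lit 152) (nat_lit 0) (XT.lf (nat_lit 76) (nat_lit 24206861519) (nat_lit 0) (nat_lit 4951779143) (nat_lit 152) (nat_lit 24206861519) (nat_lit 207) (nat_lit 1) (nat_lit 206) (nat_lit 1) (nat_lit 208) (nat_lit 1) (nat_lit 243) (nat_lit 414) (nat_lit 363)) (XT.lf (nat_lit 228) (nat_lit 32927540161) (nat_lit 0) (nat_lit 9757038092) (nat_lit 152) (nat_lit 9757038092) (nat_lit 207) (nat_lit 1) (nat_lit 204) (nat_lit 1) (nat_lit 206) (nat_lit 1) (nat_lit 244) (nat_lit 414) (nat_lit 362))))) (XT.nd (nat_lit 234)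 (nat_lit 304) (nat_lit 0) (XT.nd (nat_lit 78) (nat_lit 304) (nat_lit 0) (XT.lf (nat_lit 76) (nat_lit 8819499411) (nat_lit 0) (nat_lit 33897021690) (nat_lit 228) (nat_lit 8819499411) (nat_lit 205) (nat_lit 1) (nat_lit 204) (nat_lit 1) (nat_lit 207) (nat_lit 1) (nat_lit 245) (nat_lit 414) (nat_lit 361)) (XT.nd (nat_lit 78) (nat_lit 228) (nat_lit 0) (XT.lf (nat_lit 152) (nat_lit 2531757107) (nat_lit 0) (nat_lit 24057878303) (nat_lit 76) (nat_lit 24057878303) (nat_lit 205) (nat_lit 1) (nat_lit 203) (nat_lit 1) (nat_lit 204) (nat_lit 1) (nat_lit 246) (nat_lit 414) (nat_lit 360)) (XT.lf (nat_lit 228) (nat_lit 38074907950) (nat_lit 0) (nat_lit 5852849822) (nat_lit 152) (nat_lit 5852849822) (nat_lit 203) (nat_lit 1) (nat_lit 200) (nat_lit 1) (nat_lit 202) (nat_lit 1) (nat_lit 247) (nat_lit 414) (nat_lit 359)))) (XT.nd (nat_lit 78) (nat_lit 304) (nat_lit 0) (XT.lf (nat_lit 76) (nat_lit 11570456364) (nat_lit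 0) (nat_lit 25782464914) (nat_lit 228) (nat_lit 11570456364) (nat_lit 201) (nat_lit 1) (nat_lit 200) (nat_lit 1) (nat_lit 203) (nat_lit 1) (nat_lit 248) (nat_lit 414) (nat_lit 358)) (XT.nd (nat_lit 78) (nat_lit 228) (nat_lit 0) (XT.lf (nat_lit 152) (nat_lit 8502213927) (nat_lit 0) (nat_lit 19792476018) (nat_lit 76) (nat_lit 19792476018) (nat_lit 201) (nat_lit 1) (nat_lit 199) (nat_lit 1) (nat_lit 200) (nat_lit 1) (nat_lit 249) (nat_lit 414) (nat_lit 357)) (XT.lf (nat_lit 228) (nat_lit 41786548780) (nat_lit 0) (nat_lit 2744402069) (nat_lit 152) (nat_lit 2744402069) (nat_lit 199) (nat_lit 1) (nat_lit 196) (nat_lit 1) (nat_lit 198) (nat_lit 1) (nat_lit 250) (nat_lit 414) (nat_lit 356)))))) (XT.nd (nat_lit 468) (nat_lit 608) (nat_lit 0) (XT.nd (nat_lit 234) (nat_lit 76) (nat_lit 0) (XT.nd (nat_lit 78) (nat_lit 304) (nat_lit 0) (XT.lf (nat_lit 76) (nat_lit 13628216772) (nat_lit 0) (nat_lit 19206822722)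 (nat_lit 228) (nat_lit 13628216772) (nat_lit 197) (nat_lit 1) (nat_lit 196) (nat_lit 1) (nat_lit 199) (nat_lit 1) (nat_lit 251) (nat_lit 414) (nat_lit 355)) (XT.nd (nat_lit 78) (nat_lit 228) (nat_lit 0) (XT.lf (nat_lit 152) (nat_lit 13108441096) (nat_lit 0) (nat_lit 16283319002) (nat_lit 76) (nat_lit 16283319002) (nat_lit 197) (nat_lit 1) (nat_lit 195) (nat_lit 1) (nat_lit 196) (nat_lit 1) (nat_lit 252) (nat_lit 414) (nat_lit 354)) (XT.lf (nat_lit 228) (nat_lit 44341923553) (nat_lit 0) (nat_lit 285681646) (nat_lit 152) (nat_lit 285681646) (nat_lit 195) (nat_lit 1) (nat_lit 192) (nat_lit 1) (nat_lit 194) (nat_lit 1) (nat_lit 253) (nat_lit 414) (nat_lit 353)))) (XT.nd (nat_lit 78) (nat_lit 76) (nat_lit 0) (XT.lf (nat_lit 76) (nat_lit 15125466415) (nat_lit 0) (nat_lit 13892476805) (nat_lit 228) (nat_lit 15125466415) (nat_lit 193) (nat_lit 1) (nat_lit 192) (nat_lit 1) (nat_lit 195) (nat_lit 1) (nat_lit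 254) (nat_lit 414) (nat_lit 352)) (XT.nd (nat_lit 78) (nat_lit 0) (nat_lit 0) (XT.lf (nat_lit 152) (nat_lit 16606869460) (nat_lit 0) (nat_lit 13396326841) (nat_lit 76) (nat_lit 13396326841) (nat_lit 193) (nat_lit 1) (nat_lit 191) (nat_lit 1) (nat_lit 192) (nat_lit 1) (nat_lit 255) (nat_lit 414) (nat_lit 351)) (XT.lf (nat_lit 0) (nat_lit 1670139815) (nat_lit 0) (nat_lit 39337816194) (nat_lit 152) (nat_lit 1670139815) (nat_lit 191) (nat_lit 3) (nat_lit 191) (nat_lit 1) (nat_lit 193) (nat_lit 1) (nat_lit 256) (nat_lit 414) (nat_lit 350))))) (XT.nd (nat_lit 234) (nat_lit 380) (nat_lit 0) (XT.nd (nat_lit 78) (nat_lit 76) (nat_lit 0) (XT.lf (nat_lit 76) (nat_lit 16170900319) (nat_lit 0) (nat_lit 9611257163) (nat_lit 152) (nat_lit 16170900319) (nat_lit 190) (nat_lit 1) (nat_lit 189) (nat_lit 1) (nat_lit 191) (nat_lit 1) (nat_lit 257) (nat_lit 414) (nat_lit 349)) (XT.nd (nat_lit 78) (nat_lit 0) (nat_lit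 0) (XT.lf (nat_lit 152) (nat_lit 19207772156) (nat_lit 0) (nat_lit 11021191245) (nat_lit 76) (nat_lit 11021191245) (nat_lit 190) (nat_lit 1) (nat_lit 188) (nat_lit 1) (nat_lit 189) (nat_lit 1) (nat_lit 258) (nat_lit 414) (nat_lit 348)) (XT.lf (nat_lit 0) (nat_lit 3192146045) (nat_lit 0) (nat_lit 34181436622) (nat_lit 152) (nat_lit 3192146045) (nat_lit 188) (nat_lit 3) (nat_lit 188) (nat_lit 1) (nat_lit 190) (nat_lit 1) (nat_lit 259) (nat_lit 414) (nat_lit 347)))) (XT.nd (nat_lit 156) (nat_lit 152) (nat_lit 0) (XT.nd (nat_lit 78) (nat_lit 76) (nat_lit 0) (XT.lf (nat_lit 76) (nat_lit 16853498442) (nat_lit 0) (nat_lit 6175664210) (nat_lit 152) (nat_lit 16853498442) (nat_lit 187) (nat_lit 1) (nat_lit 186) (nat_lit 1) (nat_lit 188) (nat_lit 1) (nat_lit 260) (nat_lit 414) (nat_lit 346)) (XT.lf (nat_lit 152) (nat_lit 21083481262) (nat_lit 0) (nat_lit 9067161312) (nat_lit 76) (nat_lit 9067161312) (nat_lit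 187) (nat_lit 1) (nat_lit 185) (nat_lit 1) (nat_lit 186) (nat_lit 1) (nat_lit 261) (nat_lit 414) (nat_lit 345))) (XT.nd (nat_lit 78) (nat_lit 152) (nat_lit 0) (XT.lf (nat_lit 0) (nat_lit 4357727295) (nat_lit 0) (nat_lit 29852693345) (nat_lit 152) (nat_lit 4357727295) (nat_lit 185) (nat_lit 3) (nat_lit 185) (nat_lit 1) (nat_lit 187) (nat_lit 1) (nat_lit 262) (nat_lit 414) (nat_lit 344)) (XT.lf (nat_lit 76) (nat_lit 17246042239) (nat_lit 0) (nat_lit 3431647711) (nat_lit 152) (nat_lit 17246042239) (nat_lit 184) (nat_lit 1) (nat_lit 183) (nat_lit 1) (nat_lit 185) (nat_lit 1) (nat_lit 263) (nat_lit 414) (nat_lit 343))))))) (XT.nd (nat_lit 936) (nat_lit 1064) (nat_lit 0) (XT.nd (nat_lit 468) (nat_lit 456) (nat_lit 0) (XT.nd (nat_lit 234) (nat_lit 152) (nat_lit 0) (XT.nd (nat_lit 78) (nat_lit 152) (nat_lit 0) (XT.lf (nat_lit 152) (nat_lit 22375146091) (nat_lit 0) (nat_lit 7459576051) (nat_lit 76) (nat_lit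 7459576051) (nat_lit 184) (nat_lit 1) (nat_lit 182) (nat_lit 1) (nat_lit 183) (nat_lit 1) (nat_lit 264) (nat_lit 414) (nat_lit 342)) (XT.nd (nat_lit 78) (nat_lit 152) (nat_lit 0) (XT.lf (nat_lit 0) (nat_lit 5234199548) (nat_lit 0) (nat_lit 26208971212) (nat_lit 152) (nat_lit 5234199548) (nat_lit 182) (nat_lit 3) (nat_lit 182) (nat_lit 1) (nat_lit 184) (nat_lit 1) (nat_lit 265) (nat_lit 414) (nat_lit 341)) (XT.lf (nat_lit 76) (nat_lit 17408006737) (nat_lit 0) (nat_lit 1252666475) (nat_lit 152) (nat_lit 17408006737) (nat_lit 181) (nat_lit 1) (nat_lit 180) (nat_lit 1) (nat_lit 182) (nat_lit 1) (nat_lit 266) (nat_lit 414) (nat_lit 340)))) (XT.nd (nat_lit 78) (nat_lit 76) (nat_lit 0) (XT.lf (nat_lit 152) (nat_lit 23198291758) (nat_lit 0) (nat_lit 6137011678) (nat_lit 76) (nat_lit 6137011678) (nat_lit 181) (nat_lit 1) (nat_lit 179) (nat_lit 1) (nat_lit 180) (nat_lit 1) (nat_lit 267) (nat_lit 414) (nat_lit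 339)) (XT.nd (nat_lit 78) (nat_lit 76) (nat_lit 0) (XT.lf (nat_lit 0) (nat_lit 5876747510) (nat_lit 0) (nat_lit 23132744066) (nat_lit 152) (nat_lit 5876747510) (nat_lit 179) (nat_lit 3) (nat_lit 179) (nat_lit 1) (nat_lit 181) (nat_lit 1) (nat_lit 268) (nat_lit 414) (nat_lit 338)) (XT.lf (nat_lit 76) (nat_lit 480579830) (nat_lit 0) (nat_lit 16914862264) (nat_lit 76) (nat_lit 16914862264) (nat_lit 179) (nat_lit 3) (nat_lit 178) (nat_lit 1) (nat_lit 179) (nat_lit 1) (nat_lit 269) (nat_lit 414) (nat_lit 337))))) (XT.nd (nat_lit 234) (nat_lit 228) (nat_lit 0) (XT.nd (nat_lit 78) (nat_lit 76) (nat_lit 0) (XT.lf (nat_lit 152) (nat_lit 23647390798) (nat_lit 0) (nat_lit 5048934695) (nat_lit 76) (nat_lit 5048934695) (nat_lit 178) (nat_lit 1) (nat_lit 176) (nat_lit 1) (nat_lit 177) (nat_lit 1) (nat_lit 270) (nat_lit 414) (nat_lit 336)) (XT.nd (nat_lit 78) (nat_lit 76) (nat_lit 0) (XT.lf (nat_lit 0) (nat_lit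 6330584805) (nat_lit 0) (nat_lit 20527135876) (nat_lit 152) (nat_lit 6330584805) (nat_lit 176) (nat_lit 3) (nat_lit 176) (nat_lit 1) (nat_lit 178) (nat_lit 1) (nat_lit 271) (nat_lit 414) (nat_lit 335)) (XT.lf (nat_lit 76) (nat_lit 1867018976) (nat_lit 0) (nat_lit 15387543806) (nat_lit 76) (nat_lit 15387543806) (nat_lit 176) (nat_lit 3) (nat_lit 175) (nat_lit 1) (nat_lit 176) (nat_lit 1) (nat_lit 272) (nat_lit 414) (nat_lit 334)))) (XT.nd (nat_lit 78) (nat_lit 76) (nat_lit 0) (XT.lf (nat_lit 152) (nat_lit 23799622891) (nat_lit 0) (nat_lit 4153771069) (nat_lit 76) (nat_lit 4153771069) (nat_lit 175) (nat_lit 1) (nat_lit 173) (nat_lit 1) (nat_lit 174) (nat_lit 1) (nat_lit 273) (nat_lit 414) (nat_lit 333)) (XT.nd (nat_lit 78) (nat_lit 76) (nat_lit 0) (XT.lf (nat_lit 0) (nat_lit 6632730723) (nat_lit 0) (nat_lit 18312268423) (nat_lit 152) (nat_lit 6632730723) (nat_lit 173) (nat_lit 3) (nat_lit 173) (nat_lit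 1) (nat_lit 175) (nat_lit 1) (nat_lit 274) (nat_lit 414) (nat_lit 332)) (XT.lf (nat_lit 76) (nat_lit 2937567570) (nat_lit 0) (nat_lit 14060936808) (nat_lit 76) (nat_lit 14060936808) (nat_lit 173) (nat_lit 3) (nat_lit 172) (nat_lit 1) (nat_lit 173) (nat_lit 1) (nat_lit 275) (nat_lit 414) (nat_lit 331)))))) (XT.nd (nat_lit 468) (nat_lit 608) (nat_lit 0) (XT.nd (nat_lit 234) (nat_lit 228) (nat_lit 0) (XT.nd (nat_lit 78) (nat_lit 76) (nat_lit 0) (XT.lf (nat_lit 152) (nat_lit 23717966708) (nat_lit 0) (nat_lit 3417317738) (nat_lit 76) (nat_lit 3417317738) (nat_lit 172) (nat_lit 1) (nat_lit 170) (nat_lit 1) (nat_lit 171) (nat_lit 1) (nat_lit 276) (nat_lit 414) (nat_lit 330)) (XT.nd (nat_lit 78) (nat_lit 76) (nat_lit 0) (XT.lf (nat_lit 0) (nat_lit 6813471540) (nat_lit 0) (nat_lit 16422256110) (nat_lit 152) (nat_lit 6813471540) (nat_lit 170) (nat_lit 3) (nat_lit 170) (nat_lit 1) (nat_lit 172) (nat_lit 1)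 (nat_lit 277) (nat_lit 414) (nat_lit 329)) (XT.lf (nat_lit 76) (nat_lit 3751569289) (nat_lit 0) (nat_lit 12902792689) (nat_lit 76) (nat_lit 12902792689) (nat_lit 170) (nat_lit 3) (nat_lit 169) (nat_lit 1) (nat_lit 170) (nat_lit 1) (nat_lit 278) (nat_lit 414) (nat_lit 328)))) (XT.nd (nat_lit 78) (nat_lit 76) (nat_lit 0) (XT.lf (nat_lit 152) (nat_lit 23453742342) (nat_lit 0) (nat_lit 2811435760) (nat_lit 76) (nat_lit 2811435760) (nat_lit 169) (nat_lit 1) (nat_lit 167) (nat_lit 1) (nat_lit 168) (nat_lit 1) (nat_lit 279) (nat_lit 414) (nat_lit 327)) (XT.nd (nat_lit 78) (nat_lit 76) (nat_lit 0) (XT.lf (nat_lit 0) (nat_lit 6897562335) (nat_lit 0) (nat_lit 14802733181) (nat_lit 152) (nat_lit 6897562335) (nat_lit 167) (nat_lit 3) (nat_lit 167) (nat_lit 1) (nat_lit 169) (nat_lit 1) (nat_lit 280) (nat_lit 414) (nat_lit 326)) (XT.lf (nat_lit 76) (nat_lit 4357687414) (nat_lit 0) (nat_lit 11886421553) (nat_lit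 76) (nat_lit 11886421553) (nat_lit 167) (nat_lit 3) (nat_lit 166) (nat_lit 1) (nat_lit 167) (nat_lit 1) (nat_lit 281) (nat_lit 414) (nat_lit 325))))) (XT.nd (nat_lit 234) (nat_lit 380) (nat_lit 0) (XT.nd (nat_lit 78) (nat_lit 76) (nat_lit 0) (XT.lf (nat_lit 152) (nat_lit 23048701806) (nat_lit 0) (nat_lit 2312975157) (nat_lit 76) (nat_lit 2312975157) (nat_lit 166) (nat_lit 1) (nat_lit 164) (nat_lit 1) (nat_lit 165) (nat_lit 1) (nat_lit 282) (nat_lit 414) (nat_lit 324)) (XT.nd (nat_lit 78) (nat_lit 76) (nat_lit 0) (XT.lf (nat_lit 0) (nat_lit 6905215353) (nat_lit 0) (nat_lit 13408818972) (nat_lit 152) (nat_lit 6905215353) (nat_lit 164) (nat_lit 3) (nat_lit 164) (nat_lit 1) (nat_lit 166) (nat_lit 1) (nat_lit 283) (nat_lit 414) (nat_lit 323)) (XT.lf (nat_lit 76) (nat_lit 4795806006) (nat_lit 0) (nat_lit 10989714214) (nat_lit 76) (nat_lit 10989714214) (nat_lit 164) (nat_lit 3) (nat_lit 163) (nat_lit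 1) (nat_lit 164) (nat_lit 1) (nat_lit 284) (nat_lit 414) (nat_lit 322)))) (XT.nd (nat_lit 156) (nat_lit 228) (nat_lit 0) (XT.nd (nat_lit 78) (nat_lit 0) (nat_lit 0) (XT.lf (nat_lit 152) (nat_lit 22536747767) (nat_lit 0) (nat_lit 1902890386) (nat_lit 76) (nat_lit 1902890386) (nat_lit 163) (nat_lit 1) (nat_lit 161) (nat_lit 1) (nat_lit 162) (nat_lit 1) (nat_lit 285) (nat_lit 414) (nat_lit 321)) (XT.lf (nat_lit 0) (nat_lit 6852912760) (nat_lit 0) (nat_lit 12203443552) (nat_lit 152) (nat_lit 6852912760) (nat_lit 161) (nat_lit 3) (nat_lit 161) (nat_lit 1) (nat_lit 163) (nat_lit 1) (nat_lit 286) (nat_lit 414) (nat_lit 320))) (XT.nd (nat_lit 78) (nat_lit 152) (nat_lit 0) (XT.lf (nat_lit 76) (nat_lit 5098593648) (nat_lit 0) (nat_lit 10194337259) (nat_lit 76) (nat_lit 10194337259) (nat_lit 161) (nat_lit 3) (nat_lit 160) (nat_lit 1) (nat_lit 161) (nat_lit 1) (nat_lit 287) (nat_lit 414) (nat_lit 319)) (XT.lf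 (nat_lit 152) (nat_lit 21945346495) (nat_lit 0) (nat_lit 1565512630) (nat_lit 76) (nat_lit 1565512630) (nat_lit 160) (nat_lit 1) (nat_lit 158) (nat_lit 1) (nat_lit 159) (nat_lit 1) (nat_lit 288) (nat_lit 414) (nat_lit 318))))))))
noncomputable def ec323 : XT := (XT.nd (nat_lit 1950) (nat_lit 2052) (nat_lit 0) (XT.nd (nat_lit 936) (nat_lit 912) (nat_lit 0) (XT.nd (nat_lit 468) (nat_lit 456) (nat_lit 0) (XT.nd (nat_lit 234) (nat_lit 228) (nat_lit 0) (XT.nd (nat_lit 78) (nat_lit 228) (nat_lit 0) (XT.lf (nat_lit 0) (nat_lit 6754074954) (nat_lit 0) (nat_lit 11155969878) (nat_lit 152) (nat_lit 6754074954) (nat_lit 158) (nat_lit 3) (nat_lit 158) (nat_lit 1) (nat_lit 160) (nat_lit 1) (nat_lit 289) (nat_lit 414) (nat_lit 317)) (XT.nd (nat_lit 78) (nat_lit 152) (nat_lit 0) (XT.lf (nat_lit 76) (nat_lit 5292789590) (nat_lit 0) (nat_lit 9485070470) (nat_lit 76) (nat_lit 9485070470) (nat_lit 158) (nat_lit 3)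 (nat_lit 157) (nat_lit 1) (nat_lit 158) (nat_lit 1) (nat_lit 290) (nat_lit 414) (nat_lit 316)) (XT.lf (nat_lit 152) (nat_lit 21296689285) (nat_lit 0) (nat_lit 1287951115) (nat_lit 76) (nat_lit 1287951115) (nat_lit 157) (nat_lit 1) (nat_lit 155) (nat_lit 1) (nat_lit 156) (nat_lit 1) (nat_lit 291) (nat_lit 414) (nat_lit 315)))) (XT.nd (nat_lit 78) (nat_lit 228) (nat_lit 0) (XT.lf (nat_lit 0) (nat_lit 6619610053) (nat_lit 0) (nat_lit 10241059900) (nat_lit 152) (nat_lit 6619610053) (nat_lit 155) (nat_lit 3) (nat_lit 155) (nat_lit 1) (nat_lit 157) (nat_lit 1) (nat_lit 292) (nat_lit 414) (nat_lit 314)) (XT.nd (nat_lit 78) (nat_lit 152) (nat_lit 0) (XT.lf (nat_lit 76) (nat_lit 5400261550) (nat_lit 0) (nat_lit 8849261405) (nat_lit 76) (nat_lit 8849261405) (nat_lit 155) (nat_lit 3) (nat_lit 154) (nat_lit 1) (nat_lit 155) (nat_lit 1) (nat_lit 293) (nat_lit 414) (nat_lit 313)) (XT.lf (nat_lit 152) (nat_lit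 20608646992) (nat_lit 0) (nat_lit 1059600569) (nat_lit 76) (nat_lit 1059600569) (nat_lit 154) (nat_lit 1) (nat_lit 152) (nat_lit 1) (nat_lit 153) (nat_lit 1) (nat_lit 294) (nat_lit 414) (nat_lit 312))))) (XT.nd (nat_lit 234) (nat_lit 228) (nat_lit 0) (XT.nd (nat_lit 78) (nat_lit 228) (nat_lit 0) (XT.lf (nat_lit 0) (nat_lit 6458365642) (nat_lit 0) (nat_lit 9437741394) (nat_lit 152) (nat_lit 6458365642) (nat_lit 152) (nat_lit 3) (nat_lit 152) (nat_lit 1) (nat_lit 154) (nat_lit 1) (nat_lit 295) (nat_lit 414) (nat_lit 311)) (XT.nd (nat_lit 78) (nat_lit 152) (nat_lit 0) (XT.lf (nat_lit 76) (nat_lit 5438875643) (nat_lit 0) (nat_lit 8276376359) (nat_lit 76) (nat_lit 8276376359) (nat_lit 152) (nat_lit 3) (nat_lit 151) (nat_lit 1) (nat_lit 152) (nat_lit 1) (nat_lit 296) (nat_lit 414) (nat_lit 310)) (XT.lf (nat_lit 152) (nat_lit 19895554418) (nat_lit 0) (nat_lit 871736011) (nat_lit 76) (nat_lit 871736011)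 (nat_lit 151) (nat_lit 1) (nat_lit 149) (nat_lit 1) (nat_lit 150) (nat_lit 1) (nat_lit 297) (nat_lit 414) (nat_lit 309)))) (XT.nd (nat_lit 78) (nat_lit 228) (nat_lit 0) (XT.lf (nat_lit 0) (nat_lit 6277500130) (nat_lit 0) (nat_lit 8728639934) (nat_lit 152) (nat_lit 6277500130) (nat_lit 149) (nat_lit 3) (nat_lit 149) (nat_lit 1) (nat_lit 151) (nat_lit 1) (nat_lit 298) (nat_lit 414) (nat_lit 308)) (XT.nd (nat_lit 78) (nat_lit 152) (nat_lit 0) (XT.lf (nat_lit 76) (nat_lit 5423211785) (nat_lit 0) (nat_lit 7757630647) (nat_lit 76) (nat_lit 7757630647) (nat_lit 149) (nat_lit 3) (nat_lit 148) (nat_lit 1) (nat_lit 149) (nat_lit 1) (nat_lit 299) (nat_lit 414) (nat_lit 307)) (XT.lf (nat_lit 152) (nat_lit 19168854748) (nat_lit 0) (nat_lit 717179373) (nat_lit 76) (nat_lit 717179373) (nat_lit 148) (nat_lit 1) (nat_lit 146) (nat_lit 1) (nat_lit 147) (nat_lit 1) (nat_lit 300) (nat_lit 414) (nat_lit 306)))))) (XT.nd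 (nat_lit 468) (nat_lit 456) (nat_lit 0) (XT.nd (nat_lit 234) (nat_lit 228) (nat_lit 0) (XT.nd (nat_lit 78) (nat_lit 228) (nat_lit 0) (XT.lf (nat_lit 0) (nat_lit 6082787971) (nat_lit 0) (nat_lit 8099346754) (nat_lit 152) (nat_lit 6082787971) (nat_lit 146) (nat_lit 3) (nat_lit 146) (nat_lit 1) (nat_lit 148) (nat_lit 1) (nat_lit 301) (nat_lit 414) (nat_lit 305)) (XT.nd (nat_lit 78) (nat_lit 152) (nat_lit 0) (XT.lf (nat_lit 76) (nat_lit 5365151980) (nat_lit 0) (nat_lit 7285684154) (nat_lit 76) (nat_lit 7285684154) (nat_lit 146) (nat_lit 3) (nat_lit 145) (nat_lit 1) (nat_lit 146) (nat_lit 1) (nat_lit 302) (nat_lit 414) (nat_lit 304)) (XT.lf (nat_lit 152) (nat_lit 18437628898) (nat_lit 0) (nat_lit 590025245) (nat_lit 76) (nat_lit 590025245) (nat_lit 145) (nat_lit 1) (nat_lit 143) (nat_lit 1) (nat_lit 144) (nat_lit 1) (nat_lit 303) (nat_lit 414) (nat_lit 303)))) (XT.nd (nat_lit 78) (nat_lit 228) (nat_lit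 0) (XT.lf (nat_lit 0) (nat_lit 5878870507) (nat_lit 0) (nat_lit 7537898409) (nat_lit 152) (nat_lit 5878870507) (nat_lit 143) (nat_lit 3) (nat_lit 143) (nat_lit 1) (nat_lit 145) (nat_lit 1) (nat_lit 304) (nat_lit 414) (nat_lit 302)) (XT.nd (nat_lit 78) (nat_lit 152) (nat_lit 0) (XT.lf (nat_lit 76) (nat_lit 5274364024) (nat_lit 0) (nat_lit 6854390597) (nat_lit 76) (nat_lit 6854390597) (nat_lit 143) (nat_lit 3) (nat_lit 142) (nat_lit 1) (nat_lit 143) (nat_lit 1) (nat_lit 305) (nat_lit 414) (nat_lit 301)) (XT.lf (nat_lit 152) (nat_lit 17709030217) (nat_lit 0) (nat_lit 485415229) (nat_lit 76) (nat_lit 485415229) (nat_lit 142) (nat_lit 1) (nat_lit 140) (nat_lit 1) (nat_lit 141) (nat_lit 1) (nat_lit 306) (nat_lit 414) (nat_lit 300))))) (XT.nd (nat_lit 234) (nat_lit 228) (nat_lit 0) (XT.nd (nat_lit 78) (nat_lit 228) (nat_lit 0) (XT.lf (nat_lit 0) (nat_lit 5669462067) (nat_lit 0) (nat_lit 7034348427) (nat_lit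 152) (nat_lit 5669462067) (nat_lit 140) (nat_lit 3) (nat_lit 140) (nat_lit 1) (nat_lit 142) (nat_lit 1) (nat_lit 307) (nat_lit 414) (nat_lit 299)) (XT.nd (nat_lit 78) (nat_lit 152) (nat_lit 0) (XT.lf (nat_lit 76) (nat_lit 5158699204) (nat_lit 0) (nat_lit 6458590976) (nat_lit 76) (nat_lit 6458590976) (nat_lit 140) (nat_lit 3) (nat_lit 139) (nat_lit 1) (nat_lit 140) (nat_lit 1) (nat_lit 308) (nat_lit 414) (nat_lit 298)) (XT.lf (nat_lit 152) (nat_lit 16988641360) (nat_lit 0) (nat_lit 399352310) (nat_lit 76) (nat_lit 399352310) (nat_lit 139) (nat_lit 1) (nat_lit 137) (nat_lit 1) (nat_lit 138) (nat_lit 1) (nat_lit 309) (nat_lit 414) (nat_lit 297)))) (XT.nd (nat_lit 156) (nat_lit 152) (nat_lit 0) (XT.nd (nat_lit 78) (nat_lit 76) (nat_lit 0) (XT.lf (nat_lit 0) (nat_lit 5457519285) (nat_lit 0) (nat_lit 6580414671) (nat_lit 152) (nat_lit 5457519285) (nat_lit 137) (nat_lit 3) (nat_lit 137) (nat_lit 1) (nat_lit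 139) (nat_lit 1) (nat_lit 310) (nat_lit 414) (nat_lit 296)) (XT.lf (nat_lit 76) (nat_lit 5024519239) (nat_lit 0) (nat_lit 6093943416) (nat_lit 76) (nat_lit 6093943416) (nat_lit 137) (nat_lit 3) (nat_lit 136) (nat_lit 1) (nat_lit 137) (nat_lit 1) (nat_lit 311) (nat_lit 414) (nat_lit 295))) (XT.nd (nat_lit 78) (nat_lit 0) (nat_lit 0) (XT.lf (nat_lit 152) (nat_lit 16280767171) (nat_lit 0) (nat_lit 328548134) (nat_lit 76) (nat_lit 328548134) (nat_lit 136) (nat_lit 1) (nat_lit 134) (nat_lit 1) (nat_lit 135) (nat_lit 1) (nat_lit 312) (nat_lit 414) (nat_lit 294)) (XT.lf (nat_lit 0) (nat_lit 5245380156) (nat_lit 0) (nat_lit 6169188970) (nat_lit 152) (nat_lit 5245380156) (nat_lit 134) (nat_lit 3) (nat_lit 134) (nat_lit 1) (nat_lit 136) (nat_lit 1) (nat_lit 313) (nat_lit 414) (nat_lit 293))))))) (XT.nd (nat_lit 1014) (nat_lit 1064) (nat_lit 0) (XT.nd (nat_lit 468) (nat_lit 532) (nat_lit 0) (XT.nd (nat_lit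 234) (nat_lit 228) (nat_lit 0) (XT.nd (nat_lit 78) (nat_lit 152) (nat_lit 0) (XT.lf (nat_lit 76) (nat_lit 4876965019) (nat_lit 0) (nat_lit 5756782936) (nat_lit 76) (nat_lit 5756782936) (nat_lit 134) (nat_lit 3) (nat_lit 133) (nat_lit 1) (nat_lit 134) (nat_lit 1) (nat_lit 314) (nat_lit 414) (nat_lit 292)) (XT.nd (nat_lit 78) (nat_lit 0) (nat_lit 0) (XT.lf (nat_lit 152) (nat_lit 15588674949) (nat_lit 0) (nat_lit 270297363) (nat_lit 76) (nat_lit 270297363) (nat_lit 133) (nat_lit 1) (nat_lit 131) (nat_lit 1) (nat_lit 132) (nat_lit 1) (nat_lit 315) (nat_lit 414) (nat_lit 291)) (XT.lf (nat_lit 0) (nat_lit 5034878221) (nat_lit 0) (nat_lit 5794898018) (nat_lit 152) (nat_lit 5034878221) (nat_lit 131) (nat_lit 3) (nat_lit 131) (nat_lit 1) (nat_lit 133) (nat_lit 1) (nat_lit 316) (nat_lit 414) (nat_lit 290)))) (XT.nd (nat_lit 78) (nat_lit 152) (nat_lit 0) (XT.lf (nat_lit 76) (nat_lit 4720177483) (nat_lit 0)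 (nat_lit 5444005861) (nat_lit 76) (nat_lit 5444005861) (nat_lit 131) (nat_lit 3) (nat_lit 130) (nat_lit 1) (nat_lit 131) (nat_lit 1) (nat_lit 317) (nat_lit 414) (nat_lit 289)) (XT.nd (nat_lit 78) (nat_lit 0) (nat_lit 0) (XT.lf (nat_lit 152) (nat_lit 14914791464) (nat_lit 0) (nat_lit 222374309) (nat_lit 76) (nat_lit 222374309) (nat_lit 130) (nat_lit 1) (nat_lit 128) (nat_lit 1) (nat_lit 129) (nat_lit 1) (nat_lit 318) (nat_lit 414) (nat_lit 288)) (XT.lf (nat_lit 0) (nat_lit 4827436283) (nat_lit 0) (nat_lit 5452706450) (nat_lit 152) (nat_lit 4827436283) (nat_lit 128) (nat_lit 3) (nat_lit 128) (nat_lit 1) (nat_lit 130) (nat_lit 1) (nat_lit 319) (nat_lit 414) (nat_lit 287))))) (XT.nd (nat_lit 234) (nat_lit 304) (nat_lit 0) (XT.nd (nat_lit 78) (nat_lit 152) (nat_lit 0) (XT.lf (nat_lit 76) (nat_lit 4557479117) (nat_lit 0) (nat_lit 5152974515) (nat_lit 76) (nat_lit 5152974515) (nat_lit 128) (nat_lit 3)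 (nat_lit 127) (nat_lit 1) (nat_lit 128) (nat_lit 1) (nat_lit 320) (nat_lit 414) (nat_lit 286)) (XT.nd (nat_lit 78) (nat_lit 0) (nat_lit 0) (XT.lf (nat_lit 152) (nat_lit 14260864425) (nat_lit 0) (nat_lit 182947894) (nat_lit 76) (nat_lit 182947894) (nat_lit 127) (nat_lit 1) (nat_lit 125) (nat_lit 1) (nat_lit 126) (nat_lit 1) (nat_lit 321) (nat_lit 414) (nat_lit 285)) (XT.lf (nat_lit 0) (nat_lit 4624143310) (nat_lit 0) (nat_lit 5138554624) (nat_lit 152) (nat_lit 4624143310) (nat_lit 125) (nat_lit 3) (nat_lit 125) (nat_lit 1) (nat_lit 127) (nat_lit 1) (nat_lit 322) (nat_lit 414) (nat_lit 284)))) (XT.nd (nat_lit 156) (nat_lit 76) (nat_lit 0) (XT.nd (nat_lit 78) (nat_lit 152) (nat_lit 0) (XT.lf (nat_lit 76) (nat_lit 4391523083) (nat_lit 0) (nat_lit 4881438621) (nat_lit 76) (nat_lit 4881438621) (nat_lit 125) (nat_lit 3) (nat_lit 124) (nat_lit 1) (nat_lit 125) (nat_lit 1) (nat_lit 323) (nat_lit 414) (nat_lit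 283)) (XT.lf (nat_lit 152) (nat_lit 13628094718) (nat_lit 0) (nat_lit 150511685) (nat_lit 76) (nat_lit 150511685) (nat_lit 124) (nat_lit 1) (nat_lit 122) (nat_lit 1) (nat_lit 123) (nat_lit 1) (nat_lit 324) (nat_lit 414) (nat_lit 282))) (XT.nd (nat_lit 78) (nat_lit 76) (nat_lit 0) (XT.lf (nat_lit 0) (nat_lit 4425817510) (nat_lit 0) (nat_lit 4849024971) (nat_lit 152) (nat_lit 4425817510) (nat_lit 122) (nat_lit 3) (nat_lit 122) (nat_lit 1) (nat_lit 124) (nat_lit 1) (nat_lit 325) (nat_lit 414) (nat_lit 281)) (XT.lf (nat_lit 76) (nat_lit 4224415703) (nat_lit 0) (nat_lit 4627470428) (nat_lit 76) (nat_lit 4627470428) (nat_lit 122) (nat_lit 3) (nat_lit 121) (nat_lit 1) (nat_lit 122) (nat_lit 1) (nat_lit 326) (nat_lit 414) (nat_lit 280)))))) (XT.nd (nat_lit 468) (nat_lit 608) (nat_lit 0) (XT.nd (nat_lit 234) (nat_lit 228) (nat_lit 0) (XT.nd (nat_lit 78) (nat_lit 76) (nat_lit 0) (XT.lf (nat_lit 152) (nat_lit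 13017244645) (nat_lit 0) (nat_lit 123826336) (nat_lit 76) (nat_lit 123826336) (nat_lit 121) (nat_lit 1) (nat_lit 119) (nat_lit 1) (nat_lit 120) (nat_lit 1) (nat_lit 327) (nat_lit 414) (nat_lit 279)) (XT.nd (nat_lit 78) (nat_lit 76) (nat_lit 0) (XT.lf (nat_lit 0) (nat_lit 4233058032) (nat_lit 0) (nat_lit 4581231858) (nat_lit 152) (nat_lit 4233058032) (nat_lit 119) (nat_lit 3) (nat_lit 119) (nat_lit 1) (nat_lit 121) (nat_lit 1) (nat_lit 328) (nat_lit 414) (nat_lit 278)) (XT.lf (nat_lit 76) (nat_lit 4057817058) (nat_lit 0) (nat_lit 4389411178) (nat_lit 76) (nat_lit 4389411178) (nat_lit 119) (nat_lit 3) (nat_lit 118) (nat_lit 1) (nat_lit 119) (nat_lit 1) (nat_lit 329) (nat_lit 414) (nat_lit 277)))) (XT.nd (nat_lit 78) (nat_lit 76) (nat_lit 0) (XT.lf (nat_lit 152) (nat_lit 12428726425) (nat_lit 0) (nat_lit 101872233) (nat_lit 76) (nat_lit 101872233) (nat_lit 118) (nat_lit 1) (nat_lit 116) (nat_lit 1)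 (nat_lit 117) (nat_lit 1) (nat_lit 330) (nat_lit 414) (nat_lit 276)) (XT.nd (nat_lit 78) (nat_lit 76) (nat_lit 0) (XT.lf (nat_lit 0) (nat_lit 4046287333) (nat_lit 0) (nat_lit 4332730801) (nat_lit 152) (nat_lit 4046287333) (nat_lit 116) (nat_lit 3) (nat_lit 116) (nat_lit 1) (nat_lit 118) (nat_lit 1) (nat_lit 331) (nat_lit 414) (nat_lit 275)) (XT.lf (nat_lit 76) (nat_lit 3893023568) (nat_lit 0) (nat_lit 4165826871) (nat_lit 76) (nat_lit 4165826871) (nat_lit 116) (nat_lit 3) (nat_lit 115) (nat_lit 1) (nat_lit 116) (nat_lit 1) (nat_lit 332) (nat_lit 414) (nat_lit 274))))) (XT.nd (nat_lit 234) (nat_lit 380) (nat_lit 0) (XT.nd (nat_lit 78) (nat_lit 76) (nat_lit 0) (XT.lf (nat_lit 152) (nat_lit 11862674504) (nat_lit 0) (nat_lit 83810538) (nat_lit 76) (nat_lit 83810538) (nat_lit 115) (nat_lit 1) (nat_lit 113) (nat_lit 1) (nat_lit 114) (nat_lit 1) (nat_lit 333) (nat_lit 414) (nat_lit 273)) (XT.nd (nat_lit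 78) (nat_lit 76) (nat_lit 0) (XT.lf (nat_lit 0) (nat_lit 3865785853) (nat_lit 0) (nat_lit 4101443603) (nat_lit 152) (nat_lit 3865785853) (nat_lit 113) (nat_lit 3) (nat_lit 113) (nat_lit 1) (nat_lit 115) (nat_lit 1) (nat_lit 334) (nat_lit 414) (nat_lit 272)) (XT.lf (nat_lit 76) (nat_lit 3731035774) (nat_lit 0) (nat_lit 3955471727) (nat_lit 76) (nat_lit 3955471727) (nat_lit 113) (nat_lit 3) (nat_lit 112) (nat_lit 1) (nat_lit 113) (nat_lit 1) (nat_lit 335) (nat_lit 414) (nat_lit 271)))) (XT.nd (nat_lit 156) (nat_lit 228) (nat_lit 0) (XT.nd (nat_lit 78) (nat_lit 0) (nat_lit 0) (XT.lf (nat_lit 152) (nat_lit 11319004544) (nat_lit 0) (nat_lit 68951137) (nat_lit 76) (nat_lit 68951137) (nat_lit 112) (nat_lit 1) (nat_lit 110) (nat_lit 1) (nat_lit 111) (nat_lit 1) (nat_lit 336) (nat_lit 414) (nat_lit 270)) (XT.lf (nat_lit 0) (nat_lit 3691720399) (nat_lit 0) (nat_lit 3885596613) (nat_lit 152) (nat_lit 3691720399)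 (nat_lit 110) (nat_lit 3) (nat_lit 110) (nat_lit 1) (nat_lit 112) (nat_lit 1) (nat_lit 337) (nat_lit 414) (nat_lit 269))) (XT.nd (nat_lit 78) (nat_lit 152) (nat_lit 0) (XT.lf (nat_lit 76) (nat_lit 3572613936) (nat_lit 0) (nat_lit 3757257950) (nat_lit 76) (nat_lit 3757257950) (nat_lit 110) (nat_lit 3) (nat_lit 109) (nat_lit 1) (nat_lit 110) (nat_lit 1) (nat_lit 338) (nat_lit 414) (nat_lit 268)) (XT.lf (nat_lit 152) (nat_lit 10797461500) (nat_lit 0) (nat_lit 56726271) (nat_lit 76) (nat_lit 56726271) (nat_lit 109) (nat_lit 1) (nat_lit 107) (nat_lit 1) (nat_lit 108) (nat_lit 1) (nat_lit 339) (nat_lit 414) (nat_lit 267))))))))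
noncomputable def ec324 : XT := (XT.nd (nat_lit 1950) (nat_lit 1900) (nat_lit 0) (XT.nd (nat_lit 936) (nat_lit 912) (nat_lit 0) (XT.nd (nat_lit 468) (nat_lit 456) (nat_lit 0) (XT.nd (nat_lit 234) (nat_lit 228) (nat_lit 0) (XT.nd (nat_lit 78) (nat_lit 228) (nat_lit 0) (XT.lf (nat_lit 0) (nat_lit 3524167328) (nat_lit 0) (nat_lit 3683669769) (nat_lit 152) (nat_lit 3524167328) (nat_lit 107) (nat_lit 3) (nat_lit 107) (nat_lit 1) (nat_lit 109) (nat_lit 1) (nat_lit 340) (nat_lit 414) (nat_lit 266)) (XT.nd (nat_lit 78) (nat_lit 152) (nat_lit 0) (XT.lf (nat_lit 76) (nat_lit 3418323633) (nat_lit 0) (nat_lit 3570230720) (nat_lit 76) (nat_lit 3570230720) (nat_lit 107) (nat_lit 3) (nat_lit 106) (nat_lit 1) (nat_lit 107) (nat_lit 1) (nat_lit 341) (nat_lit 414) (nat_lit 265)) (XT.lf (nat_lit 152) (nat_lit 10297658726) (nat_lit 0) (nat_lit 46668843) (nat_lit 76) (nat_lit 46668843) (nat_lit 106) (nat_lit 1) (nat_lit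 104) (nat_lit 1) (nat_lit 105) (nat_lit 1) (nat_lit 342) (nat_lit 414) (nat_lit 264)))) (XT.nd (nat_lit 78) (nat_lit 228) (nat_lit 0) (XT.lf (nat_lit 0) (nat_lit 3363131486) (nat_lit 0) (nat_lit 3494354540) (nat_lit 152) (nat_lit 3363131486) (nat_lit 104) (nat_lit 3) (nat_lit 104) (nat_lit 1) (nat_lit 106) (nat_lit 1) (nat_lit 343) (nat_lit 414) (nat_lit 263)) (XT.nd (nat_lit 78) (nat_lit 152) (nat_lit 0) (XT.lf (nat_lit 76) (nat_lit 3268573128) (nat_lit 0) (nat_lit 3393547465) (nat_lit 76) (nat_lit 3393547465) (nat_lit 104) (nat_lit 3) (nat_lit 103) (nat_lit 1) (nat_lit 104) (nat_lit 1) (nat_lit 344) (nat_lit 414) (nat_lit 262)) (XT.lf (nat_lit 152) (nat_lit 9819109726) (nat_lit 0) (nat_lit 38394573) (nat_lit 76) (nat_lit 38394573) (nat_lit 103) (nat_lit 1) (nat_lit 101) (nat_lit 1) (nat_lit 102) (nat_lit 1) (nat_lit 345) (nat_lit 414) (nat_lit 261))))) (XT.nd (nat_lit 234) (nat_lit 228) (nat_lit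 0) (XT.nd (nat_lit 78) (nat_lit 228) (nat_lit 0) (XT.lf (nat_lit 0) (nat_lit 3208561649) (nat_lit 0) (nat_lit 3316519179) (nat_lit 152) (nat_lit 3208561649) (nat_lit 101) (nat_lit 3) (nat_lit 101) (nat_lit 1) (nat_lit 103) (nat_lit 1) (nat_lit 346) (nat_lit 414) (nat_lit 260)) (XT.nd (nat_lit 78) (nat_lit 152) (nat_lit 0) (XT.lf (nat_lit 76) (nat_lit 3123643978) (nat_lit 0) (nat_lit 3226460674) (nat_lit 76) (nat_lit 3226460674) (nat_lit 101) (nat_lit 3) (nat_lit 100) (nat_lit 1) (nat_lit 101) (nat_lit 1) (nat_lit 347) (nat_lit 414) (nat_lit 259)) (XT.lf (nat_lit 152) (nat_lit 9361253879) (nat_lit 0) (nat_lit 31587310) (nat_lit 76) (nat_lit 31587310) (nat_lit 100) (nat_lit 1) (nat_lit 98) (nat_lit 1) (nat_lit 99) (nat_lit 1) (nat_lit 348) (nat_lit 414) (nat_lit 258)))) (XT.nd (nat_lit 78) (nat_lit 228) (nat_lit 0) (XT.lf (nat_lit 0) (nat_lit 3060363087) (nat_lit 0) (nat_lit 3149180014) (nat_lit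 152) (nat_lit 3060363087) (nat_lit 98) (nat_lit 3) (nat_lit 98) (nat_lit 1) (nat_lit 100) (nat_lit 1) (nat_lit 349) (nat_lit 414) (nat_lit 257)) (XT.nd (nat_lit 78) (nat_lit 152) (nat_lit 0) (XT.lf (nat_lit 76) (nat_lit 2983716085) (nat_lit 0) (nat_lit 3068303635) (nat_lit 76) (nat_lit 3068303635) (nat_lit 98) (nat_lit 3) (nat_lit 97) (nat_lit 1) (nat_lit 98) (nat_lit 1) (nat_lit 350) (nat_lit 414) (nat_lit 256)) (XT.lf (nat_lit 152) (nat_lit 8923477217) (nat_lit 0) (nat_lit 25986958) (nat_lit 76) (nat_lit 25986958) (nat_lit 97) (nat_lit 1) (nat_lit 95) (nat_lit 1) (nat_lit 96) (nat_lit 1) (nat_lit 351) (nat_lit 414) (nat_lit 255)))))) (XT.nd (nat_lit 468) (nat_lit 456) (nat_lit 0) (XT.nd (nat_lit 234) (nat_lit 228) (nat_lit 0) (XT.nd (nat_lit 78) (nat_lit 228) (nat_lit 0) (XT.lf (nat_lit 0) (nat_lit 2918407788) (nat_lit 0) (nat_lit 2991477694) (nat_lit 152) (nat_lit 2918407788) (nat_lit 95) (nat_lit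 3) (nat_lit 95) (nat_lit 1) (nat_lit 97) (nat_lit 1) (nat_lit 352) (nat_lit 414) (nat_lit 254)) (XT.nd (nat_lit 78) (nat_lit 152) (nat_lit 0) (XT.lf (nat_lit 76) (nat_lit 2848888182) (nat_lit 0) (nat_lit 2918478569) (nat_lit 76) (nat_lit 2918478569) (nat_lit 95) (nat_lit 3) (nat_lit 94) (nat_lit 1) (nat_lit 95) (nat_lit 1) (nat_lit 353) (nat_lit 414) (nat_lit 253)) (XT.lf (nat_lit 152) (nat_lit 8505129155) (nat_lit 0) (nat_lit 21379535) (nat_lit 76) (nat_lit 21379535) (nat_lit 94) (nat_lit 1) (nat_lit 92) (nat_lit 1) (nat_lit 93) (nat_lit 1) (nat_lit 354) (nat_lit 414) (nat_lit 252)))) (XT.nd (nat_lit 78) (nat_lit 228) (nat_lit 0) (XT.lf (nat_lit 0) (nat_lit 2782542740) (nat_lit 0) (nat_lit 2842657533) (nat_lit 152) (nat_lit 2782542740) (nat_lit 92) (nat_lit 3) (nat_lit 92) (nat_lit 1) (nat_lit 94) (nat_lit 1) (nat_lit 355) (nat_lit 414) (nat_lit 251)) (XT.nd (nat_lit 78) (nat_lit 152) (nat_lit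 0) (XT.lf (nat_lit 76) (nat_lit 2719194573) (nat_lit 0) (nat_lit 2776446756) (nat_lit 76) (nat_lit 2776446756) (nat_lit 92) (nat_lit 3) (nat_lit 91) (nat_lit 1) (nat_lit 92) (nat_lit 1) (nat_lit 356) (nat_lit 414) (nat_lit 250)) (XT.lf (nat_lit 152) (nat_lit 8105535914) (nat_lit 0) (nat_lit 17588996) (nat_lit 76) (nat_lit 17588996) (nat_lit 91) (nat_lit 1) (nat_lit 89) (nat_lit 1) (nat_lit 90) (nat_lit 1) (nat_lit 357) (nat_lit 414) (nat_lit 249))))) (XT.nd (nat_lit 234) (nat_lit 228) (nat_lit 0) (XT.nd (nat_lit 78) (nat_lit 228) (nat_lit 0) (XT.lf (nat_lit 0) (nat_lit 2652596638) (nat_lit 0) (nat_lit 2702053227) (nat_lit 152) (nat_lit 2652596638) (nat_lit 89) (nat_lit 3) (nat_lit 89) (nat_lit 1) (nat_lit 91) (nat_lit 1) (nat_lit 358) (nat_lit 414) (nat_lit 248)) (XT.nd (nat_lit 78) (nat_lit 152) (nat_lit 0) (XT.lf (nat_lit 76) (nat_lit 2594618785) (nat_lit 0) (nat_lit 2641720298) (nat_lit 76)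 (nat_lit 2641720298) (nat_lit 89) (nat_lit 3) (nat_lit 88) (nat_lit 1) (nat_lit 89) (nat_lit 1) (nat_lit 359) (nat_lit 414) (nat_lit 247)) (XT.lf (nat_lit 152) (nat_lit 7724011227) (nat_lit 0) (nat_lit 14470510) (nat_lit 76) (nat_lit 14470510) (nat_lit 88) (nat_lit 1) (nat_lit 86) (nat_lit 1) (nat_lit 87) (nat_lit 1) (nat_lit 360) (nat_lit 414) (nat_lit 246)))) (XT.nd (nat_lit 156) (nat_lit 152) (nat_lit 0) (XT.nd (nat_lit 78) (nat_lit 76) (nat_lit 0) (XT.lf (nat_lit 0) (nat_lit 2528385284) (nat_lit 0) (nat_lit 2569073342) (nat_lit 152) (nat_lit 2528385284) (nat_lit 86) (nat_lit 3) (nat_lit 86) (nat_lit 1) (nat_lit 88) (nat_lit 1) (nat_lit 361) (nat_lit 414) (nat_lit 245)) (XT.lf (nat_lit 76) (nat_lit 2475104705) (nat_lit 0) (nat_lit 2513855237) (nat_lit 76) (nat_lit 2513855237) (nat_lit 86) (nat_lit 3) (nat_lit 85) (nat_lit 1) (nat_lit 86) (nat_lit 1) (nat_lit 362) (nat_lit 414) (nat_lit 244)))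 (XT.nd (nat_lit 78) (nat_lit 0) (nat_lit 0) (XT.lf (nat_lit 152) (nat_lit 7359864838) (nat_lit 0) (nat_lit 11904925) (nat_lit 76) (nat_lit 11904925) (nat_lit 85) (nat_lit 1) (nat_lit 83) (nat_lit 1) (nat_lit 84) (nat_lit 1) (nat_lit 363) (nat_lit 414) (nat_lit 243)) (XT.lf (nat_lit 0) (nat_lit 2409715941) (nat_lit 0) (nat_lit 2443190107) (nat_lit 152) (nat_lit 2409715941) (nat_lit 83) (nat_lit 3) (nat_lit 83) (nat_lit 1) (nat_lit 85) (nat_lit 1) (nat_lit 364) (nat_lit 414) (nat_lit 242))))))) (XT.nd (nat_lit 936) (nat_lit 988) (nat_lit 0) (XT.nd (nat_lit 468) (nat_lit 456) (nat_lit 0) (XT.nd (nat_lit 234) (nat_lit 228) (nat_lit 0) (XT.nd (nat_lit 78) (nat_lit 152) (nat_lit 0) (XT.lf (nat_lit 76) (nat_lit 2360565633) (nat_lit 0) (nat_lit 2392445791) (nat_lit 76) (nat_lit 2392445791) (nat_lit 83) (nat_lit 3) (nat_lit 82) (nat_lit 1) (nat_lit 83) (nat_lit 1) (nat_lit 365) (nat_lit 414) (nat_lit 241))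 (XT.nd (nat_lit 78) (nat_lit 0) (nat_lit 0) (XT.lf (nat_lit 152) (nat_lit 7012409194) (nat_lit 0) (nat_lit 9794211) (nat_lit 76) (nat_lit 9794211) (nat_lit 82) (nat_lit 1) (nat_lit 80) (nat_lit 1) (nat_lit 81) (nat_lit 1) (nat_lit 366) (nat_lit 414) (nat_lit 240)) (XT.lf (nat_lit 0) (nat_lit 2296390802) (nat_lit 0) (nat_lit 2323930081) (nat_lit 152) (nat_lit 2296390802) (nat_lit 80) (nat_lit 3) (nat_lit 80) (nat_lit 1) (nat_lit 82) (nat_lit 1) (nat_lit 367) (nat_lit 414) (nat_lit 239)))) (XT.nd (nat_lit 78) (nat_lit 152) (nat_lit 0) (XT.lf (nat_lit 76) (nat_lit 2250891632) (nat_lit 0) (nat_lit 2277119517) (nat_lit 76) (nat_lit 2277119517) (nat_lit 80) (nat_lit 3) (nat_lit 79) (nat_lit 1) (nat_lit 80) (nat_lit 1) (nat_lit 368) (nat_lit 414) (nat_lit 238)) (XT.nd (nat_lit 78) (nat_lit 0) (nat_lit 0) (XT.lf (nat_lit 152) (nat_lit 6680964663) (nat_lit 0) (nat_lit 8057721) (nat_lit 76) (nat_lit 8057721)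 (nat_lit 79) (nat_lit 1) (nat_lit 77) (nat_lit 1) (nat_lit 78) (nat_lit 1) (nat_lit 369) (nat_lit 414) (nat_lit 237)) (XT.lf (nat_lit 0) (nat_lit 2188209761) (nat_lit 0) (nat_lit 2210866394) (nat_lit 152) (nat_lit 2188209761) (nat_lit 77) (nat_lit 3) (nat_lit 77) (nat_lit 1) (nat_lit 79) (nat_lit 1) (nat_lit 370) (nat_lit 414) (nat_lit 236))))) (XT.nd (nat_lit 234) (nat_lit 228) (nat_lit 0) (XT.nd (nat_lit 78) (nat_lit 152) (nat_lit 0) (XT.lf (nat_lit 76) (nat_lit 2145955492) (nat_lit 0) (nat_lit 2167533238) (nat_lit 76) (nat_lit 2167533238) (nat_lit 77) (nat_lit 3) (nat_lit 76) (nat_lit 1) (nat_lit 77) (nat_lit 1) (nat_lit 371) (nat_lit 414) (nat_lit 235)) (XT.nd (nat_lit 78) (nat_lit 0) (nat_lit 0) (XT.lf (nat_lit 152) (nat_lit 6364863557) (nat_lit 0) (nat_lit 6629107) (nat_lit 76) (nat_lit 6629107) (nat_lit 76) (nat_lit 1) (nat_lit 74) (nat_lit 1) (nat_lit 75) (nat_lit 1) (nat_lit 372) (nat_lit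 414) (nat_lit 234)) (XT.lf (nat_lit 0) (nat_lit 2084972600) (nat_lit 0) (nat_lit 2103612269) (nat_lit 152) (nat_lit 2084972600) (nat_lit 74) (nat_lit 3) (nat_lit 74) (nat_lit 1) (nat_lit 76) (nat_lit 1) (nat_lit 373) (nat_lit 414) (nat_lit 233)))) (XT.nd (nat_lit 78) (nat_lit 152) (nat_lit 0) (XT.lf (nat_lit 76) (nat_lit 2045617538) (nat_lit 0) (nat_lit 2063369602) (nat_lit 76) (nat_lit 2063369602) (nat_lit 74) (nat_lit 3) (nat_lit 73) (nat_lit 1) (nat_lit 74) (nat_lit 1) (nat_lit 374) (nat_lit 414) (nat_lit 232)) (XT.nd (nat_lit 78) (nat_lit 0) (nat_lit 0) (XT.lf (nat_lit 152) (nat_lit 6063453185) (nat_lit 0) (nat_lit 5453783) (nat_lit 76) (nat_lit 5453783) (nat_lit 73) (nat_lit 1) (nat_lit 71) (nat_lit 1) (nat_lit 72) (nat_lit 1) (nat_lit 375) (nat_lit 414) (nat_lit 231)) (XT.lf (nat_lit 0) (nat_lit 1986480704) (nat_lit 0) (nat_lit 2001815605) (nat_lit 152) (nat_lit 1986480704) (nat_lit 71) (nat_lit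 3) (nat_lit 71) (nat_lit 1) (nat_lit 73) (nat_lit 1) (nat_lit 376) (nat_lit 414) (nat_lit 230)))))) (XT.nd (nat_lit 468) (nat_lit 532) (nat_lit 0) (XT.nd (nat_lit 234) (nat_lit 228) (nat_lit 0) (XT.nd (nat_lit 78) (nat_lit 152) (nat_lit 0) (XT.lf (nat_lit 76) (nat_lit 1949729509) (nat_lit 0) (nat_lit 1964334177) (nat_lit 76) (nat_lit 1964334177) (nat_lit 71) (nat_lit 3) (nat_lit 70) (nat_lit 1) (nat_lit 71) (nat_lit 1) (nat_lit 377) (nat_lit 414) (nat_lit 229)) (XT.nd (nat_lit 78) (nat_lit 0) (nat_lit 0) (XT.lf (nat_lit 152) (nat_lit 5776098118) (nat_lit 0) (nat_lit 4486841) (nat_lit 76) (nat_lit 4486841) (nat_lit 70) (nat_lit 1) (nat_lit 68) (nat_lit 1) (nat_lit 69) (nat_lit 1) (nat_lit 378) (nat_lit 414) (nat_lit 228)) (XT.lf (nat_lit 0) (nat_lit 1892538386) (nat_lit 0) (nat_lit 1905154448) (nat_lit 152) (nat_lit 1892538386) (nat_lit 68) (nat_lit 3) (nat_lit 68) (nat_lit 1) (nat_lit 70) (nat_lit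 1) (nat_lit 379) (nat_lit 414) (nat_lit 227)))) (XT.nd (nat_lit 78) (nat_lit 152) (nat_lit 0) (XT.lf (nat_lit 76) (nat_lit 1858137672) (nat_lit 0) (nat_lit 1870152968) (nat_lit 76) (nat_lit 1870152968) (nat_lit 68) (nat_lit 3) (nat_lit 67) (nat_lit 1) (nat_lit 68) (nat_lit 1) (nat_lit 380) (nat_lit 414) (nat_lit 226)) (XT.nd (nat_lit 78) (nat_lit 0) (nat_lit 0) (XT.lf (nat_lit 152) (nat_lit 5502181813) (nat_lit 0) (nat_lit 3691335) (nat_lit 76) (nat_lit 3691335) (nat_lit 67) (nat_lit 1) (nat_lit 65) (nat_lit 1) (nat_lit 66) (nat_lit 1) (nat_lit 381) (nat_lit 414) (nat_lit 225)) (XT.lf (nat_lit 0) (nat_lit 1802953915) (nat_lit 0) (nat_lit 1813333179) (nat_lit 152) (nat_lit 1802953915) (nat_lit 65) (nat_lit 3) (nat_lit 65) (nat_lit 1) (nat_lit 67) (nat_lit 1) (nat_lit 382) (nat_lit 414) (nat_lit 224))))) (XT.nd (nat_lit 234) (nat_lit 304) (nat_lit 0) (XT.nd (nat_lit 78) (nat_lit 152) (nat_lit 0)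 (XT.lf (nat_lit 76) (nat_lit 1770685299) (nat_lit 0) (nat_lit 1780570313) (nat_lit 76) (nat_lit 1780570313) (nat_lit 65) (nat_lit 3) (nat_lit 64) (nat_lit 1) (nat_lit 65) (nat_lit 1) (nat_lit 383) (nat_lit 414) (nat_lit 223)) (XT.nd (nat_lit 78) (nat_lit 0) (nat_lit 0) (XT.lf (nat_lit 152) (nat_lit 5241107734) (nat_lit 0) (nat_lit 3036870) (nat_lit 76) (nat_lit 3036870) (nat_lit 64) (nat_lit 1) (nat_lit 62) (nat_lit 1) (nat_lit 63) (nat_lit 1) (nat_lit 384) (nat_lit 414) (nat_lit 222)) (XT.lf (nat_lit 0) (nat_lit 1717540267) (nat_lit 0) (nat_lit 1726079314) (nat_lit 152) (nat_lit 1717540267) (nat_lit 62) (nat_lit 3) (nat_lit 62) (nat_lit 1) (nat_lit 64) (nat_lit 1) (nat_lit 385) (nat_lit 414) (nat_lit 221)))) (XT.nd (nat_lit 156) (nat_lit 76) (nat_lit 0) (XT.nd (nat_lit 78) (nat_lit 152) (nat_lit 0) (XT.lf (nat_lit 76) (nat_lit 1687214642) (nat_lit 0) (nat_lit 1695347067) (nat_lit 76) (nat_lit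 1695347067) (nat_lit 62) (nat_lit 3) (nat_lit 61) (nat_lit 1) (nat_lit 62) (nat_lit 1) (nat_lit 386) (nat_lit 414) (nat_lit 220)) (XT.lf (nat_lit 152) (nat_lit 4992300056) (nat_lit 0) (nat_lit 2498441) (nat_lit 76) (nat_lit 2498441) (nat_lit 61) (nat_lit 1) (nat_lit 59) (nat_lit 1) (nat_lit 60) (nat_lit 1) (nat_lit 387) (nat_lit 414) (nat_lit 219))) (XT.nd (nat_lit 78) (nat_lit 76) (nat_lit 0) (XT.lf (nat_lit 0) (nat_lit 1636115695) (nat_lit 0) (nat_lit 1643140789) (nat_lit 152) (nat_lit 1636115695) (nat_lit 59) (nat_lit 3) (nat_lit 59) (nat_lit 1) (nat_lit 61) (nat_lit 1) (nat_lit 388) (nat_lit 414) (nat_lit 218)) (XT.lf (nat_lit 76) (nat_lit 1607568484) (nat_lit 0) (nat_lit 1614259051) (nat_lit 76) (nat_lit 1614259051) (nat_lit 59) (nat_lit 3) (nat_lit 58) (nat_lit 1) (nat_lit 59) (nat_lit 1) (nat_lit 389) (nat_lit 414) (nat_lit 217))))))))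
noncomputable def ec325 : XT := (XT.nd (nat_lit 1950) (nat_lit 1900) (nat_lit 0) (XT.nd (nat_lit 936) (nat_lit 1064) (nat_lit 0) (XT.nd (nat_lit 468) (nat_lit 456) (nat_lit 0) (XT.nd (nat_lit 234) (nat_lit 228) (nat_lit 0) (XT.nd (nat_lit 78) (nat_lit 76) (nat_lit 0) (XT.lf (nat_lit 152) (nat_lit 4755204041) (nat_lit 0) (nat_lit 2055473) (nat_lit 76) (nat_lit 2055473) (nat_lit 58) (nat_lit 1) (nat_lit 56) (nat_lit 1) (nat_lit 57) (nat_lit 1) (nat_lit 390) (nat_lit 414) (nat_lit 216)) (XT.nd (nat_lit 78) (nat_lit 76) (nat_lit 0) (XT.lf (nat_lit 0) (nat_lit 1558504113) (nat_lit 0) (nat_lit 1564283676) (nat_lit 152) (nat_lit 1558504113) (nat_lit 56) (nat_lit 3) (nat_lit 56) (nat_lit 1) (nat_lit 58) (nat_lit 1) (nat_lit 391) (nat_lit 414) (nat_lit 215)) (XT.lf (nat_lit 76) (nat_lit 1531591355) (nat_lit 0) (nat_lit 1537095700) (nat_lit 76) (nat_lit 1537095700) (nat_lit 56) (nat_lit 3) (nat_lit 55) (nat_lit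 1) (nat_lit 56) (nat_lit 1) (nat_lit 392) (nat_lit 414) (nat_lit 214)))) (XT.nd (nat_lit 78) (nat_lit 76) (nat_lit 0) (XT.lf (nat_lit 152) (nat_lit 4529286162) (nat_lit 0) (nat_lit 1691043) (nat_lit 76) (nat_lit 1691043) (nat_lit 55) (nat_lit 1) (nat_lit 53) (nat_lit 1) (nat_lit 54) (nat_lit 1) (nat_lit 393) (nat_lit 414) (nat_lit 213)) (XT.nd (nat_lit 78) (nat_lit 76) (nat_lit 0) (XT.lf (nat_lit 0) (nat_lit 1484535364) (nat_lit 0) (nat_lit 1489290225) (nat_lit 152) (nat_lit 1484535364) (nat_lit 53) (nat_lit 3) (nat_lit 53) (nat_lit 1) (nat_lit 55) (nat_lit 1) (nat_lit 394) (nat_lit 414) (nat_lit 212)) (XT.lf (nat_lit 76) (nat_lit 1459130459) (nat_lit 0) (nat_lit 1463658898) (nat_lit 76) (nat_lit 1463658898) (nat_lit 53) (nat_lit 3) (nat_lit 52) (nat_lit 1) (nat_lit 53) (nat_lit 1) (nat_lit 395) (nat_lit 414) (nat_lit 211))))) (XT.nd (nat_lit 234) (nat_lit 228) (nat_lit 0) (XT.nd (nat_lit 78) (nat_lit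 76) (nat_lit 0) (XT.lf (nat_lit 152) (nat_lit 4314034010) (nat_lit 0) (nat_lit 1391225) (nat_lit 76) (nat_lit 1391225) (nat_lit 52) (nat_lit 1) (nat_lit 50) (nat_lit 1) (nat_lit 51) (nat_lit 1) (nat_lit 396) (nat_lit 414) (nat_lit 210)) (XT.nd (nat_lit 78) (nat_lit 76) (nat_lit 0) (XT.lf (nat_lit 0) (nat_lit 1414045369) (nat_lit 0) (nat_lit 1417957205) (nat_lit 152) (nat_lit 1414045369) (nat_lit 50) (nat_lit 3) (nat_lit 50) (nat_lit 1) (nat_lit 52) (nat_lit 1) (nat_lit 397) (nat_lit 414) (nat_lit 209)) (XT.lf (nat_lit 76) (nat_lit 1390036393) (nat_lit 0) (nat_lit 1393761951) (nat_lit 76) (nat_lit 1393761951) (nat_lit 50) (nat_lit 3) (nat_lit 49) (nat_lit 1) (nat_lit 50) (nat_lit 1) (nat_lit 398) (nat_lit 414) (nat_lit 208)))) (XT.nd (nat_lit 78) (nat_lit 76) (nat_lit 0) (XT.lf (nat_lit 152) (nat_lit 4108956052) (nat_lit 0) (nat_lit 1144564) (nat_lit 76) (nat_lit 1144564) (nat_lit 49) (nat_lit 1)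 (nat_lit 47) (nat_lit 1) (nat_lit 48) (nat_lit 1) (nat_lit 399) (nat_lit 414) (nat_lit 207)) (XT.nd (nat_lit 78) (nat_lit 76) (nat_lit 0) (XT.lf (nat_lit 0) (nat_lit 1346876197) (nat_lit 0) (nat_lit 1350094474) (nat_lit 152) (nat_lit 1346876197) (nat_lit 47) (nat_lit 3) (nat_lit 47) (nat_lit 1) (nat_lit 49) (nat_lit 1) (nat_lit 400) (nat_lit 414) (nat_lit 206)) (XT.lf (nat_lit 76) (nat_lit 1324163669) (nat_lit 0) (nat_lit 1327228695) (nat_lit 76) (nat_lit 1327228695) (nat_lit 47) (nat_lit 3) (nat_lit 46) (nat_lit 1) (nat_lit 47) (nat_lit 1) (nat_lit 401) (nat_lit 414) (nat_lit 205)))))) (XT.nd (nat_lit 468) (nat_lit 608) (nat_lit 0) (XT.nd (nat_lit 234) (nat_lit 228) (nat_lit 0) (XT.nd (nat_lit 78) (nat_lit 76) (nat_lit 0) (XT.lf (nat_lit 152) (nat_lit 3913581261) (nat_lit 0) (nat_lit 941636) (nat_lit 76) (nat_lit 941636) (nat_lit 46) (nat_lit 1) (nat_lit 44) (nat_lit 1) (nat_lit 45) (nat_lit 1)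 (nat_lit 402) (nat_lit 414) (nat_lit 204)) (XT.nd (nat_lit 78) (nat_lit 76) (nat_lit 0) (XT.lf (nat_lit 0) (nat_lit 1282876068) (nat_lit 0) (nat_lit 1285523753) (nat_lit 152) (nat_lit 1282876068) (nat_lit 44) (nat_lit 3) (nat_lit 44) (nat_lit 1) (nat_lit 46) (nat_lit 1) (nat_lit 403) (nat_lit 414) (nat_lit 203)) (XT.lf (nat_lit 76) (nat_lit 1261371098) (nat_lit 0) (nat_lit 1263892702) (nat_lit 76) (nat_lit 1263892702) (nat_lit 44) (nat_lit 3) (nat_lit 43) (nat_lit 1) (nat_lit 44) (nat_lit 1) (nat_lit 404) (nat_lit 414) (nat_lit 202)))) (XT.nd (nat_lit 78) (nat_lit 76) (nat_lit 0) (XT.lf (nat_lit 152) (nat_lit 3727458654) (nat_lit 0) (nat_lit 774686) (nat_lit 76) (nat_lit 774686) (nat_lit 43) (nat_lit 1) (nat_lit 41) (nat_lit 1) (nat_lit 42) (nat_lit 1) (nat_lit 405) (nat_lit 414) (nat_lit 201)) (XT.nd (nat_lit 78) (nat_lit 76) (nat_lit 0) (XT.lf (nat_lit 0) (nat_lit 1221899305) (nat_lit 0) (nat_lit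 1224077561) (nat_lit 152) (nat_lit 1221899305) (nat_lit 41) (nat_lit 3) (nat_lit 41) (nat_lit 1) (nat_lit 43) (nat_lit 1) (nat_lit 406) (nat_lit 414) (nat_lit 200)) (XT.lf (nat_lit 76) (nat_lit 1201522048) (nat_lit 0) (nat_lit 1203596578) (nat_lit 76) (nat_lit 1203596578) (nat_lit 41) (nat_lit 3) (nat_lit 40) (nat_lit 1) (nat_lit 41) (nat_lit 1) (nat_lit 407) (nat_lit 414) (nat_lit 199))))) (XT.nd (nat_lit 234) (nat_lit 380) (nat_lit 0) (XT.nd (nat_lit 78) (nat_lit 76) (nat_lit 0) (XT.lf (nat_lit 152) (nat_lit 3550156759) (nat_lit 0) (nat_lit 637336) (nat_lit 76) (nat_lit 637336) (nat_lit 40) (nat_lit 1) (nat_lit 38) (nat_lit 1) (nat_lit 39) (nat_lit 1) (nat_lit 408) (nat_lit 414) (nat_lit 198)) (XT.nd (nat_lit 78) (nat_lit 76) (nat_lit 0) (XT.lf (nat_lit 0) (nat_lit 1163806237) (nat_lit 0) (nat_lit 1165598294) (nat_lit 152) (nat_lit 1163806237) (nat_lit 38) (nat_lit 3) (nat_lit 38) (nat_lit 1)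 (nat_lit 40) (nat_lit 1) (nat_lit 409) (nat_lit 414) (nat_lit 197)) (XT.lf (nat_lit 76) (nat_lit 1144484614) (nat_lit 0) (nat_lit 1146191335) (nat_lit 76) (nat_lit 1146191335) (nat_lit 38) (nat_lit 3) (nat_lit 37) (nat_lit 1) (nat_lit 38) (nat_lit 1) (nat_lit 410) (nat_lit 414) (nat_lit 196)))) (XT.nd (nat_lit 156) (nat_lit 228) (nat_lit 0) (XT.nd (nat_lit 78) (nat_lit 0) (nat_lit 0) (XT.lf (nat_lit 152) (nat_lit 3381263037) (nat_lit 0) (nat_lit 524338) (nat_lit 76) (nat_lit 524338) (nat_lit 37) (nat_lit 1) (nat_lit 35) (nat_lit 1) (nat_lit 36) (nat_lit 1) (nat_lit 411) (nat_lit 414) (nat_lit 195)) (XT.lf (nat_lit 0) (nat_lit 1108463087) (nat_lit 0) (nat_lit 1109937416) (nat_lit 152) (nat_lit 1108463087) (nat_lit 35) (nat_lit 3) (nat_lit 35) (nat_lit 1) (nat_lit 37) (nat_lit 1) (nat_lit 412) (nat_lit 414) (nat_lit 194))) (XT.nd (nat_lit 78) (nat_lit 152) (nat_lit 0) (XT.lf (nat_lit 76) (nat_lit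 1090131707) (nat_lit 0) (nat_lit 1091535830) (nat_lit 76) (nat_lit 1091535830) (nat_lit 35) (nat_lit 3) (nat_lit 34) (nat_lit 1) (nat_lit 35) (nat_lit 1) (nat_lit 413) (nat_lit 414) (nat_lit 193)) (XT.lf (nat_lit 152) (nat_lit 3220383264) (nat_lit 0) (nat_lit 431374) (nat_lit 76) (nat_lit 431374) (nat_lit 34) (nat_lit 1) (nat_lit 32) (nat_lit 1) (nat_lit 33) (nat_lit 1) (nat_lit 414) (nat_lit 414) (nat_lit 192))))))) (XT.nd (nat_lit 1014) (nat_lit 988) (nat_lit 0) (XT.nd (nat_lit 468) (nat_lit 456) (nat_lit 0) (XT.nd (nat_lit 234) (nat_lit 228) (nat_lit 0) (XT.nd (nat_lit 78) (nat_lit 228) (nat_lit 0) (XT.lf (nat_lit 0) (nat_lit 1055741815) (nat_lit 0) (nat_lit 1056954750) (nat_lit 152) (nat_lit 1055741815) (nat_lit 32) (nat_lit 3) (nat_lit 32) (nat_lit 1) (nat_lit 34) (nat_lit 1) (nat_lit 415) (nat_lit 414) (nat_lit 191)) (XT.nd (nat_lit 78) (nat_lit 152) (nat_lit 0) (XT.lf (nat_lit 76) (nat_lit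 1038341084) (nat_lit 0) (nat_lit 1039496260) (nat_lit 76) (nat_lit 1039496260) (nat_lit 32) (nat_lit 3) (nat_lit 31) (nat_lit 1) (nat_lit 32) (nat_lit 1) (nat_lit 416) (nat_lit 414) (nat_lit 190)) (XT.lf (nat_lit 152) (nat_lit 3067140896) (nat_lit 0) (nat_lit 354892) (nat_lit 76) (nat_lit 354892) (nat_lit 31) (nat_lit 1) (nat_lit 29) (nat_lit 1) (nat_lit 30) (nat_lit 1) (nat_lit 417) (nat_lit 414) (nat_lit 189)))) (XT.nd (nat_lit 78) (nat_lit 228) (nat_lit 0) (XT.lf (nat_lit 0) (nat_lit 1005519966) (nat_lit 0) (nat_lit 1006517851) (nat_lit 152) (nat_lit 1005519966) (nat_lit 29) (nat_lit 3) (nat_lit 29) (nat_lit 1) (nat_lit 31) (nat_lit 1) (nat_lit 418) (nat_lit 414) (nat_lit 188)) (XT.nd (nat_lit 78) (nat_lit 152) (nat_lit 0) (XT.lf (nat_lit 76) (nat_lit 988995333) (nat_lit 0) (nat_lit 989945699) (nat_lit 76) (nat_lit 989945699) (nat_lit 29) (nat_lit 3) (nat_lit 28) (nat_lit 1) (nat_lit 29) (nat_lit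 1) (nat_lit 419) (nat_lit 414) (nat_lit 187)) (XT.lf (nat_lit 152) (nat_lit 2921176420) (nat_lit 0) (nat_lit 291971) (nat_lit 76) (nat_lit 291971) (nat_lit 28) (nat_lit 1) (nat_lit 26) (nat_lit 1) (nat_lit 27) (nat_lit 1) (nat_lit 420) (nat_lit 414) (nat_lit 186))))) (XT.nd (nat_lit 234) (nat_lit 228) (nat_lit 0) (XT.nd (nat_lit 78) (nat_lit 228) (nat_lit 0) (XT.lf (nat_lit 0) (nat_lit 957680491) (nat_lit 0) (nat_lit 958501453) (nat_lit 152) (nat_lit 957680491) (nat_lit 26) (nat_lit 3) (nat_lit 26) (nat_lit 1) (nat_lit 28) (nat_lit 1) (nat_lit 421) (nat_lit 414) (nat_lit 185)) (XT.nd (nat_lit 78) (nat_lit 152) (nat_lit 0) (XT.lf (nat_lit 76) (nat_lit 941981815) (nat_lit 0) (nat_lit 942763684) (nat_lit 76) (nat_lit 942763684) (nat_lit 26) (nat_lit 3) (nat_lit 25) (nat_lit 1) (nat_lit 26) (nat_lit 1) (nat_lit 422) (nat_lit 414) (nat_lit 184)) (XT.lf (nat_lit 152) (nat_lit 2782146703) (nat_lit 0)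 (nat_lit 240205) (nat_lit 76) (nat_lit 240205) (nat_lit 25) (nat_lit 1) (nat_lit 23) (nat_lit 1) (nat_lit 24) (nat_lit 1) (nat_lit 423) (nat_lit 414) (nat_lit 183)))) (XT.nd (nat_lit 156) (nat_lit 152) (nat_lit 0) (XT.nd (nat_lit 78) (nat_lit 76) (nat_lit 0) (XT.lf (nat_lit 0) (nat_lit 912111563) (nat_lit 0) (nat_lit 912786970) (nat_lit 152) (nat_lit 912111563) (nat_lit 23) (nat_lit 3) (nat_lit 23) (nat_lit 1) (nat_lit 25) (nat_lit 1) (nat_lit 424) (nat_lit 414) (nat_lit 182)) (XT.lf (nat_lit 76) (nat_lit 897192588) (nat_lit 0) (nat_lit 897835833) (nat_lit 76) (nat_lit 897835833) (nat_lit 23) (nat_lit 3) (nat_lit 22) (nat_lit 1) (nat_lit 23) (nat_lit 1) (nat_lit 425) (nat_lit 414) (nat_lit 181))) (XT.nd (nat_lit 78) (nat_lit 0) (nat_lit 0) (XT.lf (nat_lit 152) (nat_lit 2649724342) (nat_lit 0) (nat_lit 197617) (nat_lit 76) (nat_lit 197617) (nat_lit 22) (nat_lit 1) (nat_lit 20) (nat_lit 1) (nat_lit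 21) (nat_lit 1) (nat_lit 426) (nat_lit 414) (nat_lit 180)) (XT.lf (nat_lit 0) (nat_lit 868706396) (nat_lit 0) (nat_lit 869262055) (nat_lit 152) (nat_lit 868706396) (nat_lit 20) (nat_lit 3) (nat_lit 20) (nat_lit 1) (nat_lit 22) (nat_lit 1) (nat_lit 427) (nat_lit 414) (nat_lit 179)))))) (XT.nd (nat_lit 468) (nat_lit 532) (nat_lit 0) (XT.nd (nat_lit 234) (nat_lit 228) (nat_lit 0) (XT.nd (nat_lit 78) (nat_lit 152) (nat_lit 0) (XT.lf (nat_lit 76) (nat_lit 854524293) (nat_lit 0) (nat_lit 855053492) (nat_lit 76) (nat_lit 855053492) (nat_lit 20) (nat_lit 3) (nat_lit 19) (nat_lit 1) (nat_lit 20) (nat_lit 1) (nat_lit 428) (nat_lit 414) (nat_lit 178)) (XT.nd (nat_lit 78) (nat_lit 0) (nat_lit 0) (XT.lf (nat_lit 152) (nat_lit 2523597026) (nat_lit 0) (nat_lit 162580) (nat_lit 76) (nat_lit 162580) (nat_lit 19) (nat_lit 1) (nat_lit 17) (nat_lit 1) (nat_lit 18) (nat_lit 1) (nat_lit 429) (nat_lit 414) (nat_lit 177))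 (XT.lf (nat_lit 0) (nat_lit 827363050) (nat_lit 0) (nat_lit 827820192) (nat_lit 152) (nat_lit 827363050) (nat_lit 17) (nat_lit 3) (nat_lit 17) (nat_lit 1) (nat_lit 19) (nat_lit 1) (nat_lit 430) (nat_lit 414) (nat_lit 176)))) (XT.nd (nat_lit 78) (nat_lit 152) (nat_lit 0) (XT.lf (nat_lit 76) (nat_lit 813878041) (nat_lit 0) (nat_lit 814313415) (nat_lit 76) (nat_lit 814313415) (nat_lit 17) (nat_lit 3) (nat_lit 16) (nat_lit 1) (nat_lit 17) (nat_lit 1) (nat_lit 431) (nat_lit 414) (nat_lit 175)) (XT.nd (nat_lit 78) (nat_lit 0) (nat_lit 0) (XT.lf (nat_lit 152) (nat_lit 2403466901) (nat_lit 0) (nat_lit 133755) (nat_lit 76) (nat_lit 133755) (nat_lit 16) (nat_lit 1) (nat_lit 14) (nat_lit 1) (nat_lit 15) (nat_lit 1) (nat_lit 432) (nat_lit 414) (nat_lit 174)) (XT.lf (nat_lit 0) (nat_lit 787984246) (nat_lit 0) (nat_lit 788360338) (nat_lit 152) (nat_lit 787984246) (nat_lit 14) (nat_lit 3) (nat_lit 14) (nat_lit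 1) (nat_lit 16) (nat_lit 1) (nat_lit 433) (nat_lit 414) (nat_lit 173))))) (XT.nd (nat_lit 234) (nat_lit 304) (nat_lit 0) (XT.nd (nat_lit 78) (nat_lit 152) (nat_lit 0) (XT.lf (nat_lit 76) (nat_lit 775159280) (nat_lit 0) (nat_lit 775517463) (nat_lit 76) (nat_lit 775517463) (nat_lit 14) (nat_lit 3) (nat_lit 13) (nat_lit 1) (nat_lit 14) (nat_lit 1) (nat_lit 434) (nat_lit 414) (nat_lit 172)) (XT.nd (nat_lit 78) (nat_lit 0) (nat_lit 0) (XT.lf (nat_lit 152) (nat_lit 2289049961) (nat_lit 0) (nat_lit 110040) (nat_lit 76) (nat_lit 110040) (nat_lit 13) (nat_lit 1) (nat_lit 11) (nat_lit 1) (nat_lit 12) (nat_lit 1) (nat_lit 435) (nat_lit 414) (nat_lit 171)) (XT.lf (nat_lit 0) (nat_lit 750477177) (nat_lit 0) (nat_lit 750786589) (nat_lit 152) (nat_lit 750477177) (nat_lit 11) (nat_lit 3) (nat_lit 11) (nat_lit 1) (nat_lit 13) (nat_lit 1) (nat_lit 436) (nat_lit 414) (nat_lit 170)))) (XT.nd (nat_lit 156) (nat_lit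 76) (nat_lit 0) (XT.nd (nat_lit 78) (nat_lit 152) (nat_lit 0) (XT.lf (nat_lit 76) (nat_lit 738277649) (nat_lit 0) (nat_lit 738572327) (nat_lit 76) (nat_lit 738572327) (nat_lit 11) (nat_lit 3) (nat_lit 10) (nat_lit 1) (nat_lit 11) (nat_lit 1) (nat_lit 437) (nat_lit 414) (nat_lit 169)) (XT.lf (nat_lit 152) (nat_lit 2180075442) (nat_lit 0) (nat_lit 90530) (nat_lit 76) (nat_lit 90530) (nat_lit 10) (nat_lit 1) (nat_lit 8) (nat_lit 1) (nat_lit 9) (nat_lit 1) (nat_lit 438) (nat_lit 414) (nat_lit 168))) (XT.nd (nat_lit 78) (nat_lit 76) (nat_lit 0) (XT.lf (nat_lit 0) (nat_lit 714753324) (nat_lit 0) (nat_lit 715007878) (nat_lit 152) (nat_lit 714753324) (nat_lit 8) (nat_lit 3) (nat_lit 8) (nat_lit 1) (nat_lit 10) (nat_lit 1) (nat_lit 439) (nat_lit 414) (nat_lit 167)) (XT.lf (nat_lit 76) (nat_lit 703146840) (nat_lit 0) (nat_lit 703389273) (nat_lit 76) (nat_lit 703389273) (nat_lit 8) (nat_lit 3) (nat_lit 7)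 (nat_lit 1) (nat_lit 8) (nat_lit 1) (nat_lit 440) (nat_lit 414) (nat_lit 166))))))))
noncomputable def ec326 : XT := (XT.nd (nat_lit 35334) (nat_lit 0) (nat_lit 15732) (XT.nd (nat_lit 34320) (nat_lit 0) (nat_lit 19152) (XT.nd (nat_lit 33852) (nat_lit 0) (nat_lit 21964) (XT.nd (nat_lit 33618) (nat_lit 0) (nat_lit 21812) (XT.nd (nat_lit 78) (nat_lit 0) (nat_lit 0) (XT.lf (nat_lit 152) (nat_lit 2076285247) (nat_lit 0) (nat_lit 74479) (nat_lit 76) (nat_lit 74479) (nat_lit 7) (nat_lit 1) (nat_lit 5) (nat_lit 1) (nat_lit 6) (nat_lit 1) (nat_lit 441) (nat_lit 414) (nat_lit 165)) (XT.nd (nat_lit 33462) (nat_lit 0) (nat_lit 21812) (XT.lf (nat_lit 0) (nat_lit 680728274) (nat_lit 0) (nat_lit 680937696) (nat_lit 152) (nat_lit 680728274) (nat_lit 5) (nat_lit 3) (nat_lit 5) (nat_lit 1) (nat_lit 7) (nat_lit 1) (nat_lit 442) (nat_lit 414) (nat_lit 164)) (XT.lf (nat_lit 836) (nat_lit 20866379861) (nat_lit 0) (nat_lit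 37048209480) (nat_lit 836) (nat_lit 20866379861) (nat_lit 303) (nat_lit 1) (nat_lit 292) (nat_lit 0) (nat_lit 303) (nat_lit 0) (nat_lit 190) (nat_lit 415) (nat_lit 415)))) (XT.nd (nat_lit 78) (nat_lit 0) (nat_lit 76) (XT.lf (nat_lit 836) (nat_lit 80880693406) (nat_lit 76) (nat_lit 36450657714) (nat_lit 0) (nat_lit 36450657714) (nat_lit 303) (nat_lit 1) (nat_lit 293) (nat_lit 1) (nat_lit 292) (nat_lit 0) (nat_lit 191) (nat_lit 415) (nat_lit 414)) (XT.nd (nat_lit 78) (nat_lit 0) (nat_lit 0) (XT.lf (nat_lit 836) (nat_lit 38546520657) (nat_lit 0) (nat_lit 73025895881) (nat_lit 760) (nat_lit 38546520657) (nat_lit 304) (nat_lit 1) (nat_lit 293) (nat_lit 1) (nat_lit 303) (nat_lit 1) (nat_lit 192) (nat_lit 415) (nat_lit 413)) (XT.lf (nat_lit 836) (nat_lit 72307916580) (nat_lit 76) (nat_lit 37133146742) (nat_lit 0) (nat_lit 37133146742) (nat_lit 304) (nat_lit 1) (nat_lit 294) (nat_lit 1) (nat_lit 293) (nat_lit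 1) (nat_lit 193) (nat_lit 415) (nat_lit 412))))) (XT.nd (nat_lit 234) (nat_lit 0) (nat_lit 76) (XT.nd (nat_lit 78) (nat_lit 0) (nat_lit 0) (XT.lf (nat_lit 836) (nat_lit 33282639622) (nat_lit 0) (nat_lit 76576553754) (nat_lit 760) (nat_lit 33282639622) (nat_lit 305) (nat_lit 1) (nat_lit 294) (nat_lit 1) (nat_lit 304) (nat_lit 1) (nat_lit 194) (nat_lit 415) (nat_lit 411)) (XT.nd (nat_lit 78) (nat_lit 0) (nat_lit 76) (XT.lf (nat_lit 836) (nat_lit 59860995125) (nat_lit 76) (nat_lit 39976546390) (nat_lit 0) (nat_lit 39976546390) (nat_lit 305) (nat_lit 1) (nat_lit 295) (nat_lit 1) (nat_lit 294) (nat_lit 1) (nat_lit 195) (nat_lit 415) (nat_lit 410)) (XT.lf (nat_lit 836) (nat_lit 26247317420) (nat_lit 0) (nat_lit 84103442126) (nat_lit 760) (nat_lit 26247317420) (nat_lit 306) (nat_lit 1) (nat_lit 295) (nat_lit 1) (nat_lit 305) (nat_lit 1) (nat_lit 196) (nat_lit 415) (nat_lit 409)))) (XT.nd (nat_lit 78)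 (nat_lit 0) (nat_lit 76) (XT.lf (nat_lit 836) (nat_lit 44122546487) (nat_lit 76) (nat_lit 44674033671) (nat_lit 0) (nat_lit 44674033671) (nat_lit 306) (nat_lit 1) (nat_lit 296) (nat_lit 1) (nat_lit 295) (nat_lit 1) (nat_lit 197) (nat_lit 415) (nat_lit 408)) (XT.nd (nat_lit 78) (nat_lit 0) (nat_lit 0) (XT.lf (nat_lit 836) (nat_lit 17712904286) (nat_lit 0) (nat_lit 95031825107) (nat_lit 760) (nat_lit 17712904286) (nat_lit 307) (nat_lit 1) (nat_lit 296) (nat_lit 1) (nat_lit 306) (nat_lit 1) (nat_lit 198) (nat_lit 415) (nat_lit 407)) (XT.lf (nat_lit 836) (nat_lit 25610429663) (nat_lit 76) (nat_lit 50952354999) (nat_lit 0) (nat_lit 50952354999) (nat_lit 307) (nat_lit 1) (nat_lit 297) (nat_lit 1) (nat_lit 296) (nat_lit 1) (nat_lit 199) (nat_lit 415) (nat_lit 406)))))) (XT.nd (nat_lit 468) (nat_lit 1368) (nat_lit 0) (XT.nd (nat_lit 234) (nat_lit 380) (nat_lit 0) (XT.nd (nat_lit 78) (nat_lit 1292) (nat_lit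 0) (XT.lf (nat_lit 76) (nat_lit 7921303319) (nat_lit 0) (nat_lit 108850165236) (nat_lit 760) (nat_lit 7921303319) (nat_lit 298) (nat_lit 1) (nat_lit 297) (nat_lit 1) (nat_lit 307) (nat_lit 1) (nat_lit 200) (nat_lit 415) (nat_lit 405)) (XT.nd (nat_lit 78) (nat_lit 532) (nat_lit 0) (XT.lf (nat_lit 836) (nat_lit 4784270219) (nat_lit 0) (nat_lit 58568465030) (nat_lit 760) (nat_lit 58568465030) (nat_lit 298) (nat_lit 1) (nat_lit 287) (nat_lit 1) (nat_lit 297) (nat_lit 1) (nat_lit 201) (nat_lit 415) (nat_lit 404)) (XT.lf (nat_lit 532) (nat_lit 113536757460) (nat_lit 0) (nat_lit 2865971565) (nat_lit 456) (nat_lit 2865971565) (nat_lit 287) (nat_lit 1) (nat_lit 280) (nat_lit 1) (nat_lit 286) (nat_lit 1) (nat_lit 202) (nat_lit 415) (nat_lit 403)))) (XT.nd (nat_lit 78) (nat_lit 380) (nat_lit 0) (XT.lf (nat_lit 76) (nat_lit 49638072757) (nat_lit 0) (nat_lit 17374176601) (nat_lit 532) (nat_lit 49638072757)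 (nat_lit 281) (nat_lit 1) (nat_lit 280) (nat_lit 1) (nat_lit 287) (nat_lit 1) (nat_lit 203) (nat_lit 415) (nat_lit 402)) (XT.nd (nat_lit 78) (nat_lit 0) (nat_lit 0) (XT.lf (nat_lit 456) (nat_lit 85414381675) (nat_lit 0) (nat_lit 14364451217) (nat_lit 380) (nat_lit 14364451217) (nat_lit 281) (nat_lit 1) (nat_lit 275) (nat_lit 1) (nat_lit 280) (nat_lit 1) (nat_lit 204) (nat_lit 415) (nat_lit 401)) (XT.lf (nat_lit 76) (nat_lit 35406233031) (nat_lit 0) (nat_lit 40876484909) (nat_lit 456) (nat_lit 35406233031) (nat_lit 276) (nat_lit 1) (nat_lit 275) (nat_lit 1) (nat_lit 281) (nat_lit 1) (nat_lit 205) (nat_lit 415) (nat_lit 400))))) (XT.nd (nat_lit 234) (nat_lit 684) (nat_lit 0) (XT.nd (nat_lit 78) (nat_lit 304) (nat_lit 0) (XT.lf (nat_lit 456) (nat_lit 56246581620) (nat_lit 0) (nat_lit 26536757035) (nat_lit 380) (nat_lit 26536757035) (nat_lit 276) (nat_lit 1) (nat_lit 270) (nat_lit 1) (nat_lit 275)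 (nat_lit 1) (nat_lit 206) (nat_lit 415) (nat_lit 399)) (XT.nd (nat_lit 78) (nat_lit 304) (nat_lit 0) (XT.lf (nat_lit 76) (nat_lit 20726117807) (nat_lit 0) (nat_lit 65567899088) (nat_lit 456) (nat_lit 20726117807) (nat_lit 271) (nat_lit 1) (nat_lit 270) (nat_lit 1) (nat_lit 276) (nat_lit 1) (nat_lit 207) (nat_lit 415) (nat_lit 398)) (XT.lf (nat_lit 380) (nat_lit 26304835517) (nat_lit 0) (nat_lit 39237250390) (nat_lit 304) (nat_lit 39237250390) (nat_lit 271) (nat_lit 1) (nat_lit 266) (nat_lit 1) (nat_lit 270) (nat_lit 1) (nat_lit 208) (nat_lit 415) (nat_lit 397)))) (XT.nd (nat_lit 156) (nat_lit 304) (nat_lit 0) (XT.nd (nat_lit 78) (nat_lit 380) (nat_lit 0) (XT.lf (nat_lit 76) (nat_lit 5723756686) (nat_lit 0) (nat_lit 91177194595) (nat_lit 380) (nat_lit 5723756686) (nat_lit 267) (nat_lit 1) (nat_lit 266) (nat_lit 1) (nat_lit 271) (nat_lit 1) (nat_lit 209) (nat_lit 415) (nat_lit 396)) (XT.lf (nat_lit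 76) (nat_lit 48230018566) (nat_lit 0) (nat_lit 4039357742) (nat_lit 380) (nat_lit 48230018566) (nat_lit 262) (nat_lit 1) (nat_lit 261) (nat_lit 1) (nat_lit 266) (nat_lit 1) (nat_lit 210) (nat_lit 415) (nat_lit 395))) (XT.nd (nat_lit 78) (nat_lit 0) (nat_lit 0) (XT.lf (nat_lit 380) (nat_lit 79780056662) (nat_lit 0) (nat_lit 9337481125) (nat_lit 304) (nat_lit 9337481125) (nat_lit 262) (nat_lit 1) (nat_lit 257) (nat_lit 1) (nat_lit 261) (nat_lit 1) (nat_lit 211) (nat_lit 415) (nat_lit 394)) (XT.lf (nat_lit 76) (nat_lit 31293245597) (nat_lit 0) (nat_lit 33859223481) (nat_lit 380) (nat_lit 31293245597) (nat_lit 258) (nat_lit 1) (nat_lit 257) (nat_lit 1) (nat_lit 262) (nat_lit 1) (nat_lit 212) (nat_lit 415) (nat_lit 393))))))) (XT.nd (nat_lit 936) (nat_lit 1520) (nat_lit 0) (XT.nd (nat_lit 468) (nat_lit 760) (nat_lit 0) (XT.nd (nat_lit 234) (nat_lit 608) (nat_lit 0) (XT.nd (nat_lit 78) (nat_lit 228)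 (nat_lit 0) (XT.lf (nat_lit 380) (nat_lit 45665550432) (nat_lit 0) (nat_lit 24420267806) (nat_lit 304) (nat_lit 24420267806) (nat_lit 258) (nat_lit 1) (nat_lit 253) (nat_lit 1) (nat_lit 257) (nat_lit 1) (nat_lit 213) (nat_lit 415) (nat_lit 392)) (XT.nd (nat_lit 78) (nat_lit 228) (nat_lit 0) (XT.lf (nat_lit 76) (nat_lit 14400876586) (nat_lit 0) (nat_lit 63821419146) (nat_lit 380) (nat_lit 14400876586) (nat_lit 254) (nat_lit 1) (nat_lit 253) (nat_lit 1) (nat_lit 258) (nat_lit 1) (nat_lit 214) (nat_lit 415) (nat_lit 391)) (XT.lf (nat_lit 304) (nat_lit 11711616149) (nat_lit 0) (nat_lit 39534643508) (nat_lit 228) (nat_lit 39534643508) (nat_lit 254) (nat_lit 1) (nat_lit 250) (nat_lit 1) (nat_lit 253) (nat_lit 1) (nat_lit 215) (nat_lit 415) (nat_lit 390)))) (XT.nd (nat_lit 78) (nat_lit 228) (nat_lit 0) (XT.lf (nat_lit 380) (nat_lit 84329751543) (nat_lit 0) (nat_lit 2339988794) (nat_lit 304) (nat_lit 2339988794)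 (nat_lit 250) (nat_lit 1) (nat_lit 245) (nat_lit 1) (nat_lit 249) (nat_lit 1) (nat_lit 216) (nat_lit 415) (nat_lit 389)) (XT.nd (nat_lit 78) (nat_lit 228) (nat_lit 0) (XT.lf (nat_lit 76) (nat_lit 32998855218) (nat_lit 0) (nat_lit 21250647896) (nat_lit 380) (nat_lit 32998855218) (nat_lit 246) (nat_lit 1) (nat_lit 245) (nat_lit 1) (nat_lit 250) (nat_lit 1) (nat_lit 217) (nat_lit 415) (nat_lit 388)) (XT.lf (nat_lit 304) (nat_lit 48195871282) (nat_lit 0) (nat_lit 18679334754) (nat_lit 228) (nat_lit 18679334754) (nat_lit 246) (nat_lit 1) (nat_lit 242) (nat_lit 1) (nat_lit 245) (nat_lit 1) (nat_lit 218) (nat_lit 415) (nat_lit 387))))) (XT.nd (nat_lit 234) (nat_lit 228) (nat_lit 0) (XT.nd (nat_lit 78) (nat_lit 532) (nat_lit 0) (XT.lf (nat_lit 76) (nat_lit 15225821251) (nat_lit 0) (nat_lit 53452115094) (nat_lit 304) (nat_lit 15225821251) (nat_lit 243) (nat_lit 1) (nat_lit 242) (nat_lit 1) (nat_lit 246)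 (nat_lit 1) (nat_lit 219) (nat_lit 415) (nat_lit 386)) (XT.nd (nat_lit 78) (nat_lit 304) (nat_lit 0) (XT.lf (nat_lit 304) (nat_lit 12690246112) (nat_lit 0) (nat_lit 34800141581) (nat_lit 228) (nat_lit 34800141581) (nat_lit 243) (nat_lit 1) (nat_lit 239) (nat_lit 1) (nat_lit 242) (nat_lit 1) (nat_lit 220) (nat_lit 415) (nat_lit 385)) (XT.lf (nat_lit 304) (nat_lit 76375334666) (nat_lit 0) (nat_lit 2180949883) (nat_lit 228) (nat_lit 2180949883) (nat_lit 239) (nat_lit 1) (nat_lit 235) (nat_lit 1) (nat_lit 238) (nat_lit 1) (nat_lit 221) (nat_lit 415) (nat_lit 384)))) (XT.nd (nat_lit 78) (nat_lit 228) (nat_lit 0) (XT.lf (nat_lit 76) (nat_lit 28890601852) (nat_lit 0) (nat_lit 21407645879) (nat_lit 304) (nat_lit 28890601852) (nat_lit 236) (nat_lit 1) (nat_lit 235) (nat_lit 1) (nat_lit 239) (nat_lit 1) (nat_lit 222) (nat_lit 415) (nat_lit 383)) (XT.nd (nat_lit 78) (nat_lit 0) (nat_lit 0) (XT.lf (nat_lit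 304) (nat_lit 39727222940) (nat_lit 0) (nat_lit 18985266141) (nat_lit 228) (nat_lit 18985266141) (nat_lit 236) (nat_lit 1) (nat_lit 232) (nat_lit 1) (nat_lit 235) (nat_lit 1) (nat_lit 223) (nat_lit 415) (nat_lit 382)) (XT.lf (nat_lit 76) (nat_lit 10940844797) (nat_lit 0) (nat_lit 54364963094) (nat_lit 304) (nat_lit 10940844797) (nat_lit 233) (nat_lit 1) (nat_lit 232) (nat_lit 1) (nat_lit 236) (nat_lit 1) (nat_lit 224) (nat_lit 415) (nat_lit 381)))))) (XT.nd (nat_lit 468) (nat_lit 684) (nat_lit 0) (XT.nd (nat_lit 234) (nat_lit 380) (nat_lit 0) (XT.nd (nat_lit 78) (nat_lit 304) (nat_lit 0) (XT.lf (nat_lit 228) (nat_lit 4009089309) (nat_lit 0) (nat_lit 35406903002) (nat_lit 152) (nat_lit 35406903002) (nat_lit 233) (nat_lit 1) (nat_lit 230) (nat_lit 1) (nat_lit 232) (nat_lit 1) (nat_lit 225) (nat_lit 415) (nat_lit 380)) (XT.nd (nat_lit 78) (nat_lit 0) (nat_lit 0) (XT.lf (nat_lit 304) (nat_lit 60575995161)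 (nat_lit 0) (nat_lit 6433609761) (nat_lit 228) (nat_lit 6433609761) (nat_lit 230) (nat_lit 1) (nat_lit 226) (nat_lit 1) (nat_lit 229) (nat_lit 1) (nat_lit 226) (nat_lit 415) (nat_lit 379)) (XT.lf (nat_lit 76) (nat_lit 21157757209) (nat_lit 0) (nat_lit 29763450035) (nat_lit 304) (nat_lit 21157757209) (nat_lit 227) (nat_lit 1) (nat_lit 226) (nat_lit 1) (nat_lit 230) (nat_lit 1) (nat_lit 227) (nat_lit 415) (nat_lit 378)))) (XT.nd (nat_lit 78) (nat_lit 228) (nat_lit 0) (XT.lf (nat_lit 228) (nat_lit 24444524732) (nat_lit 0) (nat_lit 23156146998) (nat_lit 152) (nat_lit 23156146998) (nat_lit 227) (nat_lit 1) (nat_lit 224) (nat_lit 1) (nat_lit 226) (nat_lit 1) (nat_lit 228) (nat_lit 415) (nat_lit 377)) (XT.nd (nat_lit 78) (nat_lit 228) (nat_lit 0) (XT.lf (nat_lit 76) (nat_lit 3511902320) (nat_lit 0) (nat_lit 62454745304) (nat_lit 228) (nat_lit 3511902320) (nat_lit 225) (nat_lit 1) (nat_lit 224) (nat_lit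 1) (nat_lit 227) (nat_lit 1) (nat_lit 229) (nat_lit 415) (nat_lit 376)) (XT.lf (nat_lit 76) (nat_lit 28984345995) (nat_lit 0) (nat_lit 10236235769) (nat_lit 228) (nat_lit 28984345995) (nat_lit 222) (nat_lit 1) (nat_lit 221) (nat_lit 1) (nat_lit 224) (nat_lit 1) (nat_lit 230) (nat_lit 415) (nat_lit 375))))) (XT.nd (nat_lit 234) (nat_lit 380) (nat_lit 0) (XT.nd (nat_lit 78) (nat_lit 152) (nat_lit 0) (XT.lf (nat_lit 228) (nat_lit 40249844359) (nat_lit 0) (nat_lit 13361857797) (nat_lit 152) (nat_lit 13361857797) (nat_lit 222) (nat_lit 1) (nat_lit 219) (nat_lit 1) (nat_lit 221) (nat_lit 1) (nat_lit 231) (nat_lit 415) (nat_lit 374)) (XT.nd (nat_lit 78) (nat_lit 152) (nat_lit 0) (XT.lf (nat_lit 76) (nat_lit 11357458930) (nat_lit 0) (nat_lit 43054490203) (nat_lit 228) (nat_lit 11357458930) (nat_lit 220) (nat_lit 1) (nat_lit 219) (nat_lit 1) (nat_lit 222) (nat_lit 1) (nat_lit 232) (nat_lit 415) (nat_lit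 373)) (XT.lf (nat_lit 228) (nat_lit 5320560602) (nat_lit 0) (nat_lit 29634484087) (nat_lit 152) (nat_lit 29634484087) (nat_lit 220) (nat_lit 1) (nat_lit 217) (nat_lit 1) (nat_lit 219) (nat_lit 1) (nat_lit 233) (nat_lit 415) (nat_lit 372)))) (XT.nd (nat_lit 156) (nat_lit 152) (nat_lit 0) (XT.nd (nat_lit 78) (nat_lit 0) (nat_lit 0) (XT.lf (nat_lit 228) (nat_lit 52293906913) (nat_lit 0) (nat_lit 5574965244) (nat_lit 152) (nat_lit 5574965244) (nat_lit 217) (nat_lit 1) (nat_lit 214) (nat_lit 1) (nat_lit 216) (nat_lit 1) (nat_lit 234) (nat_lit 415) (nat_lit 371)) (XT.lf (nat_lit 76) (nat_lit 17408769760) (nat_lit 0) (nat_lit 27490384858) (nat_lit 228) (nat_lit 17408769760) (nat_lit 215) (nat_lit 1) (nat_lit 214) (nat_lit 1) (nat_lit 217) (nat_lit 1) (nat_lit 235) (nat_lit 415) (nat_lit 370))) (XT.nd (nat_lit 78) (nat_lit 0) (nat_lit 0) (XT.lf (nat_lit 228) (nat_lit 17729986795) (nat_lit 0) (nat_lit 21737500845)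 (nat_lit 152) (nat_lit 21737500845) (nat_lit 215) (nat_lit 1) (nat_lit 212) (nat_lit 1) (nat_lit 214) (nat_lit 1) (nat_lit 236) (nat_lit 415) (nat_lit 369)) (XT.lf (nat_lit 76) (nat_lit 582735767) (nat_lit 0) (nat_lit 58975261073) (nat_lit 228) (nat_lit 582735767) (nat_lit 213) (nat_lit 1) (nat_lit 212) (nat_lit 1) (nat_lit 215) (nat_lit 1) (nat_lit 237) (nat_lit 415) (nat_lit 368))))))))
noncomputable def ec327 : XT := (XT.nd (nat_lit 1950) (nat_lit 1900) (nat_lit 0) (XT.nd (nat_lit 936) (nat_lit 1064) (nat_lit 0) (XT.nd (nat_lit 468) (nat_lit 608) (nat_lit 0) (XT.nd (nat_lit 234) (nat_lit 304) (nat_lit 0) (XT.nd (nat_lit 78) (nat_lit 152) (nat_lit 0) (XT.lf (nat_lit 76) (nat_lit 22003152432) (nat_lit 0) (nat_lit 15063406910) (nat_lit 152) (nat_lit 22003152432) (nat_lit 211) (nat_lit 1) (nat_lit 210) (nat_lit 1) (nat_lit 212) (nat_lit 1) (nat_lit 238) (nat_lit 415) (nat_lit 367)) (XT.nd (nat_lit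 78) (nat_lit 0) (nat_lit 0) (XT.lf (nat_lit 228) (nat_lit 27303407272) (nat_lit 0) (nat_lit 15366483786) (nat_lit 152) (nat_lit 15366483786) (nat_lit 211) (nat_lit 1) (nat_lit 208) (nat_lit 1) (nat_lit 210) (nat_lit 1) (nat_lit 239) (nat_lit 415) (nat_lit 366)) (XT.lf (nat_lit 76) (nat_lit 5474144457) (nat_lit 0) (nat_lit 46082641383) (nat_lit 228) (nat_lit 5474144457) (nat_lit 209) (nat_lit 1) (nat_lit 208) (nat_lit 1) (nat_lit 211) (nat_lit 1) (nat_lit 240) (nat_lit 415) (nat_lit 365)))) (XT.nd (nat_lit 78) (nat_lit 152) (nat_lit 0) (XT.lf (nat_lit 76) (nat_lit 25417204595) (nat_lit 0) (nat_lit 5199368101) (nat_lit 152) (nat_lit 25417204595) (nat_lit 207) (nat_lit 1) (nat_lit 206) (nat_lit 1) (nat_lit 208) (nat_lit 1) (nat_lit 241) (nat_lit 415) (nat_lit 364)) (XT.nd (nat_lit 78) (nat_lit 0) (nat_lit 0) (XT.lf (nat_lit 228) (nat_lit 34573917169) (nat_lit 0) (nat_lit 10244889996) (nat_lit 152)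 (nat_lit 10244889996) (nat_lit 207) (nat_lit 1) (nat_lit 204) (nat_lit 1) (nat_lit 206) (nat_lit 1) (nat_lit 242) (nat_lit 415) (nat_lit 363)) (XT.lf (nat_lit 76) (nat_lit 9260474382) (nat_lit 0) (nat_lit 35591872774) (nat_lit 228) (nat_lit 9260474382) (nat_lit 205) (nat_lit 1) (nat_lit 204) (nat_lit 1) (nat_lit 207) (nat_lit 1) (nat_lit 243) (nat_lit 415) (nat_lit 362))))) (XT.nd (nat_lit 234) (nat_lit 304) (nat_lit 0) (XT.nd (nat_lit 78) (nat_lit 228) (nat_lit 0) (XT.lf (nat_lit 152) (nat_lit 2658344963) (nat_lit 0) (nat_lit 25260772218) (nat_lit 76) (nat_lit 25260772218) (nat_lit 205) (nat_lit 1) (nat_lit 203) (nat_lit 1) (nat_lit 204) (nat_lit 1) (nat_lit 244) (nat_lit 415) (nat_lit 361)) (XT.nd (nat_lit 78) (nat_lit 0) (nat_lit 0) (XT.lf (nat_lit 228) (nat_lit 39978653348) (nat_lit 0) (nat_lit 6145492313) (nat_lit 152) (nat_lit 6145492313) (nat_lit 203) (nat_lit 1) (nat_lit 200) (nat_lit 1)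 (nat_lit 202) (nat_lit 1) (nat_lit 245) (nat_lit 415) (nat_lit 360)) (XT.lf (nat_lit 76) (nat_lit 12148979182) (nat_lit 0) (nat_lit 27071588160) (nat_lit 228) (nat_lit 12148979182) (nat_lit 201) (nat_lit 1) (nat_lit 200) (nat_lit 1) (nat_lit 203) (nat_lit 1) (nat_lit 246) (nat_lit 415) (nat_lit 359)))) (XT.nd (nat_lit 78) (nat_lit 228) (nat_lit 0) (XT.lf (nat_lit 152) (nat_lit 8927324624) (nat_lit 0) (nat_lit 20782099819) (nat_lit 76) (nat_lit 20782099819) (nat_lit 201) (nat_lit 1) (nat_lit 199) (nat_lit 1) (nat_lit 200) (nat_lit 1) (nat_lit 247) (nat_lit 415) (nat_lit 358)) (XT.nd (nat_lit 78) (nat_lit 0) (nat_lit 0) (XT.lf (nat_lit 228) (nat_lit 43875876219) (nat_lit 0) (nat_lit 2881622172) (nat_lit 152) (nat_lit 2881622172) (nat_lit 199) (nat_lit 1) (nat_lit 196) (nat_lit 1) (nat_lit 198) (nat_lit 1) (nat_lit 248) (nat_lit 415) (nat_lit 357)) (XT.lf (nat_lit 76) (nat_lit 14309627611) (nat_lit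 0) (nat_lit 20167163858) (nat_lit 228) (nat_lit 14309627611) (nat_lit 197) (nat_lit 1) (nat_lit 196) (nat_lit 1) (nat_lit 199) (nat_lit 1) (nat_lit 249) (nat_lit 415) (nat_lit 356)))))) (XT.nd (nat_lit 468) (nat_lit 532) (nat_lit 0) (XT.nd (nat_lit 234) (nat_lit 228) (nat_lit 0) (XT.nd (nat_lit 78) (nat_lit 228) (nat_lit 0) (XT.lf (nat_lit 152) (nat_lit 13763863151) (nat_lit 0) (nat_lit 17097484952) (nat_lit 76) (nat_lit 17097484952) (nat_lit 197) (nat_lit 1) (nat_lit 195) (nat_lit 1) (nat_lit 196) (nat_lit 1) (nat_lit 250) (nat_lit 415) (nat_lit 355)) (XT.nd (nat_lit 78) (nat_lit 0) (nat_lit 0) (XT.lf (nat_lit 228) (nat_lit 46559019731) (nat_lit 0) (nat_lit 299965728) (nat_lit 152) (nat_lit 299965728) (nat_lit 195) (nat_lit 1) (nat_lit 192) (nat_lit 1) (nat_lit 194) (nat_lit 1) (nat_lit 251) (nat_lit 415) (nat_lit 354)) (XT.lf (nat_lit 76) (nat_lit 15881739736) (nat_lit 0) (nat_lit 14587100646)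 (nat_lit 228) (nat_lit 15881739736) (nat_lit 193) (nat_lit 1) (nat_lit 192) (nat_lit 1) (nat_lit 195) (nat_lit 1) (nat_lit 252) (nat_lit 415) (nat_lit 353)))) (XT.nd (nat_lit 78) (nat_lit 152) (nat_lit 0) (XT.lf (nat_lit 152) (nat_lit 17437212933) (nat_lit 0) (nat_lit 14066143183) (nat_lit 76) (nat_lit 14066143183) (nat_lit 193) (nat_lit 1) (nat_lit 191) (nat_lit 1) (nat_lit 192) (nat_lit 1) (nat_lit 253) (nat_lit 415) (nat_lit 352)) (XT.nd (nat_lit 78) (nat_lit 152) (nat_lit 0) (XT.lf (nat_lit 0) (nat_lit 1753646806) (nat_lit 0) (nat_lit 41304707004) (nat_lit 152) (nat_lit 1753646806) (nat_lit 191) (nat_lit 3) (nat_lit 191) (nat_lit 1) (nat_lit 193) (nat_lit 1) (nat_lit 254) (nat_lit 415) (nat_lit 351)) (XT.lf (nat_lit 76) (nat_lit 16979445335) (nat_lit 0) (nat_lit 10091820021) (nat_lit 152) (nat_lit 16979445335) (nat_lit 190) (nat_lit 1) (nat_lit 189) (nat_lit 1) (nat_lit 191) (nat_lit 1) (nat_lit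 255) (nat_lit 415) (nat_lit 350))))) (XT.nd (nat_lit 234) (nat_lit 304) (nat_lit 0) (XT.nd (nat_lit 78) (nat_lit 152) (nat_lit 0) (XT.lf (nat_lit 152) (nat_lit 20168160764) (nat_lit 0) (nat_lit 11572250807) (nat_lit 76) (nat_lit 11572250807) (nat_lit 190) (nat_lit 1) (nat_lit 188) (nat_lit 1) (nat_lit 189) (nat_lit 1) (nat_lit 256) (nat_lit 415) (nat_lit 349)) (XT.nd (nat_lit 78) (nat_lit 152) (nat_lit 0) (XT.lf (nat_lit 0) (nat_lit 3351753348) (nat_lit 0) (nat_lit 35890508453) (nat_lit 152) (nat_lit 3351753348) (nat_lit 188) (nat_lit 3) (nat_lit 188) (nat_lit 1) (nat_lit 190) (nat_lit 1) (nat_lit 257) (nat_lit 415) (nat_lit 348)) (XT.lf (nat_lit 76) (nat_lit 17696173364) (nat_lit 0) (nat_lit 6484447420) (nat_lit 152) (nat_lit 17696173364) (nat_lit 187) (nat_lit 1) (nat_lit 186) (nat_lit 1) (nat_lit 188) (nat_lit 1) (nat_lit 258) (nat_lit 415) (nat_lit 347)))) (XT.nd (nat_lit 156) (nat_lit 228)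 (nat_lit 0) (XT.nd (nat_lit 78) (nat_lit 0) (nat_lit 0) (XT.lf (nat_lit 152) (nat_lit 22137655325) (nat_lit 0) (nat_lit 9520519378) (nat_lit 76) (nat_lit 9520519378) (nat_lit 187) (nat_lit 1) (nat_lit 185) (nat_lit 1) (nat_lit 186) (nat_lit 1) (nat_lit 259) (nat_lit 415) (nat_lit 346)) (XT.lf (nat_lit 0) (nat_lit 4575613660) (nat_lit 0) (nat_lit 31345328012) (nat_lit 152) (nat_lit 4575613660) (nat_lit 185) (nat_lit 3) (nat_lit 185) (nat_lit 1) (nat_lit 187) (nat_lit 1) (nat_lit 260) (nat_lit 415) (nat_lit 345))) (XT.nd (nat_lit 78) (nat_lit 76) (nat_lit 0) (XT.lf (nat_lit 76) (nat_lit 18108344351) (nat_lit 0) (nat_lit 3603230096) (nat_lit 152) (nat_lit 18108344351) (nat_lit 184) (nat_lit 1) (nat_lit 183) (nat_lit 1) (nat_lit 185) (nat_lit 1) (nat_lit 261) (nat_lit 415) (nat_lit 344)) (XT.lf (nat_lit 152) (nat_lit 23493903396) (nat_lit 0) (nat_lit 7832554853) (nat_lit 76) (nat_lit 7832554853) (nat_lit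 184) (nat_lit 1) (nat_lit 182) (nat_lit 1) (nat_lit 183) (nat_lit 1) (nat_lit 262) (nat_lit 415) (nat_lit 343))))))) (XT.nd (nat_lit 1014) (nat_lit 988) (nat_lit 0) (XT.nd (nat_lit 468) (nat_lit 456) (nat_lit 0) (XT.nd (nat_lit 234) (nat_lit 228) (nat_lit 0) (XT.nd (nat_lit 78) (nat_lit 228) (nat_lit 0) (XT.lf (nat_lit 0) (nat_lit 5495909526) (nat_lit 0) (nat_lit 27519419772) (nat_lit 152) (nat_lit 5495909526) (nat_lit 182) (nat_lit 3) (nat_lit 182) (nat_lit 1) (nat_lit 184) (nat_lit 1) (nat_lit 263) (nat_lit 415) (nat_lit 342)) (XT.nd (nat_lit 78) (nat_lit 76) (nat_lit 0) (XT.lf (nat_lit 76) (nat_lit 18278407074) (nat_lit 0) (nat_lit 1315299799) (nat_lit 152) (nat_lit 18278407074) (nat_lit 181) (nat_lit 1) (nat_lit 180) (nat_lit 1) (nat_lit 182) (nat_lit 1) (nat_lit 264) (nat_lit 415) (nat_lit 341)) (XT.lf (nat_lit 152) (nat_lit 24358206346) (nat_lit 0) (nat_lit 6443862262) (nat_lit 76) (nat_lit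 6443862262) (nat_lit 181) (nat_lit 1) (nat_lit 179) (nat_lit 1) (nat_lit 180) (nat_lit 1) (nat_lit 265) (nat_lit 415) (nat_lit 340)))) (XT.nd (nat_lit 78) (nat_lit 228) (nat_lit 0) (XT.lf (nat_lit 0) (nat_lit 6170584886) (nat_lit 0) (nat_lit 24289381269) (nat_lit 152) (nat_lit 6170584886) (nat_lit 179) (nat_lit 3) (nat_lit 179) (nat_lit 1) (nat_lit 181) (nat_lit 1) (nat_lit 266) (nat_lit 415) (nat_lit 339)) (XT.nd (nat_lit 78) (nat_lit 152) (nat_lit 0) (XT.lf (nat_lit 76) (nat_lit 504608821) (nat_lit 0) (nat_lit 17760605377) (nat_lit 76) (nat_lit 17760605377) (nat_lit 179) (nat_lit 3) (nat_lit 178) (nat_lit 1) (nat_lit 179) (nat_lit 1) (nat_lit 267) (nat_lit 415) (nat_lit 338)) (XT.lf (nat_lit 152) (nat_lit 24829760338) (nat_lit 0) (nat_lit 5301381430) (nat_lit 76) (nat_lit 5301381430) (nat_lit 178) (nat_lit 1) (nat_lit 176) (nat_lit 1) (nat_lit 177) (nat_lit 1) (nat_lit 268) (nat_lit 415) (nat_lit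 337))))) (XT.nd (nat_lit 234) (nat_lit 228) (nat_lit 0) (XT.nd (nat_lit 78) (nat_lit 228) (nat_lit 0) (XT.lf (nat_lit 0) (nat_lit 6647114045) (nat_lit 0) (nat_lit 21553492670) (nat_lit 152) (nat_lit 6647114045) (nat_lit 176) (nat_lit 3) (nat_lit 176) (nat_lit 1) (nat_lit 178) (nat_lit 1) (nat_lit 269) (nat_lit 415) (nat_lit 336)) (XT.nd (nat_lit 78) (nat_lit 152) (nat_lit 0) (XT.lf (nat_lit 76) (nat_lit 1960369925) (nat_lit 0) (nat_lit 16156920996) (nat_lit 76) (nat_lit 16156920996) (nat_lit 176) (nat_lit 3) (nat_lit 175) (nat_lit 1) (nat_lit 176) (nat_lit 1) (nat_lit 270) (nat_lit 415) (nat_lit 335)) (XT.lf (nat_lit 152) (nat_lit 24989604035) (nat_lit 0) (nat_lit 4361459622) (nat_lit 76) (nat_lit 4361459622) (nat_lit 175) (nat_lit 1) (nat_lit 173) (nat_lit 1) (nat_lit 174) (nat_lit 1) (nat_lit 271) (nat_lit 415) (nat_lit 334)))) (XT.nd (nat_lit 156) (nat_lit 152) (nat_lit 0) (XT.nd (nat_lit 78)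 (nat_lit 76) (nat_lit 0) (XT.lf (nat_lit 0) (nat_lit 6964367259) (nat_lit 0) (nat_lit 19227881844) (nat_lit 152) (nat_lit 6964367259) (nat_lit 173) (nat_lit 3) (nat_lit 173) (nat_lit 1) (nat_lit 175) (nat_lit 1) (nat_lit 272) (nat_lit 415) (nat_lit 333)) (XT.lf (nat_lit 76) (nat_lit 3084445949) (nat_lit 0) (nat_lit 14763983649) (nat_lit 76) (nat_lit 14763983649) (nat_lit 173) (nat_lit 3) (nat_lit 172) (nat_lit 1) (nat_lit 173) (nat_lit 1) (nat_lit 273) (nat_lit 415) (nat_lit 332))) (XT.nd (nat_lit 78) (nat_lit 0) (nat_lit 0) (XT.lf (nat_lit 152) (nat_lit 24903865043) (nat_lit 0) (nat_lit 3588183625) (nat_lit 76) (nat_lit 3588183625) (nat_lit 172) (nat_lit 1) (nat_lit 170) (nat_lit 1) (nat_lit 171) (nat_lit 1) (nat_lit 274) (nat_lit 415) (nat_lit 331)) (XT.lf (nat_lit 0) (nat_lit 7154145117) (nat_lit 0) (nat_lit 17243368916) (nat_lit 152) (nat_lit 7154145117) (nat_lit 170) (nat_lit 3) (nat_lit 170)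 (nat_lit 1) (nat_lit 172) (nat_lit 1) (nat_lit 275) (nat_lit 415) (nat_lit 330)))))) (XT.nd (nat_lit 468) (nat_lit 532) (nat_lit 0) (XT.nd (nat_lit 234) (nat_lit 228) (nat_lit 0) (XT.nd (nat_lit 78) (nat_lit 152) (nat_lit 0) (XT.lf (nat_lit 76) (nat_lit 3939147754) (nat_lit 0) (nat_lit 13547932324) (nat_lit 76) (nat_lit 13547932324) (nat_lit 170) (nat_lit 3) (nat_lit 169) (nat_lit 1) (nat_lit 170) (nat_lit 1) (nat_lit 276) (nat_lit 415) (nat_lit 329)) (XT.nd (nat_lit 78) (nat_lit 0) (nat_lit 0) (XT.lf (nat_lit 152) (nat_lit 24626429459) (nat_lit 0) (nat_lit 2952007548) (nat_lit 76) (nat_lit 2952007548) (nat_lit 169) (nat_lit 1) (nat_lit 167) (nat_lit 1) (nat_lit 168) (nat_lit 1) (nat_lit 277) (nat_lit 415) (nat_lit 328)) (XT.lf (nat_lit 0) (nat_lit 7242440452) (nat_lit 0) (nat_lit 15542869840) (nat_lit 152) (nat_lit 7242440452) (nat_lit 167) (nat_lit 3) (nat_lit 167) (nat_lit 1) (nat_lit 169) (nat_lit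 1) (nat_lit 278) (nat_lit 415) (nat_lit 327)))) (XT.nd (nat_lit 78) (nat_lit 152) (nat_lit 0) (XT.lf (nat_lit 76) (nat_lit 4575571785) (nat_lit 0) (nat_lit 12480742631) (nat_lit 76) (nat_lit 12480742631) (nat_lit 167) (nat_lit 3) (nat_lit 166) (nat_lit 1) (nat_lit 167) (nat_lit 1) (nat_lit 279) (nat_lit 415) (nat_lit 326)) (XT.nd (nat_lit 78) (nat_lit 0) (nat_lit 0) (XT.lf (nat_lit 152) (nat_lit 24201136896) (nat_lit 0) (nat_lit 2428623915) (nat_lit 76) (nat_lit 2428623915) (nat_lit 166) (nat_lit 1) (nat_lit 164) (nat_lit 1) (nat_lit 165) (nat_lit 1) (nat_lit 280) (nat_lit 415) (nat_lit 325)) (XT.lf (nat_lit 0) (nat_lit 7250476121) (nat_lit 0) (nat_lit 14079259920) (nat_lit 152) (nat_lit 7250476121) (nat_lit 164) (nat_lit 3) (nat_lit 164) (nat_lit 1) (nat_lit 166) (nat_lit 1) (nat_lit 281) (nat_lit 415) (nat_lit 324))))) (XT.nd (nat_lit 234) (nat_lit 304) (nat_lit 0) (XT.nd (nat_lit 78) (nat_lit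 152) (nat_lit 0) (XT.lf (nat_lit 76) (nat_lit 5035596307) (nat_lit 0) (nat_lit 11539199925) (nat_lit 76) (nat_lit 11539199925) (nat_lit 164) (nat_lit 3) (nat_lit 163) (nat_lit 1) (nat_lit 164) (nat_lit 1) (nat_lit 282) (nat_lit 415) (nat_lit 323)) (XT.nd (nat_lit 78) (nat_lit 0) (nat_lit 0) (XT.lf (nat_lit 152) (nat_lit 23663585155) (nat_lit 0) (nat_lit 1998034905) (nat_lit 76) (nat_lit 1998034905) (nat_lit 163) (nat_lit 1) (nat_lit 161) (nat_lit 1) (nat_lit 162) (nat_lit 1) (nat_lit 283) (nat_lit 415) (nat_lit 322)) (XT.lf (nat_lit 0) (nat_lit 7195558398) (nat_lit 0) (nat_lit 12813615730) (nat_lit 152) (nat_lit 7195558398) (nat_lit 161) (nat_lit 3) (nat_lit 161) (nat_lit 1) (nat_lit 163) (nat_lit 1) (nat_lit 284) (nat_lit 415) (nat_lit 321)))) (XT.nd (nat_lit 156) (nat_lit 76) (nat_lit 0) (XT.nd (nat_lit 78) (nat_lit 152) (nat_lit 0) (XT.lf (nat_lit 76) (nat_lit 5353523330) (nat_lit 0) (nat_lit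 10704054122) (nat_lit 76) (nat_lit 10704054122) (nat_lit 161) (nat_lit 3) (nat_lit 160) (nat_lit 1) (nat_lit 161) (nat_lit 1) (nat_lit 285) (nat_lit 415) (nat_lit 320)) (XT.lf (nat_lit 152) (nat_lit 23042613820) (nat_lit 0) (nat_lit 1643788261) (nat_lit 76) (nat_lit 1643788261) (nat_lit 160) (nat_lit 1) (nat_lit 158) (nat_lit 1) (nat_lit 159) (nat_lit 1) (nat_lit 286) (nat_lit 415) (nat_lit 319))) (XT.nd (nat_lit 78) (nat_lit 76) (nat_lit 0) (XT.lf (nat_lit 0) (nat_lit 7091778702) (nat_lit 0) (nat_lit 11713768372) (nat_lit 152) (nat_lit 7091778702) (nat_lit 158) (nat_lit 3) (nat_lit 158) (nat_lit 1) (nat_lit 160) (nat_lit 1) (nat_lit 287) (nat_lit 415) (nat_lit 318)) (XT.lf (nat_lit 76) (nat_lit 5557429070) (nat_lit 0) (nat_lit 9959323994) (nat_lit 76) (nat_lit 9959323994) (nat_lit 158) (nat_lit 3) (nat_lit 157) (nat_lit 1) (nat_lit 158) (nat_lit 1) (nat_lit 288) (nat_lit 415) (nat_lit 317))))))))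
noncomputable def ec328 : XT := (XT.nd (nat_lit 1950) (nat_lit 1824) (nat_lit 0) (XT.nd (nat_lit 936) (nat_lit 1064) (nat_lit 0) (XT.nd (nat_lit 468) (nat_lit 456) (nat_lit 0) (XT.nd (nat_lit 234) (nat_lit 228) (nat_lit 0) (XT.nd (nat_lit 78) (nat_lit 76) (nat_lit 0) (XT.lf (nat_lit 152) (nat_lit 22361523749) (nat_lit 0) (nat_lit 1352348670) (nat_lit 76) (nat_lit 1352348670) (nat_lit 157) (nat_lit 1) (nat_lit 155) (nat_lit 1) (nat_lit 156) (nat_lit 1) (nat_lit 289) (nat_lit 415) (nat_lit 316)) (XT.nd (nat_lit 78) (nat_lit 76) (nat_lit 0) (XT.lf (nat_lit 0) (nat_lit 6950590555) (nat_lit 0) (nat_lit 10753112895) (nat_lit 152) (nat_lit 6950590555) (nat_lit 155) (nat_lit 3) (nat_lit 155) (nat_lit 1) (nat_lit 157) (nat_lit 1) (nat_lit 290) (nat_lit 415) (nat_lit 315)) (XT.lf (nat_lit 76) (nat_lit 5670274628) (nat_lit 0) (nat_lit 9291724475) (nat_lit 76) (nat_lit 9291724475) (nat_lit 155) (nat_lit 3)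 (nat_lit 154) (nat_lit 1) (nat_lit 155) (nat_lit 1) (nat_lit 291) (nat_lit 415) (nat_lit 314)))) (XT.nd (nat_lit 78) (nat_lit 76) (nat_lit 0) (XT.lf (nat_lit 152) (nat_lit 21639079341) (nat_lit 0) (nat_lit 1112580598) (nat_lit 76) (nat_lit 1112580598) (nat_lit 154) (nat_lit 1) (nat_lit 152) (nat_lit 1) (nat_lit 153) (nat_lit 1) (nat_lit 292) (nat_lit 415) (nat_lit 313)) (XT.nd (nat_lit 78) (nat_lit 76) (nat_lit 0) (XT.lf (nat_lit 0) (nat_lit 6781283924) (nat_lit 0) (nat_lit 9909628464) (nat_lit 152) (nat_lit 6781283924) (nat_lit 152) (nat_lit 3) (nat_lit 152) (nat_lit 1) (nat_lit 154) (nat_lit 1) (nat_lit 293) (nat_lit 415) (nat_lit 312)) (XT.lf (nat_lit 76) (nat_lit 5710819425) (nat_lit 0) (nat_lit 8690195177) (nat_lit 76) (nat_lit 8690195177) (nat_lit 152) (nat_lit 3) (nat_lit 151) (nat_lit 1) (nat_lit 152) (nat_lit 1) (nat_lit 294) (nat_lit 415) (nat_lit 311))))) (XT.nd (nat_lit 234) (nat_lit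 228) (nat_lit 0) (XT.nd (nat_lit 78) (nat_lit 76) (nat_lit 0) (XT.lf (nat_lit 152) (nat_lit 20890332139) (nat_lit 0) (nat_lit 915322811) (nat_lit 76) (nat_lit 915322811) (nat_lit 151) (nat_lit 1) (nat_lit 149) (nat_lit 1) (nat_lit 150) (nat_lit 1) (nat_lit 295) (nat_lit 415) (nat_lit 310)) (XT.nd (nat_lit 78) (nat_lit 76) (nat_lit 0) (XT.lf (nat_lit 0) (nat_lit 6591375136) (nat_lit 0) (nat_lit 9165071931) (nat_lit 152) (nat_lit 6591375136) (nat_lit 149) (nat_lit 3) (nat_lit 149) (nat_lit 1) (nat_lit 151) (nat_lit 1) (nat_lit 296) (nat_lit 415) (nat_lit 309)) (XT.lf (nat_lit 76) (nat_lit 5694372375) (nat_lit 0) (nat_lit 8145512179) (nat_lit 76) (nat_lit 8145512179) (nat_lit 149) (nat_lit 3) (nat_lit 148) (nat_lit 1) (nat_lit 149) (nat_lit 1) (nat_lit 297) (nat_lit 415) (nat_lit 308)))) (XT.nd (nat_lit 78) (nat_lit 76) (nat_lit 0) (XT.lf (nat_lit 152) (nat_lit 20127297485) (nat_lit 0) (nat_lit 753038342)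 (nat_lit 76) (nat_lit 753038342) (nat_lit 148) (nat_lit 1) (nat_lit 146) (nat_lit 1) (nat_lit 147) (nat_lit 1) (nat_lit 298) (nat_lit 415) (nat_lit 307)) (XT.nd (nat_lit 78) (nat_lit 76) (nat_lit 0) (XT.lf (nat_lit 0) (nat_lit 6386927370) (nat_lit 0) (nat_lit 8504314092) (nat_lit 152) (nat_lit 6386927370) (nat_lit 146) (nat_lit 3) (nat_lit 146) (nat_lit 1) (nat_lit 148) (nat_lit 1) (nat_lit 299) (nat_lit 415) (nat_lit 306)) (XT.lf (nat_lit 76) (nat_lit 5633409579) (nat_lit 0) (nat_lit 7649968362) (nat_lit 76) (nat_lit 7649968362) (nat_lit 146) (nat_lit 3) (nat_lit 145) (nat_lit 1) (nat_lit 146) (nat_lit 1) (nat_lit 300) (nat_lit 415) (nat_lit 305)))))) (XT.nd (nat_lit 468) (nat_lit 608) (nat_lit 0) (XT.nd (nat_lit 234) (nat_lit 228) (nat_lit 0) (XT.nd (nat_lit 78) (nat_lit 76) (nat_lit 0) (XT.lf (nat_lit 152) (nat_lit 19359510343) (nat_lit 0) (nat_lit 619526507) (nat_lit 76) (nat_lit 619526507)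 (nat_lit 145) (nat_lit 1) (nat_lit 143) (nat_lit 1) (nat_lit 144) (nat_lit 1) (nat_lit 301) (nat_lit 415) (nat_lit 304)) (XT.nd (nat_lit 78) (nat_lit 76) (nat_lit 0) (XT.lf (nat_lit 0) (nat_lit 6172814032) (nat_lit 0) (nat_lit 7914793329) (nat_lit 152) (nat_lit 6172814032) (nat_lit 143) (nat_lit 3) (nat_lit 143) (nat_lit 1) (nat_lit 145) (nat_lit 1) (nat_lit 302) (nat_lit 415) (nat_lit 303)) (XT.lf (nat_lit 76) (nat_lit 5538082225) (nat_lit 0) (nat_lit 7197110126) (nat_lit 76) (nat_lit 7197110126) (nat_lit 143) (nat_lit 3) (nat_lit 142) (nat_lit 1) (nat_lit 143) (nat_lit 1) (nat_lit 303) (nat_lit 415) (nat_lit 302)))) (XT.nd (nat_lit 78) (nat_lit 76) (nat_lit 0) (XT.lf (nat_lit 152) (nat_lit 18594481728) (nat_lit 0) (nat_lit 509685991) (nat_lit 76) (nat_lit 509685991) (nat_lit 142) (nat_lit 1) (nat_lit 140) (nat_lit 1) (nat_lit 141) (nat_lit 1) (nat_lit 304) (nat_lit 415) (nat_lit 301)) (XT.nd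 (nat_lit 78) (nat_lit 76) (nat_lit 0) (XT.lf (nat_lit 0) (nat_lit 5952935170) (nat_lit 0) (nat_lit 7386065849) (nat_lit 152) (nat_lit 5952935170) (nat_lit 140) (nat_lit 3) (nat_lit 140) (nat_lit 1) (nat_lit 142) (nat_lit 1) (nat_lit 305) (nat_lit 415) (nat_lit 300)) (XT.lf (nat_lit 76) (nat_lit 5416634164) (nat_lit 0) (nat_lit 6781520525) (nat_lit 76) (nat_lit 6781520525) (nat_lit 140) (nat_lit 3) (nat_lit 139) (nat_lit 1) (nat_lit 140) (nat_lit 1) (nat_lit 306) (nat_lit 415) (nat_lit 299))))) (XT.nd (nat_lit 234) (nat_lit 380) (nat_lit 0) (XT.nd (nat_lit 78) (nat_lit 76) (nat_lit 0) (XT.lf (nat_lit 152) (nat_lit 17838073428) (nat_lit 0) (nat_lit 419319926) (nat_lit 76) (nat_lit 419319926) (nat_lit 139) (nat_lit 1) (nat_lit 137) (nat_lit 1) (nat_lit 138) (nat_lit 1) (nat_lit 307) (nat_lit 415) (nat_lit 298)) (XT.nd (nat_lit 78) (nat_lit 76) (nat_lit 0) (XT.lf (nat_lit 0) (nat_lit 5730395249) (nat_lit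 0) (nat_lit 6909435405) (nat_lit 152) (nat_lit 5730395249) (nat_lit 137) (nat_lit 3) (nat_lit 137) (nat_lit 1) (nat_lit 139) (nat_lit 1) (nat_lit 308) (nat_lit 415) (nat_lit 297)) (XT.lf (nat_lit 76) (nat_lit 5275745201) (nat_lit 0) (nat_lit 6398640587) (nat_lit 76) (nat_lit 6398640587) (nat_lit 137) (nat_lit 3) (nat_lit 136) (nat_lit 1) (nat_lit 137) (nat_lit 1) (nat_lit 309) (nat_lit 415) (nat_lit 296)))) (XT.nd (nat_lit 156) (nat_lit 228) (nat_lit 0) (XT.nd (nat_lit 78) (nat_lit 0) (nat_lit 0) (XT.lf (nat_lit 152) (nat_lit 17094805530) (nat_lit 0) (nat_lit 344975541) (nat_lit 76) (nat_lit 344975541) (nat_lit 136) (nat_lit 1) (nat_lit 134) (nat_lit 1) (nat_lit 135) (nat_lit 1) (nat_lit 310) (nat_lit 415) (nat_lit 295)) (XT.lf (nat_lit 0) (nat_lit 5507649164) (nat_lit 0) (nat_lit 6477648418) (nat_lit 152) (nat_lit 5507649164) (nat_lit 134) (nat_lit 3) (nat_lit 134) (nat_lit 1) (nat_lit 136) (nat_lit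 1) (nat_lit 311) (nat_lit 415) (nat_lit 294))) (XT.nd (nat_lit 78) (nat_lit 152) (nat_lit 0) (XT.lf (nat_lit 76) (nat_lit 5120813270) (nat_lit 0) (nat_lit 6044622083) (nat_lit 76) (nat_lit 6044622083) (nat_lit 134) (nat_lit 3) (nat_lit 133) (nat_lit 1) (nat_lit 134) (nat_lit 1) (nat_lit 312) (nat_lit 415) (nat_lit 293)) (XT.lf (nat_lit 152) (nat_lit 16368108696) (nat_lit 0) (nat_lit 283812231) (nat_lit 76) (nat_lit 283812231) (nat_lit 133) (nat_lit 1) (nat_lit 131) (nat_lit 1) (nat_lit 132) (nat_lit 1) (nat_lit 313) (nat_lit 415) (nat_lit 292))))))) (XT.nd (nat_lit 936) (nat_lit 912) (nat_lit 0) (XT.nd (nat_lit 468) (nat_lit 456) (nat_lit 0) (XT.nd (nat_lit 234) (nat_lit 228) (nat_lit 0) (XT.nd (nat_lit 78) (nat_lit 228) (nat_lit 0) (XT.lf (nat_lit 0) (nat_lit 5286622132) (nat_lit 0) (nat_lit 6084642919) (nat_lit 152) (nat_lit 5286622132) (nat_lit 131) (nat_lit 3) (nat_lit 131) (nat_lit 1) (nat_lit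 133) (nat_lit 1) (nat_lit 314) (nat_lit 415) (nat_lit 291)) (XT.nd (nat_lit 78) (nat_lit 152) (nat_lit 0) (XT.lf (nat_lit 76) (nat_lit 4956186357) (nat_lit 0) (nat_lit 5716206154) (nat_lit 76) (nat_lit 5716206154) (nat_lit 131) (nat_lit 3) (nat_lit 130) (nat_lit 1) (nat_lit 131) (nat_lit 1) (nat_lit 315) (nat_lit 415) (nat_lit 290)) (XT.lf (nat_lit 152) (nat_lit 15660531037) (nat_lit 0) (nat_lit 233493025) (nat_lit 76) (nat_lit 233493025) (nat_lit 130) (nat_lit 1) (nat_lit 128) (nat_lit 1) (nat_lit 129) (nat_lit 1) (nat_lit 316) (nat_lit 415) (nat_lit 289)))) (XT.nd (nat_lit 78) (nat_lit 228) (nat_lit 0) (XT.lf (nat_lit 0) (nat_lit 5068808097) (nat_lit 0) (nat_lit 5725341773) (nat_lit 152) (nat_lit 5068808097) (nat_lit 128) (nat_lit 3) (nat_lit 128) (nat_lit 1) (nat_lit 130) (nat_lit 1) (nat_lit 317) (nat_lit 415) (nat_lit 288)) (XT.nd (nat_lit 78) (nat_lit 152) (nat_lit 0) (XT.lf (nat_lit 76)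 (nat_lit 4785353073) (nat_lit 0) (nat_lit 5410623241) (nat_lit 76) (nat_lit 5410623241) (nat_lit 128) (nat_lit 3) (nat_lit 127) (nat_lit 1) (nat_lit 128) (nat_lit 1) (nat_lit 318) (nat_lit 415) (nat_lit 287)) (XT.lf (nat_lit 152) (nat_lit 14973907646) (nat_lit 0) (nat_lit 192095289) (nat_lit 76) (nat_lit 192095289) (nat_lit 127) (nat_lit 1) (nat_lit 125) (nat_lit 1) (nat_lit 126) (nat_lit 1) (nat_lit 319) (nat_lit 415) (nat_lit 286))))) (XT.nd (nat_lit 234) (nat_lit 228) (nat_lit 0) (XT.nd (nat_lit 78) (nat_lit 228) (nat_lit 0) (XT.lf (nat_lit 0) (nat_lit 4855350475) (nat_lit 0) (nat_lit 5395482355) (nat_lit 152) (nat_lit 4855350475) (nat_lit 125) (nat_lit 3) (nat_lit 125) (nat_lit 1) (nat_lit 127) (nat_lit 1) (nat_lit 320) (nat_lit 415) (nat_lit 285)) (XT.nd (nat_lit 78) (nat_lit 152) (nat_lit 0) (XT.lf (nat_lit 76) (nat_lit 4611099237) (nat_lit 0) (nat_lit 5125510552) (nat_lit 76) (nat_lit 5125510552)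 (nat_lit 125) (nat_lit 3) (nat_lit 124) (nat_lit 1) (nat_lit 125) (nat_lit 1) (nat_lit 321) (nat_lit 415) (nat_lit 284)) (XT.lf (nat_lit 152) (nat_lit 14309499454) (nat_lit 0) (nat_lit 158037270) (nat_lit 76) (nat_lit 158037270) (nat_lit 124) (nat_lit 1) (nat_lit 122) (nat_lit 1) (nat_lit 123) (nat_lit 1) (nat_lit 322) (nat_lit 415) (nat_lit 283)))) (XT.nd (nat_lit 78) (nat_lit 228) (nat_lit 0) (XT.lf (nat_lit 0) (nat_lit 4647108385) (nat_lit 0) (nat_lit 5091476220) (nat_lit 152) (nat_lit 4647108385) (nat_lit 122) (nat_lit 3) (nat_lit 122) (nat_lit 1) (nat_lit 124) (nat_lit 1) (nat_lit 323) (nat_lit 415) (nat_lit 282)) (XT.nd (nat_lit 78) (nat_lit 152) (nat_lit 0) (XT.lf (nat_lit 76) (nat_lit 4435636488) (nat_lit 0) (nat_lit 4858843950) (nat_lit 76) (nat_lit 4858843950) (nat_lit 122) (nat_lit 3) (nat_lit 121) (nat_lit 1) (nat_lit 122) (nat_lit 1) (nat_lit 324) (nat_lit 415) (nat_lit 281)) (XT.lf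 (nat_lit 152) (nat_lit 13668106877) (nat_lit 0) (nat_lit 130017653) (nat_lit 76) (nat_lit 130017653) (nat_lit 121) (nat_lit 1) (nat_lit 119) (nat_lit 1) (nat_lit 120) (nat_lit 1) (nat_lit 325) (nat_lit 415) (nat_lit 280)))))) (XT.nd (nat_lit 468) (nat_lit 456) (nat_lit 0) (XT.nd (nat_lit 234) (nat_lit 228) (nat_lit 0) (XT.nd (nat_lit 78) (nat_lit 228) (nat_lit 0) (XT.lf (nat_lit 0) (nat_lit 4444710934) (nat_lit 0) (nat_lit 4810293451) (nat_lit 152) (nat_lit 4444710934) (nat_lit 119) (nat_lit 3) (nat_lit 119) (nat_lit 1) (nat_lit 121) (nat_lit 1) (nat_lit 326) (nat_lit 415) (nat_lit 279)) (XT.nd (nat_lit 78) (nat_lit 152) (nat_lit 0) (XT.lf (nat_lit 76) (nat_lit 4260707910) (nat_lit 0) (nat_lit 4608881736) (nat_lit 76) (nat_lit 4608881736) (nat_lit 119) (nat_lit 3) (nat_lit 118) (nat_lit 1) (nat_lit 119) (nat_lit 1) (nat_lit 327) (nat_lit 415) (nat_lit 278)) (XT.lf (nat_lit 152) (nat_lit 13050162747)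 (nat_lit 0) (nat_lit 106965845) (nat_lit 76) (nat_lit 106965845) (nat_lit 118) (nat_lit 1) (nat_lit 116) (nat_lit 1) (nat_lit 117) (nat_lit 1) (nat_lit 328) (nat_lit 415) (nat_lit 277)))) (XT.nd (nat_lit 78) (nat_lit 228) (nat_lit 0) (XT.lf (nat_lit 0) (nat_lit 4248601699) (nat_lit 0) (nat_lit 4549367341) (nat_lit 152) (nat_lit 4248601699) (nat_lit 116) (nat_lit 3) (nat_lit 116) (nat_lit 1) (nat_lit 118) (nat_lit 1) (nat_lit 329) (nat_lit 415) (nat_lit 276)) (XT.nd (nat_lit 78) (nat_lit 152) (nat_lit 0) (XT.lf (nat_lit 76) (nat_lit 4087674747) (nat_lit 0) (nat_lit 4374118215) (nat_lit 76) (nat_lit 4374118215) (nat_lit 116) (nat_lit 3) (nat_lit 115) (nat_lit 1) (nat_lit 116) (nat_lit 1) (nat_lit 330) (nat_lit 415) (nat_lit 275)) (XT.lf (nat_lit 152) (nat_lit 12455808230) (nat_lit 0) (nat_lit 88001065) (nat_lit 76) (nat_lit 88001065) (nat_lit 115) (nat_lit 1) (nat_lit 113) (nat_lit 1) (nat_lit 114)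 (nat_lit 1) (nat_lit 331) (nat_lit 415) (nat_lit 274))))) (XT.nd (nat_lit 234) (nat_lit 228) (nat_lit 0) (XT.nd (nat_lit 78) (nat_lit 228) (nat_lit 0) (XT.lf (nat_lit 0) (nat_lit 4059075146) (nat_lit 0) (nat_lit 4306515784) (nat_lit 152) (nat_lit 4059075146) (nat_lit 113) (nat_lit 3) (nat_lit 113) (nat_lit 1) (nat_lit 115) (nat_lit 1) (nat_lit 332) (nat_lit 415) (nat_lit 273)) (XT.nd (nat_lit 78) (nat_lit 152) (nat_lit 0) (XT.lf (nat_lit 76) (nat_lit 3917587563) (nat_lit 0) (nat_lit 4153245313) (nat_lit 76) (nat_lit 4153245313) (nat_lit 113) (nat_lit 3) (nat_lit 112) (nat_lit 1) (nat_lit 113) (nat_lit 1) (nat_lit 333) (nat_lit 415) (nat_lit 272)) (XT.lf (nat_lit 152) (nat_lit 11884954772) (nat_lit 0) (nat_lit 72398694) (nat_lit 76) (nat_lit 72398694) (nat_lit 112) (nat_lit 1) (nat_lit 110) (nat_lit 1) (nat_lit 111) (nat_lit 1) (nat_lit 334) (nat_lit 415) (nat_lit 271)))) (XT.nd (nat_lit 156) (nat_lit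 152) (nat_lit 0) (XT.nd (nat_lit 78) (nat_lit 76) (nat_lit 0) (XT.lf (nat_lit 0) (nat_lit 3876306419) (nat_lit 0) (nat_lit 4079876444) (nat_lit 152) (nat_lit 3876306419) (nat_lit 110) (nat_lit 3) (nat_lit 110) (nat_lit 1) (nat_lit 112) (nat_lit 1) (nat_lit 335) (nat_lit 415) (nat_lit 270)) (XT.lf (nat_lit 76) (nat_lit 3751244633) (nat_lit 0) (nat_lit 3945120848) (nat_lit 76) (nat_lit 3945120848) (nat_lit 110) (nat_lit 3) (nat_lit 109) (nat_lit 1) (nat_lit 110) (nat_lit 1) (nat_lit 336) (nat_lit 415) (nat_lit 269))) (XT.nd (nat_lit 78) (nat_lit 0) (nat_lit 0) (XT.lf (nat_lit 152) (nat_lit 11337334575) (nat_lit 0) (nat_lit 59562585) (nat_lit 76) (nat_lit 59562585) (nat_lit 109) (nat_lit 1) (nat_lit 107) (nat_lit 1) (nat_lit 108) (nat_lit 1) (nat_lit 337) (nat_lit 415) (nat_lit 268)) (XT.lf (nat_lit 0) (nat_lit 3700375694) (nat_lit 0) (nat_lit 3867853258) (nat_lit 152) (nat_lit 3700375694) (nat_lit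 107) (nat_lit 3) (nat_lit 107) (nat_lit 1) (nat_lit 109) (nat_lit 1) (nat_lit 338) (nat_lit 415) (nat_lit 267))))))))
noncomputable def ec329 : XT := (XT.nd (nat_lit 1950) (nat_lit 1976) (nat_lit 0) (XT.nd (nat_lit 936) (nat_lit 988) (nat_lit 0) (XT.nd (nat_lit 468) (nat_lit 456) (nat_lit 0) (XT.nd (nat_lit 234) (nat_lit 228) (nat_lit 0) (XT.nd (nat_lit 78) (nat_lit 152) (nat_lit 0) (XT.lf (nat_lit 76) (nat_lit 3589239815) (nat_lit 0) (nat_lit 3748742256) (nat_lit 76) (nat_lit 3748742256) (nat_lit 107) (nat_lit 3) (nat_lit 106) (nat_lit 1) (nat_lit 107) (nat_lit 1) (nat_lit 339) (nat_lit 415) (nat_lit 266)) (XT.nd (nat_lit 78) (nat_lit 0) (nat_lit 0) (XT.lf (nat_lit 152) (nat_lit 10812541662) (nat_lit 0) (nat_lit 49002286) (nat_lit 76) (nat_lit 49002286) (nat_lit 106) (nat_lit 1) (nat_lit 104) (nat_lit 1) (nat_lit 105) (nat_lit 1) (nat_lit 340) (nat_lit 415) (nat_lit 265)) (XT.lf (nat_lit 0) (nat_lit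 3531288061) (nat_lit 0) (nat_lit 3669072267) (nat_lit 152) (nat_lit 3531288061) (nat_lit 104) (nat_lit 3) (nat_lit 104) (nat_lit 1) (nat_lit 106) (nat_lit 1) (nat_lit 341) (nat_lit 415) (nat_lit 264)))) (XT.nd (nat_lit 78) (nat_lit 152) (nat_lit 0) (XT.lf (nat_lit 76) (nat_lit 3432001785) (nat_lit 0) (nat_lit 3563224838) (nat_lit 76) (nat_lit 3563224838) (nat_lit 104) (nat_lit 3) (nat_lit 103) (nat_lit 1) (nat_lit 104) (nat_lit 1) (nat_lit 342) (nat_lit 415) (nat_lit 263)) (XT.nd (nat_lit 78) (nat_lit 0) (nat_lit 0) (XT.lf (nat_lit 152) (nat_lit 10310065212) (nat_lit 0) (nat_lit 40314302) (nat_lit 76) (nat_lit 40314302) (nat_lit 103) (nat_lit 1) (nat_lit 101) (nat_lit 1) (nat_lit 102) (nat_lit 1) (nat_lit 343) (nat_lit 415) (nat_lit 262)) (XT.lf (nat_lit 0) (nat_lit 3368989731) (nat_lit 0) (nat_lit 3482345138) (nat_lit 152) (nat_lit 3368989731) (nat_lit 101) (nat_lit 3) (nat_lit 101) (nat_lit 1)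 (nat_lit 103) (nat_lit 1) (nat_lit 344) (nat_lit 415) (nat_lit 261))))) (XT.nd (nat_lit 234) (nat_lit 228) (nat_lit 0) (XT.nd (nat_lit 78) (nat_lit 152) (nat_lit 0) (XT.lf (nat_lit 76) (nat_lit 3279826177) (nat_lit 0) (nat_lit 3387783708) (nat_lit 76) (nat_lit 3387783708) (nat_lit 101) (nat_lit 3) (nat_lit 100) (nat_lit 1) (nat_lit 101) (nat_lit 1) (nat_lit 345) (nat_lit 415) (nat_lit 260)) (XT.nd (nat_lit 78) (nat_lit 0) (nat_lit 0) (XT.lf (nat_lit 152) (nat_lit 9829316573) (nat_lit 0) (nat_lit 33166676) (nat_lit 76) (nat_lit 33166676) (nat_lit 100) (nat_lit 1) (nat_lit 98) (nat_lit 1) (nat_lit 99) (nat_lit 1) (nat_lit 346) (nat_lit 415) (nat_lit 259)) (XT.lf (nat_lit 0) (nat_lit 3213381241) (nat_lit 0) (nat_lit 3306639015) (nat_lit 152) (nat_lit 3213381241) (nat_lit 98) (nat_lit 3) (nat_lit 98) (nat_lit 1) (nat_lit 100) (nat_lit 1) (nat_lit 347) (nat_lit 415) (nat_lit 258)))) (XT.nd (nat_lit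 78) (nat_lit 152) (nat_lit 0) (XT.lf (nat_lit 76) (nat_lit 3132901889) (nat_lit 0) (nat_lit 3221718817) (nat_lit 76) (nat_lit 3221718817) (nat_lit 98) (nat_lit 3) (nat_lit 97) (nat_lit 1) (nat_lit 98) (nat_lit 1) (nat_lit 348) (nat_lit 415) (nat_lit 257)) (XT.nd (nat_lit 78) (nat_lit 0) (nat_lit 0) (XT.lf (nat_lit 152) (nat_lit 9369651078) (nat_lit 0) (nat_lit 27286306) (nat_lit 76) (nat_lit 27286306) (nat_lit 97) (nat_lit 1) (nat_lit 95) (nat_lit 1) (nat_lit 96) (nat_lit 1) (nat_lit 349) (nat_lit 415) (nat_lit 256)) (XT.lf (nat_lit 0) (nat_lit 3064328177) (nat_lit 0) (nat_lit 3141051579) (nat_lit 152) (nat_lit 3064328177) (nat_lit 95) (nat_lit 3) (nat_lit 95) (nat_lit 1) (nat_lit 97) (nat_lit 1) (nat_lit 350) (nat_lit 415) (nat_lit 255)))))) (XT.nd (nat_lit 468) (nat_lit 532) (nat_lit 0) (XT.nd (nat_lit 234) (nat_lit 228) (nat_lit 0) (XT.nd (nat_lit 78) (nat_lit 152) (nat_lit 0) (XT.lf (nat_lit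 76) (nat_lit 2991332592) (nat_lit 0) (nat_lit 3064402498) (nat_lit 76) (nat_lit 3064402498) (nat_lit 95) (nat_lit 3) (nat_lit 94) (nat_lit 1) (nat_lit 95) (nat_lit 1) (nat_lit 351) (nat_lit 415) (nat_lit 254)) (XT.nd (nat_lit 78) (nat_lit 0) (nat_lit 0) (XT.lf (nat_lit 152) (nat_lit 8930385613) (nat_lit 0) (nat_lit 22448511) (nat_lit 76) (nat_lit 22448511) (nat_lit 94) (nat_lit 1) (nat_lit 92) (nat_lit 1) (nat_lit 93) (nat_lit 1) (nat_lit 352) (nat_lit 415) (nat_lit 253)) (XT.lf (nat_lit 0) (nat_lit 2921669877) (nat_lit 0) (nat_lit 2984790410) (nat_lit 152) (nat_lit 2921669877) (nat_lit 92) (nat_lit 3) (nat_lit 92) (nat_lit 1) (nat_lit 94) (nat_lit 1) (nat_lit 353) (nat_lit 415) (nat_lit 252)))) (XT.nd (nat_lit 78) (nat_lit 152) (nat_lit 0) (XT.lf (nat_lit 76) (nat_lit 2855154301) (nat_lit 0) (nat_lit 2915269094) (nat_lit 76) (nat_lit 2915269094) (nat_lit 92) (nat_lit 3) (nat_lit 91) (nat_lit 1)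 (nat_lit 92) (nat_lit 1) (nat_lit 354) (nat_lit 415) (nat_lit 251)) (XT.nd (nat_lit 78) (nat_lit 0) (nat_lit 0) (XT.lf (nat_lit 152) (nat_lit 8510812709) (nat_lit 0) (nat_lit 18468446) (nat_lit 76) (nat_lit 18468446) (nat_lit 91) (nat_lit 1) (nat_lit 89) (nat_lit 1) (nat_lit 90) (nat_lit 1) (nat_lit 355) (nat_lit 415) (nat_lit 250)) (XT.lf (nat_lit 0) (nat_lit 2785226470) (nat_lit 0) (nat_lit 2837155888) (nat_lit 152) (nat_lit 2785226470) (nat_lit 89) (nat_lit 3) (nat_lit 89) (nat_lit 1) (nat_lit 91) (nat_lit 1) (nat_lit 356) (nat_lit 415) (nat_lit 249))))) (XT.nd (nat_lit 234) (nat_lit 304) (nat_lit 0) (XT.nd (nat_lit 78) (nat_lit 152) (nat_lit 0) (XT.lf (nat_lit 76) (nat_lit 2724349724) (nat_lit 0) (nat_lit 2773806313) (nat_lit 76) (nat_lit 2773806313) (nat_lit 89) (nat_lit 3) (nat_lit 88) (nat_lit 1) (nat_lit 89) (nat_lit 1) (nat_lit 357) (nat_lit 415) (nat_lit 248)) (XT.nd (nat_lit 78) (nat_lit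 0) (nat_lit 0) (XT.lf (nat_lit 152) (nat_lit 8110211788) (nat_lit 0) (nat_lit 15194036) (nat_lit 76) (nat_lit 15194036) (nat_lit 88) (nat_lit 1) (nat_lit 86) (nat_lit 1) (nat_lit 87) (nat_lit 1) (nat_lit 358) (nat_lit 415) (nat_lit 247)) (XT.lf (nat_lit 0) (nat_lit 2654804549) (nat_lit 0) (nat_lit 2697527009) (nat_lit 152) (nat_lit 2654804549) (nat_lit 86) (nat_lit 3) (nat_lit 86) (nat_lit 1) (nat_lit 88) (nat_lit 1) (nat_lit 359) (nat_lit 415) (nat_lit 246)))) (XT.nd (nat_lit 156) (nat_lit 76) (nat_lit 0) (XT.nd (nat_lit 78) (nat_lit 152) (nat_lit 0) (XT.lf (nat_lit 76) (nat_lit 2598859940) (nat_lit 0) (nat_lit 2639547998) (nat_lit 76) (nat_lit 2639547998) (nat_lit 86) (nat_lit 3) (nat_lit 85) (nat_lit 1) (nat_lit 86) (nat_lit 1) (nat_lit 360) (nat_lit 415) (nat_lit 245)) (XT.lf (nat_lit 152) (nat_lit 7727858080) (nat_lit 0) (nat_lit 12500171) (nat_lit 76) (nat_lit 12500171) (nat_lit 85) (nat_lit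 1) (nat_lit 83) (nat_lit 1) (nat_lit 84) (nat_lit 1) (nat_lit 361) (nat_lit 415) (nat_lit 244))) (XT.nd (nat_lit 78) (nat_lit 76) (nat_lit 0) (XT.lf (nat_lit 0) (nat_lit 2530201738) (nat_lit 0) (nat_lit 2565349612) (nat_lit 152) (nat_lit 2530201738) (nat_lit 83) (nat_lit 3) (nat_lit 83) (nat_lit 1) (nat_lit 85) (nat_lit 1) (nat_lit 362) (nat_lit 415) (nat_lit 243)) (XT.lf (nat_lit 76) (nat_lit 2478593915) (nat_lit 0) (nat_lit 2512068081) (nat_lit 76) (nat_lit 2512068081) (nat_lit 83) (nat_lit 3) (nat_lit 82) (nat_lit 1) (nat_lit 83) (nat_lit 1) (nat_lit 363) (nat_lit 415) (nat_lit 242))))))) (XT.nd (nat_lit 1014) (nat_lit 912) (nat_lit 0) (XT.nd (nat_lit 468) (nat_lit 608) (nat_lit 0) (XT.nd (nat_lit 234) (nat_lit 228) (nat_lit 0) (XT.nd (nat_lit 78) (nat_lit 76) (nat_lit 0) (XT.lf (nat_lit 152) (nat_lit 7363029654) (nat_lit 0) (nat_lit 10283921) (nat_lit 76) (nat_lit 10283921) (nat_lit 82) (nat_lit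 1) (nat_lit 80) (nat_lit 1) (nat_lit 81) (nat_lit 1) (nat_lit 364) (nat_lit 415) (nat_lit 241)) (XT.nd (nat_lit 78) (nat_lit 76) (nat_lit 0) (XT.lf (nat_lit 0) (nat_lit 2411210342) (nat_lit 0) (nat_lit 2440126585) (nat_lit 152) (nat_lit 2411210342) (nat_lit 80) (nat_lit 3) (nat_lit 80) (nat_lit 1) (nat_lit 82) (nat_lit 1) (nat_lit 365) (nat_lit 415) (nat_lit 240)) (XT.lf (nat_lit 76) (nat_lit 2363436214) (nat_lit 0) (nat_lit 2390975493) (nat_lit 76) (nat_lit 2390975493) (nat_lit 80) (nat_lit 3) (nat_lit 79) (nat_lit 1) (nat_lit 80) (nat_lit 1) (nat_lit 366) (nat_lit 415) (nat_lit 239)))) (XT.nd (nat_lit 78) (nat_lit 76) (nat_lit 0) (XT.lf (nat_lit 152) (nat_lit 7015012896) (nat_lit 0) (nat_lit 8460608) (nat_lit 76) (nat_lit 8460608) (nat_lit 79) (nat_lit 1) (nat_lit 77) (nat_lit 1) (nat_lit 78) (nat_lit 1) (nat_lit 367) (nat_lit 415) (nat_lit 238)) (XT.nd (nat_lit 78) (nat_lit 76) (nat_lit 0) (XT.lf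 (nat_lit 0) (nat_lit 2297620249) (nat_lit 0) (nat_lit 2321409714) (nat_lit 152) (nat_lit 2297620249) (nat_lit 77) (nat_lit 3) (nat_lit 77) (nat_lit 1) (nat_lit 79) (nat_lit 1) (nat_lit 368) (nat_lit 415) (nat_lit 237)) (XT.lf (nat_lit 76) (nat_lit 2253253267) (nat_lit 0) (nat_lit 2275909900) (nat_lit 76) (nat_lit 2275909900) (nat_lit 77) (nat_lit 3) (nat_lit 76) (nat_lit 1) (nat_lit 77) (nat_lit 1) (nat_lit 369) (nat_lit 415) (nat_lit 236))))) (XT.nd (nat_lit 234) (nat_lit 380) (nat_lit 0) (XT.nd (nat_lit 78) (nat_lit 76) (nat_lit 0) (XT.lf (nat_lit 152) (nat_lit 6683106734) (nat_lit 0) (nat_lit 6960563) (nat_lit 76) (nat_lit 6960563) (nat_lit 76) (nat_lit 1) (nat_lit 74) (nat_lit 1) (nat_lit 75) (nat_lit 1) (nat_lit 370) (nat_lit 415) (nat_lit 235)) (XT.nd (nat_lit 78) (nat_lit 76) (nat_lit 0) (XT.lf (nat_lit 0) (nat_lit 2189221230) (nat_lit 0) (nat_lit 2208792882) (nat_lit 152) (nat_lit 2189221230)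 (nat_lit 74) (nat_lit 3) (nat_lit 74) (nat_lit 1) (nat_lit 76) (nat_lit 1) (nat_lit 371) (nat_lit 415) (nat_lit 234)) (XT.lf (nat_lit 76) (nat_lit 2147898414) (nat_lit 0) (nat_lit 2166538083) (nat_lit 76) (nat_lit 2166538083) (nat_lit 74) (nat_lit 3) (nat_lit 73) (nat_lit 1) (nat_lit 74) (nat_lit 1) (nat_lit 372) (nat_lit 415) (nat_lit 233)))) (XT.nd (nat_lit 156) (nat_lit 228) (nat_lit 0) (XT.nd (nat_lit 78) (nat_lit 0) (nat_lit 0) (XT.lf (nat_lit 152) (nat_lit 6366625844) (nat_lit 0) (nat_lit 5726472) (nat_lit 76) (nat_lit 5726472) (nat_lit 73) (nat_lit 1) (nat_lit 71) (nat_lit 1) (nat_lit 72) (nat_lit 1) (nat_lit 373) (nat_lit 415) (nat_lit 232)) (XT.lf (nat_lit 0) (nat_lit 2085804739) (nat_lit 0) (nat_lit 2101906385) (nat_lit 152) (nat_lit 2085804739) (nat_lit 71) (nat_lit 3) (nat_lit 71) (nat_lit 1) (nat_lit 73) (nat_lit 1) (nat_lit 374) (nat_lit 415) (nat_lit 231))) (XT.nd (nat_lit 78) (nat_lit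 152) (nat_lit 0) (XT.lf (nat_lit 76) (nat_lit 2047215985) (nat_lit 0) (nat_lit 2062550886) (nat_lit 76) (nat_lit 2062550886) (nat_lit 71) (nat_lit 3) (nat_lit 70) (nat_lit 1) (nat_lit 71) (nat_lit 1) (nat_lit 375) (nat_lit 415) (nat_lit 230)) (XT.lf (nat_lit 152) (nat_lit 6064903024) (nat_lit 0) (nat_lit 4711183) (nat_lit 76) (nat_lit 4711183) (nat_lit 70) (nat_lit 1) (nat_lit 68) (nat_lit 1) (nat_lit 69) (nat_lit 1) (nat_lit 376) (nat_lit 415) (nat_lit 229)))))) (XT.nd (nat_lit 468) (nat_lit 456) (nat_lit 0) (XT.nd (nat_lit 234) (nat_lit 228) (nat_lit 0) (XT.nd (nat_lit 78) (nat_lit 228) (nat_lit 0) (XT.lf (nat_lit 0) (nat_lit 1987165306) (nat_lit 0) (nat_lit 2000412170) (nat_lit 152) (nat_lit 1987165306) (nat_lit 68) (nat_lit 3) (nat_lit 68) (nat_lit 1) (nat_lit 70) (nat_lit 1) (nat_lit 377) (nat_lit 415) (nat_lit 228)) (XT.nd (nat_lit 78) (nat_lit 152) (nat_lit 0) (XT.lf (nat_lit 76) (nat_lit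 1951044555) (nat_lit 0) (nat_lit 1963660616) (nat_lit 76) (nat_lit 1963660616) (nat_lit 68) (nat_lit 3) (nat_lit 67) (nat_lit 1) (nat_lit 68) (nat_lit 1) (nat_lit 378) (nat_lit 415) (nat_lit 227)) (XT.lf (nat_lit 152) (nat_lit 5777290904) (nat_lit 0) (nat_lit 3875902) (nat_lit 76) (nat_lit 3875902) (nat_lit 67) (nat_lit 1) (nat_lit 65) (nat_lit 1) (nat_lit 66) (nat_lit 1) (nat_lit 379) (nat_lit 415) (nat_lit 226)))) (XT.nd (nat_lit 78) (nat_lit 228) (nat_lit 0) (XT.lf (nat_lit 0) (nat_lit 1893101610) (nat_lit 0) (nat_lit 1903999838) (nat_lit 152) (nat_lit 1893101610) (nat_lit 65) (nat_lit 3) (nat_lit 65) (nat_lit 1) (nat_lit 67) (nat_lit 1) (nat_lit 380) (nat_lit 415) (nat_lit 225)) (XT.nd (nat_lit 78) (nat_lit 152) (nat_lit 0) (XT.lf (nat_lit 76) (nat_lit 1859219564) (nat_lit 0) (nat_lit 1869598828) (nat_lit 76) (nat_lit 1869598828) (nat_lit 65) (nat_lit 3) (nat_lit 64) (nat_lit 1) (nat_lit 65)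 (nat_lit 1) (nat_lit 381) (nat_lit 415) (nat_lit 224)) (XT.lf (nat_lit 152) (nat_lit 5503163121) (nat_lit 0) (nat_lit 3188714) (nat_lit 76) (nat_lit 3188714) (nat_lit 64) (nat_lit 1) (nat_lit 62) (nat_lit 1) (nat_lit 63) (nat_lit 1) (nat_lit 382) (nat_lit 415) (nat_lit 223))))) (XT.nd (nat_lit 234) (nat_lit 228) (nat_lit 0) (XT.nd (nat_lit 78) (nat_lit 228) (nat_lit 0) (XT.lf (nat_lit 0) (nat_lit 1803417280) (nat_lit 0) (nat_lit 1812383280) (nat_lit 152) (nat_lit 1803417280) (nat_lit 62) (nat_lit 3) (nat_lit 62) (nat_lit 1) (nat_lit 64) (nat_lit 1) (nat_lit 383) (nat_lit 415) (nat_lit 222)) (XT.nd (nat_lit 78) (nat_lit 152) (nat_lit 0) (XT.lf (nat_lit 76) (nat_lit 1771575374) (nat_lit 0) (nat_lit 1780114421) (nat_lit 76) (nat_lit 1780114421) (nat_lit 62) (nat_lit 3) (nat_lit 61) (nat_lit 1) (nat_lit 62) (nat_lit 1) (nat_lit 384) (nat_lit 415) (nat_lit 221)) (XT.lf (nat_lit 152) (nat_lit 5241915058)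 (nat_lit 0) (nat_lit 2623363) (nat_lit 76) (nat_lit 2623363) (nat_lit 61) (nat_lit 1) (nat_lit 59) (nat_lit 1) (nat_lit 60) (nat_lit 1) (nat_lit 385) (nat_lit 415) (nat_lit 220)))) (XT.nd (nat_lit 156) (nat_lit 152) (nat_lit 0) (XT.nd (nat_lit 78) (nat_lit 76) (nat_lit 0) (XT.lf (nat_lit 0) (nat_lit 1717921479) (nat_lit 0) (nat_lit 1725297829) (nat_lit 152) (nat_lit 1717921479) (nat_lit 59) (nat_lit 3) (nat_lit 59) (nat_lit 1) (nat_lit 61) (nat_lit 1) (nat_lit 386) (nat_lit 415) (nat_lit 219)) (XT.lf (nat_lit 76) (nat_lit 1687946909) (nat_lit 0) (nat_lit 1694972004) (nat_lit 76) (nat_lit 1694972004) (nat_lit 59) (nat_lit 3) (nat_lit 58) (nat_lit 1) (nat_lit 59) (nat_lit 1) (nat_lit 387) (nat_lit 415) (nat_lit 218))) (XT.nd (nat_lit 78) (nat_lit 0) (nat_lit 0) (XT.lf (nat_lit 152) (nat_lit 4992964243) (nat_lit 0) (nat_lit 2158247) (nat_lit 76) (nat_lit 2158247) (nat_lit 58) (nat_lit 1) (nat_lit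 56) (nat_lit 1) (nat_lit 57) (nat_lit 1) (nat_lit 388) (nat_lit 415) (nat_lit 217)) (XT.lf (nat_lit 0) (nat_lit 1636429319) (nat_lit 0) (nat_lit 1642497860) (nat_lit 152) (nat_lit 1636429319) (nat_lit 56) (nat_lit 3) (nat_lit 56) (nat_lit 1) (nat_lit 58) (nat_lit 1) (nat_lit 389) (nat_lit 415) (nat_lit 216))))))))
noncomputable def ec330 : XT := (XT.nd (nat_lit 1950) (nat_lit 1976) (nat_lit 0) (XT.nd (nat_lit 936) (nat_lit 988) (nat_lit 0) (XT.nd (nat_lit 468) (nat_lit 456) (nat_lit 0) (XT.nd (nat_lit 234) (nat_lit 228) (nat_lit 0) (XT.nd (nat_lit 78) (nat_lit 152) (nat_lit 0) (XT.lf (nat_lit 76) (nat_lit 1608170922) (nat_lit 0) (nat_lit 1613950485) (nat_lit 76) (nat_lit 1613950485) (nat_lit 56) (nat_lit 3) (nat_lit 55) (nat_lit 1) (nat_lit 56) (nat_lit 1) (nat_lit 390) (nat_lit 415) (nat_lit 215)) (XT.nd (nat_lit 78) (nat_lit 0) (nat_lit 0) (XT.lf (nat_lit 152) (nat_lit 4755750470) (nat_lit 0)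 (nat_lit 1775595) (nat_lit 76) (nat_lit 1775595) (nat_lit 55) (nat_lit 1) (nat_lit 53) (nat_lit 1) (nat_lit 54) (nat_lit 1) (nat_lit 391) (nat_lit 415) (nat_lit 214)) (XT.lf (nat_lit 0) (nat_lit 1558762132) (nat_lit 0) (nat_lit 1563754736) (nat_lit 152) (nat_lit 1558762132) (nat_lit 53) (nat_lit 3) (nat_lit 53) (nat_lit 1) (nat_lit 55) (nat_lit 1) (nat_lit 392) (nat_lit 415) (nat_lit 213)))) (XT.nd (nat_lit 78) (nat_lit 152) (nat_lit 0) (XT.lf (nat_lit 76) (nat_lit 1532086982) (nat_lit 0) (nat_lit 1536841842) (nat_lit 76) (nat_lit 1536841842) (nat_lit 53) (nat_lit 3) (nat_lit 52) (nat_lit 1) (nat_lit 53) (nat_lit 1) (nat_lit 393) (nat_lit 415) (nat_lit 212)) (XT.nd (nat_lit 78) (nat_lit 0) (nat_lit 0) (XT.lf (nat_lit 152) (nat_lit 4529735710) (nat_lit 0) (nat_lit 1460786) (nat_lit 76) (nat_lit 1460786) (nat_lit 52) (nat_lit 1) (nat_lit 50) (nat_lit 1) (nat_lit 51) (nat_lit 1) (nat_lit 394) (nat_lit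 415) (nat_lit 211)) (XT.lf (nat_lit 0) (nat_lit 1484747637) (nat_lit 0) (nat_lit 1488855065) (nat_lit 152) (nat_lit 1484747637) (nat_lit 50) (nat_lit 3) (nat_lit 50) (nat_lit 1) (nat_lit 52) (nat_lit 1) (nat_lit 395) (nat_lit 415) (nat_lit 210))))) (XT.nd (nat_lit 234) (nat_lit 228) (nat_lit 0) (XT.nd (nat_lit 78) (nat_lit 152) (nat_lit 0) (XT.lf (nat_lit 76) (nat_lit 1459538212) (nat_lit 0) (nat_lit 1463450048) (nat_lit 76) (nat_lit 1463450048) (nat_lit 50) (nat_lit 3) (nat_lit 49) (nat_lit 1) (nat_lit 50) (nat_lit 1) (nat_lit 396) (nat_lit 415) (nat_lit 209)) (XT.nd (nat_lit 78) (nat_lit 0) (nat_lit 0) (XT.lf (nat_lit 152) (nat_lit 4314403855) (nat_lit 0) (nat_lit 1201792) (nat_lit 76) (nat_lit 1201792) (nat_lit 49) (nat_lit 1) (nat_lit 47) (nat_lit 1) (nat_lit 48) (nat_lit 1) (nat_lit 397) (nat_lit 415) (nat_lit 208)) (XT.lf (nat_lit 0) (nat_lit 1414220007) (nat_lit 0) (nat_lit 1417599197) (nat_lit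 152) (nat_lit 1414220007) (nat_lit 47) (nat_lit 3) (nat_lit 47) (nat_lit 1) (nat_lit 49) (nat_lit 1) (nat_lit 398) (nat_lit 415) (nat_lit 207)))) (XT.nd (nat_lit 78) (nat_lit 152) (nat_lit 0) (XT.lf (nat_lit 76) (nat_lit 1390371853) (nat_lit 0) (nat_lit 1393590130) (nat_lit 76) (nat_lit 1393590130) (nat_lit 47) (nat_lit 3) (nat_lit 46) (nat_lit 1) (nat_lit 47) (nat_lit 1) (nat_lit 399) (nat_lit 415) (nat_lit 206)) (XT.nd (nat_lit 78) (nat_lit 0) (nat_lit 0) (XT.lf (nat_lit 152) (nat_lit 4109260324) (nat_lit 0) (nat_lit 988717) (nat_lit 76) (nat_lit 988717) (nat_lit 46) (nat_lit 1) (nat_lit 44) (nat_lit 1) (nat_lit 45) (nat_lit 1) (nat_lit 400) (nat_lit 415) (nat_lit 205)) (XT.lf (nat_lit 0) (nat_lit 1347019872) (nat_lit 0) (nat_lit 1349799940) (nat_lit 152) (nat_lit 1347019872) (nat_lit 44) (nat_lit 3) (nat_lit 44) (nat_lit 1) (nat_lit 46) (nat_lit 1) (nat_lit 401) (nat_lit 415) (nat_lit 204))))))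 (XT.nd (nat_lit 468) (nat_lit 532) (nat_lit 0) (XT.nd (nat_lit 234) (nat_lit 228) (nat_lit 0) (XT.nd (nat_lit 78) (nat_lit 152) (nat_lit 0) (XT.lf (nat_lit 76) (nat_lit 1324439653) (nat_lit 0) (nat_lit 1327087337) (nat_lit 76) (nat_lit 1327087337) (nat_lit 44) (nat_lit 3) (nat_lit 43) (nat_lit 1) (nat_lit 44) (nat_lit 1) (nat_lit 402) (nat_lit 415) (nat_lit 203)) (XT.nd (nat_lit 78) (nat_lit 0) (nat_lit 0) (XT.lf (nat_lit 152) (nat_lit 3913831586) (nat_lit 0) (nat_lit 813420) (nat_lit 76) (nat_lit 813420) (nat_lit 43) (nat_lit 1) (nat_lit 41) (nat_lit 1) (nat_lit 42) (nat_lit 1) (nat_lit 403) (nat_lit 415) (nat_lit 202)) (XT.lf (nat_lit 0) (nat_lit 1282994270) (nat_lit 0) (nat_lit 1285281439) (nat_lit 152) (nat_lit 1282994270) (nat_lit 41) (nat_lit 3) (nat_lit 41) (nat_lit 1) (nat_lit 43) (nat_lit 1) (nat_lit 404) (nat_lit 415) (nat_lit 201)))) (XT.nd (nat_lit 78) (nat_lit 152) (nat_lit 0) (XT.lf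 (nat_lit 76) (nat_lit 1261598150) (nat_lit 0) (nat_lit 1263776407) (nat_lit 76) (nat_lit 1263776407) (nat_lit 41) (nat_lit 3) (nat_lit 40) (nat_lit 1) (nat_lit 41) (nat_lit 1) (nat_lit 405) (nat_lit 415) (nat_lit 200)) (XT.nd (nat_lit 78) (nat_lit 0) (nat_lit 0) (XT.lf (nat_lit 152) (nat_lit 3727664597) (nat_lit 0) (nat_lit 669203) (nat_lit 76) (nat_lit 669203) (nat_lit 40) (nat_lit 1) (nat_lit 38) (nat_lit 1) (nat_lit 39) (nat_lit 1) (nat_lit 406) (nat_lit 415) (nat_lit 199)) (XT.lf (nat_lit 0) (nat_lit 1221996549) (nat_lit 0) (nat_lit 1223878209) (nat_lit 152) (nat_lit 1221996549) (nat_lit 38) (nat_lit 3) (nat_lit 38) (nat_lit 1) (nat_lit 40) (nat_lit 1) (nat_lit 407) (nat_lit 415) (nat_lit 198))))) (XT.nd (nat_lit 234) (nat_lit 304) (nat_lit 0) (XT.nd (nat_lit 78) (nat_lit 152) (nat_lit 0) (XT.lf (nat_lit 76) (nat_lit 1201708845) (nat_lit 0) (nat_lit 1203500902) (nat_lit 76) (nat_lit 1203500902)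 (nat_lit 38) (nat_lit 3) (nat_lit 37) (nat_lit 1) (nat_lit 38) (nat_lit 1) (nat_lit 408) (nat_lit 415) (nat_lit 197)) (XT.nd (nat_lit 78) (nat_lit 0) (nat_lit 0) (XT.lf (nat_lit 152) (nat_lit 3550326189) (nat_lit 0) (nat_lit 550555) (nat_lit 76) (nat_lit 550555) (nat_lit 37) (nat_lit 1) (nat_lit 35) (nat_lit 1) (nat_lit 36) (nat_lit 1) (nat_lit 409) (nat_lit 415) (nat_lit 196)) (XT.lf (nat_lit 0) (nat_lit 1163886241) (nat_lit 0) (nat_lit 1165434287) (nat_lit 152) (nat_lit 1163886241) (nat_lit 35) (nat_lit 3) (nat_lit 35) (nat_lit 1) (nat_lit 37) (nat_lit 1) (nat_lit 410) (nat_lit 415) (nat_lit 195)))) (XT.nd (nat_lit 156) (nat_lit 76) (nat_lit 0) (XT.nd (nat_lit 78) (nat_lit 152) (nat_lit 0) (XT.lf (nat_lit 76) (nat_lit 1144638292) (nat_lit 0) (nat_lit 1146112622) (nat_lit 76) (nat_lit 1146112622) (nat_lit 35) (nat_lit 3) (nat_lit 34) (nat_lit 1) (nat_lit 35) (nat_lit 1) (nat_lit 411) (nat_lit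 415) (nat_lit 194)) (XT.lf (nat_lit 152) (nat_lit 3381402428) (nat_lit 0) (nat_lit 452943) (nat_lit 76) (nat_lit 452943) (nat_lit 34) (nat_lit 1) (nat_lit 32) (nat_lit 1) (nat_lit 33) (nat_lit 1) (nat_lit 412) (nat_lit 415) (nat_lit 193))) (XT.nd (nat_lit 78) (nat_lit 76) (nat_lit 0) (XT.lf (nat_lit 0) (nat_lit 1108528906) (nat_lit 0) (nat_lit 1109802487) (nat_lit 152) (nat_lit 1108528906) (nat_lit 32) (nat_lit 3) (nat_lit 32) (nat_lit 1) (nat_lit 34) (nat_lit 1) (nat_lit 413) (nat_lit 415) (nat_lit 192)) (XT.lf (nat_lit 76) (nat_lit 1090258138) (nat_lit 0) (nat_lit 1091471073) (nat_lit 76) (nat_lit 1091471073) (nat_lit 32) (nat_lit 3) (nat_lit 31) (nat_lit 1) (nat_lit 32) (nat_lit 1) (nat_lit 414) (nat_lit 415) (nat_lit 191))))))) (XT.nd (nat_lit 936) (nat_lit 1064) (nat_lit 0) (XT.nd (nat_lit 468) (nat_lit 456) (nat_lit 0) (XT.nd (nat_lit 234) (nat_lit 228) (nat_lit 0) (XT.nd (nat_lit 78) (nat_lit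 76) (nat_lit 0) (XT.lf (nat_lit 152) (nat_lit 3220497941) (nat_lit 0) (nat_lit 372637) (nat_lit 76) (nat_lit 372637) (nat_lit 31) (nat_lit 1) (nat_lit 29) (nat_lit 1) (nat_lit 30) (nat_lit 1) (nat_lit 415) (nat_lit 415) (nat_lit 190)) (XT.nd (nat_lit 78) (nat_lit 76) (nat_lit 0) (XT.lf (nat_lit 0) (nat_lit 1055795965) (nat_lit 0) (nat_lit 1056843743) (nat_lit 152) (nat_lit 1055795965) (nat_lit 29) (nat_lit 3) (nat_lit 29) (nat_lit 1) (nat_lit 31) (nat_lit 1) (nat_lit 416) (nat_lit 415) (nat_lit 189)) (XT.lf (nat_lit 76) (nat_lit 1038445099) (nat_lit 0) (nat_lit 1039442984) (nat_lit 76) (nat_lit 1039442984) (nat_lit 29) (nat_lit 3) (nat_lit 28) (nat_lit 1) (nat_lit 29) (nat_lit 1) (nat_lit 417) (nat_lit 415) (nat_lit 188)))) (XT.nd (nat_lit 78) (nat_lit 76) (nat_lit 0) (XT.lf (nat_lit 152) (nat_lit 3067235241) (nat_lit 0) (nat_lit 306569) (nat_lit 76) (nat_lit 306569) (nat_lit 28) (nat_lit 1) (nat_lit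 26) (nat_lit 1) (nat_lit 27) (nat_lit 1) (nat_lit 418) (nat_lit 415) (nat_lit 187)) (XT.nd (nat_lit 78) (nat_lit 76) (nat_lit 0) (XT.lf (nat_lit 0) (nat_lit 1005564515) (nat_lit 0) (nat_lit 1006426525) (nat_lit 152) (nat_lit 1005564515) (nat_lit 26) (nat_lit 3) (nat_lit 26) (nat_lit 1) (nat_lit 28) (nat_lit 1) (nat_lit 419) (nat_lit 415) (nat_lit 186)) (XT.lf (nat_lit 76) (nat_lit 989080906) (nat_lit 0) (nat_lit 989901868) (nat_lit 76) (nat_lit 989901868) (nat_lit 26) (nat_lit 3) (nat_lit 25) (nat_lit 1) (nat_lit 26) (nat_lit 1) (nat_lit 420) (nat_lit 415) (nat_lit 185))))) (XT.nd (nat_lit 234) (nat_lit 228) (nat_lit 0) (XT.nd (nat_lit 78) (nat_lit 76) (nat_lit 0) (XT.lf (nat_lit 152) (nat_lit 2921254038) (nat_lit 0) (nat_lit 252215) (nat_lit 76) (nat_lit 252215) (nat_lit 25) (nat_lit 1) (nat_lit 23) (nat_lit 1) (nat_lit 24) (nat_lit 1) (nat_lit 421) (nat_lit 415) (nat_lit 184)) (XT.nd (nat_lit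 78) (nat_lit 76) (nat_lit 0) (XT.lf (nat_lit 0) (nat_lit 957717141) (nat_lit 0) (nat_lit 958426319) (nat_lit 152) (nat_lit 957717141) (nat_lit 23) (nat_lit 3) (nat_lit 23) (nat_lit 1) (nat_lit 25) (nat_lit 1) (nat_lit 422) (nat_lit 415) (nat_lit 183)) (XT.lf (nat_lit 76) (nat_lit 942052217) (nat_lit 0) (nat_lit 942727625) (nat_lit 76) (nat_lit 942727625) (nat_lit 23) (nat_lit 3) (nat_lit 22) (nat_lit 1) (nat_lit 23) (nat_lit 1) (nat_lit 423) (nat_lit 415) (nat_lit 182)))) (XT.nd (nat_lit 78) (nat_lit 76) (nat_lit 0) (XT.lf (nat_lit 152) (nat_lit 2782210560) (nat_lit 0) (nat_lit 207498) (nat_lit 76) (nat_lit 207498) (nat_lit 22) (nat_lit 1) (nat_lit 20) (nat_lit 1) (nat_lit 21) (nat_lit 1) (nat_lit 424) (nat_lit 415) (nat_lit 181)) (XT.nd (nat_lit 78) (nat_lit 76) (nat_lit 0) (XT.lf (nat_lit 0) (nat_lit 912141715) (nat_lit 0) (nat_lit 912725158) (nat_lit 152) (nat_lit 912141715) (nat_lit 20) (nat_lit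 3) (nat_lit 20) (nat_lit 1) (nat_lit 22) (nat_lit 1) (nat_lit 425) (nat_lit 415) (nat_lit 180)) (XT.lf (nat_lit 76) (nat_lit 897250507) (nat_lit 0) (nat_lit 897806167) (nat_lit 76) (nat_lit 897806167) (nat_lit 20) (nat_lit 3) (nat_lit 19) (nat_lit 1) (nat_lit 20) (nat_lit 1) (nat_lit 426) (nat_lit 415) (nat_lit 179)))))) (XT.nd (nat_lit 468) (nat_lit 608) (nat_lit 0) (XT.nd (nat_lit 234) (nat_lit 228) (nat_lit 0) (XT.nd (nat_lit 78) (nat_lit 76) (nat_lit 0) (XT.lf (nat_lit 152) (nat_lit 2649776877) (nat_lit 0) (nat_lit 170709) (nat_lit 76) (nat_lit 170709) (nat_lit 19) (nat_lit 1) (nat_lit 17) (nat_lit 1) (nat_lit 18) (nat_lit 1) (nat_lit 427) (nat_lit 415) (nat_lit 178)) (XT.nd (nat_lit 78) (nat_lit 76) (nat_lit 0) (XT.lf (nat_lit 0) (nat_lit 868731202) (nat_lit 0) (nat_lit 869211202) (nat_lit 152) (nat_lit 868731202) (nat_lit 17) (nat_lit 3) (nat_lit 17) (nat_lit 1) (nat_lit 19) (nat_lit 1) (nat_lit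 428) (nat_lit 415) (nat_lit 177)) (XT.lf (nat_lit 76) (nat_lit 854571943) (nat_lit 0) (nat_lit 855029086) (nat_lit 76) (nat_lit 855029086) (nat_lit 17) (nat_lit 3) (nat_lit 16) (nat_lit 1) (nat_lit 17) (nat_lit 1) (nat_lit 429) (nat_lit 415) (nat_lit 176)))) (XT.nd (nat_lit 78) (nat_lit 76) (nat_lit 0) (XT.lf (nat_lit 152) (nat_lit 2523640246) (nat_lit 0) (nat_lit 140443) (nat_lit 76) (nat_lit 140443) (nat_lit 16) (nat_lit 1) (nat_lit 14) (nat_lit 1) (nat_lit 15) (nat_lit 1) (nat_lit 430) (nat_lit 415) (nat_lit 175)) (XT.nd (nat_lit 78) (nat_lit 76) (nat_lit 0) (XT.lf (nat_lit 0) (nat_lit 827383458) (nat_lit 0) (nat_lit 827778355) (nat_lit 152) (nat_lit 827383458) (nat_lit 14) (nat_lit 3) (nat_lit 14) (nat_lit 1) (nat_lit 16) (nat_lit 1) (nat_lit 431) (nat_lit 415) (nat_lit 174)) (XT.lf (nat_lit 76) (nat_lit 813917244) (nat_lit 0) (nat_lit 814293336) (nat_lit 76) (nat_lit 814293336) (nat_lit 14)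 (nat_lit 3) (nat_lit 13) (nat_lit 1) (nat_lit 14) (nat_lit 1) (nat_lit 432) (nat_lit 415) (nat_lit 173))))) (XT.nd (nat_lit 234) (nat_lit 380) (nat_lit 0) (XT.nd (nat_lit 78) (nat_lit 76) (nat_lit 0) (XT.lf (nat_lit 152) (nat_lit 2403502459) (nat_lit 0) (nat_lit 115542) (nat_lit 76) (nat_lit 115542) (nat_lit 13) (nat_lit 1) (nat_lit 11) (nat_lit 1) (nat_lit 12) (nat_lit 1) (nat_lit 433) (nat_lit 415) (nat_lit 172)) (XT.nd (nat_lit 78) (nat_lit 76) (nat_lit 0) (XT.lf (nat_lit 0) (nat_lit 788001036) (nat_lit 0) (nat_lit 788325918) (nat_lit 152) (nat_lit 788001036) (nat_lit 11) (nat_lit 3) (nat_lit 11) (nat_lit 1) (nat_lit 13) (nat_lit 1) (nat_lit 434) (nat_lit 415) (nat_lit 171)) (XT.lf (nat_lit 76) (nat_lit 775191531) (nat_lit 0) (nat_lit 775500943) (nat_lit 76) (nat_lit 775500943) (nat_lit 11) (nat_lit 3) (nat_lit 10) (nat_lit 1) (nat_lit 11) (nat_lit 1) (nat_lit 435) (nat_lit 415) (nat_lit 170))))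 (XT.nd (nat_lit 156) (nat_lit 228) (nat_lit 0) (XT.nd (nat_lit 78) (nat_lit 0) (nat_lit 0) (XT.lf (nat_lit 152) (nat_lit 2289079214) (nat_lit 0) (nat_lit 95057) (nat_lit 76) (nat_lit 95057) (nat_lit 10) (nat_lit 1) (nat_lit 8) (nat_lit 1) (nat_lit 9) (nat_lit 1) (nat_lit 436) (nat_lit 415) (nat_lit 169)) (XT.lf (nat_lit 0) (nat_lit 750490990) (nat_lit 0) (nat_lit 750758272) (nat_lit 152) (nat_lit 750490990) (nat_lit 8) (nat_lit 3) (nat_lit 8) (nat_lit 1) (nat_lit 10) (nat_lit 1) (nat_lit 437) (nat_lit 415) (nat_lit 168))) (XT.nd (nat_lit 78) (nat_lit 152) (nat_lit 0) (XT.lf (nat_lit 76) (nat_lit 738304183) (nat_lit 0) (nat_lit 738558737) (nat_lit 76) (nat_lit 738558737) (nat_lit 8) (nat_lit 3) (nat_lit 7) (nat_lit 1) (nat_lit 8) (nat_lit 1) (nat_lit 438) (nat_lit 415) (nat_lit 167)) (XT.lf (nat_lit 152) (nat_lit 2180099509) (nat_lit 0) (nat_lit 78203) (nat_lit 76) (nat_lit 78203) (nat_lit 7) (nat_lit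 1) (nat_lit 5) (nat_lit 1) (nat_lit 6) (nat_lit 1) (nat_lit 439) (nat_lit 415) (nat_lit 166))))))))
noncomputable def ec331 : XT := (XT.nd (nat_lit 35256) (nat_lit 0) (nat_lit 15656) (XT.nd (nat_lit 34242) (nat_lit 0) (nat_lit 19228) (XT.nd (nat_lit 33774) (nat_lit 0) (nat_lit 22040) (XT.nd (nat_lit 33540) (nat_lit 0) (nat_lit 21888) (XT.nd (nat_lit 78) (nat_lit 76) (nat_lit 0) (XT.lf (nat_lit 0) (nat_lit 714764688) (nat_lit 0) (nat_lit 714984581) (nat_lit 152) (nat_lit 714764688) (nat_lit 5) (nat_lit 3) (nat_lit 5) (nat_lit 1) (nat_lit 7) (nat_lit 1) (nat_lit 440) (nat_lit 415) (nat_lit 165)) (XT.nd (nat_lit 33384) (nat_lit 0) (nat_lit 21888) (XT.lf (nat_lit 76) (nat_lit 703168670) (nat_lit 0) (nat_lit 703378092) (nat_lit 76) (nat_lit 703378092) (nat_lit 5) (nat_lit 3) (nat_lit 4) (nat_lit 1) (nat_lit 5) (nat_lit 1) (nat_lit 441) (nat_lit 415) (nat_lit 164)) (XT.lf (nat_lit 836) (nat_lit 21909698854)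 (nat_lit 0) (nat_lit 38900619954) (nat_lit 836) (nat_lit 21909698854) (nat_lit 303) (nat_lit 1) (nat_lit 292) (nat_lit 0) (nat_lit 303) (nat_lit 0) (nat_lit 188) (nat_lit 416) (nat_lit 416)))) (XT.nd (nat_lit 78) (nat_lit 0) (nat_lit 76) (XT.lf (nat_lit 836) (nat_lit 84924728077) (nat_lit 76) (nat_lit 38273190600) (nat_lit 0) (nat_lit 38273190600) (nat_lit 303) (nat_lit 1) (nat_lit 293) (nat_lit 1) (nat_lit 292) (nat_lit 0) (nat_lit 189) (nat_lit 416) (nat_lit 415)) (XT.nd (nat_lit 78) (nat_lit 0) (nat_lit 0) (XT.lf (nat_lit 836) (nat_lit 40473846690) (nat_lit 0) (nat_lit 76677190675) (nat_lit 760) (nat_lit 40473846690) (nat_lit 304) (nat_lit 1) (nat_lit 293) (nat_lit 1) (nat_lit 303) (nat_lit 1) (nat_lit 190) (nat_lit 416) (nat_lit 414)) (XT.lf (nat_lit 836) (nat_lit 75923312409) (nat_lit 76) (nat_lit 38989804079) (nat_lit 0) (nat_lit 38989804079) (nat_lit 304) (nat_lit 1) (nat_lit 294) (nat_lit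 1) (nat_lit 293) (nat_lit 1) (nat_lit 191) (nat_lit 416) (nat_lit 413))))) (XT.nd (nat_lit 234) (nat_lit 0) (nat_lit 76) (XT.nd (nat_lit 78) (nat_lit 0) (nat_lit 0) (XT.lf (nat_lit 836) (nat_lit 34946771603) (nat_lit 0) (nat_lit 80405381442) (nat_lit 760) (nat_lit 34946771603) (nat_lit 305) (nat_lit 1) (nat_lit 294) (nat_lit 1) (nat_lit 304) (nat_lit 1) (nat_lit 192) (nat_lit 416) (nat_lit 412)) (XT.nd (nat_lit 78) (nat_lit 0) (nat_lit 76) (XT.lf (nat_lit 836) (nat_lit 62854044881) (nat_lit 76) (nat_lit 41975373709) (nat_lit 0) (nat_lit 41975373709) (nat_lit 305) (nat_lit 1) (nat_lit 295) (nat_lit 1) (nat_lit 294) (nat_lit 1) (nat_lit 193) (nat_lit 416) (nat_lit 411)) (XT.lf (nat_lit 836) (nat_lit 27559683291) (nat_lit 0) (nat_lit 88308614233) (nat_lit 760) (nat_lit 27559683291) (nat_lit 306) (nat_lit 1) (nat_lit 295) (nat_lit 1) (nat_lit 305) (nat_lit 1) (nat_lit 194) (nat_lit 416) (nat_lit 410))))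 (XT.nd (nat_lit 78) (nat_lit 0) (nat_lit 76) (XT.lf (nat_lit 836) (nat_lit 46328673811) (nat_lit 76) (nat_lit 46907735355) (nat_lit 0) (nat_lit 46907735355) (nat_lit 306) (nat_lit 1) (nat_lit 296) (nat_lit 1) (nat_lit 295) (nat_lit 1) (nat_lit 195) (nat_lit 416) (nat_lit 409)) (XT.nd (nat_lit 78) (nat_lit 0) (nat_lit 0) (XT.lf (nat_lit 836) (nat_lit 18598549500) (nat_lit 0) (nat_lit 99783416362) (nat_lit 760) (nat_lit 18598549500) (nat_lit 307) (nat_lit 1) (nat_lit 296) (nat_lit 1) (nat_lit 306) (nat_lit 1) (nat_lit 196) (nat_lit 416) (nat_lit 408)) (XT.lf (nat_lit 836) (nat_lit 26890951146) (nat_lit 76) (nat_lit 53499972749) (nat_lit 0) (nat_lit 53499972749) (nat_lit 307) (nat_lit 1) (nat_lit 297) (nat_lit 1) (nat_lit 296) (nat_lit 1) (nat_lit 197) (nat_lit 416) (nat_lit 407)))))) (XT.nd (nat_lit 468) (nat_lit 1368) (nat_lit 0) (XT.nd (nat_lit 234) (nat_lit 380) (nat_lit 0) (XT.nd (nat_lit 78)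 (nat_lit 1292) (nat_lit 0) (XT.lf (nat_lit 76) (nat_lit 8317368485) (nat_lit 0) (nat_lit 114292673498) (nat_lit 760) (nat_lit 8317368485) (nat_lit 298) (nat_lit 1) (nat_lit 297) (nat_lit 1) (nat_lit 307) (nat_lit 1) (nat_lit 198) (nat_lit 416) (nat_lit 406)) (XT.nd (nat_lit 78) (nat_lit 532) (nat_lit 0) (XT.lf (nat_lit 836) (nat_lit 5023483730) (nat_lit 0) (nat_lit 61496888281) (nat_lit 760) (nat_lit 61496888281) (nat_lit 298) (nat_lit 1) (nat_lit 287) (nat_lit 1) (nat_lit 297) (nat_lit 1) (nat_lit 199) (nat_lit 416) (nat_lit 405)) (XT.lf (nat_lit 532) (nat_lit 119213595333) (nat_lit 0) (nat_lit 3009270143) (nat_lit 456) (nat_lit 3009270143) (nat_lit 287) (nat_lit 1) (nat_lit 280) (nat_lit 1) (nat_lit 286) (nat_lit 1) (nat_lit 200) (nat_lit 416) (nat_lit 404)))) (XT.nd (nat_lit 78) (nat_lit 380) (nat_lit 0) (XT.lf (nat_lit 76) (nat_lit 52119976395) (nat_lit 0) (nat_lit 18242885431) (nat_lit 532)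 (nat_lit 52119976395) (nat_lit 281) (nat_lit 1) (nat_lit 280) (nat_lit 1) (nat_lit 287) (nat_lit 1) (nat_lit 201) (nat_lit 416) (nat_lit 403)) (XT.nd (nat_lit 78) (nat_lit 0) (nat_lit 0) (XT.lf (nat_lit 456) (nat_lit 89685100759) (nat_lit 0) (nat_lit 15082673778) (nat_lit 380) (nat_lit 15082673778) (nat_lit 281) (nat_lit 1) (nat_lit 275) (nat_lit 1) (nat_lit 280) (nat_lit 1) (nat_lit 202) (nat_lit 416) (nat_lit 402)) (XT.lf (nat_lit 76) (nat_lit 37176544682) (nat_lit 0) (nat_lit 42920309154) (nat_lit 456) (nat_lit 37176544682) (nat_lit 276) (nat_lit 1) (nat_lit 275) (nat_lit 1) (nat_lit 281) (nat_lit 1) (nat_lit 203) (nat_lit 416) (nat_lit 401))))) (XT.nd (nat_lit 234) (nat_lit 684) (nat_lit 0) (XT.nd (nat_lit 78) (nat_lit 304) (nat_lit 0) (XT.lf (nat_lit 456) (nat_lit 59058910701) (nat_lit 0) (nat_lit 27863594886) (nat_lit 380) (nat_lit 27863594886) (nat_lit 276) (nat_lit 1) (nat_lit 270) (nat_lit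 1) (nat_lit 275) (nat_lit 1) (nat_lit 204) (nat_lit 416) (nat_lit 400)) (XT.nd (nat_lit 78) (nat_lit 304) (nat_lit 0) (XT.lf (nat_lit 76) (nat_lit 21762423698) (nat_lit 0) (nat_lit 68846294042) (nat_lit 456) (nat_lit 21762423698) (nat_lit 271) (nat_lit 1) (nat_lit 270) (nat_lit 1) (nat_lit 276) (nat_lit 1) (nat_lit 205) (nat_lit 416) (nat_lit 399)) (XT.lf (nat_lit 380) (nat_lit 27620077293) (nat_lit 0) (nat_lit 41199112910) (nat_lit 304) (nat_lit 41199112910) (nat_lit 271) (nat_lit 1) (nat_lit 266) (nat_lit 1) (nat_lit 270) (nat_lit 1) (nat_lit 206) (nat_lit 416) (nat_lit 398)))) (XT.nd (nat_lit 156) (nat_lit 304) (nat_lit 0) (XT.nd (nat_lit 78) (nat_lit 380) (nat_lit 0) (XT.lf (nat_lit 76) (nat_lit 6009944521) (nat_lit 0) (nat_lit 95736054325) (nat_lit 380) (nat_lit 6009944521) (nat_lit 267) (nat_lit 1) (nat_lit 266) (nat_lit 1) (nat_lit 271) (nat_lit 1) (nat_lit 207) (nat_lit 416) (nat_lit 397))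 (XT.lf (nat_lit 76) (nat_lit 50641519494) (nat_lit 0) (nat_lit 4241325629) (nat_lit 380) (nat_lit 50641519494) (nat_lit 262) (nat_lit 1) (nat_lit 261) (nat_lit 1) (nat_lit 266) (nat_lit 1) (nat_lit 208) (nat_lit 416) (nat_lit 396))) (XT.nd (nat_lit 78) (nat_lit 0) (nat_lit 0) (XT.lf (nat_lit 380) (nat_lit 83769059495) (nat_lit 0) (nat_lit 9804355182) (nat_lit 304) (nat_lit 9804355182) (nat_lit 262) (nat_lit 1) (nat_lit 257) (nat_lit 1) (nat_lit 261) (nat_lit 1) (nat_lit 209) (nat_lit 416) (nat_lit 395)) (XT.lf (nat_lit 76) (nat_lit 32857907877) (nat_lit 0) (nat_lit 35552184655) (nat_lit 380) (nat_lit 32857907877) (nat_lit 258) (nat_lit 1) (nat_lit 257) (nat_lit 1) (nat_lit 262) (nat_lit 1) (nat_lit 210) (nat_lit 416) (nat_lit 394))))))) (XT.nd (nat_lit 1014) (nat_lit 1520) (nat_lit 0) (XT.nd (nat_lit 468) (nat_lit 912) (nat_lit 0) (XT.nd (nat_lit 234) (nat_lit 608) (nat_lit 0) (XT.nd (nat_lit 78)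 (nat_lit 228) (nat_lit 0) (XT.lf (nat_lit 380) (nat_lit 47948827953) (nat_lit 0) (nat_lit 25641281196) (nat_lit 304) (nat_lit 25641281196) (nat_lit 258) (nat_lit 1) (nat_lit 253) (nat_lit 1) (nat_lit 257) (nat_lit 1) (nat_lit 211) (nat_lit 416) (nat_lit 393)) (XT.nd (nat_lit 78) (nat_lit 228) (nat_lit 0) (XT.lf (nat_lit 76) (nat_lit 15120920415) (nat_lit 0) (nat_lit 67012490104) (nat_lit 380) (nat_lit 15120920415) (nat_lit 254) (nat_lit 1) (nat_lit 253) (nat_lit 1) (nat_lit 258) (nat_lit 1) (nat_lit 212) (nat_lit 416) (nat_lit 392)) (XT.lf (nat_lit 304) (nat_lit 12297196956) (nat_lit 0) (nat_lit 41511375683) (nat_lit 228) (nat_lit 41511375683) (nat_lit 254) (nat_lit 1) (nat_lit 250) (nat_lit 1) (nat_lit 253) (nat_lit 1) (nat_lit 213) (nat_lit 416) (nat_lit 391)))) (XT.nd (nat_lit 78) (nat_lit 228) (nat_lit 0) (XT.lf (nat_lit 380) (nat_lit 88546239120) (nat_lit 0) (nat_lit 2456988233) (nat_lit 304)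 (nat_lit 2456988233) (nat_lit 250) (nat_lit 1) (nat_lit 245) (nat_lit 1) (nat_lit 249) (nat_lit 1) (nat_lit 214) (nat_lit 416) (nat_lit 390)) (XT.nd (nat_lit 78) (nat_lit 228) (nat_lit 0) (XT.lf (nat_lit 76) (nat_lit 34648797979) (nat_lit 0) (nat_lit 22313180291) (nat_lit 380) (nat_lit 34648797979) (nat_lit 246) (nat_lit 1) (nat_lit 245) (nat_lit 1) (nat_lit 250) (nat_lit 1) (nat_lit 215) (nat_lit 416) (nat_lit 389)) (XT.lf (nat_lit 304) (nat_lit 50605664846) (nat_lit 0) (nat_lit 19613301492) (nat_lit 228) (nat_lit 19613301492) (nat_lit 246) (nat_lit 1) (nat_lit 242) (nat_lit 1) (nat_lit 245) (nat_lit 1) (nat_lit 216) (nat_lit 416) (nat_lit 388))))) (XT.nd (nat_lit 234) (nat_lit 380) (nat_lit 0) (XT.nd (nat_lit 78) (nat_lit 532) (nat_lit 0) (XT.lf (nat_lit 76) (nat_lit 15987112314) (nat_lit 0) (nat_lit 56124720848) (nat_lit 304) (nat_lit 15987112314) (nat_lit 243) (nat_lit 1) (nat_lit 242) (nat_lit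 1) (nat_lit 246) (nat_lit 1) (nat_lit 217) (nat_lit 416) (nat_lit 387)) (XT.nd (nat_lit 78) (nat_lit 304) (nat_lit 0) (XT.lf (nat_lit 304) (nat_lit 13324758417) (nat_lit 0) (nat_lit 36540148660) (nat_lit 228) (nat_lit 36540148660) (nat_lit 243) (nat_lit 1) (nat_lit 239) (nat_lit 1) (nat_lit 242) (nat_lit 1) (nat_lit 218) (nat_lit 416) (nat_lit 386)) (XT.lf (nat_lit 304) (nat_lit 80194101399) (nat_lit 0) (nat_lit 2289997377) (nat_lit 228) (nat_lit 2289997377) (nat_lit 239) (nat_lit 1) (nat_lit 235) (nat_lit 1) (nat_lit 238) (nat_lit 1) (nat_lit 219) (nat_lit 416) (nat_lit 385)))) (XT.nd (nat_lit 156) (nat_lit 152) (nat_lit 0) (XT.nd (nat_lit 78) (nat_lit 228) (nat_lit 0) (XT.lf (nat_lit 76) (nat_lit 30335131945) (nat_lit 0) (nat_lit 22478028173) (nat_lit 304) (nat_lit 30335131945) (nat_lit 236) (nat_lit 1) (nat_lit 235) (nat_lit 1) (nat_lit 239) (nat_lit 1) (nat_lit 220) (nat_lit 416) (nat_lit 384))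 (XT.lf (nat_lit 304) (nat_lit 41713584087) (nat_lit 0) (nat_lit 19934529448) (nat_lit 228) (nat_lit 19934529448) (nat_lit 236) (nat_lit 1) (nat_lit 232) (nat_lit 1) (nat_lit 235) (nat_lit 1) (nat_lit 221) (nat_lit 416) (nat_lit 383))) (XT.nd (nat_lit 78) (nat_lit 152) (nat_lit 0) (XT.lf (nat_lit 76) (nat_lit 11487887037) (nat_lit 0) (nat_lit 57083211249) (nat_lit 304) (nat_lit 11487887037) (nat_lit 233) (nat_lit 1) (nat_lit 232) (nat_lit 1) (nat_lit 236) (nat_lit 1) (nat_lit 222) (nat_lit 416) (nat_lit 382)) (XT.lf (nat_lit 228) (nat_lit 4209543775) (nat_lit 0) (nat_lit 37177248152) (nat_lit 152) (nat_lit 37177248152) (nat_lit 233) (nat_lit 1) (nat_lit 230) (nat_lit 1) (nat_lit 232) (nat_lit 1) (nat_lit 223) (nat_lit 416) (nat_lit 381)))))) (XT.nd (nat_lit 468) (nat_lit 684) (nat_lit 0) (XT.nd (nat_lit 234) (nat_lit 380) (nat_lit 0) (XT.nd (nat_lit 78) (nat_lit 152) (nat_lit 0) (XT.lf (nat_lit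 304) (nat_lit 63604794919) (nat_lit 0) (nat_lit 6755290249) (nat_lit 228) (nat_lit 6755290249) (nat_lit 230) (nat_lit 1) (nat_lit 226) (nat_lit 1) (nat_lit 229) (nat_lit 1) (nat_lit 224) (nat_lit 416) (nat_lit 380)) (XT.nd (nat_lit 78) (nat_lit 152) (nat_lit 0) (XT.lf (nat_lit 76) (nat_lit 22215645069) (nat_lit 0) (nat_lit 31251622537) (nat_lit 304) (nat_lit 22215645069) (nat_lit 227) (nat_lit 1) (nat_lit 226) (nat_lit 1) (nat_lit 230) (nat_lit 1) (nat_lit 225) (nat_lit 416) (nat_lit 379)) (XT.lf (nat_lit 228) (nat_lit 25666750968) (nat_lit 0) (nat_lit 24313954347) (nat_lit 152) (nat_lit 24313954347) (nat_lit 227) (nat_lit 1) (nat_lit 224) (nat_lit 1) (nat_lit 226) (nat_lit 1) (nat_lit 226) (nat_lit 416) (nat_lit 378)))) (XT.nd (nat_lit 78) (nat_lit 380) (nat_lit 0) (XT.lf (nat_lit 76) (nat_lit 3687497436) (nat_lit 0) (nat_lit 65577482570) (nat_lit 228) (nat_lit 3687497436) (nat_lit 225) (nat_lit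 1) (nat_lit 224) (nat_lit 1) (nat_lit 227) (nat_lit 1) (nat_lit 227) (nat_lit 416) (nat_lit 377)) (XT.nd (nat_lit 78) (nat_lit 152) (nat_lit 0) (XT.lf (nat_lit 76) (nat_lit 30433563295) (nat_lit 0) (nat_lit 10748047558) (nat_lit 228) (nat_lit 30433563295) (nat_lit 222) (nat_lit 1) (nat_lit 221) (nat_lit 1) (nat_lit 224) (nat_lit 1) (nat_lit 228) (nat_lit 416) (nat_lit 376)) (XT.lf (nat_lit 228) (nat_lit 42262336577) (nat_lit 0) (nat_lit 14029950687) (nat_lit 152) (nat_lit 14029950687) (nat_lit 222) (nat_lit 1) (nat_lit 219) (nat_lit 1) (nat_lit 221) (nat_lit 1) (nat_lit 229) (nat_lit 416) (nat_lit 375))))) (XT.nd (nat_lit 234) (nat_lit 304) (nat_lit 0) (XT.nd (nat_lit 78) (nat_lit 380) (nat_lit 0) (XT.lf (nat_lit 76) (nat_lit 11925331877) (nat_lit 0) (nat_lit 45207214713) (nat_lit 228) (nat_lit 11925331877) (nat_lit 220) (nat_lit 1) (nat_lit 219) (nat_lit 1) (nat_lit 222) (nat_lit 1) (nat_lit 230)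 (nat_lit 416) (nat_lit 374)) (XT.nd (nat_lit 78) (nat_lit 228) (nat_lit 0) (XT.lf (nat_lit 228) (nat_lit 5586588632) (nat_lit 0) (nat_lit 31116208291) (nat_lit 152) (nat_lit 31116208291) (nat_lit 220) (nat_lit 1) (nat_lit 217) (nat_lit 1) (nat_lit 219) (nat_lit 1) (nat_lit 231) (nat_lit 416) (nat_lit 373)) (XT.lf (nat_lit 228) (nat_lit 54908602259) (nat_lit 0) (nat_lit 5853713506) (nat_lit 152) (nat_lit 5853713506) (nat_lit 217) (nat_lit 1) (nat_lit 214) (nat_lit 1) (nat_lit 216) (nat_lit 1) (nat_lit 232) (nat_lit 416) (nat_lit 372)))) (XT.nd (nat_lit 156) (nat_lit 152) (nat_lit 0) (XT.nd (nat_lit 78) (nat_lit 152) (nat_lit 0) (XT.lf (nat_lit 76) (nat_lit 18279208248) (nat_lit 0) (nat_lit 28864904101) (nat_lit 228) (nat_lit 18279208248) (nat_lit 215) (nat_lit 1) (nat_lit 214) (nat_lit 1) (nat_lit 217) (nat_lit 1) (nat_lit 233) (nat_lit 416) (nat_lit 371)) (XT.lf (nat_lit 228) (nat_lit 18616486135)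 (nat_lit 0) (nat_lit 22824375887) (nat_lit 152) (nat_lit 22824375887) (nat_lit 215) (nat_lit 1) (nat_lit 212) (nat_lit 1) (nat_lit 214) (nat_lit 1) (nat_lit 234) (nat_lit 416) (nat_lit 370))) (XT.nd (nat_lit 78) (nat_lit 152) (nat_lit 0) (XT.lf (nat_lit 76) (nat_lit 611872556) (nat_lit 0) (nat_lit 61924024127) (nat_lit 228) (nat_lit 611872556) (nat_lit 213) (nat_lit 1) (nat_lit 212) (nat_lit 1) (nat_lit 215) (nat_lit 1) (nat_lit 235) (nat_lit 416) (nat_lit 369)) (XT.lf (nat_lit 76) (nat_lit 23103310054) (nat_lit 0) (nat_lit 15816577256) (nat_lit 152) (nat_lit 23103310054) (nat_lit 211) (nat_lit 1) (nat_lit 210) (nat_lit 1) (nat_lit 212) (nat_lit 1) (nat_lit 236) (nat_lit 416) (nat_lit 368))))))))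
noncomputable def ec332 : XT := (XT.nd (nat_lit 1950) (nat_lit 1900) (nat_lit 0) (XT.nd (nat_lit 936) (nat_lit 988) (nat_lit 0) (XT.nd (nat_lit 468) (nat_lit 608) (nat_lit 0) (XT.nd (nat_lit 234) (nat_lit 228) (nat_lit 0) (XT.nd (nat_lit 78) (nat_lit 152) (nat_lit 0) (XT.lf (nat_lit 228) (nat_lit 28668577636) (nat_lit 0) (nat_lit 16134807975) (nat_lit 152) (nat_lit 16134807975) (nat_lit 211) (nat_lit 1) (nat_lit 208) (nat_lit 1) (nat_lit 210) (nat_lit 1) (nat_lit 237) (nat_lit 416) (nat_lit 367)) (XT.nd (nat_lit 78) (nat_lit 152) (nat_lit 0) (XT.lf (nat_lit 76) (nat_lit 5747851680) (nat_lit 0) (nat_lit 48386773452) (nat_lit 228) (nat_lit 5747851680) (nat_lit 209) (nat_lit 1) (nat_lit 208) (nat_lit 1) (nat_lit 211) (nat_lit 1) (nat_lit 238) (nat_lit 416) (nat_lit 366)) (XT.lf (nat_lit 76) (nat_lit 26688064825) (nat_lit 0) (nat_lit 5459336506) (nat_lit 152) (nat_lit 26688064825) (nat_lit 207) (nat_lit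 1) (nat_lit 206) (nat_lit 1) (nat_lit 208) (nat_lit 1) (nat_lit 239) (nat_lit 416) (nat_lit 365)))) (XT.nd (nat_lit 78) (nat_lit 76) (nat_lit 0) (XT.lf (nat_lit 228) (nat_lit 36302613028) (nat_lit 0) (nat_lit 10757134496) (nat_lit 152) (nat_lit 10757134496) (nat_lit 207) (nat_lit 1) (nat_lit 204) (nat_lit 1) (nat_lit 206) (nat_lit 1) (nat_lit 240) (nat_lit 416) (nat_lit 364)) (XT.nd (nat_lit 78) (nat_lit 76) (nat_lit 0) (XT.lf (nat_lit 76) (nat_lit 9723498101) (nat_lit 0) (nat_lit 37371466413) (nat_lit 228) (nat_lit 9723498101) (nat_lit 205) (nat_lit 1) (nat_lit 204) (nat_lit 1) (nat_lit 207) (nat_lit 1) (nat_lit 241) (nat_lit 416) (nat_lit 363)) (XT.lf (nat_lit 152) (nat_lit 2791262211) (nat_lit 0) (nat_lit 26523810829) (nat_lit 76) (nat_lit 26523810829) (nat_lit 205) (nat_lit 1) (nat_lit 203) (nat_lit 1) (nat_lit 204) (nat_lit 1) (nat_lit 242) (nat_lit 416) (nat_lit 362))))) (XT.nd (nat_lit 234)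 (nat_lit 304) (nat_lit 0) (XT.nd (nat_lit 78) (nat_lit 76) (nat_lit 0) (XT.lf (nat_lit 228) (nat_lit 41977586015) (nat_lit 0) (nat_lit 6452766929) (nat_lit 152) (nat_lit 6452766929) (nat_lit 203) (nat_lit 1) (nat_lit 200) (nat_lit 1) (nat_lit 202) (nat_lit 1) (nat_lit 243) (nat_lit 416) (nat_lit 361)) (XT.nd (nat_lit 78) (nat_lit 76) (nat_lit 0) (XT.lf (nat_lit 76) (nat_lit 12756428141) (nat_lit 0) (nat_lit 28425167568) (nat_lit 228) (nat_lit 12756428141) (nat_lit 201) (nat_lit 1) (nat_lit 200) (nat_lit 1) (nat_lit 203) (nat_lit 1) (nat_lit 244) (nat_lit 416) (nat_lit 360)) (XT.lf (nat_lit 152) (nat_lit 9373690855) (nat_lit 0) (nat_lit 21821204810) (nat_lit 76) (nat_lit 21821204810) (nat_lit 201) (nat_lit 1) (nat_lit 199) (nat_lit 1) (nat_lit 200) (nat_lit 1) (nat_lit 245) (nat_lit 416) (nat_lit 359)))) (XT.nd (nat_lit 78) (nat_lit 76) (nat_lit 0) (XT.lf (nat_lit 228) (nat_lit 46069670030) (nat_lit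 0) (nat_lit 3025703281) (nat_lit 152) (nat_lit 3025703281) (nat_lit 199) (nat_lit 1) (nat_lit 196) (nat_lit 1) (nat_lit 198) (nat_lit 1) (nat_lit 246) (nat_lit 416) (nat_lit 358)) (XT.nd (nat_lit 78) (nat_lit 76) (nat_lit 0) (XT.lf (nat_lit 76) (nat_lit 15025108991) (nat_lit 0) (nat_lit 21175522051) (nat_lit 228) (nat_lit 15025108991) (nat_lit 197) (nat_lit 1) (nat_lit 196) (nat_lit 1) (nat_lit 199) (nat_lit 1) (nat_lit 247) (nat_lit 416) (nat_lit 357)) (XT.lf (nat_lit 152) (nat_lit 14452056308) (nat_lit 0) (nat_lit 17952359200) (nat_lit 76) (nat_lit 17952359200) (nat_lit 197) (nat_lit 1) (nat_lit 195) (nat_lit 1) (nat_lit 196) (nat_lit 1) (nat_lit 248) (nat_lit 416) (nat_lit 356)))))) (XT.nd (nat_lit 468) (nat_lit 456) (nat_lit 0) (XT.nd (nat_lit 234) (nat_lit 228) (nat_lit 0) (XT.nd (nat_lit 78) (nat_lit 76) (nat_lit 0) (XT.lf (nat_lit 228) (nat_lit 48886970718) (nat_lit 0) (nat_lit 314964014)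 (nat_lit 152) (nat_lit 314964014) (nat_lit 195) (nat_lit 1) (nat_lit 192) (nat_lit 1) (nat_lit 194) (nat_lit 1) (nat_lit 249) (nat_lit 416) (nat_lit 355)) (XT.nd (nat_lit 78) (nat_lit 76) (nat_lit 0) (XT.lf (nat_lit 76) (nat_lit 16675826723) (nat_lit 0) (nat_lit 15316455678) (nat_lit 228) (nat_lit 16675826723) (nat_lit 193) (nat_lit 1) (nat_lit 192) (nat_lit 1) (nat_lit 195) (nat_lit 1) (nat_lit 250) (nat_lit 416) (nat_lit 354)) (XT.lf (nat_lit 152) (nat_lit 18309073580) (nat_lit 0) (nat_lit 14769450342) (nat_lit 76) (nat_lit 14769450342) (nat_lit 193) (nat_lit 1) (nat_lit 191) (nat_lit 1) (nat_lit 192) (nat_lit 1) (nat_lit 251) (nat_lit 416) (nat_lit 353)))) (XT.nd (nat_lit 78) (nat_lit 228) (nat_lit 0) (XT.lf (nat_lit 0) (nat_lit 1841329147) (nat_lit 0) (nat_lit 43369942354) (nat_lit 152) (nat_lit 1841329147) (nat_lit 191) (nat_lit 3) (nat_lit 191) (nat_lit 1) (nat_lit 193) (nat_lit 1) (nat_lit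 252) (nat_lit 416) (nat_lit 352)) (XT.nd (nat_lit 78) (nat_lit 76) (nat_lit 0) (XT.lf (nat_lit 76) (nat_lit 17828417601) (nat_lit 0) (nat_lit 10596411022) (nat_lit 152) (nat_lit 17828417601) (nat_lit 190) (nat_lit 1) (nat_lit 189) (nat_lit 1) (nat_lit 191) (nat_lit 1) (nat_lit 253) (nat_lit 416) (nat_lit 351)) (XT.lf (nat_lit 152) (nat_lit 21176568802) (nat_lit 0) (nat_lit 12150863347) (nat_lit 76) (nat_lit 12150863347) (nat_lit 190) (nat_lit 1) (nat_lit 188) (nat_lit 1) (nat_lit 189) (nat_lit 1) (nat_lit 254) (nat_lit 416) (nat_lit 350))))) (XT.nd (nat_lit 234) (nat_lit 228) (nat_lit 0) (XT.nd (nat_lit 78) (nat_lit 228) (nat_lit 0) (XT.lf (nat_lit 0) (nat_lit 3519341015) (nat_lit 0) (nat_lit 37685033876) (nat_lit 152) (nat_lit 3519341015) (nat_lit 188) (nat_lit 3) (nat_lit 188) (nat_lit 1) (nat_lit 190) (nat_lit 1) (nat_lit 255) (nat_lit 416) (nat_lit 349)) (XT.nd (nat_lit 78) (nat_lit 76) (nat_lit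 0) (XT.lf (nat_lit 76) (nat_lit 18580982032) (nat_lit 0) (nat_lit 6808669791) (nat_lit 152) (nat_lit 18580982032) (nat_lit 187) (nat_lit 1) (nat_lit 186) (nat_lit 1) (nat_lit 188) (nat_lit 1) (nat_lit 256) (nat_lit 416) (nat_lit 348)) (XT.lf (nat_lit 152) (nat_lit 23244538091) (nat_lit 0) (nat_lit 9996545347) (nat_lit 76) (nat_lit 9996545347) (nat_lit 187) (nat_lit 1) (nat_lit 185) (nat_lit 1) (nat_lit 186) (nat_lit 1) (nat_lit 257) (nat_lit 416) (nat_lit 347)))) (XT.nd (nat_lit 156) (nat_lit 76) (nat_lit 0) (XT.nd (nat_lit 78) (nat_lit 152) (nat_lit 0) (XT.lf (nat_lit 0) (nat_lit 4804394343) (nat_lit 0) (nat_lit 32912594412) (nat_lit 152) (nat_lit 4804394343) (nat_lit 185) (nat_lit 3) (nat_lit 185) (nat_lit 1) (nat_lit 187) (nat_lit 1) (nat_lit 258) (nat_lit 416) (nat_lit 346)) (XT.lf (nat_lit 76) (nat_lit 19013761568) (nat_lit 0) (nat_lit 3783391601) (nat_lit 152) (nat_lit 19013761568) (nat_lit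 184) (nat_lit 1) (nat_lit 183) (nat_lit 1) (nat_lit 185) (nat_lit 1) (nat_lit 259) (nat_lit 416) (nat_lit 345))) (XT.nd (nat_lit 78) (nat_lit 0) (nat_lit 0) (XT.lf (nat_lit 152) (nat_lit 24668598566) (nat_lit 0) (nat_lit 8224182596) (nat_lit 76) (nat_lit 8224182596) (nat_lit 184) (nat_lit 1) (nat_lit 182) (nat_lit 1) (nat_lit 183) (nat_lit 1) (nat_lit 260) (nat_lit 416) (nat_lit 344)) (XT.lf (nat_lit 0) (nat_lit 5770705002) (nat_lit 0) (nat_lit 28895390761) (nat_lit 152) (nat_lit 5770705002) (nat_lit 182) (nat_lit 3) (nat_lit 182) (nat_lit 1) (nat_lit 184) (nat_lit 1) (nat_lit 261) (nat_lit 416) (nat_lit 343))))))) (XT.nd (nat_lit 936) (nat_lit 988) (nat_lit 0) (XT.nd (nat_lit 468) (nat_lit 456) (nat_lit 0) (XT.nd (nat_lit 234) (nat_lit 228) (nat_lit 0) (XT.nd (nat_lit 78) (nat_lit 76) (nat_lit 0) (XT.lf (nat_lit 76) (nat_lit 19192327427) (nat_lit 0) (nat_lit 1381064789) (nat_lit 152) (nat_lit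 19192327427) (nat_lit 181) (nat_lit 1) (nat_lit 180) (nat_lit 1) (nat_lit 182) (nat_lit 1) (nat_lit 262) (nat_lit 416) (nat_lit 342)) (XT.nd (nat_lit 78) (nat_lit 0) (nat_lit 0) (XT.lf (nat_lit 152) (nat_lit 25576116663) (nat_lit 0) (nat_lit 6766055375) (nat_lit 76) (nat_lit 6766055375) (nat_lit 181) (nat_lit 1) (nat_lit 179) (nat_lit 1) (nat_lit 180) (nat_lit 1) (nat_lit 263) (nat_lit 416) (nat_lit 341)) (XT.lf (nat_lit 0) (nat_lit 6479114130) (nat_lit 0) (nat_lit 25503850333) (nat_lit 152) (nat_lit 6479114130) (nat_lit 179) (nat_lit 3) (nat_lit 179) (nat_lit 1) (nat_lit 181) (nat_lit 1) (nat_lit 264) (nat_lit 416) (nat_lit 340)))) (XT.nd (nat_lit 78) (nat_lit 152) (nat_lit 0) (XT.lf (nat_lit 76) (nat_lit 529839262) (nat_lit 0) (nat_lit 18648635646) (nat_lit 76) (nat_lit 18648635646) (nat_lit 179) (nat_lit 3) (nat_lit 178) (nat_lit 1) (nat_lit 179) (nat_lit 1) (nat_lit 265) (nat_lit 416) (nat_lit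 339)) (XT.nd (nat_lit 78) (nat_lit 0) (nat_lit 0) (XT.lf (nat_lit 152) (nat_lit 26071248354) (nat_lit 0) (nat_lit 5566450501) (nat_lit 76) (nat_lit 5566450501) (nat_lit 178) (nat_lit 1) (nat_lit 176) (nat_lit 1) (nat_lit 177) (nat_lit 1) (nat_lit 266) (nat_lit 416) (nat_lit 338)) (XT.lf (nat_lit 0) (nat_lit 6979469747) (nat_lit 0) (nat_lit 22631167304) (nat_lit 152) (nat_lit 6979469747) (nat_lit 176) (nat_lit 3) (nat_lit 176) (nat_lit 1) (nat_lit 178) (nat_lit 1) (nat_lit 267) (nat_lit 416) (nat_lit 337))))) (XT.nd (nat_lit 234) (nat_lit 228) (nat_lit 0) (XT.nd (nat_lit 78) (nat_lit 152) (nat_lit 0) (XT.lf (nat_lit 76) (nat_lit 2058388421) (nat_lit 0) (nat_lit 16964767046) (nat_lit 76) (nat_lit 16964767046) (nat_lit 176) (nat_lit 3) (nat_lit 175) (nat_lit 1) (nat_lit 176) (nat_lit 1) (nat_lit 268) (nat_lit 416) (nat_lit 336)) (XT.nd (nat_lit 78) (nat_lit 0) (nat_lit 0) (XT.lf (nat_lit 152) (nat_lit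 26239084237) (nat_lit 0) (nat_lit 4579532603) (nat_lit 76) (nat_lit 4579532603) (nat_lit 175) (nat_lit 1) (nat_lit 173) (nat_lit 1) (nat_lit 174) (nat_lit 1) (nat_lit 269) (nat_lit 416) (nat_lit 335)) (XT.lf (nat_lit 0) (nat_lit 7312585622) (nat_lit 0) (nat_lit 20189275937) (nat_lit 152) (nat_lit 7312585622) (nat_lit 173) (nat_lit 3) (nat_lit 173) (nat_lit 1) (nat_lit 175) (nat_lit 1) (nat_lit 270) (nat_lit 416) (nat_lit 334)))) (XT.nd (nat_lit 78) (nat_lit 152) (nat_lit 0) (XT.lf (nat_lit 76) (nat_lit 3238668246) (nat_lit 0) (nat_lit 15502182831) (nat_lit 76) (nat_lit 15502182831) (nat_lit 173) (nat_lit 3) (nat_lit 172) (nat_lit 1) (nat_lit 173) (nat_lit 1) (nat_lit 271) (nat_lit 416) (nat_lit 333)) (XT.nd (nat_lit 78) (nat_lit 0) (nat_lit 0) (XT.lf (nat_lit 152) (nat_lit 26149058295) (nat_lit 0) (nat_lit 3767592806) (nat_lit 76) (nat_lit 3767592806) (nat_lit 172) (nat_lit 1) (nat_lit 170) (nat_lit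 1) (nat_lit 171) (nat_lit 1) (nat_lit 272) (nat_lit 416) (nat_lit 332)) (XT.lf (nat_lit 0) (nat_lit 7511852373) (nat_lit 0) (nat_lit 18105537362) (nat_lit 152) (nat_lit 7511852373) (nat_lit 170) (nat_lit 3) (nat_lit 170) (nat_lit 1) (nat_lit 172) (nat_lit 1) (nat_lit 273) (nat_lit 416) (nat_lit 331)))))) (XT.nd (nat_lit 468) (nat_lit 532) (nat_lit 0) (XT.nd (nat_lit 234) (nat_lit 228) (nat_lit 0) (XT.nd (nat_lit 78) (nat_lit 152) (nat_lit 0) (XT.lf (nat_lit 76) (nat_lit 4136105142) (nat_lit 0) (nat_lit 14225328940) (nat_lit 76) (nat_lit 14225328940) (nat_lit 170) (nat_lit 3) (nat_lit 169) (nat_lit 1) (nat_lit 170) (nat_lit 1) (nat_lit 274) (nat_lit 416) (nat_lit 330)) (XT.nd (nat_lit 78) (nat_lit 0) (nat_lit 0) (XT.lf (nat_lit 152) (nat_lit 25857750932) (nat_lit 0) (nat_lit 3099607925) (nat_lit 76) (nat_lit 3099607925) (nat_lit 169) (nat_lit 1) (nat_lit 167) (nat_lit 1) (nat_lit 168) (nat_lit 1)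 (nat_lit 275) (nat_lit 416) (nat_lit 329)) (XT.lf (nat_lit 0) (nat_lit 7604562475) (nat_lit 0) (nat_lit 16320013332) (nat_lit 152) (nat_lit 7604562475) (nat_lit 167) (nat_lit 3) (nat_lit 167) (nat_lit 1) (nat_lit 169) (nat_lit 1) (nat_lit 276) (nat_lit 416) (nat_lit 328)))) (XT.nd (nat_lit 78) (nat_lit 152) (nat_lit 0) (XT.lf (nat_lit 76) (nat_lit 4804350374) (nat_lit 0) (nat_lit 13104779762) (nat_lit 76) (nat_lit 13104779762) (nat_lit 167) (nat_lit 3) (nat_lit 166) (nat_lit 1) (nat_lit 167) (nat_lit 1) (nat_lit 277) (nat_lit 416) (nat_lit 327)) (XT.nd (nat_lit 78) (nat_lit 0) (nat_lit 0) (XT.lf (nat_lit 152) (nat_lit 25411193741) (nat_lit 0) (nat_lit 2550055111) (nat_lit 76) (nat_lit 2550055111) (nat_lit 166) (nat_lit 1) (nat_lit 164) (nat_lit 1) (nat_lit 165) (nat_lit 1) (nat_lit 278) (nat_lit 416) (nat_lit 326)) (XT.lf (nat_lit 0) (nat_lit 7612999927) (nat_lit 0) (nat_lit 14783222916) (nat_lit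 152) (nat_lit 7612999927) (nat_lit 164) (nat_lit 3) (nat_lit 164) (nat_lit 1) (nat_lit 166) (nat_lit 1) (nat_lit 279) (nat_lit 416) (nat_lit 325))))) (XT.nd (nat_lit 234) (nat_lit 304) (nat_lit 0) (XT.nd (nat_lit 78) (nat_lit 152) (nat_lit 0) (XT.lf (nat_lit 76) (nat_lit 5287376122) (nat_lit 0) (nat_lit 12116159921) (nat_lit 76) (nat_lit 12116159921) (nat_lit 164) (nat_lit 3) (nat_lit 163) (nat_lit 1) (nat_lit 164) (nat_lit 1) (nat_lit 280) (nat_lit 416) (nat_lit 324)) (XT.nd (nat_lit 78) (nat_lit 0) (nat_lit 0) (XT.lf (nat_lit 152) (nat_lit 24846764413) (nat_lit 0) (nat_lit 2097936651) (nat_lit 76) (nat_lit 2097936651) (nat_lit 163) (nat_lit 1) (nat_lit 161) (nat_lit 1) (nat_lit 162) (nat_lit 1) (nat_lit 281) (nat_lit 416) (nat_lit 323)) (XT.lf (nat_lit 0) (nat_lit 7555336318) (nat_lit 0) (nat_lit 13454296516) (nat_lit 152) (nat_lit 7555336318) (nat_lit 161) (nat_lit 3) (nat_lit 161) (nat_lit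 1) (nat_lit 163) (nat_lit 1) (nat_lit 282) (nat_lit 416) (nat_lit 322)))) (XT.nd (nat_lit 156) (nat_lit 76) (nat_lit 0) (XT.nd (nat_lit 78) (nat_lit 152) (nat_lit 0) (XT.lf (nat_lit 76) (nat_lit 5621199496) (nat_lit 0) (nat_lit 11239256828) (nat_lit 76) (nat_lit 11239256828) (nat_lit 161) (nat_lit 3) (nat_lit 160) (nat_lit 1) (nat_lit 161) (nat_lit 1) (nat_lit 283) (nat_lit 416) (nat_lit 321)) (XT.lf (nat_lit 152) (nat_lit 24194744511) (nat_lit 0) (nat_lit 1725977674) (nat_lit 76) (nat_lit 1725977674) (nat_lit 160) (nat_lit 1) (nat_lit 158) (nat_lit 1) (nat_lit 159) (nat_lit 1) (nat_lit 284) (nat_lit 416) (nat_lit 320))) (XT.nd (nat_lit 78) (nat_lit 76) (nat_lit 0) (XT.lf (nat_lit 0) (nat_lit 7446367637) (nat_lit 0) (nat_lit 12299456791) (nat_lit 152) (nat_lit 7446367637) (nat_lit 158) (nat_lit 3) (nat_lit 158) (nat_lit 1) (nat_lit 160) (nat_lit 1) (nat_lit 285) (nat_lit 416) (nat_lit 319)) (XT.lf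 (nat_lit 76) (nat_lit 5835300523) (nat_lit 0) (nat_lit 10457290194) (nat_lit 76) (nat_lit 10457290194) (nat_lit 158) (nat_lit 3) (nat_lit 157) (nat_lit 1) (nat_lit 158) (nat_lit 1) (nat_lit 286) (nat_lit 416) (nat_lit 318))))))))
noncomputable def ec333 : XT := (XT.nd (nat_lit 1950) (nat_lit 1900) (nat_lit 0) (XT.nd (nat_lit 936) (nat_lit 1064) (nat_lit 0) (XT.nd (nat_lit 468) (nat_lit 456) (nat_lit 0) (XT.nd (nat_lit 234) (nat_lit 228) (nat_lit 0) (XT.nd (nat_lit 78) (nat_lit 76) (nat_lit 0) (XT.lf (nat_lit 152) (nat_lit 23479599936) (nat_lit 0) (nat_lit 1419966104) (nat_lit 76) (nat_lit 1419966104) (nat_lit 157) (nat_lit 1) (nat_lit 155) (nat_lit 1) (nat_lit 156) (nat_lit 1) (nat_lit 287) (nat_lit 416) (nat_lit 317)) (XT.nd (nat_lit 78) (nat_lit 76) (nat_lit 0) (XT.lf (nat_lit 0) (nat_lit 7298120083) (nat_lit 0) (nat_lit 11290768540) (nat_lit 152) (nat_lit 7298120083) (nat_lit 155) (nat_lit 3)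 (nat_lit 155) (nat_lit 1) (nat_lit 157) (nat_lit 1) (nat_lit 288) (nat_lit 416) (nat_lit 316)) (XT.lf (nat_lit 76) (nat_lit 5953788359) (nat_lit 0) (nat_lit 9756310699) (nat_lit 76) (nat_lit 9756310699) (nat_lit 155) (nat_lit 3) (nat_lit 154) (nat_lit 1) (nat_lit 155) (nat_lit 1) (nat_lit 289) (nat_lit 416) (nat_lit 315)))) (XT.nd (nat_lit 78) (nat_lit 76) (nat_lit 0) (XT.lf (nat_lit 152) (nat_lit 22721033308) (nat_lit 0) (nat_lit 1168209628) (nat_lit 76) (nat_lit 1168209628) (nat_lit 154) (nat_lit 1) (nat_lit 152) (nat_lit 1) (nat_lit 153) (nat_lit 1) (nat_lit 290) (nat_lit 416) (nat_lit 314)) (XT.nd (nat_lit 78) (nat_lit 76) (nat_lit 0) (XT.lf (nat_lit 0) (nat_lit 7120348120) (nat_lit 0) (nat_lit 10405109887) (nat_lit 152) (nat_lit 7120348120) (nat_lit 152) (nat_lit 3) (nat_lit 152) (nat_lit 1) (nat_lit 154) (nat_lit 1) (nat_lit 291) (nat_lit 416) (nat_lit 313)) (XT.lf (nat_lit 76) (nat_lit 5996360396)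 (nat_lit 0) (nat_lit 9124704936) (nat_lit 76) (nat_lit 9124704936) (nat_lit 152) (nat_lit 3) (nat_lit 151) (nat_lit 1) (nat_lit 152) (nat_lit 1) (nat_lit 292) (nat_lit 416) (nat_lit 312))))) (XT.nd (nat_lit 234) (nat_lit 228) (nat_lit 0) (XT.nd (nat_lit 78) (nat_lit 76) (nat_lit 0) (XT.lf (nat_lit 152) (nat_lit 21934848746) (nat_lit 0) (nat_lit 961088952) (nat_lit 76) (nat_lit 961088952) (nat_lit 151) (nat_lit 1) (nat_lit 149) (nat_lit 1) (nat_lit 150) (nat_lit 1) (nat_lit 293) (nat_lit 416) (nat_lit 311)) (XT.nd (nat_lit 78) (nat_lit 76) (nat_lit 0) (XT.lf (nat_lit 0) (nat_lit 6920943893) (nat_lit 0) (nat_lit 9623325528) (nat_lit 152) (nat_lit 6920943893) (nat_lit 149) (nat_lit 3) (nat_lit 149) (nat_lit 1) (nat_lit 151) (nat_lit 1) (nat_lit 294) (nat_lit 416) (nat_lit 310)) (XT.lf (nat_lit 76) (nat_lit 5979090993) (nat_lit 0) (nat_lit 8552787788) (nat_lit 76) (nat_lit 8552787788) (nat_lit 149)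 (nat_lit 3) (nat_lit 148) (nat_lit 1) (nat_lit 149) (nat_lit 1) (nat_lit 295) (nat_lit 416) (nat_lit 309)))) (XT.nd (nat_lit 78) (nat_lit 76) (nat_lit 0) (XT.lf (nat_lit 152) (nat_lit 21133662359) (nat_lit 0) (nat_lit 790690259) (nat_lit 76) (nat_lit 790690259) (nat_lit 148) (nat_lit 1) (nat_lit 146) (nat_lit 1) (nat_lit 147) (nat_lit 1) (nat_lit 296) (nat_lit 416) (nat_lit 308)) (XT.nd (nat_lit 78) (nat_lit 76) (nat_lit 0) (XT.lf (nat_lit 0) (nat_lit 6706273738) (nat_lit 0) (nat_lit 8929529797) (nat_lit 152) (nat_lit 6706273738) (nat_lit 146) (nat_lit 3) (nat_lit 146) (nat_lit 1) (nat_lit 148) (nat_lit 1) (nat_lit 297) (nat_lit 416) (nat_lit 307)) (XT.lf (nat_lit 76) (nat_lit 5915080058) (nat_lit 0) (nat_lit 8032466780) (nat_lit 76) (nat_lit 8032466780) (nat_lit 146) (nat_lit 3) (nat_lit 145) (nat_lit 1) (nat_lit 146) (nat_lit 1) (nat_lit 298) (nat_lit 416) (nat_lit 306)))))) (XT.nd (nat_lit 468)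 (nat_lit 608) (nat_lit 0) (XT.nd (nat_lit 234) (nat_lit 228) (nat_lit 0) (XT.nd (nat_lit 78) (nat_lit 76) (nat_lit 0) (XT.lf (nat_lit 152) (nat_lit 20327485860) (nat_lit 0) (nat_lit 650502833) (nat_lit 76) (nat_lit 650502833) (nat_lit 145) (nat_lit 1) (nat_lit 143) (nat_lit 1) (nat_lit 144) (nat_lit 1) (nat_lit 299) (nat_lit 416) (nat_lit 305)) (XT.nd (nat_lit 78) (nat_lit 76) (nat_lit 0) (XT.lf (nat_lit 0) (nat_lit 6481454734) (nat_lit 0) (nat_lit 8310532995) (nat_lit 152) (nat_lit 6481454734) (nat_lit 143) (nat_lit 3) (nat_lit 143) (nat_lit 1) (nat_lit 145) (nat_lit 1) (nat_lit 300) (nat_lit 416) (nat_lit 304)) (XT.lf (nat_lit 76) (nat_lit 5814986336) (nat_lit 0) (nat_lit 7556965633) (nat_lit 76) (nat_lit 7556965633) (nat_lit 143) (nat_lit 3) (nat_lit 142) (nat_lit 1) (nat_lit 143) (nat_lit 1) (nat_lit 301) (nat_lit 416) (nat_lit 303)))) (XT.nd (nat_lit 78) (nat_lit 76) (nat_lit 0) (XT.lf (nat_lit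 152) (nat_lit 19524205814) (nat_lit 0) (nat_lit 535170290) (nat_lit 76) (nat_lit 535170290) (nat_lit 142) (nat_lit 1) (nat_lit 140) (nat_lit 1) (nat_lit 141) (nat_lit 1) (nat_lit 302) (nat_lit 416) (nat_lit 302)) (XT.nd (nat_lit 78) (nat_lit 76) (nat_lit 0) (XT.lf (nat_lit 0) (nat_lit 6250581929) (nat_lit 0) (nat_lit 7755369141) (nat_lit 152) (nat_lit 6250581929) (nat_lit 140) (nat_lit 3) (nat_lit 140) (nat_lit 1) (nat_lit 142) (nat_lit 1) (nat_lit 303) (nat_lit 416) (nat_lit 301)) (XT.lf (nat_lit 76) (nat_lit 5687465872) (nat_lit 0) (nat_lit 7120596551) (nat_lit 76) (nat_lit 7120596551) (nat_lit 140) (nat_lit 3) (nat_lit 139) (nat_lit 1) (nat_lit 140) (nat_lit 1) (nat_lit 304) (nat_lit 416) (nat_lit 300))))) (XT.nd (nat_lit 234) (nat_lit 380) (nat_lit 0) (XT.nd (nat_lit 78) (nat_lit 76) (nat_lit 0) (XT.lf (nat_lit 152) (nat_lit 18729977100) (nat_lit 0) (nat_lit 440285922) (nat_lit 76) (nat_lit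 440285922) (nat_lit 139) (nat_lit 1) (nat_lit 137) (nat_lit 1) (nat_lit 138) (nat_lit 1) (nat_lit 305) (nat_lit 416) (nat_lit 299)) (XT.nd (nat_lit 78) (nat_lit 76) (nat_lit 0) (XT.lf (nat_lit 0) (nat_lit 6016915011) (nat_lit 0) (nat_lit 7254907175) (nat_lit 152) (nat_lit 6016915011) (nat_lit 137) (nat_lit 3) (nat_lit 137) (nat_lit 1) (nat_lit 139) (nat_lit 1) (nat_lit 306) (nat_lit 416) (nat_lit 298)) (XT.lf (nat_lit 76) (nat_lit 5539532461) (nat_lit 0) (nat_lit 6718572617) (nat_lit 76) (nat_lit 6718572617) (nat_lit 137) (nat_lit 3) (nat_lit 136) (nat_lit 1) (nat_lit 137) (nat_lit 1) (nat_lit 307) (nat_lit 416) (nat_lit 297)))) (XT.nd (nat_lit 156) (nat_lit 228) (nat_lit 0) (XT.nd (nat_lit 78) (nat_lit 0) (nat_lit 0) (XT.lf (nat_lit 152) (nat_lit 17949545806) (nat_lit 0) (nat_lit 362224318) (nat_lit 76) (nat_lit 362224318) (nat_lit 136) (nat_lit 1) (nat_lit 134) (nat_lit 1) (nat_lit 135) (nat_lit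 1) (nat_lit 308) (nat_lit 416) (nat_lit 296)) (XT.lf (nat_lit 0) (nat_lit 5783031622) (nat_lit 0) (nat_lit 6801530839) (nat_lit 152) (nat_lit 5783031622) (nat_lit 134) (nat_lit 3) (nat_lit 134) (nat_lit 1) (nat_lit 136) (nat_lit 1) (nat_lit 309) (nat_lit 416) (nat_lit 295))) (XT.nd (nat_lit 78) (nat_lit 152) (nat_lit 0) (XT.lf (nat_lit 76) (nat_lit 5376853933) (nat_lit 0) (nat_lit 6346853188) (nat_lit 76) (nat_lit 6346853188) (nat_lit 134) (nat_lit 3) (nat_lit 133) (nat_lit 1) (nat_lit 134) (nat_lit 1) (nat_lit 310) (nat_lit 416) (nat_lit 294)) (XT.lf (nat_lit 152) (nat_lit 17186514131) (nat_lit 0) (nat_lit 298002843) (nat_lit 76) (nat_lit 298002843) (nat_lit 133) (nat_lit 1) (nat_lit 131) (nat_lit 1) (nat_lit 132) (nat_lit 1) (nat_lit 311) (nat_lit 416) (nat_lit 293))))))) (XT.nd (nat_lit 1014) (nat_lit 988) (nat_lit 0) (XT.nd (nat_lit 468) (nat_lit 456) (nat_lit 0) (XT.nd (nat_lit 234) (nat_lit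 228) (nat_lit 0) (XT.nd (nat_lit 78) (nat_lit 228) (nat_lit 0) (XT.lf (nat_lit 0) (nat_lit 5550953239) (nat_lit 0) (nat_lit 6388875065) (nat_lit 152) (nat_lit 5550953239) (nat_lit 131) (nat_lit 3) (nat_lit 131) (nat_lit 1) (nat_lit 133) (nat_lit 1) (nat_lit 312) (nat_lit 416) (nat_lit 292)) (XT.nd (nat_lit 78) (nat_lit 152) (nat_lit 0) (XT.lf (nat_lit 76) (nat_lit 5203995675) (nat_lit 0) (nat_lit 6002016461) (nat_lit 76) (nat_lit 6002016461) (nat_lit 131) (nat_lit 3) (nat_lit 130) (nat_lit 1) (nat_lit 131) (nat_lit 1) (nat_lit 313) (nat_lit 416) (nat_lit 291)) (XT.lf (nat_lit 152) (nat_lit 16443557589) (nat_lit 0) (nat_lit 245167676) (nat_lit 76) (nat_lit 245167676) (nat_lit 130) (nat_lit 1) (nat_lit 128) (nat_lit 1) (nat_lit 129) (nat_lit 1) (nat_lit 314) (nat_lit 416) (nat_lit 290)))) (XT.nd (nat_lit 78) (nat_lit 228) (nat_lit 0) (XT.lf (nat_lit 0) (nat_lit 5322248502) (nat_lit 0) (nat_lit 6011608862)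 (nat_lit 152) (nat_lit 5322248502) (nat_lit 128) (nat_lit 3) (nat_lit 128) (nat_lit 1) (nat_lit 130) (nat_lit 1) (nat_lit 315) (nat_lit 416) (nat_lit 289)) (XT.nd (nat_lit 78) (nat_lit 152) (nat_lit 0) (XT.lf (nat_lit 76) (nat_lit 5024620727) (nat_lit 0) (nat_lit 5681154403) (nat_lit 76) (nat_lit 5681154403) (nat_lit 128) (nat_lit 3) (nat_lit 127) (nat_lit 1) (nat_lit 128) (nat_lit 1) (nat_lit 316) (nat_lit 416) (nat_lit 288)) (XT.lf (nat_lit 152) (nat_lit 15722603028) (nat_lit 0) (nat_lit 201700054) (nat_lit 76) (nat_lit 201700054) (nat_lit 127) (nat_lit 1) (nat_lit 125) (nat_lit 1) (nat_lit 126) (nat_lit 1) (nat_lit 317) (nat_lit 416) (nat_lit 287))))) (XT.nd (nat_lit 234) (nat_lit 228) (nat_lit 0) (XT.nd (nat_lit 78) (nat_lit 228) (nat_lit 0) (XT.lf (nat_lit 0) (nat_lit 5098117999) (nat_lit 0) (nat_lit 5665256473) (nat_lit 152) (nat_lit 5098117999) (nat_lit 125) (nat_lit 3) (nat_lit 125) (nat_lit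 1) (nat_lit 127) (nat_lit 1) (nat_lit 318) (nat_lit 416) (nat_lit 286)) (XT.nd (nat_lit 78) (nat_lit 152) (nat_lit 0) (XT.lf (nat_lit 76) (nat_lit 4841654199) (nat_lit 0) (nat_lit 5381786079) (nat_lit 76) (nat_lit 5381786079) (nat_lit 125) (nat_lit 3) (nat_lit 124) (nat_lit 1) (nat_lit 125) (nat_lit 1) (nat_lit 319) (nat_lit 416) (nat_lit 285)) (XT.lf (nat_lit 152) (nat_lit 15024974427) (nat_lit 0) (nat_lit 165939133) (nat_lit 76) (nat_lit 165939133) (nat_lit 124) (nat_lit 1) (nat_lit 122) (nat_lit 1) (nat_lit 123) (nat_lit 1) (nat_lit 320) (nat_lit 416) (nat_lit 284)))) (XT.nd (nat_lit 156) (nat_lit 152) (nat_lit 0) (XT.nd (nat_lit 78) (nat_lit 76) (nat_lit 0) (XT.lf (nat_lit 0) (nat_lit 4879463804) (nat_lit 0) (nat_lit 5346050031) (nat_lit 152) (nat_lit 4879463804) (nat_lit 122) (nat_lit 3) (nat_lit 122) (nat_lit 1) (nat_lit 124) (nat_lit 1) (nat_lit 321) (nat_lit 416) (nat_lit 283)) (XT.lf (nat_lit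 76) (nat_lit 4657418312) (nat_lit 0) (nat_lit 5101786147) (nat_lit 76) (nat_lit 5101786147) (nat_lit 122) (nat_lit 3) (nat_lit 121) (nat_lit 1) (nat_lit 122) (nat_lit 1) (nat_lit 322) (nat_lit 416) (nat_lit 282))) (XT.nd (nat_lit 78) (nat_lit 0) (nat_lit 0) (XT.lf (nat_lit 152) (nat_lit 14351512221) (nat_lit 0) (nat_lit 136518535) (nat_lit 76) (nat_lit 136518535) (nat_lit 121) (nat_lit 1) (nat_lit 119) (nat_lit 1) (nat_lit 120) (nat_lit 1) (nat_lit 323) (nat_lit 416) (nat_lit 281)) (XT.lf (nat_lit 0) (nat_lit 4666946481) (nat_lit 0) (nat_lit 5050808124) (nat_lit 152) (nat_lit 4666946481) (nat_lit 119) (nat_lit 3) (nat_lit 119) (nat_lit 1) (nat_lit 121) (nat_lit 1) (nat_lit 324) (nat_lit 416) (nat_lit 280)))))) (XT.nd (nat_lit 468) (nat_lit 532) (nat_lit 0) (XT.nd (nat_lit 234) (nat_lit 228) (nat_lit 0) (XT.nd (nat_lit 78) (nat_lit 152) (nat_lit 0) (XT.lf (nat_lit 76) (nat_lit 4473743306) (nat_lit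 0) (nat_lit 4839325823) (nat_lit 76) (nat_lit 4839325823) (nat_lit 119) (nat_lit 3) (nat_lit 118) (nat_lit 1) (nat_lit 119) (nat_lit 1) (nat_lit 325) (nat_lit 416) (nat_lit 279)) (XT.nd (nat_lit 78) (nat_lit 0) (nat_lit 0) (XT.lf (nat_lit 152) (nat_lit 13702670884) (nat_lit 0) (nat_lit 112314137) (nat_lit 76) (nat_lit 112314137) (nat_lit 118) (nat_lit 1) (nat_lit 116) (nat_lit 1) (nat_lit 117) (nat_lit 1) (nat_lit 326) (nat_lit 416) (nat_lit 278)) (XT.lf (nat_lit 0) (nat_lit 4461031784) (nat_lit 0) (nat_lit 4776835708) (nat_lit 152) (nat_lit 4461031784) (nat_lit 116) (nat_lit 3) (nat_lit 116) (nat_lit 1) (nat_lit 118) (nat_lit 1) (nat_lit 327) (nat_lit 416) (nat_lit 277)))) (XT.nd (nat_lit 78) (nat_lit 152) (nat_lit 0) (XT.lf (nat_lit 76) (nat_lit 4292058484) (nat_lit 0) (nat_lit 4592824126) (nat_lit 76) (nat_lit 4592824126) (nat_lit 116) (nat_lit 3) (nat_lit 115) (nat_lit 1) (nat_lit 116) (nat_lit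 1) (nat_lit 328) (nat_lit 416) (nat_lit 276)) (XT.nd (nat_lit 78) (nat_lit 0) (nat_lit 0) (XT.lf (nat_lit 152) (nat_lit 13078598641) (nat_lit 0) (nat_lit 92401118) (nat_lit 76) (nat_lit 92401118) (nat_lit 115) (nat_lit 1) (nat_lit 113) (nat_lit 1) (nat_lit 114) (nat_lit 1) (nat_lit 329) (nat_lit 416) (nat_lit 275)) (XT.lf (nat_lit 0) (nat_lit 4262028903) (nat_lit 0) (nat_lit 4521841573) (nat_lit 152) (nat_lit 4262028903) (nat_lit 113) (nat_lit 3) (nat_lit 113) (nat_lit 1) (nat_lit 115) (nat_lit 1) (nat_lit 330) (nat_lit 416) (nat_lit 274))))) (XT.nd (nat_lit 234) (nat_lit 304) (nat_lit 0) (XT.nd (nat_lit 78) (nat_lit 152) (nat_lit 0) (XT.lf (nat_lit 76) (nat_lit 4113466941) (nat_lit 0) (nat_lit 4360907579) (nat_lit 76) (nat_lit 4360907579) (nat_lit 113) (nat_lit 3) (nat_lit 112) (nat_lit 1) (nat_lit 113) (nat_lit 1) (nat_lit 331) (nat_lit 416) (nat_lit 273)) (XT.nd (nat_lit 78) (nat_lit 0) (nat_lit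 0) (XT.lf (nat_lit 152) (nat_lit 12479202510) (nat_lit 0) (nat_lit 76018629) (nat_lit 76) (nat_lit 76018629) (nat_lit 112) (nat_lit 1) (nat_lit 110) (nat_lit 1) (nat_lit 111) (nat_lit 1) (nat_lit 332) (nat_lit 416) (nat_lit 272)) (XT.lf (nat_lit 0) (nat_lit 4070121740) (nat_lit 0) (nat_lit 4283870266) (nat_lit 152) (nat_lit 4070121740) (nat_lit 110) (nat_lit 3) (nat_lit 110) (nat_lit 1) (nat_lit 112) (nat_lit 1) (nat_lit 333) (nat_lit 416) (nat_lit 271)))) (XT.nd (nat_lit 156) (nat_lit 76) (nat_lit 0) (XT.nd (nat_lit 78) (nat_lit 152) (nat_lit 0) (XT.lf (nat_lit 76) (nat_lit 3938806865) (nat_lit 0) (nat_lit 4142376890) (nat_lit 76) (nat_lit 4142376890) (nat_lit 110) (nat_lit 3) (nat_lit 109) (nat_lit 1) (nat_lit 110) (nat_lit 1) (nat_lit 334) (nat_lit 416) (nat_lit 270)) (XT.lf (nat_lit 152) (nat_lit 11904201304) (nat_lit 0) (nat_lit 62540714) (nat_lit 76) (nat_lit 62540714) (nat_lit 109) (nat_lit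 1) (nat_lit 107) (nat_lit 1) (nat_lit 108) (nat_lit 1) (nat_lit 335) (nat_lit 416) (nat_lit 269))) (XT.nd (nat_lit 78) (nat_lit 76) (nat_lit 0) (XT.lf (nat_lit 0) (nat_lit 3885394479) (nat_lit 0) (nat_lit 4061245921) (nat_lit 152) (nat_lit 3885394479) (nat_lit 107) (nat_lit 3) (nat_lit 107) (nat_lit 1) (nat_lit 109) (nat_lit 1) (nat_lit 336) (nat_lit 416) (nat_lit 268)) (XT.lf (nat_lit 76) (nat_lit 3768701806) (nat_lit 0) (nat_lit 3936179369) (nat_lit 76) (nat_lit 3936179369) (nat_lit 107) (nat_lit 3) (nat_lit 106) (nat_lit 1) (nat_lit 107) (nat_lit 1) (nat_lit 337) (nat_lit 416) (nat_lit 267))))))))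
noncomputable def ec334 : XT := (XT.nd (nat_lit 1950) (nat_lit 1824) (nat_lit 0) (XT.nd (nat_lit 936) (nat_lit 1064) (nat_lit 0) (XT.nd (nat_lit 468) (nat_lit 456) (nat_lit 0) (XT.nd (nat_lit 234) (nat_lit 228) (nat_lit 0) (XT.nd (nat_lit 78) (nat_lit 76) (nat_lit 0) (XT.lf (nat_lit 152) (nat_lit 11353168745) (nat_lit 0) (nat_lit 51452400) (nat_lit 76) (nat_lit 51452400) (nat_lit 106) (nat_lit 1) (nat_lit 104) (nat_lit 1) (nat_lit 105) (nat_lit 1) (nat_lit 338) (nat_lit 416) (nat_lit 266)) (XT.nd (nat_lit 78) (nat_lit 76) (nat_lit 0) (XT.lf (nat_lit 0) (nat_lit 3707852464) (nat_lit 0) (nat_lit 3852525880) (nat_lit 152) (nat_lit 3707852464) (nat_lit 104) (nat_lit 3) (nat_lit 104) (nat_lit 1) (nat_lit 106) (nat_lit 1) (nat_lit 339) (nat_lit 416) (nat_lit 265)) (XT.lf (nat_lit 76) (nat_lit 3603601874) (nat_lit 0) (nat_lit 3741386080) (nat_lit 76) (nat_lit 3741386080) (nat_lit 104) (nat_lit 3) (nat_lit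 103) (nat_lit 1) (nat_lit 104) (nat_lit 1) (nat_lit 340) (nat_lit 416) (nat_lit 264)))) (XT.nd (nat_lit 78) (nat_lit 76) (nat_lit 0) (XT.lf (nat_lit 152) (nat_lit 10825568473) (nat_lit 0) (nat_lit 42330017) (nat_lit 76) (nat_lit 42330017) (nat_lit 103) (nat_lit 1) (nat_lit 101) (nat_lit 1) (nat_lit 102) (nat_lit 1) (nat_lit 341) (nat_lit 416) (nat_lit 263)) (XT.nd (nat_lit 78) (nat_lit 76) (nat_lit 0) (XT.lf (nat_lit 0) (nat_lit 3537439218) (nat_lit 0) (nat_lit 3656462395) (nat_lit 152) (nat_lit 3537439218) (nat_lit 101) (nat_lit 3) (nat_lit 101) (nat_lit 1) (nat_lit 103) (nat_lit 1) (nat_lit 342) (nat_lit 416) (nat_lit 262)) (XT.lf (nat_lit 76) (nat_lit 3443817486) (nat_lit 0) (nat_lit 3557172893) (nat_lit 76) (nat_lit 3557172893) (nat_lit 101) (nat_lit 3) (nat_lit 100) (nat_lit 1) (nat_lit 101) (nat_lit 1) (nat_lit 343) (nat_lit 416) (nat_lit 261))))) (XT.nd (nat_lit 234) (nat_lit 228) (nat_lit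 0) (XT.nd (nat_lit 78) (nat_lit 76) (nat_lit 0) (XT.lf (nat_lit 152) (nat_lit 10320782402) (nat_lit 0) (nat_lit 34825009) (nat_lit 76) (nat_lit 34825009) (nat_lit 100) (nat_lit 1) (nat_lit 98) (nat_lit 1) (nat_lit 99) (nat_lit 1) (nat_lit 344) (nat_lit 416) (nat_lit 260)) (XT.nd (nat_lit 78) (nat_lit 76) (nat_lit 0) (XT.lf (nat_lit 0) (nat_lit 3374050303) (nat_lit 0) (nat_lit 3471970966) (nat_lit 152) (nat_lit 3374050303) (nat_lit 98) (nat_lit 3) (nat_lit 98) (nat_lit 1) (nat_lit 100) (nat_lit 1) (nat_lit 345) (nat_lit 416) (nat_lit 259)) (XT.lf (nat_lit 76) (nat_lit 3289546984) (nat_lit 0) (nat_lit 3382804758) (nat_lit 76) (nat_lit 3382804758) (nat_lit 98) (nat_lit 3) (nat_lit 97) (nat_lit 1) (nat_lit 98) (nat_lit 1) (nat_lit 346) (nat_lit 416) (nat_lit 258)))) (XT.nd (nat_lit 78) (nat_lit 76) (nat_lit 0) (XT.lf (nat_lit 152) (nat_lit 9838133632) (nat_lit 0) (nat_lit 28650621) (nat_lit 76) (nat_lit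 28650621) (nat_lit 97) (nat_lit 1) (nat_lit 95) (nat_lit 1) (nat_lit 96) (nat_lit 1) (nat_lit 347) (nat_lit 416) (nat_lit 257)) (XT.nd (nat_lit 78) (nat_lit 76) (nat_lit 0) (XT.lf (nat_lit 0) (nat_lit 3217544586) (nat_lit 0) (nat_lit 3298104158) (nat_lit 152) (nat_lit 3217544586) (nat_lit 95) (nat_lit 3) (nat_lit 95) (nat_lit 1) (nat_lit 97) (nat_lit 1) (nat_lit 348) (nat_lit 416) (nat_lit 256)) (XT.lf (nat_lit 76) (nat_lit 3140899221) (nat_lit 0) (nat_lit 3217622623) (nat_lit 76) (nat_lit 3217622623) (nat_lit 95) (nat_lit 3) (nat_lit 94) (nat_lit 1) (nat_lit 95) (nat_lit 1) (nat_lit 349) (nat_lit 416) (nat_lit 255)))))) (XT.nd (nat_lit 468) (nat_lit 608) (nat_lit 0) (XT.nd (nat_lit 234) (nat_lit 228) (nat_lit 0) (XT.nd (nat_lit 78) (nat_lit 76) (nat_lit 0) (XT.lf (nat_lit 152) (nat_lit 9376904893) (nat_lit 0) (nat_lit 23570937) (nat_lit 76) (nat_lit 23570937) (nat_lit 94) (nat_lit 1) (nat_lit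 92) (nat_lit 1) (nat_lit 93) (nat_lit 1) (nat_lit 350) (nat_lit 416) (nat_lit 254)) (XT.nd (nat_lit 78) (nat_lit 76) (nat_lit 0) (XT.lf (nat_lit 0) (nat_lit 3067753371) (nat_lit 0) (nat_lit 3134029930) (nat_lit 152) (nat_lit 3067753371) (nat_lit 92) (nat_lit 3) (nat_lit 92) (nat_lit 1) (nat_lit 94) (nat_lit 1) (nat_lit 351) (nat_lit 416) (nat_lit 253)) (XT.lf (nat_lit 76) (nat_lit 2997912016) (nat_lit 0) (nat_lit 3061032549) (nat_lit 76) (nat_lit 3061032549) (nat_lit 92) (nat_lit 3) (nat_lit 91) (nat_lit 1) (nat_lit 92) (nat_lit 1) (nat_lit 352) (nat_lit 416) (nat_lit 252)))) (XT.nd (nat_lit 78) (nat_lit 76) (nat_lit 0) (XT.lf (nat_lit 152) (nat_lit 8936353345) (nat_lit 0) (nat_lit 19391868) (nat_lit 76) (nat_lit 19391868) (nat_lit 91) (nat_lit 1) (nat_lit 89) (nat_lit 1) (nat_lit 90) (nat_lit 1) (nat_lit 353) (nat_lit 416) (nat_lit 251)) (XT.nd (nat_lit 78) (nat_lit 76) (nat_lit 0) (XT.lf (nat_lit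 0) (nat_lit 2924487793) (nat_lit 0) (nat_lit 2979013682) (nat_lit 152) (nat_lit 2924487793) (nat_lit 89) (nat_lit 3) (nat_lit 89) (nat_lit 1) (nat_lit 91) (nat_lit 1) (nat_lit 354) (nat_lit 416) (nat_lit 250)) (XT.lf (nat_lit 76) (nat_lit 2860567210) (nat_lit 0) (nat_lit 2912496628) (nat_lit 76) (nat_lit 2912496628) (nat_lit 89) (nat_lit 3) (nat_lit 88) (nat_lit 1) (nat_lit 89) (nat_lit 1) (nat_lit 355) (nat_lit 416) (nat_lit 249))))) (XT.nd (nat_lit 234) (nat_lit 380) (nat_lit 0) (XT.nd (nat_lit 78) (nat_lit 76) (nat_lit 0) (XT.lf (nat_lit 152) (nat_lit 8515722377) (nat_lit 0) (nat_lit 15953738) (nat_lit 76) (nat_lit 15953738) (nat_lit 88) (nat_lit 1) (nat_lit 86) (nat_lit 1) (nat_lit 87) (nat_lit 1) (nat_lit 356) (nat_lit 416) (nat_lit 248)) (XT.nd (nat_lit 78) (nat_lit 76) (nat_lit 0) (XT.lf (nat_lit 0) (nat_lit 2787544776) (nat_lit 0) (nat_lit 2832403360) (nat_lit 152) (nat_lit 2787544776)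 (nat_lit 86) (nat_lit 3) (nat_lit 86) (nat_lit 1) (nat_lit 88) (nat_lit 1) (nat_lit 357) (nat_lit 416) (nat_lit 247)) (XT.lf (nat_lit 76) (nat_lit 2728802938) (nat_lit 0) (nat_lit 2771525398) (nat_lit 76) (nat_lit 2771525398) (nat_lit 86) (nat_lit 3) (nat_lit 85) (nat_lit 1) (nat_lit 86) (nat_lit 1) (nat_lit 358) (nat_lit 416) (nat_lit 246)))) (XT.nd (nat_lit 156) (nat_lit 228) (nat_lit 0) (XT.nd (nat_lit 78) (nat_lit 0) (nat_lit 0) (XT.lf (nat_lit 152) (nat_lit 8114250984) (nat_lit 0) (nat_lit 13125179) (nat_lit 76) (nat_lit 13125179) (nat_lit 85) (nat_lit 1) (nat_lit 83) (nat_lit 1) (nat_lit 84) (nat_lit 1) (nat_lit 359) (nat_lit 416) (nat_lit 245)) (XT.lf (nat_lit 0) (nat_lit 2656711825) (nat_lit 0) (nat_lit 2693617093) (nat_lit 152) (nat_lit 2656711825) (nat_lit 83) (nat_lit 3) (nat_lit 83) (nat_lit 1) (nat_lit 85) (nat_lit 1) (nat_lit 360) (nat_lit 416) (nat_lit 244))) (XT.nd (nat_lit 78)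 (nat_lit 152) (nat_lit 0) (XT.lf (nat_lit 76) (nat_lit 2602523610) (nat_lit 0) (nat_lit 2637671485) (nat_lit 76) (nat_lit 2637671485) (nat_lit 83) (nat_lit 3) (nat_lit 82) (nat_lit 1) (nat_lit 83) (nat_lit 1) (nat_lit 361) (nat_lit 416) (nat_lit 243)) (XT.lf (nat_lit 152) (nat_lit 7731181136) (nat_lit 0) (nat_lit 10798118) (nat_lit 76) (nat_lit 10798118) (nat_lit 82) (nat_lit 1) (nat_lit 80) (nat_lit 1) (nat_lit 81) (nat_lit 1) (nat_lit 362) (nat_lit 416) (nat_lit 242))))))) (XT.nd (nat_lit 936) (nat_lit 912) (nat_lit 0) (XT.nd (nat_lit 468) (nat_lit 456) (nat_lit 0) (XT.nd (nat_lit 234) (nat_lit 228) (nat_lit 0) (XT.nd (nat_lit 78) (nat_lit 228) (nat_lit 0) (XT.lf (nat_lit 0) (nat_lit 2531770859) (nat_lit 0) (nat_lit 2562132914) (nat_lit 152) (nat_lit 2531770859) (nat_lit 80) (nat_lit 3) (nat_lit 80) (nat_lit 1) (nat_lit 82) (nat_lit 1) (nat_lit 363) (nat_lit 416) (nat_lit 241)) (XT.nd (nat_lit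 78) (nat_lit 152) (nat_lit 0) (XT.lf (nat_lit 76) (nat_lit 2481608025) (nat_lit 0) (nat_lit 2510524268) (nat_lit 76) (nat_lit 2510524268) (nat_lit 80) (nat_lit 3) (nat_lit 79) (nat_lit 1) (nat_lit 80) (nat_lit 1) (nat_lit 364) (nat_lit 416) (nat_lit 240)) (XT.lf (nat_lit 152) (nat_lit 7365763541) (nat_lit 0) (nat_lit 8883638) (nat_lit 76) (nat_lit 8883638) (nat_lit 79) (nat_lit 1) (nat_lit 77) (nat_lit 1) (nat_lit 78) (nat_lit 1) (nat_lit 365) (nat_lit 416) (nat_lit 239)))) (XT.nd (nat_lit 78) (nat_lit 228) (nat_lit 0) (XT.lf (nat_lit 0) (nat_lit 2412501262) (nat_lit 0) (nat_lit 2437480200) (nat_lit 152) (nat_lit 2412501262) (nat_lit 77) (nat_lit 3) (nat_lit 77) (nat_lit 1) (nat_lit 79) (nat_lit 1) (nat_lit 366) (nat_lit 416) (nat_lit 238)) (XT.nd (nat_lit 78) (nat_lit 152) (nat_lit 0) (XT.lf (nat_lit 76) (nat_lit 2365915930) (nat_lit 0) (nat_lit 2389705395) (nat_lit 76) (nat_lit 2389705395) (nat_lit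 77) (nat_lit 3) (nat_lit 76) (nat_lit 1) (nat_lit 77) (nat_lit 1) (nat_lit 367) (nat_lit 416) (nat_lit 237)) (XT.lf (nat_lit 152) (nat_lit 7017262071) (nat_lit 0) (nat_lit 7308591) (nat_lit 76) (nat_lit 7308591) (nat_lit 76) (nat_lit 1) (nat_lit 74) (nat_lit 1) (nat_lit 75) (nat_lit 1) (nat_lit 368) (nat_lit 416) (nat_lit 236))))) (XT.nd (nat_lit 234) (nat_lit 228) (nat_lit 0) (XT.nd (nat_lit 78) (nat_lit 228) (nat_lit 0) (XT.lf (nat_lit 0) (nat_lit 2298682292) (nat_lit 0) (nat_lit 2319232526) (nat_lit 152) (nat_lit 2298682292) (nat_lit 74) (nat_lit 3) (nat_lit 74) (nat_lit 1) (nat_lit 76) (nat_lit 1) (nat_lit 369) (nat_lit 416) (nat_lit 235)) (XT.nd (nat_lit 78) (nat_lit 152) (nat_lit 0) (XT.lf (nat_lit 76) (nat_lit 2255293335) (nat_lit 0) (nat_lit 2274864987) (nat_lit 76) (nat_lit 2274864987) (nat_lit 74) (nat_lit 3) (nat_lit 73) (nat_lit 1) (nat_lit 74) (nat_lit 1) (nat_lit 370) (nat_lit 416)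 (nat_lit 234)) (XT.lf (nat_lit 152) (nat_lit 6684957137) (nat_lit 0) (nat_lit 6012796) (nat_lit 76) (nat_lit 6012796) (nat_lit 73) (nat_lit 1) (nat_lit 71) (nat_lit 1) (nat_lit 72) (nat_lit 1) (nat_lit 371) (nat_lit 416) (nat_lit 233)))) (XT.nd (nat_lit 78) (nat_lit 228) (nat_lit 0) (XT.lf (nat_lit 0) (nat_lit 2190094976) (nat_lit 0) (nat_lit 2207001704) (nat_lit 152) (nat_lit 2190094976) (nat_lit 71) (nat_lit 3) (nat_lit 71) (nat_lit 1) (nat_lit 73) (nat_lit 1) (nat_lit 372) (nat_lit 416) (nat_lit 232)) (XT.nd (nat_lit 78) (nat_lit 152) (nat_lit 0) (XT.lf (nat_lit 76) (nat_lit 2149576784) (nat_lit 0) (nat_lit 2165678430) (nat_lit 76) (nat_lit 2165678430) (nat_lit 71) (nat_lit 3) (nat_lit 70) (nat_lit 1) (nat_lit 71) (nat_lit 1) (nat_lit 373) (nat_lit 416) (nat_lit 231)) (XT.lf (nat_lit 152) (nat_lit 6368148175) (nat_lit 0) (nat_lit 4946742) (nat_lit 76) (nat_lit 4946742) (nat_lit 70) (nat_lit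 1) (nat_lit 68) (nat_lit 1) (nat_lit 69) (nat_lit 1) (nat_lit 374) (nat_lit 416) (nat_lit 230)))))) (XT.nd (nat_lit 468) (nat_lit 456) (nat_lit 0) (XT.nd (nat_lit 234) (nat_lit 228) (nat_lit 0) (XT.nd (nat_lit 78) (nat_lit 228) (nat_lit 0) (XT.lf (nat_lit 0) (nat_lit 2086523571) (nat_lit 0) (nat_lit 2100432778) (nat_lit 152) (nat_lit 2086523571) (nat_lit 68) (nat_lit 3) (nat_lit 68) (nat_lit 1) (nat_lit 70) (nat_lit 1) (nat_lit 375) (nat_lit 416) (nat_lit 229)) (XT.nd (nat_lit 78) (nat_lit 152) (nat_lit 0) (XT.lf (nat_lit 76) (nat_lit 2048596783) (nat_lit 0) (nat_lit 2061843647) (nat_lit 76) (nat_lit 2061843647) (nat_lit 68) (nat_lit 3) (nat_lit 67) (nat_lit 1) (nat_lit 68) (nat_lit 1) (nat_lit 376) (nat_lit 416) (nat_lit 228)) (XT.lf (nat_lit 152) (nat_lit 6066155449) (nat_lit 0) (nat_lit 4069697) (nat_lit 76) (nat_lit 4069697) (nat_lit 67) (nat_lit 1) (nat_lit 65) (nat_lit 1) (nat_lit 66) (nat_lit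 1) (nat_lit 377) (nat_lit 416) (nat_lit 227)))) (XT.nd (nat_lit 78) (nat_lit 228) (nat_lit 0) (XT.lf (nat_lit 0) (nat_lit 1987756691) (nat_lit 0) (nat_lit 1999199830) (nat_lit 152) (nat_lit 1987756691) (nat_lit 65) (nat_lit 3) (nat_lit 65) (nat_lit 1) (nat_lit 67) (nat_lit 1) (nat_lit 378) (nat_lit 416) (nat_lit 226)) (XT.nd (nat_lit 78) (nat_lit 152) (nat_lit 0) (XT.lf (nat_lit 76) (nat_lit 1952180542) (nat_lit 0) (nat_lit 1963078770) (nat_lit 76) (nat_lit 1963078770) (nat_lit 65) (nat_lit 3) (nat_lit 64) (nat_lit 1) (nat_lit 65) (nat_lit 1) (nat_lit 379) (nat_lit 416) (nat_lit 225)) (XT.lf (nat_lit 152) (nat_lit 5778321277) (nat_lit 0) (nat_lit 3348149) (nat_lit 76) (nat_lit 3348149) (nat_lit 64) (nat_lit 1) (nat_lit 62) (nat_lit 1) (nat_lit 63) (nat_lit 1) (nat_lit 380) (nat_lit 416) (nat_lit 224))))) (XT.nd (nat_lit 234) (nat_lit 228) (nat_lit 0) (XT.nd (nat_lit 78) (nat_lit 228) (nat_lit 0)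 (XT.lf (nat_lit 0) (nat_lit 1893588145) (nat_lit 0) (nat_lit 1903002444) (nat_lit 152) (nat_lit 1893588145) (nat_lit 62) (nat_lit 3) (nat_lit 62) (nat_lit 1) (nat_lit 64) (nat_lit 1) (nat_lit 381) (nat_lit 416) (nat_lit 223)) (XT.nd (nat_lit 78) (nat_lit 152) (nat_lit 0) (XT.lf (nat_lit 76) (nat_lit 1860154142) (nat_lit 0) (nat_lit 1869120142) (nat_lit 76) (nat_lit 1869120142) (nat_lit 62) (nat_lit 3) (nat_lit 61) (nat_lit 1) (nat_lit 62) (nat_lit 1) (nat_lit 382) (nat_lit 416) (nat_lit 222)) (XT.lf (nat_lit 152) (nat_lit 5504010811) (nat_lit 0) (nat_lit 2754531) (nat_lit 76) (nat_lit 2754531) (nat_lit 61) (nat_lit 1) (nat_lit 59) (nat_lit 1) (nat_lit 60) (nat_lit 1) (nat_lit 383) (nat_lit 416) (nat_lit 221)))) (XT.nd (nat_lit 156) (nat_lit 152) (nat_lit 0) (XT.nd (nat_lit 78) (nat_lit 76) (nat_lit 0) (XT.lf (nat_lit 0) (nat_lit 1803817553) (nat_lit 0) (nat_lit 1811562720) (nat_lit 152) (nat_lit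 1803817553) (nat_lit 59) (nat_lit 3) (nat_lit 59) (nat_lit 1) (nat_lit 61) (nat_lit 1) (nat_lit 384) (nat_lit 416) (nat_lit 220)) (XT.lf (nat_lit 76) (nat_lit 1772344254) (nat_lit 0) (nat_lit 1779720604) (nat_lit 76) (nat_lit 1779720604) (nat_lit 59) (nat_lit 3) (nat_lit 58) (nat_lit 1) (nat_lit 59) (nat_lit 1) (nat_lit 385) (nat_lit 416) (nat_lit 219))) (XT.nd (nat_lit 78) (nat_lit 0) (nat_lit 0) (XT.lf (nat_lit 152) (nat_lit 5242612456) (nat_lit 0) (nat_lit 2266159) (nat_lit 76) (nat_lit 2266159) (nat_lit 58) (nat_lit 1) (nat_lit 56) (nat_lit 1) (nat_lit 57) (nat_lit 1) (nat_lit 386) (nat_lit 416) (nat_lit 218)) (XT.lf (nat_lit 0) (nat_lit 1718250785) (nat_lit 0) (nat_lit 1724622753) (nat_lit 152) (nat_lit 1718250785) (nat_lit 56) (nat_lit 3) (nat_lit 56) (nat_lit 1) (nat_lit 58) (nat_lit 1) (nat_lit 387) (nat_lit 416) (nat_lit 217))))))))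
noncomputable def ec335 : XT := (XT.nd (nat_lit 1950) (nat_lit 1976) (nat_lit 0) (XT.nd (nat_lit 936) (nat_lit 988) (nat_lit 0) (XT.nd (nat_lit 468) (nat_lit 456) (nat_lit 0) (XT.nd (nat_lit 234) (nat_lit 228) (nat_lit 0) (XT.nd (nat_lit 78) (nat_lit 152) (nat_lit 0) (XT.lf (nat_lit 76) (nat_lit 1688579468) (nat_lit 0) (nat_lit 1694648010) (nat_lit 76) (nat_lit 1694648010) (nat_lit 56) (nat_lit 3) (nat_lit 55) (nat_lit 1) (nat_lit 56) (nat_lit 1) (nat_lit 388) (nat_lit 416) (nat_lit 216)) (XT.nd (nat_lit 78) (nat_lit 0) (nat_lit 0) (XT.lf (nat_lit 152) (nat_lit 4993537994) (nat_lit 0) (nat_lit 1864375) (nat_lit 76) (nat_lit 1864375) (nat_lit 55) (nat_lit 1) (nat_lit 53) (nat_lit 1) (nat_lit 54) (nat_lit 1) (nat_lit 389) (nat_lit 416) (nat_lit 215)) (XT.lf (nat_lit 0) (nat_lit 1636700239) (nat_lit 0) (nat_lit 1641942473) (nat_lit 152) (nat_lit 1636700239) (nat_lit 53) (nat_lit 3) (nat_lit 53) (nat_lit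 1) (nat_lit 55) (nat_lit 1) (nat_lit 390) (nat_lit 416) (nat_lit 214)))) (XT.nd (nat_lit 78) (nat_lit 152) (nat_lit 0) (XT.lf (nat_lit 76) (nat_lit 1608691331) (nat_lit 0) (nat_lit 1613683935) (nat_lit 76) (nat_lit 1613683935) (nat_lit 53) (nat_lit 3) (nat_lit 52) (nat_lit 1) (nat_lit 53) (nat_lit 1) (nat_lit 391) (nat_lit 416) (nat_lit 213)) (XT.nd (nat_lit 78) (nat_lit 0) (nat_lit 0) (XT.lf (nat_lit 152) (nat_lit 4756222496) (nat_lit 0) (nat_lit 1533826) (nat_lit 76) (nat_lit 1533826) (nat_lit 52) (nat_lit 1) (nat_lit 50) (nat_lit 1) (nat_lit 51) (nat_lit 1) (nat_lit 392) (nat_lit 416) (nat_lit 212)) (XT.lf (nat_lit 0) (nat_lit 1558985019) (nat_lit 0) (nat_lit 1563297818) (nat_lit 152) (nat_lit 1558985019) (nat_lit 50) (nat_lit 3) (nat_lit 50) (nat_lit 1) (nat_lit 52) (nat_lit 1) (nat_lit 393) (nat_lit 416) (nat_lit 211))))) (XT.nd (nat_lit 234) (nat_lit 228) (nat_lit 0) (XT.nd (nat_lit 78) (nat_lit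 152) (nat_lit 0) (XT.lf (nat_lit 76) (nat_lit 1532515123) (nat_lit 0) (nat_lit 1536622550) (nat_lit 76) (nat_lit 1536622550) (nat_lit 50) (nat_lit 3) (nat_lit 49) (nat_lit 1) (nat_lit 50) (nat_lit 1) (nat_lit 394) (nat_lit 416) (nat_lit 210)) (XT.nd (nat_lit 78) (nat_lit 0) (nat_lit 0) (XT.lf (nat_lit 152) (nat_lit 4530124047) (nat_lit 0) (nat_lit 1261882) (nat_lit 76) (nat_lit 1261882) (nat_lit 49) (nat_lit 1) (nat_lit 47) (nat_lit 1) (nat_lit 48) (nat_lit 1) (nat_lit 395) (nat_lit 416) (nat_lit 209)) (XT.lf (nat_lit 0) (nat_lit 1484931007) (nat_lit 0) (nat_lit 1488479157) (nat_lit 152) (nat_lit 1484931007) (nat_lit 47) (nat_lit 3) (nat_lit 47) (nat_lit 1) (nat_lit 49) (nat_lit 1) (nat_lit 396) (nat_lit 416) (nat_lit 208)))) (XT.nd (nat_lit 78) (nat_lit 152) (nat_lit 0) (XT.lf (nat_lit 76) (nat_lit 1459890445) (nat_lit 0) (nat_lit 1463269636) (nat_lit 76) (nat_lit 1463269636) (nat_lit 47) (nat_lit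 3) (nat_lit 46) (nat_lit 1) (nat_lit 47) (nat_lit 1) (nat_lit 397) (nat_lit 416) (nat_lit 207)) (XT.nd (nat_lit 78) (nat_lit 0) (nat_lit 0) (XT.lf (nat_lit 152) (nat_lit 4314723340) (nat_lit 0) (nat_lit 1038153) (nat_lit 76) (nat_lit 1038153) (nat_lit 46) (nat_lit 1) (nat_lit 44) (nat_lit 1) (nat_lit 45) (nat_lit 1) (nat_lit 398) (nat_lit 416) (nat_lit 206)) (XT.lf (nat_lit 0) (nat_lit 1414370865) (nat_lit 0) (nat_lit 1417289937) (nat_lit 152) (nat_lit 1414370865) (nat_lit 44) (nat_lit 3) (nat_lit 44) (nat_lit 1) (nat_lit 46) (nat_lit 1) (nat_lit 399) (nat_lit 416) (nat_lit 205)))))) (XT.nd (nat_lit 468) (nat_lit 532) (nat_lit 0) (XT.nd (nat_lit 234) (nat_lit 228) (nat_lit 0) (XT.nd (nat_lit 78) (nat_lit 152) (nat_lit 0) (XT.lf (nat_lit 76) (nat_lit 1390661636) (nat_lit 0) (nat_lit 1393441704) (nat_lit 76) (nat_lit 1393441704) (nat_lit 44) (nat_lit 3) (nat_lit 43) (nat_lit 1) (nat_lit 44) (nat_lit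 1) (nat_lit 400) (nat_lit 416) (nat_lit 204)) (XT.nd (nat_lit 78) (nat_lit 0) (nat_lit 0) (XT.lf (nat_lit 152) (nat_lit 4109523166) (nat_lit 0) (nat_lit 854091) (nat_lit 76) (nat_lit 854091) (nat_lit 43) (nat_lit 1) (nat_lit 41) (nat_lit 1) (nat_lit 42) (nat_lit 1) (nat_lit 401) (nat_lit 416) (nat_lit 203)) (XT.lf (nat_lit 0) (nat_lit 1347143983) (nat_lit 0) (nat_lit 1349545511) (nat_lit 152) (nat_lit 1347143983) (nat_lit 41) (nat_lit 3) (nat_lit 41) (nat_lit 1) (nat_lit 43) (nat_lit 1) (nat_lit 402) (nat_lit 416) (nat_lit 202)))) (XT.nd (nat_lit 78) (nat_lit 152) (nat_lit 0) (XT.lf (nat_lit 76) (nat_lit 1324678058) (nat_lit 0) (nat_lit 1326965227) (nat_lit 76) (nat_lit 1326965227) (nat_lit 41) (nat_lit 3) (nat_lit 40) (nat_lit 1) (nat_lit 41) (nat_lit 1) (nat_lit 403) (nat_lit 416) (nat_lit 201)) (XT.nd (nat_lit 78) (nat_lit 0) (nat_lit 0) (XT.lf (nat_lit 152) (nat_lit 3914047827) (nat_lit 0)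 (nat_lit 702663) (nat_lit 76) (nat_lit 702663) (nat_lit 40) (nat_lit 1) (nat_lit 38) (nat_lit 1) (nat_lit 39) (nat_lit 1) (nat_lit 404) (nat_lit 416) (nat_lit 200)) (XT.lf (nat_lit 0) (nat_lit 1283096377) (nat_lit 0) (nat_lit 1285072120) (nat_lit 152) (nat_lit 1283096377) (nat_lit 38) (nat_lit 3) (nat_lit 38) (nat_lit 1) (nat_lit 40) (nat_lit 1) (nat_lit 405) (nat_lit 416) (nat_lit 199))))) (XT.nd (nat_lit 234) (nat_lit 304) (nat_lit 0) (XT.nd (nat_lit 78) (nat_lit 152) (nat_lit 0) (XT.lf (nat_lit 76) (nat_lit 1261794287) (nat_lit 0) (nat_lit 1263675947) (nat_lit 76) (nat_lit 1263675947) (nat_lit 38) (nat_lit 3) (nat_lit 37) (nat_lit 1) (nat_lit 38) (nat_lit 1) (nat_lit 406) (nat_lit 416) (nat_lit 198)) (XT.nd (nat_lit 78) (nat_lit 0) (nat_lit 0) (XT.lf (nat_lit 152) (nat_lit 3727842498) (nat_lit 0) (nat_lit 578082) (nat_lit 76) (nat_lit 578082) (nat_lit 37) (nat_lit 1) (nat_lit 35) (nat_lit 1)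 (nat_lit 36) (nat_lit 1) (nat_lit 407) (nat_lit 416) (nat_lit 197)) (XT.lf (nat_lit 0) (nat_lit 1222080553) (nat_lit 0) (nat_lit 1223706002) (nat_lit 152) (nat_lit 1222080553) (nat_lit 35) (nat_lit 3) (nat_lit 35) (nat_lit 1) (nat_lit 37) (nat_lit 1) (nat_lit 408) (nat_lit 416) (nat_lit 196)))) (XT.nd (nat_lit 156) (nat_lit 76) (nat_lit 0) (XT.nd (nat_lit 78) (nat_lit 152) (nat_lit 0) (XT.lf (nat_lit 76) (nat_lit 1201870207) (nat_lit 0) (nat_lit 1203418253) (nat_lit 76) (nat_lit 1203418253) (nat_lit 35) (nat_lit 3) (nat_lit 34) (nat_lit 1) (nat_lit 35) (nat_lit 1) (nat_lit 409) (nat_lit 416) (nat_lit 195)) (XT.lf (nat_lit 152) (nat_lit 3550472549) (nat_lit 0) (nat_lit 475590) (nat_lit 76) (nat_lit 475590) (nat_lit 34) (nat_lit 1) (nat_lit 32) (nat_lit 1) (nat_lit 33) (nat_lit 1) (nat_lit 410) (nat_lit 416) (nat_lit 194))) (XT.nd (nat_lit 78) (nat_lit 76) (nat_lit 0) (XT.lf (nat_lit 0) (nat_lit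 1163955351) (nat_lit 0) (nat_lit 1165292612) (nat_lit 152) (nat_lit 1163955351) (nat_lit 32) (nat_lit 3) (nat_lit 32) (nat_lit 1) (nat_lit 34) (nat_lit 1) (nat_lit 411) (nat_lit 416) (nat_lit 193)) (XT.lf (nat_lit 76) (nat_lit 1144771045) (nat_lit 0) (nat_lit 1146044626) (nat_lit 76) (nat_lit 1146044626) (nat_lit 32) (nat_lit 3) (nat_lit 31) (nat_lit 1) (nat_lit 32) (nat_lit 1) (nat_lit 412) (nat_lit 416) (nat_lit 192))))))) (XT.nd (nat_lit 1014) (nat_lit 912) (nat_lit 0) (XT.nd (nat_lit 468) (nat_lit 608) (nat_lit 0) (XT.nd (nat_lit 234) (nat_lit 228) (nat_lit 0) (XT.nd (nat_lit 78) (nat_lit 76) (nat_lit 0) (XT.lf (nat_lit 152) (nat_lit 3381522838) (nat_lit 0) (nat_lit 391269) (nat_lit 76) (nat_lit 391269) (nat_lit 31) (nat_lit 1) (nat_lit 29) (nat_lit 1) (nat_lit 30) (nat_lit 1) (nat_lit 413) (nat_lit 416) (nat_lit 191)) (XT.nd (nat_lit 78) (nat_lit 76) (nat_lit 0) (XT.lf (nat_lit 0) (nat_lit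 1108585763) (nat_lit 0) (nat_lit 1109685930) (nat_lit 152) (nat_lit 1108585763) (nat_lit 29) (nat_lit 3) (nat_lit 29) (nat_lit 1) (nat_lit 31) (nat_lit 1) (nat_lit 414) (nat_lit 416) (nat_lit 190)) (XT.lf (nat_lit 76) (nat_lit 1090367354) (nat_lit 0) (nat_lit 1091415133) (nat_lit 76) (nat_lit 1091415133) (nat_lit 29) (nat_lit 3) (nat_lit 28) (nat_lit 1) (nat_lit 29) (nat_lit 1) (nat_lit 415) (nat_lit 416) (nat_lit 189)))) (XT.nd (nat_lit 78) (nat_lit 76) (nat_lit 0) (XT.lf (nat_lit 152) (nat_lit 3220597004) (nat_lit 0) (nat_lit 321898) (nat_lit 76) (nat_lit 321898) (nat_lit 28) (nat_lit 1) (nat_lit 26) (nat_lit 1) (nat_lit 27) (nat_lit 1) (nat_lit 416) (nat_lit 416) (nat_lit 188)) (XT.nd (nat_lit 78) (nat_lit 76) (nat_lit 0) (XT.lf (nat_lit 0) (nat_lit 1055842741) (nat_lit 0) (nat_lit 1056747852) (nat_lit 152) (nat_lit 1055842741) (nat_lit 26) (nat_lit 3) (nat_lit 26) (nat_lit 1) (nat_lit 28) (nat_lit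 1) (nat_lit 417) (nat_lit 416) (nat_lit 187)) (XT.lf (nat_lit 76) (nat_lit 1038534952) (nat_lit 0) (nat_lit 1039396962) (nat_lit 76) (nat_lit 1039396962) (nat_lit 26) (nat_lit 3) (nat_lit 25) (nat_lit 1) (nat_lit 26) (nat_lit 1) (nat_lit 418) (nat_lit 416) (nat_lit 186))))) (XT.nd (nat_lit 234) (nat_lit 380) (nat_lit 0) (XT.nd (nat_lit 78) (nat_lit 76) (nat_lit 0) (XT.lf (nat_lit 152) (nat_lit 3067316740) (nat_lit 0) (nat_lit 264826) (nat_lit 76) (nat_lit 264826) (nat_lit 25) (nat_lit 1) (nat_lit 23) (nat_lit 1) (nat_lit 24) (nat_lit 1) (nat_lit 419) (nat_lit 416) (nat_lit 185)) (XT.nd (nat_lit 78) (nat_lit 76) (nat_lit 0) (XT.lf (nat_lit 0) (nat_lit 1005602998) (nat_lit 0) (nat_lit 1006347635) (nat_lit 152) (nat_lit 1005602998) (nat_lit 23) (nat_lit 3) (nat_lit 23) (nat_lit 1) (nat_lit 25) (nat_lit 1) (nat_lit 420) (nat_lit 416) (nat_lit 184)) (XT.lf (nat_lit 76) (nat_lit 989154828) (nat_lit 0)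 (nat_lit 989864006) (nat_lit 76) (nat_lit 989864006) (nat_lit 23) (nat_lit 3) (nat_lit 22) (nat_lit 1) (nat_lit 23) (nat_lit 1) (nat_lit 421) (nat_lit 416) (nat_lit 183)))) (XT.nd (nat_lit 156) (nat_lit 228) (nat_lit 0) (XT.nd (nat_lit 78) (nat_lit 0) (nat_lit 0) (XT.lf (nat_lit 152) (nat_lit 2921321088) (nat_lit 0) (nat_lit 217873) (nat_lit 76) (nat_lit 217873) (nat_lit 22) (nat_lit 1) (nat_lit 20) (nat_lit 1) (nat_lit 21) (nat_lit 1) (nat_lit 422) (nat_lit 416) (nat_lit 182)) (XT.lf (nat_lit 0) (nat_lit 957748801) (nat_lit 0) (nat_lit 958361416) (nat_lit 152) (nat_lit 957748801) (nat_lit 20) (nat_lit 3) (nat_lit 20) (nat_lit 1) (nat_lit 22) (nat_lit 1) (nat_lit 423) (nat_lit 416) (nat_lit 181))) (XT.nd (nat_lit 78) (nat_lit 152) (nat_lit 0) (XT.lf (nat_lit 76) (nat_lit 942113033) (nat_lit 0) (nat_lit 942696475) (nat_lit 76) (nat_lit 942696475) (nat_lit 20) (nat_lit 3) (nat_lit 19) (nat_lit 1)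 (nat_lit 20) (nat_lit 1) (nat_lit 424) (nat_lit 416) (nat_lit 180)) (XT.lf (nat_lit 152) (nat_lit 2782265721) (nat_lit 0) (nat_lit 179244) (nat_lit 76) (nat_lit 179244) (nat_lit 19) (nat_lit 1) (nat_lit 17) (nat_lit 1) (nat_lit 18) (nat_lit 1) (nat_lit 425) (nat_lit 416) (nat_lit 179)))))) (XT.nd (nat_lit 468) (nat_lit 456) (nat_lit 0) (XT.nd (nat_lit 234) (nat_lit 228) (nat_lit 0) (XT.nd (nat_lit 78) (nat_lit 228) (nat_lit 0) (XT.lf (nat_lit 0) (nat_lit 912167762) (nat_lit 0) (nat_lit 912671762) (nat_lit 152) (nat_lit 912167762) (nat_lit 17) (nat_lit 3) (nat_lit 17) (nat_lit 1) (nat_lit 19) (nat_lit 1) (nat_lit 426) (nat_lit 416) (nat_lit 178)) (XT.nd (nat_lit 78) (nat_lit 152) (nat_lit 0) (XT.lf (nat_lit 76) (nat_lit 897300541) (nat_lit 0) (nat_lit 897780540) (nat_lit 76) (nat_lit 897780540) (nat_lit 17) (nat_lit 3) (nat_lit 16) (nat_lit 1) (nat_lit 17) (nat_lit 1) (nat_lit 427) (nat_lit 416)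 (nat_lit 177)) (XT.lf (nat_lit 152) (nat_lit 2649822259) (nat_lit 0) (nat_lit 147465) (nat_lit 76) (nat_lit 147465) (nat_lit 16) (nat_lit 1) (nat_lit 14) (nat_lit 1) (nat_lit 15) (nat_lit 1) (nat_lit 428) (nat_lit 416) (nat_lit 176)))) (XT.nd (nat_lit 78) (nat_lit 228) (nat_lit 0) (XT.lf (nat_lit 0) (nat_lit 868752631) (nat_lit 0) (nat_lit 869167273) (nat_lit 152) (nat_lit 868752631) (nat_lit 14) (nat_lit 3) (nat_lit 14) (nat_lit 1) (nat_lit 16) (nat_lit 1) (nat_lit 429) (nat_lit 416) (nat_lit 175)) (XT.nd (nat_lit 78) (nat_lit 152) (nat_lit 0) (XT.lf (nat_lit 76) (nat_lit 854613106) (nat_lit 0) (nat_lit 855008002) (nat_lit 76) (nat_lit 855008002) (nat_lit 14) (nat_lit 3) (nat_lit 13) (nat_lit 1) (nat_lit 14) (nat_lit 1) (nat_lit 430) (nat_lit 416) (nat_lit 174)) (XT.lf (nat_lit 152) (nat_lit 2523677582) (nat_lit 0) (nat_lit 121320) (nat_lit 76) (nat_lit 121320) (nat_lit 13) (nat_lit 1) (nat_lit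 11) (nat_lit 1) (nat_lit 12) (nat_lit 1) (nat_lit 431) (nat_lit 416) (nat_lit 173))))) (XT.nd (nat_lit 234) (nat_lit 228) (nat_lit 0) (XT.nd (nat_lit 78) (nat_lit 228) (nat_lit 0) (XT.lf (nat_lit 0) (nat_lit 827401088) (nat_lit 0) (nat_lit 827742214) (nat_lit 152) (nat_lit 827401088) (nat_lit 11) (nat_lit 3) (nat_lit 11) (nat_lit 1) (nat_lit 13) (nat_lit 1) (nat_lit 432) (nat_lit 416) (nat_lit 172)) (XT.nd (nat_lit 78) (nat_lit 152) (nat_lit 0) (XT.lf (nat_lit 76) (nat_lit 813951108) (nat_lit 0) (nat_lit 814275990) (nat_lit 76) (nat_lit 814275990) (nat_lit 11) (nat_lit 3) (nat_lit 10) (nat_lit 1) (nat_lit 11) (nat_lit 1) (nat_lit 433) (nat_lit 416) (nat_lit 171)) (XT.lf (nat_lit 152) (nat_lit 2403533175) (nat_lit 0) (nat_lit 99810) (nat_lit 76) (nat_lit 99810) (nat_lit 10) (nat_lit 1) (nat_lit 8) (nat_lit 1) (nat_lit 9) (nat_lit 1) (nat_lit 434) (nat_lit 416) (nat_lit 170)))) (XT.nd (nat_lit 156)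 (nat_lit 152) (nat_lit 0) (XT.nd (nat_lit 78) (nat_lit 76) (nat_lit 0) (XT.lf (nat_lit 0) (nat_lit 788015540) (nat_lit 0) (nat_lit 788296185) (nat_lit 152) (nat_lit 788015540) (nat_lit 8) (nat_lit 3) (nat_lit 8) (nat_lit 1) (nat_lit 10) (nat_lit 1) (nat_lit 435) (nat_lit 416) (nat_lit 169)) (XT.lf (nat_lit 76) (nat_lit 775219392) (nat_lit 0) (nat_lit 775486673) (nat_lit 76) (nat_lit 775486673) (nat_lit 8) (nat_lit 3) (nat_lit 7) (nat_lit 1) (nat_lit 8) (nat_lit 1) (nat_lit 436) (nat_lit 416) (nat_lit 168))) (XT.nd (nat_lit 78) (nat_lit 0) (nat_lit 0) (XT.lf (nat_lit 152) (nat_lit 2289104484) (nat_lit 0) (nat_lit 82114) (nat_lit 76) (nat_lit 82114) (nat_lit 7) (nat_lit 1) (nat_lit 5) (nat_lit 1) (nat_lit 6) (nat_lit 1) (nat_lit 437) (nat_lit 416) (nat_lit 167)) (XT.lf (nat_lit 0) (nat_lit 750502922) (nat_lit 0) (nat_lit 750733810) (nat_lit 152) (nat_lit 750502922) (nat_lit 5) (nat_lit 3) (nat_lit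 5) (nat_lit 1) (nat_lit 7) (nat_lit 1) (nat_lit 438) (nat_lit 416) (nat_lit 166))))))))
noncomputable def ec336 : XT := (XT.nd (nat_lit 35100) (nat_lit 0) (nat_lit 15960) (XT.nd (nat_lit 34086) (nat_lit 0) (nat_lit 19380) (XT.nd (nat_lit 33618) (nat_lit 0) (nat_lit 22116) (XT.nd (nat_lit 33384) (nat_lit 0) (nat_lit 22040) (XT.nd (nat_lit 78) (nat_lit 152) (nat_lit 0) (XT.lf (nat_lit 76) (nat_lit 738327103) (nat_lit 0) (nat_lit 738546997) (nat_lit 76) (nat_lit 738546997) (nat_lit 5) (nat_lit 3) (nat_lit 4) (nat_lit 1) (nat_lit 5) (nat_lit 1) (nat_lit 439) (nat_lit 416) (nat_lit 165)) (XT.nd (nat_lit 78) (nat_lit 0) (nat_lit 0) (XT.lf (nat_lit 152) (nat_lit 2180120299) (nat_lit 0) (nat_lit 67555) (nat_lit 76) (nat_lit 67555) (nat_lit 4) (nat_lit 1) (nat_lit 2) (nat_lit 1) (nat_lit 3) (nat_lit 1) (nat_lit 440) (nat_lit 416) (nat_lit 164)) (XT.lf (nat_lit 0) (nat_lit 714774505) (nat_lit 0) (nat_lit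 714964457) (nat_lit 152) (nat_lit 714774505) (nat_lit 2) (nat_lit 3) (nat_lit 2) (nat_lit 1) (nat_lit 4) (nat_lit 1) (nat_lit 441) (nat_lit 416) (nat_lit 163)))) (XT.nd (nat_lit 78) (nat_lit 0) (nat_lit 0) (XT.lf (nat_lit 836) (nat_lit 23005183797) (nat_lit 0) (nat_lit 40845650952) (nat_lit 836) (nat_lit 23005183797) (nat_lit 303) (nat_lit 1) (nat_lit 292) (nat_lit 0) (nat_lit 303) (nat_lit 0) (nat_lit 186) (nat_lit 417) (nat_lit 417)) (XT.nd (nat_lit 78) (nat_lit 0) (nat_lit 76) (XT.lf (nat_lit 836) (nat_lit 89170964480) (nat_lit 76) (nat_lit 40186850130) (nat_lit 0) (nat_lit 40186850130) (nat_lit 303) (nat_lit 1) (nat_lit 293) (nat_lit 1) (nat_lit 292) (nat_lit 0) (nat_lit 187) (nat_lit 417) (nat_lit 416)) (XT.lf (nat_lit 836) (nat_lit 42497539025) (nat_lit 0) (nat_lit 80511050209) (nat_lit 760) (nat_lit 42497539025) (nat_lit 304) (nat_lit 1) (nat_lit 293) (nat_lit 1) (nat_lit 303) (nat_lit 1)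 (nat_lit 188) (nat_lit 417) (nat_lit 415))))) (XT.nd (nat_lit 234) (nat_lit 0) (nat_lit 152) (XT.nd (nat_lit 78) (nat_lit 0) (nat_lit 76) (XT.lf (nat_lit 836) (nat_lit 79719478029) (nat_lit 76) (nat_lit 40939294283) (nat_lit 0) (nat_lit 40939294283) (nat_lit 304) (nat_lit 1) (nat_lit 294) (nat_lit 1) (nat_lit 293) (nat_lit 1) (nat_lit 189) (nat_lit 417) (nat_lit 414)) (XT.nd (nat_lit 78) (nat_lit 0) (nat_lit 0) (XT.lf (nat_lit 836) (nat_lit 36694110183) (nat_lit 0) (nat_lit 84425650514) (nat_lit 760) (nat_lit 36694110183) (nat_lit 305) (nat_lit 1) (nat_lit 294) (nat_lit 1) (nat_lit 304) (nat_lit 1) (nat_lit 190) (nat_lit 417) (nat_lit 413)) (XT.lf (nat_lit 836) (nat_lit 65996747125) (nat_lit 76) (nat_lit 44074142395) (nat_lit 0) (nat_lit 44074142395) (nat_lit 305) (nat_lit 1) (nat_lit 295) (nat_lit 1) (nat_lit 294) (nat_lit 1) (nat_lit 191) (nat_lit 417) (nat_lit 412)))) (XT.nd (nat_lit 78) (nat_lit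 0) (nat_lit 0) (XT.lf (nat_lit 836) (nat_lit 28937667456) (nat_lit 0) (nat_lit 92724044944) (nat_lit 760) (nat_lit 28937667456) (nat_lit 306) (nat_lit 1) (nat_lit 295) (nat_lit 1) (nat_lit 305) (nat_lit 1) (nat_lit 192) (nat_lit 417) (nat_lit 411)) (XT.nd (nat_lit 78) (nat_lit 0) (nat_lit 76) (XT.lf (nat_lit 836) (nat_lit 48645107502) (nat_lit 76) (nat_lit 49253122123) (nat_lit 0) (nat_lit 49253122123) (nat_lit 306) (nat_lit 1) (nat_lit 296) (nat_lit 1) (nat_lit 295) (nat_lit 1) (nat_lit 193) (nat_lit 417) (nat_lit 410)) (XT.lf (nat_lit 836) (nat_lit 19528476975) (nat_lit 0) (nat_lit 104772587180) (nat_lit 760) (nat_lit 19528476975) (nat_lit 307) (nat_lit 1) (nat_lit 296) (nat_lit 1) (nat_lit 306) (nat_lit 1) (nat_lit 194) (nat_lit 417) (nat_lit 409)))))) (XT.nd (nat_lit 468) (nat_lit 1368) (nat_lit 0) (XT.nd (nat_lit 234) (nat_lit 912) (nat_lit 0) (XT.nd (nat_lit 78) (nat_lit 684) (nat_lit 0)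 (XT.lf (nat_lit 836) (nat_lit 28235498703) (nat_lit 76) (nat_lit 56174971386) (nat_lit 0) (nat_lit 56174971386) (nat_lit 307) (nat_lit 1) (nat_lit 297) (nat_lit 1) (nat_lit 296) (nat_lit 1) (nat_lit 195) (nat_lit 417) (nat_lit 408)) (XT.nd (nat_lit 78) (nat_lit 760) (nat_lit 0) (XT.lf (nat_lit 76) (nat_lit 8733236910) (nat_lit 0) (nat_lit 120007307173) (nat_lit 760) (nat_lit 8733236910) (nat_lit 298) (nat_lit 1) (nat_lit 297) (nat_lit 1) (nat_lit 307) (nat_lit 1) (nat_lit 196) (nat_lit 417) (nat_lit 407)) (XT.lf (nat_lit 836) (nat_lit 5274657916) (nat_lit 0) (nat_lit 64571732695) (nat_lit 760) (nat_lit 64571732695) (nat_lit 298) (nat_lit 1) (nat_lit 287) (nat_lit 1) (nat_lit 297) (nat_lit 1) (nat_lit 197) (nat_lit 417) (nat_lit 406)))) (XT.nd (nat_lit 78) (nat_lit 380) (nat_lit 0) (XT.lf (nat_lit 532) (nat_lit 125174275100) (nat_lit 0) (nat_lit 3159733650) (nat_lit 456) (nat_lit 3159733650) (nat_lit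 287) (nat_lit 1) (nat_lit 280) (nat_lit 1) (nat_lit 286) (nat_lit 1) (nat_lit 198) (nat_lit 417) (nat_lit 405)) (XT.nd (nat_lit 78) (nat_lit 380) (nat_lit 0) (XT.lf (nat_lit 76) (nat_lit 54725975215) (nat_lit 0) (nat_lit 19155029702) (nat_lit 532) (nat_lit 54725975215) (nat_lit 281) (nat_lit 1) (nat_lit 280) (nat_lit 1) (nat_lit 287) (nat_lit 1) (nat_lit 199) (nat_lit 417) (nat_lit 404)) (XT.lf (nat_lit 456) (nat_lit 94169355797) (nat_lit 0) (nat_lit 15836807467) (nat_lit 380) (nat_lit 15836807467) (nat_lit 281) (nat_lit 1) (nat_lit 275) (nat_lit 1) (nat_lit 280) (nat_lit 1) (nat_lit 200) (nat_lit 417) (nat_lit 403))))) (XT.nd (nat_lit 234) (nat_lit 988) (nat_lit 0) (XT.nd (nat_lit 78) (nat_lit 380) (nat_lit 0) (XT.lf (nat_lit 76) (nat_lit 39035371917) (nat_lit 0) (nat_lit 45066324612) (nat_lit 456) (nat_lit 39035371916) (nat_lit 276) (nat_lit 1) (nat_lit 275) (nat_lit 1) (nat_lit 281) (nat_lit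 1) (nat_lit 201) (nat_lit 417) (nat_lit 402)) (XT.nd (nat_lit 78) (nat_lit 0) (nat_lit 0) (XT.lf (nat_lit 456) (nat_lit 62011856236) (nat_lit 0) (nat_lit 29256774631) (nat_lit 380) (nat_lit 29256774631) (nat_lit 276) (nat_lit 1) (nat_lit 270) (nat_lit 1) (nat_lit 275) (nat_lit 1) (nat_lit 202) (nat_lit 417) (nat_lit 401)) (XT.lf (nat_lit 76) (nat_lit 22850544882) (nat_lit 0) (nat_lit 72288608744) (nat_lit 456) (nat_lit 22850544882) (nat_lit 271) (nat_lit 1) (nat_lit 270) (nat_lit 1) (nat_lit 276) (nat_lit 1) (nat_lit 203) (nat_lit 417) (nat_lit 400)))) (XT.nd (nat_lit 156) (nat_lit 684) (nat_lit 0) (XT.nd (nat_lit 78) (nat_lit 0) (nat_lit 0) (XT.lf (nat_lit 380) (nat_lit 29001081157) (nat_lit 0) (nat_lit 43259068555) (nat_lit 304) (nat_lit 43259068555) (nat_lit 271) (nat_lit 1) (nat_lit 266) (nat_lit 1) (nat_lit 270) (nat_lit 1) (nat_lit 204) (nat_lit 417) (nat_lit 399)) (XT.lf (nat_lit 76) (nat_lit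 6310441747) (nat_lit 0) (nat_lit 100522857041) (nat_lit 380) (nat_lit 6310441747) (nat_lit 267) (nat_lit 1) (nat_lit 266) (nat_lit 1) (nat_lit 271) (nat_lit 1) (nat_lit 205) (nat_lit 417) (nat_lit 398))) (XT.nd (nat_lit 78) (nat_lit 304) (nat_lit 0) (XT.lf (nat_lit 76) (nat_lit 53173595469) (nat_lit 0) (nat_lit 4453391910) (nat_lit 380) (nat_lit 53173595469) (nat_lit 262) (nat_lit 1) (nat_lit 261) (nat_lit 1) (nat_lit 266) (nat_lit 1) (nat_lit 206) (nat_lit 417) (nat_lit 397)) (XT.lf (nat_lit 380) (nat_lit 87957512470) (nat_lit 0) (nat_lit 10294572941) (nat_lit 304) (nat_lit 10294572941) (nat_lit 262) (nat_lit 1) (nat_lit 257) (nat_lit 1) (nat_lit 261) (nat_lit 1) (nat_lit 207) (nat_lit 417) (nat_lit 396))))))) (XT.nd (nat_lit 936) (nat_lit 1520) (nat_lit 0) (XT.nd (nat_lit 468) (nat_lit 988) (nat_lit 0) (XT.nd (nat_lit 234) (nat_lit 608) (nat_lit 0) (XT.nd (nat_lit 78) (nat_lit 304) (nat_lit 0)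 (XT.lf (nat_lit 76) (nat_lit 34500803271) (nat_lit 0) (nat_lit 37329793888) (nat_lit 380) (nat_lit 34500803271) (nat_lit 258) (nat_lit 1) (nat_lit 257) (nat_lit 1) (nat_lit 262) (nat_lit 1) (nat_lit 208) (nat_lit 417) (nat_lit 395)) (XT.nd (nat_lit 78) (nat_lit 0) (nat_lit 0) (XT.lf (nat_lit 380) (nat_lit 50346269351) (nat_lit 0) (nat_lit 26923345256) (nat_lit 304) (nat_lit 26923345256) (nat_lit 258) (nat_lit 1) (nat_lit 253) (nat_lit 1) (nat_lit 257) (nat_lit 1) (nat_lit 209) (nat_lit 417) (nat_lit 394)) (XT.lf (nat_lit 76) (nat_lit 15876966436) (nat_lit 0) (nat_lit 70363114609) (nat_lit 380) (nat_lit 15876966436) (nat_lit 254) (nat_lit 1) (nat_lit 253) (nat_lit 1) (nat_lit 258) (nat_lit 1) (nat_lit 210) (nat_lit 417) (nat_lit 393)))) (XT.nd (nat_lit 78) (nat_lit 380) (nat_lit 0) (XT.lf (nat_lit 304) (nat_lit 12912056804) (nat_lit 0) (nat_lit 43586944467) (nat_lit 228) (nat_lit 43586944467) (nat_lit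 254) (nat_lit 1) (nat_lit 250) (nat_lit 1) (nat_lit 253) (nat_lit 1) (nat_lit 211) (nat_lit 417) (nat_lit 392)) (XT.nd (nat_lit 78) (nat_lit 0) (nat_lit 0) (XT.lf (nat_lit 380) (nat_lit 92973551076) (nat_lit 0) (nat_lit 2579837645) (nat_lit 304) (nat_lit 2579837645) (nat_lit 250) (nat_lit 1) (nat_lit 245) (nat_lit 1) (nat_lit 249) (nat_lit 1) (nat_lit 212) (nat_lit 417) (nat_lit 391)) (XT.lf (nat_lit 76) (nat_lit 36381237877) (nat_lit 0) (nat_lit 23428839306) (nat_lit 380) (nat_lit 36381237877) (nat_lit 246) (nat_lit 1) (nat_lit 245) (nat_lit 1) (nat_lit 250) (nat_lit 1) (nat_lit 213) (nat_lit 417) (nat_lit 390))))) (XT.nd (nat_lit 234) (nat_lit 532) (nat_lit 0) (XT.nd (nat_lit 78) (nat_lit 228) (nat_lit 0) (XT.lf (nat_lit 304) (nat_lit 53135948088) (nat_lit 0) (nat_lit 20593966567) (nat_lit 228) (nat_lit 20593966567) (nat_lit 246) (nat_lit 1) (nat_lit 242) (nat_lit 1) (nat_lit 245) (nat_lit 1)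 (nat_lit 214) (nat_lit 417) (nat_lit 389)) (XT.nd (nat_lit 78) (nat_lit 228) (nat_lit 0) (XT.lf (nat_lit 76) (nat_lit 16786467930) (nat_lit 0) (nat_lit 58930956891) (nat_lit 304) (nat_lit 16786467930) (nat_lit 243) (nat_lit 1) (nat_lit 242) (nat_lit 1) (nat_lit 246) (nat_lit 1) (nat_lit 215) (nat_lit 417) (nat_lit 388)) (XT.lf (nat_lit 304) (nat_lit 13990996338) (nat_lit 0) (nat_lit 38367156094) (nat_lit 228) (nat_lit 38367156094) (nat_lit 243) (nat_lit 1) (nat_lit 239) (nat_lit 1) (nat_lit 242) (nat_lit 1) (nat_lit 216) (nat_lit 417) (nat_lit 387)))) (XT.nd (nat_lit 78) (nat_lit 228) (nat_lit 0) (XT.lf (nat_lit 304) (nat_lit 84203806469) (nat_lit 0) (nat_lit 2404497246) (nat_lit 228) (nat_lit 2404497246) (nat_lit 239) (nat_lit 1) (nat_lit 235) (nat_lit 1) (nat_lit 238) (nat_lit 1) (nat_lit 217) (nat_lit 417) (nat_lit 386)) (XT.nd (nat_lit 78) (nat_lit 228) (nat_lit 0) (XT.lf (nat_lit 76) (nat_lit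 31851888542) (nat_lit 0) (nat_lit 23601929581) (nat_lit 304) (nat_lit 31851888542) (nat_lit 236) (nat_lit 1) (nat_lit 235) (nat_lit 1) (nat_lit 239) (nat_lit 1) (nat_lit 218) (nat_lit 417) (nat_lit 385)) (XT.lf (nat_lit 304) (nat_lit 43799263291) (nat_lit 0) (nat_lit 20931255920) (nat_lit 228) (nat_lit 20931255920) (nat_lit 236) (nat_lit 1) (nat_lit 232) (nat_lit 1) (nat_lit 235) (nat_lit 1) (nat_lit 219) (nat_lit 417) (nat_lit 384)))))) (XT.nd (nat_lit 468) (nat_lit 912) (nat_lit 0) (XT.nd (nat_lit 234) (nat_lit 152) (nat_lit 0) (XT.nd (nat_lit 78) (nat_lit 456) (nat_lit 0) (XT.lf (nat_lit 76) (nat_lit 12062281389) (nat_lit 0) (nat_lit 59937371811) (nat_lit 304) (nat_lit 12062281389) (nat_lit 233) (nat_lit 1) (nat_lit 232) (nat_lit 1) (nat_lit 236) (nat_lit 1) (nat_lit 220) (nat_lit 417) (nat_lit 383)) (XT.nd (nat_lit 78) (nat_lit 304) (nat_lit 0) (XT.lf (nat_lit 228) (nat_lit 4420020963) (nat_lit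 0) (nat_lit 39036110560) (nat_lit 152) (nat_lit 39036110560) (nat_lit 233) (nat_lit 1) (nat_lit 230) (nat_lit 1) (nat_lit 232) (nat_lit 1) (nat_lit 221) (nat_lit 417) (nat_lit 382)) (XT.lf (nat_lit 304) (nat_lit 66785034665) (nat_lit 0) (nat_lit 7093054761) (nat_lit 228) (nat_lit 7093054761) (nat_lit 230) (nat_lit 1) (nat_lit 226) (nat_lit 1) (nat_lit 229) (nat_lit 1) (nat_lit 222) (nat_lit 417) (nat_lit 381)))) (XT.nd (nat_lit 78) (nat_lit 152) (nat_lit 0) (XT.lf (nat_lit 76) (nat_lit 23326427323) (nat_lit 0) (nat_lit 32814203664) (nat_lit 304) (nat_lit 23326427323) (nat_lit 227) (nat_lit 1) (nat_lit 226) (nat_lit 1) (nat_lit 230) (nat_lit 1) (nat_lit 223) (nat_lit 417) (nat_lit 380)) (XT.nd (nat_lit 78) (nat_lit 0) (nat_lit 0) (XT.lf (nat_lit 228) (nat_lit 26950088517) (nat_lit 0) (nat_lit 25529652065) (nat_lit 152) (nat_lit 25529652065) (nat_lit 227) (nat_lit 1) (nat_lit 224) (nat_lit 1) (nat_lit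 226) (nat_lit 1) (nat_lit 224) (nat_lit 417) (nat_lit 379)) (XT.lf (nat_lit 76) (nat_lit 3871872308) (nat_lit 0) (nat_lit 68856356698) (nat_lit 228) (nat_lit 3871872308) (nat_lit 225) (nat_lit 1) (nat_lit 224) (nat_lit 1) (nat_lit 227) (nat_lit 1) (nat_lit 225) (nat_lit 417) (nat_lit 378))))) (XT.nd (nat_lit 234) (nat_lit 532) (nat_lit 0) (XT.nd (nat_lit 78) (nat_lit 152) (nat_lit 0) (XT.lf (nat_lit 76) (nat_lit 31955241460) (nat_lit 0) (nat_lit 11285449936) (nat_lit 228) (nat_lit 31955241460) (nat_lit 222) (nat_lit 1) (nat_lit 221) (nat_lit 1) (nat_lit 224) (nat_lit 1) (nat_lit 226) (nat_lit 417) (nat_lit 377)) (XT.nd (nat_lit 78) (nat_lit 0) (nat_lit 0) (XT.lf (nat_lit 228) (nat_lit 44375453405) (nat_lit 0) (nat_lit 14731448221) (nat_lit 152) (nat_lit 14731448221) (nat_lit 222) (nat_lit 1) (nat_lit 219) (nat_lit 1) (nat_lit 221) (nat_lit 1) (nat_lit 227) (nat_lit 417) (nat_lit 376)) (XT.lf (nat_lit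 76) (nat_lit 12521598471) (nat_lit 0) (nat_lit 47467575448) (nat_lit 228) (nat_lit 12521598471) (nat_lit 220) (nat_lit 1) (nat_lit 219) (nat_lit 1) (nat_lit 222) (nat_lit 1) (nat_lit 228) (nat_lit 417) (nat_lit 375)))) (XT.nd (nat_lit 156) (nat_lit 152) (nat_lit 0) (XT.nd (nat_lit 78) (nat_lit 228) (nat_lit 0) (XT.lf (nat_lit 228) (nat_lit 5865918063) (nat_lit 0) (nat_lit 32672018706) (nat_lit 152) (nat_lit 32672018706) (nat_lit 220) (nat_lit 1) (nat_lit 217) (nat_lit 1) (nat_lit 219) (nat_lit 1) (nat_lit 229) (nat_lit 417) (nat_lit 374)) (XT.lf (nat_lit 228) (nat_lit 57654032372) (nat_lit 0) (nat_lit 6146399182) (nat_lit 152) (nat_lit 6146399182) (nat_lit 217) (nat_lit 1) (nat_lit 214) (nat_lit 1) (nat_lit 216) (nat_lit 1) (nat_lit 230) (nat_lit 417) (nat_lit 373))) (XT.nd (nat_lit 78) (nat_lit 152) (nat_lit 0) (XT.lf (nat_lit 76) (nat_lit 19193168661) (nat_lit 0) (nat_lit 30308149306) (nat_lit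 228) (nat_lit 19193168661) (nat_lit 215) (nat_lit 1) (nat_lit 214) (nat_lit 1) (nat_lit 217) (nat_lit 1) (nat_lit 231) (nat_lit 417) (nat_lit 372)) (XT.lf (nat_lit 228) (nat_lit 19547310442) (nat_lit 0) (nat_lit 23965594681) (nat_lit 152) (nat_lit 23965594681) (nat_lit 215) (nat_lit 1) (nat_lit 212) (nat_lit 1) (nat_lit 214) (nat_lit 1) (nat_lit 232) (nat_lit 417) (nat_lit 371))))))))
noncomputable def ec337 : XT := (XT.nd (nat_lit 1950) (nat_lit 1900) (nat_lit 0) (XT.nd (nat_lit 936) (nat_lit 988) (nat_lit 0) (XT.nd (nat_lit 468) (nat_lit 608) (nat_lit 0) (XT.nd (nat_lit 234) (nat_lit 304) (nat_lit 0) (XT.nd (nat_lit 78) (nat_lit 304) (nat_lit 0) (XT.lf (nat_lit 76) (nat_lit 642466184) (nat_lit 0) (nat_lit 65020225333) (nat_lit 228) (nat_lit 642466184) (nat_lit 213) (nat_lit 1) (nat_lit 212) (nat_lit 1) (nat_lit 215) (nat_lit 1) (nat_lit 233) (nat_lit 417) (nat_lit 370)) (XT.nd (nat_lit 78) (nat_lit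 152) (nat_lit 0) (XT.lf (nat_lit 76) (nat_lit 24258475557) (nat_lit 0) (nat_lit 16607406119) (nat_lit 152) (nat_lit 24258475557) (nat_lit 211) (nat_lit 1) (nat_lit 210) (nat_lit 1) (nat_lit 212) (nat_lit 1) (nat_lit 234) (nat_lit 417) (nat_lit 369)) (XT.lf (nat_lit 228) (nat_lit 30102006518) (nat_lit 0) (nat_lit 16941548374) (nat_lit 152) (nat_lit 16941548374) (nat_lit 211) (nat_lit 1) (nat_lit 208) (nat_lit 1) (nat_lit 210) (nat_lit 1) (nat_lit 235) (nat_lit 417) (nat_lit 368)))) (XT.nd (nat_lit 78) (nat_lit 304) (nat_lit 0) (XT.lf (nat_lit 76) (nat_lit 6035244264) (nat_lit 0) (nat_lit 50806112125) (nat_lit 228) (nat_lit 6035244264) (nat_lit 209) (nat_lit 1) (nat_lit 208) (nat_lit 1) (nat_lit 211) (nat_lit 1) (nat_lit 236) (nat_lit 417) (nat_lit 367)) (XT.nd (nat_lit 78) (nat_lit 152) (nat_lit 0) (XT.lf (nat_lit 76) (nat_lit 28022468066) (nat_lit 0) (nat_lit 5732303331) (nat_lit 152) (nat_lit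 28022468066) (nat_lit 207) (nat_lit 1) (nat_lit 206) (nat_lit 1) (nat_lit 208) (nat_lit 1) (nat_lit 237) (nat_lit 417) (nat_lit 366)) (XT.lf (nat_lit 228) (nat_lit 38117743679) (nat_lit 0) (nat_lit 11294991221) (nat_lit 152) (nat_lit 11294991221) (nat_lit 207) (nat_lit 1) (nat_lit 204) (nat_lit 1) (nat_lit 206) (nat_lit 1) (nat_lit 238) (nat_lit 417) (nat_lit 365))))) (XT.nd (nat_lit 234) (nat_lit 304) (nat_lit 0) (XT.nd (nat_lit 78) (nat_lit 304) (nat_lit 0) (XT.lf (nat_lit 76) (nat_lit 10209673006) (nat_lit 0) (nat_lit 39240039734) (nat_lit 228) (nat_lit 10209673006) (nat_lit 205) (nat_lit 1) (nat_lit 204) (nat_lit 1) (nat_lit 207) (nat_lit 1) (nat_lit 239) (nat_lit 417) (nat_lit 364)) (XT.nd (nat_lit 78) (nat_lit 228) (nat_lit 0) (XT.lf (nat_lit 152) (nat_lit 2930825321) (nat_lit 0) (nat_lit 27850001370) (nat_lit 76) (nat_lit 27850001370) (nat_lit 205) (nat_lit 1) (nat_lit 203) (nat_lit 1) (nat_lit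 204) (nat_lit 1) (nat_lit 240) (nat_lit 417) (nat_lit 363)) (XT.lf (nat_lit 228) (nat_lit 44076465316) (nat_lit 0) (nat_lit 6775405275) (nat_lit 152) (nat_lit 6775405275) (nat_lit 203) (nat_lit 1) (nat_lit 200) (nat_lit 1) (nat_lit 202) (nat_lit 1) (nat_lit 241) (nat_lit 417) (nat_lit 362)))) (XT.nd (nat_lit 78) (nat_lit 304) (nat_lit 0) (XT.lf (nat_lit 76) (nat_lit 13394249548) (nat_lit 0) (nat_lit 29846425946) (nat_lit 228) (nat_lit 13394249548) (nat_lit 201) (nat_lit 1) (nat_lit 200) (nat_lit 1) (nat_lit 203) (nat_lit 1) (nat_lit 242) (nat_lit 417) (nat_lit 361)) (XT.nd (nat_lit 78) (nat_lit 228) (nat_lit 0) (XT.lf (nat_lit 152) (nat_lit 9842375398) (nat_lit 0) (nat_lit 22912265050) (nat_lit 76) (nat_lit 22912265050) (nat_lit 201) (nat_lit 1) (nat_lit 199) (nat_lit 1) (nat_lit 200) (nat_lit 1) (nat_lit 243) (nat_lit 417) (nat_lit 360)) (XT.lf (nat_lit 228) (nat_lit 48373153532) (nat_lit 0) (nat_lit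 3176988445) (nat_lit 152) (nat_lit 3176988445) (nat_lit 199) (nat_lit 1) (nat_lit 196) (nat_lit 1) (nat_lit 198) (nat_lit 1) (nat_lit 244) (nat_lit 417) (nat_lit 359)))))) (XT.nd (nat_lit 468) (nat_lit 608) (nat_lit 0) (XT.nd (nat_lit 234) (nat_lit 76) (nat_lit 0) (XT.nd (nat_lit 78) (nat_lit 304) (nat_lit 0) (XT.lf (nat_lit 76) (nat_lit 15776364441) (nat_lit 0) (nat_lit 22234298153) (nat_lit 228) (nat_lit 15776364441) (nat_lit 197) (nat_lit 1) (nat_lit 196) (nat_lit 1) (nat_lit 199) (nat_lit 1) (nat_lit 245) (nat_lit 417) (nat_lit 358)) (XT.nd (nat_lit 78) (nat_lit 228) (nat_lit 0) (XT.lf (nat_lit 152) (nat_lit 15174659124) (nat_lit 0) (nat_lit 18849977160) (nat_lit 76) (nat_lit 18849977160) (nat_lit 197) (nat_lit 1) (nat_lit 195) (nat_lit 1) (nat_lit 196) (nat_lit 1) (nat_lit 246) (nat_lit 417) (nat_lit 357)) (XT.lf (nat_lit 228) (nat_lit 51331319253) (nat_lit 0) (nat_lit 330712215) (nat_lit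 152) (nat_lit 330712215) (nat_lit 195) (nat_lit 1) (nat_lit 192) (nat_lit 1) (nat_lit 194) (nat_lit 1) (nat_lit 247) (nat_lit 417) (nat_lit 356)))) (XT.nd (nat_lit 78) (nat_lit 76) (nat_lit 0) (XT.lf (nat_lit 76) (nat_lit 17509618059) (nat_lit 0) (nat_lit 16082278462) (nat_lit 228) (nat_lit 17509618059) (nat_lit 193) (nat_lit 1) (nat_lit 192) (nat_lit 1) (nat_lit 195) (nat_lit 1) (nat_lit 248) (nat_lit 417) (nat_lit 355)) (XT.nd (nat_lit 78) (nat_lit 0) (nat_lit 0) (XT.lf (nat_lit 152) (nat_lit 19224527259) (nat_lit 0) (nat_lit 15507922859) (nat_lit 76) (nat_lit 15507922859) (nat_lit 193) (nat_lit 1) (nat_lit 191) (nat_lit 1) (nat_lit 192) (nat_lit 1) (nat_lit 249) (nat_lit 417) (nat_lit 354)) (XT.lf (nat_lit 0) (nat_lit 1933395604) (nat_lit 0) (nat_lit 45538439472) (nat_lit 152) (nat_lit 1933395604) (nat_lit 191) (nat_lit 3) (nat_lit 191) (nat_lit 1) (nat_lit 193) (nat_lit 1) (nat_lit 250) (nat_lit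 417) (nat_lit 353))))) (XT.nd (nat_lit 234) (nat_lit 380) (nat_lit 0) (XT.nd (nat_lit 78) (nat_lit 76) (nat_lit 0) (XT.lf (nat_lit 76) (nat_lit 18719838481) (nat_lit 0) (nat_lit 11126231573) (nat_lit 152) (nat_lit 18719838481) (nat_lit 190) (nat_lit 1) (nat_lit 189) (nat_lit 1) (nat_lit 191) (nat_lit 1) (nat_lit 251) (nat_lit 417) (nat_lit 352)) (XT.nd (nat_lit 78) (nat_lit 0) (nat_lit 0) (XT.lf (nat_lit 152) (nat_lit 22235397242) (nat_lit 0) (nat_lit 12758406515) (nat_lit 76) (nat_lit 12758406515) (nat_lit 190) (nat_lit 1) (nat_lit 188) (nat_lit 1) (nat_lit 189) (nat_lit 1) (nat_lit 252) (nat_lit 417) (nat_lit 351)) (XT.lf (nat_lit 0) (nat_lit 3695308066) (nat_lit 0) (nat_lit 39569285569) (nat_lit 152) (nat_lit 3695308066) (nat_lit 188) (nat_lit 3) (nat_lit 188) (nat_lit 1) (nat_lit 190) (nat_lit 1) (nat_lit 253) (nat_lit 417) (nat_lit 350)))) (XT.nd (nat_lit 156) (nat_lit 152) (nat_lit 0) (XT.nd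 (nat_lit 78) (nat_lit 76) (nat_lit 0) (XT.lf (nat_lit 76) (nat_lit 19510031134) (nat_lit 0) (nat_lit 7149103281) (nat_lit 152) (nat_lit 19510031134) (nat_lit 187) (nat_lit 1) (nat_lit 186) (nat_lit 1) (nat_lit 188) (nat_lit 1) (nat_lit 254) (nat_lit 417) (nat_lit 349)) (XT.lf (nat_lit 152) (nat_lit 24406764996) (nat_lit 0) (nat_lit 10496372614) (nat_lit 76) (nat_lit 10496372614) (nat_lit 187) (nat_lit 1) (nat_lit 185) (nat_lit 1) (nat_lit 186) (nat_lit 1) (nat_lit 255) (nat_lit 417) (nat_lit 348))) (XT.nd (nat_lit 78) (nat_lit 152) (nat_lit 0) (XT.lf (nat_lit 0) (nat_lit 5044614060) (nat_lit 0) (nat_lit 34558224133) (nat_lit 152) (nat_lit 5044614060) (nat_lit 185) (nat_lit 3) (nat_lit 185) (nat_lit 1) (nat_lit 187) (nat_lit 1) (nat_lit 256) (nat_lit 417) (nat_lit 347)) (XT.lf (nat_lit 76) (nat_lit 19964449647) (nat_lit 0) (nat_lit 3972561181) (nat_lit 152) (nat_lit 19964449647) (nat_lit 184) (nat_lit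 1) (nat_lit 183) (nat_lit 1) (nat_lit 185) (nat_lit 1) (nat_lit 257) (nat_lit 417) (nat_lit 346))))))) (XT.nd (nat_lit 936) (nat_lit 1064) (nat_lit 0) (XT.nd (nat_lit 468) (nat_lit 456) (nat_lit 0) (XT.nd (nat_lit 234) (nat_lit 152) (nat_lit 0) (XT.nd (nat_lit 78) (nat_lit 152) (nat_lit 0) (XT.lf (nat_lit 152) (nat_lit 25902028494) (nat_lit 0) (nat_lit 8635391726) (nat_lit 76) (nat_lit 8635391726) (nat_lit 184) (nat_lit 1) (nat_lit 182) (nat_lit 1) (nat_lit 183) (nat_lit 1) (nat_lit 258) (nat_lit 417) (nat_lit 345)) (XT.nd (nat_lit 78) (nat_lit 152) (nat_lit 0) (XT.lf (nat_lit 0) (nat_lit 6059240252) (nat_lit 0) (nat_lit 30340160299) (nat_lit 152) (nat_lit 6059240252) (nat_lit 182) (nat_lit 3) (nat_lit 182) (nat_lit 1) (nat_lit 184) (nat_lit 1) (nat_lit 259) (nat_lit 417) (nat_lit 344)) (XT.lf (nat_lit 76) (nat_lit 20151943799) (nat_lit 0) (nat_lit 1450118029) (nat_lit 152) (nat_lit 20151943799)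 (nat_lit 181) (nat_lit 1) (nat_lit 180) (nat_lit 1) (nat_lit 182) (nat_lit 1) (nat_lit 260) (nat_lit 417) (nat_lit 343)))) (XT.nd (nat_lit 78) (nat_lit 76) (nat_lit 0) (XT.lf (nat_lit 152) (nat_lit 26854922497) (nat_lit 0) (nat_lit 7104358144) (nat_lit 76) (nat_lit 7104358144) (nat_lit 181) (nat_lit 1) (nat_lit 179) (nat_lit 1) (nat_lit 180) (nat_lit 1) (nat_lit 261) (nat_lit 417) (nat_lit 342)) (XT.nd (nat_lit 78) (nat_lit 76) (nat_lit 0) (XT.lf (nat_lit 0) (nat_lit 6803069837) (nat_lit 0) (nat_lit 26779042850) (nat_lit 152) (nat_lit 6803069837) (nat_lit 179) (nat_lit 3) (nat_lit 179) (nat_lit 1) (nat_lit 181) (nat_lit 1) (nat_lit 262) (nat_lit 417) (nat_lit 341)) (XT.lf (nat_lit 76) (nat_lit 556331226) (nat_lit 0) (nat_lit 19581067428) (nat_lit 76) (nat_lit 19581067428) (nat_lit 179) (nat_lit 3) (nat_lit 178) (nat_lit 1) (nat_lit 179) (nat_lit 1) (nat_lit 263) (nat_lit 417) (nat_lit 340)))))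 (XT.nd (nat_lit 234) (nat_lit 228) (nat_lit 0) (XT.nd (nat_lit 78) (nat_lit 76) (nat_lit 0) (XT.lf (nat_lit 152) (nat_lit 27374810772) (nat_lit 0) (nat_lit 5844773026) (nat_lit 76) (nat_lit 5844773026) (nat_lit 178) (nat_lit 1) (nat_lit 176) (nat_lit 1) (nat_lit 177) (nat_lit 1) (nat_lit 264) (nat_lit 417) (nat_lit 339)) (XT.nd (nat_lit 78) (nat_lit 76) (nat_lit 0) (XT.lf (nat_lit 0) (nat_lit 7328443235) (nat_lit 0) (nat_lit 23762725669) (nat_lit 152) (nat_lit 7328443235) (nat_lit 176) (nat_lit 3) (nat_lit 176) (nat_lit 1) (nat_lit 178) (nat_lit 1) (nat_lit 265) (nat_lit 417) (nat_lit 338)) (XT.lf (nat_lit 76) (nat_lit 2161307842) (nat_lit 0) (nat_lit 17813005398) (nat_lit 76) (nat_lit 17813005398) (nat_lit 176) (nat_lit 3) (nat_lit 175) (nat_lit 1) (nat_lit 176) (nat_lit 1) (nat_lit 266) (nat_lit 417) (nat_lit 337)))) (XT.nd (nat_lit 78) (nat_lit 76) (nat_lit 0) (XT.lf (nat_lit 152) (nat_lit 27551038449)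 (nat_lit 0) (nat_lit 4808509233) (nat_lit 76) (nat_lit 4808509233) (nat_lit 175) (nat_lit 1) (nat_lit 173) (nat_lit 1) (nat_lit 174) (nat_lit 1) (nat_lit 267) (nat_lit 417) (nat_lit 336)) (XT.nd (nat_lit 78) (nat_lit 76) (nat_lit 0) (XT.lf (nat_lit 0) (nat_lit 7678214903) (nat_lit 0) (nat_lit 21198739733) (nat_lit 152) (nat_lit 7678214903) (nat_lit 173) (nat_lit 3) (nat_lit 173) (nat_lit 1) (nat_lit 175) (nat_lit 1) (nat_lit 268) (nat_lit 417) (nat_lit 335)) (XT.lf (nat_lit 76) (nat_lit 3400601659) (nat_lit 0) (nat_lit 16277291973) (nat_lit 76) (nat_lit 16277291973) (nat_lit 173) (nat_lit 3) (nat_lit 172) (nat_lit 1) (nat_lit 173) (nat_lit 1) (nat_lit 269) (nat_lit 417) (nat_lit 334)))))) (XT.nd (nat_lit 468) (nat_lit 608) (nat_lit 0) (XT.nd (nat_lit 234) (nat_lit 228) (nat_lit 0) (XT.nd (nat_lit 78) (nat_lit 76) (nat_lit 0) (XT.lf (nat_lit 152) (nat_lit 27456511210) (nat_lit 0) (nat_lit 3955972446)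 (nat_lit 76) (nat_lit 3955972446) (nat_lit 172) (nat_lit 1) (nat_lit 170) (nat_lit 1) (nat_lit 171) (nat_lit 1) (nat_lit 270) (nat_lit 417) (nat_lit 333)) (XT.nd (nat_lit 78) (nat_lit 76) (nat_lit 0) (XT.lf (nat_lit 0) (nat_lit 7887444992) (nat_lit 0) (nat_lit 19010814230) (nat_lit 152) (nat_lit 7887444992) (nat_lit 170) (nat_lit 3) (nat_lit 170) (nat_lit 1) (nat_lit 172) (nat_lit 1) (nat_lit 271) (nat_lit 417) (nat_lit 332)) (XT.lf (nat_lit 76) (nat_lit 4342910399) (nat_lit 0) (nat_lit 14936595387) (nat_lit 76) (nat_lit 14936595387) (nat_lit 170) (nat_lit 3) (nat_lit 169) (nat_lit 1) (nat_lit 170) (nat_lit 1) (nat_lit 272) (nat_lit 417) (nat_lit 331)))) (XT.nd (nat_lit 78) (nat_lit 76) (nat_lit 0) (XT.lf (nat_lit 152) (nat_lit 27150638479) (nat_lit 0) (nat_lit 3254588322) (nat_lit 76) (nat_lit 3254588322) (nat_lit 169) (nat_lit 1) (nat_lit 167) (nat_lit 1) (nat_lit 168) (nat_lit 1) (nat_lit 273)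 (nat_lit 417) (nat_lit 330)) (XT.nd (nat_lit 78) (nat_lit 76) (nat_lit 0) (XT.lf (nat_lit 0) (nat_lit 7984790599) (nat_lit 0) (nat_lit 17136013999) (nat_lit 152) (nat_lit 7984790599) (nat_lit 167) (nat_lit 3) (nat_lit 167) (nat_lit 1) (nat_lit 169) (nat_lit 1) (nat_lit 274) (nat_lit 417) (nat_lit 329)) (XT.lf (nat_lit 76) (nat_lit 5044567893) (nat_lit 0) (nat_lit 13760018750) (nat_lit 76) (nat_lit 13760018750) (nat_lit 167) (nat_lit 3) (nat_lit 166) (nat_lit 1) (nat_lit 167) (nat_lit 1) (nat_lit 275) (nat_lit 417) (nat_lit 328))))) (XT.nd (nat_lit 234) (nat_lit 380) (nat_lit 0) (XT.nd (nat_lit 78) (nat_lit 76) (nat_lit 0) (XT.lf (nat_lit 152) (nat_lit 26681753428) (nat_lit 0) (nat_lit 2677557867) (nat_lit 76) (nat_lit 2677557867) (nat_lit 166) (nat_lit 1) (nat_lit 164) (nat_lit 1) (nat_lit 165) (nat_lit 1) (nat_lit 276) (nat_lit 417) (nat_lit 327)) (XT.nd (nat_lit 78) (nat_lit 76) (nat_lit 0) (XT.lf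 (nat_lit 0) (nat_lit 7993649924) (nat_lit 0) (nat_lit 15522384062) (nat_lit 152) (nat_lit 7993649924) (nat_lit 164) (nat_lit 3) (nat_lit 164) (nat_lit 1) (nat_lit 166) (nat_lit 1) (nat_lit 277) (nat_lit 417) (nat_lit 326)) (XT.lf (nat_lit 76) (nat_lit 5551744928) (nat_lit 0) (nat_lit 12721967918) (nat_lit 76) (nat_lit 12721967918) (nat_lit 164) (nat_lit 3) (nat_lit 163) (nat_lit 1) (nat_lit 164) (nat_lit 1) (nat_lit 278) (nat_lit 417) (nat_lit 325)))) (XT.nd (nat_lit 156) (nat_lit 228) (nat_lit 0) (XT.nd (nat_lit 78) (nat_lit 0) (nat_lit 0) (XT.lf (nat_lit 152) (nat_lit 26089102634) (nat_lit 0) (nat_lit 2202833483) (nat_lit 76) (nat_lit 2202833483) (nat_lit 163) (nat_lit 1) (nat_lit 161) (nat_lit 1) (nat_lit 162) (nat_lit 1) (nat_lit 279) (nat_lit 417) (nat_lit 324)) (XT.lf (nat_lit 0) (nat_lit 7933103134) (nat_lit 0) (nat_lit 14127011342) (nat_lit 152) (nat_lit 7933103134) (nat_lit 161) (nat_lit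 3) (nat_lit 161) (nat_lit 1) (nat_lit 163) (nat_lit 1) (nat_lit 280) (nat_lit 417) (nat_lit 323))) (XT.nd (nat_lit 78) (nat_lit 152) (nat_lit 0) (XT.lf (nat_lit 76) (nat_lit 5902259471) (nat_lit 0) (nat_lit 11801219669) (nat_lit 76) (nat_lit 11801219669) (nat_lit 161) (nat_lit 3) (nat_lit 160) (nat_lit 1) (nat_lit 161) (nat_lit 1) (nat_lit 281) (nat_lit 417) (nat_lit 322)) (XT.lf (nat_lit 152) (nat_lit 25404481736) (nat_lit 0) (nat_lit 1812276558) (nat_lit 76) (nat_lit 1812276558) (nat_lit 160) (nat_lit 1) (nat_lit 158) (nat_lit 1) (nat_lit 159) (nat_lit 1) (nat_lit 282) (nat_lit 417) (nat_lit 321))))))))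
noncomputable def ec338 : XT := (XT.nd (nat_lit 1950) (nat_lit 1900) (nat_lit 0) (XT.nd (nat_lit 936) (nat_lit 912) (nat_lit 0) (XT.nd (nat_lit 468) (nat_lit 456) (nat_lit 0) (XT.nd (nat_lit 234) (nat_lit 228) (nat_lit 0) (XT.nd (nat_lit 78) (nat_lit 228) (nat_lit 0) (XT.lf (nat_lit 0) (nat_lit 7818686019) (nat_lit 0) (nat_lit 12914429630) (nat_lit 152) (nat_lit 7818686019) (nat_lit 158) (nat_lit 3) (nat_lit 158) (nat_lit 1) (nat_lit 160) (nat_lit 1) (nat_lit 283) (nat_lit 417) (nat_lit 320)) (XT.nd (nat_lit 78) (nat_lit 152) (nat_lit 0) (XT.lf (nat_lit 76) (nat_lit 6127065550) (nat_lit 0) (nat_lit 10980154703) (nat_lit 76) (nat_lit 10980154703) (nat_lit 158) (nat_lit 3) (nat_lit 157) (nat_lit 1) (nat_lit 158) (nat_lit 1) (nat_lit 284) (nat_lit 417) (nat_lit 319)) (XT.lf (nat_lit 152) (nat_lit 24653579933) (nat_lit 0) (nat_lit 1490964409) (nat_lit 76) (nat_lit 1490964409) (nat_lit 157) (nat_lit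 1) (nat_lit 155) (nat_lit 1) (nat_lit 156) (nat_lit 1) (nat_lit 285) (nat_lit 417) (nat_lit 318)))) (XT.nd (nat_lit 78) (nat_lit 228) (nat_lit 0) (XT.lf (nat_lit 0) (nat_lit 7663026087) (nat_lit 0) (nat_lit 11855306967) (nat_lit 152) (nat_lit 7663026087) (nat_lit 155) (nat_lit 3) (nat_lit 155) (nat_lit 1) (nat_lit 157) (nat_lit 1) (nat_lit 286) (nat_lit 417) (nat_lit 317)) (XT.nd (nat_lit 78) (nat_lit 152) (nat_lit 0) (XT.lf (nat_lit 76) (nat_lit 6251477777) (nat_lit 0) (nat_lit 10244126234) (nat_lit 76) (nat_lit 10244126234) (nat_lit 155) (nat_lit 3) (nat_lit 154) (nat_lit 1) (nat_lit 155) (nat_lit 1) (nat_lit 287) (nat_lit 417) (nat_lit 316)) (XT.lf (nat_lit 152) (nat_lit 23857084974) (nat_lit 0) (nat_lit 1226620109) (nat_lit 76) (nat_lit 1226620109) (nat_lit 154) (nat_lit 1) (nat_lit 152) (nat_lit 1) (nat_lit 153) (nat_lit 1) (nat_lit 288) (nat_lit 417) (nat_lit 315))))) (XT.nd (nat_lit 234)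 (nat_lit 228) (nat_lit 0) (XT.nd (nat_lit 78) (nat_lit 228) (nat_lit 0) (XT.lf (nat_lit 0) (nat_lit 7476365526) (nat_lit 0) (nat_lit 10925365381) (nat_lit 152) (nat_lit 7476365526) (nat_lit 152) (nat_lit 3) (nat_lit 152) (nat_lit 1) (nat_lit 154) (nat_lit 1) (nat_lit 289) (nat_lit 417) (nat_lit 314)) (XT.nd (nat_lit 78) (nat_lit 152) (nat_lit 0) (XT.lf (nat_lit 76) (nat_lit 6296178416) (nat_lit 0) (nat_lit 9580940182) (nat_lit 76) (nat_lit 9580940182) (nat_lit 152) (nat_lit 3) (nat_lit 151) (nat_lit 1) (nat_lit 152) (nat_lit 1) (nat_lit 290) (nat_lit 417) (nat_lit 313)) (XT.lf (nat_lit 152) (nat_lit 23031591183) (nat_lit 0) (nat_lit 1009143399) (nat_lit 76) (nat_lit 1009143399) (nat_lit 151) (nat_lit 1) (nat_lit 149) (nat_lit 1) (nat_lit 150) (nat_lit 1) (nat_lit 291) (nat_lit 417) (nat_lit 312)))) (XT.nd (nat_lit 78) (nat_lit 228) (nat_lit 0) (XT.lf (nat_lit 0) (nat_lit 7266991088) (nat_lit 0)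 (nat_lit 10104491804) (nat_lit 152) (nat_lit 7266991088) (nat_lit 149) (nat_lit 3) (nat_lit 149) (nat_lit 1) (nat_lit 151) (nat_lit 1) (nat_lit 292) (nat_lit 417) (nat_lit 311)) (XT.nd (nat_lit 78) (nat_lit 152) (nat_lit 0) (XT.lf (nat_lit 76) (nat_lit 6278045543) (nat_lit 0) (nat_lit 8980427177) (nat_lit 76) (nat_lit 8980427177) (nat_lit 149) (nat_lit 3) (nat_lit 148) (nat_lit 1) (nat_lit 149) (nat_lit 1) (nat_lit 293) (nat_lit 417) (nat_lit 310)) (XT.lf (nat_lit 152) (nat_lit 22190345477) (nat_lit 0) (nat_lit 830224772) (nat_lit 76) (nat_lit 830224772) (nat_lit 148) (nat_lit 1) (nat_lit 146) (nat_lit 1) (nat_lit 147) (nat_lit 1) (nat_lit 294) (nat_lit 417) (nat_lit 309)))))) (XT.nd (nat_lit 468) (nat_lit 456) (nat_lit 0) (XT.nd (nat_lit 234) (nat_lit 228) (nat_lit 0) (XT.nd (nat_lit 78) (nat_lit 228) (nat_lit 0) (XT.lf (nat_lit 0) (nat_lit 7041587425) (nat_lit 0) (nat_lit 9376006287) (nat_lit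 152) (nat_lit 7041587425) (nat_lit 146) (nat_lit 3) (nat_lit 146) (nat_lit 1) (nat_lit 148) (nat_lit 1) (nat_lit 295) (nat_lit 417) (nat_lit 308)) (XT.nd (nat_lit 78) (nat_lit 152) (nat_lit 0) (XT.lf (nat_lit 76) (nat_lit 6210834061) (nat_lit 0) (nat_lit 8434090119) (nat_lit 76) (nat_lit 8434090119) (nat_lit 146) (nat_lit 3) (nat_lit 145) (nat_lit 1) (nat_lit 146) (nat_lit 1) (nat_lit 296) (nat_lit 417) (nat_lit 307)) (XT.lf (nat_lit 152) (nat_lit 21343860153) (nat_lit 0) (nat_lit 683027974) (nat_lit 76) (nat_lit 683027974) (nat_lit 145) (nat_lit 1) (nat_lit 143) (nat_lit 1) (nat_lit 144) (nat_lit 1) (nat_lit 297) (nat_lit 417) (nat_lit 306)))) (XT.nd (nat_lit 78) (nat_lit 228) (nat_lit 0) (XT.lf (nat_lit 0) (nat_lit 6805527471) (nat_lit 0) (nat_lit 8726059645) (nat_lit 152) (nat_lit 6805527471) (nat_lit 143) (nat_lit 3) (nat_lit 143) (nat_lit 1) (nat_lit 145) (nat_lit 1) (nat_lit 298) (nat_lit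 417) (nat_lit 305)) (XT.nd (nat_lit 78) (nat_lit 152) (nat_lit 0) (XT.lf (nat_lit 76) (nat_lit 6105735653) (nat_lit 0) (nat_lit 7934813914) (nat_lit 76) (nat_lit 7934813914) (nat_lit 143) (nat_lit 3) (nat_lit 142) (nat_lit 1) (nat_lit 143) (nat_lit 1) (nat_lit 299) (nat_lit 417) (nat_lit 304)) (XT.lf (nat_lit 152) (nat_lit 20500416105) (nat_lit 0) (nat_lit 561928805) (nat_lit 76) (nat_lit 561928805) (nat_lit 142) (nat_lit 1) (nat_lit 140) (nat_lit 1) (nat_lit 141) (nat_lit 1) (nat_lit 300) (nat_lit 417) (nat_lit 303))))) (XT.nd (nat_lit 234) (nat_lit 228) (nat_lit 0) (XT.nd (nat_lit 78) (nat_lit 228) (nat_lit 0) (XT.lf (nat_lit 0) (nat_lit 6563111025) (nat_lit 0) (nat_lit 8143137598) (nat_lit 152) (nat_lit 6563111025) (nat_lit 140) (nat_lit 3) (nat_lit 140) (nat_lit 1) (nat_lit 142) (nat_lit 1) (nat_lit 301) (nat_lit 417) (nat_lit 302)) (XT.nd (nat_lit 78) (nat_lit 152) (nat_lit 0) (XT.lf (nat_lit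 76) (nat_lit 5971839166) (nat_lit 0) (nat_lit 7476626378) (nat_lit 76) (nat_lit 7476626378) (nat_lit 140) (nat_lit 3) (nat_lit 139) (nat_lit 1) (nat_lit 140) (nat_lit 1) (nat_lit 302) (nat_lit 417) (nat_lit 301)) (XT.lf (nat_lit 152) (nat_lit 19666475955) (nat_lit 0) (nat_lit 462300218) (nat_lit 76) (nat_lit 462300218) (nat_lit 139) (nat_lit 1) (nat_lit 137) (nat_lit 1) (nat_lit 138) (nat_lit 1) (nat_lit 303) (nat_lit 417) (nat_lit 300)))) (XT.nd (nat_lit 156) (nat_lit 152) (nat_lit 0) (XT.nd (nat_lit 78) (nat_lit 76) (nat_lit 0) (XT.lf (nat_lit 0) (nat_lit 6317760762) (nat_lit 0) (nat_lit 7617652534) (nat_lit 152) (nat_lit 6317760762) (nat_lit 137) (nat_lit 3) (nat_lit 137) (nat_lit 1) (nat_lit 139) (nat_lit 1) (nat_lit 304) (nat_lit 417) (nat_lit 299)) (XT.lf (nat_lit 76) (nat_lit 5816509084) (nat_lit 0) (nat_lit 7054501247) (nat_lit 76) (nat_lit 7054501247) (nat_lit 137) (nat_lit 3) (nat_lit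 136) (nat_lit 1) (nat_lit 137) (nat_lit 1) (nat_lit 305) (nat_lit 417) (nat_lit 298))) (XT.nd (nat_lit 78) (nat_lit 0) (nat_lit 0) (XT.lf (nat_lit 152) (nat_lit 18847023097) (nat_lit 0) (nat_lit 380335534) (nat_lit 76) (nat_lit 380335534) (nat_lit 136) (nat_lit 1) (nat_lit 134) (nat_lit 1) (nat_lit 135) (nat_lit 1) (nat_lit 306) (nat_lit 417) (nat_lit 297)) (XT.lf (nat_lit 0) (nat_lit 6072183203) (nat_lit 0) (nat_lit 7141607381) (nat_lit 152) (nat_lit 6072183203) (nat_lit 134) (nat_lit 3) (nat_lit 134) (nat_lit 1) (nat_lit 136) (nat_lit 1) (nat_lit 307) (nat_lit 417) (nat_lit 296))))))) (XT.nd (nat_lit 936) (nat_lit 988) (nat_lit 0) (XT.nd (nat_lit 468) (nat_lit 456) (nat_lit 0) (XT.nd (nat_lit 234) (nat_lit 228) (nat_lit 0) (XT.nd (nat_lit 78) (nat_lit 152) (nat_lit 0) (XT.lf (nat_lit 76) (nat_lit 5645696630) (nat_lit 0) (nat_lit 6664195847) (nat_lit 76) (nat_lit 6664195847) (nat_lit 134) (nat_lit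 3) (nat_lit 133) (nat_lit 1) (nat_lit 134) (nat_lit 1) (nat_lit 308) (nat_lit 417) (nat_lit 295)) (XT.nd (nat_lit 78) (nat_lit 0) (nat_lit 0) (XT.lf (nat_lit 152) (nat_lit 18045839837) (nat_lit 0) (nat_lit 312902985) (nat_lit 76) (nat_lit 312902985) (nat_lit 133) (nat_lit 1) (nat_lit 131) (nat_lit 1) (nat_lit 132) (nat_lit 1) (nat_lit 309) (nat_lit 417) (nat_lit 294)) (XT.lf (nat_lit 0) (nat_lit 5828500901) (nat_lit 0) (nat_lit 6708318818) (nat_lit 152) (nat_lit 5828500901) (nat_lit 131) (nat_lit 3) (nat_lit 131) (nat_lit 1) (nat_lit 133) (nat_lit 1) (nat_lit 310) (nat_lit 417) (nat_lit 293)))) (XT.nd (nat_lit 78) (nat_lit 152) (nat_lit 0) (XT.lf (nat_lit 76) (nat_lit 5464195458) (nat_lit 0) (nat_lit 6302117285) (nat_lit 76) (nat_lit 6302117285) (nat_lit 131) (nat_lit 3) (nat_lit 130) (nat_lit 1) (nat_lit 131) (nat_lit 1) (nat_lit 311) (nat_lit 417) (nat_lit 292)) (XT.nd (nat_lit 78) (nat_lit 0)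 (nat_lit 0) (XT.lf (nat_lit 152) (nat_lit 17265735469) (nat_lit 0) (nat_lit 257426060) (nat_lit 76) (nat_lit 257426060) (nat_lit 130) (nat_lit 1) (nat_lit 128) (nat_lit 1) (nat_lit 129) (nat_lit 1) (nat_lit 312) (nat_lit 417) (nat_lit 291)) (XT.lf (nat_lit 0) (nat_lit 5588360927) (nat_lit 0) (nat_lit 6312189305) (nat_lit 152) (nat_lit 5588360927) (nat_lit 128) (nat_lit 3) (nat_lit 128) (nat_lit 1) (nat_lit 130) (nat_lit 1) (nat_lit 313) (nat_lit 417) (nat_lit 290))))) (XT.nd (nat_lit 234) (nat_lit 228) (nat_lit 0) (XT.nd (nat_lit 78) (nat_lit 152) (nat_lit 0) (XT.lf (nat_lit 76) (nat_lit 5275851763) (nat_lit 0) (nat_lit 5965212123) (nat_lit 76) (nat_lit 5965212123) (nat_lit 128) (nat_lit 3) (nat_lit 127) (nat_lit 1) (nat_lit 128) (nat_lit 1) (nat_lit 314) (nat_lit 417) (nat_lit 289)) (XT.nd (nat_lit 78) (nat_lit 0) (nat_lit 0) (XT.lf (nat_lit 152) (nat_lit 16508733180) (nat_lit 0) (nat_lit 211785056)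 (nat_lit 76) (nat_lit 211785056) (nat_lit 127) (nat_lit 1) (nat_lit 125) (nat_lit 1) (nat_lit 126) (nat_lit 1) (nat_lit 315) (nat_lit 417) (nat_lit 288)) (XT.lf (nat_lit 0) (nat_lit 5353023899) (nat_lit 0) (nat_lit 5948519297) (nat_lit 152) (nat_lit 5353023899) (nat_lit 125) (nat_lit 3) (nat_lit 125) (nat_lit 1) (nat_lit 127) (nat_lit 1) (nat_lit 316) (nat_lit 417) (nat_lit 287)))) (XT.nd (nat_lit 78) (nat_lit 152) (nat_lit 0) (XT.lf (nat_lit 76) (nat_lit 5083736909) (nat_lit 0) (nat_lit 5650875383) (nat_lit 76) (nat_lit 5650875383) (nat_lit 125) (nat_lit 3) (nat_lit 124) (nat_lit 1) (nat_lit 125) (nat_lit 1) (nat_lit 317) (nat_lit 417) (nat_lit 286)) (XT.nd (nat_lit 78) (nat_lit 0) (nat_lit 0) (XT.lf (nat_lit 152) (nat_lit 15776223148) (nat_lit 0) (nat_lit 174236090) (nat_lit 76) (nat_lit 174236090) (nat_lit 124) (nat_lit 1) (nat_lit 122) (nat_lit 1) (nat_lit 123) (nat_lit 1) (nat_lit 318) (nat_lit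 417) (nat_lit 285)) (XT.lf (nat_lit 0) (nat_lit 5123436995) (nat_lit 0) (nat_lit 5613352532) (nat_lit 152) (nat_lit 5123436995) (nat_lit 122) (nat_lit 3) (nat_lit 122) (nat_lit 1) (nat_lit 124) (nat_lit 1) (nat_lit 319) (nat_lit 417) (nat_lit 284)))))) (XT.nd (nat_lit 468) (nat_lit 532) (nat_lit 0) (XT.nd (nat_lit 234) (nat_lit 228) (nat_lit 0) (XT.nd (nat_lit 78) (nat_lit 152) (nat_lit 0) (XT.lf (nat_lit 76) (nat_lit 4890289228) (nat_lit 0) (nat_lit 5356875454) (nat_lit 76) (nat_lit 5356875454) (nat_lit 122) (nat_lit 3) (nat_lit 121) (nat_lit 1) (nat_lit 122) (nat_lit 1) (nat_lit 320) (nat_lit 417) (nat_lit 283)) (XT.nd (nat_lit 78) (nat_lit 0) (nat_lit 0) (XT.lf (nat_lit 152) (nat_lit 15069087832) (nat_lit 0) (nat_lit 143344462) (nat_lit 76) (nat_lit 143344462) (nat_lit 121) (nat_lit 1) (nat_lit 119) (nat_lit 1) (nat_lit 120) (nat_lit 1) (nat_lit 321) (nat_lit 417) (nat_lit 282)) (XT.lf (nat_lit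 0) (nat_lit 4900293805) (nat_lit 0) (nat_lit 5303348530) (nat_lit 152) (nat_lit 4900293805) (nat_lit 119) (nat_lit 3) (nat_lit 119) (nat_lit 1) (nat_lit 121) (nat_lit 1) (nat_lit 322) (nat_lit 417) (nat_lit 281)))) (XT.nd (nat_lit 78) (nat_lit 152) (nat_lit 0) (XT.lf (nat_lit 76) (nat_lit 4697430471) (nat_lit 0) (nat_lit 5081292114) (nat_lit 76) (nat_lit 5081292114) (nat_lit 119) (nat_lit 3) (nat_lit 118) (nat_lit 1) (nat_lit 119) (nat_lit 1) (nat_lit 323) (nat_lit 417) (nat_lit 280)) (XT.nd (nat_lit 78) (nat_lit 0) (nat_lit 0) (XT.lf (nat_lit 152) (nat_lit 14387804428) (nat_lit 0) (nat_lit 117929844) (nat_lit 76) (nat_lit 117929844) (nat_lit 118) (nat_lit 1) (nat_lit 116) (nat_lit 1) (nat_lit 117) (nat_lit 1) (nat_lit 324) (nat_lit 417) (nat_lit 279)) (XT.lf (nat_lit 0) (nat_lit 4684083373) (nat_lit 0) (nat_lit 5015677493) (nat_lit 152) (nat_lit 4684083373) (nat_lit 116) (nat_lit 3) (nat_lit 116)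 (nat_lit 1) (nat_lit 118) (nat_lit 1) (nat_lit 325) (nat_lit 417) (nat_lit 278))))) (XT.nd (nat_lit 234) (nat_lit 304) (nat_lit 0) (XT.nd (nat_lit 78) (nat_lit 152) (nat_lit 0) (XT.lf (nat_lit 76) (nat_lit 4506661408) (nat_lit 0) (nat_lit 4822465332) (nat_lit 76) (nat_lit 4822465332) (nat_lit 116) (nat_lit 3) (nat_lit 115) (nat_lit 1) (nat_lit 116) (nat_lit 1) (nat_lit 326) (nat_lit 417) (nat_lit 277)) (XT.nd (nat_lit 78) (nat_lit 0) (nat_lit 0) (XT.lf (nat_lit 152) (nat_lit 13732528573) (nat_lit 0) (nat_lit 97021174) (nat_lit 76) (nat_lit 97021174) (nat_lit 115) (nat_lit 1) (nat_lit 113) (nat_lit 1) (nat_lit 114) (nat_lit 1) (nat_lit 327) (nat_lit 417) (nat_lit 276)) (XT.lf (nat_lit 0) (nat_lit 4475130348) (nat_lit 0) (nat_lit 4747933651) (nat_lit 152) (nat_lit 4475130348) (nat_lit 113) (nat_lit 3) (nat_lit 113) (nat_lit 1) (nat_lit 115) (nat_lit 1) (nat_lit 328) (nat_lit 417) (nat_lit 275))))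 (XT.nd (nat_lit 156) (nat_lit 76) (nat_lit 0) (XT.nd (nat_lit 78) (nat_lit 152) (nat_lit 0) (XT.lf (nat_lit 76) (nat_lit 4319140288) (nat_lit 0) (nat_lit 4578952958) (nat_lit 76) (nat_lit 4578952958) (nat_lit 113) (nat_lit 3) (nat_lit 112) (nat_lit 1) (nat_lit 113) (nat_lit 1) (nat_lit 329) (nat_lit 417) (nat_lit 274)) (XT.lf (nat_lit 152) (nat_lit 13103162636) (nat_lit 0) (nat_lit 79819560) (nat_lit 76) (nat_lit 79819560) (nat_lit 112) (nat_lit 1) (nat_lit 110) (nat_lit 1) (nat_lit 111) (nat_lit 1) (nat_lit 330) (nat_lit 417) (nat_lit 273))) (XT.nd (nat_lit 78) (nat_lit 76) (nat_lit 0) (XT.lf (nat_lit 0) (nat_lit 4273627827) (nat_lit 0) (nat_lit 4498063779) (nat_lit 152) (nat_lit 4273627827) (nat_lit 110) (nat_lit 3) (nat_lit 110) (nat_lit 1) (nat_lit 112) (nat_lit 1) (nat_lit 331) (nat_lit 417) (nat_lit 272)) (XT.lf (nat_lit 76) (nat_lit 4135747208) (nat_lit 0) (nat_lit 4349495735) (nat_lit 76)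 (nat_lit 4349495735) (nat_lit 110) (nat_lit 3) (nat_lit 109) (nat_lit 1) (nat_lit 110) (nat_lit 1) (nat_lit 332) (nat_lit 417) (nat_lit 271))))))))
noncomputable def ec339 : XT := (XT.nd (nat_lit 1950) (nat_lit 1900) (nat_lit 0) (XT.nd (nat_lit 936) (nat_lit 1064) (nat_lit 0) (XT.nd (nat_lit 468) (nat_lit 456) (nat_lit 0) (XT.nd (nat_lit 234) (nat_lit 228) (nat_lit 0) (XT.nd (nat_lit 78) (nat_lit 76) (nat_lit 0) (XT.lf (nat_lit 152) (nat_lit 12499411369) (nat_lit 0) (nat_lit 65667750) (nat_lit 76) (nat_lit 65667750) (nat_lit 109) (nat_lit 1) (nat_lit 107) (nat_lit 1) (nat_lit 108) (nat_lit 1) (nat_lit 333) (nat_lit 417) (nat_lit 270)) (XT.nd (nat_lit 78) (nat_lit 76) (nat_lit 0) (XT.lf (nat_lit 0) (nat_lit 4079664203) (nat_lit 0) (nat_lit 4264308217) (nat_lit 152) (nat_lit 4079664203) (nat_lit 107) (nat_lit 3) (nat_lit 107) (nat_lit 1) (nat_lit 109) (nat_lit 1) (nat_lit 334) (nat_lit 417) (nat_lit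 269)) (XT.lf (nat_lit 76) (nat_lit 3957136896) (nat_lit 0) (nat_lit 4132988338) (nat_lit 76) (nat_lit 4132988338) (nat_lit 107) (nat_lit 3) (nat_lit 106) (nat_lit 1) (nat_lit 107) (nat_lit 1) (nat_lit 335) (nat_lit 417) (nat_lit 268)))) (XT.nd (nat_lit 78) (nat_lit 76) (nat_lit 0) (XT.lf (nat_lit 152) (nat_lit 11920827183) (nat_lit 0) (nat_lit 54025020) (nat_lit 76) (nat_lit 54025020) (nat_lit 106) (nat_lit 1) (nat_lit 104) (nat_lit 1) (nat_lit 105) (nat_lit 1) (nat_lit 336) (nat_lit 417) (nat_lit 267)) (XT.nd (nat_lit 78) (nat_lit 76) (nat_lit 0) (XT.lf (nat_lit 0) (nat_lit 3893245087) (nat_lit 0) (nat_lit 4045152174) (nat_lit 152) (nat_lit 3893245087) (nat_lit 104) (nat_lit 3) (nat_lit 104) (nat_lit 1) (nat_lit 106) (nat_lit 1) (nat_lit 337) (nat_lit 417) (nat_lit 266)) (XT.lf (nat_lit 76) (nat_lit 3783781968) (nat_lit 0) (nat_lit 3928455384) (nat_lit 76) (nat_lit 3928455384) (nat_lit 104) (nat_lit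 3) (nat_lit 103) (nat_lit 1) (nat_lit 104) (nat_lit 1) (nat_lit 338) (nat_lit 417) (nat_lit 265))))) (XT.nd (nat_lit 234) (nat_lit 228) (nat_lit 0) (XT.nd (nat_lit 78) (nat_lit 76) (nat_lit 0) (XT.lf (nat_lit 152) (nat_lit 11366846897) (nat_lit 0) (nat_lit 44446518) (nat_lit 76) (nat_lit 44446518) (nat_lit 103) (nat_lit 1) (nat_lit 101) (nat_lit 1) (nat_lit 102) (nat_lit 1) (nat_lit 339) (nat_lit 417) (nat_lit 264)) (XT.nd (nat_lit 78) (nat_lit 76) (nat_lit 0) (XT.lf (nat_lit 0) (nat_lit 3714311179) (nat_lit 0) (nat_lit 3839285515) (nat_lit 152) (nat_lit 3714311179) (nat_lit 101) (nat_lit 3) (nat_lit 101) (nat_lit 1) (nat_lit 103) (nat_lit 1) (nat_lit 340) (nat_lit 417) (nat_lit 263)) (XT.lf (nat_lit 76) (nat_lit 3616008360) (nat_lit 0) (nat_lit 3735031538) (nat_lit 76) (nat_lit 3735031538) (nat_lit 101) (nat_lit 3) (nat_lit 100) (nat_lit 1) (nat_lit 101) (nat_lit 1) (nat_lit 341) (nat_lit 417)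 (nat_lit 262)))) (XT.nd (nat_lit 78) (nat_lit 76) (nat_lit 0) (XT.lf (nat_lit 152) (nat_lit 10836821522) (nat_lit 0) (nat_lit 36566260) (nat_lit 76) (nat_lit 36566260) (nat_lit 100) (nat_lit 1) (nat_lit 98) (nat_lit 1) (nat_lit 99) (nat_lit 1) (nat_lit 342) (nat_lit 417) (nat_lit 261)) (XT.nd (nat_lit 78) (nat_lit 76) (nat_lit 0) (XT.lf (nat_lit 0) (nat_lit 3542752818) (nat_lit 0) (nat_lit 3645569514) (nat_lit 152) (nat_lit 3542752818) (nat_lit 98) (nat_lit 3) (nat_lit 98) (nat_lit 1) (nat_lit 100) (nat_lit 1) (nat_lit 343) (nat_lit 417) (nat_lit 260)) (XT.lf (nat_lit 76) (nat_lit 3454024333) (nat_lit 0) (nat_lit 3551944996) (nat_lit 76) (nat_lit 3551944996) (nat_lit 98) (nat_lit 3) (nat_lit 97) (nat_lit 1) (nat_lit 98) (nat_lit 1) (nat_lit 344) (nat_lit 417) (nat_lit 259)))))) (XT.nd (nat_lit 468) (nat_lit 608) (nat_lit 0) (XT.nd (nat_lit 234) (nat_lit 228) (nat_lit 0) (XT.nd (nat_lit 78) (nat_lit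 76) (nat_lit 0) (XT.lf (nat_lit 152) (nat_lit 10330040313) (nat_lit 0) (nat_lit 30083152) (nat_lit 76) (nat_lit 30083152) (nat_lit 97) (nat_lit 1) (nat_lit 95) (nat_lit 1) (nat_lit 96) (nat_lit 1) (nat_lit 345) (nat_lit 417) (nat_lit 258)) (XT.nd (nat_lit 78) (nat_lit 76) (nat_lit 0) (XT.lf (nat_lit 0) (nat_lit 3378421815) (nat_lit 0) (nat_lit 3463009365) (nat_lit 152) (nat_lit 3378421815) (nat_lit 95) (nat_lit 3) (nat_lit 95) (nat_lit 1) (nat_lit 97) (nat_lit 1) (nat_lit 346) (nat_lit 417) (nat_lit 257)) (XT.lf (nat_lit 76) (nat_lit 3297944182) (nat_lit 0) (nat_lit 3378503754) (nat_lit 76) (nat_lit 3378503754) (nat_lit 95) (nat_lit 3) (nat_lit 94) (nat_lit 1) (nat_lit 95) (nat_lit 1) (nat_lit 347) (nat_lit 417) (nat_lit 256)))) (XT.nd (nat_lit 78) (nat_lit 76) (nat_lit 0) (XT.lf (nat_lit 152) (nat_lit 9845750138) (nat_lit 0) (nat_lit 24749484) (nat_lit 76) (nat_lit 24749484) (nat_lit 94) (nat_lit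 1) (nat_lit 92) (nat_lit 1) (nat_lit 93) (nat_lit 1) (nat_lit 348) (nat_lit 417) (nat_lit 255)) (XT.nd (nat_lit 78) (nat_lit 76) (nat_lit 0) (XT.lf (nat_lit 0) (nat_lit 3221141040) (nat_lit 0) (nat_lit 3290731427) (nat_lit 152) (nat_lit 3221141040) (nat_lit 92) (nat_lit 3) (nat_lit 92) (nat_lit 1) (nat_lit 94) (nat_lit 1) (nat_lit 349) (nat_lit 417) (nat_lit 254)) (XT.lf (nat_lit 76) (nat_lit 3147807617) (nat_lit 0) (nat_lit 3214084176) (nat_lit 76) (nat_lit 3214084176) (nat_lit 92) (nat_lit 3) (nat_lit 91) (nat_lit 1) (nat_lit 92) (nat_lit 1) (nat_lit 350) (nat_lit 417) (nat_lit 253))))) (XT.nd (nat_lit 234) (nat_lit 380) (nat_lit 0) (XT.nd (nat_lit 78) (nat_lit 76) (nat_lit 0) (XT.lf (nat_lit 152) (nat_lit 9383171012) (nat_lit 0) (nat_lit 20361462) (nat_lit 76) (nat_lit 20361462) (nat_lit 91) (nat_lit 1) (nat_lit 89) (nat_lit 1) (nat_lit 90) (nat_lit 1) (nat_lit 351) (nat_lit 417) (nat_lit 252))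 (XT.nd (nat_lit 78) (nat_lit 76) (nat_lit 0) (XT.lf (nat_lit 0) (nat_lit 3070712183) (nat_lit 0) (nat_lit 3127964366) (nat_lit 152) (nat_lit 3070712183) (nat_lit 89) (nat_lit 3) (nat_lit 89) (nat_lit 1) (nat_lit 91) (nat_lit 1) (nat_lit 352) (nat_lit 417) (nat_lit 251)) (XT.lf (nat_lit 76) (nat_lit 3003595571) (nat_lit 0) (nat_lit 3058121460) (nat_lit 76) (nat_lit 3058121460) (nat_lit 89) (nat_lit 3) (nat_lit 88) (nat_lit 1) (nat_lit 89) (nat_lit 1) (nat_lit 353) (nat_lit 417) (nat_lit 250)))) (XT.nd (nat_lit 156) (nat_lit 228) (nat_lit 0) (XT.nd (nat_lit 78) (nat_lit 0) (nat_lit 0) (XT.lf (nat_lit 152) (nat_lit 8941508496) (nat_lit 0) (nat_lit 16751425) (nat_lit 76) (nat_lit 16751425) (nat_lit 88) (nat_lit 1) (nat_lit 86) (nat_lit 1) (nat_lit 87) (nat_lit 1) (nat_lit 354) (nat_lit 417) (nat_lit 249)) (XT.lf (nat_lit 0) (nat_lit 2926922015) (nat_lit 0) (nat_lit 2974023528) (nat_lit 152) (nat_lit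 2926922015) (nat_lit 86) (nat_lit 3) (nat_lit 86) (nat_lit 1) (nat_lit 88) (nat_lit 1) (nat_lit 355) (nat_lit 417) (nat_lit 248))) (XT.nd (nat_lit 78) (nat_lit 152) (nat_lit 0) (XT.lf (nat_lit 76) (nat_lit 2865243084) (nat_lit 0) (nat_lit 2910101668) (nat_lit 76) (nat_lit 2910101668) (nat_lit 86) (nat_lit 3) (nat_lit 85) (nat_lit 1) (nat_lit 86) (nat_lit 1) (nat_lit 356) (nat_lit 417) (nat_lit 247)) (XT.lf (nat_lit 152) (nat_lit 8519963533) (nat_lit 0) (nat_lit 13781438) (nat_lit 76) (nat_lit 13781438) (nat_lit 85) (nat_lit 1) (nat_lit 83) (nat_lit 1) (nat_lit 84) (nat_lit 1) (nat_lit 357) (nat_lit 417) (nat_lit 246))))))) (XT.nd (nat_lit 1014) (nat_lit 988) (nat_lit 0) (XT.nd (nat_lit 468) (nat_lit 456) (nat_lit 0) (XT.nd (nat_lit 234) (nat_lit 228) (nat_lit 0) (XT.nd (nat_lit 78) (nat_lit 228) (nat_lit 0) (XT.lf (nat_lit 0) (nat_lit 2789547416) (nat_lit 0) (nat_lit 2828297948) (nat_lit 152) (nat_lit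 2789547416) (nat_lit 83) (nat_lit 3) (nat_lit 83) (nat_lit 1) (nat_lit 85) (nat_lit 1) (nat_lit 358) (nat_lit 417) (nat_lit 245)) (XT.nd (nat_lit 78) (nat_lit 152) (nat_lit 0) (XT.lf (nat_lit 76) (nat_lit 2732649791) (nat_lit 0) (nat_lit 2769555059) (nat_lit 76) (nat_lit 2769555059) (nat_lit 83) (nat_lit 3) (nat_lit 82) (nat_lit 1) (nat_lit 83) (nat_lit 1) (nat_lit 359) (nat_lit 417) (nat_lit 244)) (XT.lf (nat_lit 152) (nat_lit 8117740193) (nat_lit 0) (nat_lit 11338023) (nat_lit 76) (nat_lit 11338023) (nat_lit 82) (nat_lit 1) (nat_lit 80) (nat_lit 1) (nat_lit 81) (nat_lit 1) (nat_lit 360) (nat_lit 417) (nat_lit 243)))) (XT.nd (nat_lit 78) (nat_lit 228) (nat_lit 0) (XT.lf (nat_lit 0) (nat_lit 2658359402) (nat_lit 0) (nat_lit 2690239560) (nat_lit 152) (nat_lit 2658359402) (nat_lit 80) (nat_lit 3) (nat_lit 80) (nat_lit 1) (nat_lit 82) (nat_lit 1) (nat_lit 361) (nat_lit 417) (nat_lit 242)) (XT.nd (nat_lit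 78) (nat_lit 152) (nat_lit 0) (XT.lf (nat_lit 76) (nat_lit 2605688426) (nat_lit 0) (nat_lit 2636050481) (nat_lit 76) (nat_lit 2636050481) (nat_lit 80) (nat_lit 3) (nat_lit 79) (nat_lit 1) (nat_lit 80) (nat_lit 1) (nat_lit 362) (nat_lit 417) (nat_lit 241)) (XT.lf (nat_lit 152) (nat_lit 7734051718) (nat_lit 0) (nat_lit 9327820) (nat_lit 76) (nat_lit 9327820) (nat_lit 79) (nat_lit 1) (nat_lit 77) (nat_lit 1) (nat_lit 78) (nat_lit 1) (nat_lit 363) (nat_lit 417) (nat_lit 240))))) (XT.nd (nat_lit 234) (nat_lit 228) (nat_lit 0) (XT.nd (nat_lit 78) (nat_lit 228) (nat_lit 0) (XT.lf (nat_lit 0) (nat_lit 2533126325) (nat_lit 0) (nat_lit 2559354210) (nat_lit 152) (nat_lit 2533126325) (nat_lit 77) (nat_lit 3) (nat_lit 77) (nat_lit 1) (nat_lit 79) (nat_lit 1) (nat_lit 364) (nat_lit 417) (nat_lit 239)) (XT.nd (nat_lit 78) (nat_lit 152) (nat_lit 0) (XT.lf (nat_lit 76) (nat_lit 2484211727) (nat_lit 0) (nat_lit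 2509190665) (nat_lit 76) (nat_lit 2509190665) (nat_lit 77) (nat_lit 3) (nat_lit 76) (nat_lit 1) (nat_lit 77) (nat_lit 1) (nat_lit 365) (nat_lit 417) (nat_lit 238)) (XT.lf (nat_lit 152) (nat_lit 7368125175) (nat_lit 0) (nat_lit 7674020) (nat_lit 76) (nat_lit 7674020) (nat_lit 76) (nat_lit 1) (nat_lit 74) (nat_lit 1) (nat_lit 75) (nat_lit 1) (nat_lit 366) (nat_lit 417) (nat_lit 237)))) (XT.nd (nat_lit 156) (nat_lit 152) (nat_lit 0) (XT.nd (nat_lit 78) (nat_lit 76) (nat_lit 0) (XT.lf (nat_lit 0) (nat_lit 2413616407) (nat_lit 0) (nat_lit 2435194152) (nat_lit 152) (nat_lit 2413616407) (nat_lit 74) (nat_lit 3) (nat_lit 74) (nat_lit 1) (nat_lit 76) (nat_lit 1) (nat_lit 367) (nat_lit 417) (nat_lit 236)) (XT.lf (nat_lit 76) (nat_lit 2368058002) (nat_lit 0) (nat_lit 2388608236) (nat_lit 76) (nat_lit 2388608236) (nat_lit 74) (nat_lit 3) (nat_lit 73) (nat_lit 1) (nat_lit 74) (nat_lit 1) (nat_lit 368) (nat_lit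 417) (nat_lit 235))) (XT.nd (nat_lit 78) (nat_lit 0) (nat_lit 0) (XT.lf (nat_lit 152) (nat_lit 7019204994) (nat_lit 0) (nat_lit 6313435) (nat_lit 76) (nat_lit 6313435) (nat_lit 73) (nat_lit 1) (nat_lit 71) (nat_lit 1) (nat_lit 72) (nat_lit 1) (nat_lit 369) (nat_lit 417) (nat_lit 234)) (XT.lf (nat_lit 0) (nat_lit 2299599725) (nat_lit 0) (nat_lit 2317351789) (nat_lit 152) (nat_lit 2299599725) (nat_lit 71) (nat_lit 3) (nat_lit 71) (nat_lit 1) (nat_lit 73) (nat_lit 1) (nat_lit 370) (nat_lit 417) (nat_lit 233)))))) (XT.nd (nat_lit 468) (nat_lit 532) (nat_lit 0) (XT.nd (nat_lit 234) (nat_lit 228) (nat_lit 0) (XT.nd (nat_lit 78) (nat_lit 152) (nat_lit 0) (XT.lf (nat_lit 76) (nat_lit 2257055623) (nat_lit 0) (nat_lit 2273962351) (nat_lit 76) (nat_lit 2273962351) (nat_lit 71) (nat_lit 3) (nat_lit 70) (nat_lit 1) (nat_lit 71) (nat_lit 1) (nat_lit 371) (nat_lit 417) (nat_lit 232)) (XT.nd (nat_lit 78) (nat_lit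 0) (nat_lit 0) (XT.lf (nat_lit 152) (nat_lit 6686555584) (nat_lit 0) (nat_lit 5194079) (nat_lit 76) (nat_lit 5194079) (nat_lit 70) (nat_lit 1) (nat_lit 68) (nat_lit 1) (nat_lit 69) (nat_lit 1) (nat_lit 372) (nat_lit 417) (nat_lit 231)) (XT.lf (nat_lit 0) (nat_lit 2190849750) (nat_lit 0) (nat_lit 2205454417) (nat_lit 152) (nat_lit 2190849750) (nat_lit 68) (nat_lit 3) (nat_lit 68) (nat_lit 1) (nat_lit 70) (nat_lit 1) (nat_lit 373) (nat_lit 417) (nat_lit 230)))) (XT.nd (nat_lit 78) (nat_lit 152) (nat_lit 0) (XT.lf (nat_lit 76) (nat_lit 2151026622) (nat_lit 0) (nat_lit 2164935830) (nat_lit 76) (nat_lit 2164935830) (nat_lit 68) (nat_lit 3) (nat_lit 67) (nat_lit 1) (nat_lit 68) (nat_lit 1) (nat_lit 374) (nat_lit 417) (nat_lit 229)) (XT.nd (nat_lit 78) (nat_lit 0) (nat_lit 0) (XT.lf (nat_lit 152) (nat_lit 6369463221) (nat_lit 0) (nat_lit 4273181) (nat_lit 76) (nat_lit 4273181) (nat_lit 67) (nat_lit 1)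 (nat_lit 65) (nat_lit 1) (nat_lit 66) (nat_lit 1) (nat_lit 375) (nat_lit 417) (nat_lit 228)) (XT.lf (nat_lit 0) (nat_lit 2087144526) (nat_lit 0) (nat_lit 2099159822) (nat_lit 152) (nat_lit 2087144526) (nat_lit 65) (nat_lit 3) (nat_lit 65) (nat_lit 1) (nat_lit 67) (nat_lit 1) (nat_lit 376) (nat_lit 417) (nat_lit 227))))) (XT.nd (nat_lit 234) (nat_lit 304) (nat_lit 0) (XT.nd (nat_lit 78) (nat_lit 152) (nat_lit 0) (XT.lf (nat_lit 76) (nat_lit 2049789569) (nat_lit 0) (nat_lit 2061232708) (nat_lit 76) (nat_lit 2061232708) (nat_lit 65) (nat_lit 3) (nat_lit 64) (nat_lit 1) (nat_lit 65) (nat_lit 1) (nat_lit 377) (nat_lit 417) (nat_lit 226)) (XT.nd (nat_lit 78) (nat_lit 0) (nat_lit 0) (XT.lf (nat_lit 152) (nat_lit 6067237341) (nat_lit 0) (nat_lit 3515557) (nat_lit 76) (nat_lit 3515557) (nat_lit 64) (nat_lit 1) (nat_lit 62) (nat_lit 1) (nat_lit 63) (nat_lit 1) (nat_lit 378) (nat_lit 417) (nat_lit 225)) (XT.lf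 (nat_lit 0) (nat_lit 1988267552) (nat_lit 0) (nat_lit 1998152566) (nat_lit 152) (nat_lit 1988267552) (nat_lit 62) (nat_lit 3) (nat_lit 62) (nat_lit 1) (nat_lit 64) (nat_lit 1) (nat_lit 379) (nat_lit 417) (nat_lit 224)))) (XT.nd (nat_lit 156) (nat_lit 76) (nat_lit 0) (XT.nd (nat_lit 78) (nat_lit 152) (nat_lit 0) (XT.lf (nat_lit 76) (nat_lit 1953161850) (nat_lit 0) (nat_lit 1962576149) (nat_lit 76) (nat_lit 1962576149) (nat_lit 62) (nat_lit 3) (nat_lit 61) (nat_lit 1) (nat_lit 62) (nat_lit 1) (nat_lit 380) (nat_lit 417) (nat_lit 223)) (XT.lf (nat_lit 152) (nat_lit 5779211352) (nat_lit 0) (nat_lit 2892257) (nat_lit 76) (nat_lit 2892257) (nat_lit 61) (nat_lit 1) (nat_lit 59) (nat_lit 1) (nat_lit 60) (nat_lit 1) (nat_lit 381) (nat_lit 417) (nat_lit 222))) (XT.nd (nat_lit 78) (nat_lit 76) (nat_lit 0) (XT.lf (nat_lit 0) (nat_lit 1894008431) (nat_lit 0) (nat_lit 1902140856) (nat_lit 152) (nat_lit 1894008431)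 (nat_lit 59) (nat_lit 3) (nat_lit 59) (nat_lit 1) (nat_lit 61) (nat_lit 1) (nat_lit 382) (nat_lit 417) (nat_lit 221)) (XT.lf (nat_lit 76) (nat_lit 1860961467) (nat_lit 0) (nat_lit 1868706634) (nat_lit 76) (nat_lit 1868706634) (nat_lit 59) (nat_lit 3) (nat_lit 58) (nat_lit 1) (nat_lit 59) (nat_lit 1) (nat_lit 383) (nat_lit 417) (nat_lit 220))))))))
noncomputable def ec340 : XT := (XT.nd (nat_lit 1950) (nat_lit 1824) (nat_lit 0) (XT.nd (nat_lit 936) (nat_lit 1064) (nat_lit 0) (XT.nd (nat_lit 468) (nat_lit 456) (nat_lit 0) (XT.nd (nat_lit 234) (nat_lit 228) (nat_lit 0) (XT.nd (nat_lit 78) (nat_lit 76) (nat_lit 0) (XT.lf (nat_lit 152) (nat_lit 5504743078) (nat_lit 0) (nat_lit 2379467) (nat_lit 76) (nat_lit 2379467) (nat_lit 58) (nat_lit 1) (nat_lit 56) (nat_lit 1) (nat_lit 57) (nat_lit 1) (nat_lit 384) (nat_lit 417) (nat_lit 219)) (XT.nd (nat_lit 78) (nat_lit 76) (nat_lit 0) (XT.lf (nat_lit 0) (nat_lit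 1804163324) (nat_lit 0) (nat_lit 1810853890) (nat_lit 152) (nat_lit 1804163324) (nat_lit 56) (nat_lit 3) (nat_lit 56) (nat_lit 1) (nat_lit 58) (nat_lit 1) (nat_lit 385) (nat_lit 417) (nat_lit 218)) (XT.lf (nat_lit 76) (nat_lit 1773008442) (nat_lit 0) (nat_lit 1779380410) (nat_lit 76) (nat_lit 1779380410) (nat_lit 56) (nat_lit 3) (nat_lit 55) (nat_lit 1) (nat_lit 56) (nat_lit 1) (nat_lit 386) (nat_lit 417) (nat_lit 217)))) (XT.nd (nat_lit 78) (nat_lit 76) (nat_lit 0) (XT.lf (nat_lit 152) (nat_lit 5243214893) (nat_lit 0) (nat_lit 1957593) (nat_lit 76) (nat_lit 1957593) (nat_lit 55) (nat_lit 1) (nat_lit 53) (nat_lit 1) (nat_lit 54) (nat_lit 1) (nat_lit 387) (nat_lit 417) (nat_lit 216)) (XT.nd (nat_lit 78) (nat_lit 76) (nat_lit 0) (XT.lf (nat_lit 0) (nat_lit 1718535251) (nat_lit 0) (nat_lit 1724039597) (nat_lit 152) (nat_lit 1718535251) (nat_lit 53) (nat_lit 3) (nat_lit 53) (nat_lit 1) (nat_lit 55)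 (nat_lit 1) (nat_lit 388) (nat_lit 417) (nat_lit 215)) (XT.lf (nat_lit 76) (nat_lit 1689125897) (nat_lit 0) (nat_lit 1694368131) (nat_lit 76) (nat_lit 1694368131) (nat_lit 53) (nat_lit 3) (nat_lit 52) (nat_lit 1) (nat_lit 53) (nat_lit 1) (nat_lit 389) (nat_lit 417) (nat_lit 214))))) (XT.nd (nat_lit 234) (nat_lit 228) (nat_lit 0) (XT.nd (nat_lit 78) (nat_lit 76) (nat_lit 0) (XT.lf (nat_lit 152) (nat_lit 4994033621) (nat_lit 0) (nat_lit 1610517) (nat_lit 76) (nat_lit 1610517) (nat_lit 52) (nat_lit 1) (nat_lit 50) (nat_lit 1) (nat_lit 51) (nat_lit 1) (nat_lit 390) (nat_lit 417) (nat_lit 213)) (XT.nd (nat_lit 78) (nat_lit 76) (nat_lit 0) (XT.lf (nat_lit 0) (nat_lit 1636934270) (nat_lit 0) (nat_lit 1641462709) (nat_lit 152) (nat_lit 1636934270) (nat_lit 50) (nat_lit 3) (nat_lit 50) (nat_lit 1) (nat_lit 52) (nat_lit 1) (nat_lit 391) (nat_lit 417) (nat_lit 212)) (XT.lf (nat_lit 76) (nat_lit 1609140879)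 (nat_lit 0) (nat_lit 1613453678) (nat_lit 76) (nat_lit 1613453678) (nat_lit 50) (nat_lit 3) (nat_lit 49) (nat_lit 1) (nat_lit 50) (nat_lit 1) (nat_lit 392) (nat_lit 417) (nat_lit 211)))) (XT.nd (nat_lit 78) (nat_lit 76) (nat_lit 0) (XT.lf (nat_lit 152) (nat_lit 4756630250) (nat_lit 0) (nat_lit 1324976) (nat_lit 76) (nat_lit 1324976) (nat_lit 49) (nat_lit 1) (nat_lit 47) (nat_lit 1) (nat_lit 48) (nat_lit 1) (nat_lit 393) (nat_lit 417) (nat_lit 210)) (XT.nd (nat_lit 78) (nat_lit 76) (nat_lit 0) (XT.lf (nat_lit 0) (nat_lit 1559177557) (nat_lit 0) (nat_lit 1562903115) (nat_lit 152) (nat_lit 1559177557) (nat_lit 47) (nat_lit 3) (nat_lit 47) (nat_lit 1) (nat_lit 49) (nat_lit 1) (nat_lit 394) (nat_lit 417) (nat_lit 209)) (XT.lf (nat_lit 76) (nat_lit 1532884968) (nat_lit 0) (nat_lit 1536433118) (nat_lit 76) (nat_lit 1536433118) (nat_lit 47) (nat_lit 3) (nat_lit 46) (nat_lit 1) (nat_lit 47) (nat_lit 1)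 (nat_lit 395) (nat_lit 417) (nat_lit 208)))))) (XT.nd (nat_lit 468) (nat_lit 608) (nat_lit 0) (XT.nd (nat_lit 234) (nat_lit 228) (nat_lit 0) (XT.nd (nat_lit 78) (nat_lit 76) (nat_lit 0) (XT.lf (nat_lit 152) (nat_lit 4530459507) (nat_lit 0) (nat_lit 1090061) (nat_lit 76) (nat_lit 1090061) (nat_lit 46) (nat_lit 1) (nat_lit 44) (nat_lit 1) (nat_lit 45) (nat_lit 1) (nat_lit 396) (nat_lit 417) (nat_lit 207)) (XT.nd (nat_lit 78) (nat_lit 76) (nat_lit 0) (XT.lf (nat_lit 0) (nat_lit 1485089409) (nat_lit 0) (nat_lit 1488154434) (nat_lit 152) (nat_lit 1485089409) (nat_lit 44) (nat_lit 3) (nat_lit 44) (nat_lit 1) (nat_lit 46) (nat_lit 1) (nat_lit 397) (nat_lit 417) (nat_lit 206)) (XT.lf (nat_lit 76) (nat_lit 1460194717) (nat_lit 0) (nat_lit 1463113789) (nat_lit 76) (nat_lit 1463113789) (nat_lit 44) (nat_lit 3) (nat_lit 43) (nat_lit 1) (nat_lit 44) (nat_lit 1) (nat_lit 398) (nat_lit 417) (nat_lit 205)))) (XT.nd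 (nat_lit 78) (nat_lit 76) (nat_lit 0) (XT.lf (nat_lit 152) (nat_lit 4314999324) (nat_lit 0) (nat_lit 896796) (nat_lit 76) (nat_lit 896796) (nat_lit 43) (nat_lit 1) (nat_lit 41) (nat_lit 1) (nat_lit 42) (nat_lit 1) (nat_lit 399) (nat_lit 417) (nat_lit 204)) (XT.nd (nat_lit 78) (nat_lit 76) (nat_lit 0) (XT.lf (nat_lit 0) (nat_lit 1414501183) (nat_lit 0) (nat_lit 1417022787) (nat_lit 152) (nat_lit 1414501183) (nat_lit 41) (nat_lit 3) (nat_lit 41) (nat_lit 1) (nat_lit 43) (nat_lit 1) (nat_lit 400) (nat_lit 417) (nat_lit 203)) (XT.lf (nat_lit 76) (nat_lit 1390911961) (nat_lit 0) (nat_lit 1393313489) (nat_lit 76) (nat_lit 1393313489) (nat_lit 41) (nat_lit 3) (nat_lit 40) (nat_lit 1) (nat_lit 41) (nat_lit 1) (nat_lit 401) (nat_lit 417) (nat_lit 202))))) (XT.nd (nat_lit 234) (nat_lit 380) (nat_lit 0) (XT.nd (nat_lit 78) (nat_lit 76) (nat_lit 0) (XT.lf (nat_lit 152) (nat_lit 4109750218) (nat_lit 0) (nat_lit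 737796) (nat_lit 76) (nat_lit 737796) (nat_lit 40) (nat_lit 1) (nat_lit 38) (nat_lit 1) (nat_lit 39) (nat_lit 1) (nat_lit 402) (nat_lit 417) (nat_lit 201)) (XT.nd (nat_lit 78) (nat_lit 76) (nat_lit 0) (XT.lf (nat_lit 0) (nat_lit 1347251196) (nat_lit 0) (nat_lit 1349325726) (nat_lit 152) (nat_lit 1347251196) (nat_lit 38) (nat_lit 3) (nat_lit 38) (nat_lit 1) (nat_lit 40) (nat_lit 1) (nat_lit 403) (nat_lit 417) (nat_lit 200)) (XT.lf (nat_lit 76) (nat_lit 1324884001) (nat_lit 0) (nat_lit 1326859744) (nat_lit 76) (nat_lit 1326859744) (nat_lit 38) (nat_lit 3) (nat_lit 37) (nat_lit 1) (nat_lit 38) (nat_lit 1) (nat_lit 404) (nat_lit 417) (nat_lit 199)))) (XT.nd (nat_lit 156) (nat_lit 228) (nat_lit 0) (XT.nd (nat_lit 78) (nat_lit 0) (nat_lit 0) (XT.lf (nat_lit 152) (nat_lit 3914234623) (nat_lit 0) (nat_lit 606987) (nat_lit 76) (nat_lit 606987) (nat_lit 37) (nat_lit 1) (nat_lit 35) (nat_lit 1) (nat_lit 36)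 (nat_lit 1) (nat_lit 405) (nat_lit 417) (nat_lit 198)) (XT.lf (nat_lit 0) (nat_lit 1283184581) (nat_lit 0) (nat_lit 1284891302) (nat_lit 152) (nat_lit 1283184581) (nat_lit 35) (nat_lit 3) (nat_lit 35) (nat_lit 1) (nat_lit 37) (nat_lit 1) (nat_lit 406) (nat_lit 417) (nat_lit 197))) (XT.nd (nat_lit 78) (nat_lit 152) (nat_lit 0) (XT.lf (nat_lit 76) (nat_lit 1261963717) (nat_lit 0) (nat_lit 1263589166) (nat_lit 76) (nat_lit 1263589166) (nat_lit 35) (nat_lit 3) (nat_lit 34) (nat_lit 1) (nat_lit 35) (nat_lit 1) (nat_lit 407) (nat_lit 417) (nat_lit 196)) (XT.lf (nat_lit 152) (nat_lit 3727996177) (nat_lit 0) (nat_lit 499369) (nat_lit 76) (nat_lit 499369) (nat_lit 34) (nat_lit 1) (nat_lit 32) (nat_lit 1) (nat_lit 33) (nat_lit 1) (nat_lit 408) (nat_lit 417) (nat_lit 195))))))) (XT.nd (nat_lit 936) (nat_lit 912) (nat_lit 0) (XT.nd (nat_lit 468) (nat_lit 456) (nat_lit 0) (XT.nd (nat_lit 234) (nat_lit 228)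 (nat_lit 0) (XT.nd (nat_lit 78) (nat_lit 228) (nat_lit 0) (XT.lf (nat_lit 0) (nat_lit 1222153119) (nat_lit 0) (nat_lit 1223557242) (nat_lit 152) (nat_lit 1222153119) (nat_lit 32) (nat_lit 3) (nat_lit 32) (nat_lit 1) (nat_lit 34) (nat_lit 1) (nat_lit 409) (nat_lit 417) (nat_lit 194)) (XT.nd (nat_lit 78) (nat_lit 152) (nat_lit 0) (XT.lf (nat_lit 76) (nat_lit 1202009597) (nat_lit 0) (nat_lit 1203346858) (nat_lit 76) (nat_lit 1203346858) (nat_lit 32) (nat_lit 3) (nat_lit 31) (nat_lit 1) (nat_lit 32) (nat_lit 1) (nat_lit 410) (nat_lit 417) (nat_lit 193)) (XT.lf (nat_lit 152) (nat_lit 3550598980) (nat_lit 0) (nat_lit 410832) (nat_lit 76) (nat_lit 410832) (nat_lit 31) (nat_lit 1) (nat_lit 29) (nat_lit 1) (nat_lit 30) (nat_lit 1) (nat_lit 411) (nat_lit 417) (nat_lit 192)))) (XT.nd (nat_lit 78) (nat_lit 228) (nat_lit 0) (XT.lf (nat_lit 0) (nat_lit 1164015051) (nat_lit 0) (nat_lit 1165170227) (nat_lit 152)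 (nat_lit 1164015051) (nat_lit 29) (nat_lit 3) (nat_lit 29) (nat_lit 1) (nat_lit 31) (nat_lit 1) (nat_lit 412) (nat_lit 417) (nat_lit 191)) (XT.nd (nat_lit 78) (nat_lit 152) (nat_lit 0) (XT.lf (nat_lit 76) (nat_lit 1144885722) (nat_lit 0) (nat_lit 1145985889) (nat_lit 76) (nat_lit 1145985889) (nat_lit 29) (nat_lit 3) (nat_lit 28) (nat_lit 1) (nat_lit 29) (nat_lit 1) (nat_lit 413) (nat_lit 417) (nat_lit 190)) (XT.lf (nat_lit 152) (nat_lit 3381626854) (nat_lit 0) (nat_lit 337993) (nat_lit 76) (nat_lit 337993) (nat_lit 28) (nat_lit 1) (nat_lit 26) (nat_lit 1) (nat_lit 27) (nat_lit 1) (nat_lit 414) (nat_lit 417) (nat_lit 189))))) (XT.nd (nat_lit 234) (nat_lit 228) (nat_lit 0) (XT.nd (nat_lit 78) (nat_lit 228) (nat_lit 0) (XT.lf (nat_lit 0) (nat_lit 1108634878) (nat_lit 0) (nat_lit 1109585244) (nat_lit 152) (nat_lit 1108634878) (nat_lit 26) (nat_lit 3) (nat_lit 26) (nat_lit 1) (nat_lit 28) (nat_lit 1)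 (nat_lit 415) (nat_lit 417) (nat_lit 188)) (XT.nd (nat_lit 78) (nat_lit 152) (nat_lit 0) (XT.lf (nat_lit 76) (nat_lit 1090461699) (nat_lit 0) (nat_lit 1091366810) (nat_lit 76) (nat_lit 1091366810) (nat_lit 26) (nat_lit 3) (nat_lit 25) (nat_lit 1) (nat_lit 26) (nat_lit 1) (nat_lit 416) (nat_lit 417) (nat_lit 187)) (XT.lf (nat_lit 152) (nat_lit 3220682577) (nat_lit 0) (nat_lit 278067) (nat_lit 76) (nat_lit 278067) (nat_lit 25) (nat_lit 1) (nat_lit 23) (nat_lit 1) (nat_lit 24) (nat_lit 1) (nat_lit 417) (nat_lit 417) (nat_lit 186)))) (XT.nd (nat_lit 78) (nat_lit 228) (nat_lit 0) (XT.lf (nat_lit 0) (nat_lit 1055883148) (nat_lit 0) (nat_lit 1056665017) (nat_lit 152) (nat_lit 1055883148) (nat_lit 23) (nat_lit 3) (nat_lit 23) (nat_lit 1) (nat_lit 25) (nat_lit 1) (nat_lit 418) (nat_lit 417) (nat_lit 185)) (XT.nd (nat_lit 78) (nat_lit 152) (nat_lit 0) (XT.lf (nat_lit 76) (nat_lit 1038612569) (nat_lit 0)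 (nat_lit 1039357206) (nat_lit 76) (nat_lit 1039357206) (nat_lit 23) (nat_lit 3) (nat_lit 22) (nat_lit 1) (nat_lit 23) (nat_lit 1) (nat_lit 419) (nat_lit 417) (nat_lit 184)) (XT.lf (nat_lit 152) (nat_lit 3067387142) (nat_lit 0) (nat_lit 228767) (nat_lit 76) (nat_lit 228767) (nat_lit 22) (nat_lit 1) (nat_lit 20) (nat_lit 1) (nat_lit 21) (nat_lit 1) (nat_lit 420) (nat_lit 417) (nat_lit 183)))))) (XT.nd (nat_lit 468) (nat_lit 456) (nat_lit 0) (XT.nd (nat_lit 234) (nat_lit 228) (nat_lit 0) (XT.nd (nat_lit 78) (nat_lit 228) (nat_lit 0) (XT.lf (nat_lit 0) (nat_lit 1005636241) (nat_lit 0) (nat_lit 1006279487) (nat_lit 152) (nat_lit 1005636241) (nat_lit 20) (nat_lit 3) (nat_lit 20) (nat_lit 1) (nat_lit 22) (nat_lit 1) (nat_lit 421) (nat_lit 417) (nat_lit 182)) (XT.nd (nat_lit 78) (nat_lit 152) (nat_lit 0) (XT.lf (nat_lit 76) (nat_lit 989218684) (nat_lit 0) (nat_lit 989831299) (nat_lit 76) (nat_lit 989831299)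 (nat_lit 20) (nat_lit 3) (nat_lit 19) (nat_lit 1) (nat_lit 20) (nat_lit 1) (nat_lit 422) (nat_lit 417) (nat_lit 181)) (XT.lf (nat_lit 152) (nat_lit 2921379007) (nat_lit 0) (nat_lit 188207) (nat_lit 76) (nat_lit 188207) (nat_lit 19) (nat_lit 1) (nat_lit 17) (nat_lit 1) (nat_lit 18) (nat_lit 1) (nat_lit 423) (nat_lit 417) (nat_lit 180)))) (XT.nd (nat_lit 78) (nat_lit 228) (nat_lit 0) (XT.lf (nat_lit 0) (nat_lit 957776150) (nat_lit 0) (nat_lit 958305350) (nat_lit 152) (nat_lit 957776150) (nat_lit 17) (nat_lit 3) (nat_lit 17) (nat_lit 1) (nat_lit 19) (nat_lit 1) (nat_lit 424) (nat_lit 417) (nat_lit 179)) (XT.nd (nat_lit 78) (nat_lit 152) (nat_lit 0) (XT.lf (nat_lit 76) (nat_lit 942165568) (nat_lit 0) (nat_lit 942669567) (nat_lit 76) (nat_lit 942669567) (nat_lit 17) (nat_lit 3) (nat_lit 16) (nat_lit 1) (nat_lit 17) (nat_lit 1) (nat_lit 425) (nat_lit 417) (nat_lit 178)) (XT.lf (nat_lit 152) (nat_lit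 2782313372) (nat_lit 0) (nat_lit 154838) (nat_lit 76) (nat_lit 154838) (nat_lit 16) (nat_lit 1) (nat_lit 14) (nat_lit 1) (nat_lit 15) (nat_lit 1) (nat_lit 426) (nat_lit 417) (nat_lit 177))))) (XT.nd (nat_lit 234) (nat_lit 228) (nat_lit 0) (XT.nd (nat_lit 78) (nat_lit 228) (nat_lit 0) (XT.lf (nat_lit 0) (nat_lit 912190263) (nat_lit 0) (nat_lit 912625636) (nat_lit 152) (nat_lit 912190263) (nat_lit 14) (nat_lit 3) (nat_lit 14) (nat_lit 1) (nat_lit 16) (nat_lit 1) (nat_lit 427) (nat_lit 417) (nat_lit 176)) (XT.nd (nat_lit 78) (nat_lit 152) (nat_lit 0) (XT.lf (nat_lit 76) (nat_lit 897343761) (nat_lit 0) (nat_lit 897758403) (nat_lit 76) (nat_lit 897758403) (nat_lit 14) (nat_lit 3) (nat_lit 13) (nat_lit 1) (nat_lit 14) (nat_lit 1) (nat_lit 428) (nat_lit 417) (nat_lit 175)) (XT.lf (nat_lit 152) (nat_lit 2649861461) (nat_lit 0) (nat_lit 127386) (nat_lit 76) (nat_lit 127386) (nat_lit 13) (nat_lit 1) (nat_lit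 11) (nat_lit 1) (nat_lit 12) (nat_lit 1) (nat_lit 429) (nat_lit 417) (nat_lit 174)))) (XT.nd (nat_lit 156) (nat_lit 152) (nat_lit 0) (XT.nd (nat_lit 78) (nat_lit 76) (nat_lit 0) (XT.lf (nat_lit 0) (nat_lit 868771142) (nat_lit 0) (nat_lit 869129325) (nat_lit 152) (nat_lit 868771142) (nat_lit 11) (nat_lit 3) (nat_lit 11) (nat_lit 1) (nat_lit 13) (nat_lit 1) (nat_lit 430) (nat_lit 417) (nat_lit 173)) (XT.lf (nat_lit 76) (nat_lit 854648663) (nat_lit 0) (nat_lit 854989790) (nat_lit 76) (nat_lit 854989790) (nat_lit 11) (nat_lit 3) (nat_lit 10) (nat_lit 1) (nat_lit 11) (nat_lit 1) (nat_lit 431) (nat_lit 417) (nat_lit 172))) (XT.nd (nat_lit 78) (nat_lit 0) (nat_lit 0) (XT.lf (nat_lit 152) (nat_lit 2523709834) (nat_lit 0) (nat_lit 104800) (nat_lit 76) (nat_lit 104800) (nat_lit 10) (nat_lit 1) (nat_lit 8) (nat_lit 1) (nat_lit 9) (nat_lit 1) (nat_lit 432) (nat_lit 417) (nat_lit 171)) (XT.lf (nat_lit 0) (nat_lit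 827416317) (nat_lit 0) (nat_lit 827710995) (nat_lit 152) (nat_lit 827416317) (nat_lit 8) (nat_lit 3) (nat_lit 8) (nat_lit 1) (nat_lit 10) (nat_lit 1) (nat_lit 433) (nat_lit 417) (nat_lit 170))))))))
noncomputable def ec341 : XT := (XT.nd (nat_lit 34944) (nat_lit 0) (nat_lit 16644) (XT.nd (nat_lit 33930) (nat_lit 0) (nat_lit 20520) (XT.nd (nat_lit 468) (nat_lit 152) (nat_lit 0) (XT.nd (nat_lit 234) (nat_lit 228) (nat_lit 0) (XT.nd (nat_lit 78) (nat_lit 152) (nat_lit 0) (XT.lf (nat_lit 76) (nat_lit 813980361) (nat_lit 0) (nat_lit 814261007) (nat_lit 76) (nat_lit 814261007) (nat_lit 8) (nat_lit 3) (nat_lit 7) (nat_lit 1) (nat_lit 8) (nat_lit 1) (nat_lit 434) (nat_lit 417) (nat_lit 169)) (XT.nd (nat_lit 78) (nat_lit 0) (nat_lit 0) (XT.lf (nat_lit 152) (nat_lit 2403559709) (nat_lit 0) (nat_lit 86219) (nat_lit 76) (nat_lit 86219) (nat_lit 7) (nat_lit 1) (nat_lit 5) (nat_lit 1) (nat_lit 6) (nat_lit 1)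 (nat_lit 435) (nat_lit 417) (nat_lit 168)) (XT.lf (nat_lit 0) (nat_lit 788028069) (nat_lit 0) (nat_lit 788270501) (nat_lit 152) (nat_lit 788028069) (nat_lit 5) (nat_lit 3) (nat_lit 5) (nat_lit 1) (nat_lit 7) (nat_lit 1) (nat_lit 436) (nat_lit 417) (nat_lit 167)))) (XT.nd (nat_lit 78) (nat_lit 152) (nat_lit 0) (XT.lf (nat_lit 76) (nat_lit 775243459) (nat_lit 0) (nat_lit 775474346) (nat_lit 76) (nat_lit 775474346) (nat_lit 5) (nat_lit 3) (nat_lit 4) (nat_lit 1) (nat_lit 5) (nat_lit 1) (nat_lit 437) (nat_lit 417) (nat_lit 166)) (XT.nd (nat_lit 78) (nat_lit 0) (nat_lit 0) (XT.lf (nat_lit 152) (nat_lit 2289126314) (nat_lit 0) (nat_lit 70933) (nat_lit 76) (nat_lit 70933) (nat_lit 4) (nat_lit 1) (nat_lit 2) (nat_lit 1) (nat_lit 3) (nat_lit 1) (nat_lit 438) (nat_lit 417) (nat_lit 165)) (XT.lf (nat_lit 0) (nat_lit 750513230) (nat_lit 0) (nat_lit 750712680) (nat_lit 152) (nat_lit 750513230) (nat_lit 2) (nat_lit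 3) (nat_lit 2) (nat_lit 1) (nat_lit 4) (nat_lit 1) (nat_lit 439) (nat_lit 417) (nat_lit 164))))) (XT.nd (nat_lit 33228) (nat_lit 0) (nat_lit 22192) (XT.nd (nat_lit 78) (nat_lit 76) (nat_lit 0) (XT.lf (nat_lit 76) (nat_lit 738346903) (nat_lit 0) (nat_lit 738536855) (nat_lit 76) (nat_lit 738536855) (nat_lit 2) (nat_lit 3) (nat_lit 1) (nat_lit 1) (nat_lit 2) (nat_lit 1) (nat_lit 440) (nat_lit 417) (nat_lit 163)) (XT.nd (nat_lit 33072) (nat_lit 0) (nat_lit 22192) (XT.lf (nat_lit 0) (nat_lit 45970329250) (nat_lit 0) (nat_lit 0) (nat_lit 0) (nat_lit 0) (nat_lit 0) (nat_lit 0) (nat_lit 1) (nat_lit 0) (nat_lit 1) (nat_lit 0) (nat_lit 441) (nat_lit 417) (nat_lit 162)) (XT.lf (nat_lit 836) (nat_lit 24155442986) (nat_lit 0) (nat_lit 42887933499) (nat_lit 836) (nat_lit 24155442986) (nat_lit 303) (nat_lit 1) (nat_lit 292) (nat_lit 0) (nat_lit 303) (nat_lit 0) (nat_lit 184) (nat_lit 418) (nat_lit 418)))) (XT.nd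 (nat_lit 78) (nat_lit 0) (nat_lit 76) (XT.lf (nat_lit 836) (nat_lit 93629512704) (nat_lit 76) (nat_lit 42196192636) (nat_lit 0) (nat_lit 42196192636) (nat_lit 303) (nat_lit 1) (nat_lit 293) (nat_lit 1) (nat_lit 292) (nat_lit 0) (nat_lit 185) (nat_lit 418) (nat_lit 417)) (XT.nd (nat_lit 78) (nat_lit 0) (nat_lit 0) (XT.lf (nat_lit 836) (nat_lit 44622415976) (nat_lit 0) (nat_lit 84536602719) (nat_lit 760) (nat_lit 44622415976) (nat_lit 304) (nat_lit 1) (nat_lit 293) (nat_lit 1) (nat_lit 303) (nat_lit 1) (nat_lit 186) (nat_lit 418) (nat_lit 416)) (XT.lf (nat_lit 836) (nat_lit 83705451931) (nat_lit 76) (nat_lit 42986258997) (nat_lit 0) (nat_lit 42986258997) (nat_lit 304) (nat_lit 1) (nat_lit 294) (nat_lit 1) (nat_lit 293) (nat_lit 1) (nat_lit 187) (nat_lit 418) (nat_lit 415)))))) (XT.nd (nat_lit 468) (nat_lit 1824) (nat_lit 0) (XT.nd (nat_lit 234) (nat_lit 0) (nat_lit 76) (XT.nd (nat_lit 78) (nat_lit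 0) (nat_lit 0) (XT.lf (nat_lit 836) (nat_lit 38528815693) (nat_lit 0) (nat_lit 88646933040) (nat_lit 760) (nat_lit 38528815693) (nat_lit 305) (nat_lit 1) (nat_lit 294) (nat_lit 1) (nat_lit 304) (nat_lit 1) (nat_lit 188) (nat_lit 418) (nat_lit 414)) (XT.nd (nat_lit 78) (nat_lit 0) (nat_lit 76) (XT.lf (nat_lit 836) (nat_lit 69296584482) (nat_lit 76) (nat_lit 46277849514) (nat_lit 0) (nat_lit 46277849514) (nat_lit 305) (nat_lit 1) (nat_lit 295) (nat_lit 1) (nat_lit 294) (nat_lit 1) (nat_lit 189) (nat_lit 418) (nat_lit 413)) (XT.lf (nat_lit 836) (nat_lit 30384550829) (nat_lit 0) (nat_lit 97360247192) (nat_lit 760) (nat_lit 30384550829) (nat_lit 306) (nat_lit 1) (nat_lit 295) (nat_lit 1) (nat_lit 305) (nat_lit 1) (nat_lit 190) (nat_lit 418) (nat_lit 412)))) (XT.nd (nat_lit 78) (nat_lit 0) (nat_lit 76) (XT.lf (nat_lit 836) (nat_lit 51077362877) (nat_lit 76) (nat_lit 51715778229) (nat_lit 0) (nat_lit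 51715778229) (nat_lit 306) (nat_lit 1) (nat_lit 296) (nat_lit 1) (nat_lit 295) (nat_lit 1) (nat_lit 191) (nat_lit 418) (nat_lit 411)) (XT.nd (nat_lit 78) (nat_lit 0) (nat_lit 0) (XT.lf (nat_lit 836) (nat_lit 20504900824) (nat_lit 0) (nat_lit 110011216539) (nat_lit 760) (nat_lit 20504900824) (nat_lit 307) (nat_lit 1) (nat_lit 296) (nat_lit 1) (nat_lit 306) (nat_lit 1) (nat_lit 192) (nat_lit 418) (nat_lit 410)) (XT.lf (nat_lit 836) (nat_lit 29647273638) (nat_lit 76) (nat_lit 58983719955) (nat_lit 0) (nat_lit 58983719955) (nat_lit 307) (nat_lit 1) (nat_lit 297) (nat_lit 1) (nat_lit 296) (nat_lit 1) (nat_lit 193) (nat_lit 418) (nat_lit 409))))) (XT.nd (nat_lit 234) (nat_lit 760) (nat_lit 0) (XT.nd (nat_lit 78) (nat_lit 1292) (nat_lit 0) (XT.lf (nat_lit 76) (nat_lit 9169898755) (nat_lit 0) (nat_lit 126007672532) (nat_lit 760) (nat_lit 9169898755) (nat_lit 298) (nat_lit 1) (nat_lit 297) (nat_lit 1) (nat_lit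 307) (nat_lit 1) (nat_lit 194) (nat_lit 418) (nat_lit 408)) (XT.nd (nat_lit 78) (nat_lit 532) (nat_lit 0) (XT.lf (nat_lit 836) (nat_lit 5538390812) (nat_lit 0) (nat_lit 67800319330) (nat_lit 760) (nat_lit 67800319330) (nat_lit 298) (nat_lit 1) (nat_lit 287) (nat_lit 1) (nat_lit 297) (nat_lit 1) (nat_lit 195) (nat_lit 418) (nat_lit 407)) (XT.lf (nat_lit 532) (nat_lit 131432988855) (nat_lit 0) (nat_lit 3317720333) (nat_lit 456) (nat_lit 3317720333) (nat_lit 287) (nat_lit 1) (nat_lit 280) (nat_lit 1) (nat_lit 286) (nat_lit 1) (nat_lit 196) (nat_lit 418) (nat_lit 406)))) (XT.nd (nat_lit 156) (nat_lit 380) (nat_lit 0) (XT.nd (nat_lit 78) (nat_lit 380) (nat_lit 0) (XT.lf (nat_lit 76) (nat_lit 57462273976) (nat_lit 0) (nat_lit 20112781187) (nat_lit 532) (nat_lit 57462273976) (nat_lit 281) (nat_lit 1) (nat_lit 280) (nat_lit 1) (nat_lit 287) (nat_lit 1) (nat_lit 197) (nat_lit 418) (nat_lit 405)) (XT.lf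 (nat_lit 456) (nat_lit 98877823587) (nat_lit 0) (nat_lit 16628647840) (nat_lit 380) (nat_lit 16628647840) (nat_lit 281) (nat_lit 1) (nat_lit 275) (nat_lit 1) (nat_lit 280) (nat_lit 1) (nat_lit 198) (nat_lit 418) (nat_lit 404))) (XT.nd (nat_lit 78) (nat_lit 380) (nat_lit 0) (XT.lf (nat_lit 76) (nat_lit 40987140512) (nat_lit 0) (nat_lit 47319640843) (nat_lit 456) (nat_lit 40987140512) (nat_lit 276) (nat_lit 1) (nat_lit 275) (nat_lit 1) (nat_lit 281) (nat_lit 1) (nat_lit 199) (nat_lit 418) (nat_lit 403)) (XT.lf (nat_lit 456) (nat_lit 65112449048) (nat_lit 0) (nat_lit 30719613362) (nat_lit 380) (nat_lit 30719613362) (nat_lit 276) (nat_lit 1) (nat_lit 270) (nat_lit 1) (nat_lit 275) (nat_lit 1) (nat_lit 200) (nat_lit 418) (nat_lit 402))))))) (XT.nd (nat_lit 1014) (nat_lit 1748) (nat_lit 0) (XT.nd (nat_lit 468) (nat_lit 1140) (nat_lit 0) (XT.nd (nat_lit 234) (nat_lit 684) (nat_lit 0) (XT.nd (nat_lit 78)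 (nat_lit 304) (nat_lit 0) (XT.lf (nat_lit 76) (nat_lit 23993072127) (nat_lit 0) (nat_lit 75903039182) (nat_lit 456) (nat_lit 23993072127) (nat_lit 271) (nat_lit 1) (nat_lit 270) (nat_lit 1) (nat_lit 276) (nat_lit 1) (nat_lit 201) (nat_lit 418) (nat_lit 401)) (XT.nd (nat_lit 78) (nat_lit 0) (nat_lit 0) (XT.lf (nat_lit 380) (nat_lit 30451135215) (nat_lit 0) (nat_lit 45422021983) (nat_lit 304) (nat_lit 45422021983) (nat_lit 271) (nat_lit 1) (nat_lit 266) (nat_lit 1) (nat_lit 270) (nat_lit 1) (nat_lit 202) (nat_lit 418) (nat_lit 400)) (XT.lf (nat_lit 76) (nat_lit 6625963834) (nat_lit 0) (nat_lit 105548999893) (nat_lit 380) (nat_lit 6625963834) (nat_lit 267) (nat_lit 1) (nat_lit 266) (nat_lit 1) (nat_lit 271) (nat_lit 1) (nat_lit 203) (nat_lit 418) (nat_lit 399)))) (XT.nd (nat_lit 78) (nat_lit 304) (nat_lit 0) (XT.lf (nat_lit 76) (nat_lit 55832275243) (nat_lit 0) (nat_lit 4676061506) (nat_lit 380) (nat_lit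 55832275243) (nat_lit 262) (nat_lit 1) (nat_lit 261) (nat_lit 1) (nat_lit 266) (nat_lit 1) (nat_lit 204) (nat_lit 418) (nat_lit 398)) (XT.nd (nat_lit 78) (nat_lit 0) (nat_lit 0) (XT.lf (nat_lit 380) (nat_lit 92355388093) (nat_lit 0) (nat_lit 10809301588) (nat_lit 304) (nat_lit 10809301588) (nat_lit 262) (nat_lit 1) (nat_lit 257) (nat_lit 1) (nat_lit 261) (nat_lit 1) (nat_lit 205) (nat_lit 418) (nat_lit 397)) (XT.lf (nat_lit 76) (nat_lit 36225843434) (nat_lit 0) (nat_lit 39196283582) (nat_lit 380) (nat_lit 36225843434) (nat_lit 258) (nat_lit 1) (nat_lit 257) (nat_lit 1) (nat_lit 262) (nat_lit 1) (nat_lit 206) (nat_lit 418) (nat_lit 396))))) (XT.nd (nat_lit 234) (nat_lit 608) (nat_lit 0) (XT.nd (nat_lit 78) (nat_lit 228) (nat_lit 0) (XT.lf (nat_lit 380) (nat_lit 52863582818) (nat_lit 0) (nat_lit 28269512518) (nat_lit 304) (nat_lit 28269512518) (nat_lit 258) (nat_lit 1) (nat_lit 253) (nat_lit 1) (nat_lit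 257) (nat_lit 1) (nat_lit 207) (nat_lit 418) (nat_lit 395)) (XT.nd (nat_lit 78) (nat_lit 228) (nat_lit 0) (XT.lf (nat_lit 76) (nat_lit 16670814758) (nat_lit 0) (nat_lit 73881270339) (nat_lit 380) (nat_lit 16670814758) (nat_lit 254) (nat_lit 1) (nat_lit 253) (nat_lit 1) (nat_lit 258) (nat_lit 1) (nat_lit 208) (nat_lit 418) (nat_lit 394)) (XT.lf (nat_lit 304) (nat_lit 13557659644) (nat_lit 0) (nat_lit 45766291691) (nat_lit 228) (nat_lit 45766291691) (nat_lit 254) (nat_lit 1) (nat_lit 250) (nat_lit 1) (nat_lit 253) (nat_lit 1) (nat_lit 209) (nat_lit 418) (nat_lit 393)))) (XT.nd (nat_lit 156) (nat_lit 228) (nat_lit 0) (XT.nd (nat_lit 78) (nat_lit 0) (nat_lit 0) (XT.lf (nat_lit 380) (nat_lit 97622228630) (nat_lit 0) (nat_lit 2708829527) (nat_lit 304) (nat_lit 2708829527) (nat_lit 250) (nat_lit 1) (nat_lit 245) (nat_lit 1) (nat_lit 249) (nat_lit 1) (nat_lit 210) (nat_lit 418) (nat_lit 392)) (XT.lf (nat_lit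 76) (nat_lit 38200299771) (nat_lit 0) (nat_lit 24600281271) (nat_lit 380) (nat_lit 38200299771) (nat_lit 246) (nat_lit 1) (nat_lit 245) (nat_lit 1) (nat_lit 250) (nat_lit 1) (nat_lit 211) (nat_lit 418) (nat_lit 391))) (XT.nd (nat_lit 78) (nat_lit 0) (nat_lit 0) (XT.lf (nat_lit 304) (nat_lit 55792745493) (nat_lit 0) (nat_lit 21623664895) (nat_lit 228) (nat_lit 21623664895) (nat_lit 246) (nat_lit 1) (nat_lit 242) (nat_lit 1) (nat_lit 245) (nat_lit 1) (nat_lit 212) (nat_lit 418) (nat_lit 390)) (XT.lf (nat_lit 76) (nat_lit 17625791326) (nat_lit 0) (nat_lit 61877504735) (nat_lit 304) (nat_lit 17625791326) (nat_lit 243) (nat_lit 1) (nat_lit 242) (nat_lit 1) (nat_lit 246) (nat_lit 1) (nat_lit 213) (nat_lit 418) (nat_lit 389)))))) (XT.nd (nat_lit 468) (nat_lit 836) (nat_lit 0) (XT.nd (nat_lit 234) (nat_lit 380) (nat_lit 0) (XT.nd (nat_lit 78) (nat_lit 304) (nat_lit 0) (XT.lf (nat_lit 304) (nat_lit 14690546155)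 (nat_lit 0) (nat_lit 40285513898) (nat_lit 228) (nat_lit 40285513898) (nat_lit 243) (nat_lit 1) (nat_lit 239) (nat_lit 1) (nat_lit 242) (nat_lit 1) (nat_lit 214) (nat_lit 418) (nat_lit 388)) (XT.nd (nat_lit 78) (nat_lit 0) (nat_lit 0) (XT.lf (nat_lit 304) (nat_lit 88413996793) (nat_lit 0) (nat_lit 2524722108) (nat_lit 228) (nat_lit 2524722108) (nat_lit 239) (nat_lit 1) (nat_lit 235) (nat_lit 1) (nat_lit 238) (nat_lit 1) (nat_lit 215) (nat_lit 418) (nat_lit 387)) (XT.lf (nat_lit 76) (nat_lit 33444482969) (nat_lit 0) (nat_lit 24782026060) (nat_lit 304) (nat_lit 33444482969) (nat_lit 236) (nat_lit 1) (nat_lit 235) (nat_lit 1) (nat_lit 239) (nat_lit 1) (nat_lit 216) (nat_lit 418) (nat_lit 386)))) (XT.nd (nat_lit 78) (nat_lit 152) (nat_lit 0) (XT.lf (nat_lit 304) (nat_lit 45989226456) (nat_lit 0) (nat_lit 21977818716) (nat_lit 228) (nat_lit 21977818716) (nat_lit 236) (nat_lit 1) (nat_lit 232) (nat_lit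 1) (nat_lit 235) (nat_lit 1) (nat_lit 217) (nat_lit 418) (nat_lit 385)) (XT.nd (nat_lit 78) (nat_lit 152) (nat_lit 0) (XT.lf (nat_lit 76) (nat_lit 12665395459) (nat_lit 0) (nat_lit 62934240402) (nat_lit 304) (nat_lit 12665395459) (nat_lit 233) (nat_lit 1) (nat_lit 232) (nat_lit 1) (nat_lit 236) (nat_lit 1) (nat_lit 218) (nat_lit 418) (nat_lit 384)) (XT.lf (nat_lit 228) (nat_lit 4641022012) (nat_lit 0) (nat_lit 40987916088) (nat_lit 152) (nat_lit 40987916088) (nat_lit 233) (nat_lit 1) (nat_lit 230) (nat_lit 1) (nat_lit 232) (nat_lit 1) (nat_lit 219) (nat_lit 418) (nat_lit 383))))) (XT.nd (nat_lit 234) (nat_lit 380) (nat_lit 0) (XT.nd (nat_lit 78) (nat_lit 152) (nat_lit 0) (XT.lf (nat_lit 304) (nat_lit 70124286398) (nat_lit 0) (nat_lit 7447707500) (nat_lit 228) (nat_lit 7447707500) (nat_lit 230) (nat_lit 1) (nat_lit 226) (nat_lit 1) (nat_lit 229) (nat_lit 1) (nat_lit 220) (nat_lit 418) (nat_lit 382))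 (XT.nd (nat_lit 78) (nat_lit 152) (nat_lit 0) (XT.lf (nat_lit 76) (nat_lit 24492748689) (nat_lit 0) (nat_lit 34454913847) (nat_lit 304) (nat_lit 24492748689) (nat_lit 227) (nat_lit 1) (nat_lit 226) (nat_lit 1) (nat_lit 230) (nat_lit 1) (nat_lit 221) (nat_lit 418) (nat_lit 381)) (XT.lf (nat_lit 228) (nat_lit 28297592942) (nat_lit 0) (nat_lit 26806134668) (nat_lit 152) (nat_lit 26806134668) (nat_lit 227) (nat_lit 1) (nat_lit 224) (nat_lit 1) (nat_lit 226) (nat_lit 1) (nat_lit 222) (nat_lit 418) (nat_lit 380)))) (XT.nd (nat_lit 156) (nat_lit 152) (nat_lit 0) (XT.nd (nat_lit 78) (nat_lit 228) (nat_lit 0) (XT.lf (nat_lit 76) (nat_lit 4065465923) (nat_lit 0) (nat_lit 72299174533) (nat_lit 228) (nat_lit 4065465923) (nat_lit 225) (nat_lit 1) (nat_lit 224) (nat_lit 1) (nat_lit 227) (nat_lit 1) (nat_lit 223) (nat_lit 418) (nat_lit 379)) (XT.lf (nat_lit 76) (nat_lit 33553003533) (nat_lit 0) (nat_lit 11849722433)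 (nat_lit 228) (nat_lit 33553003533) (nat_lit 222) (nat_lit 1) (nat_lit 221) (nat_lit 1) (nat_lit 224) (nat_lit 1) (nat_lit 224) (nat_lit 418) (nat_lit 378))) (XT.nd (nat_lit 78) (nat_lit 0) (nat_lit 0) (XT.lf (nat_lit 228) (nat_lit 46594226076) (nat_lit 0) (nat_lit 15468020632) (nat_lit 152) (nat_lit 15468020632) (nat_lit 222) (nat_lit 1) (nat_lit 219) (nat_lit 1) (nat_lit 221) (nat_lit 1) (nat_lit 225) (nat_lit 418) (nat_lit 377)) (XT.lf (nat_lit 76) (nat_lit 13147678394) (nat_lit 0) (nat_lit 49840954221) (nat_lit 228) (nat_lit 13147678394) (nat_lit 220) (nat_lit 1) (nat_lit 219) (nat_lit 1) (nat_lit 222) (nat_lit 1) (nat_lit 226) (nat_lit 418) (nat_lit 376))))))))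
noncomputable def ec342 : XT := (XT.nd (nat_lit 1950) (nat_lit 1900) (nat_lit 0) (XT.nd (nat_lit 936) (nat_lit 1140) (nat_lit 0) (XT.nd (nat_lit 468) (nat_lit 532) (nat_lit 0) (XT.nd (nat_lit 234) (nat_lit 304) (nat_lit 0) (XT.nd (nat_lit 78) (nat_lit 228) (nat_lit 0) (XT.lf (nat_lit 228) (nat_lit 6159213967) (nat_lit 0) (nat_lit 34305619641) (nat_lit 152) (nat_lit 34305619641) (nat_lit 220) (nat_lit 1) (nat_lit 217) (nat_lit 1) (nat_lit 219) (nat_lit 1) (nat_lit 227) (nat_lit 418) (nat_lit 375)) (XT.nd (nat_lit 78) (nat_lit 0) (nat_lit 0) (XT.lf (nat_lit 228) (nat_lit 60536733990) (nat_lit 0) (nat_lit 6453719141) (nat_lit 152) (nat_lit 6453719141) (nat_lit 217) (nat_lit 1) (nat_lit 214) (nat_lit 1) (nat_lit 216) (nat_lit 1) (nat_lit 228) (nat_lit 418) (nat_lit 374)) (XT.lf (nat_lit 76) (nat_lit 20152827094) (nat_lit 0) (nat_lit 31823556771) (nat_lit 228) (nat_lit 20152827094) (nat_lit 215) (nat_lit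 1) (nat_lit 214) (nat_lit 1) (nat_lit 217) (nat_lit 1) (nat_lit 229) (nat_lit 418) (nat_lit 373)))) (XT.nd (nat_lit 78) (nat_lit 152) (nat_lit 0) (XT.lf (nat_lit 228) (nat_lit 20524675964) (nat_lit 0) (nat_lit 25163874415) (nat_lit 152) (nat_lit 25163874415) (nat_lit 215) (nat_lit 1) (nat_lit 212) (nat_lit 1) (nat_lit 214) (nat_lit 1) (nat_lit 230) (nat_lit 418) (nat_lit 372)) (XT.nd (nat_lit 78) (nat_lit 152) (nat_lit 0) (XT.lf (nat_lit 76) (nat_lit 674589493) (nat_lit 0) (nat_lit 68271236600) (nat_lit 228) (nat_lit 674589493) (nat_lit 213) (nat_lit 1) (nat_lit 212) (nat_lit 1) (nat_lit 215) (nat_lit 1) (nat_lit 231) (nat_lit 418) (nat_lit 371)) (XT.lf (nat_lit 76) (nat_lit 25471399334) (nat_lit 0) (nat_lit 17437776425) (nat_lit 152) (nat_lit 25471399334) (nat_lit 211) (nat_lit 1) (nat_lit 210) (nat_lit 1) (nat_lit 212) (nat_lit 1) (nat_lit 232) (nat_lit 418) (nat_lit 370))))) (XT.nd (nat_lit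 234) (nat_lit 228) (nat_lit 0) (XT.nd (nat_lit 78) (nat_lit 152) (nat_lit 0) (XT.lf (nat_lit 228) (nat_lit 31607106844) (nat_lit 0) (nat_lit 17788625792) (nat_lit 152) (nat_lit 17788625792) (nat_lit 211) (nat_lit 1) (nat_lit 208) (nat_lit 1) (nat_lit 210) (nat_lit 1) (nat_lit 233) (nat_lit 418) (nat_lit 369)) (XT.nd (nat_lit 78) (nat_lit 152) (nat_lit 0) (XT.lf (nat_lit 76) (nat_lit 6337006477) (nat_lit 0) (nat_lit 53346417731) (nat_lit 228) (nat_lit 6337006477) (nat_lit 209) (nat_lit 1) (nat_lit 208) (nat_lit 1) (nat_lit 211) (nat_lit 1) (nat_lit 234) (nat_lit 418) (nat_lit 368)) (XT.lf (nat_lit 76) (nat_lit 29423591469) (nat_lit 0) (nat_lit 6018918498) (nat_lit 152) (nat_lit 29423591469) (nat_lit 207) (nat_lit 1) (nat_lit 206) (nat_lit 1) (nat_lit 208) (nat_lit 1) (nat_lit 235) (nat_lit 418) (nat_lit 367)))) (XT.nd (nat_lit 78) (nat_lit 76) (nat_lit 0) (XT.lf (nat_lit 228) (nat_lit 40023630863)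 (nat_lit 0) (nat_lit 11859740782) (nat_lit 152) (nat_lit 11859740782) (nat_lit 207) (nat_lit 1) (nat_lit 204) (nat_lit 1) (nat_lit 206) (nat_lit 1) (nat_lit 236) (nat_lit 418) (nat_lit 366)) (XT.nd (nat_lit 78) (nat_lit 76) (nat_lit 0) (XT.lf (nat_lit 76) (nat_lit 10720156657) (nat_lit 0) (nat_lit 41202041720) (nat_lit 228) (nat_lit 10720156657) (nat_lit 205) (nat_lit 1) (nat_lit 204) (nat_lit 1) (nat_lit 207) (nat_lit 1) (nat_lit 237) (nat_lit 418) (nat_lit 365)) (XT.lf (nat_lit 152) (nat_lit 3077366587) (nat_lit 0) (nat_lit 29242501439) (nat_lit 76) (nat_lit 29242501439) (nat_lit 205) (nat_lit 1) (nat_lit 203) (nat_lit 1) (nat_lit 204) (nat_lit 1) (nat_lit 238) (nat_lit 418) (nat_lit 364)))))) (XT.nd (nat_lit 468) (nat_lit 532) (nat_lit 0) (XT.nd (nat_lit 234) (nat_lit 304) (nat_lit 0) (XT.nd (nat_lit 78) (nat_lit 76) (nat_lit 0) (XT.lf (nat_lit 228) (nat_lit 46280288582) (nat_lit 0) (nat_lit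 7114175539) (nat_lit 152) (nat_lit 7114175539) (nat_lit 203) (nat_lit 1) (nat_lit 200) (nat_lit 1) (nat_lit 202) (nat_lit 1) (nat_lit 239) (nat_lit 418) (nat_lit 363)) (XT.nd (nat_lit 78) (nat_lit 76) (nat_lit 0) (XT.lf (nat_lit 76) (nat_lit 14063962026) (nat_lit 0) (nat_lit 31338747244) (nat_lit 228) (nat_lit 14063962026) (nat_lit 201) (nat_lit 1) (nat_lit 200) (nat_lit 1) (nat_lit 203) (nat_lit 1) (nat_lit 240) (nat_lit 418) (nat_lit 362)) (XT.lf (nat_lit 152) (nat_lit 10334494167) (nat_lit 0) (nat_lit 24057878303) (nat_lit 76) (nat_lit 24057878303) (nat_lit 201) (nat_lit 1) (nat_lit 199) (nat_lit 1) (nat_lit 200) (nat_lit 1) (nat_lit 241) (nat_lit 418) (nat_lit 361)))) (XT.nd (nat_lit 78) (nat_lit 76) (nat_lit 0) (XT.lf (nat_lit 228) (nat_lit 50791811208) (nat_lit 0) (nat_lit 3335837867) (nat_lit 152) (nat_lit 3335837867) (nat_lit 199) (nat_lit 1) (nat_lit 196) (nat_lit 1) (nat_lit 198) (nat_lit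 1) (nat_lit 242) (nat_lit 418) (nat_lit 360)) (XT.nd (nat_lit 78) (nat_lit 76) (nat_lit 0) (XT.lf (nat_lit 76) (nat_lit 16565182663) (nat_lit 0) (nat_lit 23346013061) (nat_lit 228) (nat_lit 16565182663) (nat_lit 197) (nat_lit 1) (nat_lit 196) (nat_lit 1) (nat_lit 199) (nat_lit 1) (nat_lit 243) (nat_lit 418) (nat_lit 359)) (XT.lf (nat_lit 152) (nat_lit 15933392080) (nat_lit 0) (nat_lit 19792476018) (nat_lit 76) (nat_lit 19792476018) (nat_lit 197) (nat_lit 1) (nat_lit 195) (nat_lit 1) (nat_lit 196) (nat_lit 1) (nat_lit 244) (nat_lit 418) (nat_lit 358))))) (XT.nd (nat_lit 234) (nat_lit 228) (nat_lit 0) (XT.nd (nat_lit 78) (nat_lit 76) (nat_lit 0) (XT.lf (nat_lit 228) (nat_lit 53897885216) (nat_lit 0) (nat_lit 347247826) (nat_lit 152) (nat_lit 347247826) (nat_lit 195) (nat_lit 1) (nat_lit 192) (nat_lit 1) (nat_lit 194) (nat_lit 1) (nat_lit 245) (nat_lit 418) (nat_lit 357)) (XT.nd (nat_lit 78) (nat_lit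 76) (nat_lit 0) (XT.lf (nat_lit 76) (nat_lit 18385098962) (nat_lit 0) (nat_lit 16886392385) (nat_lit 228) (nat_lit 18385098962) (nat_lit 193) (nat_lit 1) (nat_lit 192) (nat_lit 1) (nat_lit 195) (nat_lit 1) (nat_lit 246) (nat_lit 418) (nat_lit 356)) (XT.lf (nat_lit 152) (nat_lit 20185753622) (nat_lit 0) (nat_lit 16283319002) (nat_lit 76) (nat_lit 16283319002) (nat_lit 193) (nat_lit 1) (nat_lit 191) (nat_lit 1) (nat_lit 192) (nat_lit 1) (nat_lit 247) (nat_lit 418) (nat_lit 355)))) (XT.nd (nat_lit 156) (nat_lit 76) (nat_lit 0) (XT.nd (nat_lit 78) (nat_lit 152) (nat_lit 0) (XT.lf (nat_lit 0) (nat_lit 2030065384) (nat_lit 0) (nat_lit 47815361445) (nat_lit 152) (nat_lit 2030065384) (nat_lit 191) (nat_lit 3) (nat_lit 191) (nat_lit 1) (nat_lit 193) (nat_lit 1) (nat_lit 248) (nat_lit 418) (nat_lit 354)) (XT.lf (nat_lit 76) (nat_lit 19655830406) (nat_lit 0) (nat_lit 11682543152) (nat_lit 152) (nat_lit 19655830406)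 (nat_lit 190) (nat_lit 1) (nat_lit 189) (nat_lit 1) (nat_lit 191) (nat_lit 1) (nat_lit 249) (nat_lit 418) (nat_lit 353))) (XT.nd (nat_lit 78) (nat_lit 0) (nat_lit 0) (XT.lf (nat_lit 152) (nat_lit 23347167104) (nat_lit 0) (nat_lit 13396326841) (nat_lit 76) (nat_lit 13396326841) (nat_lit 190) (nat_lit 1) (nat_lit 188) (nat_lit 1) (nat_lit 189) (nat_lit 1) (nat_lit 250) (nat_lit 418) (nat_lit 352)) (XT.lf (nat_lit 0) (nat_lit 3880073469) (nat_lit 0) (nat_lit 41547749848) (nat_lit 152) (nat_lit 3880073469) (nat_lit 188) (nat_lit 3) (nat_lit 188) (nat_lit 1) (nat_lit 190) (nat_lit 1) (nat_lit 251) (nat_lit 418) (nat_lit 351))))))) (XT.nd (nat_lit 936) (nat_lit 988) (nat_lit 0) (XT.nd (nat_lit 468) (nat_lit 456) (nat_lit 0) (XT.nd (nat_lit 234) (nat_lit 228) (nat_lit 0) (XT.nd (nat_lit 78) (nat_lit 76) (nat_lit 0) (XT.lf (nat_lit 76) (nat_lit 20485532690) (nat_lit 0) (nat_lit 7506558445) (nat_lit 152)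 (nat_lit 20485532690) (nat_lit 187) (nat_lit 1) (nat_lit 186) (nat_lit 1) (nat_lit 188) (nat_lit 1) (nat_lit 252) (nat_lit 418) (nat_lit 350)) (XT.nd (nat_lit 78) (nat_lit 0) (nat_lit 0) (XT.lf (nat_lit 152) (nat_lit 25627103246) (nat_lit 0) (nat_lit 11021191245) (nat_lit 76) (nat_lit 11021191245) (nat_lit 187) (nat_lit 1) (nat_lit 185) (nat_lit 1) (nat_lit 186) (nat_lit 1) (nat_lit 253) (nat_lit 418) (nat_lit 349)) (XT.lf (nat_lit 0) (nat_lit 5296844763) (nat_lit 0) (nat_lit 36286135340) (nat_lit 152) (nat_lit 5296844763) (nat_lit 185) (nat_lit 3) (nat_lit 185) (nat_lit 1) (nat_lit 187) (nat_lit 1) (nat_lit 254) (nat_lit 418) (nat_lit 348)))) (XT.nd (nat_lit 78) (nat_lit 76) (nat_lit 0) (XT.lf (nat_lit 76) (nat_lit 20962672129) (nat_lit 0) (nat_lit 4171189240) (nat_lit 152) (nat_lit 20962672129) (nat_lit 184) (nat_lit 1) (nat_lit 183) (nat_lit 1) (nat_lit 185) (nat_lit 1) (nat_lit 255) (nat_lit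 418) (nat_lit 347)) (XT.nd (nat_lit 78) (nat_lit 0) (nat_lit 0) (XT.lf (nat_lit 152) (nat_lit 27197129919) (nat_lit 0) (nat_lit 9067161312) (nat_lit 76) (nat_lit 9067161312) (nat_lit 184) (nat_lit 1) (nat_lit 182) (nat_lit 1) (nat_lit 183) (nat_lit 1) (nat_lit 256) (nat_lit 418) (nat_lit 346)) (XT.lf (nat_lit 0) (nat_lit 6362202265) (nat_lit 0) (nat_lit 31857168314) (nat_lit 152) (nat_lit 6362202265) (nat_lit 182) (nat_lit 3) (nat_lit 182) (nat_lit 1) (nat_lit 184) (nat_lit 1) (nat_lit 257) (nat_lit 418) (nat_lit 345))))) (XT.nd (nat_lit 234) (nat_lit 228) (nat_lit 0) (XT.nd (nat_lit 78) (nat_lit 76) (nat_lit 0) (XT.lf (nat_lit 76) (nat_lit 21159540989) (nat_lit 0) (nat_lit 1522623930) (nat_lit 152) (nat_lit 21159540989) (nat_lit 181) (nat_lit 1) (nat_lit 180) (nat_lit 1) (nat_lit 182) (nat_lit 1) (nat_lit 258) (nat_lit 418) (nat_lit 344)) (XT.nd (nat_lit 78) (nat_lit 0) (nat_lit 0) (XT.lf (nat_lit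 152) (nat_lit 28197668621) (nat_lit 0) (nat_lit 7459576051) (nat_lit 76) (nat_lit 7459576051) (nat_lit 181) (nat_lit 1) (nat_lit 179) (nat_lit 1) (nat_lit 180) (nat_lit 1) (nat_lit 259) (nat_lit 418) (nat_lit 343)) (XT.lf (nat_lit 0) (nat_lit 7143223329) (nat_lit 0) (nat_lit 28117994992) (nat_lit 152) (nat_lit 7143223329) (nat_lit 179) (nat_lit 3) (nat_lit 179) (nat_lit 1) (nat_lit 181) (nat_lit 1) (nat_lit 260) (nat_lit 418) (nat_lit 342)))) (XT.nd (nat_lit 78) (nat_lit 152) (nat_lit 0) (XT.lf (nat_lit 76) (nat_lit 584147787) (nat_lit 0) (nat_lit 20560120800) (nat_lit 76) (nat_lit 20560120800) (nat_lit 179) (nat_lit 3) (nat_lit 178) (nat_lit 1) (nat_lit 179) (nat_lit 1) (nat_lit 261) (nat_lit 418) (nat_lit 341)) (XT.nd (nat_lit 78) (nat_lit 0) (nat_lit 0) (XT.lf (nat_lit 152) (nat_lit 28743551311) (nat_lit 0) (nat_lit 6137011678) (nat_lit 76) (nat_lit 6137011678) (nat_lit 178) (nat_lit 1) (nat_lit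 176) (nat_lit 1) (nat_lit 177) (nat_lit 1) (nat_lit 262) (nat_lit 418) (nat_lit 340)) (XT.lf (nat_lit 0) (nat_lit 7694865396) (nat_lit 0) (nat_lit 24950861952) (nat_lit 152) (nat_lit 7694865396) (nat_lit 176) (nat_lit 3) (nat_lit 176) (nat_lit 1) (nat_lit 178) (nat_lit 1) (nat_lit 263) (nat_lit 418) (nat_lit 339)))))) (XT.nd (nat_lit 468) (nat_lit 532) (nat_lit 0) (XT.nd (nat_lit 234) (nat_lit 228) (nat_lit 0) (XT.nd (nat_lit 78) (nat_lit 152) (nat_lit 0) (XT.lf (nat_lit 76) (nat_lit 2269373234) (nat_lit 0) (nat_lit 18703655668) (nat_lit 76) (nat_lit 18703655668) (nat_lit 176) (nat_lit 3) (nat_lit 175) (nat_lit 1) (nat_lit 176) (nat_lit 1) (nat_lit 264) (nat_lit 418) (nat_lit 338)) (XT.nd (nat_lit 78) (nat_lit 0) (nat_lit 0) (XT.lf (nat_lit 152) (nat_lit 28928590372) (nat_lit 0) (nat_lit 5048934695) (nat_lit 76) (nat_lit 5048934695) (nat_lit 175) (nat_lit 1) (nat_lit 173) (nat_lit 1) (nat_lit 174)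 (nat_lit 1) (nat_lit 265) (nat_lit 418) (nat_lit 337)) (XT.lf (nat_lit 0) (nat_lit 8062125649) (nat_lit 0) (nat_lit 22258676720) (nat_lit 152) (nat_lit 8062125649) (nat_lit 173) (nat_lit 3) (nat_lit 173) (nat_lit 1) (nat_lit 175) (nat_lit 1) (nat_lit 266) (nat_lit 418) (nat_lit 336)))) (XT.nd (nat_lit 78) (nat_lit 152) (nat_lit 0) (XT.lf (nat_lit 76) (nat_lit 3570631741) (nat_lit 0) (nat_lit 17091156571) (nat_lit 76) (nat_lit 17091156571) (nat_lit 173) (nat_lit 3) (nat_lit 172) (nat_lit 1) (nat_lit 173) (nat_lit 1) (nat_lit 267) (nat_lit 418) (nat_lit 335)) (XT.nd (nat_lit 78) (nat_lit 0) (nat_lit 0) (XT.lf (nat_lit 152) (nat_lit 28829336771) (nat_lit 0) (nat_lit 4153771069) (nat_lit 76) (nat_lit 4153771069) (nat_lit 172) (nat_lit 1) (nat_lit 170) (nat_lit 1) (nat_lit 171) (nat_lit 1) (nat_lit 268) (nat_lit 418) (nat_lit 334)) (XT.lf (nat_lit 0) (nat_lit 8281817241) (nat_lit 0) (nat_lit 19961354941)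 (nat_lit 152) (nat_lit 8281817241) (nat_lit 170) (nat_lit 3) (nat_lit 170) (nat_lit 1) (nat_lit 172) (nat_lit 1) (nat_lit 269) (nat_lit 418) (nat_lit 333))))) (XT.nd (nat_lit 234) (nat_lit 304) (nat_lit 0) (XT.nd (nat_lit 78) (nat_lit 152) (nat_lit 0) (XT.lf (nat_lit 76) (nat_lit 4560055919) (nat_lit 0) (nat_lit 15683425157) (nat_lit 76) (nat_lit 15683425157) (nat_lit 170) (nat_lit 3) (nat_lit 169) (nat_lit 1) (nat_lit 170) (nat_lit 1) (nat_lit 270) (nat_lit 418) (nat_lit 332)) (XT.nd (nat_lit 78) (nat_lit 0) (nat_lit 0) (XT.lf (nat_lit 152) (nat_lit 28508170403) (nat_lit 0) (nat_lit 3417317738) (nat_lit 76) (nat_lit 3417317738) (nat_lit 169) (nat_lit 1) (nat_lit 167) (nat_lit 1) (nat_lit 168) (nat_lit 1) (nat_lit 271) (nat_lit 418) (nat_lit 331)) (XT.lf (nat_lit 0) (nat_lit 8384030129) (nat_lit 0) (nat_lit 17992814699) (nat_lit 152) (nat_lit 8384030129) (nat_lit 167) (nat_lit 3) (nat_lit 167)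 (nat_lit 1) (nat_lit 169) (nat_lit 1) (nat_lit 272) (nat_lit 418) (nat_lit 330)))) (XT.nd (nat_lit 156) (nat_lit 76) (nat_lit 0) (XT.nd (nat_lit 78) (nat_lit 152) (nat_lit 0) (XT.lf (nat_lit 76) (nat_lit 5296796288) (nat_lit 0) (nat_lit 14448019688) (nat_lit 76) (nat_lit 14448019688) (nat_lit 167) (nat_lit 3) (nat_lit 166) (nat_lit 1) (nat_lit 167) (nat_lit 1) (nat_lit 273) (nat_lit 418) (nat_lit 329)) (XT.lf (nat_lit 152) (nat_lit 28015841100) (nat_lit 0) (nat_lit 2811435760) (nat_lit 76) (nat_lit 2811435760) (nat_lit 166) (nat_lit 1) (nat_lit 164) (nat_lit 1) (nat_lit 165) (nat_lit 1) (nat_lit 274) (nat_lit 418) (nat_lit 328))) (XT.nd (nat_lit 78) (nat_lit 76) (nat_lit 0) (XT.lf (nat_lit 0) (nat_lit 8393332420) (nat_lit 0) (nat_lit 16298503265) (nat_lit 152) (nat_lit 8393332420) (nat_lit 164) (nat_lit 3) (nat_lit 164) (nat_lit 1) (nat_lit 166) (nat_lit 1) (nat_lit 275) (nat_lit 418) (nat_lit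 327)) (XT.lf (nat_lit 76) (nat_lit 5829332175) (nat_lit 0) (nat_lit 13358066313) (nat_lit 76) (nat_lit 13358066313) (nat_lit 164) (nat_lit 3) (nat_lit 163) (nat_lit 1) (nat_lit 164) (nat_lit 1) (nat_lit 276) (nat_lit 418) (nat_lit 326))))))))
noncomputable def ec343 : XT := (XT.nd (nat_lit 1950) (nat_lit 1900) (nat_lit 0) (XT.nd (nat_lit 936) (nat_lit 1064) (nat_lit 0) (XT.nd (nat_lit 468) (nat_lit 456) (nat_lit 0) (XT.nd (nat_lit 234) (nat_lit 228) (nat_lit 0) (XT.nd (nat_lit 78) (nat_lit 76) (nat_lit 0) (XT.lf (nat_lit 152) (nat_lit 27393557765) (nat_lit 0) (nat_lit 2312975157) (nat_lit 76) (nat_lit 2312975157) (nat_lit 163) (nat_lit 1) (nat_lit 161) (nat_lit 1) (nat_lit 162) (nat_lit 1) (nat_lit 277) (nat_lit 418) (nat_lit 325)) (XT.nd (nat_lit 78) (nat_lit 76) (nat_lit 0) (XT.lf (nat_lit 0) (nat_lit 8329758291) (nat_lit 0) (nat_lit 14833361909) (nat_lit 152) (nat_lit 8329758291) (nat_lit 161)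 (nat_lit 3) (nat_lit 161) (nat_lit 1) (nat_lit 163) (nat_lit 1) (nat_lit 278) (nat_lit 418) (nat_lit 324)) (XT.lf (nat_lit 76) (nat_lit 6197372445) (nat_lit 0) (nat_lit 12391280653) (nat_lit 76) (nat_lit 12391280653) (nat_lit 161) (nat_lit 3) (nat_lit 160) (nat_lit 1) (nat_lit 161) (nat_lit 1) (nat_lit 279) (nat_lit 418) (nat_lit 323)))) (XT.nd (nat_lit 78) (nat_lit 76) (nat_lit 0) (XT.lf (nat_lit 152) (nat_lit 26674705823) (nat_lit 0) (nat_lit 1902890386) (nat_lit 76) (nat_lit 1902890386) (nat_lit 160) (nat_lit 1) (nat_lit 158) (nat_lit 1) (nat_lit 159) (nat_lit 1) (nat_lit 280) (nat_lit 418) (nat_lit 322)) (XT.nd (nat_lit 78) (nat_lit 76) (nat_lit 0) (XT.lf (nat_lit 0) (nat_lit 8209620320) (nat_lit 0) (nat_lit 13560151112) (nat_lit 152) (nat_lit 8209620320) (nat_lit 158) (nat_lit 3) (nat_lit 158) (nat_lit 1) (nat_lit 160) (nat_lit 1) (nat_lit 281) (nat_lit 418) (nat_lit 321)) (XT.lf (nat_lit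 76) (nat_lit 6433418827) (nat_lit 0) (nat_lit 11529162438) (nat_lit 76) (nat_lit 11529162438) (nat_lit 158) (nat_lit 3) (nat_lit 157) (nat_lit 1) (nat_lit 158) (nat_lit 1) (nat_lit 282) (nat_lit 418) (nat_lit 320))))) (XT.nd (nat_lit 234) (nat_lit 228) (nat_lit 0) (XT.nd (nat_lit 78) (nat_lit 76) (nat_lit 0) (XT.lf (nat_lit 152) (nat_lit 25886258930) (nat_lit 0) (nat_lit 1565512630) (nat_lit 76) (nat_lit 1565512630) (nat_lit 157) (nat_lit 1) (nat_lit 155) (nat_lit 1) (nat_lit 156) (nat_lit 1) (nat_lit 283) (nat_lit 418) (nat_lit 319)) (XT.nd (nat_lit 78) (nat_lit 76) (nat_lit 0) (XT.lf (nat_lit 0) (nat_lit 8046177392) (nat_lit 0) (nat_lit 12448072316) (nat_lit 152) (nat_lit 8046177392) (nat_lit 155) (nat_lit 3) (nat_lit 155) (nat_lit 1) (nat_lit 157) (nat_lit 1) (nat_lit 284) (nat_lit 418) (nat_lit 318)) (XT.lf (nat_lit 76) (nat_lit 6564051666) (nat_lit 0) (nat_lit 10756332546) (nat_lit 76) (nat_lit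 10756332546) (nat_lit 155) (nat_lit 3) (nat_lit 154) (nat_lit 1) (nat_lit 155) (nat_lit 1) (nat_lit 285) (nat_lit 418) (nat_lit 317)))) (XT.nd (nat_lit 78) (nat_lit 76) (nat_lit 0) (XT.lf (nat_lit 152) (nat_lit 25049939222) (nat_lit 0) (nat_lit 1287951115) (nat_lit 76) (nat_lit 1287951115) (nat_lit 154) (nat_lit 1) (nat_lit 152) (nat_lit 1) (nat_lit 153) (nat_lit 1) (nat_lit 286) (nat_lit 418) (nat_lit 316)) (XT.nd (nat_lit 78) (nat_lit 76) (nat_lit 0) (XT.lf (nat_lit 0) (nat_lit 7850183803) (nat_lit 0) (nat_lit 11471633651) (nat_lit 152) (nat_lit 7850183803) (nat_lit 152) (nat_lit 3) (nat_lit 152) (nat_lit 1) (nat_lit 154) (nat_lit 1) (nat_lit 287) (nat_lit 418) (nat_lit 315)) (XT.lf (nat_lit 76) (nat_lit 6610987337) (nat_lit 0) (nat_lit 10059987192) (nat_lit 76) (nat_lit 10059987192) (nat_lit 152) (nat_lit 3) (nat_lit 151) (nat_lit 1) (nat_lit 152) (nat_lit 1) (nat_lit 288) (nat_lit 418) (nat_lit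 314)))))) (XT.nd (nat_lit 468) (nat_lit 608) (nat_lit 0) (XT.nd (nat_lit 234) (nat_lit 228) (nat_lit 0) (XT.nd (nat_lit 78) (nat_lit 76) (nat_lit 0) (XT.lf (nat_lit 152) (nat_lit 24183170742) (nat_lit 0) (nat_lit 1059600569) (nat_lit 76) (nat_lit 1059600569) (nat_lit 151) (nat_lit 1) (nat_lit 149) (nat_lit 1) (nat_lit 150) (nat_lit 1) (nat_lit 289) (nat_lit 418) (nat_lit 313)) (XT.nd (nat_lit 78) (nat_lit 76) (nat_lit 0) (XT.lf (nat_lit 0) (nat_lit 7630340642) (nat_lit 0) (nat_lit 10609716394) (nat_lit 152) (nat_lit 7630340642) (nat_lit 149) (nat_lit 3) (nat_lit 149) (nat_lit 1) (nat_lit 151) (nat_lit 1) (nat_lit 290) (nat_lit 418) (nat_lit 312)) (XT.lf (nat_lit 76) (nat_lit 6591947820) (nat_lit 0) (nat_lit 9429448536) (nat_lit 76) (nat_lit 9429448536) (nat_lit 149) (nat_lit 3) (nat_lit 148) (nat_lit 1) (nat_lit 149) (nat_lit 1) (nat_lit 291) (nat_lit 418) (nat_lit 311)))) (XT.nd (nat_lit 78) (nat_lit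 76) (nat_lit 0) (XT.lf (nat_lit 152) (nat_lit 23299862751) (nat_lit 0) (nat_lit 871736011) (nat_lit 76) (nat_lit 871736011) (nat_lit 148) (nat_lit 1) (nat_lit 146) (nat_lit 1) (nat_lit 147) (nat_lit 1) (nat_lit 292) (nat_lit 418) (nat_lit 310)) (XT.nd (nat_lit 78) (nat_lit 76) (nat_lit 0) (XT.lf (nat_lit 0) (nat_lit 7393666797) (nat_lit 0) (nat_lit 9844806601) (nat_lit 152) (nat_lit 7393666797) (nat_lit 146) (nat_lit 3) (nat_lit 146) (nat_lit 1) (nat_lit 148) (nat_lit 1) (nat_lit 293) (nat_lit 418) (nat_lit 309)) (XT.lf (nat_lit 76) (nat_lit 6521375764) (nat_lit 0) (nat_lit 8855794625) (nat_lit 76) (nat_lit 8855794625) (nat_lit 146) (nat_lit 3) (nat_lit 145) (nat_lit 1) (nat_lit 146) (nat_lit 1) (nat_lit 294) (nat_lit 418) (nat_lit 308))))) (XT.nd (nat_lit 234) (nat_lit 380) (nat_lit 0) (XT.nd (nat_lit 78) (nat_lit 76) (nat_lit 0) (XT.lf (nat_lit 152) (nat_lit 22411053161) (nat_lit 0) (nat_lit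 717179373) (nat_lit 76) (nat_lit 717179373) (nat_lit 145) (nat_lit 1) (nat_lit 143) (nat_lit 1) (nat_lit 144) (nat_lit 1) (nat_lit 295) (nat_lit 418) (nat_lit 307)) (XT.nd (nat_lit 78) (nat_lit 76) (nat_lit 0) (XT.lf (nat_lit 0) (nat_lit 7145803844) (nat_lit 0) (nat_lit 9162362628) (nat_lit 152) (nat_lit 7145803844) (nat_lit 143) (nat_lit 3) (nat_lit 143) (nat_lit 1) (nat_lit 145) (nat_lit 1) (nat_lit 296) (nat_lit 418) (nat_lit 306)) (XT.lf (nat_lit 76) (nat_lit 6411022436) (nat_lit 0) (nat_lit 8331554610) (nat_lit 76) (nat_lit 8331554610) (nat_lit 143) (nat_lit 3) (nat_lit 142) (nat_lit 1) (nat_lit 143) (nat_lit 1) (nat_lit 297) (nat_lit 418) (nat_lit 305)))) (XT.nd (nat_lit 156) (nat_lit 228) (nat_lit 0) (XT.nd (nat_lit 78) (nat_lit 0) (nat_lit 0) (XT.lf (nat_lit 152) (nat_lit 21525436910) (nat_lit 0) (nat_lit 590025245) (nat_lit 76) (nat_lit 590025245) (nat_lit 142) (nat_lit 1) (nat_lit 140)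 (nat_lit 1) (nat_lit 141) (nat_lit 1) (nat_lit 298) (nat_lit 418) (nat_lit 304)) (XT.lf (nat_lit 0) (nat_lit 6891266577) (nat_lit 0) (nat_lit 8550294478) (nat_lit 152) (nat_lit 6891266577) (nat_lit 140) (nat_lit 3) (nat_lit 140) (nat_lit 1) (nat_lit 142) (nat_lit 1) (nat_lit 299) (nat_lit 418) (nat_lit 303))) (XT.nd (nat_lit 78) (nat_lit 152) (nat_lit 0) (XT.lf (nat_lit 76) (nat_lit 6270431124) (nat_lit 0) (nat_lit 7850457697) (nat_lit 76) (nat_lit 7850457697) (nat_lit 140) (nat_lit 3) (nat_lit 139) (nat_lit 1) (nat_lit 140) (nat_lit 1) (nat_lit 300) (nat_lit 418) (nat_lit 302)) (XT.lf (nat_lit 152) (nat_lit 20649799753) (nat_lit 0) (nat_lit 485415229) (nat_lit 76) (nat_lit 485415229) (nat_lit 139) (nat_lit 1) (nat_lit 137) (nat_lit 1) (nat_lit 138) (nat_lit 1) (nat_lit 301) (nat_lit 418) (nat_lit 301))))))) (XT.nd (nat_lit 1014) (nat_lit 988) (nat_lit 0) (XT.nd (nat_lit 468) (nat_lit 456) (nat_lit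 0) (XT.nd (nat_lit 234) (nat_lit 228) (nat_lit 0) (XT.nd (nat_lit 78) (nat_lit 228) (nat_lit 0) (XT.lf (nat_lit 0) (nat_lit 6633648800) (nat_lit 0) (nat_lit 7998535160) (nat_lit 152) (nat_lit 6633648800) (nat_lit 137) (nat_lit 3) (nat_lit 137) (nat_lit 1) (nat_lit 139) (nat_lit 1) (nat_lit 302) (nat_lit 418) (nat_lit 300)) (XT.nd (nat_lit 78) (nat_lit 152) (nat_lit 0) (XT.lf (nat_lit 76) (nat_lit 6107334538) (nat_lit 0) (nat_lit 7407226310) (nat_lit 76) (nat_lit 7407226310) (nat_lit 137) (nat_lit 3) (nat_lit 136) (nat_lit 1) (nat_lit 137) (nat_lit 1) (nat_lit 303) (nat_lit 418) (nat_lit 299)) (XT.lf (nat_lit 152) (nat_lit 19789374251) (nat_lit 0) (nat_lit 399352310) (nat_lit 76) (nat_lit 399352310) (nat_lit 136) (nat_lit 1) (nat_lit 134) (nat_lit 1) (nat_lit 135) (nat_lit 1) (nat_lit 304) (nat_lit 418) (nat_lit 298)))) (XT.nd (nat_lit 78) (nat_lit 228) (nat_lit 0) (XT.lf (nat_lit 0) (nat_lit 6375792364)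 (nat_lit 0) (nat_lit 7498687750) (nat_lit 152) (nat_lit 6375792364) (nat_lit 134) (nat_lit 3) (nat_lit 134) (nat_lit 1) (nat_lit 136) (nat_lit 1) (nat_lit 305) (nat_lit 418) (nat_lit 297)) (XT.nd (nat_lit 78) (nat_lit 152) (nat_lit 0) (XT.lf (nat_lit 76) (nat_lit 5927981462) (nat_lit 0) (nat_lit 6997405639) (nat_lit 76) (nat_lit 6997405639) (nat_lit 134) (nat_lit 3) (nat_lit 133) (nat_lit 1) (nat_lit 134) (nat_lit 1) (nat_lit 306) (nat_lit 418) (nat_lit 296)) (XT.lf (nat_lit 152) (nat_lit 18948131829) (nat_lit 0) (nat_lit 328548134) (nat_lit 76) (nat_lit 328548134) (nat_lit 133) (nat_lit 1) (nat_lit 131) (nat_lit 1) (nat_lit 132) (nat_lit 1) (nat_lit 307) (nat_lit 418) (nat_lit 295))))) (XT.nd (nat_lit 234) (nat_lit 228) (nat_lit 0) (XT.nd (nat_lit 78) (nat_lit 228) (nat_lit 0) (XT.lf (nat_lit 0) (nat_lit 6119925946) (nat_lit 0) (nat_lit 7043734759) (nat_lit 152) (nat_lit 6119925946) (nat_lit 131)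 (nat_lit 3) (nat_lit 131) (nat_lit 1) (nat_lit 133) (nat_lit 1) (nat_lit 308) (nat_lit 418) (nat_lit 294)) (XT.nd (nat_lit 78) (nat_lit 152) (nat_lit 0) (XT.lf (nat_lit 76) (nat_lit 5737405231) (nat_lit 0) (nat_lit 6617223149) (nat_lit 76) (nat_lit 6617223149) (nat_lit 131) (nat_lit 3) (nat_lit 130) (nat_lit 1) (nat_lit 131) (nat_lit 1) (nat_lit 309) (nat_lit 418) (nat_lit 293)) (XT.lf (nat_lit 152) (nat_lit 18129022242) (nat_lit 0) (nat_lit 270297363) (nat_lit 76) (nat_lit 270297363) (nat_lit 130) (nat_lit 1) (nat_lit 128) (nat_lit 1) (nat_lit 129) (nat_lit 1) (nat_lit 310) (nat_lit 418) (nat_lit 292)))) (XT.nd (nat_lit 156) (nat_lit 152) (nat_lit 0) (XT.nd (nat_lit 78) (nat_lit 76) (nat_lit 0) (XT.lf (nat_lit 0) (nat_lit 5867778973) (nat_lit 0) (nat_lit 6627798770) (nat_lit 152) (nat_lit 5867778973) (nat_lit 128) (nat_lit 3) (nat_lit 128) (nat_lit 1) (nat_lit 130) (nat_lit 1) (nat_lit 311) (nat_lit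 418) (nat_lit 291)) (XT.lf (nat_lit 76) (nat_lit 5539644351) (nat_lit 0) (nat_lit 6263472730) (nat_lit 76) (nat_lit 6263472730) (nat_lit 128) (nat_lit 3) (nat_lit 127) (nat_lit 1) (nat_lit 128) (nat_lit 1) (nat_lit 312) (nat_lit 418) (nat_lit 290))) (XT.nd (nat_lit 78) (nat_lit 0) (nat_lit 0) (XT.lf (nat_lit 152) (nat_lit 17334169839) (nat_lit 0) (nat_lit 222374309) (nat_lit 76) (nat_lit 222374309) (nat_lit 127) (nat_lit 1) (nat_lit 125) (nat_lit 1) (nat_lit 126) (nat_lit 1) (nat_lit 313) (nat_lit 418) (nat_lit 289)) (XT.lf (nat_lit 0) (nat_lit 5620675094) (nat_lit 0) (nat_lit 6245945262) (nat_lit 152) (nat_lit 5620675094) (nat_lit 125) (nat_lit 3) (nat_lit 125) (nat_lit 1) (nat_lit 127) (nat_lit 1) (nat_lit 314) (nat_lit 418) (nat_lit 288)))))) (XT.nd (nat_lit 468) (nat_lit 532) (nat_lit 0) (XT.nd (nat_lit 234) (nat_lit 228) (nat_lit 0) (XT.nd (nat_lit 78) (nat_lit 152) (nat_lit 0) (XT.lf (nat_lit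 76) (nat_lit 5337923754) (nat_lit 0) (nat_lit 5933419152) (nat_lit 76) (nat_lit 5933419152) (nat_lit 125) (nat_lit 3) (nat_lit 124) (nat_lit 1) (nat_lit 125) (nat_lit 1) (nat_lit 315) (nat_lit 418) (nat_lit 287)) (XT.nd (nat_lit 78) (nat_lit 0) (nat_lit 0) (XT.lf (nat_lit 152) (nat_lit 16565034305) (nat_lit 0) (nat_lit 182947894) (nat_lit 76) (nat_lit 182947894) (nat_lit 124) (nat_lit 1) (nat_lit 122) (nat_lit 1) (nat_lit 123) (nat_lit 1) (nat_lit 316) (nat_lit 418) (nat_lit 286)) (XT.lf (nat_lit 0) (nat_lit 5379608844) (nat_lit 0) (nat_lit 5894020159) (nat_lit 152) (nat_lit 5379608844) (nat_lit 122) (nat_lit 3) (nat_lit 122) (nat_lit 1) (nat_lit 124) (nat_lit 1) (nat_lit 317) (nat_lit 418) (nat_lit 285)))) (XT.nd (nat_lit 78) (nat_lit 152) (nat_lit 0) (XT.lf (nat_lit 76) (nat_lit 5134803690) (nat_lit 0) (nat_lit 5624719227) (nat_lit 76) (nat_lit 5624719227) (nat_lit 122) (nat_lit 3) (nat_lit 121)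 (nat_lit 1) (nat_lit 122) (nat_lit 1) (nat_lit 318) (nat_lit 418) (nat_lit 284)) (XT.nd (nat_lit 78) (nat_lit 0) (nat_lit 0) (XT.lf (nat_lit 152) (nat_lit 15822542223) (nat_lit 0) (nat_lit 150511685) (nat_lit 76) (nat_lit 150511685) (nat_lit 121) (nat_lit 1) (nat_lit 119) (nat_lit 1) (nat_lit 120) (nat_lit 1) (nat_lit 319) (nat_lit 418) (nat_lit 283)) (XT.lf (nat_lit 0) (nat_lit 5145308495) (nat_lit 0) (nat_lit 5568515956) (nat_lit 152) (nat_lit 5145308495) (nat_lit 119) (nat_lit 3) (nat_lit 119) (nat_lit 1) (nat_lit 121) (nat_lit 1) (nat_lit 320) (nat_lit 418) (nat_lit 282))))) (XT.nd (nat_lit 234) (nat_lit 304) (nat_lit 0) (XT.nd (nat_lit 78) (nat_lit 152) (nat_lit 0) (XT.lf (nat_lit 76) (nat_lit 4932301995) (nat_lit 0) (nat_lit 5335356720) (nat_lit 76) (nat_lit 5335356720) (nat_lit 119) (nat_lit 3) (nat_lit 118) (nat_lit 1) (nat_lit 119) (nat_lit 1) (nat_lit 321) (nat_lit 418) (nat_lit 281))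 (XT.nd (nat_lit 78) (nat_lit 0) (nat_lit 0) (XT.lf (nat_lit 152) (nat_lit 15107194650) (nat_lit 0) (nat_lit 123826336) (nat_lit 76) (nat_lit 123826336) (nat_lit 118) (nat_lit 1) (nat_lit 116) (nat_lit 1) (nat_lit 117) (nat_lit 1) (nat_lit 322) (nat_lit 418) (nat_lit 280)) (XT.lf (nat_lit 0) (nat_lit 4918287542) (nat_lit 0) (nat_lit 5266461368) (nat_lit 152) (nat_lit 4918287542) (nat_lit 116) (nat_lit 3) (nat_lit 116) (nat_lit 1) (nat_lit 118) (nat_lit 1) (nat_lit 323) (nat_lit 418) (nat_lit 279)))) (XT.nd (nat_lit 156) (nat_lit 76) (nat_lit 0) (XT.nd (nat_lit 78) (nat_lit 152) (nat_lit 0) (XT.lf (nat_lit 76) (nat_lit 4731994479) (nat_lit 0) (nat_lit 5063588599) (nat_lit 76) (nat_lit 5063588599) (nat_lit 116) (nat_lit 3) (nat_lit 115) (nat_lit 1) (nat_lit 116) (nat_lit 1) (nat_lit 324) (nat_lit 418) (nat_lit 278)) (XT.lf (nat_lit 152) (nat_lit 14419155002) (nat_lit 0) (nat_lit 101872233) (nat_lit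 76) (nat_lit 101872233) (nat_lit 115) (nat_lit 1) (nat_lit 113) (nat_lit 1) (nat_lit 114) (nat_lit 1) (nat_lit 325) (nat_lit 418) (nat_lit 277))) (XT.nd (nat_lit 78) (nat_lit 76) (nat_lit 0) (XT.lf (nat_lit 0) (nat_lit 4698886866) (nat_lit 0) (nat_lit 4985330334) (nat_lit 152) (nat_lit 4698886866) (nat_lit 113) (nat_lit 3) (nat_lit 113) (nat_lit 1) (nat_lit 115) (nat_lit 1) (nat_lit 326) (nat_lit 418) (nat_lit 276)) (XT.lf (nat_lit 76) (nat_lit 4535097302) (nat_lit 0) (nat_lit 4807900606) (nat_lit 76) (nat_lit 4807900606) (nat_lit 113) (nat_lit 3) (nat_lit 112) (nat_lit 1) (nat_lit 113) (nat_lit 1) (nat_lit 327) (nat_lit 418) (nat_lit 275))))))))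
noncomputable def ec344 : XT := (XT.nd (nat_lit 1950) (nat_lit 1824) (nat_lit 0) (XT.nd (nat_lit 936) (nat_lit 1064) (nat_lit 0) (XT.nd (nat_lit 468) (nat_lit 456) (nat_lit 0) (XT.nd (nat_lit 234) (nat_lit 228) (nat_lit 0) (XT.nd (nat_lit 78) (nat_lit 76) (nat_lit 0) (XT.lf (nat_lit 152) (nat_lit 13758320768) (nat_lit 0) (nat_lit 83810538) (nat_lit 76) (nat_lit 83810538) (nat_lit 112) (nat_lit 1) (nat_lit 110) (nat_lit 1) (nat_lit 111) (nat_lit 1) (nat_lit 328) (nat_lit 418) (nat_lit 274)) (XT.nd (nat_lit 78) (nat_lit 76) (nat_lit 0) (XT.lf (nat_lit 0) (nat_lit 4487309218) (nat_lit 0) (nat_lit 4722966968) (nat_lit 152) (nat_lit 4487309218) (nat_lit 110) (nat_lit 3) (nat_lit 110) (nat_lit 1) (nat_lit 112) (nat_lit 1) (nat_lit 329) (nat_lit 418) (nat_lit 273)) (XT.lf (nat_lit 76) (nat_lit 4342534569) (nat_lit 0) (nat_lit 4566970521) (nat_lit 76) (nat_lit 4566970521) (nat_lit 110) (nat_lit 3) (nat_lit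 109) (nat_lit 1) (nat_lit 110) (nat_lit 1) (nat_lit 330) (nat_lit 418) (nat_lit 272)))) (XT.nd (nat_lit 78) (nat_lit 76) (nat_lit 0) (XT.lf (nat_lit 152) (nat_lit 13124381938) (nat_lit 0) (nat_lit 68951137) (nat_lit 76) (nat_lit 68951137) (nat_lit 109) (nat_lit 1) (nat_lit 107) (nat_lit 1) (nat_lit 108) (nat_lit 1) (nat_lit 331) (nat_lit 418) (nat_lit 271)) (XT.nd (nat_lit 78) (nat_lit 76) (nat_lit 0) (XT.lf (nat_lit 0) (nat_lit 4283647413) (nat_lit 0) (nat_lit 4477523627) (nat_lit 152) (nat_lit 4283647413) (nat_lit 107) (nat_lit 3) (nat_lit 107) (nat_lit 1) (nat_lit 109) (nat_lit 1) (nat_lit 332) (nat_lit 418) (nat_lit 270)) (XT.lf (nat_lit 76) (nat_lit 4154993741) (nat_lit 0) (nat_lit 4339637754) (nat_lit 76) (nat_lit 4339637754) (nat_lit 107) (nat_lit 3) (nat_lit 106) (nat_lit 1) (nat_lit 107) (nat_lit 1) (nat_lit 333) (nat_lit 418) (nat_lit 269))))) (XT.nd (nat_lit 234) (nat_lit 228) (nat_lit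 0) (XT.nd (nat_lit 78) (nat_lit 76) (nat_lit 0) (XT.lf (nat_lit 152) (nat_lit 12516868542) (nat_lit 0) (nat_lit 56726271) (nat_lit 76) (nat_lit 56726271) (nat_lit 106) (nat_lit 1) (nat_lit 104) (nat_lit 1) (nat_lit 105) (nat_lit 1) (nat_lit 334) (nat_lit 418) (nat_lit 268)) (XT.nd (nat_lit 78) (nat_lit 76) (nat_lit 0) (XT.lf (nat_lit 0) (nat_lit 4087907341) (nat_lit 0) (nat_lit 4247409783) (nat_lit 152) (nat_lit 4087907341) (nat_lit 104) (nat_lit 3) (nat_lit 104) (nat_lit 1) (nat_lit 106) (nat_lit 1) (nat_lit 335) (nat_lit 418) (nat_lit 267)) (XT.lf (nat_lit 76) (nat_lit 3972971066) (nat_lit 0) (nat_lit 4124878153) (nat_lit 76) (nat_lit 4124878153) (nat_lit 104) (nat_lit 3) (nat_lit 103) (nat_lit 1) (nat_lit 104) (nat_lit 1) (nat_lit 336) (nat_lit 418) (nat_lit 266)))) (XT.nd (nat_lit 78) (nat_lit 76) (nat_lit 0) (XT.lf (nat_lit 152) (nat_lit 11935189242) (nat_lit 0) (nat_lit 46668843) (nat_lit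 76) (nat_lit 46668843) (nat_lit 103) (nat_lit 1) (nat_lit 101) (nat_lit 1) (nat_lit 102) (nat_lit 1) (nat_lit 337) (nat_lit 418) (nat_lit 265)) (XT.nd (nat_lit 78) (nat_lit 76) (nat_lit 0) (XT.lf (nat_lit 0) (nat_lit 3900026737) (nat_lit 0) (nat_lit 4031249791) (nat_lit 152) (nat_lit 3900026737) (nat_lit 101) (nat_lit 3) (nat_lit 101) (nat_lit 1) (nat_lit 103) (nat_lit 1) (nat_lit 338) (nat_lit 418) (nat_lit 264)) (XT.lf (nat_lit 76) (nat_lit 3796808778) (nat_lit 0) (nat_lit 3921783115) (nat_lit 76) (nat_lit 3921783115) (nat_lit 101) (nat_lit 3) (nat_lit 100) (nat_lit 1) (nat_lit 101) (nat_lit 1) (nat_lit 339) (nat_lit 418) (nat_lit 263)))))) (XT.nd (nat_lit 468) (nat_lit 608) (nat_lit 0) (XT.nd (nat_lit 234) (nat_lit 228) (nat_lit 0) (XT.nd (nat_lit 78) (nat_lit 76) (nat_lit 0) (XT.lf (nat_lit 152) (nat_lit 11378662598) (nat_lit 0) (nat_lit 38394573) (nat_lit 76) (nat_lit 38394573) (nat_lit 100)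 (nat_lit 1) (nat_lit 98) (nat_lit 1) (nat_lit 99) (nat_lit 1) (nat_lit 340) (nat_lit 418) (nat_lit 262)) (XT.nd (nat_lit 78) (nat_lit 76) (nat_lit 0) (XT.lf (nat_lit 0) (nat_lit 3719890459) (nat_lit 0) (nat_lit 3827847990) (nat_lit 152) (nat_lit 3719890459) (nat_lit 98) (nat_lit 3) (nat_lit 98) (nat_lit 1) (nat_lit 100) (nat_lit 1) (nat_lit 341) (nat_lit 418) (nat_lit 261)) (XT.lf (nat_lit 76) (nat_lit 3626725550) (nat_lit 0) (nat_lit 3729542246) (nat_lit 76) (nat_lit 3729542246) (nat_lit 98) (nat_lit 3) (nat_lit 97) (nat_lit 1) (nat_lit 98) (nat_lit 1) (nat_lit 342) (nat_lit 418) (nat_lit 260)))) (XT.nd (nat_lit 78) (nat_lit 76) (nat_lit 0) (XT.lf (nat_lit 152) (nat_lit 10846542329) (nat_lit 0) (nat_lit 31587310) (nat_lit 76) (nat_lit 31587310) (nat_lit 97) (nat_lit 1) (nat_lit 95) (nat_lit 1) (nat_lit 96) (nat_lit 1) (nat_lit 343) (nat_lit 418) (nat_lit 259)) (XT.nd (nat_lit 78) (nat_lit 76)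 (nat_lit 0) (XT.lf (nat_lit 0) (nat_lit 3547342906) (nat_lit 0) (nat_lit 3636159834) (nat_lit 152) (nat_lit 3547342906) (nat_lit 95) (nat_lit 3) (nat_lit 95) (nat_lit 1) (nat_lit 97) (nat_lit 1) (nat_lit 344) (nat_lit 418) (nat_lit 258)) (XT.lf (nat_lit 76) (nat_lit 3462841391) (nat_lit 0) (nat_lit 3547428942) (nat_lit 76) (nat_lit 3547428942) (nat_lit 95) (nat_lit 3) (nat_lit 94) (nat_lit 1) (nat_lit 95) (nat_lit 1) (nat_lit 345) (nat_lit 418) (nat_lit 257))))) (XT.nd (nat_lit 234) (nat_lit 380) (nat_lit 0) (XT.nd (nat_lit 78) (nat_lit 76) (nat_lit 0) (XT.lf (nat_lit 152) (nat_lit 10338037645) (nat_lit 0) (nat_lit 25986958) (nat_lit 76) (nat_lit 25986958) (nat_lit 94) (nat_lit 1) (nat_lit 92) (nat_lit 1) (nat_lit 93) (nat_lit 1) (nat_lit 346) (nat_lit 418) (nat_lit 256)) (XT.nd (nat_lit 78) (nat_lit 76) (nat_lit 0) (XT.lf (nat_lit 0) (nat_lit 3382198092) (nat_lit 0) (nat_lit 3455267998) (nat_lit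 152) (nat_lit 3382198092) (nat_lit 92) (nat_lit 3) (nat_lit 92) (nat_lit 1) (nat_lit 94) (nat_lit 1) (nat_lit 347) (nat_lit 418) (nat_lit 255)) (XT.lf (nat_lit 76) (nat_lit 3305197998) (nat_lit 0) (nat_lit 3374788385) (nat_lit 76) (nat_lit 3374788385) (nat_lit 92) (nat_lit 3) (nat_lit 91) (nat_lit 1) (nat_lit 92) (nat_lit 1) (nat_lit 348) (nat_lit 418) (nat_lit 254)))) (XT.nd (nat_lit 156) (nat_lit 228) (nat_lit 0) (XT.nd (nat_lit 78) (nat_lit 0) (nat_lit 0) (XT.lf (nat_lit 152) (nat_lit 9852329563) (nat_lit 0) (nat_lit 21379535) (nat_lit 76) (nat_lit 21379535) (nat_lit 91) (nat_lit 1) (nat_lit 89) (nat_lit 1) (nat_lit 90) (nat_lit 1) (nat_lit 349) (nat_lit 418) (nat_lit 253)) (XT.lf (nat_lit 0) (nat_lit 3224247792) (nat_lit 0) (nat_lit 3284362585) (nat_lit 152) (nat_lit 3224247792) (nat_lit 89) (nat_lit 3) (nat_lit 89) (nat_lit 1) (nat_lit 91) (nat_lit 1) (nat_lit 350) (nat_lit 418) (nat_lit 252)))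 (XT.nd (nat_lit 78) (nat_lit 152) (nat_lit 0) (XT.lf (nat_lit 76) (nat_lit 3153775349) (nat_lit 0) (nat_lit 3211027533) (nat_lit 76) (nat_lit 3211027533) (nat_lit 89) (nat_lit 3) (nat_lit 88) (nat_lit 1) (nat_lit 89) (nat_lit 1) (nat_lit 351) (nat_lit 418) (nat_lit 251)) (XT.lf (nat_lit 152) (nat_lit 9388583921) (nat_lit 0) (nat_lit 17588996) (nat_lit 76) (nat_lit 17588996) (nat_lit 88) (nat_lit 1) (nat_lit 86) (nat_lit 1) (nat_lit 87) (nat_lit 1) (nat_lit 352) (nat_lit 418) (nat_lit 250))))))) (XT.nd (nat_lit 936) (nat_lit 912) (nat_lit 0) (XT.nd (nat_lit 468) (nat_lit 456) (nat_lit 0) (XT.nd (nat_lit 234) (nat_lit 228) (nat_lit 0) (XT.nd (nat_lit 78) (nat_lit 228) (nat_lit 0) (XT.lf (nat_lit 0) (nat_lit 3073268116) (nat_lit 0) (nat_lit 3122724704) (nat_lit 152) (nat_lit 3073268116) (nat_lit 86) (nat_lit 3) (nat_lit 86) (nat_lit 1) (nat_lit 88) (nat_lit 1) (nat_lit 353) (nat_lit 418) (nat_lit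 249)) (XT.nd (nat_lit 78) (nat_lit 152) (nat_lit 0) (XT.lf (nat_lit 76) (nat_lit 3008505239) (nat_lit 0) (nat_lit 3055606752) (nat_lit 76) (nat_lit 3055606752) (nat_lit 86) (nat_lit 3) (nat_lit 85) (nat_lit 1) (nat_lit 86) (nat_lit 1) (nat_lit 354) (nat_lit 418) (nat_lit 248)) (XT.lf (nat_lit 152) (nat_lit 8945961710) (nat_lit 0) (nat_lit 14470510) (nat_lit 76) (nat_lit 14470510) (nat_lit 85) (nat_lit 1) (nat_lit 83) (nat_lit 1) (nat_lit 84) (nat_lit 1) (nat_lit 355) (nat_lit 418) (nat_lit 247)))) (XT.nd (nat_lit 78) (nat_lit 228) (nat_lit 0) (XT.lf (nat_lit 0) (nat_lit 2929024787) (nat_lit 0) (nat_lit 2969712845) (nat_lit 152) (nat_lit 2929024787) (nat_lit 83) (nat_lit 3) (nat_lit 83) (nat_lit 1) (nat_lit 85) (nat_lit 1) (nat_lit 356) (nat_lit 418) (nat_lit 246)) (XT.nd (nat_lit 78) (nat_lit 152) (nat_lit 0) (XT.lf (nat_lit 76) (nat_lit 2869282280) (nat_lit 0) (nat_lit 2908032812) (nat_lit 76)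 (nat_lit 2908032812) (nat_lit 83) (nat_lit 3) (nat_lit 82) (nat_lit 1) (nat_lit 83) (nat_lit 1) (nat_lit 357) (nat_lit 418) (nat_lit 245)) (XT.lf (nat_lit 152) (nat_lit 8523627203) (nat_lit 0) (nat_lit 11904925) (nat_lit 76) (nat_lit 11904925) (nat_lit 82) (nat_lit 1) (nat_lit 80) (nat_lit 1) (nat_lit 81) (nat_lit 1) (nat_lit 358) (nat_lit 418) (nat_lit 244))))) (XT.nd (nat_lit 234) (nat_lit 228) (nat_lit 0) (XT.nd (nat_lit 78) (nat_lit 228) (nat_lit 0) (XT.lf (nat_lit 0) (nat_lit 2791277372) (nat_lit 0) (nat_lit 2824751538) (nat_lit 152) (nat_lit 2791277372) (nat_lit 80) (nat_lit 3) (nat_lit 80) (nat_lit 1) (nat_lit 82) (nat_lit 1) (nat_lit 359) (nat_lit 418) (nat_lit 243)) (XT.nd (nat_lit 78) (nat_lit 152) (nat_lit 0) (XT.lf (nat_lit 76) (nat_lit 2735972847) (nat_lit 0) (nat_lit 2767853005) (nat_lit 76) (nat_lit 2767853005) (nat_lit 80) (nat_lit 3) (nat_lit 79) (nat_lit 1) (nat_lit 80) (nat_lit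 1) (nat_lit 360) (nat_lit 418) (nat_lit 242)) (XT.lf (nat_lit 152) (nat_lit 8120754304) (nat_lit 0) (nat_lit 9794211) (nat_lit 76) (nat_lit 9794211) (nat_lit 79) (nat_lit 1) (nat_lit 77) (nat_lit 1) (nat_lit 78) (nat_lit 1) (nat_lit 361) (nat_lit 418) (nat_lit 241)))) (XT.nd (nat_lit 78) (nat_lit 228) (nat_lit 0) (XT.lf (nat_lit 0) (nat_lit 2659782641) (nat_lit 0) (nat_lit 2687321920) (nat_lit 152) (nat_lit 2659782641) (nat_lit 77) (nat_lit 3) (nat_lit 77) (nat_lit 1) (nat_lit 79) (nat_lit 1) (nat_lit 362) (nat_lit 418) (nat_lit 240)) (XT.nd (nat_lit 78) (nat_lit 152) (nat_lit 0) (XT.lf (nat_lit 76) (nat_lit 2608422313) (nat_lit 0) (nat_lit 2634650198) (nat_lit 76) (nat_lit 2634650198) (nat_lit 77) (nat_lit 3) (nat_lit 76) (nat_lit 1) (nat_lit 77) (nat_lit 1) (nat_lit 363) (nat_lit 418) (nat_lit 239)) (XT.lf (nat_lit 152) (nat_lit 7736531434) (nat_lit 0) (nat_lit 8057721) (nat_lit 76) (nat_lit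 8057721) (nat_lit 76) (nat_lit 1) (nat_lit 74) (nat_lit 1) (nat_lit 75) (nat_lit 1) (nat_lit 364) (nat_lit 418) (nat_lit 238)))))) (XT.nd (nat_lit 468) (nat_lit 456) (nat_lit 0) (XT.nd (nat_lit 234) (nat_lit 228) (nat_lit 0) (XT.nd (nat_lit 78) (nat_lit 228) (nat_lit 0) (XT.lf (nat_lit 0) (nat_lit 2534297227) (nat_lit 0) (nat_lit 2556953860) (nat_lit 152) (nat_lit 2534297227) (nat_lit 74) (nat_lit 3) (nat_lit 74) (nat_lit 1) (nat_lit 76) (nat_lit 1) (nat_lit 365) (nat_lit 418) (nat_lit 237)) (XT.nd (nat_lit 78) (nat_lit 152) (nat_lit 0) (XT.lf (nat_lit 76) (nat_lit 2486460902) (nat_lit 0) (nat_lit 2508038648) (nat_lit 76) (nat_lit 2508038648) (nat_lit 74) (nat_lit 3) (nat_lit 73) (nat_lit 1) (nat_lit 74) (nat_lit 1) (nat_lit 366) (nat_lit 418) (nat_lit 236)) (XT.lf (nat_lit 152) (nat_lit 7370165243) (nat_lit 0) (nat_lit 6629107) (nat_lit 76) (nat_lit 6629107) (nat_lit 73) (nat_lit 1) (nat_lit 71)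 (nat_lit 1) (nat_lit 72) (nat_lit 1) (nat_lit 367) (nat_lit 418) (nat_lit 235)))) (XT.nd (nat_lit 78) (nat_lit 228) (nat_lit 0) (XT.lf (nat_lit 0) (nat_lit 2414579711) (nat_lit 0) (nat_lit 2433219379) (nat_lit 152) (nat_lit 2414579711) (nat_lit 71) (nat_lit 3) (nat_lit 71) (nat_lit 1) (nat_lit 73) (nat_lit 1) (nat_lit 368) (nat_lit 418) (nat_lit 234)) (XT.nd (nat_lit 78) (nat_lit 152) (nat_lit 0) (XT.lf (nat_lit 76) (nat_lit 2369908404) (nat_lit 0) (nat_lit 2387660469) (nat_lit 76) (nat_lit 2387660469) (nat_lit 71) (nat_lit 3) (nat_lit 70) (nat_lit 1) (nat_lit 71) (nat_lit 1) (nat_lit 369) (nat_lit 418) (nat_lit 233)) (XT.lf (nat_lit 152) (nat_lit 7020883363) (nat_lit 0) (nat_lit 5453783) (nat_lit 76) (nat_lit 5453783) (nat_lit 70) (nat_lit 1) (nat_lit 68) (nat_lit 1) (nat_lit 69) (nat_lit 1) (nat_lit 370) (nat_lit 418) (nat_lit 232))))) (XT.nd (nat_lit 234) (nat_lit 228) (nat_lit 0) (XT.nd (nat_lit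 78) (nat_lit 228) (nat_lit 0) (XT.lf (nat_lit 0) (nat_lit 2300392237) (nat_lit 0) (nat_lit 2315727138) (nat_lit 152) (nat_lit 2300392237) (nat_lit 68) (nat_lit 3) (nat_lit 68) (nat_lit 1) (nat_lit 70) (nat_lit 1) (nat_lit 371) (nat_lit 418) (nat_lit 231)) (XT.nd (nat_lit 78) (nat_lit 152) (nat_lit 0) (XT.lf (nat_lit 76) (nat_lit 2258577953) (nat_lit 0) (nat_lit 2273182621) (nat_lit 76) (nat_lit 2273182621) (nat_lit 68) (nat_lit 3) (nat_lit 67) (nat_lit 1) (nat_lit 68) (nat_lit 1) (nat_lit 372) (nat_lit 418) (nat_lit 230)) (XT.lf (nat_lit 152) (nat_lit 6687936382) (nat_lit 0) (nat_lit 4486841) (nat_lit 76) (nat_lit 4486841) (nat_lit 67) (nat_lit 1) (nat_lit 65) (nat_lit 1) (nat_lit 66) (nat_lit 1) (nat_lit 373) (nat_lit 418) (nat_lit 229)))) (XT.nd (nat_lit 156) (nat_lit 152) (nat_lit 0) (XT.nd (nat_lit 78) (nat_lit 76) (nat_lit 0) (XT.lf (nat_lit 0) (nat_lit 2191501752) (nat_lit 0) (nat_lit 2204117813)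 (nat_lit 152) (nat_lit 2191501752) (nat_lit 65) (nat_lit 3) (nat_lit 65) (nat_lit 1) (nat_lit 67) (nat_lit 1) (nat_lit 374) (nat_lit 418) (nat_lit 228)) (XT.lf (nat_lit 76) (nat_lit 2152279047) (nat_lit 0) (nat_lit 2164294344) (nat_lit 76) (nat_lit 2164294344) (nat_lit 65) (nat_lit 3) (nat_lit 64) (nat_lit 1) (nat_lit 65) (nat_lit 1) (nat_lit 375) (nat_lit 418) (nat_lit 227))) (XT.nd (nat_lit 78) (nat_lit 0) (nat_lit 0) (XT.lf (nat_lit 152) (nat_lit 6370599208) (nat_lit 0) (nat_lit 3691335) (nat_lit 76) (nat_lit 3691335) (nat_lit 64) (nat_lit 1) (nat_lit 62) (nat_lit 1) (nat_lit 63) (nat_lit 1) (nat_lit 376) (nat_lit 418) (nat_lit 226)) (XT.lf (nat_lit 0) (nat_lit 2087680929) (nat_lit 0) (nat_lit 2098060194) (nat_lit 152) (nat_lit 2087680929) (nat_lit 62) (nat_lit 3) (nat_lit 62) (nat_lit 1) (nat_lit 64) (nat_lit 1) (nat_lit 377) (nat_lit 418) (nat_lit 225))))))))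
noncomputable def ec345 : XT := (XT.nd (nat_lit 1950) (nat_lit 1976) (nat_lit 0) (XT.nd (nat_lit 936) (nat_lit 988) (nat_lit 0) (XT.nd (nat_lit 468) (nat_lit 456) (nat_lit 0) (XT.nd (nat_lit 234) (nat_lit 228) (nat_lit 0) (XT.nd (nat_lit 78) (nat_lit 152) (nat_lit 0) (XT.lf (nat_lit 76) (nat_lit 2050819942) (nat_lit 0) (nat_lit 2060704956) (nat_lit 76) (nat_lit 2060704956) (nat_lit 62) (nat_lit 3) (nat_lit 61) (nat_lit 1) (nat_lit 62) (nat_lit 1) (nat_lit 378) (nat_lit 418) (nat_lit 224)) (XT.nd (nat_lit 78) (nat_lit 0) (nat_lit 0) (XT.lf (nat_lit 152) (nat_lit 6068171920) (nat_lit 0) (nat_lit 3036870) (nat_lit 76) (nat_lit 3036870) (nat_lit 61) (nat_lit 1) (nat_lit 59) (nat_lit 1) (nat_lit 60) (nat_lit 1) (nat_lit 379) (nat_lit 418) (nat_lit 223)) (XT.lf (nat_lit 0) (nat_lit 1988708853) (nat_lit 0) (nat_lit 1997247899) (nat_lit 152) (nat_lit 1988708853) (nat_lit 59) (nat_lit 3) (nat_lit 59) (nat_lit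 1) (nat_lit 61) (nat_lit 1) (nat_lit 380) (nat_lit 418) (nat_lit 222)))) (XT.nd (nat_lit 78) (nat_lit 152) (nat_lit 0) (XT.lf (nat_lit 76) (nat_lit 1954009540) (nat_lit 0) (nat_lit 1962141966) (nat_lit 76) (nat_lit 1962141966) (nat_lit 59) (nat_lit 3) (nat_lit 58) (nat_lit 1) (nat_lit 59) (nat_lit 1) (nat_lit 381) (nat_lit 418) (nat_lit 221)) (XT.nd (nat_lit 78) (nat_lit 0) (nat_lit 0) (XT.lf (nat_lit 152) (nat_lit 5779980232) (nat_lit 0) (nat_lit 2498441) (nat_lit 76) (nat_lit 2498441) (nat_lit 58) (nat_lit 1) (nat_lit 56) (nat_lit 1) (nat_lit 57) (nat_lit 1) (nat_lit 382) (nat_lit 418) (nat_lit 220)) (XT.lf (nat_lit 0) (nat_lit 1894371490) (nat_lit 0) (nat_lit 1901396585) (nat_lit 152) (nat_lit 1894371490) (nat_lit 56) (nat_lit 3) (nat_lit 56) (nat_lit 1) (nat_lit 58) (nat_lit 1) (nat_lit 383) (nat_lit 418) (nat_lit 219))))) (XT.nd (nat_lit 234) (nat_lit 228) (nat_lit 0) (XT.nd (nat_lit 78) (nat_lit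 152) (nat_lit 0) (XT.lf (nat_lit 76) (nat_lit 1861658864) (nat_lit 0) (nat_lit 1868349431) (nat_lit 76) (nat_lit 1868349431) (nat_lit 56) (nat_lit 3) (nat_lit 55) (nat_lit 1) (nat_lit 56) (nat_lit 1) (nat_lit 384) (nat_lit 418) (nat_lit 218)) (XT.nd (nat_lit 78) (nat_lit 0) (nat_lit 0) (XT.lf (nat_lit 152) (nat_lit 5505375638) (nat_lit 0) (nat_lit 2055473) (nat_lit 76) (nat_lit 2055473) (nat_lit 55) (nat_lit 1) (nat_lit 53) (nat_lit 1) (nat_lit 54) (nat_lit 1) (nat_lit 385) (nat_lit 418) (nat_lit 217)) (XT.lf (nat_lit 0) (nat_lit 1804462014) (nat_lit 0) (nat_lit 1810241577) (nat_lit 152) (nat_lit 1804462014) (nat_lit 53) (nat_lit 3) (nat_lit 53) (nat_lit 1) (nat_lit 55) (nat_lit 1) (nat_lit 386) (nat_lit 418) (nat_lit 216)))) (XT.nd (nat_lit 78) (nat_lit 152) (nat_lit 0) (XT.lf (nat_lit 76) (nat_lit 1773582192) (nat_lit 0) (nat_lit 1779086538) (nat_lit 76) (nat_lit 1779086538) (nat_lit 53) (nat_lit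 3) (nat_lit 52) (nat_lit 1) (nat_lit 53) (nat_lit 1) (nat_lit 387) (nat_lit 418) (nat_lit 215)) (XT.nd (nat_lit 78) (nat_lit 0) (nat_lit 0) (XT.lf (nat_lit 152) (nat_lit 5243735302) (nat_lit 0) (nat_lit 1691043) (nat_lit 76) (nat_lit 1691043) (nat_lit 52) (nat_lit 1) (nat_lit 50) (nat_lit 1) (nat_lit 51) (nat_lit 1) (nat_lit 388) (nat_lit 418) (nat_lit 214)) (XT.lf (nat_lit 0) (nat_lit 1718780984) (nat_lit 0) (nat_lit 1723535845) (nat_lit 152) (nat_lit 1718780984) (nat_lit 50) (nat_lit 3) (nat_lit 50) (nat_lit 1) (nat_lit 52) (nat_lit 1) (nat_lit 389) (nat_lit 418) (nat_lit 213)))))) (XT.nd (nat_lit 468) (nat_lit 532) (nat_lit 0) (XT.nd (nat_lit 234) (nat_lit 228) (nat_lit 0) (XT.nd (nat_lit 78) (nat_lit 152) (nat_lit 0) (XT.lf (nat_lit 76) (nat_lit 1689597923) (nat_lit 0) (nat_lit 1694126362) (nat_lit 76) (nat_lit 1694126362) (nat_lit 50) (nat_lit 3) (nat_lit 49) (nat_lit 1) (nat_lit 50) (nat_lit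 1) (nat_lit 390) (nat_lit 418) (nat_lit 212)) (XT.nd (nat_lit 78) (nat_lit 0) (nat_lit 0) (XT.lf (nat_lit 152) (nat_lit 4994461762) (nat_lit 0) (nat_lit 1391225) (nat_lit 76) (nat_lit 1391225) (nat_lit 49) (nat_lit 1) (nat_lit 47) (nat_lit 1) (nat_lit 48) (nat_lit 1) (nat_lit 391) (nat_lit 418) (nat_lit 211)) (XT.lf (nat_lit 0) (nat_lit 1637136435) (nat_lit 0) (nat_lit 1641048271) (nat_lit 152) (nat_lit 1637136435) (nat_lit 47) (nat_lit 3) (nat_lit 47) (nat_lit 1) (nat_lit 49) (nat_lit 1) (nat_lit 392) (nat_lit 418) (nat_lit 210)))) (XT.nd (nat_lit 78) (nat_lit 152) (nat_lit 0) (XT.lf (nat_lit 76) (nat_lit 1609529216) (nat_lit 0) (nat_lit 1613254774) (nat_lit 76) (nat_lit 1613254774) (nat_lit 47) (nat_lit 3) (nat_lit 46) (nat_lit 1) (nat_lit 47) (nat_lit 1) (nat_lit 393) (nat_lit 418) (nat_lit 209)) (XT.nd (nat_lit 78) (nat_lit 0) (nat_lit 0) (XT.lf (nat_lit 152) (nat_lit 4756982483) (nat_lit 0)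 (nat_lit 1144564) (nat_lit 76) (nat_lit 1144564) (nat_lit 46) (nat_lit 1) (nat_lit 44) (nat_lit 1) (nat_lit 45) (nat_lit 1) (nat_lit 394) (nat_lit 418) (nat_lit 208)) (XT.lf (nat_lit 0) (nat_lit 1559343879) (nat_lit 0) (nat_lit 1562562156) (nat_lit 152) (nat_lit 1559343879) (nat_lit 44) (nat_lit 3) (nat_lit 44) (nat_lit 1) (nat_lit 46) (nat_lit 1) (nat_lit 395) (nat_lit 418) (nat_lit 207))))) (XT.nd (nat_lit 234) (nat_lit 304) (nat_lit 0) (XT.nd (nat_lit 78) (nat_lit 152) (nat_lit 0) (XT.lf (nat_lit 76) (nat_lit 1533204453) (nat_lit 0) (nat_lit 1536269479) (nat_lit 76) (nat_lit 1536269479) (nat_lit 44) (nat_lit 3) (nat_lit 43) (nat_lit 1) (nat_lit 44) (nat_lit 1) (nat_lit 396) (nat_lit 418) (nat_lit 206)) (XT.nd (nat_lit 78) (nat_lit 0) (nat_lit 0) (XT.lf (nat_lit 152) (nat_lit 4530749290) (nat_lit 0) (nat_lit 941636) (nat_lit 76) (nat_lit 941636) (nat_lit 43) (nat_lit 1) (nat_lit 41) (nat_lit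 1) (nat_lit 42) (nat_lit 1) (nat_lit 397) (nat_lit 418) (nat_lit 205)) (XT.lf (nat_lit 0) (nat_lit 1485226242) (nat_lit 0) (nat_lit 1487873926) (nat_lit 152) (nat_lit 1485226242) (nat_lit 41) (nat_lit 3) (nat_lit 41) (nat_lit 1) (nat_lit 43) (nat_lit 1) (nat_lit 398) (nat_lit 418) (nat_lit 204)))) (XT.nd (nat_lit 156) (nat_lit 76) (nat_lit 0) (XT.nd (nat_lit 78) (nat_lit 152) (nat_lit 0) (XT.lf (nat_lit 76) (nat_lit 1460457559) (nat_lit 0) (nat_lit 1462979163) (nat_lit 76) (nat_lit 1462979163) (nat_lit 41) (nat_lit 3) (nat_lit 40) (nat_lit 1) (nat_lit 41) (nat_lit 1) (nat_lit 399) (nat_lit 418) (nat_lit 203)) (XT.lf (nat_lit 152) (nat_lit 4315237729) (nat_lit 0) (nat_lit 774686) (nat_lit 76) (nat_lit 774686) (nat_lit 40) (nat_lit 1) (nat_lit 38) (nat_lit 1) (nat_lit 39) (nat_lit 1) (nat_lit 400) (nat_lit 418) (nat_lit 202))) (XT.nd (nat_lit 78) (nat_lit 76) (nat_lit 0) (XT.lf (nat_lit 0) (nat_lit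 1414613756) (nat_lit 0) (nat_lit 1416792012) (nat_lit 152) (nat_lit 1414613756) (nat_lit 38) (nat_lit 3) (nat_lit 38) (nat_lit 1) (nat_lit 40) (nat_lit 1) (nat_lit 401) (nat_lit 418) (nat_lit 201)) (XT.lf (nat_lit 76) (nat_lit 1391128201) (nat_lit 0) (nat_lit 1393202731) (nat_lit 76) (nat_lit 1393202731) (nat_lit 38) (nat_lit 3) (nat_lit 37) (nat_lit 1) (nat_lit 38) (nat_lit 1) (nat_lit 402) (nat_lit 418) (nat_lit 200))))))) (XT.nd (nat_lit 1014) (nat_lit 912) (nat_lit 0) (XT.nd (nat_lit 468) (nat_lit 608) (nat_lit 0) (XT.nd (nat_lit 234) (nat_lit 228) (nat_lit 0) (XT.nd (nat_lit 78) (nat_lit 76) (nat_lit 0) (XT.lf (nat_lit 152) (nat_lit 4109946355) (nat_lit 0) (nat_lit 637336) (nat_lit 76) (nat_lit 637336) (nat_lit 37) (nat_lit 1) (nat_lit 35) (nat_lit 1) (nat_lit 36) (nat_lit 1) (nat_lit 403) (nat_lit 418) (nat_lit 199)) (XT.nd (nat_lit 78) (nat_lit 76) (nat_lit 0) (XT.lf (nat_lit 0) (nat_lit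 1347343810) (nat_lit 0) (nat_lit 1349135867) (nat_lit 152) (nat_lit 1347343810) (nat_lit 35) (nat_lit 3) (nat_lit 35) (nat_lit 1) (nat_lit 37) (nat_lit 1) (nat_lit 404) (nat_lit 418) (nat_lit 198)) (XT.lf (nat_lit 76) (nat_lit 1325061903) (nat_lit 0) (nat_lit 1326768624) (nat_lit 76) (nat_lit 1326768624) (nat_lit 35) (nat_lit 3) (nat_lit 34) (nat_lit 1) (nat_lit 35) (nat_lit 1) (nat_lit 405) (nat_lit 418) (nat_lit 197)))) (XT.nd (nat_lit 78) (nat_lit 76) (nat_lit 0) (XT.lf (nat_lit 152) (nat_lit 3914395985) (nat_lit 0) (nat_lit 524338) (nat_lit 76) (nat_lit 524338) (nat_lit 34) (nat_lit 1) (nat_lit 32) (nat_lit 1) (nat_lit 33) (nat_lit 1) (nat_lit 406) (nat_lit 418) (nat_lit 196)) (XT.nd (nat_lit 78) (nat_lit 76) (nat_lit 0) (XT.lf (nat_lit 0) (nat_lit 1283260775) (nat_lit 0) (nat_lit 1284735104) (nat_lit 152) (nat_lit 1283260775) (nat_lit 32) (nat_lit 3) (nat_lit 32) (nat_lit 1) (nat_lit 34) (nat_lit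 1) (nat_lit 407) (nat_lit 418) (nat_lit 195)) (XT.lf (nat_lit 76) (nat_lit 1262110077) (nat_lit 0) (nat_lit 1263514201) (nat_lit 76) (nat_lit 1263514201) (nat_lit 32) (nat_lit 3) (nat_lit 31) (nat_lit 1) (nat_lit 32) (nat_lit 1) (nat_lit 408) (nat_lit 418) (nat_lit 194))))) (XT.nd (nat_lit 234) (nat_lit 380) (nat_lit 0) (XT.nd (nat_lit 78) (nat_lit 76) (nat_lit 0) (XT.lf (nat_lit 152) (nat_lit 3728128929) (nat_lit 0) (nat_lit 431374) (nat_lit 76) (nat_lit 431374) (nat_lit 31) (nat_lit 1) (nat_lit 29) (nat_lit 1) (nat_lit 30) (nat_lit 1) (nat_lit 409) (nat_lit 418) (nat_lit 193)) (XT.nd (nat_lit 78) (nat_lit 76) (nat_lit 0) (XT.lf (nat_lit 0) (nat_lit 1222215804) (nat_lit 0) (nat_lit 1223428738) (nat_lit 152) (nat_lit 1222215804) (nat_lit 29) (nat_lit 3) (nat_lit 29) (nat_lit 1) (nat_lit 31) (nat_lit 1) (nat_lit 410) (nat_lit 418) (nat_lit 192)) (XT.lf (nat_lit 76) (nat_lit 1202130008) (nat_lit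 0) (nat_lit 1203285184) (nat_lit 76) (nat_lit 1203285184) (nat_lit 29) (nat_lit 3) (nat_lit 28) (nat_lit 1) (nat_lit 29) (nat_lit 1) (nat_lit 411) (nat_lit 418) (nat_lit 191)))) (XT.nd (nat_lit 156) (nat_lit 228) (nat_lit 0) (XT.nd (nat_lit 78) (nat_lit 0) (nat_lit 0) (XT.lf (nat_lit 152) (nat_lit 3550708196) (nat_lit 0) (nat_lit 354892) (nat_lit 76) (nat_lit 354892) (nat_lit 28) (nat_lit 1) (nat_lit 26) (nat_lit 1) (nat_lit 27) (nat_lit 1) (nat_lit 412) (nat_lit 418) (nat_lit 190)) (XT.lf (nat_lit 0) (nat_lit 1164066622) (nat_lit 0) (nat_lit 1165064506) (nat_lit 152) (nat_lit 1164066622) (nat_lit 26) (nat_lit 3) (nat_lit 26) (nat_lit 1) (nat_lit 28) (nat_lit 1) (nat_lit 413) (nat_lit 418) (nat_lit 189))) (XT.nd (nat_lit 78) (nat_lit 152) (nat_lit 0) (XT.lf (nat_lit 76) (nat_lit 1144984784) (nat_lit 0) (nat_lit 1145935150) (nat_lit 76) (nat_lit 1145935150) (nat_lit 26) (nat_lit 3) (nat_lit 25)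 (nat_lit 1) (nat_lit 26) (nat_lit 1) (nat_lit 414) (nat_lit 418) (nat_lit 188)) (XT.lf (nat_lit 152) (nat_lit 3381716706) (nat_lit 0) (nat_lit 291971) (nat_lit 76) (nat_lit 291971) (nat_lit 25) (nat_lit 1) (nat_lit 23) (nat_lit 1) (nat_lit 24) (nat_lit 1) (nat_lit 415) (nat_lit 418) (nat_lit 187)))))) (XT.nd (nat_lit 468) (nat_lit 456) (nat_lit 0) (XT.nd (nat_lit 234) (nat_lit 228) (nat_lit 0) (XT.nd (nat_lit 78) (nat_lit 228) (nat_lit 0) (XT.lf (nat_lit 0) (nat_lit 1108677306) (nat_lit 0) (nat_lit 1109498268) (nat_lit 152) (nat_lit 1108677306) (nat_lit 23) (nat_lit 3) (nat_lit 23) (nat_lit 1) (nat_lit 25) (nat_lit 1) (nat_lit 416) (nat_lit 418) (nat_lit 186)) (XT.nd (nat_lit 78) (nat_lit 152) (nat_lit 0) (XT.lf (nat_lit 76) (nat_lit 1090543198) (nat_lit 0) (nat_lit 1091325066) (nat_lit 76) (nat_lit 1091325066) (nat_lit 23) (nat_lit 3) (nat_lit 22) (nat_lit 1) (nat_lit 23) (nat_lit 1) (nat_lit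 417) (nat_lit 418) (nat_lit 185)) (XT.lf (nat_lit 152) (nat_lit 3220756499) (nat_lit 0) (nat_lit 240205) (nat_lit 76) (nat_lit 240205) (nat_lit 22) (nat_lit 1) (nat_lit 20) (nat_lit 1) (nat_lit 21) (nat_lit 1) (nat_lit 418) (nat_lit 418) (nat_lit 184)))) (XT.nd (nat_lit 78) (nat_lit 228) (nat_lit 0) (XT.lf (nat_lit 0) (nat_lit 1055918053) (nat_lit 0) (nat_lit 1056593461) (nat_lit 152) (nat_lit 1055918053) (nat_lit 20) (nat_lit 3) (nat_lit 20) (nat_lit 1) (nat_lit 22) (nat_lit 1) (nat_lit 419) (nat_lit 418) (nat_lit 183)) (XT.nd (nat_lit 78) (nat_lit 152) (nat_lit 0) (XT.lf (nat_lit 76) (nat_lit 1038679619) (nat_lit 0) (nat_lit 1039322864) (nat_lit 76) (nat_lit 1039322864) (nat_lit 20) (nat_lit 3) (nat_lit 19) (nat_lit 1) (nat_lit 20) (nat_lit 1) (nat_lit 420) (nat_lit 418) (nat_lit 182)) (XT.lf (nat_lit 152) (nat_lit 3067447958) (nat_lit 0) (nat_lit 197617) (nat_lit 76) (nat_lit 197617) (nat_lit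 19) (nat_lit 1) (nat_lit 17) (nat_lit 1) (nat_lit 18) (nat_lit 1) (nat_lit 421) (nat_lit 418) (nat_lit 181))))) (XT.nd (nat_lit 234) (nat_lit 228) (nat_lit 0) (XT.nd (nat_lit 78) (nat_lit 228) (nat_lit 0) (XT.lf (nat_lit 0) (nat_lit 1005664958) (nat_lit 0) (nat_lit 1006220617) (nat_lit 152) (nat_lit 1005664958) (nat_lit 17) (nat_lit 3) (nat_lit 17) (nat_lit 1) (nat_lit 19) (nat_lit 1) (nat_lit 422) (nat_lit 418) (nat_lit 180)) (XT.nd (nat_lit 78) (nat_lit 152) (nat_lit 0) (XT.lf (nat_lit 76) (nat_lit 989273846) (nat_lit 0) (nat_lit 989803045) (nat_lit 76) (nat_lit 989803045) (nat_lit 17) (nat_lit 3) (nat_lit 16) (nat_lit 1) (nat_lit 17) (nat_lit 1) (nat_lit 423) (nat_lit 418) (nat_lit 179)) (XT.lf (nat_lit 152) (nat_lit 2921429040) (nat_lit 0) (nat_lit 162580) (nat_lit 76) (nat_lit 162580) (nat_lit 16) (nat_lit 1) (nat_lit 14) (nat_lit 1) (nat_lit 15) (nat_lit 1) (nat_lit 424) (nat_lit 418) (nat_lit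 178)))) (XT.nd (nat_lit 156) (nat_lit 152) (nat_lit 0) (XT.nd (nat_lit 78) (nat_lit 76) (nat_lit 0) (XT.lf (nat_lit 0) (nat_lit 957799776) (nat_lit 0) (nat_lit 958256918) (nat_lit 152) (nat_lit 957799776) (nat_lit 14) (nat_lit 3) (nat_lit 14) (nat_lit 1) (nat_lit 16) (nat_lit 1) (nat_lit 425) (nat_lit 418) (nat_lit 177)) (XT.lf (nat_lit 76) (nat_lit 942210949) (nat_lit 0) (nat_lit 942646323) (nat_lit 76) (nat_lit 942646323) (nat_lit 14) (nat_lit 3) (nat_lit 13) (nat_lit 1) (nat_lit 14) (nat_lit 1) (nat_lit 426) (nat_lit 418) (nat_lit 176))) (XT.nd (nat_lit 78) (nat_lit 0) (nat_lit 0) (XT.lf (nat_lit 152) (nat_lit 2782354534) (nat_lit 0) (nat_lit 133755) (nat_lit 76) (nat_lit 133755) (nat_lit 13) (nat_lit 1) (nat_lit 11) (nat_lit 1) (nat_lit 12) (nat_lit 1) (nat_lit 427) (nat_lit 418) (nat_lit 175)) (XT.lf (nat_lit 0) (nat_lit 912209699) (nat_lit 0) (nat_lit 912585791) (nat_lit 152) (nat_lit 912209699)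 (nat_lit 11) (nat_lit 3) (nat_lit 11) (nat_lit 1) (nat_lit 13) (nat_lit 1) (nat_lit 428) (nat_lit 418) (nat_lit 174))))))))
noncomputable def ec346 : XT := (XT.nd (nat_lit 34788) (nat_lit 0) (nat_lit 17176) (XT.nd (nat_lit 936) (nat_lit 0) (nat_lit 0) (XT.nd (nat_lit 468) (nat_lit 380) (nat_lit 0) (XT.nd (nat_lit 234) (nat_lit 228) (nat_lit 0) (XT.nd (nat_lit 78) (nat_lit 152) (nat_lit 0) (XT.lf (nat_lit 76) (nat_lit 897381097) (nat_lit 0) (nat_lit 897739280) (nat_lit 76) (nat_lit 897739280) (nat_lit 11) (nat_lit 3) (nat_lit 10) (nat_lit 1) (nat_lit 11) (nat_lit 1) (nat_lit 429) (nat_lit 418) (nat_lit 173)) (XT.nd (nat_lit 78) (nat_lit 0) (nat_lit 0) (XT.lf (nat_lit 152) (nat_lit 2649895325) (nat_lit 0) (nat_lit 110040) (nat_lit 76) (nat_lit 110040) (nat_lit 10) (nat_lit 1) (nat_lit 8) (nat_lit 1) (nat_lit 9) (nat_lit 1) (nat_lit 430) (nat_lit 418) (nat_lit 172)) (XT.lf (nat_lit 0) (nat_lit 868787133)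 (nat_lit 0) (nat_lit 869096544) (nat_lit 152) (nat_lit 868787133) (nat_lit 8) (nat_lit 3) (nat_lit 8) (nat_lit 1) (nat_lit 10) (nat_lit 1) (nat_lit 431) (nat_lit 418) (nat_lit 171)))) (XT.nd (nat_lit 78) (nat_lit 152) (nat_lit 0) (XT.lf (nat_lit 76) (nat_lit 854679379) (nat_lit 0) (nat_lit 854974057) (nat_lit 76) (nat_lit 854974057) (nat_lit 8) (nat_lit 3) (nat_lit 7) (nat_lit 1) (nat_lit 8) (nat_lit 1) (nat_lit 432) (nat_lit 418) (nat_lit 170)) (XT.nd (nat_lit 78) (nat_lit 0) (nat_lit 0) (XT.lf (nat_lit 152) (nat_lit 2523737694) (nat_lit 0) (nat_lit 90530) (nat_lit 76) (nat_lit 90530) (nat_lit 7) (nat_lit 1) (nat_lit 5) (nat_lit 1) (nat_lit 6) (nat_lit 1) (nat_lit 433) (nat_lit 418) (nat_lit 169)) (XT.lf (nat_lit 0) (nat_lit 827429472) (nat_lit 0) (nat_lit 827684026) (nat_lit 152) (nat_lit 827429472) (nat_lit 5) (nat_lit 3) (nat_lit 5) (nat_lit 1) (nat_lit 7) (nat_lit 1) (nat_lit 434) (nat_lit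 418) (nat_lit 168))))) (XT.nd (nat_lit 234) (nat_lit 152) (nat_lit 0) (XT.nd (nat_lit 78) (nat_lit 152) (nat_lit 0) (XT.lf (nat_lit 76) (nat_lit 814005631) (nat_lit 0) (nat_lit 814248064) (nat_lit 76) (nat_lit 814248064) (nat_lit 5) (nat_lit 3) (nat_lit 4) (nat_lit 1) (nat_lit 5) (nat_lit 1) (nat_lit 435) (nat_lit 418) (nat_lit 167)) (XT.nd (nat_lit 78) (nat_lit 0) (nat_lit 0) (XT.lf (nat_lit 152) (nat_lit 2403582629) (nat_lit 0) (nat_lit 74479) (nat_lit 76) (nat_lit 74479) (nat_lit 4) (nat_lit 1) (nat_lit 2) (nat_lit 1) (nat_lit 3) (nat_lit 1) (nat_lit 436) (nat_lit 418) (nat_lit 166)) (XT.lf (nat_lit 0) (nat_lit 788038892) (nat_lit 0) (nat_lit 788248314) (nat_lit 152) (nat_lit 788038892) (nat_lit 2) (nat_lit 3) (nat_lit 2) (nat_lit 1) (nat_lit 4) (nat_lit 1) (nat_lit 437) (nat_lit 418) (nat_lit 165)))) (XT.nd (nat_lit 78) (nat_lit 76) (nat_lit 0) (XT.lf (nat_lit 76) (nat_lit 775264248) (nat_lit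 0) (nat_lit 775463698) (nat_lit 76) (nat_lit 775463698) (nat_lit 2) (nat_lit 3) (nat_lit 1) (nat_lit 1) (nat_lit 2) (nat_lit 1) (nat_lit 438) (nat_lit 418) (nat_lit 164)) (XT.nd (nat_lit 78) (nat_lit 0) (nat_lit 0) (XT.lf (nat_lit 0) (nat_lit 48268845712) (nat_lit 0) (nat_lit 0) (nat_lit 0) (nat_lit 0) (nat_lit 0) (nat_lit 0) (nat_lit 1) (nat_lit 0) (nat_lit 1) (nat_lit 0) (nat_lit 439) (nat_lit 418) (nat_lit 163)) (XT.lf (nat_lit 0) (nat_lit 48268836630) (nat_lit 0) (nat_lit 0) (nat_lit 0) (nat_lit 0) (nat_lit 0) (nat_lit 0) (nat_lit 1) (nat_lit 0) (nat_lit 1) (nat_lit 0) (nat_lit 440) (nat_lit 418) (nat_lit 162)))))) (XT.nd (nat_lit 33306) (nat_lit 0) (nat_lit 21812) (XT.nd (nat_lit 33072) (nat_lit 0) (nat_lit 22268) (XT.nd (nat_lit 32916) (nat_lit 0) (nat_lit 22192) (XT.lf (nat_lit 0) (nat_lit 48268827981) (nat_lit 0) (nat_lit 0) (nat_lit 0) (nat_lit 0) (nat_lit 0) (nat_lit 0) (nat_lit 1) (nat_lit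 0) (nat_lit 1) (nat_lit 0) (nat_lit 441) (nat_lit 418) (nat_lit 161)) (XT.nd (nat_lit 78) (nat_lit 0) (nat_lit 0) (XT.lf (nat_lit 836) (nat_lit 25363215136) (nat_lit 0) (nat_lit 45032330174) (nat_lit 836) (nat_lit 25363215136) (nat_lit 303) (nat_lit 1) (nat_lit 292) (nat_lit 0) (nat_lit 303) (nat_lit 0) (nat_lit 182) (nat_lit 419) (nat_lit 419)) (XT.lf (nat_lit 836) (nat_lit 98310988340) (nat_lit 76) (nat_lit 44306002268) (nat_lit 0) (nat_lit 44306002268) (nat_lit 303) (nat_lit 1) (nat_lit 293) (nat_lit 1) (nat_lit 292) (nat_lit 0) (nat_lit 183) (nat_lit 419) (nat_lit 418)))) (XT.nd (nat_lit 78) (nat_lit 0) (nat_lit 0) (XT.lf (nat_lit 836) (nat_lit 46853536775) (nat_lit 0) (nat_lit 88763432855) (nat_lit 760) (nat_lit 46853536775) (nat_lit 304) (nat_lit 1) (nat_lit 293) (nat_lit 1) (nat_lit 303) (nat_lit 1) (nat_lit 184) (nat_lit 419) (nat_lit 417)) (XT.nd (nat_lit 78) (nat_lit 0) (nat_lit 76) (XT.lf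 (nat_lit 836) (nat_lit 87890724527) (nat_lit 76) (nat_lit 45135571947) (nat_lit 0) (nat_lit 45135571947) (nat_lit 304) (nat_lit 1) (nat_lit 294) (nat_lit 1) (nat_lit 293) (nat_lit 1) (nat_lit 185) (nat_lit 419) (nat_lit 416)) (XT.lf (nat_lit 836) (nat_lit 40455256477) (nat_lit 0) (nat_lit 93079279692) (nat_lit 760) (nat_lit 40455256477) (nat_lit 305) (nat_lit 1) (nat_lit 294) (nat_lit 1) (nat_lit 304) (nat_lit 1) (nat_lit 186) (nat_lit 419) (nat_lit 415))))) (XT.nd (nat_lit 234) (nat_lit 532) (nat_lit 0) (XT.nd (nat_lit 78) (nat_lit 0) (nat_lit 76) (XT.lf (nat_lit 836) (nat_lit 72761413706) (nat_lit 76) (nat_lit 48591741990) (nat_lit 0) (nat_lit 48591741990) (nat_lit 305) (nat_lit 1) (nat_lit 295) (nat_lit 1) (nat_lit 294) (nat_lit 1) (nat_lit 187) (nat_lit 419) (nat_lit 414)) (XT.nd (nat_lit 78) (nat_lit 0) (nat_lit 0) (XT.lf (nat_lit 836) (nat_lit 31903778370) (nat_lit 0) (nat_lit 102228259551)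 (nat_lit 760) (nat_lit 31903778370) (nat_lit 306) (nat_lit 1) (nat_lit 295) (nat_lit 1) (nat_lit 305) (nat_lit 1) (nat_lit 188) (nat_lit 419) (nat_lit 413)) (XT.lf (nat_lit 836) (nat_lit 53631231021) (nat_lit 76) (nat_lit 54301567141) (nat_lit 0) (nat_lit 54301567141) (nat_lit 306) (nat_lit 1) (nat_lit 296) (nat_lit 1) (nat_lit 295) (nat_lit 1) (nat_lit 189) (nat_lit 419) (nat_lit 412)))) (XT.nd (nat_lit 156) (nat_lit 684) (nat_lit 0) (XT.nd (nat_lit 78) (nat_lit 0) (nat_lit 0) (XT.lf (nat_lit 836) (nat_lit 21530145866) (nat_lit 0) (nat_lit 115511777366) (nat_lit 760) (nat_lit 21530145866) (nat_lit 307) (nat_lit 1) (nat_lit 296) (nat_lit 1) (nat_lit 306) (nat_lit 1) (nat_lit 190) (nat_lit 419) (nat_lit 411)) (XT.lf (nat_lit 836) (nat_lit 31129637320) (nat_lit 76) (nat_lit 61932905953) (nat_lit 0) (nat_lit 61932905953) (nat_lit 307) (nat_lit 1) (nat_lit 297) (nat_lit 1) (nat_lit 296) (nat_lit 1)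 (nat_lit 191) (nat_lit 419) (nat_lit 410))) (XT.nd (nat_lit 78) (nat_lit 760) (nat_lit 0) (XT.lf (nat_lit 76) (nat_lit 9628393693) (nat_lit 0) (nat_lit 132308056158) (nat_lit 760) (nat_lit 9628393693) (nat_lit 298) (nat_lit 1) (nat_lit 297) (nat_lit 1) (nat_lit 307) (nat_lit 1) (nat_lit 192) (nat_lit 419) (nat_lit 409)) (XT.lf (nat_lit 836) (nat_lit 5815310353) (nat_lit 0) (nat_lit 71190335297) (nat_lit 760) (nat_lit 71190335297) (nat_lit 298) (nat_lit 1) (nat_lit 287) (nat_lit 1) (nat_lit 297) (nat_lit 1) (nat_lit 193) (nat_lit 419) (nat_lit 408))))))) (XT.nd (nat_lit 936) (nat_lit 2052) (nat_lit 0) (XT.nd (nat_lit 468) (nat_lit 1292) (nat_lit 0) (XT.nd (nat_lit 234) (nat_lit 380) (nat_lit 0) (XT.nd (nat_lit 78) (nat_lit 380) (nat_lit 0) (XT.lf (nat_lit 532) (nat_lit 138004638297) (nat_lit 0) (nat_lit 3483606350) (nat_lit 456) (nat_lit 3483606350) (nat_lit 287) (nat_lit 1) (nat_lit 280) (nat_lit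 1) (nat_lit 286) (nat_lit 1) (nat_lit 194) (nat_lit 419) (nat_lit 407)) (XT.nd (nat_lit 78) (nat_lit 380) (nat_lit 0) (XT.lf (nat_lit 76) (nat_lit 60335387675) (nat_lit 0) (nat_lit 21118420247) (nat_lit 532) (nat_lit 60335387675) (nat_lit 281) (nat_lit 1) (nat_lit 280) (nat_lit 1) (nat_lit 287) (nat_lit 1) (nat_lit 195) (nat_lit 419) (nat_lit 406)) (XT.lf (nat_lit 456) (nat_lit 103821714766) (nat_lit 0) (nat_lit 17460080232) (nat_lit 380) (nat_lit 17460080232) (nat_lit 281) (nat_lit 1) (nat_lit 275) (nat_lit 1) (nat_lit 280) (nat_lit 1) (nat_lit 196) (nat_lit 419) (nat_lit 405)))) (XT.nd (nat_lit 78) (nat_lit 380) (nat_lit 0) (XT.lf (nat_lit 76) (nat_lit 43036497538) (nat_lit 0) (nat_lit 49685622885) (nat_lit 456) (nat_lit 43036497538) (nat_lit 276) (nat_lit 1) (nat_lit 275) (nat_lit 1) (nat_lit 281) (nat_lit 1) (nat_lit 197) (nat_lit 419) (nat_lit 404)) (XT.nd (nat_lit 78) (nat_lit 0) (nat_lit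 0) (XT.lf (nat_lit 456) (nat_lit 68368071501) (nat_lit 0) (nat_lit 32255594030) (nat_lit 380) (nat_lit 32255594030) (nat_lit 276) (nat_lit 1) (nat_lit 270) (nat_lit 1) (nat_lit 275) (nat_lit 1) (nat_lit 198) (nat_lit 419) (nat_lit 403)) (XT.lf (nat_lit 76) (nat_lit 25192725733) (nat_lit 0) (nat_lit 79698191141) (nat_lit 456) (nat_lit 25192725733) (nat_lit 271) (nat_lit 1) (nat_lit 270) (nat_lit 1) (nat_lit 276) (nat_lit 1) (nat_lit 199) (nat_lit 419) (nat_lit 402))))) (XT.nd (nat_lit 234) (nat_lit 608) (nat_lit 0) (XT.nd (nat_lit 78) (nat_lit 380) (nat_lit 0) (XT.lf (nat_lit 380) (nat_lit 31973691976) (nat_lit 0) (nat_lit 47693123082) (nat_lit 304) (nat_lit 47693123082) (nat_lit 271) (nat_lit 1) (nat_lit 266) (nat_lit 1) (nat_lit 270) (nat_lit 1) (nat_lit 200) (nat_lit 419) (nat_lit 401)) (XT.nd (nat_lit 78) (nat_lit 380) (nat_lit 0) (XT.lf (nat_lit 76) (nat_lit 6957262026) (nat_lit 0) (nat_lit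 110826449888) (nat_lit 380) (nat_lit 6957262026) (nat_lit 267) (nat_lit 1) (nat_lit 266) (nat_lit 1) (nat_lit 271) (nat_lit 1) (nat_lit 201) (nat_lit 419) (nat_lit 400)) (XT.lf (nat_lit 76) (nat_lit 58623889005) (nat_lit 0) (nat_lit 4909864581) (nat_lit 380) (nat_lit 58623889005) (nat_lit 262) (nat_lit 1) (nat_lit 261) (nat_lit 1) (nat_lit 266) (nat_lit 1) (nat_lit 202) (nat_lit 419) (nat_lit 399)))) (XT.nd (nat_lit 78) (nat_lit 304) (nat_lit 0) (XT.lf (nat_lit 380) (nat_lit 96973157498) (nat_lit 0) (nat_lit 11349766667) (nat_lit 304) (nat_lit 11349766667) (nat_lit 262) (nat_lit 1) (nat_lit 257) (nat_lit 1) (nat_lit 261) (nat_lit 1) (nat_lit 203) (nat_lit 419) (nat_lit 398)) (XT.nd (nat_lit 78) (nat_lit 304) (nat_lit 0) (XT.lf (nat_lit 76) (nat_lit 38037135606) (nat_lit 0) (nat_lit 41156097761) (nat_lit 380) (nat_lit 38037135606) (nat_lit 258) (nat_lit 1) (nat_lit 257) (nat_lit 1) (nat_lit 262)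 (nat_lit 1) (nat_lit 204) (nat_lit 419) (nat_lit 397)) (XT.lf (nat_lit 380) (nat_lit 55506761959) (nat_lit 0) (nat_lit 29682988144) (nat_lit 304) (nat_lit 29682988144) (nat_lit 258) (nat_lit 1) (nat_lit 253) (nat_lit 1) (nat_lit 257) (nat_lit 1) (nat_lit 205) (nat_lit 419) (nat_lit 396)))))) (XT.nd (nat_lit 468) (nat_lit 1216) (nat_lit 0) (XT.nd (nat_lit 234) (nat_lit 228) (nat_lit 0) (XT.nd (nat_lit 78) (nat_lit 608) (nat_lit 0) (XT.lf (nat_lit 76) (nat_lit 17504355495) (nat_lit 0) (nat_lit 77575333856) (nat_lit 380) (nat_lit 17504355495) (nat_lit 254) (nat_lit 1) (nat_lit 253) (nat_lit 1) (nat_lit 258) (nat_lit 1) (nat_lit 206) (nat_lit 419) (nat_lit 395)) (XT.nd (nat_lit 78) (nat_lit 380) (nat_lit 0) (XT.lf (nat_lit 304) (nat_lit 14235542627) (nat_lit 0) (nat_lit 48054606275) (nat_lit 228) (nat_lit 48054606275) (nat_lit 254) (nat_lit 1) (nat_lit 250) (nat_lit 1) (nat_lit 253) (nat_lit 1) (nat_lit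 207) (nat_lit 419) (nat_lit 394)) (XT.lf (nat_lit 380) (nat_lit 102503340061) (nat_lit 0) (nat_lit 2844271004) (nat_lit 304) (nat_lit 2844271004) (nat_lit 250) (nat_lit 1) (nat_lit 245) (nat_lit 1) (nat_lit 249) (nat_lit 1) (nat_lit 208) (nat_lit 419) (nat_lit 393)))) (XT.nd (nat_lit 78) (nat_lit 228) (nat_lit 0) (XT.lf (nat_lit 76) (nat_lit 40110314760) (nat_lit 0) (nat_lit 25830295334) (nat_lit 380) (nat_lit 40110314760) (nat_lit 246) (nat_lit 1) (nat_lit 245) (nat_lit 1) (nat_lit 250) (nat_lit 1) (nat_lit 209) (nat_lit 419) (nat_lit 392)) (XT.nd (nat_lit 78) (nat_lit 0) (nat_lit 0) (XT.lf (nat_lit 304) (nat_lit 58582382767) (nat_lit 0) (nat_lit 22704848140) (nat_lit 228) (nat_lit 22704848140) (nat_lit 246) (nat_lit 1) (nat_lit 242) (nat_lit 1) (nat_lit 245) (nat_lit 1) (nat_lit 210) (nat_lit 419) (nat_lit 391)) (XT.lf (nat_lit 76) (nat_lit 18507080893) (nat_lit 0) (nat_lit 64971379972) (nat_lit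 304) (nat_lit 18507080893) (nat_lit 243) (nat_lit 1) (nat_lit 242) (nat_lit 1) (nat_lit 246) (nat_lit 1) (nat_lit 211) (nat_lit 419) (nat_lit 390))))) (XT.nd (nat_lit 234) (nat_lit 684) (nat_lit 0) (XT.nd (nat_lit 78) (nat_lit 304) (nat_lit 0) (XT.lf (nat_lit 304) (nat_lit 15425073463) (nat_lit 0) (nat_lit 42299789593) (nat_lit 228) (nat_lit 42299789593) (nat_lit 243) (nat_lit 1) (nat_lit 239) (nat_lit 1) (nat_lit 242) (nat_lit 1) (nat_lit 212) (nat_lit 419) (nat_lit 389)) (XT.nd (nat_lit 78) (nat_lit 0) (nat_lit 0) (XT.lf (nat_lit 304) (nat_lit 92834696633) (nat_lit 0) (nat_lit 2650958214) (nat_lit 228) (nat_lit 2650958214) (nat_lit 239) (nat_lit 1) (nat_lit 235) (nat_lit 1) (nat_lit 238) (nat_lit 1) (nat_lit 213) (nat_lit 419) (nat_lit 388)) (XT.lf (nat_lit 76) (nat_lit 35116707118) (nat_lit 0) (nat_lit 26021127363) (nat_lit 304) (nat_lit 35116707118) (nat_lit 236) (nat_lit 1) (nat_lit 235) (nat_lit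 1) (nat_lit 239) (nat_lit 1) (nat_lit 214) (nat_lit 419) (nat_lit 387)))) (XT.nd (nat_lit 156) (nat_lit 456) (nat_lit 0) (XT.nd (nat_lit 78) (nat_lit 0) (nat_lit 0) (XT.lf (nat_lit 304) (nat_lit 48288687779) (nat_lit 0) (nat_lit 23076709652) (nat_lit 228) (nat_lit 23076709652) (nat_lit 236) (nat_lit 1) (nat_lit 232) (nat_lit 1) (nat_lit 235) (nat_lit 1) (nat_lit 215) (nat_lit 419) (nat_lit 386)) (XT.lf (nat_lit 76) (nat_lit 13298665232) (nat_lit 0) (nat_lit 66080952422) (nat_lit 304) (nat_lit 13298665232) (nat_lit 233) (nat_lit 1) (nat_lit 232) (nat_lit 1) (nat_lit 236) (nat_lit 1) (nat_lit 216) (nat_lit 419) (nat_lit 385))) (XT.nd (nat_lit 78) (nat_lit 304) (nat_lit 0) (XT.lf (nat_lit 228) (nat_lit 4873073112) (nat_lit 0) (nat_lit 43037311892) (nat_lit 152) (nat_lit 43037311892) (nat_lit 233) (nat_lit 1) (nat_lit 230) (nat_lit 1) (nat_lit 232) (nat_lit 1) (nat_lit 217) (nat_lit 419) (nat_lit 384))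 (XT.lf (nat_lit 304) (nat_lit 73630500718) (nat_lit 0) (nat_lit 7820092875) (nat_lit 228) (nat_lit 7820092875) (nat_lit 230) (nat_lit 1) (nat_lit 226) (nat_lit 1) (nat_lit 229) (nat_lit 1) (nat_lit 218) (nat_lit 419) (nat_lit 383))))))))
noncomputable def ec347 : XT := (XT.nd (nat_lit 1950) (nat_lit 1900) (nat_lit 0) (XT.nd (nat_lit 936) (nat_lit 1368) (nat_lit 0) (XT.nd (nat_lit 468) (nat_lit 684) (nat_lit 0) (XT.nd (nat_lit 234) (nat_lit 380) (nat_lit 0) (XT.nd (nat_lit 78) (nat_lit 152) (nat_lit 0) (XT.lf (nat_lit 76) (nat_lit 25717386123) (nat_lit 0) (nat_lit 36177659539) (nat_lit 304) (nat_lit 25717386123) (nat_lit 227) (nat_lit 1) (nat_lit 226) (nat_lit 1) (nat_lit 230) (nat_lit 1) (nat_lit 219) (nat_lit 419) (nat_lit 382)) (XT.nd (nat_lit 78) (nat_lit 0) (nat_lit 0) (XT.lf (nat_lit 228) (nat_lit 29712472590) (nat_lit 0) (nat_lit 28146441402) (nat_lit 152) (nat_lit 28146441402) (nat_lit 227)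 (nat_lit 1) (nat_lit 224) (nat_lit 1) (nat_lit 226) (nat_lit 1) (nat_lit 220) (nat_lit 419) (nat_lit 381)) (XT.lf (nat_lit 76) (nat_lit 4268739219) (nat_lit 0) (nat_lit 75914133260) (nat_lit 228) (nat_lit 4268739219) (nat_lit 225) (nat_lit 1) (nat_lit 224) (nat_lit 1) (nat_lit 227) (nat_lit 1) (nat_lit 221) (nat_lit 419) (nat_lit 380)))) (XT.nd (nat_lit 78) (nat_lit 152) (nat_lit 0) (XT.lf (nat_lit 76) (nat_lit 35230653710) (nat_lit 0) (nat_lit 12442208554) (nat_lit 228) (nat_lit 35230653710) (nat_lit 222) (nat_lit 1) (nat_lit 221) (nat_lit 1) (nat_lit 224) (nat_lit 1) (nat_lit 222) (nat_lit 419) (nat_lit 379)) (XT.nd (nat_lit 78) (nat_lit 0) (nat_lit 0) (XT.lf (nat_lit 228) (nat_lit 48923937379) (nat_lit 0) (nat_lit 16241421664) (nat_lit 152) (nat_lit 16241421664) (nat_lit 222) (nat_lit 1) (nat_lit 219) (nat_lit 1) (nat_lit 221) (nat_lit 1) (nat_lit 223) (nat_lit 419) (nat_lit 378)) (XT.lf (nat_lit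 76) (nat_lit 13805062314) (nat_lit 0) (nat_lit 52333001932) (nat_lit 228) (nat_lit 13805062314) (nat_lit 220) (nat_lit 1) (nat_lit 219) (nat_lit 1) (nat_lit 222) (nat_lit 1) (nat_lit 224) (nat_lit 419) (nat_lit 377))))) (XT.nd (nat_lit 234) (nat_lit 304) (nat_lit 0) (XT.nd (nat_lit 78) (nat_lit 228) (nat_lit 0) (XT.lf (nat_lit 228) (nat_lit 6467174665) (nat_lit 0) (nat_lit 36020900623) (nat_lit 152) (nat_lit 36020900623) (nat_lit 220) (nat_lit 1) (nat_lit 217) (nat_lit 1) (nat_lit 219) (nat_lit 1) (nat_lit 225) (nat_lit 419) (nat_lit 376)) (XT.nd (nat_lit 78) (nat_lit 0) (nat_lit 0) (XT.lf (nat_lit 228) (nat_lit 63563570690) (nat_lit 0) (nat_lit 6776405098) (nat_lit 152) (nat_lit 6776405098) (nat_lit 217) (nat_lit 1) (nat_lit 214) (nat_lit 1) (nat_lit 216) (nat_lit 1) (nat_lit 226) (nat_lit 419) (nat_lit 375)) (XT.lf (nat_lit 76) (nat_lit 21160468448) (nat_lit 0) (nat_lit 33414734610) (nat_lit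 228) (nat_lit 21160468448) (nat_lit 215) (nat_lit 1) (nat_lit 214) (nat_lit 1) (nat_lit 217) (nat_lit 1) (nat_lit 227) (nat_lit 419) (nat_lit 374)))) (XT.nd (nat_lit 78) (nat_lit 152) (nat_lit 0) (XT.lf (nat_lit 228) (nat_lit 21550909762) (nat_lit 0) (nat_lit 26422068136) (nat_lit 152) (nat_lit 26422068136) (nat_lit 215) (nat_lit 1) (nat_lit 212) (nat_lit 1) (nat_lit 214) (nat_lit 1) (nat_lit 228) (nat_lit 419) (nat_lit 373)) (XT.nd (nat_lit 78) (nat_lit 152) (nat_lit 0) (XT.lf (nat_lit 76) (nat_lit 708318967) (nat_lit 0) (nat_lit 71684798430) (nat_lit 228) (nat_lit 708318967) (nat_lit 213) (nat_lit 1) (nat_lit 212) (nat_lit 1) (nat_lit 215) (nat_lit 1) (nat_lit 229) (nat_lit 419) (nat_lit 372)) (XT.lf (nat_lit 76) (nat_lit 26744969301) (nat_lit 0) (nat_lit 18309665246) (nat_lit 152) (nat_lit 26744969301) (nat_lit 211) (nat_lit 1) (nat_lit 210) (nat_lit 1) (nat_lit 212) (nat_lit 1) (nat_lit 230)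 (nat_lit 419) (nat_lit 371)))))) (XT.nd (nat_lit 468) (nat_lit 836) (nat_lit 0) (XT.nd (nat_lit 234) (nat_lit 228) (nat_lit 0) (XT.nd (nat_lit 78) (nat_lit 152) (nat_lit 0) (XT.lf (nat_lit 228) (nat_lit 33187462186) (nat_lit 0) (nat_lit 18678057082) (nat_lit 152) (nat_lit 18678057082) (nat_lit 211) (nat_lit 1) (nat_lit 208) (nat_lit 1) (nat_lit 210) (nat_lit 1) (nat_lit 231) (nat_lit 419) (nat_lit 370)) (XT.nd (nat_lit 78) (nat_lit 152) (nat_lit 0) (XT.lf (nat_lit 76) (nat_lit 6653856801) (nat_lit 0) (nat_lit 56013738618) (nat_lit 228) (nat_lit 6653856801) (nat_lit 209) (nat_lit 1) (nat_lit 208) (nat_lit 1) (nat_lit 211) (nat_lit 1) (nat_lit 232) (nat_lit 419) (nat_lit 369)) (XT.lf (nat_lit 76) (nat_lit 30894771043) (nat_lit 0) (nat_lit 6319864423) (nat_lit 152) (nat_lit 30894771043) (nat_lit 207) (nat_lit 1) (nat_lit 206) (nat_lit 1) (nat_lit 208) (nat_lit 1) (nat_lit 233) (nat_lit 419) (nat_lit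 368)))) (XT.nd (nat_lit 78) (nat_lit 76) (nat_lit 0) (XT.lf (nat_lit 228) (nat_lit 42024812406) (nat_lit 0) (nat_lit 12452727821) (nat_lit 152) (nat_lit 12452727821) (nat_lit 207) (nat_lit 1) (nat_lit 204) (nat_lit 1) (nat_lit 206) (nat_lit 1) (nat_lit 234) (nat_lit 419) (nat_lit 367)) (XT.nd (nat_lit 78) (nat_lit 76) (nat_lit 0) (XT.lf (nat_lit 76) (nat_lit 11256164489) (nat_lit 0) (nat_lit 43262143806) (nat_lit 228) (nat_lit 11256164489) (nat_lit 205) (nat_lit 1) (nat_lit 204) (nat_lit 1) (nat_lit 207) (nat_lit 1) (nat_lit 235) (nat_lit 419) (nat_lit 366)) (XT.lf (nat_lit 152) (nat_lit 3231234917) (nat_lit 0) (nat_lit 30704626511) (nat_lit 76) (nat_lit 30704626511) (nat_lit 205) (nat_lit 1) (nat_lit 203) (nat_lit 1) (nat_lit 204) (nat_lit 1) (nat_lit 236) (nat_lit 419) (nat_lit 365))))) (XT.nd (nat_lit 234) (nat_lit 532) (nat_lit 0) (XT.nd (nat_lit 78) (nat_lit 76) (nat_lit 0) (XT.lf (nat_lit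 228) (nat_lit 48594303011) (nat_lit 0) (nat_lit 7469884316) (nat_lit 152) (nat_lit 7469884316) (nat_lit 203) (nat_lit 1) (nat_lit 200) (nat_lit 1) (nat_lit 202) (nat_lit 1) (nat_lit 237) (nat_lit 419) (nat_lit 364)) (XT.nd (nat_lit 78) (nat_lit 76) (nat_lit 0) (XT.lf (nat_lit 76) (nat_lit 14767160127) (nat_lit 0) (nat_lit 32905684606) (nat_lit 228) (nat_lit 14767160127) (nat_lit 201) (nat_lit 1) (nat_lit 200) (nat_lit 1) (nat_lit 203) (nat_lit 1) (nat_lit 238) (nat_lit 419) (nat_lit 363)) (XT.lf (nat_lit 152) (nat_lit 10851218876) (nat_lit 0) (nat_lit 25260772218) (nat_lit 76) (nat_lit 25260772218) (nat_lit 201) (nat_lit 1) (nat_lit 199) (nat_lit 1) (nat_lit 200) (nat_lit 1) (nat_lit 239) (nat_lit 419) (nat_lit 362)))) (XT.nd (nat_lit 156) (nat_lit 304) (nat_lit 0) (XT.nd (nat_lit 78) (nat_lit 0) (nat_lit 0) (XT.lf (nat_lit 228) (nat_lit 53331401769) (nat_lit 0) (nat_lit 3502629761) (nat_lit 152)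 (nat_lit 3502629761) (nat_lit 199) (nat_lit 1) (nat_lit 196) (nat_lit 1) (nat_lit 198) (nat_lit 1) (nat_lit 240) (nat_lit 419) (nat_lit 361)) (XT.lf (nat_lit 76) (nat_lit 17393441796) (nat_lit 0) (nat_lit 24513313714) (nat_lit 228) (nat_lit 17393441796) (nat_lit 197) (nat_lit 1) (nat_lit 196) (nat_lit 1) (nat_lit 199) (nat_lit 1) (nat_lit 241) (nat_lit 419) (nat_lit 360))) (XT.nd (nat_lit 78) (nat_lit 228) (nat_lit 0) (XT.lf (nat_lit 152) (nat_lit 16730061684) (nat_lit 0) (nat_lit 20782099819) (nat_lit 76) (nat_lit 20782099819) (nat_lit 197) (nat_lit 1) (nat_lit 195) (nat_lit 1) (nat_lit 196) (nat_lit 1) (nat_lit 242) (nat_lit 419) (nat_lit 359)) (XT.lf (nat_lit 228) (nat_lit 56592779477) (nat_lit 0) (nat_lit 364610217) (nat_lit 152) (nat_lit 364610217) (nat_lit 195) (nat_lit 1) (nat_lit 192) (nat_lit 1) (nat_lit 194) (nat_lit 1) (nat_lit 243) (nat_lit 419) (nat_lit 358))))))) (XT.nd (nat_lit 1014)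 (nat_lit 988) (nat_lit 0) (XT.nd (nat_lit 468) (nat_lit 608) (nat_lit 0) (XT.nd (nat_lit 234) (nat_lit 228) (nat_lit 0) (XT.nd (nat_lit 78) (nat_lit 76) (nat_lit 0) (XT.lf (nat_lit 76) (nat_lit 19304353910) (nat_lit 0) (nat_lit 17730712004) (nat_lit 228) (nat_lit 19304353910) (nat_lit 193) (nat_lit 1) (nat_lit 192) (nat_lit 1) (nat_lit 195) (nat_lit 1) (nat_lit 244) (nat_lit 419) (nat_lit 357)) (XT.nd (nat_lit 78) (nat_lit 0) (nat_lit 0) (XT.lf (nat_lit 152) (nat_lit 21195041303) (nat_lit 0) (nat_lit 17097484952) (nat_lit 76) (nat_lit 17097484952) (nat_lit 193) (nat_lit 1) (nat_lit 191) (nat_lit 1) (nat_lit 192) (nat_lit 1) (nat_lit 245) (nat_lit 419) (nat_lit 356)) (XT.lf (nat_lit 0) (nat_lit 2131568653) (nat_lit 0) (nat_lit 50206129518) (nat_lit 152) (nat_lit 2131568653) (nat_lit 191) (nat_lit 3) (nat_lit 191) (nat_lit 1) (nat_lit 193) (nat_lit 1) (nat_lit 246) (nat_lit 419) (nat_lit 355))))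 (XT.nd (nat_lit 78) (nat_lit 76) (nat_lit 0) (XT.lf (nat_lit 76) (nat_lit 20638621926) (nat_lit 0) (nat_lit 12266670309) (nat_lit 152) (nat_lit 20638621926) (nat_lit 190) (nat_lit 1) (nat_lit 189) (nat_lit 1) (nat_lit 191) (nat_lit 1) (nat_lit 247) (nat_lit 419) (nat_lit 354)) (XT.nd (nat_lit 78) (nat_lit 0) (nat_lit 0) (XT.lf (nat_lit 152) (nat_lit 24514525460) (nat_lit 0) (nat_lit 14066143183) (nat_lit 76) (nat_lit 14066143183) (nat_lit 190) (nat_lit 1) (nat_lit 188) (nat_lit 1) (nat_lit 189) (nat_lit 1) (nat_lit 248) (nat_lit 419) (nat_lit 353)) (XT.lf (nat_lit 0) (nat_lit 4074077143) (nat_lit 0) (nat_lit 43625137340) (nat_lit 152) (nat_lit 4074077143) (nat_lit 188) (nat_lit 3) (nat_lit 188) (nat_lit 1) (nat_lit 190) (nat_lit 1) (nat_lit 249) (nat_lit 419) (nat_lit 352))))) (XT.nd (nat_lit 234) (nat_lit 380) (nat_lit 0) (XT.nd (nat_lit 78) (nat_lit 76) (nat_lit 0) (XT.lf (nat_lit 76) (nat_lit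 21509809325) (nat_lit 0) (nat_lit 7881886367) (nat_lit 152) (nat_lit 21509809325) (nat_lit 187) (nat_lit 1) (nat_lit 186) (nat_lit 1) (nat_lit 188) (nat_lit 1) (nat_lit 250) (nat_lit 419) (nat_lit 351)) (XT.nd (nat_lit 78) (nat_lit 0) (nat_lit 0) (XT.lf (nat_lit 152) (nat_lit 26908458408) (nat_lit 0) (nat_lit 11572250807) (nat_lit 76) (nat_lit 11572250807) (nat_lit 187) (nat_lit 1) (nat_lit 185) (nat_lit 1) (nat_lit 186) (nat_lit 1) (nat_lit 251) (nat_lit 419) (nat_lit 350)) (XT.lf (nat_lit 0) (nat_lit 5561687002) (nat_lit 0) (nat_lit 38100442107) (nat_lit 152) (nat_lit 5561687002) (nat_lit 185) (nat_lit 3) (nat_lit 185) (nat_lit 1) (nat_lit 187) (nat_lit 1) (nat_lit 252) (nat_lit 419) (nat_lit 349)))) (XT.nd (nat_lit 156) (nat_lit 152) (nat_lit 0) (XT.nd (nat_lit 78) (nat_lit 76) (nat_lit 0) (XT.lf (nat_lit 76) (nat_lit 22010805735) (nat_lit 0) (nat_lit 4379748702) (nat_lit 152) (nat_lit 22010805735)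 (nat_lit 184) (nat_lit 1) (nat_lit 183) (nat_lit 1) (nat_lit 185) (nat_lit 1) (nat_lit 253) (nat_lit 419) (nat_lit 348)) (XT.lf (nat_lit 152) (nat_lit 28556986415) (nat_lit 0) (nat_lit 9520519378) (nat_lit 76) (nat_lit 9520519378) (nat_lit 184) (nat_lit 1) (nat_lit 182) (nat_lit 1) (nat_lit 183) (nat_lit 1) (nat_lit 254) (nat_lit 419) (nat_lit 347))) (XT.nd (nat_lit 78) (nat_lit 152) (nat_lit 0) (XT.lf (nat_lit 0) (nat_lit 6680312378) (nat_lit 0) (nat_lit 33450026730) (nat_lit 152) (nat_lit 6680312378) (nat_lit 182) (nat_lit 3) (nat_lit 182) (nat_lit 1) (nat_lit 184) (nat_lit 1) (nat_lit 255) (nat_lit 419) (nat_lit 346)) (XT.lf (nat_lit 76) (nat_lit 22217518038) (nat_lit 0) (nat_lit 1598755127) (nat_lit 152) (nat_lit 22217518038) (nat_lit 181) (nat_lit 1) (nat_lit 180) (nat_lit 1) (nat_lit 182) (nat_lit 1) (nat_lit 256) (nat_lit 419) (nat_lit 345)))))) (XT.nd (nat_lit 468) (nat_lit 608) (nat_lit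 0) (XT.nd (nat_lit 234) (nat_lit 228) (nat_lit 0) (XT.nd (nat_lit 78) (nat_lit 76) (nat_lit 0) (XT.lf (nat_lit 152) (nat_lit 29607552053) (nat_lit 0) (nat_lit 7832554853) (nat_lit 76) (nat_lit 7832554853) (nat_lit 181) (nat_lit 1) (nat_lit 179) (nat_lit 1) (nat_lit 180) (nat_lit 1) (nat_lit 257) (nat_lit 419) (nat_lit 344)) (XT.nd (nat_lit 78) (nat_lit 76) (nat_lit 0) (XT.lf (nat_lit 0) (nat_lit 7500384495) (nat_lit 0) (nat_lit 29523894742) (nat_lit 152) (nat_lit 7500384495) (nat_lit 179) (nat_lit 3) (nat_lit 179) (nat_lit 1) (nat_lit 181) (nat_lit 1) (nat_lit 258) (nat_lit 419) (nat_lit 343)) (XT.lf (nat_lit 76) (nat_lit 613355176) (nat_lit 0) (nat_lit 21588126840) (nat_lit 76) (nat_lit 21588126840) (nat_lit 179) (nat_lit 3) (nat_lit 178) (nat_lit 1) (nat_lit 179) (nat_lit 1) (nat_lit 259) (nat_lit 419) (nat_lit 342)))) (XT.nd (nat_lit 78) (nat_lit 76) (nat_lit 0) (XT.lf (nat_lit 152) (nat_lit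 30180728876) (nat_lit 0) (nat_lit 6443862262) (nat_lit 76) (nat_lit 6443862262) (nat_lit 178) (nat_lit 1) (nat_lit 176) (nat_lit 1) (nat_lit 177) (nat_lit 1) (nat_lit 260) (nat_lit 419) (nat_lit 341)) (XT.nd (nat_lit 78) (nat_lit 76) (nat_lit 0) (XT.lf (nat_lit 0) (nat_lit 8079608666) (nat_lit 0) (nat_lit 26198405050) (nat_lit 152) (nat_lit 8079608666) (nat_lit 176) (nat_lit 3) (nat_lit 176) (nat_lit 1) (nat_lit 178) (nat_lit 1) (nat_lit 261) (nat_lit 419) (nat_lit 340)) (XT.lf (nat_lit 76) (nat_lit 2382841896) (nat_lit 0) (nat_lit 19638838451) (nat_lit 76) (nat_lit 19638838451) (nat_lit 176) (nat_lit 3) (nat_lit 175) (nat_lit 1) (nat_lit 176) (nat_lit 1) (nat_lit 262) (nat_lit 419) (nat_lit 339))))) (XT.nd (nat_lit 234) (nat_lit 380) (nat_lit 0) (XT.nd (nat_lit 78) (nat_lit 76) (nat_lit 0) (XT.lf (nat_lit 152) (nat_lit 30375019890) (nat_lit 0) (nat_lit 5301381430) (nat_lit 76) (nat_lit 5301381430)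 (nat_lit 175) (nat_lit 1) (nat_lit 173) (nat_lit 1) (nat_lit 174) (nat_lit 1) (nat_lit 263) (nat_lit 419) (nat_lit 338)) (XT.nd (nat_lit 78) (nat_lit 76) (nat_lit 0) (XT.lf (nat_lit 0) (nat_lit 8465231931) (nat_lit 0) (nat_lit 23371610556) (nat_lit 152) (nat_lit 8465231931) (nat_lit 173) (nat_lit 3) (nat_lit 173) (nat_lit 1) (nat_lit 175) (nat_lit 1) (nat_lit 264) (nat_lit 419) (nat_lit 337)) (XT.lf (nat_lit 76) (nat_lit 3749163329) (nat_lit 0) (nat_lit 17945714400) (nat_lit 76) (nat_lit 17945714400) (nat_lit 173) (nat_lit 3) (nat_lit 172) (nat_lit 1) (nat_lit 173) (nat_lit 1) (nat_lit 265) (nat_lit 419) (nat_lit 336)))) (XT.nd (nat_lit 156) (nat_lit 228) (nat_lit 0) (XT.nd (nat_lit 78) (nat_lit 0) (nat_lit 0) (XT.lf (nat_lit 152) (nat_lit 30270803609) (nat_lit 0) (nat_lit 4361459622) (nat_lit 76) (nat_lit 4361459622) (nat_lit 172) (nat_lit 1) (nat_lit 170) (nat_lit 1) (nat_lit 171) (nat_lit 1)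 (nat_lit 266) (nat_lit 419) (nat_lit 335)) (XT.lf (nat_lit 0) (nat_lit 8695908103) (nat_lit 0) (nat_lit 20959422688) (nat_lit 152) (nat_lit 8695908103) (nat_lit 170) (nat_lit 3) (nat_lit 170) (nat_lit 1) (nat_lit 172) (nat_lit 1) (nat_lit 267) (nat_lit 419) (nat_lit 334))) (XT.nd (nat_lit 78) (nat_lit 152) (nat_lit 0) (XT.lf (nat_lit 76) (nat_lit 4788058715) (nat_lit 0) (nat_lit 16467596414) (nat_lit 76) (nat_lit 16467596414) (nat_lit 170) (nat_lit 3) (nat_lit 169) (nat_lit 1) (nat_lit 170) (nat_lit 1) (nat_lit 268) (nat_lit 419) (nat_lit 333)) (XT.lf (nat_lit 152) (nat_lit 29933578923) (nat_lit 0) (nat_lit 3588183625) (nat_lit 76) (nat_lit 3588183625) (nat_lit 169) (nat_lit 1) (nat_lit 167) (nat_lit 1) (nat_lit 168) (nat_lit 1) (nat_lit 269) (nat_lit 419) (nat_lit 332))))))))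
noncomputable def ec348 : XT := (XT.nd (nat_lit 1950) (nat_lit 1900) (nat_lit 0) (XT.nd (nat_lit 936) (nat_lit 912) (nat_lit 0) (XT.nd (nat_lit 468) (nat_lit 456) (nat_lit 0) (XT.nd (nat_lit 234) (nat_lit 228) (nat_lit 0) (XT.nd (nat_lit 78) (nat_lit 228) (nat_lit 0) (XT.lf (nat_lit 0) (nat_lit 8803231635) (nat_lit 0) (nat_lit 18892455434) (nat_lit 152) (nat_lit 8803231635) (nat_lit 167) (nat_lit 3) (nat_lit 167) (nat_lit 1) (nat_lit 169) (nat_lit 1) (nat_lit 270) (nat_lit 419) (nat_lit 331)) (XT.nd (nat_lit 78) (nat_lit 152) (nat_lit 0) (XT.lf (nat_lit 76) (nat_lit 5561636102) (nat_lit 0) (nat_lit 15170420672) (nat_lit 76) (nat_lit 15170420672) (nat_lit 167) (nat_lit 3) (nat_lit 166) (nat_lit 1) (nat_lit 167) (nat_lit 1) (nat_lit 271) (nat_lit 419) (nat_lit 330)) (XT.lf (nat_lit 152) (nat_lit 29416633155) (nat_lit 0) (nat_lit 2952007548) (nat_lit 76) (nat_lit 2952007548) (nat_lit 166) (nat_lit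 1) (nat_lit 164) (nat_lit 1) (nat_lit 165) (nat_lit 1) (nat_lit 272) (nat_lit 419) (nat_lit 329)))) (XT.nd (nat_lit 78) (nat_lit 228) (nat_lit 0) (XT.lf (nat_lit 0) (nat_lit 8812999041) (nat_lit 0) (nat_lit 17113428429) (nat_lit 152) (nat_lit 8812999041) (nat_lit 164) (nat_lit 3) (nat_lit 164) (nat_lit 1) (nat_lit 166) (nat_lit 1) (nat_lit 273) (nat_lit 419) (nat_lit 328)) (XT.nd (nat_lit 78) (nat_lit 152) (nat_lit 0) (XT.lf (nat_lit 76) (nat_lit 6120798783) (nat_lit 0) (nat_lit 14025969629) (nat_lit 76) (nat_lit 14025969629) (nat_lit 164) (nat_lit 3) (nat_lit 163) (nat_lit 1) (nat_lit 164) (nat_lit 1) (nat_lit 274) (nat_lit 419) (nat_lit 327)) (XT.lf (nat_lit 152) (nat_lit 28763235654) (nat_lit 0) (nat_lit 2428623915) (nat_lit 76) (nat_lit 2428623915) (nat_lit 163) (nat_lit 1) (nat_lit 161) (nat_lit 1) (nat_lit 162) (nat_lit 1) (nat_lit 275) (nat_lit 419) (nat_lit 326))))) (XT.nd (nat_lit 234)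 (nat_lit 228) (nat_lit 0) (XT.nd (nat_lit 78) (nat_lit 228) (nat_lit 0) (XT.lf (nat_lit 0) (nat_lit 8746246205) (nat_lit 0) (nat_lit 15575030005) (nat_lit 152) (nat_lit 8746246205) (nat_lit 161) (nat_lit 3) (nat_lit 161) (nat_lit 1) (nat_lit 163) (nat_lit 1) (nat_lit 276) (nat_lit 419) (nat_lit 325)) (XT.nd (nat_lit 78) (nat_lit 152) (nat_lit 0) (XT.lf (nat_lit 76) (nat_lit 6507241067) (nat_lit 0) (nat_lit 13010844686) (nat_lit 76) (nat_lit 13010844686) (nat_lit 161) (nat_lit 3) (nat_lit 160) (nat_lit 1) (nat_lit 161) (nat_lit 1) (nat_lit 277) (nat_lit 419) (nat_lit 324)) (XT.lf (nat_lit 152) (nat_lit 28008441114) (nat_lit 0) (nat_lit 1998034905) (nat_lit 76) (nat_lit 1998034905) (nat_lit 160) (nat_lit 1) (nat_lit 158) (nat_lit 1) (nat_lit 159) (nat_lit 1) (nat_lit 278) (nat_lit 419) (nat_lit 323)))) (XT.nd (nat_lit 78) (nat_lit 228) (nat_lit 0) (XT.lf (nat_lit 0) (nat_lit 8620101336) (nat_lit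 0) (nat_lit 14238158667) (nat_lit 152) (nat_lit 8620101336) (nat_lit 158) (nat_lit 3) (nat_lit 158) (nat_lit 1) (nat_lit 160) (nat_lit 1) (nat_lit 279) (nat_lit 419) (nat_lit 322)) (XT.nd (nat_lit 78) (nat_lit 152) (nat_lit 0) (XT.lf (nat_lit 76) (nat_lit 6755089768) (nat_lit 0) (nat_lit 12105620560) (nat_lit 76) (nat_lit 12105620560) (nat_lit 158) (nat_lit 3) (nat_lit 157) (nat_lit 1) (nat_lit 158) (nat_lit 1) (nat_lit 280) (nat_lit 419) (nat_lit 321)) (XT.lf (nat_lit 152) (nat_lit 27180571876) (nat_lit 0) (nat_lit 1643788261) (nat_lit 76) (nat_lit 1643788261) (nat_lit 157) (nat_lit 1) (nat_lit 155) (nat_lit 1) (nat_lit 156) (nat_lit 1) (nat_lit 281) (nat_lit 419) (nat_lit 320)))))) (XT.nd (nat_lit 468) (nat_lit 456) (nat_lit 0) (XT.nd (nat_lit 234) (nat_lit 228) (nat_lit 0) (XT.nd (nat_lit 78) (nat_lit 228) (nat_lit 0) (XT.lf (nat_lit 0) (nat_lit 8448486261) (nat_lit 0) (nat_lit 13070475931)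 (nat_lit 152) (nat_lit 8448486261) (nat_lit 155) (nat_lit 3) (nat_lit 155) (nat_lit 1) (nat_lit 157) (nat_lit 1) (nat_lit 282) (nat_lit 419) (nat_lit 319)) (XT.nd (nat_lit 78) (nat_lit 152) (nat_lit 0) (XT.lf (nat_lit 76) (nat_lit 6892254249) (nat_lit 0) (nat_lit 11294149173) (nat_lit 76) (nat_lit 11294149173) (nat_lit 155) (nat_lit 3) (nat_lit 154) (nat_lit 1) (nat_lit 155) (nat_lit 1) (nat_lit 283) (nat_lit 419) (nat_lit 318)) (XT.lf (nat_lit 152) (nat_lit 26302436184) (nat_lit 0) (nat_lit 1352348670) (nat_lit 76) (nat_lit 1352348670) (nat_lit 154) (nat_lit 1) (nat_lit 152) (nat_lit 1) (nat_lit 153) (nat_lit 1) (nat_lit 284) (nat_lit 419) (nat_lit 317)))) (XT.nd (nat_lit 78) (nat_lit 228) (nat_lit 0) (XT.lf (nat_lit 0) (nat_lit 8242692993) (nat_lit 0) (nat_lit 12045215333) (nat_lit 152) (nat_lit 8242692993) (nat_lit 152) (nat_lit 3) (nat_lit 152) (nat_lit 1) (nat_lit 154) (nat_lit 1) (nat_lit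 285) (nat_lit 419) (nat_lit 316)) (XT.nd (nat_lit 78) (nat_lit 152) (nat_lit 0) (XT.lf (nat_lit 76) (nat_lit 6941536704) (nat_lit 0) (nat_lit 10562986551) (nat_lit 76) (nat_lit 10562986551) (nat_lit 152) (nat_lit 3) (nat_lit 151) (nat_lit 1) (nat_lit 152) (nat_lit 1) (nat_lit 286) (nat_lit 419) (nat_lit 315)) (XT.lf (nat_lit 152) (nat_lit 25392329279) (nat_lit 0) (nat_lit 1112580598) (nat_lit 76) (nat_lit 1112580598) (nat_lit 151) (nat_lit 1) (nat_lit 149) (nat_lit 1) (nat_lit 150) (nat_lit 1) (nat_lit 287) (nat_lit 419) (nat_lit 314))))) (XT.nd (nat_lit 234) (nat_lit 228) (nat_lit 0) (XT.nd (nat_lit 78) (nat_lit 228) (nat_lit 0) (XT.lf (nat_lit 0) (nat_lit 8011857674) (nat_lit 0) (nat_lit 11140202214) (nat_lit 152) (nat_lit 8011857674) (nat_lit 149) (nat_lit 3) (nat_lit 149) (nat_lit 1) (nat_lit 151) (nat_lit 1) (nat_lit 288) (nat_lit 419) (nat_lit 313)) (XT.nd (nat_lit 78) (nat_lit 152) (nat_lit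 0) (XT.lf (nat_lit 76) (nat_lit 6921545211) (nat_lit 0) (nat_lit 9900920963) (nat_lit 76) (nat_lit 9900920963) (nat_lit 149) (nat_lit 3) (nat_lit 148) (nat_lit 1) (nat_lit 149) (nat_lit 1) (nat_lit 289) (nat_lit 419) (nat_lit 312)) (XT.lf (nat_lit 152) (nat_lit 24464855889) (nat_lit 0) (nat_lit 915322811) (nat_lit 76) (nat_lit 915322811) (nat_lit 148) (nat_lit 1) (nat_lit 146) (nat_lit 1) (nat_lit 147) (nat_lit 1) (nat_lit 290) (nat_lit 419) (nat_lit 311)))) (XT.nd (nat_lit 156) (nat_lit 152) (nat_lit 0) (XT.nd (nat_lit 78) (nat_lit 76) (nat_lit 0) (XT.lf (nat_lit 0) (nat_lit 7763350136) (nat_lit 0) (nat_lit 10337046931) (nat_lit 152) (nat_lit 7763350136) (nat_lit 146) (nat_lit 3) (nat_lit 146) (nat_lit 1) (nat_lit 148) (nat_lit 1) (nat_lit 291) (nat_lit 419) (nat_lit 310)) (XT.lf (nat_lit 76) (nat_lit 6847444552) (nat_lit 0) (nat_lit 9298584357) (nat_lit 76) (nat_lit 9298584357) (nat_lit 146)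 (nat_lit 3) (nat_lit 145) (nat_lit 1) (nat_lit 146) (nat_lit 1) (nat_lit 292) (nat_lit 419) (nat_lit 309))) (XT.nd (nat_lit 78) (nat_lit 0) (nat_lit 0) (XT.lf (nat_lit 152) (nat_lit 23531605819) (nat_lit 0) (nat_lit 753038342) (nat_lit 76) (nat_lit 753038342) (nat_lit 145) (nat_lit 1) (nat_lit 143) (nat_lit 1) (nat_lit 144) (nat_lit 1) (nat_lit 293) (nat_lit 419) (nat_lit 308)) (XT.lf (nat_lit 0) (nat_lit 7503094037) (nat_lit 0) (nat_lit 9620480759) (nat_lit 152) (nat_lit 7503094037) (nat_lit 143) (nat_lit 3) (nat_lit 143) (nat_lit 1) (nat_lit 145) (nat_lit 1) (nat_lit 294) (nat_lit 419) (nat_lit 307))))))) (XT.nd (nat_lit 936) (nat_lit 988) (nat_lit 0) (XT.nd (nat_lit 468) (nat_lit 456) (nat_lit 0) (XT.nd (nat_lit 234) (nat_lit 228) (nat_lit 0) (XT.nd (nat_lit 78) (nat_lit 152) (nat_lit 0) (XT.lf (nat_lit 76) (nat_lit 6731573557) (nat_lit 0) (nat_lit 8748132341) (nat_lit 76) (nat_lit 8748132341)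 (nat_lit 143) (nat_lit 3) (nat_lit 142) (nat_lit 1) (nat_lit 143) (nat_lit 1) (nat_lit 295) (nat_lit 419) (nat_lit 306)) (XT.nd (nat_lit 78) (nat_lit 0) (nat_lit 0) (XT.lf (nat_lit 152) (nat_lit 22601708756) (nat_lit 0) (nat_lit 619526507) (nat_lit 76) (nat_lit 619526507) (nat_lit 142) (nat_lit 1) (nat_lit 140) (nat_lit 1) (nat_lit 141) (nat_lit 1) (nat_lit 296) (nat_lit 419) (nat_lit 305)) (XT.lf (nat_lit 0) (nat_lit 7235829906) (nat_lit 0) (nat_lit 8977809202) (nat_lit 152) (nat_lit 7235829906) (nat_lit 140) (nat_lit 3) (nat_lit 140) (nat_lit 1) (nat_lit 142) (nat_lit 1) (nat_lit 297) (nat_lit 419) (nat_lit 304)))) (XT.nd (nat_lit 78) (nat_lit 152) (nat_lit 0) (XT.lf (nat_lit 76) (nat_lit 6583952681) (nat_lit 0) (nat_lit 8242980582) (nat_lit 76) (nat_lit 8242980582) (nat_lit 140) (nat_lit 3) (nat_lit 139) (nat_lit 1) (nat_lit 140) (nat_lit 1) (nat_lit 298) (nat_lit 419) (nat_lit 303)) (XT.nd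 (nat_lit 78) (nat_lit 0) (nat_lit 0) (XT.lf (nat_lit 152) (nat_lit 21682289740) (nat_lit 0) (nat_lit 509685991) (nat_lit 76) (nat_lit 509685991) (nat_lit 139) (nat_lit 1) (nat_lit 137) (nat_lit 1) (nat_lit 138) (nat_lit 1) (nat_lit 299) (nat_lit 419) (nat_lit 302)) (XT.lf (nat_lit 0) (nat_lit 6965331240) (nat_lit 0) (nat_lit 8398461918) (nat_lit 152) (nat_lit 6965331240) (nat_lit 137) (nat_lit 3) (nat_lit 137) (nat_lit 1) (nat_lit 139) (nat_lit 1) (nat_lit 300) (nat_lit 419) (nat_lit 301))))) (XT.nd (nat_lit 234) (nat_lit 228) (nat_lit 0) (XT.nd (nat_lit 78) (nat_lit 152) (nat_lit 0) (XT.lf (nat_lit 76) (nat_lit 6412701265) (nat_lit 0) (nat_lit 7777587625) (nat_lit 76) (nat_lit 7777587625) (nat_lit 137) (nat_lit 3) (nat_lit 136) (nat_lit 1) (nat_lit 137) (nat_lit 1) (nat_lit 301) (nat_lit 419) (nat_lit 300)) (XT.nd (nat_lit 78) (nat_lit 0) (nat_lit 0) (XT.lf (nat_lit 152) (nat_lit 20778842964)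 (nat_lit 0) (nat_lit 419319926) (nat_lit 76) (nat_lit 419319926) (nat_lit 136) (nat_lit 1) (nat_lit 134) (nat_lit 1) (nat_lit 135) (nat_lit 1) (nat_lit 302) (nat_lit 419) (nat_lit 299)) (XT.lf (nat_lit 0) (nat_lit 6694581982) (nat_lit 0) (nat_lit 7873622138) (nat_lit 152) (nat_lit 6694581982) (nat_lit 134) (nat_lit 3) (nat_lit 134) (nat_lit 1) (nat_lit 136) (nat_lit 1) (nat_lit 303) (nat_lit 419) (nat_lit 298)))) (XT.nd (nat_lit 78) (nat_lit 152) (nat_lit 0) (XT.lf (nat_lit 76) (nat_lit 6224380535) (nat_lit 0) (nat_lit 7347275921) (nat_lit 76) (nat_lit 7347275921) (nat_lit 134) (nat_lit 3) (nat_lit 133) (nat_lit 1) (nat_lit 134) (nat_lit 1) (nat_lit 304) (nat_lit 419) (nat_lit 297)) (XT.nd (nat_lit 78) (nat_lit 0) (nat_lit 0) (XT.lf (nat_lit 152) (nat_lit 19895538421) (nat_lit 0) (nat_lit 344975541) (nat_lit 76) (nat_lit 344975541) (nat_lit 133) (nat_lit 1) (nat_lit 131) (nat_lit 1) (nat_lit 132)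 (nat_lit 1) (nat_lit 305) (nat_lit 419) (nat_lit 296)) (XT.lf (nat_lit 0) (nat_lit 6425922243) (nat_lit 0) (nat_lit 7395921497) (nat_lit 152) (nat_lit 6425922243) (nat_lit 131) (nat_lit 3) (nat_lit 131) (nat_lit 1) (nat_lit 133) (nat_lit 1) (nat_lit 306) (nat_lit 419) (nat_lit 295)))))) (XT.nd (nat_lit 468) (nat_lit 532) (nat_lit 0) (XT.nd (nat_lit 234) (nat_lit 228) (nat_lit 0) (XT.nd (nat_lit 78) (nat_lit 152) (nat_lit 0) (XT.lf (nat_lit 76) (nat_lit 6024275493) (nat_lit 0) (nat_lit 6948084306) (nat_lit 76) (nat_lit 6948084306) (nat_lit 131) (nat_lit 3) (nat_lit 130) (nat_lit 1) (nat_lit 131) (nat_lit 1) (nat_lit 307) (nat_lit 419) (nat_lit 294)) (XT.nd (nat_lit 78) (nat_lit 0) (nat_lit 0) (XT.lf (nat_lit 152) (nat_lit 19035473354) (nat_lit 0) (nat_lit 283812231) (nat_lit 76) (nat_lit 283812231) (nat_lit 130) (nat_lit 1) (nat_lit 128) (nat_lit 1) (nat_lit 129) (nat_lit 1) (nat_lit 308) (nat_lit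 419) (nat_lit 293)) (XT.lf (nat_lit 0) (nat_lit 6161167922) (nat_lit 0) (nat_lit 6959188709) (nat_lit 152) (nat_lit 6161167922) (nat_lit 128) (nat_lit 3) (nat_lit 128) (nat_lit 1) (nat_lit 130) (nat_lit 1) (nat_lit 309) (nat_lit 419) (nat_lit 292)))) (XT.nd (nat_lit 78) (nat_lit 152) (nat_lit 0) (XT.lf (nat_lit 76) (nat_lit 5816626569) (nat_lit 0) (nat_lit 6576646366) (nat_lit 76) (nat_lit 6576646366) (nat_lit 128) (nat_lit 3) (nat_lit 127) (nat_lit 1) (nat_lit 128) (nat_lit 1) (nat_lit 310) (nat_lit 419) (nat_lit 291)) (XT.nd (nat_lit 78) (nat_lit 0) (nat_lit 0) (XT.lf (nat_lit 152) (nat_lit 18200878331) (nat_lit 0) (nat_lit 233493025) (nat_lit 76) (nat_lit 233493025) (nat_lit 127) (nat_lit 1) (nat_lit 125) (nat_lit 1) (nat_lit 126) (nat_lit 1) (nat_lit 311) (nat_lit 419) (nat_lit 290)) (XT.lf (nat_lit 0) (nat_lit 5901708849) (nat_lit 0) (nat_lit 6558242525) (nat_lit 152) (nat_lit 5901708849)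 (nat_lit 125) (nat_lit 3) (nat_lit 125) (nat_lit 1) (nat_lit 127) (nat_lit 1) (nat_lit 312) (nat_lit 419) (nat_lit 289))))) (XT.nd (nat_lit 234) (nat_lit 304) (nat_lit 0) (XT.nd (nat_lit 78) (nat_lit 152) (nat_lit 0) (XT.lf (nat_lit 76) (nat_lit 5604819942) (nat_lit 0) (nat_lit 6230090110) (nat_lit 76) (nat_lit 6230090110) (nat_lit 125) (nat_lit 3) (nat_lit 124) (nat_lit 1) (nat_lit 125) (nat_lit 1) (nat_lit 313) (nat_lit 419) (nat_lit 288)) (XT.nd (nat_lit 78) (nat_lit 0) (nat_lit 0) (XT.lf (nat_lit 152) (nat_lit 17393286021) (nat_lit 0) (nat_lit 192095289) (nat_lit 76) (nat_lit 192095289) (nat_lit 124) (nat_lit 1) (nat_lit 122) (nat_lit 1) (nat_lit 123) (nat_lit 1) (nat_lit 314) (nat_lit 419) (nat_lit 287)) (XT.lf (nat_lit 0) (nat_lit 5648589287) (nat_lit 0) (nat_lit 6188721167) (nat_lit 152) (nat_lit 5648589287) (nat_lit 122) (nat_lit 3) (nat_lit 122) (nat_lit 1) (nat_lit 124) (nat_lit 1) (nat_lit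 315) (nat_lit 419) (nat_lit 286)))) (XT.nd (nat_lit 156) (nat_lit 76) (nat_lit 0) (XT.nd (nat_lit 78) (nat_lit 152) (nat_lit 0) (XT.lf (nat_lit 76) (nat_lit 5391543874) (nat_lit 0) (nat_lit 5905955189) (nat_lit 76) (nat_lit 5905955189) (nat_lit 122) (nat_lit 3) (nat_lit 121) (nat_lit 1) (nat_lit 122) (nat_lit 1) (nat_lit 316) (nat_lit 419) (nat_lit 285)) (XT.lf (nat_lit 152) (nat_lit 16613669335) (nat_lit 0) (nat_lit 158037270) (nat_lit 76) (nat_lit 158037270) (nat_lit 121) (nat_lit 1) (nat_lit 119) (nat_lit 1) (nat_lit 120) (nat_lit 1) (nat_lit 317) (nat_lit 419) (nat_lit 284))) (XT.nd (nat_lit 78) (nat_lit 76) (nat_lit 0) (XT.lf (nat_lit 0) (nat_lit 5402573920) (nat_lit 0) (nat_lit 5846941754) (nat_lit 152) (nat_lit 5402573920) (nat_lit 119) (nat_lit 3) (nat_lit 119) (nat_lit 1) (nat_lit 121) (nat_lit 1) (nat_lit 318) (nat_lit 419) (nat_lit 283)) (XT.lf (nat_lit 76) (nat_lit 5178917095) (nat_lit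 0) (nat_lit 5602124556) (nat_lit 76) (nat_lit 5602124556) (nat_lit 119) (nat_lit 3) (nat_lit 118) (nat_lit 1) (nat_lit 119) (nat_lit 1) (nat_lit 319) (nat_lit 419) (nat_lit 282))))))))
noncomputable def ec349 : XT := (XT.nd (nat_lit 1950) (nat_lit 1900) (nat_lit 0) (XT.nd (nat_lit 936) (nat_lit 1064) (nat_lit 0) (XT.nd (nat_lit 468) (nat_lit 456) (nat_lit 0) (XT.nd (nat_lit 234) (nat_lit 228) (nat_lit 0) (XT.nd (nat_lit 78) (nat_lit 76) (nat_lit 0) (XT.lf (nat_lit 152) (nat_lit 15862554382) (nat_lit 0) (nat_lit 130017653) (nat_lit 76) (nat_lit 130017653) (nat_lit 118) (nat_lit 1) (nat_lit 116) (nat_lit 1) (nat_lit 117) (nat_lit 1) (nat_lit 320) (nat_lit 419) (nat_lit 281)) (XT.nd (nat_lit 78) (nat_lit 76) (nat_lit 0) (XT.lf (nat_lit 0) (nat_lit 5164201919) (nat_lit 0) (nat_lit 5529784437) (nat_lit 152) (nat_lit 5164201919) (nat_lit 116) (nat_lit 3) (nat_lit 116) (nat_lit 1) (nat_lit 118) (nat_lit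 1) (nat_lit 321) (nat_lit 419) (nat_lit 280)) (XT.lf (nat_lit 76) (nat_lit 4968594203) (nat_lit 0) (nat_lit 5316768029) (nat_lit 76) (nat_lit 5316768029) (nat_lit 116) (nat_lit 3) (nat_lit 115) (nat_lit 1) (nat_lit 116) (nat_lit 1) (nat_lit 322) (nat_lit 419) (nat_lit 279)))) (XT.nd (nat_lit 78) (nat_lit 76) (nat_lit 0) (XT.lf (nat_lit 152) (nat_lit 15140112752) (nat_lit 0) (nat_lit 106965845) (nat_lit 76) (nat_lit 106965845) (nat_lit 115) (nat_lit 1) (nat_lit 113) (nat_lit 1) (nat_lit 114) (nat_lit 1) (nat_lit 323) (nat_lit 419) (nat_lit 278)) (XT.nd (nat_lit 78) (nat_lit 76) (nat_lit 0) (XT.lf (nat_lit 0) (nat_lit 4933831209) (nat_lit 0) (nat_lit 5234596851) (nat_lit 152) (nat_lit 4933831209) (nat_lit 113) (nat_lit 3) (nat_lit 113) (nat_lit 1) (nat_lit 115) (nat_lit 1) (nat_lit 324) (nat_lit 419) (nat_lit 277)) (XT.lf (nat_lit 76) (nat_lit 4761852168) (nat_lit 0) (nat_lit 5048295636) (nat_lit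 76) (nat_lit 5048295636) (nat_lit 113) (nat_lit 3) (nat_lit 112) (nat_lit 1) (nat_lit 113) (nat_lit 1) (nat_lit 325) (nat_lit 419) (nat_lit 276))))) (XT.nd (nat_lit 234) (nat_lit 228) (nat_lit 0) (XT.nd (nat_lit 78) (nat_lit 76) (nat_lit 0) (XT.lf (nat_lit 152) (nat_lit 14446236806) (nat_lit 0) (nat_lit 88001065) (nat_lit 76) (nat_lit 88001065) (nat_lit 112) (nat_lit 1) (nat_lit 110) (nat_lit 1) (nat_lit 111) (nat_lit 1) (nat_lit 326) (nat_lit 419) (nat_lit 275)) (XT.nd (nat_lit 78) (nat_lit 76) (nat_lit 0) (XT.lf (nat_lit 0) (nat_lit 4711674679) (nat_lit 0) (nat_lit 4959115317) (nat_lit 152) (nat_lit 4711674679) (nat_lit 110) (nat_lit 3) (nat_lit 110) (nat_lit 1) (nat_lit 112) (nat_lit 1) (nat_lit 327) (nat_lit 419) (nat_lit 274)) (XT.lf (nat_lit 76) (nat_lit 4559661297) (nat_lit 0) (nat_lit 4795319047) (nat_lit 76) (nat_lit 4795319047) (nat_lit 110) (nat_lit 3) (nat_lit 109) (nat_lit 1) (nat_lit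 110) (nat_lit 1) (nat_lit 328) (nat_lit 419) (nat_lit 273)))) (XT.nd (nat_lit 78) (nat_lit 76) (nat_lit 0) (XT.lf (nat_lit 152) (nat_lit 13780601035) (nat_lit 0) (nat_lit 72398694) (nat_lit 76) (nat_lit 72398694) (nat_lit 109) (nat_lit 1) (nat_lit 107) (nat_lit 1) (nat_lit 108) (nat_lit 1) (nat_lit 329) (nat_lit 419) (nat_lit 272)) (XT.nd (nat_lit 78) (nat_lit 76) (nat_lit 0) (XT.lf (nat_lit 0) (nat_lit 4497829784) (nat_lit 0) (nat_lit 4701399809) (nat_lit 152) (nat_lit 4497829784) (nat_lit 107) (nat_lit 3) (nat_lit 107) (nat_lit 1) (nat_lit 109) (nat_lit 1) (nat_lit 330) (nat_lit 419) (nat_lit 271)) (XT.lf (nat_lit 76) (nat_lit 4362743428) (nat_lit 0) (nat_lit 4556619642) (nat_lit 76) (nat_lit 4556619642) (nat_lit 107) (nat_lit 3) (nat_lit 106) (nat_lit 1) (nat_lit 107) (nat_lit 1) (nat_lit 331) (nat_lit 419) (nat_lit 270)))))) (XT.nd (nat_lit 468) (nat_lit 608) (nat_lit 0) (XT.nd (nat_lit 234)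 (nat_lit 228) (nat_lit 0) (XT.nd (nat_lit 78) (nat_lit 76) (nat_lit 0) (XT.lf (nat_lit 152) (nat_lit 13142711969) (nat_lit 0) (nat_lit 59562585) (nat_lit 76) (nat_lit 59562585) (nat_lit 106) (nat_lit 1) (nat_lit 104) (nat_lit 1) (nat_lit 105) (nat_lit 1) (nat_lit 332) (nat_lit 419) (nat_lit 269)) (XT.nd (nat_lit 78) (nat_lit 76) (nat_lit 0) (XT.lf (nat_lit 0) (nat_lit 4292302709) (nat_lit 0) (nat_lit 4459780272) (nat_lit 152) (nat_lit 4292302709) (nat_lit 104) (nat_lit 3) (nat_lit 104) (nat_lit 1) (nat_lit 106) (nat_lit 1) (nat_lit 333) (nat_lit 419) (nat_lit 268)) (XT.lf (nat_lit 76) (nat_lit 4171619619) (nat_lit 0) (nat_lit 4331122061) (nat_lit 76) (nat_lit 4331122061) (nat_lit 104) (nat_lit 3) (nat_lit 103) (nat_lit 1) (nat_lit 104) (nat_lit 1) (nat_lit 334) (nat_lit 419) (nat_lit 267)))) (XT.nd (nat_lit 78) (nat_lit 76) (nat_lit 0) (XT.lf (nat_lit 152) (nat_lit 12531948704) (nat_lit 0) (nat_lit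 49002286) (nat_lit 76) (nat_lit 49002286) (nat_lit 103) (nat_lit 1) (nat_lit 101) (nat_lit 1) (nat_lit 102) (nat_lit 1) (nat_lit 335) (nat_lit 419) (nat_lit 266)) (XT.nd (nat_lit 78) (nat_lit 76) (nat_lit 0) (XT.lf (nat_lit 0) (nat_lit 4095028074) (nat_lit 0) (nat_lit 4232812280) (nat_lit 152) (nat_lit 4095028074) (nat_lit 101) (nat_lit 3) (nat_lit 101) (nat_lit 1) (nat_lit 103) (nat_lit 1) (nat_lit 336) (nat_lit 419) (nat_lit 265)) (XT.lf (nat_lit 76) (nat_lit 3986649217) (nat_lit 0) (nat_lit 4117872270) (nat_lit 76) (nat_lit 4117872270) (nat_lit 101) (nat_lit 3) (nat_lit 100) (nat_lit 1) (nat_lit 101) (nat_lit 1) (nat_lit 337) (nat_lit 419) (nat_lit 264))))) (XT.nd (nat_lit 234) (nat_lit 380) (nat_lit 0) (XT.nd (nat_lit 78) (nat_lit 76) (nat_lit 0) (XT.lf (nat_lit 152) (nat_lit 11947595728) (nat_lit 0) (nat_lit 40314302) (nat_lit 76) (nat_lit 40314302) (nat_lit 100) (nat_lit 1) (nat_lit 98) (nat_lit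 1) (nat_lit 99) (nat_lit 1) (nat_lit 338) (nat_lit 419) (nat_lit 263)) (XT.nd (nat_lit 78) (nat_lit 76) (nat_lit 0) (XT.lf (nat_lit 0) (nat_lit 3905884982) (nat_lit 0) (nat_lit 4019240389) (nat_lit 152) (nat_lit 3905884982) (nat_lit 98) (nat_lit 3) (nat_lit 98) (nat_lit 1) (nat_lit 100) (nat_lit 1) (nat_lit 339) (nat_lit 419) (nat_lit 262)) (XT.lf (nat_lit 76) (nat_lit 3808061827) (nat_lit 0) (nat_lit 3916019358) (nat_lit 76) (nat_lit 3916019358) (nat_lit 98) (nat_lit 3) (nat_lit 97) (nat_lit 1) (nat_lit 98) (nat_lit 1) (nat_lit 340) (nat_lit 419) (nat_lit 261)))) (XT.nd (nat_lit 156) (nat_lit 228) (nat_lit 0) (XT.nd (nat_lit 78) (nat_lit 0) (nat_lit 0) (XT.lf (nat_lit 152) (nat_lit 11388869445) (nat_lit 0) (nat_lit 33166676) (nat_lit 76) (nat_lit 33166676) (nat_lit 97) (nat_lit 1) (nat_lit 95) (nat_lit 1) (nat_lit 96) (nat_lit 1) (nat_lit 341) (nat_lit 419) (nat_lit 260)) (XT.lf (nat_lit 0) (nat_lit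 3724710051) (nat_lit 0) (nat_lit 3817967825) (nat_lit 152) (nat_lit 3724710051) (nat_lit 95) (nat_lit 3) (nat_lit 95) (nat_lit 1) (nat_lit 97) (nat_lit 1) (nat_lit 342) (nat_lit 419) (nat_lit 259))) (XT.nd (nat_lit 78) (nat_lit 152) (nat_lit 0) (XT.lf (nat_lit 76) (nat_lit 3635983461) (nat_lit 0) (nat_lit 3724800389) (nat_lit 76) (nat_lit 3724800389) (nat_lit 95) (nat_lit 3) (nat_lit 94) (nat_lit 1) (nat_lit 95) (nat_lit 1) (nat_lit 343) (nat_lit 419) (nat_lit 258)) (XT.lf (nat_lit 152) (nat_lit 10854939527) (nat_lit 0) (nat_lit 27286306) (nat_lit 76) (nat_lit 27286306) (nat_lit 94) (nat_lit 1) (nat_lit 92) (nat_lit 1) (nat_lit 93) (nat_lit 1) (nat_lit 344) (nat_lit 419) (nat_lit 257))))))) (XT.nd (nat_lit 1014) (nat_lit 988) (nat_lit 0) (XT.nd (nat_lit 468) (nat_lit 456) (nat_lit 0) (XT.nd (nat_lit 234) (nat_lit 228) (nat_lit 0) (XT.nd (nat_lit 78) (nat_lit 228) (nat_lit 0) (XT.lf (nat_lit 0)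 (nat_lit 3551307997) (nat_lit 0) (nat_lit 3628031398) (nat_lit 152) (nat_lit 3551307997) (nat_lit 92) (nat_lit 3) (nat_lit 92) (nat_lit 1) (nat_lit 94) (nat_lit 1) (nat_lit 345) (nat_lit 419) (nat_lit 256)) (XT.nd (nat_lit 78) (nat_lit 152) (nat_lit 0) (XT.lf (nat_lit 76) (nat_lit 3470457898) (nat_lit 0) (nat_lit 3543527804) (nat_lit 76) (nat_lit 3543527804) (nat_lit 92) (nat_lit 3) (nat_lit 91) (nat_lit 1) (nat_lit 92) (nat_lit 1) (nat_lit 346) (nat_lit 419) (nat_lit 255)) (XT.lf (nat_lit 152) (nat_lit 10344946041) (nat_lit 0) (nat_lit 22448511) (nat_lit 76) (nat_lit 22448511) (nat_lit 91) (nat_lit 1) (nat_lit 89) (nat_lit 1) (nat_lit 90) (nat_lit 1) (nat_lit 347) (nat_lit 419) (nat_lit 254)))) (XT.nd (nat_lit 78) (nat_lit 228) (nat_lit 0) (XT.lf (nat_lit 0) (nat_lit 3385460182) (nat_lit 0) (nat_lit 3448580714) (nat_lit 152) (nat_lit 3385460182) (nat_lit 89) (nat_lit 3) (nat_lit 89) (nat_lit 1)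 (nat_lit 91) (nat_lit 1) (nat_lit 348) (nat_lit 419) (nat_lit 253)) (XT.nd (nat_lit 78) (nat_lit 152) (nat_lit 0) (XT.lf (nat_lit 76) (nat_lit 3311464117) (nat_lit 0) (nat_lit 3371578909) (nat_lit 76) (nat_lit 3371578909) (nat_lit 89) (nat_lit 3) (nat_lit 88) (nat_lit 1) (nat_lit 89) (nat_lit 1) (nat_lit 349) (nat_lit 419) (nat_lit 252)) (XT.lf (nat_lit 152) (nat_lit 9858013117) (nat_lit 0) (nat_lit 18468446) (nat_lit 76) (nat_lit 18468446) (nat_lit 88) (nat_lit 1) (nat_lit 86) (nat_lit 1) (nat_lit 87) (nat_lit 1) (nat_lit 350) (nat_lit 419) (nat_lit 251))))) (XT.nd (nat_lit 234) (nat_lit 228) (nat_lit 0) (XT.nd (nat_lit 78) (nat_lit 228) (nat_lit 0) (XT.lf (nat_lit 0) (nat_lit 3226931522) (nat_lit 0) (nat_lit 3278860940) (nat_lit 152) (nat_lit 3226931522) (nat_lit 86) (nat_lit 3) (nat_lit 86) (nat_lit 1) (nat_lit 88) (nat_lit 1) (nat_lit 351) (nat_lit 419) (nat_lit 250)) (XT.nd (nat_lit 78) (nat_lit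 152) (nat_lit 0) (XT.lf (nat_lit 76) (nat_lit 3158930501) (nat_lit 0) (nat_lit 3208387089) (nat_lit 76) (nat_lit 3208387089) (nat_lit 86) (nat_lit 3) (nat_lit 85) (nat_lit 1) (nat_lit 86) (nat_lit 1) (nat_lit 352) (nat_lit 419) (nat_lit 249)) (XT.lf (nat_lit 152) (nat_lit 9393259795) (nat_lit 0) (nat_lit 15194036) (nat_lit 76) (nat_lit 15194036) (nat_lit 85) (nat_lit 1) (nat_lit 83) (nat_lit 1) (nat_lit 84) (nat_lit 1) (nat_lit 353) (nat_lit 419) (nat_lit 248)))) (XT.nd (nat_lit 156) (nat_lit 152) (nat_lit 0) (XT.nd (nat_lit 78) (nat_lit 76) (nat_lit 0) (XT.lf (nat_lit 0) (nat_lit 3075476027) (nat_lit 0) (nat_lit 3118198487) (nat_lit 152) (nat_lit 3075476027) (nat_lit 83) (nat_lit 3) (nat_lit 83) (nat_lit 1) (nat_lit 85) (nat_lit 1) (nat_lit 354) (nat_lit 419) (nat_lit 247)) (XT.lf (nat_lit 76) (nat_lit 3012746394) (nat_lit 0) (nat_lit 3053434452) (nat_lit 76) (nat_lit 3053434452) (nat_lit 83)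 (nat_lit 3) (nat_lit 82) (nat_lit 1) (nat_lit 83) (nat_lit 1) (nat_lit 355) (nat_lit 419) (nat_lit 246))) (XT.nd (nat_lit 78) (nat_lit 0) (nat_lit 0) (XT.lf (nat_lit 152) (nat_lit 8949808563) (nat_lit 0) (nat_lit 12500171) (nat_lit 76) (nat_lit 12500171) (nat_lit 82) (nat_lit 1) (nat_lit 80) (nat_lit 1) (nat_lit 81) (nat_lit 1) (nat_lit 356) (nat_lit 419) (nat_lit 245)) (XT.lf (nat_lit 0) (nat_lit 2930841241) (nat_lit 0) (nat_lit 2965989115) (nat_lit 152) (nat_lit 2930841241) (nat_lit 80) (nat_lit 3) (nat_lit 80) (nat_lit 1) (nat_lit 82) (nat_lit 1) (nat_lit 357) (nat_lit 419) (nat_lit 244)))))) (XT.nd (nat_lit 468) (nat_lit 532) (nat_lit 0) (XT.nd (nat_lit 234) (nat_lit 228) (nat_lit 0) (XT.nd (nat_lit 78) (nat_lit 152) (nat_lit 0) (XT.lf (nat_lit 76) (nat_lit 2872771490) (nat_lit 0) (nat_lit 2906245656) (nat_lit 76) (nat_lit 2906245656) (nat_lit 80) (nat_lit 3) (nat_lit 79) (nat_lit 1) (nat_lit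 80) (nat_lit 1) (nat_lit 358) (nat_lit 419) (nat_lit 243)) (XT.nd (nat_lit 78) (nat_lit 0) (nat_lit 0) (XT.lf (nat_lit 152) (nat_lit 8526792019) (nat_lit 0) (nat_lit 10283921) (nat_lit 76) (nat_lit 10283921) (nat_lit 79) (nat_lit 1) (nat_lit 77) (nat_lit 1) (nat_lit 78) (nat_lit 1) (nat_lit 359) (nat_lit 419) (nat_lit 242)) (XT.lf (nat_lit 0) (nat_lit 2792771773) (nat_lit 0) (nat_lit 2821688016) (nat_lit 152) (nat_lit 2792771773) (nat_lit 77) (nat_lit 3) (nat_lit 77) (nat_lit 1) (nat_lit 79) (nat_lit 1) (nat_lit 360) (nat_lit 419) (nat_lit 241)))) (XT.nd (nat_lit 78) (nat_lit 152) (nat_lit 0) (XT.lf (nat_lit 76) (nat_lit 2738843429) (nat_lit 0) (nat_lit 2766382708) (nat_lit 76) (nat_lit 2766382708) (nat_lit 77) (nat_lit 3) (nat_lit 76) (nat_lit 1) (nat_lit 77) (nat_lit 1) (nat_lit 361) (nat_lit 419) (nat_lit 240)) (XT.nd (nat_lit 78) (nat_lit 0) (nat_lit 0) (XT.lf (nat_lit 152) (nat_lit 8123358005)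 (nat_lit 0) (nat_lit 8460608) (nat_lit 76) (nat_lit 8460608) (nat_lit 76) (nat_lit 1) (nat_lit 74) (nat_lit 1) (nat_lit 75) (nat_lit 1) (nat_lit 362) (nat_lit 419) (nat_lit 239)) (XT.lf (nat_lit 0) (nat_lit 2661012088) (nat_lit 0) (nat_lit 2684801553) (nat_lit 152) (nat_lit 2661012088) (nat_lit 74) (nat_lit 3) (nat_lit 74) (nat_lit 1) (nat_lit 76) (nat_lit 1) (nat_lit 363) (nat_lit 419) (nat_lit 238))))) (XT.nd (nat_lit 234) (nat_lit 304) (nat_lit 0) (XT.nd (nat_lit 78) (nat_lit 152) (nat_lit 0) (XT.lf (nat_lit 76) (nat_lit 2610783947) (nat_lit 0) (nat_lit 2633440580) (nat_lit 76) (nat_lit 2633440580) (nat_lit 74) (nat_lit 3) (nat_lit 73) (nat_lit 1) (nat_lit 74) (nat_lit 1) (nat_lit 364) (nat_lit 419) (nat_lit 237)) (XT.nd (nat_lit 78) (nat_lit 0) (nat_lit 0) (XT.lf (nat_lit 152) (nat_lit 7738673505) (nat_lit 0) (nat_lit 6960563) (nat_lit 76) (nat_lit 6960563) (nat_lit 73) (nat_lit 1) (nat_lit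 71) (nat_lit 1) (nat_lit 72) (nat_lit 1) (nat_lit 365) (nat_lit 419) (nat_lit 236)) (XT.lf (nat_lit 0) (nat_lit 2535308696) (nat_lit 0) (nat_lit 2554880348) (nat_lit 152) (nat_lit 2535308696) (nat_lit 71) (nat_lit 3) (nat_lit 71) (nat_lit 1) (nat_lit 73) (nat_lit 1) (nat_lit 366) (nat_lit 419) (nat_lit 235)))) (XT.nd (nat_lit 156) (nat_lit 76) (nat_lit 0) (XT.nd (nat_lit 78) (nat_lit 152) (nat_lit 0) (XT.lf (nat_lit 76) (nat_lit 2488403824) (nat_lit 0) (nat_lit 2507043493) (nat_lit 76) (nat_lit 2507043493) (nat_lit 71) (nat_lit 3) (nat_lit 70) (nat_lit 1) (nat_lit 71) (nat_lit 1) (nat_lit 367) (nat_lit 419) (nat_lit 234)) (XT.lf (nat_lit 152) (nat_lit 7371927531) (nat_lit 0) (nat_lit 5726472) (nat_lit 76) (nat_lit 5726472) (nat_lit 70) (nat_lit 1) (nat_lit 68) (nat_lit 1) (nat_lit 69) (nat_lit 1) (nat_lit 368) (nat_lit 419) (nat_lit 233))) (XT.nd (nat_lit 78) (nat_lit 76) (nat_lit 0) (XT.lf (nat_lit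 0) (nat_lit 2415411849) (nat_lit 0) (nat_lit 2431513495) (nat_lit 152) (nat_lit 2415411849) (nat_lit 68) (nat_lit 3) (nat_lit 68) (nat_lit 1) (nat_lit 70) (nat_lit 1) (nat_lit 369) (nat_lit 419) (nat_lit 232)) (XT.lf (nat_lit 76) (nat_lit 2371506851) (nat_lit 0) (nat_lit 2386841752) (nat_lit 76) (nat_lit 2386841752) (nat_lit 68) (nat_lit 3) (nat_lit 67) (nat_lit 1) (nat_lit 68) (nat_lit 1) (nat_lit 370) (nat_lit 419) (nat_lit 231))))))))
noncomputable def ec350 : XT := (XT.nd (nat_lit 1950) (nat_lit 1824) (nat_lit 0) (XT.nd (nat_lit 936) (nat_lit 1064) (nat_lit 0) (XT.nd (nat_lit 468) (nat_lit 456) (nat_lit 0) (XT.nd (nat_lit 234) (nat_lit 228) (nat_lit 0) (XT.nd (nat_lit 78) (nat_lit 76) (nat_lit 0) (XT.lf (nat_lit 152) (nat_lit 7022333201) (nat_lit 0) (nat_lit 4711183) (nat_lit 76) (nat_lit 4711183) (nat_lit 67) (nat_lit 1) (nat_lit 65) (nat_lit 1) (nat_lit 66) (nat_lit 1) (nat_lit 371) (nat_lit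 419) (nat_lit 230)) (XT.nd (nat_lit 78) (nat_lit 76) (nat_lit 0) (XT.lf (nat_lit 0) (nat_lit 2301076840) (nat_lit 0) (nat_lit 2314323704) (nat_lit 152) (nat_lit 2301076840) (nat_lit 65) (nat_lit 3) (nat_lit 65) (nat_lit 1) (nat_lit 67) (nat_lit 1) (nat_lit 372) (nat_lit 419) (nat_lit 229)) (XT.lf (nat_lit 76) (nat_lit 2259893000) (nat_lit 0) (nat_lit 2272509061) (nat_lit 76) (nat_lit 2272509061) (nat_lit 65) (nat_lit 3) (nat_lit 64) (nat_lit 1) (nat_lit 65) (nat_lit 1) (nat_lit 373) (nat_lit 419) (nat_lit 228)))) (XT.nd (nat_lit 78) (nat_lit 76) (nat_lit 0) (XT.lf (nat_lit 152) (nat_lit 6689129168) (nat_lit 0) (nat_lit 3875902) (nat_lit 76) (nat_lit 3875902) (nat_lit 64) (nat_lit 1) (nat_lit 62) (nat_lit 1) (nat_lit 63) (nat_lit 1) (nat_lit 374) (nat_lit 419) (nat_lit 227)) (XT.nd (nat_lit 78) (nat_lit 76) (nat_lit 0) (XT.lf (nat_lit 0) (nat_lit 2192064976) (nat_lit 0) (nat_lit 2202963204) (nat_lit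 152) (nat_lit 2192064976) (nat_lit 62) (nat_lit 3) (nat_lit 62) (nat_lit 1) (nat_lit 64) (nat_lit 1) (nat_lit 375) (nat_lit 419) (nat_lit 226)) (XT.lf (nat_lit 76) (nat_lit 2153360939) (nat_lit 0) (nat_lit 2163740204) (nat_lit 76) (nat_lit 2163740204) (nat_lit 62) (nat_lit 3) (nat_lit 61) (nat_lit 1) (nat_lit 62) (nat_lit 1) (nat_lit 376) (nat_lit 419) (nat_lit 225))))) (XT.nd (nat_lit 234) (nat_lit 228) (nat_lit 0) (XT.nd (nat_lit 78) (nat_lit 76) (nat_lit 0) (XT.lf (nat_lit 152) (nat_lit 6371580516) (nat_lit 0) (nat_lit 3188714) (nat_lit 76) (nat_lit 3188714) (nat_lit 61) (nat_lit 1) (nat_lit 59) (nat_lit 1) (nat_lit 60) (nat_lit 1) (nat_lit 377) (nat_lit 419) (nat_lit 224)) (XT.nd (nat_lit 78) (nat_lit 76) (nat_lit 0) (XT.lf (nat_lit 0) (nat_lit 2088144295) (nat_lit 0) (nat_lit 2097110294) (nat_lit 152) (nat_lit 2088144295) (nat_lit 59) (nat_lit 3) (nat_lit 59) (nat_lit 1) (nat_lit 61) (nat_lit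 1) (nat_lit 378) (nat_lit 419) (nat_lit 223)) (XT.lf (nat_lit 76) (nat_lit 2051710017) (nat_lit 0) (nat_lit 2060249064) (nat_lit 76) (nat_lit 2060249064) (nat_lit 59) (nat_lit 3) (nat_lit 58) (nat_lit 1) (nat_lit 59) (nat_lit 1) (nat_lit 379) (nat_lit 419) (nat_lit 222)))) (XT.nd (nat_lit 78) (nat_lit 76) (nat_lit 0) (XT.lf (nat_lit 152) (nat_lit 6068979244) (nat_lit 0) (nat_lit 2623363) (nat_lit 76) (nat_lit 2623363) (nat_lit 58) (nat_lit 1) (nat_lit 56) (nat_lit 1) (nat_lit 57) (nat_lit 1) (nat_lit 380) (nat_lit 419) (nat_lit 221)) (XT.nd (nat_lit 78) (nat_lit 76) (nat_lit 0) (XT.lf (nat_lit 0) (nat_lit 1989090065) (nat_lit 0) (nat_lit 1996466414) (nat_lit 152) (nat_lit 1989090065) (nat_lit 56) (nat_lit 3) (nat_lit 56) (nat_lit 1) (nat_lit 58) (nat_lit 1) (nat_lit 381) (nat_lit 419) (nat_lit 220)) (XT.lf (nat_lit 76) (nat_lit 1954741807) (nat_lit 0) (nat_lit 1961766902) (nat_lit 76) (nat_lit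 1961766902) (nat_lit 56) (nat_lit 3) (nat_lit 55) (nat_lit 1) (nat_lit 56) (nat_lit 1) (nat_lit 382) (nat_lit 419) (nat_lit 219)))))) (XT.nd (nat_lit 468) (nat_lit 608) (nat_lit 0) (XT.nd (nat_lit 234) (nat_lit 228) (nat_lit 0) (XT.nd (nat_lit 78) (nat_lit 76) (nat_lit 0) (XT.lf (nat_lit 152) (nat_lit 5780644420) (nat_lit 0) (nat_lit 2158247) (nat_lit 76) (nat_lit 2158247) (nat_lit 55) (nat_lit 1) (nat_lit 53) (nat_lit 1) (nat_lit 54) (nat_lit 1) (nat_lit 383) (nat_lit 419) (nat_lit 218)) (XT.nd (nat_lit 78) (nat_lit 76) (nat_lit 0) (XT.lf (nat_lit 0) (nat_lit 1894685114) (nat_lit 0) (nat_lit 1900753655) (nat_lit 152) (nat_lit 1894685114) (nat_lit 53) (nat_lit 3) (nat_lit 53) (nat_lit 1) (nat_lit 55) (nat_lit 1) (nat_lit 384) (nat_lit 419) (nat_lit 217)) (XT.lf (nat_lit 76) (nat_lit 1862261302) (nat_lit 0) (nat_lit 1868040865) (nat_lit 76) (nat_lit 1868040865) (nat_lit 53) (nat_lit 3) (nat_lit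 52) (nat_lit 1) (nat_lit 53) (nat_lit 1) (nat_lit 385) (nat_lit 419) (nat_lit 216)))) (XT.nd (nat_lit 78) (nat_lit 76) (nat_lit 0) (XT.lf (nat_lit 152) (nat_lit 5505922067) (nat_lit 0) (nat_lit 1775595) (nat_lit 76) (nat_lit 1775595) (nat_lit 52) (nat_lit 1) (nat_lit 50) (nat_lit 1) (nat_lit 51) (nat_lit 1) (nat_lit 386) (nat_lit 419) (nat_lit 215)) (XT.nd (nat_lit 78) (nat_lit 76) (nat_lit 0) (XT.lf (nat_lit 0) (nat_lit 1804720033) (nat_lit 0) (nat_lit 1809712637) (nat_lit 152) (nat_lit 1804720033) (nat_lit 50) (nat_lit 3) (nat_lit 50) (nat_lit 1) (nat_lit 52) (nat_lit 1) (nat_lit 387) (nat_lit 419) (nat_lit 214)) (XT.lf (nat_lit 76) (nat_lit 1774077819) (nat_lit 0) (nat_lit 1778832680) (nat_lit 76) (nat_lit 1778832680) (nat_lit 50) (nat_lit 3) (nat_lit 49) (nat_lit 1) (nat_lit 50) (nat_lit 1) (nat_lit 388) (nat_lit 419) (nat_lit 213))))) (XT.nd (nat_lit 234) (nat_lit 380) (nat_lit 0) (XT.nd (nat_lit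 78) (nat_lit 76) (nat_lit 0) (XT.lf (nat_lit 152) (nat_lit 5244184850) (nat_lit 0) (nat_lit 1460786) (nat_lit 76) (nat_lit 1460786) (nat_lit 49) (nat_lit 1) (nat_lit 47) (nat_lit 1) (nat_lit 48) (nat_lit 1) (nat_lit 389) (nat_lit 419) (nat_lit 212)) (XT.nd (nat_lit 78) (nat_lit 76) (nat_lit 0) (XT.lf (nat_lit 0) (nat_lit 1718993257) (nat_lit 0) (nat_lit 1723100685) (nat_lit 152) (nat_lit 1718993257) (nat_lit 47) (nat_lit 3) (nat_lit 47) (nat_lit 1) (nat_lit 49) (nat_lit 1) (nat_lit 390) (nat_lit 419) (nat_lit 211)) (XT.lf (nat_lit 76) (nat_lit 1690005677) (nat_lit 0) (nat_lit 1693917513) (nat_lit 76) (nat_lit 1693917513) (nat_lit 47) (nat_lit 3) (nat_lit 46) (nat_lit 1) (nat_lit 47) (nat_lit 1) (nat_lit 391) (nat_lit 419) (nat_lit 210)))) (XT.nd (nat_lit 156) (nat_lit 228) (nat_lit 0) (XT.nd (nat_lit 78) (nat_lit 0) (nat_lit 0) (XT.lf (nat_lit 152) (nat_lit 4994831607) (nat_lit 0) (nat_lit 1201792)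 (nat_lit 76) (nat_lit 1201792) (nat_lit 46) (nat_lit 1) (nat_lit 44) (nat_lit 1) (nat_lit 45) (nat_lit 1) (nat_lit 392) (nat_lit 419) (nat_lit 209)) (XT.lf (nat_lit 0) (nat_lit 1637311073) (nat_lit 0) (nat_lit 1640690264) (nat_lit 152) (nat_lit 1637311073) (nat_lit 44) (nat_lit 3) (nat_lit 44) (nat_lit 1) (nat_lit 46) (nat_lit 1) (nat_lit 393) (nat_lit 419) (nat_lit 208))) (XT.nd (nat_lit 78) (nat_lit 152) (nat_lit 0) (XT.lf (nat_lit 76) (nat_lit 1609864676) (nat_lit 0) (nat_lit 1613082953) (nat_lit 76) (nat_lit 1613082953) (nat_lit 44) (nat_lit 3) (nat_lit 43) (nat_lit 1) (nat_lit 44) (nat_lit 1) (nat_lit 394) (nat_lit 419) (nat_lit 207)) (XT.lf (nat_lit 152) (nat_lit 4757286755) (nat_lit 0) (nat_lit 988717) (nat_lit 76) (nat_lit 988717) (nat_lit 43) (nat_lit 1) (nat_lit 41) (nat_lit 1) (nat_lit 42) (nat_lit 1) (nat_lit 395) (nat_lit 419) (nat_lit 206))))))) (XT.nd (nat_lit 936) (nat_lit 912)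 (nat_lit 0) (XT.nd (nat_lit 468) (nat_lit 456) (nat_lit 0) (XT.nd (nat_lit 234) (nat_lit 228) (nat_lit 0) (XT.nd (nat_lit 78) (nat_lit 228) (nat_lit 0) (XT.lf (nat_lit 0) (nat_lit 1559487554) (nat_lit 0) (nat_lit 1562267622) (nat_lit 152) (nat_lit 1559487554) (nat_lit 41) (nat_lit 3) (nat_lit 41) (nat_lit 1) (nat_lit 43) (nat_lit 1) (nat_lit 396) (nat_lit 419) (nat_lit 205)) (XT.nd (nat_lit 78) (nat_lit 152) (nat_lit 0) (XT.lf (nat_lit 76) (nat_lit 1533480437) (nat_lit 0) (nat_lit 1536128121) (nat_lit 76) (nat_lit 1536128121) (nat_lit 41) (nat_lit 3) (nat_lit 40) (nat_lit 1) (nat_lit 41) (nat_lit 1) (nat_lit 397) (nat_lit 419) (nat_lit 204)) (XT.lf (nat_lit 152) (nat_lit 4530999615) (nat_lit 0) (nat_lit 813420) (nat_lit 76) (nat_lit 813420) (nat_lit 40) (nat_lit 1) (nat_lit 38) (nat_lit 1) (nat_lit 39) (nat_lit 1) (nat_lit 398) (nat_lit 419) (nat_lit 203)))) (XT.nd (nat_lit 78) (nat_lit 228) (nat_lit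 0) (XT.lf (nat_lit 0) (nat_lit 1485344443) (nat_lit 0) (nat_lit 1487631613) (nat_lit 152) (nat_lit 1485344443) (nat_lit 38) (nat_lit 3) (nat_lit 38) (nat_lit 1) (nat_lit 40) (nat_lit 1) (nat_lit 399) (nat_lit 419) (nat_lit 202)) (XT.nd (nat_lit 78) (nat_lit 152) (nat_lit 0) (XT.lf (nat_lit 76) (nat_lit 1460684612) (nat_lit 0) (nat_lit 1462862868) (nat_lit 76) (nat_lit 1462862868) (nat_lit 38) (nat_lit 3) (nat_lit 37) (nat_lit 1) (nat_lit 38) (nat_lit 1) (nat_lit 400) (nat_lit 419) (nat_lit 201)) (XT.lf (nat_lit 152) (nat_lit 4315443672) (nat_lit 0) (nat_lit 669203) (nat_lit 76) (nat_lit 669203) (nat_lit 37) (nat_lit 1) (nat_lit 35) (nat_lit 1) (nat_lit 36) (nat_lit 1) (nat_lit 401) (nat_lit 419) (nat_lit 200))))) (XT.nd (nat_lit 234) (nat_lit 228) (nat_lit 0) (XT.nd (nat_lit 78) (nat_lit 228) (nat_lit 0) (XT.lf (nat_lit 0) (nat_lit 1414711000) (nat_lit 0) (nat_lit 1416592660) (nat_lit 152) (nat_lit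 1414711000) (nat_lit 35) (nat_lit 3) (nat_lit 35) (nat_lit 1) (nat_lit 37) (nat_lit 1) (nat_lit 402) (nat_lit 419) (nat_lit 199)) (XT.nd (nat_lit 78) (nat_lit 152) (nat_lit 0) (XT.lf (nat_lit 76) (nat_lit 1391314998) (nat_lit 0) (nat_lit 1393107055) (nat_lit 76) (nat_lit 1393107055) (nat_lit 35) (nat_lit 3) (nat_lit 34) (nat_lit 1) (nat_lit 35) (nat_lit 1) (nat_lit 403) (nat_lit 419) (nat_lit 198)) (XT.lf (nat_lit 152) (nat_lit 4110115785) (nat_lit 0) (nat_lit 550555) (nat_lit 76) (nat_lit 550555) (nat_lit 34) (nat_lit 1) (nat_lit 32) (nat_lit 1) (nat_lit 33) (nat_lit 1) (nat_lit 404) (nat_lit 419) (nat_lit 197)))) (XT.nd (nat_lit 78) (nat_lit 228) (nat_lit 0) (XT.lf (nat_lit 0) (nat_lit 1347423813) (nat_lit 0) (nat_lit 1348971860) (nat_lit 152) (nat_lit 1347423813) (nat_lit 32) (nat_lit 3) (nat_lit 32) (nat_lit 1) (nat_lit 34) (nat_lit 1) (nat_lit 405) (nat_lit 419) (nat_lit 196)) (XT.nd (nat_lit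 78) (nat_lit 152) (nat_lit 0) (XT.lf (nat_lit 76) (nat_lit 1325215581) (nat_lit 0) (nat_lit 1326689911) (nat_lit 76) (nat_lit 1326689911) (nat_lit 32) (nat_lit 3) (nat_lit 31) (nat_lit 1) (nat_lit 32) (nat_lit 1) (nat_lit 406) (nat_lit 419) (nat_lit 195)) (XT.lf (nat_lit 152) (nat_lit 3914535376) (nat_lit 0) (nat_lit 452943) (nat_lit 76) (nat_lit 452943) (nat_lit 31) (nat_lit 1) (nat_lit 29) (nat_lit 1) (nat_lit 30) (nat_lit 1) (nat_lit 407) (nat_lit 419) (nat_lit 194)))))) (XT.nd (nat_lit 468) (nat_lit 456) (nat_lit 0) (XT.nd (nat_lit 234) (nat_lit 228) (nat_lit 0) (XT.nd (nat_lit 78) (nat_lit 228) (nat_lit 0) (XT.lf (nat_lit 0) (nat_lit 1283326594) (nat_lit 0) (nat_lit 1284600175) (nat_lit 152) (nat_lit 1283326594) (nat_lit 29) (nat_lit 3) (nat_lit 29) (nat_lit 1) (nat_lit 31) (nat_lit 1) (nat_lit 408) (nat_lit 419) (nat_lit 193)) (XT.nd (nat_lit 78) (nat_lit 152) (nat_lit 0) (XT.lf (nat_lit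 76) (nat_lit 1262236508) (nat_lit 0) (nat_lit 1263449443) (nat_lit 76) (nat_lit 1263449443) (nat_lit 29) (nat_lit 3) (nat_lit 28) (nat_lit 1) (nat_lit 29) (nat_lit 1) (nat_lit 409) (nat_lit 419) (nat_lit 192)) (XT.lf (nat_lit 152) (nat_lit 3728243606) (nat_lit 0) (nat_lit 372637) (nat_lit 76) (nat_lit 372637) (nat_lit 28) (nat_lit 1) (nat_lit 26) (nat_lit 1) (nat_lit 27) (nat_lit 1) (nat_lit 410) (nat_lit 419) (nat_lit 191)))) (XT.nd (nat_lit 78) (nat_lit 228) (nat_lit 0) (XT.lf (nat_lit 0) (nat_lit 1222269953) (nat_lit 0) (nat_lit 1223317732) (nat_lit 152) (nat_lit 1222269953) (nat_lit 26) (nat_lit 3) (nat_lit 26) (nat_lit 1) (nat_lit 28) (nat_lit 1) (nat_lit 411) (nat_lit 419) (nat_lit 190)) (XT.nd (nat_lit 78) (nat_lit 152) (nat_lit 0) (XT.lf (nat_lit 76) (nat_lit 1202234023) (nat_lit 0) (nat_lit 1203231908) (nat_lit 76) (nat_lit 1203231908) (nat_lit 26) (nat_lit 3) (nat_lit 25) (nat_lit 1)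 (nat_lit 26) (nat_lit 1) (nat_lit 412) (nat_lit 419) (nat_lit 189)) (XT.lf (nat_lit 152) (nat_lit 3550802541) (nat_lit 0) (nat_lit 306569) (nat_lit 76) (nat_lit 306569) (nat_lit 25) (nat_lit 1) (nat_lit 23) (nat_lit 1) (nat_lit 24) (nat_lit 1) (nat_lit 413) (nat_lit 419) (nat_lit 188))))) (XT.nd (nat_lit 234) (nat_lit 228) (nat_lit 0) (XT.nd (nat_lit 78) (nat_lit 228) (nat_lit 0) (XT.lf (nat_lit 0) (nat_lit 1164111171) (nat_lit 0) (nat_lit 1164973181) (nat_lit 152) (nat_lit 1164111171) (nat_lit 23) (nat_lit 3) (nat_lit 23) (nat_lit 1) (nat_lit 25) (nat_lit 1) (nat_lit 414) (nat_lit 419) (nat_lit 187)) (XT.nd (nat_lit 78) (nat_lit 152) (nat_lit 0) (XT.lf (nat_lit 76) (nat_lit 1145070358) (nat_lit 0) (nat_lit 1145891320) (nat_lit 76) (nat_lit 1145891320) (nat_lit 23) (nat_lit 3) (nat_lit 22) (nat_lit 1) (nat_lit 23) (nat_lit 1) (nat_lit 415) (nat_lit 419) (nat_lit 186)) (XT.lf (nat_lit 152) (nat_lit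 3381794324) (nat_lit 0) (nat_lit 252215) (nat_lit 76) (nat_lit 252215) (nat_lit 22) (nat_lit 1) (nat_lit 20) (nat_lit 1) (nat_lit 21) (nat_lit 1) (nat_lit 416) (nat_lit 419) (nat_lit 185)))) (XT.nd (nat_lit 156) (nat_lit 152) (nat_lit 0) (XT.nd (nat_lit 78) (nat_lit 76) (nat_lit 0) (XT.lf (nat_lit 0) (nat_lit 1108713956) (nat_lit 0) (nat_lit 1109423134) (nat_lit 152) (nat_lit 1108713956) (nat_lit 20) (nat_lit 3) (nat_lit 20) (nat_lit 1) (nat_lit 22) (nat_lit 1) (nat_lit 417) (nat_lit 419) (nat_lit 184)) (XT.lf (nat_lit 76) (nat_lit 1090613600) (nat_lit 0) (nat_lit 1091289007) (nat_lit 76) (nat_lit 1091289007) (nat_lit 20) (nat_lit 3) (nat_lit 19) (nat_lit 1) (nat_lit 20) (nat_lit 1) (nat_lit 418) (nat_lit 419) (nat_lit 183))) (XT.nd (nat_lit 78) (nat_lit 0) (nat_lit 0) (XT.lf (nat_lit 152) (nat_lit 3220820355) (nat_lit 0) (nat_lit 207498) (nat_lit 76) (nat_lit 207498) (nat_lit 19) (nat_lit 1) (nat_lit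 17) (nat_lit 1) (nat_lit 18) (nat_lit 1) (nat_lit 419) (nat_lit 419) (nat_lit 182)) (XT.lf (nat_lit 0) (nat_lit 1055948206) (nat_lit 0) (nat_lit 1056531648) (nat_lit 152) (nat_lit 1055948206) (nat_lit 17) (nat_lit 3) (nat_lit 17) (nat_lit 1) (nat_lit 19) (nat_lit 1) (nat_lit 420) (nat_lit 419) (nat_lit 181))))))))
noncomputable def ec351 : XT := (XT.nd (nat_lit 34632) (nat_lit 0) (nat_lit 18392) (XT.nd (nat_lit 936) (nat_lit 380) (nat_lit 0) (XT.nd (nat_lit 468) (nat_lit 456) (nat_lit 0) (XT.nd (nat_lit 234) (nat_lit 228) (nat_lit 0) (XT.nd (nat_lit 78) (nat_lit 152) (nat_lit 0) (XT.lf (nat_lit 76) (nat_lit 1038737538) (nat_lit 0) (nat_lit 1039293198) (nat_lit 76) (nat_lit 1039293198) (nat_lit 17) (nat_lit 3) (nat_lit 16) (nat_lit 1) (nat_lit 17) (nat_lit 1) (nat_lit 421) (nat_lit 419) (nat_lit 180)) (XT.nd (nat_lit 78) (nat_lit 0) (nat_lit 0) (XT.lf (nat_lit 152) (nat_lit 3067500492) (nat_lit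 0) (nat_lit 170709) (nat_lit 76) (nat_lit 170709) (nat_lit 16) (nat_lit 1) (nat_lit 14) (nat_lit 1) (nat_lit 15) (nat_lit 1) (nat_lit 422) (nat_lit 419) (nat_lit 179)) (XT.lf (nat_lit 0) (nat_lit 1005689765) (nat_lit 0) (nat_lit 1006169764) (nat_lit 152) (nat_lit 1005689765) (nat_lit 14) (nat_lit 3) (nat_lit 14) (nat_lit 1) (nat_lit 16) (nat_lit 1) (nat_lit 423) (nat_lit 419) (nat_lit 178)))) (XT.nd (nat_lit 78) (nat_lit 152) (nat_lit 0) (XT.lf (nat_lit 76) (nat_lit 989321497) (nat_lit 0) (nat_lit 989778639) (nat_lit 76) (nat_lit 989778639) (nat_lit 14) (nat_lit 3) (nat_lit 13) (nat_lit 1) (nat_lit 14) (nat_lit 1) (nat_lit 424) (nat_lit 419) (nat_lit 177)) (XT.nd (nat_lit 78) (nat_lit 0) (nat_lit 0) (XT.lf (nat_lit 152) (nat_lit 2921472261) (nat_lit 0) (nat_lit 140443) (nat_lit 76) (nat_lit 140443) (nat_lit 13) (nat_lit 1) (nat_lit 11) (nat_lit 1) (nat_lit 12) (nat_lit 1) (nat_lit 425) (nat_lit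 419) (nat_lit 176)) (XT.lf (nat_lit 0) (nat_lit 957820184) (nat_lit 0) (nat_lit 958215081) (nat_lit 152) (nat_lit 957820184) (nat_lit 11) (nat_lit 3) (nat_lit 11) (nat_lit 1) (nat_lit 13) (nat_lit 1) (nat_lit 426) (nat_lit 419) (nat_lit 175))))) (XT.nd (nat_lit 234) (nat_lit 228) (nat_lit 0) (XT.nd (nat_lit 78) (nat_lit 152) (nat_lit 0) (XT.lf (nat_lit 76) (nat_lit 942250151) (nat_lit 0) (nat_lit 942626244) (nat_lit 76) (nat_lit 942626244) (nat_lit 11) (nat_lit 3) (nat_lit 10) (nat_lit 1) (nat_lit 11) (nat_lit 1) (nat_lit 427) (nat_lit 419) (nat_lit 174)) (XT.nd (nat_lit 78) (nat_lit 0) (nat_lit 0) (XT.lf (nat_lit 152) (nat_lit 2782390092) (nat_lit 0) (nat_lit 115542) (nat_lit 76) (nat_lit 115542) (nat_lit 10) (nat_lit 1) (nat_lit 8) (nat_lit 1) (nat_lit 9) (nat_lit 1) (nat_lit 428) (nat_lit 419) (nat_lit 173)) (XT.lf (nat_lit 0) (nat_lit 912226489) (nat_lit 0) (nat_lit 912551372) (nat_lit 152)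 (nat_lit 912226489) (nat_lit 8) (nat_lit 3) (nat_lit 8) (nat_lit 1) (nat_lit 10) (nat_lit 1) (nat_lit 429) (nat_lit 419) (nat_lit 172)))) (XT.nd (nat_lit 78) (nat_lit 152) (nat_lit 0) (XT.lf (nat_lit 76) (nat_lit 897413348) (nat_lit 0) (nat_lit 897722760) (nat_lit 76) (nat_lit 897722760) (nat_lit 8) (nat_lit 3) (nat_lit 7) (nat_lit 1) (nat_lit 8) (nat_lit 1) (nat_lit 430) (nat_lit 419) (nat_lit 171)) (XT.nd (nat_lit 78) (nat_lit 0) (nat_lit 0) (XT.lf (nat_lit 152) (nat_lit 2649924579) (nat_lit 0) (nat_lit 95057) (nat_lit 76) (nat_lit 95057) (nat_lit 7) (nat_lit 1) (nat_lit 5) (nat_lit 1) (nat_lit 6) (nat_lit 1) (nat_lit 431) (nat_lit 419) (nat_lit 170)) (XT.lf (nat_lit 0) (nat_lit 868800946) (nat_lit 0) (nat_lit 869068227) (nat_lit 152) (nat_lit 868800946) (nat_lit 5) (nat_lit 3) (nat_lit 5) (nat_lit 1) (nat_lit 7) (nat_lit 1) (nat_lit 432) (nat_lit 419) (nat_lit 169)))))) (XT.nd (nat_lit 468)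 (nat_lit 0) (nat_lit 0) (XT.nd (nat_lit 234) (nat_lit 152) (nat_lit 0) (XT.nd (nat_lit 78) (nat_lit 152) (nat_lit 0) (XT.lf (nat_lit 76) (nat_lit 854705913) (nat_lit 0) (nat_lit 854960467) (nat_lit 76) (nat_lit 854960467) (nat_lit 5) (nat_lit 3) (nat_lit 4) (nat_lit 1) (nat_lit 5) (nat_lit 1) (nat_lit 433) (nat_lit 419) (nat_lit 168)) (XT.nd (nat_lit 78) (nat_lit 0) (nat_lit 0) (XT.lf (nat_lit 152) (nat_lit 2523761761) (nat_lit 0) (nat_lit 78203) (nat_lit 76) (nat_lit 78203) (nat_lit 4) (nat_lit 1) (nat_lit 2) (nat_lit 1) (nat_lit 3) (nat_lit 1) (nat_lit 434) (nat_lit 419) (nat_lit 167)) (XT.lf (nat_lit 0) (nat_lit 827440836) (nat_lit 0) (nat_lit 827660730) (nat_lit 152) (nat_lit 827440836) (nat_lit 2) (nat_lit 3) (nat_lit 2) (nat_lit 1) (nat_lit 4) (nat_lit 1) (nat_lit 435) (nat_lit 419) (nat_lit 166)))) (XT.nd (nat_lit 78) (nat_lit 76) (nat_lit 0) (XT.lf (nat_lit 76) (nat_lit 814027461) (nat_lit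 0) (nat_lit 814236883) (nat_lit 76) (nat_lit 814236883) (nat_lit 2) (nat_lit 3) (nat_lit 1) (nat_lit 1) (nat_lit 2) (nat_lit 1) (nat_lit 436) (nat_lit 419) (nat_lit 165)) (XT.nd (nat_lit 78) (nat_lit 0) (nat_lit 0) (XT.lf (nat_lit 0) (nat_lit 50682287998) (nat_lit 0) (nat_lit 0) (nat_lit 0) (nat_lit 0) (nat_lit 0) (nat_lit 0) (nat_lit 1) (nat_lit 0) (nat_lit 1) (nat_lit 0) (nat_lit 437) (nat_lit 419) (nat_lit 164)) (XT.lf (nat_lit 0) (nat_lit 50682278462) (nat_lit 0) (nat_lit 0) (nat_lit 0) (nat_lit 0) (nat_lit 0) (nat_lit 0) (nat_lit 1) (nat_lit 0) (nat_lit 1) (nat_lit 0) (nat_lit 438) (nat_lit 419) (nat_lit 163))))) (XT.nd (nat_lit 32916) (nat_lit 0) (nat_lit 22192) (XT.nd (nat_lit 78) (nat_lit 0) (nat_lit 0) (XT.lf (nat_lit 0) (nat_lit 50682269380) (nat_lit 0) (nat_lit 0) (nat_lit 0) (nat_lit 0) (nat_lit 0) (nat_lit 0) (nat_lit 1) (nat_lit 0) (nat_lit 1) (nat_lit 0) (nat_lit 439) (nat_lit 419)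 (nat_lit 162)) (XT.nd (nat_lit 78) (nat_lit 0) (nat_lit 0) (XT.lf (nat_lit 0) (nat_lit 50682260731) (nat_lit 0) (nat_lit 0) (nat_lit 0) (nat_lit 0) (nat_lit 0) (nat_lit 0) (nat_lit 1) (nat_lit 0) (nat_lit 1) (nat_lit 0) (nat_lit 440) (nat_lit 419) (nat_lit 161)) (XT.lf (nat_lit 0) (nat_lit 50682252493) (nat_lit 0) (nat_lit 0) (nat_lit 0) (nat_lit 0) (nat_lit 0) (nat_lit 0) (nat_lit 1) (nat_lit 0) (nat_lit 1) (nat_lit 0) (nat_lit 441) (nat_lit 419) (nat_lit 160)))) (XT.nd (nat_lit 156) (nat_lit 0) (nat_lit 76) (XT.nd (nat_lit 78) (nat_lit 0) (nat_lit 0) (XT.lf (nat_lit 836) (nat_lit 26631375893) (nat_lit 0) (nat_lit 47283946683) (nat_lit 836) (nat_lit 26631375893) (nat_lit 303) (nat_lit 1) (nat_lit 292) (nat_lit 0) (nat_lit 303) (nat_lit 0) (nat_lit 180) (nat_lit 420) (nat_lit 420)) (XT.lf (nat_lit 836) (nat_lit 103226537757) (nat_lit 76) (nat_lit 46521302382) (nat_lit 0) (nat_lit 46521302382) (nat_lit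 303) (nat_lit 1) (nat_lit 293) (nat_lit 1) (nat_lit 292) (nat_lit 0) (nat_lit 181) (nat_lit 420) (nat_lit 419))) (XT.nd (nat_lit 78) (nat_lit 0) (nat_lit 0) (XT.lf (nat_lit 836) (nat_lit 49196213614) (nat_lit 0) (nat_lit 93201604498) (nat_lit 760) (nat_lit 49196213614) (nat_lit 304) (nat_lit 1) (nat_lit 293) (nat_lit 1) (nat_lit 303) (nat_lit 1) (nat_lit 182) (nat_lit 420) (nat_lit 418)) (XT.lf (nat_lit 836) (nat_lit 92285260753) (nat_lit 76) (nat_lit 47392350544) (nat_lit 0) (nat_lit 47392350544) (nat_lit 304) (nat_lit 1) (nat_lit 294) (nat_lit 1) (nat_lit 293) (nat_lit 1) (nat_lit 183) (nat_lit 420) (nat_lit 417))))))) (XT.nd (nat_lit 1014) (nat_lit 2128) (nat_lit 0) (XT.nd (nat_lit 468) (nat_lit 1824) (nat_lit 0) (XT.nd (nat_lit 234) (nat_lit 0) (nat_lit 76) (XT.nd (nat_lit 78) (nat_lit 0) (nat_lit 0) (XT.lf (nat_lit 836) (nat_lit 42478019301) (nat_lit 0) (nat_lit 97733243677) (nat_lit 760)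 (nat_lit 42478019301) (nat_lit 305) (nat_lit 1) (nat_lit 294) (nat_lit 1) (nat_lit 304) (nat_lit 1) (nat_lit 184) (nat_lit 420) (nat_lit 416)) (XT.nd (nat_lit 78) (nat_lit 0) (nat_lit 76) (XT.lf (nat_lit 836) (nat_lit 76399484391) (nat_lit 76) (nat_lit 51021329090) (nat_lit 0) (nat_lit 51021329090) (nat_lit 305) (nat_lit 1) (nat_lit 295) (nat_lit 1) (nat_lit 294) (nat_lit 1) (nat_lit 185) (nat_lit 420) (nat_lit 415)) (XT.lf (nat_lit 836) (nat_lit 33498967289) (nat_lit 0) (nat_lit 107339672529) (nat_lit 760) (nat_lit 33498967289) (nat_lit 306) (nat_lit 1) (nat_lit 295) (nat_lit 1) (nat_lit 305) (nat_lit 1) (nat_lit 186) (nat_lit 420) (nat_lit 414)))) (XT.nd (nat_lit 78) (nat_lit 0) (nat_lit 76) (XT.lf (nat_lit 836) (nat_lit 56312792572) (nat_lit 76) (nat_lit 57016645498) (nat_lit 0) (nat_lit 57016645498) (nat_lit 306) (nat_lit 1) (nat_lit 296) (nat_lit 1) (nat_lit 295) (nat_lit 1) (nat_lit 187)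 (nat_lit 420) (nat_lit 413)) (XT.nd (nat_lit 78) (nat_lit 0) (nat_lit 0) (XT.lf (nat_lit 836) (nat_lit 22606653159) (nat_lit 0) (nat_lit 121287366234) (nat_lit 760) (nat_lit 22606653159) (nat_lit 307) (nat_lit 1) (nat_lit 296) (nat_lit 1) (nat_lit 306) (nat_lit 1) (nat_lit 188) (nat_lit 420) (nat_lit 412)) (XT.lf (nat_lit 836) (nat_lit 32686119186) (nat_lit 76) (nat_lit 65029551251) (nat_lit 0) (nat_lit 65029551251) (nat_lit 307) (nat_lit 1) (nat_lit 297) (nat_lit 1) (nat_lit 296) (nat_lit 1) (nat_lit 189) (nat_lit 420) (nat_lit 411))))) (XT.nd (nat_lit 234) (nat_lit 760) (nat_lit 0) (XT.nd (nat_lit 78) (nat_lit 1292) (nat_lit 0) (XT.lf (nat_lit 76) (nat_lit 10109813378) (nat_lit 0) (nat_lit 138923458966) (nat_lit 760) (nat_lit 10109813378) (nat_lit 298) (nat_lit 1) (nat_lit 297) (nat_lit 1) (nat_lit 307) (nat_lit 1) (nat_lit 190) (nat_lit 420) (nat_lit 410)) (XT.nd (nat_lit 78) (nat_lit 532) (nat_lit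 0) (XT.lf (nat_lit 836) (nat_lit 6106075871) (nat_lit 0) (nat_lit 74749852062) (nat_lit 760) (nat_lit 74749852062) (nat_lit 298) (nat_lit 1) (nat_lit 287) (nat_lit 1) (nat_lit 297) (nat_lit 1) (nat_lit 191) (nat_lit 420) (nat_lit 409)) (XT.lf (nat_lit 532) (nat_lit 144904870212) (nat_lit 0) (nat_lit 3657786667) (nat_lit 456) (nat_lit 3657786667) (nat_lit 287) (nat_lit 1) (nat_lit 280) (nat_lit 1) (nat_lit 286) (nat_lit 1) (nat_lit 192) (nat_lit 420) (nat_lit 408)))) (XT.nd (nat_lit 156) (nat_lit 380) (nat_lit 0) (XT.nd (nat_lit 78) (nat_lit 380) (nat_lit 0) (XT.lf (nat_lit 76) (nat_lit 63352157058) (nat_lit 0) (nat_lit 22174341259) (nat_lit 532) (nat_lit 63352157058) (nat_lit 281) (nat_lit 1) (nat_lit 280) (nat_lit 1) (nat_lit 287) (nat_lit 1) (nat_lit 193) (nat_lit 420) (nat_lit 407)) (XT.lf (nat_lit 456) (nat_lit 109012800504) (nat_lit 0) (nat_lit 18333084244) (nat_lit 380) (nat_lit 18333084244)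 (nat_lit 281) (nat_lit 1) (nat_lit 275) (nat_lit 1) (nat_lit 280) (nat_lit 1) (nat_lit 194) (nat_lit 420) (nat_lit 406))) (XT.nd (nat_lit 78) (nat_lit 380) (nat_lit 0) (XT.lf (nat_lit 76) (nat_lit 45188322415) (nat_lit 0) (nat_lit 52169904029) (nat_lit 456) (nat_lit 45188322415) (nat_lit 276) (nat_lit 1) (nat_lit 275) (nat_lit 1) (nat_lit 281) (nat_lit 1) (nat_lit 195) (nat_lit 420) (nat_lit 405)) (XT.lf (nat_lit 456) (nat_lit 71786475076) (nat_lit 0) (nat_lit 33868373732) (nat_lit 380) (nat_lit 33868373732) (nat_lit 276) (nat_lit 1) (nat_lit 270) (nat_lit 1) (nat_lit 275) (nat_lit 1) (nat_lit 196) (nat_lit 420) (nat_lit 404)))))) (XT.nd (nat_lit 468) (nat_lit 1140) (nat_lit 0) (XT.nd (nat_lit 234) (nat_lit 684) (nat_lit 0) (XT.nd (nat_lit 78) (nat_lit 304) (nat_lit 0) (XT.lf (nat_lit 76) (nat_lit 26452362020) (nat_lit 0) (nat_lit 83683100698) (nat_lit 456) (nat_lit 26452362020) (nat_lit 271) (nat_lit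 1) (nat_lit 270) (nat_lit 1) (nat_lit 276) (nat_lit 1) (nat_lit 197) (nat_lit 420) (nat_lit 403)) (XT.nd (nat_lit 78) (nat_lit 0) (nat_lit 0) (XT.lf (nat_lit 380) (nat_lit 33572376575) (nat_lit 0) (nat_lit 50077779236) (nat_lit 304) (nat_lit 50077779236) (nat_lit 271) (nat_lit 1) (nat_lit 266) (nat_lit 1) (nat_lit 270) (nat_lit 1) (nat_lit 198) (nat_lit 420) (nat_lit 402)) (XT.lf (nat_lit 76) (nat_lit 7305125127) (nat_lit 0) (nat_lit 116367772382) (nat_lit 380) (nat_lit 7305125127) (nat_lit 267) (nat_lit 1) (nat_lit 266) (nat_lit 1) (nat_lit 271) (nat_lit 1) (nat_lit 199) (nat_lit 420) (nat_lit 401)))) (XT.nd (nat_lit 78) (nat_lit 304) (nat_lit 0) (XT.lf (nat_lit 76) (nat_lit 61555083455) (nat_lit 0) (nat_lit 5155357810) (nat_lit 380) (nat_lit 61555083455) (nat_lit 262) (nat_lit 1) (nat_lit 261) (nat_lit 1) (nat_lit 266) (nat_lit 1) (nat_lit 200) (nat_lit 420) (nat_lit 400)) (XT.nd (nat_lit 78)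 (nat_lit 0) (nat_lit 0) (XT.lf (nat_lit 380) (nat_lit 101821815373) (nat_lit 0) (nat_lit 11917255001) (nat_lit 304) (nat_lit 11917255001) (nat_lit 262) (nat_lit 1) (nat_lit 257) (nat_lit 1) (nat_lit 261) (nat_lit 1) (nat_lit 201) (nat_lit 420) (nat_lit 399)) (XT.lf (nat_lit 76) (nat_lit 39938992386) (nat_lit 0) (nat_lit 43213902649) (nat_lit 380) (nat_lit 39938992386) (nat_lit 258) (nat_lit 1) (nat_lit 257) (nat_lit 1) (nat_lit 262) (nat_lit 1) (nat_lit 202) (nat_lit 420) (nat_lit 398))))) (XT.nd (nat_lit 234) (nat_lit 608) (nat_lit 0) (XT.nd (nat_lit 78) (nat_lit 228) (nat_lit 0) (XT.lf (nat_lit 380) (nat_lit 58282100057) (nat_lit 0) (nat_lit 31167137552) (nat_lit 304) (nat_lit 31167137552) (nat_lit 258) (nat_lit 1) (nat_lit 253) (nat_lit 1) (nat_lit 257) (nat_lit 1) (nat_lit 203) (nat_lit 420) (nat_lit 397)) (XT.nd (nat_lit 78) (nat_lit 228) (nat_lit 0) (XT.lf (nat_lit 76) (nat_lit 18379573270)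 (nat_lit 0) (nat_lit 81454100549) (nat_lit 380) (nat_lit 18379573270) (nat_lit 254) (nat_lit 1) (nat_lit 253) (nat_lit 1) (nat_lit 258) (nat_lit 1) (nat_lit 204) (nat_lit 420) (nat_lit 396)) (XT.lf (nat_lit 304) (nat_lit 14947319758) (nat_lit 0) (nat_lit 50457336589) (nat_lit 228) (nat_lit 50457336589) (nat_lit 254) (nat_lit 1) (nat_lit 250) (nat_lit 1) (nat_lit 253) (nat_lit 1) (nat_lit 205) (nat_lit 420) (nat_lit 395)))) (XT.nd (nat_lit 156) (nat_lit 228) (nat_lit 0) (XT.nd (nat_lit 78) (nat_lit 0) (nat_lit 0) (XT.lf (nat_lit 380) (nat_lit 107628507064) (nat_lit 0) (nat_lit 2986484554) (nat_lit 304) (nat_lit 2986484554) (nat_lit 250) (nat_lit 1) (nat_lit 245) (nat_lit 1) (nat_lit 249) (nat_lit 1) (nat_lit 206) (nat_lit 420) (nat_lit 394)) (XT.lf (nat_lit 76) (nat_lit 42115830498) (nat_lit 0) (nat_lit 27121810101) (nat_lit 380) (nat_lit 42115830498) (nat_lit 246) (nat_lit 1) (nat_lit 245) (nat_lit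 1) (nat_lit 250) (nat_lit 1) (nat_lit 207) (nat_lit 420) (nat_lit 393))) (XT.nd (nat_lit 78) (nat_lit 0) (nat_lit 0) (XT.lf (nat_lit 304) (nat_lit 61511501906) (nat_lit 0) (nat_lit 23840090547) (nat_lit 228) (nat_lit 23840090547) (nat_lit 246) (nat_lit 1) (nat_lit 242) (nat_lit 1) (nat_lit 245) (nat_lit 1) (nat_lit 208) (nat_lit 420) (nat_lit 392)) (XT.lf (nat_lit 76) (nat_lit 19432434937) (nat_lit 0) (nat_lit 68219948971) (nat_lit 304) (nat_lit 19432434937) (nat_lit 243) (nat_lit 1) (nat_lit 242) (nat_lit 1) (nat_lit 246) (nat_lit 1) (nat_lit 209) (nat_lit 420) (nat_lit 391))))))))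
noncomputable def ec352 : XT := (XT.nd (nat_lit 1950) (nat_lit 2052) (nat_lit 0) (XT.nd (nat_lit 936) (nat_lit 1216) (nat_lit 0) (XT.nd (nat_lit 468) (nat_lit 836) (nat_lit 0) (XT.nd (nat_lit 234) (nat_lit 380) (nat_lit 0) (XT.nd (nat_lit 78) (nat_lit 304) (nat_lit 0) (XT.lf (nat_lit 304) (nat_lit 16196327136) (nat_lit 0) (nat_lit 44414779073) (nat_lit 228) (nat_lit 44414779073) (nat_lit 243) (nat_lit 1) (nat_lit 239) (nat_lit 1) (nat_lit 242) (nat_lit 1) (nat_lit 210) (nat_lit 420) (nat_lit 390)) (XT.nd (nat_lit 78) (nat_lit 0) (nat_lit 0) (XT.lf (nat_lit 304) (nat_lit 97476431464) (nat_lit 0) (nat_lit 2783506124) (nat_lit 228) (nat_lit 2783506124) (nat_lit 239) (nat_lit 1) (nat_lit 235) (nat_lit 1) (nat_lit 238) (nat_lit 1) (nat_lit 211) (nat_lit 420) (nat_lit 389)) (XT.lf (nat_lit 76) (nat_lit 36872542473) (nat_lit 0) (nat_lit 27322183732) (nat_lit 304) (nat_lit 36872542473) (nat_lit 236) (nat_lit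 1) (nat_lit 235) (nat_lit 1) (nat_lit 239) (nat_lit 1) (nat_lit 212) (nat_lit 420) (nat_lit 388)))) (XT.nd (nat_lit 78) (nat_lit 152) (nat_lit 0) (XT.lf (nat_lit 304) (nat_lit 50703122168) (nat_lit 0) (nat_lit 24230545135) (nat_lit 228) (nat_lit 24230545135) (nat_lit 236) (nat_lit 1) (nat_lit 232) (nat_lit 1) (nat_lit 235) (nat_lit 1) (nat_lit 213) (nat_lit 420) (nat_lit 387)) (XT.nd (nat_lit 78) (nat_lit 152) (nat_lit 0) (XT.lf (nat_lit 76) (nat_lit 13963598493) (nat_lit 0) (nat_lit 69385000043) (nat_lit 304) (nat_lit 13963598493) (nat_lit 233) (nat_lit 1) (nat_lit 232) (nat_lit 1) (nat_lit 236) (nat_lit 1) (nat_lit 214) (nat_lit 420) (nat_lit 386)) (XT.lf (nat_lit 228) (nat_lit 5116726768) (nat_lit 0) (nat_lit 45189177487) (nat_lit 152) (nat_lit 45189177487) (nat_lit 233) (nat_lit 1) (nat_lit 230) (nat_lit 1) (nat_lit 232) (nat_lit 1) (nat_lit 215) (nat_lit 420) (nat_lit 385))))) (XT.nd (nat_lit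 234) (nat_lit 380) (nat_lit 0) (XT.nd (nat_lit 78) (nat_lit 152) (nat_lit 0) (XT.lf (nat_lit 304) (nat_lit 77312025754) (nat_lit 0) (nat_lit 8211097518) (nat_lit 228) (nat_lit 8211097518) (nat_lit 230) (nat_lit 1) (nat_lit 226) (nat_lit 1) (nat_lit 229) (nat_lit 1) (nat_lit 216) (nat_lit 420) (nat_lit 384)) (XT.nd (nat_lit 78) (nat_lit 152) (nat_lit 0) (XT.lf (nat_lit 76) (nat_lit 27003255430) (nat_lit 0) (nat_lit 37986542516) (nat_lit 304) (nat_lit 27003255430) (nat_lit 227) (nat_lit 1) (nat_lit 226) (nat_lit 1) (nat_lit 230) (nat_lit 1) (nat_lit 217) (nat_lit 420) (nat_lit 383)) (XT.lf (nat_lit 228) (nat_lit 31198096219) (nat_lit 0) (nat_lit 29553763472) (nat_lit 152) (nat_lit 29553763472) (nat_lit 227) (nat_lit 1) (nat_lit 224) (nat_lit 1) (nat_lit 226) (nat_lit 1) (nat_lit 218) (nat_lit 420) (nat_lit 382)))) (XT.nd (nat_lit 78) (nat_lit 380) (nat_lit 0) (XT.lf (nat_lit 76) (nat_lit 4482176180)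 (nat_lit 0) (nat_lit 79709839923) (nat_lit 228) (nat_lit 4482176180) (nat_lit 225) (nat_lit 1) (nat_lit 224) (nat_lit 1) (nat_lit 227) (nat_lit 1) (nat_lit 219) (nat_lit 420) (nat_lit 381)) (XT.nd (nat_lit 78) (nat_lit 152) (nat_lit 0) (XT.lf (nat_lit 76) (nat_lit 36992186395) (nat_lit 0) (nat_lit 13064318982) (nat_lit 228) (nat_lit 36992186395) (nat_lit 222) (nat_lit 1) (nat_lit 221) (nat_lit 1) (nat_lit 224) (nat_lit 1) (nat_lit 220) (nat_lit 420) (nat_lit 380)) (XT.lf (nat_lit 228) (nat_lit 51370134248) (nat_lit 0) (nat_lit 17053492747) (nat_lit 152) (nat_lit 17053492747) (nat_lit 222) (nat_lit 1) (nat_lit 219) (nat_lit 1) (nat_lit 221) (nat_lit 1) (nat_lit 221) (nat_lit 420) (nat_lit 379)))))) (XT.nd (nat_lit 468) (nat_lit 684) (nat_lit 0) (XT.nd (nat_lit 234) (nat_lit 152) (nat_lit 0) (XT.nd (nat_lit 78) (nat_lit 380) (nat_lit 0) (XT.lf (nat_lit 76) (nat_lit 14495315430) (nat_lit 0) (nat_lit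 54949652029) (nat_lit 228) (nat_lit 14495315430) (nat_lit 220) (nat_lit 1) (nat_lit 219) (nat_lit 1) (nat_lit 222) (nat_lit 1) (nat_lit 222) (nat_lit 420) (nat_lit 378)) (XT.nd (nat_lit 78) (nat_lit 228) (nat_lit 0) (XT.lf (nat_lit 228) (nat_lit 6790533398) (nat_lit 0) (nat_lit 37821945654) (nat_lit 152) (nat_lit 37821945654) (nat_lit 220) (nat_lit 1) (nat_lit 217) (nat_lit 1) (nat_lit 219) (nat_lit 1) (nat_lit 223) (nat_lit 420) (nat_lit 377)) (XT.lf (nat_lit 228) (nat_lit 66741749224) (nat_lit 0) (nat_lit 7115225353) (nat_lit 152) (nat_lit 7115225353) (nat_lit 217) (nat_lit 1) (nat_lit 214) (nat_lit 1) (nat_lit 216) (nat_lit 1) (nat_lit 224) (nat_lit 420) (nat_lit 376)))) (XT.nd (nat_lit 78) (nat_lit 152) (nat_lit 0) (XT.lf (nat_lit 76) (nat_lit 22218491871) (nat_lit 0) (nat_lit 35085471340) (nat_lit 228) (nat_lit 22218491871) (nat_lit 215) (nat_lit 1) (nat_lit 214) (nat_lit 1) (nat_lit 217)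 (nat_lit 1) (nat_lit 225) (nat_lit 420) (nat_lit 375)) (XT.nd (nat_lit 78) (nat_lit 0) (nat_lit 0) (XT.lf (nat_lit 228) (nat_lit 22628455250) (nat_lit 0) (nat_lit 27743171543) (nat_lit 152) (nat_lit 27743171543) (nat_lit 215) (nat_lit 1) (nat_lit 212) (nat_lit 1) (nat_lit 214) (nat_lit 1) (nat_lit 226) (nat_lit 420) (nat_lit 374)) (XT.lf (nat_lit 76) (nat_lit 743734916) (nat_lit 0) (nat_lit 75269038351) (nat_lit 228) (nat_lit 743734916) (nat_lit 213) (nat_lit 1) (nat_lit 212) (nat_lit 1) (nat_lit 215) (nat_lit 1) (nat_lit 227) (nat_lit 420) (nat_lit 373))))) (XT.nd (nat_lit 234) (nat_lit 380) (nat_lit 0) (XT.nd (nat_lit 78) (nat_lit 152) (nat_lit 0) (XT.lf (nat_lit 76) (nat_lit 28082217766) (nat_lit 0) (nat_lit 19225148508) (nat_lit 152) (nat_lit 28082217766) (nat_lit 211) (nat_lit 1) (nat_lit 210) (nat_lit 1) (nat_lit 212) (nat_lit 1) (nat_lit 228) (nat_lit 420) (nat_lit 372)) (XT.nd (nat_lit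 78) (nat_lit 0) (nat_lit 0) (XT.lf (nat_lit 228) (nat_lit 34846835295) (nat_lit 0) (nat_lit 19611959936) (nat_lit 152) (nat_lit 19611959936) (nat_lit 211) (nat_lit 1) (nat_lit 208) (nat_lit 1) (nat_lit 210) (nat_lit 1) (nat_lit 229) (nat_lit 420) (nat_lit 371)) (XT.lf (nat_lit 76) (nat_lit 6986549641) (nat_lit 0) (nat_lit 58814425549) (nat_lit 228) (nat_lit 6986549641) (nat_lit 209) (nat_lit 1) (nat_lit 208) (nat_lit 1) (nat_lit 211) (nat_lit 1) (nat_lit 230) (nat_lit 420) (nat_lit 370)))) (XT.nd (nat_lit 156) (nat_lit 76) (nat_lit 0) (XT.nd (nat_lit 78) (nat_lit 152) (nat_lit 0) (XT.lf (nat_lit 76) (nat_lit 32439509595) (nat_lit 0) (nat_lit 6635857644) (nat_lit 152) (nat_lit 32439509595) (nat_lit 207) (nat_lit 1) (nat_lit 206) (nat_lit 1) (nat_lit 208) (nat_lit 1) (nat_lit 231) (nat_lit 420) (nat_lit 369)) (XT.lf (nat_lit 228) (nat_lit 44126053026) (nat_lit 0) (nat_lit 13075364212) (nat_lit 152)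 (nat_lit 13075364212) (nat_lit 207) (nat_lit 1) (nat_lit 204) (nat_lit 1) (nat_lit 206) (nat_lit 1) (nat_lit 232) (nat_lit 420) (nat_lit 368))) (XT.nd (nat_lit 78) (nat_lit 76) (nat_lit 0) (XT.lf (nat_lit 76) (nat_lit 11818972714) (nat_lit 0) (nat_lit 45425250997) (nat_lit 228) (nat_lit 11818972714) (nat_lit 205) (nat_lit 1) (nat_lit 204) (nat_lit 1) (nat_lit 207) (nat_lit 1) (nat_lit 233) (nat_lit 420) (nat_lit 367)) (XT.lf (nat_lit 152) (nat_lit 3392796663) (nat_lit 0) (nat_lit 32239857836) (nat_lit 76) (nat_lit 32239857836) (nat_lit 205) (nat_lit 1) (nat_lit 203) (nat_lit 1) (nat_lit 204) (nat_lit 1) (nat_lit 234) (nat_lit 420) (nat_lit 366))))))) (XT.nd (nat_lit 936) (nat_lit 912) (nat_lit 0) (XT.nd (nat_lit 468) (nat_lit 532) (nat_lit 0) (XT.nd (nat_lit 234) (nat_lit 304) (nat_lit 0) (XT.nd (nat_lit 78) (nat_lit 76) (nat_lit 0) (XT.lf (nat_lit 228) (nat_lit 51024018162) (nat_lit 0) (nat_lit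 7843378532) (nat_lit 152) (nat_lit 7843378532) (nat_lit 203) (nat_lit 1) (nat_lit 200) (nat_lit 1) (nat_lit 202) (nat_lit 1) (nat_lit 235) (nat_lit 420) (nat_lit 365)) (XT.nd (nat_lit 78) (nat_lit 76) (nat_lit 0) (XT.lf (nat_lit 76) (nat_lit 15505518133) (nat_lit 0) (nat_lit 34550968836) (nat_lit 228) (nat_lit 15505518133) (nat_lit 201) (nat_lit 1) (nat_lit 200) (nat_lit 1) (nat_lit 203) (nat_lit 1) (nat_lit 236) (nat_lit 420) (nat_lit 364)) (XT.lf (nat_lit 152) (nat_lit 11393779820) (nat_lit 0) (nat_lit 26523810829) (nat_lit 76) (nat_lit 26523810829) (nat_lit 201) (nat_lit 1) (nat_lit 199) (nat_lit 1) (nat_lit 200) (nat_lit 1) (nat_lit 237) (nat_lit 420) (nat_lit 363)))) (XT.nd (nat_lit 78) (nat_lit 76) (nat_lit 0) (XT.lf (nat_lit 228) (nat_lit 55997971857) (nat_lit 0) (nat_lit 3677761249) (nat_lit 152) (nat_lit 3677761249) (nat_lit 199) (nat_lit 1) (nat_lit 196) (nat_lit 1) (nat_lit 198) (nat_lit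 1) (nat_lit 238) (nat_lit 420) (nat_lit 362)) (XT.nd (nat_lit 78) (nat_lit 76) (nat_lit 0) (XT.lf (nat_lit 76) (nat_lit 18263113886) (nat_lit 0) (nat_lit 25738979400) (nat_lit 228) (nat_lit 18263113886) (nat_lit 197) (nat_lit 1) (nat_lit 196) (nat_lit 1) (nat_lit 199) (nat_lit 1) (nat_lit 239) (nat_lit 420) (nat_lit 361)) (XT.lf (nat_lit 152) (nat_lit 17566564768) (nat_lit 0) (nat_lit 21821204810) (nat_lit 76) (nat_lit 21821204810) (nat_lit 197) (nat_lit 1) (nat_lit 195) (nat_lit 1) (nat_lit 196) (nat_lit 1) (nat_lit 240) (nat_lit 420) (nat_lit 360))))) (XT.nd (nat_lit 234) (nat_lit 228) (nat_lit 0) (XT.nd (nat_lit 78) (nat_lit 76) (nat_lit 0) (XT.lf (nat_lit 228) (nat_lit 59422418451) (nat_lit 0) (nat_lit 382840728) (nat_lit 152) (nat_lit 382840728) (nat_lit 195) (nat_lit 1) (nat_lit 192) (nat_lit 1) (nat_lit 194) (nat_lit 1) (nat_lit 241) (nat_lit 420) (nat_lit 359)) (XT.nd (nat_lit 78) (nat_lit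 76) (nat_lit 0) (XT.lf (nat_lit 76) (nat_lit 20269571606) (nat_lit 0) (nat_lit 18617247605) (nat_lit 228) (nat_lit 20269571606) (nat_lit 193) (nat_lit 1) (nat_lit 192) (nat_lit 1) (nat_lit 195) (nat_lit 1) (nat_lit 242) (nat_lit 420) (nat_lit 358)) (XT.lf (nat_lit 152) (nat_lit 22254793368) (nat_lit 0) (nat_lit 17952359200) (nat_lit 76) (nat_lit 17952359200) (nat_lit 193) (nat_lit 1) (nat_lit 191) (nat_lit 1) (nat_lit 192) (nat_lit 1) (nat_lit 243) (nat_lit 420) (nat_lit 357)))) (XT.nd (nat_lit 78) (nat_lit 228) (nat_lit 0) (XT.lf (nat_lit 0) (nat_lit 2238147086) (nat_lit 0) (nat_lit 52716435994) (nat_lit 152) (nat_lit 2238147086) (nat_lit 191) (nat_lit 3) (nat_lit 191) (nat_lit 1) (nat_lit 193) (nat_lit 1) (nat_lit 244) (nat_lit 420) (nat_lit 356)) (XT.nd (nat_lit 78) (nat_lit 76) (nat_lit 0) (XT.lf (nat_lit 76) (nat_lit 21670553022) (nat_lit 0) (nat_lit 12880003825) (nat_lit 152) (nat_lit 21670553022)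 (nat_lit 190) (nat_lit 1) (nat_lit 189) (nat_lit 1) (nat_lit 191) (nat_lit 1) (nat_lit 245) (nat_lit 420) (nat_lit 355)) (XT.lf (nat_lit 152) (nat_lit 25740251733) (nat_lit 0) (nat_lit 14769450342) (nat_lit 76) (nat_lit 14769450342) (nat_lit 190) (nat_lit 1) (nat_lit 188) (nat_lit 1) (nat_lit 189) (nat_lit 1) (nat_lit 246) (nat_lit 420) (nat_lit 354)))))) (XT.nd (nat_lit 468) (nat_lit 456) (nat_lit 0) (XT.nd (nat_lit 234) (nat_lit 228) (nat_lit 0) (XT.nd (nat_lit 78) (nat_lit 228) (nat_lit 0) (XT.lf (nat_lit 0) (nat_lit 4277781000) (nat_lit 0) (nat_lit 45806394207) (nat_lit 152) (nat_lit 4277781000) (nat_lit 188) (nat_lit 3) (nat_lit 188) (nat_lit 1) (nat_lit 190) (nat_lit 1) (nat_lit 247) (nat_lit 420) (nat_lit 353)) (XT.nd (nat_lit 78) (nat_lit 76) (nat_lit 0) (XT.lf (nat_lit 76) (nat_lit 22585299791) (nat_lit 0) (nat_lit 8275980685) (nat_lit 152) (nat_lit 22585299791) (nat_lit 187) (nat_lit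 1) (nat_lit 186) (nat_lit 1) (nat_lit 188) (nat_lit 1) (nat_lit 248) (nat_lit 420) (nat_lit 352)) (XT.lf (nat_lit 152) (nat_lit 28253881328) (nat_lit 0) (nat_lit 12150863347) (nat_lit 76) (nat_lit 12150863347) (nat_lit 187) (nat_lit 1) (nat_lit 185) (nat_lit 1) (nat_lit 186) (nat_lit 1) (nat_lit 249) (nat_lit 420) (nat_lit 351)))) (XT.nd (nat_lit 78) (nat_lit 228) (nat_lit 0) (XT.lf (nat_lit 0) (nat_lit 5839771352) (nat_lit 0) (nat_lit 40005464212) (nat_lit 152) (nat_lit 5839771352) (nat_lit 185) (nat_lit 3) (nat_lit 185) (nat_lit 1) (nat_lit 187) (nat_lit 1) (nat_lit 250) (nat_lit 420) (nat_lit 350)) (XT.nd (nat_lit 78) (nat_lit 76) (nat_lit 0) (XT.lf (nat_lit 76) (nat_lit 23111346022) (nat_lit 0) (nat_lit 4598736137) (nat_lit 152) (nat_lit 23111346022) (nat_lit 184) (nat_lit 1) (nat_lit 183) (nat_lit 1) (nat_lit 185) (nat_lit 1) (nat_lit 251) (nat_lit 420) (nat_lit 349)) (XT.lf (nat_lit 152)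 (nat_lit 29984835735) (nat_lit 0) (nat_lit 9996545347) (nat_lit 76) (nat_lit 9996545347) (nat_lit 184) (nat_lit 1) (nat_lit 182) (nat_lit 1) (nat_lit 183) (nat_lit 1) (nat_lit 252) (nat_lit 420) (nat_lit 348))))) (XT.nd (nat_lit 234) (nat_lit 228) (nat_lit 0) (XT.nd (nat_lit 78) (nat_lit 228) (nat_lit 0) (XT.lf (nat_lit 0) (nat_lit 7014327997) (nat_lit 0) (nat_lit 35122528066) (nat_lit 152) (nat_lit 7014327997) (nat_lit 182) (nat_lit 3) (nat_lit 182) (nat_lit 1) (nat_lit 184) (nat_lit 1) (nat_lit 253) (nat_lit 420) (nat_lit 347)) (XT.nd (nat_lit 78) (nat_lit 76) (nat_lit 0) (XT.lf (nat_lit 76) (nat_lit 23328393940) (nat_lit 0) (nat_lit 1678692883) (nat_lit 152) (nat_lit 23328393940) (nat_lit 181) (nat_lit 1) (nat_lit 180) (nat_lit 1) (nat_lit 182) (nat_lit 1) (nat_lit 254) (nat_lit 420) (nat_lit 346)) (XT.lf (nat_lit 152) (nat_lit 31087929655) (nat_lit 0) (nat_lit 8224182596) (nat_lit 76) (nat_lit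 8224182596) (nat_lit 181) (nat_lit 1) (nat_lit 179) (nat_lit 1) (nat_lit 180) (nat_lit 1) (nat_lit 255) (nat_lit 420) (nat_lit 345)))) (XT.nd (nat_lit 156) (nat_lit 152) (nat_lit 0) (XT.nd (nat_lit 78) (nat_lit 76) (nat_lit 0) (XT.lf (nat_lit 0) (nat_lit 7875403720) (nat_lit 0) (nat_lit 31000089479) (nat_lit 152) (nat_lit 7875403720) (nat_lit 179) (nat_lit 3) (nat_lit 179) (nat_lit 1) (nat_lit 181) (nat_lit 1) (nat_lit 256) (nat_lit 420) (nat_lit 344)) (XT.lf (nat_lit 76) (nat_lit 644022935) (nat_lit 0) (nat_lit 22667533182) (nat_lit 76) (nat_lit 22667533182) (nat_lit 179) (nat_lit 3) (nat_lit 178) (nat_lit 1) (nat_lit 179) (nat_lit 1) (nat_lit 257) (nat_lit 420) (nat_lit 343))) (XT.nd (nat_lit 78) (nat_lit 0) (nat_lit 0) (XT.lf (nat_lit 152) (nat_lit 31689765320) (nat_lit 0) (nat_lit 6766055375) (nat_lit 76) (nat_lit 6766055375) (nat_lit 178) (nat_lit 1) (nat_lit 176) (nat_lit 1) (nat_lit 177)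 (nat_lit 1) (nat_lit 258) (nat_lit 420) (nat_lit 342)) (XT.lf (nat_lit 0) (nat_lit 8483589100) (nat_lit 0) (nat_lit 27508325302) (nat_lit 152) (nat_lit 8483589100) (nat_lit 176) (nat_lit 3) (nat_lit 176) (nat_lit 1) (nat_lit 178) (nat_lit 1) (nat_lit 259) (nat_lit 420) (nat_lit 341))))))))
noncomputable def ec353 : XT := (XT.nd (nat_lit 1950) (nat_lit 1976) (nat_lit 0) (XT.nd (nat_lit 936) (nat_lit 988) (nat_lit 0) (XT.nd (nat_lit 468) (nat_lit 456) (nat_lit 0) (XT.nd (nat_lit 234) (nat_lit 228) (nat_lit 0) (XT.nd (nat_lit 78) (nat_lit 152) (nat_lit 0) (XT.lf (nat_lit 76) (nat_lit 2501983990) (nat_lit 0) (nat_lit 20620780374) (nat_lit 76) (nat_lit 20620780374) (nat_lit 176) (nat_lit 3) (nat_lit 175) (nat_lit 1) (nat_lit 176) (nat_lit 1) (nat_lit 260) (nat_lit 420) (nat_lit 340)) (XT.nd (nat_lit 78) (nat_lit 0) (nat_lit 0) (XT.lf (nat_lit 152) (nat_lit 31893770885) (nat_lit 0) (nat_lit 5566450501)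 (nat_lit 76) (nat_lit 5566450501) (nat_lit 175) (nat_lit 1) (nat_lit 173) (nat_lit 1) (nat_lit 174) (nat_lit 1) (nat_lit 261) (nat_lit 420) (nat_lit 339)) (XT.lf (nat_lit 0) (nat_lit 8888493528) (nat_lit 0) (nat_lit 24540191084) (nat_lit 152) (nat_lit 8888493528) (nat_lit 173) (nat_lit 3) (nat_lit 173) (nat_lit 1) (nat_lit 175) (nat_lit 1) (nat_lit 262) (nat_lit 420) (nat_lit 338)))) (XT.nd (nat_lit 78) (nat_lit 152) (nat_lit 0) (XT.lf (nat_lit 76) (nat_lit 3936621495) (nat_lit 0) (nat_lit 18843000120) (nat_lit 76) (nat_lit 18843000120) (nat_lit 173) (nat_lit 3) (nat_lit 172) (nat_lit 1) (nat_lit 173) (nat_lit 1) (nat_lit 263) (nat_lit 420) (nat_lit 337)) (XT.nd (nat_lit 78) (nat_lit 0) (nat_lit 0) (XT.lf (nat_lit 152) (nat_lit 31784343790) (nat_lit 0) (nat_lit 4579532603) (nat_lit 76) (nat_lit 4579532603) (nat_lit 172) (nat_lit 1) (nat_lit 170) (nat_lit 1) (nat_lit 171) (nat_lit 1) (nat_lit 264)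 (nat_lit 420) (nat_lit 336)) (XT.lf (nat_lit 0) (nat_lit 9130703508) (nat_lit 0) (nat_lit 22007393823) (nat_lit 152) (nat_lit 9130703508) (nat_lit 170) (nat_lit 3) (nat_lit 170) (nat_lit 1) (nat_lit 172) (nat_lit 1) (nat_lit 265) (nat_lit 420) (nat_lit 335))))) (XT.nd (nat_lit 234) (nat_lit 228) (nat_lit 0) (XT.nd (nat_lit 78) (nat_lit 152) (nat_lit 0) (XT.lf (nat_lit 76) (nat_lit 5027461650) (nat_lit 0) (nat_lit 17290976235) (nat_lit 76) (nat_lit 17290976235) (nat_lit 170) (nat_lit 3) (nat_lit 169) (nat_lit 1) (nat_lit 170) (nat_lit 1) (nat_lit 266) (nat_lit 420) (nat_lit 334)) (XT.nd (nat_lit 78) (nat_lit 0) (nat_lit 0) (XT.lf (nat_lit 152) (nat_lit 31430257869) (nat_lit 0) (nat_lit 3767592806) (nat_lit 76) (nat_lit 3767592806) (nat_lit 169) (nat_lit 1) (nat_lit 167) (nat_lit 1) (nat_lit 168) (nat_lit 1) (nat_lit 267) (nat_lit 420) (nat_lit 333)) (XT.lf (nat_lit 0) (nat_lit 9243393217) (nat_lit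 0) (nat_lit 19837078205) (nat_lit 152) (nat_lit 9243393217) (nat_lit 167) (nat_lit 3) (nat_lit 167) (nat_lit 1) (nat_lit 169) (nat_lit 1) (nat_lit 268) (nat_lit 420) (nat_lit 332)))) (XT.nd (nat_lit 78) (nat_lit 152) (nat_lit 0) (XT.lf (nat_lit 76) (nat_lit 5839717907) (nat_lit 0) (nat_lit 15928941706) (nat_lit 76) (nat_lit 15928941706) (nat_lit 167) (nat_lit 3) (nat_lit 166) (nat_lit 1) (nat_lit 167) (nat_lit 1) (nat_lit 269) (nat_lit 420) (nat_lit 331)) (XT.nd (nat_lit 78) (nat_lit 0) (nat_lit 0) (XT.lf (nat_lit 152) (nat_lit 30887464812) (nat_lit 0) (nat_lit 3099607925) (nat_lit 76) (nat_lit 3099607925) (nat_lit 166) (nat_lit 1) (nat_lit 164) (nat_lit 1) (nat_lit 165) (nat_lit 1) (nat_lit 270) (nat_lit 420) (nat_lit 330)) (XT.lf (nat_lit 0) (nat_lit 9253648993) (nat_lit 0) (nat_lit 17969099850) (nat_lit 152) (nat_lit 9253648993) (nat_lit 164) (nat_lit 3) (nat_lit 164) (nat_lit 1) (nat_lit 166)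 (nat_lit 1) (nat_lit 271) (nat_lit 420) (nat_lit 329)))))) (XT.nd (nat_lit 468) (nat_lit 532) (nat_lit 0) (XT.nd (nat_lit 234) (nat_lit 228) (nat_lit 0) (XT.nd (nat_lit 78) (nat_lit 152) (nat_lit 0) (XT.lf (nat_lit 76) (nat_lit 6426838723) (nat_lit 0) (nat_lit 14727268111) (nat_lit 76) (nat_lit 14727268111) (nat_lit 164) (nat_lit 3) (nat_lit 163) (nat_lit 1) (nat_lit 164) (nat_lit 1) (nat_lit 272) (nat_lit 420) (nat_lit 328)) (XT.nd (nat_lit 78) (nat_lit 0) (nat_lit 0) (XT.lf (nat_lit 152) (nat_lit 30201397436) (nat_lit 0) (nat_lit 2550055111) (nat_lit 76) (nat_lit 2550055111) (nat_lit 163) (nat_lit 1) (nat_lit 161) (nat_lit 1) (nat_lit 162) (nat_lit 1) (nat_lit 273) (nat_lit 420) (nat_lit 327)) (XT.lf (nat_lit 0) (nat_lit 9183558516) (nat_lit 0) (nat_lit 16353781505) (nat_lit 152) (nat_lit 9183558516) (nat_lit 161) (nat_lit 3) (nat_lit 161) (nat_lit 1) (nat_lit 163) (nat_lit 1) (nat_lit 274) (nat_lit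 420) (nat_lit 326)))) (XT.nd (nat_lit 78) (nat_lit 152) (nat_lit 0) (XT.lf (nat_lit 76) (nat_lit 6832603121) (nat_lit 0) (nat_lit 13661386920) (nat_lit 76) (nat_lit 13661386920) (nat_lit 161) (nat_lit 3) (nat_lit 160) (nat_lit 1) (nat_lit 161) (nat_lit 1) (nat_lit 275) (nat_lit 420) (nat_lit 325)) (XT.nd (nat_lit 78) (nat_lit 0) (nat_lit 0) (XT.lf (nat_lit 152) (nat_lit 29408863170) (nat_lit 0) (nat_lit 2097936651) (nat_lit 76) (nat_lit 2097936651) (nat_lit 160) (nat_lit 1) (nat_lit 158) (nat_lit 1) (nat_lit 159) (nat_lit 1) (nat_lit 276) (nat_lit 420) (nat_lit 324)) (XT.lf (nat_lit 0) (nat_lit 9051106403) (nat_lit 0) (nat_lit 14950066601) (nat_lit 152) (nat_lit 9051106403) (nat_lit 158) (nat_lit 3) (nat_lit 158) (nat_lit 1) (nat_lit 160) (nat_lit 1) (nat_lit 277) (nat_lit 420) (nat_lit 323))))) (XT.nd (nat_lit 234) (nat_lit 304) (nat_lit 0) (XT.nd (nat_lit 78) (nat_lit 152) (nat_lit 0) (XT.lf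 (nat_lit 76) (nat_lit 7092844257) (nat_lit 0) (nat_lit 12710901588) (nat_lit 76) (nat_lit 12710901588) (nat_lit 158) (nat_lit 3) (nat_lit 157) (nat_lit 1) (nat_lit 158) (nat_lit 1) (nat_lit 278) (nat_lit 420) (nat_lit 322)) (XT.nd (nat_lit 78) (nat_lit 0) (nat_lit 0) (XT.lf (nat_lit 152) (nat_lit 28539600470) (nat_lit 0) (nat_lit 1725977674) (nat_lit 76) (nat_lit 1725977674) (nat_lit 157) (nat_lit 1) (nat_lit 155) (nat_lit 1) (nat_lit 156) (nat_lit 1) (nat_lit 279) (nat_lit 420) (nat_lit 321)) (XT.lf (nat_lit 0) (nat_lit 8870910574) (nat_lit 0) (nat_lit 13723999728) (nat_lit 152) (nat_lit 8870910574) (nat_lit 155) (nat_lit 3) (nat_lit 155) (nat_lit 1) (nat_lit 157) (nat_lit 1) (nat_lit 280) (nat_lit 420) (nat_lit 320)))) (XT.nd (nat_lit 156) (nat_lit 76) (nat_lit 0) (XT.nd (nat_lit 78) (nat_lit 152) (nat_lit 0) (XT.lf (nat_lit 76) (nat_lit 7236866962) (nat_lit 0) (nat_lit 11858856632) (nat_lit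 76) (nat_lit 11858856632) (nat_lit 155) (nat_lit 3) (nat_lit 154) (nat_lit 1) (nat_lit 155) (nat_lit 1) (nat_lit 281) (nat_lit 420) (nat_lit 319)) (XT.lf (nat_lit 152) (nat_lit 27617557993) (nat_lit 0) (nat_lit 1419966104) (nat_lit 76) (nat_lit 1419966104) (nat_lit 154) (nat_lit 1) (nat_lit 152) (nat_lit 1) (nat_lit 153) (nat_lit 1) (nat_lit 282) (nat_lit 420) (nat_lit 318))) (XT.nd (nat_lit 78) (nat_lit 76) (nat_lit 0) (XT.lf (nat_lit 0) (nat_lit 8654827643) (nat_lit 0) (nat_lit 12647476100) (nat_lit 152) (nat_lit 8654827643) (nat_lit 152) (nat_lit 3) (nat_lit 152) (nat_lit 1) (nat_lit 154) (nat_lit 1) (nat_lit 283) (nat_lit 420) (nat_lit 317)) (XT.lf (nat_lit 76) (nat_lit 7288613539) (nat_lit 0) (nat_lit 11091135879) (nat_lit 76) (nat_lit 11091135879) (nat_lit 152) (nat_lit 3) (nat_lit 151) (nat_lit 1) (nat_lit 152) (nat_lit 1) (nat_lit 284) (nat_lit 420) (nat_lit 316))))))) (XT.nd (nat_lit 936)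 (nat_lit 1064) (nat_lit 0) (XT.nd (nat_lit 468) (nat_lit 456) (nat_lit 0) (XT.nd (nat_lit 234) (nat_lit 228) (nat_lit 0) (XT.nd (nat_lit 78) (nat_lit 76) (nat_lit 0) (XT.lf (nat_lit 152) (nat_lit 26661945743) (nat_lit 0) (nat_lit 1168209628) (nat_lit 76) (nat_lit 1168209628) (nat_lit 151) (nat_lit 1) (nat_lit 149) (nat_lit 1) (nat_lit 150) (nat_lit 1) (nat_lit 285) (nat_lit 420) (nat_lit 315)) (XT.nd (nat_lit 78) (nat_lit 76) (nat_lit 0) (XT.lf (nat_lit 0) (nat_lit 8412450558) (nat_lit 0) (nat_lit 11697212325) (nat_lit 152) (nat_lit 8412450558) (nat_lit 149) (nat_lit 3) (nat_lit 149) (nat_lit 1) (nat_lit 151) (nat_lit 1) (nat_lit 286) (nat_lit 420) (nat_lit 314)) (XT.lf (nat_lit 76) (nat_lit 7267622472) (nat_lit 0) (nat_lit 10395967011) (nat_lit 76) (nat_lit 10395967011) (nat_lit 149) (nat_lit 3) (nat_lit 148) (nat_lit 1) (nat_lit 149) (nat_lit 1) (nat_lit 287) (nat_lit 420) (nat_lit 313)))) (XT.nd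 (nat_lit 78) (nat_lit 76) (nat_lit 0) (XT.lf (nat_lit 152) (nat_lit 25688098683) (nat_lit 0) (nat_lit 961088952) (nat_lit 76) (nat_lit 961088952) (nat_lit 148) (nat_lit 1) (nat_lit 146) (nat_lit 1) (nat_lit 147) (nat_lit 1) (nat_lit 288) (nat_lit 420) (nat_lit 312)) (XT.nd (nat_lit 78) (nat_lit 76) (nat_lit 0) (XT.lf (nat_lit 0) (nat_lit 8151517643) (nat_lit 0) (nat_lit 10853899278) (nat_lit 152) (nat_lit 8151517643) (nat_lit 146) (nat_lit 3) (nat_lit 146) (nat_lit 1) (nat_lit 148) (nat_lit 1) (nat_lit 289) (nat_lit 420) (nat_lit 311)) (XT.lf (nat_lit 76) (nat_lit 7189816780) (nat_lit 0) (nat_lit 9763513574) (nat_lit 76) (nat_lit 9763513574) (nat_lit 146) (nat_lit 3) (nat_lit 145) (nat_lit 1) (nat_lit 146) (nat_lit 1) (nat_lit 290) (nat_lit 420) (nat_lit 310))))) (XT.nd (nat_lit 234) (nat_lit 228) (nat_lit 0) (XT.nd (nat_lit 78) (nat_lit 76) (nat_lit 0) (XT.lf (nat_lit 152) (nat_lit 24708186110)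 (nat_lit 0) (nat_lit 790690259) (nat_lit 76) (nat_lit 790690259) (nat_lit 145) (nat_lit 1) (nat_lit 143) (nat_lit 1) (nat_lit 144) (nat_lit 1) (nat_lit 291) (nat_lit 420) (nat_lit 309)) (XT.nd (nat_lit 78) (nat_lit 76) (nat_lit 0) (XT.lf (nat_lit 0) (nat_lit 7878248738) (nat_lit 0) (nat_lit 10101504797) (nat_lit 152) (nat_lit 7878248738) (nat_lit 143) (nat_lit 3) (nat_lit 143) (nat_lit 1) (nat_lit 145) (nat_lit 1) (nat_lit 292) (nat_lit 420) (nat_lit 308)) (XT.lf (nat_lit 76) (nat_lit 7068152235) (nat_lit 0) (nat_lit 9185538958) (nat_lit 76) (nat_lit 9185538958) (nat_lit 143) (nat_lit 3) (nat_lit 142) (nat_lit 1) (nat_lit 143) (nat_lit 1) (nat_lit 293) (nat_lit 420) (nat_lit 307)))) (XT.nd (nat_lit 78) (nat_lit 76) (nat_lit 0) (XT.lf (nat_lit 152) (nat_lit 23731794194) (nat_lit 0) (nat_lit 650502833) (nat_lit 76) (nat_lit 650502833) (nat_lit 142) (nat_lit 1) (nat_lit 140) (nat_lit 1) (nat_lit 141)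 (nat_lit 1) (nat_lit 294) (nat_lit 420) (nat_lit 306)) (XT.nd (nat_lit 78) (nat_lit 76) (nat_lit 0) (XT.lf (nat_lit 0) (nat_lit 7597621401) (nat_lit 0) (nat_lit 9426699662) (nat_lit 152) (nat_lit 7597621401) (nat_lit 140) (nat_lit 3) (nat_lit 140) (nat_lit 1) (nat_lit 142) (nat_lit 1) (nat_lit 295) (nat_lit 420) (nat_lit 305)) (XT.lf (nat_lit 76) (nat_lit 6913150315) (nat_lit 0) (nat_lit 8655129611) (nat_lit 76) (nat_lit 8655129611) (nat_lit 140) (nat_lit 3) (nat_lit 139) (nat_lit 1) (nat_lit 140) (nat_lit 1) (nat_lit 296) (nat_lit 420) (nat_lit 304)))))) (XT.nd (nat_lit 468) (nat_lit 608) (nat_lit 0) (XT.nd (nat_lit 234) (nat_lit 228) (nat_lit 0) (XT.nd (nat_lit 78) (nat_lit 76) (nat_lit 0) (XT.lf (nat_lit 152) (nat_lit 22766404227) (nat_lit 0) (nat_lit 535170290) (nat_lit 76) (nat_lit 535170290) (nat_lit 139) (nat_lit 1) (nat_lit 137) (nat_lit 1) (nat_lit 138) (nat_lit 1) (nat_lit 297) (nat_lit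 420) (nat_lit 303)) (XT.nd (nat_lit 78) (nat_lit 76) (nat_lit 0) (XT.lf (nat_lit 0) (nat_lit 7313597802) (nat_lit 0) (nat_lit 8818385014) (nat_lit 152) (nat_lit 7313597802) (nat_lit 137) (nat_lit 3) (nat_lit 137) (nat_lit 1) (nat_lit 139) (nat_lit 1) (nat_lit 298) (nat_lit 420) (nat_lit 302)) (XT.lf (nat_lit 76) (nat_lit 6733336328) (nat_lit 0) (nat_lit 8166467007) (nat_lit 76) (nat_lit 8166467007) (nat_lit 137) (nat_lit 3) (nat_lit 136) (nat_lit 1) (nat_lit 137) (nat_lit 1) (nat_lit 299) (nat_lit 420) (nat_lit 301)))) (XT.nd (nat_lit 78) (nat_lit 76) (nat_lit 0) (XT.lf (nat_lit 152) (nat_lit 21817785112) (nat_lit 0) (nat_lit 440285922) (nat_lit 76) (nat_lit 440285922) (nat_lit 136) (nat_lit 1) (nat_lit 134) (nat_lit 1) (nat_lit 135) (nat_lit 1) (nat_lit 300) (nat_lit 420) (nat_lit 300)) (XT.nd (nat_lit 78) (nat_lit 76) (nat_lit 0) (XT.lf (nat_lit 0) (nat_lit 7029311081) (nat_lit 0) (nat_lit 8267303244)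 (nat_lit 152) (nat_lit 7029311081) (nat_lit 134) (nat_lit 3) (nat_lit 134) (nat_lit 1) (nat_lit 136) (nat_lit 1) (nat_lit 301) (nat_lit 420) (nat_lit 299)) (XT.lf (nat_lit 76) (nat_lit 6535599562) (nat_lit 0) (nat_lit 7714639717) (nat_lit 76) (nat_lit 7714639717) (nat_lit 134) (nat_lit 3) (nat_lit 133) (nat_lit 1) (nat_lit 134) (nat_lit 1) (nat_lit 302) (nat_lit 420) (nat_lit 298))))) (XT.nd (nat_lit 234) (nat_lit 380) (nat_lit 0) (XT.nd (nat_lit 78) (nat_lit 76) (nat_lit 0) (XT.lf (nat_lit 152) (nat_lit 20890315342) (nat_lit 0) (nat_lit 362224318) (nat_lit 76) (nat_lit 362224318) (nat_lit 133) (nat_lit 1) (nat_lit 131) (nat_lit 1) (nat_lit 132) (nat_lit 1) (nat_lit 303) (nat_lit 420) (nat_lit 297)) (XT.nd (nat_lit 78) (nat_lit 76) (nat_lit 0) (XT.lf (nat_lit 0) (nat_lit 6747218355) (nat_lit 0) (nat_lit 7765717572) (nat_lit 152) (nat_lit 6747218355) (nat_lit 131) (nat_lit 3) (nat_lit 131) (nat_lit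 1) (nat_lit 133) (nat_lit 1) (nat_lit 304) (nat_lit 420) (nat_lit 296)) (XT.lf (nat_lit 76) (nat_lit 6325489268) (nat_lit 0) (nat_lit 7295488522) (nat_lit 76) (nat_lit 7295488522) (nat_lit 131) (nat_lit 3) (nat_lit 130) (nat_lit 1) (nat_lit 131) (nat_lit 1) (nat_lit 305) (nat_lit 420) (nat_lit 295)))) (XT.nd (nat_lit 156) (nat_lit 228) (nat_lit 0) (XT.nd (nat_lit 78) (nat_lit 0) (nat_lit 0) (XT.lf (nat_lit 152) (nat_lit 19987247022) (nat_lit 0) (nat_lit 298002843) (nat_lit 76) (nat_lit 298002843) (nat_lit 130) (nat_lit 1) (nat_lit 128) (nat_lit 1) (nat_lit 129) (nat_lit 1) (nat_lit 306) (nat_lit 420) (nat_lit 294)) (XT.lf (nat_lit 0) (nat_lit 6469226318) (nat_lit 0) (nat_lit 7307148144) (nat_lit 152) (nat_lit 6469226318) (nat_lit 128) (nat_lit 3) (nat_lit 128) (nat_lit 1) (nat_lit 130) (nat_lit 1) (nat_lit 307) (nat_lit 420) (nat_lit 293))) (XT.nd (nat_lit 78) (nat_lit 152) (nat_lit 0) (XT.lf (nat_lit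 76) (nat_lit 6107457898) (nat_lit 0) (nat_lit 6905478684) (nat_lit 76) (nat_lit 6905478684) (nat_lit 128) (nat_lit 3) (nat_lit 127) (nat_lit 1) (nat_lit 128) (nat_lit 1) (nat_lit 308) (nat_lit 420) (nat_lit 292)) (XT.lf (nat_lit 152) (nat_lit 19110922247) (nat_lit 0) (nat_lit 245167676) (nat_lit 76) (nat_lit 245167676) (nat_lit 127) (nat_lit 1) (nat_lit 125) (nat_lit 1) (nat_lit 126) (nat_lit 1) (nat_lit 309) (nat_lit 420) (nat_lit 291))))))))
noncomputable def ec354 : XT := (XT.nd (nat_lit 1950) (nat_lit 1900) (nat_lit 0) (XT.nd (nat_lit 936) (nat_lit 912) (nat_lit 0) (XT.nd (nat_lit 468) (nat_lit 456) (nat_lit 0) (XT.nd (nat_lit 234) (nat_lit 228) (nat_lit 0) (XT.nd (nat_lit 78) (nat_lit 228) (nat_lit 0) (XT.lf (nat_lit 0) (nat_lit 6196794291) (nat_lit 0) (nat_lit 6886154651) (nat_lit 152) (nat_lit 6196794291) (nat_lit 125) (nat_lit 3) (nat_lit 125) (nat_lit 1) (nat_lit 127) (nat_lit 1) (nat_lit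 310) (nat_lit 420) (nat_lit 290)) (XT.nd (nat_lit 78) (nat_lit 152) (nat_lit 0) (XT.lf (nat_lit 76) (nat_lit 5885060939) (nat_lit 0) (nat_lit 6541594615) (nat_lit 76) (nat_lit 6541594615) (nat_lit 125) (nat_lit 3) (nat_lit 124) (nat_lit 1) (nat_lit 125) (nat_lit 1) (nat_lit 311) (nat_lit 420) (nat_lit 289)) (XT.lf (nat_lit 152) (nat_lit 18262950322) (nat_lit 0) (nat_lit 201700054) (nat_lit 76) (nat_lit 201700054) (nat_lit 124) (nat_lit 1) (nat_lit 122) (nat_lit 1) (nat_lit 123) (nat_lit 1) (nat_lit 312) (nat_lit 420) (nat_lit 288)))) (XT.nd (nat_lit 78) (nat_lit 228) (nat_lit 0) (XT.lf (nat_lit 0) (nat_lit 5931018751) (nat_lit 0) (nat_lit 6498157225) (nat_lit 152) (nat_lit 5931018751) (nat_lit 122) (nat_lit 3) (nat_lit 122) (nat_lit 1) (nat_lit 124) (nat_lit 1) (nat_lit 313) (nat_lit 420) (nat_lit 287)) (XT.nd (nat_lit 78) (nat_lit 152) (nat_lit 0) (XT.lf (nat_lit 76) (nat_lit 5661121068) (nat_lit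 0) (nat_lit 6201252948) (nat_lit 76) (nat_lit 6201252948) (nat_lit 122) (nat_lit 3) (nat_lit 121) (nat_lit 1) (nat_lit 122) (nat_lit 1) (nat_lit 314) (nat_lit 420) (nat_lit 286)) (XT.lf (nat_lit 152) (nat_lit 17444352801) (nat_lit 0) (nat_lit 165939133) (nat_lit 76) (nat_lit 165939133) (nat_lit 121) (nat_lit 1) (nat_lit 119) (nat_lit 1) (nat_lit 120) (nat_lit 1) (nat_lit 315) (nat_lit 420) (nat_lit 285))))) (XT.nd (nat_lit 234) (nat_lit 228) (nat_lit 0) (XT.nd (nat_lit 78) (nat_lit 228) (nat_lit 0) (XT.lf (nat_lit 0) (nat_lit 5672702616) (nat_lit 0) (nat_lit 6139288842) (nat_lit 152) (nat_lit 5672702616) (nat_lit 119) (nat_lit 3) (nat_lit 119) (nat_lit 1) (nat_lit 121) (nat_lit 1) (nat_lit 316) (nat_lit 420) (nat_lit 284)) (XT.nd (nat_lit 78) (nat_lit 152) (nat_lit 0) (XT.lf (nat_lit 76) (nat_lit 5437862949) (nat_lit 0) (nat_lit 5882230784) (nat_lit 76) (nat_lit 5882230784) (nat_lit 119) (nat_lit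 3) (nat_lit 118) (nat_lit 1) (nat_lit 119) (nat_lit 1) (nat_lit 317) (nat_lit 420) (nat_lit 283)) (XT.lf (nat_lit 152) (nat_lit 16655682102) (nat_lit 0) (nat_lit 136518535) (nat_lit 76) (nat_lit 136518535) (nat_lit 118) (nat_lit 1) (nat_lit 116) (nat_lit 1) (nat_lit 117) (nat_lit 1) (nat_lit 318) (nat_lit 420) (nat_lit 282)))) (XT.nd (nat_lit 78) (nat_lit 228) (nat_lit 0) (XT.lf (nat_lit 0) (nat_lit 5422412015) (nat_lit 0) (nat_lit 5806273658) (nat_lit 152) (nat_lit 5422412015) (nat_lit 116) (nat_lit 3) (nat_lit 116) (nat_lit 1) (nat_lit 118) (nat_lit 1) (nat_lit 319) (nat_lit 420) (nat_lit 281)) (XT.nd (nat_lit 78) (nat_lit 152) (nat_lit 0) (XT.lf (nat_lit 76) (nat_lit 5217023913) (nat_lit 0) (nat_lit 5582606430) (nat_lit 76) (nat_lit 5582606430) (nat_lit 116) (nat_lit 3) (nat_lit 115) (nat_lit 1) (nat_lit 116) (nat_lit 1) (nat_lit 320) (nat_lit 420) (nat_lit 280)) (XT.lf (nat_lit 152) (nat_lit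 15897118390) (nat_lit 0) (nat_lit 112314137) (nat_lit 76) (nat_lit 112314137) (nat_lit 115) (nat_lit 1) (nat_lit 113) (nat_lit 1) (nat_lit 114) (nat_lit 1) (nat_lit 321) (nat_lit 420) (nat_lit 279)))))) (XT.nd (nat_lit 468) (nat_lit 456) (nat_lit 0) (XT.nd (nat_lit 234) (nat_lit 228) (nat_lit 0) (XT.nd (nat_lit 78) (nat_lit 228) (nat_lit 0) (XT.lf (nat_lit 0) (nat_lit 5180522770) (nat_lit 0) (nat_lit 5496326693) (nat_lit 152) (nat_lit 5180522770) (nat_lit 113) (nat_lit 3) (nat_lit 113) (nat_lit 1) (nat_lit 115) (nat_lit 1) (nat_lit 322) (nat_lit 420) (nat_lit 278)) (XT.nd (nat_lit 78) (nat_lit 152) (nat_lit 0) (XT.lf (nat_lit 76) (nat_lit 4999944776) (nat_lit 0) (nat_lit 5300710418) (nat_lit 76) (nat_lit 5300710418) (nat_lit 113) (nat_lit 3) (nat_lit 112) (nat_lit 1) (nat_lit 113) (nat_lit 1) (nat_lit 323) (nat_lit 420) (nat_lit 277)) (XT.lf (nat_lit 152) (nat_lit 15168548646) (nat_lit 0) (nat_lit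 92401118) (nat_lit 76) (nat_lit 92401118) (nat_lit 112) (nat_lit 1) (nat_lit 110) (nat_lit 1) (nat_lit 111) (nat_lit 1) (nat_lit 324) (nat_lit 420) (nat_lit 276)))) (XT.nd (nat_lit 78) (nat_lit 228) (nat_lit 0) (XT.lf (nat_lit 0) (nat_lit 4947258413) (nat_lit 0) (nat_lit 5207071083) (nat_lit 152) (nat_lit 4947258413) (nat_lit 110) (nat_lit 3) (nat_lit 110) (nat_lit 1) (nat_lit 112) (nat_lit 1) (nat_lit 325) (nat_lit 420) (nat_lit 275)) (XT.nd (nat_lit 78) (nat_lit 152) (nat_lit 0) (XT.lf (nat_lit 76) (nat_lit 4787644362) (nat_lit 0) (nat_lit 5035085000) (nat_lit 76) (nat_lit 5035085000) (nat_lit 110) (nat_lit 3) (nat_lit 109) (nat_lit 1) (nat_lit 110) (nat_lit 1) (nat_lit 326) (nat_lit 420) (nat_lit 274)) (XT.lf (nat_lit 152) (nat_lit 14469631087) (nat_lit 0) (nat_lit 76018629) (nat_lit 76) (nat_lit 76018629) (nat_lit 109) (nat_lit 1) (nat_lit 107) (nat_lit 1) (nat_lit 108) (nat_lit 1) (nat_lit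 327) (nat_lit 420) (nat_lit 273))))) (XT.nd (nat_lit 234) (nat_lit 228) (nat_lit 0) (XT.nd (nat_lit 78) (nat_lit 228) (nat_lit 0) (XT.lf (nat_lit 0) (nat_lit 4722721273) (nat_lit 0) (nat_lit 4936469799) (nat_lit 152) (nat_lit 4722721273) (nat_lit 107) (nat_lit 3) (nat_lit 107) (nat_lit 1) (nat_lit 109) (nat_lit 1) (nat_lit 328) (nat_lit 420) (nat_lit 272)) (XT.nd (nat_lit 78) (nat_lit 152) (nat_lit 0) (XT.lf (nat_lit 76) (nat_lit 4580880599) (nat_lit 0) (nat_lit 4784450624) (nat_lit 76) (nat_lit 4784450624) (nat_lit 107) (nat_lit 3) (nat_lit 106) (nat_lit 1) (nat_lit 107) (nat_lit 1) (nat_lit 329) (nat_lit 420) (nat_lit 271)) (XT.lf (nat_lit 152) (nat_lit 13799847567) (nat_lit 0) (nat_lit 62540714) (nat_lit 76) (nat_lit 62540714) (nat_lit 106) (nat_lit 1) (nat_lit 104) (nat_lit 1) (nat_lit 105) (nat_lit 1) (nat_lit 330) (nat_lit 420) (nat_lit 270)))) (XT.nd (nat_lit 156) (nat_lit 152) (nat_lit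 0) (XT.nd (nat_lit 78) (nat_lit 76) (nat_lit 0) (XT.lf (nat_lit 0) (nat_lit 4506917844) (nat_lit 0) (nat_lit 4682769286) (nat_lit 152) (nat_lit 4506917844) (nat_lit 104) (nat_lit 3) (nat_lit 104) (nat_lit 1) (nat_lit 106) (nat_lit 1) (nat_lit 331) (nat_lit 420) (nat_lit 269)) (XT.lf (nat_lit 76) (nat_lit 4380200600) (nat_lit 0) (nat_lit 4547678164) (nat_lit 76) (nat_lit 4547678164) (nat_lit 104) (nat_lit 3) (nat_lit 103) (nat_lit 1) (nat_lit 104) (nat_lit 1) (nat_lit 332) (nat_lit 420) (nat_lit 268))) (XT.nd (nat_lit 78) (nat_lit 0) (nat_lit 0) (XT.lf (nat_lit 152) (nat_lit 13158546139) (nat_lit 0) (nat_lit 51452400) (nat_lit 76) (nat_lit 51452400) (nat_lit 103) (nat_lit 1) (nat_lit 101) (nat_lit 1) (nat_lit 102) (nat_lit 1) (nat_lit 333) (nat_lit 420) (nat_lit 267)) (XT.lf (nat_lit 0) (nat_lit 4299779478) (nat_lit 0) (nat_lit 4444452894) (nat_lit 152) (nat_lit 4299779478) (nat_lit 101) (nat_lit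 3) (nat_lit 101) (nat_lit 1) (nat_lit 103) (nat_lit 1) (nat_lit 334) (nat_lit 420) (nat_lit 266))))))) (XT.nd (nat_lit 936) (nat_lit 988) (nat_lit 0) (XT.nd (nat_lit 468) (nat_lit 456) (nat_lit 0) (XT.nd (nat_lit 234) (nat_lit 228) (nat_lit 0) (XT.nd (nat_lit 78) (nat_lit 152) (nat_lit 0) (XT.lf (nat_lit 76) (nat_lit 4185981678) (nat_lit 0) (nat_lit 4323765884) (nat_lit 76) (nat_lit 4323765884) (nat_lit 101) (nat_lit 3) (nat_lit 100) (nat_lit 1) (nat_lit 101) (nat_lit 1) (nat_lit 335) (nat_lit 420) (nat_lit 265)) (XT.nd (nat_lit 78) (nat_lit 0) (nat_lit 0) (XT.lf (nat_lit 152) (nat_lit 12544975514) (nat_lit 0) (nat_lit 42330017) (nat_lit 76) (nat_lit 42330017) (nat_lit 100) (nat_lit 1) (nat_lit 98) (nat_lit 1) (nat_lit 99) (nat_lit 1) (nat_lit 336) (nat_lit 420) (nat_lit 264)) (XT.lf (nat_lit 0) (nat_lit 4101179231) (nat_lit 0) (nat_lit 4220202409) (nat_lit 152) (nat_lit 4101179231) (nat_lit 98)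 (nat_lit 3) (nat_lit 98) (nat_lit 1) (nat_lit 100) (nat_lit 1) (nat_lit 337) (nat_lit 420) (nat_lit 263)))) (XT.nd (nat_lit 78) (nat_lit 152) (nat_lit 0) (XT.lf (nat_lit 76) (nat_lit 3998464919) (nat_lit 0) (nat_lit 4111820326) (nat_lit 76) (nat_lit 4111820326) (nat_lit 98) (nat_lit 3) (nat_lit 97) (nat_lit 1) (nat_lit 98) (nat_lit 1) (nat_lit 338) (nat_lit 420) (nat_lit 262)) (XT.nd (nat_lit 78) (nat_lit 0) (nat_lit 0) (XT.lf (nat_lit 152) (nat_lit 11958312918) (nat_lit 0) (nat_lit 34825009) (nat_lit 76) (nat_lit 34825009) (nat_lit 97) (nat_lit 1) (nat_lit 95) (nat_lit 1) (nat_lit 96) (nat_lit 1) (nat_lit 339) (nat_lit 420) (nat_lit 261)) (XT.lf (nat_lit 0) (nat_lit 3910945554) (nat_lit 0) (nat_lit 4008866217) (nat_lit 152) (nat_lit 3910945554) (nat_lit 95) (nat_lit 3) (nat_lit 95) (nat_lit 1) (nat_lit 97) (nat_lit 1) (nat_lit 340) (nat_lit 420) (nat_lit 260))))) (XT.nd (nat_lit 234) (nat_lit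 228) (nat_lit 0) (XT.nd (nat_lit 78) (nat_lit 152) (nat_lit 0) (XT.lf (nat_lit 76) (nat_lit 3817782634) (nat_lit 0) (nat_lit 3911040408) (nat_lit 76) (nat_lit 3911040408) (nat_lit 95) (nat_lit 3) (nat_lit 94) (nat_lit 1) (nat_lit 95) (nat_lit 1) (nat_lit 341) (nat_lit 420) (nat_lit 259)) (XT.nd (nat_lit 78) (nat_lit 0) (nat_lit 0) (XT.lf (nat_lit 152) (nat_lit 11397686504) (nat_lit 0) (nat_lit 28650621) (nat_lit 76) (nat_lit 28650621) (nat_lit 94) (nat_lit 1) (nat_lit 92) (nat_lit 1) (nat_lit 93) (nat_lit 1) (nat_lit 342) (nat_lit 420) (nat_lit 258)) (XT.lf (nat_lit 0) (nat_lit 3728873397) (nat_lit 0) (nat_lit 3809432968) (nat_lit 152) (nat_lit 3728873396) (nat_lit 92) (nat_lit 3) (nat_lit 92) (nat_lit 1) (nat_lit 94) (nat_lit 1) (nat_lit 343) (nat_lit 420) (nat_lit 257)))) (XT.nd (nat_lit 78) (nat_lit 152) (nat_lit 0) (XT.lf (nat_lit 76) (nat_lit 3643980793) (nat_lit 0) (nat_lit 3720704194) (nat_lit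 76) (nat_lit 3720704194) (nat_lit 92) (nat_lit 3) (nat_lit 91) (nat_lit 1) (nat_lit 92) (nat_lit 1) (nat_lit 344) (nat_lit 420) (nat_lit 256)) (XT.nd (nat_lit 78) (nat_lit 0) (nat_lit 0) (XT.lf (nat_lit 152) (nat_lit 10862193343) (nat_lit 0) (nat_lit 23570937) (nat_lit 76) (nat_lit 23570937) (nat_lit 91) (nat_lit 1) (nat_lit 89) (nat_lit 1) (nat_lit 90) (nat_lit 1) (nat_lit 345) (nat_lit 420) (nat_lit 255)) (XT.lf (nat_lit 0) (nat_lit 3554733191) (nat_lit 0) (nat_lit 3621009750) (nat_lit 152) (nat_lit 3554733191) (nat_lit 89) (nat_lit 3) (nat_lit 89) (nat_lit 1) (nat_lit 91) (nat_lit 1) (nat_lit 346) (nat_lit 420) (nat_lit 254)))))) (XT.nd (nat_lit 468) (nat_lit 532) (nat_lit 0) (XT.nd (nat_lit 234) (nat_lit 228) (nat_lit 0) (XT.nd (nat_lit 78) (nat_lit 152) (nat_lit 0) (XT.lf (nat_lit 76) (nat_lit 3477037323) (nat_lit 0) (nat_lit 3540157855) (nat_lit 76) (nat_lit 3540157855) (nat_lit 89) (nat_lit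 3) (nat_lit 88) (nat_lit 1) (nat_lit 89) (nat_lit 1) (nat_lit 347) (nat_lit 420) (nat_lit 253)) (XT.nd (nat_lit 78) (nat_lit 0) (nat_lit 0) (XT.lf (nat_lit 152) (nat_lit 10350913773) (nat_lit 0) (nat_lit 19391868) (nat_lit 76) (nat_lit 19391868) (nat_lit 88) (nat_lit 1) (nat_lit 86) (nat_lit 1) (nat_lit 87) (nat_lit 1) (nat_lit 348) (nat_lit 420) (nat_lit 252)) (XT.lf (nat_lit 0) (nat_lit 3388278098) (nat_lit 0) (nat_lit 3442803987) (nat_lit 152) (nat_lit 3388278098) (nat_lit 86) (nat_lit 3) (nat_lit 86) (nat_lit 1) (nat_lit 88) (nat_lit 1) (nat_lit 349) (nat_lit 420) (nat_lit 251)))) (XT.nd (nat_lit 78) (nat_lit 152) (nat_lit 0) (XT.lf (nat_lit 76) (nat_lit 3316877026) (nat_lit 0) (nat_lit 3368806444) (nat_lit 76) (nat_lit 3368806444) (nat_lit 86) (nat_lit 3) (nat_lit 85) (nat_lit 1) (nat_lit 86) (nat_lit 1) (nat_lit 350) (nat_lit 420) (nat_lit 250)) (XT.nd (nat_lit 78) (nat_lit 0) (nat_lit 0)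 (XT.lf (nat_lit 152) (nat_lit 9862922785) (nat_lit 0) (nat_lit 15953738) (nat_lit 76) (nat_lit 15953738) (nat_lit 85) (nat_lit 1) (nat_lit 83) (nat_lit 1) (nat_lit 84) (nat_lit 1) (nat_lit 351) (nat_lit 420) (nat_lit 249)) (XT.lf (nat_lit 0) (nat_lit 3229249828) (nat_lit 0) (nat_lit 3274108412) (nat_lit 152) (nat_lit 3229249828) (nat_lit 83) (nat_lit 3) (nat_lit 83) (nat_lit 1) (nat_lit 85) (nat_lit 1) (nat_lit 352) (nat_lit 420) (nat_lit 248))))) (XT.nd (nat_lit 234) (nat_lit 304) (nat_lit 0) (XT.nd (nat_lit 78) (nat_lit 152) (nat_lit 0) (XT.lf (nat_lit 76) (nat_lit 3163383714) (nat_lit 0) (nat_lit 3206106175) (nat_lit 76) (nat_lit 3206106175) (nat_lit 83) (nat_lit 3) (nat_lit 82) (nat_lit 1) (nat_lit 83) (nat_lit 1) (nat_lit 353) (nat_lit 420) (nat_lit 247)) (XT.nd (nat_lit 78) (nat_lit 0) (nat_lit 0) (XT.lf (nat_lit 152) (nat_lit 9397298991) (nat_lit 0) (nat_lit 13125179) (nat_lit 76) (nat_lit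 13125179) (nat_lit 82) (nat_lit 1) (nat_lit 80) (nat_lit 1) (nat_lit 81) (nat_lit 1) (nat_lit 354) (nat_lit 420) (nat_lit 246)) (XT.lf (nat_lit 0) (nat_lit 3077383303) (nat_lit 0) (nat_lit 3114288571) (nat_lit 152) (nat_lit 3077383303) (nat_lit 80) (nat_lit 3) (nat_lit 80) (nat_lit 1) (nat_lit 82) (nat_lit 1) (nat_lit 355) (nat_lit 420) (nat_lit 245)))) (XT.nd (nat_lit 156) (nat_lit 76) (nat_lit 0) (XT.nd (nat_lit 78) (nat_lit 152) (nat_lit 0) (XT.lf (nat_lit 76) (nat_lit 3016410064) (nat_lit 0) (nat_lit 3051557939) (nat_lit 76) (nat_lit 3051557939) (nat_lit 80) (nat_lit 3) (nat_lit 79) (nat_lit 1) (nat_lit 80) (nat_lit 1) (nat_lit 356) (nat_lit 420) (nat_lit 244)) (XT.lf (nat_lit 152) (nat_lit 8953131620) (nat_lit 0) (nat_lit 10798118) (nat_lit 76) (nat_lit 10798118) (nat_lit 79) (nat_lit 1) (nat_lit 77) (nat_lit 1) (nat_lit 78) (nat_lit 1) (nat_lit 357) (nat_lit 420) (nat_lit 243))) (XT.nd (nat_lit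 78) (nat_lit 76) (nat_lit 0) (XT.lf (nat_lit 0) (nat_lit 2932410362) (nat_lit 0) (nat_lit 2962772417) (nat_lit 152) (nat_lit 2932410362) (nat_lit 77) (nat_lit 3) (nat_lit 77) (nat_lit 1) (nat_lit 79) (nat_lit 1) (nat_lit 358) (nat_lit 420) (nat_lit 242)) (XT.lf (nat_lit 76) (nat_lit 2875785600) (nat_lit 0) (nat_lit 2904701843) (nat_lit 76) (nat_lit 2904701843) (nat_lit 77) (nat_lit 3) (nat_lit 76) (nat_lit 1) (nat_lit 77) (nat_lit 1) (nat_lit 359) (nat_lit 420) (nat_lit 241))))))))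
noncomputable def ec355 : XT := (XT.nd (nat_lit 1950) (nat_lit 1900) (nat_lit 0) (XT.nd (nat_lit 936) (nat_lit 1064) (nat_lit 0) (XT.nd (nat_lit 468) (nat_lit 456) (nat_lit 0) (XT.nd (nat_lit 234) (nat_lit 228) (nat_lit 0) (XT.nd (nat_lit 78) (nat_lit 76) (nat_lit 0) (XT.lf (nat_lit 152) (nat_lit 8529525906) (nat_lit 0) (nat_lit 8883638) (nat_lit 76) (nat_lit 8883638) (nat_lit 76) (nat_lit 1) (nat_lit 74) (nat_lit 1) (nat_lit 75) (nat_lit 1) (nat_lit 360) (nat_lit 420) (nat_lit 240)) (XT.nd (nat_lit 78) (nat_lit 76) (nat_lit 0) (XT.lf (nat_lit 0) (nat_lit 2794062693) (nat_lit 0) (nat_lit 2819041631) (nat_lit 152) (nat_lit 2794062693) (nat_lit 74) (nat_lit 3) (nat_lit 74) (nat_lit 1) (nat_lit 76) (nat_lit 1) (nat_lit 361) (nat_lit 420) (nat_lit 239)) (XT.lf (nat_lit 76) (nat_lit 2741323145) (nat_lit 0) (nat_lit 2765112609) (nat_lit 76) (nat_lit 2765112609) (nat_lit 74) (nat_lit 3) (nat_lit 73) (nat_lit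 1) (nat_lit 74) (nat_lit 1) (nat_lit 362) (nat_lit 420) (nat_lit 238)))) (XT.nd (nat_lit 78) (nat_lit 76) (nat_lit 0) (XT.lf (nat_lit 152) (nat_lit 8125607181) (nat_lit 0) (nat_lit 7308591) (nat_lit 76) (nat_lit 7308591) (nat_lit 73) (nat_lit 1) (nat_lit 71) (nat_lit 1) (nat_lit 72) (nat_lit 1) (nat_lit 363) (nat_lit 420) (nat_lit 237)) (XT.nd (nat_lit 78) (nat_lit 76) (nat_lit 0) (XT.lf (nat_lit 0) (nat_lit 2662074131) (nat_lit 0) (nat_lit 2682624365) (nat_lit 152) (nat_lit 2662074131) (nat_lit 71) (nat_lit 3) (nat_lit 71) (nat_lit 1) (nat_lit 73) (nat_lit 1) (nat_lit 364) (nat_lit 420) (nat_lit 236)) (XT.lf (nat_lit 76) (nat_lit 2612824016) (nat_lit 0) (nat_lit 2632395667) (nat_lit 76) (nat_lit 2632395667) (nat_lit 71) (nat_lit 3) (nat_lit 70) (nat_lit 1) (nat_lit 71) (nat_lit 1) (nat_lit 365) (nat_lit 420) (nat_lit 235))))) (XT.nd (nat_lit 234) (nat_lit 228) (nat_lit 0) (XT.nd (nat_lit 78) (nat_lit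 76) (nat_lit 0) (XT.lf (nat_lit 152) (nat_lit 7740523908) (nat_lit 0) (nat_lit 6012796) (nat_lit 76) (nat_lit 6012796) (nat_lit 70) (nat_lit 1) (nat_lit 68) (nat_lit 1) (nat_lit 69) (nat_lit 1) (nat_lit 366) (nat_lit 420) (nat_lit 234)) (XT.nd (nat_lit 78) (nat_lit 76) (nat_lit 0) (XT.lf (nat_lit 0) (nat_lit 2536182442) (nat_lit 0) (nat_lit 2553089170) (nat_lit 152) (nat_lit 2536182442) (nat_lit 68) (nat_lit 3) (nat_lit 68) (nat_lit 1) (nat_lit 70) (nat_lit 1) (nat_lit 367) (nat_lit 420) (nat_lit 233)) (XT.lf (nat_lit 76) (nat_lit 2490082194) (nat_lit 0) (nat_lit 2506183840) (nat_lit 76) (nat_lit 2506183840) (nat_lit 68) (nat_lit 3) (nat_lit 67) (nat_lit 1) (nat_lit 68) (nat_lit 1) (nat_lit 368) (nat_lit 420) (nat_lit 232)))) (XT.nd (nat_lit 78) (nat_lit 76) (nat_lit 0) (XT.lf (nat_lit 152) (nat_lit 7373449862) (nat_lit 0) (nat_lit 4946742) (nat_lit 76) (nat_lit 4946742) (nat_lit 67) (nat_lit 1)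 (nat_lit 65) (nat_lit 1) (nat_lit 66) (nat_lit 1) (nat_lit 369) (nat_lit 420) (nat_lit 231)) (XT.nd (nat_lit 78) (nat_lit 76) (nat_lit 0) (XT.lf (nat_lit 0) (nat_lit 2416130682) (nat_lit 0) (nat_lit 2430039889) (nat_lit 152) (nat_lit 2416130682) (nat_lit 65) (nat_lit 3) (nat_lit 65) (nat_lit 1) (nat_lit 67) (nat_lit 1) (nat_lit 370) (nat_lit 420) (nat_lit 230)) (XT.lf (nat_lit 76) (nat_lit 2372887650) (nat_lit 0) (nat_lit 2386134514) (nat_lit 76) (nat_lit 2386134514) (nat_lit 65) (nat_lit 3) (nat_lit 64) (nat_lit 1) (nat_lit 65) (nat_lit 1) (nat_lit 371) (nat_lit 420) (nat_lit 229)))))) (XT.nd (nat_lit 468) (nat_lit 608) (nat_lit 0) (XT.nd (nat_lit 234) (nat_lit 228) (nat_lit 0) (XT.nd (nat_lit 78) (nat_lit 76) (nat_lit 0) (XT.lf (nat_lit 152) (nat_lit 7023585627) (nat_lit 0) (nat_lit 4069697) (nat_lit 76) (nat_lit 4069697) (nat_lit 64) (nat_lit 1) (nat_lit 62) (nat_lit 1) (nat_lit 63) (nat_lit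 1) (nat_lit 372) (nat_lit 420) (nat_lit 228)) (XT.nd (nat_lit 78) (nat_lit 76) (nat_lit 0) (XT.lf (nat_lit 0) (nat_lit 2301668225) (nat_lit 0) (nat_lit 2313111364) (nat_lit 152) (nat_lit 2301668225) (nat_lit 62) (nat_lit 3) (nat_lit 62) (nat_lit 1) (nat_lit 64) (nat_lit 1) (nat_lit 373) (nat_lit 420) (nat_lit 227)) (XT.lf (nat_lit 76) (nat_lit 2261028986) (nat_lit 0) (nat_lit 2271927214) (nat_lit 76) (nat_lit 2271927214) (nat_lit 62) (nat_lit 3) (nat_lit 61) (nat_lit 1) (nat_lit 62) (nat_lit 1) (nat_lit 374) (nat_lit 420) (nat_lit 226)))) (XT.nd (nat_lit 78) (nat_lit 76) (nat_lit 0) (XT.lf (nat_lit 152) (nat_lit 6690159541) (nat_lit 0) (nat_lit 3348149) (nat_lit 76) (nat_lit 3348149) (nat_lit 61) (nat_lit 1) (nat_lit 59) (nat_lit 1) (nat_lit 60) (nat_lit 1) (nat_lit 375) (nat_lit 420) (nat_lit 225)) (XT.nd (nat_lit 78) (nat_lit 76) (nat_lit 0) (XT.lf (nat_lit 0) (nat_lit 2192551510) (nat_lit 0)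 (nat_lit 2201965809) (nat_lit 152) (nat_lit 2192551510) (nat_lit 59) (nat_lit 3) (nat_lit 59) (nat_lit 1) (nat_lit 61) (nat_lit 1) (nat_lit 376) (nat_lit 420) (nat_lit 224)) (XT.lf (nat_lit 76) (nat_lit 2154295518) (nat_lit 0) (nat_lit 2163261517) (nat_lit 76) (nat_lit 2163261517) (nat_lit 59) (nat_lit 3) (nat_lit 58) (nat_lit 1) (nat_lit 59) (nat_lit 1) (nat_lit 377) (nat_lit 420) (nat_lit 223))))) (XT.nd (nat_lit 234) (nat_lit 380) (nat_lit 0) (XT.nd (nat_lit 78) (nat_lit 76) (nat_lit 0) (XT.lf (nat_lit 152) (nat_lit 6372428206) (nat_lit 0) (nat_lit 2754531) (nat_lit 76) (nat_lit 2754531) (nat_lit 58) (nat_lit 1) (nat_lit 56) (nat_lit 1) (nat_lit 57) (nat_lit 1) (nat_lit 378) (nat_lit 420) (nat_lit 222)) (XT.nd (nat_lit 78) (nat_lit 76) (nat_lit 0) (XT.lf (nat_lit 0) (nat_lit 2088544568) (nat_lit 0) (nat_lit 2096289735) (nat_lit 152) (nat_lit 2088544568) (nat_lit 56) (nat_lit 3) (nat_lit 56)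 (nat_lit 1) (nat_lit 58) (nat_lit 1) (nat_lit 379) (nat_lit 420) (nat_lit 221)) (XT.lf (nat_lit 76) (nat_lit 2052478898) (nat_lit 0) (nat_lit 2059855247) (nat_lit 76) (nat_lit 2059855247) (nat_lit 56) (nat_lit 3) (nat_lit 55) (nat_lit 1) (nat_lit 56) (nat_lit 1) (nat_lit 380) (nat_lit 420) (nat_lit 220)))) (XT.nd (nat_lit 156) (nat_lit 228) (nat_lit 0) (XT.nd (nat_lit 78) (nat_lit 0) (nat_lit 0) (XT.lf (nat_lit 152) (nat_lit 6069676641) (nat_lit 0) (nat_lit 2266159) (nat_lit 76) (nat_lit 2266159) (nat_lit 55) (nat_lit 1) (nat_lit 53) (nat_lit 1) (nat_lit 54) (nat_lit 1) (nat_lit 381) (nat_lit 420) (nat_lit 219)) (XT.lf (nat_lit 0) (nat_lit 1989419370) (nat_lit 0) (nat_lit 1995791338) (nat_lit 152) (nat_lit 1989419370) (nat_lit 53) (nat_lit 3) (nat_lit 53) (nat_lit 1) (nat_lit 55) (nat_lit 1) (nat_lit 382) (nat_lit 420) (nat_lit 218))) (XT.nd (nat_lit 78) (nat_lit 152) (nat_lit 0) (XT.lf (nat_lit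 76) (nat_lit 1955374367) (nat_lit 0) (nat_lit 1961442908) (nat_lit 76) (nat_lit 1961442908) (nat_lit 53) (nat_lit 3) (nat_lit 52) (nat_lit 1) (nat_lit 53) (nat_lit 1) (nat_lit 383) (nat_lit 420) (nat_lit 217)) (XT.lf (nat_lit 152) (nat_lit 5781218170) (nat_lit 0) (nat_lit 1864375) (nat_lit 76) (nat_lit 1864375) (nat_lit 52) (nat_lit 1) (nat_lit 50) (nat_lit 1) (nat_lit 51) (nat_lit 1) (nat_lit 384) (nat_lit 420) (nat_lit 216))))))) (XT.nd (nat_lit 1014) (nat_lit 988) (nat_lit 0) (XT.nd (nat_lit 468) (nat_lit 456) (nat_lit 0) (XT.nd (nat_lit 234) (nat_lit 228) (nat_lit 0) (XT.nd (nat_lit 78) (nat_lit 228) (nat_lit 0) (XT.lf (nat_lit 0) (nat_lit 1894956035) (nat_lit 0) (nat_lit 1900198269) (nat_lit 152) (nat_lit 1894956035) (nat_lit 50) (nat_lit 3) (nat_lit 50) (nat_lit 1) (nat_lit 52) (nat_lit 1) (nat_lit 385) (nat_lit 420) (nat_lit 215)) (XT.nd (nat_lit 78) (nat_lit 152) (nat_lit 0) (XT.lf (nat_lit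 76) (nat_lit 1862781710) (nat_lit 0) (nat_lit 1867774314) (nat_lit 76) (nat_lit 1867774314) (nat_lit 50) (nat_lit 3) (nat_lit 49) (nat_lit 1) (nat_lit 50) (nat_lit 1) (nat_lit 386) (nat_lit 420) (nat_lit 214)) (XT.lf (nat_lit 152) (nat_lit 5506394093) (nat_lit 0) (nat_lit 1533826) (nat_lit 76) (nat_lit 1533826) (nat_lit 49) (nat_lit 1) (nat_lit 47) (nat_lit 1) (nat_lit 48) (nat_lit 1) (nat_lit 387) (nat_lit 420) (nat_lit 213)))) (XT.nd (nat_lit 78) (nat_lit 228) (nat_lit 0) (XT.lf (nat_lit 0) (nat_lit 1804942920) (nat_lit 0) (nat_lit 1809255719) (nat_lit 152) (nat_lit 1804942920) (nat_lit 47) (nat_lit 3) (nat_lit 47) (nat_lit 1) (nat_lit 49) (nat_lit 1) (nat_lit 388) (nat_lit 420) (nat_lit 212)) (XT.nd (nat_lit 78) (nat_lit 152) (nat_lit 0) (XT.lf (nat_lit 76) (nat_lit 1774505961) (nat_lit 0) (nat_lit 1778613388) (nat_lit 76) (nat_lit 1778613388) (nat_lit 47) (nat_lit 3) (nat_lit 46) (nat_lit 1)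 (nat_lit 47) (nat_lit 1) (nat_lit 389) (nat_lit 420) (nat_lit 211)) (XT.lf (nat_lit 152) (nat_lit 5244573187) (nat_lit 0) (nat_lit 1261882) (nat_lit 76) (nat_lit 1261882) (nat_lit 46) (nat_lit 1) (nat_lit 44) (nat_lit 1) (nat_lit 45) (nat_lit 1) (nat_lit 390) (nat_lit 420) (nat_lit 210))))) (XT.nd (nat_lit 234) (nat_lit 228) (nat_lit 0) (XT.nd (nat_lit 78) (nat_lit 228) (nat_lit 0) (XT.lf (nat_lit 0) (nat_lit 1719176627) (nat_lit 0) (nat_lit 1722724777) (nat_lit 152) (nat_lit 1719176627) (nat_lit 44) (nat_lit 3) (nat_lit 44) (nat_lit 1) (nat_lit 46) (nat_lit 1) (nat_lit 391) (nat_lit 420) (nat_lit 209)) (XT.nd (nat_lit 78) (nat_lit 152) (nat_lit 0) (XT.lf (nat_lit 76) (nat_lit 1690357910) (nat_lit 0) (nat_lit 1693737101) (nat_lit 76) (nat_lit 1693737101) (nat_lit 44) (nat_lit 3) (nat_lit 43) (nat_lit 1) (nat_lit 44) (nat_lit 1) (nat_lit 392) (nat_lit 420) (nat_lit 208)) (XT.lf (nat_lit 152) (nat_lit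 4995151092) (nat_lit 0) (nat_lit 1038153) (nat_lit 76) (nat_lit 1038153) (nat_lit 43) (nat_lit 1) (nat_lit 41) (nat_lit 1) (nat_lit 42) (nat_lit 1) (nat_lit 393) (nat_lit 420) (nat_lit 207)))) (XT.nd (nat_lit 156) (nat_lit 152) (nat_lit 0) (XT.nd (nat_lit 78) (nat_lit 76) (nat_lit 0) (XT.lf (nat_lit 0) (nat_lit 1637461932) (nat_lit 0) (nat_lit 1640381004) (nat_lit 152) (nat_lit 1637461932) (nat_lit 41) (nat_lit 3) (nat_lit 41) (nat_lit 1) (nat_lit 43) (nat_lit 1) (nat_lit 394) (nat_lit 420) (nat_lit 206)) (XT.lf (nat_lit 76) (nat_lit 1610154459) (nat_lit 0) (nat_lit 1612934527) (nat_lit 76) (nat_lit 1612934527) (nat_lit 41) (nat_lit 3) (nat_lit 40) (nat_lit 1) (nat_lit 41) (nat_lit 1) (nat_lit 395) (nat_lit 420) (nat_lit 205))) (XT.nd (nat_lit 78) (nat_lit 0) (nat_lit 0) (XT.lf (nat_lit 152) (nat_lit 4757549596) (nat_lit 0) (nat_lit 854091) (nat_lit 76) (nat_lit 854091) (nat_lit 40) (nat_lit 1)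 (nat_lit 38) (nat_lit 1) (nat_lit 39) (nat_lit 1) (nat_lit 396) (nat_lit 420) (nat_lit 204)) (XT.lf (nat_lit 0) (nat_lit 1559611666) (nat_lit 0) (nat_lit 1562013193) (nat_lit 152) (nat_lit 1559611666) (nat_lit 38) (nat_lit 3) (nat_lit 38) (nat_lit 1) (nat_lit 40) (nat_lit 1) (nat_lit 397) (nat_lit 420) (nat_lit 203)))))) (XT.nd (nat_lit 468) (nat_lit 532) (nat_lit 0) (XT.nd (nat_lit 234) (nat_lit 228) (nat_lit 0) (XT.nd (nat_lit 78) (nat_lit 152) (nat_lit 0) (XT.lf (nat_lit 76) (nat_lit 1533718842) (nat_lit 0) (nat_lit 1536006011) (nat_lit 76) (nat_lit 1536006011) (nat_lit 38) (nat_lit 3) (nat_lit 37) (nat_lit 1) (nat_lit 38) (nat_lit 1) (nat_lit 398) (nat_lit 420) (nat_lit 202)) (XT.nd (nat_lit 78) (nat_lit 0) (nat_lit 0) (XT.lf (nat_lit 152) (nat_lit 4531215856) (nat_lit 0) (nat_lit 702663) (nat_lit 76) (nat_lit 702663) (nat_lit 37) (nat_lit 1) (nat_lit 35) (nat_lit 1) (nat_lit 36) (nat_lit 1)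 (nat_lit 399) (nat_lit 420) (nat_lit 201)) (XT.lf (nat_lit 0) (nat_lit 1485446550) (nat_lit 0) (nat_lit 1487422293) (nat_lit 152) (nat_lit 1485446550) (nat_lit 35) (nat_lit 3) (nat_lit 35) (nat_lit 1) (nat_lit 37) (nat_lit 1) (nat_lit 400) (nat_lit 420) (nat_lit 200)))) (XT.nd (nat_lit 78) (nat_lit 152) (nat_lit 0) (XT.lf (nat_lit 76) (nat_lit 1460880748) (nat_lit 0) (nat_lit 1462762408) (nat_lit 76) (nat_lit 1462762408) (nat_lit 35) (nat_lit 3) (nat_lit 34) (nat_lit 1) (nat_lit 35) (nat_lit 1) (nat_lit 401) (nat_lit 420) (nat_lit 199)) (XT.nd (nat_lit 78) (nat_lit 0) (nat_lit 0) (XT.lf (nat_lit 152) (nat_lit 4315621574) (nat_lit 0) (nat_lit 578082) (nat_lit 76) (nat_lit 578082) (nat_lit 34) (nat_lit 1) (nat_lit 32) (nat_lit 1) (nat_lit 33) (nat_lit 1) (nat_lit 402) (nat_lit 420) (nat_lit 198)) (XT.lf (nat_lit 0) (nat_lit 1414795004) (nat_lit 0) (nat_lit 1416420453) (nat_lit 152) (nat_lit 1414795004)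 (nat_lit 32) (nat_lit 3) (nat_lit 32) (nat_lit 1) (nat_lit 34) (nat_lit 1) (nat_lit 403) (nat_lit 420) (nat_lit 197))))) (XT.nd (nat_lit 234) (nat_lit 304) (nat_lit 0) (XT.nd (nat_lit 78) (nat_lit 152) (nat_lit 0) (XT.lf (nat_lit 76) (nat_lit 1391476360) (nat_lit 0) (nat_lit 1393024406) (nat_lit 76) (nat_lit 1393024406) (nat_lit 32) (nat_lit 3) (nat_lit 31) (nat_lit 1) (nat_lit 32) (nat_lit 1) (nat_lit 404) (nat_lit 420) (nat_lit 196)) (XT.nd (nat_lit 78) (nat_lit 0) (nat_lit 0) (XT.lf (nat_lit 152) (nat_lit 4110262145) (nat_lit 0) (nat_lit 475590) (nat_lit 76) (nat_lit 475590) (nat_lit 31) (nat_lit 1) (nat_lit 29) (nat_lit 1) (nat_lit 30) (nat_lit 1) (nat_lit 405) (nat_lit 420) (nat_lit 195)) (XT.lf (nat_lit 0) (nat_lit 1347492923) (nat_lit 0) (nat_lit 1348830184) (nat_lit 152) (nat_lit 1347492923) (nat_lit 29) (nat_lit 3) (nat_lit 29) (nat_lit 1) (nat_lit 31) (nat_lit 1) (nat_lit 406) (nat_lit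 420) (nat_lit 194)))) (XT.nd (nat_lit 156) (nat_lit 76) (nat_lit 0) (XT.nd (nat_lit 78) (nat_lit 152) (nat_lit 0) (XT.lf (nat_lit 76) (nat_lit 1325348334) (nat_lit 0) (nat_lit 1326621915) (nat_lit 76) (nat_lit 1326621915) (nat_lit 29) (nat_lit 3) (nat_lit 28) (nat_lit 1) (nat_lit 29) (nat_lit 1) (nat_lit 407) (nat_lit 420) (nat_lit 193)) (XT.lf (nat_lit 152) (nat_lit 3914655787) (nat_lit 0) (nat_lit 391269) (nat_lit 76) (nat_lit 391269) (nat_lit 28) (nat_lit 1) (nat_lit 26) (nat_lit 1) (nat_lit 27) (nat_lit 1) (nat_lit 408) (nat_lit 420) (nat_lit 192))) (XT.nd (nat_lit 78) (nat_lit 76) (nat_lit 0) (XT.lf (nat_lit 0) (nat_lit 1283383451) (nat_lit 0) (nat_lit 1284483618) (nat_lit 152) (nat_lit 1283383451) (nat_lit 26) (nat_lit 3) (nat_lit 26) (nat_lit 1) (nat_lit 28) (nat_lit 1) (nat_lit 409) (nat_lit 420) (nat_lit 191)) (XT.lf (nat_lit 76) (nat_lit 1262345725) (nat_lit 0) (nat_lit 1263393503) (nat_lit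 76) (nat_lit 1263393503) (nat_lit 26) (nat_lit 3) (nat_lit 25) (nat_lit 1) (nat_lit 26) (nat_lit 1) (nat_lit 410) (nat_lit 420) (nat_lit 190))))))))
noncomputable def ec356 : XT := (XT.nd (nat_lit 1950) (nat_lit 0) (nat_lit 0) (XT.nd (nat_lit 936) (nat_lit 988) (nat_lit 0) (XT.nd (nat_lit 468) (nat_lit 456) (nat_lit 0) (XT.nd (nat_lit 234) (nat_lit 228) (nat_lit 0) (XT.nd (nat_lit 78) (nat_lit 76) (nat_lit 0) (XT.lf (nat_lit 152) (nat_lit 3728342669) (nat_lit 0) (nat_lit 321898) (nat_lit 76) (nat_lit 321898) (nat_lit 25) (nat_lit 1) (nat_lit 23) (nat_lit 1) (nat_lit 24) (nat_lit 1) (nat_lit 411) (nat_lit 420) (nat_lit 189)) (XT.nd (nat_lit 78) (nat_lit 76) (nat_lit 0) (XT.lf (nat_lit 0) (nat_lit 1222316729) (nat_lit 0) (nat_lit 1223221840) (nat_lit 152) (nat_lit 1222316729) (nat_lit 23) (nat_lit 3) (nat_lit 23) (nat_lit 1) (nat_lit 25) (nat_lit 1) (nat_lit 412) (nat_lit 420) (nat_lit 188)) (XT.lf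 (nat_lit 76) (nat_lit 1202323876) (nat_lit 0) (nat_lit 1203185886) (nat_lit 76) (nat_lit 1203185886) (nat_lit 23) (nat_lit 3) (nat_lit 22) (nat_lit 1) (nat_lit 23) (nat_lit 1) (nat_lit 413) (nat_lit 420) (nat_lit 187)))) (XT.nd (nat_lit 78) (nat_lit 76) (nat_lit 0) (XT.lf (nat_lit 152) (nat_lit 3550884040) (nat_lit 0) (nat_lit 264826) (nat_lit 76) (nat_lit 264826) (nat_lit 22) (nat_lit 1) (nat_lit 20) (nat_lit 1) (nat_lit 21) (nat_lit 1) (nat_lit 414) (nat_lit 420) (nat_lit 186)) (XT.nd (nat_lit 78) (nat_lit 76) (nat_lit 0) (XT.lf (nat_lit 0) (nat_lit 1164149654) (nat_lit 0) (nat_lit 1164894291) (nat_lit 152) (nat_lit 1164149654) (nat_lit 20) (nat_lit 3) (nat_lit 20) (nat_lit 1) (nat_lit 22) (nat_lit 1) (nat_lit 415) (nat_lit 420) (nat_lit 185)) (XT.lf (nat_lit 76) (nat_lit 1145144280) (nat_lit 0) (nat_lit 1145853457) (nat_lit 76) (nat_lit 1145853457) (nat_lit 20) (nat_lit 3) (nat_lit 19) (nat_lit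 1) (nat_lit 20) (nat_lit 1) (nat_lit 416) (nat_lit 420) (nat_lit 184))))) (XT.nd (nat_lit 234) (nat_lit 228) (nat_lit 0) (XT.nd (nat_lit 78) (nat_lit 76) (nat_lit 0) (XT.lf (nat_lit 152) (nat_lit 3381861373) (nat_lit 0) (nat_lit 217873) (nat_lit 76) (nat_lit 217873) (nat_lit 19) (nat_lit 1) (nat_lit 17) (nat_lit 1) (nat_lit 18) (nat_lit 1) (nat_lit 417) (nat_lit 420) (nat_lit 183)) (XT.nd (nat_lit 78) (nat_lit 76) (nat_lit 0) (XT.lf (nat_lit 0) (nat_lit 1108745616) (nat_lit 0) (nat_lit 1109358231) (nat_lit 152) (nat_lit 1108745616) (nat_lit 17) (nat_lit 3) (nat_lit 17) (nat_lit 1) (nat_lit 19) (nat_lit 1) (nat_lit 418) (nat_lit 420) (nat_lit 182)) (XT.lf (nat_lit 76) (nat_lit 1090674415) (nat_lit 0) (nat_lit 1091257858) (nat_lit 76) (nat_lit 1091257858) (nat_lit 17) (nat_lit 3) (nat_lit 16) (nat_lit 1) (nat_lit 17) (nat_lit 1) (nat_lit 419) (nat_lit 420) (nat_lit 181)))) (XT.nd (nat_lit 78) (nat_lit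 76) (nat_lit 0) (XT.lf (nat_lit 152) (nat_lit 3220875517) (nat_lit 0) (nat_lit 179244) (nat_lit 76) (nat_lit 179244) (nat_lit 16) (nat_lit 1) (nat_lit 14) (nat_lit 1) (nat_lit 15) (nat_lit 1) (nat_lit 420) (nat_lit 420) (nat_lit 180)) (XT.nd (nat_lit 78) (nat_lit 76) (nat_lit 0) (XT.lf (nat_lit 0) (nat_lit 1055974253) (nat_lit 0) (nat_lit 1056478252) (nat_lit 152) (nat_lit 1055974253) (nat_lit 14) (nat_lit 3) (nat_lit 14) (nat_lit 1) (nat_lit 16) (nat_lit 1) (nat_lit 421) (nat_lit 420) (nat_lit 179)) (XT.lf (nat_lit 76) (nat_lit 1038787571) (nat_lit 0) (nat_lit 1039267571) (nat_lit 76) (nat_lit 1039267571) (nat_lit 14) (nat_lit 3) (nat_lit 13) (nat_lit 1) (nat_lit 14) (nat_lit 1) (nat_lit 422) (nat_lit 420) (nat_lit 178)))))) (XT.nd (nat_lit 468) (nat_lit 532) (nat_lit 0) (XT.nd (nat_lit 234) (nat_lit 228) (nat_lit 0) (XT.nd (nat_lit 78) (nat_lit 76) (nat_lit 0) (XT.lf (nat_lit 152) (nat_lit 3067545874)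 (nat_lit 0) (nat_lit 147465) (nat_lit 76) (nat_lit 147465) (nat_lit 13) (nat_lit 1) (nat_lit 11) (nat_lit 1) (nat_lit 12) (nat_lit 1) (nat_lit 423) (nat_lit 420) (nat_lit 177)) (XT.nd (nat_lit 78) (nat_lit 76) (nat_lit 0) (XT.lf (nat_lit 0) (nat_lit 1005711193) (nat_lit 0) (nat_lit 1006125835) (nat_lit 152) (nat_lit 1005711193) (nat_lit 11) (nat_lit 3) (nat_lit 11) (nat_lit 1) (nat_lit 13) (nat_lit 1) (nat_lit 424) (nat_lit 420) (nat_lit 176)) (XT.lf (nat_lit 76) (nat_lit 989362659) (nat_lit 0) (nat_lit 989757556) (nat_lit 76) (nat_lit 989757556) (nat_lit 11) (nat_lit 3) (nat_lit 10) (nat_lit 1) (nat_lit 11) (nat_lit 1) (nat_lit 425) (nat_lit 420) (nat_lit 175)))) (XT.nd (nat_lit 78) (nat_lit 76) (nat_lit 0) (XT.lf (nat_lit 152) (nat_lit 2921509596) (nat_lit 0) (nat_lit 121320) (nat_lit 76) (nat_lit 121320) (nat_lit 10) (nat_lit 1) (nat_lit 8) (nat_lit 1) (nat_lit 9) (nat_lit 1) (nat_lit 426) (nat_lit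 420) (nat_lit 174)) (XT.nd (nat_lit 78) (nat_lit 76) (nat_lit 0) (XT.lf (nat_lit 0) (nat_lit 957837814) (nat_lit 0) (nat_lit 958178940) (nat_lit 152) (nat_lit 957837814) (nat_lit 8) (nat_lit 3) (nat_lit 8) (nat_lit 1) (nat_lit 10) (nat_lit 1) (nat_lit 427) (nat_lit 420) (nat_lit 173)) (XT.lf (nat_lit 76) (nat_lit 942284016) (nat_lit 0) (nat_lit 942608898) (nat_lit 76) (nat_lit 942608898) (nat_lit 8) (nat_lit 3) (nat_lit 7) (nat_lit 1) (nat_lit 8) (nat_lit 1) (nat_lit 428) (nat_lit 420) (nat_lit 172))))) (XT.nd (nat_lit 234) (nat_lit 304) (nat_lit 0) (XT.nd (nat_lit 78) (nat_lit 76) (nat_lit 0) (XT.lf (nat_lit 152) (nat_lit 2782420808) (nat_lit 0) (nat_lit 99810) (nat_lit 76) (nat_lit 99810) (nat_lit 7) (nat_lit 1) (nat_lit 5) (nat_lit 1) (nat_lit 6) (nat_lit 1) (nat_lit 429) (nat_lit 420) (nat_lit 171)) (XT.nd (nat_lit 78) (nat_lit 76) (nat_lit 0) (XT.lf (nat_lit 0) (nat_lit 912240993) (nat_lit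 0) (nat_lit 912521639) (nat_lit 152) (nat_lit 912240993) (nat_lit 5) (nat_lit 3) (nat_lit 5) (nat_lit 1) (nat_lit 7) (nat_lit 1) (nat_lit 430) (nat_lit 420) (nat_lit 170)) (XT.lf (nat_lit 76) (nat_lit 897441209) (nat_lit 0) (nat_lit 897708490) (nat_lit 76) (nat_lit 897708490) (nat_lit 5) (nat_lit 3) (nat_lit 4) (nat_lit 1) (nat_lit 5) (nat_lit 1) (nat_lit 431) (nat_lit 420) (nat_lit 169)))) (XT.nd (nat_lit 156) (nat_lit 152) (nat_lit 0) (XT.nd (nat_lit 78) (nat_lit 0) (nat_lit 0) (XT.lf (nat_lit 152) (nat_lit 2649949849) (nat_lit 0) (nat_lit 82114) (nat_lit 76) (nat_lit 82114) (nat_lit 4) (nat_lit 1) (nat_lit 2) (nat_lit 1) (nat_lit 3) (nat_lit 1) (nat_lit 432) (nat_lit 420) (nat_lit 168)) (XT.lf (nat_lit 0) (nat_lit 868812878) (nat_lit 0) (nat_lit 869043766) (nat_lit 152) (nat_lit 868812878) (nat_lit 2) (nat_lit 3) (nat_lit 2) (nat_lit 1) (nat_lit 4) (nat_lit 1) (nat_lit 433) (nat_lit 420) (nat_lit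 167))) (XT.nd (nat_lit 78) (nat_lit 76) (nat_lit 0) (XT.lf (nat_lit 76) (nat_lit 854728834) (nat_lit 0) (nat_lit 854948727) (nat_lit 76) (nat_lit 854948727) (nat_lit 2) (nat_lit 3) (nat_lit 1) (nat_lit 1) (nat_lit 2) (nat_lit 1) (nat_lit 434) (nat_lit 420) (nat_lit 166)) (XT.lf (nat_lit 0) (nat_lit 53216402398) (nat_lit 0) (nat_lit 0) (nat_lit 0) (nat_lit 0) (nat_lit 0) (nat_lit 0) (nat_lit 1) (nat_lit 0) (nat_lit 1) (nat_lit 0) (nat_lit 435) (nat_lit 420) (nat_lit 165))))))) (XT.nd (nat_lit 33540) (nat_lit 0) (nat_lit 20216) (XT.nd (nat_lit 33072) (nat_lit 0) (nat_lit 22192) (XT.nd (nat_lit 234) (nat_lit 0) (nat_lit 0) (XT.nd (nat_lit 78) (nat_lit 0) (nat_lit 0) (XT.lf (nat_lit 0) (nat_lit 53216392385) (nat_lit 0) (nat_lit 0) (nat_lit 0) (nat_lit 0) (nat_lit 0) (nat_lit 0) (nat_lit 1) (nat_lit 0) (nat_lit 1) (nat_lit 0) (nat_lit 436) (nat_lit 420) (nat_lit 164)) (XT.nd (nat_lit 78) (nat_lit 0)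 (nat_lit 0) (XT.lf (nat_lit 0) (nat_lit 53216382849) (nat_lit 0) (nat_lit 0) (nat_lit 0) (nat_lit 0) (nat_lit 0) (nat_lit 0) (nat_lit 1) (nat_lit 0) (nat_lit 1) (nat_lit 0) (nat_lit 437) (nat_lit 420) (nat_lit 163)) (XT.lf (nat_lit 0) (nat_lit 53216373767) (nat_lit 0) (nat_lit 0) (nat_lit 0) (nat_lit 0) (nat_lit 0) (nat_lit 0) (nat_lit 1) (nat_lit 0) (nat_lit 1) (nat_lit 0) (nat_lit 438) (nat_lit 420) (nat_lit 162)))) (XT.nd (nat_lit 78) (nat_lit 0) (nat_lit 0) (XT.lf (nat_lit 0) (nat_lit 53216365118) (nat_lit 0) (nat_lit 0) (nat_lit 0) (nat_lit 0) (nat_lit 0) (nat_lit 0) (nat_lit 1) (nat_lit 0) (nat_lit 1) (nat_lit 0) (nat_lit 439) (nat_lit 420) (nat_lit 161)) (XT.nd (nat_lit 32682) (nat_lit 0) (nat_lit 22192) (XT.lf (nat_lit 0) (nat_lit 53216356880) (nat_lit 0) (nat_lit 0) (nat_lit 0) (nat_lit 0) (nat_lit 0) (nat_lit 0) (nat_lit 1) (nat_lit 0) (nat_lit 1) (nat_lit 0) (nat_lit 440) (nat_lit 420)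 (nat_lit 160)) (XT.lf (nat_lit 836) (nat_lit 27962944687) (nat_lit 0) (nat_lit 49648144017) (nat_lit 836) (nat_lit 27962944687) (nat_lit 303) (nat_lit 1) (nat_lit 292) (nat_lit 0) (nat_lit 303) (nat_lit 0) (nat_lit 178) (nat_lit 421) (nat_lit 421))))) (XT.nd (nat_lit 234) (nat_lit 0) (nat_lit 152) (XT.nd (nat_lit 78) (nat_lit 0) (nat_lit 76) (XT.lf (nat_lit 836) (nat_lit 108387864645) (nat_lit 76) (nat_lit 48847367501) (nat_lit 0) (nat_lit 48847367501) (nat_lit 303) (nat_lit 1) (nat_lit 293) (nat_lit 1) (nat_lit 292) (nat_lit 0) (nat_lit 179) (nat_lit 421) (nat_lit 420)) (XT.nd (nat_lit 78) (nat_lit 0) (nat_lit 0) (XT.lf (nat_lit 836) (nat_lit 51656024295) (nat_lit 0) (nat_lit 97861684723) (nat_lit 760) (nat_lit 51656024295) (nat_lit 304) (nat_lit 1) (nat_lit 293) (nat_lit 1) (nat_lit 303) (nat_lit 1) (nat_lit 180) (nat_lit 421) (nat_lit 419)) (XT.lf (nat_lit 836) (nat_lit 96899523791) (nat_lit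 76) (nat_lit 49761968071) (nat_lit 0) (nat_lit 49761968071) (nat_lit 304) (nat_lit 1) (nat_lit 294) (nat_lit 1) (nat_lit 293) (nat_lit 1) (nat_lit 181) (nat_lit 421) (nat_lit 418)))) (XT.nd (nat_lit 78) (nat_lit 0) (nat_lit 0) (XT.lf (nat_lit 836) (nat_lit 44601920266) (nat_lit 0) (nat_lit 102619905861) (nat_lit 760) (nat_lit 44601920266) (nat_lit 305) (nat_lit 1) (nat_lit 294) (nat_lit 1) (nat_lit 304) (nat_lit 1) (nat_lit 182) (nat_lit 421) (nat_lit 417)) (XT.nd (nat_lit 78) (nat_lit 0) (nat_lit 76) (XT.lf (nat_lit 836) (nat_lit 80219458611) (nat_lit 76) (nat_lit 53572395544) (nat_lit 0) (nat_lit 53572395544) (nat_lit 305) (nat_lit 1) (nat_lit 295) (nat_lit 1) (nat_lit 294) (nat_lit 1) (nat_lit 183) (nat_lit 421) (nat_lit 416)) (XT.lf (nat_lit 836) (nat_lit 35173915653) (nat_lit 0) (nat_lit 112706656155) (nat_lit 760) (nat_lit 35173915653) (nat_lit 306) (nat_lit 1) (nat_lit 295) (nat_lit 1) (nat_lit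 305) (nat_lit 1) (nat_lit 184) (nat_lit 421) (nat_lit 415)))))) (XT.nd (nat_lit 468) (nat_lit 1064) (nat_lit 0) (XT.nd (nat_lit 234) (nat_lit 1140) (nat_lit 0) (XT.nd (nat_lit 78) (nat_lit 0) (nat_lit 76) (XT.lf (nat_lit 836) (nat_lit 59128432201) (nat_lit 76) (nat_lit 59867477772) (nat_lit 0) (nat_lit 59867477772) (nat_lit 306) (nat_lit 1) (nat_lit 296) (nat_lit 1) (nat_lit 295) (nat_lit 1) (nat_lit 185) (nat_lit 421) (nat_lit 414)) (XT.nd (nat_lit 78) (nat_lit 0) (nat_lit 0) (XT.lf (nat_lit 836) (nat_lit 23736985817) (nat_lit 0) (nat_lit 127351734546) (nat_lit 760) (nat_lit 23736985817) (nat_lit 307) (nat_lit 1) (nat_lit 296) (nat_lit 1) (nat_lit 306) (nat_lit 1) (nat_lit 186) (nat_lit 421) (nat_lit 413)) (XT.lf (nat_lit 836) (nat_lit 34320425146) (nat_lit 76) (nat_lit 68281028813) (nat_lit 0) (nat_lit 68281028813) (nat_lit 307) (nat_lit 1) (nat_lit 297) (nat_lit 1) (nat_lit 296) (nat_lit 1)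 (nat_lit 187) (nat_lit 421) (nat_lit 412)))) (XT.nd (nat_lit 78) (nat_lit 1292) (nat_lit 0) (XT.lf (nat_lit 76) (nat_lit 10615304046) (nat_lit 0) (nat_lit 145869631915) (nat_lit 760) (nat_lit 10615304046) (nat_lit 298) (nat_lit 1) (nat_lit 297) (nat_lit 1) (nat_lit 307) (nat_lit 1) (nat_lit 188) (nat_lit 421) (nat_lit 411)) (XT.nd (nat_lit 78) (nat_lit 532) (nat_lit 0) (XT.lf (nat_lit 836) (nat_lit 6411379664) (nat_lit 0) (nat_lit 78487344665) (nat_lit 760) (nat_lit 78487344665) (nat_lit 298) (nat_lit 1) (nat_lit 287) (nat_lit 1) (nat_lit 297) (nat_lit 1) (nat_lit 189) (nat_lit 421) (nat_lit 410)) (XT.lf (nat_lit 532) (nat_lit 152150113723) (nat_lit 0) (nat_lit 3840676000) (nat_lit 456) (nat_lit 3840676000) (nat_lit 287) (nat_lit 1) (nat_lit 280) (nat_lit 1) (nat_lit 286) (nat_lit 1) (nat_lit 190) (nat_lit 421) (nat_lit 409))))) (XT.nd (nat_lit 234) (nat_lit 684) (nat_lit 0) (XT.nd (nat_lit 78)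 (nat_lit 380) (nat_lit 0) (XT.lf (nat_lit 76) (nat_lit 66519764911) (nat_lit 0) (nat_lit 23283058322) (nat_lit 532) (nat_lit 66519764911) (nat_lit 281) (nat_lit 1) (nat_lit 280) (nat_lit 1) (nat_lit 287) (nat_lit 1) (nat_lit 191) (nat_lit 421) (nat_lit 408)) (XT.nd (nat_lit 78) (nat_lit 0) (nat_lit 0) (XT.lf (nat_lit 456) (nat_lit 114463440530) (nat_lit 0) (nat_lit 19249738456) (nat_lit 380) (nat_lit 19249738456) (nat_lit 281) (nat_lit 1) (nat_lit 275) (nat_lit 1) (nat_lit 280) (nat_lit 1) (nat_lit 192) (nat_lit 421) (nat_lit 407)) (XT.lf (nat_lit 76) (nat_lit 47447738536) (nat_lit 0) (nat_lit 54778399231) (nat_lit 456) (nat_lit 47447738536) (nat_lit 276) (nat_lit 1) (nat_lit 275) (nat_lit 1) (nat_lit 281) (nat_lit 1) (nat_lit 193) (nat_lit 421) (nat_lit 406)))) (XT.nd (nat_lit 156) (nat_lit 304) (nat_lit 0) (XT.nd (nat_lit 78) (nat_lit 0) (nat_lit 0) (XT.lf (nat_lit 456) (nat_lit 75375798830)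 (nat_lit 0) (nat_lit 35561792418) (nat_lit 380) (nat_lit 35561792418) (nat_lit 276) (nat_lit 1) (nat_lit 270) (nat_lit 1) (nat_lit 275) (nat_lit 1) (nat_lit 194) (nat_lit 421) (nat_lit 405)) (XT.lf (nat_lit 76) (nat_lit 27774980121) (nat_lit 0) (nat_lit 87867255733) (nat_lit 456) (nat_lit 27774980121) (nat_lit 271) (nat_lit 1) (nat_lit 270) (nat_lit 1) (nat_lit 276) (nat_lit 1) (nat_lit 195) (nat_lit 421) (nat_lit 404))) (XT.nd (nat_lit 78) (nat_lit 0) (nat_lit 0) (XT.lf (nat_lit 380) (nat_lit 35250995403) (nat_lit 0) (nat_lit 52581668198) (nat_lit 304) (nat_lit 52581668198) (nat_lit 271) (nat_lit 1) (nat_lit 266) (nat_lit 1) (nat_lit 270) (nat_lit 1) (nat_lit 196) (nat_lit 421) (nat_lit 403)) (XT.lf (nat_lit 76) (nat_lit 7670381384) (nat_lit 0) (nat_lit 122186161001) (nat_lit 380) (nat_lit 7670381384) (nat_lit 267) (nat_lit 1) (nat_lit 266) (nat_lit 1) (nat_lit 271) (nat_lit 1) (nat_lit 197) (nat_lit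 421) (nat_lit 402))))))))
noncomputable def ec357 : XT := (XT.nd (nat_lit 1950) (nat_lit 2204) (nat_lit 0) (XT.nd (nat_lit 936) (nat_lit 1596) (nat_lit 0) (XT.nd (nat_lit 468) (nat_lit 1140) (nat_lit 0) (XT.nd (nat_lit 234) (nat_lit 532) (nat_lit 0) (XT.nd (nat_lit 78) (nat_lit 304) (nat_lit 0) (XT.lf (nat_lit 76) (nat_lit 64632837628) (nat_lit 0) (nat_lit 5413125701) (nat_lit 380) (nat_lit 64632837628) (nat_lit 262) (nat_lit 1) (nat_lit 261) (nat_lit 1) (nat_lit 266) (nat_lit 1) (nat_lit 198) (nat_lit 421) (nat_lit 401)) (XT.nd (nat_lit 78) (nat_lit 0) (nat_lit 0) (XT.lf (nat_lit 380) (nat_lit 106912906142) (nat_lit 0) (nat_lit 12513117751) (nat_lit 304) (nat_lit 12513117751) (nat_lit 262) (nat_lit 1) (nat_lit 257) (nat_lit 1) (nat_lit 261) (nat_lit 1) (nat_lit 199) (nat_lit 421) (nat_lit 400)) (XT.lf (nat_lit 76) (nat_lit 41935942006) (nat_lit 0) (nat_lit 45374597782) (nat_lit 380) (nat_lit 41935942006)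 (nat_lit 258) (nat_lit 1) (nat_lit 257) (nat_lit 1) (nat_lit 262) (nat_lit 1) (nat_lit 200) (nat_lit 421) (nat_lit 399)))) (XT.nd (nat_lit 78) (nat_lit 228) (nat_lit 0) (XT.lf (nat_lit 380) (nat_lit 61196205060) (nat_lit 0) (nat_lit 32725494429) (nat_lit 304) (nat_lit 32725494429) (nat_lit 258) (nat_lit 1) (nat_lit 253) (nat_lit 1) (nat_lit 257) (nat_lit 1) (nat_lit 201) (nat_lit 421) (nat_lit 398)) (XT.nd (nat_lit 78) (nat_lit 228) (nat_lit 0) (XT.lf (nat_lit 76) (nat_lit 19298551934) (nat_lit 0) (nat_lit 85526805577) (nat_lit 380) (nat_lit 19298551934) (nat_lit 254) (nat_lit 1) (nat_lit 253) (nat_lit 1) (nat_lit 258) (nat_lit 1) (nat_lit 202) (nat_lit 421) (nat_lit 397)) (XT.lf (nat_lit 304) (nat_lit 15694685746) (nat_lit 0) (nat_lit 52980203418) (nat_lit 228) (nat_lit 52980203418) (nat_lit 254) (nat_lit 1) (nat_lit 250) (nat_lit 1) (nat_lit 253) (nat_lit 1) (nat_lit 203) (nat_lit 421) (nat_lit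 396))))) (XT.nd (nat_lit 234) (nat_lit 532) (nat_lit 0) (XT.nd (nat_lit 78) (nat_lit 228) (nat_lit 0) (XT.lf (nat_lit 380) (nat_lit 113009932418) (nat_lit 0) (nat_lit 3135808782) (nat_lit 304) (nat_lit 3135808782) (nat_lit 250) (nat_lit 1) (nat_lit 245) (nat_lit 1) (nat_lit 249) (nat_lit 1) (nat_lit 204) (nat_lit 421) (nat_lit 395)) (XT.nd (nat_lit 78) (nat_lit 228) (nat_lit 0) (XT.lf (nat_lit 76) (nat_lit 44221622023) (nat_lit 0) (nat_lit 28477900606) (nat_lit 380) (nat_lit 44221622023) (nat_lit 246) (nat_lit 1) (nat_lit 245) (nat_lit 1) (nat_lit 250) (nat_lit 1) (nat_lit 205) (nat_lit 421) (nat_lit 394)) (XT.lf (nat_lit 304) (nat_lit 64587077001) (nat_lit 0) (nat_lit 25032095074) (nat_lit 228) (nat_lit 25032095074) (nat_lit 246) (nat_lit 1) (nat_lit 242) (nat_lit 1) (nat_lit 245) (nat_lit 1) (nat_lit 206) (nat_lit 421) (nat_lit 393)))) (XT.nd (nat_lit 78) (nat_lit 532) (nat_lit 0) (XT.lf (nat_lit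 76) (nat_lit 20404056684) (nat_lit 0) (nat_lit 71630946419) (nat_lit 304) (nat_lit 20404056684) (nat_lit 243) (nat_lit 1) (nat_lit 242) (nat_lit 1) (nat_lit 246) (nat_lit 1) (nat_lit 207) (nat_lit 421) (nat_lit 392)) (XT.nd (nat_lit 78) (nat_lit 304) (nat_lit 0) (XT.lf (nat_lit 304) (nat_lit 17006143493) (nat_lit 0) (nat_lit 46635518026) (nat_lit 228) (nat_lit 46635518026) (nat_lit 243) (nat_lit 1) (nat_lit 239) (nat_lit 1) (nat_lit 242) (nat_lit 1) (nat_lit 208) (nat_lit 421) (nat_lit 391)) (XT.lf (nat_lit 304) (nat_lit 102350253037) (nat_lit 0) (nat_lit 2922681431) (nat_lit 228) (nat_lit 2922681431) (nat_lit 239) (nat_lit 1) (nat_lit 235) (nat_lit 1) (nat_lit 238) (nat_lit 1) (nat_lit 209) (nat_lit 421) (nat_lit 390)))))) (XT.nd (nat_lit 468) (nat_lit 912) (nat_lit 0) (XT.nd (nat_lit 234) (nat_lit 456) (nat_lit 0) (XT.nd (nat_lit 78) (nat_lit 228) (nat_lit 0) (XT.lf (nat_lit 76) (nat_lit 38716169597)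 (nat_lit 0) (nat_lit 28688292918) (nat_lit 304) (nat_lit 38716169597) (nat_lit 236) (nat_lit 1) (nat_lit 235) (nat_lit 1) (nat_lit 239) (nat_lit 1) (nat_lit 210) (nat_lit 421) (nat_lit 389)) (XT.nd (nat_lit 78) (nat_lit 0) (nat_lit 0) (XT.lf (nat_lit 304) (nat_lit 53238278276) (nat_lit 0) (nat_lit 25442072391) (nat_lit 228) (nat_lit 25442072391) (nat_lit 236) (nat_lit 1) (nat_lit 232) (nat_lit 1) (nat_lit 235) (nat_lit 1) (nat_lit 211) (nat_lit 421) (nat_lit 388)) (XT.lf (nat_lit 76) (nat_lit 14661778418) (nat_lit 0) (nat_lit 72854250045) (nat_lit 304) (nat_lit 14661778418) (nat_lit 233) (nat_lit 1) (nat_lit 232) (nat_lit 1) (nat_lit 236) (nat_lit 1) (nat_lit 212) (nat_lit 421) (nat_lit 387)))) (XT.nd (nat_lit 78) (nat_lit 304) (nat_lit 0) (XT.lf (nat_lit 228) (nat_lit 5372563106) (nat_lit 0) (nat_lit 47448636361) (nat_lit 152) (nat_lit 47448636361) (nat_lit 233) (nat_lit 1) (nat_lit 230) (nat_lit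 1) (nat_lit 232) (nat_lit 1) (nat_lit 213) (nat_lit 421) (nat_lit 386)) (XT.nd (nat_lit 78) (nat_lit 0) (nat_lit 0) (XT.lf (nat_lit 304) (nat_lit 81177627042) (nat_lit 0) (nat_lit 8621652394) (nat_lit 228) (nat_lit 8621652394) (nat_lit 230) (nat_lit 1) (nat_lit 226) (nat_lit 1) (nat_lit 229) (nat_lit 1) (nat_lit 214) (nat_lit 421) (nat_lit 385)) (XT.lf (nat_lit 76) (nat_lit 28353418201) (nat_lit 0) (nat_lit 39885869642) (nat_lit 304) (nat_lit 28353418201) (nat_lit 227) (nat_lit 1) (nat_lit 226) (nat_lit 1) (nat_lit 230) (nat_lit 1) (nat_lit 215) (nat_lit 421) (nat_lit 384))))) (XT.nd (nat_lit 234) (nat_lit 532) (nat_lit 0) (XT.nd (nat_lit 78) (nat_lit 228) (nat_lit 0) (XT.lf (nat_lit 228) (nat_lit 32758001030) (nat_lit 0) (nat_lit 31031451645) (nat_lit 152) (nat_lit 31031451645) (nat_lit 227) (nat_lit 1) (nat_lit 224) (nat_lit 1) (nat_lit 226) (nat_lit 1) (nat_lit 216) (nat_lit 421) (nat_lit 383))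 (XT.nd (nat_lit 78) (nat_lit 228) (nat_lit 0) (XT.lf (nat_lit 76) (nat_lit 4706284989) (nat_lit 0) (nat_lit 83695331919) (nat_lit 228) (nat_lit 4706284989) (nat_lit 225) (nat_lit 1) (nat_lit 224) (nat_lit 1) (nat_lit 227) (nat_lit 1) (nat_lit 217) (nat_lit 421) (nat_lit 382)) (XT.lf (nat_lit 76) (nat_lit 38841795715) (nat_lit 0) (nat_lit 13717534931) (nat_lit 228) (nat_lit 38841795715) (nat_lit 222) (nat_lit 1) (nat_lit 221) (nat_lit 1) (nat_lit 224) (nat_lit 1) (nat_lit 218) (nat_lit 421) (nat_lit 381)))) (XT.nd (nat_lit 156) (nat_lit 380) (nat_lit 0) (XT.nd (nat_lit 78) (nat_lit 0) (nat_lit 0) (XT.lf (nat_lit 228) (nat_lit 53938640961) (nat_lit 0) (nat_lit 17906167384) (nat_lit 152) (nat_lit 17906167384) (nat_lit 222) (nat_lit 1) (nat_lit 219) (nat_lit 1) (nat_lit 221) (nat_lit 1) (nat_lit 219) (nat_lit 421) (nat_lit 380)) (XT.lf (nat_lit 76) (nat_lit 15220081201) (nat_lit 0) (nat_lit 57697134630)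 (nat_lit 228) (nat_lit 15220081201) (nat_lit 220) (nat_lit 1) (nat_lit 219) (nat_lit 1) (nat_lit 222) (nat_lit 1) (nat_lit 220) (nat_lit 421) (nat_lit 379))) (XT.nd (nat_lit 78) (nat_lit 228) (nat_lit 0) (XT.lf (nat_lit 228) (nat_lit 7130060068) (nat_lit 0) (nat_lit 39713042937) (nat_lit 152) (nat_lit 39713042937) (nat_lit 220) (nat_lit 1) (nat_lit 217) (nat_lit 1) (nat_lit 219) (nat_lit 1) (nat_lit 221) (nat_lit 421) (nat_lit 378)) (XT.lf (nat_lit 228) (nat_lit 70078836686) (nat_lit 0) (nat_lit 7470986621) (nat_lit 152) (nat_lit 7470986621) (nat_lit 217) (nat_lit 1) (nat_lit 214) (nat_lit 1) (nat_lit 216) (nat_lit 1) (nat_lit 222) (nat_lit 421) (nat_lit 377))))))) (XT.nd (nat_lit 1014) (nat_lit 1064) (nat_lit 0) (XT.nd (nat_lit 468) (nat_lit 684) (nat_lit 0) (XT.nd (nat_lit 234) (nat_lit 304) (nat_lit 0) (XT.nd (nat_lit 78) (nat_lit 152) (nat_lit 0) (XT.lf (nat_lit 76) (nat_lit 23329416464) (nat_lit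 0) (nat_lit 36839744907) (nat_lit 228) (nat_lit 23329416464) (nat_lit 215) (nat_lit 1) (nat_lit 214) (nat_lit 1) (nat_lit 217) (nat_lit 1) (nat_lit 223) (nat_lit 421) (nat_lit 376)) (XT.nd (nat_lit 78) (nat_lit 0) (nat_lit 0) (XT.lf (nat_lit 228) (nat_lit 23759878013) (nat_lit 0) (nat_lit 29130330120) (nat_lit 152) (nat_lit 29130330120) (nat_lit 215) (nat_lit 1) (nat_lit 212) (nat_lit 1) (nat_lit 214) (nat_lit 1) (nat_lit 224) (nat_lit 421) (nat_lit 375)) (XT.lf (nat_lit 76) (nat_lit 780921662) (nat_lit 0) (nat_lit 79032490269) (nat_lit 228) (nat_lit 780921662) (nat_lit 213) (nat_lit 1) (nat_lit 212) (nat_lit 1) (nat_lit 215) (nat_lit 1) (nat_lit 225) (nat_lit 421) (nat_lit 374)))) (XT.nd (nat_lit 78) (nat_lit 152) (nat_lit 0) (XT.lf (nat_lit 76) (nat_lit 29486328655) (nat_lit 0) (nat_lit 20186405934) (nat_lit 152) (nat_lit 29486328655) (nat_lit 211) (nat_lit 1) (nat_lit 210) (nat_lit 1) (nat_lit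 212) (nat_lit 1) (nat_lit 226) (nat_lit 421) (nat_lit 373)) (XT.nd (nat_lit 78) (nat_lit 0) (nat_lit 0) (XT.lf (nat_lit 228) (nat_lit 36589177060) (nat_lit 0) (nat_lit 20592557933) (nat_lit 152) (nat_lit 20592557933) (nat_lit 211) (nat_lit 1) (nat_lit 208) (nat_lit 1) (nat_lit 210) (nat_lit 1) (nat_lit 227) (nat_lit 421) (nat_lit 372)) (XT.lf (nat_lit 76) (nat_lit 7335877123) (nat_lit 0) (nat_lit 61755146826) (nat_lit 228) (nat_lit 7335877123) (nat_lit 209) (nat_lit 1) (nat_lit 208) (nat_lit 1) (nat_lit 211) (nat_lit 1) (nat_lit 228) (nat_lit 421) (nat_lit 371))))) (XT.nd (nat_lit 234) (nat_lit 380) (nat_lit 0) (XT.nd (nat_lit 78) (nat_lit 152) (nat_lit 0) (XT.lf (nat_lit 76) (nat_lit 34061485075) (nat_lit 0) (nat_lit 6967650526) (nat_lit 152) (nat_lit 34061485075) (nat_lit 207) (nat_lit 1) (nat_lit 206) (nat_lit 1) (nat_lit 208) (nat_lit 1) (nat_lit 229) (nat_lit 421) (nat_lit 370)) (XT.nd (nat_lit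 78) (nat_lit 0) (nat_lit 0) (XT.lf (nat_lit 228) (nat_lit 46332355678) (nat_lit 0) (nat_lit 13729132423) (nat_lit 152) (nat_lit 13729132423) (nat_lit 207) (nat_lit 1) (nat_lit 204) (nat_lit 1) (nat_lit 206) (nat_lit 1) (nat_lit 230) (nat_lit 421) (nat_lit 369)) (XT.lf (nat_lit 76) (nat_lit 12409921350) (nat_lit 0) (nat_lit 47696513547) (nat_lit 228) (nat_lit 12409921350) (nat_lit 205) (nat_lit 1) (nat_lit 204) (nat_lit 1) (nat_lit 207) (nat_lit 1) (nat_lit 231) (nat_lit 421) (nat_lit 368)))) (XT.nd (nat_lit 156) (nat_lit 76) (nat_lit 0) (XT.nd (nat_lit 78) (nat_lit 228) (nat_lit 0) (XT.lf (nat_lit 152) (nat_lit 3562436496) (nat_lit 0) (nat_lit 33851850728) (nat_lit 76) (nat_lit 33851850728) (nat_lit 205) (nat_lit 1) (nat_lit 203) (nat_lit 1) (nat_lit 204) (nat_lit 1) (nat_lit 232) (nat_lit 421) (nat_lit 367)) (XT.lf (nat_lit 228) (nat_lit 53575219070) (nat_lit 0) (nat_lit 8235547459) (nat_lit 152)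 (nat_lit 8235547459) (nat_lit 203) (nat_lit 1) (nat_lit 200) (nat_lit 1) (nat_lit 202) (nat_lit 1) (nat_lit 233) (nat_lit 421) (nat_lit 366))) (XT.nd (nat_lit 78) (nat_lit 76) (nat_lit 0) (XT.lf (nat_lit 76) (nat_lit 16280794040) (nat_lit 0) (nat_lit 36278517278) (nat_lit 228) (nat_lit 16280794040) (nat_lit 201) (nat_lit 1) (nat_lit 200) (nat_lit 1) (nat_lit 203) (nat_lit 1) (nat_lit 234) (nat_lit 421) (nat_lit 365)) (XT.lf (nat_lit 152) (nat_lit 11963468811) (nat_lit 0) (nat_lit 27850001370) (nat_lit 76) (nat_lit 27850001370) (nat_lit 201) (nat_lit 1) (nat_lit 199) (nat_lit 1) (nat_lit 200) (nat_lit 1) (nat_lit 235) (nat_lit 421) (nat_lit 364)))))) (XT.nd (nat_lit 468) (nat_lit 456) (nat_lit 0) (XT.nd (nat_lit 234) (nat_lit 304) (nat_lit 0) (XT.nd (nat_lit 78) (nat_lit 76) (nat_lit 0) (XT.lf (nat_lit 228) (nat_lit 58797870450) (nat_lit 0) (nat_lit 3861649311) (nat_lit 152) (nat_lit 3861649311)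 (nat_lit 199) (nat_lit 1) (nat_lit 196) (nat_lit 1) (nat_lit 198) (nat_lit 1) (nat_lit 236) (nat_lit 421) (nat_lit 363)) (XT.nd (nat_lit 78) (nat_lit 76) (nat_lit 0) (XT.lf (nat_lit 76) (nat_lit 19176269580) (nat_lit 0) (nat_lit 27025928370) (nat_lit 228) (nat_lit 19176269580) (nat_lit 197) (nat_lit 1) (nat_lit 196) (nat_lit 1) (nat_lit 199) (nat_lit 1) (nat_lit 237) (nat_lit 421) (nat_lit 362)) (XT.lf (nat_lit 152) (nat_lit 18444893006) (nat_lit 0) (nat_lit 22912265050) (nat_lit 76) (nat_lit 22912265050) (nat_lit 197) (nat_lit 1) (nat_lit 195) (nat_lit 1) (nat_lit 196) (nat_lit 1) (nat_lit 238) (nat_lit 421) (nat_lit 361)))) (XT.nd (nat_lit 78) (nat_lit 76) (nat_lit 0) (XT.lf (nat_lit 228) (nat_lit 62393539373) (nat_lit 0) (nat_lit 401982765) (nat_lit 152) (nat_lit 401982765) (nat_lit 195) (nat_lit 1) (nat_lit 192) (nat_lit 1) (nat_lit 194) (nat_lit 1) (nat_lit 239) (nat_lit 421) (nat_lit 360))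 (XT.nd (nat_lit 78) (nat_lit 76) (nat_lit 0) (XT.lf (nat_lit 76) (nat_lit 21283050186) (nat_lit 0) (nat_lit 19548109985) (nat_lit 228) (nat_lit 21283050186) (nat_lit 193) (nat_lit 1) (nat_lit 192) (nat_lit 1) (nat_lit 195) (nat_lit 1) (nat_lit 240) (nat_lit 421) (nat_lit 359)) (XT.lf (nat_lit 152) (nat_lit 23367533037) (nat_lit 0) (nat_lit 18849977160) (nat_lit 76) (nat_lit 18849977160) (nat_lit 193) (nat_lit 1) (nat_lit 191) (nat_lit 1) (nat_lit 192) (nat_lit 1) (nat_lit 241) (nat_lit 421) (nat_lit 358))))) (XT.nd (nat_lit 234) (nat_lit 228) (nat_lit 0) (XT.nd (nat_lit 78) (nat_lit 228) (nat_lit 0) (XT.lf (nat_lit 0) (nat_lit 2350054440) (nat_lit 0) (nat_lit 55352257793) (nat_lit 152) (nat_lit 2350054440) (nat_lit 191) (nat_lit 3) (nat_lit 191) (nat_lit 1) (nat_lit 193) (nat_lit 1) (nat_lit 242) (nat_lit 421) (nat_lit 357)) (XT.nd (nat_lit 78) (nat_lit 76) (nat_lit 0) (XT.lf (nat_lit 76) (nat_lit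 22754080673) (nat_lit 0) (nat_lit 13524004016) (nat_lit 152) (nat_lit 22754080673) (nat_lit 190) (nat_lit 1) (nat_lit 189) (nat_lit 1) (nat_lit 191) (nat_lit 1) (nat_lit 243) (nat_lit 421) (nat_lit 356)) (XT.lf (nat_lit 152) (nat_lit 27027264319) (nat_lit 0) (nat_lit 15507922859) (nat_lit 76) (nat_lit 15507922859) (nat_lit 190) (nat_lit 1) (nat_lit 188) (nat_lit 1) (nat_lit 189) (nat_lit 1) (nat_lit 244) (nat_lit 421) (nat_lit 355)))) (XT.nd (nat_lit 156) (nat_lit 76) (nat_lit 0) (XT.nd (nat_lit 78) (nat_lit 152) (nat_lit 0) (XT.lf (nat_lit 0) (nat_lit 4491670050) (nat_lit 0) (nat_lit 48096713918) (nat_lit 152) (nat_lit 4491670050) (nat_lit 188) (nat_lit 3) (nat_lit 188) (nat_lit 1) (nat_lit 190) (nat_lit 1) (nat_lit 245) (nat_lit 421) (nat_lit 354)) (XT.lf (nat_lit 76) (nat_lit 23714564781) (nat_lit 0) (nat_lit 8689779720) (nat_lit 152) (nat_lit 23714564781) (nat_lit 187) (nat_lit 1) (nat_lit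 186) (nat_lit 1) (nat_lit 188) (nat_lit 1) (nat_lit 246) (nat_lit 421) (nat_lit 353))) (XT.nd (nat_lit 78) (nat_lit 0) (nat_lit 0) (XT.lf (nat_lit 152) (nat_lit 29666575395) (nat_lit 0) (nat_lit 12758406515) (nat_lit 76) (nat_lit 12758406515) (nat_lit 187) (nat_lit 1) (nat_lit 185) (nat_lit 1) (nat_lit 186) (nat_lit 1) (nat_lit 247) (nat_lit 421) (nat_lit 352)) (XT.lf (nat_lit 0) (nat_lit 6131759919) (nat_lit 0) (nat_lit 42005737423) (nat_lit 152) (nat_lit 6131759919) (nat_lit 185) (nat_lit 3) (nat_lit 185) (nat_lit 1) (nat_lit 187) (nat_lit 1) (nat_lit 248) (nat_lit 421) (nat_lit 351))))))))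
noncomputable def ec358 : XT := (XT.nd (nat_lit 1950) (nat_lit 1976) (nat_lit 0) (XT.nd (nat_lit 936) (nat_lit 988) (nat_lit 0) (XT.nd (nat_lit 468) (nat_lit 456) (nat_lit 0) (XT.nd (nat_lit 234) (nat_lit 228) (nat_lit 0) (XT.nd (nat_lit 78) (nat_lit 76) (nat_lit 0) (XT.lf (nat_lit 76) (nat_lit 24266913323) (nat_lit 0) (nat_lit 4828672944) (nat_lit 152) (nat_lit 24266913323) (nat_lit 184) (nat_lit 1) (nat_lit 183) (nat_lit 1) (nat_lit 185) (nat_lit 1) (nat_lit 249) (nat_lit 421) (nat_lit 350)) (XT.nd (nat_lit 78) (nat_lit 0) (nat_lit 0) (XT.lf (nat_lit 152) (nat_lit 31484077522) (nat_lit 0) (nat_lit 10496372614) (nat_lit 76) (nat_lit 10496372614) (nat_lit 184) (nat_lit 1) (nat_lit 182) (nat_lit 1) (nat_lit 183) (nat_lit 1) (nat_lit 250) (nat_lit 421) (nat_lit 349)) (XT.lf (nat_lit 0) (nat_lit 7365044397) (nat_lit 0) (nat_lit 36878654470) (nat_lit 152) (nat_lit 7365044397) (nat_lit 182) (nat_lit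 3) (nat_lit 182) (nat_lit 1) (nat_lit 184) (nat_lit 1) (nat_lit 251) (nat_lit 421) (nat_lit 348)))) (XT.nd (nat_lit 78) (nat_lit 76) (nat_lit 0) (XT.lf (nat_lit 76) (nat_lit 24494813637) (nat_lit 0) (nat_lit 1762627527) (nat_lit 152) (nat_lit 24494813637) (nat_lit 181) (nat_lit 1) (nat_lit 180) (nat_lit 1) (nat_lit 182) (nat_lit 1) (nat_lit 252) (nat_lit 421) (nat_lit 347)) (XT.nd (nat_lit 78) (nat_lit 0) (nat_lit 0) (XT.lf (nat_lit 152) (nat_lit 32642326138) (nat_lit 0) (nat_lit 8635391726) (nat_lit 76) (nat_lit 8635391726) (nat_lit 181) (nat_lit 1) (nat_lit 179) (nat_lit 1) (nat_lit 180) (nat_lit 1) (nat_lit 253) (nat_lit 421) (nat_lit 346)) (XT.lf (nat_lit 0) (nat_lit 8269173906) (nat_lit 0) (nat_lit 32550093953) (nat_lit 152) (nat_lit 8269173906) (nat_lit 179) (nat_lit 3) (nat_lit 179) (nat_lit 1) (nat_lit 181) (nat_lit 1) (nat_lit 254) (nat_lit 421) (nat_lit 345))))) (XT.nd (nat_lit 234) (nat_lit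 228) (nat_lit 0) (XT.nd (nat_lit 78) (nat_lit 152) (nat_lit 0) (XT.lf (nat_lit 76) (nat_lit 676224082) (nat_lit 0) (nat_lit 23800909841) (nat_lit 76) (nat_lit 23800909841) (nat_lit 179) (nat_lit 3) (nat_lit 178) (nat_lit 1) (nat_lit 179) (nat_lit 1) (nat_lit 255) (nat_lit 421) (nat_lit 344)) (XT.nd (nat_lit 78) (nat_lit 0) (nat_lit 0) (XT.lf (nat_lit 152) (nat_lit 33274253586) (nat_lit 0) (nat_lit 7104358144) (nat_lit 76) (nat_lit 7104358144) (nat_lit 178) (nat_lit 1) (nat_lit 176) (nat_lit 1) (nat_lit 177) (nat_lit 1) (nat_lit 256) (nat_lit 421) (nat_lit 343)) (XT.lf (nat_lit 0) (nat_lit 8907768555) (nat_lit 0) (nat_lit 28883741568) (nat_lit 152) (nat_lit 8907768555) (nat_lit 176) (nat_lit 3) (nat_lit 176) (nat_lit 1) (nat_lit 178) (nat_lit 1) (nat_lit 257) (nat_lit 421) (nat_lit 342)))) (XT.nd (nat_lit 78) (nat_lit 152) (nat_lit 0) (XT.lf (nat_lit 76) (nat_lit 2627083190) (nat_lit 0) (nat_lit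 21651819393) (nat_lit 76) (nat_lit 21651819393) (nat_lit 176) (nat_lit 3) (nat_lit 175) (nat_lit 1) (nat_lit 176) (nat_lit 1) (nat_lit 258) (nat_lit 421) (nat_lit 341)) (XT.nd (nat_lit 78) (nat_lit 0) (nat_lit 0) (XT.lf (nat_lit 152) (nat_lit 33488459429) (nat_lit 0) (nat_lit 5844773026) (nat_lit 76) (nat_lit 5844773026) (nat_lit 175) (nat_lit 1) (nat_lit 173) (nat_lit 1) (nat_lit 174) (nat_lit 1) (nat_lit 259) (nat_lit 421) (nat_lit 340)) (XT.lf (nat_lit 0) (nat_lit 9332918204) (nat_lit 0) (nat_lit 25767200638) (nat_lit 152) (nat_lit 9332918204) (nat_lit 173) (nat_lit 3) (nat_lit 173) (nat_lit 1) (nat_lit 175) (nat_lit 1) (nat_lit 260) (nat_lit 421) (nat_lit 339)))))) (XT.nd (nat_lit 468) (nat_lit 532) (nat_lit 0) (XT.nd (nat_lit 234) (nat_lit 228) (nat_lit 0) (XT.nd (nat_lit 78) (nat_lit 152) (nat_lit 0) (XT.lf (nat_lit 76) (nat_lit 4133452570) (nat_lit 0) (nat_lit 19785150126) (nat_lit 76) (nat_lit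 19785150126) (nat_lit 173) (nat_lit 3) (nat_lit 172) (nat_lit 1) (nat_lit 173) (nat_lit 1) (nat_lit 261) (nat_lit 421) (nat_lit 338)) (XT.nd (nat_lit 78) (nat_lit 0) (nat_lit 0) (XT.lf (nat_lit 152) (nat_lit 33373560979) (nat_lit 0) (nat_lit 4808509233) (nat_lit 76) (nat_lit 4808509233) (nat_lit 172) (nat_lit 1) (nat_lit 170) (nat_lit 1) (nat_lit 171) (nat_lit 1) (nat_lit 262) (nat_lit 421) (nat_lit 337)) (XT.lf (nat_lit 0) (nat_lit 9587238684) (nat_lit 0) (nat_lit 23107763514) (nat_lit 152) (nat_lit 9587238684) (nat_lit 170) (nat_lit 3) (nat_lit 170) (nat_lit 1) (nat_lit 172) (nat_lit 1) (nat_lit 263) (nat_lit 421) (nat_lit 336)))) (XT.nd (nat_lit 78) (nat_lit 152) (nat_lit 0) (XT.lf (nat_lit 76) (nat_lit 5278834733) (nat_lit 0) (nat_lit 18155525047) (nat_lit 76) (nat_lit 18155525047) (nat_lit 170) (nat_lit 3) (nat_lit 169) (nat_lit 1) (nat_lit 170) (nat_lit 1) (nat_lit 264) (nat_lit 421) (nat_lit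 335)) (XT.nd (nat_lit 78) (nat_lit 0) (nat_lit 0) (XT.lf (nat_lit 152) (nat_lit 33001770763) (nat_lit 0) (nat_lit 3955972446) (nat_lit 76) (nat_lit 3955972446) (nat_lit 169) (nat_lit 1) (nat_lit 167) (nat_lit 1) (nat_lit 168) (nat_lit 1) (nat_lit 265) (nat_lit 421) (nat_lit 334)) (XT.lf (nat_lit 0) (nat_lit 9705562878) (nat_lit 0) (nat_lit 20828932116) (nat_lit 152) (nat_lit 9705562878) (nat_lit 167) (nat_lit 3) (nat_lit 167) (nat_lit 1) (nat_lit 169) (nat_lit 1) (nat_lit 266) (nat_lit 421) (nat_lit 333))))) (XT.nd (nat_lit 234) (nat_lit 304) (nat_lit 0) (XT.nd (nat_lit 78) (nat_lit 152) (nat_lit 0) (XT.lf (nat_lit 76) (nat_lit 6131703803) (nat_lit 0) (nat_lit 16725388791) (nat_lit 76) (nat_lit 16725388791) (nat_lit 167) (nat_lit 3) (nat_lit 166) (nat_lit 1) (nat_lit 167) (nat_lit 1) (nat_lit 267) (nat_lit 421) (nat_lit 332)) (XT.nd (nat_lit 78) (nat_lit 0) (nat_lit 0) (XT.lf (nat_lit 152) (nat_lit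 32431838053) (nat_lit 0) (nat_lit 3254588322) (nat_lit 76) (nat_lit 3254588322) (nat_lit 166) (nat_lit 1) (nat_lit 164) (nat_lit 1) (nat_lit 165) (nat_lit 1) (nat_lit 268) (nat_lit 421) (nat_lit 331)) (XT.lf (nat_lit 0) (nat_lit 9716331443) (nat_lit 0) (nat_lit 18867554843) (nat_lit 152) (nat_lit 9716331443) (nat_lit 164) (nat_lit 3) (nat_lit 164) (nat_lit 1) (nat_lit 166) (nat_lit 1) (nat_lit 269) (nat_lit 421) (nat_lit 330)))) (XT.nd (nat_lit 156) (nat_lit 76) (nat_lit 0) (XT.nd (nat_lit 78) (nat_lit 152) (nat_lit 0) (XT.lf (nat_lit 76) (nat_lit 6748180659) (nat_lit 0) (nat_lit 15463631516) (nat_lit 76) (nat_lit 15463631516) (nat_lit 164) (nat_lit 3) (nat_lit 163) (nat_lit 1) (nat_lit 164) (nat_lit 1) (nat_lit 270) (nat_lit 421) (nat_lit 329)) (XT.lf (nat_lit 152) (nat_lit 31711467308) (nat_lit 0) (nat_lit 2677557867) (nat_lit 76) (nat_lit 2677557867) (nat_lit 163) (nat_lit 1) (nat_lit 161) (nat_lit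 1) (nat_lit 162) (nat_lit 1) (nat_lit 271) (nat_lit 421) (nat_lit 328))) (XT.nd (nat_lit 78) (nat_lit 76) (nat_lit 0) (XT.lf (nat_lit 0) (nat_lit 9642736442) (nat_lit 0) (nat_lit 17171470580) (nat_lit 152) (nat_lit 9642736442) (nat_lit 161) (nat_lit 3) (nat_lit 161) (nat_lit 1) (nat_lit 163) (nat_lit 1) (nat_lit 272) (nat_lit 421) (nat_lit 327)) (XT.lf (nat_lit 76) (nat_lit 7174233277) (nat_lit 0) (nat_lit 14344456266) (nat_lit 76) (nat_lit 14344456266) (nat_lit 161) (nat_lit 3) (nat_lit 160) (nat_lit 1) (nat_lit 161) (nat_lit 1) (nat_lit 273) (nat_lit 421) (nat_lit 326))))))) (XT.nd (nat_lit 936) (nat_lit 1064) (nat_lit 0) (XT.nd (nat_lit 468) (nat_lit 456) (nat_lit 0) (XT.nd (nat_lit 234) (nat_lit 228) (nat_lit 0) (XT.nd (nat_lit 78) (nat_lit 76) (nat_lit 0) (XT.lf (nat_lit 152) (nat_lit 30879306329) (nat_lit 0) (nat_lit 2202833483) (nat_lit 76) (nat_lit 2202833483) (nat_lit 160) (nat_lit 1)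 (nat_lit 158) (nat_lit 1) (nat_lit 159) (nat_lit 1) (nat_lit 274) (nat_lit 421) (nat_lit 325)) (XT.nd (nat_lit 78) (nat_lit 76) (nat_lit 0) (XT.lf (nat_lit 0) (nat_lit 9503661723) (nat_lit 0) (nat_lit 15697569931) (nat_lit 152) (nat_lit 9503661723) (nat_lit 158) (nat_lit 3) (nat_lit 158) (nat_lit 1) (nat_lit 160) (nat_lit 1) (nat_lit 275) (nat_lit 421) (nat_lit 324)) (XT.lf (nat_lit 76) (nat_lit 7447486470) (nat_lit 0) (nat_lit 13346446668) (nat_lit 76) (nat_lit 13346446668) (nat_lit 158) (nat_lit 3) (nat_lit 157) (nat_lit 1) (nat_lit 158) (nat_lit 1) (nat_lit 276) (nat_lit 421) (nat_lit 323)))) (XT.nd (nat_lit 78) (nat_lit 76) (nat_lit 0) (XT.lf (nat_lit 152) (nat_lit 29966580494) (nat_lit 0) (nat_lit 1812276558) (nat_lit 76) (nat_lit 1812276558) (nat_lit 157) (nat_lit 1) (nat_lit 155) (nat_lit 1) (nat_lit 156) (nat_lit 1) (nat_lit 277) (nat_lit 421) (nat_lit 322)) (XT.nd (nat_lit 78) (nat_lit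 76) (nat_lit 0) (XT.lf (nat_lit 0) (nat_lit 9314456103) (nat_lit 0) (nat_lit 14410199714) (nat_lit 152) (nat_lit 9314456103) (nat_lit 155) (nat_lit 3) (nat_lit 155) (nat_lit 1) (nat_lit 157) (nat_lit 1) (nat_lit 278) (nat_lit 421) (nat_lit 321)) (XT.lf (nat_lit 76) (nat_lit 7598710310) (nat_lit 0) (nat_lit 12451799464) (nat_lit 76) (nat_lit 12451799464) (nat_lit 155) (nat_lit 3) (nat_lit 154) (nat_lit 1) (nat_lit 155) (nat_lit 1) (nat_lit 279) (nat_lit 421) (nat_lit 320))))) (XT.nd (nat_lit 234) (nat_lit 228) (nat_lit 0) (XT.nd (nat_lit 78) (nat_lit 76) (nat_lit 0) (XT.lf (nat_lit 152) (nat_lit 28998435892) (nat_lit 0) (nat_lit 1490964409) (nat_lit 76) (nat_lit 1490964409) (nat_lit 154) (nat_lit 1) (nat_lit 152) (nat_lit 1) (nat_lit 153) (nat_lit 1) (nat_lit 280) (nat_lit 421) (nat_lit 319)) (XT.nd (nat_lit 78) (nat_lit 76) (nat_lit 0) (XT.lf (nat_lit 0) (nat_lit 9087569025) (nat_lit 0) (nat_lit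 13279849905) (nat_lit 152) (nat_lit 9087569025) (nat_lit 152) (nat_lit 3) (nat_lit 152) (nat_lit 1) (nat_lit 154) (nat_lit 1) (nat_lit 281) (nat_lit 421) (nat_lit 318)) (XT.lf (nat_lit 76) (nat_lit 7653044216) (nat_lit 0) (nat_lit 11645692673) (nat_lit 76) (nat_lit 11645692673) (nat_lit 152) (nat_lit 3) (nat_lit 151) (nat_lit 1) (nat_lit 152) (nat_lit 1) (nat_lit 282) (nat_lit 421) (nat_lit 317)))) (XT.nd (nat_lit 78) (nat_lit 76) (nat_lit 0) (XT.lf (nat_lit 152) (nat_lit 27995043030) (nat_lit 0) (nat_lit 1226620109) (nat_lit 76) (nat_lit 1226620109) (nat_lit 151) (nat_lit 1) (nat_lit 149) (nat_lit 1) (nat_lit 150) (nat_lit 1) (nat_lit 283) (nat_lit 421) (nat_lit 316)) (XT.nd (nat_lit 78) (nat_lit 76) (nat_lit 0) (XT.lf (nat_lit 0) (nat_lit 8833073086) (nat_lit 0) (nat_lit 12282072941) (nat_lit 152) (nat_lit 8833073086) (nat_lit 149) (nat_lit 3) (nat_lit 149) (nat_lit 1) (nat_lit 151) (nat_lit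 1) (nat_lit 284) (nat_lit 421) (nat_lit 315)) (XT.lf (nat_lit 76) (nat_lit 7631003595) (nat_lit 0) (nat_lit 10915765362) (nat_lit 76) (nat_lit 10915765362) (nat_lit 149) (nat_lit 3) (nat_lit 148) (nat_lit 1) (nat_lit 149) (nat_lit 1) (nat_lit 285) (nat_lit 421) (nat_lit 314)))))) (XT.nd (nat_lit 468) (nat_lit 608) (nat_lit 0) (XT.nd (nat_lit 234) (nat_lit 228) (nat_lit 0) (XT.nd (nat_lit 78) (nat_lit 76) (nat_lit 0) (XT.lf (nat_lit 152) (nat_lit 26972503618) (nat_lit 0) (nat_lit 1009143399) (nat_lit 76) (nat_lit 1009143399) (nat_lit 148) (nat_lit 1) (nat_lit 146) (nat_lit 1) (nat_lit 147) (nat_lit 1) (nat_lit 286) (nat_lit 421) (nat_lit 313)) (XT.nd (nat_lit 78) (nat_lit 76) (nat_lit 0) (XT.lf (nat_lit 0) (nat_lit 8559093525) (nat_lit 0) (nat_lit 11396594242) (nat_lit 152) (nat_lit 8559093525) (nat_lit 146) (nat_lit 3) (nat_lit 146) (nat_lit 1) (nat_lit 148) (nat_lit 1) (nat_lit 287) (nat_lit 421)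 (nat_lit 312)) (XT.lf (nat_lit 76) (nat_lit 7549307619) (nat_lit 0) (nat_lit 10251689253) (nat_lit 76) (nat_lit 10251689253) (nat_lit 146) (nat_lit 3) (nat_lit 145) (nat_lit 1) (nat_lit 146) (nat_lit 1) (nat_lit 288) (nat_lit 421) (nat_lit 311)))) (XT.nd (nat_lit 78) (nat_lit 76) (nat_lit 0) (XT.lf (nat_lit 152) (nat_lit 25943595415) (nat_lit 0) (nat_lit 830224772) (nat_lit 76) (nat_lit 830224772) (nat_lit 145) (nat_lit 1) (nat_lit 143) (nat_lit 1) (nat_lit 144) (nat_lit 1) (nat_lit 289) (nat_lit 421) (nat_lit 310)) (XT.nd (nat_lit 78) (nat_lit 76) (nat_lit 0) (XT.lf (nat_lit 0) (nat_lit 8272161175) (nat_lit 0) (nat_lit 10606580037) (nat_lit 152) (nat_lit 8272161175) (nat_lit 143) (nat_lit 3) (nat_lit 143) (nat_lit 1) (nat_lit 145) (nat_lit 1) (nat_lit 290) (nat_lit 421) (nat_lit 309)) (XT.lf (nat_lit 76) (nat_lit 7421559847) (nat_lit 0) (nat_lit 9644815906) (nat_lit 76) (nat_lit 9644815906) (nat_lit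 143) (nat_lit 3) (nat_lit 142) (nat_lit 1) (nat_lit 143) (nat_lit 1) (nat_lit 291) (nat_lit 421) (nat_lit 308))))) (XT.nd (nat_lit 234) (nat_lit 380) (nat_lit 0) (XT.nd (nat_lit 78) (nat_lit 76) (nat_lit 0) (XT.lf (nat_lit 152) (nat_lit 24918383903) (nat_lit 0) (nat_lit 683027974) (nat_lit 76) (nat_lit 683027974) (nat_lit 142) (nat_lit 1) (nat_lit 140) (nat_lit 1) (nat_lit 141) (nat_lit 1) (nat_lit 292) (nat_lit 421) (nat_lit 307)) (XT.nd (nat_lit 78) (nat_lit 76) (nat_lit 0) (XT.lf (nat_lit 0) (nat_lit 7977502471) (nat_lit 0) (nat_lit 9898034645) (nat_lit 152) (nat_lit 7977502471) (nat_lit 140) (nat_lit 3) (nat_lit 140) (nat_lit 1) (nat_lit 142) (nat_lit 1) (nat_lit 293) (nat_lit 421) (nat_lit 306)) (XT.lf (nat_lit 76) (nat_lit 7258807831) (nat_lit 0) (nat_lit 9087886092) (nat_lit 76) (nat_lit 9087886092) (nat_lit 140) (nat_lit 3) (nat_lit 139) (nat_lit 1) (nat_lit 140) (nat_lit 1) (nat_lit 294)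 (nat_lit 421) (nat_lit 305)))) (XT.nd (nat_lit 156) (nat_lit 228) (nat_lit 0) (XT.nd (nat_lit 78) (nat_lit 0) (nat_lit 0) (XT.lf (nat_lit 152) (nat_lit 23904724439) (nat_lit 0) (nat_lit 561928805) (nat_lit 76) (nat_lit 561928805) (nat_lit 139) (nat_lit 1) (nat_lit 137) (nat_lit 1) (nat_lit 138) (nat_lit 1) (nat_lit 295) (nat_lit 421) (nat_lit 304)) (XT.lf (nat_lit 0) (nat_lit 7679277692) (nat_lit 0) (nat_lit 9259304265) (nat_lit 152) (nat_lit 7679277692) (nat_lit 137) (nat_lit 3) (nat_lit 137) (nat_lit 1) (nat_lit 139) (nat_lit 1) (nat_lit 296) (nat_lit 421) (nat_lit 303))) (XT.nd (nat_lit 78) (nat_lit 152) (nat_lit 0) (XT.lf (nat_lit 76) (nat_lit 7070003145) (nat_lit 0) (nat_lit 8574790357) (nat_lit 76) (nat_lit 8574790357) (nat_lit 137) (nat_lit 3) (nat_lit 136) (nat_lit 1) (nat_lit 137) (nat_lit 1) (nat_lit 297) (nat_lit 421) (nat_lit 302)) (XT.lf (nat_lit 152) (nat_lit 22908674368) (nat_lit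 0) (nat_lit 462300218) (nat_lit 76) (nat_lit 462300218) (nat_lit 136) (nat_lit 1) (nat_lit 134) (nat_lit 1) (nat_lit 135) (nat_lit 1) (nat_lit 298) (nat_lit 421) (nat_lit 301))))))))
noncomputable def ec359 : XT := (XT.nd (nat_lit 1950) (nat_lit 2052) (nat_lit 0) (XT.nd (nat_lit 936) (nat_lit 912) (nat_lit 0) (XT.nd (nat_lit 468) (nat_lit 456) (nat_lit 0) (XT.nd (nat_lit 234) (nat_lit 228) (nat_lit 0) (XT.nd (nat_lit 78) (nat_lit 228) (nat_lit 0) (XT.lf (nat_lit 0) (nat_lit 7380776635) (nat_lit 0) (nat_lit 8680668407) (nat_lit 152) (nat_lit 7380776635) (nat_lit 134) (nat_lit 3) (nat_lit 134) (nat_lit 1) (nat_lit 136) (nat_lit 1) (nat_lit 299) (nat_lit 421) (nat_lit 300)) (XT.nd (nat_lit 78) (nat_lit 152) (nat_lit 0) (XT.lf (nat_lit 76) (nat_lit 6862379540) (nat_lit 0) (nat_lit 8100371703) (nat_lit 76) (nat_lit 8100371703) (nat_lit 134) (nat_lit 3) (nat_lit 133) (nat_lit 1) (nat_lit 134) (nat_lit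 1) (nat_lit 300) (nat_lit 421) (nat_lit 299)) (XT.lf (nat_lit 152) (nat_lit 21934831109) (nat_lit 0) (nat_lit 380335534) (nat_lit 76) (nat_lit 380335534) (nat_lit 133) (nat_lit 1) (nat_lit 131) (nat_lit 1) (nat_lit 132) (nat_lit 1) (nat_lit 301) (nat_lit 421) (nat_lit 298)))) (XT.nd (nat_lit 78) (nat_lit 228) (nat_lit 0) (XT.lf (nat_lit 0) (nat_lit 7084579273) (nat_lit 0) (nat_lit 8154003451) (nat_lit 152) (nat_lit 7084579273) (nat_lit 131) (nat_lit 3) (nat_lit 131) (nat_lit 1) (nat_lit 133) (nat_lit 1) (nat_lit 302) (nat_lit 421) (nat_lit 297)) (XT.nd (nat_lit 78) (nat_lit 152) (nat_lit 0) (XT.lf (nat_lit 76) (nat_lit 6641763731) (nat_lit 0) (nat_lit 7660262948) (nat_lit 76) (nat_lit 7660262948) (nat_lit 131) (nat_lit 3) (nat_lit 130) (nat_lit 1) (nat_lit 131) (nat_lit 1) (nat_lit 303) (nat_lit 421) (nat_lit 296)) (XT.lf (nat_lit 152) (nat_lit 20986609373) (nat_lit 0) (nat_lit 312902985) (nat_lit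 76) (nat_lit 312902985) (nat_lit 130) (nat_lit 1) (nat_lit 128) (nat_lit 1) (nat_lit 129) (nat_lit 1) (nat_lit 304) (nat_lit 421) (nat_lit 295))))) (XT.nd (nat_lit 234) (nat_lit 228) (nat_lit 0) (XT.nd (nat_lit 78) (nat_lit 228) (nat_lit 0) (XT.lf (nat_lit 0) (nat_lit 6792687634) (nat_lit 0) (nat_lit 7672505551) (nat_lit 152) (nat_lit 6792687634) (nat_lit 128) (nat_lit 3) (nat_lit 128) (nat_lit 1) (nat_lit 130) (nat_lit 1) (nat_lit 305) (nat_lit 421) (nat_lit 294)) (XT.nd (nat_lit 78) (nat_lit 152) (nat_lit 0) (XT.lf (nat_lit 76) (nat_lit 6412830792) (nat_lit 0) (nat_lit 7250752619) (nat_lit 76) (nat_lit 7250752619) (nat_lit 128) (nat_lit 3) (nat_lit 127) (nat_lit 1) (nat_lit 128) (nat_lit 1) (nat_lit 306) (nat_lit 421) (nat_lit 293)) (XT.lf (nat_lit 152) (nat_lit 20066468360) (nat_lit 0) (nat_lit 257426060) (nat_lit 76) (nat_lit 257426060) (nat_lit 127) (nat_lit 1) (nat_lit 125) (nat_lit 1) (nat_lit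 126) (nat_lit 1) (nat_lit 307) (nat_lit 421) (nat_lit 292)))) (XT.nd (nat_lit 78) (nat_lit 228) (nat_lit 0) (XT.lf (nat_lit 0) (nat_lit 6506634006) (nat_lit 0) (nat_lit 7230462384) (nat_lit 152) (nat_lit 6506634006) (nat_lit 125) (nat_lit 3) (nat_lit 125) (nat_lit 1) (nat_lit 127) (nat_lit 1) (nat_lit 308) (nat_lit 421) (nat_lit 291)) (XT.nd (nat_lit 78) (nat_lit 152) (nat_lit 0) (XT.lf (nat_lit 76) (nat_lit 6179313986) (nat_lit 0) (nat_lit 6868674346) (nat_lit 76) (nat_lit 6868674346) (nat_lit 125) (nat_lit 3) (nat_lit 124) (nat_lit 1) (nat_lit 125) (nat_lit 1) (nat_lit 309) (nat_lit 421) (nat_lit 290)) (XT.lf (nat_lit 152) (nat_lit 19176097838) (nat_lit 0) (nat_lit 211785056) (nat_lit 76) (nat_lit 211785056) (nat_lit 124) (nat_lit 1) (nat_lit 122) (nat_lit 1) (nat_lit 123) (nat_lit 1) (nat_lit 310) (nat_lit 421) (nat_lit 289)))))) (XT.nd (nat_lit 468) (nat_lit 456) (nat_lit 0) (XT.nd (nat_lit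 234) (nat_lit 228) (nat_lit 0) (XT.nd (nat_lit 78) (nat_lit 228) (nat_lit 0) (XT.lf (nat_lit 0) (nat_lit 6227569689) (nat_lit 0) (nat_lit 6823065086) (nat_lit 152) (nat_lit 6227569689) (nat_lit 122) (nat_lit 3) (nat_lit 122) (nat_lit 1) (nat_lit 124) (nat_lit 1) (nat_lit 311) (nat_lit 421) (nat_lit 288)) (XT.nd (nat_lit 78) (nat_lit 152) (nat_lit 0) (XT.lf (nat_lit 76) (nat_lit 5944177121) (nat_lit 0) (nat_lit 6511315595) (nat_lit 76) (nat_lit 6511315595) (nat_lit 122) (nat_lit 3) (nat_lit 121) (nat_lit 1) (nat_lit 122) (nat_lit 1) (nat_lit 312) (nat_lit 421) (nat_lit 287)) (XT.lf (nat_lit 152) (nat_lit 18316570442) (nat_lit 0) (nat_lit 174236090) (nat_lit 76) (nat_lit 174236090) (nat_lit 121) (nat_lit 1) (nat_lit 119) (nat_lit 1) (nat_lit 120) (nat_lit 1) (nat_lit 313) (nat_lit 421) (nat_lit 286)))) (XT.nd (nat_lit 78) (nat_lit 228) (nat_lit 0) (XT.lf (nat_lit 0) (nat_lit 5956337747) (nat_lit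 0) (nat_lit 6446253284) (nat_lit 152) (nat_lit 5956337747) (nat_lit 119) (nat_lit 3) (nat_lit 119) (nat_lit 1) (nat_lit 121) (nat_lit 1) (nat_lit 314) (nat_lit 421) (nat_lit 285)) (XT.nd (nat_lit 78) (nat_lit 152) (nat_lit 0) (XT.lf (nat_lit 76) (nat_lit 5709756097) (nat_lit 0) (nat_lit 6176342323) (nat_lit 76) (nat_lit 6176342323) (nat_lit 119) (nat_lit 3) (nat_lit 118) (nat_lit 1) (nat_lit 119) (nat_lit 1) (nat_lit 315) (nat_lit 421) (nat_lit 284)) (XT.lf (nat_lit 152) (nat_lit 17488466207) (nat_lit 0) (nat_lit 143344462) (nat_lit 76) (nat_lit 143344462) (nat_lit 118) (nat_lit 1) (nat_lit 116) (nat_lit 1) (nat_lit 117) (nat_lit 1) (nat_lit 316) (nat_lit 421) (nat_lit 283))))) (XT.nd (nat_lit 234) (nat_lit 228) (nat_lit 0) (XT.nd (nat_lit 78) (nat_lit 228) (nat_lit 0) (XT.lf (nat_lit 0) (nat_lit 5693532616) (nat_lit 0) (nat_lit 6096587341) (nat_lit 152) (nat_lit 5693532616) (nat_lit 116) (nat_lit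 3) (nat_lit 116) (nat_lit 1) (nat_lit 118) (nat_lit 1) (nat_lit 317) (nat_lit 421) (nat_lit 282)) (XT.nd (nat_lit 78) (nat_lit 152) (nat_lit 0) (XT.lf (nat_lit 76) (nat_lit 5477875108) (nat_lit 0) (nat_lit 5861736751) (nat_lit 76) (nat_lit 5861736751) (nat_lit 116) (nat_lit 3) (nat_lit 115) (nat_lit 1) (nat_lit 116) (nat_lit 1) (nat_lit 318) (nat_lit 421) (nat_lit 281)) (XT.lf (nat_lit 152) (nat_lit 16691974309) (nat_lit 0) (nat_lit 117929844) (nat_lit 76) (nat_lit 117929844) (nat_lit 115) (nat_lit 1) (nat_lit 113) (nat_lit 1) (nat_lit 114) (nat_lit 1) (nat_lit 319) (nat_lit 421) (nat_lit 280)))) (XT.nd (nat_lit 156) (nat_lit 152) (nat_lit 0) (XT.nd (nat_lit 78) (nat_lit 76) (nat_lit 0) (XT.lf (nat_lit 0) (nat_lit 5439548908) (nat_lit 0) (nat_lit 5771143028) (nat_lit 152) (nat_lit 5439548908) (nat_lit 113) (nat_lit 3) (nat_lit 113) (nat_lit 1) (nat_lit 115) (nat_lit 1) (nat_lit 320) (nat_lit 421)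 (nat_lit 279)) (XT.lf (nat_lit 76) (nat_lit 5249942015) (nat_lit 0) (nat_lit 5565745939) (nat_lit 76) (nat_lit 5565745939) (nat_lit 113) (nat_lit 3) (nat_lit 112) (nat_lit 1) (nat_lit 113) (nat_lit 1) (nat_lit 321) (nat_lit 421) (nat_lit 278))) (XT.nd (nat_lit 78) (nat_lit 0) (nat_lit 0) (XT.lf (nat_lit 152) (nat_lit 15926976079) (nat_lit 0) (nat_lit 97021174) (nat_lit 76) (nat_lit 97021174) (nat_lit 112) (nat_lit 1) (nat_lit 110) (nat_lit 1) (nat_lit 111) (nat_lit 1) (nat_lit 322) (nat_lit 421) (nat_lit 277)) (XT.lf (nat_lit 0) (nat_lit 5194621334) (nat_lit 0) (nat_lit 5467424637) (nat_lit 152) (nat_lit 5194621334) (nat_lit 110) (nat_lit 3) (nat_lit 110) (nat_lit 1) (nat_lit 112) (nat_lit 1) (nat_lit 323) (nat_lit 421) (nat_lit 276))))))) (XT.nd (nat_lit 1014) (nat_lit 1064) (nat_lit 0) (XT.nd (nat_lit 468) (nat_lit 532) (nat_lit 0) (XT.nd (nat_lit 234) (nat_lit 228) (nat_lit 0) (XT.nd (nat_lit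 78) (nat_lit 152) (nat_lit 0) (XT.lf (nat_lit 76) (nat_lit 5027026580) (nat_lit 0) (nat_lit 5286839250) (nat_lit 76) (nat_lit 5286839250) (nat_lit 110) (nat_lit 3) (nat_lit 109) (nat_lit 1) (nat_lit 110) (nat_lit 1) (nat_lit 324) (nat_lit 421) (nat_lit 275)) (XT.nd (nat_lit 78) (nat_lit 0) (nat_lit 0) (XT.lf (nat_lit 152) (nat_lit 15193112641) (nat_lit 0) (nat_lit 79819560) (nat_lit 76) (nat_lit 79819560) (nat_lit 109) (nat_lit 1) (nat_lit 107) (nat_lit 1) (nat_lit 108) (nat_lit 1) (nat_lit 325) (nat_lit 421) (nat_lit 274)) (XT.lf (nat_lit 0) (nat_lit 4958857337) (nat_lit 0) (nat_lit 5183293289) (nat_lit 152) (nat_lit 4958857337) (nat_lit 107) (nat_lit 3) (nat_lit 107) (nat_lit 1) (nat_lit 109) (nat_lit 1) (nat_lit 326) (nat_lit 421) (nat_lit 273)))) (XT.nd (nat_lit 78) (nat_lit 152) (nat_lit 0) (XT.lf (nat_lit 76) (nat_lit 4809924629) (nat_lit 0) (nat_lit 5023673156) (nat_lit 76) (nat_lit 5023673156)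 (nat_lit 107) (nat_lit 3) (nat_lit 106) (nat_lit 1) (nat_lit 107) (nat_lit 1) (nat_lit 327) (nat_lit 421) (nat_lit 272)) (XT.nd (nat_lit 78) (nat_lit 0) (nat_lit 0) (XT.lf (nat_lit 152) (nat_lit 14489839946) (nat_lit 0) (nat_lit 65667750) (nat_lit 76) (nat_lit 65667750) (nat_lit 106) (nat_lit 1) (nat_lit 104) (nat_lit 1) (nat_lit 105) (nat_lit 1) (nat_lit 328) (nat_lit 421) (nat_lit 271)) (XT.lf (nat_lit 0) (nat_lit 4732263736) (nat_lit 0) (nat_lit 4916907750) (nat_lit 152) (nat_lit 4732263736) (nat_lit 104) (nat_lit 3) (nat_lit 104) (nat_lit 1) (nat_lit 106) (nat_lit 1) (nat_lit 329) (nat_lit 421) (nat_lit 270))))) (XT.nd (nat_lit 234) (nat_lit 304) (nat_lit 0) (XT.nd (nat_lit 78) (nat_lit 152) (nat_lit 0) (XT.lf (nat_lit 76) (nat_lit 4599210630) (nat_lit 0) (nat_lit 4775062072) (nat_lit 76) (nat_lit 4775062072) (nat_lit 104) (nat_lit 3) (nat_lit 103) (nat_lit 1) (nat_lit 104) (nat_lit 1) (nat_lit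 330) (nat_lit 421) (nat_lit 269)) (XT.nd (nat_lit 78) (nat_lit 0) (nat_lit 0) (XT.lf (nat_lit 152) (nat_lit 13816473446) (nat_lit 0) (nat_lit 54025020) (nat_lit 76) (nat_lit 54025020) (nat_lit 103) (nat_lit 1) (nat_lit 101) (nat_lit 1) (nat_lit 102) (nat_lit 1) (nat_lit 331) (nat_lit 421) (nat_lit 268)) (XT.lf (nat_lit 0) (nat_lit 4514768452) (nat_lit 0) (nat_lit 4666675539) (nat_lit 152) (nat_lit 4514768452) (nat_lit 101) (nat_lit 3) (nat_lit 101) (nat_lit 1) (nat_lit 103) (nat_lit 1) (nat_lit 332) (nat_lit 421) (nat_lit 267)))) (XT.nd (nat_lit 156) (nat_lit 76) (nat_lit 0) (XT.nd (nat_lit 78) (nat_lit 152) (nat_lit 0) (XT.lf (nat_lit 76) (nat_lit 4395280762) (nat_lit 0) (nat_lit 4539954178) (nat_lit 76) (nat_lit 4539954178) (nat_lit 101) (nat_lit 3) (nat_lit 100) (nat_lit 1) (nat_lit 101) (nat_lit 1) (nat_lit 333) (nat_lit 421) (nat_lit 266)) (XT.lf (nat_lit 152) (nat_lit 13172224290) (nat_lit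 0) (nat_lit 44446518) (nat_lit 76) (nat_lit 44446518) (nat_lit 100) (nat_lit 1) (nat_lit 98) (nat_lit 1) (nat_lit 99) (nat_lit 1) (nat_lit 334) (nat_lit 421) (nat_lit 265))) (XT.nd (nat_lit 78) (nat_lit 76) (nat_lit 0) (XT.lf (nat_lit 0) (nat_lit 4306238193) (nat_lit 0) (nat_lit 4431212529) (nat_lit 152) (nat_lit 4306238193) (nat_lit 98) (nat_lit 3) (nat_lit 98) (nat_lit 1) (nat_lit 100) (nat_lit 1) (nat_lit 335) (nat_lit 421) (nat_lit 264)) (XT.lf (nat_lit 76) (nat_lit 4198388165) (nat_lit 0) (nat_lit 4317411342) (nat_lit 76) (nat_lit 4317411342) (nat_lit 98) (nat_lit 3) (nat_lit 97) (nat_lit 1) (nat_lit 98) (nat_lit 1) (nat_lit 336) (nat_lit 421) (nat_lit 263)))))) (XT.nd (nat_lit 468) (nat_lit 608) (nat_lit 0) (XT.nd (nat_lit 234) (nat_lit 228) (nat_lit 0) (XT.nd (nat_lit 78) (nat_lit 76) (nat_lit 0) (XT.lf (nat_lit 152) (nat_lit 12556228563) (nat_lit 0) (nat_lit 36566260) (nat_lit 76) (nat_lit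 36566260) (nat_lit 97) (nat_lit 1) (nat_lit 95) (nat_lit 1) (nat_lit 96) (nat_lit 1) (nat_lit 337) (nat_lit 421) (nat_lit 262)) (XT.nd (nat_lit 78) (nat_lit 76) (nat_lit 0) (XT.lf (nat_lit 0) (nat_lit 4106492832) (nat_lit 0) (nat_lit 4209309528) (nat_lit 152) (nat_lit 4106492832) (nat_lit 95) (nat_lit 3) (nat_lit 95) (nat_lit 1) (nat_lit 97) (nat_lit 1) (nat_lit 338) (nat_lit 421) (nat_lit 261)) (XT.lf (nat_lit 76) (nat_lit 4008671766) (nat_lit 0) (nat_lit 4106592429) (nat_lit 76) (nat_lit 4106592429) (nat_lit 95) (nat_lit 3) (nat_lit 94) (nat_lit 1) (nat_lit 95) (nat_lit 1) (nat_lit 339) (nat_lit 421) (nat_lit 260)))) (XT.nd (nat_lit 78) (nat_lit 76) (nat_lit 0) (XT.lf (nat_lit 152) (nat_lit 11967570829) (nat_lit 0) (nat_lit 30083152) (nat_lit 76) (nat_lit 30083152) (nat_lit 94) (nat_lit 1) (nat_lit 92) (nat_lit 1) (nat_lit 93) (nat_lit 1) (nat_lit 340) (nat_lit 421) (nat_lit 259)) (XT.nd (nat_lit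 78) (nat_lit 76) (nat_lit 0) (XT.lf (nat_lit 0) (nat_lit 3915317066) (nat_lit 0) (nat_lit 3999904616) (nat_lit 152) (nat_lit 3915317066) (nat_lit 92) (nat_lit 3) (nat_lit 92) (nat_lit 1) (nat_lit 94) (nat_lit 1) (nat_lit 341) (nat_lit 421) (nat_lit 258)) (XT.lf (nat_lit 76) (nat_lit 3826179833) (nat_lit 0) (nat_lit 3906739404) (nat_lit 76) (nat_lit 3906739404) (nat_lit 92) (nat_lit 3) (nat_lit 91) (nat_lit 1) (nat_lit 92) (nat_lit 1) (nat_lit 342) (nat_lit 421) (nat_lit 257))))) (XT.nd (nat_lit 234) (nat_lit 380) (nat_lit 0) (XT.nd (nat_lit 78) (nat_lit 76) (nat_lit 0) (XT.lf (nat_lit 152) (nat_lit 11405303010) (nat_lit 0) (nat_lit 24749484) (nat_lit 76) (nat_lit 24749484) (nat_lit 91) (nat_lit 1) (nat_lit 89) (nat_lit 1) (nat_lit 90) (nat_lit 1) (nat_lit 343) (nat_lit 421) (nat_lit 256)) (XT.nd (nat_lit 78) (nat_lit 76) (nat_lit 0) (XT.lf (nat_lit 0) (nat_lit 3732469851) (nat_lit 0) (nat_lit 3802060237)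 (nat_lit 152) (nat_lit 3732469851) (nat_lit 89) (nat_lit 3) (nat_lit 89) (nat_lit 1) (nat_lit 91) (nat_lit 1) (nat_lit 344) (nat_lit 421) (nat_lit 255)) (XT.lf (nat_lit 76) (nat_lit 3650889189) (nat_lit 0) (nat_lit 3717165748) (nat_lit 76) (nat_lit 3717165748) (nat_lit 89) (nat_lit 3) (nat_lit 88) (nat_lit 1) (nat_lit 89) (nat_lit 1) (nat_lit 345) (nat_lit 421) (nat_lit 254)))) (XT.nd (nat_lit 156) (nat_lit 228) (nat_lit 0) (XT.nd (nat_lit 78) (nat_lit 0) (nat_lit 0) (XT.lf (nat_lit 152) (nat_lit 10868459462) (nat_lit 0) (nat_lit 20361462) (nat_lit 76) (nat_lit 20361462) (nat_lit 88) (nat_lit 1) (nat_lit 86) (nat_lit 1) (nat_lit 87) (nat_lit 1) (nat_lit 346) (nat_lit 421) (nat_lit 253)) (XT.lf (nat_lit 0) (nat_lit 3557692003) (nat_lit 0) (nat_lit 3614944186) (nat_lit 152) (nat_lit 3557692003) (nat_lit 86) (nat_lit 3) (nat_lit 86) (nat_lit 1) (nat_lit 88) (nat_lit 1) (nat_lit 347) (nat_lit 421)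 (nat_lit 252))) (XT.nd (nat_lit 78) (nat_lit 152) (nat_lit 0) (XT.lf (nat_lit 76) (nat_lit 3482720877) (nat_lit 0) (nat_lit 3537246766) (nat_lit 76) (nat_lit 3537246766) (nat_lit 86) (nat_lit 3) (nat_lit 85) (nat_lit 1) (nat_lit 86) (nat_lit 1) (nat_lit 348) (nat_lit 421) (nat_lit 251)) (XT.lf (nat_lit 152) (nat_lit 10356068924) (nat_lit 0) (nat_lit 16751425) (nat_lit 76) (nat_lit 16751425) (nat_lit 85) (nat_lit 1) (nat_lit 83) (nat_lit 1) (nat_lit 84) (nat_lit 1) (nat_lit 349) (nat_lit 421) (nat_lit 250))))))))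
noncomputable def ec360 : XT := (XT.nd (nat_lit 1950) (nat_lit 1900) (nat_lit 0) (XT.nd (nat_lit 936) (nat_lit 912) (nat_lit 0) (XT.nd (nat_lit 468) (nat_lit 456) (nat_lit 0) (XT.nd (nat_lit 234) (nat_lit 228) (nat_lit 0) (XT.nd (nat_lit 78) (nat_lit 228) (nat_lit 0) (XT.lf (nat_lit 0) (nat_lit 3390712319) (nat_lit 0) (nat_lit 3437813832) (nat_lit 152) (nat_lit 3390712319) (nat_lit 83) (nat_lit 3) (nat_lit 83) (nat_lit 1) (nat_lit 85) (nat_lit 1) (nat_lit 350) (nat_lit 421) (nat_lit 249)) (XT.nd (nat_lit 78) (nat_lit 152) (nat_lit 0) (XT.lf (nat_lit 76) (nat_lit 3321552900) (nat_lit 0) (nat_lit 3366411484) (nat_lit 76) (nat_lit 3366411484) (nat_lit 83) (nat_lit 3) (nat_lit 82) (nat_lit 1) (nat_lit 83) (nat_lit 1) (nat_lit 351) (nat_lit 421) (nat_lit 248)) (XT.lf (nat_lit 152) (nat_lit 9867163941) (nat_lit 0) (nat_lit 13781438) (nat_lit 76) (nat_lit 13781438) (nat_lit 82) (nat_lit 1) (nat_lit 80)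 (nat_lit 1) (nat_lit 81) (nat_lit 1) (nat_lit 352) (nat_lit 421) (nat_lit 247)))) (XT.nd (nat_lit 78) (nat_lit 228) (nat_lit 0) (XT.lf (nat_lit 0) (nat_lit 3231252468) (nat_lit 0) (nat_lit 3270002999) (nat_lit 152) (nat_lit 3231252468) (nat_lit 80) (nat_lit 3) (nat_lit 80) (nat_lit 1) (nat_lit 82) (nat_lit 1) (nat_lit 353) (nat_lit 421) (nat_lit 246)) (XT.nd (nat_lit 78) (nat_lit 152) (nat_lit 0) (XT.lf (nat_lit 76) (nat_lit 3167230568) (nat_lit 0) (nat_lit 3204135836) (nat_lit 76) (nat_lit 3204135836) (nat_lit 80) (nat_lit 3) (nat_lit 79) (nat_lit 1) (nat_lit 80) (nat_lit 1) (nat_lit 354) (nat_lit 421) (nat_lit 245)) (XT.lf (nat_lit 152) (nat_lit 9400788201) (nat_lit 0) (nat_lit 11338023) (nat_lit 76) (nat_lit 11338023) (nat_lit 79) (nat_lit 1) (nat_lit 77) (nat_lit 1) (nat_lit 78) (nat_lit 1) (nat_lit 355) (nat_lit 421) (nat_lit 244))))) (XT.nd (nat_lit 234) (nat_lit 228) (nat_lit 0) (XT.nd (nat_lit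 78) (nat_lit 228) (nat_lit 0) (XT.lf (nat_lit 0) (nat_lit 3079030880) (nat_lit 0) (nat_lit 3110911038) (nat_lit 152) (nat_lit 3079030880) (nat_lit 77) (nat_lit 3) (nat_lit 77) (nat_lit 1) (nat_lit 79) (nat_lit 1) (nat_lit 356) (nat_lit 421) (nat_lit 243)) (XT.nd (nat_lit 78) (nat_lit 152) (nat_lit 0) (XT.lf (nat_lit 76) (nat_lit 3019574880) (nat_lit 0) (nat_lit 3049936935) (nat_lit 76) (nat_lit 3049936935) (nat_lit 77) (nat_lit 3) (nat_lit 76) (nat_lit 1) (nat_lit 77) (nat_lit 1) (nat_lit 357) (nat_lit 421) (nat_lit 242)) (XT.lf (nat_lit 152) (nat_lit 8956002201) (nat_lit 0) (nat_lit 9327820) (nat_lit 76) (nat_lit 9327820) (nat_lit 76) (nat_lit 1) (nat_lit 74) (nat_lit 1) (nat_lit 75) (nat_lit 1) (nat_lit 358) (nat_lit 421) (nat_lit 241)))) (XT.nd (nat_lit 78) (nat_lit 228) (nat_lit 0) (XT.lf (nat_lit 0) (nat_lit 2933765827) (nat_lit 0) (nat_lit 2959993712) (nat_lit 152) (nat_lit 2933765827) (nat_lit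 74) (nat_lit 3) (nat_lit 74) (nat_lit 1) (nat_lit 76) (nat_lit 1) (nat_lit 359) (nat_lit 421) (nat_lit 240)) (XT.nd (nat_lit 78) (nat_lit 152) (nat_lit 0) (XT.lf (nat_lit 76) (nat_lit 2878389302) (nat_lit 0) (nat_lit 2903368240) (nat_lit 76) (nat_lit 2903368240) (nat_lit 74) (nat_lit 3) (nat_lit 73) (nat_lit 1) (nat_lit 74) (nat_lit 1) (nat_lit 360) (nat_lit 421) (nat_lit 239)) (XT.lf (nat_lit 152) (nat_lit 8531887540) (nat_lit 0) (nat_lit 7674020) (nat_lit 76) (nat_lit 7674020) (nat_lit 73) (nat_lit 1) (nat_lit 71) (nat_lit 1) (nat_lit 72) (nat_lit 1) (nat_lit 361) (nat_lit 421) (nat_lit 238)))))) (XT.nd (nat_lit 468) (nat_lit 456) (nat_lit 0) (XT.nd (nat_lit 234) (nat_lit 228) (nat_lit 0) (XT.nd (nat_lit 78) (nat_lit 228) (nat_lit 0) (XT.lf (nat_lit 0) (nat_lit 2795177838) (nat_lit 0) (nat_lit 2816755584) (nat_lit 152) (nat_lit 2795177838) (nat_lit 71) (nat_lit 3) (nat_lit 71) (nat_lit 1) (nat_lit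 73) (nat_lit 1) (nat_lit 362) (nat_lit 421) (nat_lit 237)) (XT.nd (nat_lit 78) (nat_lit 152) (nat_lit 0) (XT.lf (nat_lit 76) (nat_lit 2743465216) (nat_lit 0) (nat_lit 2764015451) (nat_lit 76) (nat_lit 2764015451) (nat_lit 71) (nat_lit 3) (nat_lit 70) (nat_lit 1) (nat_lit 71) (nat_lit 1) (nat_lit 363) (nat_lit 421) (nat_lit 236)) (XT.lf (nat_lit 152) (nat_lit 8127550103) (nat_lit 0) (nat_lit 6313435) (nat_lit 76) (nat_lit 6313435) (nat_lit 70) (nat_lit 1) (nat_lit 68) (nat_lit 1) (nat_lit 69) (nat_lit 1) (nat_lit 364) (nat_lit 421) (nat_lit 235)))) (XT.nd (nat_lit 78) (nat_lit 228) (nat_lit 0) (XT.lf (nat_lit 0) (nat_lit 2662991564) (nat_lit 0) (nat_lit 2680743629) (nat_lit 152) (nat_lit 2662991564) (nat_lit 68) (nat_lit 3) (nat_lit 68) (nat_lit 1) (nat_lit 70) (nat_lit 1) (nat_lit 365) (nat_lit 421) (nat_lit 234)) (XT.nd (nat_lit 78) (nat_lit 152) (nat_lit 0) (XT.lf (nat_lit 76) (nat_lit 2614586303)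 (nat_lit 0) (nat_lit 2631493032) (nat_lit 76) (nat_lit 2631493032) (nat_lit 68) (nat_lit 3) (nat_lit 67) (nat_lit 1) (nat_lit 68) (nat_lit 1) (nat_lit 366) (nat_lit 421) (nat_lit 233)) (XT.lf (nat_lit 152) (nat_lit 7742122355) (nat_lit 0) (nat_lit 5194079) (nat_lit 76) (nat_lit 5194079) (nat_lit 67) (nat_lit 1) (nat_lit 65) (nat_lit 1) (nat_lit 66) (nat_lit 1) (nat_lit 367) (nat_lit 421) (nat_lit 232))))) (XT.nd (nat_lit 234) (nat_lit 228) (nat_lit 0) (XT.nd (nat_lit 78) (nat_lit 228) (nat_lit 0) (XT.lf (nat_lit 0) (nat_lit 2536937216) (nat_lit 0) (nat_lit 2551541883) (nat_lit 152) (nat_lit 2536937216) (nat_lit 65) (nat_lit 3) (nat_lit 65) (nat_lit 1) (nat_lit 67) (nat_lit 1) (nat_lit 368) (nat_lit 421) (nat_lit 231)) (XT.nd (nat_lit 78) (nat_lit 152) (nat_lit 0) (XT.lf (nat_lit 76) (nat_lit 2491532032) (nat_lit 0) (nat_lit 2505441240) (nat_lit 76) (nat_lit 2505441240) (nat_lit 65) (nat_lit 3)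 (nat_lit 64) (nat_lit 1) (nat_lit 65) (nat_lit 1) (nat_lit 369) (nat_lit 421) (nat_lit 230)) (XT.lf (nat_lit 152) (nat_lit 7374764908) (nat_lit 0) (nat_lit 4273181) (nat_lit 76) (nat_lit 4273181) (nat_lit 64) (nat_lit 1) (nat_lit 62) (nat_lit 1) (nat_lit 63) (nat_lit 1) (nat_lit 370) (nat_lit 421) (nat_lit 229)))) (XT.nd (nat_lit 156) (nat_lit 152) (nat_lit 0) (XT.nd (nat_lit 78) (nat_lit 76) (nat_lit 0) (XT.lf (nat_lit 0) (nat_lit 2416751636) (nat_lit 0) (nat_lit 2428766932) (nat_lit 152) (nat_lit 2416751636) (nat_lit 62) (nat_lit 3) (nat_lit 62) (nat_lit 1) (nat_lit 64) (nat_lit 1) (nat_lit 371) (nat_lit 421) (nat_lit 228)) (XT.lf (nat_lit 76) (nat_lit 2374080436) (nat_lit 0) (nat_lit 2385523575) (nat_lit 76) (nat_lit 2385523575) (nat_lit 62) (nat_lit 3) (nat_lit 61) (nat_lit 1) (nat_lit 62) (nat_lit 1) (nat_lit 372) (nat_lit 421) (nat_lit 227))) (XT.nd (nat_lit 78) (nat_lit 0) (nat_lit 0) (XT.lf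 (nat_lit 152) (nat_lit 7024667518) (nat_lit 0) (nat_lit 3515557) (nat_lit 76) (nat_lit 3515557) (nat_lit 61) (nat_lit 1) (nat_lit 59) (nat_lit 1) (nat_lit 60) (nat_lit 1) (nat_lit 373) (nat_lit 421) (nat_lit 226)) (XT.lf (nat_lit 0) (nat_lit 2302179085) (nat_lit 0) (nat_lit 2312064099) (nat_lit 152) (nat_lit 2302179085) (nat_lit 59) (nat_lit 3) (nat_lit 59) (nat_lit 1) (nat_lit 61) (nat_lit 1) (nat_lit 374) (nat_lit 421) (nat_lit 225))))))) (XT.nd (nat_lit 936) (nat_lit 988) (nat_lit 0) (XT.nd (nat_lit 468) (nat_lit 456) (nat_lit 0) (XT.nd (nat_lit 234) (nat_lit 228) (nat_lit 0) (XT.nd (nat_lit 78) (nat_lit 152) (nat_lit 0) (XT.lf (nat_lit 76) (nat_lit 2262010294) (nat_lit 0) (nat_lit 2271424593) (nat_lit 76) (nat_lit 2271424593) (nat_lit 59) (nat_lit 3) (nat_lit 58) (nat_lit 1) (nat_lit 59) (nat_lit 1) (nat_lit 375) (nat_lit 421) (nat_lit 224)) (XT.nd (nat_lit 78) (nat_lit 0) (nat_lit 0) (XT.lf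 (nat_lit 152) (nat_lit 6691049616) (nat_lit 0) (nat_lit 2892257) (nat_lit 76) (nat_lit 2892257) (nat_lit 58) (nat_lit 1) (nat_lit 56) (nat_lit 1) (nat_lit 57) (nat_lit 1) (nat_lit 376) (nat_lit 421) (nat_lit 223)) (XT.lf (nat_lit 0) (nat_lit 2192971796) (nat_lit 0) (nat_lit 2201104222) (nat_lit 152) (nat_lit 2192971796) (nat_lit 56) (nat_lit 3) (nat_lit 56) (nat_lit 1) (nat_lit 58) (nat_lit 1) (nat_lit 377) (nat_lit 421) (nat_lit 222)))) (XT.nd (nat_lit 78) (nat_lit 152) (nat_lit 0) (XT.lf (nat_lit 76) (nat_lit 2155102843) (nat_lit 0) (nat_lit 2162848010) (nat_lit 76) (nat_lit 2162848010) (nat_lit 56) (nat_lit 3) (nat_lit 55) (nat_lit 1) (nat_lit 56) (nat_lit 1) (nat_lit 378) (nat_lit 421) (nat_lit 221)) (XT.nd (nat_lit 78) (nat_lit 0) (nat_lit 0) (XT.lf (nat_lit 152) (nat_lit 6373160473) (nat_lit 0) (nat_lit 2379467) (nat_lit 76) (nat_lit 2379467) (nat_lit 55) (nat_lit 1) (nat_lit 53) (nat_lit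 1) (nat_lit 54) (nat_lit 1) (nat_lit 379) (nat_lit 421) (nat_lit 220)) (XT.lf (nat_lit 0) (nat_lit 2088890339) (nat_lit 0) (nat_lit 2095580905) (nat_lit 152) (nat_lit 2088890339) (nat_lit 53) (nat_lit 3) (nat_lit 53) (nat_lit 1) (nat_lit 55) (nat_lit 1) (nat_lit 380) (nat_lit 421) (nat_lit 219))))) (XT.nd (nat_lit 234) (nat_lit 228) (nat_lit 0) (XT.nd (nat_lit 78) (nat_lit 152) (nat_lit 0) (XT.lf (nat_lit 76) (nat_lit 2053143085) (nat_lit 0) (nat_lit 2059515054) (nat_lit 76) (nat_lit 2059515054) (nat_lit 53) (nat_lit 3) (nat_lit 52) (nat_lit 1) (nat_lit 53) (nat_lit 1) (nat_lit 381) (nat_lit 421) (nat_lit 218)) (XT.nd (nat_lit 78) (nat_lit 0) (nat_lit 0) (XT.lf (nat_lit 152) (nat_lit 6070279079) (nat_lit 0) (nat_lit 1957593) (nat_lit 76) (nat_lit 1957593) (nat_lit 52) (nat_lit 1) (nat_lit 50) (nat_lit 1) (nat_lit 51) (nat_lit 1) (nat_lit 382) (nat_lit 421) (nat_lit 217)) (XT.lf (nat_lit 0) (nat_lit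 1989703836) (nat_lit 0) (nat_lit 1995208182) (nat_lit 152) (nat_lit 1989703836) (nat_lit 50) (nat_lit 3) (nat_lit 50) (nat_lit 1) (nat_lit 52) (nat_lit 1) (nat_lit 383) (nat_lit 421) (nat_lit 216)))) (XT.nd (nat_lit 78) (nat_lit 152) (nat_lit 0) (XT.lf (nat_lit 76) (nat_lit 1955920796) (nat_lit 0) (nat_lit 1961163030) (nat_lit 76) (nat_lit 1961163030) (nat_lit 50) (nat_lit 3) (nat_lit 49) (nat_lit 1) (nat_lit 50) (nat_lit 1) (nat_lit 384) (nat_lit 421) (nat_lit 215)) (XT.nd (nat_lit 78) (nat_lit 0) (nat_lit 0) (XT.lf (nat_lit 152) (nat_lit 5781713797) (nat_lit 0) (nat_lit 1610517) (nat_lit 76) (nat_lit 1610517) (nat_lit 49) (nat_lit 1) (nat_lit 47) (nat_lit 1) (nat_lit 48) (nat_lit 1) (nat_lit 385) (nat_lit 421) (nat_lit 214)) (XT.lf (nat_lit 0) (nat_lit 1895190066) (nat_lit 0) (nat_lit 1899718505) (nat_lit 152) (nat_lit 1895190066) (nat_lit 47) (nat_lit 3) (nat_lit 47) (nat_lit 1) (nat_lit 49)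 (nat_lit 1) (nat_lit 386) (nat_lit 421) (nat_lit 213)))))) (XT.nd (nat_lit 468) (nat_lit 532) (nat_lit 0) (XT.nd (nat_lit 234) (nat_lit 228) (nat_lit 0) (XT.nd (nat_lit 78) (nat_lit 152) (nat_lit 0) (XT.lf (nat_lit 76) (nat_lit 1863231259) (nat_lit 0) (nat_lit 1867544058) (nat_lit 76) (nat_lit 1867544058) (nat_lit 47) (nat_lit 3) (nat_lit 46) (nat_lit 1) (nat_lit 47) (nat_lit 1) (nat_lit 387) (nat_lit 421) (nat_lit 212)) (XT.nd (nat_lit 78) (nat_lit 0) (nat_lit 0) (XT.lf (nat_lit 152) (nat_lit 5506801846) (nat_lit 0) (nat_lit 1324976) (nat_lit 76) (nat_lit 1324976) (nat_lit 46) (nat_lit 1) (nat_lit 44) (nat_lit 1) (nat_lit 45) (nat_lit 1) (nat_lit 388) (nat_lit 421) (nat_lit 211)) (XT.lf (nat_lit 0) (nat_lit 1805135458) (nat_lit 0) (nat_lit 1808861016) (nat_lit 152) (nat_lit 1805135458) (nat_lit 44) (nat_lit 3) (nat_lit 44) (nat_lit 1) (nat_lit 46) (nat_lit 1) (nat_lit 389) (nat_lit 421) (nat_lit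 210)))) (XT.nd (nat_lit 78) (nat_lit 152) (nat_lit 0) (XT.lf (nat_lit 76) (nat_lit 1774875805) (nat_lit 0) (nat_lit 1778423956) (nat_lit 76) (nat_lit 1778423956) (nat_lit 44) (nat_lit 3) (nat_lit 43) (nat_lit 1) (nat_lit 44) (nat_lit 1) (nat_lit 390) (nat_lit 421) (nat_lit 209)) (XT.nd (nat_lit 78) (nat_lit 0) (nat_lit 0) (XT.lf (nat_lit 152) (nat_lit 5244908647) (nat_lit 0) (nat_lit 1090061) (nat_lit 76) (nat_lit 1090061) (nat_lit 43) (nat_lit 1) (nat_lit 41) (nat_lit 1) (nat_lit 42) (nat_lit 1) (nat_lit 391) (nat_lit 421) (nat_lit 208)) (XT.lf (nat_lit 0) (nat_lit 1719335028) (nat_lit 0) (nat_lit 1722400054) (nat_lit 152) (nat_lit 1719335028) (nat_lit 41) (nat_lit 3) (nat_lit 41) (nat_lit 1) (nat_lit 43) (nat_lit 1) (nat_lit 392) (nat_lit 421) (nat_lit 207))))) (XT.nd (nat_lit 234) (nat_lit 304) (nat_lit 0) (XT.nd (nat_lit 78) (nat_lit 152) (nat_lit 0) (XT.lf (nat_lit 76) (nat_lit 1690662182)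 (nat_lit 0) (nat_lit 1693581254) (nat_lit 76) (nat_lit 1693581254) (nat_lit 41) (nat_lit 3) (nat_lit 40) (nat_lit 1) (nat_lit 41) (nat_lit 1) (nat_lit 393) (nat_lit 421) (nat_lit 206)) (XT.nd (nat_lit 78) (nat_lit 0) (nat_lit 0) (XT.lf (nat_lit 152) (nat_lit 4995427076) (nat_lit 0) (nat_lit 896796) (nat_lit 76) (nat_lit 896796) (nat_lit 40) (nat_lit 1) (nat_lit 38) (nat_lit 1) (nat_lit 39) (nat_lit 1) (nat_lit 394) (nat_lit 421) (nat_lit 205)) (XT.lf (nat_lit 0) (nat_lit 1637592249) (nat_lit 0) (nat_lit 1640113853) (nat_lit 152) (nat_lit 1637592249) (nat_lit 38) (nat_lit 3) (nat_lit 38) (nat_lit 1) (nat_lit 40) (nat_lit 1) (nat_lit 395) (nat_lit 421) (nat_lit 204)))) (XT.nd (nat_lit 156) (nat_lit 76) (nat_lit 0) (XT.nd (nat_lit 78) (nat_lit 152) (nat_lit 0) (XT.lf (nat_lit 76) (nat_lit 1610404784) (nat_lit 0) (nat_lit 1612806312) (nat_lit 76) (nat_lit 1612806312) (nat_lit 38) (nat_lit 3) (nat_lit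 37) (nat_lit 1) (nat_lit 38) (nat_lit 1) (nat_lit 396) (nat_lit 421) (nat_lit 203)) (XT.lf (nat_lit 152) (nat_lit 4757776649) (nat_lit 0) (nat_lit 737796) (nat_lit 76) (nat_lit 737796) (nat_lit 37) (nat_lit 1) (nat_lit 35) (nat_lit 1) (nat_lit 36) (nat_lit 1) (nat_lit 397) (nat_lit 421) (nat_lit 202))) (XT.nd (nat_lit 78) (nat_lit 76) (nat_lit 0) (XT.lf (nat_lit 0) (nat_lit 1559718878) (nat_lit 0) (nat_lit 1561793408) (nat_lit 152) (nat_lit 1559718878) (nat_lit 35) (nat_lit 3) (nat_lit 35) (nat_lit 1) (nat_lit 37) (nat_lit 1) (nat_lit 398) (nat_lit 421) (nat_lit 201)) (XT.lf (nat_lit 76) (nat_lit 1533924785) (nat_lit 0) (nat_lit 1535900528) (nat_lit 76) (nat_lit 1535900528) (nat_lit 35) (nat_lit 3) (nat_lit 34) (nat_lit 1) (nat_lit 35) (nat_lit 1) (nat_lit 399) (nat_lit 421) (nat_lit 200))))))))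
noncomputable def ec361 : XT := (XT.nd (nat_lit 1950) (nat_lit 608) (nat_lit 0) (XT.nd (nat_lit 936) (nat_lit 1064) (nat_lit 0) (XT.nd (nat_lit 468) (nat_lit 456) (nat_lit 0) (XT.nd (nat_lit 234) (nat_lit 228) (nat_lit 0) (XT.nd (nat_lit 78) (nat_lit 76) (nat_lit 0) (XT.lf (nat_lit 152) (nat_lit 4531402653) (nat_lit 0) (nat_lit 606987) (nat_lit 76) (nat_lit 606987) (nat_lit 34) (nat_lit 1) (nat_lit 32) (nat_lit 1) (nat_lit 33) (nat_lit 1) (nat_lit 400) (nat_lit 421) (nat_lit 199)) (XT.nd (nat_lit 78) (nat_lit 76) (nat_lit 0) (XT.lf (nat_lit 0) (nat_lit 1485534754) (nat_lit 0) (nat_lit 1487241475) (nat_lit 152) (nat_lit 1485534754) (nat_lit 32) (nat_lit 3) (nat_lit 32) (nat_lit 1) (nat_lit 34) (nat_lit 1) (nat_lit 401) (nat_lit 421) (nat_lit 198)) (XT.lf (nat_lit 76) (nat_lit 1461050178) (nat_lit 0) (nat_lit 1462675627) (nat_lit 76) (nat_lit 1462675627) (nat_lit 32) (nat_lit 3) (nat_lit 31) (nat_lit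 1) (nat_lit 32) (nat_lit 1) (nat_lit 402) (nat_lit 421) (nat_lit 197)))) (XT.nd (nat_lit 78) (nat_lit 76) (nat_lit 0) (XT.lf (nat_lit 152) (nat_lit 4315775252) (nat_lit 0) (nat_lit 499369) (nat_lit 76) (nat_lit 499369) (nat_lit 31) (nat_lit 1) (nat_lit 29) (nat_lit 1) (nat_lit 30) (nat_lit 1) (nat_lit 403) (nat_lit 421) (nat_lit 196)) (XT.nd (nat_lit 78) (nat_lit 76) (nat_lit 0) (XT.lf (nat_lit 0) (nat_lit 1414867570) (nat_lit 0) (nat_lit 1416271693) (nat_lit 152) (nat_lit 1414867570) (nat_lit 29) (nat_lit 3) (nat_lit 29) (nat_lit 1) (nat_lit 31) (nat_lit 1) (nat_lit 404) (nat_lit 421) (nat_lit 195)) (XT.lf (nat_lit 76) (nat_lit 1391615751) (nat_lit 0) (nat_lit 1392953011) (nat_lit 76) (nat_lit 1392953011) (nat_lit 29) (nat_lit 3) (nat_lit 28) (nat_lit 1) (nat_lit 29) (nat_lit 1) (nat_lit 405) (nat_lit 421) (nat_lit 194))))) (XT.nd (nat_lit 234) (nat_lit 228) (nat_lit 0) (XT.nd (nat_lit 78) (nat_lit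 76) (nat_lit 0) (XT.lf (nat_lit 152) (nat_lit 4110388576) (nat_lit 0) (nat_lit 410832) (nat_lit 76) (nat_lit 410832) (nat_lit 28) (nat_lit 1) (nat_lit 26) (nat_lit 1) (nat_lit 27) (nat_lit 1) (nat_lit 406) (nat_lit 421) (nat_lit 193)) (XT.nd (nat_lit 78) (nat_lit 76) (nat_lit 0) (XT.lf (nat_lit 0) (nat_lit 1347552623) (nat_lit 0) (nat_lit 1348707799) (nat_lit 152) (nat_lit 1347552623) (nat_lit 26) (nat_lit 3) (nat_lit 26) (nat_lit 1) (nat_lit 28) (nat_lit 1) (nat_lit 407) (nat_lit 421) (nat_lit 192)) (XT.lf (nat_lit 76) (nat_lit 1325463011) (nat_lit 0) (nat_lit 1326563178) (nat_lit 76) (nat_lit 1326563178) (nat_lit 26) (nat_lit 3) (nat_lit 25) (nat_lit 1) (nat_lit 26) (nat_lit 1) (nat_lit 408) (nat_lit 421) (nat_lit 191)))) (XT.nd (nat_lit 78) (nat_lit 76) (nat_lit 0) (XT.lf (nat_lit 152) (nat_lit 3914759802) (nat_lit 0) (nat_lit 337993) (nat_lit 76) (nat_lit 337993) (nat_lit 25) (nat_lit 1) (nat_lit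 23) (nat_lit 1) (nat_lit 24) (nat_lit 1) (nat_lit 409) (nat_lit 421) (nat_lit 190)) (XT.nd (nat_lit 78) (nat_lit 76) (nat_lit 0) (XT.lf (nat_lit 0) (nat_lit 1283432566) (nat_lit 0) (nat_lit 1284382932) (nat_lit 152) (nat_lit 1283432566) (nat_lit 23) (nat_lit 3) (nat_lit 23) (nat_lit 1) (nat_lit 25) (nat_lit 1) (nat_lit 410) (nat_lit 421) (nat_lit 189)) (XT.lf (nat_lit 76) (nat_lit 1262440070) (nat_lit 0) (nat_lit 1263345180) (nat_lit 76) (nat_lit 1263345180) (nat_lit 23) (nat_lit 3) (nat_lit 22) (nat_lit 1) (nat_lit 23) (nat_lit 1) (nat_lit 411) (nat_lit 421) (nat_lit 188)))))) (XT.nd (nat_lit 468) (nat_lit 608) (nat_lit 0) (XT.nd (nat_lit 234) (nat_lit 228) (nat_lit 0) (XT.nd (nat_lit 78) (nat_lit 76) (nat_lit 0) (XT.lf (nat_lit 152) (nat_lit 3728428242) (nat_lit 0) (nat_lit 278067) (nat_lit 76) (nat_lit 278067) (nat_lit 22) (nat_lit 1) (nat_lit 20) (nat_lit 1) (nat_lit 21) (nat_lit 1) (nat_lit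 412) (nat_lit 421) (nat_lit 187)) (XT.nd (nat_lit 78) (nat_lit 76) (nat_lit 0) (XT.lf (nat_lit 0) (nat_lit 1222357137) (nat_lit 0) (nat_lit 1223139005) (nat_lit 152) (nat_lit 1222357137) (nat_lit 20) (nat_lit 3) (nat_lit 20) (nat_lit 1) (nat_lit 22) (nat_lit 1) (nat_lit 413) (nat_lit 421) (nat_lit 186)) (XT.lf (nat_lit 76) (nat_lit 1202401494) (nat_lit 0) (nat_lit 1203146130) (nat_lit 76) (nat_lit 1203146130) (nat_lit 20) (nat_lit 3) (nat_lit 19) (nat_lit 1) (nat_lit 20) (nat_lit 1) (nat_lit 414) (nat_lit 421) (nat_lit 185)))) (XT.nd (nat_lit 78) (nat_lit 76) (nat_lit 0) (XT.lf (nat_lit 152) (nat_lit 3550954442) (nat_lit 0) (nat_lit 228767) (nat_lit 76) (nat_lit 228767) (nat_lit 19) (nat_lit 1) (nat_lit 17) (nat_lit 1) (nat_lit 18) (nat_lit 1) (nat_lit 415) (nat_lit 421) (nat_lit 184)) (XT.nd (nat_lit 78) (nat_lit 76) (nat_lit 0) (XT.lf (nat_lit 0) (nat_lit 1164182897) (nat_lit 0) (nat_lit 1164826142)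 (nat_lit 152) (nat_lit 1164182897) (nat_lit 17) (nat_lit 3) (nat_lit 17) (nat_lit 1) (nat_lit 19) (nat_lit 1) (nat_lit 416) (nat_lit 421) (nat_lit 183)) (XT.lf (nat_lit 76) (nat_lit 1145208136) (nat_lit 0) (nat_lit 1145820750) (nat_lit 76) (nat_lit 1145820750) (nat_lit 17) (nat_lit 3) (nat_lit 16) (nat_lit 1) (nat_lit 17) (nat_lit 1) (nat_lit 417) (nat_lit 421) (nat_lit 182))))) (XT.nd (nat_lit 234) (nat_lit 380) (nat_lit 0) (XT.nd (nat_lit 78) (nat_lit 76) (nat_lit 0) (XT.lf (nat_lit 152) (nat_lit 3381919293) (nat_lit 0) (nat_lit 188207) (nat_lit 76) (nat_lit 188207) (nat_lit 16) (nat_lit 1) (nat_lit 14) (nat_lit 1) (nat_lit 15) (nat_lit 1) (nat_lit 418) (nat_lit 421) (nat_lit 181)) (XT.nd (nat_lit 78) (nat_lit 76) (nat_lit 0) (XT.lf (nat_lit 0) (nat_lit 1108772965) (nat_lit 0) (nat_lit 1109302165) (nat_lit 152) (nat_lit 1108772965) (nat_lit 14) (nat_lit 3) (nat_lit 14) (nat_lit 1) (nat_lit 16)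 (nat_lit 1) (nat_lit 419) (nat_lit 421) (nat_lit 180)) (XT.lf (nat_lit 76) (nat_lit 1090726950) (nat_lit 0) (nat_lit 1091230949) (nat_lit 76) (nat_lit 1091230949) (nat_lit 14) (nat_lit 3) (nat_lit 13) (nat_lit 1) (nat_lit 14) (nat_lit 1) (nat_lit 420) (nat_lit 421) (nat_lit 179)))) (XT.nd (nat_lit 156) (nat_lit 228) (nat_lit 0) (XT.nd (nat_lit 78) (nat_lit 0) (nat_lit 0) (XT.lf (nat_lit 152) (nat_lit 3220923168) (nat_lit 0) (nat_lit 154838) (nat_lit 76) (nat_lit 154838) (nat_lit 13) (nat_lit 1) (nat_lit 11) (nat_lit 1) (nat_lit 12) (nat_lit 1) (nat_lit 421) (nat_lit 421) (nat_lit 178)) (XT.lf (nat_lit 0) (nat_lit 1055996753) (nat_lit 0) (nat_lit 1056432127) (nat_lit 152) (nat_lit 1055996753) (nat_lit 11) (nat_lit 3) (nat_lit 11) (nat_lit 1) (nat_lit 13) (nat_lit 1) (nat_lit 422) (nat_lit 421) (nat_lit 177))) (XT.nd (nat_lit 78) (nat_lit 152) (nat_lit 0) (XT.lf (nat_lit 76) (nat_lit 1038830792)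 (nat_lit 0) (nat_lit 1039245434) (nat_lit 76) (nat_lit 1039245434) (nat_lit 11) (nat_lit 3) (nat_lit 10) (nat_lit 1) (nat_lit 11) (nat_lit 1) (nat_lit 423) (nat_lit 421) (nat_lit 176)) (XT.lf (nat_lit 152) (nat_lit 3067585076) (nat_lit 0) (nat_lit 127386) (nat_lit 76) (nat_lit 127386) (nat_lit 10) (nat_lit 1) (nat_lit 8) (nat_lit 1) (nat_lit 9) (nat_lit 1) (nat_lit 424) (nat_lit 421) (nat_lit 175))))))) (XT.nd (nat_lit 1014) (nat_lit 0) (nat_lit 0) (XT.nd (nat_lit 468) (nat_lit 152) (nat_lit 0) (XT.nd (nat_lit 234) (nat_lit 228) (nat_lit 0) (XT.nd (nat_lit 78) (nat_lit 228) (nat_lit 0) (XT.lf (nat_lit 0) (nat_lit 1005729704) (nat_lit 0) (nat_lit 1006087887) (nat_lit 152) (nat_lit 1005729704) (nat_lit 8) (nat_lit 3) (nat_lit 8) (nat_lit 1) (nat_lit 10) (nat_lit 1) (nat_lit 425) (nat_lit 421) (nat_lit 174)) (XT.nd (nat_lit 78) (nat_lit 152) (nat_lit 0) (XT.lf (nat_lit 76) (nat_lit 989398217) (nat_lit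 0) (nat_lit 989739343) (nat_lit 76) (nat_lit 989739343) (nat_lit 8) (nat_lit 3) (nat_lit 7) (nat_lit 1) (nat_lit 8) (nat_lit 1) (nat_lit 426) (nat_lit 421) (nat_lit 173)) (XT.lf (nat_lit 152) (nat_lit 2921541848) (nat_lit 0) (nat_lit 104800) (nat_lit 76) (nat_lit 104800) (nat_lit 7) (nat_lit 1) (nat_lit 5) (nat_lit 1) (nat_lit 6) (nat_lit 1) (nat_lit 427) (nat_lit 421) (nat_lit 172)))) (XT.nd (nat_lit 78) (nat_lit 228) (nat_lit 0) (XT.lf (nat_lit 0) (nat_lit 957853043) (nat_lit 0) (nat_lit 958147721) (nat_lit 152) (nat_lit 957853043) (nat_lit 5) (nat_lit 3) (nat_lit 5) (nat_lit 1) (nat_lit 7) (nat_lit 1) (nat_lit 428) (nat_lit 421) (nat_lit 171)) (XT.nd (nat_lit 78) (nat_lit 152) (nat_lit 0) (XT.lf (nat_lit 76) (nat_lit 942313269) (nat_lit 0) (nat_lit 942593915) (nat_lit 76) (nat_lit 942593915) (nat_lit 5) (nat_lit 3) (nat_lit 4) (nat_lit 1) (nat_lit 5) (nat_lit 1) (nat_lit 429) (nat_lit 421) (nat_lit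 170)) (XT.lf (nat_lit 152) (nat_lit 2782447341) (nat_lit 0) (nat_lit 86219) (nat_lit 76) (nat_lit 86219) (nat_lit 4) (nat_lit 1) (nat_lit 2) (nat_lit 1) (nat_lit 3) (nat_lit 1) (nat_lit 430) (nat_lit 421) (nat_lit 169))))) (XT.nd (nat_lit 234) (nat_lit 0) (nat_lit 0) (XT.nd (nat_lit 78) (nat_lit 152) (nat_lit 0) (XT.lf (nat_lit 0) (nat_lit 912253522) (nat_lit 0) (nat_lit 912495954) (nat_lit 152) (nat_lit 912253522) (nat_lit 2) (nat_lit 3) (nat_lit 2) (nat_lit 1) (nat_lit 4) (nat_lit 1) (nat_lit 431) (nat_lit 421) (nat_lit 168)) (XT.nd (nat_lit 78) (nat_lit 76) (nat_lit 0) (XT.lf (nat_lit 76) (nat_lit 897465276) (nat_lit 0) (nat_lit 897696163) (nat_lit 76) (nat_lit 897696163) (nat_lit 2) (nat_lit 3) (nat_lit 1) (nat_lit 1) (nat_lit 2) (nat_lit 1) (nat_lit 432) (nat_lit 421) (nat_lit 167)) (XT.lf (nat_lit 0) (nat_lit 55877222518) (nat_lit 0) (nat_lit 0) (nat_lit 0) (nat_lit 0) (nat_lit 0) (nat_lit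 0) (nat_lit 1) (nat_lit 0) (nat_lit 1) (nat_lit 0) (nat_lit 433) (nat_lit 421) (nat_lit 166)))) (XT.nd (nat_lit 156) (nat_lit 0) (nat_lit 0) (XT.nd (nat_lit 78) (nat_lit 0) (nat_lit 0) (XT.lf (nat_lit 0) (nat_lit 55877212004) (nat_lit 0) (nat_lit 0) (nat_lit 0) (nat_lit 0) (nat_lit 0) (nat_lit 0) (nat_lit 1) (nat_lit 0) (nat_lit 1) (nat_lit 0) (nat_lit 434) (nat_lit 421) (nat_lit 165)) (XT.lf (nat_lit 0) (nat_lit 55877201992) (nat_lit 0) (nat_lit 0) (nat_lit 0) (nat_lit 0) (nat_lit 0) (nat_lit 0) (nat_lit 1) (nat_lit 0) (nat_lit 1) (nat_lit 0) (nat_lit 435) (nat_lit 421) (nat_lit 164))) (XT.nd (nat_lit 78) (nat_lit 0) (nat_lit 0) (XT.lf (nat_lit 0) (nat_lit 55877192456) (nat_lit 0) (nat_lit 0) (nat_lit 0) (nat_lit 0) (nat_lit 0) (nat_lit 0) (nat_lit 1) (nat_lit 0) (nat_lit 1) (nat_lit 0) (nat_lit 436) (nat_lit 421) (nat_lit 163)) (XT.lf (nat_lit 0) (nat_lit 55877183374) (nat_lit 0) (nat_lit 0)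 (nat_lit 0) (nat_lit 0) (nat_lit 0) (nat_lit 0) (nat_lit 1) (nat_lit 0) (nat_lit 1) (nat_lit 0) (nat_lit 437) (nat_lit 421) (nat_lit 162)))))) (XT.nd (nat_lit 32916) (nat_lit 0) (nat_lit 22268) (XT.nd (nat_lit 32682) (nat_lit 0) (nat_lit 22192) (XT.nd (nat_lit 78) (nat_lit 0) (nat_lit 0) (XT.lf (nat_lit 0) (nat_lit 55877174724) (nat_lit 0) (nat_lit 0) (nat_lit 0) (nat_lit 0) (nat_lit 0) (nat_lit 0) (nat_lit 1) (nat_lit 0) (nat_lit 1) (nat_lit 0) (nat_lit 438) (nat_lit 421) (nat_lit 161)) (XT.nd (nat_lit 78) (nat_lit 0) (nat_lit 0) (XT.lf (nat_lit 0) (nat_lit 55877166487) (nat_lit 0) (nat_lit 0) (nat_lit 0) (nat_lit 0) (nat_lit 0) (nat_lit 0) (nat_lit 1) (nat_lit 0) (nat_lit 1) (nat_lit 0) (nat_lit 439) (nat_lit 421) (nat_lit 160)) (XT.lf (nat_lit 0) (nat_lit 55877158642) (nat_lit 0) (nat_lit 0) (nat_lit 0) (nat_lit 0) (nat_lit 0) (nat_lit 0) (nat_lit 1) (nat_lit 0) (nat_lit 1) (nat_lit 0) (nat_lit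 440) (nat_lit 421) (nat_lit 159)))) (XT.nd (nat_lit 78) (nat_lit 0) (nat_lit 0) (XT.lf (nat_lit 836) (nat_lit 29361091922) (nat_lit 0) (nat_lit 52130551218) (nat_lit 836) (nat_lit 29361091922) (nat_lit 303) (nat_lit 1) (nat_lit 292) (nat_lit 0) (nat_lit 303) (nat_lit 0) (nat_lit 176) (nat_lit 422) (nat_lit 422)) (XT.nd (nat_lit 78) (nat_lit 0) (nat_lit 76) (XT.lf (nat_lit 836) (nat_lit 113807257877) (nat_lit 76) (nat_lit 51289735876) (nat_lit 0) (nat_lit 51289735876) (nat_lit 303) (nat_lit 1) (nat_lit 293) (nat_lit 1) (nat_lit 292) (nat_lit 0) (nat_lit 177) (nat_lit 422) (nat_lit 421)) (XT.lf (nat_lit 836) (nat_lit 54238825509) (nat_lit 0) (nat_lit 102754768959) (nat_lit 760) (nat_lit 54238825509) (nat_lit 304) (nat_lit 1) (nat_lit 293) (nat_lit 1) (nat_lit 303) (nat_lit 1) (nat_lit 178) (nat_lit 422) (nat_lit 420))))) (XT.nd (nat_lit 234) (nat_lit 0) (nat_lit 152) (XT.nd (nat_lit 78) (nat_lit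 0) (nat_lit 76) (XT.lf (nat_lit 836) (nat_lit 101744499981) (nat_lit 76) (nat_lit 52250066475) (nat_lit 0) (nat_lit 52250066475) (nat_lit 304) (nat_lit 1) (nat_lit 294) (nat_lit 1) (nat_lit 293) (nat_lit 1) (nat_lit 179) (nat_lit 422) (nat_lit 419)) (XT.nd (nat_lit 78) (nat_lit 0) (nat_lit 0) (XT.lf (nat_lit 836) (nat_lit 46832016280) (nat_lit 0) (nat_lit 107750901154) (nat_lit 760) (nat_lit 46832016280) (nat_lit 305) (nat_lit 1) (nat_lit 294) (nat_lit 1) (nat_lit 304) (nat_lit 1) (nat_lit 180) (nat_lit 422) (nat_lit 418)) (XT.lf (nat_lit 836) (nat_lit 84230431541) (nat_lit 76) (nat_lit 56251015321) (nat_lit 0) (nat_lit 56251015321) (nat_lit 305) (nat_lit 1) (nat_lit 295) (nat_lit 1) (nat_lit 294) (nat_lit 1) (nat_lit 181) (nat_lit 422) (nat_lit 417)))) (XT.nd (nat_lit 156) (nat_lit 0) (nat_lit 76) (XT.nd (nat_lit 78) (nat_lit 0) (nat_lit 0) (XT.lf (nat_lit 836) (nat_lit 36932611436) (nat_lit 0)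 (nat_lit 118341988963) (nat_lit 760) (nat_lit 36932611436) (nat_lit 306) (nat_lit 1) (nat_lit 295) (nat_lit 1) (nat_lit 305) (nat_lit 1) (nat_lit 182) (nat_lit 422) (nat_lit 416)) (XT.lf (nat_lit 836) (nat_lit 62084853811) (nat_lit 76) (nat_lit 62860851661) (nat_lit 0) (nat_lit 62860851661) (nat_lit 306) (nat_lit 1) (nat_lit 296) (nat_lit 1) (nat_lit 295) (nat_lit 1) (nat_lit 183) (nat_lit 422) (nat_lit 415))) (XT.nd (nat_lit 78) (nat_lit 0) (nat_lit 0) (XT.lf (nat_lit 836) (nat_lit 24923835108) (nat_lit 0) (nat_lit 133719321273) (nat_lit 760) (nat_lit 24923835108) (nat_lit 307) (nat_lit 1) (nat_lit 296) (nat_lit 1) (nat_lit 306) (nat_lit 1) (nat_lit 184) (nat_lit 422) (nat_lit 414)) (XT.lf (nat_lit 836) (nat_lit 36036446403) (nat_lit 76) (nat_lit 71695080254) (nat_lit 0) (nat_lit 71695080254) (nat_lit 307) (nat_lit 1) (nat_lit 297) (nat_lit 1) (nat_lit 296) (nat_lit 1) (nat_lit 185) (nat_lit 422)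 (nat_lit 413))))))))
noncomputable def ec362 : XT := (XT.nd (nat_lit 1950) (nat_lit 2736) (nat_lit 0) (XT.nd (nat_lit 936) (nat_lit 1900) (nat_lit 0) (XT.nd (nat_lit 468) (nat_lit 1368) (nat_lit 0) (XT.nd (nat_lit 234) (nat_lit 380) (nat_lit 0) (XT.nd (nat_lit 78) (nat_lit 1292) (nat_lit 0) (XT.lf (nat_lit 76) (nat_lit 11146069249) (nat_lit 0) (nat_lit 153163113510) (nat_lit 760) (nat_lit 11146069249) (nat_lit 298) (nat_lit 1) (nat_lit 297) (nat_lit 1) (nat_lit 307) (nat_lit 1) (nat_lit 186) (nat_lit 422) (nat_lit 412)) (XT.nd (nat_lit 78) (nat_lit 532) (nat_lit 0) (XT.lf (nat_lit 836) (nat_lit 6731948647) (nat_lit 0) (nat_lit 82411711898) (nat_lit 760) (nat_lit 82411711898) (nat_lit 298) (nat_lit 1) (nat_lit 287) (nat_lit 1) (nat_lit 297) (nat_lit 1) (nat_lit 187) (nat_lit 422) (nat_lit 411)) (XT.lf (nat_lit 532) (nat_lit 159757619409) (nat_lit 0) (nat_lit 4032709800) (nat_lit 456) (nat_lit 4032709800)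 (nat_lit 287) (nat_lit 1) (nat_lit 280) (nat_lit 1) (nat_lit 286) (nat_lit 1) (nat_lit 188) (nat_lit 422) (nat_lit 410)))) (XT.nd (nat_lit 78) (nat_lit 380) (nat_lit 0) (XT.lf (nat_lit 76) (nat_lit 69845753157) (nat_lit 0) (nat_lit 24447211238) (nat_lit 532) (nat_lit 69845753157) (nat_lit 281) (nat_lit 1) (nat_lit 280) (nat_lit 1) (nat_lit 287) (nat_lit 1) (nat_lit 189) (nat_lit 422) (nat_lit 409)) (XT.nd (nat_lit 78) (nat_lit 0) (nat_lit 0) (XT.lf (nat_lit 456) (nat_lit 120186612556) (nat_lit 0) (nat_lit 20212225379) (nat_lit 380) (nat_lit 20212225379) (nat_lit 281) (nat_lit 1) (nat_lit 275) (nat_lit 1) (nat_lit 280) (nat_lit 1) (nat_lit 190) (nat_lit 422) (nat_lit 408)) (XT.lf (nat_lit 76) (nat_lit 49820125462) (nat_lit 0) (nat_lit 57517319192) (nat_lit 456) (nat_lit 49820125462) (nat_lit 276) (nat_lit 1) (nat_lit 275) (nat_lit 1) (nat_lit 281) (nat_lit 1) (nat_lit 191) (nat_lit 422) (nat_lit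 407))))) (XT.nd (nat_lit 234) (nat_lit 684) (nat_lit 0) (XT.nd (nat_lit 78) (nat_lit 304) (nat_lit 0) (XT.lf (nat_lit 456) (nat_lit 79144588771) (nat_lit 0) (nat_lit 37339882039) (nat_lit 380) (nat_lit 37339882039) (nat_lit 276) (nat_lit 1) (nat_lit 270) (nat_lit 1) (nat_lit 275) (nat_lit 1) (nat_lit 192) (nat_lit 422) (nat_lit 406)) (XT.nd (nat_lit 78) (nat_lit 304) (nat_lit 0) (XT.lf (nat_lit 76) (nat_lit 29163729127) (nat_lit 0) (nat_lit 92260618519) (nat_lit 456) (nat_lit 29163729127) (nat_lit 271) (nat_lit 1) (nat_lit 270) (nat_lit 1) (nat_lit 276) (nat_lit 1) (nat_lit 193) (nat_lit 422) (nat_lit 405)) (XT.lf (nat_lit 380) (nat_lit 37013545174) (nat_lit 0) (nat_lit 55210751608) (nat_lit 304) (nat_lit 55210751608) (nat_lit 271) (nat_lit 1) (nat_lit 266) (nat_lit 1) (nat_lit 270) (nat_lit 1) (nat_lit 194) (nat_lit 422) (nat_lit 404)))) (XT.nd (nat_lit 78) (nat_lit 684) (nat_lit 0) (XT.lf (nat_lit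 76) (nat_lit 8053900453) (nat_lit 0) (nat_lit 128295469051) (nat_lit 380) (nat_lit 8053900453) (nat_lit 267) (nat_lit 1) (nat_lit 266) (nat_lit 1) (nat_lit 271) (nat_lit 1) (nat_lit 195) (nat_lit 422) (nat_lit 403)) (XT.nd (nat_lit 78) (nat_lit 304) (nat_lit 0) (XT.lf (nat_lit 76) (nat_lit 67864479509) (nat_lit 0) (nat_lit 5683781986) (nat_lit 380) (nat_lit 67864479509) (nat_lit 262) (nat_lit 1) (nat_lit 261) (nat_lit 1) (nat_lit 266) (nat_lit 1) (nat_lit 196) (nat_lit 422) (nat_lit 402)) (XT.lf (nat_lit 380) (nat_lit 112258551449) (nat_lit 0) (nat_lit 13138773638) (nat_lit 304) (nat_lit 13138773638) (nat_lit 262) (nat_lit 1) (nat_lit 257) (nat_lit 1) (nat_lit 261) (nat_lit 1) (nat_lit 197) (nat_lit 422) (nat_lit 401)))))) (XT.nd (nat_lit 468) (nat_lit 988) (nat_lit 0) (XT.nd (nat_lit 234) (nat_lit 608) (nat_lit 0) (XT.nd (nat_lit 78) (nat_lit 304) (nat_lit 0) (XT.lf (nat_lit 76) (nat_lit 44032739106)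 (nat_lit 0) (nat_lit 47643327671) (nat_lit 380) (nat_lit 44032739106) (nat_lit 258) (nat_lit 1) (nat_lit 257) (nat_lit 1) (nat_lit 262) (nat_lit 1) (nat_lit 198) (nat_lit 422) (nat_lit 400)) (XT.nd (nat_lit 78) (nat_lit 0) (nat_lit 0) (XT.lf (nat_lit 380) (nat_lit 64256015313) (nat_lit 0) (nat_lit 34361769151) (nat_lit 304) (nat_lit 34361769151) (nat_lit 258) (nat_lit 1) (nat_lit 253) (nat_lit 1) (nat_lit 257) (nat_lit 1) (nat_lit 199) (nat_lit 422) (nat_lit 399)) (XT.lf (nat_lit 76) (nat_lit 20263479531) (nat_lit 0) (nat_lit 89803145856) (nat_lit 380) (nat_lit 20263479531) (nat_lit 254) (nat_lit 1) (nat_lit 253) (nat_lit 1) (nat_lit 258) (nat_lit 1) (nat_lit 200) (nat_lit 422) (nat_lit 398)))) (XT.nd (nat_lit 78) (nat_lit 380) (nat_lit 0) (XT.lf (nat_lit 304) (nat_lit 16479420033) (nat_lit 0) (nat_lit 55629213589) (nat_lit 228) (nat_lit 55629213589) (nat_lit 254) (nat_lit 1) (nat_lit 250) (nat_lit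 1) (nat_lit 253) (nat_lit 1) (nat_lit 201) (nat_lit 422) (nat_lit 397)) (XT.nd (nat_lit 78) (nat_lit 0) (nat_lit 0) (XT.lf (nat_lit 380) (nat_lit 118660429039) (nat_lit 0) (nat_lit 3292599221) (nat_lit 304) (nat_lit 3292599221) (nat_lit 250) (nat_lit 1) (nat_lit 245) (nat_lit 1) (nat_lit 249) (nat_lit 1) (nat_lit 202) (nat_lit 422) (nat_lit 396)) (XT.lf (nat_lit 76) (nat_lit 46432703124) (nat_lit 0) (nat_lit 29901795637) (nat_lit 380) (nat_lit 46432703124) (nat_lit 246) (nat_lit 1) (nat_lit 245) (nat_lit 1) (nat_lit 250) (nat_lit 1) (nat_lit 203) (nat_lit 422) (nat_lit 395))))) (XT.nd (nat_lit 234) (nat_lit 532) (nat_lit 0) (XT.nd (nat_lit 78) (nat_lit 228) (nat_lit 0) (XT.lf (nat_lit 304) (nat_lit 67816430851) (nat_lit 0) (nat_lit 26283699828) (nat_lit 228) (nat_lit 26283699828) (nat_lit 246) (nat_lit 1) (nat_lit 242) (nat_lit 1) (nat_lit 245) (nat_lit 1) (nat_lit 204) (nat_lit 422) (nat_lit 394))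 (XT.nd (nat_lit 78) (nat_lit 228) (nat_lit 0) (XT.lf (nat_lit 76) (nat_lit 21424259518) (nat_lit 0) (nat_lit 75212493740) (nat_lit 304) (nat_lit 21424259518) (nat_lit 243) (nat_lit 1) (nat_lit 242) (nat_lit 1) (nat_lit 246) (nat_lit 1) (nat_lit 205) (nat_lit 422) (nat_lit 393)) (XT.lf (nat_lit 304) (nat_lit 17856450668) (nat_lit 0) (nat_lit 48967293928) (nat_lit 228) (nat_lit 48967293928) (nat_lit 243) (nat_lit 1) (nat_lit 239) (nat_lit 1) (nat_lit 242) (nat_lit 1) (nat_lit 206) (nat_lit 422) (nat_lit 392)))) (XT.nd (nat_lit 156) (nat_lit 228) (nat_lit 0) (XT.nd (nat_lit 78) (nat_lit 0) (nat_lit 0) (XT.lf (nat_lit 304) (nat_lit 107467765689) (nat_lit 0) (nat_lit 3068815502) (nat_lit 228) (nat_lit 3068815502) (nat_lit 239) (nat_lit 1) (nat_lit 235) (nat_lit 1) (nat_lit 238) (nat_lit 1) (nat_lit 207) (nat_lit 422) (nat_lit 391)) (XT.lf (nat_lit 76) (nat_lit 40651978077) (nat_lit 0) (nat_lit 30122707564)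 (nat_lit 304) (nat_lit 40651978077) (nat_lit 236) (nat_lit 1) (nat_lit 235) (nat_lit 1) (nat_lit 239) (nat_lit 1) (nat_lit 208) (nat_lit 422) (nat_lit 390))) (XT.nd (nat_lit 78) (nat_lit 0) (nat_lit 0) (XT.lf (nat_lit 304) (nat_lit 55900192190) (nat_lit 0) (nat_lit 26714176011) (nat_lit 228) (nat_lit 26714176011) (nat_lit 236) (nat_lit 1) (nat_lit 232) (nat_lit 1) (nat_lit 235) (nat_lit 1) (nat_lit 209) (nat_lit 422) (nat_lit 389)) (XT.lf (nat_lit 76) (nat_lit 15394867339) (nat_lit 0) (nat_lit 76496962548) (nat_lit 304) (nat_lit 15394867339) (nat_lit 233) (nat_lit 1) (nat_lit 232) (nat_lit 1) (nat_lit 236) (nat_lit 1) (nat_lit 210) (nat_lit 422) (nat_lit 388))))))) (XT.nd (nat_lit 936) (nat_lit 1216) (nat_lit 0) (XT.nd (nat_lit 468) (nat_lit 684) (nat_lit 0) (XT.nd (nat_lit 234) (nat_lit 380) (nat_lit 0) (XT.nd (nat_lit 78) (nat_lit 304) (nat_lit 0) (XT.lf (nat_lit 228) (nat_lit 5641191262) (nat_lit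 0) (nat_lit 49821068179) (nat_lit 152) (nat_lit 49821068179) (nat_lit 233) (nat_lit 1) (nat_lit 230) (nat_lit 1) (nat_lit 232) (nat_lit 1) (nat_lit 211) (nat_lit 422) (nat_lit 387)) (XT.nd (nat_lit 78) (nat_lit 0) (nat_lit 0) (XT.lf (nat_lit 304) (nat_lit 85236508394) (nat_lit 0) (nat_lit 9052735014) (nat_lit 228) (nat_lit 9052735014) (nat_lit 230) (nat_lit 1) (nat_lit 226) (nat_lit 1) (nat_lit 229) (nat_lit 1) (nat_lit 212) (nat_lit 422) (nat_lit 386)) (XT.lf (nat_lit 76) (nat_lit 29771089111) (nat_lit 0) (nat_lit 41880163124) (nat_lit 304) (nat_lit 29771089111) (nat_lit 227) (nat_lit 1) (nat_lit 226) (nat_lit 1) (nat_lit 230) (nat_lit 1) (nat_lit 213) (nat_lit 422) (nat_lit 385)))) (XT.nd (nat_lit 78) (nat_lit 228) (nat_lit 0) (XT.lf (nat_lit 228) (nat_lit 34395901082) (nat_lit 0) (nat_lit 32583024228) (nat_lit 152) (nat_lit 32583024228) (nat_lit 227) (nat_lit 1) (nat_lit 224) (nat_lit 1) (nat_lit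 226) (nat_lit 1) (nat_lit 214) (nat_lit 422) (nat_lit 384)) (XT.nd (nat_lit 78) (nat_lit 228) (nat_lit 0) (XT.lf (nat_lit 76) (nat_lit 4941599239) (nat_lit 0) (nat_lit 87880098515) (nat_lit 228) (nat_lit 4941599239) (nat_lit 225) (nat_lit 1) (nat_lit 224) (nat_lit 1) (nat_lit 227) (nat_lit 1) (nat_lit 215) (nat_lit 422) (nat_lit 383)) (XT.lf (nat_lit 76) (nat_lit 40783885501) (nat_lit 0) (nat_lit 14403411678) (nat_lit 228) (nat_lit 40783885501) (nat_lit 222) (nat_lit 1) (nat_lit 221) (nat_lit 1) (nat_lit 224) (nat_lit 1) (nat_lit 216) (nat_lit 422) (nat_lit 382))))) (XT.nd (nat_lit 234) (nat_lit 380) (nat_lit 0) (XT.nd (nat_lit 78) (nat_lit 152) (nat_lit 0) (XT.lf (nat_lit 228) (nat_lit 56635573009) (nat_lit 0) (nat_lit 18801475754) (nat_lit 152) (nat_lit 18801475754) (nat_lit 222) (nat_lit 1) (nat_lit 219) (nat_lit 1) (nat_lit 221) (nat_lit 1) (nat_lit 217) (nat_lit 422) (nat_lit 381)) (XT.nd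 (nat_lit 78) (nat_lit 152) (nat_lit 0) (XT.lf (nat_lit 76) (nat_lit 15981085261) (nat_lit 0) (nat_lit 60581991362) (nat_lit 228) (nat_lit 15981085261) (nat_lit 220) (nat_lit 1) (nat_lit 219) (nat_lit 1) (nat_lit 222) (nat_lit 1) (nat_lit 218) (nat_lit 422) (nat_lit 380)) (XT.lf (nat_lit 228) (nat_lit 7486563072) (nat_lit 0) (nat_lit 41698695084) (nat_lit 152) (nat_lit 41698695084) (nat_lit 220) (nat_lit 1) (nat_lit 217) (nat_lit 1) (nat_lit 219) (nat_lit 1) (nat_lit 219) (nat_lit 422) (nat_lit 379)))) (XT.nd (nat_lit 78) (nat_lit 152) (nat_lit 0) (XT.lf (nat_lit 228) (nat_lit 73582778520) (nat_lit 0) (nat_lit 7844535952) (nat_lit 152) (nat_lit 7844535952) (nat_lit 217) (nat_lit 1) (nat_lit 214) (nat_lit 1) (nat_lit 216) (nat_lit 1) (nat_lit 220) (nat_lit 422) (nat_lit 378)) (XT.nd (nat_lit 78) (nat_lit 152) (nat_lit 0) (XT.lf (nat_lit 76) (nat_lit 24495887288) (nat_lit 0) (nat_lit 38681732153)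 (nat_lit 228) (nat_lit 24495887288) (nat_lit 215) (nat_lit 1) (nat_lit 214) (nat_lit 1) (nat_lit 217) (nat_lit 1) (nat_lit 221) (nat_lit 422) (nat_lit 377)) (XT.lf (nat_lit 228) (nat_lit 24947871913) (nat_lit 0) (nat_lit 30586846626) (nat_lit 152) (nat_lit 30586846626) (nat_lit 215) (nat_lit 1) (nat_lit 212) (nat_lit 1) (nat_lit 214) (nat_lit 1) (nat_lit 222) (nat_lit 422) (nat_lit 376)))))) (XT.nd (nat_lit 468) (nat_lit 608) (nat_lit 0) (XT.nd (nat_lit 234) (nat_lit 304) (nat_lit 0) (XT.nd (nat_lit 78) (nat_lit 304) (nat_lit 0) (XT.lf (nat_lit 76) (nat_lit 819967745) (nat_lit 0) (nat_lit 82984114783) (nat_lit 228) (nat_lit 819967745) (nat_lit 213) (nat_lit 1) (nat_lit 212) (nat_lit 1) (nat_lit 215) (nat_lit 1) (nat_lit 223) (nat_lit 422) (nat_lit 375)) (XT.nd (nat_lit 78) (nat_lit 152) (nat_lit 0) (XT.lf (nat_lit 76) (nat_lit 30960645087) (nat_lit 0) (nat_lit 21195726230) (nat_lit 152) (nat_lit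 30960645087) (nat_lit 211) (nat_lit 1) (nat_lit 210) (nat_lit 1) (nat_lit 212) (nat_lit 1) (nat_lit 224) (nat_lit 422) (nat_lit 374)) (XT.lf (nat_lit 228) (nat_lit 38418635913) (nat_lit 0) (nat_lit 21622185830) (nat_lit 152) (nat_lit 21622185830) (nat_lit 211) (nat_lit 1) (nat_lit 208) (nat_lit 1) (nat_lit 210) (nat_lit 1) (nat_lit 225) (nat_lit 422) (nat_lit 373)))) (XT.nd (nat_lit 78) (nat_lit 304) (nat_lit 0) (XT.lf (nat_lit 76) (nat_lit 7702670980) (nat_lit 0) (nat_lit 64842904167) (nat_lit 228) (nat_lit 7702670980) (nat_lit 209) (nat_lit 1) (nat_lit 208) (nat_lit 1) (nat_lit 211) (nat_lit 1) (nat_lit 226) (nat_lit 422) (nat_lit 372)) (XT.nd (nat_lit 78) (nat_lit 152) (nat_lit 0) (XT.lf (nat_lit 76) (nat_lit 35764559328) (nat_lit 0) (nat_lit 7316033052) (nat_lit 152) (nat_lit 35764559328) (nat_lit 207) (nat_lit 1) (nat_lit 206) (nat_lit 1) (nat_lit 208) (nat_lit 1) (nat_lit 227) (nat_lit 422)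 (nat_lit 371)) (XT.lf (nat_lit 228) (nat_lit 48648973462) (nat_lit 0) (nat_lit 14415589044) (nat_lit 152) (nat_lit 14415589044) (nat_lit 207) (nat_lit 1) (nat_lit 204) (nat_lit 1) (nat_lit 206) (nat_lit 1) (nat_lit 228) (nat_lit 422) (nat_lit 370))))) (XT.nd (nat_lit 234) (nat_lit 304) (nat_lit 0) (XT.nd (nat_lit 78) (nat_lit 304) (nat_lit 0) (XT.lf (nat_lit 76) (nat_lit 13030417417) (nat_lit 0) (nat_lit 50081339224) (nat_lit 228) (nat_lit 13030417417) (nat_lit 205) (nat_lit 1) (nat_lit 204) (nat_lit 1) (nat_lit 207) (nat_lit 1) (nat_lit 229) (nat_lit 422) (nat_lit 369)) (XT.nd (nat_lit 78) (nat_lit 228) (nat_lit 0) (XT.lf (nat_lit 152) (nat_lit 3740558321) (nat_lit 0) (nat_lit 35544443264) (nat_lit 76) (nat_lit 35544443264) (nat_lit 205) (nat_lit 1) (nat_lit 203) (nat_lit 1) (nat_lit 204) (nat_lit 1) (nat_lit 230) (nat_lit 422) (nat_lit 368)) (XT.lf (nat_lit 228) (nat_lit 56253980023) (nat_lit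 0) (nat_lit 8647324831) (nat_lit 152) (nat_lit 8647324831) (nat_lit 203) (nat_lit 1) (nat_lit 200) (nat_lit 1) (nat_lit 202) (nat_lit 1) (nat_lit 231) (nat_lit 422) (nat_lit 367)))) (XT.nd (nat_lit 156) (nat_lit 228) (nat_lit 0) (XT.nd (nat_lit 78) (nat_lit 76) (nat_lit 0) (XT.lf (nat_lit 76) (nat_lit 17094833742) (nat_lit 0) (nat_lit 38092443142) (nat_lit 228) (nat_lit 17094833742) (nat_lit 201) (nat_lit 1) (nat_lit 200) (nat_lit 1) (nat_lit 203) (nat_lit 1) (nat_lit 232) (nat_lit 422) (nat_lit 366)) (XT.lf (nat_lit 152) (nat_lit 12561642251) (nat_lit 0) (nat_lit 29242501439) (nat_lit 76) (nat_lit 29242501439) (nat_lit 201) (nat_lit 1) (nat_lit 199) (nat_lit 1) (nat_lit 200) (nat_lit 1) (nat_lit 233) (nat_lit 422) (nat_lit 365))) (XT.nd (nat_lit 78) (nat_lit 0) (nat_lit 0) (XT.lf (nat_lit 228) (nat_lit 61737763972) (nat_lit 0) (nat_lit 4054731777) (nat_lit 152) (nat_lit 4054731777) (nat_lit 199)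 (nat_lit 1) (nat_lit 196) (nat_lit 1) (nat_lit 198) (nat_lit 1) (nat_lit 234) (nat_lit 422) (nat_lit 364)) (XT.lf (nat_lit 76) (nat_lit 20135083059) (nat_lit 0) (nat_lit 28377224788) (nat_lit 228) (nat_lit 20135083059) (nat_lit 197) (nat_lit 1) (nat_lit 196) (nat_lit 1) (nat_lit 199) (nat_lit 1) (nat_lit 235) (nat_lit 422) (nat_lit 363))))))))
noncomputable def ec363 : XT := (XT.nd (nat_lit 1950) (nat_lit 1900) (nat_lit 0) (XT.nd (nat_lit 936) (nat_lit 988) (nat_lit 0) (XT.nd (nat_lit 468) (nat_lit 456) (nat_lit 0) (XT.nd (nat_lit 234) (nat_lit 228) (nat_lit 0) (XT.nd (nat_lit 78) (nat_lit 228) (nat_lit 0) (XT.lf (nat_lit 152) (nat_lit 19367137657) (nat_lit 0) (nat_lit 24057878303) (nat_lit 76) (nat_lit 24057878303) (nat_lit 197) (nat_lit 1) (nat_lit 195) (nat_lit 1) (nat_lit 196) (nat_lit 1) (nat_lit 236) (nat_lit 422) (nat_lit 362)) (XT.nd (nat_lit 78) (nat_lit 0) (nat_lit 0) (XT.lf (nat_lit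 228) (nat_lit 65513216342) (nat_lit 0) (nat_lit 422081903) (nat_lit 152) (nat_lit 422081903) (nat_lit 195) (nat_lit 1) (nat_lit 192) (nat_lit 1) (nat_lit 194) (nat_lit 1) (nat_lit 237) (nat_lit 422) (nat_lit 361)) (XT.lf (nat_lit 76) (nat_lit 22347202695) (nat_lit 0) (nat_lit 20525515484) (nat_lit 228) (nat_lit 22347202695) (nat_lit 193) (nat_lit 1) (nat_lit 192) (nat_lit 1) (nat_lit 195) (nat_lit 1) (nat_lit 238) (nat_lit 422) (nat_lit 360)))) (XT.nd (nat_lit 78) (nat_lit 152) (nat_lit 0) (XT.lf (nat_lit 152) (nat_lit 24535909689) (nat_lit 0) (nat_lit 19792476018) (nat_lit 76) (nat_lit 19792476018) (nat_lit 193) (nat_lit 1) (nat_lit 191) (nat_lit 1) (nat_lit 192) (nat_lit 1) (nat_lit 239) (nat_lit 422) (nat_lit 359)) (XT.nd (nat_lit 78) (nat_lit 152) (nat_lit 0) (XT.lf (nat_lit 0) (nat_lit 2467557162) (nat_lit 0) (nat_lit 58119870683) (nat_lit 152) (nat_lit 2467557162) (nat_lit 191) (nat_lit 3)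 (nat_lit 191) (nat_lit 1) (nat_lit 193) (nat_lit 1) (nat_lit 240) (nat_lit 422) (nat_lit 358)) (XT.lf (nat_lit 76) (nat_lit 23891784707) (nat_lit 0) (nat_lit 14200204217) (nat_lit 152) (nat_lit 23891784707) (nat_lit 190) (nat_lit 1) (nat_lit 189) (nat_lit 1) (nat_lit 191) (nat_lit 1) (nat_lit 241) (nat_lit 422) (nat_lit 357))))) (XT.nd (nat_lit 234) (nat_lit 228) (nat_lit 0) (XT.nd (nat_lit 78) (nat_lit 152) (nat_lit 0) (XT.lf (nat_lit 152) (nat_lit 28378627535) (nat_lit 0) (nat_lit 16283319002) (nat_lit 76) (nat_lit 16283319002) (nat_lit 190) (nat_lit 1) (nat_lit 188) (nat_lit 1) (nat_lit 189) (nat_lit 1) (nat_lit 242) (nat_lit 422) (nat_lit 356)) (XT.nd (nat_lit 78) (nat_lit 152) (nat_lit 0) (XT.lf (nat_lit 0) (nat_lit 4716253552) (nat_lit 0) (nat_lit 50501549614) (nat_lit 152) (nat_lit 4716253552) (nat_lit 188) (nat_lit 3) (nat_lit 188) (nat_lit 1) (nat_lit 190) (nat_lit 1) (nat_lit 243) (nat_lit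 422) (nat_lit 355)) (XT.lf (nat_lit 76) (nat_lit 24900293020) (nat_lit 0) (nat_lit 9124268706) (nat_lit 152) (nat_lit 24900293020) (nat_lit 187) (nat_lit 1) (nat_lit 186) (nat_lit 1) (nat_lit 188) (nat_lit 1) (nat_lit 244) (nat_lit 422) (nat_lit 354)))) (XT.nd (nat_lit 78) (nat_lit 152) (nat_lit 0) (XT.lf (nat_lit 152) (nat_lit 31149904165) (nat_lit 0) (nat_lit 13396326841) (nat_lit 76) (nat_lit 13396326841) (nat_lit 187) (nat_lit 1) (nat_lit 185) (nat_lit 1) (nat_lit 186) (nat_lit 1) (nat_lit 245) (nat_lit 422) (nat_lit 353)) (XT.nd (nat_lit 78) (nat_lit 152) (nat_lit 0) (XT.lf (nat_lit 0) (nat_lit 6438347915) (nat_lit 0) (nat_lit 44106024294) (nat_lit 152) (nat_lit 6438347915) (nat_lit 185) (nat_lit 3) (nat_lit 185) (nat_lit 1) (nat_lit 187) (nat_lit 1) (nat_lit 246) (nat_lit 422) (nat_lit 352)) (XT.lf (nat_lit 76) (nat_lit 25480258990) (nat_lit 0) (nat_lit 5070106591) (nat_lit 152) (nat_lit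 25480258990) (nat_lit 184) (nat_lit 1) (nat_lit 183) (nat_lit 1) (nat_lit 185) (nat_lit 1) (nat_lit 247) (nat_lit 422) (nat_lit 351)))))) (XT.nd (nat_lit 468) (nat_lit 608) (nat_lit 0) (XT.nd (nat_lit 234) (nat_lit 152) (nat_lit 0) (XT.nd (nat_lit 78) (nat_lit 152) (nat_lit 0) (XT.lf (nat_lit 152) (nat_lit 33058281398) (nat_lit 0) (nat_lit 11021191245) (nat_lit 76) (nat_lit 11021191245) (nat_lit 184) (nat_lit 1) (nat_lit 182) (nat_lit 1) (nat_lit 183) (nat_lit 1) (nat_lit 248) (nat_lit 422) (nat_lit 350)) (XT.nd (nat_lit 78) (nat_lit 152) (nat_lit 0) (XT.lf (nat_lit 0) (nat_lit 7733296617) (nat_lit 0) (nat_lit 38722587193) (nat_lit 152) (nat_lit 7733296617) (nat_lit 182) (nat_lit 3) (nat_lit 182) (nat_lit 1) (nat_lit 184) (nat_lit 1) (nat_lit 249) (nat_lit 422) (nat_lit 349)) (XT.lf (nat_lit 76) (nat_lit 25719554319) (nat_lit 0) (nat_lit 1850758904) (nat_lit 152) (nat_lit 25719554319) (nat_lit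 181) (nat_lit 1) (nat_lit 180) (nat_lit 1) (nat_lit 182) (nat_lit 1) (nat_lit 250) (nat_lit 422) (nat_lit 348)))) (XT.nd (nat_lit 78) (nat_lit 76) (nat_lit 0) (XT.lf (nat_lit 152) (nat_lit 34274442445) (nat_lit 0) (nat_lit 9067161312) (nat_lit 76) (nat_lit 9067161312) (nat_lit 181) (nat_lit 1) (nat_lit 179) (nat_lit 1) (nat_lit 180) (nat_lit 1) (nat_lit 251) (nat_lit 422) (nat_lit 347)) (XT.nd (nat_lit 78) (nat_lit 76) (nat_lit 0) (XT.lf (nat_lit 0) (nat_lit 8682632601) (nat_lit 0) (nat_lit 34177598651) (nat_lit 152) (nat_lit 8682632601) (nat_lit 179) (nat_lit 3) (nat_lit 179) (nat_lit 1) (nat_lit 181) (nat_lit 1) (nat_lit 252) (nat_lit 422) (nat_lit 346)) (XT.lf (nat_lit 76) (nat_lit 710035286) (nat_lit 0) (nat_lit 24990955333) (nat_lit 76) (nat_lit 24990955333) (nat_lit 179) (nat_lit 3) (nat_lit 178) (nat_lit 1) (nat_lit 179) (nat_lit 1) (nat_lit 253) (nat_lit 422) (nat_lit 345))))) (XT.nd (nat_lit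 234) (nat_lit 380) (nat_lit 0) (XT.nd (nat_lit 78) (nat_lit 76) (nat_lit 0) (XT.lf (nat_lit 152) (nat_lit 34937966266) (nat_lit 0) (nat_lit 7459576051) (nat_lit 76) (nat_lit 7459576051) (nat_lit 178) (nat_lit 1) (nat_lit 176) (nat_lit 1) (nat_lit 177) (nat_lit 1) (nat_lit 254) (nat_lit 422) (nat_lit 344)) (XT.nd (nat_lit 78) (nat_lit 76) (nat_lit 0) (XT.lf (nat_lit 0) (nat_lit 9353156982) (nat_lit 0) (nat_lit 30327928646) (nat_lit 152) (nat_lit 9353156982) (nat_lit 176) (nat_lit 3) (nat_lit 176) (nat_lit 1) (nat_lit 178) (nat_lit 1) (nat_lit 255) (nat_lit 422) (nat_lit 343)) (XT.lf (nat_lit 76) (nat_lit 2758437350) (nat_lit 0) (nat_lit 22734410362) (nat_lit 76) (nat_lit 22734410362) (nat_lit 176) (nat_lit 3) (nat_lit 175) (nat_lit 1) (nat_lit 176) (nat_lit 1) (nat_lit 256) (nat_lit 422) (nat_lit 342)))) (XT.nd (nat_lit 156) (nat_lit 228) (nat_lit 0) (XT.nd (nat_lit 78) (nat_lit 0) (nat_lit 0) (XT.lf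 (nat_lit 152) (nat_lit 35162882400) (nat_lit 0) (nat_lit 6137011678) (nat_lit 76) (nat_lit 6137011678) (nat_lit 175) (nat_lit 1) (nat_lit 173) (nat_lit 1) (nat_lit 174) (nat_lit 1) (nat_lit 257) (nat_lit 422) (nat_lit 341)) (XT.lf (nat_lit 0) (nat_lit 9799564114) (nat_lit 0) (nat_lit 27055560670) (nat_lit 152) (nat_lit 9799564114) (nat_lit 173) (nat_lit 3) (nat_lit 173) (nat_lit 1) (nat_lit 175) (nat_lit 1) (nat_lit 258) (nat_lit 422) (nat_lit 340))) (XT.nd (nat_lit 78) (nat_lit 152) (nat_lit 0) (XT.lf (nat_lit 76) (nat_lit 4340125198) (nat_lit 0) (nat_lit 20774407632) (nat_lit 76) (nat_lit 20774407632) (nat_lit 173) (nat_lit 3) (nat_lit 172) (nat_lit 1) (nat_lit 173) (nat_lit 1) (nat_lit 259) (nat_lit 422) (nat_lit 339)) (XT.lf (nat_lit 152) (nat_lit 35042239028) (nat_lit 0) (nat_lit 5048934695) (nat_lit 76) (nat_lit 5048934695) (nat_lit 172) (nat_lit 1) (nat_lit 170) (nat_lit 1) (nat_lit 171)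 (nat_lit 1) (nat_lit 260) (nat_lit 422) (nat_lit 338))))))) (XT.nd (nat_lit 1014) (nat_lit 988) (nat_lit 0) (XT.nd (nat_lit 468) (nat_lit 456) (nat_lit 0) (XT.nd (nat_lit 234) (nat_lit 228) (nat_lit 0) (XT.nd (nat_lit 78) (nat_lit 228) (nat_lit 0) (XT.lf (nat_lit 0) (nat_lit 10066600618) (nat_lit 0) (nat_lit 24263151690) (nat_lit 152) (nat_lit 10066600618) (nat_lit 170) (nat_lit 3) (nat_lit 170) (nat_lit 1) (nat_lit 172) (nat_lit 1) (nat_lit 261) (nat_lit 422) (nat_lit 337)) (XT.nd (nat_lit 78) (nat_lit 152) (nat_lit 0) (XT.lf (nat_lit 76) (nat_lit 5542776469) (nat_lit 0) (nat_lit 19063301299) (nat_lit 76) (nat_lit 19063301299) (nat_lit 170) (nat_lit 3) (nat_lit 169) (nat_lit 1) (nat_lit 170) (nat_lit 1) (nat_lit 262) (nat_lit 422) (nat_lit 336)) (XT.lf (nat_lit 152) (nat_lit 34651859301) (nat_lit 0) (nat_lit 4153771069) (nat_lit 76) (nat_lit 4153771069) (nat_lit 169) (nat_lit 1) (nat_lit 167)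 (nat_lit 1) (nat_lit 168) (nat_lit 1) (nat_lit 263) (nat_lit 422) (nat_lit 335)))) (XT.nd (nat_lit 78) (nat_lit 228) (nat_lit 0) (XT.lf (nat_lit 0) (nat_lit 10190841022) (nat_lit 0) (nat_lit 21870378722) (nat_lit 152) (nat_lit 10190841022) (nat_lit 167) (nat_lit 3) (nat_lit 167) (nat_lit 1) (nat_lit 169) (nat_lit 1) (nat_lit 264) (nat_lit 422) (nat_lit 334)) (XT.nd (nat_lit 78) (nat_lit 152) (nat_lit 0) (XT.lf (nat_lit 76) (nat_lit 6438288993) (nat_lit 0) (nat_lit 17561658231) (nat_lit 76) (nat_lit 17561658231) (nat_lit 167) (nat_lit 3) (nat_lit 166) (nat_lit 1) (nat_lit 167) (nat_lit 1) (nat_lit 265) (nat_lit 422) (nat_lit 333)) (XT.lf (nat_lit 152) (nat_lit 34053429956) (nat_lit 0) (nat_lit 3417317738) (nat_lit 76) (nat_lit 3417317738) (nat_lit 166) (nat_lit 1) (nat_lit 164) (nat_lit 1) (nat_lit 165) (nat_lit 1) (nat_lit 266) (nat_lit 422) (nat_lit 332))))) (XT.nd (nat_lit 234) (nat_lit 228)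 (nat_lit 0) (XT.nd (nat_lit 78) (nat_lit 228) (nat_lit 0) (XT.lf (nat_lit 0) (nat_lit 10202148015) (nat_lit 0) (nat_lit 19810932585) (nat_lit 152) (nat_lit 10202148015) (nat_lit 164) (nat_lit 3) (nat_lit 164) (nat_lit 1) (nat_lit 166) (nat_lit 1) (nat_lit 267) (nat_lit 422) (nat_lit 331)) (XT.nd (nat_lit 78) (nat_lit 152) (nat_lit 0) (XT.lf (nat_lit 76) (nat_lit 7085589692) (nat_lit 0) (nat_lit 16236813092) (nat_lit 76) (nat_lit 16236813092) (nat_lit 164) (nat_lit 3) (nat_lit 163) (nat_lit 1) (nat_lit 164) (nat_lit 1) (nat_lit 268) (nat_lit 422) (nat_lit 330)) (XT.lf (nat_lit 152) (nat_lit 33297040673) (nat_lit 0) (nat_lit 2811435760) (nat_lit 76) (nat_lit 2811435760) (nat_lit 163) (nat_lit 1) (nat_lit 161) (nat_lit 1) (nat_lit 162) (nat_lit 1) (nat_lit 269) (nat_lit 422) (nat_lit 329)))) (XT.nd (nat_lit 156) (nat_lit 152) (nat_lit 0) (XT.nd (nat_lit 78) (nat_lit 76) (nat_lit 0) (XT.lf (nat_lit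 0) (nat_lit 10124873264) (nat_lit 0) (nat_lit 18030044109) (nat_lit 152) (nat_lit 10124873264) (nat_lit 161) (nat_lit 3) (nat_lit 161) (nat_lit 1) (nat_lit 163) (nat_lit 1) (nat_lit 270) (nat_lit 422) (nat_lit 328)) (XT.lf (nat_lit 76) (nat_lit 7532944941) (nat_lit 0) (nat_lit 15061679079) (nat_lit 76) (nat_lit 15061679079) (nat_lit 161) (nat_lit 3) (nat_lit 160) (nat_lit 1) (nat_lit 161) (nat_lit 1) (nat_lit 271) (nat_lit 422) (nat_lit 327))) (XT.nd (nat_lit 78) (nat_lit 0) (nat_lit 0) (XT.lf (nat_lit 152) (nat_lit 32423271645) (nat_lit 0) (nat_lit 2312975157) (nat_lit 76) (nat_lit 2312975157) (nat_lit 160) (nat_lit 1) (nat_lit 158) (nat_lit 1) (nat_lit 159) (nat_lit 1) (nat_lit 272) (nat_lit 422) (nat_lit 326)) (XT.lf (nat_lit 0) (nat_lit 9978844809) (nat_lit 0) (nat_lit 16482448427) (nat_lit 152) (nat_lit 9978844809) (nat_lit 158) (nat_lit 3) (nat_lit 158) (nat_lit 1) (nat_lit 160) (nat_lit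 1) (nat_lit 273) (nat_lit 422) (nat_lit 325)))))) (XT.nd (nat_lit 468) (nat_lit 532) (nat_lit 0) (XT.nd (nat_lit 234) (nat_lit 228) (nat_lit 0) (XT.nd (nat_lit 78) (nat_lit 152) (nat_lit 0) (XT.lf (nat_lit 76) (nat_lit 7819860793) (nat_lit 0) (nat_lit 14013769001) (nat_lit 76) (nat_lit 14013769001) (nat_lit 158) (nat_lit 3) (nat_lit 157) (nat_lit 1) (nat_lit 158) (nat_lit 1) (nat_lit 274) (nat_lit 422) (nat_lit 324)) (XT.nd (nat_lit 78) (nat_lit 0) (nat_lit 0) (XT.lf (nat_lit 152) (nat_lit 31464909518) (nat_lit 0) (nat_lit 1902890386) (nat_lit 76) (nat_lit 1902890386) (nat_lit 157) (nat_lit 1) (nat_lit 155) (nat_lit 1) (nat_lit 156) (nat_lit 1) (nat_lit 275) (nat_lit 422) (nat_lit 323)) (XT.lf (nat_lit 0) (nat_lit 9780178908) (nat_lit 0) (nat_lit 15130709700) (nat_lit 152) (nat_lit 9780178908) (nat_lit 155) (nat_lit 3) (nat_lit 155) (nat_lit 1) (nat_lit 157) (nat_lit 1) (nat_lit 276) (nat_lit 422)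 (nat_lit 322)))) (XT.nd (nat_lit 78) (nat_lit 152) (nat_lit 0) (XT.lf (nat_lit 76) (nat_lit 7978645826) (nat_lit 0) (nat_lit 13074389437) (nat_lit 76) (nat_lit 13074389437) (nat_lit 155) (nat_lit 3) (nat_lit 154) (nat_lit 1) (nat_lit 155) (nat_lit 1) (nat_lit 277) (nat_lit 422) (nat_lit 321)) (XT.nd (nat_lit 78) (nat_lit 0) (nat_lit 0) (XT.lf (nat_lit 152) (nat_lit 30448357687) (nat_lit 0) (nat_lit 1565512630) (nat_lit 76) (nat_lit 1565512630) (nat_lit 154) (nat_lit 1) (nat_lit 152) (nat_lit 1) (nat_lit 153) (nat_lit 1) (nat_lit 278) (nat_lit 422) (nat_lit 320)) (XT.lf (nat_lit 0) (nat_lit 9541947476) (nat_lit 0) (nat_lit 13943842400) (nat_lit 152) (nat_lit 9541947476) (nat_lit 152) (nat_lit 3) (nat_lit 152) (nat_lit 1) (nat_lit 154) (nat_lit 1) (nat_lit 279) (nat_lit 422) (nat_lit 319))))) (XT.nd (nat_lit 234) (nat_lit 304) (nat_lit 0) (XT.nd (nat_lit 78) (nat_lit 152) (nat_lit 0) (XT.lf (nat_lit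 76) (nat_lit 8035696426) (nat_lit 0) (nat_lit 12227977306) (nat_lit 76) (nat_lit 12227977306) (nat_lit 152) (nat_lit 3) (nat_lit 151) (nat_lit 1) (nat_lit 152) (nat_lit 1) (nat_lit 280) (nat_lit 422) (nat_lit 318)) (XT.nd (nat_lit 78) (nat_lit 0) (nat_lit 0) (XT.lf (nat_lit 152) (nat_lit 29394795182) (nat_lit 0) (nat_lit 1287951115) (nat_lit 76) (nat_lit 1287951115) (nat_lit 151) (nat_lit 1) (nat_lit 149) (nat_lit 1) (nat_lit 150) (nat_lit 1) (nat_lit 281) (nat_lit 422) (nat_lit 317)) (XT.lf (nat_lit 0) (nat_lit 9274726740) (nat_lit 0) (nat_lit 12896176588) (nat_lit 152) (nat_lit 9274726740) (nat_lit 149) (nat_lit 3) (nat_lit 149) (nat_lit 1) (nat_lit 151) (nat_lit 1) (nat_lit 282) (nat_lit 422) (nat_lit 316)))) (XT.nd (nat_lit 156) (nat_lit 76) (nat_lit 0) (XT.nd (nat_lit 78) (nat_lit 152) (nat_lit 0) (XT.lf (nat_lit 76) (nat_lit 8012553775) (nat_lit 0) (nat_lit 11461553630) (nat_lit 76) (nat_lit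 11461553630) (nat_lit 149) (nat_lit 3) (nat_lit 148) (nat_lit 1) (nat_lit 149) (nat_lit 1) (nat_lit 283) (nat_lit 422) (nat_lit 315)) (XT.lf (nat_lit 152) (nat_lit 28321128798) (nat_lit 0) (nat_lit 1059600569) (nat_lit 76) (nat_lit 1059600569) (nat_lit 148) (nat_lit 1) (nat_lit 146) (nat_lit 1) (nat_lit 147) (nat_lit 1) (nat_lit 284) (nat_lit 422) (nat_lit 314))) (XT.nd (nat_lit 78) (nat_lit 76) (nat_lit 0) (XT.lf (nat_lit 0) (nat_lit 8987048202) (nat_lit 0) (nat_lit 11966423954) (nat_lit 152) (nat_lit 8987048202) (nat_lit 146) (nat_lit 3) (nat_lit 146) (nat_lit 1) (nat_lit 148) (nat_lit 1) (nat_lit 285) (nat_lit 422) (nat_lit 313)) (XT.lf (nat_lit 76) (nat_lit 7926773000) (nat_lit 0) (nat_lit 10764273716) (nat_lit 76) (nat_lit 10764273716) (nat_lit 146) (nat_lit 3) (nat_lit 145) (nat_lit 1) (nat_lit 146) (nat_lit 1) (nat_lit 286) (nat_lit 422) (nat_lit 312))))))))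
noncomputable def ec364 : XT := (XT.nd (nat_lit 1950) (nat_lit 1824) (nat_lit 0) (XT.nd (nat_lit 936) (nat_lit 1064) (nat_lit 0) (XT.nd (nat_lit 468) (nat_lit 456) (nat_lit 0) (XT.nd (nat_lit 234) (nat_lit 228) (nat_lit 0) (XT.nd (nat_lit 78) (nat_lit 76) (nat_lit 0) (XT.lf (nat_lit 152) (nat_lit 27240775186) (nat_lit 0) (nat_lit 871736011) (nat_lit 76) (nat_lit 871736011) (nat_lit 145) (nat_lit 1) (nat_lit 143) (nat_lit 1) (nat_lit 144) (nat_lit 1) (nat_lit 287) (nat_lit 422) (nat_lit 311)) (XT.nd (nat_lit 78) (nat_lit 76) (nat_lit 0) (XT.lf (nat_lit 0) (nat_lit 8685769234) (nat_lit 0) (nat_lit 11136909039) (nat_lit 152) (nat_lit 8685769234) (nat_lit 143) (nat_lit 3) (nat_lit 143) (nat_lit 1) (nat_lit 145) (nat_lit 1) (nat_lit 288) (nat_lit 422) (nat_lit 310)) (XT.lf (nat_lit 76) (nat_lit 7792637840) (nat_lit 0) (nat_lit 10127056701) (nat_lit 76) (nat_lit 10127056701) (nat_lit 143) (nat_lit 3)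 (nat_lit 142) (nat_lit 1) (nat_lit 143) (nat_lit 1) (nat_lit 289) (nat_lit 422) (nat_lit 309)))) (XT.nd (nat_lit 78) (nat_lit 76) (nat_lit 0) (XT.lf (nat_lit 152) (nat_lit 26164303099) (nat_lit 0) (nat_lit 717179373) (nat_lit 76) (nat_lit 717179373) (nat_lit 142) (nat_lit 1) (nat_lit 140) (nat_lit 1) (nat_lit 141) (nat_lit 1) (nat_lit 290) (nat_lit 422) (nat_lit 308)) (XT.nd (nat_lit 78) (nat_lit 76) (nat_lit 0) (XT.lf (nat_lit 0) (nat_lit 8376377594) (nat_lit 0) (nat_lit 10392936378) (nat_lit 152) (nat_lit 8376377594) (nat_lit 140) (nat_lit 3) (nat_lit 140) (nat_lit 1) (nat_lit 142) (nat_lit 1) (nat_lit 291) (nat_lit 422) (nat_lit 307)) (XT.lf (nat_lit 76) (nat_lit 7621748222) (nat_lit 0) (nat_lit 9542280397) (nat_lit 76) (nat_lit 9542280397) (nat_lit 140) (nat_lit 3) (nat_lit 139) (nat_lit 1) (nat_lit 140) (nat_lit 1) (nat_lit 292) (nat_lit 422) (nat_lit 306))))) (XT.nd (nat_lit 234) (nat_lit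 228) (nat_lit 0) (XT.nd (nat_lit 78) (nat_lit 76) (nat_lit 0) (XT.lf (nat_lit 152) (nat_lit 25099960661) (nat_lit 0) (nat_lit 590025245) (nat_lit 76) (nat_lit 590025245) (nat_lit 139) (nat_lit 1) (nat_lit 137) (nat_lit 1) (nat_lit 138) (nat_lit 1) (nat_lit 293) (nat_lit 422) (nat_lit 305)) (XT.nd (nat_lit 78) (nat_lit 76) (nat_lit 0) (XT.lf (nat_lit 0) (nat_lit 8063241577) (nat_lit 0) (nat_lit 9722269478) (nat_lit 152) (nat_lit 8063241577) (nat_lit 137) (nat_lit 3) (nat_lit 137) (nat_lit 1) (nat_lit 139) (nat_lit 1) (nat_lit 294) (nat_lit 422) (nat_lit 304)) (XT.lf (nat_lit 76) (nat_lit 7423503302) (nat_lit 0) (nat_lit 9003529875) (nat_lit 76) (nat_lit 9003529875) (nat_lit 137) (nat_lit 3) (nat_lit 136) (nat_lit 1) (nat_lit 137) (nat_lit 1) (nat_lit 295) (nat_lit 422) (nat_lit 303)))) (XT.nd (nat_lit 78) (nat_lit 76) (nat_lit 0) (XT.lf (nat_lit 152) (nat_lit 24054108086) (nat_lit 0) (nat_lit 485415229)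 (nat_lit 76) (nat_lit 485415229) (nat_lit 136) (nat_lit 1) (nat_lit 134) (nat_lit 1) (nat_lit 135) (nat_lit 1) (nat_lit 296) (nat_lit 422) (nat_lit 302)) (XT.nd (nat_lit 78) (nat_lit 76) (nat_lit 0) (XT.lf (nat_lit 0) (nat_lit 7749815467) (nat_lit 0) (nat_lit 9114701827) (nat_lit 152) (nat_lit 7749815467) (nat_lit 134) (nat_lit 3) (nat_lit 134) (nat_lit 1) (nat_lit 136) (nat_lit 1) (nat_lit 297) (nat_lit 422) (nat_lit 301)) (XT.lf (nat_lit 76) (nat_lit 7205498517) (nat_lit 0) (nat_lit 8505390288) (nat_lit 76) (nat_lit 8505390288) (nat_lit 134) (nat_lit 3) (nat_lit 133) (nat_lit 1) (nat_lit 134) (nat_lit 1) (nat_lit 298) (nat_lit 422) (nat_lit 300)))))) (XT.nd (nat_lit 468) (nat_lit 608) (nat_lit 0) (XT.nd (nat_lit 234) (nat_lit 228) (nat_lit 0) (XT.nd (nat_lit 78) (nat_lit 76) (nat_lit 0) (XT.lf (nat_lit 152) (nat_lit 23031572664) (nat_lit 0) (nat_lit 399352310) (nat_lit 76) (nat_lit 399352310)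 (nat_lit 133) (nat_lit 1) (nat_lit 131) (nat_lit 1) (nat_lit 132) (nat_lit 1) (nat_lit 299) (nat_lit 422) (nat_lit 299)) (XT.nd (nat_lit 78) (nat_lit 76) (nat_lit 0) (XT.lf (nat_lit 0) (nat_lit 7438808237) (nat_lit 0) (nat_lit 8561703623) (nat_lit 152) (nat_lit 7438808237) (nat_lit 131) (nat_lit 3) (nat_lit 131) (nat_lit 1) (nat_lit 133) (nat_lit 1) (nat_lit 300) (nat_lit 422) (nat_lit 298)) (XT.lf (nat_lit 76) (nat_lit 6973851918) (nat_lit 0) (nat_lit 8043276095) (nat_lit 76) (nat_lit 8043276095) (nat_lit 131) (nat_lit 3) (nat_lit 130) (nat_lit 1) (nat_lit 131) (nat_lit 1) (nat_lit 301) (nat_lit 422) (nat_lit 297)))) (XT.nd (nat_lit 78) (nat_lit 76) (nat_lit 0) (XT.lf (nat_lit 152) (nat_lit 22035939842) (nat_lit 0) (nat_lit 328548134) (nat_lit 76) (nat_lit 328548134) (nat_lit 130) (nat_lit 1) (nat_lit 128) (nat_lit 1) (nat_lit 129) (nat_lit 1) (nat_lit 302) (nat_lit 422) (nat_lit 296)) (XT.nd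 (nat_lit 78) (nat_lit 76) (nat_lit 0) (XT.lf (nat_lit 0) (nat_lit 7132322015) (nat_lit 0) (nat_lit 8056130829) (nat_lit 152) (nat_lit 7132322015) (nat_lit 128) (nat_lit 3) (nat_lit 128) (nat_lit 1) (nat_lit 130) (nat_lit 1) (nat_lit 303) (nat_lit 422) (nat_lit 295)) (XT.lf (nat_lit 76) (nat_lit 6733472332) (nat_lit 0) (nat_lit 7613290250) (nat_lit 76) (nat_lit 7613290250) (nat_lit 128) (nat_lit 3) (nat_lit 127) (nat_lit 1) (nat_lit 128) (nat_lit 1) (nat_lit 304) (nat_lit 422) (nat_lit 294))))) (XT.nd (nat_lit 234) (nat_lit 380) (nat_lit 0) (XT.nd (nat_lit 78) (nat_lit 76) (nat_lit 0) (XT.lf (nat_lit 152) (nat_lit 21069791778) (nat_lit 0) (nat_lit 270297363) (nat_lit 76) (nat_lit 270297363) (nat_lit 127) (nat_lit 1) (nat_lit 125) (nat_lit 1) (nat_lit 126) (nat_lit 1) (nat_lit 305) (nat_lit 422) (nat_lit 293)) (XT.nd (nat_lit 78) (nat_lit 76) (nat_lit 0) (XT.lf (nat_lit 0) (nat_lit 6831965706) (nat_lit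 0) (nat_lit 7591985503) (nat_lit 152) (nat_lit 6831965706) (nat_lit 125) (nat_lit 3) (nat_lit 125) (nat_lit 1) (nat_lit 127) (nat_lit 1) (nat_lit 306) (nat_lit 422) (nat_lit 292)) (XT.lf (nat_lit 76) (nat_lit 6488279686) (nat_lit 0) (nat_lit 7212108064) (nat_lit 76) (nat_lit 7212108064) (nat_lit 125) (nat_lit 3) (nat_lit 124) (nat_lit 1) (nat_lit 125) (nat_lit 1) (nat_lit 307) (nat_lit 422) (nat_lit 291)))) (XT.nd (nat_lit 156) (nat_lit 228) (nat_lit 0) (XT.nd (nat_lit 78) (nat_lit 0) (nat_lit 0) (XT.lf (nat_lit 152) (nat_lit 20134902730) (nat_lit 0) (nat_lit 222374309) (nat_lit 76) (nat_lit 222374309) (nat_lit 124) (nat_lit 1) (nat_lit 122) (nat_lit 1) (nat_lit 123) (nat_lit 1) (nat_lit 308) (nat_lit 422) (nat_lit 290)) (XT.lf (nat_lit 0) (nat_lit 6538948173) (nat_lit 0) (nat_lit 7164218341) (nat_lit 152) (nat_lit 6538948173) (nat_lit 122) (nat_lit 3) (nat_lit 122) (nat_lit 1) (nat_lit 124) (nat_lit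 1) (nat_lit 309) (nat_lit 422) (nat_lit 289))) (XT.nd (nat_lit 78) (nat_lit 152) (nat_lit 0) (XT.lf (nat_lit 76) (nat_lit 6241385977) (nat_lit 0) (nat_lit 6836881375) (nat_lit 76) (nat_lit 6836881375) (nat_lit 122) (nat_lit 3) (nat_lit 121) (nat_lit 1) (nat_lit 122) (nat_lit 1) (nat_lit 310) (nat_lit 422) (nat_lit 288)) (XT.lf (nat_lit 152) (nat_lit 19232398964) (nat_lit 0) (nat_lit 182947894) (nat_lit 76) (nat_lit 182947894) (nat_lit 121) (nat_lit 1) (nat_lit 119) (nat_lit 1) (nat_lit 120) (nat_lit 1) (nat_lit 311) (nat_lit 422) (nat_lit 287))))))) (XT.nd (nat_lit 936) (nat_lit 912) (nat_lit 0) (XT.nd (nat_lit 468) (nat_lit 456) (nat_lit 0) (XT.nd (nat_lit 234) (nat_lit 228) (nat_lit 0) (XT.nd (nat_lit 78) (nat_lit 228) (nat_lit 0) (XT.lf (nat_lit 0) (nat_lit 6254154634) (nat_lit 0) (nat_lit 6768565948) (nat_lit 152) (nat_lit 6254154634) (nat_lit 119) (nat_lit 3) (nat_lit 119) (nat_lit 1) (nat_lit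 121) (nat_lit 1) (nat_lit 312) (nat_lit 422) (nat_lit 286)) (XT.nd (nat_lit 78) (nat_lit 152) (nat_lit 0) (XT.lf (nat_lit 76) (nat_lit 5995243902) (nat_lit 0) (nat_lit 6485159439) (nat_lit 76) (nat_lit 6485159439) (nat_lit 119) (nat_lit 3) (nat_lit 118) (nat_lit 1) (nat_lit 119) (nat_lit 1) (nat_lit 313) (nat_lit 422) (nat_lit 285)) (XT.lf (nat_lit 152) (nat_lit 18362889517) (nat_lit 0) (nat_lit 150511685) (nat_lit 76) (nat_lit 150511685) (nat_lit 118) (nat_lit 1) (nat_lit 116) (nat_lit 1) (nat_lit 117) (nat_lit 1) (nat_lit 314) (nat_lit 422) (nat_lit 284)))) (XT.nd (nat_lit 78) (nat_lit 228) (nat_lit 0) (XT.lf (nat_lit 0) (nat_lit 5978209247) (nat_lit 0) (nat_lit 6401416708) (nat_lit 152) (nat_lit 5978209247) (nat_lit 116) (nat_lit 3) (nat_lit 116) (nat_lit 1) (nat_lit 118) (nat_lit 1) (nat_lit 315) (nat_lit 422) (nat_lit 283)) (XT.nd (nat_lit 78) (nat_lit 152) (nat_lit 0) (XT.lf (nat_lit 76)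 (nat_lit 5751768864) (nat_lit 0) (nat_lit 6154823589) (nat_lit 76) (nat_lit 6154823589) (nat_lit 116) (nat_lit 3) (nat_lit 115) (nat_lit 1) (nat_lit 116) (nat_lit 1) (nat_lit 316) (nat_lit 422) (nat_lit 282)) (XT.lf (nat_lit 152) (nat_lit 17526573025) (nat_lit 0) (nat_lit 123826336) (nat_lit 76) (nat_lit 123826336) (nat_lit 115) (nat_lit 1) (nat_lit 113) (nat_lit 1) (nat_lit 114) (nat_lit 1) (nat_lit 317) (nat_lit 422) (nat_lit 281))))) (XT.nd (nat_lit 234) (nat_lit 228) (nat_lit 0) (XT.nd (nat_lit 78) (nat_lit 228) (nat_lit 0) (XT.lf (nat_lit 0) (nat_lit 5711526354) (nat_lit 0) (nat_lit 6059700180) (nat_lit 152) (nat_lit 5711526354) (nat_lit 113) (nat_lit 3) (nat_lit 113) (nat_lit 1) (nat_lit 115) (nat_lit 1) (nat_lit 318) (nat_lit 422) (nat_lit 280)) (XT.nd (nat_lit 78) (nat_lit 152) (nat_lit 0) (XT.lf (nat_lit 76) (nat_lit 5512439116) (nat_lit 0) (nat_lit 5844033236) (nat_lit 76) (nat_lit 5844033236)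 (nat_lit 113) (nat_lit 3) (nat_lit 112) (nat_lit 1) (nat_lit 113) (nat_lit 1) (nat_lit 319) (nat_lit 422) (nat_lit 279)) (XT.lf (nat_lit 152) (nat_lit 16723324883) (nat_lit 0) (nat_lit 101872233) (nat_lit 76) (nat_lit 101872233) (nat_lit 112) (nat_lit 1) (nat_lit 110) (nat_lit 1) (nat_lit 111) (nat_lit 1) (nat_lit 320) (nat_lit 422) (nat_lit 278)))) (XT.nd (nat_lit 78) (nat_lit 228) (nat_lit 0) (XT.lf (nat_lit 0) (nat_lit 5454352400) (nat_lit 0) (nat_lit 5740795869) (nat_lit 152) (nat_lit 5454352400) (nat_lit 110) (nat_lit 3) (nat_lit 110) (nat_lit 1) (nat_lit 112) (nat_lit 1) (nat_lit 321) (nat_lit 422) (nat_lit 277)) (XT.nd (nat_lit 78) (nat_lit 152) (nat_lit 0) (XT.lf (nat_lit 76) (nat_lit 5278377909) (nat_lit 0) (nat_lit 5551181212) (nat_lit 76) (nat_lit 5551181212) (nat_lit 110) (nat_lit 3) (nat_lit 109) (nat_lit 1) (nat_lit 110) (nat_lit 1) (nat_lit 322) (nat_lit 422) (nat_lit 276)) (XT.lf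 (nat_lit 152) (nat_lit 15952768273) (nat_lit 0) (nat_lit 83810538) (nat_lit 76) (nat_lit 83810538) (nat_lit 109) (nat_lit 1) (nat_lit 107) (nat_lit 1) (nat_lit 108) (nat_lit 1) (nat_lit 323) (nat_lit 422) (nat_lit 275)))))) (XT.nd (nat_lit 468) (nat_lit 456) (nat_lit 0) (XT.nd (nat_lit 234) (nat_lit 228) (nat_lit 0) (XT.nd (nat_lit 78) (nat_lit 228) (nat_lit 0) (XT.lf (nat_lit 0) (nat_lit 5206800204) (nat_lit 0) (nat_lit 5442457954) (nat_lit 152) (nat_lit 5206800204) (nat_lit 107) (nat_lit 3) (nat_lit 107) (nat_lit 1) (nat_lit 109) (nat_lit 1) (nat_lit 324) (nat_lit 422) (nat_lit 274)) (XT.nd (nat_lit 78) (nat_lit 152) (nat_lit 0) (XT.lf (nat_lit 76) (nat_lit 5050420861) (nat_lit 0) (nat_lit 5274856813) (nat_lit 76) (nat_lit 5274856813) (nat_lit 107) (nat_lit 3) (nat_lit 106) (nat_lit 1) (nat_lit 107) (nat_lit 1) (nat_lit 325) (nat_lit 422) (nat_lit 273)) (XT.lf (nat_lit 152) (nat_lit 15214331943)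 (nat_lit 0) (nat_lit 68951137) (nat_lit 76) (nat_lit 68951137) (nat_lit 106) (nat_lit 1) (nat_lit 104) (nat_lit 1) (nat_lit 105) (nat_lit 1) (nat_lit 326) (nat_lit 422) (nat_lit 272)))) (XT.nd (nat_lit 78) (nat_lit 228) (nat_lit 0) (XT.lf (nat_lit 0) (nat_lit 4968876923) (nat_lit 0) (nat_lit 5162753137) (nat_lit 152) (nat_lit 4968876923) (nat_lit 104) (nat_lit 3) (nat_lit 104) (nat_lit 1) (nat_lit 106) (nat_lit 1) (nat_lit 327) (nat_lit 422) (nat_lit 271)) (XT.nd (nat_lit 78) (nat_lit 152) (nat_lit 0) (XT.lf (nat_lit 76) (nat_lit 4829171162) (nat_lit 0) (nat_lit 5013815175) (nat_lit 76) (nat_lit 5013815175) (nat_lit 104) (nat_lit 3) (nat_lit 103) (nat_lit 1) (nat_lit 104) (nat_lit 1) (nat_lit 328) (nat_lit 422) (nat_lit 270)) (XT.lf (nat_lit 152) (nat_lit 14507297118) (nat_lit 0) (nat_lit 56726271) (nat_lit 76) (nat_lit 56726271) (nat_lit 103) (nat_lit 1) (nat_lit 101) (nat_lit 1) (nat_lit 102)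 (nat_lit 1) (nat_lit 329) (nat_lit 422) (nat_lit 269))))) (XT.nd (nat_lit 234) (nat_lit 228) (nat_lit 0) (XT.nd (nat_lit 78) (nat_lit 228) (nat_lit 0) (XT.lf (nat_lit 0) (nat_lit 4740506875) (nat_lit 0) (nat_lit 4900009316) (nat_lit 152) (nat_lit 4740506875) (nat_lit 101) (nat_lit 3) (nat_lit 101) (nat_lit 1) (nat_lit 103) (nat_lit 1) (nat_lit 330) (nat_lit 422) (nat_lit 268)) (XT.nd (nat_lit 78) (nat_lit 152) (nat_lit 0) (XT.lf (nat_lit 76) (nat_lit 4615044800) (nat_lit 0) (nat_lit 4766951887) (nat_lit 76) (nat_lit 4766951887) (nat_lit 101) (nat_lit 3) (nat_lit 100) (nat_lit 1) (nat_lit 101) (nat_lit 1) (nat_lit 331) (nat_lit 422) (nat_lit 267)) (XT.lf (nat_lit 152) (nat_lit 13830835505) (nat_lit 0) (nat_lit 46668843) (nat_lit 76) (nat_lit 46668843) (nat_lit 100) (nat_lit 1) (nat_lit 98) (nat_lit 1) (nat_lit 99) (nat_lit 1) (nat_lit 332) (nat_lit 422) (nat_lit 266)))) (XT.nd (nat_lit 156) (nat_lit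 152) (nat_lit 0) (XT.nd (nat_lit 78) (nat_lit 76) (nat_lit 0) (XT.lf (nat_lit 0) (nat_lit 4521550102) (nat_lit 0) (nat_lit 4652773156) (nat_lit 152) (nat_lit 4521550102) (nat_lit 98) (nat_lit 3) (nat_lit 98) (nat_lit 1) (nat_lit 100) (nat_lit 1) (nat_lit 333) (nat_lit 422) (nat_lit 265)) (XT.lf (nat_lit 76) (nat_lit 4408307573) (nat_lit 0) (nat_lit 4533281909) (nat_lit 76) (nat_lit 4533281909) (nat_lit 98) (nat_lit 3) (nat_lit 97) (nat_lit 1) (nat_lit 98) (nat_lit 1) (nat_lit 334) (nat_lit 422) (nat_lit 264))) (XT.nd (nat_lit 78) (nat_lit 0) (nat_lit 0) (XT.lf (nat_lit 152) (nat_lit 13184039992) (nat_lit 0) (nat_lit 38394573) (nat_lit 76) (nat_lit 38394573) (nat_lit 97) (nat_lit 1) (nat_lit 95) (nat_lit 1) (nat_lit 96) (nat_lit 1) (nat_lit 335) (nat_lit 422) (nat_lit 263)) (XT.lf (nat_lit 0) (nat_lit 4311817473) (nat_lit 0) (nat_lit 4419775004) (nat_lit 152) (nat_lit 4311817473) (nat_lit 95) (nat_lit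 3) (nat_lit 95) (nat_lit 1) (nat_lit 97) (nat_lit 1) (nat_lit 336) (nat_lit 422) (nat_lit 262))))))))
noncomputable def ec365 : XT := (XT.nd (nat_lit 1950) (nat_lit 1976) (nat_lit 0) (XT.nd (nat_lit 936) (nat_lit 988) (nat_lit 0) (XT.nd (nat_lit 468) (nat_lit 456) (nat_lit 0) (XT.nd (nat_lit 234) (nat_lit 228) (nat_lit 0) (XT.nd (nat_lit 78) (nat_lit 152) (nat_lit 0) (XT.lf (nat_lit 76) (nat_lit 4209105354) (nat_lit 0) (nat_lit 4311922050) (nat_lit 76) (nat_lit 4311922050) (nat_lit 95) (nat_lit 3) (nat_lit 94) (nat_lit 1) (nat_lit 95) (nat_lit 1) (nat_lit 337) (nat_lit 422) (nat_lit 261)) (XT.nd (nat_lit 78) (nat_lit 0) (nat_lit 0) (XT.lf (nat_lit 152) (nat_lit 12565949370) (nat_lit 0) (nat_lit 31587310) (nat_lit 76) (nat_lit 31587310) (nat_lit 94) (nat_lit 1) (nat_lit 92) (nat_lit 1) (nat_lit 93) (nat_lit 1) (nat_lit 338) (nat_lit 422) (nat_lit 260)) (XT.lf (nat_lit 0) (nat_lit 4111082920) (nat_lit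 0) (nat_lit 4199899847) (nat_lit 152) (nat_lit 4111082920) (nat_lit 92) (nat_lit 3) (nat_lit 92) (nat_lit 1) (nat_lit 94) (nat_lit 1) (nat_lit 339) (nat_lit 422) (nat_lit 259)))) (XT.nd (nat_lit 78) (nat_lit 152) (nat_lit 0) (XT.lf (nat_lit 76) (nat_lit 4017488824) (nat_lit 0) (nat_lit 4102076374) (nat_lit 76) (nat_lit 4102076374) (nat_lit 92) (nat_lit 3) (nat_lit 91) (nat_lit 1) (nat_lit 92) (nat_lit 1) (nat_lit 340) (nat_lit 422) (nat_lit 258)) (XT.nd (nat_lit 78) (nat_lit 0) (nat_lit 0) (XT.lf (nat_lit 152) (nat_lit 11975568161) (nat_lit 0) (nat_lit 25986958) (nat_lit 76) (nat_lit 25986958) (nat_lit 91) (nat_lit 1) (nat_lit 89) (nat_lit 1) (nat_lit 90) (nat_lit 1) (nat_lit 341) (nat_lit 422) (nat_lit 257)) (XT.lf (nat_lit 0) (nat_lit 3919093343) (nat_lit 0) (nat_lit 3992163249) (nat_lit 152) (nat_lit 3919093343) (nat_lit 89) (nat_lit 3) (nat_lit 89) (nat_lit 1) (nat_lit 91) (nat_lit 1) (nat_lit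 342) (nat_lit 422) (nat_lit 256))))) (XT.nd (nat_lit 234) (nat_lit 228) (nat_lit 0) (XT.nd (nat_lit 78) (nat_lit 152) (nat_lit 0) (XT.lf (nat_lit 76) (nat_lit 3833433648) (nat_lit 0) (nat_lit 3903024035) (nat_lit 76) (nat_lit 3903024035) (nat_lit 89) (nat_lit 3) (nat_lit 88) (nat_lit 1) (nat_lit 89) (nat_lit 1) (nat_lit 343) (nat_lit 422) (nat_lit 255)) (XT.nd (nat_lit 78) (nat_lit 0) (nat_lit 0) (XT.lf (nat_lit 152) (nat_lit 11411882435) (nat_lit 0) (nat_lit 21379535) (nat_lit 76) (nat_lit 21379535) (nat_lit 88) (nat_lit 1) (nat_lit 86) (nat_lit 1) (nat_lit 87) (nat_lit 1) (nat_lit 344) (nat_lit 422) (nat_lit 254)) (XT.lf (nat_lit 0) (nat_lit 3735576603) (nat_lit 0) (nat_lit 3795691395) (nat_lit 152) (nat_lit 3735576603) (nat_lit 86) (nat_lit 3) (nat_lit 86) (nat_lit 1) (nat_lit 88) (nat_lit 1) (nat_lit 345) (nat_lit 422) (nat_lit 253)))) (XT.nd (nat_lit 78) (nat_lit 152) (nat_lit 0) (XT.lf (nat_lit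 76) (nat_lit 3656856921) (nat_lit 0) (nat_lit 3714109104) (nat_lit 76) (nat_lit 3714109104) (nat_lit 86) (nat_lit 3) (nat_lit 85) (nat_lit 1) (nat_lit 86) (nat_lit 1) (nat_lit 346) (nat_lit 422) (nat_lit 252)) (XT.nd (nat_lit 78) (nat_lit 0) (nat_lit 0) (XT.lf (nat_lit 152) (nat_lit 10873872371) (nat_lit 0) (nat_lit 17588996) (nat_lit 76) (nat_lit 17588996) (nat_lit 85) (nat_lit 1) (nat_lit 83) (nat_lit 1) (nat_lit 84) (nat_lit 1) (nat_lit 347) (nat_lit 422) (nat_lit 251)) (XT.lf (nat_lit 0) (nat_lit 3560247935) (nat_lit 0) (nat_lit 3609704524) (nat_lit 152) (nat_lit 3560247935) (nat_lit 83) (nat_lit 3) (nat_lit 83) (nat_lit 1) (nat_lit 85) (nat_lit 1) (nat_lit 348) (nat_lit 422) (nat_lit 250)))))) (XT.nd (nat_lit 468) (nat_lit 532) (nat_lit 0) (XT.nd (nat_lit 234) (nat_lit 228) (nat_lit 0) (XT.nd (nat_lit 78) (nat_lit 152) (nat_lit 0) (XT.lf (nat_lit 76) (nat_lit 3487630545) (nat_lit 0) (nat_lit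 3534732058) (nat_lit 76) (nat_lit 3534732058) (nat_lit 83) (nat_lit 3) (nat_lit 82) (nat_lit 1) (nat_lit 83) (nat_lit 1) (nat_lit 349) (nat_lit 422) (nat_lit 249)) (XT.nd (nat_lit 78) (nat_lit 0) (nat_lit 0) (XT.lf (nat_lit 152) (nat_lit 10360522138) (nat_lit 0) (nat_lit 14470510) (nat_lit 76) (nat_lit 14470510) (nat_lit 82) (nat_lit 1) (nat_lit 80) (nat_lit 1) (nat_lit 81) (nat_lit 1) (nat_lit 350) (nat_lit 422) (nat_lit 248)) (XT.lf (nat_lit 0) (nat_lit 3392815091) (nat_lit 0) (nat_lit 3433503149) (nat_lit 152) (nat_lit 3392815091) (nat_lit 80) (nat_lit 3) (nat_lit 80) (nat_lit 1) (nat_lit 82) (nat_lit 1) (nat_lit 351) (nat_lit 422) (nat_lit 247)))) (XT.nd (nat_lit 78) (nat_lit 152) (nat_lit 0) (XT.lf (nat_lit 76) (nat_lit 3325592096) (nat_lit 0) (nat_lit 3364342627) (nat_lit 76) (nat_lit 3364342627) (nat_lit 80) (nat_lit 3) (nat_lit 79) (nat_lit 1) (nat_lit 80) (nat_lit 1) (nat_lit 352) (nat_lit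 422) (nat_lit 246)) (XT.nd (nat_lit 78) (nat_lit 0) (nat_lit 0) (XT.lf (nat_lit 152) (nat_lit 9870827611) (nat_lit 0) (nat_lit 11904925) (nat_lit 76) (nat_lit 11904925) (nat_lit 79) (nat_lit 1) (nat_lit 77) (nat_lit 1) (nat_lit 78) (nat_lit 1) (nat_lit 353) (nat_lit 422) (nat_lit 245)) (XT.lf (nat_lit 0) (nat_lit 3232982424) (nat_lit 0) (nat_lit 3266456590) (nat_lit 152) (nat_lit 3232982424) (nat_lit 77) (nat_lit 3) (nat_lit 77) (nat_lit 1) (nat_lit 79) (nat_lit 1) (nat_lit 354) (nat_lit 422) (nat_lit 244))))) (XT.nd (nat_lit 234) (nat_lit 304) (nat_lit 0) (XT.nd (nat_lit 78) (nat_lit 152) (nat_lit 0) (XT.lf (nat_lit 76) (nat_lit 3170553624) (nat_lit 0) (nat_lit 3202433782) (nat_lit 76) (nat_lit 3202433782) (nat_lit 77) (nat_lit 3) (nat_lit 76) (nat_lit 1) (nat_lit 77) (nat_lit 1) (nat_lit 355) (nat_lit 422) (nat_lit 243)) (XT.nd (nat_lit 78) (nat_lit 0) (nat_lit 0) (XT.lf (nat_lit 152) (nat_lit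 9403802311) (nat_lit 0) (nat_lit 9794211) (nat_lit 76) (nat_lit 9794211) (nat_lit 76) (nat_lit 1) (nat_lit 74) (nat_lit 1) (nat_lit 75) (nat_lit 1) (nat_lit 356) (nat_lit 422) (nat_lit 242)) (XT.lf (nat_lit 0) (nat_lit 3080454119) (nat_lit 0) (nat_lit 3107993398) (nat_lit 152) (nat_lit 3080454119) (nat_lit 74) (nat_lit 3) (nat_lit 74) (nat_lit 1) (nat_lit 76) (nat_lit 1) (nat_lit 357) (nat_lit 422) (nat_lit 241)))) (XT.nd (nat_lit 156) (nat_lit 76) (nat_lit 0) (XT.nd (nat_lit 78) (nat_lit 152) (nat_lit 0) (XT.lf (nat_lit 76) (nat_lit 3022308767) (nat_lit 0) (nat_lit 3048536652) (nat_lit 76) (nat_lit 3048536652) (nat_lit 74) (nat_lit 3) (nat_lit 73) (nat_lit 1) (nat_lit 74) (nat_lit 1) (nat_lit 358) (nat_lit 422) (nat_lit 240)) (XT.lf (nat_lit 152) (nat_lit 8958481917) (nat_lit 0) (nat_lit 8057721) (nat_lit 76) (nat_lit 8057721) (nat_lit 73) (nat_lit 1) (nat_lit 71) (nat_lit 1) (nat_lit 72) (nat_lit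 1) (nat_lit 359) (nat_lit 422) (nat_lit 239))) (XT.nd (nat_lit 78) (nat_lit 76) (nat_lit 0) (XT.lf (nat_lit 0) (nat_lit 2934936730) (nat_lit 0) (nat_lit 2957593363) (nat_lit 152) (nat_lit 2934936730) (nat_lit 71) (nat_lit 3) (nat_lit 71) (nat_lit 1) (nat_lit 73) (nat_lit 1) (nat_lit 360) (nat_lit 422) (nat_lit 238)) (XT.lf (nat_lit 76) (nat_lit 2880638477) (nat_lit 0) (nat_lit 2902216223) (nat_lit 76) (nat_lit 2902216223) (nat_lit 71) (nat_lit 3) (nat_lit 70) (nat_lit 1) (nat_lit 71) (nat_lit 1) (nat_lit 361) (nat_lit 422) (nat_lit 237))))))) (XT.nd (nat_lit 1014) (nat_lit 912) (nat_lit 0) (XT.nd (nat_lit 468) (nat_lit 608) (nat_lit 0) (XT.nd (nat_lit 234) (nat_lit 228) (nat_lit 0) (XT.nd (nat_lit 78) (nat_lit 76) (nat_lit 0) (XT.lf (nat_lit 152) (nat_lit 8533927608) (nat_lit 0) (nat_lit 6629107) (nat_lit 76) (nat_lit 6629107) (nat_lit 70) (nat_lit 1) (nat_lit 68) (nat_lit 1) (nat_lit 69) (nat_lit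 1) (nat_lit 362) (nat_lit 422) (nat_lit 236)) (XT.nd (nat_lit 78) (nat_lit 76) (nat_lit 0) (XT.lf (nat_lit 0) (nat_lit 2796141142) (nat_lit 0) (nat_lit 2814780810) (nat_lit 152) (nat_lit 2796141142) (nat_lit 68) (nat_lit 3) (nat_lit 68) (nat_lit 1) (nat_lit 70) (nat_lit 1) (nat_lit 363) (nat_lit 422) (nat_lit 235)) (XT.lf (nat_lit 76) (nat_lit 2745315619) (nat_lit 0) (nat_lit 2763067684) (nat_lit 76) (nat_lit 2763067684) (nat_lit 68) (nat_lit 3) (nat_lit 67) (nat_lit 1) (nat_lit 68) (nat_lit 1) (nat_lit 364) (nat_lit 422) (nat_lit 234)))) (XT.nd (nat_lit 78) (nat_lit 76) (nat_lit 0) (XT.lf (nat_lit 152) (nat_lit 8129228472) (nat_lit 0) (nat_lit 5453783) (nat_lit 76) (nat_lit 5453783) (nat_lit 67) (nat_lit 1) (nat_lit 65) (nat_lit 1) (nat_lit 66) (nat_lit 1) (nat_lit 365) (nat_lit 422) (nat_lit 233)) (XT.nd (nat_lit 78) (nat_lit 76) (nat_lit 0) (XT.lf (nat_lit 0) (nat_lit 2663784076) (nat_lit 0)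 (nat_lit 2679118978) (nat_lit 152) (nat_lit 2663784076) (nat_lit 65) (nat_lit 3) (nat_lit 65) (nat_lit 1) (nat_lit 67) (nat_lit 1) (nat_lit 366) (nat_lit 422) (nat_lit 232)) (XT.lf (nat_lit 76) (nat_lit 2616108634) (nat_lit 0) (nat_lit 2630713302) (nat_lit 76) (nat_lit 2630713302) (nat_lit 65) (nat_lit 3) (nat_lit 64) (nat_lit 1) (nat_lit 65) (nat_lit 1) (nat_lit 367) (nat_lit 422) (nat_lit 231))))) (XT.nd (nat_lit 234) (nat_lit 380) (nat_lit 0) (XT.nd (nat_lit 78) (nat_lit 76) (nat_lit 0) (XT.lf (nat_lit 152) (nat_lit 7743503153) (nat_lit 0) (nat_lit 4486841) (nat_lit 76) (nat_lit 4486841) (nat_lit 64) (nat_lit 1) (nat_lit 62) (nat_lit 1) (nat_lit 63) (nat_lit 1) (nat_lit 368) (nat_lit 422) (nat_lit 230)) (XT.nd (nat_lit 78) (nat_lit 76) (nat_lit 0) (XT.lf (nat_lit 0) (nat_lit 2537589218) (nat_lit 0) (nat_lit 2550205279) (nat_lit 152) (nat_lit 2537589218) (nat_lit 62) (nat_lit 3) (nat_lit 62)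 (nat_lit 1) (nat_lit 64) (nat_lit 1) (nat_lit 369) (nat_lit 422) (nat_lit 229)) (XT.lf (nat_lit 76) (nat_lit 2492784457) (nat_lit 0) (nat_lit 2504799754) (nat_lit 76) (nat_lit 2504799754) (nat_lit 62) (nat_lit 3) (nat_lit 61) (nat_lit 1) (nat_lit 62) (nat_lit 1) (nat_lit 370) (nat_lit 422) (nat_lit 228)))) (XT.nd (nat_lit 156) (nat_lit 228) (nat_lit 0) (XT.nd (nat_lit 78) (nat_lit 0) (nat_lit 0) (XT.lf (nat_lit 152) (nat_lit 7375900894) (nat_lit 0) (nat_lit 3691335) (nat_lit 76) (nat_lit 3691335) (nat_lit 61) (nat_lit 1) (nat_lit 59) (nat_lit 1) (nat_lit 60) (nat_lit 1) (nat_lit 371) (nat_lit 422) (nat_lit 227)) (XT.lf (nat_lit 0) (nat_lit 2417288040) (nat_lit 0) (nat_lit 2427667304) (nat_lit 152) (nat_lit 2417288040) (nat_lit 59) (nat_lit 3) (nat_lit 59) (nat_lit 1) (nat_lit 61) (nat_lit 1) (nat_lit 372) (nat_lit 422) (nat_lit 226))) (XT.nd (nat_lit 78) (nat_lit 152) (nat_lit 0) (XT.lf (nat_lit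 76) (nat_lit 2375110809) (nat_lit 0) (nat_lit 2384995823) (nat_lit 76) (nat_lit 2384995823) (nat_lit 59) (nat_lit 3) (nat_lit 58) (nat_lit 1) (nat_lit 59) (nat_lit 1) (nat_lit 373) (nat_lit 422) (nat_lit 225)) (XT.lf (nat_lit 152) (nat_lit 7025602097) (nat_lit 0) (nat_lit 3036870) (nat_lit 76) (nat_lit 3036870) (nat_lit 58) (nat_lit 1) (nat_lit 56) (nat_lit 1) (nat_lit 57) (nat_lit 1) (nat_lit 374) (nat_lit 422) (nat_lit 224)))))) (XT.nd (nat_lit 468) (nat_lit 456) (nat_lit 0) (XT.nd (nat_lit 234) (nat_lit 228) (nat_lit 0) (XT.nd (nat_lit 78) (nat_lit 228) (nat_lit 0) (XT.lf (nat_lit 0) (nat_lit 2302620386) (nat_lit 0) (nat_lit 2311159433) (nat_lit 152) (nat_lit 2302620386) (nat_lit 56) (nat_lit 3) (nat_lit 56) (nat_lit 1) (nat_lit 58) (nat_lit 1) (nat_lit 375) (nat_lit 422) (nat_lit 223)) (XT.nd (nat_lit 78) (nat_lit 152) (nat_lit 0) (XT.lf (nat_lit 76) (nat_lit 2262857985) (nat_lit 0) (nat_lit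 2270990410) (nat_lit 76) (nat_lit 2270990410) (nat_lit 56) (nat_lit 3) (nat_lit 55) (nat_lit 1) (nat_lit 56) (nat_lit 1) (nat_lit 376) (nat_lit 422) (nat_lit 222)) (XT.lf (nat_lit 152) (nat_lit 6691818497) (nat_lit 0) (nat_lit 2498441) (nat_lit 76) (nat_lit 2498441) (nat_lit 55) (nat_lit 1) (nat_lit 53) (nat_lit 1) (nat_lit 54) (nat_lit 1) (nat_lit 377) (nat_lit 422) (nat_lit 221)))) (XT.nd (nat_lit 78) (nat_lit 228) (nat_lit 0) (XT.lf (nat_lit 0) (nat_lit 2193334856) (nat_lit 0) (nat_lit 2200359950) (nat_lit 152) (nat_lit 2193334856) (nat_lit 53) (nat_lit 3) (nat_lit 53) (nat_lit 1) (nat_lit 55) (nat_lit 1) (nat_lit 378) (nat_lit 422) (nat_lit 220)) (XT.nd (nat_lit 78) (nat_lit 152) (nat_lit 0) (XT.lf (nat_lit 76) (nat_lit 2155800240) (nat_lit 0) (nat_lit 2162490806) (nat_lit 76) (nat_lit 2162490806) (nat_lit 53) (nat_lit 3) (nat_lit 52) (nat_lit 1) (nat_lit 53) (nat_lit 1) (nat_lit 379) (nat_lit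 422) (nat_lit 219)) (XT.lf (nat_lit 152) (nat_lit 6373793033) (nat_lit 0) (nat_lit 2055473) (nat_lit 76) (nat_lit 2055473) (nat_lit 52) (nat_lit 1) (nat_lit 50) (nat_lit 1) (nat_lit 51) (nat_lit 1) (nat_lit 380) (nat_lit 422) (nat_lit 218))))) (XT.nd (nat_lit 234) (nat_lit 228) (nat_lit 0) (XT.nd (nat_lit 78) (nat_lit 228) (nat_lit 0) (XT.lf (nat_lit 0) (nat_lit 2089189028) (nat_lit 0) (nat_lit 2094968591) (nat_lit 152) (nat_lit 2089189028) (nat_lit 50) (nat_lit 3) (nat_lit 50) (nat_lit 1) (nat_lit 52) (nat_lit 1) (nat_lit 381) (nat_lit 422) (nat_lit 217)) (XT.nd (nat_lit 78) (nat_lit 152) (nat_lit 0) (XT.lf (nat_lit 76) (nat_lit 2053716836) (nat_lit 0) (nat_lit 2059221181) (nat_lit 76) (nat_lit 2059221181) (nat_lit 50) (nat_lit 3) (nat_lit 49) (nat_lit 1) (nat_lit 50) (nat_lit 1) (nat_lit 382) (nat_lit 422) (nat_lit 216)) (XT.lf (nat_lit 152) (nat_lit 6070799487) (nat_lit 0) (nat_lit 1691043)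 (nat_lit 76) (nat_lit 1691043) (nat_lit 49) (nat_lit 1) (nat_lit 47) (nat_lit 1) (nat_lit 48) (nat_lit 1) (nat_lit 383) (nat_lit 422) (nat_lit 215)))) (XT.nd (nat_lit 156) (nat_lit 152) (nat_lit 0) (XT.nd (nat_lit 78) (nat_lit 76) (nat_lit 0) (XT.lf (nat_lit 0) (nat_lit 1989949569) (nat_lit 0) (nat_lit 1994704430) (nat_lit 152) (nat_lit 1989949569) (nat_lit 47) (nat_lit 3) (nat_lit 47) (nat_lit 1) (nat_lit 49) (nat_lit 1) (nat_lit 384) (nat_lit 422) (nat_lit 214)) (XT.lf (nat_lit 76) (nat_lit 1956392822) (nat_lit 0) (nat_lit 1960921261) (nat_lit 76) (nat_lit 1960921261) (nat_lit 47) (nat_lit 3) (nat_lit 46) (nat_lit 1) (nat_lit 47) (nat_lit 1) (nat_lit 385) (nat_lit 422) (nat_lit 213))) (XT.nd (nat_lit 78) (nat_lit 0) (nat_lit 0) (XT.lf (nat_lit 152) (nat_lit 5782141939) (nat_lit 0) (nat_lit 1391225) (nat_lit 76) (nat_lit 1391225) (nat_lit 46) (nat_lit 1) (nat_lit 44) (nat_lit 1) (nat_lit 45) (nat_lit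 1) (nat_lit 386) (nat_lit 422) (nat_lit 212)) (XT.lf (nat_lit 0) (nat_lit 1895392231) (nat_lit 0) (nat_lit 1899304067) (nat_lit 152) (nat_lit 1895392231) (nat_lit 44) (nat_lit 3) (nat_lit 44) (nat_lit 1) (nat_lit 46) (nat_lit 1) (nat_lit 387) (nat_lit 422) (nat_lit 211))))))))
noncomputable def ec366 : XT := (XT.nd (nat_lit 1950) (nat_lit 1444) (nat_lit 0) (XT.nd (nat_lit 936) (nat_lit 988) (nat_lit 0) (XT.nd (nat_lit 468) (nat_lit 456) (nat_lit 0) (XT.nd (nat_lit 234) (nat_lit 228) (nat_lit 0) (XT.nd (nat_lit 78) (nat_lit 152) (nat_lit 0) (XT.lf (nat_lit 76) (nat_lit 1863619596) (nat_lit 0) (nat_lit 1867345153) (nat_lit 76) (nat_lit 1867345153) (nat_lit 44) (nat_lit 3) (nat_lit 43) (nat_lit 1) (nat_lit 44) (nat_lit 1) (nat_lit 388) (nat_lit 422) (nat_lit 210)) (XT.nd (nat_lit 78) (nat_lit 0) (nat_lit 0) (XT.lf (nat_lit 152) (nat_lit 5507154079) (nat_lit 0) (nat_lit 1144564) (nat_lit 76) (nat_lit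 1144564) (nat_lit 43) (nat_lit 1) (nat_lit 41) (nat_lit 1) (nat_lit 42) (nat_lit 1) (nat_lit 389) (nat_lit 422) (nat_lit 209)) (XT.lf (nat_lit 0) (nat_lit 1805301780) (nat_lit 0) (nat_lit 1808520056) (nat_lit 152) (nat_lit 1805301780) (nat_lit 41) (nat_lit 3) (nat_lit 41) (nat_lit 1) (nat_lit 43) (nat_lit 1) (nat_lit 390) (nat_lit 422) (nat_lit 208)))) (XT.nd (nat_lit 78) (nat_lit 152) (nat_lit 0) (XT.lf (nat_lit 76) (nat_lit 1775195291) (nat_lit 0) (nat_lit 1778260317) (nat_lit 76) (nat_lit 1778260317) (nat_lit 41) (nat_lit 3) (nat_lit 40) (nat_lit 1) (nat_lit 41) (nat_lit 1) (nat_lit 391) (nat_lit 422) (nat_lit 207)) (XT.nd (nat_lit 78) (nat_lit 0) (nat_lit 0) (XT.lf (nat_lit 152) (nat_lit 5245198430) (nat_lit 0) (nat_lit 941636) (nat_lit 76) (nat_lit 941636) (nat_lit 40) (nat_lit 1) (nat_lit 38) (nat_lit 1) (nat_lit 39) (nat_lit 1) (nat_lit 392) (nat_lit 422) (nat_lit 206)) (XT.lf (nat_lit 0)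 (nat_lit 1719471861) (nat_lit 0) (nat_lit 1722119546) (nat_lit 152) (nat_lit 1719471861) (nat_lit 38) (nat_lit 3) (nat_lit 38) (nat_lit 1) (nat_lit 40) (nat_lit 1) (nat_lit 393) (nat_lit 422) (nat_lit 205))))) (XT.nd (nat_lit 234) (nat_lit 228) (nat_lit 0) (XT.nd (nat_lit 78) (nat_lit 152) (nat_lit 0) (XT.lf (nat_lit 76) (nat_lit 1690925023) (nat_lit 0) (nat_lit 1693446628) (nat_lit 76) (nat_lit 1693446628) (nat_lit 38) (nat_lit 3) (nat_lit 37) (nat_lit 1) (nat_lit 38) (nat_lit 1) (nat_lit 394) (nat_lit 422) (nat_lit 204)) (XT.nd (nat_lit 78) (nat_lit 0) (nat_lit 0) (XT.lf (nat_lit 152) (nat_lit 4995665481) (nat_lit 0) (nat_lit 774686) (nat_lit 76) (nat_lit 774686) (nat_lit 37) (nat_lit 1) (nat_lit 35) (nat_lit 1) (nat_lit 36) (nat_lit 1) (nat_lit 395) (nat_lit 422) (nat_lit 203)) (XT.lf (nat_lit 0) (nat_lit 1637704822) (nat_lit 0) (nat_lit 1639883078) (nat_lit 152) (nat_lit 1637704822) (nat_lit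 35) (nat_lit 3) (nat_lit 35) (nat_lit 1) (nat_lit 37) (nat_lit 1) (nat_lit 396) (nat_lit 422) (nat_lit 202)))) (XT.nd (nat_lit 78) (nat_lit 152) (nat_lit 0) (XT.lf (nat_lit 76) (nat_lit 1610621025) (nat_lit 0) (nat_lit 1612695555) (nat_lit 76) (nat_lit 1612695555) (nat_lit 35) (nat_lit 3) (nat_lit 34) (nat_lit 1) (nat_lit 35) (nat_lit 1) (nat_lit 397) (nat_lit 422) (nat_lit 201)) (XT.nd (nat_lit 78) (nat_lit 0) (nat_lit 0) (XT.lf (nat_lit 152) (nat_lit 4757972785) (nat_lit 0) (nat_lit 637336) (nat_lit 76) (nat_lit 637336) (nat_lit 34) (nat_lit 1) (nat_lit 32) (nat_lit 1) (nat_lit 33) (nat_lit 1) (nat_lit 398) (nat_lit 422) (nat_lit 200)) (XT.lf (nat_lit 0) (nat_lit 1559811492) (nat_lit 0) (nat_lit 1561603549) (nat_lit 152) (nat_lit 1559811492) (nat_lit 32) (nat_lit 3) (nat_lit 32) (nat_lit 1) (nat_lit 34) (nat_lit 1) (nat_lit 399) (nat_lit 422) (nat_lit 199)))))) (XT.nd (nat_lit 468) (nat_lit 532)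 (nat_lit 0) (XT.nd (nat_lit 234) (nat_lit 228) (nat_lit 0) (XT.nd (nat_lit 78) (nat_lit 152) (nat_lit 0) (XT.lf (nat_lit 76) (nat_lit 1534102687) (nat_lit 0) (nat_lit 1535809408) (nat_lit 76) (nat_lit 1535809408) (nat_lit 32) (nat_lit 3) (nat_lit 31) (nat_lit 1) (nat_lit 32) (nat_lit 1) (nat_lit 400) (nat_lit 422) (nat_lit 198)) (XT.nd (nat_lit 78) (nat_lit 0) (nat_lit 0) (XT.lf (nat_lit 152) (nat_lit 4531564015) (nat_lit 0) (nat_lit 524338) (nat_lit 76) (nat_lit 524338) (nat_lit 31) (nat_lit 1) (nat_lit 29) (nat_lit 1) (nat_lit 30) (nat_lit 1) (nat_lit 401) (nat_lit 422) (nat_lit 197)) (XT.lf (nat_lit 0) (nat_lit 1485610948) (nat_lit 0) (nat_lit 1487085278) (nat_lit 152) (nat_lit 1485610948) (nat_lit 29) (nat_lit 3) (nat_lit 29) (nat_lit 1) (nat_lit 31) (nat_lit 1) (nat_lit 402) (nat_lit 422) (nat_lit 196)))) (XT.nd (nat_lit 78) (nat_lit 152) (nat_lit 0) (XT.lf (nat_lit 76) (nat_lit 1461196538)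 (nat_lit 0) (nat_lit 1462600662) (nat_lit 76) (nat_lit 1462600662) (nat_lit 29) (nat_lit 3) (nat_lit 28) (nat_lit 1) (nat_lit 29) (nat_lit 1) (nat_lit 403) (nat_lit 422) (nat_lit 195)) (XT.nd (nat_lit 78) (nat_lit 0) (nat_lit 0) (XT.lf (nat_lit 152) (nat_lit 4315908005) (nat_lit 0) (nat_lit 431374) (nat_lit 76) (nat_lit 431374) (nat_lit 28) (nat_lit 1) (nat_lit 26) (nat_lit 1) (nat_lit 27) (nat_lit 1) (nat_lit 404) (nat_lit 422) (nat_lit 194)) (XT.lf (nat_lit 0) (nat_lit 1414930254) (nat_lit 0) (nat_lit 1416143189) (nat_lit 152) (nat_lit 1414930254) (nat_lit 26) (nat_lit 3) (nat_lit 26) (nat_lit 1) (nat_lit 28) (nat_lit 1) (nat_lit 405) (nat_lit 422) (nat_lit 193))))) (XT.nd (nat_lit 234) (nat_lit 304) (nat_lit 0) (XT.nd (nat_lit 78) (nat_lit 152) (nat_lit 0) (XT.lf (nat_lit 76) (nat_lit 1391736161) (nat_lit 0) (nat_lit 1392891337) (nat_lit 76) (nat_lit 1392891337) (nat_lit 26) (nat_lit 3) (nat_lit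 25) (nat_lit 1) (nat_lit 26) (nat_lit 1) (nat_lit 406) (nat_lit 422) (nat_lit 192)) (XT.nd (nat_lit 78) (nat_lit 0) (nat_lit 0) (XT.lf (nat_lit 152) (nat_lit 4110497792) (nat_lit 0) (nat_lit 354892) (nat_lit 76) (nat_lit 354892) (nat_lit 25) (nat_lit 1) (nat_lit 23) (nat_lit 1) (nat_lit 24) (nat_lit 1) (nat_lit 407) (nat_lit 422) (nat_lit 191)) (XT.lf (nat_lit 0) (nat_lit 1347604194) (nat_lit 0) (nat_lit 1348602079) (nat_lit 152) (nat_lit 1347604194) (nat_lit 23) (nat_lit 3) (nat_lit 23) (nat_lit 1) (nat_lit 25) (nat_lit 1) (nat_lit 408) (nat_lit 422) (nat_lit 190)))) (XT.nd (nat_lit 156) (nat_lit 76) (nat_lit 0) (XT.nd (nat_lit 78) (nat_lit 152) (nat_lit 0) (XT.lf (nat_lit 76) (nat_lit 1325562073) (nat_lit 0) (nat_lit 1326512439) (nat_lit 76) (nat_lit 1326512439) (nat_lit 23) (nat_lit 3) (nat_lit 22) (nat_lit 1) (nat_lit 23) (nat_lit 1) (nat_lit 409) (nat_lit 422) (nat_lit 189)) (XT.lf (nat_lit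 152) (nat_lit 3914849654) (nat_lit 0) (nat_lit 291971) (nat_lit 76) (nat_lit 291971) (nat_lit 22) (nat_lit 1) (nat_lit 20) (nat_lit 1) (nat_lit 21) (nat_lit 1) (nat_lit 410) (nat_lit 422) (nat_lit 188))) (XT.nd (nat_lit 78) (nat_lit 76) (nat_lit 0) (XT.lf (nat_lit 0) (nat_lit 1283474994) (nat_lit 0) (nat_lit 1284295956) (nat_lit 152) (nat_lit 1283474994) (nat_lit 20) (nat_lit 3) (nat_lit 20) (nat_lit 1) (nat_lit 22) (nat_lit 1) (nat_lit 411) (nat_lit 422) (nat_lit 187)) (XT.lf (nat_lit 76) (nat_lit 1262521568) (nat_lit 0) (nat_lit 1263303437) (nat_lit 76) (nat_lit 1263303437) (nat_lit 20) (nat_lit 3) (nat_lit 19) (nat_lit 1) (nat_lit 20) (nat_lit 1) (nat_lit 412) (nat_lit 422) (nat_lit 186))))))) (XT.nd (nat_lit 936) (nat_lit 532) (nat_lit 0) (XT.nd (nat_lit 468) (nat_lit 456) (nat_lit 0) (XT.nd (nat_lit 234) (nat_lit 228) (nat_lit 0) (XT.nd (nat_lit 78) (nat_lit 76) (nat_lit 0) (XT.lf (nat_lit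 152) (nat_lit 3728502164) (nat_lit 0) (nat_lit 240205) (nat_lit 76) (nat_lit 240205) (nat_lit 19) (nat_lit 1) (nat_lit 17) (nat_lit 1) (nat_lit 18) (nat_lit 1) (nat_lit 413) (nat_lit 422) (nat_lit 185)) (XT.nd (nat_lit 78) (nat_lit 76) (nat_lit 0) (XT.lf (nat_lit 0) (nat_lit 1222392042) (nat_lit 0) (nat_lit 1223067449) (nat_lit 152) (nat_lit 1222392042) (nat_lit 17) (nat_lit 3) (nat_lit 17) (nat_lit 1) (nat_lit 19) (nat_lit 1) (nat_lit 414) (nat_lit 422) (nat_lit 184)) (XT.lf (nat_lit 76) (nat_lit 1202468543) (nat_lit 0) (nat_lit 1203111788) (nat_lit 76) (nat_lit 1203111788) (nat_lit 17) (nat_lit 3) (nat_lit 16) (nat_lit 1) (nat_lit 17) (nat_lit 1) (nat_lit 415) (nat_lit 422) (nat_lit 183)))) (XT.nd (nat_lit 78) (nat_lit 76) (nat_lit 0) (XT.lf (nat_lit 152) (nat_lit 3551015258) (nat_lit 0) (nat_lit 197617) (nat_lit 76) (nat_lit 197617) (nat_lit 16) (nat_lit 1) (nat_lit 14) (nat_lit 1) (nat_lit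 15) (nat_lit 1) (nat_lit 416) (nat_lit 422) (nat_lit 182)) (XT.nd (nat_lit 78) (nat_lit 76) (nat_lit 0) (XT.lf (nat_lit 0) (nat_lit 1164211614) (nat_lit 0) (nat_lit 1164767273) (nat_lit 152) (nat_lit 1164211614) (nat_lit 14) (nat_lit 3) (nat_lit 14) (nat_lit 1) (nat_lit 16) (nat_lit 1) (nat_lit 417) (nat_lit 422) (nat_lit 181)) (XT.lf (nat_lit 76) (nat_lit 1145263298) (nat_lit 0) (nat_lit 1145792497) (nat_lit 76) (nat_lit 1145792497) (nat_lit 14) (nat_lit 3) (nat_lit 13) (nat_lit 1) (nat_lit 14) (nat_lit 1) (nat_lit 418) (nat_lit 422) (nat_lit 180))))) (XT.nd (nat_lit 234) (nat_lit 228) (nat_lit 0) (XT.nd (nat_lit 78) (nat_lit 76) (nat_lit 0) (XT.lf (nat_lit 152) (nat_lit 3381969326) (nat_lit 0) (nat_lit 162580) (nat_lit 76) (nat_lit 162580) (nat_lit 13) (nat_lit 1) (nat_lit 11) (nat_lit 1) (nat_lit 12) (nat_lit 1) (nat_lit 419) (nat_lit 422) (nat_lit 179)) (XT.nd (nat_lit 78) (nat_lit 76) (nat_lit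 0) (XT.lf (nat_lit 0) (nat_lit 1108796591) (nat_lit 0) (nat_lit 1109253733) (nat_lit 152) (nat_lit 1108796591) (nat_lit 11) (nat_lit 3) (nat_lit 11) (nat_lit 1) (nat_lit 13) (nat_lit 1) (nat_lit 420) (nat_lit 422) (nat_lit 178)) (XT.lf (nat_lit 76) (nat_lit 1090772332) (nat_lit 0) (nat_lit 1091207705) (nat_lit 76) (nat_lit 1091207705) (nat_lit 11) (nat_lit 3) (nat_lit 10) (nat_lit 1) (nat_lit 11) (nat_lit 1) (nat_lit 421) (nat_lit 422) (nat_lit 177)))) (XT.nd (nat_lit 78) (nat_lit 76) (nat_lit 0) (XT.lf (nat_lit 152) (nat_lit 3220964330) (nat_lit 0) (nat_lit 133755) (nat_lit 76) (nat_lit 133755) (nat_lit 10) (nat_lit 1) (nat_lit 8) (nat_lit 1) (nat_lit 9) (nat_lit 1) (nat_lit 422) (nat_lit 422) (nat_lit 176)) (XT.nd (nat_lit 78) (nat_lit 76) (nat_lit 0) (XT.lf (nat_lit 0) (nat_lit 1056016190) (nat_lit 0) (nat_lit 1056392282) (nat_lit 152) (nat_lit 1056016190) (nat_lit 8) (nat_lit 3) (nat_lit 8)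 (nat_lit 1) (nat_lit 10) (nat_lit 1) (nat_lit 423) (nat_lit 422) (nat_lit 175)) (XT.lf (nat_lit 76) (nat_lit 1038868128) (nat_lit 0) (nat_lit 1039226311) (nat_lit 76) (nat_lit 1039226311) (nat_lit 8) (nat_lit 3) (nat_lit 7) (nat_lit 1) (nat_lit 8) (nat_lit 1) (nat_lit 424) (nat_lit 422) (nat_lit 174)))))) (XT.nd (nat_lit 468) (nat_lit 76) (nat_lit 0) (XT.nd (nat_lit 234) (nat_lit 228) (nat_lit 0) (XT.nd (nat_lit 78) (nat_lit 76) (nat_lit 0) (XT.lf (nat_lit 152) (nat_lit 3067618941) (nat_lit 0) (nat_lit 110040) (nat_lit 76) (nat_lit 110040) (nat_lit 7) (nat_lit 1) (nat_lit 5) (nat_lit 1) (nat_lit 6) (nat_lit 1) (nat_lit 425) (nat_lit 422) (nat_lit 173)) (XT.nd (nat_lit 78) (nat_lit 76) (nat_lit 0) (XT.lf (nat_lit 0) (nat_lit 1005745695) (nat_lit 0) (nat_lit 1006055107) (nat_lit 152) (nat_lit 1005745695) (nat_lit 5) (nat_lit 3) (nat_lit 5) (nat_lit 1) (nat_lit 7) (nat_lit 1) (nat_lit 426) (nat_lit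 422) (nat_lit 172)) (XT.lf (nat_lit 76) (nat_lit 989428933) (nat_lit 0) (nat_lit 989723611) (nat_lit 76) (nat_lit 989723611) (nat_lit 5) (nat_lit 3) (nat_lit 4) (nat_lit 1) (nat_lit 5) (nat_lit 1) (nat_lit 427) (nat_lit 422) (nat_lit 171)))) (XT.nd (nat_lit 78) (nat_lit 76) (nat_lit 0) (XT.lf (nat_lit 152) (nat_lit 2921569709) (nat_lit 0) (nat_lit 90530) (nat_lit 76) (nat_lit 90530) (nat_lit 4) (nat_lit 1) (nat_lit 2) (nat_lit 1) (nat_lit 3) (nat_lit 1) (nat_lit 428) (nat_lit 422) (nat_lit 170)) (XT.nd (nat_lit 78) (nat_lit 76) (nat_lit 0) (XT.lf (nat_lit 0) (nat_lit 957866198) (nat_lit 0) (nat_lit 958120752) (nat_lit 152) (nat_lit 957866198) (nat_lit 2) (nat_lit 3) (nat_lit 2) (nat_lit 1) (nat_lit 4) (nat_lit 1) (nat_lit 429) (nat_lit 422) (nat_lit 169)) (XT.lf (nat_lit 76) (nat_lit 942338539) (nat_lit 0) (nat_lit 942580972) (nat_lit 76) (nat_lit 942580972) (nat_lit 2) (nat_lit 3) (nat_lit 1)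 (nat_lit 1) (nat_lit 2) (nat_lit 1) (nat_lit 430) (nat_lit 422) (nat_lit 168))))) (XT.nd (nat_lit 234) (nat_lit 0) (nat_lit 0) (XT.nd (nat_lit 78) (nat_lit 0) (nat_lit 0) (XT.lf (nat_lit 0) (nat_lit 58671083644) (nat_lit 0) (nat_lit 0) (nat_lit 0) (nat_lit 0) (nat_lit 0) (nat_lit 0) (nat_lit 1) (nat_lit 0) (nat_lit 1) (nat_lit 0) (nat_lit 431) (nat_lit 422) (nat_lit 167)) (XT.nd (nat_lit 78) (nat_lit 0) (nat_lit 0) (XT.lf (nat_lit 0) (nat_lit 58671072605) (nat_lit 0) (nat_lit 0) (nat_lit 0) (nat_lit 0) (nat_lit 0) (nat_lit 0) (nat_lit 1) (nat_lit 0) (nat_lit 1) (nat_lit 0) (nat_lit 432) (nat_lit 422) (nat_lit 166)) (XT.lf (nat_lit 0) (nat_lit 58671062091) (nat_lit 0) (nat_lit 0) (nat_lit 0) (nat_lit 0) (nat_lit 0) (nat_lit 0) (nat_lit 1) (nat_lit 0) (nat_lit 1) (nat_lit 0) (nat_lit 433) (nat_lit 422) (nat_lit 165)))) (XT.nd (nat_lit 156) (nat_lit 0) (nat_lit 0) (XT.nd (nat_lit 78) (nat_lit 0) (nat_lit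 0) (XT.lf (nat_lit 0) (nat_lit 58671052078) (nat_lit 0) (nat_lit 0) (nat_lit 0) (nat_lit 0) (nat_lit 0) (nat_lit 0) (nat_lit 1) (nat_lit 0) (nat_lit 1) (nat_lit 0) (nat_lit 434) (nat_lit 422) (nat_lit 164)) (XT.lf (nat_lit 0) (nat_lit 58671042543) (nat_lit 0) (nat_lit 0) (nat_lit 0) (nat_lit 0) (nat_lit 0) (nat_lit 0) (nat_lit 1) (nat_lit 0) (nat_lit 1) (nat_lit 0) (nat_lit 435) (nat_lit 422) (nat_lit 163))) (XT.nd (nat_lit 78) (nat_lit 0) (nat_lit 0) (XT.lf (nat_lit 0) (nat_lit 58671033461) (nat_lit 0) (nat_lit 0) (nat_lit 0) (nat_lit 0) (nat_lit 0) (nat_lit 0) (nat_lit 1) (nat_lit 0) (nat_lit 1) (nat_lit 0) (nat_lit 436) (nat_lit 422) (nat_lit 162)) (XT.lf (nat_lit 0) (nat_lit 58671024811) (nat_lit 0) (nat_lit 0) (nat_lit 0) (nat_lit 0) (nat_lit 0) (nat_lit 0) (nat_lit 1) (nat_lit 0) (nat_lit 1) (nat_lit 0) (nat_lit 437) (nat_lit 422) (nat_lit 161))))))))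
noncomputable def ec367 : XT := (XT.nd (nat_lit 34242) (nat_lit 0) (nat_lit 16112) (XT.nd (nat_lit 33228) (nat_lit 0) (nat_lit 19532) (XT.nd (nat_lit 32760) (nat_lit 0) (nat_lit 22268) (XT.nd (nat_lit 32526) (nat_lit 0) (nat_lit 22192) (XT.nd (nat_lit 78) (nat_lit 0) (nat_lit 0) (XT.lf (nat_lit 0) (nat_lit 58671016574) (nat_lit 0) (nat_lit 0) (nat_lit 0) (nat_lit 0) (nat_lit 0) (nat_lit 0) (nat_lit 1) (nat_lit 0) (nat_lit 1) (nat_lit 0) (nat_lit 438) (nat_lit 422) (nat_lit 160)) (XT.nd (nat_lit 78) (nat_lit 0) (nat_lit 0) (XT.lf (nat_lit 0) (nat_lit 58671008729) (nat_lit 0) (nat_lit 0) (nat_lit 0) (nat_lit 0) (nat_lit 0) (nat_lit 0) (nat_lit 1) (nat_lit 0) (nat_lit 1) (nat_lit 0) (nat_lit 439) (nat_lit 422) (nat_lit 159)) (XT.lf (nat_lit 0) (nat_lit 58671001257) (nat_lit 0) (nat_lit 0) (nat_lit 0) (nat_lit 0) (nat_lit 0) (nat_lit 0) (nat_lit 1) (nat_lit 0) (nat_lit 1) (nat_lit 0) (nat_lit 440)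 (nat_lit 422) (nat_lit 158)))) (XT.nd (nat_lit 78) (nat_lit 0) (nat_lit 0) (XT.lf (nat_lit 836) (nat_lit 30829146518) (nat_lit 0) (nat_lit 54737078779) (nat_lit 836) (nat_lit 30829146518) (nat_lit 303) (nat_lit 1) (nat_lit 292) (nat_lit 0) (nat_lit 303) (nat_lit 0) (nat_lit 174) (nat_lit 423) (nat_lit 423)) (XT.nd (nat_lit 78) (nat_lit 0) (nat_lit 76) (XT.lf (nat_lit 836) (nat_lit 119497620771) (nat_lit 76) (nat_lit 53854222670) (nat_lit 0) (nat_lit 53854222670) (nat_lit 303) (nat_lit 1) (nat_lit 293) (nat_lit 1) (nat_lit 292) (nat_lit 0) (nat_lit 175) (nat_lit 423) (nat_lit 422)) (XT.lf (nat_lit 836) (nat_lit 56950766785) (nat_lit 0) (nat_lit 107892507407) (nat_lit 760) (nat_lit 56950766785) (nat_lit 304) (nat_lit 1) (nat_lit 293) (nat_lit 1) (nat_lit 303) (nat_lit 1) (nat_lit 176) (nat_lit 423) (nat_lit 421))))) (XT.nd (nat_lit 234) (nat_lit 0) (nat_lit 152) (XT.nd (nat_lit 78) (nat_lit 0) (nat_lit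 76) (XT.lf (nat_lit 836) (nat_lit 106831724980) (nat_lit 76) (nat_lit 54862569799) (nat_lit 0) (nat_lit 54862569799) (nat_lit 304) (nat_lit 1) (nat_lit 294) (nat_lit 1) (nat_lit 293) (nat_lit 1) (nat_lit 177) (nat_lit 423) (nat_lit 420)) (XT.nd (nat_lit 78) (nat_lit 0) (nat_lit 0) (XT.lf (nat_lit 836) (nat_lit 49173617094) (nat_lit 0) (nat_lit 113138446211) (nat_lit 760) (nat_lit 49173617094) (nat_lit 305) (nat_lit 1) (nat_lit 294) (nat_lit 1) (nat_lit 304) (nat_lit 1) (nat_lit 178) (nat_lit 423) (nat_lit 419)) (XT.lf (nat_lit 836) (nat_lit 88441953118) (nat_lit 76) (nat_lit 59063566087) (nat_lit 0) (nat_lit 59063566087) (nat_lit 305) (nat_lit 1) (nat_lit 295) (nat_lit 1) (nat_lit 294) (nat_lit 1) (nat_lit 179) (nat_lit 423) (nat_lit 418)))) (XT.nd (nat_lit 78) (nat_lit 0) (nat_lit 0) (XT.lf (nat_lit 836) (nat_lit 38779242008) (nat_lit 0) (nat_lit 124259088411) (nat_lit 760) (nat_lit 38779242008)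 (nat_lit 306) (nat_lit 1) (nat_lit 295) (nat_lit 1) (nat_lit 305) (nat_lit 1) (nat_lit 180) (nat_lit 423) (nat_lit 417)) (XT.nd (nat_lit 78) (nat_lit 0) (nat_lit 76) (XT.lf (nat_lit 836) (nat_lit 65189096501) (nat_lit 76) (nat_lit 66003894244) (nat_lit 0) (nat_lit 66003894244) (nat_lit 306) (nat_lit 1) (nat_lit 296) (nat_lit 1) (nat_lit 295) (nat_lit 1) (nat_lit 181) (nat_lit 423) (nat_lit 416)) (XT.lf (nat_lit 836) (nat_lit 26170026863) (nat_lit 0) (nat_lit 140405287337) (nat_lit 760) (nat_lit 26170026863) (nat_lit 307) (nat_lit 1) (nat_lit 296) (nat_lit 1) (nat_lit 306) (nat_lit 1) (nat_lit 182) (nat_lit 423) (nat_lit 415)))))) (XT.nd (nat_lit 468) (nat_lit 1368) (nat_lit 0) (XT.nd (nat_lit 234) (nat_lit 912) (nat_lit 0) (XT.nd (nat_lit 78) (nat_lit 684) (nat_lit 0) (XT.lf (nat_lit 836) (nat_lit 37838268723) (nat_lit 76) (nat_lit 75279834267) (nat_lit 0) (nat_lit 75279834267) (nat_lit 307) (nat_lit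 1) (nat_lit 297) (nat_lit 1) (nat_lit 296) (nat_lit 1) (nat_lit 183) (nat_lit 423) (nat_lit 414)) (XT.nd (nat_lit 78) (nat_lit 760) (nat_lit 0) (XT.lf (nat_lit 76) (nat_lit 11703372711) (nat_lit 0) (nat_lit 160821269186) (nat_lit 760) (nat_lit 11703372711) (nat_lit 298) (nat_lit 1) (nat_lit 297) (nat_lit 1) (nat_lit 307) (nat_lit 1) (nat_lit 184) (nat_lit 423) (nat_lit 413)) (XT.lf (nat_lit 836) (nat_lit 7068546080) (nat_lit 0) (nat_lit 86532297493) (nat_lit 760) (nat_lit 86532297493) (nat_lit 298) (nat_lit 1) (nat_lit 287) (nat_lit 1) (nat_lit 297) (nat_lit 1) (nat_lit 185) (nat_lit 423) (nat_lit 412)))) (XT.nd (nat_lit 78) (nat_lit 380) (nat_lit 0) (XT.lf (nat_lit 532) (nat_lit 167745500380) (nat_lit 0) (nat_lit 4234345291) (nat_lit 456) (nat_lit 4234345291) (nat_lit 287) (nat_lit 1) (nat_lit 280) (nat_lit 1) (nat_lit 286) (nat_lit 1) (nat_lit 186) (nat_lit 423) (nat_lit 411)) (XT.nd (nat_lit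 78) (nat_lit 380) (nat_lit 0) (XT.lf (nat_lit 76) (nat_lit 73338040815) (nat_lit 0) (nat_lit 25669571800) (nat_lit 532) (nat_lit 73338040815) (nat_lit 281) (nat_lit 1) (nat_lit 280) (nat_lit 1) (nat_lit 287) (nat_lit 1) (nat_lit 187) (nat_lit 423) (nat_lit 410)) (XT.lf (nat_lit 456) (nat_lit 126195943184) (nat_lit 0) (nat_lit 21222836647) (nat_lit 380) (nat_lit 21222836647) (nat_lit 281) (nat_lit 1) (nat_lit 275) (nat_lit 1) (nat_lit 280) (nat_lit 1) (nat_lit 188) (nat_lit 423) (nat_lit 409))))) (XT.nd (nat_lit 234) (nat_lit 988) (nat_lit 0) (XT.nd (nat_lit 78) (nat_lit 380) (nat_lit 0) (XT.lf (nat_lit 76) (nat_lit 52311131736) (nat_lit 0) (nat_lit 60393185152) (nat_lit 456) (nat_lit 52311131736) (nat_lit 276) (nat_lit 1) (nat_lit 275) (nat_lit 1) (nat_lit 281) (nat_lit 1) (nat_lit 189) (nat_lit 423) (nat_lit 408)) (XT.nd (nat_lit 78) (nat_lit 0) (nat_lit 0) (XT.lf (nat_lit 456) (nat_lit 83101818210)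 (nat_lit 0) (nat_lit 39206876141) (nat_lit 380) (nat_lit 39206876141) (nat_lit 276) (nat_lit 1) (nat_lit 270) (nat_lit 1) (nat_lit 275) (nat_lit 1) (nat_lit 190) (nat_lit 423) (nat_lit 407)) (XT.lf (nat_lit 76) (nat_lit 30621915583) (nat_lit 0) (nat_lit 96873649445) (nat_lit 456) (nat_lit 30621915583) (nat_lit 271) (nat_lit 1) (nat_lit 270) (nat_lit 1) (nat_lit 276) (nat_lit 1) (nat_lit 191) (nat_lit 423) (nat_lit 406)))) (XT.nd (nat_lit 156) (nat_lit 684) (nat_lit 0) (XT.nd (nat_lit 78) (nat_lit 0) (nat_lit 0) (XT.lf (nat_lit 380) (nat_lit 38864222432) (nat_lit 0) (nat_lit 57971289188) (nat_lit 304) (nat_lit 57971289188) (nat_lit 271) (nat_lit 1) (nat_lit 266) (nat_lit 1) (nat_lit 270) (nat_lit 1) (nat_lit 192) (nat_lit 423) (nat_lit 405)) (XT.lf (nat_lit 76) (nat_lit 8456595476) (nat_lit 0) (nat_lit 134710242504) (nat_lit 380) (nat_lit 8456595476) (nat_lit 267) (nat_lit 1) (nat_lit 266) (nat_lit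 1) (nat_lit 271) (nat_lit 1) (nat_lit 193) (nat_lit 423) (nat_lit 404))) (XT.nd (nat_lit 78) (nat_lit 304) (nat_lit 0) (XT.lf (nat_lit 76) (nat_lit 71257703485) (nat_lit 0) (nat_lit 5967971085) (nat_lit 380) (nat_lit 71257703485) (nat_lit 262) (nat_lit 1) (nat_lit 261) (nat_lit 1) (nat_lit 266) (nat_lit 1) (nat_lit 194) (nat_lit 423) (nat_lit 403)) (XT.lf (nat_lit 380) (nat_lit 117871479021) (nat_lit 0) (nat_lit 13795712320) (nat_lit 304) (nat_lit 13795712320) (nat_lit 262) (nat_lit 1) (nat_lit 257) (nat_lit 1) (nat_lit 261) (nat_lit 1) (nat_lit 195) (nat_lit 423) (nat_lit 402))))))) (XT.nd (nat_lit 1014) (nat_lit 1520) (nat_lit 0) (XT.nd (nat_lit 468) (nat_lit 988) (nat_lit 0) (XT.nd (nat_lit 234) (nat_lit 608) (nat_lit 0) (XT.nd (nat_lit 78) (nat_lit 304) (nat_lit 0) (XT.lf (nat_lit 76) (nat_lit 46234376061) (nat_lit 0) (nat_lit 50025494054) (nat_lit 380) (nat_lit 46234376061) (nat_lit 258) (nat_lit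 1) (nat_lit 257) (nat_lit 1) (nat_lit 262) (nat_lit 1) (nat_lit 196) (nat_lit 423) (nat_lit 401)) (XT.nd (nat_lit 78) (nat_lit 0) (nat_lit 0) (XT.lf (nat_lit 380) (nat_lit 67468816079) (nat_lit 0) (nat_lit 36079857608) (nat_lit 304) (nat_lit 36079857608) (nat_lit 258) (nat_lit 1) (nat_lit 253) (nat_lit 1) (nat_lit 257) (nat_lit 1) (nat_lit 197) (nat_lit 423) (nat_lit 400)) (XT.lf (nat_lit 76) (nat_lit 21276653507) (nat_lit 0) (nat_lit 94293303148) (nat_lit 380) (nat_lit 21276653507) (nat_lit 254) (nat_lit 1) (nat_lit 253) (nat_lit 1) (nat_lit 258) (nat_lit 1) (nat_lit 198) (nat_lit 423) (nat_lit 399)))) (XT.nd (nat_lit 78) (nat_lit 380) (nat_lit 0) (XT.lf (nat_lit 304) (nat_lit 17303391035) (nat_lit 0) (nat_lit 58410674269) (nat_lit 228) (nat_lit 58410674269) (nat_lit 254) (nat_lit 1) (nat_lit 250) (nat_lit 1) (nat_lit 253) (nat_lit 1) (nat_lit 199) (nat_lit 423) (nat_lit 398)) (XT.nd (nat_lit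 78) (nat_lit 0) (nat_lit 0) (XT.lf (nat_lit 380) (nat_lit 124593450491) (nat_lit 0) (nat_lit 3457229182) (nat_lit 304) (nat_lit 3457229182) (nat_lit 250) (nat_lit 1) (nat_lit 245) (nat_lit 1) (nat_lit 249) (nat_lit 1) (nat_lit 200) (nat_lit 423) (nat_lit 397)) (XT.lf (nat_lit 76) (nat_lit 48754338280) (nat_lit 0) (nat_lit 31396885418) (nat_lit 380) (nat_lit 48754338280) (nat_lit 246) (nat_lit 1) (nat_lit 245) (nat_lit 1) (nat_lit 250) (nat_lit 1) (nat_lit 201) (nat_lit 423) (nat_lit 396))))) (XT.nd (nat_lit 234) (nat_lit 532) (nat_lit 0) (XT.nd (nat_lit 78) (nat_lit 228) (nat_lit 0) (XT.lf (nat_lit 304) (nat_lit 71207252394) (nat_lit 0) (nat_lit 27597884819) (nat_lit 228) (nat_lit 27597884819) (nat_lit 246) (nat_lit 1) (nat_lit 242) (nat_lit 1) (nat_lit 245) (nat_lit 1) (nat_lit 202) (nat_lit 423) (nat_lit 395)) (XT.nd (nat_lit 78) (nat_lit 228) (nat_lit 0) (XT.lf (nat_lit 76) (nat_lit 22495472494)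 (nat_lit 0) (nat_lit 78973118427) (nat_lit 304) (nat_lit 22495472494) (nat_lit 243) (nat_lit 1) (nat_lit 242) (nat_lit 1) (nat_lit 246) (nat_lit 1) (nat_lit 203) (nat_lit 423) (nat_lit 394)) (XT.lf (nat_lit 304) (nat_lit 18749273201) (nat_lit 0) (nat_lit 51415658624) (nat_lit 228) (nat_lit 51415658624) (nat_lit 243) (nat_lit 1) (nat_lit 239) (nat_lit 1) (nat_lit 242) (nat_lit 1) (nat_lit 204) (nat_lit 423) (nat_lit 393)))) (XT.nd (nat_lit 156) (nat_lit 228) (nat_lit 0) (XT.nd (nat_lit 78) (nat_lit 0) (nat_lit 0) (XT.lf (nat_lit 304) (nat_lit 112841153974) (nat_lit 0) (nat_lit 3222256277) (nat_lit 228) (nat_lit 3222256277) (nat_lit 239) (nat_lit 1) (nat_lit 235) (nat_lit 1) (nat_lit 238) (nat_lit 1) (nat_lit 205) (nat_lit 423) (nat_lit 392)) (XT.lf (nat_lit 76) (nat_lit 42684576981) (nat_lit 0) (nat_lit 31628842942) (nat_lit 304) (nat_lit 42684576981) (nat_lit 236) (nat_lit 1) (nat_lit 235) (nat_lit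 1) (nat_lit 239) (nat_lit 1) (nat_lit 206) (nat_lit 423) (nat_lit 391))) (XT.nd (nat_lit 78) (nat_lit 0) (nat_lit 0) (XT.lf (nat_lit 304) (nat_lit 58695201800) (nat_lit 0) (nat_lit 28049884812) (nat_lit 228) (nat_lit 28049884812) (nat_lit 236) (nat_lit 1) (nat_lit 232) (nat_lit 1) (nat_lit 235) (nat_lit 1) (nat_lit 207) (nat_lit 423) (nat_lit 390)) (XT.lf (nat_lit 76) (nat_lit 16164610706) (nat_lit 0) (nat_lit 80321810675) (nat_lit 304) (nat_lit 16164610706) (nat_lit 233) (nat_lit 1) (nat_lit 232) (nat_lit 1) (nat_lit 236) (nat_lit 1) (nat_lit 208) (nat_lit 423) (nat_lit 389)))))) (XT.nd (nat_lit 468) (nat_lit 684) (nat_lit 0) (XT.nd (nat_lit 234) (nat_lit 380) (nat_lit 0) (XT.nd (nat_lit 78) (nat_lit 304) (nat_lit 0) (XT.lf (nat_lit 228) (nat_lit 5923250825) (nat_lit 0) (nat_lit 52312121588) (nat_lit 152) (nat_lit 52312121588) (nat_lit 233) (nat_lit 1) (nat_lit 230) (nat_lit 1) (nat_lit 232) (nat_lit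 1) (nat_lit 209) (nat_lit 423) (nat_lit 388)) (XT.nd (nat_lit 78) (nat_lit 0) (nat_lit 0) (XT.lf (nat_lit 304) (nat_lit 89498333814) (nat_lit 0) (nat_lit 9505371765) (nat_lit 228) (nat_lit 9505371765) (nat_lit 230) (nat_lit 1) (nat_lit 226) (nat_lit 1) (nat_lit 229) (nat_lit 1) (nat_lit 210) (nat_lit 423) (nat_lit 387)) (XT.lf (nat_lit 76) (nat_lit 31259643567) (nat_lit 0) (nat_lit 43974171281) (nat_lit 304) (nat_lit 31259643567) (nat_lit 227) (nat_lit 1) (nat_lit 226) (nat_lit 1) (nat_lit 230) (nat_lit 1) (nat_lit 211) (nat_lit 423) (nat_lit 386)))) (XT.nd (nat_lit 78) (nat_lit 228) (nat_lit 0) (XT.lf (nat_lit 228) (nat_lit 36115696136) (nat_lit 0) (nat_lit 34212175439) (nat_lit 152) (nat_lit 34212175439) (nat_lit 227) (nat_lit 1) (nat_lit 224) (nat_lit 1) (nat_lit 226) (nat_lit 1) (nat_lit 212) (nat_lit 423) (nat_lit 385)) (XT.nd (nat_lit 78) (nat_lit 228) (nat_lit 0) (XT.lf (nat_lit 76) (nat_lit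 5188679201) (nat_lit 0) (nat_lit 92274103441) (nat_lit 228) (nat_lit 5188679201) (nat_lit 225) (nat_lit 1) (nat_lit 224) (nat_lit 1) (nat_lit 227) (nat_lit 1) (nat_lit 213) (nat_lit 423) (nat_lit 384)) (XT.lf (nat_lit 76) (nat_lit 42823079776) (nat_lit 0) (nat_lit 15123582262) (nat_lit 228) (nat_lit 42823079776) (nat_lit 222) (nat_lit 1) (nat_lit 221) (nat_lit 1) (nat_lit 224) (nat_lit 1) (nat_lit 214) (nat_lit 423) (nat_lit 383))))) (XT.nd (nat_lit 234) (nat_lit 380) (nat_lit 0) (XT.nd (nat_lit 78) (nat_lit 152) (nat_lit 0) (XT.lf (nat_lit 228) (nat_lit 59467351659) (nat_lit 0) (nat_lit 19741549541) (nat_lit 152) (nat_lit 19741549541) (nat_lit 222) (nat_lit 1) (nat_lit 219) (nat_lit 1) (nat_lit 221) (nat_lit 1) (nat_lit 215) (nat_lit 423) (nat_lit 382)) (XT.nd (nat_lit 78) (nat_lit 152) (nat_lit 0) (XT.lf (nat_lit 76) (nat_lit 16780139524) (nat_lit 0) (nat_lit 63611090930) (nat_lit 228) (nat_lit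 16780139524) (nat_lit 220) (nat_lit 1) (nat_lit 219) (nat_lit 1) (nat_lit 222) (nat_lit 1) (nat_lit 216) (nat_lit 423) (nat_lit 381)) (XT.lf (nat_lit 228) (nat_lit 7860891225) (nat_lit 0) (nat_lit 43783629838) (nat_lit 152) (nat_lit 43783629838) (nat_lit 220) (nat_lit 1) (nat_lit 217) (nat_lit 1) (nat_lit 219) (nat_lit 1) (nat_lit 217) (nat_lit 423) (nat_lit 380)))) (XT.nd (nat_lit 156) (nat_lit 152) (nat_lit 0) (XT.nd (nat_lit 78) (nat_lit 0) (nat_lit 0) (XT.lf (nat_lit 228) (nat_lit 77261917446) (nat_lit 0) (nat_lit 8236762749) (nat_lit 152) (nat_lit 8236762749) (nat_lit 217) (nat_lit 1) (nat_lit 214) (nat_lit 1) (nat_lit 216) (nat_lit 1) (nat_lit 218) (nat_lit 423) (nat_lit 379)) (XT.lf (nat_lit 76) (nat_lit 25720681652) (nat_lit 0) (nat_lit 40615818761) (nat_lit 228) (nat_lit 25720681652) (nat_lit 215) (nat_lit 1) (nat_lit 214) (nat_lit 1) (nat_lit 217) (nat_lit 1) (nat_lit 219) (nat_lit 423)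 (nat_lit 378))) (XT.nd (nat_lit 78) (nat_lit 0) (nat_lit 0) (XT.lf (nat_lit 228) (nat_lit 26195265509) (nat_lit 0) (nat_lit 32116188957) (nat_lit 152) (nat_lit 32116188957) (nat_lit 215) (nat_lit 1) (nat_lit 212) (nat_lit 1) (nat_lit 214) (nat_lit 1) (nat_lit 220) (nat_lit 423) (nat_lit 377)) (XT.lf (nat_lit 76) (nat_lit 860966132) (nat_lit 0) (nat_lit 87133320522) (nat_lit 228) (nat_lit 860966132) (nat_lit 213) (nat_lit 1) (nat_lit 212) (nat_lit 1) (nat_lit 215) (nat_lit 1) (nat_lit 221) (nat_lit 423) (nat_lit 376))))))))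
noncomputable def ec368 : XT := (XT.nd (nat_lit 1950) (nat_lit 1824) (nat_lit 0) (XT.nd (nat_lit 936) (nat_lit 1064) (nat_lit 0) (XT.nd (nat_lit 468) (nat_lit 608) (nat_lit 0) (XT.nd (nat_lit 234) (nat_lit 304) (nat_lit 0) (XT.nd (nat_lit 78) (nat_lit 152) (nat_lit 0) (XT.lf (nat_lit 76) (nat_lit 32508677342) (nat_lit 0) (nat_lit 22255512542) (nat_lit 152) (nat_lit 32508677342) (nat_lit 211) (nat_lit 1) (nat_lit 210) (nat_lit 1) (nat_lit 212) (nat_lit 1) (nat_lit 222) (nat_lit 423) (nat_lit 375)) (XT.nd (nat_lit 78) (nat_lit 0) (nat_lit 0) (XT.lf (nat_lit 228) (nat_lit 40339567708) (nat_lit 0) (nat_lit 22703295121) (nat_lit 152) (nat_lit 22703295121) (nat_lit 211) (nat_lit 1) (nat_lit 208) (nat_lit 1) (nat_lit 210) (nat_lit 1) (nat_lit 223) (nat_lit 423) (nat_lit 374)) (XT.lf (nat_lit 76) (nat_lit 8087804529) (nat_lit 0) (nat_lit 68085049376) (nat_lit 228) (nat_lit 8087804529) (nat_lit 209) (nat_lit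 1) (nat_lit 208) (nat_lit 1) (nat_lit 211) (nat_lit 1) (nat_lit 224) (nat_lit 423) (nat_lit 373)))) (XT.nd (nat_lit 78) (nat_lit 152) (nat_lit 0) (XT.lf (nat_lit 76) (nat_lit 37552787295) (nat_lit 0) (nat_lit 7681834705) (nat_lit 152) (nat_lit 37552787295) (nat_lit 207) (nat_lit 1) (nat_lit 206) (nat_lit 1) (nat_lit 208) (nat_lit 1) (nat_lit 225) (nat_lit 423) (nat_lit 372)) (XT.nd (nat_lit 78) (nat_lit 0) (nat_lit 0) (XT.lf (nat_lit 228) (nat_lit 51081422135) (nat_lit 0) (nat_lit 15136368496) (nat_lit 152) (nat_lit 15136368496) (nat_lit 207) (nat_lit 1) (nat_lit 204) (nat_lit 1) (nat_lit 206) (nat_lit 1) (nat_lit 226) (nat_lit 423) (nat_lit 371)) (XT.lf (nat_lit 76) (nat_lit 13681938288) (nat_lit 0) (nat_lit 52585406185) (nat_lit 228) (nat_lit 13681938288) (nat_lit 205) (nat_lit 1) (nat_lit 204) (nat_lit 1) (nat_lit 207) (nat_lit 1) (nat_lit 227) (nat_lit 423) (nat_lit 370))))) (XT.nd (nat_lit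 234) (nat_lit 304) (nat_lit 0) (XT.nd (nat_lit 78) (nat_lit 228) (nat_lit 0) (XT.lf (nat_lit 152) (nat_lit 3927586237) (nat_lit 0) (nat_lit 37321665428) (nat_lit 76) (nat_lit 37321665428) (nat_lit 205) (nat_lit 1) (nat_lit 203) (nat_lit 1) (nat_lit 204) (nat_lit 1) (nat_lit 228) (nat_lit 423) (nat_lit 369)) (XT.nd (nat_lit 78) (nat_lit 0) (nat_lit 0) (XT.lf (nat_lit 228) (nat_lit 59066679024) (nat_lit 0) (nat_lit 9079691073) (nat_lit 152) (nat_lit 9079691073) (nat_lit 203) (nat_lit 1) (nat_lit 200) (nat_lit 1) (nat_lit 202) (nat_lit 1) (nat_lit 229) (nat_lit 423) (nat_lit 368)) (XT.lf (nat_lit 76) (nat_lit 17949575429) (nat_lit 0) (nat_lit 39997065299) (nat_lit 228) (nat_lit 17949575429) (nat_lit 201) (nat_lit 1) (nat_lit 200) (nat_lit 1) (nat_lit 203) (nat_lit 1) (nat_lit 230) (nat_lit 423) (nat_lit 367)))) (XT.nd (nat_lit 78) (nat_lit 228) (nat_lit 0) (XT.lf (nat_lit 152) (nat_lit 13189724364)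 (nat_lit 0) (nat_lit 30704626511) (nat_lit 76) (nat_lit 30704626511) (nat_lit 201) (nat_lit 1) (nat_lit 199) (nat_lit 1) (nat_lit 200) (nat_lit 1) (nat_lit 231) (nat_lit 423) (nat_lit 366)) (XT.nd (nat_lit 78) (nat_lit 0) (nat_lit 0) (XT.lf (nat_lit 228) (nat_lit 64824652171) (nat_lit 0) (nat_lit 4257468365) (nat_lit 152) (nat_lit 4257468365) (nat_lit 199) (nat_lit 1) (nat_lit 196) (nat_lit 1) (nat_lit 198) (nat_lit 1) (nat_lit 232) (nat_lit 423) (nat_lit 365)) (XT.lf (nat_lit 76) (nat_lit 21141837212) (nat_lit 0) (nat_lit 29796086028) (nat_lit 228) (nat_lit 21141837212) (nat_lit 197) (nat_lit 1) (nat_lit 196) (nat_lit 1) (nat_lit 199) (nat_lit 1) (nat_lit 233) (nat_lit 423) (nat_lit 364)))))) (XT.nd (nat_lit 468) (nat_lit 532) (nat_lit 0) (XT.nd (nat_lit 234) (nat_lit 228) (nat_lit 0) (XT.nd (nat_lit 78) (nat_lit 228) (nat_lit 0) (XT.lf (nat_lit 152) (nat_lit 20335494540) (nat_lit 0) (nat_lit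 25260772218) (nat_lit 76) (nat_lit 25260772218) (nat_lit 197) (nat_lit 1) (nat_lit 195) (nat_lit 1) (nat_lit 196) (nat_lit 1) (nat_lit 234) (nat_lit 423) (nat_lit 363)) (XT.nd (nat_lit 78) (nat_lit 0) (nat_lit 0) (XT.lf (nat_lit 228) (nat_lit 68788877159) (nat_lit 0) (nat_lit 443185998) (nat_lit 152) (nat_lit 443185998) (nat_lit 195) (nat_lit 1) (nat_lit 192) (nat_lit 1) (nat_lit 194) (nat_lit 1) (nat_lit 235) (nat_lit 423) (nat_lit 362)) (XT.lf (nat_lit 76) (nat_lit 23464562830) (nat_lit 0) (nat_lit 21551791258) (nat_lit 228) (nat_lit 23464562830) (nat_lit 193) (nat_lit 1) (nat_lit 192) (nat_lit 1) (nat_lit 195) (nat_lit 1) (nat_lit 236) (nat_lit 423) (nat_lit 361)))) (XT.nd (nat_lit 78) (nat_lit 152) (nat_lit 0) (XT.lf (nat_lit 152) (nat_lit 25762705173) (nat_lit 0) (nat_lit 20782099819) (nat_lit 76) (nat_lit 20782099819) (nat_lit 193) (nat_lit 1) (nat_lit 191) (nat_lit 1) (nat_lit 192) (nat_lit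 1) (nat_lit 237) (nat_lit 423) (nat_lit 360)) (XT.nd (nat_lit 78) (nat_lit 152) (nat_lit 0) (XT.lf (nat_lit 0) (nat_lit 2590935021) (nat_lit 0) (nat_lit 61025864217) (nat_lit 152) (nat_lit 2590935021) (nat_lit 191) (nat_lit 3) (nat_lit 191) (nat_lit 1) (nat_lit 193) (nat_lit 1) (nat_lit 238) (nat_lit 423) (nat_lit 359)) (XT.lf (nat_lit 76) (nat_lit 25086373942) (nat_lit 0) (nat_lit 14910214428) (nat_lit 152) (nat_lit 25086373942) (nat_lit 190) (nat_lit 1) (nat_lit 189) (nat_lit 1) (nat_lit 191) (nat_lit 1) (nat_lit 239) (nat_lit 423) (nat_lit 358))))) (XT.nd (nat_lit 234) (nat_lit 304) (nat_lit 0) (XT.nd (nat_lit 78) (nat_lit 152) (nat_lit 0) (XT.lf (nat_lit 152) (nat_lit 29797558912) (nat_lit 0) (nat_lit 17097484952) (nat_lit 76) (nat_lit 17097484952) (nat_lit 190) (nat_lit 1) (nat_lit 188) (nat_lit 1) (nat_lit 189) (nat_lit 1) (nat_lit 240) (nat_lit 423) (nat_lit 357)) (XT.nd (nat_lit 78) (nat_lit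 152) (nat_lit 0) (XT.lf (nat_lit 0) (nat_lit 4952066230) (nat_lit 0) (nat_lit 53026627094) (nat_lit 152) (nat_lit 4952066230) (nat_lit 188) (nat_lit 3) (nat_lit 188) (nat_lit 1) (nat_lit 190) (nat_lit 1) (nat_lit 241) (nat_lit 423) (nat_lit 356)) (XT.lf (nat_lit 76) (nat_lit 26145307671) (nat_lit 0) (nat_lit 9580482141) (nat_lit 152) (nat_lit 26145307671) (nat_lit 187) (nat_lit 1) (nat_lit 186) (nat_lit 1) (nat_lit 188) (nat_lit 1) (nat_lit 242) (nat_lit 423) (nat_lit 355)))) (XT.nd (nat_lit 156) (nat_lit 228) (nat_lit 0) (XT.nd (nat_lit 78) (nat_lit 0) (nat_lit 0) (XT.lf (nat_lit 152) (nat_lit 32707399373) (nat_lit 0) (nat_lit 14066143183) (nat_lit 76) (nat_lit 14066143183) (nat_lit 187) (nat_lit 1) (nat_lit 185) (nat_lit 1) (nat_lit 186) (nat_lit 1) (nat_lit 243) (nat_lit 423) (nat_lit 354)) (XT.lf (nat_lit 0) (nat_lit 6760265311) (nat_lit 0) (nat_lit 46311325509) (nat_lit 152) (nat_lit 6760265311)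 (nat_lit 185) (nat_lit 3) (nat_lit 185) (nat_lit 1) (nat_lit 187) (nat_lit 1) (nat_lit 244) (nat_lit 423) (nat_lit 353))) (XT.nd (nat_lit 78) (nat_lit 76) (nat_lit 0) (XT.lf (nat_lit 76) (nat_lit 26754271939) (nat_lit 0) (nat_lit 5323611921) (nat_lit 152) (nat_lit 26754271939) (nat_lit 184) (nat_lit 1) (nat_lit 183) (nat_lit 1) (nat_lit 185) (nat_lit 1) (nat_lit 245) (nat_lit 423) (nat_lit 352)) (XT.lf (nat_lit 152) (nat_lit 34711195468) (nat_lit 0) (nat_lit 11572250807) (nat_lit 76) (nat_lit 11572250807) (nat_lit 184) (nat_lit 1) (nat_lit 182) (nat_lit 1) (nat_lit 183) (nat_lit 1) (nat_lit 246) (nat_lit 423) (nat_lit 351))))))) (XT.nd (nat_lit 936) (nat_lit 912) (nat_lit 0) (XT.nd (nat_lit 468) (nat_lit 456) (nat_lit 0) (XT.nd (nat_lit 234) (nat_lit 228) (nat_lit 0) (XT.nd (nat_lit 78) (nat_lit 228) (nat_lit 0) (XT.lf (nat_lit 0) (nat_lit 8119961448) (nat_lit 0) (nat_lit 40658716553) (nat_lit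 152) (nat_lit 8119961448) (nat_lit 182) (nat_lit 3) (nat_lit 182) (nat_lit 1) (nat_lit 184) (nat_lit 1) (nat_lit 247) (nat_lit 423) (nat_lit 350)) (XT.nd (nat_lit 78) (nat_lit 76) (nat_lit 0) (XT.lf (nat_lit 76) (nat_lit 27005532035) (nat_lit 0) (nat_lit 1943296849) (nat_lit 152) (nat_lit 27005532035) (nat_lit 181) (nat_lit 1) (nat_lit 180) (nat_lit 1) (nat_lit 182) (nat_lit 1) (nat_lit 248) (nat_lit 423) (nat_lit 349)) (XT.lf (nat_lit 152) (nat_lit 35988164567) (nat_lit 0) (nat_lit 9520519378) (nat_lit 76) (nat_lit 9520519378) (nat_lit 181) (nat_lit 1) (nat_lit 179) (nat_lit 1) (nat_lit 180) (nat_lit 1) (nat_lit 249) (nat_lit 423) (nat_lit 348)))) (XT.nd (nat_lit 78) (nat_lit 228) (nat_lit 0) (XT.lf (nat_lit 0) (nat_lit 9116764231) (nat_lit 0) (nat_lit 35886478583) (nat_lit 152) (nat_lit 9116764231) (nat_lit 179) (nat_lit 3) (nat_lit 179) (nat_lit 1) (nat_lit 181) (nat_lit 1) (nat_lit 250) (nat_lit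 423) (nat_lit 347)) (XT.nd (nat_lit 78) (nat_lit 152) (nat_lit 0) (XT.lf (nat_lit 76) (nat_lit 745537050) (nat_lit 0) (nat_lit 26240503100) (nat_lit 76) (nat_lit 26240503100) (nat_lit 179) (nat_lit 3) (nat_lit 178) (nat_lit 1) (nat_lit 179) (nat_lit 1) (nat_lit 251) (nat_lit 423) (nat_lit 346)) (XT.lf (nat_lit 152) (nat_lit 36684864579) (nat_lit 0) (nat_lit 7832554853) (nat_lit 76) (nat_lit 7832554853) (nat_lit 178) (nat_lit 1) (nat_lit 176) (nat_lit 1) (nat_lit 177) (nat_lit 1) (nat_lit 252) (nat_lit 423) (nat_lit 345))))) (XT.nd (nat_lit 234) (nat_lit 228) (nat_lit 0) (XT.nd (nat_lit 78) (nat_lit 228) (nat_lit 0) (XT.lf (nat_lit 0) (nat_lit 9820814832) (nat_lit 0) (nat_lit 31844325078) (nat_lit 152) (nat_lit 9820814832) (nat_lit 176) (nat_lit 3) (nat_lit 176) (nat_lit 1) (nat_lit 178) (nat_lit 1) (nat_lit 253) (nat_lit 423) (nat_lit 344)) (XT.nd (nat_lit 78) (nat_lit 152) (nat_lit 0) (XT.lf (nat_lit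 76) (nat_lit 2896359217) (nat_lit 0) (nat_lit 23871130881) (nat_lit 76) (nat_lit 23871130881) (nat_lit 176) (nat_lit 3) (nat_lit 175) (nat_lit 1) (nat_lit 176) (nat_lit 1) (nat_lit 254) (nat_lit 423) (nat_lit 343)) (XT.lf (nat_lit 152) (nat_lit 36921026520) (nat_lit 0) (nat_lit 6443862262) (nat_lit 76) (nat_lit 6443862262) (nat_lit 175) (nat_lit 1) (nat_lit 173) (nat_lit 1) (nat_lit 174) (nat_lit 1) (nat_lit 255) (nat_lit 423) (nat_lit 342)))) (XT.nd (nat_lit 78) (nat_lit 228) (nat_lit 0) (XT.lf (nat_lit 0) (nat_lit 10289542320) (nat_lit 0) (nat_lit 28408338704) (nat_lit 152) (nat_lit 10289542320) (nat_lit 173) (nat_lit 3) (nat_lit 173) (nat_lit 1) (nat_lit 175) (nat_lit 1) (nat_lit 256) (nat_lit 423) (nat_lit 341)) (XT.nd (nat_lit 78) (nat_lit 152) (nat_lit 0) (XT.lf (nat_lit 76) (nat_lit 4557131458) (nat_lit 0) (nat_lit 21813128014) (nat_lit 76) (nat_lit 21813128014) (nat_lit 173) (nat_lit 3)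 (nat_lit 172) (nat_lit 1) (nat_lit 173) (nat_lit 1) (nat_lit 257) (nat_lit 423) (nat_lit 340)) (XT.lf (nat_lit 152) (nat_lit 36794350980) (nat_lit 0) (nat_lit 5301381430) (nat_lit 76) (nat_lit 5301381430) (nat_lit 172) (nat_lit 1) (nat_lit 170) (nat_lit 1) (nat_lit 171) (nat_lit 1) (nat_lit 258) (nat_lit 423) (nat_lit 339)))))) (XT.nd (nat_lit 468) (nat_lit 456) (nat_lit 0) (XT.nd (nat_lit 234) (nat_lit 228) (nat_lit 0) (XT.nd (nat_lit 78) (nat_lit 228) (nat_lit 0) (XT.lf (nat_lit 0) (nat_lit 10569930649) (nat_lit 0) (nat_lit 25476309274) (nat_lit 152) (nat_lit 10569930649) (nat_lit 170) (nat_lit 3) (nat_lit 170) (nat_lit 1) (nat_lit 172) (nat_lit 1) (nat_lit 259) (nat_lit 423) (nat_lit 338)) (XT.nd (nat_lit 78) (nat_lit 152) (nat_lit 0) (XT.lf (nat_lit 76) (nat_lit 5819915293) (nat_lit 0) (nat_lit 20016466364) (nat_lit 76) (nat_lit 20016466364) (nat_lit 170) (nat_lit 3) (nat_lit 169) (nat_lit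 1) (nat_lit 170) (nat_lit 1) (nat_lit 260) (nat_lit 423) (nat_lit 337)) (XT.lf (nat_lit 152) (nat_lit 36384452266) (nat_lit 0) (nat_lit 4361459622) (nat_lit 76) (nat_lit 4361459622) (nat_lit 169) (nat_lit 1) (nat_lit 167) (nat_lit 1) (nat_lit 168) (nat_lit 1) (nat_lit 261) (nat_lit 423) (nat_lit 336)))) (XT.nd (nat_lit 78) (nat_lit 228) (nat_lit 0) (XT.lf (nat_lit 0) (nat_lit 10700383073) (nat_lit 0) (nat_lit 22963897658) (nat_lit 152) (nat_lit 10700383073) (nat_lit 167) (nat_lit 3) (nat_lit 167) (nat_lit 1) (nat_lit 169) (nat_lit 1) (nat_lit 262) (nat_lit 423) (nat_lit 335)) (XT.nd (nat_lit 78) (nat_lit 152) (nat_lit 0) (XT.lf (nat_lit 76) (nat_lit 6760203443) (nat_lit 0) (nat_lit 18439741142) (nat_lit 76) (nat_lit 18439741142) (nat_lit 167) (nat_lit 3) (nat_lit 166) (nat_lit 1) (nat_lit 167) (nat_lit 1) (nat_lit 263) (nat_lit 423) (nat_lit 334)) (XT.lf (nat_lit 152) (nat_lit 35756101453) (nat_lit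 0) (nat_lit 3588183625) (nat_lit 76) (nat_lit 3588183625) (nat_lit 166) (nat_lit 1) (nat_lit 164) (nat_lit 1) (nat_lit 165) (nat_lit 1) (nat_lit 264) (nat_lit 423) (nat_lit 333))))) (XT.nd (nat_lit 234) (nat_lit 228) (nat_lit 0) (XT.nd (nat_lit 78) (nat_lit 228) (nat_lit 0) (XT.lf (nat_lit 0) (nat_lit 10712255415) (nat_lit 0) (nat_lit 20801479214) (nat_lit 152) (nat_lit 10712255415) (nat_lit 164) (nat_lit 3) (nat_lit 164) (nat_lit 1) (nat_lit 166) (nat_lit 1) (nat_lit 265) (nat_lit 423) (nat_lit 332)) (XT.nd (nat_lit 78) (nat_lit 152) (nat_lit 0) (XT.lf (nat_lit 76) (nat_lit 7439869176) (nat_lit 0) (nat_lit 17048653747) (nat_lit 76) (nat_lit 17048653747) (nat_lit 164) (nat_lit 3) (nat_lit 163) (nat_lit 1) (nat_lit 164) (nat_lit 1) (nat_lit 266) (nat_lit 423) (nat_lit 331)) (XT.lf (nat_lit 152) (nat_lit 34961892707) (nat_lit 0) (nat_lit 2952007548) (nat_lit 76) (nat_lit 2952007548) (nat_lit 163)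 (nat_lit 1) (nat_lit 161) (nat_lit 1) (nat_lit 162) (nat_lit 1) (nat_lit 267) (nat_lit 423) (nat_lit 330)))) (XT.nd (nat_lit 156) (nat_lit 152) (nat_lit 0) (XT.nd (nat_lit 78) (nat_lit 76) (nat_lit 0) (XT.lf (nat_lit 0) (nat_lit 10631116927) (nat_lit 0) (nat_lit 18931546315) (nat_lit 152) (nat_lit 10631116927) (nat_lit 161) (nat_lit 3) (nat_lit 161) (nat_lit 1) (nat_lit 163) (nat_lit 1) (nat_lit 268) (nat_lit 423) (nat_lit 329)) (XT.lf (nat_lit 76) (nat_lit 7909592188) (nat_lit 0) (nat_lit 15814763033) (nat_lit 76) (nat_lit 15814763033) (nat_lit 161) (nat_lit 3) (nat_lit 160) (nat_lit 1) (nat_lit 161) (nat_lit 1) (nat_lit 269) (nat_lit 423) (nat_lit 328))) (XT.nd (nat_lit 78) (nat_lit 0) (nat_lit 0) (XT.lf (nat_lit 152) (nat_lit 34044435227) (nat_lit 0) (nat_lit 2428623915) (nat_lit 76) (nat_lit 2428623915) (nat_lit 160) (nat_lit 1) (nat_lit 158) (nat_lit 1) (nat_lit 159) (nat_lit 1) (nat_lit 270)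 (nat_lit 423) (nat_lit 327)) (XT.lf (nat_lit 0) (nat_lit 10477787049) (nat_lit 0) (nat_lit 17306570849) (nat_lit 152) (nat_lit 10477787049) (nat_lit 158) (nat_lit 3) (nat_lit 158) (nat_lit 1) (nat_lit 160) (nat_lit 1) (nat_lit 271) (nat_lit 423) (nat_lit 326))))))))
noncomputable def ec369 : XT := (XT.nd (nat_lit 1950) (nat_lit 1976) (nat_lit 0) (XT.nd (nat_lit 936) (nat_lit 988) (nat_lit 0) (XT.nd (nat_lit 468) (nat_lit 456) (nat_lit 0) (XT.nd (nat_lit 234) (nat_lit 228) (nat_lit 0) (XT.nd (nat_lit 78) (nat_lit 152) (nat_lit 0) (XT.lf (nat_lit 76) (nat_lit 8210853833) (nat_lit 0) (nat_lit 14714457451) (nat_lit 76) (nat_lit 14714457451) (nat_lit 158) (nat_lit 3) (nat_lit 157) (nat_lit 1) (nat_lit 158) (nat_lit 1) (nat_lit 272) (nat_lit 423) (nat_lit 325)) (XT.nd (nat_lit 78) (nat_lit 0) (nat_lit 0) (XT.lf (nat_lit 152) (nat_lit 33038154994) (nat_lit 0) (nat_lit 1998034905) (nat_lit 76) (nat_lit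 1998034905) (nat_lit 157) (nat_lit 1) (nat_lit 155) (nat_lit 1) (nat_lit 156) (nat_lit 1) (nat_lit 273) (nat_lit 423) (nat_lit 324)) (XT.lf (nat_lit 0) (nat_lit 10269187854) (nat_lit 0) (nat_lit 15887245185) (nat_lit 152) (nat_lit 10269187854) (nat_lit 155) (nat_lit 3) (nat_lit 155) (nat_lit 1) (nat_lit 157) (nat_lit 1) (nat_lit 274) (nat_lit 423) (nat_lit 323)))) (XT.nd (nat_lit 78) (nat_lit 152) (nat_lit 0) (XT.lf (nat_lit 76) (nat_lit 8377578117) (nat_lit 0) (nat_lit 13728108909) (nat_lit 76) (nat_lit 13728108909) (nat_lit 155) (nat_lit 3) (nat_lit 154) (nat_lit 1) (nat_lit 155) (nat_lit 1) (nat_lit 275) (nat_lit 423) (nat_lit 322)) (XT.nd (nat_lit 78) (nat_lit 0) (nat_lit 0) (XT.lf (nat_lit 152) (nat_lit 31970775571) (nat_lit 0) (nat_lit 1643788261) (nat_lit 76) (nat_lit 1643788261) (nat_lit 154) (nat_lit 1) (nat_lit 152) (nat_lit 1) (nat_lit 153) (nat_lit 1) (nat_lit 276) (nat_lit 423) (nat_lit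 321)) (XT.lf (nat_lit 0) (nat_lit 10019044850) (nat_lit 0) (nat_lit 14641034520) (nat_lit 152) (nat_lit 10019044850) (nat_lit 152) (nat_lit 3) (nat_lit 152) (nat_lit 1) (nat_lit 154) (nat_lit 1) (nat_lit 277) (nat_lit 423) (nat_lit 320))))) (XT.nd (nat_lit 234) (nat_lit 228) (nat_lit 0) (XT.nd (nat_lit 78) (nat_lit 152) (nat_lit 0) (XT.lf (nat_lit 76) (nat_lit 8437481248) (nat_lit 0) (nat_lit 12839376172) (nat_lit 76) (nat_lit 12839376172) (nat_lit 152) (nat_lit 3) (nat_lit 151) (nat_lit 1) (nat_lit 152) (nat_lit 1) (nat_lit 278) (nat_lit 423) (nat_lit 319)) (XT.nd (nat_lit 78) (nat_lit 0) (nat_lit 0) (XT.lf (nat_lit 152) (nat_lit 30864534941) (nat_lit 0) (nat_lit 1352348670) (nat_lit 76) (nat_lit 1352348670) (nat_lit 151) (nat_lit 1) (nat_lit 149) (nat_lit 1) (nat_lit 150) (nat_lit 1) (nat_lit 279) (nat_lit 423) (nat_lit 318)) (XT.lf (nat_lit 0) (nat_lit 9738463077) (nat_lit 0) (nat_lit 13540985417)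 (nat_lit 152) (nat_lit 9738463077) (nat_lit 149) (nat_lit 3) (nat_lit 149) (nat_lit 1) (nat_lit 151) (nat_lit 1) (nat_lit 280) (nat_lit 423) (nat_lit 317)))) (XT.nd (nat_lit 78) (nat_lit 152) (nat_lit 0) (XT.lf (nat_lit 76) (nat_lit 8413181464) (nat_lit 0) (nat_lit 12034631312) (nat_lit 76) (nat_lit 12034631312) (nat_lit 149) (nat_lit 3) (nat_lit 148) (nat_lit 1) (nat_lit 149) (nat_lit 1) (nat_lit 281) (nat_lit 423) (nat_lit 316)) (XT.nd (nat_lit 78) (nat_lit 0) (nat_lit 0) (XT.lf (nat_lit 152) (nat_lit 29737185238) (nat_lit 0) (nat_lit 1112580598) (nat_lit 76) (nat_lit 1112580598) (nat_lit 148) (nat_lit 1) (nat_lit 146) (nat_lit 1) (nat_lit 147) (nat_lit 1) (nat_lit 282) (nat_lit 423) (nat_lit 315)) (XT.lf (nat_lit 0) (nat_lit 9436400612) (nat_lit 0) (nat_lit 12564745151) (nat_lit 152) (nat_lit 9436400612) (nat_lit 146) (nat_lit 3) (nat_lit 146) (nat_lit 1) (nat_lit 148) (nat_lit 1) (nat_lit 283)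 (nat_lit 423) (nat_lit 314)))))) (XT.nd (nat_lit 468) (nat_lit 532) (nat_lit 0) (XT.nd (nat_lit 234) (nat_lit 228) (nat_lit 0) (XT.nd (nat_lit 78) (nat_lit 152) (nat_lit 0) (XT.lf (nat_lit 76) (nat_lit 8323111650) (nat_lit 0) (nat_lit 11302487402) (nat_lit 76) (nat_lit 11302487402) (nat_lit 146) (nat_lit 3) (nat_lit 145) (nat_lit 1) (nat_lit 146) (nat_lit 1) (nat_lit 284) (nat_lit 423) (nat_lit 313)) (XT.nd (nat_lit 78) (nat_lit 0) (nat_lit 0) (XT.lf (nat_lit 152) (nat_lit 28602813945) (nat_lit 0) (nat_lit 915322811) (nat_lit 76) (nat_lit 915322811) (nat_lit 145) (nat_lit 1) (nat_lit 143) (nat_lit 1) (nat_lit 144) (nat_lit 1) (nat_lit 285) (nat_lit 423) (nat_lit 312)) (XT.lf (nat_lit 0) (nat_lit 9120057696) (nat_lit 0) (nat_lit 11693754491) (nat_lit 152) (nat_lit 9120057696) (nat_lit 143) (nat_lit 3) (nat_lit 143) (nat_lit 1) (nat_lit 145) (nat_lit 1) (nat_lit 286) (nat_lit 423) (nat_lit 311))))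 (XT.nd (nat_lit 78) (nat_lit 152) (nat_lit 0) (XT.lf (nat_lit 76) (nat_lit 8182269732) (nat_lit 0) (nat_lit 10633409536) (nat_lit 76) (nat_lit 10633409536) (nat_lit 143) (nat_lit 3) (nat_lit 142) (nat_lit 1) (nat_lit 143) (nat_lit 1) (nat_lit 287) (nat_lit 423) (nat_lit 310)) (XT.nd (nat_lit 78) (nat_lit 0) (nat_lit 0) (XT.lf (nat_lit 152) (nat_lit 27472518254) (nat_lit 0) (nat_lit 753038342) (nat_lit 76) (nat_lit 753038342) (nat_lit 142) (nat_lit 1) (nat_lit 140) (nat_lit 1) (nat_lit 141) (nat_lit 1) (nat_lit 288) (nat_lit 423) (nat_lit 309)) (XT.lf (nat_lit 0) (nat_lit 8795196474) (nat_lit 0) (nat_lit 10912583197) (nat_lit 152) (nat_lit 8795196474) (nat_lit 140) (nat_lit 3) (nat_lit 140) (nat_lit 1) (nat_lit 142) (nat_lit 1) (nat_lit 289) (nat_lit 423) (nat_lit 308))))) (XT.nd (nat_lit 234) (nat_lit 304) (nat_lit 0) (XT.nd (nat_lit 78) (nat_lit 152) (nat_lit 0) (XT.lf (nat_lit 76) (nat_lit 8002835633)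 (nat_lit 0) (nat_lit 10019394416) (nat_lit 76) (nat_lit 10019394416) (nat_lit 140) (nat_lit 3) (nat_lit 139) (nat_lit 1) (nat_lit 140) (nat_lit 1) (nat_lit 290) (nat_lit 423) (nat_lit 307)) (XT.nd (nat_lit 78) (nat_lit 0) (nat_lit 0) (XT.lf (nat_lit 152) (nat_lit 26354958694) (nat_lit 0) (nat_lit 619526507) (nat_lit 76) (nat_lit 619526507) (nat_lit 139) (nat_lit 1) (nat_lit 137) (nat_lit 1) (nat_lit 138) (nat_lit 1) (nat_lit 291) (nat_lit 423) (nat_lit 306)) (XT.lf (nat_lit 0) (nat_lit 8466403656) (nat_lit 0) (nat_lit 10208382952) (nat_lit 152) (nat_lit 8466403656) (nat_lit 137) (nat_lit 3) (nat_lit 137) (nat_lit 1) (nat_lit 139) (nat_lit 1) (nat_lit 292) (nat_lit 423) (nat_lit 305)))) (XT.nd (nat_lit 156) (nat_lit 76) (nat_lit 0) (XT.nd (nat_lit 78) (nat_lit 152) (nat_lit 0) (XT.lf (nat_lit 76) (nat_lit 7794678467) (nat_lit 0) (nat_lit 9453706369) (nat_lit 76) (nat_lit 9453706369) (nat_lit 137)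 (nat_lit 3) (nat_lit 136) (nat_lit 1) (nat_lit 137) (nat_lit 1) (nat_lit 293) (nat_lit 423) (nat_lit 304)) (XT.lf (nat_lit 152) (nat_lit 25256813491) (nat_lit 0) (nat_lit 509685991) (nat_lit 76) (nat_lit 509685991) (nat_lit 136) (nat_lit 1) (nat_lit 134) (nat_lit 1) (nat_lit 135) (nat_lit 1) (nat_lit 294) (nat_lit 423) (nat_lit 303))) (XT.nd (nat_lit 78) (nat_lit 76) (nat_lit 0) (XT.lf (nat_lit 0) (nat_lit 8137306240) (nat_lit 0) (nat_lit 9570436918) (nat_lit 152) (nat_lit 8137306240) (nat_lit 134) (nat_lit 3) (nat_lit 134) (nat_lit 1) (nat_lit 136) (nat_lit 1) (nat_lit 295) (nat_lit 423) (nat_lit 302)) (XT.lf (nat_lit 76) (nat_lit 7565773443) (nat_lit 0) (nat_lit 8930659803) (nat_lit 76) (nat_lit 8930659803) (nat_lit 134) (nat_lit 3) (nat_lit 133) (nat_lit 1) (nat_lit 134) (nat_lit 1) (nat_lit 296) (nat_lit 423) (nat_lit 301))))))) (XT.nd (nat_lit 936) (nat_lit 1064) (nat_lit 0) (XT.nd (nat_lit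 468) (nat_lit 456) (nat_lit 0) (XT.nd (nat_lit 234) (nat_lit 228) (nat_lit 0) (XT.nd (nat_lit 78) (nat_lit 76) (nat_lit 0) (XT.lf (nat_lit 152) (nat_lit 24183151298) (nat_lit 0) (nat_lit 419319926) (nat_lit 76) (nat_lit 419319926) (nat_lit 133) (nat_lit 1) (nat_lit 131) (nat_lit 1) (nat_lit 132) (nat_lit 1) (nat_lit 297) (nat_lit 423) (nat_lit 300)) (XT.nd (nat_lit 78) (nat_lit 76) (nat_lit 0) (XT.lf (nat_lit 0) (nat_lit 7810748649) (nat_lit 0) (nat_lit 8989788804) (nat_lit 152) (nat_lit 7810748649) (nat_lit 131) (nat_lit 3) (nat_lit 131) (nat_lit 1) (nat_lit 133) (nat_lit 1) (nat_lit 298) (nat_lit 423) (nat_lit 299)) (XT.lf (nat_lit 76) (nat_lit 7322544513) (nat_lit 0) (nat_lit 8445439900) (nat_lit 76) (nat_lit 8445439900) (nat_lit 131) (nat_lit 3) (nat_lit 130) (nat_lit 1) (nat_lit 131) (nat_lit 1) (nat_lit 299) (nat_lit 423) (nat_lit 298)))) (XT.nd (nat_lit 78) (nat_lit 76) (nat_lit 0) (XT.lf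 (nat_lit 152) (nat_lit 23137736834) (nat_lit 0) (nat_lit 344975541) (nat_lit 76) (nat_lit 344975541) (nat_lit 130) (nat_lit 1) (nat_lit 128) (nat_lit 1) (nat_lit 129) (nat_lit 1) (nat_lit 300) (nat_lit 423) (nat_lit 297)) (XT.nd (nat_lit 78) (nat_lit 76) (nat_lit 0) (XT.lf (nat_lit 0) (nat_lit 7488938116) (nat_lit 0) (nat_lit 8458937370) (nat_lit 152) (nat_lit 7488938116) (nat_lit 128) (nat_lit 3) (nat_lit 128) (nat_lit 1) (nat_lit 130) (nat_lit 1) (nat_lit 301) (nat_lit 423) (nat_lit 296)) (XT.lf (nat_lit 76) (nat_lit 7070145949) (nat_lit 0) (nat_lit 7993954762) (nat_lit 76) (nat_lit 7993954762) (nat_lit 128) (nat_lit 3) (nat_lit 127) (nat_lit 1) (nat_lit 128) (nat_lit 1) (nat_lit 302) (nat_lit 423) (nat_lit 295))))) (XT.nd (nat_lit 234) (nat_lit 228) (nat_lit 0) (XT.nd (nat_lit 78) (nat_lit 76) (nat_lit 0) (XT.lf (nat_lit 152) (nat_lit 22123281367) (nat_lit 0) (nat_lit 283812231) (nat_lit 76)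 (nat_lit 283812231) (nat_lit 127) (nat_lit 1) (nat_lit 125) (nat_lit 1) (nat_lit 126) (nat_lit 1) (nat_lit 303) (nat_lit 423) (nat_lit 294)) (XT.nd (nat_lit 78) (nat_lit 76) (nat_lit 0) (XT.lf (nat_lit 0) (nat_lit 7173563991) (nat_lit 0) (nat_lit 7971584778) (nat_lit 152) (nat_lit 7173563991) (nat_lit 125) (nat_lit 3) (nat_lit 125) (nat_lit 1) (nat_lit 127) (nat_lit 1) (nat_lit 304) (nat_lit 423) (nat_lit 293)) (XT.lf (nat_lit 76) (nat_lit 6812693670) (nat_lit 0) (nat_lit 7572713467) (nat_lit 76) (nat_lit 7572713467) (nat_lit 125) (nat_lit 3) (nat_lit 124) (nat_lit 1) (nat_lit 125) (nat_lit 1) (nat_lit 305) (nat_lit 423) (nat_lit 292)))) (XT.nd (nat_lit 78) (nat_lit 76) (nat_lit 0) (XT.lf (nat_lit 152) (nat_lit 21141647866) (nat_lit 0) (nat_lit 233493025) (nat_lit 76) (nat_lit 233493025) (nat_lit 124) (nat_lit 1) (nat_lit 122) (nat_lit 1) (nat_lit 123) (nat_lit 1) (nat_lit 306) (nat_lit 423) (nat_lit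 291)) (XT.nd (nat_lit 78) (nat_lit 76) (nat_lit 0) (XT.lf (nat_lit 0) (nat_lit 6865895582) (nat_lit 0) (nat_lit 7522429258) (nat_lit 152) (nat_lit 6865895582) (nat_lit 122) (nat_lit 3) (nat_lit 122) (nat_lit 1) (nat_lit 124) (nat_lit 1) (nat_lit 307) (nat_lit 423) (nat_lit 290)) (XT.lf (nat_lit 76) (nat_lit 6553455276) (nat_lit 0) (nat_lit 7178725444) (nat_lit 76) (nat_lit 7178725444) (nat_lit 122) (nat_lit 3) (nat_lit 121) (nat_lit 1) (nat_lit 122) (nat_lit 1) (nat_lit 308) (nat_lit 423) (nat_lit 289)))))) (XT.nd (nat_lit 468) (nat_lit 608) (nat_lit 0) (XT.nd (nat_lit 234) (nat_lit 228) (nat_lit 0) (XT.nd (nat_lit 78) (nat_lit 76) (nat_lit 0) (XT.lf (nat_lit 152) (nat_lit 20194018912) (nat_lit 0) (nat_lit 192095289) (nat_lit 76) (nat_lit 192095289) (nat_lit 121) (nat_lit 1) (nat_lit 119) (nat_lit 1) (nat_lit 120) (nat_lit 1) (nat_lit 309) (nat_lit 423) (nat_lit 288)) (XT.nd (nat_lit 78) (nat_lit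 76) (nat_lit 0) (XT.lf (nat_lit 0) (nat_lit 6566862366) (nat_lit 0) (nat_lit 7106994246) (nat_lit 152) (nat_lit 6566862366) (nat_lit 119) (nat_lit 3) (nat_lit 119) (nat_lit 1) (nat_lit 121) (nat_lit 1) (nat_lit 310) (nat_lit 423) (nat_lit 287)) (XT.lf (nat_lit 76) (nat_lit 6295006097) (nat_lit 0) (nat_lit 6809417411) (nat_lit 76) (nat_lit 6809417411) (nat_lit 119) (nat_lit 3) (nat_lit 118) (nat_lit 1) (nat_lit 119) (nat_lit 1) (nat_lit 311) (nat_lit 423) (nat_lit 286)))) (XT.nd (nat_lit 78) (nat_lit 76) (nat_lit 0) (XT.lf (nat_lit 152) (nat_lit 19281033993) (nat_lit 0) (nat_lit 158037270) (nat_lit 76) (nat_lit 158037270) (nat_lit 118) (nat_lit 1) (nat_lit 116) (nat_lit 1) (nat_lit 117) (nat_lit 1) (nat_lit 312) (nat_lit 423) (nat_lit 285)) (XT.nd (nat_lit 78) (nat_lit 76) (nat_lit 0) (XT.lf (nat_lit 0) (nat_lit 6277119709) (nat_lit 0) (nat_lit 6721487544) (nat_lit 152) (nat_lit 6277119709) (nat_lit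 116) (nat_lit 3) (nat_lit 116) (nat_lit 1) (nat_lit 118) (nat_lit 1) (nat_lit 313) (nat_lit 423) (nat_lit 284)) (XT.lf (nat_lit 76) (nat_lit 6039357307) (nat_lit 0) (nat_lit 6462564769) (nat_lit 76) (nat_lit 6462564769) (nat_lit 116) (nat_lit 3) (nat_lit 115) (nat_lit 1) (nat_lit 116) (nat_lit 1) (nat_lit 314) (nat_lit 423) (nat_lit 283))))) (XT.nd (nat_lit 234) (nat_lit 380) (nat_lit 0) (XT.nd (nat_lit 78) (nat_lit 76) (nat_lit 0) (XT.lf (nat_lit 152) (nat_lit 18402901676) (nat_lit 0) (nat_lit 130017653) (nat_lit 76) (nat_lit 130017653) (nat_lit 115) (nat_lit 1) (nat_lit 113) (nat_lit 1) (nat_lit 114) (nat_lit 1) (nat_lit 315) (nat_lit 423) (nat_lit 282)) (XT.nd (nat_lit 78) (nat_lit 76) (nat_lit 0) (XT.lf (nat_lit 0) (nat_lit 5997102671) (nat_lit 0) (nat_lit 6362685189) (nat_lit 152) (nat_lit 5997102671) (nat_lit 113) (nat_lit 3) (nat_lit 113) (nat_lit 1) (nat_lit 115) (nat_lit 1) (nat_lit 316)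 (nat_lit 423) (nat_lit 281)) (XT.lf (nat_lit 76) (nat_lit 5788061071) (nat_lit 0) (nat_lit 6136234897) (nat_lit 76) (nat_lit 6136234897) (nat_lit 113) (nat_lit 3) (nat_lit 112) (nat_lit 1) (nat_lit 113) (nat_lit 1) (nat_lit 317) (nat_lit 423) (nat_lit 280)))) (XT.nd (nat_lit 156) (nat_lit 228) (nat_lit 0) (XT.nd (nat_lit 78) (nat_lit 0) (nat_lit 0) (XT.lf (nat_lit 152) (nat_lit 17559491127) (nat_lit 0) (nat_lit 106965845) (nat_lit 76) (nat_lit 106965845) (nat_lit 112) (nat_lit 1) (nat_lit 110) (nat_lit 1) (nat_lit 111) (nat_lit 1) (nat_lit 318) (nat_lit 423) (nat_lit 279)) (XT.lf (nat_lit 0) (nat_lit 5727070021) (nat_lit 0) (nat_lit 6027835662) (nat_lit 152) (nat_lit 5727070021) (nat_lit 110) (nat_lit 3) (nat_lit 110) (nat_lit 1) (nat_lit 112) (nat_lit 1) (nat_lit 319) (nat_lit 423) (nat_lit 278))) (XT.nd (nat_lit 78) (nat_lit 152) (nat_lit 0) (XT.lf (nat_lit 76) (nat_lit 5542296805) (nat_lit 0)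 (nat_lit 5828740273) (nat_lit 76) (nat_lit 5828740273) (nat_lit 110) (nat_lit 3) (nat_lit 109) (nat_lit 1) (nat_lit 110) (nat_lit 1) (nat_lit 320) (nat_lit 423) (nat_lit 277)) (XT.lf (nat_lit 152) (nat_lit 16750406687) (nat_lit 0) (nat_lit 88001065) (nat_lit 76) (nat_lit 88001065) (nat_lit 109) (nat_lit 1) (nat_lit 107) (nat_lit 1) (nat_lit 108) (nat_lit 1) (nat_lit 321) (nat_lit 423) (nat_lit 276))))))))
noncomputable def ec370 : XT := (XT.nd (nat_lit 1950) (nat_lit 1900) (nat_lit 0) (XT.nd (nat_lit 936) (nat_lit 912) (nat_lit 0) (XT.nd (nat_lit 468) (nat_lit 456) (nat_lit 0) (XT.nd (nat_lit 234) (nat_lit 228) (nat_lit 0) (XT.nd (nat_lit 78) (nat_lit 228) (nat_lit 0) (XT.lf (nat_lit 0) (nat_lit 5467140214) (nat_lit 0) (nat_lit 5714580852) (nat_lit 152) (nat_lit 5467140214) (nat_lit 107) (nat_lit 3) (nat_lit 107) (nat_lit 1) (nat_lit 109) (nat_lit 1) (nat_lit 322) (nat_lit 423) (nat_lit 275)) (XT.nd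 (nat_lit 78) (nat_lit 152) (nat_lit 0) (XT.lf (nat_lit 76) (nat_lit 5302941904) (nat_lit 0) (nat_lit 5538599654) (nat_lit 76) (nat_lit 5538599654) (nat_lit 107) (nat_lit 3) (nat_lit 106) (nat_lit 1) (nat_lit 107) (nat_lit 1) (nat_lit 323) (nat_lit 423) (nat_lit 274)) (XT.lf (nat_lit 152) (nat_lit 15975048540) (nat_lit 0) (nat_lit 72398694) (nat_lit 76) (nat_lit 72398694) (nat_lit 106) (nat_lit 1) (nat_lit 104) (nat_lit 1) (nat_lit 105) (nat_lit 1) (nat_lit 324) (nat_lit 423) (nat_lit 273)))) (XT.nd (nat_lit 78) (nat_lit 228) (nat_lit 0) (XT.lf (nat_lit 0) (nat_lit 5217320769) (nat_lit 0) (nat_lit 5420890794) (nat_lit 152) (nat_lit 5217320769) (nat_lit 104) (nat_lit 3) (nat_lit 104) (nat_lit 1) (nat_lit 106) (nat_lit 1) (nat_lit 325) (nat_lit 423) (nat_lit 272)) (XT.nd (nat_lit 78) (nat_lit 152) (nat_lit 0) (XT.lf (nat_lit 76) (nat_lit 5070629720) (nat_lit 0) (nat_lit 5264505934) (nat_lit 76) (nat_lit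 5264505934) (nat_lit 104) (nat_lit 3) (nat_lit 103) (nat_lit 1) (nat_lit 104) (nat_lit 1) (nat_lit 326) (nat_lit 423) (nat_lit 271)) (XT.lf (nat_lit 152) (nat_lit 15232661974) (nat_lit 0) (nat_lit 59562585) (nat_lit 76) (nat_lit 59562585) (nat_lit 103) (nat_lit 1) (nat_lit 101) (nat_lit 1) (nat_lit 102) (nat_lit 1) (nat_lit 327) (nat_lit 423) (nat_lit 270))))) (XT.nd (nat_lit 234) (nat_lit 228) (nat_lit 0) (XT.nd (nat_lit 78) (nat_lit 228) (nat_lit 0) (XT.lf (nat_lit 0) (nat_lit 4977532218) (nat_lit 0) (nat_lit 5145009782) (nat_lit 152) (nat_lit 4977532218) (nat_lit 101) (nat_lit 3) (nat_lit 101) (nat_lit 1) (nat_lit 103) (nat_lit 1) (nat_lit 328) (nat_lit 423) (nat_lit 269)) (XT.nd (nat_lit 78) (nat_lit 152) (nat_lit 0) (XT.lf (nat_lit 76) (nat_lit 4845797040) (nat_lit 0) (nat_lit 5005299482) (nat_lit 76) (nat_lit 5005299482) (nat_lit 101) (nat_lit 3) (nat_lit 100) (nat_lit 1) (nat_lit 101) (nat_lit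 1) (nat_lit 329) (nat_lit 423) (nat_lit 268)) (XT.lf (nat_lit 152) (nat_lit 14522377280) (nat_lit 0) (nat_lit 49002286) (nat_lit 76) (nat_lit 49002286) (nat_lit 100) (nat_lit 1) (nat_lit 98) (nat_lit 1) (nat_lit 99) (nat_lit 1) (nat_lit 330) (nat_lit 423) (nat_lit 267)))) (XT.nd (nat_lit 78) (nat_lit 228) (nat_lit 0) (XT.lf (nat_lit 0) (nat_lit 4747627608) (nat_lit 0) (nat_lit 4885411813) (nat_lit 152) (nat_lit 4747627608) (nat_lit 98) (nat_lit 3) (nat_lit 98) (nat_lit 1) (nat_lit 100) (nat_lit 1) (nat_lit 331) (nat_lit 423) (nat_lit 266)) (XT.nd (nat_lit 78) (nat_lit 152) (nat_lit 0) (XT.lf (nat_lit 76) (nat_lit 4628722952) (nat_lit 0) (nat_lit 4759946005) (nat_lit 76) (nat_lit 4759946005) (nat_lit 98) (nat_lit 3) (nat_lit 97) (nat_lit 1) (nat_lit 98) (nat_lit 1) (nat_lit 332) (nat_lit 423) (nat_lit 265)) (XT.lf (nat_lit 152) (nat_lit 13843241991) (nat_lit 0) (nat_lit 40314302) (nat_lit 76) (nat_lit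 40314302) (nat_lit 97) (nat_lit 1) (nat_lit 95) (nat_lit 1) (nat_lit 96) (nat_lit 1) (nat_lit 333) (nat_lit 423) (nat_lit 264)))))) (XT.nd (nat_lit 468) (nat_lit 456) (nat_lit 0) (XT.nd (nat_lit 234) (nat_lit 228) (nat_lit 0) (XT.nd (nat_lit 78) (nat_lit 228) (nat_lit 0) (XT.lf (nat_lit 0) (nat_lit 4527408347) (nat_lit 0) (nat_lit 4640763754) (nat_lit 152) (nat_lit 4527408347) (nat_lit 95) (nat_lit 3) (nat_lit 95) (nat_lit 1) (nat_lit 97) (nat_lit 1) (nat_lit 334) (nat_lit 423) (nat_lit 263)) (XT.nd (nat_lit 78) (nat_lit 152) (nat_lit 0) (XT.lf (nat_lit 76) (nat_lit 4419560622) (nat_lit 0) (nat_lit 4527518153) (nat_lit 76) (nat_lit 4527518153) (nat_lit 95) (nat_lit 3) (nat_lit 94) (nat_lit 1) (nat_lit 95) (nat_lit 1) (nat_lit 335) (nat_lit 423) (nat_lit 262)) (XT.lf (nat_lit 152) (nat_lit 13194246839) (nat_lit 0) (nat_lit 33166676) (nat_lit 76) (nat_lit 33166676) (nat_lit 94) (nat_lit 1) (nat_lit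 92) (nat_lit 1) (nat_lit 93) (nat_lit 1) (nat_lit 336) (nat_lit 423) (nat_lit 261)))) (XT.nd (nat_lit 78) (nat_lit 228) (nat_lit 0) (XT.lf (nat_lit 0) (nat_lit 4316637066) (nat_lit 0) (nat_lit 4409894840) (nat_lit 152) (nat_lit 4316637066) (nat_lit 92) (nat_lit 3) (nat_lit 92) (nat_lit 1) (nat_lit 94) (nat_lit 1) (nat_lit 337) (nat_lit 423) (nat_lit 260)) (XT.nd (nat_lit 78) (nat_lit 152) (nat_lit 0) (XT.lf (nat_lit 76) (nat_lit 4218363265) (nat_lit 0) (nat_lit 4307180193) (nat_lit 76) (nat_lit 4307180193) (nat_lit 92) (nat_lit 3) (nat_lit 91) (nat_lit 1) (nat_lit 92) (nat_lit 1) (nat_lit 338) (nat_lit 423) (nat_lit 259)) (XT.lf (nat_lit 152) (nat_lit 12574346569) (nat_lit 0) (nat_lit 27286306) (nat_lit 76) (nat_lit 27286306) (nat_lit 91) (nat_lit 1) (nat_lit 89) (nat_lit 1) (nat_lit 90) (nat_lit 1) (nat_lit 339) (nat_lit 423) (nat_lit 258))))) (XT.nd (nat_lit 234) (nat_lit 228) (nat_lit 0) (XT.nd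 (nat_lit 78) (nat_lit 228) (nat_lit 0) (XT.lf (nat_lit 0) (nat_lit 4115048010) (nat_lit 0) (nat_lit 4191771412) (nat_lit 152) (nat_lit 4115048010) (nat_lit 89) (nat_lit 3) (nat_lit 89) (nat_lit 1) (nat_lit 91) (nat_lit 1) (nat_lit 340) (nat_lit 423) (nat_lit 257)) (XT.nd (nat_lit 78) (nat_lit 152) (nat_lit 0) (XT.lf (nat_lit 76) (nat_lit 4025105331) (nat_lit 0) (nat_lit 4098175237) (nat_lit 76) (nat_lit 4098175237) (nat_lit 89) (nat_lit 3) (nat_lit 88) (nat_lit 1) (nat_lit 89) (nat_lit 1) (nat_lit 341) (nat_lit 423) (nat_lit 256)) (XT.lf (nat_lit 152) (nat_lit 11982476557) (nat_lit 0) (nat_lit 22448511) (nat_lit 76) (nat_lit 22448511) (nat_lit 88) (nat_lit 1) (nat_lit 86) (nat_lit 1) (nat_lit 87) (nat_lit 1) (nat_lit 342) (nat_lit 423) (nat_lit 255)))) (XT.nd (nat_lit 156) (nat_lit 152) (nat_lit 0) (XT.nd (nat_lit 78) (nat_lit 76) (nat_lit 0) (XT.lf (nat_lit 0) (nat_lit 3922355433) (nat_lit 0)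 (nat_lit 3985475965) (nat_lit 152) (nat_lit 3922355433) (nat_lit 86) (nat_lit 3) (nat_lit 86) (nat_lit 1) (nat_lit 88) (nat_lit 1) (nat_lit 343) (nat_lit 423) (nat_lit 254)) (XT.lf (nat_lit 76) (nat_lit 3839699767) (nat_lit 0) (nat_lit 3899814560) (nat_lit 76) (nat_lit 3899814560) (nat_lit 86) (nat_lit 3) (nat_lit 85) (nat_lit 1) (nat_lit 86) (nat_lit 1) (nat_lit 344) (nat_lit 423) (nat_lit 253))) (XT.nd (nat_lit 78) (nat_lit 0) (nat_lit 0) (XT.lf (nat_lit 152) (nat_lit 11417565989) (nat_lit 0) (nat_lit 18468446) (nat_lit 76) (nat_lit 18468446) (nat_lit 85) (nat_lit 1) (nat_lit 83) (nat_lit 1) (nat_lit 84) (nat_lit 1) (nat_lit 345) (nat_lit 423) (nat_lit 252)) (XT.lf (nat_lit 0) (nat_lit 3738260332) (nat_lit 0) (nat_lit 3790189750) (nat_lit 152) (nat_lit 3738260332) (nat_lit 83) (nat_lit 3) (nat_lit 83) (nat_lit 1) (nat_lit 85) (nat_lit 1) (nat_lit 346) (nat_lit 423) (nat_lit 251))))))) (XT.nd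 (nat_lit 936) (nat_lit 988) (nat_lit 0) (XT.nd (nat_lit 468) (nat_lit 456) (nat_lit 0) (XT.nd (nat_lit 234) (nat_lit 228) (nat_lit 0) (XT.nd (nat_lit 78) (nat_lit 152) (nat_lit 0) (XT.lf (nat_lit 76) (nat_lit 3662012072) (nat_lit 0) (nat_lit 3711468661) (nat_lit 76) (nat_lit 3711468661) (nat_lit 83) (nat_lit 3) (nat_lit 82) (nat_lit 1) (nat_lit 83) (nat_lit 1) (nat_lit 347) (nat_lit 423) (nat_lit 250)) (XT.nd (nat_lit 78) (nat_lit 0) (nat_lit 0) (XT.lf (nat_lit 152) (nat_lit 10878548245) (nat_lit 0) (nat_lit 15194036) (nat_lit 76) (nat_lit 15194036) (nat_lit 82) (nat_lit 1) (nat_lit 80) (nat_lit 1) (nat_lit 81) (nat_lit 1) (nat_lit 348) (nat_lit 423) (nat_lit 249)) (XT.lf (nat_lit 0) (nat_lit 3562455846) (nat_lit 0) (nat_lit 3605178307) (nat_lit 152) (nat_lit 3562455846) (nat_lit 80) (nat_lit 3) (nat_lit 80) (nat_lit 1) (nat_lit 82) (nat_lit 1) (nat_lit 349) (nat_lit 423) (nat_lit 248)))) (XT.nd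 (nat_lit 78) (nat_lit 152) (nat_lit 0) (XT.lf (nat_lit 76) (nat_lit 3491871701) (nat_lit 0) (nat_lit 3532559759) (nat_lit 76) (nat_lit 3532559759) (nat_lit 80) (nat_lit 3) (nat_lit 79) (nat_lit 1) (nat_lit 80) (nat_lit 1) (nat_lit 350) (nat_lit 423) (nat_lit 247)) (XT.nd (nat_lit 78) (nat_lit 0) (nat_lit 0) (XT.lf (nat_lit 152) (nat_lit 10364368991) (nat_lit 0) (nat_lit 12500171) (nat_lit 76) (nat_lit 12500171) (nat_lit 79) (nat_lit 1) (nat_lit 77) (nat_lit 1) (nat_lit 78) (nat_lit 1) (nat_lit 351) (nat_lit 423) (nat_lit 246)) (XT.lf (nat_lit 0) (nat_lit 3394631545) (nat_lit 0) (nat_lit 3429779419) (nat_lit 152) (nat_lit 3394631545) (nat_lit 77) (nat_lit 3) (nat_lit 77) (nat_lit 1) (nat_lit 79) (nat_lit 1) (nat_lit 352) (nat_lit 423) (nat_lit 245))))) (XT.nd (nat_lit 234) (nat_lit 228) (nat_lit 0) (XT.nd (nat_lit 78) (nat_lit 152) (nat_lit 0) (XT.lf (nat_lit 76) (nat_lit 3329081305) (nat_lit 0)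 (nat_lit 3362555471) (nat_lit 76) (nat_lit 3362555471) (nat_lit 77) (nat_lit 3) (nat_lit 76) (nat_lit 1) (nat_lit 77) (nat_lit 1) (nat_lit 353) (nat_lit 423) (nat_lit 244)) (XT.nd (nat_lit 78) (nat_lit 0) (nat_lit 0) (XT.lf (nat_lit 152) (nat_lit 9873992427) (nat_lit 0) (nat_lit 10283921) (nat_lit 76) (nat_lit 10283921) (nat_lit 76) (nat_lit 1) (nat_lit 74) (nat_lit 1) (nat_lit 75) (nat_lit 1) (nat_lit 354) (nat_lit 423) (nat_lit 243)) (XT.lf (nat_lit 0) (nat_lit 3234476825) (nat_lit 0) (nat_lit 3263393068) (nat_lit 152) (nat_lit 3234476825) (nat_lit 74) (nat_lit 3) (nat_lit 74) (nat_lit 1) (nat_lit 76) (nat_lit 1) (nat_lit 355) (nat_lit 423) (nat_lit 242)))) (XT.nd (nat_lit 78) (nat_lit 152) (nat_lit 0) (XT.lf (nat_lit 76) (nat_lit 3173424205) (nat_lit 0) (nat_lit 3200963484) (nat_lit 76) (nat_lit 3200963484) (nat_lit 74) (nat_lit 3) (nat_lit 73) (nat_lit 1) (nat_lit 74) (nat_lit 1) (nat_lit 356)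 (nat_lit 423) (nat_lit 241)) (XT.nd (nat_lit 78) (nat_lit 0) (nat_lit 0) (XT.lf (nat_lit 152) (nat_lit 9406406013) (nat_lit 0) (nat_lit 8460608) (nat_lit 76) (nat_lit 8460608) (nat_lit 73) (nat_lit 1) (nat_lit 71) (nat_lit 1) (nat_lit 72) (nat_lit 1) (nat_lit 357) (nat_lit 423) (nat_lit 240)) (XT.lf (nat_lit 0) (nat_lit 3081683566) (nat_lit 0) (nat_lit 3105473031) (nat_lit 152) (nat_lit 3081683566) (nat_lit 71) (nat_lit 3) (nat_lit 71) (nat_lit 1) (nat_lit 73) (nat_lit 1) (nat_lit 358) (nat_lit 423) (nat_lit 239)))))) (XT.nd (nat_lit 468) (nat_lit 532) (nat_lit 0) (XT.nd (nat_lit 234) (nat_lit 228) (nat_lit 0) (XT.nd (nat_lit 78) (nat_lit 152) (nat_lit 0) (XT.lf (nat_lit 76) (nat_lit 3024670401) (nat_lit 0) (nat_lit 3047327034) (nat_lit 76) (nat_lit 3047327034) (nat_lit 71) (nat_lit 3) (nat_lit 70) (nat_lit 1) (nat_lit 71) (nat_lit 1) (nat_lit 359) (nat_lit 423) (nat_lit 238)) (XT.nd (nat_lit 78)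 (nat_lit 0) (nat_lit 0) (XT.lf (nat_lit 152) (nat_lit 8960623989) (nat_lit 0) (nat_lit 6960563) (nat_lit 76) (nat_lit 6960563) (nat_lit 70) (nat_lit 1) (nat_lit 68) (nat_lit 1) (nat_lit 69) (nat_lit 1) (nat_lit 360) (nat_lit 423) (nat_lit 237)) (XT.lf (nat_lit 0) (nat_lit 2935948199) (nat_lit 0) (nat_lit 2955519851) (nat_lit 152) (nat_lit 2935948199) (nat_lit 68) (nat_lit 3) (nat_lit 68) (nat_lit 1) (nat_lit 70) (nat_lit 1) (nat_lit 361) (nat_lit 423) (nat_lit 236)))) (XT.nd (nat_lit 78) (nat_lit 152) (nat_lit 0) (XT.lf (nat_lit 76) (nat_lit 2882581400) (nat_lit 0) (nat_lit 2901221068) (nat_lit 76) (nat_lit 2901221068) (nat_lit 68) (nat_lit 3) (nat_lit 67) (nat_lit 1) (nat_lit 68) (nat_lit 1) (nat_lit 362) (nat_lit 423) (nat_lit 235)) (XT.nd (nat_lit 78) (nat_lit 0) (nat_lit 0) (XT.lf (nat_lit 152) (nat_lit 8535689896) (nat_lit 0) (nat_lit 5726472) (nat_lit 76) (nat_lit 5726472) (nat_lit 67) (nat_lit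 1) (nat_lit 65) (nat_lit 1) (nat_lit 66) (nat_lit 1) (nat_lit 363) (nat_lit 423) (nat_lit 234)) (XT.lf (nat_lit 0) (nat_lit 2796973280) (nat_lit 0) (nat_lit 2813074926) (nat_lit 152) (nat_lit 2796973280) (nat_lit 65) (nat_lit 3) (nat_lit 65) (nat_lit 1) (nat_lit 67) (nat_lit 1) (nat_lit 364) (nat_lit 423) (nat_lit 233))))) (XT.nd (nat_lit 234) (nat_lit 304) (nat_lit 0) (XT.nd (nat_lit 78) (nat_lit 152) (nat_lit 0) (XT.lf (nat_lit 76) (nat_lit 2746914066) (nat_lit 0) (nat_lit 2762248967) (nat_lit 76) (nat_lit 2762248967) (nat_lit 65) (nat_lit 3) (nat_lit 64) (nat_lit 1) (nat_lit 65) (nat_lit 1) (nat_lit 365) (nat_lit 423) (nat_lit 232)) (XT.nd (nat_lit 78) (nat_lit 0) (nat_lit 0) (XT.lf (nat_lit 152) (nat_lit 8130678311) (nat_lit 0) (nat_lit 4711183) (nat_lit 76) (nat_lit 4711183) (nat_lit 64) (nat_lit 1) (nat_lit 62) (nat_lit 1) (nat_lit 63) (nat_lit 1) (nat_lit 366) (nat_lit 423) (nat_lit 231))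 (XT.lf (nat_lit 0) (nat_lit 2664468679) (nat_lit 0) (nat_lit 2677715543) (nat_lit 152) (nat_lit 2664468679) (nat_lit 62) (nat_lit 3) (nat_lit 62) (nat_lit 1) (nat_lit 64) (nat_lit 1) (nat_lit 367) (nat_lit 423) (nat_lit 230)))) (XT.nd (nat_lit 156) (nat_lit 76) (nat_lit 0) (XT.nd (nat_lit 78) (nat_lit 152) (nat_lit 0) (XT.lf (nat_lit 76) (nat_lit 2617423680) (nat_lit 0) (nat_lit 2630039741) (nat_lit 76) (nat_lit 2630039741) (nat_lit 62) (nat_lit 3) (nat_lit 61) (nat_lit 1) (nat_lit 62) (nat_lit 1) (nat_lit 368) (nat_lit 423) (nat_lit 229)) (XT.lf (nat_lit 152) (nat_lit 7744695939) (nat_lit 0) (nat_lit 3875902) (nat_lit 76) (nat_lit 3875902) (nat_lit 61) (nat_lit 1) (nat_lit 59) (nat_lit 1) (nat_lit 60) (nat_lit 1) (nat_lit 369) (nat_lit 423) (nat_lit 228))) (XT.nd (nat_lit 78) (nat_lit 76) (nat_lit 0) (XT.lf (nat_lit 0) (nat_lit 2538152442) (nat_lit 0) (nat_lit 2549050670) (nat_lit 152) (nat_lit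 2538152442) (nat_lit 59) (nat_lit 3) (nat_lit 59) (nat_lit 1) (nat_lit 61) (nat_lit 1) (nat_lit 370) (nat_lit 423) (nat_lit 227)) (XT.lf (nat_lit 76) (nat_lit 2493866349) (nat_lit 0) (nat_lit 2504245614) (nat_lit 76) (nat_lit 2504245614) (nat_lit 59) (nat_lit 3) (nat_lit 58) (nat_lit 1) (nat_lit 59) (nat_lit 1) (nat_lit 371) (nat_lit 423) (nat_lit 226))))))))
noncomputable def ec371 : XT := (XT.nd (nat_lit 1950) (nat_lit 1900) (nat_lit 0) (XT.nd (nat_lit 936) (nat_lit 1064) (nat_lit 0) (XT.nd (nat_lit 468) (nat_lit 456) (nat_lit 0) (XT.nd (nat_lit 234) (nat_lit 228) (nat_lit 0) (XT.nd (nat_lit 78) (nat_lit 76) (nat_lit 0) (XT.lf (nat_lit 152) (nat_lit 7376882202) (nat_lit 0) (nat_lit 3188714) (nat_lit 76) (nat_lit 3188714) (nat_lit 58) (nat_lit 1) (nat_lit 56) (nat_lit 1) (nat_lit 57) (nat_lit 1) (nat_lit 372) (nat_lit 423) (nat_lit 225)) (XT.nd (nat_lit 78) (nat_lit 76) (nat_lit 0) (XT.lf (nat_lit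 0) (nat_lit 2417751406) (nat_lit 0) (nat_lit 2426717405) (nat_lit 152) (nat_lit 2417751406) (nat_lit 56) (nat_lit 3) (nat_lit 56) (nat_lit 1) (nat_lit 58) (nat_lit 1) (nat_lit 373) (nat_lit 423) (nat_lit 224)) (XT.lf (nat_lit 76) (nat_lit 2376000884) (nat_lit 0) (nat_lit 2384539931) (nat_lit 76) (nat_lit 2384539931) (nat_lit 56) (nat_lit 3) (nat_lit 55) (nat_lit 1) (nat_lit 56) (nat_lit 1) (nat_lit 374) (nat_lit 423) (nat_lit 223)))) (XT.nd (nat_lit 78) (nat_lit 76) (nat_lit 0) (XT.lf (nat_lit 152) (nat_lit 7026409422) (nat_lit 0) (nat_lit 2623363) (nat_lit 76) (nat_lit 2623363) (nat_lit 55) (nat_lit 1) (nat_lit 53) (nat_lit 1) (nat_lit 54) (nat_lit 1) (nat_lit 375) (nat_lit 423) (nat_lit 222)) (XT.nd (nat_lit 78) (nat_lit 76) (nat_lit 0) (XT.lf (nat_lit 0) (nat_lit 2303001598) (nat_lit 0) (nat_lit 2310377948) (nat_lit 152) (nat_lit 2303001598) (nat_lit 53) (nat_lit 3) (nat_lit 53) (nat_lit 1)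 (nat_lit 55) (nat_lit 1) (nat_lit 376) (nat_lit 423) (nat_lit 221)) (XT.lf (nat_lit 76) (nat_lit 2263590252) (nat_lit 0) (nat_lit 2270615347) (nat_lit 76) (nat_lit 2270615347) (nat_lit 53) (nat_lit 3) (nat_lit 52) (nat_lit 1) (nat_lit 53) (nat_lit 1) (nat_lit 377) (nat_lit 423) (nat_lit 220))))) (XT.nd (nat_lit 234) (nat_lit 228) (nat_lit 0) (XT.nd (nat_lit 78) (nat_lit 76) (nat_lit 0) (XT.lf (nat_lit 152) (nat_lit 6692482685) (nat_lit 0) (nat_lit 2158247) (nat_lit 76) (nat_lit 2158247) (nat_lit 52) (nat_lit 1) (nat_lit 50) (nat_lit 1) (nat_lit 51) (nat_lit 1) (nat_lit 378) (nat_lit 423) (nat_lit 219)) (XT.nd (nat_lit 78) (nat_lit 76) (nat_lit 0) (XT.lf (nat_lit 0) (nat_lit 2193648480) (nat_lit 0) (nat_lit 2199717021) (nat_lit 152) (nat_lit 2193648480) (nat_lit 50) (nat_lit 3) (nat_lit 50) (nat_lit 1) (nat_lit 52) (nat_lit 1) (nat_lit 379) (nat_lit 423) (nat_lit 218)) (XT.lf (nat_lit 76) (nat_lit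 2156402678) (nat_lit 0) (nat_lit 2162182240) (nat_lit 76) (nat_lit 2162182240) (nat_lit 50) (nat_lit 3) (nat_lit 49) (nat_lit 1) (nat_lit 50) (nat_lit 1) (nat_lit 380) (nat_lit 423) (nat_lit 217)))) (XT.nd (nat_lit 78) (nat_lit 76) (nat_lit 0) (XT.lf (nat_lit 152) (nat_lit 6374339462) (nat_lit 0) (nat_lit 1775595) (nat_lit 76) (nat_lit 1775595) (nat_lit 49) (nat_lit 1) (nat_lit 47) (nat_lit 1) (nat_lit 48) (nat_lit 1) (nat_lit 381) (nat_lit 423) (nat_lit 216)) (XT.nd (nat_lit 78) (nat_lit 76) (nat_lit 0) (XT.lf (nat_lit 0) (nat_lit 2089447048) (nat_lit 0) (nat_lit 2094439652) (nat_lit 152) (nat_lit 2089447048) (nat_lit 47) (nat_lit 3) (nat_lit 47) (nat_lit 1) (nat_lit 49) (nat_lit 1) (nat_lit 382) (nat_lit 423) (nat_lit 215)) (XT.lf (nat_lit 76) (nat_lit 2054212463) (nat_lit 0) (nat_lit 2058967324) (nat_lit 76) (nat_lit 2058967324) (nat_lit 47) (nat_lit 3) (nat_lit 46) (nat_lit 1) (nat_lit 47)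 (nat_lit 1) (nat_lit 383) (nat_lit 423) (nat_lit 214)))))) (XT.nd (nat_lit 468) (nat_lit 608) (nat_lit 0) (XT.nd (nat_lit 234) (nat_lit 228) (nat_lit 0) (XT.nd (nat_lit 78) (nat_lit 76) (nat_lit 0) (XT.lf (nat_lit 152) (nat_lit 6071249036) (nat_lit 0) (nat_lit 1460786) (nat_lit 76) (nat_lit 1460786) (nat_lit 46) (nat_lit 1) (nat_lit 44) (nat_lit 1) (nat_lit 45) (nat_lit 1) (nat_lit 384) (nat_lit 423) (nat_lit 213)) (XT.nd (nat_lit 78) (nat_lit 76) (nat_lit 0) (XT.lf (nat_lit 0) (nat_lit 1990161842) (nat_lit 0) (nat_lit 1994269270) (nat_lit 152) (nat_lit 1990161842) (nat_lit 44) (nat_lit 3) (nat_lit 44) (nat_lit 1) (nat_lit 46) (nat_lit 1) (nat_lit 385) (nat_lit 423) (nat_lit 212)) (XT.lf (nat_lit 76) (nat_lit 1956800575) (nat_lit 0) (nat_lit 1960712411) (nat_lit 76) (nat_lit 1960712411) (nat_lit 44) (nat_lit 3) (nat_lit 43) (nat_lit 1) (nat_lit 44) (nat_lit 1) (nat_lit 386) (nat_lit 423) (nat_lit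 211)))) (XT.nd (nat_lit 78) (nat_lit 76) (nat_lit 0) (XT.lf (nat_lit 152) (nat_lit 5782511783) (nat_lit 0) (nat_lit 1201792) (nat_lit 76) (nat_lit 1201792) (nat_lit 43) (nat_lit 1) (nat_lit 41) (nat_lit 1) (nat_lit 42) (nat_lit 1) (nat_lit 387) (nat_lit 423) (nat_lit 210)) (XT.nd (nat_lit 78) (nat_lit 76) (nat_lit 0) (XT.lf (nat_lit 0) (nat_lit 1895566869) (nat_lit 0) (nat_lit 1898946059) (nat_lit 152) (nat_lit 1895566869) (nat_lit 41) (nat_lit 3) (nat_lit 41) (nat_lit 1) (nat_lit 43) (nat_lit 1) (nat_lit 388) (nat_lit 423) (nat_lit 209)) (XT.lf (nat_lit 76) (nat_lit 1863955056) (nat_lit 0) (nat_lit 1867173332) (nat_lit 76) (nat_lit 1867173332) (nat_lit 41) (nat_lit 3) (nat_lit 40) (nat_lit 1) (nat_lit 41) (nat_lit 1) (nat_lit 389) (nat_lit 423) (nat_lit 208))))) (XT.nd (nat_lit 234) (nat_lit 380) (nat_lit 0) (XT.nd (nat_lit 78) (nat_lit 76) (nat_lit 0) (XT.lf (nat_lit 152) (nat_lit 5507458351)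 (nat_lit 0) (nat_lit 988717) (nat_lit 76) (nat_lit 988717) (nat_lit 40) (nat_lit 1) (nat_lit 38) (nat_lit 1) (nat_lit 39) (nat_lit 1) (nat_lit 390) (nat_lit 423) (nat_lit 207)) (XT.nd (nat_lit 78) (nat_lit 76) (nat_lit 0) (XT.lf (nat_lit 0) (nat_lit 1805445454) (nat_lit 0) (nat_lit 1808225523) (nat_lit 152) (nat_lit 1805445454) (nat_lit 38) (nat_lit 3) (nat_lit 38) (nat_lit 1) (nat_lit 40) (nat_lit 1) (nat_lit 391) (nat_lit 423) (nat_lit 206)) (XT.lf (nat_lit 76) (nat_lit 1775471275) (nat_lit 0) (nat_lit 1778118959) (nat_lit 76) (nat_lit 1778118959) (nat_lit 38) (nat_lit 3) (nat_lit 37) (nat_lit 1) (nat_lit 38) (nat_lit 1) (nat_lit 392) (nat_lit 423) (nat_lit 205)))) (XT.nd (nat_lit 156) (nat_lit 228) (nat_lit 0) (XT.nd (nat_lit 78) (nat_lit 0) (nat_lit 0) (XT.lf (nat_lit 152) (nat_lit 5245448755) (nat_lit 0) (nat_lit 813420) (nat_lit 76) (nat_lit 813420) (nat_lit 37) (nat_lit 1) (nat_lit 35) (nat_lit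 1) (nat_lit 36) (nat_lit 1) (nat_lit 393) (nat_lit 423) (nat_lit 204)) (XT.lf (nat_lit 0) (nat_lit 1719590063) (nat_lit 0) (nat_lit 1721877232) (nat_lit 152) (nat_lit 1719590063) (nat_lit 35) (nat_lit 3) (nat_lit 35) (nat_lit 1) (nat_lit 37) (nat_lit 1) (nat_lit 394) (nat_lit 423) (nat_lit 203))) (XT.nd (nat_lit 78) (nat_lit 152) (nat_lit 0) (XT.lf (nat_lit 76) (nat_lit 1691152076) (nat_lit 0) (nat_lit 1693330332) (nat_lit 76) (nat_lit 1693330332) (nat_lit 35) (nat_lit 3) (nat_lit 34) (nat_lit 1) (nat_lit 35) (nat_lit 1) (nat_lit 395) (nat_lit 423) (nat_lit 202)) (XT.lf (nat_lit 152) (nat_lit 4995871425) (nat_lit 0) (nat_lit 669203) (nat_lit 76) (nat_lit 669203) (nat_lit 34) (nat_lit 1) (nat_lit 32) (nat_lit 1) (nat_lit 33) (nat_lit 1) (nat_lit 396) (nat_lit 423) (nat_lit 201))))))) (XT.nd (nat_lit 1014) (nat_lit 988) (nat_lit 0) (XT.nd (nat_lit 468) (nat_lit 456) (nat_lit 0) (XT.nd (nat_lit 234)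 (nat_lit 228) (nat_lit 0) (XT.nd (nat_lit 78) (nat_lit 228) (nat_lit 0) (XT.lf (nat_lit 0) (nat_lit 1637802067) (nat_lit 0) (nat_lit 1639683727) (nat_lit 152) (nat_lit 1637802067) (nat_lit 32) (nat_lit 3) (nat_lit 32) (nat_lit 1) (nat_lit 34) (nat_lit 1) (nat_lit 397) (nat_lit 423) (nat_lit 200)) (XT.nd (nat_lit 78) (nat_lit 152) (nat_lit 0) (XT.lf (nat_lit 76) (nat_lit 1610807821) (nat_lit 0) (nat_lit 1612599878) (nat_lit 76) (nat_lit 1612599878) (nat_lit 32) (nat_lit 3) (nat_lit 31) (nat_lit 1) (nat_lit 32) (nat_lit 1) (nat_lit 398) (nat_lit 423) (nat_lit 199)) (XT.lf (nat_lit 152) (nat_lit 4758142215) (nat_lit 0) (nat_lit 550555) (nat_lit 76) (nat_lit 550555) (nat_lit 31) (nat_lit 1) (nat_lit 29) (nat_lit 1) (nat_lit 30) (nat_lit 1) (nat_lit 399) (nat_lit 423) (nat_lit 198)))) (XT.nd (nat_lit 78) (nat_lit 228) (nat_lit 0) (XT.lf (nat_lit 0) (nat_lit 1559891496) (nat_lit 0) (nat_lit 1561439542)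 (nat_lit 152) (nat_lit 1559891496) (nat_lit 29) (nat_lit 3) (nat_lit 29) (nat_lit 1) (nat_lit 31) (nat_lit 1) (nat_lit 400) (nat_lit 423) (nat_lit 197)) (XT.nd (nat_lit 78) (nat_lit 152) (nat_lit 0) (XT.lf (nat_lit 76) (nat_lit 1534256365) (nat_lit 0) (nat_lit 1535730695) (nat_lit 76) (nat_lit 1535730695) (nat_lit 29) (nat_lit 3) (nat_lit 28) (nat_lit 1) (nat_lit 29) (nat_lit 1) (nat_lit 401) (nat_lit 423) (nat_lit 196)) (XT.lf (nat_lit 152) (nat_lit 4531703405) (nat_lit 0) (nat_lit 452943) (nat_lit 76) (nat_lit 452943) (nat_lit 28) (nat_lit 1) (nat_lit 26) (nat_lit 1) (nat_lit 27) (nat_lit 1) (nat_lit 402) (nat_lit 423) (nat_lit 195))))) (XT.nd (nat_lit 234) (nat_lit 228) (nat_lit 0) (XT.nd (nat_lit 78) (nat_lit 228) (nat_lit 0) (XT.lf (nat_lit 0) (nat_lit 1485676767) (nat_lit 0) (nat_lit 1486950349) (nat_lit 152) (nat_lit 1485676767) (nat_lit 26) (nat_lit 3) (nat_lit 26) (nat_lit 1) (nat_lit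 28) (nat_lit 1) (nat_lit 403) (nat_lit 423) (nat_lit 194)) (XT.nd (nat_lit 78) (nat_lit 152) (nat_lit 0) (XT.lf (nat_lit 76) (nat_lit 1461322969) (nat_lit 0) (nat_lit 1462535904) (nat_lit 76) (nat_lit 1462535904) (nat_lit 26) (nat_lit 3) (nat_lit 25) (nat_lit 1) (nat_lit 26) (nat_lit 1) (nat_lit 404) (nat_lit 423) (nat_lit 193)) (XT.lf (nat_lit 152) (nat_lit 4316022682) (nat_lit 0) (nat_lit 372637) (nat_lit 76) (nat_lit 372637) (nat_lit 25) (nat_lit 1) (nat_lit 23) (nat_lit 1) (nat_lit 24) (nat_lit 1) (nat_lit 405) (nat_lit 423) (nat_lit 192)))) (XT.nd (nat_lit 156) (nat_lit 152) (nat_lit 0) (XT.nd (nat_lit 78) (nat_lit 76) (nat_lit 0) (XT.lf (nat_lit 0) (nat_lit 1414984404) (nat_lit 0) (nat_lit 1416032183) (nat_lit 152) (nat_lit 1414984404) (nat_lit 23) (nat_lit 3) (nat_lit 23) (nat_lit 1) (nat_lit 25) (nat_lit 1) (nat_lit 406) (nat_lit 423) (nat_lit 191)) (XT.lf (nat_lit 76) (nat_lit 1391840177)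 (nat_lit 0) (nat_lit 1392838061) (nat_lit 76) (nat_lit 1392838061) (nat_lit 23) (nat_lit 3) (nat_lit 22) (nat_lit 1) (nat_lit 23) (nat_lit 1) (nat_lit 407) (nat_lit 423) (nat_lit 190))) (XT.nd (nat_lit 78) (nat_lit 0) (nat_lit 0) (XT.lf (nat_lit 152) (nat_lit 4110592137) (nat_lit 0) (nat_lit 306569) (nat_lit 76) (nat_lit 306569) (nat_lit 22) (nat_lit 1) (nat_lit 20) (nat_lit 1) (nat_lit 21) (nat_lit 1) (nat_lit 408) (nat_lit 423) (nat_lit 189)) (XT.lf (nat_lit 0) (nat_lit 1347648743) (nat_lit 0) (nat_lit 1348510753) (nat_lit 152) (nat_lit 1347648743) (nat_lit 20) (nat_lit 3) (nat_lit 20) (nat_lit 1) (nat_lit 22) (nat_lit 1) (nat_lit 409) (nat_lit 423) (nat_lit 188)))))) (XT.nd (nat_lit 468) (nat_lit 532) (nat_lit 0) (XT.nd (nat_lit 234) (nat_lit 228) (nat_lit 0) (XT.nd (nat_lit 78) (nat_lit 152) (nat_lit 0) (XT.lf (nat_lit 76) (nat_lit 1325647647) (nat_lit 0) (nat_lit 1326468609) (nat_lit 76) (nat_lit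 1326468609) (nat_lit 20) (nat_lit 3) (nat_lit 19) (nat_lit 1) (nat_lit 20) (nat_lit 1) (nat_lit 410) (nat_lit 423) (nat_lit 187)) (XT.nd (nat_lit 78) (nat_lit 0) (nat_lit 0) (XT.lf (nat_lit 152) (nat_lit 3914927272) (nat_lit 0) (nat_lit 252215) (nat_lit 76) (nat_lit 252215) (nat_lit 19) (nat_lit 1) (nat_lit 17) (nat_lit 1) (nat_lit 18) (nat_lit 1) (nat_lit 411) (nat_lit 423) (nat_lit 186)) (XT.lf (nat_lit 0) (nat_lit 1283511644) (nat_lit 0) (nat_lit 1284220822) (nat_lit 152) (nat_lit 1283511644) (nat_lit 17) (nat_lit 3) (nat_lit 17) (nat_lit 1) (nat_lit 19) (nat_lit 1) (nat_lit 412) (nat_lit 423) (nat_lit 185)))) (XT.nd (nat_lit 78) (nat_lit 152) (nat_lit 0) (XT.lf (nat_lit 76) (nat_lit 1262591970) (nat_lit 0) (nat_lit 1263267377) (nat_lit 76) (nat_lit 1263267377) (nat_lit 17) (nat_lit 3) (nat_lit 16) (nat_lit 1) (nat_lit 17) (nat_lit 1) (nat_lit 413) (nat_lit 423) (nat_lit 184)) (XT.nd (nat_lit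 78) (nat_lit 0) (nat_lit 0) (XT.lf (nat_lit 152) (nat_lit 3728566020) (nat_lit 0) (nat_lit 207498) (nat_lit 76) (nat_lit 207498) (nat_lit 16) (nat_lit 1) (nat_lit 14) (nat_lit 1) (nat_lit 15) (nat_lit 1) (nat_lit 414) (nat_lit 423) (nat_lit 183)) (XT.lf (nat_lit 0) (nat_lit 1222422194) (nat_lit 0) (nat_lit 1223005637) (nat_lit 152) (nat_lit 1222422194) (nat_lit 14) (nat_lit 3) (nat_lit 14) (nat_lit 1) (nat_lit 16) (nat_lit 1) (nat_lit 415) (nat_lit 423) (nat_lit 182))))) (XT.nd (nat_lit 234) (nat_lit 304) (nat_lit 0) (XT.nd (nat_lit 78) (nat_lit 152) (nat_lit 0) (XT.lf (nat_lit 76) (nat_lit 1202526462) (nat_lit 0) (nat_lit 1203082122) (nat_lit 76) (nat_lit 1203082122) (nat_lit 14) (nat_lit 3) (nat_lit 13) (nat_lit 1) (nat_lit 14) (nat_lit 1) (nat_lit 416) (nat_lit 423) (nat_lit 181)) (XT.nd (nat_lit 78) (nat_lit 0) (nat_lit 0) (XT.lf (nat_lit 152) (nat_lit 3551067792) (nat_lit 0) (nat_lit 170709)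 (nat_lit 76) (nat_lit 170709) (nat_lit 13) (nat_lit 1) (nat_lit 11) (nat_lit 1) (nat_lit 12) (nat_lit 1) (nat_lit 417) (nat_lit 423) (nat_lit 180)) (XT.lf (nat_lit 0) (nat_lit 1164236420) (nat_lit 0) (nat_lit 1164716420) (nat_lit 152) (nat_lit 1164236420) (nat_lit 11) (nat_lit 3) (nat_lit 11) (nat_lit 1) (nat_lit 13) (nat_lit 1) (nat_lit 418) (nat_lit 423) (nat_lit 179)))) (XT.nd (nat_lit 156) (nat_lit 76) (nat_lit 0) (XT.nd (nat_lit 78) (nat_lit 152) (nat_lit 0) (XT.lf (nat_lit 76) (nat_lit 1145310948) (nat_lit 0) (nat_lit 1145768091) (nat_lit 76) (nat_lit 1145768091) (nat_lit 11) (nat_lit 3) (nat_lit 10) (nat_lit 1) (nat_lit 11) (nat_lit 1) (nat_lit 419) (nat_lit 423) (nat_lit 178)) (XT.lf (nat_lit 152) (nat_lit 3382012547) (nat_lit 0) (nat_lit 140443) (nat_lit 76) (nat_lit 140443) (nat_lit 10) (nat_lit 1) (nat_lit 8) (nat_lit 1) (nat_lit 9) (nat_lit 1) (nat_lit 420) (nat_lit 423) (nat_lit 177)))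 (XT.nd (nat_lit 78) (nat_lit 76) (nat_lit 0) (XT.lf (nat_lit 0) (nat_lit 1108816999) (nat_lit 0) (nat_lit 1109211896) (nat_lit 152) (nat_lit 1108816999) (nat_lit 8) (nat_lit 3) (nat_lit 8) (nat_lit 1) (nat_lit 10) (nat_lit 1) (nat_lit 421) (nat_lit 423) (nat_lit 176)) (XT.lf (nat_lit 76) (nat_lit 1090811534) (nat_lit 0) (nat_lit 1091187626) (nat_lit 76) (nat_lit 1091187626) (nat_lit 8) (nat_lit 3) (nat_lit 7) (nat_lit 1) (nat_lit 8) (nat_lit 1) (nat_lit 422) (nat_lit 423) (nat_lit 175))))))))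
noncomputable def ec372 : XT := (XT.nd (nat_lit 34086) (nat_lit 0) (nat_lit 17860) (XT.nd (nat_lit 936) (nat_lit 0) (nat_lit 0) (XT.nd (nat_lit 468) (nat_lit 76) (nat_lit 0) (XT.nd (nat_lit 234) (nat_lit 228) (nat_lit 0) (XT.nd (nat_lit 78) (nat_lit 76) (nat_lit 0) (XT.lf (nat_lit 152) (nat_lit 3220999888) (nat_lit 0) (nat_lit 115542) (nat_lit 76) (nat_lit 115542) (nat_lit 7) (nat_lit 1) (nat_lit 5) (nat_lit 1) (nat_lit 6) (nat_lit 1) (nat_lit 423) (nat_lit 423) (nat_lit 174)) (XT.nd (nat_lit 78) (nat_lit 76) (nat_lit 0) (XT.lf (nat_lit 0) (nat_lit 1056032980) (nat_lit 0) (nat_lit 1056357862) (nat_lit 152) (nat_lit 1056032980) (nat_lit 5) (nat_lit 3) (nat_lit 5) (nat_lit 1) (nat_lit 7) (nat_lit 1) (nat_lit 424) (nat_lit 423) (nat_lit 173)) (XT.lf (nat_lit 76) (nat_lit 1038900379) (nat_lit 0) (nat_lit 1039209791) (nat_lit 76) (nat_lit 1039209791) (nat_lit 5) (nat_lit 3) (nat_lit 4) (nat_lit 1) (nat_lit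 5) (nat_lit 1) (nat_lit 425) (nat_lit 423) (nat_lit 172)))) (XT.nd (nat_lit 78) (nat_lit 76) (nat_lit 0) (XT.lf (nat_lit 152) (nat_lit 3067648194) (nat_lit 0) (nat_lit 95057) (nat_lit 76) (nat_lit 95057) (nat_lit 4) (nat_lit 1) (nat_lit 2) (nat_lit 1) (nat_lit 3) (nat_lit 1) (nat_lit 426) (nat_lit 423) (nat_lit 171)) (XT.nd (nat_lit 78) (nat_lit 76) (nat_lit 0) (XT.lf (nat_lit 0) (nat_lit 1005759508) (nat_lit 0) (nat_lit 1006026790) (nat_lit 152) (nat_lit 1005759508) (nat_lit 2) (nat_lit 3) (nat_lit 2) (nat_lit 1) (nat_lit 4) (nat_lit 1) (nat_lit 427) (nat_lit 423) (nat_lit 170)) (XT.lf (nat_lit 76) (nat_lit 989455466) (nat_lit 0) (nat_lit 989710020) (nat_lit 76) (nat_lit 989710020) (nat_lit 2) (nat_lit 3) (nat_lit 1) (nat_lit 1) (nat_lit 2) (nat_lit 1) (nat_lit 428) (nat_lit 423) (nat_lit 169))))) (XT.nd (nat_lit 234) (nat_lit 0) (nat_lit 0) (XT.nd (nat_lit 78) (nat_lit 0) (nat_lit 0) (XT.lf (nat_lit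 0) (nat_lit 61604637826) (nat_lit 0) (nat_lit 0) (nat_lit 0) (nat_lit 0) (nat_lit 0) (nat_lit 0) (nat_lit 1) (nat_lit 0) (nat_lit 1) (nat_lit 0) (nat_lit 429) (nat_lit 423) (nat_lit 168)) (XT.nd (nat_lit 78) (nat_lit 0) (nat_lit 0) (XT.lf (nat_lit 0) (nat_lit 61604626235) (nat_lit 0) (nat_lit 0) (nat_lit 0) (nat_lit 0) (nat_lit 0) (nat_lit 0) (nat_lit 1) (nat_lit 0) (nat_lit 1) (nat_lit 0) (nat_lit 430) (nat_lit 423) (nat_lit 167)) (XT.lf (nat_lit 0) (nat_lit 61604615196) (nat_lit 0) (nat_lit 0) (nat_lit 0) (nat_lit 0) (nat_lit 0) (nat_lit 0) (nat_lit 1) (nat_lit 0) (nat_lit 1) (nat_lit 0) (nat_lit 431) (nat_lit 423) (nat_lit 166)))) (XT.nd (nat_lit 78) (nat_lit 0) (nat_lit 0) (XT.lf (nat_lit 0) (nat_lit 61604604682) (nat_lit 0) (nat_lit 0) (nat_lit 0) (nat_lit 0) (nat_lit 0) (nat_lit 0) (nat_lit 1) (nat_lit 0) (nat_lit 1) (nat_lit 0) (nat_lit 432) (nat_lit 423) (nat_lit 165)) (XT.nd (nat_lit 78)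 (nat_lit 0) (nat_lit 0) (XT.lf (nat_lit 0) (nat_lit 61604594670) (nat_lit 0) (nat_lit 0) (nat_lit 0) (nat_lit 0) (nat_lit 0) (nat_lit 0) (nat_lit 1) (nat_lit 0) (nat_lit 1) (nat_lit 0) (nat_lit 433) (nat_lit 423) (nat_lit 164)) (XT.lf (nat_lit 0) (nat_lit 61604585134) (nat_lit 0) (nat_lit 0) (nat_lit 0) (nat_lit 0) (nat_lit 0) (nat_lit 0) (nat_lit 1) (nat_lit 0) (nat_lit 1) (nat_lit 0) (nat_lit 434) (nat_lit 423) (nat_lit 163)))))) (XT.nd (nat_lit 32604) (nat_lit 0) (nat_lit 22192) (XT.nd (nat_lit 234) (nat_lit 0) (nat_lit 0) (XT.nd (nat_lit 78) (nat_lit 0) (nat_lit 0) (XT.lf (nat_lit 0) (nat_lit 61604576052) (nat_lit 0) (nat_lit 0) (nat_lit 0) (nat_lit 0) (nat_lit 0) (nat_lit 0) (nat_lit 1) (nat_lit 0) (nat_lit 1) (nat_lit 0) (nat_lit 435) (nat_lit 423) (nat_lit 162)) (XT.nd (nat_lit 78) (nat_lit 0) (nat_lit 0) (XT.lf (nat_lit 0) (nat_lit 61604567402) (nat_lit 0) (nat_lit 0) (nat_lit 0) (nat_lit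 0) (nat_lit 0) (nat_lit 0) (nat_lit 1) (nat_lit 0) (nat_lit 1) (nat_lit 0) (nat_lit 436) (nat_lit 423) (nat_lit 161)) (XT.lf (nat_lit 0) (nat_lit 61604559165) (nat_lit 0) (nat_lit 0) (nat_lit 0) (nat_lit 0) (nat_lit 0) (nat_lit 0) (nat_lit 1) (nat_lit 0) (nat_lit 1) (nat_lit 0) (nat_lit 437) (nat_lit 423) (nat_lit 160)))) (XT.nd (nat_lit 78) (nat_lit 0) (nat_lit 0) (XT.lf (nat_lit 0) (nat_lit 61604551320) (nat_lit 0) (nat_lit 0) (nat_lit 0) (nat_lit 0) (nat_lit 0) (nat_lit 0) (nat_lit 1) (nat_lit 0) (nat_lit 1) (nat_lit 0) (nat_lit 438) (nat_lit 423) (nat_lit 159)) (XT.nd (nat_lit 78) (nat_lit 0) (nat_lit 0) (XT.lf (nat_lit 0) (nat_lit 61604543848) (nat_lit 0) (nat_lit 0) (nat_lit 0) (nat_lit 0) (nat_lit 0) (nat_lit 0) (nat_lit 1) (nat_lit 0) (nat_lit 1) (nat_lit 0) (nat_lit 439) (nat_lit 423) (nat_lit 158)) (XT.lf (nat_lit 0) (nat_lit 61604536732) (nat_lit 0) (nat_lit 0) (nat_lit 0) (nat_lit 0)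 (nat_lit 0) (nat_lit 0) (nat_lit 1) (nat_lit 0) (nat_lit 1) (nat_lit 0) (nat_lit 440) (nat_lit 423) (nat_lit 157))))) (XT.nd (nat_lit 234) (nat_lit 0) (nat_lit 76) (XT.nd (nat_lit 78) (nat_lit 0) (nat_lit 0) (XT.lf (nat_lit 836) (nat_lit 32370603844) (nat_lit 0) (nat_lit 57473932718) (nat_lit 836) (nat_lit 32370603844) (nat_lit 303) (nat_lit 1) (nat_lit 292) (nat_lit 0) (nat_lit 303) (nat_lit 0) (nat_lit 172) (nat_lit 424) (nat_lit 424)) (XT.nd (nat_lit 78) (nat_lit 0) (nat_lit 76) (XT.lf (nat_lit 836) (nat_lit 125472501809) (nat_lit 76) (nat_lit 56546933803) (nat_lit 0) (nat_lit 56546933803) (nat_lit 303) (nat_lit 1) (nat_lit 293) (nat_lit 1) (nat_lit 292) (nat_lit 0) (nat_lit 173) (nat_lit 424) (nat_lit 423)) (XT.lf (nat_lit 836) (nat_lit 59798305124) (nat_lit 0) (nat_lit 113287132778) (nat_lit 760) (nat_lit 59798305124) (nat_lit 304) (nat_lit 1) (nat_lit 293) (nat_lit 1) (nat_lit 303) (nat_lit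 1) (nat_lit 174) (nat_lit 424) (nat_lit 422)))) (XT.nd (nat_lit 156) (nat_lit 0) (nat_lit 76) (XT.nd (nat_lit 78) (nat_lit 0) (nat_lit 76) (XT.lf (nat_lit 836) (nat_lit 112173311229) (nat_lit 76) (nat_lit 57605698289) (nat_lit 0) (nat_lit 57605698289) (nat_lit 304) (nat_lit 1) (nat_lit 294) (nat_lit 1) (nat_lit 293) (nat_lit 1) (nat_lit 175) (nat_lit 424) (nat_lit 421)) (XT.lf (nat_lit 836) (nat_lit 51632297948) (nat_lit 0) (nat_lit 118795368522) (nat_lit 760) (nat_lit 51632297948) (nat_lit 305) (nat_lit 1) (nat_lit 294) (nat_lit 1) (nat_lit 304) (nat_lit 1) (nat_lit 176) (nat_lit 424) (nat_lit 420))) (XT.nd (nat_lit 78) (nat_lit 0) (nat_lit 76) (XT.lf (nat_lit 836) (nat_lit 92864050774) (nat_lit 76) (nat_lit 62016744392) (nat_lit 0) (nat_lit 62016744392) (nat_lit 305) (nat_lit 1) (nat_lit 295) (nat_lit 1) (nat_lit 294) (nat_lit 1) (nat_lit 177) (nat_lit 424) (nat_lit 419)) (XT.lf (nat_lit 836)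 (nat_lit 40718204108) (nat_lit 0) (nat_lit 130472042832) (nat_lit 760) (nat_lit 40718204108) (nat_lit 306) (nat_lit 1) (nat_lit 295) (nat_lit 1) (nat_lit 305) (nat_lit 1) (nat_lit 178) (nat_lit 424) (nat_lit 418))))))) (XT.nd (nat_lit 936) (nat_lit 2356) (nat_lit 0) (XT.nd (nat_lit 468) (nat_lit 1064) (nat_lit 0) (XT.nd (nat_lit 234) (nat_lit 1140) (nat_lit 0) (XT.nd (nat_lit 78) (nat_lit 0) (nat_lit 76) (XT.lf (nat_lit 836) (nat_lit 68448551326) (nat_lit 76) (nat_lit 69304088956) (nat_lit 0) (nat_lit 69304088956) (nat_lit 306) (nat_lit 1) (nat_lit 296) (nat_lit 1) (nat_lit 295) (nat_lit 1) (nat_lit 179) (nat_lit 424) (nat_lit 417)) (XT.nd (nat_lit 78) (nat_lit 0) (nat_lit 0) (XT.lf (nat_lit 836) (nat_lit 27478528206) (nat_lit 0) (nat_lit 147425551704) (nat_lit 760) (nat_lit 27478528206) (nat_lit 307) (nat_lit 1) (nat_lit 296) (nat_lit 1) (nat_lit 306) (nat_lit 1) (nat_lit 180) (nat_lit 424) (nat_lit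 416)) (XT.lf (nat_lit 836) (nat_lit 39730182159) (nat_lit 76) (nat_lit 79043825980) (nat_lit 0) (nat_lit 79043825980) (nat_lit 307) (nat_lit 1) (nat_lit 297) (nat_lit 1) (nat_lit 296) (nat_lit 1) (nat_lit 181) (nat_lit 424) (nat_lit 415)))) (XT.nd (nat_lit 78) (nat_lit 1292) (nat_lit 0) (XT.lf (nat_lit 76) (nat_lit 12288541347) (nat_lit 0) (nat_lit 168862332645) (nat_lit 760) (nat_lit 12288541347) (nat_lit 298) (nat_lit 1) (nat_lit 297) (nat_lit 1) (nat_lit 307) (nat_lit 1) (nat_lit 182) (nat_lit 424) (nat_lit 414)) (XT.nd (nat_lit 78) (nat_lit 532) (nat_lit 0) (XT.lf (nat_lit 836) (nat_lit 7421973384) (nat_lit 0) (nat_lit 90858912368) (nat_lit 760) (nat_lit 90858912368) (nat_lit 298) (nat_lit 1) (nat_lit 287) (nat_lit 1) (nat_lit 297) (nat_lit 1) (nat_lit 183) (nat_lit 424) (nat_lit 413)) (XT.lf (nat_lit 532) (nat_lit 176132775399) (nat_lit 0) (nat_lit 4446062555) (nat_lit 456) (nat_lit 4446062555)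 (nat_lit 287) (nat_lit 1) (nat_lit 280) (nat_lit 1) (nat_lit 286) (nat_lit 1) (nat_lit 184) (nat_lit 424) (nat_lit 412))))) (XT.nd (nat_lit 234) (nat_lit 684) (nat_lit 0) (XT.nd (nat_lit 78) (nat_lit 380) (nat_lit 0) (XT.lf (nat_lit 76) (nat_lit 77004942856) (nat_lit 0) (nat_lit 26953050390) (nat_lit 532) (nat_lit 77004942856) (nat_lit 281) (nat_lit 1) (nat_lit 280) (nat_lit 1) (nat_lit 287) (nat_lit 1) (nat_lit 185) (nat_lit 424) (nat_lit 411)) (XT.nd (nat_lit 78) (nat_lit 0) (nat_lit 0) (XT.lf (nat_lit 456) (nat_lit 132505740343) (nat_lit 0) (nat_lit 22283978480) (nat_lit 380) (nat_lit 22283978480) (nat_lit 281) (nat_lit 1) (nat_lit 275) (nat_lit 1) (nat_lit 280) (nat_lit 1) (nat_lit 186) (nat_lit 424) (nat_lit 410)) (XT.lf (nat_lit 76) (nat_lit 54926688322) (nat_lit 0) (nat_lit 63412844410) (nat_lit 456) (nat_lit 54926688322) (nat_lit 276) (nat_lit 1) (nat_lit 275) (nat_lit 1) (nat_lit 281)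 (nat_lit 1) (nat_lit 187) (nat_lit 424) (nat_lit 409)))) (XT.nd (nat_lit 78) (nat_lit 304) (nat_lit 0) (XT.lf (nat_lit 456) (nat_lit 87256909120) (nat_lit 0) (nat_lit 41167219948) (nat_lit 380) (nat_lit 41167219948) (nat_lit 276) (nat_lit 1) (nat_lit 270) (nat_lit 1) (nat_lit 275) (nat_lit 1) (nat_lit 188) (nat_lit 424) (nat_lit 408)) (XT.nd (nat_lit 78) (nat_lit 304) (nat_lit 0) (XT.lf (nat_lit 76) (nat_lit 32153011362) (nat_lit 0) (nat_lit 101717331918) (nat_lit 456) (nat_lit 32153011362) (nat_lit 271) (nat_lit 1) (nat_lit 270) (nat_lit 1) (nat_lit 276) (nat_lit 1) (nat_lit 189) (nat_lit 424) (nat_lit 407)) (XT.lf (nat_lit 380) (nat_lit 40807433554) (nat_lit 0) (nat_lit 60869853648) (nat_lit 304) (nat_lit 60869853648) (nat_lit 271) (nat_lit 1) (nat_lit 266) (nat_lit 1) (nat_lit 270) (nat_lit 1) (nat_lit 190) (nat_lit 424) (nat_lit 406)))))) (XT.nd (nat_lit 468) (nat_lit 1368) (nat_lit 0) (XT.nd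 (nat_lit 234) (nat_lit 304) (nat_lit 0) (XT.nd (nat_lit 78) (nat_lit 684) (nat_lit 0) (XT.lf (nat_lit 76) (nat_lit 8879425249) (nat_lit 0) (nat_lit 141445754629) (nat_lit 380) (nat_lit 8879425249) (nat_lit 267) (nat_lit 1) (nat_lit 266) (nat_lit 1) (nat_lit 271) (nat_lit 1) (nat_lit 191) (nat_lit 424) (nat_lit 405)) (XT.nd (nat_lit 78) (nat_lit 304) (nat_lit 0) (XT.lf (nat_lit 76) (nat_lit 74820588659) (nat_lit 0) (nat_lit 6266369640) (nat_lit 380) (nat_lit 74820588659) (nat_lit 262) (nat_lit 1) (nat_lit 261) (nat_lit 1) (nat_lit 266) (nat_lit 1) (nat_lit 192) (nat_lit 424) (nat_lit 404)) (XT.lf (nat_lit 380) (nat_lit 123765052972) (nat_lit 0) (nat_lit 14485497936) (nat_lit 304) (nat_lit 14485497936) (nat_lit 262) (nat_lit 1) (nat_lit 257) (nat_lit 1) (nat_lit 261) (nat_lit 1) (nat_lit 193) (nat_lit 424) (nat_lit 403)))) (XT.nd (nat_lit 78) (nat_lit 304) (nat_lit 0) (XT.lf (nat_lit 76) (nat_lit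 48546094864) (nat_lit 0) (nat_lit 52526768757) (nat_lit 380) (nat_lit 48546094864) (nat_lit 258) (nat_lit 1) (nat_lit 257) (nat_lit 1) (nat_lit 262) (nat_lit 1) (nat_lit 194) (nat_lit 424) (nat_lit 402)) (XT.nd (nat_lit 78) (nat_lit 0) (nat_lit 0) (XT.lf (nat_lit 380) (nat_lit 70842256883) (nat_lit 0) (nat_lit 37883850489) (nat_lit 304) (nat_lit 37883850489) (nat_lit 258) (nat_lit 1) (nat_lit 253) (nat_lit 1) (nat_lit 257) (nat_lit 1) (nat_lit 195) (nat_lit 424) (nat_lit 401)) (XT.lf (nat_lit 76) (nat_lit 22340486182) (nat_lit 0) (nat_lit 99007968306) (nat_lit 380) (nat_lit 22340486182) (nat_lit 254) (nat_lit 1) (nat_lit 253) (nat_lit 1) (nat_lit 258) (nat_lit 1) (nat_lit 196) (nat_lit 424) (nat_lit 400))))) (XT.nd (nat_lit 234) (nat_lit 760) (nat_lit 0) (XT.nd (nat_lit 78) (nat_lit 380) (nat_lit 0) (XT.lf (nat_lit 304) (nat_lit 18168560587) (nat_lit 0) (nat_lit 61331207982) (nat_lit 228) (nat_lit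 61331207982) (nat_lit 254) (nat_lit 1) (nat_lit 250) (nat_lit 1) (nat_lit 253) (nat_lit 1) (nat_lit 197) (nat_lit 424) (nat_lit 399)) (XT.nd (nat_lit 78) (nat_lit 0) (nat_lit 0) (XT.lf (nat_lit 380) (nat_lit 130823123015) (nat_lit 0) (nat_lit 3630090641) (nat_lit 304) (nat_lit 3630090641) (nat_lit 250) (nat_lit 1) (nat_lit 245) (nat_lit 1) (nat_lit 249) (nat_lit 1) (nat_lit 198) (nat_lit 424) (nat_lit 398)) (XT.lf (nat_lit 76) (nat_lit 51192055194) (nat_lit 0) (nat_lit 32966729689) (nat_lit 380) (nat_lit 51192055194) (nat_lit 246) (nat_lit 1) (nat_lit 245) (nat_lit 1) (nat_lit 250) (nat_lit 1) (nat_lit 199) (nat_lit 424) (nat_lit 397)))) (XT.nd (nat_lit 156) (nat_lit 532) (nat_lit 0) (XT.nd (nat_lit 78) (nat_lit 0) (nat_lit 0) (XT.lf (nat_lit 304) (nat_lit 74767615013) (nat_lit 0) (nat_lit 28977779060) (nat_lit 228) (nat_lit 28977779060) (nat_lit 246) (nat_lit 1) (nat_lit 242) (nat_lit 1) (nat_lit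 245) (nat_lit 1) (nat_lit 200) (nat_lit 424) (nat_lit 396)) (XT.lf (nat_lit 76) (nat_lit 23620246119) (nat_lit 0) (nat_lit 82921774349) (nat_lit 304) (nat_lit 23620246119) (nat_lit 243) (nat_lit 1) (nat_lit 242) (nat_lit 1) (nat_lit 246) (nat_lit 1) (nat_lit 201) (nat_lit 424) (nat_lit 395))) (XT.nd (nat_lit 78) (nat_lit 304) (nat_lit 0) (XT.lf (nat_lit 304) (nat_lit 19686736861) (nat_lit 0) (nat_lit 53986441555) (nat_lit 228) (nat_lit 53986441555) (nat_lit 243) (nat_lit 1) (nat_lit 239) (nat_lit 1) (nat_lit 242) (nat_lit 1) (nat_lit 202) (nat_lit 424) (nat_lit 394)) (XT.lf (nat_lit 304) (nat_lit 118483211673) (nat_lit 0) (nat_lit 3383369091) (nat_lit 228) (nat_lit 3383369091) (nat_lit 239) (nat_lit 1) (nat_lit 235) (nat_lit 1) (nat_lit 238) (nat_lit 1) (nat_lit 203) (nat_lit 424) (nat_lit 393))))))))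
noncomputable def ec373 : XT := (XT.nd (nat_lit 1950) (nat_lit 2052) (nat_lit 0) (XT.nd (nat_lit 936) (nat_lit 1292) (nat_lit 0) (XT.nd (nat_lit 468) (nat_lit 684) (nat_lit 0) (XT.nd (nat_lit 234) (nat_lit 456) (nat_lit 0) (XT.nd (nat_lit 78) (nat_lit 228) (nat_lit 0) (XT.lf (nat_lit 76) (nat_lit 44818805830) (nat_lit 0) (nat_lit 33210285089) (nat_lit 304) (nat_lit 44818805830) (nat_lit 236) (nat_lit 1) (nat_lit 235) (nat_lit 1) (nat_lit 239) (nat_lit 1) (nat_lit 204) (nat_lit 424) (nat_lit 392)) (XT.nd (nat_lit 78) (nat_lit 0) (nat_lit 0) (XT.lf (nat_lit 304) (nat_lit 61629961890) (nat_lit 0) (nat_lit 29452379052) (nat_lit 228) (nat_lit 29452379052) (nat_lit 236) (nat_lit 1) (nat_lit 232) (nat_lit 1) (nat_lit 235) (nat_lit 1) (nat_lit 205) (nat_lit 424) (nat_lit 391)) (XT.lf (nat_lit 76) (nat_lit 16972841241) (nat_lit 0) (nat_lit 84337901209) (nat_lit 304) (nat_lit 16972841241) (nat_lit 233) (nat_lit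 1) (nat_lit 232) (nat_lit 1) (nat_lit 236) (nat_lit 1) (nat_lit 206) (nat_lit 424) (nat_lit 390)))) (XT.nd (nat_lit 78) (nat_lit 304) (nat_lit 0) (XT.lf (nat_lit 228) (nat_lit 6219413366) (nat_lit 0) (nat_lit 54927727668) (nat_lit 152) (nat_lit 54927727668) (nat_lit 233) (nat_lit 1) (nat_lit 230) (nat_lit 1) (nat_lit 232) (nat_lit 1) (nat_lit 207) (nat_lit 424) (nat_lit 389)) (XT.nd (nat_lit 78) (nat_lit 0) (nat_lit 0) (XT.lf (nat_lit 304) (nat_lit 93973250504) (nat_lit 0) (nat_lit 9980640353) (nat_lit 228) (nat_lit 9980640353) (nat_lit 230) (nat_lit 1) (nat_lit 226) (nat_lit 1) (nat_lit 229) (nat_lit 1) (nat_lit 208) (nat_lit 424) (nat_lit 388)) (XT.lf (nat_lit 76) (nat_lit 32822625745) (nat_lit 0) (nat_lit 46172879845) (nat_lit 304) (nat_lit 32822625745) (nat_lit 227) (nat_lit 1) (nat_lit 226) (nat_lit 1) (nat_lit 230) (nat_lit 1) (nat_lit 209) (nat_lit 424) (nat_lit 387))))) (XT.nd (nat_lit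 234) (nat_lit 304) (nat_lit 0) (XT.nd (nat_lit 78) (nat_lit 228) (nat_lit 0) (XT.lf (nat_lit 228) (nat_lit 37921480942) (nat_lit 0) (nat_lit 35922784211) (nat_lit 152) (nat_lit 35922784211) (nat_lit 227) (nat_lit 1) (nat_lit 224) (nat_lit 1) (nat_lit 226) (nat_lit 1) (nat_lit 210) (nat_lit 424) (nat_lit 386)) (XT.nd (nat_lit 78) (nat_lit 228) (nat_lit 0) (XT.lf (nat_lit 76) (nat_lit 5448113161) (nat_lit 0) (nat_lit 96887808613) (nat_lit 228) (nat_lit 5448113161) (nat_lit 225) (nat_lit 1) (nat_lit 224) (nat_lit 1) (nat_lit 227) (nat_lit 1) (nat_lit 211) (nat_lit 424) (nat_lit 385)) (XT.lf (nat_lit 76) (nat_lit 44964233765) (nat_lit 0) (nat_lit 15879761375) (nat_lit 228) (nat_lit 44964233765) (nat_lit 222) (nat_lit 1) (nat_lit 221) (nat_lit 1) (nat_lit 224) (nat_lit 1) (nat_lit 212) (nat_lit 424) (nat_lit 384)))) (XT.nd (nat_lit 78) (nat_lit 152) (nat_lit 0) (XT.lf (nat_lit 228) (nat_lit 62440719242)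 (nat_lit 0) (nat_lit 20728627018) (nat_lit 152) (nat_lit 20728627018) (nat_lit 222) (nat_lit 1) (nat_lit 219) (nat_lit 1) (nat_lit 221) (nat_lit 1) (nat_lit 213) (nat_lit 424) (nat_lit 383)) (XT.nd (nat_lit 78) (nat_lit 152) (nat_lit 0) (XT.lf (nat_lit 76) (nat_lit 17619146500) (nat_lit 0) (nat_lit 66791645476) (nat_lit 228) (nat_lit 17619146500) (nat_lit 220) (nat_lit 1) (nat_lit 219) (nat_lit 1) (nat_lit 222) (nat_lit 1) (nat_lit 214) (nat_lit 424) (nat_lit 382)) (XT.lf (nat_lit 228) (nat_lit 8253935787) (nat_lit 0) (nat_lit 45972811330) (nat_lit 152) (nat_lit 45972811330) (nat_lit 220) (nat_lit 1) (nat_lit 217) (nat_lit 1) (nat_lit 219) (nat_lit 1) (nat_lit 215) (nat_lit 424) (nat_lit 381)))))) (XT.nd (nat_lit 468) (nat_lit 608) (nat_lit 0) (XT.nd (nat_lit 234) (nat_lit 304) (nat_lit 0) (XT.nd (nat_lit 78) (nat_lit 152) (nat_lit 0) (XT.lf (nat_lit 228) (nat_lit 81125013318) (nat_lit 0) (nat_lit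 8648600887) (nat_lit 152) (nat_lit 8648600887) (nat_lit 217) (nat_lit 1) (nat_lit 214) (nat_lit 1) (nat_lit 216) (nat_lit 1) (nat_lit 216) (nat_lit 424) (nat_lit 380)) (XT.nd (nat_lit 78) (nat_lit 152) (nat_lit 0) (XT.lf (nat_lit 76) (nat_lit 27006715735) (nat_lit 0) (nat_lit 42646609699) (nat_lit 228) (nat_lit 27006715735) (nat_lit 215) (nat_lit 1) (nat_lit 214) (nat_lit 1) (nat_lit 217) (nat_lit 1) (nat_lit 217) (nat_lit 424) (nat_lit 379)) (XT.lf (nat_lit 228) (nat_lit 27505028784) (nat_lit 0) (nat_lit 33721998405) (nat_lit 152) (nat_lit 33721998405) (nat_lit 215) (nat_lit 1) (nat_lit 212) (nat_lit 1) (nat_lit 214) (nat_lit 1) (nat_lit 218) (nat_lit 424) (nat_lit 378)))) (XT.nd (nat_lit 78) (nat_lit 304) (nat_lit 0) (XT.lf (nat_lit 76) (nat_lit 904014439) (nat_lit 0) (nat_lit 91489986548) (nat_lit 228) (nat_lit 904014439) (nat_lit 213) (nat_lit 1) (nat_lit 212) (nat_lit 1) (nat_lit 215) (nat_lit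 1) (nat_lit 219) (nat_lit 424) (nat_lit 377)) (XT.nd (nat_lit 78) (nat_lit 152) (nat_lit 0) (XT.lf (nat_lit 76) (nat_lit 34134111209) (nat_lit 0) (nat_lit 23368288169) (nat_lit 152) (nat_lit 34134111209) (nat_lit 211) (nat_lit 1) (nat_lit 210) (nat_lit 1) (nat_lit 212) (nat_lit 1) (nat_lit 220) (nat_lit 424) (nat_lit 376)) (XT.lf (nat_lit 228) (nat_lit 42356546094) (nat_lit 0) (nat_lit 23838459877) (nat_lit 152) (nat_lit 23838459877) (nat_lit 211) (nat_lit 1) (nat_lit 208) (nat_lit 1) (nat_lit 210) (nat_lit 1) (nat_lit 221) (nat_lit 424) (nat_lit 375))))) (XT.nd (nat_lit 234) (nat_lit 304) (nat_lit 0) (XT.nd (nat_lit 78) (nat_lit 304) (nat_lit 0) (XT.lf (nat_lit 76) (nat_lit 8492194755) (nat_lit 0) (nat_lit 71489301845) (nat_lit 228) (nat_lit 8492194755) (nat_lit 209) (nat_lit 1) (nat_lit 208) (nat_lit 1) (nat_lit 211) (nat_lit 1) (nat_lit 222) (nat_lit 424) (nat_lit 374)) (XT.nd (nat_lit 78) (nat_lit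 152) (nat_lit 0) (XT.lf (nat_lit 76) (nat_lit 39430426660) (nat_lit 0) (nat_lit 8065926440) (nat_lit 152) (nat_lit 39430426660) (nat_lit 207) (nat_lit 1) (nat_lit 206) (nat_lit 1) (nat_lit 208) (nat_lit 1) (nat_lit 223) (nat_lit 424) (nat_lit 373)) (XT.lf (nat_lit 228) (nat_lit 53635493242) (nat_lit 0) (nat_lit 15893186921) (nat_lit 152) (nat_lit 15893186921) (nat_lit 207) (nat_lit 1) (nat_lit 204) (nat_lit 1) (nat_lit 206) (nat_lit 1) (nat_lit 224) (nat_lit 424) (nat_lit 372)))) (XT.nd (nat_lit 156) (nat_lit 228) (nat_lit 0) (XT.nd (nat_lit 78) (nat_lit 76) (nat_lit 0) (XT.lf (nat_lit 76) (nat_lit 14366035202) (nat_lit 0) (nat_lit 55214676494) (nat_lit 228) (nat_lit 14366035202) (nat_lit 205) (nat_lit 1) (nat_lit 204) (nat_lit 1) (nat_lit 207) (nat_lit 1) (nat_lit 225) (nat_lit 424) (nat_lit 371)) (XT.lf (nat_lit 152) (nat_lit 4123965549) (nat_lit 0) (nat_lit 39187748699) (nat_lit 76) (nat_lit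 39187748699) (nat_lit 205) (nat_lit 1) (nat_lit 203) (nat_lit 1) (nat_lit 204) (nat_lit 1) (nat_lit 226) (nat_lit 424) (nat_lit 370))) (XT.nd (nat_lit 78) (nat_lit 0) (nat_lit 0) (XT.lf (nat_lit 228) (nat_lit 62020012976) (nat_lit 0) (nat_lit 9533675627) (nat_lit 152) (nat_lit 9533675627) (nat_lit 203) (nat_lit 1) (nat_lit 200) (nat_lit 1) (nat_lit 202) (nat_lit 1) (nat_lit 227) (nat_lit 424) (nat_lit 369)) (XT.lf (nat_lit 76) (nat_lit 18847054201) (nat_lit 0) (nat_lit 41996918564) (nat_lit 228) (nat_lit 18847054201) (nat_lit 201) (nat_lit 1) (nat_lit 200) (nat_lit 1) (nat_lit 203) (nat_lit 1) (nat_lit 228) (nat_lit 424) (nat_lit 368))))))) (XT.nd (nat_lit 1014) (nat_lit 912) (nat_lit 0) (XT.nd (nat_lit 468) (nat_lit 532) (nat_lit 0) (XT.nd (nat_lit 234) (nat_lit 304) (nat_lit 0) (XT.nd (nat_lit 78) (nat_lit 228) (nat_lit 0) (XT.lf (nat_lit 152) (nat_lit 13849210582) (nat_lit 0) (nat_lit 32239857836)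 (nat_lit 76) (nat_lit 32239857836) (nat_lit 201) (nat_lit 1) (nat_lit 199) (nat_lit 1) (nat_lit 200) (nat_lit 1) (nat_lit 229) (nat_lit 424) (nat_lit 367)) (XT.nd (nat_lit 78) (nat_lit 0) (nat_lit 0) (XT.lf (nat_lit 228) (nat_lit 68065884780) (nat_lit 0) (nat_lit 4470341784) (nat_lit 152) (nat_lit 4470341784) (nat_lit 199) (nat_lit 1) (nat_lit 196) (nat_lit 1) (nat_lit 198) (nat_lit 1) (nat_lit 230) (nat_lit 424) (nat_lit 366)) (XT.lf (nat_lit 76) (nat_lit 22198929073) (nat_lit 0) (nat_lit 31285890329) (nat_lit 228) (nat_lit 22198929073) (nat_lit 197) (nat_lit 1) (nat_lit 196) (nat_lit 1) (nat_lit 199) (nat_lit 1) (nat_lit 231) (nat_lit 424) (nat_lit 365)))) (XT.nd (nat_lit 78) (nat_lit 228) (nat_lit 0) (XT.lf (nat_lit 152) (nat_lit 21352269267) (nat_lit 0) (nat_lit 26523810829) (nat_lit 76) (nat_lit 26523810829) (nat_lit 197) (nat_lit 1) (nat_lit 195) (nat_lit 1) (nat_lit 196) (nat_lit 1) (nat_lit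 232) (nat_lit 424) (nat_lit 364)) (XT.nd (nat_lit 78) (nat_lit 0) (nat_lit 0) (XT.lf (nat_lit 228) (nat_lit 72228321017) (nat_lit 0) (nat_lit 465345298) (nat_lit 152) (nat_lit 465345298) (nat_lit 195) (nat_lit 1) (nat_lit 192) (nat_lit 1) (nat_lit 194) (nat_lit 1) (nat_lit 233) (nat_lit 424) (nat_lit 363)) (XT.lf (nat_lit 76) (nat_lit 24637790972) (nat_lit 0) (nat_lit 22629380821) (nat_lit 228) (nat_lit 24637790972) (nat_lit 193) (nat_lit 1) (nat_lit 192) (nat_lit 1) (nat_lit 195) (nat_lit 1) (nat_lit 234) (nat_lit 424) (nat_lit 362))))) (XT.nd (nat_lit 234) (nat_lit 304) (nat_lit 0) (XT.nd (nat_lit 78) (nat_lit 152) (nat_lit 0) (XT.lf (nat_lit 152) (nat_lit 27050840432) (nat_lit 0) (nat_lit 21821204810) (nat_lit 76) (nat_lit 21821204810) (nat_lit 193) (nat_lit 1) (nat_lit 191) (nat_lit 1) (nat_lit 192) (nat_lit 1) (nat_lit 235) (nat_lit 424) (nat_lit 361)) (XT.nd (nat_lit 78) (nat_lit 152) (nat_lit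 0) (XT.lf (nat_lit 0) (nat_lit 2720481772) (nat_lit 0) (nat_lit 64077157428) (nat_lit 152) (nat_lit 2720481772) (nat_lit 191) (nat_lit 3) (nat_lit 191) (nat_lit 1) (nat_lit 193) (nat_lit 1) (nat_lit 236) (nat_lit 424) (nat_lit 360)) (XT.lf (nat_lit 76) (nat_lit 26340692639) (nat_lit 0) (nat_lit 15655725149) (nat_lit 152) (nat_lit 26340692639) (nat_lit 190) (nat_lit 1) (nat_lit 189) (nat_lit 1) (nat_lit 191) (nat_lit 1) (nat_lit 237) (nat_lit 424) (nat_lit 359)))) (XT.nd (nat_lit 156) (nat_lit 228) (nat_lit 0) (XT.nd (nat_lit 78) (nat_lit 0) (nat_lit 0) (XT.lf (nat_lit 152) (nat_lit 31287436858) (nat_lit 0) (nat_lit 17952359200) (nat_lit 76) (nat_lit 17952359200) (nat_lit 190) (nat_lit 1) (nat_lit 188) (nat_lit 1) (nat_lit 189) (nat_lit 1) (nat_lit 238) (nat_lit 424) (nat_lit 358)) (XT.lf (nat_lit 0) (nat_lit 5199669542) (nat_lit 0) (nat_lit 55677958449) (nat_lit 152) (nat_lit 5199669542) (nat_lit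 188) (nat_lit 3) (nat_lit 188) (nat_lit 1) (nat_lit 190) (nat_lit 1) (nat_lit 239) (nat_lit 424) (nat_lit 357))) (XT.nd (nat_lit 78) (nat_lit 76) (nat_lit 0) (XT.lf (nat_lit 76) (nat_lit 27452573054) (nat_lit 0) (nat_lit 10059506248) (nat_lit 152) (nat_lit 27452573054) (nat_lit 187) (nat_lit 1) (nat_lit 186) (nat_lit 1) (nat_lit 188) (nat_lit 1) (nat_lit 240) (nat_lit 424) (nat_lit 356)) (XT.lf (nat_lit 152) (nat_lit 34342769342) (nat_lit 0) (nat_lit 14769450342) (nat_lit 76) (nat_lit 14769450342) (nat_lit 187) (nat_lit 1) (nat_lit 185) (nat_lit 1) (nat_lit 186) (nat_lit 1) (nat_lit 241) (nat_lit 424) (nat_lit 355)))))) (XT.nd (nat_lit 468) (nat_lit 456) (nat_lit 0) (XT.nd (nat_lit 234) (nat_lit 228) (nat_lit 0) (XT.nd (nat_lit 78) (nat_lit 228) (nat_lit 0) (XT.lf (nat_lit 0) (nat_lit 7098278577) (nat_lit 0) (nat_lit 48626891784) (nat_lit 152) (nat_lit 7098278577) (nat_lit 185) (nat_lit 3) (nat_lit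 185) (nat_lit 1) (nat_lit 187) (nat_lit 1) (nat_lit 242) (nat_lit 424) (nat_lit 354)) (XT.nd (nat_lit 78) (nat_lit 76) (nat_lit 0) (XT.lf (nat_lit 76) (nat_lit 28091985536) (nat_lit 0) (nat_lit 5589792517) (nat_lit 152) (nat_lit 28091985536) (nat_lit 184) (nat_lit 1) (nat_lit 183) (nat_lit 1) (nat_lit 185) (nat_lit 1) (nat_lit 243) (nat_lit 424) (nat_lit 353)) (XT.lf (nat_lit 152) (nat_lit 36446755242) (nat_lit 0) (nat_lit 12150863347) (nat_lit 76) (nat_lit 12150863347) (nat_lit 184) (nat_lit 1) (nat_lit 182) (nat_lit 1) (nat_lit 183) (nat_lit 1) (nat_lit 244) (nat_lit 424) (nat_lit 352)))) (XT.nd (nat_lit 78) (nat_lit 228) (nat_lit 0) (XT.lf (nat_lit 0) (nat_lit 8525959520) (nat_lit 0) (nat_lit 42691652380) (nat_lit 152) (nat_lit 8525959520) (nat_lit 182) (nat_lit 3) (nat_lit 182) (nat_lit 1) (nat_lit 184) (nat_lit 1) (nat_lit 245) (nat_lit 424) (nat_lit 351)) (XT.nd (nat_lit 78) (nat_lit 76)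 (nat_lit 0) (XT.lf (nat_lit 76) (nat_lit 28355808637) (nat_lit 0) (nat_lit 2040461691) (nat_lit 152) (nat_lit 28355808637) (nat_lit 181) (nat_lit 1) (nat_lit 180) (nat_lit 1) (nat_lit 182) (nat_lit 1) (nat_lit 246) (nat_lit 424) (nat_lit 350)) (XT.lf (nat_lit 152) (nat_lit 37787572796) (nat_lit 0) (nat_lit 9996545347) (nat_lit 76) (nat_lit 9996545347) (nat_lit 181) (nat_lit 1) (nat_lit 179) (nat_lit 1) (nat_lit 180) (nat_lit 1) (nat_lit 247) (nat_lit 424) (nat_lit 349))))) (XT.nd (nat_lit 234) (nat_lit 228) (nat_lit 0) (XT.nd (nat_lit 78) (nat_lit 228) (nat_lit 0) (XT.lf (nat_lit 0) (nat_lit 9572602443) (nat_lit 0) (nat_lit 37680802512) (nat_lit 152) (nat_lit 9572602443) (nat_lit 179) (nat_lit 3) (nat_lit 179) (nat_lit 1) (nat_lit 181) (nat_lit 1) (nat_lit 248) (nat_lit 424) (nat_lit 348)) (XT.nd (nat_lit 78) (nat_lit 152) (nat_lit 0) (XT.lf (nat_lit 76) (nat_lit 782813903) (nat_lit 0) (nat_lit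 27552528255) (nat_lit 76) (nat_lit 27552528255) (nat_lit 179) (nat_lit 3) (nat_lit 178) (nat_lit 1) (nat_lit 179) (nat_lit 1) (nat_lit 249) (nat_lit 424) (nat_lit 347)) (XT.lf (nat_lit 152) (nat_lit 38519107808) (nat_lit 0) (nat_lit 8224182596) (nat_lit 76) (nat_lit 8224182596) (nat_lit 178) (nat_lit 1) (nat_lit 176) (nat_lit 1) (nat_lit 177) (nat_lit 1) (nat_lit 250) (nat_lit 424) (nat_lit 346)))) (XT.nd (nat_lit 156) (nat_lit 152) (nat_lit 0) (XT.nd (nat_lit 78) (nat_lit 76) (nat_lit 0) (XT.lf (nat_lit 0) (nat_lit 10311855573) (nat_lit 0) (nat_lit 33436541332) (nat_lit 152) (nat_lit 10311855573) (nat_lit 176) (nat_lit 3) (nat_lit 176) (nat_lit 1) (nat_lit 178) (nat_lit 1) (nat_lit 251) (nat_lit 424) (nat_lit 345)) (XT.lf (nat_lit 76) (nat_lit 3041177178) (nat_lit 0) (nat_lit 25064687425) (nat_lit 76) (nat_lit 25064687425) (nat_lit 176) (nat_lit 3) (nat_lit 175) (nat_lit 1) (nat_lit 176) (nat_lit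 1) (nat_lit 252) (nat_lit 424) (nat_lit 344))) (XT.nd (nat_lit 78) (nat_lit 0) (nat_lit 0) (XT.lf (nat_lit 152) (nat_lit 38767077846) (nat_lit 0) (nat_lit 6766055375) (nat_lit 76) (nat_lit 6766055375) (nat_lit 175) (nat_lit 1) (nat_lit 173) (nat_lit 1) (nat_lit 174) (nat_lit 1) (nat_lit 253) (nat_lit 424) (nat_lit 343)) (XT.lf (nat_lit 0) (nat_lit 10804019436) (nat_lit 0) (nat_lit 29828755639) (nat_lit 152) (nat_lit 10804019436) (nat_lit 173) (nat_lit 3) (nat_lit 173) (nat_lit 1) (nat_lit 175) (nat_lit 1) (nat_lit 254) (nat_lit 424) (nat_lit 342))))))))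
noncomputable def ec374 : XT := (XT.nd (nat_lit 1950) (nat_lit 1976) (nat_lit 0) (XT.nd (nat_lit 936) (nat_lit 988) (nat_lit 0) (XT.nd (nat_lit 468) (nat_lit 456) (nat_lit 0) (XT.nd (nat_lit 234) (nat_lit 228) (nat_lit 0) (XT.nd (nat_lit 78) (nat_lit 152) (nat_lit 0) (XT.lf (nat_lit 76) (nat_lit 4784988031) (nat_lit 0) (nat_lit 22903784415) (nat_lit 76) (nat_lit 22903784415) (nat_lit 173) (nat_lit 3) (nat_lit 172) (nat_lit 1) (nat_lit 173) (nat_lit 1) (nat_lit 255) (nat_lit 424) (nat_lit 341)) (XT.nd (nat_lit 78) (nat_lit 0) (nat_lit 0) (XT.lf (nat_lit 152) (nat_lit 38634068529) (nat_lit 0) (nat_lit 5566450501) (nat_lit 76) (nat_lit 5566450501) (nat_lit 172) (nat_lit 1) (nat_lit 170) (nat_lit 1) (nat_lit 171) (nat_lit 1) (nat_lit 256) (nat_lit 424) (nat_lit 340)) (XT.lf (nat_lit 0) (nat_lit 11098427182) (nat_lit 0) (nat_lit 26750124738) (nat_lit 152) (nat_lit 11098427182) (nat_lit 170) (nat_lit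 3) (nat_lit 170) (nat_lit 1) (nat_lit 172) (nat_lit 1) (nat_lit 257) (nat_lit 424) (nat_lit 339)))) (XT.nd (nat_lit 78) (nat_lit 152) (nat_lit 0) (XT.lf (nat_lit 76) (nat_lit 6110911058) (nat_lit 0) (nat_lit 21017289683) (nat_lit 76) (nat_lit 21017289683) (nat_lit 170) (nat_lit 3) (nat_lit 169) (nat_lit 1) (nat_lit 170) (nat_lit 1) (nat_lit 258) (nat_lit 424) (nat_lit 338)) (XT.nd (nat_lit 78) (nat_lit 0) (nat_lit 0) (XT.lf (nat_lit 152) (nat_lit 38203674879) (nat_lit 0) (nat_lit 4579532603) (nat_lit 76) (nat_lit 4579532603) (nat_lit 169) (nat_lit 1) (nat_lit 167) (nat_lit 1) (nat_lit 168) (nat_lit 1) (nat_lit 259) (nat_lit 424) (nat_lit 337)) (XT.lf (nat_lit 0) (nat_lit 11235402226) (nat_lit 0) (nat_lit 24112092541) (nat_lit 152) (nat_lit 11235402226) (nat_lit 167) (nat_lit 3) (nat_lit 167) (nat_lit 1) (nat_lit 169) (nat_lit 1) (nat_lit 260) (nat_lit 424) (nat_lit 336))))) (XT.nd (nat_lit 234)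 (nat_lit 228) (nat_lit 0) (XT.nd (nat_lit 78) (nat_lit 152) (nat_lit 0) (XT.lf (nat_lit 76) (nat_lit 7098213615) (nat_lit 0) (nat_lit 19361728200) (nat_lit 76) (nat_lit 19361728200) (nat_lit 167) (nat_lit 3) (nat_lit 166) (nat_lit 1) (nat_lit 167) (nat_lit 1) (nat_lit 261) (nat_lit 424) (nat_lit 335)) (XT.nd (nat_lit 78) (nat_lit 0) (nat_lit 0) (XT.lf (nat_lit 152) (nat_lit 37543906526) (nat_lit 0) (nat_lit 3767592806) (nat_lit 76) (nat_lit 3767592806) (nat_lit 166) (nat_lit 1) (nat_lit 164) (nat_lit 1) (nat_lit 165) (nat_lit 1) (nat_lit 262) (nat_lit 424) (nat_lit 334)) (XT.lf (nat_lit 0) (nat_lit 11247868186) (nat_lit 0) (nat_lit 21841553175) (nat_lit 152) (nat_lit 11247868186) (nat_lit 164) (nat_lit 3) (nat_lit 164) (nat_lit 1) (nat_lit 166) (nat_lit 1) (nat_lit 263) (nat_lit 424) (nat_lit 333)))) (XT.nd (nat_lit 78) (nat_lit 152) (nat_lit 0) (XT.lf (nat_lit 76) (nat_lit 7811862635) (nat_lit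 0) (nat_lit 17901086434) (nat_lit 76) (nat_lit 17901086434) (nat_lit 164) (nat_lit 3) (nat_lit 163) (nat_lit 1) (nat_lit 164) (nat_lit 1) (nat_lit 264) (nat_lit 424) (nat_lit 332)) (XT.nd (nat_lit 78) (nat_lit 0) (nat_lit 0) (XT.lf (nat_lit 152) (nat_lit 36709987343) (nat_lit 0) (nat_lit 3099607925) (nat_lit 76) (nat_lit 3099607925) (nat_lit 163) (nat_lit 1) (nat_lit 161) (nat_lit 1) (nat_lit 162) (nat_lit 1) (nat_lit 265) (nat_lit 424) (nat_lit 331)) (XT.lf (nat_lit 0) (nat_lit 11162672773) (nat_lit 0) (nat_lit 19878123631) (nat_lit 152) (nat_lit 11162672773) (nat_lit 161) (nat_lit 3) (nat_lit 161) (nat_lit 1) (nat_lit 163) (nat_lit 1) (nat_lit 266) (nat_lit 424) (nat_lit 330)))))) (XT.nd (nat_lit 468) (nat_lit 532) (nat_lit 0) (XT.nd (nat_lit 234) (nat_lit 228) (nat_lit 0) (XT.nd (nat_lit 78) (nat_lit 152) (nat_lit 0) (XT.lf (nat_lit 76) (nat_lit 8305071797) (nat_lit 0) (nat_lit 16605501185)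 (nat_lit 76) (nat_lit 16605501185) (nat_lit 161) (nat_lit 3) (nat_lit 160) (nat_lit 1) (nat_lit 161) (nat_lit 1) (nat_lit 267) (nat_lit 424) (nat_lit 329)) (XT.nd (nat_lit 78) (nat_lit 0) (nat_lit 0) (XT.lf (nat_lit 152) (nat_lit 35746656989) (nat_lit 0) (nat_lit 2550055111) (nat_lit 76) (nat_lit 2550055111) (nat_lit 160) (nat_lit 1) (nat_lit 158) (nat_lit 1) (nat_lit 159) (nat_lit 1) (nat_lit 268) (nat_lit 424) (nat_lit 328)) (XT.lf (nat_lit 0) (nat_lit 11001676402) (nat_lit 0) (nat_lit 18171899391) (nat_lit 152) (nat_lit 11001676402) (nat_lit 158) (nat_lit 3) (nat_lit 158) (nat_lit 1) (nat_lit 160) (nat_lit 1) (nat_lit 269) (nat_lit 424) (nat_lit 327)))) (XT.nd (nat_lit 78) (nat_lit 152) (nat_lit 0) (XT.lf (nat_lit 76) (nat_lit 8621396525) (nat_lit 0) (nat_lit 15450180324) (nat_lit 76) (nat_lit 15450180324) (nat_lit 158) (nat_lit 3) (nat_lit 157) (nat_lit 1) (nat_lit 158) (nat_lit 1) (nat_lit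 270) (nat_lit 424) (nat_lit 326)) (XT.nd (nat_lit 78) (nat_lit 0) (nat_lit 0) (XT.lf (nat_lit 152) (nat_lit 34690062744) (nat_lit 0) (nat_lit 2097936651) (nat_lit 76) (nat_lit 2097936651) (nat_lit 157) (nat_lit 1) (nat_lit 155) (nat_lit 1) (nat_lit 156) (nat_lit 1) (nat_lit 271) (nat_lit 424) (nat_lit 325)) (XT.lf (nat_lit 0) (nat_lit 10782647247) (nat_lit 0) (nat_lit 16681607445) (nat_lit 152) (nat_lit 10782647247) (nat_lit 155) (nat_lit 3) (nat_lit 155) (nat_lit 1) (nat_lit 157) (nat_lit 1) (nat_lit 272) (nat_lit 424) (nat_lit 324))))) (XT.nd (nat_lit 234) (nat_lit 304) (nat_lit 0) (XT.nd (nat_lit 78) (nat_lit 152) (nat_lit 0) (XT.lf (nat_lit 76) (nat_lit 8796457023) (nat_lit 0) (nat_lit 14414514354) (nat_lit 76) (nat_lit 14414514354) (nat_lit 155) (nat_lit 3) (nat_lit 154) (nat_lit 1) (nat_lit 155) (nat_lit 1) (nat_lit 273) (nat_lit 424) (nat_lit 323)) (XT.nd (nat_lit 78) (nat_lit 0) (nat_lit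 0) (XT.lf (nat_lit 152) (nat_lit 33569314350) (nat_lit 0) (nat_lit 1725977674) (nat_lit 76) (nat_lit 1725977674) (nat_lit 154) (nat_lit 1) (nat_lit 152) (nat_lit 1) (nat_lit 153) (nat_lit 1) (nat_lit 274) (nat_lit 424) (nat_lit 322)) (XT.lf (nat_lit 0) (nat_lit 10519997092) (nat_lit 0) (nat_lit 15373086246) (nat_lit 152) (nat_lit 10519997092) (nat_lit 152) (nat_lit 3) (nat_lit 152) (nat_lit 1) (nat_lit 154) (nat_lit 1) (nat_lit 275) (nat_lit 424) (nat_lit 321)))) (XT.nd (nat_lit 156) (nat_lit 76) (nat_lit 0) (XT.nd (nat_lit 78) (nat_lit 152) (nat_lit 0) (XT.lf (nat_lit 76) (nat_lit 8859355310) (nat_lit 0) (nat_lit 13481344980) (nat_lit 76) (nat_lit 13481344980) (nat_lit 152) (nat_lit 3) (nat_lit 151) (nat_lit 1) (nat_lit 152) (nat_lit 1) (nat_lit 276) (nat_lit 424) (nat_lit 320)) (XT.lf (nat_lit 152) (nat_lit 32407761688) (nat_lit 0) (nat_lit 1419966104) (nat_lit 76) (nat_lit 1419966104) (nat_lit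 151) (nat_lit 1) (nat_lit 149) (nat_lit 1) (nat_lit 150) (nat_lit 1) (nat_lit 277) (nat_lit 424) (nat_lit 319))) (XT.nd (nat_lit 78) (nat_lit 76) (nat_lit 0) (XT.lf (nat_lit 0) (nat_lit 10225386231) (nat_lit 0) (nat_lit 14218034688) (nat_lit 152) (nat_lit 10225386231) (nat_lit 149) (nat_lit 3) (nat_lit 149) (nat_lit 1) (nat_lit 151) (nat_lit 1) (nat_lit 278) (nat_lit 424) (nat_lit 318)) (XT.lf (nat_lit 76) (nat_lit 8833840537) (nat_lit 0) (nat_lit 12636362877) (nat_lit 76) (nat_lit 12636362877) (nat_lit 149) (nat_lit 3) (nat_lit 148) (nat_lit 1) (nat_lit 149) (nat_lit 1) (nat_lit 279) (nat_lit 424) (nat_lit 317))))))) (XT.nd (nat_lit 936) (nat_lit 1064) (nat_lit 0) (XT.nd (nat_lit 468) (nat_lit 456) (nat_lit 0) (XT.nd (nat_lit 234) (nat_lit 228) (nat_lit 0) (XT.nd (nat_lit 78) (nat_lit 76) (nat_lit 0) (XT.lf (nat_lit 152) (nat_lit 31224044500) (nat_lit 0) (nat_lit 1168209628) (nat_lit 76) (nat_lit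 1168209628) (nat_lit 148) (nat_lit 1) (nat_lit 146) (nat_lit 1) (nat_lit 147) (nat_lit 1) (nat_lit 280) (nat_lit 424) (nat_lit 316)) (XT.nd (nat_lit 78) (nat_lit 76) (nat_lit 0) (XT.lf (nat_lit 0) (nat_lit 9908220642) (nat_lit 0) (nat_lit 13192982409) (nat_lit 152) (nat_lit 9908220642) (nat_lit 146) (nat_lit 3) (nat_lit 146) (nat_lit 1) (nat_lit 148) (nat_lit 1) (nat_lit 281) (nat_lit 424) (nat_lit 315)) (XT.lf (nat_lit 76) (nat_lit 8739267232) (nat_lit 0) (nat_lit 11867611772) (nat_lit 76) (nat_lit 11867611772) (nat_lit 146) (nat_lit 3) (nat_lit 145) (nat_lit 1) (nat_lit 146) (nat_lit 1) (nat_lit 282) (nat_lit 424) (nat_lit 314)))) (XT.nd (nat_lit 78) (nat_lit 76) (nat_lit 0) (XT.lf (nat_lit 152) (nat_lit 30032954643) (nat_lit 0) (nat_lit 961088952) (nat_lit 76) (nat_lit 961088952) (nat_lit 145) (nat_lit 1) (nat_lit 143) (nat_lit 1) (nat_lit 144) (nat_lit 1) (nat_lit 283) (nat_lit 424) (nat_lit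 313)) (XT.nd (nat_lit 78) (nat_lit 76) (nat_lit 0) (XT.lf (nat_lit 0) (nat_lit 9576060581) (nat_lit 0) (nat_lit 12278442215) (nat_lit 152) (nat_lit 9576060581) (nat_lit 143) (nat_lit 3) (nat_lit 143) (nat_lit 1) (nat_lit 145) (nat_lit 1) (nat_lit 284) (nat_lit 424) (nat_lit 312)) (XT.lf (nat_lit 76) (nat_lit 8591383218) (nat_lit 0) (nat_lit 11165080013) (nat_lit 76) (nat_lit 11165080013) (nat_lit 143) (nat_lit 3) (nat_lit 142) (nat_lit 1) (nat_lit 143) (nat_lit 1) (nat_lit 285) (nat_lit 424) (nat_lit 311))))) (XT.nd (nat_lit 234) (nat_lit 228) (nat_lit 0) (XT.nd (nat_lit 78) (nat_lit 76) (nat_lit 0) (XT.lf (nat_lit 152) (nat_lit 28846144166) (nat_lit 0) (nat_lit 790690259) (nat_lit 76) (nat_lit 790690259) (nat_lit 142) (nat_lit 1) (nat_lit 140) (nat_lit 1) (nat_lit 141) (nat_lit 1) (nat_lit 286) (nat_lit 424) (nat_lit 310)) (XT.nd (nat_lit 78) (nat_lit 76) (nat_lit 0) (XT.lf (nat_lit 0) (nat_lit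 9234956298) (nat_lit 0) (nat_lit 11458212356) (nat_lit 152) (nat_lit 9234956298) (nat_lit 140) (nat_lit 3) (nat_lit 140) (nat_lit 1) (nat_lit 142) (nat_lit 1) (nat_lit 287) (nat_lit 424) (nat_lit 309)) (XT.lf (nat_lit 76) (nat_lit 8402977415) (nat_lit 0) (nat_lit 10520364137) (nat_lit 76) (nat_lit 10520364137) (nat_lit 140) (nat_lit 3) (nat_lit 139) (nat_lit 1) (nat_lit 140) (nat_lit 1) (nat_lit 288) (nat_lit 424) (nat_lit 308)))) (XT.nd (nat_lit 78) (nat_lit 76) (nat_lit 0) (XT.lf (nat_lit 152) (nat_lit 27672706629) (nat_lit 0) (nat_lit 650502833) (nat_lit 76) (nat_lit 650502833) (nat_lit 139) (nat_lit 1) (nat_lit 137) (nat_lit 1) (nat_lit 138) (nat_lit 1) (nat_lit 289) (nat_lit 424) (nat_lit 307)) (XT.nd (nat_lit 78) (nat_lit 76) (nat_lit 0) (XT.lf (nat_lit 0) (nat_lit 8889723838) (nat_lit 0) (nat_lit 10718802100) (nat_lit 152) (nat_lit 8889723838) (nat_lit 137) (nat_lit 3) (nat_lit 137) (nat_lit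 1) (nat_lit 139) (nat_lit 1) (nat_lit 290) (nat_lit 424) (nat_lit 306)) (XT.lf (nat_lit 76) (nat_lit 8184412391) (nat_lit 0) (nat_lit 9926391687) (nat_lit 76) (nat_lit 9926391687) (nat_lit 137) (nat_lit 3) (nat_lit 136) (nat_lit 1) (nat_lit 137) (nat_lit 1) (nat_lit 291) (nat_lit 424) (nat_lit 305)))))) (XT.nd (nat_lit 468) (nat_lit 608) (nat_lit 0) (XT.nd (nat_lit 234) (nat_lit 228) (nat_lit 0) (XT.nd (nat_lit 78) (nat_lit 76) (nat_lit 0) (XT.lf (nat_lit 152) (nat_lit 26519654165) (nat_lit 0) (nat_lit 535170290) (nat_lit 76) (nat_lit 535170290) (nat_lit 136) (nat_lit 1) (nat_lit 134) (nat_lit 1) (nat_lit 135) (nat_lit 1) (nat_lit 292) (nat_lit 424) (nat_lit 304)) (XT.nd (nat_lit 78) (nat_lit 76) (nat_lit 0) (XT.lf (nat_lit 0) (nat_lit 8544171552) (nat_lit 0) (nat_lit 10048958764) (nat_lit 152) (nat_lit 8544171552) (nat_lit 134) (nat_lit 3) (nat_lit 134) (nat_lit 1) (nat_lit 136) (nat_lit 1) (nat_lit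 293) (nat_lit 424) (nat_lit 303)) (XT.lf (nat_lit 76) (nat_lit 7944062115) (nat_lit 0) (nat_lit 9377192793) (nat_lit 76) (nat_lit 9377192793) (nat_lit 134) (nat_lit 3) (nat_lit 133) (nat_lit 1) (nat_lit 134) (nat_lit 1) (nat_lit 294) (nat_lit 424) (nat_lit 302)))) (XT.nd (nat_lit 78) (nat_lit 76) (nat_lit 0) (XT.lf (nat_lit 152) (nat_lit 25392308863) (nat_lit 0) (nat_lit 440285922) (nat_lit 76) (nat_lit 440285922) (nat_lit 133) (nat_lit 1) (nat_lit 131) (nat_lit 1) (nat_lit 132) (nat_lit 1) (nat_lit 295) (nat_lit 424) (nat_lit 301)) (XT.nd (nat_lit 78) (nat_lit 76) (nat_lit 0) (XT.lf (nat_lit 0) (nat_lit 8201286081) (nat_lit 0) (nat_lit 9439278245) (nat_lit 152) (nat_lit 8201286081) (nat_lit 131) (nat_lit 3) (nat_lit 131) (nat_lit 1) (nat_lit 133) (nat_lit 1) (nat_lit 296) (nat_lit 424) (nat_lit 300)) (XT.lf (nat_lit 76) (nat_lit 7688671739) (nat_lit 0) (nat_lit 8867711895) (nat_lit 76) (nat_lit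 8867711895) (nat_lit 131) (nat_lit 3) (nat_lit 130) (nat_lit 1) (nat_lit 131) (nat_lit 1) (nat_lit 297) (nat_lit 424) (nat_lit 299))))) (XT.nd (nat_lit 234) (nat_lit 380) (nat_lit 0) (XT.nd (nat_lit 78) (nat_lit 76) (nat_lit 0) (XT.lf (nat_lit 152) (nat_lit 24294623676) (nat_lit 0) (nat_lit 362224318) (nat_lit 76) (nat_lit 362224318) (nat_lit 130) (nat_lit 1) (nat_lit 128) (nat_lit 1) (nat_lit 129) (nat_lit 1) (nat_lit 298) (nat_lit 424) (nat_lit 298)) (XT.nd (nat_lit 78) (nat_lit 76) (nat_lit 0) (XT.lf (nat_lit 0) (nat_lit 7863385022) (nat_lit 0) (nat_lit 8881884239) (nat_lit 152) (nat_lit 7863385022) (nat_lit 128) (nat_lit 3) (nat_lit 128) (nat_lit 1) (nat_lit 130) (nat_lit 1) (nat_lit 299) (nat_lit 424) (nat_lit 297)) (XT.lf (nat_lit 76) (nat_lit 7423653246) (nat_lit 0) (nat_lit 8393652500) (nat_lit 76) (nat_lit 8393652500) (nat_lit 128) (nat_lit 3) (nat_lit 127) (nat_lit 1) (nat_lit 128) (nat_lit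 1) (nat_lit 300) (nat_lit 424) (nat_lit 296)))) (XT.nd (nat_lit 156) (nat_lit 228) (nat_lit 0) (XT.nd (nat_lit 78) (nat_lit 0) (nat_lit 0) (XT.lf (nat_lit 152) (nat_lit 23229445435) (nat_lit 0) (nat_lit 298002843) (nat_lit 76) (nat_lit 298002843) (nat_lit 127) (nat_lit 1) (nat_lit 125) (nat_lit 1) (nat_lit 126) (nat_lit 1) (nat_lit 301) (nat_lit 424) (nat_lit 295)) (XT.lf (nat_lit 0) (nat_lit 7532242191) (nat_lit 0) (nat_lit 8370164017) (nat_lit 152) (nat_lit 7532242191) (nat_lit 125) (nat_lit 3) (nat_lit 125) (nat_lit 1) (nat_lit 127) (nat_lit 1) (nat_lit 302) (nat_lit 424) (nat_lit 294))) (XT.nd (nat_lit 78) (nat_lit 152) (nat_lit 0) (XT.lf (nat_lit 76) (nat_lit 7153328353) (nat_lit 0) (nat_lit 7951349140) (nat_lit 76) (nat_lit 7951349140) (nat_lit 125) (nat_lit 3) (nat_lit 124) (nat_lit 1) (nat_lit 125) (nat_lit 1) (nat_lit 303) (nat_lit 424) (nat_lit 293)) (XT.lf (nat_lit 152) (nat_lit 22198730260)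 (nat_lit 0) (nat_lit 245167676) (nat_lit 76) (nat_lit 245167676) (nat_lit 124) (nat_lit 1) (nat_lit 122) (nat_lit 1) (nat_lit 123) (nat_lit 1) (nat_lit 304) (nat_lit 424) (nat_lit 292))))))))
noncomputable def ec375 : XT := (XT.nd (nat_lit 1950) (nat_lit 2052) (nat_lit 0) (XT.nd (nat_lit 936) (nat_lit 912) (nat_lit 0) (XT.nd (nat_lit 468) (nat_lit 456) (nat_lit 0) (XT.nd (nat_lit 234) (nat_lit 228) (nat_lit 0) (XT.nd (nat_lit 78) (nat_lit 228) (nat_lit 0) (XT.lf (nat_lit 0) (nat_lit 7209190361) (nat_lit 0) (nat_lit 7898550721) (nat_lit 152) (nat_lit 7209190361) (nat_lit 122) (nat_lit 3) (nat_lit 122) (nat_lit 1) (nat_lit 124) (nat_lit 1) (nat_lit 305) (nat_lit 424) (nat_lit 291)) (XT.nd (nat_lit 78) (nat_lit 152) (nat_lit 0) (XT.lf (nat_lit 76) (nat_lit 6881128040) (nat_lit 0) (nat_lit 7537661716) (nat_lit 76) (nat_lit 7537661716) (nat_lit 122) (nat_lit 3) (nat_lit 121) (nat_lit 1) (nat_lit 122)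 (nat_lit 1) (nat_lit 306) (nat_lit 424) (nat_lit 290)) (XT.lf (nat_lit 152) (nat_lit 21203719857) (nat_lit 0) (nat_lit 201700054) (nat_lit 76) (nat_lit 201700054) (nat_lit 121) (nat_lit 1) (nat_lit 119) (nat_lit 1) (nat_lit 120) (nat_lit 1) (nat_lit 307) (nat_lit 424) (nat_lit 289)))) (XT.nd (nat_lit 78) (nat_lit 228) (nat_lit 0) (XT.lf (nat_lit 0) (nat_lit 6895205484) (nat_lit 0) (nat_lit 7462343958) (nat_lit 152) (nat_lit 6895205484) (nat_lit 119) (nat_lit 3) (nat_lit 119) (nat_lit 1) (nat_lit 121) (nat_lit 1) (nat_lit 308) (nat_lit 424) (nat_lit 288)) (XT.nd (nat_lit 78) (nat_lit 152) (nat_lit 0) (XT.lf (nat_lit 76) (nat_lit 6609756402) (nat_lit 0) (nat_lit 7149888282) (nat_lit 76) (nat_lit 7149888282) (nat_lit 119) (nat_lit 3) (nat_lit 118) (nat_lit 1) (nat_lit 119) (nat_lit 1) (nat_lit 309) (nat_lit 424) (nat_lit 287)) (XT.lf (nat_lit 152) (nat_lit 20245085692) (nat_lit 0) (nat_lit 165939133)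 (nat_lit 76) (nat_lit 165939133) (nat_lit 118) (nat_lit 1) (nat_lit 116) (nat_lit 1) (nat_lit 117) (nat_lit 1) (nat_lit 310) (nat_lit 424) (nat_lit 286))))) (XT.nd (nat_lit 234) (nat_lit 228) (nat_lit 0) (XT.nd (nat_lit 78) (nat_lit 228) (nat_lit 0) (XT.lf (nat_lit 0) (nat_lit 6590975695) (nat_lit 0) (nat_lit 7057561921) (nat_lit 152) (nat_lit 6590975695) (nat_lit 116) (nat_lit 3) (nat_lit 116) (nat_lit 1) (nat_lit 118) (nat_lit 1) (nat_lit 311) (nat_lit 424) (nat_lit 285)) (XT.nd (nat_lit 78) (nat_lit 152) (nat_lit 0) (XT.lf (nat_lit 76) (nat_lit 6341325172) (nat_lit 0) (nat_lit 6785693007) (nat_lit 76) (nat_lit 6785693007) (nat_lit 116) (nat_lit 3) (nat_lit 115) (nat_lit 1) (nat_lit 116) (nat_lit 1) (nat_lit 312) (nat_lit 424) (nat_lit 284)) (XT.lf (nat_lit 152) (nat_lit 19323046760) (nat_lit 0) (nat_lit 136518535) (nat_lit 76) (nat_lit 136518535) (nat_lit 115) (nat_lit 1) (nat_lit 113) (nat_lit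 1) (nat_lit 114) (nat_lit 1) (nat_lit 313) (nat_lit 424) (nat_lit 283)))) (XT.nd (nat_lit 78) (nat_lit 228) (nat_lit 0) (XT.lf (nat_lit 0) (nat_lit 6296957805) (nat_lit 0) (nat_lit 6680819448) (nat_lit 152) (nat_lit 6296957805) (nat_lit 113) (nat_lit 3) (nat_lit 113) (nat_lit 1) (nat_lit 115) (nat_lit 1) (nat_lit 314) (nat_lit 424) (nat_lit 282)) (XT.nd (nat_lit 78) (nat_lit 152) (nat_lit 0) (XT.lf (nat_lit 76) (nat_lit 6077464125) (nat_lit 0) (nat_lit 6443046642) (nat_lit 76) (nat_lit 6443046642) (nat_lit 113) (nat_lit 3) (nat_lit 112) (nat_lit 1) (nat_lit 113) (nat_lit 1) (nat_lit 315) (nat_lit 424) (nat_lit 281)) (XT.lf (nat_lit 152) (nat_lit 18437465683) (nat_lit 0) (nat_lit 112314137) (nat_lit 76) (nat_lit 112314137) (nat_lit 112) (nat_lit 1) (nat_lit 110) (nat_lit 1) (nat_lit 111) (nat_lit 1) (nat_lit 316) (nat_lit 424) (nat_lit 280)))))) (XT.nd (nat_lit 468) (nat_lit 456) (nat_lit 0) (XT.nd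 (nat_lit 234) (nat_lit 228) (nat_lit 0) (XT.nd (nat_lit 78) (nat_lit 228) (nat_lit 0) (XT.lf (nat_lit 0) (nat_lit 6013423522) (nat_lit 0) (nat_lit 6329227445) (nat_lit 152) (nat_lit 6013423522) (nat_lit 110) (nat_lit 3) (nat_lit 110) (nat_lit 1) (nat_lit 112) (nat_lit 1) (nat_lit 317) (nat_lit 424) (nat_lit 279)) (XT.nd (nat_lit 78) (nat_lit 152) (nat_lit 0) (XT.lf (nat_lit 76) (nat_lit 5819411645) (nat_lit 0) (nat_lit 6120177287) (nat_lit 76) (nat_lit 6120177287) (nat_lit 110) (nat_lit 3) (nat_lit 109) (nat_lit 1) (nat_lit 110) (nat_lit 1) (nat_lit 318) (nat_lit 424) (nat_lit 278)) (XT.lf (nat_lit 152) (nat_lit 17587927021) (nat_lit 0) (nat_lit 92401118) (nat_lit 76) (nat_lit 92401118) (nat_lit 109) (nat_lit 1) (nat_lit 107) (nat_lit 1) (nat_lit 108) (nat_lit 1) (nat_lit 319) (nat_lit 424) (nat_lit 277)))) (XT.nd (nat_lit 78) (nat_lit 228) (nat_lit 0) (XT.lf (nat_lit 0) (nat_lit 5740497224) (nat_lit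 0) (nat_lit 6000309894) (nat_lit 152) (nat_lit 5740497224) (nat_lit 107) (nat_lit 3) (nat_lit 107) (nat_lit 1) (nat_lit 109) (nat_lit 1) (nat_lit 320) (nat_lit 424) (nat_lit 276)) (XT.nd (nat_lit 78) (nat_lit 152) (nat_lit 0) (XT.lf (nat_lit 76) (nat_lit 5568088999) (nat_lit 0) (nat_lit 5815529637) (nat_lit 76) (nat_lit 5815529637) (nat_lit 107) (nat_lit 3) (nat_lit 106) (nat_lit 1) (nat_lit 107) (nat_lit 1) (nat_lit 321) (nat_lit 424) (nat_lit 275)) (XT.lf (nat_lit 152) (nat_lit 16773800967) (nat_lit 0) (nat_lit 76018629) (nat_lit 76) (nat_lit 76018629) (nat_lit 106) (nat_lit 1) (nat_lit 104) (nat_lit 1) (nat_lit 105) (nat_lit 1) (nat_lit 322) (nat_lit 424) (nat_lit 274))))) (XT.nd (nat_lit 234) (nat_lit 228) (nat_lit 0) (XT.nd (nat_lit 78) (nat_lit 228) (nat_lit 0) (XT.lf (nat_lit 0) (nat_lit 5478186808) (nat_lit 0) (nat_lit 5691935334) (nat_lit 152) (nat_lit 5478186808) (nat_lit 104) (nat_lit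 3) (nat_lit 104) (nat_lit 1) (nat_lit 106) (nat_lit 1) (nat_lit 323) (nat_lit 424) (nat_lit 273)) (XT.nd (nat_lit 78) (nat_lit 152) (nat_lit 0) (XT.lf (nat_lit 76) (nat_lit 5324161206) (nat_lit 0) (nat_lit 5527731231) (nat_lit 76) (nat_lit 5527731231) (nat_lit 104) (nat_lit 3) (nat_lit 103) (nat_lit 1) (nat_lit 104) (nat_lit 1) (nat_lit 324) (nat_lit 424) (nat_lit 272)) (XT.lf (nat_lit 152) (nat_lit 15994295073) (nat_lit 0) (nat_lit 62540714) (nat_lit 76) (nat_lit 62540714) (nat_lit 103) (nat_lit 1) (nat_lit 101) (nat_lit 1) (nat_lit 102) (nat_lit 1) (nat_lit 325) (nat_lit 424) (nat_lit 271)))) (XT.nd (nat_lit 156) (nat_lit 152) (nat_lit 0) (XT.nd (nat_lit 78) (nat_lit 76) (nat_lit 0) (XT.lf (nat_lit 0) (nat_lit 5226408829) (nat_lit 0) (nat_lit 5402260271) (nat_lit 152) (nat_lit 5226408829) (nat_lit 101) (nat_lit 3) (nat_lit 101) (nat_lit 1) (nat_lit 103) (nat_lit 1) (nat_lit 326) (nat_lit 424)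 (nat_lit 270)) (XT.lf (nat_lit 76) (nat_lit 5088086892) (nat_lit 0) (nat_lit 5255564456) (nat_lit 76) (nat_lit 5255564456) (nat_lit 101) (nat_lit 3) (nat_lit 100) (nat_lit 1) (nat_lit 101) (nat_lit 1) (nat_lit 327) (nat_lit 424) (nat_lit 269))) (XT.nd (nat_lit 78) (nat_lit 0) (nat_lit 0) (XT.lf (nat_lit 152) (nat_lit 15248496144) (nat_lit 0) (nat_lit 51452400) (nat_lit 76) (nat_lit 51452400) (nat_lit 100) (nat_lit 1) (nat_lit 98) (nat_lit 1) (nat_lit 99) (nat_lit 1) (nat_lit 328) (nat_lit 424) (nat_lit 268)) (XT.lf (nat_lit 0) (nat_lit 4985008988) (nat_lit 0) (nat_lit 5129682404) (nat_lit 152) (nat_lit 4985008988) (nat_lit 98) (nat_lit 3) (nat_lit 98) (nat_lit 1) (nat_lit 100) (nat_lit 1) (nat_lit 329) (nat_lit 424) (nat_lit 267))))))) (XT.nd (nat_lit 1014) (nat_lit 1064) (nat_lit 0) (XT.nd (nat_lit 468) (nat_lit 532) (nat_lit 0) (XT.nd (nat_lit 234) (nat_lit 228) (nat_lit 0) (XT.nd (nat_lit 78)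 (nat_lit 152) (nat_lit 0) (XT.lf (nat_lit 76) (nat_lit 4860159099) (nat_lit 0) (nat_lit 4997943305) (nat_lit 76) (nat_lit 4997943305) (nat_lit 98) (nat_lit 3) (nat_lit 97) (nat_lit 1) (nat_lit 98) (nat_lit 1) (nat_lit 330) (nat_lit 424) (nat_lit 266)) (XT.nd (nat_lit 78) (nat_lit 0) (nat_lit 0) (XT.lf (nat_lit 152) (nat_lit 14535404091) (nat_lit 0) (nat_lit 42330017) (nat_lit 76) (nat_lit 42330017) (nat_lit 97) (nat_lit 1) (nat_lit 95) (nat_lit 1) (nat_lit 96) (nat_lit 1) (nat_lit 331) (nat_lit 424) (nat_lit 265)) (XT.lf (nat_lit 0) (nat_lit 4753778764) (nat_lit 0) (nat_lit 4872801942) (nat_lit 152) (nat_lit 4753778764) (nat_lit 95) (nat_lit 3) (nat_lit 95) (nat_lit 1) (nat_lit 97) (nat_lit 1) (nat_lit 332) (nat_lit 424) (nat_lit 264)))) (XT.nd (nat_lit 78) (nat_lit 152) (nat_lit 0) (XT.lf (nat_lit 76) (nat_lit 4640538653) (nat_lit 0) (nat_lit 4753894060) (nat_lit 76) (nat_lit 4753894060) (nat_lit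 95) (nat_lit 3) (nat_lit 94) (nat_lit 1) (nat_lit 95) (nat_lit 1) (nat_lit 333) (nat_lit 424) (nat_lit 263)) (XT.nd (nat_lit 78) (nat_lit 0) (nat_lit 0) (XT.lf (nat_lit 152) (nat_lit 13853959181) (nat_lit 0) (nat_lit 34825009) (nat_lit 76) (nat_lit 34825009) (nat_lit 94) (nat_lit 1) (nat_lit 92) (nat_lit 1) (nat_lit 93) (nat_lit 1) (nat_lit 334) (nat_lit 424) (nat_lit 262)) (XT.lf (nat_lit 0) (nat_lit 4532468919) (nat_lit 0) (nat_lit 4630389582) (nat_lit 152) (nat_lit 4532468919) (nat_lit 92) (nat_lit 3) (nat_lit 92) (nat_lit 1) (nat_lit 94) (nat_lit 1) (nat_lit 335) (nat_lit 424) (nat_lit 261))))) (XT.nd (nat_lit 234) (nat_lit 304) (nat_lit 0) (XT.nd (nat_lit 78) (nat_lit 152) (nat_lit 0) (XT.lf (nat_lit 76) (nat_lit 4429281429) (nat_lit 0) (nat_lit 4522539203) (nat_lit 76) (nat_lit 4522539203) (nat_lit 92) (nat_lit 3) (nat_lit 91) (nat_lit 1) (nat_lit 92) (nat_lit 1) (nat_lit 336) (nat_lit 424)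 (nat_lit 260)) (XT.nd (nat_lit 78) (nat_lit 0) (nat_lit 0) (XT.lf (nat_lit 152) (nat_lit 13203063897) (nat_lit 0) (nat_lit 28650621) (nat_lit 76) (nat_lit 28650621) (nat_lit 91) (nat_lit 1) (nat_lit 89) (nat_lit 1) (nat_lit 90) (nat_lit 1) (nat_lit 337) (nat_lit 424) (nat_lit 259)) (XT.lf (nat_lit 0) (nat_lit 4320800411) (nat_lit 0) (nat_lit 4401359982) (nat_lit 152) (nat_lit 4320800411) (nat_lit 89) (nat_lit 3) (nat_lit 89) (nat_lit 1) (nat_lit 91) (nat_lit 1) (nat_lit 338) (nat_lit 424) (nat_lit 258)))) (XT.nd (nat_lit 156) (nat_lit 76) (nat_lit 0) (XT.nd (nat_lit 78) (nat_lit 152) (nat_lit 0) (XT.lf (nat_lit 76) (nat_lit 4226360597) (nat_lit 0) (nat_lit 4303083999) (nat_lit 76) (nat_lit 4303083999) (nat_lit 89) (nat_lit 3) (nat_lit 88) (nat_lit 1) (nat_lit 89) (nat_lit 1) (nat_lit 339) (nat_lit 424) (nat_lit 257)) (XT.lf (nat_lit 152) (nat_lit 12581600384) (nat_lit 0) (nat_lit 23570937) (nat_lit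 76) (nat_lit 23570937) (nat_lit 88) (nat_lit 1) (nat_lit 86) (nat_lit 1) (nat_lit 87) (nat_lit 1) (nat_lit 340) (nat_lit 424) (nat_lit 256))) (XT.nd (nat_lit 78) (nat_lit 76) (nat_lit 0) (XT.lf (nat_lit 0) (nat_lit 4118473205) (nat_lit 0) (nat_lit 4184749763) (nat_lit 152) (nat_lit 4118473205) (nat_lit 86) (nat_lit 3) (nat_lit 86) (nat_lit 1) (nat_lit 88) (nat_lit 1) (nat_lit 341) (nat_lit 424) (nat_lit 255)) (XT.lf (nat_lit 76) (nat_lit 4031684755) (nat_lit 0) (nat_lit 4094805288) (nat_lit 76) (nat_lit 4094805288) (nat_lit 86) (nat_lit 3) (nat_lit 85) (nat_lit 1) (nat_lit 86) (nat_lit 1) (nat_lit 342) (nat_lit 424) (nat_lit 254)))))) (XT.nd (nat_lit 468) (nat_lit 608) (nat_lit 0) (XT.nd (nat_lit 234) (nat_lit 228) (nat_lit 0) (XT.nd (nat_lit 78) (nat_lit 76) (nat_lit 0) (XT.lf (nat_lit 152) (nat_lit 11988444289) (nat_lit 0) (nat_lit 19391868) (nat_lit 76) (nat_lit 19391868) (nat_lit 85) (nat_lit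 1) (nat_lit 83) (nat_lit 1) (nat_lit 84) (nat_lit 1) (nat_lit 343) (nat_lit 424) (nat_lit 253)) (XT.nd (nat_lit 78) (nat_lit 76) (nat_lit 0) (XT.lf (nat_lit 0) (nat_lit 3925173349) (nat_lit 0) (nat_lit 3979699238) (nat_lit 152) (nat_lit 3925173349) (nat_lit 83) (nat_lit 3) (nat_lit 83) (nat_lit 1) (nat_lit 85) (nat_lit 1) (nat_lit 344) (nat_lit 424) (nat_lit 252)) (XT.lf (nat_lit 76) (nat_lit 3845112676) (nat_lit 0) (nat_lit 3897042094) (nat_lit 76) (nat_lit 3897042094) (nat_lit 83) (nat_lit 3) (nat_lit 82) (nat_lit 1) (nat_lit 83) (nat_lit 1) (nat_lit 345) (nat_lit 424) (nat_lit 251)))) (XT.nd (nat_lit 78) (nat_lit 76) (nat_lit 0) (XT.lf (nat_lit 152) (nat_lit 11422475657) (nat_lit 0) (nat_lit 15953738) (nat_lit 76) (nat_lit 15953738) (nat_lit 82) (nat_lit 1) (nat_lit 80) (nat_lit 1) (nat_lit 81) (nat_lit 1) (nat_lit 346) (nat_lit 424) (nat_lit 250)) (XT.nd (nat_lit 78) (nat_lit 76) (nat_lit 0)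 (XT.lf (nat_lit 0) (nat_lit 3740578638) (nat_lit 0) (nat_lit 3785437222) (nat_lit 152) (nat_lit 3740578638) (nat_lit 80) (nat_lit 3) (nat_lit 80) (nat_lit 1) (nat_lit 82) (nat_lit 1) (nat_lit 347) (nat_lit 424) (nat_lit 249)) (XT.lf (nat_lit 76) (nat_lit 3666465286) (nat_lit 0) (nat_lit 3709187747) (nat_lit 76) (nat_lit 3709187747) (nat_lit 80) (nat_lit 3) (nat_lit 79) (nat_lit 1) (nat_lit 80) (nat_lit 1) (nat_lit 348) (nat_lit 424) (nat_lit 248))))) (XT.nd (nat_lit 234) (nat_lit 380) (nat_lit 0) (XT.nd (nat_lit 78) (nat_lit 76) (nat_lit 0) (XT.lf (nat_lit 152) (nat_lit 10882587441) (nat_lit 0) (nat_lit 13125179) (nat_lit 76) (nat_lit 13125179) (nat_lit 79) (nat_lit 1) (nat_lit 77) (nat_lit 1) (nat_lit 78) (nat_lit 1) (nat_lit 349) (nat_lit 424) (nat_lit 247)) (XT.nd (nat_lit 78) (nat_lit 76) (nat_lit 0) (XT.lf (nat_lit 0) (nat_lit 3564363122) (nat_lit 0) (nat_lit 3601268390) (nat_lit 152) (nat_lit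 3564363122) (nat_lit 77) (nat_lit 3) (nat_lit 77) (nat_lit 1) (nat_lit 79) (nat_lit 1) (nat_lit 350) (nat_lit 424) (nat_lit 246)) (XT.lf (nat_lit 76) (nat_lit 3495535371) (nat_lit 0) (nat_lit 3530683245) (nat_lit 76) (nat_lit 3530683245) (nat_lit 77) (nat_lit 3) (nat_lit 76) (nat_lit 1) (nat_lit 77) (nat_lit 1) (nat_lit 351) (nat_lit 424) (nat_lit 245)))) (XT.nd (nat_lit 156) (nat_lit 228) (nat_lit 0) (XT.nd (nat_lit 78) (nat_lit 0) (nat_lit 0) (XT.lf (nat_lit 152) (nat_lit 10367692048) (nat_lit 0) (nat_lit 10798118) (nat_lit 76) (nat_lit 10798118) (nat_lit 76) (nat_lit 1) (nat_lit 74) (nat_lit 1) (nat_lit 75) (nat_lit 1) (nat_lit 352) (nat_lit 424) (nat_lit 244)) (XT.lf (nat_lit 0) (nat_lit 3396200666) (nat_lit 0) (nat_lit 3426562721) (nat_lit 152) (nat_lit 3396200666) (nat_lit 74) (nat_lit 3) (nat_lit 74) (nat_lit 1) (nat_lit 76) (nat_lit 1) (nat_lit 353) (nat_lit 424) (nat_lit 243))) (XT.nd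 (nat_lit 78) (nat_lit 152) (nat_lit 0) (XT.lf (nat_lit 76) (nat_lit 3332095416) (nat_lit 0) (nat_lit 3361011659) (nat_lit 76) (nat_lit 3361011659) (nat_lit 74) (nat_lit 3) (nat_lit 73) (nat_lit 1) (nat_lit 74) (nat_lit 1) (nat_lit 354) (nat_lit 424) (nat_lit 242)) (XT.lf (nat_lit 152) (nat_lit 9876726313) (nat_lit 0) (nat_lit 8883638) (nat_lit 76) (nat_lit 8883638) (nat_lit 73) (nat_lit 1) (nat_lit 71) (nat_lit 1) (nat_lit 72) (nat_lit 1) (nat_lit 355) (nat_lit 424) (nat_lit 241))))))))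
noncomputable def ec376 : XT := (XT.nd (nat_lit 1950) (nat_lit 1900) (nat_lit 0) (XT.nd (nat_lit 936) (nat_lit 912) (nat_lit 0) (XT.nd (nat_lit 468) (nat_lit 456) (nat_lit 0) (XT.nd (nat_lit 234) (nat_lit 228) (nat_lit 0) (XT.nd (nat_lit 78) (nat_lit 228) (nat_lit 0) (XT.lf (nat_lit 0) (nat_lit 3235767745) (nat_lit 0) (nat_lit 3260746683) (nat_lit 152) (nat_lit 3235767745) (nat_lit 71) (nat_lit 3) (nat_lit 71) (nat_lit 1) (nat_lit 73) (nat_lit 1) (nat_lit 356) (nat_lit 424) (nat_lit 240)) (XT.nd (nat_lit 78) (nat_lit 152) (nat_lit 0) (XT.lf (nat_lit 76) (nat_lit 3175903921) (nat_lit 0) (nat_lit 3199693386) (nat_lit 76) (nat_lit 3199693386) (nat_lit 71) (nat_lit 3) (nat_lit 70) (nat_lit 1) (nat_lit 71) (nat_lit 1) (nat_lit 357) (nat_lit 424) (nat_lit 239)) (XT.lf (nat_lit 152) (nat_lit 9408655188) (nat_lit 0) (nat_lit 7308591) (nat_lit 76) (nat_lit 7308591) (nat_lit 70) (nat_lit 1) (nat_lit 68)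 (nat_lit 1) (nat_lit 69) (nat_lit 1) (nat_lit 358) (nat_lit 424) (nat_lit 238)))) (XT.nd (nat_lit 78) (nat_lit 228) (nat_lit 0) (XT.lf (nat_lit 0) (nat_lit 3082745609) (nat_lit 0) (nat_lit 3103295843) (nat_lit 152) (nat_lit 3082745609) (nat_lit 68) (nat_lit 3) (nat_lit 68) (nat_lit 1) (nat_lit 70) (nat_lit 1) (nat_lit 359) (nat_lit 424) (nat_lit 237)) (XT.nd (nat_lit 78) (nat_lit 152) (nat_lit 0) (XT.lf (nat_lit 76) (nat_lit 3026710470) (nat_lit 0) (nat_lit 3046282121) (nat_lit 76) (nat_lit 3046282121) (nat_lit 68) (nat_lit 3) (nat_lit 67) (nat_lit 1) (nat_lit 68) (nat_lit 1) (nat_lit 360) (nat_lit 424) (nat_lit 236)) (XT.lf (nat_lit 152) (nat_lit 8962474391) (nat_lit 0) (nat_lit 6012796) (nat_lit 76) (nat_lit 6012796) (nat_lit 67) (nat_lit 1) (nat_lit 65) (nat_lit 1) (nat_lit 66) (nat_lit 1) (nat_lit 361) (nat_lit 424) (nat_lit 235))))) (XT.nd (nat_lit 234) (nat_lit 228) (nat_lit 0) (XT.nd (nat_lit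 78) (nat_lit 228) (nat_lit 0) (XT.lf (nat_lit 0) (nat_lit 2936821944) (nat_lit 0) (nat_lit 2953728673) (nat_lit 152) (nat_lit 2936821944) (nat_lit 65) (nat_lit 3) (nat_lit 65) (nat_lit 1) (nat_lit 67) (nat_lit 1) (nat_lit 362) (nat_lit 424) (nat_lit 234)) (XT.nd (nat_lit 78) (nat_lit 152) (nat_lit 0) (XT.lf (nat_lit 76) (nat_lit 2884259769) (nat_lit 0) (nat_lit 2900361415) (nat_lit 76) (nat_lit 2900361415) (nat_lit 65) (nat_lit 3) (nat_lit 64) (nat_lit 1) (nat_lit 65) (nat_lit 1) (nat_lit 363) (nat_lit 424) (nat_lit 233)) (XT.lf (nat_lit 152) (nat_lit 8537212227) (nat_lit 0) (nat_lit 4946742) (nat_lit 76) (nat_lit 4946742) (nat_lit 64) (nat_lit 1) (nat_lit 62) (nat_lit 1) (nat_lit 63) (nat_lit 1) (nat_lit 364) (nat_lit 424) (nat_lit 232)))) (XT.nd (nat_lit 78) (nat_lit 228) (nat_lit 0) (XT.lf (nat_lit 0) (nat_lit 2797692113) (nat_lit 0) (nat_lit 2811601320) (nat_lit 152) (nat_lit 2797692113) (nat_lit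 62) (nat_lit 3) (nat_lit 62) (nat_lit 1) (nat_lit 64) (nat_lit 1) (nat_lit 365) (nat_lit 424) (nat_lit 231)) (XT.nd (nat_lit 78) (nat_lit 152) (nat_lit 0) (XT.lf (nat_lit 76) (nat_lit 2748294864) (nat_lit 0) (nat_lit 2761541728) (nat_lit 76) (nat_lit 2761541728) (nat_lit 62) (nat_lit 3) (nat_lit 61) (nat_lit 1) (nat_lit 62) (nat_lit 1) (nat_lit 366) (nat_lit 424) (nat_lit 230)) (XT.lf (nat_lit 152) (nat_lit 8131930736) (nat_lit 0) (nat_lit 4069697) (nat_lit 76) (nat_lit 4069697) (nat_lit 61) (nat_lit 1) (nat_lit 59) (nat_lit 1) (nat_lit 60) (nat_lit 1) (nat_lit 367) (nat_lit 424) (nat_lit 229)))))) (XT.nd (nat_lit 468) (nat_lit 456) (nat_lit 0) (XT.nd (nat_lit 234) (nat_lit 228) (nat_lit 0) (XT.nd (nat_lit 78) (nat_lit 228) (nat_lit 0) (XT.lf (nat_lit 0) (nat_lit 2665060064) (nat_lit 0) (nat_lit 2676503203) (nat_lit 152) (nat_lit 2665060064) (nat_lit 59) (nat_lit 3) (nat_lit 59) (nat_lit 1) (nat_lit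 61) (nat_lit 1) (nat_lit 368) (nat_lit 424) (nat_lit 228)) (XT.nd (nat_lit 78) (nat_lit 152) (nat_lit 0) (XT.lf (nat_lit 76) (nat_lit 2618559667) (nat_lit 0) (nat_lit 2629457895) (nat_lit 76) (nat_lit 2629457895) (nat_lit 59) (nat_lit 3) (nat_lit 58) (nat_lit 1) (nat_lit 59) (nat_lit 1) (nat_lit 369) (nat_lit 424) (nat_lit 227)) (XT.lf (nat_lit 152) (nat_lit 7745726312) (nat_lit 0) (nat_lit 3348149) (nat_lit 76) (nat_lit 3348149) (nat_lit 58) (nat_lit 1) (nat_lit 56) (nat_lit 1) (nat_lit 57) (nat_lit 1) (nat_lit 370) (nat_lit 424) (nat_lit 226)))) (XT.nd (nat_lit 78) (nat_lit 228) (nat_lit 0) (XT.lf (nat_lit 0) (nat_lit 2538638976) (nat_lit 0) (nat_lit 2548053275) (nat_lit 152) (nat_lit 2538638976) (nat_lit 56) (nat_lit 3) (nat_lit 56) (nat_lit 1) (nat_lit 58) (nat_lit 1) (nat_lit 371) (nat_lit 424) (nat_lit 225)) (XT.nd (nat_lit 78) (nat_lit 152) (nat_lit 0) (XT.lf (nat_lit 76) (nat_lit 2494800928)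 (nat_lit 0) (nat_lit 2503766927) (nat_lit 76) (nat_lit 2503766927) (nat_lit 56) (nat_lit 3) (nat_lit 55) (nat_lit 1) (nat_lit 56) (nat_lit 1) (nat_lit 372) (nat_lit 424) (nat_lit 224)) (XT.lf (nat_lit 152) (nat_lit 7377729893) (nat_lit 0) (nat_lit 2754531) (nat_lit 76) (nat_lit 2754531) (nat_lit 55) (nat_lit 1) (nat_lit 53) (nat_lit 1) (nat_lit 54) (nat_lit 1) (nat_lit 373) (nat_lit 424) (nat_lit 223))))) (XT.nd (nat_lit 234) (nat_lit 228) (nat_lit 0) (XT.nd (nat_lit 78) (nat_lit 228) (nat_lit 0) (XT.lf (nat_lit 0) (nat_lit 2418151678) (nat_lit 0) (nat_lit 2425896845) (nat_lit 152) (nat_lit 2418151678) (nat_lit 53) (nat_lit 3) (nat_lit 53) (nat_lit 1) (nat_lit 55) (nat_lit 1) (nat_lit 374) (nat_lit 424) (nat_lit 222)) (XT.nd (nat_lit 78) (nat_lit 152) (nat_lit 0) (XT.lf (nat_lit 76) (nat_lit 2376769764) (nat_lit 0) (nat_lit 2384146114) (nat_lit 76) (nat_lit 2384146114) (nat_lit 53) (nat_lit 3)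 (nat_lit 52) (nat_lit 1) (nat_lit 53) (nat_lit 1) (nat_lit 375) (nat_lit 424) (nat_lit 221)) (XT.lf (nat_lit 152) (nat_lit 7027106819) (nat_lit 0) (nat_lit 2266159) (nat_lit 76) (nat_lit 2266159) (nat_lit 52) (nat_lit 1) (nat_lit 50) (nat_lit 1) (nat_lit 51) (nat_lit 1) (nat_lit 376) (nat_lit 424) (nat_lit 220)))) (XT.nd (nat_lit 156) (nat_lit 152) (nat_lit 0) (XT.nd (nat_lit 78) (nat_lit 76) (nat_lit 0) (XT.lf (nat_lit 0) (nat_lit 2303330904) (nat_lit 0) (nat_lit 2309702872) (nat_lit 152) (nat_lit 2303330904) (nat_lit 50) (nat_lit 3) (nat_lit 50) (nat_lit 1) (nat_lit 52) (nat_lit 1) (nat_lit 377) (nat_lit 424) (nat_lit 219)) (XT.lf (nat_lit 76) (nat_lit 2264222811) (nat_lit 0) (nat_lit 2270291353) (nat_lit 76) (nat_lit 2270291353) (nat_lit 50) (nat_lit 3) (nat_lit 49) (nat_lit 1) (nat_lit 50) (nat_lit 1) (nat_lit 378) (nat_lit 424) (nat_lit 218))) (XT.nd (nat_lit 78) (nat_lit 0) (nat_lit 0) (XT.lf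 (nat_lit 152) (nat_lit 6693056435) (nat_lit 0) (nat_lit 1864375) (nat_lit 76) (nat_lit 1864375) (nat_lit 49) (nat_lit 1) (nat_lit 47) (nat_lit 1) (nat_lit 48) (nat_lit 1) (nat_lit 379) (nat_lit 424) (nat_lit 217)) (XT.lf (nat_lit 0) (nat_lit 2193919400) (nat_lit 0) (nat_lit 2199161634) (nat_lit 152) (nat_lit 2193919400) (nat_lit 47) (nat_lit 3) (nat_lit 47) (nat_lit 1) (nat_lit 49) (nat_lit 1) (nat_lit 380) (nat_lit 424) (nat_lit 216))))))) (XT.nd (nat_lit 936) (nat_lit 988) (nat_lit 0) (XT.nd (nat_lit 468) (nat_lit 456) (nat_lit 0) (XT.nd (nat_lit 234) (nat_lit 228) (nat_lit 0) (XT.nd (nat_lit 78) (nat_lit 152) (nat_lit 0) (XT.lf (nat_lit 76) (nat_lit 2156923086) (nat_lit 0) (nat_lit 2161915690) (nat_lit 76) (nat_lit 2161915690) (nat_lit 47) (nat_lit 3) (nat_lit 46) (nat_lit 1) (nat_lit 47) (nat_lit 1) (nat_lit 381) (nat_lit 424) (nat_lit 215)) (XT.nd (nat_lit 78) (nat_lit 0) (nat_lit 0) (XT.lf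 (nat_lit 152) (nat_lit 6374811488) (nat_lit 0) (nat_lit 1533826) (nat_lit 76) (nat_lit 1533826) (nat_lit 46) (nat_lit 1) (nat_lit 44) (nat_lit 1) (nat_lit 45) (nat_lit 1) (nat_lit 382) (nat_lit 424) (nat_lit 214)) (XT.lf (nat_lit 0) (nat_lit 2089669935) (nat_lit 0) (nat_lit 2093982733) (nat_lit 152) (nat_lit 2089669935) (nat_lit 44) (nat_lit 3) (nat_lit 44) (nat_lit 1) (nat_lit 46) (nat_lit 1) (nat_lit 383) (nat_lit 424) (nat_lit 213)))) (XT.nd (nat_lit 78) (nat_lit 152) (nat_lit 0) (XT.lf (nat_lit 76) (nat_lit 2054640604) (nat_lit 0) (nat_lit 2058748032) (nat_lit 76) (nat_lit 2058748032) (nat_lit 44) (nat_lit 3) (nat_lit 43) (nat_lit 1) (nat_lit 44) (nat_lit 1) (nat_lit 384) (nat_lit 424) (nat_lit 212)) (XT.nd (nat_lit 78) (nat_lit 0) (nat_lit 0) (XT.lf (nat_lit 152) (nat_lit 6071637373) (nat_lit 0) (nat_lit 1261882) (nat_lit 76) (nat_lit 1261882) (nat_lit 43) (nat_lit 1) (nat_lit 41) (nat_lit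 1) (nat_lit 42) (nat_lit 1) (nat_lit 385) (nat_lit 424) (nat_lit 211)) (XT.lf (nat_lit 0) (nat_lit 1990345212) (nat_lit 0) (nat_lit 1993893362) (nat_lit 152) (nat_lit 1990345212) (nat_lit 41) (nat_lit 3) (nat_lit 41) (nat_lit 1) (nat_lit 43) (nat_lit 1) (nat_lit 386) (nat_lit 424) (nat_lit 210))))) (XT.nd (nat_lit 234) (nat_lit 228) (nat_lit 0) (XT.nd (nat_lit 78) (nat_lit 152) (nat_lit 0) (XT.lf (nat_lit 76) (nat_lit 1957152808) (nat_lit 0) (nat_lit 1960531999) (nat_lit 76) (nat_lit 1960531999) (nat_lit 41) (nat_lit 3) (nat_lit 40) (nat_lit 1) (nat_lit 41) (nat_lit 1) (nat_lit 387) (nat_lit 424) (nat_lit 209)) (XT.nd (nat_lit 78) (nat_lit 0) (nat_lit 0) (XT.lf (nat_lit 152) (nat_lit 5782831269) (nat_lit 0) (nat_lit 1038153) (nat_lit 76) (nat_lit 1038153) (nat_lit 40) (nat_lit 1) (nat_lit 38) (nat_lit 1) (nat_lit 39) (nat_lit 1) (nat_lit 388) (nat_lit 424) (nat_lit 208)) (XT.lf (nat_lit 0) (nat_lit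 1895717727) (nat_lit 0) (nat_lit 1898636799) (nat_lit 152) (nat_lit 1895717727) (nat_lit 38) (nat_lit 3) (nat_lit 38) (nat_lit 1) (nat_lit 40) (nat_lit 1) (nat_lit 389) (nat_lit 424) (nat_lit 207)))) (XT.nd (nat_lit 78) (nat_lit 152) (nat_lit 0) (XT.lf (nat_lit 76) (nat_lit 1864244838) (nat_lit 0) (nat_lit 1867024907) (nat_lit 76) (nat_lit 1867024907) (nat_lit 38) (nat_lit 3) (nat_lit 37) (nat_lit 1) (nat_lit 38) (nat_lit 1) (nat_lit 390) (nat_lit 424) (nat_lit 206)) (XT.nd (nat_lit 78) (nat_lit 0) (nat_lit 0) (XT.lf (nat_lit 152) (nat_lit 5507721193) (nat_lit 0) (nat_lit 854091) (nat_lit 76) (nat_lit 854091) (nat_lit 37) (nat_lit 1) (nat_lit 35) (nat_lit 1) (nat_lit 36) (nat_lit 1) (nat_lit 391) (nat_lit 424) (nat_lit 205)) (XT.lf (nat_lit 0) (nat_lit 1805569566) (nat_lit 0) (nat_lit 1807971094) (nat_lit 152) (nat_lit 1805569566) (nat_lit 35) (nat_lit 3) (nat_lit 35) (nat_lit 1) (nat_lit 37) (nat_lit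 1) (nat_lit 392) (nat_lit 424) (nat_lit 204)))))) (XT.nd (nat_lit 468) (nat_lit 532) (nat_lit 0) (XT.nd (nat_lit 234) (nat_lit 228) (nat_lit 0) (XT.nd (nat_lit 78) (nat_lit 152) (nat_lit 0) (XT.lf (nat_lit 76) (nat_lit 1775709680) (nat_lit 0) (nat_lit 1777996849) (nat_lit 76) (nat_lit 1777996849) (nat_lit 35) (nat_lit 3) (nat_lit 34) (nat_lit 1) (nat_lit 35) (nat_lit 1) (nat_lit 393) (nat_lit 424) (nat_lit 203)) (XT.nd (nat_lit 78) (nat_lit 0) (nat_lit 0) (XT.lf (nat_lit 152) (nat_lit 5245664996) (nat_lit 0) (nat_lit 702663) (nat_lit 76) (nat_lit 702663) (nat_lit 34) (nat_lit 1) (nat_lit 32) (nat_lit 1) (nat_lit 33) (nat_lit 1) (nat_lit 394) (nat_lit 424) (nat_lit 202)) (XT.lf (nat_lit 0) (nat_lit 1719692170) (nat_lit 0) (nat_lit 1721667913) (nat_lit 152) (nat_lit 1719692170) (nat_lit 32) (nat_lit 3) (nat_lit 32) (nat_lit 1) (nat_lit 34) (nat_lit 1) (nat_lit 395) (nat_lit 424) (nat_lit 201))))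 (XT.nd (nat_lit 78) (nat_lit 152) (nat_lit 0) (XT.lf (nat_lit 76) (nat_lit 1691348212) (nat_lit 0) (nat_lit 1693229872) (nat_lit 76) (nat_lit 1693229872) (nat_lit 32) (nat_lit 3) (nat_lit 31) (nat_lit 1) (nat_lit 32) (nat_lit 1) (nat_lit 396) (nat_lit 424) (nat_lit 200)) (XT.nd (nat_lit 78) (nat_lit 0) (nat_lit 0) (XT.lf (nat_lit 152) (nat_lit 4996049326) (nat_lit 0) (nat_lit 578082) (nat_lit 76) (nat_lit 578082) (nat_lit 31) (nat_lit 1) (nat_lit 29) (nat_lit 1) (nat_lit 30) (nat_lit 1) (nat_lit 397) (nat_lit 424) (nat_lit 199)) (XT.lf (nat_lit 0) (nat_lit 1637886070) (nat_lit 0) (nat_lit 1639511519) (nat_lit 152) (nat_lit 1637886070) (nat_lit 29) (nat_lit 3) (nat_lit 29) (nat_lit 1) (nat_lit 31) (nat_lit 1) (nat_lit 398) (nat_lit 424) (nat_lit 198))))) (XT.nd (nat_lit 234) (nat_lit 304) (nat_lit 0) (XT.nd (nat_lit 78) (nat_lit 152) (nat_lit 0) (XT.lf (nat_lit 76) (nat_lit 1610969183) (nat_lit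 0) (nat_lit 1612517230) (nat_lit 76) (nat_lit 1612517230) (nat_lit 29) (nat_lit 3) (nat_lit 28) (nat_lit 1) (nat_lit 29) (nat_lit 1) (nat_lit 399) (nat_lit 424) (nat_lit 197)) (XT.nd (nat_lit 78) (nat_lit 0) (nat_lit 0) (XT.lf (nat_lit 152) (nat_lit 4758288575) (nat_lit 0) (nat_lit 475590) (nat_lit 76) (nat_lit 475590) (nat_lit 28) (nat_lit 1) (nat_lit 26) (nat_lit 1) (nat_lit 27) (nat_lit 1) (nat_lit 400) (nat_lit 424) (nat_lit 196)) (XT.lf (nat_lit 0) (nat_lit 1559960606) (nat_lit 0) (nat_lit 1561297866) (nat_lit 152) (nat_lit 1559960606) (nat_lit 26) (nat_lit 3) (nat_lit 26) (nat_lit 1) (nat_lit 28) (nat_lit 1) (nat_lit 401) (nat_lit 424) (nat_lit 195)))) (XT.nd (nat_lit 156) (nat_lit 76) (nat_lit 0) (XT.nd (nat_lit 78) (nat_lit 152) (nat_lit 0) (XT.lf (nat_lit 76) (nat_lit 1534389118) (nat_lit 0) (nat_lit 1535662699) (nat_lit 76) (nat_lit 1535662699) (nat_lit 26) (nat_lit 3) (nat_lit 25) (nat_lit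 1) (nat_lit 26) (nat_lit 1) (nat_lit 402) (nat_lit 424) (nat_lit 194)) (XT.lf (nat_lit 152) (nat_lit 4531823816) (nat_lit 0) (nat_lit 391269) (nat_lit 76) (nat_lit 391269) (nat_lit 25) (nat_lit 1) (nat_lit 23) (nat_lit 1) (nat_lit 24) (nat_lit 1) (nat_lit 403) (nat_lit 424) (nat_lit 193))) (XT.nd (nat_lit 78) (nat_lit 76) (nat_lit 0) (XT.lf (nat_lit 0) (nat_lit 1485733624) (nat_lit 0) (nat_lit 1486833792) (nat_lit 152) (nat_lit 1485733624) (nat_lit 23) (nat_lit 3) (nat_lit 23) (nat_lit 1) (nat_lit 25) (nat_lit 1) (nat_lit 404) (nat_lit 424) (nat_lit 192)) (XT.lf (nat_lit 76) (nat_lit 1461432186) (nat_lit 0) (nat_lit 1462479964) (nat_lit 76) (nat_lit 1462479964) (nat_lit 23) (nat_lit 3) (nat_lit 22) (nat_lit 1) (nat_lit 23) (nat_lit 1) (nat_lit 405) (nat_lit 424) (nat_lit 191))))))))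
noncomputable def ec377 : XT := (XT.nd (nat_lit 1950) (nat_lit 0) (nat_lit 0) (XT.nd (nat_lit 936) (nat_lit 760) (nat_lit 0) (XT.nd (nat_lit 468) (nat_lit 456) (nat_lit 0) (XT.nd (nat_lit 234) (nat_lit 228) (nat_lit 0) (XT.nd (nat_lit 78) (nat_lit 76) (nat_lit 0) (XT.lf (nat_lit 152) (nat_lit 4316121744) (nat_lit 0) (nat_lit 321898) (nat_lit 76) (nat_lit 321898) (nat_lit 22) (nat_lit 1) (nat_lit 20) (nat_lit 1) (nat_lit 21) (nat_lit 1) (nat_lit 406) (nat_lit 424) (nat_lit 190)) (XT.nd (nat_lit 78) (nat_lit 76) (nat_lit 0) (XT.lf (nat_lit 0) (nat_lit 1415031180) (nat_lit 0) (nat_lit 1415936291) (nat_lit 152) (nat_lit 1415031180) (nat_lit 20) (nat_lit 3) (nat_lit 20) (nat_lit 1) (nat_lit 22) (nat_lit 1) (nat_lit 407) (nat_lit 424) (nat_lit 189)) (XT.lf (nat_lit 76) (nat_lit 1391930029) (nat_lit 0) (nat_lit 1392792039) (nat_lit 76) (nat_lit 1392792039) (nat_lit 20) (nat_lit 3) (nat_lit 19) (nat_lit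 1) (nat_lit 20) (nat_lit 1) (nat_lit 408) (nat_lit 424) (nat_lit 188)))) (XT.nd (nat_lit 78) (nat_lit 76) (nat_lit 0) (XT.lf (nat_lit 152) (nat_lit 4110673636) (nat_lit 0) (nat_lit 264826) (nat_lit 76) (nat_lit 264826) (nat_lit 19) (nat_lit 1) (nat_lit 17) (nat_lit 1) (nat_lit 18) (nat_lit 1) (nat_lit 409) (nat_lit 424) (nat_lit 187)) (XT.nd (nat_lit 78) (nat_lit 76) (nat_lit 0) (XT.lf (nat_lit 0) (nat_lit 1347687226) (nat_lit 0) (nat_lit 1348431863) (nat_lit 152) (nat_lit 1347687226) (nat_lit 17) (nat_lit 3) (nat_lit 17) (nat_lit 1) (nat_lit 19) (nat_lit 1) (nat_lit 410) (nat_lit 424) (nat_lit 186)) (XT.lf (nat_lit 76) (nat_lit 1325721569) (nat_lit 0) (nat_lit 1326430746) (nat_lit 76) (nat_lit 1326430746) (nat_lit 17) (nat_lit 3) (nat_lit 16) (nat_lit 1) (nat_lit 17) (nat_lit 1) (nat_lit 411) (nat_lit 424) (nat_lit 185))))) (XT.nd (nat_lit 234) (nat_lit 228) (nat_lit 0) (XT.nd (nat_lit 78) (nat_lit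 76) (nat_lit 0) (XT.lf (nat_lit 152) (nat_lit 3914994322) (nat_lit 0) (nat_lit 217873) (nat_lit 76) (nat_lit 217873) (nat_lit 16) (nat_lit 1) (nat_lit 14) (nat_lit 1) (nat_lit 15) (nat_lit 1) (nat_lit 412) (nat_lit 424) (nat_lit 184)) (XT.nd (nat_lit 78) (nat_lit 76) (nat_lit 0) (XT.lf (nat_lit 0) (nat_lit 1283543304) (nat_lit 0) (nat_lit 1284155919) (nat_lit 152) (nat_lit 1283543304) (nat_lit 14) (nat_lit 3) (nat_lit 14) (nat_lit 1) (nat_lit 16) (nat_lit 1) (nat_lit 413) (nat_lit 424) (nat_lit 183)) (XT.lf (nat_lit 76) (nat_lit 1262652786) (nat_lit 0) (nat_lit 1263236228) (nat_lit 76) (nat_lit 1263236228) (nat_lit 14) (nat_lit 3) (nat_lit 13) (nat_lit 1) (nat_lit 14) (nat_lit 1) (nat_lit 414) (nat_lit 424) (nat_lit 182)))) (XT.nd (nat_lit 78) (nat_lit 76) (nat_lit 0) (XT.lf (nat_lit 152) (nat_lit 3728621182) (nat_lit 0) (nat_lit 179244) (nat_lit 76) (nat_lit 179244) (nat_lit 13) (nat_lit 1) (nat_lit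 11) (nat_lit 1) (nat_lit 12) (nat_lit 1) (nat_lit 415) (nat_lit 424) (nat_lit 181)) (XT.nd (nat_lit 78) (nat_lit 76) (nat_lit 0) (XT.lf (nat_lit 0) (nat_lit 1222448241) (nat_lit 0) (nat_lit 1222952241) (nat_lit 152) (nat_lit 1222448241) (nat_lit 11) (nat_lit 3) (nat_lit 11) (nat_lit 1) (nat_lit 13) (nat_lit 1) (nat_lit 416) (nat_lit 424) (nat_lit 180)) (XT.lf (nat_lit 76) (nat_lit 1202576496) (nat_lit 0) (nat_lit 1203056495) (nat_lit 76) (nat_lit 1203056495) (nat_lit 11) (nat_lit 3) (nat_lit 10) (nat_lit 1) (nat_lit 11) (nat_lit 1) (nat_lit 417) (nat_lit 424) (nat_lit 179)))))) (XT.nd (nat_lit 468) (nat_lit 304) (nat_lit 0) (XT.nd (nat_lit 234) (nat_lit 228) (nat_lit 0) (XT.nd (nat_lit 78) (nat_lit 76) (nat_lit 0) (XT.lf (nat_lit 152) (nat_lit 3551113174) (nat_lit 0) (nat_lit 147465) (nat_lit 76) (nat_lit 147465) (nat_lit 10) (nat_lit 1) (nat_lit 8) (nat_lit 1) (nat_lit 9) (nat_lit 1) (nat_lit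 418) (nat_lit 424) (nat_lit 178)) (XT.nd (nat_lit 78) (nat_lit 76) (nat_lit 0) (XT.lf (nat_lit 0) (nat_lit 1164257849) (nat_lit 0) (nat_lit 1164672491) (nat_lit 152) (nat_lit 1164257849) (nat_lit 8) (nat_lit 3) (nat_lit 8) (nat_lit 1) (nat_lit 10) (nat_lit 1) (nat_lit 419) (nat_lit 424) (nat_lit 177)) (XT.lf (nat_lit 76) (nat_lit 1145352111) (nat_lit 0) (nat_lit 1145747007) (nat_lit 76) (nat_lit 1145747007) (nat_lit 8) (nat_lit 3) (nat_lit 7) (nat_lit 1) (nat_lit 8) (nat_lit 1) (nat_lit 420) (nat_lit 424) (nat_lit 176)))) (XT.nd (nat_lit 78) (nat_lit 76) (nat_lit 0) (XT.lf (nat_lit 152) (nat_lit 3382049882) (nat_lit 0) (nat_lit 121320) (nat_lit 76) (nat_lit 121320) (nat_lit 7) (nat_lit 1) (nat_lit 5) (nat_lit 1) (nat_lit 6) (nat_lit 1) (nat_lit 421) (nat_lit 424) (nat_lit 175)) (XT.nd (nat_lit 78) (nat_lit 76) (nat_lit 0) (XT.lf (nat_lit 0) (nat_lit 1108834629) (nat_lit 0) (nat_lit 1109175755)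 (nat_lit 152) (nat_lit 1108834629) (nat_lit 5) (nat_lit 3) (nat_lit 5) (nat_lit 1) (nat_lit 7) (nat_lit 1) (nat_lit 422) (nat_lit 424) (nat_lit 174)) (XT.lf (nat_lit 76) (nat_lit 1090845398) (nat_lit 0) (nat_lit 1091170281) (nat_lit 76) (nat_lit 1091170281) (nat_lit 5) (nat_lit 3) (nat_lit 4) (nat_lit 1) (nat_lit 5) (nat_lit 1) (nat_lit 423) (nat_lit 424) (nat_lit 173))))) (XT.nd (nat_lit 234) (nat_lit 76) (nat_lit 0) (XT.nd (nat_lit 78) (nat_lit 76) (nat_lit 0) (XT.lf (nat_lit 152) (nat_lit 3221030604) (nat_lit 0) (nat_lit 99810) (nat_lit 76) (nat_lit 99810) (nat_lit 4) (nat_lit 1) (nat_lit 2) (nat_lit 1) (nat_lit 3) (nat_lit 1) (nat_lit 424) (nat_lit 424) (nat_lit 172)) (XT.nd (nat_lit 78) (nat_lit 76) (nat_lit 0) (XT.lf (nat_lit 0) (nat_lit 1056047484) (nat_lit 0) (nat_lit 1056328129) (nat_lit 152) (nat_lit 1056047484) (nat_lit 2) (nat_lit 3) (nat_lit 2) (nat_lit 1) (nat_lit 4) (nat_lit 1) (nat_lit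 425) (nat_lit 424) (nat_lit 171)) (XT.lf (nat_lit 76) (nat_lit 1038928240) (nat_lit 0) (nat_lit 1039195521) (nat_lit 76) (nat_lit 1039195521) (nat_lit 2) (nat_lit 3) (nat_lit 1) (nat_lit 1) (nat_lit 2) (nat_lit 1) (nat_lit 426) (nat_lit 424) (nat_lit 170)))) (XT.nd (nat_lit 156) (nat_lit 0) (nat_lit 0) (XT.nd (nat_lit 78) (nat_lit 0) (nat_lit 0) (XT.lf (nat_lit 0) (nat_lit 64684869717) (nat_lit 0) (nat_lit 0) (nat_lit 0) (nat_lit 0) (nat_lit 0) (nat_lit 0) (nat_lit 1) (nat_lit 0) (nat_lit 1) (nat_lit 0) (nat_lit 427) (nat_lit 424) (nat_lit 169)) (XT.lf (nat_lit 0) (nat_lit 64684857547) (nat_lit 0) (nat_lit 0) (nat_lit 0) (nat_lit 0) (nat_lit 0) (nat_lit 0) (nat_lit 1) (nat_lit 0) (nat_lit 1) (nat_lit 0) (nat_lit 428) (nat_lit 424) (nat_lit 168))) (XT.nd (nat_lit 78) (nat_lit 0) (nat_lit 0) (XT.lf (nat_lit 0) (nat_lit 64684845956) (nat_lit 0) (nat_lit 0) (nat_lit 0) (nat_lit 0) (nat_lit 0) (nat_lit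 0) (nat_lit 1) (nat_lit 0) (nat_lit 1) (nat_lit 0) (nat_lit 429) (nat_lit 424) (nat_lit 167)) (XT.lf (nat_lit 0) (nat_lit 64684834917) (nat_lit 0) (nat_lit 0) (nat_lit 0) (nat_lit 0) (nat_lit 0) (nat_lit 0) (nat_lit 1) (nat_lit 0) (nat_lit 1) (nat_lit 0) (nat_lit 430) (nat_lit 424) (nat_lit 166))))))) (XT.nd (nat_lit 32994) (nat_lit 0) (nat_lit 20900) (XT.nd (nat_lit 468) (nat_lit 0) (nat_lit 0) (XT.nd (nat_lit 234) (nat_lit 0) (nat_lit 0) (XT.nd (nat_lit 78) (nat_lit 0) (nat_lit 0) (XT.lf (nat_lit 0) (nat_lit 64684824403) (nat_lit 0) (nat_lit 0) (nat_lit 0) (nat_lit 0) (nat_lit 0) (nat_lit 0) (nat_lit 1) (nat_lit 0) (nat_lit 1) (nat_lit 0) (nat_lit 431) (nat_lit 424) (nat_lit 165)) (XT.nd (nat_lit 78) (nat_lit 0) (nat_lit 0) (XT.lf (nat_lit 0) (nat_lit 64684814390) (nat_lit 0) (nat_lit 0) (nat_lit 0) (nat_lit 0) (nat_lit 0) (nat_lit 0) (nat_lit 1) (nat_lit 0) (nat_lit 1) (nat_lit 0) (nat_lit 432)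 (nat_lit 424) (nat_lit 164)) (XT.lf (nat_lit 0) (nat_lit 64684804854) (nat_lit 0) (nat_lit 0) (nat_lit 0) (nat_lit 0) (nat_lit 0) (nat_lit 0) (nat_lit 1) (nat_lit 0) (nat_lit 1) (nat_lit 0) (nat_lit 433) (nat_lit 424) (nat_lit 163)))) (XT.nd (nat_lit 78) (nat_lit 0) (nat_lit 0) (XT.lf (nat_lit 0) (nat_lit 64684795773) (nat_lit 0) (nat_lit 0) (nat_lit 0) (nat_lit 0) (nat_lit 0) (nat_lit 0) (nat_lit 1) (nat_lit 0) (nat_lit 1) (nat_lit 0) (nat_lit 434) (nat_lit 424) (nat_lit 162)) (XT.nd (nat_lit 78) (nat_lit 0) (nat_lit 0) (XT.lf (nat_lit 0) (nat_lit 64684787123) (nat_lit 0) (nat_lit 0) (nat_lit 0) (nat_lit 0) (nat_lit 0) (nat_lit 0) (nat_lit 1) (nat_lit 0) (nat_lit 1) (nat_lit 0) (nat_lit 435) (nat_lit 424) (nat_lit 161)) (XT.lf (nat_lit 0) (nat_lit 64684778886) (nat_lit 0) (nat_lit 0) (nat_lit 0) (nat_lit 0) (nat_lit 0) (nat_lit 0) (nat_lit 1) (nat_lit 0) (nat_lit 1) (nat_lit 0) (nat_lit 436) (nat_lit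 424) (nat_lit 160))))) (XT.nd (nat_lit 234) (nat_lit 0) (nat_lit 0) (XT.nd (nat_lit 78) (nat_lit 0) (nat_lit 0) (XT.lf (nat_lit 0) (nat_lit 64684771040) (nat_lit 0) (nat_lit 0) (nat_lit 0) (nat_lit 0) (nat_lit 0) (nat_lit 0) (nat_lit 1) (nat_lit 0) (nat_lit 1) (nat_lit 0) (nat_lit 437) (nat_lit 424) (nat_lit 159)) (XT.nd (nat_lit 78) (nat_lit 0) (nat_lit 0) (XT.lf (nat_lit 0) (nat_lit 64684763569) (nat_lit 0) (nat_lit 0) (nat_lit 0) (nat_lit 0) (nat_lit 0) (nat_lit 0) (nat_lit 1) (nat_lit 0) (nat_lit 1) (nat_lit 0) (nat_lit 438) (nat_lit 424) (nat_lit 158)) (XT.lf (nat_lit 0) (nat_lit 64684756453) (nat_lit 0) (nat_lit 0) (nat_lit 0) (nat_lit 0) (nat_lit 0) (nat_lit 0) (nat_lit 1) (nat_lit 0) (nat_lit 1) (nat_lit 0) (nat_lit 439) (nat_lit 424) (nat_lit 157)))) (XT.nd (nat_lit 32136) (nat_lit 0) (nat_lit 22192) (XT.nd (nat_lit 32058) (nat_lit 0) (nat_lit 22192) (XT.lf (nat_lit 0) (nat_lit 64684749676)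 (nat_lit 0) (nat_lit 0) (nat_lit 0) (nat_lit 0) (nat_lit 0) (nat_lit 0) (nat_lit 1) (nat_lit 0) (nat_lit 1) (nat_lit 0) (nat_lit 440) (nat_lit 424) (nat_lit 156)) (XT.lf (nat_lit 836) (nat_lit 33989134036) (nat_lit 0) (nat_lit 60347629354) (nat_lit 836) (nat_lit 33989134036) (nat_lit 303) (nat_lit 1) (nat_lit 292) (nat_lit 0) (nat_lit 303) (nat_lit 0) (nat_lit 170) (nat_lit 425) (nat_lit 425))) (XT.nd (nat_lit 78) (nat_lit 0) (nat_lit 76) (XT.lf (nat_lit 836) (nat_lit 131746126900) (nat_lit 76) (nat_lit 59374280493) (nat_lit 0) (nat_lit 59374280493) (nat_lit 303) (nat_lit 1) (nat_lit 293) (nat_lit 1) (nat_lit 292) (nat_lit 0) (nat_lit 171) (nat_lit 425) (nat_lit 424)) (XT.lf (nat_lit 836) (nat_lit 62788220380) (nat_lit 0) (nat_lit 118951489417) (nat_lit 760) (nat_lit 62788220380) (nat_lit 304) (nat_lit 1) (nat_lit 293) (nat_lit 1) (nat_lit 303) (nat_lit 1) (nat_lit 172) (nat_lit 425) (nat_lit 423))))))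 (XT.nd (nat_lit 468) (nat_lit 1368) (nat_lit 0) (XT.nd (nat_lit 234) (nat_lit 0) (nat_lit 152) (XT.nd (nat_lit 78) (nat_lit 0) (nat_lit 76) (XT.lf (nat_lit 836) (nat_lit 117781976790) (nat_lit 76) (nat_lit 60485983203) (nat_lit 0) (nat_lit 60485983203) (nat_lit 304) (nat_lit 1) (nat_lit 294) (nat_lit 1) (nat_lit 293) (nat_lit 1) (nat_lit 173) (nat_lit 425) (nat_lit 422)) (XT.nd (nat_lit 78) (nat_lit 0) (nat_lit 0) (XT.lf (nat_lit 836) (nat_lit 54213912846) (nat_lit 0) (nat_lit 124735136948) (nat_lit 760) (nat_lit 54213912846) (nat_lit 305) (nat_lit 1) (nat_lit 294) (nat_lit 1) (nat_lit 304) (nat_lit 1) (nat_lit 174) (nat_lit 425) (nat_lit 421)) (XT.lf (nat_lit 836) (nat_lit 97507253313) (nat_lit 76) (nat_lit 65117581611) (nat_lit 0) (nat_lit 65117581611) (nat_lit 305) (nat_lit 1) (nat_lit 295) (nat_lit 1) (nat_lit 294) (nat_lit 1) (nat_lit 175) (nat_lit 425) (nat_lit 420)))) (XT.nd (nat_lit 78)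 (nat_lit 0) (nat_lit 0) (XT.lf (nat_lit 836) (nat_lit 42754114313) (nat_lit 0) (nat_lit 136995644974) (nat_lit 760) (nat_lit 42754114313) (nat_lit 306) (nat_lit 1) (nat_lit 295) (nat_lit 1) (nat_lit 305) (nat_lit 1) (nat_lit 176) (nat_lit 425) (nat_lit 419)) (XT.nd (nat_lit 78) (nat_lit 0) (nat_lit 76) (XT.lf (nat_lit 836) (nat_lit 71870978893) (nat_lit 76) (nat_lit 72769293404) (nat_lit 0) (nat_lit 72769293404) (nat_lit 306) (nat_lit 1) (nat_lit 296) (nat_lit 1) (nat_lit 295) (nat_lit 1) (nat_lit 177) (nat_lit 425) (nat_lit 418)) (XT.lf (nat_lit 836) (nat_lit 28852454617) (nat_lit 0) (nat_lit 154796829289) (nat_lit 760) (nat_lit 28852454617) (nat_lit 307) (nat_lit 1) (nat_lit 296) (nat_lit 1) (nat_lit 306) (nat_lit 1) (nat_lit 178) (nat_lit 425) (nat_lit 417))))) (XT.nd (nat_lit 234) (nat_lit 912) (nat_lit 0) (XT.nd (nat_lit 78) (nat_lit 684) (nat_lit 0) (XT.lf (nat_lit 836) (nat_lit 41716691267)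 (nat_lit 76) (nat_lit 82996017279) (nat_lit 0) (nat_lit 82996017279) (nat_lit 307) (nat_lit 1) (nat_lit 297) (nat_lit 1) (nat_lit 296) (nat_lit 1) (nat_lit 179) (nat_lit 425) (nat_lit 416)) (XT.nd (nat_lit 78) (nat_lit 760) (nat_lit 0) (XT.lf (nat_lit 76) (nat_lit 12902968414) (nat_lit 0) (nat_lit 177305449278) (nat_lit 760) (nat_lit 12902968414) (nat_lit 298) (nat_lit 1) (nat_lit 297) (nat_lit 1) (nat_lit 307) (nat_lit 1) (nat_lit 180) (nat_lit 425) (nat_lit 415)) (XT.lf (nat_lit 836) (nat_lit 7793072053) (nat_lit 0) (nat_lit 95401857986) (nat_lit 760) (nat_lit 95401857986) (nat_lit 298) (nat_lit 1) (nat_lit 287) (nat_lit 1) (nat_lit 297) (nat_lit 1) (nat_lit 181) (nat_lit 425) (nat_lit 414)))) (XT.nd (nat_lit 156) (nat_lit 380) (nat_lit 0) (XT.nd (nat_lit 78) (nat_lit 0) (nat_lit 0) (XT.lf (nat_lit 532) (nat_lit 184939414169) (nat_lit 0) (nat_lit 4668365683) (nat_lit 456) (nat_lit 4668365683)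 (nat_lit 287) (nat_lit 1) (nat_lit 280) (nat_lit 1) (nat_lit 286) (nat_lit 1) (nat_lit 182) (nat_lit 425) (nat_lit 413)) (XT.lf (nat_lit 76) (nat_lit 80855189998) (nat_lit 0) (nat_lit 28300702910) (nat_lit 532) (nat_lit 80855189998) (nat_lit 281) (nat_lit 1) (nat_lit 280) (nat_lit 1) (nat_lit 287) (nat_lit 1) (nat_lit 183) (nat_lit 425) (nat_lit 412))) (XT.nd (nat_lit 78) (nat_lit 0) (nat_lit 0) (XT.lf (nat_lit 456) (nat_lit 139131027360) (nat_lit 0) (nat_lit 23398177404) (nat_lit 380) (nat_lit 23398177404) (nat_lit 281) (nat_lit 1) (nat_lit 275) (nat_lit 1) (nat_lit 280) (nat_lit 1) (nat_lit 184) (nat_lit 425) (nat_lit 411)) (XT.lf (nat_lit 76) (nat_lit 57673022739) (nat_lit 0) (nat_lit 66583486630) (nat_lit 456) (nat_lit 57673022739) (nat_lit 276) (nat_lit 1) (nat_lit 275) (nat_lit 1) (nat_lit 281) (nat_lit 1) (nat_lit 185) (nat_lit 425) (nat_lit 410))))))))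
noncomputable def ec378 : XT := (XT.nd (nat_lit 1950) (nat_lit 2432) (nat_lit 0) (XT.nd (nat_lit 936) (nat_lit 1824) (nat_lit 0) (XT.nd (nat_lit 468) (nat_lit 912) (nat_lit 0) (XT.nd (nat_lit 234) (nat_lit 684) (nat_lit 0) (XT.nd (nat_lit 78) (nat_lit 304) (nat_lit 0) (XT.lf (nat_lit 456) (nat_lit 91619754576) (nat_lit 0) (nat_lit 43225580946) (nat_lit 380) (nat_lit 43225580946) (nat_lit 276) (nat_lit 1) (nat_lit 270) (nat_lit 1) (nat_lit 275) (nat_lit 1) (nat_lit 186) (nat_lit 425) (nat_lit 409)) (XT.nd (nat_lit 78) (nat_lit 304) (nat_lit 0) (XT.lf (nat_lit 76) (nat_lit 33760661930) (nat_lit 0) (nat_lit 106803198513) (nat_lit 456) (nat_lit 33760661930) (nat_lit 271) (nat_lit 1) (nat_lit 270) (nat_lit 1) (nat_lit 276) (nat_lit 1) (nat_lit 187) (nat_lit 425) (nat_lit 408)) (XT.lf (nat_lit 380) (nat_lit 42847805232) (nat_lit 0) (nat_lit 63913346330) (nat_lit 304) (nat_lit 63913346330) (nat_lit 271)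 (nat_lit 1) (nat_lit 266) (nat_lit 1) (nat_lit 270) (nat_lit 1) (nat_lit 188) (nat_lit 425) (nat_lit 407)))) (XT.nd (nat_lit 78) (nat_lit 684) (nat_lit 0) (XT.lf (nat_lit 76) (nat_lit 9323396512) (nat_lit 0) (nat_lit 148518042361) (nat_lit 380) (nat_lit 9323396512) (nat_lit 267) (nat_lit 1) (nat_lit 266) (nat_lit 1) (nat_lit 271) (nat_lit 1) (nat_lit 189) (nat_lit 425) (nat_lit 406)) (XT.nd (nat_lit 78) (nat_lit 304) (nat_lit 0) (XT.lf (nat_lit 76) (nat_lit 78561618092) (nat_lit 0) (nat_lit 6579688122) (nat_lit 380) (nat_lit 78561618092) (nat_lit 262) (nat_lit 1) (nat_lit 261) (nat_lit 1) (nat_lit 266) (nat_lit 1) (nat_lit 190) (nat_lit 425) (nat_lit 405)) (XT.lf (nat_lit 380) (nat_lit 129953305621) (nat_lit 0) (nat_lit 15209772833) (nat_lit 304) (nat_lit 15209772833) (nat_lit 262) (nat_lit 1) (nat_lit 257) (nat_lit 1) (nat_lit 261) (nat_lit 1) (nat_lit 191) (nat_lit 425) (nat_lit 404))))) (XT.nd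 (nat_lit 234) (nat_lit 608) (nat_lit 0) (XT.nd (nat_lit 78) (nat_lit 304) (nat_lit 0) (XT.lf (nat_lit 76) (nat_lit 50973399607) (nat_lit 0) (nat_lit 55153107195) (nat_lit 380) (nat_lit 50973399607) (nat_lit 258) (nat_lit 1) (nat_lit 257) (nat_lit 1) (nat_lit 262) (nat_lit 1) (nat_lit 192) (nat_lit 425) (nat_lit 403)) (XT.nd (nat_lit 78) (nat_lit 0) (nat_lit 0) (XT.lf (nat_lit 380) (nat_lit 74384369727) (nat_lit 0) (nat_lit 39778043013) (nat_lit 304) (nat_lit 39778043013) (nat_lit 258) (nat_lit 1) (nat_lit 253) (nat_lit 1) (nat_lit 257) (nat_lit 1) (nat_lit 193) (nat_lit 425) (nat_lit 402)) (XT.lf (nat_lit 76) (nat_lit 23457510492) (nat_lit 0) (nat_lit 103958366721) (nat_lit 380) (nat_lit 23457510492) (nat_lit 254) (nat_lit 1) (nat_lit 253) (nat_lit 1) (nat_lit 258) (nat_lit 1) (nat_lit 194) (nat_lit 425) (nat_lit 401)))) (XT.nd (nat_lit 78) (nat_lit 380) (nat_lit 0) (XT.lf (nat_lit 304) (nat_lit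 19076988616) (nat_lit 0) (nat_lit 64397768382) (nat_lit 228) (nat_lit 64397768382) (nat_lit 254) (nat_lit 1) (nat_lit 250) (nat_lit 1) (nat_lit 253) (nat_lit 1) (nat_lit 195) (nat_lit 425) (nat_lit 400)) (XT.nd (nat_lit 78) (nat_lit 0) (nat_lit 0) (XT.lf (nat_lit 380) (nat_lit 137364279166) (nat_lit 0) (nat_lit 3811595173) (nat_lit 304) (nat_lit 3811595173) (nat_lit 250) (nat_lit 1) (nat_lit 245) (nat_lit 1) (nat_lit 249) (nat_lit 1) (nat_lit 196) (nat_lit 425) (nat_lit 399)) (XT.lf (nat_lit 76) (nat_lit 53751657954) (nat_lit 0) (nat_lit 34615066174) (nat_lit 380) (nat_lit 53751657954) (nat_lit 246) (nat_lit 1) (nat_lit 245) (nat_lit 1) (nat_lit 250) (nat_lit 1) (nat_lit 197) (nat_lit 425) (nat_lit 398)))))) (XT.nd (nat_lit 468) (nat_lit 836) (nat_lit 0) (XT.nd (nat_lit 234) (nat_lit 532) (nat_lit 0) (XT.nd (nat_lit 78) (nat_lit 228) (nat_lit 0) (XT.lf (nat_lit 304) (nat_lit 78505995764) (nat_lit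 0) (nat_lit 30426668014) (nat_lit 228) (nat_lit 30426668014) (nat_lit 246) (nat_lit 1) (nat_lit 242) (nat_lit 1) (nat_lit 245) (nat_lit 1) (nat_lit 198) (nat_lit 425) (nat_lit 397)) (XT.nd (nat_lit 78) (nat_lit 228) (nat_lit 0) (XT.lf (nat_lit 76) (nat_lit 24801258425) (nat_lit 0) (nat_lit 87067863066) (nat_lit 304) (nat_lit 24801258425) (nat_lit 243) (nat_lit 1) (nat_lit 242) (nat_lit 1) (nat_lit 246) (nat_lit 1) (nat_lit 199) (nat_lit 425) (nat_lit 396)) (XT.lf (nat_lit 304) (nat_lit 20671073704) (nat_lit 0) (nat_lit 56685763633) (nat_lit 228) (nat_lit 56685763633) (nat_lit 243) (nat_lit 1) (nat_lit 239) (nat_lit 1) (nat_lit 242) (nat_lit 1) (nat_lit 200) (nat_lit 425) (nat_lit 395)))) (XT.nd (nat_lit 78) (nat_lit 228) (nat_lit 0) (XT.lf (nat_lit 304) (nat_lit 124407372256) (nat_lit 0) (nat_lit 3552537546) (nat_lit 228) (nat_lit 3552537546) (nat_lit 239) (nat_lit 1) (nat_lit 235) (nat_lit 1)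 (nat_lit 238) (nat_lit 1) (nat_lit 201) (nat_lit 425) (nat_lit 394)) (XT.nd (nat_lit 78) (nat_lit 228) (nat_lit 0) (XT.lf (nat_lit 76) (nat_lit 47059746122) (nat_lit 0) (nat_lit 34870799344) (nat_lit 304) (nat_lit 47059746122) (nat_lit 236) (nat_lit 1) (nat_lit 235) (nat_lit 1) (nat_lit 239) (nat_lit 1) (nat_lit 202) (nat_lit 425) (nat_lit 393)) (XT.lf (nat_lit 304) (nat_lit 64711459984) (nat_lit 0) (nat_lit 30924998005) (nat_lit 228) (nat_lit 30924998005) (nat_lit 236) (nat_lit 1) (nat_lit 232) (nat_lit 1) (nat_lit 235) (nat_lit 1) (nat_lit 203) (nat_lit 425) (nat_lit 392))))) (XT.nd (nat_lit 234) (nat_lit 380) (nat_lit 0) (XT.nd (nat_lit 78) (nat_lit 456) (nat_lit 0) (XT.lf (nat_lit 76) (nat_lit 17821483303) (nat_lit 0) (nat_lit 88554796269) (nat_lit 304) (nat_lit 17821483303) (nat_lit 233) (nat_lit 1) (nat_lit 232) (nat_lit 1) (nat_lit 236) (nat_lit 1) (nat_lit 204) (nat_lit 425) (nat_lit 391))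 (XT.nd (nat_lit 78) (nat_lit 304) (nat_lit 0) (XT.lf (nat_lit 228) (nat_lit 6530384034) (nat_lit 0) (nat_lit 57674114051) (nat_lit 152) (nat_lit 57674114051) (nat_lit 233) (nat_lit 1) (nat_lit 230) (nat_lit 1) (nat_lit 232) (nat_lit 1) (nat_lit 205) (nat_lit 425) (nat_lit 390)) (XT.lf (nat_lit 304) (nat_lit 98671913030) (nat_lit 0) (nat_lit 10479672371) (nat_lit 228) (nat_lit 10479672371) (nat_lit 230) (nat_lit 1) (nat_lit 226) (nat_lit 1) (nat_lit 229) (nat_lit 1) (nat_lit 206) (nat_lit 425) (nat_lit 389)))) (XT.nd (nat_lit 156) (nat_lit 228) (nat_lit 0) (XT.nd (nat_lit 78) (nat_lit 152) (nat_lit 0) (XT.lf (nat_lit 76) (nat_lit 34463757032) (nat_lit 0) (nat_lit 48481523837) (nat_lit 304) (nat_lit 34463757032) (nat_lit 227) (nat_lit 1) (nat_lit 226) (nat_lit 1) (nat_lit 230) (nat_lit 1) (nat_lit 207) (nat_lit 425) (nat_lit 388)) (XT.lf (nat_lit 228) (nat_lit 39817554990) (nat_lit 0) (nat_lit 37718923422)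 (nat_lit 152) (nat_lit 37718923422) (nat_lit 227) (nat_lit 1) (nat_lit 224) (nat_lit 1) (nat_lit 226) (nat_lit 1) (nat_lit 208) (nat_lit 425) (nat_lit 387))) (XT.nd (nat_lit 78) (nat_lit 228) (nat_lit 0) (XT.lf (nat_lit 76) (nat_lit 5720518819) (nat_lit 0) (nat_lit 101732199043) (nat_lit 228) (nat_lit 5720518819) (nat_lit 225) (nat_lit 1) (nat_lit 224) (nat_lit 1) (nat_lit 227) (nat_lit 1) (nat_lit 209) (nat_lit 425) (nat_lit 386)) (XT.lf (nat_lit 76) (nat_lit 47212445453) (nat_lit 0) (nat_lit 16673749444) (nat_lit 228) (nat_lit 47212445453) (nat_lit 222) (nat_lit 1) (nat_lit 221) (nat_lit 1) (nat_lit 224) (nat_lit 1) (nat_lit 210) (nat_lit 425) (nat_lit 385))))))) (XT.nd (nat_lit 936) (nat_lit 1140) (nat_lit 0) (XT.nd (nat_lit 468) (nat_lit 608) (nat_lit 0) (XT.nd (nat_lit 234) (nat_lit 380) (nat_lit 0) (XT.nd (nat_lit 78) (nat_lit 152) (nat_lit 0) (XT.lf (nat_lit 228) (nat_lit 65562755205) (nat_lit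 0) (nat_lit 21765058369) (nat_lit 152) (nat_lit 21765058369) (nat_lit 222) (nat_lit 1) (nat_lit 219) (nat_lit 1) (nat_lit 221) (nat_lit 1) (nat_lit 211) (nat_lit 425) (nat_lit 384)) (XT.nd (nat_lit 78) (nat_lit 152) (nat_lit 0) (XT.lf (nat_lit 76) (nat_lit 18500103826) (nat_lit 0) (nat_lit 70131227750) (nat_lit 228) (nat_lit 18500103826) (nat_lit 220) (nat_lit 1) (nat_lit 219) (nat_lit 1) (nat_lit 222) (nat_lit 1) (nat_lit 212) (nat_lit 425) (nat_lit 383)) (XT.lf (nat_lit 228) (nat_lit 8666632576) (nat_lit 0) (nat_lit 48271451896) (nat_lit 152) (nat_lit 48271451896) (nat_lit 220) (nat_lit 1) (nat_lit 217) (nat_lit 1) (nat_lit 219) (nat_lit 1) (nat_lit 213) (nat_lit 425) (nat_lit 382)))) (XT.nd (nat_lit 78) (nat_lit 152) (nat_lit 0) (XT.lf (nat_lit 228) (nat_lit 85181263984) (nat_lit 0) (nat_lit 9081030931) (nat_lit 152) (nat_lit 9081030931) (nat_lit 217) (nat_lit 1) (nat_lit 214) (nat_lit 1) (nat_lit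 216) (nat_lit 1) (nat_lit 214) (nat_lit 425) (nat_lit 381)) (XT.nd (nat_lit 78) (nat_lit 152) (nat_lit 0) (XT.lf (nat_lit 76) (nat_lit 28357051521) (nat_lit 0) (nat_lit 44778940184) (nat_lit 228) (nat_lit 28357051521) (nat_lit 215) (nat_lit 1) (nat_lit 214) (nat_lit 1) (nat_lit 217) (nat_lit 1) (nat_lit 215) (nat_lit 425) (nat_lit 380)) (XT.lf (nat_lit 228) (nat_lit 28880280224) (nat_lit 0) (nat_lit 35408098326) (nat_lit 152) (nat_lit 35408098326) (nat_lit 215) (nat_lit 1) (nat_lit 212) (nat_lit 1) (nat_lit 214) (nat_lit 1) (nat_lit 216) (nat_lit 425) (nat_lit 379))))) (XT.nd (nat_lit 234) (nat_lit 304) (nat_lit 0) (XT.nd (nat_lit 78) (nat_lit 304) (nat_lit 0) (XT.lf (nat_lit 76) (nat_lit 949215161) (nat_lit 0) (nat_lit 96064485875) (nat_lit 228) (nat_lit 949215161) (nat_lit 213) (nat_lit 1) (nat_lit 212) (nat_lit 1) (nat_lit 215) (nat_lit 1) (nat_lit 217) (nat_lit 425) (nat_lit 378)) (XT.nd (nat_lit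 78) (nat_lit 152) (nat_lit 0) (XT.lf (nat_lit 76) (nat_lit 35840816769) (nat_lit 0) (nat_lit 24536702577) (nat_lit 152) (nat_lit 35840816769) (nat_lit 211) (nat_lit 1) (nat_lit 210) (nat_lit 1) (nat_lit 212) (nat_lit 1) (nat_lit 218) (nat_lit 425) (nat_lit 377)) (XT.lf (nat_lit 228) (nat_lit 44474373399) (nat_lit 0) (nat_lit 25030382871) (nat_lit 152) (nat_lit 25030382871) (nat_lit 211) (nat_lit 1) (nat_lit 208) (nat_lit 1) (nat_lit 210) (nat_lit 1) (nat_lit 219) (nat_lit 425) (nat_lit 376)))) (XT.nd (nat_lit 78) (nat_lit 304) (nat_lit 0) (XT.lf (nat_lit 76) (nat_lit 8916804493) (nat_lit 0) (nat_lit 75063766937) (nat_lit 228) (nat_lit 8916804493) (nat_lit 209) (nat_lit 1) (nat_lit 208) (nat_lit 1) (nat_lit 211) (nat_lit 1) (nat_lit 220) (nat_lit 425) (nat_lit 375)) (XT.nd (nat_lit 78) (nat_lit 152) (nat_lit 0) (XT.lf (nat_lit 76) (nat_lit 41401947993) (nat_lit 0) (nat_lit 8469222762) (nat_lit 152)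 (nat_lit 41401947993) (nat_lit 207) (nat_lit 1) (nat_lit 206) (nat_lit 1) (nat_lit 208) (nat_lit 1) (nat_lit 221) (nat_lit 425) (nat_lit 374)) (XT.lf (nat_lit 228) (nat_lit 56317267904) (nat_lit 0) (nat_lit 16687846267) (nat_lit 152) (nat_lit 16687846267) (nat_lit 207) (nat_lit 1) (nat_lit 204) (nat_lit 1) (nat_lit 206) (nat_lit 1) (nat_lit 222) (nat_lit 425) (nat_lit 373)))))) (XT.nd (nat_lit 468) (nat_lit 532) (nat_lit 0) (XT.nd (nat_lit 234) (nat_lit 304) (nat_lit 0) (XT.nd (nat_lit 78) (nat_lit 304) (nat_lit 0) (XT.lf (nat_lit 76) (nat_lit 15084336963) (nat_lit 0) (nat_lit 57975410319) (nat_lit 228) (nat_lit 15084336963) (nat_lit 205) (nat_lit 1) (nat_lit 204) (nat_lit 1) (nat_lit 207) (nat_lit 1) (nat_lit 223) (nat_lit 425) (nat_lit 372)) (XT.nd (nat_lit 78) (nat_lit 228) (nat_lit 0) (XT.lf (nat_lit 152) (nat_lit 4330163826) (nat_lit 0) (nat_lit 41147136134) (nat_lit 76) (nat_lit 41147136134)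 (nat_lit 205) (nat_lit 1) (nat_lit 203) (nat_lit 1) (nat_lit 204) (nat_lit 1) (nat_lit 224) (nat_lit 425) (nat_lit 371)) (XT.lf (nat_lit 228) (nat_lit 65121013624) (nat_lit 0) (nat_lit 10010359408) (nat_lit 152) (nat_lit 10010359408) (nat_lit 203) (nat_lit 1) (nat_lit 200) (nat_lit 1) (nat_lit 202) (nat_lit 1) (nat_lit 225) (nat_lit 425) (nat_lit 370)))) (XT.nd (nat_lit 78) (nat_lit 304) (nat_lit 0) (XT.lf (nat_lit 76) (nat_lit 19789406911) (nat_lit 0) (nat_lit 44096764492) (nat_lit 228) (nat_lit 19789406911) (nat_lit 201) (nat_lit 1) (nat_lit 200) (nat_lit 1) (nat_lit 203) (nat_lit 1) (nat_lit 226) (nat_lit 425) (nat_lit 369)) (XT.nd (nat_lit 78) (nat_lit 228) (nat_lit 0) (XT.lf (nat_lit 152) (nat_lit 14541671111) (nat_lit 0) (nat_lit 33851850728) (nat_lit 76) (nat_lit 33851850728) (nat_lit 201) (nat_lit 1) (nat_lit 199) (nat_lit 1) (nat_lit 200) (nat_lit 1) (nat_lit 227) (nat_lit 425) (nat_lit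 368)) (XT.lf (nat_lit 228) (nat_lit 71469179019) (nat_lit 0) (nat_lit 4693858873) (nat_lit 152) (nat_lit 4693858873) (nat_lit 199) (nat_lit 1) (nat_lit 196) (nat_lit 1) (nat_lit 198) (nat_lit 1) (nat_lit 228) (nat_lit 425) (nat_lit 367))))) (XT.nd (nat_lit 234) (nat_lit 228) (nat_lit 0) (XT.nd (nat_lit 78) (nat_lit 304) (nat_lit 0) (XT.lf (nat_lit 76) (nat_lit 23308875527) (nat_lit 0) (nat_lit 32850184845) (nat_lit 228) (nat_lit 23308875527) (nat_lit 197) (nat_lit 1) (nat_lit 196) (nat_lit 1) (nat_lit 199) (nat_lit 1) (nat_lit 229) (nat_lit 425) (nat_lit 366)) (XT.nd (nat_lit 78) (nat_lit 228) (nat_lit 0) (XT.lf (nat_lit 152) (nat_lit 22419882730) (nat_lit 0) (nat_lit 27850001370) (nat_lit 76) (nat_lit 27850001370) (nat_lit 197) (nat_lit 1) (nat_lit 195) (nat_lit 1) (nat_lit 196) (nat_lit 1) (nat_lit 230) (nat_lit 425) (nat_lit 365)) (XT.lf (nat_lit 228) (nat_lit 75839737068) (nat_lit 0) (nat_lit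 488612563) (nat_lit 152) (nat_lit 488612563) (nat_lit 195) (nat_lit 1) (nat_lit 192) (nat_lit 1) (nat_lit 194) (nat_lit 1) (nat_lit 231) (nat_lit 425) (nat_lit 364)))) (XT.nd (nat_lit 156) (nat_lit 152) (nat_lit 0) (XT.nd (nat_lit 78) (nat_lit 76) (nat_lit 0) (XT.lf (nat_lit 76) (nat_lit 25869680520) (nat_lit 0) (nat_lit 23760849862) (nat_lit 228) (nat_lit 25869680520) (nat_lit 193) (nat_lit 1) (nat_lit 192) (nat_lit 1) (nat_lit 195) (nat_lit 1) (nat_lit 232) (nat_lit 425) (nat_lit 363)) (XT.lf (nat_lit 152) (nat_lit 28403382453) (nat_lit 0) (nat_lit 22912265050) (nat_lit 76) (nat_lit 22912265050) (nat_lit 193) (nat_lit 1) (nat_lit 191) (nat_lit 1) (nat_lit 192) (nat_lit 1) (nat_lit 233) (nat_lit 425) (nat_lit 362))) (XT.nd (nat_lit 78) (nat_lit 152) (nat_lit 0) (XT.lf (nat_lit 0) (nat_lit 2856505860) (nat_lit 0) (nat_lit 67281015300) (nat_lit 152) (nat_lit 2856505860) (nat_lit 191) (nat_lit 3)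 (nat_lit 191) (nat_lit 1) (nat_lit 193) (nat_lit 1) (nat_lit 234) (nat_lit 425) (nat_lit 361)) (XT.lf (nat_lit 76) (nat_lit 27657727271) (nat_lit 0) (nat_lit 16438511407) (nat_lit 152) (nat_lit 27657727271) (nat_lit 190) (nat_lit 1) (nat_lit 189) (nat_lit 1) (nat_lit 191) (nat_lit 1) (nat_lit 235) (nat_lit 425) (nat_lit 360))))))))
noncomputable def ec379 : XT := (XT.nd (nat_lit 1950) (nat_lit 1900) (nat_lit 0) (XT.nd (nat_lit 936) (nat_lit 1064) (nat_lit 0) (XT.nd (nat_lit 468) (nat_lit 380) (nat_lit 0) (XT.nd (nat_lit 234) (nat_lit 228) (nat_lit 0) (XT.nd (nat_lit 78) (nat_lit 152) (nat_lit 0) (XT.lf (nat_lit 152) (nat_lit 32851808701) (nat_lit 0) (nat_lit 18849977160) (nat_lit 76) (nat_lit 18849977160) (nat_lit 190) (nat_lit 1) (nat_lit 188) (nat_lit 1) (nat_lit 189) (nat_lit 1) (nat_lit 236) (nat_lit 425) (nat_lit 359)) (XT.nd (nat_lit 78) (nat_lit 152) (nat_lit 0) (XT.lf (nat_lit 0) (nat_lit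 5459653019) (nat_lit 0) (nat_lit 58461856372) (nat_lit 152) (nat_lit 5459653019) (nat_lit 188) (nat_lit 3) (nat_lit 188) (nat_lit 1) (nat_lit 190) (nat_lit 1) (nat_lit 237) (nat_lit 425) (nat_lit 358)) (XT.lf (nat_lit 76) (nat_lit 28825201707) (nat_lit 0) (nat_lit 10562481560) (nat_lit 152) (nat_lit 28825201707) (nat_lit 187) (nat_lit 1) (nat_lit 186) (nat_lit 1) (nat_lit 188) (nat_lit 1) (nat_lit 238) (nat_lit 425) (nat_lit 357)))) (XT.nd (nat_lit 78) (nat_lit 152) (nat_lit 0) (XT.lf (nat_lit 152) (nat_lit 36059907809) (nat_lit 0) (nat_lit 15507922859) (nat_lit 76) (nat_lit 15507922859) (nat_lit 187) (nat_lit 1) (nat_lit 185) (nat_lit 1) (nat_lit 186) (nat_lit 1) (nat_lit 239) (nat_lit 425) (nat_lit 356)) (XT.nd (nat_lit 78) (nat_lit 152) (nat_lit 0) (XT.lf (nat_lit 0) (nat_lit 7453192505) (nat_lit 0) (nat_lit 51058236373) (nat_lit 152) (nat_lit 7453192505) (nat_lit 185) (nat_lit 3) (nat_lit 185)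 (nat_lit 1) (nat_lit 187) (nat_lit 1) (nat_lit 240) (nat_lit 425) (nat_lit 355)) (XT.lf (nat_lit 76) (nat_lit 29496584813) (nat_lit 0) (nat_lit 5869282143) (nat_lit 152) (nat_lit 29496584813) (nat_lit 184) (nat_lit 1) (nat_lit 183) (nat_lit 1) (nat_lit 185) (nat_lit 1) (nat_lit 241) (nat_lit 425) (nat_lit 354))))) (XT.nd (nat_lit 234) (nat_lit 152) (nat_lit 0) (XT.nd (nat_lit 78) (nat_lit 152) (nat_lit 0) (XT.lf (nat_lit 152) (nat_lit 38269093004) (nat_lit 0) (nat_lit 12758406515) (nat_lit 76) (nat_lit 12758406515) (nat_lit 184) (nat_lit 1) (nat_lit 182) (nat_lit 1) (nat_lit 183) (nat_lit 1) (nat_lit 242) (nat_lit 425) (nat_lit 353)) (XT.nd (nat_lit 78) (nat_lit 152) (nat_lit 0) (XT.lf (nat_lit 0) (nat_lit 8952257496) (nat_lit 0) (nat_lit 44826234999) (nat_lit 152) (nat_lit 8952257496) (nat_lit 182) (nat_lit 3) (nat_lit 182) (nat_lit 1) (nat_lit 184) (nat_lit 1) (nat_lit 243) (nat_lit 425) (nat_lit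 352)) (XT.lf (nat_lit 76) (nat_lit 29773599068) (nat_lit 0) (nat_lit 2142484776) (nat_lit 152) (nat_lit 29773599068) (nat_lit 181) (nat_lit 1) (nat_lit 180) (nat_lit 1) (nat_lit 182) (nat_lit 1) (nat_lit 244) (nat_lit 425) (nat_lit 351)))) (XT.nd (nat_lit 78) (nat_lit 76) (nat_lit 0) (XT.lf (nat_lit 152) (nat_lit 39676951435) (nat_lit 0) (nat_lit 10496372614) (nat_lit 76) (nat_lit 10496372614) (nat_lit 181) (nat_lit 1) (nat_lit 179) (nat_lit 1) (nat_lit 180) (nat_lit 1) (nat_lit 245) (nat_lit 425) (nat_lit 350)) (XT.nd (nat_lit 78) (nat_lit 76) (nat_lit 0) (XT.lf (nat_lit 0) (nat_lit 10051232565) (nat_lit 0) (nat_lit 39564842638) (nat_lit 152) (nat_lit 10051232565) (nat_lit 179) (nat_lit 3) (nat_lit 179) (nat_lit 1) (nat_lit 181) (nat_lit 1) (nat_lit 246) (nat_lit 425) (nat_lit 349)) (XT.lf (nat_lit 76) (nat_lit 821954598) (nat_lit 0) (nat_lit 28930154667) (nat_lit 76) (nat_lit 28930154667) (nat_lit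 179) (nat_lit 3) (nat_lit 178) (nat_lit 1) (nat_lit 179) (nat_lit 1) (nat_lit 247) (nat_lit 425) (nat_lit 348)))))) (XT.nd (nat_lit 468) (nat_lit 608) (nat_lit 0) (XT.nd (nat_lit 234) (nat_lit 228) (nat_lit 0) (XT.nd (nat_lit 78) (nat_lit 76) (nat_lit 0) (XT.lf (nat_lit 152) (nat_lit 40445063198) (nat_lit 0) (nat_lit 8635391726) (nat_lit 76) (nat_lit 8635391726) (nat_lit 178) (nat_lit 1) (nat_lit 176) (nat_lit 1) (nat_lit 177) (nat_lit 1) (nat_lit 248) (nat_lit 425) (nat_lit 347)) (XT.nd (nat_lit 78) (nat_lit 76) (nat_lit 0) (XT.lf (nat_lit 0) (nat_lit 10827448352) (nat_lit 0) (nat_lit 35108368399) (nat_lit 152) (nat_lit 10827448352) (nat_lit 176) (nat_lit 3) (nat_lit 176) (nat_lit 1) (nat_lit 178) (nat_lit 1) (nat_lit 249) (nat_lit 425) (nat_lit 346)) (XT.lf (nat_lit 76) (nat_lit 3193236037) (nat_lit 0) (nat_lit 26317921796) (nat_lit 76) (nat_lit 26317921796) (nat_lit 176) (nat_lit 3) (nat_lit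 175) (nat_lit 1) (nat_lit 176) (nat_lit 1) (nat_lit 250) (nat_lit 425) (nat_lit 345)))) (XT.nd (nat_lit 78) (nat_lit 76) (nat_lit 0) (XT.lf (nat_lit 152) (nat_lit 40705431739) (nat_lit 0) (nat_lit 7104358144) (nat_lit 76) (nat_lit 7104358144) (nat_lit 175) (nat_lit 1) (nat_lit 173) (nat_lit 1) (nat_lit 174) (nat_lit 1) (nat_lit 251) (nat_lit 425) (nat_lit 344)) (XT.nd (nat_lit 78) (nat_lit 76) (nat_lit 0) (XT.lf (nat_lit 0) (nat_lit 11344220408) (nat_lit 0) (nat_lit 31320193421) (nat_lit 152) (nat_lit 11344220408) (nat_lit 173) (nat_lit 3) (nat_lit 173) (nat_lit 1) (nat_lit 175) (nat_lit 1) (nat_lit 252) (nat_lit 425) (nat_lit 343)) (XT.lf (nat_lit 76) (nat_lit 5024237433) (nat_lit 0) (nat_lit 24048973635) (nat_lit 76) (nat_lit 24048973635) (nat_lit 173) (nat_lit 3) (nat_lit 172) (nat_lit 1) (nat_lit 173) (nat_lit 1) (nat_lit 253) (nat_lit 425) (nat_lit 342))))) (XT.nd (nat_lit 234) (nat_lit 380)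 (nat_lit 0) (XT.nd (nat_lit 78) (nat_lit 76) (nat_lit 0) (XT.lf (nat_lit 152) (nat_lit 40565771955) (nat_lit 0) (nat_lit 5844773026) (nat_lit 76) (nat_lit 5844773026) (nat_lit 172) (nat_lit 1) (nat_lit 170) (nat_lit 1) (nat_lit 171) (nat_lit 1) (nat_lit 254) (nat_lit 425) (nat_lit 341)) (XT.nd (nat_lit 78) (nat_lit 76) (nat_lit 0) (XT.lf (nat_lit 0) (nat_lit 11653348541) (nat_lit 0) (nat_lit 28087630975) (nat_lit 152) (nat_lit 11653348541) (nat_lit 170) (nat_lit 3) (nat_lit 170) (nat_lit 1) (nat_lit 172) (nat_lit 1) (nat_lit 255) (nat_lit 425) (nat_lit 340)) (XT.lf (nat_lit 76) (nat_lit 6416456611) (nat_lit 0) (nat_lit 22068154167) (nat_lit 76) (nat_lit 22068154167) (nat_lit 170) (nat_lit 3) (nat_lit 169) (nat_lit 1) (nat_lit 170) (nat_lit 1) (nat_lit 256) (nat_lit 425) (nat_lit 339)))) (XT.nd (nat_lit 156) (nat_lit 228) (nat_lit 0) (XT.nd (nat_lit 78) (nat_lit 0) (nat_lit 0) (XT.lf (nat_lit 152)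 (nat_lit 40113858623) (nat_lit 0) (nat_lit 4808509233) (nat_lit 76) (nat_lit 4808509233) (nat_lit 169) (nat_lit 1) (nat_lit 167) (nat_lit 1) (nat_lit 168) (nat_lit 1) (nat_lit 257) (nat_lit 425) (nat_lit 338)) (XT.lf (nat_lit 0) (nat_lit 11797172338) (nat_lit 0) (nat_lit 25317697168) (nat_lit 152) (nat_lit 11797172338) (nat_lit 167) (nat_lit 3) (nat_lit 167) (nat_lit 1) (nat_lit 169) (nat_lit 1) (nat_lit 258) (nat_lit 425) (nat_lit 337))) (XT.nd (nat_lit 78) (nat_lit 152) (nat_lit 0) (XT.lf (nat_lit 76) (nat_lit 7453124295) (nat_lit 0) (nat_lit 20329814610) (nat_lit 76) (nat_lit 20329814610) (nat_lit 167) (nat_lit 3) (nat_lit 166) (nat_lit 1) (nat_lit 167) (nat_lit 1) (nat_lit 259) (nat_lit 425) (nat_lit 336)) (XT.lf (nat_lit 152) (nat_lit 39421101852) (nat_lit 0) (nat_lit 3955972446) (nat_lit 76) (nat_lit 3955972446) (nat_lit 166) (nat_lit 1) (nat_lit 164) (nat_lit 1) (nat_lit 165) (nat_lit 1)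 (nat_lit 260) (nat_lit 425) (nat_lit 335))))))) (XT.nd (nat_lit 1014) (nat_lit 988) (nat_lit 0) (XT.nd (nat_lit 468) (nat_lit 456) (nat_lit 0) (XT.nd (nat_lit 234) (nat_lit 228) (nat_lit 0) (XT.nd (nat_lit 78) (nat_lit 228) (nat_lit 0) (XT.lf (nat_lit 0) (nat_lit 11810261596) (nat_lit 0) (nat_lit 22933630834) (nat_lit 152) (nat_lit 11810261596) (nat_lit 164) (nat_lit 3) (nat_lit 164) (nat_lit 1) (nat_lit 166) (nat_lit 1) (nat_lit 261) (nat_lit 425) (nat_lit 334)) (XT.nd (nat_lit 78) (nat_lit 152) (nat_lit 0) (XT.lf (nat_lit 76) (nat_lit 8202455767) (nat_lit 0) (nat_lit 18796140756) (nat_lit 76) (nat_lit 18796140756) (nat_lit 164) (nat_lit 3) (nat_lit 163) (nat_lit 1) (nat_lit 164) (nat_lit 1) (nat_lit 262) (nat_lit 425) (nat_lit 333)) (XT.lf (nat_lit 152) (nat_lit 38545486710) (nat_lit 0) (nat_lit 3254588322) (nat_lit 76) (nat_lit 3254588322) (nat_lit 163) (nat_lit 1) (nat_lit 161) (nat_lit 1)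 (nat_lit 162) (nat_lit 1) (nat_lit 263) (nat_lit 425) (nat_lit 332)))) (XT.nd (nat_lit 78) (nat_lit 228) (nat_lit 0) (XT.lf (nat_lit 0) (nat_lit 11720806412) (nat_lit 0) (nat_lit 20872029812) (nat_lit 152) (nat_lit 11720806412) (nat_lit 161) (nat_lit 3) (nat_lit 161) (nat_lit 1) (nat_lit 163) (nat_lit 1) (nat_lit 264) (nat_lit 425) (nat_lit 331)) (XT.nd (nat_lit 78) (nat_lit 152) (nat_lit 0) (XT.lf (nat_lit 76) (nat_lit 8720325387) (nat_lit 0) (nat_lit 17435776244) (nat_lit 76) (nat_lit 17435776244) (nat_lit 161) (nat_lit 3) (nat_lit 160) (nat_lit 1) (nat_lit 161) (nat_lit 1) (nat_lit 265) (nat_lit 425) (nat_lit 330)) (XT.lf (nat_lit 152) (nat_lit 37533989838) (nat_lit 0) (nat_lit 2677557867) (nat_lit 76) (nat_lit 2677557867) (nat_lit 160) (nat_lit 1) (nat_lit 158) (nat_lit 1) (nat_lit 159) (nat_lit 1) (nat_lit 266) (nat_lit 425) (nat_lit 329))))) (XT.nd (nat_lit 234) (nat_lit 228) (nat_lit 0)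 (XT.nd (nat_lit 78) (nat_lit 228) (nat_lit 0) (XT.lf (nat_lit 0) (nat_lit 11551760222) (nat_lit 0) (nat_lit 19080494361) (nat_lit 152) (nat_lit 11551760222) (nat_lit 158) (nat_lit 3) (nat_lit 158) (nat_lit 1) (nat_lit 160) (nat_lit 1) (nat_lit 267) (nat_lit 425) (nat_lit 328)) (XT.nd (nat_lit 78) (nat_lit 152) (nat_lit 0) (XT.lf (nat_lit 76) (nat_lit 9052466351) (nat_lit 0) (nat_lit 16222689340) (nat_lit 76) (nat_lit 16222689340) (nat_lit 158) (nat_lit 3) (nat_lit 157) (nat_lit 1) (nat_lit 158) (nat_lit 1) (nat_lit 268) (nat_lit 425) (nat_lit 327)) (XT.lf (nat_lit 152) (nat_lit 36424565881) (nat_lit 0) (nat_lit 2202833483) (nat_lit 76) (nat_lit 2202833483) (nat_lit 157) (nat_lit 1) (nat_lit 155) (nat_lit 1) (nat_lit 156) (nat_lit 1) (nat_lit 269) (nat_lit 425) (nat_lit 326)))) (XT.nd (nat_lit 156) (nat_lit 152) (nat_lit 0) (XT.nd (nat_lit 78) (nat_lit 76) (nat_lit 0) (XT.lf (nat_lit 0) (nat_lit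 11321779609) (nat_lit 0) (nat_lit 17515687817) (nat_lit 152) (nat_lit 11321779609) (nat_lit 155) (nat_lit 3) (nat_lit 155) (nat_lit 1) (nat_lit 157) (nat_lit 1) (nat_lit 270) (nat_lit 425) (nat_lit 325)) (XT.lf (nat_lit 76) (nat_lit 9236279874) (nat_lit 0) (nat_lit 15135240072) (nat_lit 76) (nat_lit 15135240072) (nat_lit 155) (nat_lit 3) (nat_lit 154) (nat_lit 1) (nat_lit 155) (nat_lit 1) (nat_lit 271) (nat_lit 425) (nat_lit 324))) (XT.nd (nat_lit 78) (nat_lit 0) (nat_lit 0) (XT.lf (nat_lit 152) (nat_lit 35247780068) (nat_lit 0) (nat_lit 1812276558) (nat_lit 76) (nat_lit 1812276558) (nat_lit 154) (nat_lit 1) (nat_lit 152) (nat_lit 1) (nat_lit 153) (nat_lit 1) (nat_lit 272) (nat_lit 425) (nat_lit 323)) (XT.lf (nat_lit 0) (nat_lit 11045996947) (nat_lit 0) (nat_lit 16141740558) (nat_lit 152) (nat_lit 11045996947) (nat_lit 152) (nat_lit 3) (nat_lit 152) (nat_lit 1) (nat_lit 154) (nat_lit 1) (nat_lit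 273) (nat_lit 425) (nat_lit 322)))))) (XT.nd (nat_lit 468) (nat_lit 532) (nat_lit 0) (XT.nd (nat_lit 234) (nat_lit 228) (nat_lit 0) (XT.nd (nat_lit 78) (nat_lit 152) (nat_lit 0) (XT.lf (nat_lit 76) (nat_lit 9302323076) (nat_lit 0) (nat_lit 14155412229) (nat_lit 76) (nat_lit 14155412229) (nat_lit 152) (nat_lit 3) (nat_lit 151) (nat_lit 1) (nat_lit 152) (nat_lit 1) (nat_lit 274) (nat_lit 425) (nat_lit 321)) (XT.nd (nat_lit 78) (nat_lit 0) (nat_lit 0) (XT.lf (nat_lit 152) (nat_lit 34028149772) (nat_lit 0) (nat_lit 1490964409) (nat_lit 76) (nat_lit 1490964409) (nat_lit 151) (nat_lit 1) (nat_lit 149) (nat_lit 1) (nat_lit 150) (nat_lit 1) (nat_lit 275) (nat_lit 425) (nat_lit 320)) (XT.lf (nat_lit 0) (nat_lit 10736655543) (nat_lit 0) (nat_lit 14928936423) (nat_lit 152) (nat_lit 10736655543) (nat_lit 149) (nat_lit 3) (nat_lit 149) (nat_lit 1) (nat_lit 151) (nat_lit 1) (nat_lit 276) (nat_lit 425) (nat_lit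 319)))) (XT.nd (nat_lit 78) (nat_lit 152) (nat_lit 0) (XT.lf (nat_lit 76) (nat_lit 9275532564) (nat_lit 0) (nat_lit 13268181021) (nat_lit 76) (nat_lit 13268181021) (nat_lit 149) (nat_lit 3) (nat_lit 148) (nat_lit 1) (nat_lit 149) (nat_lit 1) (nat_lit 277) (nat_lit 425) (nat_lit 318)) (XT.nd (nat_lit 78) (nat_lit 0) (nat_lit 0) (XT.lf (nat_lit 152) (nat_lit 32785246725) (nat_lit 0) (nat_lit 1226620109) (nat_lit 76) (nat_lit 1226620109) (nat_lit 148) (nat_lit 1) (nat_lit 146) (nat_lit 1) (nat_lit 147) (nat_lit 1) (nat_lit 278) (nat_lit 425) (nat_lit 317)) (XT.lf (nat_lit 0) (nat_lit 10403631675) (nat_lit 0) (nat_lit 13852631530) (nat_lit 152) (nat_lit 10403631675) (nat_lit 146) (nat_lit 3) (nat_lit 146) (nat_lit 1) (nat_lit 148) (nat_lit 1) (nat_lit 279) (nat_lit 425) (nat_lit 316))))) (XT.nd (nat_lit 234) (nat_lit 304) (nat_lit 0) (XT.nd (nat_lit 78) (nat_lit 152) (nat_lit 0) (XT.lf (nat_lit 76)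 (nat_lit 9176230594) (nat_lit 0) (nat_lit 12460992360) (nat_lit 76) (nat_lit 12460992360) (nat_lit 146) (nat_lit 3) (nat_lit 145) (nat_lit 1) (nat_lit 146) (nat_lit 1) (nat_lit 280) (nat_lit 425) (nat_lit 315)) (XT.nd (nat_lit 78) (nat_lit 0) (nat_lit 0) (XT.lf (nat_lit 152) (nat_lit 31534602375) (nat_lit 0) (nat_lit 1009143399) (nat_lit 76) (nat_lit 1009143399) (nat_lit 145) (nat_lit 1) (nat_lit 143) (nat_lit 1) (nat_lit 144) (nat_lit 1) (nat_lit 281) (nat_lit 425) (nat_lit 314)) (XT.lf (nat_lit 0) (nat_lit 10054863610) (nat_lit 0) (nat_lit 12892364326) (nat_lit 152) (nat_lit 10054863610) (nat_lit 143) (nat_lit 3) (nat_lit 143) (nat_lit 1) (nat_lit 145) (nat_lit 1) (nat_lit 282) (nat_lit 425) (nat_lit 313)))) (XT.nd (nat_lit 156) (nat_lit 76) (nat_lit 0) (XT.nd (nat_lit 78) (nat_lit 152) (nat_lit 0) (XT.lf (nat_lit 76) (nat_lit 9020952379) (nat_lit 0) (nat_lit 11723334014) (nat_lit 76) (nat_lit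 11723334014) (nat_lit 143) (nat_lit 3) (nat_lit 142) (nat_lit 1) (nat_lit 143) (nat_lit 1) (nat_lit 283) (nat_lit 425) (nat_lit 312)) (XT.lf (nat_lit 152) (nat_lit 30288451375) (nat_lit 0) (nat_lit 830224772) (nat_lit 76) (nat_lit 830224772) (nat_lit 142) (nat_lit 1) (nat_lit 140) (nat_lit 1) (nat_lit 141) (nat_lit 1) (nat_lit 284) (nat_lit 425) (nat_lit 311))) (XT.nd (nat_lit 78) (nat_lit 76) (nat_lit 0) (XT.lf (nat_lit 0) (nat_lit 9696704113) (nat_lit 0) (nat_lit 12031122974) (nat_lit 152) (nat_lit 9696704113) (nat_lit 140) (nat_lit 3) (nat_lit 140) (nat_lit 1) (nat_lit 142) (nat_lit 1) (nat_lit 285) (nat_lit 425) (nat_lit 310)) (XT.lf (nat_lit 76) (nat_lit 8823126286) (nat_lit 0) (nat_lit 11046382344) (nat_lit 76) (nat_lit 11046382344) (nat_lit 140) (nat_lit 3) (nat_lit 139) (nat_lit 1) (nat_lit 140) (nat_lit 1) (nat_lit 286) (nat_lit 425) (nat_lit 309))))))))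
noncomputable def ec380 : XT := (XT.nd (nat_lit 1950) (nat_lit 1824) (nat_lit 0) (XT.nd (nat_lit 936) (nat_lit 1064) (nat_lit 0) (XT.nd (nat_lit 468) (nat_lit 456) (nat_lit 0) (XT.nd (nat_lit 234) (nat_lit 228) (nat_lit 0) (XT.nd (nat_lit 78) (nat_lit 76) (nat_lit 0) (XT.lf (nat_lit 152) (nat_lit 29056341960) (nat_lit 0) (nat_lit 683027974) (nat_lit 76) (nat_lit 683027974) (nat_lit 139) (nat_lit 1) (nat_lit 137) (nat_lit 1) (nat_lit 138) (nat_lit 1) (nat_lit 287) (nat_lit 425) (nat_lit 308)) (XT.nd (nat_lit 78) (nat_lit 76) (nat_lit 0) (XT.lf (nat_lit 0) (nat_lit 9334210030) (nat_lit 0) (nat_lit 11254742205) (nat_lit 152) (nat_lit 9334210030) (nat_lit 137) (nat_lit 3) (nat_lit 137) (nat_lit 1) (nat_lit 139) (nat_lit 1) (nat_lit 288) (nat_lit 425) (nat_lit 307)) (XT.lf (nat_lit 76) (nat_lit 8593633010) (nat_lit 0) (nat_lit 10422711272) (nat_lit 76) (nat_lit 10422711272) (nat_lit 137) (nat_lit 3)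 (nat_lit 136) (nat_lit 1) (nat_lit 137) (nat_lit 1) (nat_lit 289) (nat_lit 425) (nat_lit 306)))) (XT.nd (nat_lit 78) (nat_lit 76) (nat_lit 0) (XT.lf (nat_lit 152) (nat_lit 27845636874) (nat_lit 0) (nat_lit 561928805) (nat_lit 76) (nat_lit 561928805) (nat_lit 136) (nat_lit 1) (nat_lit 134) (nat_lit 1) (nat_lit 135) (nat_lit 1) (nat_lit 290) (nat_lit 425) (nat_lit 305)) (XT.nd (nat_lit 78) (nat_lit 76) (nat_lit 0) (XT.lf (nat_lit 0) (nat_lit 8971380130) (nat_lit 0) (nat_lit 10551406703) (nat_lit 152) (nat_lit 8971380130) (nat_lit 134) (nat_lit 3) (nat_lit 134) (nat_lit 1) (nat_lit 136) (nat_lit 1) (nat_lit 291) (nat_lit 425) (nat_lit 304)) (XT.lf (nat_lit 76) (nat_lit 8341265220) (nat_lit 0) (nat_lit 9846052433) (nat_lit 76) (nat_lit 9846052433) (nat_lit 134) (nat_lit 3) (nat_lit 133) (nat_lit 1) (nat_lit 134) (nat_lit 1) (nat_lit 292) (nat_lit 425) (nat_lit 303))))) (XT.nd (nat_lit 234) (nat_lit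 228) (nat_lit 0) (XT.nd (nat_lit 78) (nat_lit 76) (nat_lit 0) (XT.lf (nat_lit 152) (nat_lit 26661924306) (nat_lit 0) (nat_lit 462300218) (nat_lit 76) (nat_lit 462300218) (nat_lit 133) (nat_lit 1) (nat_lit 131) (nat_lit 1) (nat_lit 132) (nat_lit 1) (nat_lit 293) (nat_lit 425) (nat_lit 302)) (XT.nd (nat_lit 78) (nat_lit 76) (nat_lit 0) (XT.lf (nat_lit 0) (nat_lit 8611350385) (nat_lit 0) (nat_lit 9911242157) (nat_lit 152) (nat_lit 8611350385) (nat_lit 131) (nat_lit 3) (nat_lit 131) (nat_lit 1) (nat_lit 133) (nat_lit 1) (nat_lit 294) (nat_lit 425) (nat_lit 301)) (XT.lf (nat_lit 76) (nat_lit 8073105326) (nat_lit 0) (nat_lit 9311097490) (nat_lit 76) (nat_lit 9311097490) (nat_lit 131) (nat_lit 3) (nat_lit 130) (nat_lit 1) (nat_lit 131) (nat_lit 1) (nat_lit 295) (nat_lit 425) (nat_lit 300)))) (XT.nd (nat_lit 78) (nat_lit 76) (nat_lit 0) (XT.lf (nat_lit 152) (nat_lit 25509354859) (nat_lit 0) (nat_lit 380335534)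 (nat_lit 76) (nat_lit 380335534) (nat_lit 130) (nat_lit 1) (nat_lit 128) (nat_lit 1) (nat_lit 129) (nat_lit 1) (nat_lit 296) (nat_lit 425) (nat_lit 299)) (XT.nd (nat_lit 78) (nat_lit 76) (nat_lit 0) (XT.lf (nat_lit 0) (nat_lit 8256554273) (nat_lit 0) (nat_lit 9325978451) (nat_lit 152) (nat_lit 8256554273) (nat_lit 128) (nat_lit 3) (nat_lit 128) (nat_lit 1) (nat_lit 130) (nat_lit 1) (nat_lit 297) (nat_lit 425) (nat_lit 298)) (XT.lf (nat_lit 76) (nat_lit 7794835908) (nat_lit 0) (nat_lit 8813335125) (nat_lit 76) (nat_lit 8813335125) (nat_lit 128) (nat_lit 3) (nat_lit 127) (nat_lit 1) (nat_lit 128) (nat_lit 1) (nat_lit 298) (nat_lit 425) (nat_lit 297)))))) (XT.nd (nat_lit 468) (nat_lit 608) (nat_lit 0) (XT.nd (nat_lit 234) (nat_lit 228) (nat_lit 0) (XT.nd (nat_lit 78) (nat_lit 76) (nat_lit 0) (XT.lf (nat_lit 152) (nat_lit 24390917707) (nat_lit 0) (nat_lit 312902985) (nat_lit 76) (nat_lit 312902985)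 (nat_lit 127) (nat_lit 1) (nat_lit 125) (nat_lit 1) (nat_lit 126) (nat_lit 1) (nat_lit 299) (nat_lit 425) (nat_lit 296)) (XT.nd (nat_lit 78) (nat_lit 76) (nat_lit 0) (XT.lf (nat_lit 0) (nat_lit 7908854300) (nat_lit 0) (nat_lit 8788672218) (nat_lit 152) (nat_lit 7908854300) (nat_lit 125) (nat_lit 3) (nat_lit 125) (nat_lit 1) (nat_lit 127) (nat_lit 1) (nat_lit 300) (nat_lit 425) (nat_lit 295)) (XT.lf (nat_lit 76) (nat_lit 7510994771) (nat_lit 0) (nat_lit 8348916597) (nat_lit 76) (nat_lit 8348916597) (nat_lit 125) (nat_lit 3) (nat_lit 124) (nat_lit 1) (nat_lit 125) (nat_lit 1) (nat_lit 301) (nat_lit 425) (nat_lit 294)))) (XT.nd (nat_lit 78) (nat_lit 76) (nat_lit 0) (XT.lf (nat_lit 152) (nat_lit 23308666773) (nat_lit 0) (nat_lit 257426060) (nat_lit 76) (nat_lit 257426060) (nat_lit 124) (nat_lit 1) (nat_lit 122) (nat_lit 1) (nat_lit 123) (nat_lit 1) (nat_lit 302) (nat_lit 425) (nat_lit 293)) (XT.nd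 (nat_lit 78) (nat_lit 76) (nat_lit 0) (XT.lf (nat_lit 0) (nat_lit 7569649879) (nat_lit 0) (nat_lit 8293478257) (nat_lit 152) (nat_lit 7569649879) (nat_lit 122) (nat_lit 3) (nat_lit 122) (nat_lit 1) (nat_lit 124) (nat_lit 1) (nat_lit 303) (nat_lit 425) (nat_lit 292)) (XT.lf (nat_lit 76) (nat_lit 7225184442) (nat_lit 0) (nat_lit 7914544802) (nat_lit 76) (nat_lit 7914544802) (nat_lit 122) (nat_lit 3) (nat_lit 121) (nat_lit 1) (nat_lit 122) (nat_lit 1) (nat_lit 304) (nat_lit 425) (nat_lit 291))))) (XT.nd (nat_lit 234) (nat_lit 380) (nat_lit 0) (XT.nd (nat_lit 78) (nat_lit 76) (nat_lit 0) (XT.lf (nat_lit 152) (nat_lit 22263905850) (nat_lit 0) (nat_lit 211785056) (nat_lit 76) (nat_lit 211785056) (nat_lit 121) (nat_lit 1) (nat_lit 119) (nat_lit 1) (nat_lit 120) (nat_lit 1) (nat_lit 305) (nat_lit 425) (nat_lit 290)) (XT.nd (nat_lit 78) (nat_lit 76) (nat_lit 0) (XT.lf (nat_lit 0) (nat_lit 7239965758) (nat_lit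 0) (nat_lit 7835461156) (nat_lit 152) (nat_lit 7239965758) (nat_lit 119) (nat_lit 3) (nat_lit 119) (nat_lit 1) (nat_lit 121) (nat_lit 1) (nat_lit 306) (nat_lit 425) (nat_lit 289)) (XT.lf (nat_lit 76) (nat_lit 6940244222) (nat_lit 0) (nat_lit 7507382696) (nat_lit 76) (nat_lit 7507382696) (nat_lit 119) (nat_lit 3) (nat_lit 118) (nat_lit 1) (nat_lit 119) (nat_lit 1) (nat_lit 307) (nat_lit 425) (nat_lit 288)))) (XT.nd (nat_lit 156) (nat_lit 228) (nat_lit 0) (XT.nd (nat_lit 78) (nat_lit 0) (nat_lit 0) (XT.lf (nat_lit 152) (nat_lit 21257339977) (nat_lit 0) (nat_lit 174236090) (nat_lit 76) (nat_lit 174236090) (nat_lit 118) (nat_lit 1) (nat_lit 116) (nat_lit 1) (nat_lit 117) (nat_lit 1) (nat_lit 308) (nat_lit 425) (nat_lit 287)) (XT.lf (nat_lit 0) (nat_lit 6920524480) (nat_lit 0) (nat_lit 7410440017) (nat_lit 152) (nat_lit 6920524480) (nat_lit 116) (nat_lit 3) (nat_lit 116) (nat_lit 1) (nat_lit 118) (nat_lit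 1) (nat_lit 309) (nat_lit 425) (nat_lit 286))) (XT.nd (nat_lit 78) (nat_lit 152) (nat_lit 0) (XT.lf (nat_lit 76) (nat_lit 6658391431) (nat_lit 0) (nat_lit 7124977657) (nat_lit 76) (nat_lit 7124977657) (nat_lit 116) (nat_lit 3) (nat_lit 115) (nat_lit 1) (nat_lit 116) (nat_lit 1) (nat_lit 310) (nat_lit 425) (nat_lit 285)) (XT.lf (nat_lit 152) (nat_lit 20289199098) (nat_lit 0) (nat_lit 143344462) (nat_lit 76) (nat_lit 143344462) (nat_lit 115) (nat_lit 1) (nat_lit 113) (nat_lit 1) (nat_lit 114) (nat_lit 1) (nat_lit 311) (nat_lit 425) (nat_lit 284))))))) (XT.nd (nat_lit 936) (nat_lit 912) (nat_lit 0) (XT.nd (nat_lit 468) (nat_lit 456) (nat_lit 0) (XT.nd (nat_lit 234) (nat_lit 228) (nat_lit 0) (XT.nd (nat_lit 78) (nat_lit 228) (nat_lit 0) (XT.lf (nat_lit 0) (nat_lit 6611805695) (nat_lit 0) (nat_lit 7014860420) (nat_lit 152) (nat_lit 6611805695) (nat_lit 113) (nat_lit 3) (nat_lit 113) (nat_lit 1) (nat_lit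 115) (nat_lit 1) (nat_lit 312) (nat_lit 425) (nat_lit 283)) (XT.nd (nat_lit 78) (nat_lit 152) (nat_lit 0) (XT.lf (nat_lit 76) (nat_lit 6381337331) (nat_lit 0) (nat_lit 6765198974) (nat_lit 76) (nat_lit 6765198974) (nat_lit 113) (nat_lit 3) (nat_lit 112) (nat_lit 1) (nat_lit 113) (nat_lit 1) (nat_lit 313) (nat_lit 425) (nat_lit 282)) (XT.lf (nat_lit 152) (nat_lit 19359338967) (nat_lit 0) (nat_lit 117929844) (nat_lit 76) (nat_lit 117929844) (nat_lit 112) (nat_lit 1) (nat_lit 110) (nat_lit 1) (nat_lit 111) (nat_lit 1) (nat_lit 314) (nat_lit 425) (nat_lit 281)))) (XT.nd (nat_lit 78) (nat_lit 228) (nat_lit 0) (XT.lf (nat_lit 0) (nat_lit 6314094698) (nat_lit 0) (nat_lit 6645688818) (nat_lit 152) (nat_lit 6314094698) (nat_lit 110) (nat_lit 3) (nat_lit 110) (nat_lit 1) (nat_lit 112) (nat_lit 1) (nat_lit 315) (nat_lit 425) (nat_lit 280)) (XT.nd (nat_lit 78) (nat_lit 152) (nat_lit 0) (XT.lf (nat_lit 76)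 (nat_lit 6110382227) (nat_lit 0) (nat_lit 6426186151) (nat_lit 76) (nat_lit 6426186151) (nat_lit 110) (nat_lit 3) (nat_lit 109) (nat_lit 1) (nat_lit 110) (nat_lit 1) (nat_lit 316) (nat_lit 425) (nat_lit 279)) (XT.lf (nat_lit 152) (nat_lit 18467323372) (nat_lit 0) (nat_lit 97021174) (nat_lit 76) (nat_lit 97021174) (nat_lit 109) (nat_lit 1) (nat_lit 107) (nat_lit 1) (nat_lit 108) (nat_lit 1) (nat_lit 317) (nat_lit 425) (nat_lit 278))))) (XT.nd (nat_lit 234) (nat_lit 228) (nat_lit 0) (XT.nd (nat_lit 78) (nat_lit 228) (nat_lit 0) (XT.lf (nat_lit 0) (nat_lit 6027522086) (nat_lit 0) (nat_lit 6300325389) (nat_lit 152) (nat_lit 6027522086) (nat_lit 107) (nat_lit 3) (nat_lit 107) (nat_lit 1) (nat_lit 109) (nat_lit 1) (nat_lit 318) (nat_lit 425) (nat_lit 277)) (XT.nd (nat_lit 78) (nat_lit 152) (nat_lit 0) (XT.lf (nat_lit 76) (nat_lit 5846493449) (nat_lit 0) (nat_lit 6106306119) (nat_lit 76) (nat_lit 6106306119)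 (nat_lit 107) (nat_lit 3) (nat_lit 106) (nat_lit 1) (nat_lit 107) (nat_lit 1) (nat_lit 319) (nat_lit 425) (nat_lit 276)) (XT.lf (nat_lit 152) (nat_lit 17612491016) (nat_lit 0) (nat_lit 79819560) (nat_lit 76) (nat_lit 79819560) (nat_lit 106) (nat_lit 1) (nat_lit 104) (nat_lit 1) (nat_lit 105) (nat_lit 1) (nat_lit 320) (nat_lit 425) (nat_lit 275)))) (XT.nd (nat_lit 78) (nat_lit 228) (nat_lit 0) (XT.lf (nat_lit 0) (nat_lit 5752096148) (nat_lit 0) (nat_lit 5976532101) (nat_lit 152) (nat_lit 5752096148) (nat_lit 104) (nat_lit 3) (nat_lit 104) (nat_lit 1) (nat_lit 106) (nat_lit 1) (nat_lit 321) (nat_lit 425) (nat_lit 274)) (XT.nd (nat_lit 78) (nat_lit 152) (nat_lit 0) (XT.lf (nat_lit 76) (nat_lit 5590369266) (nat_lit 0) (nat_lit 5804117793) (nat_lit 76) (nat_lit 5804117793) (nat_lit 104) (nat_lit 3) (nat_lit 103) (nat_lit 1) (nat_lit 104) (nat_lit 1) (nat_lit 322) (nat_lit 425) (nat_lit 273)) (XT.lf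 (nat_lit 152) (nat_lit 16794009826) (nat_lit 0) (nat_lit 65667750) (nat_lit 76) (nat_lit 65667750) (nat_lit 103) (nat_lit 1) (nat_lit 101) (nat_lit 1) (nat_lit 102) (nat_lit 1) (nat_lit 323) (nat_lit 425) (nat_lit 272)))))) (XT.nd (nat_lit 468) (nat_lit 456) (nat_lit 0) (XT.nd (nat_lit 234) (nat_lit 228) (nat_lit 0) (XT.nd (nat_lit 78) (nat_lit 228) (nat_lit 0) (XT.lf (nat_lit 0) (nat_lit 5487729271) (nat_lit 0) (nat_lit 5672373284) (nat_lit 152) (nat_lit 5487729271) (nat_lit 101) (nat_lit 3) (nat_lit 101) (nat_lit 1) (nat_lit 103) (nat_lit 1) (nat_lit 324) (nat_lit 425) (nat_lit 271)) (XT.nd (nat_lit 78) (nat_lit 152) (nat_lit 0) (XT.lf (nat_lit 76) (nat_lit 5342491237) (nat_lit 0) (nat_lit 5518342679) (nat_lit 76) (nat_lit 5518342679) (nat_lit 101) (nat_lit 3) (nat_lit 100) (nat_lit 1) (nat_lit 101) (nat_lit 1) (nat_lit 325) (nat_lit 425) (nat_lit 270)) (XT.lf (nat_lit 152) (nat_lit 16010920951)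 (nat_lit 0) (nat_lit 54025020) (nat_lit 76) (nat_lit 54025020) (nat_lit 100) (nat_lit 1) (nat_lit 98) (nat_lit 1) (nat_lit 99) (nat_lit 1) (nat_lit 326) (nat_lit 425) (nat_lit 269)))) (XT.nd (nat_lit 78) (nat_lit 228) (nat_lit 0) (XT.lf (nat_lit 0) (nat_lit 5234259437) (nat_lit 0) (nat_lit 5386166524) (nat_lit 152) (nat_lit 5234259437) (nat_lit 98) (nat_lit 3) (nat_lit 98) (nat_lit 1) (nat_lit 100) (nat_lit 1) (nat_lit 327) (nat_lit 425) (nat_lit 268)) (XT.nd (nat_lit 78) (nat_lit 152) (nat_lit 0) (XT.lf (nat_lit 76) (nat_lit 5103167054) (nat_lit 0) (nat_lit 5247840470) (nat_lit 76) (nat_lit 5247840470) (nat_lit 98) (nat_lit 3) (nat_lit 97) (nat_lit 1) (nat_lit 98) (nat_lit 1) (nat_lit 328) (nat_lit 425) (nat_lit 267)) (XT.lf (nat_lit 152) (nat_lit 15262174295) (nat_lit 0) (nat_lit 44446518) (nat_lit 76) (nat_lit 44446518) (nat_lit 97) (nat_lit 1) (nat_lit 95) (nat_lit 1) (nat_lit 96) (nat_lit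 1) (nat_lit 329) (nat_lit 425) (nat_lit 266))))) (XT.nd (nat_lit 234) (nat_lit 228) (nat_lit 0) (XT.nd (nat_lit 78) (nat_lit 228) (nat_lit 0) (XT.lf (nat_lit 0) (nat_lit 4991467703) (nat_lit 0) (nat_lit 5116442039) (nat_lit 152) (nat_lit 4991467703) (nat_lit 95) (nat_lit 3) (nat_lit 95) (nat_lit 1) (nat_lit 97) (nat_lit 1) (nat_lit 330) (nat_lit 425) (nat_lit 265)) (XT.nd (nat_lit 78) (nat_lit 152) (nat_lit 0) (XT.lf (nat_lit 76) (nat_lit 4872565586) (nat_lit 0) (nat_lit 4991588763) (nat_lit 76) (nat_lit 4991588763) (nat_lit 95) (nat_lit 3) (nat_lit 94) (nat_lit 1) (nat_lit 95) (nat_lit 1) (nat_lit 331) (nat_lit 425) (nat_lit 264)) (XT.lf (nat_lit 152) (nat_lit 14546657140) (nat_lit 0) (nat_lit 36566260) (nat_lit 76) (nat_lit 36566260) (nat_lit 94) (nat_lit 1) (nat_lit 92) (nat_lit 1) (nat_lit 93) (nat_lit 1) (nat_lit 332) (nat_lit 425) (nat_lit 263)))) (XT.nd (nat_lit 156) (nat_lit 152) (nat_lit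 0) (XT.nd (nat_lit 78) (nat_lit 76) (nat_lit 0) (XT.lf (nat_lit 0) (nat_lit 4759092365) (nat_lit 0) (nat_lit 4861909061) (nat_lit 152) (nat_lit 4759092365) (nat_lit 92) (nat_lit 3) (nat_lit 92) (nat_lit 1) (nat_lit 94) (nat_lit 1) (nat_lit 333) (nat_lit 425) (nat_lit 262)) (XT.lf (nat_lit 76) (nat_lit 4650745500) (nat_lit 0) (nat_lit 4748666163) (nat_lit 76) (nat_lit 4748666163) (nat_lit 92) (nat_lit 3) (nat_lit 91) (nat_lit 1) (nat_lit 92) (nat_lit 1) (nat_lit 334) (nat_lit 425) (nat_lit 261))) (XT.nd (nat_lit 78) (nat_lit 0) (nat_lit 0) (XT.lf (nat_lit 152) (nat_lit 13863217092) (nat_lit 0) (nat_lit 30083152) (nat_lit 76) (nat_lit 30083152) (nat_lit 91) (nat_lit 1) (nat_lit 89) (nat_lit 1) (nat_lit 90) (nat_lit 1) (nat_lit 335) (nat_lit 425) (nat_lit 260)) (XT.lf (nat_lit 0) (nat_lit 4536840431) (nat_lit 0) (nat_lit 4621427981) (nat_lit 152) (nat_lit 4536840431) (nat_lit 89) (nat_lit 3) (nat_lit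 89) (nat_lit 1) (nat_lit 91) (nat_lit 1) (nat_lit 336) (nat_lit 425) (nat_lit 259))))))))
noncomputable def ec381 : XT := (XT.nd (nat_lit 1950) (nat_lit 1976) (nat_lit 0) (XT.nd (nat_lit 936) (nat_lit 988) (nat_lit 0) (XT.nd (nat_lit 468) (nat_lit 456) (nat_lit 0) (XT.nd (nat_lit 234) (nat_lit 228) (nat_lit 0) (XT.nd (nat_lit 78) (nat_lit 152) (nat_lit 0) (XT.lf (nat_lit 76) (nat_lit 4437678627) (nat_lit 0) (nat_lit 4518238199) (nat_lit 76) (nat_lit 4518238199) (nat_lit 89) (nat_lit 3) (nat_lit 88) (nat_lit 1) (nat_lit 89) (nat_lit 1) (nat_lit 337) (nat_lit 425) (nat_lit 258)) (XT.nd (nat_lit 78) (nat_lit 0) (nat_lit 0) (XT.lf (nat_lit 152) (nat_lit 13210680404) (nat_lit 0) (nat_lit 24749484) (nat_lit 76) (nat_lit 24749484) (nat_lit 88) (nat_lit 1) (nat_lit 86) (nat_lit 1) (nat_lit 87) (nat_lit 1) (nat_lit 338) (nat_lit 425) (nat_lit 257)) (XT.lf (nat_lit 0) (nat_lit 4324396865) (nat_lit 0) (nat_lit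 4393987252) (nat_lit 152) (nat_lit 4324396865) (nat_lit 86) (nat_lit 3) (nat_lit 86) (nat_lit 1) (nat_lit 88) (nat_lit 1) (nat_lit 339) (nat_lit 425) (nat_lit 256)))) (XT.nd (nat_lit 78) (nat_lit 152) (nat_lit 0) (XT.lf (nat_lit 76) (nat_lit 4233268993) (nat_lit 0) (nat_lit 4299545552) (nat_lit 76) (nat_lit 4299545552) (nat_lit 86) (nat_lit 3) (nat_lit 85) (nat_lit 1) (nat_lit 86) (nat_lit 1) (nat_lit 340) (nat_lit 425) (nat_lit 255)) (XT.nd (nat_lit 78) (nat_lit 0) (nat_lit 0) (XT.lf (nat_lit 152) (nat_lit 12587866503) (nat_lit 0) (nat_lit 20361462) (nat_lit 76) (nat_lit 20361462) (nat_lit 85) (nat_lit 1) (nat_lit 83) (nat_lit 1) (nat_lit 84) (nat_lit 1) (nat_lit 341) (nat_lit 425) (nat_lit 254)) (XT.lf (nat_lit 0) (nat_lit 4121432016) (nat_lit 0) (nat_lit 4178684200) (nat_lit 152) (nat_lit 4121432016) (nat_lit 83) (nat_lit 3) (nat_lit 83) (nat_lit 1) (nat_lit 85) (nat_lit 1) (nat_lit 342) (nat_lit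 425) (nat_lit 253))))) (XT.nd (nat_lit 234) (nat_lit 228) (nat_lit 0) (XT.nd (nat_lit 78) (nat_lit 152) (nat_lit 0) (XT.lf (nat_lit 76) (nat_lit 4037368310) (nat_lit 0) (nat_lit 4091894199) (nat_lit 76) (nat_lit 4091894199) (nat_lit 83) (nat_lit 3) (nat_lit 82) (nat_lit 1) (nat_lit 83) (nat_lit 1) (nat_lit 343) (nat_lit 425) (nat_lit 252)) (XT.nd (nat_lit 78) (nat_lit 0) (nat_lit 0) (XT.lf (nat_lit 152) (nat_lit 11993599440) (nat_lit 0) (nat_lit 16751425) (nat_lit 76) (nat_lit 16751425) (nat_lit 82) (nat_lit 1) (nat_lit 80) (nat_lit 1) (nat_lit 81) (nat_lit 1) (nat_lit 344) (nat_lit 425) (nat_lit 251)) (XT.lf (nat_lit 0) (nat_lit 3927607570) (nat_lit 0) (nat_lit 3974709083) (nat_lit 152) (nat_lit 3927607570) (nat_lit 80) (nat_lit 3) (nat_lit 80) (nat_lit 1) (nat_lit 82) (nat_lit 1) (nat_lit 345) (nat_lit 425) (nat_lit 250)))) (XT.nd (nat_lit 78) (nat_lit 152) (nat_lit 0) (XT.lf (nat_lit 76) (nat_lit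 3849788550) (nat_lit 0) (nat_lit 3894647134) (nat_lit 76) (nat_lit 3894647134) (nat_lit 80) (nat_lit 3) (nat_lit 79) (nat_lit 1) (nat_lit 80) (nat_lit 1) (nat_lit 346) (nat_lit 425) (nat_lit 249)) (XT.nd (nat_lit 78) (nat_lit 0) (nat_lit 0) (XT.lf (nat_lit 152) (nat_lit 11426716813) (nat_lit 0) (nat_lit 13781438) (nat_lit 76) (nat_lit 13781438) (nat_lit 79) (nat_lit 1) (nat_lit 77) (nat_lit 1) (nat_lit 78) (nat_lit 1) (nat_lit 347) (nat_lit 425) (nat_lit 248)) (XT.lf (nat_lit 0) (nat_lit 3742581279) (nat_lit 0) (nat_lit 3781331810) (nat_lit 152) (nat_lit 3742581279) (nat_lit 77) (nat_lit 3) (nat_lit 77) (nat_lit 1) (nat_lit 79) (nat_lit 1) (nat_lit 348) (nat_lit 425) (nat_lit 247)))))) (XT.nd (nat_lit 468) (nat_lit 532) (nat_lit 0) (XT.nd (nat_lit 234) (nat_lit 228) (nat_lit 0) (XT.nd (nat_lit 78) (nat_lit 152) (nat_lit 0) (XT.lf (nat_lit 76) (nat_lit 3670312139) (nat_lit 0) (nat_lit 3707217407)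 (nat_lit 76) (nat_lit 3707217407) (nat_lit 77) (nat_lit 3) (nat_lit 76) (nat_lit 1) (nat_lit 77) (nat_lit 1) (nat_lit 349) (nat_lit 425) (nat_lit 246)) (XT.nd (nat_lit 78) (nat_lit 0) (nat_lit 0) (XT.lf (nat_lit 152) (nat_lit 10886076650) (nat_lit 0) (nat_lit 11338023) (nat_lit 76) (nat_lit 11338023) (nat_lit 76) (nat_lit 1) (nat_lit 74) (nat_lit 1) (nat_lit 75) (nat_lit 1) (nat_lit 350) (nat_lit 425) (nat_lit 245)) (XT.lf (nat_lit 0) (nat_lit 3566010699) (nat_lit 0) (nat_lit 3597890857) (nat_lit 152) (nat_lit 3566010699) (nat_lit 74) (nat_lit 3) (nat_lit 74) (nat_lit 1) (nat_lit 76) (nat_lit 1) (nat_lit 351) (nat_lit 425) (nat_lit 244)))) (XT.nd (nat_lit 78) (nat_lit 152) (nat_lit 0) (XT.lf (nat_lit 76) (nat_lit 3498700186) (nat_lit 0) (nat_lit 3529062242) (nat_lit 76) (nat_lit 3529062242) (nat_lit 74) (nat_lit 3) (nat_lit 73) (nat_lit 1) (nat_lit 74) (nat_lit 1) (nat_lit 352) (nat_lit 425) (nat_lit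 243)) (XT.nd (nat_lit 78) (nat_lit 0) (nat_lit 0) (XT.lf (nat_lit 152) (nat_lit 10370562629) (nat_lit 0) (nat_lit 9327820) (nat_lit 76) (nat_lit 9327820) (nat_lit 73) (nat_lit 1) (nat_lit 71) (nat_lit 1) (nat_lit 72) (nat_lit 1) (nat_lit 353) (nat_lit 425) (nat_lit 242)) (XT.lf (nat_lit 0) (nat_lit 3397556132) (nat_lit 0) (nat_lit 3423784017) (nat_lit 152) (nat_lit 3397556132) (nat_lit 71) (nat_lit 3) (nat_lit 71) (nat_lit 1) (nat_lit 73) (nat_lit 1) (nat_lit 354) (nat_lit 425) (nat_lit 241))))) (XT.nd (nat_lit 234) (nat_lit 304) (nat_lit 0) (XT.nd (nat_lit 78) (nat_lit 152) (nat_lit 0) (XT.lf (nat_lit 76) (nat_lit 3334699117) (nat_lit 0) (nat_lit 3359678055) (nat_lit 76) (nat_lit 3359678055) (nat_lit 71) (nat_lit 3) (nat_lit 70) (nat_lit 1) (nat_lit 71) (nat_lit 1) (nat_lit 355) (nat_lit 425) (nat_lit 240)) (XT.nd (nat_lit 78) (nat_lit 0) (nat_lit 0) (XT.lf (nat_lit 152) (nat_lit 9879087948) (nat_lit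 0) (nat_lit 7674020) (nat_lit 76) (nat_lit 7674020) (nat_lit 70) (nat_lit 1) (nat_lit 68) (nat_lit 1) (nat_lit 69) (nat_lit 1) (nat_lit 356) (nat_lit 425) (nat_lit 239)) (XT.lf (nat_lit 0) (nat_lit 3236882890) (nat_lit 0) (nat_lit 3258460635) (nat_lit 152) (nat_lit 3236882890) (nat_lit 68) (nat_lit 3) (nat_lit 68) (nat_lit 1) (nat_lit 70) (nat_lit 1) (nat_lit 357) (nat_lit 425) (nat_lit 238)))) (XT.nd (nat_lit 156) (nat_lit 76) (nat_lit 0) (XT.nd (nat_lit 78) (nat_lit 152) (nat_lit 0) (XT.lf (nat_lit 76) (nat_lit 3178045993) (nat_lit 0) (nat_lit 3198596227) (nat_lit 76) (nat_lit 3198596227) (nat_lit 68) (nat_lit 3) (nat_lit 67) (nat_lit 1) (nat_lit 68) (nat_lit 1) (nat_lit 358) (nat_lit 425) (nat_lit 237)) (XT.lf (nat_lit 152) (nat_lit 9410598111) (nat_lit 0) (nat_lit 6313435) (nat_lit 76) (nat_lit 6313435) (nat_lit 67) (nat_lit 1) (nat_lit 65) (nat_lit 1) (nat_lit 66) (nat_lit 1) (nat_lit 359)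 (nat_lit 425) (nat_lit 236))) (XT.nd (nat_lit 78) (nat_lit 76) (nat_lit 0) (XT.lf (nat_lit 0) (nat_lit 3083663042) (nat_lit 0) (nat_lit 3101415106) (nat_lit 152) (nat_lit 3083663042) (nat_lit 65) (nat_lit 3) (nat_lit 65) (nat_lit 1) (nat_lit 67) (nat_lit 1) (nat_lit 360) (nat_lit 425) (nat_lit 235)) (XT.lf (nat_lit 76) (nat_lit 3028472758) (nat_lit 0) (nat_lit 3045379486) (nat_lit 76) (nat_lit 3045379486) (nat_lit 65) (nat_lit 3) (nat_lit 64) (nat_lit 1) (nat_lit 65) (nat_lit 1) (nat_lit 361) (nat_lit 425) (nat_lit 234))))))) (XT.nd (nat_lit 1014) (nat_lit 912) (nat_lit 0) (XT.nd (nat_lit 468) (nat_lit 608) (nat_lit 0) (XT.nd (nat_lit 234) (nat_lit 228) (nat_lit 0) (XT.nd (nat_lit 78) (nat_lit 76) (nat_lit 0) (XT.lf (nat_lit 152) (nat_lit 8964072838) (nat_lit 0) (nat_lit 5194079) (nat_lit 76) (nat_lit 5194079) (nat_lit 64) (nat_lit 1) (nat_lit 62) (nat_lit 1) (nat_lit 63) (nat_lit 1) (nat_lit 362)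 (nat_lit 425) (nat_lit 233)) (XT.nd (nat_lit 78) (nat_lit 76) (nat_lit 0) (XT.lf (nat_lit 0) (nat_lit 2937576718) (nat_lit 0) (nat_lit 2952181386) (nat_lit 152) (nat_lit 2937576718) (nat_lit 62) (nat_lit 3) (nat_lit 62) (nat_lit 1) (nat_lit 64) (nat_lit 1) (nat_lit 363) (nat_lit 425) (nat_lit 232)) (XT.lf (nat_lit 76) (nat_lit 2885709608) (nat_lit 0) (nat_lit 2899618815) (nat_lit 76) (nat_lit 2899618815) (nat_lit 62) (nat_lit 3) (nat_lit 61) (nat_lit 1) (nat_lit 62) (nat_lit 1) (nat_lit 364) (nat_lit 425) (nat_lit 231)))) (XT.nd (nat_lit 78) (nat_lit 76) (nat_lit 0) (XT.lf (nat_lit 152) (nat_lit 8538527273) (nat_lit 0) (nat_lit 4273181) (nat_lit 76) (nat_lit 4273181) (nat_lit 61) (nat_lit 1) (nat_lit 59) (nat_lit 1) (nat_lit 60) (nat_lit 1) (nat_lit 365) (nat_lit 425) (nat_lit 230)) (XT.nd (nat_lit 78) (nat_lit 76) (nat_lit 0) (XT.lf (nat_lit 0) (nat_lit 2798313067) (nat_lit 0) (nat_lit 2810328363)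 (nat_lit 152) (nat_lit 2798313067) (nat_lit 59) (nat_lit 3) (nat_lit 59) (nat_lit 1) (nat_lit 61) (nat_lit 1) (nat_lit 366) (nat_lit 425) (nat_lit 229)) (XT.lf (nat_lit 76) (nat_lit 2749487650) (nat_lit 0) (nat_lit 2760930789) (nat_lit 76) (nat_lit 2760930789) (nat_lit 59) (nat_lit 3) (nat_lit 58) (nat_lit 1) (nat_lit 59) (nat_lit 1) (nat_lit 367) (nat_lit 425) (nat_lit 228))))) (XT.nd (nat_lit 234) (nat_lit 380) (nat_lit 0) (XT.nd (nat_lit 78) (nat_lit 76) (nat_lit 0) (XT.lf (nat_lit 152) (nat_lit 8133012628) (nat_lit 0) (nat_lit 3515557) (nat_lit 76) (nat_lit 3515557) (nat_lit 58) (nat_lit 1) (nat_lit 56) (nat_lit 1) (nat_lit 57) (nat_lit 1) (nat_lit 368) (nat_lit 425) (nat_lit 227)) (XT.nd (nat_lit 78) (nat_lit 76) (nat_lit 0) (XT.lf (nat_lit 0) (nat_lit 2665570925) (nat_lit 0) (nat_lit 2675455939) (nat_lit 152) (nat_lit 2665570925) (nat_lit 56) (nat_lit 3) (nat_lit 56) (nat_lit 1) (nat_lit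 58) (nat_lit 1) (nat_lit 369) (nat_lit 425) (nat_lit 226)) (XT.lf (nat_lit 76) (nat_lit 2619540975) (nat_lit 0) (nat_lit 2628955274) (nat_lit 76) (nat_lit 2628955274) (nat_lit 56) (nat_lit 3) (nat_lit 55) (nat_lit 1) (nat_lit 56) (nat_lit 1) (nat_lit 370) (nat_lit 425) (nat_lit 225)))) (XT.nd (nat_lit 156) (nat_lit 228) (nat_lit 0) (XT.nd (nat_lit 78) (nat_lit 0) (nat_lit 0) (XT.lf (nat_lit 152) (nat_lit 7746616387) (nat_lit 0) (nat_lit 2892257) (nat_lit 76) (nat_lit 2892257) (nat_lit 55) (nat_lit 1) (nat_lit 53) (nat_lit 1) (nat_lit 54) (nat_lit 1) (nat_lit 371) (nat_lit 425) (nat_lit 224)) (XT.lf (nat_lit 0) (nat_lit 2539059262) (nat_lit 0) (nat_lit 2547191688) (nat_lit 152) (nat_lit 2539059262) (nat_lit 53) (nat_lit 3) (nat_lit 53) (nat_lit 1) (nat_lit 55) (nat_lit 1) (nat_lit 372) (nat_lit 425) (nat_lit 223))) (XT.nd (nat_lit 78) (nat_lit 152) (nat_lit 0) (XT.lf (nat_lit 76) (nat_lit 2495608253)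 (nat_lit 0) (nat_lit 2503353420) (nat_lit 76) (nat_lit 2503353420) (nat_lit 53) (nat_lit 3) (nat_lit 52) (nat_lit 1) (nat_lit 53) (nat_lit 1) (nat_lit 373) (nat_lit 425) (nat_lit 222)) (XT.lf (nat_lit 152) (nat_lit 7378462160) (nat_lit 0) (nat_lit 2379467) (nat_lit 76) (nat_lit 2379467) (nat_lit 52) (nat_lit 1) (nat_lit 50) (nat_lit 1) (nat_lit 51) (nat_lit 1) (nat_lit 374) (nat_lit 425) (nat_lit 221)))))) (XT.nd (nat_lit 468) (nat_lit 456) (nat_lit 0) (XT.nd (nat_lit 234) (nat_lit 228) (nat_lit 0) (XT.nd (nat_lit 78) (nat_lit 228) (nat_lit 0) (XT.lf (nat_lit 0) (nat_lit 2418497449) (nat_lit 0) (nat_lit 2425188016) (nat_lit 152) (nat_lit 2418497449) (nat_lit 50) (nat_lit 3) (nat_lit 50) (nat_lit 1) (nat_lit 52) (nat_lit 1) (nat_lit 375) (nat_lit 425) (nat_lit 220)) (XT.nd (nat_lit 78) (nat_lit 152) (nat_lit 0) (XT.lf (nat_lit 76) (nat_lit 2377433952) (nat_lit 0) (nat_lit 2383805920) (nat_lit 76)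 (nat_lit 2383805920) (nat_lit 50) (nat_lit 3) (nat_lit 49) (nat_lit 1) (nat_lit 50) (nat_lit 1) (nat_lit 376) (nat_lit 425) (nat_lit 219)) (XT.lf (nat_lit 152) (nat_lit 7027709257) (nat_lit 0) (nat_lit 1957593) (nat_lit 76) (nat_lit 1957593) (nat_lit 49) (nat_lit 1) (nat_lit 47) (nat_lit 1) (nat_lit 48) (nat_lit 1) (nat_lit 377) (nat_lit 425) (nat_lit 218)))) (XT.nd (nat_lit 78) (nat_lit 228) (nat_lit 0) (XT.lf (nat_lit 0) (nat_lit 2303615370) (nat_lit 0) (nat_lit 2309119716) (nat_lit 152) (nat_lit 2303615370) (nat_lit 47) (nat_lit 3) (nat_lit 47) (nat_lit 1) (nat_lit 49) (nat_lit 1) (nat_lit 378) (nat_lit 425) (nat_lit 217)) (XT.nd (nat_lit 78) (nat_lit 152) (nat_lit 0) (XT.lf (nat_lit 76) (nat_lit 2264769240) (nat_lit 0) (nat_lit 2270011474) (nat_lit 76) (nat_lit 2270011474) (nat_lit 47) (nat_lit 3) (nat_lit 46) (nat_lit 1) (nat_lit 47) (nat_lit 1) (nat_lit 379) (nat_lit 425) (nat_lit 216)) (XT.lf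 (nat_lit 152) (nat_lit 6693552062) (nat_lit 0) (nat_lit 1610517) (nat_lit 76) (nat_lit 1610517) (nat_lit 46) (nat_lit 1) (nat_lit 44) (nat_lit 1) (nat_lit 45) (nat_lit 1) (nat_lit 380) (nat_lit 425) (nat_lit 215))))) (XT.nd (nat_lit 234) (nat_lit 228) (nat_lit 0) (XT.nd (nat_lit 78) (nat_lit 228) (nat_lit 0) (XT.lf (nat_lit 0) (nat_lit 2194153431) (nat_lit 0) (nat_lit 2198681870) (nat_lit 152) (nat_lit 2194153431) (nat_lit 44) (nat_lit 3) (nat_lit 44) (nat_lit 1) (nat_lit 46) (nat_lit 1) (nat_lit 381) (nat_lit 425) (nat_lit 214)) (XT.nd (nat_lit 78) (nat_lit 152) (nat_lit 0) (XT.lf (nat_lit 76) (nat_lit 2157372634) (nat_lit 0) (nat_lit 2161685433) (nat_lit 76) (nat_lit 2161685433) (nat_lit 44) (nat_lit 3) (nat_lit 43) (nat_lit 1) (nat_lit 44) (nat_lit 1) (nat_lit 382) (nat_lit 425) (nat_lit 213)) (XT.lf (nat_lit 152) (nat_lit 6375219241) (nat_lit 0) (nat_lit 1324976) (nat_lit 76) (nat_lit 1324976)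 (nat_lit 43) (nat_lit 1) (nat_lit 41) (nat_lit 1) (nat_lit 42) (nat_lit 1) (nat_lit 383) (nat_lit 425) (nat_lit 212)))) (XT.nd (nat_lit 156) (nat_lit 152) (nat_lit 0) (XT.nd (nat_lit 78) (nat_lit 76) (nat_lit 0) (XT.lf (nat_lit 0) (nat_lit 2089862473) (nat_lit 0) (nat_lit 2093588030) (nat_lit 152) (nat_lit 2089862473) (nat_lit 41) (nat_lit 3) (nat_lit 41) (nat_lit 1) (nat_lit 43) (nat_lit 1) (nat_lit 384) (nat_lit 425) (nat_lit 211)) (XT.lf (nat_lit 76) (nat_lit 2055010449) (nat_lit 0) (nat_lit 2058558599) (nat_lit 76) (nat_lit 2058558599) (nat_lit 41) (nat_lit 3) (nat_lit 40) (nat_lit 1) (nat_lit 41) (nat_lit 1) (nat_lit 385) (nat_lit 425) (nat_lit 210))) (XT.nd (nat_lit 78) (nat_lit 0) (nat_lit 0) (XT.lf (nat_lit 152) (nat_lit 6071972833) (nat_lit 0) (nat_lit 1090061) (nat_lit 76) (nat_lit 1090061) (nat_lit 40) (nat_lit 1) (nat_lit 38) (nat_lit 1) (nat_lit 39) (nat_lit 1) (nat_lit 386) (nat_lit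 425) (nat_lit 209)) (XT.lf (nat_lit 0) (nat_lit 1990503614) (nat_lit 0) (nat_lit 1993568639) (nat_lit 152) (nat_lit 1990503614) (nat_lit 38) (nat_lit 3) (nat_lit 38) (nat_lit 1) (nat_lit 40) (nat_lit 1) (nat_lit 387) (nat_lit 425) (nat_lit 208))))))))
noncomputable def ec382 : XT := (XT.nd (nat_lit 1950) (nat_lit 988) (nat_lit 0) (XT.nd (nat_lit 936) (nat_lit 988) (nat_lit 0) (XT.nd (nat_lit 468) (nat_lit 456) (nat_lit 0) (XT.nd (nat_lit 234) (nat_lit 228) (nat_lit 0) (XT.nd (nat_lit 78) (nat_lit 152) (nat_lit 0) (XT.lf (nat_lit 76) (nat_lit 1957457080) (nat_lit 0) (nat_lit 1960376152) (nat_lit 76) (nat_lit 1960376152) (nat_lit 38) (nat_lit 3) (nat_lit 37) (nat_lit 1) (nat_lit 38) (nat_lit 1) (nat_lit 388) (nat_lit 425) (nat_lit 207)) (XT.nd (nat_lit 78) (nat_lit 0) (nat_lit 0) (XT.lf (nat_lit 152) (nat_lit 5783107253) (nat_lit 0) (nat_lit 896796) (nat_lit 76) (nat_lit 896796) (nat_lit 37) (nat_lit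 1) (nat_lit 35) (nat_lit 1) (nat_lit 36) (nat_lit 1) (nat_lit 389) (nat_lit 425) (nat_lit 206)) (XT.lf (nat_lit 0) (nat_lit 1895848044) (nat_lit 0) (nat_lit 1898369649) (nat_lit 152) (nat_lit 1895848044) (nat_lit 35) (nat_lit 3) (nat_lit 35) (nat_lit 1) (nat_lit 37) (nat_lit 1) (nat_lit 390) (nat_lit 425) (nat_lit 205)))) (XT.nd (nat_lit 78) (nat_lit 152) (nat_lit 0) (XT.lf (nat_lit 76) (nat_lit 1864495164) (nat_lit 0) (nat_lit 1866896692) (nat_lit 76) (nat_lit 1866896692) (nat_lit 35) (nat_lit 3) (nat_lit 34) (nat_lit 1) (nat_lit 35) (nat_lit 1) (nat_lit 391) (nat_lit 425) (nat_lit 204)) (XT.nd (nat_lit 78) (nat_lit 0) (nat_lit 0) (XT.lf (nat_lit 152) (nat_lit 5507948246) (nat_lit 0) (nat_lit 737796) (nat_lit 76) (nat_lit 737796) (nat_lit 34) (nat_lit 1) (nat_lit 32) (nat_lit 1) (nat_lit 33) (nat_lit 1) (nat_lit 392) (nat_lit 425) (nat_lit 203)) (XT.lf (nat_lit 0) (nat_lit 1805676779) (nat_lit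 0) (nat_lit 1807751309) (nat_lit 152) (nat_lit 1805676779) (nat_lit 32) (nat_lit 3) (nat_lit 32) (nat_lit 1) (nat_lit 34) (nat_lit 1) (nat_lit 393) (nat_lit 425) (nat_lit 202))))) (XT.nd (nat_lit 234) (nat_lit 228) (nat_lit 0) (XT.nd (nat_lit 78) (nat_lit 152) (nat_lit 0) (XT.lf (nat_lit 76) (nat_lit 1775915623) (nat_lit 0) (nat_lit 1777891366) (nat_lit 76) (nat_lit 1777891366) (nat_lit 32) (nat_lit 3) (nat_lit 31) (nat_lit 1) (nat_lit 32) (nat_lit 1) (nat_lit 394) (nat_lit 425) (nat_lit 201)) (XT.nd (nat_lit 78) (nat_lit 0) (nat_lit 0) (XT.lf (nat_lit 152) (nat_lit 5245851792) (nat_lit 0) (nat_lit 606987) (nat_lit 76) (nat_lit 606987) (nat_lit 31) (nat_lit 1) (nat_lit 29) (nat_lit 1) (nat_lit 30) (nat_lit 1) (nat_lit 395) (nat_lit 425) (nat_lit 200)) (XT.lf (nat_lit 0) (nat_lit 1719780374) (nat_lit 0) (nat_lit 1721487095) (nat_lit 152) (nat_lit 1719780374) (nat_lit 29) (nat_lit 3) (nat_lit 29)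 (nat_lit 1) (nat_lit 31) (nat_lit 1) (nat_lit 396) (nat_lit 425) (nat_lit 199)))) (XT.nd (nat_lit 78) (nat_lit 152) (nat_lit 0) (XT.lf (nat_lit 76) (nat_lit 1691517643) (nat_lit 0) (nat_lit 1693143091) (nat_lit 76) (nat_lit 1693143091) (nat_lit 29) (nat_lit 3) (nat_lit 28) (nat_lit 1) (nat_lit 29) (nat_lit 1) (nat_lit 397) (nat_lit 425) (nat_lit 198)) (XT.nd (nat_lit 78) (nat_lit 0) (nat_lit 0) (XT.lf (nat_lit 152) (nat_lit 4996203004) (nat_lit 0) (nat_lit 499369) (nat_lit 76) (nat_lit 499369) (nat_lit 28) (nat_lit 1) (nat_lit 26) (nat_lit 1) (nat_lit 27) (nat_lit 1) (nat_lit 398) (nat_lit 425) (nat_lit 197)) (XT.lf (nat_lit 0) (nat_lit 1637958636) (nat_lit 0) (nat_lit 1639362759) (nat_lit 152) (nat_lit 1637958636) (nat_lit 26) (nat_lit 3) (nat_lit 26) (nat_lit 1) (nat_lit 28) (nat_lit 1) (nat_lit 399) (nat_lit 425) (nat_lit 196)))))) (XT.nd (nat_lit 468) (nat_lit 532) (nat_lit 0) (XT.nd (nat_lit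 234) (nat_lit 228) (nat_lit 0) (XT.nd (nat_lit 78) (nat_lit 152) (nat_lit 0) (XT.lf (nat_lit 76) (nat_lit 1611108574) (nat_lit 0) (nat_lit 1612445834) (nat_lit 76) (nat_lit 1612445834) (nat_lit 26) (nat_lit 3) (nat_lit 25) (nat_lit 1) (nat_lit 26) (nat_lit 1) (nat_lit 400) (nat_lit 425) (nat_lit 195)) (XT.nd (nat_lit 78) (nat_lit 0) (nat_lit 0) (XT.lf (nat_lit 152) (nat_lit 4758415007) (nat_lit 0) (nat_lit 410832) (nat_lit 76) (nat_lit 410832) (nat_lit 25) (nat_lit 1) (nat_lit 23) (nat_lit 1) (nat_lit 24) (nat_lit 1) (nat_lit 401) (nat_lit 425) (nat_lit 194)) (XT.lf (nat_lit 0) (nat_lit 1560020306) (nat_lit 0) (nat_lit 1561175481) (nat_lit 152) (nat_lit 1560020306) (nat_lit 23) (nat_lit 3) (nat_lit 23) (nat_lit 1) (nat_lit 25) (nat_lit 1) (nat_lit 402) (nat_lit 425) (nat_lit 193)))) (XT.nd (nat_lit 78) (nat_lit 152) (nat_lit 0) (XT.lf (nat_lit 76) (nat_lit 1534503795) (nat_lit 0) (nat_lit 1535603962)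 (nat_lit 76) (nat_lit 1535603962) (nat_lit 23) (nat_lit 3) (nat_lit 22) (nat_lit 1) (nat_lit 23) (nat_lit 1) (nat_lit 403) (nat_lit 425) (nat_lit 192)) (XT.nd (nat_lit 78) (nat_lit 0) (nat_lit 0) (XT.lf (nat_lit 152) (nat_lit 4531927831) (nat_lit 0) (nat_lit 337993) (nat_lit 76) (nat_lit 337993) (nat_lit 22) (nat_lit 1) (nat_lit 20) (nat_lit 1) (nat_lit 21) (nat_lit 1) (nat_lit 404) (nat_lit 425) (nat_lit 191)) (XT.lf (nat_lit 0) (nat_lit 1485782739) (nat_lit 0) (nat_lit 1486733106) (nat_lit 152) (nat_lit 1485782739) (nat_lit 20) (nat_lit 3) (nat_lit 20) (nat_lit 1) (nat_lit 22) (nat_lit 1) (nat_lit 405) (nat_lit 425) (nat_lit 190))))) (XT.nd (nat_lit 234) (nat_lit 304) (nat_lit 0) (XT.nd (nat_lit 78) (nat_lit 152) (nat_lit 0) (XT.lf (nat_lit 76) (nat_lit 1461526531) (nat_lit 0) (nat_lit 1462431641) (nat_lit 76) (nat_lit 1462431641) (nat_lit 20) (nat_lit 3) (nat_lit 19) (nat_lit 1) (nat_lit 20)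 (nat_lit 1) (nat_lit 406) (nat_lit 425) (nat_lit 189)) (XT.nd (nat_lit 78) (nat_lit 0) (nat_lit 0) (XT.lf (nat_lit 152) (nat_lit 4316207318) (nat_lit 0) (nat_lit 278067) (nat_lit 76) (nat_lit 278067) (nat_lit 19) (nat_lit 1) (nat_lit 17) (nat_lit 1) (nat_lit 18) (nat_lit 1) (nat_lit 407) (nat_lit 425) (nat_lit 188)) (XT.lf (nat_lit 0) (nat_lit 1415071588) (nat_lit 0) (nat_lit 1415853456) (nat_lit 152) (nat_lit 1415071588) (nat_lit 17) (nat_lit 3) (nat_lit 17) (nat_lit 1) (nat_lit 19) (nat_lit 1) (nat_lit 408) (nat_lit 425) (nat_lit 187)))) (XT.nd (nat_lit 156) (nat_lit 76) (nat_lit 0) (XT.nd (nat_lit 78) (nat_lit 152) (nat_lit 0) (XT.lf (nat_lit 76) (nat_lit 1392007647) (nat_lit 0) (nat_lit 1392752284) (nat_lit 76) (nat_lit 1392752284) (nat_lit 17) (nat_lit 3) (nat_lit 16) (nat_lit 1) (nat_lit 17) (nat_lit 1) (nat_lit 409) (nat_lit 425) (nat_lit 186)) (XT.lf (nat_lit 152) (nat_lit 4110744038) (nat_lit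 0) (nat_lit 228767) (nat_lit 76) (nat_lit 228767) (nat_lit 16) (nat_lit 1) (nat_lit 14) (nat_lit 1) (nat_lit 15) (nat_lit 1) (nat_lit 410) (nat_lit 425) (nat_lit 185))) (XT.nd (nat_lit 78) (nat_lit 76) (nat_lit 0) (XT.lf (nat_lit 0) (nat_lit 1347720469) (nat_lit 0) (nat_lit 1348363715) (nat_lit 152) (nat_lit 1347720469) (nat_lit 14) (nat_lit 3) (nat_lit 14) (nat_lit 1) (nat_lit 16) (nat_lit 1) (nat_lit 411) (nat_lit 425) (nat_lit 184)) (XT.lf (nat_lit 76) (nat_lit 1325785425) (nat_lit 0) (nat_lit 1326398039) (nat_lit 76) (nat_lit 1326398039) (nat_lit 14) (nat_lit 3) (nat_lit 13) (nat_lit 1) (nat_lit 14) (nat_lit 1) (nat_lit 412) (nat_lit 425) (nat_lit 183))))))) (XT.nd (nat_lit 936) (nat_lit 76) (nat_lit 0) (XT.nd (nat_lit 468) (nat_lit 456) (nat_lit 0) (XT.nd (nat_lit 234) (nat_lit 228) (nat_lit 0) (XT.nd (nat_lit 78) (nat_lit 76) (nat_lit 0) (XT.lf (nat_lit 152) (nat_lit 3915052241) (nat_lit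 0) (nat_lit 188207) (nat_lit 76) (nat_lit 188207) (nat_lit 13) (nat_lit 1) (nat_lit 11) (nat_lit 1) (nat_lit 12) (nat_lit 1) (nat_lit 413) (nat_lit 425) (nat_lit 182)) (XT.nd (nat_lit 78) (nat_lit 76) (nat_lit 0) (XT.lf (nat_lit 0) (nat_lit 1283570653) (nat_lit 0) (nat_lit 1284099853) (nat_lit 152) (nat_lit 1283570653) (nat_lit 11) (nat_lit 3) (nat_lit 11) (nat_lit 1) (nat_lit 13) (nat_lit 1) (nat_lit 414) (nat_lit 425) (nat_lit 181)) (XT.lf (nat_lit 76) (nat_lit 1262705320) (nat_lit 0) (nat_lit 1263209320) (nat_lit 76) (nat_lit 1263209320) (nat_lit 11) (nat_lit 3) (nat_lit 10) (nat_lit 1) (nat_lit 11) (nat_lit 1) (nat_lit 415) (nat_lit 425) (nat_lit 180)))) (XT.nd (nat_lit 78) (nat_lit 76) (nat_lit 0) (XT.lf (nat_lit 152) (nat_lit 3728668833) (nat_lit 0) (nat_lit 154838) (nat_lit 76) (nat_lit 154838) (nat_lit 10) (nat_lit 1) (nat_lit 8) (nat_lit 1) (nat_lit 9) (nat_lit 1) (nat_lit 416) (nat_lit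 425) (nat_lit 179)) (XT.nd (nat_lit 78) (nat_lit 76) (nat_lit 0) (XT.lf (nat_lit 0) (nat_lit 1222470742) (nat_lit 0) (nat_lit 1222906115) (nat_lit 152) (nat_lit 1222470742) (nat_lit 8) (nat_lit 3) (nat_lit 8) (nat_lit 1) (nat_lit 10) (nat_lit 1) (nat_lit 417) (nat_lit 425) (nat_lit 178)) (XT.lf (nat_lit 76) (nat_lit 1202619716) (nat_lit 0) (nat_lit 1203034358) (nat_lit 76) (nat_lit 1203034358) (nat_lit 8) (nat_lit 3) (nat_lit 7) (nat_lit 1) (nat_lit 8) (nat_lit 1) (nat_lit 418) (nat_lit 425) (nat_lit 177))))) (XT.nd (nat_lit 234) (nat_lit 228) (nat_lit 0) (XT.nd (nat_lit 78) (nat_lit 76) (nat_lit 0) (XT.lf (nat_lit 152) (nat_lit 3551152376) (nat_lit 0) (nat_lit 127386) (nat_lit 76) (nat_lit 127386) (nat_lit 7) (nat_lit 1) (nat_lit 5) (nat_lit 1) (nat_lit 6) (nat_lit 1) (nat_lit 419) (nat_lit 425) (nat_lit 176)) (XT.nd (nat_lit 78) (nat_lit 76) (nat_lit 0) (XT.lf (nat_lit 0) (nat_lit 1164276360)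 (nat_lit 0) (nat_lit 1164634543) (nat_lit 152) (nat_lit 1164276360) (nat_lit 5) (nat_lit 3) (nat_lit 5) (nat_lit 1) (nat_lit 7) (nat_lit 1) (nat_lit 420) (nat_lit 425) (nat_lit 175)) (XT.lf (nat_lit 76) (nat_lit 1145387668) (nat_lit 0) (nat_lit 1145728795) (nat_lit 76) (nat_lit 1145728795) (nat_lit 5) (nat_lit 3) (nat_lit 4) (nat_lit 1) (nat_lit 5) (nat_lit 1) (nat_lit 421) (nat_lit 425) (nat_lit 174)))) (XT.nd (nat_lit 78) (nat_lit 76) (nat_lit 0) (XT.lf (nat_lit 152) (nat_lit 3382082134) (nat_lit 0) (nat_lit 104800) (nat_lit 76) (nat_lit 104800) (nat_lit 4) (nat_lit 1) (nat_lit 2) (nat_lit 1) (nat_lit 3) (nat_lit 1) (nat_lit 422) (nat_lit 425) (nat_lit 173)) (XT.nd (nat_lit 78) (nat_lit 76) (nat_lit 0) (XT.lf (nat_lit 0) (nat_lit 1108849858) (nat_lit 0) (nat_lit 1109144536) (nat_lit 152) (nat_lit 1108849858) (nat_lit 2) (nat_lit 3) (nat_lit 2) (nat_lit 1) (nat_lit 4) (nat_lit 1) (nat_lit 423)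 (nat_lit 425) (nat_lit 172)) (XT.lf (nat_lit 76) (nat_lit 1090874652) (nat_lit 0) (nat_lit 1091155297) (nat_lit 76) (nat_lit 1091155297) (nat_lit 2) (nat_lit 3) (nat_lit 1) (nat_lit 1) (nat_lit 2) (nat_lit 1) (nat_lit 424) (nat_lit 425) (nat_lit 171)))))) (XT.nd (nat_lit 468) (nat_lit 0) (nat_lit 0) (XT.nd (nat_lit 234) (nat_lit 0) (nat_lit 0) (XT.nd (nat_lit 78) (nat_lit 0) (nat_lit 0) (XT.lf (nat_lit 0) (nat_lit 67919113203) (nat_lit 0) (nat_lit 0) (nat_lit 0) (nat_lit 0) (nat_lit 0) (nat_lit 0) (nat_lit 1) (nat_lit 0) (nat_lit 1) (nat_lit 0) (nat_lit 425) (nat_lit 425) (nat_lit 170)) (XT.nd (nat_lit 78) (nat_lit 0) (nat_lit 0) (XT.lf (nat_lit 0) (nat_lit 67919100424) (nat_lit 0) (nat_lit 0) (nat_lit 0) (nat_lit 0) (nat_lit 0) (nat_lit 0) (nat_lit 1) (nat_lit 0) (nat_lit 1) (nat_lit 0) (nat_lit 426) (nat_lit 425) (nat_lit 169)) (XT.lf (nat_lit 0) (nat_lit 67919088253) (nat_lit 0) (nat_lit 0)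 (nat_lit 0) (nat_lit 0) (nat_lit 0) (nat_lit 0) (nat_lit 1) (nat_lit 0) (nat_lit 1) (nat_lit 0) (nat_lit 427) (nat_lit 425) (nat_lit 168)))) (XT.nd (nat_lit 78) (nat_lit 0) (nat_lit 0) (XT.lf (nat_lit 0) (nat_lit 67919076662) (nat_lit 0) (nat_lit 0) (nat_lit 0) (nat_lit 0) (nat_lit 0) (nat_lit 0) (nat_lit 1) (nat_lit 0) (nat_lit 1) (nat_lit 0) (nat_lit 428) (nat_lit 425) (nat_lit 167)) (XT.nd (nat_lit 78) (nat_lit 0) (nat_lit 0) (XT.lf (nat_lit 0) (nat_lit 67919065623) (nat_lit 0) (nat_lit 0) (nat_lit 0) (nat_lit 0) (nat_lit 0) (nat_lit 0) (nat_lit 1) (nat_lit 0) (nat_lit 1) (nat_lit 0) (nat_lit 429) (nat_lit 425) (nat_lit 166)) (XT.lf (nat_lit 0) (nat_lit 67919055110) (nat_lit 0) (nat_lit 0) (nat_lit 0) (nat_lit 0) (nat_lit 0) (nat_lit 0) (nat_lit 1) (nat_lit 0) (nat_lit 1) (nat_lit 0) (nat_lit 430) (nat_lit 425) (nat_lit 165))))) (XT.nd (nat_lit 234) (nat_lit 0) (nat_lit 0) (XT.nd (nat_lit 78)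 (nat_lit 0) (nat_lit 0) (XT.lf (nat_lit 0) (nat_lit 67919045097) (nat_lit 0) (nat_lit 0) (nat_lit 0) (nat_lit 0) (nat_lit 0) (nat_lit 0) (nat_lit 1) (nat_lit 0) (nat_lit 1) (nat_lit 0) (nat_lit 431) (nat_lit 425) (nat_lit 164)) (XT.nd (nat_lit 78) (nat_lit 0) (nat_lit 0) (XT.lf (nat_lit 0) (nat_lit 67919035561) (nat_lit 0) (nat_lit 0) (nat_lit 0) (nat_lit 0) (nat_lit 0) (nat_lit 0) (nat_lit 1) (nat_lit 0) (nat_lit 1) (nat_lit 0) (nat_lit 432) (nat_lit 425) (nat_lit 163)) (XT.lf (nat_lit 0) (nat_lit 67919026479) (nat_lit 0) (nat_lit 0) (nat_lit 0) (nat_lit 0) (nat_lit 0) (nat_lit 0) (nat_lit 1) (nat_lit 0) (nat_lit 1) (nat_lit 0) (nat_lit 433) (nat_lit 425) (nat_lit 162)))) (XT.nd (nat_lit 156) (nat_lit 0) (nat_lit 0) (XT.nd (nat_lit 78) (nat_lit 0) (nat_lit 0) (XT.lf (nat_lit 0) (nat_lit 67919017830) (nat_lit 0) (nat_lit 0) (nat_lit 0) (nat_lit 0) (nat_lit 0) (nat_lit 0) (nat_lit 1) (nat_lit 0)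 (nat_lit 1) (nat_lit 0) (nat_lit 434) (nat_lit 425) (nat_lit 161)) (XT.lf (nat_lit 0) (nat_lit 67919009593) (nat_lit 0) (nat_lit 0) (nat_lit 0) (nat_lit 0) (nat_lit 0) (nat_lit 0) (nat_lit 1) (nat_lit 0) (nat_lit 1) (nat_lit 0) (nat_lit 435) (nat_lit 425) (nat_lit 160))) (XT.nd (nat_lit 78) (nat_lit 0) (nat_lit 0) (XT.lf (nat_lit 0) (nat_lit 67919001747) (nat_lit 0) (nat_lit 0) (nat_lit 0) (nat_lit 0) (nat_lit 0) (nat_lit 0) (nat_lit 1) (nat_lit 0) (nat_lit 1) (nat_lit 0) (nat_lit 436) (nat_lit 425) (nat_lit 159)) (XT.lf (nat_lit 0) (nat_lit 67918994276) (nat_lit 0) (nat_lit 0) (nat_lit 0) (nat_lit 0) (nat_lit 0) (nat_lit 0) (nat_lit 1) (nat_lit 0) (nat_lit 1) (nat_lit 0) (nat_lit 437) (nat_lit 425) (nat_lit 158))))))))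
noncomputable def ec383 : XT := (XT.nd (nat_lit 33852) (nat_lit 0) (nat_lit 15960) (XT.nd (nat_lit 32838) (nat_lit 0) (nat_lit 19532) (XT.nd (nat_lit 32370) (nat_lit 0) (nat_lit 22344) (XT.nd (nat_lit 32136) (nat_lit 0) (nat_lit 22192) (XT.nd (nat_lit 78) (nat_lit 0) (nat_lit 0) (XT.lf (nat_lit 0) (nat_lit 67918987160) (nat_lit 0) (nat_lit 0) (nat_lit 0) (nat_lit 0) (nat_lit 0) (nat_lit 0) (nat_lit 1) (nat_lit 0) (nat_lit 1) (nat_lit 0) (nat_lit 438) (nat_lit 425) (nat_lit 157)) (XT.nd (nat_lit 31980) (nat_lit 0) (nat_lit 22192) (XT.lf (nat_lit 0) (nat_lit 67918980383) (nat_lit 0) (nat_lit 0) (nat_lit 0) (nat_lit 0) (nat_lit 0) (nat_lit 0) (nat_lit 1) (nat_lit 0) (nat_lit 1) (nat_lit 0) (nat_lit 439) (nat_lit 425) (nat_lit 156)) (XT.lf (nat_lit 836) (nat_lit 35688590738) (nat_lit 0) (nat_lit 63365010822) (nat_lit 836) (nat_lit 35688590738) (nat_lit 303) (nat_lit 1) (nat_lit 292) (nat_lit 0) (nat_lit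 303) (nat_lit 0) (nat_lit 168) (nat_lit 426) (nat_lit 426)))) (XT.nd (nat_lit 78) (nat_lit 0) (nat_lit 76) (XT.lf (nat_lit 836) (nat_lit 138333433245) (nat_lit 76) (nat_lit 62342994518) (nat_lit 0) (nat_lit 62342994518) (nat_lit 303) (nat_lit 1) (nat_lit 293) (nat_lit 1) (nat_lit 292) (nat_lit 0) (nat_lit 169) (nat_lit 426) (nat_lit 425)) (XT.nd (nat_lit 78) (nat_lit 0) (nat_lit 0) (XT.lf (nat_lit 836) (nat_lit 65927631399) (nat_lit 0) (nat_lit 124899063887) (nat_lit 760) (nat_lit 65927631399) (nat_lit 304) (nat_lit 1) (nat_lit 293) (nat_lit 1) (nat_lit 303) (nat_lit 1) (nat_lit 170) (nat_lit 426) (nat_lit 424)) (XT.lf (nat_lit 836) (nat_lit 123671075630) (nat_lit 76) (nat_lit 63510282363) (nat_lit 0) (nat_lit 63510282363) (nat_lit 304) (nat_lit 1) (nat_lit 294) (nat_lit 1) (nat_lit 293) (nat_lit 1) (nat_lit 171) (nat_lit 426) (nat_lit 423))))) (XT.nd (nat_lit 234) (nat_lit 0) (nat_lit 76) (XT.nd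 (nat_lit 78) (nat_lit 0) (nat_lit 0) (XT.lf (nat_lit 836) (nat_lit 56924608488) (nat_lit 0) (nat_lit 130971893795) (nat_lit 760) (nat_lit 56924608488) (nat_lit 305) (nat_lit 1) (nat_lit 294) (nat_lit 1) (nat_lit 304) (nat_lit 1) (nat_lit 172) (nat_lit 426) (nat_lit 422)) (XT.nd (nat_lit 78) (nat_lit 0) (nat_lit 76) (XT.lf (nat_lit 836) (nat_lit 102382615979) (nat_lit 76) (nat_lit 68373460692) (nat_lit 0) (nat_lit 68373460692) (nat_lit 305) (nat_lit 1) (nat_lit 295) (nat_lit 1) (nat_lit 294) (nat_lit 1) (nat_lit 173) (nat_lit 426) (nat_lit 421)) (XT.lf (nat_lit 836) (nat_lit 44891820029) (nat_lit 0) (nat_lit 143845427222) (nat_lit 760) (nat_lit 44891820029) (nat_lit 306) (nat_lit 1) (nat_lit 295) (nat_lit 1) (nat_lit 305) (nat_lit 1) (nat_lit 174) (nat_lit 426) (nat_lit 420)))) (XT.nd (nat_lit 78) (nat_lit 0) (nat_lit 76) (XT.lf (nat_lit 836) (nat_lit 75464527837) (nat_lit 76) (nat_lit 76407758075)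 (nat_lit 0) (nat_lit 76407758075) (nat_lit 306) (nat_lit 1) (nat_lit 296) (nat_lit 1) (nat_lit 295) (nat_lit 1) (nat_lit 175) (nat_lit 426) (nat_lit 419)) (XT.nd (nat_lit 78) (nat_lit 0) (nat_lit 0) (XT.lf (nat_lit 836) (nat_lit 30295077347) (nat_lit 0) (nat_lit 162536670754) (nat_lit 760) (nat_lit 30295077347) (nat_lit 307) (nat_lit 1) (nat_lit 296) (nat_lit 1) (nat_lit 306) (nat_lit 1) (nat_lit 176) (nat_lit 426) (nat_lit 418)) (XT.lf (nat_lit 836) (nat_lit 43802525831) (nat_lit 76) (nat_lit 87145818143) (nat_lit 0) (nat_lit 87145818143) (nat_lit 307) (nat_lit 1) (nat_lit 297) (nat_lit 1) (nat_lit 296) (nat_lit 1) (nat_lit 177) (nat_lit 426) (nat_lit 417)))))) (XT.nd (nat_lit 468) (nat_lit 1368) (nat_lit 0) (XT.nd (nat_lit 234) (nat_lit 380) (nat_lit 0) (XT.nd (nat_lit 78) (nat_lit 1292) (nat_lit 0) (XT.lf (nat_lit 76) (nat_lit 13548116835) (nat_lit 0) (nat_lit 186170721742) (nat_lit 760) (nat_lit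 13548116835) (nat_lit 298) (nat_lit 1) (nat_lit 297) (nat_lit 1) (nat_lit 307) (nat_lit 1) (nat_lit 178) (nat_lit 426) (nat_lit 416)) (XT.nd (nat_lit 78) (nat_lit 532) (nat_lit 0) (XT.lf (nat_lit 836) (nat_lit 8182725656) (nat_lit 0) (nat_lit 100171950885) (nat_lit 760) (nat_lit 100171950885) (nat_lit 298) (nat_lit 1) (nat_lit 287) (nat_lit 1) (nat_lit 297) (nat_lit 1) (nat_lit 179) (nat_lit 426) (nat_lit 415)) (XT.lf (nat_lit 532) (nat_lit 194186384877) (nat_lit 0) (nat_lit 4901783967) (nat_lit 456) (nat_lit 4901783967) (nat_lit 287) (nat_lit 1) (nat_lit 280) (nat_lit 1) (nat_lit 286) (nat_lit 1) (nat_lit 180) (nat_lit 426) (nat_lit 414)))) (XT.nd (nat_lit 78) (nat_lit 380) (nat_lit 0) (XT.lf (nat_lit 76) (nat_lit 84897949498) (nat_lit 0) (nat_lit 29715738055) (nat_lit 532) (nat_lit 84897949498) (nat_lit 281) (nat_lit 1) (nat_lit 280) (nat_lit 1) (nat_lit 287) (nat_lit 1) (nat_lit 181) (nat_lit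 426) (nat_lit 413)) (XT.nd (nat_lit 78) (nat_lit 0) (nat_lit 0) (XT.lf (nat_lit 456) (nat_lit 146087578728) (nat_lit 0) (nat_lit 24568086274) (nat_lit 380) (nat_lit 24568086274) (nat_lit 281) (nat_lit 1) (nat_lit 275) (nat_lit 1) (nat_lit 280) (nat_lit 1) (nat_lit 182) (nat_lit 426) (nat_lit 412)) (XT.lf (nat_lit 76) (nat_lit 60556673876) (nat_lit 0) (nat_lit 69912660962) (nat_lit 456) (nat_lit 60556673876) (nat_lit 276) (nat_lit 1) (nat_lit 275) (nat_lit 1) (nat_lit 281) (nat_lit 1) (nat_lit 183) (nat_lit 426) (nat_lit 411))))) (XT.nd (nat_lit 234) (nat_lit 684) (nat_lit 0) (XT.nd (nat_lit 78) (nat_lit 304) (nat_lit 0) (XT.lf (nat_lit 456) (nat_lit 96200742305) (nat_lit 0) (nat_lit 45386859993) (nat_lit 380) (nat_lit 45386859993) (nat_lit 276) (nat_lit 1) (nat_lit 270) (nat_lit 1) (nat_lit 275) (nat_lit 1) (nat_lit 184) (nat_lit 426) (nat_lit 410)) (XT.nd (nat_lit 78) (nat_lit 304) (nat_lit 0)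 (XT.lf (nat_lit 76) (nat_lit 35448695027) (nat_lit 0) (nat_lit 112143358439) (nat_lit 456) (nat_lit 35448695027) (nat_lit 271) (nat_lit 1) (nat_lit 270) (nat_lit 1) (nat_lit 276) (nat_lit 1) (nat_lit 185) (nat_lit 426) (nat_lit 409)) (XT.lf (nat_lit 380) (nat_lit 44990195493) (nat_lit 0) (nat_lit 67109013647) (nat_lit 304) (nat_lit 67109013647) (nat_lit 271) (nat_lit 1) (nat_lit 266) (nat_lit 1) (nat_lit 270) (nat_lit 1) (nat_lit 186) (nat_lit 426) (nat_lit 408)))) (XT.nd (nat_lit 156) (nat_lit 304) (nat_lit 0) (XT.nd (nat_lit 78) (nat_lit 380) (nat_lit 0) (XT.lf (nat_lit 76) (nat_lit 9789566338) (nat_lit 0) (nat_lit 155943944479) (nat_lit 380) (nat_lit 9789566338) (nat_lit 267) (nat_lit 1) (nat_lit 266) (nat_lit 1) (nat_lit 271) (nat_lit 1) (nat_lit 187) (nat_lit 426) (nat_lit 407)) (XT.lf (nat_lit 76) (nat_lit 82489698997) (nat_lit 0) (nat_lit 6908672528) (nat_lit 380) (nat_lit 82489698997) (nat_lit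 262) (nat_lit 1) (nat_lit 261) (nat_lit 1) (nat_lit 266) (nat_lit 1) (nat_lit 188) (nat_lit 426) (nat_lit 406))) (XT.nd (nat_lit 78) (nat_lit 0) (nat_lit 0) (XT.lf (nat_lit 380) (nat_lit 136450970902) (nat_lit 0) (nat_lit 15970261475) (nat_lit 304) (nat_lit 15970261475) (nat_lit 262) (nat_lit 1) (nat_lit 257) (nat_lit 1) (nat_lit 261) (nat_lit 1) (nat_lit 189) (nat_lit 426) (nat_lit 405)) (XT.lf (nat_lit 76) (nat_lit 53522069588) (nat_lit 0) (nat_lit 57910762555) (nat_lit 380) (nat_lit 53522069588) (nat_lit 258) (nat_lit 1) (nat_lit 257) (nat_lit 1) (nat_lit 262) (nat_lit 1) (nat_lit 190) (nat_lit 426) (nat_lit 404))))))) (XT.nd (nat_lit 1014) (nat_lit 1520) (nat_lit 0) (XT.nd (nat_lit 468) (nat_lit 912) (nat_lit 0) (XT.nd (nat_lit 234) (nat_lit 608) (nat_lit 0) (XT.nd (nat_lit 78) (nat_lit 228) (nat_lit 0) (XT.lf (nat_lit 380) (nat_lit 78103588213) (nat_lit 0) (nat_lit 41766945164) (nat_lit 304)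 (nat_lit 41766945164) (nat_lit 258) (nat_lit 1) (nat_lit 253) (nat_lit 1) (nat_lit 257) (nat_lit 1) (nat_lit 191) (nat_lit 426) (nat_lit 403)) (XT.nd (nat_lit 78) (nat_lit 228) (nat_lit 0) (XT.lf (nat_lit 76) (nat_lit 24630386016) (nat_lit 0) (nat_lit 109156285057) (nat_lit 380) (nat_lit 24630386016) (nat_lit 254) (nat_lit 1) (nat_lit 253) (nat_lit 1) (nat_lit 258) (nat_lit 1) (nat_lit 192) (nat_lit 426) (nat_lit 402)) (XT.lf (nat_lit 304) (nat_lit 20030838047) (nat_lit 0) (nat_lit 67617656801) (nat_lit 228) (nat_lit 67617656801) (nat_lit 254) (nat_lit 1) (nat_lit 250) (nat_lit 1) (nat_lit 253) (nat_lit 1) (nat_lit 193) (nat_lit 426) (nat_lit 401)))) (XT.nd (nat_lit 78) (nat_lit 228) (nat_lit 0) (XT.lf (nat_lit 380) (nat_lit 144232493124) (nat_lit 0) (nat_lit 4002174932) (nat_lit 304) (nat_lit 4002174932) (nat_lit 250) (nat_lit 1) (nat_lit 245) (nat_lit 1) (nat_lit 249) (nat_lit 1) (nat_lit 194)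 (nat_lit 426) (nat_lit 400)) (XT.nd (nat_lit 78) (nat_lit 228) (nat_lit 0) (XT.lf (nat_lit 76) (nat_lit 56439240852) (nat_lit 0) (nat_lit 36345819483) (nat_lit 380) (nat_lit 56439240852) (nat_lit 246) (nat_lit 1) (nat_lit 245) (nat_lit 1) (nat_lit 250) (nat_lit 1) (nat_lit 195) (nat_lit 426) (nat_lit 399)) (XT.lf (nat_lit 304) (nat_lit 82431295552) (nat_lit 0) (nat_lit 31948001414) (nat_lit 228) (nat_lit 31948001414) (nat_lit 246) (nat_lit 1) (nat_lit 242) (nat_lit 1) (nat_lit 245) (nat_lit 1) (nat_lit 196) (nat_lit 426) (nat_lit 398))))) (XT.nd (nat_lit 234) (nat_lit 380) (nat_lit 0) (XT.nd (nat_lit 78) (nat_lit 532) (nat_lit 0) (XT.lf (nat_lit 76) (nat_lit 26041321346) (nat_lit 0) (nat_lit 91421256220) (nat_lit 304) (nat_lit 26041321346) (nat_lit 243) (nat_lit 1) (nat_lit 242) (nat_lit 1) (nat_lit 246) (nat_lit 1) (nat_lit 197) (nat_lit 426) (nat_lit 397)) (XT.nd (nat_lit 78) (nat_lit 304) (nat_lit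 0) (XT.lf (nat_lit 304) (nat_lit 21704627390) (nat_lit 0) (nat_lit 59520051815) (nat_lit 228) (nat_lit 59520051815) (nat_lit 243) (nat_lit 1) (nat_lit 239) (nat_lit 1) (nat_lit 242) (nat_lit 1) (nat_lit 198) (nat_lit 426) (nat_lit 396)) (XT.lf (nat_lit 304) (nat_lit 130627740869) (nat_lit 0) (nat_lit 3730164423) (nat_lit 228) (nat_lit 3730164423) (nat_lit 239) (nat_lit 1) (nat_lit 235) (nat_lit 1) (nat_lit 238) (nat_lit 1) (nat_lit 199) (nat_lit 426) (nat_lit 395)))) (XT.nd (nat_lit 156) (nat_lit 152) (nat_lit 0) (XT.nd (nat_lit 78) (nat_lit 228) (nat_lit 0) (XT.lf (nat_lit 76) (nat_lit 49412733428) (nat_lit 0) (nat_lit 36614339311) (nat_lit 304) (nat_lit 49412733428) (nat_lit 236) (nat_lit 1) (nat_lit 235) (nat_lit 1) (nat_lit 239) (nat_lit 1) (nat_lit 200) (nat_lit 426) (nat_lit 394)) (XT.lf (nat_lit 304) (nat_lit 67947032983) (nat_lit 0) (nat_lit 32471247905) (nat_lit 228) (nat_lit 32471247905)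 (nat_lit 236) (nat_lit 1) (nat_lit 232) (nat_lit 1) (nat_lit 235) (nat_lit 1) (nat_lit 201) (nat_lit 426) (nat_lit 393))) (XT.nd (nat_lit 78) (nat_lit 152) (nat_lit 0) (XT.lf (nat_lit 76) (nat_lit 18712557468) (nat_lit 0) (nat_lit 92982536083) (nat_lit 304) (nat_lit 18712557468) (nat_lit 233) (nat_lit 1) (nat_lit 232) (nat_lit 1) (nat_lit 236) (nat_lit 1) (nat_lit 202) (nat_lit 426) (nat_lit 392)) (XT.lf (nat_lit 228) (nat_lit 6856903236) (nat_lit 0) (nat_lit 60557819754) (nat_lit 152) (nat_lit 60557819754) (nat_lit 233) (nat_lit 1) (nat_lit 230) (nat_lit 1) (nat_lit 232) (nat_lit 1) (nat_lit 203) (nat_lit 426) (nat_lit 391)))))) (XT.nd (nat_lit 468) (nat_lit 684) (nat_lit 0) (XT.nd (nat_lit 234) (nat_lit 380) (nat_lit 0) (XT.nd (nat_lit 78) (nat_lit 152) (nat_lit 0) (XT.lf (nat_lit 304) (nat_lit 103605508681) (nat_lit 0) (nat_lit 11003655989) (nat_lit 228) (nat_lit 11003655989) (nat_lit 230) (nat_lit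 1) (nat_lit 226) (nat_lit 1) (nat_lit 229) (nat_lit 1) (nat_lit 204) (nat_lit 426) (nat_lit 390)) (XT.nd (nat_lit 78) (nat_lit 152) (nat_lit 0) (XT.lf (nat_lit 76) (nat_lit 36186944884) (nat_lit 0) (nat_lit 50905600029) (nat_lit 304) (nat_lit 36186944884) (nat_lit 227) (nat_lit 1) (nat_lit 226) (nat_lit 1) (nat_lit 230) (nat_lit 1) (nat_lit 205) (nat_lit 426) (nat_lit 389)) (XT.lf (nat_lit 228) (nat_lit 41808432739) (nat_lit 0) (nat_lit 39604869593) (nat_lit 152) (nat_lit 39604869593) (nat_lit 227) (nat_lit 1) (nat_lit 224) (nat_lit 1) (nat_lit 226) (nat_lit 1) (nat_lit 206) (nat_lit 426) (nat_lit 388)))) (XT.nd (nat_lit 78) (nat_lit 380) (nat_lit 0) (XT.lf (nat_lit 76) (nat_lit 6006544760) (nat_lit 0) (nat_lit 106818808995) (nat_lit 228) (nat_lit 6006544760) (nat_lit 225) (nat_lit 1) (nat_lit 224) (nat_lit 1) (nat_lit 227) (nat_lit 1) (nat_lit 207) (nat_lit 426) (nat_lit 387)) (XT.nd (nat_lit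 78) (nat_lit 152) (nat_lit 0) (XT.lf (nat_lit 76) (nat_lit 49573067726) (nat_lit 0) (nat_lit 17507436916) (nat_lit 228) (nat_lit 49573067726) (nat_lit 222) (nat_lit 1) (nat_lit 221) (nat_lit 1) (nat_lit 224) (nat_lit 1) (nat_lit 208) (nat_lit 426) (nat_lit 386)) (XT.lf (nat_lit 228) (nat_lit 68840892965) (nat_lit 0) (nat_lit 22853311288) (nat_lit 152) (nat_lit 22853311288) (nat_lit 222) (nat_lit 1) (nat_lit 219) (nat_lit 1) (nat_lit 221) (nat_lit 1) (nat_lit 209) (nat_lit 426) (nat_lit 385))))) (XT.nd (nat_lit 234) (nat_lit 304) (nat_lit 0) (XT.nd (nat_lit 78) (nat_lit 380) (nat_lit 0) (XT.lf (nat_lit 76) (nat_lit 19425109017) (nat_lit 0) (nat_lit 73637789138) (nat_lit 228) (nat_lit 19425109017) (nat_lit 220) (nat_lit 1) (nat_lit 219) (nat_lit 1) (nat_lit 222) (nat_lit 1) (nat_lit 210) (nat_lit 426) (nat_lit 384)) (XT.nd (nat_lit 78) (nat_lit 228) (nat_lit 0) (XT.lf (nat_lit 228) (nat_lit 9099964205)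 (nat_lit 0) (nat_lit 50685024491) (nat_lit 152) (nat_lit 50685024491) (nat_lit 220) (nat_lit 1) (nat_lit 217) (nat_lit 1) (nat_lit 219) (nat_lit 1) (nat_lit 211) (nat_lit 426) (nat_lit 383)) (XT.lf (nat_lit 228) (nat_lit 89440327184) (nat_lit 0) (nat_lit 9535082478) (nat_lit 152) (nat_lit 9535082478) (nat_lit 217) (nat_lit 1) (nat_lit 214) (nat_lit 1) (nat_lit 216) (nat_lit 1) (nat_lit 212) (nat_lit 426) (nat_lit 382)))) (XT.nd (nat_lit 156) (nat_lit 152) (nat_lit 0) (XT.nd (nat_lit 78) (nat_lit 152) (nat_lit 0) (XT.lf (nat_lit 76) (nat_lit 29774904097) (nat_lit 0) (nat_lit 47017887193) (nat_lit 228) (nat_lit 29774904097) (nat_lit 215) (nat_lit 1) (nat_lit 214) (nat_lit 1) (nat_lit 217) (nat_lit 1) (nat_lit 213) (nat_lit 426) (nat_lit 381)) (XT.lf (nat_lit 228) (nat_lit 30324294235) (nat_lit 0) (nat_lit 37178503242) (nat_lit 152) (nat_lit 37178503242) (nat_lit 215) (nat_lit 1) (nat_lit 212) (nat_lit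 1) (nat_lit 214) (nat_lit 1) (nat_lit 214) (nat_lit 426) (nat_lit 380))) (XT.nd (nat_lit 78) (nat_lit 152) (nat_lit 0) (XT.lf (nat_lit 76) (nat_lit 996675919) (nat_lit 0) (nat_lit 100867710169) (nat_lit 228) (nat_lit 996675919) (nat_lit 213) (nat_lit 1) (nat_lit 212) (nat_lit 1) (nat_lit 215) (nat_lit 1) (nat_lit 215) (nat_lit 426) (nat_lit 379)) (XT.lf (nat_lit 76) (nat_lit 37632857608) (nat_lit 0) (nat_lit 25763537706) (nat_lit 152) (nat_lit 37632857608) (nat_lit 211) (nat_lit 1) (nat_lit 210) (nat_lit 1) (nat_lit 212) (nat_lit 1) (nat_lit 216) (nat_lit 426) (nat_lit 378))))))))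
noncomputable def ec384 : XT := (XT.nd (nat_lit 1950) (nat_lit 1900) (nat_lit 0) (XT.nd (nat_lit 936) (nat_lit 988) (nat_lit 0) (XT.nd (nat_lit 468) (nat_lit 608) (nat_lit 0) (XT.nd (nat_lit 234) (nat_lit 228) (nat_lit 0) (XT.nd (nat_lit 78) (nat_lit 152) (nat_lit 0) (XT.lf (nat_lit 228) (nat_lit 46698092069) (nat_lit 0) (nat_lit 26281902015) (nat_lit 152) (nat_lit 26281902015) (nat_lit 211) (nat_lit 1) (nat_lit 208) (nat_lit 1) (nat_lit 210) (nat_lit 1) (nat_lit 217) (nat_lit 426) (nat_lit 377)) (XT.nd (nat_lit 78) (nat_lit 152) (nat_lit 0) (XT.lf (nat_lit 76) (nat_lit 9362644717) (nat_lit 0) (nat_lit 78816955284) (nat_lit 228) (nat_lit 9362644717) (nat_lit 209) (nat_lit 1) (nat_lit 208) (nat_lit 1) (nat_lit 211) (nat_lit 1) (nat_lit 218) (nat_lit 426) (nat_lit 376)) (XT.lf (nat_lit 76) (nat_lit 43472045392) (nat_lit 0) (nat_lit 8892683900) (nat_lit 152) (nat_lit 43472045392) (nat_lit 207) (nat_lit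 1) (nat_lit 206) (nat_lit 1) (nat_lit 208) (nat_lit 1) (nat_lit 219) (nat_lit 426) (nat_lit 375)))) (XT.nd (nat_lit 78) (nat_lit 76) (nat_lit 0) (XT.lf (nat_lit 228) (nat_lit 59133131299) (nat_lit 0) (nat_lit 17522238581) (nat_lit 152) (nat_lit 17522238581) (nat_lit 207) (nat_lit 1) (nat_lit 204) (nat_lit 1) (nat_lit 206) (nat_lit 1) (nat_lit 220) (nat_lit 426) (nat_lit 374)) (XT.nd (nat_lit 78) (nat_lit 76) (nat_lit 0) (XT.lf (nat_lit 76) (nat_lit 15838553811) (nat_lit 0) (nat_lit 60874180835) (nat_lit 228) (nat_lit 15838553811) (nat_lit 205) (nat_lit 1) (nat_lit 204) (nat_lit 1) (nat_lit 207) (nat_lit 1) (nat_lit 221) (nat_lit 426) (nat_lit 373)) (XT.lf (nat_lit 152) (nat_lit 4546672017) (nat_lit 0) (nat_lit 43204492941) (nat_lit 76) (nat_lit 43204492941) (nat_lit 205) (nat_lit 1) (nat_lit 203) (nat_lit 1) (nat_lit 204) (nat_lit 1) (nat_lit 222) (nat_lit 426) (nat_lit 372))))) (XT.nd (nat_lit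 234) (nat_lit 304) (nat_lit 0) (XT.nd (nat_lit 78) (nat_lit 76) (nat_lit 0) (XT.lf (nat_lit 228) (nat_lit 68377064306) (nat_lit 0) (nat_lit 10510877379) (nat_lit 152) (nat_lit 10510877379) (nat_lit 203) (nat_lit 1) (nat_lit 200) (nat_lit 1) (nat_lit 202) (nat_lit 1) (nat_lit 223) (nat_lit 426) (nat_lit 371)) (XT.nd (nat_lit 78) (nat_lit 76) (nat_lit 0) (XT.lf (nat_lit 76) (nat_lit 20778877256) (nat_lit 0) (nat_lit 46301602717) (nat_lit 228) (nat_lit 20778877256) (nat_lit 201) (nat_lit 1) (nat_lit 200) (nat_lit 1) (nat_lit 203) (nat_lit 1) (nat_lit 224) (nat_lit 426) (nat_lit 370)) (XT.lf (nat_lit 152) (nat_lit 15268754667) (nat_lit 0) (nat_lit 35544443264) (nat_lit 76) (nat_lit 35544443264) (nat_lit 201) (nat_lit 1) (nat_lit 199) (nat_lit 1) (nat_lit 200) (nat_lit 1) (nat_lit 225) (nat_lit 426) (nat_lit 369)))) (XT.nd (nat_lit 78) (nat_lit 76) (nat_lit 0) (XT.lf (nat_lit 228) (nat_lit 75042637970)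 (nat_lit 0) (nat_lit 4928551817) (nat_lit 152) (nat_lit 4928551817) (nat_lit 199) (nat_lit 1) (nat_lit 196) (nat_lit 1) (nat_lit 198) (nat_lit 1) (nat_lit 226) (nat_lit 426) (nat_lit 368)) (XT.nd (nat_lit 78) (nat_lit 76) (nat_lit 0) (XT.lf (nat_lit 76) (nat_lit 24474319303) (nat_lit 0) (nat_lit 34492694088) (nat_lit 228) (nat_lit 24474319303) (nat_lit 197) (nat_lit 1) (nat_lit 196) (nat_lit 1) (nat_lit 199) (nat_lit 1) (nat_lit 227) (nat_lit 426) (nat_lit 367)) (XT.lf (nat_lit 152) (nat_lit 23540876867) (nat_lit 0) (nat_lit 29242501439) (nat_lit 76) (nat_lit 29242501439) (nat_lit 197) (nat_lit 1) (nat_lit 195) (nat_lit 1) (nat_lit 196) (nat_lit 1) (nat_lit 228) (nat_lit 426) (nat_lit 366)))))) (XT.nd (nat_lit 468) (nat_lit 456) (nat_lit 0) (XT.nd (nat_lit 234) (nat_lit 228) (nat_lit 0) (XT.nd (nat_lit 78) (nat_lit 76) (nat_lit 0) (XT.lf (nat_lit 228) (nat_lit 79631723922) (nat_lit 0) (nat_lit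 513043191) (nat_lit 152) (nat_lit 513043191) (nat_lit 195) (nat_lit 1) (nat_lit 192) (nat_lit 1) (nat_lit 194) (nat_lit 1) (nat_lit 229) (nat_lit 426) (nat_lit 365)) (XT.nd (nat_lit 78) (nat_lit 76) (nat_lit 0) (XT.lf (nat_lit 76) (nat_lit 27163164546) (nat_lit 0) (nat_lit 24948892356) (nat_lit 228) (nat_lit 27163164546) (nat_lit 193) (nat_lit 1) (nat_lit 192) (nat_lit 1) (nat_lit 195) (nat_lit 1) (nat_lit 230) (nat_lit 426) (nat_lit 364)) (XT.lf (nat_lit 152) (nat_lit 29823551576) (nat_lit 0) (nat_lit 24057878303) (nat_lit 76) (nat_lit 24057878303) (nat_lit 193) (nat_lit 1) (nat_lit 191) (nat_lit 1) (nat_lit 192) (nat_lit 1) (nat_lit 231) (nat_lit 426) (nat_lit 363)))) (XT.nd (nat_lit 78) (nat_lit 228) (nat_lit 0) (XT.lf (nat_lit 0) (nat_lit 2999331153) (nat_lit 0) (nat_lit 70645066065) (nat_lit 152) (nat_lit 2999331153) (nat_lit 191) (nat_lit 3) (nat_lit 191) (nat_lit 1) (nat_lit 193) (nat_lit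 1) (nat_lit 232) (nat_lit 426) (nat_lit 362)) (XT.nd (nat_lit 78) (nat_lit 76) (nat_lit 0) (XT.lf (nat_lit 76) (nat_lit 29040613635) (nat_lit 0) (nat_lit 17260436977) (nat_lit 152) (nat_lit 29040613635) (nat_lit 190) (nat_lit 1) (nat_lit 189) (nat_lit 1) (nat_lit 191) (nat_lit 1) (nat_lit 233) (nat_lit 426) (nat_lit 361)) (XT.lf (nat_lit 152) (nat_lit 34494399136) (nat_lit 0) (nat_lit 19792476018) (nat_lit 76) (nat_lit 19792476018) (nat_lit 190) (nat_lit 1) (nat_lit 188) (nat_lit 1) (nat_lit 189) (nat_lit 1) (nat_lit 234) (nat_lit 426) (nat_lit 360))))) (XT.nd (nat_lit 234) (nat_lit 228) (nat_lit 0) (XT.nd (nat_lit 78) (nat_lit 228) (nat_lit 0) (XT.lf (nat_lit 0) (nat_lit 5732635670) (nat_lit 0) (nat_lit 61384949190) (nat_lit 152) (nat_lit 5732635670) (nat_lit 188) (nat_lit 3) (nat_lit 188) (nat_lit 1) (nat_lit 190) (nat_lit 1) (nat_lit 235) (nat_lit 426) (nat_lit 359)) (XT.nd (nat_lit 78) (nat_lit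 76) (nat_lit 0) (XT.lf (nat_lit 76) (nat_lit 30266461792) (nat_lit 0) (nat_lit 11090605639) (nat_lit 152) (nat_lit 30266461792) (nat_lit 187) (nat_lit 1) (nat_lit 186) (nat_lit 1) (nat_lit 188) (nat_lit 1) (nat_lit 236) (nat_lit 426) (nat_lit 358)) (XT.lf (nat_lit 152) (nat_lit 37862903199) (nat_lit 0) (nat_lit 16283319002) (nat_lit 76) (nat_lit 16283319002) (nat_lit 187) (nat_lit 1) (nat_lit 185) (nat_lit 1) (nat_lit 186) (nat_lit 1) (nat_lit 237) (nat_lit 426) (nat_lit 357)))) (XT.nd (nat_lit 156) (nat_lit 76) (nat_lit 0) (XT.nd (nat_lit 78) (nat_lit 152) (nat_lit 0) (XT.lf (nat_lit 0) (nat_lit 7825852131) (nat_lit 0) (nat_lit 53611148192) (nat_lit 152) (nat_lit 7825852131) (nat_lit 185) (nat_lit 3) (nat_lit 185) (nat_lit 1) (nat_lit 187) (nat_lit 1) (nat_lit 238) (nat_lit 426) (nat_lit 356)) (XT.lf (nat_lit 76) (nat_lit 30971414054) (nat_lit 0) (nat_lit 6162746250) (nat_lit 152) (nat_lit 30971414054)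 (nat_lit 184) (nat_lit 1) (nat_lit 183) (nat_lit 1) (nat_lit 185) (nat_lit 1) (nat_lit 239) (nat_lit 426) (nat_lit 355))) (XT.nd (nat_lit 78) (nat_lit 0) (nat_lit 0) (XT.lf (nat_lit 152) (nat_lit 40182547654) (nat_lit 0) (nat_lit 13396326841) (nat_lit 76) (nat_lit 13396326841) (nat_lit 184) (nat_lit 1) (nat_lit 182) (nat_lit 1) (nat_lit 183) (nat_lit 1) (nat_lit 240) (nat_lit 426) (nat_lit 354)) (XT.lf (nat_lit 0) (nat_lit 9399870371) (nat_lit 0) (nat_lit 47067546749) (nat_lit 152) (nat_lit 9399870371) (nat_lit 182) (nat_lit 3) (nat_lit 182) (nat_lit 1) (nat_lit 184) (nat_lit 1) (nat_lit 241) (nat_lit 426) (nat_lit 353))))))) (XT.nd (nat_lit 936) (nat_lit 988) (nat_lit 0) (XT.nd (nat_lit 468) (nat_lit 456) (nat_lit 0) (XT.nd (nat_lit 234) (nat_lit 228) (nat_lit 0) (XT.nd (nat_lit 78) (nat_lit 76) (nat_lit 0) (XT.lf (nat_lit 76) (nat_lit 31262279022) (nat_lit 0) (nat_lit 2249609015) (nat_lit 152)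 (nat_lit 31262279022) (nat_lit 181) (nat_lit 1) (nat_lit 180) (nat_lit 1) (nat_lit 182) (nat_lit 1) (nat_lit 242) (nat_lit 426) (nat_lit 352)) (XT.nd (nat_lit 78) (nat_lit 0) (nat_lit 0) (XT.lf (nat_lit 152) (nat_lit 41660799007) (nat_lit 0) (nat_lit 11021191245) (nat_lit 76) (nat_lit 11021191245) (nat_lit 181) (nat_lit 1) (nat_lit 179) (nat_lit 1) (nat_lit 180) (nat_lit 1) (nat_lit 243) (nat_lit 426) (nat_lit 351)) (XT.lf (nat_lit 0) (nat_lit 10553794193) (nat_lit 0) (nat_lit 41543084770) (nat_lit 152) (nat_lit 10553794193) (nat_lit 179) (nat_lit 3) (nat_lit 179) (nat_lit 1) (nat_lit 181) (nat_lit 1) (nat_lit 244) (nat_lit 426) (nat_lit 350)))) (XT.nd (nat_lit 78) (nat_lit 152) (nat_lit 0) (XT.lf (nat_lit 76) (nat_lit 863052328) (nat_lit 0) (nat_lit 30376662401) (nat_lit 76) (nat_lit 30376662401) (nat_lit 179) (nat_lit 3) (nat_lit 178) (nat_lit 1) (nat_lit 179) (nat_lit 1) (nat_lit 245) (nat_lit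 426) (nat_lit 349)) (XT.nd (nat_lit 78) (nat_lit 0) (nat_lit 0) (XT.lf (nat_lit 152) (nat_lit 42467316358) (nat_lit 0) (nat_lit 9067161312) (nat_lit 76) (nat_lit 9067161312) (nat_lit 178) (nat_lit 1) (nat_lit 176) (nat_lit 1) (nat_lit 177) (nat_lit 1) (nat_lit 246) (nat_lit 426) (nat_lit 348)) (XT.lf (nat_lit 0) (nat_lit 11368820769) (nat_lit 0) (nat_lit 36863786819) (nat_lit 152) (nat_lit 11368820769) (nat_lit 176) (nat_lit 3) (nat_lit 176) (nat_lit 1) (nat_lit 178) (nat_lit 1) (nat_lit 247) (nat_lit 426) (nat_lit 347))))) (XT.nd (nat_lit 234) (nat_lit 228) (nat_lit 0) (XT.nd (nat_lit 78) (nat_lit 152) (nat_lit 0) (XT.lf (nat_lit 76) (nat_lit 3352897839) (nat_lit 0) (nat_lit 27633817886) (nat_lit 76) (nat_lit 27633817886) (nat_lit 176) (nat_lit 3) (nat_lit 175) (nat_lit 1) (nat_lit 176) (nat_lit 1) (nat_lit 248) (nat_lit 426) (nat_lit 346)) (XT.nd (nat_lit 78) (nat_lit 0) (nat_lit 0) (XT.lf (nat_lit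 152) (nat_lit 42740703326) (nat_lit 0) (nat_lit 7459576051) (nat_lit 76) (nat_lit 7459576051) (nat_lit 175) (nat_lit 1) (nat_lit 173) (nat_lit 1) (nat_lit 174) (nat_lit 1) (nat_lit 249) (nat_lit 426) (nat_lit 345)) (XT.lf (nat_lit 0) (nat_lit 11911431428) (nat_lit 0) (nat_lit 32886203092) (nat_lit 152) (nat_lit 11911431428) (nat_lit 173) (nat_lit 3) (nat_lit 173) (nat_lit 1) (nat_lit 175) (nat_lit 1) (nat_lit 250) (nat_lit 426) (nat_lit 344)))) (XT.nd (nat_lit 78) (nat_lit 152) (nat_lit 0) (XT.lf (nat_lit 76) (nat_lit 5275449304) (nat_lit 0) (nat_lit 25251422317) (nat_lit 76) (nat_lit 25251422317) (nat_lit 173) (nat_lit 3) (nat_lit 172) (nat_lit 1) (nat_lit 173) (nat_lit 1) (nat_lit 251) (nat_lit 426) (nat_lit 343)) (XT.nd (nat_lit 78) (nat_lit 0) (nat_lit 0) (XT.lf (nat_lit 152) (nat_lit 42594060553) (nat_lit 0) (nat_lit 6137011678) (nat_lit 76) (nat_lit 6137011678) (nat_lit 172) (nat_lit 1) (nat_lit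 170) (nat_lit 1) (nat_lit 171) (nat_lit 1) (nat_lit 252) (nat_lit 426) (nat_lit 342)) (XT.lf (nat_lit 0) (nat_lit 12236015968) (nat_lit 0) (nat_lit 29492012523) (nat_lit 152) (nat_lit 12236015968) (nat_lit 170) (nat_lit 3) (nat_lit 170) (nat_lit 1) (nat_lit 172) (nat_lit 1) (nat_lit 253) (nat_lit 426) (nat_lit 341)))))) (XT.nd (nat_lit 468) (nat_lit 532) (nat_lit 0) (XT.nd (nat_lit 234) (nat_lit 228) (nat_lit 0) (XT.nd (nat_lit 78) (nat_lit 152) (nat_lit 0) (XT.lf (nat_lit 76) (nat_lit 6737279441) (nat_lit 0) (nat_lit 23171561875) (nat_lit 76) (nat_lit 23171561875) (nat_lit 170) (nat_lit 3) (nat_lit 169) (nat_lit 1) (nat_lit 170) (nat_lit 1) (nat_lit 254) (nat_lit 426) (nat_lit 340)) (XT.nd (nat_lit 78) (nat_lit 0) (nat_lit 0) (XT.lf (nat_lit 152) (nat_lit 42119551555) (nat_lit 0) (nat_lit 5048934695) (nat_lit 76) (nat_lit 5048934695) (nat_lit 169) (nat_lit 1) (nat_lit 167) (nat_lit 1) (nat_lit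 168) (nat_lit 1) (nat_lit 255) (nat_lit 426) (nat_lit 339)) (XT.lf (nat_lit 0) (nat_lit 12387030955) (nat_lit 0) (nat_lit 26583582026) (nat_lit 152) (nat_lit 12387030955) (nat_lit 167) (nat_lit 3) (nat_lit 167) (nat_lit 1) (nat_lit 169) (nat_lit 1) (nat_lit 256) (nat_lit 426) (nat_lit 338)))) (XT.nd (nat_lit 78) (nat_lit 152) (nat_lit 0) (XT.lf (nat_lit 76) (nat_lit 7825780510) (nat_lit 0) (nat_lit 21346305340) (nat_lit 76) (nat_lit 21346305340) (nat_lit 167) (nat_lit 3) (nat_lit 166) (nat_lit 1) (nat_lit 167) (nat_lit 1) (nat_lit 257) (nat_lit 426) (nat_lit 337)) (XT.nd (nat_lit 78) (nat_lit 0) (nat_lit 0) (XT.lf (nat_lit 152) (nat_lit 41392156945) (nat_lit 0) (nat_lit 4153771069) (nat_lit 76) (nat_lit 4153771069) (nat_lit 166) (nat_lit 1) (nat_lit 164) (nat_lit 1) (nat_lit 165) (nat_lit 1) (nat_lit 258) (nat_lit 426) (nat_lit 336)) (XT.lf (nat_lit 0) (nat_lit 12400774675) (nat_lit 0) (nat_lit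 24080312375) (nat_lit 152) (nat_lit 12400774675) (nat_lit 164) (nat_lit 3) (nat_lit 164) (nat_lit 1) (nat_lit 166) (nat_lit 1) (nat_lit 259) (nat_lit 426) (nat_lit 335))))) (XT.nd (nat_lit 234) (nat_lit 304) (nat_lit 0) (XT.nd (nat_lit 78) (nat_lit 152) (nat_lit 0) (XT.lf (nat_lit 76) (nat_lit 8612578555) (nat_lit 0) (nat_lit 19735947794) (nat_lit 76) (nat_lit 19735947794) (nat_lit 164) (nat_lit 3) (nat_lit 163) (nat_lit 1) (nat_lit 164) (nat_lit 1) (nat_lit 260) (nat_lit 426) (nat_lit 334)) (XT.nd (nat_lit 78) (nat_lit 0) (nat_lit 0) (XT.lf (nat_lit 152) (nat_lit 40472761045) (nat_lit 0) (nat_lit 3417317738) (nat_lit 76) (nat_lit 3417317738) (nat_lit 163) (nat_lit 1) (nat_lit 161) (nat_lit 1) (nat_lit 162) (nat_lit 1) (nat_lit 261) (nat_lit 426) (nat_lit 333)) (XT.lf (nat_lit 0) (nat_lit 12306846733) (nat_lit 0) (nat_lit 21915631303) (nat_lit 152) (nat_lit 12306846733) (nat_lit 161) (nat_lit 3)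 (nat_lit 161) (nat_lit 1) (nat_lit 163) (nat_lit 1) (nat_lit 262) (nat_lit 426) (nat_lit 332)))) (XT.nd (nat_lit 156) (nat_lit 76) (nat_lit 0) (XT.nd (nat_lit 78) (nat_lit 152) (nat_lit 0) (XT.lf (nat_lit 76) (nat_lit 9156341656) (nat_lit 0) (nat_lit 18307565056) (nat_lit 76) (nat_lit 18307565056) (nat_lit 161) (nat_lit 3) (nat_lit 160) (nat_lit 1) (nat_lit 161) (nat_lit 1) (nat_lit 263) (nat_lit 426) (nat_lit 331)) (XT.lf (nat_lit 152) (nat_lit 39410689330) (nat_lit 0) (nat_lit 2811435760) (nat_lit 76) (nat_lit 2811435760) (nat_lit 160) (nat_lit 1) (nat_lit 158) (nat_lit 1) (nat_lit 159) (nat_lit 1) (nat_lit 264) (nat_lit 426) (nat_lit 330))) (XT.nd (nat_lit 78) (nat_lit 76) (nat_lit 0) (XT.lf (nat_lit 0) (nat_lit 12129348233) (nat_lit 0) (nat_lit 20034519079) (nat_lit 152) (nat_lit 12129348233) (nat_lit 158) (nat_lit 3) (nat_lit 158) (nat_lit 1) (nat_lit 160) (nat_lit 1) (nat_lit 265) (nat_lit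 426) (nat_lit 329)) (XT.lf (nat_lit 76) (nat_lit 9505089669) (nat_lit 0) (nat_lit 17033823807) (nat_lit 76) (nat_lit 17033823807) (nat_lit 158) (nat_lit 3) (nat_lit 157) (nat_lit 1) (nat_lit 158) (nat_lit 1) (nat_lit 266) (nat_lit 426) (nat_lit 328))))))))
noncomputable def ec385 : XT := (XT.nd (nat_lit 1950) (nat_lit 1824) (nat_lit 0) (XT.nd (nat_lit 936) (nat_lit 1064) (nat_lit 0) (XT.nd (nat_lit 468) (nat_lit 456) (nat_lit 0) (XT.nd (nat_lit 234) (nat_lit 228) (nat_lit 0) (XT.nd (nat_lit 78) (nat_lit 76) (nat_lit 0) (XT.lf (nat_lit 152) (nat_lit 38245794175) (nat_lit 0) (nat_lit 2312975157) (nat_lit 76) (nat_lit 2312975157) (nat_lit 157) (nat_lit 1) (nat_lit 155) (nat_lit 1) (nat_lit 156) (nat_lit 1) (nat_lit 267) (nat_lit 426) (nat_lit 327)) (XT.nd (nat_lit 78) (nat_lit 76) (nat_lit 0) (XT.lf (nat_lit 0) (nat_lit 11887868589) (nat_lit 0) (nat_lit 18391472208) (nat_lit 152) (nat_lit 11887868589)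 (nat_lit 155) (nat_lit 3) (nat_lit 155) (nat_lit 1) (nat_lit 157) (nat_lit 1) (nat_lit 268) (nat_lit 426) (nat_lit 326)) (XT.lf (nat_lit 76) (nat_lit 9698093868) (nat_lit 0) (nat_lit 15892002076) (nat_lit 76) (nat_lit 15892002076) (nat_lit 155) (nat_lit 3) (nat_lit 154) (nat_lit 1) (nat_lit 155) (nat_lit 1) (nat_lit 269) (nat_lit 426) (nat_lit 325)))) (XT.nd (nat_lit 78) (nat_lit 76) (nat_lit 0) (XT.lf (nat_lit 152) (nat_lit 37010169071) (nat_lit 0) (nat_lit 1902890386) (nat_lit 76) (nat_lit 1902890386) (nat_lit 154) (nat_lit 1) (nat_lit 152) (nat_lit 1) (nat_lit 153) (nat_lit 1) (nat_lit 270) (nat_lit 426) (nat_lit 324)) (XT.nd (nat_lit 78) (nat_lit 76) (nat_lit 0) (XT.lf (nat_lit 0) (nat_lit 11598296794) (nat_lit 0) (nat_lit 16948827586) (nat_lit 152) (nat_lit 11598296794) (nat_lit 152) (nat_lit 3) (nat_lit 152) (nat_lit 1) (nat_lit 154) (nat_lit 1) (nat_lit 271) (nat_lit 426) (nat_lit 323))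 (XT.lf (nat_lit 76) (nat_lit 9767439230) (nat_lit 0) (nat_lit 14863182841) (nat_lit 76) (nat_lit 14863182841) (nat_lit 152) (nat_lit 3) (nat_lit 151) (nat_lit 1) (nat_lit 152) (nat_lit 1) (nat_lit 272) (nat_lit 426) (nat_lit 322))))) (XT.nd (nat_lit 234) (nat_lit 228) (nat_lit 0) (XT.nd (nat_lit 78) (nat_lit 76) (nat_lit 0) (XT.lf (nat_lit 152) (nat_lit 35729557261) (nat_lit 0) (nat_lit 1565512630) (nat_lit 76) (nat_lit 1565512630) (nat_lit 151) (nat_lit 1) (nat_lit 149) (nat_lit 1) (nat_lit 150) (nat_lit 1) (nat_lit 273) (nat_lit 426) (nat_lit 321)) (XT.nd (nat_lit 78) (nat_lit 76) (nat_lit 0) (XT.lf (nat_lit 0) (nat_lit 11273488320) (nat_lit 0) (nat_lit 15675383244) (nat_lit 152) (nat_lit 11273488320) (nat_lit 149) (nat_lit 3) (nat_lit 149) (nat_lit 1) (nat_lit 151) (nat_lit 1) (nat_lit 274) (nat_lit 426) (nat_lit 320)) (XT.lf (nat_lit 76) (nat_lit 9739309192) (nat_lit 0) (nat_lit 13931590072)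 (nat_lit 76) (nat_lit 13931590072) (nat_lit 149) (nat_lit 3) (nat_lit 148) (nat_lit 1) (nat_lit 149) (nat_lit 1) (nat_lit 275) (nat_lit 426) (nat_lit 319)))) (XT.nd (nat_lit 78) (nat_lit 76) (nat_lit 0) (XT.lf (nat_lit 152) (nat_lit 34424509062) (nat_lit 0) (nat_lit 1287951115) (nat_lit 76) (nat_lit 1287951115) (nat_lit 148) (nat_lit 1) (nat_lit 146) (nat_lit 1) (nat_lit 147) (nat_lit 1) (nat_lit 276) (nat_lit 426) (nat_lit 318)) (XT.nd (nat_lit 78) (nat_lit 76) (nat_lit 0) (XT.lf (nat_lit 0) (nat_lit 10923813258) (nat_lit 0) (nat_lit 14545263106) (nat_lit 152) (nat_lit 10923813258) (nat_lit 146) (nat_lit 3) (nat_lit 146) (nat_lit 1) (nat_lit 148) (nat_lit 1) (nat_lit 277) (nat_lit 426) (nat_lit 317)) (XT.lf (nat_lit 76) (nat_lit 9635042124) (nat_lit 0) (nat_lit 13084041978) (nat_lit 76) (nat_lit 13084041978) (nat_lit 146) (nat_lit 3) (nat_lit 145) (nat_lit 1) (nat_lit 146) (nat_lit 1) (nat_lit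 278) (nat_lit 426) (nat_lit 316)))))) (XT.nd (nat_lit 468) (nat_lit 608) (nat_lit 0) (XT.nd (nat_lit 234) (nat_lit 228) (nat_lit 0) (XT.nd (nat_lit 78) (nat_lit 76) (nat_lit 0) (XT.lf (nat_lit 152) (nat_lit 33111332494) (nat_lit 0) (nat_lit 1059600569) (nat_lit 76) (nat_lit 1059600569) (nat_lit 145) (nat_lit 1) (nat_lit 143) (nat_lit 1) (nat_lit 144) (nat_lit 1) (nat_lit 279) (nat_lit 426) (nat_lit 315)) (XT.nd (nat_lit 78) (nat_lit 76) (nat_lit 0) (XT.lf (nat_lit 0) (nat_lit 10557606790) (nat_lit 0) (nat_lit 13536982542) (nat_lit 152) (nat_lit 10557606790) (nat_lit 143) (nat_lit 3) (nat_lit 143) (nat_lit 1) (nat_lit 145) (nat_lit 1) (nat_lit 280) (nat_lit 426) (nat_lit 314)) (XT.lf (nat_lit 76) (nat_lit 9471999998) (nat_lit 0) (nat_lit 12309500714) (nat_lit 76) (nat_lit 12309500714) (nat_lit 143) (nat_lit 3) (nat_lit 142) (nat_lit 1) (nat_lit 143) (nat_lit 1) (nat_lit 281) (nat_lit 426) (nat_lit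 313)))) (XT.nd (nat_lit 78) (nat_lit 76) (nat_lit 0) (XT.lf (nat_lit 152) (nat_lit 31802873943) (nat_lit 0) (nat_lit 871736011) (nat_lit 76) (nat_lit 871736011) (nat_lit 142) (nat_lit 1) (nat_lit 140) (nat_lit 1) (nat_lit 141) (nat_lit 1) (nat_lit 282) (nat_lit 426) (nat_lit 312)) (XT.nd (nat_lit 78) (nat_lit 76) (nat_lit 0) (XT.lf (nat_lit 0) (nat_lit 10181539319) (nat_lit 0) (nat_lit 12632679123) (nat_lit 152) (nat_lit 10181539319) (nat_lit 140) (nat_lit 3) (nat_lit 140) (nat_lit 1) (nat_lit 142) (nat_lit 1) (nat_lit 283) (nat_lit 426) (nat_lit 311)) (XT.lf (nat_lit 76) (nat_lit 9264282600) (nat_lit 0) (nat_lit 11598701461) (nat_lit 76) (nat_lit 11598701461) (nat_lit 140) (nat_lit 3) (nat_lit 139) (nat_lit 1) (nat_lit 140) (nat_lit 1) (nat_lit 284) (nat_lit 426) (nat_lit 310))))) (XT.nd (nat_lit 234) (nat_lit 380) (nat_lit 0) (XT.nd (nat_lit 78) (nat_lit 76) (nat_lit 0) (XT.lf (nat_lit 152) (nat_lit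 30509159058) (nat_lit 0) (nat_lit 717179373) (nat_lit 76) (nat_lit 717179373) (nat_lit 139) (nat_lit 1) (nat_lit 137) (nat_lit 1) (nat_lit 138) (nat_lit 1) (nat_lit 285) (nat_lit 426) (nat_lit 309)) (XT.nd (nat_lit 78) (nat_lit 76) (nat_lit 0) (XT.lf (nat_lit 0) (nat_lit 9800920532) (nat_lit 0) (nat_lit 11817479315) (nat_lit 152) (nat_lit 9800920532) (nat_lit 137) (nat_lit 3) (nat_lit 137) (nat_lit 1) (nat_lit 139) (nat_lit 1) (nat_lit 286) (nat_lit 426) (nat_lit 308)) (XT.lf (nat_lit 76) (nat_lit 9023314661) (nat_lit 0) (nat_lit 10943846835) (nat_lit 76) (nat_lit 10943846835) (nat_lit 137) (nat_lit 3) (nat_lit 136) (nat_lit 1) (nat_lit 137) (nat_lit 1) (nat_lit 287) (nat_lit 426) (nat_lit 307)))) (XT.nd (nat_lit 156) (nat_lit 228) (nat_lit 0) (XT.nd (nat_lit 78) (nat_lit 0) (nat_lit 0) (XT.lf (nat_lit 152) (nat_lit 29237918717) (nat_lit 0) (nat_lit 590025245) (nat_lit 76) (nat_lit 590025245) (nat_lit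 136) (nat_lit 1) (nat_lit 134) (nat_lit 1) (nat_lit 135) (nat_lit 1) (nat_lit 288) (nat_lit 426) (nat_lit 306)) (XT.lf (nat_lit 0) (nat_lit 9419949136) (nat_lit 0) (nat_lit 11078977038) (nat_lit 152) (nat_lit 9419949136) (nat_lit 134) (nat_lit 3) (nat_lit 134) (nat_lit 1) (nat_lit 136) (nat_lit 1) (nat_lit 289) (nat_lit 426) (nat_lit 305))) (XT.nd (nat_lit 78) (nat_lit 152) (nat_lit 0) (XT.lf (nat_lit 76) (nat_lit 8758328482) (nat_lit 0) (nat_lit 10338355054) (nat_lit 76) (nat_lit 10338355054) (nat_lit 134) (nat_lit 3) (nat_lit 133) (nat_lit 1) (nat_lit 134) (nat_lit 1) (nat_lit 290) (nat_lit 426) (nat_lit 304)) (XT.lf (nat_lit 152) (nat_lit 27995020521) (nat_lit 0) (nat_lit 485415229) (nat_lit 76) (nat_lit 485415229) (nat_lit 133) (nat_lit 1) (nat_lit 131) (nat_lit 1) (nat_lit 132) (nat_lit 1) (nat_lit 291) (nat_lit 426) (nat_lit 303))))))) (XT.nd (nat_lit 936) (nat_lit 912) (nat_lit 0) (XT.nd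 (nat_lit 468) (nat_lit 456) (nat_lit 0) (XT.nd (nat_lit 234) (nat_lit 228) (nat_lit 0) (XT.nd (nat_lit 78) (nat_lit 228) (nat_lit 0) (XT.lf (nat_lit 0) (nat_lit 9041917904) (nat_lit 0) (nat_lit 10406804265) (nat_lit 152) (nat_lit 9041917904) (nat_lit 131) (nat_lit 3) (nat_lit 131) (nat_lit 1) (nat_lit 133) (nat_lit 1) (nat_lit 292) (nat_lit 426) (nat_lit 302)) (XT.nd (nat_lit 78) (nat_lit 152) (nat_lit 0) (XT.lf (nat_lit 76) (nat_lit 8476760592) (nat_lit 0) (nat_lit 9776652364) (nat_lit 76) (nat_lit 9776652364) (nat_lit 131) (nat_lit 3) (nat_lit 130) (nat_lit 1) (nat_lit 131) (nat_lit 1) (nat_lit 293) (nat_lit 426) (nat_lit 301)) (XT.lf (nat_lit 152) (nat_lit 26784822602) (nat_lit 0) (nat_lit 399352310) (nat_lit 76) (nat_lit 399352310) (nat_lit 130) (nat_lit 1) (nat_lit 128) (nat_lit 1) (nat_lit 129) (nat_lit 1) (nat_lit 294) (nat_lit 426) (nat_lit 300)))) (XT.nd (nat_lit 78) (nat_lit 228) (nat_lit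 0) (XT.lf (nat_lit 0) (nat_lit 8669381987) (nat_lit 0) (nat_lit 9792277373) (nat_lit 152) (nat_lit 8669381987) (nat_lit 128) (nat_lit 3) (nat_lit 128) (nat_lit 1) (nat_lit 130) (nat_lit 1) (nat_lit 295) (nat_lit 426) (nat_lit 299)) (XT.nd (nat_lit 78) (nat_lit 152) (nat_lit 0) (XT.lf (nat_lit 76) (nat_lit 8184577704) (nat_lit 0) (nat_lit 9254001882) (nat_lit 76) (nat_lit 9254001882) (nat_lit 128) (nat_lit 3) (nat_lit 127) (nat_lit 1) (nat_lit 128) (nat_lit 1) (nat_lit 296) (nat_lit 426) (nat_lit 298)) (XT.lf (nat_lit 152) (nat_lit 25610463592) (nat_lit 0) (nat_lit 328548134) (nat_lit 76) (nat_lit 328548134) (nat_lit 127) (nat_lit 1) (nat_lit 125) (nat_lit 1) (nat_lit 126) (nat_lit 1) (nat_lit 297) (nat_lit 426) (nat_lit 297))))) (XT.nd (nat_lit 234) (nat_lit 228) (nat_lit 0) (XT.nd (nat_lit 78) (nat_lit 228) (nat_lit 0) (XT.lf (nat_lit 0) (nat_lit 8304297016) (nat_lit 0) (nat_lit 9228105829) (nat_lit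 152) (nat_lit 8304297016) (nat_lit 125) (nat_lit 3) (nat_lit 125) (nat_lit 1) (nat_lit 127) (nat_lit 1) (nat_lit 298) (nat_lit 426) (nat_lit 296)) (XT.nd (nat_lit 78) (nat_lit 152) (nat_lit 0) (XT.lf (nat_lit 76) (nat_lit 7886544510) (nat_lit 0) (nat_lit 8766362427) (nat_lit 76) (nat_lit 8766362427) (nat_lit 125) (nat_lit 3) (nat_lit 124) (nat_lit 1) (nat_lit 125) (nat_lit 1) (nat_lit 299) (nat_lit 426) (nat_lit 295)) (XT.lf (nat_lit 152) (nat_lit 24474100111) (nat_lit 0) (nat_lit 270297363) (nat_lit 76) (nat_lit 270297363) (nat_lit 124) (nat_lit 1) (nat_lit 122) (nat_lit 1) (nat_lit 123) (nat_lit 1) (nat_lit 300) (nat_lit 426) (nat_lit 294)))) (XT.nd (nat_lit 78) (nat_lit 228) (nat_lit 0) (XT.lf (nat_lit 0) (nat_lit 7948132373) (nat_lit 0) (nat_lit 8708152170) (nat_lit 152) (nat_lit 7948132373) (nat_lit 122) (nat_lit 3) (nat_lit 122) (nat_lit 1) (nat_lit 124) (nat_lit 1) (nat_lit 301) (nat_lit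 426) (nat_lit 293)) (XT.nd (nat_lit 78) (nat_lit 152) (nat_lit 0) (XT.lf (nat_lit 76) (nat_lit 7586443664) (nat_lit 0) (nat_lit 8310272042) (nat_lit 76) (nat_lit 8310272042) (nat_lit 122) (nat_lit 3) (nat_lit 121) (nat_lit 1) (nat_lit 122) (nat_lit 1) (nat_lit 302) (nat_lit 426) (nat_lit 292)) (XT.lf (nat_lit 152) (nat_lit 23377101143) (nat_lit 0) (nat_lit 222374309) (nat_lit 76) (nat_lit 222374309) (nat_lit 121) (nat_lit 1) (nat_lit 119) (nat_lit 1) (nat_lit 120) (nat_lit 1) (nat_lit 303) (nat_lit 426) (nat_lit 291)))))) (XT.nd (nat_lit 468) (nat_lit 456) (nat_lit 0) (XT.nd (nat_lit 234) (nat_lit 228) (nat_lit 0) (XT.nd (nat_lit 78) (nat_lit 228) (nat_lit 0) (XT.lf (nat_lit 0) (nat_lit 7601964046) (nat_lit 0) (nat_lit 8227234214) (nat_lit 152) (nat_lit 7601964046) (nat_lit 119) (nat_lit 3) (nat_lit 119) (nat_lit 1) (nat_lit 121) (nat_lit 1) (nat_lit 304) (nat_lit 426) (nat_lit 290)) (XT.nd (nat_lit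 78) (nat_lit 152) (nat_lit 0) (XT.lf (nat_lit 76) (nat_lit 7287256433) (nat_lit 0) (nat_lit 7882751831) (nat_lit 76) (nat_lit 7882751831) (nat_lit 119) (nat_lit 3) (nat_lit 118) (nat_lit 1) (nat_lit 119) (nat_lit 1) (nat_lit 305) (nat_lit 426) (nat_lit 289)) (XT.lf (nat_lit 152) (nat_lit 22320206976) (nat_lit 0) (nat_lit 182947894) (nat_lit 76) (nat_lit 182947894) (nat_lit 118) (nat_lit 1) (nat_lit 116) (nat_lit 1) (nat_lit 117) (nat_lit 1) (nat_lit 306) (nat_lit 426) (nat_lit 288)))) (XT.nd (nat_lit 78) (nat_lit 228) (nat_lit 0) (XT.lf (nat_lit 0) (nat_lit 7266550704) (nat_lit 0) (nat_lit 7780962018) (nat_lit 152) (nat_lit 7266550704) (nat_lit 116) (nat_lit 3) (nat_lit 116) (nat_lit 1) (nat_lit 118) (nat_lit 1) (nat_lit 307) (nat_lit 426) (nat_lit 287)) (XT.nd (nat_lit 78) (nat_lit 152) (nat_lit 0) (XT.lf (nat_lit 76) (nat_lit 6991311003) (nat_lit 0) (nat_lit 7481226540) (nat_lit 76) (nat_lit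 7481226540) (nat_lit 116) (nat_lit 3) (nat_lit 115) (nat_lit 1) (nat_lit 116) (nat_lit 1) (nat_lit 308) (nat_lit 426) (nat_lit 286)) (XT.lf (nat_lit 152) (nat_lit 21303659053) (nat_lit 0) (nat_lit 150511685) (nat_lit 76) (nat_lit 150511685) (nat_lit 115) (nat_lit 1) (nat_lit 113) (nat_lit 1) (nat_lit 114) (nat_lit 1) (nat_lit 309) (nat_lit 426) (nat_lit 285))))) (XT.nd (nat_lit 234) (nat_lit 228) (nat_lit 0) (XT.nd (nat_lit 78) (nat_lit 228) (nat_lit 0) (XT.lf (nat_lit 0) (nat_lit 6942395980) (nat_lit 0) (nat_lit 7365603441) (nat_lit 152) (nat_lit 6942395980) (nat_lit 113) (nat_lit 3) (nat_lit 113) (nat_lit 1) (nat_lit 115) (nat_lit 1) (nat_lit 310) (nat_lit 426) (nat_lit 284)) (XT.nd (nat_lit 78) (nat_lit 152) (nat_lit 0) (XT.lf (nat_lit 76) (nat_lit 6700404198) (nat_lit 0) (nat_lit 7103458923) (nat_lit 76) (nat_lit 7103458923) (nat_lit 113) (nat_lit 3) (nat_lit 112) (nat_lit 1) (nat_lit 113)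 (nat_lit 1) (nat_lit 311) (nat_lit 426) (nat_lit 283)) (XT.lf (nat_lit 152) (nat_lit 20327305916) (nat_lit 0) (nat_lit 123826336) (nat_lit 76) (nat_lit 123826336) (nat_lit 112) (nat_lit 1) (nat_lit 110) (nat_lit 1) (nat_lit 111) (nat_lit 1) (nat_lit 312) (nat_lit 426) (nat_lit 282)))) (XT.nd (nat_lit 156) (nat_lit 152) (nat_lit 0) (XT.nd (nat_lit 78) (nat_lit 76) (nat_lit 0) (XT.lf (nat_lit 0) (nat_lit 6629799433) (nat_lit 0) (nat_lit 6977973259) (nat_lit 152) (nat_lit 6629799433) (nat_lit 110) (nat_lit 3) (nat_lit 110) (nat_lit 1) (nat_lit 112) (nat_lit 1) (nat_lit 313) (nat_lit 426) (nat_lit 281)) (XT.lf (nat_lit 76) (nat_lit 6415901339) (nat_lit 0) (nat_lit 6747495458) (nat_lit 76) (nat_lit 6747495458) (nat_lit 110) (nat_lit 3) (nat_lit 109) (nat_lit 1) (nat_lit 110) (nat_lit 1) (nat_lit 314) (nat_lit 426) (nat_lit 280))) (XT.nd (nat_lit 78) (nat_lit 0) (nat_lit 0) (XT.lf (nat_lit 152) (nat_lit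 19390689541) (nat_lit 0) (nat_lit 101872233) (nat_lit 76) (nat_lit 101872233) (nat_lit 109) (nat_lit 1) (nat_lit 107) (nat_lit 1) (nat_lit 108) (nat_lit 1) (nat_lit 315) (nat_lit 426) (nat_lit 279)) (XT.lf (nat_lit 0) (nat_lit 6328898190) (nat_lit 0) (nat_lit 6615341658) (nat_lit 152) (nat_lit 6328898190) (nat_lit 107) (nat_lit 3) (nat_lit 107) (nat_lit 1) (nat_lit 109) (nat_lit 1) (nat_lit 316) (nat_lit 426) (nat_lit 278))))))))
noncomputable def ec386 : XT := (XT.nd (nat_lit 1950) (nat_lit 1976) (nat_lit 0) (XT.nd (nat_lit 936) (nat_lit 988) (nat_lit 0) (XT.nd (nat_lit 468) (nat_lit 456) (nat_lit 0) (XT.nd (nat_lit 234) (nat_lit 228) (nat_lit 0) (XT.nd (nat_lit 78) (nat_lit 152) (nat_lit 0) (XT.lf (nat_lit 76) (nat_lit 6138818121) (nat_lit 0) (nat_lit 6411621425) (nat_lit 76) (nat_lit 6411621425) (nat_lit 107) (nat_lit 3) (nat_lit 106) (nat_lit 1) (nat_lit 107) (nat_lit 1) (nat_lit 317) (nat_lit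 426) (nat_lit 277)) (XT.nd (nat_lit 78) (nat_lit 0) (nat_lit 0) (XT.lf (nat_lit 152) (nat_lit 18493115566) (nat_lit 0) (nat_lit 83810538) (nat_lit 76) (nat_lit 83810538) (nat_lit 106) (nat_lit 1) (nat_lit 104) (nat_lit 1) (nat_lit 105) (nat_lit 1) (nat_lit 318) (nat_lit 426) (nat_lit 276)) (XT.lf (nat_lit 0) (nat_lit 6039700956) (nat_lit 0) (nat_lit 6275358706) (nat_lit 152) (nat_lit 6039700956) (nat_lit 104) (nat_lit 3) (nat_lit 104) (nat_lit 1) (nat_lit 106) (nat_lit 1) (nat_lit 319) (nat_lit 426) (nat_lit 275)))) (XT.nd (nat_lit 78) (nat_lit 152) (nat_lit 0) (XT.lf (nat_lit 76) (nat_lit 5869887730) (nat_lit 0) (nat_lit 6094323682) (nat_lit 76) (nat_lit 6094323682) (nat_lit 104) (nat_lit 3) (nat_lit 103) (nat_lit 1) (nat_lit 104) (nat_lit 1) (nat_lit 320) (nat_lit 426) (nat_lit 274)) (XT.nd (nat_lit 78) (nat_lit 0) (nat_lit 0) (XT.lf (nat_lit 152) (nat_lit 17633710318) (nat_lit 0) (nat_lit 68951137)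 (nat_lit 76) (nat_lit 68951137) (nat_lit 103) (nat_lit 1) (nat_lit 101) (nat_lit 1) (nat_lit 102) (nat_lit 1) (nat_lit 321) (nat_lit 426) (nat_lit 273)) (XT.lf (nat_lit 0) (nat_lit 5762115734) (nat_lit 0) (nat_lit 5955991949) (nat_lit 152) (nat_lit 5762115734) (nat_lit 101) (nat_lit 3) (nat_lit 101) (nat_lit 1) (nat_lit 103) (nat_lit 1) (nat_lit 322) (nat_lit 426) (nat_lit 272))))) (XT.nd (nat_lit 234) (nat_lit 228) (nat_lit 0) (XT.nd (nat_lit 78) (nat_lit 152) (nat_lit 0) (XT.lf (nat_lit 76) (nat_lit 5609615799) (nat_lit 0) (nat_lit 5794259812) (nat_lit 76) (nat_lit 5794259812) (nat_lit 101) (nat_lit 3) (nat_lit 100) (nat_lit 1) (nat_lit 101) (nat_lit 1) (nat_lit 323) (nat_lit 426) (nat_lit 271)) (XT.nd (nat_lit 78) (nat_lit 0) (nat_lit 0) (XT.lf (nat_lit 152) (nat_lit 16811466999) (nat_lit 0) (nat_lit 56726271) (nat_lit 76) (nat_lit 56726271) (nat_lit 100) (nat_lit 1) (nat_lit 98) (nat_lit 1)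 (nat_lit 99) (nat_lit 1) (nat_lit 324) (nat_lit 426) (nat_lit 270)) (XT.lf (nat_lit 0) (nat_lit 5495972409) (nat_lit 0) (nat_lit 5655474851) (nat_lit 152) (nat_lit 5495972409) (nat_lit 98) (nat_lit 3) (nat_lit 98) (nat_lit 1) (nat_lit 100) (nat_lit 1) (nat_lit 325) (nat_lit 426) (nat_lit 269)))) (XT.nd (nat_lit 78) (nat_lit 152) (nat_lit 0) (XT.lf (nat_lit 76) (nat_lit 5358325407) (nat_lit 0) (nat_lit 5510232494) (nat_lit 76) (nat_lit 5510232494) (nat_lit 98) (nat_lit 3) (nat_lit 97) (nat_lit 1) (nat_lit 98) (nat_lit 1) (nat_lit 326) (nat_lit 426) (nat_lit 268)) (XT.nd (nat_lit 78) (nat_lit 0) (nat_lit 0) (XT.lf (nat_lit 152) (nat_lit 16025283010) (nat_lit 0) (nat_lit 46668843) (nat_lit 76) (nat_lit 46668843) (nat_lit 97) (nat_lit 1) (nat_lit 95) (nat_lit 1) (nat_lit 96) (nat_lit 1) (nat_lit 327) (nat_lit 426) (nat_lit 267)) (XT.lf (nat_lit 0) (nat_lit 5241041088) (nat_lit 0) (nat_lit 5372264141)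 (nat_lit 152) (nat_lit 5241041088) (nat_lit 95) (nat_lit 3) (nat_lit 95) (nat_lit 1) (nat_lit 97) (nat_lit 1) (nat_lit 328) (nat_lit 426) (nat_lit 266)))))) (XT.nd (nat_lit 468) (nat_lit 532) (nat_lit 0) (XT.nd (nat_lit 234) (nat_lit 228) (nat_lit 0) (XT.nd (nat_lit 78) (nat_lit 152) (nat_lit 0) (XT.lf (nat_lit 76) (nat_lit 5116193865) (nat_lit 0) (nat_lit 5241168201) (nat_lit 76) (nat_lit 5241168201) (nat_lit 95) (nat_lit 3) (nat_lit 94) (nat_lit 1) (nat_lit 95) (nat_lit 1) (nat_lit 329) (nat_lit 426) (nat_lit 265)) (XT.nd (nat_lit 78) (nat_lit 0) (nat_lit 0) (XT.lf (nat_lit 152) (nat_lit 15273989997) (nat_lit 0) (nat_lit 38394573) (nat_lit 76) (nat_lit 38394573) (nat_lit 94) (nat_lit 1) (nat_lit 92) (nat_lit 1) (nat_lit 93) (nat_lit 1) (nat_lit 330) (nat_lit 426) (nat_lit 264)) (XT.lf (nat_lit 0) (nat_lit 4997046983) (nat_lit 0) (nat_lit 5105004514) (nat_lit 152) (nat_lit 4997046983) (nat_lit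 92) (nat_lit 3) (nat_lit 92) (nat_lit 1) (nat_lit 94) (nat_lit 1) (nat_lit 331) (nat_lit 426) (nat_lit 263)))) (XT.nd (nat_lit 78) (nat_lit 152) (nat_lit 0) (XT.lf (nat_lit 76) (nat_lit 4883282775) (nat_lit 0) (nat_lit 4986099471) (nat_lit 76) (nat_lit 4986099471) (nat_lit 92) (nat_lit 3) (nat_lit 91) (nat_lit 1) (nat_lit 92) (nat_lit 1) (nat_lit 332) (nat_lit 426) (nat_lit 262)) (XT.nd (nat_lit 78) (nat_lit 0) (nat_lit 0) (XT.lf (nat_lit 152) (nat_lit 14556377947) (nat_lit 0) (nat_lit 31587310) (nat_lit 76) (nat_lit 31587310) (nat_lit 91) (nat_lit 1) (nat_lit 89) (nat_lit 1) (nat_lit 90) (nat_lit 1) (nat_lit 333) (nat_lit 426) (nat_lit 261)) (XT.lf (nat_lit 0) (nat_lit 4763682453) (nat_lit 0) (nat_lit 4852499381) (nat_lit 152) (nat_lit 4763682453) (nat_lit 89) (nat_lit 3) (nat_lit 89) (nat_lit 1) (nat_lit 91) (nat_lit 1) (nat_lit 334) (nat_lit 426) (nat_lit 260))))) (XT.nd (nat_lit 234) (nat_lit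 304) (nat_lit 0) (XT.nd (nat_lit 78) (nat_lit 152) (nat_lit 0) (XT.lf (nat_lit 76) (nat_lit 4659562558) (nat_lit 0) (nat_lit 4744150109) (nat_lit 76) (nat_lit 4744150109) (nat_lit 89) (nat_lit 3) (nat_lit 88) (nat_lit 1) (nat_lit 89) (nat_lit 1) (nat_lit 335) (nat_lit 426) (nat_lit 259)) (XT.nd (nat_lit 78) (nat_lit 0) (nat_lit 0) (XT.lf (nat_lit 152) (nat_lit 13871214424) (nat_lit 0) (nat_lit 25986958) (nat_lit 76) (nat_lit 25986958) (nat_lit 88) (nat_lit 1) (nat_lit 86) (nat_lit 1) (nat_lit 87) (nat_lit 1) (nat_lit 336) (nat_lit 426) (nat_lit 258)) (XT.lf (nat_lit 0) (nat_lit 4540616708) (nat_lit 0) (nat_lit 4613686614) (nat_lit 152) (nat_lit 4540616708) (nat_lit 86) (nat_lit 3) (nat_lit 86) (nat_lit 1) (nat_lit 88) (nat_lit 1) (nat_lit 337) (nat_lit 426) (nat_lit 257)))) (XT.nd (nat_lit 156) (nat_lit 76) (nat_lit 0) (XT.nd (nat_lit 78) (nat_lit 152) (nat_lit 0) (XT.lf (nat_lit 76) (nat_lit 4444932443)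 (nat_lit 0) (nat_lit 4514522830) (nat_lit 76) (nat_lit 4514522830) (nat_lit 86) (nat_lit 3) (nat_lit 85) (nat_lit 1) (nat_lit 86) (nat_lit 1) (nat_lit 338) (nat_lit 426) (nat_lit 256)) (XT.lf (nat_lit 152) (nat_lit 13217259828) (nat_lit 0) (nat_lit 21379535) (nat_lit 76) (nat_lit 21379535) (nat_lit 85) (nat_lit 1) (nat_lit 83) (nat_lit 1) (nat_lit 84) (nat_lit 1) (nat_lit 339) (nat_lit 426) (nat_lit 255))) (XT.nd (nat_lit 78) (nat_lit 76) (nat_lit 0) (XT.lf (nat_lit 0) (nat_lit 4327503617) (nat_lit 0) (nat_lit 4387618410) (nat_lit 152) (nat_lit 4327503617) (nat_lit 83) (nat_lit 3) (nat_lit 83) (nat_lit 1) (nat_lit 85) (nat_lit 1) (nat_lit 340) (nat_lit 426) (nat_lit 254)) (XT.lf (nat_lit 76) (nat_lit 4239236725) (nat_lit 0) (nat_lit 4296488909) (nat_lit 76) (nat_lit 4296488909) (nat_lit 83) (nat_lit 3) (nat_lit 82) (nat_lit 1) (nat_lit 83) (nat_lit 1) (nat_lit 341) (nat_lit 426) (nat_lit 253)))))))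 (XT.nd (nat_lit 936) (nat_lit 1064) (nat_lit 0) (XT.nd (nat_lit 468) (nat_lit 456) (nat_lit 0) (XT.nd (nat_lit 234) (nat_lit 228) (nat_lit 0) (XT.nd (nat_lit 78) (nat_lit 76) (nat_lit 0) (XT.lf (nat_lit 152) (nat_lit 12593279412) (nat_lit 0) (nat_lit 17588996) (nat_lit 76) (nat_lit 17588996) (nat_lit 82) (nat_lit 1) (nat_lit 80) (nat_lit 1) (nat_lit 81) (nat_lit 1) (nat_lit 342) (nat_lit 426) (nat_lit 252)) (XT.nd (nat_lit 78) (nat_lit 76) (nat_lit 0) (XT.lf (nat_lit 0) (nat_lit 4123987949) (nat_lit 0) (nat_lit 4173444538) (nat_lit 152) (nat_lit 4123987949) (nat_lit 80) (nat_lit 3) (nat_lit 80) (nat_lit 1) (nat_lit 82) (nat_lit 1) (nat_lit 343) (nat_lit 426) (nat_lit 251)) (XT.lf (nat_lit 76) (nat_lit 4042277978) (nat_lit 0) (nat_lit 4089379491) (nat_lit 76) (nat_lit 4089379491) (nat_lit 80) (nat_lit 3) (nat_lit 79) (nat_lit 1) (nat_lit 80) (nat_lit 1) (nat_lit 344) (nat_lit 426) (nat_lit 250))))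 (XT.nd (nat_lit 78) (nat_lit 76) (nat_lit 0) (XT.lf (nat_lit 152) (nat_lit 11998052654) (nat_lit 0) (nat_lit 14470510) (nat_lit 76) (nat_lit 14470510) (nat_lit 79) (nat_lit 1) (nat_lit 77) (nat_lit 1) (nat_lit 78) (nat_lit 1) (nat_lit 345) (nat_lit 426) (nat_lit 249)) (XT.nd (nat_lit 78) (nat_lit 76) (nat_lit 0) (XT.lf (nat_lit 0) (nat_lit 3929710342) (nat_lit 0) (nat_lit 3970398400) (nat_lit 152) (nat_lit 3929710342) (nat_lit 77) (nat_lit 3) (nat_lit 77) (nat_lit 1) (nat_lit 79) (nat_lit 1) (nat_lit 346) (nat_lit 426) (nat_lit 248)) (XT.lf (nat_lit 76) (nat_lit 3853827746) (nat_lit 0) (nat_lit 3892578278) (nat_lit 76) (nat_lit 3892578278) (nat_lit 77) (nat_lit 3) (nat_lit 76) (nat_lit 1) (nat_lit 77) (nat_lit 1) (nat_lit 347) (nat_lit 426) (nat_lit 247))))) (XT.nd (nat_lit 234) (nat_lit 228) (nat_lit 0) (XT.nd (nat_lit 78) (nat_lit 76) (nat_lit 0) (XT.lf (nat_lit 152) (nat_lit 11430380483) (nat_lit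 0) (nat_lit 11904925) (nat_lit 76) (nat_lit 11904925) (nat_lit 76) (nat_lit 1) (nat_lit 74) (nat_lit 1) (nat_lit 75) (nat_lit 1) (nat_lit 348) (nat_lit 426) (nat_lit 246)) (XT.nd (nat_lit 78) (nat_lit 76) (nat_lit 0) (XT.lf (nat_lit 0) (nat_lit 3744311234) (nat_lit 0) (nat_lit 3777785400) (nat_lit 152) (nat_lit 3744311234) (nat_lit 74) (nat_lit 3) (nat_lit 74) (nat_lit 1) (nat_lit 76) (nat_lit 1) (nat_lit 349) (nat_lit 426) (nat_lit 245)) (XT.lf (nat_lit 76) (nat_lit 3673635196) (nat_lit 0) (nat_lit 3705515354) (nat_lit 76) (nat_lit 3705515354) (nat_lit 74) (nat_lit 3) (nat_lit 73) (nat_lit 1) (nat_lit 74) (nat_lit 1) (nat_lit 350) (nat_lit 426) (nat_lit 244)))) (XT.nd (nat_lit 78) (nat_lit 76) (nat_lit 0) (XT.lf (nat_lit 152) (nat_lit 10889090761) (nat_lit 0) (nat_lit 9794211) (nat_lit 76) (nat_lit 9794211) (nat_lit 73) (nat_lit 1) (nat_lit 71) (nat_lit 1) (nat_lit 72) (nat_lit 1) (nat_lit 351)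 (nat_lit 426) (nat_lit 243)) (XT.nd (nat_lit 78) (nat_lit 76) (nat_lit 0) (XT.lf (nat_lit 0) (nat_lit 3567433938) (nat_lit 0) (nat_lit 3594973218) (nat_lit 152) (nat_lit 3567433938) (nat_lit 71) (nat_lit 3) (nat_lit 71) (nat_lit 1) (nat_lit 73) (nat_lit 1) (nat_lit 352) (nat_lit 426) (nat_lit 242)) (XT.lf (nat_lit 76) (nat_lit 3501434073) (nat_lit 0) (nat_lit 3527661958) (nat_lit 76) (nat_lit 3527661958) (nat_lit 71) (nat_lit 3) (nat_lit 70) (nat_lit 1) (nat_lit 71) (nat_lit 1) (nat_lit 353) (nat_lit 426) (nat_lit 241)))))) (XT.nd (nat_lit 468) (nat_lit 608) (nat_lit 0) (XT.nd (nat_lit 234) (nat_lit 228) (nat_lit 0) (XT.nd (nat_lit 78) (nat_lit 76) (nat_lit 0) (XT.lf (nat_lit 152) (nat_lit 10373042345) (nat_lit 0) (nat_lit 8057721) (nat_lit 76) (nat_lit 8057721) (nat_lit 70) (nat_lit 1) (nat_lit 68) (nat_lit 1) (nat_lit 69) (nat_lit 1) (nat_lit 354) (nat_lit 426) (nat_lit 240)) (XT.nd (nat_lit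 78) (nat_lit 76) (nat_lit 0) (XT.lf (nat_lit 0) (nat_lit 3398727034) (nat_lit 0) (nat_lit 3421383667) (nat_lit 152) (nat_lit 3398727034) (nat_lit 68) (nat_lit 3) (nat_lit 68) (nat_lit 1) (nat_lit 70) (nat_lit 1) (nat_lit 355) (nat_lit 426) (nat_lit 239)) (XT.lf (nat_lit 76) (nat_lit 3336948293) (nat_lit 0) (nat_lit 3358526039) (nat_lit 76) (nat_lit 3358526039) (nat_lit 68) (nat_lit 3) (nat_lit 67) (nat_lit 1) (nat_lit 68) (nat_lit 1) (nat_lit 356) (nat_lit 426) (nat_lit 238)))) (XT.nd (nat_lit 78) (nat_lit 76) (nat_lit 0) (XT.lf (nat_lit 152) (nat_lit 9881128016) (nat_lit 0) (nat_lit 6629107) (nat_lit 76) (nat_lit 6629107) (nat_lit 67) (nat_lit 1) (nat_lit 65) (nat_lit 1) (nat_lit 66) (nat_lit 1) (nat_lit 357) (nat_lit 426) (nat_lit 237)) (XT.nd (nat_lit 78) (nat_lit 76) (nat_lit 0) (XT.lf (nat_lit 0) (nat_lit 3237846194) (nat_lit 0) (nat_lit 3256485862) (nat_lit 152) (nat_lit 3237846194) (nat_lit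 65) (nat_lit 3) (nat_lit 65) (nat_lit 1) (nat_lit 67) (nat_lit 1) (nat_lit 358) (nat_lit 426) (nat_lit 236)) (XT.lf (nat_lit 76) (nat_lit 3179896395) (nat_lit 0) (nat_lit 3197648460) (nat_lit 76) (nat_lit 3197648460) (nat_lit 65) (nat_lit 3) (nat_lit 64) (nat_lit 1) (nat_lit 65) (nat_lit 1) (nat_lit 359) (nat_lit 426) (nat_lit 235))))) (XT.nd (nat_lit 234) (nat_lit 380) (nat_lit 0) (XT.nd (nat_lit 78) (nat_lit 76) (nat_lit 0) (XT.lf (nat_lit 152) (nat_lit 9412276480) (nat_lit 0) (nat_lit 5453783) (nat_lit 76) (nat_lit 5453783) (nat_lit 64) (nat_lit 1) (nat_lit 62) (nat_lit 1) (nat_lit 63) (nat_lit 1) (nat_lit 360) (nat_lit 426) (nat_lit 234)) (XT.nd (nat_lit 78) (nat_lit 76) (nat_lit 0) (XT.lf (nat_lit 0) (nat_lit 3084455554) (nat_lit 0) (nat_lit 3099790455) (nat_lit 152) (nat_lit 3084455554) (nat_lit 62) (nat_lit 3) (nat_lit 62) (nat_lit 1) (nat_lit 64) (nat_lit 1) (nat_lit 361) (nat_lit 426)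 (nat_lit 233)) (XT.lf (nat_lit 76) (nat_lit 3029995088) (nat_lit 0) (nat_lit 3044599756) (nat_lit 76) (nat_lit 3044599756) (nat_lit 62) (nat_lit 3) (nat_lit 61) (nat_lit 1) (nat_lit 62) (nat_lit 1) (nat_lit 362) (nat_lit 426) (nat_lit 232)))) (XT.nd (nat_lit 156) (nat_lit 228) (nat_lit 0) (XT.nd (nat_lit 78) (nat_lit 0) (nat_lit 0) (XT.lf (nat_lit 152) (nat_lit 8965453637) (nat_lit 0) (nat_lit 4486841) (nat_lit 76) (nat_lit 4486841) (nat_lit 61) (nat_lit 1) (nat_lit 59) (nat_lit 1) (nat_lit 60) (nat_lit 1) (nat_lit 363) (nat_lit 426) (nat_lit 231)) (XT.lf (nat_lit 0) (nat_lit 2938228721) (nat_lit 0) (nat_lit 2950844782) (nat_lit 152) (nat_lit 2938228721) (nat_lit 59) (nat_lit 3) (nat_lit 59) (nat_lit 1) (nat_lit 61) (nat_lit 1) (nat_lit 364) (nat_lit 426) (nat_lit 230))) (XT.nd (nat_lit 78) (nat_lit 152) (nat_lit 0) (XT.lf (nat_lit 76) (nat_lit 2886962033) (nat_lit 0) (nat_lit 2898977329) (nat_lit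 76) (nat_lit 2898977329) (nat_lit 59) (nat_lit 3) (nat_lit 58) (nat_lit 1) (nat_lit 59) (nat_lit 1) (nat_lit 365) (nat_lit 426) (nat_lit 229)) (XT.lf (nat_lit 152) (nat_lit 8539663259) (nat_lit 0) (nat_lit 3691335) (nat_lit 76) (nat_lit 3691335) (nat_lit 58) (nat_lit 1) (nat_lit 56) (nat_lit 1) (nat_lit 57) (nat_lit 1) (nat_lit 366) (nat_lit 426) (nat_lit 228))))))))
noncomputable def ec387 : XT := (XT.nd (nat_lit 1950) (nat_lit 2052) (nat_lit 0) (XT.nd (nat_lit 936) (nat_lit 912) (nat_lit 0) (XT.nd (nat_lit 468) (nat_lit 456) (nat_lit 0) (XT.nd (nat_lit 234) (nat_lit 228) (nat_lit 0) (XT.nd (nat_lit 78) (nat_lit 228) (nat_lit 0) (XT.lf (nat_lit 0) (nat_lit 2798849471) (nat_lit 0) (nat_lit 2809228736) (nat_lit 152) (nat_lit 2798849471) (nat_lit 56) (nat_lit 3) (nat_lit 56) (nat_lit 1) (nat_lit 58) (nat_lit 1) (nat_lit 367) (nat_lit 426) (nat_lit 227)) (XT.nd (nat_lit 78) (nat_lit 152) (nat_lit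 0) (XT.lf (nat_lit 76) (nat_lit 2750518023) (nat_lit 0) (nat_lit 2760403037) (nat_lit 76) (nat_lit 2760403037) (nat_lit 56) (nat_lit 3) (nat_lit 55) (nat_lit 1) (nat_lit 56) (nat_lit 1) (nat_lit 368) (nat_lit 426) (nat_lit 226)) (XT.lf (nat_lit 152) (nat_lit 8133947207) (nat_lit 0) (nat_lit 3036870) (nat_lit 76) (nat_lit 3036870) (nat_lit 55) (nat_lit 1) (nat_lit 53) (nat_lit 1) (nat_lit 54) (nat_lit 1) (nat_lit 369) (nat_lit 426) (nat_lit 225)))) (XT.nd (nat_lit 78) (nat_lit 228) (nat_lit 0) (XT.lf (nat_lit 0) (nat_lit 2666012225) (nat_lit 0) (nat_lit 2674551272) (nat_lit 152) (nat_lit 2666012225) (nat_lit 53) (nat_lit 3) (nat_lit 53) (nat_lit 1) (nat_lit 55) (nat_lit 1) (nat_lit 370) (nat_lit 426) (nat_lit 224)) (XT.nd (nat_lit 78) (nat_lit 152) (nat_lit 0) (XT.lf (nat_lit 76) (nat_lit 2620388665) (nat_lit 0) (nat_lit 2628521091) (nat_lit 76) (nat_lit 2628521091) (nat_lit 53) (nat_lit 3) (nat_lit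 52) (nat_lit 1) (nat_lit 53) (nat_lit 1) (nat_lit 371) (nat_lit 426) (nat_lit 223)) (XT.lf (nat_lit 152) (nat_lit 7747385268) (nat_lit 0) (nat_lit 2498441) (nat_lit 76) (nat_lit 2498441) (nat_lit 52) (nat_lit 1) (nat_lit 50) (nat_lit 1) (nat_lit 51) (nat_lit 1) (nat_lit 372) (nat_lit 426) (nat_lit 222))))) (XT.nd (nat_lit 234) (nat_lit 228) (nat_lit 0) (XT.nd (nat_lit 78) (nat_lit 228) (nat_lit 0) (XT.lf (nat_lit 0) (nat_lit 2539422321) (nat_lit 0) (nat_lit 2546447416) (nat_lit 152) (nat_lit 2539422321) (nat_lit 50) (nat_lit 3) (nat_lit 50) (nat_lit 1) (nat_lit 52) (nat_lit 1) (nat_lit 373) (nat_lit 426) (nat_lit 221)) (XT.nd (nat_lit 78) (nat_lit 152) (nat_lit 0) (XT.lf (nat_lit 76) (nat_lit 2496305650) (nat_lit 0) (nat_lit 2502996216) (nat_lit 76) (nat_lit 2502996216) (nat_lit 50) (nat_lit 3) (nat_lit 49) (nat_lit 1) (nat_lit 50) (nat_lit 1) (nat_lit 374) (nat_lit 426) (nat_lit 220)) (XT.lf (nat_lit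 152) (nat_lit 7379094720) (nat_lit 0) (nat_lit 2055473) (nat_lit 76) (nat_lit 2055473) (nat_lit 49) (nat_lit 1) (nat_lit 47) (nat_lit 1) (nat_lit 48) (nat_lit 1) (nat_lit 375) (nat_lit 426) (nat_lit 219)))) (XT.nd (nat_lit 78) (nat_lit 228) (nat_lit 0) (XT.lf (nat_lit 0) (nat_lit 2418796139) (nat_lit 0) (nat_lit 2424575702) (nat_lit 152) (nat_lit 2418796139) (nat_lit 47) (nat_lit 3) (nat_lit 47) (nat_lit 1) (nat_lit 49) (nat_lit 1) (nat_lit 376) (nat_lit 426) (nat_lit 218)) (XT.nd (nat_lit 78) (nat_lit 152) (nat_lit 0) (XT.lf (nat_lit 76) (nat_lit 2378007702) (nat_lit 0) (nat_lit 2383512048) (nat_lit 76) (nat_lit 2383512048) (nat_lit 47) (nat_lit 3) (nat_lit 46) (nat_lit 1) (nat_lit 47) (nat_lit 1) (nat_lit 377) (nat_lit 426) (nat_lit 217)) (XT.lf (nat_lit 152) (nat_lit 7028229665) (nat_lit 0) (nat_lit 1691043) (nat_lit 76) (nat_lit 1691043) (nat_lit 46) (nat_lit 1) (nat_lit 44) (nat_lit 1) (nat_lit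 45) (nat_lit 1) (nat_lit 378) (nat_lit 426) (nat_lit 216)))))) (XT.nd (nat_lit 468) (nat_lit 456) (nat_lit 0) (XT.nd (nat_lit 234) (nat_lit 228) (nat_lit 0) (XT.nd (nat_lit 78) (nat_lit 228) (nat_lit 0) (XT.lf (nat_lit 0) (nat_lit 2303861103) (nat_lit 0) (nat_lit 2308615964) (nat_lit 152) (nat_lit 2303861103) (nat_lit 44) (nat_lit 3) (nat_lit 44) (nat_lit 1) (nat_lit 46) (nat_lit 1) (nat_lit 379) (nat_lit 426) (nat_lit 215)) (XT.nd (nat_lit 78) (nat_lit 152) (nat_lit 0) (XT.lf (nat_lit 76) (nat_lit 2265241266) (nat_lit 0) (nat_lit 2269769705) (nat_lit 76) (nat_lit 2269769705) (nat_lit 44) (nat_lit 3) (nat_lit 43) (nat_lit 1) (nat_lit 44) (nat_lit 1) (nat_lit 380) (nat_lit 426) (nat_lit 214)) (XT.lf (nat_lit 152) (nat_lit 6693980203) (nat_lit 0) (nat_lit 1391225) (nat_lit 76) (nat_lit 1391225) (nat_lit 43) (nat_lit 1) (nat_lit 41) (nat_lit 1) (nat_lit 42) (nat_lit 1) (nat_lit 381) (nat_lit 426)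 (nat_lit 213)))) (XT.nd (nat_lit 78) (nat_lit 228) (nat_lit 0) (XT.lf (nat_lit 0) (nat_lit 2194355596) (nat_lit 0) (nat_lit 2198267432) (nat_lit 152) (nat_lit 2194355596) (nat_lit 41) (nat_lit 3) (nat_lit 41) (nat_lit 1) (nat_lit 43) (nat_lit 1) (nat_lit 382) (nat_lit 426) (nat_lit 212)) (XT.nd (nat_lit 78) (nat_lit 152) (nat_lit 0) (XT.lf (nat_lit 76) (nat_lit 2157760971) (nat_lit 0) (nat_lit 2161486529) (nat_lit 76) (nat_lit 2161486529) (nat_lit 41) (nat_lit 3) (nat_lit 40) (nat_lit 1) (nat_lit 41) (nat_lit 1) (nat_lit 383) (nat_lit 426) (nat_lit 211)) (XT.lf (nat_lit 152) (nat_lit 6375571474) (nat_lit 0) (nat_lit 1144564) (nat_lit 76) (nat_lit 1144564) (nat_lit 40) (nat_lit 1) (nat_lit 38) (nat_lit 1) (nat_lit 39) (nat_lit 1) (nat_lit 384) (nat_lit 426) (nat_lit 210))))) (XT.nd (nat_lit 234) (nat_lit 228) (nat_lit 0) (XT.nd (nat_lit 78) (nat_lit 228) (nat_lit 0) (XT.lf (nat_lit 0) (nat_lit 2090028794)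 (nat_lit 0) (nat_lit 2093247071) (nat_lit 152) (nat_lit 2090028794) (nat_lit 38) (nat_lit 3) (nat_lit 38) (nat_lit 1) (nat_lit 40) (nat_lit 1) (nat_lit 385) (nat_lit 426) (nat_lit 209)) (XT.nd (nat_lit 78) (nat_lit 152) (nat_lit 0) (XT.lf (nat_lit 76) (nat_lit 2055329934) (nat_lit 0) (nat_lit 2058394960) (nat_lit 76) (nat_lit 2058394960) (nat_lit 38) (nat_lit 3) (nat_lit 37) (nat_lit 1) (nat_lit 38) (nat_lit 1) (nat_lit 386) (nat_lit 426) (nat_lit 208)) (XT.lf (nat_lit 152) (nat_lit 6072262615) (nat_lit 0) (nat_lit 941636) (nat_lit 76) (nat_lit 941636) (nat_lit 37) (nat_lit 1) (nat_lit 35) (nat_lit 1) (nat_lit 36) (nat_lit 1) (nat_lit 387) (nat_lit 426) (nat_lit 207)))) (XT.nd (nat_lit 156) (nat_lit 152) (nat_lit 0) (XT.nd (nat_lit 78) (nat_lit 76) (nat_lit 0) (XT.lf (nat_lit 0) (nat_lit 1990640447) (nat_lit 0) (nat_lit 1993288131) (nat_lit 152) (nat_lit 1990640447) (nat_lit 35) (nat_lit 3) (nat_lit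 35) (nat_lit 1) (nat_lit 37) (nat_lit 1) (nat_lit 388) (nat_lit 426) (nat_lit 206)) (XT.lf (nat_lit 76) (nat_lit 1957719922) (nat_lit 0) (nat_lit 1960241526) (nat_lit 76) (nat_lit 1960241526) (nat_lit 35) (nat_lit 3) (nat_lit 34) (nat_lit 1) (nat_lit 35) (nat_lit 1) (nat_lit 389) (nat_lit 426) (nat_lit 205))) (XT.nd (nat_lit 78) (nat_lit 0) (nat_lit 0) (XT.lf (nat_lit 152) (nat_lit 5783345658) (nat_lit 0) (nat_lit 774686) (nat_lit 76) (nat_lit 774686) (nat_lit 34) (nat_lit 1) (nat_lit 32) (nat_lit 1) (nat_lit 33) (nat_lit 1) (nat_lit 390) (nat_lit 426) (nat_lit 204)) (XT.lf (nat_lit 0) (nat_lit 1895960617) (nat_lit 0) (nat_lit 1898138874) (nat_lit 152) (nat_lit 1895960617) (nat_lit 32) (nat_lit 3) (nat_lit 32) (nat_lit 1) (nat_lit 34) (nat_lit 1) (nat_lit 391) (nat_lit 426) (nat_lit 203))))))) (XT.nd (nat_lit 1014) (nat_lit 1064) (nat_lit 0) (XT.nd (nat_lit 468) (nat_lit 532) (nat_lit 0) (XT.nd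 (nat_lit 234) (nat_lit 228) (nat_lit 0) (XT.nd (nat_lit 78) (nat_lit 152) (nat_lit 0) (XT.lf (nat_lit 76) (nat_lit 1864711404) (nat_lit 0) (nat_lit 1866785934) (nat_lit 76) (nat_lit 1866785934) (nat_lit 32) (nat_lit 3) (nat_lit 31) (nat_lit 1) (nat_lit 32) (nat_lit 1) (nat_lit 392) (nat_lit 426) (nat_lit 202)) (XT.nd (nat_lit 78) (nat_lit 0) (nat_lit 0) (XT.lf (nat_lit 152) (nat_lit 5508144382) (nat_lit 0) (nat_lit 637336) (nat_lit 76) (nat_lit 637336) (nat_lit 31) (nat_lit 1) (nat_lit 29) (nat_lit 1) (nat_lit 30) (nat_lit 1) (nat_lit 393) (nat_lit 426) (nat_lit 201)) (XT.lf (nat_lit 0) (nat_lit 1805769393) (nat_lit 0) (nat_lit 1807561450) (nat_lit 152) (nat_lit 1805769393) (nat_lit 29) (nat_lit 3) (nat_lit 29) (nat_lit 1) (nat_lit 31) (nat_lit 1) (nat_lit 394) (nat_lit 426) (nat_lit 200)))) (XT.nd (nat_lit 78) (nat_lit 152) (nat_lit 0) (XT.lf (nat_lit 76) (nat_lit 1776093525) (nat_lit 0) (nat_lit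 1777800246) (nat_lit 76) (nat_lit 1777800246) (nat_lit 29) (nat_lit 3) (nat_lit 28) (nat_lit 1) (nat_lit 29) (nat_lit 1) (nat_lit 395) (nat_lit 426) (nat_lit 199)) (XT.nd (nat_lit 78) (nat_lit 0) (nat_lit 0) (XT.lf (nat_lit 152) (nat_lit 5246013154) (nat_lit 0) (nat_lit 524338) (nat_lit 76) (nat_lit 524338) (nat_lit 28) (nat_lit 1) (nat_lit 26) (nat_lit 1) (nat_lit 27) (nat_lit 1) (nat_lit 396) (nat_lit 426) (nat_lit 198)) (XT.lf (nat_lit 0) (nat_lit 1719856568) (nat_lit 0) (nat_lit 1721330897) (nat_lit 152) (nat_lit 1719856568) (nat_lit 26) (nat_lit 3) (nat_lit 26) (nat_lit 1) (nat_lit 28) (nat_lit 1) (nat_lit 397) (nat_lit 426) (nat_lit 197))))) (XT.nd (nat_lit 234) (nat_lit 304) (nat_lit 0) (XT.nd (nat_lit 78) (nat_lit 152) (nat_lit 0) (XT.lf (nat_lit 76) (nat_lit 1691664003) (nat_lit 0) (nat_lit 1693068126) (nat_lit 76) (nat_lit 1693068126) (nat_lit 26) (nat_lit 3) (nat_lit 25) (nat_lit 1)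 (nat_lit 26) (nat_lit 1) (nat_lit 398) (nat_lit 426) (nat_lit 196)) (XT.nd (nat_lit 78) (nat_lit 0) (nat_lit 0) (XT.lf (nat_lit 152) (nat_lit 4996335757) (nat_lit 0) (nat_lit 431374) (nat_lit 76) (nat_lit 431374) (nat_lit 25) (nat_lit 1) (nat_lit 23) (nat_lit 1) (nat_lit 24) (nat_lit 1) (nat_lit 399) (nat_lit 426) (nat_lit 195)) (XT.lf (nat_lit 0) (nat_lit 1638021321) (nat_lit 0) (nat_lit 1639234256) (nat_lit 152) (nat_lit 1638021321) (nat_lit 23) (nat_lit 3) (nat_lit 23) (nat_lit 1) (nat_lit 25) (nat_lit 1) (nat_lit 400) (nat_lit 426) (nat_lit 194)))) (XT.nd (nat_lit 156) (nat_lit 76) (nat_lit 0) (XT.nd (nat_lit 78) (nat_lit 152) (nat_lit 0) (XT.lf (nat_lit 76) (nat_lit 1611228985) (nat_lit 0) (nat_lit 1612384161) (nat_lit 76) (nat_lit 1612384161) (nat_lit 23) (nat_lit 3) (nat_lit 22) (nat_lit 1) (nat_lit 23) (nat_lit 1) (nat_lit 401) (nat_lit 426) (nat_lit 193)) (XT.lf (nat_lit 152) (nat_lit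 4758524223) (nat_lit 0) (nat_lit 354892) (nat_lit 76) (nat_lit 354892) (nat_lit 22) (nat_lit 1) (nat_lit 20) (nat_lit 1) (nat_lit 21) (nat_lit 1) (nat_lit 402) (nat_lit 426) (nat_lit 192))) (XT.nd (nat_lit 78) (nat_lit 76) (nat_lit 0) (XT.lf (nat_lit 0) (nat_lit 1560071876) (nat_lit 0) (nat_lit 1561069761) (nat_lit 152) (nat_lit 1560071876) (nat_lit 20) (nat_lit 3) (nat_lit 20) (nat_lit 1) (nat_lit 22) (nat_lit 1) (nat_lit 403) (nat_lit 426) (nat_lit 191)) (XT.lf (nat_lit 76) (nat_lit 1534602857) (nat_lit 0) (nat_lit 1535553223) (nat_lit 76) (nat_lit 1535553223) (nat_lit 20) (nat_lit 3) (nat_lit 19) (nat_lit 1) (nat_lit 20) (nat_lit 1) (nat_lit 404) (nat_lit 426) (nat_lit 190)))))) (XT.nd (nat_lit 468) (nat_lit 608) (nat_lit 0) (XT.nd (nat_lit 234) (nat_lit 228) (nat_lit 0) (XT.nd (nat_lit 78) (nat_lit 76) (nat_lit 0) (XT.lf (nat_lit 152) (nat_lit 4532017684) (nat_lit 0) (nat_lit 291971) (nat_lit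 76) (nat_lit 291971) (nat_lit 19) (nat_lit 1) (nat_lit 17) (nat_lit 1) (nat_lit 18) (nat_lit 1) (nat_lit 405) (nat_lit 426) (nat_lit 189)) (XT.nd (nat_lit 78) (nat_lit 76) (nat_lit 0) (XT.lf (nat_lit 0) (nat_lit 1485825167) (nat_lit 0) (nat_lit 1486646129) (nat_lit 152) (nat_lit 1485825167) (nat_lit 17) (nat_lit 3) (nat_lit 17) (nat_lit 1) (nat_lit 19) (nat_lit 1) (nat_lit 406) (nat_lit 426) (nat_lit 188)) (XT.lf (nat_lit 76) (nat_lit 1461608029) (nat_lit 0) (nat_lit 1462389898) (nat_lit 76) (nat_lit 1462389898) (nat_lit 17) (nat_lit 3) (nat_lit 16) (nat_lit 1) (nat_lit 17) (nat_lit 1) (nat_lit 407) (nat_lit 426) (nat_lit 187)))) (XT.nd (nat_lit 78) (nat_lit 76) (nat_lit 0) (XT.lf (nat_lit 152) (nat_lit 4316281240) (nat_lit 0) (nat_lit 240205) (nat_lit 76) (nat_lit 240205) (nat_lit 16) (nat_lit 1) (nat_lit 14) (nat_lit 1) (nat_lit 15) (nat_lit 1) (nat_lit 408) (nat_lit 426) (nat_lit 186)) (XT.nd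 (nat_lit 78) (nat_lit 76) (nat_lit 0) (XT.lf (nat_lit 0) (nat_lit 1415106493) (nat_lit 0) (nat_lit 1415781900) (nat_lit 152) (nat_lit 1415106493) (nat_lit 14) (nat_lit 3) (nat_lit 14) (nat_lit 1) (nat_lit 16) (nat_lit 1) (nat_lit 409) (nat_lit 426) (nat_lit 185)) (XT.lf (nat_lit 76) (nat_lit 1392074696) (nat_lit 0) (nat_lit 1392717941) (nat_lit 76) (nat_lit 1392717941) (nat_lit 14) (nat_lit 3) (nat_lit 13) (nat_lit 1) (nat_lit 14) (nat_lit 1) (nat_lit 410) (nat_lit 426) (nat_lit 184))))) (XT.nd (nat_lit 234) (nat_lit 380) (nat_lit 0) (XT.nd (nat_lit 78) (nat_lit 76) (nat_lit 0) (XT.lf (nat_lit 152) (nat_lit 4110804853) (nat_lit 0) (nat_lit 197617) (nat_lit 76) (nat_lit 197617) (nat_lit 13) (nat_lit 1) (nat_lit 11) (nat_lit 1) (nat_lit 12) (nat_lit 1) (nat_lit 411) (nat_lit 426) (nat_lit 183)) (XT.nd (nat_lit 78) (nat_lit 76) (nat_lit 0) (XT.lf (nat_lit 0) (nat_lit 1347749186) (nat_lit 0) (nat_lit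 1348304845) (nat_lit 152) (nat_lit 1347749186) (nat_lit 11) (nat_lit 3) (nat_lit 11) (nat_lit 1) (nat_lit 13) (nat_lit 1) (nat_lit 412) (nat_lit 426) (nat_lit 182)) (XT.lf (nat_lit 76) (nat_lit 1325840587) (nat_lit 0) (nat_lit 1326369786) (nat_lit 76) (nat_lit 1326369786) (nat_lit 11) (nat_lit 3) (nat_lit 10) (nat_lit 1) (nat_lit 11) (nat_lit 1) (nat_lit 413) (nat_lit 426) (nat_lit 181)))) (XT.nd (nat_lit 156) (nat_lit 228) (nat_lit 0) (XT.nd (nat_lit 78) (nat_lit 0) (nat_lit 0) (XT.lf (nat_lit 152) (nat_lit 3915102274) (nat_lit 0) (nat_lit 162580) (nat_lit 76) (nat_lit 162580) (nat_lit 10) (nat_lit 1) (nat_lit 8) (nat_lit 1) (nat_lit 9) (nat_lit 1) (nat_lit 414) (nat_lit 426) (nat_lit 180)) (XT.lf (nat_lit 0) (nat_lit 1283594279) (nat_lit 0) (nat_lit 1284051421) (nat_lit 152) (nat_lit 1283594279) (nat_lit 8) (nat_lit 3) (nat_lit 8) (nat_lit 1) (nat_lit 10) (nat_lit 1) (nat_lit 415) (nat_lit 426)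 (nat_lit 179))) (XT.nd (nat_lit 78) (nat_lit 152) (nat_lit 0) (XT.lf (nat_lit 76) (nat_lit 1262750702) (nat_lit 0) (nat_lit 1263186076) (nat_lit 76) (nat_lit 1263186076) (nat_lit 8) (nat_lit 3) (nat_lit 7) (nat_lit 1) (nat_lit 8) (nat_lit 1) (nat_lit 416) (nat_lit 426) (nat_lit 178)) (XT.lf (nat_lit 152) (nat_lit 3728709995) (nat_lit 0) (nat_lit 133755) (nat_lit 76) (nat_lit 133755) (nat_lit 7) (nat_lit 1) (nat_lit 5) (nat_lit 1) (nat_lit 6) (nat_lit 1) (nat_lit 417) (nat_lit 426) (nat_lit 177))))))))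
noncomputable def ec388 : XT := (XT.nd (nat_lit 33696) (nat_lit 0) (nat_lit 18620) (XT.nd (nat_lit 936) (nat_lit 0) (nat_lit 0) (XT.nd (nat_lit 468) (nat_lit 0) (nat_lit 0) (XT.nd (nat_lit 234) (nat_lit 152) (nat_lit 0) (XT.nd (nat_lit 78) (nat_lit 228) (nat_lit 0) (XT.lf (nat_lit 0) (nat_lit 1222490178) (nat_lit 0) (nat_lit 1222866270) (nat_lit 152) (nat_lit 1222490178) (nat_lit 5) (nat_lit 3) (nat_lit 5) (nat_lit 1) (nat_lit 7) (nat_lit 1) (nat_lit 418) (nat_lit 426) (nat_lit 176)) (XT.nd (nat_lit 78) (nat_lit 152) (nat_lit 0) (XT.lf (nat_lit 76) (nat_lit 1202657052) (nat_lit 0) (nat_lit 1203015235) (nat_lit 76) (nat_lit 1203015235) (nat_lit 5) (nat_lit 3) (nat_lit 4) (nat_lit 1) (nat_lit 5) (nat_lit 1) (nat_lit 419) (nat_lit 426) (nat_lit 175)) (XT.lf (nat_lit 152) (nat_lit 3551186241) (nat_lit 0) (nat_lit 110040) (nat_lit 76) (nat_lit 110040) (nat_lit 4) (nat_lit 1) (nat_lit 2) (nat_lit 1)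 (nat_lit 3) (nat_lit 1) (nat_lit 420) (nat_lit 426) (nat_lit 174)))) (XT.nd (nat_lit 78) (nat_lit 152) (nat_lit 0) (XT.lf (nat_lit 0) (nat_lit 1164292351) (nat_lit 0) (nat_lit 1164601763) (nat_lit 152) (nat_lit 1164292351) (nat_lit 2) (nat_lit 3) (nat_lit 2) (nat_lit 1) (nat_lit 4) (nat_lit 1) (nat_lit 421) (nat_lit 426) (nat_lit 173)) (XT.nd (nat_lit 78) (nat_lit 76) (nat_lit 0) (XT.lf (nat_lit 76) (nat_lit 1145418384) (nat_lit 0) (nat_lit 1145713062) (nat_lit 76) (nat_lit 1145713062) (nat_lit 2) (nat_lit 3) (nat_lit 1) (nat_lit 1) (nat_lit 2) (nat_lit 1) (nat_lit 422) (nat_lit 426) (nat_lit 172)) (XT.lf (nat_lit 0) (nat_lit 71315068863) (nat_lit 0) (nat_lit 0) (nat_lit 0) (nat_lit 0) (nat_lit 0) (nat_lit 0) (nat_lit 1) (nat_lit 0) (nat_lit 1) (nat_lit 0) (nat_lit 423) (nat_lit 426) (nat_lit 171))))) (XT.nd (nat_lit 234) (nat_lit 0) (nat_lit 0) (XT.nd (nat_lit 78) (nat_lit 0) (nat_lit 0) (XT.lf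 (nat_lit 0) (nat_lit 71315055445) (nat_lit 0) (nat_lit 0) (nat_lit 0) (nat_lit 0) (nat_lit 0) (nat_lit 0) (nat_lit 1) (nat_lit 0) (nat_lit 1) (nat_lit 0) (nat_lit 424) (nat_lit 426) (nat_lit 170)) (XT.nd (nat_lit 78) (nat_lit 0) (nat_lit 0) (XT.lf (nat_lit 0) (nat_lit 71315042666) (nat_lit 0) (nat_lit 0) (nat_lit 0) (nat_lit 0) (nat_lit 0) (nat_lit 0) (nat_lit 1) (nat_lit 0) (nat_lit 1) (nat_lit 0) (nat_lit 425) (nat_lit 426) (nat_lit 169)) (XT.lf (nat_lit 0) (nat_lit 71315030496) (nat_lit 0) (nat_lit 0) (nat_lit 0) (nat_lit 0) (nat_lit 0) (nat_lit 0) (nat_lit 1) (nat_lit 0) (nat_lit 1) (nat_lit 0) (nat_lit 426) (nat_lit 426) (nat_lit 168)))) (XT.nd (nat_lit 78) (nat_lit 0) (nat_lit 0) (XT.lf (nat_lit 0) (nat_lit 71315018905) (nat_lit 0) (nat_lit 0) (nat_lit 0) (nat_lit 0) (nat_lit 0) (nat_lit 0) (nat_lit 1) (nat_lit 0) (nat_lit 1) (nat_lit 0) (nat_lit 427) (nat_lit 426) (nat_lit 167)) (XT.nd (nat_lit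 78) (nat_lit 0) (nat_lit 0) (XT.lf (nat_lit 0) (nat_lit 71315007866) (nat_lit 0) (nat_lit 0) (nat_lit 0) (nat_lit 0) (nat_lit 0) (nat_lit 0) (nat_lit 1) (nat_lit 0) (nat_lit 1) (nat_lit 0) (nat_lit 428) (nat_lit 426) (nat_lit 166)) (XT.lf (nat_lit 0) (nat_lit 71314997352) (nat_lit 0) (nat_lit 0) (nat_lit 0) (nat_lit 0) (nat_lit 0) (nat_lit 0) (nat_lit 1) (nat_lit 0) (nat_lit 1) (nat_lit 0) (nat_lit 429) (nat_lit 426) (nat_lit 165)))))) (XT.nd (nat_lit 468) (nat_lit 0) (nat_lit 0) (XT.nd (nat_lit 234) (nat_lit 0) (nat_lit 0) (XT.nd (nat_lit 78) (nat_lit 0) (nat_lit 0) (XT.lf (nat_lit 0) (nat_lit 71314987339) (nat_lit 0) (nat_lit 0) (nat_lit 0) (nat_lit 0) (nat_lit 0) (nat_lit 0) (nat_lit 1) (nat_lit 0) (nat_lit 1) (nat_lit 0) (nat_lit 430) (nat_lit 426) (nat_lit 164)) (XT.nd (nat_lit 78) (nat_lit 0) (nat_lit 0) (XT.lf (nat_lit 0) (nat_lit 71314977803) (nat_lit 0) (nat_lit 0) (nat_lit 0) (nat_lit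 0) (nat_lit 0) (nat_lit 0) (nat_lit 1) (nat_lit 0) (nat_lit 1) (nat_lit 0) (nat_lit 431) (nat_lit 426) (nat_lit 163)) (XT.lf (nat_lit 0) (nat_lit 71314968722) (nat_lit 0) (nat_lit 0) (nat_lit 0) (nat_lit 0) (nat_lit 0) (nat_lit 0) (nat_lit 1) (nat_lit 0) (nat_lit 1) (nat_lit 0) (nat_lit 432) (nat_lit 426) (nat_lit 162)))) (XT.nd (nat_lit 78) (nat_lit 0) (nat_lit 0) (XT.lf (nat_lit 0) (nat_lit 71314960072) (nat_lit 0) (nat_lit 0) (nat_lit 0) (nat_lit 0) (nat_lit 0) (nat_lit 0) (nat_lit 1) (nat_lit 0) (nat_lit 1) (nat_lit 0) (nat_lit 433) (nat_lit 426) (nat_lit 161)) (XT.nd (nat_lit 78) (nat_lit 0) (nat_lit 0) (XT.lf (nat_lit 0) (nat_lit 71314951835) (nat_lit 0) (nat_lit 0) (nat_lit 0) (nat_lit 0) (nat_lit 0) (nat_lit 0) (nat_lit 1) (nat_lit 0) (nat_lit 1) (nat_lit 0) (nat_lit 434) (nat_lit 426) (nat_lit 160)) (XT.lf (nat_lit 0) (nat_lit 71314943989) (nat_lit 0) (nat_lit 0) (nat_lit 0) (nat_lit 0)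 (nat_lit 0) (nat_lit 0) (nat_lit 1) (nat_lit 0) (nat_lit 1) (nat_lit 0) (nat_lit 435) (nat_lit 426) (nat_lit 159))))) (XT.nd (nat_lit 234) (nat_lit 0) (nat_lit 0) (XT.nd (nat_lit 78) (nat_lit 0) (nat_lit 0) (XT.lf (nat_lit 0) (nat_lit 71314936518) (nat_lit 0) (nat_lit 0) (nat_lit 0) (nat_lit 0) (nat_lit 0) (nat_lit 0) (nat_lit 1) (nat_lit 0) (nat_lit 1) (nat_lit 0) (nat_lit 436) (nat_lit 426) (nat_lit 158)) (XT.nd (nat_lit 78) (nat_lit 0) (nat_lit 0) (XT.lf (nat_lit 0) (nat_lit 71314929402) (nat_lit 0) (nat_lit 0) (nat_lit 0) (nat_lit 0) (nat_lit 0) (nat_lit 0) (nat_lit 1) (nat_lit 0) (nat_lit 1) (nat_lit 0) (nat_lit 437) (nat_lit 426) (nat_lit 157)) (XT.lf (nat_lit 0) (nat_lit 71314922625) (nat_lit 0) (nat_lit 0) (nat_lit 0) (nat_lit 0) (nat_lit 0) (nat_lit 0) (nat_lit 1) (nat_lit 0) (nat_lit 1) (nat_lit 0) (nat_lit 438) (nat_lit 426) (nat_lit 156)))) (XT.nd (nat_lit 31902) (nat_lit 0) (nat_lit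 22192) (XT.nd (nat_lit 31824) (nat_lit 0) (nat_lit 22192) (XT.lf (nat_lit 0) (nat_lit 71314916171) (nat_lit 0) (nat_lit 0) (nat_lit 0) (nat_lit 0) (nat_lit 0) (nat_lit 0) (nat_lit 1) (nat_lit 0) (nat_lit 1) (nat_lit 0) (nat_lit 439) (nat_lit 426) (nat_lit 155)) (XT.lf (nat_lit 836) (nat_lit 37473020275) (nat_lit 0) (nat_lit 66533261363) (nat_lit 836) (nat_lit 37473020275) (nat_lit 303) (nat_lit 1) (nat_lit 292) (nat_lit 0) (nat_lit 303) (nat_lit 0) (nat_lit 166) (nat_lit 427) (nat_lit 427))) (XT.nd (nat_lit 78) (nat_lit 0) (nat_lit 76) (XT.lf (nat_lit 836) (nat_lit 145250104907) (nat_lit 76) (nat_lit 65460144244) (nat_lit 0) (nat_lit 65460144244) (nat_lit 303) (nat_lit 1) (nat_lit 293) (nat_lit 1) (nat_lit 292) (nat_lit 0) (nat_lit 167) (nat_lit 427) (nat_lit 426)) (XT.lf (nat_lit 836) (nat_lit 69224012969) (nat_lit 0) (nat_lit 131144017082) (nat_lit 760) (nat_lit 69224012969) (nat_lit 304) (nat_lit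 1) (nat_lit 293) (nat_lit 1) (nat_lit 303) (nat_lit 1) (nat_lit 168) (nat_lit 427) (nat_lit 425))))))) (XT.nd (nat_lit 936) (nat_lit 2280) (nat_lit 0) (XT.nd (nat_lit 468) (nat_lit 1368) (nat_lit 0) (XT.nd (nat_lit 234) (nat_lit 0) (nat_lit 152) (XT.nd (nat_lit 78) (nat_lit 0) (nat_lit 76) (XT.lf (nat_lit 836) (nat_lit 129854629411) (nat_lit 76) (nat_lit 66685796481) (nat_lit 0) (nat_lit 66685796481) (nat_lit 304) (nat_lit 1) (nat_lit 294) (nat_lit 1) (nat_lit 293) (nat_lit 1) (nat_lit 169) (nat_lit 427) (nat_lit 424)) (XT.nd (nat_lit 78) (nat_lit 0) (nat_lit 0) (XT.lf (nat_lit 836) (nat_lit 59770838913) (nat_lit 0) (nat_lit 137520488485) (nat_lit 760) (nat_lit 59770838913) (nat_lit 305) (nat_lit 1) (nat_lit 294) (nat_lit 1) (nat_lit 304) (nat_lit 1) (nat_lit 170) (nat_lit 427) (nat_lit 423)) (XT.lf (nat_lit 836) (nat_lit 107501746777) (nat_lit 76) (nat_lit 71792133727) (nat_lit 0) (nat_lit 71792133727)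 (nat_lit 305) (nat_lit 1) (nat_lit 295) (nat_lit 1) (nat_lit 294) (nat_lit 1) (nat_lit 171) (nat_lit 427) (nat_lit 422)))) (XT.nd (nat_lit 78) (nat_lit 0) (nat_lit 0) (XT.lf (nat_lit 836) (nat_lit 47136411031) (nat_lit 0) (nat_lit 151037698583) (nat_lit 760) (nat_lit 47136411031) (nat_lit 306) (nat_lit 1) (nat_lit 295) (nat_lit 1) (nat_lit 305) (nat_lit 1) (nat_lit 172) (nat_lit 427) (nat_lit 421)) (XT.nd (nat_lit 78) (nat_lit 0) (nat_lit 76) (XT.lf (nat_lit 836) (nat_lit 79237754229) (nat_lit 76) (nat_lit 80228145978) (nat_lit 0) (nat_lit 80228145978) (nat_lit 306) (nat_lit 1) (nat_lit 296) (nat_lit 1) (nat_lit 295) (nat_lit 1) (nat_lit 173) (nat_lit 427) (nat_lit 420)) (XT.lf (nat_lit 836) (nat_lit 31809831215) (nat_lit 0) (nat_lit 170663504291) (nat_lit 760) (nat_lit 31809831215) (nat_lit 307) (nat_lit 1) (nat_lit 296) (nat_lit 1) (nat_lit 306) (nat_lit 1) (nat_lit 174) (nat_lit 427) (nat_lit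 419))))) (XT.nd (nat_lit 234) (nat_lit 912) (nat_lit 0) (XT.nd (nat_lit 78) (nat_lit 684) (nat_lit 0) (XT.lf (nat_lit 836) (nat_lit 45992652122) (nat_lit 76) (nat_lit 91503109050) (nat_lit 0) (nat_lit 91503109050) (nat_lit 307) (nat_lit 1) (nat_lit 297) (nat_lit 1) (nat_lit 296) (nat_lit 1) (nat_lit 175) (nat_lit 427) (nat_lit 418)) (XT.nd (nat_lit 78) (nat_lit 760) (nat_lit 0) (XT.lf (nat_lit 76) (nat_lit 14225522677) (nat_lit 0) (nat_lit 195479257829) (nat_lit 760) (nat_lit 14225522677) (nat_lit 298) (nat_lit 1) (nat_lit 297) (nat_lit 1) (nat_lit 307) (nat_lit 1) (nat_lit 176) (nat_lit 427) (nat_lit 417)) (XT.lf (nat_lit 836) (nat_lit 8591861938) (nat_lit 0) (nat_lit 105180548430) (nat_lit 760) (nat_lit 105180548430) (nat_lit 298) (nat_lit 1) (nat_lit 287) (nat_lit 1) (nat_lit 297) (nat_lit 1) (nat_lit 177) (nat_lit 427) (nat_lit 416)))) (XT.nd (nat_lit 78) (nat_lit 380) (nat_lit 0) (XT.lf (nat_lit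 532) (nat_lit 203895704121) (nat_lit 0) (nat_lit 5146873165) (nat_lit 456) (nat_lit 5146873165) (nat_lit 287) (nat_lit 1) (nat_lit 280) (nat_lit 1) (nat_lit 286) (nat_lit 1) (nat_lit 178) (nat_lit 427) (nat_lit 415)) (XT.nd (nat_lit 78) (nat_lit 380) (nat_lit 0) (XT.lf (nat_lit 76) (nat_lit 89142846973) (nat_lit 0) (nat_lit 31201524958) (nat_lit 532) (nat_lit 89142846973) (nat_lit 281) (nat_lit 1) (nat_lit 280) (nat_lit 1) (nat_lit 287) (nat_lit 1) (nat_lit 179) (nat_lit 427) (nat_lit 414)) (XT.lf (nat_lit 456) (nat_lit 153391957665) (nat_lit 0) (nat_lit 25796490588) (nat_lit 380) (nat_lit 25796490588) (nat_lit 281) (nat_lit 1) (nat_lit 275) (nat_lit 1) (nat_lit 280) (nat_lit 1) (nat_lit 180) (nat_lit 427) (nat_lit 413)))))) (XT.nd (nat_lit 468) (nat_lit 1216) (nat_lit 0) (XT.nd (nat_lit 234) (nat_lit 684) (nat_lit 0) (XT.nd (nat_lit 78) (nat_lit 380) (nat_lit 0) (XT.lf (nat_lit 76) (nat_lit 63584507569)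 (nat_lit 0) (nat_lit 73408294010) (nat_lit 456) (nat_lit 63584507569) (nat_lit 276) (nat_lit 1) (nat_lit 275) (nat_lit 1) (nat_lit 281) (nat_lit 1) (nat_lit 181) (nat_lit 427) (nat_lit 412)) (XT.nd (nat_lit 78) (nat_lit 0) (nat_lit 0) (XT.lf (nat_lit 456) (nat_lit 101010779420) (nat_lit 0) (nat_lit 47656202993) (nat_lit 380) (nat_lit 47656202993) (nat_lit 276) (nat_lit 1) (nat_lit 270) (nat_lit 1) (nat_lit 275) (nat_lit 1) (nat_lit 182) (nat_lit 427) (nat_lit 411)) (XT.lf (nat_lit 76) (nat_lit 37221129778) (nat_lit 0) (nat_lit 117750526361) (nat_lit 456) (nat_lit 37221129778) (nat_lit 271) (nat_lit 1) (nat_lit 270) (nat_lit 1) (nat_lit 276) (nat_lit 1) (nat_lit 183) (nat_lit 427) (nat_lit 410)))) (XT.nd (nat_lit 78) (nat_lit 380) (nat_lit 0) (XT.lf (nat_lit 380) (nat_lit 47239705268) (nat_lit 0) (nat_lit 70464464329) (nat_lit 304) (nat_lit 70464464329) (nat_lit 271) (nat_lit 1) (nat_lit 266) (nat_lit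 1) (nat_lit 270) (nat_lit 1) (nat_lit 184) (nat_lit 427) (nat_lit 409)) (XT.nd (nat_lit 78) (nat_lit 380) (nat_lit 0) (XT.lf (nat_lit 76) (nat_lit 10279044654) (nat_lit 0) (nat_lit 163741141703) (nat_lit 380) (nat_lit 10279044654) (nat_lit 267) (nat_lit 1) (nat_lit 266) (nat_lit 1) (nat_lit 271) (nat_lit 1) (nat_lit 185) (nat_lit 427) (nat_lit 408)) (XT.lf (nat_lit 76) (nat_lit 86614183946) (nat_lit 0) (nat_lit 7254106154) (nat_lit 380) (nat_lit 86614183946) (nat_lit 262) (nat_lit 1) (nat_lit 261) (nat_lit 1) (nat_lit 266) (nat_lit 1) (nat_lit 186) (nat_lit 427) (nat_lit 407))))) (XT.nd (nat_lit 234) (nat_lit 608) (nat_lit 0) (XT.nd (nat_lit 78) (nat_lit 304) (nat_lit 0) (XT.lf (nat_lit 380) (nat_lit 143273519447) (nat_lit 0) (nat_lit 16768774549) (nat_lit 304) (nat_lit 16768774549) (nat_lit 262) (nat_lit 1) (nat_lit 257) (nat_lit 1) (nat_lit 261) (nat_lit 1) (nat_lit 187) (nat_lit 427) (nat_lit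 406)) (XT.nd (nat_lit 78) (nat_lit 304) (nat_lit 0) (XT.lf (nat_lit 76) (nat_lit 56198173067) (nat_lit 0) (nat_lit 60806300683) (nat_lit 380) (nat_lit 56198173067) (nat_lit 258) (nat_lit 1) (nat_lit 257) (nat_lit 1) (nat_lit 262) (nat_lit 1) (nat_lit 188) (nat_lit 427) (nat_lit 405)) (XT.lf (nat_lit 380) (nat_lit 82008767624) (nat_lit 0) (nat_lit 43855292422) (nat_lit 304) (nat_lit 43855292422) (nat_lit 258) (nat_lit 1) (nat_lit 253) (nat_lit 1) (nat_lit 257) (nat_lit 1) (nat_lit 189) (nat_lit 427) (nat_lit 404)))) (XT.nd (nat_lit 156) (nat_lit 380) (nat_lit 0) (XT.nd (nat_lit 78) (nat_lit 228) (nat_lit 0) (XT.lf (nat_lit 76) (nat_lit 25861905317) (nat_lit 0) (nat_lit 114614099310) (nat_lit 380) (nat_lit 25861905317) (nat_lit 254) (nat_lit 1) (nat_lit 253) (nat_lit 1) (nat_lit 258) (nat_lit 1) (nat_lit 190) (nat_lit 427) (nat_lit 403)) (XT.lf (nat_lit 304) (nat_lit 21032379949) (nat_lit 0) (nat_lit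 70998539641) (nat_lit 228) (nat_lit 70998539641) (nat_lit 254) (nat_lit 1) (nat_lit 250) (nat_lit 1) (nat_lit 253) (nat_lit 1) (nat_lit 191) (nat_lit 427) (nat_lit 402))) (XT.nd (nat_lit 78) (nat_lit 0) (nat_lit 0) (XT.lf (nat_lit 380) (nat_lit 151444117780) (nat_lit 0) (nat_lit 4202283678) (nat_lit 304) (nat_lit 4202283678) (nat_lit 250) (nat_lit 1) (nat_lit 245) (nat_lit 1) (nat_lit 249) (nat_lit 1) (nat_lit 192) (nat_lit 427) (nat_lit 401)) (XT.lf (nat_lit 76) (nat_lit 59261202894) (nat_lit 0) (nat_lit 38163110457) (nat_lit 380) (nat_lit 59261202894) (nat_lit 246) (nat_lit 1) (nat_lit 245) (nat_lit 1) (nat_lit 250) (nat_lit 1) (nat_lit 193) (nat_lit 427) (nat_lit 400))))))))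
noncomputable def ec389 : XT := (XT.nd (nat_lit 1950) (nat_lit 2128) (nat_lit 0) (XT.nd (nat_lit 936) (nat_lit 1520) (nat_lit 0) (XT.nd (nat_lit 468) (nat_lit 608) (nat_lit 0) (XT.nd (nat_lit 234) (nat_lit 532) (nat_lit 0) (XT.nd (nat_lit 78) (nat_lit 228) (nat_lit 0) (XT.lf (nat_lit 304) (nat_lit 86552860330) (nat_lit 0) (nat_lit 33545401485) (nat_lit 228) (nat_lit 33545401485) (nat_lit 246) (nat_lit 1) (nat_lit 242) (nat_lit 1) (nat_lit 245) (nat_lit 1) (nat_lit 194) (nat_lit 427) (nat_lit 399)) (XT.nd (nat_lit 78) (nat_lit 228) (nat_lit 0) (XT.lf (nat_lit 76) (nat_lit 27343387414) (nat_lit 0) (nat_lit 95992319031) (nat_lit 304) (nat_lit 27343387414) (nat_lit 243) (nat_lit 1) (nat_lit 242) (nat_lit 1) (nat_lit 246) (nat_lit 1) (nat_lit 195) (nat_lit 427) (nat_lit 398)) (XT.lf (nat_lit 304) (nat_lit 22789858759) (nat_lit 0) (nat_lit 62496054406) (nat_lit 228) (nat_lit 62496054406) (nat_lit 243)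 (nat_lit 1) (nat_lit 239) (nat_lit 1) (nat_lit 242) (nat_lit 1) (nat_lit 196) (nat_lit 427) (nat_lit 397)))) (XT.nd (nat_lit 78) (nat_lit 228) (nat_lit 0) (XT.lf (nat_lit 304) (nat_lit 137159127912) (nat_lit 0) (nat_lit 3916672644) (nat_lit 228) (nat_lit 3916672644) (nat_lit 239) (nat_lit 1) (nat_lit 235) (nat_lit 1) (nat_lit 238) (nat_lit 1) (nat_lit 197) (nat_lit 427) (nat_lit 396)) (XT.nd (nat_lit 78) (nat_lit 228) (nat_lit 0) (XT.lf (nat_lit 76) (nat_lit 51883370099) (nat_lit 0) (nat_lit 38445056277) (nat_lit 304) (nat_lit 51883370099) (nat_lit 236) (nat_lit 1) (nat_lit 235) (nat_lit 1) (nat_lit 239) (nat_lit 1) (nat_lit 198) (nat_lit 427) (nat_lit 395)) (XT.lf (nat_lit 304) (nat_lit 71344384633) (nat_lit 0) (nat_lit 34094810300) (nat_lit 228) (nat_lit 34094810300) (nat_lit 236) (nat_lit 1) (nat_lit 232) (nat_lit 1) (nat_lit 235) (nat_lit 1) (nat_lit 199) (nat_lit 427) (nat_lit 394))))) (XT.nd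 (nat_lit 234) (nat_lit 152) (nat_lit 0) (XT.nd (nat_lit 78) (nat_lit 456) (nat_lit 0) (XT.lf (nat_lit 76) (nat_lit 19648185342) (nat_lit 0) (nat_lit 97631662887) (nat_lit 304) (nat_lit 19648185342) (nat_lit 233) (nat_lit 1) (nat_lit 232) (nat_lit 1) (nat_lit 236) (nat_lit 1) (nat_lit 200) (nat_lit 427) (nat_lit 393)) (XT.nd (nat_lit 78) (nat_lit 304) (nat_lit 0) (XT.lf (nat_lit 228) (nat_lit 7199748398) (nat_lit 0) (nat_lit 63585710741) (nat_lit 152) (nat_lit 63585710741) (nat_lit 233) (nat_lit 1) (nat_lit 230) (nat_lit 1) (nat_lit 232) (nat_lit 1) (nat_lit 201) (nat_lit 427) (nat_lit 392)) (XT.lf (nat_lit 304) (nat_lit 108785784115) (nat_lit 0) (nat_lit 11553838789) (nat_lit 228) (nat_lit 11553838789) (nat_lit 230) (nat_lit 1) (nat_lit 226) (nat_lit 1) (nat_lit 229) (nat_lit 1) (nat_lit 202) (nat_lit 427) (nat_lit 391)))) (XT.nd (nat_lit 78) (nat_lit 152) (nat_lit 0) (XT.lf (nat_lit 76) (nat_lit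 37996292128) (nat_lit 0) (nat_lit 53450880030) (nat_lit 304) (nat_lit 37996292128) (nat_lit 227) (nat_lit 1) (nat_lit 226) (nat_lit 1) (nat_lit 230) (nat_lit 1) (nat_lit 203) (nat_lit 427) (nat_lit 390)) (XT.nd (nat_lit 78) (nat_lit 0) (nat_lit 0) (XT.lf (nat_lit 228) (nat_lit 43898854376) (nat_lit 0) (nat_lit 41585113072) (nat_lit 152) (nat_lit 41585113072) (nat_lit 227) (nat_lit 1) (nat_lit 224) (nat_lit 1) (nat_lit 226) (nat_lit 1) (nat_lit 204) (nat_lit 427) (nat_lit 389)) (XT.lf (nat_lit 76) (nat_lit 6306871998) (nat_lit 0) (nat_lit 112159749445) (nat_lit 228) (nat_lit 6306871998) (nat_lit 225) (nat_lit 1) (nat_lit 224) (nat_lit 1) (nat_lit 227) (nat_lit 1) (nat_lit 205) (nat_lit 427) (nat_lit 388)))))) (XT.nd (nat_lit 468) (nat_lit 760) (nat_lit 0) (XT.nd (nat_lit 234) (nat_lit 380) (nat_lit 0) (XT.nd (nat_lit 78) (nat_lit 152) (nat_lit 0) (XT.lf (nat_lit 76) (nat_lit 52051721112) (nat_lit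 0) (nat_lit 18382808762) (nat_lit 228) (nat_lit 52051721112) (nat_lit 222) (nat_lit 1) (nat_lit 221) (nat_lit 1) (nat_lit 224) (nat_lit 1) (nat_lit 206) (nat_lit 427) (nat_lit 387)) (XT.nd (nat_lit 78) (nat_lit 0) (nat_lit 0) (XT.lf (nat_lit 228) (nat_lit 72282937613) (nat_lit 0) (nat_lit 23995976852) (nat_lit 152) (nat_lit 23995976852) (nat_lit 222) (nat_lit 1) (nat_lit 219) (nat_lit 1) (nat_lit 221) (nat_lit 1) (nat_lit 207) (nat_lit 427) (nat_lit 386)) (XT.lf (nat_lit 76) (nat_lit 20396364468) (nat_lit 0) (nat_lit 77319678594) (nat_lit 228) (nat_lit 20396364468) (nat_lit 220) (nat_lit 1) (nat_lit 219) (nat_lit 1) (nat_lit 222) (nat_lit 1) (nat_lit 208) (nat_lit 427) (nat_lit 385)))) (XT.nd (nat_lit 78) (nat_lit 228) (nat_lit 0) (XT.lf (nat_lit 228) (nat_lit 9554962415) (nat_lit 0) (nat_lit 53219275716) (nat_lit 152) (nat_lit 53219275716) (nat_lit 220) (nat_lit 1) (nat_lit 217) (nat_lit 1) (nat_lit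 219) (nat_lit 1) (nat_lit 209) (nat_lit 427) (nat_lit 384)) (XT.nd (nat_lit 78) (nat_lit 0) (nat_lit 0) (XT.lf (nat_lit 228) (nat_lit 93912343543) (nat_lit 0) (nat_lit 10011836602) (nat_lit 152) (nat_lit 10011836602) (nat_lit 217) (nat_lit 1) (nat_lit 214) (nat_lit 1) (nat_lit 216) (nat_lit 1) (nat_lit 210) (nat_lit 427) (nat_lit 383)) (XT.lf (nat_lit 76) (nat_lit 31263649302) (nat_lit 0) (nat_lit 49368781552) (nat_lit 228) (nat_lit 31263649302) (nat_lit 215) (nat_lit 1) (nat_lit 214) (nat_lit 1) (nat_lit 217) (nat_lit 1) (nat_lit 211) (nat_lit 427) (nat_lit 382))))) (XT.nd (nat_lit 234) (nat_lit 456) (nat_lit 0) (XT.nd (nat_lit 78) (nat_lit 152) (nat_lit 0) (XT.lf (nat_lit 228) (nat_lit 31840508947) (nat_lit 0) (nat_lit 39037428404) (nat_lit 152) (nat_lit 39037428404) (nat_lit 215) (nat_lit 1) (nat_lit 212) (nat_lit 1) (nat_lit 214) (nat_lit 1) (nat_lit 212) (nat_lit 427) (nat_lit 381)) (XT.nd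 (nat_lit 78) (nat_lit 152) (nat_lit 0) (XT.lf (nat_lit 76) (nat_lit 1046509715) (nat_lit 0) (nat_lit 105911095678) (nat_lit 228) (nat_lit 1046509715) (nat_lit 213) (nat_lit 1) (nat_lit 212) (nat_lit 1) (nat_lit 215) (nat_lit 1) (nat_lit 213) (nat_lit 427) (nat_lit 380)) (XT.lf (nat_lit 76) (nat_lit 39514500488) (nat_lit 0) (nat_lit 27051714592) (nat_lit 152) (nat_lit 39514500488) (nat_lit 211) (nat_lit 1) (nat_lit 210) (nat_lit 1) (nat_lit 212) (nat_lit 1) (nat_lit 214) (nat_lit 427) (nat_lit 379)))) (XT.nd (nat_lit 156) (nat_lit 304) (nat_lit 0) (XT.nd (nat_lit 78) (nat_lit 0) (nat_lit 0) (XT.lf (nat_lit 228) (nat_lit 49032996672) (nat_lit 0) (nat_lit 27595997115) (nat_lit 152) (nat_lit 27595997115) (nat_lit 211) (nat_lit 1) (nat_lit 208) (nat_lit 1) (nat_lit 210) (nat_lit 1) (nat_lit 215) (nat_lit 427) (nat_lit 378)) (XT.lf (nat_lit 76) (nat_lit 9830776953) (nat_lit 0) (nat_lit 82757803048) (nat_lit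 228) (nat_lit 9830776953) (nat_lit 209) (nat_lit 1) (nat_lit 208) (nat_lit 1) (nat_lit 211) (nat_lit 1) (nat_lit 216) (nat_lit 427) (nat_lit 377))) (XT.nd (nat_lit 78) (nat_lit 152) (nat_lit 0) (XT.lf (nat_lit 76) (nat_lit 45645647662) (nat_lit 0) (nat_lit 9337318095) (nat_lit 152) (nat_lit 45645647662) (nat_lit 207) (nat_lit 1) (nat_lit 206) (nat_lit 1) (nat_lit 208) (nat_lit 1) (nat_lit 217) (nat_lit 427) (nat_lit 376)) (XT.lf (nat_lit 228) (nat_lit 62089787864) (nat_lit 0) (nat_lit 18398350510) (nat_lit 152) (nat_lit 18398350510) (nat_lit 207) (nat_lit 1) (nat_lit 204) (nat_lit 1) (nat_lit 206) (nat_lit 1) (nat_lit 218) (nat_lit 427) (nat_lit 375))))))) (XT.nd (nat_lit 1014) (nat_lit 988) (nat_lit 0) (XT.nd (nat_lit 468) (nat_lit 532) (nat_lit 0) (XT.nd (nat_lit 234) (nat_lit 304) (nat_lit 0) (XT.nd (nat_lit 78) (nat_lit 304) (nat_lit 0) (XT.lf (nat_lit 76) (nat_lit 16630481501) (nat_lit 0)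 (nat_lit 63917889877) (nat_lit 228) (nat_lit 16630481501) (nat_lit 205) (nat_lit 1) (nat_lit 204) (nat_lit 1) (nat_lit 207) (nat_lit 1) (nat_lit 219) (nat_lit 427) (nat_lit 374)) (XT.nd (nat_lit 78) (nat_lit 228) (nat_lit 0) (XT.lf (nat_lit 152) (nat_lit 4774005618) (nat_lit 0) (nat_lit 45364717588) (nat_lit 76) (nat_lit 45364717588) (nat_lit 205) (nat_lit 1) (nat_lit 203) (nat_lit 1) (nat_lit 204) (nat_lit 1) (nat_lit 220) (nat_lit 427) (nat_lit 373)) (XT.lf (nat_lit 228) (nat_lit 71795917521) (nat_lit 0) (nat_lit 11036421248) (nat_lit 152) (nat_lit 11036421248) (nat_lit 203) (nat_lit 1) (nat_lit 200) (nat_lit 1) (nat_lit 202) (nat_lit 1) (nat_lit 221) (nat_lit 427) (nat_lit 372)))) (XT.nd (nat_lit 78) (nat_lit 304) (nat_lit 0) (XT.lf (nat_lit 76) (nat_lit 21817821119) (nat_lit 0) (nat_lit 48616682853) (nat_lit 228) (nat_lit 21817821119) (nat_lit 201) (nat_lit 1) (nat_lit 200) (nat_lit 1) (nat_lit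 203) (nat_lit 1) (nat_lit 222) (nat_lit 427) (nat_lit 371)) (XT.nd (nat_lit 78) (nat_lit 228) (nat_lit 0) (XT.lf (nat_lit 152) (nat_lit 16032192400) (nat_lit 0) (nat_lit 37321665428) (nat_lit 76) (nat_lit 37321665428) (nat_lit 201) (nat_lit 1) (nat_lit 199) (nat_lit 1) (nat_lit 200) (nat_lit 1) (nat_lit 223) (nat_lit 427) (nat_lit 370)) (XT.lf (nat_lit 228) (nat_lit 78794769868) (nat_lit 0) (nat_lit 5174979407) (nat_lit 152) (nat_lit 5174979407) (nat_lit 199) (nat_lit 1) (nat_lit 196) (nat_lit 1) (nat_lit 198) (nat_lit 1) (nat_lit 224) (nat_lit 427) (nat_lit 369))))) (XT.nd (nat_lit 234) (nat_lit 228) (nat_lit 0) (XT.nd (nat_lit 78) (nat_lit 304) (nat_lit 0) (XT.lf (nat_lit 76) (nat_lit 25698035268) (nat_lit 0) (nat_lit 36217328792) (nat_lit 228) (nat_lit 25698035268) (nat_lit 197) (nat_lit 1) (nat_lit 196) (nat_lit 1) (nat_lit 199) (nat_lit 1) (nat_lit 225) (nat_lit 427) (nat_lit 368)) (XT.nd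 (nat_lit 78) (nat_lit 228) (nat_lit 0) (XT.lf (nat_lit 152) (nat_lit 24717920710) (nat_lit 0) (nat_lit 30704626511) (nat_lit 76) (nat_lit 30704626511) (nat_lit 197) (nat_lit 1) (nat_lit 195) (nat_lit 1) (nat_lit 196) (nat_lit 1) (nat_lit 226) (nat_lit 427) (nat_lit 367)) (XT.lf (nat_lit 228) (nat_lit 83613310118) (nat_lit 0) (nat_lit 538695351) (nat_lit 152) (nat_lit 538695351) (nat_lit 195) (nat_lit 1) (nat_lit 192) (nat_lit 1) (nat_lit 194) (nat_lit 1) (nat_lit 227) (nat_lit 427) (nat_lit 366)))) (XT.nd (nat_lit 156) (nat_lit 152) (nat_lit 0) (XT.nd (nat_lit 78) (nat_lit 76) (nat_lit 0) (XT.lf (nat_lit 76) (nat_lit 28521322774) (nat_lit 0) (nat_lit 26196336973) (nat_lit 228) (nat_lit 28521322774) (nat_lit 193) (nat_lit 1) (nat_lit 192) (nat_lit 1) (nat_lit 195) (nat_lit 1) (nat_lit 228) (nat_lit 427) (nat_lit 365)) (XT.lf (nat_lit 152) (nat_lit 31314729155) (nat_lit 0) (nat_lit 25260772218) (nat_lit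 76) (nat_lit 25260772218) (nat_lit 193) (nat_lit 1) (nat_lit 191) (nat_lit 1) (nat_lit 192) (nat_lit 1) (nat_lit 229) (nat_lit 427) (nat_lit 364))) (XT.nd (nat_lit 78) (nat_lit 152) (nat_lit 0) (XT.lf (nat_lit 0) (nat_lit 3149297711) (nat_lit 0) (nat_lit 74177319368) (nat_lit 152) (nat_lit 3149297711) (nat_lit 191) (nat_lit 3) (nat_lit 191) (nat_lit 1) (nat_lit 193) (nat_lit 1) (nat_lit 230) (nat_lit 427) (nat_lit 363)) (XT.lf (nat_lit 76) (nat_lit 30492644317) (nat_lit 0) (nat_lit 18123458826) (nat_lit 152) (nat_lit 30492644317) (nat_lit 190) (nat_lit 1) (nat_lit 189) (nat_lit 1) (nat_lit 191) (nat_lit 1) (nat_lit 231) (nat_lit 427) (nat_lit 362)))))) (XT.nd (nat_lit 468) (nat_lit 532) (nat_lit 0) (XT.nd (nat_lit 234) (nat_lit 228) (nat_lit 0) (XT.nd (nat_lit 78) (nat_lit 152) (nat_lit 0) (XT.lf (nat_lit 152) (nat_lit 36219119093) (nat_lit 0) (nat_lit 20782099819) (nat_lit 76) (nat_lit 20782099819)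 (nat_lit 190) (nat_lit 1) (nat_lit 188) (nat_lit 1) (nat_lit 189) (nat_lit 1) (nat_lit 232) (nat_lit 427) (nat_lit 361)) (XT.nd (nat_lit 78) (nat_lit 152) (nat_lit 0) (XT.lf (nat_lit 0) (nat_lit 6019267453) (nat_lit 0) (nat_lit 64454196650) (nat_lit 152) (nat_lit 6019267453) (nat_lit 188) (nat_lit 3) (nat_lit 188) (nat_lit 1) (nat_lit 190) (nat_lit 1) (nat_lit 233) (nat_lit 427) (nat_lit 360)) (XT.lf (nat_lit 76) (nat_lit 31779784882) (nat_lit 0) (nat_lit 11645135920) (nat_lit 152) (nat_lit 31779784882) (nat_lit 187) (nat_lit 1) (nat_lit 186) (nat_lit 1) (nat_lit 188) (nat_lit 1) (nat_lit 234) (nat_lit 427) (nat_lit 359)))) (XT.nd (nat_lit 78) (nat_lit 152) (nat_lit 0) (XT.lf (nat_lit 152) (nat_lit 39756048359) (nat_lit 0) (nat_lit 17097484952) (nat_lit 76) (nat_lit 17097484952) (nat_lit 187) (nat_lit 1) (nat_lit 185) (nat_lit 1) (nat_lit 186) (nat_lit 1) (nat_lit 235) (nat_lit 427) (nat_lit 358))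 (XT.nd (nat_lit 78) (nat_lit 152) (nat_lit 0) (XT.lf (nat_lit 0) (nat_lit 8217144737) (nat_lit 0) (nat_lit 56291705602) (nat_lit 152) (nat_lit 8217144737) (nat_lit 185) (nat_lit 3) (nat_lit 185) (nat_lit 1) (nat_lit 187) (nat_lit 1) (nat_lit 236) (nat_lit 427) (nat_lit 357)) (XT.lf (nat_lit 76) (nat_lit 32519984756) (nat_lit 0) (nat_lit 6470883563) (nat_lit 152) (nat_lit 32519984756) (nat_lit 184) (nat_lit 1) (nat_lit 183) (nat_lit 1) (nat_lit 185) (nat_lit 1) (nat_lit 237) (nat_lit 427) (nat_lit 356))))) (XT.nd (nat_lit 234) (nat_lit 304) (nat_lit 0) (XT.nd (nat_lit 78) (nat_lit 152) (nat_lit 0) (XT.lf (nat_lit 152) (nat_lit 42191675037) (nat_lit 0) (nat_lit 14066143183) (nat_lit 76) (nat_lit 14066143183) (nat_lit 184) (nat_lit 1) (nat_lit 182) (nat_lit 1) (nat_lit 183) (nat_lit 1) (nat_lit 238) (nat_lit 427) (nat_lit 355)) (XT.nd (nat_lit 78) (nat_lit 152) (nat_lit 0) (XT.lf (nat_lit 0) (nat_lit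 9869863889) (nat_lit 0) (nat_lit 49420924087) (nat_lit 152) (nat_lit 9869863889) (nat_lit 182) (nat_lit 3) (nat_lit 182) (nat_lit 1) (nat_lit 184) (nat_lit 1) (nat_lit 239) (nat_lit 427) (nat_lit 354)) (XT.lf (nat_lit 76) (nat_lit 32825392973) (nat_lit 0) (nat_lit 2362089465) (nat_lit 152) (nat_lit 32825392973) (nat_lit 181) (nat_lit 1) (nat_lit 180) (nat_lit 1) (nat_lit 182) (nat_lit 1) (nat_lit 240) (nat_lit 427) (nat_lit 353)))) (XT.nd (nat_lit 156) (nat_lit 228) (nat_lit 0) (XT.nd (nat_lit 78) (nat_lit 0) (nat_lit 0) (XT.lf (nat_lit 152) (nat_lit 43743838958) (nat_lit 0) (nat_lit 11572250807) (nat_lit 76) (nat_lit 11572250807) (nat_lit 181) (nat_lit 1) (nat_lit 179) (nat_lit 1) (nat_lit 180) (nat_lit 1) (nat_lit 241) (nat_lit 427) (nat_lit 352)) (XT.lf (nat_lit 0) (nat_lit 11081483903) (nat_lit 0) (nat_lit 43620239008) (nat_lit 152) (nat_lit 11081483903) (nat_lit 179) (nat_lit 3) (nat_lit 179)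 (nat_lit 1) (nat_lit 181) (nat_lit 1) (nat_lit 242) (nat_lit 427) (nat_lit 351))) (XT.nd (nat_lit 78) (nat_lit 152) (nat_lit 0) (XT.lf (nat_lit 76) (nat_lit 906204944) (nat_lit 0) (nat_lit 31895495521) (nat_lit 76) (nat_lit 31895495521) (nat_lit 179) (nat_lit 3) (nat_lit 178) (nat_lit 1) (nat_lit 179) (nat_lit 1) (nat_lit 243) (nat_lit 427) (nat_lit 350)) (XT.lf (nat_lit 152) (nat_lit 44590682176) (nat_lit 0) (nat_lit 9520519378) (nat_lit 76) (nat_lit 9520519378) (nat_lit 178) (nat_lit 1) (nat_lit 176) (nat_lit 1) (nat_lit 177) (nat_lit 1) (nat_lit 244) (nat_lit 427) (nat_lit 349))))))))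
noncomputable def ec390 : XT := (XT.nd (nat_lit 1950) (nat_lit 1900) (nat_lit 0) (XT.nd (nat_lit 936) (nat_lit 912) (nat_lit 0) (XT.nd (nat_lit 468) (nat_lit 456) (nat_lit 0) (XT.nd (nat_lit 234) (nat_lit 228) (nat_lit 0) (XT.nd (nat_lit 78) (nat_lit 228) (nat_lit 0) (XT.lf (nat_lit 0) (nat_lit 11937261808) (nat_lit 0) (nat_lit 38706976160) (nat_lit 152) (nat_lit 11937261808) (nat_lit 176) (nat_lit 3) (nat_lit 176) (nat_lit 1) (nat_lit 178) (nat_lit 1) (nat_lit 245) (nat_lit 427) (nat_lit 348)) (XT.nd (nat_lit 78) (nat_lit 152) (nat_lit 0) (XT.lf (nat_lit 76) (nat_lit 3520542731) (nat_lit 0) (nat_lit 29015508780) (nat_lit 76) (nat_lit 29015508780) (nat_lit 176) (nat_lit 3) (nat_lit 175) (nat_lit 1) (nat_lit 176) (nat_lit 1) (nat_lit 246) (nat_lit 427) (nat_lit 347)) (XT.lf (nat_lit 152) (nat_lit 44877738492) (nat_lit 0) (nat_lit 7832554853) (nat_lit 76) (nat_lit 7832554853) (nat_lit 175) (nat_lit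 1) (nat_lit 173) (nat_lit 1) (nat_lit 174) (nat_lit 1) (nat_lit 247) (nat_lit 427) (nat_lit 346)))) (XT.nd (nat_lit 78) (nat_lit 228) (nat_lit 0) (XT.lf (nat_lit 0) (nat_lit 12507003000) (nat_lit 0) (nat_lit 34530513247) (nat_lit 152) (nat_lit 12507003000) (nat_lit 173) (nat_lit 3) (nat_lit 173) (nat_lit 1) (nat_lit 175) (nat_lit 1) (nat_lit 248) (nat_lit 427) (nat_lit 345)) (XT.nd (nat_lit 78) (nat_lit 152) (nat_lit 0) (XT.lf (nat_lit 76) (nat_lit 5539221770) (nat_lit 0) (nat_lit 26513993433) (nat_lit 76) (nat_lit 26513993433) (nat_lit 173) (nat_lit 3) (nat_lit 172) (nat_lit 1) (nat_lit 173) (nat_lit 1) (nat_lit 249) (nat_lit 427) (nat_lit 344)) (XT.lf (nat_lit 152) (nat_lit 44723763581) (nat_lit 0) (nat_lit 6443862262) (nat_lit 76) (nat_lit 6443862262) (nat_lit 172) (nat_lit 1) (nat_lit 170) (nat_lit 1) (nat_lit 171) (nat_lit 1) (nat_lit 250) (nat_lit 427) (nat_lit 343))))) (XT.nd (nat_lit 234)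 (nat_lit 228) (nat_lit 0) (XT.nd (nat_lit 78) (nat_lit 228) (nat_lit 0) (XT.lf (nat_lit 0) (nat_lit 12847816766) (nat_lit 0) (nat_lit 30966613150) (nat_lit 152) (nat_lit 12847816766) (nat_lit 170) (nat_lit 3) (nat_lit 170) (nat_lit 1) (nat_lit 172) (nat_lit 1) (nat_lit 251) (nat_lit 427) (nat_lit 342)) (XT.nd (nat_lit 78) (nat_lit 152) (nat_lit 0) (XT.lf (nat_lit 76) (nat_lit 7074143413) (nat_lit 0) (nat_lit 24330139969) (nat_lit 76) (nat_lit 24330139969) (nat_lit 170) (nat_lit 3) (nat_lit 169) (nat_lit 1) (nat_lit 170) (nat_lit 1) (nat_lit 252) (nat_lit 427) (nat_lit 341)) (XT.lf (nat_lit 152) (nat_lit 44225529132) (nat_lit 0) (nat_lit 5301381430) (nat_lit 76) (nat_lit 5301381430) (nat_lit 169) (nat_lit 1) (nat_lit 167) (nat_lit 1) (nat_lit 168) (nat_lit 1) (nat_lit 253) (nat_lit 427) (nat_lit 340)))) (XT.nd (nat_lit 78) (nat_lit 228) (nat_lit 0) (XT.lf (nat_lit 0) (nat_lit 13006382502) (nat_lit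 0) (nat_lit 27912761127) (nat_lit 152) (nat_lit 13006382502) (nat_lit 167) (nat_lit 3) (nat_lit 167) (nat_lit 1) (nat_lit 169) (nat_lit 1) (nat_lit 254) (nat_lit 427) (nat_lit 339)) (XT.nd (nat_lit 78) (nat_lit 152) (nat_lit 0) (XT.lf (nat_lit 76) (nat_lit 8217069536) (nat_lit 0) (nat_lit 22413620607) (nat_lit 76) (nat_lit 22413620607) (nat_lit 167) (nat_lit 3) (nat_lit 166) (nat_lit 1) (nat_lit 167) (nat_lit 1) (nat_lit 255) (nat_lit 427) (nat_lit 338)) (XT.lf (nat_lit 152) (nat_lit 43461764792) (nat_lit 0) (nat_lit 4361459622) (nat_lit 76) (nat_lit 4361459622) (nat_lit 166) (nat_lit 1) (nat_lit 164) (nat_lit 1) (nat_lit 165) (nat_lit 1) (nat_lit 256) (nat_lit 427) (nat_lit 337)))))) (XT.nd (nat_lit 468) (nat_lit 456) (nat_lit 0) (XT.nd (nat_lit 234) (nat_lit 228) (nat_lit 0) (XT.nd (nat_lit 78) (nat_lit 228) (nat_lit 0) (XT.lf (nat_lit 0) (nat_lit 13020813409) (nat_lit 0) (nat_lit 25284327994)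 (nat_lit 152) (nat_lit 13020813409) (nat_lit 164) (nat_lit 3) (nat_lit 164) (nat_lit 1) (nat_lit 166) (nat_lit 1) (nat_lit 257) (nat_lit 427) (nat_lit 336)) (XT.nd (nat_lit 78) (nat_lit 152) (nat_lit 0) (XT.lf (nat_lit 76) (nat_lit 9043207483) (nat_lit 0) (nat_lit 20722745183) (nat_lit 76) (nat_lit 20722745183) (nat_lit 164) (nat_lit 3) (nat_lit 163) (nat_lit 1) (nat_lit 164) (nat_lit 1) (nat_lit 258) (nat_lit 427) (nat_lit 335)) (XT.lf (nat_lit 152) (nat_lit 42496399098) (nat_lit 0) (nat_lit 3588183625) (nat_lit 76) (nat_lit 3588183625) (nat_lit 163) (nat_lit 1) (nat_lit 161) (nat_lit 1) (nat_lit 162) (nat_lit 1) (nat_lit 259) (nat_lit 427) (nat_lit 334)))) (XT.nd (nat_lit 78) (nat_lit 228) (nat_lit 0) (XT.lf (nat_lit 0) (nat_lit 12922189069) (nat_lit 0) (nat_lit 23011412868) (nat_lit 152) (nat_lit 12922189069) (nat_lit 161) (nat_lit 3) (nat_lit 161) (nat_lit 1) (nat_lit 163) (nat_lit 1) (nat_lit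 260) (nat_lit 427) (nat_lit 333)) (XT.nd (nat_lit 78) (nat_lit 152) (nat_lit 0) (XT.lf (nat_lit 76) (nat_lit 9614158739) (nat_lit 0) (nat_lit 19222943309) (nat_lit 76) (nat_lit 19222943309) (nat_lit 161) (nat_lit 3) (nat_lit 160) (nat_lit 1) (nat_lit 161) (nat_lit 1) (nat_lit 261) (nat_lit 427) (nat_lit 332)) (XT.lf (nat_lit 152) (nat_lit 41381223797) (nat_lit 0) (nat_lit 2952007548) (nat_lit 76) (nat_lit 2952007548) (nat_lit 160) (nat_lit 1) (nat_lit 158) (nat_lit 1) (nat_lit 159) (nat_lit 1) (nat_lit 262) (nat_lit 427) (nat_lit 331))))) (XT.nd (nat_lit 234) (nat_lit 228) (nat_lit 0) (XT.nd (nat_lit 78) (nat_lit 228) (nat_lit 0) (XT.lf (nat_lit 0) (nat_lit 12735815645) (nat_lit 0) (nat_lit 21036245033) (nat_lit 152) (nat_lit 12735815645) (nat_lit 158) (nat_lit 3) (nat_lit 158) (nat_lit 1) (nat_lit 160) (nat_lit 1) (nat_lit 263) (nat_lit 427) (nat_lit 330)) (XT.nd (nat_lit 78) (nat_lit 152) (nat_lit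 0) (XT.lf (nat_lit 76) (nat_lit 9980344152) (nat_lit 0) (nat_lit 17885514998) (nat_lit 76) (nat_lit 17885514998) (nat_lit 158) (nat_lit 3) (nat_lit 157) (nat_lit 1) (nat_lit 158) (nat_lit 1) (nat_lit 264) (nat_lit 427) (nat_lit 329)) (XT.lf (nat_lit 152) (nat_lit 40158083884) (nat_lit 0) (nat_lit 2428623915) (nat_lit 76) (nat_lit 2428623915) (nat_lit 157) (nat_lit 1) (nat_lit 155) (nat_lit 1) (nat_lit 156) (nat_lit 1) (nat_lit 265) (nat_lit 427) (nat_lit 328)))) (XT.nd (nat_lit 156) (nat_lit 152) (nat_lit 0) (XT.nd (nat_lit 78) (nat_lit 76) (nat_lit 0) (XT.lf (nat_lit 0) (nat_lit 12482262019) (nat_lit 0) (nat_lit 19311045818) (nat_lit 152) (nat_lit 12482262019) (nat_lit 155) (nat_lit 3) (nat_lit 155) (nat_lit 1) (nat_lit 157) (nat_lit 1) (nat_lit 266) (nat_lit 427) (nat_lit 327)) (XT.lf (nat_lit 76) (nat_lit 10182998561) (nat_lit 0) (nat_lit 16686602179) (nat_lit 76) (nat_lit 16686602179) (nat_lit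 155) (nat_lit 3) (nat_lit 154) (nat_lit 1) (nat_lit 155) (nat_lit 1) (nat_lit 267) (nat_lit 427) (nat_lit 326))) (XT.nd (nat_lit 78) (nat_lit 0) (nat_lit 0) (XT.lf (nat_lit 152) (nat_lit 38860677525) (nat_lit 0) (nat_lit 1998034905) (nat_lit 76) (nat_lit 1998034905) (nat_lit 154) (nat_lit 1) (nat_lit 152) (nat_lit 1) (nat_lit 153) (nat_lit 1) (nat_lit 268) (nat_lit 427) (nat_lit 325)) (XT.lf (nat_lit 0) (nat_lit 12178211634) (nat_lit 0) (nat_lit 17796268966) (nat_lit 152) (nat_lit 12178211634) (nat_lit 152) (nat_lit 3) (nat_lit 152) (nat_lit 1) (nat_lit 154) (nat_lit 1) (nat_lit 269) (nat_lit 427) (nat_lit 324))))))) (XT.nd (nat_lit 936) (nat_lit 988) (nat_lit 0) (XT.nd (nat_lit 468) (nat_lit 456) (nat_lit 0) (XT.nd (nat_lit 234) (nat_lit 228) (nat_lit 0) (XT.nd (nat_lit 78) (nat_lit 152) (nat_lit 0) (XT.lf (nat_lit 76) (nat_lit 10255811191) (nat_lit 0) (nat_lit 15606341983) (nat_lit 76) (nat_lit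 15606341983) (nat_lit 152) (nat_lit 3) (nat_lit 151) (nat_lit 1) (nat_lit 152) (nat_lit 1) (nat_lit 270) (nat_lit 427) (nat_lit 323)) (XT.nd (nat_lit 78) (nat_lit 0) (nat_lit 0) (XT.lf (nat_lit 152) (nat_lit 37516035124) (nat_lit 0) (nat_lit 1643788261) (nat_lit 76) (nat_lit 1643788261) (nat_lit 151) (nat_lit 1) (nat_lit 149) (nat_lit 1) (nat_lit 150) (nat_lit 1) (nat_lit 271) (nat_lit 427) (nat_lit 322)) (XT.lf (nat_lit 0) (nat_lit 11837162736) (nat_lit 0) (nat_lit 16459152406) (nat_lit 152) (nat_lit 11837162736) (nat_lit 149) (nat_lit 3) (nat_lit 149) (nat_lit 1) (nat_lit 151) (nat_lit 1) (nat_lit 272) (nat_lit 427) (nat_lit 321)))) (XT.nd (nat_lit 78) (nat_lit 152) (nat_lit 0) (XT.lf (nat_lit 76) (nat_lit 10226274652) (nat_lit 0) (nat_lit 14628169576) (nat_lit 76) (nat_lit 14628169576) (nat_lit 149) (nat_lit 3) (nat_lit 148) (nat_lit 1) (nat_lit 149) (nat_lit 1) (nat_lit 273) (nat_lit 427) (nat_lit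 320)) (XT.nd (nat_lit 78) (nat_lit 0) (nat_lit 0) (XT.lf (nat_lit 152) (nat_lit 36145734515) (nat_lit 0) (nat_lit 1352348670) (nat_lit 76) (nat_lit 1352348670) (nat_lit 148) (nat_lit 1) (nat_lit 146) (nat_lit 1) (nat_lit 147) (nat_lit 1) (nat_lit 274) (nat_lit 427) (nat_lit 319)) (XT.lf (nat_lit 0) (nat_lit 11470003921) (nat_lit 0) (nat_lit 15272526261) (nat_lit 152) (nat_lit 11470003921) (nat_lit 146) (nat_lit 3) (nat_lit 146) (nat_lit 1) (nat_lit 148) (nat_lit 1) (nat_lit 275) (nat_lit 427) (nat_lit 318))))) (XT.nd (nat_lit 234) (nat_lit 228) (nat_lit 0) (XT.nd (nat_lit 78) (nat_lit 152) (nat_lit 0) (XT.lf (nat_lit 76) (nat_lit 10116794230) (nat_lit 0) (nat_lit 13738244077) (nat_lit 76) (nat_lit 13738244077) (nat_lit 146) (nat_lit 3) (nat_lit 145) (nat_lit 1) (nat_lit 146) (nat_lit 1) (nat_lit 276) (nat_lit 427) (nat_lit 317)) (XT.nd (nat_lit 78) (nat_lit 0) (nat_lit 0) (XT.lf (nat_lit 152) (nat_lit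 34766899118) (nat_lit 0) (nat_lit 1112580598) (nat_lit 76) (nat_lit 1112580598) (nat_lit 145) (nat_lit 1) (nat_lit 143) (nat_lit 1) (nat_lit 144) (nat_lit 1) (nat_lit 277) (nat_lit 427) (nat_lit 316)) (XT.lf (nat_lit 0) (nat_lit 11085487130) (nat_lit 0) (nat_lit 14213831669) (nat_lit 152) (nat_lit 11085487130) (nat_lit 143) (nat_lit 3) (nat_lit 143) (nat_lit 1) (nat_lit 145) (nat_lit 1) (nat_lit 278) (nat_lit 427) (nat_lit 315)))) (XT.nd (nat_lit 78) (nat_lit 152) (nat_lit 0) (XT.lf (nat_lit 76) (nat_lit 9945599998) (nat_lit 0) (nat_lit 12924975750) (nat_lit 76) (nat_lit 12924975750) (nat_lit 143) (nat_lit 3) (nat_lit 142) (nat_lit 1) (nat_lit 143) (nat_lit 1) (nat_lit 279) (nat_lit 427) (nat_lit 314)) (XT.nd (nat_lit 78) (nat_lit 0) (nat_lit 0) (XT.lf (nat_lit 152) (nat_lit 33393017641) (nat_lit 0) (nat_lit 915322811) (nat_lit 76) (nat_lit 915322811) (nat_lit 142) (nat_lit 1) (nat_lit 140) (nat_lit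 1) (nat_lit 141) (nat_lit 1) (nat_lit 280) (nat_lit 427) (nat_lit 313)) (XT.lf (nat_lit 0) (nat_lit 10690616284) (nat_lit 0) (nat_lit 13264313079) (nat_lit 152) (nat_lit 10690616284) (nat_lit 140) (nat_lit 3) (nat_lit 140) (nat_lit 1) (nat_lit 142) (nat_lit 1) (nat_lit 281) (nat_lit 427) (nat_lit 312)))))) (XT.nd (nat_lit 468) (nat_lit 532) (nat_lit 0) (XT.nd (nat_lit 234) (nat_lit 228) (nat_lit 0) (XT.nd (nat_lit 78) (nat_lit 152) (nat_lit 0) (XT.lf (nat_lit 76) (nat_lit 9727496730) (nat_lit 0) (nat_lit 12178636535) (nat_lit 76) (nat_lit 12178636535) (nat_lit 140) (nat_lit 3) (nat_lit 139) (nat_lit 1) (nat_lit 140) (nat_lit 1) (nat_lit 282) (nat_lit 427) (nat_lit 311)) (XT.nd (nat_lit 78) (nat_lit 0) (nat_lit 0) (XT.lf (nat_lit 152) (nat_lit 32034617011) (nat_lit 0) (nat_lit 753038342) (nat_lit 76) (nat_lit 753038342) (nat_lit 139) (nat_lit 1) (nat_lit 137) (nat_lit 1) (nat_lit 138) (nat_lit 1)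 (nat_lit 283) (nat_lit 427) (nat_lit 310)) (XT.lf (nat_lit 0) (nat_lit 10290966559) (nat_lit 0) (nat_lit 12408353281) (nat_lit 152) (nat_lit 10290966559) (nat_lit 137) (nat_lit 3) (nat_lit 137) (nat_lit 1) (nat_lit 139) (nat_lit 1) (nat_lit 284) (nat_lit 427) (nat_lit 309)))) (XT.nd (nat_lit 78) (nat_lit 152) (nat_lit 0) (XT.lf (nat_lit 76) (nat_lit 9474480394) (nat_lit 0) (nat_lit 11491039177) (nat_lit 76) (nat_lit 11491039177) (nat_lit 137) (nat_lit 3) (nat_lit 136) (nat_lit 1) (nat_lit 137) (nat_lit 1) (nat_lit 285) (nat_lit 427) (nat_lit 308)) (XT.nd (nat_lit 78) (nat_lit 0) (nat_lit 0) (XT.lf (nat_lit 152) (nat_lit 30699814653) (nat_lit 0) (nat_lit 619526507) (nat_lit 76) (nat_lit 619526507) (nat_lit 136) (nat_lit 1) (nat_lit 134) (nat_lit 1) (nat_lit 135) (nat_lit 1) (nat_lit 286) (nat_lit 427) (nat_lit 307)) (XT.lf (nat_lit 0) (nat_lit 9890946593) (nat_lit 0) (nat_lit 11632925890) (nat_lit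 152) (nat_lit 9890946593) (nat_lit 134) (nat_lit 3) (nat_lit 134) (nat_lit 1) (nat_lit 136) (nat_lit 1) (nat_lit 287) (nat_lit 427) (nat_lit 306))))) (XT.nd (nat_lit 234) (nat_lit 304) (nat_lit 0) (XT.nd (nat_lit 78) (nat_lit 152) (nat_lit 0) (XT.lf (nat_lit 76) (nat_lit 9196244906) (nat_lit 0) (nat_lit 10855272807) (nat_lit 76) (nat_lit 10855272807) (nat_lit 134) (nat_lit 3) (nat_lit 133) (nat_lit 1) (nat_lit 134) (nat_lit 1) (nat_lit 288) (nat_lit 427) (nat_lit 305)) (XT.nd (nat_lit 78) (nat_lit 0) (nat_lit 0) (XT.lf (nat_lit 152) (nat_lit 29394771547) (nat_lit 0) (nat_lit 509685991) (nat_lit 76) (nat_lit 509685991) (nat_lit 133) (nat_lit 1) (nat_lit 131) (nat_lit 1) (nat_lit 132) (nat_lit 1) (nat_lit 289) (nat_lit 427) (nat_lit 304)) (XT.lf (nat_lit 0) (nat_lit 9494013800) (nat_lit 0) (nat_lit 10927144478) (nat_lit 152) (nat_lit 9494013800) (nat_lit 131) (nat_lit 3) (nat_lit 131) (nat_lit 1)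 (nat_lit 133) (nat_lit 1) (nat_lit 290) (nat_lit 427) (nat_lit 303)))) (XT.nd (nat_lit 156) (nat_lit 76) (nat_lit 0) (XT.nd (nat_lit 78) (nat_lit 152) (nat_lit 0) (XT.lf (nat_lit 76) (nat_lit 8900598622) (nat_lit 0) (nat_lit 10265484982) (nat_lit 76) (nat_lit 10265484982) (nat_lit 131) (nat_lit 3) (nat_lit 130) (nat_lit 1) (nat_lit 131) (nat_lit 1) (nat_lit 291) (nat_lit 427) (nat_lit 302)) (XT.lf (nat_lit 152) (nat_lit 28124063733) (nat_lit 0) (nat_lit 419319926) (nat_lit 76) (nat_lit 419319926) (nat_lit 130) (nat_lit 1) (nat_lit 128) (nat_lit 1) (nat_lit 129) (nat_lit 1) (nat_lit 292) (nat_lit 427) (nat_lit 301))) (XT.nd (nat_lit 78) (nat_lit 76) (nat_lit 0) (XT.lf (nat_lit 0) (nat_lit 9102851086) (nat_lit 0) (nat_lit 10281891242) (nat_lit 152) (nat_lit 9102851086) (nat_lit 128) (nat_lit 3) (nat_lit 128) (nat_lit 1) (nat_lit 130) (nat_lit 1) (nat_lit 293) (nat_lit 427) (nat_lit 300)) (XT.lf (nat_lit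 76) (nat_lit 8593806589) (nat_lit 0) (nat_lit 9716701976) (nat_lit 76) (nat_lit 9716701976) (nat_lit 128) (nat_lit 3) (nat_lit 127) (nat_lit 1) (nat_lit 128) (nat_lit 1) (nat_lit 294) (nat_lit 427) (nat_lit 299))))))))
noncomputable def ec391 : XT := (XT.nd (nat_lit 1950) (nat_lit 1900) (nat_lit 0) (XT.nd (nat_lit 936) (nat_lit 1064) (nat_lit 0) (XT.nd (nat_lit 468) (nat_lit 456) (nat_lit 0) (XT.nd (nat_lit 234) (nat_lit 228) (nat_lit 0) (XT.nd (nat_lit 78) (nat_lit 76) (nat_lit 0) (XT.lf (nat_lit 152) (nat_lit 26890986772) (nat_lit 0) (nat_lit 344975541) (nat_lit 76) (nat_lit 344975541) (nat_lit 127) (nat_lit 1) (nat_lit 125) (nat_lit 1) (nat_lit 126) (nat_lit 1) (nat_lit 295) (nat_lit 427) (nat_lit 298)) (XT.nd (nat_lit 78) (nat_lit 76) (nat_lit 0) (XT.lf (nat_lit 0) (nat_lit 8719511866) (nat_lit 0) (nat_lit 9689511120) (nat_lit 152) (nat_lit 8719511866) (nat_lit 125) (nat_lit 3) (nat_lit 125)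 (nat_lit 1) (nat_lit 127) (nat_lit 1) (nat_lit 296) (nat_lit 427) (nat_lit 297)) (XT.lf (nat_lit 76) (nat_lit 8280871735) (nat_lit 0) (nat_lit 9204680548) (nat_lit 76) (nat_lit 9204680548) (nat_lit 125) (nat_lit 3) (nat_lit 124) (nat_lit 1) (nat_lit 125) (nat_lit 1) (nat_lit 297) (nat_lit 427) (nat_lit 296)))) (XT.nd (nat_lit 78) (nat_lit 76) (nat_lit 0) (XT.lf (nat_lit 152) (nat_lit 25697805117) (nat_lit 0) (nat_lit 283812231) (nat_lit 76) (nat_lit 283812231) (nat_lit 124) (nat_lit 1) (nat_lit 122) (nat_lit 1) (nat_lit 123) (nat_lit 1) (nat_lit 298) (nat_lit 427) (nat_lit 295)) (XT.nd (nat_lit 78) (nat_lit 76) (nat_lit 0) (XT.lf (nat_lit 0) (nat_lit 8345538991) (nat_lit 0) (nat_lit 9143559778) (nat_lit 152) (nat_lit 8345538991) (nat_lit 122) (nat_lit 3) (nat_lit 122) (nat_lit 1) (nat_lit 124) (nat_lit 1) (nat_lit 299) (nat_lit 427) (nat_lit 294)) (XT.lf (nat_lit 76) (nat_lit 7965765847) (nat_lit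 0) (nat_lit 8725785644) (nat_lit 76) (nat_lit 8725785644) (nat_lit 122) (nat_lit 3) (nat_lit 121) (nat_lit 1) (nat_lit 122) (nat_lit 1) (nat_lit 300) (nat_lit 427) (nat_lit 293))))) (XT.nd (nat_lit 234) (nat_lit 228) (nat_lit 0) (XT.nd (nat_lit 78) (nat_lit 76) (nat_lit 0) (XT.lf (nat_lit 152) (nat_lit 24545956200) (nat_lit 0) (nat_lit 233493025) (nat_lit 76) (nat_lit 233493025) (nat_lit 121) (nat_lit 1) (nat_lit 119) (nat_lit 1) (nat_lit 120) (nat_lit 1) (nat_lit 301) (nat_lit 427) (nat_lit 292)) (XT.nd (nat_lit 78) (nat_lit 76) (nat_lit 0) (XT.lf (nat_lit 0) (nat_lit 7982062248) (nat_lit 0) (nat_lit 8638595925) (nat_lit 152) (nat_lit 7982062248) (nat_lit 119) (nat_lit 3) (nat_lit 119) (nat_lit 1) (nat_lit 121) (nat_lit 1) (nat_lit 302) (nat_lit 427) (nat_lit 291)) (XT.lf (nat_lit 76) (nat_lit 7651619255) (nat_lit 0) (nat_lit 8276889423) (nat_lit 76) (nat_lit 8276889423) (nat_lit 119) (nat_lit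 3) (nat_lit 118) (nat_lit 1) (nat_lit 119) (nat_lit 1) (nat_lit 303) (nat_lit 427) (nat_lit 290)))) (XT.nd (nat_lit 78) (nat_lit 76) (nat_lit 0) (XT.lf (nat_lit 152) (nat_lit 23436217325) (nat_lit 0) (nat_lit 192095289) (nat_lit 76) (nat_lit 192095289) (nat_lit 118) (nat_lit 1) (nat_lit 116) (nat_lit 1) (nat_lit 117) (nat_lit 1) (nat_lit 304) (nat_lit 427) (nat_lit 289)) (XT.nd (nat_lit 78) (nat_lit 76) (nat_lit 0) (XT.lf (nat_lit 0) (nat_lit 7629878239) (nat_lit 0) (nat_lit 8170010119) (nat_lit 152) (nat_lit 7629878239) (nat_lit 116) (nat_lit 3) (nat_lit 116) (nat_lit 1) (nat_lit 118) (nat_lit 1) (nat_lit 305) (nat_lit 427) (nat_lit 288)) (XT.lf (nat_lit 76) (nat_lit 7340876553) (nat_lit 0) (nat_lit 7855287867) (nat_lit 76) (nat_lit 7855287867) (nat_lit 116) (nat_lit 3) (nat_lit 115) (nat_lit 1) (nat_lit 116) (nat_lit 1) (nat_lit 306) (nat_lit 427) (nat_lit 287)))))) (XT.nd (nat_lit 468) (nat_lit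 608) (nat_lit 0) (XT.nd (nat_lit 234) (nat_lit 228) (nat_lit 0) (XT.nd (nat_lit 78) (nat_lit 76) (nat_lit 0) (XT.lf (nat_lit 152) (nat_lit 22368842005) (nat_lit 0) (nat_lit 158037270) (nat_lit 76) (nat_lit 158037270) (nat_lit 115) (nat_lit 1) (nat_lit 113) (nat_lit 1) (nat_lit 114) (nat_lit 1) (nat_lit 307) (nat_lit 427) (nat_lit 286)) (XT.nd (nat_lit 78) (nat_lit 76) (nat_lit 0) (XT.lf (nat_lit 0) (nat_lit 7289515779) (nat_lit 0) (nat_lit 7733883614) (nat_lit 152) (nat_lit 7289515779) (nat_lit 113) (nat_lit 3) (nat_lit 113) (nat_lit 1) (nat_lit 115) (nat_lit 1) (nat_lit 308) (nat_lit 427) (nat_lit 285)) (XT.lf (nat_lit 76) (nat_lit 7035424408) (nat_lit 0) (nat_lit 7458631869) (nat_lit 76) (nat_lit 7458631869) (nat_lit 113) (nat_lit 3) (nat_lit 112) (nat_lit 1) (nat_lit 113) (nat_lit 1) (nat_lit 309) (nat_lit 427) (nat_lit 284)))) (XT.nd (nat_lit 78) (nat_lit 76) (nat_lit 0) (XT.lf (nat_lit 152)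 (nat_lit 21343671211) (nat_lit 0) (nat_lit 130017653) (nat_lit 76) (nat_lit 130017653) (nat_lit 112) (nat_lit 1) (nat_lit 110) (nat_lit 1) (nat_lit 111) (nat_lit 1) (nat_lit 310) (nat_lit 427) (nat_lit 283)) (XT.nd (nat_lit 78) (nat_lit 76) (nat_lit 0) (XT.lf (nat_lit 0) (nat_lit 6961289404) (nat_lit 0) (nat_lit 7326871922) (nat_lit 152) (nat_lit 6961289404) (nat_lit 110) (nat_lit 3) (nat_lit 110) (nat_lit 1) (nat_lit 112) (nat_lit 1) (nat_lit 311) (nat_lit 427) (nat_lit 282)) (XT.lf (nat_lit 76) (nat_lit 6736696405) (nat_lit 0) (nat_lit 7084870231) (nat_lit 76) (nat_lit 7084870231) (nat_lit 110) (nat_lit 3) (nat_lit 109) (nat_lit 1) (nat_lit 110) (nat_lit 1) (nat_lit 312) (nat_lit 427) (nat_lit 281))))) (XT.nd (nat_lit 234) (nat_lit 380) (nat_lit 0) (XT.nd (nat_lit 78) (nat_lit 76) (nat_lit 0) (XT.lf (nat_lit 152) (nat_lit 20360224018) (nat_lit 0) (nat_lit 106965845) (nat_lit 76) (nat_lit 106965845)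 (nat_lit 109) (nat_lit 1) (nat_lit 107) (nat_lit 1) (nat_lit 108) (nat_lit 1) (nat_lit 313) (nat_lit 427) (nat_lit 280)) (XT.nd (nat_lit 78) (nat_lit 76) (nat_lit 0) (XT.lf (nat_lit 0) (nat_lit 6645343100) (nat_lit 0) (nat_lit 6946108741) (nat_lit 152) (nat_lit 6645343100) (nat_lit 107) (nat_lit 3) (nat_lit 107) (nat_lit 1) (nat_lit 109) (nat_lit 1) (nat_lit 314) (nat_lit 427) (nat_lit 279)) (XT.lf (nat_lit 76) (nat_lit 6445759028) (nat_lit 0) (nat_lit 6732202496) (nat_lit 76) (nat_lit 6732202496) (nat_lit 107) (nat_lit 3) (nat_lit 106) (nat_lit 1) (nat_lit 107) (nat_lit 1) (nat_lit 315) (nat_lit 427) (nat_lit 278)))) (XT.nd (nat_lit 156) (nat_lit 228) (nat_lit 0) (XT.nd (nat_lit 78) (nat_lit 0) (nat_lit 0) (XT.lf (nat_lit 152) (nat_lit 19417771345) (nat_lit 0) (nat_lit 88001065) (nat_lit 76) (nat_lit 88001065) (nat_lit 106) (nat_lit 1) (nat_lit 104) (nat_lit 1) (nat_lit 105) (nat_lit 1) (nat_lit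 316) (nat_lit 427) (nat_lit 277)) (XT.lf (nat_lit 0) (nat_lit 6341686003) (nat_lit 0) (nat_lit 6589126641) (nat_lit 152) (nat_lit 6341686003) (nat_lit 104) (nat_lit 3) (nat_lit 104) (nat_lit 1) (nat_lit 106) (nat_lit 1) (nat_lit 317) (nat_lit 427) (nat_lit 276))) (XT.nd (nat_lit 78) (nat_lit 152) (nat_lit 0) (XT.lf (nat_lit 76) (nat_lit 6163382116) (nat_lit 0) (nat_lit 6399039866) (nat_lit 76) (nat_lit 6399039866) (nat_lit 104) (nat_lit 3) (nat_lit 103) (nat_lit 1) (nat_lit 104) (nat_lit 1) (nat_lit 318) (nat_lit 427) (nat_lit 275)) (XT.lf (nat_lit 152) (nat_lit 18515395834) (nat_lit 0) (nat_lit 72398694) (nat_lit 76) (nat_lit 72398694) (nat_lit 103) (nat_lit 1) (nat_lit 101) (nat_lit 1) (nat_lit 102) (nat_lit 1) (nat_lit 319) (nat_lit 427) (nat_lit 274))))))) (XT.nd (nat_lit 1014) (nat_lit 988) (nat_lit 0) (XT.nd (nat_lit 468) (nat_lit 456) (nat_lit 0) (XT.nd (nat_lit 234) (nat_lit 228) (nat_lit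 0) (XT.nd (nat_lit 78) (nat_lit 228) (nat_lit 0) (XT.lf (nat_lit 0) (nat_lit 6050221521) (nat_lit 0) (nat_lit 6253791546) (nat_lit 152) (nat_lit 6050221521) (nat_lit 101) (nat_lit 3) (nat_lit 101) (nat_lit 1) (nat_lit 103) (nat_lit 1) (nat_lit 320) (nat_lit 427) (nat_lit 273)) (XT.nd (nat_lit 78) (nat_lit 152) (nat_lit 0) (XT.lf (nat_lit 76) (nat_lit 5890096589) (nat_lit 0) (nat_lit 6083972803) (nat_lit 76) (nat_lit 6083972803) (nat_lit 101) (nat_lit 3) (nat_lit 100) (nat_lit 1) (nat_lit 101) (nat_lit 1) (nat_lit 321) (nat_lit 427) (nat_lit 272)) (XT.lf (nat_lit 152) (nat_lit 17652040349) (nat_lit 0) (nat_lit 59562585) (nat_lit 76) (nat_lit 59562585) (nat_lit 100) (nat_lit 1) (nat_lit 98) (nat_lit 1) (nat_lit 99) (nat_lit 1) (nat_lit 322) (nat_lit 427) (nat_lit 271)))) (XT.nd (nat_lit 78) (nat_lit 228) (nat_lit 0) (XT.lf (nat_lit 0) (nat_lit 5770771030) (nat_lit 0) (nat_lit 5938248593) (nat_lit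 152) (nat_lit 5770771030) (nat_lit 98) (nat_lit 3) (nat_lit 98) (nat_lit 1) (nat_lit 100) (nat_lit 1) (nat_lit 323) (nat_lit 427) (nat_lit 270)) (XT.nd (nat_lit 78) (nat_lit 152) (nat_lit 0) (XT.lf (nat_lit 76) (nat_lit 5626241677) (nat_lit 0) (nat_lit 5785744119) (nat_lit 76) (nat_lit 5785744119) (nat_lit 98) (nat_lit 3) (nat_lit 97) (nat_lit 1) (nat_lit 98) (nat_lit 1) (nat_lit 324) (nat_lit 427) (nat_lit 269)) (XT.lf (nat_lit 152) (nat_lit 16826547161) (nat_lit 0) (nat_lit 49002286) (nat_lit 76) (nat_lit 49002286) (nat_lit 97) (nat_lit 1) (nat_lit 95) (nat_lit 1) (nat_lit 96) (nat_lit 1) (nat_lit 325) (nat_lit 427) (nat_lit 268))))) (XT.nd (nat_lit 234) (nat_lit 228) (nat_lit 0) (XT.nd (nat_lit 78) (nat_lit 228) (nat_lit 0) (XT.lf (nat_lit 0) (nat_lit 5503093142) (nat_lit 0) (nat_lit 5640877348) (nat_lit 152) (nat_lit 5503093142) (nat_lit 95) (nat_lit 3) (nat_lit 95) (nat_lit 1) (nat_lit 97)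 (nat_lit 1) (nat_lit 326) (nat_lit 427) (nat_lit 267)) (XT.nd (nat_lit 78) (nat_lit 152) (nat_lit 0) (XT.lf (nat_lit 76) (nat_lit 5372003558) (nat_lit 0) (nat_lit 5503226611) (nat_lit 76) (nat_lit 5503226611) (nat_lit 95) (nat_lit 3) (nat_lit 94) (nat_lit 1) (nat_lit 95) (nat_lit 1) (nat_lit 327) (nat_lit 427) (nat_lit 266)) (XT.lf (nat_lit 152) (nat_lit 16037689497) (nat_lit 0) (nat_lit 40314302) (nat_lit 76) (nat_lit 40314302) (nat_lit 94) (nat_lit 1) (nat_lit 92) (nat_lit 1) (nat_lit 93) (nat_lit 1) (nat_lit 328) (nat_lit 427) (nat_lit 265)))) (XT.nd (nat_lit 156) (nat_lit 152) (nat_lit 0) (XT.nd (nat_lit 78) (nat_lit 76) (nat_lit 0) (XT.lf (nat_lit 0) (nat_lit 5246899332) (nat_lit 0) (nat_lit 5360254740) (nat_lit 152) (nat_lit 5246899332) (nat_lit 92) (nat_lit 3) (nat_lit 92) (nat_lit 1) (nat_lit 94) (nat_lit 1) (nat_lit 329) (nat_lit 427) (nat_lit 264)) (XT.lf (nat_lit 76) (nat_lit 5127446914)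 (nat_lit 0) (nat_lit 5235404445) (nat_lit 76) (nat_lit 5235404445) (nat_lit 92) (nat_lit 3) (nat_lit 91) (nat_lit 1) (nat_lit 92) (nat_lit 1) (nat_lit 330) (nat_lit 427) (nat_lit 263))) (XT.nd (nat_lit 78) (nat_lit 0) (nat_lit 0) (XT.lf (nat_lit 152) (nat_lit 15284196844) (nat_lit 0) (nat_lit 33166676) (nat_lit 76) (nat_lit 33166676) (nat_lit 91) (nat_lit 1) (nat_lit 89) (nat_lit 1) (nat_lit 90) (nat_lit 1) (nat_lit 331) (nat_lit 427) (nat_lit 262)) (XT.lf (nat_lit 0) (nat_lit 5001866576) (nat_lit 0) (nat_lit 5095124350) (nat_lit 152) (nat_lit 5001866576) (nat_lit 89) (nat_lit 3) (nat_lit 89) (nat_lit 1) (nat_lit 91) (nat_lit 1) (nat_lit 332) (nat_lit 427) (nat_lit 261)))))) (XT.nd (nat_lit 468) (nat_lit 532) (nat_lit 0) (XT.nd (nat_lit 234) (nat_lit 228) (nat_lit 0) (XT.nd (nat_lit 78) (nat_lit 152) (nat_lit 0) (XT.lf (nat_lit 76) (nat_lit 4892540686) (nat_lit 0) (nat_lit 4981357614) (nat_lit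 76) (nat_lit 4981357614) (nat_lit 89) (nat_lit 3) (nat_lit 88) (nat_lit 1) (nat_lit 89) (nat_lit 1) (nat_lit 333) (nat_lit 427) (nat_lit 260)) (XT.nd (nat_lit 78) (nat_lit 0) (nat_lit 0) (XT.lf (nat_lit 152) (nat_lit 14564775145) (nat_lit 0) (nat_lit 27286306) (nat_lit 76) (nat_lit 27286306) (nat_lit 88) (nat_lit 1) (nat_lit 86) (nat_lit 1) (nat_lit 87) (nat_lit 1) (nat_lit 334) (nat_lit 427) (nat_lit 259)) (XT.lf (nat_lit 0) (nat_lit 4767647543) (nat_lit 0) (nat_lit 4844370945) (nat_lit 152) (nat_lit 4767647543) (nat_lit 86) (nat_lit 3) (nat_lit 86) (nat_lit 1) (nat_lit 88) (nat_lit 1) (nat_lit 335) (nat_lit 427) (nat_lit 258)))) (XT.nd (nat_lit 78) (nat_lit 152) (nat_lit 0) (XT.lf (nat_lit 76) (nat_lit 4667179065) (nat_lit 0) (nat_lit 4740248971) (nat_lit 76) (nat_lit 4740248971) (nat_lit 86) (nat_lit 3) (nat_lit 85) (nat_lit 1) (nat_lit 86) (nat_lit 1) (nat_lit 336) (nat_lit 427) (nat_lit 257))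 (XT.nd (nat_lit 78) (nat_lit 0) (nat_lit 0) (XT.lf (nat_lit 152) (nat_lit 13878122820) (nat_lit 0) (nat_lit 22448511) (nat_lit 76) (nat_lit 22448511) (nat_lit 85) (nat_lit 1) (nat_lit 83) (nat_lit 1) (nat_lit 84) (nat_lit 1) (nat_lit 337) (nat_lit 427) (nat_lit 256)) (XT.lf (nat_lit 0) (nat_lit 4543878798) (nat_lit 0) (nat_lit 4606999330) (nat_lit 152) (nat_lit 4543878798) (nat_lit 83) (nat_lit 3) (nat_lit 83) (nat_lit 1) (nat_lit 85) (nat_lit 1) (nat_lit 338) (nat_lit 427) (nat_lit 255))))) (XT.nd (nat_lit 234) (nat_lit 304) (nat_lit 0) (XT.nd (nat_lit 78) (nat_lit 152) (nat_lit 0) (XT.lf (nat_lit 76) (nat_lit 4451198562) (nat_lit 0) (nat_lit 4511313354) (nat_lit 76) (nat_lit 4511313354) (nat_lit 83) (nat_lit 3) (nat_lit 82) (nat_lit 1) (nat_lit 83) (nat_lit 1) (nat_lit 339) (nat_lit 427) (nat_lit 254)) (XT.nd (nat_lit 78) (nat_lit 0) (nat_lit 0) (XT.lf (nat_lit 152) (nat_lit 13222943383) (nat_lit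 0) (nat_lit 18468446) (nat_lit 76) (nat_lit 18468446) (nat_lit 82) (nat_lit 1) (nat_lit 80) (nat_lit 1) (nat_lit 81) (nat_lit 1) (nat_lit 340) (nat_lit 427) (nat_lit 253)) (XT.lf (nat_lit 0) (nat_lit 4330187346) (nat_lit 0) (nat_lit 4382116764) (nat_lit 152) (nat_lit 4330187346) (nat_lit 80) (nat_lit 3) (nat_lit 80) (nat_lit 1) (nat_lit 82) (nat_lit 1) (nat_lit 341) (nat_lit 427) (nat_lit 252)))) (XT.nd (nat_lit 156) (nat_lit 76) (nat_lit 0) (XT.nd (nat_lit 78) (nat_lit 152) (nat_lit 0) (XT.lf (nat_lit 76) (nat_lit 4244391877) (nat_lit 0) (nat_lit 4293848465) (nat_lit 76) (nat_lit 4293848465) (nat_lit 80) (nat_lit 3) (nat_lit 79) (nat_lit 1) (nat_lit 80) (nat_lit 1) (nat_lit 342) (nat_lit 427) (nat_lit 251)) (XT.lf (nat_lit 152) (nat_lit 12597955286) (nat_lit 0) (nat_lit 15194036) (nat_lit 76) (nat_lit 15194036) (nat_lit 79) (nat_lit 1) (nat_lit 77) (nat_lit 1) (nat_lit 78) (nat_lit 1) (nat_lit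 343) (nat_lit 427) (nat_lit 250))) (XT.nd (nat_lit 78) (nat_lit 76) (nat_lit 0) (XT.lf (nat_lit 0) (nat_lit 4126195860) (nat_lit 0) (nat_lit 4168918320) (nat_lit 152) (nat_lit 4126195860) (nat_lit 77) (nat_lit 3) (nat_lit 77) (nat_lit 1) (nat_lit 79) (nat_lit 1) (nat_lit 344) (nat_lit 427) (nat_lit 249)) (XT.lf (nat_lit 76) (nat_lit 4046519134) (nat_lit 0) (nat_lit 4087207191) (nat_lit 76) (nat_lit 4087207191) (nat_lit 77) (nat_lit 3) (nat_lit 76) (nat_lit 1) (nat_lit 77) (nat_lit 1) (nat_lit 345) (nat_lit 427) (nat_lit 248))))))))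
noncomputable def ec392 : XT := (XT.nd (nat_lit 1950) (nat_lit 1824) (nat_lit 0) (XT.nd (nat_lit 936) (nat_lit 1064) (nat_lit 0) (XT.nd (nat_lit 468) (nat_lit 456) (nat_lit 0) (XT.nd (nat_lit 234) (nat_lit 228) (nat_lit 0) (XT.nd (nat_lit 78) (nat_lit 76) (nat_lit 0) (XT.lf (nat_lit 152) (nat_lit 12001899507) (nat_lit 0) (nat_lit 12500171) (nat_lit 76) (nat_lit 12500171) (nat_lit 76) (nat_lit 1) (nat_lit 74) (nat_lit 1) (nat_lit 75) (nat_lit 1) (nat_lit 346) (nat_lit 427) (nat_lit 247)) (XT.nd (nat_lit 78) (nat_lit 76) (nat_lit 0) (XT.lf (nat_lit 0) (nat_lit 3931526796) (nat_lit 0) (nat_lit 3966674670) (nat_lit 152) (nat_lit 3931526796) (nat_lit 74) (nat_lit 3) (nat_lit 74) (nat_lit 1) (nat_lit 76) (nat_lit 1) (nat_lit 347) (nat_lit 427) (nat_lit 246)) (XT.lf (nat_lit 76) (nat_lit 3857316956) (nat_lit 0) (nat_lit 3890791122) (nat_lit 76) (nat_lit 3890791122) (nat_lit 74) (nat_lit 3) (nat_lit 73)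 (nat_lit 1) (nat_lit 74) (nat_lit 1) (nat_lit 348) (nat_lit 427) (nat_lit 245)))) (XT.nd (nat_lit 78) (nat_lit 76) (nat_lit 0) (XT.lf (nat_lit 152) (nat_lit 11433545299) (nat_lit 0) (nat_lit 10283921) (nat_lit 76) (nat_lit 10283921) (nat_lit 73) (nat_lit 1) (nat_lit 71) (nat_lit 1) (nat_lit 72) (nat_lit 1) (nat_lit 349) (nat_lit 427) (nat_lit 244)) (XT.nd (nat_lit 78) (nat_lit 76) (nat_lit 0) (XT.lf (nat_lit 0) (nat_lit 3745805635) (nat_lit 0) (nat_lit 3774721878) (nat_lit 152) (nat_lit 3745805635) (nat_lit 71) (nat_lit 3) (nat_lit 71) (nat_lit 1) (nat_lit 73) (nat_lit 1) (nat_lit 350) (nat_lit 427) (nat_lit 243)) (XT.lf (nat_lit 76) (nat_lit 3676505777) (nat_lit 0) (nat_lit 3704045056) (nat_lit 76) (nat_lit 3704045056) (nat_lit 71) (nat_lit 3) (nat_lit 70) (nat_lit 1) (nat_lit 71) (nat_lit 1) (nat_lit 351) (nat_lit 427) (nat_lit 242))))) (XT.nd (nat_lit 234) (nat_lit 228) (nat_lit 0) (XT.nd (nat_lit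 78) (nat_lit 76) (nat_lit 0) (XT.lf (nat_lit 152) (nat_lit 10891694462) (nat_lit 0) (nat_lit 8460608) (nat_lit 76) (nat_lit 8460608) (nat_lit 70) (nat_lit 1) (nat_lit 68) (nat_lit 1) (nat_lit 69) (nat_lit 1) (nat_lit 352) (nat_lit 427) (nat_lit 241)) (XT.nd (nat_lit 78) (nat_lit 76) (nat_lit 0) (XT.lf (nat_lit 0) (nat_lit 3568663386) (nat_lit 0) (nat_lit 3592452850) (nat_lit 152) (nat_lit 3568663386) (nat_lit 68) (nat_lit 3) (nat_lit 68) (nat_lit 1) (nat_lit 70) (nat_lit 1) (nat_lit 353) (nat_lit 427) (nat_lit 240)) (XT.lf (nat_lit 76) (nat_lit 3503795708) (nat_lit 0) (nat_lit 3526452341) (nat_lit 76) (nat_lit 3526452341) (nat_lit 68) (nat_lit 3) (nat_lit 67) (nat_lit 1) (nat_lit 68) (nat_lit 1) (nat_lit 354) (nat_lit 427) (nat_lit 239)))) (XT.nd (nat_lit 78) (nat_lit 76) (nat_lit 0) (XT.lf (nat_lit 152) (nat_lit 10375184417) (nat_lit 0) (nat_lit 6960563) (nat_lit 76) (nat_lit 6960563) (nat_lit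 67) (nat_lit 1) (nat_lit 65) (nat_lit 1) (nat_lit 66) (nat_lit 1) (nat_lit 355) (nat_lit 427) (nat_lit 238)) (XT.nd (nat_lit 78) (nat_lit 76) (nat_lit 0) (XT.lf (nat_lit 0) (nat_lit 3399738503) (nat_lit 0) (nat_lit 3419310155) (nat_lit 152) (nat_lit 3399738503) (nat_lit 65) (nat_lit 3) (nat_lit 65) (nat_lit 1) (nat_lit 67) (nat_lit 1) (nat_lit 356) (nat_lit 427) (nat_lit 237)) (XT.lf (nat_lit 76) (nat_lit 3338891215) (nat_lit 0) (nat_lit 3357530883) (nat_lit 76) (nat_lit 3357530883) (nat_lit 65) (nat_lit 3) (nat_lit 64) (nat_lit 1) (nat_lit 65) (nat_lit 1) (nat_lit 357) (nat_lit 427) (nat_lit 236)))))) (XT.nd (nat_lit 468) (nat_lit 608) (nat_lit 0) (XT.nd (nat_lit 234) (nat_lit 228) (nat_lit 0) (XT.nd (nat_lit 78) (nat_lit 76) (nat_lit 0) (XT.lf (nat_lit 152) (nat_lit 9882890304) (nat_lit 0) (nat_lit 5726472) (nat_lit 76) (nat_lit 5726472) (nat_lit 64) (nat_lit 1) (nat_lit 62) (nat_lit 1) (nat_lit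 63) (nat_lit 1) (nat_lit 358) (nat_lit 427) (nat_lit 235)) (XT.nd (nat_lit 78) (nat_lit 76) (nat_lit 0) (XT.lf (nat_lit 0) (nat_lit 3238678332) (nat_lit 0) (nat_lit 3254779978) (nat_lit 152) (nat_lit 3238678332) (nat_lit 62) (nat_lit 3) (nat_lit 62) (nat_lit 1) (nat_lit 64) (nat_lit 1) (nat_lit 359) (nat_lit 427) (nat_lit 234)) (XT.lf (nat_lit 76) (nat_lit 3181494842) (nat_lit 0) (nat_lit 3196829744) (nat_lit 76) (nat_lit 3196829744) (nat_lit 62) (nat_lit 3) (nat_lit 61) (nat_lit 1) (nat_lit 62) (nat_lit 1) (nat_lit 360) (nat_lit 427) (nat_lit 233)))) (XT.nd (nat_lit 78) (nat_lit 76) (nat_lit 0) (XT.lf (nat_lit 152) (nat_lit 9413726318) (nat_lit 0) (nat_lit 4711183) (nat_lit 76) (nat_lit 4711183) (nat_lit 61) (nat_lit 1) (nat_lit 59) (nat_lit 1) (nat_lit 60) (nat_lit 1) (nat_lit 361) (nat_lit 427) (nat_lit 232)) (XT.nd (nat_lit 78) (nat_lit 76) (nat_lit 0) (XT.lf (nat_lit 0) (nat_lit 3085140157)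 (nat_lit 0) (nat_lit 3098387021) (nat_lit 152) (nat_lit 3085140157) (nat_lit 59) (nat_lit 3) (nat_lit 59) (nat_lit 1) (nat_lit 61) (nat_lit 1) (nat_lit 362) (nat_lit 427) (nat_lit 231)) (XT.lf (nat_lit 76) (nat_lit 3031310134) (nat_lit 0) (nat_lit 3043926195) (nat_lit 76) (nat_lit 3043926195) (nat_lit 59) (nat_lit 3) (nat_lit 58) (nat_lit 1) (nat_lit 59) (nat_lit 1) (nat_lit 363) (nat_lit 427) (nat_lit 230))))) (XT.nd (nat_lit 234) (nat_lit 380) (nat_lit 0) (XT.nd (nat_lit 78) (nat_lit 76) (nat_lit 0) (XT.lf (nat_lit 152) (nat_lit 8966646422) (nat_lit 0) (nat_lit 3875902) (nat_lit 76) (nat_lit 3875902) (nat_lit 58) (nat_lit 1) (nat_lit 56) (nat_lit 1) (nat_lit 57) (nat_lit 1) (nat_lit 364) (nat_lit 427) (nat_lit 229)) (XT.nd (nat_lit 78) (nat_lit 76) (nat_lit 0) (XT.lf (nat_lit 0) (nat_lit 2938791944) (nat_lit 0) (nat_lit 2949690172) (nat_lit 152) (nat_lit 2938791944) (nat_lit 56) (nat_lit 3) (nat_lit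 56) (nat_lit 1) (nat_lit 58) (nat_lit 1) (nat_lit 365) (nat_lit 427) (nat_lit 228)) (XT.lf (nat_lit 76) (nat_lit 2888043925) (nat_lit 0) (nat_lit 2898423189) (nat_lit 76) (nat_lit 2898423189) (nat_lit 56) (nat_lit 3) (nat_lit 55) (nat_lit 1) (nat_lit 56) (nat_lit 1) (nat_lit 366) (nat_lit 427) (nat_lit 227)))) (XT.nd (nat_lit 156) (nat_lit 228) (nat_lit 0) (XT.nd (nat_lit 78) (nat_lit 0) (nat_lit 0) (XT.lf (nat_lit 152) (nat_lit 8540644567) (nat_lit 0) (nat_lit 3188714) (nat_lit 76) (nat_lit 3188714) (nat_lit 55) (nat_lit 1) (nat_lit 53) (nat_lit 1) (nat_lit 54) (nat_lit 1) (nat_lit 367) (nat_lit 427) (nat_lit 226)) (XT.lf (nat_lit 0) (nat_lit 2799312837) (nat_lit 0) (nat_lit 2808278836) (nat_lit 152) (nat_lit 2799312837) (nat_lit 53) (nat_lit 3) (nat_lit 53) (nat_lit 1) (nat_lit 55) (nat_lit 1) (nat_lit 368) (nat_lit 427) (nat_lit 225))) (XT.nd (nat_lit 78) (nat_lit 152) (nat_lit 0) (XT.lf (nat_lit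 76) (nat_lit 2751408098) (nat_lit 0) (nat_lit 2759947145) (nat_lit 76) (nat_lit 2759947145) (nat_lit 53) (nat_lit 3) (nat_lit 52) (nat_lit 1) (nat_lit 53) (nat_lit 1) (nat_lit 369) (nat_lit 427) (nat_lit 224)) (XT.lf (nat_lit 152) (nat_lit 8134754531) (nat_lit 0) (nat_lit 2623363) (nat_lit 76) (nat_lit 2623363) (nat_lit 52) (nat_lit 1) (nat_lit 50) (nat_lit 1) (nat_lit 51) (nat_lit 1) (nat_lit 370) (nat_lit 427) (nat_lit 223))))))) (XT.nd (nat_lit 936) (nat_lit 912) (nat_lit 0) (XT.nd (nat_lit 468) (nat_lit 456) (nat_lit 0) (XT.nd (nat_lit 234) (nat_lit 228) (nat_lit 0) (XT.nd (nat_lit 78) (nat_lit 228) (nat_lit 0) (XT.lf (nat_lit 0) (nat_lit 2666393438) (nat_lit 0) (nat_lit 2673769787) (nat_lit 152) (nat_lit 2666393438) (nat_lit 50) (nat_lit 3) (nat_lit 50) (nat_lit 1) (nat_lit 52) (nat_lit 1) (nat_lit 371) (nat_lit 427) (nat_lit 222)) (XT.nd (nat_lit 78) (nat_lit 152) (nat_lit 0) (XT.lf (nat_lit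 76) (nat_lit 2621120932) (nat_lit 0) (nat_lit 2628146027) (nat_lit 76) (nat_lit 2628146027) (nat_lit 50) (nat_lit 3) (nat_lit 49) (nat_lit 1) (nat_lit 50) (nat_lit 1) (nat_lit 372) (nat_lit 427) (nat_lit 221)) (XT.lf (nat_lit 152) (nat_lit 7748049456) (nat_lit 0) (nat_lit 2158247) (nat_lit 76) (nat_lit 2158247) (nat_lit 49) (nat_lit 1) (nat_lit 47) (nat_lit 1) (nat_lit 48) (nat_lit 1) (nat_lit 373) (nat_lit 427) (nat_lit 220)))) (XT.nd (nat_lit 78) (nat_lit 228) (nat_lit 0) (XT.lf (nat_lit 0) (nat_lit 2539735946) (nat_lit 0) (nat_lit 2545804487) (nat_lit 152) (nat_lit 2539735946) (nat_lit 47) (nat_lit 3) (nat_lit 47) (nat_lit 1) (nat_lit 49) (nat_lit 1) (nat_lit 374) (nat_lit 427) (nat_lit 219)) (XT.nd (nat_lit 78) (nat_lit 152) (nat_lit 0) (XT.lf (nat_lit 76) (nat_lit 2496908088) (nat_lit 0) (nat_lit 2502687650) (nat_lit 76) (nat_lit 2502687650) (nat_lit 47) (nat_lit 3) (nat_lit 46) (nat_lit 1)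 (nat_lit 47) (nat_lit 1) (nat_lit 375) (nat_lit 427) (nat_lit 218)) (XT.lf (nat_lit 152) (nat_lit 7379641148) (nat_lit 0) (nat_lit 1775595) (nat_lit 76) (nat_lit 1775595) (nat_lit 46) (nat_lit 1) (nat_lit 44) (nat_lit 1) (nat_lit 45) (nat_lit 1) (nat_lit 376) (nat_lit 427) (nat_lit 217))))) (XT.nd (nat_lit 234) (nat_lit 228) (nat_lit 0) (XT.nd (nat_lit 78) (nat_lit 228) (nat_lit 0) (XT.lf (nat_lit 0) (nat_lit 2419054158) (nat_lit 0) (nat_lit 2424046762) (nat_lit 152) (nat_lit 2419054158) (nat_lit 44) (nat_lit 3) (nat_lit 44) (nat_lit 1) (nat_lit 46) (nat_lit 1) (nat_lit 377) (nat_lit 427) (nat_lit 216)) (XT.nd (nat_lit 78) (nat_lit 152) (nat_lit 0) (XT.lf (nat_lit 76) (nat_lit 2378503330) (nat_lit 0) (nat_lit 2383258190) (nat_lit 76) (nat_lit 2383258190) (nat_lit 44) (nat_lit 3) (nat_lit 43) (nat_lit 1) (nat_lit 44) (nat_lit 1) (nat_lit 378) (nat_lit 427) (nat_lit 215)) (XT.lf (nat_lit 152) (nat_lit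 7028679214) (nat_lit 0) (nat_lit 1460786) (nat_lit 76) (nat_lit 1460786) (nat_lit 43) (nat_lit 1) (nat_lit 41) (nat_lit 1) (nat_lit 42) (nat_lit 1) (nat_lit 379) (nat_lit 427) (nat_lit 214)))) (XT.nd (nat_lit 78) (nat_lit 228) (nat_lit 0) (XT.lf (nat_lit 0) (nat_lit 2304073376) (nat_lit 0) (nat_lit 2308180804) (nat_lit 152) (nat_lit 2304073376) (nat_lit 41) (nat_lit 3) (nat_lit 41) (nat_lit 1) (nat_lit 43) (nat_lit 1) (nat_lit 380) (nat_lit 427) (nat_lit 213)) (XT.nd (nat_lit 78) (nat_lit 152) (nat_lit 0) (XT.lf (nat_lit 76) (nat_lit 2265649020) (nat_lit 0) (nat_lit 2269560856) (nat_lit 76) (nat_lit 2269560856) (nat_lit 41) (nat_lit 3) (nat_lit 40) (nat_lit 1) (nat_lit 41) (nat_lit 1) (nat_lit 381) (nat_lit 427) (nat_lit 212)) (XT.lf (nat_lit 152) (nat_lit 6694350048) (nat_lit 0) (nat_lit 1201792) (nat_lit 76) (nat_lit 1201792) (nat_lit 40) (nat_lit 1) (nat_lit 38) (nat_lit 1) (nat_lit 39) (nat_lit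 1) (nat_lit 382) (nat_lit 427) (nat_lit 211)))))) (XT.nd (nat_lit 468) (nat_lit 456) (nat_lit 0) (XT.nd (nat_lit 234) (nat_lit 228) (nat_lit 0) (XT.nd (nat_lit 78) (nat_lit 228) (nat_lit 0) (XT.lf (nat_lit 0) (nat_lit 2194530234) (nat_lit 0) (nat_lit 2197909425) (nat_lit 152) (nat_lit 2194530234) (nat_lit 38) (nat_lit 3) (nat_lit 38) (nat_lit 1) (nat_lit 40) (nat_lit 1) (nat_lit 383) (nat_lit 427) (nat_lit 210)) (XT.nd (nat_lit 78) (nat_lit 152) (nat_lit 0) (XT.lf (nat_lit 76) (nat_lit 2158096431) (nat_lit 0) (nat_lit 2161314708) (nat_lit 76) (nat_lit 2161314708) (nat_lit 38) (nat_lit 3) (nat_lit 37) (nat_lit 1) (nat_lit 38) (nat_lit 1) (nat_lit 384) (nat_lit 427) (nat_lit 209)) (XT.lf (nat_lit 152) (nat_lit 6375875746) (nat_lit 0) (nat_lit 988717) (nat_lit 76) (nat_lit 988717) (nat_lit 37) (nat_lit 1) (nat_lit 35) (nat_lit 1) (nat_lit 36) (nat_lit 1) (nat_lit 385) (nat_lit 427) (nat_lit 208))))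 (XT.nd (nat_lit 78) (nat_lit 228) (nat_lit 0) (XT.lf (nat_lit 0) (nat_lit 2090172469) (nat_lit 0) (nat_lit 2092952538) (nat_lit 152) (nat_lit 2090172469) (nat_lit 35) (nat_lit 3) (nat_lit 35) (nat_lit 1) (nat_lit 37) (nat_lit 1) (nat_lit 386) (nat_lit 427) (nat_lit 207)) (XT.nd (nat_lit 78) (nat_lit 152) (nat_lit 0) (XT.lf (nat_lit 76) (nat_lit 2055605918) (nat_lit 0) (nat_lit 2058253603) (nat_lit 76) (nat_lit 2058253603) (nat_lit 35) (nat_lit 3) (nat_lit 34) (nat_lit 1) (nat_lit 35) (nat_lit 1) (nat_lit 387) (nat_lit 427) (nat_lit 206)) (XT.lf (nat_lit 152) (nat_lit 6072512941) (nat_lit 0) (nat_lit 813420) (nat_lit 76) (nat_lit 813420) (nat_lit 34) (nat_lit 1) (nat_lit 32) (nat_lit 1) (nat_lit 33) (nat_lit 1) (nat_lit 388) (nat_lit 427) (nat_lit 205))))) (XT.nd (nat_lit 234) (nat_lit 228) (nat_lit 0) (XT.nd (nat_lit 78) (nat_lit 228) (nat_lit 0) (XT.lf (nat_lit 0) (nat_lit 1990758648) (nat_lit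 0) (nat_lit 1993045818) (nat_lit 152) (nat_lit 1990758648) (nat_lit 32) (nat_lit 3) (nat_lit 32) (nat_lit 1) (nat_lit 34) (nat_lit 1) (nat_lit 389) (nat_lit 427) (nat_lit 204)) (XT.nd (nat_lit 78) (nat_lit 152) (nat_lit 0) (XT.lf (nat_lit 76) (nat_lit 1957946975) (nat_lit 0) (nat_lit 1960125231) (nat_lit 76) (nat_lit 1960125231) (nat_lit 32) (nat_lit 3) (nat_lit 31) (nat_lit 1) (nat_lit 32) (nat_lit 1) (nat_lit 390) (nat_lit 427) (nat_lit 203)) (XT.lf (nat_lit 152) (nat_lit 5783551601) (nat_lit 0) (nat_lit 669203) (nat_lit 76) (nat_lit 669203) (nat_lit 31) (nat_lit 1) (nat_lit 29) (nat_lit 1) (nat_lit 30) (nat_lit 1) (nat_lit 391) (nat_lit 427) (nat_lit 202)))) (XT.nd (nat_lit 156) (nat_lit 152) (nat_lit 0) (XT.nd (nat_lit 78) (nat_lit 76) (nat_lit 0) (XT.lf (nat_lit 0) (nat_lit 1896057862) (nat_lit 0) (nat_lit 1897939522) (nat_lit 152) (nat_lit 1896057862) (nat_lit 29) (nat_lit 3) (nat_lit 29)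 (nat_lit 1) (nat_lit 31) (nat_lit 1) (nat_lit 392) (nat_lit 427) (nat_lit 201)) (XT.lf (nat_lit 76) (nat_lit 1864898201) (nat_lit 0) (nat_lit 1866690258) (nat_lit 76) (nat_lit 1866690258) (nat_lit 29) (nat_lit 3) (nat_lit 28) (nat_lit 1) (nat_lit 29) (nat_lit 1) (nat_lit 393) (nat_lit 427) (nat_lit 200))) (XT.nd (nat_lit 78) (nat_lit 0) (nat_lit 0) (XT.lf (nat_lit 152) (nat_lit 5508313812) (nat_lit 0) (nat_lit 550555) (nat_lit 76) (nat_lit 550555) (nat_lit 28) (nat_lit 1) (nat_lit 26) (nat_lit 1) (nat_lit 27) (nat_lit 1) (nat_lit 394) (nat_lit 427) (nat_lit 199)) (XT.lf (nat_lit 0) (nat_lit 1805849396) (nat_lit 0) (nat_lit 1807397442) (nat_lit 152) (nat_lit 1805849396) (nat_lit 26) (nat_lit 3) (nat_lit 26) (nat_lit 1) (nat_lit 28) (nat_lit 1) (nat_lit 395) (nat_lit 427) (nat_lit 198))))))))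
noncomputable def ec393 : XT := (XT.nd (nat_lit 1950) (nat_lit 76) (nat_lit 0) (XT.nd (nat_lit 936) (nat_lit 988) (nat_lit 0) (XT.nd (nat_lit 468) (nat_lit 456) (nat_lit 0) (XT.nd (nat_lit 234) (nat_lit 228) (nat_lit 0) (XT.nd (nat_lit 78) (nat_lit 152) (nat_lit 0) (XT.lf (nat_lit 76) (nat_lit 1776247203) (nat_lit 0) (nat_lit 1777721532) (nat_lit 76) (nat_lit 1777721532) (nat_lit 26) (nat_lit 3) (nat_lit 25) (nat_lit 1) (nat_lit 26) (nat_lit 1) (nat_lit 396) (nat_lit 427) (nat_lit 197)) (XT.nd (nat_lit 78) (nat_lit 0) (nat_lit 0) (XT.lf (nat_lit 152) (nat_lit 5246152545) (nat_lit 0) (nat_lit 452943) (nat_lit 76) (nat_lit 452943) (nat_lit 25) (nat_lit 1) (nat_lit 23) (nat_lit 1) (nat_lit 24) (nat_lit 1) (nat_lit 397) (nat_lit 427) (nat_lit 196)) (XT.lf (nat_lit 0) (nat_lit 1719922387) (nat_lit 0) (nat_lit 1721195968) (nat_lit 152) (nat_lit 1719922387) (nat_lit 23) (nat_lit 3) (nat_lit 23) (nat_lit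 1) (nat_lit 25) (nat_lit 1) (nat_lit 398) (nat_lit 427) (nat_lit 195)))) (XT.nd (nat_lit 78) (nat_lit 152) (nat_lit 0) (XT.lf (nat_lit 76) (nat_lit 1691790434) (nat_lit 0) (nat_lit 1693003369) (nat_lit 76) (nat_lit 1693003369) (nat_lit 23) (nat_lit 3) (nat_lit 22) (nat_lit 1) (nat_lit 23) (nat_lit 1) (nat_lit 399) (nat_lit 427) (nat_lit 194)) (XT.nd (nat_lit 78) (nat_lit 0) (nat_lit 0) (XT.lf (nat_lit 152) (nat_lit 4996450434) (nat_lit 0) (nat_lit 372637) (nat_lit 76) (nat_lit 372637) (nat_lit 22) (nat_lit 1) (nat_lit 20) (nat_lit 1) (nat_lit 21) (nat_lit 1) (nat_lit 400) (nat_lit 427) (nat_lit 193)) (XT.lf (nat_lit 0) (nat_lit 1638075470) (nat_lit 0) (nat_lit 1639123249) (nat_lit 152) (nat_lit 1638075470) (nat_lit 20) (nat_lit 3) (nat_lit 20) (nat_lit 1) (nat_lit 22) (nat_lit 1) (nat_lit 401) (nat_lit 427) (nat_lit 192))))) (XT.nd (nat_lit 234) (nat_lit 228) (nat_lit 0) (XT.nd (nat_lit 78) (nat_lit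 152) (nat_lit 0) (XT.lf (nat_lit 76) (nat_lit 1611333000) (nat_lit 0) (nat_lit 1612330884) (nat_lit 76) (nat_lit 1612330884) (nat_lit 20) (nat_lit 3) (nat_lit 19) (nat_lit 1) (nat_lit 20) (nat_lit 1) (nat_lit 402) (nat_lit 427) (nat_lit 191)) (XT.nd (nat_lit 78) (nat_lit 0) (nat_lit 0) (XT.lf (nat_lit 152) (nat_lit 4758618568) (nat_lit 0) (nat_lit 306569) (nat_lit 76) (nat_lit 306569) (nat_lit 19) (nat_lit 1) (nat_lit 17) (nat_lit 1) (nat_lit 18) (nat_lit 1) (nat_lit 403) (nat_lit 427) (nat_lit 190)) (XT.lf (nat_lit 0) (nat_lit 1560116425) (nat_lit 0) (nat_lit 1560978436) (nat_lit 152) (nat_lit 1560116425) (nat_lit 17) (nat_lit 3) (nat_lit 17) (nat_lit 1) (nat_lit 19) (nat_lit 1) (nat_lit 404) (nat_lit 427) (nat_lit 189)))) (XT.nd (nat_lit 78) (nat_lit 152) (nat_lit 0) (XT.lf (nat_lit 76) (nat_lit 1534688431) (nat_lit 0) (nat_lit 1535509393) (nat_lit 76) (nat_lit 1535509393) (nat_lit 17) (nat_lit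 3) (nat_lit 16) (nat_lit 1) (nat_lit 17) (nat_lit 1) (nat_lit 405) (nat_lit 427) (nat_lit 188)) (XT.nd (nat_lit 78) (nat_lit 0) (nat_lit 0) (XT.lf (nat_lit 152) (nat_lit 4532095302) (nat_lit 0) (nat_lit 252215) (nat_lit 76) (nat_lit 252215) (nat_lit 16) (nat_lit 1) (nat_lit 14) (nat_lit 1) (nat_lit 15) (nat_lit 1) (nat_lit 406) (nat_lit 427) (nat_lit 187)) (XT.lf (nat_lit 0) (nat_lit 1485861818) (nat_lit 0) (nat_lit 1486570995) (nat_lit 152) (nat_lit 1485861818) (nat_lit 14) (nat_lit 3) (nat_lit 14) (nat_lit 1) (nat_lit 16) (nat_lit 1) (nat_lit 407) (nat_lit 427) (nat_lit 186)))))) (XT.nd (nat_lit 468) (nat_lit 532) (nat_lit 0) (XT.nd (nat_lit 234) (nat_lit 228) (nat_lit 0) (XT.nd (nat_lit 78) (nat_lit 152) (nat_lit 0) (XT.lf (nat_lit 76) (nat_lit 1461678431) (nat_lit 0) (nat_lit 1462353838) (nat_lit 76) (nat_lit 1462353838) (nat_lit 14) (nat_lit 3) (nat_lit 13) (nat_lit 1) (nat_lit 14) (nat_lit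 1) (nat_lit 408) (nat_lit 427) (nat_lit 185)) (XT.nd (nat_lit 78) (nat_lit 0) (nat_lit 0) (XT.lf (nat_lit 152) (nat_lit 4316345096) (nat_lit 0) (nat_lit 207498) (nat_lit 76) (nat_lit 207498) (nat_lit 13) (nat_lit 1) (nat_lit 11) (nat_lit 1) (nat_lit 12) (nat_lit 1) (nat_lit 409) (nat_lit 427) (nat_lit 184)) (XT.lf (nat_lit 0) (nat_lit 1415136645) (nat_lit 0) (nat_lit 1415720088) (nat_lit 152) (nat_lit 1415136645) (nat_lit 11) (nat_lit 3) (nat_lit 11) (nat_lit 1) (nat_lit 13) (nat_lit 1) (nat_lit 410) (nat_lit 427) (nat_lit 183)))) (XT.nd (nat_lit 78) (nat_lit 152) (nat_lit 0) (XT.lf (nat_lit 76) (nat_lit 1392132616) (nat_lit 0) (nat_lit 1392688275) (nat_lit 76) (nat_lit 1392688275) (nat_lit 11) (nat_lit 3) (nat_lit 10) (nat_lit 1) (nat_lit 11) (nat_lit 1) (nat_lit 411) (nat_lit 427) (nat_lit 182)) (XT.nd (nat_lit 78) (nat_lit 0) (nat_lit 0) (XT.lf (nat_lit 152) (nat_lit 4110857388) (nat_lit 0)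 (nat_lit 170709) (nat_lit 76) (nat_lit 170709) (nat_lit 10) (nat_lit 1) (nat_lit 8) (nat_lit 1) (nat_lit 9) (nat_lit 1) (nat_lit 412) (nat_lit 427) (nat_lit 181)) (XT.lf (nat_lit 0) (nat_lit 1347773993) (nat_lit 0) (nat_lit 1348253992) (nat_lit 152) (nat_lit 1347773993) (nat_lit 8) (nat_lit 3) (nat_lit 8) (nat_lit 1) (nat_lit 10) (nat_lit 1) (nat_lit 413) (nat_lit 427) (nat_lit 180))))) (XT.nd (nat_lit 234) (nat_lit 304) (nat_lit 0) (XT.nd (nat_lit 78) (nat_lit 152) (nat_lit 0) (XT.lf (nat_lit 76) (nat_lit 1325888237) (nat_lit 0) (nat_lit 1326345379) (nat_lit 76) (nat_lit 1326345379) (nat_lit 8) (nat_lit 3) (nat_lit 7) (nat_lit 1) (nat_lit 8) (nat_lit 1) (nat_lit 414) (nat_lit 427) (nat_lit 179)) (XT.nd (nat_lit 78) (nat_lit 0) (nat_lit 0) (XT.lf (nat_lit 152) (nat_lit 3915145495) (nat_lit 0) (nat_lit 140443) (nat_lit 76) (nat_lit 140443) (nat_lit 7) (nat_lit 1) (nat_lit 5) (nat_lit 1) (nat_lit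 6) (nat_lit 1) (nat_lit 415) (nat_lit 427) (nat_lit 178)) (XT.lf (nat_lit 0) (nat_lit 1283614687) (nat_lit 0) (nat_lit 1284009584) (nat_lit 152) (nat_lit 1283614687) (nat_lit 5) (nat_lit 3) (nat_lit 5) (nat_lit 1) (nat_lit 7) (nat_lit 1) (nat_lit 416) (nat_lit 427) (nat_lit 177)))) (XT.nd (nat_lit 156) (nat_lit 76) (nat_lit 0) (XT.nd (nat_lit 78) (nat_lit 152) (nat_lit 0) (XT.lf (nat_lit 76) (nat_lit 1262789904) (nat_lit 0) (nat_lit 1263165996) (nat_lit 76) (nat_lit 1263165996) (nat_lit 5) (nat_lit 3) (nat_lit 4) (nat_lit 1) (nat_lit 5) (nat_lit 1) (nat_lit 417) (nat_lit 427) (nat_lit 176)) (XT.lf (nat_lit 152) (nat_lit 3728745553) (nat_lit 0) (nat_lit 115542) (nat_lit 76) (nat_lit 115542) (nat_lit 4) (nat_lit 1) (nat_lit 2) (nat_lit 1) (nat_lit 3) (nat_lit 1) (nat_lit 418) (nat_lit 427) (nat_lit 175))) (XT.nd (nat_lit 78) (nat_lit 76) (nat_lit 0) (XT.lf (nat_lit 0) (nat_lit 1222506968) (nat_lit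 0) (nat_lit 1222831851) (nat_lit 152) (nat_lit 1222506968) (nat_lit 2) (nat_lit 3) (nat_lit 2) (nat_lit 1) (nat_lit 4) (nat_lit 1) (nat_lit 419) (nat_lit 427) (nat_lit 174)) (XT.lf (nat_lit 76) (nat_lit 1202689304) (nat_lit 0) (nat_lit 1202998715) (nat_lit 76) (nat_lit 1202998715) (nat_lit 2) (nat_lit 3) (nat_lit 1) (nat_lit 1) (nat_lit 2) (nat_lit 1) (nat_lit 420) (nat_lit 427) (nat_lit 173))))))) (XT.nd (nat_lit 1014) (nat_lit 0) (nat_lit 0) (XT.nd (nat_lit 468) (nat_lit 0) (nat_lit 0) (XT.nd (nat_lit 234) (nat_lit 0) (nat_lit 0) (XT.nd (nat_lit 78) (nat_lit 0) (nat_lit 0) (XT.lf (nat_lit 0) (nat_lit 74880822306) (nat_lit 0) (nat_lit 0) (nat_lit 0) (nat_lit 0) (nat_lit 0) (nat_lit 0) (nat_lit 1) (nat_lit 0) (nat_lit 1) (nat_lit 0) (nat_lit 421) (nat_lit 427) (nat_lit 172)) (XT.nd (nat_lit 78) (nat_lit 0) (nat_lit 0) (XT.lf (nat_lit 0) (nat_lit 74880808217) (nat_lit 0) (nat_lit 0) (nat_lit 0)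 (nat_lit 0) (nat_lit 0) (nat_lit 0) (nat_lit 1) (nat_lit 0) (nat_lit 1) (nat_lit 0) (nat_lit 422) (nat_lit 427) (nat_lit 171)) (XT.lf (nat_lit 0) (nat_lit 74880794799) (nat_lit 0) (nat_lit 0) (nat_lit 0) (nat_lit 0) (nat_lit 0) (nat_lit 0) (nat_lit 1) (nat_lit 0) (nat_lit 1) (nat_lit 0) (nat_lit 423) (nat_lit 427) (nat_lit 170)))) (XT.nd (nat_lit 78) (nat_lit 0) (nat_lit 0) (XT.lf (nat_lit 0) (nat_lit 74880782020) (nat_lit 0) (nat_lit 0) (nat_lit 0) (nat_lit 0) (nat_lit 0) (nat_lit 0) (nat_lit 1) (nat_lit 0) (nat_lit 1) (nat_lit 0) (nat_lit 424) (nat_lit 427) (nat_lit 169)) (XT.nd (nat_lit 78) (nat_lit 0) (nat_lit 0) (XT.lf (nat_lit 0) (nat_lit 74880769850) (nat_lit 0) (nat_lit 0) (nat_lit 0) (nat_lit 0) (nat_lit 0) (nat_lit 0) (nat_lit 1) (nat_lit 0) (nat_lit 1) (nat_lit 0) (nat_lit 425) (nat_lit 427) (nat_lit 168)) (XT.lf (nat_lit 0) (nat_lit 74880758259) (nat_lit 0) (nat_lit 0) (nat_lit 0) (nat_lit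 0) (nat_lit 0) (nat_lit 0) (nat_lit 1) (nat_lit 0) (nat_lit 1) (nat_lit 0) (nat_lit 426) (nat_lit 427) (nat_lit 167))))) (XT.nd (nat_lit 234) (nat_lit 0) (nat_lit 0) (XT.nd (nat_lit 78) (nat_lit 0) (nat_lit 0) (XT.lf (nat_lit 0) (nat_lit 74880747220) (nat_lit 0) (nat_lit 0) (nat_lit 0) (nat_lit 0) (nat_lit 0) (nat_lit 0) (nat_lit 1) (nat_lit 0) (nat_lit 1) (nat_lit 0) (nat_lit 427) (nat_lit 427) (nat_lit 166)) (XT.nd (nat_lit 78) (nat_lit 0) (nat_lit 0) (XT.lf (nat_lit 0) (nat_lit 74880736706) (nat_lit 0) (nat_lit 0) (nat_lit 0) (nat_lit 0) (nat_lit 0) (nat_lit 0) (nat_lit 1) (nat_lit 0) (nat_lit 1) (nat_lit 0) (nat_lit 428) (nat_lit 427) (nat_lit 165)) (XT.lf (nat_lit 0) (nat_lit 74880726694) (nat_lit 0) (nat_lit 0) (nat_lit 0) (nat_lit 0) (nat_lit 0) (nat_lit 0) (nat_lit 1) (nat_lit 0) (nat_lit 1) (nat_lit 0) (nat_lit 429) (nat_lit 427) (nat_lit 164)))) (XT.nd (nat_lit 156) (nat_lit 0) (nat_lit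 0) (XT.nd (nat_lit 78) (nat_lit 0) (nat_lit 0) (XT.lf (nat_lit 0) (nat_lit 74880717158) (nat_lit 0) (nat_lit 0) (nat_lit 0) (nat_lit 0) (nat_lit 0) (nat_lit 0) (nat_lit 1) (nat_lit 0) (nat_lit 1) (nat_lit 0) (nat_lit 430) (nat_lit 427) (nat_lit 163)) (XT.lf (nat_lit 0) (nat_lit 74880708076) (nat_lit 0) (nat_lit 0) (nat_lit 0) (nat_lit 0) (nat_lit 0) (nat_lit 0) (nat_lit 1) (nat_lit 0) (nat_lit 1) (nat_lit 0) (nat_lit 431) (nat_lit 427) (nat_lit 162))) (XT.nd (nat_lit 78) (nat_lit 0) (nat_lit 0) (XT.lf (nat_lit 0) (nat_lit 74880699426) (nat_lit 0) (nat_lit 0) (nat_lit 0) (nat_lit 0) (nat_lit 0) (nat_lit 0) (nat_lit 1) (nat_lit 0) (nat_lit 1) (nat_lit 0) (nat_lit 432) (nat_lit 427) (nat_lit 161)) (XT.lf (nat_lit 0) (nat_lit 74880691189) (nat_lit 0) (nat_lit 0) (nat_lit 0) (nat_lit 0) (nat_lit 0) (nat_lit 0) (nat_lit 1) (nat_lit 0) (nat_lit 1) (nat_lit 0) (nat_lit 433) (nat_lit 427) (nat_lit 160))))))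 (XT.nd (nat_lit 32058) (nat_lit 0) (nat_lit 22192) (XT.nd (nat_lit 234) (nat_lit 0) (nat_lit 0) (XT.nd (nat_lit 78) (nat_lit 0) (nat_lit 0) (XT.lf (nat_lit 0) (nat_lit 74880683344) (nat_lit 0) (nat_lit 0) (nat_lit 0) (nat_lit 0) (nat_lit 0) (nat_lit 0) (nat_lit 1) (nat_lit 0) (nat_lit 1) (nat_lit 0) (nat_lit 434) (nat_lit 427) (nat_lit 159)) (XT.nd (nat_lit 78) (nat_lit 0) (nat_lit 0) (XT.lf (nat_lit 0) (nat_lit 74880675872) (nat_lit 0) (nat_lit 0) (nat_lit 0) (nat_lit 0) (nat_lit 0) (nat_lit 0) (nat_lit 1) (nat_lit 0) (nat_lit 1) (nat_lit 0) (nat_lit 435) (nat_lit 427) (nat_lit 158)) (XT.lf (nat_lit 0) (nat_lit 74880668756) (nat_lit 0) (nat_lit 0) (nat_lit 0) (nat_lit 0) (nat_lit 0) (nat_lit 0) (nat_lit 1) (nat_lit 0) (nat_lit 1) (nat_lit 0) (nat_lit 436) (nat_lit 427) (nat_lit 157)))) (XT.nd (nat_lit 78) (nat_lit 0) (nat_lit 0) (XT.lf (nat_lit 0) (nat_lit 74880661979) (nat_lit 0) (nat_lit 0)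 (nat_lit 0) (nat_lit 0) (nat_lit 0) (nat_lit 0) (nat_lit 1) (nat_lit 0) (nat_lit 1) (nat_lit 0) (nat_lit 437) (nat_lit 427) (nat_lit 156)) (XT.nd (nat_lit 78) (nat_lit 0) (nat_lit 0) (XT.lf (nat_lit 0) (nat_lit 74880655525) (nat_lit 0) (nat_lit 0) (nat_lit 0) (nat_lit 0) (nat_lit 0) (nat_lit 0) (nat_lit 1) (nat_lit 0) (nat_lit 1) (nat_lit 0) (nat_lit 438) (nat_lit 427) (nat_lit 155)) (XT.lf (nat_lit 0) (nat_lit 74880649378) (nat_lit 0) (nat_lit 0) (nat_lit 0) (nat_lit 0) (nat_lit 0) (nat_lit 0) (nat_lit 1) (nat_lit 0) (nat_lit 1) (nat_lit 0) (nat_lit 439) (nat_lit 427) (nat_lit 154))))) (XT.nd (nat_lit 234) (nat_lit 0) (nat_lit 76) (XT.nd (nat_lit 78) (nat_lit 0) (nat_lit 0) (XT.lf (nat_lit 836) (nat_lit 39346671288) (nat_lit 0) (nat_lit 69859924431) (nat_lit 836) (nat_lit 39346671288) (nat_lit 303) (nat_lit 1) (nat_lit 292) (nat_lit 0) (nat_lit 303) (nat_lit 0) (nat_lit 164) (nat_lit 428) (nat_lit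 428)) (XT.nd (nat_lit 78) (nat_lit 0) (nat_lit 76) (XT.lf (nat_lit 836) (nat_lit 152512610152) (nat_lit 76) (nat_lit 68733151456) (nat_lit 0) (nat_lit 68733151456) (nat_lit 303) (nat_lit 1) (nat_lit 293) (nat_lit 1) (nat_lit 292) (nat_lit 0) (nat_lit 165) (nat_lit 428) (nat_lit 427)) (XT.lf (nat_lit 836) (nat_lit 72685213618) (nat_lit 0) (nat_lit 137701217936) (nat_lit 760) (nat_lit 72685213618) (nat_lit 304) (nat_lit 1) (nat_lit 293) (nat_lit 1) (nat_lit 303) (nat_lit 1) (nat_lit 166) (nat_lit 428) (nat_lit 426)))) (XT.nd (nat_lit 156) (nat_lit 0) (nat_lit 76) (XT.nd (nat_lit 78) (nat_lit 0) (nat_lit 76) (XT.lf (nat_lit 836) (nat_lit 136347360882) (nat_lit 76) (nat_lit 70020086305) (nat_lit 0) (nat_lit 70020086305) (nat_lit 304) (nat_lit 1) (nat_lit 294) (nat_lit 1) (nat_lit 293) (nat_lit 1) (nat_lit 167) (nat_lit 428) (nat_lit 425)) (XT.lf (nat_lit 836) (nat_lit 62759380858) (nat_lit 0) (nat_lit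 144396512910) (nat_lit 760) (nat_lit 62759380858) (nat_lit 305) (nat_lit 1) (nat_lit 294) (nat_lit 1) (nat_lit 304) (nat_lit 1) (nat_lit 168) (nat_lit 428) (nat_lit 424))) (XT.nd (nat_lit 78) (nat_lit 0) (nat_lit 76) (XT.lf (nat_lit 836) (nat_lit 112876834116) (nat_lit 76) (nat_lit 75381740413) (nat_lit 0) (nat_lit 75381740413) (nat_lit 305) (nat_lit 1) (nat_lit 295) (nat_lit 1) (nat_lit 294) (nat_lit 1) (nat_lit 169) (nat_lit 428) (nat_lit 423)) (XT.lf (nat_lit 836) (nat_lit 49493231582) (nat_lit 0) (nat_lit 158589583513) (nat_lit 760) (nat_lit 49493231582) (nat_lit 306) (nat_lit 1) (nat_lit 295) (nat_lit 1) (nat_lit 305) (nat_lit 1) (nat_lit 170) (nat_lit 428) (nat_lit 422))))))))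
noncomputable def ec394 : XT := (XT.nd (nat_lit 1950) (nat_lit 2660) (nat_lit 0) (XT.nd (nat_lit 936) (nat_lit 2356) (nat_lit 0) (XT.nd (nat_lit 468) (nat_lit 1064) (nat_lit 0) (XT.nd (nat_lit 234) (nat_lit 1140) (nat_lit 0) (XT.nd (nat_lit 78) (nat_lit 0) (nat_lit 76) (XT.lf (nat_lit 836) (nat_lit 83199641941) (nat_lit 76) (nat_lit 84239553277) (nat_lit 0) (nat_lit 84239553277) (nat_lit 306) (nat_lit 1) (nat_lit 296) (nat_lit 1) (nat_lit 295) (nat_lit 1) (nat_lit 171) (nat_lit 428) (nat_lit 421)) (XT.nd (nat_lit 78) (nat_lit 0) (nat_lit 0) (XT.lf (nat_lit 836) (nat_lit 33400322776) (nat_lit 0) (nat_lit 179196679506) (nat_lit 760) (nat_lit 33400322776) (nat_lit 307) (nat_lit 1) (nat_lit 296) (nat_lit 1) (nat_lit 306) (nat_lit 1) (nat_lit 172) (nat_lit 428) (nat_lit 420)) (XT.lf (nat_lit 836) (nat_lit 48292284728) (nat_lit 76) (nat_lit 96078264503) (nat_lit 0) (nat_lit 96078264503) (nat_lit 307)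 (nat_lit 1) (nat_lit 297) (nat_lit 1) (nat_lit 296) (nat_lit 1) (nat_lit 173) (nat_lit 428) (nat_lit 419)))) (XT.nd (nat_lit 78) (nat_lit 1292) (nat_lit 0) (XT.lf (nat_lit 76) (nat_lit 14936798811) (nat_lit 0) (nat_lit 205253220720) (nat_lit 760) (nat_lit 14936798811) (nat_lit 298) (nat_lit 1) (nat_lit 297) (nat_lit 1) (nat_lit 307) (nat_lit 1) (nat_lit 174) (nat_lit 428) (nat_lit 418)) (XT.nd (nat_lit 78) (nat_lit 532) (nat_lit 0) (XT.lf (nat_lit 836) (nat_lit 9021455035) (nat_lit 0) (nat_lit 110439575851) (nat_lit 760) (nat_lit 110439575851) (nat_lit 298) (nat_lit 1) (nat_lit 287) (nat_lit 1) (nat_lit 297) (nat_lit 1) (nat_lit 175) (nat_lit 428) (nat_lit 417)) (XT.lf (nat_lit 532) (nat_lit 214090489327) (nat_lit 0) (nat_lit 5404216824) (nat_lit 456) (nat_lit 5404216824) (nat_lit 287) (nat_lit 1) (nat_lit 280) (nat_lit 1) (nat_lit 286) (nat_lit 1) (nat_lit 176) (nat_lit 428) (nat_lit 416)))))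 (XT.nd (nat_lit 234) (nat_lit 684) (nat_lit 0) (XT.nd (nat_lit 78) (nat_lit 380) (nat_lit 0) (XT.lf (nat_lit 76) (nat_lit 93599989322) (nat_lit 0) (nat_lit 32761601206) (nat_lit 532) (nat_lit 93599989322) (nat_lit 281) (nat_lit 1) (nat_lit 280) (nat_lit 1) (nat_lit 287) (nat_lit 1) (nat_lit 177) (nat_lit 428) (nat_lit 415)) (XT.nd (nat_lit 78) (nat_lit 0) (nat_lit 0) (XT.lf (nat_lit 456) (nat_lit 161061555548) (nat_lit 0) (nat_lit 27086315117) (nat_lit 380) (nat_lit 27086315117) (nat_lit 281) (nat_lit 1) (nat_lit 275) (nat_lit 1) (nat_lit 280) (nat_lit 1) (nat_lit 178) (nat_lit 428) (nat_lit 414)) (XT.lf (nat_lit 76) (nat_lit 66763732948) (nat_lit 0) (nat_lit 77078708710) (nat_lit 456) (nat_lit 66763732948) (nat_lit 276) (nat_lit 1) (nat_lit 275) (nat_lit 1) (nat_lit 281) (nat_lit 1) (nat_lit 179) (nat_lit 428) (nat_lit 413)))) (XT.nd (nat_lit 78) (nat_lit 304) (nat_lit 0) (XT.lf (nat_lit 456)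 (nat_lit 106061318391) (nat_lit 0) (nat_lit 50039013143) (nat_lit 380) (nat_lit 50039013143) (nat_lit 276) (nat_lit 1) (nat_lit 270) (nat_lit 1) (nat_lit 275) (nat_lit 1) (nat_lit 180) (nat_lit 428) (nat_lit 412)) (XT.nd (nat_lit 78) (nat_lit 304) (nat_lit 0) (XT.lf (nat_lit 76) (nat_lit 39082186267) (nat_lit 0) (nat_lit 123638052679) (nat_lit 456) (nat_lit 39082186267) (nat_lit 271) (nat_lit 1) (nat_lit 270) (nat_lit 1) (nat_lit 276) (nat_lit 1) (nat_lit 181) (nat_lit 428) (nat_lit 411)) (XT.lf (nat_lit 380) (nat_lit 49601690531) (nat_lit 0) (nat_lit 73987687546) (nat_lit 304) (nat_lit 73987687546) (nat_lit 271) (nat_lit 1) (nat_lit 266) (nat_lit 1) (nat_lit 270) (nat_lit 1) (nat_lit 182) (nat_lit 428) (nat_lit 410)))))) (XT.nd (nat_lit 468) (nat_lit 1368) (nat_lit 0) (XT.nd (nat_lit 234) (nat_lit 304) (nat_lit 0) (XT.nd (nat_lit 78) (nat_lit 684) (nat_lit 0) (XT.lf (nat_lit 76) (nat_lit 10792996887)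 (nat_lit 0) (nat_lit 171928198788) (nat_lit 380) (nat_lit 10792996887) (nat_lit 267) (nat_lit 1) (nat_lit 266) (nat_lit 1) (nat_lit 271) (nat_lit 1) (nat_lit 183) (nat_lit 428) (nat_lit 409)) (XT.nd (nat_lit 78) (nat_lit 304) (nat_lit 0) (XT.lf (nat_lit 76) (nat_lit 90944893144) (nat_lit 0) (nat_lit 7616811462) (nat_lit 380) (nat_lit 90944893144) (nat_lit 262) (nat_lit 1) (nat_lit 261) (nat_lit 1) (nat_lit 266) (nat_lit 1) (nat_lit 184) (nat_lit 428) (nat_lit 408)) (XT.lf (nat_lit 380) (nat_lit 150437195420) (nat_lit 0) (nat_lit 17607213276) (nat_lit 304) (nat_lit 17607213276) (nat_lit 262) (nat_lit 1) (nat_lit 257) (nat_lit 1) (nat_lit 261) (nat_lit 1) (nat_lit 185) (nat_lit 428) (nat_lit 407)))) (XT.nd (nat_lit 78) (nat_lit 304) (nat_lit 0) (XT.lf (nat_lit 76) (nat_lit 59008081721) (nat_lit 0) (nat_lit 63846615717) (nat_lit 380) (nat_lit 59008081721) (nat_lit 258) (nat_lit 1) (nat_lit 257) (nat_lit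 1) (nat_lit 262) (nat_lit 1) (nat_lit 186) (nat_lit 428) (nat_lit 406)) (XT.nd (nat_lit 78) (nat_lit 0) (nat_lit 0) (XT.lf (nat_lit 380) (nat_lit 86109206005) (nat_lit 0) (nat_lit 46048057043) (nat_lit 304) (nat_lit 46048057043) (nat_lit 258) (nat_lit 1) (nat_lit 253) (nat_lit 1) (nat_lit 257) (nat_lit 1) (nat_lit 187) (nat_lit 428) (nat_lit 405)) (XT.lf (nat_lit 76) (nat_lit 27155000583) (nat_lit 0) (nat_lit 120344804276) (nat_lit 380) (nat_lit 27155000583) (nat_lit 254) (nat_lit 1) (nat_lit 253) (nat_lit 1) (nat_lit 258) (nat_lit 1) (nat_lit 188) (nat_lit 428) (nat_lit 404))))) (XT.nd (nat_lit 234) (nat_lit 760) (nat_lit 0) (XT.nd (nat_lit 78) (nat_lit 380) (nat_lit 0) (XT.lf (nat_lit 304) (nat_lit 22083998947) (nat_lit 0) (nat_lit 74548466623) (nat_lit 228) (nat_lit 74548466623) (nat_lit 254) (nat_lit 1) (nat_lit 250) (nat_lit 1) (nat_lit 253) (nat_lit 1) (nat_lit 189) (nat_lit 428) (nat_lit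 403)) (XT.nd (nat_lit 78) (nat_lit 0) (nat_lit 0) (XT.lf (nat_lit 380) (nat_lit 159016323669) (nat_lit 0) (nat_lit 4412397862) (nat_lit 304) (nat_lit 4412397862) (nat_lit 250) (nat_lit 1) (nat_lit 245) (nat_lit 1) (nat_lit 249) (nat_lit 1) (nat_lit 190) (nat_lit 428) (nat_lit 402)) (XT.lf (nat_lit 76) (nat_lit 62224263039) (nat_lit 0) (nat_lit 40071265980) (nat_lit 380) (nat_lit 62224263039) (nat_lit 246) (nat_lit 1) (nat_lit 245) (nat_lit 1) (nat_lit 250) (nat_lit 1) (nat_lit 191) (nat_lit 428) (nat_lit 401)))) (XT.nd (nat_lit 156) (nat_lit 532) (nat_lit 0) (XT.nd (nat_lit 78) (nat_lit 0) (nat_lit 0) (XT.lf (nat_lit 304) (nat_lit 90880503346) (nat_lit 0) (nat_lit 35222671559) (nat_lit 228) (nat_lit 35222671559) (nat_lit 246) (nat_lit 1) (nat_lit 242) (nat_lit 1) (nat_lit 245) (nat_lit 1) (nat_lit 192) (nat_lit 428) (nat_lit 400)) (XT.lf (nat_lit 76) (nat_lit 28710556784) (nat_lit 0) (nat_lit 100791934982)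 (nat_lit 304) (nat_lit 28710556784) (nat_lit 243) (nat_lit 1) (nat_lit 242) (nat_lit 1) (nat_lit 246) (nat_lit 1) (nat_lit 193) (nat_lit 428) (nat_lit 399))) (XT.nd (nat_lit 78) (nat_lit 304) (nat_lit 0) (XT.lf (nat_lit 304) (nat_lit 23929351697) (nat_lit 0) (nat_lit 65620857126) (nat_lit 228) (nat_lit 65620857126) (nat_lit 243) (nat_lit 1) (nat_lit 239) (nat_lit 1) (nat_lit 242) (nat_lit 1) (nat_lit 194) (nat_lit 428) (nat_lit 398)) (XT.lf (nat_lit 304) (nat_lit 144017084308) (nat_lit 0) (nat_lit 4112506277) (nat_lit 228) (nat_lit 4112506277) (nat_lit 239) (nat_lit 1) (nat_lit 235) (nat_lit 1) (nat_lit 238) (nat_lit 1) (nat_lit 195) (nat_lit 428) (nat_lit 397))))))) (XT.nd (nat_lit 936) (nat_lit 1292) (nat_lit 0) (XT.nd (nat_lit 468) (nat_lit 684) (nat_lit 0) (XT.nd (nat_lit 234) (nat_lit 456) (nat_lit 0) (XT.nd (nat_lit 78) (nat_lit 228) (nat_lit 0) (XT.lf (nat_lit 76) (nat_lit 54477538604) (nat_lit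 0) (nat_lit 40367309091) (nat_lit 304) (nat_lit 54477538604) (nat_lit 236) (nat_lit 1) (nat_lit 235) (nat_lit 1) (nat_lit 239) (nat_lit 1) (nat_lit 196) (nat_lit 428) (nat_lit 396)) (XT.nd (nat_lit 78) (nat_lit 0) (nat_lit 0) (XT.lf (nat_lit 304) (nat_lit 74911603864) (nat_lit 0) (nat_lit 35799550815) (nat_lit 228) (nat_lit 35799550815) (nat_lit 236) (nat_lit 1) (nat_lit 232) (nat_lit 1) (nat_lit 235) (nat_lit 1) (nat_lit 197) (nat_lit 428) (nat_lit 395)) (XT.lf (nat_lit 76) (nat_lit 20630594609) (nat_lit 0) (nat_lit 102513246031) (nat_lit 304) (nat_lit 20630594609) (nat_lit 233) (nat_lit 1) (nat_lit 232) (nat_lit 1) (nat_lit 236) (nat_lit 1) (nat_lit 198) (nat_lit 428) (nat_lit 394)))) (XT.nd (nat_lit 78) (nat_lit 304) (nat_lit 0) (XT.lf (nat_lit 228) (nat_lit 7559735818) (nat_lit 0) (nat_lit 66764996279) (nat_lit 152) (nat_lit 66764996279) (nat_lit 233) (nat_lit 1) (nat_lit 230) (nat_lit 1) (nat_lit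 232) (nat_lit 1) (nat_lit 199) (nat_lit 428) (nat_lit 393)) (XT.nd (nat_lit 78) (nat_lit 0) (nat_lit 0) (XT.lf (nat_lit 304) (nat_lit 114225073321) (nat_lit 0) (nat_lit 12131530728) (nat_lit 228) (nat_lit 12131530728) (nat_lit 230) (nat_lit 1) (nat_lit 226) (nat_lit 1) (nat_lit 229) (nat_lit 1) (nat_lit 200) (nat_lit 428) (nat_lit 392)) (XT.lf (nat_lit 76) (nat_lit 39896106735) (nat_lit 0) (nat_lit 56123424032) (nat_lit 304) (nat_lit 39896106735) (nat_lit 227) (nat_lit 1) (nat_lit 226) (nat_lit 1) (nat_lit 230) (nat_lit 1) (nat_lit 201) (nat_lit 428) (nat_lit 391))))) (XT.nd (nat_lit 234) (nat_lit 304) (nat_lit 0) (XT.nd (nat_lit 78) (nat_lit 228) (nat_lit 0) (XT.lf (nat_lit 228) (nat_lit 46093797095) (nat_lit 0) (nat_lit 43664368726) (nat_lit 152) (nat_lit 43664368726) (nat_lit 227) (nat_lit 1) (nat_lit 224) (nat_lit 1) (nat_lit 226) (nat_lit 1) (nat_lit 202) (nat_lit 428) (nat_lit 390)) (XT.nd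 (nat_lit 78) (nat_lit 228) (nat_lit 0) (XT.lf (nat_lit 76) (nat_lit 6622215598) (nat_lit 0) (nat_lit 117767736918) (nat_lit 228) (nat_lit 6622215598) (nat_lit 225) (nat_lit 1) (nat_lit 224) (nat_lit 1) (nat_lit 227) (nat_lit 1) (nat_lit 203) (nat_lit 428) (nat_lit 389)) (XT.lf (nat_lit 76) (nat_lit 54654307168) (nat_lit 0) (nat_lit 19301949200) (nat_lit 228) (nat_lit 54654307168) (nat_lit 222) (nat_lit 1) (nat_lit 221) (nat_lit 1) (nat_lit 224) (nat_lit 1) (nat_lit 204) (nat_lit 428) (nat_lit 388)))) (XT.nd (nat_lit 78) (nat_lit 152) (nat_lit 0) (XT.lf (nat_lit 228) (nat_lit 75897084494) (nat_lit 0) (nat_lit 25195775695) (nat_lit 152) (nat_lit 25195775695) (nat_lit 222) (nat_lit 1) (nat_lit 219) (nat_lit 1) (nat_lit 221) (nat_lit 1) (nat_lit 205) (nat_lit 428) (nat_lit 387)) (XT.nd (nat_lit 78) (nat_lit 152) (nat_lit 0) (XT.lf (nat_lit 76) (nat_lit 21416182691) (nat_lit 0) (nat_lit 81185662524)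 (nat_lit 228) (nat_lit 21416182691) (nat_lit 220) (nat_lit 1) (nat_lit 219) (nat_lit 1) (nat_lit 222) (nat_lit 1) (nat_lit 206) (nat_lit 428) (nat_lit 386)) (XT.lf (nat_lit 228) (nat_lit 10032710536) (nat_lit 0) (nat_lit 55880239502) (nat_lit 152) (nat_lit 55880239502) (nat_lit 220) (nat_lit 1) (nat_lit 217) (nat_lit 1) (nat_lit 219) (nat_lit 1) (nat_lit 207) (nat_lit 428) (nat_lit 385)))))) (XT.nd (nat_lit 468) (nat_lit 608) (nat_lit 0) (XT.nd (nat_lit 234) (nat_lit 304) (nat_lit 0) (XT.nd (nat_lit 78) (nat_lit 152) (nat_lit 0) (XT.lf (nat_lit 228) (nat_lit 98607960720) (nat_lit 0) (nat_lit 10512428432) (nat_lit 152) (nat_lit 10512428432) (nat_lit 217) (nat_lit 1) (nat_lit 214) (nat_lit 1) (nat_lit 216) (nat_lit 1) (nat_lit 208) (nat_lit 428) (nat_lit 384)) (XT.nd (nat_lit 78) (nat_lit 152) (nat_lit 0) (XT.lf (nat_lit 76) (nat_lit 32826831767) (nat_lit 0) (nat_lit 51837220630) (nat_lit 228) (nat_lit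 32826831767) (nat_lit 215) (nat_lit 1) (nat_lit 214) (nat_lit 1) (nat_lit 217) (nat_lit 1) (nat_lit 209) (nat_lit 428) (nat_lit 383)) (XT.lf (nat_lit 228) (nat_lit 33432534394) (nat_lit 0) (nat_lit 40989299824) (nat_lit 152) (nat_lit 40989299824) (nat_lit 215) (nat_lit 1) (nat_lit 212) (nat_lit 1) (nat_lit 214) (nat_lit 1) (nat_lit 210) (nat_lit 428) (nat_lit 382)))) (XT.nd (nat_lit 78) (nat_lit 304) (nat_lit 0) (XT.lf (nat_lit 76) (nat_lit 1098835200) (nat_lit 0) (nat_lit 111206650461) (nat_lit 228) (nat_lit 1098835200) (nat_lit 213) (nat_lit 1) (nat_lit 212) (nat_lit 1) (nat_lit 215) (nat_lit 1) (nat_lit 211) (nat_lit 428) (nat_lit 381)) (XT.nd (nat_lit 78) (nat_lit 152) (nat_lit 0) (XT.lf (nat_lit 76) (nat_lit 41490225513) (nat_lit 0) (nat_lit 28404300321) (nat_lit 152) (nat_lit 41490225513) (nat_lit 211) (nat_lit 1) (nat_lit 210) (nat_lit 1) (nat_lit 212) (nat_lit 1) (nat_lit 212) (nat_lit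 428) (nat_lit 380)) (XT.lf (nat_lit 228) (nat_lit 51484646506) (nat_lit 0) (nat_lit 28975796971) (nat_lit 152) (nat_lit 28975796971) (nat_lit 211) (nat_lit 1) (nat_lit 208) (nat_lit 1) (nat_lit 210) (nat_lit 1) (nat_lit 213) (nat_lit 428) (nat_lit 379))))) (XT.nd (nat_lit 234) (nat_lit 304) (nat_lit 0) (XT.nd (nat_lit 78) (nat_lit 304) (nat_lit 0) (XT.lf (nat_lit 76) (nat_lit 10322315801) (nat_lit 0) (nat_lit 86895693200) (nat_lit 228) (nat_lit 10322315801) (nat_lit 209) (nat_lit 1) (nat_lit 208) (nat_lit 1) (nat_lit 211) (nat_lit 1) (nat_lit 214) (nat_lit 428) (nat_lit 378)) (XT.nd (nat_lit 78) (nat_lit 152) (nat_lit 0) (XT.lf (nat_lit 76) (nat_lit 47927930045) (nat_lit 0) (nat_lit 9804184000) (nat_lit 152) (nat_lit 47927930045) (nat_lit 207) (nat_lit 1) (nat_lit 206) (nat_lit 1) (nat_lit 208) (nat_lit 1) (nat_lit 215) (nat_lit 428) (nat_lit 377)) (XT.lf (nat_lit 228) (nat_lit 65194277257) (nat_lit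 0) (nat_lit 19318268035) (nat_lit 152) (nat_lit 19318268035) (nat_lit 207) (nat_lit 1) (nat_lit 204) (nat_lit 1) (nat_lit 206) (nat_lit 1) (nat_lit 216) (nat_lit 428) (nat_lit 376)))) (XT.nd (nat_lit 156) (nat_lit 228) (nat_lit 0) (XT.nd (nat_lit 78) (nat_lit 76) (nat_lit 0) (XT.lf (nat_lit 76) (nat_lit 17462005576) (nat_lit 0) (nat_lit 67113784371) (nat_lit 228) (nat_lit 17462005576) (nat_lit 205) (nat_lit 1) (nat_lit 204) (nat_lit 1) (nat_lit 207) (nat_lit 1) (nat_lit 217) (nat_lit 428) (nat_lit 375)) (XT.lf (nat_lit 152) (nat_lit 5012705899) (nat_lit 0) (nat_lit 47632953467) (nat_lit 76) (nat_lit 47632953467) (nat_lit 205) (nat_lit 1) (nat_lit 203) (nat_lit 1) (nat_lit 204) (nat_lit 1) (nat_lit 218) (nat_lit 428) (nat_lit 374))) (XT.nd (nat_lit 78) (nat_lit 0) (nat_lit 0) (XT.lf (nat_lit 228) (nat_lit 75385713397) (nat_lit 0) (nat_lit 11588242310) (nat_lit 152) (nat_lit 11588242310) (nat_lit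 203) (nat_lit 1) (nat_lit 200) (nat_lit 1) (nat_lit 202) (nat_lit 1) (nat_lit 219) (nat_lit 428) (nat_lit 373)) (XT.lf (nat_lit 76) (nat_lit 22908712175) (nat_lit 0) (nat_lit 51047516995) (nat_lit 228) (nat_lit 22908712175) (nat_lit 201) (nat_lit 1) (nat_lit 200) (nat_lit 1) (nat_lit 203) (nat_lit 1) (nat_lit 220) (nat_lit 428) (nat_lit 372))))))))
noncomputable def ec395 : XT := (XT.nd (nat_lit 1950) (nat_lit 1900) (nat_lit 0) (XT.nd (nat_lit 936) (nat_lit 988) (nat_lit 0) (XT.nd (nat_lit 468) (nat_lit 456) (nat_lit 0) (XT.nd (nat_lit 234) (nat_lit 304) (nat_lit 0) (XT.nd (nat_lit 78) (nat_lit 228) (nat_lit 0) (XT.lf (nat_lit 152) (nat_lit 16833802020) (nat_lit 0) (nat_lit 39187748699) (nat_lit 76) (nat_lit 39187748699) (nat_lit 201) (nat_lit 1) (nat_lit 199) (nat_lit 1) (nat_lit 200) (nat_lit 1) (nat_lit 221) (nat_lit 428) (nat_lit 371)) (XT.nd (nat_lit 78) (nat_lit 0) (nat_lit 0) (XT.lf (nat_lit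 228) (nat_lit 82734508362) (nat_lit 0) (nat_lit 5433728378) (nat_lit 152) (nat_lit 5433728378) (nat_lit 199) (nat_lit 1) (nat_lit 196) (nat_lit 1) (nat_lit 198) (nat_lit 1) (nat_lit 222) (nat_lit 428) (nat_lit 370)) (XT.lf (nat_lit 76) (nat_lit 26982937032) (nat_lit 0) (nat_lit 38028195232) (nat_lit 228) (nat_lit 26982937032) (nat_lit 197) (nat_lit 1) (nat_lit 196) (nat_lit 1) (nat_lit 199) (nat_lit 1) (nat_lit 223) (nat_lit 428) (nat_lit 369)))) (XT.nd (nat_lit 78) (nat_lit 228) (nat_lit 0) (XT.lf (nat_lit 152) (nat_lit 25953816745) (nat_lit 0) (nat_lit 32239857836) (nat_lit 76) (nat_lit 32239857836) (nat_lit 197) (nat_lit 1) (nat_lit 195) (nat_lit 1) (nat_lit 196) (nat_lit 1) (nat_lit 224) (nat_lit 428) (nat_lit 368)) (XT.nd (nat_lit 78) (nat_lit 0) (nat_lit 0) (XT.lf (nat_lit 228) (nat_lit 87793975624) (nat_lit 0) (nat_lit 565630118) (nat_lit 152) (nat_lit 565630118) (nat_lit 195) (nat_lit 1)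 (nat_lit 192) (nat_lit 1) (nat_lit 194) (nat_lit 1) (nat_lit 225) (nat_lit 428) (nat_lit 367)) (XT.lf (nat_lit 76) (nat_lit 29947388912) (nat_lit 0) (nat_lit 27506153822) (nat_lit 228) (nat_lit 29947388912) (nat_lit 193) (nat_lit 1) (nat_lit 192) (nat_lit 1) (nat_lit 195) (nat_lit 1) (nat_lit 226) (nat_lit 428) (nat_lit 366))))) (XT.nd (nat_lit 234) (nat_lit 228) (nat_lit 0) (XT.nd (nat_lit 78) (nat_lit 152) (nat_lit 0) (XT.lf (nat_lit 152) (nat_lit 32880465613) (nat_lit 0) (nat_lit 26523810829) (nat_lit 76) (nat_lit 26523810829) (nat_lit 193) (nat_lit 1) (nat_lit 191) (nat_lit 1) (nat_lit 192) (nat_lit 1) (nat_lit 227) (nat_lit 428) (nat_lit 365)) (XT.nd (nat_lit 78) (nat_lit 152) (nat_lit 0) (XT.lf (nat_lit 0) (nat_lit 3306762597) (nat_lit 0) (nat_lit 77886185336) (nat_lit 152) (nat_lit 3306762597) (nat_lit 191) (nat_lit 3) (nat_lit 191) (nat_lit 1) (nat_lit 193) (nat_lit 1) (nat_lit 228) (nat_lit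 428) (nat_lit 364)) (XT.lf (nat_lit 76) (nat_lit 32017276533) (nat_lit 0) (nat_lit 19029631767) (nat_lit 152) (nat_lit 32017276533) (nat_lit 190) (nat_lit 1) (nat_lit 189) (nat_lit 1) (nat_lit 191) (nat_lit 1) (nat_lit 229) (nat_lit 428) (nat_lit 363)))) (XT.nd (nat_lit 78) (nat_lit 152) (nat_lit 0) (XT.lf (nat_lit 152) (nat_lit 38030075047) (nat_lit 0) (nat_lit 21821204810) (nat_lit 76) (nat_lit 21821204810) (nat_lit 190) (nat_lit 1) (nat_lit 188) (nat_lit 1) (nat_lit 189) (nat_lit 1) (nat_lit 230) (nat_lit 428) (nat_lit 362)) (XT.nd (nat_lit 78) (nat_lit 152) (nat_lit 0) (XT.lf (nat_lit 0) (nat_lit 6320230826) (nat_lit 0) (nat_lit 67676906482) (nat_lit 152) (nat_lit 6320230826) (nat_lit 188) (nat_lit 3) (nat_lit 188) (nat_lit 1) (nat_lit 190) (nat_lit 1) (nat_lit 231) (nat_lit 428) (nat_lit 361)) (XT.lf (nat_lit 76) (nat_lit 33368774126) (nat_lit 0) (nat_lit 12227392717) (nat_lit 152) (nat_lit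 33368774126) (nat_lit 187) (nat_lit 1) (nat_lit 186) (nat_lit 1) (nat_lit 188) (nat_lit 1) (nat_lit 232) (nat_lit 428) (nat_lit 360)))))) (XT.nd (nat_lit 468) (nat_lit 532) (nat_lit 0) (XT.nd (nat_lit 234) (nat_lit 228) (nat_lit 0) (XT.nd (nat_lit 78) (nat_lit 152) (nat_lit 0) (XT.lf (nat_lit 152) (nat_lit 41743850777) (nat_lit 0) (nat_lit 17952359200) (nat_lit 76) (nat_lit 17952359200) (nat_lit 187) (nat_lit 1) (nat_lit 185) (nat_lit 1) (nat_lit 186) (nat_lit 1) (nat_lit 233) (nat_lit 428) (nat_lit 359)) (XT.nd (nat_lit 78) (nat_lit 152) (nat_lit 0) (XT.lf (nat_lit 0) (nat_lit 8628001974) (nat_lit 0) (nat_lit 59106290882) (nat_lit 152) (nat_lit 8628001974) (nat_lit 185) (nat_lit 3) (nat_lit 185) (nat_lit 1) (nat_lit 187) (nat_lit 1) (nat_lit 234) (nat_lit 428) (nat_lit 358)) (XT.lf (nat_lit 76) (nat_lit 34145983994) (nat_lit 0) (nat_lit 6794427741) (nat_lit 152) (nat_lit 34145983994) (nat_lit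 184) (nat_lit 1) (nat_lit 183) (nat_lit 1) (nat_lit 185) (nat_lit 1) (nat_lit 235) (nat_lit 428) (nat_lit 357)))) (XT.nd (nat_lit 78) (nat_lit 152) (nat_lit 0) (XT.lf (nat_lit 152) (nat_lit 44301258789) (nat_lit 0) (nat_lit 14769450342) (nat_lit 76) (nat_lit 14769450342) (nat_lit 184) (nat_lit 1) (nat_lit 182) (nat_lit 1) (nat_lit 183) (nat_lit 1) (nat_lit 236) (nat_lit 428) (nat_lit 356)) (XT.nd (nat_lit 78) (nat_lit 152) (nat_lit 0) (XT.lf (nat_lit 0) (nat_lit 10363357084) (nat_lit 0) (nat_lit 51891970291) (nat_lit 152) (nat_lit 10363357084) (nat_lit 182) (nat_lit 3) (nat_lit 182) (nat_lit 1) (nat_lit 184) (nat_lit 1) (nat_lit 237) (nat_lit 428) (nat_lit 355)) (XT.lf (nat_lit 76) (nat_lit 34466662622) (nat_lit 0) (nat_lit 2480193939) (nat_lit 152) (nat_lit 34466662622) (nat_lit 181) (nat_lit 1) (nat_lit 180) (nat_lit 1) (nat_lit 182) (nat_lit 1) (nat_lit 238) (nat_lit 428) (nat_lit 354))))) (XT.nd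 (nat_lit 234) (nat_lit 380) (nat_lit 0) (XT.nd (nat_lit 78) (nat_lit 76) (nat_lit 0) (XT.lf (nat_lit 152) (nat_lit 45931030906) (nat_lit 0) (nat_lit 12150863347) (nat_lit 76) (nat_lit 12150863347) (nat_lit 181) (nat_lit 1) (nat_lit 179) (nat_lit 1) (nat_lit 180) (nat_lit 1) (nat_lit 239) (nat_lit 428) (nat_lit 353)) (XT.nd (nat_lit 78) (nat_lit 76) (nat_lit 0) (XT.lf (nat_lit 0) (nat_lit 11635558098) (nat_lit 0) (nat_lit 45801250959) (nat_lit 152) (nat_lit 11635558098) (nat_lit 179) (nat_lit 3) (nat_lit 179) (nat_lit 1) (nat_lit 181) (nat_lit 1) (nat_lit 240) (nat_lit 428) (nat_lit 352)) (XT.lf (nat_lit 76) (nat_lit 951515192) (nat_lit 0) (nat_lit 33490270297) (nat_lit 76) (nat_lit 33490270297) (nat_lit 179) (nat_lit 3) (nat_lit 178) (nat_lit 1) (nat_lit 179) (nat_lit 1) (nat_lit 241) (nat_lit 428) (nat_lit 351)))) (XT.nd (nat_lit 156) (nat_lit 228) (nat_lit 0) (XT.nd (nat_lit 78) (nat_lit 0) (nat_lit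 0) (XT.lf (nat_lit 152) (nat_lit 46820216285) (nat_lit 0) (nat_lit 9996545347) (nat_lit 76) (nat_lit 9996545347) (nat_lit 178) (nat_lit 1) (nat_lit 176) (nat_lit 1) (nat_lit 177) (nat_lit 1) (nat_lit 242) (nat_lit 428) (nat_lit 350)) (XT.lf (nat_lit 0) (nat_lit 12534124898) (nat_lit 0) (nat_lit 40642324968) (nat_lit 152) (nat_lit 12534124898) (nat_lit 176) (nat_lit 3) (nat_lit 176) (nat_lit 1) (nat_lit 178) (nat_lit 1) (nat_lit 243) (nat_lit 428) (nat_lit 349))) (XT.nd (nat_lit 78) (nat_lit 152) (nat_lit 0) (XT.lf (nat_lit 76) (nat_lit 3696569867) (nat_lit 0) (nat_lit 30466284219) (nat_lit 76) (nat_lit 30466284219) (nat_lit 176) (nat_lit 3) (nat_lit 175) (nat_lit 1) (nat_lit 176) (nat_lit 1) (nat_lit 244) (nat_lit 428) (nat_lit 348)) (XT.lf (nat_lit 152) (nat_lit 47121625417) (nat_lit 0) (nat_lit 8224182596) (nat_lit 76) (nat_lit 8224182596) (nat_lit 175) (nat_lit 1) (nat_lit 173) (nat_lit 1) (nat_lit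 174) (nat_lit 1) (nat_lit 245) (nat_lit 428) (nat_lit 347))))))) (XT.nd (nat_lit 1014) (nat_lit 988) (nat_lit 0) (XT.nd (nat_lit 468) (nat_lit 456) (nat_lit 0) (XT.nd (nat_lit 234) (nat_lit 228) (nat_lit 0) (XT.nd (nat_lit 78) (nat_lit 228) (nat_lit 0) (XT.lf (nat_lit 0) (nat_lit 13132353150) (nat_lit 0) (nat_lit 36257038909) (nat_lit 152) (nat_lit 13132353150) (nat_lit 173) (nat_lit 3) (nat_lit 173) (nat_lit 1) (nat_lit 175) (nat_lit 1) (nat_lit 246) (nat_lit 428) (nat_lit 346)) (XT.nd (nat_lit 78) (nat_lit 152) (nat_lit 0) (XT.lf (nat_lit 76) (nat_lit 5816182858) (nat_lit 0) (nat_lit 27839693105) (nat_lit 76) (nat_lit 27839693105) (nat_lit 173) (nat_lit 3) (nat_lit 172) (nat_lit 1) (nat_lit 173) (nat_lit 1) (nat_lit 247) (nat_lit 428) (nat_lit 345)) (XT.lf (nat_lit 152) (nat_lit 46959951760) (nat_lit 0) (nat_lit 6766055375) (nat_lit 76) (nat_lit 6766055375) (nat_lit 172) (nat_lit 1) (nat_lit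 170) (nat_lit 1) (nat_lit 171) (nat_lit 1) (nat_lit 248) (nat_lit 428) (nat_lit 344)))) (XT.nd (nat_lit 78) (nat_lit 228) (nat_lit 0) (XT.lf (nat_lit 0) (nat_lit 13490207604) (nat_lit 0) (nat_lit 32514943807) (nat_lit 152) (nat_lit 13490207604) (nat_lit 170) (nat_lit 3) (nat_lit 170) (nat_lit 1) (nat_lit 172) (nat_lit 1) (nat_lit 249) (nat_lit 428) (nat_lit 343)) (XT.nd (nat_lit 78) (nat_lit 152) (nat_lit 0) (XT.lf (nat_lit 76) (nat_lit 7427850584) (nat_lit 0) (nat_lit 25546646967) (nat_lit 76) (nat_lit 25546646967) (nat_lit 170) (nat_lit 3) (nat_lit 169) (nat_lit 1) (nat_lit 170) (nat_lit 1) (nat_lit 250) (nat_lit 428) (nat_lit 342)) (XT.lf (nat_lit 152) (nat_lit 46436805589) (nat_lit 0) (nat_lit 5566450501) (nat_lit 76) (nat_lit 5566450501) (nat_lit 169) (nat_lit 1) (nat_lit 167) (nat_lit 1) (nat_lit 168) (nat_lit 1) (nat_lit 251) (nat_lit 428) (nat_lit 341))))) (XT.nd (nat_lit 234) (nat_lit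 228) (nat_lit 0) (XT.nd (nat_lit 78) (nat_lit 228) (nat_lit 0) (XT.lf (nat_lit 0) (nat_lit 13656701628) (nat_lit 0) (nat_lit 29308399184) (nat_lit 152) (nat_lit 13656701628) (nat_lit 167) (nat_lit 3) (nat_lit 167) (nat_lit 1) (nat_lit 169) (nat_lit 1) (nat_lit 252) (nat_lit 428) (nat_lit 340)) (XT.nd (nat_lit 78) (nat_lit 152) (nat_lit 0) (XT.lf (nat_lit 76) (nat_lit 8627923013) (nat_lit 0) (nat_lit 23534301638) (nat_lit 76) (nat_lit 23534301638) (nat_lit 167) (nat_lit 3) (nat_lit 166) (nat_lit 1) (nat_lit 167) (nat_lit 1) (nat_lit 253) (nat_lit 428) (nat_lit 339)) (XT.lf (nat_lit 152) (nat_lit 45634853032) (nat_lit 0) (nat_lit 4579532603) (nat_lit 76) (nat_lit 4579532603) (nat_lit 166) (nat_lit 1) (nat_lit 164) (nat_lit 1) (nat_lit 165) (nat_lit 1) (nat_lit 254) (nat_lit 428) (nat_lit 338)))) (XT.nd (nat_lit 156) (nat_lit 152) (nat_lit 0) (XT.nd (nat_lit 78) (nat_lit 76) (nat_lit 0) (XT.lf (nat_lit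 0) (nat_lit 13671854080) (nat_lit 0) (nat_lit 26548544394) (nat_lit 152) (nat_lit 13671854080) (nat_lit 164) (nat_lit 3) (nat_lit 164) (nat_lit 1) (nat_lit 166) (nat_lit 1) (nat_lit 255) (nat_lit 428) (nat_lit 337)) (XT.lf (nat_lit 76) (nat_lit 9495367857) (nat_lit 0) (nat_lit 21758882442) (nat_lit 76) (nat_lit 21758882442) (nat_lit 164) (nat_lit 3) (nat_lit 163) (nat_lit 1) (nat_lit 164) (nat_lit 1) (nat_lit 256) (nat_lit 428) (nat_lit 336))) (XT.nd (nat_lit 78) (nat_lit 0) (nat_lit 0) (XT.lf (nat_lit 152) (nat_lit 44621219052) (nat_lit 0) (nat_lit 3767592806) (nat_lit 76) (nat_lit 3767592806) (nat_lit 163) (nat_lit 1) (nat_lit 161) (nat_lit 1) (nat_lit 162) (nat_lit 1) (nat_lit 257) (nat_lit 428) (nat_lit 335)) (XT.lf (nat_lit 0) (nat_lit 13568298523) (nat_lit 0) (nat_lit 24161983511) (nat_lit 152) (nat_lit 13568298523) (nat_lit 161) (nat_lit 3) (nat_lit 161) (nat_lit 1) (nat_lit 163) (nat_lit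 1) (nat_lit 258) (nat_lit 428) (nat_lit 334)))))) (XT.nd (nat_lit 468) (nat_lit 532) (nat_lit 0) (XT.nd (nat_lit 234) (nat_lit 228) (nat_lit 0) (XT.nd (nat_lit 78) (nat_lit 152) (nat_lit 0) (XT.lf (nat_lit 76) (nat_lit 10094866676) (nat_lit 0) (nat_lit 20184090475) (nat_lit 76) (nat_lit 20184090475) (nat_lit 161) (nat_lit 3) (nat_lit 160) (nat_lit 1) (nat_lit 161) (nat_lit 1) (nat_lit 259) (nat_lit 428) (nat_lit 333)) (XT.nd (nat_lit 78) (nat_lit 0) (nat_lit 0) (XT.lf (nat_lit 152) (nat_lit 43450284987) (nat_lit 0) (nat_lit 3099607925) (nat_lit 76) (nat_lit 3099607925) (nat_lit 160) (nat_lit 1) (nat_lit 158) (nat_lit 1) (nat_lit 159) (nat_lit 1) (nat_lit 260) (nat_lit 428) (nat_lit 332)) (XT.lf (nat_lit 0) (nat_lit 13372606427) (nat_lit 0) (nat_lit 22088057284) (nat_lit 152) (nat_lit 13372606427) (nat_lit 158) (nat_lit 3) (nat_lit 158) (nat_lit 1) (nat_lit 160) (nat_lit 1) (nat_lit 261) (nat_lit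 428) (nat_lit 331)))) (XT.nd (nat_lit 78) (nat_lit 152) (nat_lit 0) (XT.lf (nat_lit 76) (nat_lit 10479361360) (nat_lit 0) (nat_lit 18779790747) (nat_lit 76) (nat_lit 18779790747) (nat_lit 158) (nat_lit 3) (nat_lit 157) (nat_lit 1) (nat_lit 158) (nat_lit 1) (nat_lit 262) (nat_lit 428) (nat_lit 330)) (XT.nd (nat_lit 78) (nat_lit 0) (nat_lit 0) (XT.lf (nat_lit 152) (nat_lit 42165988078) (nat_lit 0) (nat_lit 2550055111) (nat_lit 76) (nat_lit 2550055111) (nat_lit 157) (nat_lit 1) (nat_lit 155) (nat_lit 1) (nat_lit 156) (nat_lit 1) (nat_lit 263) (nat_lit 428) (nat_lit 329)) (XT.lf (nat_lit 0) (nat_lit 13106375120) (nat_lit 0) (nat_lit 20276598109) (nat_lit 152) (nat_lit 13106375120) (nat_lit 155) (nat_lit 3) (nat_lit 155) (nat_lit 1) (nat_lit 157) (nat_lit 1) (nat_lit 264) (nat_lit 428) (nat_lit 328))))) (XT.nd (nat_lit 234) (nat_lit 304) (nat_lit 0) (XT.nd (nat_lit 78) (nat_lit 152) (nat_lit 0) (XT.lf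 (nat_lit 76) (nat_lit 10692148489) (nat_lit 0) (nat_lit 17520932288) (nat_lit 76) (nat_lit 17520932288) (nat_lit 155) (nat_lit 3) (nat_lit 154) (nat_lit 1) (nat_lit 155) (nat_lit 1) (nat_lit 265) (nat_lit 428) (nat_lit 327)) (XT.nd (nat_lit 78) (nat_lit 0) (nat_lit 0) (XT.lf (nat_lit 152) (nat_lit 40803711401) (nat_lit 0) (nat_lit 2097936651) (nat_lit 76) (nat_lit 2097936651) (nat_lit 154) (nat_lit 1) (nat_lit 152) (nat_lit 1) (nat_lit 153) (nat_lit 1) (nat_lit 266) (nat_lit 428) (nat_lit 326)) (XT.lf (nat_lit 0) (nat_lit 12787122216) (nat_lit 0) (nat_lit 18686082414) (nat_lit 152) (nat_lit 12787122216) (nat_lit 152) (nat_lit 3) (nat_lit 152) (nat_lit 1) (nat_lit 154) (nat_lit 1) (nat_lit 267) (nat_lit 428) (nat_lit 325)))) (XT.nd (nat_lit 156) (nat_lit 76) (nat_lit 0) (XT.nd (nat_lit 78) (nat_lit 152) (nat_lit 0) (XT.lf (nat_lit 76) (nat_lit 10768601751) (nat_lit 0) (nat_lit 16386659082) (nat_lit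 76) (nat_lit 16386659082) (nat_lit 152) (nat_lit 3) (nat_lit 151) (nat_lit 1) (nat_lit 152) (nat_lit 1) (nat_lit 268) (nat_lit 428) (nat_lit 324)) (XT.lf (nat_lit 152) (nat_lit 39391836880) (nat_lit 0) (nat_lit 1725977674) (nat_lit 76) (nat_lit 1725977674) (nat_lit 151) (nat_lit 1) (nat_lit 149) (nat_lit 1) (nat_lit 150) (nat_lit 1) (nat_lit 269) (nat_lit 428) (nat_lit 323))) (XT.nd (nat_lit 78) (nat_lit 76) (nat_lit 0) (XT.lf (nat_lit 0) (nat_lit 12429020873) (nat_lit 0) (nat_lit 17282110026) (nat_lit 152) (nat_lit 12429020873) (nat_lit 149) (nat_lit 3) (nat_lit 149) (nat_lit 1) (nat_lit 151) (nat_lit 1) (nat_lit 270) (nat_lit 428) (nat_lit 322)) (XT.lf (nat_lit 76) (nat_lit 10737588385) (nat_lit 0) (nat_lit 15359578055) (nat_lit 76) (nat_lit 15359578055) (nat_lit 149) (nat_lit 3) (nat_lit 148) (nat_lit 1) (nat_lit 149) (nat_lit 1) (nat_lit 271) (nat_lit 428) (nat_lit 321))))))))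
noncomputable def ec396 : XT := (XT.nd (nat_lit 1950) (nat_lit 1824) (nat_lit 0) (XT.nd (nat_lit 936) (nat_lit 1064) (nat_lit 0) (XT.nd (nat_lit 468) (nat_lit 456) (nat_lit 0) (XT.nd (nat_lit 234) (nat_lit 228) (nat_lit 0) (XT.nd (nat_lit 78) (nat_lit 76) (nat_lit 0) (XT.lf (nat_lit 152) (nat_lit 37953021241) (nat_lit 0) (nat_lit 1419966104) (nat_lit 76) (nat_lit 1419966104) (nat_lit 148) (nat_lit 1) (nat_lit 146) (nat_lit 1) (nat_lit 147) (nat_lit 1) (nat_lit 272) (nat_lit 428) (nat_lit 320)) (XT.nd (nat_lit 78) (nat_lit 76) (nat_lit 0) (XT.lf (nat_lit 0) (nat_lit 12043504117) (nat_lit 0) (nat_lit 16036152574) (nat_lit 152) (nat_lit 12043504117) (nat_lit 146) (nat_lit 3) (nat_lit 146) (nat_lit 1) (nat_lit 148) (nat_lit 1) (nat_lit 273) (nat_lit 428) (nat_lit 319)) (XT.lf (nat_lit 76) (nat_lit 10622633941) (nat_lit 0) (nat_lit 14425156281) (nat_lit 76) (nat_lit 14425156281) (nat_lit 146) (nat_lit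 3) (nat_lit 145) (nat_lit 1) (nat_lit 146) (nat_lit 1) (nat_lit 274) (nat_lit 428) (nat_lit 318)))) (XT.nd (nat_lit 78) (nat_lit 76) (nat_lit 0) (XT.lf (nat_lit 152) (nat_lit 36505244074) (nat_lit 0) (nat_lit 1168209628) (nat_lit 76) (nat_lit 1168209628) (nat_lit 145) (nat_lit 1) (nat_lit 143) (nat_lit 1) (nat_lit 144) (nat_lit 1) (nat_lit 275) (nat_lit 428) (nat_lit 317)) (XT.nd (nat_lit 78) (nat_lit 76) (nat_lit 0) (XT.lf (nat_lit 0) (nat_lit 11639761486) (nat_lit 0) (nat_lit 14924523253) (nat_lit 152) (nat_lit 11639761486) (nat_lit 143) (nat_lit 3) (nat_lit 143) (nat_lit 1) (nat_lit 145) (nat_lit 1) (nat_lit 276) (nat_lit 428) (nat_lit 316)) (XT.lf (nat_lit 76) (nat_lit 10442879998) (nat_lit 0) (nat_lit 13571224538) (nat_lit 76) (nat_lit 13571224538) (nat_lit 143) (nat_lit 3) (nat_lit 142) (nat_lit 1) (nat_lit 143) (nat_lit 1) (nat_lit 277) (nat_lit 428) (nat_lit 315))))) (XT.nd (nat_lit 234)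 (nat_lit 228) (nat_lit 0) (XT.nd (nat_lit 78) (nat_lit 76) (nat_lit 0) (XT.lf (nat_lit 152) (nat_lit 35062668523) (nat_lit 0) (nat_lit 961088952) (nat_lit 76) (nat_lit 961088952) (nat_lit 142) (nat_lit 1) (nat_lit 140) (nat_lit 1) (nat_lit 141) (nat_lit 1) (nat_lit 278) (nat_lit 428) (nat_lit 314)) (XT.nd (nat_lit 78) (nat_lit 76) (nat_lit 0) (XT.lf (nat_lit 0) (nat_lit 11225147099) (nat_lit 0) (nat_lit 13927528733) (nat_lit 152) (nat_lit 11225147099) (nat_lit 140) (nat_lit 3) (nat_lit 140) (nat_lit 1) (nat_lit 142) (nat_lit 1) (nat_lit 279) (nat_lit 428) (nat_lit 313)) (XT.lf (nat_lit 76) (nat_lit 10213871567) (nat_lit 0) (nat_lit 12787568361) (nat_lit 76) (nat_lit 12787568361) (nat_lit 140) (nat_lit 3) (nat_lit 139) (nat_lit 1) (nat_lit 140) (nat_lit 1) (nat_lit 280) (nat_lit 428) (nat_lit 312)))) (XT.nd (nat_lit 78) (nat_lit 76) (nat_lit 0) (XT.lf (nat_lit 152) (nat_lit 33636347861) (nat_lit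 0) (nat_lit 790690259) (nat_lit 76) (nat_lit 790690259) (nat_lit 139) (nat_lit 1) (nat_lit 137) (nat_lit 1) (nat_lit 138) (nat_lit 1) (nat_lit 281) (nat_lit 428) (nat_lit 311)) (XT.nd (nat_lit 78) (nat_lit 76) (nat_lit 0) (XT.lf (nat_lit 0) (nat_lit 10805514887) (nat_lit 0) (nat_lit 13028770945) (nat_lit 152) (nat_lit 10805514887) (nat_lit 137) (nat_lit 3) (nat_lit 137) (nat_lit 1) (nat_lit 139) (nat_lit 1) (nat_lit 282) (nat_lit 428) (nat_lit 310)) (XT.lf (nat_lit 76) (nat_lit 9948204413) (nat_lit 0) (nat_lit 12065591136) (nat_lit 76) (nat_lit 12065591136) (nat_lit 137) (nat_lit 3) (nat_lit 136) (nat_lit 1) (nat_lit 137) (nat_lit 1) (nat_lit 283) (nat_lit 428) (nat_lit 309)))))) (XT.nd (nat_lit 468) (nat_lit 608) (nat_lit 0) (XT.nd (nat_lit 234) (nat_lit 228) (nat_lit 0) (XT.nd (nat_lit 78) (nat_lit 76) (nat_lit 0) (XT.lf (nat_lit 152) (nat_lit 32234805386) (nat_lit 0) (nat_lit 650502833) (nat_lit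 76) (nat_lit 650502833) (nat_lit 136) (nat_lit 1) (nat_lit 134) (nat_lit 1) (nat_lit 135) (nat_lit 1) (nat_lit 284) (nat_lit 428) (nat_lit 308)) (XT.nd (nat_lit 78) (nat_lit 76) (nat_lit 0) (XT.lf (nat_lit 0) (nat_lit 10385493923) (nat_lit 0) (nat_lit 12214572184) (nat_lit 152) (nat_lit 10385493923) (nat_lit 134) (nat_lit 3) (nat_lit 134) (nat_lit 1) (nat_lit 136) (nat_lit 1) (nat_lit 285) (nat_lit 428) (nat_lit 307)) (XT.lf (nat_lit 76) (nat_lit 9656057151) (nat_lit 0) (nat_lit 11398036448) (nat_lit 76) (nat_lit 11398036448) (nat_lit 134) (nat_lit 3) (nat_lit 133) (nat_lit 1) (nat_lit 134) (nat_lit 1) (nat_lit 286) (nat_lit 428) (nat_lit 306)))) (XT.nd (nat_lit 78) (nat_lit 76) (nat_lit 0) (XT.lf (nat_lit 152) (nat_lit 30864510125) (nat_lit 0) (nat_lit 535170290) (nat_lit 76) (nat_lit 535170290) (nat_lit 133) (nat_lit 1) (nat_lit 131) (nat_lit 1) (nat_lit 132) (nat_lit 1) (nat_lit 287) (nat_lit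 428) (nat_lit 305)) (XT.nd (nat_lit 78) (nat_lit 76) (nat_lit 0) (XT.lf (nat_lit 0) (nat_lit 9968714490) (nat_lit 0) (nat_lit 11473501702) (nat_lit 152) (nat_lit 9968714490) (nat_lit 131) (nat_lit 3) (nat_lit 131) (nat_lit 1) (nat_lit 133) (nat_lit 1) (nat_lit 288) (nat_lit 428) (nat_lit 304)) (XT.lf (nat_lit 76) (nat_lit 9345628553) (nat_lit 0) (nat_lit 10778759232) (nat_lit 76) (nat_lit 10778759232) (nat_lit 131) (nat_lit 3) (nat_lit 130) (nat_lit 1) (nat_lit 131) (nat_lit 1) (nat_lit 289) (nat_lit 428) (nat_lit 303))))) (XT.nd (nat_lit 234) (nat_lit 380) (nat_lit 0) (XT.nd (nat_lit 78) (nat_lit 76) (nat_lit 0) (XT.lf (nat_lit 152) (nat_lit 29530266919) (nat_lit 0) (nat_lit 440285922) (nat_lit 76) (nat_lit 440285922) (nat_lit 130) (nat_lit 1) (nat_lit 128) (nat_lit 1) (nat_lit 129) (nat_lit 1) (nat_lit 290) (nat_lit 428) (nat_lit 302)) (XT.nd (nat_lit 78) (nat_lit 76) (nat_lit 0) (XT.lf (nat_lit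 0) (nat_lit 9557993641) (nat_lit 0) (nat_lit 10795985804) (nat_lit 152) (nat_lit 9557993641) (nat_lit 128) (nat_lit 3) (nat_lit 128) (nat_lit 1) (nat_lit 130) (nat_lit 1) (nat_lit 291) (nat_lit 428) (nat_lit 301)) (XT.lf (nat_lit 76) (nat_lit 9023496919) (nat_lit 0) (nat_lit 10202537074) (nat_lit 76) (nat_lit 10202537074) (nat_lit 128) (nat_lit 3) (nat_lit 127) (nat_lit 1) (nat_lit 128) (nat_lit 1) (nat_lit 292) (nat_lit 428) (nat_lit 300)))) (XT.nd (nat_lit 156) (nat_lit 228) (nat_lit 0) (XT.nd (nat_lit 78) (nat_lit 0) (nat_lit 0) (XT.lf (nat_lit 152) (nat_lit 28235536110) (nat_lit 0) (nat_lit 362224318) (nat_lit 76) (nat_lit 362224318) (nat_lit 127) (nat_lit 1) (nat_lit 125) (nat_lit 1) (nat_lit 126) (nat_lit 1) (nat_lit 293) (nat_lit 428) (nat_lit 299)) (XT.lf (nat_lit 0) (nat_lit 9155487460) (nat_lit 0) (nat_lit 10173986676) (nat_lit 152) (nat_lit 9155487460) (nat_lit 125) (nat_lit 3) (nat_lit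 125) (nat_lit 1) (nat_lit 127) (nat_lit 1) (nat_lit 294) (nat_lit 428) (nat_lit 298))) (XT.nd (nat_lit 78) (nat_lit 152) (nat_lit 0) (XT.lf (nat_lit 76) (nat_lit 8694915322) (nat_lit 0) (nat_lit 9664914576) (nat_lit 76) (nat_lit 9664914576) (nat_lit 125) (nat_lit 3) (nat_lit 124) (nat_lit 1) (nat_lit 125) (nat_lit 1) (nat_lit 295) (nat_lit 428) (nat_lit 297)) (XT.lf (nat_lit 152) (nat_lit 26982695373) (nat_lit 0) (nat_lit 298002843) (nat_lit 76) (nat_lit 298002843) (nat_lit 124) (nat_lit 1) (nat_lit 122) (nat_lit 1) (nat_lit 123) (nat_lit 1) (nat_lit 296) (nat_lit 428) (nat_lit 296))))))) (XT.nd (nat_lit 936) (nat_lit 912) (nat_lit 0) (XT.nd (nat_lit 468) (nat_lit 456) (nat_lit 0) (XT.nd (nat_lit 234) (nat_lit 228) (nat_lit 0) (XT.nd (nat_lit 78) (nat_lit 228) (nat_lit 0) (XT.lf (nat_lit 0) (nat_lit 8762815941) (nat_lit 0) (nat_lit 9600737767) (nat_lit 152) (nat_lit 8762815941) (nat_lit 122) (nat_lit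 3) (nat_lit 122) (nat_lit 1) (nat_lit 124) (nat_lit 1) (nat_lit 297) (nat_lit 428) (nat_lit 295)) (XT.nd (nat_lit 78) (nat_lit 152) (nat_lit 0) (XT.lf (nat_lit 76) (nat_lit 8364054140) (nat_lit 0) (nat_lit 9162074927) (nat_lit 76) (nat_lit 9162074927) (nat_lit 122) (nat_lit 3) (nat_lit 121) (nat_lit 1) (nat_lit 122) (nat_lit 1) (nat_lit 298) (nat_lit 428) (nat_lit 294)) (XT.lf (nat_lit 152) (nat_lit 25773254010) (nat_lit 0) (nat_lit 245167676) (nat_lit 76) (nat_lit 245167676) (nat_lit 121) (nat_lit 1) (nat_lit 119) (nat_lit 1) (nat_lit 120) (nat_lit 1) (nat_lit 299) (nat_lit 428) (nat_lit 293)))) (XT.nd (nat_lit 78) (nat_lit 228) (nat_lit 0) (XT.lf (nat_lit 0) (nat_lit 8381165361) (nat_lit 0) (nat_lit 9070525721) (nat_lit 152) (nat_lit 8381165361) (nat_lit 119) (nat_lit 3) (nat_lit 119) (nat_lit 1) (nat_lit 121) (nat_lit 1) (nat_lit 300) (nat_lit 428) (nat_lit 292)) (XT.nd (nat_lit 78) (nat_lit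 152) (nat_lit 0) (XT.lf (nat_lit 76) (nat_lit 8034200218) (nat_lit 0) (nat_lit 8690733894) (nat_lit 76) (nat_lit 8690733894) (nat_lit 119) (nat_lit 3) (nat_lit 118) (nat_lit 1) (nat_lit 119) (nat_lit 1) (nat_lit 301) (nat_lit 428) (nat_lit 291)) (XT.lf (nat_lit 152) (nat_lit 24608028191) (nat_lit 0) (nat_lit 201700054) (nat_lit 76) (nat_lit 201700054) (nat_lit 118) (nat_lit 1) (nat_lit 116) (nat_lit 1) (nat_lit 117) (nat_lit 1) (nat_lit 302) (nat_lit 428) (nat_lit 290))))) (XT.nd (nat_lit 234) (nat_lit 228) (nat_lit 0) (XT.nd (nat_lit 78) (nat_lit 228) (nat_lit 0) (XT.lf (nat_lit 0) (nat_lit 8011372151) (nat_lit 0) (nat_lit 8578510625) (nat_lit 152) (nat_lit 8011372151) (nat_lit 116) (nat_lit 3) (nat_lit 116) (nat_lit 1) (nat_lit 118) (nat_lit 1) (nat_lit 303) (nat_lit 428) (nat_lit 289)) (XT.nd (nat_lit 78) (nat_lit 152) (nat_lit 0) (XT.lf (nat_lit 76) (nat_lit 7707920380) (nat_lit 0) (nat_lit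 8248052261) (nat_lit 76) (nat_lit 8248052261) (nat_lit 116) (nat_lit 3) (nat_lit 115) (nat_lit 1) (nat_lit 116) (nat_lit 1) (nat_lit 304) (nat_lit 428) (nat_lit 288)) (XT.lf (nat_lit 152) (nat_lit 23487284106) (nat_lit 0) (nat_lit 165939133) (nat_lit 76) (nat_lit 165939133) (nat_lit 115) (nat_lit 1) (nat_lit 113) (nat_lit 1) (nat_lit 114) (nat_lit 1) (nat_lit 305) (nat_lit 428) (nat_lit 287)))) (XT.nd (nat_lit 78) (nat_lit 228) (nat_lit 0) (XT.lf (nat_lit 0) (nat_lit 7653991568) (nat_lit 0) (nat_lit 8120577794) (nat_lit 152) (nat_lit 7653991568) (nat_lit 113) (nat_lit 3) (nat_lit 113) (nat_lit 1) (nat_lit 115) (nat_lit 1) (nat_lit 306) (nat_lit 428) (nat_lit 286)) (XT.nd (nat_lit 78) (nat_lit 152) (nat_lit 0) (XT.lf (nat_lit 76) (nat_lit 7387195628) (nat_lit 0) (nat_lit 7831563463) (nat_lit 76) (nat_lit 7831563463) (nat_lit 113) (nat_lit 3) (nat_lit 112) (nat_lit 1) (nat_lit 113) (nat_lit 1) (nat_lit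 307) (nat_lit 428) (nat_lit 285)) (XT.lf (nat_lit 152) (nat_lit 22410854772) (nat_lit 0) (nat_lit 136518535) (nat_lit 76) (nat_lit 136518535) (nat_lit 112) (nat_lit 1) (nat_lit 110) (nat_lit 1) (nat_lit 111) (nat_lit 1) (nat_lit 308) (nat_lit 428) (nat_lit 284)))))) (XT.nd (nat_lit 468) (nat_lit 456) (nat_lit 0) (XT.nd (nat_lit 234) (nat_lit 228) (nat_lit 0) (XT.nd (nat_lit 78) (nat_lit 228) (nat_lit 0) (XT.lf (nat_lit 0) (nat_lit 7309353875) (nat_lit 0) (nat_lit 7693215518) (nat_lit 152) (nat_lit 7309353875) (nat_lit 110) (nat_lit 3) (nat_lit 110) (nat_lit 1) (nat_lit 112) (nat_lit 1) (nat_lit 309) (nat_lit 428) (nat_lit 283)) (XT.nd (nat_lit 78) (nat_lit 152) (nat_lit 0) (XT.lf (nat_lit 76) (nat_lit 7073531226) (nat_lit 0) (nat_lit 7439113743) (nat_lit 76) (nat_lit 7439113743) (nat_lit 110) (nat_lit 3) (nat_lit 109) (nat_lit 1) (nat_lit 110) (nat_lit 1) (nat_lit 310) (nat_lit 428) (nat_lit 282))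 (XT.lf (nat_lit 152) (nat_lit 21378235219) (nat_lit 0) (nat_lit 112314137) (nat_lit 76) (nat_lit 112314137) (nat_lit 109) (nat_lit 1) (nat_lit 107) (nat_lit 1) (nat_lit 108) (nat_lit 1) (nat_lit 311) (nat_lit 428) (nat_lit 281)))) (XT.nd (nat_lit 78) (nat_lit 228) (nat_lit 0) (XT.lf (nat_lit 0) (nat_lit 6977610255) (nat_lit 0) (nat_lit 7293414178) (nat_lit 152) (nat_lit 6977610255) (nat_lit 107) (nat_lit 3) (nat_lit 107) (nat_lit 1) (nat_lit 109) (nat_lit 1) (nat_lit 312) (nat_lit 428) (nat_lit 280)) (XT.nd (nat_lit 78) (nat_lit 152) (nat_lit 0) (XT.lf (nat_lit 76) (nat_lit 6768046979) (nat_lit 0) (nat_lit 7068812621) (nat_lit 76) (nat_lit 7068812621) (nat_lit 107) (nat_lit 3) (nat_lit 106) (nat_lit 1) (nat_lit 107) (nat_lit 1) (nat_lit 313) (nat_lit 428) (nat_lit 279)) (XT.lf (nat_lit 152) (nat_lit 20388659912) (nat_lit 0) (nat_lit 92401118) (nat_lit 76) (nat_lit 92401118) (nat_lit 106) (nat_lit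 1) (nat_lit 104) (nat_lit 1) (nat_lit 105) (nat_lit 1) (nat_lit 314) (nat_lit 428) (nat_lit 278))))) (XT.nd (nat_lit 234) (nat_lit 228) (nat_lit 0) (XT.nd (nat_lit 78) (nat_lit 228) (nat_lit 0) (XT.lf (nat_lit 0) (nat_lit 6658770304) (nat_lit 0) (nat_lit 6918582973) (nat_lit 152) (nat_lit 6658770304) (nat_lit 104) (nat_lit 3) (nat_lit 104) (nat_lit 1) (nat_lit 106) (nat_lit 1) (nat_lit 315) (nat_lit 428) (nat_lit 277)) (XT.nd (nat_lit 78) (nat_lit 152) (nat_lit 0) (XT.lf (nat_lit 76) (nat_lit 6471551222) (nat_lit 0) (nat_lit 6718991860) (nat_lit 76) (nat_lit 6718991860) (nat_lit 104) (nat_lit 3) (nat_lit 103) (nat_lit 1) (nat_lit 104) (nat_lit 1) (nat_lit 316) (nat_lit 428) (nat_lit 276)) (XT.lf (nat_lit 152) (nat_lit 19441165625) (nat_lit 0) (nat_lit 76018629) (nat_lit 76) (nat_lit 76018629) (nat_lit 103) (nat_lit 1) (nat_lit 101) (nat_lit 1) (nat_lit 102) (nat_lit 1) (nat_lit 317) (nat_lit 428)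 (nat_lit 275)))) (XT.nd (nat_lit 156) (nat_lit 152) (nat_lit 0) (XT.nd (nat_lit 78) (nat_lit 76) (nat_lit 0) (XT.lf (nat_lit 0) (nat_lit 6352732597) (nat_lit 0) (nat_lit 6566481124) (nat_lit 152) (nat_lit 6352732597) (nat_lit 101) (nat_lit 3) (nat_lit 101) (nat_lit 1) (nat_lit 103) (nat_lit 1) (nat_lit 318) (nat_lit 428) (nat_lit 274)) (XT.lf (nat_lit 76) (nat_lit 6184601418) (nat_lit 0) (nat_lit 6388171443) (nat_lit 76) (nat_lit 6388171443) (nat_lit 101) (nat_lit 3) (nat_lit 100) (nat_lit 1) (nat_lit 101) (nat_lit 1) (nat_lit 319) (nat_lit 428) (nat_lit 273))) (XT.nd (nat_lit 78) (nat_lit 0) (nat_lit 0) (XT.lf (nat_lit 152) (nat_lit 18534642366) (nat_lit 0) (nat_lit 62540714) (nat_lit 76) (nat_lit 62540714) (nat_lit 100) (nat_lit 1) (nat_lit 98) (nat_lit 1) (nat_lit 99) (nat_lit 1) (nat_lit 320) (nat_lit 428) (nat_lit 272)) (XT.lf (nat_lit 0) (nat_lit 6059309581) (nat_lit 0) (nat_lit 6235161023)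 (nat_lit 152) (nat_lit 6059309581) (nat_lit 98) (nat_lit 3) (nat_lit 98) (nat_lit 1) (nat_lit 100) (nat_lit 1) (nat_lit 321) (nat_lit 428) (nat_lit 271))))))))
noncomputable def ec397 : XT := (XT.nd (nat_lit 1950) (nat_lit 1976) (nat_lit 0) (XT.nd (nat_lit 936) (nat_lit 988) (nat_lit 0) (XT.nd (nat_lit 468) (nat_lit 456) (nat_lit 0) (XT.nd (nat_lit 234) (nat_lit 228) (nat_lit 0) (XT.nd (nat_lit 78) (nat_lit 152) (nat_lit 0) (XT.lf (nat_lit 76) (nat_lit 5907553761) (nat_lit 0) (nat_lit 6075031325) (nat_lit 76) (nat_lit 6075031325) (nat_lit 98) (nat_lit 3) (nat_lit 97) (nat_lit 1) (nat_lit 98) (nat_lit 1) (nat_lit 322) (nat_lit 428) (nat_lit 270)) (XT.nd (nat_lit 78) (nat_lit 0) (nat_lit 0) (XT.lf (nat_lit 152) (nat_lit 17667874519) (nat_lit 0) (nat_lit 51452400) (nat_lit 76) (nat_lit 51452400) (nat_lit 97) (nat_lit 1) (nat_lit 95) (nat_lit 1) (nat_lit 96) (nat_lit 1) (nat_lit 323) (nat_lit 428)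 (nat_lit 269)) (XT.lf (nat_lit 0) (nat_lit 5778247799) (nat_lit 0) (nat_lit 5922921216) (nat_lit 152) (nat_lit 5778247799) (nat_lit 95) (nat_lit 3) (nat_lit 95) (nat_lit 1) (nat_lit 97) (nat_lit 1) (nat_lit 324) (nat_lit 428) (nat_lit 268)))) (XT.nd (nat_lit 78) (nat_lit 152) (nat_lit 0) (XT.lf (nat_lit 76) (nat_lit 5640603736) (nat_lit 0) (nat_lit 5778387942) (nat_lit 76) (nat_lit 5778387942) (nat_lit 95) (nat_lit 3) (nat_lit 94) (nat_lit 1) (nat_lit 95) (nat_lit 1) (nat_lit 325) (nat_lit 428) (nat_lit 267)) (XT.nd (nat_lit 78) (nat_lit 0) (nat_lit 0) (XT.lf (nat_lit 152) (nat_lit 16839573972) (nat_lit 0) (nat_lit 42330017) (nat_lit 76) (nat_lit 42330017) (nat_lit 94) (nat_lit 1) (nat_lit 92) (nat_lit 1) (nat_lit 93) (nat_lit 1) (nat_lit 326) (nat_lit 428) (nat_lit 266)) (XT.lf (nat_lit 0) (nat_lit 5509244299) (nat_lit 0) (nat_lit 5628267477) (nat_lit 152) (nat_lit 5509244299) (nat_lit 92) (nat_lit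 3) (nat_lit 92) (nat_lit 1) (nat_lit 94) (nat_lit 1) (nat_lit 327) (nat_lit 428) (nat_lit 265))))) (XT.nd (nat_lit 234) (nat_lit 228) (nat_lit 0) (XT.nd (nat_lit 78) (nat_lit 152) (nat_lit 0) (XT.lf (nat_lit 76) (nat_lit 5383819260) (nat_lit 0) (nat_lit 5497174667) (nat_lit 76) (nat_lit 5497174667) (nat_lit 92) (nat_lit 3) (nat_lit 91) (nat_lit 1) (nat_lit 92) (nat_lit 1) (nat_lit 328) (nat_lit 428) (nat_lit 264)) (XT.nd (nat_lit 78) (nat_lit 0) (nat_lit 0) (XT.lf (nat_lit 152) (nat_lit 16048406686) (nat_lit 0) (nat_lit 34825009) (nat_lit 76) (nat_lit 34825009) (nat_lit 91) (nat_lit 1) (nat_lit 89) (nat_lit 1) (nat_lit 90) (nat_lit 1) (nat_lit 329) (nat_lit 428) (nat_lit 263)) (XT.lf (nat_lit 0) (nat_lit 5251959904) (nat_lit 0) (nat_lit 5349880567) (nat_lit 152) (nat_lit 5251959904) (nat_lit 89) (nat_lit 3) (nat_lit 89) (nat_lit 1) (nat_lit 91) (nat_lit 1) (nat_lit 330) (nat_lit 428) (nat_lit 262))))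 (XT.nd (nat_lit 78) (nat_lit 152) (nat_lit 0) (XT.lf (nat_lit 76) (nat_lit 5137167721) (nat_lit 0) (nat_lit 5230425495) (nat_lit 76) (nat_lit 5230425495) (nat_lit 89) (nat_lit 3) (nat_lit 88) (nat_lit 1) (nat_lit 89) (nat_lit 1) (nat_lit 331) (nat_lit 428) (nat_lit 261)) (XT.nd (nat_lit 78) (nat_lit 0) (nat_lit 0) (XT.lf (nat_lit 152) (nat_lit 15293013902) (nat_lit 0) (nat_lit 28650621) (nat_lit 76) (nat_lit 28650621) (nat_lit 88) (nat_lit 1) (nat_lit 86) (nat_lit 1) (nat_lit 87) (nat_lit 1) (nat_lit 332) (nat_lit 428) (nat_lit 260)) (XT.lf (nat_lit 0) (nat_lit 5006029921) (nat_lit 0) (nat_lit 5086589492) (nat_lit 152) (nat_lit 5006029921) (nat_lit 86) (nat_lit 3) (nat_lit 86) (nat_lit 1) (nat_lit 88) (nat_lit 1) (nat_lit 333) (nat_lit 428) (nat_lit 259)))))) (XT.nd (nat_lit 468) (nat_lit 532) (nat_lit 0) (XT.nd (nat_lit 234) (nat_lit 228) (nat_lit 0) (XT.nd (nat_lit 78) (nat_lit 152) (nat_lit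 0) (XT.lf (nat_lit 76) (nat_lit 4900538018) (nat_lit 0) (nat_lit 4977261420) (nat_lit 76) (nat_lit 4977261420) (nat_lit 86) (nat_lit 3) (nat_lit 85) (nat_lit 1) (nat_lit 86) (nat_lit 1) (nat_lit 334) (nat_lit 428) (nat_lit 258)) (XT.nd (nat_lit 78) (nat_lit 0) (nat_lit 0) (XT.lf (nat_lit 152) (nat_lit 14572028961) (nat_lit 0) (nat_lit 23570937) (nat_lit 76) (nat_lit 23570937) (nat_lit 85) (nat_lit 1) (nat_lit 83) (nat_lit 1) (nat_lit 84) (nat_lit 1) (nat_lit 335) (nat_lit 428) (nat_lit 257)) (XT.lf (nat_lit 0) (nat_lit 4771072738) (nat_lit 0) (nat_lit 4837349297) (nat_lit 152) (nat_lit 4771072738) (nat_lit 83) (nat_lit 3) (nat_lit 83) (nat_lit 1) (nat_lit 85) (nat_lit 1) (nat_lit 336) (nat_lit 428) (nat_lit 256)))) (XT.nd (nat_lit 78) (nat_lit 152) (nat_lit 0) (XT.lf (nat_lit 76) (nat_lit 4673758490) (nat_lit 0) (nat_lit 4736879022) (nat_lit 76) (nat_lit 4736879022) (nat_lit 83) (nat_lit 3) (nat_lit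 82) (nat_lit 1) (nat_lit 83) (nat_lit 1) (nat_lit 337) (nat_lit 428) (nat_lit 255)) (XT.nd (nat_lit 78) (nat_lit 0) (nat_lit 0) (XT.lf (nat_lit 152) (nat_lit 13884090552) (nat_lit 0) (nat_lit 19391868) (nat_lit 76) (nat_lit 19391868) (nat_lit 82) (nat_lit 1) (nat_lit 80) (nat_lit 1) (nat_lit 81) (nat_lit 1) (nat_lit 338) (nat_lit 428) (nat_lit 254)) (XT.lf (nat_lit 0) (nat_lit 4546696714) (nat_lit 0) (nat_lit 4601222603) (nat_lit 152) (nat_lit 4546696714) (nat_lit 80) (nat_lit 3) (nat_lit 80) (nat_lit 1) (nat_lit 82) (nat_lit 1) (nat_lit 339) (nat_lit 428) (nat_lit 253))))) (XT.nd (nat_lit 234) (nat_lit 304) (nat_lit 0) (XT.nd (nat_lit 78) (nat_lit 152) (nat_lit 0) (XT.lf (nat_lit 76) (nat_lit 4456611471) (nat_lit 0) (nat_lit 4508540889) (nat_lit 76) (nat_lit 4508540889) (nat_lit 80) (nat_lit 3) (nat_lit 79) (nat_lit 1) (nat_lit 80) (nat_lit 1) (nat_lit 340) (nat_lit 428) (nat_lit 252)) (XT.nd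 (nat_lit 78) (nat_lit 0) (nat_lit 0) (XT.lf (nat_lit 152) (nat_lit 13227853051) (nat_lit 0) (nat_lit 15953738) (nat_lit 76) (nat_lit 15953738) (nat_lit 79) (nat_lit 1) (nat_lit 77) (nat_lit 1) (nat_lit 78) (nat_lit 1) (nat_lit 341) (nat_lit 428) (nat_lit 251)) (XT.lf (nat_lit 0) (nat_lit 4332505653) (nat_lit 0) (nat_lit 4377364236) (nat_lit 152) (nat_lit 4332505653) (nat_lit 77) (nat_lit 3) (nat_lit 77) (nat_lit 1) (nat_lit 79) (nat_lit 1) (nat_lit 342) (nat_lit 428) (nat_lit 250)))) (XT.nd (nat_lit 156) (nat_lit 76) (nat_lit 0) (XT.nd (nat_lit 78) (nat_lit 152) (nat_lit 0) (XT.lf (nat_lit 76) (nat_lit 4248845090) (nat_lit 0) (nat_lit 4291567551) (nat_lit 76) (nat_lit 4291567551) (nat_lit 77) (nat_lit 3) (nat_lit 76) (nat_lit 1) (nat_lit 77) (nat_lit 1) (nat_lit 343) (nat_lit 428) (nat_lit 249)) (XT.lf (nat_lit 152) (nat_lit 12601994482) (nat_lit 0) (nat_lit 13125179) (nat_lit 76) (nat_lit 13125179)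 (nat_lit 76) (nat_lit 1) (nat_lit 74) (nat_lit 1) (nat_lit 75) (nat_lit 1) (nat_lit 344) (nat_lit 428) (nat_lit 248))) (XT.nd (nat_lit 78) (nat_lit 76) (nat_lit 0) (XT.lf (nat_lit 0) (nat_lit 4128103136) (nat_lit 0) (nat_lit 4165008404) (nat_lit 152) (nat_lit 4128103136) (nat_lit 74) (nat_lit 3) (nat_lit 74) (nat_lit 1) (nat_lit 76) (nat_lit 1) (nat_lit 345) (nat_lit 428) (nat_lit 247)) (XT.lf (nat_lit 76) (nat_lit 4050182803) (nat_lit 0) (nat_lit 4085330678) (nat_lit 76) (nat_lit 4085330678) (nat_lit 74) (nat_lit 3) (nat_lit 73) (nat_lit 1) (nat_lit 74) (nat_lit 1) (nat_lit 346) (nat_lit 428) (nat_lit 246))))))) (XT.nd (nat_lit 1014) (nat_lit 912) (nat_lit 0) (XT.nd (nat_lit 468) (nat_lit 608) (nat_lit 0) (XT.nd (nat_lit 234) (nat_lit 228) (nat_lit 0) (XT.nd (nat_lit 78) (nat_lit 76) (nat_lit 0) (XT.lf (nat_lit 152) (nat_lit 12005222564) (nat_lit 0) (nat_lit 10798118) (nat_lit 76) (nat_lit 10798118)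 (nat_lit 73) (nat_lit 1) (nat_lit 71) (nat_lit 1) (nat_lit 72) (nat_lit 1) (nat_lit 347) (nat_lit 428) (nat_lit 245)) (XT.nd (nat_lit 78) (nat_lit 76) (nat_lit 0) (XT.lf (nat_lit 0) (nat_lit 3933095917) (nat_lit 0) (nat_lit 3963457972) (nat_lit 152) (nat_lit 3933095917) (nat_lit 71) (nat_lit 3) (nat_lit 71) (nat_lit 1) (nat_lit 73) (nat_lit 1) (nat_lit 348) (nat_lit 428) (nat_lit 244)) (XT.lf (nat_lit 76) (nat_lit 3860331066) (nat_lit 0) (nat_lit 3889247309) (nat_lit 76) (nat_lit 3889247309) (nat_lit 71) (nat_lit 3) (nat_lit 70) (nat_lit 1) (nat_lit 71) (nat_lit 1) (nat_lit 349) (nat_lit 428) (nat_lit 243)))) (XT.nd (nat_lit 78) (nat_lit 76) (nat_lit 0) (XT.lf (nat_lit 152) (nat_lit 11436279185) (nat_lit 0) (nat_lit 8883638) (nat_lit 76) (nat_lit 8883638) (nat_lit 70) (nat_lit 1) (nat_lit 68) (nat_lit 1) (nat_lit 69) (nat_lit 1) (nat_lit 350) (nat_lit 428) (nat_lit 242)) (XT.nd (nat_lit 78) (nat_lit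 76) (nat_lit 0) (XT.lf (nat_lit 0) (nat_lit 3747096555) (nat_lit 0) (nat_lit 3772075493) (nat_lit 152) (nat_lit 3747096555) (nat_lit 68) (nat_lit 3) (nat_lit 68) (nat_lit 1) (nat_lit 70) (nat_lit 1) (nat_lit 351) (nat_lit 428) (nat_lit 241)) (XT.lf (nat_lit 76) (nat_lit 3678985493) (nat_lit 0) (nat_lit 3702774958) (nat_lit 76) (nat_lit 3702774958) (nat_lit 68) (nat_lit 3) (nat_lit 67) (nat_lit 1) (nat_lit 68) (nat_lit 1) (nat_lit 352) (nat_lit 428) (nat_lit 240))))) (XT.nd (nat_lit 234) (nat_lit 380) (nat_lit 0) (XT.nd (nat_lit 78) (nat_lit 76) (nat_lit 0) (XT.lf (nat_lit 152) (nat_lit 10893943638) (nat_lit 0) (nat_lit 7308591) (nat_lit 76) (nat_lit 7308591) (nat_lit 67) (nat_lit 1) (nat_lit 65) (nat_lit 1) (nat_lit 66) (nat_lit 1) (nat_lit 353) (nat_lit 428) (nat_lit 239)) (XT.nd (nat_lit 78) (nat_lit 76) (nat_lit 0) (XT.lf (nat_lit 0) (nat_lit 3569725429) (nat_lit 0) (nat_lit 3590275663) (nat_lit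 152) (nat_lit 3569725429) (nat_lit 65) (nat_lit 3) (nat_lit 65) (nat_lit 1) (nat_lit 67) (nat_lit 1) (nat_lit 354) (nat_lit 428) (nat_lit 238)) (XT.lf (nat_lit 76) (nat_lit 3505835776) (nat_lit 0) (nat_lit 3525407428) (nat_lit 76) (nat_lit 3525407428) (nat_lit 65) (nat_lit 3) (nat_lit 64) (nat_lit 1) (nat_lit 65) (nat_lit 1) (nat_lit 355) (nat_lit 428) (nat_lit 237)))) (XT.nd (nat_lit 156) (nat_lit 228) (nat_lit 0) (XT.nd (nat_lit 78) (nat_lit 0) (nat_lit 0) (XT.lf (nat_lit 152) (nat_lit 10377034819) (nat_lit 0) (nat_lit 6012796) (nat_lit 76) (nat_lit 6012796) (nat_lit 64) (nat_lit 1) (nat_lit 62) (nat_lit 1) (nat_lit 63) (nat_lit 1) (nat_lit 356) (nat_lit 428) (nat_lit 236)) (XT.lf (nat_lit 0) (nat_lit 3400612249) (nat_lit 0) (nat_lit 3417518977) (nat_lit 152) (nat_lit 3400612249) (nat_lit 62) (nat_lit 3) (nat_lit 62) (nat_lit 1) (nat_lit 64) (nat_lit 1) (nat_lit 357) (nat_lit 428) (nat_lit 235)))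 (XT.nd (nat_lit 78) (nat_lit 152) (nat_lit 0) (XT.lf (nat_lit 76) (nat_lit 3340569585) (nat_lit 0) (nat_lit 3356671231) (nat_lit 76) (nat_lit 3356671231) (nat_lit 62) (nat_lit 3) (nat_lit 61) (nat_lit 1) (nat_lit 62) (nat_lit 1) (nat_lit 358) (nat_lit 428) (nat_lit 234)) (XT.lf (nat_lit 152) (nat_lit 9884412634) (nat_lit 0) (nat_lit 4946742) (nat_lit 76) (nat_lit 4946742) (nat_lit 61) (nat_lit 1) (nat_lit 59) (nat_lit 1) (nat_lit 60) (nat_lit 1) (nat_lit 359) (nat_lit 428) (nat_lit 233)))))) (XT.nd (nat_lit 468) (nat_lit 456) (nat_lit 0) (XT.nd (nat_lit 234) (nat_lit 228) (nat_lit 0) (XT.nd (nat_lit 78) (nat_lit 228) (nat_lit 0) (XT.lf (nat_lit 0) (nat_lit 3239397164) (nat_lit 0) (nat_lit 3253306372) (nat_lit 152) (nat_lit 3239397164) (nat_lit 59) (nat_lit 3) (nat_lit 59) (nat_lit 1) (nat_lit 61) (nat_lit 1) (nat_lit 360) (nat_lit 428) (nat_lit 232)) (XT.nd (nat_lit 78) (nat_lit 152) (nat_lit 0)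 (XT.lf (nat_lit 76) (nat_lit 3182875641) (nat_lit 0) (nat_lit 3196122505) (nat_lit 76) (nat_lit 3196122505) (nat_lit 59) (nat_lit 3) (nat_lit 58) (nat_lit 1) (nat_lit 59) (nat_lit 1) (nat_lit 361) (nat_lit 428) (nat_lit 231)) (XT.lf (nat_lit 152) (nat_lit 9414978744) (nat_lit 0) (nat_lit 4069697) (nat_lit 76) (nat_lit 4069697) (nat_lit 58) (nat_lit 1) (nat_lit 56) (nat_lit 1) (nat_lit 57) (nat_lit 1) (nat_lit 362) (nat_lit 428) (nat_lit 230)))) (XT.nd (nat_lit 78) (nat_lit 228) (nat_lit 0) (XT.lf (nat_lit 0) (nat_lit 3085731542) (nat_lit 0) (nat_lit 3097174681) (nat_lit 152) (nat_lit 3085731542) (nat_lit 56) (nat_lit 3) (nat_lit 56) (nat_lit 1) (nat_lit 58) (nat_lit 1) (nat_lit 363) (nat_lit 428) (nat_lit 229)) (XT.nd (nat_lit 78) (nat_lit 152) (nat_lit 0) (XT.lf (nat_lit 76) (nat_lit 3032446121) (nat_lit 0) (nat_lit 3043344349) (nat_lit 76) (nat_lit 3043344349) (nat_lit 56) (nat_lit 3) (nat_lit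 55) (nat_lit 1) (nat_lit 56) (nat_lit 1) (nat_lit 364) (nat_lit 428) (nat_lit 228)) (XT.lf (nat_lit 152) (nat_lit 8967676796) (nat_lit 0) (nat_lit 3348149) (nat_lit 76) (nat_lit 3348149) (nat_lit 55) (nat_lit 1) (nat_lit 53) (nat_lit 1) (nat_lit 54) (nat_lit 1) (nat_lit 365) (nat_lit 428) (nat_lit 227))))) (XT.nd (nat_lit 234) (nat_lit 228) (nat_lit 0) (XT.nd (nat_lit 78) (nat_lit 228) (nat_lit 0) (XT.lf (nat_lit 0) (nat_lit 2939278479) (nat_lit 0) (nat_lit 2948692778) (nat_lit 152) (nat_lit 2939278479) (nat_lit 53) (nat_lit 3) (nat_lit 53) (nat_lit 1) (nat_lit 55) (nat_lit 1) (nat_lit 366) (nat_lit 428) (nat_lit 226)) (XT.nd (nat_lit 78) (nat_lit 152) (nat_lit 0) (XT.lf (nat_lit 76) (nat_lit 2888978503) (nat_lit 0) (nat_lit 2897944502) (nat_lit 76) (nat_lit 2897944502) (nat_lit 53) (nat_lit 3) (nat_lit 52) (nat_lit 1) (nat_lit 53) (nat_lit 1) (nat_lit 367) (nat_lit 428) (nat_lit 225)) (XT.lf (nat_lit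 152) (nat_lit 8541492258) (nat_lit 0) (nat_lit 2754531) (nat_lit 76) (nat_lit 2754531) (nat_lit 52) (nat_lit 1) (nat_lit 50) (nat_lit 1) (nat_lit 51) (nat_lit 1) (nat_lit 368) (nat_lit 428) (nat_lit 224)))) (XT.nd (nat_lit 156) (nat_lit 152) (nat_lit 0) (XT.nd (nat_lit 78) (nat_lit 76) (nat_lit 0) (XT.lf (nat_lit 0) (nat_lit 2799713109) (nat_lit 0) (nat_lit 2807458277) (nat_lit 152) (nat_lit 2799713109) (nat_lit 50) (nat_lit 3) (nat_lit 50) (nat_lit 1) (nat_lit 52) (nat_lit 1) (nat_lit 369) (nat_lit 428) (nat_lit 223)) (XT.lf (nat_lit 76) (nat_lit 2752176979) (nat_lit 0) (nat_lit 2759553328) (nat_lit 76) (nat_lit 2759553328) (nat_lit 50) (nat_lit 3) (nat_lit 49) (nat_lit 1) (nat_lit 50) (nat_lit 1) (nat_lit 370) (nat_lit 428) (nat_lit 222))) (XT.nd (nat_lit 78) (nat_lit 0) (nat_lit 0) (XT.lf (nat_lit 152) (nat_lit 8135451928) (nat_lit 0) (nat_lit 2266159) (nat_lit 76) (nat_lit 2266159) (nat_lit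 49) (nat_lit 1) (nat_lit 47) (nat_lit 1) (nat_lit 48) (nat_lit 1) (nat_lit 371) (nat_lit 428) (nat_lit 221)) (XT.lf (nat_lit 0) (nat_lit 2666722743) (nat_lit 0) (nat_lit 2673094711) (nat_lit 152) (nat_lit 2666722743) (nat_lit 47) (nat_lit 3) (nat_lit 47) (nat_lit 1) (nat_lit 49) (nat_lit 1) (nat_lit 372) (nat_lit 428) (nat_lit 220))))))))
noncomputable def ec398 : XT := (XT.nd (nat_lit 1950) (nat_lit 1672) (nat_lit 0) (XT.nd (nat_lit 936) (nat_lit 988) (nat_lit 0) (XT.nd (nat_lit 468) (nat_lit 456) (nat_lit 0) (XT.nd (nat_lit 234) (nat_lit 228) (nat_lit 0) (XT.nd (nat_lit 78) (nat_lit 152) (nat_lit 0) (XT.lf (nat_lit 76) (nat_lit 2621753492) (nat_lit 0) (nat_lit 2627822033) (nat_lit 76) (nat_lit 2627822033) (nat_lit 47) (nat_lit 3) (nat_lit 46) (nat_lit 1) (nat_lit 47) (nat_lit 1) (nat_lit 373) (nat_lit 428) (nat_lit 219)) (XT.nd (nat_lit 78) (nat_lit 0) (nat_lit 0) (XT.lf (nat_lit 152) (nat_lit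 7748623206) (nat_lit 0) (nat_lit 1864375) (nat_lit 76) (nat_lit 1864375) (nat_lit 46) (nat_lit 1) (nat_lit 44) (nat_lit 1) (nat_lit 45) (nat_lit 1) (nat_lit 374) (nat_lit 428) (nat_lit 218)) (XT.lf (nat_lit 0) (nat_lit 2540006866) (nat_lit 0) (nat_lit 2545249100) (nat_lit 152) (nat_lit 2540006866) (nat_lit 44) (nat_lit 3) (nat_lit 44) (nat_lit 1) (nat_lit 46) (nat_lit 1) (nat_lit 375) (nat_lit 428) (nat_lit 217)))) (XT.nd (nat_lit 78) (nat_lit 152) (nat_lit 0) (XT.lf (nat_lit 76) (nat_lit 2497428496) (nat_lit 0) (nat_lit 2502421100) (nat_lit 76) (nat_lit 2502421100) (nat_lit 44) (nat_lit 3) (nat_lit 43) (nat_lit 1) (nat_lit 44) (nat_lit 1) (nat_lit 376) (nat_lit 428) (nat_lit 216)) (XT.nd (nat_lit 78) (nat_lit 0) (nat_lit 0) (XT.lf (nat_lit 152) (nat_lit 7380113174) (nat_lit 0) (nat_lit 1533826) (nat_lit 76) (nat_lit 1533826) (nat_lit 43) (nat_lit 1) (nat_lit 41) (nat_lit 1) (nat_lit 42) (nat_lit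 1) (nat_lit 377) (nat_lit 428) (nat_lit 215)) (XT.lf (nat_lit 0) (nat_lit 2419277045) (nat_lit 0) (nat_lit 2423589844) (nat_lit 152) (nat_lit 2419277045) (nat_lit 41) (nat_lit 3) (nat_lit 41) (nat_lit 1) (nat_lit 43) (nat_lit 1) (nat_lit 378) (nat_lit 428) (nat_lit 214))))) (XT.nd (nat_lit 234) (nat_lit 228) (nat_lit 0) (XT.nd (nat_lit 78) (nat_lit 152) (nat_lit 0) (XT.lf (nat_lit 76) (nat_lit 2378931471) (nat_lit 0) (nat_lit 2383038898) (nat_lit 76) (nat_lit 2383038898) (nat_lit 41) (nat_lit 3) (nat_lit 40) (nat_lit 1) (nat_lit 41) (nat_lit 1) (nat_lit 379) (nat_lit 428) (nat_lit 213)) (XT.nd (nat_lit 78) (nat_lit 0) (nat_lit 0) (XT.lf (nat_lit 152) (nat_lit 7029067550) (nat_lit 0) (nat_lit 1261882) (nat_lit 76) (nat_lit 1261882) (nat_lit 40) (nat_lit 1) (nat_lit 38) (nat_lit 1) (nat_lit 39) (nat_lit 1) (nat_lit 380) (nat_lit 428) (nat_lit 212)) (XT.lf (nat_lit 0) (nat_lit 2304256746) (nat_lit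 0) (nat_lit 2307804896) (nat_lit 152) (nat_lit 2304256746) (nat_lit 38) (nat_lit 3) (nat_lit 38) (nat_lit 1) (nat_lit 40) (nat_lit 1) (nat_lit 381) (nat_lit 428) (nat_lit 211)))) (XT.nd (nat_lit 78) (nat_lit 152) (nat_lit 0) (XT.lf (nat_lit 76) (nat_lit 2266001253) (nat_lit 0) (nat_lit 2269380444) (nat_lit 76) (nat_lit 2269380444) (nat_lit 38) (nat_lit 3) (nat_lit 37) (nat_lit 1) (nat_lit 38) (nat_lit 1) (nat_lit 382) (nat_lit 428) (nat_lit 210)) (XT.nd (nat_lit 78) (nat_lit 0) (nat_lit 0) (XT.lf (nat_lit 152) (nat_lit 6694669534) (nat_lit 0) (nat_lit 1038153) (nat_lit 76) (nat_lit 1038153) (nat_lit 37) (nat_lit 1) (nat_lit 35) (nat_lit 1) (nat_lit 36) (nat_lit 1) (nat_lit 383) (nat_lit 428) (nat_lit 209)) (XT.lf (nat_lit 0) (nat_lit 2194681093) (nat_lit 0) (nat_lit 2197600165) (nat_lit 152) (nat_lit 2194681093) (nat_lit 35) (nat_lit 3) (nat_lit 35) (nat_lit 1) (nat_lit 37) (nat_lit 1) (nat_lit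 384) (nat_lit 428) (nat_lit 208)))))) (XT.nd (nat_lit 468) (nat_lit 532) (nat_lit 0) (XT.nd (nat_lit 234) (nat_lit 228) (nat_lit 0) (XT.nd (nat_lit 78) (nat_lit 152) (nat_lit 0) (XT.lf (nat_lit 76) (nat_lit 2158386214) (nat_lit 0) (nat_lit 2161166283) (nat_lit 76) (nat_lit 2161166283) (nat_lit 35) (nat_lit 3) (nat_lit 34) (nat_lit 1) (nat_lit 35) (nat_lit 1) (nat_lit 385) (nat_lit 428) (nat_lit 207)) (XT.nd (nat_lit 78) (nat_lit 0) (nat_lit 0) (XT.lf (nat_lit 152) (nat_lit 6376138588) (nat_lit 0) (nat_lit 854091) (nat_lit 76) (nat_lit 854091) (nat_lit 34) (nat_lit 1) (nat_lit 32) (nat_lit 1) (nat_lit 33) (nat_lit 1) (nat_lit 386) (nat_lit 428) (nat_lit 206)) (XT.lf (nat_lit 0) (nat_lit 2090296581) (nat_lit 0) (nat_lit 2092698109) (nat_lit 152) (nat_lit 2090296581) (nat_lit 32) (nat_lit 3) (nat_lit 32) (nat_lit 1) (nat_lit 34) (nat_lit 1) (nat_lit 387) (nat_lit 428) (nat_lit 205)))) (XT.nd (nat_lit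 78) (nat_lit 152) (nat_lit 0) (XT.lf (nat_lit 76) (nat_lit 2055844323) (nat_lit 0) (nat_lit 2058131493) (nat_lit 76) (nat_lit 2058131493) (nat_lit 32) (nat_lit 3) (nat_lit 31) (nat_lit 1) (nat_lit 32) (nat_lit 1) (nat_lit 388) (nat_lit 428) (nat_lit 204)) (XT.nd (nat_lit 78) (nat_lit 0) (nat_lit 0) (XT.lf (nat_lit 152) (nat_lit 6072729181) (nat_lit 0) (nat_lit 702663) (nat_lit 76) (nat_lit 702663) (nat_lit 31) (nat_lit 1) (nat_lit 29) (nat_lit 1) (nat_lit 30) (nat_lit 1) (nat_lit 389) (nat_lit 428) (nat_lit 203)) (XT.lf (nat_lit 0) (nat_lit 1990860755) (nat_lit 0) (nat_lit 1992836498) (nat_lit 152) (nat_lit 1990860755) (nat_lit 29) (nat_lit 3) (nat_lit 29) (nat_lit 1) (nat_lit 31) (nat_lit 1) (nat_lit 390) (nat_lit 428) (nat_lit 202))))) (XT.nd (nat_lit 234) (nat_lit 304) (nat_lit 0) (XT.nd (nat_lit 78) (nat_lit 152) (nat_lit 0) (XT.lf (nat_lit 76) (nat_lit 1958143111) (nat_lit 0) (nat_lit 1960024771)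 (nat_lit 76) (nat_lit 1960024771) (nat_lit 29) (nat_lit 3) (nat_lit 28) (nat_lit 1) (nat_lit 29) (nat_lit 1) (nat_lit 391) (nat_lit 428) (nat_lit 201)) (XT.nd (nat_lit 78) (nat_lit 0) (nat_lit 0) (XT.lf (nat_lit 152) (nat_lit 5783729503) (nat_lit 0) (nat_lit 578082) (nat_lit 76) (nat_lit 578082) (nat_lit 28) (nat_lit 1) (nat_lit 26) (nat_lit 1) (nat_lit 27) (nat_lit 1) (nat_lit 392) (nat_lit 428) (nat_lit 200)) (XT.lf (nat_lit 0) (nat_lit 1896141866) (nat_lit 0) (nat_lit 1897767315) (nat_lit 152) (nat_lit 1896141866) (nat_lit 26) (nat_lit 3) (nat_lit 26) (nat_lit 1) (nat_lit 28) (nat_lit 1) (nat_lit 393) (nat_lit 428) (nat_lit 199)))) (XT.nd (nat_lit 156) (nat_lit 76) (nat_lit 0) (XT.nd (nat_lit 78) (nat_lit 152) (nat_lit 0) (XT.lf (nat_lit 76) (nat_lit 1865059563) (nat_lit 0) (nat_lit 1866607609) (nat_lit 76) (nat_lit 1866607609) (nat_lit 26) (nat_lit 3) (nat_lit 25) (nat_lit 1) (nat_lit 26) (nat_lit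 1) (nat_lit 394) (nat_lit 428) (nat_lit 198)) (XT.lf (nat_lit 152) (nat_lit 5508460172) (nat_lit 0) (nat_lit 475590) (nat_lit 76) (nat_lit 475590) (nat_lit 25) (nat_lit 1) (nat_lit 23) (nat_lit 1) (nat_lit 24) (nat_lit 1) (nat_lit 395) (nat_lit 428) (nat_lit 197))) (XT.nd (nat_lit 78) (nat_lit 76) (nat_lit 0) (XT.lf (nat_lit 0) (nat_lit 1805918506) (nat_lit 0) (nat_lit 1807255767) (nat_lit 152) (nat_lit 1805918506) (nat_lit 23) (nat_lit 3) (nat_lit 23) (nat_lit 1) (nat_lit 25) (nat_lit 1) (nat_lit 396) (nat_lit 428) (nat_lit 196)) (XT.lf (nat_lit 76) (nat_lit 1776379956) (nat_lit 0) (nat_lit 1777653537) (nat_lit 76) (nat_lit 1777653537) (nat_lit 23) (nat_lit 3) (nat_lit 22) (nat_lit 1) (nat_lit 23) (nat_lit 1) (nat_lit 397) (nat_lit 428) (nat_lit 195))))))) (XT.nd (nat_lit 936) (nat_lit 760) (nat_lit 0) (XT.nd (nat_lit 468) (nat_lit 456) (nat_lit 0) (XT.nd (nat_lit 234) (nat_lit 228) (nat_lit 0)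 (XT.nd (nat_lit 78) (nat_lit 76) (nat_lit 0) (XT.lf (nat_lit 152) (nat_lit 5246272956) (nat_lit 0) (nat_lit 391269) (nat_lit 76) (nat_lit 391269) (nat_lit 22) (nat_lit 1) (nat_lit 20) (nat_lit 1) (nat_lit 21) (nat_lit 1) (nat_lit 398) (nat_lit 428) (nat_lit 194)) (XT.nd (nat_lit 78) (nat_lit 76) (nat_lit 0) (XT.lf (nat_lit 0) (nat_lit 1719979244) (nat_lit 0) (nat_lit 1721079411) (nat_lit 152) (nat_lit 1719979244) (nat_lit 20) (nat_lit 3) (nat_lit 20) (nat_lit 1) (nat_lit 22) (nat_lit 1) (nat_lit 399) (nat_lit 428) (nat_lit 193)) (XT.lf (nat_lit 76) (nat_lit 1691899650) (nat_lit 0) (nat_lit 1692947429) (nat_lit 76) (nat_lit 1692947429) (nat_lit 20) (nat_lit 3) (nat_lit 19) (nat_lit 1) (nat_lit 20) (nat_lit 1) (nat_lit 400) (nat_lit 428) (nat_lit 192)))) (XT.nd (nat_lit 78) (nat_lit 76) (nat_lit 0) (XT.lf (nat_lit 152) (nat_lit 4996549496) (nat_lit 0) (nat_lit 321898) (nat_lit 76) (nat_lit 321898)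 (nat_lit 19) (nat_lit 1) (nat_lit 17) (nat_lit 1) (nat_lit 18) (nat_lit 1) (nat_lit 401) (nat_lit 428) (nat_lit 191)) (XT.nd (nat_lit 78) (nat_lit 76) (nat_lit 0) (XT.lf (nat_lit 0) (nat_lit 1638122247) (nat_lit 0) (nat_lit 1639027357) (nat_lit 152) (nat_lit 1638122247) (nat_lit 17) (nat_lit 3) (nat_lit 17) (nat_lit 1) (nat_lit 19) (nat_lit 1) (nat_lit 402) (nat_lit 428) (nat_lit 190)) (XT.lf (nat_lit 76) (nat_lit 1611422852) (nat_lit 0) (nat_lit 1612284862) (nat_lit 76) (nat_lit 1612284862) (nat_lit 17) (nat_lit 3) (nat_lit 16) (nat_lit 1) (nat_lit 17) (nat_lit 1) (nat_lit 403) (nat_lit 428) (nat_lit 189))))) (XT.nd (nat_lit 234) (nat_lit 228) (nat_lit 0) (XT.nd (nat_lit 78) (nat_lit 76) (nat_lit 0) (XT.lf (nat_lit 152) (nat_lit 4758700067) (nat_lit 0) (nat_lit 264826) (nat_lit 76) (nat_lit 264826) (nat_lit 16) (nat_lit 1) (nat_lit 14) (nat_lit 1) (nat_lit 15) (nat_lit 1) (nat_lit 404) (nat_lit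 428) (nat_lit 188)) (XT.nd (nat_lit 78) (nat_lit 76) (nat_lit 0) (XT.lf (nat_lit 0) (nat_lit 1560154909) (nat_lit 0) (nat_lit 1560899545) (nat_lit 152) (nat_lit 1560154909) (nat_lit 14) (nat_lit 3) (nat_lit 14) (nat_lit 1) (nat_lit 16) (nat_lit 1) (nat_lit 405) (nat_lit 428) (nat_lit 187)) (XT.lf (nat_lit 76) (nat_lit 1534762353) (nat_lit 0) (nat_lit 1535471530) (nat_lit 76) (nat_lit 1535471530) (nat_lit 14) (nat_lit 3) (nat_lit 13) (nat_lit 1) (nat_lit 14) (nat_lit 1) (nat_lit 406) (nat_lit 428) (nat_lit 186)))) (XT.nd (nat_lit 78) (nat_lit 76) (nat_lit 0) (XT.lf (nat_lit 152) (nat_lit 4532162351) (nat_lit 0) (nat_lit 217873) (nat_lit 76) (nat_lit 217873) (nat_lit 13) (nat_lit 1) (nat_lit 11) (nat_lit 1) (nat_lit 12) (nat_lit 1) (nat_lit 407) (nat_lit 428) (nat_lit 185)) (XT.nd (nat_lit 78) (nat_lit 76) (nat_lit 0) (XT.lf (nat_lit 0) (nat_lit 1485893478) (nat_lit 0) (nat_lit 1486506092) (nat_lit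 152) (nat_lit 1485893478) (nat_lit 11) (nat_lit 3) (nat_lit 11) (nat_lit 1) (nat_lit 13) (nat_lit 1) (nat_lit 408) (nat_lit 428) (nat_lit 184)) (XT.lf (nat_lit 76) (nat_lit 1461739247) (nat_lit 0) (nat_lit 1462322689) (nat_lit 76) (nat_lit 1462322689) (nat_lit 11) (nat_lit 3) (nat_lit 10) (nat_lit 1) (nat_lit 11) (nat_lit 1) (nat_lit 409) (nat_lit 428) (nat_lit 183)))))) (XT.nd (nat_lit 468) (nat_lit 304) (nat_lit 0) (XT.nd (nat_lit 234) (nat_lit 228) (nat_lit 0) (XT.nd (nat_lit 78) (nat_lit 76) (nat_lit 0) (XT.lf (nat_lit 152) (nat_lit 4316400258) (nat_lit 0) (nat_lit 179244) (nat_lit 76) (nat_lit 179244) (nat_lit 10) (nat_lit 1) (nat_lit 8) (nat_lit 1) (nat_lit 9) (nat_lit 1) (nat_lit 410) (nat_lit 428) (nat_lit 182)) (XT.nd (nat_lit 78) (nat_lit 76) (nat_lit 0) (XT.lf (nat_lit 0) (nat_lit 1415162692) (nat_lit 0) (nat_lit 1415666692) (nat_lit 152) (nat_lit 1415162692) (nat_lit 8) (nat_lit 3)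 (nat_lit 8) (nat_lit 1) (nat_lit 10) (nat_lit 1) (nat_lit 411) (nat_lit 428) (nat_lit 181)) (XT.lf (nat_lit 76) (nat_lit 1392182649) (nat_lit 0) (nat_lit 1392662648) (nat_lit 76) (nat_lit 1392662648) (nat_lit 8) (nat_lit 3) (nat_lit 7) (nat_lit 1) (nat_lit 8) (nat_lit 1) (nat_lit 412) (nat_lit 428) (nat_lit 180)))) (XT.nd (nat_lit 78) (nat_lit 76) (nat_lit 0) (XT.lf (nat_lit 152) (nat_lit 4110902770) (nat_lit 0) (nat_lit 147465) (nat_lit 76) (nat_lit 147465) (nat_lit 7) (nat_lit 1) (nat_lit 5) (nat_lit 1) (nat_lit 6) (nat_lit 1) (nat_lit 413) (nat_lit 428) (nat_lit 179)) (XT.nd (nat_lit 78) (nat_lit 76) (nat_lit 0) (XT.lf (nat_lit 0) (nat_lit 1347795421) (nat_lit 0) (nat_lit 1348210063) (nat_lit 152) (nat_lit 1347795421) (nat_lit 5) (nat_lit 3) (nat_lit 5) (nat_lit 1) (nat_lit 7) (nat_lit 1) (nat_lit 414) (nat_lit 428) (nat_lit 178)) (XT.lf (nat_lit 76) (nat_lit 1325929400) (nat_lit 0) (nat_lit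 1326324296) (nat_lit 76) (nat_lit 1326324296) (nat_lit 5) (nat_lit 3) (nat_lit 4) (nat_lit 1) (nat_lit 5) (nat_lit 1) (nat_lit 415) (nat_lit 428) (nat_lit 177))))) (XT.nd (nat_lit 234) (nat_lit 76) (nat_lit 0) (XT.nd (nat_lit 78) (nat_lit 76) (nat_lit 0) (XT.lf (nat_lit 152) (nat_lit 3915182830) (nat_lit 0) (nat_lit 121320) (nat_lit 76) (nat_lit 121320) (nat_lit 4) (nat_lit 1) (nat_lit 2) (nat_lit 1) (nat_lit 3) (nat_lit 1) (nat_lit 416) (nat_lit 428) (nat_lit 176)) (XT.nd (nat_lit 78) (nat_lit 76) (nat_lit 0) (XT.lf (nat_lit 0) (nat_lit 1283632317) (nat_lit 0) (nat_lit 1283973443) (nat_lit 152) (nat_lit 1283632317) (nat_lit 2) (nat_lit 3) (nat_lit 2) (nat_lit 1) (nat_lit 4) (nat_lit 1) (nat_lit 417) (nat_lit 428) (nat_lit 175)) (XT.lf (nat_lit 76) (nat_lit 1262823769) (nat_lit 0) (nat_lit 1263148651) (nat_lit 76) (nat_lit 1263148651) (nat_lit 2) (nat_lit 3) (nat_lit 1) (nat_lit 1) (nat_lit 2)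 (nat_lit 1) (nat_lit 418) (nat_lit 428) (nat_lit 174)))) (XT.nd (nat_lit 156) (nat_lit 0) (nat_lit 0) (XT.nd (nat_lit 78) (nat_lit 0) (nat_lit 0) (XT.lf (nat_lit 0) (nat_lit 78624863422) (nat_lit 0) (nat_lit 0) (nat_lit 0) (nat_lit 0) (nat_lit 0) (nat_lit 0) (nat_lit 1) (nat_lit 0) (nat_lit 1) (nat_lit 0) (nat_lit 419) (nat_lit 428) (nat_lit 173)) (XT.lf (nat_lit 0) (nat_lit 78624848628) (nat_lit 0) (nat_lit 0) (nat_lit 0) (nat_lit 0) (nat_lit 0) (nat_lit 0) (nat_lit 1) (nat_lit 0) (nat_lit 1) (nat_lit 0) (nat_lit 420) (nat_lit 428) (nat_lit 172))) (XT.nd (nat_lit 78) (nat_lit 0) (nat_lit 0) (XT.lf (nat_lit 0) (nat_lit 78624834539) (nat_lit 0) (nat_lit 0) (nat_lit 0) (nat_lit 0) (nat_lit 0) (nat_lit 0) (nat_lit 1) (nat_lit 0) (nat_lit 1) (nat_lit 0) (nat_lit 421) (nat_lit 428) (nat_lit 171)) (XT.lf (nat_lit 0) (nat_lit 78624821121) (nat_lit 0) (nat_lit 0) (nat_lit 0) (nat_lit 0) (nat_lit 0) (nat_lit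 0) (nat_lit 1) (nat_lit 0) (nat_lit 1) (nat_lit 0) (nat_lit 422) (nat_lit 428) (nat_lit 170))))))))
noncomputable def ec399 : XT := (XT.nd (nat_lit 33384) (nat_lit 0) (nat_lit 17632) (XT.nd (nat_lit 936) (nat_lit 0) (nat_lit 0) (XT.nd (nat_lit 468) (nat_lit 0) (nat_lit 0) (XT.nd (nat_lit 234) (nat_lit 0) (nat_lit 0) (XT.nd (nat_lit 78) (nat_lit 0) (nat_lit 0) (XT.lf (nat_lit 0) (nat_lit 78624808342) (nat_lit 0) (nat_lit 0) (nat_lit 0) (nat_lit 0) (nat_lit 0) (nat_lit 0) (nat_lit 1) (nat_lit 0) (nat_lit 1) (nat_lit 0) (nat_lit 423) (nat_lit 428) (nat_lit 169)) (XT.nd (nat_lit 78) (nat_lit 0) (nat_lit 0) (XT.lf (nat_lit 0) (nat_lit 78624796172) (nat_lit 0) (nat_lit 0) (nat_lit 0) (nat_lit 0) (nat_lit 0) (nat_lit 0) (nat_lit 1) (nat_lit 0) (nat_lit 1) (nat_lit 0) (nat_lit 424) (nat_lit 428) (nat_lit 168)) (XT.lf (nat_lit 0) (nat_lit 78624784581) (nat_lit 0) (nat_lit 0) (nat_lit 0) (nat_lit 0) (nat_lit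 0) (nat_lit 0) (nat_lit 1) (nat_lit 0) (nat_lit 1) (nat_lit 0) (nat_lit 425) (nat_lit 428) (nat_lit 167)))) (XT.nd (nat_lit 78) (nat_lit 0) (nat_lit 0) (XT.lf (nat_lit 0) (nat_lit 78624773542) (nat_lit 0) (nat_lit 0) (nat_lit 0) (nat_lit 0) (nat_lit 0) (nat_lit 0) (nat_lit 1) (nat_lit 0) (nat_lit 1) (nat_lit 0) (nat_lit 426) (nat_lit 428) (nat_lit 166)) (XT.nd (nat_lit 78) (nat_lit 0) (nat_lit 0) (XT.lf (nat_lit 0) (nat_lit 78624763028) (nat_lit 0) (nat_lit 0) (nat_lit 0) (nat_lit 0) (nat_lit 0) (nat_lit 0) (nat_lit 1) (nat_lit 0) (nat_lit 1) (nat_lit 0) (nat_lit 427) (nat_lit 428) (nat_lit 165)) (XT.lf (nat_lit 0) (nat_lit 78624753016) (nat_lit 0) (nat_lit 0) (nat_lit 0) (nat_lit 0) (nat_lit 0) (nat_lit 0) (nat_lit 1) (nat_lit 0) (nat_lit 1) (nat_lit 0) (nat_lit 428) (nat_lit 428) (nat_lit 164))))) (XT.nd (nat_lit 234) (nat_lit 0) (nat_lit 0) (XT.nd (nat_lit 78) (nat_lit 0) (nat_lit 0) (XT.lf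 (nat_lit 0) (nat_lit 78624743480) (nat_lit 0) (nat_lit 0) (nat_lit 0) (nat_lit 0) (nat_lit 0) (nat_lit 0) (nat_lit 1) (nat_lit 0) (nat_lit 1) (nat_lit 0) (nat_lit 429) (nat_lit 428) (nat_lit 163)) (XT.nd (nat_lit 78) (nat_lit 0) (nat_lit 0) (XT.lf (nat_lit 0) (nat_lit 78624734398) (nat_lit 0) (nat_lit 0) (nat_lit 0) (nat_lit 0) (nat_lit 0) (nat_lit 0) (nat_lit 1) (nat_lit 0) (nat_lit 1) (nat_lit 0) (nat_lit 430) (nat_lit 428) (nat_lit 162)) (XT.lf (nat_lit 0) (nat_lit 78624725748) (nat_lit 0) (nat_lit 0) (nat_lit 0) (nat_lit 0) (nat_lit 0) (nat_lit 0) (nat_lit 1) (nat_lit 0) (nat_lit 1) (nat_lit 0) (nat_lit 431) (nat_lit 428) (nat_lit 161)))) (XT.nd (nat_lit 78) (nat_lit 0) (nat_lit 0) (XT.lf (nat_lit 0) (nat_lit 78624717511) (nat_lit 0) (nat_lit 0) (nat_lit 0) (nat_lit 0) (nat_lit 0) (nat_lit 0) (nat_lit 1) (nat_lit 0) (nat_lit 1) (nat_lit 0) (nat_lit 432) (nat_lit 428) (nat_lit 160)) (XT.nd (nat_lit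 78) (nat_lit 0) (nat_lit 0) (XT.lf (nat_lit 0) (nat_lit 78624709666) (nat_lit 0) (nat_lit 0) (nat_lit 0) (nat_lit 0) (nat_lit 0) (nat_lit 0) (nat_lit 1) (nat_lit 0) (nat_lit 1) (nat_lit 0) (nat_lit 433) (nat_lit 428) (nat_lit 159)) (XT.lf (nat_lit 0) (nat_lit 78624702194) (nat_lit 0) (nat_lit 0) (nat_lit 0) (nat_lit 0) (nat_lit 0) (nat_lit 0) (nat_lit 1) (nat_lit 0) (nat_lit 1) (nat_lit 0) (nat_lit 434) (nat_lit 428) (nat_lit 158)))))) (XT.nd (nat_lit 31902) (nat_lit 0) (nat_lit 22192) (XT.nd (nat_lit 234) (nat_lit 0) (nat_lit 0) (XT.nd (nat_lit 78) (nat_lit 0) (nat_lit 0) (XT.lf (nat_lit 0) (nat_lit 78624695078) (nat_lit 0) (nat_lit 0) (nat_lit 0) (nat_lit 0) (nat_lit 0) (nat_lit 0) (nat_lit 1) (nat_lit 0) (nat_lit 1) (nat_lit 0) (nat_lit 435) (nat_lit 428) (nat_lit 157)) (XT.nd (nat_lit 78) (nat_lit 0) (nat_lit 0) (XT.lf (nat_lit 0) (nat_lit 78624688301) (nat_lit 0) (nat_lit 0) (nat_lit 0) (nat_lit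 0) (nat_lit 0) (nat_lit 0) (nat_lit 1) (nat_lit 0) (nat_lit 1) (nat_lit 0) (nat_lit 436) (nat_lit 428) (nat_lit 156)) (XT.lf (nat_lit 0) (nat_lit 78624681847) (nat_lit 0) (nat_lit 0) (nat_lit 0) (nat_lit 0) (nat_lit 0) (nat_lit 0) (nat_lit 1) (nat_lit 0) (nat_lit 1) (nat_lit 0) (nat_lit 437) (nat_lit 428) (nat_lit 155)))) (XT.nd (nat_lit 78) (nat_lit 0) (nat_lit 0) (XT.lf (nat_lit 0) (nat_lit 78624675700) (nat_lit 0) (nat_lit 0) (nat_lit 0) (nat_lit 0) (nat_lit 0) (nat_lit 0) (nat_lit 1) (nat_lit 0) (nat_lit 1) (nat_lit 0) (nat_lit 438) (nat_lit 428) (nat_lit 154)) (XT.nd (nat_lit 31512) (nat_lit 0) (nat_lit 22192) (XT.lf (nat_lit 0) (nat_lit 78624669846) (nat_lit 0) (nat_lit 0) (nat_lit 0) (nat_lit 0) (nat_lit 0) (nat_lit 0) (nat_lit 1) (nat_lit 0) (nat_lit 1) (nat_lit 0) (nat_lit 439) (nat_lit 428) (nat_lit 153)) (XT.lf (nat_lit 836) (nat_lit 41314004853) (nat_lit 0) (nat_lit 73352920652) (nat_lit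 836) (nat_lit 41314004853) (nat_lit 303) (nat_lit 1) (nat_lit 292) (nat_lit 0) (nat_lit 303) (nat_lit 0) (nat_lit 162) (nat_lit 429) (nat_lit 429))))) (XT.nd (nat_lit 234) (nat_lit 0) (nat_lit 152) (XT.nd (nat_lit 78) (nat_lit 0) (nat_lit 76) (XT.lf (nat_lit 836) (nat_lit 160138240660) (nat_lit 76) (nat_lit 72169809029) (nat_lit 0) (nat_lit 72169809029) (nat_lit 303) (nat_lit 1) (nat_lit 293) (nat_lit 1) (nat_lit 292) (nat_lit 0) (nat_lit 163) (nat_lit 429) (nat_lit 428)) (XT.nd (nat_lit 78) (nat_lit 0) (nat_lit 0) (XT.lf (nat_lit 836) (nat_lit 76319474299) (nat_lit 0) (nat_lit 144586278833) (nat_lit 760) (nat_lit 76319474299) (nat_lit 304) (nat_lit 1) (nat_lit 293) (nat_lit 1) (nat_lit 303) (nat_lit 1) (nat_lit 164) (nat_lit 429) (nat_lit 427)) (XT.lf (nat_lit 836) (nat_lit 143164728926) (nat_lit 76) (nat_lit 73521090621) (nat_lit 0) (nat_lit 73521090621) (nat_lit 304) (nat_lit 1) (nat_lit 294)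 (nat_lit 1) (nat_lit 293) (nat_lit 1) (nat_lit 165) (nat_lit 429) (nat_lit 426)))) (XT.nd (nat_lit 156) (nat_lit 0) (nat_lit 76) (XT.nd (nat_lit 78) (nat_lit 0) (nat_lit 0) (XT.lf (nat_lit 836) (nat_lit 65897349901) (nat_lit 0) (nat_lit 151616338555) (nat_lit 760) (nat_lit 65897349901) (nat_lit 305) (nat_lit 1) (nat_lit 294) (nat_lit 1) (nat_lit 304) (nat_lit 1) (nat_lit 166) (nat_lit 429) (nat_lit 425)) (XT.lf (nat_lit 836) (nat_lit 118520675822) (nat_lit 76) (nat_lit 79150827434) (nat_lit 0) (nat_lit 79150827434) (nat_lit 305) (nat_lit 1) (nat_lit 295) (nat_lit 1) (nat_lit 294) (nat_lit 1) (nat_lit 167) (nat_lit 429) (nat_lit 424))) (XT.nd (nat_lit 78) (nat_lit 0) (nat_lit 0) (XT.lf (nat_lit 836) (nat_lit 51967893161) (nat_lit 0) (nat_lit 166519062688) (nat_lit 760) (nat_lit 51967893161) (nat_lit 306) (nat_lit 1) (nat_lit 295) (nat_lit 1) (nat_lit 305) (nat_lit 1) (nat_lit 168) (nat_lit 429)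 (nat_lit 423)) (XT.lf (nat_lit 836) (nat_lit 87359624038) (nat_lit 76) (nat_lit 88451530941) (nat_lit 0) (nat_lit 88451530941) (nat_lit 306) (nat_lit 1) (nat_lit 296) (nat_lit 1) (nat_lit 295) (nat_lit 1) (nat_lit 169) (nat_lit 429) (nat_lit 422))))))) (XT.nd (nat_lit 1014) (nat_lit 2204) (nat_lit 0) (XT.nd (nat_lit 468) (nat_lit 1444) (nat_lit 0) (XT.nd (nat_lit 234) (nat_lit 1216) (nat_lit 0) (XT.nd (nat_lit 78) (nat_lit 0) (nat_lit 0) (XT.lf (nat_lit 836) (nat_lit 35070338914) (nat_lit 0) (nat_lit 188156513481) (nat_lit 760) (nat_lit 35070338914) (nat_lit 307) (nat_lit 1) (nat_lit 296) (nat_lit 1) (nat_lit 306) (nat_lit 1) (nat_lit 170) (nat_lit 429) (nat_lit 421)) (XT.nd (nat_lit 78) (nat_lit 0) (nat_lit 76) (XT.lf (nat_lit 836) (nat_lit 50706898965) (nat_lit 76) (nat_lit 100882177728) (nat_lit 0) (nat_lit 100882177728) (nat_lit 307) (nat_lit 1) (nat_lit 297) (nat_lit 1) (nat_lit 296) (nat_lit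 1) (nat_lit 171) (nat_lit 429) (nat_lit 420)) (XT.lf (nat_lit 76) (nat_lit 15683638751) (nat_lit 0) (nat_lit 215515881756) (nat_lit 760) (nat_lit 15683638751) (nat_lit 298) (nat_lit 1) (nat_lit 297) (nat_lit 1) (nat_lit 307) (nat_lit 1) (nat_lit 172) (nat_lit 429) (nat_lit 419)))) (XT.nd (nat_lit 78) (nat_lit 532) (nat_lit 0) (XT.lf (nat_lit 836) (nat_lit 9472527787) (nat_lit 0) (nat_lit 115961554644) (nat_lit 760) (nat_lit 115961554644) (nat_lit 298) (nat_lit 1) (nat_lit 287) (nat_lit 1) (nat_lit 297) (nat_lit 1) (nat_lit 173) (nat_lit 429) (nat_lit 418)) (XT.nd (nat_lit 78) (nat_lit 0) (nat_lit 0) (XT.lf (nat_lit 532) (nat_lit 224795013793) (nat_lit 0) (nat_lit 5674427665) (nat_lit 456) (nat_lit 5674427665) (nat_lit 287) (nat_lit 1) (nat_lit 280) (nat_lit 1) (nat_lit 286) (nat_lit 1) (nat_lit 174) (nat_lit 429) (nat_lit 417)) (XT.lf (nat_lit 76) (nat_lit 98279988788) (nat_lit 0) (nat_lit 34399681266)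 (nat_lit 532) (nat_lit 98279988788) (nat_lit 281) (nat_lit 1) (nat_lit 280) (nat_lit 1) (nat_lit 287) (nat_lit 1) (nat_lit 175) (nat_lit 429) (nat_lit 416))))) (XT.nd (nat_lit 234) (nat_lit 684) (nat_lit 0) (XT.nd (nat_lit 78) (nat_lit 380) (nat_lit 0) (XT.lf (nat_lit 456) (nat_lit 169114633326) (nat_lit 0) (nat_lit 28440630873) (nat_lit 380) (nat_lit 28440630873) (nat_lit 281) (nat_lit 1) (nat_lit 275) (nat_lit 1) (nat_lit 280) (nat_lit 1) (nat_lit 176) (nat_lit 429) (nat_lit 415)) (XT.nd (nat_lit 78) (nat_lit 380) (nat_lit 0) (XT.lf (nat_lit 76) (nat_lit 70101919595) (nat_lit 0) (nat_lit 80932644146) (nat_lit 456) (nat_lit 70101919595) (nat_lit 276) (nat_lit 1) (nat_lit 275) (nat_lit 1) (nat_lit 281) (nat_lit 1) (nat_lit 177) (nat_lit 429) (nat_lit 414)) (XT.lf (nat_lit 456) (nat_lit 111364384311) (nat_lit 0) (nat_lit 52540963800) (nat_lit 380) (nat_lit 52540963800) (nat_lit 276) (nat_lit 1)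 (nat_lit 270) (nat_lit 1) (nat_lit 275) (nat_lit 1) (nat_lit 178) (nat_lit 429) (nat_lit 413)))) (XT.nd (nat_lit 156) (nat_lit 380) (nat_lit 0) (XT.nd (nat_lit 78) (nat_lit 304) (nat_lit 0) (XT.lf (nat_lit 76) (nat_lit 41036295581) (nat_lit 0) (nat_lit 129819955313) (nat_lit 456) (nat_lit 41036295581) (nat_lit 271) (nat_lit 1) (nat_lit 270) (nat_lit 1) (nat_lit 276) (nat_lit 1) (nat_lit 179) (nat_lit 429) (nat_lit 412)) (XT.lf (nat_lit 380) (nat_lit 52081775058) (nat_lit 0) (nat_lit 77687071923) (nat_lit 304) (nat_lit 77687071923) (nat_lit 271) (nat_lit 1) (nat_lit 266) (nat_lit 1) (nat_lit 270) (nat_lit 1) (nat_lit 180) (nat_lit 429) (nat_lit 411))) (XT.nd (nat_lit 78) (nat_lit 380) (nat_lit 0) (XT.lf (nat_lit 76) (nat_lit 11332646732) (nat_lit 0) (nat_lit 180524608727) (nat_lit 380) (nat_lit 11332646732) (nat_lit 267) (nat_lit 1) (nat_lit 266) (nat_lit 1) (nat_lit 271) (nat_lit 1) (nat_lit 181)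 (nat_lit 429) (nat_lit 410)) (XT.lf (nat_lit 76) (nat_lit 95492137801) (nat_lit 0) (nat_lit 7997652035) (nat_lit 380) (nat_lit 95492137801) (nat_lit 262) (nat_lit 1) (nat_lit 261) (nat_lit 1) (nat_lit 266) (nat_lit 1) (nat_lit 182) (nat_lit 429) (nat_lit 409)))))) (XT.nd (nat_lit 468) (nat_lit 988) (nat_lit 0) (XT.nd (nat_lit 234) (nat_lit 608) (nat_lit 0) (XT.nd (nat_lit 78) (nat_lit 304) (nat_lit 0) (XT.lf (nat_lit 380) (nat_lit 157959055191) (nat_lit 0) (nat_lit 18487573940) (nat_lit 304) (nat_lit 18487573940) (nat_lit 262) (nat_lit 1) (nat_lit 257) (nat_lit 1) (nat_lit 261) (nat_lit 1) (nat_lit 183) (nat_lit 429) (nat_lit 408)) (XT.nd (nat_lit 78) (nat_lit 304) (nat_lit 0) (XT.lf (nat_lit 76) (nat_lit 61958485807) (nat_lit 0) (nat_lit 67038946503) (nat_lit 380) (nat_lit 61958485807) (nat_lit 258) (nat_lit 1) (nat_lit 257) (nat_lit 1) (nat_lit 262) (nat_lit 1) (nat_lit 184) (nat_lit 429) (nat_lit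 407)) (XT.lf (nat_lit 380) (nat_lit 90414666306) (nat_lit 0) (nat_lit 48350459895) (nat_lit 304) (nat_lit 48350459895) (nat_lit 258) (nat_lit 1) (nat_lit 253) (nat_lit 1) (nat_lit 257) (nat_lit 1) (nat_lit 185) (nat_lit 429) (nat_lit 406)))) (XT.nd (nat_lit 78) (nat_lit 608) (nat_lit 0) (XT.lf (nat_lit 76) (nat_lit 28512750612) (nat_lit 0) (nat_lit 126362044489) (nat_lit 380) (nat_lit 28512750612) (nat_lit 254) (nat_lit 1) (nat_lit 253) (nat_lit 1) (nat_lit 258) (nat_lit 1) (nat_lit 186) (nat_lit 429) (nat_lit 405)) (XT.nd (nat_lit 78) (nat_lit 380) (nat_lit 0) (XT.lf (nat_lit 304) (nat_lit 23188198894) (nat_lit 0) (nat_lit 78275889954) (nat_lit 228) (nat_lit 78275889954) (nat_lit 254) (nat_lit 1) (nat_lit 250) (nat_lit 1) (nat_lit 253) (nat_lit 1) (nat_lit 187) (nat_lit 429) (nat_lit 404)) (XT.lf (nat_lit 380) (nat_lit 166967139853) (nat_lit 0) (nat_lit 4633017755) (nat_lit 304) (nat_lit 4633017755)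 (nat_lit 250) (nat_lit 1) (nat_lit 245) (nat_lit 1) (nat_lit 249) (nat_lit 1) (nat_lit 188) (nat_lit 429) (nat_lit 403))))) (XT.nd (nat_lit 234) (nat_lit 760) (nat_lit 0) (XT.nd (nat_lit 78) (nat_lit 228) (nat_lit 0) (XT.lf (nat_lit 76) (nat_lit 65335476191) (nat_lit 0) (nat_lit 42074829279) (nat_lit 380) (nat_lit 65335476191) (nat_lit 246) (nat_lit 1) (nat_lit 245) (nat_lit 1) (nat_lit 250) (nat_lit 1) (nat_lit 189) (nat_lit 429) (nat_lit 402)) (XT.nd (nat_lit 78) (nat_lit 0) (nat_lit 0) (XT.lf (nat_lit 304) (nat_lit 95424528514) (nat_lit 0) (nat_lit 36983805137) (nat_lit 228) (nat_lit 36983805137) (nat_lit 246) (nat_lit 1) (nat_lit 242) (nat_lit 1) (nat_lit 245) (nat_lit 1) (nat_lit 190) (nat_lit 429) (nat_lit 401)) (XT.lf (nat_lit 76) (nat_lit 30146084624) (nat_lit 0) (nat_lit 105831531731) (nat_lit 304) (nat_lit 30146084624) (nat_lit 243) (nat_lit 1) (nat_lit 242) (nat_lit 1) (nat_lit 246)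 (nat_lit 1) (nat_lit 191) (nat_lit 429) (nat_lit 400)))) (XT.nd (nat_lit 156) (nat_lit 228) (nat_lit 0) (XT.nd (nat_lit 78) (nat_lit 304) (nat_lit 0) (XT.lf (nat_lit 304) (nat_lit 25125819282) (nat_lit 0) (nat_lit 68901899982) (nat_lit 228) (nat_lit 68901899982) (nat_lit 243) (nat_lit 1) (nat_lit 239) (nat_lit 1) (nat_lit 242) (nat_lit 1) (nat_lit 192) (nat_lit 429) (nat_lit 399)) (XT.lf (nat_lit 304) (nat_lit 151217938524) (nat_lit 0) (nat_lit 4318131590) (nat_lit 228) (nat_lit 4318131590) (nat_lit 239) (nat_lit 1) (nat_lit 235) (nat_lit 1) (nat_lit 238) (nat_lit 1) (nat_lit 193) (nat_lit 429) (nat_lit 398))) (XT.nd (nat_lit 78) (nat_lit 228) (nat_lit 0) (XT.lf (nat_lit 76) (nat_lit 57201415534) (nat_lit 0) (nat_lit 42385674545) (nat_lit 304) (nat_lit 57201415534) (nat_lit 236) (nat_lit 1) (nat_lit 235) (nat_lit 1) (nat_lit 239) (nat_lit 1) (nat_lit 194) (nat_lit 429) (nat_lit 397)) (XT.lf (nat_lit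 304) (nat_lit 78657184057) (nat_lit 0) (nat_lit 37589528356) (nat_lit 228) (nat_lit 37589528356) (nat_lit 236) (nat_lit 1) (nat_lit 232) (nat_lit 1) (nat_lit 235) (nat_lit 1) (nat_lit 195) (nat_lit 429) (nat_lit 396))))))))
noncomputable def ec400 : XT := (XT.nd (nat_lit 1950) (nat_lit 1824) (nat_lit 0) (XT.nd (nat_lit 936) (nat_lit 1368) (nat_lit 0) (XT.nd (nat_lit 468) (nat_lit 760) (nat_lit 0) (XT.nd (nat_lit 234) (nat_lit 152) (nat_lit 0) (XT.nd (nat_lit 78) (nat_lit 456) (nat_lit 0) (XT.lf (nat_lit 76) (nat_lit 21662124339) (nat_lit 0) (nat_lit 107638908333) (nat_lit 304) (nat_lit 21662124339) (nat_lit 233) (nat_lit 1) (nat_lit 232) (nat_lit 1) (nat_lit 236) (nat_lit 1) (nat_lit 196) (nat_lit 429) (nat_lit 395)) (XT.nd (nat_lit 78) (nat_lit 304) (nat_lit 0) (XT.lf (nat_lit 228) (nat_lit 7937722609) (nat_lit 0) (nat_lit 70103246093) (nat_lit 152) (nat_lit 70103246093) (nat_lit 233) (nat_lit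 1) (nat_lit 230) (nat_lit 1) (nat_lit 232) (nat_lit 1) (nat_lit 197) (nat_lit 429) (nat_lit 394)) (XT.lf (nat_lit 304) (nat_lit 119936326987) (nat_lit 0) (nat_lit 12738107265) (nat_lit 228) (nat_lit 12738107265) (nat_lit 230) (nat_lit 1) (nat_lit 226) (nat_lit 1) (nat_lit 229) (nat_lit 1) (nat_lit 198) (nat_lit 429) (nat_lit 393)))) (XT.nd (nat_lit 78) (nat_lit 152) (nat_lit 0) (XT.lf (nat_lit 76) (nat_lit 41890912071) (nat_lit 0) (nat_lit 58929595233) (nat_lit 304) (nat_lit 41890912071) (nat_lit 227) (nat_lit 1) (nat_lit 226) (nat_lit 1) (nat_lit 230) (nat_lit 1) (nat_lit 199) (nat_lit 429) (nat_lit 392)) (XT.nd (nat_lit 78) (nat_lit 0) (nat_lit 0) (XT.lf (nat_lit 228) (nat_lit 48398486950) (nat_lit 0) (nat_lit 45847587162) (nat_lit 152) (nat_lit 45847587162) (nat_lit 227) (nat_lit 1) (nat_lit 224) (nat_lit 1) (nat_lit 226) (nat_lit 1) (nat_lit 200) (nat_lit 429) (nat_lit 391)) (XT.lf (nat_lit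 76) (nat_lit 6953326378) (nat_lit 0) (nat_lit 123656123763) (nat_lit 228) (nat_lit 6953326378) (nat_lit 225) (nat_lit 1) (nat_lit 224) (nat_lit 1) (nat_lit 227) (nat_lit 1) (nat_lit 201) (nat_lit 429) (nat_lit 390))))) (XT.nd (nat_lit 234) (nat_lit 380) (nat_lit 0) (XT.nd (nat_lit 78) (nat_lit 152) (nat_lit 0) (XT.lf (nat_lit 76) (nat_lit 57387022526) (nat_lit 0) (nat_lit 20267046660) (nat_lit 228) (nat_lit 57387022526) (nat_lit 222) (nat_lit 1) (nat_lit 221) (nat_lit 1) (nat_lit 224) (nat_lit 1) (nat_lit 202) (nat_lit 429) (nat_lit 389)) (XT.nd (nat_lit 78) (nat_lit 0) (nat_lit 0) (XT.lf (nat_lit 228) (nat_lit 79691938719) (nat_lit 0) (nat_lit 26455564480) (nat_lit 152) (nat_lit 26455564480) (nat_lit 222) (nat_lit 1) (nat_lit 219) (nat_lit 1) (nat_lit 221) (nat_lit 1) (nat_lit 203) (nat_lit 429) (nat_lit 388)) (XT.lf (nat_lit 76) (nat_lit 22486991826) (nat_lit 0) (nat_lit 85244945650) (nat_lit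 228) (nat_lit 22486991826) (nat_lit 220) (nat_lit 1) (nat_lit 219) (nat_lit 1) (nat_lit 222) (nat_lit 1) (nat_lit 204) (nat_lit 429) (nat_lit 387)))) (XT.nd (nat_lit 78) (nat_lit 228) (nat_lit 0) (XT.lf (nat_lit 228) (nat_lit 10534346063) (nat_lit 0) (nat_lit 58674251477) (nat_lit 152) (nat_lit 58674251477) (nat_lit 220) (nat_lit 1) (nat_lit 217) (nat_lit 1) (nat_lit 219) (nat_lit 1) (nat_lit 205) (nat_lit 429) (nat_lit 386)) (XT.nd (nat_lit 78) (nat_lit 0) (nat_lit 0) (XT.lf (nat_lit 228) (nat_lit 103538358756) (nat_lit 0) (nat_lit 11038049853) (nat_lit 152) (nat_lit 11038049853) (nat_lit 217) (nat_lit 1) (nat_lit 214) (nat_lit 1) (nat_lit 216) (nat_lit 1) (nat_lit 206) (nat_lit 429) (nat_lit 385)) (XT.lf (nat_lit 76) (nat_lit 34468173356) (nat_lit 0) (nat_lit 54429081662) (nat_lit 228) (nat_lit 34468173356) (nat_lit 215) (nat_lit 1) (nat_lit 214) (nat_lit 1) (nat_lit 217) (nat_lit 1) (nat_lit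 207) (nat_lit 429) (nat_lit 384)))))) (XT.nd (nat_lit 468) (nat_lit 760) (nat_lit 0) (XT.nd (nat_lit 234) (nat_lit 304) (nat_lit 0) (XT.nd (nat_lit 78) (nat_lit 152) (nat_lit 0) (XT.lf (nat_lit 228) (nat_lit 35104161114) (nat_lit 0) (nat_lit 43038764815) (nat_lit 152) (nat_lit 43038764815) (nat_lit 215) (nat_lit 1) (nat_lit 212) (nat_lit 1) (nat_lit 214) (nat_lit 1) (nat_lit 208) (nat_lit 429) (nat_lit 383)) (XT.nd (nat_lit 78) (nat_lit 152) (nat_lit 0) (XT.lf (nat_lit 76) (nat_lit 1153776960) (nat_lit 0) (nat_lit 116766982984) (nat_lit 228) (nat_lit 1153776960) (nat_lit 213) (nat_lit 1) (nat_lit 212) (nat_lit 1) (nat_lit 215) (nat_lit 1) (nat_lit 209) (nat_lit 429) (nat_lit 382)) (XT.lf (nat_lit 76) (nat_lit 43564736788) (nat_lit 0) (nat_lit 29824515337) (nat_lit 152) (nat_lit 43564736788) (nat_lit 211) (nat_lit 1) (nat_lit 210) (nat_lit 1) (nat_lit 212) (nat_lit 1) (nat_lit 210) (nat_lit 429)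 (nat_lit 381)))) (XT.nd (nat_lit 78) (nat_lit 152) (nat_lit 0) (XT.lf (nat_lit 228) (nat_lit 54058878831) (nat_lit 0) (nat_lit 30424586820) (nat_lit 152) (nat_lit 30424586820) (nat_lit 211) (nat_lit 1) (nat_lit 208) (nat_lit 1) (nat_lit 210) (nat_lit 1) (nat_lit 211) (nat_lit 429) (nat_lit 380)) (XT.nd (nat_lit 78) (nat_lit 152) (nat_lit 0) (XT.lf (nat_lit 76) (nat_lit 10838431591) (nat_lit 0) (nat_lit 91240477860) (nat_lit 228) (nat_lit 10838431591) (nat_lit 209) (nat_lit 1) (nat_lit 208) (nat_lit 1) (nat_lit 211) (nat_lit 1) (nat_lit 212) (nat_lit 429) (nat_lit 379)) (XT.lf (nat_lit 76) (nat_lit 50324326547) (nat_lit 0) (nat_lit 10294393200) (nat_lit 152) (nat_lit 50324326547) (nat_lit 207) (nat_lit 1) (nat_lit 206) (nat_lit 1) (nat_lit 208) (nat_lit 1) (nat_lit 213) (nat_lit 429) (nat_lit 378))))) (XT.nd (nat_lit 234) (nat_lit 532) (nat_lit 0) (XT.nd (nat_lit 78) (nat_lit 76) (nat_lit 0) (XT.lf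 (nat_lit 228) (nat_lit 68453991120) (nat_lit 0) (nat_lit 20284181437) (nat_lit 152) (nat_lit 20284181437) (nat_lit 207) (nat_lit 1) (nat_lit 204) (nat_lit 1) (nat_lit 206) (nat_lit 1) (nat_lit 214) (nat_lit 429) (nat_lit 377)) (XT.nd (nat_lit 78) (nat_lit 76) (nat_lit 0) (XT.lf (nat_lit 76) (nat_lit 18335105855) (nat_lit 0) (nat_lit 70469473589) (nat_lit 228) (nat_lit 18335105855) (nat_lit 205) (nat_lit 1) (nat_lit 204) (nat_lit 1) (nat_lit 207) (nat_lit 1) (nat_lit 215) (nat_lit 429) (nat_lit 376)) (XT.lf (nat_lit 152) (nat_lit 5263341194) (nat_lit 0) (nat_lit 50014601141) (nat_lit 76) (nat_lit 50014601141) (nat_lit 205) (nat_lit 1) (nat_lit 203) (nat_lit 1) (nat_lit 204) (nat_lit 1) (nat_lit 216) (nat_lit 429) (nat_lit 375)))) (XT.nd (nat_lit 156) (nat_lit 304) (nat_lit 0) (XT.nd (nat_lit 78) (nat_lit 0) (nat_lit 0) (XT.lf (nat_lit 228) (nat_lit 79154999067) (nat_lit 0) (nat_lit 12167654425)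 (nat_lit 152) (nat_lit 12167654425) (nat_lit 203) (nat_lit 1) (nat_lit 200) (nat_lit 1) (nat_lit 202) (nat_lit 1) (nat_lit 217) (nat_lit 429) (nat_lit 374)) (XT.lf (nat_lit 76) (nat_lit 24054147784) (nat_lit 0) (nat_lit 53599892845) (nat_lit 228) (nat_lit 24054147784) (nat_lit 201) (nat_lit 1) (nat_lit 200) (nat_lit 1) (nat_lit 203) (nat_lit 1) (nat_lit 218) (nat_lit 429) (nat_lit 373))) (XT.nd (nat_lit 78) (nat_lit 228) (nat_lit 0) (XT.lf (nat_lit 152) (nat_lit 17675492121) (nat_lit 0) (nat_lit 41147136134) (nat_lit 76) (nat_lit 41147136134) (nat_lit 201) (nat_lit 1) (nat_lit 199) (nat_lit 1) (nat_lit 200) (nat_lit 1) (nat_lit 219) (nat_lit 429) (nat_lit 372)) (XT.lf (nat_lit 228) (nat_lit 86871233780) (nat_lit 0) (nat_lit 5705414797) (nat_lit 152) (nat_lit 5705414797) (nat_lit 199) (nat_lit 1) (nat_lit 196) (nat_lit 1) (nat_lit 198) (nat_lit 1) (nat_lit 220) (nat_lit 429) (nat_lit 371)))))))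 (XT.nd (nat_lit 936) (nat_lit 988) (nat_lit 0) (XT.nd (nat_lit 468) (nat_lit 456) (nat_lit 0) (XT.nd (nat_lit 234) (nat_lit 76) (nat_lit 0) (XT.nd (nat_lit 78) (nat_lit 304) (nat_lit 0) (XT.lf (nat_lit 76) (nat_lit 28332083883) (nat_lit 0) (nat_lit 39929604993) (nat_lit 228) (nat_lit 28332083883) (nat_lit 197) (nat_lit 1) (nat_lit 196) (nat_lit 1) (nat_lit 199) (nat_lit 1) (nat_lit 221) (nat_lit 429) (nat_lit 370)) (XT.nd (nat_lit 78) (nat_lit 228) (nat_lit 0) (XT.lf (nat_lit 152) (nat_lit 27251507583) (nat_lit 0) (nat_lit 33851850728) (nat_lit 76) (nat_lit 33851850728) (nat_lit 197) (nat_lit 1) (nat_lit 195) (nat_lit 1) (nat_lit 196) (nat_lit 1) (nat_lit 222) (nat_lit 429) (nat_lit 369)) (XT.lf (nat_lit 228) (nat_lit 92183674405) (nat_lit 0) (nat_lit 593911624) (nat_lit 152) (nat_lit 593911624) (nat_lit 195) (nat_lit 1) (nat_lit 192) (nat_lit 1) (nat_lit 194) (nat_lit 1) (nat_lit 223) (nat_lit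 429) (nat_lit 368)))) (XT.nd (nat_lit 78) (nat_lit 76) (nat_lit 0) (XT.lf (nat_lit 76) (nat_lit 31444758358) (nat_lit 0) (nat_lit 28881461513) (nat_lit 228) (nat_lit 31444758358) (nat_lit 193) (nat_lit 1) (nat_lit 192) (nat_lit 1) (nat_lit 195) (nat_lit 1) (nat_lit 224) (nat_lit 429) (nat_lit 367)) (XT.nd (nat_lit 78) (nat_lit 0) (nat_lit 0) (XT.lf (nat_lit 152) (nat_lit 34524488893) (nat_lit 0) (nat_lit 27850001370) (nat_lit 76) (nat_lit 27850001370) (nat_lit 193) (nat_lit 1) (nat_lit 191) (nat_lit 1) (nat_lit 192) (nat_lit 1) (nat_lit 225) (nat_lit 429) (nat_lit 366)) (XT.lf (nat_lit 0) (nat_lit 3472100726) (nat_lit 0) (nat_lit 81780494603) (nat_lit 152) (nat_lit 3472100726) (nat_lit 191) (nat_lit 3) (nat_lit 191) (nat_lit 1) (nat_lit 193) (nat_lit 1) (nat_lit 226) (nat_lit 429) (nat_lit 365))))) (XT.nd (nat_lit 234) (nat_lit 228) (nat_lit 0) (XT.nd (nat_lit 78) (nat_lit 76) (nat_lit 0) (XT.lf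 (nat_lit 76) (nat_lit 33618140359) (nat_lit 0) (nat_lit 19981113356) (nat_lit 152) (nat_lit 33618140359) (nat_lit 190) (nat_lit 1) (nat_lit 189) (nat_lit 1) (nat_lit 191) (nat_lit 1) (nat_lit 227) (nat_lit 429) (nat_lit 364)) (XT.nd (nat_lit 78) (nat_lit 0) (nat_lit 0) (XT.lf (nat_lit 152) (nat_lit 39931578800) (nat_lit 0) (nat_lit 22912265050) (nat_lit 76) (nat_lit 22912265050) (nat_lit 190) (nat_lit 1) (nat_lit 188) (nat_lit 1) (nat_lit 189) (nat_lit 1) (nat_lit 228) (nat_lit 429) (nat_lit 363)) (XT.lf (nat_lit 0) (nat_lit 6636242367) (nat_lit 0) (nat_lit 71060751807) (nat_lit 152) (nat_lit 6636242367) (nat_lit 188) (nat_lit 3) (nat_lit 188) (nat_lit 1) (nat_lit 190) (nat_lit 1) (nat_lit 229) (nat_lit 429) (nat_lit 362)))) (XT.nd (nat_lit 78) (nat_lit 76) (nat_lit 0) (XT.lf (nat_lit 76) (nat_lit 35037212833) (nat_lit 0) (nat_lit 12838762352) (nat_lit 152) (nat_lit 35037212833) (nat_lit 187) (nat_lit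 1) (nat_lit 186) (nat_lit 1) (nat_lit 188) (nat_lit 1) (nat_lit 230) (nat_lit 429) (nat_lit 361)) (XT.nd (nat_lit 78) (nat_lit 0) (nat_lit 0) (XT.lf (nat_lit 152) (nat_lit 43831043316) (nat_lit 0) (nat_lit 18849977160) (nat_lit 76) (nat_lit 18849977160) (nat_lit 187) (nat_lit 1) (nat_lit 185) (nat_lit 1) (nat_lit 186) (nat_lit 1) (nat_lit 231) (nat_lit 429) (nat_lit 360)) (XT.lf (nat_lit 0) (nat_lit 9059402073) (nat_lit 0) (nat_lit 62061605426) (nat_lit 152) (nat_lit 9059402073) (nat_lit 185) (nat_lit 3) (nat_lit 185) (nat_lit 1) (nat_lit 187) (nat_lit 1) (nat_lit 232) (nat_lit 429) (nat_lit 359)))))) (XT.nd (nat_lit 468) (nat_lit 532) (nat_lit 0) (XT.nd (nat_lit 234) (nat_lit 228) (nat_lit 0) (XT.nd (nat_lit 78) (nat_lit 76) (nat_lit 0) (XT.lf (nat_lit 76) (nat_lit 35853283194) (nat_lit 0) (nat_lit 7134149128) (nat_lit 152) (nat_lit 35853283194) (nat_lit 184) (nat_lit 1) (nat_lit 183) (nat_lit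 1) (nat_lit 185) (nat_lit 1) (nat_lit 233) (nat_lit 429) (nat_lit 358)) (XT.nd (nat_lit 78) (nat_lit 0) (nat_lit 0) (XT.lf (nat_lit 152) (nat_lit 46516321728) (nat_lit 0) (nat_lit 15507922859) (nat_lit 76) (nat_lit 15507922859) (nat_lit 184) (nat_lit 1) (nat_lit 182) (nat_lit 1) (nat_lit 183) (nat_lit 1) (nat_lit 234) (nat_lit 429) (nat_lit 357)) (XT.lf (nat_lit 0) (nat_lit 10881524938) (nat_lit 0) (nat_lit 54486568806) (nat_lit 152) (nat_lit 10881524938) (nat_lit 182) (nat_lit 3) (nat_lit 182) (nat_lit 1) (nat_lit 184) (nat_lit 1) (nat_lit 235) (nat_lit 429) (nat_lit 356)))) (XT.nd (nat_lit 78) (nat_lit 76) (nat_lit 0) (XT.lf (nat_lit 76) (nat_lit 36189995753) (nat_lit 0) (nat_lit 2604203636) (nat_lit 152) (nat_lit 36189995753) (nat_lit 181) (nat_lit 1) (nat_lit 180) (nat_lit 1) (nat_lit 182) (nat_lit 1) (nat_lit 236) (nat_lit 429) (nat_lit 355)) (XT.nd (nat_lit 78) (nat_lit 0) (nat_lit 0) (XT.lf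 (nat_lit 152) (nat_lit 48227582451) (nat_lit 0) (nat_lit 12758406515) (nat_lit 76) (nat_lit 12758406515) (nat_lit 181) (nat_lit 1) (nat_lit 179) (nat_lit 1) (nat_lit 180) (nat_lit 1) (nat_lit 237) (nat_lit 429) (nat_lit 354)) (XT.lf (nat_lit 0) (nat_lit 12217336003) (nat_lit 0) (nat_lit 48091313507) (nat_lit 152) (nat_lit 12217336003) (nat_lit 179) (nat_lit 3) (nat_lit 179) (nat_lit 1) (nat_lit 181) (nat_lit 1) (nat_lit 238) (nat_lit 429) (nat_lit 353))))) (XT.nd (nat_lit 234) (nat_lit 304) (nat_lit 0) (XT.nd (nat_lit 78) (nat_lit 152) (nat_lit 0) (XT.lf (nat_lit 76) (nat_lit 999090951) (nat_lit 0) (nat_lit 35164783812) (nat_lit 76) (nat_lit 35164783812) (nat_lit 179) (nat_lit 3) (nat_lit 178) (nat_lit 1) (nat_lit 179) (nat_lit 1) (nat_lit 239) (nat_lit 429) (nat_lit 352)) (XT.nd (nat_lit 78) (nat_lit 0) (nat_lit 0) (XT.lf (nat_lit 152) (nat_lit 49161227099) (nat_lit 0) (nat_lit 10496372614) (nat_lit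 76) (nat_lit 10496372614) (nat_lit 178) (nat_lit 1) (nat_lit 176) (nat_lit 1) (nat_lit 177) (nat_lit 1) (nat_lit 240) (nat_lit 429) (nat_lit 351)) (XT.lf (nat_lit 0) (nat_lit 13160831143) (nat_lit 0) (nat_lit 42674441216) (nat_lit 152) (nat_lit 13160831143) (nat_lit 176) (nat_lit 3) (nat_lit 176) (nat_lit 1) (nat_lit 178) (nat_lit 1) (nat_lit 241) (nat_lit 429) (nat_lit 350)))) (XT.nd (nat_lit 156) (nat_lit 76) (nat_lit 0) (XT.nd (nat_lit 78) (nat_lit 152) (nat_lit 0) (XT.lf (nat_lit 76) (nat_lit 3881398361) (nat_lit 0) (nat_lit 31989598430) (nat_lit 76) (nat_lit 31989598430) (nat_lit 176) (nat_lit 3) (nat_lit 175) (nat_lit 1) (nat_lit 176) (nat_lit 1) (nat_lit 242) (nat_lit 429) (nat_lit 349)) (XT.lf (nat_lit 152) (nat_lit 49477706688) (nat_lit 0) (nat_lit 8635391726) (nat_lit 76) (nat_lit 8635391726) (nat_lit 175) (nat_lit 1) (nat_lit 173) (nat_lit 1) (nat_lit 174) (nat_lit 1) (nat_lit 243) (nat_lit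 429) (nat_lit 348))) (XT.nd (nat_lit 78) (nat_lit 76) (nat_lit 0) (XT.lf (nat_lit 0) (nat_lit 13788970807) (nat_lit 0) (nat_lit 38069890854) (nat_lit 152) (nat_lit 13788970807) (nat_lit 173) (nat_lit 3) (nat_lit 173) (nat_lit 1) (nat_lit 175) (nat_lit 1) (nat_lit 244) (nat_lit 429) (nat_lit 347)) (XT.lf (nat_lit 76) (nat_lit 6106992001) (nat_lit 0) (nat_lit 29231677760) (nat_lit 76) (nat_lit 29231677760) (nat_lit 173) (nat_lit 3) (nat_lit 172) (nat_lit 1) (nat_lit 173) (nat_lit 1) (nat_lit 245) (nat_lit 429) (nat_lit 346))))))))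
noncomputable def ec401 : XT := (XT.nd (nat_lit 1950) (nat_lit 1824) (nat_lit 0) (XT.nd (nat_lit 936) (nat_lit 1064) (nat_lit 0) (XT.nd (nat_lit 468) (nat_lit 456) (nat_lit 0) (XT.nd (nat_lit 234) (nat_lit 228) (nat_lit 0) (XT.nd (nat_lit 78) (nat_lit 76) (nat_lit 0) (XT.lf (nat_lit 152) (nat_lit 49307949348) (nat_lit 0) (nat_lit 7104358144) (nat_lit 76) (nat_lit 7104358144) (nat_lit 172) (nat_lit 1) (nat_lit 170) (nat_lit 1) (nat_lit 171) (nat_lit 1) (nat_lit 246) (nat_lit 429) (nat_lit 345)) (XT.nd (nat_lit 78) (nat_lit 76) (nat_lit 0) (XT.lf (nat_lit 0) (nat_lit 14164717985) (nat_lit 0) (nat_lit 34140690998) (nat_lit 152) (nat_lit 14164717985) (nat_lit 170) (nat_lit 3) (nat_lit 170) (nat_lit 1) (nat_lit 172) (nat_lit 1) (nat_lit 247) (nat_lit 429) (nat_lit 344)) (XT.lf (nat_lit 76) (nat_lit 7799243113) (nat_lit 0) (nat_lit 26823979316) (nat_lit 76) (nat_lit 26823979316) (nat_lit 170) (nat_lit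 3) (nat_lit 169) (nat_lit 1) (nat_lit 170) (nat_lit 1) (nat_lit 248) (nat_lit 429) (nat_lit 343)))) (XT.nd (nat_lit 78) (nat_lit 76) (nat_lit 0) (XT.lf (nat_lit 152) (nat_lit 48758645868) (nat_lit 0) (nat_lit 5844773026) (nat_lit 76) (nat_lit 5844773026) (nat_lit 169) (nat_lit 1) (nat_lit 167) (nat_lit 1) (nat_lit 168) (nat_lit 1) (nat_lit 249) (nat_lit 429) (nat_lit 342)) (XT.nd (nat_lit 78) (nat_lit 76) (nat_lit 0) (XT.lf (nat_lit 0) (nat_lit 14339536709) (nat_lit 0) (nat_lit 30773819143) (nat_lit 152) (nat_lit 14339536709) (nat_lit 167) (nat_lit 3) (nat_lit 167) (nat_lit 1) (nat_lit 169) (nat_lit 1) (nat_lit 250) (nat_lit 429) (nat_lit 341)) (XT.lf (nat_lit 76) (nat_lit 9059319163) (nat_lit 0) (nat_lit 24711016719) (nat_lit 76) (nat_lit 24711016719) (nat_lit 167) (nat_lit 3) (nat_lit 166) (nat_lit 1) (nat_lit 167) (nat_lit 1) (nat_lit 251) (nat_lit 429) (nat_lit 340))))) (XT.nd (nat_lit 234)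 (nat_lit 228) (nat_lit 0) (XT.nd (nat_lit 78) (nat_lit 76) (nat_lit 0) (XT.lf (nat_lit 152) (nat_lit 47916595684) (nat_lit 0) (nat_lit 4808509233) (nat_lit 76) (nat_lit 4808509233) (nat_lit 166) (nat_lit 1) (nat_lit 164) (nat_lit 1) (nat_lit 165) (nat_lit 1) (nat_lit 252) (nat_lit 429) (nat_lit 339)) (XT.nd (nat_lit 78) (nat_lit 76) (nat_lit 0) (XT.lf (nat_lit 0) (nat_lit 14355446784) (nat_lit 0) (nat_lit 27875971614) (nat_lit 152) (nat_lit 14355446784) (nat_lit 164) (nat_lit 3) (nat_lit 164) (nat_lit 1) (nat_lit 166) (nat_lit 1) (nat_lit 253) (nat_lit 429) (nat_lit 338)) (XT.lf (nat_lit 76) (nat_lit 9970136250) (nat_lit 0) (nat_lit 22846826565) (nat_lit 76) (nat_lit 22846826565) (nat_lit 164) (nat_lit 3) (nat_lit 163) (nat_lit 1) (nat_lit 164) (nat_lit 1) (nat_lit 254) (nat_lit 429) (nat_lit 337)))) (XT.nd (nat_lit 78) (nat_lit 76) (nat_lit 0) (XT.lf (nat_lit 152) (nat_lit 46852280005) (nat_lit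 0) (nat_lit 3955972446) (nat_lit 76) (nat_lit 3955972446) (nat_lit 163) (nat_lit 1) (nat_lit 161) (nat_lit 1) (nat_lit 162) (nat_lit 1) (nat_lit 255) (nat_lit 429) (nat_lit 336)) (XT.nd (nat_lit 78) (nat_lit 76) (nat_lit 0) (XT.lf (nat_lit 0) (nat_lit 14246713449) (nat_lit 0) (nat_lit 25370082687) (nat_lit 152) (nat_lit 14246713449) (nat_lit 161) (nat_lit 3) (nat_lit 161) (nat_lit 1) (nat_lit 163) (nat_lit 1) (nat_lit 256) (nat_lit 429) (nat_lit 335)) (XT.lf (nat_lit 76) (nat_lit 10599610010) (nat_lit 0) (nat_lit 21193294998) (nat_lit 76) (nat_lit 21193294998) (nat_lit 161) (nat_lit 3) (nat_lit 160) (nat_lit 1) (nat_lit 161) (nat_lit 1) (nat_lit 257) (nat_lit 429) (nat_lit 334)))))) (XT.nd (nat_lit 468) (nat_lit 608) (nat_lit 0) (XT.nd (nat_lit 234) (nat_lit 228) (nat_lit 0) (XT.nd (nat_lit 78) (nat_lit 76) (nat_lit 0) (XT.lf (nat_lit 152) (nat_lit 45622799236) (nat_lit 0) (nat_lit 3254588322)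 (nat_lit 76) (nat_lit 3254588322) (nat_lit 160) (nat_lit 1) (nat_lit 158) (nat_lit 1) (nat_lit 159) (nat_lit 1) (nat_lit 258) (nat_lit 429) (nat_lit 333)) (XT.nd (nat_lit 78) (nat_lit 76) (nat_lit 0) (XT.lf (nat_lit 0) (nat_lit 14041236748) (nat_lit 0) (nat_lit 23192460149) (nat_lit 152) (nat_lit 14041236748) (nat_lit 158) (nat_lit 3) (nat_lit 158) (nat_lit 1) (nat_lit 160) (nat_lit 1) (nat_lit 259) (nat_lit 429) (nat_lit 332)) (XT.lf (nat_lit 76) (nat_lit 11003329428) (nat_lit 0) (nat_lit 19718780285) (nat_lit 76) (nat_lit 19718780285) (nat_lit 158) (nat_lit 3) (nat_lit 157) (nat_lit 1) (nat_lit 158) (nat_lit 1) (nat_lit 260) (nat_lit 429) (nat_lit 331)))) (XT.nd (nat_lit 78) (nat_lit 76) (nat_lit 0) (XT.lf (nat_lit 152) (nat_lit 44274287482) (nat_lit 0) (nat_lit 2677557867) (nat_lit 76) (nat_lit 2677557867) (nat_lit 157) (nat_lit 1) (nat_lit 155) (nat_lit 1) (nat_lit 156) (nat_lit 1) (nat_lit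 261) (nat_lit 429) (nat_lit 330)) (XT.nd (nat_lit 78) (nat_lit 76) (nat_lit 0) (XT.lf (nat_lit 0) (nat_lit 13761693876) (nat_lit 0) (nat_lit 21290428015) (nat_lit 152) (nat_lit 13761693876) (nat_lit 155) (nat_lit 3) (nat_lit 155) (nat_lit 1) (nat_lit 157) (nat_lit 1) (nat_lit 262) (nat_lit 429) (nat_lit 329)) (XT.lf (nat_lit 76) (nat_lit 11226755914) (nat_lit 0) (nat_lit 18396978903) (nat_lit 76) (nat_lit 18396978903) (nat_lit 155) (nat_lit 3) (nat_lit 154) (nat_lit 1) (nat_lit 155) (nat_lit 1) (nat_lit 263) (nat_lit 429) (nat_lit 328))))) (XT.nd (nat_lit 234) (nat_lit 380) (nat_lit 0) (XT.nd (nat_lit 78) (nat_lit 76) (nat_lit 0) (XT.lf (nat_lit 152) (nat_lit 42843896971) (nat_lit 0) (nat_lit 2202833483) (nat_lit 76) (nat_lit 2202833483) (nat_lit 154) (nat_lit 1) (nat_lit 152) (nat_lit 1) (nat_lit 153) (nat_lit 1) (nat_lit 264) (nat_lit 429) (nat_lit 327)) (XT.nd (nat_lit 78) (nat_lit 76) (nat_lit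 0) (XT.lf (nat_lit 0) (nat_lit 13426478327) (nat_lit 0) (nat_lit 19620386535) (nat_lit 152) (nat_lit 13426478327) (nat_lit 152) (nat_lit 3) (nat_lit 152) (nat_lit 1) (nat_lit 154) (nat_lit 1) (nat_lit 265) (nat_lit 429) (nat_lit 326)) (XT.lf (nat_lit 76) (nat_lit 11307031838) (nat_lit 0) (nat_lit 17205992036) (nat_lit 76) (nat_lit 17205992036) (nat_lit 152) (nat_lit 3) (nat_lit 151) (nat_lit 1) (nat_lit 152) (nat_lit 1) (nat_lit 266) (nat_lit 429) (nat_lit 325)))) (XT.nd (nat_lit 156) (nat_lit 228) (nat_lit 0) (XT.nd (nat_lit 78) (nat_lit 0) (nat_lit 0) (XT.lf (nat_lit 152) (nat_lit 41361428724) (nat_lit 0) (nat_lit 1812276558) (nat_lit 76) (nat_lit 1812276558) (nat_lit 151) (nat_lit 1) (nat_lit 149) (nat_lit 1) (nat_lit 150) (nat_lit 1) (nat_lit 267) (nat_lit 429) (nat_lit 324)) (XT.lf (nat_lit 0) (nat_lit 13050471917) (nat_lit 0) (nat_lit 18146215528) (nat_lit 152) (nat_lit 13050471917) (nat_lit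 149) (nat_lit 3) (nat_lit 149) (nat_lit 1) (nat_lit 151) (nat_lit 1) (nat_lit 268) (nat_lit 429) (nat_lit 323))) (XT.nd (nat_lit 78) (nat_lit 152) (nat_lit 0) (XT.lf (nat_lit 76) (nat_lit 11274467804) (nat_lit 0) (nat_lit 16127556957) (nat_lit 76) (nat_lit 16127556957) (nat_lit 149) (nat_lit 3) (nat_lit 148) (nat_lit 1) (nat_lit 149) (nat_lit 1) (nat_lit 269) (nat_lit 429) (nat_lit 322)) (XT.lf (nat_lit 152) (nat_lit 39850672303) (nat_lit 0) (nat_lit 1490964409) (nat_lit 76) (nat_lit 1490964409) (nat_lit 148) (nat_lit 1) (nat_lit 146) (nat_lit 1) (nat_lit 147) (nat_lit 1) (nat_lit 270) (nat_lit 429) (nat_lit 321))))))) (XT.nd (nat_lit 936) (nat_lit 912) (nat_lit 0) (XT.nd (nat_lit 468) (nat_lit 456) (nat_lit 0) (XT.nd (nat_lit 234) (nat_lit 228) (nat_lit 0) (XT.nd (nat_lit 78) (nat_lit 228) (nat_lit 0) (XT.lf (nat_lit 0) (nat_lit 12645679323) (nat_lit 0) (nat_lit 16837960203) (nat_lit 152) (nat_lit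 12645679323) (nat_lit 146) (nat_lit 3) (nat_lit 146) (nat_lit 1) (nat_lit 148) (nat_lit 1) (nat_lit 271) (nat_lit 429) (nat_lit 320)) (XT.nd (nat_lit 78) (nat_lit 152) (nat_lit 0) (XT.lf (nat_lit 76) (nat_lit 11153765638) (nat_lit 0) (nat_lit 15146414095) (nat_lit 76) (nat_lit 15146414095) (nat_lit 146) (nat_lit 3) (nat_lit 145) (nat_lit 1) (nat_lit 146) (nat_lit 1) (nat_lit 272) (nat_lit 429) (nat_lit 319)) (XT.lf (nat_lit 152) (nat_lit 38330506278) (nat_lit 0) (nat_lit 1226620109) (nat_lit 76) (nat_lit 1226620109) (nat_lit 145) (nat_lit 1) (nat_lit 143) (nat_lit 1) (nat_lit 144) (nat_lit 1) (nat_lit 273) (nat_lit 429) (nat_lit 318)))) (XT.nd (nat_lit 78) (nat_lit 228) (nat_lit 0) (XT.lf (nat_lit 0) (nat_lit 12221749561) (nat_lit 0) (nat_lit 15670749416) (nat_lit 152) (nat_lit 12221749561) (nat_lit 143) (nat_lit 3) (nat_lit 143) (nat_lit 1) (nat_lit 145) (nat_lit 1) (nat_lit 274) (nat_lit 429)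 (nat_lit 317)) (XT.nd (nat_lit 78) (nat_lit 152) (nat_lit 0) (XT.lf (nat_lit 76) (nat_lit 10965023998) (nat_lit 0) (nat_lit 14249785764) (nat_lit 76) (nat_lit 14249785764) (nat_lit 143) (nat_lit 3) (nat_lit 142) (nat_lit 1) (nat_lit 143) (nat_lit 1) (nat_lit 275) (nat_lit 429) (nat_lit 316)) (XT.lf (nat_lit 152) (nat_lit 36815801949) (nat_lit 0) (nat_lit 1009143399) (nat_lit 76) (nat_lit 1009143399) (nat_lit 142) (nat_lit 1) (nat_lit 140) (nat_lit 1) (nat_lit 141) (nat_lit 1) (nat_lit 276) (nat_lit 429) (nat_lit 315))))) (XT.nd (nat_lit 234) (nat_lit 228) (nat_lit 0) (XT.nd (nat_lit 78) (nat_lit 228) (nat_lit 0) (XT.lf (nat_lit 0) (nat_lit 11786404454) (nat_lit 0) (nat_lit 14623905170) (nat_lit 152) (nat_lit 11786404454) (nat_lit 140) (nat_lit 3) (nat_lit 140) (nat_lit 1) (nat_lit 142) (nat_lit 1) (nat_lit 277) (nat_lit 429) (nat_lit 314)) (XT.nd (nat_lit 78) (nat_lit 152) (nat_lit 0) (XT.lf (nat_lit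 76) (nat_lit 10724565145) (nat_lit 0) (nat_lit 13426946779) (nat_lit 76) (nat_lit 13426946779) (nat_lit 140) (nat_lit 3) (nat_lit 139) (nat_lit 1) (nat_lit 140) (nat_lit 1) (nat_lit 278) (nat_lit 429) (nat_lit 313)) (XT.lf (nat_lit 152) (nat_lit 35318165255) (nat_lit 0) (nat_lit 830224772) (nat_lit 76) (nat_lit 830224772) (nat_lit 139) (nat_lit 1) (nat_lit 137) (nat_lit 1) (nat_lit 138) (nat_lit 1) (nat_lit 279) (nat_lit 429) (nat_lit 312)))) (XT.nd (nat_lit 78) (nat_lit 228) (nat_lit 0) (XT.lf (nat_lit 0) (nat_lit 11345790631) (nat_lit 0) (nat_lit 13680209492) (nat_lit 152) (nat_lit 11345790631) (nat_lit 137) (nat_lit 3) (nat_lit 137) (nat_lit 1) (nat_lit 139) (nat_lit 1) (nat_lit 280) (nat_lit 429) (nat_lit 311)) (XT.nd (nat_lit 78) (nat_lit 152) (nat_lit 0) (XT.lf (nat_lit 76) (nat_lit 10445614634) (nat_lit 0) (nat_lit 12668870693) (nat_lit 76) (nat_lit 12668870693) (nat_lit 137) (nat_lit 3)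 (nat_lit 136) (nat_lit 1) (nat_lit 137) (nat_lit 1) (nat_lit 281) (nat_lit 429) (nat_lit 310)) (XT.lf (nat_lit 152) (nat_lit 33846545655) (nat_lit 0) (nat_lit 683027974) (nat_lit 76) (nat_lit 683027974) (nat_lit 136) (nat_lit 1) (nat_lit 134) (nat_lit 1) (nat_lit 135) (nat_lit 1) (nat_lit 282) (nat_lit 429) (nat_lit 309)))))) (XT.nd (nat_lit 468) (nat_lit 456) (nat_lit 0) (XT.nd (nat_lit 234) (nat_lit 228) (nat_lit 0) (XT.nd (nat_lit 78) (nat_lit 228) (nat_lit 0) (XT.lf (nat_lit 0) (nat_lit 10904768619) (nat_lit 0) (nat_lit 12825300793) (nat_lit 152) (nat_lit 10904768619) (nat_lit 134) (nat_lit 3) (nat_lit 134) (nat_lit 1) (nat_lit 136) (nat_lit 1) (nat_lit 283) (nat_lit 429) (nat_lit 308)) (XT.nd (nat_lit 78) (nat_lit 152) (nat_lit 0) (XT.lf (nat_lit 76) (nat_lit 10138860009) (nat_lit 0) (nat_lit 11967938270) (nat_lit 76) (nat_lit 11967938270) (nat_lit 134) (nat_lit 3) (nat_lit 133) (nat_lit 1)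 (nat_lit 134) (nat_lit 1) (nat_lit 284) (nat_lit 429) (nat_lit 307)) (XT.lf (nat_lit 152) (nat_lit 32407735631) (nat_lit 0) (nat_lit 561928805) (nat_lit 76) (nat_lit 561928805) (nat_lit 133) (nat_lit 1) (nat_lit 131) (nat_lit 1) (nat_lit 132) (nat_lit 1) (nat_lit 285) (nat_lit 429) (nat_lit 306)))) (XT.nd (nat_lit 78) (nat_lit 228) (nat_lit 0) (XT.lf (nat_lit 0) (nat_lit 10467150214) (nat_lit 0) (nat_lit 12047176787) (nat_lit 152) (nat_lit 10467150214) (nat_lit 131) (nat_lit 3) (nat_lit 131) (nat_lit 1) (nat_lit 133) (nat_lit 1) (nat_lit 286) (nat_lit 429) (nat_lit 305)) (XT.nd (nat_lit 78) (nat_lit 152) (nat_lit 0) (XT.lf (nat_lit 76) (nat_lit 9812909981) (nat_lit 0) (nat_lit 11317697193) (nat_lit 76) (nat_lit 11317697193) (nat_lit 131) (nat_lit 3) (nat_lit 130) (nat_lit 1) (nat_lit 131) (nat_lit 1) (nat_lit 287) (nat_lit 429) (nat_lit 304)) (XT.lf (nat_lit 152) (nat_lit 31006780265) (nat_lit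 0) (nat_lit 462300218) (nat_lit 76) (nat_lit 462300218) (nat_lit 130) (nat_lit 1) (nat_lit 128) (nat_lit 1) (nat_lit 129) (nat_lit 1) (nat_lit 288) (nat_lit 429) (nat_lit 303))))) (XT.nd (nat_lit 234) (nat_lit 228) (nat_lit 0) (XT.nd (nat_lit 78) (nat_lit 228) (nat_lit 0) (XT.lf (nat_lit 0) (nat_lit 10035893323) (nat_lit 0) (nat_lit 11335785094) (nat_lit 152) (nat_lit 10035893323) (nat_lit 128) (nat_lit 3) (nat_lit 128) (nat_lit 1) (nat_lit 130) (nat_lit 1) (nat_lit 289) (nat_lit 429) (nat_lit 302)) (XT.nd (nat_lit 78) (nat_lit 152) (nat_lit 0) (XT.lf (nat_lit 76) (nat_lit 9474671765) (nat_lit 0) (nat_lit 10712663928) (nat_lit 76) (nat_lit 10712663928) (nat_lit 128) (nat_lit 3) (nat_lit 127) (nat_lit 1) (nat_lit 128) (nat_lit 1) (nat_lit 290) (nat_lit 429) (nat_lit 301)) (XT.lf (nat_lit 152) (nat_lit 29647312916) (nat_lit 0) (nat_lit 380335534) (nat_lit 76) (nat_lit 380335534) (nat_lit 127) (nat_lit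 1) (nat_lit 125) (nat_lit 1) (nat_lit 126) (nat_lit 1) (nat_lit 291) (nat_lit 429) (nat_lit 300)))) (XT.nd (nat_lit 156) (nat_lit 152) (nat_lit 0) (XT.nd (nat_lit 78) (nat_lit 76) (nat_lit 0) (XT.lf (nat_lit 0) (nat_lit 9613261833) (nat_lit 0) (nat_lit 10682686010) (nat_lit 152) (nat_lit 9613261833) (nat_lit 125) (nat_lit 3) (nat_lit 125) (nat_lit 1) (nat_lit 127) (nat_lit 1) (nat_lit 292) (nat_lit 429) (nat_lit 299)) (XT.lf (nat_lit 76) (nat_lit 9129661088) (nat_lit 0) (nat_lit 10148160305) (nat_lit 76) (nat_lit 10148160305) (nat_lit 125) (nat_lit 3) (nat_lit 124) (nat_lit 1) (nat_lit 125) (nat_lit 1) (nat_lit 293) (nat_lit 429) (nat_lit 298))) (XT.nd (nat_lit 78) (nat_lit 0) (nat_lit 0) (XT.lf (nat_lit 152) (nat_lit 28331830142) (nat_lit 0) (nat_lit 312902985) (nat_lit 76) (nat_lit 312902985) (nat_lit 124) (nat_lit 1) (nat_lit 122) (nat_lit 1) (nat_lit 123) (nat_lit 1) (nat_lit 294) (nat_lit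 429) (nat_lit 297)) (XT.lf (nat_lit 0) (nat_lit 9200956738) (nat_lit 0) (nat_lit 10080774656) (nat_lit 152) (nat_lit 9200956738) (nat_lit 122) (nat_lit 3) (nat_lit 122) (nat_lit 1) (nat_lit 124) (nat_lit 1) (nat_lit 295) (nat_lit 429) (nat_lit 296))))))))
noncomputable def ec402 : XT := (XT.nd (nat_lit 1950) (nat_lit 1976) (nat_lit 0) (XT.nd (nat_lit 936) (nat_lit 988) (nat_lit 0) (XT.nd (nat_lit 468) (nat_lit 456) (nat_lit 0) (XT.nd (nat_lit 234) (nat_lit 228) (nat_lit 0) (XT.nd (nat_lit 78) (nat_lit 152) (nat_lit 0) (XT.lf (nat_lit 76) (nat_lit 8782256847) (nat_lit 0) (nat_lit 9620178673) (nat_lit 76) (nat_lit 9620178673) (nat_lit 122) (nat_lit 3) (nat_lit 121) (nat_lit 1) (nat_lit 122) (nat_lit 1) (nat_lit 296) (nat_lit 429) (nat_lit 295)) (XT.nd (nat_lit 78) (nat_lit 0) (nat_lit 0) (XT.lf (nat_lit 152) (nat_lit 27061916711) (nat_lit 0) (nat_lit 257426060) (nat_lit 76) (nat_lit 257426060) (nat_lit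 121) (nat_lit 1) (nat_lit 119) (nat_lit 1) (nat_lit 120) (nat_lit 1) (nat_lit 297) (nat_lit 429) (nat_lit 294)) (XT.lf (nat_lit 0) (nat_lit 8800223629) (nat_lit 0) (nat_lit 9524052007) (nat_lit 152) (nat_lit 8800223629) (nat_lit 119) (nat_lit 3) (nat_lit 119) (nat_lit 1) (nat_lit 121) (nat_lit 1) (nat_lit 298) (nat_lit 429) (nat_lit 293)))) (XT.nd (nat_lit 78) (nat_lit 152) (nat_lit 0) (XT.lf (nat_lit 76) (nat_lit 8435910228) (nat_lit 0) (nat_lit 9125270589) (nat_lit 76) (nat_lit 9125270589) (nat_lit 119) (nat_lit 3) (nat_lit 118) (nat_lit 1) (nat_lit 119) (nat_lit 1) (nat_lit 299) (nat_lit 429) (nat_lit 292)) (XT.nd (nat_lit 78) (nat_lit 0) (nat_lit 0) (XT.lf (nat_lit 152) (nat_lit 25838429601) (nat_lit 0) (nat_lit 211785056) (nat_lit 76) (nat_lit 211785056) (nat_lit 118) (nat_lit 1) (nat_lit 116) (nat_lit 1) (nat_lit 117) (nat_lit 1) (nat_lit 300) (nat_lit 429) (nat_lit 291)) (XT.lf (nat_lit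 0) (nat_lit 8411940758) (nat_lit 0) (nat_lit 9007436156) (nat_lit 152) (nat_lit 8411940758) (nat_lit 116) (nat_lit 3) (nat_lit 116) (nat_lit 1) (nat_lit 118) (nat_lit 1) (nat_lit 301) (nat_lit 429) (nat_lit 290))))) (XT.nd (nat_lit 234) (nat_lit 228) (nat_lit 0) (XT.nd (nat_lit 78) (nat_lit 152) (nat_lit 0) (XT.lf (nat_lit 76) (nat_lit 8093316399) (nat_lit 0) (nat_lit 8660454874) (nat_lit 76) (nat_lit 8660454874) (nat_lit 116) (nat_lit 3) (nat_lit 115) (nat_lit 1) (nat_lit 116) (nat_lit 1) (nat_lit 302) (nat_lit 429) (nat_lit 289)) (XT.nd (nat_lit 78) (nat_lit 0) (nat_lit 0) (XT.lf (nat_lit 152) (nat_lit 24661648311) (nat_lit 0) (nat_lit 174236090) (nat_lit 76) (nat_lit 174236090) (nat_lit 115) (nat_lit 1) (nat_lit 113) (nat_lit 1) (nat_lit 114) (nat_lit 1) (nat_lit 303) (nat_lit 429) (nat_lit 288)) (XT.lf (nat_lit 0) (nat_lit 8036691146) (nat_lit 0) (nat_lit 8526606684) (nat_lit 152) (nat_lit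 8036691146) (nat_lit 113) (nat_lit 3) (nat_lit 113) (nat_lit 1) (nat_lit 115) (nat_lit 1) (nat_lit 304) (nat_lit 429) (nat_lit 287)))) (XT.nd (nat_lit 78) (nat_lit 152) (nat_lit 0) (XT.lf (nat_lit 76) (nat_lit 7756555410) (nat_lit 0) (nat_lit 8223141636) (nat_lit 76) (nat_lit 8223141636) (nat_lit 113) (nat_lit 3) (nat_lit 112) (nat_lit 1) (nat_lit 113) (nat_lit 1) (nat_lit 305) (nat_lit 429) (nat_lit 286)) (XT.nd (nat_lit 78) (nat_lit 0) (nat_lit 0) (XT.lf (nat_lit 152) (nat_lit 23531397511) (nat_lit 0) (nat_lit 143344462) (nat_lit 76) (nat_lit 143344462) (nat_lit 112) (nat_lit 1) (nat_lit 110) (nat_lit 1) (nat_lit 111) (nat_lit 1) (nat_lit 306) (nat_lit 429) (nat_lit 285)) (XT.lf (nat_lit 0) (nat_lit 7674821568) (nat_lit 0) (nat_lit 8077876294) (nat_lit 152) (nat_lit 7674821568) (nat_lit 110) (nat_lit 3) (nat_lit 110) (nat_lit 1) (nat_lit 112) (nat_lit 1) (nat_lit 307) (nat_lit 429) (nat_lit 284))))))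 (XT.nd (nat_lit 468) (nat_lit 532) (nat_lit 0) (XT.nd (nat_lit 234) (nat_lit 228) (nat_lit 0) (XT.nd (nat_lit 78) (nat_lit 152) (nat_lit 0) (XT.lf (nat_lit 76) (nat_lit 7427207787) (nat_lit 0) (nat_lit 7811069430) (nat_lit 76) (nat_lit 7811069430) (nat_lit 110) (nat_lit 3) (nat_lit 109) (nat_lit 1) (nat_lit 110) (nat_lit 1) (nat_lit 308) (nat_lit 429) (nat_lit 283)) (XT.nd (nat_lit 78) (nat_lit 0) (nat_lit 0) (XT.lf (nat_lit 152) (nat_lit 22447146980) (nat_lit 0) (nat_lit 117929844) (nat_lit 76) (nat_lit 117929844) (nat_lit 109) (nat_lit 1) (nat_lit 107) (nat_lit 1) (nat_lit 108) (nat_lit 1) (nat_lit 309) (nat_lit 429) (nat_lit 282)) (XT.lf (nat_lit 0) (nat_lit 7326490767) (nat_lit 0) (nat_lit 7658084887) (nat_lit 152) (nat_lit 7326490767) (nat_lit 107) (nat_lit 3) (nat_lit 107) (nat_lit 1) (nat_lit 109) (nat_lit 1) (nat_lit 310) (nat_lit 429) (nat_lit 281)))) (XT.nd (nat_lit 78) (nat_lit 152)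 (nat_lit 0) (XT.lf (nat_lit 76) (nat_lit 7106449328) (nat_lit 0) (nat_lit 7422253252) (nat_lit 76) (nat_lit 7422253252) (nat_lit 107) (nat_lit 3) (nat_lit 106) (nat_lit 1) (nat_lit 107) (nat_lit 1) (nat_lit 311) (nat_lit 429) (nat_lit 280)) (XT.nd (nat_lit 78) (nat_lit 0) (nat_lit 0) (XT.lf (nat_lit 152) (nat_lit 21408092908) (nat_lit 0) (nat_lit 97021174) (nat_lit 76) (nat_lit 97021174) (nat_lit 106) (nat_lit 1) (nat_lit 104) (nat_lit 1) (nat_lit 105) (nat_lit 1) (nat_lit 312) (nat_lit 429) (nat_lit 279)) (XT.lf (nat_lit 0) (nat_lit 6991708819) (nat_lit 0) (nat_lit 7264512122) (nat_lit 152) (nat_lit 6991708819) (nat_lit 104) (nat_lit 3) (nat_lit 104) (nat_lit 1) (nat_lit 106) (nat_lit 1) (nat_lit 313) (nat_lit 429) (nat_lit 278))))) (XT.nd (nat_lit 234) (nat_lit 304) (nat_lit 0) (XT.nd (nat_lit 78) (nat_lit 152) (nat_lit 0) (XT.lf (nat_lit 76) (nat_lit 6795128783) (nat_lit 0) (nat_lit 7054941453)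 (nat_lit 76) (nat_lit 7054941453) (nat_lit 104) (nat_lit 3) (nat_lit 103) (nat_lit 1) (nat_lit 104) (nat_lit 1) (nat_lit 314) (nat_lit 429) (nat_lit 277)) (XT.nd (nat_lit 78) (nat_lit 0) (nat_lit 0) (XT.lf (nat_lit 152) (nat_lit 20413223907) (nat_lit 0) (nat_lit 79819560) (nat_lit 76) (nat_lit 79819560) (nat_lit 103) (nat_lit 1) (nat_lit 101) (nat_lit 1) (nat_lit 102) (nat_lit 1) (nat_lit 315) (nat_lit 429) (nat_lit 276)) (XT.lf (nat_lit 0) (nat_lit 6670369227) (nat_lit 0) (nat_lit 6894805180) (nat_lit 152) (nat_lit 6670369227) (nat_lit 101) (nat_lit 3) (nat_lit 101) (nat_lit 1) (nat_lit 103) (nat_lit 1) (nat_lit 316) (nat_lit 429) (nat_lit 275)))) (XT.nd (nat_lit 156) (nat_lit 76) (nat_lit 0) (XT.nd (nat_lit 78) (nat_lit 152) (nat_lit 0) (XT.lf (nat_lit 76) (nat_lit 6493831489) (nat_lit 0) (nat_lit 6707580015) (nat_lit 76) (nat_lit 6707580015) (nat_lit 101) (nat_lit 3) (nat_lit 100) (nat_lit 1)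 (nat_lit 101) (nat_lit 1) (nat_lit 317) (nat_lit 429) (nat_lit 274)) (XT.lf (nat_lit 152) (nat_lit 19461374485) (nat_lit 0) (nat_lit 65667750) (nat_lit 76) (nat_lit 65667750) (nat_lit 100) (nat_lit 1) (nat_lit 98) (nat_lit 1) (nat_lit 99) (nat_lit 1) (nat_lit 318) (nat_lit 429) (nat_lit 273))) (XT.nd (nat_lit 78) (nat_lit 76) (nat_lit 0) (XT.lf (nat_lit 0) (nat_lit 6362275060) (nat_lit 0) (nat_lit 6546919074) (nat_lit 152) (nat_lit 6362275060) (nat_lit 98) (nat_lit 3) (nat_lit 98) (nat_lit 1) (nat_lit 100) (nat_lit 1) (nat_lit 319) (nat_lit 429) (nat_lit 272)) (XT.lf (nat_lit 76) (nat_lit 6202931449) (nat_lit 0) (nat_lit 6378782891) (nat_lit 76) (nat_lit 6378782891) (nat_lit 98) (nat_lit 3) (nat_lit 97) (nat_lit 1) (nat_lit 98) (nat_lit 1) (nat_lit 320) (nat_lit 429) (nat_lit 271))))))) (XT.nd (nat_lit 936) (nat_lit 1064) (nat_lit 0) (XT.nd (nat_lit 468) (nat_lit 456) (nat_lit 0) (XT.nd (nat_lit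 234) (nat_lit 228) (nat_lit 0) (XT.nd (nat_lit 78) (nat_lit 76) (nat_lit 0) (XT.lf (nat_lit 152) (nat_lit 18551268245) (nat_lit 0) (nat_lit 54025020) (nat_lit 76) (nat_lit 54025020) (nat_lit 97) (nat_lit 1) (nat_lit 95) (nat_lit 1) (nat_lit 96) (nat_lit 1) (nat_lit 321) (nat_lit 429) (nat_lit 270)) (XT.nd (nat_lit 78) (nat_lit 76) (nat_lit 0) (XT.lf (nat_lit 0) (nat_lit 6067160189) (nat_lit 0) (nat_lit 6219067276) (nat_lit 152) (nat_lit 6067160189) (nat_lit 95) (nat_lit 3) (nat_lit 95) (nat_lit 1) (nat_lit 97) (nat_lit 1) (nat_lit 322) (nat_lit 429) (nat_lit 269)) (XT.lf (nat_lit 76) (nat_lit 5922633923) (nat_lit 0) (nat_lit 6067307339) (nat_lit 76) (nat_lit 6067307339) (nat_lit 95) (nat_lit 3) (nat_lit 94) (nat_lit 1) (nat_lit 95) (nat_lit 1) (nat_lit 323) (nat_lit 429) (nat_lit 268)))) (XT.nd (nat_lit 78) (nat_lit 76) (nat_lit 0) (XT.lf (nat_lit 152) (nat_lit 17681552670) (nat_lit 0) (nat_lit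 44446518) (nat_lit 76) (nat_lit 44446518) (nat_lit 94) (nat_lit 1) (nat_lit 92) (nat_lit 1) (nat_lit 93) (nat_lit 1) (nat_lit 324) (nat_lit 429) (nat_lit 267)) (XT.nd (nat_lit 78) (nat_lit 76) (nat_lit 0) (XT.lf (nat_lit 0) (nat_lit 5784706514) (nat_lit 0) (nat_lit 5909680850) (nat_lit 152) (nat_lit 5784706514) (nat_lit 92) (nat_lit 3) (nat_lit 92) (nat_lit 1) (nat_lit 94) (nat_lit 1) (nat_lit 325) (nat_lit 429) (nat_lit 266)) (XT.lf (nat_lit 76) (nat_lit 5653010223) (nat_lit 0) (nat_lit 5772033400) (nat_lit 76) (nat_lit 5772033400) (nat_lit 92) (nat_lit 3) (nat_lit 91) (nat_lit 1) (nat_lit 92) (nat_lit 1) (nat_lit 326) (nat_lit 429) (nat_lit 265))))) (XT.nd (nat_lit 234) (nat_lit 228) (nat_lit 0) (XT.nd (nat_lit 78) (nat_lit 76) (nat_lit 0) (XT.lf (nat_lit 152) (nat_lit 16850827021) (nat_lit 0) (nat_lit 36566260) (nat_lit 76) (nat_lit 36566260) (nat_lit 91) (nat_lit 1) (nat_lit 89) (nat_lit 1)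 (nat_lit 90) (nat_lit 1) (nat_lit 327) (nat_lit 429) (nat_lit 264)) (XT.nd (nat_lit 78) (nat_lit 76) (nat_lit 0) (XT.lf (nat_lit 0) (nat_lit 5514557900) (nat_lit 0) (nat_lit 5617374595) (nat_lit 152) (nat_lit 5514557900) (nat_lit 89) (nat_lit 3) (nat_lit 89) (nat_lit 1) (nat_lit 91) (nat_lit 1) (nat_lit 328) (nat_lit 429) (nat_lit 263)) (XT.lf (nat_lit 76) (nat_lit 5394026107) (nat_lit 0) (nat_lit 5491946770) (nat_lit 76) (nat_lit 5491946770) (nat_lit 89) (nat_lit 3) (nat_lit 88) (nat_lit 1) (nat_lit 89) (nat_lit 1) (nat_lit 329) (nat_lit 429) (nat_lit 262)))) (XT.nd (nat_lit 78) (nat_lit 76) (nat_lit 0) (XT.lf (nat_lit 152) (nat_lit 16057664597) (nat_lit 0) (nat_lit 30083152) (nat_lit 76) (nat_lit 30083152) (nat_lit 88) (nat_lit 1) (nat_lit 86) (nat_lit 1) (nat_lit 87) (nat_lit 1) (nat_lit 330) (nat_lit 429) (nat_lit 261)) (XT.nd (nat_lit 78) (nat_lit 76) (nat_lit 0) (XT.lf (nat_lit 0) (nat_lit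 5256331417) (nat_lit 0) (nat_lit 5340918967) (nat_lit 152) (nat_lit 5256331417) (nat_lit 86) (nat_lit 3) (nat_lit 86) (nat_lit 1) (nat_lit 88) (nat_lit 1) (nat_lit 331) (nat_lit 429) (nat_lit 260)) (XT.lf (nat_lit 76) (nat_lit 5145564919) (nat_lit 0) (nat_lit 5226124491) (nat_lit 76) (nat_lit 5226124491) (nat_lit 86) (nat_lit 3) (nat_lit 85) (nat_lit 1) (nat_lit 86) (nat_lit 1) (nat_lit 332) (nat_lit 429) (nat_lit 259)))))) (XT.nd (nat_lit 468) (nat_lit 608) (nat_lit 0) (XT.nd (nat_lit 234) (nat_lit 228) (nat_lit 0) (XT.nd (nat_lit 78) (nat_lit 76) (nat_lit 0) (XT.lf (nat_lit 152) (nat_lit 15300630409) (nat_lit 0) (nat_lit 24749484) (nat_lit 76) (nat_lit 24749484) (nat_lit 85) (nat_lit 1) (nat_lit 83) (nat_lit 1) (nat_lit 84) (nat_lit 1) (nat_lit 333) (nat_lit 429) (nat_lit 258)) (XT.nd (nat_lit 78) (nat_lit 76) (nat_lit 0) (XT.lf (nat_lit 0) (nat_lit 5009626375) (nat_lit 0) (nat_lit 5079216761)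 (nat_lit 152) (nat_lit 5009626375) (nat_lit 83) (nat_lit 3) (nat_lit 83) (nat_lit 1) (nat_lit 85) (nat_lit 1) (nat_lit 334) (nat_lit 429) (nat_lit 257)) (XT.lf (nat_lit 76) (nat_lit 4907446414) (nat_lit 0) (nat_lit 4973722973) (nat_lit 76) (nat_lit 4973722973) (nat_lit 83) (nat_lit 3) (nat_lit 82) (nat_lit 1) (nat_lit 83) (nat_lit 1) (nat_lit 335) (nat_lit 429) (nat_lit 256)))) (XT.nd (nat_lit 78) (nat_lit 76) (nat_lit 0) (XT.lf (nat_lit 152) (nat_lit 14578295079) (nat_lit 0) (nat_lit 20361462) (nat_lit 76) (nat_lit 20361462) (nat_lit 82) (nat_lit 1) (nat_lit 80) (nat_lit 1) (nat_lit 81) (nat_lit 1) (nat_lit 336) (nat_lit 429) (nat_lit 255)) (XT.nd (nat_lit 78) (nat_lit 76) (nat_lit 0) (XT.lf (nat_lit 0) (nat_lit 4774031549) (nat_lit 0) (nat_lit 4831283733) (nat_lit 152) (nat_lit 4774031549) (nat_lit 80) (nat_lit 3) (nat_lit 80) (nat_lit 1) (nat_lit 82) (nat_lit 1) (nat_lit 337) (nat_lit 429) (nat_lit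 254)) (XT.lf (nat_lit 76) (nat_lit 4679442044) (nat_lit 0) (nat_lit 4733967933) (nat_lit 76) (nat_lit 4733967933) (nat_lit 80) (nat_lit 3) (nat_lit 79) (nat_lit 1) (nat_lit 80) (nat_lit 1) (nat_lit 338) (nat_lit 429) (nat_lit 253))))) (XT.nd (nat_lit 234) (nat_lit 380) (nat_lit 0) (XT.nd (nat_lit 78) (nat_lit 76) (nat_lit 0) (XT.lf (nat_lit 152) (nat_lit 13889245703) (nat_lit 0) (nat_lit 16751425) (nat_lit 76) (nat_lit 16751425) (nat_lit 79) (nat_lit 1) (nat_lit 77) (nat_lit 1) (nat_lit 78) (nat_lit 1) (nat_lit 339) (nat_lit 429) (nat_lit 252)) (XT.nd (nat_lit 78) (nat_lit 76) (nat_lit 0) (XT.lf (nat_lit 0) (nat_lit 4549130935) (nat_lit 0) (nat_lit 4596232448) (nat_lit 152) (nat_lit 4549130935) (nat_lit 77) (nat_lit 3) (nat_lit 77) (nat_lit 1) (nat_lit 79) (nat_lit 1) (nat_lit 340) (nat_lit 429) (nat_lit 251)) (XT.lf (nat_lit 76) (nat_lit 4461287345) (nat_lit 0) (nat_lit 4506145929) (nat_lit 76)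 (nat_lit 4506145929) (nat_lit 77) (nat_lit 3) (nat_lit 76) (nat_lit 1) (nat_lit 77) (nat_lit 1) (nat_lit 341) (nat_lit 429) (nat_lit 250)))) (XT.nd (nat_lit 156) (nat_lit 228) (nat_lit 0) (XT.nd (nat_lit 78) (nat_lit 0) (nat_lit 0) (XT.lf (nat_lit 152) (nat_lit 13232094206) (nat_lit 0) (nat_lit 13781438) (nat_lit 76) (nat_lit 13781438) (nat_lit 76) (nat_lit 1) (nat_lit 74) (nat_lit 1) (nat_lit 75) (nat_lit 1) (nat_lit 342) (nat_lit 429) (nat_lit 249)) (XT.lf (nat_lit 0) (nat_lit 4334508293) (nat_lit 0) (nat_lit 4373258824) (nat_lit 152) (nat_lit 4334508293) (nat_lit 74) (nat_lit 3) (nat_lit 74) (nat_lit 1) (nat_lit 76) (nat_lit 1) (nat_lit 343) (nat_lit 429) (nat_lit 248))) (XT.nd (nat_lit 78) (nat_lit 152) (nat_lit 0) (XT.lf (nat_lit 76) (nat_lit 4252691944) (nat_lit 0) (nat_lit 4289597212) (nat_lit 76) (nat_lit 4289597212) (nat_lit 74) (nat_lit 3) (nat_lit 73) (nat_lit 1) (nat_lit 74) (nat_lit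 1) (nat_lit 344) (nat_lit 429) (nat_lit 247)) (XT.lf (nat_lit 152) (nat_lit 12605483692) (nat_lit 0) (nat_lit 11338023) (nat_lit 76) (nat_lit 11338023) (nat_lit 73) (nat_lit 1) (nat_lit 71) (nat_lit 1) (nat_lit 72) (nat_lit 1) (nat_lit 345) (nat_lit 429) (nat_lit 246))))))))
noncomputable def ec403 : XT := (XT.nd (nat_lit 1950) (nat_lit 2052) (nat_lit 0) (XT.nd (nat_lit 936) (nat_lit 912) (nat_lit 0) (XT.nd (nat_lit 468) (nat_lit 456) (nat_lit 0) (XT.nd (nat_lit 234) (nat_lit 228) (nat_lit 0) (XT.nd (nat_lit 78) (nat_lit 228) (nat_lit 0) (XT.lf (nat_lit 0) (nat_lit 4129750713) (nat_lit 0) (nat_lit 4161630871) (nat_lit 152) (nat_lit 4129750713) (nat_lit 71) (nat_lit 3) (nat_lit 71) (nat_lit 1) (nat_lit 73) (nat_lit 1) (nat_lit 346) (nat_lit 429) (nat_lit 245)) (XT.nd (nat_lit 78) (nat_lit 152) (nat_lit 0) (XT.lf (nat_lit 76) (nat_lit 4053347619) (nat_lit 0) (nat_lit 4083709674) (nat_lit 76) (nat_lit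 4083709674) (nat_lit 71) (nat_lit 3) (nat_lit 70) (nat_lit 1) (nat_lit 71) (nat_lit 1) (nat_lit 347) (nat_lit 429) (nat_lit 244)) (XT.lf (nat_lit 152) (nat_lit 12008093145) (nat_lit 0) (nat_lit 9327820) (nat_lit 76) (nat_lit 9327820) (nat_lit 70) (nat_lit 1) (nat_lit 68) (nat_lit 1) (nat_lit 69) (nat_lit 1) (nat_lit 348) (nat_lit 429) (nat_lit 243)))) (XT.nd (nat_lit 78) (nat_lit 228) (nat_lit 0) (XT.lf (nat_lit 0) (nat_lit 3934451383) (nat_lit 0) (nat_lit 3960679268) (nat_lit 152) (nat_lit 3934451383) (nat_lit 68) (nat_lit 3) (nat_lit 68) (nat_lit 1) (nat_lit 70) (nat_lit 1) (nat_lit 349) (nat_lit 429) (nat_lit 242)) (XT.nd (nat_lit 78) (nat_lit 152) (nat_lit 0) (XT.lf (nat_lit 76) (nat_lit 3862934768) (nat_lit 0) (nat_lit 3887913706) (nat_lit 76) (nat_lit 3887913706) (nat_lit 68) (nat_lit 3) (nat_lit 67) (nat_lit 1) (nat_lit 68) (nat_lit 1) (nat_lit 350) (nat_lit 429) (nat_lit 241)) (XT.lf (nat_lit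 152) (nat_lit 11438640820) (nat_lit 0) (nat_lit 7674020) (nat_lit 76) (nat_lit 7674020) (nat_lit 67) (nat_lit 1) (nat_lit 65) (nat_lit 1) (nat_lit 66) (nat_lit 1) (nat_lit 351) (nat_lit 429) (nat_lit 240))))) (XT.nd (nat_lit 234) (nat_lit 228) (nat_lit 0) (XT.nd (nat_lit 78) (nat_lit 228) (nat_lit 0) (XT.lf (nat_lit 0) (nat_lit 3748211700) (nat_lit 0) (nat_lit 3769789446) (nat_lit 152) (nat_lit 3748211700) (nat_lit 65) (nat_lit 3) (nat_lit 65) (nat_lit 1) (nat_lit 67) (nat_lit 1) (nat_lit 352) (nat_lit 429) (nat_lit 239)) (XT.nd (nat_lit 78) (nat_lit 152) (nat_lit 0) (XT.lf (nat_lit 76) (nat_lit 3681127565) (nat_lit 0) (nat_lit 3701677799) (nat_lit 76) (nat_lit 3701677799) (nat_lit 65) (nat_lit 3) (nat_lit 64) (nat_lit 1) (nat_lit 65) (nat_lit 1) (nat_lit 353) (nat_lit 429) (nat_lit 238)) (XT.lf (nat_lit 152) (nat_lit 10895886560) (nat_lit 0) (nat_lit 6313435) (nat_lit 76) (nat_lit 6313435) (nat_lit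 64) (nat_lit 1) (nat_lit 62) (nat_lit 1) (nat_lit 63) (nat_lit 1) (nat_lit 354) (nat_lit 429) (nat_lit 237)))) (XT.nd (nat_lit 78) (nat_lit 228) (nat_lit 0) (XT.lf (nat_lit 0) (nat_lit 3570642861) (nat_lit 0) (nat_lit 3588394926) (nat_lit 152) (nat_lit 3570642861) (nat_lit 62) (nat_lit 3) (nat_lit 62) (nat_lit 1) (nat_lit 64) (nat_lit 1) (nat_lit 355) (nat_lit 429) (nat_lit 236)) (XT.nd (nat_lit 78) (nat_lit 152) (nat_lit 0) (XT.lf (nat_lit 76) (nat_lit 3507598064) (nat_lit 0) (nat_lit 3524504792) (nat_lit 76) (nat_lit 3524504792) (nat_lit 62) (nat_lit 3) (nat_lit 61) (nat_lit 1) (nat_lit 62) (nat_lit 1) (nat_lit 356) (nat_lit 429) (nat_lit 235)) (XT.lf (nat_lit 152) (nat_lit 10378633266) (nat_lit 0) (nat_lit 5194079) (nat_lit 76) (nat_lit 5194079) (nat_lit 61) (nat_lit 1) (nat_lit 59) (nat_lit 1) (nat_lit 60) (nat_lit 1) (nat_lit 357) (nat_lit 429) (nat_lit 234)))))) (XT.nd (nat_lit 468) (nat_lit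 456) (nat_lit 0) (XT.nd (nat_lit 234) (nat_lit 228) (nat_lit 0) (XT.nd (nat_lit 78) (nat_lit 228) (nat_lit 0) (XT.lf (nat_lit 0) (nat_lit 3401367023) (nat_lit 0) (nat_lit 3415971690) (nat_lit 152) (nat_lit 3401367023) (nat_lit 59) (nat_lit 3) (nat_lit 59) (nat_lit 1) (nat_lit 61) (nat_lit 1) (nat_lit 358) (nat_lit 429) (nat_lit 233)) (XT.nd (nat_lit 78) (nat_lit 152) (nat_lit 0) (XT.lf (nat_lit 76) (nat_lit 3342019423) (nat_lit 0) (nat_lit 3355928630) (nat_lit 76) (nat_lit 3355928630) (nat_lit 59) (nat_lit 3) (nat_lit 58) (nat_lit 1) (nat_lit 59) (nat_lit 1) (nat_lit 359) (nat_lit 429) (nat_lit 232)) (XT.lf (nat_lit 152) (nat_lit 9885727681) (nat_lit 0) (nat_lit 4273181) (nat_lit 76) (nat_lit 4273181) (nat_lit 58) (nat_lit 1) (nat_lit 56) (nat_lit 1) (nat_lit 57) (nat_lit 1) (nat_lit 360) (nat_lit 429) (nat_lit 231)))) (XT.nd (nat_lit 78) (nat_lit 228) (nat_lit 0) (XT.lf (nat_lit 0) (nat_lit 3240018119)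 (nat_lit 0) (nat_lit 3252033415) (nat_lit 152) (nat_lit 3240018119) (nat_lit 56) (nat_lit 3) (nat_lit 56) (nat_lit 1) (nat_lit 58) (nat_lit 1) (nat_lit 361) (nat_lit 429) (nat_lit 230)) (XT.nd (nat_lit 78) (nat_lit 152) (nat_lit 0) (XT.lf (nat_lit 76) (nat_lit 3184068427) (nat_lit 0) (nat_lit 3195511566) (nat_lit 76) (nat_lit 3195511566) (nat_lit 56) (nat_lit 3) (nat_lit 55) (nat_lit 1) (nat_lit 56) (nat_lit 1) (nat_lit 362) (nat_lit 429) (nat_lit 229)) (XT.lf (nat_lit 152) (nat_lit 9416060635) (nat_lit 0) (nat_lit 3515557) (nat_lit 76) (nat_lit 3515557) (nat_lit 55) (nat_lit 1) (nat_lit 53) (nat_lit 1) (nat_lit 54) (nat_lit 1) (nat_lit 363) (nat_lit 429) (nat_lit 228))))) (XT.nd (nat_lit 234) (nat_lit 228) (nat_lit 0) (XT.nd (nat_lit 78) (nat_lit 228) (nat_lit 0) (XT.lf (nat_lit 0) (nat_lit 3086242403) (nat_lit 0) (nat_lit 3096127416) (nat_lit 152) (nat_lit 3086242403) (nat_lit 53) (nat_lit 3)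 (nat_lit 53) (nat_lit 1) (nat_lit 55) (nat_lit 1) (nat_lit 364) (nat_lit 429) (nat_lit 227)) (XT.nd (nat_lit 78) (nat_lit 152) (nat_lit 0) (XT.lf (nat_lit 76) (nat_lit 3033427429) (nat_lit 0) (nat_lit 3042841728) (nat_lit 76) (nat_lit 3042841728) (nat_lit 53) (nat_lit 3) (nat_lit 52) (nat_lit 1) (nat_lit 53) (nat_lit 1) (nat_lit 365) (nat_lit 429) (nat_lit 226)) (XT.lf (nat_lit 152) (nat_lit 8968566871) (nat_lit 0) (nat_lit 2892257) (nat_lit 76) (nat_lit 2892257) (nat_lit 52) (nat_lit 1) (nat_lit 50) (nat_lit 1) (nat_lit 51) (nat_lit 1) (nat_lit 366) (nat_lit 429) (nat_lit 225)))) (XT.nd (nat_lit 156) (nat_lit 152) (nat_lit 0) (XT.nd (nat_lit 78) (nat_lit 76) (nat_lit 0) (XT.lf (nat_lit 0) (nat_lit 2939698765) (nat_lit 0) (nat_lit 2947831190) (nat_lit 152) (nat_lit 2939698765) (nat_lit 50) (nat_lit 3) (nat_lit 50) (nat_lit 1) (nat_lit 52) (nat_lit 1) (nat_lit 367) (nat_lit 429) (nat_lit 224)) (XT.lf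 (nat_lit 76) (nat_lit 2889785828) (nat_lit 0) (nat_lit 2897530995) (nat_lit 76) (nat_lit 2897530995) (nat_lit 50) (nat_lit 3) (nat_lit 49) (nat_lit 1) (nat_lit 50) (nat_lit 1) (nat_lit 368) (nat_lit 429) (nat_lit 223))) (XT.nd (nat_lit 78) (nat_lit 0) (nat_lit 0) (XT.lf (nat_lit 152) (nat_lit 8542224525) (nat_lit 0) (nat_lit 2379467) (nat_lit 76) (nat_lit 2379467) (nat_lit 49) (nat_lit 1) (nat_lit 47) (nat_lit 1) (nat_lit 48) (nat_lit 1) (nat_lit 369) (nat_lit 429) (nat_lit 222)) (XT.lf (nat_lit 0) (nat_lit 2800058880) (nat_lit 0) (nat_lit 2806749447) (nat_lit 152) (nat_lit 2800058880) (nat_lit 47) (nat_lit 3) (nat_lit 47) (nat_lit 1) (nat_lit 49) (nat_lit 1) (nat_lit 370) (nat_lit 429) (nat_lit 221))))))) (XT.nd (nat_lit 1014) (nat_lit 1064) (nat_lit 0) (XT.nd (nat_lit 468) (nat_lit 532) (nat_lit 0) (XT.nd (nat_lit 234) (nat_lit 228) (nat_lit 0) (XT.nd (nat_lit 78) (nat_lit 152) (nat_lit 0) (XT.lf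 (nat_lit 76) (nat_lit 2752841167) (nat_lit 0) (nat_lit 2759213135) (nat_lit 76) (nat_lit 2759213135) (nat_lit 47) (nat_lit 3) (nat_lit 46) (nat_lit 1) (nat_lit 47) (nat_lit 1) (nat_lit 371) (nat_lit 429) (nat_lit 220)) (XT.nd (nat_lit 78) (nat_lit 0) (nat_lit 0) (XT.lf (nat_lit 152) (nat_lit 8136054366) (nat_lit 0) (nat_lit 1957593) (nat_lit 76) (nat_lit 1957593) (nat_lit 46) (nat_lit 1) (nat_lit 44) (nat_lit 1) (nat_lit 45) (nat_lit 1) (nat_lit 372) (nat_lit 429) (nat_lit 219)) (XT.lf (nat_lit 0) (nat_lit 2667007209) (nat_lit 0) (nat_lit 2672511555) (nat_lit 152) (nat_lit 2667007209) (nat_lit 44) (nat_lit 3) (nat_lit 44) (nat_lit 1) (nat_lit 46) (nat_lit 1) (nat_lit 373) (nat_lit 429) (nat_lit 218)))) (XT.nd (nat_lit 78) (nat_lit 152) (nat_lit 0) (XT.lf (nat_lit 76) (nat_lit 2622299921) (nat_lit 0) (nat_lit 2627542155) (nat_lit 76) (nat_lit 2627542155) (nat_lit 44) (nat_lit 3) (nat_lit 43) (nat_lit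 1) (nat_lit 44) (nat_lit 1) (nat_lit 374) (nat_lit 429) (nat_lit 217)) (XT.nd (nat_lit 78) (nat_lit 0) (nat_lit 0) (XT.lf (nat_lit 152) (nat_lit 7749118833) (nat_lit 0) (nat_lit 1610517) (nat_lit 76) (nat_lit 1610517) (nat_lit 43) (nat_lit 1) (nat_lit 41) (nat_lit 1) (nat_lit 42) (nat_lit 1) (nat_lit 375) (nat_lit 429) (nat_lit 216)) (XT.lf (nat_lit 0) (nat_lit 2540240897) (nat_lit 0) (nat_lit 2544769336) (nat_lit 152) (nat_lit 2540240897) (nat_lit 41) (nat_lit 3) (nat_lit 41) (nat_lit 1) (nat_lit 43) (nat_lit 1) (nat_lit 376) (nat_lit 429) (nat_lit 215))))) (XT.nd (nat_lit 234) (nat_lit 304) (nat_lit 0) (XT.nd (nat_lit 78) (nat_lit 152) (nat_lit 0) (XT.lf (nat_lit 76) (nat_lit 2497878044) (nat_lit 0) (nat_lit 2502190843) (nat_lit 76) (nat_lit 2502190843) (nat_lit 41) (nat_lit 3) (nat_lit 40) (nat_lit 1) (nat_lit 41) (nat_lit 1) (nat_lit 377) (nat_lit 429) (nat_lit 214)) (XT.nd (nat_lit 78) (nat_lit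 0) (nat_lit 0) (XT.lf (nat_lit 152) (nat_lit 7380520928) (nat_lit 0) (nat_lit 1324976) (nat_lit 76) (nat_lit 1324976) (nat_lit 40) (nat_lit 1) (nat_lit 38) (nat_lit 1) (nat_lit 39) (nat_lit 1) (nat_lit 378) (nat_lit 429) (nat_lit 213)) (XT.lf (nat_lit 0) (nat_lit 2419469583) (nat_lit 0) (nat_lit 2423195141) (nat_lit 152) (nat_lit 2419469583) (nat_lit 38) (nat_lit 3) (nat_lit 38) (nat_lit 1) (nat_lit 40) (nat_lit 1) (nat_lit 379) (nat_lit 429) (nat_lit 212)))) (XT.nd (nat_lit 156) (nat_lit 76) (nat_lit 0) (XT.nd (nat_lit 78) (nat_lit 152) (nat_lit 0) (XT.lf (nat_lit 76) (nat_lit 2379301315) (nat_lit 0) (nat_lit 2382849466) (nat_lit 76) (nat_lit 2382849466) (nat_lit 38) (nat_lit 3) (nat_lit 37) (nat_lit 1) (nat_lit 38) (nat_lit 1) (nat_lit 380) (nat_lit 429) (nat_lit 211)) (XT.lf (nat_lit 152) (nat_lit 7029403010) (nat_lit 0) (nat_lit 1090061) (nat_lit 76) (nat_lit 1090061) (nat_lit 37) (nat_lit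 1) (nat_lit 35) (nat_lit 1) (nat_lit 36) (nat_lit 1) (nat_lit 381) (nat_lit 429) (nat_lit 210))) (XT.nd (nat_lit 78) (nat_lit 76) (nat_lit 0) (XT.lf (nat_lit 0) (nat_lit 2304415147) (nat_lit 0) (nat_lit 2307480173) (nat_lit 152) (nat_lit 2304415147) (nat_lit 35) (nat_lit 3) (nat_lit 35) (nat_lit 1) (nat_lit 37) (nat_lit 1) (nat_lit 382) (nat_lit 429) (nat_lit 209)) (XT.lf (nat_lit 76) (nat_lit 2266305525) (nat_lit 0) (nat_lit 2269224597) (nat_lit 76) (nat_lit 2269224597) (nat_lit 35) (nat_lit 3) (nat_lit 34) (nat_lit 1) (nat_lit 35) (nat_lit 1) (nat_lit 383) (nat_lit 429) (nat_lit 208)))))) (XT.nd (nat_lit 468) (nat_lit 608) (nat_lit 0) (XT.nd (nat_lit 234) (nat_lit 228) (nat_lit 0) (XT.nd (nat_lit 78) (nat_lit 76) (nat_lit 0) (XT.lf (nat_lit 152) (nat_lit 6694945517) (nat_lit 0) (nat_lit 896796) (nat_lit 76) (nat_lit 896796) (nat_lit 34) (nat_lit 1) (nat_lit 32) (nat_lit 1) (nat_lit 33) (nat_lit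 1) (nat_lit 384) (nat_lit 429) (nat_lit 207)) (XT.nd (nat_lit 78) (nat_lit 76) (nat_lit 0) (XT.lf (nat_lit 0) (nat_lit 2194811410) (nat_lit 0) (nat_lit 2197333014) (nat_lit 152) (nat_lit 2194811410) (nat_lit 32) (nat_lit 3) (nat_lit 32) (nat_lit 1) (nat_lit 34) (nat_lit 1) (nat_lit 385) (nat_lit 429) (nat_lit 206)) (XT.lf (nat_lit 76) (nat_lit 2158636539) (nat_lit 0) (nat_lit 2161038067) (nat_lit 76) (nat_lit 2161038067) (nat_lit 32) (nat_lit 3) (nat_lit 31) (nat_lit 1) (nat_lit 32) (nat_lit 1) (nat_lit 386) (nat_lit 429) (nat_lit 205)))) (XT.nd (nat_lit 78) (nat_lit 76) (nat_lit 0) (XT.lf (nat_lit 152) (nat_lit 6376365640) (nat_lit 0) (nat_lit 737796) (nat_lit 76) (nat_lit 737796) (nat_lit 31) (nat_lit 1) (nat_lit 29) (nat_lit 1) (nat_lit 30) (nat_lit 1) (nat_lit 387) (nat_lit 429) (nat_lit 204)) (XT.nd (nat_lit 78) (nat_lit 76) (nat_lit 0) (XT.lf (nat_lit 0) (nat_lit 2090403793) (nat_lit 0) (nat_lit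 2092478323) (nat_lit 152) (nat_lit 2090403793) (nat_lit 29) (nat_lit 3) (nat_lit 29) (nat_lit 1) (nat_lit 31) (nat_lit 1) (nat_lit 388) (nat_lit 429) (nat_lit 203)) (XT.lf (nat_lit 76) (nat_lit 2056050267) (nat_lit 0) (nat_lit 2058026009) (nat_lit 76) (nat_lit 2058026009) (nat_lit 29) (nat_lit 3) (nat_lit 28) (nat_lit 1) (nat_lit 29) (nat_lit 1) (nat_lit 389) (nat_lit 429) (nat_lit 202))))) (XT.nd (nat_lit 234) (nat_lit 380) (nat_lit 0) (XT.nd (nat_lit 78) (nat_lit 76) (nat_lit 0) (XT.lf (nat_lit 152) (nat_lit 6072915978) (nat_lit 0) (nat_lit 606987) (nat_lit 76) (nat_lit 606987) (nat_lit 28) (nat_lit 1) (nat_lit 26) (nat_lit 1) (nat_lit 27) (nat_lit 1) (nat_lit 390) (nat_lit 429) (nat_lit 201)) (XT.nd (nat_lit 78) (nat_lit 76) (nat_lit 0) (XT.lf (nat_lit 0) (nat_lit 1990948959) (nat_lit 0) (nat_lit 1992655680) (nat_lit 152) (nat_lit 1990948959) (nat_lit 26) (nat_lit 3) (nat_lit 26) (nat_lit 1)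 (nat_lit 28) (nat_lit 1) (nat_lit 391) (nat_lit 429) (nat_lit 200)) (XT.lf (nat_lit 76) (nat_lit 1958312541) (nat_lit 0) (nat_lit 1959937990) (nat_lit 76) (nat_lit 1959937990) (nat_lit 26) (nat_lit 3) (nat_lit 25) (nat_lit 1) (nat_lit 26) (nat_lit 1) (nat_lit 392) (nat_lit 429) (nat_lit 199)))) (XT.nd (nat_lit 156) (nat_lit 228) (nat_lit 0) (XT.nd (nat_lit 78) (nat_lit 0) (nat_lit 0) (XT.lf (nat_lit 152) (nat_lit 5783883181) (nat_lit 0) (nat_lit 499369) (nat_lit 76) (nat_lit 499369) (nat_lit 25) (nat_lit 1) (nat_lit 23) (nat_lit 1) (nat_lit 24) (nat_lit 1) (nat_lit 393) (nat_lit 429) (nat_lit 198)) (XT.lf (nat_lit 0) (nat_lit 1896214432) (nat_lit 0) (nat_lit 1897618555) (nat_lit 152) (nat_lit 1896214432) (nat_lit 23) (nat_lit 3) (nat_lit 23) (nat_lit 1) (nat_lit 25) (nat_lit 1) (nat_lit 394) (nat_lit 429) (nat_lit 197))) (XT.nd (nat_lit 78) (nat_lit 152) (nat_lit 0) (XT.lf (nat_lit 76) (nat_lit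 1865198953) (nat_lit 0) (nat_lit 1866536214) (nat_lit 76) (nat_lit 1866536214) (nat_lit 23) (nat_lit 3) (nat_lit 22) (nat_lit 1) (nat_lit 23) (nat_lit 1) (nat_lit 395) (nat_lit 429) (nat_lit 196)) (XT.lf (nat_lit 152) (nat_lit 5508586604) (nat_lit 0) (nat_lit 410832) (nat_lit 76) (nat_lit 410832) (nat_lit 22) (nat_lit 1) (nat_lit 20) (nat_lit 1) (nat_lit 21) (nat_lit 1) (nat_lit 396) (nat_lit 429) (nat_lit 195))))))))
noncomputable def ec404 : XT := (XT.nd (nat_lit 1950) (nat_lit 0) (nat_lit 0) (XT.nd (nat_lit 936) (nat_lit 608) (nat_lit 0) (XT.nd (nat_lit 468) (nat_lit 456) (nat_lit 0) (XT.nd (nat_lit 234) (nat_lit 228) (nat_lit 0) (XT.nd (nat_lit 78) (nat_lit 228) (nat_lit 0) (XT.lf (nat_lit 0) (nat_lit 1805978206) (nat_lit 0) (nat_lit 1807133382) (nat_lit 152) (nat_lit 1805978206) (nat_lit 20) (nat_lit 3) (nat_lit 20) (nat_lit 1) (nat_lit 22) (nat_lit 1) (nat_lit 397) (nat_lit 429) (nat_lit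 194)) (XT.nd (nat_lit 78) (nat_lit 152) (nat_lit 0) (XT.lf (nat_lit 76) (nat_lit 1776494633) (nat_lit 0) (nat_lit 1777594800) (nat_lit 76) (nat_lit 1777594800) (nat_lit 20) (nat_lit 3) (nat_lit 19) (nat_lit 1) (nat_lit 20) (nat_lit 1) (nat_lit 398) (nat_lit 429) (nat_lit 193)) (XT.lf (nat_lit 152) (nat_lit 5246376971) (nat_lit 0) (nat_lit 337993) (nat_lit 76) (nat_lit 337993) (nat_lit 19) (nat_lit 1) (nat_lit 17) (nat_lit 1) (nat_lit 18) (nat_lit 1) (nat_lit 399) (nat_lit 429) (nat_lit 192)))) (XT.nd (nat_lit 78) (nat_lit 228) (nat_lit 0) (XT.lf (nat_lit 0) (nat_lit 1720028359) (nat_lit 0) (nat_lit 1720978725) (nat_lit 152) (nat_lit 1720028359) (nat_lit 17) (nat_lit 3) (nat_lit 17) (nat_lit 1) (nat_lit 19) (nat_lit 1) (nat_lit 400) (nat_lit 429) (nat_lit 191)) (XT.nd (nat_lit 78) (nat_lit 152) (nat_lit 0) (XT.lf (nat_lit 76) (nat_lit 1691993995) (nat_lit 0) (nat_lit 1692899106) (nat_lit 76) (nat_lit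 1692899106) (nat_lit 17) (nat_lit 3) (nat_lit 16) (nat_lit 1) (nat_lit 17) (nat_lit 1) (nat_lit 401) (nat_lit 429) (nat_lit 190)) (XT.lf (nat_lit 152) (nat_lit 4996635070) (nat_lit 0) (nat_lit 278067) (nat_lit 76) (nat_lit 278067) (nat_lit 16) (nat_lit 1) (nat_lit 14) (nat_lit 1) (nat_lit 15) (nat_lit 1) (nat_lit 402) (nat_lit 429) (nat_lit 189))))) (XT.nd (nat_lit 234) (nat_lit 228) (nat_lit 0) (XT.nd (nat_lit 78) (nat_lit 228) (nat_lit 0) (XT.lf (nat_lit 0) (nat_lit 1638162654) (nat_lit 0) (nat_lit 1638944523) (nat_lit 152) (nat_lit 1638162654) (nat_lit 14) (nat_lit 3) (nat_lit 14) (nat_lit 1) (nat_lit 16) (nat_lit 1) (nat_lit 403) (nat_lit 429) (nat_lit 188)) (XT.nd (nat_lit 78) (nat_lit 152) (nat_lit 0) (XT.lf (nat_lit 76) (nat_lit 1611500470) (nat_lit 0) (nat_lit 1612245107) (nat_lit 76) (nat_lit 1612245107) (nat_lit 14) (nat_lit 3) (nat_lit 13) (nat_lit 1) (nat_lit 14) (nat_lit 1) (nat_lit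 404) (nat_lit 429) (nat_lit 187)) (XT.lf (nat_lit 152) (nat_lit 4758770468) (nat_lit 0) (nat_lit 228767) (nat_lit 76) (nat_lit 228767) (nat_lit 13) (nat_lit 1) (nat_lit 11) (nat_lit 1) (nat_lit 12) (nat_lit 1) (nat_lit 405) (nat_lit 429) (nat_lit 186)))) (XT.nd (nat_lit 78) (nat_lit 228) (nat_lit 0) (XT.lf (nat_lit 0) (nat_lit 1560188152) (nat_lit 0) (nat_lit 1560831397) (nat_lit 152) (nat_lit 1560188152) (nat_lit 11) (nat_lit 3) (nat_lit 11) (nat_lit 1) (nat_lit 13) (nat_lit 1) (nat_lit 406) (nat_lit 429) (nat_lit 185)) (XT.nd (nat_lit 78) (nat_lit 152) (nat_lit 0) (XT.lf (nat_lit 76) (nat_lit 1534826209) (nat_lit 0) (nat_lit 1535438824) (nat_lit 76) (nat_lit 1535438824) (nat_lit 11) (nat_lit 3) (nat_lit 10) (nat_lit 1) (nat_lit 11) (nat_lit 1) (nat_lit 407) (nat_lit 429) (nat_lit 184)) (XT.lf (nat_lit 152) (nat_lit 4532220270) (nat_lit 0) (nat_lit 188207) (nat_lit 76) (nat_lit 188207) (nat_lit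 10) (nat_lit 1) (nat_lit 8) (nat_lit 1) (nat_lit 9) (nat_lit 1) (nat_lit 408) (nat_lit 429) (nat_lit 183)))))) (XT.nd (nat_lit 468) (nat_lit 152) (nat_lit 0) (XT.nd (nat_lit 234) (nat_lit 228) (nat_lit 0) (XT.nd (nat_lit 78) (nat_lit 228) (nat_lit 0) (XT.lf (nat_lit 0) (nat_lit 1485920827) (nat_lit 0) (nat_lit 1486450026) (nat_lit 152) (nat_lit 1485920827) (nat_lit 8) (nat_lit 3) (nat_lit 8) (nat_lit 1) (nat_lit 10) (nat_lit 1) (nat_lit 409) (nat_lit 429) (nat_lit 182)) (XT.nd (nat_lit 78) (nat_lit 152) (nat_lit 0) (XT.lf (nat_lit 76) (nat_lit 1461791782) (nat_lit 0) (nat_lit 1462295781) (nat_lit 76) (nat_lit 1462295781) (nat_lit 8) (nat_lit 3) (nat_lit 7) (nat_lit 1) (nat_lit 8) (nat_lit 1) (nat_lit 410) (nat_lit 429) (nat_lit 181)) (XT.lf (nat_lit 152) (nat_lit 4316447908) (nat_lit 0) (nat_lit 154838) (nat_lit 76) (nat_lit 154838) (nat_lit 7) (nat_lit 1) (nat_lit 5) (nat_lit 1) (nat_lit 6) (nat_lit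 1) (nat_lit 411) (nat_lit 429) (nat_lit 180)))) (XT.nd (nat_lit 78) (nat_lit 228) (nat_lit 0) (XT.lf (nat_lit 0) (nat_lit 1415185193) (nat_lit 0) (nat_lit 1415620566) (nat_lit 152) (nat_lit 1415185193) (nat_lit 5) (nat_lit 3) (nat_lit 5) (nat_lit 1) (nat_lit 7) (nat_lit 1) (nat_lit 412) (nat_lit 429) (nat_lit 179)) (XT.nd (nat_lit 78) (nat_lit 152) (nat_lit 0) (XT.lf (nat_lit 76) (nat_lit 1392225870) (nat_lit 0) (nat_lit 1392640511) (nat_lit 76) (nat_lit 1392640511) (nat_lit 5) (nat_lit 3) (nat_lit 4) (nat_lit 1) (nat_lit 5) (nat_lit 1) (nat_lit 413) (nat_lit 429) (nat_lit 178)) (XT.lf (nat_lit 152) (nat_lit 4110941972) (nat_lit 0) (nat_lit 127386) (nat_lit 76) (nat_lit 127386) (nat_lit 4) (nat_lit 1) (nat_lit 2) (nat_lit 1) (nat_lit 3) (nat_lit 1) (nat_lit 414) (nat_lit 429) (nat_lit 177))))) (XT.nd (nat_lit 234) (nat_lit 0) (nat_lit 0) (XT.nd (nat_lit 78) (nat_lit 152) (nat_lit 0) (XT.lf (nat_lit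 0) (nat_lit 1347813932) (nat_lit 0) (nat_lit 1348172115) (nat_lit 152) (nat_lit 1347813932) (nat_lit 2) (nat_lit 3) (nat_lit 2) (nat_lit 1) (nat_lit 4) (nat_lit 1) (nat_lit 415) (nat_lit 429) (nat_lit 176)) (XT.nd (nat_lit 78) (nat_lit 76) (nat_lit 0) (XT.lf (nat_lit 76) (nat_lit 1325964957) (nat_lit 0) (nat_lit 1326306084) (nat_lit 76) (nat_lit 1326306084) (nat_lit 2) (nat_lit 3) (nat_lit 1) (nat_lit 1) (nat_lit 2) (nat_lit 1) (nat_lit 416) (nat_lit 429) (nat_lit 175)) (XT.lf (nat_lit 0) (nat_lit 82556106593) (nat_lit 0) (nat_lit 0) (nat_lit 0) (nat_lit 0) (nat_lit 0) (nat_lit 0) (nat_lit 1) (nat_lit 0) (nat_lit 1) (nat_lit 0) (nat_lit 417) (nat_lit 429) (nat_lit 174)))) (XT.nd (nat_lit 156) (nat_lit 0) (nat_lit 0) (XT.nd (nat_lit 78) (nat_lit 0) (nat_lit 0) (XT.lf (nat_lit 0) (nat_lit 82556091060) (nat_lit 0) (nat_lit 0) (nat_lit 0) (nat_lit 0) (nat_lit 0) (nat_lit 0) (nat_lit 1) (nat_lit 0)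 (nat_lit 1) (nat_lit 0) (nat_lit 418) (nat_lit 429) (nat_lit 173)) (XT.lf (nat_lit 0) (nat_lit 82556076266) (nat_lit 0) (nat_lit 0) (nat_lit 0) (nat_lit 0) (nat_lit 0) (nat_lit 0) (nat_lit 1) (nat_lit 0) (nat_lit 1) (nat_lit 0) (nat_lit 419) (nat_lit 429) (nat_lit 172))) (XT.nd (nat_lit 78) (nat_lit 0) (nat_lit 0) (XT.lf (nat_lit 0) (nat_lit 82556062178) (nat_lit 0) (nat_lit 0) (nat_lit 0) (nat_lit 0) (nat_lit 0) (nat_lit 0) (nat_lit 1) (nat_lit 0) (nat_lit 1) (nat_lit 0) (nat_lit 420) (nat_lit 429) (nat_lit 171)) (XT.lf (nat_lit 0) (nat_lit 82556048759) (nat_lit 0) (nat_lit 0) (nat_lit 0) (nat_lit 0) (nat_lit 0) (nat_lit 0) (nat_lit 1) (nat_lit 0) (nat_lit 1) (nat_lit 0) (nat_lit 421) (nat_lit 429) (nat_lit 170))))))) (XT.nd (nat_lit 936) (nat_lit 0) (nat_lit 0) (XT.nd (nat_lit 468) (nat_lit 0) (nat_lit 0) (XT.nd (nat_lit 234) (nat_lit 0) (nat_lit 0) (XT.nd (nat_lit 78) (nat_lit 0) (nat_lit 0)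 (XT.lf (nat_lit 0) (nat_lit 82556035980) (nat_lit 0) (nat_lit 0) (nat_lit 0) (nat_lit 0) (nat_lit 0) (nat_lit 0) (nat_lit 1) (nat_lit 0) (nat_lit 1) (nat_lit 0) (nat_lit 422) (nat_lit 429) (nat_lit 169)) (XT.nd (nat_lit 78) (nat_lit 0) (nat_lit 0) (XT.lf (nat_lit 0) (nat_lit 82556023810) (nat_lit 0) (nat_lit 0) (nat_lit 0) (nat_lit 0) (nat_lit 0) (nat_lit 0) (nat_lit 1) (nat_lit 0) (nat_lit 1) (nat_lit 0) (nat_lit 423) (nat_lit 429) (nat_lit 168)) (XT.lf (nat_lit 0) (nat_lit 82556012219) (nat_lit 0) (nat_lit 0) (nat_lit 0) (nat_lit 0) (nat_lit 0) (nat_lit 0) (nat_lit 1) (nat_lit 0) (nat_lit 1) (nat_lit 0) (nat_lit 424) (nat_lit 429) (nat_lit 167)))) (XT.nd (nat_lit 78) (nat_lit 0) (nat_lit 0) (XT.lf (nat_lit 0) (nat_lit 82556001180) (nat_lit 0) (nat_lit 0) (nat_lit 0) (nat_lit 0) (nat_lit 0) (nat_lit 0) (nat_lit 1) (nat_lit 0) (nat_lit 1) (nat_lit 0) (nat_lit 425) (nat_lit 429) (nat_lit 166)) (XT.nd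 (nat_lit 78) (nat_lit 0) (nat_lit 0) (XT.lf (nat_lit 0) (nat_lit 82555990666) (nat_lit 0) (nat_lit 0) (nat_lit 0) (nat_lit 0) (nat_lit 0) (nat_lit 0) (nat_lit 1) (nat_lit 0) (nat_lit 1) (nat_lit 0) (nat_lit 426) (nat_lit 429) (nat_lit 165)) (XT.lf (nat_lit 0) (nat_lit 82555980654) (nat_lit 0) (nat_lit 0) (nat_lit 0) (nat_lit 0) (nat_lit 0) (nat_lit 0) (nat_lit 1) (nat_lit 0) (nat_lit 1) (nat_lit 0) (nat_lit 427) (nat_lit 429) (nat_lit 164))))) (XT.nd (nat_lit 234) (nat_lit 0) (nat_lit 0) (XT.nd (nat_lit 78) (nat_lit 0) (nat_lit 0) (XT.lf (nat_lit 0) (nat_lit 82555971118) (nat_lit 0) (nat_lit 0) (nat_lit 0) (nat_lit 0) (nat_lit 0) (nat_lit 0) (nat_lit 1) (nat_lit 0) (nat_lit 1) (nat_lit 0) (nat_lit 428) (nat_lit 429) (nat_lit 163)) (XT.nd (nat_lit 78) (nat_lit 0) (nat_lit 0) (XT.lf (nat_lit 0) (nat_lit 82555962036) (nat_lit 0) (nat_lit 0) (nat_lit 0) (nat_lit 0) (nat_lit 0) (nat_lit 0) (nat_lit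 1) (nat_lit 0) (nat_lit 1) (nat_lit 0) (nat_lit 429) (nat_lit 429) (nat_lit 162)) (XT.lf (nat_lit 0) (nat_lit 82555953386) (nat_lit 0) (nat_lit 0) (nat_lit 0) (nat_lit 0) (nat_lit 0) (nat_lit 0) (nat_lit 1) (nat_lit 0) (nat_lit 1) (nat_lit 0) (nat_lit 430) (nat_lit 429) (nat_lit 161)))) (XT.nd (nat_lit 78) (nat_lit 0) (nat_lit 0) (XT.lf (nat_lit 0) (nat_lit 82555945149) (nat_lit 0) (nat_lit 0) (nat_lit 0) (nat_lit 0) (nat_lit 0) (nat_lit 0) (nat_lit 1) (nat_lit 0) (nat_lit 1) (nat_lit 0) (nat_lit 431) (nat_lit 429) (nat_lit 160)) (XT.nd (nat_lit 78) (nat_lit 0) (nat_lit 0) (XT.lf (nat_lit 0) (nat_lit 82555937304) (nat_lit 0) (nat_lit 0) (nat_lit 0) (nat_lit 0) (nat_lit 0) (nat_lit 0) (nat_lit 1) (nat_lit 0) (nat_lit 1) (nat_lit 0) (nat_lit 432) (nat_lit 429) (nat_lit 159)) (XT.lf (nat_lit 0) (nat_lit 82555929832) (nat_lit 0) (nat_lit 0) (nat_lit 0) (nat_lit 0) (nat_lit 0) (nat_lit 0) (nat_lit 1)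 (nat_lit 0) (nat_lit 1) (nat_lit 0) (nat_lit 433) (nat_lit 429) (nat_lit 158)))))) (XT.nd (nat_lit 31824) (nat_lit 0) (nat_lit 22192) (XT.nd (nat_lit 234) (nat_lit 0) (nat_lit 0) (XT.nd (nat_lit 78) (nat_lit 0) (nat_lit 0) (XT.lf (nat_lit 0) (nat_lit 82555922716) (nat_lit 0) (nat_lit 0) (nat_lit 0) (nat_lit 0) (nat_lit 0) (nat_lit 0) (nat_lit 1) (nat_lit 0) (nat_lit 1) (nat_lit 0) (nat_lit 434) (nat_lit 429) (nat_lit 157)) (XT.nd (nat_lit 78) (nat_lit 0) (nat_lit 0) (XT.lf (nat_lit 0) (nat_lit 82555915939) (nat_lit 0) (nat_lit 0) (nat_lit 0) (nat_lit 0) (nat_lit 0) (nat_lit 0) (nat_lit 1) (nat_lit 0) (nat_lit 1) (nat_lit 0) (nat_lit 435) (nat_lit 429) (nat_lit 156)) (XT.lf (nat_lit 0) (nat_lit 82555909485) (nat_lit 0) (nat_lit 0) (nat_lit 0) (nat_lit 0) (nat_lit 0) (nat_lit 0) (nat_lit 1) (nat_lit 0) (nat_lit 1) (nat_lit 0) (nat_lit 436) (nat_lit 429) (nat_lit 155)))) (XT.nd (nat_lit 78) (nat_lit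 0) (nat_lit 0) (XT.lf (nat_lit 0) (nat_lit 82555903338) (nat_lit 0) (nat_lit 0) (nat_lit 0) (nat_lit 0) (nat_lit 0) (nat_lit 0) (nat_lit 1) (nat_lit 0) (nat_lit 1) (nat_lit 0) (nat_lit 437) (nat_lit 429) (nat_lit 154)) (XT.nd (nat_lit 31434) (nat_lit 0) (nat_lit 22192) (XT.lf (nat_lit 0) (nat_lit 82555897484) (nat_lit 0) (nat_lit 0) (nat_lit 0) (nat_lit 0) (nat_lit 0) (nat_lit 0) (nat_lit 1) (nat_lit 0) (nat_lit 1) (nat_lit 0) (nat_lit 438) (nat_lit 429) (nat_lit 153)) (XT.lf (nat_lit 836) (nat_lit 43379705095) (nat_lit 0) (nat_lit 77020566685) (nat_lit 836) (nat_lit 43379705095) (nat_lit 303) (nat_lit 1) (nat_lit 292) (nat_lit 0) (nat_lit 303) (nat_lit 0) (nat_lit 160) (nat_lit 430) (nat_lit 430))))) (XT.nd (nat_lit 234) (nat_lit 0) (nat_lit 152) (XT.nd (nat_lit 78) (nat_lit 0) (nat_lit 76) (XT.lf (nat_lit 836) (nat_lit 168145152693) (nat_lit 76) (nat_lit 75778299480) (nat_lit 0) (nat_lit 75778299480)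 (nat_lit 303) (nat_lit 1) (nat_lit 293) (nat_lit 1) (nat_lit 292) (nat_lit 0) (nat_lit 161) (nat_lit 430) (nat_lit 429)) (XT.nd (nat_lit 78) (nat_lit 0) (nat_lit 0) (XT.lf (nat_lit 836) (nat_lit 80135448014) (nat_lit 0) (nat_lit 151815592774) (nat_lit 760) (nat_lit 80135448014) (nat_lit 304) (nat_lit 1) (nat_lit 293) (nat_lit 1) (nat_lit 303) (nat_lit 1) (nat_lit 162) (nat_lit 430) (nat_lit 428)) (XT.lf (nat_lit 836) (nat_lit 150322965372) (nat_lit 76) (nat_lit 77197145152) (nat_lit 0) (nat_lit 77197145152) (nat_lit 304) (nat_lit 1) (nat_lit 294) (nat_lit 1) (nat_lit 293) (nat_lit 1) (nat_lit 163) (nat_lit 430) (nat_lit 427)))) (XT.nd (nat_lit 156) (nat_lit 0) (nat_lit 76) (XT.nd (nat_lit 78) (nat_lit 0) (nat_lit 0) (XT.lf (nat_lit 836) (nat_lit 69192217396) (nat_lit 0) (nat_lit 159197155483) (nat_lit 760) (nat_lit 69192217396) (nat_lit 305) (nat_lit 1) (nat_lit 294) (nat_lit 1) (nat_lit 304) (nat_lit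 1) (nat_lit 164) (nat_lit 430) (nat_lit 426)) (XT.lf (nat_lit 836) (nat_lit 124446709613) (nat_lit 76) (nat_lit 83108368805) (nat_lit 0) (nat_lit 83108368805) (nat_lit 305) (nat_lit 1) (nat_lit 295) (nat_lit 1) (nat_lit 294) (nat_lit 1) (nat_lit 165) (nat_lit 430) (nat_lit 425))) (XT.nd (nat_lit 78) (nat_lit 0) (nat_lit 0) (XT.lf (nat_lit 836) (nat_lit 54566287819) (nat_lit 0) (nat_lit 174845015823) (nat_lit 760) (nat_lit 54566287819) (nat_lit 306) (nat_lit 1) (nat_lit 295) (nat_lit 1) (nat_lit 305) (nat_lit 1) (nat_lit 166) (nat_lit 430) (nat_lit 424)) (XT.lf (nat_lit 836) (nat_lit 91727605240) (nat_lit 76) (nat_lit 92874107488) (nat_lit 0) (nat_lit 92874107488) (nat_lit 306) (nat_lit 1) (nat_lit 296) (nat_lit 1) (nat_lit 295) (nat_lit 1) (nat_lit 167) (nat_lit 430) (nat_lit 423))))))))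
noncomputable def ec405 : XT := (XT.nd (nat_lit 1950) (nat_lit 2964) (nat_lit 0) (XT.nd (nat_lit 936) (nat_lit 2356) (nat_lit 0) (XT.nd (nat_lit 468) (nat_lit 1064) (nat_lit 0) (XT.nd (nat_lit 234) (nat_lit 1216) (nat_lit 0) (XT.nd (nat_lit 78) (nat_lit 0) (nat_lit 0) (XT.lf (nat_lit 836) (nat_lit 36823855860) (nat_lit 0) (nat_lit 197564339156) (nat_lit 760) (nat_lit 36823855860) (nat_lit 307) (nat_lit 1) (nat_lit 296) (nat_lit 1) (nat_lit 306) (nat_lit 1) (nat_lit 168) (nat_lit 430) (nat_lit 422)) (XT.nd (nat_lit 78) (nat_lit 0) (nat_lit 76) (XT.lf (nat_lit 836) (nat_lit 53242243913) (nat_lit 76) (nat_lit 105926286615) (nat_lit 0) (nat_lit 105926286615) (nat_lit 307) (nat_lit 1) (nat_lit 297) (nat_lit 1) (nat_lit 296) (nat_lit 1) (nat_lit 169) (nat_lit 430) (nat_lit 421)) (XT.lf (nat_lit 76) (nat_lit 16467820689) (nat_lit 0) (nat_lit 226291675844) (nat_lit 760) (nat_lit 16467820689) (nat_lit 298)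 (nat_lit 1) (nat_lit 297) (nat_lit 1) (nat_lit 307) (nat_lit 1) (nat_lit 170) (nat_lit 430) (nat_lit 420)))) (XT.nd (nat_lit 78) (nat_lit 532) (nat_lit 0) (XT.lf (nat_lit 836) (nat_lit 9946154177) (nat_lit 0) (nat_lit 121759632376) (nat_lit 760) (nat_lit 121759632376) (nat_lit 298) (nat_lit 1) (nat_lit 287) (nat_lit 1) (nat_lit 297) (nat_lit 1) (nat_lit 171) (nat_lit 430) (nat_lit 419)) (XT.nd (nat_lit 78) (nat_lit 0) (nat_lit 0) (XT.lf (nat_lit 532) (nat_lit 236034764483) (nat_lit 0) (nat_lit 5958149048) (nat_lit 456) (nat_lit 5958149048) (nat_lit 287) (nat_lit 1) (nat_lit 280) (nat_lit 1) (nat_lit 286) (nat_lit 1) (nat_lit 172) (nat_lit 430) (nat_lit 418)) (XT.lf (nat_lit 76) (nat_lit 103193988228) (nat_lit 0) (nat_lit 36119665329) (nat_lit 532) (nat_lit 103193988228) (nat_lit 281) (nat_lit 1) (nat_lit 280) (nat_lit 1) (nat_lit 287) (nat_lit 1) (nat_lit 173) (nat_lit 430) (nat_lit 417))))) (XT.nd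 (nat_lit 234) (nat_lit 304) (nat_lit 0) (XT.nd (nat_lit 78) (nat_lit 380) (nat_lit 0) (XT.lf (nat_lit 456) (nat_lit 177570364992) (nat_lit 0) (nat_lit 29862662417) (nat_lit 380) (nat_lit 29862662417) (nat_lit 281) (nat_lit 1) (nat_lit 275) (nat_lit 1) (nat_lit 280) (nat_lit 1) (nat_lit 174) (nat_lit 430) (nat_lit 416)) (XT.nd (nat_lit 78) (nat_lit 380) (nat_lit 0) (XT.lf (nat_lit 76) (nat_lit 73607015575) (nat_lit 0) (nat_lit 84979276353) (nat_lit 456) (nat_lit 73607015575) (nat_lit 276) (nat_lit 1) (nat_lit 275) (nat_lit 1) (nat_lit 281) (nat_lit 1) (nat_lit 175) (nat_lit 430) (nat_lit 415)) (XT.lf (nat_lit 456) (nat_lit 116932603526) (nat_lit 0) (nat_lit 55168011990) (nat_lit 380) (nat_lit 55168011990) (nat_lit 276) (nat_lit 1) (nat_lit 270) (nat_lit 1) (nat_lit 275) (nat_lit 1) (nat_lit 176) (nat_lit 430) (nat_lit 414)))) (XT.nd (nat_lit 78) (nat_lit 304) (nat_lit 0) (XT.lf (nat_lit 76) (nat_lit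 43088110360) (nat_lit 0) (nat_lit 136310953079) (nat_lit 456) (nat_lit 43088110360) (nat_lit 271) (nat_lit 1) (nat_lit 270) (nat_lit 1) (nat_lit 276) (nat_lit 1) (nat_lit 177) (nat_lit 430) (nat_lit 413)) (XT.nd (nat_lit 78) (nat_lit 0) (nat_lit 0) (XT.lf (nat_lit 380) (nat_lit 54685863811) (nat_lit 0) (nat_lit 81571425519) (nat_lit 304) (nat_lit 81571425519) (nat_lit 271) (nat_lit 1) (nat_lit 266) (nat_lit 1) (nat_lit 270) (nat_lit 1) (nat_lit 178) (nat_lit 430) (nat_lit 412)) (XT.lf (nat_lit 76) (nat_lit 11899279068) (nat_lit 0) (nat_lit 189550839164) (nat_lit 380) (nat_lit 11899279068) (nat_lit 267) (nat_lit 1) (nat_lit 266) (nat_lit 1) (nat_lit 271) (nat_lit 1) (nat_lit 179) (nat_lit 430) (nat_lit 411)))))) (XT.nd (nat_lit 468) (nat_lit 1140) (nat_lit 0) (XT.nd (nat_lit 234) (nat_lit 532) (nat_lit 0) (XT.nd (nat_lit 78) (nat_lit 304) (nat_lit 0) (XT.lf (nat_lit 76) (nat_lit 100266744691) (nat_lit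 0) (nat_lit 8397534637) (nat_lit 380) (nat_lit 100266744691) (nat_lit 262) (nat_lit 1) (nat_lit 261) (nat_lit 1) (nat_lit 266) (nat_lit 1) (nat_lit 180) (nat_lit 430) (nat_lit 410)) (XT.nd (nat_lit 78) (nat_lit 0) (nat_lit 0) (XT.lf (nat_lit 380) (nat_lit 165857007950) (nat_lit 0) (nat_lit 19411952637) (nat_lit 304) (nat_lit 19411952637) (nat_lit 262) (nat_lit 1) (nat_lit 257) (nat_lit 1) (nat_lit 261) (nat_lit 1) (nat_lit 181) (nat_lit 430) (nat_lit 409)) (XT.lf (nat_lit 76) (nat_lit 65056410097) (nat_lit 0) (nat_lit 70390893828) (nat_lit 380) (nat_lit 65056410097) (nat_lit 258) (nat_lit 1) (nat_lit 257) (nat_lit 1) (nat_lit 262) (nat_lit 1) (nat_lit 182) (nat_lit 430) (nat_lit 408)))) (XT.nd (nat_lit 78) (nat_lit 228) (nat_lit 0) (XT.lf (nat_lit 380) (nat_lit 94935399621) (nat_lit 0) (nat_lit 50767982890) (nat_lit 304) (nat_lit 50767982890) (nat_lit 258) (nat_lit 1) (nat_lit 253) (nat_lit 1)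 (nat_lit 257) (nat_lit 1) (nat_lit 183) (nat_lit 430) (nat_lit 407)) (XT.nd (nat_lit 78) (nat_lit 228) (nat_lit 0) (XT.lf (nat_lit 76) (nat_lit 29938388143) (nat_lit 0) (nat_lit 132680146714) (nat_lit 380) (nat_lit 29938388143) (nat_lit 254) (nat_lit 1) (nat_lit 253) (nat_lit 1) (nat_lit 258) (nat_lit 1) (nat_lit 184) (nat_lit 430) (nat_lit 406)) (XT.lf (nat_lit 304) (nat_lit 24347608839) (nat_lit 0) (nat_lit 82189684452) (nat_lit 228) (nat_lit 82189684452) (nat_lit 254) (nat_lit 1) (nat_lit 250) (nat_lit 1) (nat_lit 253) (nat_lit 1) (nat_lit 185) (nat_lit 430) (nat_lit 405))))) (XT.nd (nat_lit 234) (nat_lit 532) (nat_lit 0) (XT.nd (nat_lit 78) (nat_lit 228) (nat_lit 0) (XT.lf (nat_lit 380) (nat_lit 175315496846) (nat_lit 0) (nat_lit 4864668643) (nat_lit 304) (nat_lit 4864668643) (nat_lit 250) (nat_lit 1) (nat_lit 245) (nat_lit 1) (nat_lit 249) (nat_lit 1) (nat_lit 186) (nat_lit 430) (nat_lit 404))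 (XT.nd (nat_lit 78) (nat_lit 228) (nat_lit 0) (XT.lf (nat_lit 76) (nat_lit 68602250001) (nat_lit 0) (nat_lit 44178570743) (nat_lit 380) (nat_lit 68602250001) (nat_lit 246) (nat_lit 1) (nat_lit 245) (nat_lit 1) (nat_lit 250) (nat_lit 1) (nat_lit 187) (nat_lit 430) (nat_lit 403)) (XT.lf (nat_lit 304) (nat_lit 100195754939) (nat_lit 0) (nat_lit 38832995394) (nat_lit 228) (nat_lit 38832995394) (nat_lit 246) (nat_lit 1) (nat_lit 242) (nat_lit 1) (nat_lit 245) (nat_lit 1) (nat_lit 188) (nat_lit 430) (nat_lit 402)))) (XT.nd (nat_lit 156) (nat_lit 304) (nat_lit 0) (XT.nd (nat_lit 78) (nat_lit 228) (nat_lit 0) (XT.lf (nat_lit 76) (nat_lit 31653388855) (nat_lit 0) (nat_lit 111123108318) (nat_lit 304) (nat_lit 31653388855) (nat_lit 243) (nat_lit 1) (nat_lit 242) (nat_lit 1) (nat_lit 246) (nat_lit 1) (nat_lit 189) (nat_lit 430) (nat_lit 401)) (XT.lf (nat_lit 304) (nat_lit 26382110246) (nat_lit 0) (nat_lit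 72346994982) (nat_lit 228) (nat_lit 72346994982) (nat_lit 243) (nat_lit 1) (nat_lit 239) (nat_lit 1) (nat_lit 242) (nat_lit 1) (nat_lit 190) (nat_lit 430) (nat_lit 400))) (XT.nd (nat_lit 78) (nat_lit 0) (nat_lit 0) (XT.lf (nat_lit 304) (nat_lit 158778835450) (nat_lit 0) (nat_lit 4534038170) (nat_lit 228) (nat_lit 4534038170) (nat_lit 239) (nat_lit 1) (nat_lit 235) (nat_lit 1) (nat_lit 238) (nat_lit 1) (nat_lit 191) (nat_lit 430) (nat_lit 399)) (XT.lf (nat_lit 76) (nat_lit 60061486311) (nat_lit 0) (nat_lit 44504958272) (nat_lit 304) (nat_lit 60061486311) (nat_lit 236) (nat_lit 1) (nat_lit 235) (nat_lit 1) (nat_lit 239) (nat_lit 1) (nat_lit 192) (nat_lit 430) (nat_lit 398))))))) (XT.nd (nat_lit 1014) (nat_lit 1368) (nat_lit 0) (XT.nd (nat_lit 468) (nat_lit 760) (nat_lit 0) (XT.nd (nat_lit 234) (nat_lit 456) (nat_lit 0) (XT.nd (nat_lit 78) (nat_lit 152) (nat_lit 0) (XT.lf (nat_lit 304) (nat_lit 82590043260)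 (nat_lit 0) (nat_lit 39469004774) (nat_lit 228) (nat_lit 39469004774) (nat_lit 236) (nat_lit 1) (nat_lit 232) (nat_lit 1) (nat_lit 235) (nat_lit 1) (nat_lit 193) (nat_lit 430) (nat_lit 397)) (XT.nd (nat_lit 78) (nat_lit 152) (nat_lit 0) (XT.lf (nat_lit 76) (nat_lit 22745230556) (nat_lit 0) (nat_lit 113020853750) (nat_lit 304) (nat_lit 22745230556) (nat_lit 233) (nat_lit 1) (nat_lit 232) (nat_lit 1) (nat_lit 236) (nat_lit 1) (nat_lit 194) (nat_lit 430) (nat_lit 396)) (XT.lf (nat_lit 228) (nat_lit 8334608739) (nat_lit 0) (nat_lit 73608408397) (nat_lit 152) (nat_lit 73608408397) (nat_lit 233) (nat_lit 1) (nat_lit 230) (nat_lit 1) (nat_lit 232) (nat_lit 1) (nat_lit 195) (nat_lit 430) (nat_lit 395)))) (XT.nd (nat_lit 78) (nat_lit 152) (nat_lit 0) (XT.lf (nat_lit 304) (nat_lit 125933143336) (nat_lit 0) (nat_lit 13375012628) (nat_lit 228) (nat_lit 13375012628) (nat_lit 230) (nat_lit 1) (nat_lit 226) (nat_lit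 1) (nat_lit 229) (nat_lit 1) (nat_lit 196) (nat_lit 430) (nat_lit 394)) (XT.nd (nat_lit 78) (nat_lit 152) (nat_lit 0) (XT.lf (nat_lit 76) (nat_lit 43985457675) (nat_lit 0) (nat_lit 61876074995) (nat_lit 304) (nat_lit 43985457675) (nat_lit 227) (nat_lit 1) (nat_lit 226) (nat_lit 1) (nat_lit 230) (nat_lit 1) (nat_lit 197) (nat_lit 430) (nat_lit 393)) (XT.lf (nat_lit 228) (nat_lit 50818411297) (nat_lit 0) (nat_lit 48139966520) (nat_lit 152) (nat_lit 48139966520) (nat_lit 227) (nat_lit 1) (nat_lit 224) (nat_lit 1) (nat_lit 226) (nat_lit 1) (nat_lit 198) (nat_lit 430) (nat_lit 392))))) (XT.nd (nat_lit 234) (nat_lit 380) (nat_lit 0) (XT.nd (nat_lit 78) (nat_lit 380) (nat_lit 0) (XT.lf (nat_lit 76) (nat_lit 7300992697) (nat_lit 0) (nat_lit 129838929952) (nat_lit 228) (nat_lit 7300992697) (nat_lit 225) (nat_lit 1) (nat_lit 224) (nat_lit 1) (nat_lit 227) (nat_lit 1) (nat_lit 199) (nat_lit 430) (nat_lit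 391)) (XT.nd (nat_lit 78) (nat_lit 152) (nat_lit 0) (XT.lf (nat_lit 76) (nat_lit 60256373652) (nat_lit 0) (nat_lit 21280398993) (nat_lit 228) (nat_lit 60256373652) (nat_lit 222) (nat_lit 1) (nat_lit 221) (nat_lit 1) (nat_lit 224) (nat_lit 1) (nat_lit 200) (nat_lit 430) (nat_lit 390)) (XT.lf (nat_lit 228) (nat_lit 83676535654) (nat_lit 0) (nat_lit 27778342704) (nat_lit 152) (nat_lit 27778342704) (nat_lit 222) (nat_lit 1) (nat_lit 219) (nat_lit 1) (nat_lit 221) (nat_lit 1) (nat_lit 201) (nat_lit 430) (nat_lit 389)))) (XT.nd (nat_lit 156) (nat_lit 228) (nat_lit 0) (XT.nd (nat_lit 78) (nat_lit 152) (nat_lit 0) (XT.lf (nat_lit 76) (nat_lit 23611341417) (nat_lit 0) (nat_lit 89507192933) (nat_lit 228) (nat_lit 23611341417) (nat_lit 220) (nat_lit 1) (nat_lit 219) (nat_lit 1) (nat_lit 222) (nat_lit 1) (nat_lit 202) (nat_lit 430) (nat_lit 388)) (XT.lf (nat_lit 228) (nat_lit 11061063366) (nat_lit 0) (nat_lit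 61607964051) (nat_lit 152) (nat_lit 61607964051) (nat_lit 220) (nat_lit 1) (nat_lit 217) (nat_lit 1) (nat_lit 219) (nat_lit 1) (nat_lit 203) (nat_lit 430) (nat_lit 387))) (XT.nd (nat_lit 78) (nat_lit 0) (nat_lit 0) (XT.lf (nat_lit 228) (nat_lit 108715276694) (nat_lit 0) (nat_lit 11589952346) (nat_lit 152) (nat_lit 11589952346) (nat_lit 217) (nat_lit 1) (nat_lit 214) (nat_lit 1) (nat_lit 216) (nat_lit 1) (nat_lit 204) (nat_lit 430) (nat_lit 386)) (XT.lf (nat_lit 76) (nat_lit 36191582024) (nat_lit 0) (nat_lit 57150535745) (nat_lit 228) (nat_lit 36191582024) (nat_lit 215) (nat_lit 1) (nat_lit 214) (nat_lit 1) (nat_lit 217) (nat_lit 1) (nat_lit 205) (nat_lit 430) (nat_lit 385)))))) (XT.nd (nat_lit 468) (nat_lit 760) (nat_lit 0) (XT.nd (nat_lit 234) (nat_lit 304) (nat_lit 0) (XT.nd (nat_lit 78) (nat_lit 152) (nat_lit 0) (XT.lf (nat_lit 228) (nat_lit 36859369169) (nat_lit 0) (nat_lit 45190703056) (nat_lit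 152) (nat_lit 45190703056) (nat_lit 215) (nat_lit 1) (nat_lit 212) (nat_lit 1) (nat_lit 214) (nat_lit 1) (nat_lit 206) (nat_lit 430) (nat_lit 384)) (XT.nd (nat_lit 78) (nat_lit 152) (nat_lit 0) (XT.lf (nat_lit 76) (nat_lit 1211465808) (nat_lit 0) (nat_lit 122605332134) (nat_lit 228) (nat_lit 1211465808) (nat_lit 213) (nat_lit 1) (nat_lit 212) (nat_lit 1) (nat_lit 215) (nat_lit 1) (nat_lit 207) (nat_lit 430) (nat_lit 383)) (XT.lf (nat_lit 76) (nat_lit 45742973628) (nat_lit 0) (nat_lit 31315741104) (nat_lit 152) (nat_lit 45742973628) (nat_lit 211) (nat_lit 1) (nat_lit 210) (nat_lit 1) (nat_lit 212) (nat_lit 1) (nat_lit 208) (nat_lit 430) (nat_lit 382)))) (XT.nd (nat_lit 78) (nat_lit 152) (nat_lit 0) (XT.lf (nat_lit 228) (nat_lit 56761822773) (nat_lit 0) (nat_lit 31945816161) (nat_lit 152) (nat_lit 31945816161) (nat_lit 211) (nat_lit 1) (nat_lit 208) (nat_lit 1) (nat_lit 210) (nat_lit 1) (nat_lit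 209) (nat_lit 430) (nat_lit 381)) (XT.nd (nat_lit 78) (nat_lit 152) (nat_lit 0) (XT.lf (nat_lit 76) (nat_lit 11380353171) (nat_lit 0) (nat_lit 95802501753) (nat_lit 228) (nat_lit 11380353171) (nat_lit 209) (nat_lit 1) (nat_lit 208) (nat_lit 1) (nat_lit 211) (nat_lit 1) (nat_lit 210) (nat_lit 430) (nat_lit 380)) (XT.lf (nat_lit 76) (nat_lit 52840542875) (nat_lit 0) (nat_lit 10809112860) (nat_lit 152) (nat_lit 52840542875) (nat_lit 207) (nat_lit 1) (nat_lit 206) (nat_lit 1) (nat_lit 208) (nat_lit 1) (nat_lit 211) (nat_lit 430) (nat_lit 379))))) (XT.nd (nat_lit 234) (nat_lit 532) (nat_lit 0) (XT.nd (nat_lit 78) (nat_lit 76) (nat_lit 0) (XT.lf (nat_lit 228) (nat_lit 71876690676) (nat_lit 0) (nat_lit 21298390509) (nat_lit 152) (nat_lit 21298390509) (nat_lit 207) (nat_lit 1) (nat_lit 204) (nat_lit 1) (nat_lit 206) (nat_lit 1) (nat_lit 212) (nat_lit 430) (nat_lit 378)) (XT.nd (nat_lit 78) (nat_lit 76)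 (nat_lit 0) (XT.lf (nat_lit 76) (nat_lit 19251861148) (nat_lit 0) (nat_lit 73992947269) (nat_lit 228) (nat_lit 19251861148) (nat_lit 205) (nat_lit 1) (nat_lit 204) (nat_lit 1) (nat_lit 207) (nat_lit 1) (nat_lit 213) (nat_lit 430) (nat_lit 377)) (XT.lf (nat_lit 152) (nat_lit 5526508254) (nat_lit 0) (nat_lit 52515331198) (nat_lit 76) (nat_lit 52515331198) (nat_lit 205) (nat_lit 1) (nat_lit 203) (nat_lit 1) (nat_lit 204) (nat_lit 1) (nat_lit 214) (nat_lit 430) (nat_lit 376)))) (XT.nd (nat_lit 156) (nat_lit 304) (nat_lit 0) (XT.nd (nat_lit 78) (nat_lit 0) (nat_lit 0) (XT.lf (nat_lit 228) (nat_lit 83112749020) (nat_lit 0) (nat_lit 12776037147) (nat_lit 152) (nat_lit 12776037147) (nat_lit 203) (nat_lit 1) (nat_lit 200) (nat_lit 1) (nat_lit 202) (nat_lit 1) (nat_lit 215) (nat_lit 430) (nat_lit 375)) (XT.lf (nat_lit 76) (nat_lit 25256855173) (nat_lit 0) (nat_lit 56279887488) (nat_lit 228) (nat_lit 25256855173)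 (nat_lit 201) (nat_lit 1) (nat_lit 200) (nat_lit 1) (nat_lit 203) (nat_lit 1) (nat_lit 216) (nat_lit 430) (nat_lit 374))) (XT.nd (nat_lit 78) (nat_lit 228) (nat_lit 0) (XT.lf (nat_lit 152) (nat_lit 18559266727) (nat_lit 0) (nat_lit 43204492941) (nat_lit 76) (nat_lit 43204492941) (nat_lit 201) (nat_lit 1) (nat_lit 199) (nat_lit 1) (nat_lit 200) (nat_lit 1) (nat_lit 217) (nat_lit 430) (nat_lit 373)) (XT.lf (nat_lit 228) (nat_lit 91214795469) (nat_lit 0) (nat_lit 5990685537) (nat_lit 152) (nat_lit 5990685537) (nat_lit 199) (nat_lit 1) (nat_lit 196) (nat_lit 1) (nat_lit 198) (nat_lit 1) (nat_lit 218) (nat_lit 430) (nat_lit 372))))))))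
noncomputable def ec406 : XT := (XT.nd (nat_lit 1950) (nat_lit 1976) (nat_lit 0) (XT.nd (nat_lit 936) (nat_lit 988) (nat_lit 0) (XT.nd (nat_lit 468) (nat_lit 456) (nat_lit 0) (XT.nd (nat_lit 234) (nat_lit 76) (nat_lit 0) (XT.nd (nat_lit 78) (nat_lit 304) (nat_lit 0) (XT.lf (nat_lit 76) (nat_lit 29748688078) (nat_lit 0) (nat_lit 41926085243) (nat_lit 228) (nat_lit 29748688078) (nat_lit 197) (nat_lit 1) (nat_lit 196) (nat_lit 1) (nat_lit 199) (nat_lit 1) (nat_lit 219) (nat_lit 430) (nat_lit 371)) (XT.nd (nat_lit 78) (nat_lit 228) (nat_lit 0) (XT.lf (nat_lit 152) (nat_lit 28614082962) (nat_lit 0) (nat_lit 35544443264) (nat_lit 76) (nat_lit 35544443264) (nat_lit 197) (nat_lit 1) (nat_lit 195) (nat_lit 1) (nat_lit 196) (nat_lit 1) (nat_lit 220) (nat_lit 430) (nat_lit 370)) (XT.lf (nat_lit 228) (nat_lit 96792858125) (nat_lit 0) (nat_lit 623607205) (nat_lit 152) (nat_lit 623607205) (nat_lit 195) (nat_lit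 1) (nat_lit 192) (nat_lit 1) (nat_lit 194) (nat_lit 1) (nat_lit 221) (nat_lit 430) (nat_lit 369)))) (XT.nd (nat_lit 78) (nat_lit 76) (nat_lit 0) (XT.lf (nat_lit 76) (nat_lit 33016996276) (nat_lit 0) (nat_lit 30325534589) (nat_lit 228) (nat_lit 33016996276) (nat_lit 193) (nat_lit 1) (nat_lit 192) (nat_lit 1) (nat_lit 195) (nat_lit 1) (nat_lit 222) (nat_lit 430) (nat_lit 368)) (XT.nd (nat_lit 78) (nat_lit 0) (nat_lit 0) (XT.lf (nat_lit 152) (nat_lit 36250713338) (nat_lit 0) (nat_lit 29242501439) (nat_lit 76) (nat_lit 29242501439) (nat_lit 193) (nat_lit 1) (nat_lit 191) (nat_lit 1) (nat_lit 192) (nat_lit 1) (nat_lit 223) (nat_lit 430) (nat_lit 367)) (XT.lf (nat_lit 0) (nat_lit 3645705763) (nat_lit 0) (nat_lit 85869519333) (nat_lit 152) (nat_lit 3645705763) (nat_lit 191) (nat_lit 3) (nat_lit 191) (nat_lit 1) (nat_lit 193) (nat_lit 1) (nat_lit 224) (nat_lit 430) (nat_lit 366))))) (XT.nd (nat_lit 234)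 (nat_lit 228) (nat_lit 0) (XT.nd (nat_lit 78) (nat_lit 76) (nat_lit 0) (XT.lf (nat_lit 76) (nat_lit 35299047377) (nat_lit 0) (nat_lit 20980169023) (nat_lit 152) (nat_lit 35299047377) (nat_lit 190) (nat_lit 1) (nat_lit 189) (nat_lit 1) (nat_lit 191) (nat_lit 1) (nat_lit 225) (nat_lit 430) (nat_lit 365)) (XT.nd (nat_lit 78) (nat_lit 0) (nat_lit 0) (XT.lf (nat_lit 152) (nat_lit 41928157740) (nat_lit 0) (nat_lit 24057878303) (nat_lit 76) (nat_lit 24057878303) (nat_lit 190) (nat_lit 1) (nat_lit 188) (nat_lit 1) (nat_lit 189) (nat_lit 1) (nat_lit 226) (nat_lit 430) (nat_lit 364)) (XT.lf (nat_lit 0) (nat_lit 6968054486) (nat_lit 0) (nat_lit 74613789397) (nat_lit 152) (nat_lit 6968054486) (nat_lit 188) (nat_lit 3) (nat_lit 188) (nat_lit 1) (nat_lit 190) (nat_lit 1) (nat_lit 227) (nat_lit 430) (nat_lit 363)))) (XT.nd (nat_lit 78) (nat_lit 76) (nat_lit 0) (XT.lf (nat_lit 76) (nat_lit 36789073474) (nat_lit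 0) (nat_lit 13480700470) (nat_lit 152) (nat_lit 36789073474) (nat_lit 187) (nat_lit 1) (nat_lit 186) (nat_lit 1) (nat_lit 188) (nat_lit 1) (nat_lit 228) (nat_lit 430) (nat_lit 362)) (XT.nd (nat_lit 78) (nat_lit 0) (nat_lit 0) (XT.lf (nat_lit 152) (nat_lit 46022595482) (nat_lit 0) (nat_lit 19792476018) (nat_lit 76) (nat_lit 19792476018) (nat_lit 187) (nat_lit 1) (nat_lit 185) (nat_lit 1) (nat_lit 186) (nat_lit 1) (nat_lit 229) (nat_lit 430) (nat_lit 361)) (XT.lf (nat_lit 0) (nat_lit 9512372177) (nat_lit 0) (nat_lit 65164685697) (nat_lit 152) (nat_lit 9512372177) (nat_lit 185) (nat_lit 3) (nat_lit 185) (nat_lit 1) (nat_lit 187) (nat_lit 1) (nat_lit 230) (nat_lit 430) (nat_lit 360)))))) (XT.nd (nat_lit 468) (nat_lit 532) (nat_lit 0) (XT.nd (nat_lit 234) (nat_lit 228) (nat_lit 0) (XT.nd (nat_lit 78) (nat_lit 76) (nat_lit 0) (XT.lf (nat_lit 76) (nat_lit 37645947354) (nat_lit 0) (nat_lit 7490856584)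 (nat_lit 152) (nat_lit 37645947354) (nat_lit 184) (nat_lit 1) (nat_lit 183) (nat_lit 1) (nat_lit 185) (nat_lit 1) (nat_lit 231) (nat_lit 430) (nat_lit 359)) (XT.nd (nat_lit 78) (nat_lit 0) (nat_lit 0) (XT.lf (nat_lit 152) (nat_lit 48842137814) (nat_lit 0) (nat_lit 16283319002) (nat_lit 76) (nat_lit 16283319002) (nat_lit 184) (nat_lit 1) (nat_lit 182) (nat_lit 1) (nat_lit 183) (nat_lit 1) (nat_lit 232) (nat_lit 430) (nat_lit 358)) (XT.lf (nat_lit 0) (nat_lit 11425601185) (nat_lit 0) (nat_lit 57210897246) (nat_lit 152) (nat_lit 11425601185) (nat_lit 182) (nat_lit 3) (nat_lit 182) (nat_lit 1) (nat_lit 184) (nat_lit 1) (nat_lit 233) (nat_lit 430) (nat_lit 357)))) (XT.nd (nat_lit 78) (nat_lit 76) (nat_lit 0) (XT.lf (nat_lit 76) (nat_lit 37999495540) (nat_lit 0) (nat_lit 2734413818) (nat_lit 152) (nat_lit 37999495540) (nat_lit 181) (nat_lit 1) (nat_lit 180) (nat_lit 1) (nat_lit 182) (nat_lit 1) (nat_lit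 234) (nat_lit 430) (nat_lit 356)) (XT.nd (nat_lit 78) (nat_lit 0) (nat_lit 0) (XT.lf (nat_lit 152) (nat_lit 50638961573) (nat_lit 0) (nat_lit 13396326841) (nat_lit 76) (nat_lit 13396326841) (nat_lit 181) (nat_lit 1) (nat_lit 179) (nat_lit 1) (nat_lit 180) (nat_lit 1) (nat_lit 235) (nat_lit 430) (nat_lit 355)) (XT.lf (nat_lit 0) (nat_lit 12828202803) (nat_lit 0) (nat_lit 50495879182) (nat_lit 152) (nat_lit 12828202803) (nat_lit 179) (nat_lit 3) (nat_lit 179) (nat_lit 1) (nat_lit 181) (nat_lit 1) (nat_lit 236) (nat_lit 430) (nat_lit 354))))) (XT.nd (nat_lit 234) (nat_lit 304) (nat_lit 0) (XT.nd (nat_lit 78) (nat_lit 152) (nat_lit 0) (XT.lf (nat_lit 76) (nat_lit 1049045499) (nat_lit 0) (nat_lit 36923023002) (nat_lit 76) (nat_lit 36923023002) (nat_lit 179) (nat_lit 3) (nat_lit 178) (nat_lit 1) (nat_lit 179) (nat_lit 1) (nat_lit 237) (nat_lit 430) (nat_lit 353)) (XT.nd (nat_lit 78) (nat_lit 0) (nat_lit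 0) (XT.lf (nat_lit 152) (nat_lit 51619288454) (nat_lit 0) (nat_lit 11021191245) (nat_lit 76) (nat_lit 11021191245) (nat_lit 178) (nat_lit 1) (nat_lit 176) (nat_lit 1) (nat_lit 177) (nat_lit 1) (nat_lit 238) (nat_lit 430) (nat_lit 352)) (XT.lf (nat_lit 0) (nat_lit 13818872701) (nat_lit 0) (nat_lit 44808163277) (nat_lit 152) (nat_lit 13818872701) (nat_lit 176) (nat_lit 3) (nat_lit 176) (nat_lit 1) (nat_lit 178) (nat_lit 1) (nat_lit 239) (nat_lit 430) (nat_lit 351)))) (XT.nd (nat_lit 156) (nat_lit 76) (nat_lit 0) (XT.nd (nat_lit 78) (nat_lit 152) (nat_lit 0) (XT.lf (nat_lit 76) (nat_lit 4075468279) (nat_lit 0) (nat_lit 33589078351) (nat_lit 76) (nat_lit 33589078351) (nat_lit 176) (nat_lit 3) (nat_lit 175) (nat_lit 1) (nat_lit 176) (nat_lit 1) (nat_lit 240) (nat_lit 430) (nat_lit 350)) (XT.lf (nat_lit 152) (nat_lit 51951592022) (nat_lit 0) (nat_lit 9067161312) (nat_lit 76) (nat_lit 9067161312) (nat_lit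 175) (nat_lit 1) (nat_lit 173) (nat_lit 1) (nat_lit 174) (nat_lit 1) (nat_lit 241) (nat_lit 430) (nat_lit 349))) (XT.nd (nat_lit 78) (nat_lit 76) (nat_lit 0) (XT.lf (nat_lit 0) (nat_lit 14478419348) (nat_lit 0) (nat_lit 39973385397) (nat_lit 152) (nat_lit 14478419348) (nat_lit 173) (nat_lit 3) (nat_lit 173) (nat_lit 1) (nat_lit 175) (nat_lit 1) (nat_lit 242) (nat_lit 430) (nat_lit 348)) (XT.lf (nat_lit 76) (nat_lit 6412341601) (nat_lit 0) (nat_lit 30693261648) (nat_lit 76) (nat_lit 30693261648) (nat_lit 173) (nat_lit 3) (nat_lit 172) (nat_lit 1) (nat_lit 173) (nat_lit 1) (nat_lit 243) (nat_lit 430) (nat_lit 347))))))) (XT.nd (nat_lit 936) (nat_lit 1064) (nat_lit 0) (XT.nd (nat_lit 468) (nat_lit 456) (nat_lit 0) (XT.nd (nat_lit 234) (nat_lit 228) (nat_lit 0) (XT.nd (nat_lit 78) (nat_lit 76) (nat_lit 0) (XT.lf (nat_lit 152) (nat_lit 51773346815) (nat_lit 0) (nat_lit 7459576051) (nat_lit 76) (nat_lit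 7459576051) (nat_lit 172) (nat_lit 1) (nat_lit 170) (nat_lit 1) (nat_lit 171) (nat_lit 1) (nat_lit 244) (nat_lit 430) (nat_lit 346)) (XT.nd (nat_lit 78) (nat_lit 76) (nat_lit 0) (XT.lf (nat_lit 0) (nat_lit 14872953884) (nat_lit 0) (nat_lit 35847725547) (nat_lit 152) (nat_lit 14872953884) (nat_lit 170) (nat_lit 3) (nat_lit 170) (nat_lit 1) (nat_lit 172) (nat_lit 1) (nat_lit 245) (nat_lit 430) (nat_lit 345)) (XT.lf (nat_lit 76) (nat_lit 8189205269) (nat_lit 0) (nat_lit 28165178282) (nat_lit 76) (nat_lit 28165178282) (nat_lit 170) (nat_lit 3) (nat_lit 169) (nat_lit 1) (nat_lit 170) (nat_lit 1) (nat_lit 246) (nat_lit 430) (nat_lit 344)))) (XT.nd (nat_lit 78) (nat_lit 76) (nat_lit 0) (XT.lf (nat_lit 152) (nat_lit 51196578162) (nat_lit 0) (nat_lit 6137011678) (nat_lit 76) (nat_lit 6137011678) (nat_lit 169) (nat_lit 1) (nat_lit 167) (nat_lit 1) (nat_lit 168) (nat_lit 1) (nat_lit 247) (nat_lit 430) (nat_lit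 343)) (XT.nd (nat_lit 78) (nat_lit 76) (nat_lit 0) (XT.lf (nat_lit 0) (nat_lit 15056513544) (nat_lit 0) (nat_lit 32312510100) (nat_lit 152) (nat_lit 15056513544) (nat_lit 167) (nat_lit 3) (nat_lit 167) (nat_lit 1) (nat_lit 169) (nat_lit 1) (nat_lit 248) (nat_lit 430) (nat_lit 342)) (XT.lf (nat_lit 76) (nat_lit 9512285121) (nat_lit 0) (nat_lit 25946567555) (nat_lit 76) (nat_lit 25946567555) (nat_lit 167) (nat_lit 3) (nat_lit 166) (nat_lit 1) (nat_lit 167) (nat_lit 1) (nat_lit 249) (nat_lit 430) (nat_lit 341))))) (XT.nd (nat_lit 234) (nat_lit 228) (nat_lit 0) (XT.nd (nat_lit 78) (nat_lit 76) (nat_lit 0) (XT.lf (nat_lit 152) (nat_lit 50312425468) (nat_lit 0) (nat_lit 5048934695) (nat_lit 76) (nat_lit 5048934695) (nat_lit 166) (nat_lit 1) (nat_lit 164) (nat_lit 1) (nat_lit 165) (nat_lit 1) (nat_lit 250) (nat_lit 430) (nat_lit 340)) (XT.nd (nat_lit 78) (nat_lit 76) (nat_lit 0) (XT.lf (nat_lit 0) (nat_lit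 15073219123) (nat_lit 0) (nat_lit 29269770194) (nat_lit 152) (nat_lit 15073219123) (nat_lit 164) (nat_lit 3) (nat_lit 164) (nat_lit 1) (nat_lit 166) (nat_lit 1) (nat_lit 251) (nat_lit 430) (nat_lit 339)) (XT.lf (nat_lit 76) (nat_lit 10468643063) (nat_lit 0) (nat_lit 23989167893) (nat_lit 76) (nat_lit 23989167893) (nat_lit 164) (nat_lit 3) (nat_lit 163) (nat_lit 1) (nat_lit 164) (nat_lit 1) (nat_lit 252) (nat_lit 430) (nat_lit 338)))) (XT.nd (nat_lit 78) (nat_lit 76) (nat_lit 0) (XT.lf (nat_lit 152) (nat_lit 49194894005) (nat_lit 0) (nat_lit 4153771069) (nat_lit 76) (nat_lit 4153771069) (nat_lit 163) (nat_lit 1) (nat_lit 161) (nat_lit 1) (nat_lit 162) (nat_lit 1) (nat_lit 253) (nat_lit 430) (nat_lit 337)) (XT.nd (nat_lit 78) (nat_lit 76) (nat_lit 0) (XT.lf (nat_lit 0) (nat_lit 14959049121) (nat_lit 0) (nat_lit 26638586821) (nat_lit 152) (nat_lit 14959049121) (nat_lit 161) (nat_lit 3) (nat_lit 161)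 (nat_lit 1) (nat_lit 163) (nat_lit 1) (nat_lit 254) (nat_lit 430) (nat_lit 336)) (XT.lf (nat_lit 76) (nat_lit 11129590510) (nat_lit 0) (nat_lit 22252959748) (nat_lit 76) (nat_lit 22252959748) (nat_lit 161) (nat_lit 3) (nat_lit 160) (nat_lit 1) (nat_lit 161) (nat_lit 1) (nat_lit 255) (nat_lit 430) (nat_lit 335)))))) (XT.nd (nat_lit 468) (nat_lit 608) (nat_lit 0) (XT.nd (nat_lit 234) (nat_lit 228) (nat_lit 0) (XT.nd (nat_lit 78) (nat_lit 76) (nat_lit 0) (XT.lf (nat_lit 152) (nat_lit 47903939198) (nat_lit 0) (nat_lit 3417317738) (nat_lit 76) (nat_lit 3417317738) (nat_lit 160) (nat_lit 1) (nat_lit 158) (nat_lit 1) (nat_lit 159) (nat_lit 1) (nat_lit 256) (nat_lit 430) (nat_lit 334)) (XT.nd (nat_lit 78) (nat_lit 76) (nat_lit 0) (XT.lf (nat_lit 0) (nat_lit 14743298586) (nat_lit 0) (nat_lit 24352083156) (nat_lit 152) (nat_lit 14743298586) (nat_lit 158) (nat_lit 3) (nat_lit 158) (nat_lit 1) (nat_lit 160)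 (nat_lit 1) (nat_lit 257) (nat_lit 430) (nat_lit 333)) (XT.lf (nat_lit 76) (nat_lit 11553495899) (nat_lit 0) (nat_lit 20704719299) (nat_lit 76) (nat_lit 20704719299) (nat_lit 158) (nat_lit 3) (nat_lit 157) (nat_lit 1) (nat_lit 158) (nat_lit 1) (nat_lit 258) (nat_lit 430) (nat_lit 332)))) (XT.nd (nat_lit 78) (nat_lit 76) (nat_lit 0) (XT.lf (nat_lit 152) (nat_lit 46488001857) (nat_lit 0) (nat_lit 2811435760) (nat_lit 76) (nat_lit 2811435760) (nat_lit 157) (nat_lit 1) (nat_lit 155) (nat_lit 1) (nat_lit 156) (nat_lit 1) (nat_lit 259) (nat_lit 430) (nat_lit 331)) (XT.nd (nat_lit 78) (nat_lit 76) (nat_lit 0) (XT.lf (nat_lit 0) (nat_lit 14449778570) (nat_lit 0) (nat_lit 22354949415) (nat_lit 152) (nat_lit 14449778570) (nat_lit 155) (nat_lit 3) (nat_lit 155) (nat_lit 1) (nat_lit 157) (nat_lit 1) (nat_lit 260) (nat_lit 430) (nat_lit 330)) (XT.lf (nat_lit 76) (nat_lit 11788093709) (nat_lit 0) (nat_lit 19316827848)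 (nat_lit 76) (nat_lit 19316827848) (nat_lit 155) (nat_lit 3) (nat_lit 154) (nat_lit 1) (nat_lit 155) (nat_lit 1) (nat_lit 261) (nat_lit 430) (nat_lit 329))))) (XT.nd (nat_lit 234) (nat_lit 380) (nat_lit 0) (XT.nd (nat_lit 78) (nat_lit 76) (nat_lit 0) (XT.lf (nat_lit 152) (nat_lit 44986091819) (nat_lit 0) (nat_lit 2312975157) (nat_lit 76) (nat_lit 2312975157) (nat_lit 154) (nat_lit 1) (nat_lit 152) (nat_lit 1) (nat_lit 153) (nat_lit 1) (nat_lit 262) (nat_lit 430) (nat_lit 328)) (XT.nd (nat_lit 78) (nat_lit 76) (nat_lit 0) (XT.lf (nat_lit 0) (nat_lit 14097802243) (nat_lit 0) (nat_lit 20601405861) (nat_lit 152) (nat_lit 14097802243) (nat_lit 152) (nat_lit 3) (nat_lit 152) (nat_lit 1) (nat_lit 154) (nat_lit 1) (nat_lit 263) (nat_lit 430) (nat_lit 327)) (XT.lf (nat_lit 76) (nat_lit 11872383430) (nat_lit 0) (nat_lit 18066291638) (nat_lit 76) (nat_lit 18066291638) (nat_lit 152) (nat_lit 3) (nat_lit 151)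 (nat_lit 1) (nat_lit 152) (nat_lit 1) (nat_lit 264) (nat_lit 430) (nat_lit 326)))) (XT.nd (nat_lit 156) (nat_lit 228) (nat_lit 0) (XT.nd (nat_lit 78) (nat_lit 0) (nat_lit 0) (XT.lf (nat_lit 152) (nat_lit 43429500161) (nat_lit 0) (nat_lit 1902890386) (nat_lit 76) (nat_lit 1902890386) (nat_lit 151) (nat_lit 1) (nat_lit 149) (nat_lit 1) (nat_lit 150) (nat_lit 1) (nat_lit 265) (nat_lit 430) (nat_lit 325)) (XT.lf (nat_lit 0) (nat_lit 13702995512) (nat_lit 0) (nat_lit 19053526304) (nat_lit 152) (nat_lit 13702995512) (nat_lit 149) (nat_lit 3) (nat_lit 149) (nat_lit 1) (nat_lit 151) (nat_lit 1) (nat_lit 266) (nat_lit 430) (nat_lit 324))) (XT.nd (nat_lit 78) (nat_lit 152) (nat_lit 0) (XT.lf (nat_lit 76) (nat_lit 11838191194) (nat_lit 0) (nat_lit 16933934805) (nat_lit 76) (nat_lit 16933934805) (nat_lit 149) (nat_lit 3) (nat_lit 148) (nat_lit 1) (nat_lit 149) (nat_lit 1) (nat_lit 267) (nat_lit 430) (nat_lit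 323)) (XT.lf (nat_lit 152) (nat_lit 41843205918) (nat_lit 0) (nat_lit 1565512630) (nat_lit 76) (nat_lit 1565512630) (nat_lit 148) (nat_lit 1) (nat_lit 146) (nat_lit 1) (nat_lit 147) (nat_lit 1) (nat_lit 268) (nat_lit 430) (nat_lit 322))))))))
noncomputable def ec407 : XT := (XT.nd (nat_lit 1950) (nat_lit 2052) (nat_lit 0) (XT.nd (nat_lit 936) (nat_lit 912) (nat_lit 0) (XT.nd (nat_lit 468) (nat_lit 456) (nat_lit 0) (XT.nd (nat_lit 234) (nat_lit 228) (nat_lit 0) (XT.nd (nat_lit 78) (nat_lit 228) (nat_lit 0) (XT.lf (nat_lit 0) (nat_lit 13277963289) (nat_lit 0) (nat_lit 17679858213) (nat_lit 152) (nat_lit 13277963289) (nat_lit 146) (nat_lit 3) (nat_lit 146) (nat_lit 1) (nat_lit 148) (nat_lit 1) (nat_lit 269) (nat_lit 430) (nat_lit 321)) (XT.nd (nat_lit 78) (nat_lit 152) (nat_lit 0) (XT.lf (nat_lit 76) (nat_lit 11711453920) (nat_lit 0) (nat_lit 15903734800) (nat_lit 76) (nat_lit 15903734800) (nat_lit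 146) (nat_lit 3) (nat_lit 145) (nat_lit 1) (nat_lit 146) (nat_lit 1) (nat_lit 270) (nat_lit 430) (nat_lit 320)) (XT.lf (nat_lit 152) (nat_lit 40247031592) (nat_lit 0) (nat_lit 1287951115) (nat_lit 76) (nat_lit 1287951115) (nat_lit 145) (nat_lit 1) (nat_lit 143) (nat_lit 1) (nat_lit 144) (nat_lit 1) (nat_lit 271) (nat_lit 430) (nat_lit 319)))) (XT.nd (nat_lit 78) (nat_lit 228) (nat_lit 0) (XT.lf (nat_lit 0) (nat_lit 12832837039) (nat_lit 0) (nat_lit 16454286886) (nat_lit 152) (nat_lit 12832837039) (nat_lit 143) (nat_lit 3) (nat_lit 143) (nat_lit 1) (nat_lit 145) (nat_lit 1) (nat_lit 272) (nat_lit 430) (nat_lit 318)) (XT.nd (nat_lit 78) (nat_lit 152) (nat_lit 0) (XT.lf (nat_lit 76) (nat_lit 11513275198) (nat_lit 0) (nat_lit 14962275053) (nat_lit 76) (nat_lit 14962275053) (nat_lit 143) (nat_lit 3) (nat_lit 142) (nat_lit 1) (nat_lit 143) (nat_lit 1) (nat_lit 273) (nat_lit 430) (nat_lit 317)) (XT.lf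 (nat_lit 152) (nat_lit 38656592046) (nat_lit 0) (nat_lit 1059600569) (nat_lit 76) (nat_lit 1059600569) (nat_lit 142) (nat_lit 1) (nat_lit 140) (nat_lit 1) (nat_lit 141) (nat_lit 1) (nat_lit 274) (nat_lit 430) (nat_lit 316))))) (XT.nd (nat_lit 234) (nat_lit 228) (nat_lit 0) (XT.nd (nat_lit 78) (nat_lit 228) (nat_lit 0) (XT.lf (nat_lit 0) (nat_lit 12375724676) (nat_lit 0) (nat_lit 15355100428) (nat_lit 152) (nat_lit 12375724676) (nat_lit 140) (nat_lit 3) (nat_lit 140) (nat_lit 1) (nat_lit 142) (nat_lit 1) (nat_lit 275) (nat_lit 430) (nat_lit 315)) (XT.nd (nat_lit 78) (nat_lit 152) (nat_lit 0) (XT.lf (nat_lit 76) (nat_lit 11260793402) (nat_lit 0) (nat_lit 14098294118) (nat_lit 76) (nat_lit 14098294118) (nat_lit 140) (nat_lit 3) (nat_lit 139) (nat_lit 1) (nat_lit 140) (nat_lit 1) (nat_lit 276) (nat_lit 430) (nat_lit 314)) (XT.lf (nat_lit 152) (nat_lit 37084073517) (nat_lit 0) (nat_lit 871736011) (nat_lit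 76) (nat_lit 871736011) (nat_lit 139) (nat_lit 1) (nat_lit 137) (nat_lit 1) (nat_lit 138) (nat_lit 1) (nat_lit 277) (nat_lit 430) (nat_lit 313)))) (XT.nd (nat_lit 78) (nat_lit 228) (nat_lit 0) (XT.lf (nat_lit 0) (nat_lit 11913080162) (nat_lit 0) (nat_lit 14364219967) (nat_lit 152) (nat_lit 11913080162) (nat_lit 137) (nat_lit 3) (nat_lit 137) (nat_lit 1) (nat_lit 139) (nat_lit 1) (nat_lit 278) (nat_lit 430) (nat_lit 312)) (XT.nd (nat_lit 78) (nat_lit 152) (nat_lit 0) (XT.lf (nat_lit 76) (nat_lit 10967895366) (nat_lit 0) (nat_lit 13302314227) (nat_lit 76) (nat_lit 13302314227) (nat_lit 137) (nat_lit 3) (nat_lit 136) (nat_lit 1) (nat_lit 137) (nat_lit 1) (nat_lit 279) (nat_lit 430) (nat_lit 311)) (XT.lf (nat_lit 152) (nat_lit 35538872938) (nat_lit 0) (nat_lit 717179373) (nat_lit 76) (nat_lit 717179373) (nat_lit 136) (nat_lit 1) (nat_lit 134) (nat_lit 1) (nat_lit 135) (nat_lit 1) (nat_lit 280) (nat_lit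 430) (nat_lit 310)))))) (XT.nd (nat_lit 468) (nat_lit 456) (nat_lit 0) (XT.nd (nat_lit 234) (nat_lit 228) (nat_lit 0) (XT.nd (nat_lit 78) (nat_lit 228) (nat_lit 0) (XT.lf (nat_lit 0) (nat_lit 11450007050) (nat_lit 0) (nat_lit 13466565833) (nat_lit 152) (nat_lit 11450007050) (nat_lit 134) (nat_lit 3) (nat_lit 134) (nat_lit 1) (nat_lit 136) (nat_lit 1) (nat_lit 281) (nat_lit 430) (nat_lit 309)) (XT.nd (nat_lit 78) (nat_lit 152) (nat_lit 0) (XT.lf (nat_lit 76) (nat_lit 10645803009) (nat_lit 0) (nat_lit 12566335183) (nat_lit 76) (nat_lit 12566335183) (nat_lit 134) (nat_lit 3) (nat_lit 133) (nat_lit 1) (nat_lit 134) (nat_lit 1) (nat_lit 282) (nat_lit 430) (nat_lit 308)) (XT.lf (nat_lit 152) (nat_lit 34028122412) (nat_lit 0) (nat_lit 590025245) (nat_lit 76) (nat_lit 590025245) (nat_lit 133) (nat_lit 1) (nat_lit 131) (nat_lit 1) (nat_lit 132) (nat_lit 1) (nat_lit 283) (nat_lit 430) (nat_lit 307)))) (XT.nd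 (nat_lit 78) (nat_lit 228) (nat_lit 0) (XT.lf (nat_lit 0) (nat_lit 10990507725) (nat_lit 0) (nat_lit 12649535626) (nat_lit 152) (nat_lit 10990507725) (nat_lit 131) (nat_lit 3) (nat_lit 131) (nat_lit 1) (nat_lit 133) (nat_lit 1) (nat_lit 284) (nat_lit 430) (nat_lit 306)) (XT.nd (nat_lit 78) (nat_lit 152) (nat_lit 0) (XT.lf (nat_lit 76) (nat_lit 10303555480) (nat_lit 0) (nat_lit 11883582053) (nat_lit 76) (nat_lit 11883582053) (nat_lit 131) (nat_lit 3) (nat_lit 130) (nat_lit 1) (nat_lit 131) (nat_lit 1) (nat_lit 285) (nat_lit 430) (nat_lit 305)) (XT.lf (nat_lit 152) (nat_lit 32557119278) (nat_lit 0) (nat_lit 485415229) (nat_lit 76) (nat_lit 485415229) (nat_lit 130) (nat_lit 1) (nat_lit 128) (nat_lit 1) (nat_lit 129) (nat_lit 1) (nat_lit 286) (nat_lit 430) (nat_lit 304))))) (XT.nd (nat_lit 234) (nat_lit 228) (nat_lit 0) (XT.nd (nat_lit 78) (nat_lit 228) (nat_lit 0) (XT.lf (nat_lit 0) (nat_lit 10537687989)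 (nat_lit 0) (nat_lit 11902574349) (nat_lit 152) (nat_lit 10537687989) (nat_lit 128) (nat_lit 3) (nat_lit 128) (nat_lit 1) (nat_lit 130) (nat_lit 1) (nat_lit 287) (nat_lit 430) (nat_lit 303)) (XT.nd (nat_lit 78) (nat_lit 152) (nat_lit 0) (XT.lf (nat_lit 76) (nat_lit 9948405353) (nat_lit 0) (nat_lit 11248297125) (nat_lit 76) (nat_lit 11248297125) (nat_lit 128) (nat_lit 3) (nat_lit 127) (nat_lit 1) (nat_lit 128) (nat_lit 1) (nat_lit 288) (nat_lit 430) (nat_lit 302)) (XT.lf (nat_lit 152) (nat_lit 31129678562) (nat_lit 0) (nat_lit 399352310) (nat_lit 76) (nat_lit 399352310) (nat_lit 127) (nat_lit 1) (nat_lit 125) (nat_lit 1) (nat_lit 126) (nat_lit 1) (nat_lit 289) (nat_lit 430) (nat_lit 301)))) (XT.nd (nat_lit 156) (nat_lit 152) (nat_lit 0) (XT.nd (nat_lit 78) (nat_lit 76) (nat_lit 0) (XT.lf (nat_lit 0) (nat_lit 10093924924) (nat_lit 0) (nat_lit 11216820311) (nat_lit 152) (nat_lit 10093924924) (nat_lit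 125) (nat_lit 3) (nat_lit 125) (nat_lit 1) (nat_lit 127) (nat_lit 1) (nat_lit 290) (nat_lit 430) (nat_lit 300)) (XT.lf (nat_lit 76) (nat_lit 9586144142) (nat_lit 0) (nat_lit 10655568320) (nat_lit 76) (nat_lit 10655568320) (nat_lit 125) (nat_lit 3) (nat_lit 124) (nat_lit 1) (nat_lit 125) (nat_lit 1) (nat_lit 291) (nat_lit 430) (nat_lit 299))) (XT.nd (nat_lit 78) (nat_lit 0) (nat_lit 0) (XT.lf (nat_lit 152) (nat_lit 29748421649) (nat_lit 0) (nat_lit 328548134) (nat_lit 76) (nat_lit 328548134) (nat_lit 124) (nat_lit 1) (nat_lit 122) (nat_lit 1) (nat_lit 123) (nat_lit 1) (nat_lit 292) (nat_lit 430) (nat_lit 298)) (XT.lf (nat_lit 0) (nat_lit 9661004575) (nat_lit 0) (nat_lit 10584813388) (nat_lit 152) (nat_lit 9661004575) (nat_lit 122) (nat_lit 3) (nat_lit 122) (nat_lit 1) (nat_lit 124) (nat_lit 1) (nat_lit 293) (nat_lit 430) (nat_lit 297))))))) (XT.nd (nat_lit 1014) (nat_lit 1064) (nat_lit 0) (XT.nd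 (nat_lit 468) (nat_lit 532) (nat_lit 0) (XT.nd (nat_lit 234) (nat_lit 228) (nat_lit 0) (XT.nd (nat_lit 78) (nat_lit 152) (nat_lit 0) (XT.lf (nat_lit 76) (nat_lit 9221369689) (nat_lit 0) (nat_lit 10101187607) (nat_lit 76) (nat_lit 10101187607) (nat_lit 122) (nat_lit 3) (nat_lit 121) (nat_lit 1) (nat_lit 122) (nat_lit 1) (nat_lit 294) (nat_lit 430) (nat_lit 296)) (XT.nd (nat_lit 78) (nat_lit 0) (nat_lit 0) (XT.lf (nat_lit 152) (nat_lit 28415012546) (nat_lit 0) (nat_lit 270297363) (nat_lit 76) (nat_lit 270297363) (nat_lit 121) (nat_lit 1) (nat_lit 119) (nat_lit 1) (nat_lit 120) (nat_lit 1) (nat_lit 295) (nat_lit 430) (nat_lit 295)) (XT.lf (nat_lit 0) (nat_lit 9240234810) (nat_lit 0) (nat_lit 10000254607) (nat_lit 152) (nat_lit 9240234810) (nat_lit 119) (nat_lit 3) (nat_lit 119) (nat_lit 1) (nat_lit 121) (nat_lit 1) (nat_lit 296) (nat_lit 430) (nat_lit 294)))) (XT.nd (nat_lit 78) (nat_lit 152) (nat_lit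 0) (XT.lf (nat_lit 76) (nat_lit 8857705740) (nat_lit 0) (nat_lit 9581534118) (nat_lit 76) (nat_lit 9581534118) (nat_lit 119) (nat_lit 3) (nat_lit 118) (nat_lit 1) (nat_lit 119) (nat_lit 1) (nat_lit 297) (nat_lit 430) (nat_lit 293)) (XT.nd (nat_lit 78) (nat_lit 0) (nat_lit 0) (XT.lf (nat_lit 152) (nat_lit 27130351081) (nat_lit 0) (nat_lit 222374309) (nat_lit 76) (nat_lit 222374309) (nat_lit 118) (nat_lit 1) (nat_lit 116) (nat_lit 1) (nat_lit 117) (nat_lit 1) (nat_lit 298) (nat_lit 430) (nat_lit 292)) (XT.lf (nat_lit 0) (nat_lit 8832537796) (nat_lit 0) (nat_lit 9457807964) (nat_lit 152) (nat_lit 8832537796) (nat_lit 116) (nat_lit 3) (nat_lit 116) (nat_lit 1) (nat_lit 118) (nat_lit 1) (nat_lit 299) (nat_lit 430) (nat_lit 291))))) (XT.nd (nat_lit 234) (nat_lit 304) (nat_lit 0) (XT.nd (nat_lit 78) (nat_lit 152) (nat_lit 0) (XT.lf (nat_lit 76) (nat_lit 8497982219) (nat_lit 0) (nat_lit 9093477617) (nat_lit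 76) (nat_lit 9093477617) (nat_lit 116) (nat_lit 3) (nat_lit 115) (nat_lit 1) (nat_lit 116) (nat_lit 1) (nat_lit 300) (nat_lit 430) (nat_lit 290)) (XT.nd (nat_lit 78) (nat_lit 0) (nat_lit 0) (XT.lf (nat_lit 152) (nat_lit 25894730726) (nat_lit 0) (nat_lit 182947894) (nat_lit 76) (nat_lit 182947894) (nat_lit 115) (nat_lit 1) (nat_lit 113) (nat_lit 1) (nat_lit 114) (nat_lit 1) (nat_lit 301) (nat_lit 430) (nat_lit 289)) (XT.lf (nat_lit 0) (nat_lit 8438525704) (nat_lit 0) (nat_lit 8952937018) (nat_lit 152) (nat_lit 8438525704) (nat_lit 113) (nat_lit 3) (nat_lit 113) (nat_lit 1) (nat_lit 115) (nat_lit 1) (nat_lit 302) (nat_lit 430) (nat_lit 288)))) (XT.nd (nat_lit 156) (nat_lit 76) (nat_lit 0) (XT.nd (nat_lit 78) (nat_lit 152) (nat_lit 0) (XT.lf (nat_lit 76) (nat_lit 8144383180) (nat_lit 0) (nat_lit 8634298718) (nat_lit 76) (nat_lit 8634298718) (nat_lit 113) (nat_lit 3) (nat_lit 112) (nat_lit 1) (nat_lit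 113) (nat_lit 1) (nat_lit 303) (nat_lit 430) (nat_lit 287)) (XT.lf (nat_lit 152) (nat_lit 24707967386) (nat_lit 0) (nat_lit 150511685) (nat_lit 76) (nat_lit 150511685) (nat_lit 112) (nat_lit 1) (nat_lit 110) (nat_lit 1) (nat_lit 111) (nat_lit 1) (nat_lit 304) (nat_lit 430) (nat_lit 286))) (XT.nd (nat_lit 78) (nat_lit 76) (nat_lit 0) (XT.lf (nat_lit 0) (nat_lit 8058562647) (nat_lit 0) (nat_lit 8481770108) (nat_lit 152) (nat_lit 8058562647) (nat_lit 110) (nat_lit 3) (nat_lit 110) (nat_lit 1) (nat_lit 112) (nat_lit 1) (nat_lit 305) (nat_lit 430) (nat_lit 285)) (XT.lf (nat_lit 76) (nat_lit 7798568176) (nat_lit 0) (nat_lit 8201622902) (nat_lit 76) (nat_lit 8201622902) (nat_lit 110) (nat_lit 3) (nat_lit 109) (nat_lit 1) (nat_lit 110) (nat_lit 1) (nat_lit 306) (nat_lit 430) (nat_lit 284)))))) (XT.nd (nat_lit 468) (nat_lit 608) (nat_lit 0) (XT.nd (nat_lit 234) (nat_lit 228) (nat_lit 0) (XT.nd (nat_lit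 78) (nat_lit 76) (nat_lit 0) (XT.lf (nat_lit 152) (nat_lit 23569504329) (nat_lit 0) (nat_lit 123826336) (nat_lit 76) (nat_lit 123826336) (nat_lit 109) (nat_lit 1) (nat_lit 107) (nat_lit 1) (nat_lit 108) (nat_lit 1) (nat_lit 307) (nat_lit 430) (nat_lit 283)) (XT.nd (nat_lit 78) (nat_lit 76) (nat_lit 0) (XT.lf (nat_lit 0) (nat_lit 7692815306) (nat_lit 0) (nat_lit 8040989132) (nat_lit 152) (nat_lit 7692815306) (nat_lit 107) (nat_lit 3) (nat_lit 107) (nat_lit 1) (nat_lit 109) (nat_lit 1) (nat_lit 308) (nat_lit 430) (nat_lit 282)) (XT.lf (nat_lit 76) (nat_lit 7461771794) (nat_lit 0) (nat_lit 7793365914) (nat_lit 76) (nat_lit 7793365914) (nat_lit 107) (nat_lit 3) (nat_lit 106) (nat_lit 1) (nat_lit 107) (nat_lit 1) (nat_lit 309) (nat_lit 430) (nat_lit 281)))) (XT.nd (nat_lit 78) (nat_lit 76) (nat_lit 0) (XT.lf (nat_lit 152) (nat_lit 22478497553) (nat_lit 0) (nat_lit 101872233) (nat_lit 76) (nat_lit 101872233)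 (nat_lit 106) (nat_lit 1) (nat_lit 104) (nat_lit 1) (nat_lit 105) (nat_lit 1) (nat_lit 310) (nat_lit 430) (nat_lit 280)) (XT.nd (nat_lit 78) (nat_lit 76) (nat_lit 0) (XT.lf (nat_lit 0) (nat_lit 7341294260) (nat_lit 0) (nat_lit 7627737728) (nat_lit 152) (nat_lit 7341294260) (nat_lit 104) (nat_lit 3) (nat_lit 104) (nat_lit 1) (nat_lit 106) (nat_lit 1) (nat_lit 311) (nat_lit 430) (nat_lit 279)) (XT.lf (nat_lit 76) (nat_lit 7134885222) (nat_lit 0) (nat_lit 7407688525) (nat_lit 76) (nat_lit 7407688525) (nat_lit 104) (nat_lit 3) (nat_lit 103) (nat_lit 1) (nat_lit 104) (nat_lit 1) (nat_lit 312) (nat_lit 430) (nat_lit 278))))) (XT.nd (nat_lit 234) (nat_lit 380) (nat_lit 0) (XT.nd (nat_lit 78) (nat_lit 76) (nat_lit 0) (XT.lf (nat_lit 152) (nat_lit 21433885102) (nat_lit 0) (nat_lit 83810538) (nat_lit 76) (nat_lit 83810538) (nat_lit 103) (nat_lit 1) (nat_lit 101) (nat_lit 1) (nat_lit 102) (nat_lit 1) (nat_lit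 313) (nat_lit 430) (nat_lit 277)) (XT.nd (nat_lit 78) (nat_lit 76) (nat_lit 0) (XT.lf (nat_lit 0) (nat_lit 7003887689) (nat_lit 0) (nat_lit 7239545439) (nat_lit 152) (nat_lit 7003887689) (nat_lit 101) (nat_lit 3) (nat_lit 101) (nat_lit 1) (nat_lit 103) (nat_lit 1) (nat_lit 314) (nat_lit 430) (nat_lit 276)) (XT.lf (nat_lit 76) (nat_lit 6818523064) (nat_lit 0) (nat_lit 7042959016) (nat_lit 76) (nat_lit 7042959016) (nat_lit 101) (nat_lit 3) (nat_lit 100) (nat_lit 1) (nat_lit 101) (nat_lit 1) (nat_lit 315) (nat_lit 430) (nat_lit 275)))) (XT.nd (nat_lit 156) (nat_lit 228) (nat_lit 0) (XT.nd (nat_lit 78) (nat_lit 0) (nat_lit 0) (XT.lf (nat_lit 152) (nat_lit 20434443209) (nat_lit 0) (nat_lit 68951137) (nat_lit 76) (nat_lit 68951137) (nat_lit 100) (nat_lit 1) (nat_lit 98) (nat_lit 1) (nat_lit 99) (nat_lit 1) (nat_lit 316) (nat_lit 430) (nat_lit 274)) (XT.lf (nat_lit 0) (nat_lit 6680388813) (nat_lit 0)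 (nat_lit 6874265028) (nat_lit 152) (nat_lit 6680388813) (nat_lit 98) (nat_lit 3) (nat_lit 98) (nat_lit 1) (nat_lit 100) (nat_lit 1) (nat_lit 317) (nat_lit 430) (nat_lit 273))) (XT.nd (nat_lit 78) (nat_lit 152) (nat_lit 0) (XT.lf (nat_lit 76) (nat_lit 6513078022) (nat_lit 0) (nat_lit 6697722035) (nat_lit 76) (nat_lit 6697722035) (nat_lit 98) (nat_lit 3) (nat_lit 97) (nat_lit 1) (nat_lit 98) (nat_lit 1) (nat_lit 318) (nat_lit 430) (nat_lit 272)) (XT.lf (nat_lit 152) (nat_lit 19478831657) (nat_lit 0) (nat_lit 56726271) (nat_lit 76) (nat_lit 56726271) (nat_lit 97) (nat_lit 1) (nat_lit 95) (nat_lit 1) (nat_lit 96) (nat_lit 1) (nat_lit 319) (nat_lit 430) (nat_lit 271))))))))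
noncomputable def ec408 : XT := (XT.nd (nat_lit 1950) (nat_lit 1900) (nat_lit 0) (XT.nd (nat_lit 936) (nat_lit 912) (nat_lit 0) (XT.nd (nat_lit 468) (nat_lit 456) (nat_lit 0) (XT.nd (nat_lit 234) (nat_lit 228) (nat_lit 0) (XT.nd (nat_lit 78) (nat_lit 228) (nat_lit 0) (XT.lf (nat_lit 0) (nat_lit 6370518199) (nat_lit 0) (nat_lit 6530020640) (nat_lit 152) (nat_lit 6370518199) (nat_lit 95) (nat_lit 3) (nat_lit 95) (nat_lit 1) (nat_lit 97) (nat_lit 1) (nat_lit 320) (nat_lit 430) (nat_lit 270)) (XT.nd (nat_lit 78) (nat_lit 152) (nat_lit 0) (XT.lf (nat_lit 76) (nat_lit 6218765619) (nat_lit 0) (nat_lit 6370672706) (nat_lit 76) (nat_lit 6370672706) (nat_lit 95) (nat_lit 3) (nat_lit 94) (nat_lit 1) (nat_lit 95) (nat_lit 1) (nat_lit 321) (nat_lit 430) (nat_lit 269)) (XT.lf (nat_lit 152) (nat_lit 18565630304) (nat_lit 0) (nat_lit 46668843) (nat_lit 76) (nat_lit 46668843) (nat_lit 94) (nat_lit 1) (nat_lit 92)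 (nat_lit 1) (nat_lit 93) (nat_lit 1) (nat_lit 322) (nat_lit 430) (nat_lit 268)))) (XT.nd (nat_lit 78) (nat_lit 228) (nat_lit 0) (XT.lf (nat_lit 0) (nat_lit 6073941840) (nat_lit 0) (nat_lit 6205164893) (nat_lit 152) (nat_lit 6073941840) (nat_lit 92) (nat_lit 3) (nat_lit 92) (nat_lit 1) (nat_lit 94) (nat_lit 1) (nat_lit 323) (nat_lit 430) (nat_lit 267)) (XT.nd (nat_lit 78) (nat_lit 152) (nat_lit 0) (XT.lf (nat_lit 76) (nat_lit 5935660734) (nat_lit 0) (nat_lit 6060635070) (nat_lit 76) (nat_lit 6060635070) (nat_lit 92) (nat_lit 3) (nat_lit 91) (nat_lit 1) (nat_lit 92) (nat_lit 1) (nat_lit 324) (nat_lit 430) (nat_lit 266)) (XT.lf (nat_lit 152) (nat_lit 17693368372) (nat_lit 0) (nat_lit 38394573) (nat_lit 76) (nat_lit 38394573) (nat_lit 91) (nat_lit 1) (nat_lit 89) (nat_lit 1) (nat_lit 90) (nat_lit 1) (nat_lit 325) (nat_lit 430) (nat_lit 265))))) (XT.nd (nat_lit 234) (nat_lit 228) (nat_lit 0) (XT.nd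 (nat_lit 78) (nat_lit 228) (nat_lit 0) (XT.lf (nat_lit 0) (nat_lit 5790285795) (nat_lit 0) (nat_lit 5898243325) (nat_lit 152) (nat_lit 5790285795) (nat_lit 89) (nat_lit 3) (nat_lit 89) (nat_lit 1) (nat_lit 91) (nat_lit 1) (nat_lit 326) (nat_lit 430) (nat_lit 264)) (XT.nd (nat_lit 78) (nat_lit 152) (nat_lit 0) (XT.lf (nat_lit 76) (nat_lit 5663727412) (nat_lit 0) (nat_lit 5766544108) (nat_lit 76) (nat_lit 5766544108) (nat_lit 89) (nat_lit 3) (nat_lit 88) (nat_lit 1) (nat_lit 89) (nat_lit 1) (nat_lit 327) (nat_lit 430) (nat_lit 263)) (XT.lf (nat_lit 152) (nat_lit 16860547827) (nat_lit 0) (nat_lit 31587310) (nat_lit 76) (nat_lit 31587310) (nat_lit 88) (nat_lit 1) (nat_lit 86) (nat_lit 1) (nat_lit 87) (nat_lit 1) (nat_lit 328) (nat_lit 430) (nat_lit 262)))) (XT.nd (nat_lit 78) (nat_lit 228) (nat_lit 0) (XT.lf (nat_lit 0) (nat_lit 5519147988) (nat_lit 0) (nat_lit 5607964915) (nat_lit 152) (nat_lit 5519147988)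 (nat_lit 86) (nat_lit 3) (nat_lit 86) (nat_lit 1) (nat_lit 88) (nat_lit 1) (nat_lit 329) (nat_lit 430) (nat_lit 261)) (XT.nd (nat_lit 78) (nat_lit 152) (nat_lit 0) (XT.lf (nat_lit 76) (nat_lit 5402843165) (nat_lit 0) (nat_lit 5487430715) (nat_lit 76) (nat_lit 5487430715) (nat_lit 86) (nat_lit 3) (nat_lit 85) (nat_lit 1) (nat_lit 86) (nat_lit 1) (nat_lit 330) (nat_lit 430) (nat_lit 260)) (XT.lf (nat_lit 152) (nat_lit 16065661929) (nat_lit 0) (nat_lit 25986958) (nat_lit 76) (nat_lit 25986958) (nat_lit 85) (nat_lit 1) (nat_lit 83) (nat_lit 1) (nat_lit 84) (nat_lit 1) (nat_lit 331) (nat_lit 430) (nat_lit 259)))))) (XT.nd (nat_lit 468) (nat_lit 456) (nat_lit 0) (XT.nd (nat_lit 234) (nat_lit 228) (nat_lit 0) (XT.nd (nat_lit 78) (nat_lit 228) (nat_lit 0) (XT.lf (nat_lit 0) (nat_lit 5260107693) (nat_lit 0) (nat_lit 5333177600) (nat_lit 152) (nat_lit 5260107693) (nat_lit 83) (nat_lit 3) (nat_lit 83) (nat_lit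 1) (nat_lit 85) (nat_lit 1) (nat_lit 332) (nat_lit 430) (nat_lit 258)) (XT.nd (nat_lit 78) (nat_lit 152) (nat_lit 0) (XT.lf (nat_lit 76) (nat_lit 5152818735) (nat_lit 0) (nat_lit 5222409122) (nat_lit 76) (nat_lit 5222409122) (nat_lit 83) (nat_lit 3) (nat_lit 82) (nat_lit 1) (nat_lit 83) (nat_lit 1) (nat_lit 333) (nat_lit 430) (nat_lit 257)) (XT.lf (nat_lit 152) (nat_lit 15307209833) (nat_lit 0) (nat_lit 21379535) (nat_lit 76) (nat_lit 21379535) (nat_lit 82) (nat_lit 1) (nat_lit 80) (nat_lit 1) (nat_lit 81) (nat_lit 1) (nat_lit 334) (nat_lit 430) (nat_lit 256)))) (XT.nd (nat_lit 78) (nat_lit 228) (nat_lit 0) (XT.lf (nat_lit 0) (nat_lit 5012733127) (nat_lit 0) (nat_lit 5072847919) (nat_lit 152) (nat_lit 5012733127) (nat_lit 80) (nat_lit 3) (nat_lit 80) (nat_lit 1) (nat_lit 82) (nat_lit 1) (nat_lit 335) (nat_lit 430) (nat_lit 255)) (XT.nd (nat_lit 78) (nat_lit 152) (nat_lit 0) (XT.lf (nat_lit 76)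 (nat_lit 4913414146) (nat_lit 0) (nat_lit 4970666330) (nat_lit 76) (nat_lit 4970666330) (nat_lit 80) (nat_lit 3) (nat_lit 79) (nat_lit 1) (nat_lit 80) (nat_lit 1) (nat_lit 336) (nat_lit 430) (nat_lit 254)) (XT.lf (nat_lit 152) (nat_lit 14583707988) (nat_lit 0) (nat_lit 17588996) (nat_lit 76) (nat_lit 17588996) (nat_lit 79) (nat_lit 1) (nat_lit 77) (nat_lit 1) (nat_lit 78) (nat_lit 1) (nat_lit 337) (nat_lit 430) (nat_lit 253))))) (XT.nd (nat_lit 234) (nat_lit 228) (nat_lit 0) (XT.nd (nat_lit 78) (nat_lit 228) (nat_lit 0) (XT.lf (nat_lit 0) (nat_lit 4776587482) (nat_lit 0) (nat_lit 4826044071) (nat_lit 152) (nat_lit 4776587482) (nat_lit 77) (nat_lit 3) (nat_lit 77) (nat_lit 1) (nat_lit 79) (nat_lit 1) (nat_lit 338) (nat_lit 430) (nat_lit 252)) (XT.nd (nat_lit 78) (nat_lit 152) (nat_lit 0) (XT.lf (nat_lit 76) (nat_lit 4684351712) (nat_lit 0) (nat_lit 4731453225) (nat_lit 76) (nat_lit 4731453225) (nat_lit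 77) (nat_lit 3) (nat_lit 76) (nat_lit 1) (nat_lit 77) (nat_lit 1) (nat_lit 339) (nat_lit 430) (nat_lit 251)) (XT.lf (nat_lit 152) (nat_lit 13893698917) (nat_lit 0) (nat_lit 14470510) (nat_lit 76) (nat_lit 14470510) (nat_lit 76) (nat_lit 1) (nat_lit 74) (nat_lit 1) (nat_lit 75) (nat_lit 1) (nat_lit 340) (nat_lit 430) (nat_lit 250)))) (XT.nd (nat_lit 156) (nat_lit 152) (nat_lit 0) (XT.nd (nat_lit 78) (nat_lit 76) (nat_lit 0) (XT.lf (nat_lit 0) (nat_lit 4551233707) (nat_lit 0) (nat_lit 4591921765) (nat_lit 152) (nat_lit 4551233707) (nat_lit 74) (nat_lit 3) (nat_lit 74) (nat_lit 1) (nat_lit 76) (nat_lit 1) (nat_lit 341) (nat_lit 430) (nat_lit 249)) (XT.lf (nat_lit 76) (nat_lit 4465326541) (nat_lit 0) (nat_lit 4504077072) (nat_lit 76) (nat_lit 4504077072) (nat_lit 74) (nat_lit 3) (nat_lit 73) (nat_lit 1) (nat_lit 74) (nat_lit 1) (nat_lit 342) (nat_lit 430) (nat_lit 248))) (XT.nd (nat_lit 78) (nat_lit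 0) (nat_lit 0) (XT.lf (nat_lit 152) (nat_lit 13235757876) (nat_lit 0) (nat_lit 11904925) (nat_lit 76) (nat_lit 11904925) (nat_lit 73) (nat_lit 1) (nat_lit 71) (nat_lit 1) (nat_lit 72) (nat_lit 1) (nat_lit 343) (nat_lit 430) (nat_lit 247)) (XT.lf (nat_lit 0) (nat_lit 4336238249) (nat_lit 0) (nat_lit 4369712415) (nat_lit 152) (nat_lit 4336238249) (nat_lit 71) (nat_lit 3) (nat_lit 71) (nat_lit 1) (nat_lit 73) (nat_lit 1) (nat_lit 344) (nat_lit 430) (nat_lit 246))))))) (XT.nd (nat_lit 936) (nat_lit 988) (nat_lit 0) (XT.nd (nat_lit 468) (nat_lit 456) (nat_lit 0) (XT.nd (nat_lit 234) (nat_lit 228) (nat_lit 0) (XT.nd (nat_lit 78) (nat_lit 152) (nat_lit 0) (XT.lf (nat_lit 76) (nat_lit 4256015000) (nat_lit 0) (nat_lit 4287895158) (nat_lit 76) (nat_lit 4287895158) (nat_lit 71) (nat_lit 3) (nat_lit 70) (nat_lit 1) (nat_lit 71) (nat_lit 1) (nat_lit 345) (nat_lit 430) (nat_lit 245)) (XT.nd (nat_lit 78) (nat_lit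 0) (nat_lit 0) (XT.lf (nat_lit 152) (nat_lit 12608497802) (nat_lit 0) (nat_lit 9794211) (nat_lit 76) (nat_lit 9794211) (nat_lit 70) (nat_lit 1) (nat_lit 68) (nat_lit 1) (nat_lit 69) (nat_lit 1) (nat_lit 346) (nat_lit 430) (nat_lit 244)) (XT.lf (nat_lit 0) (nat_lit 4131173952) (nat_lit 0) (nat_lit 4158713231) (nat_lit 152) (nat_lit 4131173952) (nat_lit 68) (nat_lit 3) (nat_lit 68) (nat_lit 1) (nat_lit 70) (nat_lit 1) (nat_lit 347) (nat_lit 430) (nat_lit 243)))) (XT.nd (nat_lit 78) (nat_lit 152) (nat_lit 0) (XT.lf (nat_lit 76) (nat_lit 4056081506) (nat_lit 0) (nat_lit 4082309391) (nat_lit 76) (nat_lit 4082309391) (nat_lit 68) (nat_lit 3) (nat_lit 67) (nat_lit 1) (nat_lit 68) (nat_lit 1) (nat_lit 348) (nat_lit 430) (nat_lit 242)) (XT.nd (nat_lit 78) (nat_lit 0) (nat_lit 0) (XT.lf (nat_lit 152) (nat_lit 12010572861) (nat_lit 0) (nat_lit 8057721) (nat_lit 76) (nat_lit 8057721) (nat_lit 67) (nat_lit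 1) (nat_lit 65) (nat_lit 1) (nat_lit 66) (nat_lit 1) (nat_lit 349) (nat_lit 430) (nat_lit 241)) (XT.lf (nat_lit 0) (nat_lit 3935622285) (nat_lit 0) (nat_lit 3958278918) (nat_lit 152) (nat_lit 3935622285) (nat_lit 65) (nat_lit 3) (nat_lit 65) (nat_lit 1) (nat_lit 67) (nat_lit 1) (nat_lit 350) (nat_lit 430) (nat_lit 240))))) (XT.nd (nat_lit 234) (nat_lit 228) (nat_lit 0) (XT.nd (nat_lit 78) (nat_lit 152) (nat_lit 0) (XT.lf (nat_lit 76) (nat_lit 3865183943) (nat_lit 0) (nat_lit 3886761689) (nat_lit 76) (nat_lit 3886761689) (nat_lit 65) (nat_lit 3) (nat_lit 64) (nat_lit 1) (nat_lit 65) (nat_lit 1) (nat_lit 351) (nat_lit 430) (nat_lit 239)) (XT.nd (nat_lit 78) (nat_lit 0) (nat_lit 0) (XT.lf (nat_lit 152) (nat_lit 11440680888) (nat_lit 0) (nat_lit 6629107) (nat_lit 76) (nat_lit 6629107) (nat_lit 64) (nat_lit 1) (nat_lit 62) (nat_lit 1) (nat_lit 63) (nat_lit 1) (nat_lit 352) (nat_lit 430) (nat_lit 238))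 (XT.lf (nat_lit 0) (nat_lit 3749175004) (nat_lit 0) (nat_lit 3767814672) (nat_lit 152) (nat_lit 3749175004) (nat_lit 62) (nat_lit 3) (nat_lit 62) (nat_lit 1) (nat_lit 64) (nat_lit 1) (nat_lit 353) (nat_lit 430) (nat_lit 237)))) (XT.nd (nat_lit 78) (nat_lit 152) (nat_lit 0) (XT.lf (nat_lit 76) (nat_lit 3682977967) (nat_lit 0) (nat_lit 3700730032) (nat_lit 76) (nat_lit 3700730032) (nat_lit 62) (nat_lit 3) (nat_lit 61) (nat_lit 1) (nat_lit 62) (nat_lit 1) (nat_lit 354) (nat_lit 430) (nat_lit 236)) (XT.nd (nat_lit 78) (nat_lit 0) (nat_lit 0) (XT.lf (nat_lit 152) (nat_lit 10897564929) (nat_lit 0) (nat_lit 5453783) (nat_lit 76) (nat_lit 5453783) (nat_lit 61) (nat_lit 1) (nat_lit 59) (nat_lit 1) (nat_lit 60) (nat_lit 1) (nat_lit 355) (nat_lit 430) (nat_lit 235)) (XT.lf (nat_lit 0) (nat_lit 3571435374) (nat_lit 0) (nat_lit 3586770275) (nat_lit 152) (nat_lit 3571435374) (nat_lit 59) (nat_lit 3) (nat_lit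 59) (nat_lit 1) (nat_lit 61) (nat_lit 1) (nat_lit 356) (nat_lit 430) (nat_lit 234)))))) (XT.nd (nat_lit 468) (nat_lit 532) (nat_lit 0) (XT.nd (nat_lit 234) (nat_lit 228) (nat_lit 0) (XT.nd (nat_lit 78) (nat_lit 152) (nat_lit 0) (XT.lf (nat_lit 76) (nat_lit 3509120394) (nat_lit 0) (nat_lit 3523725062) (nat_lit 76) (nat_lit 3523725062) (nat_lit 59) (nat_lit 3) (nat_lit 58) (nat_lit 1) (nat_lit 59) (nat_lit 1) (nat_lit 357) (nat_lit 430) (nat_lit 233)) (XT.nd (nat_lit 78) (nat_lit 0) (nat_lit 0) (XT.lf (nat_lit 152) (nat_lit 10380014065) (nat_lit 0) (nat_lit 4486841) (nat_lit 76) (nat_lit 4486841) (nat_lit 58) (nat_lit 1) (nat_lit 56) (nat_lit 1) (nat_lit 57) (nat_lit 1) (nat_lit 358) (nat_lit 430) (nat_lit 232)) (XT.lf (nat_lit 0) (nat_lit 3402019025) (nat_lit 0) (nat_lit 3414635086) (nat_lit 152) (nat_lit 3402019025) (nat_lit 56) (nat_lit 3) (nat_lit 56) (nat_lit 1) (nat_lit 58) (nat_lit 1) (nat_lit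 359) (nat_lit 430) (nat_lit 231)))) (XT.nd (nat_lit 78) (nat_lit 152) (nat_lit 0) (XT.lf (nat_lit 76) (nat_lit 3343271848) (nat_lit 0) (nat_lit 3355287144) (nat_lit 76) (nat_lit 3355287144) (nat_lit 56) (nat_lit 3) (nat_lit 55) (nat_lit 1) (nat_lit 56) (nat_lit 1) (nat_lit 360) (nat_lit 430) (nat_lit 230)) (XT.nd (nat_lit 78) (nat_lit 0) (nat_lit 0) (XT.lf (nat_lit 152) (nat_lit 9886863667) (nat_lit 0) (nat_lit 3691335) (nat_lit 76) (nat_lit 3691335) (nat_lit 55) (nat_lit 1) (nat_lit 53) (nat_lit 1) (nat_lit 54) (nat_lit 1) (nat_lit 361) (nat_lit 430) (nat_lit 229)) (XT.lf (nat_lit 0) (nat_lit 3240554523) (nat_lit 0) (nat_lit 3250933787) (nat_lit 152) (nat_lit 3240554523) (nat_lit 53) (nat_lit 3) (nat_lit 53) (nat_lit 1) (nat_lit 55) (nat_lit 1) (nat_lit 362) (nat_lit 430) (nat_lit 228))))) (XT.nd (nat_lit 234) (nat_lit 304) (nat_lit 0) (XT.nd (nat_lit 78) (nat_lit 152) (nat_lit 0) (XT.lf (nat_lit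 76) (nat_lit 3185098800) (nat_lit 0) (nat_lit 3194983814) (nat_lit 76) (nat_lit 3194983814) (nat_lit 53) (nat_lit 3) (nat_lit 52) (nat_lit 1) (nat_lit 53) (nat_lit 1) (nat_lit 363) (nat_lit 430) (nat_lit 227)) (XT.nd (nat_lit 78) (nat_lit 0) (nat_lit 0) (XT.lf (nat_lit 152) (nat_lit 9416995214) (nat_lit 0) (nat_lit 3036870) (nat_lit 76) (nat_lit 3036870) (nat_lit 52) (nat_lit 1) (nat_lit 50) (nat_lit 1) (nat_lit 51) (nat_lit 1) (nat_lit 364) (nat_lit 430) (nat_lit 226)) (XT.lf (nat_lit 0) (nat_lit 3086683703) (nat_lit 0) (nat_lit 3095222750) (nat_lit 152) (nat_lit 3086683703) (nat_lit 50) (nat_lit 3) (nat_lit 50) (nat_lit 1) (nat_lit 52) (nat_lit 1) (nat_lit 365) (nat_lit 430) (nat_lit 225)))) (XT.nd (nat_lit 156) (nat_lit 76) (nat_lit 0) (XT.nd (nat_lit 78) (nat_lit 152) (nat_lit 0) (XT.lf (nat_lit 76) (nat_lit 3034275119) (nat_lit 0) (nat_lit 3042407545) (nat_lit 76) (nat_lit 3042407545) (nat_lit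 50) (nat_lit 3) (nat_lit 49) (nat_lit 1) (nat_lit 50) (nat_lit 1) (nat_lit 366) (nat_lit 430) (nat_lit 224)) (XT.lf (nat_lit 152) (nat_lit 8969335751) (nat_lit 0) (nat_lit 2498441) (nat_lit 76) (nat_lit 2498441) (nat_lit 49) (nat_lit 1) (nat_lit 47) (nat_lit 1) (nat_lit 48) (nat_lit 1) (nat_lit 367) (nat_lit 430) (nat_lit 223))) (XT.nd (nat_lit 78) (nat_lit 76) (nat_lit 0) (XT.lf (nat_lit 0) (nat_lit 2940061824) (nat_lit 0) (nat_lit 2947086919) (nat_lit 152) (nat_lit 2940061824) (nat_lit 47) (nat_lit 3) (nat_lit 47) (nat_lit 1) (nat_lit 49) (nat_lit 1) (nat_lit 368) (nat_lit 430) (nat_lit 222)) (XT.lf (nat_lit 76) (nat_lit 2890483225) (nat_lit 0) (nat_lit 2897173791) (nat_lit 76) (nat_lit 2897173791) (nat_lit 47) (nat_lit 3) (nat_lit 46) (nat_lit 1) (nat_lit 47) (nat_lit 1) (nat_lit 369) (nat_lit 430) (nat_lit 221))))))))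
noncomputable def ec409 : XT := (XT.nd (nat_lit 1950) (nat_lit 1520) (nat_lit 0) (XT.nd (nat_lit 936) (nat_lit 1064) (nat_lit 0) (XT.nd (nat_lit 468) (nat_lit 456) (nat_lit 0) (XT.nd (nat_lit 234) (nat_lit 228) (nat_lit 0) (XT.nd (nat_lit 78) (nat_lit 76) (nat_lit 0) (XT.lf (nat_lit 152) (nat_lit 8542857085) (nat_lit 0) (nat_lit 2055473) (nat_lit 76) (nat_lit 2055473) (nat_lit 46) (nat_lit 1) (nat_lit 44) (nat_lit 1) (nat_lit 45) (nat_lit 1) (nat_lit 370) (nat_lit 430) (nat_lit 220)) (XT.nd (nat_lit 78) (nat_lit 76) (nat_lit 0) (XT.lf (nat_lit 0) (nat_lit 2800357570) (nat_lit 0) (nat_lit 2806137133) (nat_lit 152) (nat_lit 2800357570) (nat_lit 44) (nat_lit 3) (nat_lit 44) (nat_lit 1) (nat_lit 46) (nat_lit 1) (nat_lit 371) (nat_lit 430) (nat_lit 219)) (XT.lf (nat_lit 76) (nat_lit 2753414917) (nat_lit 0) (nat_lit 2758919263) (nat_lit 76) (nat_lit 2758919263) (nat_lit 44) (nat_lit 3) (nat_lit 43) (nat_lit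 1) (nat_lit 44) (nat_lit 1) (nat_lit 372) (nat_lit 430) (nat_lit 218)))) (XT.nd (nat_lit 78) (nat_lit 76) (nat_lit 0) (XT.lf (nat_lit 152) (nat_lit 8136574775) (nat_lit 0) (nat_lit 1691043) (nat_lit 76) (nat_lit 1691043) (nat_lit 43) (nat_lit 1) (nat_lit 41) (nat_lit 1) (nat_lit 42) (nat_lit 1) (nat_lit 373) (nat_lit 430) (nat_lit 217)) (XT.nd (nat_lit 78) (nat_lit 76) (nat_lit 0) (XT.lf (nat_lit 0) (nat_lit 2667252942) (nat_lit 0) (nat_lit 2672007803) (nat_lit 152) (nat_lit 2667252942) (nat_lit 41) (nat_lit 3) (nat_lit 41) (nat_lit 1) (nat_lit 43) (nat_lit 1) (nat_lit 374) (nat_lit 430) (nat_lit 216)) (XT.lf (nat_lit 76) (nat_lit 2622771947) (nat_lit 0) (nat_lit 2627300385) (nat_lit 76) (nat_lit 2627300385) (nat_lit 41) (nat_lit 3) (nat_lit 40) (nat_lit 1) (nat_lit 41) (nat_lit 1) (nat_lit 375) (nat_lit 430) (nat_lit 215))))) (XT.nd (nat_lit 234) (nat_lit 228) (nat_lit 0) (XT.nd (nat_lit 78) (nat_lit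 76) (nat_lit 0) (XT.lf (nat_lit 152) (nat_lit 7749546974) (nat_lit 0) (nat_lit 1391225) (nat_lit 76) (nat_lit 1391225) (nat_lit 40) (nat_lit 1) (nat_lit 38) (nat_lit 1) (nat_lit 39) (nat_lit 1) (nat_lit 376) (nat_lit 430) (nat_lit 214)) (XT.nd (nat_lit 78) (nat_lit 76) (nat_lit 0) (XT.lf (nat_lit 0) (nat_lit 2540443062) (nat_lit 0) (nat_lit 2544354898) (nat_lit 152) (nat_lit 2540443062) (nat_lit 38) (nat_lit 3) (nat_lit 38) (nat_lit 1) (nat_lit 40) (nat_lit 1) (nat_lit 377) (nat_lit 430) (nat_lit 213)) (XT.lf (nat_lit 76) (nat_lit 2498266381) (nat_lit 0) (nat_lit 2501991939) (nat_lit 76) (nat_lit 2501991939) (nat_lit 38) (nat_lit 3) (nat_lit 37) (nat_lit 1) (nat_lit 38) (nat_lit 1) (nat_lit 378) (nat_lit 430) (nat_lit 212)))) (XT.nd (nat_lit 78) (nat_lit 76) (nat_lit 0) (XT.lf (nat_lit 152) (nat_lit 7380873161) (nat_lit 0) (nat_lit 1144564) (nat_lit 76) (nat_lit 1144564) (nat_lit 37) (nat_lit 1)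 (nat_lit 35) (nat_lit 1) (nat_lit 36) (nat_lit 1) (nat_lit 379) (nat_lit 430) (nat_lit 211)) (XT.nd (nat_lit 78) (nat_lit 76) (nat_lit 0) (XT.lf (nat_lit 0) (nat_lit 2419635905) (nat_lit 0) (nat_lit 2422854182) (nat_lit 152) (nat_lit 2419635905) (nat_lit 35) (nat_lit 3) (nat_lit 35) (nat_lit 1) (nat_lit 37) (nat_lit 1) (nat_lit 380) (nat_lit 430) (nat_lit 210)) (XT.lf (nat_lit 76) (nat_lit 2379620801) (nat_lit 0) (nat_lit 2382685827) (nat_lit 76) (nat_lit 2382685827) (nat_lit 35) (nat_lit 3) (nat_lit 34) (nat_lit 1) (nat_lit 35) (nat_lit 1) (nat_lit 381) (nat_lit 430) (nat_lit 209)))))) (XT.nd (nat_lit 468) (nat_lit 608) (nat_lit 0) (XT.nd (nat_lit 234) (nat_lit 228) (nat_lit 0) (XT.nd (nat_lit 78) (nat_lit 76) (nat_lit 0) (XT.lf (nat_lit 152) (nat_lit 7029692793) (nat_lit 0) (nat_lit 941636) (nat_lit 76) (nat_lit 941636) (nat_lit 34) (nat_lit 1) (nat_lit 32) (nat_lit 1) (nat_lit 33) (nat_lit 1)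 (nat_lit 382) (nat_lit 430) (nat_lit 208)) (XT.nd (nat_lit 78) (nat_lit 76) (nat_lit 0) (XT.lf (nat_lit 0) (nat_lit 2304551980) (nat_lit 0) (nat_lit 2307199665) (nat_lit 152) (nat_lit 2304551980) (nat_lit 32) (nat_lit 3) (nat_lit 32) (nat_lit 1) (nat_lit 34) (nat_lit 1) (nat_lit 383) (nat_lit 430) (nat_lit 207)) (XT.lf (nat_lit 76) (nat_lit 2266568366) (nat_lit 0) (nat_lit 2269089971) (nat_lit 76) (nat_lit 2269089971) (nat_lit 32) (nat_lit 3) (nat_lit 31) (nat_lit 1) (nat_lit 32) (nat_lit 1) (nat_lit 384) (nat_lit 430) (nat_lit 206)))) (XT.nd (nat_lit 78) (nat_lit 76) (nat_lit 0) (XT.lf (nat_lit 152) (nat_lit 6695183922) (nat_lit 0) (nat_lit 774686) (nat_lit 76) (nat_lit 774686) (nat_lit 31) (nat_lit 1) (nat_lit 29) (nat_lit 1) (nat_lit 30) (nat_lit 1) (nat_lit 385) (nat_lit 430) (nat_lit 205)) (XT.nd (nat_lit 78) (nat_lit 76) (nat_lit 0) (XT.lf (nat_lit 0) (nat_lit 2194923983) (nat_lit 0) (nat_lit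 2197102239) (nat_lit 152) (nat_lit 2194923983) (nat_lit 29) (nat_lit 3) (nat_lit 29) (nat_lit 1) (nat_lit 31) (nat_lit 1) (nat_lit 386) (nat_lit 430) (nat_lit 204)) (XT.lf (nat_lit 76) (nat_lit 2158852780) (nat_lit 0) (nat_lit 2160927310) (nat_lit 76) (nat_lit 2160927310) (nat_lit 29) (nat_lit 3) (nat_lit 28) (nat_lit 1) (nat_lit 29) (nat_lit 1) (nat_lit 387) (nat_lit 430) (nat_lit 203))))) (XT.nd (nat_lit 234) (nat_lit 380) (nat_lit 0) (XT.nd (nat_lit 78) (nat_lit 76) (nat_lit 0) (XT.lf (nat_lit 152) (nat_lit 6376561777) (nat_lit 0) (nat_lit 637336) (nat_lit 76) (nat_lit 637336) (nat_lit 28) (nat_lit 1) (nat_lit 26) (nat_lit 1) (nat_lit 27) (nat_lit 1) (nat_lit 388) (nat_lit 430) (nat_lit 202)) (XT.nd (nat_lit 78) (nat_lit 76) (nat_lit 0) (XT.lf (nat_lit 0) (nat_lit 2090496407) (nat_lit 0) (nat_lit 2092288464) (nat_lit 152) (nat_lit 2090496407) (nat_lit 26) (nat_lit 3) (nat_lit 26) (nat_lit 1)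 (nat_lit 28) (nat_lit 1) (nat_lit 389) (nat_lit 430) (nat_lit 201)) (XT.lf (nat_lit 76) (nat_lit 2056228168) (nat_lit 0) (nat_lit 2057934889) (nat_lit 76) (nat_lit 2057934889) (nat_lit 26) (nat_lit 3) (nat_lit 25) (nat_lit 1) (nat_lit 26) (nat_lit 1) (nat_lit 390) (nat_lit 430) (nat_lit 200)))) (XT.nd (nat_lit 156) (nat_lit 228) (nat_lit 0) (XT.nd (nat_lit 78) (nat_lit 0) (nat_lit 0) (XT.lf (nat_lit 152) (nat_lit 6073077340) (nat_lit 0) (nat_lit 524338) (nat_lit 76) (nat_lit 524338) (nat_lit 25) (nat_lit 1) (nat_lit 23) (nat_lit 1) (nat_lit 24) (nat_lit 1) (nat_lit 391) (nat_lit 430) (nat_lit 199)) (XT.lf (nat_lit 0) (nat_lit 1991025153) (nat_lit 0) (nat_lit 1992499483) (nat_lit 152) (nat_lit 1991025153) (nat_lit 23) (nat_lit 3) (nat_lit 23) (nat_lit 1) (nat_lit 25) (nat_lit 1) (nat_lit 392) (nat_lit 430) (nat_lit 198))) (XT.nd (nat_lit 78) (nat_lit 152) (nat_lit 0) (XT.lf (nat_lit 76) (nat_lit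 1958458901) (nat_lit 0) (nat_lit 1959863025) (nat_lit 76) (nat_lit 1959863025) (nat_lit 23) (nat_lit 3) (nat_lit 22) (nat_lit 1) (nat_lit 23) (nat_lit 1) (nat_lit 393) (nat_lit 430) (nat_lit 197)) (XT.lf (nat_lit 152) (nat_lit 5784015934) (nat_lit 0) (nat_lit 431374) (nat_lit 76) (nat_lit 431374) (nat_lit 22) (nat_lit 1) (nat_lit 20) (nat_lit 1) (nat_lit 21) (nat_lit 1) (nat_lit 394) (nat_lit 430) (nat_lit 196))))))) (XT.nd (nat_lit 1014) (nat_lit 608) (nat_lit 0) (XT.nd (nat_lit 468) (nat_lit 456) (nat_lit 0) (XT.nd (nat_lit 234) (nat_lit 228) (nat_lit 0) (XT.nd (nat_lit 78) (nat_lit 228) (nat_lit 0) (XT.lf (nat_lit 0) (nat_lit 1896277116) (nat_lit 0) (nat_lit 1897490051) (nat_lit 152) (nat_lit 1896277116) (nat_lit 20) (nat_lit 3) (nat_lit 20) (nat_lit 1) (nat_lit 22) (nat_lit 1) (nat_lit 395) (nat_lit 430) (nat_lit 195)) (XT.nd (nat_lit 78) (nat_lit 152) (nat_lit 0) (XT.lf (nat_lit 76) (nat_lit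 1865319364) (nat_lit 0) (nat_lit 1866474540) (nat_lit 76) (nat_lit 1866474540) (nat_lit 20) (nat_lit 3) (nat_lit 19) (nat_lit 1) (nat_lit 20) (nat_lit 1) (nat_lit 396) (nat_lit 430) (nat_lit 194)) (XT.lf (nat_lit 152) (nat_lit 5508695820) (nat_lit 0) (nat_lit 354892) (nat_lit 76) (nat_lit 354892) (nat_lit 19) (nat_lit 1) (nat_lit 17) (nat_lit 1) (nat_lit 18) (nat_lit 1) (nat_lit 397) (nat_lit 430) (nat_lit 193)))) (XT.nd (nat_lit 78) (nat_lit 228) (nat_lit 0) (XT.lf (nat_lit 0) (nat_lit 1806029777) (nat_lit 0) (nat_lit 1807027661) (nat_lit 152) (nat_lit 1806029777) (nat_lit 17) (nat_lit 3) (nat_lit 17) (nat_lit 1) (nat_lit 19) (nat_lit 1) (nat_lit 398) (nat_lit 430) (nat_lit 192)) (XT.nd (nat_lit 78) (nat_lit 152) (nat_lit 0) (XT.lf (nat_lit 76) (nat_lit 1776593695) (nat_lit 0) (nat_lit 1777544061) (nat_lit 76) (nat_lit 1777544061) (nat_lit 17) (nat_lit 3) (nat_lit 16) (nat_lit 1) (nat_lit 17)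 (nat_lit 1) (nat_lit 399) (nat_lit 430) (nat_lit 191)) (XT.lf (nat_lit 152) (nat_lit 5246466824) (nat_lit 0) (nat_lit 291971) (nat_lit 76) (nat_lit 291971) (nat_lit 16) (nat_lit 1) (nat_lit 14) (nat_lit 1) (nat_lit 15) (nat_lit 1) (nat_lit 400) (nat_lit 430) (nat_lit 190))))) (XT.nd (nat_lit 234) (nat_lit 228) (nat_lit 0) (XT.nd (nat_lit 78) (nat_lit 228) (nat_lit 0) (XT.lf (nat_lit 0) (nat_lit 1720070787) (nat_lit 0) (nat_lit 1720891749) (nat_lit 152) (nat_lit 1720070787) (nat_lit 14) (nat_lit 3) (nat_lit 14) (nat_lit 1) (nat_lit 16) (nat_lit 1) (nat_lit 401) (nat_lit 430) (nat_lit 189)) (XT.nd (nat_lit 78) (nat_lit 152) (nat_lit 0) (XT.lf (nat_lit 76) (nat_lit 1692075494) (nat_lit 0) (nat_lit 1692857362) (nat_lit 76) (nat_lit 1692857362) (nat_lit 14) (nat_lit 3) (nat_lit 13) (nat_lit 1) (nat_lit 14) (nat_lit 1) (nat_lit 402) (nat_lit 430) (nat_lit 188)) (XT.lf (nat_lit 152) (nat_lit 4996708992)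 (nat_lit 0) (nat_lit 240205) (nat_lit 76) (nat_lit 240205) (nat_lit 13) (nat_lit 1) (nat_lit 11) (nat_lit 1) (nat_lit 12) (nat_lit 1) (nat_lit 403) (nat_lit 430) (nat_lit 187)))) (XT.nd (nat_lit 156) (nat_lit 152) (nat_lit 0) (XT.nd (nat_lit 78) (nat_lit 76) (nat_lit 0) (XT.lf (nat_lit 0) (nat_lit 1638197559) (nat_lit 0) (nat_lit 1638872967) (nat_lit 152) (nat_lit 1638197559) (nat_lit 11) (nat_lit 3) (nat_lit 11) (nat_lit 1) (nat_lit 13) (nat_lit 1) (nat_lit 404) (nat_lit 430) (nat_lit 186)) (XT.lf (nat_lit 76) (nat_lit 1611567520) (nat_lit 0) (nat_lit 1612210765) (nat_lit 76) (nat_lit 1612210765) (nat_lit 11) (nat_lit 3) (nat_lit 10) (nat_lit 1) (nat_lit 11) (nat_lit 1) (nat_lit 405) (nat_lit 430) (nat_lit 185))) (XT.nd (nat_lit 78) (nat_lit 0) (nat_lit 0) (XT.lf (nat_lit 152) (nat_lit 4758831284) (nat_lit 0) (nat_lit 197617) (nat_lit 76) (nat_lit 197617) (nat_lit 10) (nat_lit 1) (nat_lit 8) (nat_lit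 1) (nat_lit 9) (nat_lit 1) (nat_lit 406) (nat_lit 430) (nat_lit 184)) (XT.lf (nat_lit 0) (nat_lit 1560216868) (nat_lit 0) (nat_lit 1560772528) (nat_lit 152) (nat_lit 1560216868) (nat_lit 8) (nat_lit 3) (nat_lit 8) (nat_lit 1) (nat_lit 10) (nat_lit 1) (nat_lit 407) (nat_lit 430) (nat_lit 183)))))) (XT.nd (nat_lit 468) (nat_lit 152) (nat_lit 0) (XT.nd (nat_lit 234) (nat_lit 228) (nat_lit 0) (XT.nd (nat_lit 78) (nat_lit 152) (nat_lit 0) (XT.lf (nat_lit 76) (nat_lit 1534881371) (nat_lit 0) (nat_lit 1535410570) (nat_lit 76) (nat_lit 1535410570) (nat_lit 8) (nat_lit 3) (nat_lit 7) (nat_lit 1) (nat_lit 8) (nat_lit 1) (nat_lit 408) (nat_lit 430) (nat_lit 182)) (XT.nd (nat_lit 78) (nat_lit 0) (nat_lit 0) (XT.lf (nat_lit 152) (nat_lit 4532270304) (nat_lit 0) (nat_lit 162580) (nat_lit 76) (nat_lit 162580) (nat_lit 7) (nat_lit 1) (nat_lit 5) (nat_lit 1) (nat_lit 6) (nat_lit 1) (nat_lit 409) (nat_lit 430) (nat_lit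 181)) (XT.lf (nat_lit 0) (nat_lit 1485944452) (nat_lit 0) (nat_lit 1486401595) (nat_lit 152) (nat_lit 1485944452) (nat_lit 5) (nat_lit 3) (nat_lit 5) (nat_lit 1) (nat_lit 7) (nat_lit 1) (nat_lit 410) (nat_lit 430) (nat_lit 180)))) (XT.nd (nat_lit 78) (nat_lit 152) (nat_lit 0) (XT.lf (nat_lit 76) (nat_lit 1461837163) (nat_lit 0) (nat_lit 1462272537) (nat_lit 76) (nat_lit 1462272537) (nat_lit 5) (nat_lit 3) (nat_lit 4) (nat_lit 1) (nat_lit 5) (nat_lit 1) (nat_lit 411) (nat_lit 430) (nat_lit 179)) (XT.nd (nat_lit 78) (nat_lit 0) (nat_lit 0) (XT.lf (nat_lit 152) (nat_lit 4316489071) (nat_lit 0) (nat_lit 133755) (nat_lit 76) (nat_lit 133755) (nat_lit 4) (nat_lit 1) (nat_lit 2) (nat_lit 1) (nat_lit 3) (nat_lit 1) (nat_lit 412) (nat_lit 430) (nat_lit 178)) (XT.lf (nat_lit 0) (nat_lit 1415204629) (nat_lit 0) (nat_lit 1415580721) (nat_lit 152) (nat_lit 1415204629) (nat_lit 2) (nat_lit 3) (nat_lit 2) (nat_lit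 1) (nat_lit 4) (nat_lit 1) (nat_lit 413) (nat_lit 430) (nat_lit 177))))) (XT.nd (nat_lit 234) (nat_lit 0) (nat_lit 0) (XT.nd (nat_lit 78) (nat_lit 76) (nat_lit 0) (XT.lf (nat_lit 76) (nat_lit 1392263205) (nat_lit 0) (nat_lit 1392621388) (nat_lit 76) (nat_lit 1392621388) (nat_lit 2) (nat_lit 3) (nat_lit 1) (nat_lit 1) (nat_lit 2) (nat_lit 1) (nat_lit 414) (nat_lit 430) (nat_lit 176)) (XT.nd (nat_lit 78) (nat_lit 0) (nat_lit 0) (XT.lf (nat_lit 0) (nat_lit 86683911923) (nat_lit 0) (nat_lit 0) (nat_lit 0) (nat_lit 0) (nat_lit 0) (nat_lit 0) (nat_lit 1) (nat_lit 0) (nat_lit 1) (nat_lit 0) (nat_lit 415) (nat_lit 430) (nat_lit 175)) (XT.lf (nat_lit 0) (nat_lit 86683895613) (nat_lit 0) (nat_lit 0) (nat_lit 0) (nat_lit 0) (nat_lit 0) (nat_lit 0) (nat_lit 1) (nat_lit 0) (nat_lit 1) (nat_lit 0) (nat_lit 416) (nat_lit 430) (nat_lit 174)))) (XT.nd (nat_lit 156) (nat_lit 0) (nat_lit 0) (XT.nd (nat_lit 78) (nat_lit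 0) (nat_lit 0) (XT.lf (nat_lit 0) (nat_lit 86683880080) (nat_lit 0) (nat_lit 0) (nat_lit 0) (nat_lit 0) (nat_lit 0) (nat_lit 0) (nat_lit 1) (nat_lit 0) (nat_lit 1) (nat_lit 0) (nat_lit 417) (nat_lit 430) (nat_lit 173)) (XT.lf (nat_lit 0) (nat_lit 86683865286) (nat_lit 0) (nat_lit 0) (nat_lit 0) (nat_lit 0) (nat_lit 0) (nat_lit 0) (nat_lit 1) (nat_lit 0) (nat_lit 1) (nat_lit 0) (nat_lit 418) (nat_lit 430) (nat_lit 172))) (XT.nd (nat_lit 78) (nat_lit 0) (nat_lit 0) (XT.lf (nat_lit 0) (nat_lit 86683851197) (nat_lit 0) (nat_lit 0) (nat_lit 0) (nat_lit 0) (nat_lit 0) (nat_lit 0) (nat_lit 1) (nat_lit 0) (nat_lit 1) (nat_lit 0) (nat_lit 419) (nat_lit 430) (nat_lit 171)) (XT.lf (nat_lit 0) (nat_lit 86683837779) (nat_lit 0) (nat_lit 0) (nat_lit 0) (nat_lit 0) (nat_lit 0) (nat_lit 0) (nat_lit 1) (nat_lit 0) (nat_lit 1) (nat_lit 0) (nat_lit 420) (nat_lit 430) (nat_lit 170))))))))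
noncomputable def ec410 : XT := (XT.nd (nat_lit 33150) (nat_lit 0) (nat_lit 17860) (XT.nd (nat_lit 936) (nat_lit 0) (nat_lit 0) (XT.nd (nat_lit 468) (nat_lit 0) (nat_lit 0) (XT.nd (nat_lit 234) (nat_lit 0) (nat_lit 0) (XT.nd (nat_lit 78) (nat_lit 0) (nat_lit 0) (XT.lf (nat_lit 0) (nat_lit 86683825000) (nat_lit 0) (nat_lit 0) (nat_lit 0) (nat_lit 0) (nat_lit 0) (nat_lit 0) (nat_lit 1) (nat_lit 0) (nat_lit 1) (nat_lit 0) (nat_lit 421) (nat_lit 430) (nat_lit 169)) (XT.nd (nat_lit 78) (nat_lit 0) (nat_lit 0) (XT.lf (nat_lit 0) (nat_lit 86683812830) (nat_lit 0) (nat_lit 0) (nat_lit 0) (nat_lit 0) (nat_lit 0) (nat_lit 0) (nat_lit 1) (nat_lit 0) (nat_lit 1) (nat_lit 0) (nat_lit 422) (nat_lit 430) (nat_lit 168)) (XT.lf (nat_lit 0) (nat_lit 86683801239) (nat_lit 0) (nat_lit 0) (nat_lit 0) (nat_lit 0) (nat_lit 0) (nat_lit 0) (nat_lit 1) (nat_lit 0) (nat_lit 1) (nat_lit 0) (nat_lit 423) (nat_lit 430) (nat_lit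 167)))) (XT.nd (nat_lit 78) (nat_lit 0) (nat_lit 0) (XT.lf (nat_lit 0) (nat_lit 86683790200) (nat_lit 0) (nat_lit 0) (nat_lit 0) (nat_lit 0) (nat_lit 0) (nat_lit 0) (nat_lit 1) (nat_lit 0) (nat_lit 1) (nat_lit 0) (nat_lit 424) (nat_lit 430) (nat_lit 166)) (XT.nd (nat_lit 78) (nat_lit 0) (nat_lit 0) (XT.lf (nat_lit 0) (nat_lit 86683779686) (nat_lit 0) (nat_lit 0) (nat_lit 0) (nat_lit 0) (nat_lit 0) (nat_lit 0) (nat_lit 1) (nat_lit 0) (nat_lit 1) (nat_lit 0) (nat_lit 425) (nat_lit 430) (nat_lit 165)) (XT.lf (nat_lit 0) (nat_lit 86683769674) (nat_lit 0) (nat_lit 0) (nat_lit 0) (nat_lit 0) (nat_lit 0) (nat_lit 0) (nat_lit 1) (nat_lit 0) (nat_lit 1) (nat_lit 0) (nat_lit 426) (nat_lit 430) (nat_lit 164))))) (XT.nd (nat_lit 234) (nat_lit 0) (nat_lit 0) (XT.nd (nat_lit 78) (nat_lit 0) (nat_lit 0) (XT.lf (nat_lit 0) (nat_lit 86683760138) (nat_lit 0) (nat_lit 0) (nat_lit 0) (nat_lit 0) (nat_lit 0) (nat_lit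 0) (nat_lit 1) (nat_lit 0) (nat_lit 1) (nat_lit 0) (nat_lit 427) (nat_lit 430) (nat_lit 163)) (XT.nd (nat_lit 78) (nat_lit 0) (nat_lit 0) (XT.lf (nat_lit 0) (nat_lit 86683751056) (nat_lit 0) (nat_lit 0) (nat_lit 0) (nat_lit 0) (nat_lit 0) (nat_lit 0) (nat_lit 1) (nat_lit 0) (nat_lit 1) (nat_lit 0) (nat_lit 428) (nat_lit 430) (nat_lit 162)) (XT.lf (nat_lit 0) (nat_lit 86683742406) (nat_lit 0) (nat_lit 0) (nat_lit 0) (nat_lit 0) (nat_lit 0) (nat_lit 0) (nat_lit 1) (nat_lit 0) (nat_lit 1) (nat_lit 0) (nat_lit 429) (nat_lit 430) (nat_lit 161)))) (XT.nd (nat_lit 78) (nat_lit 0) (nat_lit 0) (XT.lf (nat_lit 0) (nat_lit 86683734169) (nat_lit 0) (nat_lit 0) (nat_lit 0) (nat_lit 0) (nat_lit 0) (nat_lit 0) (nat_lit 1) (nat_lit 0) (nat_lit 1) (nat_lit 0) (nat_lit 430) (nat_lit 430) (nat_lit 160)) (XT.nd (nat_lit 78) (nat_lit 0) (nat_lit 0) (XT.lf (nat_lit 0) (nat_lit 86683726324) (nat_lit 0) (nat_lit 0) (nat_lit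 0) (nat_lit 0) (nat_lit 0) (nat_lit 0) (nat_lit 1) (nat_lit 0) (nat_lit 1) (nat_lit 0) (nat_lit 431) (nat_lit 430) (nat_lit 159)) (XT.lf (nat_lit 0) (nat_lit 86683718852) (nat_lit 0) (nat_lit 0) (nat_lit 0) (nat_lit 0) (nat_lit 0) (nat_lit 0) (nat_lit 1) (nat_lit 0) (nat_lit 1) (nat_lit 0) (nat_lit 432) (nat_lit 430) (nat_lit 158)))))) (XT.nd (nat_lit 31668) (nat_lit 0) (nat_lit 22192) (XT.nd (nat_lit 234) (nat_lit 0) (nat_lit 0) (XT.nd (nat_lit 78) (nat_lit 0) (nat_lit 0) (XT.lf (nat_lit 0) (nat_lit 86683711736) (nat_lit 0) (nat_lit 0) (nat_lit 0) (nat_lit 0) (nat_lit 0) (nat_lit 0) (nat_lit 1) (nat_lit 0) (nat_lit 1) (nat_lit 0) (nat_lit 433) (nat_lit 430) (nat_lit 157)) (XT.nd (nat_lit 78) (nat_lit 0) (nat_lit 0) (XT.lf (nat_lit 0) (nat_lit 86683704959) (nat_lit 0) (nat_lit 0) (nat_lit 0) (nat_lit 0) (nat_lit 0) (nat_lit 0) (nat_lit 1) (nat_lit 0) (nat_lit 1) (nat_lit 0) (nat_lit 434) (nat_lit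 430) (nat_lit 156)) (XT.lf (nat_lit 0) (nat_lit 86683698505) (nat_lit 0) (nat_lit 0) (nat_lit 0) (nat_lit 0) (nat_lit 0) (nat_lit 0) (nat_lit 1) (nat_lit 0) (nat_lit 1) (nat_lit 0) (nat_lit 435) (nat_lit 430) (nat_lit 155)))) (XT.nd (nat_lit 78) (nat_lit 0) (nat_lit 0) (XT.lf (nat_lit 0) (nat_lit 86683692358) (nat_lit 0) (nat_lit 0) (nat_lit 0) (nat_lit 0) (nat_lit 0) (nat_lit 0) (nat_lit 1) (nat_lit 0) (nat_lit 1) (nat_lit 0) (nat_lit 436) (nat_lit 430) (nat_lit 154)) (XT.nd (nat_lit 78) (nat_lit 0) (nat_lit 0) (XT.lf (nat_lit 0) (nat_lit 86683686504) (nat_lit 0) (nat_lit 0) (nat_lit 0) (nat_lit 0) (nat_lit 0) (nat_lit 0) (nat_lit 1) (nat_lit 0) (nat_lit 1) (nat_lit 0) (nat_lit 437) (nat_lit 430) (nat_lit 153)) (XT.lf (nat_lit 0) (nat_lit 86683680928) (nat_lit 0) (nat_lit 0) (nat_lit 0) (nat_lit 0) (nat_lit 0) (nat_lit 0) (nat_lit 1) (nat_lit 0) (nat_lit 1) (nat_lit 0) (nat_lit 438) (nat_lit 430)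 (nat_lit 152))))) (XT.nd (nat_lit 234) (nat_lit 0) (nat_lit 76) (XT.nd (nat_lit 78) (nat_lit 0) (nat_lit 0) (XT.lf (nat_lit 836) (nat_lit 45548690350) (nat_lit 0) (nat_lit 80871595019) (nat_lit 836) (nat_lit 45548690350) (nat_lit 303) (nat_lit 1) (nat_lit 292) (nat_lit 0) (nat_lit 303) (nat_lit 0) (nat_lit 158) (nat_lit 431) (nat_lit 431)) (XT.nd (nat_lit 78) (nat_lit 0) (nat_lit 76) (XT.lf (nat_lit 836) (nat_lit 176552410328) (nat_lit 76) (nat_lit 79567214454) (nat_lit 0) (nat_lit 79567214454) (nat_lit 303) (nat_lit 1) (nat_lit 293) (nat_lit 1) (nat_lit 292) (nat_lit 0) (nat_lit 159) (nat_lit 431) (nat_lit 430)) (XT.lf (nat_lit 836) (nat_lit 84142220414) (nat_lit 0) (nat_lit 159406372413) (nat_lit 760) (nat_lit 84142220414) (nat_lit 304) (nat_lit 1) (nat_lit 293) (nat_lit 1) (nat_lit 303) (nat_lit 1) (nat_lit 160) (nat_lit 431) (nat_lit 429)))) (XT.nd (nat_lit 156) (nat_lit 0) (nat_lit 76) (XT.nd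 (nat_lit 78) (nat_lit 0) (nat_lit 76) (XT.lf (nat_lit 836) (nat_lit 157839113641) (nat_lit 76) (nat_lit 81057002409) (nat_lit 0) (nat_lit 81057002409) (nat_lit 304) (nat_lit 1) (nat_lit 294) (nat_lit 1) (nat_lit 293) (nat_lit 1) (nat_lit 161) (nat_lit 431) (nat_lit 428)) (XT.lf (nat_lit 836) (nat_lit 72651828266) (nat_lit 0) (nat_lit 167157013257) (nat_lit 760) (nat_lit 72651828266) (nat_lit 305) (nat_lit 1) (nat_lit 294) (nat_lit 1) (nat_lit 304) (nat_lit 1) (nat_lit 162) (nat_lit 431) (nat_lit 427))) (XT.nd (nat_lit 78) (nat_lit 0) (nat_lit 76) (XT.lf (nat_lit 836) (nat_lit 130669045094) (nat_lit 76) (nat_lit 87263787246) (nat_lit 0) (nat_lit 87263787246) (nat_lit 305) (nat_lit 1) (nat_lit 295) (nat_lit 1) (nat_lit 294) (nat_lit 1) (nat_lit 163) (nat_lit 431) (nat_lit 426)) (XT.lf (nat_lit 836) (nat_lit 57294602210) (nat_lit 0) (nat_lit 183587266614) (nat_lit 760) (nat_lit 57294602210) (nat_lit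 306) (nat_lit 1) (nat_lit 295) (nat_lit 1) (nat_lit 305) (nat_lit 1) (nat_lit 164) (nat_lit 431) (nat_lit 425))))))) (XT.nd (nat_lit 936) (nat_lit 2356) (nat_lit 0) (XT.nd (nat_lit 468) (nat_lit 1064) (nat_lit 0) (XT.nd (nat_lit 234) (nat_lit 1140) (nat_lit 0) (XT.nd (nat_lit 78) (nat_lit 0) (nat_lit 76) (XT.lf (nat_lit 836) (nat_lit 96313985502) (nat_lit 76) (nat_lit 97517812863) (nat_lit 0) (nat_lit 97517812863) (nat_lit 306) (nat_lit 1) (nat_lit 296) (nat_lit 1) (nat_lit 295) (nat_lit 1) (nat_lit 165) (nat_lit 431) (nat_lit 424)) (XT.nd (nat_lit 78) (nat_lit 0) (nat_lit 0) (XT.lf (nat_lit 836) (nat_lit 38665048653) (nat_lit 0) (nat_lit 207442556113) (nat_lit 760) (nat_lit 38665048653) (nat_lit 307) (nat_lit 1) (nat_lit 296) (nat_lit 1) (nat_lit 306) (nat_lit 1) (nat_lit 166) (nat_lit 431) (nat_lit 423)) (XT.lf (nat_lit 836) (nat_lit 55904356109) (nat_lit 76) (nat_lit 111222600945) (nat_lit 0)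 (nat_lit 111222600945) (nat_lit 307) (nat_lit 1) (nat_lit 297) (nat_lit 1) (nat_lit 296) (nat_lit 1) (nat_lit 167) (nat_lit 431) (nat_lit 422)))) (XT.nd (nat_lit 78) (nat_lit 1292) (nat_lit 0) (XT.lf (nat_lit 76) (nat_lit 17291211723) (nat_lit 0) (nat_lit 237606259636) (nat_lit 760) (nat_lit 17291211723) (nat_lit 298) (nat_lit 1) (nat_lit 297) (nat_lit 1) (nat_lit 307) (nat_lit 1) (nat_lit 168) (nat_lit 431) (nat_lit 421)) (XT.nd (nat_lit 78) (nat_lit 532) (nat_lit 0) (XT.lf (nat_lit 836) (nat_lit 10443461885) (nat_lit 0) (nat_lit 127847613995) (nat_lit 760) (nat_lit 127847613995) (nat_lit 298) (nat_lit 1) (nat_lit 287) (nat_lit 1) (nat_lit 297) (nat_lit 1) (nat_lit 169) (nat_lit 431) (nat_lit 420)) (XT.lf (nat_lit 532) (nat_lit 247836502707) (nat_lit 0) (nat_lit 6256056501) (nat_lit 456) (nat_lit 6256056501) (nat_lit 287) (nat_lit 1) (nat_lit 280) (nat_lit 1) (nat_lit 286) (nat_lit 1) (nat_lit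 170) (nat_lit 431) (nat_lit 419))))) (XT.nd (nat_lit 234) (nat_lit 684) (nat_lit 0) (XT.nd (nat_lit 78) (nat_lit 380) (nat_lit 0) (XT.lf (nat_lit 76) (nat_lit 108353687639) (nat_lit 0) (nat_lit 37925648596) (nat_lit 532) (nat_lit 108353687639) (nat_lit 281) (nat_lit 1) (nat_lit 280) (nat_lit 1) (nat_lit 287) (nat_lit 1) (nat_lit 171) (nat_lit 431) (nat_lit 418)) (XT.nd (nat_lit 78) (nat_lit 0) (nat_lit 0) (XT.lf (nat_lit 456) (nat_lit 186448883242) (nat_lit 0) (nat_lit 31355795538) (nat_lit 380) (nat_lit 31355795538) (nat_lit 281) (nat_lit 1) (nat_lit 275) (nat_lit 1) (nat_lit 280) (nat_lit 1) (nat_lit 172) (nat_lit 431) (nat_lit 417)) (XT.lf (nat_lit 76) (nat_lit 77287366354) (nat_lit 0) (nat_lit 89228240171) (nat_lit 456) (nat_lit 77287366354) (nat_lit 276) (nat_lit 1) (nat_lit 275) (nat_lit 1) (nat_lit 281) (nat_lit 1) (nat_lit 173) (nat_lit 431) (nat_lit 416)))) (XT.nd (nat_lit 78) (nat_lit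 304) (nat_lit 0) (XT.lf (nat_lit 456) (nat_lit 122779233703) (nat_lit 0) (nat_lit 57926412589) (nat_lit 380) (nat_lit 57926412589) (nat_lit 276) (nat_lit 1) (nat_lit 270) (nat_lit 1) (nat_lit 275) (nat_lit 1) (nat_lit 174) (nat_lit 431) (nat_lit 415)) (XT.nd (nat_lit 78) (nat_lit 304) (nat_lit 0) (XT.lf (nat_lit 76) (nat_lit 45242515878) (nat_lit 0) (nat_lit 143126500733) (nat_lit 456) (nat_lit 45242515878) (nat_lit 271) (nat_lit 1) (nat_lit 270) (nat_lit 1) (nat_lit 276) (nat_lit 1) (nat_lit 175) (nat_lit 431) (nat_lit 414)) (XT.lf (nat_lit 380) (nat_lit 57420157002) (nat_lit 0) (nat_lit 85649996795) (nat_lit 304) (nat_lit 85649996795) (nat_lit 271) (nat_lit 1) (nat_lit 266) (nat_lit 1) (nat_lit 270) (nat_lit 1) (nat_lit 176) (nat_lit 431) (nat_lit 413)))))) (XT.nd (nat_lit 468) (nat_lit 1368) (nat_lit 0) (XT.nd (nat_lit 234) (nat_lit 304) (nat_lit 0) (XT.nd (nat_lit 78) (nat_lit 684) (nat_lit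 0) (XT.lf (nat_lit 76) (nat_lit 12494243022) (nat_lit 0) (nat_lit 199028381122) (nat_lit 380) (nat_lit 12494243022) (nat_lit 267) (nat_lit 1) (nat_lit 266) (nat_lit 1) (nat_lit 271) (nat_lit 1) (nat_lit 177) (nat_lit 431) (nat_lit 412)) (XT.nd (nat_lit 78) (nat_lit 304) (nat_lit 0) (XT.lf (nat_lit 76) (nat_lit 105280081926) (nat_lit 0) (nat_lit 8817411368) (nat_lit 380) (nat_lit 105280081926) (nat_lit 262) (nat_lit 1) (nat_lit 261) (nat_lit 1) (nat_lit 266) (nat_lit 1) (nat_lit 178) (nat_lit 431) (nat_lit 411)) (XT.lf (nat_lit 380) (nat_lit 174149858348) (nat_lit 0) (nat_lit 20382550269) (nat_lit 304) (nat_lit 20382550269) (nat_lit 262) (nat_lit 1) (nat_lit 257) (nat_lit 1) (nat_lit 261) (nat_lit 1) (nat_lit 179) (nat_lit 431) (nat_lit 410)))) (XT.nd (nat_lit 78) (nat_lit 304) (nat_lit 0) (XT.lf (nat_lit 76) (nat_lit 68309230602) (nat_lit 0) (nat_lit 73910438519) (nat_lit 380) (nat_lit 68309230602)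 (nat_lit 258) (nat_lit 1) (nat_lit 257) (nat_lit 1) (nat_lit 262) (nat_lit 1) (nat_lit 180) (nat_lit 431) (nat_lit 409)) (XT.nd (nat_lit 78) (nat_lit 0) (nat_lit 0) (XT.lf (nat_lit 380) (nat_lit 99682169602) (nat_lit 0) (nat_lit 53306382035) (nat_lit 304) (nat_lit 53306382035) (nat_lit 258) (nat_lit 1) (nat_lit 253) (nat_lit 1) (nat_lit 257) (nat_lit 1) (nat_lit 181) (nat_lit 431) (nat_lit 408)) (XT.lf (nat_lit 76) (nat_lit 31435307550) (nat_lit 0) (nat_lit 139314154050) (nat_lit 380) (nat_lit 31435307550) (nat_lit 254) (nat_lit 1) (nat_lit 253) (nat_lit 1) (nat_lit 258) (nat_lit 1) (nat_lit 182) (nat_lit 431) (nat_lit 407))))) (XT.nd (nat_lit 234) (nat_lit 760) (nat_lit 0) (XT.nd (nat_lit 78) (nat_lit 380) (nat_lit 0) (XT.lf (nat_lit 304) (nat_lit 25564989281) (nat_lit 0) (nat_lit 86299168674) (nat_lit 228) (nat_lit 86299168674) (nat_lit 254) (nat_lit 1) (nat_lit 250) (nat_lit 1) (nat_lit 253)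 (nat_lit 1) (nat_lit 183) (nat_lit 431) (nat_lit 406)) (XT.nd (nat_lit 78) (nat_lit 0) (nat_lit 0) (XT.lf (nat_lit 380) (nat_lit 184081271688) (nat_lit 0) (nat_lit 5107902075) (nat_lit 304) (nat_lit 5107902075) (nat_lit 250) (nat_lit 1) (nat_lit 245) (nat_lit 1) (nat_lit 249) (nat_lit 1) (nat_lit 184) (nat_lit 431) (nat_lit 405)) (XT.lf (nat_lit 76) (nat_lit 72032362501) (nat_lit 0) (nat_lit 46387499280) (nat_lit 380) (nat_lit 72032362501) (nat_lit 246) (nat_lit 1) (nat_lit 245) (nat_lit 1) (nat_lit 250) (nat_lit 1) (nat_lit 185) (nat_lit 431) (nat_lit 404)))) (XT.nd (nat_lit 156) (nat_lit 532) (nat_lit 0) (XT.nd (nat_lit 78) (nat_lit 0) (nat_lit 0) (XT.lf (nat_lit 304) (nat_lit 105205542686) (nat_lit 0) (nat_lit 40774645164) (nat_lit 228) (nat_lit 40774645164) (nat_lit 246) (nat_lit 1) (nat_lit 242) (nat_lit 1) (nat_lit 245) (nat_lit 1) (nat_lit 186) (nat_lit 431) (nat_lit 403)) (XT.lf (nat_lit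 76) (nat_lit 33236058298) (nat_lit 0) (nat_lit 116679263734) (nat_lit 304) (nat_lit 33236058298) (nat_lit 243) (nat_lit 1) (nat_lit 242) (nat_lit 1) (nat_lit 246) (nat_lit 1) (nat_lit 187) (nat_lit 431) (nat_lit 402))) (XT.nd (nat_lit 78) (nat_lit 304) (nat_lit 0) (XT.lf (nat_lit 304) (nat_lit 27701215758) (nat_lit 0) (nat_lit 75964344731) (nat_lit 228) (nat_lit 75964344731) (nat_lit 243) (nat_lit 1) (nat_lit 239) (nat_lit 1) (nat_lit 242) (nat_lit 1) (nat_lit 188) (nat_lit 431) (nat_lit 401)) (XT.lf (nat_lit 304) (nat_lit 166717777222) (nat_lit 0) (nat_lit 4760740078) (nat_lit 228) (nat_lit 4760740078) (nat_lit 239) (nat_lit 1) (nat_lit 235) (nat_lit 1) (nat_lit 238) (nat_lit 1) (nat_lit 189) (nat_lit 431) (nat_lit 400))))))))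
noncomputable def ec411 : XT := (XT.nd (nat_lit 1950) (nat_lit 2052) (nat_lit 0) (XT.nd (nat_lit 936) (nat_lit 1292) (nat_lit 0) (XT.nd (nat_lit 468) (nat_lit 684) (nat_lit 0) (XT.nd (nat_lit 234) (nat_lit 456) (nat_lit 0) (XT.nd (nat_lit 78) (nat_lit 228) (nat_lit 0) (XT.lf (nat_lit 76) (nat_lit 63064560627) (nat_lit 0) (nat_lit 46730206186) (nat_lit 304) (nat_lit 63064560627) (nat_lit 236) (nat_lit 1) (nat_lit 235) (nat_lit 1) (nat_lit 239) (nat_lit 1) (nat_lit 190) (nat_lit 431) (nat_lit 399)) (XT.nd (nat_lit 78) (nat_lit 0) (nat_lit 0) (XT.lf (nat_lit 304) (nat_lit 86719545423) (nat_lit 0) (nat_lit 41442455013) (nat_lit 228) (nat_lit 41442455013) (nat_lit 236) (nat_lit 1) (nat_lit 232) (nat_lit 1) (nat_lit 235) (nat_lit 1) (nat_lit 191) (nat_lit 431) (nat_lit 398)) (XT.lf (nat_lit 76) (nat_lit 23882492084) (nat_lit 0) (nat_lit 118671896437) (nat_lit 304) (nat_lit 23882492084) (nat_lit 233)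 (nat_lit 1) (nat_lit 232) (nat_lit 1) (nat_lit 236) (nat_lit 1) (nat_lit 192) (nat_lit 431) (nat_lit 397)))) (XT.nd (nat_lit 78) (nat_lit 304) (nat_lit 0) (XT.lf (nat_lit 228) (nat_lit 8751339176) (nat_lit 0) (nat_lit 77288828817) (nat_lit 152) (nat_lit 77288828817) (nat_lit 233) (nat_lit 1) (nat_lit 230) (nat_lit 1) (nat_lit 232) (nat_lit 1) (nat_lit 193) (nat_lit 431) (nat_lit 396)) (XT.nd (nat_lit 78) (nat_lit 0) (nat_lit 0) (XT.lf (nat_lit 304) (nat_lit 132229800503) (nat_lit 0) (nat_lit 14043763259) (nat_lit 228) (nat_lit 14043763259) (nat_lit 230) (nat_lit 1) (nat_lit 226) (nat_lit 1) (nat_lit 229) (nat_lit 1) (nat_lit 194) (nat_lit 431) (nat_lit 395)) (XT.lf (nat_lit 76) (nat_lit 46184730559) (nat_lit 0) (nat_lit 64969878745) (nat_lit 304) (nat_lit 46184730559) (nat_lit 227) (nat_lit 1) (nat_lit 226) (nat_lit 1) (nat_lit 230) (nat_lit 1) (nat_lit 195) (nat_lit 431) (nat_lit 394))))) (XT.nd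 (nat_lit 234) (nat_lit 304) (nat_lit 0) (XT.nd (nat_lit 78) (nat_lit 228) (nat_lit 0) (XT.lf (nat_lit 228) (nat_lit 53359331862) (nat_lit 0) (nat_lit 50546964846) (nat_lit 152) (nat_lit 50546964846) (nat_lit 227) (nat_lit 1) (nat_lit 224) (nat_lit 1) (nat_lit 226) (nat_lit 1) (nat_lit 196) (nat_lit 431) (nat_lit 393)) (XT.nd (nat_lit 78) (nat_lit 228) (nat_lit 0) (XT.lf (nat_lit 76) (nat_lit 7666042332) (nat_lit 0) (nat_lit 136330876449) (nat_lit 228) (nat_lit 7666042332) (nat_lit 225) (nat_lit 1) (nat_lit 224) (nat_lit 1) (nat_lit 227) (nat_lit 1) (nat_lit 197) (nat_lit 431) (nat_lit 392)) (XT.lf (nat_lit 76) (nat_lit 63269192335) (nat_lit 0) (nat_lit 22344418942) (nat_lit 228) (nat_lit 63269192335) (nat_lit 222) (nat_lit 1) (nat_lit 221) (nat_lit 1) (nat_lit 224) (nat_lit 1) (nat_lit 198) (nat_lit 431) (nat_lit 391)))) (XT.nd (nat_lit 78) (nat_lit 152) (nat_lit 0) (XT.lf (nat_lit 228) (nat_lit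 87860362437) (nat_lit 0) (nat_lit 29167259839) (nat_lit 152) (nat_lit 29167259839) (nat_lit 222) (nat_lit 1) (nat_lit 219) (nat_lit 1) (nat_lit 221) (nat_lit 1) (nat_lit 199) (nat_lit 431) (nat_lit 390)) (XT.nd (nat_lit 78) (nat_lit 152) (nat_lit 0) (XT.lf (nat_lit 76) (nat_lit 24791908488) (nat_lit 0) (nat_lit 93982552580) (nat_lit 228) (nat_lit 24791908488) (nat_lit 220) (nat_lit 1) (nat_lit 219) (nat_lit 1) (nat_lit 222) (nat_lit 1) (nat_lit 200) (nat_lit 431) (nat_lit 389)) (XT.lf (nat_lit 228) (nat_lit 11614116534) (nat_lit 0) (nat_lit 64688362253) (nat_lit 152) (nat_lit 64688362253) (nat_lit 220) (nat_lit 1) (nat_lit 217) (nat_lit 1) (nat_lit 219) (nat_lit 1) (nat_lit 201) (nat_lit 431) (nat_lit 388)))))) (XT.nd (nat_lit 468) (nat_lit 608) (nat_lit 0) (XT.nd (nat_lit 234) (nat_lit 304) (nat_lit 0) (XT.nd (nat_lit 78) (nat_lit 152) (nat_lit 0) (XT.lf (nat_lit 228) (nat_lit 114151040528) (nat_lit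 0) (nat_lit 12169449963) (nat_lit 152) (nat_lit 12169449963) (nat_lit 217) (nat_lit 1) (nat_lit 214) (nat_lit 1) (nat_lit 216) (nat_lit 1) (nat_lit 202) (nat_lit 431) (nat_lit 387)) (XT.nd (nat_lit 78) (nat_lit 152) (nat_lit 0) (XT.lf (nat_lit 76) (nat_lit 38001161125) (nat_lit 0) (nat_lit 60008062532) (nat_lit 228) (nat_lit 38001161125) (nat_lit 215) (nat_lit 1) (nat_lit 214) (nat_lit 1) (nat_lit 217) (nat_lit 1) (nat_lit 203) (nat_lit 431) (nat_lit 386)) (XT.lf (nat_lit 228) (nat_lit 38702337628) (nat_lit 0) (nat_lit 47450238209) (nat_lit 152) (nat_lit 47450238209) (nat_lit 215) (nat_lit 1) (nat_lit 212) (nat_lit 1) (nat_lit 214) (nat_lit 1) (nat_lit 204) (nat_lit 431) (nat_lit 385)))) (XT.nd (nat_lit 78) (nat_lit 304) (nat_lit 0) (XT.lf (nat_lit 76) (nat_lit 1272039099) (nat_lit 0) (nat_lit 128735598740) (nat_lit 228) (nat_lit 1272039099) (nat_lit 213) (nat_lit 1) (nat_lit 212) (nat_lit 1) (nat_lit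 215) (nat_lit 1) (nat_lit 205) (nat_lit 431) (nat_lit 384)) (XT.nd (nat_lit 78) (nat_lit 152) (nat_lit 0) (XT.lf (nat_lit 76) (nat_lit 48030122309) (nat_lit 0) (nat_lit 32881528160) (nat_lit 152) (nat_lit 48030122309) (nat_lit 211) (nat_lit 1) (nat_lit 210) (nat_lit 1) (nat_lit 212) (nat_lit 1) (nat_lit 206) (nat_lit 431) (nat_lit 383)) (XT.lf (nat_lit 228) (nat_lit 59599913911) (nat_lit 0) (nat_lit 33543106969) (nat_lit 152) (nat_lit 33543106969) (nat_lit 211) (nat_lit 1) (nat_lit 208) (nat_lit 1) (nat_lit 210) (nat_lit 1) (nat_lit 207) (nat_lit 431) (nat_lit 382))))) (XT.nd (nat_lit 234) (nat_lit 304) (nat_lit 0) (XT.nd (nat_lit 78) (nat_lit 304) (nat_lit 0) (XT.lf (nat_lit 76) (nat_lit 11949370829) (nat_lit 0) (nat_lit 100592626841) (nat_lit 228) (nat_lit 11949370829) (nat_lit 209) (nat_lit 1) (nat_lit 208) (nat_lit 1) (nat_lit 211) (nat_lit 1) (nat_lit 208) (nat_lit 431) (nat_lit 381)) (XT.nd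 (nat_lit 78) (nat_lit 152) (nat_lit 0) (XT.lf (nat_lit 76) (nat_lit 55482570018) (nat_lit 0) (nat_lit 11349568503) (nat_lit 152) (nat_lit 55482570018) (nat_lit 207) (nat_lit 1) (nat_lit 206) (nat_lit 1) (nat_lit 208) (nat_lit 1) (nat_lit 209) (nat_lit 431) (nat_lit 380)) (XT.lf (nat_lit 228) (nat_lit 75470525210) (nat_lit 0) (nat_lit 22363310034) (nat_lit 152) (nat_lit 22363310034) (nat_lit 207) (nat_lit 1) (nat_lit 204) (nat_lit 1) (nat_lit 206) (nat_lit 1) (nat_lit 210) (nat_lit 431) (nat_lit 379)))) (XT.nd (nat_lit 156) (nat_lit 228) (nat_lit 0) (XT.nd (nat_lit 78) (nat_lit 76) (nat_lit 0) (XT.lf (nat_lit 76) (nat_lit 20214454205) (nat_lit 0) (nat_lit 77692594632) (nat_lit 228) (nat_lit 20214454205) (nat_lit 205) (nat_lit 1) (nat_lit 204) (nat_lit 1) (nat_lit 207) (nat_lit 1) (nat_lit 211) (nat_lit 431) (nat_lit 378)) (XT.lf (nat_lit 152) (nat_lit 5802833667) (nat_lit 0) (nat_lit 55141097758)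 (nat_lit 76) (nat_lit 55141097758) (nat_lit 205) (nat_lit 1) (nat_lit 203) (nat_lit 1) (nat_lit 204) (nat_lit 1) (nat_lit 212) (nat_lit 431) (nat_lit 377))) (XT.nd (nat_lit 78) (nat_lit 0) (nat_lit 0) (XT.lf (nat_lit 228) (nat_lit 87268386471) (nat_lit 0) (nat_lit 13414839004) (nat_lit 152) (nat_lit 13414839004) (nat_lit 203) (nat_lit 1) (nat_lit 200) (nat_lit 1) (nat_lit 202) (nat_lit 1) (nat_lit 213) (nat_lit 431) (nat_lit 376)) (XT.lf (nat_lit 76) (nat_lit 26519697932) (nat_lit 0) (nat_lit 59093881862) (nat_lit 228) (nat_lit 26519697932) (nat_lit 201) (nat_lit 1) (nat_lit 200) (nat_lit 1) (nat_lit 203) (nat_lit 1) (nat_lit 214) (nat_lit 431) (nat_lit 375))))))) (XT.nd (nat_lit 1014) (nat_lit 912) (nat_lit 0) (XT.nd (nat_lit 468) (nat_lit 532) (nat_lit 0) (XT.nd (nat_lit 234) (nat_lit 304) (nat_lit 0) (XT.nd (nat_lit 78) (nat_lit 228) (nat_lit 0) (XT.lf (nat_lit 152) (nat_lit 19487230064) (nat_lit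 0) (nat_lit 45364717588) (nat_lit 76) (nat_lit 45364717588) (nat_lit 201) (nat_lit 1) (nat_lit 199) (nat_lit 1) (nat_lit 200) (nat_lit 1) (nat_lit 215) (nat_lit 431) (nat_lit 374)) (XT.nd (nat_lit 78) (nat_lit 0) (nat_lit 0) (XT.lf (nat_lit 228) (nat_lit 95775535242) (nat_lit 0) (nat_lit 6290219814) (nat_lit 152) (nat_lit 6290219814) (nat_lit 199) (nat_lit 1) (nat_lit 196) (nat_lit 1) (nat_lit 198) (nat_lit 1) (nat_lit 216) (nat_lit 431) (nat_lit 373)) (XT.lf (nat_lit 76) (nat_lit 31236122481) (nat_lit 0) (nat_lit 44022389505) (nat_lit 228) (nat_lit 31236122481) (nat_lit 197) (nat_lit 1) (nat_lit 196) (nat_lit 1) (nat_lit 199) (nat_lit 1) (nat_lit 217) (nat_lit 431) (nat_lit 372)))) (XT.nd (nat_lit 78) (nat_lit 228) (nat_lit 0) (XT.lf (nat_lit 152) (nat_lit 30044787110) (nat_lit 0) (nat_lit 37321665428) (nat_lit 76) (nat_lit 37321665428) (nat_lit 197) (nat_lit 1) (nat_lit 195) (nat_lit 1) (nat_lit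 196) (nat_lit 1) (nat_lit 218) (nat_lit 431) (nat_lit 371)) (XT.nd (nat_lit 78) (nat_lit 0) (nat_lit 0) (XT.lf (nat_lit 228) (nat_lit 101632501031) (nat_lit 0) (nat_lit 654787566) (nat_lit 152) (nat_lit 654787566) (nat_lit 195) (nat_lit 1) (nat_lit 192) (nat_lit 1) (nat_lit 194) (nat_lit 1) (nat_lit 219) (nat_lit 431) (nat_lit 370)) (XT.lf (nat_lit 76) (nat_lit 34667846090) (nat_lit 0) (nat_lit 31841811318) (nat_lit 228) (nat_lit 34667846090) (nat_lit 193) (nat_lit 1) (nat_lit 192) (nat_lit 1) (nat_lit 195) (nat_lit 1) (nat_lit 220) (nat_lit 431) (nat_lit 369))))) (XT.nd (nat_lit 234) (nat_lit 304) (nat_lit 0) (XT.nd (nat_lit 78) (nat_lit 152) (nat_lit 0) (XT.lf (nat_lit 152) (nat_lit 38063249005) (nat_lit 0) (nat_lit 30704626511) (nat_lit 76) (nat_lit 30704626511) (nat_lit 193) (nat_lit 1) (nat_lit 191) (nat_lit 1) (nat_lit 192) (nat_lit 1) (nat_lit 221) (nat_lit 431) (nat_lit 368)) (XT.nd (nat_lit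 78) (nat_lit 152) (nat_lit 0) (XT.lf (nat_lit 0) (nat_lit 3827991051) (nat_lit 0) (nat_lit 90162995300) (nat_lit 152) (nat_lit 3827991051) (nat_lit 191) (nat_lit 3) (nat_lit 191) (nat_lit 1) (nat_lit 193) (nat_lit 1) (nat_lit 222) (nat_lit 431) (nat_lit 367)) (XT.lf (nat_lit 76) (nat_lit 37063999746) (nat_lit 0) (nat_lit 22029177475) (nat_lit 152) (nat_lit 37063999746) (nat_lit 190) (nat_lit 1) (nat_lit 189) (nat_lit 1) (nat_lit 191) (nat_lit 1) (nat_lit 223) (nat_lit 431) (nat_lit 366)))) (XT.nd (nat_lit 156) (nat_lit 228) (nat_lit 0) (XT.nd (nat_lit 78) (nat_lit 0) (nat_lit 0) (XT.lf (nat_lit 152) (nat_lit 44024565627) (nat_lit 0) (nat_lit 25260772218) (nat_lit 76) (nat_lit 25260772218) (nat_lit 190) (nat_lit 1) (nat_lit 188) (nat_lit 1) (nat_lit 189) (nat_lit 1) (nat_lit 224) (nat_lit 431) (nat_lit 365)) (XT.lf (nat_lit 0) (nat_lit 7316457210) (nat_lit 0) (nat_lit 78344478867) (nat_lit 152)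 (nat_lit 7316457210) (nat_lit 188) (nat_lit 3) (nat_lit 188) (nat_lit 1) (nat_lit 190) (nat_lit 1) (nat_lit 225) (nat_lit 431) (nat_lit 364))) (XT.nd (nat_lit 78) (nat_lit 76) (nat_lit 0) (XT.lf (nat_lit 76) (nat_lit 38628527148) (nat_lit 0) (nat_lit 14154735494) (nat_lit 152) (nat_lit 38628527148) (nat_lit 187) (nat_lit 1) (nat_lit 186) (nat_lit 1) (nat_lit 188) (nat_lit 1) (nat_lit 226) (nat_lit 431) (nat_lit 363)) (XT.lf (nat_lit 152) (nat_lit 48323725256) (nat_lit 0) (nat_lit 20782099819) (nat_lit 76) (nat_lit 20782099819) (nat_lit 187) (nat_lit 1) (nat_lit 185) (nat_lit 1) (nat_lit 186) (nat_lit 1) (nat_lit 227) (nat_lit 431) (nat_lit 362)))))) (XT.nd (nat_lit 468) (nat_lit 456) (nat_lit 0) (XT.nd (nat_lit 234) (nat_lit 228) (nat_lit 0) (XT.nd (nat_lit 78) (nat_lit 228) (nat_lit 0) (XT.lf (nat_lit 0) (nat_lit 9987990785) (nat_lit 0) (nat_lit 68422919982) (nat_lit 152) (nat_lit 9987990785)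 (nat_lit 185) (nat_lit 3) (nat_lit 185) (nat_lit 1) (nat_lit 187) (nat_lit 1) (nat_lit 228) (nat_lit 431) (nat_lit 361)) (XT.nd (nat_lit 78) (nat_lit 76) (nat_lit 0) (XT.lf (nat_lit 76) (nat_lit 39528244721) (nat_lit 0) (nat_lit 7865399414) (nat_lit 152) (nat_lit 39528244721) (nat_lit 184) (nat_lit 1) (nat_lit 183) (nat_lit 1) (nat_lit 185) (nat_lit 1) (nat_lit 229) (nat_lit 431) (nat_lit 360)) (XT.lf (nat_lit 152) (nat_lit 51284244705) (nat_lit 0) (nat_lit 17097484952) (nat_lit 76) (nat_lit 17097484952) (nat_lit 184) (nat_lit 1) (nat_lit 182) (nat_lit 1) (nat_lit 183) (nat_lit 1) (nat_lit 230) (nat_lit 431) (nat_lit 359)))) (XT.nd (nat_lit 78) (nat_lit 228) (nat_lit 0) (XT.lf (nat_lit 0) (nat_lit 11996881244) (nat_lit 0) (nat_lit 60071442109) (nat_lit 152) (nat_lit 11996881244) (nat_lit 182) (nat_lit 3) (nat_lit 182) (nat_lit 1) (nat_lit 184) (nat_lit 1) (nat_lit 231) (nat_lit 431) (nat_lit 358))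 (XT.nd (nat_lit 78) (nat_lit 76) (nat_lit 0) (XT.lf (nat_lit 76) (nat_lit 39899470317) (nat_lit 0) (nat_lit 2871134508) (nat_lit 152) (nat_lit 39899470317) (nat_lit 181) (nat_lit 1) (nat_lit 180) (nat_lit 1) (nat_lit 182) (nat_lit 1) (nat_lit 232) (nat_lit 431) (nat_lit 357)) (XT.lf (nat_lit 152) (nat_lit 53170909652) (nat_lit 0) (nat_lit 14066143183) (nat_lit 76) (nat_lit 14066143183) (nat_lit 181) (nat_lit 1) (nat_lit 179) (nat_lit 1) (nat_lit 180) (nat_lit 1) (nat_lit 233) (nat_lit 431) (nat_lit 356))))) (XT.nd (nat_lit 234) (nat_lit 228) (nat_lit 0) (XT.nd (nat_lit 78) (nat_lit 228) (nat_lit 0) (XT.lf (nat_lit 0) (nat_lit 13469612944) (nat_lit 0) (nat_lit 53020673141) (nat_lit 152) (nat_lit 13469612944) (nat_lit 179) (nat_lit 3) (nat_lit 179) (nat_lit 1) (nat_lit 181) (nat_lit 1) (nat_lit 234) (nat_lit 431) (nat_lit 355)) (XT.nd (nat_lit 78) (nat_lit 152) (nat_lit 0) (XT.lf (nat_lit 76) (nat_lit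 1101497774) (nat_lit 0) (nat_lit 38769174153) (nat_lit 76) (nat_lit 38769174153) (nat_lit 179) (nat_lit 3) (nat_lit 178) (nat_lit 1) (nat_lit 179) (nat_lit 1) (nat_lit 235) (nat_lit 431) (nat_lit 354)) (XT.lf (nat_lit 152) (nat_lit 54200252877) (nat_lit 0) (nat_lit 11572250807) (nat_lit 76) (nat_lit 11572250807) (nat_lit 178) (nat_lit 1) (nat_lit 176) (nat_lit 1) (nat_lit 177) (nat_lit 1) (nat_lit 236) (nat_lit 431) (nat_lit 353)))) (XT.nd (nat_lit 156) (nat_lit 152) (nat_lit 0) (XT.nd (nat_lit 78) (nat_lit 76) (nat_lit 0) (XT.lf (nat_lit 0) (nat_lit 14509816336) (nat_lit 0) (nat_lit 47048571441) (nat_lit 152) (nat_lit 14509816336) (nat_lit 176) (nat_lit 3) (nat_lit 176) (nat_lit 1) (nat_lit 178) (nat_lit 1) (nat_lit 237) (nat_lit 431) (nat_lit 352)) (XT.lf (nat_lit 76) (nat_lit 4279241693) (nat_lit 0) (nat_lit 35268532269) (nat_lit 76) (nat_lit 35268532269) (nat_lit 176) (nat_lit 3) (nat_lit 175)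 (nat_lit 1) (nat_lit 176) (nat_lit 1) (nat_lit 238) (nat_lit 431) (nat_lit 351))) (XT.nd (nat_lit 78) (nat_lit 0) (nat_lit 0) (XT.lf (nat_lit 152) (nat_lit 54549171623) (nat_lit 0) (nat_lit 9520519378) (nat_lit 76) (nat_lit 9520519378) (nat_lit 175) (nat_lit 1) (nat_lit 173) (nat_lit 1) (nat_lit 174) (nat_lit 1) (nat_lit 239) (nat_lit 431) (nat_lit 350)) (XT.lf (nat_lit 0) (nat_lit 15202340315) (nat_lit 0) (nat_lit 41972054667) (nat_lit 152) (nat_lit 15202340315) (nat_lit 173) (nat_lit 3) (nat_lit 173) (nat_lit 1) (nat_lit 175) (nat_lit 1) (nat_lit 240) (nat_lit 431) (nat_lit 349))))))))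
noncomputable def ec412 : XT := (XT.nd (nat_lit 1950) (nat_lit 1976) (nat_lit 0) (XT.nd (nat_lit 936) (nat_lit 988) (nat_lit 0) (XT.nd (nat_lit 468) (nat_lit 456) (nat_lit 0) (XT.nd (nat_lit 234) (nat_lit 228) (nat_lit 0) (XT.nd (nat_lit 78) (nat_lit 152) (nat_lit 0) (XT.lf (nat_lit 76) (nat_lit 6732958681) (nat_lit 0) (nat_lit 32227924731) (nat_lit 76) (nat_lit 32227924731) (nat_lit 173) (nat_lit 3) (nat_lit 172) (nat_lit 1) (nat_lit 173) (nat_lit 1) (nat_lit 241) (nat_lit 431) (nat_lit 348)) (XT.nd (nat_lit 78) (nat_lit 0) (nat_lit 0) (XT.lf (nat_lit 152) (nat_lit 54362014156) (nat_lit 0) (nat_lit 7832554853) (nat_lit 76) (nat_lit 7832554853) (nat_lit 172) (nat_lit 1) (nat_lit 170) (nat_lit 1) (nat_lit 171) (nat_lit 1) (nat_lit 242) (nat_lit 431) (nat_lit 347)) (XT.lf (nat_lit 0) (nat_lit 15616601578) (nat_lit 0) (nat_lit 37640111825) (nat_lit 152) (nat_lit 15616601578) (nat_lit 170) (nat_lit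 3) (nat_lit 170) (nat_lit 1) (nat_lit 172) (nat_lit 1) (nat_lit 243) (nat_lit 431) (nat_lit 346)))) (XT.nd (nat_lit 78) (nat_lit 152) (nat_lit 0) (XT.lf (nat_lit 76) (nat_lit 8598665532) (nat_lit 0) (nat_lit 29573437196) (nat_lit 76) (nat_lit 29573437196) (nat_lit 170) (nat_lit 3) (nat_lit 169) (nat_lit 1) (nat_lit 170) (nat_lit 1) (nat_lit 244) (nat_lit 431) (nat_lit 345)) (XT.nd (nat_lit 78) (nat_lit 0) (nat_lit 0) (XT.lf (nat_lit 152) (nat_lit 53756407070) (nat_lit 0) (nat_lit 6443862262) (nat_lit 76) (nat_lit 6443862262) (nat_lit 169) (nat_lit 1) (nat_lit 167) (nat_lit 1) (nat_lit 168) (nat_lit 1) (nat_lit 245) (nat_lit 431) (nat_lit 344)) (XT.lf (nat_lit 0) (nat_lit 15809339222) (nat_lit 0) (nat_lit 33928135605) (nat_lit 152) (nat_lit 15809339222) (nat_lit 167) (nat_lit 3) (nat_lit 167) (nat_lit 1) (nat_lit 169) (nat_lit 1) (nat_lit 246) (nat_lit 431) (nat_lit 343))))) (XT.nd (nat_lit 234)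 (nat_lit 228) (nat_lit 0) (XT.nd (nat_lit 78) (nat_lit 152) (nat_lit 0) (XT.lf (nat_lit 76) (nat_lit 9987899377) (nat_lit 0) (nat_lit 27243895933) (nat_lit 76) (nat_lit 27243895933) (nat_lit 167) (nat_lit 3) (nat_lit 166) (nat_lit 1) (nat_lit 167) (nat_lit 1) (nat_lit 247) (nat_lit 431) (nat_lit 342)) (XT.nd (nat_lit 78) (nat_lit 0) (nat_lit 0) (XT.lf (nat_lit 152) (nat_lit 52828046741) (nat_lit 0) (nat_lit 5301381430) (nat_lit 76) (nat_lit 5301381430) (nat_lit 166) (nat_lit 1) (nat_lit 164) (nat_lit 1) (nat_lit 165) (nat_lit 1) (nat_lit 248) (nat_lit 431) (nat_lit 341)) (XT.lf (nat_lit 0) (nat_lit 15826880079) (nat_lit 0) (nat_lit 30733258704) (nat_lit 152) (nat_lit 15826880079) (nat_lit 164) (nat_lit 3) (nat_lit 164) (nat_lit 1) (nat_lit 166) (nat_lit 1) (nat_lit 249) (nat_lit 431) (nat_lit 340)))) (XT.nd (nat_lit 78) (nat_lit 152) (nat_lit 0) (XT.lf (nat_lit 76) (nat_lit 10992075216) (nat_lit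 0) (nat_lit 25188626287) (nat_lit 76) (nat_lit 25188626287) (nat_lit 164) (nat_lit 3) (nat_lit 163) (nat_lit 1) (nat_lit 164) (nat_lit 1) (nat_lit 250) (nat_lit 431) (nat_lit 339)) (XT.nd (nat_lit 78) (nat_lit 0) (nat_lit 0) (XT.lf (nat_lit 152) (nat_lit 51654638706) (nat_lit 0) (nat_lit 4361459622) (nat_lit 76) (nat_lit 4361459622) (nat_lit 163) (nat_lit 1) (nat_lit 161) (nat_lit 1) (nat_lit 162) (nat_lit 1) (nat_lit 251) (nat_lit 431) (nat_lit 338)) (XT.lf (nat_lit 0) (nat_lit 15707001577) (nat_lit 0) (nat_lit 27970516162) (nat_lit 152) (nat_lit 15707001577) (nat_lit 161) (nat_lit 3) (nat_lit 161) (nat_lit 1) (nat_lit 163) (nat_lit 1) (nat_lit 252) (nat_lit 431) (nat_lit 337)))))) (XT.nd (nat_lit 468) (nat_lit 532) (nat_lit 0) (XT.nd (nat_lit 234) (nat_lit 228) (nat_lit 0) (XT.nd (nat_lit 78) (nat_lit 152) (nat_lit 0) (XT.lf (nat_lit 76) (nat_lit 11686070036) (nat_lit 0) (nat_lit 23365607736)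 (nat_lit 76) (nat_lit 23365607736) (nat_lit 161) (nat_lit 3) (nat_lit 160) (nat_lit 1) (nat_lit 161) (nat_lit 1) (nat_lit 253) (nat_lit 431) (nat_lit 336)) (XT.nd (nat_lit 78) (nat_lit 0) (nat_lit 0) (XT.lf (nat_lit 152) (nat_lit 50299136158) (nat_lit 0) (nat_lit 3588183625) (nat_lit 76) (nat_lit 3588183625) (nat_lit 160) (nat_lit 1) (nat_lit 158) (nat_lit 1) (nat_lit 159) (nat_lit 1) (nat_lit 254) (nat_lit 431) (nat_lit 335)) (XT.lf (nat_lit 0) (nat_lit 15480463515) (nat_lit 0) (nat_lit 25569687314) (nat_lit 152) (nat_lit 15480463515) (nat_lit 158) (nat_lit 3) (nat_lit 158) (nat_lit 1) (nat_lit 160) (nat_lit 1) (nat_lit 255) (nat_lit 431) (nat_lit 334)))) (XT.nd (nat_lit 78) (nat_lit 152) (nat_lit 0) (XT.lf (nat_lit 76) (nat_lit 12131170694) (nat_lit 0) (nat_lit 21739955264) (nat_lit 76) (nat_lit 21739955264) (nat_lit 158) (nat_lit 3) (nat_lit 157) (nat_lit 1) (nat_lit 158) (nat_lit 1) (nat_lit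 256) (nat_lit 431) (nat_lit 333)) (XT.nd (nat_lit 78) (nat_lit 0) (nat_lit 0) (XT.lf (nat_lit 152) (nat_lit 48812401949) (nat_lit 0) (nat_lit 2952007548) (nat_lit 76) (nat_lit 2952007548) (nat_lit 157) (nat_lit 1) (nat_lit 155) (nat_lit 1) (nat_lit 156) (nat_lit 1) (nat_lit 257) (nat_lit 431) (nat_lit 332)) (XT.lf (nat_lit 0) (nat_lit 15172267498) (nat_lit 0) (nat_lit 23472696886) (nat_lit 152) (nat_lit 15172267498) (nat_lit 155) (nat_lit 3) (nat_lit 155) (nat_lit 1) (nat_lit 157) (nat_lit 1) (nat_lit 258) (nat_lit 431) (nat_lit 331))))) (XT.nd (nat_lit 234) (nat_lit 304) (nat_lit 0) (XT.nd (nat_lit 78) (nat_lit 152) (nat_lit 0) (XT.lf (nat_lit 76) (nat_lit 12377498395) (nat_lit 0) (nat_lit 20282669240) (nat_lit 76) (nat_lit 20282669240) (nat_lit 155) (nat_lit 3) (nat_lit 154) (nat_lit 1) (nat_lit 155) (nat_lit 1) (nat_lit 259) (nat_lit 431) (nat_lit 330)) (XT.nd (nat_lit 78) (nat_lit 0) (nat_lit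 0) (XT.lf (nat_lit 152) (nat_lit 47235396410) (nat_lit 0) (nat_lit 2428623915) (nat_lit 76) (nat_lit 2428623915) (nat_lit 154) (nat_lit 1) (nat_lit 152) (nat_lit 1) (nat_lit 153) (nat_lit 1) (nat_lit 260) (nat_lit 431) (nat_lit 329)) (XT.lf (nat_lit 0) (nat_lit 14802692355) (nat_lit 0) (nat_lit 21631476155) (nat_lit 152) (nat_lit 14802692355) (nat_lit 152) (nat_lit 3) (nat_lit 152) (nat_lit 1) (nat_lit 154) (nat_lit 1) (nat_lit 261) (nat_lit 431) (nat_lit 328)))) (XT.nd (nat_lit 156) (nat_lit 76) (nat_lit 0) (XT.nd (nat_lit 78) (nat_lit 152) (nat_lit 0) (XT.lf (nat_lit 76) (nat_lit 12466002602) (nat_lit 0) (nat_lit 18969606220) (nat_lit 76) (nat_lit 18969606220) (nat_lit 152) (nat_lit 3) (nat_lit 151) (nat_lit 1) (nat_lit 152) (nat_lit 1) (nat_lit 262) (nat_lit 431) (nat_lit 327)) (XT.lf (nat_lit 152) (nat_lit 45600975169) (nat_lit 0) (nat_lit 1998034905) (nat_lit 76) (nat_lit 1998034905) (nat_lit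 151) (nat_lit 1) (nat_lit 149) (nat_lit 1) (nat_lit 150) (nat_lit 1) (nat_lit 263) (nat_lit 431) (nat_lit 326))) (XT.nd (nat_lit 78) (nat_lit 76) (nat_lit 0) (XT.lf (nat_lit 0) (nat_lit 14388145288) (nat_lit 0) (nat_lit 20006202619) (nat_lit 152) (nat_lit 14388145288) (nat_lit 149) (nat_lit 3) (nat_lit 149) (nat_lit 1) (nat_lit 151) (nat_lit 1) (nat_lit 264) (nat_lit 431) (nat_lit 325)) (XT.lf (nat_lit 76) (nat_lit 12430100754) (nat_lit 0) (nat_lit 17780631546) (nat_lit 76) (nat_lit 17780631546) (nat_lit 149) (nat_lit 3) (nat_lit 148) (nat_lit 1) (nat_lit 149) (nat_lit 1) (nat_lit 265) (nat_lit 431) (nat_lit 324))))))) (XT.nd (nat_lit 936) (nat_lit 1064) (nat_lit 0) (XT.nd (nat_lit 468) (nat_lit 456) (nat_lit 0) (XT.nd (nat_lit 234) (nat_lit 228) (nat_lit 0) (XT.nd (nat_lit 78) (nat_lit 76) (nat_lit 0) (XT.lf (nat_lit 152) (nat_lit 43935366214) (nat_lit 0) (nat_lit 1643788261) (nat_lit 76) (nat_lit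 1643788261) (nat_lit 148) (nat_lit 1) (nat_lit 146) (nat_lit 1) (nat_lit 147) (nat_lit 1) (nat_lit 266) (nat_lit 431) (nat_lit 323)) (XT.nd (nat_lit 78) (nat_lit 76) (nat_lit 0) (XT.lf (nat_lit 0) (nat_lit 13941861454) (nat_lit 0) (nat_lit 18563851124) (nat_lit 152) (nat_lit 13941861454) (nat_lit 146) (nat_lit 3) (nat_lit 146) (nat_lit 1) (nat_lit 148) (nat_lit 1) (nat_lit 267) (nat_lit 431) (nat_lit 322)) (XT.lf (nat_lit 76) (nat_lit 12297026616) (nat_lit 0) (nat_lit 16698921540) (nat_lit 76) (nat_lit 16698921540) (nat_lit 146) (nat_lit 3) (nat_lit 145) (nat_lit 1) (nat_lit 146) (nat_lit 1) (nat_lit 268) (nat_lit 431) (nat_lit 321)))) (XT.nd (nat_lit 78) (nat_lit 76) (nat_lit 0) (XT.lf (nat_lit 152) (nat_lit 42259383172) (nat_lit 0) (nat_lit 1352348670) (nat_lit 76) (nat_lit 1352348670) (nat_lit 145) (nat_lit 1) (nat_lit 143) (nat_lit 1) (nat_lit 144) (nat_lit 1) (nat_lit 269) (nat_lit 431) (nat_lit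 320)) (XT.nd (nat_lit 78) (nat_lit 76) (nat_lit 0) (XT.lf (nat_lit 0) (nat_lit 13474478891) (nat_lit 0) (nat_lit 17277001231) (nat_lit 152) (nat_lit 13474478891) (nat_lit 143) (nat_lit 3) (nat_lit 143) (nat_lit 1) (nat_lit 145) (nat_lit 1) (nat_lit 270) (nat_lit 431) (nat_lit 319)) (XT.lf (nat_lit 76) (nat_lit 12088938958) (nat_lit 0) (nat_lit 15710388805) (nat_lit 76) (nat_lit 15710388805) (nat_lit 143) (nat_lit 3) (nat_lit 142) (nat_lit 1) (nat_lit 143) (nat_lit 1) (nat_lit 271) (nat_lit 431) (nat_lit 318))))) (XT.nd (nat_lit 234) (nat_lit 228) (nat_lit 0) (XT.nd (nat_lit 78) (nat_lit 76) (nat_lit 0) (XT.lf (nat_lit 152) (nat_lit 40589421649) (nat_lit 0) (nat_lit 1112580598) (nat_lit 76) (nat_lit 1112580598) (nat_lit 142) (nat_lit 1) (nat_lit 140) (nat_lit 1) (nat_lit 141) (nat_lit 1) (nat_lit 272) (nat_lit 431) (nat_lit 317)) (XT.nd (nat_lit 78) (nat_lit 76) (nat_lit 0) (XT.lf (nat_lit 0) (nat_lit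 12994510910) (nat_lit 0) (nat_lit 16122855450) (nat_lit 152) (nat_lit 12994510910) (nat_lit 140) (nat_lit 3) (nat_lit 140) (nat_lit 1) (nat_lit 142) (nat_lit 1) (nat_lit 273) (nat_lit 431) (nat_lit 316)) (XT.lf (nat_lit 76) (nat_lit 11823833072) (nat_lit 0) (nat_lit 14803208824) (nat_lit 76) (nat_lit 14803208824) (nat_lit 140) (nat_lit 3) (nat_lit 139) (nat_lit 1) (nat_lit 140) (nat_lit 1) (nat_lit 274) (nat_lit 431) (nat_lit 315)))) (XT.nd (nat_lit 78) (nat_lit 76) (nat_lit 0) (XT.lf (nat_lit 152) (nat_lit 38938277193) (nat_lit 0) (nat_lit 915322811) (nat_lit 76) (nat_lit 915322811) (nat_lit 139) (nat_lit 1) (nat_lit 137) (nat_lit 1) (nat_lit 138) (nat_lit 1) (nat_lit 275) (nat_lit 431) (nat_lit 314)) (XT.nd (nat_lit 78) (nat_lit 76) (nat_lit 0) (XT.lf (nat_lit 0) (nat_lit 12508734171) (nat_lit 0) (nat_lit 15082430965) (nat_lit 152) (nat_lit 12508734171) (nat_lit 137) (nat_lit 3) (nat_lit 137)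 (nat_lit 1) (nat_lit 139) (nat_lit 1) (nat_lit 276) (nat_lit 431) (nat_lit 313)) (XT.lf (nat_lit 76) (nat_lit 11516290134) (nat_lit 0) (nat_lit 13967429939) (nat_lit 76) (nat_lit 13967429939) (nat_lit 137) (nat_lit 3) (nat_lit 136) (nat_lit 1) (nat_lit 137) (nat_lit 1) (nat_lit 277) (nat_lit 431) (nat_lit 312)))))) (XT.nd (nat_lit 468) (nat_lit 608) (nat_lit 0) (XT.nd (nat_lit 234) (nat_lit 228) (nat_lit 0) (XT.nd (nat_lit 78) (nat_lit 76) (nat_lit 0) (XT.lf (nat_lit 152) (nat_lit 37315816585) (nat_lit 0) (nat_lit 753038342) (nat_lit 76) (nat_lit 753038342) (nat_lit 136) (nat_lit 1) (nat_lit 134) (nat_lit 1) (nat_lit 135) (nat_lit 1) (nat_lit 278) (nat_lit 431) (nat_lit 311)) (XT.nd (nat_lit 78) (nat_lit 76) (nat_lit 0) (XT.lf (nat_lit 0) (nat_lit 12022507402) (nat_lit 0) (nat_lit 14139894125) (nat_lit 152) (nat_lit 12022507402) (nat_lit 134) (nat_lit 3) (nat_lit 134) (nat_lit 1) (nat_lit 136)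 (nat_lit 1) (nat_lit 279) (nat_lit 431) (nat_lit 310)) (XT.lf (nat_lit 76) (nat_lit 11178093159) (nat_lit 0) (nat_lit 13194651943) (nat_lit 76) (nat_lit 13194651943) (nat_lit 134) (nat_lit 3) (nat_lit 133) (nat_lit 1) (nat_lit 134) (nat_lit 1) (nat_lit 280) (nat_lit 431) (nat_lit 309)))) (XT.nd (nat_lit 78) (nat_lit 76) (nat_lit 0) (XT.lf (nat_lit 152) (nat_lit 35729528533) (nat_lit 0) (nat_lit 619526507) (nat_lit 76) (nat_lit 619526507) (nat_lit 133) (nat_lit 1) (nat_lit 131) (nat_lit 1) (nat_lit 132) (nat_lit 1) (nat_lit 281) (nat_lit 431) (nat_lit 308)) (XT.nd (nat_lit 78) (nat_lit 76) (nat_lit 0) (XT.lf (nat_lit 0) (nat_lit 11540033111) (nat_lit 0) (nat_lit 13282012408) (nat_lit 152) (nat_lit 11540033111) (nat_lit 131) (nat_lit 3) (nat_lit 131) (nat_lit 1) (nat_lit 133) (nat_lit 1) (nat_lit 282) (nat_lit 431) (nat_lit 307)) (XT.lf (nat_lit 76) (nat_lit 10818733254) (nat_lit 0) (nat_lit 12477761156)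 (nat_lit 76) (nat_lit 12477761156) (nat_lit 131) (nat_lit 3) (nat_lit 130) (nat_lit 1) (nat_lit 131) (nat_lit 1) (nat_lit 283) (nat_lit 431) (nat_lit 306))))) (XT.nd (nat_lit 234) (nat_lit 380) (nat_lit 0) (XT.nd (nat_lit 78) (nat_lit 76) (nat_lit 0) (XT.lf (nat_lit 152) (nat_lit 34184975242) (nat_lit 0) (nat_lit 509685991) (nat_lit 76) (nat_lit 509685991) (nat_lit 130) (nat_lit 1) (nat_lit 128) (nat_lit 1) (nat_lit 129) (nat_lit 1) (nat_lit 284) (nat_lit 431) (nat_lit 305)) (XT.nd (nat_lit 78) (nat_lit 76) (nat_lit 0) (XT.lf (nat_lit 0) (nat_lit 11064572388) (nat_lit 0) (nat_lit 12497703067) (nat_lit 152) (nat_lit 11064572388) (nat_lit 128) (nat_lit 3) (nat_lit 128) (nat_lit 1) (nat_lit 130) (nat_lit 1) (nat_lit 285) (nat_lit 431) (nat_lit 304)) (XT.lf (nat_lit 76) (nat_lit 10445825621) (nat_lit 0) (nat_lit 11810711981) (nat_lit 76) (nat_lit 11810711981) (nat_lit 128) (nat_lit 3) (nat_lit 127)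 (nat_lit 1) (nat_lit 128) (nat_lit 1) (nat_lit 286) (nat_lit 431) (nat_lit 303)))) (XT.nd (nat_lit 156) (nat_lit 228) (nat_lit 0) (XT.nd (nat_lit 78) (nat_lit 0) (nat_lit 0) (XT.lf (nat_lit 152) (nat_lit 32686162490) (nat_lit 0) (nat_lit 419319926) (nat_lit 76) (nat_lit 419319926) (nat_lit 127) (nat_lit 1) (nat_lit 125) (nat_lit 1) (nat_lit 126) (nat_lit 1) (nat_lit 287) (nat_lit 431) (nat_lit 302)) (XT.lf (nat_lit 0) (nat_lit 10598621171) (nat_lit 0) (nat_lit 11777661326) (nat_lit 152) (nat_lit 10598621171) (nat_lit 125) (nat_lit 3) (nat_lit 125) (nat_lit 1) (nat_lit 127) (nat_lit 1) (nat_lit 288) (nat_lit 431) (nat_lit 301))) (XT.nd (nat_lit 78) (nat_lit 152) (nat_lit 0) (XT.lf (nat_lit 76) (nat_lit 10065451350) (nat_lit 0) (nat_lit 11188346736) (nat_lit 76) (nat_lit 11188346736) (nat_lit 125) (nat_lit 3) (nat_lit 124) (nat_lit 1) (nat_lit 125) (nat_lit 1) (nat_lit 289) (nat_lit 431) (nat_lit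 300)) (XT.lf (nat_lit 152) (nat_lit 31235842731) (nat_lit 0) (nat_lit 344975541) (nat_lit 76) (nat_lit 344975541) (nat_lit 124) (nat_lit 1) (nat_lit 122) (nat_lit 1) (nat_lit 123) (nat_lit 1) (nat_lit 290) (nat_lit 431) (nat_lit 299))))))))
noncomputable def ec413 : XT := (XT.nd (nat_lit 1950) (nat_lit 2052) (nat_lit 0) (XT.nd (nat_lit 936) (nat_lit 912) (nat_lit 0) (XT.nd (nat_lit 468) (nat_lit 456) (nat_lit 0) (XT.nd (nat_lit 234) (nat_lit 228) (nat_lit 0) (XT.nd (nat_lit 78) (nat_lit 228) (nat_lit 0) (XT.lf (nat_lit 0) (nat_lit 10144054804) (nat_lit 0) (nat_lit 11114054058) (nat_lit 152) (nat_lit 10144054804) (nat_lit 122) (nat_lit 3) (nat_lit 122) (nat_lit 1) (nat_lit 124) (nat_lit 1) (nat_lit 291) (nat_lit 431) (nat_lit 298)) (XT.nd (nat_lit 78) (nat_lit 152) (nat_lit 0) (XT.lf (nat_lit 76) (nat_lit 9682438174) (nat_lit 0) (nat_lit 10606246987) (nat_lit 76) (nat_lit 10606246987) (nat_lit 122)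 (nat_lit 3) (nat_lit 121) (nat_lit 1) (nat_lit 122) (nat_lit 1) (nat_lit 292) (nat_lit 431) (nat_lit 297)) (XT.lf (nat_lit 152) (nat_lit 29835763173) (nat_lit 0) (nat_lit 283812231) (nat_lit 76) (nat_lit 283812231) (nat_lit 121) (nat_lit 1) (nat_lit 119) (nat_lit 1) (nat_lit 120) (nat_lit 1) (nat_lit 293) (nat_lit 431) (nat_lit 296)))) (XT.nd (nat_lit 78) (nat_lit 228) (nat_lit 0) (XT.lf (nat_lit 0) (nat_lit 9702246551) (nat_lit 0) (nat_lit 10500267338) (nat_lit 152) (nat_lit 9702246551) (nat_lit 119) (nat_lit 3) (nat_lit 119) (nat_lit 1) (nat_lit 121) (nat_lit 1) (nat_lit 294) (nat_lit 431) (nat_lit 295)) (XT.nd (nat_lit 78) (nat_lit 152) (nat_lit 0) (XT.lf (nat_lit 76) (nat_lit 9300591027) (nat_lit 0) (nat_lit 10060610824) (nat_lit 76) (nat_lit 10060610824) (nat_lit 119) (nat_lit 3) (nat_lit 118) (nat_lit 1) (nat_lit 119) (nat_lit 1) (nat_lit 295) (nat_lit 431) (nat_lit 294)) (XT.lf (nat_lit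 152) (nat_lit 28486868635) (nat_lit 0) (nat_lit 233493025) (nat_lit 76) (nat_lit 233493025) (nat_lit 118) (nat_lit 1) (nat_lit 116) (nat_lit 1) (nat_lit 117) (nat_lit 1) (nat_lit 296) (nat_lit 431) (nat_lit 293))))) (XT.nd (nat_lit 234) (nat_lit 228) (nat_lit 0) (XT.nd (nat_lit 78) (nat_lit 228) (nat_lit 0) (XT.lf (nat_lit 0) (nat_lit 9274164686) (nat_lit 0) (nat_lit 9930698362) (nat_lit 152) (nat_lit 9274164686) (nat_lit 116) (nat_lit 3) (nat_lit 116) (nat_lit 1) (nat_lit 118) (nat_lit 1) (nat_lit 297) (nat_lit 431) (nat_lit 292)) (XT.nd (nat_lit 78) (nat_lit 152) (nat_lit 0) (XT.lf (nat_lit 76) (nat_lit 8922881330) (nat_lit 0) (nat_lit 9548151498) (nat_lit 76) (nat_lit 9548151498) (nat_lit 116) (nat_lit 3) (nat_lit 115) (nat_lit 1) (nat_lit 116) (nat_lit 1) (nat_lit 298) (nat_lit 431) (nat_lit 291)) (XT.lf (nat_lit 152) (nat_lit 27189467263) (nat_lit 0) (nat_lit 192095289) (nat_lit 76) (nat_lit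 192095289) (nat_lit 115) (nat_lit 1) (nat_lit 113) (nat_lit 1) (nat_lit 114) (nat_lit 1) (nat_lit 299) (nat_lit 431) (nat_lit 290)))) (XT.nd (nat_lit 78) (nat_lit 228) (nat_lit 0) (XT.lf (nat_lit 0) (nat_lit 8860451989) (nat_lit 0) (nat_lit 9400583869) (nat_lit 152) (nat_lit 8860451989) (nat_lit 113) (nat_lit 3) (nat_lit 113) (nat_lit 1) (nat_lit 115) (nat_lit 1) (nat_lit 300) (nat_lit 431) (nat_lit 289)) (XT.nd (nat_lit 78) (nat_lit 152) (nat_lit 0) (XT.lf (nat_lit 76) (nat_lit 8551602339) (nat_lit 0) (nat_lit 9066013654) (nat_lit 76) (nat_lit 9066013654) (nat_lit 113) (nat_lit 3) (nat_lit 112) (nat_lit 1) (nat_lit 113) (nat_lit 1) (nat_lit 301) (nat_lit 431) (nat_lit 288)) (XT.lf (nat_lit 152) (nat_lit 25943365756) (nat_lit 0) (nat_lit 158037270) (nat_lit 76) (nat_lit 158037270) (nat_lit 112) (nat_lit 1) (nat_lit 110) (nat_lit 1) (nat_lit 111) (nat_lit 1) (nat_lit 302) (nat_lit 431) (nat_lit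 287)))))) (XT.nd (nat_lit 468) (nat_lit 456) (nat_lit 0) (XT.nd (nat_lit 234) (nat_lit 228) (nat_lit 0) (XT.nd (nat_lit 78) (nat_lit 228) (nat_lit 0) (XT.lf (nat_lit 0) (nat_lit 8461490779) (nat_lit 0) (nat_lit 8905858614) (nat_lit 152) (nat_lit 8461490779) (nat_lit 110) (nat_lit 3) (nat_lit 110) (nat_lit 1) (nat_lit 112) (nat_lit 1) (nat_lit 303) (nat_lit 431) (nat_lit 286)) (XT.nd (nat_lit 78) (nat_lit 152) (nat_lit 0) (XT.lf (nat_lit 76) (nat_lit 8188496585) (nat_lit 0) (nat_lit 8611704047) (nat_lit 76) (nat_lit 8611704047) (nat_lit 110) (nat_lit 3) (nat_lit 109) (nat_lit 1) (nat_lit 110) (nat_lit 1) (nat_lit 304) (nat_lit 431) (nat_lit 285)) (XT.lf (nat_lit 152) (nat_lit 24747979545) (nat_lit 0) (nat_lit 130017653) (nat_lit 76) (nat_lit 130017653) (nat_lit 109) (nat_lit 1) (nat_lit 107) (nat_lit 1) (nat_lit 108) (nat_lit 1) (nat_lit 305) (nat_lit 431) (nat_lit 284)))) (XT.nd (nat_lit 78) (nat_lit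 228) (nat_lit 0) (XT.lf (nat_lit 0) (nat_lit 8077456071) (nat_lit 0) (nat_lit 8443038588) (nat_lit 152) (nat_lit 8077456071) (nat_lit 107) (nat_lit 3) (nat_lit 107) (nat_lit 1) (nat_lit 109) (nat_lit 1) (nat_lit 306) (nat_lit 431) (nat_lit 283)) (XT.nd (nat_lit 78) (nat_lit 152) (nat_lit 0) (XT.lf (nat_lit 76) (nat_lit 7834860384) (nat_lit 0) (nat_lit 8183034210) (nat_lit 76) (nat_lit 8183034210) (nat_lit 107) (nat_lit 3) (nat_lit 106) (nat_lit 1) (nat_lit 107) (nat_lit 1) (nat_lit 307) (nat_lit 431) (nat_lit 282)) (XT.lf (nat_lit 152) (nat_lit 23602422431) (nat_lit 0) (nat_lit 106965845) (nat_lit 76) (nat_lit 106965845) (nat_lit 106) (nat_lit 1) (nat_lit 104) (nat_lit 1) (nat_lit 105) (nat_lit 1) (nat_lit 308) (nat_lit 431) (nat_lit 281))))) (XT.nd (nat_lit 234) (nat_lit 228) (nat_lit 0) (XT.nd (nat_lit 78) (nat_lit 228) (nat_lit 0) (XT.lf (nat_lit 0) (nat_lit 7708358973) (nat_lit 0) (nat_lit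 8009124614) (nat_lit 152) (nat_lit 7708358973) (nat_lit 104) (nat_lit 3) (nat_lit 104) (nat_lit 1) (nat_lit 106) (nat_lit 1) (nat_lit 309) (nat_lit 431) (nat_lit 280)) (XT.nd (nat_lit 78) (nat_lit 152) (nat_lit 0) (XT.lf (nat_lit 76) (nat_lit 7491629483) (nat_lit 0) (nat_lit 7778072952) (nat_lit 76) (nat_lit 7778072952) (nat_lit 104) (nat_lit 3) (nat_lit 103) (nat_lit 1) (nat_lit 104) (nat_lit 1) (nat_lit 310) (nat_lit 431) (nat_lit 279)) (XT.lf (nat_lit 152) (nat_lit 22505579357) (nat_lit 0) (nat_lit 88001065) (nat_lit 76) (nat_lit 88001065) (nat_lit 103) (nat_lit 1) (nat_lit 101) (nat_lit 1) (nat_lit 102) (nat_lit 1) (nat_lit 311) (nat_lit 431) (nat_lit 278)))) (XT.nd (nat_lit 156) (nat_lit 152) (nat_lit 0) (XT.nd (nat_lit 78) (nat_lit 76) (nat_lit 0) (XT.lf (nat_lit 0) (nat_lit 7354082073) (nat_lit 0) (nat_lit 7601522711) (nat_lit 152) (nat_lit 7354082073) (nat_lit 101) (nat_lit 3) (nat_lit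 101) (nat_lit 1) (nat_lit 103) (nat_lit 1) (nat_lit 312) (nat_lit 431) (nat_lit 277)) (XT.lf (nat_lit 76) (nat_lit 7159449217) (nat_lit 0) (nat_lit 7395106967) (nat_lit 76) (nat_lit 7395106967) (nat_lit 101) (nat_lit 3) (nat_lit 100) (nat_lit 1) (nat_lit 101) (nat_lit 1) (nat_lit 313) (nat_lit 431) (nat_lit 276))) (XT.nd (nat_lit 78) (nat_lit 0) (nat_lit 0) (XT.lf (nat_lit 152) (nat_lit 21456165369) (nat_lit 0) (nat_lit 72398694) (nat_lit 76) (nat_lit 72398694) (nat_lit 100) (nat_lit 1) (nat_lit 98) (nat_lit 1) (nat_lit 99) (nat_lit 1) (nat_lit 314) (nat_lit 431) (nat_lit 275)) (XT.lf (nat_lit 0) (nat_lit 7014408254) (nat_lit 0) (nat_lit 7217978279) (nat_lit 152) (nat_lit 7014408254) (nat_lit 98) (nat_lit 3) (nat_lit 98) (nat_lit 1) (nat_lit 100) (nat_lit 1) (nat_lit 315) (nat_lit 431) (nat_lit 274))))))) (XT.nd (nat_lit 1014) (nat_lit 1064) (nat_lit 0) (XT.nd (nat_lit 468) (nat_lit 532) (nat_lit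 0) (XT.nd (nat_lit 234) (nat_lit 228) (nat_lit 0) (XT.nd (nat_lit 78) (nat_lit 152) (nat_lit 0) (XT.lf (nat_lit 76) (nat_lit 6838731923) (nat_lit 0) (nat_lit 7032608137) (nat_lit 76) (nat_lit 7032608137) (nat_lit 98) (nat_lit 3) (nat_lit 97) (nat_lit 1) (nat_lit 98) (nat_lit 1) (nat_lit 316) (nat_lit 431) (nat_lit 273)) (XT.nd (nat_lit 78) (nat_lit 0) (nat_lit 0) (XT.lf (nat_lit 152) (nat_lit 20452773240) (nat_lit 0) (nat_lit 59562585) (nat_lit 76) (nat_lit 59562585) (nat_lit 97) (nat_lit 1) (nat_lit 95) (nat_lit 1) (nat_lit 96) (nat_lit 1) (nat_lit 317) (nat_lit 431) (nat_lit 272)) (XT.lf (nat_lit 0) (nat_lit 6689044109) (nat_lit 0) (nat_lit 6856521672) (nat_lit 152) (nat_lit 6689044109) (nat_lit 95) (nat_lit 3) (nat_lit 95) (nat_lit 1) (nat_lit 97) (nat_lit 1) (nat_lit 318) (nat_lit 431) (nat_lit 271)))) (XT.nd (nat_lit 78) (nat_lit 152) (nat_lit 0) (XT.lf (nat_lit 76) (nat_lit 6529703900) (nat_lit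 0) (nat_lit 6689206342) (nat_lit 76) (nat_lit 6689206342) (nat_lit 95) (nat_lit 3) (nat_lit 94) (nat_lit 1) (nat_lit 95) (nat_lit 1) (nat_lit 319) (nat_lit 431) (nat_lit 270)) (XT.nd (nat_lit 78) (nat_lit 0) (nat_lit 0) (XT.lf (nat_lit 152) (nat_lit 19493911819) (nat_lit 0) (nat_lit 49002286) (nat_lit 76) (nat_lit 49002286) (nat_lit 94) (nat_lit 1) (nat_lit 92) (nat_lit 1) (nat_lit 93) (nat_lit 1) (nat_lit 320) (nat_lit 431) (nat_lit 269)) (XT.lf (nat_lit 0) (nat_lit 6377638932) (nat_lit 0) (nat_lit 6515423138) (nat_lit 152) (nat_lit 6377638932) (nat_lit 92) (nat_lit 3) (nat_lit 92) (nat_lit 1) (nat_lit 94) (nat_lit 1) (nat_lit 321) (nat_lit 431) (nat_lit 268))))) (XT.nd (nat_lit 234) (nat_lit 304) (nat_lit 0) (XT.nd (nat_lit 78) (nat_lit 152) (nat_lit 0) (XT.lf (nat_lit 76) (nat_lit 6232443771) (nat_lit 0) (nat_lit 6363666824) (nat_lit 76) (nat_lit 6363666824) (nat_lit 92) (nat_lit 3) (nat_lit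 91) (nat_lit 1) (nat_lit 92) (nat_lit 1) (nat_lit 322) (nat_lit 431) (nat_lit 267)) (XT.nd (nat_lit 78) (nat_lit 0) (nat_lit 0) (XT.lf (nat_lit 152) (nat_lit 18578036790) (nat_lit 0) (nat_lit 40314302) (nat_lit 76) (nat_lit 40314302) (nat_lit 91) (nat_lit 1) (nat_lit 89) (nat_lit 1) (nat_lit 90) (nat_lit 1) (nat_lit 323) (nat_lit 431) (nat_lit 266)) (XT.lf (nat_lit 0) (nat_lit 6079800084) (nat_lit 0) (nat_lit 6193155492) (nat_lit 152) (nat_lit 6079800084) (nat_lit 89) (nat_lit 3) (nat_lit 89) (nat_lit 1) (nat_lit 91) (nat_lit 1) (nat_lit 324) (nat_lit 431) (nat_lit 265)))) (XT.nd (nat_lit 156) (nat_lit 76) (nat_lit 0) (XT.nd (nat_lit 78) (nat_lit 152) (nat_lit 0) (XT.lf (nat_lit 76) (nat_lit 5946913783) (nat_lit 0) (nat_lit 6054871313) (nat_lit 76) (nat_lit 6054871313) (nat_lit 89) (nat_lit 3) (nat_lit 88) (nat_lit 1) (nat_lit 89) (nat_lit 1) (nat_lit 325) (nat_lit 431) (nat_lit 264)) (XT.lf (nat_lit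 152) (nat_lit 17703575219) (nat_lit 0) (nat_lit 33166676) (nat_lit 76) (nat_lit 33166676) (nat_lit 88) (nat_lit 1) (nat_lit 86) (nat_lit 1) (nat_lit 87) (nat_lit 1) (nat_lit 326) (nat_lit 431) (nat_lit 263))) (XT.nd (nat_lit 78) (nat_lit 76) (nat_lit 0) (XT.lf (nat_lit 0) (nat_lit 5795105387) (nat_lit 0) (nat_lit 5888363161) (nat_lit 152) (nat_lit 5795105387) (nat_lit 86) (nat_lit 3) (nat_lit 86) (nat_lit 1) (nat_lit 88) (nat_lit 1) (nat_lit 327) (nat_lit 431) (nat_lit 262)) (XT.lf (nat_lit 76) (nat_lit 5672985323) (nat_lit 0) (nat_lit 5761802251) (nat_lit 76) (nat_lit 5761802251) (nat_lit 86) (nat_lit 3) (nat_lit 85) (nat_lit 1) (nat_lit 86) (nat_lit 1) (nat_lit 328) (nat_lit 431) (nat_lit 261)))))) (XT.nd (nat_lit 468) (nat_lit 608) (nat_lit 0) (XT.nd (nat_lit 234) (nat_lit 228) (nat_lit 0) (XT.nd (nat_lit 78) (nat_lit 76) (nat_lit 0) (XT.lf (nat_lit 152) (nat_lit 16868945026) (nat_lit 0) (nat_lit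 27286306) (nat_lit 76) (nat_lit 27286306) (nat_lit 85) (nat_lit 1) (nat_lit 83) (nat_lit 1) (nat_lit 84) (nat_lit 1) (nat_lit 329) (nat_lit 431) (nat_lit 260)) (XT.nd (nat_lit 78) (nat_lit 76) (nat_lit 0) (XT.lf (nat_lit 0) (nat_lit 5523113078) (nat_lit 0) (nat_lit 5599836480) (nat_lit 152) (nat_lit 5523113078) (nat_lit 83) (nat_lit 3) (nat_lit 83) (nat_lit 1) (nat_lit 85) (nat_lit 1) (nat_lit 330) (nat_lit 431) (nat_lit 259)) (XT.lf (nat_lit 76) (nat_lit 5410459672) (nat_lit 0) (nat_lit 5483529578) (nat_lit 76) (nat_lit 5483529578) (nat_lit 83) (nat_lit 3) (nat_lit 82) (nat_lit 1) (nat_lit 83) (nat_lit 1) (nat_lit 331) (nat_lit 431) (nat_lit 258)))) (XT.nd (nat_lit 78) (nat_lit 76) (nat_lit 0) (XT.lf (nat_lit 152) (nat_lit 16072570325) (nat_lit 0) (nat_lit 22448511) (nat_lit 76) (nat_lit 22448511) (nat_lit 82) (nat_lit 1) (nat_lit 80) (nat_lit 1) (nat_lit 81) (nat_lit 1) (nat_lit 332) (nat_lit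 431) (nat_lit 257)) (XT.nd (nat_lit 78) (nat_lit 76) (nat_lit 0) (XT.lf (nat_lit 0) (nat_lit 5263369783) (nat_lit 0) (nat_lit 5326490315) (nat_lit 152) (nat_lit 5263369783) (nat_lit 80) (nat_lit 3) (nat_lit 80) (nat_lit 1) (nat_lit 82) (nat_lit 1) (nat_lit 333) (nat_lit 431) (nat_lit 256)) (XT.lf (nat_lit 76) (nat_lit 5159084854) (nat_lit 0) (nat_lit 5219199646) (nat_lit 76) (nat_lit 5219199646) (nat_lit 80) (nat_lit 3) (nat_lit 79) (nat_lit 1) (nat_lit 80) (nat_lit 1) (nat_lit 334) (nat_lit 431) (nat_lit 255))))) (XT.nd (nat_lit 234) (nat_lit 380) (nat_lit 0) (XT.nd (nat_lit 78) (nat_lit 76) (nat_lit 0) (XT.lf (nat_lit 152) (nat_lit 15312893388) (nat_lit 0) (nat_lit 18468446) (nat_lit 76) (nat_lit 18468446) (nat_lit 79) (nat_lit 1) (nat_lit 77) (nat_lit 1) (nat_lit 78) (nat_lit 1) (nat_lit 335) (nat_lit 431) (nat_lit 254)) (XT.nd (nat_lit 78) (nat_lit 76) (nat_lit 0) (XT.lf (nat_lit 0) (nat_lit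 5015416856) (nat_lit 0) (nat_lit 5067346274) (nat_lit 152) (nat_lit 5015416856) (nat_lit 77) (nat_lit 3) (nat_lit 77) (nat_lit 1) (nat_lit 79) (nat_lit 1) (nat_lit 336) (nat_lit 431) (nat_lit 253)) (XT.lf (nat_lit 76) (nat_lit 4918569298) (nat_lit 0) (nat_lit 4968025886) (nat_lit 76) (nat_lit 4968025886) (nat_lit 77) (nat_lit 3) (nat_lit 76) (nat_lit 1) (nat_lit 77) (nat_lit 1) (nat_lit 337) (nat_lit 431) (nat_lit 252)))) (XT.nd (nat_lit 156) (nat_lit 228) (nat_lit 0) (XT.nd (nat_lit 78) (nat_lit 0) (nat_lit 0) (XT.lf (nat_lit 152) (nat_lit 14588383863) (nat_lit 0) (nat_lit 15194036) (nat_lit 76) (nat_lit 15194036) (nat_lit 76) (nat_lit 1) (nat_lit 74) (nat_lit 1) (nat_lit 75) (nat_lit 1) (nat_lit 338) (nat_lit 431) (nat_lit 251)) (XT.lf (nat_lit 0) (nat_lit 4778795393) (nat_lit 0) (nat_lit 4821517854) (nat_lit 152) (nat_lit 4778795393) (nat_lit 74) (nat_lit 3) (nat_lit 74) (nat_lit 1) (nat_lit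 76) (nat_lit 1) (nat_lit 339) (nat_lit 431) (nat_lit 250))) (XT.nd (nat_lit 78) (nat_lit 152) (nat_lit 0) (XT.lf (nat_lit 76) (nat_lit 4688592868) (nat_lit 0) (nat_lit 4729280926) (nat_lit 76) (nat_lit 4729280926) (nat_lit 74) (nat_lit 3) (nat_lit 73) (nat_lit 1) (nat_lit 74) (nat_lit 1) (nat_lit 340) (nat_lit 431) (nat_lit 249)) (XT.lf (nat_lit 152) (nat_lit 13897545770) (nat_lit 0) (nat_lit 12500171) (nat_lit 76) (nat_lit 12500171) (nat_lit 73) (nat_lit 1) (nat_lit 71) (nat_lit 1) (nat_lit 72) (nat_lit 1) (nat_lit 341) (nat_lit 431) (nat_lit 248))))))))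
noncomputable def ec414 : XT := (XT.nd (nat_lit 1950) (nat_lit 1900) (nat_lit 0) (XT.nd (nat_lit 936) (nat_lit 912) (nat_lit 0) (XT.nd (nat_lit 468) (nat_lit 456) (nat_lit 0) (XT.nd (nat_lit 234) (nat_lit 228) (nat_lit 0) (XT.nd (nat_lit 78) (nat_lit 228) (nat_lit 0) (XT.lf (nat_lit 0) (nat_lit 4553050161) (nat_lit 0) (nat_lit 4588198035) (nat_lit 152) (nat_lit 4553050161) (nat_lit 71) (nat_lit 3) (nat_lit 71) (nat_lit 1) (nat_lit 73) (nat_lit 1) (nat_lit 342) (nat_lit 431) (nat_lit 247)) (XT.nd (nat_lit 78) (nat_lit 152) (nat_lit 0) (XT.lf (nat_lit 76) (nat_lit 4468815750) (nat_lit 0) (nat_lit 4502289916) (nat_lit 76) (nat_lit 4502289916) (nat_lit 71) (nat_lit 3) (nat_lit 70) (nat_lit 1) (nat_lit 71) (nat_lit 1) (nat_lit 343) (nat_lit 431) (nat_lit 246)) (XT.lf (nat_lit 152) (nat_lit 13238922692) (nat_lit 0) (nat_lit 10283921) (nat_lit 76) (nat_lit 10283921) (nat_lit 70) (nat_lit 1) (nat_lit 68)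 (nat_lit 1) (nat_lit 69) (nat_lit 1) (nat_lit 344) (nat_lit 431) (nat_lit 245)))) (XT.nd (nat_lit 78) (nat_lit 228) (nat_lit 0) (XT.lf (nat_lit 0) (nat_lit 4337732650) (nat_lit 0) (nat_lit 4366648893) (nat_lit 152) (nat_lit 4337732650) (nat_lit 68) (nat_lit 3) (nat_lit 68) (nat_lit 1) (nat_lit 70) (nat_lit 1) (nat_lit 345) (nat_lit 431) (nat_lit 244)) (XT.nd (nat_lit 78) (nat_lit 152) (nat_lit 0) (XT.lf (nat_lit 76) (nat_lit 4258885581) (nat_lit 0) (nat_lit 4286424860) (nat_lit 76) (nat_lit 4286424860) (nat_lit 68) (nat_lit 3) (nat_lit 67) (nat_lit 1) (nat_lit 68) (nat_lit 1) (nat_lit 346) (nat_lit 431) (nat_lit 243)) (XT.lf (nat_lit 152) (nat_lit 12611101504) (nat_lit 0) (nat_lit 8460608) (nat_lit 76) (nat_lit 8460608) (nat_lit 67) (nat_lit 1) (nat_lit 65) (nat_lit 1) (nat_lit 66) (nat_lit 1) (nat_lit 347) (nat_lit 431) (nat_lit 242))))) (XT.nd (nat_lit 234) (nat_lit 228) (nat_lit 0) (XT.nd (nat_lit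 78) (nat_lit 228) (nat_lit 0) (XT.lf (nat_lit 0) (nat_lit 4132403399) (nat_lit 0) (nat_lit 4156192864) (nat_lit 152) (nat_lit 4132403399) (nat_lit 65) (nat_lit 3) (nat_lit 65) (nat_lit 1) (nat_lit 67) (nat_lit 1) (nat_lit 348) (nat_lit 431) (nat_lit 241)) (XT.nd (nat_lit 78) (nat_lit 152) (nat_lit 0) (XT.lf (nat_lit 76) (nat_lit 4058443140) (nat_lit 0) (nat_lit 4081099773) (nat_lit 76) (nat_lit 4081099773) (nat_lit 65) (nat_lit 3) (nat_lit 64) (nat_lit 1) (nat_lit 65) (nat_lit 1) (nat_lit 349) (nat_lit 431) (nat_lit 240)) (XT.lf (nat_lit 152) (nat_lit 12012714933) (nat_lit 0) (nat_lit 6960563) (nat_lit 76) (nat_lit 6960563) (nat_lit 64) (nat_lit 1) (nat_lit 62) (nat_lit 1) (nat_lit 63) (nat_lit 1) (nat_lit 350) (nat_lit 431) (nat_lit 239)))) (XT.nd (nat_lit 78) (nat_lit 228) (nat_lit 0) (XT.lf (nat_lit 0) (nat_lit 3936633754) (nat_lit 0) (nat_lit 3956205406) (nat_lit 152) (nat_lit 3936633754) (nat_lit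 62) (nat_lit 3) (nat_lit 62) (nat_lit 1) (nat_lit 64) (nat_lit 1) (nat_lit 351) (nat_lit 431) (nat_lit 238)) (XT.nd (nat_lit 78) (nat_lit 152) (nat_lit 0) (XT.lf (nat_lit 76) (nat_lit 3867126865) (nat_lit 0) (nat_lit 3885766534) (nat_lit 76) (nat_lit 3885766534) (nat_lit 62) (nat_lit 3) (nat_lit 61) (nat_lit 1) (nat_lit 62) (nat_lit 1) (nat_lit 352) (nat_lit 431) (nat_lit 237)) (XT.lf (nat_lit 152) (nat_lit 11442443176) (nat_lit 0) (nat_lit 5726472) (nat_lit 76) (nat_lit 5726472) (nat_lit 61) (nat_lit 1) (nat_lit 59) (nat_lit 1) (nat_lit 60) (nat_lit 1) (nat_lit 353) (nat_lit 431) (nat_lit 236)))))) (XT.nd (nat_lit 468) (nat_lit 456) (nat_lit 0) (XT.nd (nat_lit 234) (nat_lit 228) (nat_lit 0) (XT.nd (nat_lit 78) (nat_lit 228) (nat_lit 0) (XT.lf (nat_lit 0) (nat_lit 3750007143) (nat_lit 0) (nat_lit 3766108789) (nat_lit 152) (nat_lit 3750007143) (nat_lit 59) (nat_lit 3) (nat_lit 59) (nat_lit 1) (nat_lit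 61) (nat_lit 1) (nat_lit 354) (nat_lit 431) (nat_lit 235)) (XT.nd (nat_lit 78) (nat_lit 152) (nat_lit 0) (XT.lf (nat_lit 76) (nat_lit 3684576414) (nat_lit 0) (nat_lit 3699911315) (nat_lit 76) (nat_lit 3699911315) (nat_lit 59) (nat_lit 3) (nat_lit 58) (nat_lit 1) (nat_lit 59) (nat_lit 1) (nat_lit 355) (nat_lit 431) (nat_lit 234)) (XT.lf (nat_lit 152) (nat_lit 10899014768) (nat_lit 0) (nat_lit 4711183) (nat_lit 76) (nat_lit 4711183) (nat_lit 58) (nat_lit 1) (nat_lit 56) (nat_lit 1) (nat_lit 57) (nat_lit 1) (nat_lit 356) (nat_lit 431) (nat_lit 233)))) (XT.nd (nat_lit 78) (nat_lit 228) (nat_lit 0) (XT.lf (nat_lit 0) (nat_lit 3572119976) (nat_lit 0) (nat_lit 3585366840) (nat_lit 152) (nat_lit 3572119976) (nat_lit 56) (nat_lit 3) (nat_lit 56) (nat_lit 1) (nat_lit 58) (nat_lit 1) (nat_lit 357) (nat_lit 431) (nat_lit 232)) (XT.nd (nat_lit 78) (nat_lit 152) (nat_lit 0) (XT.lf (nat_lit 76) (nat_lit 3510435441)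 (nat_lit 0) (nat_lit 3523051502) (nat_lit 76) (nat_lit 3523051502) (nat_lit 56) (nat_lit 3) (nat_lit 55) (nat_lit 1) (nat_lit 56) (nat_lit 1) (nat_lit 358) (nat_lit 431) (nat_lit 231)) (XT.lf (nat_lit 152) (nat_lit 10381206851) (nat_lit 0) (nat_lit 3875902) (nat_lit 76) (nat_lit 3875902) (nat_lit 55) (nat_lit 1) (nat_lit 53) (nat_lit 1) (nat_lit 54) (nat_lit 1) (nat_lit 359) (nat_lit 431) (nat_lit 230))))) (XT.nd (nat_lit 234) (nat_lit 228) (nat_lit 0) (XT.nd (nat_lit 78) (nat_lit 228) (nat_lit 0) (XT.lf (nat_lit 0) (nat_lit 3402582249) (nat_lit 0) (nat_lit 3413480477) (nat_lit 152) (nat_lit 3402582249) (nat_lit 53) (nat_lit 3) (nat_lit 53) (nat_lit 1) (nat_lit 55) (nat_lit 1) (nat_lit 360) (nat_lit 431) (nat_lit 229)) (XT.nd (nat_lit 78) (nat_lit 152) (nat_lit 0) (XT.lf (nat_lit 76) (nat_lit 3344353740) (nat_lit 0) (nat_lit 3354733005) (nat_lit 76) (nat_lit 3354733005) (nat_lit 53) (nat_lit 3)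 (nat_lit 52) (nat_lit 1) (nat_lit 53) (nat_lit 1) (nat_lit 361) (nat_lit 431) (nat_lit 228)) (XT.lf (nat_lit 152) (nat_lit 9887844975) (nat_lit 0) (nat_lit 3188714) (nat_lit 76) (nat_lit 3188714) (nat_lit 52) (nat_lit 1) (nat_lit 50) (nat_lit 1) (nat_lit 51) (nat_lit 1) (nat_lit 362) (nat_lit 431) (nat_lit 227)))) (XT.nd (nat_lit 156) (nat_lit 152) (nat_lit 0) (XT.nd (nat_lit 78) (nat_lit 76) (nat_lit 0) (XT.lf (nat_lit 0) (nat_lit 3241017888) (nat_lit 0) (nat_lit 3249983888) (nat_lit 152) (nat_lit 3241017888) (nat_lit 50) (nat_lit 3) (nat_lit 50) (nat_lit 1) (nat_lit 52) (nat_lit 1) (nat_lit 363) (nat_lit 431) (nat_lit 226)) (XT.lf (nat_lit 76) (nat_lit 3185988875) (nat_lit 0) (nat_lit 3194527922) (nat_lit 76) (nat_lit 3194527922) (nat_lit 50) (nat_lit 3) (nat_lit 49) (nat_lit 1) (nat_lit 50) (nat_lit 1) (nat_lit 364) (nat_lit 431) (nat_lit 225))) (XT.nd (nat_lit 78) (nat_lit 0) (nat_lit 0) (XT.lf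 (nat_lit 152) (nat_lit 9417802539) (nat_lit 0) (nat_lit 2623363) (nat_lit 76) (nat_lit 2623363) (nat_lit 49) (nat_lit 1) (nat_lit 47) (nat_lit 1) (nat_lit 48) (nat_lit 1) (nat_lit 365) (nat_lit 431) (nat_lit 224)) (XT.lf (nat_lit 0) (nat_lit 3087064915) (nat_lit 0) (nat_lit 3094441265) (nat_lit 152) (nat_lit 3087064915) (nat_lit 47) (nat_lit 3) (nat_lit 47) (nat_lit 1) (nat_lit 49) (nat_lit 1) (nat_lit 366) (nat_lit 431) (nat_lit 223))))))) (XT.nd (nat_lit 936) (nat_lit 988) (nat_lit 0) (XT.nd (nat_lit 468) (nat_lit 456) (nat_lit 0) (XT.nd (nat_lit 234) (nat_lit 228) (nat_lit 0) (XT.nd (nat_lit 78) (nat_lit 152) (nat_lit 0) (XT.lf (nat_lit 76) (nat_lit 3035007386) (nat_lit 0) (nat_lit 3042032481) (nat_lit 76) (nat_lit 3042032481) (nat_lit 47) (nat_lit 3) (nat_lit 46) (nat_lit 1) (nat_lit 47) (nat_lit 1) (nat_lit 367) (nat_lit 431) (nat_lit 222)) (XT.nd (nat_lit 78) (nat_lit 0) (nat_lit 0) (XT.lf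 (nat_lit 152) (nat_lit 8969999939) (nat_lit 0) (nat_lit 2158247) (nat_lit 76) (nat_lit 2158247) (nat_lit 46) (nat_lit 1) (nat_lit 44) (nat_lit 1) (nat_lit 45) (nat_lit 1) (nat_lit 368) (nat_lit 431) (nat_lit 221)) (XT.lf (nat_lit 0) (nat_lit 2940375448) (nat_lit 0) (nat_lit 2946443989) (nat_lit 152) (nat_lit 2940375448) (nat_lit 44) (nat_lit 3) (nat_lit 44) (nat_lit 1) (nat_lit 46) (nat_lit 1) (nat_lit 369) (nat_lit 431) (nat_lit 220)))) (XT.nd (nat_lit 78) (nat_lit 152) (nat_lit 0) (XT.lf (nat_lit 76) (nat_lit 2891085663) (nat_lit 0) (nat_lit 2896865226) (nat_lit 76) (nat_lit 2896865226) (nat_lit 44) (nat_lit 3) (nat_lit 43) (nat_lit 1) (nat_lit 44) (nat_lit 1) (nat_lit 370) (nat_lit 431) (nat_lit 219)) (XT.nd (nat_lit 78) (nat_lit 0) (nat_lit 0) (XT.lf (nat_lit 152) (nat_lit 8543403513) (nat_lit 0) (nat_lit 1775595) (nat_lit 76) (nat_lit 1775595) (nat_lit 43) (nat_lit 1) (nat_lit 41) (nat_lit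 1) (nat_lit 42) (nat_lit 1) (nat_lit 371) (nat_lit 431) (nat_lit 218)) (XT.lf (nat_lit 0) (nat_lit 2800615589) (nat_lit 0) (nat_lit 2805608193) (nat_lit 152) (nat_lit 2800615589) (nat_lit 41) (nat_lit 3) (nat_lit 41) (nat_lit 1) (nat_lit 43) (nat_lit 1) (nat_lit 372) (nat_lit 431) (nat_lit 217))))) (XT.nd (nat_lit 234) (nat_lit 228) (nat_lit 0) (XT.nd (nat_lit 78) (nat_lit 152) (nat_lit 0) (XT.lf (nat_lit 76) (nat_lit 2753910544) (nat_lit 0) (nat_lit 2758665405) (nat_lit 76) (nat_lit 2758665405) (nat_lit 41) (nat_lit 3) (nat_lit 40) (nat_lit 1) (nat_lit 41) (nat_lit 1) (nat_lit 373) (nat_lit 431) (nat_lit 216)) (XT.nd (nat_lit 78) (nat_lit 0) (nat_lit 0) (XT.lf (nat_lit 152) (nat_lit 8137024323) (nat_lit 0) (nat_lit 1460786) (nat_lit 76) (nat_lit 1460786) (nat_lit 40) (nat_lit 1) (nat_lit 38) (nat_lit 1) (nat_lit 39) (nat_lit 1) (nat_lit 374) (nat_lit 431) (nat_lit 215)) (XT.lf (nat_lit 0) (nat_lit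 2667465215) (nat_lit 0) (nat_lit 2671572643) (nat_lit 152) (nat_lit 2667465215) (nat_lit 38) (nat_lit 3) (nat_lit 38) (nat_lit 1) (nat_lit 40) (nat_lit 1) (nat_lit 375) (nat_lit 431) (nat_lit 214)))) (XT.nd (nat_lit 78) (nat_lit 152) (nat_lit 0) (XT.lf (nat_lit 76) (nat_lit 2623179700) (nat_lit 0) (nat_lit 2627091536) (nat_lit 76) (nat_lit 2627091536) (nat_lit 38) (nat_lit 3) (nat_lit 37) (nat_lit 1) (nat_lit 38) (nat_lit 1) (nat_lit 376) (nat_lit 431) (nat_lit 213)) (XT.nd (nat_lit 78) (nat_lit 0) (nat_lit 0) (XT.lf (nat_lit 152) (nat_lit 7749916819) (nat_lit 0) (nat_lit 1201792) (nat_lit 76) (nat_lit 1201792) (nat_lit 37) (nat_lit 1) (nat_lit 35) (nat_lit 1) (nat_lit 36) (nat_lit 1) (nat_lit 377) (nat_lit 431) (nat_lit 212)) (XT.lf (nat_lit 0) (nat_lit 2540617700) (nat_lit 0) (nat_lit 2543996891) (nat_lit 152) (nat_lit 2540617700) (nat_lit 35) (nat_lit 3) (nat_lit 35) (nat_lit 1) (nat_lit 37)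 (nat_lit 1) (nat_lit 378) (nat_lit 431) (nat_lit 211)))))) (XT.nd (nat_lit 468) (nat_lit 532) (nat_lit 0) (XT.nd (nat_lit 234) (nat_lit 228) (nat_lit 0) (XT.nd (nat_lit 78) (nat_lit 152) (nat_lit 0) (XT.lf (nat_lit 76) (nat_lit 2498601841) (nat_lit 0) (nat_lit 2501820118) (nat_lit 76) (nat_lit 2501820118) (nat_lit 35) (nat_lit 3) (nat_lit 34) (nat_lit 1) (nat_lit 35) (nat_lit 1) (nat_lit 379) (nat_lit 431) (nat_lit 210)) (XT.nd (nat_lit 78) (nat_lit 0) (nat_lit 0) (XT.lf (nat_lit 152) (nat_lit 7381177433) (nat_lit 0) (nat_lit 988717) (nat_lit 76) (nat_lit 988717) (nat_lit 34) (nat_lit 1) (nat_lit 32) (nat_lit 1) (nat_lit 33) (nat_lit 1) (nat_lit 380) (nat_lit 431) (nat_lit 209)) (XT.lf (nat_lit 0) (nat_lit 2419779579) (nat_lit 0) (nat_lit 2422559648) (nat_lit 152) (nat_lit 2419779579) (nat_lit 32) (nat_lit 3) (nat_lit 32) (nat_lit 1) (nat_lit 34) (nat_lit 1) (nat_lit 381) (nat_lit 431) (nat_lit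 208)))) (XT.nd (nat_lit 78) (nat_lit 152) (nat_lit 0) (XT.lf (nat_lit 76) (nat_lit 2379896785) (nat_lit 0) (nat_lit 2382544469) (nat_lit 76) (nat_lit 2382544469) (nat_lit 32) (nat_lit 3) (nat_lit 31) (nat_lit 1) (nat_lit 32) (nat_lit 1) (nat_lit 382) (nat_lit 431) (nat_lit 207)) (XT.nd (nat_lit 78) (nat_lit 0) (nat_lit 0) (XT.lf (nat_lit 152) (nat_lit 7029943119) (nat_lit 0) (nat_lit 813420) (nat_lit 76) (nat_lit 813420) (nat_lit 31) (nat_lit 1) (nat_lit 29) (nat_lit 1) (nat_lit 30) (nat_lit 1) (nat_lit 383) (nat_lit 431) (nat_lit 206)) (XT.lf (nat_lit 0) (nat_lit 2304670182) (nat_lit 0) (nat_lit 2306957351) (nat_lit 152) (nat_lit 2304670182) (nat_lit 29) (nat_lit 3) (nat_lit 29) (nat_lit 1) (nat_lit 31) (nat_lit 1) (nat_lit 384) (nat_lit 431) (nat_lit 205))))) (XT.nd (nat_lit 234) (nat_lit 304) (nat_lit 0) (XT.nd (nat_lit 78) (nat_lit 152) (nat_lit 0) (XT.lf (nat_lit 76) (nat_lit 2266795419) (nat_lit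 0) (nat_lit 2268973675) (nat_lit 76) (nat_lit 2268973675) (nat_lit 29) (nat_lit 3) (nat_lit 28) (nat_lit 1) (nat_lit 29) (nat_lit 1) (nat_lit 385) (nat_lit 431) (nat_lit 204)) (XT.nd (nat_lit 78) (nat_lit 0) (nat_lit 0) (XT.lf (nat_lit 152) (nat_lit 6695389866) (nat_lit 0) (nat_lit 669203) (nat_lit 76) (nat_lit 669203) (nat_lit 28) (nat_lit 1) (nat_lit 26) (nat_lit 1) (nat_lit 27) (nat_lit 1) (nat_lit 386) (nat_lit 431) (nat_lit 203)) (XT.lf (nat_lit 0) (nat_lit 2195021228) (nat_lit 0) (nat_lit 2196902888) (nat_lit 152) (nat_lit 2195021228) (nat_lit 26) (nat_lit 3) (nat_lit 26) (nat_lit 1) (nat_lit 28) (nat_lit 1) (nat_lit 387) (nat_lit 431) (nat_lit 202)))) (XT.nd (nat_lit 156) (nat_lit 76) (nat_lit 0) (XT.nd (nat_lit 78) (nat_lit 152) (nat_lit 0) (XT.lf (nat_lit 76) (nat_lit 2159039577) (nat_lit 0) (nat_lit 2160831634) (nat_lit 76) (nat_lit 2160831634) (nat_lit 26) (nat_lit 3) (nat_lit 25) (nat_lit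 1) (nat_lit 26) (nat_lit 1) (nat_lit 388) (nat_lit 431) (nat_lit 201)) (XT.lf (nat_lit 152) (nat_lit 6376731207) (nat_lit 0) (nat_lit 550555) (nat_lit 76) (nat_lit 550555) (nat_lit 25) (nat_lit 1) (nat_lit 23) (nat_lit 1) (nat_lit 24) (nat_lit 1) (nat_lit 389) (nat_lit 431) (nat_lit 200))) (XT.nd (nat_lit 78) (nat_lit 76) (nat_lit 0) (XT.lf (nat_lit 0) (nat_lit 2090576411) (nat_lit 0) (nat_lit 2092124457) (nat_lit 152) (nat_lit 2090576411) (nat_lit 23) (nat_lit 3) (nat_lit 23) (nat_lit 1) (nat_lit 25) (nat_lit 1) (nat_lit 390) (nat_lit 431) (nat_lit 199)) (XT.lf (nat_lit 76) (nat_lit 2056381846) (nat_lit 0) (nat_lit 2057856176) (nat_lit 76) (nat_lit 2057856176) (nat_lit 23) (nat_lit 3) (nat_lit 22) (nat_lit 1) (nat_lit 23) (nat_lit 1) (nat_lit 391) (nat_lit 431) (nat_lit 198))))))))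
noncomputable def ec415 : XT := (XT.nd (nat_lit 1950) (nat_lit 0) (nat_lit 0) (XT.nd (nat_lit 936) (nat_lit 760) (nat_lit 0) (XT.nd (nat_lit 468) (nat_lit 456) (nat_lit 0) (XT.nd (nat_lit 234) (nat_lit 228) (nat_lit 0) (XT.nd (nat_lit 78) (nat_lit 76) (nat_lit 0) (XT.lf (nat_lit 152) (nat_lit 6073216730) (nat_lit 0) (nat_lit 452943) (nat_lit 76) (nat_lit 452943) (nat_lit 22) (nat_lit 1) (nat_lit 20) (nat_lit 1) (nat_lit 21) (nat_lit 1) (nat_lit 392) (nat_lit 431) (nat_lit 197)) (XT.nd (nat_lit 78) (nat_lit 76) (nat_lit 0) (XT.lf (nat_lit 0) (nat_lit 1991090972) (nat_lit 0) (nat_lit 1992364554) (nat_lit 152) (nat_lit 1991090972) (nat_lit 20) (nat_lit 3) (nat_lit 20) (nat_lit 1) (nat_lit 22) (nat_lit 1) (nat_lit 393) (nat_lit 431) (nat_lit 196)) (XT.lf (nat_lit 76) (nat_lit 1958585332) (nat_lit 0) (nat_lit 1959798267) (nat_lit 76) (nat_lit 1959798267) (nat_lit 20) (nat_lit 3) (nat_lit 19) (nat_lit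 1) (nat_lit 20) (nat_lit 1) (nat_lit 394) (nat_lit 431) (nat_lit 195)))) (XT.nd (nat_lit 78) (nat_lit 76) (nat_lit 0) (XT.lf (nat_lit 152) (nat_lit 5784130611) (nat_lit 0) (nat_lit 372637) (nat_lit 76) (nat_lit 372637) (nat_lit 19) (nat_lit 1) (nat_lit 17) (nat_lit 1) (nat_lit 18) (nat_lit 1) (nat_lit 395) (nat_lit 431) (nat_lit 194)) (XT.nd (nat_lit 78) (nat_lit 76) (nat_lit 0) (XT.lf (nat_lit 0) (nat_lit 1896331266) (nat_lit 0) (nat_lit 1897379045) (nat_lit 152) (nat_lit 1896331266) (nat_lit 17) (nat_lit 3) (nat_lit 17) (nat_lit 1) (nat_lit 19) (nat_lit 1) (nat_lit 396) (nat_lit 431) (nat_lit 193)) (XT.lf (nat_lit 76) (nat_lit 1865423380) (nat_lit 0) (nat_lit 1866421264) (nat_lit 76) (nat_lit 1866421264) (nat_lit 17) (nat_lit 3) (nat_lit 16) (nat_lit 1) (nat_lit 17) (nat_lit 1) (nat_lit 397) (nat_lit 431) (nat_lit 192))))) (XT.nd (nat_lit 234) (nat_lit 228) (nat_lit 0) (XT.nd (nat_lit 78) (nat_lit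 76) (nat_lit 0) (XT.lf (nat_lit 152) (nat_lit 5508790165) (nat_lit 0) (nat_lit 306569) (nat_lit 76) (nat_lit 306569) (nat_lit 16) (nat_lit 1) (nat_lit 14) (nat_lit 1) (nat_lit 15) (nat_lit 1) (nat_lit 398) (nat_lit 431) (nat_lit 191)) (XT.nd (nat_lit 78) (nat_lit 76) (nat_lit 0) (XT.lf (nat_lit 0) (nat_lit 1806074326) (nat_lit 0) (nat_lit 1806936336) (nat_lit 152) (nat_lit 1806074326) (nat_lit 14) (nat_lit 3) (nat_lit 14) (nat_lit 1) (nat_lit 16) (nat_lit 1) (nat_lit 399) (nat_lit 431) (nat_lit 190)) (XT.lf (nat_lit 76) (nat_lit 1776679269) (nat_lit 0) (nat_lit 1777500231) (nat_lit 76) (nat_lit 1777500231) (nat_lit 14) (nat_lit 3) (nat_lit 13) (nat_lit 1) (nat_lit 14) (nat_lit 1) (nat_lit 400) (nat_lit 431) (nat_lit 189)))) (XT.nd (nat_lit 78) (nat_lit 76) (nat_lit 0) (XT.lf (nat_lit 152) (nat_lit 5246544441) (nat_lit 0) (nat_lit 252215) (nat_lit 76) (nat_lit 252215) (nat_lit 13) (nat_lit 1) (nat_lit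 11) (nat_lit 1) (nat_lit 12) (nat_lit 1) (nat_lit 401) (nat_lit 431) (nat_lit 188)) (XT.nd (nat_lit 78) (nat_lit 76) (nat_lit 0) (XT.lf (nat_lit 0) (nat_lit 1720107437) (nat_lit 0) (nat_lit 1720816615) (nat_lit 152) (nat_lit 1720107437) (nat_lit 11) (nat_lit 3) (nat_lit 11) (nat_lit 1) (nat_lit 13) (nat_lit 1) (nat_lit 402) (nat_lit 431) (nat_lit 187)) (XT.lf (nat_lit 76) (nat_lit 1692145896) (nat_lit 0) (nat_lit 1692821303) (nat_lit 76) (nat_lit 1692821303) (nat_lit 11) (nat_lit 3) (nat_lit 10) (nat_lit 1) (nat_lit 11) (nat_lit 1) (nat_lit 403) (nat_lit 431) (nat_lit 186)))))) (XT.nd (nat_lit 468) (nat_lit 304) (nat_lit 0) (XT.nd (nat_lit 234) (nat_lit 228) (nat_lit 0) (XT.nd (nat_lit 78) (nat_lit 76) (nat_lit 0) (XT.lf (nat_lit 152) (nat_lit 4996772848) (nat_lit 0) (nat_lit 207498) (nat_lit 76) (nat_lit 207498) (nat_lit 10) (nat_lit 1) (nat_lit 8) (nat_lit 1) (nat_lit 9) (nat_lit 1) (nat_lit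 404) (nat_lit 431) (nat_lit 185)) (XT.nd (nat_lit 78) (nat_lit 76) (nat_lit 0) (XT.lf (nat_lit 0) (nat_lit 1638227712) (nat_lit 0) (nat_lit 1638811154) (nat_lit 152) (nat_lit 1638227712) (nat_lit 8) (nat_lit 3) (nat_lit 8) (nat_lit 1) (nat_lit 10) (nat_lit 1) (nat_lit 405) (nat_lit 431) (nat_lit 184)) (XT.lf (nat_lit 76) (nat_lit 1611625439) (nat_lit 0) (nat_lit 1612181099) (nat_lit 76) (nat_lit 1612181099) (nat_lit 8) (nat_lit 3) (nat_lit 7) (nat_lit 1) (nat_lit 8) (nat_lit 1) (nat_lit 406) (nat_lit 431) (nat_lit 183)))) (XT.nd (nat_lit 78) (nat_lit 76) (nat_lit 0) (XT.lf (nat_lit 152) (nat_lit 4758883819) (nat_lit 0) (nat_lit 170709) (nat_lit 76) (nat_lit 170709) (nat_lit 7) (nat_lit 1) (nat_lit 5) (nat_lit 1) (nat_lit 6) (nat_lit 1) (nat_lit 407) (nat_lit 431) (nat_lit 182)) (XT.nd (nat_lit 78) (nat_lit 76) (nat_lit 0) (XT.lf (nat_lit 0) (nat_lit 1560241675) (nat_lit 0) (nat_lit 1560721674)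 (nat_lit 152) (nat_lit 1560241675) (nat_lit 5) (nat_lit 3) (nat_lit 5) (nat_lit 1) (nat_lit 7) (nat_lit 1) (nat_lit 408) (nat_lit 431) (nat_lit 181)) (XT.lf (nat_lit 76) (nat_lit 1534929021) (nat_lit 0) (nat_lit 1535386164) (nat_lit 76) (nat_lit 1535386164) (nat_lit 5) (nat_lit 3) (nat_lit 4) (nat_lit 1) (nat_lit 5) (nat_lit 1) (nat_lit 409) (nat_lit 431) (nat_lit 180))))) (XT.nd (nat_lit 234) (nat_lit 76) (nat_lit 0) (XT.nd (nat_lit 78) (nat_lit 76) (nat_lit 0) (XT.lf (nat_lit 152) (nat_lit 4532313524) (nat_lit 0) (nat_lit 140443) (nat_lit 76) (nat_lit 140443) (nat_lit 4) (nat_lit 1) (nat_lit 2) (nat_lit 1) (nat_lit 3) (nat_lit 1) (nat_lit 410) (nat_lit 431) (nat_lit 179)) (XT.nd (nat_lit 78) (nat_lit 76) (nat_lit 0) (XT.lf (nat_lit 0) (nat_lit 1485964861) (nat_lit 0) (nat_lit 1486359757) (nat_lit 152) (nat_lit 1485964861) (nat_lit 2) (nat_lit 3) (nat_lit 2) (nat_lit 1) (nat_lit 4) (nat_lit 1)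 (nat_lit 411) (nat_lit 431) (nat_lit 178)) (XT.lf (nat_lit 76) (nat_lit 1461876365) (nat_lit 0) (nat_lit 1462252458) (nat_lit 76) (nat_lit 1462252458) (nat_lit 2) (nat_lit 3) (nat_lit 1) (nat_lit 1) (nat_lit 2) (nat_lit 1) (nat_lit 412) (nat_lit 431) (nat_lit 177)))) (XT.nd (nat_lit 156) (nat_lit 0) (nat_lit 0) (XT.nd (nat_lit 78) (nat_lit 0) (nat_lit 0) (XT.lf (nat_lit 0) (nat_lit 91018107519) (nat_lit 0) (nat_lit 0) (nat_lit 0) (nat_lit 0) (nat_lit 0) (nat_lit 0) (nat_lit 1) (nat_lit 0) (nat_lit 1) (nat_lit 0) (nat_lit 413) (nat_lit 431) (nat_lit 176)) (XT.lf (nat_lit 0) (nat_lit 91018090394) (nat_lit 0) (nat_lit 0) (nat_lit 0) (nat_lit 0) (nat_lit 0) (nat_lit 0) (nat_lit 1) (nat_lit 0) (nat_lit 1) (nat_lit 0) (nat_lit 414) (nat_lit 431) (nat_lit 175))) (XT.nd (nat_lit 78) (nat_lit 0) (nat_lit 0) (XT.lf (nat_lit 0) (nat_lit 91018074084) (nat_lit 0) (nat_lit 0) (nat_lit 0) (nat_lit 0) (nat_lit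 0) (nat_lit 0) (nat_lit 1) (nat_lit 0) (nat_lit 1) (nat_lit 0) (nat_lit 415) (nat_lit 431) (nat_lit 174)) (XT.lf (nat_lit 0) (nat_lit 91018058551) (nat_lit 0) (nat_lit 0) (nat_lit 0) (nat_lit 0) (nat_lit 0) (nat_lit 0) (nat_lit 1) (nat_lit 0) (nat_lit 1) (nat_lit 0) (nat_lit 416) (nat_lit 431) (nat_lit 173))))))) (XT.nd (nat_lit 1014) (nat_lit 0) (nat_lit 0) (XT.nd (nat_lit 468) (nat_lit 0) (nat_lit 0) (XT.nd (nat_lit 234) (nat_lit 0) (nat_lit 0) (XT.nd (nat_lit 78) (nat_lit 0) (nat_lit 0) (XT.lf (nat_lit 0) (nat_lit 91018043757) (nat_lit 0) (nat_lit 0) (nat_lit 0) (nat_lit 0) (nat_lit 0) (nat_lit 0) (nat_lit 1) (nat_lit 0) (nat_lit 1) (nat_lit 0) (nat_lit 417) (nat_lit 431) (nat_lit 172)) (XT.nd (nat_lit 78) (nat_lit 0) (nat_lit 0) (XT.lf (nat_lit 0) (nat_lit 91018029668) (nat_lit 0) (nat_lit 0) (nat_lit 0) (nat_lit 0) (nat_lit 0) (nat_lit 0) (nat_lit 1) (nat_lit 0) (nat_lit 1) (nat_lit 0) (nat_lit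 418) (nat_lit 431) (nat_lit 171)) (XT.lf (nat_lit 0) (nat_lit 91018016250) (nat_lit 0) (nat_lit 0) (nat_lit 0) (nat_lit 0) (nat_lit 0) (nat_lit 0) (nat_lit 1) (nat_lit 0) (nat_lit 1) (nat_lit 0) (nat_lit 419) (nat_lit 431) (nat_lit 170)))) (XT.nd (nat_lit 78) (nat_lit 0) (nat_lit 0) (XT.lf (nat_lit 0) (nat_lit 91018003471) (nat_lit 0) (nat_lit 0) (nat_lit 0) (nat_lit 0) (nat_lit 0) (nat_lit 0) (nat_lit 1) (nat_lit 0) (nat_lit 1) (nat_lit 0) (nat_lit 420) (nat_lit 431) (nat_lit 169)) (XT.nd (nat_lit 78) (nat_lit 0) (nat_lit 0) (XT.lf (nat_lit 0) (nat_lit 91017991301) (nat_lit 0) (nat_lit 0) (nat_lit 0) (nat_lit 0) (nat_lit 0) (nat_lit 0) (nat_lit 1) (nat_lit 0) (nat_lit 1) (nat_lit 0) (nat_lit 421) (nat_lit 431) (nat_lit 168)) (XT.lf (nat_lit 0) (nat_lit 91017979710) (nat_lit 0) (nat_lit 0) (nat_lit 0) (nat_lit 0) (nat_lit 0) (nat_lit 0) (nat_lit 1) (nat_lit 0) (nat_lit 1) (nat_lit 0) (nat_lit 422)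 (nat_lit 431) (nat_lit 167))))) (XT.nd (nat_lit 234) (nat_lit 0) (nat_lit 0) (XT.nd (nat_lit 78) (nat_lit 0) (nat_lit 0) (XT.lf (nat_lit 0) (nat_lit 91017968671) (nat_lit 0) (nat_lit 0) (nat_lit 0) (nat_lit 0) (nat_lit 0) (nat_lit 0) (nat_lit 1) (nat_lit 0) (nat_lit 1) (nat_lit 0) (nat_lit 423) (nat_lit 431) (nat_lit 166)) (XT.nd (nat_lit 78) (nat_lit 0) (nat_lit 0) (XT.lf (nat_lit 0) (nat_lit 91017958157) (nat_lit 0) (nat_lit 0) (nat_lit 0) (nat_lit 0) (nat_lit 0) (nat_lit 0) (nat_lit 1) (nat_lit 0) (nat_lit 1) (nat_lit 0) (nat_lit 424) (nat_lit 431) (nat_lit 165)) (XT.lf (nat_lit 0) (nat_lit 91017948145) (nat_lit 0) (nat_lit 0) (nat_lit 0) (nat_lit 0) (nat_lit 0) (nat_lit 0) (nat_lit 1) (nat_lit 0) (nat_lit 1) (nat_lit 0) (nat_lit 425) (nat_lit 431) (nat_lit 164)))) (XT.nd (nat_lit 156) (nat_lit 0) (nat_lit 0) (XT.nd (nat_lit 78) (nat_lit 0) (nat_lit 0) (XT.lf (nat_lit 0) (nat_lit 91017938609)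 (nat_lit 0) (nat_lit 0) (nat_lit 0) (nat_lit 0) (nat_lit 0) (nat_lit 0) (nat_lit 1) (nat_lit 0) (nat_lit 1) (nat_lit 0) (nat_lit 426) (nat_lit 431) (nat_lit 163)) (XT.lf (nat_lit 0) (nat_lit 91017929527) (nat_lit 0) (nat_lit 0) (nat_lit 0) (nat_lit 0) (nat_lit 0) (nat_lit 0) (nat_lit 1) (nat_lit 0) (nat_lit 1) (nat_lit 0) (nat_lit 427) (nat_lit 431) (nat_lit 162))) (XT.nd (nat_lit 78) (nat_lit 0) (nat_lit 0) (XT.lf (nat_lit 0) (nat_lit 91017920877) (nat_lit 0) (nat_lit 0) (nat_lit 0) (nat_lit 0) (nat_lit 0) (nat_lit 0) (nat_lit 1) (nat_lit 0) (nat_lit 1) (nat_lit 0) (nat_lit 428) (nat_lit 431) (nat_lit 161)) (XT.lf (nat_lit 0) (nat_lit 91017912640) (nat_lit 0) (nat_lit 0) (nat_lit 0) (nat_lit 0) (nat_lit 0) (nat_lit 0) (nat_lit 1) (nat_lit 0) (nat_lit 1) (nat_lit 0) (nat_lit 429) (nat_lit 431) (nat_lit 160)))))) (XT.nd (nat_lit 468) (nat_lit 0) (nat_lit 0) (XT.nd (nat_lit 234) (nat_lit 0) (nat_lit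 0) (XT.nd (nat_lit 78) (nat_lit 0) (nat_lit 0) (XT.lf (nat_lit 0) (nat_lit 91017904795) (nat_lit 0) (nat_lit 0) (nat_lit 0) (nat_lit 0) (nat_lit 0) (nat_lit 0) (nat_lit 1) (nat_lit 0) (nat_lit 1) (nat_lit 0) (nat_lit 430) (nat_lit 431) (nat_lit 159)) (XT.nd (nat_lit 78) (nat_lit 0) (nat_lit 0) (XT.lf (nat_lit 0) (nat_lit 91017897323) (nat_lit 0) (nat_lit 0) (nat_lit 0) (nat_lit 0) (nat_lit 0) (nat_lit 0) (nat_lit 1) (nat_lit 0) (nat_lit 1) (nat_lit 0) (nat_lit 431) (nat_lit 431) (nat_lit 158)) (XT.lf (nat_lit 0) (nat_lit 91017890207) (nat_lit 0) (nat_lit 0) (nat_lit 0) (nat_lit 0) (nat_lit 0) (nat_lit 0) (nat_lit 1) (nat_lit 0) (nat_lit 1) (nat_lit 0) (nat_lit 432) (nat_lit 431) (nat_lit 157)))) (XT.nd (nat_lit 78) (nat_lit 0) (nat_lit 0) (XT.lf (nat_lit 0) (nat_lit 91017883430) (nat_lit 0) (nat_lit 0) (nat_lit 0) (nat_lit 0) (nat_lit 0) (nat_lit 0) (nat_lit 1) (nat_lit 0) (nat_lit 1) (nat_lit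 0) (nat_lit 433) (nat_lit 431) (nat_lit 156)) (XT.nd (nat_lit 78) (nat_lit 0) (nat_lit 0) (XT.lf (nat_lit 0) (nat_lit 91017876976) (nat_lit 0) (nat_lit 0) (nat_lit 0) (nat_lit 0) (nat_lit 0) (nat_lit 0) (nat_lit 1) (nat_lit 0) (nat_lit 1) (nat_lit 0) (nat_lit 434) (nat_lit 431) (nat_lit 155)) (XT.lf (nat_lit 0) (nat_lit 91017870829) (nat_lit 0) (nat_lit 0) (nat_lit 0) (nat_lit 0) (nat_lit 0) (nat_lit 0) (nat_lit 1) (nat_lit 0) (nat_lit 1) (nat_lit 0) (nat_lit 435) (nat_lit 431) (nat_lit 154))))) (XT.nd (nat_lit 31278) (nat_lit 0) (nat_lit 22192) (XT.nd (nat_lit 78) (nat_lit 0) (nat_lit 0) (XT.lf (nat_lit 0) (nat_lit 91017864975) (nat_lit 0) (nat_lit 0) (nat_lit 0) (nat_lit 0) (nat_lit 0) (nat_lit 0) (nat_lit 1) (nat_lit 0) (nat_lit 1) (nat_lit 0) (nat_lit 436) (nat_lit 431) (nat_lit 153)) (XT.nd (nat_lit 78) (nat_lit 0) (nat_lit 0) (XT.lf (nat_lit 0) (nat_lit 91017859399) (nat_lit 0) (nat_lit 0)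 (nat_lit 0) (nat_lit 0) (nat_lit 0) (nat_lit 0) (nat_lit 1) (nat_lit 0) (nat_lit 1) (nat_lit 0) (nat_lit 437) (nat_lit 431) (nat_lit 152)) (XT.lf (nat_lit 0) (nat_lit 91017854089) (nat_lit 0) (nat_lit 0) (nat_lit 0) (nat_lit 0) (nat_lit 0) (nat_lit 0) (nat_lit 1) (nat_lit 0) (nat_lit 1) (nat_lit 0) (nat_lit 438) (nat_lit 431) (nat_lit 151)))) (XT.nd (nat_lit 156) (nat_lit 0) (nat_lit 76) (XT.nd (nat_lit 78) (nat_lit 0) (nat_lit 0) (XT.lf (nat_lit 836) (nat_lit 47826124868) (nat_lit 0) (nat_lit 84915174770) (nat_lit 836) (nat_lit 47826124868) (nat_lit 303) (nat_lit 1) (nat_lit 292) (nat_lit 0) (nat_lit 303) (nat_lit 0) (nat_lit 156) (nat_lit 432) (nat_lit 432)) (XT.lf (nat_lit 836) (nat_lit 185380030844) (nat_lit 76) (nat_lit 83545575177) (nat_lit 0) (nat_lit 83545575177) (nat_lit 303) (nat_lit 1) (nat_lit 293) (nat_lit 1) (nat_lit 292) (nat_lit 0) (nat_lit 157) (nat_lit 432) (nat_lit 431))) (XT.nd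 (nat_lit 78) (nat_lit 0) (nat_lit 0) (XT.lf (nat_lit 836) (nat_lit 88349331435) (nat_lit 0) (nat_lit 167376691034) (nat_lit 760) (nat_lit 88349331435) (nat_lit 304) (nat_lit 1) (nat_lit 293) (nat_lit 1) (nat_lit 303) (nat_lit 1) (nat_lit 158) (nat_lit 432) (nat_lit 430)) (XT.lf (nat_lit 836) (nat_lit 165731069323) (nat_lit 76) (nat_lit 85109852530) (nat_lit 0) (nat_lit 85109852530) (nat_lit 304) (nat_lit 1) (nat_lit 294) (nat_lit 1) (nat_lit 293) (nat_lit 1) (nat_lit 159) (nat_lit 432) (nat_lit 429))))))))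
noncomputable def ec416 : XT := (XT.nd (nat_lit 1950) (nat_lit 2888) (nat_lit 0) (XT.nd (nat_lit 936) (nat_lit 2508) (nat_lit 0) (XT.nd (nat_lit 468) (nat_lit 1444) (nat_lit 0) (XT.nd (nat_lit 234) (nat_lit 0) (nat_lit 76) (XT.nd (nat_lit 78) (nat_lit 0) (nat_lit 0) (XT.lf (nat_lit 836) (nat_lit 76284419679) (nat_lit 0) (nat_lit 175514863920) (nat_lit 760) (nat_lit 76284419679) (nat_lit 305) (nat_lit 1) (nat_lit 294) (nat_lit 1) (nat_lit 304) (nat_lit 1) (nat_lit 160) (nat_lit 432) (nat_lit 428)) (XT.nd (nat_lit 78) (nat_lit 0) (nat_lit 76) (XT.lf (nat_lit 836) (nat_lit 137202497349) (nat_lit 76) (nat_lit 91626976608) (nat_lit 0) (nat_lit 91626976608) (nat_lit 305) (nat_lit 1) (nat_lit 295) (nat_lit 1) (nat_lit 294) (nat_lit 1) (nat_lit 161) (nat_lit 432) (nat_lit 427)) (XT.lf (nat_lit 836) (nat_lit 60159332321) (nat_lit 0) (nat_lit 192766629945) (nat_lit 760) (nat_lit 60159332321) (nat_lit 306)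 (nat_lit 1) (nat_lit 295) (nat_lit 1) (nat_lit 305) (nat_lit 1) (nat_lit 162) (nat_lit 432) (nat_lit 426)))) (XT.nd (nat_lit 78) (nat_lit 0) (nat_lit 76) (XT.lf (nat_lit 836) (nat_lit 101129684777) (nat_lit 76) (nat_lit 102393703506) (nat_lit 0) (nat_lit 102393703506) (nat_lit 306) (nat_lit 1) (nat_lit 296) (nat_lit 1) (nat_lit 295) (nat_lit 1) (nat_lit 163) (nat_lit 432) (nat_lit 425)) (XT.nd (nat_lit 78) (nat_lit 0) (nat_lit 0) (XT.lf (nat_lit 836) (nat_lit 40598301086) (nat_lit 0) (nat_lit 217814683919) (nat_lit 760) (nat_lit 40598301086) (nat_lit 307) (nat_lit 1) (nat_lit 296) (nat_lit 1) (nat_lit 306) (nat_lit 1) (nat_lit 164) (nat_lit 432) (nat_lit 424)) (XT.lf (nat_lit 836) (nat_lit 58699573914) (nat_lit 76) (nat_lit 116783730993) (nat_lit 0) (nat_lit 116783730993) (nat_lit 307) (nat_lit 1) (nat_lit 297) (nat_lit 1) (nat_lit 296) (nat_lit 1) (nat_lit 165) (nat_lit 432) (nat_lit 423)))))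 (XT.nd (nat_lit 234) (nat_lit 380) (nat_lit 0) (XT.nd (nat_lit 78) (nat_lit 1292) (nat_lit 0) (XT.lf (nat_lit 76) (nat_lit 18155772309) (nat_lit 0) (nat_lit 249486572618) (nat_lit 760) (nat_lit 18155772309) (nat_lit 298) (nat_lit 1) (nat_lit 297) (nat_lit 1) (nat_lit 307) (nat_lit 1) (nat_lit 166) (nat_lit 432) (nat_lit 422)) (XT.nd (nat_lit 78) (nat_lit 532) (nat_lit 0) (XT.lf (nat_lit 836) (nat_lit 10965634980) (nat_lit 0) (nat_lit 134239994694) (nat_lit 760) (nat_lit 134239994694) (nat_lit 298) (nat_lit 1) (nat_lit 287) (nat_lit 1) (nat_lit 297) (nat_lit 1) (nat_lit 167) (nat_lit 432) (nat_lit 421)) (XT.lf (nat_lit 532) (nat_lit 260228327843) (nat_lit 0) (nat_lit 6568859326) (nat_lit 456) (nat_lit 6568859326) (nat_lit 287) (nat_lit 1) (nat_lit 280) (nat_lit 1) (nat_lit 286) (nat_lit 1) (nat_lit 168) (nat_lit 432) (nat_lit 420)))) (XT.nd (nat_lit 78) (nat_lit 380) (nat_lit 0) (XT.lf (nat_lit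 76) (nat_lit 113771372021) (nat_lit 0) (nat_lit 39821931026) (nat_lit 532) (nat_lit 113771372021) (nat_lit 281) (nat_lit 1) (nat_lit 280) (nat_lit 1) (nat_lit 287) (nat_lit 1) (nat_lit 169) (nat_lit 432) (nat_lit 419)) (XT.nd (nat_lit 78) (nat_lit 0) (nat_lit 0) (XT.lf (nat_lit 456) (nat_lit 195771327404) (nat_lit 0) (nat_lit 32923585315) (nat_lit 380) (nat_lit 32923585315) (nat_lit 281) (nat_lit 1) (nat_lit 275) (nat_lit 1) (nat_lit 280) (nat_lit 1) (nat_lit 170) (nat_lit 432) (nat_lit 418)) (XT.lf (nat_lit 76) (nat_lit 81151734672) (nat_lit 0) (nat_lit 93689652179) (nat_lit 456) (nat_lit 81151734672) (nat_lit 276) (nat_lit 1) (nat_lit 275) (nat_lit 1) (nat_lit 281) (nat_lit 1) (nat_lit 171) (nat_lit 432) (nat_lit 417)))))) (XT.nd (nat_lit 468) (nat_lit 1140) (nat_lit 0) (XT.nd (nat_lit 234) (nat_lit 684) (nat_lit 0) (XT.nd (nat_lit 78) (nat_lit 304) (nat_lit 0) (XT.lf (nat_lit 456) (nat_lit 128918195388)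 (nat_lit 0) (nat_lit 60822733219) (nat_lit 380) (nat_lit 60822733219) (nat_lit 276) (nat_lit 1) (nat_lit 270) (nat_lit 1) (nat_lit 275) (nat_lit 1) (nat_lit 172) (nat_lit 432) (nat_lit 416)) (XT.nd (nat_lit 78) (nat_lit 304) (nat_lit 0) (XT.lf (nat_lit 76) (nat_lit 47504641671) (nat_lit 0) (nat_lit 150282825770) (nat_lit 456) (nat_lit 47504641671) (nat_lit 271) (nat_lit 1) (nat_lit 270) (nat_lit 1) (nat_lit 276) (nat_lit 1) (nat_lit 173) (nat_lit 432) (nat_lit 415)) (XT.lf (nat_lit 380) (nat_lit 60291164852) (nat_lit 0) (nat_lit 89932496635) (nat_lit 304) (nat_lit 89932496635) (nat_lit 271) (nat_lit 1) (nat_lit 266) (nat_lit 1) (nat_lit 270) (nat_lit 1) (nat_lit 174) (nat_lit 432) (nat_lit 414)))) (XT.nd (nat_lit 78) (nat_lit 684) (nat_lit 0) (XT.lf (nat_lit 76) (nat_lit 13118955173) (nat_lit 0) (nat_lit 208979800178) (nat_lit 380) (nat_lit 13118955173) (nat_lit 267) (nat_lit 1) (nat_lit 266) (nat_lit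 1) (nat_lit 271) (nat_lit 1) (nat_lit 175) (nat_lit 432) (nat_lit 413)) (XT.nd (nat_lit 78) (nat_lit 304) (nat_lit 0) (XT.lf (nat_lit 76) (nat_lit 110544086022) (nat_lit 0) (nat_lit 9258281937) (nat_lit 380) (nat_lit 110544086022) (nat_lit 262) (nat_lit 1) (nat_lit 261) (nat_lit 1) (nat_lit 266) (nat_lit 1) (nat_lit 176) (nat_lit 432) (nat_lit 412)) (XT.lf (nat_lit 380) (nat_lit 182857351265) (nat_lit 0) (nat_lit 21401677782) (nat_lit 304) (nat_lit 21401677782) (nat_lit 262) (nat_lit 1) (nat_lit 257) (nat_lit 1) (nat_lit 261) (nat_lit 1) (nat_lit 177) (nat_lit 432) (nat_lit 411))))) (XT.nd (nat_lit 234) (nat_lit 836) (nat_lit 0) (XT.nd (nat_lit 78) (nat_lit 304) (nat_lit 0) (XT.lf (nat_lit 76) (nat_lit 71724692132) (nat_lit 0) (nat_lit 77605960445) (nat_lit 380) (nat_lit 71724692132) (nat_lit 258) (nat_lit 1) (nat_lit 257) (nat_lit 1) (nat_lit 262) (nat_lit 1) (nat_lit 178) (nat_lit 432) (nat_lit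 410)) (XT.nd (nat_lit 78) (nat_lit 0) (nat_lit 0) (XT.lf (nat_lit 380) (nat_lit 104666278082) (nat_lit 0) (nat_lit 55971701136) (nat_lit 304) (nat_lit 55971701136) (nat_lit 258) (nat_lit 1) (nat_lit 253) (nat_lit 1) (nat_lit 257) (nat_lit 1) (nat_lit 179) (nat_lit 432) (nat_lit 409)) (XT.lf (nat_lit 76) (nat_lit 33007072927) (nat_lit 0) (nat_lit 146279861752) (nat_lit 380) (nat_lit 33007072927) (nat_lit 254) (nat_lit 1) (nat_lit 253) (nat_lit 1) (nat_lit 258) (nat_lit 1) (nat_lit 180) (nat_lit 432) (nat_lit 408)))) (XT.nd (nat_lit 156) (nat_lit 228) (nat_lit 0) (XT.nd (nat_lit 78) (nat_lit 380) (nat_lit 0) (XT.lf (nat_lit 304) (nat_lit 26843238745) (nat_lit 0) (nat_lit 90614127108) (nat_lit 228) (nat_lit 90614127108) (nat_lit 254) (nat_lit 1) (nat_lit 250) (nat_lit 1) (nat_lit 253) (nat_lit 1) (nat_lit 181) (nat_lit 432) (nat_lit 407)) (XT.lf (nat_lit 380) (nat_lit 193285335272) (nat_lit 0) (nat_lit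 5363297179) (nat_lit 304) (nat_lit 5363297179) (nat_lit 250) (nat_lit 1) (nat_lit 245) (nat_lit 1) (nat_lit 249) (nat_lit 1) (nat_lit 182) (nat_lit 432) (nat_lit 406))) (XT.nd (nat_lit 78) (nat_lit 228) (nat_lit 0) (XT.lf (nat_lit 76) (nat_lit 75633980626) (nat_lit 0) (nat_lit 48706874244) (nat_lit 380) (nat_lit 75633980626) (nat_lit 246) (nat_lit 1) (nat_lit 245) (nat_lit 1) (nat_lit 250) (nat_lit 1) (nat_lit 183) (nat_lit 432) (nat_lit 405)) (XT.lf (nat_lit 304) (nat_lit 110465819821) (nat_lit 0) (nat_lit 42813377422) (nat_lit 228) (nat_lit 42813377422) (nat_lit 246) (nat_lit 1) (nat_lit 242) (nat_lit 1) (nat_lit 245) (nat_lit 1) (nat_lit 184) (nat_lit 432) (nat_lit 404))))))) (XT.nd (nat_lit 936) (nat_lit 1292) (nat_lit 0) (XT.nd (nat_lit 468) (nat_lit 836) (nat_lit 0) (XT.nd (nat_lit 234) (nat_lit 228) (nat_lit 0) (XT.nd (nat_lit 78) (nat_lit 532) (nat_lit 0) (XT.lf (nat_lit 76) (nat_lit 34897861213)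 (nat_lit 0) (nat_lit 122513226921) (nat_lit 304) (nat_lit 34897861213) (nat_lit 243) (nat_lit 1) (nat_lit 242) (nat_lit 1) (nat_lit 246) (nat_lit 1) (nat_lit 185) (nat_lit 432) (nat_lit 403)) (XT.nd (nat_lit 78) (nat_lit 304) (nat_lit 0) (XT.lf (nat_lit 304) (nat_lit 29086276546) (nat_lit 0) (nat_lit 79762561967) (nat_lit 228) (nat_lit 79762561967) (nat_lit 243) (nat_lit 1) (nat_lit 239) (nat_lit 1) (nat_lit 242) (nat_lit 1) (nat_lit 186) (nat_lit 432) (nat_lit 402)) (XT.lf (nat_lit 304) (nat_lit 175053666083) (nat_lit 0) (nat_lit 4998777082) (nat_lit 228) (nat_lit 4998777082) (nat_lit 239) (nat_lit 1) (nat_lit 235) (nat_lit 1) (nat_lit 238) (nat_lit 1) (nat_lit 187) (nat_lit 432) (nat_lit 401)))) (XT.nd (nat_lit 78) (nat_lit 228) (nat_lit 0) (XT.lf (nat_lit 76) (nat_lit 66217788658) (nat_lit 0) (nat_lit 49066716495) (nat_lit 304) (nat_lit 66217788658) (nat_lit 236) (nat_lit 1) (nat_lit 235) (nat_lit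 1) (nat_lit 239) (nat_lit 1) (nat_lit 188) (nat_lit 432) (nat_lit 400)) (XT.nd (nat_lit 78) (nat_lit 0) (nat_lit 0) (XT.lf (nat_lit 304) (nat_lit 91055522695) (nat_lit 0) (nat_lit 43514577763) (nat_lit 228) (nat_lit 43514577763) (nat_lit 236) (nat_lit 1) (nat_lit 232) (nat_lit 1) (nat_lit 235) (nat_lit 1) (nat_lit 189) (nat_lit 432) (nat_lit 399)) (XT.lf (nat_lit 76) (nat_lit 25076616689) (nat_lit 0) (nat_lit 124605491259) (nat_lit 304) (nat_lit 25076616689) (nat_lit 233) (nat_lit 1) (nat_lit 232) (nat_lit 1) (nat_lit 236) (nat_lit 1) (nat_lit 190) (nat_lit 432) (nat_lit 398))))) (XT.nd (nat_lit 234) (nat_lit 380) (nat_lit 0) (XT.nd (nat_lit 78) (nat_lit 304) (nat_lit 0) (XT.lf (nat_lit 228) (nat_lit 9188906135) (nat_lit 0) (nat_lit 81153270258) (nat_lit 152) (nat_lit 81153270258) (nat_lit 233) (nat_lit 1) (nat_lit 230) (nat_lit 1) (nat_lit 232) (nat_lit 1) (nat_lit 191) (nat_lit 432) (nat_lit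 397)) (XT.nd (nat_lit 78) (nat_lit 0) (nat_lit 0) (XT.lf (nat_lit 304) (nat_lit 138841290528) (nat_lit 0) (nat_lit 14745951422) (nat_lit 228) (nat_lit 14745951422) (nat_lit 230) (nat_lit 1) (nat_lit 226) (nat_lit 1) (nat_lit 229) (nat_lit 1) (nat_lit 192) (nat_lit 432) (nat_lit 396)) (XT.lf (nat_lit 76) (nat_lit 48493967087) (nat_lit 0) (nat_lit 68218372682) (nat_lit 304) (nat_lit 48493967087) (nat_lit 227) (nat_lit 1) (nat_lit 226) (nat_lit 1) (nat_lit 230) (nat_lit 1) (nat_lit 193) (nat_lit 432) (nat_lit 395)))) (XT.nd (nat_lit 78) (nat_lit 228) (nat_lit 0) (XT.lf (nat_lit 228) (nat_lit 56027298455) (nat_lit 0) (nat_lit 53074313089) (nat_lit 152) (nat_lit 53074313089) (nat_lit 227) (nat_lit 1) (nat_lit 224) (nat_lit 1) (nat_lit 226) (nat_lit 1) (nat_lit 194) (nat_lit 432) (nat_lit 394)) (XT.nd (nat_lit 78) (nat_lit 228) (nat_lit 0) (XT.lf (nat_lit 76) (nat_lit 8049344448) (nat_lit 0) (nat_lit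 143147420272) (nat_lit 228) (nat_lit 8049344448) (nat_lit 225) (nat_lit 1) (nat_lit 224) (nat_lit 1) (nat_lit 227) (nat_lit 1) (nat_lit 195) (nat_lit 432) (nat_lit 393)) (XT.lf (nat_lit 76) (nat_lit 66432651952) (nat_lit 0) (nat_lit 23461639890) (nat_lit 228) (nat_lit 66432651952) (nat_lit 222) (nat_lit 1) (nat_lit 221) (nat_lit 1) (nat_lit 224) (nat_lit 1) (nat_lit 196) (nat_lit 432) (nat_lit 392)))))) (XT.nd (nat_lit 468) (nat_lit 608) (nat_lit 0) (XT.nd (nat_lit 234) (nat_lit 380) (nat_lit 0) (XT.nd (nat_lit 78) (nat_lit 152) (nat_lit 0) (XT.lf (nat_lit 228) (nat_lit 92253380559) (nat_lit 0) (nat_lit 30625622831) (nat_lit 152) (nat_lit 30625622831) (nat_lit 222) (nat_lit 1) (nat_lit 219) (nat_lit 1) (nat_lit 221) (nat_lit 1) (nat_lit 197) (nat_lit 432) (nat_lit 391)) (XT.nd (nat_lit 78) (nat_lit 152) (nat_lit 0) (XT.lf (nat_lit 76) (nat_lit 26031503912) (nat_lit 0) (nat_lit 98681680209) (nat_lit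 228) (nat_lit 26031503912) (nat_lit 220) (nat_lit 1) (nat_lit 219) (nat_lit 1) (nat_lit 222) (nat_lit 1) (nat_lit 198) (nat_lit 432) (nat_lit 390)) (XT.lf (nat_lit 228) (nat_lit 12194822361) (nat_lit 0) (nat_lit 67922780366) (nat_lit 152) (nat_lit 67922780366) (nat_lit 220) (nat_lit 1) (nat_lit 217) (nat_lit 1) (nat_lit 219) (nat_lit 1) (nat_lit 199) (nat_lit 432) (nat_lit 389)))) (XT.nd (nat_lit 78) (nat_lit 152) (nat_lit 0) (XT.lf (nat_lit 228) (nat_lit 119858592555) (nat_lit 0) (nat_lit 12777922462) (nat_lit 152) (nat_lit 12777922462) (nat_lit 217) (nat_lit 1) (nat_lit 214) (nat_lit 1) (nat_lit 216) (nat_lit 1) (nat_lit 200) (nat_lit 432) (nat_lit 388)) (XT.nd (nat_lit 78) (nat_lit 152) (nat_lit 0) (XT.lf (nat_lit 76) (nat_lit 39901219181) (nat_lit 0) (nat_lit 63008465659) (nat_lit 228) (nat_lit 39901219181) (nat_lit 215) (nat_lit 1) (nat_lit 214) (nat_lit 1) (nat_lit 217) (nat_lit 1) (nat_lit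 201) (nat_lit 432) (nat_lit 387)) (XT.lf (nat_lit 228) (nat_lit 40637454509) (nat_lit 0) (nat_lit 49822750120) (nat_lit 152) (nat_lit 49822750120) (nat_lit 215) (nat_lit 1) (nat_lit 212) (nat_lit 1) (nat_lit 214) (nat_lit 1) (nat_lit 202) (nat_lit 432) (nat_lit 386))))) (XT.nd (nat_lit 234) (nat_lit 304) (nat_lit 0) (XT.nd (nat_lit 78) (nat_lit 304) (nat_lit 0) (XT.lf (nat_lit 76) (nat_lit 1335641054) (nat_lit 0) (nat_lit 135172378678) (nat_lit 228) (nat_lit 1335641054) (nat_lit 213) (nat_lit 1) (nat_lit 212) (nat_lit 1) (nat_lit 215) (nat_lit 1) (nat_lit 203) (nat_lit 432) (nat_lit 385)) (XT.nd (nat_lit 78) (nat_lit 152) (nat_lit 0) (XT.lf (nat_lit 76) (nat_lit 50431628425) (nat_lit 0) (nat_lit 34525604568) (nat_lit 152) (nat_lit 50431628425) (nat_lit 211) (nat_lit 1) (nat_lit 210) (nat_lit 1) (nat_lit 212) (nat_lit 1) (nat_lit 204) (nat_lit 432) (nat_lit 384)) (XT.lf (nat_lit 228) (nat_lit 62579909607)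 (nat_lit 0) (nat_lit 35220262317) (nat_lit 152) (nat_lit 35220262317) (nat_lit 211) (nat_lit 1) (nat_lit 208) (nat_lit 1) (nat_lit 210) (nat_lit 1) (nat_lit 205) (nat_lit 432) (nat_lit 383)))) (XT.nd (nat_lit 156) (nat_lit 152) (nat_lit 0) (XT.nd (nat_lit 78) (nat_lit 152) (nat_lit 0) (XT.lf (nat_lit 76) (nat_lit 12546839371) (nat_lit 0) (nat_lit 105622258183) (nat_lit 228) (nat_lit 12546839371) (nat_lit 209) (nat_lit 1) (nat_lit 208) (nat_lit 1) (nat_lit 211) (nat_lit 1) (nat_lit 206) (nat_lit 432) (nat_lit 382)) (XT.lf (nat_lit 76) (nat_lit 58256698519) (nat_lit 0) (nat_lit 11917046928) (nat_lit 152) (nat_lit 58256698519) (nat_lit 207) (nat_lit 1) (nat_lit 206) (nat_lit 1) (nat_lit 208) (nat_lit 1) (nat_lit 207) (nat_lit 432) (nat_lit 381))) (XT.nd (nat_lit 78) (nat_lit 0) (nat_lit 0) (XT.lf (nat_lit 228) (nat_lit 79244051470) (nat_lit 0) (nat_lit 23481475536) (nat_lit 152) (nat_lit 23481475536)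 (nat_lit 207) (nat_lit 1) (nat_lit 204) (nat_lit 1) (nat_lit 206) (nat_lit 1) (nat_lit 208) (nat_lit 432) (nat_lit 380)) (XT.lf (nat_lit 76) (nat_lit 21225176916) (nat_lit 0) (nat_lit 81577224364) (nat_lit 228) (nat_lit 21225176916) (nat_lit 205) (nat_lit 1) (nat_lit 204) (nat_lit 1) (nat_lit 207) (nat_lit 1) (nat_lit 209) (nat_lit 432) (nat_lit 379))))))))
noncomputable def ec417 : XT := (XT.nd (nat_lit 1950) (nat_lit 1824) (nat_lit 0) (XT.nd (nat_lit 936) (nat_lit 988) (nat_lit 0) (XT.nd (nat_lit 468) (nat_lit 532) (nat_lit 0) (XT.nd (nat_lit 234) (nat_lit 304) (nat_lit 0) (XT.nd (nat_lit 78) (nat_lit 228) (nat_lit 0) (XT.lf (nat_lit 152) (nat_lit 6092975350) (nat_lit 0) (nat_lit 57898152646) (nat_lit 76) (nat_lit 57898152646) (nat_lit 205) (nat_lit 1) (nat_lit 203) (nat_lit 1) (nat_lit 204) (nat_lit 1) (nat_lit 210) (nat_lit 432) (nat_lit 378)) (XT.nd (nat_lit 78) (nat_lit 0) (nat_lit 0) (XT.lf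 (nat_lit 228) (nat_lit 91631805795) (nat_lit 0) (nat_lit 14085580954) (nat_lit 152) (nat_lit 14085580954) (nat_lit 203) (nat_lit 1) (nat_lit 200) (nat_lit 1) (nat_lit 202) (nat_lit 1) (nat_lit 211) (nat_lit 432) (nat_lit 377)) (XT.lf (nat_lit 76) (nat_lit 27845682828) (nat_lit 0) (nat_lit 62048575955) (nat_lit 228) (nat_lit 27845682828) (nat_lit 201) (nat_lit 1) (nat_lit 200) (nat_lit 1) (nat_lit 203) (nat_lit 1) (nat_lit 212) (nat_lit 432) (nat_lit 376)))) (XT.nd (nat_lit 78) (nat_lit 228) (nat_lit 0) (XT.lf (nat_lit 152) (nat_lit 20461591567) (nat_lit 0) (nat_lit 47632953467) (nat_lit 76) (nat_lit 47632953467) (nat_lit 201) (nat_lit 1) (nat_lit 199) (nat_lit 1) (nat_lit 200) (nat_lit 1) (nat_lit 213) (nat_lit 432) (nat_lit 375)) (XT.nd (nat_lit 78) (nat_lit 0) (nat_lit 0) (XT.lf (nat_lit 228) (nat_lit 100564312004) (nat_lit 0) (nat_lit 6604730804) (nat_lit 152) (nat_lit 6604730804) (nat_lit 199)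 (nat_lit 1) (nat_lit 196) (nat_lit 1) (nat_lit 198) (nat_lit 1) (nat_lit 214) (nat_lit 432) (nat_lit 374)) (XT.lf (nat_lit 76) (nat_lit 32797928606) (nat_lit 0) (nat_lit 46223508981) (nat_lit 228) (nat_lit 32797928606) (nat_lit 197) (nat_lit 1) (nat_lit 196) (nat_lit 1) (nat_lit 199) (nat_lit 1) (nat_lit 215) (nat_lit 432) (nat_lit 373))))) (XT.nd (nat_lit 234) (nat_lit 228) (nat_lit 0) (XT.nd (nat_lit 78) (nat_lit 228) (nat_lit 0) (XT.lf (nat_lit 152) (nat_lit 31547026466) (nat_lit 0) (nat_lit 39187748699) (nat_lit 76) (nat_lit 39187748699) (nat_lit 197) (nat_lit 1) (nat_lit 195) (nat_lit 1) (nat_lit 196) (nat_lit 1) (nat_lit 216) (nat_lit 432) (nat_lit 372)) (XT.nd (nat_lit 78) (nat_lit 0) (nat_lit 0) (XT.lf (nat_lit 228) (nat_lit 106714126083) (nat_lit 0) (nat_lit 687526944) (nat_lit 152) (nat_lit 687526944) (nat_lit 195) (nat_lit 1) (nat_lit 192) (nat_lit 1) (nat_lit 194) (nat_lit 1) (nat_lit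 217) (nat_lit 432) (nat_lit 371)) (XT.lf (nat_lit 76) (nat_lit 36401238394) (nat_lit 0) (nat_lit 33433901884) (nat_lit 228) (nat_lit 36401238394) (nat_lit 193) (nat_lit 1) (nat_lit 192) (nat_lit 1) (nat_lit 195) (nat_lit 1) (nat_lit 218) (nat_lit 432) (nat_lit 370)))) (XT.nd (nat_lit 78) (nat_lit 152) (nat_lit 0) (XT.lf (nat_lit 152) (nat_lit 39966411455) (nat_lit 0) (nat_lit 32239857836) (nat_lit 76) (nat_lit 32239857836) (nat_lit 193) (nat_lit 1) (nat_lit 191) (nat_lit 1) (nat_lit 192) (nat_lit 1) (nat_lit 219) (nat_lit 432) (nat_lit 369)) (XT.nd (nat_lit 78) (nat_lit 152) (nat_lit 0) (XT.lf (nat_lit 0) (nat_lit 4019390603) (nat_lit 0) (nat_lit 94671145065) (nat_lit 152) (nat_lit 4019390603) (nat_lit 191) (nat_lit 3) (nat_lit 191) (nat_lit 1) (nat_lit 193) (nat_lit 1) (nat_lit 220) (nat_lit 432) (nat_lit 368)) (XT.lf (nat_lit 76) (nat_lit 38917199734) (nat_lit 0) (nat_lit 23130636348) (nat_lit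 152) (nat_lit 38917199734) (nat_lit 190) (nat_lit 1) (nat_lit 189) (nat_lit 1) (nat_lit 191) (nat_lit 1) (nat_lit 221) (nat_lit 432) (nat_lit 367)))))) (XT.nd (nat_lit 468) (nat_lit 532) (nat_lit 0) (XT.nd (nat_lit 234) (nat_lit 228) (nat_lit 0) (XT.nd (nat_lit 78) (nat_lit 152) (nat_lit 0) (XT.lf (nat_lit 152) (nat_lit 46225793908) (nat_lit 0) (nat_lit 26523810829) (nat_lit 76) (nat_lit 26523810829) (nat_lit 190) (nat_lit 1) (nat_lit 188) (nat_lit 1) (nat_lit 189) (nat_lit 1) (nat_lit 222) (nat_lit 432) (nat_lit 366)) (XT.nd (nat_lit 78) (nat_lit 152) (nat_lit 0) (XT.lf (nat_lit 0) (nat_lit 7682280070) (nat_lit 0) (nat_lit 82261702810) (nat_lit 152) (nat_lit 7682280070) (nat_lit 188) (nat_lit 3) (nat_lit 188) (nat_lit 1) (nat_lit 190) (nat_lit 1) (nat_lit 223) (nat_lit 432) (nat_lit 365)) (XT.lf (nat_lit 76) (nat_lit 40559953505) (nat_lit 0) (nat_lit 14862472268) (nat_lit 152) (nat_lit 40559953505)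 (nat_lit 187) (nat_lit 1) (nat_lit 186) (nat_lit 1) (nat_lit 188) (nat_lit 1) (nat_lit 224) (nat_lit 432) (nat_lit 364)))) (XT.nd (nat_lit 78) (nat_lit 152) (nat_lit 0) (XT.lf (nat_lit 152) (nat_lit 50739911519) (nat_lit 0) (nat_lit 21821204810) (nat_lit 76) (nat_lit 21821204810) (nat_lit 187) (nat_lit 1) (nat_lit 185) (nat_lit 1) (nat_lit 186) (nat_lit 1) (nat_lit 225) (nat_lit 432) (nat_lit 363)) (XT.nd (nat_lit 78) (nat_lit 152) (nat_lit 0) (XT.lf (nat_lit 0) (nat_lit 10487390325) (nat_lit 0) (nat_lit 71844065981) (nat_lit 152) (nat_lit 10487390325) (nat_lit 185) (nat_lit 3) (nat_lit 185) (nat_lit 1) (nat_lit 187) (nat_lit 1) (nat_lit 226) (nat_lit 432) (nat_lit 362)) (XT.lf (nat_lit 76) (nat_lit 41504656957) (nat_lit 0) (nat_lit 8258669384) (nat_lit 152) (nat_lit 41504656957) (nat_lit 184) (nat_lit 1) (nat_lit 183) (nat_lit 1) (nat_lit 185) (nat_lit 1) (nat_lit 227) (nat_lit 432) (nat_lit 361)))))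 (XT.nd (nat_lit 234) (nat_lit 304) (nat_lit 0) (XT.nd (nat_lit 78) (nat_lit 152) (nat_lit 0) (XT.lf (nat_lit 152) (nat_lit 53848456941) (nat_lit 0) (nat_lit 17952359200) (nat_lit 76) (nat_lit 17952359200) (nat_lit 184) (nat_lit 1) (nat_lit 182) (nat_lit 1) (nat_lit 183) (nat_lit 1) (nat_lit 228) (nat_lit 432) (nat_lit 360)) (XT.nd (nat_lit 78) (nat_lit 152) (nat_lit 0) (XT.lf (nat_lit 0) (nat_lit 12596725306) (nat_lit 0) (nat_lit 63075014214) (nat_lit 152) (nat_lit 12596725306) (nat_lit 182) (nat_lit 3) (nat_lit 182) (nat_lit 1) (nat_lit 184) (nat_lit 1) (nat_lit 229) (nat_lit 432) (nat_lit 359)) (XT.lf (nat_lit 76) (nat_lit 41894443833) (nat_lit 0) (nat_lit 3014691234) (nat_lit 152) (nat_lit 41894443833) (nat_lit 181) (nat_lit 1) (nat_lit 180) (nat_lit 1) (nat_lit 182) (nat_lit 1) (nat_lit 230) (nat_lit 432) (nat_lit 358)))) (XT.nd (nat_lit 156) (nat_lit 228) (nat_lit 0) (XT.nd (nat_lit 78) (nat_lit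 0) (nat_lit 0) (XT.lf (nat_lit 152) (nat_lit 55829455135) (nat_lit 0) (nat_lit 14769450342) (nat_lit 76) (nat_lit 14769450342) (nat_lit 181) (nat_lit 1) (nat_lit 179) (nat_lit 1) (nat_lit 180) (nat_lit 1) (nat_lit 231) (nat_lit 432) (nat_lit 357)) (XT.lf (nat_lit 0) (nat_lit 14143093591) (nat_lit 0) (nat_lit 55671706798) (nat_lit 152) (nat_lit 14143093591) (nat_lit 179) (nat_lit 3) (nat_lit 179) (nat_lit 1) (nat_lit 181) (nat_lit 1) (nat_lit 232) (nat_lit 432) (nat_lit 356))) (XT.nd (nat_lit 78) (nat_lit 152) (nat_lit 0) (XT.lf (nat_lit 76) (nat_lit 1156572663) (nat_lit 0) (nat_lit 40707632860) (nat_lit 76) (nat_lit 40707632860) (nat_lit 179) (nat_lit 3) (nat_lit 178) (nat_lit 1) (nat_lit 179) (nat_lit 1) (nat_lit 233) (nat_lit 432) (nat_lit 355)) (XT.lf (nat_lit 152) (nat_lit 56910265521) (nat_lit 0) (nat_lit 12150863347) (nat_lit 76) (nat_lit 12150863347) (nat_lit 178) (nat_lit 1) (nat_lit 176)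 (nat_lit 1) (nat_lit 177) (nat_lit 1) (nat_lit 234) (nat_lit 432) (nat_lit 354))))))) (XT.nd (nat_lit 936) (nat_lit 912) (nat_lit 0) (XT.nd (nat_lit 468) (nat_lit 456) (nat_lit 0) (XT.nd (nat_lit 234) (nat_lit 228) (nat_lit 0) (XT.nd (nat_lit 78) (nat_lit 228) (nat_lit 0) (XT.lf (nat_lit 0) (nat_lit 15235307152) (nat_lit 0) (nat_lit 49401000013) (nat_lit 152) (nat_lit 15235307152) (nat_lit 176) (nat_lit 3) (nat_lit 176) (nat_lit 1) (nat_lit 178) (nat_lit 1) (nat_lit 235) (nat_lit 432) (nat_lit 353)) (XT.nd (nat_lit 78) (nat_lit 152) (nat_lit 0) (XT.lf (nat_lit 76) (nat_lit 4493203777) (nat_lit 0) (nat_lit 37031958883) (nat_lit 76) (nat_lit 37031958883) (nat_lit 176) (nat_lit 3) (nat_lit 175) (nat_lit 1) (nat_lit 176) (nat_lit 1) (nat_lit 236) (nat_lit 432) (nat_lit 352)) (XT.lf (nat_lit 152) (nat_lit 57276630204) (nat_lit 0) (nat_lit 9996545347) (nat_lit 76) (nat_lit 9996545347) (nat_lit 175) (nat_lit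 1) (nat_lit 173) (nat_lit 1) (nat_lit 174) (nat_lit 1) (nat_lit 237) (nat_lit 432) (nat_lit 351)))) (XT.nd (nat_lit 78) (nat_lit 228) (nat_lit 0) (XT.lf (nat_lit 0) (nat_lit 15962457331) (nat_lit 0) (nat_lit 44070657400) (nat_lit 152) (nat_lit 15962457331) (nat_lit 173) (nat_lit 3) (nat_lit 173) (nat_lit 1) (nat_lit 175) (nat_lit 1) (nat_lit 238) (nat_lit 432) (nat_lit 350)) (XT.nd (nat_lit 78) (nat_lit 152) (nat_lit 0) (XT.lf (nat_lit 76) (nat_lit 7069606615) (nat_lit 0) (nat_lit 33839320967) (nat_lit 76) (nat_lit 33839320967) (nat_lit 173) (nat_lit 3) (nat_lit 172) (nat_lit 1) (nat_lit 173) (nat_lit 1) (nat_lit 239) (nat_lit 432) (nat_lit 349)) (XT.lf (nat_lit 152) (nat_lit 57080114864) (nat_lit 0) (nat_lit 8224182596) (nat_lit 76) (nat_lit 8224182596) (nat_lit 172) (nat_lit 1) (nat_lit 170) (nat_lit 1) (nat_lit 171) (nat_lit 1) (nat_lit 240) (nat_lit 432) (nat_lit 348))))) (XT.nd (nat_lit 234)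 (nat_lit 228) (nat_lit 0) (XT.nd (nat_lit 78) (nat_lit 228) (nat_lit 0) (XT.lf (nat_lit 0) (nat_lit 16397431657) (nat_lit 0) (nat_lit 39522117416) (nat_lit 152) (nat_lit 16397431657) (nat_lit 170) (nat_lit 3) (nat_lit 170) (nat_lit 1) (nat_lit 172) (nat_lit 1) (nat_lit 241) (nat_lit 432) (nat_lit 347)) (XT.nd (nat_lit 78) (nat_lit 152) (nat_lit 0) (XT.lf (nat_lit 76) (nat_lit 9028598809) (nat_lit 0) (nat_lit 31052109056) (nat_lit 76) (nat_lit 31052109056) (nat_lit 170) (nat_lit 3) (nat_lit 169) (nat_lit 1) (nat_lit 170) (nat_lit 1) (nat_lit 242) (nat_lit 432) (nat_lit 346)) (XT.lf (nat_lit 152) (nat_lit 56444227424) (nat_lit 0) (nat_lit 6766055375) (nat_lit 76) (nat_lit 6766055375) (nat_lit 169) (nat_lit 1) (nat_lit 167) (nat_lit 1) (nat_lit 168) (nat_lit 1) (nat_lit 243) (nat_lit 432) (nat_lit 345)))) (XT.nd (nat_lit 78) (nat_lit 228) (nat_lit 0) (XT.lf (nat_lit 0) (nat_lit 16599806183) (nat_lit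 0) (nat_lit 35624542385) (nat_lit 152) (nat_lit 16599806183) (nat_lit 167) (nat_lit 3) (nat_lit 167) (nat_lit 1) (nat_lit 169) (nat_lit 1) (nat_lit 244) (nat_lit 432) (nat_lit 344)) (XT.nd (nat_lit 78) (nat_lit 152) (nat_lit 0) (XT.lf (nat_lit 76) (nat_lit 10487294346) (nat_lit 0) (nat_lit 28606090730) (nat_lit 76) (nat_lit 28606090730) (nat_lit 167) (nat_lit 3) (nat_lit 166) (nat_lit 1) (nat_lit 167) (nat_lit 1) (nat_lit 245) (nat_lit 432) (nat_lit 343)) (XT.lf (nat_lit 152) (nat_lit 55469449078) (nat_lit 0) (nat_lit 5566450501) (nat_lit 76) (nat_lit 5566450501) (nat_lit 166) (nat_lit 1) (nat_lit 164) (nat_lit 1) (nat_lit 165) (nat_lit 1) (nat_lit 246) (nat_lit 432) (nat_lit 342)))))) (XT.nd (nat_lit 468) (nat_lit 456) (nat_lit 0) (XT.nd (nat_lit 234) (nat_lit 228) (nat_lit 0) (XT.nd (nat_lit 78) (nat_lit 228) (nat_lit 0) (XT.lf (nat_lit 0) (nat_lit 16618224083) (nat_lit 0) (nat_lit 32269921639)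 (nat_lit 152) (nat_lit 16618224083) (nat_lit 164) (nat_lit 3) (nat_lit 164) (nat_lit 1) (nat_lit 166) (nat_lit 1) (nat_lit 247) (nat_lit 432) (nat_lit 341)) (XT.nd (nat_lit 78) (nat_lit 152) (nat_lit 0) (XT.lf (nat_lit 76) (nat_lit 11541678977) (nat_lit 0) (nat_lit 26448057602) (nat_lit 76) (nat_lit 26448057602) (nat_lit 164) (nat_lit 3) (nat_lit 163) (nat_lit 1) (nat_lit 164) (nat_lit 1) (nat_lit 248) (nat_lit 432) (nat_lit 340)) (XT.lf (nat_lit 152) (nat_lit 54237370641) (nat_lit 0) (nat_lit 4579532603) (nat_lit 76) (nat_lit 4579532603) (nat_lit 163) (nat_lit 1) (nat_lit 161) (nat_lit 1) (nat_lit 162) (nat_lit 1) (nat_lit 249) (nat_lit 432) (nat_lit 339)))) (XT.nd (nat_lit 78) (nat_lit 228) (nat_lit 0) (XT.lf (nat_lit 0) (nat_lit 16492351656) (nat_lit 0) (nat_lit 29369041971) (nat_lit 152) (nat_lit 16492351656) (nat_lit 161) (nat_lit 3) (nat_lit 161) (nat_lit 1) (nat_lit 163) (nat_lit 1) (nat_lit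 250) (nat_lit 432) (nat_lit 338)) (XT.nd (nat_lit 78) (nat_lit 152) (nat_lit 0) (XT.lf (nat_lit 76) (nat_lit 12270373538) (nat_lit 0) (nat_lit 24533888123) (nat_lit 76) (nat_lit 24533888123) (nat_lit 161) (nat_lit 3) (nat_lit 160) (nat_lit 1) (nat_lit 161) (nat_lit 1) (nat_lit 251) (nat_lit 432) (nat_lit 337)) (XT.lf (nat_lit 152) (nat_lit 52814092966) (nat_lit 0) (nat_lit 3767592806) (nat_lit 76) (nat_lit 3767592806) (nat_lit 160) (nat_lit 1) (nat_lit 158) (nat_lit 1) (nat_lit 159) (nat_lit 1) (nat_lit 252) (nat_lit 432) (nat_lit 336))))) (XT.nd (nat_lit 234) (nat_lit 228) (nat_lit 0) (XT.nd (nat_lit 78) (nat_lit 228) (nat_lit 0) (XT.lf (nat_lit 0) (nat_lit 16254486691) (nat_lit 0) (nat_lit 26848171680) (nat_lit 152) (nat_lit 16254486691) (nat_lit 158) (nat_lit 3) (nat_lit 158) (nat_lit 1) (nat_lit 160) (nat_lit 1) (nat_lit 253) (nat_lit 432) (nat_lit 335)) (XT.nd (nat_lit 78) (nat_lit 152) (nat_lit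 0) (XT.lf (nat_lit 76) (nat_lit 12737729229) (nat_lit 0) (nat_lit 22826953027) (nat_lit 76) (nat_lit 22826953027) (nat_lit 158) (nat_lit 3) (nat_lit 157) (nat_lit 1) (nat_lit 158) (nat_lit 1) (nat_lit 254) (nat_lit 432) (nat_lit 334)) (XT.lf (nat_lit 152) (nat_lit 51253022047) (nat_lit 0) (nat_lit 3099607925) (nat_lit 76) (nat_lit 3099607925) (nat_lit 157) (nat_lit 1) (nat_lit 155) (nat_lit 1) (nat_lit 156) (nat_lit 1) (nat_lit 255) (nat_lit 432) (nat_lit 333)))) (XT.nd (nat_lit 156) (nat_lit 152) (nat_lit 0) (XT.nd (nat_lit 78) (nat_lit 76) (nat_lit 0) (XT.lf (nat_lit 0) (nat_lit 15930880873) (nat_lit 0) (nat_lit 24646331730) (nat_lit 152) (nat_lit 15930880873) (nat_lit 155) (nat_lit 3) (nat_lit 155) (nat_lit 1) (nat_lit 157) (nat_lit 1) (nat_lit 256) (nat_lit 432) (nat_lit 332)) (XT.lf (nat_lit 76) (nat_lit 12996373314) (nat_lit 0) (nat_lit 21296802702) (nat_lit 76) (nat_lit 21296802702) (nat_lit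 155) (nat_lit 3) (nat_lit 154) (nat_lit 1) (nat_lit 155) (nat_lit 1) (nat_lit 257) (nat_lit 432) (nat_lit 331))) (XT.nd (nat_lit 78) (nat_lit 0) (nat_lit 0) (XT.lf (nat_lit 152) (nat_lit 49597166231) (nat_lit 0) (nat_lit 2550055111) (nat_lit 76) (nat_lit 2550055111) (nat_lit 154) (nat_lit 1) (nat_lit 152) (nat_lit 1) (nat_lit 153) (nat_lit 1) (nat_lit 258) (nat_lit 432) (nat_lit 330)) (XT.lf (nat_lit 0) (nat_lit 15542826973) (nat_lit 0) (nat_lit 22713049962) (nat_lit 152) (nat_lit 15542826973) (nat_lit 152) (nat_lit 3) (nat_lit 152) (nat_lit 1) (nat_lit 154) (nat_lit 1) (nat_lit 259) (nat_lit 432) (nat_lit 329))))))))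
noncomputable def ec418 : XT := (XT.nd (nat_lit 1950) (nat_lit 1976) (nat_lit 0) (XT.nd (nat_lit 936) (nat_lit 988) (nat_lit 0) (XT.nd (nat_lit 468) (nat_lit 456) (nat_lit 0) (XT.nd (nat_lit 234) (nat_lit 228) (nat_lit 0) (XT.nd (nat_lit 78) (nat_lit 152) (nat_lit 0) (XT.lf (nat_lit 76) (nat_lit 13089302732) (nat_lit 0) (nat_lit 19918086531) (nat_lit 76) (nat_lit 19918086531) (nat_lit 152) (nat_lit 3) (nat_lit 151) (nat_lit 1) (nat_lit 152) (nat_lit 1) (nat_lit 260) (nat_lit 432) (nat_lit 328)) (XT.nd (nat_lit 78) (nat_lit 0) (nat_lit 0) (XT.lf (nat_lit 152) (nat_lit 47881023927) (nat_lit 0) (nat_lit 2097936651) (nat_lit 76) (nat_lit 2097936651) (nat_lit 151) (nat_lit 1) (nat_lit 149) (nat_lit 1) (nat_lit 150) (nat_lit 1) (nat_lit 261) (nat_lit 432) (nat_lit 327)) (XT.lf (nat_lit 0) (nat_lit 15107552552) (nat_lit 0) (nat_lit 21006512750) (nat_lit 152) (nat_lit 15107552552) (nat_lit 149) (nat_lit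 3) (nat_lit 149) (nat_lit 1) (nat_lit 151) (nat_lit 1) (nat_lit 262) (nat_lit 432) (nat_lit 326)))) (XT.nd (nat_lit 78) (nat_lit 152) (nat_lit 0) (XT.lf (nat_lit 76) (nat_lit 13051605791) (nat_lit 0) (nat_lit 18669663123) (nat_lit 76) (nat_lit 18669663123) (nat_lit 149) (nat_lit 3) (nat_lit 148) (nat_lit 1) (nat_lit 149) (nat_lit 1) (nat_lit 263) (nat_lit 432) (nat_lit 325)) (XT.nd (nat_lit 78) (nat_lit 0) (nat_lit 0) (XT.lf (nat_lit 152) (nat_lit 46132134524) (nat_lit 0) (nat_lit 1725977674) (nat_lit 76) (nat_lit 1725977674) (nat_lit 148) (nat_lit 1) (nat_lit 146) (nat_lit 1) (nat_lit 147) (nat_lit 1) (nat_lit 264) (nat_lit 432) (nat_lit 324)) (XT.lf (nat_lit 0) (nat_lit 14638954527) (nat_lit 0) (nat_lit 19492043680) (nat_lit 152) (nat_lit 14638954527) (nat_lit 146) (nat_lit 3) (nat_lit 146) (nat_lit 1) (nat_lit 148) (nat_lit 1) (nat_lit 265) (nat_lit 432) (nat_lit 323))))) (XT.nd (nat_lit 234)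 (nat_lit 228) (nat_lit 0) (XT.nd (nat_lit 78) (nat_lit 152) (nat_lit 0) (XT.lf (nat_lit 76) (nat_lit 12911877947) (nat_lit 0) (nat_lit 17533867617) (nat_lit 76) (nat_lit 17533867617) (nat_lit 146) (nat_lit 3) (nat_lit 145) (nat_lit 1) (nat_lit 146) (nat_lit 1) (nat_lit 266) (nat_lit 432) (nat_lit 322)) (XT.nd (nat_lit 78) (nat_lit 0) (nat_lit 0) (XT.lf (nat_lit 152) (nat_lit 44372352330) (nat_lit 0) (nat_lit 1419966104) (nat_lit 76) (nat_lit 1419966104) (nat_lit 145) (nat_lit 1) (nat_lit 143) (nat_lit 1) (nat_lit 144) (nat_lit 1) (nat_lit 267) (nat_lit 432) (nat_lit 321)) (XT.lf (nat_lit 0) (nat_lit 14148202835) (nat_lit 0) (nat_lit 18140851292) (nat_lit 152) (nat_lit 14148202835) (nat_lit 143) (nat_lit 3) (nat_lit 143) (nat_lit 1) (nat_lit 145) (nat_lit 1) (nat_lit 268) (nat_lit 432) (nat_lit 320)))) (XT.nd (nat_lit 78) (nat_lit 152) (nat_lit 0) (XT.lf (nat_lit 76) (nat_lit 12693385906) (nat_lit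 0) (nat_lit 16495908246) (nat_lit 76) (nat_lit 16495908246) (nat_lit 143) (nat_lit 3) (nat_lit 142) (nat_lit 1) (nat_lit 143) (nat_lit 1) (nat_lit 269) (nat_lit 432) (nat_lit 319)) (XT.nd (nat_lit 78) (nat_lit 0) (nat_lit 0) (XT.lf (nat_lit 152) (nat_lit 42618892731) (nat_lit 0) (nat_lit 1168209628) (nat_lit 76) (nat_lit 1168209628) (nat_lit 142) (nat_lit 1) (nat_lit 140) (nat_lit 1) (nat_lit 141) (nat_lit 1) (nat_lit 270) (nat_lit 432) (nat_lit 318)) (XT.lf (nat_lit 0) (nat_lit 13644236456) (nat_lit 0) (nat_lit 16928998222) (nat_lit 152) (nat_lit 13644236456) (nat_lit 140) (nat_lit 3) (nat_lit 140) (nat_lit 1) (nat_lit 142) (nat_lit 1) (nat_lit 271) (nat_lit 432) (nat_lit 317)))))) (XT.nd (nat_lit 468) (nat_lit 532) (nat_lit 0) (XT.nd (nat_lit 234) (nat_lit 228) (nat_lit 0) (XT.nd (nat_lit 78) (nat_lit 152) (nat_lit 0) (XT.lf (nat_lit 76) (nat_lit 12415024726) (nat_lit 0) (nat_lit 15543369266)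 (nat_lit 76) (nat_lit 15543369266) (nat_lit 140) (nat_lit 3) (nat_lit 139) (nat_lit 1) (nat_lit 140) (nat_lit 1) (nat_lit 272) (nat_lit 432) (nat_lit 316)) (XT.nd (nat_lit 78) (nat_lit 0) (nat_lit 0) (XT.lf (nat_lit 152) (nat_lit 40885191053) (nat_lit 0) (nat_lit 961088952) (nat_lit 76) (nat_lit 961088952) (nat_lit 139) (nat_lit 1) (nat_lit 137) (nat_lit 1) (nat_lit 138) (nat_lit 1) (nat_lit 273) (nat_lit 432) (nat_lit 315)) (XT.lf (nat_lit 0) (nat_lit 13134170879) (nat_lit 0) (nat_lit 15836552514) (nat_lit 152) (nat_lit 13134170879) (nat_lit 137) (nat_lit 3) (nat_lit 137) (nat_lit 1) (nat_lit 139) (nat_lit 1) (nat_lit 274) (nat_lit 432) (nat_lit 314)))) (XT.nd (nat_lit 78) (nat_lit 152) (nat_lit 0) (XT.lf (nat_lit 76) (nat_lit 12092104641) (nat_lit 0) (nat_lit 14665801436) (nat_lit 76) (nat_lit 14665801436) (nat_lit 137) (nat_lit 3) (nat_lit 136) (nat_lit 1) (nat_lit 137) (nat_lit 1) (nat_lit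 275) (nat_lit 432) (nat_lit 313)) (XT.nd (nat_lit 78) (nat_lit 0) (nat_lit 0) (XT.lf (nat_lit 152) (nat_lit 39181607414) (nat_lit 0) (nat_lit 790690259) (nat_lit 76) (nat_lit 790690259) (nat_lit 136) (nat_lit 1) (nat_lit 134) (nat_lit 1) (nat_lit 135) (nat_lit 1) (nat_lit 276) (nat_lit 432) (nat_lit 312)) (XT.lf (nat_lit 0) (nat_lit 12623632773) (nat_lit 0) (nat_lit 14846888831) (nat_lit 152) (nat_lit 12623632773) (nat_lit 134) (nat_lit 3) (nat_lit 134) (nat_lit 1) (nat_lit 136) (nat_lit 1) (nat_lit 277) (nat_lit 432) (nat_lit 311))))) (XT.nd (nat_lit 234) (nat_lit 304) (nat_lit 0) (XT.nd (nat_lit 78) (nat_lit 152) (nat_lit 0) (XT.lf (nat_lit 76) (nat_lit 11736997817) (nat_lit 0) (nat_lit 13854384540) (nat_lit 76) (nat_lit 13854384540) (nat_lit 134) (nat_lit 3) (nat_lit 133) (nat_lit 1) (nat_lit 134) (nat_lit 1) (nat_lit 278) (nat_lit 432) (nat_lit 310)) (XT.nd (nat_lit 78) (nat_lit 0) (nat_lit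 0) (XT.lf (nat_lit 152) (nat_lit 37516004960) (nat_lit 0) (nat_lit 650502833) (nat_lit 76) (nat_lit 650502833) (nat_lit 133) (nat_lit 1) (nat_lit 131) (nat_lit 1) (nat_lit 132) (nat_lit 1) (nat_lit 279) (nat_lit 432) (nat_lit 309)) (XT.lf (nat_lit 0) (nat_lit 12117034767) (nat_lit 0) (nat_lit 13946113028) (nat_lit 152) (nat_lit 12117034767) (nat_lit 131) (nat_lit 3) (nat_lit 131) (nat_lit 1) (nat_lit 133) (nat_lit 1) (nat_lit 280) (nat_lit 432) (nat_lit 308)))) (XT.nd (nat_lit 156) (nat_lit 76) (nat_lit 0) (XT.nd (nat_lit 78) (nat_lit 152) (nat_lit 0) (XT.lf (nat_lit 76) (nat_lit 11359669917) (nat_lit 0) (nat_lit 13101649213) (nat_lit 76) (nat_lit 13101649213) (nat_lit 131) (nat_lit 3) (nat_lit 130) (nat_lit 1) (nat_lit 131) (nat_lit 1) (nat_lit 281) (nat_lit 432) (nat_lit 307)) (XT.lf (nat_lit 152) (nat_lit 35894224005) (nat_lit 0) (nat_lit 535170290) (nat_lit 76) (nat_lit 535170290) (nat_lit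 130) (nat_lit 1) (nat_lit 128) (nat_lit 1) (nat_lit 129) (nat_lit 1) (nat_lit 282) (nat_lit 432) (nat_lit 306))) (XT.nd (nat_lit 78) (nat_lit 76) (nat_lit 0) (XT.lf (nat_lit 0) (nat_lit 11617801008) (nat_lit 0) (nat_lit 13122588220) (nat_lit 152) (nat_lit 11617801008) (nat_lit 128) (nat_lit 3) (nat_lit 128) (nat_lit 1) (nat_lit 130) (nat_lit 1) (nat_lit 283) (nat_lit 432) (nat_lit 305)) (XT.lf (nat_lit 76) (nat_lit 10968116902) (nat_lit 0) (nat_lit 12401247580) (nat_lit 76) (nat_lit 12401247580) (nat_lit 128) (nat_lit 3) (nat_lit 127) (nat_lit 1) (nat_lit 128) (nat_lit 1) (nat_lit 284) (nat_lit 432) (nat_lit 304))))))) (XT.nd (nat_lit 936) (nat_lit 1064) (nat_lit 0) (XT.nd (nat_lit 468) (nat_lit 456) (nat_lit 0) (XT.nd (nat_lit 234) (nat_lit 228) (nat_lit 0) (XT.nd (nat_lit 78) (nat_lit 76) (nat_lit 0) (XT.lf (nat_lit 152) (nat_lit 34320470614) (nat_lit 0) (nat_lit 440285922) (nat_lit 76) (nat_lit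 440285922) (nat_lit 127) (nat_lit 1) (nat_lit 125) (nat_lit 1) (nat_lit 126) (nat_lit 1) (nat_lit 285) (nat_lit 432) (nat_lit 303)) (XT.nd (nat_lit 78) (nat_lit 76) (nat_lit 0) (XT.lf (nat_lit 0) (nat_lit 11128552229) (nat_lit 0) (nat_lit 12366544393) (nat_lit 152) (nat_lit 11128552229) (nat_lit 125) (nat_lit 3) (nat_lit 125) (nat_lit 1) (nat_lit 127) (nat_lit 1) (nat_lit 286) (nat_lit 432) (nat_lit 302)) (XT.lf (nat_lit 76) (nat_lit 10568723917) (nat_lit 0) (nat_lit 11747764073) (nat_lit 76) (nat_lit 11747764073) (nat_lit 125) (nat_lit 3) (nat_lit 124) (nat_lit 1) (nat_lit 125) (nat_lit 1) (nat_lit 287) (nat_lit 432) (nat_lit 301)))) (XT.nd (nat_lit 78) (nat_lit 76) (nat_lit 0) (XT.lf (nat_lit 152) (nat_lit 32797634868) (nat_lit 0) (nat_lit 362224318) (nat_lit 76) (nat_lit 362224318) (nat_lit 124) (nat_lit 1) (nat_lit 122) (nat_lit 1) (nat_lit 123) (nat_lit 1) (nat_lit 288) (nat_lit 432) (nat_lit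 300)) (XT.nd (nat_lit 78) (nat_lit 76) (nat_lit 0) (XT.lf (nat_lit 0) (nat_lit 10651257544) (nat_lit 0) (nat_lit 11669756761) (nat_lit 152) (nat_lit 10651257544) (nat_lit 122) (nat_lit 3) (nat_lit 122) (nat_lit 1) (nat_lit 124) (nat_lit 1) (nat_lit 289) (nat_lit 432) (nat_lit 299)) (XT.lf (nat_lit 76) (nat_lit 10166560082) (nat_lit 0) (nat_lit 11136559336) (nat_lit 76) (nat_lit 11136559336) (nat_lit 122) (nat_lit 3) (nat_lit 121) (nat_lit 1) (nat_lit 122) (nat_lit 1) (nat_lit 290) (nat_lit 432) (nat_lit 298))))) (XT.nd (nat_lit 234) (nat_lit 228) (nat_lit 0) (XT.nd (nat_lit 78) (nat_lit 76) (nat_lit 0) (XT.lf (nat_lit 152) (nat_lit 31327551332) (nat_lit 0) (nat_lit 298002843) (nat_lit 76) (nat_lit 298002843) (nat_lit 121) (nat_lit 1) (nat_lit 119) (nat_lit 1) (nat_lit 120) (nat_lit 1) (nat_lit 291) (nat_lit 432) (nat_lit 297)) (XT.nd (nat_lit 78) (nat_lit 76) (nat_lit 0) (XT.lf (nat_lit 0) (nat_lit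 10187358879) (nat_lit 0) (nat_lit 11025280705) (nat_lit 152) (nat_lit 10187358879) (nat_lit 119) (nat_lit 3) (nat_lit 119) (nat_lit 1) (nat_lit 121) (nat_lit 1) (nat_lit 292) (nat_lit 432) (nat_lit 296)) (XT.lf (nat_lit 76) (nat_lit 9765620578) (nat_lit 0) (nat_lit 10563641365) (nat_lit 76) (nat_lit 10563641365) (nat_lit 119) (nat_lit 3) (nat_lit 118) (nat_lit 1) (nat_lit 119) (nat_lit 1) (nat_lit 293) (nat_lit 432) (nat_lit 295)))) (XT.nd (nat_lit 78) (nat_lit 76) (nat_lit 0) (XT.lf (nat_lit 152) (nat_lit 29911212067) (nat_lit 0) (nat_lit 245167676) (nat_lit 76) (nat_lit 245167676) (nat_lit 118) (nat_lit 1) (nat_lit 116) (nat_lit 1) (nat_lit 117) (nat_lit 1) (nat_lit 294) (nat_lit 432) (nat_lit 294)) (XT.nd (nat_lit 78) (nat_lit 76) (nat_lit 0) (XT.lf (nat_lit 0) (nat_lit 9737872920) (nat_lit 0) (nat_lit 10427233280) (nat_lit 152) (nat_lit 9737872920) (nat_lit 116) (nat_lit 3) (nat_lit 116) (nat_lit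 1) (nat_lit 118) (nat_lit 1) (nat_lit 295) (nat_lit 432) (nat_lit 293)) (XT.lf (nat_lit 76) (nat_lit 9369025397) (nat_lit 0) (nat_lit 10025559073) (nat_lit 76) (nat_lit 10025559073) (nat_lit 116) (nat_lit 3) (nat_lit 115) (nat_lit 1) (nat_lit 116) (nat_lit 1) (nat_lit 296) (nat_lit 432) (nat_lit 292)))))) (XT.nd (nat_lit 468) (nat_lit 608) (nat_lit 0) (XT.nd (nat_lit 234) (nat_lit 228) (nat_lit 0) (XT.nd (nat_lit 78) (nat_lit 76) (nat_lit 0) (XT.lf (nat_lit 152) (nat_lit 28548940626) (nat_lit 0) (nat_lit 201700054) (nat_lit 76) (nat_lit 201700054) (nat_lit 115) (nat_lit 1) (nat_lit 113) (nat_lit 1) (nat_lit 114) (nat_lit 1) (nat_lit 297) (nat_lit 432) (nat_lit 291)) (XT.nd (nat_lit 78) (nat_lit 76) (nat_lit 0) (XT.lf (nat_lit 0) (nat_lit 9303474588) (nat_lit 0) (nat_lit 9870613063) (nat_lit 152) (nat_lit 9303474588) (nat_lit 113) (nat_lit 3) (nat_lit 113) (nat_lit 1) (nat_lit 115) (nat_lit 1) (nat_lit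 298) (nat_lit 432) (nat_lit 290)) (XT.lf (nat_lit 76) (nat_lit 8979182456) (nat_lit 0) (nat_lit 9519314336) (nat_lit 76) (nat_lit 9519314336) (nat_lit 113) (nat_lit 3) (nat_lit 112) (nat_lit 1) (nat_lit 113) (nat_lit 1) (nat_lit 299) (nat_lit 432) (nat_lit 289)))) (XT.nd (nat_lit 78) (nat_lit 76) (nat_lit 0) (XT.lf (nat_lit 152) (nat_lit 27240534043) (nat_lit 0) (nat_lit 165939133) (nat_lit 76) (nat_lit 165939133) (nat_lit 112) (nat_lit 1) (nat_lit 110) (nat_lit 1) (nat_lit 111) (nat_lit 1) (nat_lit 300) (nat_lit 432) (nat_lit 288)) (XT.nd (nat_lit 78) (nat_lit 76) (nat_lit 0) (XT.lf (nat_lit 0) (nat_lit 8884565318) (nat_lit 0) (nat_lit 9351151544) (nat_lit 152) (nat_lit 8884565318) (nat_lit 110) (nat_lit 3) (nat_lit 110) (nat_lit 1) (nat_lit 112) (nat_lit 1) (nat_lit 301) (nat_lit 432) (nat_lit 287)) (XT.lf (nat_lit 76) (nat_lit 8597921415) (nat_lit 0) (nat_lit 9042289249) (nat_lit 76) (nat_lit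 9042289249) (nat_lit 110) (nat_lit 3) (nat_lit 109) (nat_lit 1) (nat_lit 110) (nat_lit 1) (nat_lit 302) (nat_lit 432) (nat_lit 286))))) (XT.nd (nat_lit 234) (nat_lit 380) (nat_lit 0) (XT.nd (nat_lit 78) (nat_lit 76) (nat_lit 0) (XT.lf (nat_lit 152) (nat_lit 25985378522) (nat_lit 0) (nat_lit 136518535) (nat_lit 76) (nat_lit 136518535) (nat_lit 109) (nat_lit 1) (nat_lit 107) (nat_lit 1) (nat_lit 108) (nat_lit 1) (nat_lit 303) (nat_lit 432) (nat_lit 285)) (XT.nd (nat_lit 78) (nat_lit 76) (nat_lit 0) (XT.lf (nat_lit 0) (nat_lit 8481328875) (nat_lit 0) (nat_lit 8865190518) (nat_lit 152) (nat_lit 8481328875) (nat_lit 107) (nat_lit 3) (nat_lit 107) (nat_lit 1) (nat_lit 109) (nat_lit 1) (nat_lit 304) (nat_lit 432) (nat_lit 284)) (XT.lf (nat_lit 76) (nat_lit 8226603403) (nat_lit 0) (nat_lit 8592185921) (nat_lit 76) (nat_lit 8592185921) (nat_lit 107) (nat_lit 3) (nat_lit 106) (nat_lit 1) (nat_lit 107) (nat_lit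 1) (nat_lit 305) (nat_lit 432) (nat_lit 283)))) (XT.nd (nat_lit 156) (nat_lit 228) (nat_lit 0) (XT.nd (nat_lit 78) (nat_lit 0) (nat_lit 0) (XT.lf (nat_lit 152) (nat_lit 24782543552) (nat_lit 0) (nat_lit 112314137) (nat_lit 76) (nat_lit 112314137) (nat_lit 106) (nat_lit 1) (nat_lit 104) (nat_lit 1) (nat_lit 105) (nat_lit 1) (nat_lit 306) (nat_lit 432) (nat_lit 282)) (XT.lf (nat_lit 0) (nat_lit 8093776921) (nat_lit 0) (nat_lit 8409580845) (nat_lit 152) (nat_lit 8093776921) (nat_lit 104) (nat_lit 3) (nat_lit 104) (nat_lit 1) (nat_lit 106) (nat_lit 1) (nat_lit 307) (nat_lit 432) (nat_lit 281))) (XT.nd (nat_lit 78) (nat_lit 152) (nat_lit 0) (XT.lf (nat_lit 76) (nat_lit 7866210958) (nat_lit 0) (nat_lit 8166976599) (nat_lit 76) (nat_lit 8166976599) (nat_lit 104) (nat_lit 3) (nat_lit 103) (nat_lit 1) (nat_lit 104) (nat_lit 1) (nat_lit 308) (nat_lit 432) (nat_lit 280)) (XT.lf (nat_lit 152) (nat_lit 23630858325)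 (nat_lit 0) (nat_lit 92401118) (nat_lit 76) (nat_lit 92401118) (nat_lit 103) (nat_lit 1) (nat_lit 101) (nat_lit 1) (nat_lit 102) (nat_lit 1) (nat_lit 309) (nat_lit 432) (nat_lit 279))))))))
noncomputable def ec419 : XT := (XT.nd (nat_lit 1950) (nat_lit 2052) (nat_lit 0) (XT.nd (nat_lit 936) (nat_lit 912) (nat_lit 0) (XT.nd (nat_lit 468) (nat_lit 456) (nat_lit 0) (XT.nd (nat_lit 234) (nat_lit 228) (nat_lit 0) (XT.nd (nat_lit 78) (nat_lit 228) (nat_lit 0) (XT.lf (nat_lit 0) (nat_lit 7721786177) (nat_lit 0) (nat_lit 7981598846) (nat_lit 152) (nat_lit 7721786177) (nat_lit 101) (nat_lit 3) (nat_lit 101) (nat_lit 1) (nat_lit 103) (nat_lit 1) (nat_lit 310) (nat_lit 432) (nat_lit 278)) (XT.nd (nat_lit 78) (nat_lit 152) (nat_lit 0) (XT.lf (nat_lit 76) (nat_lit 7517421678) (nat_lit 0) (nat_lit 7764862315) (nat_lit 76) (nat_lit 7764862315) (nat_lit 101) (nat_lit 3) (nat_lit 100) (nat_lit 1) (nat_lit 101)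 (nat_lit 1) (nat_lit 311) (nat_lit 432) (nat_lit 277)) (XT.lf (nat_lit 152) (nat_lit 22528973638) (nat_lit 0) (nat_lit 76018629) (nat_lit 76) (nat_lit 76018629) (nat_lit 100) (nat_lit 1) (nat_lit 98) (nat_lit 1) (nat_lit 99) (nat_lit 1) (nat_lit 312) (nat_lit 432) (nat_lit 276)))) (XT.nd (nat_lit 78) (nat_lit 228) (nat_lit 0) (XT.lf (nat_lit 0) (nat_lit 7365128667) (nat_lit 0) (nat_lit 7578877193) (nat_lit 152) (nat_lit 7365128667) (nat_lit 98) (nat_lit 3) (nat_lit 98) (nat_lit 1) (nat_lit 100) (nat_lit 1) (nat_lit 313) (nat_lit 432) (nat_lit 275)) (XT.nd (nat_lit 78) (nat_lit 152) (nat_lit 0) (XT.lf (nat_lit 76) (nat_lit 7180668519) (nat_lit 0) (nat_lit 7384238544) (nat_lit 76) (nat_lit 7384238544) (nat_lit 98) (nat_lit 3) (nat_lit 97) (nat_lit 1) (nat_lit 98) (nat_lit 1) (nat_lit 314) (nat_lit 432) (nat_lit 274)) (XT.lf (nat_lit 152) (nat_lit 21475411902) (nat_lit 0) (nat_lit 62540714) (nat_lit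 76) (nat_lit 62540714) (nat_lit 97) (nat_lit 1) (nat_lit 95) (nat_lit 1) (nat_lit 96) (nat_lit 1) (nat_lit 315) (nat_lit 432) (nat_lit 273))))) (XT.nd (nat_lit 234) (nat_lit 228) (nat_lit 0) (XT.nd (nat_lit 78) (nat_lit 228) (nat_lit 0) (XT.lf (nat_lit 0) (nat_lit 7023496314) (nat_lit 0) (nat_lit 7199347756) (nat_lit 152) (nat_lit 7023496314) (nat_lit 95) (nat_lit 3) (nat_lit 95) (nat_lit 1) (nat_lit 97) (nat_lit 1) (nat_lit 316) (nat_lit 432) (nat_lit 272)) (XT.nd (nat_lit 78) (nat_lit 152) (nat_lit 0) (XT.lf (nat_lit 76) (nat_lit 6856189095) (nat_lit 0) (nat_lit 7023666659) (nat_lit 76) (nat_lit 7023666659) (nat_lit 95) (nat_lit 3) (nat_lit 94) (nat_lit 1) (nat_lit 95) (nat_lit 1) (nat_lit 317) (nat_lit 432) (nat_lit 271)) (XT.lf (nat_lit 152) (nat_lit 20468607410) (nat_lit 0) (nat_lit 51452400) (nat_lit 76) (nat_lit 51452400) (nat_lit 94) (nat_lit 1) (nat_lit 92) (nat_lit 1) (nat_lit 93) (nat_lit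 1) (nat_lit 318) (nat_lit 432) (nat_lit 270)))) (XT.nd (nat_lit 78) (nat_lit 228) (nat_lit 0) (XT.lf (nat_lit 0) (nat_lit 6696520878) (nat_lit 0) (nat_lit 6841194295) (nat_lit 152) (nat_lit 6696520878) (nat_lit 92) (nat_lit 3) (nat_lit 92) (nat_lit 1) (nat_lit 94) (nat_lit 1) (nat_lit 319) (nat_lit 432) (nat_lit 269)) (XT.nd (nat_lit 78) (nat_lit 152) (nat_lit 0) (XT.lf (nat_lit 76) (nat_lit 6544065959) (nat_lit 0) (nat_lit 6681850165) (nat_lit 76) (nat_lit 6681850165) (nat_lit 92) (nat_lit 3) (nat_lit 91) (nat_lit 1) (nat_lit 92) (nat_lit 1) (nat_lit 320) (nat_lit 432) (nat_lit 268)) (XT.lf (nat_lit 152) (nat_lit 19506938630) (nat_lit 0) (nat_lit 42330017) (nat_lit 76) (nat_lit 42330017) (nat_lit 91) (nat_lit 1) (nat_lit 89) (nat_lit 1) (nat_lit 90) (nat_lit 1) (nat_lit 321) (nat_lit 432) (nat_lit 267)))))) (XT.nd (nat_lit 468) (nat_lit 456) (nat_lit 0) (XT.nd (nat_lit 234) (nat_lit 228) (nat_lit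 0) (XT.nd (nat_lit 78) (nat_lit 228) (nat_lit 0) (XT.lf (nat_lit 0) (nat_lit 6383790089) (nat_lit 0) (nat_lit 6502813266) (nat_lit 152) (nat_lit 6383790089) (nat_lit 89) (nat_lit 3) (nat_lit 89) (nat_lit 1) (nat_lit 91) (nat_lit 1) (nat_lit 322) (nat_lit 432) (nat_lit 266)) (XT.nd (nat_lit 78) (nat_lit 152) (nat_lit 0) (XT.lf (nat_lit 76) (nat_lit 6244259472) (nat_lit 0) (nat_lit 6357614879) (nat_lit 76) (nat_lit 6357614879) (nat_lit 89) (nat_lit 3) (nat_lit 88) (nat_lit 1) (nat_lit 89) (nat_lit 1) (nat_lit 323) (nat_lit 432) (nat_lit 265)) (XT.lf (nat_lit 152) (nat_lit 18588753980) (nat_lit 0) (nat_lit 34825009) (nat_lit 76) (nat_lit 34825009) (nat_lit 88) (nat_lit 1) (nat_lit 86) (nat_lit 1) (nat_lit 87) (nat_lit 1) (nat_lit 324) (nat_lit 432) (nat_lit 264)))) (XT.nd (nat_lit 78) (nat_lit 228) (nat_lit 0) (XT.lf (nat_lit 0) (nat_lit 6084860656) (nat_lit 0) (nat_lit 6182781319) (nat_lit 152) (nat_lit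 6084860656) (nat_lit 86) (nat_lit 3) (nat_lit 86) (nat_lit 1) (nat_lit 88) (nat_lit 1) (nat_lit 325) (nat_lit 432) (nat_lit 263)) (XT.nd (nat_lit 78) (nat_lit 152) (nat_lit 0) (XT.lf (nat_lit 76) (nat_lit 5956634590) (nat_lit 0) (nat_lit 6049892364) (nat_lit 76) (nat_lit 6049892364) (nat_lit 86) (nat_lit 3) (nat_lit 85) (nat_lit 1) (nat_lit 86) (nat_lit 1) (nat_lit 326) (nat_lit 432) (nat_lit 262)) (XT.lf (nat_lit 152) (nat_lit 17712392277) (nat_lit 0) (nat_lit 28650621) (nat_lit 76) (nat_lit 28650621) (nat_lit 85) (nat_lit 1) (nat_lit 83) (nat_lit 1) (nat_lit 84) (nat_lit 1) (nat_lit 327) (nat_lit 432) (nat_lit 261))))) (XT.nd (nat_lit 234) (nat_lit 228) (nat_lit 0) (XT.nd (nat_lit 78) (nat_lit 228) (nat_lit 0) (XT.lf (nat_lit 0) (nat_lit 5799268732) (nat_lit 0) (nat_lit 5879828304) (nat_lit 152) (nat_lit 5799268732) (nat_lit 83) (nat_lit 3) (nat_lit 83) (nat_lit 1) (nat_lit 85) (nat_lit 1) (nat_lit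 328) (nat_lit 432) (nat_lit 260)) (XT.nd (nat_lit 78) (nat_lit 152) (nat_lit 0) (XT.lf (nat_lit 76) (nat_lit 5680982655) (nat_lit 0) (nat_lit 5757706057) (nat_lit 76) (nat_lit 5757706057) (nat_lit 83) (nat_lit 3) (nat_lit 82) (nat_lit 1) (nat_lit 83) (nat_lit 1) (nat_lit 329) (nat_lit 432) (nat_lit 259)) (XT.lf (nat_lit 152) (nat_lit 16876198841) (nat_lit 0) (nat_lit 23570937) (nat_lit 76) (nat_lit 23570937) (nat_lit 82) (nat_lit 1) (nat_lit 80) (nat_lit 1) (nat_lit 81) (nat_lit 1) (nat_lit 330) (nat_lit 432) (nat_lit 258)))) (XT.nd (nat_lit 156) (nat_lit 152) (nat_lit 0) (XT.nd (nat_lit 78) (nat_lit 76) (nat_lit 0) (XT.lf (nat_lit 0) (nat_lit 5526538272) (nat_lit 0) (nat_lit 5592814831) (nat_lit 152) (nat_lit 5526538272) (nat_lit 80) (nat_lit 3) (nat_lit 80) (nat_lit 1) (nat_lit 82) (nat_lit 1) (nat_lit 331) (nat_lit 432) (nat_lit 257)) (XT.lf (nat_lit 76) (nat_lit 5417039096) (nat_lit 0) (nat_lit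 5480159629) (nat_lit 76) (nat_lit 5480159629) (nat_lit 80) (nat_lit 3) (nat_lit 79) (nat_lit 1) (nat_lit 80) (nat_lit 1) (nat_lit 332) (nat_lit 432) (nat_lit 256))) (XT.nd (nat_lit 78) (nat_lit 0) (nat_lit 0) (XT.lf (nat_lit 152) (nat_lit 16078538057) (nat_lit 0) (nat_lit 19391868) (nat_lit 76) (nat_lit 19391868) (nat_lit 79) (nat_lit 1) (nat_lit 77) (nat_lit 1) (nat_lit 78) (nat_lit 1) (nat_lit 333) (nat_lit 432) (nat_lit 255)) (XT.lf (nat_lit 0) (nat_lit 5266187699) (nat_lit 0) (nat_lit 5320713588) (nat_lit 152) (nat_lit 5266187699) (nat_lit 77) (nat_lit 3) (nat_lit 77) (nat_lit 1) (nat_lit 79) (nat_lit 1) (nat_lit 334) (nat_lit 432) (nat_lit 254))))))) (XT.nd (nat_lit 1014) (nat_lit 1064) (nat_lit 0) (XT.nd (nat_lit 468) (nat_lit 532) (nat_lit 0) (XT.nd (nat_lit 234) (nat_lit 228) (nat_lit 0) (XT.nd (nat_lit 78) (nat_lit 152) (nat_lit 0) (XT.lf (nat_lit 76) (nat_lit 5164497763) (nat_lit 0) (nat_lit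 5216427181) (nat_lit 76) (nat_lit 5216427181) (nat_lit 77) (nat_lit 3) (nat_lit 76) (nat_lit 1) (nat_lit 77) (nat_lit 1) (nat_lit 335) (nat_lit 432) (nat_lit 253)) (XT.nd (nat_lit 78) (nat_lit 0) (nat_lit 0) (XT.lf (nat_lit 152) (nat_lit 15317803056) (nat_lit 0) (nat_lit 15953738) (nat_lit 76) (nat_lit 15953738) (nat_lit 76) (nat_lit 1) (nat_lit 74) (nat_lit 1) (nat_lit 75) (nat_lit 1) (nat_lit 336) (nat_lit 432) (nat_lit 252)) (XT.lf (nat_lit 0) (nat_lit 5017735163) (nat_lit 0) (nat_lit 5062593746) (nat_lit 152) (nat_lit 5017735163) (nat_lit 74) (nat_lit 3) (nat_lit 74) (nat_lit 1) (nat_lit 76) (nat_lit 1) (nat_lit 337) (nat_lit 432) (nat_lit 251)))) (XT.nd (nat_lit 78) (nat_lit 152) (nat_lit 0) (XT.lf (nat_lit 76) (nat_lit 4923022511) (nat_lit 0) (nat_lit 4965744972) (nat_lit 76) (nat_lit 4965744972) (nat_lit 74) (nat_lit 3) (nat_lit 73) (nat_lit 1) (nat_lit 74) (nat_lit 1) (nat_lit 338) (nat_lit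 432) (nat_lit 250)) (XT.nd (nat_lit 78) (nat_lit 0) (nat_lit 0) (XT.lf (nat_lit 152) (nat_lit 14592423059) (nat_lit 0) (nat_lit 13125179) (nat_lit 76) (nat_lit 13125179) (nat_lit 73) (nat_lit 1) (nat_lit 71) (nat_lit 1) (nat_lit 72) (nat_lit 1) (nat_lit 339) (nat_lit 432) (nat_lit 249)) (XT.lf (nat_lit 0) (nat_lit 4780702669) (nat_lit 0) (nat_lit 4817607937) (nat_lit 152) (nat_lit 4780702669) (nat_lit 71) (nat_lit 3) (nat_lit 71) (nat_lit 1) (nat_lit 73) (nat_lit 1) (nat_lit 340) (nat_lit 432) (nat_lit 248))))) (XT.nd (nat_lit 234) (nat_lit 304) (nat_lit 0) (XT.nd (nat_lit 78) (nat_lit 152) (nat_lit 0) (XT.lf (nat_lit 76) (nat_lit 4692256538) (nat_lit 0) (nat_lit 4727404412) (nat_lit 76) (nat_lit 4727404412) (nat_lit 71) (nat_lit 3) (nat_lit 70) (nat_lit 1) (nat_lit 71) (nat_lit 1) (nat_lit 341) (nat_lit 432) (nat_lit 247)) (XT.nd (nat_lit 78) (nat_lit 0) (nat_lit 0) (XT.lf (nat_lit 152) (nat_lit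 13900868827) (nat_lit 0) (nat_lit 10798118) (nat_lit 76) (nat_lit 10798118) (nat_lit 70) (nat_lit 1) (nat_lit 68) (nat_lit 1) (nat_lit 69) (nat_lit 1) (nat_lit 342) (nat_lit 432) (nat_lit 246)) (XT.lf (nat_lit 0) (nat_lit 4554619282) (nat_lit 0) (nat_lit 4584981337) (nat_lit 152) (nat_lit 4554619282) (nat_lit 68) (nat_lit 3) (nat_lit 68) (nat_lit 1) (nat_lit 70) (nat_lit 1) (nat_lit 343) (nat_lit 432) (nat_lit 245)))) (XT.nd (nat_lit 156) (nat_lit 76) (nat_lit 0) (XT.nd (nat_lit 78) (nat_lit 152) (nat_lit 0) (XT.lf (nat_lit 76) (nat_lit 4471829860) (nat_lit 0) (nat_lit 4500746104) (nat_lit 76) (nat_lit 4500746104) (nat_lit 68) (nat_lit 3) (nat_lit 67) (nat_lit 1) (nat_lit 68) (nat_lit 1) (nat_lit 344) (nat_lit 432) (nat_lit 244)) (XT.lf (nat_lit 152) (nat_lit 13241656579) (nat_lit 0) (nat_lit 8883638) (nat_lit 76) (nat_lit 8883638) (nat_lit 67) (nat_lit 1) (nat_lit 65) (nat_lit 1) (nat_lit 66)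 (nat_lit 1) (nat_lit 345) (nat_lit 432) (nat_lit 243))) (XT.nd (nat_lit 78) (nat_lit 76) (nat_lit 0) (XT.lf (nat_lit 0) (nat_lit 4339023569) (nat_lit 0) (nat_lit 4364002507) (nat_lit 152) (nat_lit 4339023569) (nat_lit 65) (nat_lit 3) (nat_lit 65) (nat_lit 1) (nat_lit 67) (nat_lit 1) (nat_lit 346) (nat_lit 432) (nat_lit 242)) (XT.lf (nat_lit 76) (nat_lit 4261365297) (nat_lit 0) (nat_lit 4285154762) (nat_lit 76) (nat_lit 4285154762) (nat_lit 65) (nat_lit 3) (nat_lit 64) (nat_lit 1) (nat_lit 65) (nat_lit 1) (nat_lit 347) (nat_lit 432) (nat_lit 241)))))) (XT.nd (nat_lit 468) (nat_lit 608) (nat_lit 0) (XT.nd (nat_lit 234) (nat_lit 228) (nat_lit 0) (XT.nd (nat_lit 78) (nat_lit 76) (nat_lit 0) (XT.lf (nat_lit 152) (nat_lit 12613350679) (nat_lit 0) (nat_lit 7308591) (nat_lit 76) (nat_lit 7308591) (nat_lit 64) (nat_lit 1) (nat_lit 62) (nat_lit 1) (nat_lit 63) (nat_lit 1) (nat_lit 348) (nat_lit 432) (nat_lit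 240)) (XT.nd (nat_lit 78) (nat_lit 76) (nat_lit 0) (XT.lf (nat_lit 0) (nat_lit 4133465442) (nat_lit 0) (nat_lit 4154015676) (nat_lit 152) (nat_lit 4133465442) (nat_lit 62) (nat_lit 3) (nat_lit 62) (nat_lit 1) (nat_lit 64) (nat_lit 1) (nat_lit 349) (nat_lit 432) (nat_lit 239)) (XT.lf (nat_lit 76) (nat_lit 4060483209) (nat_lit 0) (nat_lit 4080054860) (nat_lit 76) (nat_lit 4080054860) (nat_lit 62) (nat_lit 3) (nat_lit 61) (nat_lit 1) (nat_lit 62) (nat_lit 1) (nat_lit 350) (nat_lit 432) (nat_lit 238)))) (XT.nd (nat_lit 78) (nat_lit 76) (nat_lit 0) (XT.lf (nat_lit 152) (nat_lit 12014565335) (nat_lit 0) (nat_lit 6012796) (nat_lit 76) (nat_lit 6012796) (nat_lit 61) (nat_lit 1) (nat_lit 59) (nat_lit 1) (nat_lit 60) (nat_lit 1) (nat_lit 351) (nat_lit 432) (nat_lit 237)) (XT.nd (nat_lit 78) (nat_lit 76) (nat_lit 0) (XT.lf (nat_lit 0) (nat_lit 3937507500) (nat_lit 0) (nat_lit 3954414228) (nat_lit 152) (nat_lit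 3937507500) (nat_lit 59) (nat_lit 3) (nat_lit 59) (nat_lit 1) (nat_lit 61) (nat_lit 1) (nat_lit 352) (nat_lit 432) (nat_lit 236)) (XT.lf (nat_lit 76) (nat_lit 3868805235) (nat_lit 0) (nat_lit 3884906881) (nat_lit 76) (nat_lit 3884906881) (nat_lit 59) (nat_lit 3) (nat_lit 58) (nat_lit 1) (nat_lit 59) (nat_lit 1) (nat_lit 353) (nat_lit 432) (nat_lit 235))))) (XT.nd (nat_lit 234) (nat_lit 380) (nat_lit 0) (XT.nd (nat_lit 78) (nat_lit 76) (nat_lit 0) (XT.lf (nat_lit 152) (nat_lit 11443965506) (nat_lit 0) (nat_lit 4946742) (nat_lit 76) (nat_lit 4946742) (nat_lit 58) (nat_lit 1) (nat_lit 56) (nat_lit 1) (nat_lit 57) (nat_lit 1) (nat_lit 354) (nat_lit 432) (nat_lit 234)) (XT.nd (nat_lit 78) (nat_lit 76) (nat_lit 0) (XT.lf (nat_lit 0) (nat_lit 3750725975) (nat_lit 0) (nat_lit 3764635182) (nat_lit 152) (nat_lit 3750725975) (nat_lit 56) (nat_lit 3) (nat_lit 56) (nat_lit 1) (nat_lit 58) (nat_lit 1) (nat_lit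 355) (nat_lit 432) (nat_lit 233)) (XT.lf (nat_lit 76) (nat_lit 3685957213) (nat_lit 0) (nat_lit 3699204077) (nat_lit 76) (nat_lit 3699204077) (nat_lit 56) (nat_lit 3) (nat_lit 55) (nat_lit 1) (nat_lit 56) (nat_lit 1) (nat_lit 356) (nat_lit 432) (nat_lit 232)))) (XT.nd (nat_lit 156) (nat_lit 228) (nat_lit 0) (XT.nd (nat_lit 78) (nat_lit 0) (nat_lit 0) (XT.lf (nat_lit 152) (nat_lit 10900267193) (nat_lit 0) (nat_lit 4069697) (nat_lit 76) (nat_lit 4069697) (nat_lit 55) (nat_lit 1) (nat_lit 53) (nat_lit 1) (nat_lit 54) (nat_lit 1) (nat_lit 357) (nat_lit 432) (nat_lit 231)) (XT.lf (nat_lit 0) (nat_lit 3572711361) (nat_lit 0) (nat_lit 3584154501) (nat_lit 152) (nat_lit 3572711361) (nat_lit 53) (nat_lit 3) (nat_lit 53) (nat_lit 1) (nat_lit 55) (nat_lit 1) (nat_lit 358) (nat_lit 432) (nat_lit 230))) (XT.nd (nat_lit 78) (nat_lit 152) (nat_lit 0) (XT.lf (nat_lit 76) (nat_lit 3511571427) (nat_lit 0) (nat_lit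 3522469655) (nat_lit 76) (nat_lit 3522469655) (nat_lit 53) (nat_lit 3) (nat_lit 52) (nat_lit 1) (nat_lit 53) (nat_lit 1) (nat_lit 359) (nat_lit 432) (nat_lit 229)) (XT.lf (nat_lit 152) (nat_lit 10382237224) (nat_lit 0) (nat_lit 3348149) (nat_lit 76) (nat_lit 3348149) (nat_lit 52) (nat_lit 1) (nat_lit 50) (nat_lit 1) (nat_lit 51) (nat_lit 1) (nat_lit 360) (nat_lit 432) (nat_lit 228))))))))
noncomputable def ec420 : XT := (XT.nd (nat_lit 1950) (nat_lit 1900) (nat_lit 0) (XT.nd (nat_lit 936) (nat_lit 912) (nat_lit 0) (XT.nd (nat_lit 468) (nat_lit 456) (nat_lit 0) (XT.nd (nat_lit 234) (nat_lit 228) (nat_lit 0) (XT.nd (nat_lit 78) (nat_lit 228) (nat_lit 0) (XT.lf (nat_lit 0) (nat_lit 3403068783) (nat_lit 0) (nat_lit 3412483082) (nat_lit 152) (nat_lit 3403068783) (nat_lit 50) (nat_lit 3) (nat_lit 50) (nat_lit 1) (nat_lit 52) (nat_lit 1) (nat_lit 361) (nat_lit 432) (nat_lit 227)) (XT.nd (nat_lit 78) (nat_lit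 152) (nat_lit 0) (XT.lf (nat_lit 76) (nat_lit 3345288319) (nat_lit 0) (nat_lit 3354254318) (nat_lit 76) (nat_lit 3354254318) (nat_lit 50) (nat_lit 3) (nat_lit 49) (nat_lit 1) (nat_lit 50) (nat_lit 1) (nat_lit 362) (nat_lit 432) (nat_lit 226)) (XT.lf (nat_lit 152) (nat_lit 9888692666) (nat_lit 0) (nat_lit 2754531) (nat_lit 76) (nat_lit 2754531) (nat_lit 49) (nat_lit 1) (nat_lit 47) (nat_lit 1) (nat_lit 48) (nat_lit 1) (nat_lit 363) (nat_lit 432) (nat_lit 225)))) (XT.nd (nat_lit 78) (nat_lit 228) (nat_lit 0) (XT.lf (nat_lit 0) (nat_lit 3241418161) (nat_lit 0) (nat_lit 3249163328) (nat_lit 152) (nat_lit 3241418161) (nat_lit 47) (nat_lit 3) (nat_lit 47) (nat_lit 1) (nat_lit 49) (nat_lit 1) (nat_lit 364) (nat_lit 432) (nat_lit 224)) (XT.nd (nat_lit 78) (nat_lit 152) (nat_lit 0) (XT.lf (nat_lit 76) (nat_lit 3186757755) (nat_lit 0) (nat_lit 3194134105) (nat_lit 76) (nat_lit 3194134105) (nat_lit 47) (nat_lit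 3) (nat_lit 46) (nat_lit 1) (nat_lit 47) (nat_lit 1) (nat_lit 365) (nat_lit 432) (nat_lit 223)) (XT.lf (nat_lit 152) (nat_lit 9418499936) (nat_lit 0) (nat_lit 2266159) (nat_lit 76) (nat_lit 2266159) (nat_lit 46) (nat_lit 1) (nat_lit 44) (nat_lit 1) (nat_lit 45) (nat_lit 1) (nat_lit 366) (nat_lit 432) (nat_lit 222))))) (XT.nd (nat_lit 234) (nat_lit 228) (nat_lit 0) (XT.nd (nat_lit 78) (nat_lit 228) (nat_lit 0) (XT.lf (nat_lit 0) (nat_lit 3087394221) (nat_lit 0) (nat_lit 3093766189) (nat_lit 152) (nat_lit 3087394221) (nat_lit 44) (nat_lit 3) (nat_lit 44) (nat_lit 1) (nat_lit 46) (nat_lit 1) (nat_lit 367) (nat_lit 432) (nat_lit 221)) (XT.nd (nat_lit 78) (nat_lit 152) (nat_lit 0) (XT.lf (nat_lit 76) (nat_lit 3035639946) (nat_lit 0) (nat_lit 3041708487) (nat_lit 76) (nat_lit 3041708487) (nat_lit 44) (nat_lit 3) (nat_lit 43) (nat_lit 1) (nat_lit 44) (nat_lit 1) (nat_lit 368) (nat_lit 432) (nat_lit 220))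 (XT.lf (nat_lit 152) (nat_lit 8970573689) (nat_lit 0) (nat_lit 1864375) (nat_lit 76) (nat_lit 1864375) (nat_lit 43) (nat_lit 1) (nat_lit 41) (nat_lit 1) (nat_lit 42) (nat_lit 1) (nat_lit 369) (nat_lit 432) (nat_lit 219)))) (XT.nd (nat_lit 78) (nat_lit 228) (nat_lit 0) (XT.lf (nat_lit 0) (nat_lit 2940646369) (nat_lit 0) (nat_lit 2945888603) (nat_lit 152) (nat_lit 2940646369) (nat_lit 41) (nat_lit 3) (nat_lit 41) (nat_lit 1) (nat_lit 43) (nat_lit 1) (nat_lit 370) (nat_lit 432) (nat_lit 218)) (XT.nd (nat_lit 78) (nat_lit 152) (nat_lit 0) (XT.lf (nat_lit 76) (nat_lit 2891606071) (nat_lit 0) (nat_lit 2896598675) (nat_lit 76) (nat_lit 2896598675) (nat_lit 41) (nat_lit 3) (nat_lit 40) (nat_lit 1) (nat_lit 41) (nat_lit 1) (nat_lit 371) (nat_lit 432) (nat_lit 217)) (XT.lf (nat_lit 152) (nat_lit 8543875539) (nat_lit 0) (nat_lit 1533826) (nat_lit 76) (nat_lit 1533826) (nat_lit 40) (nat_lit 1) (nat_lit 38)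 (nat_lit 1) (nat_lit 39) (nat_lit 1) (nat_lit 372) (nat_lit 432) (nat_lit 216)))))) (XT.nd (nat_lit 468) (nat_lit 456) (nat_lit 0) (XT.nd (nat_lit 234) (nat_lit 228) (nat_lit 0) (XT.nd (nat_lit 78) (nat_lit 228) (nat_lit 0) (XT.lf (nat_lit 0) (nat_lit 2800838476) (nat_lit 0) (nat_lit 2805151275) (nat_lit 152) (nat_lit 2800838476) (nat_lit 38) (nat_lit 3) (nat_lit 38) (nat_lit 1) (nat_lit 40) (nat_lit 1) (nat_lit 373) (nat_lit 432) (nat_lit 215)) (XT.nd (nat_lit 78) (nat_lit 152) (nat_lit 0) (XT.lf (nat_lit 76) (nat_lit 2754338685) (nat_lit 0) (nat_lit 2758446113) (nat_lit 76) (nat_lit 2758446113) (nat_lit 38) (nat_lit 3) (nat_lit 37) (nat_lit 1) (nat_lit 38) (nat_lit 1) (nat_lit 374) (nat_lit 432) (nat_lit 214)) (XT.lf (nat_lit 152) (nat_lit 8137412660) (nat_lit 0) (nat_lit 1261882) (nat_lit 76) (nat_lit 1261882) (nat_lit 37) (nat_lit 1) (nat_lit 35) (nat_lit 1) (nat_lit 36) (nat_lit 1) (nat_lit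 375) (nat_lit 432) (nat_lit 213)))) (XT.nd (nat_lit 78) (nat_lit 228) (nat_lit 0) (XT.lf (nat_lit 0) (nat_lit 2667648585) (nat_lit 0) (nat_lit 2671196735) (nat_lit 152) (nat_lit 2667648585) (nat_lit 35) (nat_lit 3) (nat_lit 35) (nat_lit 1) (nat_lit 37) (nat_lit 1) (nat_lit 376) (nat_lit 432) (nat_lit 212)) (XT.nd (nat_lit 78) (nat_lit 152) (nat_lit 0) (XT.lf (nat_lit 76) (nat_lit 2623531933) (nat_lit 0) (nat_lit 2626911124) (nat_lit 76) (nat_lit 2626911124) (nat_lit 35) (nat_lit 3) (nat_lit 34) (nat_lit 1) (nat_lit 35) (nat_lit 1) (nat_lit 377) (nat_lit 432) (nat_lit 211)) (XT.lf (nat_lit 152) (nat_lit 7750236305) (nat_lit 0) (nat_lit 1038153) (nat_lit 76) (nat_lit 1038153) (nat_lit 34) (nat_lit 1) (nat_lit 32) (nat_lit 1) (nat_lit 33) (nat_lit 1) (nat_lit 378) (nat_lit 432) (nat_lit 210))))) (XT.nd (nat_lit 234) (nat_lit 228) (nat_lit 0) (XT.nd (nat_lit 78) (nat_lit 228) (nat_lit 0) (XT.lf (nat_lit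 0) (nat_lit 2540768558) (nat_lit 0) (nat_lit 2543687630) (nat_lit 152) (nat_lit 2540768558) (nat_lit 32) (nat_lit 3) (nat_lit 32) (nat_lit 1) (nat_lit 34) (nat_lit 1) (nat_lit 379) (nat_lit 432) (nat_lit 209)) (XT.nd (nat_lit 78) (nat_lit 152) (nat_lit 0) (XT.lf (nat_lit 76) (nat_lit 2498891624) (nat_lit 0) (nat_lit 2501671693) (nat_lit 76) (nat_lit 2501671693) (nat_lit 32) (nat_lit 3) (nat_lit 31) (nat_lit 1) (nat_lit 32) (nat_lit 1) (nat_lit 380) (nat_lit 432) (nat_lit 208)) (XT.lf (nat_lit 152) (nat_lit 7381440275) (nat_lit 0) (nat_lit 854091) (nat_lit 76) (nat_lit 854091) (nat_lit 31) (nat_lit 1) (nat_lit 29) (nat_lit 1) (nat_lit 30) (nat_lit 1) (nat_lit 381) (nat_lit 432) (nat_lit 207)))) (XT.nd (nat_lit 156) (nat_lit 152) (nat_lit 0) (XT.nd (nat_lit 78) (nat_lit 76) (nat_lit 0) (XT.lf (nat_lit 0) (nat_lit 2419903691) (nat_lit 0) (nat_lit 2422305219) (nat_lit 152) (nat_lit 2419903691) (nat_lit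 29) (nat_lit 3) (nat_lit 29) (nat_lit 1) (nat_lit 31) (nat_lit 1) (nat_lit 382) (nat_lit 432) (nat_lit 206)) (XT.lf (nat_lit 76) (nat_lit 2380135190) (nat_lit 0) (nat_lit 2382422359) (nat_lit 76) (nat_lit 2382422359) (nat_lit 29) (nat_lit 3) (nat_lit 28) (nat_lit 1) (nat_lit 29) (nat_lit 1) (nat_lit 383) (nat_lit 432) (nat_lit 205))) (XT.nd (nat_lit 78) (nat_lit 0) (nat_lit 0) (XT.lf (nat_lit 152) (nat_lit 7030159359) (nat_lit 0) (nat_lit 702663) (nat_lit 76) (nat_lit 702663) (nat_lit 28) (nat_lit 1) (nat_lit 26) (nat_lit 1) (nat_lit 27) (nat_lit 1) (nat_lit 384) (nat_lit 432) (nat_lit 204)) (XT.lf (nat_lit 0) (nat_lit 2304772289) (nat_lit 0) (nat_lit 2306748032) (nat_lit 152) (nat_lit 2304772289) (nat_lit 26) (nat_lit 3) (nat_lit 26) (nat_lit 1) (nat_lit 28) (nat_lit 1) (nat_lit 385) (nat_lit 432) (nat_lit 203))))))) (XT.nd (nat_lit 936) (nat_lit 988) (nat_lit 0) (XT.nd (nat_lit 468) (nat_lit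 456) (nat_lit 0) (XT.nd (nat_lit 234) (nat_lit 228) (nat_lit 0) (XT.nd (nat_lit 78) (nat_lit 152) (nat_lit 0) (XT.lf (nat_lit 76) (nat_lit 2266991555) (nat_lit 0) (nat_lit 2268873215) (nat_lit 76) (nat_lit 2268873215) (nat_lit 26) (nat_lit 3) (nat_lit 25) (nat_lit 1) (nat_lit 26) (nat_lit 1) (nat_lit 386) (nat_lit 432) (nat_lit 202)) (XT.nd (nat_lit 78) (nat_lit 0) (nat_lit 0) (XT.lf (nat_lit 152) (nat_lit 6695567767) (nat_lit 0) (nat_lit 578082) (nat_lit 76) (nat_lit 578082) (nat_lit 25) (nat_lit 1) (nat_lit 23) (nat_lit 1) (nat_lit 24) (nat_lit 1) (nat_lit 387) (nat_lit 432) (nat_lit 201)) (XT.lf (nat_lit 0) (nat_lit 2195105231) (nat_lit 0) (nat_lit 2196730680) (nat_lit 152) (nat_lit 2195105231) (nat_lit 23) (nat_lit 3) (nat_lit 23) (nat_lit 1) (nat_lit 25) (nat_lit 1) (nat_lit 388) (nat_lit 432) (nat_lit 200)))) (XT.nd (nat_lit 78) (nat_lit 152) (nat_lit 0) (XT.lf (nat_lit 76) (nat_lit 2159200939)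 (nat_lit 0) (nat_lit 2160748985) (nat_lit 76) (nat_lit 2160748985) (nat_lit 23) (nat_lit 3) (nat_lit 22) (nat_lit 1) (nat_lit 23) (nat_lit 1) (nat_lit 389) (nat_lit 432) (nat_lit 199)) (XT.nd (nat_lit 78) (nat_lit 0) (nat_lit 0) (XT.lf (nat_lit 152) (nat_lit 6376877567) (nat_lit 0) (nat_lit 475590) (nat_lit 76) (nat_lit 475590) (nat_lit 22) (nat_lit 1) (nat_lit 20) (nat_lit 1) (nat_lit 21) (nat_lit 1) (nat_lit 390) (nat_lit 432) (nat_lit 198)) (XT.lf (nat_lit 0) (nat_lit 2090645521) (nat_lit 0) (nat_lit 2091982781) (nat_lit 152) (nat_lit 2090645521) (nat_lit 20) (nat_lit 3) (nat_lit 20) (nat_lit 1) (nat_lit 22) (nat_lit 1) (nat_lit 391) (nat_lit 432) (nat_lit 197))))) (XT.nd (nat_lit 234) (nat_lit 228) (nat_lit 0) (XT.nd (nat_lit 78) (nat_lit 152) (nat_lit 0) (XT.lf (nat_lit 76) (nat_lit 2056514599) (nat_lit 0) (nat_lit 2057788181) (nat_lit 76) (nat_lit 2057788181) (nat_lit 20) (nat_lit 3) (nat_lit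 19) (nat_lit 1) (nat_lit 20) (nat_lit 1) (nat_lit 392) (nat_lit 432) (nat_lit 196)) (XT.nd (nat_lit 78) (nat_lit 0) (nat_lit 0) (XT.lf (nat_lit 152) (nat_lit 6073337141) (nat_lit 0) (nat_lit 391269) (nat_lit 76) (nat_lit 391269) (nat_lit 19) (nat_lit 1) (nat_lit 17) (nat_lit 1) (nat_lit 18) (nat_lit 1) (nat_lit 393) (nat_lit 432) (nat_lit 195)) (XT.lf (nat_lit 0) (nat_lit 1991147829) (nat_lit 0) (nat_lit 1992247997) (nat_lit 152) (nat_lit 1991147829) (nat_lit 17) (nat_lit 3) (nat_lit 17) (nat_lit 1) (nat_lit 19) (nat_lit 1) (nat_lit 394) (nat_lit 432) (nat_lit 194)))) (XT.nd (nat_lit 78) (nat_lit 152) (nat_lit 0) (XT.lf (nat_lit 76) (nat_lit 1958694549) (nat_lit 0) (nat_lit 1959742327) (nat_lit 76) (nat_lit 1959742327) (nat_lit 17) (nat_lit 3) (nat_lit 16) (nat_lit 1) (nat_lit 17) (nat_lit 1) (nat_lit 395) (nat_lit 432) (nat_lit 193)) (XT.nd (nat_lit 78) (nat_lit 0) (nat_lit 0) (XT.lf (nat_lit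 152) (nat_lit 5784229673) (nat_lit 0) (nat_lit 321898) (nat_lit 76) (nat_lit 321898) (nat_lit 16) (nat_lit 1) (nat_lit 14) (nat_lit 1) (nat_lit 15) (nat_lit 1) (nat_lit 396) (nat_lit 432) (nat_lit 192)) (XT.lf (nat_lit 0) (nat_lit 1896378042) (nat_lit 0) (nat_lit 1897283153) (nat_lit 152) (nat_lit 1896378042) (nat_lit 14) (nat_lit 3) (nat_lit 14) (nat_lit 1) (nat_lit 16) (nat_lit 1) (nat_lit 397) (nat_lit 432) (nat_lit 191)))))) (XT.nd (nat_lit 468) (nat_lit 532) (nat_lit 0) (XT.nd (nat_lit 234) (nat_lit 228) (nat_lit 0) (XT.nd (nat_lit 78) (nat_lit 152) (nat_lit 0) (XT.lf (nat_lit 76) (nat_lit 1865513232) (nat_lit 0) (nat_lit 1866375242) (nat_lit 76) (nat_lit 1866375242) (nat_lit 14) (nat_lit 3) (nat_lit 13) (nat_lit 1) (nat_lit 14) (nat_lit 1) (nat_lit 398) (nat_lit 432) (nat_lit 190)) (XT.nd (nat_lit 78) (nat_lit 0) (nat_lit 0) (XT.lf (nat_lit 152) (nat_lit 5508871663) (nat_lit 0) (nat_lit 264826)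 (nat_lit 76) (nat_lit 264826) (nat_lit 13) (nat_lit 1) (nat_lit 11) (nat_lit 1) (nat_lit 12) (nat_lit 1) (nat_lit 399) (nat_lit 432) (nat_lit 189)) (XT.lf (nat_lit 0) (nat_lit 1806112809) (nat_lit 0) (nat_lit 1806857446) (nat_lit 152) (nat_lit 1806112809) (nat_lit 11) (nat_lit 3) (nat_lit 11) (nat_lit 1) (nat_lit 13) (nat_lit 1) (nat_lit 400) (nat_lit 432) (nat_lit 188)))) (XT.nd (nat_lit 78) (nat_lit 152) (nat_lit 0) (XT.lf (nat_lit 76) (nat_lit 1776753190) (nat_lit 0) (nat_lit 1777462368) (nat_lit 76) (nat_lit 1777462368) (nat_lit 11) (nat_lit 3) (nat_lit 10) (nat_lit 1) (nat_lit 11) (nat_lit 1) (nat_lit 401) (nat_lit 432) (nat_lit 187)) (XT.nd (nat_lit 78) (nat_lit 0) (nat_lit 0) (XT.lf (nat_lit 152) (nat_lit 5246611491) (nat_lit 0) (nat_lit 217873) (nat_lit 76) (nat_lit 217873) (nat_lit 10) (nat_lit 1) (nat_lit 8) (nat_lit 1) (nat_lit 9) (nat_lit 1) (nat_lit 402) (nat_lit 432) (nat_lit 186))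 (XT.lf (nat_lit 0) (nat_lit 1720139097) (nat_lit 0) (nat_lit 1720751712) (nat_lit 152) (nat_lit 1720139097) (nat_lit 8) (nat_lit 3) (nat_lit 8) (nat_lit 1) (nat_lit 10) (nat_lit 1) (nat_lit 403) (nat_lit 432) (nat_lit 185))))) (XT.nd (nat_lit 234) (nat_lit 304) (nat_lit 0) (XT.nd (nat_lit 78) (nat_lit 152) (nat_lit 0) (XT.lf (nat_lit 76) (nat_lit 1692206711) (nat_lit 0) (nat_lit 1692790153) (nat_lit 76) (nat_lit 1692790153) (nat_lit 8) (nat_lit 3) (nat_lit 7) (nat_lit 1) (nat_lit 8) (nat_lit 1) (nat_lit 404) (nat_lit 432) (nat_lit 184)) (XT.nd (nat_lit 78) (nat_lit 0) (nat_lit 0) (XT.lf (nat_lit 152) (nat_lit 4996828010) (nat_lit 0) (nat_lit 179244) (nat_lit 76) (nat_lit 179244) (nat_lit 7) (nat_lit 1) (nat_lit 5) (nat_lit 1) (nat_lit 6) (nat_lit 1) (nat_lit 405) (nat_lit 432) (nat_lit 183)) (XT.lf (nat_lit 0) (nat_lit 1638253759) (nat_lit 0) (nat_lit 1638757758) (nat_lit 152) (nat_lit 1638253759)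 (nat_lit 5) (nat_lit 3) (nat_lit 5) (nat_lit 1) (nat_lit 7) (nat_lit 1) (nat_lit 406) (nat_lit 432) (nat_lit 182)))) (XT.nd (nat_lit 156) (nat_lit 76) (nat_lit 0) (XT.nd (nat_lit 78) (nat_lit 152) (nat_lit 0) (XT.lf (nat_lit 76) (nat_lit 1611675472) (nat_lit 0) (nat_lit 1612155472) (nat_lit 76) (nat_lit 1612155472) (nat_lit 5) (nat_lit 3) (nat_lit 4) (nat_lit 1) (nat_lit 5) (nat_lit 1) (nat_lit 407) (nat_lit 432) (nat_lit 181)) (XT.lf (nat_lit 152) (nat_lit 4758929200) (nat_lit 0) (nat_lit 147465) (nat_lit 76) (nat_lit 147465) (nat_lit 4) (nat_lit 1) (nat_lit 2) (nat_lit 1) (nat_lit 3) (nat_lit 1) (nat_lit 408) (nat_lit 432) (nat_lit 180))) (XT.nd (nat_lit 78) (nat_lit 76) (nat_lit 0) (XT.lf (nat_lit 0) (nat_lit 1560263104) (nat_lit 0) (nat_lit 1560677745) (nat_lit 152) (nat_lit 1560263104) (nat_lit 2) (nat_lit 3) (nat_lit 2) (nat_lit 1) (nat_lit 4) (nat_lit 1) (nat_lit 409) (nat_lit 432) (nat_lit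 179)) (XT.lf (nat_lit 76) (nat_lit 1534970184) (nat_lit 0) (nat_lit 1535365080) (nat_lit 76) (nat_lit 1535365080) (nat_lit 2) (nat_lit 3) (nat_lit 1) (nat_lit 1) (nat_lit 2) (nat_lit 1) (nat_lit 410) (nat_lit 432) (nat_lit 178))))))))
noncomputable def ec421 : XT := (XT.nd (nat_lit 1950) (nat_lit 0) (nat_lit 0) (XT.nd (nat_lit 936) (nat_lit 0) (nat_lit 0) (XT.nd (nat_lit 468) (nat_lit 0) (nat_lit 0) (XT.nd (nat_lit 234) (nat_lit 0) (nat_lit 0) (XT.nd (nat_lit 78) (nat_lit 0) (nat_lit 0) (XT.lf (nat_lit 0) (nat_lit 95569012895) (nat_lit 0) (nat_lit 0) (nat_lit 0) (nat_lit 0) (nat_lit 0) (nat_lit 0) (nat_lit 1) (nat_lit 0) (nat_lit 1) (nat_lit 0) (nat_lit 411) (nat_lit 432) (nat_lit 177)) (XT.nd (nat_lit 78) (nat_lit 0) (nat_lit 0) (XT.lf (nat_lit 0) (nat_lit 95568994913) (nat_lit 0) (nat_lit 0) (nat_lit 0) (nat_lit 0) (nat_lit 0) (nat_lit 0) (nat_lit 1) (nat_lit 0) (nat_lit 1) (nat_lit 0) (nat_lit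 412) (nat_lit 432) (nat_lit 176)) (XT.lf (nat_lit 0) (nat_lit 95568977788) (nat_lit 0) (nat_lit 0) (nat_lit 0) (nat_lit 0) (nat_lit 0) (nat_lit 0) (nat_lit 1) (nat_lit 0) (nat_lit 1) (nat_lit 0) (nat_lit 413) (nat_lit 432) (nat_lit 175)))) (XT.nd (nat_lit 78) (nat_lit 0) (nat_lit 0) (XT.lf (nat_lit 0) (nat_lit 95568961478) (nat_lit 0) (nat_lit 0) (nat_lit 0) (nat_lit 0) (nat_lit 0) (nat_lit 0) (nat_lit 1) (nat_lit 0) (nat_lit 1) (nat_lit 0) (nat_lit 414) (nat_lit 432) (nat_lit 174)) (XT.nd (nat_lit 78) (nat_lit 0) (nat_lit 0) (XT.lf (nat_lit 0) (nat_lit 95568945945) (nat_lit 0) (nat_lit 0) (nat_lit 0) (nat_lit 0) (nat_lit 0) (nat_lit 0) (nat_lit 1) (nat_lit 0) (nat_lit 1) (nat_lit 0) (nat_lit 415) (nat_lit 432) (nat_lit 173)) (XT.lf (nat_lit 0) (nat_lit 95568931152) (nat_lit 0) (nat_lit 0) (nat_lit 0) (nat_lit 0) (nat_lit 0) (nat_lit 0) (nat_lit 1) (nat_lit 0) (nat_lit 1) (nat_lit 0) (nat_lit 416)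 (nat_lit 432) (nat_lit 172))))) (XT.nd (nat_lit 234) (nat_lit 0) (nat_lit 0) (XT.nd (nat_lit 78) (nat_lit 0) (nat_lit 0) (XT.lf (nat_lit 0) (nat_lit 95568917063) (nat_lit 0) (nat_lit 0) (nat_lit 0) (nat_lit 0) (nat_lit 0) (nat_lit 0) (nat_lit 1) (nat_lit 0) (nat_lit 1) (nat_lit 0) (nat_lit 417) (nat_lit 432) (nat_lit 171)) (XT.nd (nat_lit 78) (nat_lit 0) (nat_lit 0) (XT.lf (nat_lit 0) (nat_lit 95568903645) (nat_lit 0) (nat_lit 0) (nat_lit 0) (nat_lit 0) (nat_lit 0) (nat_lit 0) (nat_lit 1) (nat_lit 0) (nat_lit 1) (nat_lit 0) (nat_lit 418) (nat_lit 432) (nat_lit 170)) (XT.lf (nat_lit 0) (nat_lit 95568890866) (nat_lit 0) (nat_lit 0) (nat_lit 0) (nat_lit 0) (nat_lit 0) (nat_lit 0) (nat_lit 1) (nat_lit 0) (nat_lit 1) (nat_lit 0) (nat_lit 419) (nat_lit 432) (nat_lit 169)))) (XT.nd (nat_lit 78) (nat_lit 0) (nat_lit 0) (XT.lf (nat_lit 0) (nat_lit 95568878695) (nat_lit 0) (nat_lit 0) (nat_lit 0) (nat_lit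 0) (nat_lit 0) (nat_lit 0) (nat_lit 1) (nat_lit 0) (nat_lit 1) (nat_lit 0) (nat_lit 420) (nat_lit 432) (nat_lit 168)) (XT.nd (nat_lit 78) (nat_lit 0) (nat_lit 0) (XT.lf (nat_lit 0) (nat_lit 95568867104) (nat_lit 0) (nat_lit 0) (nat_lit 0) (nat_lit 0) (nat_lit 0) (nat_lit 0) (nat_lit 1) (nat_lit 0) (nat_lit 1) (nat_lit 0) (nat_lit 421) (nat_lit 432) (nat_lit 167)) (XT.lf (nat_lit 0) (nat_lit 95568856065) (nat_lit 0) (nat_lit 0) (nat_lit 0) (nat_lit 0) (nat_lit 0) (nat_lit 0) (nat_lit 1) (nat_lit 0) (nat_lit 1) (nat_lit 0) (nat_lit 422) (nat_lit 432) (nat_lit 166)))))) (XT.nd (nat_lit 468) (nat_lit 0) (nat_lit 0) (XT.nd (nat_lit 234) (nat_lit 0) (nat_lit 0) (XT.nd (nat_lit 78) (nat_lit 0) (nat_lit 0) (XT.lf (nat_lit 0) (nat_lit 95568845552) (nat_lit 0) (nat_lit 0) (nat_lit 0) (nat_lit 0) (nat_lit 0) (nat_lit 0) (nat_lit 1) (nat_lit 0) (nat_lit 1) (nat_lit 0) (nat_lit 423) (nat_lit 432) (nat_lit 165))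 (XT.nd (nat_lit 78) (nat_lit 0) (nat_lit 0) (XT.lf (nat_lit 0) (nat_lit 95568835539) (nat_lit 0) (nat_lit 0) (nat_lit 0) (nat_lit 0) (nat_lit 0) (nat_lit 0) (nat_lit 1) (nat_lit 0) (nat_lit 1) (nat_lit 0) (nat_lit 424) (nat_lit 432) (nat_lit 164)) (XT.lf (nat_lit 0) (nat_lit 95568826003) (nat_lit 0) (nat_lit 0) (nat_lit 0) (nat_lit 0) (nat_lit 0) (nat_lit 0) (nat_lit 1) (nat_lit 0) (nat_lit 1) (nat_lit 0) (nat_lit 425) (nat_lit 432) (nat_lit 163)))) (XT.nd (nat_lit 78) (nat_lit 0) (nat_lit 0) (XT.lf (nat_lit 0) (nat_lit 95568816921) (nat_lit 0) (nat_lit 0) (nat_lit 0) (nat_lit 0) (nat_lit 0) (nat_lit 0) (nat_lit 1) (nat_lit 0) (nat_lit 1) (nat_lit 0) (nat_lit 426) (nat_lit 432) (nat_lit 162)) (XT.nd (nat_lit 78) (nat_lit 0) (nat_lit 0) (XT.lf (nat_lit 0) (nat_lit 95568808272) (nat_lit 0) (nat_lit 0) (nat_lit 0) (nat_lit 0) (nat_lit 0) (nat_lit 0) (nat_lit 1) (nat_lit 0) (nat_lit 1) (nat_lit 0)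 (nat_lit 427) (nat_lit 432) (nat_lit 161)) (XT.lf (nat_lit 0) (nat_lit 95568800034) (nat_lit 0) (nat_lit 0) (nat_lit 0) (nat_lit 0) (nat_lit 0) (nat_lit 0) (nat_lit 1) (nat_lit 0) (nat_lit 1) (nat_lit 0) (nat_lit 428) (nat_lit 432) (nat_lit 160))))) (XT.nd (nat_lit 234) (nat_lit 0) (nat_lit 0) (XT.nd (nat_lit 78) (nat_lit 0) (nat_lit 0) (XT.lf (nat_lit 0) (nat_lit 95568792189) (nat_lit 0) (nat_lit 0) (nat_lit 0) (nat_lit 0) (nat_lit 0) (nat_lit 0) (nat_lit 1) (nat_lit 0) (nat_lit 1) (nat_lit 0) (nat_lit 429) (nat_lit 432) (nat_lit 159)) (XT.nd (nat_lit 78) (nat_lit 0) (nat_lit 0) (XT.lf (nat_lit 0) (nat_lit 95568784717) (nat_lit 0) (nat_lit 0) (nat_lit 0) (nat_lit 0) (nat_lit 0) (nat_lit 0) (nat_lit 1) (nat_lit 0) (nat_lit 1) (nat_lit 0) (nat_lit 430) (nat_lit 432) (nat_lit 158)) (XT.lf (nat_lit 0) (nat_lit 95568777602) (nat_lit 0) (nat_lit 0) (nat_lit 0) (nat_lit 0) (nat_lit 0) (nat_lit 0) (nat_lit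 1) (nat_lit 0) (nat_lit 1) (nat_lit 0) (nat_lit 431) (nat_lit 432) (nat_lit 157)))) (XT.nd (nat_lit 156) (nat_lit 0) (nat_lit 0) (XT.nd (nat_lit 78) (nat_lit 0) (nat_lit 0) (XT.lf (nat_lit 0) (nat_lit 95568770825) (nat_lit 0) (nat_lit 0) (nat_lit 0) (nat_lit 0) (nat_lit 0) (nat_lit 0) (nat_lit 1) (nat_lit 0) (nat_lit 1) (nat_lit 0) (nat_lit 432) (nat_lit 432) (nat_lit 156)) (XT.lf (nat_lit 0) (nat_lit 95568764370) (nat_lit 0) (nat_lit 0) (nat_lit 0) (nat_lit 0) (nat_lit 0) (nat_lit 0) (nat_lit 1) (nat_lit 0) (nat_lit 1) (nat_lit 0) (nat_lit 433) (nat_lit 432) (nat_lit 155))) (XT.nd (nat_lit 78) (nat_lit 0) (nat_lit 0) (XT.lf (nat_lit 0) (nat_lit 95568758223) (nat_lit 0) (nat_lit 0) (nat_lit 0) (nat_lit 0) (nat_lit 0) (nat_lit 0) (nat_lit 1) (nat_lit 0) (nat_lit 1) (nat_lit 0) (nat_lit 434) (nat_lit 432) (nat_lit 154)) (XT.lf (nat_lit 0) (nat_lit 95568752369) (nat_lit 0) (nat_lit 0) (nat_lit 0)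 (nat_lit 0) (nat_lit 0) (nat_lit 0) (nat_lit 1) (nat_lit 0) (nat_lit 1) (nat_lit 0) (nat_lit 435) (nat_lit 432) (nat_lit 153))))))) (XT.nd (nat_lit 31980) (nat_lit 0) (nat_lit 19228) (XT.nd (nat_lit 31434) (nat_lit 0) (nat_lit 22344) (XT.nd (nat_lit 31200) (nat_lit 0) (nat_lit 22192) (XT.nd (nat_lit 78) (nat_lit 0) (nat_lit 0) (XT.lf (nat_lit 0) (nat_lit 95568746794) (nat_lit 0) (nat_lit 0) (nat_lit 0) (nat_lit 0) (nat_lit 0) (nat_lit 0) (nat_lit 1) (nat_lit 0) (nat_lit 1) (nat_lit 0) (nat_lit 436) (nat_lit 432) (nat_lit 152)) (XT.nd (nat_lit 31044) (nat_lit 0) (nat_lit 22192) (XT.lf (nat_lit 0) (nat_lit 95568741484) (nat_lit 0) (nat_lit 0) (nat_lit 0) (nat_lit 0) (nat_lit 0) (nat_lit 0) (nat_lit 1) (nat_lit 0) (nat_lit 1) (nat_lit 0) (nat_lit 437) (nat_lit 432) (nat_lit 151)) (XT.lf (nat_lit 836) (nat_lit 50217431111) (nat_lit 0) (nat_lit 89160933509) (nat_lit 836) (nat_lit 50217431111) (nat_lit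 303) (nat_lit 1) (nat_lit 292) (nat_lit 0) (nat_lit 303) (nat_lit 0) (nat_lit 154) (nat_lit 433) (nat_lit 433)))) (XT.nd (nat_lit 78) (nat_lit 0) (nat_lit 76) (XT.lf (nat_lit 836) (nat_lit 194649032386) (nat_lit 76) (nat_lit 87722853936) (nat_lit 0) (nat_lit 87722853936) (nat_lit 303) (nat_lit 1) (nat_lit 293) (nat_lit 1) (nat_lit 292) (nat_lit 0) (nat_lit 155) (nat_lit 433) (nat_lit 432)) (XT.nd (nat_lit 78) (nat_lit 0) (nat_lit 0) (XT.lf (nat_lit 836) (nat_lit 92766798007) (nat_lit 0) (nat_lit 175745525586) (nat_lit 760) (nat_lit 92766798007) (nat_lit 304) (nat_lit 1) (nat_lit 293) (nat_lit 1) (nat_lit 303) (nat_lit 1) (nat_lit 156) (nat_lit 433) (nat_lit 431)) (XT.lf (nat_lit 836) (nat_lit 174017622789) (nat_lit 76) (nat_lit 89365345157) (nat_lit 0) (nat_lit 89365345157) (nat_lit 304) (nat_lit 1) (nat_lit 294) (nat_lit 1) (nat_lit 293) (nat_lit 1) (nat_lit 157) (nat_lit 433) (nat_lit 430)))))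 (XT.nd (nat_lit 234) (nat_lit 0) (nat_lit 76) (XT.nd (nat_lit 78) (nat_lit 0) (nat_lit 0) (XT.lf (nat_lit 836) (nat_lit 80098640663) (nat_lit 0) (nat_lit 184290607116) (nat_lit 760) (nat_lit 80098640663) (nat_lit 305) (nat_lit 1) (nat_lit 294) (nat_lit 1) (nat_lit 304) (nat_lit 1) (nat_lit 158) (nat_lit 433) (nat_lit 429)) (XT.nd (nat_lit 78) (nat_lit 0) (nat_lit 76) (XT.lf (nat_lit 836) (nat_lit 144062622216) (nat_lit 76) (nat_lit 96208325438) (nat_lit 0) (nat_lit 96208325438) (nat_lit 305) (nat_lit 1) (nat_lit 295) (nat_lit 1) (nat_lit 294) (nat_lit 1) (nat_lit 159) (nat_lit 433) (nat_lit 428)) (XT.lf (nat_lit 836) (nat_lit 63167298937) (nat_lit 0) (nat_lit 202404961442) (nat_lit 760) (nat_lit 63167298937) (nat_lit 306) (nat_lit 1) (nat_lit 295) (nat_lit 1) (nat_lit 305) (nat_lit 1) (nat_lit 160) (nat_lit 433) (nat_lit 427)))) (XT.nd (nat_lit 156) (nat_lit 0) (nat_lit 76) (XT.nd (nat_lit 78)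 (nat_lit 0) (nat_lit 76) (XT.lf (nat_lit 836) (nat_lit 106186169016) (nat_lit 76) (nat_lit 107513388681) (nat_lit 0) (nat_lit 107513388681) (nat_lit 306) (nat_lit 1) (nat_lit 296) (nat_lit 1) (nat_lit 295) (nat_lit 1) (nat_lit 161) (nat_lit 433) (nat_lit 426)) (XT.lf (nat_lit 836) (nat_lit 42628216140) (nat_lit 0) (nat_lit 228705418115) (nat_lit 760) (nat_lit 42628216140) (nat_lit 307) (nat_lit 1) (nat_lit 296) (nat_lit 1) (nat_lit 306) (nat_lit 1) (nat_lit 162) (nat_lit 433) (nat_lit 425))) (XT.nd (nat_lit 78) (nat_lit 0) (nat_lit 76) (XT.lf (nat_lit 836) (nat_lit 61634552610) (nat_lit 76) (nat_lit 122622917542) (nat_lit 0) (nat_lit 122622917542) (nat_lit 307) (nat_lit 1) (nat_lit 297) (nat_lit 1) (nat_lit 296) (nat_lit 1) (nat_lit 163) (nat_lit 433) (nat_lit 424)) (XT.lf (nat_lit 76) (nat_lit 19063560925) (nat_lit 0) (nat_lit 261960901249) (nat_lit 760) (nat_lit 19063560925) (nat_lit 298) (nat_lit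 1) (nat_lit 297) (nat_lit 1) (nat_lit 307) (nat_lit 1) (nat_lit 164) (nat_lit 433) (nat_lit 423)))))) (XT.nd (nat_lit 468) (nat_lit 1292) (nat_lit 0) (XT.nd (nat_lit 234) (nat_lit 760) (nat_lit 0) (XT.nd (nat_lit 78) (nat_lit 532) (nat_lit 0) (XT.lf (nat_lit 836) (nat_lit 11513916729) (nat_lit 0) (nat_lit 140951994429) (nat_lit 760) (nat_lit 140951994429) (nat_lit 298) (nat_lit 1) (nat_lit 287) (nat_lit 1) (nat_lit 297) (nat_lit 1) (nat_lit 165) (nat_lit 433) (nat_lit 422)) (XT.nd (nat_lit 78) (nat_lit 0) (nat_lit 0) (XT.lf (nat_lit 532) (nat_lit 273239744235) (nat_lit 0) (nat_lit 6897302292) (nat_lit 456) (nat_lit 6897302292) (nat_lit 287) (nat_lit 1) (nat_lit 280) (nat_lit 1) (nat_lit 286) (nat_lit 1) (nat_lit 166) (nat_lit 433) (nat_lit 421)) (XT.lf (nat_lit 76) (nat_lit 119459940622) (nat_lit 0) (nat_lit 41813027577) (nat_lit 532) (nat_lit 119459940622) (nat_lit 281) (nat_lit 1) (nat_lit 280)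 (nat_lit 1) (nat_lit 287) (nat_lit 1) (nat_lit 167) (nat_lit 433) (nat_lit 420)))) (XT.nd (nat_lit 78) (nat_lit 380) (nat_lit 0) (XT.lf (nat_lit 456) (nat_lit 205559893774) (nat_lit 0) (nat_lit 34569764580) (nat_lit 380) (nat_lit 34569764580) (nat_lit 281) (nat_lit 1) (nat_lit 275) (nat_lit 1) (nat_lit 280) (nat_lit 1) (nat_lit 168) (nat_lit 433) (nat_lit 419)) (XT.nd (nat_lit 78) (nat_lit 380) (nat_lit 0) (XT.lf (nat_lit 76) (nat_lit 85209321405) (nat_lit 0) (nat_lit 98374134788) (nat_lit 456) (nat_lit 85209321405) (nat_lit 276) (nat_lit 1) (nat_lit 275) (nat_lit 1) (nat_lit 281) (nat_lit 1) (nat_lit 169) (nat_lit 433) (nat_lit 418)) (XT.lf (nat_lit 456) (nat_lit 135364105157) (nat_lit 0) (nat_lit 63863869880) (nat_lit 380) (nat_lit 63863869880) (nat_lit 276) (nat_lit 1) (nat_lit 270) (nat_lit 1) (nat_lit 275) (nat_lit 1) (nat_lit 170) (nat_lit 433) (nat_lit 417))))) (XT.nd (nat_lit 234) (nat_lit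 988) (nat_lit 0) (XT.nd (nat_lit 78) (nat_lit 304) (nat_lit 0) (XT.lf (nat_lit 76) (nat_lit 49879873755) (nat_lit 0) (nat_lit 157796967058) (nat_lit 456) (nat_lit 49879873755) (nat_lit 271) (nat_lit 1) (nat_lit 270) (nat_lit 1) (nat_lit 276) (nat_lit 1) (nat_lit 171) (nat_lit 433) (nat_lit 416)) (XT.nd (nat_lit 78) (nat_lit 0) (nat_lit 0) (XT.lf (nat_lit 380) (nat_lit 63305723094) (nat_lit 0) (nat_lit 94429121467) (nat_lit 304) (nat_lit 94429121467) (nat_lit 271) (nat_lit 1) (nat_lit 266) (nat_lit 1) (nat_lit 270) (nat_lit 1) (nat_lit 172) (nat_lit 433) (nat_lit 415)) (XT.lf (nat_lit 76) (nat_lit 13774902931) (nat_lit 0) (nat_lit 219428790187) (nat_lit 380) (nat_lit 13774902931) (nat_lit 267) (nat_lit 1) (nat_lit 266) (nat_lit 1) (nat_lit 271) (nat_lit 1) (nat_lit 173) (nat_lit 433) (nat_lit 414)))) (XT.nd (nat_lit 156) (nat_lit 304) (nat_lit 0) (XT.nd (nat_lit 78) (nat_lit 304) (nat_lit 0) (XT.lf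 (nat_lit 76) (nat_lit 116071290323) (nat_lit 0) (nat_lit 9721196034) (nat_lit 380) (nat_lit 116071290323) (nat_lit 262) (nat_lit 1) (nat_lit 261) (nat_lit 1) (nat_lit 266) (nat_lit 1) (nat_lit 174) (nat_lit 433) (nat_lit 413)) (XT.lf (nat_lit 380) (nat_lit 192000218828) (nat_lit 0) (nat_lit 22471761671) (nat_lit 304) (nat_lit 22471761671) (nat_lit 262) (nat_lit 1) (nat_lit 257) (nat_lit 1) (nat_lit 261) (nat_lit 1) (nat_lit 175) (nat_lit 433) (nat_lit 412))) (XT.nd (nat_lit 78) (nat_lit 304) (nat_lit 0) (XT.lf (nat_lit 76) (nat_lit 75310926739) (nat_lit 0) (nat_lit 81486258467) (nat_lit 380) (nat_lit 75310926739) (nat_lit 258) (nat_lit 1) (nat_lit 257) (nat_lit 1) (nat_lit 262) (nat_lit 1) (nat_lit 176) (nat_lit 433) (nat_lit 411)) (XT.lf (nat_lit 380) (nat_lit 109899591986) (nat_lit 0) (nat_lit 58770286193) (nat_lit 304) (nat_lit 58770286193) (nat_lit 258) (nat_lit 1) (nat_lit 253) (nat_lit 1)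 (nat_lit 257) (nat_lit 1) (nat_lit 177) (nat_lit 433) (nat_lit 410))))))))
noncomputable def ec422 : XT := (XT.nd (nat_lit 1950) (nat_lit 2128) (nat_lit 0) (XT.nd (nat_lit 936) (nat_lit 1520) (nat_lit 0) (XT.nd (nat_lit 468) (nat_lit 912) (nat_lit 0) (XT.nd (nat_lit 234) (nat_lit 228) (nat_lit 0) (XT.nd (nat_lit 78) (nat_lit 608) (nat_lit 0) (XT.lf (nat_lit 76) (nat_lit 34657426574) (nat_lit 0) (nat_lit 153593854840) (nat_lit 380) (nat_lit 34657426574) (nat_lit 254) (nat_lit 1) (nat_lit 253) (nat_lit 1) (nat_lit 258) (nat_lit 1) (nat_lit 178) (nat_lit 433) (nat_lit 409)) (XT.nd (nat_lit 78) (nat_lit 380) (nat_lit 0) (XT.lf (nat_lit 304) (nat_lit 28185400682) (nat_lit 0) (nat_lit 95144833463) (nat_lit 228) (nat_lit 95144833463) (nat_lit 254) (nat_lit 1) (nat_lit 250) (nat_lit 1) (nat_lit 253) (nat_lit 1) (nat_lit 179) (nat_lit 433) (nat_lit 408)) (XT.lf (nat_lit 380) (nat_lit 202949602036) (nat_lit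 0) (nat_lit 5631462038) (nat_lit 304) (nat_lit 5631462038) (nat_lit 250) (nat_lit 1) (nat_lit 245) (nat_lit 1) (nat_lit 249) (nat_lit 1) (nat_lit 180) (nat_lit 433) (nat_lit 407)))) (XT.nd (nat_lit 78) (nat_lit 228) (nat_lit 0) (XT.lf (nat_lit 76) (nat_lit 79415679657) (nat_lit 0) (nat_lit 51142217956) (nat_lit 380) (nat_lit 79415679657) (nat_lit 246) (nat_lit 1) (nat_lit 245) (nat_lit 1) (nat_lit 250) (nat_lit 1) (nat_lit 181) (nat_lit 433) (nat_lit 406)) (XT.nd (nat_lit 78) (nat_lit 0) (nat_lit 0) (XT.lf (nat_lit 304) (nat_lit 115989110812) (nat_lit 0) (nat_lit 44954046293) (nat_lit 228) (nat_lit 44954046293) (nat_lit 246) (nat_lit 1) (nat_lit 242) (nat_lit 1) (nat_lit 245) (nat_lit 1) (nat_lit 182) (nat_lit 433) (nat_lit 405)) (XT.lf (nat_lit 76) (nat_lit 36642754273) (nat_lit 0) (nat_lit 128638888267) (nat_lit 304) (nat_lit 36642754273) (nat_lit 243) (nat_lit 1) (nat_lit 242) (nat_lit 1) (nat_lit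 246) (nat_lit 1) (nat_lit 183) (nat_lit 433) (nat_lit 404))))) (XT.nd (nat_lit 234) (nat_lit 380) (nat_lit 0) (XT.nd (nat_lit 78) (nat_lit 304) (nat_lit 0) (XT.lf (nat_lit 304) (nat_lit 30540590374) (nat_lit 0) (nat_lit 83750690066) (nat_lit 228) (nat_lit 83750690066) (nat_lit 243) (nat_lit 1) (nat_lit 239) (nat_lit 1) (nat_lit 242) (nat_lit 1) (nat_lit 184) (nat_lit 433) (nat_lit 403)) (XT.nd (nat_lit 78) (nat_lit 0) (nat_lit 0) (XT.lf (nat_lit 304) (nat_lit 183806349388) (nat_lit 0) (nat_lit 5248715937) (nat_lit 228) (nat_lit 5248715937) (nat_lit 239) (nat_lit 1) (nat_lit 235) (nat_lit 1) (nat_lit 238) (nat_lit 1) (nat_lit 185) (nat_lit 433) (nat_lit 402)) (XT.lf (nat_lit 76) (nat_lit 69528678091) (nat_lit 0) (nat_lit 51520052320) (nat_lit 304) (nat_lit 69528678091) (nat_lit 236) (nat_lit 1) (nat_lit 235) (nat_lit 1) (nat_lit 239) (nat_lit 1) (nat_lit 186) (nat_lit 433) (nat_lit 401)))) (XT.nd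 (nat_lit 78) (nat_lit 152) (nat_lit 0) (XT.lf (nat_lit 304) (nat_lit 95608298829) (nat_lit 0) (nat_lit 45690306652) (nat_lit 228) (nat_lit 45690306652) (nat_lit 236) (nat_lit 1) (nat_lit 232) (nat_lit 1) (nat_lit 235) (nat_lit 1) (nat_lit 187) (nat_lit 433) (nat_lit 400)) (XT.nd (nat_lit 78) (nat_lit 152) (nat_lit 0) (XT.lf (nat_lit 76) (nat_lit 26330447523) (nat_lit 0) (nat_lit 130835765822) (nat_lit 304) (nat_lit 26330447523) (nat_lit 233) (nat_lit 1) (nat_lit 232) (nat_lit 1) (nat_lit 236) (nat_lit 1) (nat_lit 188) (nat_lit 433) (nat_lit 399)) (XT.lf (nat_lit 228) (nat_lit 9648351442) (nat_lit 0) (nat_lit 85210933771) (nat_lit 152) (nat_lit 85210933771) (nat_lit 233) (nat_lit 1) (nat_lit 230) (nat_lit 1) (nat_lit 232) (nat_lit 1) (nat_lit 189) (nat_lit 433) (nat_lit 398)))))) (XT.nd (nat_lit 468) (nat_lit 684) (nat_lit 0) (XT.nd (nat_lit 234) (nat_lit 380) (nat_lit 0) (XT.nd (nat_lit 78) (nat_lit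 152) (nat_lit 0) (XT.lf (nat_lit 304) (nat_lit 145783355055) (nat_lit 0) (nat_lit 15483248993) (nat_lit 228) (nat_lit 15483248993) (nat_lit 230) (nat_lit 1) (nat_lit 226) (nat_lit 1) (nat_lit 229) (nat_lit 1) (nat_lit 190) (nat_lit 433) (nat_lit 397)) (XT.nd (nat_lit 78) (nat_lit 152) (nat_lit 0) (XT.lf (nat_lit 76) (nat_lit 50918665441) (nat_lit 0) (nat_lit 71629291316) (nat_lit 304) (nat_lit 50918665441) (nat_lit 227) (nat_lit 1) (nat_lit 226) (nat_lit 1) (nat_lit 230) (nat_lit 1) (nat_lit 191) (nat_lit 433) (nat_lit 396)) (XT.lf (nat_lit 228) (nat_lit 58828663378) (nat_lit 0) (nat_lit 55728028743) (nat_lit 152) (nat_lit 55728028743) (nat_lit 227) (nat_lit 1) (nat_lit 224) (nat_lit 1) (nat_lit 226) (nat_lit 1) (nat_lit 192) (nat_lit 433) (nat_lit 395)))) (XT.nd (nat_lit 78) (nat_lit 380) (nat_lit 0) (XT.lf (nat_lit 76) (nat_lit 8451811671) (nat_lit 0) (nat_lit 150304791285) (nat_lit 228) (nat_lit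 8451811671) (nat_lit 225) (nat_lit 1) (nat_lit 224) (nat_lit 1) (nat_lit 227) (nat_lit 1) (nat_lit 193) (nat_lit 433) (nat_lit 394)) (XT.nd (nat_lit 78) (nat_lit 152) (nat_lit 0) (XT.lf (nat_lit 76) (nat_lit 69754284549) (nat_lit 0) (nat_lit 24634721884) (nat_lit 228) (nat_lit 69754284549) (nat_lit 222) (nat_lit 1) (nat_lit 221) (nat_lit 1) (nat_lit 224) (nat_lit 1) (nat_lit 194) (nat_lit 433) (nat_lit 393)) (XT.lf (nat_lit 228) (nat_lit 96866049587) (nat_lit 0) (nat_lit 32156903972) (nat_lit 152) (nat_lit 32156903972) (nat_lit 222) (nat_lit 1) (nat_lit 219) (nat_lit 1) (nat_lit 221) (nat_lit 1) (nat_lit 195) (nat_lit 433) (nat_lit 392))))) (XT.nd (nat_lit 234) (nat_lit 304) (nat_lit 0) (XT.nd (nat_lit 78) (nat_lit 380) (nat_lit 0) (XT.lf (nat_lit 76) (nat_lit 27333079108) (nat_lit 0) (nat_lit 103615764219) (nat_lit 228) (nat_lit 27333079108) (nat_lit 220) (nat_lit 1) (nat_lit 219) (nat_lit 1)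 (nat_lit 222) (nat_lit 1) (nat_lit 196) (nat_lit 433) (nat_lit 391)) (XT.nd (nat_lit 78) (nat_lit 228) (nat_lit 0) (XT.lf (nat_lit 228) (nat_lit 12804563479) (nat_lit 0) (nat_lit 71318919384) (nat_lit 152) (nat_lit 71318919384) (nat_lit 220) (nat_lit 1) (nat_lit 217) (nat_lit 1) (nat_lit 219) (nat_lit 1) (nat_lit 197) (nat_lit 433) (nat_lit 390)) (XT.lf (nat_lit 228) (nat_lit 125851522183) (nat_lit 0) (nat_lit 13416818585) (nat_lit 152) (nat_lit 13416818585) (nat_lit 217) (nat_lit 1) (nat_lit 214) (nat_lit 1) (nat_lit 216) (nat_lit 1) (nat_lit 198) (nat_lit 433) (nat_lit 389)))) (XT.nd (nat_lit 156) (nat_lit 152) (nat_lit 0) (XT.nd (nat_lit 78) (nat_lit 152) (nat_lit 0) (XT.lf (nat_lit 76) (nat_lit 41896280140) (nat_lit 0) (nat_lit 66158888941) (nat_lit 228) (nat_lit 41896280140) (nat_lit 215) (nat_lit 1) (nat_lit 214) (nat_lit 1) (nat_lit 217) (nat_lit 1) (nat_lit 199) (nat_lit 433) (nat_lit 388))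 (XT.lf (nat_lit 228) (nat_lit 42669327235) (nat_lit 0) (nat_lit 52313887626) (nat_lit 152) (nat_lit 52313887626) (nat_lit 215) (nat_lit 1) (nat_lit 212) (nat_lit 1) (nat_lit 214) (nat_lit 1) (nat_lit 200) (nat_lit 433) (nat_lit 387))) (XT.nd (nat_lit 78) (nat_lit 152) (nat_lit 0) (XT.lf (nat_lit 76) (nat_lit 1402423107) (nat_lit 0) (nat_lit 141930997611) (nat_lit 228) (nat_lit 1402423107) (nat_lit 213) (nat_lit 1) (nat_lit 212) (nat_lit 1) (nat_lit 215) (nat_lit 1) (nat_lit 201) (nat_lit 433) (nat_lit 386)) (XT.lf (nat_lit 76) (nat_lit 52953209846) (nat_lit 0) (nat_lit 36251884796) (nat_lit 152) (nat_lit 52953209846) (nat_lit 211) (nat_lit 1) (nat_lit 210) (nat_lit 1) (nat_lit 212) (nat_lit 1) (nat_lit 202) (nat_lit 433) (nat_lit 385))))))) (XT.nd (nat_lit 936) (nat_lit 988) (nat_lit 0) (XT.nd (nat_lit 468) (nat_lit 608) (nat_lit 0) (XT.nd (nat_lit 234) (nat_lit 228) (nat_lit 0) (XT.nd (nat_lit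 78) (nat_lit 152) (nat_lit 0) (XT.lf (nat_lit 228) (nat_lit 65708905087) (nat_lit 0) (nat_lit 36981275433) (nat_lit 152) (nat_lit 36981275433) (nat_lit 211) (nat_lit 1) (nat_lit 208) (nat_lit 1) (nat_lit 210) (nat_lit 1) (nat_lit 203) (nat_lit 433) (nat_lit 384)) (XT.nd (nat_lit 78) (nat_lit 152) (nat_lit 0) (XT.lf (nat_lit 76) (nat_lit 13174181339) (nat_lit 0) (nat_lit 110903371092) (nat_lit 228) (nat_lit 13174181339) (nat_lit 209) (nat_lit 1) (nat_lit 208) (nat_lit 1) (nat_lit 211) (nat_lit 1) (nat_lit 204) (nat_lit 433) (nat_lit 383)) (XT.lf (nat_lit 76) (nat_lit 61169533445) (nat_lit 0) (nat_lit 12512899275) (nat_lit 152) (nat_lit 61169533445) (nat_lit 207) (nat_lit 1) (nat_lit 206) (nat_lit 1) (nat_lit 208) (nat_lit 1) (nat_lit 205) (nat_lit 433) (nat_lit 382)))) (XT.nd (nat_lit 78) (nat_lit 76) (nat_lit 0) (XT.lf (nat_lit 228) (nat_lit 83206254044) (nat_lit 0) (nat_lit 24655549313) (nat_lit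 152) (nat_lit 24655549313) (nat_lit 207) (nat_lit 1) (nat_lit 204) (nat_lit 1) (nat_lit 206) (nat_lit 1) (nat_lit 206) (nat_lit 433) (nat_lit 381)) (XT.nd (nat_lit 78) (nat_lit 76) (nat_lit 0) (XT.lf (nat_lit 76) (nat_lit 22286435761) (nat_lit 0) (nat_lit 85656085582) (nat_lit 228) (nat_lit 22286435761) (nat_lit 205) (nat_lit 1) (nat_lit 204) (nat_lit 1) (nat_lit 207) (nat_lit 1) (nat_lit 207) (nat_lit 433) (nat_lit 380)) (XT.lf (nat_lit 152) (nat_lit 6397624117) (nat_lit 0) (nat_lit 60793060278) (nat_lit 76) (nat_lit 60793060278) (nat_lit 205) (nat_lit 1) (nat_lit 203) (nat_lit 1) (nat_lit 204) (nat_lit 1) (nat_lit 208) (nat_lit 433) (nat_lit 379))))) (XT.nd (nat_lit 234) (nat_lit 304) (nat_lit 0) (XT.nd (nat_lit 78) (nat_lit 76) (nat_lit 0) (XT.lf (nat_lit 228) (nat_lit 96213396085) (nat_lit 0) (nat_lit 14789860002) (nat_lit 152) (nat_lit 14789860002) (nat_lit 203) (nat_lit 1) (nat_lit 200) (nat_lit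 1) (nat_lit 202) (nat_lit 1) (nat_lit 209) (nat_lit 433) (nat_lit 378)) (XT.nd (nat_lit 78) (nat_lit 76) (nat_lit 0) (XT.lf (nat_lit 76) (nat_lit 29237966970) (nat_lit 0) (nat_lit 65151004753) (nat_lit 228) (nat_lit 29237966970) (nat_lit 201) (nat_lit 1) (nat_lit 200) (nat_lit 1) (nat_lit 203) (nat_lit 1) (nat_lit 210) (nat_lit 433) (nat_lit 377)) (XT.lf (nat_lit 152) (nat_lit 21484671145) (nat_lit 0) (nat_lit 50014601141) (nat_lit 76) (nat_lit 50014601141) (nat_lit 201) (nat_lit 1) (nat_lit 199) (nat_lit 1) (nat_lit 200) (nat_lit 1) (nat_lit 211) (nat_lit 433) (nat_lit 376)))) (XT.nd (nat_lit 78) (nat_lit 76) (nat_lit 0) (XT.lf (nat_lit 228) (nat_lit 105592527605) (nat_lit 0) (nat_lit 6934967344) (nat_lit 152) (nat_lit 6934967344) (nat_lit 199) (nat_lit 1) (nat_lit 196) (nat_lit 1) (nat_lit 198) (nat_lit 1) (nat_lit 212) (nat_lit 433) (nat_lit 375)) (XT.nd (nat_lit 78) (nat_lit 76) (nat_lit 0)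 (XT.lf (nat_lit 76) (nat_lit 34437825036) (nat_lit 0) (nat_lit 48534684430) (nat_lit 228) (nat_lit 34437825036) (nat_lit 197) (nat_lit 1) (nat_lit 196) (nat_lit 1) (nat_lit 199) (nat_lit 1) (nat_lit 213) (nat_lit 433) (nat_lit 374)) (XT.lf (nat_lit 152) (nat_lit 33124377789) (nat_lit 0) (nat_lit 41147136134) (nat_lit 76) (nat_lit 41147136134) (nat_lit 197) (nat_lit 1) (nat_lit 195) (nat_lit 1) (nat_lit 196) (nat_lit 1) (nat_lit 214) (nat_lit 433) (nat_lit 373)))))) (XT.nd (nat_lit 468) (nat_lit 456) (nat_lit 0) (XT.nd (nat_lit 234) (nat_lit 228) (nat_lit 0) (XT.nd (nat_lit 78) (nat_lit 76) (nat_lit 0) (XT.lf (nat_lit 228) (nat_lit 112049832387) (nat_lit 0) (nat_lit 721903291) (nat_lit 152) (nat_lit 721903291) (nat_lit 195) (nat_lit 1) (nat_lit 192) (nat_lit 1) (nat_lit 194) (nat_lit 1) (nat_lit 215) (nat_lit 433) (nat_lit 372)) (XT.nd (nat_lit 78) (nat_lit 76) (nat_lit 0) (XT.lf (nat_lit 76) (nat_lit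 38221300314) (nat_lit 0) (nat_lit 35105596979) (nat_lit 228) (nat_lit 38221300314) (nat_lit 193) (nat_lit 1) (nat_lit 192) (nat_lit 1) (nat_lit 195) (nat_lit 1) (nat_lit 216) (nat_lit 433) (nat_lit 371)) (XT.lf (nat_lit 152) (nat_lit 41964732028) (nat_lit 0) (nat_lit 33851850728) (nat_lit 76) (nat_lit 33851850728) (nat_lit 193) (nat_lit 1) (nat_lit 191) (nat_lit 1) (nat_lit 192) (nat_lit 1) (nat_lit 217) (nat_lit 433) (nat_lit 370)))) (XT.nd (nat_lit 78) (nat_lit 228) (nat_lit 0) (XT.lf (nat_lit 0) (nat_lit 4220360134) (nat_lit 0) (nat_lit 99404702318) (nat_lit 152) (nat_lit 4220360134) (nat_lit 191) (nat_lit 3) (nat_lit 191) (nat_lit 1) (nat_lit 193) (nat_lit 1) (nat_lit 218) (nat_lit 433) (nat_lit 369)) (XT.nd (nat_lit 78) (nat_lit 76) (nat_lit 0) (XT.lf (nat_lit 76) (nat_lit 40863059720) (nat_lit 0) (nat_lit 24287168166) (nat_lit 152) (nat_lit 40863059720) (nat_lit 190) (nat_lit 1) (nat_lit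 189) (nat_lit 1) (nat_lit 191) (nat_lit 1) (nat_lit 219) (nat_lit 433) (nat_lit 368)) (XT.lf (nat_lit 152) (nat_lit 48537083603) (nat_lit 0) (nat_lit 27850001370) (nat_lit 76) (nat_lit 27850001370) (nat_lit 190) (nat_lit 1) (nat_lit 188) (nat_lit 1) (nat_lit 189) (nat_lit 1) (nat_lit 220) (nat_lit 433) (nat_lit 367))))) (XT.nd (nat_lit 234) (nat_lit 228) (nat_lit 0) (XT.nd (nat_lit 78) (nat_lit 228) (nat_lit 0) (XT.lf (nat_lit 0) (nat_lit 8066394074) (nat_lit 0) (nat_lit 86374787951) (nat_lit 152) (nat_lit 8066394074) (nat_lit 188) (nat_lit 3) (nat_lit 188) (nat_lit 1) (nat_lit 190) (nat_lit 1) (nat_lit 221) (nat_lit 433) (nat_lit 366)) (XT.nd (nat_lit 78) (nat_lit 76) (nat_lit 0) (XT.lf (nat_lit 76) (nat_lit 42587951181) (nat_lit 0) (nat_lit 15605595882) (nat_lit 152) (nat_lit 42587951181) (nat_lit 187) (nat_lit 1) (nat_lit 186) (nat_lit 1) (nat_lit 188) (nat_lit 1) (nat_lit 222) (nat_lit 433)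 (nat_lit 365)) (XT.lf (nat_lit 152) (nat_lit 53276907095) (nat_lit 0) (nat_lit 22912265050) (nat_lit 76) (nat_lit 22912265050) (nat_lit 187) (nat_lit 1) (nat_lit 185) (nat_lit 1) (nat_lit 186) (nat_lit 1) (nat_lit 223) (nat_lit 433) (nat_lit 364)))) (XT.nd (nat_lit 156) (nat_lit 76) (nat_lit 0) (XT.nd (nat_lit 78) (nat_lit 152) (nat_lit 0) (XT.lf (nat_lit 0) (nat_lit 11011759841) (nat_lit 0) (nat_lit 75436269280) (nat_lit 152) (nat_lit 11011759841) (nat_lit 185) (nat_lit 3) (nat_lit 185) (nat_lit 1) (nat_lit 187) (nat_lit 1) (nat_lit 224) (nat_lit 433) (nat_lit 363)) (XT.lf (nat_lit 76) (nat_lit 43579889805) (nat_lit 0) (nat_lit 8671602854) (nat_lit 152) (nat_lit 43579889805) (nat_lit 184) (nat_lit 1) (nat_lit 183) (nat_lit 1) (nat_lit 185) (nat_lit 1) (nat_lit 225) (nat_lit 433) (nat_lit 362))) (XT.nd (nat_lit 78) (nat_lit 0) (nat_lit 0) (XT.lf (nat_lit 152) (nat_lit 56540879788) (nat_lit 0) (nat_lit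 18849977160) (nat_lit 76) (nat_lit 18849977160) (nat_lit 184) (nat_lit 1) (nat_lit 182) (nat_lit 1) (nat_lit 183) (nat_lit 1) (nat_lit 226) (nat_lit 433) (nat_lit 361)) (XT.lf (nat_lit 0) (nat_lit 13226561572) (nat_lit 0) (nat_lit 66228764925) (nat_lit 152) (nat_lit 13226561572) (nat_lit 182) (nat_lit 3) (nat_lit 182) (nat_lit 1) (nat_lit 184) (nat_lit 1) (nat_lit 227) (nat_lit 433) (nat_lit 360))))))))
noncomputable def ec423 : XT := (XT.nd (nat_lit 1950) (nat_lit 1976) (nat_lit 0) (XT.nd (nat_lit 936) (nat_lit 988) (nat_lit 0) (XT.nd (nat_lit 468) (nat_lit 456) (nat_lit 0) (XT.nd (nat_lit 234) (nat_lit 228) (nat_lit 0) (XT.nd (nat_lit 78) (nat_lit 76) (nat_lit 0) (XT.lf (nat_lit 76) (nat_lit 43989166025) (nat_lit 0) (nat_lit 3165425796) (nat_lit 152) (nat_lit 43989166025) (nat_lit 181) (nat_lit 1) (nat_lit 180) (nat_lit 1) (nat_lit 182) (nat_lit 1) (nat_lit 228) (nat_lit 433) (nat_lit 359)) (XT.nd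 (nat_lit 78) (nat_lit 0) (nat_lit 0) (XT.lf (nat_lit 152) (nat_lit 58620927891) (nat_lit 0) (nat_lit 15507922859) (nat_lit 76) (nat_lit 15507922859) (nat_lit 181) (nat_lit 1) (nat_lit 179) (nat_lit 1) (nat_lit 180) (nat_lit 1) (nat_lit 229) (nat_lit 433) (nat_lit 358)) (XT.lf (nat_lit 0) (nat_lit 14850248270) (nat_lit 0) (nat_lit 58455292138) (nat_lit 152) (nat_lit 14850248270) (nat_lit 179) (nat_lit 3) (nat_lit 179) (nat_lit 1) (nat_lit 181) (nat_lit 1) (nat_lit 230) (nat_lit 433) (nat_lit 357)))) (XT.nd (nat_lit 78) (nat_lit 152) (nat_lit 0) (XT.lf (nat_lit 76) (nat_lit 1214401296) (nat_lit 0) (nat_lit 42743014503) (nat_lit 76) (nat_lit 42743014503) (nat_lit 179) (nat_lit 3) (nat_lit 178) (nat_lit 1) (nat_lit 179) (nat_lit 1) (nat_lit 231) (nat_lit 433) (nat_lit 356)) (XT.nd (nat_lit 78) (nat_lit 0) (nat_lit 0) (XT.lf (nat_lit 152) (nat_lit 59755778797) (nat_lit 0) (nat_lit 12758406515) (nat_lit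 76) (nat_lit 12758406515) (nat_lit 178) (nat_lit 1) (nat_lit 176) (nat_lit 1) (nat_lit 177) (nat_lit 1) (nat_lit 232) (nat_lit 433) (nat_lit 355)) (XT.lf (nat_lit 0) (nat_lit 15997072510) (nat_lit 0) (nat_lit 51871050014) (nat_lit 152) (nat_lit 15997072510) (nat_lit 176) (nat_lit 3) (nat_lit 176) (nat_lit 1) (nat_lit 178) (nat_lit 1) (nat_lit 233) (nat_lit 433) (nat_lit 354))))) (XT.nd (nat_lit 234) (nat_lit 228) (nat_lit 0) (XT.nd (nat_lit 78) (nat_lit 152) (nat_lit 0) (XT.lf (nat_lit 76) (nat_lit 4717863966) (nat_lit 0) (nat_lit 38883556827) (nat_lit 76) (nat_lit 38883556827) (nat_lit 176) (nat_lit 3) (nat_lit 175) (nat_lit 1) (nat_lit 176) (nat_lit 1) (nat_lit 234) (nat_lit 433) (nat_lit 353)) (XT.nd (nat_lit 78) (nat_lit 0) (nat_lit 0) (XT.lf (nat_lit 152) (nat_lit 60140461715) (nat_lit 0) (nat_lit 10496372614) (nat_lit 76) (nat_lit 10496372614) (nat_lit 175) (nat_lit 1) (nat_lit 173) (nat_lit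 1) (nat_lit 174) (nat_lit 1) (nat_lit 235) (nat_lit 433) (nat_lit 352)) (XT.lf (nat_lit 0) (nat_lit 16760580198) (nat_lit 0) (nat_lit 46274190270) (nat_lit 152) (nat_lit 16760580198) (nat_lit 173) (nat_lit 3) (nat_lit 173) (nat_lit 1) (nat_lit 175) (nat_lit 1) (nat_lit 236) (nat_lit 433) (nat_lit 351)))) (XT.nd (nat_lit 78) (nat_lit 152) (nat_lit 0) (XT.lf (nat_lit 76) (nat_lit 7423086946) (nat_lit 0) (nat_lit 35531287016) (nat_lit 76) (nat_lit 35531287016) (nat_lit 173) (nat_lit 3) (nat_lit 172) (nat_lit 1) (nat_lit 173) (nat_lit 1) (nat_lit 237) (nat_lit 433) (nat_lit 350)) (XT.nd (nat_lit 78) (nat_lit 0) (nat_lit 0) (XT.lf (nat_lit 152) (nat_lit 59934120607) (nat_lit 0) (nat_lit 8635391726) (nat_lit 76) (nat_lit 8635391726) (nat_lit 172) (nat_lit 1) (nat_lit 170) (nat_lit 1) (nat_lit 171) (nat_lit 1) (nat_lit 238) (nat_lit 433) (nat_lit 349)) (XT.lf (nat_lit 0) (nat_lit 17217303240) (nat_lit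 0) (nat_lit 41498223287) (nat_lit 152) (nat_lit 17217303240) (nat_lit 170) (nat_lit 3) (nat_lit 170) (nat_lit 1) (nat_lit 172) (nat_lit 1) (nat_lit 239) (nat_lit 433) (nat_lit 348)))))) (XT.nd (nat_lit 468) (nat_lit 532) (nat_lit 0) (XT.nd (nat_lit 234) (nat_lit 228) (nat_lit 0) (XT.nd (nat_lit 78) (nat_lit 152) (nat_lit 0) (XT.lf (nat_lit 76) (nat_lit 9480028749) (nat_lit 0) (nat_lit 32604714508) (nat_lit 76) (nat_lit 32604714508) (nat_lit 170) (nat_lit 3) (nat_lit 169) (nat_lit 1) (nat_lit 170) (nat_lit 1) (nat_lit 240) (nat_lit 433) (nat_lit 347)) (XT.nd (nat_lit 78) (nat_lit 0) (nat_lit 0) (XT.lf (nat_lit 152) (nat_lit 59266438795) (nat_lit 0) (nat_lit 7104358144) (nat_lit 76) (nat_lit 7104358144) (nat_lit 169) (nat_lit 1) (nat_lit 167) (nat_lit 1) (nat_lit 168) (nat_lit 1) (nat_lit 241) (nat_lit 433) (nat_lit 346)) (XT.lf (nat_lit 0) (nat_lit 17429796492) (nat_lit 0) (nat_lit 37405769505)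 (nat_lit 152) (nat_lit 17429796492) (nat_lit 167) (nat_lit 3) (nat_lit 167) (nat_lit 1) (nat_lit 169) (nat_lit 1) (nat_lit 242) (nat_lit 433) (nat_lit 345)))) (XT.nd (nat_lit 78) (nat_lit 152) (nat_lit 0) (XT.lf (nat_lit 76) (nat_lit 11011659064) (nat_lit 0) (nat_lit 30036395266) (nat_lit 76) (nat_lit 30036395266) (nat_lit 167) (nat_lit 3) (nat_lit 166) (nat_lit 1) (nat_lit 167) (nat_lit 1) (nat_lit 243) (nat_lit 433) (nat_lit 344)) (XT.nd (nat_lit 78) (nat_lit 0) (nat_lit 0) (XT.lf (nat_lit 152) (nat_lit 58242921532) (nat_lit 0) (nat_lit 5844773026) (nat_lit 76) (nat_lit 5844773026) (nat_lit 166) (nat_lit 1) (nat_lit 164) (nat_lit 1) (nat_lit 165) (nat_lit 1) (nat_lit 244) (nat_lit 433) (nat_lit 343)) (XT.lf (nat_lit 0) (nat_lit 17449135287) (nat_lit 0) (nat_lit 33883417721) (nat_lit 152) (nat_lit 17449135287) (nat_lit 164) (nat_lit 3) (nat_lit 164) (nat_lit 1) (nat_lit 166) (nat_lit 1) (nat_lit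 245) (nat_lit 433) (nat_lit 342))))) (XT.nd (nat_lit 234) (nat_lit 304) (nat_lit 0) (XT.nd (nat_lit 78) (nat_lit 152) (nat_lit 0) (XT.lf (nat_lit 76) (nat_lit 12118762926) (nat_lit 0) (nat_lit 27770460482) (nat_lit 76) (nat_lit 27770460482) (nat_lit 164) (nat_lit 3) (nat_lit 163) (nat_lit 1) (nat_lit 164) (nat_lit 1) (nat_lit 246) (nat_lit 433) (nat_lit 341)) (XT.nd (nat_lit 78) (nat_lit 0) (nat_lit 0) (XT.lf (nat_lit 152) (nat_lit 56949239173) (nat_lit 0) (nat_lit 4808509233) (nat_lit 76) (nat_lit 4808509233) (nat_lit 163) (nat_lit 1) (nat_lit 161) (nat_lit 1) (nat_lit 162) (nat_lit 1) (nat_lit 247) (nat_lit 433) (nat_lit 340)) (XT.lf (nat_lit 0) (nat_lit 17316969239) (nat_lit 0) (nat_lit 30837494069) (nat_lit 152) (nat_lit 17316969239) (nat_lit 161) (nat_lit 3) (nat_lit 161) (nat_lit 1) (nat_lit 163) (nat_lit 1) (nat_lit 248) (nat_lit 433) (nat_lit 339)))) (XT.nd (nat_lit 156) (nat_lit 76) (nat_lit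 0) (XT.nd (nat_lit 78) (nat_lit 152) (nat_lit 0) (XT.lf (nat_lit 76) (nat_lit 12883892215) (nat_lit 0) (nat_lit 25760582529) (nat_lit 76) (nat_lit 25760582529) (nat_lit 161) (nat_lit 3) (nat_lit 160) (nat_lit 1) (nat_lit 161) (nat_lit 1) (nat_lit 249) (nat_lit 433) (nat_lit 338)) (XT.lf (nat_lit 152) (nat_lit 55454797614) (nat_lit 0) (nat_lit 3955972446) (nat_lit 76) (nat_lit 3955972446) (nat_lit 160) (nat_lit 1) (nat_lit 158) (nat_lit 1) (nat_lit 159) (nat_lit 1) (nat_lit 250) (nat_lit 433) (nat_lit 337))) (XT.nd (nat_lit 78) (nat_lit 76) (nat_lit 0) (XT.lf (nat_lit 0) (nat_lit 17067211026) (nat_lit 0) (nat_lit 28190580264) (nat_lit 152) (nat_lit 17067211026) (nat_lit 158) (nat_lit 3) (nat_lit 158) (nat_lit 1) (nat_lit 160) (nat_lit 1) (nat_lit 251) (nat_lit 433) (nat_lit 336)) (XT.lf (nat_lit 76) (nat_lit 13374615690) (nat_lit 0) (nat_lit 23968300679) (nat_lit 76) (nat_lit 23968300679) (nat_lit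 158) (nat_lit 3) (nat_lit 157) (nat_lit 1) (nat_lit 158) (nat_lit 1) (nat_lit 252) (nat_lit 433) (nat_lit 335))))))) (XT.nd (nat_lit 1014) (nat_lit 912) (nat_lit 0) (XT.nd (nat_lit 468) (nat_lit 608) (nat_lit 0) (XT.nd (nat_lit 234) (nat_lit 228) (nat_lit 0) (XT.nd (nat_lit 78) (nat_lit 76) (nat_lit 0) (XT.lf (nat_lit 152) (nat_lit 53815673149) (nat_lit 0) (nat_lit 3254588322) (nat_lit 76) (nat_lit 3254588322) (nat_lit 157) (nat_lit 1) (nat_lit 155) (nat_lit 1) (nat_lit 156) (nat_lit 1) (nat_lit 253) (nat_lit 433) (nat_lit 334)) (XT.nd (nat_lit 78) (nat_lit 76) (nat_lit 0) (XT.lf (nat_lit 0) (nat_lit 16727424917) (nat_lit 0) (nat_lit 25878648317) (nat_lit 152) (nat_lit 16727424917) (nat_lit 155) (nat_lit 3) (nat_lit 155) (nat_lit 1) (nat_lit 157) (nat_lit 1) (nat_lit 254) (nat_lit 433) (nat_lit 333)) (XT.lf (nat_lit 76) (nat_lit 13646191980) (nat_lit 0) (nat_lit 22361642838) (nat_lit 76) (nat_lit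 22361642838) (nat_lit 155) (nat_lit 3) (nat_lit 154) (nat_lit 1) (nat_lit 155) (nat_lit 1) (nat_lit 255) (nat_lit 433) (nat_lit 332)))) (XT.nd (nat_lit 78) (nat_lit 76) (nat_lit 0) (XT.lf (nat_lit 152) (nat_lit 52077024543) (nat_lit 0) (nat_lit 2677557867) (nat_lit 76) (nat_lit 2677557867) (nat_lit 154) (nat_lit 1) (nat_lit 152) (nat_lit 1) (nat_lit 153) (nat_lit 1) (nat_lit 256) (nat_lit 433) (nat_lit 331)) (XT.nd (nat_lit 78) (nat_lit 76) (nat_lit 0) (XT.lf (nat_lit 0) (nat_lit 16319968322) (nat_lit 0) (nat_lit 23848702460) (nat_lit 152) (nat_lit 16319968322) (nat_lit 152) (nat_lit 3) (nat_lit 152) (nat_lit 1) (nat_lit 154) (nat_lit 1) (nat_lit 257) (nat_lit 433) (nat_lit 330)) (XT.lf (nat_lit 76) (nat_lit 13743767868) (nat_lit 0) (nat_lit 20913990858) (nat_lit 76) (nat_lit 20913990858) (nat_lit 152) (nat_lit 3) (nat_lit 151) (nat_lit 1) (nat_lit 152) (nat_lit 1) (nat_lit 258) (nat_lit 433) (nat_lit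 329))))) (XT.nd (nat_lit 234) (nat_lit 380) (nat_lit 0) (XT.nd (nat_lit 78) (nat_lit 76) (nat_lit 0) (XT.lf (nat_lit 152) (nat_lit 50275075124) (nat_lit 0) (nat_lit 2202833483) (nat_lit 76) (nat_lit 2202833483) (nat_lit 151) (nat_lit 1) (nat_lit 149) (nat_lit 1) (nat_lit 150) (nat_lit 1) (nat_lit 259) (nat_lit 433) (nat_lit 328)) (XT.nd (nat_lit 78) (nat_lit 76) (nat_lit 0) (XT.lf (nat_lit 0) (nat_lit 15862930180) (nat_lit 0) (nat_lit 22056838388) (nat_lit 152) (nat_lit 15862930180) (nat_lit 149) (nat_lit 3) (nat_lit 149) (nat_lit 1) (nat_lit 151) (nat_lit 1) (nat_lit 260) (nat_lit 433) (nat_lit 327)) (XT.lf (nat_lit 76) (nat_lit 13704186081) (nat_lit 0) (nat_lit 19603146279) (nat_lit 76) (nat_lit 19603146279) (nat_lit 149) (nat_lit 3) (nat_lit 148) (nat_lit 1) (nat_lit 149) (nat_lit 1) (nat_lit 261) (nat_lit 433) (nat_lit 326)))) (XT.nd (nat_lit 156) (nat_lit 228) (nat_lit 0) (XT.nd (nat_lit 78)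 (nat_lit 0) (nat_lit 0) (XT.lf (nat_lit 152) (nat_lit 48438741251) (nat_lit 0) (nat_lit 1812276558) (nat_lit 76) (nat_lit 1812276558) (nat_lit 148) (nat_lit 1) (nat_lit 146) (nat_lit 1) (nat_lit 147) (nat_lit 1) (nat_lit 262) (nat_lit 433) (nat_lit 325)) (XT.lf (nat_lit 0) (nat_lit 15370902253) (nat_lit 0) (nat_lit 20466645864) (nat_lit 152) (nat_lit 15370902253) (nat_lit 146) (nat_lit 3) (nat_lit 146) (nat_lit 1) (nat_lit 148) (nat_lit 1) (nat_lit 263) (nat_lit 433) (nat_lit 324))) (XT.nd (nat_lit 78) (nat_lit 152) (nat_lit 0) (XT.lf (nat_lit 76) (nat_lit 13557471845) (nat_lit 0) (nat_lit 18410560998) (nat_lit 76) (nat_lit 18410560998) (nat_lit 146) (nat_lit 3) (nat_lit 145) (nat_lit 1) (nat_lit 146) (nat_lit 1) (nat_lit 264) (nat_lit 433) (nat_lit 323)) (XT.lf (nat_lit 152) (nat_lit 46590969947) (nat_lit 0) (nat_lit 1490964409) (nat_lit 76) (nat_lit 1490964409) (nat_lit 145) (nat_lit 1) (nat_lit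 143) (nat_lit 1) (nat_lit 144) (nat_lit 1) (nat_lit 265) (nat_lit 433) (nat_lit 322)))))) (XT.nd (nat_lit 468) (nat_lit 456) (nat_lit 0) (XT.nd (nat_lit 234) (nat_lit 228) (nat_lit 0) (XT.nd (nat_lit 78) (nat_lit 228) (nat_lit 0) (XT.lf (nat_lit 0) (nat_lit 14855612977) (nat_lit 0) (nat_lit 19047893857) (nat_lit 152) (nat_lit 14855612977) (nat_lit 143) (nat_lit 3) (nat_lit 143) (nat_lit 1) (nat_lit 145) (nat_lit 1) (nat_lit 266) (nat_lit 433) (nat_lit 321)) (XT.nd (nat_lit 78) (nat_lit 152) (nat_lit 0) (XT.lf (nat_lit 76) (nat_lit 13328055201) (nat_lit 0) (nat_lit 17320703658) (nat_lit 76) (nat_lit 17320703658) (nat_lit 143) (nat_lit 3) (nat_lit 142) (nat_lit 1) (nat_lit 143) (nat_lit 1) (nat_lit 267) (nat_lit 433) (nat_lit 320)) (XT.lf (nat_lit 152) (nat_lit 44749837368) (nat_lit 0) (nat_lit 1226620109) (nat_lit 76) (nat_lit 1226620109) (nat_lit 142) (nat_lit 1) (nat_lit 140) (nat_lit 1) (nat_lit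 141) (nat_lit 1) (nat_lit 268) (nat_lit 433) (nat_lit 319)))) (XT.nd (nat_lit 78) (nat_lit 228) (nat_lit 0) (XT.lf (nat_lit 0) (nat_lit 14326448279) (nat_lit 0) (nat_lit 17775448134) (nat_lit 152) (nat_lit 14326448279) (nat_lit 140) (nat_lit 3) (nat_lit 140) (nat_lit 1) (nat_lit 142) (nat_lit 1) (nat_lit 269) (nat_lit 433) (nat_lit 318)) (XT.nd (nat_lit 78) (nat_lit 152) (nat_lit 0) (XT.lf (nat_lit 76) (nat_lit 13035775962) (nat_lit 0) (nat_lit 16320537729) (nat_lit 76) (nat_lit 16320537729) (nat_lit 140) (nat_lit 3) (nat_lit 139) (nat_lit 1) (nat_lit 140) (nat_lit 1) (nat_lit 270) (nat_lit 433) (nat_lit 317)) (XT.lf (nat_lit 152) (nat_lit 42929450606) (nat_lit 0) (nat_lit 1009143399) (nat_lit 76) (nat_lit 1009143399) (nat_lit 139) (nat_lit 1) (nat_lit 137) (nat_lit 1) (nat_lit 138) (nat_lit 1) (nat_lit 271) (nat_lit 433) (nat_lit 316))))) (XT.nd (nat_lit 234) (nat_lit 228) (nat_lit 0) (XT.nd (nat_lit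 78) (nat_lit 228) (nat_lit 0) (XT.lf (nat_lit 0) (nat_lit 13790879423) (nat_lit 0) (nat_lit 16628380139) (nat_lit 152) (nat_lit 13790879423) (nat_lit 137) (nat_lit 3) (nat_lit 137) (nat_lit 1) (nat_lit 139) (nat_lit 1) (nat_lit 272) (nat_lit 433) (nat_lit 315)) (XT.nd (nat_lit 78) (nat_lit 152) (nat_lit 0) (XT.lf (nat_lit 76) (nat_lit 12696709873) (nat_lit 0) (nat_lit 15399091507) (nat_lit 76) (nat_lit 15399091507) (nat_lit 137) (nat_lit 3) (nat_lit 136) (nat_lit 1) (nat_lit 137) (nat_lit 1) (nat_lit 273) (nat_lit 433) (nat_lit 314)) (XT.lf (nat_lit 152) (nat_lit 41140687785) (nat_lit 0) (nat_lit 830224772) (nat_lit 76) (nat_lit 830224772) (nat_lit 136) (nat_lit 1) (nat_lit 134) (nat_lit 1) (nat_lit 135) (nat_lit 1) (nat_lit 274) (nat_lit 433) (nat_lit 313)))) (XT.nd (nat_lit 156) (nat_lit 152) (nat_lit 0) (XT.nd (nat_lit 78) (nat_lit 76) (nat_lit 0) (XT.lf (nat_lit 0) (nat_lit 13254814411) (nat_lit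 0) (nat_lit 15589233273) (nat_lit 152) (nat_lit 13254814411) (nat_lit 134) (nat_lit 3) (nat_lit 134) (nat_lit 1) (nat_lit 136) (nat_lit 1) (nat_lit 275) (nat_lit 433) (nat_lit 312)) (XT.lf (nat_lit 76) (nat_lit 12323847708) (nat_lit 0) (nat_lit 14547103767) (nat_lit 76) (nat_lit 14547103767) (nat_lit 134) (nat_lit 3) (nat_lit 133) (nat_lit 1) (nat_lit 134) (nat_lit 1) (nat_lit 276) (nat_lit 433) (nat_lit 311))) (XT.nd (nat_lit 78) (nat_lit 0) (nat_lit 0) (XT.lf (nat_lit 152) (nat_lit 39391805208) (nat_lit 0) (nat_lit 683027974) (nat_lit 76) (nat_lit 683027974) (nat_lit 133) (nat_lit 1) (nat_lit 131) (nat_lit 1) (nat_lit 132) (nat_lit 1) (nat_lit 277) (nat_lit 433) (nat_lit 310)) (XT.lf (nat_lit 0) (nat_lit 12722886505) (nat_lit 0) (nat_lit 14643418680) (nat_lit 152) (nat_lit 12722886505) (nat_lit 131) (nat_lit 3) (nat_lit 131) (nat_lit 1) (nat_lit 133) (nat_lit 1) (nat_lit 278) (nat_lit 433) (nat_lit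 309))))))))
noncomputable def ec424 : XT := (XT.nd (nat_lit 1950) (nat_lit 1976) (nat_lit 0) (XT.nd (nat_lit 936) (nat_lit 988) (nat_lit 0) (XT.nd (nat_lit 468) (nat_lit 456) (nat_lit 0) (XT.nd (nat_lit 234) (nat_lit 228) (nat_lit 0) (XT.nd (nat_lit 78) (nat_lit 152) (nat_lit 0) (XT.lf (nat_lit 76) (nat_lit 11927653413) (nat_lit 0) (nat_lit 13756731674) (nat_lit 76) (nat_lit 13756731674) (nat_lit 131) (nat_lit 3) (nat_lit 130) (nat_lit 1) (nat_lit 131) (nat_lit 1) (nat_lit 279) (nat_lit 433) (nat_lit 308)) (XT.nd (nat_lit 78) (nat_lit 0) (nat_lit 0) (XT.lf (nat_lit 152) (nat_lit 37688935205) (nat_lit 0) (nat_lit 561928805) (nat_lit 76) (nat_lit 561928805) (nat_lit 130) (nat_lit 1) (nat_lit 128) (nat_lit 1) (nat_lit 129) (nat_lit 1) (nat_lit 280) (nat_lit 433) (nat_lit 307)) (XT.lf (nat_lit 0) (nat_lit 12198691058) (nat_lit 0) (nat_lit 13778717631) (nat_lit 152) (nat_lit 12198691058) (nat_lit 128)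 (nat_lit 3) (nat_lit 128) (nat_lit 1) (nat_lit 130) (nat_lit 1) (nat_lit 281) (nat_lit 433) (nat_lit 306)))) (XT.nd (nat_lit 78) (nat_lit 152) (nat_lit 0) (XT.lf (nat_lit 76) (nat_lit 11516522747) (nat_lit 0) (nat_lit 13021309959) (nat_lit 76) (nat_lit 13021309959) (nat_lit 128) (nat_lit 3) (nat_lit 127) (nat_lit 1) (nat_lit 128) (nat_lit 1) (nat_lit 282) (nat_lit 433) (nat_lit 305)) (XT.nd (nat_lit 78) (nat_lit 0) (nat_lit 0) (XT.lf (nat_lit 152) (nat_lit 36036494145) (nat_lit 0) (nat_lit 462300218) (nat_lit 76) (nat_lit 462300218) (nat_lit 127) (nat_lit 1) (nat_lit 125) (nat_lit 1) (nat_lit 126) (nat_lit 1) (nat_lit 283) (nat_lit 433) (nat_lit 304)) (XT.lf (nat_lit 0) (nat_lit 11684979841) (nat_lit 0) (nat_lit 12984871612) (nat_lit 152) (nat_lit 11684979841) (nat_lit 125) (nat_lit 3) (nat_lit 125) (nat_lit 1) (nat_lit 127) (nat_lit 1) (nat_lit 284) (nat_lit 433) (nat_lit 303))))) (XT.nd (nat_lit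 234) (nat_lit 228) (nat_lit 0) (XT.nd (nat_lit 78) (nat_lit 152) (nat_lit 0) (XT.lf (nat_lit 76) (nat_lit 11097160113) (nat_lit 0) (nat_lit 12335152277) (nat_lit 76) (nat_lit 12335152277) (nat_lit 125) (nat_lit 3) (nat_lit 124) (nat_lit 1) (nat_lit 125) (nat_lit 1) (nat_lit 285) (nat_lit 433) (nat_lit 302)) (XT.nd (nat_lit 78) (nat_lit 0) (nat_lit 0) (XT.lf (nat_lit 152) (nat_lit 34437516611) (nat_lit 0) (nat_lit 380335534) (nat_lit 76) (nat_lit 380335534) (nat_lit 124) (nat_lit 1) (nat_lit 122) (nat_lit 1) (nat_lit 123) (nat_lit 1) (nat_lit 286) (nat_lit 433) (nat_lit 301)) (XT.lf (nat_lit 0) (nat_lit 11183820421) (nat_lit 0) (nat_lit 12253244599) (nat_lit 152) (nat_lit 11183820421) (nat_lit 122) (nat_lit 3) (nat_lit 122) (nat_lit 1) (nat_lit 124) (nat_lit 1) (nat_lit 287) (nat_lit 433) (nat_lit 300)))) (XT.nd (nat_lit 78) (nat_lit 152) (nat_lit 0) (XT.lf (nat_lit 76) (nat_lit 10674888086) (nat_lit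 0) (nat_lit 11693387303) (nat_lit 76) (nat_lit 11693387303) (nat_lit 122) (nat_lit 3) (nat_lit 121) (nat_lit 1) (nat_lit 122) (nat_lit 1) (nat_lit 288) (nat_lit 433) (nat_lit 299)) (XT.nd (nat_lit 78) (nat_lit 0) (nat_lit 0) (XT.lf (nat_lit 152) (nat_lit 32893928899) (nat_lit 0) (nat_lit 312902985) (nat_lit 76) (nat_lit 312902985) (nat_lit 121) (nat_lit 1) (nat_lit 119) (nat_lit 1) (nat_lit 120) (nat_lit 1) (nat_lit 289) (nat_lit 433) (nat_lit 298)) (XT.lf (nat_lit 0) (nat_lit 10696726822) (nat_lit 0) (nat_lit 11576544740) (nat_lit 152) (nat_lit 10696726822) (nat_lit 119) (nat_lit 3) (nat_lit 119) (nat_lit 1) (nat_lit 121) (nat_lit 1) (nat_lit 290) (nat_lit 433) (nat_lit 297)))))) (XT.nd (nat_lit 468) (nat_lit 532) (nat_lit 0) (XT.nd (nat_lit 234) (nat_lit 228) (nat_lit 0) (XT.nd (nat_lit 78) (nat_lit 152) (nat_lit 0) (XT.lf (nat_lit 76) (nat_lit 10253901607) (nat_lit 0) (nat_lit 11091823433) (nat_lit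 76) (nat_lit 11091823433) (nat_lit 119) (nat_lit 3) (nat_lit 118) (nat_lit 1) (nat_lit 119) (nat_lit 1) (nat_lit 291) (nat_lit 433) (nat_lit 296)) (XT.nd (nat_lit 78) (nat_lit 0) (nat_lit 0) (XT.lf (nat_lit 152) (nat_lit 31406772670) (nat_lit 0) (nat_lit 257426060) (nat_lit 76) (nat_lit 257426060) (nat_lit 118) (nat_lit 1) (nat_lit 116) (nat_lit 1) (nat_lit 117) (nat_lit 1) (nat_lit 292) (nat_lit 433) (nat_lit 295)) (XT.lf (nat_lit 0) (nat_lit 10224766566) (nat_lit 0) (nat_lit 10948594945) (nat_lit 152) (nat_lit 10224766566) (nat_lit 116) (nat_lit 3) (nat_lit 116) (nat_lit 1) (nat_lit 118) (nat_lit 1) (nat_lit 293) (nat_lit 433) (nat_lit 294)))) (XT.nd (nat_lit 78) (nat_lit 152) (nat_lit 0) (XT.lf (nat_lit 76) (nat_lit 9837476667) (nat_lit 0) (nat_lit 10526837027) (nat_lit 76) (nat_lit 10526837027) (nat_lit 116) (nat_lit 3) (nat_lit 115) (nat_lit 1) (nat_lit 116) (nat_lit 1) (nat_lit 294) (nat_lit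 433) (nat_lit 293)) (XT.nd (nat_lit 78) (nat_lit 0) (nat_lit 0) (XT.lf (nat_lit 152) (nat_lit 29976387657) (nat_lit 0) (nat_lit 211785056) (nat_lit 76) (nat_lit 211785056) (nat_lit 115) (nat_lit 1) (nat_lit 113) (nat_lit 1) (nat_lit 114) (nat_lit 1) (nat_lit 295) (nat_lit 433) (nat_lit 292)) (XT.lf (nat_lit 0) (nat_lit 9768648318) (nat_lit 0) (nat_lit 10364143716) (nat_lit 152) (nat_lit 9768648318) (nat_lit 113) (nat_lit 3) (nat_lit 113) (nat_lit 1) (nat_lit 115) (nat_lit 1) (nat_lit 296) (nat_lit 433) (nat_lit 291))))) (XT.nd (nat_lit 234) (nat_lit 304) (nat_lit 0) (XT.nd (nat_lit 78) (nat_lit 152) (nat_lit 0) (XT.lf (nat_lit 76) (nat_lit 9428141579) (nat_lit 0) (nat_lit 9995280053) (nat_lit 76) (nat_lit 9995280053) (nat_lit 113) (nat_lit 3) (nat_lit 112) (nat_lit 1) (nat_lit 113) (nat_lit 1) (nat_lit 297) (nat_lit 433) (nat_lit 290)) (XT.nd (nat_lit 78) (nat_lit 0) (nat_lit 0) (XT.lf (nat_lit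 152) (nat_lit 28602560746) (nat_lit 0) (nat_lit 174236090) (nat_lit 76) (nat_lit 174236090) (nat_lit 112) (nat_lit 1) (nat_lit 110) (nat_lit 1) (nat_lit 111) (nat_lit 1) (nat_lit 298) (nat_lit 433) (nat_lit 289)) (XT.lf (nat_lit 0) (nat_lit 9328793584) (nat_lit 0) (nat_lit 9818709122) (nat_lit 152) (nat_lit 9328793584) (nat_lit 110) (nat_lit 3) (nat_lit 110) (nat_lit 1) (nat_lit 112) (nat_lit 1) (nat_lit 299) (nat_lit 433) (nat_lit 288)))) (XT.nd (nat_lit 156) (nat_lit 76) (nat_lit 0) (XT.nd (nat_lit 78) (nat_lit 152) (nat_lit 0) (XT.lf (nat_lit 76) (nat_lit 9027817485) (nat_lit 0) (nat_lit 9494403712) (nat_lit 76) (nat_lit 9494403712) (nat_lit 110) (nat_lit 3) (nat_lit 109) (nat_lit 1) (nat_lit 110) (nat_lit 1) (nat_lit 300) (nat_lit 433) (nat_lit 287)) (XT.lf (nat_lit 152) (nat_lit 27284647449) (nat_lit 0) (nat_lit 143344462) (nat_lit 76) (nat_lit 143344462) (nat_lit 109) (nat_lit 1) (nat_lit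 107) (nat_lit 1) (nat_lit 108) (nat_lit 1) (nat_lit 301) (nat_lit 433) (nat_lit 286))) (XT.nd (nat_lit 78) (nat_lit 76) (nat_lit 0) (XT.lf (nat_lit 0) (nat_lit 8905395318) (nat_lit 0) (nat_lit 9308450044) (nat_lit 152) (nat_lit 8905395318) (nat_lit 107) (nat_lit 3) (nat_lit 107) (nat_lit 1) (nat_lit 109) (nat_lit 1) (nat_lit 302) (nat_lit 433) (nat_lit 285)) (XT.lf (nat_lit 76) (nat_lit 8637933574) (nat_lit 0) (nat_lit 9021795217) (nat_lit 76) (nat_lit 9021795217) (nat_lit 107) (nat_lit 3) (nat_lit 106) (nat_lit 1) (nat_lit 107) (nat_lit 1) (nat_lit 303) (nat_lit 433) (nat_lit 284))))))) (XT.nd (nat_lit 936) (nat_lit 1064) (nat_lit 0) (XT.nd (nat_lit 468) (nat_lit 456) (nat_lit 0) (XT.nd (nat_lit 234) (nat_lit 228) (nat_lit 0) (XT.nd (nat_lit 78) (nat_lit 76) (nat_lit 0) (XT.lf (nat_lit 152) (nat_lit 26021670730) (nat_lit 0) (nat_lit 117929844) (nat_lit 76) (nat_lit 117929844) (nat_lit 106) (nat_lit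 1) (nat_lit 104) (nat_lit 1) (nat_lit 105) (nat_lit 1) (nat_lit 304) (nat_lit 433) (nat_lit 283)) (XT.nd (nat_lit 78) (nat_lit 76) (nat_lit 0) (XT.lf (nat_lit 0) (nat_lit 8498465767) (nat_lit 0) (nat_lit 8830059887) (nat_lit 152) (nat_lit 8498465767) (nat_lit 104) (nat_lit 3) (nat_lit 104) (nat_lit 1) (nat_lit 106) (nat_lit 1) (nat_lit 305) (nat_lit 433) (nat_lit 282)) (XT.lf (nat_lit 76) (nat_lit 8259521505) (nat_lit 0) (nat_lit 8575325429) (nat_lit 76) (nat_lit 8575325429) (nat_lit 104) (nat_lit 3) (nat_lit 103) (nat_lit 1) (nat_lit 104) (nat_lit 1) (nat_lit 306) (nat_lit 433) (nat_lit 281)))) (XT.nd (nat_lit 78) (nat_lit 76) (nat_lit 0) (XT.lf (nat_lit 152) (nat_lit 24812401241) (nat_lit 0) (nat_lit 97021174) (nat_lit 76) (nat_lit 97021174) (nat_lit 103) (nat_lit 1) (nat_lit 101) (nat_lit 1) (nat_lit 102) (nat_lit 1) (nat_lit 307) (nat_lit 433) (nat_lit 280)) (XT.nd (nat_lit 78) (nat_lit 76)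 (nat_lit 0) (XT.lf (nat_lit 0) (nat_lit 8107875486) (nat_lit 0) (nat_lit 8380678789) (nat_lit 152) (nat_lit 8107875486) (nat_lit 101) (nat_lit 3) (nat_lit 101) (nat_lit 1) (nat_lit 103) (nat_lit 1) (nat_lit 308) (nat_lit 433) (nat_lit 279)) (XT.lf (nat_lit 76) (nat_lit 7893292762) (nat_lit 0) (nat_lit 8153105431) (nat_lit 76) (nat_lit 8153105431) (nat_lit 101) (nat_lit 3) (nat_lit 100) (nat_lit 1) (nat_lit 101) (nat_lit 1) (nat_lit 309) (nat_lit 433) (nat_lit 278))))) (XT.nd (nat_lit 234) (nat_lit 228) (nat_lit 0) (XT.nd (nat_lit 78) (nat_lit 76) (nat_lit 0) (XT.lf (nat_lit 152) (nat_lit 23655422320) (nat_lit 0) (nat_lit 79819560) (nat_lit 76) (nat_lit 79819560) (nat_lit 100) (nat_lit 1) (nat_lit 98) (nat_lit 1) (nat_lit 99) (nat_lit 1) (nat_lit 310) (nat_lit 433) (nat_lit 277)) (XT.nd (nat_lit 78) (nat_lit 76) (nat_lit 0) (XT.lf (nat_lit 0) (nat_lit 7733385100) (nat_lit 0) (nat_lit 7957821053)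 (nat_lit 152) (nat_lit 7733385100) (nat_lit 98) (nat_lit 3) (nat_lit 98) (nat_lit 1) (nat_lit 100) (nat_lit 1) (nat_lit 311) (nat_lit 433) (nat_lit 276)) (XT.lf (nat_lit 76) (nat_lit 7539701945) (nat_lit 0) (nat_lit 7753450471) (nat_lit 76) (nat_lit 7753450471) (nat_lit 98) (nat_lit 3) (nat_lit 97) (nat_lit 1) (nat_lit 98) (nat_lit 1) (nat_lit 312) (nat_lit 433) (nat_lit 275)))) (XT.nd (nat_lit 78) (nat_lit 76) (nat_lit 0) (XT.lf (nat_lit 152) (nat_lit 22549182497) (nat_lit 0) (nat_lit 65667750) (nat_lit 76) (nat_lit 65667750) (nat_lit 97) (nat_lit 1) (nat_lit 95) (nat_lit 1) (nat_lit 96) (nat_lit 1) (nat_lit 313) (nat_lit 433) (nat_lit 274)) (XT.nd (nat_lit 78) (nat_lit 76) (nat_lit 0) (XT.lf (nat_lit 0) (nat_lit 7374671130) (nat_lit 0) (nat_lit 7559315144) (nat_lit 152) (nat_lit 7374671130) (nat_lit 95) (nat_lit 3) (nat_lit 95) (nat_lit 1) (nat_lit 97) (nat_lit 1) (nat_lit 314) (nat_lit 433)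 (nat_lit 273)) (XT.lf (nat_lit 76) (nat_lit 7198998550) (nat_lit 0) (nat_lit 7374849992) (nat_lit 76) (nat_lit 7374849992) (nat_lit 95) (nat_lit 3) (nat_lit 94) (nat_lit 1) (nat_lit 95) (nat_lit 1) (nat_lit 315) (nat_lit 433) (nat_lit 272)))))) (XT.nd (nat_lit 468) (nat_lit 608) (nat_lit 0) (XT.nd (nat_lit 234) (nat_lit 228) (nat_lit 0) (XT.nd (nat_lit 78) (nat_lit 76) (nat_lit 0) (XT.lf (nat_lit 152) (nat_lit 21492037780) (nat_lit 0) (nat_lit 54025020) (nat_lit 76) (nat_lit 54025020) (nat_lit 94) (nat_lit 1) (nat_lit 92) (nat_lit 1) (nat_lit 93) (nat_lit 1) (nat_lit 316) (nat_lit 433) (nat_lit 271)) (XT.nd (nat_lit 78) (nat_lit 76) (nat_lit 0) (XT.lf (nat_lit 0) (nat_lit 7031346922) (nat_lit 0) (nat_lit 7183254009) (nat_lit 152) (nat_lit 7031346922) (nat_lit 92) (nat_lit 3) (nat_lit 92) (nat_lit 1) (nat_lit 94) (nat_lit 1) (nat_lit 317) (nat_lit 433) (nat_lit 270)) (XT.lf (nat_lit 76) (nat_lit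 6871269257) (nat_lit 0) (nat_lit 7015942673) (nat_lit 76) (nat_lit 7015942673) (nat_lit 92) (nat_lit 3) (nat_lit 91) (nat_lit 1) (nat_lit 92) (nat_lit 1) (nat_lit 318) (nat_lit 433) (nat_lit 269)))) (XT.nd (nat_lit 78) (nat_lit 76) (nat_lit 0) (XT.lf (nat_lit 152) (nat_lit 20482285561) (nat_lit 0) (nat_lit 44446518) (nat_lit 76) (nat_lit 44446518) (nat_lit 91) (nat_lit 1) (nat_lit 89) (nat_lit 1) (nat_lit 90) (nat_lit 1) (nat_lit 319) (nat_lit 433) (nat_lit 268)) (XT.nd (nat_lit 78) (nat_lit 76) (nat_lit 0) (XT.lf (nat_lit 0) (nat_lit 6702979593) (nat_lit 0) (nat_lit 6827953930) (nat_lit 152) (nat_lit 6702979593) (nat_lit 89) (nat_lit 3) (nat_lit 89) (nat_lit 1) (nat_lit 91) (nat_lit 1) (nat_lit 320) (nat_lit 433) (nat_lit 267)) (XT.lf (nat_lit 76) (nat_lit 6556472446) (nat_lit 0) (nat_lit 6675495623) (nat_lit 76) (nat_lit 6675495623) (nat_lit 89) (nat_lit 3) (nat_lit 88) (nat_lit 1) (nat_lit 89)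 (nat_lit 1) (nat_lit 321) (nat_lit 433) (nat_lit 266))))) (XT.nd (nat_lit 234) (nat_lit 380) (nat_lit 0) (XT.nd (nat_lit 78) (nat_lit 76) (nat_lit 0) (XT.lf (nat_lit 152) (nat_lit 19518191679) (nat_lit 0) (nat_lit 36566260) (nat_lit 76) (nat_lit 36566260) (nat_lit 88) (nat_lit 1) (nat_lit 86) (nat_lit 1) (nat_lit 87) (nat_lit 1) (nat_lit 322) (nat_lit 433) (nat_lit 265)) (XT.nd (nat_lit 78) (nat_lit 76) (nat_lit 0) (XT.lf (nat_lit 0) (nat_lit 6389103689) (nat_lit 0) (nat_lit 6491920385) (nat_lit 152) (nat_lit 6389103689) (nat_lit 86) (nat_lit 3) (nat_lit 86) (nat_lit 1) (nat_lit 88) (nat_lit 1) (nat_lit 323) (nat_lit 433) (nat_lit 264)) (XT.lf (nat_lit 76) (nat_lit 6254466319) (nat_lit 0) (nat_lit 6352386982) (nat_lit 76) (nat_lit 6352386982) (nat_lit 86) (nat_lit 3) (nat_lit 85) (nat_lit 1) (nat_lit 86) (nat_lit 1) (nat_lit 324) (nat_lit 433) (nat_lit 263)))) (XT.nd (nat_lit 156) (nat_lit 228)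 (nat_lit 0) (XT.nd (nat_lit 78) (nat_lit 0) (nat_lit 0) (XT.lf (nat_lit 152) (nat_lit 18598011891) (nat_lit 0) (nat_lit 30083152) (nat_lit 76) (nat_lit 30083152) (nat_lit 85) (nat_lit 1) (nat_lit 83) (nat_lit 1) (nat_lit 84) (nat_lit 1) (nat_lit 325) (nat_lit 433) (nat_lit 262)) (XT.lf (nat_lit 0) (nat_lit 6089232169) (nat_lit 0) (nat_lit 6173819719) (nat_lit 152) (nat_lit 6089232169) (nat_lit 83) (nat_lit 3) (nat_lit 83) (nat_lit 1) (nat_lit 85) (nat_lit 1) (nat_lit 326) (nat_lit 433) (nat_lit 261))) (XT.nd (nat_lit 78) (nat_lit 152) (nat_lit 0) (XT.lf (nat_lit 76) (nat_lit 5965031788) (nat_lit 0) (nat_lit 6045591360) (nat_lit 76) (nat_lit 6045591360) (nat_lit 83) (nat_lit 3) (nat_lit 82) (nat_lit 1) (nat_lit 83) (nat_lit 1) (nat_lit 327) (nat_lit 433) (nat_lit 260)) (XT.lf (nat_lit 152) (nat_lit 17720008784) (nat_lit 0) (nat_lit 24749484) (nat_lit 76) (nat_lit 24749484) (nat_lit 82) (nat_lit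 1) (nat_lit 80) (nat_lit 1) (nat_lit 81) (nat_lit 1) (nat_lit 328) (nat_lit 433) (nat_lit 259))))))))
noncomputable def ec425 : XT := (XT.nd (nat_lit 1950) (nat_lit 2052) (nat_lit 0) (XT.nd (nat_lit 936) (nat_lit 912) (nat_lit 0) (XT.nd (nat_lit 468) (nat_lit 456) (nat_lit 0) (XT.nd (nat_lit 234) (nat_lit 228) (nat_lit 0) (XT.nd (nat_lit 78) (nat_lit 228) (nat_lit 0) (XT.lf (nat_lit 0) (nat_lit 5802865186) (nat_lit 0) (nat_lit 5872455573) (nat_lit 152) (nat_lit 5802865186) (nat_lit 80) (nat_lit 3) (nat_lit 80) (nat_lit 1) (nat_lit 82) (nat_lit 1) (nat_lit 329) (nat_lit 433) (nat_lit 258)) (XT.nd (nat_lit 78) (nat_lit 152) (nat_lit 0) (XT.lf (nat_lit 76) (nat_lit 5687891051) (nat_lit 0) (nat_lit 5754167610) (nat_lit 76) (nat_lit 5754167610) (nat_lit 80) (nat_lit 3) (nat_lit 79) (nat_lit 1) (nat_lit 80) (nat_lit 1) (nat_lit 330) (nat_lit 433) (nat_lit 257)) (XT.lf (nat_lit 152) (nat_lit 16882464960)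 (nat_lit 0) (nat_lit 20361462) (nat_lit 76) (nat_lit 20361462) (nat_lit 79) (nat_lit 1) (nat_lit 77) (nat_lit 1) (nat_lit 78) (nat_lit 1) (nat_lit 331) (nat_lit 433) (nat_lit 256)))) (XT.nd (nat_lit 78) (nat_lit 228) (nat_lit 0) (XT.lf (nat_lit 0) (nat_lit 5529497084) (nat_lit 0) (nat_lit 5586749267) (nat_lit 152) (nat_lit 5529497084) (nat_lit 77) (nat_lit 3) (nat_lit 77) (nat_lit 1) (nat_lit 79) (nat_lit 1) (nat_lit 332) (nat_lit 433) (nat_lit 255)) (XT.nd (nat_lit 78) (nat_lit 152) (nat_lit 0) (XT.lf (nat_lit 76) (nat_lit 5422722651) (nat_lit 0) (nat_lit 5477248540) (nat_lit 76) (nat_lit 5477248540) (nat_lit 77) (nat_lit 3) (nat_lit 76) (nat_lit 1) (nat_lit 77) (nat_lit 1) (nat_lit 333) (nat_lit 433) (nat_lit 254)) (XT.lf (nat_lit 152) (nat_lit 16083693209) (nat_lit 0) (nat_lit 16751425) (nat_lit 76) (nat_lit 16751425) (nat_lit 76) (nat_lit 1) (nat_lit 74) (nat_lit 1) (nat_lit 75) (nat_lit 1)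 (nat_lit 334) (nat_lit 433) (nat_lit 253))))) (XT.nd (nat_lit 234) (nat_lit 228) (nat_lit 0) (XT.nd (nat_lit 78) (nat_lit 228) (nat_lit 0) (XT.lf (nat_lit 0) (nat_lit 5268621921) (nat_lit 0) (nat_lit 5315723434) (nat_lit 152) (nat_lit 5268621921) (nat_lit 74) (nat_lit 3) (nat_lit 74) (nat_lit 1) (nat_lit 76) (nat_lit 1) (nat_lit 335) (nat_lit 433) (nat_lit 252)) (XT.nd (nat_lit 78) (nat_lit 152) (nat_lit 0) (XT.lf (nat_lit 76) (nat_lit 5169173637) (nat_lit 0) (nat_lit 5214032221) (nat_lit 76) (nat_lit 5214032221) (nat_lit 74) (nat_lit 3) (nat_lit 73) (nat_lit 1) (nat_lit 74) (nat_lit 1) (nat_lit 336) (nat_lit 433) (nat_lit 251)) (XT.lf (nat_lit 152) (nat_lit 15322044212) (nat_lit 0) (nat_lit 13781438) (nat_lit 76) (nat_lit 13781438) (nat_lit 73) (nat_lit 1) (nat_lit 71) (nat_lit 1) (nat_lit 72) (nat_lit 1) (nat_lit 337) (nat_lit 433) (nat_lit 250)))) (XT.nd (nat_lit 78) (nat_lit 228) (nat_lit 0)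 (XT.lf (nat_lit 0) (nat_lit 5019737803) (nat_lit 0) (nat_lit 5058488334) (nat_lit 152) (nat_lit 5019737803) (nat_lit 71) (nat_lit 3) (nat_lit 71) (nat_lit 1) (nat_lit 73) (nat_lit 1) (nat_lit 338) (nat_lit 433) (nat_lit 249)) (XT.nd (nat_lit 78) (nat_lit 152) (nat_lit 0) (XT.lf (nat_lit 76) (nat_lit 4926869365) (nat_lit 0) (nat_lit 4963774633) (nat_lit 76) (nat_lit 4963774633) (nat_lit 71) (nat_lit 3) (nat_lit 70) (nat_lit 1) (nat_lit 71) (nat_lit 1) (nat_lit 339) (nat_lit 433) (nat_lit 248)) (XT.lf (nat_lit 152) (nat_lit 14595912268) (nat_lit 0) (nat_lit 11338023) (nat_lit 76) (nat_lit 11338023) (nat_lit 70) (nat_lit 1) (nat_lit 68) (nat_lit 1) (nat_lit 69) (nat_lit 1) (nat_lit 340) (nat_lit 433) (nat_lit 247)))))) (XT.nd (nat_lit 468) (nat_lit 456) (nat_lit 0) (XT.nd (nat_lit 234) (nat_lit 228) (nat_lit 0) (XT.nd (nat_lit 78) (nat_lit 228) (nat_lit 0) (XT.lf (nat_lit 0) (nat_lit 4782350246) (nat_lit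 0) (nat_lit 4814230404) (nat_lit 152) (nat_lit 4782350246) (nat_lit 68) (nat_lit 3) (nat_lit 68) (nat_lit 1) (nat_lit 70) (nat_lit 1) (nat_lit 341) (nat_lit 433) (nat_lit 246)) (XT.nd (nat_lit 78) (nat_lit 152) (nat_lit 0) (XT.lf (nat_lit 76) (nat_lit 4695421353) (nat_lit 0) (nat_lit 4725783409) (nat_lit 76) (nat_lit 4725783409) (nat_lit 68) (nat_lit 3) (nat_lit 67) (nat_lit 1) (nat_lit 68) (nat_lit 1) (nat_lit 342) (nat_lit 433) (nat_lit 245)) (XT.lf (nat_lit 152) (nat_lit 13903739408) (nat_lit 0) (nat_lit 9327820) (nat_lit 76) (nat_lit 9327820) (nat_lit 67) (nat_lit 1) (nat_lit 65) (nat_lit 1) (nat_lit 66) (nat_lit 1) (nat_lit 343) (nat_lit 433) (nat_lit 244)))) (XT.nd (nat_lit 78) (nat_lit 228) (nat_lit 0) (XT.lf (nat_lit 0) (nat_lit 4555974748) (nat_lit 0) (nat_lit 4582202633) (nat_lit 152) (nat_lit 4555974748) (nat_lit 65) (nat_lit 3) (nat_lit 65) (nat_lit 1) (nat_lit 67) (nat_lit 1) (nat_lit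 344) (nat_lit 433) (nat_lit 243)) (XT.nd (nat_lit 78) (nat_lit 152) (nat_lit 0) (XT.lf (nat_lit 76) (nat_lit 4474433562) (nat_lit 0) (nat_lit 4499412500) (nat_lit 76) (nat_lit 4499412500) (nat_lit 65) (nat_lit 3) (nat_lit 64) (nat_lit 1) (nat_lit 65) (nat_lit 1) (nat_lit 345) (nat_lit 433) (nat_lit 242)) (XT.lf (nat_lit 152) (nat_lit 13244018213) (nat_lit 0) (nat_lit 7674020) (nat_lit 76) (nat_lit 7674020) (nat_lit 64) (nat_lit 1) (nat_lit 62) (nat_lit 1) (nat_lit 63) (nat_lit 1) (nat_lit 346) (nat_lit 433) (nat_lit 241))))) (XT.nd (nat_lit 234) (nat_lit 228) (nat_lit 0) (XT.nd (nat_lit 78) (nat_lit 228) (nat_lit 0) (XT.lf (nat_lit 0) (nat_lit 4340138714) (nat_lit 0) (nat_lit 4361716460) (nat_lit 152) (nat_lit 4340138714) (nat_lit 62) (nat_lit 3) (nat_lit 62) (nat_lit 1) (nat_lit 64) (nat_lit 1) (nat_lit 347) (nat_lit 433) (nat_lit 240)) (XT.nd (nat_lit 78) (nat_lit 152) (nat_lit 0) (XT.lf (nat_lit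 76) (nat_lit 4263507369) (nat_lit 0) (nat_lit 4284057603) (nat_lit 76) (nat_lit 4284057603) (nat_lit 62) (nat_lit 3) (nat_lit 61) (nat_lit 1) (nat_lit 62) (nat_lit 1) (nat_lit 348) (nat_lit 433) (nat_lit 239)) (XT.lf (nat_lit 152) (nat_lit 12615293602) (nat_lit 0) (nat_lit 6313435) (nat_lit 76) (nat_lit 6313435) (nat_lit 61) (nat_lit 1) (nat_lit 59) (nat_lit 1) (nat_lit 60) (nat_lit 1) (nat_lit 349) (nat_lit 433) (nat_lit 238)))) (XT.nd (nat_lit 156) (nat_lit 152) (nat_lit 0) (XT.nd (nat_lit 78) (nat_lit 76) (nat_lit 0) (XT.lf (nat_lit 0) (nat_lit 4134382875) (nat_lit 0) (nat_lit 4152134940) (nat_lit 152) (nat_lit 4134382875) (nat_lit 59) (nat_lit 3) (nat_lit 59) (nat_lit 1) (nat_lit 61) (nat_lit 1) (nat_lit 350) (nat_lit 433) (nat_lit 237)) (XT.lf (nat_lit 76) (nat_lit 4062245497) (nat_lit 0) (nat_lit 4079152225) (nat_lit 76) (nat_lit 4079152225) (nat_lit 59) (nat_lit 3) (nat_lit 58) (nat_lit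 1) (nat_lit 59) (nat_lit 1) (nat_lit 351) (nat_lit 433) (nat_lit 236))) (XT.nd (nat_lit 78) (nat_lit 0) (nat_lit 0) (XT.lf (nat_lit 152) (nat_lit 12016163782) (nat_lit 0) (nat_lit 5194079) (nat_lit 76) (nat_lit 5194079) (nat_lit 58) (nat_lit 1) (nat_lit 56) (nat_lit 1) (nat_lit 57) (nat_lit 1) (nat_lit 352) (nat_lit 433) (nat_lit 235)) (XT.lf (nat_lit 0) (nat_lit 3938262274) (nat_lit 0) (nat_lit 3952866941) (nat_lit 152) (nat_lit 3938262274) (nat_lit 56) (nat_lit 3) (nat_lit 56) (nat_lit 1) (nat_lit 58) (nat_lit 1) (nat_lit 353) (nat_lit 433) (nat_lit 234))))))) (XT.nd (nat_lit 1014) (nat_lit 1064) (nat_lit 0) (XT.nd (nat_lit 468) (nat_lit 532) (nat_lit 0) (XT.nd (nat_lit 234) (nat_lit 228) (nat_lit 0) (XT.nd (nat_lit 78) (nat_lit 152) (nat_lit 0) (XT.lf (nat_lit 76) (nat_lit 3870255073) (nat_lit 0) (nat_lit 3884164281) (nat_lit 76) (nat_lit 3884164281) (nat_lit 56) (nat_lit 3) (nat_lit 55) (nat_lit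 1) (nat_lit 56) (nat_lit 1) (nat_lit 354) (nat_lit 433) (nat_lit 233)) (XT.nd (nat_lit 78) (nat_lit 0) (nat_lit 0) (XT.lf (nat_lit 152) (nat_lit 11445280553) (nat_lit 0) (nat_lit 4273181) (nat_lit 76) (nat_lit 4273181) (nat_lit 55) (nat_lit 1) (nat_lit 53) (nat_lit 1) (nat_lit 54) (nat_lit 1) (nat_lit 355) (nat_lit 433) (nat_lit 232)) (XT.lf (nat_lit 0) (nat_lit 3751346929) (nat_lit 0) (nat_lit 3763362226) (nat_lit 152) (nat_lit 3751346929) (nat_lit 53) (nat_lit 3) (nat_lit 53) (nat_lit 1) (nat_lit 55) (nat_lit 1) (nat_lit 356) (nat_lit 433) (nat_lit 231)))) (XT.nd (nat_lit 78) (nat_lit 152) (nat_lit 0) (XT.lf (nat_lit 76) (nat_lit 3687149998) (nat_lit 0) (nat_lit 3698593138) (nat_lit 76) (nat_lit 3698593138) (nat_lit 53) (nat_lit 3) (nat_lit 52) (nat_lit 1) (nat_lit 53) (nat_lit 1) (nat_lit 357) (nat_lit 433) (nat_lit 230)) (XT.nd (nat_lit 78) (nat_lit 0) (nat_lit 0) (XT.lf (nat_lit 152) (nat_lit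 10901349085) (nat_lit 0) (nat_lit 3515557) (nat_lit 76) (nat_lit 3515557) (nat_lit 52) (nat_lit 1) (nat_lit 50) (nat_lit 1) (nat_lit 51) (nat_lit 1) (nat_lit 358) (nat_lit 433) (nat_lit 229)) (XT.lf (nat_lit 0) (nat_lit 3573222222) (nat_lit 0) (nat_lit 3583107236) (nat_lit 152) (nat_lit 3573222222) (nat_lit 50) (nat_lit 3) (nat_lit 50) (nat_lit 1) (nat_lit 52) (nat_lit 1) (nat_lit 359) (nat_lit 433) (nat_lit 228))))) (XT.nd (nat_lit 234) (nat_lit 304) (nat_lit 0) (XT.nd (nat_lit 78) (nat_lit 152) (nat_lit 0) (XT.lf (nat_lit 76) (nat_lit 3512552735) (nat_lit 0) (nat_lit 3521967034) (nat_lit 76) (nat_lit 3521967034) (nat_lit 50) (nat_lit 3) (nat_lit 49) (nat_lit 1) (nat_lit 50) (nat_lit 1) (nat_lit 360) (nat_lit 433) (nat_lit 227)) (XT.nd (nat_lit 78) (nat_lit 0) (nat_lit 0) (XT.lf (nat_lit 152) (nat_lit 10383127299) (nat_lit 0) (nat_lit 2892257) (nat_lit 76) (nat_lit 2892257) (nat_lit 49) (nat_lit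 1) (nat_lit 47) (nat_lit 1) (nat_lit 48) (nat_lit 1) (nat_lit 361) (nat_lit 433) (nat_lit 226)) (XT.lf (nat_lit 0) (nat_lit 3403489069) (nat_lit 0) (nat_lit 3411621495) (nat_lit 152) (nat_lit 3403489069) (nat_lit 47) (nat_lit 3) (nat_lit 47) (nat_lit 1) (nat_lit 49) (nat_lit 1) (nat_lit 362) (nat_lit 433) (nat_lit 225)))) (XT.nd (nat_lit 156) (nat_lit 76) (nat_lit 0) (XT.nd (nat_lit 78) (nat_lit 152) (nat_lit 0) (XT.lf (nat_lit 76) (nat_lit 3346095643) (nat_lit 0) (nat_lit 3353840810) (nat_lit 76) (nat_lit 3353840810) (nat_lit 47) (nat_lit 3) (nat_lit 46) (nat_lit 1) (nat_lit 47) (nat_lit 1) (nat_lit 363) (nat_lit 433) (nat_lit 224)) (XT.lf (nat_lit 152) (nat_lit 9889424933) (nat_lit 0) (nat_lit 2379467) (nat_lit 76) (nat_lit 2379467) (nat_lit 46) (nat_lit 1) (nat_lit 44) (nat_lit 1) (nat_lit 45) (nat_lit 1) (nat_lit 364) (nat_lit 433) (nat_lit 223))) (XT.nd (nat_lit 78) (nat_lit 76) (nat_lit 0)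 (XT.lf (nat_lit 0) (nat_lit 3241763932) (nat_lit 0) (nat_lit 3248454498) (nat_lit 152) (nat_lit 3241763932) (nat_lit 44) (nat_lit 3) (nat_lit 44) (nat_lit 1) (nat_lit 46) (nat_lit 1) (nat_lit 365) (nat_lit 433) (nat_lit 222)) (XT.lf (nat_lit 76) (nat_lit 3187421943) (nat_lit 0) (nat_lit 3193793911) (nat_lit 76) (nat_lit 3193793911) (nat_lit 44) (nat_lit 3) (nat_lit 43) (nat_lit 1) (nat_lit 44) (nat_lit 1) (nat_lit 366) (nat_lit 433) (nat_lit 221)))))) (XT.nd (nat_lit 468) (nat_lit 608) (nat_lit 0) (XT.nd (nat_lit 234) (nat_lit 228) (nat_lit 0) (XT.nd (nat_lit 78) (nat_lit 76) (nat_lit 0) (XT.lf (nat_lit 152) (nat_lit 9419102374) (nat_lit 0) (nat_lit 1957593) (nat_lit 76) (nat_lit 1957593) (nat_lit 43) (nat_lit 1) (nat_lit 41) (nat_lit 1) (nat_lit 42) (nat_lit 1) (nat_lit 367) (nat_lit 433) (nat_lit 220)) (XT.nd (nat_lit 78) (nat_lit 76) (nat_lit 0) (XT.lf (nat_lit 0) (nat_lit 3087678687) (nat_lit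 0) (nat_lit 3093183033) (nat_lit 152) (nat_lit 3087678687) (nat_lit 41) (nat_lit 3) (nat_lit 41) (nat_lit 1) (nat_lit 43) (nat_lit 1) (nat_lit 368) (nat_lit 433) (nat_lit 219)) (XT.lf (nat_lit 76) (nat_lit 3036186375) (nat_lit 0) (nat_lit 3041428609) (nat_lit 76) (nat_lit 3041428609) (nat_lit 41) (nat_lit 3) (nat_lit 40) (nat_lit 1) (nat_lit 41) (nat_lit 1) (nat_lit 369) (nat_lit 433) (nat_lit 218)))) (XT.nd (nat_lit 78) (nat_lit 76) (nat_lit 0) (XT.lf (nat_lit 152) (nat_lit 8971069316) (nat_lit 0) (nat_lit 1610517) (nat_lit 76) (nat_lit 1610517) (nat_lit 40) (nat_lit 1) (nat_lit 38) (nat_lit 1) (nat_lit 39) (nat_lit 1) (nat_lit 370) (nat_lit 433) (nat_lit 217)) (XT.nd (nat_lit 78) (nat_lit 76) (nat_lit 0) (XT.lf (nat_lit 0) (nat_lit 2940880400) (nat_lit 0) (nat_lit 2945408839) (nat_lit 152) (nat_lit 2940880400) (nat_lit 38) (nat_lit 3) (nat_lit 38) (nat_lit 1) (nat_lit 40) (nat_lit 1) (nat_lit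 371) (nat_lit 433) (nat_lit 216)) (XT.lf (nat_lit 76) (nat_lit 2892055620) (nat_lit 0) (nat_lit 2896368419) (nat_lit 76) (nat_lit 2896368419) (nat_lit 38) (nat_lit 3) (nat_lit 37) (nat_lit 1) (nat_lit 38) (nat_lit 1) (nat_lit 372) (nat_lit 433) (nat_lit 215))))) (XT.nd (nat_lit 234) (nat_lit 380) (nat_lit 0) (XT.nd (nat_lit 78) (nat_lit 76) (nat_lit 0) (XT.lf (nat_lit 152) (nat_lit 8544283293) (nat_lit 0) (nat_lit 1324976) (nat_lit 76) (nat_lit 1324976) (nat_lit 37) (nat_lit 1) (nat_lit 35) (nat_lit 1) (nat_lit 36) (nat_lit 1) (nat_lit 373) (nat_lit 433) (nat_lit 214)) (XT.nd (nat_lit 78) (nat_lit 76) (nat_lit 0) (XT.lf (nat_lit 0) (nat_lit 2801031014) (nat_lit 0) (nat_lit 2804756572) (nat_lit 152) (nat_lit 2801031014) (nat_lit 35) (nat_lit 3) (nat_lit 35) (nat_lit 1) (nat_lit 37) (nat_lit 1) (nat_lit 374) (nat_lit 433) (nat_lit 213)) (XT.lf (nat_lit 76) (nat_lit 2754708530) (nat_lit 0) (nat_lit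 2758256680) (nat_lit 76) (nat_lit 2758256680) (nat_lit 35) (nat_lit 3) (nat_lit 34) (nat_lit 1) (nat_lit 35) (nat_lit 1) (nat_lit 375) (nat_lit 433) (nat_lit 212)))) (XT.nd (nat_lit 156) (nat_lit 228) (nat_lit 0) (XT.nd (nat_lit 78) (nat_lit 0) (nat_lit 0) (XT.lf (nat_lit 152) (nat_lit 8137748120) (nat_lit 0) (nat_lit 1090061) (nat_lit 76) (nat_lit 1090061) (nat_lit 34) (nat_lit 1) (nat_lit 32) (nat_lit 1) (nat_lit 33) (nat_lit 1) (nat_lit 376) (nat_lit 433) (nat_lit 211)) (XT.lf (nat_lit 0) (nat_lit 2667806986) (nat_lit 0) (nat_lit 2670872012) (nat_lit 152) (nat_lit 2667806986) (nat_lit 32) (nat_lit 3) (nat_lit 32) (nat_lit 1) (nat_lit 34) (nat_lit 1) (nat_lit 377) (nat_lit 433) (nat_lit 210))) (XT.nd (nat_lit 78) (nat_lit 152) (nat_lit 0) (XT.lf (nat_lit 76) (nat_lit 2623836205) (nat_lit 0) (nat_lit 2626755277) (nat_lit 76) (nat_lit 2626755277) (nat_lit 32) (nat_lit 3) (nat_lit 31) (nat_lit 1)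 (nat_lit 32) (nat_lit 1) (nat_lit 378) (nat_lit 433) (nat_lit 209)) (XT.lf (nat_lit 152) (nat_lit 7750512288) (nat_lit 0) (nat_lit 896796) (nat_lit 76) (nat_lit 896796) (nat_lit 31) (nat_lit 1) (nat_lit 29) (nat_lit 1) (nat_lit 30) (nat_lit 1) (nat_lit 379) (nat_lit 433) (nat_lit 208))))))))
noncomputable def ec426 : XT := (XT.nd (nat_lit 1950) (nat_lit 380) (nat_lit 0) (XT.nd (nat_lit 936) (nat_lit 912) (nat_lit 0) (XT.nd (nat_lit 468) (nat_lit 456) (nat_lit 0) (XT.nd (nat_lit 234) (nat_lit 228) (nat_lit 0) (XT.nd (nat_lit 78) (nat_lit 228) (nat_lit 0) (XT.lf (nat_lit 0) (nat_lit 2540898876) (nat_lit 0) (nat_lit 2543420480) (nat_lit 152) (nat_lit 2540898876) (nat_lit 29) (nat_lit 3) (nat_lit 29) (nat_lit 1) (nat_lit 31) (nat_lit 1) (nat_lit 380) (nat_lit 433) (nat_lit 207)) (XT.nd (nat_lit 78) (nat_lit 152) (nat_lit 0) (XT.lf (nat_lit 76) (nat_lit 2499141949) (nat_lit 0) (nat_lit 2501543477) (nat_lit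 76) (nat_lit 2501543477) (nat_lit 29) (nat_lit 3) (nat_lit 28) (nat_lit 1) (nat_lit 29) (nat_lit 1) (nat_lit 381) (nat_lit 433) (nat_lit 206)) (XT.lf (nat_lit 152) (nat_lit 7381667327) (nat_lit 0) (nat_lit 737796) (nat_lit 76) (nat_lit 737796) (nat_lit 28) (nat_lit 1) (nat_lit 26) (nat_lit 1) (nat_lit 27) (nat_lit 1) (nat_lit 382) (nat_lit 433) (nat_lit 205)))) (XT.nd (nat_lit 78) (nat_lit 228) (nat_lit 0) (XT.lf (nat_lit 0) (nat_lit 2420010904) (nat_lit 0) (nat_lit 2422085434) (nat_lit 152) (nat_lit 2420010904) (nat_lit 26) (nat_lit 3) (nat_lit 26) (nat_lit 1) (nat_lit 28) (nat_lit 1) (nat_lit 383) (nat_lit 433) (nat_lit 204)) (XT.nd (nat_lit 78) (nat_lit 152) (nat_lit 0) (XT.lf (nat_lit 76) (nat_lit 2380341133) (nat_lit 0) (nat_lit 2382316876) (nat_lit 76) (nat_lit 2382316876) (nat_lit 26) (nat_lit 3) (nat_lit 25) (nat_lit 1) (nat_lit 26) (nat_lit 1) (nat_lit 384) (nat_lit 433) (nat_lit 203))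 (XT.lf (nat_lit 152) (nat_lit 7030346156) (nat_lit 0) (nat_lit 606987) (nat_lit 76) (nat_lit 606987) (nat_lit 25) (nat_lit 1) (nat_lit 23) (nat_lit 1) (nat_lit 24) (nat_lit 1) (nat_lit 385) (nat_lit 433) (nat_lit 202))))) (XT.nd (nat_lit 234) (nat_lit 228) (nat_lit 0) (XT.nd (nat_lit 78) (nat_lit 228) (nat_lit 0) (XT.lf (nat_lit 0) (nat_lit 2304860493) (nat_lit 0) (nat_lit 2306567214) (nat_lit 152) (nat_lit 2304860493) (nat_lit 23) (nat_lit 3) (nat_lit 23) (nat_lit 1) (nat_lit 25) (nat_lit 1) (nat_lit 386) (nat_lit 433) (nat_lit 201)) (XT.nd (nat_lit 78) (nat_lit 152) (nat_lit 0) (XT.lf (nat_lit 76) (nat_lit 2267160986) (nat_lit 0) (nat_lit 2268786434) (nat_lit 76) (nat_lit 2268786434) (nat_lit 23) (nat_lit 3) (nat_lit 22) (nat_lit 1) (nat_lit 23) (nat_lit 1) (nat_lit 387) (nat_lit 433) (nat_lit 200)) (XT.lf (nat_lit 152) (nat_lit 6695721445) (nat_lit 0) (nat_lit 499369) (nat_lit 76) (nat_lit 499369)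 (nat_lit 22) (nat_lit 1) (nat_lit 20) (nat_lit 1) (nat_lit 21) (nat_lit 1) (nat_lit 388) (nat_lit 433) (nat_lit 199)))) (XT.nd (nat_lit 78) (nat_lit 228) (nat_lit 0) (XT.lf (nat_lit 0) (nat_lit 2195177797) (nat_lit 0) (nat_lit 2196581921) (nat_lit 152) (nat_lit 2195177797) (nat_lit 20) (nat_lit 3) (nat_lit 20) (nat_lit 1) (nat_lit 22) (nat_lit 1) (nat_lit 389) (nat_lit 433) (nat_lit 198)) (XT.nd (nat_lit 78) (nat_lit 152) (nat_lit 0) (XT.lf (nat_lit 76) (nat_lit 2159340329) (nat_lit 0) (nat_lit 2160677590) (nat_lit 76) (nat_lit 2160677590) (nat_lit 20) (nat_lit 3) (nat_lit 19) (nat_lit 1) (nat_lit 20) (nat_lit 1) (nat_lit 390) (nat_lit 433) (nat_lit 197)) (XT.lf (nat_lit 152) (nat_lit 6377003998) (nat_lit 0) (nat_lit 410832) (nat_lit 76) (nat_lit 410832) (nat_lit 19) (nat_lit 1) (nat_lit 17) (nat_lit 1) (nat_lit 18) (nat_lit 1) (nat_lit 391) (nat_lit 433) (nat_lit 196)))))) (XT.nd (nat_lit 468)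 (nat_lit 456) (nat_lit 0) (XT.nd (nat_lit 234) (nat_lit 228) (nat_lit 0) (XT.nd (nat_lit 78) (nat_lit 228) (nat_lit 0) (XT.lf (nat_lit 0) (nat_lit 2090705221) (nat_lit 0) (nat_lit 2091860397) (nat_lit 152) (nat_lit 2090705221) (nat_lit 17) (nat_lit 3) (nat_lit 17) (nat_lit 1) (nat_lit 19) (nat_lit 1) (nat_lit 392) (nat_lit 433) (nat_lit 195)) (XT.nd (nat_lit 78) (nat_lit 152) (nat_lit 0) (XT.lf (nat_lit 76) (nat_lit 2056629276) (nat_lit 0) (nat_lit 2057729444) (nat_lit 76) (nat_lit 2057729444) (nat_lit 17) (nat_lit 3) (nat_lit 16) (nat_lit 1) (nat_lit 17) (nat_lit 1) (nat_lit 393) (nat_lit 433) (nat_lit 194)) (XT.lf (nat_lit 152) (nat_lit 6073441157) (nat_lit 0) (nat_lit 337993) (nat_lit 76) (nat_lit 337993) (nat_lit 16) (nat_lit 1) (nat_lit 14) (nat_lit 1) (nat_lit 15) (nat_lit 1) (nat_lit 394) (nat_lit 433) (nat_lit 193)))) (XT.nd (nat_lit 78) (nat_lit 228) (nat_lit 0) (XT.lf (nat_lit 0) (nat_lit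 1991196945) (nat_lit 0) (nat_lit 1992147311) (nat_lit 152) (nat_lit 1991196945) (nat_lit 14) (nat_lit 3) (nat_lit 14) (nat_lit 1) (nat_lit 16) (nat_lit 1) (nat_lit 395) (nat_lit 433) (nat_lit 192)) (XT.nd (nat_lit 78) (nat_lit 152) (nat_lit 0) (XT.lf (nat_lit 76) (nat_lit 1958788894) (nat_lit 0) (nat_lit 1959694004) (nat_lit 76) (nat_lit 1959694004) (nat_lit 14) (nat_lit 3) (nat_lit 13) (nat_lit 1) (nat_lit 14) (nat_lit 1) (nat_lit 396) (nat_lit 433) (nat_lit 191)) (XT.lf (nat_lit 152) (nat_lit 5784315247) (nat_lit 0) (nat_lit 278067) (nat_lit 76) (nat_lit 278067) (nat_lit 13) (nat_lit 1) (nat_lit 11) (nat_lit 1) (nat_lit 12) (nat_lit 1) (nat_lit 397) (nat_lit 433) (nat_lit 190))))) (XT.nd (nat_lit 234) (nat_lit 228) (nat_lit 0) (XT.nd (nat_lit 78) (nat_lit 228) (nat_lit 0) (XT.lf (nat_lit 0) (nat_lit 1896418450) (nat_lit 0) (nat_lit 1897200318) (nat_lit 152) (nat_lit 1896418450) (nat_lit 11) (nat_lit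 3) (nat_lit 11) (nat_lit 1) (nat_lit 13) (nat_lit 1) (nat_lit 398) (nat_lit 433) (nat_lit 189)) (XT.nd (nat_lit 78) (nat_lit 152) (nat_lit 0) (XT.lf (nat_lit 76) (nat_lit 1865590850) (nat_lit 0) (nat_lit 1866335487) (nat_lit 76) (nat_lit 1866335487) (nat_lit 11) (nat_lit 3) (nat_lit 10) (nat_lit 1) (nat_lit 11) (nat_lit 1) (nat_lit 399) (nat_lit 433) (nat_lit 188)) (XT.lf (nat_lit 152) (nat_lit 5508942065) (nat_lit 0) (nat_lit 228767) (nat_lit 76) (nat_lit 228767) (nat_lit 10) (nat_lit 1) (nat_lit 8) (nat_lit 1) (nat_lit 9) (nat_lit 1) (nat_lit 400) (nat_lit 433) (nat_lit 187)))) (XT.nd (nat_lit 156) (nat_lit 152) (nat_lit 0) (XT.nd (nat_lit 78) (nat_lit 76) (nat_lit 0) (XT.lf (nat_lit 0) (nat_lit 1806146052) (nat_lit 0) (nat_lit 1806789297) (nat_lit 152) (nat_lit 1806146052) (nat_lit 8) (nat_lit 3) (nat_lit 8) (nat_lit 1) (nat_lit 10) (nat_lit 1) (nat_lit 401) (nat_lit 433) (nat_lit 186)) (XT.lf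 (nat_lit 76) (nat_lit 1776817047) (nat_lit 0) (nat_lit 1777429661) (nat_lit 76) (nat_lit 1777429661) (nat_lit 8) (nat_lit 3) (nat_lit 7) (nat_lit 1) (nat_lit 8) (nat_lit 1) (nat_lit 402) (nat_lit 433) (nat_lit 185))) (XT.nd (nat_lit 78) (nat_lit 0) (nat_lit 0) (XT.lf (nat_lit 152) (nat_lit 5246669410) (nat_lit 0) (nat_lit 188207) (nat_lit 76) (nat_lit 188207) (nat_lit 7) (nat_lit 1) (nat_lit 5) (nat_lit 1) (nat_lit 6) (nat_lit 1) (nat_lit 403) (nat_lit 433) (nat_lit 184)) (XT.lf (nat_lit 0) (nat_lit 1720166447) (nat_lit 0) (nat_lit 1720695646) (nat_lit 152) (nat_lit 1720166447) (nat_lit 5) (nat_lit 3) (nat_lit 5) (nat_lit 1) (nat_lit 7) (nat_lit 1) (nat_lit 404) (nat_lit 433) (nat_lit 183))))))) (XT.nd (nat_lit 936) (nat_lit 0) (nat_lit 0) (XT.nd (nat_lit 468) (nat_lit 0) (nat_lit 0) (XT.nd (nat_lit 234) (nat_lit 152) (nat_lit 0) (XT.nd (nat_lit 78) (nat_lit 152) (nat_lit 0) (XT.lf (nat_lit 76)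 (nat_lit 1692259246) (nat_lit 0) (nat_lit 1692763245) (nat_lit 76) (nat_lit 1692763245) (nat_lit 5) (nat_lit 3) (nat_lit 4) (nat_lit 1) (nat_lit 5) (nat_lit 1) (nat_lit 405) (nat_lit 433) (nat_lit 182)) (XT.nd (nat_lit 78) (nat_lit 0) (nat_lit 0) (XT.lf (nat_lit 152) (nat_lit 4996875660) (nat_lit 0) (nat_lit 154838) (nat_lit 76) (nat_lit 154838) (nat_lit 4) (nat_lit 1) (nat_lit 2) (nat_lit 1) (nat_lit 3) (nat_lit 1) (nat_lit 406) (nat_lit 433) (nat_lit 181)) (XT.lf (nat_lit 0) (nat_lit 1638276259) (nat_lit 0) (nat_lit 1638711633) (nat_lit 152) (nat_lit 1638276259) (nat_lit 2) (nat_lit 3) (nat_lit 2) (nat_lit 1) (nat_lit 4) (nat_lit 1) (nat_lit 407) (nat_lit 433) (nat_lit 180)))) (XT.nd (nat_lit 78) (nat_lit 76) (nat_lit 0) (XT.lf (nat_lit 76) (nat_lit 1611718693) (nat_lit 0) (nat_lit 1612133334) (nat_lit 76) (nat_lit 1612133334) (nat_lit 2) (nat_lit 3) (nat_lit 1) (nat_lit 1) (nat_lit 2) (nat_lit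 1) (nat_lit 408) (nat_lit 433) (nat_lit 179)) (XT.nd (nat_lit 78) (nat_lit 0) (nat_lit 0) (XT.lf (nat_lit 0) (nat_lit 100347463539) (nat_lit 0) (nat_lit 0) (nat_lit 0) (nat_lit 0) (nat_lit 0) (nat_lit 0) (nat_lit 1) (nat_lit 0) (nat_lit 1) (nat_lit 0) (nat_lit 409) (nat_lit 433) (nat_lit 178)) (XT.lf (nat_lit 0) (nat_lit 100347444659) (nat_lit 0) (nat_lit 0) (nat_lit 0) (nat_lit 0) (nat_lit 0) (nat_lit 0) (nat_lit 1) (nat_lit 0) (nat_lit 1) (nat_lit 0) (nat_lit 410) (nat_lit 433) (nat_lit 177))))) (XT.nd (nat_lit 234) (nat_lit 0) (nat_lit 0) (XT.nd (nat_lit 78) (nat_lit 0) (nat_lit 0) (XT.lf (nat_lit 0) (nat_lit 100347426677) (nat_lit 0) (nat_lit 0) (nat_lit 0) (nat_lit 0) (nat_lit 0) (nat_lit 0) (nat_lit 1) (nat_lit 0) (nat_lit 1) (nat_lit 0) (nat_lit 411) (nat_lit 433) (nat_lit 176)) (XT.nd (nat_lit 78) (nat_lit 0) (nat_lit 0) (XT.lf (nat_lit 0) (nat_lit 100347409552) (nat_lit 0) (nat_lit 0)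 (nat_lit 0) (nat_lit 0) (nat_lit 0) (nat_lit 0) (nat_lit 1) (nat_lit 0) (nat_lit 1) (nat_lit 0) (nat_lit 412) (nat_lit 433) (nat_lit 175)) (XT.lf (nat_lit 0) (nat_lit 100347393243) (nat_lit 0) (nat_lit 0) (nat_lit 0) (nat_lit 0) (nat_lit 0) (nat_lit 0) (nat_lit 1) (nat_lit 0) (nat_lit 1) (nat_lit 0) (nat_lit 413) (nat_lit 433) (nat_lit 174)))) (XT.nd (nat_lit 78) (nat_lit 0) (nat_lit 0) (XT.lf (nat_lit 0) (nat_lit 100347377710) (nat_lit 0) (nat_lit 0) (nat_lit 0) (nat_lit 0) (nat_lit 0) (nat_lit 0) (nat_lit 1) (nat_lit 0) (nat_lit 1) (nat_lit 0) (nat_lit 414) (nat_lit 433) (nat_lit 173)) (XT.nd (nat_lit 78) (nat_lit 0) (nat_lit 0) (XT.lf (nat_lit 0) (nat_lit 100347362916) (nat_lit 0) (nat_lit 0) (nat_lit 0) (nat_lit 0) (nat_lit 0) (nat_lit 0) (nat_lit 1) (nat_lit 0) (nat_lit 1) (nat_lit 0) (nat_lit 415) (nat_lit 433) (nat_lit 172)) (XT.lf (nat_lit 0) (nat_lit 100347348827) (nat_lit 0) (nat_lit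 0) (nat_lit 0) (nat_lit 0) (nat_lit 0) (nat_lit 0) (nat_lit 1) (nat_lit 0) (nat_lit 1) (nat_lit 0) (nat_lit 416) (nat_lit 433) (nat_lit 171)))))) (XT.nd (nat_lit 468) (nat_lit 0) (nat_lit 0) (XT.nd (nat_lit 234) (nat_lit 0) (nat_lit 0) (XT.nd (nat_lit 78) (nat_lit 0) (nat_lit 0) (XT.lf (nat_lit 0) (nat_lit 100347335409) (nat_lit 0) (nat_lit 0) (nat_lit 0) (nat_lit 0) (nat_lit 0) (nat_lit 0) (nat_lit 1) (nat_lit 0) (nat_lit 1) (nat_lit 0) (nat_lit 417) (nat_lit 433) (nat_lit 170)) (XT.nd (nat_lit 78) (nat_lit 0) (nat_lit 0) (XT.lf (nat_lit 0) (nat_lit 100347322630) (nat_lit 0) (nat_lit 0) (nat_lit 0) (nat_lit 0) (nat_lit 0) (nat_lit 0) (nat_lit 1) (nat_lit 0) (nat_lit 1) (nat_lit 0) (nat_lit 418) (nat_lit 433) (nat_lit 169)) (XT.lf (nat_lit 0) (nat_lit 100347310459) (nat_lit 0) (nat_lit 0) (nat_lit 0) (nat_lit 0) (nat_lit 0) (nat_lit 0) (nat_lit 1) (nat_lit 0) (nat_lit 1) (nat_lit 0) (nat_lit 419)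 (nat_lit 433) (nat_lit 168)))) (XT.nd (nat_lit 78) (nat_lit 0) (nat_lit 0) (XT.lf (nat_lit 0) (nat_lit 100347298868) (nat_lit 0) (nat_lit 0) (nat_lit 0) (nat_lit 0) (nat_lit 0) (nat_lit 0) (nat_lit 1) (nat_lit 0) (nat_lit 1) (nat_lit 0) (nat_lit 420) (nat_lit 433) (nat_lit 167)) (XT.nd (nat_lit 78) (nat_lit 0) (nat_lit 0) (XT.lf (nat_lit 0) (nat_lit 100347287829) (nat_lit 0) (nat_lit 0) (nat_lit 0) (nat_lit 0) (nat_lit 0) (nat_lit 0) (nat_lit 1) (nat_lit 0) (nat_lit 1) (nat_lit 0) (nat_lit 421) (nat_lit 433) (nat_lit 166)) (XT.lf (nat_lit 0) (nat_lit 100347277316) (nat_lit 0) (nat_lit 0) (nat_lit 0) (nat_lit 0) (nat_lit 0) (nat_lit 0) (nat_lit 1) (nat_lit 0) (nat_lit 1) (nat_lit 0) (nat_lit 422) (nat_lit 433) (nat_lit 165))))) (XT.nd (nat_lit 234) (nat_lit 0) (nat_lit 0) (XT.nd (nat_lit 78) (nat_lit 0) (nat_lit 0) (XT.lf (nat_lit 0) (nat_lit 100347267303) (nat_lit 0) (nat_lit 0) (nat_lit 0) (nat_lit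 0) (nat_lit 0) (nat_lit 0) (nat_lit 1) (nat_lit 0) (nat_lit 1) (nat_lit 0) (nat_lit 423) (nat_lit 433) (nat_lit 164)) (XT.nd (nat_lit 78) (nat_lit 0) (nat_lit 0) (XT.lf (nat_lit 0) (nat_lit 100347257767) (nat_lit 0) (nat_lit 0) (nat_lit 0) (nat_lit 0) (nat_lit 0) (nat_lit 0) (nat_lit 1) (nat_lit 0) (nat_lit 1) (nat_lit 0) (nat_lit 424) (nat_lit 433) (nat_lit 163)) (XT.lf (nat_lit 0) (nat_lit 100347248685) (nat_lit 0) (nat_lit 0) (nat_lit 0) (nat_lit 0) (nat_lit 0) (nat_lit 0) (nat_lit 1) (nat_lit 0) (nat_lit 1) (nat_lit 0) (nat_lit 425) (nat_lit 433) (nat_lit 162)))) (XT.nd (nat_lit 156) (nat_lit 0) (nat_lit 0) (XT.nd (nat_lit 78) (nat_lit 0) (nat_lit 0) (XT.lf (nat_lit 0) (nat_lit 100347240036) (nat_lit 0) (nat_lit 0) (nat_lit 0) (nat_lit 0) (nat_lit 0) (nat_lit 0) (nat_lit 1) (nat_lit 0) (nat_lit 1) (nat_lit 0) (nat_lit 426) (nat_lit 433) (nat_lit 161)) (XT.lf (nat_lit 0) (nat_lit 100347231799)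 (nat_lit 0) (nat_lit 0) (nat_lit 0) (nat_lit 0) (nat_lit 0) (nat_lit 0) (nat_lit 1) (nat_lit 0) (nat_lit 1) (nat_lit 0) (nat_lit 427) (nat_lit 433) (nat_lit 160))) (XT.nd (nat_lit 78) (nat_lit 0) (nat_lit 0) (XT.lf (nat_lit 0) (nat_lit 100347223953) (nat_lit 0) (nat_lit 0) (nat_lit 0) (nat_lit 0) (nat_lit 0) (nat_lit 0) (nat_lit 1) (nat_lit 0) (nat_lit 1) (nat_lit 0) (nat_lit 428) (nat_lit 433) (nat_lit 159)) (XT.lf (nat_lit 0) (nat_lit 100347216482) (nat_lit 0) (nat_lit 0) (nat_lit 0) (nat_lit 0) (nat_lit 0) (nat_lit 0) (nat_lit 1) (nat_lit 0) (nat_lit 1) (nat_lit 0) (nat_lit 429) (nat_lit 433) (nat_lit 158))))))))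
noncomputable def ec427 : XT := (XT.nd (nat_lit 32760) (nat_lit 0) (nat_lit 16644) (XT.nd (nat_lit 31746) (nat_lit 0) (nat_lit 20520) (XT.nd (nat_lit 468) (nat_lit 0) (nat_lit 0) (XT.nd (nat_lit 234) (nat_lit 0) (nat_lit 0) (XT.nd (nat_lit 78) (nat_lit 0) (nat_lit 0) (XT.lf (nat_lit 0) (nat_lit 100347209366) (nat_lit 0) (nat_lit 0) (nat_lit 0) (nat_lit 0) (nat_lit 0) (nat_lit 0) (nat_lit 1) (nat_lit 0) (nat_lit 1) (nat_lit 0) (nat_lit 430) (nat_lit 433) (nat_lit 157)) (XT.nd (nat_lit 78) (nat_lit 0) (nat_lit 0) (XT.lf (nat_lit 0) (nat_lit 100347202589) (nat_lit 0) (nat_lit 0) (nat_lit 0) (nat_lit 0) (nat_lit 0) (nat_lit 0) (nat_lit 1) (nat_lit 0) (nat_lit 1) (nat_lit 0) (nat_lit 431) (nat_lit 433) (nat_lit 156)) (XT.lf (nat_lit 0) (nat_lit 100347196134) (nat_lit 0) (nat_lit 0) (nat_lit 0) (nat_lit 0) (nat_lit 0) (nat_lit 0) (nat_lit 1) (nat_lit 0) (nat_lit 1) (nat_lit 0) (nat_lit 432) (nat_lit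 433) (nat_lit 155)))) (XT.nd (nat_lit 78) (nat_lit 0) (nat_lit 0) (XT.lf (nat_lit 0) (nat_lit 100347189988) (nat_lit 0) (nat_lit 0) (nat_lit 0) (nat_lit 0) (nat_lit 0) (nat_lit 0) (nat_lit 1) (nat_lit 0) (nat_lit 1) (nat_lit 0) (nat_lit 433) (nat_lit 433) (nat_lit 154)) (XT.nd (nat_lit 78) (nat_lit 0) (nat_lit 0) (XT.lf (nat_lit 0) (nat_lit 100347184133) (nat_lit 0) (nat_lit 0) (nat_lit 0) (nat_lit 0) (nat_lit 0) (nat_lit 0) (nat_lit 1) (nat_lit 0) (nat_lit 1) (nat_lit 0) (nat_lit 434) (nat_lit 433) (nat_lit 153)) (XT.lf (nat_lit 0) (nat_lit 100347178558) (nat_lit 0) (nat_lit 0) (nat_lit 0) (nat_lit 0) (nat_lit 0) (nat_lit 0) (nat_lit 1) (nat_lit 0) (nat_lit 1) (nat_lit 0) (nat_lit 435) (nat_lit 433) (nat_lit 152))))) (XT.nd (nat_lit 31044) (nat_lit 0) (nat_lit 22192) (XT.nd (nat_lit 78) (nat_lit 0) (nat_lit 0) (XT.lf (nat_lit 0) (nat_lit 100347173248) (nat_lit 0) (nat_lit 0) (nat_lit 0) (nat_lit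 0) (nat_lit 0) (nat_lit 0) (nat_lit 1) (nat_lit 0) (nat_lit 1) (nat_lit 0) (nat_lit 436) (nat_lit 433) (nat_lit 151)) (XT.nd (nat_lit 30888) (nat_lit 0) (nat_lit 22192) (XT.lf (nat_lit 0) (nat_lit 100347168191) (nat_lit 0) (nat_lit 0) (nat_lit 0) (nat_lit 0) (nat_lit 0) (nat_lit 0) (nat_lit 1) (nat_lit 0) (nat_lit 1) (nat_lit 0) (nat_lit 437) (nat_lit 433) (nat_lit 150)) (XT.lf (nat_lit 836) (nat_lit 52728302667) (nat_lit 0) (nat_lit 93618980184) (nat_lit 836) (nat_lit 52728302667) (nat_lit 303) (nat_lit 1) (nat_lit 292) (nat_lit 0) (nat_lit 303) (nat_lit 0) (nat_lit 152) (nat_lit 434) (nat_lit 434)))) (XT.nd (nat_lit 78) (nat_lit 0) (nat_lit 76) (XT.lf (nat_lit 836) (nat_lit 204381484006) (nat_lit 76) (nat_lit 92108996633) (nat_lit 0) (nat_lit 92108996633) (nat_lit 303) (nat_lit 1) (nat_lit 293) (nat_lit 1) (nat_lit 292) (nat_lit 0) (nat_lit 153) (nat_lit 434) (nat_lit 433)) (XT.nd (nat_lit 78)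 (nat_lit 0) (nat_lit 0) (XT.lf (nat_lit 836) (nat_lit 97405137907) (nat_lit 0) (nat_lit 184532801865) (nat_lit 760) (nat_lit 97405137907) (nat_lit 304) (nat_lit 1) (nat_lit 293) (nat_lit 1) (nat_lit 303) (nat_lit 1) (nat_lit 154) (nat_lit 434) (nat_lit 432)) (XT.lf (nat_lit 836) (nat_lit 182718503929) (nat_lit 76) (nat_lit 93833612414) (nat_lit 0) (nat_lit 93833612414) (nat_lit 304) (nat_lit 1) (nat_lit 294) (nat_lit 1) (nat_lit 293) (nat_lit 1) (nat_lit 155) (nat_lit 434) (nat_lit 431)))))) (XT.nd (nat_lit 468) (nat_lit 1824) (nat_lit 0) (XT.nd (nat_lit 234) (nat_lit 0) (nat_lit 76) (XT.nd (nat_lit 78) (nat_lit 0) (nat_lit 0) (XT.lf (nat_lit 836) (nat_lit 84103572697) (nat_lit 0) (nat_lit 193505137472) (nat_lit 760) (nat_lit 84103572697) (nat_lit 305) (nat_lit 1) (nat_lit 294) (nat_lit 1) (nat_lit 304) (nat_lit 1) (nat_lit 156) (nat_lit 434) (nat_lit 430)) (XT.nd (nat_lit 78) (nat_lit 0) (nat_lit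 76) (XT.lf (nat_lit 836) (nat_lit 151265753327) (nat_lit 76) (nat_lit 101018741710) (nat_lit 0) (nat_lit 101018741710) (nat_lit 305) (nat_lit 1) (nat_lit 295) (nat_lit 1) (nat_lit 294) (nat_lit 1) (nat_lit 157) (nat_lit 434) (nat_lit 429)) (XT.lf (nat_lit 836) (nat_lit 66325663884) (nat_lit 0) (nat_lit 212525209514) (nat_lit 760) (nat_lit 66325663884) (nat_lit 306) (nat_lit 1) (nat_lit 295) (nat_lit 1) (nat_lit 305) (nat_lit 1) (nat_lit 158) (nat_lit 434) (nat_lit 428)))) (XT.nd (nat_lit 78) (nat_lit 0) (nat_lit 76) (XT.lf (nat_lit 836) (nat_lit 111495477466) (nat_lit 76) (nat_lit 112889058115) (nat_lit 0) (nat_lit 112889058115) (nat_lit 306) (nat_lit 1) (nat_lit 296) (nat_lit 1) (nat_lit 295) (nat_lit 1) (nat_lit 159) (nat_lit 434) (nat_lit 427)) (XT.nd (nat_lit 78) (nat_lit 0) (nat_lit 0) (XT.lf (nat_lit 836) (nat_lit 44759626947) (nat_lit 0) (nat_lit 240140689021) (nat_lit 760) (nat_lit 44759626947)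 (nat_lit 307) (nat_lit 1) (nat_lit 296) (nat_lit 1) (nat_lit 306) (nat_lit 1) (nat_lit 160) (nat_lit 434) (nat_lit 426)) (XT.lf (nat_lit 836) (nat_lit 64716280241) (nat_lit 76) (nat_lit 128754063419) (nat_lit 0) (nat_lit 128754063419) (nat_lit 307) (nat_lit 1) (nat_lit 297) (nat_lit 1) (nat_lit 296) (nat_lit 1) (nat_lit 161) (nat_lit 434) (nat_lit 425))))) (XT.nd (nat_lit 234) (nat_lit 760) (nat_lit 0) (XT.nd (nat_lit 78) (nat_lit 1292) (nat_lit 0) (XT.lf (nat_lit 76) (nat_lit 20016738971) (nat_lit 0) (nat_lit 275058946311) (nat_lit 760) (nat_lit 20016738971) (nat_lit 298) (nat_lit 1) (nat_lit 297) (nat_lit 1) (nat_lit 307) (nat_lit 1) (nat_lit 162) (nat_lit 434) (nat_lit 424)) (XT.nd (nat_lit 78) (nat_lit 532) (nat_lit 0) (XT.lf (nat_lit 836) (nat_lit 12089612565) (nat_lit 0) (nat_lit 147999594151) (nat_lit 760) (nat_lit 147999594151) (nat_lit 298) (nat_lit 1) (nat_lit 287) (nat_lit 1) (nat_lit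 297) (nat_lit 1) (nat_lit 163) (nat_lit 434) (nat_lit 423)) (XT.lf (nat_lit 532) (nat_lit 286901731447) (nat_lit 0) (nat_lit 7242167407) (nat_lit 456) (nat_lit 7242167407) (nat_lit 287) (nat_lit 1) (nat_lit 280) (nat_lit 1) (nat_lit 286) (nat_lit 1) (nat_lit 164) (nat_lit 434) (nat_lit 422)))) (XT.nd (nat_lit 156) (nat_lit 380) (nat_lit 0) (XT.nd (nat_lit 78) (nat_lit 380) (nat_lit 0) (XT.lf (nat_lit 76) (nat_lit 125432937653) (nat_lit 0) (nat_lit 43903678956) (nat_lit 532) (nat_lit 125432937653) (nat_lit 281) (nat_lit 1) (nat_lit 280) (nat_lit 1) (nat_lit 287) (nat_lit 1) (nat_lit 165) (nat_lit 434) (nat_lit 421)) (XT.lf (nat_lit 456) (nat_lit 215837888463) (nat_lit 0) (nat_lit 36298252809) (nat_lit 380) (nat_lit 36298252809) (nat_lit 281) (nat_lit 1) (nat_lit 275) (nat_lit 1) (nat_lit 280) (nat_lit 1) (nat_lit 166) (nat_lit 434) (nat_lit 420))) (XT.nd (nat_lit 78) (nat_lit 380) (nat_lit 0) (XT.lf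 (nat_lit 76) (nat_lit 89469787475) (nat_lit 0) (nat_lit 103292841528) (nat_lit 456) (nat_lit 89469787475) (nat_lit 276) (nat_lit 1) (nat_lit 275) (nat_lit 1) (nat_lit 281) (nat_lit 1) (nat_lit 167) (nat_lit 434) (nat_lit 419)) (XT.lf (nat_lit 456) (nat_lit 142132310415) (nat_lit 0) (nat_lit 67057063374) (nat_lit 380) (nat_lit 67057063374) (nat_lit 276) (nat_lit 1) (nat_lit 270) (nat_lit 1) (nat_lit 275) (nat_lit 1) (nat_lit 168) (nat_lit 434) (nat_lit 418))))))) (XT.nd (nat_lit 1014) (nat_lit 1748) (nat_lit 0) (XT.nd (nat_lit 468) (nat_lit 1140) (nat_lit 0) (XT.nd (nat_lit 234) (nat_lit 684) (nat_lit 0) (XT.nd (nat_lit 78) (nat_lit 304) (nat_lit 0) (XT.lf (nat_lit 76) (nat_lit 52373867443) (nat_lit 0) (nat_lit 165686815411) (nat_lit 456) (nat_lit 52373867443) (nat_lit 271) (nat_lit 1) (nat_lit 270) (nat_lit 1) (nat_lit 276) (nat_lit 1) (nat_lit 169) (nat_lit 434) (nat_lit 417)) (XT.nd (nat_lit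 78) (nat_lit 0) (nat_lit 0) (XT.lf (nat_lit 380) (nat_lit 66471009249) (nat_lit 0) (nat_lit 99150577540) (nat_lit 304) (nat_lit 99150577540) (nat_lit 271) (nat_lit 1) (nat_lit 266) (nat_lit 1) (nat_lit 270) (nat_lit 1) (nat_lit 170) (nat_lit 434) (nat_lit 416)) (XT.lf (nat_lit 76) (nat_lit 14463648078) (nat_lit 0) (nat_lit 230400229696) (nat_lit 380) (nat_lit 14463648078) (nat_lit 267) (nat_lit 1) (nat_lit 266) (nat_lit 1) (nat_lit 271) (nat_lit 1) (nat_lit 171) (nat_lit 434) (nat_lit 415)))) (XT.nd (nat_lit 78) (nat_lit 304) (nat_lit 0) (XT.lf (nat_lit 76) (nat_lit 121874854839) (nat_lit 0) (nat_lit 10207255836) (nat_lit 380) (nat_lit 121874854839) (nat_lit 262) (nat_lit 1) (nat_lit 261) (nat_lit 1) (nat_lit 266) (nat_lit 1) (nat_lit 172) (nat_lit 434) (nat_lit 414)) (XT.nd (nat_lit 78) (nat_lit 0) (nat_lit 0) (XT.lf (nat_lit 380) (nat_lit 201600229770) (nat_lit 0) (nat_lit 23595349755) (nat_lit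 304) (nat_lit 23595349755) (nat_lit 262) (nat_lit 1) (nat_lit 257) (nat_lit 1) (nat_lit 261) (nat_lit 1) (nat_lit 173) (nat_lit 434) (nat_lit 413)) (XT.lf (nat_lit 76) (nat_lit 79076473076) (nat_lit 0) (nat_lit 85560571391) (nat_lit 380) (nat_lit 79076473076) (nat_lit 258) (nat_lit 1) (nat_lit 257) (nat_lit 1) (nat_lit 262) (nat_lit 1) (nat_lit 174) (nat_lit 434) (nat_lit 412))))) (XT.nd (nat_lit 234) (nat_lit 608) (nat_lit 0) (XT.nd (nat_lit 78) (nat_lit 228) (nat_lit 0) (XT.lf (nat_lit 380) (nat_lit 115394571586) (nat_lit 0) (nat_lit 61708800503) (nat_lit 304) (nat_lit 61708800503) (nat_lit 258) (nat_lit 1) (nat_lit 253) (nat_lit 1) (nat_lit 257) (nat_lit 1) (nat_lit 175) (nat_lit 434) (nat_lit 411)) (XT.nd (nat_lit 78) (nat_lit 228) (nat_lit 0) (XT.lf (nat_lit 76) (nat_lit 36390297903) (nat_lit 0) (nat_lit 161273547582) (nat_lit 380) (nat_lit 36390297903) (nat_lit 254) (nat_lit 1) (nat_lit 253)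 (nat_lit 1) (nat_lit 258) (nat_lit 1) (nat_lit 176) (nat_lit 434) (nat_lit 410)) (XT.lf (nat_lit 304) (nat_lit 29594670716) (nat_lit 0) (nat_lit 99902075137) (nat_lit 228) (nat_lit 99902075137) (nat_lit 254) (nat_lit 1) (nat_lit 250) (nat_lit 1) (nat_lit 253) (nat_lit 1) (nat_lit 177) (nat_lit 434) (nat_lit 409)))) (XT.nd (nat_lit 156) (nat_lit 228) (nat_lit 0) (XT.nd (nat_lit 78) (nat_lit 0) (nat_lit 0) (XT.lf (nat_lit 380) (nat_lit 213097082138) (nat_lit 0) (nat_lit 5913035140) (nat_lit 304) (nat_lit 5913035140) (nat_lit 250) (nat_lit 1) (nat_lit 245) (nat_lit 1) (nat_lit 249) (nat_lit 1) (nat_lit 178) (nat_lit 434) (nat_lit 408)) (XT.lf (nat_lit 76) (nat_lit 83386463640) (nat_lit 0) (nat_lit 53699328854) (nat_lit 380) (nat_lit 83386463640) (nat_lit 246) (nat_lit 1) (nat_lit 245) (nat_lit 1) (nat_lit 250) (nat_lit 1) (nat_lit 179) (nat_lit 434) (nat_lit 407))) (XT.nd (nat_lit 78) (nat_lit 0)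 (nat_lit 0) (XT.lf (nat_lit 304) (nat_lit 121788566352) (nat_lit 0) (nat_lit 47201748608) (nat_lit 228) (nat_lit 47201748608) (nat_lit 246) (nat_lit 1) (nat_lit 242) (nat_lit 1) (nat_lit 245) (nat_lit 1) (nat_lit 180) (nat_lit 434) (nat_lit 406)) (XT.lf (nat_lit 76) (nat_lit 38474891987) (nat_lit 0) (nat_lit 135070832680) (nat_lit 304) (nat_lit 38474891987) (nat_lit 243) (nat_lit 1) (nat_lit 242) (nat_lit 1) (nat_lit 246) (nat_lit 1) (nat_lit 181) (nat_lit 434) (nat_lit 405)))))) (XT.nd (nat_lit 468) (nat_lit 836) (nat_lit 0) (XT.nd (nat_lit 234) (nat_lit 380) (nat_lit 0) (XT.nd (nat_lit 78) (nat_lit 304) (nat_lit 0) (XT.lf (nat_lit 304) (nat_lit 32067619892) (nat_lit 0) (nat_lit 87938224569) (nat_lit 228) (nat_lit 87938224569) (nat_lit 243) (nat_lit 1) (nat_lit 239) (nat_lit 1) (nat_lit 242) (nat_lit 1) (nat_lit 182) (nat_lit 434) (nat_lit 404)) (XT.nd (nat_lit 78) (nat_lit 0) (nat_lit 0) (XT.lf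 (nat_lit 304) (nat_lit 192996666857) (nat_lit 0) (nat_lit 5511151733) (nat_lit 228) (nat_lit 5511151733) (nat_lit 239) (nat_lit 1) (nat_lit 235) (nat_lit 1) (nat_lit 238) (nat_lit 1) (nat_lit 183) (nat_lit 434) (nat_lit 403)) (XT.lf (nat_lit 76) (nat_lit 73005111995) (nat_lit 0) (nat_lit 54096054936) (nat_lit 304) (nat_lit 73005111995) (nat_lit 236) (nat_lit 1) (nat_lit 235) (nat_lit 1) (nat_lit 239) (nat_lit 1) (nat_lit 184) (nat_lit 434) (nat_lit 402)))) (XT.nd (nat_lit 78) (nat_lit 152) (nat_lit 0) (XT.lf (nat_lit 304) (nat_lit 100388713771) (nat_lit 0) (nat_lit 47974821984) (nat_lit 228) (nat_lit 47974821984) (nat_lit 236) (nat_lit 1) (nat_lit 232) (nat_lit 1) (nat_lit 235) (nat_lit 1) (nat_lit 185) (nat_lit 434) (nat_lit 401)) (XT.nd (nat_lit 78) (nat_lit 152) (nat_lit 0) (XT.lf (nat_lit 76) (nat_lit 27646969899) (nat_lit 0) (nat_lit 137377554113) (nat_lit 304) (nat_lit 27646969899) (nat_lit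 233) (nat_lit 1) (nat_lit 232) (nat_lit 1) (nat_lit 236) (nat_lit 1) (nat_lit 186) (nat_lit 434) (nat_lit 400)) (XT.lf (nat_lit 228) (nat_lit 10130769014) (nat_lit 0) (nat_lit 89471480459) (nat_lit 152) (nat_lit 89471480459) (nat_lit 233) (nat_lit 1) (nat_lit 230) (nat_lit 1) (nat_lit 232) (nat_lit 1) (nat_lit 187) (nat_lit 434) (nat_lit 399))))) (XT.nd (nat_lit 234) (nat_lit 380) (nat_lit 0) (XT.nd (nat_lit 78) (nat_lit 152) (nat_lit 0) (XT.lf (nat_lit 304) (nat_lit 153072522808) (nat_lit 0) (nat_lit 16257411443) (nat_lit 228) (nat_lit 16257411443) (nat_lit 230) (nat_lit 1) (nat_lit 226) (nat_lit 1) (nat_lit 229) (nat_lit 1) (nat_lit 188) (nat_lit 434) (nat_lit 398)) (XT.nd (nat_lit 78) (nat_lit 152) (nat_lit 0) (XT.lf (nat_lit 76) (nat_lit 53464598713) (nat_lit 0) (nat_lit 75210755882) (nat_lit 304) (nat_lit 53464598713) (nat_lit 227) (nat_lit 1) (nat_lit 226) (nat_lit 1) (nat_lit 230) (nat_lit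 1) (nat_lit 189) (nat_lit 434) (nat_lit 397)) (XT.lf (nat_lit 228) (nat_lit 61770096547) (nat_lit 0) (nat_lit 58514430180) (nat_lit 152) (nat_lit 58514430180) (nat_lit 227) (nat_lit 1) (nat_lit 224) (nat_lit 1) (nat_lit 226) (nat_lit 1) (nat_lit 190) (nat_lit 434) (nat_lit 396)))) (XT.nd (nat_lit 156) (nat_lit 152) (nat_lit 0) (XT.nd (nat_lit 78) (nat_lit 228) (nat_lit 0) (XT.lf (nat_lit 76) (nat_lit 8874402254) (nat_lit 0) (nat_lit 157820030850) (nat_lit 228) (nat_lit 8874402254) (nat_lit 225) (nat_lit 1) (nat_lit 224) (nat_lit 1) (nat_lit 227) (nat_lit 1) (nat_lit 191) (nat_lit 434) (nat_lit 395)) (XT.lf (nat_lit 76) (nat_lit 73241998777) (nat_lit 0) (nat_lit 25866457978) (nat_lit 228) (nat_lit 73241998777) (nat_lit 222) (nat_lit 1) (nat_lit 221) (nat_lit 1) (nat_lit 224) (nat_lit 1) (nat_lit 192) (nat_lit 434) (nat_lit 394))) (XT.nd (nat_lit 78) (nat_lit 0) (nat_lit 0) (XT.lf (nat_lit 228) (nat_lit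 101709352066) (nat_lit 0) (nat_lit 33764749171) (nat_lit 152) (nat_lit 33764749171) (nat_lit 222) (nat_lit 1) (nat_lit 219) (nat_lit 1) (nat_lit 221) (nat_lit 1) (nat_lit 193) (nat_lit 434) (nat_lit 393)) (XT.lf (nat_lit 76) (nat_lit 28699733063) (nat_lit 0) (nat_lit 108796552430) (nat_lit 228) (nat_lit 28699733063) (nat_lit 220) (nat_lit 1) (nat_lit 219) (nat_lit 1) (nat_lit 222) (nat_lit 1) (nat_lit 194) (nat_lit 434) (nat_lit 392))))))))
noncomputable def ec428 : XT := (XT.nd (nat_lit 1950) (nat_lit 1900) (nat_lit 0) (XT.nd (nat_lit 936) (nat_lit 1140) (nat_lit 0) (XT.nd (nat_lit 468) (nat_lit 532) (nat_lit 0) (XT.nd (nat_lit 234) (nat_lit 304) (nat_lit 0) (XT.nd (nat_lit 78) (nat_lit 228) (nat_lit 0) (XT.lf (nat_lit 228) (nat_lit 13444791653) (nat_lit 0) (nat_lit 74884865353) (nat_lit 152) (nat_lit 74884865353) (nat_lit 220) (nat_lit 1) (nat_lit 217) (nat_lit 1) (nat_lit 219) (nat_lit 1) (nat_lit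 195) (nat_lit 434) (nat_lit 391)) (XT.nd (nat_lit 78) (nat_lit 0) (nat_lit 0) (XT.lf (nat_lit 228) (nat_lit 132144098292) (nat_lit 0) (nat_lit 14087659514) (nat_lit 152) (nat_lit 14087659514) (nat_lit 217) (nat_lit 1) (nat_lit 214) (nat_lit 1) (nat_lit 216) (nat_lit 1) (nat_lit 196) (nat_lit 434) (nat_lit 390)) (XT.lf (nat_lit 76) (nat_lit 43991094147) (nat_lit 0) (nat_lit 69466833389) (nat_lit 228) (nat_lit 43991094147) (nat_lit 215) (nat_lit 1) (nat_lit 214) (nat_lit 1) (nat_lit 217) (nat_lit 1) (nat_lit 197) (nat_lit 434) (nat_lit 389)))) (XT.nd (nat_lit 78) (nat_lit 152) (nat_lit 0) (XT.lf (nat_lit 228) (nat_lit 44802793597) (nat_lit 0) (nat_lit 54929582007) (nat_lit 152) (nat_lit 54929582007) (nat_lit 215) (nat_lit 1) (nat_lit 212) (nat_lit 1) (nat_lit 214) (nat_lit 1) (nat_lit 198) (nat_lit 434) (nat_lit 388)) (XT.nd (nat_lit 78) (nat_lit 152) (nat_lit 0) (XT.lf (nat_lit 76) (nat_lit 1472544262)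 (nat_lit 0) (nat_lit 149027547492) (nat_lit 228) (nat_lit 1472544262) (nat_lit 213) (nat_lit 1) (nat_lit 212) (nat_lit 1) (nat_lit 215) (nat_lit 1) (nat_lit 199) (nat_lit 434) (nat_lit 387)) (XT.lf (nat_lit 76) (nat_lit 55600870338) (nat_lit 0) (nat_lit 38064479036) (nat_lit 152) (nat_lit 55600870338) (nat_lit 211) (nat_lit 1) (nat_lit 210) (nat_lit 1) (nat_lit 212) (nat_lit 1) (nat_lit 200) (nat_lit 434) (nat_lit 386))))) (XT.nd (nat_lit 234) (nat_lit 228) (nat_lit 0) (XT.nd (nat_lit 78) (nat_lit 152) (nat_lit 0) (XT.lf (nat_lit 228) (nat_lit 68994350342) (nat_lit 0) (nat_lit 38830339205) (nat_lit 152) (nat_lit 38830339205) (nat_lit 211) (nat_lit 1) (nat_lit 208) (nat_lit 1) (nat_lit 210) (nat_lit 1) (nat_lit 201) (nat_lit 434) (nat_lit 385)) (XT.nd (nat_lit 78) (nat_lit 152) (nat_lit 0) (XT.lf (nat_lit 76) (nat_lit 13832890406) (nat_lit 0) (nat_lit 116448539647) (nat_lit 228) (nat_lit 13832890406)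 (nat_lit 209) (nat_lit 1) (nat_lit 208) (nat_lit 1) (nat_lit 211) (nat_lit 1) (nat_lit 202) (nat_lit 434) (nat_lit 384)) (XT.lf (nat_lit 76) (nat_lit 64228010118) (nat_lit 0) (nat_lit 13138544239) (nat_lit 152) (nat_lit 64228010118) (nat_lit 207) (nat_lit 1) (nat_lit 206) (nat_lit 1) (nat_lit 208) (nat_lit 1) (nat_lit 203) (nat_lit 434) (nat_lit 383)))) (XT.nd (nat_lit 78) (nat_lit 76) (nat_lit 0) (XT.lf (nat_lit 228) (nat_lit 87366566746) (nat_lit 0) (nat_lit 25888326779) (nat_lit 152) (nat_lit 25888326779) (nat_lit 207) (nat_lit 1) (nat_lit 204) (nat_lit 1) (nat_lit 206) (nat_lit 1) (nat_lit 204) (nat_lit 434) (nat_lit 382)) (XT.nd (nat_lit 78) (nat_lit 76) (nat_lit 0) (XT.lf (nat_lit 76) (nat_lit 23400757550) (nat_lit 0) (nat_lit 89938889861) (nat_lit 228) (nat_lit 23400757550) (nat_lit 205) (nat_lit 1) (nat_lit 204) (nat_lit 1) (nat_lit 207) (nat_lit 1) (nat_lit 205) (nat_lit 434) (nat_lit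 381)) (XT.lf (nat_lit 152) (nat_lit 6717505323) (nat_lit 0) (nat_lit 63832713292) (nat_lit 76) (nat_lit 63832713292) (nat_lit 205) (nat_lit 1) (nat_lit 203) (nat_lit 1) (nat_lit 204) (nat_lit 1) (nat_lit 206) (nat_lit 434) (nat_lit 380)))))) (XT.nd (nat_lit 468) (nat_lit 532) (nat_lit 0) (XT.nd (nat_lit 234) (nat_lit 304) (nat_lit 0) (XT.nd (nat_lit 78) (nat_lit 76) (nat_lit 0) (XT.lf (nat_lit 228) (nat_lit 101024065889) (nat_lit 0) (nat_lit 15529353002) (nat_lit 152) (nat_lit 15529353002) (nat_lit 203) (nat_lit 1) (nat_lit 200) (nat_lit 1) (nat_lit 202) (nat_lit 1) (nat_lit 207) (nat_lit 434) (nat_lit 379)) (XT.nd (nat_lit 78) (nat_lit 76) (nat_lit 0) (XT.lf (nat_lit 76) (nat_lit 30699865318) (nat_lit 0) (nat_lit 68408554991) (nat_lit 228) (nat_lit 30699865318) (nat_lit 201) (nat_lit 1) (nat_lit 200) (nat_lit 1) (nat_lit 203) (nat_lit 1) (nat_lit 208) (nat_lit 434) (nat_lit 378)) (XT.lf (nat_lit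 152) (nat_lit 22558904702) (nat_lit 0) (nat_lit 52515331198) (nat_lit 76) (nat_lit 52515331198) (nat_lit 201) (nat_lit 1) (nat_lit 199) (nat_lit 1) (nat_lit 200) (nat_lit 1) (nat_lit 209) (nat_lit 434) (nat_lit 377)))) (XT.nd (nat_lit 78) (nat_lit 76) (nat_lit 0) (XT.lf (nat_lit 228) (nat_lit 110872153985) (nat_lit 0) (nat_lit 7281715712) (nat_lit 152) (nat_lit 7281715712) (nat_lit 199) (nat_lit 1) (nat_lit 196) (nat_lit 1) (nat_lit 198) (nat_lit 1) (nat_lit 210) (nat_lit 434) (nat_lit 376)) (XT.nd (nat_lit 78) (nat_lit 76) (nat_lit 0) (XT.lf (nat_lit 76) (nat_lit 36159716288) (nat_lit 0) (nat_lit 50961418651) (nat_lit 228) (nat_lit 36159716288) (nat_lit 197) (nat_lit 1) (nat_lit 196) (nat_lit 1) (nat_lit 199) (nat_lit 1) (nat_lit 211) (nat_lit 434) (nat_lit 375)) (XT.lf (nat_lit 152) (nat_lit 34780596678) (nat_lit 0) (nat_lit 43204492941) (nat_lit 76) (nat_lit 43204492941) (nat_lit 197) (nat_lit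 1) (nat_lit 195) (nat_lit 1) (nat_lit 196) (nat_lit 1) (nat_lit 212) (nat_lit 434) (nat_lit 374))))) (XT.nd (nat_lit 234) (nat_lit 228) (nat_lit 0) (XT.nd (nat_lit 78) (nat_lit 76) (nat_lit 0) (XT.lf (nat_lit 228) (nat_lit 117652324007) (nat_lit 0) (nat_lit 757998456) (nat_lit 152) (nat_lit 757998456) (nat_lit 195) (nat_lit 1) (nat_lit 192) (nat_lit 1) (nat_lit 194) (nat_lit 1) (nat_lit 213) (nat_lit 434) (nat_lit 373)) (XT.nd (nat_lit 78) (nat_lit 76) (nat_lit 0) (XT.lf (nat_lit 76) (nat_lit 40132365330) (nat_lit 0) (nat_lit 36860876827) (nat_lit 228) (nat_lit 40132365330) (nat_lit 193) (nat_lit 1) (nat_lit 192) (nat_lit 1) (nat_lit 195) (nat_lit 1) (nat_lit 214) (nat_lit 434) (nat_lit 372)) (XT.lf (nat_lit 152) (nat_lit 44062968630) (nat_lit 0) (nat_lit 35544443264) (nat_lit 76) (nat_lit 35544443264) (nat_lit 193) (nat_lit 1) (nat_lit 191) (nat_lit 1) (nat_lit 192) (nat_lit 1) (nat_lit 215) (nat_lit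 434) (nat_lit 371)))) (XT.nd (nat_lit 156) (nat_lit 76) (nat_lit 0) (XT.nd (nat_lit 78) (nat_lit 152) (nat_lit 0) (XT.lf (nat_lit 0) (nat_lit 4431378140) (nat_lit 0) (nat_lit 104374937434) (nat_lit 152) (nat_lit 4431378140) (nat_lit 191) (nat_lit 3) (nat_lit 191) (nat_lit 1) (nat_lit 193) (nat_lit 1) (nat_lit 216) (nat_lit 434) (nat_lit 370)) (XT.lf (nat_lit 76) (nat_lit 42906212706) (nat_lit 0) (nat_lit 25501526574) (nat_lit 152) (nat_lit 42906212706) (nat_lit 190) (nat_lit 1) (nat_lit 189) (nat_lit 1) (nat_lit 191) (nat_lit 1) (nat_lit 217) (nat_lit 434) (nat_lit 369))) (XT.nd (nat_lit 78) (nat_lit 0) (nat_lit 0) (XT.lf (nat_lit 152) (nat_lit 50963937784) (nat_lit 0) (nat_lit 29242501439) (nat_lit 76) (nat_lit 29242501439) (nat_lit 190) (nat_lit 1) (nat_lit 188) (nat_lit 1) (nat_lit 189) (nat_lit 1) (nat_lit 218) (nat_lit 434) (nat_lit 368)) (XT.lf (nat_lit 0) (nat_lit 8469713778) (nat_lit 0)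 (nat_lit 90693527348) (nat_lit 152) (nat_lit 8469713778) (nat_lit 188) (nat_lit 3) (nat_lit 188) (nat_lit 1) (nat_lit 190) (nat_lit 1) (nat_lit 219) (nat_lit 434) (nat_lit 367))))))) (XT.nd (nat_lit 936) (nat_lit 988) (nat_lit 0) (XT.nd (nat_lit 468) (nat_lit 456) (nat_lit 0) (XT.nd (nat_lit 234) (nat_lit 228) (nat_lit 0) (XT.nd (nat_lit 78) (nat_lit 76) (nat_lit 0) (XT.lf (nat_lit 76) (nat_lit 44717348740) (nat_lit 0) (nat_lit 16385875676) (nat_lit 152) (nat_lit 44717348740) (nat_lit 187) (nat_lit 1) (nat_lit 186) (nat_lit 1) (nat_lit 188) (nat_lit 1) (nat_lit 220) (nat_lit 434) (nat_lit 366)) (XT.nd (nat_lit 78) (nat_lit 0) (nat_lit 0) (XT.lf (nat_lit 152) (nat_lit 55940752449) (nat_lit 0) (nat_lit 24057878303) (nat_lit 76) (nat_lit 24057878303) (nat_lit 187) (nat_lit 1) (nat_lit 185) (nat_lit 1) (nat_lit 186) (nat_lit 1) (nat_lit 221) (nat_lit 434) (nat_lit 365)) (XT.lf (nat_lit 0) (nat_lit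 11562347833) (nat_lit 0) (nat_lit 79208082744) (nat_lit 152) (nat_lit 11562347833) (nat_lit 185) (nat_lit 3) (nat_lit 185) (nat_lit 1) (nat_lit 187) (nat_lit 1) (nat_lit 222) (nat_lit 434) (nat_lit 364)))) (XT.nd (nat_lit 78) (nat_lit 76) (nat_lit 0) (XT.lf (nat_lit 76) (nat_lit 45758884296) (nat_lit 0) (nat_lit 9105182996) (nat_lit 152) (nat_lit 45758884296) (nat_lit 184) (nat_lit 1) (nat_lit 183) (nat_lit 1) (nat_lit 185) (nat_lit 1) (nat_lit 223) (nat_lit 434) (nat_lit 363)) (XT.nd (nat_lit 78) (nat_lit 0) (nat_lit 0) (XT.lf (nat_lit 152) (nat_lit 59367923777) (nat_lit 0) (nat_lit 19792476018) (nat_lit 76) (nat_lit 19792476018) (nat_lit 184) (nat_lit 1) (nat_lit 182) (nat_lit 1) (nat_lit 183) (nat_lit 1) (nat_lit 224) (nat_lit 434) (nat_lit 362)) (XT.lf (nat_lit 0) (nat_lit 13887889650) (nat_lit 0) (nat_lit 69540203171) (nat_lit 152) (nat_lit 13887889650) (nat_lit 182) (nat_lit 3) (nat_lit 182)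 (nat_lit 1) (nat_lit 184) (nat_lit 1) (nat_lit 225) (nat_lit 434) (nat_lit 361))))) (XT.nd (nat_lit 234) (nat_lit 228) (nat_lit 0) (XT.nd (nat_lit 78) (nat_lit 76) (nat_lit 0) (XT.lf (nat_lit 76) (nat_lit 46188624326) (nat_lit 0) (nat_lit 3323697085) (nat_lit 152) (nat_lit 46188624326) (nat_lit 181) (nat_lit 1) (nat_lit 180) (nat_lit 1) (nat_lit 182) (nat_lit 1) (nat_lit 226) (nat_lit 434) (nat_lit 360)) (XT.nd (nat_lit 78) (nat_lit 0) (nat_lit 0) (XT.lf (nat_lit 152) (nat_lit 61551974286) (nat_lit 0) (nat_lit 16283319002) (nat_lit 76) (nat_lit 16283319002) (nat_lit 181) (nat_lit 1) (nat_lit 179) (nat_lit 1) (nat_lit 180) (nat_lit 1) (nat_lit 227) (nat_lit 434) (nat_lit 359)) (XT.lf (nat_lit 0) (nat_lit 15592760684) (nat_lit 0) (nat_lit 61378056745) (nat_lit 152) (nat_lit 15592760684) (nat_lit 179) (nat_lit 3) (nat_lit 179) (nat_lit 1) (nat_lit 181) (nat_lit 1) (nat_lit 228) (nat_lit 434) (nat_lit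 358)))) (XT.nd (nat_lit 78) (nat_lit 152) (nat_lit 0) (XT.lf (nat_lit 76) (nat_lit 1275121361) (nat_lit 0) (nat_lit 44880165228) (nat_lit 76) (nat_lit 44880165228) (nat_lit 179) (nat_lit 3) (nat_lit 178) (nat_lit 1) (nat_lit 179) (nat_lit 1) (nat_lit 229) (nat_lit 434) (nat_lit 357)) (XT.nd (nat_lit 78) (nat_lit 0) (nat_lit 0) (XT.lf (nat_lit 152) (nat_lit 62743567737) (nat_lit 0) (nat_lit 13396326841) (nat_lit 76) (nat_lit 13396326841) (nat_lit 178) (nat_lit 1) (nat_lit 176) (nat_lit 1) (nat_lit 177) (nat_lit 1) (nat_lit 230) (nat_lit 434) (nat_lit 356)) (XT.lf (nat_lit 0) (nat_lit 16796926136) (nat_lit 0) (nat_lit 54464602514) (nat_lit 152) (nat_lit 16796926136) (nat_lit 176) (nat_lit 3) (nat_lit 176) (nat_lit 1) (nat_lit 178) (nat_lit 1) (nat_lit 231) (nat_lit 434) (nat_lit 355)))))) (XT.nd (nat_lit 468) (nat_lit 532) (nat_lit 0) (XT.nd (nat_lit 234) (nat_lit 228) (nat_lit 0) (XT.nd (nat_lit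 78) (nat_lit 152) (nat_lit 0) (XT.lf (nat_lit 76) (nat_lit 4953757165) (nat_lit 0) (nat_lit 40827734668) (nat_lit 76) (nat_lit 40827734668) (nat_lit 176) (nat_lit 3) (nat_lit 175) (nat_lit 1) (nat_lit 176) (nat_lit 1) (nat_lit 232) (nat_lit 434) (nat_lit 354)) (XT.nd (nat_lit 78) (nat_lit 0) (nat_lit 0) (XT.lf (nat_lit 152) (nat_lit 63147484800) (nat_lit 0) (nat_lit 11021191245) (nat_lit 76) (nat_lit 11021191245) (nat_lit 175) (nat_lit 1) (nat_lit 173) (nat_lit 1) (nat_lit 174) (nat_lit 1) (nat_lit 233) (nat_lit 434) (nat_lit 353)) (XT.lf (nat_lit 0) (nat_lit 17598609207) (nat_lit 0) (nat_lit 48587899784) (nat_lit 152) (nat_lit 17598609207) (nat_lit 173) (nat_lit 3) (nat_lit 173) (nat_lit 1) (nat_lit 175) (nat_lit 1) (nat_lit 234) (nat_lit 434) (nat_lit 352)))) (XT.nd (nat_lit 78) (nat_lit 152) (nat_lit 0) (XT.lf (nat_lit 76) (nat_lit 7794241294) (nat_lit 0) (nat_lit 37307851366) (nat_lit 76) (nat_lit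 37307851366) (nat_lit 173) (nat_lit 3) (nat_lit 172) (nat_lit 1) (nat_lit 173) (nat_lit 1) (nat_lit 235) (nat_lit 434) (nat_lit 351)) (XT.nd (nat_lit 78) (nat_lit 0) (nat_lit 0) (XT.lf (nat_lit 152) (nat_lit 62930826637) (nat_lit 0) (nat_lit 9067161312) (nat_lit 76) (nat_lit 9067161312) (nat_lit 172) (nat_lit 1) (nat_lit 170) (nat_lit 1) (nat_lit 171) (nat_lit 1) (nat_lit 236) (nat_lit 434) (nat_lit 350)) (XT.lf (nat_lit 0) (nat_lit 18078168402) (nat_lit 0) (nat_lit 43573134451) (nat_lit 152) (nat_lit 18078168402) (nat_lit 170) (nat_lit 3) (nat_lit 170) (nat_lit 1) (nat_lit 172) (nat_lit 1) (nat_lit 237) (nat_lit 434) (nat_lit 349))))) (XT.nd (nat_lit 234) (nat_lit 304) (nat_lit 0) (XT.nd (nat_lit 78) (nat_lit 152) (nat_lit 0) (XT.lf (nat_lit 76) (nat_lit 9954030187) (nat_lit 0) (nat_lit 34234950234) (nat_lit 76) (nat_lit 34234950234) (nat_lit 170) (nat_lit 3) (nat_lit 169) (nat_lit 1) (nat_lit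 170) (nat_lit 1) (nat_lit 238) (nat_lit 434) (nat_lit 348)) (XT.nd (nat_lit 78) (nat_lit 0) (nat_lit 0) (XT.lf (nat_lit 152) (nat_lit 62229760735) (nat_lit 0) (nat_lit 7459576051) (nat_lit 76) (nat_lit 7459576051) (nat_lit 169) (nat_lit 1) (nat_lit 167) (nat_lit 1) (nat_lit 168) (nat_lit 1) (nat_lit 239) (nat_lit 434) (nat_lit 347)) (XT.lf (nat_lit 0) (nat_lit 18301286317) (nat_lit 0) (nat_lit 39276057980) (nat_lit 152) (nat_lit 18301286317) (nat_lit 167) (nat_lit 3) (nat_lit 167) (nat_lit 1) (nat_lit 169) (nat_lit 1) (nat_lit 240) (nat_lit 434) (nat_lit 346)))) (XT.nd (nat_lit 156) (nat_lit 76) (nat_lit 0) (XT.nd (nat_lit 78) (nat_lit 152) (nat_lit 0) (XT.lf (nat_lit 76) (nat_lit 11562242017) (nat_lit 0) (nat_lit 31538215030) (nat_lit 76) (nat_lit 31538215030) (nat_lit 167) (nat_lit 3) (nat_lit 166) (nat_lit 1) (nat_lit 167) (nat_lit 1) (nat_lit 241) (nat_lit 434) (nat_lit 345)) (XT.lf (nat_lit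 152) (nat_lit 61155067609) (nat_lit 0) (nat_lit 6137011678) (nat_lit 76) (nat_lit 6137011678) (nat_lit 166) (nat_lit 1) (nat_lit 164) (nat_lit 1) (nat_lit 165) (nat_lit 1) (nat_lit 242) (nat_lit 434) (nat_lit 344))) (XT.nd (nat_lit 78) (nat_lit 76) (nat_lit 0) (XT.lf (nat_lit 0) (nat_lit 18321592052) (nat_lit 0) (nat_lit 35577588607) (nat_lit 152) (nat_lit 18321592052) (nat_lit 164) (nat_lit 3) (nat_lit 164) (nat_lit 1) (nat_lit 166) (nat_lit 1) (nat_lit 243) (nat_lit 434) (nat_lit 343)) (XT.lf (nat_lit 76) (nat_lit 12724701072) (nat_lit 0) (nat_lit 29158983506) (nat_lit 76) (nat_lit 29158983506) (nat_lit 164) (nat_lit 3) (nat_lit 163) (nat_lit 1) (nat_lit 164) (nat_lit 1) (nat_lit 244) (nat_lit 434) (nat_lit 342))))))))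
noncomputable def ec429 : XT := (XT.nd (nat_lit 1950) (nat_lit 1900) (nat_lit 0) (XT.nd (nat_lit 936) (nat_lit 1064) (nat_lit 0) (XT.nd (nat_lit 468) (nat_lit 456) (nat_lit 0) (XT.nd (nat_lit 234) (nat_lit 228) (nat_lit 0) (XT.nd (nat_lit 78) (nat_lit 76) (nat_lit 0) (XT.lf (nat_lit 152) (nat_lit 59796701132) (nat_lit 0) (nat_lit 5048934695) (nat_lit 76) (nat_lit 5048934695) (nat_lit 163) (nat_lit 1) (nat_lit 161) (nat_lit 1) (nat_lit 162) (nat_lit 1) (nat_lit 245) (nat_lit 434) (nat_lit 341)) (XT.nd (nat_lit 78) (nat_lit 76) (nat_lit 0) (XT.lf (nat_lit 0) (nat_lit 18182817701) (nat_lit 0) (nat_lit 32379368773) (nat_lit 152) (nat_lit 18182817701) (nat_lit 161) (nat_lit 3) (nat_lit 161) (nat_lit 1) (nat_lit 163) (nat_lit 1) (nat_lit 246) (nat_lit 434) (nat_lit 340)) (XT.lf (nat_lit 76) (nat_lit 13528086825) (nat_lit 0) (nat_lit 27048611655) (nat_lit 76) (nat_lit 27048611655) (nat_lit 161) (nat_lit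 3) (nat_lit 160) (nat_lit 1) (nat_lit 161) (nat_lit 1) (nat_lit 247) (nat_lit 434) (nat_lit 339)))) (XT.nd (nat_lit 78) (nat_lit 76) (nat_lit 0) (XT.lf (nat_lit 152) (nat_lit 58227537495) (nat_lit 0) (nat_lit 4153771069) (nat_lit 76) (nat_lit 4153771069) (nat_lit 160) (nat_lit 1) (nat_lit 158) (nat_lit 1) (nat_lit 159) (nat_lit 1) (nat_lit 248) (nat_lit 434) (nat_lit 338)) (XT.nd (nat_lit 78) (nat_lit 76) (nat_lit 0) (XT.lf (nat_lit 0) (nat_lit 17920571577) (nat_lit 0) (nat_lit 29600109277) (nat_lit 152) (nat_lit 17920571577) (nat_lit 158) (nat_lit 3) (nat_lit 158) (nat_lit 1) (nat_lit 160) (nat_lit 1) (nat_lit 249) (nat_lit 434) (nat_lit 337)) (XT.lf (nat_lit 76) (nat_lit 14043346475) (nat_lit 0) (nat_lit 25166715713) (nat_lit 76) (nat_lit 25166715713) (nat_lit 158) (nat_lit 3) (nat_lit 157) (nat_lit 1) (nat_lit 158) (nat_lit 1) (nat_lit 250) (nat_lit 434) (nat_lit 336))))) (XT.nd (nat_lit 234)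 (nat_lit 228) (nat_lit 0) (XT.nd (nat_lit 78) (nat_lit 76) (nat_lit 0) (XT.lf (nat_lit 152) (nat_lit 56506456807) (nat_lit 0) (nat_lit 3417317738) (nat_lit 76) (nat_lit 3417317738) (nat_lit 157) (nat_lit 1) (nat_lit 155) (nat_lit 1) (nat_lit 156) (nat_lit 1) (nat_lit 251) (nat_lit 434) (nat_lit 335)) (XT.nd (nat_lit 78) (nat_lit 76) (nat_lit 0) (XT.lf (nat_lit 0) (nat_lit 17563796163) (nat_lit 0) (nat_lit 27172580733) (nat_lit 152) (nat_lit 17563796163) (nat_lit 155) (nat_lit 3) (nat_lit 155) (nat_lit 1) (nat_lit 157) (nat_lit 1) (nat_lit 252) (nat_lit 434) (nat_lit 334)) (XT.lf (nat_lit 76) (nat_lit 14328501579) (nat_lit 0) (nat_lit 23479724979) (nat_lit 76) (nat_lit 23479724979) (nat_lit 155) (nat_lit 3) (nat_lit 154) (nat_lit 1) (nat_lit 155) (nat_lit 1) (nat_lit 253) (nat_lit 434) (nat_lit 333)))) (XT.nd (nat_lit 78) (nat_lit 76) (nat_lit 0) (XT.lf (nat_lit 152) (nat_lit 54680875770) (nat_lit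 0) (nat_lit 2811435760) (nat_lit 76) (nat_lit 2811435760) (nat_lit 154) (nat_lit 1) (nat_lit 152) (nat_lit 1) (nat_lit 153) (nat_lit 1) (nat_lit 254) (nat_lit 434) (nat_lit 332)) (XT.nd (nat_lit 78) (nat_lit 76) (nat_lit 0) (XT.lf (nat_lit 0) (nat_lit 17135966738) (nat_lit 0) (nat_lit 25041137584) (nat_lit 152) (nat_lit 17135966738) (nat_lit 152) (nat_lit 3) (nat_lit 152) (nat_lit 1) (nat_lit 154) (nat_lit 1) (nat_lit 255) (nat_lit 434) (nat_lit 331)) (XT.lf (nat_lit 76) (nat_lit 14430956262) (nat_lit 0) (nat_lit 21959690401) (nat_lit 76) (nat_lit 21959690401) (nat_lit 152) (nat_lit 3) (nat_lit 151) (nat_lit 1) (nat_lit 152) (nat_lit 1) (nat_lit 256) (nat_lit 434) (nat_lit 330)))))) (XT.nd (nat_lit 468) (nat_lit 608) (nat_lit 0) (XT.nd (nat_lit 234) (nat_lit 228) (nat_lit 0) (XT.nd (nat_lit 78) (nat_lit 76) (nat_lit 0) (XT.lf (nat_lit 152) (nat_lit 52788828880) (nat_lit 0) (nat_lit 2312975157)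 (nat_lit 76) (nat_lit 2312975157) (nat_lit 151) (nat_lit 1) (nat_lit 149) (nat_lit 1) (nat_lit 150) (nat_lit 1) (nat_lit 257) (nat_lit 434) (nat_lit 329)) (XT.nd (nat_lit 78) (nat_lit 76) (nat_lit 0) (XT.lf (nat_lit 0) (nat_lit 16656076689) (nat_lit 0) (nat_lit 23159680307) (nat_lit 152) (nat_lit 16656076689) (nat_lit 149) (nat_lit 3) (nat_lit 149) (nat_lit 1) (nat_lit 151) (nat_lit 1) (nat_lit 258) (nat_lit 434) (nat_lit 328)) (XT.lf (nat_lit 76) (nat_lit 14389395385) (nat_lit 0) (nat_lit 20583303593) (nat_lit 76) (nat_lit 20583303593) (nat_lit 149) (nat_lit 3) (nat_lit 148) (nat_lit 1) (nat_lit 149) (nat_lit 1) (nat_lit 259) (nat_lit 434) (nat_lit 327)))) (XT.nd (nat_lit 78) (nat_lit 76) (nat_lit 0) (XT.lf (nat_lit 152) (nat_lit 50860678313) (nat_lit 0) (nat_lit 1902890386) (nat_lit 76) (nat_lit 1902890386) (nat_lit 148) (nat_lit 1) (nat_lit 146) (nat_lit 1) (nat_lit 147) (nat_lit 1) (nat_lit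 260) (nat_lit 434) (nat_lit 326)) (XT.nd (nat_lit 78) (nat_lit 76) (nat_lit 0) (XT.lf (nat_lit 0) (nat_lit 16139447366) (nat_lit 0) (nat_lit 21489978158) (nat_lit 152) (nat_lit 16139447366) (nat_lit 146) (nat_lit 3) (nat_lit 146) (nat_lit 1) (nat_lit 148) (nat_lit 1) (nat_lit 261) (nat_lit 434) (nat_lit 325)) (XT.lf (nat_lit 76) (nat_lit 14235345437) (nat_lit 0) (nat_lit 19331089048) (nat_lit 76) (nat_lit 19331089048) (nat_lit 146) (nat_lit 3) (nat_lit 145) (nat_lit 1) (nat_lit 146) (nat_lit 1) (nat_lit 262) (nat_lit 434) (nat_lit 324))))) (XT.nd (nat_lit 234) (nat_lit 380) (nat_lit 0) (XT.nd (nat_lit 78) (nat_lit 76) (nat_lit 0) (XT.lf (nat_lit 152) (nat_lit 48920518444) (nat_lit 0) (nat_lit 1565512630) (nat_lit 76) (nat_lit 1565512630) (nat_lit 145) (nat_lit 1) (nat_lit 143) (nat_lit 1) (nat_lit 144) (nat_lit 1) (nat_lit 263) (nat_lit 434) (nat_lit 323)) (XT.nd (nat_lit 78) (nat_lit 76) (nat_lit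 0) (XT.lf (nat_lit 0) (nat_lit 15598393626) (nat_lit 0) (nat_lit 20000288550) (nat_lit 152) (nat_lit 15598393626) (nat_lit 143) (nat_lit 3) (nat_lit 143) (nat_lit 1) (nat_lit 145) (nat_lit 1) (nat_lit 264) (nat_lit 434) (nat_lit 322)) (XT.lf (nat_lit 76) (nat_lit 13994457961) (nat_lit 0) (nat_lit 18186738841) (nat_lit 76) (nat_lit 18186738841) (nat_lit 143) (nat_lit 3) (nat_lit 142) (nat_lit 1) (nat_lit 143) (nat_lit 1) (nat_lit 265) (nat_lit 434) (nat_lit 321)))) (XT.nd (nat_lit 156) (nat_lit 228) (nat_lit 0) (XT.nd (nat_lit 78) (nat_lit 0) (nat_lit 0) (XT.lf (nat_lit 152) (nat_lit 46987329236) (nat_lit 0) (nat_lit 1287951115) (nat_lit 76) (nat_lit 1287951115) (nat_lit 142) (nat_lit 1) (nat_lit 140) (nat_lit 1) (nat_lit 141) (nat_lit 1) (nat_lit 266) (nat_lit 434) (nat_lit 320)) (XT.lf (nat_lit 0) (nat_lit 15042770693) (nat_lit 0) (nat_lit 18664220540) (nat_lit 152) (nat_lit 15042770693) (nat_lit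 140) (nat_lit 3) (nat_lit 140) (nat_lit 1) (nat_lit 142) (nat_lit 1) (nat_lit 267) (nat_lit 434) (nat_lit 319))) (XT.nd (nat_lit 78) (nat_lit 152) (nat_lit 0) (XT.lf (nat_lit 76) (nat_lit 13687564760) (nat_lit 0) (nat_lit 17136564615) (nat_lit 76) (nat_lit 17136564615) (nat_lit 140) (nat_lit 3) (nat_lit 139) (nat_lit 1) (nat_lit 140) (nat_lit 1) (nat_lit 268) (nat_lit 434) (nat_lit 318)) (XT.lf (nat_lit 152) (nat_lit 45075923136) (nat_lit 0) (nat_lit 1059600569) (nat_lit 76) (nat_lit 1059600569) (nat_lit 139) (nat_lit 1) (nat_lit 137) (nat_lit 1) (nat_lit 138) (nat_lit 1) (nat_lit 269) (nat_lit 434) (nat_lit 317))))))) (XT.nd (nat_lit 1014) (nat_lit 988) (nat_lit 0) (XT.nd (nat_lit 468) (nat_lit 456) (nat_lit 0) (XT.nd (nat_lit 234) (nat_lit 228) (nat_lit 0) (XT.nd (nat_lit 78) (nat_lit 228) (nat_lit 0) (XT.lf (nat_lit 0) (nat_lit 14480423394) (nat_lit 0) (nat_lit 17459799146) (nat_lit 152) (nat_lit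 14480423394) (nat_lit 137) (nat_lit 3) (nat_lit 137) (nat_lit 1) (nat_lit 139) (nat_lit 1) (nat_lit 270) (nat_lit 434) (nat_lit 316)) (XT.nd (nat_lit 78) (nat_lit 152) (nat_lit 0) (XT.lf (nat_lit 76) (nat_lit 13331545367) (nat_lit 0) (nat_lit 16169046083) (nat_lit 76) (nat_lit 16169046083) (nat_lit 137) (nat_lit 3) (nat_lit 136) (nat_lit 1) (nat_lit 137) (nat_lit 1) (nat_lit 271) (nat_lit 434) (nat_lit 315)) (XT.lf (nat_lit 152) (nat_lit 43197722174) (nat_lit 0) (nat_lit 871736011) (nat_lit 76) (nat_lit 871736011) (nat_lit 136) (nat_lit 1) (nat_lit 134) (nat_lit 1) (nat_lit 135) (nat_lit 1) (nat_lit 272) (nat_lit 434) (nat_lit 314)))) (XT.nd (nat_lit 78) (nat_lit 228) (nat_lit 0) (XT.lf (nat_lit 0) (nat_lit 13917555132) (nat_lit 0) (nat_lit 16368694936) (nat_lit 152) (nat_lit 13917555132) (nat_lit 134) (nat_lit 3) (nat_lit 134) (nat_lit 1) (nat_lit 136) (nat_lit 1) (nat_lit 273) (nat_lit 434) (nat_lit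 313)) (XT.nd (nat_lit 78) (nat_lit 152) (nat_lit 0) (XT.lf (nat_lit 76) (nat_lit 12940040094) (nat_lit 0) (nat_lit 15274458955) (nat_lit 76) (nat_lit 15274458955) (nat_lit 134) (nat_lit 3) (nat_lit 133) (nat_lit 1) (nat_lit 134) (nat_lit 1) (nat_lit 274) (nat_lit 434) (nat_lit 312)) (XT.lf (nat_lit 152) (nat_lit 41361395468) (nat_lit 0) (nat_lit 717179373) (nat_lit 76) (nat_lit 717179373) (nat_lit 133) (nat_lit 1) (nat_lit 131) (nat_lit 1) (nat_lit 132) (nat_lit 1) (nat_lit 275) (nat_lit 434) (nat_lit 311))))) (XT.nd (nat_lit 234) (nat_lit 228) (nat_lit 0) (XT.nd (nat_lit 78) (nat_lit 228) (nat_lit 0) (XT.lf (nat_lit 0) (nat_lit 13359030830) (nat_lit 0) (nat_lit 15375589614) (nat_lit 152) (nat_lit 13359030830) (nat_lit 131) (nat_lit 3) (nat_lit 131) (nat_lit 1) (nat_lit 133) (nat_lit 1) (nat_lit 276) (nat_lit 434) (nat_lit 310)) (XT.nd (nat_lit 78) (nat_lit 152) (nat_lit 0) (XT.lf (nat_lit 76)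 (nat_lit 12524036083) (nat_lit 0) (nat_lit 14444568258) (nat_lit 76) (nat_lit 14444568258) (nat_lit 131) (nat_lit 3) (nat_lit 130) (nat_lit 1) (nat_lit 131) (nat_lit 1) (nat_lit 277) (nat_lit 434) (nat_lit 309)) (XT.lf (nat_lit 152) (nat_lit 39573381965) (nat_lit 0) (nat_lit 590025245) (nat_lit 76) (nat_lit 590025245) (nat_lit 130) (nat_lit 1) (nat_lit 128) (nat_lit 1) (nat_lit 129) (nat_lit 1) (nat_lit 278) (nat_lit 434) (nat_lit 308)))) (XT.nd (nat_lit 156) (nat_lit 152) (nat_lit 0) (XT.nd (nat_lit 78) (nat_lit 76) (nat_lit 0) (XT.lf (nat_lit 0) (nat_lit 12808625611) (nat_lit 0) (nat_lit 14467653513) (nat_lit 152) (nat_lit 12808625611) (nat_lit 128) (nat_lit 3) (nat_lit 128) (nat_lit 1) (nat_lit 130) (nat_lit 1) (nat_lit 279) (nat_lit 434) (nat_lit 307)) (XT.lf (nat_lit 76) (nat_lit 12092348884) (nat_lit 0) (nat_lit 13672375457) (nat_lit 76) (nat_lit 13672375457) (nat_lit 128) (nat_lit 3) (nat_lit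 127) (nat_lit 1) (nat_lit 128) (nat_lit 1) (nat_lit 280) (nat_lit 434) (nat_lit 306))) (XT.nd (nat_lit 78) (nat_lit 0) (nat_lit 0) (XT.lf (nat_lit 152) (nat_lit 37838318852) (nat_lit 0) (nat_lit 485415229) (nat_lit 76) (nat_lit 485415229) (nat_lit 127) (nat_lit 1) (nat_lit 125) (nat_lit 1) (nat_lit 126) (nat_lit 1) (nat_lit 281) (nat_lit 434) (nat_lit 305)) (XT.lf (nat_lit 0) (nat_lit 12269228833) (nat_lit 0) (nat_lit 13634115193) (nat_lit 152) (nat_lit 12269228833) (nat_lit 125) (nat_lit 3) (nat_lit 125) (nat_lit 1) (nat_lit 127) (nat_lit 1) (nat_lit 282) (nat_lit 434) (nat_lit 304)))))) (XT.nd (nat_lit 468) (nat_lit 532) (nat_lit 0) (XT.nd (nat_lit 234) (nat_lit 228) (nat_lit 0) (XT.nd (nat_lit 78) (nat_lit 152) (nat_lit 0) (XT.lf (nat_lit 76) (nat_lit 11652018119) (nat_lit 0) (nat_lit 12951909890) (nat_lit 76) (nat_lit 12951909890) (nat_lit 125) (nat_lit 3) (nat_lit 124) (nat_lit 1) (nat_lit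 125) (nat_lit 1) (nat_lit 283) (nat_lit 434) (nat_lit 303)) (XT.nd (nat_lit 78) (nat_lit 0) (nat_lit 0) (XT.lf (nat_lit 152) (nat_lit 36159392442) (nat_lit 0) (nat_lit 399352310) (nat_lit 76) (nat_lit 399352310) (nat_lit 124) (nat_lit 1) (nat_lit 122) (nat_lit 1) (nat_lit 123) (nat_lit 1) (nat_lit 284) (nat_lit 434) (nat_lit 302)) (XT.lf (nat_lit 0) (nat_lit 11743011442) (nat_lit 0) (nat_lit 12865906829) (nat_lit 152) (nat_lit 11743011442) (nat_lit 122) (nat_lit 3) (nat_lit 122) (nat_lit 1) (nat_lit 124) (nat_lit 1) (nat_lit 285) (nat_lit 434) (nat_lit 301)))) (XT.nd (nat_lit 78) (nat_lit 152) (nat_lit 0) (XT.lf (nat_lit 76) (nat_lit 11208632491) (nat_lit 0) (nat_lit 12278056668) (nat_lit 76) (nat_lit 12278056668) (nat_lit 122) (nat_lit 3) (nat_lit 121) (nat_lit 1) (nat_lit 122) (nat_lit 1) (nat_lit 286) (nat_lit 434) (nat_lit 300)) (XT.nd (nat_lit 78) (nat_lit 0) (nat_lit 0) (XT.lf (nat_lit 152)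 (nat_lit 34538625344) (nat_lit 0) (nat_lit 328548134) (nat_lit 76) (nat_lit 328548134) (nat_lit 121) (nat_lit 1) (nat_lit 119) (nat_lit 1) (nat_lit 120) (nat_lit 1) (nat_lit 287) (nat_lit 434) (nat_lit 299)) (XT.lf (nat_lit 0) (nat_lit 11231563164) (nat_lit 0) (nat_lit 12155371977) (nat_lit 152) (nat_lit 11231563164) (nat_lit 119) (nat_lit 3) (nat_lit 119) (nat_lit 1) (nat_lit 121) (nat_lit 1) (nat_lit 288) (nat_lit 434) (nat_lit 298))))) (XT.nd (nat_lit 234) (nat_lit 304) (nat_lit 0) (XT.nd (nat_lit 78) (nat_lit 152) (nat_lit 0) (XT.lf (nat_lit 76) (nat_lit 10766596688) (nat_lit 0) (nat_lit 11646414605) (nat_lit 76) (nat_lit 11646414605) (nat_lit 119) (nat_lit 3) (nat_lit 118) (nat_lit 1) (nat_lit 119) (nat_lit 1) (nat_lit 289) (nat_lit 434) (nat_lit 297)) (XT.nd (nat_lit 78) (nat_lit 0) (nat_lit 0) (XT.lf (nat_lit 152) (nat_lit 32977111303) (nat_lit 0) (nat_lit 270297363) (nat_lit 76) (nat_lit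 270297363) (nat_lit 118) (nat_lit 1) (nat_lit 116) (nat_lit 1) (nat_lit 117) (nat_lit 1) (nat_lit 290) (nat_lit 434) (nat_lit 296)) (XT.lf (nat_lit 0) (nat_lit 10736004895) (nat_lit 0) (nat_lit 11496024692) (nat_lit 152) (nat_lit 10736004895) (nat_lit 116) (nat_lit 3) (nat_lit 116) (nat_lit 1) (nat_lit 118) (nat_lit 1) (nat_lit 291) (nat_lit 434) (nat_lit 295)))) (XT.nd (nat_lit 156) (nat_lit 76) (nat_lit 0) (XT.nd (nat_lit 78) (nat_lit 152) (nat_lit 0) (XT.lf (nat_lit 76) (nat_lit 10329350500) (nat_lit 0) (nat_lit 11053178878) (nat_lit 76) (nat_lit 11053178878) (nat_lit 116) (nat_lit 3) (nat_lit 115) (nat_lit 1) (nat_lit 116) (nat_lit 1) (nat_lit 292) (nat_lit 434) (nat_lit 294)) (XT.lf (nat_lit 152) (nat_lit 31475207040) (nat_lit 0) (nat_lit 222374309) (nat_lit 76) (nat_lit 222374309) (nat_lit 115) (nat_lit 1) (nat_lit 113) (nat_lit 1) (nat_lit 114) (nat_lit 1) (nat_lit 293) (nat_lit 434) (nat_lit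 293))) (XT.nd (nat_lit 78) (nat_lit 76) (nat_lit 0) (XT.lf (nat_lit 0) (nat_lit 10257080734) (nat_lit 0) (nat_lit 10882350902) (nat_lit 152) (nat_lit 10257080734) (nat_lit 113) (nat_lit 3) (nat_lit 113) (nat_lit 1) (nat_lit 115) (nat_lit 1) (nat_lit 294) (nat_lit 434) (nat_lit 292)) (XT.lf (nat_lit 76) (nat_lit 9899548658) (nat_lit 0) (nat_lit 10495044056) (nat_lit 76) (nat_lit 10495044056) (nat_lit 113) (nat_lit 3) (nat_lit 112) (nat_lit 1) (nat_lit 113) (nat_lit 1) (nat_lit 295) (nat_lit 434) (nat_lit 291))))))))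
noncomputable def ec430 : XT := (XT.nd (nat_lit 1950) (nat_lit 1824) (nat_lit 0) (XT.nd (nat_lit 936) (nat_lit 1064) (nat_lit 0) (XT.nd (nat_lit 468) (nat_lit 456) (nat_lit 0) (XT.nd (nat_lit 234) (nat_lit 228) (nat_lit 0) (XT.nd (nat_lit 78) (nat_lit 76) (nat_lit 0) (XT.lf (nat_lit 152) (nat_lit 30032688783) (nat_lit 0) (nat_lit 182947894) (nat_lit 76) (nat_lit 182947894) (nat_lit 112) (nat_lit 1) (nat_lit 110) (nat_lit 1) (nat_lit 111) (nat_lit 1) (nat_lit 296) (nat_lit 434) (nat_lit 290)) (XT.nd (nat_lit 78) (nat_lit 76) (nat_lit 0) (XT.lf (nat_lit 0) (nat_lit 9795233263) (nat_lit 0) (nat_lit 10309644578) (nat_lit 152) (nat_lit 9795233263) (nat_lit 110) (nat_lit 3) (nat_lit 110) (nat_lit 1) (nat_lit 112) (nat_lit 1) (nat_lit 297) (nat_lit 434) (nat_lit 289)) (XT.lf (nat_lit 76) (nat_lit 9479208360) (nat_lit 0) (nat_lit 9969123897) (nat_lit 76) (nat_lit 9969123897) (nat_lit 110) (nat_lit 3) (nat_lit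 109) (nat_lit 1) (nat_lit 110) (nat_lit 1) (nat_lit 298) (nat_lit 434) (nat_lit 288)))) (XT.nd (nat_lit 78) (nat_lit 76) (nat_lit 0) (XT.lf (nat_lit 152) (nat_lit 28648879821) (nat_lit 0) (nat_lit 150511685) (nat_lit 76) (nat_lit 150511685) (nat_lit 109) (nat_lit 1) (nat_lit 107) (nat_lit 1) (nat_lit 108) (nat_lit 1) (nat_lit 299) (nat_lit 434) (nat_lit 287)) (XT.nd (nat_lit 78) (nat_lit 76) (nat_lit 0) (XT.lf (nat_lit 0) (nat_lit 9350665084) (nat_lit 0) (nat_lit 9773872546) (nat_lit 152) (nat_lit 9350665084) (nat_lit 107) (nat_lit 3) (nat_lit 107) (nat_lit 1) (nat_lit 109) (nat_lit 1) (nat_lit 300) (nat_lit 434) (nat_lit 286)) (XT.lf (nat_lit 76) (nat_lit 9069830252) (nat_lit 0) (nat_lit 9472884977) (nat_lit 76) (nat_lit 9472884977) (nat_lit 107) (nat_lit 3) (nat_lit 106) (nat_lit 1) (nat_lit 107) (nat_lit 1) (nat_lit 301) (nat_lit 434) (nat_lit 285))))) (XT.nd (nat_lit 234) (nat_lit 228) (nat_lit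 0) (XT.nd (nat_lit 78) (nat_lit 76) (nat_lit 0) (XT.lf (nat_lit 152) (nat_lit 27322754267) (nat_lit 0) (nat_lit 123826336) (nat_lit 76) (nat_lit 123826336) (nat_lit 106) (nat_lit 1) (nat_lit 104) (nat_lit 1) (nat_lit 105) (nat_lit 1) (nat_lit 302) (nat_lit 434) (nat_lit 284)) (XT.nd (nat_lit 78) (nat_lit 76) (nat_lit 0) (XT.lf (nat_lit 0) (nat_lit 8923389056) (nat_lit 0) (nat_lit 9271562882) (nat_lit 152) (nat_lit 8923389056) (nat_lit 104) (nat_lit 3) (nat_lit 104) (nat_lit 1) (nat_lit 106) (nat_lit 1) (nat_lit 303) (nat_lit 434) (nat_lit 283)) (XT.lf (nat_lit 76) (nat_lit 8672497581) (nat_lit 0) (nat_lit 9004091701) (nat_lit 76) (nat_lit 9004091701) (nat_lit 104) (nat_lit 3) (nat_lit 103) (nat_lit 1) (nat_lit 104) (nat_lit 1) (nat_lit 304) (nat_lit 434) (nat_lit 282)))) (XT.nd (nat_lit 78) (nat_lit 76) (nat_lit 0) (XT.lf (nat_lit 152) (nat_lit 26053021304) (nat_lit 0) (nat_lit 101872233) (nat_lit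 76) (nat_lit 101872233) (nat_lit 103) (nat_lit 1) (nat_lit 101) (nat_lit 1) (nat_lit 102) (nat_lit 1) (nat_lit 305) (nat_lit 434) (nat_lit 281)) (XT.nd (nat_lit 78) (nat_lit 76) (nat_lit 0) (XT.lf (nat_lit 0) (nat_lit 8513269260) (nat_lit 0) (nat_lit 8799712728) (nat_lit 152) (nat_lit 8513269260) (nat_lit 101) (nat_lit 3) (nat_lit 101) (nat_lit 1) (nat_lit 103) (nat_lit 1) (nat_lit 306) (nat_lit 434) (nat_lit 280)) (XT.lf (nat_lit 76) (nat_lit 8287957400) (nat_lit 0) (nat_lit 8560760703) (nat_lit 76) (nat_lit 8560760703) (nat_lit 101) (nat_lit 3) (nat_lit 100) (nat_lit 1) (nat_lit 101) (nat_lit 1) (nat_lit 307) (nat_lit 434) (nat_lit 279)))))) (XT.nd (nat_lit 468) (nat_lit 608) (nat_lit 0) (XT.nd (nat_lit 234) (nat_lit 228) (nat_lit 0) (XT.nd (nat_lit 78) (nat_lit 76) (nat_lit 0) (XT.lf (nat_lit 152) (nat_lit 24838193436) (nat_lit 0) (nat_lit 83810538) (nat_lit 76) (nat_lit 83810538) (nat_lit 100)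 (nat_lit 1) (nat_lit 98) (nat_lit 1) (nat_lit 99) (nat_lit 1) (nat_lit 308) (nat_lit 434) (nat_lit 278)) (XT.nd (nat_lit 78) (nat_lit 76) (nat_lit 0) (XT.lf (nat_lit 0) (nat_lit 8120054355) (nat_lit 0) (nat_lit 8355712106) (nat_lit 152) (nat_lit 8120054355) (nat_lit 98) (nat_lit 3) (nat_lit 98) (nat_lit 1) (nat_lit 100) (nat_lit 1) (nat_lit 309) (nat_lit 434) (nat_lit 277)) (XT.lf (nat_lit 76) (nat_lit 7916687042) (nat_lit 0) (nat_lit 8141122995) (nat_lit 76) (nat_lit 8141122995) (nat_lit 98) (nat_lit 3) (nat_lit 97) (nat_lit 1) (nat_lit 98) (nat_lit 1) (nat_lit 310) (nat_lit 434) (nat_lit 276)))) (XT.nd (nat_lit 78) (nat_lit 76) (nat_lit 0) (XT.lf (nat_lit 152) (nat_lit 23676641622) (nat_lit 0) (nat_lit 68951137) (nat_lit 76) (nat_lit 68951137) (nat_lit 97) (nat_lit 1) (nat_lit 95) (nat_lit 1) (nat_lit 96) (nat_lit 1) (nat_lit 311) (nat_lit 434) (nat_lit 275)) (XT.nd (nat_lit 78) (nat_lit 76)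 (nat_lit 0) (XT.lf (nat_lit 0) (nat_lit 7743404687) (nat_lit 0) (nat_lit 7937280901) (nat_lit 152) (nat_lit 7743404687) (nat_lit 95) (nat_lit 3) (nat_lit 95) (nat_lit 1) (nat_lit 97) (nat_lit 1) (nat_lit 312) (nat_lit 434) (nat_lit 274)) (XT.lf (nat_lit 76) (nat_lit 7558948478) (nat_lit 0) (nat_lit 7743592491) (nat_lit 76) (nat_lit 7743592491) (nat_lit 95) (nat_lit 3) (nat_lit 94) (nat_lit 1) (nat_lit 95) (nat_lit 1) (nat_lit 313) (nat_lit 434) (nat_lit 273))))) (XT.nd (nat_lit 234) (nat_lit 380) (nat_lit 0) (XT.nd (nat_lit 78) (nat_lit 76) (nat_lit 0) (XT.lf (nat_lit 152) (nat_lit 22566639669) (nat_lit 0) (nat_lit 56726271) (nat_lit 76) (nat_lit 56726271) (nat_lit 94) (nat_lit 1) (nat_lit 92) (nat_lit 1) (nat_lit 93) (nat_lit 1) (nat_lit 314) (nat_lit 434) (nat_lit 272)) (XT.nd (nat_lit 78) (nat_lit 76) (nat_lit 0) (XT.lf (nat_lit 0) (nat_lit 7382914269) (nat_lit 0) (nat_lit 7542416710) (nat_lit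 152) (nat_lit 7382914269) (nat_lit 92) (nat_lit 3) (nat_lit 92) (nat_lit 1) (nat_lit 94) (nat_lit 1) (nat_lit 315) (nat_lit 434) (nat_lit 271)) (XT.lf (nat_lit 76) (nat_lit 7214832720) (nat_lit 0) (nat_lit 7366739807) (nat_lit 76) (nat_lit 7366739807) (nat_lit 92) (nat_lit 3) (nat_lit 91) (nat_lit 1) (nat_lit 92) (nat_lit 1) (nat_lit 316) (nat_lit 434) (nat_lit 270)))) (XT.nd (nat_lit 156) (nat_lit 228) (nat_lit 0) (XT.nd (nat_lit 78) (nat_lit 0) (nat_lit 0) (XT.lf (nat_lit 152) (nat_lit 21506399839) (nat_lit 0) (nat_lit 46668843) (nat_lit 76) (nat_lit 46668843) (nat_lit 91) (nat_lit 1) (nat_lit 89) (nat_lit 1) (nat_lit 90) (nat_lit 1) (nat_lit 317) (nat_lit 434) (nat_lit 269)) (XT.lf (nat_lit 0) (nat_lit 7038128573) (nat_lit 0) (nat_lit 7169351626) (nat_lit 152) (nat_lit 7038128573) (nat_lit 89) (nat_lit 3) (nat_lit 89) (nat_lit 1) (nat_lit 91) (nat_lit 1) (nat_lit 318) (nat_lit 434) (nat_lit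 268))) (XT.nd (nat_lit 78) (nat_lit 152) (nat_lit 0) (XT.lf (nat_lit 76) (nat_lit 6884296068) (nat_lit 0) (nat_lit 7009270404) (nat_lit 76) (nat_lit 7009270404) (nat_lit 89) (nat_lit 3) (nat_lit 88) (nat_lit 1) (nat_lit 89) (nat_lit 1) (nat_lit 319) (nat_lit 434) (nat_lit 267)) (XT.lf (nat_lit 152) (nat_lit 20494101263) (nat_lit 0) (nat_lit 38394573) (nat_lit 76) (nat_lit 38394573) (nat_lit 88) (nat_lit 1) (nat_lit 86) (nat_lit 1) (nat_lit 87) (nat_lit 1) (nat_lit 320) (nat_lit 434) (nat_lit 266))))))) (XT.nd (nat_lit 936) (nat_lit 912) (nat_lit 0) (XT.nd (nat_lit 468) (nat_lit 456) (nat_lit 0) (XT.nd (nat_lit 234) (nat_lit 228) (nat_lit 0) (XT.nd (nat_lit 78) (nat_lit 228) (nat_lit 0) (XT.lf (nat_lit 0) (nat_lit 6708558874) (nat_lit 0) (nat_lit 6816516404) (nat_lit 152) (nat_lit 6708558874) (nat_lit 86) (nat_lit 3) (nat_lit 86) (nat_lit 1) (nat_lit 88) (nat_lit 1) (nat_lit 321) (nat_lit 434) (nat_lit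 265)) (XT.nd (nat_lit 78) (nat_lit 152) (nat_lit 0) (XT.lf (nat_lit 76) (nat_lit 6567189635) (nat_lit 0) (nat_lit 6670006331) (nat_lit 76) (nat_lit 6670006331) (nat_lit 86) (nat_lit 3) (nat_lit 85) (nat_lit 1) (nat_lit 86) (nat_lit 1) (nat_lit 322) (nat_lit 434) (nat_lit 264)) (XT.lf (nat_lit 152) (nat_lit 19527912486) (nat_lit 0) (nat_lit 31587310) (nat_lit 76) (nat_lit 31587310) (nat_lit 85) (nat_lit 1) (nat_lit 83) (nat_lit 1) (nat_lit 84) (nat_lit 1) (nat_lit 323) (nat_lit 434) (nat_lit 263)))) (XT.nd (nat_lit 78) (nat_lit 228) (nat_lit 0) (XT.lf (nat_lit 0) (nat_lit 6393693777) (nat_lit 0) (nat_lit 6482510705) (nat_lit 152) (nat_lit 6393693777) (nat_lit 83) (nat_lit 3) (nat_lit 83) (nat_lit 1) (nat_lit 85) (nat_lit 1) (nat_lit 324) (nat_lit 434) (nat_lit 262)) (XT.nd (nat_lit 78) (nat_lit 152) (nat_lit 0) (XT.lf (nat_lit 76) (nat_lit 6263283377) (nat_lit 0) (nat_lit 6347870928) (nat_lit 76)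 (nat_lit 6347870928) (nat_lit 83) (nat_lit 3) (nat_lit 82) (nat_lit 1) (nat_lit 83) (nat_lit 1) (nat_lit 325) (nat_lit 434) (nat_lit 261)) (XT.lf (nat_lit 152) (nat_lit 18606009223) (nat_lit 0) (nat_lit 25986958) (nat_lit 76) (nat_lit 25986958) (nat_lit 82) (nat_lit 1) (nat_lit 80) (nat_lit 1) (nat_lit 81) (nat_lit 1) (nat_lit 326) (nat_lit 434) (nat_lit 260))))) (XT.nd (nat_lit 234) (nat_lit 228) (nat_lit 0) (XT.nd (nat_lit 78) (nat_lit 228) (nat_lit 0) (XT.lf (nat_lit 0) (nat_lit 6093008445) (nat_lit 0) (nat_lit 6166078352) (nat_lit 152) (nat_lit 6093008445) (nat_lit 80) (nat_lit 3) (nat_lit 80) (nat_lit 1) (nat_lit 82) (nat_lit 1) (nat_lit 327) (nat_lit 434) (nat_lit 259)) (XT.nd (nat_lit 78) (nat_lit 152) (nat_lit 0) (XT.lf (nat_lit 76) (nat_lit 5972285604) (nat_lit 0) (nat_lit 6041875991) (nat_lit 76) (nat_lit 6041875991) (nat_lit 80) (nat_lit 3) (nat_lit 79) (nat_lit 1) (nat_lit 80) (nat_lit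 1) (nat_lit 328) (nat_lit 434) (nat_lit 258)) (XT.lf (nat_lit 152) (nat_lit 17726588208) (nat_lit 0) (nat_lit 21379535) (nat_lit 76) (nat_lit 21379535) (nat_lit 79) (nat_lit 1) (nat_lit 77) (nat_lit 1) (nat_lit 78) (nat_lit 1) (nat_lit 329) (nat_lit 434) (nat_lit 257)))) (XT.nd (nat_lit 78) (nat_lit 228) (nat_lit 0) (XT.lf (nat_lit 0) (nat_lit 5805971938) (nat_lit 0) (nat_lit 5866086731) (nat_lit 152) (nat_lit 5805971938) (nat_lit 77) (nat_lit 3) (nat_lit 77) (nat_lit 1) (nat_lit 79) (nat_lit 1) (nat_lit 330) (nat_lit 434) (nat_lit 256)) (XT.nd (nat_lit 78) (nat_lit 152) (nat_lit 0) (XT.lf (nat_lit 76) (nat_lit 5693858783) (nat_lit 0) (nat_lit 5751110967) (nat_lit 76) (nat_lit 5751110967) (nat_lit 77) (nat_lit 3) (nat_lit 76) (nat_lit 1) (nat_lit 77) (nat_lit 1) (nat_lit 331) (nat_lit 434) (nat_lit 255)) (XT.lf (nat_lit 152) (nat_lit 16887877869) (nat_lit 0) (nat_lit 17588996) (nat_lit 76) (nat_lit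 17588996) (nat_lit 76) (nat_lit 1) (nat_lit 74) (nat_lit 1) (nat_lit 75) (nat_lit 1) (nat_lit 332) (nat_lit 434) (nat_lit 254)))))) (XT.nd (nat_lit 468) (nat_lit 456) (nat_lit 0) (XT.nd (nat_lit 234) (nat_lit 228) (nat_lit 0) (XT.nd (nat_lit 78) (nat_lit 228) (nat_lit 0) (XT.lf (nat_lit 0) (nat_lit 5532053017) (nat_lit 0) (nat_lit 5581509605) (nat_lit 152) (nat_lit 5532053017) (nat_lit 74) (nat_lit 3) (nat_lit 74) (nat_lit 1) (nat_lit 76) (nat_lit 1) (nat_lit 333) (nat_lit 434) (nat_lit 253)) (XT.nd (nat_lit 78) (nat_lit 152) (nat_lit 0) (XT.lf (nat_lit 76) (nat_lit 5427632319) (nat_lit 0) (nat_lit 5474733832) (nat_lit 76) (nat_lit 5474733832) (nat_lit 74) (nat_lit 3) (nat_lit 73) (nat_lit 1) (nat_lit 74) (nat_lit 1) (nat_lit 334) (nat_lit 434) (nat_lit 252)) (XT.lf (nat_lit 152) (nat_lit 16088146422) (nat_lit 0) (nat_lit 14470510) (nat_lit 76) (nat_lit 14470510) (nat_lit 73) (nat_lit 1) (nat_lit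 71) (nat_lit 1) (nat_lit 72) (nat_lit 1) (nat_lit 335) (nat_lit 434) (nat_lit 251)))) (XT.nd (nat_lit 78) (nat_lit 228) (nat_lit 0) (XT.lf (nat_lit 0) (nat_lit 5270724693) (nat_lit 0) (nat_lit 5311412751) (nat_lit 152) (nat_lit 5270724693) (nat_lit 71) (nat_lit 3) (nat_lit 71) (nat_lit 1) (nat_lit 73) (nat_lit 1) (nat_lit 336) (nat_lit 434) (nat_lit 250)) (XT.nd (nat_lit 78) (nat_lit 152) (nat_lit 0) (XT.lf (nat_lit 76) (nat_lit 5173212833) (nat_lit 0) (nat_lit 5211963364) (nat_lit 76) (nat_lit 5211963364) (nat_lit 71) (nat_lit 3) (nat_lit 70) (nat_lit 1) (nat_lit 71) (nat_lit 1) (nat_lit 337) (nat_lit 434) (nat_lit 249)) (XT.lf (nat_lit 152) (nat_lit 15325707882) (nat_lit 0) (nat_lit 11904925) (nat_lit 76) (nat_lit 11904925) (nat_lit 70) (nat_lit 1) (nat_lit 68) (nat_lit 1) (nat_lit 69) (nat_lit 1) (nat_lit 338) (nat_lit 434) (nat_lit 248))))) (XT.nd (nat_lit 234) (nat_lit 228) (nat_lit 0) (XT.nd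 (nat_lit 78) (nat_lit 228) (nat_lit 0) (XT.lf (nat_lit 0) (nat_lit 5021467759) (nat_lit 0) (nat_lit 5054941924) (nat_lit 152) (nat_lit 5021467759) (nat_lit 68) (nat_lit 3) (nat_lit 68) (nat_lit 1) (nat_lit 70) (nat_lit 1) (nat_lit 339) (nat_lit 434) (nat_lit 247)) (XT.nd (nat_lit 78) (nat_lit 152) (nat_lit 0) (XT.lf (nat_lit 76) (nat_lit 4930192421) (nat_lit 0) (nat_lit 4962072579) (nat_lit 76) (nat_lit 4962072579) (nat_lit 68) (nat_lit 3) (nat_lit 67) (nat_lit 1) (nat_lit 68) (nat_lit 1) (nat_lit 340) (nat_lit 434) (nat_lit 246)) (XT.lf (nat_lit 152) (nat_lit 14598926378) (nat_lit 0) (nat_lit 9794211) (nat_lit 76) (nat_lit 9794211) (nat_lit 67) (nat_lit 1) (nat_lit 65) (nat_lit 1) (nat_lit 66) (nat_lit 1) (nat_lit 341) (nat_lit 434) (nat_lit 245)))) (XT.nd (nat_lit 156) (nat_lit 152) (nat_lit 0) (XT.nd (nat_lit 78) (nat_lit 76) (nat_lit 0) (XT.lf (nat_lit 0) (nat_lit 4783773485) (nat_lit 0) (nat_lit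 4811312764) (nat_lit 152) (nat_lit 4783773485) (nat_lit 65) (nat_lit 3) (nat_lit 65) (nat_lit 1) (nat_lit 67) (nat_lit 1) (nat_lit 342) (nat_lit 434) (nat_lit 244)) (XT.lf (nat_lit 76) (nat_lit 4698155240) (nat_lit 0) (nat_lit 4724383125) (nat_lit 76) (nat_lit 4724383125) (nat_lit 65) (nat_lit 3) (nat_lit 64) (nat_lit 1) (nat_lit 65) (nat_lit 1) (nat_lit 343) (nat_lit 434) (nat_lit 243))) (XT.nd (nat_lit 78) (nat_lit 0) (nat_lit 0) (XT.lf (nat_lit 152) (nat_lit 13906219124) (nat_lit 0) (nat_lit 8057721) (nat_lit 76) (nat_lit 8057721) (nat_lit 64) (nat_lit 1) (nat_lit 62) (nat_lit 1) (nat_lit 63) (nat_lit 1) (nat_lit 344) (nat_lit 434) (nat_lit 242)) (XT.lf (nat_lit 0) (nat_lit 4557145650) (nat_lit 0) (nat_lit 4579802283) (nat_lit 152) (nat_lit 4557145650) (nat_lit 62) (nat_lit 3) (nat_lit 62) (nat_lit 1) (nat_lit 64) (nat_lit 1) (nat_lit 345) (nat_lit 434) (nat_lit 241))))))))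
noncomputable def ec431 : XT := (XT.nd (nat_lit 1950) (nat_lit 1976) (nat_lit 0) (XT.nd (nat_lit 936) (nat_lit 988) (nat_lit 0) (XT.nd (nat_lit 468) (nat_lit 456) (nat_lit 0) (XT.nd (nat_lit 234) (nat_lit 228) (nat_lit 0) (XT.nd (nat_lit 78) (nat_lit 152) (nat_lit 0) (XT.lf (nat_lit 76) (nat_lit 4476682738) (nat_lit 0) (nat_lit 4498260483) (nat_lit 76) (nat_lit 4498260483) (nat_lit 62) (nat_lit 3) (nat_lit 61) (nat_lit 1) (nat_lit 62) (nat_lit 1) (nat_lit 346) (nat_lit 434) (nat_lit 240)) (XT.nd (nat_lit 78) (nat_lit 0) (nat_lit 0) (XT.lf (nat_lit 152) (nat_lit 13246058282) (nat_lit 0) (nat_lit 6629107) (nat_lit 76) (nat_lit 6629107) (nat_lit 61) (nat_lit 1) (nat_lit 59) (nat_lit 1) (nat_lit 60) (nat_lit 1) (nat_lit 347) (nat_lit 434) (nat_lit 239)) (XT.lf (nat_lit 0) (nat_lit 4341102018) (nat_lit 0) (nat_lit 4359741687) (nat_lit 152) (nat_lit 4341102018) (nat_lit 59) (nat_lit 3) (nat_lit 59) (nat_lit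 1) (nat_lit 61) (nat_lit 1) (nat_lit 348) (nat_lit 434) (nat_lit 238)))) (XT.nd (nat_lit 78) (nat_lit 152) (nat_lit 0) (XT.lf (nat_lit 76) (nat_lit 4265357771) (nat_lit 0) (nat_lit 4283109836) (nat_lit 76) (nat_lit 4283109836) (nat_lit 59) (nat_lit 3) (nat_lit 58) (nat_lit 1) (nat_lit 59) (nat_lit 1) (nat_lit 349) (nat_lit 434) (nat_lit 237)) (XT.nd (nat_lit 78) (nat_lit 0) (nat_lit 0) (XT.lf (nat_lit 152) (nat_lit 12616971971) (nat_lit 0) (nat_lit 5453783) (nat_lit 76) (nat_lit 5453783) (nat_lit 58) (nat_lit 1) (nat_lit 56) (nat_lit 1) (nat_lit 57) (nat_lit 1) (nat_lit 350) (nat_lit 434) (nat_lit 236)) (XT.lf (nat_lit 0) (nat_lit 4135175387) (nat_lit 0) (nat_lit 4150510289) (nat_lit 152) (nat_lit 4135175387) (nat_lit 56) (nat_lit 3) (nat_lit 56) (nat_lit 1) (nat_lit 58) (nat_lit 1) (nat_lit 351) (nat_lit 434) (nat_lit 235))))) (XT.nd (nat_lit 234) (nat_lit 228) (nat_lit 0) (XT.nd (nat_lit 78)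 (nat_lit 152) (nat_lit 0) (XT.lf (nat_lit 76) (nat_lit 4063767827) (nat_lit 0) (nat_lit 4078372495) (nat_lit 76) (nat_lit 4078372495) (nat_lit 56) (nat_lit 3) (nat_lit 55) (nat_lit 1) (nat_lit 56) (nat_lit 1) (nat_lit 352) (nat_lit 434) (nat_lit 234)) (XT.nd (nat_lit 78) (nat_lit 0) (nat_lit 0) (XT.lf (nat_lit 152) (nat_lit 12017544580) (nat_lit 0) (nat_lit 4486841) (nat_lit 76) (nat_lit 4486841) (nat_lit 55) (nat_lit 1) (nat_lit 53) (nat_lit 1) (nat_lit 54) (nat_lit 1) (nat_lit 353) (nat_lit 434) (nat_lit 233)) (XT.lf (nat_lit 0) (nat_lit 3938914276) (nat_lit 0) (nat_lit 3951530337) (nat_lit 152) (nat_lit 3938914276) (nat_lit 53) (nat_lit 3) (nat_lit 53) (nat_lit 1) (nat_lit 55) (nat_lit 1) (nat_lit 354) (nat_lit 434) (nat_lit 232)))) (XT.nd (nat_lit 78) (nat_lit 152) (nat_lit 0) (XT.lf (nat_lit 76) (nat_lit 3871507498) (nat_lit 0) (nat_lit 3883522795) (nat_lit 76) (nat_lit 3883522795) (nat_lit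 53) (nat_lit 3) (nat_lit 52) (nat_lit 1) (nat_lit 53) (nat_lit 1) (nat_lit 355) (nat_lit 434) (nat_lit 231)) (XT.nd (nat_lit 78) (nat_lit 0) (nat_lit 0) (XT.lf (nat_lit 152) (nat_lit 11446416539) (nat_lit 0) (nat_lit 3691335) (nat_lit 76) (nat_lit 3691335) (nat_lit 52) (nat_lit 1) (nat_lit 50) (nat_lit 1) (nat_lit 51) (nat_lit 1) (nat_lit 356) (nat_lit 434) (nat_lit 230)) (XT.lf (nat_lit 0) (nat_lit 3751883333) (nat_lit 0) (nat_lit 3762262598) (nat_lit 152) (nat_lit 3751883333) (nat_lit 50) (nat_lit 3) (nat_lit 50) (nat_lit 1) (nat_lit 52) (nat_lit 1) (nat_lit 357) (nat_lit 434) (nat_lit 229)))))) (XT.nd (nat_lit 468) (nat_lit 532) (nat_lit 0) (XT.nd (nat_lit 234) (nat_lit 228) (nat_lit 0) (XT.nd (nat_lit 78) (nat_lit 152) (nat_lit 0) (XT.lf (nat_lit 76) (nat_lit 3688180372) (nat_lit 0) (nat_lit 3698065386) (nat_lit 76) (nat_lit 3698065386) (nat_lit 50) (nat_lit 3) (nat_lit 49) (nat_lit 1) (nat_lit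 50) (nat_lit 1) (nat_lit 358) (nat_lit 434) (nat_lit 228)) (XT.nd (nat_lit 78) (nat_lit 0) (nat_lit 0) (XT.lf (nat_lit 152) (nat_lit 10902283664) (nat_lit 0) (nat_lit 3036870) (nat_lit 76) (nat_lit 3036870) (nat_lit 49) (nat_lit 1) (nat_lit 47) (nat_lit 1) (nat_lit 48) (nat_lit 1) (nat_lit 359) (nat_lit 434) (nat_lit 227)) (XT.lf (nat_lit 0) (nat_lit 3573663523) (nat_lit 0) (nat_lit 3582202570) (nat_lit 152) (nat_lit 3573663523) (nat_lit 47) (nat_lit 3) (nat_lit 47) (nat_lit 1) (nat_lit 49) (nat_lit 1) (nat_lit 360) (nat_lit 434) (nat_lit 226)))) (XT.nd (nat_lit 78) (nat_lit 152) (nat_lit 0) (XT.lf (nat_lit 76) (nat_lit 3513400425) (nat_lit 0) (nat_lit 3521532851) (nat_lit 76) (nat_lit 3521532851) (nat_lit 47) (nat_lit 3) (nat_lit 46) (nat_lit 1) (nat_lit 47) (nat_lit 1) (nat_lit 361) (nat_lit 434) (nat_lit 225)) (XT.nd (nat_lit 78) (nat_lit 0) (nat_lit 0) (XT.lf (nat_lit 152) (nat_lit 10383896179)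 (nat_lit 0) (nat_lit 2498441) (nat_lit 76) (nat_lit 2498441) (nat_lit 46) (nat_lit 1) (nat_lit 44) (nat_lit 1) (nat_lit 45) (nat_lit 1) (nat_lit 362) (nat_lit 434) (nat_lit 224)) (XT.lf (nat_lit 0) (nat_lit 3403852129) (nat_lit 0) (nat_lit 3410877223) (nat_lit 152) (nat_lit 3403852129) (nat_lit 44) (nat_lit 3) (nat_lit 44) (nat_lit 1) (nat_lit 46) (nat_lit 1) (nat_lit 363) (nat_lit 434) (nat_lit 223))))) (XT.nd (nat_lit 234) (nat_lit 304) (nat_lit 0) (XT.nd (nat_lit 78) (nat_lit 152) (nat_lit 0) (XT.lf (nat_lit 76) (nat_lit 3346793040) (nat_lit 0) (nat_lit 3353483607) (nat_lit 76) (nat_lit 3353483607) (nat_lit 44) (nat_lit 3) (nat_lit 43) (nat_lit 1) (nat_lit 44) (nat_lit 1) (nat_lit 364) (nat_lit 434) (nat_lit 222)) (XT.nd (nat_lit 78) (nat_lit 0) (nat_lit 0) (XT.lf (nat_lit 152) (nat_lit 9890057492) (nat_lit 0) (nat_lit 2055473) (nat_lit 76) (nat_lit 2055473) (nat_lit 43) (nat_lit 1) (nat_lit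 41) (nat_lit 1) (nat_lit 42) (nat_lit 1) (nat_lit 365) (nat_lit 434) (nat_lit 221)) (XT.lf (nat_lit 0) (nat_lit 3242062622) (nat_lit 0) (nat_lit 3247842185) (nat_lit 152) (nat_lit 3242062622) (nat_lit 41) (nat_lit 3) (nat_lit 41) (nat_lit 1) (nat_lit 43) (nat_lit 1) (nat_lit 366) (nat_lit 434) (nat_lit 220)))) (XT.nd (nat_lit 156) (nat_lit 76) (nat_lit 0) (XT.nd (nat_lit 78) (nat_lit 152) (nat_lit 0) (XT.lf (nat_lit 76) (nat_lit 3187995694) (nat_lit 0) (nat_lit 3193500039) (nat_lit 76) (nat_lit 3193500039) (nat_lit 41) (nat_lit 3) (nat_lit 40) (nat_lit 1) (nat_lit 41) (nat_lit 1) (nat_lit 367) (nat_lit 434) (nat_lit 219)) (XT.lf (nat_lit 152) (nat_lit 9419622782) (nat_lit 0) (nat_lit 1691043) (nat_lit 76) (nat_lit 1691043) (nat_lit 40) (nat_lit 1) (nat_lit 38) (nat_lit 1) (nat_lit 39) (nat_lit 1) (nat_lit 368) (nat_lit 434) (nat_lit 218))) (XT.nd (nat_lit 78) (nat_lit 76) (nat_lit 0) (XT.lf (nat_lit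 0) (nat_lit 3087924420) (nat_lit 0) (nat_lit 3092679281) (nat_lit 152) (nat_lit 3087924420) (nat_lit 38) (nat_lit 3) (nat_lit 38) (nat_lit 1) (nat_lit 40) (nat_lit 1) (nat_lit 369) (nat_lit 434) (nat_lit 217)) (XT.lf (nat_lit 76) (nat_lit 3036658401) (nat_lit 0) (nat_lit 3041186839) (nat_lit 76) (nat_lit 3041186839) (nat_lit 38) (nat_lit 3) (nat_lit 37) (nat_lit 1) (nat_lit 38) (nat_lit 1) (nat_lit 370) (nat_lit 434) (nat_lit 216))))))) (XT.nd (nat_lit 1014) (nat_lit 912) (nat_lit 0) (XT.nd (nat_lit 468) (nat_lit 608) (nat_lit 0) (XT.nd (nat_lit 234) (nat_lit 228) (nat_lit 0) (XT.nd (nat_lit 78) (nat_lit 76) (nat_lit 0) (XT.lf (nat_lit 152) (nat_lit 8971497458) (nat_lit 0) (nat_lit 1391225) (nat_lit 76) (nat_lit 1391225) (nat_lit 37) (nat_lit 1) (nat_lit 35) (nat_lit 1) (nat_lit 36) (nat_lit 1) (nat_lit 371) (nat_lit 434) (nat_lit 215)) (XT.nd (nat_lit 78) (nat_lit 76) (nat_lit 0) (XT.lf (nat_lit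 0) (nat_lit 2941082565) (nat_lit 0) (nat_lit 2944994401) (nat_lit 152) (nat_lit 2941082565) (nat_lit 35) (nat_lit 3) (nat_lit 35) (nat_lit 1) (nat_lit 37) (nat_lit 1) (nat_lit 372) (nat_lit 434) (nat_lit 214)) (XT.lf (nat_lit 76) (nat_lit 2892443956) (nat_lit 0) (nat_lit 2896169514) (nat_lit 76) (nat_lit 2896169514) (nat_lit 35) (nat_lit 3) (nat_lit 34) (nat_lit 1) (nat_lit 35) (nat_lit 1) (nat_lit 373) (nat_lit 434) (nat_lit 213)))) (XT.nd (nat_lit 78) (nat_lit 76) (nat_lit 0) (XT.lf (nat_lit 152) (nat_lit 8544635526) (nat_lit 0) (nat_lit 1144564) (nat_lit 76) (nat_lit 1144564) (nat_lit 34) (nat_lit 1) (nat_lit 32) (nat_lit 1) (nat_lit 33) (nat_lit 1) (nat_lit 374) (nat_lit 434) (nat_lit 212)) (XT.nd (nat_lit 78) (nat_lit 76) (nat_lit 0) (XT.lf (nat_lit 0) (nat_lit 2801197336) (nat_lit 0) (nat_lit 2804415613) (nat_lit 152) (nat_lit 2801197336) (nat_lit 32) (nat_lit 3) (nat_lit 32) (nat_lit 1)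 (nat_lit 34) (nat_lit 1) (nat_lit 375) (nat_lit 434) (nat_lit 211)) (XT.lf (nat_lit 76) (nat_lit 2755028016) (nat_lit 0) (nat_lit 2758093041) (nat_lit 76) (nat_lit 2758093041) (nat_lit 32) (nat_lit 3) (nat_lit 31) (nat_lit 1) (nat_lit 32) (nat_lit 1) (nat_lit 376) (nat_lit 434) (nat_lit 210))))) (XT.nd (nat_lit 234) (nat_lit 380) (nat_lit 0) (XT.nd (nat_lit 78) (nat_lit 76) (nat_lit 0) (XT.lf (nat_lit 152) (nat_lit 8138037903) (nat_lit 0) (nat_lit 941636) (nat_lit 76) (nat_lit 941636) (nat_lit 31) (nat_lit 1) (nat_lit 29) (nat_lit 1) (nat_lit 30) (nat_lit 1) (nat_lit 377) (nat_lit 434) (nat_lit 209)) (XT.nd (nat_lit 78) (nat_lit 76) (nat_lit 0) (XT.lf (nat_lit 0) (nat_lit 2667943820) (nat_lit 0) (nat_lit 2670591504) (nat_lit 152) (nat_lit 2667943820) (nat_lit 29) (nat_lit 3) (nat_lit 29) (nat_lit 1) (nat_lit 31) (nat_lit 1) (nat_lit 378) (nat_lit 434) (nat_lit 208)) (XT.lf (nat_lit 76) (nat_lit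 2624099047) (nat_lit 0) (nat_lit 2626620651) (nat_lit 76) (nat_lit 2626620651) (nat_lit 29) (nat_lit 3) (nat_lit 28) (nat_lit 1) (nat_lit 29) (nat_lit 1) (nat_lit 379) (nat_lit 434) (nat_lit 207)))) (XT.nd (nat_lit 156) (nat_lit 228) (nat_lit 0) (XT.nd (nat_lit 78) (nat_lit 0) (nat_lit 0) (XT.lf (nat_lit 152) (nat_lit 7750750693) (nat_lit 0) (nat_lit 774686) (nat_lit 76) (nat_lit 774686) (nat_lit 28) (nat_lit 1) (nat_lit 26) (nat_lit 1) (nat_lit 27) (nat_lit 1) (nat_lit 380) (nat_lit 434) (nat_lit 206)) (XT.lf (nat_lit 0) (nat_lit 2541011449) (nat_lit 0) (nat_lit 2543189705) (nat_lit 152) (nat_lit 2541011449) (nat_lit 26) (nat_lit 3) (nat_lit 26) (nat_lit 1) (nat_lit 28) (nat_lit 1) (nat_lit 381) (nat_lit 434) (nat_lit 205))) (XT.nd (nat_lit 78) (nat_lit 152) (nat_lit 0) (XT.lf (nat_lit 76) (nat_lit 2499358190) (nat_lit 0) (nat_lit 2501432720) (nat_lit 76) (nat_lit 2501432720) (nat_lit 26) (nat_lit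 3) (nat_lit 25) (nat_lit 1) (nat_lit 26) (nat_lit 1) (nat_lit 382) (nat_lit 434) (nat_lit 204)) (XT.lf (nat_lit 152) (nat_lit 7381863464) (nat_lit 0) (nat_lit 637336) (nat_lit 76) (nat_lit 637336) (nat_lit 25) (nat_lit 1) (nat_lit 23) (nat_lit 1) (nat_lit 24) (nat_lit 1) (nat_lit 383) (nat_lit 434) (nat_lit 203)))))) (XT.nd (nat_lit 468) (nat_lit 456) (nat_lit 0) (XT.nd (nat_lit 234) (nat_lit 228) (nat_lit 0) (XT.nd (nat_lit 78) (nat_lit 228) (nat_lit 0) (XT.lf (nat_lit 0) (nat_lit 2420103518) (nat_lit 0) (nat_lit 2421895575) (nat_lit 152) (nat_lit 2420103518) (nat_lit 23) (nat_lit 3) (nat_lit 23) (nat_lit 1) (nat_lit 25) (nat_lit 1) (nat_lit 384) (nat_lit 434) (nat_lit 202)) (XT.nd (nat_lit 78) (nat_lit 152) (nat_lit 0) (XT.lf (nat_lit 76) (nat_lit 2380519035) (nat_lit 0) (nat_lit 2382225756) (nat_lit 76) (nat_lit 2382225756) (nat_lit 23) (nat_lit 3) (nat_lit 22) (nat_lit 1) (nat_lit 23) (nat_lit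 1) (nat_lit 385) (nat_lit 434) (nat_lit 201)) (XT.lf (nat_lit 152) (nat_lit 7030507518) (nat_lit 0) (nat_lit 524338) (nat_lit 76) (nat_lit 524338) (nat_lit 22) (nat_lit 1) (nat_lit 20) (nat_lit 1) (nat_lit 21) (nat_lit 1) (nat_lit 386) (nat_lit 434) (nat_lit 200)))) (XT.nd (nat_lit 78) (nat_lit 228) (nat_lit 0) (XT.lf (nat_lit 0) (nat_lit 2304936687) (nat_lit 0) (nat_lit 2306411017) (nat_lit 152) (nat_lit 2304936687) (nat_lit 20) (nat_lit 3) (nat_lit 20) (nat_lit 1) (nat_lit 22) (nat_lit 1) (nat_lit 387) (nat_lit 434) (nat_lit 199)) (XT.nd (nat_lit 78) (nat_lit 152) (nat_lit 0) (XT.lf (nat_lit 76) (nat_lit 2267307346) (nat_lit 0) (nat_lit 2268711469) (nat_lit 76) (nat_lit 2268711469) (nat_lit 20) (nat_lit 3) (nat_lit 19) (nat_lit 1) (nat_lit 20) (nat_lit 1) (nat_lit 388) (nat_lit 434) (nat_lit 198)) (XT.lf (nat_lit 152) (nat_lit 6695854198) (nat_lit 0) (nat_lit 431374) (nat_lit 76) (nat_lit 431374)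 (nat_lit 19) (nat_lit 1) (nat_lit 17) (nat_lit 1) (nat_lit 18) (nat_lit 1) (nat_lit 389) (nat_lit 434) (nat_lit 197))))) (XT.nd (nat_lit 234) (nat_lit 228) (nat_lit 0) (XT.nd (nat_lit 78) (nat_lit 228) (nat_lit 0) (XT.lf (nat_lit 0) (nat_lit 2195240482) (nat_lit 0) (nat_lit 2196453417) (nat_lit 152) (nat_lit 2195240482) (nat_lit 17) (nat_lit 3) (nat_lit 17) (nat_lit 1) (nat_lit 19) (nat_lit 1) (nat_lit 390) (nat_lit 434) (nat_lit 196)) (XT.nd (nat_lit 78) (nat_lit 152) (nat_lit 0) (XT.lf (nat_lit 76) (nat_lit 2159460740) (nat_lit 0) (nat_lit 2160615916) (nat_lit 76) (nat_lit 2160615916) (nat_lit 17) (nat_lit 3) (nat_lit 16) (nat_lit 1) (nat_lit 17) (nat_lit 1) (nat_lit 391) (nat_lit 434) (nat_lit 195)) (XT.lf (nat_lit 152) (nat_lit 6377113215) (nat_lit 0) (nat_lit 354892) (nat_lit 76) (nat_lit 354892) (nat_lit 16) (nat_lit 1) (nat_lit 14) (nat_lit 1) (nat_lit 15) (nat_lit 1) (nat_lit 392) (nat_lit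 434) (nat_lit 194)))) (XT.nd (nat_lit 156) (nat_lit 152) (nat_lit 0) (XT.nd (nat_lit 78) (nat_lit 76) (nat_lit 0) (XT.lf (nat_lit 0) (nat_lit 2090756792) (nat_lit 0) (nat_lit 2091754676) (nat_lit 152) (nat_lit 2090756792) (nat_lit 14) (nat_lit 3) (nat_lit 14) (nat_lit 1) (nat_lit 16) (nat_lit 1) (nat_lit 393) (nat_lit 434) (nat_lit 193)) (XT.lf (nat_lit 76) (nat_lit 2056728338) (nat_lit 0) (nat_lit 2057678704) (nat_lit 76) (nat_lit 2057678704) (nat_lit 14) (nat_lit 3) (nat_lit 13) (nat_lit 1) (nat_lit 14) (nat_lit 1) (nat_lit 394) (nat_lit 434) (nat_lit 192))) (XT.nd (nat_lit 78) (nat_lit 0) (nat_lit 0) (XT.lf (nat_lit 152) (nat_lit 6073531009) (nat_lit 0) (nat_lit 291971) (nat_lit 76) (nat_lit 291971) (nat_lit 13) (nat_lit 1) (nat_lit 11) (nat_lit 1) (nat_lit 12) (nat_lit 1) (nat_lit 395) (nat_lit 434) (nat_lit 191)) (XT.lf (nat_lit 0) (nat_lit 1991239372) (nat_lit 0) (nat_lit 1992060334) (nat_lit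 152) (nat_lit 1991239372) (nat_lit 11) (nat_lit 3) (nat_lit 11) (nat_lit 1) (nat_lit 13) (nat_lit 1) (nat_lit 396) (nat_lit 434) (nat_lit 190))))))))
noncomputable def ec432 : XT := (XT.nd (nat_lit 1950) (nat_lit 0) (nat_lit 0) (XT.nd (nat_lit 936) (nat_lit 0) (nat_lit 0) (XT.nd (nat_lit 468) (nat_lit 380) (nat_lit 0) (XT.nd (nat_lit 234) (nat_lit 228) (nat_lit 0) (XT.nd (nat_lit 78) (nat_lit 152) (nat_lit 0) (XT.lf (nat_lit 76) (nat_lit 1958870392) (nat_lit 0) (nat_lit 1959652261) (nat_lit 76) (nat_lit 1959652261) (nat_lit 11) (nat_lit 3) (nat_lit 10) (nat_lit 1) (nat_lit 11) (nat_lit 1) (nat_lit 397) (nat_lit 434) (nat_lit 189)) (XT.nd (nat_lit 78) (nat_lit 0) (nat_lit 0) (XT.lf (nat_lit 152) (nat_lit 5784389168) (nat_lit 0) (nat_lit 240205) (nat_lit 76) (nat_lit 240205) (nat_lit 10) (nat_lit 1) (nat_lit 8) (nat_lit 1) (nat_lit 9) (nat_lit 1) (nat_lit 398) (nat_lit 434) (nat_lit 188)) (XT.lf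 (nat_lit 0) (nat_lit 1896453355) (nat_lit 0) (nat_lit 1897128762) (nat_lit 152) (nat_lit 1896453355) (nat_lit 8) (nat_lit 3) (nat_lit 8) (nat_lit 1) (nat_lit 10) (nat_lit 1) (nat_lit 399) (nat_lit 434) (nat_lit 187)))) (XT.nd (nat_lit 78) (nat_lit 152) (nat_lit 0) (XT.lf (nat_lit 76) (nat_lit 1865657899) (nat_lit 0) (nat_lit 1866301144) (nat_lit 76) (nat_lit 1866301144) (nat_lit 8) (nat_lit 3) (nat_lit 7) (nat_lit 1) (nat_lit 8) (nat_lit 1) (nat_lit 400) (nat_lit 434) (nat_lit 186)) (XT.nd (nat_lit 78) (nat_lit 0) (nat_lit 0) (XT.lf (nat_lit 152) (nat_lit 5509002881) (nat_lit 0) (nat_lit 197617) (nat_lit 76) (nat_lit 197617) (nat_lit 7) (nat_lit 1) (nat_lit 5) (nat_lit 1) (nat_lit 6) (nat_lit 1) (nat_lit 401) (nat_lit 434) (nat_lit 185)) (XT.lf (nat_lit 0) (nat_lit 1806174769) (nat_lit 0) (nat_lit 1806730428) (nat_lit 152) (nat_lit 1806174769) (nat_lit 5) (nat_lit 3) (nat_lit 5) (nat_lit 1) (nat_lit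 7) (nat_lit 1) (nat_lit 402) (nat_lit 434) (nat_lit 184))))) (XT.nd (nat_lit 234) (nat_lit 152) (nat_lit 0) (XT.nd (nat_lit 78) (nat_lit 152) (nat_lit 0) (XT.lf (nat_lit 76) (nat_lit 1776872208) (nat_lit 0) (nat_lit 1777401408) (nat_lit 76) (nat_lit 1777401408) (nat_lit 5) (nat_lit 3) (nat_lit 4) (nat_lit 1) (nat_lit 5) (nat_lit 1) (nat_lit 403) (nat_lit 434) (nat_lit 183)) (XT.nd (nat_lit 78) (nat_lit 0) (nat_lit 0) (XT.lf (nat_lit 152) (nat_lit 5246719443) (nat_lit 0) (nat_lit 162580) (nat_lit 76) (nat_lit 162580) (nat_lit 4) (nat_lit 1) (nat_lit 2) (nat_lit 1) (nat_lit 3) (nat_lit 1) (nat_lit 404) (nat_lit 434) (nat_lit 182)) (XT.lf (nat_lit 0) (nat_lit 1720190072) (nat_lit 0) (nat_lit 1720647214) (nat_lit 152) (nat_lit 1720190072) (nat_lit 2) (nat_lit 3) (nat_lit 2) (nat_lit 1) (nat_lit 4) (nat_lit 1) (nat_lit 405) (nat_lit 434) (nat_lit 181)))) (XT.nd (nat_lit 78) (nat_lit 76) (nat_lit 0)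 (XT.lf (nat_lit 76) (nat_lit 1692304628) (nat_lit 0) (nat_lit 1692740001) (nat_lit 76) (nat_lit 1692740001) (nat_lit 2) (nat_lit 3) (nat_lit 1) (nat_lit 1) (nat_lit 2) (nat_lit 1) (nat_lit 406) (nat_lit 434) (nat_lit 180)) (XT.nd (nat_lit 78) (nat_lit 0) (nat_lit 0) (XT.lf (nat_lit 0) (nat_lit 105364836716) (nat_lit 0) (nat_lit 0) (nat_lit 0) (nat_lit 0) (nat_lit 0) (nat_lit 0) (nat_lit 1) (nat_lit 0) (nat_lit 1) (nat_lit 0) (nat_lit 407) (nat_lit 434) (nat_lit 179)) (XT.lf (nat_lit 0) (nat_lit 105364816892) (nat_lit 0) (nat_lit 0) (nat_lit 0) (nat_lit 0) (nat_lit 0) (nat_lit 0) (nat_lit 1) (nat_lit 0) (nat_lit 1) (nat_lit 0) (nat_lit 408) (nat_lit 434) (nat_lit 178)))))) (XT.nd (nat_lit 468) (nat_lit 0) (nat_lit 0) (XT.nd (nat_lit 234) (nat_lit 0) (nat_lit 0) (XT.nd (nat_lit 78) (nat_lit 0) (nat_lit 0) (XT.lf (nat_lit 0) (nat_lit 105364798011) (nat_lit 0) (nat_lit 0) (nat_lit 0) (nat_lit 0) (nat_lit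 0) (nat_lit 0) (nat_lit 1) (nat_lit 0) (nat_lit 1) (nat_lit 0) (nat_lit 409) (nat_lit 434) (nat_lit 177)) (XT.nd (nat_lit 78) (nat_lit 0) (nat_lit 0) (XT.lf (nat_lit 0) (nat_lit 105364780030) (nat_lit 0) (nat_lit 0) (nat_lit 0) (nat_lit 0) (nat_lit 0) (nat_lit 0) (nat_lit 1) (nat_lit 0) (nat_lit 1) (nat_lit 0) (nat_lit 410) (nat_lit 434) (nat_lit 176)) (XT.lf (nat_lit 0) (nat_lit 105364762905) (nat_lit 0) (nat_lit 0) (nat_lit 0) (nat_lit 0) (nat_lit 0) (nat_lit 0) (nat_lit 1) (nat_lit 0) (nat_lit 1) (nat_lit 0) (nat_lit 411) (nat_lit 434) (nat_lit 175)))) (XT.nd (nat_lit 78) (nat_lit 0) (nat_lit 0) (XT.lf (nat_lit 0) (nat_lit 105364746595) (nat_lit 0) (nat_lit 0) (nat_lit 0) (nat_lit 0) (nat_lit 0) (nat_lit 0) (nat_lit 1) (nat_lit 0) (nat_lit 1) (nat_lit 0) (nat_lit 412) (nat_lit 434) (nat_lit 174)) (XT.nd (nat_lit 78) (nat_lit 0) (nat_lit 0) (XT.lf (nat_lit 0) (nat_lit 105364731062) (nat_lit 0)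 (nat_lit 0) (nat_lit 0) (nat_lit 0) (nat_lit 0) (nat_lit 0) (nat_lit 1) (nat_lit 0) (nat_lit 1) (nat_lit 0) (nat_lit 413) (nat_lit 434) (nat_lit 173)) (XT.lf (nat_lit 0) (nat_lit 105364716269) (nat_lit 0) (nat_lit 0) (nat_lit 0) (nat_lit 0) (nat_lit 0) (nat_lit 0) (nat_lit 1) (nat_lit 0) (nat_lit 1) (nat_lit 0) (nat_lit 414) (nat_lit 434) (nat_lit 172))))) (XT.nd (nat_lit 234) (nat_lit 0) (nat_lit 0) (XT.nd (nat_lit 78) (nat_lit 0) (nat_lit 0) (XT.lf (nat_lit 0) (nat_lit 105364702180) (nat_lit 0) (nat_lit 0) (nat_lit 0) (nat_lit 0) (nat_lit 0) (nat_lit 0) (nat_lit 1) (nat_lit 0) (nat_lit 1) (nat_lit 0) (nat_lit 415) (nat_lit 434) (nat_lit 171)) (XT.nd (nat_lit 78) (nat_lit 0) (nat_lit 0) (XT.lf (nat_lit 0) (nat_lit 105364688762) (nat_lit 0) (nat_lit 0) (nat_lit 0) (nat_lit 0) (nat_lit 0) (nat_lit 0) (nat_lit 1) (nat_lit 0) (nat_lit 1) (nat_lit 0) (nat_lit 416) (nat_lit 434) (nat_lit 170)) (XT.lf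 (nat_lit 0) (nat_lit 105364675982) (nat_lit 0) (nat_lit 0) (nat_lit 0) (nat_lit 0) (nat_lit 0) (nat_lit 0) (nat_lit 1) (nat_lit 0) (nat_lit 1) (nat_lit 0) (nat_lit 417) (nat_lit 434) (nat_lit 169)))) (XT.nd (nat_lit 156) (nat_lit 0) (nat_lit 0) (XT.nd (nat_lit 78) (nat_lit 0) (nat_lit 0) (XT.lf (nat_lit 0) (nat_lit 105364663812) (nat_lit 0) (nat_lit 0) (nat_lit 0) (nat_lit 0) (nat_lit 0) (nat_lit 0) (nat_lit 1) (nat_lit 0) (nat_lit 1) (nat_lit 0) (nat_lit 418) (nat_lit 434) (nat_lit 168)) (XT.lf (nat_lit 0) (nat_lit 105364652221) (nat_lit 0) (nat_lit 0) (nat_lit 0) (nat_lit 0) (nat_lit 0) (nat_lit 0) (nat_lit 1) (nat_lit 0) (nat_lit 1) (nat_lit 0) (nat_lit 419) (nat_lit 434) (nat_lit 167))) (XT.nd (nat_lit 78) (nat_lit 0) (nat_lit 0) (XT.lf (nat_lit 0) (nat_lit 105364641182) (nat_lit 0) (nat_lit 0) (nat_lit 0) (nat_lit 0) (nat_lit 0) (nat_lit 0) (nat_lit 1) (nat_lit 0) (nat_lit 1) (nat_lit 0) (nat_lit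 420) (nat_lit 434) (nat_lit 166)) (XT.lf (nat_lit 0) (nat_lit 105364630668) (nat_lit 0) (nat_lit 0) (nat_lit 0) (nat_lit 0) (nat_lit 0) (nat_lit 0) (nat_lit 1) (nat_lit 0) (nat_lit 1) (nat_lit 0) (nat_lit 421) (nat_lit 434) (nat_lit 165))))))) (XT.nd (nat_lit 936) (nat_lit 0) (nat_lit 0) (XT.nd (nat_lit 468) (nat_lit 0) (nat_lit 0) (XT.nd (nat_lit 234) (nat_lit 0) (nat_lit 0) (XT.nd (nat_lit 78) (nat_lit 0) (nat_lit 0) (XT.lf (nat_lit 0) (nat_lit 105364620656) (nat_lit 0) (nat_lit 0) (nat_lit 0) (nat_lit 0) (nat_lit 0) (nat_lit 0) (nat_lit 1) (nat_lit 0) (nat_lit 1) (nat_lit 0) (nat_lit 422) (nat_lit 434) (nat_lit 164)) (XT.nd (nat_lit 78) (nat_lit 0) (nat_lit 0) (XT.lf (nat_lit 0) (nat_lit 105364611120) (nat_lit 0) (nat_lit 0) (nat_lit 0) (nat_lit 0) (nat_lit 0) (nat_lit 0) (nat_lit 1) (nat_lit 0) (nat_lit 1) (nat_lit 0) (nat_lit 423) (nat_lit 434) (nat_lit 163)) (XT.lf (nat_lit 0) (nat_lit 105364602038)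 (nat_lit 0) (nat_lit 0) (nat_lit 0) (nat_lit 0) (nat_lit 0) (nat_lit 0) (nat_lit 1) (nat_lit 0) (nat_lit 1) (nat_lit 0) (nat_lit 424) (nat_lit 434) (nat_lit 162)))) (XT.nd (nat_lit 78) (nat_lit 0) (nat_lit 0) (XT.lf (nat_lit 0) (nat_lit 105364593389) (nat_lit 0) (nat_lit 0) (nat_lit 0) (nat_lit 0) (nat_lit 0) (nat_lit 0) (nat_lit 1) (nat_lit 0) (nat_lit 1) (nat_lit 0) (nat_lit 425) (nat_lit 434) (nat_lit 161)) (XT.nd (nat_lit 78) (nat_lit 0) (nat_lit 0) (XT.lf (nat_lit 0) (nat_lit 105364585151) (nat_lit 0) (nat_lit 0) (nat_lit 0) (nat_lit 0) (nat_lit 0) (nat_lit 0) (nat_lit 1) (nat_lit 0) (nat_lit 1) (nat_lit 0) (nat_lit 426) (nat_lit 434) (nat_lit 160)) (XT.lf (nat_lit 0) (nat_lit 105364577306) (nat_lit 0) (nat_lit 0) (nat_lit 0) (nat_lit 0) (nat_lit 0) (nat_lit 0) (nat_lit 1) (nat_lit 0) (nat_lit 1) (nat_lit 0) (nat_lit 427) (nat_lit 434) (nat_lit 159))))) (XT.nd (nat_lit 234) (nat_lit 0) (nat_lit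 0) (XT.nd (nat_lit 78) (nat_lit 0) (nat_lit 0) (XT.lf (nat_lit 0) (nat_lit 105364569834) (nat_lit 0) (nat_lit 0) (nat_lit 0) (nat_lit 0) (nat_lit 0) (nat_lit 0) (nat_lit 1) (nat_lit 0) (nat_lit 1) (nat_lit 0) (nat_lit 428) (nat_lit 434) (nat_lit 158)) (XT.nd (nat_lit 78) (nat_lit 0) (nat_lit 0) (XT.lf (nat_lit 0) (nat_lit 105364562718) (nat_lit 0) (nat_lit 0) (nat_lit 0) (nat_lit 0) (nat_lit 0) (nat_lit 0) (nat_lit 1) (nat_lit 0) (nat_lit 1) (nat_lit 0) (nat_lit 429) (nat_lit 434) (nat_lit 157)) (XT.lf (nat_lit 0) (nat_lit 105364555941) (nat_lit 0) (nat_lit 0) (nat_lit 0) (nat_lit 0) (nat_lit 0) (nat_lit 0) (nat_lit 1) (nat_lit 0) (nat_lit 1) (nat_lit 0) (nat_lit 430) (nat_lit 434) (nat_lit 156)))) (XT.nd (nat_lit 78) (nat_lit 0) (nat_lit 0) (XT.lf (nat_lit 0) (nat_lit 105364549487) (nat_lit 0) (nat_lit 0) (nat_lit 0) (nat_lit 0) (nat_lit 0) (nat_lit 0) (nat_lit 1) (nat_lit 0) (nat_lit 1) (nat_lit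 0) (nat_lit 431) (nat_lit 434) (nat_lit 155)) (XT.nd (nat_lit 78) (nat_lit 0) (nat_lit 0) (XT.lf (nat_lit 0) (nat_lit 105364543340) (nat_lit 0) (nat_lit 0) (nat_lit 0) (nat_lit 0) (nat_lit 0) (nat_lit 0) (nat_lit 1) (nat_lit 0) (nat_lit 1) (nat_lit 0) (nat_lit 432) (nat_lit 434) (nat_lit 154)) (XT.lf (nat_lit 0) (nat_lit 105364537486) (nat_lit 0) (nat_lit 0) (nat_lit 0) (nat_lit 0) (nat_lit 0) (nat_lit 0) (nat_lit 1) (nat_lit 0) (nat_lit 1) (nat_lit 0) (nat_lit 433) (nat_lit 434) (nat_lit 153)))))) (XT.nd (nat_lit 31122) (nat_lit 0) (nat_lit 22268) (XT.nd (nat_lit 234) (nat_lit 0) (nat_lit 0) (XT.nd (nat_lit 78) (nat_lit 0) (nat_lit 0) (XT.lf (nat_lit 0) (nat_lit 105364531910) (nat_lit 0) (nat_lit 0) (nat_lit 0) (nat_lit 0) (nat_lit 0) (nat_lit 0) (nat_lit 1) (nat_lit 0) (nat_lit 1) (nat_lit 0) (nat_lit 434) (nat_lit 434) (nat_lit 152)) (XT.nd (nat_lit 78) (nat_lit 0) (nat_lit 0) (XT.lf (nat_lit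 0) (nat_lit 105364526600) (nat_lit 0) (nat_lit 0) (nat_lit 0) (nat_lit 0) (nat_lit 0) (nat_lit 0) (nat_lit 1) (nat_lit 0) (nat_lit 1) (nat_lit 0) (nat_lit 435) (nat_lit 434) (nat_lit 151)) (XT.lf (nat_lit 0) (nat_lit 105364521543) (nat_lit 0) (nat_lit 0) (nat_lit 0) (nat_lit 0) (nat_lit 0) (nat_lit 0) (nat_lit 1) (nat_lit 0) (nat_lit 1) (nat_lit 0) (nat_lit 436) (nat_lit 434) (nat_lit 150)))) (XT.nd (nat_lit 30732) (nat_lit 0) (nat_lit 22192) (XT.lf (nat_lit 0) (nat_lit 105364516727) (nat_lit 0) (nat_lit 0) (nat_lit 0) (nat_lit 0) (nat_lit 0) (nat_lit 0) (nat_lit 1) (nat_lit 0) (nat_lit 1) (nat_lit 0) (nat_lit 437) (nat_lit 434) (nat_lit 149)) (XT.nd (nat_lit 78) (nat_lit 0) (nat_lit 0) (XT.lf (nat_lit 836) (nat_lit 55364717800) (nat_lit 0) (nat_lit 98299929194) (nat_lit 836) (nat_lit 55364717800) (nat_lit 303) (nat_lit 1) (nat_lit 292) (nat_lit 0) (nat_lit 303) (nat_lit 0) (nat_lit 150) (nat_lit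 435) (nat_lit 435)) (XT.lf (nat_lit 836) (nat_lit 214600558206) (nat_lit 76) (nat_lit 96714446465) (nat_lit 0) (nat_lit 96714446465) (nat_lit 303) (nat_lit 1) (nat_lit 293) (nat_lit 1) (nat_lit 292) (nat_lit 0) (nat_lit 151) (nat_lit 435) (nat_lit 434))))) (XT.nd (nat_lit 234) (nat_lit 0) (nat_lit 76) (XT.nd (nat_lit 78) (nat_lit 0) (nat_lit 0) (XT.lf (nat_lit 836) (nat_lit 102275394803) (nat_lit 0) (nat_lit 193759441958) (nat_lit 760) (nat_lit 102275394803) (nat_lit 304) (nat_lit 1) (nat_lit 293) (nat_lit 1) (nat_lit 303) (nat_lit 1) (nat_lit 152) (nat_lit 435) (nat_lit 433)) (XT.nd (nat_lit 78) (nat_lit 0) (nat_lit 76) (XT.lf (nat_lit 836) (nat_lit 191854429125) (nat_lit 76) (nat_lit 98525293035) (nat_lit 0) (nat_lit 98525293035) (nat_lit 304) (nat_lit 1) (nat_lit 294) (nat_lit 1) (nat_lit 293) (nat_lit 1) (nat_lit 153) (nat_lit 435) (nat_lit 432)) (XT.lf (nat_lit 836) (nat_lit 88308751331) (nat_lit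 0) (nat_lit 203180394345) (nat_lit 760) (nat_lit 88308751331) (nat_lit 305) (nat_lit 1) (nat_lit 294) (nat_lit 1) (nat_lit 304) (nat_lit 1) (nat_lit 154) (nat_lit 435) (nat_lit 431)))) (XT.nd (nat_lit 156) (nat_lit 0) (nat_lit 76) (XT.nd (nat_lit 78) (nat_lit 0) (nat_lit 76) (XT.lf (nat_lit 836) (nat_lit 158829040993) (nat_lit 76) (nat_lit 106069678796) (nat_lit 0) (nat_lit 106069678796) (nat_lit 305) (nat_lit 1) (nat_lit 295) (nat_lit 1) (nat_lit 294) (nat_lit 1) (nat_lit 155) (nat_lit 435) (nat_lit 430)) (XT.lf (nat_lit 836) (nat_lit 69641947078) (nat_lit 0) (nat_lit 223151469990) (nat_lit 760) (nat_lit 69641947078) (nat_lit 306) (nat_lit 1) (nat_lit 295) (nat_lit 1) (nat_lit 305) (nat_lit 1) (nat_lit 156) (nat_lit 435) (nat_lit 429))) (XT.nd (nat_lit 78) (nat_lit 0) (nat_lit 76) (XT.lf (nat_lit 836) (nat_lit 117070251340) (nat_lit 76) (nat_lit 118533511021) (nat_lit 0) (nat_lit 118533511021)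 (nat_lit 306) (nat_lit 1) (nat_lit 296) (nat_lit 1) (nat_lit 295) (nat_lit 1) (nat_lit 157) (nat_lit 435) (nat_lit 428)) (XT.lf (nat_lit 836) (nat_lit 46997608295) (nat_lit 0) (nat_lit 252147723472) (nat_lit 760) (nat_lit 46997608295) (nat_lit 307) (nat_lit 1) (nat_lit 296) (nat_lit 1) (nat_lit 306) (nat_lit 1) (nat_lit 158) (nat_lit 435) (nat_lit 427))))))))
noncomputable def ec433 : XT := (XT.nd (nat_lit 1950) (nat_lit 2736) (nat_lit 0) (XT.nd (nat_lit 936) (nat_lit 2204) (nat_lit 0) (XT.nd (nat_lit 468) (nat_lit 1064) (nat_lit 0) (XT.nd (nat_lit 234) (nat_lit 912) (nat_lit 0) (XT.nd (nat_lit 78) (nat_lit 684) (nat_lit 0) (XT.lf (nat_lit 836) (nat_lit 67952094253) (nat_lit 76) (nat_lit 135191766590) (nat_lit 0) (nat_lit 135191766590) (nat_lit 307) (nat_lit 1) (nat_lit 297) (nat_lit 1) (nat_lit 296) (nat_lit 1) (nat_lit 159) (nat_lit 435) (nat_lit 426)) (XT.nd (nat_lit 78) (nat_lit 760) (nat_lit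 0) (XT.lf (nat_lit 76) (nat_lit 21017575920) (nat_lit 0) (nat_lit 288811893627) (nat_lit 760) (nat_lit 21017575920) (nat_lit 298) (nat_lit 1) (nat_lit 297) (nat_lit 1) (nat_lit 307) (nat_lit 1) (nat_lit 160) (nat_lit 435) (nat_lit 425)) (XT.lf (nat_lit 836) (nat_lit 12694093193) (nat_lit 0) (nat_lit 155399573858) (nat_lit 760) (nat_lit 155399573858) (nat_lit 298) (nat_lit 1) (nat_lit 287) (nat_lit 1) (nat_lit 297) (nat_lit 1) (nat_lit 161) (nat_lit 435) (nat_lit 424)))) (XT.nd (nat_lit 78) (nat_lit 380) (nat_lit 0) (XT.lf (nat_lit 532) (nat_lit 301246818019) (nat_lit 0) (nat_lit 7604275777) (nat_lit 456) (nat_lit 7604275777) (nat_lit 287) (nat_lit 1) (nat_lit 280) (nat_lit 1) (nat_lit 286) (nat_lit 1) (nat_lit 162) (nat_lit 435) (nat_lit 423)) (XT.nd (nat_lit 78) (nat_lit 380) (nat_lit 0) (XT.lf (nat_lit 76) (nat_lit 131704584536) (nat_lit 0) (nat_lit 46098862904) (nat_lit 532) (nat_lit 131704584536)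 (nat_lit 281) (nat_lit 1) (nat_lit 280) (nat_lit 1) (nat_lit 287) (nat_lit 1) (nat_lit 163) (nat_lit 435) (nat_lit 422)) (XT.lf (nat_lit 456) (nat_lit 226629782886) (nat_lit 0) (nat_lit 38113165450) (nat_lit 380) (nat_lit 38113165450) (nat_lit 281) (nat_lit 1) (nat_lit 275) (nat_lit 1) (nat_lit 280) (nat_lit 1) (nat_lit 164) (nat_lit 435) (nat_lit 421))))) (XT.nd (nat_lit 234) (nat_lit 684) (nat_lit 0) (XT.nd (nat_lit 78) (nat_lit 380) (nat_lit 0) (XT.lf (nat_lit 76) (nat_lit 93943276849) (nat_lit 0) (nat_lit 108457483604) (nat_lit 456) (nat_lit 93943276849) (nat_lit 276) (nat_lit 1) (nat_lit 275) (nat_lit 1) (nat_lit 281) (nat_lit 1) (nat_lit 165) (nat_lit 435) (nat_lit 420)) (XT.nd (nat_lit 78) (nat_lit 0) (nat_lit 0) (XT.lf (nat_lit 456) (nat_lit 149238925936) (nat_lit 0) (nat_lit 70409916543) (nat_lit 380) (nat_lit 70409916543) (nat_lit 276) (nat_lit 1) (nat_lit 270) (nat_lit 1) (nat_lit 275)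 (nat_lit 1) (nat_lit 166) (nat_lit 435) (nat_lit 419)) (XT.lf (nat_lit 76) (nat_lit 54992560815) (nat_lit 0) (nat_lit 173971156182) (nat_lit 456) (nat_lit 54992560815) (nat_lit 271) (nat_lit 1) (nat_lit 270) (nat_lit 1) (nat_lit 276) (nat_lit 1) (nat_lit 167) (nat_lit 435) (nat_lit 418)))) (XT.nd (nat_lit 78) (nat_lit 380) (nat_lit 0) (XT.lf (nat_lit 380) (nat_lit 69794559712) (nat_lit 0) (nat_lit 104108106417) (nat_lit 304) (nat_lit 104108106417) (nat_lit 271) (nat_lit 1) (nat_lit 266) (nat_lit 1) (nat_lit 270) (nat_lit 1) (nat_lit 168) (nat_lit 435) (nat_lit 417)) (XT.nd (nat_lit 78) (nat_lit 380) (nat_lit 0) (XT.lf (nat_lit 76) (nat_lit 15186830482) (nat_lit 0) (nat_lit 241920241181) (nat_lit 380) (nat_lit 15186830482) (nat_lit 267) (nat_lit 1) (nat_lit 266) (nat_lit 1) (nat_lit 271) (nat_lit 1) (nat_lit 169) (nat_lit 435) (nat_lit 416)) (XT.lf (nat_lit 76) (nat_lit 127968597581) (nat_lit 0)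 (nat_lit 10717618627) (nat_lit 380) (nat_lit 127968597581) (nat_lit 262) (nat_lit 1) (nat_lit 261) (nat_lit 1) (nat_lit 266) (nat_lit 1) (nat_lit 170) (nat_lit 435) (nat_lit 415)))))) (XT.nd (nat_lit 468) (nat_lit 988) (nat_lit 0) (XT.nd (nat_lit 234) (nat_lit 608) (nat_lit 0) (XT.nd (nat_lit 78) (nat_lit 304) (nat_lit 0) (XT.lf (nat_lit 380) (nat_lit 211680241258) (nat_lit 0) (nat_lit 24775117243) (nat_lit 304) (nat_lit 24775117243) (nat_lit 262) (nat_lit 1) (nat_lit 257) (nat_lit 1) (nat_lit 261) (nat_lit 1) (nat_lit 171) (nat_lit 435) (nat_lit 414)) (XT.nd (nat_lit 78) (nat_lit 304) (nat_lit 0) (XT.lf (nat_lit 76) (nat_lit 83030296730) (nat_lit 0) (nat_lit 89838599960) (nat_lit 380) (nat_lit 83030296730) (nat_lit 258) (nat_lit 1) (nat_lit 257) (nat_lit 1) (nat_lit 262) (nat_lit 1) (nat_lit 172) (nat_lit 435) (nat_lit 413)) (XT.lf (nat_lit 380) (nat_lit 121164300165) (nat_lit 0) (nat_lit 64794240528)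 (nat_lit 304) (nat_lit 64794240528) (nat_lit 258) (nat_lit 1) (nat_lit 253) (nat_lit 1) (nat_lit 257) (nat_lit 1) (nat_lit 173) (nat_lit 435) (nat_lit 412)))) (XT.nd (nat_lit 78) (nat_lit 608) (nat_lit 0) (XT.lf (nat_lit 76) (nat_lit 38209812798) (nat_lit 0) (nat_lit 169337224961) (nat_lit 380) (nat_lit 38209812798) (nat_lit 254) (nat_lit 1) (nat_lit 253) (nat_lit 1) (nat_lit 258) (nat_lit 1) (nat_lit 174) (nat_lit 435) (nat_lit 411)) (XT.nd (nat_lit 78) (nat_lit 380) (nat_lit 0) (XT.lf (nat_lit 304) (nat_lit 31074404252) (nat_lit 0) (nat_lit 104897178893) (nat_lit 228) (nat_lit 104897178893) (nat_lit 254) (nat_lit 1) (nat_lit 250) (nat_lit 1) (nat_lit 253) (nat_lit 1) (nat_lit 175) (nat_lit 435) (nat_lit 410)) (XT.lf (nat_lit 380) (nat_lit 223751936245) (nat_lit 0) (nat_lit 6208686897) (nat_lit 304) (nat_lit 6208686897) (nat_lit 250) (nat_lit 1) (nat_lit 245) (nat_lit 1) (nat_lit 249) (nat_lit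 1) (nat_lit 176) (nat_lit 435) (nat_lit 409))))) (XT.nd (nat_lit 234) (nat_lit 760) (nat_lit 0) (XT.nd (nat_lit 78) (nat_lit 228) (nat_lit 0) (XT.lf (nat_lit 76) (nat_lit 87555786822) (nat_lit 0) (nat_lit 56384295297) (nat_lit 380) (nat_lit 87555786822) (nat_lit 246) (nat_lit 1) (nat_lit 245) (nat_lit 1) (nat_lit 250) (nat_lit 1) (nat_lit 177) (nat_lit 435) (nat_lit 408)) (XT.nd (nat_lit 78) (nat_lit 0) (nat_lit 0) (XT.lf (nat_lit 304) (nat_lit 127877994670) (nat_lit 0) (nat_lit 49561836038) (nat_lit 228) (nat_lit 49561836038) (nat_lit 246) (nat_lit 1) (nat_lit 242) (nat_lit 1) (nat_lit 245) (nat_lit 1) (nat_lit 178) (nat_lit 435) (nat_lit 407)) (XT.lf (nat_lit 76) (nat_lit 40398636586) (nat_lit 0) (nat_lit 141824374314) (nat_lit 304) (nat_lit 40398636586) (nat_lit 243) (nat_lit 1) (nat_lit 242) (nat_lit 1) (nat_lit 246) (nat_lit 1) (nat_lit 179) (nat_lit 435) (nat_lit 406)))) (XT.nd (nat_lit 156)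 (nat_lit 228) (nat_lit 0) (XT.nd (nat_lit 78) (nat_lit 304) (nat_lit 0) (XT.lf (nat_lit 304) (nat_lit 33671000887) (nat_lit 0) (nat_lit 92335135797) (nat_lit 228) (nat_lit 92335135797) (nat_lit 243) (nat_lit 1) (nat_lit 239) (nat_lit 1) (nat_lit 242) (nat_lit 1) (nat_lit 180) (nat_lit 435) (nat_lit 405)) (XT.lf (nat_lit 304) (nat_lit 202646500200) (nat_lit 0) (nat_lit 5786709320) (nat_lit 228) (nat_lit 5786709320) (nat_lit 239) (nat_lit 1) (nat_lit 235) (nat_lit 1) (nat_lit 238) (nat_lit 1) (nat_lit 181) (nat_lit 435) (nat_lit 404))) (XT.nd (nat_lit 78) (nat_lit 228) (nat_lit 0) (XT.lf (nat_lit 76) (nat_lit 76655367595) (nat_lit 0) (nat_lit 56800857683) (nat_lit 304) (nat_lit 76655367595) (nat_lit 236) (nat_lit 1) (nat_lit 235) (nat_lit 1) (nat_lit 239) (nat_lit 1) (nat_lit 182) (nat_lit 435) (nat_lit 403)) (XT.lf (nat_lit 304) (nat_lit 105408149459) (nat_lit 0) (nat_lit 50373563083) (nat_lit 228)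 (nat_lit 50373563083) (nat_lit 236) (nat_lit 1) (nat_lit 232) (nat_lit 1) (nat_lit 235) (nat_lit 1) (nat_lit 183) (nat_lit 435) (nat_lit 402))))))) (XT.nd (nat_lit 936) (nat_lit 1368) (nat_lit 0) (XT.nd (nat_lit 468) (nat_lit 760) (nat_lit 0) (XT.nd (nat_lit 234) (nat_lit 152) (nat_lit 0) (XT.nd (nat_lit 78) (nat_lit 456) (nat_lit 0) (XT.lf (nat_lit 76) (nat_lit 29029318394) (nat_lit 0) (nat_lit 144246431819) (nat_lit 304) (nat_lit 29029318394) (nat_lit 233) (nat_lit 1) (nat_lit 232) (nat_lit 1) (nat_lit 236) (nat_lit 1) (nat_lit 184) (nat_lit 435) (nat_lit 401)) (XT.nd (nat_lit 78) (nat_lit 304) (nat_lit 0) (XT.lf (nat_lit 228) (nat_lit 10637307465) (nat_lit 0) (nat_lit 93945054482) (nat_lit 152) (nat_lit 93945054482) (nat_lit 233) (nat_lit 1) (nat_lit 230) (nat_lit 1) (nat_lit 232) (nat_lit 1) (nat_lit 185) (nat_lit 435) (nat_lit 400)) (XT.lf (nat_lit 304) (nat_lit 160726148948) (nat_lit 0) (nat_lit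 17070282015) (nat_lit 228) (nat_lit 17070282015) (nat_lit 230) (nat_lit 1) (nat_lit 226) (nat_lit 1) (nat_lit 229) (nat_lit 1) (nat_lit 186) (nat_lit 435) (nat_lit 399)))) (XT.nd (nat_lit 78) (nat_lit 152) (nat_lit 0) (XT.lf (nat_lit 76) (nat_lit 56137828649) (nat_lit 0) (nat_lit 78971293676) (nat_lit 304) (nat_lit 56137828649) (nat_lit 227) (nat_lit 1) (nat_lit 226) (nat_lit 1) (nat_lit 230) (nat_lit 1) (nat_lit 187) (nat_lit 435) (nat_lit 398)) (XT.nd (nat_lit 78) (nat_lit 0) (nat_lit 0) (XT.lf (nat_lit 228) (nat_lit 64858601374) (nat_lit 0) (nat_lit 61440151689) (nat_lit 152) (nat_lit 61440151689) (nat_lit 227) (nat_lit 1) (nat_lit 224) (nat_lit 1) (nat_lit 226) (nat_lit 1) (nat_lit 188) (nat_lit 435) (nat_lit 397)) (XT.lf (nat_lit 76) (nat_lit 9318122367) (nat_lit 0) (nat_lit 165711032392) (nat_lit 228) (nat_lit 9318122367) (nat_lit 225) (nat_lit 1) (nat_lit 224) (nat_lit 1) (nat_lit 227) (nat_lit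 1) (nat_lit 189) (nat_lit 435) (nat_lit 396))))) (XT.nd (nat_lit 234) (nat_lit 380) (nat_lit 0) (XT.nd (nat_lit 78) (nat_lit 152) (nat_lit 0) (XT.lf (nat_lit 76) (nat_lit 76904098716) (nat_lit 0) (nat_lit 27159780877) (nat_lit 228) (nat_lit 76904098716) (nat_lit 222) (nat_lit 1) (nat_lit 221) (nat_lit 1) (nat_lit 224) (nat_lit 1) (nat_lit 190) (nat_lit 435) (nat_lit 395)) (XT.nd (nat_lit 78) (nat_lit 0) (nat_lit 0) (XT.lf (nat_lit 228) (nat_lit 106794819670) (nat_lit 0) (nat_lit 35452986630) (nat_lit 152) (nat_lit 35452986630) (nat_lit 222) (nat_lit 1) (nat_lit 219) (nat_lit 1) (nat_lit 221) (nat_lit 1) (nat_lit 191) (nat_lit 435) (nat_lit 394)) (XT.lf (nat_lit 76) (nat_lit 30134719717) (nat_lit 0) (nat_lit 114236380052) (nat_lit 228) (nat_lit 30134719717) (nat_lit 220) (nat_lit 1) (nat_lit 219) (nat_lit 1) (nat_lit 222) (nat_lit 1) (nat_lit 192) (nat_lit 435) (nat_lit 393)))) (XT.nd (nat_lit 78)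 (nat_lit 228) (nat_lit 0) (XT.lf (nat_lit 228) (nat_lit 14117031236) (nat_lit 0) (nat_lit 78629108621) (nat_lit 152) (nat_lit 78629108621) (nat_lit 220) (nat_lit 1) (nat_lit 217) (nat_lit 1) (nat_lit 219) (nat_lit 1) (nat_lit 193) (nat_lit 435) (nat_lit 392)) (XT.nd (nat_lit 78) (nat_lit 0) (nat_lit 0) (XT.lf (nat_lit 228) (nat_lit 138751303206) (nat_lit 0) (nat_lit 14792042490) (nat_lit 152) (nat_lit 14792042490) (nat_lit 217) (nat_lit 1) (nat_lit 214) (nat_lit 1) (nat_lit 216) (nat_lit 1) (nat_lit 194) (nat_lit 435) (nat_lit 391)) (XT.lf (nat_lit 76) (nat_lit 46190648855) (nat_lit 0) (nat_lit 72940175058) (nat_lit 228) (nat_lit 46190648855) (nat_lit 215) (nat_lit 1) (nat_lit 214) (nat_lit 1) (nat_lit 217) (nat_lit 1) (nat_lit 195) (nat_lit 435) (nat_lit 390)))))) (XT.nd (nat_lit 468) (nat_lit 760) (nat_lit 0) (XT.nd (nat_lit 234) (nat_lit 304) (nat_lit 0) (XT.nd (nat_lit 78) (nat_lit 152) (nat_lit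 0) (XT.lf (nat_lit 228) (nat_lit 47042933276) (nat_lit 0) (nat_lit 57676061107) (nat_lit 152) (nat_lit 57676061107) (nat_lit 215) (nat_lit 1) (nat_lit 212) (nat_lit 1) (nat_lit 214) (nat_lit 1) (nat_lit 196) (nat_lit 435) (nat_lit 389)) (XT.nd (nat_lit 78) (nat_lit 152) (nat_lit 0) (XT.lf (nat_lit 76) (nat_lit 1546171475) (nat_lit 0) (nat_lit 156478924867) (nat_lit 228) (nat_lit 1546171475) (nat_lit 213) (nat_lit 1) (nat_lit 212) (nat_lit 1) (nat_lit 215) (nat_lit 1) (nat_lit 197) (nat_lit 435) (nat_lit 388)) (XT.lf (nat_lit 76) (nat_lit 58380913855) (nat_lit 0) (nat_lit 39967702988) (nat_lit 152) (nat_lit 58380913855) (nat_lit 211) (nat_lit 1) (nat_lit 210) (nat_lit 1) (nat_lit 212) (nat_lit 1) (nat_lit 198) (nat_lit 435) (nat_lit 387)))) (XT.nd (nat_lit 78) (nat_lit 152) (nat_lit 0) (XT.lf (nat_lit 228) (nat_lit 72444067859) (nat_lit 0) (nat_lit 40771856165) (nat_lit 152) (nat_lit 40771856165)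 (nat_lit 211) (nat_lit 1) (nat_lit 208) (nat_lit 1) (nat_lit 210) (nat_lit 1) (nat_lit 199) (nat_lit 435) (nat_lit 386)) (XT.nd (nat_lit 78) (nat_lit 152) (nat_lit 0) (XT.lf (nat_lit 76) (nat_lit 14524534927) (nat_lit 0) (nat_lit 122270966629) (nat_lit 228) (nat_lit 14524534927) (nat_lit 209) (nat_lit 1) (nat_lit 208) (nat_lit 1) (nat_lit 211) (nat_lit 1) (nat_lit 200) (nat_lit 435) (nat_lit 385)) (XT.lf (nat_lit 76) (nat_lit 67439410624) (nat_lit 0) (nat_lit 13795471451) (nat_lit 152) (nat_lit 67439410624) (nat_lit 207) (nat_lit 1) (nat_lit 206) (nat_lit 1) (nat_lit 208) (nat_lit 1) (nat_lit 201) (nat_lit 435) (nat_lit 384))))) (XT.nd (nat_lit 234) (nat_lit 532) (nat_lit 0) (XT.nd (nat_lit 78) (nat_lit 76) (nat_lit 0) (XT.lf (nat_lit 228) (nat_lit 91734895083) (nat_lit 0) (nat_lit 27182743118) (nat_lit 152) (nat_lit 27182743118) (nat_lit 207) (nat_lit 1) (nat_lit 204) (nat_lit 1) (nat_lit 206)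 (nat_lit 1) (nat_lit 202) (nat_lit 435) (nat_lit 383)) (XT.nd (nat_lit 78) (nat_lit 76) (nat_lit 0) (XT.lf (nat_lit 76) (nat_lit 24570795427) (nat_lit 0) (nat_lit 94435834354) (nat_lit 228) (nat_lit 24570795427) (nat_lit 205) (nat_lit 1) (nat_lit 204) (nat_lit 1) (nat_lit 207) (nat_lit 1) (nat_lit 203) (nat_lit 435) (nat_lit 382)) (XT.lf (nat_lit 152) (nat_lit 7053380590) (nat_lit 0) (nat_lit 67024348956) (nat_lit 76) (nat_lit 67024348956) (nat_lit 205) (nat_lit 1) (nat_lit 203) (nat_lit 1) (nat_lit 204) (nat_lit 1) (nat_lit 204) (nat_lit 435) (nat_lit 381)))) (XT.nd (nat_lit 156) (nat_lit 304) (nat_lit 0) (XT.nd (nat_lit 78) (nat_lit 0) (nat_lit 0) (XT.lf (nat_lit 228) (nat_lit 106075269183) (nat_lit 0) (nat_lit 16305820652) (nat_lit 152) (nat_lit 16305820652) (nat_lit 203) (nat_lit 1) (nat_lit 200) (nat_lit 1) (nat_lit 202) (nat_lit 1) (nat_lit 205) (nat_lit 435) (nat_lit 380)) (XT.lf (nat_lit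 76) (nat_lit 32234858584) (nat_lit 0) (nat_lit 71828982740) (nat_lit 228) (nat_lit 32234858584) (nat_lit 201) (nat_lit 1) (nat_lit 200) (nat_lit 1) (nat_lit 203) (nat_lit 1) (nat_lit 206) (nat_lit 435) (nat_lit 379))) (XT.nd (nat_lit 78) (nat_lit 228) (nat_lit 0) (XT.lf (nat_lit 152) (nat_lit 23686849938) (nat_lit 0) (nat_lit 55141097758) (nat_lit 76) (nat_lit 55141097758) (nat_lit 201) (nat_lit 1) (nat_lit 199) (nat_lit 1) (nat_lit 200) (nat_lit 1) (nat_lit 207) (nat_lit 435) (nat_lit 378)) (XT.lf (nat_lit 228) (nat_lit 116415761684) (nat_lit 0) (nat_lit 7645801497) (nat_lit 152) (nat_lit 7645801497) (nat_lit 199) (nat_lit 1) (nat_lit 196) (nat_lit 1) (nat_lit 198) (nat_lit 1) (nat_lit 208) (nat_lit 435) (nat_lit 377))))))))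
noncomputable def ec434 : XT := (XT.nd (nat_lit 1950) (nat_lit 1976) (nat_lit 0) (XT.nd (nat_lit 936) (nat_lit 988) (nat_lit 0) (XT.nd (nat_lit 468) (nat_lit 456) (nat_lit 0) (XT.nd (nat_lit 234) (nat_lit 76) (nat_lit 0) (XT.nd (nat_lit 78) (nat_lit 304) (nat_lit 0) (XT.lf (nat_lit 76) (nat_lit 37967702102) (nat_lit 0) (nat_lit 53509489584) (nat_lit 228) (nat_lit 37967702102) (nat_lit 197) (nat_lit 1) (nat_lit 196) (nat_lit 1) (nat_lit 199) (nat_lit 1) (nat_lit 209) (nat_lit 435) (nat_lit 376)) (XT.nd (nat_lit 78) (nat_lit 228) (nat_lit 0) (XT.lf (nat_lit 152) (nat_lit 36519626512) (nat_lit 0) (nat_lit 45364717588) (nat_lit 76) (nat_lit 45364717588) (nat_lit 197) (nat_lit 1) (nat_lit 195) (nat_lit 1) (nat_lit 196) (nat_lit 1) (nat_lit 210) (nat_lit 435) (nat_lit 375)) (XT.lf (nat_lit 228) (nat_lit 123534940207) (nat_lit 0) (nat_lit 795898378) (nat_lit 152) (nat_lit 795898378) (nat_lit 195) (nat_lit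 1) (nat_lit 192) (nat_lit 1) (nat_lit 194) (nat_lit 1) (nat_lit 211) (nat_lit 435) (nat_lit 374)))) (XT.nd (nat_lit 78) (nat_lit 76) (nat_lit 0) (XT.lf (nat_lit 76) (nat_lit 42138983596) (nat_lit 0) (nat_lit 38703920669) (nat_lit 228) (nat_lit 42138983596) (nat_lit 193) (nat_lit 1) (nat_lit 192) (nat_lit 1) (nat_lit 195) (nat_lit 1) (nat_lit 212) (nat_lit 435) (nat_lit 373)) (XT.nd (nat_lit 78) (nat_lit 0) (nat_lit 0) (XT.lf (nat_lit 152) (nat_lit 46266117061) (nat_lit 0) (nat_lit 37321665428) (nat_lit 76) (nat_lit 37321665428) (nat_lit 193) (nat_lit 1) (nat_lit 191) (nat_lit 1) (nat_lit 192) (nat_lit 1) (nat_lit 213) (nat_lit 435) (nat_lit 372)) (XT.lf (nat_lit 0) (nat_lit 4652947047) (nat_lit 0) (nat_lit 109593684306) (nat_lit 152) (nat_lit 4652947047) (nat_lit 191) (nat_lit 3) (nat_lit 191) (nat_lit 1) (nat_lit 193) (nat_lit 1) (nat_lit 214) (nat_lit 435) (nat_lit 371))))) (XT.nd (nat_lit 234)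 (nat_lit 228) (nat_lit 0) (XT.nd (nat_lit 78) (nat_lit 76) (nat_lit 0) (XT.lf (nat_lit 76) (nat_lit 45051523342) (nat_lit 0) (nat_lit 26776602903) (nat_lit 152) (nat_lit 45051523342) (nat_lit 190) (nat_lit 1) (nat_lit 189) (nat_lit 1) (nat_lit 191) (nat_lit 1) (nat_lit 215) (nat_lit 435) (nat_lit 370)) (XT.nd (nat_lit 78) (nat_lit 0) (nat_lit 0) (XT.lf (nat_lit 152) (nat_lit 53512134673) (nat_lit 0) (nat_lit 30704626511) (nat_lit 76) (nat_lit 30704626511) (nat_lit 190) (nat_lit 1) (nat_lit 188) (nat_lit 1) (nat_lit 189) (nat_lit 1) (nat_lit 216) (nat_lit 435) (nat_lit 369)) (XT.lf (nat_lit 0) (nat_lit 8893199467) (nat_lit 0) (nat_lit 95228203716) (nat_lit 152) (nat_lit 8893199467) (nat_lit 188) (nat_lit 3) (nat_lit 188) (nat_lit 1) (nat_lit 190) (nat_lit 1) (nat_lit 217) (nat_lit 435) (nat_lit 368)))) (XT.nd (nat_lit 78) (nat_lit 76) (nat_lit 0) (XT.lf (nat_lit 76) (nat_lit 46953216177) (nat_lit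 0) (nat_lit 17205169460) (nat_lit 152) (nat_lit 46953216177) (nat_lit 187) (nat_lit 1) (nat_lit 186) (nat_lit 1) (nat_lit 188) (nat_lit 1) (nat_lit 218) (nat_lit 435) (nat_lit 367)) (XT.nd (nat_lit 78) (nat_lit 0) (nat_lit 0) (XT.lf (nat_lit 152) (nat_lit 58737790072) (nat_lit 0) (nat_lit 25260772218) (nat_lit 76) (nat_lit 25260772218) (nat_lit 187) (nat_lit 1) (nat_lit 185) (nat_lit 1) (nat_lit 186) (nat_lit 1) (nat_lit 219) (nat_lit 435) (nat_lit 366)) (XT.lf (nat_lit 0) (nat_lit 12140465225) (nat_lit 0) (nat_lit 83168486882) (nat_lit 152) (nat_lit 12140465225) (nat_lit 185) (nat_lit 3) (nat_lit 185) (nat_lit 1) (nat_lit 187) (nat_lit 1) (nat_lit 220) (nat_lit 435) (nat_lit 365)))))) (XT.nd (nat_lit 468) (nat_lit 532) (nat_lit 0) (XT.nd (nat_lit 234) (nat_lit 228) (nat_lit 0) (XT.nd (nat_lit 78) (nat_lit 76) (nat_lit 0) (XT.lf (nat_lit 76) (nat_lit 48046828510) (nat_lit 0) (nat_lit 9560442146)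 (nat_lit 152) (nat_lit 48046828510) (nat_lit 184) (nat_lit 1) (nat_lit 183) (nat_lit 1) (nat_lit 185) (nat_lit 1) (nat_lit 221) (nat_lit 435) (nat_lit 364)) (XT.nd (nat_lit 78) (nat_lit 0) (nat_lit 0) (XT.lf (nat_lit 152) (nat_lit 62336319966) (nat_lit 0) (nat_lit 20782099819) (nat_lit 76) (nat_lit 20782099819) (nat_lit 184) (nat_lit 1) (nat_lit 182) (nat_lit 1) (nat_lit 183) (nat_lit 1) (nat_lit 222) (nat_lit 435) (nat_lit 363)) (XT.lf (nat_lit 0) (nat_lit 14582284133) (nat_lit 0) (nat_lit 73017213330) (nat_lit 152) (nat_lit 14582284133) (nat_lit 182) (nat_lit 3) (nat_lit 182) (nat_lit 1) (nat_lit 184) (nat_lit 1) (nat_lit 223) (nat_lit 435) (nat_lit 362)))) (XT.nd (nat_lit 78) (nat_lit 76) (nat_lit 0) (XT.lf (nat_lit 76) (nat_lit 48498055543) (nat_lit 0) (nat_lit 3489881940) (nat_lit 152) (nat_lit 48498055543) (nat_lit 181) (nat_lit 1) (nat_lit 180) (nat_lit 1) (nat_lit 182) (nat_lit 1) (nat_lit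 224) (nat_lit 435) (nat_lit 361)) (XT.nd (nat_lit 78) (nat_lit 0) (nat_lit 0) (XT.lf (nat_lit 152) (nat_lit 64629573000) (nat_lit 0) (nat_lit 17097484952) (nat_lit 76) (nat_lit 17097484952) (nat_lit 181) (nat_lit 1) (nat_lit 179) (nat_lit 1) (nat_lit 180) (nat_lit 1) (nat_lit 225) (nat_lit 435) (nat_lit 360)) (XT.lf (nat_lit 0) (nat_lit 16372398718) (nat_lit 0) (nat_lit 64446959582) (nat_lit 152) (nat_lit 16372398718) (nat_lit 179) (nat_lit 3) (nat_lit 179) (nat_lit 1) (nat_lit 181) (nat_lit 1) (nat_lit 226) (nat_lit 435) (nat_lit 359))))) (XT.nd (nat_lit 234) (nat_lit 304) (nat_lit 0) (XT.nd (nat_lit 78) (nat_lit 152) (nat_lit 0) (XT.lf (nat_lit 76) (nat_lit 1338877429) (nat_lit 0) (nat_lit 47124173490) (nat_lit 76) (nat_lit 47124173490) (nat_lit 179) (nat_lit 3) (nat_lit 178) (nat_lit 1) (nat_lit 179) (nat_lit 1) (nat_lit 227) (nat_lit 435) (nat_lit 358)) (XT.nd (nat_lit 78) (nat_lit 0) (nat_lit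 0) (XT.lf (nat_lit 152) (nat_lit 65880746124) (nat_lit 0) (nat_lit 14066143183) (nat_lit 76) (nat_lit 14066143183) (nat_lit 178) (nat_lit 1) (nat_lit 176) (nat_lit 1) (nat_lit 177) (nat_lit 1) (nat_lit 228) (nat_lit 435) (nat_lit 357)) (XT.lf (nat_lit 0) (nat_lit 17636772442) (nat_lit 0) (nat_lit 57187832640) (nat_lit 152) (nat_lit 17636772442) (nat_lit 176) (nat_lit 3) (nat_lit 176) (nat_lit 1) (nat_lit 178) (nat_lit 1) (nat_lit 229) (nat_lit 435) (nat_lit 356)))) (XT.nd (nat_lit 156) (nat_lit 76) (nat_lit 0) (XT.nd (nat_lit 78) (nat_lit 152) (nat_lit 0) (XT.lf (nat_lit 76) (nat_lit 5201445023) (nat_lit 0) (nat_lit 42869121401) (nat_lit 76) (nat_lit 42869121401) (nat_lit 176) (nat_lit 3) (nat_lit 175) (nat_lit 1) (nat_lit 176) (nat_lit 1) (nat_lit 230) (nat_lit 435) (nat_lit 355)) (XT.lf (nat_lit 152) (nat_lit 66304859040) (nat_lit 0) (nat_lit 11572250807) (nat_lit 76) (nat_lit 11572250807) (nat_lit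 175) (nat_lit 1) (nat_lit 173) (nat_lit 1) (nat_lit 174) (nat_lit 1) (nat_lit 231) (nat_lit 435) (nat_lit 354))) (XT.nd (nat_lit 78) (nat_lit 76) (nat_lit 0) (XT.lf (nat_lit 0) (nat_lit 18478539668) (nat_lit 0) (nat_lit 51017294773) (nat_lit 152) (nat_lit 18478539668) (nat_lit 173) (nat_lit 3) (nat_lit 173) (nat_lit 1) (nat_lit 175) (nat_lit 1) (nat_lit 232) (nat_lit 435) (nat_lit 353)) (XT.lf (nat_lit 76) (nat_lit 8183953358) (nat_lit 0) (nat_lit 39173243935) (nat_lit 76) (nat_lit 39173243935) (nat_lit 173) (nat_lit 3) (nat_lit 172) (nat_lit 1) (nat_lit 173) (nat_lit 1) (nat_lit 233) (nat_lit 435) (nat_lit 352))))))) (XT.nd (nat_lit 936) (nat_lit 1064) (nat_lit 0) (XT.nd (nat_lit 468) (nat_lit 456) (nat_lit 0) (XT.nd (nat_lit 234) (nat_lit 228) (nat_lit 0) (XT.nd (nat_lit 78) (nat_lit 76) (nat_lit 0) (XT.lf (nat_lit 152) (nat_lit 66077367969) (nat_lit 0) (nat_lit 9520519378) (nat_lit 76) (nat_lit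 9520519378) (nat_lit 172) (nat_lit 1) (nat_lit 170) (nat_lit 1) (nat_lit 171) (nat_lit 1) (nat_lit 234) (nat_lit 435) (nat_lit 351)) (XT.nd (nat_lit 78) (nat_lit 76) (nat_lit 0) (XT.lf (nat_lit 0) (nat_lit 18982076822) (nat_lit 0) (nat_lit 45751791174) (nat_lit 152) (nat_lit 18982076822) (nat_lit 170) (nat_lit 3) (nat_lit 170) (nat_lit 1) (nat_lit 172) (nat_lit 1) (nat_lit 235) (nat_lit 435) (nat_lit 350)) (XT.lf (nat_lit 76) (nat_lit 10451731696) (nat_lit 0) (nat_lit 35946697745) (nat_lit 76) (nat_lit 35946697745) (nat_lit 170) (nat_lit 3) (nat_lit 169) (nat_lit 1) (nat_lit 170) (nat_lit 1) (nat_lit 236) (nat_lit 435) (nat_lit 349)))) (XT.nd (nat_lit 78) (nat_lit 76) (nat_lit 0) (XT.lf (nat_lit 152) (nat_lit 65341248771) (nat_lit 0) (nat_lit 7832554853) (nat_lit 76) (nat_lit 7832554853) (nat_lit 169) (nat_lit 1) (nat_lit 167) (nat_lit 1) (nat_lit 168) (nat_lit 1) (nat_lit 237) (nat_lit 435) (nat_lit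 348)) (XT.nd (nat_lit 78) (nat_lit 76) (nat_lit 0) (XT.lf (nat_lit 0) (nat_lit 19216350632) (nat_lit 0) (nat_lit 41239860879) (nat_lit 152) (nat_lit 19216350632) (nat_lit 167) (nat_lit 3) (nat_lit 167) (nat_lit 1) (nat_lit 169) (nat_lit 1) (nat_lit 238) (nat_lit 435) (nat_lit 347)) (XT.lf (nat_lit 76) (nat_lit 12140354118) (nat_lit 0) (nat_lit 33115125781) (nat_lit 76) (nat_lit 33115125781) (nat_lit 167) (nat_lit 3) (nat_lit 166) (nat_lit 1) (nat_lit 167) (nat_lit 1) (nat_lit 239) (nat_lit 435) (nat_lit 346))))) (XT.nd (nat_lit 234) (nat_lit 228) (nat_lit 0) (XT.nd (nat_lit 78) (nat_lit 76) (nat_lit 0) (XT.lf (nat_lit 152) (nat_lit 64212820989) (nat_lit 0) (nat_lit 6443862262) (nat_lit 76) (nat_lit 6443862262) (nat_lit 166) (nat_lit 1) (nat_lit 164) (nat_lit 1) (nat_lit 165) (nat_lit 1) (nat_lit 240) (nat_lit 435) (nat_lit 345)) (XT.nd (nat_lit 78) (nat_lit 76) (nat_lit 0) (XT.lf (nat_lit 0) (nat_lit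 19237671654) (nat_lit 0) (nat_lit 37356468038) (nat_lit 152) (nat_lit 19237671654) (nat_lit 164) (nat_lit 3) (nat_lit 164) (nat_lit 1) (nat_lit 166) (nat_lit 1) (nat_lit 241) (nat_lit 435) (nat_lit 344)) (XT.lf (nat_lit 76) (nat_lit 13360936126) (nat_lit 0) (nat_lit 30616932681) (nat_lit 76) (nat_lit 30616932681) (nat_lit 164) (nat_lit 3) (nat_lit 163) (nat_lit 1) (nat_lit 164) (nat_lit 1) (nat_lit 242) (nat_lit 435) (nat_lit 343)))) (XT.nd (nat_lit 78) (nat_lit 76) (nat_lit 0) (XT.lf (nat_lit 152) (nat_lit 62786536188) (nat_lit 0) (nat_lit 5301381430) (nat_lit 76) (nat_lit 5301381430) (nat_lit 163) (nat_lit 1) (nat_lit 161) (nat_lit 1) (nat_lit 162) (nat_lit 1) (nat_lit 243) (nat_lit 435) (nat_lit 342)) (XT.nd (nat_lit 78) (nat_lit 76) (nat_lit 0) (XT.lf (nat_lit 0) (nat_lit 19091958586) (nat_lit 0) (nat_lit 33998337211) (nat_lit 152) (nat_lit 19091958586) (nat_lit 161) (nat_lit 3) (nat_lit 161)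 (nat_lit 1) (nat_lit 163) (nat_lit 1) (nat_lit 244) (nat_lit 435) (nat_lit 341)) (XT.lf (nat_lit 76) (nat_lit 14204491167) (nat_lit 0) (nat_lit 28401042238) (nat_lit 76) (nat_lit 28401042238) (nat_lit 161) (nat_lit 3) (nat_lit 160) (nat_lit 1) (nat_lit 161) (nat_lit 1) (nat_lit 245) (nat_lit 435) (nat_lit 340)))))) (XT.nd (nat_lit 468) (nat_lit 608) (nat_lit 0) (XT.nd (nat_lit 234) (nat_lit 228) (nat_lit 0) (XT.nd (nat_lit 78) (nat_lit 76) (nat_lit 0) (XT.lf (nat_lit 152) (nat_lit 61138914369) (nat_lit 0) (nat_lit 4361459622) (nat_lit 76) (nat_lit 4361459622) (nat_lit 160) (nat_lit 1) (nat_lit 158) (nat_lit 1) (nat_lit 159) (nat_lit 1) (nat_lit 246) (nat_lit 435) (nat_lit 339)) (XT.nd (nat_lit 78) (nat_lit 76) (nat_lit 0) (XT.lf (nat_lit 0) (nat_lit 18816600156) (nat_lit 0) (nat_lit 31080114741) (nat_lit 152) (nat_lit 18816600156) (nat_lit 158) (nat_lit 3) (nat_lit 158) (nat_lit 1) (nat_lit 160)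 (nat_lit 1) (nat_lit 247) (nat_lit 435) (nat_lit 338)) (XT.lf (nat_lit 76) (nat_lit 14745513798) (nat_lit 0) (nat_lit 26425051498) (nat_lit 76) (nat_lit 26425051498) (nat_lit 158) (nat_lit 3) (nat_lit 157) (nat_lit 1) (nat_lit 158) (nat_lit 1) (nat_lit 248) (nat_lit 435) (nat_lit 337)))) (XT.nd (nat_lit 78) (nat_lit 76) (nat_lit 0) (XT.lf (nat_lit 152) (nat_lit 59331779647) (nat_lit 0) (nat_lit 3588183625) (nat_lit 76) (nat_lit 3588183625) (nat_lit 157) (nat_lit 1) (nat_lit 155) (nat_lit 1) (nat_lit 156) (nat_lit 1) (nat_lit 249) (nat_lit 435) (nat_lit 336)) (XT.nd (nat_lit 78) (nat_lit 76) (nat_lit 0) (XT.lf (nat_lit 0) (nat_lit 18441985971) (nat_lit 0) (nat_lit 28531209769) (nat_lit 152) (nat_lit 18441985971) (nat_lit 155) (nat_lit 3) (nat_lit 155) (nat_lit 1) (nat_lit 157) (nat_lit 1) (nat_lit 250) (nat_lit 435) (nat_lit 335)) (XT.lf (nat_lit 76) (nat_lit 15044926658) (nat_lit 0) (nat_lit 24653711228)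 (nat_lit 76) (nat_lit 24653711228) (nat_lit 155) (nat_lit 3) (nat_lit 154) (nat_lit 1) (nat_lit 155) (nat_lit 1) (nat_lit 251) (nat_lit 435) (nat_lit 334))))) (XT.nd (nat_lit 234) (nat_lit 380) (nat_lit 0) (XT.nd (nat_lit 78) (nat_lit 76) (nat_lit 0) (XT.lf (nat_lit 152) (nat_lit 57414919558) (nat_lit 0) (nat_lit 2952007548) (nat_lit 76) (nat_lit 2952007548) (nat_lit 154) (nat_lit 1) (nat_lit 152) (nat_lit 1) (nat_lit 153) (nat_lit 1) (nat_lit 252) (nat_lit 435) (nat_lit 333)) (XT.nd (nat_lit 78) (nat_lit 76) (nat_lit 0) (XT.lf (nat_lit 0) (nat_lit 17992765075) (nat_lit 0) (nat_lit 26293194463) (nat_lit 152) (nat_lit 17992765075) (nat_lit 152) (nat_lit 3) (nat_lit 152) (nat_lit 1) (nat_lit 154) (nat_lit 1) (nat_lit 253) (nat_lit 435) (nat_lit 332)) (XT.lf (nat_lit 76) (nat_lit 15152504075) (nat_lit 0) (nat_lit 23057674921) (nat_lit 76) (nat_lit 23057674921) (nat_lit 152) (nat_lit 3) (nat_lit 151)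 (nat_lit 1) (nat_lit 152) (nat_lit 1) (nat_lit 254) (nat_lit 435) (nat_lit 331)))) (XT.nd (nat_lit 156) (nat_lit 228) (nat_lit 0) (XT.nd (nat_lit 78) (nat_lit 0) (nat_lit 0) (XT.lf (nat_lit 152) (nat_lit 55428270324) (nat_lit 0) (nat_lit 2428623915) (nat_lit 76) (nat_lit 2428623915) (nat_lit 151) (nat_lit 1) (nat_lit 149) (nat_lit 1) (nat_lit 150) (nat_lit 1) (nat_lit 255) (nat_lit 435) (nat_lit 330)) (XT.lf (nat_lit 0) (nat_lit 17488880524) (nat_lit 0) (nat_lit 24317664323) (nat_lit 152) (nat_lit 17488880524) (nat_lit 149) (nat_lit 3) (nat_lit 149) (nat_lit 1) (nat_lit 151) (nat_lit 1) (nat_lit 256) (nat_lit 435) (nat_lit 329))) (XT.nd (nat_lit 78) (nat_lit 152) (nat_lit 0) (XT.lf (nat_lit 76) (nat_lit 15108865154) (nat_lit 0) (nat_lit 21612468773) (nat_lit 76) (nat_lit 21612468773) (nat_lit 149) (nat_lit 3) (nat_lit 148) (nat_lit 1) (nat_lit 149) (nat_lit 1) (nat_lit 257) (nat_lit 435) (nat_lit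 328)) (XT.lf (nat_lit 152) (nat_lit 53403712229) (nat_lit 0) (nat_lit 1998034905) (nat_lit 76) (nat_lit 1998034905) (nat_lit 148) (nat_lit 1) (nat_lit 146) (nat_lit 1) (nat_lit 147) (nat_lit 1) (nat_lit 258) (nat_lit 435) (nat_lit 327))))))))
noncomputable def ec435 : XT := (XT.nd (nat_lit 1950) (nat_lit 2052) (nat_lit 0) (XT.nd (nat_lit 936) (nat_lit 912) (nat_lit 0) (XT.nd (nat_lit 468) (nat_lit 456) (nat_lit 0) (XT.nd (nat_lit 234) (nat_lit 228) (nat_lit 0) (XT.nd (nat_lit 78) (nat_lit 228) (nat_lit 0) (XT.lf (nat_lit 0) (nat_lit 16946419734) (nat_lit 0) (nat_lit 22564477065) (nat_lit 152) (nat_lit 16946419734) (nat_lit 146) (nat_lit 3) (nat_lit 146) (nat_lit 1) (nat_lit 148) (nat_lit 1) (nat_lit 259) (nat_lit 435) (nat_lit 326)) (XT.nd (nat_lit 78) (nat_lit 152) (nat_lit 0) (XT.lf (nat_lit 76) (nat_lit 14947112709) (nat_lit 0) (nat_lit 20297643501) (nat_lit 76) (nat_lit 20297643501) (nat_lit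 146) (nat_lit 3) (nat_lit 145) (nat_lit 1) (nat_lit 146) (nat_lit 1) (nat_lit 260) (nat_lit 435) (nat_lit 325)) (XT.lf (nat_lit 152) (nat_lit 51366544366) (nat_lit 0) (nat_lit 1643788261) (nat_lit 76) (nat_lit 1643788261) (nat_lit 145) (nat_lit 1) (nat_lit 143) (nat_lit 1) (nat_lit 144) (nat_lit 1) (nat_lit 261) (nat_lit 435) (nat_lit 324)))) (XT.nd (nat_lit 78) (nat_lit 228) (nat_lit 0) (XT.lf (nat_lit 0) (nat_lit 16378313307) (nat_lit 0) (nat_lit 21000302977) (nat_lit 152) (nat_lit 16378313307) (nat_lit 143) (nat_lit 3) (nat_lit 143) (nat_lit 1) (nat_lit 145) (nat_lit 1) (nat_lit 262) (nat_lit 435) (nat_lit 323)) (XT.nd (nat_lit 78) (nat_lit 152) (nat_lit 0) (XT.lf (nat_lit 76) (nat_lit 14694180859) (nat_lit 0) (nat_lit 19096075783) (nat_lit 76) (nat_lit 19096075783) (nat_lit 143) (nat_lit 3) (nat_lit 142) (nat_lit 1) (nat_lit 143) (nat_lit 1) (nat_lit 263) (nat_lit 435) (nat_lit 322)) (XT.lf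 (nat_lit 152) (nat_lit 49336695698) (nat_lit 0) (nat_lit 1352348670) (nat_lit 76) (nat_lit 1352348670) (nat_lit 142) (nat_lit 1) (nat_lit 140) (nat_lit 1) (nat_lit 141) (nat_lit 1) (nat_lit 264) (nat_lit 435) (nat_lit 321))))) (XT.nd (nat_lit 234) (nat_lit 228) (nat_lit 0) (XT.nd (nat_lit 78) (nat_lit 228) (nat_lit 0) (XT.lf (nat_lit 0) (nat_lit 15794909227) (nat_lit 0) (nat_lit 19597431567) (nat_lit 152) (nat_lit 15794909227) (nat_lit 140) (nat_lit 3) (nat_lit 140) (nat_lit 1) (nat_lit 142) (nat_lit 1) (nat_lit 265) (nat_lit 435) (nat_lit 320)) (XT.nd (nat_lit 78) (nat_lit 152) (nat_lit 0) (XT.lf (nat_lit 76) (nat_lit 14371942998) (nat_lit 0) (nat_lit 17993392846) (nat_lit 76) (nat_lit 17993392846) (nat_lit 140) (nat_lit 3) (nat_lit 139) (nat_lit 1) (nat_lit 140) (nat_lit 1) (nat_lit 266) (nat_lit 435) (nat_lit 319)) (XT.lf (nat_lit 152) (nat_lit 47329719293) (nat_lit 0) (nat_lit 1112580598) (nat_lit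 76) (nat_lit 1112580598) (nat_lit 139) (nat_lit 1) (nat_lit 137) (nat_lit 1) (nat_lit 138) (nat_lit 1) (nat_lit 267) (nat_lit 435) (nat_lit 318)))) (XT.nd (nat_lit 78) (nat_lit 228) (nat_lit 0) (XT.lf (nat_lit 0) (nat_lit 15204444564) (nat_lit 0) (nat_lit 18332789104) (nat_lit 152) (nat_lit 15204444564) (nat_lit 137) (nat_lit 3) (nat_lit 137) (nat_lit 1) (nat_lit 139) (nat_lit 1) (nat_lit 268) (nat_lit 435) (nat_lit 317)) (XT.nd (nat_lit 78) (nat_lit 152) (nat_lit 0) (XT.lf (nat_lit 76) (nat_lit 13998122635) (nat_lit 0) (nat_lit 16977498387) (nat_lit 76) (nat_lit 16977498387) (nat_lit 137) (nat_lit 3) (nat_lit 136) (nat_lit 1) (nat_lit 137) (nat_lit 1) (nat_lit 269) (nat_lit 435) (nat_lit 316)) (XT.lf (nat_lit 152) (nat_lit 45357608283) (nat_lit 0) (nat_lit 915322811) (nat_lit 76) (nat_lit 915322811) (nat_lit 136) (nat_lit 1) (nat_lit 134) (nat_lit 1) (nat_lit 135) (nat_lit 1) (nat_lit 270) (nat_lit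 435) (nat_lit 315)))))) (XT.nd (nat_lit 468) (nat_lit 456) (nat_lit 0) (XT.nd (nat_lit 234) (nat_lit 228) (nat_lit 0) (XT.nd (nat_lit 78) (nat_lit 228) (nat_lit 0) (XT.lf (nat_lit 0) (nat_lit 14613432888) (nat_lit 0) (nat_lit 17187129683) (nat_lit 152) (nat_lit 14613432888) (nat_lit 134) (nat_lit 3) (nat_lit 134) (nat_lit 1) (nat_lit 136) (nat_lit 1) (nat_lit 271) (nat_lit 435) (nat_lit 314)) (XT.nd (nat_lit 78) (nat_lit 152) (nat_lit 0) (XT.lf (nat_lit 76) (nat_lit 13587042098) (nat_lit 0) (nat_lit 16038181903) (nat_lit 76) (nat_lit 16038181903) (nat_lit 134) (nat_lit 3) (nat_lit 133) (nat_lit 1) (nat_lit 134) (nat_lit 1) (nat_lit 272) (nat_lit 435) (nat_lit 313)) (XT.lf (nat_lit 152) (nat_lit 43429465242) (nat_lit 0) (nat_lit 753038342) (nat_lit 76) (nat_lit 753038342) (nat_lit 133) (nat_lit 1) (nat_lit 131) (nat_lit 1) (nat_lit 132) (nat_lit 1) (nat_lit 273) (nat_lit 435) (nat_lit 312)))) (XT.nd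 (nat_lit 78) (nat_lit 228) (nat_lit 0) (XT.lf (nat_lit 0) (nat_lit 14026982372) (nat_lit 0) (nat_lit 16144369094) (nat_lit 152) (nat_lit 14026982372) (nat_lit 131) (nat_lit 3) (nat_lit 131) (nat_lit 1) (nat_lit 133) (nat_lit 1) (nat_lit 274) (nat_lit 435) (nat_lit 311)) (XT.nd (nat_lit 78) (nat_lit 152) (nat_lit 0) (XT.lf (nat_lit 76) (nat_lit 13150237887) (nat_lit 0) (nat_lit 15166796671) (nat_lit 76) (nat_lit 15166796671) (nat_lit 131) (nat_lit 3) (nat_lit 130) (nat_lit 1) (nat_lit 131) (nat_lit 1) (nat_lit 275) (nat_lit 435) (nat_lit 310)) (XT.lf (nat_lit 152) (nat_lit 41552051063) (nat_lit 0) (nat_lit 619526507) (nat_lit 76) (nat_lit 619526507) (nat_lit 130) (nat_lit 1) (nat_lit 128) (nat_lit 1) (nat_lit 129) (nat_lit 1) (nat_lit 276) (nat_lit 435) (nat_lit 309))))) (XT.nd (nat_lit 234) (nat_lit 228) (nat_lit 0) (XT.nd (nat_lit 78) (nat_lit 228) (nat_lit 0) (XT.lf (nat_lit 0) (nat_lit 13449056892)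 (nat_lit 0) (nat_lit 15191036188) (nat_lit 152) (nat_lit 13449056892) (nat_lit 128) (nat_lit 3) (nat_lit 128) (nat_lit 1) (nat_lit 130) (nat_lit 1) (nat_lit 277) (nat_lit 435) (nat_lit 308)) (XT.nd (nat_lit 78) (nat_lit 152) (nat_lit 0) (XT.lf (nat_lit 76) (nat_lit 12696966328) (nat_lit 0) (nat_lit 14355994230) (nat_lit 76) (nat_lit 14355994230) (nat_lit 128) (nat_lit 3) (nat_lit 127) (nat_lit 1) (nat_lit 128) (nat_lit 1) (nat_lit 278) (nat_lit 435) (nat_lit 307)) (XT.lf (nat_lit 152) (nat_lit 39730234795) (nat_lit 0) (nat_lit 509685991) (nat_lit 76) (nat_lit 509685991) (nat_lit 127) (nat_lit 1) (nat_lit 125) (nat_lit 1) (nat_lit 126) (nat_lit 1) (nat_lit 279) (nat_lit 435) (nat_lit 306)))) (XT.nd (nat_lit 156) (nat_lit 152) (nat_lit 0) (XT.nd (nat_lit 78) (nat_lit 76) (nat_lit 0) (XT.lf (nat_lit 0) (nat_lit 12882690274) (nat_lit 0) (nat_lit 14315820953) (nat_lit 152) (nat_lit 12882690274) (nat_lit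 125) (nat_lit 3) (nat_lit 125) (nat_lit 1) (nat_lit 127) (nat_lit 1) (nat_lit 280) (nat_lit 435) (nat_lit 305)) (XT.lf (nat_lit 76) (nat_lit 12234619025) (nat_lit 0) (nat_lit 13599505385) (nat_lit 76) (nat_lit 13599505385) (nat_lit 125) (nat_lit 3) (nat_lit 124) (nat_lit 1) (nat_lit 125) (nat_lit 1) (nat_lit 281) (nat_lit 435) (nat_lit 304))) (XT.nd (nat_lit 78) (nat_lit 0) (nat_lit 0) (XT.lf (nat_lit 152) (nat_lit 37967362064) (nat_lit 0) (nat_lit 419319926) (nat_lit 76) (nat_lit 419319926) (nat_lit 124) (nat_lit 1) (nat_lit 122) (nat_lit 1) (nat_lit 123) (nat_lit 1) (nat_lit 282) (nat_lit 435) (nat_lit 303)) (XT.lf (nat_lit 0) (nat_lit 12330162014) (nat_lit 0) (nat_lit 13509202170) (nat_lit 152) (nat_lit 12330162014) (nat_lit 122) (nat_lit 3) (nat_lit 122) (nat_lit 1) (nat_lit 124) (nat_lit 1) (nat_lit 283) (nat_lit 435) (nat_lit 302))))))) (XT.nd (nat_lit 1014) (nat_lit 1064) (nat_lit 0) (XT.nd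 (nat_lit 468) (nat_lit 532) (nat_lit 0) (XT.nd (nat_lit 234) (nat_lit 228) (nat_lit 0) (XT.nd (nat_lit 78) (nat_lit 152) (nat_lit 0) (XT.lf (nat_lit 76) (nat_lit 11769064115) (nat_lit 0) (nat_lit 12891959502) (nat_lit 76) (nat_lit 12891959502) (nat_lit 122) (nat_lit 3) (nat_lit 121) (nat_lit 1) (nat_lit 122) (nat_lit 1) (nat_lit 284) (nat_lit 435) (nat_lit 301)) (XT.nd (nat_lit 78) (nat_lit 0) (nat_lit 0) (XT.lf (nat_lit 152) (nat_lit 36265556611) (nat_lit 0) (nat_lit 344975541) (nat_lit 76) (nat_lit 344975541) (nat_lit 121) (nat_lit 1) (nat_lit 119) (nat_lit 1) (nat_lit 120) (nat_lit 1) (nat_lit 285) (nat_lit 435) (nat_lit 300)) (XT.lf (nat_lit 0) (nat_lit 11793141322) (nat_lit 0) (nat_lit 12763140576) (nat_lit 152) (nat_lit 11793141322) (nat_lit 119) (nat_lit 3) (nat_lit 119) (nat_lit 1) (nat_lit 121) (nat_lit 1) (nat_lit 286) (nat_lit 435) (nat_lit 299)))) (XT.nd (nat_lit 78) (nat_lit 152) (nat_lit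 0) (XT.lf (nat_lit 76) (nat_lit 11304926522) (nat_lit 0) (nat_lit 12228735335) (nat_lit 76) (nat_lit 12228735335) (nat_lit 119) (nat_lit 3) (nat_lit 118) (nat_lit 1) (nat_lit 119) (nat_lit 1) (nat_lit 287) (nat_lit 435) (nat_lit 298)) (XT.nd (nat_lit 78) (nat_lit 0) (nat_lit 0) (XT.lf (nat_lit 152) (nat_lit 34625966869) (nat_lit 0) (nat_lit 283812231) (nat_lit 76) (nat_lit 283812231) (nat_lit 118) (nat_lit 1) (nat_lit 116) (nat_lit 1) (nat_lit 117) (nat_lit 1) (nat_lit 288) (nat_lit 435) (nat_lit 297)) (XT.lf (nat_lit 0) (nat_lit 11272805140) (nat_lit 0) (nat_lit 12070825926) (nat_lit 152) (nat_lit 11272805140) (nat_lit 116) (nat_lit 3) (nat_lit 116) (nat_lit 1) (nat_lit 118) (nat_lit 1) (nat_lit 289) (nat_lit 435) (nat_lit 296))))) (XT.nd (nat_lit 234) (nat_lit 304) (nat_lit 0) (XT.nd (nat_lit 78) (nat_lit 152) (nat_lit 0) (XT.lf (nat_lit 76) (nat_lit 10845818025) (nat_lit 0) (nat_lit 11605837822)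 (nat_lit 76) (nat_lit 11605837822) (nat_lit 116) (nat_lit 3) (nat_lit 115) (nat_lit 1) (nat_lit 116) (nat_lit 1) (nat_lit 290) (nat_lit 435) (nat_lit 295)) (XT.nd (nat_lit 78) (nat_lit 0) (nat_lit 0) (XT.lf (nat_lit 152) (nat_lit 33048967392) (nat_lit 0) (nat_lit 233493025) (nat_lit 76) (nat_lit 233493025) (nat_lit 115) (nat_lit 1) (nat_lit 113) (nat_lit 1) (nat_lit 114) (nat_lit 1) (nat_lit 291) (nat_lit 435) (nat_lit 294)) (XT.lf (nat_lit 0) (nat_lit 10769934770) (nat_lit 0) (nat_lit 11426468447) (nat_lit 152) (nat_lit 10769934770) (nat_lit 113) (nat_lit 3) (nat_lit 113) (nat_lit 1) (nat_lit 115) (nat_lit 1) (nat_lit 292) (nat_lit 435) (nat_lit 293)))) (XT.nd (nat_lit 156) (nat_lit 76) (nat_lit 0) (XT.nd (nat_lit 78) (nat_lit 152) (nat_lit 0) (XT.lf (nat_lit 76) (nat_lit 10394526091) (nat_lit 0) (nat_lit 11019796259) (nat_lit 76) (nat_lit 11019796259) (nat_lit 113) (nat_lit 3) (nat_lit 112) (nat_lit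 1) (nat_lit 113) (nat_lit 1) (nat_lit 293) (nat_lit 435) (nat_lit 292)) (XT.lf (nat_lit 152) (nat_lit 31534323222) (nat_lit 0) (nat_lit 192095289) (nat_lit 76) (nat_lit 192095289) (nat_lit 112) (nat_lit 1) (nat_lit 110) (nat_lit 1) (nat_lit 111) (nat_lit 1) (nat_lit 294) (nat_lit 435) (nat_lit 291))) (XT.nd (nat_lit 78) (nat_lit 76) (nat_lit 0) (XT.lf (nat_lit 0) (nat_lit 10284994926) (nat_lit 0) (nat_lit 10825126807) (nat_lit 152) (nat_lit 10284994926) (nat_lit 110) (nat_lit 3) (nat_lit 110) (nat_lit 1) (nat_lit 112) (nat_lit 1) (nat_lit 295) (nat_lit 435) (nat_lit 290)) (XT.lf (nat_lit 76) (nat_lit 9953168778) (nat_lit 0) (nat_lit 10467580092) (nat_lit 76) (nat_lit 10467580092) (nat_lit 110) (nat_lit 3) (nat_lit 109) (nat_lit 1) (nat_lit 110) (nat_lit 1) (nat_lit 296) (nat_lit 435) (nat_lit 289)))))) (XT.nd (nat_lit 468) (nat_lit 608) (nat_lit 0) (XT.nd (nat_lit 234) (nat_lit 228) (nat_lit 0)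 (XT.nd (nat_lit 78) (nat_lit 76) (nat_lit 0) (XT.lf (nat_lit 152) (nat_lit 30081323812) (nat_lit 0) (nat_lit 158037270) (nat_lit 76) (nat_lit 158037270) (nat_lit 109) (nat_lit 1) (nat_lit 107) (nat_lit 1) (nat_lit 108) (nat_lit 1) (nat_lit 297) (nat_lit 435) (nat_lit 288)) (XT.nd (nat_lit 78) (nat_lit 76) (nat_lit 0) (XT.lf (nat_lit 0) (nat_lit 9818198339) (nat_lit 0) (nat_lit 10262566173) (nat_lit 152) (nat_lit 9818198339) (nat_lit 107) (nat_lit 3) (nat_lit 107) (nat_lit 1) (nat_lit 109) (nat_lit 1) (nat_lit 298) (nat_lit 435) (nat_lit 287)) (XT.lf (nat_lit 76) (nat_lit 9523321765) (nat_lit 0) (nat_lit 9946529226) (nat_lit 76) (nat_lit 9946529226) (nat_lit 107) (nat_lit 3) (nat_lit 106) (nat_lit 1) (nat_lit 107) (nat_lit 1) (nat_lit 299) (nat_lit 435) (nat_lit 286)))) (XT.nd (nat_lit 78) (nat_lit 76) (nat_lit 0) (XT.lf (nat_lit 152) (nat_lit 28688891980) (nat_lit 0) (nat_lit 130017653) (nat_lit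 76) (nat_lit 130017653) (nat_lit 106) (nat_lit 1) (nat_lit 104) (nat_lit 1) (nat_lit 105) (nat_lit 1) (nat_lit 300) (nat_lit 435) (nat_lit 285)) (XT.nd (nat_lit 78) (nat_lit 76) (nat_lit 0) (XT.lf (nat_lit 0) (nat_lit 9369558509) (nat_lit 0) (nat_lit 9735141026) (nat_lit 152) (nat_lit 9369558509) (nat_lit 104) (nat_lit 3) (nat_lit 104) (nat_lit 1) (nat_lit 106) (nat_lit 1) (nat_lit 301) (nat_lit 435) (nat_lit 284)) (XT.lf (nat_lit 76) (nat_lit 9106122460) (nat_lit 0) (nat_lit 9454296286) (nat_lit 76) (nat_lit 9454296286) (nat_lit 104) (nat_lit 3) (nat_lit 103) (nat_lit 1) (nat_lit 104) (nat_lit 1) (nat_lit 302) (nat_lit 435) (nat_lit 283))))) (XT.nd (nat_lit 234) (nat_lit 380) (nat_lit 0) (XT.nd (nat_lit 78) (nat_lit 76) (nat_lit 0) (XT.lf (nat_lit 152) (nat_lit 27355672369) (nat_lit 0) (nat_lit 106965845) (nat_lit 76) (nat_lit 106965845) (nat_lit 103) (nat_lit 1) (nat_lit 101) (nat_lit 1) (nat_lit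 102) (nat_lit 1) (nat_lit 303) (nat_lit 435) (nat_lit 282)) (XT.nd (nat_lit 78) (nat_lit 76) (nat_lit 0) (XT.lf (nat_lit 0) (nat_lit 8938932723) (nat_lit 0) (nat_lit 9239698365) (nat_lit 152) (nat_lit 8938932723) (nat_lit 101) (nat_lit 3) (nat_lit 101) (nat_lit 1) (nat_lit 103) (nat_lit 1) (nat_lit 304) (nat_lit 435) (nat_lit 281)) (XT.lf (nat_lit 76) (nat_lit 8702355270) (nat_lit 0) (nat_lit 8988798738) (nat_lit 76) (nat_lit 8988798738) (nat_lit 101) (nat_lit 3) (nat_lit 100) (nat_lit 1) (nat_lit 101) (nat_lit 1) (nat_lit 305) (nat_lit 435) (nat_lit 280)))) (XT.nd (nat_lit 156) (nat_lit 228) (nat_lit 0) (XT.nd (nat_lit 78) (nat_lit 0) (nat_lit 0) (XT.lf (nat_lit 152) (nat_lit 26080103108) (nat_lit 0) (nat_lit 88001065) (nat_lit 76) (nat_lit 88001065) (nat_lit 100) (nat_lit 1) (nat_lit 98) (nat_lit 1) (nat_lit 99) (nat_lit 1) (nat_lit 306) (nat_lit 435) (nat_lit 279)) (XT.lf (nat_lit 0) (nat_lit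 8526057073) (nat_lit 0) (nat_lit 8773497711) (nat_lit 152) (nat_lit 8526057073) (nat_lit 98) (nat_lit 3) (nat_lit 98) (nat_lit 1) (nat_lit 100) (nat_lit 1) (nat_lit 307) (nat_lit 435) (nat_lit 278))) (XT.nd (nat_lit 78) (nat_lit 152) (nat_lit 0) (XT.lf (nat_lit 76) (nat_lit 8312521394) (nat_lit 0) (nat_lit 8548179145) (nat_lit 76) (nat_lit 8548179145) (nat_lit 98) (nat_lit 3) (nat_lit 97) (nat_lit 1) (nat_lit 98) (nat_lit 1) (nat_lit 308) (nat_lit 435) (nat_lit 277)) (XT.lf (nat_lit 152) (nat_lit 24860473703) (nat_lit 0) (nat_lit 72398694) (nat_lit 76) (nat_lit 72398694) (nat_lit 97) (nat_lit 1) (nat_lit 95) (nat_lit 1) (nat_lit 96) (nat_lit 1) (nat_lit 309) (nat_lit 435) (nat_lit 276))))))))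
noncomputable def ec436 : XT := (XT.nd (nat_lit 1950) (nat_lit 1900) (nat_lit 0) (XT.nd (nat_lit 936) (nat_lit 912) (nat_lit 0) (XT.nd (nat_lit 468) (nat_lit 456) (nat_lit 0) (XT.nd (nat_lit 234) (nat_lit 228) (nat_lit 0) (XT.nd (nat_lit 78) (nat_lit 228) (nat_lit 0) (XT.lf (nat_lit 0) (nat_lit 8130574921) (nat_lit 0) (nat_lit 8334144946) (nat_lit 152) (nat_lit 8130574921) (nat_lit 95) (nat_lit 3) (nat_lit 95) (nat_lit 1) (nat_lit 97) (nat_lit 1) (nat_lit 310) (nat_lit 435) (nat_lit 275)) (XT.nd (nat_lit 78) (nat_lit 152) (nat_lit 0) (XT.lf (nat_lit 76) (nat_lit 7936895901) (nat_lit 0) (nat_lit 8130772116) (nat_lit 76) (nat_lit 8130772116) (nat_lit 95) (nat_lit 3) (nat_lit 94) (nat_lit 1) (nat_lit 95) (nat_lit 1) (nat_lit 311) (nat_lit 435) (nat_lit 274)) (XT.lf (nat_lit 152) (nat_lit 23694971653) (nat_lit 0) (nat_lit 59562585) (nat_lit 76) (nat_lit 59562585) (nat_lit 94) (nat_lit 1) (nat_lit 92)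 (nat_lit 1) (nat_lit 93) (nat_lit 1) (nat_lit 312) (nat_lit 435) (nat_lit 273)))) (XT.nd (nat_lit 78) (nat_lit 228) (nat_lit 0) (XT.lf (nat_lit 0) (nat_lit 7752059982) (nat_lit 0) (nat_lit 7919537545) (nat_lit 152) (nat_lit 7752059982) (nat_lit 92) (nat_lit 3) (nat_lit 92) (nat_lit 1) (nat_lit 94) (nat_lit 1) (nat_lit 313) (nat_lit 435) (nat_lit 272)) (XT.nd (nat_lit 78) (nat_lit 152) (nat_lit 0) (XT.lf (nat_lit 76) (nat_lit 7575574356) (nat_lit 0) (nat_lit 7735076797) (nat_lit 76) (nat_lit 7735076797) (nat_lit 92) (nat_lit 3) (nat_lit 91) (nat_lit 1) (nat_lit 92) (nat_lit 1) (nat_lit 314) (nat_lit 435) (nat_lit 271)) (XT.lf (nat_lit 152) (nat_lit 22581719831) (nat_lit 0) (nat_lit 49002286) (nat_lit 76) (nat_lit 49002286) (nat_lit 91) (nat_lit 1) (nat_lit 89) (nat_lit 1) (nat_lit 90) (nat_lit 1) (nat_lit 315) (nat_lit 435) (nat_lit 270))))) (XT.nd (nat_lit 234) (nat_lit 228) (nat_lit 0) (XT.nd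 (nat_lit 78) (nat_lit 228) (nat_lit 0) (XT.lf (nat_lit 0) (nat_lit 7390035001) (nat_lit 0) (nat_lit 7527819207) (nat_lit 152) (nat_lit 7390035001) (nat_lit 89) (nat_lit 3) (nat_lit 89) (nat_lit 1) (nat_lit 91) (nat_lit 1) (nat_lit 316) (nat_lit 435) (nat_lit 269)) (XT.nd (nat_lit 78) (nat_lit 152) (nat_lit 0) (XT.lf (nat_lit 76) (nat_lit 7228510871) (nat_lit 0) (nat_lit 7359733925) (nat_lit 76) (nat_lit 7359733925) (nat_lit 89) (nat_lit 3) (nat_lit 88) (nat_lit 1) (nat_lit 89) (nat_lit 1) (nat_lit 317) (nat_lit 435) (nat_lit 268)) (XT.lf (nat_lit 152) (nat_lit 21518806326) (nat_lit 0) (nat_lit 40314302) (nat_lit 76) (nat_lit 40314302) (nat_lit 88) (nat_lit 1) (nat_lit 86) (nat_lit 1) (nat_lit 87) (nat_lit 1) (nat_lit 318) (nat_lit 435) (nat_lit 267)))) (XT.nd (nat_lit 78) (nat_lit 228) (nat_lit 0) (XT.lf (nat_lit 0) (nat_lit 7043986817) (nat_lit 0) (nat_lit 7157342225) (nat_lit 152) (nat_lit 7043986817)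 (nat_lit 86) (nat_lit 3) (nat_lit 86) (nat_lit 1) (nat_lit 88) (nat_lit 1) (nat_lit 319) (nat_lit 435) (nat_lit 266)) (XT.nd (nat_lit 78) (nat_lit 152) (nat_lit 0) (XT.lf (nat_lit 76) (nat_lit 6895549117) (nat_lit 0) (nat_lit 7003506648) (nat_lit 76) (nat_lit 7003506648) (nat_lit 86) (nat_lit 3) (nat_lit 85) (nat_lit 1) (nat_lit 86) (nat_lit 1) (nat_lit 320) (nat_lit 435) (nat_lit 265)) (XT.lf (nat_lit 152) (nat_lit 20504308110) (nat_lit 0) (nat_lit 33166676) (nat_lit 76) (nat_lit 33166676) (nat_lit 85) (nat_lit 1) (nat_lit 83) (nat_lit 1) (nat_lit 84) (nat_lit 1) (nat_lit 321) (nat_lit 435) (nat_lit 264)))))) (XT.nd (nat_lit 468) (nat_lit 456) (nat_lit 0) (XT.nd (nat_lit 234) (nat_lit 228) (nat_lit 0) (XT.nd (nat_lit 78) (nat_lit 228) (nat_lit 0) (XT.lf (nat_lit 0) (nat_lit 6713378466) (nat_lit 0) (nat_lit 6806636240) (nat_lit 152) (nat_lit 6713378466) (nat_lit 83) (nat_lit 3) (nat_lit 83) (nat_lit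 1) (nat_lit 85) (nat_lit 1) (nat_lit 322) (nat_lit 435) (nat_lit 263)) (XT.nd (nat_lit 78) (nat_lit 152) (nat_lit 0) (XT.lf (nat_lit 76) (nat_lit 6576447546) (nat_lit 0) (nat_lit 6665264474) (nat_lit 76) (nat_lit 6665264474) (nat_lit 83) (nat_lit 3) (nat_lit 82) (nat_lit 1) (nat_lit 83) (nat_lit 1) (nat_lit 323) (nat_lit 435) (nat_lit 262)) (XT.lf (nat_lit 152) (nat_lit 19536309684) (nat_lit 0) (nat_lit 27286306) (nat_lit 76) (nat_lit 27286306) (nat_lit 82) (nat_lit 1) (nat_lit 80) (nat_lit 1) (nat_lit 81) (nat_lit 1) (nat_lit 324) (nat_lit 435) (nat_lit 261)))) (XT.nd (nat_lit 78) (nat_lit 228) (nat_lit 0) (XT.lf (nat_lit 0) (nat_lit 6397658868) (nat_lit 0) (nat_lit 6474382269) (nat_lit 152) (nat_lit 6397658868) (nat_lit 80) (nat_lit 3) (nat_lit 80) (nat_lit 1) (nat_lit 82) (nat_lit 1) (nat_lit 325) (nat_lit 435) (nat_lit 260)) (XT.nd (nat_lit 78) (nat_lit 152) (nat_lit 0) (XT.lf (nat_lit 76)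 (nat_lit 6270899884) (nat_lit 0) (nat_lit 6343969790) (nat_lit 76) (nat_lit 6343969790) (nat_lit 80) (nat_lit 3) (nat_lit 79) (nat_lit 1) (nat_lit 80) (nat_lit 1) (nat_lit 326) (nat_lit 435) (nat_lit 259)) (XT.lf (nat_lit 152) (nat_lit 18612917619) (nat_lit 0) (nat_lit 22448511) (nat_lit 76) (nat_lit 22448511) (nat_lit 79) (nat_lit 1) (nat_lit 77) (nat_lit 1) (nat_lit 78) (nat_lit 1) (nat_lit 327) (nat_lit 435) (nat_lit 258))))) (XT.nd (nat_lit 234) (nat_lit 228) (nat_lit 0) (XT.nd (nat_lit 78) (nat_lit 228) (nat_lit 0) (XT.lf (nat_lit 0) (nat_lit 6096270535) (nat_lit 0) (nat_lit 6159391067) (nat_lit 152) (nat_lit 6096270535) (nat_lit 77) (nat_lit 3) (nat_lit 77) (nat_lit 1) (nat_lit 79) (nat_lit 1) (nat_lit 328) (nat_lit 435) (nat_lit 257)) (XT.nd (nat_lit 78) (nat_lit 152) (nat_lit 0) (XT.lf (nat_lit 76) (nat_lit 5978551722) (nat_lit 0) (nat_lit 6038666515) (nat_lit 76) (nat_lit 6038666515) (nat_lit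 77) (nat_lit 3) (nat_lit 76) (nat_lit 1) (nat_lit 77) (nat_lit 1) (nat_lit 329) (nat_lit 435) (nat_lit 256)) (XT.lf (nat_lit 152) (nat_lit 17732271763) (nat_lit 0) (nat_lit 18468446) (nat_lit 76) (nat_lit 18468446) (nat_lit 76) (nat_lit 1) (nat_lit 74) (nat_lit 1) (nat_lit 75) (nat_lit 1) (nat_lit 330) (nat_lit 435) (nat_lit 255)))) (XT.nd (nat_lit 156) (nat_lit 152) (nat_lit 0) (XT.nd (nat_lit 78) (nat_lit 76) (nat_lit 0) (XT.lf (nat_lit 0) (nat_lit 5808655668) (nat_lit 0) (nat_lit 5860585086) (nat_lit 152) (nat_lit 5808655668) (nat_lit 74) (nat_lit 3) (nat_lit 74) (nat_lit 1) (nat_lit 76) (nat_lit 1) (nat_lit 331) (nat_lit 435) (nat_lit 254)) (XT.lf (nat_lit 76) (nat_lit 5699013935) (nat_lit 0) (nat_lit 5748470523) (nat_lit 76) (nat_lit 5748470523) (nat_lit 74) (nat_lit 3) (nat_lit 73) (nat_lit 1) (nat_lit 74) (nat_lit 1) (nat_lit 332) (nat_lit 435) (nat_lit 253))) (XT.nd (nat_lit 78) (nat_lit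 0) (nat_lit 0) (XT.lf (nat_lit 152) (nat_lit 16892553743) (nat_lit 0) (nat_lit 15194036) (nat_lit 76) (nat_lit 15194036) (nat_lit 73) (nat_lit 1) (nat_lit 71) (nat_lit 1) (nat_lit 72) (nat_lit 1) (nat_lit 333) (nat_lit 435) (nat_lit 252)) (XT.lf (nat_lit 0) (nat_lit 5534260928) (nat_lit 0) (nat_lit 5576983388) (nat_lit 152) (nat_lit 5534260928) (nat_lit 71) (nat_lit 3) (nat_lit 71) (nat_lit 1) (nat_lit 73) (nat_lit 1) (nat_lit 334) (nat_lit 435) (nat_lit 251))))))) (XT.nd (nat_lit 936) (nat_lit 988) (nat_lit 0) (XT.nd (nat_lit 468) (nat_lit 456) (nat_lit 0) (XT.nd (nat_lit 234) (nat_lit 228) (nat_lit 0) (XT.nd (nat_lit 78) (nat_lit 152) (nat_lit 0) (XT.lf (nat_lit 76) (nat_lit 5431873475) (nat_lit 0) (nat_lit 5472561532) (nat_lit 76) (nat_lit 5472561532) (nat_lit 71) (nat_lit 3) (nat_lit 70) (nat_lit 1) (nat_lit 71) (nat_lit 1) (nat_lit 335) (nat_lit 435) (nat_lit 250)) (XT.nd (nat_lit 78) (nat_lit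 0) (nat_lit 0) (XT.lf (nat_lit 152) (nat_lit 16091993276) (nat_lit 0) (nat_lit 12500171) (nat_lit 76) (nat_lit 12500171) (nat_lit 70) (nat_lit 1) (nat_lit 68) (nat_lit 1) (nat_lit 69) (nat_lit 1) (nat_lit 336) (nat_lit 435) (nat_lit 249)) (XT.lf (nat_lit 0) (nat_lit 5272541147) (nat_lit 0) (nat_lit 5307689021) (nat_lit 152) (nat_lit 5272541147) (nat_lit 68) (nat_lit 3) (nat_lit 68) (nat_lit 1) (nat_lit 70) (nat_lit 1) (nat_lit 337) (nat_lit 435) (nat_lit 248)))) (XT.nd (nat_lit 78) (nat_lit 152) (nat_lit 0) (XT.lf (nat_lit 76) (nat_lit 5176702042) (nat_lit 0) (nat_lit 5210176208) (nat_lit 76) (nat_lit 5210176208) (nat_lit 68) (nat_lit 3) (nat_lit 67) (nat_lit 1) (nat_lit 68) (nat_lit 1) (nat_lit 338) (nat_lit 435) (nat_lit 247)) (XT.nd (nat_lit 78) (nat_lit 0) (nat_lit 0) (XT.lf (nat_lit 152) (nat_lit 15328872697) (nat_lit 0) (nat_lit 10283921) (nat_lit 76) (nat_lit 10283921) (nat_lit 67) (nat_lit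 1) (nat_lit 65) (nat_lit 1) (nat_lit 66) (nat_lit 1) (nat_lit 339) (nat_lit 435) (nat_lit 246)) (XT.lf (nat_lit 0) (nat_lit 5022962159) (nat_lit 0) (nat_lit 5051878403) (nat_lit 152) (nat_lit 5022962159) (nat_lit 65) (nat_lit 3) (nat_lit 65) (nat_lit 1) (nat_lit 67) (nat_lit 1) (nat_lit 340) (nat_lit 435) (nat_lit 245))))) (XT.nd (nat_lit 234) (nat_lit 228) (nat_lit 0) (XT.nd (nat_lit 78) (nat_lit 152) (nat_lit 0) (XT.lf (nat_lit 76) (nat_lit 4933063002) (nat_lit 0) (nat_lit 4960602282) (nat_lit 76) (nat_lit 4960602282) (nat_lit 65) (nat_lit 3) (nat_lit 64) (nat_lit 1) (nat_lit 65) (nat_lit 1) (nat_lit 341) (nat_lit 435) (nat_lit 244)) (XT.nd (nat_lit 78) (nat_lit 0) (nat_lit 0) (XT.lf (nat_lit 152) (nat_lit 14601530080) (nat_lit 0) (nat_lit 8460608) (nat_lit 76) (nat_lit 8460608) (nat_lit 64) (nat_lit 1) (nat_lit 62) (nat_lit 1) (nat_lit 63) (nat_lit 1) (nat_lit 342) (nat_lit 435) (nat_lit 243))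 (XT.lf (nat_lit 0) (nat_lit 4785002933) (nat_lit 0) (nat_lit 4808792397) (nat_lit 152) (nat_lit 4785002933) (nat_lit 62) (nat_lit 3) (nat_lit 62) (nat_lit 1) (nat_lit 64) (nat_lit 1) (nat_lit 343) (nat_lit 435) (nat_lit 242)))) (XT.nd (nat_lit 78) (nat_lit 152) (nat_lit 0) (XT.lf (nat_lit 76) (nat_lit 4700516875) (nat_lit 0) (nat_lit 4723173508) (nat_lit 76) (nat_lit 4723173508) (nat_lit 62) (nat_lit 3) (nat_lit 61) (nat_lit 1) (nat_lit 62) (nat_lit 1) (nat_lit 344) (nat_lit 435) (nat_lit 241)) (XT.nd (nat_lit 78) (nat_lit 0) (nat_lit 0) (XT.lf (nat_lit 152) (nat_lit 13908361196) (nat_lit 0) (nat_lit 6960563) (nat_lit 76) (nat_lit 6960563) (nat_lit 61) (nat_lit 1) (nat_lit 59) (nat_lit 1) (nat_lit 60) (nat_lit 1) (nat_lit 345) (nat_lit 435) (nat_lit 240)) (XT.lf (nat_lit 0) (nat_lit 4558157119) (nat_lit 0) (nat_lit 4577728771) (nat_lit 152) (nat_lit 4558157119) (nat_lit 59) (nat_lit 3) (nat_lit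 59) (nat_lit 1) (nat_lit 61) (nat_lit 1) (nat_lit 346) (nat_lit 435) (nat_lit 239)))))) (XT.nd (nat_lit 468) (nat_lit 532) (nat_lit 0) (XT.nd (nat_lit 234) (nat_lit 228) (nat_lit 0) (XT.nd (nat_lit 78) (nat_lit 152) (nat_lit 0) (XT.lf (nat_lit 76) (nat_lit 4478625660) (nat_lit 0) (nat_lit 4497265328) (nat_lit 76) (nat_lit 4497265328) (nat_lit 59) (nat_lit 3) (nat_lit 58) (nat_lit 1) (nat_lit 59) (nat_lit 1) (nat_lit 347) (nat_lit 435) (nat_lit 238)) (XT.nd (nat_lit 78) (nat_lit 0) (nat_lit 0) (XT.lf (nat_lit 152) (nat_lit 13247820569) (nat_lit 0) (nat_lit 5726472) (nat_lit 76) (nat_lit 5726472) (nat_lit 58) (nat_lit 1) (nat_lit 56) (nat_lit 1) (nat_lit 57) (nat_lit 1) (nat_lit 348) (nat_lit 435) (nat_lit 237)) (XT.lf (nat_lit 0) (nat_lit 4341934157) (nat_lit 0) (nat_lit 4358035803) (nat_lit 152) (nat_lit 4341934157) (nat_lit 56) (nat_lit 3) (nat_lit 56) (nat_lit 1) (nat_lit 58) (nat_lit 1) (nat_lit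 349) (nat_lit 435) (nat_lit 236)))) (XT.nd (nat_lit 78) (nat_lit 152) (nat_lit 0) (XT.lf (nat_lit 76) (nat_lit 4266956218) (nat_lit 0) (nat_lit 4282291120) (nat_lit 76) (nat_lit 4282291120) (nat_lit 56) (nat_lit 3) (nat_lit 55) (nat_lit 1) (nat_lit 56) (nat_lit 1) (nat_lit 350) (nat_lit 435) (nat_lit 235)) (XT.nd (nat_lit 78) (nat_lit 0) (nat_lit 0) (XT.lf (nat_lit 152) (nat_lit 12618421809) (nat_lit 0) (nat_lit 4711183) (nat_lit 76) (nat_lit 4711183) (nat_lit 55) (nat_lit 1) (nat_lit 53) (nat_lit 1) (nat_lit 54) (nat_lit 1) (nat_lit 351) (nat_lit 435) (nat_lit 234)) (XT.lf (nat_lit 0) (nat_lit 4135859990) (nat_lit 0) (nat_lit 4149106854) (nat_lit 152) (nat_lit 4135859990) (nat_lit 53) (nat_lit 3) (nat_lit 53) (nat_lit 1) (nat_lit 55) (nat_lit 1) (nat_lit 352) (nat_lit 435) (nat_lit 233))))) (XT.nd (nat_lit 234) (nat_lit 304) (nat_lit 0) (XT.nd (nat_lit 78) (nat_lit 152) (nat_lit 0) (XT.lf (nat_lit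 76) (nat_lit 4065082873) (nat_lit 0) (nat_lit 4077698934) (nat_lit 76) (nat_lit 4077698934) (nat_lit 53) (nat_lit 3) (nat_lit 52) (nat_lit 1) (nat_lit 53) (nat_lit 1) (nat_lit 353) (nat_lit 435) (nat_lit 232)) (XT.nd (nat_lit 78) (nat_lit 0) (nat_lit 0) (XT.lf (nat_lit 152) (nat_lit 12018737366) (nat_lit 0) (nat_lit 3875902) (nat_lit 76) (nat_lit 3875902) (nat_lit 52) (nat_lit 1) (nat_lit 50) (nat_lit 1) (nat_lit 51) (nat_lit 1) (nat_lit 354) (nat_lit 435) (nat_lit 231)) (XT.lf (nat_lit 0) (nat_lit 3939477500) (nat_lit 0) (nat_lit 3950375728) (nat_lit 152) (nat_lit 3939477500) (nat_lit 50) (nat_lit 3) (nat_lit 50) (nat_lit 1) (nat_lit 52) (nat_lit 1) (nat_lit 355) (nat_lit 435) (nat_lit 230)))) (XT.nd (nat_lit 156) (nat_lit 76) (nat_lit 0) (XT.nd (nat_lit 78) (nat_lit 152) (nat_lit 0) (XT.lf (nat_lit 76) (nat_lit 3872589390) (nat_lit 0) (nat_lit 3882968655) (nat_lit 76) (nat_lit 3882968655) (nat_lit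 50) (nat_lit 3) (nat_lit 49) (nat_lit 1) (nat_lit 50) (nat_lit 1) (nat_lit 356) (nat_lit 435) (nat_lit 229)) (XT.lf (nat_lit 152) (nat_lit 11447397847) (nat_lit 0) (nat_lit 3188714) (nat_lit 76) (nat_lit 3188714) (nat_lit 49) (nat_lit 1) (nat_lit 47) (nat_lit 1) (nat_lit 48) (nat_lit 1) (nat_lit 357) (nat_lit 435) (nat_lit 228))) (XT.nd (nat_lit 78) (nat_lit 76) (nat_lit 0) (XT.lf (nat_lit 0) (nat_lit 3752346699) (nat_lit 0) (nat_lit 3761312698) (nat_lit 152) (nat_lit 3752346699) (nat_lit 47) (nat_lit 3) (nat_lit 47) (nat_lit 1) (nat_lit 49) (nat_lit 1) (nat_lit 358) (nat_lit 435) (nat_lit 227)) (XT.lf (nat_lit 76) (nat_lit 3689070447) (nat_lit 0) (nat_lit 3697609494) (nat_lit 76) (nat_lit 3697609494) (nat_lit 47) (nat_lit 3) (nat_lit 46) (nat_lit 1) (nat_lit 47) (nat_lit 1) (nat_lit 359) (nat_lit 435) (nat_lit 226))))))))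
noncomputable def ec437 : XT := (XT.nd (nat_lit 1950) (nat_lit 1520) (nat_lit 0) (XT.nd (nat_lit 936) (nat_lit 1064) (nat_lit 0) (XT.nd (nat_lit 468) (nat_lit 456) (nat_lit 0) (XT.nd (nat_lit 234) (nat_lit 228) (nat_lit 0) (XT.nd (nat_lit 78) (nat_lit 76) (nat_lit 0) (XT.lf (nat_lit 152) (nat_lit 10903090988) (nat_lit 0) (nat_lit 2623363) (nat_lit 76) (nat_lit 2623363) (nat_lit 46) (nat_lit 1) (nat_lit 44) (nat_lit 1) (nat_lit 45) (nat_lit 1) (nat_lit 360) (nat_lit 435) (nat_lit 225)) (XT.nd (nat_lit 78) (nat_lit 76) (nat_lit 0) (XT.lf (nat_lit 0) (nat_lit 3574044735) (nat_lit 0) (nat_lit 3581421085) (nat_lit 152) (nat_lit 3574044735) (nat_lit 44) (nat_lit 3) (nat_lit 44) (nat_lit 1) (nat_lit 46) (nat_lit 1) (nat_lit 361) (nat_lit 435) (nat_lit 224)) (XT.lf (nat_lit 76) (nat_lit 3514132692) (nat_lit 0) (nat_lit 3521157787) (nat_lit 76) (nat_lit 3521157787) (nat_lit 44) (nat_lit 3) (nat_lit 43)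 (nat_lit 1) (nat_lit 44) (nat_lit 1) (nat_lit 362) (nat_lit 435) (nat_lit 223)))) (XT.nd (nat_lit 78) (nat_lit 76) (nat_lit 0) (XT.lf (nat_lit 152) (nat_lit 10384560367) (nat_lit 0) (nat_lit 2158247) (nat_lit 76) (nat_lit 2158247) (nat_lit 43) (nat_lit 1) (nat_lit 41) (nat_lit 1) (nat_lit 42) (nat_lit 1) (nat_lit 363) (nat_lit 435) (nat_lit 222)) (XT.nd (nat_lit 78) (nat_lit 76) (nat_lit 0) (XT.lf (nat_lit 0) (nat_lit 3404165753) (nat_lit 0) (nat_lit 3410234294) (nat_lit 152) (nat_lit 3404165753) (nat_lit 41) (nat_lit 3) (nat_lit 41) (nat_lit 1) (nat_lit 43) (nat_lit 1) (nat_lit 364) (nat_lit 435) (nat_lit 221)) (XT.lf (nat_lit 76) (nat_lit 3347395478) (nat_lit 0) (nat_lit 3353175041) (nat_lit 76) (nat_lit 3353175041) (nat_lit 41) (nat_lit 3) (nat_lit 40) (nat_lit 1) (nat_lit 41) (nat_lit 1) (nat_lit 365) (nat_lit 435) (nat_lit 220))))) (XT.nd (nat_lit 234) (nat_lit 228) (nat_lit 0) (XT.nd (nat_lit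 78) (nat_lit 76) (nat_lit 0) (XT.lf (nat_lit 152) (nat_lit 9890603921) (nat_lit 0) (nat_lit 1775595) (nat_lit 76) (nat_lit 1775595) (nat_lit 40) (nat_lit 1) (nat_lit 38) (nat_lit 1) (nat_lit 39) (nat_lit 1) (nat_lit 366) (nat_lit 435) (nat_lit 219)) (XT.nd (nat_lit 78) (nat_lit 76) (nat_lit 0) (XT.lf (nat_lit 0) (nat_lit 3242320641) (nat_lit 0) (nat_lit 3247313245) (nat_lit 152) (nat_lit 3242320641) (nat_lit 38) (nat_lit 3) (nat_lit 38) (nat_lit 1) (nat_lit 40) (nat_lit 1) (nat_lit 367) (nat_lit 435) (nat_lit 218)) (XT.lf (nat_lit 76) (nat_lit 3188491321) (nat_lit 0) (nat_lit 3193246181) (nat_lit 76) (nat_lit 3193246181) (nat_lit 38) (nat_lit 3) (nat_lit 37) (nat_lit 1) (nat_lit 38) (nat_lit 1) (nat_lit 368) (nat_lit 435) (nat_lit 217)))) (XT.nd (nat_lit 78) (nat_lit 76) (nat_lit 0) (XT.lf (nat_lit 152) (nat_lit 9420072331) (nat_lit 0) (nat_lit 1460786) (nat_lit 76) (nat_lit 1460786) (nat_lit 37)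 (nat_lit 1) (nat_lit 35) (nat_lit 1) (nat_lit 36) (nat_lit 1) (nat_lit 369) (nat_lit 435) (nat_lit 216)) (XT.nd (nat_lit 78) (nat_lit 76) (nat_lit 0) (XT.lf (nat_lit 0) (nat_lit 3088136693) (nat_lit 0) (nat_lit 3092244121) (nat_lit 152) (nat_lit 3088136693) (nat_lit 35) (nat_lit 3) (nat_lit 35) (nat_lit 1) (nat_lit 37) (nat_lit 1) (nat_lit 370) (nat_lit 435) (nat_lit 215)) (XT.lf (nat_lit 76) (nat_lit 3037066154) (nat_lit 0) (nat_lit 3040977990) (nat_lit 76) (nat_lit 3040977990) (nat_lit 35) (nat_lit 3) (nat_lit 34) (nat_lit 1) (nat_lit 35) (nat_lit 1) (nat_lit 371) (nat_lit 435) (nat_lit 214)))))) (XT.nd (nat_lit 468) (nat_lit 608) (nat_lit 0) (XT.nd (nat_lit 234) (nat_lit 228) (nat_lit 0) (XT.nd (nat_lit 78) (nat_lit 76) (nat_lit 0) (XT.lf (nat_lit 152) (nat_lit 8971867302) (nat_lit 0) (nat_lit 1201792) (nat_lit 76) (nat_lit 1201792) (nat_lit 34) (nat_lit 1) (nat_lit 32) (nat_lit 1) (nat_lit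 33) (nat_lit 1) (nat_lit 372) (nat_lit 435) (nat_lit 213)) (XT.nd (nat_lit 78) (nat_lit 76) (nat_lit 0) (XT.lf (nat_lit 0) (nat_lit 2941257203) (nat_lit 0) (nat_lit 2944636393) (nat_lit 152) (nat_lit 2941257203) (nat_lit 32) (nat_lit 3) (nat_lit 32) (nat_lit 1) (nat_lit 34) (nat_lit 1) (nat_lit 373) (nat_lit 435) (nat_lit 212)) (XT.lf (nat_lit 76) (nat_lit 2892779416) (nat_lit 0) (nat_lit 2895997693) (nat_lit 76) (nat_lit 2895997693) (nat_lit 32) (nat_lit 3) (nat_lit 31) (nat_lit 1) (nat_lit 32) (nat_lit 1) (nat_lit 374) (nat_lit 435) (nat_lit 211)))) (XT.nd (nat_lit 78) (nat_lit 76) (nat_lit 0) (XT.lf (nat_lit 152) (nat_lit 8544939798) (nat_lit 0) (nat_lit 988717) (nat_lit 76) (nat_lit 988717) (nat_lit 31) (nat_lit 1) (nat_lit 29) (nat_lit 1) (nat_lit 30) (nat_lit 1) (nat_lit 375) (nat_lit 435) (nat_lit 210)) (XT.nd (nat_lit 78) (nat_lit 76) (nat_lit 0) (XT.lf (nat_lit 0) (nat_lit 2801341011)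 (nat_lit 0) (nat_lit 2804121079) (nat_lit 152) (nat_lit 2801341011) (nat_lit 29) (nat_lit 3) (nat_lit 29) (nat_lit 1) (nat_lit 31) (nat_lit 1) (nat_lit 376) (nat_lit 435) (nat_lit 209)) (XT.lf (nat_lit 76) (nat_lit 2755303999) (nat_lit 0) (nat_lit 2757951684) (nat_lit 76) (nat_lit 2757951684) (nat_lit 29) (nat_lit 3) (nat_lit 28) (nat_lit 1) (nat_lit 29) (nat_lit 1) (nat_lit 377) (nat_lit 435) (nat_lit 208))))) (XT.nd (nat_lit 234) (nat_lit 380) (nat_lit 0) (XT.nd (nat_lit 78) (nat_lit 76) (nat_lit 0) (XT.lf (nat_lit 152) (nat_lit 8138288228) (nat_lit 0) (nat_lit 813420) (nat_lit 76) (nat_lit 813420) (nat_lit 28) (nat_lit 1) (nat_lit 26) (nat_lit 1) (nat_lit 27) (nat_lit 1) (nat_lit 378) (nat_lit 435) (nat_lit 207)) (XT.nd (nat_lit 78) (nat_lit 76) (nat_lit 0) (XT.lf (nat_lit 0) (nat_lit 2668062021) (nat_lit 0) (nat_lit 2670349191) (nat_lit 152) (nat_lit 2668062021) (nat_lit 26) (nat_lit 3) (nat_lit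 26) (nat_lit 1) (nat_lit 28) (nat_lit 1) (nat_lit 379) (nat_lit 435) (nat_lit 206)) (XT.lf (nat_lit 76) (nat_lit 2624326099) (nat_lit 0) (nat_lit 2626504356) (nat_lit 76) (nat_lit 2626504356) (nat_lit 26) (nat_lit 3) (nat_lit 25) (nat_lit 1) (nat_lit 26) (nat_lit 1) (nat_lit 380) (nat_lit 435) (nat_lit 205)))) (XT.nd (nat_lit 156) (nat_lit 228) (nat_lit 0) (XT.nd (nat_lit 78) (nat_lit 0) (nat_lit 0) (XT.lf (nat_lit 152) (nat_lit 7750956637) (nat_lit 0) (nat_lit 669203) (nat_lit 76) (nat_lit 669203) (nat_lit 25) (nat_lit 1) (nat_lit 23) (nat_lit 1) (nat_lit 24) (nat_lit 1) (nat_lit 381) (nat_lit 435) (nat_lit 204)) (XT.lf (nat_lit 0) (nat_lit 2541108694) (nat_lit 0) (nat_lit 2542990353) (nat_lit 152) (nat_lit 2541108694) (nat_lit 23) (nat_lit 3) (nat_lit 23) (nat_lit 1) (nat_lit 25) (nat_lit 1) (nat_lit 382) (nat_lit 435) (nat_lit 203))) (XT.nd (nat_lit 78) (nat_lit 152) (nat_lit 0) (XT.lf (nat_lit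 76) (nat_lit 2499544987) (nat_lit 0) (nat_lit 2501337044) (nat_lit 76) (nat_lit 2501337044) (nat_lit 23) (nat_lit 3) (nat_lit 22) (nat_lit 1) (nat_lit 23) (nat_lit 1) (nat_lit 383) (nat_lit 435) (nat_lit 202)) (XT.lf (nat_lit 152) (nat_lit 7382032894) (nat_lit 0) (nat_lit 550555) (nat_lit 76) (nat_lit 550555) (nat_lit 22) (nat_lit 1) (nat_lit 20) (nat_lit 1) (nat_lit 21) (nat_lit 1) (nat_lit 384) (nat_lit 435) (nat_lit 201))))))) (XT.nd (nat_lit 1014) (nat_lit 608) (nat_lit 0) (XT.nd (nat_lit 468) (nat_lit 456) (nat_lit 0) (XT.nd (nat_lit 234) (nat_lit 228) (nat_lit 0) (XT.nd (nat_lit 78) (nat_lit 228) (nat_lit 0) (XT.lf (nat_lit 0) (nat_lit 2420183521) (nat_lit 0) (nat_lit 2421731567) (nat_lit 152) (nat_lit 2420183521) (nat_lit 20) (nat_lit 3) (nat_lit 20) (nat_lit 1) (nat_lit 22) (nat_lit 1) (nat_lit 385) (nat_lit 435) (nat_lit 200)) (XT.nd (nat_lit 78) (nat_lit 152) (nat_lit 0) (XT.lf (nat_lit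 76) (nat_lit 2380672713) (nat_lit 0) (nat_lit 2382147043) (nat_lit 76) (nat_lit 2382147043) (nat_lit 20) (nat_lit 3) (nat_lit 19) (nat_lit 1) (nat_lit 20) (nat_lit 1) (nat_lit 386) (nat_lit 435) (nat_lit 199)) (XT.lf (nat_lit 152) (nat_lit 7030646908) (nat_lit 0) (nat_lit 452943) (nat_lit 76) (nat_lit 452943) (nat_lit 19) (nat_lit 1) (nat_lit 17) (nat_lit 1) (nat_lit 18) (nat_lit 1) (nat_lit 387) (nat_lit 435) (nat_lit 198)))) (XT.nd (nat_lit 78) (nat_lit 228) (nat_lit 0) (XT.lf (nat_lit 0) (nat_lit 2305002506) (nat_lit 0) (nat_lit 2306276087) (nat_lit 152) (nat_lit 2305002506) (nat_lit 17) (nat_lit 3) (nat_lit 17) (nat_lit 1) (nat_lit 19) (nat_lit 1) (nat_lit 388) (nat_lit 435) (nat_lit 197)) (XT.nd (nat_lit 78) (nat_lit 152) (nat_lit 0) (XT.lf (nat_lit 76) (nat_lit 2267433777) (nat_lit 0) (nat_lit 2268646712) (nat_lit 76) (nat_lit 2268646712) (nat_lit 17) (nat_lit 3) (nat_lit 16) (nat_lit 1)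 (nat_lit 17) (nat_lit 1) (nat_lit 389) (nat_lit 435) (nat_lit 196)) (XT.lf (nat_lit 152) (nat_lit 6695968875) (nat_lit 0) (nat_lit 372637) (nat_lit 76) (nat_lit 372637) (nat_lit 16) (nat_lit 1) (nat_lit 14) (nat_lit 1) (nat_lit 15) (nat_lit 1) (nat_lit 390) (nat_lit 435) (nat_lit 195))))) (XT.nd (nat_lit 234) (nat_lit 228) (nat_lit 0) (XT.nd (nat_lit 78) (nat_lit 228) (nat_lit 0) (XT.lf (nat_lit 0) (nat_lit 2195294631) (nat_lit 0) (nat_lit 2196342410) (nat_lit 152) (nat_lit 2195294631) (nat_lit 14) (nat_lit 3) (nat_lit 14) (nat_lit 1) (nat_lit 16) (nat_lit 1) (nat_lit 391) (nat_lit 435) (nat_lit 194)) (XT.nd (nat_lit 78) (nat_lit 152) (nat_lit 0) (XT.lf (nat_lit 76) (nat_lit 2159564755) (nat_lit 0) (nat_lit 2160562640) (nat_lit 76) (nat_lit 2160562640) (nat_lit 14) (nat_lit 3) (nat_lit 13) (nat_lit 1) (nat_lit 14) (nat_lit 1) (nat_lit 392) (nat_lit 435) (nat_lit 193)) (XT.lf (nat_lit 152) (nat_lit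 6377207560) (nat_lit 0) (nat_lit 306569) (nat_lit 76) (nat_lit 306569) (nat_lit 13) (nat_lit 1) (nat_lit 11) (nat_lit 1) (nat_lit 12) (nat_lit 1) (nat_lit 393) (nat_lit 435) (nat_lit 192)))) (XT.nd (nat_lit 156) (nat_lit 152) (nat_lit 0) (XT.nd (nat_lit 78) (nat_lit 76) (nat_lit 0) (XT.lf (nat_lit 0) (nat_lit 2090801341) (nat_lit 0) (nat_lit 2091663351) (nat_lit 152) (nat_lit 2090801341) (nat_lit 11) (nat_lit 3) (nat_lit 11) (nat_lit 1) (nat_lit 13) (nat_lit 1) (nat_lit 394) (nat_lit 435) (nat_lit 191)) (XT.lf (nat_lit 76) (nat_lit 2056813912) (nat_lit 0) (nat_lit 2057634874) (nat_lit 76) (nat_lit 2057634874) (nat_lit 11) (nat_lit 3) (nat_lit 10) (nat_lit 1) (nat_lit 11) (nat_lit 1) (nat_lit 395) (nat_lit 435) (nat_lit 190))) (XT.nd (nat_lit 78) (nat_lit 0) (nat_lit 0) (XT.lf (nat_lit 152) (nat_lit 6073608627) (nat_lit 0) (nat_lit 252215) (nat_lit 76) (nat_lit 252215) (nat_lit 10) (nat_lit 1) (nat_lit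 8) (nat_lit 1) (nat_lit 9) (nat_lit 1) (nat_lit 396) (nat_lit 435) (nat_lit 189)) (XT.lf (nat_lit 0) (nat_lit 1991276023) (nat_lit 0) (nat_lit 1991985200) (nat_lit 152) (nat_lit 1991276023) (nat_lit 8) (nat_lit 3) (nat_lit 8) (nat_lit 1) (nat_lit 10) (nat_lit 1) (nat_lit 397) (nat_lit 435) (nat_lit 188)))))) (XT.nd (nat_lit 468) (nat_lit 152) (nat_lit 0) (XT.nd (nat_lit 234) (nat_lit 228) (nat_lit 0) (XT.nd (nat_lit 78) (nat_lit 152) (nat_lit 0) (XT.lf (nat_lit 76) (nat_lit 1958940794) (nat_lit 0) (nat_lit 1959616202) (nat_lit 76) (nat_lit 1959616202) (nat_lit 8) (nat_lit 3) (nat_lit 7) (nat_lit 1) (nat_lit 8) (nat_lit 1) (nat_lit 398) (nat_lit 435) (nat_lit 187)) (XT.nd (nat_lit 78) (nat_lit 0) (nat_lit 0) (XT.lf (nat_lit 152) (nat_lit 5784453025) (nat_lit 0) (nat_lit 207498) (nat_lit 76) (nat_lit 207498) (nat_lit 7) (nat_lit 1) (nat_lit 5) (nat_lit 1) (nat_lit 6) (nat_lit 1) (nat_lit 399) (nat_lit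 435) (nat_lit 186)) (XT.lf (nat_lit 0) (nat_lit 1896483507) (nat_lit 0) (nat_lit 1897066950) (nat_lit 152) (nat_lit 1896483507) (nat_lit 5) (nat_lit 3) (nat_lit 5) (nat_lit 1) (nat_lit 7) (nat_lit 1) (nat_lit 400) (nat_lit 435) (nat_lit 185)))) (XT.nd (nat_lit 78) (nat_lit 152) (nat_lit 0) (XT.lf (nat_lit 76) (nat_lit 1865715819) (nat_lit 0) (nat_lit 1866271478) (nat_lit 76) (nat_lit 1866271478) (nat_lit 5) (nat_lit 3) (nat_lit 4) (nat_lit 1) (nat_lit 5) (nat_lit 1) (nat_lit 401) (nat_lit 435) (nat_lit 184)) (XT.nd (nat_lit 78) (nat_lit 0) (nat_lit 0) (XT.lf (nat_lit 152) (nat_lit 5509055416) (nat_lit 0) (nat_lit 170709) (nat_lit 76) (nat_lit 170709) (nat_lit 4) (nat_lit 1) (nat_lit 2) (nat_lit 1) (nat_lit 3) (nat_lit 1) (nat_lit 402) (nat_lit 435) (nat_lit 183)) (XT.lf (nat_lit 0) (nat_lit 1806199575) (nat_lit 0) (nat_lit 1806679575) (nat_lit 152) (nat_lit 1806199575) (nat_lit 2) (nat_lit 3) (nat_lit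 2) (nat_lit 1) (nat_lit 4) (nat_lit 1) (nat_lit 403) (nat_lit 435) (nat_lit 182))))) (XT.nd (nat_lit 234) (nat_lit 0) (nat_lit 0) (XT.nd (nat_lit 78) (nat_lit 76) (nat_lit 0) (XT.lf (nat_lit 76) (nat_lit 1776919859) (nat_lit 0) (nat_lit 1777377001) (nat_lit 76) (nat_lit 1777377001) (nat_lit 2) (nat_lit 3) (nat_lit 1) (nat_lit 1) (nat_lit 2) (nat_lit 1) (nat_lit 404) (nat_lit 435) (nat_lit 181)) (XT.nd (nat_lit 78) (nat_lit 0) (nat_lit 0) (XT.lf (nat_lit 0) (nat_lit 110633078552) (nat_lit 0) (nat_lit 0) (nat_lit 0) (nat_lit 0) (nat_lit 0) (nat_lit 0) (nat_lit 1) (nat_lit 0) (nat_lit 1) (nat_lit 0) (nat_lit 405) (nat_lit 435) (nat_lit 180)) (XT.lf (nat_lit 0) (nat_lit 110633057737) (nat_lit 0) (nat_lit 0) (nat_lit 0) (nat_lit 0) (nat_lit 0) (nat_lit 0) (nat_lit 1) (nat_lit 0) (nat_lit 1) (nat_lit 0) (nat_lit 406) (nat_lit 435) (nat_lit 179)))) (XT.nd (nat_lit 156) (nat_lit 0) (nat_lit 0) (XT.nd (nat_lit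 78) (nat_lit 0) (nat_lit 0) (XT.lf (nat_lit 0) (nat_lit 110633037912) (nat_lit 0) (nat_lit 0) (nat_lit 0) (nat_lit 0) (nat_lit 0) (nat_lit 0) (nat_lit 1) (nat_lit 0) (nat_lit 1) (nat_lit 0) (nat_lit 407) (nat_lit 435) (nat_lit 178)) (XT.lf (nat_lit 0) (nat_lit 110633019031) (nat_lit 0) (nat_lit 0) (nat_lit 0) (nat_lit 0) (nat_lit 0) (nat_lit 0) (nat_lit 1) (nat_lit 0) (nat_lit 1) (nat_lit 0) (nat_lit 408) (nat_lit 435) (nat_lit 177))) (XT.nd (nat_lit 78) (nat_lit 0) (nat_lit 0) (XT.lf (nat_lit 0) (nat_lit 110633001050) (nat_lit 0) (nat_lit 0) (nat_lit 0) (nat_lit 0) (nat_lit 0) (nat_lit 0) (nat_lit 1) (nat_lit 0) (nat_lit 1) (nat_lit 0) (nat_lit 409) (nat_lit 435) (nat_lit 176)) (XT.lf (nat_lit 0) (nat_lit 110632983925) (nat_lit 0) (nat_lit 0) (nat_lit 0) (nat_lit 0) (nat_lit 0) (nat_lit 0) (nat_lit 1) (nat_lit 0) (nat_lit 1) (nat_lit 0) (nat_lit 410) (nat_lit 435) (nat_lit 175))))))))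
noncomputable def ec438 : XT := (XT.nd (nat_lit 1950) (nat_lit 0) (nat_lit 0) (XT.nd (nat_lit 936) (nat_lit 0) (nat_lit 0) (XT.nd (nat_lit 468) (nat_lit 0) (nat_lit 0) (XT.nd (nat_lit 234) (nat_lit 0) (nat_lit 0) (XT.nd (nat_lit 78) (nat_lit 0) (nat_lit 0) (XT.lf (nat_lit 0) (nat_lit 110632967615) (nat_lit 0) (nat_lit 0) (nat_lit 0) (nat_lit 0) (nat_lit 0) (nat_lit 0) (nat_lit 1) (nat_lit 0) (nat_lit 1) (nat_lit 0) (nat_lit 411) (nat_lit 435) (nat_lit 174)) (XT.nd (nat_lit 78) (nat_lit 0) (nat_lit 0) (XT.lf (nat_lit 0) (nat_lit 110632952082) (nat_lit 0) (nat_lit 0) (nat_lit 0) (nat_lit 0) (nat_lit 0) (nat_lit 0) (nat_lit 1) (nat_lit 0) (nat_lit 1) (nat_lit 0) (nat_lit 412) (nat_lit 435) (nat_lit 173)) (XT.lf (nat_lit 0) (nat_lit 110632937289) (nat_lit 0) (nat_lit 0) (nat_lit 0) (nat_lit 0) (nat_lit 0) (nat_lit 0) (nat_lit 1) (nat_lit 0) (nat_lit 1) (nat_lit 0) (nat_lit 413) (nat_lit 435) (nat_lit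 172)))) (XT.nd (nat_lit 78) (nat_lit 0) (nat_lit 0) (XT.lf (nat_lit 0) (nat_lit 110632923200) (nat_lit 0) (nat_lit 0) (nat_lit 0) (nat_lit 0) (nat_lit 0) (nat_lit 0) (nat_lit 1) (nat_lit 0) (nat_lit 1) (nat_lit 0) (nat_lit 414) (nat_lit 435) (nat_lit 171)) (XT.nd (nat_lit 78) (nat_lit 0) (nat_lit 0) (XT.lf (nat_lit 0) (nat_lit 110632909782) (nat_lit 0) (nat_lit 0) (nat_lit 0) (nat_lit 0) (nat_lit 0) (nat_lit 0) (nat_lit 1) (nat_lit 0) (nat_lit 1) (nat_lit 0) (nat_lit 415) (nat_lit 435) (nat_lit 170)) (XT.lf (nat_lit 0) (nat_lit 110632897003) (nat_lit 0) (nat_lit 0) (nat_lit 0) (nat_lit 0) (nat_lit 0) (nat_lit 0) (nat_lit 1) (nat_lit 0) (nat_lit 1) (nat_lit 0) (nat_lit 416) (nat_lit 435) (nat_lit 169))))) (XT.nd (nat_lit 234) (nat_lit 0) (nat_lit 0) (XT.nd (nat_lit 78) (nat_lit 0) (nat_lit 0) (XT.lf (nat_lit 0) (nat_lit 110632884832) (nat_lit 0) (nat_lit 0) (nat_lit 0) (nat_lit 0) (nat_lit 0) (nat_lit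 0) (nat_lit 1) (nat_lit 0) (nat_lit 1) (nat_lit 0) (nat_lit 417) (nat_lit 435) (nat_lit 168)) (XT.nd (nat_lit 78) (nat_lit 0) (nat_lit 0) (XT.lf (nat_lit 0) (nat_lit 110632873241) (nat_lit 0) (nat_lit 0) (nat_lit 0) (nat_lit 0) (nat_lit 0) (nat_lit 0) (nat_lit 1) (nat_lit 0) (nat_lit 1) (nat_lit 0) (nat_lit 418) (nat_lit 435) (nat_lit 167)) (XT.lf (nat_lit 0) (nat_lit 110632862202) (nat_lit 0) (nat_lit 0) (nat_lit 0) (nat_lit 0) (nat_lit 0) (nat_lit 0) (nat_lit 1) (nat_lit 0) (nat_lit 1) (nat_lit 0) (nat_lit 419) (nat_lit 435) (nat_lit 166)))) (XT.nd (nat_lit 78) (nat_lit 0) (nat_lit 0) (XT.lf (nat_lit 0) (nat_lit 110632851689) (nat_lit 0) (nat_lit 0) (nat_lit 0) (nat_lit 0) (nat_lit 0) (nat_lit 0) (nat_lit 1) (nat_lit 0) (nat_lit 1) (nat_lit 0) (nat_lit 420) (nat_lit 435) (nat_lit 165)) (XT.nd (nat_lit 78) (nat_lit 0) (nat_lit 0) (XT.lf (nat_lit 0) (nat_lit 110632841676) (nat_lit 0) (nat_lit 0)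 (nat_lit 0) (nat_lit 0) (nat_lit 0) (nat_lit 0) (nat_lit 1) (nat_lit 0) (nat_lit 1) (nat_lit 0) (nat_lit 421) (nat_lit 435) (nat_lit 164)) (XT.lf (nat_lit 0) (nat_lit 110632832140) (nat_lit 0) (nat_lit 0) (nat_lit 0) (nat_lit 0) (nat_lit 0) (nat_lit 0) (nat_lit 1) (nat_lit 0) (nat_lit 1) (nat_lit 0) (nat_lit 422) (nat_lit 435) (nat_lit 163)))))) (XT.nd (nat_lit 468) (nat_lit 0) (nat_lit 0) (XT.nd (nat_lit 234) (nat_lit 0) (nat_lit 0) (XT.nd (nat_lit 78) (nat_lit 0) (nat_lit 0) (XT.lf (nat_lit 0) (nat_lit 110632823058) (nat_lit 0) (nat_lit 0) (nat_lit 0) (nat_lit 0) (nat_lit 0) (nat_lit 0) (nat_lit 1) (nat_lit 0) (nat_lit 1) (nat_lit 0) (nat_lit 423) (nat_lit 435) (nat_lit 162)) (XT.nd (nat_lit 78) (nat_lit 0) (nat_lit 0) (XT.lf (nat_lit 0) (nat_lit 110632814409) (nat_lit 0) (nat_lit 0) (nat_lit 0) (nat_lit 0) (nat_lit 0) (nat_lit 0) (nat_lit 1) (nat_lit 0) (nat_lit 1) (nat_lit 0) (nat_lit 424)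 (nat_lit 435) (nat_lit 161)) (XT.lf (nat_lit 0) (nat_lit 110632806171) (nat_lit 0) (nat_lit 0) (nat_lit 0) (nat_lit 0) (nat_lit 0) (nat_lit 0) (nat_lit 1) (nat_lit 0) (nat_lit 1) (nat_lit 0) (nat_lit 425) (nat_lit 435) (nat_lit 160)))) (XT.nd (nat_lit 78) (nat_lit 0) (nat_lit 0) (XT.lf (nat_lit 0) (nat_lit 110632798326) (nat_lit 0) (nat_lit 0) (nat_lit 0) (nat_lit 0) (nat_lit 0) (nat_lit 0) (nat_lit 1) (nat_lit 0) (nat_lit 1) (nat_lit 0) (nat_lit 426) (nat_lit 435) (nat_lit 159)) (XT.nd (nat_lit 78) (nat_lit 0) (nat_lit 0) (XT.lf (nat_lit 0) (nat_lit 110632790854) (nat_lit 0) (nat_lit 0) (nat_lit 0) (nat_lit 0) (nat_lit 0) (nat_lit 0) (nat_lit 1) (nat_lit 0) (nat_lit 1) (nat_lit 0) (nat_lit 427) (nat_lit 435) (nat_lit 158)) (XT.lf (nat_lit 0) (nat_lit 110632783738) (nat_lit 0) (nat_lit 0) (nat_lit 0) (nat_lit 0) (nat_lit 0) (nat_lit 0) (nat_lit 1) (nat_lit 0) (nat_lit 1) (nat_lit 0) (nat_lit 428)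 (nat_lit 435) (nat_lit 157))))) (XT.nd (nat_lit 234) (nat_lit 0) (nat_lit 0) (XT.nd (nat_lit 78) (nat_lit 0) (nat_lit 0) (XT.lf (nat_lit 0) (nat_lit 110632776961) (nat_lit 0) (nat_lit 0) (nat_lit 0) (nat_lit 0) (nat_lit 0) (nat_lit 0) (nat_lit 1) (nat_lit 0) (nat_lit 1) (nat_lit 0) (nat_lit 429) (nat_lit 435) (nat_lit 156)) (XT.nd (nat_lit 78) (nat_lit 0) (nat_lit 0) (XT.lf (nat_lit 0) (nat_lit 110632770507) (nat_lit 0) (nat_lit 0) (nat_lit 0) (nat_lit 0) (nat_lit 0) (nat_lit 0) (nat_lit 1) (nat_lit 0) (nat_lit 1) (nat_lit 0) (nat_lit 430) (nat_lit 435) (nat_lit 155)) (XT.lf (nat_lit 0) (nat_lit 110632764360) (nat_lit 0) (nat_lit 0) (nat_lit 0) (nat_lit 0) (nat_lit 0) (nat_lit 0) (nat_lit 1) (nat_lit 0) (nat_lit 1) (nat_lit 0) (nat_lit 431) (nat_lit 435) (nat_lit 154)))) (XT.nd (nat_lit 156) (nat_lit 0) (nat_lit 0) (XT.nd (nat_lit 78) (nat_lit 0) (nat_lit 0) (XT.lf (nat_lit 0) (nat_lit 110632758506)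 (nat_lit 0) (nat_lit 0) (nat_lit 0) (nat_lit 0) (nat_lit 0) (nat_lit 0) (nat_lit 1) (nat_lit 0) (nat_lit 1) (nat_lit 0) (nat_lit 432) (nat_lit 435) (nat_lit 153)) (XT.lf (nat_lit 0) (nat_lit 110632752930) (nat_lit 0) (nat_lit 0) (nat_lit 0) (nat_lit 0) (nat_lit 0) (nat_lit 0) (nat_lit 1) (nat_lit 0) (nat_lit 1) (nat_lit 0) (nat_lit 433) (nat_lit 435) (nat_lit 152))) (XT.nd (nat_lit 78) (nat_lit 0) (nat_lit 0) (XT.lf (nat_lit 0) (nat_lit 110632747620) (nat_lit 0) (nat_lit 0) (nat_lit 0) (nat_lit 0) (nat_lit 0) (nat_lit 0) (nat_lit 1) (nat_lit 0) (nat_lit 1) (nat_lit 0) (nat_lit 434) (nat_lit 435) (nat_lit 151)) (XT.lf (nat_lit 0) (nat_lit 110632742563) (nat_lit 0) (nat_lit 0) (nat_lit 0) (nat_lit 0) (nat_lit 0) (nat_lit 0) (nat_lit 1) (nat_lit 0) (nat_lit 1) (nat_lit 0) (nat_lit 435) (nat_lit 435) (nat_lit 150))))))) (XT.nd (nat_lit 31434) (nat_lit 0) (nat_lit 19532) (XT.nd (nat_lit 30966) (nat_lit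 0) (nat_lit 22344) (XT.nd (nat_lit 30732) (nat_lit 0) (nat_lit 22192) (XT.nd (nat_lit 78) (nat_lit 0) (nat_lit 0) (XT.lf (nat_lit 0) (nat_lit 110632737747) (nat_lit 0) (nat_lit 0) (nat_lit 0) (nat_lit 0) (nat_lit 0) (nat_lit 0) (nat_lit 1) (nat_lit 0) (nat_lit 1) (nat_lit 0) (nat_lit 436) (nat_lit 435) (nat_lit 149)) (XT.nd (nat_lit 30576) (nat_lit 0) (nat_lit 22192) (XT.lf (nat_lit 0) (nat_lit 110632733160) (nat_lit 0) (nat_lit 0) (nat_lit 0) (nat_lit 0) (nat_lit 0) (nat_lit 0) (nat_lit 1) (nat_lit 0) (nat_lit 1) (nat_lit 0) (nat_lit 437) (nat_lit 435) (nat_lit 148)) (XT.lf (nat_lit 836) (nat_lit 58132953690) (nat_lit 0) (nat_lit 103214925653) (nat_lit 836) (nat_lit 58132953690) (nat_lit 303) (nat_lit 1) (nat_lit 292) (nat_lit 0) (nat_lit 303) (nat_lit 0) (nat_lit 148) (nat_lit 436) (nat_lit 436)))) (XT.nd (nat_lit 78) (nat_lit 0) (nat_lit 76) (XT.lf (nat_lit 836) (nat_lit 225330586116) (nat_lit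 76) (nat_lit 101550168788) (nat_lit 0) (nat_lit 101550168788) (nat_lit 303) (nat_lit 1) (nat_lit 293) (nat_lit 1) (nat_lit 292) (nat_lit 0) (nat_lit 149) (nat_lit 436) (nat_lit 435)) (XT.nd (nat_lit 78) (nat_lit 0) (nat_lit 0) (XT.lf (nat_lit 836) (nat_lit 107389164543) (nat_lit 0) (nat_lit 203447414056) (nat_lit 760) (nat_lit 107389164543) (nat_lit 304) (nat_lit 1) (nat_lit 293) (nat_lit 1) (nat_lit 303) (nat_lit 1) (nat_lit 150) (nat_lit 436) (nat_lit 434)) (XT.lf (nat_lit 836) (nat_lit 201447150582) (nat_lit 76) (nat_lit 103451557687) (nat_lit 0) (nat_lit 103451557687) (nat_lit 304) (nat_lit 1) (nat_lit 294) (nat_lit 1) (nat_lit 293) (nat_lit 1) (nat_lit 151) (nat_lit 436) (nat_lit 433))))) (XT.nd (nat_lit 234) (nat_lit 0) (nat_lit 76) (XT.nd (nat_lit 78) (nat_lit 0) (nat_lit 0) (XT.lf (nat_lit 836) (nat_lit 92724188898) (nat_lit 0) (nat_lit 213339414063) (nat_lit 760) (nat_lit 92724188898)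 (nat_lit 305) (nat_lit 1) (nat_lit 294) (nat_lit 1) (nat_lit 304) (nat_lit 1) (nat_lit 152) (nat_lit 436) (nat_lit 432)) (XT.nd (nat_lit 78) (nat_lit 0) (nat_lit 76) (XT.lf (nat_lit 836) (nat_lit 166770493043) (nat_lit 76) (nat_lit 111373162736) (nat_lit 0) (nat_lit 111373162736) (nat_lit 305) (nat_lit 1) (nat_lit 295) (nat_lit 1) (nat_lit 294) (nat_lit 1) (nat_lit 153) (nat_lit 436) (nat_lit 431)) (XT.lf (nat_lit 836) (nat_lit 73124044432) (nat_lit 0) (nat_lit 234309043489) (nat_lit 760) (nat_lit 73124044432) (nat_lit 306) (nat_lit 1) (nat_lit 295) (nat_lit 1) (nat_lit 305) (nat_lit 1) (nat_lit 154) (nat_lit 436) (nat_lit 430)))) (XT.nd (nat_lit 78) (nat_lit 0) (nat_lit 76) (XT.lf (nat_lit 836) (nat_lit 122923763907) (nat_lit 76) (nat_lit 124460186572) (nat_lit 0) (nat_lit 124460186572) (nat_lit 306) (nat_lit 1) (nat_lit 296) (nat_lit 1) (nat_lit 295) (nat_lit 1) (nat_lit 155) (nat_lit 436) (nat_lit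 429)) (XT.nd (nat_lit 78) (nat_lit 0) (nat_lit 0) (XT.lf (nat_lit 836) (nat_lit 49347488709) (nat_lit 0) (nat_lit 264755109645) (nat_lit 760) (nat_lit 49347488709) (nat_lit 307) (nat_lit 1) (nat_lit 296) (nat_lit 1) (nat_lit 306) (nat_lit 1) (nat_lit 156) (nat_lit 436) (nat_lit 428)) (XT.lf (nat_lit 836) (nat_lit 71349698965) (nat_lit 76) (nat_lit 141951354920) (nat_lit 0) (nat_lit 141951354920) (nat_lit 307) (nat_lit 1) (nat_lit 297) (nat_lit 1) (nat_lit 296) (nat_lit 1) (nat_lit 157) (nat_lit 436) (nat_lit 427)))))) (XT.nd (nat_lit 468) (nat_lit 1368) (nat_lit 0) (XT.nd (nat_lit 234) (nat_lit 380) (nat_lit 0) (XT.nd (nat_lit 78) (nat_lit 1292) (nat_lit 0) (XT.lf (nat_lit 76) (nat_lit 22068454716) (nat_lit 0) (nat_lit 303252488308) (nat_lit 760) (nat_lit 22068454716) (nat_lit 298) (nat_lit 1) (nat_lit 297) (nat_lit 1) (nat_lit 307) (nat_lit 1) (nat_lit 158) (nat_lit 436) (nat_lit 426)) (XT.nd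 (nat_lit 78) (nat_lit 532) (nat_lit 0) (XT.lf (nat_lit 836) (nat_lit 13328797853) (nat_lit 0) (nat_lit 163169552551) (nat_lit 760) (nat_lit 163169552551) (nat_lit 298) (nat_lit 1) (nat_lit 287) (nat_lit 1) (nat_lit 297) (nat_lit 1) (nat_lit 159) (nat_lit 436) (nat_lit 425)) (XT.lf (nat_lit 532) (nat_lit 316309158920) (nat_lit 0) (nat_lit 7984489566) (nat_lit 456) (nat_lit 7984489566) (nat_lit 287) (nat_lit 1) (nat_lit 280) (nat_lit 1) (nat_lit 286) (nat_lit 1) (nat_lit 160) (nat_lit 436) (nat_lit 424)))) (XT.nd (nat_lit 78) (nat_lit 380) (nat_lit 0) (XT.lf (nat_lit 76) (nat_lit 138289813763) (nat_lit 0) (nat_lit 48403806049) (nat_lit 532) (nat_lit 138289813763) (nat_lit 281) (nat_lit 1) (nat_lit 280) (nat_lit 1) (nat_lit 287) (nat_lit 1) (nat_lit 161) (nat_lit 436) (nat_lit 423)) (XT.nd (nat_lit 78) (nat_lit 0) (nat_lit 0) (XT.lf (nat_lit 456) (nat_lit 237961272030) (nat_lit 0) (nat_lit 40018823722)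 (nat_lit 380) (nat_lit 40018823722) (nat_lit 281) (nat_lit 1) (nat_lit 275) (nat_lit 1) (nat_lit 280) (nat_lit 1) (nat_lit 162) (nat_lit 436) (nat_lit 422)) (XT.lf (nat_lit 76) (nat_lit 98640440692) (nat_lit 0) (nat_lit 113880357784) (nat_lit 456) (nat_lit 98640440692) (nat_lit 276) (nat_lit 1) (nat_lit 275) (nat_lit 1) (nat_lit 281) (nat_lit 1) (nat_lit 163) (nat_lit 436) (nat_lit 421))))) (XT.nd (nat_lit 234) (nat_lit 684) (nat_lit 0) (XT.nd (nat_lit 78) (nat_lit 304) (nat_lit 0) (XT.lf (nat_lit 456) (nat_lit 156700872233) (nat_lit 0) (nat_lit 73930412370) (nat_lit 380) (nat_lit 73930412370) (nat_lit 276) (nat_lit 1) (nat_lit 270) (nat_lit 1) (nat_lit 275) (nat_lit 1) (nat_lit 164) (nat_lit 436) (nat_lit 420)) (XT.nd (nat_lit 78) (nat_lit 304) (nat_lit 0) (XT.lf (nat_lit 76) (nat_lit 57742188856) (nat_lit 0) (nat_lit 182669713991) (nat_lit 456) (nat_lit 57742188856) (nat_lit 271) (nat_lit 1)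 (nat_lit 270) (nat_lit 1) (nat_lit 276) (nat_lit 1) (nat_lit 165) (nat_lit 436) (nat_lit 419)) (XT.lf (nat_lit 380) (nat_lit 73284287697) (nat_lit 0) (nat_lit 109313511738) (nat_lit 304) (nat_lit 109313511738) (nat_lit 271) (nat_lit 1) (nat_lit 266) (nat_lit 1) (nat_lit 270) (nat_lit 1) (nat_lit 166) (nat_lit 436) (nat_lit 418)))) (XT.nd (nat_lit 156) (nat_lit 304) (nat_lit 0) (XT.nd (nat_lit 78) (nat_lit 380) (nat_lit 0) (XT.lf (nat_lit 76) (nat_lit 15946172006) (nat_lit 0) (nat_lit 254016253240) (nat_lit 380) (nat_lit 15946172006) (nat_lit 267) (nat_lit 1) (nat_lit 266) (nat_lit 1) (nat_lit 271) (nat_lit 1) (nat_lit 167) (nat_lit 436) (nat_lit 417)) (XT.lf (nat_lit 76) (nat_lit 134367027460) (nat_lit 0) (nat_lit 11253499559) (nat_lit 380) (nat_lit 134367027460) (nat_lit 262) (nat_lit 1) (nat_lit 261) (nat_lit 1) (nat_lit 266) (nat_lit 1) (nat_lit 168) (nat_lit 436) (nat_lit 416))) (XT.nd (nat_lit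 78) (nat_lit 0) (nat_lit 0) (XT.lf (nat_lit 380) (nat_lit 222264253321) (nat_lit 0) (nat_lit 26013873105) (nat_lit 304) (nat_lit 26013873105) (nat_lit 262) (nat_lit 1) (nat_lit 257) (nat_lit 1) (nat_lit 261) (nat_lit 1) (nat_lit 169) (nat_lit 436) (nat_lit 415)) (XT.lf (nat_lit 76) (nat_lit 87181811566) (nat_lit 0) (nat_lit 94330529959) (nat_lit 380) (nat_lit 87181811566) (nat_lit 258) (nat_lit 1) (nat_lit 257) (nat_lit 1) (nat_lit 262) (nat_lit 1) (nat_lit 170) (nat_lit 436) (nat_lit 414))))))))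
noncomputable def ec439 : XT := (XT.nd (nat_lit 1950) (nat_lit 2280) (nat_lit 0) (XT.nd (nat_lit 936) (nat_lit 1520) (nat_lit 0) (XT.nd (nat_lit 468) (nat_lit 760) (nat_lit 0) (XT.nd (nat_lit 234) (nat_lit 608) (nat_lit 0) (XT.nd (nat_lit 78) (nat_lit 228) (nat_lit 0) (XT.lf (nat_lit 380) (nat_lit 127222515173) (nat_lit 0) (nat_lit 68033952555) (nat_lit 304) (nat_lit 68033952555) (nat_lit 258) (nat_lit 1) (nat_lit 253) (nat_lit 1) (nat_lit 257) (nat_lit 1) (nat_lit 171) (nat_lit 436) (nat_lit 413)) (XT.nd (nat_lit 78) (nat_lit 228) (nat_lit 0) (XT.lf (nat_lit 76) (nat_lit 40120303438) (nat_lit 0) (nat_lit 177804086209) (nat_lit 380) (nat_lit 40120303438) (nat_lit 254) (nat_lit 1) (nat_lit 253) (nat_lit 1) (nat_lit 258) (nat_lit 1) (nat_lit 172) (nat_lit 436) (nat_lit 412)) (XT.lf (nat_lit 304) (nat_lit 32628124465) (nat_lit 0) (nat_lit 110142037838) (nat_lit 228) (nat_lit 110142037838) (nat_lit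 254) (nat_lit 1) (nat_lit 250) (nat_lit 1) (nat_lit 253) (nat_lit 1) (nat_lit 173) (nat_lit 436) (nat_lit 411)))) (XT.nd (nat_lit 78) (nat_lit 228) (nat_lit 0) (XT.lf (nat_lit 380) (nat_lit 234939533057) (nat_lit 0) (nat_lit 6519121242) (nat_lit 304) (nat_lit 6519121242) (nat_lit 250) (nat_lit 1) (nat_lit 245) (nat_lit 1) (nat_lit 249) (nat_lit 1) (nat_lit 174) (nat_lit 436) (nat_lit 410)) (XT.nd (nat_lit 78) (nat_lit 228) (nat_lit 0) (XT.lf (nat_lit 76) (nat_lit 91933576163) (nat_lit 0) (nat_lit 59203510061) (nat_lit 380) (nat_lit 91933576163) (nat_lit 246) (nat_lit 1) (nat_lit 245) (nat_lit 1) (nat_lit 250) (nat_lit 1) (nat_lit 175) (nat_lit 436) (nat_lit 409)) (XT.lf (nat_lit 304) (nat_lit 134271894403) (nat_lit 0) (nat_lit 52039927840) (nat_lit 228) (nat_lit 52039927840) (nat_lit 246) (nat_lit 1) (nat_lit 242) (nat_lit 1) (nat_lit 245) (nat_lit 1) (nat_lit 176) (nat_lit 436) (nat_lit 408)))))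 (XT.nd (nat_lit 234) (nat_lit 228) (nat_lit 0) (XT.nd (nat_lit 78) (nat_lit 532) (nat_lit 0) (XT.lf (nat_lit 76) (nat_lit 42418568416) (nat_lit 0) (nat_lit 148915593030) (nat_lit 304) (nat_lit 42418568416) (nat_lit 243) (nat_lit 1) (nat_lit 242) (nat_lit 1) (nat_lit 246) (nat_lit 1) (nat_lit 177) (nat_lit 436) (nat_lit 407)) (XT.nd (nat_lit 78) (nat_lit 304) (nat_lit 0) (XT.lf (nat_lit 304) (nat_lit 35354550931) (nat_lit 0) (nat_lit 96951892587) (nat_lit 228) (nat_lit 96951892587) (nat_lit 243) (nat_lit 1) (nat_lit 239) (nat_lit 1) (nat_lit 242) (nat_lit 1) (nat_lit 178) (nat_lit 436) (nat_lit 406)) (XT.lf (nat_lit 304) (nat_lit 212778825210) (nat_lit 0) (nat_lit 6076044786) (nat_lit 228) (nat_lit 6076044786) (nat_lit 239) (nat_lit 1) (nat_lit 235) (nat_lit 1) (nat_lit 238) (nat_lit 1) (nat_lit 179) (nat_lit 436) (nat_lit 405)))) (XT.nd (nat_lit 78) (nat_lit 228) (nat_lit 0) (XT.lf (nat_lit 76)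 (nat_lit 80488135975) (nat_lit 0) (nat_lit 59640900567) (nat_lit 304) (nat_lit 80488135975) (nat_lit 236) (nat_lit 1) (nat_lit 235) (nat_lit 1) (nat_lit 239) (nat_lit 1) (nat_lit 180) (nat_lit 436) (nat_lit 404)) (XT.nd (nat_lit 78) (nat_lit 0) (nat_lit 0) (XT.lf (nat_lit 304) (nat_lit 110678556932) (nat_lit 0) (nat_lit 52892241238) (nat_lit 228) (nat_lit 52892241238) (nat_lit 236) (nat_lit 1) (nat_lit 232) (nat_lit 1) (nat_lit 235) (nat_lit 1) (nat_lit 181) (nat_lit 436) (nat_lit 403)) (XT.lf (nat_lit 76) (nat_lit 30480784314) (nat_lit 0) (nat_lit 151458753410) (nat_lit 304) (nat_lit 30480784314) (nat_lit 233) (nat_lit 1) (nat_lit 232) (nat_lit 1) (nat_lit 236) (nat_lit 1) (nat_lit 182) (nat_lit 436) (nat_lit 402)))))) (XT.nd (nat_lit 468) (nat_lit 684) (nat_lit 0) (XT.nd (nat_lit 234) (nat_lit 380) (nat_lit 0) (XT.nd (nat_lit 78) (nat_lit 304) (nat_lit 0) (XT.lf (nat_lit 228) (nat_lit 11169172838)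 (nat_lit 0) (nat_lit 98642307207) (nat_lit 152) (nat_lit 98642307207) (nat_lit 233) (nat_lit 1) (nat_lit 230) (nat_lit 1) (nat_lit 232) (nat_lit 1) (nat_lit 183) (nat_lit 436) (nat_lit 401)) (XT.nd (nat_lit 78) (nat_lit 0) (nat_lit 0) (XT.lf (nat_lit 304) (nat_lit 168762456396) (nat_lit 0) (nat_lit 17923796116) (nat_lit 228) (nat_lit 17923796116) (nat_lit 230) (nat_lit 1) (nat_lit 226) (nat_lit 1) (nat_lit 229) (nat_lit 1) (nat_lit 184) (nat_lit 436) (nat_lit 400)) (XT.lf (nat_lit 76) (nat_lit 58944720081) (nat_lit 0) (nat_lit 82919858360) (nat_lit 304) (nat_lit 58944720081) (nat_lit 227) (nat_lit 1) (nat_lit 226) (nat_lit 1) (nat_lit 230) (nat_lit 1) (nat_lit 185) (nat_lit 436) (nat_lit 399)))) (XT.nd (nat_lit 78) (nat_lit 228) (nat_lit 0) (XT.lf (nat_lit 228) (nat_lit 68101531443) (nat_lit 0) (nat_lit 64512159274) (nat_lit 152) (nat_lit 64512159274) (nat_lit 227) (nat_lit 1) (nat_lit 224) (nat_lit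 1) (nat_lit 226) (nat_lit 1) (nat_lit 186) (nat_lit 436) (nat_lit 398)) (XT.nd (nat_lit 78) (nat_lit 228) (nat_lit 0) (XT.lf (nat_lit 76) (nat_lit 9784028485) (nat_lit 0) (nat_lit 173996584012) (nat_lit 228) (nat_lit 9784028485) (nat_lit 225) (nat_lit 1) (nat_lit 224) (nat_lit 1) (nat_lit 227) (nat_lit 1) (nat_lit 187) (nat_lit 436) (nat_lit 397)) (XT.lf (nat_lit 76) (nat_lit 80749303651) (nat_lit 0) (nat_lit 28517769921) (nat_lit 228) (nat_lit 80749303651) (nat_lit 222) (nat_lit 1) (nat_lit 221) (nat_lit 1) (nat_lit 224) (nat_lit 1) (nat_lit 188) (nat_lit 436) (nat_lit 396))))) (XT.nd (nat_lit 234) (nat_lit 380) (nat_lit 0) (XT.nd (nat_lit 78) (nat_lit 152) (nat_lit 0) (XT.lf (nat_lit 228) (nat_lit 112134560653) (nat_lit 0) (nat_lit 37225635961) (nat_lit 152) (nat_lit 37225635961) (nat_lit 222) (nat_lit 1) (nat_lit 219) (nat_lit 1) (nat_lit 221) (nat_lit 1) (nat_lit 189) (nat_lit 436) (nat_lit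 395)) (XT.nd (nat_lit 78) (nat_lit 152) (nat_lit 0) (XT.lf (nat_lit 76) (nat_lit 31641455702) (nat_lit 0) (nat_lit 119948199054) (nat_lit 228) (nat_lit 31641455702) (nat_lit 220) (nat_lit 1) (nat_lit 219) (nat_lit 1) (nat_lit 222) (nat_lit 1) (nat_lit 190) (nat_lit 436) (nat_lit 394)) (XT.lf (nat_lit 228) (nat_lit 14822882797) (nat_lit 0) (nat_lit 82560564052) (nat_lit 152) (nat_lit 82560564052) (nat_lit 220) (nat_lit 1) (nat_lit 217) (nat_lit 1) (nat_lit 219) (nat_lit 1) (nat_lit 191) (nat_lit 436) (nat_lit 393)))) (XT.nd (nat_lit 156) (nat_lit 152) (nat_lit 0) (XT.nd (nat_lit 78) (nat_lit 0) (nat_lit 0) (XT.lf (nat_lit 228) (nat_lit 145688868367) (nat_lit 0) (nat_lit 15531644614) (nat_lit 152) (nat_lit 15531644614) (nat_lit 217) (nat_lit 1) (nat_lit 214) (nat_lit 1) (nat_lit 216) (nat_lit 1) (nat_lit 192) (nat_lit 436) (nat_lit 392)) (XT.lf (nat_lit 76) (nat_lit 48500181297) (nat_lit 0) (nat_lit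 76587183811) (nat_lit 228) (nat_lit 48500181297) (nat_lit 215) (nat_lit 1) (nat_lit 214) (nat_lit 1) (nat_lit 217) (nat_lit 1) (nat_lit 193) (nat_lit 436) (nat_lit 391))) (XT.nd (nat_lit 78) (nat_lit 0) (nat_lit 0) (XT.lf (nat_lit 228) (nat_lit 49395079940) (nat_lit 0) (nat_lit 60559864163) (nat_lit 152) (nat_lit 60559864163) (nat_lit 215) (nat_lit 1) (nat_lit 212) (nat_lit 1) (nat_lit 214) (nat_lit 1) (nat_lit 194) (nat_lit 436) (nat_lit 390)) (XT.lf (nat_lit 76) (nat_lit 1623480049) (nat_lit 0) (nat_lit 164302871110) (nat_lit 228) (nat_lit 1623480049) (nat_lit 213) (nat_lit 1) (nat_lit 212) (nat_lit 1) (nat_lit 215) (nat_lit 1) (nat_lit 195) (nat_lit 436) (nat_lit 389))))))) (XT.nd (nat_lit 1014) (nat_lit 988) (nat_lit 0) (XT.nd (nat_lit 468) (nat_lit 684) (nat_lit 0) (XT.nd (nat_lit 234) (nat_lit 304) (nat_lit 0) (XT.nd (nat_lit 78) (nat_lit 152) (nat_lit 0) (XT.lf (nat_lit 76) (nat_lit 61299959548)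 (nat_lit 0) (nat_lit 41966088137) (nat_lit 152) (nat_lit 61299959548) (nat_lit 211) (nat_lit 1) (nat_lit 210) (nat_lit 1) (nat_lit 212) (nat_lit 1) (nat_lit 196) (nat_lit 436) (nat_lit 388)) (XT.nd (nat_lit 78) (nat_lit 0) (nat_lit 0) (XT.lf (nat_lit 228) (nat_lit 76066271252) (nat_lit 0) (nat_lit 42810448974) (nat_lit 152) (nat_lit 42810448974) (nat_lit 211) (nat_lit 1) (nat_lit 208) (nat_lit 1) (nat_lit 210) (nat_lit 1) (nat_lit 197) (nat_lit 436) (nat_lit 387)) (XT.lf (nat_lit 76) (nat_lit 15250761673) (nat_lit 0) (nat_lit 128384514961) (nat_lit 228) (nat_lit 15250761673) (nat_lit 209) (nat_lit 1) (nat_lit 208) (nat_lit 1) (nat_lit 211) (nat_lit 1) (nat_lit 198) (nat_lit 436) (nat_lit 386)))) (XT.nd (nat_lit 78) (nat_lit 152) (nat_lit 0) (XT.lf (nat_lit 76) (nat_lit 70811381155) (nat_lit 0) (nat_lit 14485245023) (nat_lit 152) (nat_lit 70811381155) (nat_lit 207) (nat_lit 1) (nat_lit 206) (nat_lit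 1) (nat_lit 208) (nat_lit 1) (nat_lit 199) (nat_lit 436) (nat_lit 385)) (XT.nd (nat_lit 78) (nat_lit 0) (nat_lit 0) (XT.lf (nat_lit 228) (nat_lit 96321639838) (nat_lit 0) (nat_lit 28541880274) (nat_lit 152) (nat_lit 28541880274) (nat_lit 207) (nat_lit 1) (nat_lit 204) (nat_lit 1) (nat_lit 206) (nat_lit 1) (nat_lit 200) (nat_lit 436) (nat_lit 384)) (XT.lf (nat_lit 76) (nat_lit 25799335198) (nat_lit 0) (nat_lit 99157626072) (nat_lit 228) (nat_lit 25799335198) (nat_lit 205) (nat_lit 1) (nat_lit 204) (nat_lit 1) (nat_lit 207) (nat_lit 1) (nat_lit 201) (nat_lit 436) (nat_lit 383))))) (XT.nd (nat_lit 234) (nat_lit 380) (nat_lit 0) (XT.nd (nat_lit 78) (nat_lit 228) (nat_lit 0) (XT.lf (nat_lit 152) (nat_lit 7406049619) (nat_lit 0) (nat_lit 70375566404) (nat_lit 76) (nat_lit 70375566404) (nat_lit 205) (nat_lit 1) (nat_lit 203) (nat_lit 1) (nat_lit 204) (nat_lit 1) (nat_lit 202) (nat_lit 436) (nat_lit 382))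 (XT.nd (nat_lit 78) (nat_lit 0) (nat_lit 0) (XT.lf (nat_lit 228) (nat_lit 111379032643) (nat_lit 0) (nat_lit 17121111685) (nat_lit 152) (nat_lit 17121111685) (nat_lit 203) (nat_lit 1) (nat_lit 200) (nat_lit 1) (nat_lit 202) (nat_lit 1) (nat_lit 203) (nat_lit 436) (nat_lit 381)) (XT.lf (nat_lit 76) (nat_lit 33846601514) (nat_lit 0) (nat_lit 75420431877) (nat_lit 228) (nat_lit 33846601514) (nat_lit 201) (nat_lit 1) (nat_lit 200) (nat_lit 1) (nat_lit 203) (nat_lit 1) (nat_lit 204) (nat_lit 436) (nat_lit 380)))) (XT.nd (nat_lit 156) (nat_lit 76) (nat_lit 0) (XT.nd (nat_lit 78) (nat_lit 228) (nat_lit 0) (XT.lf (nat_lit 152) (nat_lit 24871192435) (nat_lit 0) (nat_lit 57898152646) (nat_lit 76) (nat_lit 57898152646) (nat_lit 201) (nat_lit 1) (nat_lit 199) (nat_lit 1) (nat_lit 200) (nat_lit 1) (nat_lit 205) (nat_lit 436) (nat_lit 379)) (XT.lf (nat_lit 228) (nat_lit 122236549768) (nat_lit 0) (nat_lit 8028091572)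 (nat_lit 152) (nat_lit 8028091572) (nat_lit 199) (nat_lit 1) (nat_lit 196) (nat_lit 1) (nat_lit 198) (nat_lit 1) (nat_lit 206) (nat_lit 436) (nat_lit 378))) (XT.nd (nat_lit 78) (nat_lit 76) (nat_lit 0) (XT.lf (nat_lit 76) (nat_lit 39866087207) (nat_lit 0) (nat_lit 56184964063) (nat_lit 228) (nat_lit 39866087207) (nat_lit 197) (nat_lit 1) (nat_lit 196) (nat_lit 1) (nat_lit 199) (nat_lit 1) (nat_lit 207) (nat_lit 436) (nat_lit 377)) (XT.lf (nat_lit 152) (nat_lit 38345607838) (nat_lit 0) (nat_lit 47632953467) (nat_lit 76) (nat_lit 47632953467) (nat_lit 197) (nat_lit 1) (nat_lit 195) (nat_lit 1) (nat_lit 196) (nat_lit 1) (nat_lit 208) (nat_lit 436) (nat_lit 376)))))) (XT.nd (nat_lit 468) (nat_lit 456) (nat_lit 0) (XT.nd (nat_lit 234) (nat_lit 228) (nat_lit 0) (XT.nd (nat_lit 78) (nat_lit 76) (nat_lit 0) (XT.lf (nat_lit 228) (nat_lit 129711687217) (nat_lit 0) (nat_lit 835693297) (nat_lit 152) (nat_lit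 835693297) (nat_lit 195) (nat_lit 1) (nat_lit 192) (nat_lit 1) (nat_lit 194) (nat_lit 1) (nat_lit 209) (nat_lit 436) (nat_lit 375)) (XT.nd (nat_lit 78) (nat_lit 76) (nat_lit 0) (XT.lf (nat_lit 76) (nat_lit 44245932776) (nat_lit 0) (nat_lit 40639116702) (nat_lit 228) (nat_lit 44245932776) (nat_lit 193) (nat_lit 1) (nat_lit 192) (nat_lit 1) (nat_lit 195) (nat_lit 1) (nat_lit 210) (nat_lit 436) (nat_lit 374)) (XT.lf (nat_lit 152) (nat_lit 48579422914) (nat_lit 0) (nat_lit 39187748699) (nat_lit 76) (nat_lit 39187748699) (nat_lit 193) (nat_lit 1) (nat_lit 191) (nat_lit 1) (nat_lit 192) (nat_lit 1) (nat_lit 211) (nat_lit 436) (nat_lit 373)))) (XT.nd (nat_lit 78) (nat_lit 228) (nat_lit 0) (XT.lf (nat_lit 0) (nat_lit 4885594400) (nat_lit 0) (nat_lit 115073368521) (nat_lit 152) (nat_lit 4885594400) (nat_lit 191) (nat_lit 3) (nat_lit 191) (nat_lit 1) (nat_lit 193) (nat_lit 1) (nat_lit 212) (nat_lit 436)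 (nat_lit 372)) (XT.nd (nat_lit 78) (nat_lit 76) (nat_lit 0) (XT.lf (nat_lit 76) (nat_lit 47304099509) (nat_lit 0) (nat_lit 28115433048) (nat_lit 152) (nat_lit 47304099509) (nat_lit 190) (nat_lit 1) (nat_lit 189) (nat_lit 1) (nat_lit 191) (nat_lit 1) (nat_lit 213) (nat_lit 436) (nat_lit 371)) (XT.lf (nat_lit 152) (nat_lit 56187741406) (nat_lit 0) (nat_lit 32239857836) (nat_lit 76) (nat_lit 32239857836) (nat_lit 190) (nat_lit 1) (nat_lit 188) (nat_lit 1) (nat_lit 189) (nat_lit 1) (nat_lit 214) (nat_lit 436) (nat_lit 370))))) (XT.nd (nat_lit 234) (nat_lit 228) (nat_lit 0) (XT.nd (nat_lit 78) (nat_lit 228) (nat_lit 0) (XT.lf (nat_lit 0) (nat_lit 9337859440) (nat_lit 0) (nat_lit 99989613901) (nat_lit 152) (nat_lit 9337859440) (nat_lit 188) (nat_lit 3) (nat_lit 188) (nat_lit 1) (nat_lit 190) (nat_lit 1) (nat_lit 215) (nat_lit 436) (nat_lit 369)) (XT.nd (nat_lit 78) (nat_lit 76) (nat_lit 0) (XT.lf (nat_lit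 76) (nat_lit 49300876986) (nat_lit 0) (nat_lit 18065427933) (nat_lit 152) (nat_lit 49300876986) (nat_lit 187) (nat_lit 1) (nat_lit 186) (nat_lit 1) (nat_lit 188) (nat_lit 1) (nat_lit 216) (nat_lit 436) (nat_lit 368)) (XT.lf (nat_lit 152) (nat_lit 61674679576) (nat_lit 0) (nat_lit 26523810829) (nat_lit 76) (nat_lit 26523810829) (nat_lit 187) (nat_lit 1) (nat_lit 185) (nat_lit 1) (nat_lit 186) (nat_lit 1) (nat_lit 217) (nat_lit 436) (nat_lit 367)))) (XT.nd (nat_lit 156) (nat_lit 76) (nat_lit 0) (XT.nd (nat_lit 78) (nat_lit 152) (nat_lit 0) (XT.lf (nat_lit 0) (nat_lit 12747488486) (nat_lit 0) (nat_lit 87326911226) (nat_lit 152) (nat_lit 12747488486) (nat_lit 185) (nat_lit 3) (nat_lit 185) (nat_lit 1) (nat_lit 187) (nat_lit 1) (nat_lit 218) (nat_lit 436) (nat_lit 366)) (XT.lf (nat_lit 76) (nat_lit 50449169936) (nat_lit 0) (nat_lit 10038464253) (nat_lit 152) (nat_lit 50449169936) (nat_lit 184) (nat_lit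 1) (nat_lit 183) (nat_lit 1) (nat_lit 185) (nat_lit 1) (nat_lit 219) (nat_lit 436) (nat_lit 365))) (XT.nd (nat_lit 78) (nat_lit 0) (nat_lit 0) (XT.lf (nat_lit 152) (nat_lit 65453135964) (nat_lit 0) (nat_lit 21821204810) (nat_lit 76) (nat_lit 21821204810) (nat_lit 184) (nat_lit 1) (nat_lit 182) (nat_lit 1) (nat_lit 183) (nat_lit 1) (nat_lit 220) (nat_lit 436) (nat_lit 364)) (XT.lf (nat_lit 0) (nat_lit 15311398340) (nat_lit 0) (nat_lit 76668073996) (nat_lit 152) (nat_lit 15311398340) (nat_lit 182) (nat_lit 3) (nat_lit 182) (nat_lit 1) (nat_lit 184) (nat_lit 1) (nat_lit 221) (nat_lit 436) (nat_lit 363))))))))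
noncomputable def ec440 : XT := (XT.nd (nat_lit 1950) (nat_lit 1976) (nat_lit 0) (XT.nd (nat_lit 936) (nat_lit 988) (nat_lit 0) (XT.nd (nat_lit 468) (nat_lit 456) (nat_lit 0) (XT.nd (nat_lit 234) (nat_lit 228) (nat_lit 0) (XT.nd (nat_lit 78) (nat_lit 76) (nat_lit 0) (XT.lf (nat_lit 76) (nat_lit 50922958320) (nat_lit 0) (nat_lit 3664376037) (nat_lit 152) (nat_lit 50922958320) (nat_lit 181) (nat_lit 1) (nat_lit 180) (nat_lit 1) (nat_lit 182) (nat_lit 1) (nat_lit 222) (nat_lit 436) (nat_lit 362)) (XT.nd (nat_lit 78) (nat_lit 0) (nat_lit 0) (XT.lf (nat_lit 152) (nat_lit 67861051650) (nat_lit 0) (nat_lit 17952359200) (nat_lit 76) (nat_lit 17952359200) (nat_lit 181) (nat_lit 1) (nat_lit 179) (nat_lit 1) (nat_lit 180) (nat_lit 1) (nat_lit 223) (nat_lit 436) (nat_lit 361)) (XT.lf (nat_lit 0) (nat_lit 17191018654) (nat_lit 0) (nat_lit 67669307562) (nat_lit 152) (nat_lit 17191018654) (nat_lit 179) (nat_lit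 3) (nat_lit 179) (nat_lit 1) (nat_lit 181) (nat_lit 1) (nat_lit 224) (nat_lit 436) (nat_lit 360)))) (XT.nd (nat_lit 78) (nat_lit 152) (nat_lit 0) (XT.lf (nat_lit 76) (nat_lit 1405821300) (nat_lit 0) (nat_lit 49480382164) (nat_lit 76) (nat_lit 49480382164) (nat_lit 179) (nat_lit 3) (nat_lit 178) (nat_lit 1) (nat_lit 179) (nat_lit 1) (nat_lit 225) (nat_lit 436) (nat_lit 359)) (XT.nd (nat_lit 78) (nat_lit 0) (nat_lit 0) (XT.lf (nat_lit 152) (nat_lit 69174783430) (nat_lit 0) (nat_lit 14769450342) (nat_lit 76) (nat_lit 14769450342) (nat_lit 178) (nat_lit 1) (nat_lit 176) (nat_lit 1) (nat_lit 177) (nat_lit 1) (nat_lit 226) (nat_lit 436) (nat_lit 358)) (XT.lf (nat_lit 0) (nat_lit 18518611065) (nat_lit 0) (nat_lit 60047224272) (nat_lit 152) (nat_lit 18518611065) (nat_lit 176) (nat_lit 3) (nat_lit 176) (nat_lit 1) (nat_lit 178) (nat_lit 1) (nat_lit 227) (nat_lit 436) (nat_lit 357))))) (XT.nd (nat_lit 234)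 (nat_lit 228) (nat_lit 0) (XT.nd (nat_lit 78) (nat_lit 152) (nat_lit 0) (XT.lf (nat_lit 76) (nat_lit 5461517274) (nat_lit 0) (nat_lit 45012577472) (nat_lit 76) (nat_lit 45012577472) (nat_lit 176) (nat_lit 3) (nat_lit 175) (nat_lit 1) (nat_lit 176) (nat_lit 1) (nat_lit 228) (nat_lit 436) (nat_lit 356)) (XT.nd (nat_lit 78) (nat_lit 0) (nat_lit 0) (XT.lf (nat_lit 152) (nat_lit 69620101992) (nat_lit 0) (nat_lit 12150863347) (nat_lit 76) (nat_lit 12150863347) (nat_lit 175) (nat_lit 1) (nat_lit 173) (nat_lit 1) (nat_lit 174) (nat_lit 1) (nat_lit 229) (nat_lit 436) (nat_lit 355)) (XT.lf (nat_lit 0) (nat_lit 19402466651) (nat_lit 0) (nat_lit 53568159512) (nat_lit 152) (nat_lit 19402466651) (nat_lit 173) (nat_lit 3) (nat_lit 173) (nat_lit 1) (nat_lit 175) (nat_lit 1) (nat_lit 230) (nat_lit 436) (nat_lit 354)))) (XT.nd (nat_lit 78) (nat_lit 152) (nat_lit 0) (XT.lf (nat_lit 76) (nat_lit 8593151026) (nat_lit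 0) (nat_lit 41131906131) (nat_lit 76) (nat_lit 41131906131) (nat_lit 173) (nat_lit 3) (nat_lit 172) (nat_lit 1) (nat_lit 173) (nat_lit 1) (nat_lit 231) (nat_lit 436) (nat_lit 353)) (XT.nd (nat_lit 78) (nat_lit 0) (nat_lit 0) (XT.lf (nat_lit 152) (nat_lit 69381236368) (nat_lit 0) (nat_lit 9996545347) (nat_lit 76) (nat_lit 9996545347) (nat_lit 172) (nat_lit 1) (nat_lit 170) (nat_lit 1) (nat_lit 171) (nat_lit 1) (nat_lit 232) (nat_lit 436) (nat_lit 352)) (XT.lf (nat_lit 0) (nat_lit 19931180663) (nat_lit 0) (nat_lit 48039380733) (nat_lit 152) (nat_lit 19931180663) (nat_lit 170) (nat_lit 3) (nat_lit 170) (nat_lit 1) (nat_lit 172) (nat_lit 1) (nat_lit 233) (nat_lit 436) (nat_lit 351)))))) (XT.nd (nat_lit 468) (nat_lit 532) (nat_lit 0) (XT.nd (nat_lit 234) (nat_lit 228) (nat_lit 0) (XT.nd (nat_lit 78) (nat_lit 152) (nat_lit 0) (XT.lf (nat_lit 76) (nat_lit 10974318281) (nat_lit 0) (nat_lit 37744032633)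 (nat_lit 76) (nat_lit 37744032633) (nat_lit 170) (nat_lit 3) (nat_lit 169) (nat_lit 1) (nat_lit 170) (nat_lit 1) (nat_lit 234) (nat_lit 436) (nat_lit 350)) (XT.nd (nat_lit 78) (nat_lit 0) (nat_lit 0) (XT.lf (nat_lit 152) (nat_lit 68608311210) (nat_lit 0) (nat_lit 8224182596) (nat_lit 76) (nat_lit 8224182596) (nat_lit 169) (nat_lit 1) (nat_lit 167) (nat_lit 1) (nat_lit 168) (nat_lit 1) (nat_lit 235) (nat_lit 436) (nat_lit 349)) (XT.lf (nat_lit 0) (nat_lit 20177168164) (nat_lit 0) (nat_lit 43301853923) (nat_lit 152) (nat_lit 20177168164) (nat_lit 167) (nat_lit 3) (nat_lit 167) (nat_lit 1) (nat_lit 169) (nat_lit 1) (nat_lit 236) (nat_lit 436) (nat_lit 348)))) (XT.nd (nat_lit 78) (nat_lit 152) (nat_lit 0) (XT.lf (nat_lit 76) (nat_lit 12747371824) (nat_lit 0) (nat_lit 34770882070) (nat_lit 76) (nat_lit 34770882070) (nat_lit 167) (nat_lit 3) (nat_lit 166) (nat_lit 1) (nat_lit 167) (nat_lit 1) (nat_lit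 237) (nat_lit 436) (nat_lit 347)) (XT.nd (nat_lit 78) (nat_lit 0) (nat_lit 0) (XT.lf (nat_lit 152) (nat_lit 67423462039) (nat_lit 0) (nat_lit 6766055375) (nat_lit 76) (nat_lit 6766055375) (nat_lit 166) (nat_lit 1) (nat_lit 164) (nat_lit 1) (nat_lit 165) (nat_lit 1) (nat_lit 238) (nat_lit 436) (nat_lit 346)) (XT.lf (nat_lit 0) (nat_lit 20199555237) (nat_lit 0) (nat_lit 39224291440) (nat_lit 152) (nat_lit 20199555237) (nat_lit 164) (nat_lit 3) (nat_lit 164) (nat_lit 1) (nat_lit 166) (nat_lit 1) (nat_lit 239) (nat_lit 436) (nat_lit 345))))) (XT.nd (nat_lit 234) (nat_lit 304) (nat_lit 0) (XT.nd (nat_lit 78) (nat_lit 152) (nat_lit 0) (XT.lf (nat_lit 76) (nat_lit 14028982932) (nat_lit 0) (nat_lit 32147779316) (nat_lit 76) (nat_lit 32147779316) (nat_lit 164) (nat_lit 3) (nat_lit 163) (nat_lit 1) (nat_lit 164) (nat_lit 1) (nat_lit 240) (nat_lit 436) (nat_lit 344)) (XT.nd (nat_lit 78) (nat_lit 0) (nat_lit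 0) (XT.lf (nat_lit 152) (nat_lit 65925862998) (nat_lit 0) (nat_lit 5566450501) (nat_lit 76) (nat_lit 5566450501) (nat_lit 163) (nat_lit 1) (nat_lit 161) (nat_lit 1) (nat_lit 162) (nat_lit 1) (nat_lit 241) (nat_lit 436) (nat_lit 343)) (XT.lf (nat_lit 0) (nat_lit 20046556516) (nat_lit 0) (nat_lit 35698254072) (nat_lit 152) (nat_lit 20046556516) (nat_lit 161) (nat_lit 3) (nat_lit 161) (nat_lit 1) (nat_lit 163) (nat_lit 1) (nat_lit 242) (nat_lit 436) (nat_lit 342)))) (XT.nd (nat_lit 156) (nat_lit 76) (nat_lit 0) (XT.nd (nat_lit 78) (nat_lit 152) (nat_lit 0) (XT.lf (nat_lit 76) (nat_lit 14914715725) (nat_lit 0) (nat_lit 29821094350) (nat_lit 76) (nat_lit 29821094350) (nat_lit 161) (nat_lit 3) (nat_lit 160) (nat_lit 1) (nat_lit 161) (nat_lit 1) (nat_lit 243) (nat_lit 436) (nat_lit 341)) (XT.lf (nat_lit 152) (nat_lit 64195860088) (nat_lit 0) (nat_lit 4579532603) (nat_lit 76) (nat_lit 4579532603) (nat_lit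 160) (nat_lit 1) (nat_lit 158) (nat_lit 1) (nat_lit 159) (nat_lit 1) (nat_lit 244) (nat_lit 436) (nat_lit 340))) (XT.nd (nat_lit 78) (nat_lit 76) (nat_lit 0) (XT.lf (nat_lit 0) (nat_lit 19757430164) (nat_lit 0) (nat_lit 32634120478) (nat_lit 152) (nat_lit 19757430164) (nat_lit 158) (nat_lit 3) (nat_lit 158) (nat_lit 1) (nat_lit 160) (nat_lit 1) (nat_lit 245) (nat_lit 436) (nat_lit 339)) (XT.lf (nat_lit 76) (nat_lit 15482789488) (nat_lit 0) (nat_lit 27746304073) (nat_lit 76) (nat_lit 27746304073) (nat_lit 158) (nat_lit 3) (nat_lit 157) (nat_lit 1) (nat_lit 158) (nat_lit 1) (nat_lit 246) (nat_lit 436) (nat_lit 338))))))) (XT.nd (nat_lit 936) (nat_lit 1064) (nat_lit 0) (XT.nd (nat_lit 468) (nat_lit 456) (nat_lit 0) (XT.nd (nat_lit 234) (nat_lit 228) (nat_lit 0) (XT.nd (nat_lit 78) (nat_lit 76) (nat_lit 0) (XT.lf (nat_lit 152) (nat_lit 62298368629) (nat_lit 0) (nat_lit 3767592806) (nat_lit 76) (nat_lit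 3767592806) (nat_lit 157) (nat_lit 1) (nat_lit 155) (nat_lit 1) (nat_lit 156) (nat_lit 1) (nat_lit 247) (nat_lit 436) (nat_lit 337)) (XT.nd (nat_lit 78) (nat_lit 76) (nat_lit 0) (XT.lf (nat_lit 0) (nat_lit 19364085269) (nat_lit 0) (nat_lit 29957770258) (nat_lit 152) (nat_lit 19364085269) (nat_lit 155) (nat_lit 3) (nat_lit 155) (nat_lit 1) (nat_lit 157) (nat_lit 1) (nat_lit 248) (nat_lit 436) (nat_lit 336)) (XT.lf (nat_lit 76) (nat_lit 15797172991) (nat_lit 0) (nat_lit 25886396790) (nat_lit 76) (nat_lit 25886396790) (nat_lit 155) (nat_lit 3) (nat_lit 154) (nat_lit 1) (nat_lit 155) (nat_lit 1) (nat_lit 249) (nat_lit 436) (nat_lit 335)))) (XT.nd (nat_lit 78) (nat_lit 76) (nat_lit 0) (XT.lf (nat_lit 152) (nat_lit 60285665536) (nat_lit 0) (nat_lit 3099607925) (nat_lit 76) (nat_lit 3099607925) (nat_lit 154) (nat_lit 1) (nat_lit 152) (nat_lit 1) (nat_lit 153) (nat_lit 1) (nat_lit 250) (nat_lit 436) (nat_lit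 334)) (XT.nd (nat_lit 78) (nat_lit 76) (nat_lit 0) (XT.lf (nat_lit 0) (nat_lit 18892403329) (nat_lit 0) (nat_lit 27607854186) (nat_lit 152) (nat_lit 18892403329) (nat_lit 152) (nat_lit 3) (nat_lit 152) (nat_lit 1) (nat_lit 154) (nat_lit 1) (nat_lit 251) (nat_lit 436) (nat_lit 333)) (XT.lf (nat_lit 76) (nat_lit 15910129279) (nat_lit 0) (nat_lit 24210558667) (nat_lit 76) (nat_lit 24210558667) (nat_lit 152) (nat_lit 3) (nat_lit 151) (nat_lit 1) (nat_lit 152) (nat_lit 1) (nat_lit 252) (nat_lit 436) (nat_lit 332))))) (XT.nd (nat_lit 234) (nat_lit 228) (nat_lit 0) (XT.nd (nat_lit 78) (nat_lit 76) (nat_lit 0) (XT.lf (nat_lit 152) (nat_lit 58199683840) (nat_lit 0) (nat_lit 2550055111) (nat_lit 76) (nat_lit 2550055111) (nat_lit 151) (nat_lit 1) (nat_lit 149) (nat_lit 1) (nat_lit 150) (nat_lit 1) (nat_lit 253) (nat_lit 436) (nat_lit 331)) (XT.nd (nat_lit 78) (nat_lit 76) (nat_lit 0) (XT.lf (nat_lit 0) (nat_lit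 18363324550) (nat_lit 0) (nat_lit 25533547539) (nat_lit 152) (nat_lit 18363324550) (nat_lit 149) (nat_lit 3) (nat_lit 149) (nat_lit 1) (nat_lit 151) (nat_lit 1) (nat_lit 254) (nat_lit 436) (nat_lit 330)) (XT.lf (nat_lit 76) (nat_lit 15864308412) (nat_lit 0) (nat_lit 22693092211) (nat_lit 76) (nat_lit 22693092211) (nat_lit 149) (nat_lit 3) (nat_lit 148) (nat_lit 1) (nat_lit 149) (nat_lit 1) (nat_lit 255) (nat_lit 436) (nat_lit 329)))) (XT.nd (nat_lit 78) (nat_lit 76) (nat_lit 0) (XT.lf (nat_lit 152) (nat_lit 56073897840) (nat_lit 0) (nat_lit 2097936651) (nat_lit 76) (nat_lit 2097936651) (nat_lit 148) (nat_lit 1) (nat_lit 146) (nat_lit 1) (nat_lit 147) (nat_lit 1) (nat_lit 256) (nat_lit 436) (nat_lit 328)) (XT.nd (nat_lit 78) (nat_lit 76) (nat_lit 0) (XT.lf (nat_lit 0) (nat_lit 17793740721) (nat_lit 0) (nat_lit 23692700919) (nat_lit 152) (nat_lit 17793740721) (nat_lit 146) (nat_lit 3) (nat_lit 146)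 (nat_lit 1) (nat_lit 148) (nat_lit 1) (nat_lit 257) (nat_lit 436) (nat_lit 327)) (XT.lf (nat_lit 76) (nat_lit 15694468344) (nat_lit 0) (nat_lit 21312525676) (nat_lit 76) (nat_lit 21312525676) (nat_lit 146) (nat_lit 3) (nat_lit 145) (nat_lit 1) (nat_lit 146) (nat_lit 1) (nat_lit 258) (nat_lit 436) (nat_lit 326)))))) (XT.nd (nat_lit 468) (nat_lit 608) (nat_lit 0) (XT.nd (nat_lit 234) (nat_lit 228) (nat_lit 0) (XT.nd (nat_lit 78) (nat_lit 76) (nat_lit 0) (XT.lf (nat_lit 152) (nat_lit 53934871585) (nat_lit 0) (nat_lit 1725977674) (nat_lit 76) (nat_lit 1725977674) (nat_lit 145) (nat_lit 1) (nat_lit 143) (nat_lit 1) (nat_lit 144) (nat_lit 1) (nat_lit 259) (nat_lit 436) (nat_lit 325)) (XT.nd (nat_lit 78) (nat_lit 76) (nat_lit 0) (XT.lf (nat_lit 0) (nat_lit 17197228973) (nat_lit 0) (nat_lit 22050318126) (nat_lit 152) (nat_lit 17197228973) (nat_lit 143) (nat_lit 3) (nat_lit 143) (nat_lit 1) (nat_lit 145)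 (nat_lit 1) (nat_lit 260) (nat_lit 436) (nat_lit 324)) (XT.lf (nat_lit 76) (nat_lit 15428889902) (nat_lit 0) (nat_lit 20050879572) (nat_lit 76) (nat_lit 20050879572) (nat_lit 143) (nat_lit 3) (nat_lit 142) (nat_lit 1) (nat_lit 143) (nat_lit 1) (nat_lit 261) (nat_lit 436) (nat_lit 323)))) (XT.nd (nat_lit 78) (nat_lit 76) (nat_lit 0) (XT.lf (nat_lit 152) (nat_lit 51803530483) (nat_lit 0) (nat_lit 1419966104) (nat_lit 76) (nat_lit 1419966104) (nat_lit 142) (nat_lit 1) (nat_lit 140) (nat_lit 1) (nat_lit 141) (nat_lit 1) (nat_lit 262) (nat_lit 436) (nat_lit 322)) (XT.nd (nat_lit 78) (nat_lit 76) (nat_lit 0) (XT.lf (nat_lit 0) (nat_lit 16584654689) (nat_lit 0) (nat_lit 20577303146) (nat_lit 152) (nat_lit 16584654689) (nat_lit 140) (nat_lit 3) (nat_lit 140) (nat_lit 1) (nat_lit 142) (nat_lit 1) (nat_lit 263) (nat_lit 436) (nat_lit 321)) (XT.lf (nat_lit 76) (nat_lit 15090540148) (nat_lit 0) (nat_lit 18893062488)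 (nat_lit 76) (nat_lit 18893062488) (nat_lit 140) (nat_lit 3) (nat_lit 139) (nat_lit 1) (nat_lit 140) (nat_lit 1) (nat_lit 264) (nat_lit 436) (nat_lit 320))))) (XT.nd (nat_lit 234) (nat_lit 380) (nat_lit 0) (XT.nd (nat_lit 78) (nat_lit 76) (nat_lit 0) (XT.lf (nat_lit 152) (nat_lit 49696205257) (nat_lit 0) (nat_lit 1168209628) (nat_lit 76) (nat_lit 1168209628) (nat_lit 139) (nat_lit 1) (nat_lit 137) (nat_lit 1) (nat_lit 138) (nat_lit 1) (nat_lit 265) (nat_lit 436) (nat_lit 319)) (XT.nd (nat_lit 78) (nat_lit 76) (nat_lit 0) (XT.lf (nat_lit 0) (nat_lit 15964666792) (nat_lit 0) (nat_lit 19249428559) (nat_lit 152) (nat_lit 15964666792) (nat_lit 137) (nat_lit 3) (nat_lit 137) (nat_lit 1) (nat_lit 139) (nat_lit 1) (nat_lit 266) (nat_lit 436) (nat_lit 318)) (XT.lf (nat_lit 76) (nat_lit 14698028767) (nat_lit 0) (nat_lit 17826373306) (nat_lit 76) (nat_lit 17826373306) (nat_lit 137) (nat_lit 3) (nat_lit 136)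 (nat_lit 1) (nat_lit 137) (nat_lit 1) (nat_lit 267) (nat_lit 436) (nat_lit 317)))) (XT.nd (nat_lit 156) (nat_lit 228) (nat_lit 0) (XT.nd (nat_lit 78) (nat_lit 0) (nat_lit 0) (XT.lf (nat_lit 152) (nat_lit 47625488697) (nat_lit 0) (nat_lit 961088952) (nat_lit 76) (nat_lit 961088952) (nat_lit 136) (nat_lit 1) (nat_lit 134) (nat_lit 1) (nat_lit 135) (nat_lit 1) (nat_lit 268) (nat_lit 436) (nat_lit 316)) (XT.lf (nat_lit 0) (nat_lit 15344104533) (nat_lit 0) (nat_lit 18046486167) (nat_lit 152) (nat_lit 15344104533) (nat_lit 134) (nat_lit 3) (nat_lit 134) (nat_lit 1) (nat_lit 136) (nat_lit 1) (nat_lit 269) (nat_lit 436) (nat_lit 315))) (XT.nd (nat_lit 78) (nat_lit 152) (nat_lit 0) (XT.lf (nat_lit 76) (nat_lit 14266394203) (nat_lit 0) (nat_lit 16840090998) (nat_lit 76) (nat_lit 16840090998) (nat_lit 134) (nat_lit 3) (nat_lit 133) (nat_lit 1) (nat_lit 134) (nat_lit 1) (nat_lit 270) (nat_lit 436) (nat_lit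 314)) (XT.lf (nat_lit 152) (nat_lit 45600938504) (nat_lit 0) (nat_lit 790690259) (nat_lit 76) (nat_lit 790690259) (nat_lit 133) (nat_lit 1) (nat_lit 131) (nat_lit 1) (nat_lit 132) (nat_lit 1) (nat_lit 271) (nat_lit 436) (nat_lit 313))))))))
noncomputable def ec441 : XT := (XT.nd (nat_lit 1950) (nat_lit 2052) (nat_lit 0) (XT.nd (nat_lit 936) (nat_lit 912) (nat_lit 0) (XT.nd (nat_lit 468) (nat_lit 456) (nat_lit 0) (XT.nd (nat_lit 234) (nat_lit 228) (nat_lit 0) (XT.nd (nat_lit 78) (nat_lit 228) (nat_lit 0) (XT.lf (nat_lit 0) (nat_lit 14728331491) (nat_lit 0) (nat_lit 16951587549) (nat_lit 152) (nat_lit 14728331491) (nat_lit 131) (nat_lit 3) (nat_lit 131) (nat_lit 1) (nat_lit 133) (nat_lit 1) (nat_lit 272) (nat_lit 436) (nat_lit 312)) (XT.nd (nat_lit 78) (nat_lit 152) (nat_lit 0) (XT.lf (nat_lit 76) (nat_lit 13807749782) (nat_lit 0) (nat_lit 15925136504) (nat_lit 76) (nat_lit 15925136504) (nat_lit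 131) (nat_lit 3) (nat_lit 130) (nat_lit 1) (nat_lit 131) (nat_lit 1) (nat_lit 273) (nat_lit 436) (nat_lit 311)) (XT.lf (nat_lit 152) (nat_lit 43629653617) (nat_lit 0) (nat_lit 650502833) (nat_lit 76) (nat_lit 650502833) (nat_lit 130) (nat_lit 1) (nat_lit 128) (nat_lit 1) (nat_lit 129) (nat_lit 1) (nat_lit 274) (nat_lit 436) (nat_lit 310)))) (XT.nd (nat_lit 78) (nat_lit 228) (nat_lit 0) (XT.lf (nat_lit 0) (nat_lit 14121509736) (nat_lit 0) (nat_lit 15950587998) (nat_lit 152) (nat_lit 14121509736) (nat_lit 128) (nat_lit 3) (nat_lit 128) (nat_lit 1) (nat_lit 130) (nat_lit 1) (nat_lit 275) (nat_lit 436) (nat_lit 309)) (XT.nd (nat_lit 78) (nat_lit 152) (nat_lit 0) (XT.lf (nat_lit 76) (nat_lit 13331814645) (nat_lit 0) (nat_lit 15073793941) (nat_lit 76) (nat_lit 15073793941) (nat_lit 128) (nat_lit 3) (nat_lit 127) (nat_lit 1) (nat_lit 128) (nat_lit 1) (nat_lit 276) (nat_lit 436) (nat_lit 308)) (XT.lf (nat_lit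 152) (nat_lit 41716746535) (nat_lit 0) (nat_lit 535170290) (nat_lit 76) (nat_lit 535170290) (nat_lit 127) (nat_lit 1) (nat_lit 125) (nat_lit 1) (nat_lit 126) (nat_lit 1) (nat_lit 277) (nat_lit 436) (nat_lit 307))))) (XT.nd (nat_lit 234) (nat_lit 228) (nat_lit 0) (XT.nd (nat_lit 78) (nat_lit 228) (nat_lit 0) (XT.lf (nat_lit 0) (nat_lit 13526824788) (nat_lit 0) (nat_lit 15031612000) (nat_lit 152) (nat_lit 13526824788) (nat_lit 125) (nat_lit 3) (nat_lit 125) (nat_lit 1) (nat_lit 127) (nat_lit 1) (nat_lit 278) (nat_lit 436) (nat_lit 306)) (XT.nd (nat_lit 78) (nat_lit 152) (nat_lit 0) (XT.lf (nat_lit 76) (nat_lit 12846349976) (nat_lit 0) (nat_lit 14279480654) (nat_lit 76) (nat_lit 14279480654) (nat_lit 125) (nat_lit 3) (nat_lit 124) (nat_lit 1) (nat_lit 125) (nat_lit 1) (nat_lit 279) (nat_lit 436) (nat_lit 305)) (XT.lf (nat_lit 152) (nat_lit 39865730167) (nat_lit 0) (nat_lit 440285922) (nat_lit 76)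 (nat_lit 440285922) (nat_lit 124) (nat_lit 1) (nat_lit 122) (nat_lit 1) (nat_lit 123) (nat_lit 1) (nat_lit 280) (nat_lit 436) (nat_lit 304)))) (XT.nd (nat_lit 78) (nat_lit 228) (nat_lit 0) (XT.lf (nat_lit 0) (nat_lit 12946670115) (nat_lit 0) (nat_lit 14184662279) (nat_lit 152) (nat_lit 12946670115) (nat_lit 122) (nat_lit 3) (nat_lit 122) (nat_lit 1) (nat_lit 124) (nat_lit 1) (nat_lit 281) (nat_lit 436) (nat_lit 303)) (XT.nd (nat_lit 78) (nat_lit 152) (nat_lit 0) (XT.lf (nat_lit 76) (nat_lit 12357517321) (nat_lit 0) (nat_lit 13536557477) (nat_lit 76) (nat_lit 13536557477) (nat_lit 122) (nat_lit 3) (nat_lit 121) (nat_lit 1) (nat_lit 122) (nat_lit 1) (nat_lit 282) (nat_lit 436) (nat_lit 302)) (XT.lf (nat_lit 152) (nat_lit 38078834442) (nat_lit 0) (nat_lit 362224318) (nat_lit 76) (nat_lit 362224318) (nat_lit 121) (nat_lit 1) (nat_lit 119) (nat_lit 1) (nat_lit 120) (nat_lit 1) (nat_lit 283) (nat_lit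 436) (nat_lit 301)))))) (XT.nd (nat_lit 468) (nat_lit 456) (nat_lit 0) (XT.nd (nat_lit 234) (nat_lit 228) (nat_lit 0) (XT.nd (nat_lit 78) (nat_lit 228) (nat_lit 0) (XT.lf (nat_lit 0) (nat_lit 12382798388) (nat_lit 0) (nat_lit 13401297605) (nat_lit 152) (nat_lit 12382798388) (nat_lit 119) (nat_lit 3) (nat_lit 119) (nat_lit 1) (nat_lit 121) (nat_lit 1) (nat_lit 284) (nat_lit 436) (nat_lit 300)) (XT.nd (nat_lit 78) (nat_lit 152) (nat_lit 0) (XT.lf (nat_lit 76) (nat_lit 11870172848) (nat_lit 0) (nat_lit 12840172102) (nat_lit 76) (nat_lit 12840172102) (nat_lit 119) (nat_lit 3) (nat_lit 118) (nat_lit 1) (nat_lit 119) (nat_lit 1) (nat_lit 285) (nat_lit 436) (nat_lit 299)) (XT.lf (nat_lit 152) (nat_lit 36357265212) (nat_lit 0) (nat_lit 298002843) (nat_lit 76) (nat_lit 298002843) (nat_lit 118) (nat_lit 1) (nat_lit 116) (nat_lit 1) (nat_lit 117) (nat_lit 1) (nat_lit 286) (nat_lit 436) (nat_lit 298)))) (XT.nd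 (nat_lit 78) (nat_lit 228) (nat_lit 0) (XT.lf (nat_lit 0) (nat_lit 11836445397) (nat_lit 0) (nat_lit 12674367223) (nat_lit 152) (nat_lit 11836445397) (nat_lit 116) (nat_lit 3) (nat_lit 116) (nat_lit 1) (nat_lit 118) (nat_lit 1) (nat_lit 287) (nat_lit 436) (nat_lit 297)) (XT.nd (nat_lit 78) (nat_lit 152) (nat_lit 0) (XT.lf (nat_lit 76) (nat_lit 11388108927) (nat_lit 0) (nat_lit 12186129713) (nat_lit 76) (nat_lit 12186129713) (nat_lit 116) (nat_lit 3) (nat_lit 115) (nat_lit 1) (nat_lit 116) (nat_lit 1) (nat_lit 288) (nat_lit 436) (nat_lit 296)) (XT.lf (nat_lit 152) (nat_lit 34701415762) (nat_lit 0) (nat_lit 245167676) (nat_lit 76) (nat_lit 245167676) (nat_lit 115) (nat_lit 1) (nat_lit 113) (nat_lit 1) (nat_lit 114) (nat_lit 1) (nat_lit 289) (nat_lit 436) (nat_lit 295))))) (XT.nd (nat_lit 234) (nat_lit 228) (nat_lit 0) (XT.nd (nat_lit 78) (nat_lit 228) (nat_lit 0) (XT.lf (nat_lit 0) (nat_lit 11308431509)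 (nat_lit 0) (nat_lit 11997791869) (nat_lit 152) (nat_lit 11308431509) (nat_lit 113) (nat_lit 3) (nat_lit 113) (nat_lit 1) (nat_lit 115) (nat_lit 1) (nat_lit 290) (nat_lit 436) (nat_lit 294)) (XT.nd (nat_lit 78) (nat_lit 152) (nat_lit 0) (XT.lf (nat_lit 76) (nat_lit 10914252395) (nat_lit 0) (nat_lit 11570786072) (nat_lit 76) (nat_lit 11570786072) (nat_lit 113) (nat_lit 3) (nat_lit 112) (nat_lit 1) (nat_lit 113) (nat_lit 1) (nat_lit 291) (nat_lit 436) (nat_lit 293)) (XT.lf (nat_lit 152) (nat_lit 33111039383) (nat_lit 0) (nat_lit 201700054) (nat_lit 76) (nat_lit 201700054) (nat_lit 112) (nat_lit 1) (nat_lit 110) (nat_lit 1) (nat_lit 111) (nat_lit 1) (nat_lit 292) (nat_lit 436) (nat_lit 292)))) (XT.nd (nat_lit 156) (nat_lit 152) (nat_lit 0) (XT.nd (nat_lit 78) (nat_lit 76) (nat_lit 0) (XT.lf (nat_lit 0) (nat_lit 10799244673) (nat_lit 0) (nat_lit 11366383147) (nat_lit 152) (nat_lit 10799244673) (nat_lit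 110) (nat_lit 3) (nat_lit 110) (nat_lit 1) (nat_lit 112) (nat_lit 1) (nat_lit 293) (nat_lit 436) (nat_lit 291)) (XT.lf (nat_lit 76) (nat_lit 10450827217) (nat_lit 0) (nat_lit 10990959097) (nat_lit 76) (nat_lit 10990959097) (nat_lit 110) (nat_lit 3) (nat_lit 109) (nat_lit 1) (nat_lit 110) (nat_lit 1) (nat_lit 294) (nat_lit 436) (nat_lit 290))) (XT.nd (nat_lit 78) (nat_lit 0) (nat_lit 0) (XT.lf (nat_lit 152) (nat_lit 31585390003) (nat_lit 0) (nat_lit 165939133) (nat_lit 76) (nat_lit 165939133) (nat_lit 109) (nat_lit 1) (nat_lit 107) (nat_lit 1) (nat_lit 108) (nat_lit 1) (nat_lit 295) (nat_lit 436) (nat_lit 289)) (XT.lf (nat_lit 0) (nat_lit 10309108256) (nat_lit 0) (nat_lit 10775694482) (nat_lit 152) (nat_lit 10309108256) (nat_lit 107) (nat_lit 3) (nat_lit 107) (nat_lit 1) (nat_lit 109) (nat_lit 1) (nat_lit 296) (nat_lit 436) (nat_lit 288))))))) (XT.nd (nat_lit 1014) (nat_lit 1064) (nat_lit 0) (XT.nd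 (nat_lit 468) (nat_lit 532) (nat_lit 0) (XT.nd (nat_lit 234) (nat_lit 228) (nat_lit 0) (XT.nd (nat_lit 78) (nat_lit 152) (nat_lit 0) (XT.lf (nat_lit 76) (nat_lit 9999487853) (nat_lit 0) (nat_lit 10443855688) (nat_lit 76) (nat_lit 10443855688) (nat_lit 107) (nat_lit 3) (nat_lit 106) (nat_lit 1) (nat_lit 107) (nat_lit 1) (nat_lit 297) (nat_lit 436) (nat_lit 287)) (XT.nd (nat_lit 78) (nat_lit 0) (nat_lit 0) (XT.lf (nat_lit 152) (nat_lit 30123336579) (nat_lit 0) (nat_lit 136518535) (nat_lit 76) (nat_lit 136518535) (nat_lit 106) (nat_lit 1) (nat_lit 104) (nat_lit 1) (nat_lit 105) (nat_lit 1) (nat_lit 298) (nat_lit 436) (nat_lit 286)) (XT.lf (nat_lit 0) (nat_lit 9838036434) (nat_lit 0) (nat_lit 10221898077) (nat_lit 152) (nat_lit 9838036434) (nat_lit 104) (nat_lit 3) (nat_lit 104) (nat_lit 1) (nat_lit 106) (nat_lit 1) (nat_lit 299) (nat_lit 436) (nat_lit 285)))) (XT.nd (nat_lit 78) (nat_lit 152) (nat_lit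 0) (XT.lf (nat_lit 76) (nat_lit 9561428583) (nat_lit 0) (nat_lit 9927011100) (nat_lit 76) (nat_lit 9927011100) (nat_lit 104) (nat_lit 3) (nat_lit 103) (nat_lit 1) (nat_lit 104) (nat_lit 1) (nat_lit 300) (nat_lit 436) (nat_lit 284)) (XT.nd (nat_lit 78) (nat_lit 0) (nat_lit 0) (XT.lf (nat_lit 152) (nat_lit 28723455987) (nat_lit 0) (nat_lit 112314137) (nat_lit 76) (nat_lit 112314137) (nat_lit 103) (nat_lit 1) (nat_lit 101) (nat_lit 1) (nat_lit 102) (nat_lit 1) (nat_lit 301) (nat_lit 436) (nat_lit 283)) (XT.lf (nat_lit 0) (nat_lit 9385879359) (nat_lit 0) (nat_lit 9701683283) (nat_lit 152) (nat_lit 9385879359) (nat_lit 101) (nat_lit 3) (nat_lit 101) (nat_lit 1) (nat_lit 103) (nat_lit 1) (nat_lit 302) (nat_lit 436) (nat_lit 282))))) (XT.nd (nat_lit 234) (nat_lit 304) (nat_lit 0) (XT.nd (nat_lit 78) (nat_lit 152) (nat_lit 0) (XT.lf (nat_lit 76) (nat_lit 9137473033) (nat_lit 0) (nat_lit 9438238675) (nat_lit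 76) (nat_lit 9438238675) (nat_lit 101) (nat_lit 3) (nat_lit 100) (nat_lit 1) (nat_lit 101) (nat_lit 1) (nat_lit 303) (nat_lit 436) (nat_lit 281)) (XT.nd (nat_lit 78) (nat_lit 0) (nat_lit 0) (XT.lf (nat_lit 152) (nat_lit 27384108263) (nat_lit 0) (nat_lit 92401118) (nat_lit 76) (nat_lit 92401118) (nat_lit 100) (nat_lit 1) (nat_lit 98) (nat_lit 1) (nat_lit 99) (nat_lit 1) (nat_lit 304) (nat_lit 436) (nat_lit 280)) (XT.lf (nat_lit 0) (nat_lit 8952359927) (nat_lit 0) (nat_lit 9212172596) (nat_lit 152) (nat_lit 8952359927) (nat_lit 98) (nat_lit 3) (nat_lit 98) (nat_lit 1) (nat_lit 100) (nat_lit 1) (nat_lit 305) (nat_lit 436) (nat_lit 279)))) (XT.nd (nat_lit 156) (nat_lit 76) (nat_lit 0) (XT.nd (nat_lit 78) (nat_lit 152) (nat_lit 0) (XT.lf (nat_lit 76) (nat_lit 8728147464) (nat_lit 0) (nat_lit 8975588102) (nat_lit 76) (nat_lit 8975588102) (nat_lit 98) (nat_lit 3) (nat_lit 97) (nat_lit 1) (nat_lit 98)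 (nat_lit 1) (nat_lit 306) (nat_lit 436) (nat_lit 278)) (XT.lf (nat_lit 152) (nat_lit 26103497388) (nat_lit 0) (nat_lit 76018629) (nat_lit 76) (nat_lit 76018629) (nat_lit 97) (nat_lit 1) (nat_lit 95) (nat_lit 1) (nat_lit 96) (nat_lit 1) (nat_lit 307) (nat_lit 436) (nat_lit 277))) (XT.nd (nat_lit 78) (nat_lit 76) (nat_lit 0) (XT.lf (nat_lit 0) (nat_lit 8537103667) (nat_lit 0) (nat_lit 8750852193) (nat_lit 152) (nat_lit 8537103667) (nat_lit 95) (nat_lit 3) (nat_lit 95) (nat_lit 1) (nat_lit 97) (nat_lit 1) (nat_lit 308) (nat_lit 436) (nat_lit 276)) (XT.lf (nat_lit 76) (nat_lit 8333740697) (nat_lit 0) (nat_lit 8537310722) (nat_lit 76) (nat_lit 8537310722) (nat_lit 95) (nat_lit 3) (nat_lit 94) (nat_lit 1) (nat_lit 95) (nat_lit 1) (nat_lit 309) (nat_lit 436) (nat_lit 275)))))) (XT.nd (nat_lit 468) (nat_lit 608) (nat_lit 0) (XT.nd (nat_lit 234) (nat_lit 228) (nat_lit 0) (XT.nd (nat_lit 78) (nat_lit 76)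 (nat_lit 0) (XT.lf (nat_lit 152) (nat_lit 24879720236) (nat_lit 0) (nat_lit 62540714) (nat_lit 76) (nat_lit 62540714) (nat_lit 94) (nat_lit 1) (nat_lit 92) (nat_lit 1) (nat_lit 93) (nat_lit 1) (nat_lit 310) (nat_lit 436) (nat_lit 274)) (XT.nd (nat_lit 78) (nat_lit 76) (nat_lit 0) (XT.lf (nat_lit 0) (nat_lit 8139662981) (nat_lit 0) (nat_lit 8315514423) (nat_lit 152) (nat_lit 8139662981) (nat_lit 92) (nat_lit 3) (nat_lit 92) (nat_lit 1) (nat_lit 94) (nat_lit 1) (nat_lit 311) (nat_lit 436) (nat_lit 273)) (XT.lf (nat_lit 76) (nat_lit 7954353074) (nat_lit 0) (nat_lit 8121830637) (nat_lit 76) (nat_lit 8121830637) (nat_lit 92) (nat_lit 3) (nat_lit 91) (nat_lit 1) (nat_lit 92) (nat_lit 1) (nat_lit 312) (nat_lit 436) (nat_lit 272)))) (XT.nd (nat_lit 78) (nat_lit 76) (nat_lit 0) (XT.lf (nat_lit 152) (nat_lit 23710805823) (nat_lit 0) (nat_lit 51452400) (nat_lit 76) (nat_lit 51452400) (nat_lit 91) (nat_lit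 1) (nat_lit 89) (nat_lit 1) (nat_lit 90) (nat_lit 1) (nat_lit 313) (nat_lit 436) (nat_lit 271)) (XT.nd (nat_lit 78) (nat_lit 76) (nat_lit 0) (XT.lf (nat_lit 0) (nat_lit 7759536752) (nat_lit 0) (nat_lit 7904210168) (nat_lit 152) (nat_lit 7759536752) (nat_lit 89) (nat_lit 3) (nat_lit 89) (nat_lit 1) (nat_lit 91) (nat_lit 1) (nat_lit 314) (nat_lit 436) (nat_lit 270)) (XT.lf (nat_lit 76) (nat_lit 7589936415) (nat_lit 0) (nat_lit 7727720621) (nat_lit 76) (nat_lit 7727720621) (nat_lit 89) (nat_lit 3) (nat_lit 88) (nat_lit 1) (nat_lit 89) (nat_lit 1) (nat_lit 315) (nat_lit 436) (nat_lit 269))))) (XT.nd (nat_lit 234) (nat_lit 380) (nat_lit 0) (XT.nd (nat_lit 78) (nat_lit 76) (nat_lit 0) (XT.lf (nat_lit 152) (nat_lit 22594746642) (nat_lit 0) (nat_lit 42330017) (nat_lit 76) (nat_lit 42330017) (nat_lit 88) (nat_lit 1) (nat_lit 86) (nat_lit 1) (nat_lit 87) (nat_lit 1) (nat_lit 316) (nat_lit 436) (nat_lit 268))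 (XT.nd (nat_lit 78) (nat_lit 76) (nat_lit 0) (XT.lf (nat_lit 0) (nat_lit 7396186158) (nat_lit 0) (nat_lit 7515209336) (nat_lit 152) (nat_lit 7396186158) (nat_lit 86) (nat_lit 3) (nat_lit 86) (nat_lit 1) (nat_lit 88) (nat_lit 1) (nat_lit 317) (nat_lit 436) (nat_lit 267)) (XT.lf (nat_lit 76) (nat_lit 7240326573) (nat_lit 0) (nat_lit 7353681980) (nat_lit 76) (nat_lit 7353681980) (nat_lit 86) (nat_lit 3) (nat_lit 85) (nat_lit 1) (nat_lit 86) (nat_lit 1) (nat_lit 318) (nat_lit 436) (nat_lit 266)))) (XT.nd (nat_lit 156) (nat_lit 228) (nat_lit 0) (XT.nd (nat_lit 78) (nat_lit 0) (nat_lit 0) (XT.lf (nat_lit 152) (nat_lit 21529523515) (nat_lit 0) (nat_lit 34825009) (nat_lit 76) (nat_lit 34825009) (nat_lit 85) (nat_lit 1) (nat_lit 83) (nat_lit 1) (nat_lit 84) (nat_lit 1) (nat_lit 319) (nat_lit 436) (nat_lit 265)) (XT.lf (nat_lit 0) (nat_lit 7049047389) (nat_lit 0) (nat_lit 7146968052) (nat_lit 152) (nat_lit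 7049047389) (nat_lit 83) (nat_lit 3) (nat_lit 83) (nat_lit 1) (nat_lit 85) (nat_lit 1) (nat_lit 320) (nat_lit 436) (nat_lit 264))) (XT.nd (nat_lit 78) (nat_lit 152) (nat_lit 0) (XT.lf (nat_lit 76) (nat_lit 6905269924) (nat_lit 0) (nat_lit 6998527698) (nat_lit 76) (nat_lit 6998527698) (nat_lit 83) (nat_lit 3) (nat_lit 82) (nat_lit 1) (nat_lit 83) (nat_lit 1) (nat_lit 321) (nat_lit 436) (nat_lit 263)) (XT.lf (nat_lit 152) (nat_lit 20513125168) (nat_lit 0) (nat_lit 28650621) (nat_lit 76) (nat_lit 28650621) (nat_lit 82) (nat_lit 1) (nat_lit 80) (nat_lit 1) (nat_lit 81) (nat_lit 1) (nat_lit 322) (nat_lit 436) (nat_lit 262))))))))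
noncomputable def ec442 : XT := (XT.nd (nat_lit 1950) (nat_lit 1900) (nat_lit 0) (XT.nd (nat_lit 936) (nat_lit 912) (nat_lit 0) (XT.nd (nat_lit 468) (nat_lit 456) (nat_lit 0) (XT.nd (nat_lit 234) (nat_lit 228) (nat_lit 0) (XT.nd (nat_lit 78) (nat_lit 228) (nat_lit 0) (XT.lf (nat_lit 0) (nat_lit 6717541811) (nat_lit 0) (nat_lit 6798101383) (nat_lit 152) (nat_lit 6717541811) (nat_lit 80) (nat_lit 3) (nat_lit 80) (nat_lit 1) (nat_lit 82) (nat_lit 1) (nat_lit 323) (nat_lit 436) (nat_lit 261)) (XT.nd (nat_lit 78) (nat_lit 152) (nat_lit 0) (XT.lf (nat_lit 76) (nat_lit 6584444878) (nat_lit 0) (nat_lit 6661168280) (nat_lit 76) (nat_lit 6661168280) (nat_lit 80) (nat_lit 3) (nat_lit 79) (nat_lit 1) (nat_lit 80) (nat_lit 1) (nat_lit 324) (nat_lit 436) (nat_lit 260)) (XT.lf (nat_lit 152) (nat_lit 19543563500) (nat_lit 0) (nat_lit 23570937) (nat_lit 76) (nat_lit 23570937) (nat_lit 79) (nat_lit 1) (nat_lit 77)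 (nat_lit 1) (nat_lit 78) (nat_lit 1) (nat_lit 325) (nat_lit 436) (nat_lit 259)))) (XT.nd (nat_lit 78) (nat_lit 228) (nat_lit 0) (XT.lf (nat_lit 0) (nat_lit 6401084062) (nat_lit 0) (nat_lit 6467360621) (nat_lit 152) (nat_lit 6401084062) (nat_lit 77) (nat_lit 3) (nat_lit 77) (nat_lit 1) (nat_lit 79) (nat_lit 1) (nat_lit 326) (nat_lit 436) (nat_lit 258)) (XT.nd (nat_lit 78) (nat_lit 152) (nat_lit 0) (XT.lf (nat_lit 76) (nat_lit 6277479309) (nat_lit 0) (nat_lit 6340599841) (nat_lit 76) (nat_lit 6340599841) (nat_lit 77) (nat_lit 3) (nat_lit 76) (nat_lit 1) (nat_lit 77) (nat_lit 1) (nat_lit 327) (nat_lit 436) (nat_lit 257)) (XT.lf (nat_lit 152) (nat_lit 18618885351) (nat_lit 0) (nat_lit 19391868) (nat_lit 76) (nat_lit 19391868) (nat_lit 76) (nat_lit 1) (nat_lit 74) (nat_lit 1) (nat_lit 75) (nat_lit 1) (nat_lit 328) (nat_lit 436) (nat_lit 256))))) (XT.nd (nat_lit 234) (nat_lit 228) (nat_lit 0) (XT.nd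 (nat_lit 78) (nat_lit 228) (nat_lit 0) (XT.lf (nat_lit 0) (nat_lit 6099088451) (nat_lit 0) (nat_lit 6153614340) (nat_lit 152) (nat_lit 6099088451) (nat_lit 74) (nat_lit 3) (nat_lit 74) (nat_lit 1) (nat_lit 76) (nat_lit 1) (nat_lit 329) (nat_lit 436) (nat_lit 255)) (XT.nd (nat_lit 78) (nat_lit 152) (nat_lit 0) (XT.lf (nat_lit 76) (nat_lit 5983964631) (nat_lit 0) (nat_lit 6035894050) (nat_lit 76) (nat_lit 6035894050) (nat_lit 74) (nat_lit 3) (nat_lit 73) (nat_lit 1) (nat_lit 74) (nat_lit 1) (nat_lit 330) (nat_lit 436) (nat_lit 254)) (XT.lf (nat_lit 152) (nat_lit 17737181431) (nat_lit 0) (nat_lit 15953738) (nat_lit 76) (nat_lit 15953738) (nat_lit 73) (nat_lit 1) (nat_lit 71) (nat_lit 1) (nat_lit 72) (nat_lit 1) (nat_lit 331) (nat_lit 436) (nat_lit 253)))) (XT.nd (nat_lit 78) (nat_lit 228) (nat_lit 0) (XT.lf (nat_lit 0) (nat_lit 5810973974) (nat_lit 0) (nat_lit 5855832558) (nat_lit 152) (nat_lit 5810973974)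 (nat_lit 71) (nat_lit 3) (nat_lit 71) (nat_lit 1) (nat_lit 73) (nat_lit 1) (nat_lit 332) (nat_lit 436) (nat_lit 252)) (XT.nd (nat_lit 78) (nat_lit 152) (nat_lit 0) (XT.lf (nat_lit 76) (nat_lit 5703467148) (nat_lit 0) (nat_lit 5746189609) (nat_lit 76) (nat_lit 5746189609) (nat_lit 71) (nat_lit 3) (nat_lit 70) (nat_lit 1) (nat_lit 71) (nat_lit 1) (nat_lit 333) (nat_lit 436) (nat_lit 251)) (XT.lf (nat_lit 152) (nat_lit 16896592939) (nat_lit 0) (nat_lit 13125179) (nat_lit 76) (nat_lit 13125179) (nat_lit 70) (nat_lit 1) (nat_lit 68) (nat_lit 1) (nat_lit 69) (nat_lit 1) (nat_lit 334) (nat_lit 436) (nat_lit 250)))))) (XT.nd (nat_lit 468) (nat_lit 456) (nat_lit 0) (XT.nd (nat_lit 234) (nat_lit 228) (nat_lit 0) (XT.nd (nat_lit 78) (nat_lit 228) (nat_lit 0) (XT.lf (nat_lit 0) (nat_lit 5536168204) (nat_lit 0) (nat_lit 5573073472) (nat_lit 152) (nat_lit 5536168204) (nat_lit 68) (nat_lit 3) (nat_lit 68) (nat_lit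 1) (nat_lit 70) (nat_lit 1) (nat_lit 335) (nat_lit 436) (nat_lit 249)) (XT.nd (nat_lit 78) (nat_lit 152) (nat_lit 0) (XT.lf (nat_lit 76) (nat_lit 5435537144) (nat_lit 0) (nat_lit 5470685019) (nat_lit 76) (nat_lit 5470685019) (nat_lit 68) (nat_lit 3) (nat_lit 67) (nat_lit 1) (nat_lit 68) (nat_lit 1) (nat_lit 336) (nat_lit 436) (nat_lit 248)) (XT.lf (nat_lit 152) (nat_lit 16095316332) (nat_lit 0) (nat_lit 10798118) (nat_lit 76) (nat_lit 10798118) (nat_lit 67) (nat_lit 1) (nat_lit 65) (nat_lit 1) (nat_lit 66) (nat_lit 1) (nat_lit 337) (nat_lit 436) (nat_lit 247)))) (XT.nd (nat_lit 78) (nat_lit 228) (nat_lit 0) (XT.lf (nat_lit 0) (nat_lit 5274110267) (nat_lit 0) (nat_lit 5304472323) (nat_lit 152) (nat_lit 5274110267) (nat_lit 65) (nat_lit 3) (nat_lit 65) (nat_lit 1) (nat_lit 67) (nat_lit 1) (nat_lit 338) (nat_lit 436) (nat_lit 246)) (XT.nd (nat_lit 78) (nat_lit 152) (nat_lit 0) (XT.lf (nat_lit 76)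 (nat_lit 5179716152) (nat_lit 0) (nat_lit 5208632396) (nat_lit 76) (nat_lit 5208632396) (nat_lit 65) (nat_lit 3) (nat_lit 64) (nat_lit 1) (nat_lit 65) (nat_lit 1) (nat_lit 339) (nat_lit 436) (nat_lit 245)) (XT.lf (nat_lit 152) (nat_lit 15331606584) (nat_lit 0) (nat_lit 8883638) (nat_lit 76) (nat_lit 8883638) (nat_lit 64) (nat_lit 1) (nat_lit 62) (nat_lit 1) (nat_lit 63) (nat_lit 1) (nat_lit 340) (nat_lit 436) (nat_lit 244))))) (XT.nd (nat_lit 234) (nat_lit 228) (nat_lit 0) (XT.nd (nat_lit 78) (nat_lit 228) (nat_lit 0) (XT.lf (nat_lit 0) (nat_lit 5024253079) (nat_lit 0) (nat_lit 5049232017) (nat_lit 152) (nat_lit 5024253079) (nat_lit 62) (nat_lit 3) (nat_lit 62) (nat_lit 1) (nat_lit 64) (nat_lit 1) (nat_lit 341) (nat_lit 436) (nat_lit 243)) (XT.nd (nat_lit 78) (nat_lit 152) (nat_lit 0) (XT.lf (nat_lit 76) (nat_lit 4935542718) (nat_lit 0) (nat_lit 4959332183) (nat_lit 76) (nat_lit 4959332183) (nat_lit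 62) (nat_lit 3) (nat_lit 61) (nat_lit 1) (nat_lit 62) (nat_lit 1) (nat_lit 342) (nat_lit 436) (nat_lit 242)) (XT.lf (nat_lit 152) (nat_lit 14603779256) (nat_lit 0) (nat_lit 7308591) (nat_lit 76) (nat_lit 7308591) (nat_lit 61) (nat_lit 1) (nat_lit 59) (nat_lit 1) (nat_lit 60) (nat_lit 1) (nat_lit 343) (nat_lit 436) (nat_lit 241)))) (XT.nd (nat_lit 156) (nat_lit 152) (nat_lit 0) (XT.nd (nat_lit 78) (nat_lit 76) (nat_lit 0) (XT.lf (nat_lit 0) (nat_lit 4786064975) (nat_lit 0) (nat_lit 4806615209) (nat_lit 152) (nat_lit 4786064975) (nat_lit 59) (nat_lit 3) (nat_lit 59) (nat_lit 1) (nat_lit 61) (nat_lit 1) (nat_lit 344) (nat_lit 436) (nat_lit 240)) (XT.lf (nat_lit 76) (nat_lit 4702556943) (nat_lit 0) (nat_lit 4722128595) (nat_lit 76) (nat_lit 4722128595) (nat_lit 59) (nat_lit 3) (nat_lit 58) (nat_lit 1) (nat_lit 59) (nat_lit 1) (nat_lit 345) (nat_lit 436) (nat_lit 239))) (XT.nd (nat_lit 78) (nat_lit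 0) (nat_lit 0) (XT.lf (nat_lit 152) (nat_lit 13910211598) (nat_lit 0) (nat_lit 6012796) (nat_lit 76) (nat_lit 6012796) (nat_lit 58) (nat_lit 1) (nat_lit 56) (nat_lit 1) (nat_lit 57) (nat_lit 1) (nat_lit 346) (nat_lit 436) (nat_lit 238)) (XT.lf (nat_lit 0) (nat_lit 4559030865) (nat_lit 0) (nat_lit 4575937593) (nat_lit 152) (nat_lit 4559030865) (nat_lit 56) (nat_lit 3) (nat_lit 56) (nat_lit 1) (nat_lit 58) (nat_lit 1) (nat_lit 347) (nat_lit 436) (nat_lit 237))))))) (XT.nd (nat_lit 936) (nat_lit 988) (nat_lit 0) (XT.nd (nat_lit 468) (nat_lit 456) (nat_lit 0) (XT.nd (nat_lit 234) (nat_lit 228) (nat_lit 0) (XT.nd (nat_lit 78) (nat_lit 152) (nat_lit 0) (XT.lf (nat_lit 76) (nat_lit 4480304029) (nat_lit 0) (nat_lit 4496405676) (nat_lit 76) (nat_lit 4496405676) (nat_lit 56) (nat_lit 3) (nat_lit 55) (nat_lit 1) (nat_lit 56) (nat_lit 1) (nat_lit 348) (nat_lit 436) (nat_lit 236)) (XT.nd (nat_lit 78) (nat_lit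 0) (nat_lit 0) (XT.lf (nat_lit 152) (nat_lit 13249342900) (nat_lit 0) (nat_lit 4946742) (nat_lit 76) (nat_lit 4946742) (nat_lit 55) (nat_lit 1) (nat_lit 53) (nat_lit 1) (nat_lit 54) (nat_lit 1) (nat_lit 349) (nat_lit 436) (nat_lit 235)) (XT.lf (nat_lit 0) (nat_lit 4342652989) (nat_lit 0) (nat_lit 4356562197) (nat_lit 152) (nat_lit 4342652989) (nat_lit 53) (nat_lit 3) (nat_lit 53) (nat_lit 1) (nat_lit 55) (nat_lit 1) (nat_lit 350) (nat_lit 436) (nat_lit 234)))) (XT.nd (nat_lit 78) (nat_lit 152) (nat_lit 0) (XT.lf (nat_lit 76) (nat_lit 4268337017) (nat_lit 0) (nat_lit 4281583881) (nat_lit 76) (nat_lit 4281583881) (nat_lit 53) (nat_lit 3) (nat_lit 52) (nat_lit 1) (nat_lit 53) (nat_lit 1) (nat_lit 351) (nat_lit 436) (nat_lit 233)) (XT.nd (nat_lit 78) (nat_lit 0) (nat_lit 0) (XT.lf (nat_lit 152) (nat_lit 12619674235) (nat_lit 0) (nat_lit 4069697) (nat_lit 76) (nat_lit 4069697) (nat_lit 52) (nat_lit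 1) (nat_lit 50) (nat_lit 1) (nat_lit 51) (nat_lit 1) (nat_lit 352) (nat_lit 436) (nat_lit 232)) (XT.lf (nat_lit 0) (nat_lit 4136451375) (nat_lit 0) (nat_lit 4147894514) (nat_lit 152) (nat_lit 4136451375) (nat_lit 50) (nat_lit 3) (nat_lit 50) (nat_lit 1) (nat_lit 52) (nat_lit 1) (nat_lit 353) (nat_lit 436) (nat_lit 231))))) (XT.nd (nat_lit 234) (nat_lit 228) (nat_lit 0) (XT.nd (nat_lit 78) (nat_lit 152) (nat_lit 0) (XT.lf (nat_lit 76) (nat_lit 4066218860) (nat_lit 0) (nat_lit 4077117088) (nat_lit 76) (nat_lit 4077117088) (nat_lit 50) (nat_lit 3) (nat_lit 49) (nat_lit 1) (nat_lit 50) (nat_lit 1) (nat_lit 354) (nat_lit 436) (nat_lit 230)) (XT.nd (nat_lit 78) (nat_lit 0) (nat_lit 0) (XT.lf (nat_lit 152) (nat_lit 12019767739) (nat_lit 0) (nat_lit 3348149) (nat_lit 76) (nat_lit 3348149) (nat_lit 49) (nat_lit 1) (nat_lit 47) (nat_lit 1) (nat_lit 48) (nat_lit 1) (nat_lit 355) (nat_lit 436) (nat_lit 229))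 (XT.lf (nat_lit 0) (nat_lit 3939964034) (nat_lit 0) (nat_lit 3949378333) (nat_lit 152) (nat_lit 3939964034) (nat_lit 47) (nat_lit 3) (nat_lit 47) (nat_lit 1) (nat_lit 49) (nat_lit 1) (nat_lit 356) (nat_lit 436) (nat_lit 228)))) (XT.nd (nat_lit 78) (nat_lit 152) (nat_lit 0) (XT.lf (nat_lit 76) (nat_lit 3873523969) (nat_lit 0) (nat_lit 3882489968) (nat_lit 76) (nat_lit 3882489968) (nat_lit 47) (nat_lit 3) (nat_lit 46) (nat_lit 1) (nat_lit 47) (nat_lit 1) (nat_lit 357) (nat_lit 436) (nat_lit 227)) (XT.nd (nat_lit 78) (nat_lit 0) (nat_lit 0) (XT.lf (nat_lit 152) (nat_lit 11448245538) (nat_lit 0) (nat_lit 2754531) (nat_lit 76) (nat_lit 2754531) (nat_lit 46) (nat_lit 1) (nat_lit 44) (nat_lit 1) (nat_lit 45) (nat_lit 1) (nat_lit 358) (nat_lit 436) (nat_lit 226)) (XT.lf (nat_lit 0) (nat_lit 3752746972) (nat_lit 0) (nat_lit 3760492139) (nat_lit 152) (nat_lit 3752746972) (nat_lit 44) (nat_lit 3) (nat_lit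 44) (nat_lit 1) (nat_lit 46) (nat_lit 1) (nat_lit 359) (nat_lit 436) (nat_lit 225)))))) (XT.nd (nat_lit 468) (nat_lit 532) (nat_lit 0) (XT.nd (nat_lit 234) (nat_lit 228) (nat_lit 0) (XT.nd (nat_lit 78) (nat_lit 152) (nat_lit 0) (XT.lf (nat_lit 76) (nat_lit 3689839327) (nat_lit 0) (nat_lit 3697215677) (nat_lit 76) (nat_lit 3697215677) (nat_lit 44) (nat_lit 3) (nat_lit 43) (nat_lit 1) (nat_lit 44) (nat_lit 1) (nat_lit 360) (nat_lit 436) (nat_lit 224)) (XT.nd (nat_lit 78) (nat_lit 0) (nat_lit 0) (XT.lf (nat_lit 152) (nat_lit 10903788385) (nat_lit 0) (nat_lit 2266159) (nat_lit 76) (nat_lit 2266159) (nat_lit 43) (nat_lit 1) (nat_lit 41) (nat_lit 1) (nat_lit 42) (nat_lit 1) (nat_lit 361) (nat_lit 436) (nat_lit 223)) (XT.lf (nat_lit 0) (nat_lit 3574374040) (nat_lit 0) (nat_lit 3580746008) (nat_lit 152) (nat_lit 3574374040) (nat_lit 41) (nat_lit 3) (nat_lit 41) (nat_lit 1) (nat_lit 43) (nat_lit 1) (nat_lit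 362) (nat_lit 436) (nat_lit 222)))) (XT.nd (nat_lit 78) (nat_lit 152) (nat_lit 0) (XT.lf (nat_lit 76) (nat_lit 3514765252) (nat_lit 0) (nat_lit 3520833793) (nat_lit 76) (nat_lit 3520833793) (nat_lit 41) (nat_lit 3) (nat_lit 40) (nat_lit 1) (nat_lit 41) (nat_lit 1) (nat_lit 363) (nat_lit 436) (nat_lit 221)) (XT.nd (nat_lit 78) (nat_lit 0) (nat_lit 0) (XT.lf (nat_lit 152) (nat_lit 10385134117) (nat_lit 0) (nat_lit 1864375) (nat_lit 76) (nat_lit 1864375) (nat_lit 40) (nat_lit 1) (nat_lit 38) (nat_lit 1) (nat_lit 39) (nat_lit 1) (nat_lit 364) (nat_lit 436) (nat_lit 220)) (XT.lf (nat_lit 0) (nat_lit 3404436673) (nat_lit 0) (nat_lit 3409678907) (nat_lit 152) (nat_lit 3404436673) (nat_lit 38) (nat_lit 3) (nat_lit 38) (nat_lit 1) (nat_lit 40) (nat_lit 1) (nat_lit 365) (nat_lit 436) (nat_lit 219))))) (XT.nd (nat_lit 234) (nat_lit 304) (nat_lit 0) (XT.nd (nat_lit 78) (nat_lit 152) (nat_lit 0) (XT.lf (nat_lit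 76) (nat_lit 3347915887) (nat_lit 0) (nat_lit 3352908491) (nat_lit 76) (nat_lit 3352908491) (nat_lit 38) (nat_lit 3) (nat_lit 37) (nat_lit 1) (nat_lit 38) (nat_lit 1) (nat_lit 366) (nat_lit 436) (nat_lit 218)) (XT.nd (nat_lit 78) (nat_lit 0) (nat_lit 0) (XT.lf (nat_lit 152) (nat_lit 9891075947) (nat_lit 0) (nat_lit 1533826) (nat_lit 76) (nat_lit 1533826) (nat_lit 37) (nat_lit 1) (nat_lit 35) (nat_lit 1) (nat_lit 36) (nat_lit 1) (nat_lit 367) (nat_lit 436) (nat_lit 217)) (XT.lf (nat_lit 0) (nat_lit 3242543528) (nat_lit 0) (nat_lit 3246856327) (nat_lit 152) (nat_lit 3242543528) (nat_lit 35) (nat_lit 3) (nat_lit 35) (nat_lit 1) (nat_lit 37) (nat_lit 1) (nat_lit 368) (nat_lit 436) (nat_lit 216)))) (XT.nd (nat_lit 156) (nat_lit 76) (nat_lit 0) (XT.nd (nat_lit 78) (nat_lit 152) (nat_lit 0) (XT.lf (nat_lit 76) (nat_lit 3188919462) (nat_lit 0) (nat_lit 3193026890) (nat_lit 76) (nat_lit 3193026890) (nat_lit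 35) (nat_lit 3) (nat_lit 34) (nat_lit 1) (nat_lit 35) (nat_lit 1) (nat_lit 369) (nat_lit 436) (nat_lit 215)) (XT.lf (nat_lit 152) (nat_lit 9420460667) (nat_lit 0) (nat_lit 1261882) (nat_lit 76) (nat_lit 1261882) (nat_lit 34) (nat_lit 1) (nat_lit 32) (nat_lit 1) (nat_lit 33) (nat_lit 1) (nat_lit 370) (nat_lit 436) (nat_lit 214))) (XT.nd (nat_lit 78) (nat_lit 76) (nat_lit 0) (XT.lf (nat_lit 0) (nat_lit 3088320063) (nat_lit 0) (nat_lit 3091868213) (nat_lit 152) (nat_lit 3088320063) (nat_lit 32) (nat_lit 3) (nat_lit 32) (nat_lit 1) (nat_lit 34) (nat_lit 1) (nat_lit 371) (nat_lit 436) (nat_lit 213)) (XT.lf (nat_lit 76) (nat_lit 3037418387) (nat_lit 0) (nat_lit 3040797578) (nat_lit 76) (nat_lit 3040797578) (nat_lit 32) (nat_lit 3) (nat_lit 31) (nat_lit 1) (nat_lit 32) (nat_lit 1) (nat_lit 372) (nat_lit 436) (nat_lit 212))))))))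
noncomputable def ec443 : XT := (XT.nd (nat_lit 1950) (nat_lit 380) (nat_lit 0) (XT.nd (nat_lit 936) (nat_lit 1064) (nat_lit 0) (XT.nd (nat_lit 468) (nat_lit 456) (nat_lit 0) (XT.nd (nat_lit 234) (nat_lit 228) (nat_lit 0) (XT.nd (nat_lit 78) (nat_lit 76) (nat_lit 0) (XT.lf (nat_lit 152) (nat_lit 8972186788) (nat_lit 0) (nat_lit 1038153) (nat_lit 76) (nat_lit 1038153) (nat_lit 31) (nat_lit 1) (nat_lit 29) (nat_lit 1) (nat_lit 30) (nat_lit 1) (nat_lit 373) (nat_lit 436) (nat_lit 211)) (XT.nd (nat_lit 78) (nat_lit 76) (nat_lit 0) (XT.lf (nat_lit 0) (nat_lit 2941408061) (nat_lit 0) (nat_lit 2944327133) (nat_lit 152) (nat_lit 2941408061) (nat_lit 29) (nat_lit 3) (nat_lit 29) (nat_lit 1) (nat_lit 31) (nat_lit 1) (nat_lit 374) (nat_lit 436) (nat_lit 210)) (XT.lf (nat_lit 76) (nat_lit 2893069199) (nat_lit 0) (nat_lit 2895849268) (nat_lit 76) (nat_lit 2895849268) (nat_lit 29) (nat_lit 3) (nat_lit 28) (nat_lit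 1) (nat_lit 29) (nat_lit 1) (nat_lit 375) (nat_lit 436) (nat_lit 209)))) (XT.nd (nat_lit 78) (nat_lit 76) (nat_lit 0) (XT.lf (nat_lit 152) (nat_lit 8545202640) (nat_lit 0) (nat_lit 854091) (nat_lit 76) (nat_lit 854091) (nat_lit 28) (nat_lit 1) (nat_lit 26) (nat_lit 1) (nat_lit 27) (nat_lit 1) (nat_lit 376) (nat_lit 436) (nat_lit 208)) (XT.nd (nat_lit 78) (nat_lit 76) (nat_lit 0) (XT.lf (nat_lit 0) (nat_lit 2801465122) (nat_lit 0) (nat_lit 2803866650) (nat_lit 152) (nat_lit 2801465122) (nat_lit 26) (nat_lit 3) (nat_lit 26) (nat_lit 1) (nat_lit 28) (nat_lit 1) (nat_lit 377) (nat_lit 436) (nat_lit 207)) (XT.lf (nat_lit 76) (nat_lit 2755542404) (nat_lit 0) (nat_lit 2757829574) (nat_lit 76) (nat_lit 2757829574) (nat_lit 26) (nat_lit 3) (nat_lit 25) (nat_lit 1) (nat_lit 26) (nat_lit 1) (nat_lit 378) (nat_lit 436) (nat_lit 206))))) (XT.nd (nat_lit 234) (nat_lit 228) (nat_lit 0) (XT.nd (nat_lit 78) (nat_lit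 76) (nat_lit 0) (XT.lf (nat_lit 152) (nat_lit 8138504469) (nat_lit 0) (nat_lit 702663) (nat_lit 76) (nat_lit 702663) (nat_lit 25) (nat_lit 1) (nat_lit 23) (nat_lit 1) (nat_lit 24) (nat_lit 1) (nat_lit 379) (nat_lit 436) (nat_lit 205)) (XT.nd (nat_lit 78) (nat_lit 76) (nat_lit 0) (XT.lf (nat_lit 0) (nat_lit 2668164128) (nat_lit 0) (nat_lit 2670139871) (nat_lit 152) (nat_lit 2668164128) (nat_lit 23) (nat_lit 3) (nat_lit 23) (nat_lit 1) (nat_lit 25) (nat_lit 1) (nat_lit 380) (nat_lit 436) (nat_lit 204)) (XT.lf (nat_lit 76) (nat_lit 2624522236) (nat_lit 0) (nat_lit 2626403896) (nat_lit 76) (nat_lit 2626403896) (nat_lit 23) (nat_lit 3) (nat_lit 22) (nat_lit 1) (nat_lit 23) (nat_lit 1) (nat_lit 381) (nat_lit 436) (nat_lit 203)))) (XT.nd (nat_lit 78) (nat_lit 76) (nat_lit 0) (XT.lf (nat_lit 152) (nat_lit 7751134538) (nat_lit 0) (nat_lit 578082) (nat_lit 76) (nat_lit 578082) (nat_lit 22) (nat_lit 1) (nat_lit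 20) (nat_lit 1) (nat_lit 21) (nat_lit 1) (nat_lit 382) (nat_lit 436) (nat_lit 202)) (XT.nd (nat_lit 78) (nat_lit 76) (nat_lit 0) (XT.lf (nat_lit 0) (nat_lit 2541192697) (nat_lit 0) (nat_lit 2542818146) (nat_lit 152) (nat_lit 2541192697) (nat_lit 20) (nat_lit 3) (nat_lit 20) (nat_lit 1) (nat_lit 22) (nat_lit 1) (nat_lit 383) (nat_lit 436) (nat_lit 201)) (XT.lf (nat_lit 76) (nat_lit 2499706349) (nat_lit 0) (nat_lit 2501254395) (nat_lit 76) (nat_lit 2501254395) (nat_lit 20) (nat_lit 3) (nat_lit 19) (nat_lit 1) (nat_lit 20) (nat_lit 1) (nat_lit 384) (nat_lit 436) (nat_lit 200)))))) (XT.nd (nat_lit 468) (nat_lit 608) (nat_lit 0) (XT.nd (nat_lit 234) (nat_lit 228) (nat_lit 0) (XT.nd (nat_lit 78) (nat_lit 76) (nat_lit 0) (XT.lf (nat_lit 152) (nat_lit 7382179254) (nat_lit 0) (nat_lit 475590) (nat_lit 76) (nat_lit 475590) (nat_lit 19) (nat_lit 1) (nat_lit 17) (nat_lit 1) (nat_lit 18) (nat_lit 1) (nat_lit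 385) (nat_lit 436) (nat_lit 199)) (XT.nd (nat_lit 78) (nat_lit 76) (nat_lit 0) (XT.lf (nat_lit 0) (nat_lit 2420252631) (nat_lit 0) (nat_lit 2421589892) (nat_lit 152) (nat_lit 2420252631) (nat_lit 17) (nat_lit 3) (nat_lit 17) (nat_lit 1) (nat_lit 19) (nat_lit 1) (nat_lit 386) (nat_lit 436) (nat_lit 198)) (XT.lf (nat_lit 76) (nat_lit 2380805466) (nat_lit 0) (nat_lit 2382079047) (nat_lit 76) (nat_lit 2382079047) (nat_lit 17) (nat_lit 3) (nat_lit 16) (nat_lit 1) (nat_lit 17) (nat_lit 1) (nat_lit 387) (nat_lit 436) (nat_lit 197)))) (XT.nd (nat_lit 78) (nat_lit 76) (nat_lit 0) (XT.lf (nat_lit 152) (nat_lit 7030767319) (nat_lit 0) (nat_lit 391269) (nat_lit 76) (nat_lit 391269) (nat_lit 16) (nat_lit 1) (nat_lit 14) (nat_lit 1) (nat_lit 15) (nat_lit 1) (nat_lit 388) (nat_lit 436) (nat_lit 196)) (XT.nd (nat_lit 78) (nat_lit 76) (nat_lit 0) (XT.lf (nat_lit 0) (nat_lit 2305059363) (nat_lit 0) (nat_lit 2306159531)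 (nat_lit 152) (nat_lit 2305059363) (nat_lit 14) (nat_lit 3) (nat_lit 14) (nat_lit 1) (nat_lit 16) (nat_lit 1) (nat_lit 389) (nat_lit 436) (nat_lit 195)) (XT.lf (nat_lit 76) (nat_lit 2267542993) (nat_lit 0) (nat_lit 2268590772) (nat_lit 76) (nat_lit 2268590772) (nat_lit 14) (nat_lit 3) (nat_lit 13) (nat_lit 1) (nat_lit 14) (nat_lit 1) (nat_lit 390) (nat_lit 436) (nat_lit 194))))) (XT.nd (nat_lit 234) (nat_lit 380) (nat_lit 0) (XT.nd (nat_lit 78) (nat_lit 76) (nat_lit 0) (XT.lf (nat_lit 152) (nat_lit 6696067938) (nat_lit 0) (nat_lit 321898) (nat_lit 76) (nat_lit 321898) (nat_lit 13) (nat_lit 1) (nat_lit 11) (nat_lit 1) (nat_lit 12) (nat_lit 1) (nat_lit 391) (nat_lit 436) (nat_lit 193)) (XT.nd (nat_lit 78) (nat_lit 76) (nat_lit 0) (XT.lf (nat_lit 0) (nat_lit 2195341408) (nat_lit 0) (nat_lit 2196246518) (nat_lit 152) (nat_lit 2195341408) (nat_lit 11) (nat_lit 3) (nat_lit 11) (nat_lit 1) (nat_lit 13)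 (nat_lit 1) (nat_lit 392) (nat_lit 436) (nat_lit 192)) (XT.lf (nat_lit 76) (nat_lit 2159654608) (nat_lit 0) (nat_lit 2160516618) (nat_lit 76) (nat_lit 2160516618) (nat_lit 11) (nat_lit 3) (nat_lit 10) (nat_lit 1) (nat_lit 11) (nat_lit 1) (nat_lit 393) (nat_lit 436) (nat_lit 191)))) (XT.nd (nat_lit 156) (nat_lit 228) (nat_lit 0) (XT.nd (nat_lit 78) (nat_lit 0) (nat_lit 0) (XT.lf (nat_lit 152) (nat_lit 6377289058) (nat_lit 0) (nat_lit 264826) (nat_lit 76) (nat_lit 264826) (nat_lit 10) (nat_lit 1) (nat_lit 8) (nat_lit 1) (nat_lit 9) (nat_lit 1) (nat_lit 394) (nat_lit 436) (nat_lit 190)) (XT.lf (nat_lit 0) (nat_lit 2090839824) (nat_lit 0) (nat_lit 2091584461) (nat_lit 152) (nat_lit 2090839824) (nat_lit 8) (nat_lit 3) (nat_lit 8) (nat_lit 1) (nat_lit 10) (nat_lit 1) (nat_lit 395) (nat_lit 436) (nat_lit 189))) (XT.nd (nat_lit 78) (nat_lit 152) (nat_lit 0) (XT.lf (nat_lit 76) (nat_lit 2056887834) (nat_lit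 0) (nat_lit 2057597012) (nat_lit 76) (nat_lit 2057597012) (nat_lit 8) (nat_lit 3) (nat_lit 7) (nat_lit 1) (nat_lit 8) (nat_lit 1) (nat_lit 396) (nat_lit 436) (nat_lit 188)) (XT.lf (nat_lit 152) (nat_lit 6073675676) (nat_lit 0) (nat_lit 217873) (nat_lit 76) (nat_lit 217873) (nat_lit 7) (nat_lit 1) (nat_lit 5) (nat_lit 1) (nat_lit 6) (nat_lit 1) (nat_lit 397) (nat_lit 436) (nat_lit 187))))))) (XT.nd (nat_lit 1014) (nat_lit 0) (nat_lit 0) (XT.nd (nat_lit 468) (nat_lit 0) (nat_lit 0) (XT.nd (nat_lit 234) (nat_lit 152) (nat_lit 0) (XT.nd (nat_lit 78) (nat_lit 228) (nat_lit 0) (XT.lf (nat_lit 0) (nat_lit 1991307683) (nat_lit 0) (nat_lit 1991920297) (nat_lit 152) (nat_lit 1991307683) (nat_lit 5) (nat_lit 3) (nat_lit 5) (nat_lit 1) (nat_lit 7) (nat_lit 1) (nat_lit 398) (nat_lit 436) (nat_lit 186)) (XT.nd (nat_lit 78) (nat_lit 152) (nat_lit 0) (XT.lf (nat_lit 76) (nat_lit 1959001610) (nat_lit 0) (nat_lit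 1959585052) (nat_lit 76) (nat_lit 1959585052) (nat_lit 5) (nat_lit 3) (nat_lit 4) (nat_lit 1) (nat_lit 5) (nat_lit 1) (nat_lit 399) (nat_lit 436) (nat_lit 185)) (XT.lf (nat_lit 152) (nat_lit 5784508186) (nat_lit 0) (nat_lit 179244) (nat_lit 76) (nat_lit 179244) (nat_lit 4) (nat_lit 1) (nat_lit 2) (nat_lit 1) (nat_lit 3) (nat_lit 1) (nat_lit 400) (nat_lit 436) (nat_lit 184)))) (XT.nd (nat_lit 78) (nat_lit 152) (nat_lit 0) (XT.lf (nat_lit 0) (nat_lit 1896509554) (nat_lit 0) (nat_lit 1897013554) (nat_lit 152) (nat_lit 1896509554) (nat_lit 2) (nat_lit 3) (nat_lit 2) (nat_lit 1) (nat_lit 4) (nat_lit 1) (nat_lit 401) (nat_lit 436) (nat_lit 183)) (XT.nd (nat_lit 78) (nat_lit 76) (nat_lit 0) (XT.lf (nat_lit 76) (nat_lit 1865765852) (nat_lit 0) (nat_lit 1866245851) (nat_lit 76) (nat_lit 1866245851) (nat_lit 2) (nat_lit 3) (nat_lit 1) (nat_lit 1) (nat_lit 2) (nat_lit 1) (nat_lit 402) (nat_lit 436) (nat_lit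 182)) (XT.lf (nat_lit 0) (nat_lit 116164732480) (nat_lit 0) (nat_lit 0) (nat_lit 0) (nat_lit 0) (nat_lit 0) (nat_lit 0) (nat_lit 1) (nat_lit 0) (nat_lit 1) (nat_lit 0) (nat_lit 403) (nat_lit 436) (nat_lit 181))))) (XT.nd (nat_lit 234) (nat_lit 0) (nat_lit 0) (XT.nd (nat_lit 78) (nat_lit 0) (nat_lit 0) (XT.lf (nat_lit 0) (nat_lit 116164710623) (nat_lit 0) (nat_lit 0) (nat_lit 0) (nat_lit 0) (nat_lit 0) (nat_lit 0) (nat_lit 1) (nat_lit 0) (nat_lit 1) (nat_lit 0) (nat_lit 404) (nat_lit 436) (nat_lit 180)) (XT.nd (nat_lit 78) (nat_lit 0) (nat_lit 0) (XT.lf (nat_lit 0) (nat_lit 116164689808) (nat_lit 0) (nat_lit 0) (nat_lit 0) (nat_lit 0) (nat_lit 0) (nat_lit 0) (nat_lit 1) (nat_lit 0) (nat_lit 1) (nat_lit 0) (nat_lit 405) (nat_lit 436) (nat_lit 179)) (XT.lf (nat_lit 0) (nat_lit 116164669983) (nat_lit 0) (nat_lit 0) (nat_lit 0) (nat_lit 0) (nat_lit 0) (nat_lit 0) (nat_lit 1) (nat_lit 0) (nat_lit 1)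 (nat_lit 0) (nat_lit 406) (nat_lit 436) (nat_lit 178)))) (XT.nd (nat_lit 156) (nat_lit 0) (nat_lit 0) (XT.nd (nat_lit 78) (nat_lit 0) (nat_lit 0) (XT.lf (nat_lit 0) (nat_lit 116164651102) (nat_lit 0) (nat_lit 0) (nat_lit 0) (nat_lit 0) (nat_lit 0) (nat_lit 0) (nat_lit 1) (nat_lit 0) (nat_lit 1) (nat_lit 0) (nat_lit 407) (nat_lit 436) (nat_lit 177)) (XT.lf (nat_lit 0) (nat_lit 116164633121) (nat_lit 0) (nat_lit 0) (nat_lit 0) (nat_lit 0) (nat_lit 0) (nat_lit 0) (nat_lit 1) (nat_lit 0) (nat_lit 1) (nat_lit 0) (nat_lit 408) (nat_lit 436) (nat_lit 176))) (XT.nd (nat_lit 78) (nat_lit 0) (nat_lit 0) (XT.lf (nat_lit 0) (nat_lit 116164615996) (nat_lit 0) (nat_lit 0) (nat_lit 0) (nat_lit 0) (nat_lit 0) (nat_lit 0) (nat_lit 1) (nat_lit 0) (nat_lit 1) (nat_lit 0) (nat_lit 409) (nat_lit 436) (nat_lit 175)) (XT.lf (nat_lit 0) (nat_lit 116164599686) (nat_lit 0) (nat_lit 0) (nat_lit 0) (nat_lit 0) (nat_lit 0)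 (nat_lit 0) (nat_lit 1) (nat_lit 0) (nat_lit 1) (nat_lit 0) (nat_lit 410) (nat_lit 436) (nat_lit 174)))))) (XT.nd (nat_lit 468) (nat_lit 0) (nat_lit 0) (XT.nd (nat_lit 234) (nat_lit 0) (nat_lit 0) (XT.nd (nat_lit 78) (nat_lit 0) (nat_lit 0) (XT.lf (nat_lit 0) (nat_lit 116164584153) (nat_lit 0) (nat_lit 0) (nat_lit 0) (nat_lit 0) (nat_lit 0) (nat_lit 0) (nat_lit 1) (nat_lit 0) (nat_lit 1) (nat_lit 0) (nat_lit 411) (nat_lit 436) (nat_lit 173)) (XT.nd (nat_lit 78) (nat_lit 0) (nat_lit 0) (XT.lf (nat_lit 0) (nat_lit 116164569360) (nat_lit 0) (nat_lit 0) (nat_lit 0) (nat_lit 0) (nat_lit 0) (nat_lit 0) (nat_lit 1) (nat_lit 0) (nat_lit 1) (nat_lit 0) (nat_lit 412) (nat_lit 436) (nat_lit 172)) (XT.lf (nat_lit 0) (nat_lit 116164555271) (nat_lit 0) (nat_lit 0) (nat_lit 0) (nat_lit 0) (nat_lit 0) (nat_lit 0) (nat_lit 1) (nat_lit 0) (nat_lit 1) (nat_lit 0) (nat_lit 413) (nat_lit 436) (nat_lit 171)))) (XT.nd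 (nat_lit 78) (nat_lit 0) (nat_lit 0) (XT.lf (nat_lit 0) (nat_lit 116164541853) (nat_lit 0) (nat_lit 0) (nat_lit 0) (nat_lit 0) (nat_lit 0) (nat_lit 0) (nat_lit 1) (nat_lit 0) (nat_lit 1) (nat_lit 0) (nat_lit 414) (nat_lit 436) (nat_lit 170)) (XT.nd (nat_lit 78) (nat_lit 0) (nat_lit 0) (XT.lf (nat_lit 0) (nat_lit 116164529074) (nat_lit 0) (nat_lit 0) (nat_lit 0) (nat_lit 0) (nat_lit 0) (nat_lit 0) (nat_lit 1) (nat_lit 0) (nat_lit 1) (nat_lit 0) (nat_lit 415) (nat_lit 436) (nat_lit 169)) (XT.lf (nat_lit 0) (nat_lit 116164516903) (nat_lit 0) (nat_lit 0) (nat_lit 0) (nat_lit 0) (nat_lit 0) (nat_lit 0) (nat_lit 1) (nat_lit 0) (nat_lit 1) (nat_lit 0) (nat_lit 416) (nat_lit 436) (nat_lit 168))))) (XT.nd (nat_lit 234) (nat_lit 0) (nat_lit 0) (XT.nd (nat_lit 78) (nat_lit 0) (nat_lit 0) (XT.lf (nat_lit 0) (nat_lit 116164505312) (nat_lit 0) (nat_lit 0) (nat_lit 0) (nat_lit 0) (nat_lit 0) (nat_lit 0) (nat_lit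 1) (nat_lit 0) (nat_lit 1) (nat_lit 0) (nat_lit 417) (nat_lit 436) (nat_lit 167)) (XT.nd (nat_lit 78) (nat_lit 0) (nat_lit 0) (XT.lf (nat_lit 0) (nat_lit 116164494273) (nat_lit 0) (nat_lit 0) (nat_lit 0) (nat_lit 0) (nat_lit 0) (nat_lit 0) (nat_lit 1) (nat_lit 0) (nat_lit 1) (nat_lit 0) (nat_lit 418) (nat_lit 436) (nat_lit 166)) (XT.lf (nat_lit 0) (nat_lit 116164483760) (nat_lit 0) (nat_lit 0) (nat_lit 0) (nat_lit 0) (nat_lit 0) (nat_lit 0) (nat_lit 1) (nat_lit 0) (nat_lit 1) (nat_lit 0) (nat_lit 419) (nat_lit 436) (nat_lit 165)))) (XT.nd (nat_lit 156) (nat_lit 0) (nat_lit 0) (XT.nd (nat_lit 78) (nat_lit 0) (nat_lit 0) (XT.lf (nat_lit 0) (nat_lit 116164473747) (nat_lit 0) (nat_lit 0) (nat_lit 0) (nat_lit 0) (nat_lit 0) (nat_lit 0) (nat_lit 1) (nat_lit 0) (nat_lit 1) (nat_lit 0) (nat_lit 420) (nat_lit 436) (nat_lit 164)) (XT.lf (nat_lit 0) (nat_lit 116164464211) (nat_lit 0) (nat_lit 0) (nat_lit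 0) (nat_lit 0) (nat_lit 0) (nat_lit 0) (nat_lit 1) (nat_lit 0) (nat_lit 1) (nat_lit 0) (nat_lit 421) (nat_lit 436) (nat_lit 163))) (XT.nd (nat_lit 78) (nat_lit 0) (nat_lit 0) (XT.lf (nat_lit 0) (nat_lit 116164455129) (nat_lit 0) (nat_lit 0) (nat_lit 0) (nat_lit 0) (nat_lit 0) (nat_lit 0) (nat_lit 1) (nat_lit 0) (nat_lit 1) (nat_lit 0) (nat_lit 422) (nat_lit 436) (nat_lit 162)) (XT.lf (nat_lit 0) (nat_lit 116164446480) (nat_lit 0) (nat_lit 0) (nat_lit 0) (nat_lit 0) (nat_lit 0) (nat_lit 0) (nat_lit 1) (nat_lit 0) (nat_lit 1) (nat_lit 0) (nat_lit 423) (nat_lit 436) (nat_lit 161))))))))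
noncomputable def ec444 : XT := (XT.nd (nat_lit 32292) (nat_lit 0) (nat_lit 17480) (XT.nd (nat_lit 936) (nat_lit 0) (nat_lit 0) (XT.nd (nat_lit 468) (nat_lit 0) (nat_lit 0) (XT.nd (nat_lit 234) (nat_lit 0) (nat_lit 0) (XT.nd (nat_lit 78) (nat_lit 0) (nat_lit 0) (XT.lf (nat_lit 0) (nat_lit 116164438242) (nat_lit 0) (nat_lit 0) (nat_lit 0) (nat_lit 0) (nat_lit 0) (nat_lit 0) (nat_lit 1) (nat_lit 0) (nat_lit 1) (nat_lit 0) (nat_lit 424) (nat_lit 436) (nat_lit 160)) (XT.nd (nat_lit 78) (nat_lit 0) (nat_lit 0) (XT.lf (nat_lit 0) (nat_lit 116164430397) (nat_lit 0) (nat_lit 0) (nat_lit 0) (nat_lit 0) (nat_lit 0) (nat_lit 0) (nat_lit 1) (nat_lit 0) (nat_lit 1) (nat_lit 0) (nat_lit 425) (nat_lit 436) (nat_lit 159)) (XT.lf (nat_lit 0) (nat_lit 116164422925) (nat_lit 0) (nat_lit 0) (nat_lit 0) (nat_lit 0) (nat_lit 0) (nat_lit 0) (nat_lit 1) (nat_lit 0) (nat_lit 1) (nat_lit 0) (nat_lit 426) (nat_lit 436) (nat_lit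 158)))) (XT.nd (nat_lit 78) (nat_lit 0) (nat_lit 0) (XT.lf (nat_lit 0) (nat_lit 116164415809) (nat_lit 0) (nat_lit 0) (nat_lit 0) (nat_lit 0) (nat_lit 0) (nat_lit 0) (nat_lit 1) (nat_lit 0) (nat_lit 1) (nat_lit 0) (nat_lit 427) (nat_lit 436) (nat_lit 157)) (XT.nd (nat_lit 78) (nat_lit 0) (nat_lit 0) (XT.lf (nat_lit 0) (nat_lit 116164409032) (nat_lit 0) (nat_lit 0) (nat_lit 0) (nat_lit 0) (nat_lit 0) (nat_lit 0) (nat_lit 1) (nat_lit 0) (nat_lit 1) (nat_lit 0) (nat_lit 428) (nat_lit 436) (nat_lit 156)) (XT.lf (nat_lit 0) (nat_lit 116164402578) (nat_lit 0) (nat_lit 0) (nat_lit 0) (nat_lit 0) (nat_lit 0) (nat_lit 0) (nat_lit 1) (nat_lit 0) (nat_lit 1) (nat_lit 0) (nat_lit 429) (nat_lit 436) (nat_lit 155))))) (XT.nd (nat_lit 234) (nat_lit 0) (nat_lit 0) (XT.nd (nat_lit 78) (nat_lit 0) (nat_lit 0) (XT.lf (nat_lit 0) (nat_lit 116164396431) (nat_lit 0) (nat_lit 0) (nat_lit 0) (nat_lit 0) (nat_lit 0) (nat_lit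 0) (nat_lit 1) (nat_lit 0) (nat_lit 1) (nat_lit 0) (nat_lit 430) (nat_lit 436) (nat_lit 154)) (XT.nd (nat_lit 78) (nat_lit 0) (nat_lit 0) (XT.lf (nat_lit 0) (nat_lit 116164390577) (nat_lit 0) (nat_lit 0) (nat_lit 0) (nat_lit 0) (nat_lit 0) (nat_lit 0) (nat_lit 1) (nat_lit 0) (nat_lit 1) (nat_lit 0) (nat_lit 431) (nat_lit 436) (nat_lit 153)) (XT.lf (nat_lit 0) (nat_lit 116164385001) (nat_lit 0) (nat_lit 0) (nat_lit 0) (nat_lit 0) (nat_lit 0) (nat_lit 0) (nat_lit 1) (nat_lit 0) (nat_lit 1) (nat_lit 0) (nat_lit 432) (nat_lit 436) (nat_lit 152)))) (XT.nd (nat_lit 78) (nat_lit 0) (nat_lit 0) (XT.lf (nat_lit 0) (nat_lit 116164379691) (nat_lit 0) (nat_lit 0) (nat_lit 0) (nat_lit 0) (nat_lit 0) (nat_lit 0) (nat_lit 1) (nat_lit 0) (nat_lit 1) (nat_lit 0) (nat_lit 433) (nat_lit 436) (nat_lit 151)) (XT.nd (nat_lit 78) (nat_lit 0) (nat_lit 0) (XT.lf (nat_lit 0) (nat_lit 116164374634) (nat_lit 0) (nat_lit 0)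 (nat_lit 0) (nat_lit 0) (nat_lit 0) (nat_lit 0) (nat_lit 1) (nat_lit 0) (nat_lit 1) (nat_lit 0) (nat_lit 434) (nat_lit 436) (nat_lit 150)) (XT.lf (nat_lit 0) (nat_lit 116164369818) (nat_lit 0) (nat_lit 0) (nat_lit 0) (nat_lit 0) (nat_lit 0) (nat_lit 0) (nat_lit 1) (nat_lit 0) (nat_lit 1) (nat_lit 0) (nat_lit 435) (nat_lit 436) (nat_lit 149)))))) (XT.nd (nat_lit 30810) (nat_lit 0) (nat_lit 22344) (XT.nd (nat_lit 30576) (nat_lit 0) (nat_lit 22192) (XT.nd (nat_lit 78) (nat_lit 0) (nat_lit 0) (XT.lf (nat_lit 0) (nat_lit 116164365231) (nat_lit 0) (nat_lit 0) (nat_lit 0) (nat_lit 0) (nat_lit 0) (nat_lit 0) (nat_lit 1) (nat_lit 0) (nat_lit 1) (nat_lit 0) (nat_lit 436) (nat_lit 436) (nat_lit 148)) (XT.nd (nat_lit 30420) (nat_lit 0) (nat_lit 22192) (XT.lf (nat_lit 0) (nat_lit 116164360863) (nat_lit 0) (nat_lit 0) (nat_lit 0) (nat_lit 0) (nat_lit 0) (nat_lit 0) (nat_lit 1) (nat_lit 0) (nat_lit 1) (nat_lit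 0) (nat_lit 437) (nat_lit 436) (nat_lit 147)) (XT.lf (nat_lit 836) (nat_lit 61039601375) (nat_lit 0) (nat_lit 108375671936) (nat_lit 836) (nat_lit 61039601375) (nat_lit 303) (nat_lit 1) (nat_lit 292) (nat_lit 0) (nat_lit 303) (nat_lit 0) (nat_lit 146) (nat_lit 437) (nat_lit 437)))) (XT.nd (nat_lit 78) (nat_lit 0) (nat_lit 76) (XT.lf (nat_lit 836) (nat_lit 236597115422) (nat_lit 76) (nat_lit 106627677227) (nat_lit 0) (nat_lit 106627677227) (nat_lit 303) (nat_lit 1) (nat_lit 293) (nat_lit 1) (nat_lit 292) (nat_lit 0) (nat_lit 147) (nat_lit 437) (nat_lit 436)) (XT.nd (nat_lit 78) (nat_lit 0) (nat_lit 0) (XT.lf (nat_lit 836) (nat_lit 112758622770) (nat_lit 0) (nat_lit 213619784759) (nat_lit 760) (nat_lit 112758622770) (nat_lit 304) (nat_lit 1) (nat_lit 293) (nat_lit 1) (nat_lit 303) (nat_lit 1) (nat_lit 148) (nat_lit 437) (nat_lit 435)) (XT.lf (nat_lit 836) (nat_lit 211519508111) (nat_lit 76) (nat_lit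 108624135571) (nat_lit 0) (nat_lit 108624135571) (nat_lit 304) (nat_lit 1) (nat_lit 294) (nat_lit 1) (nat_lit 293) (nat_lit 1) (nat_lit 149) (nat_lit 437) (nat_lit 434))))) (XT.nd (nat_lit 234) (nat_lit 0) (nat_lit 76) (XT.nd (nat_lit 78) (nat_lit 0) (nat_lit 0) (XT.lf (nat_lit 836) (nat_lit 97360398343) (nat_lit 0) (nat_lit 224006384766) (nat_lit 760) (nat_lit 97360398343) (nat_lit 305) (nat_lit 1) (nat_lit 294) (nat_lit 1) (nat_lit 304) (nat_lit 1) (nat_lit 150) (nat_lit 437) (nat_lit 433)) (XT.nd (nat_lit 78) (nat_lit 0) (nat_lit 76) (XT.lf (nat_lit 836) (nat_lit 175109017695) (nat_lit 76) (nat_lit 116941820873) (nat_lit 0) (nat_lit 116941820873) (nat_lit 305) (nat_lit 1) (nat_lit 295) (nat_lit 1) (nat_lit 294) (nat_lit 1) (nat_lit 151) (nat_lit 437) (nat_lit 432)) (XT.lf (nat_lit 836) (nat_lit 76780246654) (nat_lit 0) (nat_lit 246024495664) (nat_lit 760) (nat_lit 76780246654) (nat_lit 306)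 (nat_lit 1) (nat_lit 295) (nat_lit 1) (nat_lit 305) (nat_lit 1) (nat_lit 152) (nat_lit 437) (nat_lit 431)))) (XT.nd (nat_lit 156) (nat_lit 0) (nat_lit 76) (XT.nd (nat_lit 78) (nat_lit 0) (nat_lit 76) (XT.lf (nat_lit 836) (nat_lit 129069952102) (nat_lit 76) (nat_lit 130683195901) (nat_lit 0) (nat_lit 130683195901) (nat_lit 306) (nat_lit 1) (nat_lit 296) (nat_lit 1) (nat_lit 295) (nat_lit 1) (nat_lit 153) (nat_lit 437) (nat_lit 430)) (XT.lf (nat_lit 836) (nat_lit 51814863145) (nat_lit 0) (nat_lit 277992865128) (nat_lit 760) (nat_lit 51814863145) (nat_lit 307) (nat_lit 1) (nat_lit 296) (nat_lit 1) (nat_lit 306) (nat_lit 1) (nat_lit 154) (nat_lit 437) (nat_lit 429))) (XT.nd (nat_lit 78) (nat_lit 0) (nat_lit 76) (XT.lf (nat_lit 836) (nat_lit 74917183914) (nat_lit 76) (nat_lit 149048922666) (nat_lit 0) (nat_lit 149048922666) (nat_lit 307) (nat_lit 1) (nat_lit 297) (nat_lit 1) (nat_lit 296) (nat_lit 1)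 (nat_lit 155) (nat_lit 437) (nat_lit 428)) (XT.lf (nat_lit 76) (nat_lit 23171877452) (nat_lit 0) (nat_lit 318415112724) (nat_lit 760) (nat_lit 23171877452) (nat_lit 298) (nat_lit 1) (nat_lit 297) (nat_lit 1) (nat_lit 307) (nat_lit 1) (nat_lit 156) (nat_lit 437) (nat_lit 427))))))) (XT.nd (nat_lit 936) (nat_lit 2052) (nat_lit 0) (XT.nd (nat_lit 468) (nat_lit 988) (nat_lit 0) (XT.nd (nat_lit 234) (nat_lit 760) (nat_lit 0) (XT.nd (nat_lit 78) (nat_lit 532) (nat_lit 0) (XT.lf (nat_lit 836) (nat_lit 13995237746) (nat_lit 0) (nat_lit 171328030179) (nat_lit 760) (nat_lit 171328030179) (nat_lit 298) (nat_lit 1) (nat_lit 287) (nat_lit 1) (nat_lit 297) (nat_lit 1) (nat_lit 157) (nat_lit 437) (nat_lit 426)) (XT.nd (nat_lit 78) (nat_lit 0) (nat_lit 0) (XT.lf (nat_lit 532) (nat_lit 332124616866) (nat_lit 0) (nat_lit 8383714044) (nat_lit 456) (nat_lit 8383714044) (nat_lit 287) (nat_lit 1) (nat_lit 280) (nat_lit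 1) (nat_lit 286) (nat_lit 1) (nat_lit 158) (nat_lit 437) (nat_lit 425)) (XT.lf (nat_lit 76) (nat_lit 145204304451) (nat_lit 0) (nat_lit 50823996352) (nat_lit 532) (nat_lit 145204304451) (nat_lit 281) (nat_lit 1) (nat_lit 280) (nat_lit 1) (nat_lit 287) (nat_lit 1) (nat_lit 159) (nat_lit 437) (nat_lit 424)))) (XT.nd (nat_lit 78) (nat_lit 380) (nat_lit 0) (XT.lf (nat_lit 456) (nat_lit 249859335632) (nat_lit 0) (nat_lit 42019764909) (nat_lit 380) (nat_lit 42019764909) (nat_lit 281) (nat_lit 1) (nat_lit 275) (nat_lit 1) (nat_lit 280) (nat_lit 1) (nat_lit 160) (nat_lit 437) (nat_lit 423)) (XT.nd (nat_lit 78) (nat_lit 380) (nat_lit 0) (XT.lf (nat_lit 76) (nat_lit 103572462726) (nat_lit 0) (nat_lit 119574375674) (nat_lit 456) (nat_lit 103572462726) (nat_lit 276) (nat_lit 1) (nat_lit 275) (nat_lit 1) (nat_lit 281) (nat_lit 1) (nat_lit 161) (nat_lit 437) (nat_lit 422)) (XT.lf (nat_lit 456) (nat_lit 164535915845)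 (nat_lit 0) (nat_lit 77626932988) (nat_lit 380) (nat_lit 77626932988) (nat_lit 276) (nat_lit 1) (nat_lit 270) (nat_lit 1) (nat_lit 275) (nat_lit 1) (nat_lit 162) (nat_lit 437) (nat_lit 421))))) (XT.nd (nat_lit 234) (nat_lit 684) (nat_lit 0) (XT.nd (nat_lit 78) (nat_lit 304) (nat_lit 0) (XT.lf (nat_lit 76) (nat_lit 60629298299) (nat_lit 0) (nat_lit 191803199690) (nat_lit 456) (nat_lit 60629298299) (nat_lit 271) (nat_lit 1) (nat_lit 270) (nat_lit 1) (nat_lit 276) (nat_lit 1) (nat_lit 163) (nat_lit 437) (nat_lit 420)) (XT.nd (nat_lit 78) (nat_lit 0) (nat_lit 0) (XT.lf (nat_lit 380) (nat_lit 76948502082) (nat_lit 0) (nat_lit 114779187325) (nat_lit 304) (nat_lit 114779187325) (nat_lit 271) (nat_lit 1) (nat_lit 266) (nat_lit 1) (nat_lit 270) (nat_lit 1) (nat_lit 164) (nat_lit 437) (nat_lit 419)) (XT.lf (nat_lit 76) (nat_lit 16743480606) (nat_lit 0) (nat_lit 266717065902) (nat_lit 380) (nat_lit 16743480606)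 (nat_lit 267) (nat_lit 1) (nat_lit 266) (nat_lit 1) (nat_lit 271) (nat_lit 1) (nat_lit 165) (nat_lit 437) (nat_lit 418)))) (XT.nd (nat_lit 78) (nat_lit 304) (nat_lit 0) (XT.lf (nat_lit 76) (nat_lit 141085378833) (nat_lit 0) (nat_lit 11816174537) (nat_lit 380) (nat_lit 141085378833) (nat_lit 262) (nat_lit 1) (nat_lit 261) (nat_lit 1) (nat_lit 266) (nat_lit 1) (nat_lit 166) (nat_lit 437) (nat_lit 417)) (XT.nd (nat_lit 78) (nat_lit 0) (nat_lit 0) (XT.lf (nat_lit 380) (nat_lit 233377465987) (nat_lit 0) (nat_lit 27314566760) (nat_lit 304) (nat_lit 27314566760) (nat_lit 262) (nat_lit 1) (nat_lit 257) (nat_lit 1) (nat_lit 261) (nat_lit 1) (nat_lit 167) (nat_lit 437) (nat_lit 416)) (XT.lf (nat_lit 76) (nat_lit 91540902144) (nat_lit 0) (nat_lit 99047056456) (nat_lit 380) (nat_lit 91540902144) (nat_lit 258) (nat_lit 1) (nat_lit 257) (nat_lit 1) (nat_lit 262) (nat_lit 1) (nat_lit 168) (nat_lit 437) (nat_lit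 415)))))) (XT.nd (nat_lit 468) (nat_lit 912) (nat_lit 0) (XT.nd (nat_lit 234) (nat_lit 608) (nat_lit 0) (XT.nd (nat_lit 78) (nat_lit 228) (nat_lit 0) (XT.lf (nat_lit 380) (nat_lit 133583640932) (nat_lit 0) (nat_lit 71435650182) (nat_lit 304) (nat_lit 71435650182) (nat_lit 258) (nat_lit 1) (nat_lit 253) (nat_lit 1) (nat_lit 257) (nat_lit 1) (nat_lit 169) (nat_lit 437) (nat_lit 414)) (XT.nd (nat_lit 78) (nat_lit 228) (nat_lit 0) (XT.lf (nat_lit 76) (nat_lit 42126318610) (nat_lit 0) (nat_lit 186694290519) (nat_lit 380) (nat_lit 42126318610) (nat_lit 254) (nat_lit 1) (nat_lit 253) (nat_lit 1) (nat_lit 258) (nat_lit 1) (nat_lit 170) (nat_lit 437) (nat_lit 413)) (XT.lf (nat_lit 304) (nat_lit 34259530688) (nat_lit 0) (nat_lit 115649139730) (nat_lit 228) (nat_lit 115649139730) (nat_lit 254) (nat_lit 1) (nat_lit 250) (nat_lit 1) (nat_lit 253) (nat_lit 1) (nat_lit 171) (nat_lit 437) (nat_lit 412)))) (XT.nd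 (nat_lit 78) (nat_lit 228) (nat_lit 0) (XT.lf (nat_lit 380) (nat_lit 246686509710) (nat_lit 0) (nat_lit 6845077304) (nat_lit 304) (nat_lit 6845077304) (nat_lit 250) (nat_lit 1) (nat_lit 245) (nat_lit 1) (nat_lit 249) (nat_lit 1) (nat_lit 172) (nat_lit 437) (nat_lit 411)) (XT.nd (nat_lit 78) (nat_lit 228) (nat_lit 0) (XT.lf (nat_lit 76) (nat_lit 96530254971) (nat_lit 0) (nat_lit 62163685565) (nat_lit 380) (nat_lit 96530254971) (nat_lit 246) (nat_lit 1) (nat_lit 245) (nat_lit 1) (nat_lit 250) (nat_lit 1) (nat_lit 173) (nat_lit 437) (nat_lit 410)) (XT.lf (nat_lit 304) (nat_lit 140985489124) (nat_lit 0) (nat_lit 54641924232) (nat_lit 228) (nat_lit 54641924232) (nat_lit 246) (nat_lit 1) (nat_lit 242) (nat_lit 1) (nat_lit 245) (nat_lit 1) (nat_lit 174) (nat_lit 437) (nat_lit 409))))) (XT.nd (nat_lit 234) (nat_lit 380) (nat_lit 0) (XT.nd (nat_lit 78) (nat_lit 532) (nat_lit 0) (XT.lf (nat_lit 76) (nat_lit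 44539496837) (nat_lit 0) (nat_lit 156361372681) (nat_lit 304) (nat_lit 44539496837) (nat_lit 243) (nat_lit 1) (nat_lit 242) (nat_lit 1) (nat_lit 246) (nat_lit 1) (nat_lit 175) (nat_lit 437) (nat_lit 408)) (XT.nd (nat_lit 78) (nat_lit 304) (nat_lit 0) (XT.lf (nat_lit 304) (nat_lit 37122278478) (nat_lit 0) (nat_lit 101799487217) (nat_lit 228) (nat_lit 101799487217) (nat_lit 243) (nat_lit 1) (nat_lit 239) (nat_lit 1) (nat_lit 242) (nat_lit 1) (nat_lit 176) (nat_lit 437) (nat_lit 407)) (XT.lf (nat_lit 304) (nat_lit 223417766470) (nat_lit 0) (nat_lit 6379847025) (nat_lit 228) (nat_lit 6379847025) (nat_lit 239) (nat_lit 1) (nat_lit 235) (nat_lit 1) (nat_lit 238) (nat_lit 1) (nat_lit 177) (nat_lit 437) (nat_lit 406)))) (XT.nd (nat_lit 156) (nat_lit 152) (nat_lit 0) (XT.nd (nat_lit 78) (nat_lit 228) (nat_lit 0) (XT.lf (nat_lit 76) (nat_lit 84512542774) (nat_lit 0) (nat_lit 62622945596) (nat_lit 304) (nat_lit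 84512542774) (nat_lit 236) (nat_lit 1) (nat_lit 235) (nat_lit 1) (nat_lit 239) (nat_lit 1) (nat_lit 178) (nat_lit 437) (nat_lit 405)) (XT.lf (nat_lit 304) (nat_lit 116212484779) (nat_lit 0) (nat_lit 55536853299) (nat_lit 228) (nat_lit 55536853299) (nat_lit 236) (nat_lit 1) (nat_lit 232) (nat_lit 1) (nat_lit 235) (nat_lit 1) (nat_lit 179) (nat_lit 437) (nat_lit 404))) (XT.nd (nat_lit 78) (nat_lit 152) (nat_lit 0) (XT.lf (nat_lit 76) (nat_lit 32004823530) (nat_lit 0) (nat_lit 159031691080) (nat_lit 304) (nat_lit 32004823530) (nat_lit 233) (nat_lit 1) (nat_lit 232) (nat_lit 1) (nat_lit 236) (nat_lit 1) (nat_lit 180) (nat_lit 437) (nat_lit 403)) (XT.lf (nat_lit 228) (nat_lit 11727631480) (nat_lit 0) (nat_lit 103574422567) (nat_lit 152) (nat_lit 103574422567) (nat_lit 233) (nat_lit 1) (nat_lit 230) (nat_lit 1) (nat_lit 232) (nat_lit 1) (nat_lit 181) (nat_lit 437) (nat_lit 402))))))))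
noncomputable def ec445 : XT := (XT.nd (nat_lit 1950) (nat_lit 1976) (nat_lit 0) (XT.nd (nat_lit 936) (nat_lit 1292) (nat_lit 0) (XT.nd (nat_lit 468) (nat_lit 532) (nat_lit 0) (XT.nd (nat_lit 234) (nat_lit 380) (nat_lit 0) (XT.nd (nat_lit 78) (nat_lit 152) (nat_lit 0) (XT.lf (nat_lit 304) (nat_lit 177200579215) (nat_lit 0) (nat_lit 18819985922) (nat_lit 228) (nat_lit 18819985922) (nat_lit 230) (nat_lit 1) (nat_lit 226) (nat_lit 1) (nat_lit 229) (nat_lit 1) (nat_lit 182) (nat_lit 437) (nat_lit 401)) (XT.nd (nat_lit 78) (nat_lit 152) (nat_lit 0) (XT.lf (nat_lit 76) (nat_lit 61891956085) (nat_lit 0) (nat_lit 87065851278) (nat_lit 304) (nat_lit 61891956085) (nat_lit 227) (nat_lit 1) (nat_lit 226) (nat_lit 1) (nat_lit 230) (nat_lit 1) (nat_lit 183) (nat_lit 437) (nat_lit 400)) (XT.lf (nat_lit 228) (nat_lit 71506608015) (nat_lit 0) (nat_lit 67737767238) (nat_lit 152) (nat_lit 67737767238) (nat_lit 227)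 (nat_lit 1) (nat_lit 224) (nat_lit 1) (nat_lit 226) (nat_lit 1) (nat_lit 184) (nat_lit 437) (nat_lit 399)))) (XT.nd (nat_lit 78) (nat_lit 380) (nat_lit 0) (XT.lf (nat_lit 76) (nat_lit 10273229909) (nat_lit 0) (nat_lit 182696413212) (nat_lit 228) (nat_lit 10273229909) (nat_lit 225) (nat_lit 1) (nat_lit 224) (nat_lit 1) (nat_lit 227) (nat_lit 1) (nat_lit 185) (nat_lit 437) (nat_lit 398)) (XT.nd (nat_lit 78) (nat_lit 152) (nat_lit 0) (XT.lf (nat_lit 76) (nat_lit 84786768834) (nat_lit 0) (nat_lit 29943658417) (nat_lit 228) (nat_lit 84786768834) (nat_lit 222) (nat_lit 1) (nat_lit 221) (nat_lit 1) (nat_lit 224) (nat_lit 1) (nat_lit 186) (nat_lit 437) (nat_lit 397)) (XT.lf (nat_lit 228) (nat_lit 117741288686) (nat_lit 0) (nat_lit 39086917759) (nat_lit 152) (nat_lit 39086917759) (nat_lit 222) (nat_lit 1) (nat_lit 219) (nat_lit 1) (nat_lit 221) (nat_lit 1) (nat_lit 187) (nat_lit 437) (nat_lit 396))))) (XT.nd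 (nat_lit 234) (nat_lit 152) (nat_lit 0) (XT.nd (nat_lit 78) (nat_lit 380) (nat_lit 0) (XT.lf (nat_lit 76) (nat_lit 33223528488) (nat_lit 0) (nat_lit 125945609007) (nat_lit 228) (nat_lit 33223528488) (nat_lit 220) (nat_lit 1) (nat_lit 219) (nat_lit 1) (nat_lit 222) (nat_lit 1) (nat_lit 188) (nat_lit 437) (nat_lit 395)) (XT.nd (nat_lit 78) (nat_lit 228) (nat_lit 0) (XT.lf (nat_lit 228) (nat_lit 15564026937) (nat_lit 0) (nat_lit 86688592255) (nat_lit 152) (nat_lit 86688592255) (nat_lit 220) (nat_lit 1) (nat_lit 217) (nat_lit 1) (nat_lit 219) (nat_lit 1) (nat_lit 189) (nat_lit 437) (nat_lit 394)) (XT.lf (nat_lit 228) (nat_lit 152973311785) (nat_lit 0) (nat_lit 16308226845) (nat_lit 152) (nat_lit 16308226845) (nat_lit 217) (nat_lit 1) (nat_lit 214) (nat_lit 1) (nat_lit 216) (nat_lit 1) (nat_lit 190) (nat_lit 437) (nat_lit 393)))) (XT.nd (nat_lit 78) (nat_lit 152) (nat_lit 0) (XT.lf (nat_lit 76) (nat_lit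 50925190362) (nat_lit 0) (nat_lit 80416543002) (nat_lit 228) (nat_lit 50925190362) (nat_lit 215) (nat_lit 1) (nat_lit 214) (nat_lit 1) (nat_lit 217) (nat_lit 1) (nat_lit 191) (nat_lit 437) (nat_lit 392)) (XT.nd (nat_lit 78) (nat_lit 0) (nat_lit 0) (XT.lf (nat_lit 228) (nat_lit 51864833937) (nat_lit 0) (nat_lit 63587857371) (nat_lit 152) (nat_lit 63587857371) (nat_lit 215) (nat_lit 1) (nat_lit 212) (nat_lit 1) (nat_lit 214) (nat_lit 1) (nat_lit 192) (nat_lit 437) (nat_lit 391)) (XT.lf (nat_lit 76) (nat_lit 1704654051) (nat_lit 0) (nat_lit 172518014666) (nat_lit 228) (nat_lit 1704654051) (nat_lit 213) (nat_lit 1) (nat_lit 212) (nat_lit 1) (nat_lit 215) (nat_lit 1) (nat_lit 193) (nat_lit 437) (nat_lit 390)))))) (XT.nd (nat_lit 468) (nat_lit 684) (nat_lit 0) (XT.nd (nat_lit 234) (nat_lit 304) (nat_lit 0) (XT.nd (nat_lit 78) (nat_lit 152) (nat_lit 0) (XT.lf (nat_lit 76) (nat_lit 64364957525) (nat_lit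 0) (nat_lit 44064392544) (nat_lit 152) (nat_lit 64364957525) (nat_lit 211) (nat_lit 1) (nat_lit 210) (nat_lit 1) (nat_lit 212) (nat_lit 1) (nat_lit 194) (nat_lit 437) (nat_lit 389)) (XT.nd (nat_lit 78) (nat_lit 0) (nat_lit 0) (XT.lf (nat_lit 228) (nat_lit 79869584814) (nat_lit 0) (nat_lit 44950971422) (nat_lit 152) (nat_lit 44950971422) (nat_lit 211) (nat_lit 1) (nat_lit 208) (nat_lit 1) (nat_lit 210) (nat_lit 1) (nat_lit 195) (nat_lit 437) (nat_lit 388)) (XT.lf (nat_lit 76) (nat_lit 16013299757) (nat_lit 0) (nat_lit 134803740709) (nat_lit 228) (nat_lit 16013299757) (nat_lit 209) (nat_lit 1) (nat_lit 208) (nat_lit 1) (nat_lit 211) (nat_lit 1) (nat_lit 196) (nat_lit 437) (nat_lit 387)))) (XT.nd (nat_lit 78) (nat_lit 152) (nat_lit 0) (XT.lf (nat_lit 76) (nat_lit 74351950213) (nat_lit 0) (nat_lit 15209507274) (nat_lit 152) (nat_lit 74351950213) (nat_lit 207) (nat_lit 1) (nat_lit 206) (nat_lit 1) (nat_lit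 208) (nat_lit 1) (nat_lit 197) (nat_lit 437) (nat_lit 386)) (XT.nd (nat_lit 78) (nat_lit 0) (nat_lit 0) (XT.lf (nat_lit 228) (nat_lit 101137721830) (nat_lit 0) (nat_lit 29968974287) (nat_lit 152) (nat_lit 29968974287) (nat_lit 207) (nat_lit 1) (nat_lit 204) (nat_lit 1) (nat_lit 206) (nat_lit 1) (nat_lit 198) (nat_lit 437) (nat_lit 385)) (XT.lf (nat_lit 76) (nat_lit 27089301958) (nat_lit 0) (nat_lit 104115507376) (nat_lit 228) (nat_lit 27089301958) (nat_lit 205) (nat_lit 1) (nat_lit 204) (nat_lit 1) (nat_lit 207) (nat_lit 1) (nat_lit 199) (nat_lit 437) (nat_lit 384))))) (XT.nd (nat_lit 234) (nat_lit 380) (nat_lit 0) (XT.nd (nat_lit 78) (nat_lit 228) (nat_lit 0) (XT.lf (nat_lit 152) (nat_lit 7776352100) (nat_lit 0) (nat_lit 73894344725) (nat_lit 76) (nat_lit 73894344725) (nat_lit 205) (nat_lit 1) (nat_lit 203) (nat_lit 1) (nat_lit 204) (nat_lit 1) (nat_lit 200) (nat_lit 437) (nat_lit 383)) (XT.nd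 (nat_lit 78) (nat_lit 0) (nat_lit 0) (XT.lf (nat_lit 228) (nat_lit 116947984275) (nat_lit 0) (nat_lit 17977167269) (nat_lit 152) (nat_lit 17977167269) (nat_lit 203) (nat_lit 1) (nat_lit 200) (nat_lit 1) (nat_lit 202) (nat_lit 1) (nat_lit 201) (nat_lit 437) (nat_lit 382)) (XT.lf (nat_lit 76) (nat_lit 35538931589) (nat_lit 0) (nat_lit 79191453471) (nat_lit 228) (nat_lit 35538931589) (nat_lit 201) (nat_lit 1) (nat_lit 200) (nat_lit 1) (nat_lit 203) (nat_lit 1) (nat_lit 202) (nat_lit 437) (nat_lit 381)))) (XT.nd (nat_lit 156) (nat_lit 76) (nat_lit 0) (XT.nd (nat_lit 78) (nat_lit 228) (nat_lit 0) (XT.lf (nat_lit 152) (nat_lit 26114752056) (nat_lit 0) (nat_lit 60793060278) (nat_lit 76) (nat_lit 60793060278) (nat_lit 201) (nat_lit 1) (nat_lit 199) (nat_lit 1) (nat_lit 200) (nat_lit 1) (nat_lit 203) (nat_lit 437) (nat_lit 380)) (XT.lf (nat_lit 228) (nat_lit 128348377257) (nat_lit 0) (nat_lit 8429496151)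 (nat_lit 152) (nat_lit 8429496151) (nat_lit 199) (nat_lit 1) (nat_lit 196) (nat_lit 1) (nat_lit 198) (nat_lit 1) (nat_lit 204) (nat_lit 437) (nat_lit 379))) (XT.nd (nat_lit 78) (nat_lit 76) (nat_lit 0) (XT.lf (nat_lit 76) (nat_lit 41859391568) (nat_lit 0) (nat_lit 58994212266) (nat_lit 228) (nat_lit 41859391568) (nat_lit 197) (nat_lit 1) (nat_lit 196) (nat_lit 1) (nat_lit 199) (nat_lit 1) (nat_lit 205) (nat_lit 437) (nat_lit 378)) (XT.lf (nat_lit 152) (nat_lit 40262888230) (nat_lit 0) (nat_lit 50014601141) (nat_lit 76) (nat_lit 50014601141) (nat_lit 197) (nat_lit 1) (nat_lit 195) (nat_lit 1) (nat_lit 196) (nat_lit 1) (nat_lit 206) (nat_lit 437) (nat_lit 377))))))) (XT.nd (nat_lit 1014) (nat_lit 988) (nat_lit 0) (XT.nd (nat_lit 468) (nat_lit 456) (nat_lit 0) (XT.nd (nat_lit 234) (nat_lit 228) (nat_lit 0) (XT.nd (nat_lit 78) (nat_lit 76) (nat_lit 0) (XT.lf (nat_lit 228) (nat_lit 136197271578) (nat_lit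 0) (nat_lit 877477962) (nat_lit 152) (nat_lit 877477962) (nat_lit 195) (nat_lit 1) (nat_lit 192) (nat_lit 1) (nat_lit 194) (nat_lit 1) (nat_lit 207) (nat_lit 437) (nat_lit 376)) (XT.nd (nat_lit 78) (nat_lit 76) (nat_lit 0) (XT.lf (nat_lit 76) (nat_lit 46458229415) (nat_lit 0) (nat_lit 42671072538) (nat_lit 228) (nat_lit 46458229415) (nat_lit 193) (nat_lit 1) (nat_lit 192) (nat_lit 1) (nat_lit 195) (nat_lit 1) (nat_lit 208) (nat_lit 437) (nat_lit 375)) (XT.lf (nat_lit 152) (nat_lit 51008394060) (nat_lit 0) (nat_lit 41147136134) (nat_lit 76) (nat_lit 41147136134) (nat_lit 193) (nat_lit 1) (nat_lit 191) (nat_lit 1) (nat_lit 192) (nat_lit 1) (nat_lit 209) (nat_lit 437) (nat_lit 374)))) (XT.nd (nat_lit 78) (nat_lit 228) (nat_lit 0) (XT.lf (nat_lit 0) (nat_lit 5129874120) (nat_lit 0) (nat_lit 120827036947) (nat_lit 152) (nat_lit 5129874120) (nat_lit 191) (nat_lit 3) (nat_lit 191) (nat_lit 1) (nat_lit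 193) (nat_lit 1) (nat_lit 210) (nat_lit 437) (nat_lit 373)) (XT.nd (nat_lit 78) (nat_lit 76) (nat_lit 0) (XT.lf (nat_lit 76) (nat_lit 49669304484) (nat_lit 0) (nat_lit 29521204700) (nat_lit 152) (nat_lit 49669304484) (nat_lit 190) (nat_lit 1) (nat_lit 189) (nat_lit 1) (nat_lit 191) (nat_lit 1) (nat_lit 211) (nat_lit 437) (nat_lit 372)) (XT.lf (nat_lit 152) (nat_lit 58997128477) (nat_lit 0) (nat_lit 33851850728) (nat_lit 76) (nat_lit 33851850728) (nat_lit 190) (nat_lit 1) (nat_lit 188) (nat_lit 1) (nat_lit 189) (nat_lit 1) (nat_lit 212) (nat_lit 437) (nat_lit 371))))) (XT.nd (nat_lit 234) (nat_lit 228) (nat_lit 0) (XT.nd (nat_lit 78) (nat_lit 228) (nat_lit 0) (XT.lf (nat_lit 0) (nat_lit 9804752412) (nat_lit 0) (nat_lit 104989094597) (nat_lit 152) (nat_lit 9804752412) (nat_lit 188) (nat_lit 3) (nat_lit 188) (nat_lit 1) (nat_lit 190) (nat_lit 1) (nat_lit 213) (nat_lit 437) (nat_lit 370)) (XT.nd (nat_lit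 78) (nat_lit 76) (nat_lit 0) (XT.lf (nat_lit 76) (nat_lit 51765920835) (nat_lit 0) (nat_lit 18968699329) (nat_lit 152) (nat_lit 51765920835) (nat_lit 187) (nat_lit 1) (nat_lit 186) (nat_lit 1) (nat_lit 188) (nat_lit 1) (nat_lit 214) (nat_lit 437) (nat_lit 369)) (XT.lf (nat_lit 152) (nat_lit 64758413554) (nat_lit 0) (nat_lit 27850001370) (nat_lit 76) (nat_lit 27850001370) (nat_lit 187) (nat_lit 1) (nat_lit 185) (nat_lit 1) (nat_lit 186) (nat_lit 1) (nat_lit 215) (nat_lit 437) (nat_lit 368)))) (XT.nd (nat_lit 156) (nat_lit 76) (nat_lit 0) (XT.nd (nat_lit 78) (nat_lit 152) (nat_lit 0) (XT.lf (nat_lit 0) (nat_lit 13384862910) (nat_lit 0) (nat_lit 91693256787) (nat_lit 152) (nat_lit 13384862910) (nat_lit 185) (nat_lit 3) (nat_lit 185) (nat_lit 1) (nat_lit 187) (nat_lit 1) (nat_lit 216) (nat_lit 437) (nat_lit 367)) (XT.lf (nat_lit 76) (nat_lit 52971628433) (nat_lit 0) (nat_lit 10540387466) (nat_lit 152)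 (nat_lit 52971628433) (nat_lit 184) (nat_lit 1) (nat_lit 183) (nat_lit 1) (nat_lit 185) (nat_lit 1) (nat_lit 217) (nat_lit 437) (nat_lit 366))) (XT.nd (nat_lit 78) (nat_lit 0) (nat_lit 0) (XT.lf (nat_lit 152) (nat_lit 68725792762) (nat_lit 0) (nat_lit 22912265050) (nat_lit 76) (nat_lit 22912265050) (nat_lit 184) (nat_lit 1) (nat_lit 182) (nat_lit 1) (nat_lit 183) (nat_lit 1) (nat_lit 218) (nat_lit 437) (nat_lit 365)) (XT.lf (nat_lit 0) (nat_lit 16076968257) (nat_lit 0) (nat_lit 80501477696) (nat_lit 152) (nat_lit 16076968257) (nat_lit 182) (nat_lit 3) (nat_lit 182) (nat_lit 1) (nat_lit 184) (nat_lit 1) (nat_lit 219) (nat_lit 437) (nat_lit 364)))))) (XT.nd (nat_lit 468) (nat_lit 532) (nat_lit 0) (XT.nd (nat_lit 234) (nat_lit 228) (nat_lit 0) (XT.nd (nat_lit 78) (nat_lit 76) (nat_lit 0) (XT.lf (nat_lit 76) (nat_lit 53469106236) (nat_lit 0) (nat_lit 3847594839) (nat_lit 152) (nat_lit 53469106236)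 (nat_lit 181) (nat_lit 1) (nat_lit 180) (nat_lit 1) (nat_lit 182) (nat_lit 1) (nat_lit 220) (nat_lit 437) (nat_lit 363)) (XT.nd (nat_lit 78) (nat_lit 0) (nat_lit 0) (XT.lf (nat_lit 152) (nat_lit 71254104233) (nat_lit 0) (nat_lit 18849977160) (nat_lit 76) (nat_lit 18849977160) (nat_lit 181) (nat_lit 1) (nat_lit 179) (nat_lit 1) (nat_lit 180) (nat_lit 1) (nat_lit 221) (nat_lit 437) (nat_lit 362)) (XT.lf (nat_lit 0) (nat_lit 18050569587) (nat_lit 0) (nat_lit 71052772940) (nat_lit 152) (nat_lit 18050569587) (nat_lit 179) (nat_lit 3) (nat_lit 179) (nat_lit 1) (nat_lit 181) (nat_lit 1) (nat_lit 222) (nat_lit 437) (nat_lit 361)))) (XT.nd (nat_lit 78) (nat_lit 152) (nat_lit 0) (XT.lf (nat_lit 76) (nat_lit 1476112365) (nat_lit 0) (nat_lit 51954401273) (nat_lit 76) (nat_lit 51954401273) (nat_lit 179) (nat_lit 3) (nat_lit 178) (nat_lit 1) (nat_lit 179) (nat_lit 1) (nat_lit 223) (nat_lit 437) (nat_lit 360))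 (XT.nd (nat_lit 78) (nat_lit 0) (nat_lit 0) (XT.lf (nat_lit 152) (nat_lit 72633522601) (nat_lit 0) (nat_lit 15507922859) (nat_lit 76) (nat_lit 15507922859) (nat_lit 178) (nat_lit 1) (nat_lit 176) (nat_lit 1) (nat_lit 177) (nat_lit 1) (nat_lit 224) (nat_lit 437) (nat_lit 359)) (XT.lf (nat_lit 0) (nat_lit 19444541618) (nat_lit 0) (nat_lit 63049585486) (nat_lit 152) (nat_lit 19444541618) (nat_lit 176) (nat_lit 3) (nat_lit 176) (nat_lit 1) (nat_lit 178) (nat_lit 1) (nat_lit 225) (nat_lit 437) (nat_lit 358))))) (XT.nd (nat_lit 234) (nat_lit 304) (nat_lit 0) (XT.nd (nat_lit 78) (nat_lit 152) (nat_lit 0) (XT.lf (nat_lit 76) (nat_lit 5734593138) (nat_lit 0) (nat_lit 47263206345) (nat_lit 76) (nat_lit 47263206345) (nat_lit 176) (nat_lit 3) (nat_lit 175) (nat_lit 1) (nat_lit 176) (nat_lit 1) (nat_lit 226) (nat_lit 437) (nat_lit 357)) (XT.nd (nat_lit 78) (nat_lit 0) (nat_lit 0) (XT.lf (nat_lit 152) (nat_lit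 73101107092) (nat_lit 0) (nat_lit 12758406515) (nat_lit 76) (nat_lit 12758406515) (nat_lit 175) (nat_lit 1) (nat_lit 173) (nat_lit 1) (nat_lit 174) (nat_lit 1) (nat_lit 227) (nat_lit 437) (nat_lit 356)) (XT.lf (nat_lit 0) (nat_lit 20372589984) (nat_lit 0) (nat_lit 56246567487) (nat_lit 152) (nat_lit 20372589984) (nat_lit 173) (nat_lit 3) (nat_lit 173) (nat_lit 1) (nat_lit 175) (nat_lit 1) (nat_lit 228) (nat_lit 437) (nat_lit 355)))) (XT.nd (nat_lit 156) (nat_lit 76) (nat_lit 0) (XT.nd (nat_lit 78) (nat_lit 152) (nat_lit 0) (XT.lf (nat_lit 76) (nat_lit 9022808578) (nat_lit 0) (nat_lit 43188501438) (nat_lit 76) (nat_lit 43188501438) (nat_lit 173) (nat_lit 3) (nat_lit 172) (nat_lit 1) (nat_lit 173) (nat_lit 1) (nat_lit 229) (nat_lit 437) (nat_lit 354)) (XT.lf (nat_lit 152) (nat_lit 72850298186) (nat_lit 0) (nat_lit 10496372614) (nat_lit 76) (nat_lit 10496372614) (nat_lit 172) (nat_lit 1) (nat_lit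 170) (nat_lit 1) (nat_lit 171) (nat_lit 1) (nat_lit 230) (nat_lit 437) (nat_lit 353))) (XT.nd (nat_lit 78) (nat_lit 76) (nat_lit 0) (XT.lf (nat_lit 0) (nat_lit 20927739696) (nat_lit 0) (nat_lit 50441349769) (nat_lit 152) (nat_lit 20927739696) (nat_lit 170) (nat_lit 3) (nat_lit 170) (nat_lit 1) (nat_lit 172) (nat_lit 1) (nat_lit 231) (nat_lit 437) (nat_lit 352)) (XT.lf (nat_lit 76) (nat_lit 11523034195) (nat_lit 0) (nat_lit 39631234264) (nat_lit 76) (nat_lit 39631234264) (nat_lit 170) (nat_lit 3) (nat_lit 169) (nat_lit 1) (nat_lit 170) (nat_lit 1) (nat_lit 232) (nat_lit 437) (nat_lit 351))))))))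
noncomputable def ec446 : XT := (XT.nd (nat_lit 1950) (nat_lit 1824) (nat_lit 0) (XT.nd (nat_lit 936) (nat_lit 1064) (nat_lit 0) (XT.nd (nat_lit 468) (nat_lit 456) (nat_lit 0) (XT.nd (nat_lit 234) (nat_lit 228) (nat_lit 0) (XT.nd (nat_lit 78) (nat_lit 76) (nat_lit 0) (XT.lf (nat_lit 152) (nat_lit 72038726770) (nat_lit 0) (nat_lit 8635391726) (nat_lit 76) (nat_lit 8635391726) (nat_lit 169) (nat_lit 1) (nat_lit 167) (nat_lit 1) (nat_lit 168) (nat_lit 1) (nat_lit 233) (nat_lit 437) (nat_lit 350)) (XT.nd (nat_lit 78) (nat_lit 76) (nat_lit 0) (XT.lf (nat_lit 0) (nat_lit 21186026572) (nat_lit 0) (nat_lit 45466946619) (nat_lit 152) (nat_lit 21186026572) (nat_lit 167) (nat_lit 3) (nat_lit 167) (nat_lit 1) (nat_lit 169) (nat_lit 1) (nat_lit 234) (nat_lit 437) (nat_lit 349)) (XT.lf (nat_lit 76) (nat_lit 13384740415) (nat_lit 0) (nat_lit 36509426174) (nat_lit 76) (nat_lit 36509426174) (nat_lit 167) (nat_lit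 3) (nat_lit 166) (nat_lit 1) (nat_lit 167) (nat_lit 1) (nat_lit 235) (nat_lit 437) (nat_lit 348)))) (XT.nd (nat_lit 78) (nat_lit 76) (nat_lit 0) (XT.lf (nat_lit 152) (nat_lit 70794635141) (nat_lit 0) (nat_lit 7104358144) (nat_lit 76) (nat_lit 7104358144) (nat_lit 166) (nat_lit 1) (nat_lit 164) (nat_lit 1) (nat_lit 165) (nat_lit 1) (nat_lit 236) (nat_lit 437) (nat_lit 347)) (XT.nd (nat_lit 78) (nat_lit 76) (nat_lit 0) (XT.lf (nat_lit 0) (nat_lit 21209532999) (nat_lit 0) (nat_lit 41185506012) (nat_lit 152) (nat_lit 21209532999) (nat_lit 164) (nat_lit 3) (nat_lit 164) (nat_lit 1) (nat_lit 166) (nat_lit 1) (nat_lit 237) (nat_lit 437) (nat_lit 346)) (XT.lf (nat_lit 76) (nat_lit 14730432079) (nat_lit 0) (nat_lit 33755168281) (nat_lit 76) (nat_lit 33755168281) (nat_lit 164) (nat_lit 3) (nat_lit 163) (nat_lit 1) (nat_lit 164) (nat_lit 1) (nat_lit 238) (nat_lit 437) (nat_lit 345))))) (XT.nd (nat_lit 234)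 (nat_lit 228) (nat_lit 0) (XT.nd (nat_lit 78) (nat_lit 76) (nat_lit 0) (XT.lf (nat_lit 152) (nat_lit 69222156148) (nat_lit 0) (nat_lit 5844773026) (nat_lit 76) (nat_lit 5844773026) (nat_lit 163) (nat_lit 1) (nat_lit 161) (nat_lit 1) (nat_lit 162) (nat_lit 1) (nat_lit 239) (nat_lit 437) (nat_lit 344)) (XT.nd (nat_lit 78) (nat_lit 76) (nat_lit 0) (XT.lf (nat_lit 0) (nat_lit 21048884341) (nat_lit 0) (nat_lit 37483166775) (nat_lit 152) (nat_lit 21048884341) (nat_lit 161) (nat_lit 3) (nat_lit 161) (nat_lit 1) (nat_lit 163) (nat_lit 1) (nat_lit 240) (nat_lit 437) (nat_lit 343)) (XT.lf (nat_lit 76) (nat_lit 15660451511) (nat_lit 0) (nat_lit 31312149068) (nat_lit 76) (nat_lit 31312149068) (nat_lit 161) (nat_lit 3) (nat_lit 160) (nat_lit 1) (nat_lit 161) (nat_lit 1) (nat_lit 241) (nat_lit 437) (nat_lit 342)))) (XT.nd (nat_lit 78) (nat_lit 76) (nat_lit 0) (XT.lf (nat_lit 152) (nat_lit 67405653092) (nat_lit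 0) (nat_lit 4808509233) (nat_lit 76) (nat_lit 4808509233) (nat_lit 160) (nat_lit 1) (nat_lit 158) (nat_lit 1) (nat_lit 159) (nat_lit 1) (nat_lit 242) (nat_lit 437) (nat_lit 341)) (XT.nd (nat_lit 78) (nat_lit 76) (nat_lit 0) (XT.lf (nat_lit 0) (nat_lit 20745301672) (nat_lit 0) (nat_lit 34265826502) (nat_lit 152) (nat_lit 20745301672) (nat_lit 158) (nat_lit 3) (nat_lit 158) (nat_lit 1) (nat_lit 160) (nat_lit 1) (nat_lit 243) (nat_lit 437) (nat_lit 340)) (XT.lf (nat_lit 76) (nat_lit 16256928963) (nat_lit 0) (nat_lit 29133619277) (nat_lit 76) (nat_lit 29133619277) (nat_lit 158) (nat_lit 3) (nat_lit 157) (nat_lit 1) (nat_lit 158) (nat_lit 1) (nat_lit 244) (nat_lit 437) (nat_lit 339)))))) (XT.nd (nat_lit 468) (nat_lit 608) (nat_lit 0) (XT.nd (nat_lit 234) (nat_lit 228) (nat_lit 0) (XT.nd (nat_lit 78) (nat_lit 76) (nat_lit 0) (XT.lf (nat_lit 152) (nat_lit 65413287061) (nat_lit 0) (nat_lit 3955972446)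 (nat_lit 76) (nat_lit 3955972446) (nat_lit 157) (nat_lit 1) (nat_lit 155) (nat_lit 1) (nat_lit 156) (nat_lit 1) (nat_lit 245) (nat_lit 437) (nat_lit 338)) (XT.nd (nat_lit 78) (nat_lit 76) (nat_lit 0) (XT.lf (nat_lit 0) (nat_lit 20332289533) (nat_lit 0) (nat_lit 31455658771) (nat_lit 152) (nat_lit 20332289533) (nat_lit 155) (nat_lit 3) (nat_lit 155) (nat_lit 1) (nat_lit 157) (nat_lit 1) (nat_lit 246) (nat_lit 437) (nat_lit 337)) (XT.lf (nat_lit 76) (nat_lit 16587031641) (nat_lit 0) (nat_lit 27180716629) (nat_lit 76) (nat_lit 27180716629) (nat_lit 155) (nat_lit 3) (nat_lit 154) (nat_lit 1) (nat_lit 155) (nat_lit 1) (nat_lit 247) (nat_lit 437) (nat_lit 336)))) (XT.nd (nat_lit 78) (nat_lit 76) (nat_lit 0) (XT.lf (nat_lit 152) (nat_lit 63299948813) (nat_lit 0) (nat_lit 3254588322) (nat_lit 76) (nat_lit 3254588322) (nat_lit 154) (nat_lit 1) (nat_lit 152) (nat_lit 1) (nat_lit 153) (nat_lit 1) (nat_lit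 248) (nat_lit 437) (nat_lit 335)) (XT.nd (nat_lit 78) (nat_lit 76) (nat_lit 0) (XT.lf (nat_lit 0) (nat_lit 19837023495) (nat_lit 0) (nat_lit 28988246895) (nat_lit 152) (nat_lit 19837023495) (nat_lit 152) (nat_lit 3) (nat_lit 152) (nat_lit 1) (nat_lit 154) (nat_lit 1) (nat_lit 249) (nat_lit 437) (nat_lit 334)) (XT.lf (nat_lit 76) (nat_lit 16705635743) (nat_lit 0) (nat_lit 25421086600) (nat_lit 76) (nat_lit 25421086600) (nat_lit 152) (nat_lit 3) (nat_lit 151) (nat_lit 1) (nat_lit 152) (nat_lit 1) (nat_lit 250) (nat_lit 437) (nat_lit 333))))) (XT.nd (nat_lit 234) (nat_lit 380) (nat_lit 0) (XT.nd (nat_lit 78) (nat_lit 76) (nat_lit 0) (XT.lf (nat_lit 152) (nat_lit 61109668032) (nat_lit 0) (nat_lit 2677557867) (nat_lit 76) (nat_lit 2677557867) (nat_lit 151) (nat_lit 1) (nat_lit 149) (nat_lit 1) (nat_lit 150) (nat_lit 1) (nat_lit 251) (nat_lit 437) (nat_lit 332)) (XT.nd (nat_lit 78) (nat_lit 76) (nat_lit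 0) (XT.lf (nat_lit 0) (nat_lit 19281490777) (nat_lit 0) (nat_lit 26810224916) (nat_lit 152) (nat_lit 19281490777) (nat_lit 149) (nat_lit 3) (nat_lit 149) (nat_lit 1) (nat_lit 151) (nat_lit 1) (nat_lit 252) (nat_lit 437) (nat_lit 331)) (XT.lf (nat_lit 76) (nat_lit 16657523833) (nat_lit 0) (nat_lit 23827746822) (nat_lit 76) (nat_lit 23827746822) (nat_lit 149) (nat_lit 3) (nat_lit 148) (nat_lit 1) (nat_lit 149) (nat_lit 1) (nat_lit 253) (nat_lit 437) (nat_lit 330)))) (XT.nd (nat_lit 156) (nat_lit 228) (nat_lit 0) (XT.nd (nat_lit 78) (nat_lit 0) (nat_lit 0) (XT.lf (nat_lit 152) (nat_lit 58877592732) (nat_lit 0) (nat_lit 2202833483) (nat_lit 76) (nat_lit 2202833483) (nat_lit 148) (nat_lit 1) (nat_lit 146) (nat_lit 1) (nat_lit 147) (nat_lit 1) (nat_lit 254) (nat_lit 437) (nat_lit 329)) (XT.lf (nat_lit 0) (nat_lit 18683427757) (nat_lit 0) (nat_lit 24877335965) (nat_lit 152) (nat_lit 18683427757) (nat_lit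 146) (nat_lit 3) (nat_lit 146) (nat_lit 1) (nat_lit 148) (nat_lit 1) (nat_lit 255) (nat_lit 437) (nat_lit 328))) (XT.nd (nat_lit 78) (nat_lit 152) (nat_lit 0) (XT.lf (nat_lit 76) (nat_lit 16479191761) (nat_lit 0) (nat_lit 22378151959) (nat_lit 76) (nat_lit 22378151959) (nat_lit 146) (nat_lit 3) (nat_lit 145) (nat_lit 1) (nat_lit 146) (nat_lit 1) (nat_lit 256) (nat_lit 437) (nat_lit 327)) (XT.lf (nat_lit 152) (nat_lit 56631615164) (nat_lit 0) (nat_lit 1812276558) (nat_lit 76) (nat_lit 1812276558) (nat_lit 145) (nat_lit 1) (nat_lit 143) (nat_lit 1) (nat_lit 144) (nat_lit 1) (nat_lit 257) (nat_lit 437) (nat_lit 326))))))) (XT.nd (nat_lit 936) (nat_lit 912) (nat_lit 0) (XT.nd (nat_lit 468) (nat_lit 456) (nat_lit 0) (XT.nd (nat_lit 234) (nat_lit 228) (nat_lit 0) (XT.nd (nat_lit 78) (nat_lit 228) (nat_lit 0) (XT.lf (nat_lit 0) (nat_lit 18057090421) (nat_lit 0) (nat_lit 23152834033) (nat_lit 152) (nat_lit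 18057090421) (nat_lit 143) (nat_lit 3) (nat_lit 143) (nat_lit 1) (nat_lit 145) (nat_lit 1) (nat_lit 258) (nat_lit 437) (nat_lit 325)) (XT.nd (nat_lit 78) (nat_lit 152) (nat_lit 0) (XT.lf (nat_lit 76) (nat_lit 16200334397) (nat_lit 0) (nat_lit 21053423551) (nat_lit 76) (nat_lit 21053423551) (nat_lit 143) (nat_lit 3) (nat_lit 142) (nat_lit 1) (nat_lit 143) (nat_lit 1) (nat_lit 259) (nat_lit 437) (nat_lit 324)) (XT.lf (nat_lit 152) (nat_lit 54393707007) (nat_lit 0) (nat_lit 1490964409) (nat_lit 76) (nat_lit 1490964409) (nat_lit 142) (nat_lit 1) (nat_lit 140) (nat_lit 1) (nat_lit 141) (nat_lit 1) (nat_lit 260) (nat_lit 437) (nat_lit 323)))) (XT.nd (nat_lit 78) (nat_lit 228) (nat_lit 0) (XT.lf (nat_lit 0) (nat_lit 17413887423) (nat_lit 0) (nat_lit 21606168303) (nat_lit 152) (nat_lit 17413887423) (nat_lit 140) (nat_lit 3) (nat_lit 140) (nat_lit 1) (nat_lit 142) (nat_lit 1) (nat_lit 261) (nat_lit 437)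 (nat_lit 322)) (XT.nd (nat_lit 78) (nat_lit 152) (nat_lit 0) (XT.lf (nat_lit 76) (nat_lit 15845067156) (nat_lit 0) (nat_lit 19837715613) (nat_lit 76) (nat_lit 19837715613) (nat_lit 140) (nat_lit 3) (nat_lit 139) (nat_lit 1) (nat_lit 140) (nat_lit 1) (nat_lit 262) (nat_lit 437) (nat_lit 321)) (XT.lf (nat_lit 152) (nat_lit 52181015520) (nat_lit 0) (nat_lit 1226620109) (nat_lit 76) (nat_lit 1226620109) (nat_lit 139) (nat_lit 1) (nat_lit 137) (nat_lit 1) (nat_lit 138) (nat_lit 1) (nat_lit 263) (nat_lit 437) (nat_lit 320))))) (XT.nd (nat_lit 234) (nat_lit 228) (nat_lit 0) (XT.nd (nat_lit 78) (nat_lit 228) (nat_lit 0) (XT.lf (nat_lit 0) (nat_lit 16762900132) (nat_lit 0) (nat_lit 20211899987) (nat_lit 152) (nat_lit 16762900132) (nat_lit 137) (nat_lit 3) (nat_lit 137) (nat_lit 1) (nat_lit 139) (nat_lit 1) (nat_lit 264) (nat_lit 437) (nat_lit 319)) (XT.nd (nat_lit 78) (nat_lit 152) (nat_lit 0) (XT.lf (nat_lit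 76) (nat_lit 15432930205) (nat_lit 0) (nat_lit 18717691972) (nat_lit 76) (nat_lit 18717691972) (nat_lit 137) (nat_lit 3) (nat_lit 136) (nat_lit 1) (nat_lit 137) (nat_lit 1) (nat_lit 265) (nat_lit 437) (nat_lit 318)) (XT.lf (nat_lit 152) (nat_lit 50006763132) (nat_lit 0) (nat_lit 1009143399) (nat_lit 76) (nat_lit 1009143399) (nat_lit 136) (nat_lit 1) (nat_lit 134) (nat_lit 1) (nat_lit 135) (nat_lit 1) (nat_lit 266) (nat_lit 437) (nat_lit 317)))) (XT.nd (nat_lit 78) (nat_lit 228) (nat_lit 0) (XT.lf (nat_lit 0) (nat_lit 16111309760) (nat_lit 0) (nat_lit 18948810476) (nat_lit 152) (nat_lit 16111309760) (nat_lit 134) (nat_lit 3) (nat_lit 134) (nat_lit 1) (nat_lit 136) (nat_lit 1) (nat_lit 267) (nat_lit 437) (nat_lit 316)) (XT.nd (nat_lit 78) (nat_lit 152) (nat_lit 0) (XT.lf (nat_lit 76) (nat_lit 14979713914) (nat_lit 0) (nat_lit 17682095548) (nat_lit 76) (nat_lit 17682095548) (nat_lit 134) (nat_lit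 3) (nat_lit 133) (nat_lit 1) (nat_lit 134) (nat_lit 1) (nat_lit 268) (nat_lit 437) (nat_lit 315)) (XT.lf (nat_lit 152) (nat_lit 47880985429) (nat_lit 0) (nat_lit 830224772) (nat_lit 76) (nat_lit 830224772) (nat_lit 133) (nat_lit 1) (nat_lit 131) (nat_lit 1) (nat_lit 132) (nat_lit 1) (nat_lit 269) (nat_lit 437) (nat_lit 314)))))) (XT.nd (nat_lit 468) (nat_lit 456) (nat_lit 0) (XT.nd (nat_lit 234) (nat_lit 228) (nat_lit 0) (XT.nd (nat_lit 78) (nat_lit 228) (nat_lit 0) (XT.lf (nat_lit 0) (nat_lit 15464748065) (nat_lit 0) (nat_lit 17799166927) (nat_lit 152) (nat_lit 15464748065) (nat_lit 131) (nat_lit 3) (nat_lit 131) (nat_lit 1) (nat_lit 133) (nat_lit 1) (nat_lit 270) (nat_lit 437) (nat_lit 313)) (XT.nd (nat_lit 78) (nat_lit 152) (nat_lit 0) (XT.lf (nat_lit 76) (nat_lit 14498137271) (nat_lit 0) (nat_lit 16721393329) (nat_lit 76) (nat_lit 16721393329) (nat_lit 131) (nat_lit 3) (nat_lit 130) (nat_lit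 1) (nat_lit 131) (nat_lit 1) (nat_lit 271) (nat_lit 437) (nat_lit 312)) (XT.lf (nat_lit 152) (nat_lit 45811136297) (nat_lit 0) (nat_lit 683027974) (nat_lit 76) (nat_lit 683027974) (nat_lit 130) (nat_lit 1) (nat_lit 128) (nat_lit 1) (nat_lit 129) (nat_lit 1) (nat_lit 272) (nat_lit 437) (nat_lit 311)))) (XT.nd (nat_lit 78) (nat_lit 228) (nat_lit 0) (XT.lf (nat_lit 0) (nat_lit 14827585223) (nat_lit 0) (nat_lit 16748117398) (nat_lit 152) (nat_lit 14827585223) (nat_lit 128) (nat_lit 3) (nat_lit 128) (nat_lit 1) (nat_lit 130) (nat_lit 1) (nat_lit 273) (nat_lit 437) (nat_lit 310)) (XT.nd (nat_lit 78) (nat_lit 152) (nat_lit 0) (XT.lf (nat_lit 76) (nat_lit 13998405377) (nat_lit 0) (nat_lit 15827483638) (nat_lit 76) (nat_lit 15827483638) (nat_lit 128) (nat_lit 3) (nat_lit 127) (nat_lit 1) (nat_lit 128) (nat_lit 1) (nat_lit 274) (nat_lit 437) (nat_lit 309)) (XT.lf (nat_lit 152) (nat_lit 43802583862) (nat_lit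 0) (nat_lit 561928805) (nat_lit 76) (nat_lit 561928805) (nat_lit 127) (nat_lit 1) (nat_lit 125) (nat_lit 1) (nat_lit 126) (nat_lit 1) (nat_lit 275) (nat_lit 437) (nat_lit 308))))) (XT.nd (nat_lit 234) (nat_lit 228) (nat_lit 0) (XT.nd (nat_lit 78) (nat_lit 228) (nat_lit 0) (XT.lf (nat_lit 0) (nat_lit 14203166027) (nat_lit 0) (nat_lit 15783192600) (nat_lit 152) (nat_lit 14203166027) (nat_lit 125) (nat_lit 3) (nat_lit 125) (nat_lit 1) (nat_lit 127) (nat_lit 1) (nat_lit 276) (nat_lit 437) (nat_lit 307)) (XT.nd (nat_lit 78) (nat_lit 152) (nat_lit 0) (XT.lf (nat_lit 76) (nat_lit 13488667475) (nat_lit 0) (nat_lit 14993454687) (nat_lit 76) (nat_lit 14993454687) (nat_lit 125) (nat_lit 3) (nat_lit 124) (nat_lit 1) (nat_lit 125) (nat_lit 1) (nat_lit 277) (nat_lit 437) (nat_lit 306)) (XT.lf (nat_lit 152) (nat_lit 41859016675) (nat_lit 0) (nat_lit 462300218) (nat_lit 76) (nat_lit 462300218) (nat_lit 124) (nat_lit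 1) (nat_lit 122) (nat_lit 1) (nat_lit 123) (nat_lit 1) (nat_lit 278) (nat_lit 437) (nat_lit 305)))) (XT.nd (nat_lit 156) (nat_lit 152) (nat_lit 0) (XT.nd (nat_lit 78) (nat_lit 76) (nat_lit 0) (XT.lf (nat_lit 0) (nat_lit 13594003621) (nat_lit 0) (nat_lit 14893895393) (nat_lit 152) (nat_lit 13594003621) (nat_lit 122) (nat_lit 3) (nat_lit 122) (nat_lit 1) (nat_lit 124) (nat_lit 1) (nat_lit 279) (nat_lit 437) (nat_lit 304)) (XT.lf (nat_lit 76) (nat_lit 12975393187) (nat_lit 0) (nat_lit 14213385351) (nat_lit 76) (nat_lit 14213385351) (nat_lit 122) (nat_lit 3) (nat_lit 121) (nat_lit 1) (nat_lit 122) (nat_lit 1) (nat_lit 280) (nat_lit 437) (nat_lit 303))) (XT.nd (nat_lit 78) (nat_lit 0) (nat_lit 0) (XT.lf (nat_lit 152) (nat_lit 39982776164) (nat_lit 0) (nat_lit 380335534) (nat_lit 76) (nat_lit 380335534) (nat_lit 121) (nat_lit 1) (nat_lit 119) (nat_lit 1) (nat_lit 120) (nat_lit 1) (nat_lit 281) (nat_lit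 437) (nat_lit 302)) (XT.lf (nat_lit 0) (nat_lit 13001938307) (nat_lit 0) (nat_lit 14071362485) (nat_lit 152) (nat_lit 13001938307) (nat_lit 119) (nat_lit 3) (nat_lit 119) (nat_lit 1) (nat_lit 121) (nat_lit 1) (nat_lit 282) (nat_lit 437) (nat_lit 301))))))))
noncomputable def ec447 : XT := (XT.nd (nat_lit 1950) (nat_lit 1976) (nat_lit 0) (XT.nd (nat_lit 936) (nat_lit 988) (nat_lit 0) (XT.nd (nat_lit 468) (nat_lit 456) (nat_lit 0) (XT.nd (nat_lit 234) (nat_lit 228) (nat_lit 0) (XT.nd (nat_lit 78) (nat_lit 152) (nat_lit 0) (XT.lf (nat_lit 76) (nat_lit 12463681491) (nat_lit 0) (nat_lit 13482180707) (nat_lit 76) (nat_lit 13482180707) (nat_lit 119) (nat_lit 3) (nat_lit 118) (nat_lit 1) (nat_lit 119) (nat_lit 1) (nat_lit 283) (nat_lit 437) (nat_lit 300)) (XT.nd (nat_lit 78) (nat_lit 0) (nat_lit 0) (XT.lf (nat_lit 152) (nat_lit 38175128473) (nat_lit 0) (nat_lit 312902985) (nat_lit 76) (nat_lit 312902985)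 (nat_lit 118) (nat_lit 1) (nat_lit 116) (nat_lit 1) (nat_lit 117) (nat_lit 1) (nat_lit 284) (nat_lit 437) (nat_lit 299)) (XT.lf (nat_lit 0) (nat_lit 12428267666) (nat_lit 0) (nat_lit 13308085584) (nat_lit 152) (nat_lit 12428267666) (nat_lit 116) (nat_lit 3) (nat_lit 116) (nat_lit 1) (nat_lit 118) (nat_lit 1) (nat_lit 285) (nat_lit 437) (nat_lit 298)))) (XT.nd (nat_lit 78) (nat_lit 152) (nat_lit 0) (XT.lf (nat_lit 76) (nat_lit 11957514373) (nat_lit 0) (nat_lit 12795436199) (nat_lit 76) (nat_lit 12795436199) (nat_lit 116) (nat_lit 3) (nat_lit 115) (nat_lit 1) (nat_lit 116) (nat_lit 1) (nat_lit 286) (nat_lit 437) (nat_lit 297)) (XT.nd (nat_lit 78) (nat_lit 0) (nat_lit 0) (XT.lf (nat_lit 152) (nat_lit 36436486550) (nat_lit 0) (nat_lit 257426060) (nat_lit 76) (nat_lit 257426060) (nat_lit 115) (nat_lit 1) (nat_lit 113) (nat_lit 1) (nat_lit 114) (nat_lit 1) (nat_lit 287) (nat_lit 437) (nat_lit 296)) (XT.lf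 (nat_lit 0) (nat_lit 11873853084) (nat_lit 0) (nat_lit 12597681463) (nat_lit 152) (nat_lit 11873853084) (nat_lit 113) (nat_lit 3) (nat_lit 113) (nat_lit 1) (nat_lit 115) (nat_lit 1) (nat_lit 288) (nat_lit 437) (nat_lit 295))))) (XT.nd (nat_lit 234) (nat_lit 228) (nat_lit 0) (XT.nd (nat_lit 78) (nat_lit 152) (nat_lit 0) (XT.lf (nat_lit 76) (nat_lit 11459965015) (nat_lit 0) (nat_lit 12149325375) (nat_lit 76) (nat_lit 12149325375) (nat_lit 113) (nat_lit 3) (nat_lit 112) (nat_lit 1) (nat_lit 113) (nat_lit 1) (nat_lit 289) (nat_lit 437) (nat_lit 294)) (XT.nd (nat_lit 78) (nat_lit 0) (nat_lit 0) (XT.lf (nat_lit 152) (nat_lit 34766591352) (nat_lit 0) (nat_lit 211785056) (nat_lit 76) (nat_lit 211785056) (nat_lit 112) (nat_lit 1) (nat_lit 110) (nat_lit 1) (nat_lit 111) (nat_lit 1) (nat_lit 290) (nat_lit 437) (nat_lit 293)) (XT.lf (nat_lit 0) (nat_lit 11339206906) (nat_lit 0) (nat_lit 11934702304) (nat_lit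 152) (nat_lit 11339206906) (nat_lit 110) (nat_lit 3) (nat_lit 110) (nat_lit 1) (nat_lit 112) (nat_lit 1) (nat_lit 291) (nat_lit 437) (nat_lit 292)))) (XT.nd (nat_lit 78) (nat_lit 152) (nat_lit 0) (XT.lf (nat_lit 76) (nat_lit 10973368577) (nat_lit 0) (nat_lit 11540507052) (nat_lit 76) (nat_lit 11540507052) (nat_lit 110) (nat_lit 3) (nat_lit 109) (nat_lit 1) (nat_lit 110) (nat_lit 1) (nat_lit 292) (nat_lit 437) (nat_lit 291)) (XT.nd (nat_lit 78) (nat_lit 0) (nat_lit 0) (XT.lf (nat_lit 152) (nat_lit 33164659503) (nat_lit 0) (nat_lit 174236090) (nat_lit 76) (nat_lit 174236090) (nat_lit 109) (nat_lit 1) (nat_lit 107) (nat_lit 1) (nat_lit 108) (nat_lit 1) (nat_lit 293) (nat_lit 437) (nat_lit 290)) (XT.lf (nat_lit 0) (nat_lit 10824563668) (nat_lit 0) (nat_lit 11314479206) (nat_lit 152) (nat_lit 10824563668) (nat_lit 107) (nat_lit 3) (nat_lit 107) (nat_lit 1) (nat_lit 109) (nat_lit 1) (nat_lit 294) (nat_lit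 437) (nat_lit 289)))))) (XT.nd (nat_lit 468) (nat_lit 532) (nat_lit 0) (XT.nd (nat_lit 234) (nat_lit 228) (nat_lit 0) (XT.nd (nat_lit 78) (nat_lit 152) (nat_lit 0) (XT.lf (nat_lit 76) (nat_lit 10499462246) (nat_lit 0) (nat_lit 10966048472) (nat_lit 76) (nat_lit 10966048472) (nat_lit 107) (nat_lit 3) (nat_lit 106) (nat_lit 1) (nat_lit 107) (nat_lit 1) (nat_lit 295) (nat_lit 437) (nat_lit 288)) (XT.nd (nat_lit 78) (nat_lit 0) (nat_lit 0) (XT.lf (nat_lit 152) (nat_lit 31629503408) (nat_lit 0) (nat_lit 143344462) (nat_lit 76) (nat_lit 143344462) (nat_lit 106) (nat_lit 1) (nat_lit 104) (nat_lit 1) (nat_lit 105) (nat_lit 1) (nat_lit 296) (nat_lit 437) (nat_lit 287)) (XT.lf (nat_lit 0) (nat_lit 10329938256) (nat_lit 0) (nat_lit 10732992981) (nat_lit 152) (nat_lit 10329938256) (nat_lit 104) (nat_lit 3) (nat_lit 104) (nat_lit 1) (nat_lit 106) (nat_lit 1) (nat_lit 297) (nat_lit 437) (nat_lit 286)))) (XT.nd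 (nat_lit 78) (nat_lit 152) (nat_lit 0) (XT.lf (nat_lit 76) (nat_lit 10039500012) (nat_lit 0) (nat_lit 10423361655) (nat_lit 76) (nat_lit 10423361655) (nat_lit 104) (nat_lit 3) (nat_lit 103) (nat_lit 1) (nat_lit 104) (nat_lit 1) (nat_lit 298) (nat_lit 437) (nat_lit 285)) (XT.nd (nat_lit 78) (nat_lit 0) (nat_lit 0) (XT.lf (nat_lit 152) (nat_lit 30159628787) (nat_lit 0) (nat_lit 117929844) (nat_lit 76) (nat_lit 117929844) (nat_lit 103) (nat_lit 1) (nat_lit 101) (nat_lit 1) (nat_lit 102) (nat_lit 1) (nat_lit 299) (nat_lit 437) (nat_lit 284)) (XT.lf (nat_lit 0) (nat_lit 9855173327) (nat_lit 0) (nat_lit 10186767447) (nat_lit 152) (nat_lit 9855173327) (nat_lit 101) (nat_lit 3) (nat_lit 101) (nat_lit 1) (nat_lit 103) (nat_lit 1) (nat_lit 300) (nat_lit 437) (nat_lit 283))))) (XT.nd (nat_lit 234) (nat_lit 304) (nat_lit 0) (XT.nd (nat_lit 78) (nat_lit 152) (nat_lit 0) (XT.lf (nat_lit 76) (nat_lit 9594346685)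 (nat_lit 0) (nat_lit 9910150609) (nat_lit 76) (nat_lit 9910150609) (nat_lit 101) (nat_lit 3) (nat_lit 100) (nat_lit 1) (nat_lit 101) (nat_lit 1) (nat_lit 301) (nat_lit 437) (nat_lit 282)) (XT.nd (nat_lit 78) (nat_lit 0) (nat_lit 0) (XT.lf (nat_lit 152) (nat_lit 28753313676) (nat_lit 0) (nat_lit 97021174) (nat_lit 76) (nat_lit 97021174) (nat_lit 100) (nat_lit 1) (nat_lit 98) (nat_lit 1) (nat_lit 99) (nat_lit 1) (nat_lit 302) (nat_lit 437) (nat_lit 281)) (XT.lf (nat_lit 0) (nat_lit 9399977923) (nat_lit 0) (nat_lit 9672781226) (nat_lit 152) (nat_lit 9399977923) (nat_lit 98) (nat_lit 3) (nat_lit 98) (nat_lit 1) (nat_lit 100) (nat_lit 1) (nat_lit 303) (nat_lit 437) (nat_lit 280)))) (XT.nd (nat_lit 156) (nat_lit 76) (nat_lit 0) (XT.nd (nat_lit 78) (nat_lit 152) (nat_lit 0) (XT.lf (nat_lit 76) (nat_lit 9164554837) (nat_lit 0) (nat_lit 9424367507) (nat_lit 76) (nat_lit 9424367507) (nat_lit 98) (nat_lit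 3) (nat_lit 97) (nat_lit 1) (nat_lit 98) (nat_lit 1) (nat_lit 304) (nat_lit 437) (nat_lit 279)) (XT.lf (nat_lit 152) (nat_lit 27408672258) (nat_lit 0) (nat_lit 79819560) (nat_lit 76) (nat_lit 79819560) (nat_lit 97) (nat_lit 1) (nat_lit 95) (nat_lit 1) (nat_lit 96) (nat_lit 1) (nat_lit 305) (nat_lit 437) (nat_lit 278))) (XT.nd (nat_lit 78) (nat_lit 76) (nat_lit 0) (XT.lf (nat_lit 0) (nat_lit 8963958850) (nat_lit 0) (nat_lit 9188394803) (nat_lit 152) (nat_lit 8963958850) (nat_lit 95) (nat_lit 3) (nat_lit 95) (nat_lit 1) (nat_lit 97) (nat_lit 1) (nat_lit 306) (nat_lit 437) (nat_lit 277)) (XT.lf (nat_lit 76) (nat_lit 8750427731) (nat_lit 0) (nat_lit 8964176258) (nat_lit 76) (nat_lit 8964176258) (nat_lit 95) (nat_lit 3) (nat_lit 94) (nat_lit 1) (nat_lit 95) (nat_lit 1) (nat_lit 307) (nat_lit 437) (nat_lit 276))))))) (XT.nd (nat_lit 1014) (nat_lit 912) (nat_lit 0) (XT.nd (nat_lit 468) (nat_lit 608) (nat_lit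 0) (XT.nd (nat_lit 234) (nat_lit 228) (nat_lit 0) (XT.nd (nat_lit 78) (nat_lit 76) (nat_lit 0) (XT.lf (nat_lit 152) (nat_lit 26123706247) (nat_lit 0) (nat_lit 65667750) (nat_lit 76) (nat_lit 65667750) (nat_lit 94) (nat_lit 1) (nat_lit 92) (nat_lit 1) (nat_lit 93) (nat_lit 1) (nat_lit 308) (nat_lit 437) (nat_lit 275)) (XT.nd (nat_lit 78) (nat_lit 76) (nat_lit 0) (XT.lf (nat_lit 0) (nat_lit 8546646130) (nat_lit 0) (nat_lit 8731290144) (nat_lit 152) (nat_lit 8546646130) (nat_lit 92) (nat_lit 3) (nat_lit 92) (nat_lit 1) (nat_lit 94) (nat_lit 1) (nat_lit 309) (nat_lit 437) (nat_lit 274)) (XT.lf (nat_lit 76) (nat_lit 8352070728) (nat_lit 0) (nat_lit 8527922169) (nat_lit 76) (nat_lit 8527922169) (nat_lit 92) (nat_lit 3) (nat_lit 91) (nat_lit 1) (nat_lit 92) (nat_lit 1) (nat_lit 310) (nat_lit 437) (nat_lit 273)))) (XT.nd (nat_lit 78) (nat_lit 76) (nat_lit 0) (XT.lf (nat_lit 152) (nat_lit 24896346114) (nat_lit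 0) (nat_lit 54025020) (nat_lit 76) (nat_lit 54025020) (nat_lit 91) (nat_lit 1) (nat_lit 89) (nat_lit 1) (nat_lit 90) (nat_lit 1) (nat_lit 311) (nat_lit 437) (nat_lit 272)) (XT.nd (nat_lit 78) (nat_lit 76) (nat_lit 0) (XT.lf (nat_lit 0) (nat_lit 8147513589) (nat_lit 0) (nat_lit 8299420676) (nat_lit 152) (nat_lit 8147513589) (nat_lit 89) (nat_lit 3) (nat_lit 89) (nat_lit 1) (nat_lit 91) (nat_lit 1) (nat_lit 312) (nat_lit 437) (nat_lit 271)) (XT.lf (nat_lit 76) (nat_lit 7969433236) (nat_lit 0) (nat_lit 8114106652) (nat_lit 76) (nat_lit 8114106652) (nat_lit 89) (nat_lit 3) (nat_lit 88) (nat_lit 1) (nat_lit 89) (nat_lit 1) (nat_lit 313) (nat_lit 437) (nat_lit 270))))) (XT.nd (nat_lit 234) (nat_lit 380) (nat_lit 0) (XT.nd (nat_lit 78) (nat_lit 76) (nat_lit 0) (XT.lf (nat_lit 152) (nat_lit 23724483974) (nat_lit 0) (nat_lit 44446518) (nat_lit 76) (nat_lit 44446518) (nat_lit 88) (nat_lit 1) (nat_lit 86)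 (nat_lit 1) (nat_lit 87) (nat_lit 1) (nat_lit 314) (nat_lit 437) (nat_lit 269)) (XT.nd (nat_lit 78) (nat_lit 76) (nat_lit 0) (XT.lf (nat_lit 0) (nat_lit 7765995466) (nat_lit 0) (nat_lit 7890969803) (nat_lit 152) (nat_lit 7765995466) (nat_lit 86) (nat_lit 3) (nat_lit 86) (nat_lit 1) (nat_lit 88) (nat_lit 1) (nat_lit 315) (nat_lit 437) (nat_lit 268)) (XT.lf (nat_lit 76) (nat_lit 7602342901) (nat_lit 0) (nat_lit 7721366079) (nat_lit 76) (nat_lit 7721366079) (nat_lit 86) (nat_lit 3) (nat_lit 85) (nat_lit 1) (nat_lit 86) (nat_lit 1) (nat_lit 316) (nat_lit 437) (nat_lit 267)))) (XT.nd (nat_lit 156) (nat_lit 228) (nat_lit 0) (XT.nd (nat_lit 78) (nat_lit 0) (nat_lit 0) (XT.lf (nat_lit 152) (nat_lit 22605999691) (nat_lit 0) (nat_lit 36566260) (nat_lit 76) (nat_lit 36566260) (nat_lit 85) (nat_lit 1) (nat_lit 83) (nat_lit 1) (nat_lit 84) (nat_lit 1) (nat_lit 317) (nat_lit 437) (nat_lit 266)) (XT.lf (nat_lit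 0) (nat_lit 7401499759) (nat_lit 0) (nat_lit 7504316455) (nat_lit 152) (nat_lit 7401499759) (nat_lit 83) (nat_lit 3) (nat_lit 83) (nat_lit 1) (nat_lit 85) (nat_lit 1) (nat_lit 318) (nat_lit 437) (nat_lit 265))) (XT.nd (nat_lit 78) (nat_lit 152) (nat_lit 0) (XT.lf (nat_lit 76) (nat_lit 7250533420) (nat_lit 0) (nat_lit 7348454083) (nat_lit 76) (nat_lit 7348454083) (nat_lit 83) (nat_lit 3) (nat_lit 82) (nat_lit 1) (nat_lit 83) (nat_lit 1) (nat_lit 319) (nat_lit 437) (nat_lit 264)) (XT.lf (nat_lit 152) (nat_lit 21538781427) (nat_lit 0) (nat_lit 30083152) (nat_lit 76) (nat_lit 30083152) (nat_lit 82) (nat_lit 1) (nat_lit 80) (nat_lit 1) (nat_lit 81) (nat_lit 1) (nat_lit 320) (nat_lit 437) (nat_lit 263)))))) (XT.nd (nat_lit 468) (nat_lit 456) (nat_lit 0) (XT.nd (nat_lit 234) (nat_lit 228) (nat_lit 0) (XT.nd (nat_lit 78) (nat_lit 228) (nat_lit 0) (XT.lf (nat_lit 0) (nat_lit 7053418902) (nat_lit 0) (nat_lit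 7138006452) (nat_lit 152) (nat_lit 7053418902) (nat_lit 80) (nat_lit 3) (nat_lit 80) (nat_lit 1) (nat_lit 82) (nat_lit 1) (nat_lit 321) (nat_lit 437) (nat_lit 262)) (XT.nd (nat_lit 78) (nat_lit 152) (nat_lit 0) (XT.lf (nat_lit 76) (nat_lit 6913667122) (nat_lit 0) (nat_lit 6994226694) (nat_lit 76) (nat_lit 6994226694) (nat_lit 80) (nat_lit 3) (nat_lit 79) (nat_lit 1) (nat_lit 80) (nat_lit 1) (nat_lit 322) (nat_lit 437) (nat_lit 261)) (XT.lf (nat_lit 152) (nat_lit 20520741675) (nat_lit 0) (nat_lit 24749484) (nat_lit 76) (nat_lit 24749484) (nat_lit 79) (nat_lit 1) (nat_lit 77) (nat_lit 1) (nat_lit 78) (nat_lit 1) (nat_lit 323) (nat_lit 437) (nat_lit 260)))) (XT.nd (nat_lit 78) (nat_lit 228) (nat_lit 0) (XT.lf (nat_lit 0) (nat_lit 6721138265) (nat_lit 0) (nat_lit 6790728652) (nat_lit 152) (nat_lit 6721138265) (nat_lit 77) (nat_lit 3) (nat_lit 77) (nat_lit 1) (nat_lit 79) (nat_lit 1) (nat_lit 324) (nat_lit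 437) (nat_lit 259)) (XT.nd (nat_lit 78) (nat_lit 152) (nat_lit 0) (XT.lf (nat_lit 76) (nat_lit 6591353274) (nat_lit 0) (nat_lit 6657629833) (nat_lit 76) (nat_lit 6657629833) (nat_lit 77) (nat_lit 3) (nat_lit 76) (nat_lit 1) (nat_lit 77) (nat_lit 1) (nat_lit 325) (nat_lit 437) (nat_lit 258)) (XT.lf (nat_lit 152) (nat_lit 19549829618) (nat_lit 0) (nat_lit 20361462) (nat_lit 76) (nat_lit 20361462) (nat_lit 76) (nat_lit 1) (nat_lit 74) (nat_lit 1) (nat_lit 75) (nat_lit 1) (nat_lit 326) (nat_lit 437) (nat_lit 257))))) (XT.nd (nat_lit 234) (nat_lit 228) (nat_lit 0) (XT.nd (nat_lit 78) (nat_lit 228) (nat_lit 0) (XT.lf (nat_lit 0) (nat_lit 6404042874) (nat_lit 0) (nat_lit 6461295057) (nat_lit 152) (nat_lit 6404042874) (nat_lit 74) (nat_lit 3) (nat_lit 74) (nat_lit 1) (nat_lit 76) (nat_lit 1) (nat_lit 327) (nat_lit 437) (nat_lit 256)) (XT.nd (nat_lit 78) (nat_lit 152) (nat_lit 0) (XT.lf (nat_lit 76) (nat_lit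 6283162863) (nat_lit 0) (nat_lit 6337688752) (nat_lit 76) (nat_lit 6337688752) (nat_lit 74) (nat_lit 3) (nat_lit 73) (nat_lit 1) (nat_lit 74) (nat_lit 1) (nat_lit 328) (nat_lit 437) (nat_lit 255)) (XT.lf (nat_lit 152) (nat_lit 18624040502) (nat_lit 0) (nat_lit 16751425) (nat_lit 76) (nat_lit 16751425) (nat_lit 73) (nat_lit 1) (nat_lit 71) (nat_lit 1) (nat_lit 72) (nat_lit 1) (nat_lit 329) (nat_lit 437) (nat_lit 254)))) (XT.nd (nat_lit 156) (nat_lit 152) (nat_lit 0) (XT.nd (nat_lit 78) (nat_lit 76) (nat_lit 0) (XT.lf (nat_lit 0) (nat_lit 6101522673) (nat_lit 0) (nat_lit 6148624186) (nat_lit 152) (nat_lit 6101522673) (nat_lit 71) (nat_lit 3) (nat_lit 71) (nat_lit 1) (nat_lit 73) (nat_lit 1) (nat_lit 330) (nat_lit 437) (nat_lit 253)) (XT.lf (nat_lit 76) (nat_lit 5988640506) (nat_lit 0) (nat_lit 6033499090) (nat_lit 76) (nat_lit 6033499090) (nat_lit 71) (nat_lit 3) (nat_lit 70) (nat_lit 1) (nat_lit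 71) (nat_lit 1) (nat_lit 331) (nat_lit 437) (nat_lit 252))) (XT.nd (nat_lit 78) (nat_lit 0) (nat_lit 0) (XT.lf (nat_lit 152) (nat_lit 17741422586) (nat_lit 0) (nat_lit 13781438) (nat_lit 76) (nat_lit 13781438) (nat_lit 70) (nat_lit 1) (nat_lit 68) (nat_lit 1) (nat_lit 69) (nat_lit 1) (nat_lit 332) (nat_lit 437) (nat_lit 251)) (XT.lf (nat_lit 0) (nat_lit 5812976614) (nat_lit 0) (nat_lit 5851727145) (nat_lit 152) (nat_lit 5812976614) (nat_lit 68) (nat_lit 3) (nat_lit 68) (nat_lit 1) (nat_lit 70) (nat_lit 1) (nat_lit 333) (nat_lit 437) (nat_lit 250))))))))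
noncomputable def ec448 : XT := (XT.nd (nat_lit 1950) (nat_lit 1976) (nat_lit 0) (XT.nd (nat_lit 936) (nat_lit 988) (nat_lit 0) (XT.nd (nat_lit 468) (nat_lit 456) (nat_lit 0) (XT.nd (nat_lit 234) (nat_lit 228) (nat_lit 0) (XT.nd (nat_lit 78) (nat_lit 152) (nat_lit 0) (XT.lf (nat_lit 76) (nat_lit 5707314002) (nat_lit 0) (nat_lit 5744219270) (nat_lit 76) (nat_lit 5744219270) (nat_lit 68) (nat_lit 3) (nat_lit 67) (nat_lit 1) (nat_lit 68) (nat_lit 1) (nat_lit 334) (nat_lit 437) (nat_lit 249)) (XT.nd (nat_lit 78) (nat_lit 0) (nat_lit 0) (XT.lf (nat_lit 152) (nat_lit 16900082149) (nat_lit 0) (nat_lit 11338023) (nat_lit 76) (nat_lit 11338023) (nat_lit 67) (nat_lit 1) (nat_lit 65) (nat_lit 1) (nat_lit 66) (nat_lit 1) (nat_lit 335) (nat_lit 437) (nat_lit 248)) (XT.lf (nat_lit 0) (nat_lit 5537815781) (nat_lit 0) (nat_lit 5569695939) (nat_lit 152) (nat_lit 5537815781) (nat_lit 65) (nat_lit 3) (nat_lit 65)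 (nat_lit 1) (nat_lit 67) (nat_lit 1) (nat_lit 336) (nat_lit 437) (nat_lit 247)))) (XT.nd (nat_lit 78) (nat_lit 152) (nat_lit 0) (XT.lf (nat_lit 76) (nat_lit 5438701960) (nat_lit 0) (nat_lit 5469064015) (nat_lit 76) (nat_lit 5469064015) (nat_lit 65) (nat_lit 3) (nat_lit 64) (nat_lit 1) (nat_lit 65) (nat_lit 1) (nat_lit 337) (nat_lit 437) (nat_lit 246)) (XT.nd (nat_lit 78) (nat_lit 0) (nat_lit 0) (XT.lf (nat_lit 152) (nat_lit 16098186913) (nat_lit 0) (nat_lit 9327820) (nat_lit 76) (nat_lit 9327820) (nat_lit 64) (nat_lit 1) (nat_lit 62) (nat_lit 1) (nat_lit 63) (nat_lit 1) (nat_lit 338) (nat_lit 437) (nat_lit 245)) (XT.lf (nat_lit 0) (nat_lit 5275465733) (nat_lit 0) (nat_lit 5301693618) (nat_lit 152) (nat_lit 5275465733) (nat_lit 62) (nat_lit 3) (nat_lit 62) (nat_lit 1) (nat_lit 64) (nat_lit 1) (nat_lit 339) (nat_lit 437) (nat_lit 244))))) (XT.nd (nat_lit 234) (nat_lit 228) (nat_lit 0) (XT.nd (nat_lit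 78) (nat_lit 152) (nat_lit 0) (XT.lf (nat_lit 76) (nat_lit 5182319854) (nat_lit 0) (nat_lit 5207298792) (nat_lit 76) (nat_lit 5207298792) (nat_lit 62) (nat_lit 3) (nat_lit 61) (nat_lit 1) (nat_lit 62) (nat_lit 1) (nat_lit 340) (nat_lit 437) (nat_lit 243)) (XT.nd (nat_lit 78) (nat_lit 0) (nat_lit 0) (XT.lf (nat_lit 152) (nat_lit 15333968218) (nat_lit 0) (nat_lit 7674020) (nat_lit 76) (nat_lit 7674020) (nat_lit 61) (nat_lit 1) (nat_lit 59) (nat_lit 1) (nat_lit 60) (nat_lit 1) (nat_lit 341) (nat_lit 437) (nat_lit 242)) (XT.lf (nat_lit 0) (nat_lit 5025368224) (nat_lit 0) (nat_lit 5046945970) (nat_lit 152) (nat_lit 5025368224) (nat_lit 59) (nat_lit 3) (nat_lit 59) (nat_lit 1) (nat_lit 61) (nat_lit 1) (nat_lit 342) (nat_lit 437) (nat_lit 241)))) (XT.nd (nat_lit 78) (nat_lit 152) (nat_lit 0) (XT.lf (nat_lit 76) (nat_lit 4937684790) (nat_lit 0) (nat_lit 4958235024) (nat_lit 76) (nat_lit 4958235024) (nat_lit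 59) (nat_lit 3) (nat_lit 58) (nat_lit 1) (nat_lit 59) (nat_lit 1) (nat_lit 343) (nat_lit 437) (nat_lit 240)) (XT.nd (nat_lit 78) (nat_lit 0) (nat_lit 0) (XT.lf (nat_lit 152) (nat_lit 14605722178) (nat_lit 0) (nat_lit 6313435) (nat_lit 76) (nat_lit 6313435) (nat_lit 58) (nat_lit 1) (nat_lit 56) (nat_lit 1) (nat_lit 57) (nat_lit 1) (nat_lit 344) (nat_lit 437) (nat_lit 239)) (XT.lf (nat_lit 0) (nat_lit 4786982408) (nat_lit 0) (nat_lit 4804734473) (nat_lit 152) (nat_lit 4786982408) (nat_lit 56) (nat_lit 3) (nat_lit 56) (nat_lit 1) (nat_lit 58) (nat_lit 1) (nat_lit 345) (nat_lit 437) (nat_lit 238)))))) (XT.nd (nat_lit 468) (nat_lit 532) (nat_lit 0) (XT.nd (nat_lit 234) (nat_lit 228) (nat_lit 0) (XT.nd (nat_lit 78) (nat_lit 152) (nat_lit 0) (XT.lf (nat_lit 76) (nat_lit 4704319231) (nat_lit 0) (nat_lit 4721225959) (nat_lit 76) (nat_lit 4721225959) (nat_lit 56) (nat_lit 3) (nat_lit 55) (nat_lit 1) (nat_lit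 56) (nat_lit 1) (nat_lit 346) (nat_lit 437) (nat_lit 237)) (XT.nd (nat_lit 78) (nat_lit 0) (nat_lit 0) (XT.lf (nat_lit 152) (nat_lit 13911810045) (nat_lit 0) (nat_lit 5194079) (nat_lit 76) (nat_lit 5194079) (nat_lit 55) (nat_lit 1) (nat_lit 53) (nat_lit 1) (nat_lit 54) (nat_lit 1) (nat_lit 347) (nat_lit 437) (nat_lit 236)) (XT.lf (nat_lit 0) (nat_lit 4559785639) (nat_lit 0) (nat_lit 4574390306) (nat_lit 152) (nat_lit 4559785639) (nat_lit 53) (nat_lit 3) (nat_lit 53) (nat_lit 1) (nat_lit 55) (nat_lit 1) (nat_lit 348) (nat_lit 437) (nat_lit 235)))) (XT.nd (nat_lit 78) (nat_lit 152) (nat_lit 0) (XT.lf (nat_lit 76) (nat_lit 4481753868) (nat_lit 0) (nat_lit 4495663075) (nat_lit 76) (nat_lit 4495663075) (nat_lit 53) (nat_lit 3) (nat_lit 52) (nat_lit 1) (nat_lit 53) (nat_lit 1) (nat_lit 349) (nat_lit 437) (nat_lit 234)) (XT.nd (nat_lit 78) (nat_lit 0) (nat_lit 0) (XT.lf (nat_lit 152) (nat_lit 13250657946)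 (nat_lit 0) (nat_lit 4273181) (nat_lit 76) (nat_lit 4273181) (nat_lit 52) (nat_lit 1) (nat_lit 50) (nat_lit 1) (nat_lit 51) (nat_lit 1) (nat_lit 350) (nat_lit 437) (nat_lit 233)) (XT.lf (nat_lit 0) (nat_lit 4343273944) (nat_lit 0) (nat_lit 4355289240) (nat_lit 152) (nat_lit 4343273944) (nat_lit 50) (nat_lit 3) (nat_lit 50) (nat_lit 1) (nat_lit 52) (nat_lit 1) (nat_lit 351) (nat_lit 437) (nat_lit 232))))) (XT.nd (nat_lit 234) (nat_lit 304) (nat_lit 0) (XT.nd (nat_lit 78) (nat_lit 152) (nat_lit 0) (XT.lf (nat_lit 76) (nat_lit 4269529803) (nat_lit 0) (nat_lit 4280972942) (nat_lit 76) (nat_lit 4280972942) (nat_lit 50) (nat_lit 3) (nat_lit 49) (nat_lit 1) (nat_lit 50) (nat_lit 1) (nat_lit 352) (nat_lit 437) (nat_lit 231)) (XT.nd (nat_lit 78) (nat_lit 0) (nat_lit 0) (XT.lf (nat_lit 152) (nat_lit 12620756126) (nat_lit 0) (nat_lit 3515557) (nat_lit 76) (nat_lit 3515557) (nat_lit 49) (nat_lit 1) (nat_lit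 47) (nat_lit 1) (nat_lit 48) (nat_lit 1) (nat_lit 353) (nat_lit 437) (nat_lit 230)) (XT.lf (nat_lit 0) (nat_lit 4136962236) (nat_lit 0) (nat_lit 4146847250) (nat_lit 152) (nat_lit 4136962236) (nat_lit 47) (nat_lit 3) (nat_lit 47) (nat_lit 1) (nat_lit 49) (nat_lit 1) (nat_lit 354) (nat_lit 437) (nat_lit 229)))) (XT.nd (nat_lit 156) (nat_lit 76) (nat_lit 0) (XT.nd (nat_lit 78) (nat_lit 152) (nat_lit 0) (XT.lf (nat_lit 76) (nat_lit 4067200168) (nat_lit 0) (nat_lit 4076614467) (nat_lit 76) (nat_lit 4076614467) (nat_lit 47) (nat_lit 3) (nat_lit 46) (nat_lit 1) (nat_lit 47) (nat_lit 1) (nat_lit 355) (nat_lit 437) (nat_lit 228)) (XT.lf (nat_lit 152) (nat_lit 12020657815) (nat_lit 0) (nat_lit 2892257) (nat_lit 76) (nat_lit 2892257) (nat_lit 46) (nat_lit 1) (nat_lit 44) (nat_lit 1) (nat_lit 45) (nat_lit 1) (nat_lit 356) (nat_lit 437) (nat_lit 227))) (XT.nd (nat_lit 78) (nat_lit 76) (nat_lit 0) (XT.lf (nat_lit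 0) (nat_lit 3940384320) (nat_lit 0) (nat_lit 3948516746) (nat_lit 152) (nat_lit 3940384320) (nat_lit 44) (nat_lit 3) (nat_lit 44) (nat_lit 1) (nat_lit 46) (nat_lit 1) (nat_lit 357) (nat_lit 437) (nat_lit 226)) (XT.lf (nat_lit 76) (nat_lit 3874331294) (nat_lit 0) (nat_lit 3882076461) (nat_lit 76) (nat_lit 3882076461) (nat_lit 44) (nat_lit 3) (nat_lit 43) (nat_lit 1) (nat_lit 44) (nat_lit 1) (nat_lit 358) (nat_lit 437) (nat_lit 225))))))) (XT.nd (nat_lit 936) (nat_lit 1064) (nat_lit 0) (XT.nd (nat_lit 468) (nat_lit 456) (nat_lit 0) (XT.nd (nat_lit 234) (nat_lit 228) (nat_lit 0) (XT.nd (nat_lit 78) (nat_lit 76) (nat_lit 0) (XT.lf (nat_lit 152) (nat_lit 11448977805) (nat_lit 0) (nat_lit 2379467) (nat_lit 76) (nat_lit 2379467) (nat_lit 43) (nat_lit 1) (nat_lit 41) (nat_lit 1) (nat_lit 42) (nat_lit 1) (nat_lit 359) (nat_lit 437) (nat_lit 224)) (XT.nd (nat_lit 78) (nat_lit 76) (nat_lit 0) (XT.lf (nat_lit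 0) (nat_lit 3753092742) (nat_lit 0) (nat_lit 3759783309) (nat_lit 152) (nat_lit 3753092742) (nat_lit 41) (nat_lit 3) (nat_lit 41) (nat_lit 1) (nat_lit 43) (nat_lit 1) (nat_lit 360) (nat_lit 437) (nat_lit 223)) (XT.lf (nat_lit 76) (nat_lit 3690503515) (nat_lit 0) (nat_lit 3696875483) (nat_lit 76) (nat_lit 3696875483) (nat_lit 41) (nat_lit 3) (nat_lit 40) (nat_lit 1) (nat_lit 41) (nat_lit 1) (nat_lit 361) (nat_lit 437) (nat_lit 222)))) (XT.nd (nat_lit 78) (nat_lit 76) (nat_lit 0) (XT.lf (nat_lit 152) (nat_lit 10904390823) (nat_lit 0) (nat_lit 1957593) (nat_lit 76) (nat_lit 1957593) (nat_lit 40) (nat_lit 1) (nat_lit 38) (nat_lit 1) (nat_lit 39) (nat_lit 1) (nat_lit 362) (nat_lit 437) (nat_lit 221)) (XT.nd (nat_lit 78) (nat_lit 76) (nat_lit 0) (XT.lf (nat_lit 0) (nat_lit 3574658507) (nat_lit 0) (nat_lit 3580162852) (nat_lit 152) (nat_lit 3574658507) (nat_lit 38) (nat_lit 3) (nat_lit 38) (nat_lit 1)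 (nat_lit 40) (nat_lit 1) (nat_lit 363) (nat_lit 437) (nat_lit 220)) (XT.lf (nat_lit 76) (nat_lit 3515311681) (nat_lit 0) (nat_lit 3520553915) (nat_lit 76) (nat_lit 3520553915) (nat_lit 38) (nat_lit 3) (nat_lit 37) (nat_lit 1) (nat_lit 38) (nat_lit 1) (nat_lit 364) (nat_lit 437) (nat_lit 219))))) (XT.nd (nat_lit 234) (nat_lit 228) (nat_lit 0) (XT.nd (nat_lit 78) (nat_lit 76) (nat_lit 0) (XT.lf (nat_lit 152) (nat_lit 10385629744) (nat_lit 0) (nat_lit 1610517) (nat_lit 76) (nat_lit 1610517) (nat_lit 37) (nat_lit 1) (nat_lit 35) (nat_lit 1) (nat_lit 36) (nat_lit 1) (nat_lit 365) (nat_lit 437) (nat_lit 218)) (XT.nd (nat_lit 78) (nat_lit 76) (nat_lit 0) (XT.lf (nat_lit 0) (nat_lit 3404670704) (nat_lit 0) (nat_lit 3409199143) (nat_lit 152) (nat_lit 3404670704) (nat_lit 35) (nat_lit 3) (nat_lit 35) (nat_lit 1) (nat_lit 37) (nat_lit 1) (nat_lit 366) (nat_lit 437) (nat_lit 217)) (XT.lf (nat_lit 76) (nat_lit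 3348365435) (nat_lit 0) (nat_lit 3352678234) (nat_lit 76) (nat_lit 3352678234) (nat_lit 35) (nat_lit 3) (nat_lit 34) (nat_lit 1) (nat_lit 35) (nat_lit 1) (nat_lit 367) (nat_lit 437) (nat_lit 216)))) (XT.nd (nat_lit 78) (nat_lit 76) (nat_lit 0) (XT.lf (nat_lit 152) (nat_lit 9891483701) (nat_lit 0) (nat_lit 1324976) (nat_lit 76) (nat_lit 1324976) (nat_lit 34) (nat_lit 1) (nat_lit 32) (nat_lit 1) (nat_lit 33) (nat_lit 1) (nat_lit 368) (nat_lit 437) (nat_lit 215)) (XT.nd (nat_lit 78) (nat_lit 76) (nat_lit 0) (XT.lf (nat_lit 0) (nat_lit 3242736066) (nat_lit 0) (nat_lit 3246461624) (nat_lit 152) (nat_lit 3242736066) (nat_lit 32) (nat_lit 3) (nat_lit 32) (nat_lit 1) (nat_lit 34) (nat_lit 1) (nat_lit 369) (nat_lit 437) (nat_lit 214)) (XT.lf (nat_lit 76) (nat_lit 3189289307) (nat_lit 0) (nat_lit 3192837457) (nat_lit 76) (nat_lit 3192837457) (nat_lit 32) (nat_lit 3) (nat_lit 31) (nat_lit 1) (nat_lit 32)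 (nat_lit 1) (nat_lit 370) (nat_lit 437) (nat_lit 213)))))) (XT.nd (nat_lit 468) (nat_lit 608) (nat_lit 0) (XT.nd (nat_lit 234) (nat_lit 228) (nat_lit 0) (XT.nd (nat_lit 78) (nat_lit 76) (nat_lit 0) (XT.lf (nat_lit 152) (nat_lit 9420796127) (nat_lit 0) (nat_lit 1090061) (nat_lit 76) (nat_lit 1090061) (nat_lit 31) (nat_lit 1) (nat_lit 29) (nat_lit 1) (nat_lit 30) (nat_lit 1) (nat_lit 371) (nat_lit 437) (nat_lit 212)) (XT.nd (nat_lit 78) (nat_lit 76) (nat_lit 0) (XT.lf (nat_lit 0) (nat_lit 3088478464) (nat_lit 0) (nat_lit 3091543490) (nat_lit 152) (nat_lit 3088478464) (nat_lit 29) (nat_lit 3) (nat_lit 29) (nat_lit 1) (nat_lit 31) (nat_lit 1) (nat_lit 372) (nat_lit 437) (nat_lit 211)) (XT.lf (nat_lit 76) (nat_lit 3037722659) (nat_lit 0) (nat_lit 3040641731) (nat_lit 76) (nat_lit 3040641731) (nat_lit 29) (nat_lit 3) (nat_lit 28) (nat_lit 1) (nat_lit 29) (nat_lit 1) (nat_lit 373) (nat_lit 437) (nat_lit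 210)))) (XT.nd (nat_lit 78) (nat_lit 76) (nat_lit 0) (XT.lf (nat_lit 152) (nat_lit 8972462772) (nat_lit 0) (nat_lit 896796) (nat_lit 76) (nat_lit 896796) (nat_lit 28) (nat_lit 1) (nat_lit 26) (nat_lit 1) (nat_lit 27) (nat_lit 1) (nat_lit 374) (nat_lit 437) (nat_lit 209)) (XT.nd (nat_lit 78) (nat_lit 76) (nat_lit 0) (XT.lf (nat_lit 0) (nat_lit 2941538379) (nat_lit 0) (nat_lit 2944059983) (nat_lit 152) (nat_lit 2941538379) (nat_lit 26) (nat_lit 3) (nat_lit 26) (nat_lit 1) (nat_lit 28) (nat_lit 1) (nat_lit 375) (nat_lit 437) (nat_lit 208)) (XT.lf (nat_lit 76) (nat_lit 2893319525) (nat_lit 0) (nat_lit 2895721053) (nat_lit 76) (nat_lit 2895721053) (nat_lit 26) (nat_lit 3) (nat_lit 25) (nat_lit 1) (nat_lit 26) (nat_lit 1) (nat_lit 376) (nat_lit 437) (nat_lit 207))))) (XT.nd (nat_lit 234) (nat_lit 380) (nat_lit 0) (XT.nd (nat_lit 78) (nat_lit 76) (nat_lit 0) (XT.lf (nat_lit 152) (nat_lit 8545429692) (nat_lit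 0) (nat_lit 737796) (nat_lit 76) (nat_lit 737796) (nat_lit 25) (nat_lit 1) (nat_lit 23) (nat_lit 1) (nat_lit 24) (nat_lit 1) (nat_lit 377) (nat_lit 437) (nat_lit 206)) (XT.nd (nat_lit 78) (nat_lit 76) (nat_lit 0) (XT.lf (nat_lit 0) (nat_lit 2801572335) (nat_lit 0) (nat_lit 2803646865) (nat_lit 152) (nat_lit 2801572335) (nat_lit 23) (nat_lit 3) (nat_lit 23) (nat_lit 1) (nat_lit 25) (nat_lit 1) (nat_lit 378) (nat_lit 437) (nat_lit 205)) (XT.lf (nat_lit 76) (nat_lit 2755748348) (nat_lit 0) (nat_lit 2757724091) (nat_lit 76) (nat_lit 2757724091) (nat_lit 23) (nat_lit 3) (nat_lit 22) (nat_lit 1) (nat_lit 23) (nat_lit 1) (nat_lit 379) (nat_lit 437) (nat_lit 204)))) (XT.nd (nat_lit 156) (nat_lit 228) (nat_lit 0) (XT.nd (nat_lit 78) (nat_lit 0) (nat_lit 0) (XT.lf (nat_lit 152) (nat_lit 8138691265) (nat_lit 0) (nat_lit 606987) (nat_lit 76) (nat_lit 606987) (nat_lit 22) (nat_lit 1) (nat_lit 20) (nat_lit 1)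 (nat_lit 21) (nat_lit 1) (nat_lit 380) (nat_lit 437) (nat_lit 203)) (XT.lf (nat_lit 0) (nat_lit 2668252332) (nat_lit 0) (nat_lit 2669959053) (nat_lit 152) (nat_lit 2668252332) (nat_lit 20) (nat_lit 3) (nat_lit 20) (nat_lit 1) (nat_lit 22) (nat_lit 1) (nat_lit 381) (nat_lit 437) (nat_lit 202))) (XT.nd (nat_lit 78) (nat_lit 152) (nat_lit 0) (XT.lf (nat_lit 76) (nat_lit 2624691666) (nat_lit 0) (nat_lit 2626317115) (nat_lit 76) (nat_lit 2626317115) (nat_lit 20) (nat_lit 3) (nat_lit 19) (nat_lit 1) (nat_lit 20) (nat_lit 1) (nat_lit 382) (nat_lit 437) (nat_lit 201)) (XT.lf (nat_lit 152) (nat_lit 7751288216) (nat_lit 0) (nat_lit 499369) (nat_lit 76) (nat_lit 499369) (nat_lit 19) (nat_lit 1) (nat_lit 17) (nat_lit 1) (nat_lit 18) (nat_lit 1) (nat_lit 383) (nat_lit 437) (nat_lit 200))))))))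
noncomputable def ec449 : XT := (XT.nd (nat_lit 1950) (nat_lit 0) (nat_lit 0) (XT.nd (nat_lit 936) (nat_lit 380) (nat_lit 0) (XT.nd (nat_lit 468) (nat_lit 456) (nat_lit 0) (XT.nd (nat_lit 234) (nat_lit 228) (nat_lit 0) (XT.nd (nat_lit 78) (nat_lit 228) (nat_lit 0) (XT.lf (nat_lit 0) (nat_lit 2541265263) (nat_lit 0) (nat_lit 2542669386) (nat_lit 152) (nat_lit 2541265263) (nat_lit 17) (nat_lit 3) (nat_lit 17) (nat_lit 1) (nat_lit 19) (nat_lit 1) (nat_lit 384) (nat_lit 437) (nat_lit 199)) (XT.nd (nat_lit 78) (nat_lit 152) (nat_lit 0) (XT.lf (nat_lit 76) (nat_lit 2499845739) (nat_lit 0) (nat_lit 2501183000) (nat_lit 76) (nat_lit 2501183000) (nat_lit 17) (nat_lit 3) (nat_lit 16) (nat_lit 1) (nat_lit 17) (nat_lit 1) (nat_lit 385) (nat_lit 437) (nat_lit 198)) (XT.lf (nat_lit 152) (nat_lit 7382305685) (nat_lit 0) (nat_lit 410832) (nat_lit 76) (nat_lit 410832) (nat_lit 16) (nat_lit 1) (nat_lit 14) (nat_lit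 1) (nat_lit 15) (nat_lit 1) (nat_lit 386) (nat_lit 437) (nat_lit 197)))) (XT.nd (nat_lit 78) (nat_lit 228) (nat_lit 0) (XT.lf (nat_lit 0) (nat_lit 2420312331) (nat_lit 0) (nat_lit 2421467507) (nat_lit 152) (nat_lit 2420312331) (nat_lit 14) (nat_lit 3) (nat_lit 14) (nat_lit 1) (nat_lit 16) (nat_lit 1) (nat_lit 387) (nat_lit 437) (nat_lit 196)) (XT.nd (nat_lit 78) (nat_lit 152) (nat_lit 0) (XT.lf (nat_lit 76) (nat_lit 2380920143) (nat_lit 0) (nat_lit 2382020310) (nat_lit 76) (nat_lit 2382020310) (nat_lit 14) (nat_lit 3) (nat_lit 13) (nat_lit 1) (nat_lit 14) (nat_lit 1) (nat_lit 388) (nat_lit 437) (nat_lit 195)) (XT.lf (nat_lit 152) (nat_lit 7030871334) (nat_lit 0) (nat_lit 337993) (nat_lit 76) (nat_lit 337993) (nat_lit 13) (nat_lit 1) (nat_lit 11) (nat_lit 1) (nat_lit 12) (nat_lit 1) (nat_lit 389) (nat_lit 437) (nat_lit 194))))) (XT.nd (nat_lit 234) (nat_lit 228) (nat_lit 0) (XT.nd (nat_lit 78) (nat_lit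 228) (nat_lit 0) (XT.lf (nat_lit 0) (nat_lit 2305108478) (nat_lit 0) (nat_lit 2306058844) (nat_lit 152) (nat_lit 2305108478) (nat_lit 11) (nat_lit 3) (nat_lit 11) (nat_lit 1) (nat_lit 13) (nat_lit 1) (nat_lit 390) (nat_lit 437) (nat_lit 193)) (XT.nd (nat_lit 78) (nat_lit 152) (nat_lit 0) (XT.lf (nat_lit 76) (nat_lit 2267637338) (nat_lit 0) (nat_lit 2268542449) (nat_lit 76) (nat_lit 2268542449) (nat_lit 11) (nat_lit 3) (nat_lit 10) (nat_lit 1) (nat_lit 11) (nat_lit 1) (nat_lit 391) (nat_lit 437) (nat_lit 192)) (XT.lf (nat_lit 152) (nat_lit 6696153511) (nat_lit 0) (nat_lit 278067) (nat_lit 76) (nat_lit 278067) (nat_lit 10) (nat_lit 1) (nat_lit 8) (nat_lit 1) (nat_lit 9) (nat_lit 1) (nat_lit 392) (nat_lit 437) (nat_lit 191)))) (XT.nd (nat_lit 78) (nat_lit 228) (nat_lit 0) (XT.lf (nat_lit 0) (nat_lit 2195381815) (nat_lit 0) (nat_lit 2196163684) (nat_lit 152) (nat_lit 2195381815) (nat_lit 8) (nat_lit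 3) (nat_lit 8) (nat_lit 1) (nat_lit 10) (nat_lit 1) (nat_lit 393) (nat_lit 437) (nat_lit 190)) (XT.nd (nat_lit 78) (nat_lit 152) (nat_lit 0) (XT.lf (nat_lit 76) (nat_lit 2159732226) (nat_lit 0) (nat_lit 2160476862) (nat_lit 76) (nat_lit 2160476862) (nat_lit 8) (nat_lit 3) (nat_lit 7) (nat_lit 1) (nat_lit 8) (nat_lit 1) (nat_lit 394) (nat_lit 437) (nat_lit 189)) (XT.lf (nat_lit 152) (nat_lit 6377359460) (nat_lit 0) (nat_lit 228767) (nat_lit 76) (nat_lit 228767) (nat_lit 7) (nat_lit 1) (nat_lit 5) (nat_lit 1) (nat_lit 6) (nat_lit 1) (nat_lit 395) (nat_lit 437) (nat_lit 188)))))) (XT.nd (nat_lit 468) (nat_lit 0) (nat_lit 0) (XT.nd (nat_lit 234) (nat_lit 152) (nat_lit 0) (XT.nd (nat_lit 78) (nat_lit 228) (nat_lit 0) (XT.lf (nat_lit 0) (nat_lit 2090873067) (nat_lit 0) (nat_lit 2091516312) (nat_lit 152) (nat_lit 2090873067) (nat_lit 5) (nat_lit 3) (nat_lit 5) (nat_lit 1) (nat_lit 7) (nat_lit 1) (nat_lit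 396) (nat_lit 437) (nat_lit 187)) (XT.nd (nat_lit 78) (nat_lit 152) (nat_lit 0) (XT.lf (nat_lit 76) (nat_lit 2056951690) (nat_lit 0) (nat_lit 2057564305) (nat_lit 76) (nat_lit 2057564305) (nat_lit 5) (nat_lit 3) (nat_lit 4) (nat_lit 1) (nat_lit 5) (nat_lit 1) (nat_lit 397) (nat_lit 437) (nat_lit 186)) (XT.lf (nat_lit 152) (nat_lit 6073733596) (nat_lit 0) (nat_lit 188207) (nat_lit 76) (nat_lit 188207) (nat_lit 4) (nat_lit 1) (nat_lit 2) (nat_lit 1) (nat_lit 3) (nat_lit 1) (nat_lit 398) (nat_lit 437) (nat_lit 185)))) (XT.nd (nat_lit 78) (nat_lit 152) (nat_lit 0) (XT.lf (nat_lit 0) (nat_lit 1991335032) (nat_lit 0) (nat_lit 1991864231) (nat_lit 152) (nat_lit 1991335032) (nat_lit 2) (nat_lit 3) (nat_lit 2) (nat_lit 1) (nat_lit 4) (nat_lit 1) (nat_lit 399) (nat_lit 437) (nat_lit 184)) (XT.nd (nat_lit 78) (nat_lit 76) (nat_lit 0) (XT.lf (nat_lit 76) (nat_lit 1959054145) (nat_lit 0) (nat_lit 1959558144)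 (nat_lit 76) (nat_lit 1959558144) (nat_lit 2) (nat_lit 3) (nat_lit 1) (nat_lit 1) (nat_lit 2) (nat_lit 1) (nat_lit 400) (nat_lit 437) (nat_lit 183)) (XT.lf (nat_lit 0) (nat_lit 121972969104) (nat_lit 0) (nat_lit 0) (nat_lit 0) (nat_lit 0) (nat_lit 0) (nat_lit 0) (nat_lit 1) (nat_lit 0) (nat_lit 1) (nat_lit 0) (nat_lit 401) (nat_lit 437) (nat_lit 182))))) (XT.nd (nat_lit 234) (nat_lit 0) (nat_lit 0) (XT.nd (nat_lit 78) (nat_lit 0) (nat_lit 0) (XT.lf (nat_lit 0) (nat_lit 121972946155) (nat_lit 0) (nat_lit 0) (nat_lit 0) (nat_lit 0) (nat_lit 0) (nat_lit 0) (nat_lit 1) (nat_lit 0) (nat_lit 1) (nat_lit 0) (nat_lit 402) (nat_lit 437) (nat_lit 181)) (XT.nd (nat_lit 78) (nat_lit 0) (nat_lit 0) (XT.lf (nat_lit 0) (nat_lit 121972924298) (nat_lit 0) (nat_lit 0) (nat_lit 0) (nat_lit 0) (nat_lit 0) (nat_lit 0) (nat_lit 1) (nat_lit 0) (nat_lit 1) (nat_lit 0) (nat_lit 403) (nat_lit 437) (nat_lit 180)) (XT.lf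 (nat_lit 0) (nat_lit 121972903482) (nat_lit 0) (nat_lit 0) (nat_lit 0) (nat_lit 0) (nat_lit 0) (nat_lit 0) (nat_lit 1) (nat_lit 0) (nat_lit 1) (nat_lit 0) (nat_lit 404) (nat_lit 437) (nat_lit 179)))) (XT.nd (nat_lit 156) (nat_lit 0) (nat_lit 0) (XT.nd (nat_lit 78) (nat_lit 0) (nat_lit 0) (XT.lf (nat_lit 0) (nat_lit 121972883658) (nat_lit 0) (nat_lit 0) (nat_lit 0) (nat_lit 0) (nat_lit 0) (nat_lit 0) (nat_lit 1) (nat_lit 0) (nat_lit 1) (nat_lit 0) (nat_lit 405) (nat_lit 437) (nat_lit 178)) (XT.lf (nat_lit 0) (nat_lit 121972864777) (nat_lit 0) (nat_lit 0) (nat_lit 0) (nat_lit 0) (nat_lit 0) (nat_lit 0) (nat_lit 1) (nat_lit 0) (nat_lit 1) (nat_lit 0) (nat_lit 406) (nat_lit 437) (nat_lit 177))) (XT.nd (nat_lit 78) (nat_lit 0) (nat_lit 0) (XT.lf (nat_lit 0) (nat_lit 121972846796) (nat_lit 0) (nat_lit 0) (nat_lit 0) (nat_lit 0) (nat_lit 0) (nat_lit 0) (nat_lit 1) (nat_lit 0) (nat_lit 1) (nat_lit 0) (nat_lit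 407) (nat_lit 437) (nat_lit 176)) (XT.lf (nat_lit 0) (nat_lit 121972829670) (nat_lit 0) (nat_lit 0) (nat_lit 0) (nat_lit 0) (nat_lit 0) (nat_lit 0) (nat_lit 1) (nat_lit 0) (nat_lit 1) (nat_lit 0) (nat_lit 408) (nat_lit 437) (nat_lit 175))))))) (XT.nd (nat_lit 936) (nat_lit 0) (nat_lit 0) (XT.nd (nat_lit 468) (nat_lit 0) (nat_lit 0) (XT.nd (nat_lit 234) (nat_lit 0) (nat_lit 0) (XT.nd (nat_lit 78) (nat_lit 0) (nat_lit 0) (XT.lf (nat_lit 0) (nat_lit 121972813361) (nat_lit 0) (nat_lit 0) (nat_lit 0) (nat_lit 0) (nat_lit 0) (nat_lit 0) (nat_lit 1) (nat_lit 0) (nat_lit 1) (nat_lit 0) (nat_lit 409) (nat_lit 437) (nat_lit 174)) (XT.nd (nat_lit 78) (nat_lit 0) (nat_lit 0) (XT.lf (nat_lit 0) (nat_lit 121972797828) (nat_lit 0) (nat_lit 0) (nat_lit 0) (nat_lit 0) (nat_lit 0) (nat_lit 0) (nat_lit 1) (nat_lit 0) (nat_lit 1) (nat_lit 0) (nat_lit 410) (nat_lit 437) (nat_lit 173)) (XT.lf (nat_lit 0) (nat_lit 121972783034)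 (nat_lit 0) (nat_lit 0) (nat_lit 0) (nat_lit 0) (nat_lit 0) (nat_lit 0) (nat_lit 1) (nat_lit 0) (nat_lit 1) (nat_lit 0) (nat_lit 411) (nat_lit 437) (nat_lit 172)))) (XT.nd (nat_lit 78) (nat_lit 0) (nat_lit 0) (XT.lf (nat_lit 0) (nat_lit 121972768945) (nat_lit 0) (nat_lit 0) (nat_lit 0) (nat_lit 0) (nat_lit 0) (nat_lit 0) (nat_lit 1) (nat_lit 0) (nat_lit 1) (nat_lit 0) (nat_lit 412) (nat_lit 437) (nat_lit 171)) (XT.nd (nat_lit 78) (nat_lit 0) (nat_lit 0) (XT.lf (nat_lit 0) (nat_lit 121972755527) (nat_lit 0) (nat_lit 0) (nat_lit 0) (nat_lit 0) (nat_lit 0) (nat_lit 0) (nat_lit 1) (nat_lit 0) (nat_lit 1) (nat_lit 0) (nat_lit 413) (nat_lit 437) (nat_lit 170)) (XT.lf (nat_lit 0) (nat_lit 121972742748) (nat_lit 0) (nat_lit 0) (nat_lit 0) (nat_lit 0) (nat_lit 0) (nat_lit 0) (nat_lit 1) (nat_lit 0) (nat_lit 1) (nat_lit 0) (nat_lit 414) (nat_lit 437) (nat_lit 169))))) (XT.nd (nat_lit 234) (nat_lit 0) (nat_lit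 0) (XT.nd (nat_lit 78) (nat_lit 0) (nat_lit 0) (XT.lf (nat_lit 0) (nat_lit 121972730578) (nat_lit 0) (nat_lit 0) (nat_lit 0) (nat_lit 0) (nat_lit 0) (nat_lit 0) (nat_lit 1) (nat_lit 0) (nat_lit 1) (nat_lit 0) (nat_lit 415) (nat_lit 437) (nat_lit 168)) (XT.nd (nat_lit 78) (nat_lit 0) (nat_lit 0) (XT.lf (nat_lit 0) (nat_lit 121972718987) (nat_lit 0) (nat_lit 0) (nat_lit 0) (nat_lit 0) (nat_lit 0) (nat_lit 0) (nat_lit 1) (nat_lit 0) (nat_lit 1) (nat_lit 0) (nat_lit 416) (nat_lit 437) (nat_lit 167)) (XT.lf (nat_lit 0) (nat_lit 121972707948) (nat_lit 0) (nat_lit 0) (nat_lit 0) (nat_lit 0) (nat_lit 0) (nat_lit 0) (nat_lit 1) (nat_lit 0) (nat_lit 1) (nat_lit 0) (nat_lit 417) (nat_lit 437) (nat_lit 166)))) (XT.nd (nat_lit 78) (nat_lit 0) (nat_lit 0) (XT.lf (nat_lit 0) (nat_lit 121972697434) (nat_lit 0) (nat_lit 0) (nat_lit 0) (nat_lit 0) (nat_lit 0) (nat_lit 0) (nat_lit 1) (nat_lit 0) (nat_lit 1) (nat_lit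 0) (nat_lit 418) (nat_lit 437) (nat_lit 165)) (XT.nd (nat_lit 78) (nat_lit 0) (nat_lit 0) (XT.lf (nat_lit 0) (nat_lit 121972687422) (nat_lit 0) (nat_lit 0) (nat_lit 0) (nat_lit 0) (nat_lit 0) (nat_lit 0) (nat_lit 1) (nat_lit 0) (nat_lit 1) (nat_lit 0) (nat_lit 419) (nat_lit 437) (nat_lit 164)) (XT.lf (nat_lit 0) (nat_lit 121972677886) (nat_lit 0) (nat_lit 0) (nat_lit 0) (nat_lit 0) (nat_lit 0) (nat_lit 0) (nat_lit 1) (nat_lit 0) (nat_lit 1) (nat_lit 0) (nat_lit 420) (nat_lit 437) (nat_lit 163)))))) (XT.nd (nat_lit 468) (nat_lit 0) (nat_lit 0) (XT.nd (nat_lit 234) (nat_lit 0) (nat_lit 0) (XT.nd (nat_lit 78) (nat_lit 0) (nat_lit 0) (XT.lf (nat_lit 0) (nat_lit 121972668804) (nat_lit 0) (nat_lit 0) (nat_lit 0) (nat_lit 0) (nat_lit 0) (nat_lit 0) (nat_lit 1) (nat_lit 0) (nat_lit 1) (nat_lit 0) (nat_lit 421) (nat_lit 437) (nat_lit 162)) (XT.nd (nat_lit 78) (nat_lit 0) (nat_lit 0) (XT.lf (nat_lit 0) (nat_lit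 121972660154) (nat_lit 0) (nat_lit 0) (nat_lit 0) (nat_lit 0) (nat_lit 0) (nat_lit 0) (nat_lit 1) (nat_lit 0) (nat_lit 1) (nat_lit 0) (nat_lit 422) (nat_lit 437) (nat_lit 161)) (XT.lf (nat_lit 0) (nat_lit 121972651917) (nat_lit 0) (nat_lit 0) (nat_lit 0) (nat_lit 0) (nat_lit 0) (nat_lit 0) (nat_lit 1) (nat_lit 0) (nat_lit 1) (nat_lit 0) (nat_lit 423) (nat_lit 437) (nat_lit 160)))) (XT.nd (nat_lit 78) (nat_lit 0) (nat_lit 0) (XT.lf (nat_lit 0) (nat_lit 121972644072) (nat_lit 0) (nat_lit 0) (nat_lit 0) (nat_lit 0) (nat_lit 0) (nat_lit 0) (nat_lit 1) (nat_lit 0) (nat_lit 1) (nat_lit 0) (nat_lit 424) (nat_lit 437) (nat_lit 159)) (XT.nd (nat_lit 78) (nat_lit 0) (nat_lit 0) (XT.lf (nat_lit 0) (nat_lit 121972636600) (nat_lit 0) (nat_lit 0) (nat_lit 0) (nat_lit 0) (nat_lit 0) (nat_lit 0) (nat_lit 1) (nat_lit 0) (nat_lit 1) (nat_lit 0) (nat_lit 425) (nat_lit 437) (nat_lit 158)) (XT.lf (nat_lit 0) (nat_lit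 121972629484) (nat_lit 0) (nat_lit 0) (nat_lit 0) (nat_lit 0) (nat_lit 0) (nat_lit 0) (nat_lit 1) (nat_lit 0) (nat_lit 1) (nat_lit 0) (nat_lit 426) (nat_lit 437) (nat_lit 157))))) (XT.nd (nat_lit 234) (nat_lit 0) (nat_lit 0) (XT.nd (nat_lit 78) (nat_lit 0) (nat_lit 0) (XT.lf (nat_lit 0) (nat_lit 121972622707) (nat_lit 0) (nat_lit 0) (nat_lit 0) (nat_lit 0) (nat_lit 0) (nat_lit 0) (nat_lit 1) (nat_lit 0) (nat_lit 1) (nat_lit 0) (nat_lit 427) (nat_lit 437) (nat_lit 156)) (XT.nd (nat_lit 78) (nat_lit 0) (nat_lit 0) (XT.lf (nat_lit 0) (nat_lit 121972616253) (nat_lit 0) (nat_lit 0) (nat_lit 0) (nat_lit 0) (nat_lit 0) (nat_lit 0) (nat_lit 1) (nat_lit 0) (nat_lit 1) (nat_lit 0) (nat_lit 428) (nat_lit 437) (nat_lit 155)) (XT.lf (nat_lit 0) (nat_lit 121972610106) (nat_lit 0) (nat_lit 0) (nat_lit 0) (nat_lit 0) (nat_lit 0) (nat_lit 0) (nat_lit 1) (nat_lit 0) (nat_lit 1) (nat_lit 0) (nat_lit 429) (nat_lit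 437) (nat_lit 154)))) (XT.nd (nat_lit 156) (nat_lit 0) (nat_lit 0) (XT.nd (nat_lit 78) (nat_lit 0) (nat_lit 0) (XT.lf (nat_lit 0) (nat_lit 121972604251) (nat_lit 0) (nat_lit 0) (nat_lit 0) (nat_lit 0) (nat_lit 0) (nat_lit 0) (nat_lit 1) (nat_lit 0) (nat_lit 1) (nat_lit 0) (nat_lit 430) (nat_lit 437) (nat_lit 153)) (XT.lf (nat_lit 0) (nat_lit 121972598676) (nat_lit 0) (nat_lit 0) (nat_lit 0) (nat_lit 0) (nat_lit 0) (nat_lit 0) (nat_lit 1) (nat_lit 0) (nat_lit 1) (nat_lit 0) (nat_lit 431) (nat_lit 437) (nat_lit 152))) (XT.nd (nat_lit 78) (nat_lit 0) (nat_lit 0) (XT.lf (nat_lit 0) (nat_lit 121972593366) (nat_lit 0) (nat_lit 0) (nat_lit 0) (nat_lit 0) (nat_lit 0) (nat_lit 0) (nat_lit 1) (nat_lit 0) (nat_lit 1) (nat_lit 0) (nat_lit 432) (nat_lit 437) (nat_lit 151)) (XT.lf (nat_lit 0) (nat_lit 121972588309) (nat_lit 0) (nat_lit 0) (nat_lit 0) (nat_lit 0) (nat_lit 0) (nat_lit 0) (nat_lit 1) (nat_lit 0)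 (nat_lit 1) (nat_lit 0) (nat_lit 433) (nat_lit 437) (nat_lit 150))))))))
noncomputable def ec450 : XT := (XT.nd (nat_lit 32682) (nat_lit 0) (nat_lit 15504) (XT.nd (nat_lit 31668) (nat_lit 0) (nat_lit 18620) (XT.nd (nat_lit 31200) (nat_lit 0) (nat_lit 20900) (XT.nd (nat_lit 234) (nat_lit 0) (nat_lit 0) (XT.nd (nat_lit 78) (nat_lit 0) (nat_lit 0) (XT.lf (nat_lit 0) (nat_lit 121972583493) (nat_lit 0) (nat_lit 0) (nat_lit 0) (nat_lit 0) (nat_lit 0) (nat_lit 0) (nat_lit 1) (nat_lit 0) (nat_lit 1) (nat_lit 0) (nat_lit 434) (nat_lit 437) (nat_lit 149)) (XT.nd (nat_lit 78) (nat_lit 0) (nat_lit 0) (XT.lf (nat_lit 0) (nat_lit 121972578906) (nat_lit 0) (nat_lit 0) (nat_lit 0) (nat_lit 0) (nat_lit 0) (nat_lit 0) (nat_lit 1) (nat_lit 0) (nat_lit 1) (nat_lit 0) (nat_lit 435) (nat_lit 437) (nat_lit 148)) (XT.lf (nat_lit 0) (nat_lit 121972574537) (nat_lit 0) (nat_lit 0) (nat_lit 0) (nat_lit 0) (nat_lit 0) (nat_lit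 0) (nat_lit 1) (nat_lit 0) (nat_lit 1) (nat_lit 0) (nat_lit 436) (nat_lit 437) (nat_lit 147)))) (XT.nd (nat_lit 30810) (nat_lit 0) (nat_lit 22420) (XT.lf (nat_lit 0) (nat_lit 121972570377) (nat_lit 0) (nat_lit 0) (nat_lit 0) (nat_lit 0) (nat_lit 0) (nat_lit 0) (nat_lit 1) (nat_lit 0) (nat_lit 1) (nat_lit 0) (nat_lit 437) (nat_lit 437) (nat_lit 146)) (XT.nd (nat_lit 78) (nat_lit 0) (nat_lit 76) (XT.lf (nat_lit 836) (nat_lit 135523449707) (nat_lit 76) (nat_lit 137217355696) (nat_lit 0) (nat_lit 137217355696) (nat_lit 306) (nat_lit 1) (nat_lit 296) (nat_lit 1) (nat_lit 295) (nat_lit 1) (nat_lit 151) (nat_lit 438) (nat_lit 431)) (XT.lf (nat_lit 836) (nat_lit 54405606302) (nat_lit 0) (nat_lit 291892508384) (nat_lit 760) (nat_lit 54405606302) (nat_lit 307) (nat_lit 1) (nat_lit 296) (nat_lit 1) (nat_lit 306) (nat_lit 1) (nat_lit 152) (nat_lit 438) (nat_lit 430))))) (XT.nd (nat_lit 234) (nat_lit 912) (nat_lit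 0) (XT.nd (nat_lit 78) (nat_lit 684) (nat_lit 0) (XT.lf (nat_lit 836) (nat_lit 78663043109) (nat_lit 76) (nat_lit 156501368799) (nat_lit 0) (nat_lit 156501368799) (nat_lit 307) (nat_lit 1) (nat_lit 297) (nat_lit 1) (nat_lit 296) (nat_lit 1) (nat_lit 153) (nat_lit 438) (nat_lit 429)) (XT.nd (nat_lit 78) (nat_lit 760) (nat_lit 0) (XT.lf (nat_lit 76) (nat_lit 24330471324) (nat_lit 0) (nat_lit 334335868360) (nat_lit 760) (nat_lit 24330471324) (nat_lit 298) (nat_lit 1) (nat_lit 297) (nat_lit 1) (nat_lit 307) (nat_lit 1) (nat_lit 154) (nat_lit 438) (nat_lit 428)) (XT.lf (nat_lit 836) (nat_lit 14694999633) (nat_lit 0) (nat_lit 179894431688) (nat_lit 760) (nat_lit 179894431688) (nat_lit 298) (nat_lit 1) (nat_lit 287) (nat_lit 1) (nat_lit 297) (nat_lit 1) (nat_lit 155) (nat_lit 438) (nat_lit 427)))) (XT.nd (nat_lit 78) (nat_lit 380) (nat_lit 0) (XT.lf (nat_lit 532) (nat_lit 348730847709) (nat_lit 0) (nat_lit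 8802899746) (nat_lit 456) (nat_lit 8802899746) (nat_lit 287) (nat_lit 1) (nat_lit 280) (nat_lit 1) (nat_lit 286) (nat_lit 1) (nat_lit 156) (nat_lit 438) (nat_lit 426)) (XT.nd (nat_lit 78) (nat_lit 380) (nat_lit 0) (XT.lf (nat_lit 76) (nat_lit 152464519673) (nat_lit 0) (nat_lit 53365196169) (nat_lit 532) (nat_lit 152464519673) (nat_lit 281) (nat_lit 1) (nat_lit 280) (nat_lit 1) (nat_lit 287) (nat_lit 1) (nat_lit 157) (nat_lit 438) (nat_lit 425)) (XT.lf (nat_lit 456) (nat_lit 262352302413) (nat_lit 0) (nat_lit 44120753154) (nat_lit 380) (nat_lit 44120753154) (nat_lit 281) (nat_lit 1) (nat_lit 275) (nat_lit 1) (nat_lit 280) (nat_lit 1) (nat_lit 158) (nat_lit 438) (nat_lit 424)))))) (XT.nd (nat_lit 468) (nat_lit 1216) (nat_lit 0) (XT.nd (nat_lit 234) (nat_lit 684) (nat_lit 0) (XT.nd (nat_lit 78) (nat_lit 380) (nat_lit 0) (XT.lf (nat_lit 76) (nat_lit 108751085863) (nat_lit 0) (nat_lit 125553094457)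 (nat_lit 456) (nat_lit 108751085863) (nat_lit 276) (nat_lit 1) (nat_lit 275) (nat_lit 1) (nat_lit 281) (nat_lit 1) (nat_lit 159) (nat_lit 438) (nat_lit 423)) (XT.nd (nat_lit 78) (nat_lit 0) (nat_lit 0) (XT.lf (nat_lit 456) (nat_lit 172762711637) (nat_lit 0) (nat_lit 81508279638) (nat_lit 380) (nat_lit 81508279638) (nat_lit 276) (nat_lit 1) (nat_lit 270) (nat_lit 1) (nat_lit 275) (nat_lit 1) (nat_lit 160) (nat_lit 438) (nat_lit 422)) (XT.lf (nat_lit 76) (nat_lit 63660763214) (nat_lit 0) (nat_lit 201393359675) (nat_lit 456) (nat_lit 63660763214) (nat_lit 271) (nat_lit 1) (nat_lit 270) (nat_lit 1) (nat_lit 276) (nat_lit 1) (nat_lit 161) (nat_lit 438) (nat_lit 421)))) (XT.nd (nat_lit 78) (nat_lit 380) (nat_lit 0) (XT.lf (nat_lit 380) (nat_lit 80795927186) (nat_lit 0) (nat_lit 120518146691) (nat_lit 304) (nat_lit 120518146691) (nat_lit 271) (nat_lit 1) (nat_lit 266) (nat_lit 1) (nat_lit 270) (nat_lit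 1) (nat_lit 162) (nat_lit 438) (nat_lit 420)) (XT.nd (nat_lit 78) (nat_lit 380) (nat_lit 0) (XT.lf (nat_lit 76) (nat_lit 17580654637) (nat_lit 0) (nat_lit 280052919197) (nat_lit 380) (nat_lit 17580654637) (nat_lit 267) (nat_lit 1) (nat_lit 266) (nat_lit 1) (nat_lit 271) (nat_lit 1) (nat_lit 163) (nat_lit 438) (nat_lit 419)) (XT.lf (nat_lit 76) (nat_lit 148139647775) (nat_lit 0) (nat_lit 12406983264) (nat_lit 380) (nat_lit 148139647775) (nat_lit 262) (nat_lit 1) (nat_lit 261) (nat_lit 1) (nat_lit 266) (nat_lit 1) (nat_lit 164) (nat_lit 438) (nat_lit 418))))) (XT.nd (nat_lit 234) (nat_lit 608) (nat_lit 0) (XT.nd (nat_lit 78) (nat_lit 304) (nat_lit 0) (XT.lf (nat_lit 380) (nat_lit 245046339287) (nat_lit 0) (nat_lit 28680295098) (nat_lit 304) (nat_lit 28680295098) (nat_lit 262) (nat_lit 1) (nat_lit 257) (nat_lit 1) (nat_lit 261) (nat_lit 1) (nat_lit 165) (nat_lit 438) (nat_lit 417)) (XT.nd (nat_lit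 78) (nat_lit 304) (nat_lit 0) (XT.lf (nat_lit 76) (nat_lit 96117947252) (nat_lit 0) (nat_lit 103999409279) (nat_lit 380) (nat_lit 96117947252) (nat_lit 258) (nat_lit 1) (nat_lit 257) (nat_lit 1) (nat_lit 262) (nat_lit 1) (nat_lit 166) (nat_lit 438) (nat_lit 416)) (XT.lf (nat_lit 380) (nat_lit 140262822978) (nat_lit 0) (nat_lit 75007432692) (nat_lit 304) (nat_lit 75007432692) (nat_lit 258) (nat_lit 1) (nat_lit 253) (nat_lit 1) (nat_lit 257) (nat_lit 1) (nat_lit 167) (nat_lit 438) (nat_lit 415)))) (XT.nd (nat_lit 156) (nat_lit 380) (nat_lit 0) (XT.nd (nat_lit 78) (nat_lit 228) (nat_lit 0) (XT.lf (nat_lit 76) (nat_lit 44232634540) (nat_lit 0) (nat_lit 196029005045) (nat_lit 380) (nat_lit 44232634540) (nat_lit 254) (nat_lit 1) (nat_lit 253) (nat_lit 1) (nat_lit 258) (nat_lit 1) (nat_lit 168) (nat_lit 438) (nat_lit 414)) (XT.lf (nat_lit 304) (nat_lit 35972507222) (nat_lit 0) (nat_lit 121431596717) (nat_lit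 228) (nat_lit 121431596717) (nat_lit 254) (nat_lit 1) (nat_lit 250) (nat_lit 1) (nat_lit 253) (nat_lit 1) (nat_lit 169) (nat_lit 438) (nat_lit 413))) (XT.nd (nat_lit 78) (nat_lit 0) (nat_lit 0) (XT.lf (nat_lit 380) (nat_lit 259020835195) (nat_lit 0) (nat_lit 7187331169) (nat_lit 304) (nat_lit 7187331169) (nat_lit 250) (nat_lit 1) (nat_lit 245) (nat_lit 1) (nat_lit 249) (nat_lit 1) (nat_lit 170) (nat_lit 438) (nat_lit 412)) (XT.lf (nat_lit 76) (nat_lit 101356767720) (nat_lit 0) (nat_lit 65271869843) (nat_lit 380) (nat_lit 101356767720) (nat_lit 246) (nat_lit 1) (nat_lit 245) (nat_lit 1) (nat_lit 250) (nat_lit 1) (nat_lit 171) (nat_lit 438) (nat_lit 411))))))) (XT.nd (nat_lit 936) (nat_lit 1520) (nat_lit 0) (XT.nd (nat_lit 468) (nat_lit 608) (nat_lit 0) (XT.nd (nat_lit 234) (nat_lit 532) (nat_lit 0) (XT.nd (nat_lit 78) (nat_lit 228) (nat_lit 0) (XT.lf (nat_lit 304) (nat_lit 148034763580) (nat_lit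 0) (nat_lit 57374020444) (nat_lit 228) (nat_lit 57374020444) (nat_lit 246) (nat_lit 1) (nat_lit 242) (nat_lit 1) (nat_lit 245) (nat_lit 1) (nat_lit 172) (nat_lit 438) (nat_lit 410)) (XT.nd (nat_lit 78) (nat_lit 228) (nat_lit 0) (XT.lf (nat_lit 76) (nat_lit 46766471678) (nat_lit 0) (nat_lit 164179441315) (nat_lit 304) (nat_lit 46766471678) (nat_lit 243) (nat_lit 1) (nat_lit 242) (nat_lit 1) (nat_lit 246) (nat_lit 1) (nat_lit 173) (nat_lit 438) (nat_lit 409)) (XT.lf (nat_lit 304) (nat_lit 38978392402) (nat_lit 0) (nat_lit 106889461578) (nat_lit 228) (nat_lit 106889461578) (nat_lit 243) (nat_lit 1) (nat_lit 239) (nat_lit 1) (nat_lit 242) (nat_lit 1) (nat_lit 174) (nat_lit 438) (nat_lit 408)))) (XT.nd (nat_lit 78) (nat_lit 228) (nat_lit 0) (XT.lf (nat_lit 304) (nat_lit 234588654794) (nat_lit 0) (nat_lit 6698839377) (nat_lit 228) (nat_lit 6698839377) (nat_lit 239) (nat_lit 1) (nat_lit 235) (nat_lit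 1) (nat_lit 238) (nat_lit 1) (nat_lit 175) (nat_lit 438) (nat_lit 407)) (XT.nd (nat_lit 78) (nat_lit 228) (nat_lit 0) (XT.lf (nat_lit 76) (nat_lit 88738169912) (nat_lit 0) (nat_lit 65754092875) (nat_lit 304) (nat_lit 88738169912) (nat_lit 236) (nat_lit 1) (nat_lit 235) (nat_lit 1) (nat_lit 239) (nat_lit 1) (nat_lit 176) (nat_lit 438) (nat_lit 406)) (XT.lf (nat_lit 304) (nat_lit 122023109018) (nat_lit 0) (nat_lit 58313695964) (nat_lit 228) (nat_lit 58313695964) (nat_lit 236) (nat_lit 1) (nat_lit 232) (nat_lit 1) (nat_lit 235) (nat_lit 1) (nat_lit 177) (nat_lit 438) (nat_lit 405))))) (XT.nd (nat_lit 234) (nat_lit 152) (nat_lit 0) (XT.nd (nat_lit 78) (nat_lit 456) (nat_lit 0) (XT.lf (nat_lit 76) (nat_lit 33605064706) (nat_lit 0) (nat_lit 166983275635) (nat_lit 304) (nat_lit 33605064706) (nat_lit 233) (nat_lit 1) (nat_lit 232) (nat_lit 1) (nat_lit 236) (nat_lit 1) (nat_lit 178) (nat_lit 438) (nat_lit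 404)) (XT.nd (nat_lit 78) (nat_lit 304) (nat_lit 0) (XT.lf (nat_lit 228) (nat_lit 12314013054) (nat_lit 0) (nat_lit 108753143695) (nat_lit 152) (nat_lit 108753143695) (nat_lit 233) (nat_lit 1) (nat_lit 230) (nat_lit 1) (nat_lit 232) (nat_lit 1) (nat_lit 179) (nat_lit 438) (nat_lit 403)) (XT.lf (nat_lit 304) (nat_lit 186060608176) (nat_lit 0) (nat_lit 19760985218) (nat_lit 228) (nat_lit 19760985218) (nat_lit 230) (nat_lit 1) (nat_lit 226) (nat_lit 1) (nat_lit 229) (nat_lit 1) (nat_lit 180) (nat_lit 438) (nat_lit 402)))) (XT.nd (nat_lit 78) (nat_lit 152) (nat_lit 0) (XT.lf (nat_lit 76) (nat_lit 64986553890) (nat_lit 0) (nat_lit 91419143842) (nat_lit 304) (nat_lit 64986553890) (nat_lit 227) (nat_lit 1) (nat_lit 226) (nat_lit 1) (nat_lit 230) (nat_lit 1) (nat_lit 181) (nat_lit 438) (nat_lit 401)) (XT.nd (nat_lit 78) (nat_lit 0) (nat_lit 0) (XT.lf (nat_lit 228) (nat_lit 75081938416) (nat_lit 0) (nat_lit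 71124655600) (nat_lit 152) (nat_lit 71124655600) (nat_lit 227) (nat_lit 1) (nat_lit 224) (nat_lit 1) (nat_lit 226) (nat_lit 1) (nat_lit 182) (nat_lit 438) (nat_lit 400)) (XT.lf (nat_lit 76) (nat_lit 10786891405) (nat_lit 0) (nat_lit 191831233873) (nat_lit 228) (nat_lit 10786891405) (nat_lit 225) (nat_lit 1) (nat_lit 224) (nat_lit 1) (nat_lit 227) (nat_lit 1) (nat_lit 183) (nat_lit 438) (nat_lit 399)))))) (XT.nd (nat_lit 468) (nat_lit 760) (nat_lit 0) (XT.nd (nat_lit 234) (nat_lit 380) (nat_lit 0) (XT.nd (nat_lit 78) (nat_lit 152) (nat_lit 0) (XT.lf (nat_lit 76) (nat_lit 89026107276) (nat_lit 0) (nat_lit 31440841338) (nat_lit 228) (nat_lit 89026107276) (nat_lit 222) (nat_lit 1) (nat_lit 221) (nat_lit 1) (nat_lit 224) (nat_lit 1) (nat_lit 184) (nat_lit 438) (nat_lit 398)) (XT.nd (nat_lit 78) (nat_lit 0) (nat_lit 0) (XT.lf (nat_lit 228) (nat_lit 123628353120) (nat_lit 0) (nat_lit 41041263647) (nat_lit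 152) (nat_lit 41041263647) (nat_lit 222) (nat_lit 1) (nat_lit 219) (nat_lit 1) (nat_lit 221) (nat_lit 1) (nat_lit 185) (nat_lit 438) (nat_lit 397)) (XT.lf (nat_lit 76) (nat_lit 34884704912) (nat_lit 0) (nat_lit 132242889457) (nat_lit 228) (nat_lit 34884704912) (nat_lit 220) (nat_lit 1) (nat_lit 219) (nat_lit 1) (nat_lit 222) (nat_lit 1) (nat_lit 186) (nat_lit 438) (nat_lit 396)))) (XT.nd (nat_lit 78) (nat_lit 228) (nat_lit 0) (XT.lf (nat_lit 228) (nat_lit 16342228284) (nat_lit 0) (nat_lit 91023021868) (nat_lit 152) (nat_lit 91023021868) (nat_lit 220) (nat_lit 1) (nat_lit 217) (nat_lit 1) (nat_lit 219) (nat_lit 1) (nat_lit 187) (nat_lit 438) (nat_lit 395)) (XT.nd (nat_lit 78) (nat_lit 0) (nat_lit 0) (XT.lf (nat_lit 228) (nat_lit 160621977374) (nat_lit 0) (nat_lit 17123638187) (nat_lit 152) (nat_lit 17123638187) (nat_lit 217) (nat_lit 1) (nat_lit 214) (nat_lit 1) (nat_lit 216) (nat_lit 1) (nat_lit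 188) (nat_lit 438) (nat_lit 394)) (XT.lf (nat_lit 76) (nat_lit 53471449880) (nat_lit 0) (nat_lit 84437370152) (nat_lit 228) (nat_lit 53471449880) (nat_lit 215) (nat_lit 1) (nat_lit 214) (nat_lit 1) (nat_lit 217) (nat_lit 1) (nat_lit 189) (nat_lit 438) (nat_lit 393))))) (XT.nd (nat_lit 234) (nat_lit 456) (nat_lit 0) (XT.nd (nat_lit 78) (nat_lit 152) (nat_lit 0) (XT.lf (nat_lit 228) (nat_lit 54458075634) (nat_lit 0) (nat_lit 66767250239) (nat_lit 152) (nat_lit 66767250239) (nat_lit 215) (nat_lit 1) (nat_lit 212) (nat_lit 1) (nat_lit 214) (nat_lit 1) (nat_lit 190) (nat_lit 438) (nat_lit 392)) (XT.nd (nat_lit 78) (nat_lit 152) (nat_lit 0) (XT.lf (nat_lit 76) (nat_lit 1789886754) (nat_lit 0) (nat_lit 181143915399) (nat_lit 228) (nat_lit 1789886754) (nat_lit 213) (nat_lit 1) (nat_lit 212) (nat_lit 1) (nat_lit 215) (nat_lit 1) (nat_lit 191) (nat_lit 438) (nat_lit 391)) (XT.lf (nat_lit 76) (nat_lit 67583205402)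 (nat_lit 0) (nat_lit 46267612171) (nat_lit 152) (nat_lit 67583205402) (nat_lit 211) (nat_lit 1) (nat_lit 210) (nat_lit 1) (nat_lit 212) (nat_lit 1) (nat_lit 192) (nat_lit 438) (nat_lit 390)))) (XT.nd (nat_lit 156) (nat_lit 304) (nat_lit 0) (XT.nd (nat_lit 78) (nat_lit 0) (nat_lit 0) (XT.lf (nat_lit 228) (nat_lit 83863064055) (nat_lit 0) (nat_lit 47198519993) (nat_lit 152) (nat_lit 47198519993) (nat_lit 211) (nat_lit 1) (nat_lit 208) (nat_lit 1) (nat_lit 210) (nat_lit 1) (nat_lit 193) (nat_lit 438) (nat_lit 389)) (XT.lf (nat_lit 76) (nat_lit 16813964744) (nat_lit 0) (nat_lit 141543927744) (nat_lit 228) (nat_lit 16813964744) (nat_lit 209) (nat_lit 1) (nat_lit 208) (nat_lit 1) (nat_lit 211) (nat_lit 1) (nat_lit 194) (nat_lit 438) (nat_lit 388))) (XT.nd (nat_lit 78) (nat_lit 152) (nat_lit 0) (XT.lf (nat_lit 76) (nat_lit 78069547723) (nat_lit 0) (nat_lit 15969982638) (nat_lit 152) (nat_lit 78069547723)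 (nat_lit 207) (nat_lit 1) (nat_lit 206) (nat_lit 1) (nat_lit 208) (nat_lit 1) (nat_lit 195) (nat_lit 438) (nat_lit 387)) (XT.lf (nat_lit 228) (nat_lit 106194607921) (nat_lit 0) (nat_lit 31467423002) (nat_lit 152) (nat_lit 31467423002) (nat_lit 207) (nat_lit 1) (nat_lit 204) (nat_lit 1) (nat_lit 206) (nat_lit 1) (nat_lit 196) (nat_lit 438) (nat_lit 386))))))))
noncomputable def ec451 : XT := (XT.nd (nat_lit 1950) (nat_lit 1976) (nat_lit 0) (XT.nd (nat_lit 936) (nat_lit 988) (nat_lit 0) (XT.nd (nat_lit 468) (nat_lit 380) (nat_lit 0) (XT.nd (nat_lit 234) (nat_lit 304) (nat_lit 0) (XT.nd (nat_lit 78) (nat_lit 304) (nat_lit 0) (XT.lf (nat_lit 76) (nat_lit 28443767056) (nat_lit 0) (nat_lit 109321282745) (nat_lit 228) (nat_lit 28443767056) (nat_lit 205) (nat_lit 1) (nat_lit 204) (nat_lit 1) (nat_lit 207) (nat_lit 1) (nat_lit 197) (nat_lit 438) (nat_lit 385)) (XT.nd (nat_lit 78) (nat_lit 228) (nat_lit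 0) (XT.lf (nat_lit 152) (nat_lit 8165169705) (nat_lit 0) (nat_lit 77589061961) (nat_lit 76) (nat_lit 77589061961) (nat_lit 205) (nat_lit 1) (nat_lit 203) (nat_lit 1) (nat_lit 204) (nat_lit 1) (nat_lit 198) (nat_lit 438) (nat_lit 384)) (XT.lf (nat_lit 228) (nat_lit 122795383488) (nat_lit 0) (nat_lit 18876025633) (nat_lit 152) (nat_lit 18876025633) (nat_lit 203) (nat_lit 1) (nat_lit 200) (nat_lit 1) (nat_lit 202) (nat_lit 1) (nat_lit 199) (nat_lit 438) (nat_lit 383)))) (XT.nd (nat_lit 78) (nat_lit 304) (nat_lit 0) (XT.lf (nat_lit 76) (nat_lit 37315878169) (nat_lit 0) (nat_lit 83151026145) (nat_lit 228) (nat_lit 37315878169) (nat_lit 201) (nat_lit 1) (nat_lit 200) (nat_lit 1) (nat_lit 203) (nat_lit 1) (nat_lit 200) (nat_lit 438) (nat_lit 382)) (XT.nd (nat_lit 78) (nat_lit 228) (nat_lit 0) (XT.lf (nat_lit 152) (nat_lit 27420489659) (nat_lit 0) (nat_lit 63832713292) (nat_lit 76) (nat_lit 63832713292)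 (nat_lit 201) (nat_lit 1) (nat_lit 199) (nat_lit 1) (nat_lit 200) (nat_lit 1) (nat_lit 201) (nat_lit 438) (nat_lit 381)) (XT.lf (nat_lit 228) (nat_lit 134765796120) (nat_lit 0) (nat_lit 8850970958) (nat_lit 152) (nat_lit 8850970958) (nat_lit 199) (nat_lit 1) (nat_lit 196) (nat_lit 1) (nat_lit 198) (nat_lit 1) (nat_lit 202) (nat_lit 438) (nat_lit 380))))) (XT.nd (nat_lit 234) (nat_lit 76) (nat_lit 0) (XT.nd (nat_lit 78) (nat_lit 304) (nat_lit 0) (XT.lf (nat_lit 76) (nat_lit 43952361146) (nat_lit 0) (nat_lit 61943922879) (nat_lit 228) (nat_lit 43952361146) (nat_lit 197) (nat_lit 1) (nat_lit 196) (nat_lit 1) (nat_lit 199) (nat_lit 1) (nat_lit 203) (nat_lit 438) (nat_lit 379)) (XT.nd (nat_lit 78) (nat_lit 228) (nat_lit 0) (XT.lf (nat_lit 152) (nat_lit 42276032641) (nat_lit 0) (nat_lit 52515331198) (nat_lit 76) (nat_lit 52515331198) (nat_lit 197) (nat_lit 1) (nat_lit 195) (nat_lit 1) (nat_lit 196) (nat_lit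 1) (nat_lit 204) (nat_lit 438) (nat_lit 378)) (XT.lf (nat_lit 228) (nat_lit 143007135157) (nat_lit 0) (nat_lit 921351860) (nat_lit 152) (nat_lit 921351860) (nat_lit 195) (nat_lit 1) (nat_lit 192) (nat_lit 1) (nat_lit 194) (nat_lit 1) (nat_lit 205) (nat_lit 438) (nat_lit 377)))) (XT.nd (nat_lit 78) (nat_lit 76) (nat_lit 0) (XT.lf (nat_lit 76) (nat_lit 48781140886) (nat_lit 0) (nat_lit 44804626164) (nat_lit 228) (nat_lit 48781140886) (nat_lit 193) (nat_lit 1) (nat_lit 192) (nat_lit 1) (nat_lit 195) (nat_lit 1) (nat_lit 206) (nat_lit 438) (nat_lit 376)) (XT.nd (nat_lit 78) (nat_lit 0) (nat_lit 0) (XT.lf (nat_lit 152) (nat_lit 53558813763) (nat_lit 0) (nat_lit 43204492941) (nat_lit 76) (nat_lit 43204492941) (nat_lit 193) (nat_lit 1) (nat_lit 191) (nat_lit 1) (nat_lit 192) (nat_lit 1) (nat_lit 207) (nat_lit 438) (nat_lit 375)) (XT.lf (nat_lit 0) (nat_lit 5386367826) (nat_lit 0) (nat_lit 126868388795)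 (nat_lit 152) (nat_lit 5386367826) (nat_lit 191) (nat_lit 3) (nat_lit 191) (nat_lit 1) (nat_lit 193) (nat_lit 1) (nat_lit 208) (nat_lit 438) (nat_lit 374)))))) (XT.nd (nat_lit 468) (nat_lit 532) (nat_lit 0) (XT.nd (nat_lit 234) (nat_lit 228) (nat_lit 0) (XT.nd (nat_lit 78) (nat_lit 76) (nat_lit 0) (XT.lf (nat_lit 76) (nat_lit 52152769709) (nat_lit 0) (nat_lit 30997264935) (nat_lit 152) (nat_lit 52152769709) (nat_lit 190) (nat_lit 1) (nat_lit 189) (nat_lit 1) (nat_lit 191) (nat_lit 1) (nat_lit 209) (nat_lit 438) (nat_lit 373)) (XT.nd (nat_lit 78) (nat_lit 0) (nat_lit 0) (XT.lf (nat_lit 152) (nat_lit 61946984901) (nat_lit 0) (nat_lit 35544443264) (nat_lit 76) (nat_lit 35544443264) (nat_lit 190) (nat_lit 1) (nat_lit 188) (nat_lit 1) (nat_lit 189) (nat_lit 1) (nat_lit 210) (nat_lit 438) (nat_lit 372)) (XT.lf (nat_lit 0) (nat_lit 10294990033) (nat_lit 0) (nat_lit 110238549326) (nat_lit 152) (nat_lit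 10294990033) (nat_lit 188) (nat_lit 3) (nat_lit 188) (nat_lit 1) (nat_lit 190) (nat_lit 1) (nat_lit 211) (nat_lit 438) (nat_lit 371)))) (XT.nd (nat_lit 78) (nat_lit 76) (nat_lit 0) (XT.lf (nat_lit 76) (nat_lit 54354216877) (nat_lit 0) (nat_lit 19917134296) (nat_lit 152) (nat_lit 54354216877) (nat_lit 187) (nat_lit 1) (nat_lit 186) (nat_lit 1) (nat_lit 188) (nat_lit 1) (nat_lit 212) (nat_lit 438) (nat_lit 370)) (XT.nd (nat_lit 78) (nat_lit 0) (nat_lit 0) (XT.lf (nat_lit 152) (nat_lit 67996334232) (nat_lit 0) (nat_lit 29242501439) (nat_lit 76) (nat_lit 29242501439) (nat_lit 187) (nat_lit 1) (nat_lit 185) (nat_lit 1) (nat_lit 186) (nat_lit 1) (nat_lit 213) (nat_lit 438) (nat_lit 369)) (XT.lf (nat_lit 0) (nat_lit 14054106056) (nat_lit 0) (nat_lit 96277919626) (nat_lit 152) (nat_lit 14054106056) (nat_lit 185) (nat_lit 3) (nat_lit 185) (nat_lit 1) (nat_lit 187) (nat_lit 1) (nat_lit 214) (nat_lit 438)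 (nat_lit 368))))) (XT.nd (nat_lit 234) (nat_lit 304) (nat_lit 0) (XT.nd (nat_lit 78) (nat_lit 76) (nat_lit 0) (XT.lf (nat_lit 76) (nat_lit 55620209854) (nat_lit 0) (nat_lit 11067406839) (nat_lit 152) (nat_lit 55620209854) (nat_lit 184) (nat_lit 1) (nat_lit 183) (nat_lit 1) (nat_lit 185) (nat_lit 1) (nat_lit 215) (nat_lit 438) (nat_lit 367)) (XT.nd (nat_lit 78) (nat_lit 0) (nat_lit 0) (XT.lf (nat_lit 152) (nat_lit 72162082401) (nat_lit 0) (nat_lit 24057878303) (nat_lit 76) (nat_lit 24057878303) (nat_lit 184) (nat_lit 1) (nat_lit 182) (nat_lit 1) (nat_lit 183) (nat_lit 1) (nat_lit 216) (nat_lit 438) (nat_lit 366)) (XT.lf (nat_lit 0) (nat_lit 16880816669) (nat_lit 0) (nat_lit 84526551581) (nat_lit 152) (nat_lit 16880816669) (nat_lit 182) (nat_lit 3) (nat_lit 182) (nat_lit 1) (nat_lit 184) (nat_lit 1) (nat_lit 217) (nat_lit 438) (nat_lit 365)))) (XT.nd (nat_lit 156) (nat_lit 76) (nat_lit 0) (XT.nd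 (nat_lit 78) (nat_lit 76) (nat_lit 0) (XT.lf (nat_lit 76) (nat_lit 56142561548) (nat_lit 0) (nat_lit 4039974581) (nat_lit 152) (nat_lit 56142561548) (nat_lit 181) (nat_lit 1) (nat_lit 180) (nat_lit 1) (nat_lit 182) (nat_lit 1) (nat_lit 218) (nat_lit 438) (nat_lit 364)) (XT.lf (nat_lit 152) (nat_lit 74816809445) (nat_lit 0) (nat_lit 19792476018) (nat_lit 76) (nat_lit 19792476018) (nat_lit 181) (nat_lit 1) (nat_lit 179) (nat_lit 1) (nat_lit 180) (nat_lit 1) (nat_lit 219) (nat_lit 438) (nat_lit 363))) (XT.nd (nat_lit 78) (nat_lit 76) (nat_lit 0) (XT.lf (nat_lit 0) (nat_lit 18953098066) (nat_lit 0) (nat_lit 74605411587) (nat_lit 152) (nat_lit 18953098066) (nat_lit 179) (nat_lit 3) (nat_lit 179) (nat_lit 1) (nat_lit 181) (nat_lit 1) (nat_lit 220) (nat_lit 438) (nat_lit 362)) (XT.lf (nat_lit 76) (nat_lit 1549917983) (nat_lit 0) (nat_lit 54552121336) (nat_lit 76) (nat_lit 54552121336) (nat_lit 179) (nat_lit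 3) (nat_lit 178) (nat_lit 1) (nat_lit 179) (nat_lit 1) (nat_lit 221) (nat_lit 438) (nat_lit 361))))))) (XT.nd (nat_lit 1014) (nat_lit 912) (nat_lit 0) (XT.nd (nat_lit 468) (nat_lit 608) (nat_lit 0) (XT.nd (nat_lit 234) (nat_lit 228) (nat_lit 0) (XT.nd (nat_lit 78) (nat_lit 76) (nat_lit 0) (XT.lf (nat_lit 152) (nat_lit 76265198731) (nat_lit 0) (nat_lit 16283319002) (nat_lit 76) (nat_lit 16283319002) (nat_lit 178) (nat_lit 1) (nat_lit 176) (nat_lit 1) (nat_lit 177) (nat_lit 1) (nat_lit 222) (nat_lit 438) (nat_lit 360)) (XT.nd (nat_lit 78) (nat_lit 76) (nat_lit 0) (XT.lf (nat_lit 0) (nat_lit 20416768699) (nat_lit 0) (nat_lit 66202064760) (nat_lit 152) (nat_lit 20416768699) (nat_lit 176) (nat_lit 3) (nat_lit 176) (nat_lit 1) (nat_lit 178) (nat_lit 1) (nat_lit 223) (nat_lit 438) (nat_lit 359)) (XT.lf (nat_lit 76) (nat_lit 6021322795) (nat_lit 0) (nat_lit 49626366662) (nat_lit 76) (nat_lit 49626366662)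 (nat_lit 176) (nat_lit 3) (nat_lit 175) (nat_lit 1) (nat_lit 176) (nat_lit 1) (nat_lit 224) (nat_lit 438) (nat_lit 358)))) (XT.nd (nat_lit 78) (nat_lit 76) (nat_lit 0) (XT.lf (nat_lit 152) (nat_lit 76756162447) (nat_lit 0) (nat_lit 13396326841) (nat_lit 76) (nat_lit 13396326841) (nat_lit 175) (nat_lit 1) (nat_lit 173) (nat_lit 1) (nat_lit 174) (nat_lit 1) (nat_lit 225) (nat_lit 438) (nat_lit 357)) (XT.nd (nat_lit 78) (nat_lit 76) (nat_lit 0) (XT.lf (nat_lit 0) (nat_lit 21391219483) (nat_lit 0) (nat_lit 59058895862) (nat_lit 152) (nat_lit 21391219483) (nat_lit 173) (nat_lit 3) (nat_lit 173) (nat_lit 1) (nat_lit 175) (nat_lit 1) (nat_lit 226) (nat_lit 438) (nat_lit 356)) (XT.lf (nat_lit 76) (nat_lit 9473949006) (nat_lit 0) (nat_lit 45347926510) (nat_lit 76) (nat_lit 45347926510) (nat_lit 173) (nat_lit 3) (nat_lit 172) (nat_lit 1) (nat_lit 173) (nat_lit 1) (nat_lit 227) (nat_lit 438) (nat_lit 355)))))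 (XT.nd (nat_lit 234) (nat_lit 380) (nat_lit 0) (XT.nd (nat_lit 78) (nat_lit 76) (nat_lit 0) (XT.lf (nat_lit 152) (nat_lit 76492813095) (nat_lit 0) (nat_lit 11021191245) (nat_lit 76) (nat_lit 11021191245) (nat_lit 172) (nat_lit 1) (nat_lit 170) (nat_lit 1) (nat_lit 171) (nat_lit 1) (nat_lit 228) (nat_lit 438) (nat_lit 354)) (XT.nd (nat_lit 78) (nat_lit 76) (nat_lit 0) (XT.lf (nat_lit 0) (nat_lit 21974126681) (nat_lit 0) (nat_lit 52963417258) (nat_lit 152) (nat_lit 21974126681) (nat_lit 170) (nat_lit 3) (nat_lit 170) (nat_lit 1) (nat_lit 172) (nat_lit 1) (nat_lit 229) (nat_lit 438) (nat_lit 353)) (XT.lf (nat_lit 76) (nat_lit 12099185905) (nat_lit 0) (nat_lit 41612795978) (nat_lit 76) (nat_lit 41612795978) (nat_lit 170) (nat_lit 3) (nat_lit 169) (nat_lit 1) (nat_lit 170) (nat_lit 1) (nat_lit 230) (nat_lit 438) (nat_lit 352)))) (XT.nd (nat_lit 156) (nat_lit 228) (nat_lit 0) (XT.nd (nat_lit 78) (nat_lit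 0) (nat_lit 0) (XT.lf (nat_lit 152) (nat_lit 75640663109) (nat_lit 0) (nat_lit 9067161312) (nat_lit 76) (nat_lit 9067161312) (nat_lit 169) (nat_lit 1) (nat_lit 167) (nat_lit 1) (nat_lit 168) (nat_lit 1) (nat_lit 231) (nat_lit 438) (nat_lit 351)) (XT.lf (nat_lit 0) (nat_lit 22245327901) (nat_lit 0) (nat_lit 47740293950) (nat_lit 152) (nat_lit 22245327901) (nat_lit 167) (nat_lit 3) (nat_lit 167) (nat_lit 1) (nat_lit 169) (nat_lit 1) (nat_lit 232) (nat_lit 438) (nat_lit 350))) (XT.nd (nat_lit 78) (nat_lit 152) (nat_lit 0) (XT.lf (nat_lit 76) (nat_lit 14053977436) (nat_lit 0) (nat_lit 38334897483) (nat_lit 76) (nat_lit 38334897483) (nat_lit 167) (nat_lit 3) (nat_lit 166) (nat_lit 1) (nat_lit 167) (nat_lit 1) (nat_lit 233) (nat_lit 438) (nat_lit 349)) (XT.lf (nat_lit 152) (nat_lit 74334366898) (nat_lit 0) (nat_lit 7459576051) (nat_lit 76) (nat_lit 7459576051) (nat_lit 166) (nat_lit 1) (nat_lit 164)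 (nat_lit 1) (nat_lit 165) (nat_lit 1) (nat_lit 234) (nat_lit 438) (nat_lit 348)))))) (XT.nd (nat_lit 468) (nat_lit 456) (nat_lit 0) (XT.nd (nat_lit 234) (nat_lit 228) (nat_lit 0) (XT.nd (nat_lit 78) (nat_lit 228) (nat_lit 0) (XT.lf (nat_lit 0) (nat_lit 22270009649) (nat_lit 0) (nat_lit 43244781312) (nat_lit 152) (nat_lit 22270009649) (nat_lit 164) (nat_lit 3) (nat_lit 164) (nat_lit 1) (nat_lit 166) (nat_lit 1) (nat_lit 235) (nat_lit 438) (nat_lit 347)) (XT.nd (nat_lit 78) (nat_lit 152) (nat_lit 0) (XT.lf (nat_lit 76) (nat_lit 15466953683) (nat_lit 0) (nat_lit 35442926695) (nat_lit 76) (nat_lit 35442926695) (nat_lit 164) (nat_lit 3) (nat_lit 163) (nat_lit 1) (nat_lit 164) (nat_lit 1) (nat_lit 236) (nat_lit 438) (nat_lit 346)) (XT.lf (nat_lit 152) (nat_lit 72683263955) (nat_lit 0) (nat_lit 6137011678) (nat_lit 76) (nat_lit 6137011678) (nat_lit 163) (nat_lit 1) (nat_lit 161) (nat_lit 1) (nat_lit 162)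 (nat_lit 1) (nat_lit 237) (nat_lit 438) (nat_lit 345)))) (XT.nd (nat_lit 78) (nat_lit 228) (nat_lit 0) (XT.lf (nat_lit 0) (nat_lit 22101328559) (nat_lit 0) (nat_lit 39357325114) (nat_lit 152) (nat_lit 22101328559) (nat_lit 161) (nat_lit 3) (nat_lit 161) (nat_lit 1) (nat_lit 163) (nat_lit 1) (nat_lit 238) (nat_lit 438) (nat_lit 344)) (XT.nd (nat_lit 78) (nat_lit 152) (nat_lit 0) (XT.lf (nat_lit 76) (nat_lit 16443474087) (nat_lit 0) (nat_lit 32877756521) (nat_lit 76) (nat_lit 32877756521) (nat_lit 161) (nat_lit 3) (nat_lit 160) (nat_lit 1) (nat_lit 161) (nat_lit 1) (nat_lit 239) (nat_lit 438) (nat_lit 343)) (XT.lf (nat_lit 152) (nat_lit 70775935747) (nat_lit 0) (nat_lit 5048934695) (nat_lit 76) (nat_lit 5048934695) (nat_lit 160) (nat_lit 1) (nat_lit 158) (nat_lit 1) (nat_lit 159) (nat_lit 1) (nat_lit 240) (nat_lit 438) (nat_lit 342))))) (XT.nd (nat_lit 234) (nat_lit 228) (nat_lit 0) (XT.nd (nat_lit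 78) (nat_lit 228) (nat_lit 0) (XT.lf (nat_lit 0) (nat_lit 21782566755) (nat_lit 0) (nat_lit 35979117827) (nat_lit 152) (nat_lit 21782566755) (nat_lit 158) (nat_lit 3) (nat_lit 158) (nat_lit 1) (nat_lit 160) (nat_lit 1) (nat_lit 241) (nat_lit 438) (nat_lit 341)) (XT.nd (nat_lit 78) (nat_lit 152) (nat_lit 0) (XT.lf (nat_lit 76) (nat_lit 17069775411) (nat_lit 0) (nat_lit 30590300241) (nat_lit 76) (nat_lit 30590300241) (nat_lit 158) (nat_lit 3) (nat_lit 157) (nat_lit 1) (nat_lit 158) (nat_lit 1) (nat_lit 242) (nat_lit 438) (nat_lit 340)) (XT.lf (nat_lit 152) (nat_lit 68683951414) (nat_lit 0) (nat_lit 4153771069) (nat_lit 76) (nat_lit 4153771069) (nat_lit 157) (nat_lit 1) (nat_lit 155) (nat_lit 1) (nat_lit 156) (nat_lit 1) (nat_lit 243) (nat_lit 438) (nat_lit 339)))) (XT.nd (nat_lit 156) (nat_lit 152) (nat_lit 0) (XT.nd (nat_lit 78) (nat_lit 76) (nat_lit 0) (XT.lf (nat_lit 0) (nat_lit 21348904009) (nat_lit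 0) (nat_lit 33028441709) (nat_lit 152) (nat_lit 21348904009) (nat_lit 155) (nat_lit 3) (nat_lit 155) (nat_lit 1) (nat_lit 157) (nat_lit 1) (nat_lit 244) (nat_lit 438) (nat_lit 338)) (XT.lf (nat_lit 76) (nat_lit 17416383223) (nat_lit 0) (nat_lit 28539752461) (nat_lit 76) (nat_lit 28539752461) (nat_lit 155) (nat_lit 3) (nat_lit 154) (nat_lit 1) (nat_lit 155) (nat_lit 1) (nat_lit 245) (nat_lit 438) (nat_lit 337))) (XT.nd (nat_lit 78) (nat_lit 0) (nat_lit 0) (XT.lf (nat_lit 152) (nat_lit 66464946254) (nat_lit 0) (nat_lit 3417317738) (nat_lit 76) (nat_lit 3417317738) (nat_lit 154) (nat_lit 1) (nat_lit 152) (nat_lit 1) (nat_lit 153) (nat_lit 1) (nat_lit 246) (nat_lit 438) (nat_lit 336)) (XT.lf (nat_lit 0) (nat_lit 20828874670) (nat_lit 0) (nat_lit 30437659240) (nat_lit 152) (nat_lit 20828874670) (nat_lit 152) (nat_lit 3) (nat_lit 152) (nat_lit 1) (nat_lit 154) (nat_lit 1) (nat_lit 247) (nat_lit 438)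 (nat_lit 335))))))))
noncomputable def ec452 : XT := (XT.nd (nat_lit 1950) (nat_lit 1976) (nat_lit 0) (XT.nd (nat_lit 936) (nat_lit 988) (nat_lit 0) (XT.nd (nat_lit 468) (nat_lit 456) (nat_lit 0) (XT.nd (nat_lit 234) (nat_lit 228) (nat_lit 0) (XT.nd (nat_lit 78) (nat_lit 152) (nat_lit 0) (XT.lf (nat_lit 76) (nat_lit 17540917530) (nat_lit 0) (nat_lit 26692140930) (nat_lit 76) (nat_lit 26692140930) (nat_lit 152) (nat_lit 3) (nat_lit 151) (nat_lit 1) (nat_lit 152) (nat_lit 1) (nat_lit 248) (nat_lit 438) (nat_lit 334)) (XT.nd (nat_lit 78) (nat_lit 0) (nat_lit 0) (XT.lf (nat_lit 152) (nat_lit 64165151434) (nat_lit 0) (nat_lit 2811435760) (nat_lit 76) (nat_lit 2811435760) (nat_lit 151) (nat_lit 1) (nat_lit 149) (nat_lit 1) (nat_lit 150) (nat_lit 1) (nat_lit 249) (nat_lit 438) (nat_lit 333)) (XT.lf (nat_lit 0) (nat_lit 20245565316) (nat_lit 0) (nat_lit 28150736162) (nat_lit 152) (nat_lit 20245565316)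 (nat_lit 149) (nat_lit 3) (nat_lit 149) (nat_lit 1) (nat_lit 151) (nat_lit 1) (nat_lit 250) (nat_lit 438) (nat_lit 332)))) (XT.nd (nat_lit 78) (nat_lit 152) (nat_lit 0) (XT.lf (nat_lit 76) (nat_lit 17490400024) (nat_lit 0) (nat_lit 25019134163) (nat_lit 76) (nat_lit 25019134163) (nat_lit 149) (nat_lit 3) (nat_lit 148) (nat_lit 1) (nat_lit 149) (nat_lit 1) (nat_lit 251) (nat_lit 438) (nat_lit 331)) (XT.nd (nat_lit 78) (nat_lit 0) (nat_lit 0) (XT.lf (nat_lit 152) (nat_lit 61821472369) (nat_lit 0) (nat_lit 2312975157) (nat_lit 76) (nat_lit 2312975157) (nat_lit 148) (nat_lit 1) (nat_lit 146) (nat_lit 1) (nat_lit 147) (nat_lit 1) (nat_lit 252) (nat_lit 438) (nat_lit 330)) (XT.lf (nat_lit 0) (nat_lit 19617599145) (nat_lit 0) (nat_lit 26121202763) (nat_lit 152) (nat_lit 19617599145) (nat_lit 146) (nat_lit 3) (nat_lit 146) (nat_lit 1) (nat_lit 148) (nat_lit 1) (nat_lit 253) (nat_lit 438) (nat_lit 329)))))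 (XT.nd (nat_lit 234) (nat_lit 228) (nat_lit 0) (XT.nd (nat_lit 78) (nat_lit 152) (nat_lit 0) (XT.lf (nat_lit 76) (nat_lit 17303151349) (nat_lit 0) (nat_lit 23497059557) (nat_lit 76) (nat_lit 23497059557) (nat_lit 146) (nat_lit 3) (nat_lit 145) (nat_lit 1) (nat_lit 146) (nat_lit 1) (nat_lit 254) (nat_lit 438) (nat_lit 328)) (XT.nd (nat_lit 78) (nat_lit 0) (nat_lit 0) (XT.lf (nat_lit 152) (nat_lit 59463195922) (nat_lit 0) (nat_lit 1902890386) (nat_lit 76) (nat_lit 1902890386) (nat_lit 145) (nat_lit 1) (nat_lit 143) (nat_lit 1) (nat_lit 144) (nat_lit 1) (nat_lit 255) (nat_lit 438) (nat_lit 327)) (XT.lf (nat_lit 0) (nat_lit 18959944942) (nat_lit 0) (nat_lit 24310475734) (nat_lit 152) (nat_lit 18959944942) (nat_lit 143) (nat_lit 3) (nat_lit 143) (nat_lit 1) (nat_lit 145) (nat_lit 1) (nat_lit 256) (nat_lit 438) (nat_lit 326)))) (XT.nd (nat_lit 78) (nat_lit 152) (nat_lit 0) (XT.lf (nat_lit 76) (nat_lit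 17010351117) (nat_lit 0) (nat_lit 22106094728) (nat_lit 76) (nat_lit 22106094728) (nat_lit 143) (nat_lit 3) (nat_lit 142) (nat_lit 1) (nat_lit 143) (nat_lit 1) (nat_lit 257) (nat_lit 438) (nat_lit 325)) (XT.nd (nat_lit 78) (nat_lit 0) (nat_lit 0) (XT.lf (nat_lit 152) (nat_lit 57113392357) (nat_lit 0) (nat_lit 1565512630) (nat_lit 76) (nat_lit 1565512630) (nat_lit 142) (nat_lit 1) (nat_lit 140) (nat_lit 1) (nat_lit 141) (nat_lit 1) (nat_lit 258) (nat_lit 438) (nat_lit 324)) (XT.lf (nat_lit 0) (nat_lit 18284581794) (nat_lit 0) (nat_lit 22686476718) (nat_lit 152) (nat_lit 18284581794) (nat_lit 140) (nat_lit 3) (nat_lit 140) (nat_lit 1) (nat_lit 142) (nat_lit 1) (nat_lit 259) (nat_lit 438) (nat_lit 323)))))) (XT.nd (nat_lit 468) (nat_lit 532) (nat_lit 0) (XT.nd (nat_lit 234) (nat_lit 228) (nat_lit 0) (XT.nd (nat_lit 78) (nat_lit 152) (nat_lit 0) (XT.lf (nat_lit 76) (nat_lit 16637320514) (nat_lit 0)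 (nat_lit 20829601394) (nat_lit 76) (nat_lit 20829601394) (nat_lit 140) (nat_lit 3) (nat_lit 139) (nat_lit 1) (nat_lit 140) (nat_lit 1) (nat_lit 260) (nat_lit 438) (nat_lit 322)) (XT.nd (nat_lit 78) (nat_lit 0) (nat_lit 0) (XT.lf (nat_lit 152) (nat_lit 54790066296) (nat_lit 0) (nat_lit 1287951115) (nat_lit 76) (nat_lit 1287951115) (nat_lit 139) (nat_lit 1) (nat_lit 137) (nat_lit 1) (nat_lit 138) (nat_lit 1) (nat_lit 261) (nat_lit 438) (nat_lit 321)) (XT.lf (nat_lit 0) (nat_lit 17601045139) (nat_lit 0) (nat_lit 21222494986) (nat_lit 152) (nat_lit 17601045139) (nat_lit 137) (nat_lit 3) (nat_lit 137) (nat_lit 1) (nat_lit 139) (nat_lit 1) (nat_lit 262) (nat_lit 438) (nat_lit 320)))) (XT.nd (nat_lit 78) (nat_lit 152) (nat_lit 0) (XT.lf (nat_lit 76) (nat_lit 16204576715) (nat_lit 0) (nat_lit 19653576570) (nat_lit 76) (nat_lit 19653576570) (nat_lit 137) (nat_lit 3) (nat_lit 136) (nat_lit 1) (nat_lit 137)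 (nat_lit 1) (nat_lit 263) (nat_lit 438) (nat_lit 319)) (XT.nd (nat_lit 78) (nat_lit 0) (nat_lit 0) (XT.lf (nat_lit 152) (nat_lit 52507101288) (nat_lit 0) (nat_lit 1059600569) (nat_lit 76) (nat_lit 1059600569) (nat_lit 136) (nat_lit 1) (nat_lit 134) (nat_lit 1) (nat_lit 135) (nat_lit 1) (nat_lit 264) (nat_lit 438) (nat_lit 318)) (XT.lf (nat_lit 0) (nat_lit 16916875248) (nat_lit 0) (nat_lit 19896251000) (nat_lit 152) (nat_lit 16916875248) (nat_lit 134) (nat_lit 3) (nat_lit 134) (nat_lit 1) (nat_lit 136) (nat_lit 1) (nat_lit 265) (nat_lit 438) (nat_lit 317))))) (XT.nd (nat_lit 234) (nat_lit 304) (nat_lit 0) (XT.nd (nat_lit 78) (nat_lit 152) (nat_lit 0) (XT.lf (nat_lit 76) (nat_lit 15728699609) (nat_lit 0) (nat_lit 18566200326) (nat_lit 76) (nat_lit 18566200326) (nat_lit 134) (nat_lit 3) (nat_lit 133) (nat_lit 1) (nat_lit 134) (nat_lit 1) (nat_lit 266) (nat_lit 438) (nat_lit 316)) (XT.nd (nat_lit 78)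 (nat_lit 0) (nat_lit 0) (XT.lf (nat_lit 152) (nat_lit 50275034700) (nat_lit 0) (nat_lit 871736011) (nat_lit 76) (nat_lit 871736011) (nat_lit 133) (nat_lit 1) (nat_lit 131) (nat_lit 1) (nat_lit 132) (nat_lit 1) (nat_lit 267) (nat_lit 438) (nat_lit 315)) (XT.lf (nat_lit 0) (nat_lit 16237985468) (nat_lit 0) (nat_lit 18689125273) (nat_lit 152) (nat_lit 16237985468) (nat_lit 131) (nat_lit 3) (nat_lit 131) (nat_lit 1) (nat_lit 133) (nat_lit 1) (nat_lit 268) (nat_lit 438) (nat_lit 314)))) (XT.nd (nat_lit 156) (nat_lit 76) (nat_lit 0) (XT.nd (nat_lit 78) (nat_lit 152) (nat_lit 0) (XT.lf (nat_lit 76) (nat_lit 15223044135) (nat_lit 0) (nat_lit 17557462996) (nat_lit 76) (nat_lit 17557462996) (nat_lit 131) (nat_lit 3) (nat_lit 130) (nat_lit 1) (nat_lit 131) (nat_lit 1) (nat_lit 269) (nat_lit 438) (nat_lit 313)) (XT.lf (nat_lit 152) (nat_lit 48101693112) (nat_lit 0) (nat_lit 717179373) (nat_lit 76) (nat_lit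 717179373) (nat_lit 130) (nat_lit 1) (nat_lit 128) (nat_lit 1) (nat_lit 129) (nat_lit 1) (nat_lit 270) (nat_lit 438) (nat_lit 312))) (XT.nd (nat_lit 78) (nat_lit 76) (nat_lit 0) (XT.lf (nat_lit 0) (nat_lit 15568964484) (nat_lit 0) (nat_lit 17585523267) (nat_lit 152) (nat_lit 15568964484) (nat_lit 128) (nat_lit 3) (nat_lit 128) (nat_lit 1) (nat_lit 130) (nat_lit 1) (nat_lit 271) (nat_lit 438) (nat_lit 311)) (XT.lf (nat_lit 76) (nat_lit 14698325646) (nat_lit 0) (nat_lit 16618857820) (nat_lit 76) (nat_lit 16618857820) (nat_lit 128) (nat_lit 3) (nat_lit 127) (nat_lit 1) (nat_lit 128) (nat_lit 1) (nat_lit 272) (nat_lit 438) (nat_lit 310))))))) (XT.nd (nat_lit 936) (nat_lit 1064) (nat_lit 0) (XT.nd (nat_lit 468) (nat_lit 456) (nat_lit 0) (XT.nd (nat_lit 234) (nat_lit 228) (nat_lit 0) (XT.nd (nat_lit 78) (nat_lit 76) (nat_lit 0) (XT.lf (nat_lit 152) (nat_lit 45992713055) (nat_lit 0) (nat_lit 590025245)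 (nat_lit 76) (nat_lit 590025245) (nat_lit 127) (nat_lit 1) (nat_lit 125) (nat_lit 1) (nat_lit 126) (nat_lit 1) (nat_lit 273) (nat_lit 438) (nat_lit 309)) (XT.nd (nat_lit 78) (nat_lit 76) (nat_lit 0) (XT.lf (nat_lit 0) (nat_lit 14913324329) (nat_lit 0) (nat_lit 16572352230) (nat_lit 152) (nat_lit 14913324329) (nat_lit 125) (nat_lit 3) (nat_lit 125) (nat_lit 1) (nat_lit 127) (nat_lit 1) (nat_lit 274) (nat_lit 438) (nat_lit 308)) (XT.lf (nat_lit 76) (nat_lit 14163100848) (nat_lit 0) (nat_lit 15743127421) (nat_lit 76) (nat_lit 15743127421) (nat_lit 125) (nat_lit 3) (nat_lit 124) (nat_lit 1) (nat_lit 125) (nat_lit 1) (nat_lit 275) (nat_lit 438) (nat_lit 307)))) (XT.nd (nat_lit 78) (nat_lit 76) (nat_lit 0) (XT.lf (nat_lit 152) (nat_lit 43951967509) (nat_lit 0) (nat_lit 485415229) (nat_lit 76) (nat_lit 485415229) (nat_lit 124) (nat_lit 1) (nat_lit 122) (nat_lit 1) (nat_lit 123) (nat_lit 1) (nat_lit 276)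 (nat_lit 438) (nat_lit 306)) (XT.nd (nat_lit 78) (nat_lit 76) (nat_lit 0) (XT.lf (nat_lit 0) (nat_lit 14273703802) (nat_lit 0) (nat_lit 15638590162) (nat_lit 152) (nat_lit 14273703802) (nat_lit 122) (nat_lit 3) (nat_lit 122) (nat_lit 1) (nat_lit 124) (nat_lit 1) (nat_lit 277) (nat_lit 438) (nat_lit 305)) (XT.lf (nat_lit 76) (nat_lit 13624162847) (nat_lit 0) (nat_lit 14924054618) (nat_lit 76) (nat_lit 14924054618) (nat_lit 122) (nat_lit 3) (nat_lit 121) (nat_lit 1) (nat_lit 122) (nat_lit 1) (nat_lit 278) (nat_lit 438) (nat_lit 304))))) (XT.nd (nat_lit 234) (nat_lit 228) (nat_lit 0) (XT.nd (nat_lit 78) (nat_lit 76) (nat_lit 0) (XT.lf (nat_lit 152) (nat_lit 41981914972) (nat_lit 0) (nat_lit 399352310) (nat_lit 76) (nat_lit 399352310) (nat_lit 121) (nat_lit 1) (nat_lit 119) (nat_lit 1) (nat_lit 120) (nat_lit 1) (nat_lit 279) (nat_lit 438) (nat_lit 303)) (XT.nd (nat_lit 78) (nat_lit 76) (nat_lit 0)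 (XT.lf (nat_lit 0) (nat_lit 13652035223) (nat_lit 0) (nat_lit 14774930609) (nat_lit 152) (nat_lit 13652035223) (nat_lit 119) (nat_lit 3) (nat_lit 119) (nat_lit 1) (nat_lit 121) (nat_lit 1) (nat_lit 280) (nat_lit 438) (nat_lit 302)) (XT.lf (nat_lit 76) (nat_lit 13086865565) (nat_lit 0) (nat_lit 14156289743) (nat_lit 76) (nat_lit 14156289743) (nat_lit 119) (nat_lit 3) (nat_lit 118) (nat_lit 1) (nat_lit 119) (nat_lit 1) (nat_lit 281) (nat_lit 438) (nat_lit 301)))) (XT.nd (nat_lit 78) (nat_lit 76) (nat_lit 0) (XT.lf (nat_lit 152) (nat_lit 40083884896) (nat_lit 0) (nat_lit 328548134) (nat_lit 76) (nat_lit 328548134) (nat_lit 118) (nat_lit 1) (nat_lit 116) (nat_lit 1) (nat_lit 117) (nat_lit 1) (nat_lit 282) (nat_lit 438) (nat_lit 300)) (XT.nd (nat_lit 78) (nat_lit 76) (nat_lit 0) (XT.lf (nat_lit 0) (nat_lit 13049681050) (nat_lit 0) (nat_lit 13973489863) (nat_lit 152) (nat_lit 13049681050) (nat_lit 116)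 (nat_lit 3) (nat_lit 116) (nat_lit 1) (nat_lit 118) (nat_lit 1) (nat_lit 283) (nat_lit 438) (nat_lit 299)) (XT.lf (nat_lit 76) (nat_lit 12555390092) (nat_lit 0) (nat_lit 13435208009) (nat_lit 76) (nat_lit 13435208009) (nat_lit 116) (nat_lit 3) (nat_lit 115) (nat_lit 1) (nat_lit 116) (nat_lit 1) (nat_lit 284) (nat_lit 438) (nat_lit 298)))))) (XT.nd (nat_lit 468) (nat_lit 608) (nat_lit 0) (XT.nd (nat_lit 234) (nat_lit 228) (nat_lit 0) (XT.nd (nat_lit 78) (nat_lit 76) (nat_lit 0) (XT.lf (nat_lit 152) (nat_lit 38258310877) (nat_lit 0) (nat_lit 270297363) (nat_lit 76) (nat_lit 270297363) (nat_lit 115) (nat_lit 1) (nat_lit 113) (nat_lit 1) (nat_lit 114) (nat_lit 1) (nat_lit 285) (nat_lit 438) (nat_lit 297)) (XT.nd (nat_lit 78) (nat_lit 76) (nat_lit 0) (XT.lf (nat_lit 0) (nat_lit 12467545739) (nat_lit 0) (nat_lit 13227565536) (nat_lit 152) (nat_lit 12467545739) (nat_lit 113) (nat_lit 3) (nat_lit 113)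 (nat_lit 1) (nat_lit 115) (nat_lit 1) (nat_lit 286) (nat_lit 438) (nat_lit 296)) (XT.lf (nat_lit 76) (nat_lit 12032963266) (nat_lit 0) (nat_lit 12756791644) (nat_lit 76) (nat_lit 12756791644) (nat_lit 113) (nat_lit 3) (nat_lit 112) (nat_lit 1) (nat_lit 113) (nat_lit 1) (nat_lit 287) (nat_lit 438) (nat_lit 295)))) (XT.nd (nat_lit 78) (nat_lit 76) (nat_lit 0) (XT.lf (nat_lit 152) (nat_lit 36504920920) (nat_lit 0) (nat_lit 222374309) (nat_lit 76) (nat_lit 222374309) (nat_lit 112) (nat_lit 1) (nat_lit 110) (nat_lit 1) (nat_lit 111) (nat_lit 1) (nat_lit 288) (nat_lit 438) (nat_lit 294)) (XT.nd (nat_lit 78) (nat_lit 76) (nat_lit 0) (XT.lf (nat_lit 0) (nat_lit 11906167252) (nat_lit 0) (nat_lit 12531437420) (nat_lit 152) (nat_lit 11906167252) (nat_lit 110) (nat_lit 3) (nat_lit 110) (nat_lit 1) (nat_lit 112) (nat_lit 1) (nat_lit 289) (nat_lit 438) (nat_lit 293)) (XT.lf (nat_lit 76) (nat_lit 11522037006)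 (nat_lit 0) (nat_lit 12117532404) (nat_lit 76) (nat_lit 12117532404) (nat_lit 110) (nat_lit 3) (nat_lit 109) (nat_lit 1) (nat_lit 110) (nat_lit 1) (nat_lit 290) (nat_lit 438) (nat_lit 292))))) (XT.nd (nat_lit 234) (nat_lit 380) (nat_lit 0) (XT.nd (nat_lit 78) (nat_lit 76) (nat_lit 0) (XT.lf (nat_lit 152) (nat_lit 34822892478) (nat_lit 0) (nat_lit 182947894) (nat_lit 76) (nat_lit 182947894) (nat_lit 109) (nat_lit 1) (nat_lit 107) (nat_lit 1) (nat_lit 108) (nat_lit 1) (nat_lit 291) (nat_lit 438) (nat_lit 291)) (XT.nd (nat_lit 78) (nat_lit 76) (nat_lit 0) (XT.lf (nat_lit 0) (nat_lit 11365791852) (nat_lit 0) (nat_lit 11880203166) (nat_lit 152) (nat_lit 11365791852) (nat_lit 107) (nat_lit 3) (nat_lit 107) (nat_lit 1) (nat_lit 109) (nat_lit 1) (nat_lit 292) (nat_lit 438) (nat_lit 290)) (XT.lf (nat_lit 76) (nat_lit 11024435358) (nat_lit 0) (nat_lit 11514350896) (nat_lit 76) (nat_lit 11514350896) (nat_lit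 107) (nat_lit 3) (nat_lit 106) (nat_lit 1) (nat_lit 107) (nat_lit 1) (nat_lit 293) (nat_lit 438) (nat_lit 289)))) (XT.nd (nat_lit 156) (nat_lit 228) (nat_lit 0) (XT.nd (nat_lit 78) (nat_lit 0) (nat_lit 0) (XT.lf (nat_lit 152) (nat_lit 33210978578) (nat_lit 0) (nat_lit 150511685) (nat_lit 76) (nat_lit 150511685) (nat_lit 106) (nat_lit 1) (nat_lit 104) (nat_lit 1) (nat_lit 105) (nat_lit 1) (nat_lit 294) (nat_lit 438) (nat_lit 288)) (XT.lf (nat_lit 0) (nat_lit 10846435169) (nat_lit 0) (nat_lit 11269642630) (nat_lit 152) (nat_lit 10846435169) (nat_lit 104) (nat_lit 3) (nat_lit 104) (nat_lit 1) (nat_lit 106) (nat_lit 1) (nat_lit 295) (nat_lit 438) (nat_lit 287))) (XT.nd (nat_lit 78) (nat_lit 152) (nat_lit 0) (XT.lf (nat_lit 76) (nat_lit 10541475013) (nat_lit 0) (nat_lit 10944529738) (nat_lit 76) (nat_lit 10944529738) (nat_lit 104) (nat_lit 3) (nat_lit 103) (nat_lit 1) (nat_lit 104) (nat_lit 1) (nat_lit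 296) (nat_lit 438) (nat_lit 286)) (XT.lf (nat_lit 152) (nat_lit 31667610226) (nat_lit 0) (nat_lit 123826336) (nat_lit 76) (nat_lit 123826336) (nat_lit 103) (nat_lit 1) (nat_lit 101) (nat_lit 1) (nat_lit 102) (nat_lit 1) (nat_lit 297) (nat_lit 438) (nat_lit 285))))))))
noncomputable def ec453 : XT := (XT.nd (nat_lit 1950) (nat_lit 2052) (nat_lit 0) (XT.nd (nat_lit 936) (nat_lit 912) (nat_lit 0) (XT.nd (nat_lit 468) (nat_lit 456) (nat_lit 0) (XT.nd (nat_lit 234) (nat_lit 228) (nat_lit 0) (XT.nd (nat_lit 78) (nat_lit 228) (nat_lit 0) (XT.lf (nat_lit 0) (nat_lit 10347931993) (nat_lit 0) (nat_lit 10696105819) (nat_lit 152) (nat_lit 10347931993) (nat_lit 101) (nat_lit 3) (nat_lit 101) (nat_lit 1) (nat_lit 103) (nat_lit 1) (nat_lit 298) (nat_lit 438) (nat_lit 284)) (XT.nd (nat_lit 78) (nat_lit 152) (nat_lit 0) (XT.lf (nat_lit 76) (nat_lit 10074064019) (nat_lit 0) (nat_lit 10405658139) (nat_lit 76) (nat_lit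 10405658139) (nat_lit 101) (nat_lit 3) (nat_lit 100) (nat_lit 1) (nat_lit 101) (nat_lit 1) (nat_lit 299) (nat_lit 438) (nat_lit 283)) (XT.lf (nat_lit 152) (nat_lit 30190979360) (nat_lit 0) (nat_lit 101872233) (nat_lit 76) (nat_lit 101872233) (nat_lit 100) (nat_lit 1) (nat_lit 98) (nat_lit 1) (nat_lit 99) (nat_lit 1) (nat_lit 300) (nat_lit 438) (nat_lit 282)))) (XT.nd (nat_lit 78) (nat_lit 228) (nat_lit 0) (XT.lf (nat_lit 0) (nat_lit 9869976819) (nat_lit 0) (nat_lit 10156420288) (nat_lit 152) (nat_lit 9869976819) (nat_lit 98) (nat_lit 3) (nat_lit 98) (nat_lit 1) (nat_lit 100) (nat_lit 1) (nat_lit 301) (nat_lit 438) (nat_lit 281)) (XT.nd (nat_lit 78) (nat_lit 152) (nat_lit 0) (XT.lf (nat_lit 76) (nat_lit 9622782579) (nat_lit 0) (nat_lit 9895585882) (nat_lit 76) (nat_lit 9895585882) (nat_lit 98) (nat_lit 3) (nat_lit 97) (nat_lit 1) (nat_lit 98) (nat_lit 1) (nat_lit 302) (nat_lit 438) (nat_lit 280))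 (XT.lf (nat_lit 152) (nat_lit 28779105871) (nat_lit 0) (nat_lit 83810538) (nat_lit 76) (nat_lit 83810538) (nat_lit 97) (nat_lit 1) (nat_lit 95) (nat_lit 1) (nat_lit 96) (nat_lit 1) (nat_lit 303) (nat_lit 438) (nat_lit 279))))) (XT.nd (nat_lit 234) (nat_lit 228) (nat_lit 0) (XT.nd (nat_lit 78) (nat_lit 228) (nat_lit 0) (XT.lf (nat_lit 0) (nat_lit 9412156793) (nat_lit 0) (nat_lit 9647814543) (nat_lit 152) (nat_lit 9412156793) (nat_lit 95) (nat_lit 3) (nat_lit 95) (nat_lit 1) (nat_lit 97) (nat_lit 1) (nat_lit 304) (nat_lit 438) (nat_lit 278)) (XT.nd (nat_lit 78) (nat_lit 152) (nat_lit 0) (XT.lf (nat_lit 76) (nat_lit 9187949118) (nat_lit 0) (nat_lit 9412385071) (nat_lit 76) (nat_lit 9412385071) (nat_lit 95) (nat_lit 3) (nat_lit 94) (nat_lit 1) (nat_lit 95) (nat_lit 1) (nat_lit 305) (nat_lit 438) (nat_lit 277)) (XT.lf (nat_lit 152) (nat_lit 27429891560) (nat_lit 0) (nat_lit 68951137) (nat_lit 76) (nat_lit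 68951137) (nat_lit 94) (nat_lit 1) (nat_lit 92) (nat_lit 1) (nat_lit 93) (nat_lit 1) (nat_lit 306) (nat_lit 438) (nat_lit 276)))) (XT.nd (nat_lit 78) (nat_lit 228) (nat_lit 0) (XT.lf (nat_lit 0) (nat_lit 8973978437) (nat_lit 0) (nat_lit 9167854651) (nat_lit 152) (nat_lit 8973978437) (nat_lit 92) (nat_lit 3) (nat_lit 92) (nat_lit 1) (nat_lit 94) (nat_lit 1) (nat_lit 307) (nat_lit 438) (nat_lit 275)) (XT.nd (nat_lit 78) (nat_lit 152) (nat_lit 0) (XT.lf (nat_lit 76) (nat_lit 8769674264) (nat_lit 0) (nat_lit 8954318278) (nat_lit 76) (nat_lit 8954318278) (nat_lit 92) (nat_lit 3) (nat_lit 91) (nat_lit 1) (nat_lit 92) (nat_lit 1) (nat_lit 308) (nat_lit 438) (nat_lit 274)) (XT.lf (nat_lit 152) (nat_lit 26141163420) (nat_lit 0) (nat_lit 56726271) (nat_lit 76) (nat_lit 56726271) (nat_lit 91) (nat_lit 1) (nat_lit 89) (nat_lit 1) (nat_lit 90) (nat_lit 1) (nat_lit 309) (nat_lit 438) (nat_lit 273)))))) (XT.nd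 (nat_lit 468) (nat_lit 456) (nat_lit 0) (XT.nd (nat_lit 234) (nat_lit 228) (nat_lit 0) (XT.nd (nat_lit 78) (nat_lit 228) (nat_lit 0) (XT.lf (nat_lit 0) (nat_lit 8554889269) (nat_lit 0) (nat_lit 8714391710) (nat_lit 152) (nat_lit 8554889269) (nat_lit 89) (nat_lit 3) (nat_lit 89) (nat_lit 1) (nat_lit 91) (nat_lit 1) (nat_lit 310) (nat_lit 438) (nat_lit 272)) (XT.nd (nat_lit 78) (nat_lit 152) (nat_lit 0) (XT.lf (nat_lit 76) (nat_lit 8367904898) (nat_lit 0) (nat_lit 8519811985) (nat_lit 76) (nat_lit 8519811985) (nat_lit 89) (nat_lit 3) (nat_lit 88) (nat_lit 1) (nat_lit 89) (nat_lit 1) (nat_lit 311) (nat_lit 438) (nat_lit 271)) (XT.lf (nat_lit 152) (nat_lit 24910708173) (nat_lit 0) (nat_lit 46668843) (nat_lit 76) (nat_lit 46668843) (nat_lit 88) (nat_lit 1) (nat_lit 86) (nat_lit 1) (nat_lit 87) (nat_lit 1) (nat_lit 312) (nat_lit 438) (nat_lit 270)))) (XT.nd (nat_lit 78) (nat_lit 228) (nat_lit 0) (XT.lf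 (nat_lit 0) (nat_lit 8154295240) (nat_lit 0) (nat_lit 8285518293) (nat_lit 152) (nat_lit 8154295240) (nat_lit 86) (nat_lit 3) (nat_lit 86) (nat_lit 1) (nat_lit 88) (nat_lit 1) (nat_lit 313) (nat_lit 438) (nat_lit 269)) (XT.nd (nat_lit 78) (nat_lit 152) (nat_lit 0) (XT.lf (nat_lit 76) (nat_lit 7982460047) (nat_lit 0) (nat_lit 8107434383) (nat_lit 76) (nat_lit 8107434383) (nat_lit 86) (nat_lit 3) (nat_lit 85) (nat_lit 1) (nat_lit 86) (nat_lit 1) (nat_lit 314) (nat_lit 438) (nat_lit 268)) (XT.lf (nat_lit 152) (nat_lit 23736299676) (nat_lit 0) (nat_lit 38394573) (nat_lit 76) (nat_lit 38394573) (nat_lit 85) (nat_lit 1) (nat_lit 83) (nat_lit 1) (nat_lit 84) (nat_lit 1) (nat_lit 315) (nat_lit 438) (nat_lit 267))))) (XT.nd (nat_lit 234) (nat_lit 228) (nat_lit 0) (XT.nd (nat_lit 78) (nat_lit 228) (nat_lit 0) (XT.lf (nat_lit 0) (nat_lit 7771574747) (nat_lit 0) (nat_lit 7879532277) (nat_lit 152) (nat_lit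 7771574747) (nat_lit 83) (nat_lit 3) (nat_lit 83) (nat_lit 1) (nat_lit 85) (nat_lit 1) (nat_lit 316) (nat_lit 438) (nat_lit 266)) (XT.nd (nat_lit 78) (nat_lit 152) (nat_lit 0) (XT.lf (nat_lit 76) (nat_lit 7613060091) (nat_lit 0) (nat_lit 7715876787) (nat_lit 76) (nat_lit 7715876787) (nat_lit 83) (nat_lit 3) (nat_lit 82) (nat_lit 1) (nat_lit 83) (nat_lit 1) (nat_lit 317) (nat_lit 438) (nat_lit 265)) (XT.lf (nat_lit 152) (nat_lit 22615720498) (nat_lit 0) (nat_lit 31587310) (nat_lit 76) (nat_lit 31587310) (nat_lit 82) (nat_lit 1) (nat_lit 80) (nat_lit 1) (nat_lit 81) (nat_lit 1) (nat_lit 318) (nat_lit 438) (nat_lit 264)))) (XT.nd (nat_lit 156) (nat_lit 152) (nat_lit 0) (XT.nd (nat_lit 78) (nat_lit 76) (nat_lit 0) (XT.lf (nat_lit 0) (nat_lit 7406089847) (nat_lit 0) (nat_lit 7494906774) (nat_lit 152) (nat_lit 7406089847) (nat_lit 80) (nat_lit 3) (nat_lit 80) (nat_lit 1) (nat_lit 82) (nat_lit 1) (nat_lit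 319) (nat_lit 438) (nat_lit 263)) (XT.lf (nat_lit 76) (nat_lit 7259350478) (nat_lit 0) (nat_lit 7343938028) (nat_lit 76) (nat_lit 7343938028) (nat_lit 80) (nat_lit 3) (nat_lit 79) (nat_lit 1) (nat_lit 80) (nat_lit 1) (nat_lit 320) (nat_lit 438) (nat_lit 262))) (XT.nd (nat_lit 78) (nat_lit 0) (nat_lit 0) (XT.lf (nat_lit 152) (nat_lit 21546778758) (nat_lit 0) (nat_lit 25986958) (nat_lit 76) (nat_lit 25986958) (nat_lit 79) (nat_lit 1) (nat_lit 77) (nat_lit 1) (nat_lit 78) (nat_lit 1) (nat_lit 321) (nat_lit 438) (nat_lit 261)) (XT.lf (nat_lit 0) (nat_lit 7057195178) (nat_lit 0) (nat_lit 7130265085) (nat_lit 152) (nat_lit 7057195178) (nat_lit 77) (nat_lit 3) (nat_lit 77) (nat_lit 1) (nat_lit 79) (nat_lit 1) (nat_lit 322) (nat_lit 438) (nat_lit 260))))))) (XT.nd (nat_lit 1014) (nat_lit 1064) (nat_lit 0) (XT.nd (nat_lit 468) (nat_lit 532) (nat_lit 0) (XT.nd (nat_lit 234) (nat_lit 228) (nat_lit 0) (XT.nd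 (nat_lit 78) (nat_lit 152) (nat_lit 0) (XT.lf (nat_lit 76) (nat_lit 6920920938) (nat_lit 0) (nat_lit 6990511325) (nat_lit 76) (nat_lit 6990511325) (nat_lit 77) (nat_lit 3) (nat_lit 76) (nat_lit 1) (nat_lit 77) (nat_lit 1) (nat_lit 323) (nat_lit 438) (nat_lit 259)) (XT.nd (nat_lit 78) (nat_lit 0) (nat_lit 0) (XT.lf (nat_lit 152) (nat_lit 20527321099) (nat_lit 0) (nat_lit 21379535) (nat_lit 76) (nat_lit 21379535) (nat_lit 76) (nat_lit 1) (nat_lit 74) (nat_lit 1) (nat_lit 75) (nat_lit 1) (nat_lit 324) (nat_lit 438) (nat_lit 258)) (XT.lf (nat_lit 0) (nat_lit 6724245017) (nat_lit 0) (nat_lit 6784359810) (nat_lit 152) (nat_lit 6724245017) (nat_lit 74) (nat_lit 3) (nat_lit 74) (nat_lit 1) (nat_lit 76) (nat_lit 1) (nat_lit 325) (nat_lit 438) (nat_lit 257)))) (XT.nd (nat_lit 78) (nat_lit 152) (nat_lit 0) (XT.lf (nat_lit 76) (nat_lit 6597321006) (nat_lit 0) (nat_lit 6654573190) (nat_lit 76) (nat_lit 6654573190)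 (nat_lit 74) (nat_lit 3) (nat_lit 73) (nat_lit 1) (nat_lit 74) (nat_lit 1) (nat_lit 326) (nat_lit 438) (nat_lit 256)) (XT.nd (nat_lit 78) (nat_lit 0) (nat_lit 0) (XT.lf (nat_lit 152) (nat_lit 19555242527) (nat_lit 0) (nat_lit 17588996) (nat_lit 76) (nat_lit 17588996) (nat_lit 73) (nat_lit 1) (nat_lit 71) (nat_lit 1) (nat_lit 72) (nat_lit 1) (nat_lit 327) (nat_lit 438) (nat_lit 255)) (XT.lf (nat_lit 0) (nat_lit 6406598806) (nat_lit 0) (nat_lit 6456055395) (nat_lit 152) (nat_lit 6406598806) (nat_lit 71) (nat_lit 3) (nat_lit 71) (nat_lit 1) (nat_lit 73) (nat_lit 1) (nat_lit 328) (nat_lit 438) (nat_lit 254))))) (XT.nd (nat_lit 234) (nat_lit 304) (nat_lit 0) (XT.nd (nat_lit 78) (nat_lit 152) (nat_lit 0) (XT.lf (nat_lit 76) (nat_lit 6288072531) (nat_lit 0) (nat_lit 6335174044) (nat_lit 76) (nat_lit 6335174044) (nat_lit 71) (nat_lit 3) (nat_lit 70) (nat_lit 1) (nat_lit 71) (nat_lit 1) (nat_lit 329) (nat_lit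 438) (nat_lit 253)) (XT.nd (nat_lit 78) (nat_lit 0) (nat_lit 0) (XT.lf (nat_lit 152) (nat_lit 18628493716) (nat_lit 0) (nat_lit 14470510) (nat_lit 76) (nat_lit 14470510) (nat_lit 70) (nat_lit 1) (nat_lit 68) (nat_lit 1) (nat_lit 69) (nat_lit 1) (nat_lit 330) (nat_lit 438) (nat_lit 252)) (XT.lf (nat_lit 0) (nat_lit 6103625445) (nat_lit 0) (nat_lit 6144313503) (nat_lit 152) (nat_lit 6103625445) (nat_lit 68) (nat_lit 3) (nat_lit 68) (nat_lit 1) (nat_lit 70) (nat_lit 1) (nat_lit 331) (nat_lit 438) (nat_lit 251)))) (XT.nd (nat_lit 156) (nat_lit 76) (nat_lit 0) (XT.nd (nat_lit 78) (nat_lit 152) (nat_lit 0) (XT.lf (nat_lit 76) (nat_lit 5992679702) (nat_lit 0) (nat_lit 6031430233) (nat_lit 76) (nat_lit 6031430233) (nat_lit 68) (nat_lit 3) (nat_lit 67) (nat_lit 1) (nat_lit 68) (nat_lit 1) (nat_lit 332) (nat_lit 438) (nat_lit 250)) (XT.lf (nat_lit 152) (nat_lit 17745086256) (nat_lit 0) (nat_lit 11904925)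 (nat_lit 76) (nat_lit 11904925) (nat_lit 67) (nat_lit 1) (nat_lit 65) (nat_lit 1) (nat_lit 66) (nat_lit 1) (nat_lit 333) (nat_lit 438) (nat_lit 249))) (XT.nd (nat_lit 78) (nat_lit 76) (nat_lit 0) (XT.lf (nat_lit 0) (nat_lit 5814706570) (nat_lit 0) (nat_lit 5848180736) (nat_lit 152) (nat_lit 5814706570) (nat_lit 65) (nat_lit 3) (nat_lit 65) (nat_lit 1) (nat_lit 67) (nat_lit 1) (nat_lit 334) (nat_lit 438) (nat_lit 248)) (XT.lf (nat_lit 76) (nat_lit 5710637058) (nat_lit 0) (nat_lit 5742517216) (nat_lit 76) (nat_lit 5742517216) (nat_lit 65) (nat_lit 3) (nat_lit 64) (nat_lit 1) (nat_lit 65) (nat_lit 1) (nat_lit 335) (nat_lit 438) (nat_lit 247)))))) (XT.nd (nat_lit 468) (nat_lit 608) (nat_lit 0) (XT.nd (nat_lit 234) (nat_lit 228) (nat_lit 0) (XT.nd (nat_lit 78) (nat_lit 76) (nat_lit 0) (XT.lf (nat_lit 152) (nat_lit 16903096259) (nat_lit 0) (nat_lit 9794211) (nat_lit 76) (nat_lit 9794211) (nat_lit 64)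 (nat_lit 1) (nat_lit 62) (nat_lit 1) (nat_lit 63) (nat_lit 1) (nat_lit 336) (nat_lit 438) (nat_lit 246)) (XT.nd (nat_lit 78) (nat_lit 76) (nat_lit 0) (XT.lf (nat_lit 0) (nat_lit 5539239020) (nat_lit 0) (nat_lit 5566778299) (nat_lit 152) (nat_lit 5539239020) (nat_lit 62) (nat_lit 3) (nat_lit 62) (nat_lit 1) (nat_lit 64) (nat_lit 1) (nat_lit 337) (nat_lit 438) (nat_lit 245)) (XT.lf (nat_lit 76) (nat_lit 5441435847) (nat_lit 0) (nat_lit 5467663732) (nat_lit 76) (nat_lit 5467663732) (nat_lit 62) (nat_lit 3) (nat_lit 61) (nat_lit 1) (nat_lit 62) (nat_lit 1) (nat_lit 338) (nat_lit 438) (nat_lit 244)))) (XT.nd (nat_lit 78) (nat_lit 76) (nat_lit 0) (XT.lf (nat_lit 152) (nat_lit 16100666629) (nat_lit 0) (nat_lit 8057721) (nat_lit 76) (nat_lit 8057721) (nat_lit 61) (nat_lit 1) (nat_lit 59) (nat_lit 1) (nat_lit 60) (nat_lit 1) (nat_lit 339) (nat_lit 438) (nat_lit 243)) (XT.nd (nat_lit 78) (nat_lit 76) (nat_lit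 0) (XT.lf (nat_lit 0) (nat_lit 5276636635) (nat_lit 0) (nat_lit 5299293269) (nat_lit 152) (nat_lit 5276636635) (nat_lit 59) (nat_lit 3) (nat_lit 59) (nat_lit 1) (nat_lit 61) (nat_lit 1) (nat_lit 340) (nat_lit 438) (nat_lit 242)) (XT.lf (nat_lit 76) (nat_lit 5184569030) (nat_lit 0) (nat_lit 5206146776) (nat_lit 76) (nat_lit 5206146776) (nat_lit 59) (nat_lit 3) (nat_lit 58) (nat_lit 1) (nat_lit 59) (nat_lit 1) (nat_lit 341) (nat_lit 438) (nat_lit 241))))) (XT.nd (nat_lit 234) (nat_lit 380) (nat_lit 0) (XT.nd (nat_lit 78) (nat_lit 76) (nat_lit 0) (XT.lf (nat_lit 152) (nat_lit 15336008287) (nat_lit 0) (nat_lit 6629107) (nat_lit 76) (nat_lit 6629107) (nat_lit 58) (nat_lit 1) (nat_lit 56) (nat_lit 1) (nat_lit 57) (nat_lit 1) (nat_lit 342) (nat_lit 438) (nat_lit 240)) (XT.nd (nat_lit 78) (nat_lit 76) (nat_lit 0) (XT.lf (nat_lit 0) (nat_lit 5026331528) (nat_lit 0) (nat_lit 5044971196) (nat_lit 152) (nat_lit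 5026331528) (nat_lit 56) (nat_lit 3) (nat_lit 56) (nat_lit 1) (nat_lit 58) (nat_lit 1) (nat_lit 343) (nat_lit 438) (nat_lit 239)) (XT.lf (nat_lit 76) (nat_lit 4939535192) (nat_lit 0) (nat_lit 4957287257) (nat_lit 76) (nat_lit 4957287257) (nat_lit 56) (nat_lit 3) (nat_lit 55) (nat_lit 1) (nat_lit 56) (nat_lit 1) (nat_lit 344) (nat_lit 438) (nat_lit 238)))) (XT.nd (nat_lit 156) (nat_lit 228) (nat_lit 0) (XT.nd (nat_lit 78) (nat_lit 0) (nat_lit 0) (XT.lf (nat_lit 152) (nat_lit 14607400547) (nat_lit 0) (nat_lit 5453783) (nat_lit 76) (nat_lit 5453783) (nat_lit 55) (nat_lit 1) (nat_lit 53) (nat_lit 1) (nat_lit 54) (nat_lit 1) (nat_lit 345) (nat_lit 438) (nat_lit 237)) (XT.lf (nat_lit 0) (nat_lit 4787774921) (nat_lit 0) (nat_lit 4803109822) (nat_lit 152) (nat_lit 4787774921) (nat_lit 53) (nat_lit 3) (nat_lit 53) (nat_lit 1) (nat_lit 55) (nat_lit 1) (nat_lit 346) (nat_lit 438) (nat_lit 236))) (XT.nd (nat_lit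 78) (nat_lit 152) (nat_lit 0) (XT.lf (nat_lit 76) (nat_lit 4705841561) (nat_lit 0) (nat_lit 4720446229) (nat_lit 76) (nat_lit 4720446229) (nat_lit 53) (nat_lit 3) (nat_lit 52) (nat_lit 1) (nat_lit 53) (nat_lit 1) (nat_lit 347) (nat_lit 438) (nat_lit 235)) (XT.lf (nat_lit 152) (nat_lit 13913190844) (nat_lit 0) (nat_lit 4486841) (nat_lit 76) (nat_lit 4486841) (nat_lit 52) (nat_lit 1) (nat_lit 50) (nat_lit 1) (nat_lit 51) (nat_lit 1) (nat_lit 348) (nat_lit 438) (nat_lit 234))))))))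
noncomputable def ec454 : XT := (XT.nd (nat_lit 1950) (nat_lit 1900) (nat_lit 0) (XT.nd (nat_lit 936) (nat_lit 912) (nat_lit 0) (XT.nd (nat_lit 468) (nat_lit 456) (nat_lit 0) (XT.nd (nat_lit 234) (nat_lit 228) (nat_lit 0) (XT.nd (nat_lit 78) (nat_lit 228) (nat_lit 0) (XT.lf (nat_lit 0) (nat_lit 4560437641) (nat_lit 0) (nat_lit 4573053702) (nat_lit 152) (nat_lit 4560437641) (nat_lit 50) (nat_lit 3) (nat_lit 50) (nat_lit 1) (nat_lit 52) (nat_lit 1) (nat_lit 349) (nat_lit 438) (nat_lit 233)) (XT.nd (nat_lit 78) (nat_lit 152) (nat_lit 0) (XT.lf (nat_lit 76) (nat_lit 4483006293) (nat_lit 0) (nat_lit 4495021589) (nat_lit 76) (nat_lit 4495021589) (nat_lit 50) (nat_lit 3) (nat_lit 49) (nat_lit 1) (nat_lit 50) (nat_lit 1) (nat_lit 350) (nat_lit 438) (nat_lit 232)) (XT.lf (nat_lit 152) (nat_lit 13251793933) (nat_lit 0) (nat_lit 3691335) (nat_lit 76) (nat_lit 3691335) (nat_lit 49) (nat_lit 1) (nat_lit 47)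 (nat_lit 1) (nat_lit 48) (nat_lit 1) (nat_lit 351) (nat_lit 438) (nat_lit 231)))) (XT.nd (nat_lit 78) (nat_lit 228) (nat_lit 0) (XT.lf (nat_lit 0) (nat_lit 4343810347) (nat_lit 0) (nat_lit 4354189612) (nat_lit 152) (nat_lit 4343810347) (nat_lit 47) (nat_lit 3) (nat_lit 47) (nat_lit 1) (nat_lit 49) (nat_lit 1) (nat_lit 352) (nat_lit 438) (nat_lit 230)) (XT.nd (nat_lit 78) (nat_lit 152) (nat_lit 0) (XT.lf (nat_lit 76) (nat_lit 4270560176) (nat_lit 0) (nat_lit 4280445190) (nat_lit 76) (nat_lit 4280445190) (nat_lit 47) (nat_lit 3) (nat_lit 46) (nat_lit 1) (nat_lit 47) (nat_lit 1) (nat_lit 353) (nat_lit 438) (nat_lit 229)) (XT.lf (nat_lit 152) (nat_lit 12621690705) (nat_lit 0) (nat_lit 3036870) (nat_lit 76) (nat_lit 3036870) (nat_lit 46) (nat_lit 1) (nat_lit 44) (nat_lit 1) (nat_lit 45) (nat_lit 1) (nat_lit 354) (nat_lit 438) (nat_lit 228))))) (XT.nd (nat_lit 234) (nat_lit 228) (nat_lit 0) (XT.nd (nat_lit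 78) (nat_lit 228) (nat_lit 0) (XT.lf (nat_lit 0) (nat_lit 4137403536) (nat_lit 0) (nat_lit 4145942583) (nat_lit 152) (nat_lit 4137403536) (nat_lit 44) (nat_lit 3) (nat_lit 44) (nat_lit 1) (nat_lit 46) (nat_lit 1) (nat_lit 355) (nat_lit 438) (nat_lit 227)) (XT.nd (nat_lit 78) (nat_lit 152) (nat_lit 0) (XT.lf (nat_lit 76) (nat_lit 4068047858) (nat_lit 0) (nat_lit 4076180284) (nat_lit 76) (nat_lit 4076180284) (nat_lit 44) (nat_lit 3) (nat_lit 43) (nat_lit 1) (nat_lit 44) (nat_lit 1) (nat_lit 356) (nat_lit 438) (nat_lit 226)) (XT.lf (nat_lit 152) (nat_lit 12021426695) (nat_lit 0) (nat_lit 2498441) (nat_lit 76) (nat_lit 2498441) (nat_lit 43) (nat_lit 1) (nat_lit 41) (nat_lit 1) (nat_lit 42) (nat_lit 1) (nat_lit 357) (nat_lit 438) (nat_lit 225)))) (XT.nd (nat_lit 78) (nat_lit 228) (nat_lit 0) (XT.lf (nat_lit 0) (nat_lit 3940747380) (nat_lit 0) (nat_lit 3947772474) (nat_lit 152) (nat_lit 3940747380) (nat_lit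 41) (nat_lit 3) (nat_lit 41) (nat_lit 1) (nat_lit 43) (nat_lit 1) (nat_lit 358) (nat_lit 438) (nat_lit 224)) (XT.nd (nat_lit 78) (nat_lit 152) (nat_lit 0) (XT.lf (nat_lit 76) (nat_lit 3875028691) (nat_lit 0) (nat_lit 3881719257) (nat_lit 76) (nat_lit 3881719257) (nat_lit 41) (nat_lit 3) (nat_lit 40) (nat_lit 1) (nat_lit 41) (nat_lit 1) (nat_lit 359) (nat_lit 438) (nat_lit 223)) (XT.lf (nat_lit 152) (nat_lit 11449610364) (nat_lit 0) (nat_lit 2055473) (nat_lit 76) (nat_lit 2055473) (nat_lit 40) (nat_lit 1) (nat_lit 38) (nat_lit 1) (nat_lit 39) (nat_lit 1) (nat_lit 360) (nat_lit 438) (nat_lit 222)))))) (XT.nd (nat_lit 468) (nat_lit 456) (nat_lit 0) (XT.nd (nat_lit 234) (nat_lit 228) (nat_lit 0) (XT.nd (nat_lit 78) (nat_lit 228) (nat_lit 0) (XT.lf (nat_lit 0) (nat_lit 3753391432) (nat_lit 0) (nat_lit 3759170995) (nat_lit 152) (nat_lit 3753391432) (nat_lit 38) (nat_lit 3) (nat_lit 38) (nat_lit 1) (nat_lit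 40) (nat_lit 1) (nat_lit 361) (nat_lit 438) (nat_lit 221)) (XT.nd (nat_lit 78) (nat_lit 152) (nat_lit 0) (XT.lf (nat_lit 76) (nat_lit 3691077265) (nat_lit 0) (nat_lit 3696581611) (nat_lit 76) (nat_lit 3696581611) (nat_lit 38) (nat_lit 3) (nat_lit 37) (nat_lit 1) (nat_lit 38) (nat_lit 1) (nat_lit 362) (nat_lit 438) (nat_lit 220)) (XT.lf (nat_lit 152) (nat_lit 10904911232) (nat_lit 0) (nat_lit 1691043) (nat_lit 76) (nat_lit 1691043) (nat_lit 37) (nat_lit 1) (nat_lit 35) (nat_lit 1) (nat_lit 36) (nat_lit 1) (nat_lit 363) (nat_lit 438) (nat_lit 219)))) (XT.nd (nat_lit 78) (nat_lit 228) (nat_lit 0) (XT.lf (nat_lit 0) (nat_lit 3574904240) (nat_lit 0) (nat_lit 3579659100) (nat_lit 152) (nat_lit 3574904240) (nat_lit 35) (nat_lit 3) (nat_lit 35) (nat_lit 1) (nat_lit 37) (nat_lit 1) (nat_lit 364) (nat_lit 438) (nat_lit 218)) (XT.nd (nat_lit 78) (nat_lit 152) (nat_lit 0) (XT.lf (nat_lit 76) (nat_lit 3515783707)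 (nat_lit 0) (nat_lit 3520312146) (nat_lit 76) (nat_lit 3520312146) (nat_lit 35) (nat_lit 3) (nat_lit 34) (nat_lit 1) (nat_lit 35) (nat_lit 1) (nat_lit 365) (nat_lit 438) (nat_lit 217)) (XT.lf (nat_lit 152) (nat_lit 10386057886) (nat_lit 0) (nat_lit 1391225) (nat_lit 76) (nat_lit 1391225) (nat_lit 34) (nat_lit 1) (nat_lit 32) (nat_lit 1) (nat_lit 33) (nat_lit 1) (nat_lit 366) (nat_lit 438) (nat_lit 216))))) (XT.nd (nat_lit 234) (nat_lit 228) (nat_lit 0) (XT.nd (nat_lit 78) (nat_lit 228) (nat_lit 0) (XT.lf (nat_lit 0) (nat_lit 3404872869) (nat_lit 0) (nat_lit 3408784705) (nat_lit 152) (nat_lit 3404872869) (nat_lit 32) (nat_lit 3) (nat_lit 32) (nat_lit 1) (nat_lit 34) (nat_lit 1) (nat_lit 367) (nat_lit 438) (nat_lit 215)) (XT.nd (nat_lit 78) (nat_lit 152) (nat_lit 0) (XT.lf (nat_lit 76) (nat_lit 3348753772) (nat_lit 0) (nat_lit 3352479330) (nat_lit 76) (nat_lit 3352479330) (nat_lit 32) (nat_lit 3)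 (nat_lit 31) (nat_lit 1) (nat_lit 32) (nat_lit 1) (nat_lit 368) (nat_lit 438) (nat_lit 214)) (XT.lf (nat_lit 152) (nat_lit 9891835934) (nat_lit 0) (nat_lit 1144564) (nat_lit 76) (nat_lit 1144564) (nat_lit 31) (nat_lit 1) (nat_lit 29) (nat_lit 1) (nat_lit 30) (nat_lit 1) (nat_lit 369) (nat_lit 438) (nat_lit 213)))) (XT.nd (nat_lit 156) (nat_lit 152) (nat_lit 0) (XT.nd (nat_lit 78) (nat_lit 76) (nat_lit 0) (XT.lf (nat_lit 0) (nat_lit 3242902388) (nat_lit 0) (nat_lit 3246120664) (nat_lit 152) (nat_lit 3242902388) (nat_lit 29) (nat_lit 3) (nat_lit 29) (nat_lit 1) (nat_lit 31) (nat_lit 1) (nat_lit 370) (nat_lit 438) (nat_lit 212)) (XT.lf (nat_lit 76) (nat_lit 3189608792) (nat_lit 0) (nat_lit 3192673818) (nat_lit 76) (nat_lit 3192673818) (nat_lit 29) (nat_lit 3) (nat_lit 28) (nat_lit 1) (nat_lit 29) (nat_lit 1) (nat_lit 371) (nat_lit 438) (nat_lit 211))) (XT.nd (nat_lit 78) (nat_lit 0) (nat_lit 0) (XT.lf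 (nat_lit 152) (nat_lit 9421085910) (nat_lit 0) (nat_lit 941636) (nat_lit 76) (nat_lit 941636) (nat_lit 28) (nat_lit 1) (nat_lit 26) (nat_lit 1) (nat_lit 27) (nat_lit 1) (nat_lit 372) (nat_lit 438) (nat_lit 210)) (XT.lf (nat_lit 0) (nat_lit 3088615297) (nat_lit 0) (nat_lit 3091262982) (nat_lit 152) (nat_lit 3088615297) (nat_lit 26) (nat_lit 3) (nat_lit 26) (nat_lit 1) (nat_lit 28) (nat_lit 1) (nat_lit 373) (nat_lit 438) (nat_lit 209))))))) (XT.nd (nat_lit 936) (nat_lit 988) (nat_lit 0) (XT.nd (nat_lit 468) (nat_lit 456) (nat_lit 0) (XT.nd (nat_lit 234) (nat_lit 228) (nat_lit 0) (XT.nd (nat_lit 78) (nat_lit 152) (nat_lit 0) (XT.lf (nat_lit 76) (nat_lit 3037985501) (nat_lit 0) (nat_lit 3040507105) (nat_lit 76) (nat_lit 3040507105) (nat_lit 26) (nat_lit 3) (nat_lit 25) (nat_lit 1) (nat_lit 26) (nat_lit 1) (nat_lit 374) (nat_lit 438) (nat_lit 208)) (XT.nd (nat_lit 78) (nat_lit 0) (nat_lit 0) (XT.lf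 (nat_lit 152) (nat_lit 8972701177) (nat_lit 0) (nat_lit 774686) (nat_lit 76) (nat_lit 774686) (nat_lit 25) (nat_lit 1) (nat_lit 23) (nat_lit 1) (nat_lit 24) (nat_lit 1) (nat_lit 375) (nat_lit 438) (nat_lit 207)) (XT.lf (nat_lit 0) (nat_lit 2941650952) (nat_lit 0) (nat_lit 2943829208) (nat_lit 152) (nat_lit 2941650952) (nat_lit 23) (nat_lit 3) (nat_lit 23) (nat_lit 1) (nat_lit 25) (nat_lit 1) (nat_lit 376) (nat_lit 438) (nat_lit 206)))) (XT.nd (nat_lit 78) (nat_lit 152) (nat_lit 0) (XT.lf (nat_lit 76) (nat_lit 2893535765) (nat_lit 0) (nat_lit 2895610295) (nat_lit 76) (nat_lit 2895610295) (nat_lit 23) (nat_lit 3) (nat_lit 22) (nat_lit 1) (nat_lit 23) (nat_lit 1) (nat_lit 377) (nat_lit 438) (nat_lit 205)) (XT.nd (nat_lit 78) (nat_lit 0) (nat_lit 0) (XT.lf (nat_lit 152) (nat_lit 8545625829) (nat_lit 0) (nat_lit 637336) (nat_lit 76) (nat_lit 637336) (nat_lit 22) (nat_lit 1) (nat_lit 20) (nat_lit 1)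 (nat_lit 21) (nat_lit 1) (nat_lit 378) (nat_lit 438) (nat_lit 204)) (XT.lf (nat_lit 0) (nat_lit 2801664949) (nat_lit 0) (nat_lit 2803457006) (nat_lit 152) (nat_lit 2801664949) (nat_lit 20) (nat_lit 3) (nat_lit 20) (nat_lit 1) (nat_lit 22) (nat_lit 1) (nat_lit 379) (nat_lit 438) (nat_lit 203))))) (XT.nd (nat_lit 234) (nat_lit 228) (nat_lit 0) (XT.nd (nat_lit 78) (nat_lit 152) (nat_lit 0) (XT.lf (nat_lit 76) (nat_lit 2755926249) (nat_lit 0) (nat_lit 2757632970) (nat_lit 76) (nat_lit 2757632970) (nat_lit 20) (nat_lit 3) (nat_lit 19) (nat_lit 1) (nat_lit 20) (nat_lit 1) (nat_lit 380) (nat_lit 438) (nat_lit 202)) (XT.nd (nat_lit 78) (nat_lit 0) (nat_lit 0) (XT.lf (nat_lit 152) (nat_lit 8138852627) (nat_lit 0) (nat_lit 524338) (nat_lit 76) (nat_lit 524338) (nat_lit 19) (nat_lit 1) (nat_lit 17) (nat_lit 1) (nat_lit 18) (nat_lit 1) (nat_lit 381) (nat_lit 438) (nat_lit 201)) (XT.lf (nat_lit 0) (nat_lit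 2668328526) (nat_lit 0) (nat_lit 2669802856) (nat_lit 152) (nat_lit 2668328526) (nat_lit 17) (nat_lit 3) (nat_lit 17) (nat_lit 1) (nat_lit 19) (nat_lit 1) (nat_lit 382) (nat_lit 438) (nat_lit 200)))) (XT.nd (nat_lit 78) (nat_lit 152) (nat_lit 0) (XT.lf (nat_lit 76) (nat_lit 2624838026) (nat_lit 0) (nat_lit 2626242150) (nat_lit 76) (nat_lit 2626242150) (nat_lit 17) (nat_lit 3) (nat_lit 16) (nat_lit 1) (nat_lit 17) (nat_lit 1) (nat_lit 383) (nat_lit 438) (nat_lit 199)) (XT.nd (nat_lit 78) (nat_lit 0) (nat_lit 0) (XT.lf (nat_lit 152) (nat_lit 7751420969) (nat_lit 0) (nat_lit 431374) (nat_lit 76) (nat_lit 431374) (nat_lit 16) (nat_lit 1) (nat_lit 14) (nat_lit 1) (nat_lit 15) (nat_lit 1) (nat_lit 384) (nat_lit 438) (nat_lit 198)) (XT.lf (nat_lit 0) (nat_lit 2541327948) (nat_lit 0) (nat_lit 2542540882) (nat_lit 152) (nat_lit 2541327948) (nat_lit 14) (nat_lit 3) (nat_lit 14) (nat_lit 1) (nat_lit 16) (nat_lit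 1) (nat_lit 385) (nat_lit 438) (nat_lit 197)))))) (XT.nd (nat_lit 468) (nat_lit 532) (nat_lit 0) (XT.nd (nat_lit 234) (nat_lit 228) (nat_lit 0) (XT.nd (nat_lit 78) (nat_lit 152) (nat_lit 0) (XT.lf (nat_lit 76) (nat_lit 2499966150) (nat_lit 0) (nat_lit 2501121326) (nat_lit 76) (nat_lit 2501121326) (nat_lit 14) (nat_lit 3) (nat_lit 13) (nat_lit 1) (nat_lit 14) (nat_lit 1) (nat_lit 386) (nat_lit 438) (nat_lit 196)) (XT.nd (nat_lit 78) (nat_lit 0) (nat_lit 0) (XT.lf (nat_lit 152) (nat_lit 7382414901) (nat_lit 0) (nat_lit 354892) (nat_lit 76) (nat_lit 354892) (nat_lit 13) (nat_lit 1) (nat_lit 11) (nat_lit 1) (nat_lit 12) (nat_lit 1) (nat_lit 387) (nat_lit 438) (nat_lit 195)) (XT.lf (nat_lit 0) (nat_lit 2420363902) (nat_lit 0) (nat_lit 2421361787) (nat_lit 152) (nat_lit 2420363902) (nat_lit 11) (nat_lit 3) (nat_lit 11) (nat_lit 1) (nat_lit 13) (nat_lit 1) (nat_lit 388) (nat_lit 438) (nat_lit 194))))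 (XT.nd (nat_lit 78) (nat_lit 152) (nat_lit 0) (XT.lf (nat_lit 76) (nat_lit 2381019205) (nat_lit 0) (nat_lit 2381969571) (nat_lit 76) (nat_lit 2381969571) (nat_lit 11) (nat_lit 3) (nat_lit 10) (nat_lit 1) (nat_lit 11) (nat_lit 1) (nat_lit 389) (nat_lit 438) (nat_lit 193)) (XT.nd (nat_lit 78) (nat_lit 0) (nat_lit 0) (XT.lf (nat_lit 152) (nat_lit 7030961187) (nat_lit 0) (nat_lit 291971) (nat_lit 76) (nat_lit 291971) (nat_lit 10) (nat_lit 1) (nat_lit 8) (nat_lit 1) (nat_lit 9) (nat_lit 1) (nat_lit 390) (nat_lit 438) (nat_lit 192)) (XT.lf (nat_lit 0) (nat_lit 2305150906) (nat_lit 0) (nat_lit 2305971868) (nat_lit 152) (nat_lit 2305150906) (nat_lit 8) (nat_lit 3) (nat_lit 8) (nat_lit 1) (nat_lit 10) (nat_lit 1) (nat_lit 391) (nat_lit 438) (nat_lit 191))))) (XT.nd (nat_lit 234) (nat_lit 304) (nat_lit 0) (XT.nd (nat_lit 78) (nat_lit 152) (nat_lit 0) (XT.lf (nat_lit 76) (nat_lit 2267718837) (nat_lit 0) (nat_lit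 2268500705) (nat_lit 76) (nat_lit 2268500705) (nat_lit 8) (nat_lit 3) (nat_lit 7) (nat_lit 1) (nat_lit 8) (nat_lit 1) (nat_lit 392) (nat_lit 438) (nat_lit 190)) (XT.nd (nat_lit 78) (nat_lit 0) (nat_lit 0) (XT.lf (nat_lit 152) (nat_lit 6696227433) (nat_lit 0) (nat_lit 240205) (nat_lit 76) (nat_lit 240205) (nat_lit 7) (nat_lit 1) (nat_lit 5) (nat_lit 1) (nat_lit 6) (nat_lit 1) (nat_lit 393) (nat_lit 438) (nat_lit 189)) (XT.lf (nat_lit 0) (nat_lit 2195416720) (nat_lit 0) (nat_lit 2196092128) (nat_lit 152) (nat_lit 2195416720) (nat_lit 5) (nat_lit 3) (nat_lit 5) (nat_lit 1) (nat_lit 7) (nat_lit 1) (nat_lit 394) (nat_lit 438) (nat_lit 188)))) (XT.nd (nat_lit 156) (nat_lit 76) (nat_lit 0) (XT.nd (nat_lit 78) (nat_lit 152) (nat_lit 0) (XT.lf (nat_lit 76) (nat_lit 2159799275) (nat_lit 0) (nat_lit 2160442520) (nat_lit 76) (nat_lit 2160442520) (nat_lit 5) (nat_lit 3) (nat_lit 4) (nat_lit 1) (nat_lit 5) (nat_lit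 1) (nat_lit 395) (nat_lit 438) (nat_lit 187)) (XT.lf (nat_lit 152) (nat_lit 6377420276) (nat_lit 0) (nat_lit 197617) (nat_lit 76) (nat_lit 197617) (nat_lit 4) (nat_lit 1) (nat_lit 2) (nat_lit 1) (nat_lit 3) (nat_lit 1) (nat_lit 396) (nat_lit 438) (nat_lit 186))) (XT.nd (nat_lit 78) (nat_lit 76) (nat_lit 0) (XT.lf (nat_lit 0) (nat_lit 2090901784) (nat_lit 0) (nat_lit 2091457443) (nat_lit 152) (nat_lit 2090901784) (nat_lit 2) (nat_lit 3) (nat_lit 2) (nat_lit 1) (nat_lit 4) (nat_lit 1) (nat_lit 397) (nat_lit 438) (nat_lit 185)) (XT.lf (nat_lit 76) (nat_lit 2057006852) (nat_lit 0) (nat_lit 2057536051) (nat_lit 76) (nat_lit 2057536051) (nat_lit 2) (nat_lit 3) (nat_lit 1) (nat_lit 1) (nat_lit 2) (nat_lit 1) (nat_lit 398) (nat_lit 438) (nat_lit 184))))))))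
noncomputable def ec455 : XT := (XT.nd (nat_lit 1950) (nat_lit 0) (nat_lit 0) (XT.nd (nat_lit 936) (nat_lit 0) (nat_lit 0) (XT.nd (nat_lit 468) (nat_lit 0) (nat_lit 0) (XT.nd (nat_lit 234) (nat_lit 0) (nat_lit 0) (XT.nd (nat_lit 78) (nat_lit 0) (nat_lit 0) (XT.lf (nat_lit 0) (nat_lit 128071617559) (nat_lit 0) (nat_lit 0) (nat_lit 0) (nat_lit 0) (nat_lit 0) (nat_lit 0) (nat_lit 1) (nat_lit 0) (nat_lit 1) (nat_lit 0) (nat_lit 399) (nat_lit 438) (nat_lit 183)) (XT.nd (nat_lit 78) (nat_lit 0) (nat_lit 0) (XT.lf (nat_lit 0) (nat_lit 128071593462) (nat_lit 0) (nat_lit 0) (nat_lit 0) (nat_lit 0) (nat_lit 0) (nat_lit 0) (nat_lit 1) (nat_lit 0) (nat_lit 1) (nat_lit 0) (nat_lit 400) (nat_lit 438) (nat_lit 182)) (XT.lf (nat_lit 0) (nat_lit 128071570513) (nat_lit 0) (nat_lit 0) (nat_lit 0) (nat_lit 0) (nat_lit 0) (nat_lit 0) (nat_lit 1) (nat_lit 0) (nat_lit 1) (nat_lit 0) (nat_lit 401) (nat_lit 438) (nat_lit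 181)))) (XT.nd (nat_lit 78) (nat_lit 0) (nat_lit 0) (XT.lf (nat_lit 0) (nat_lit 128071548656) (nat_lit 0) (nat_lit 0) (nat_lit 0) (nat_lit 0) (nat_lit 0) (nat_lit 0) (nat_lit 1) (nat_lit 0) (nat_lit 1) (nat_lit 0) (nat_lit 402) (nat_lit 438) (nat_lit 180)) (XT.nd (nat_lit 78) (nat_lit 0) (nat_lit 0) (XT.lf (nat_lit 0) (nat_lit 128071527841) (nat_lit 0) (nat_lit 0) (nat_lit 0) (nat_lit 0) (nat_lit 0) (nat_lit 0) (nat_lit 1) (nat_lit 0) (nat_lit 1) (nat_lit 0) (nat_lit 403) (nat_lit 438) (nat_lit 179)) (XT.lf (nat_lit 0) (nat_lit 128071508016) (nat_lit 0) (nat_lit 0) (nat_lit 0) (nat_lit 0) (nat_lit 0) (nat_lit 0) (nat_lit 1) (nat_lit 0) (nat_lit 1) (nat_lit 0) (nat_lit 404) (nat_lit 438) (nat_lit 178))))) (XT.nd (nat_lit 234) (nat_lit 0) (nat_lit 0) (XT.nd (nat_lit 78) (nat_lit 0) (nat_lit 0) (XT.lf (nat_lit 0) (nat_lit 128071489135) (nat_lit 0) (nat_lit 0) (nat_lit 0) (nat_lit 0) (nat_lit 0) (nat_lit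 0) (nat_lit 1) (nat_lit 0) (nat_lit 1) (nat_lit 0) (nat_lit 405) (nat_lit 438) (nat_lit 177)) (XT.nd (nat_lit 78) (nat_lit 0) (nat_lit 0) (XT.lf (nat_lit 0) (nat_lit 128071471154) (nat_lit 0) (nat_lit 0) (nat_lit 0) (nat_lit 0) (nat_lit 0) (nat_lit 0) (nat_lit 1) (nat_lit 0) (nat_lit 1) (nat_lit 0) (nat_lit 406) (nat_lit 438) (nat_lit 176)) (XT.lf (nat_lit 0) (nat_lit 128071454029) (nat_lit 0) (nat_lit 0) (nat_lit 0) (nat_lit 0) (nat_lit 0) (nat_lit 0) (nat_lit 1) (nat_lit 0) (nat_lit 1) (nat_lit 0) (nat_lit 407) (nat_lit 438) (nat_lit 175)))) (XT.nd (nat_lit 78) (nat_lit 0) (nat_lit 0) (XT.lf (nat_lit 0) (nat_lit 128071437719) (nat_lit 0) (nat_lit 0) (nat_lit 0) (nat_lit 0) (nat_lit 0) (nat_lit 0) (nat_lit 1) (nat_lit 0) (nat_lit 1) (nat_lit 0) (nat_lit 408) (nat_lit 438) (nat_lit 174)) (XT.nd (nat_lit 78) (nat_lit 0) (nat_lit 0) (XT.lf (nat_lit 0) (nat_lit 128071422186) (nat_lit 0) (nat_lit 0)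 (nat_lit 0) (nat_lit 0) (nat_lit 0) (nat_lit 0) (nat_lit 1) (nat_lit 0) (nat_lit 1) (nat_lit 0) (nat_lit 409) (nat_lit 438) (nat_lit 173)) (XT.lf (nat_lit 0) (nat_lit 128071407393) (nat_lit 0) (nat_lit 0) (nat_lit 0) (nat_lit 0) (nat_lit 0) (nat_lit 0) (nat_lit 1) (nat_lit 0) (nat_lit 1) (nat_lit 0) (nat_lit 410) (nat_lit 438) (nat_lit 172)))))) (XT.nd (nat_lit 468) (nat_lit 0) (nat_lit 0) (XT.nd (nat_lit 234) (nat_lit 0) (nat_lit 0) (XT.nd (nat_lit 78) (nat_lit 0) (nat_lit 0) (XT.lf (nat_lit 0) (nat_lit 128071393304) (nat_lit 0) (nat_lit 0) (nat_lit 0) (nat_lit 0) (nat_lit 0) (nat_lit 0) (nat_lit 1) (nat_lit 0) (nat_lit 1) (nat_lit 0) (nat_lit 411) (nat_lit 438) (nat_lit 171)) (XT.nd (nat_lit 78) (nat_lit 0) (nat_lit 0) (XT.lf (nat_lit 0) (nat_lit 128071379886) (nat_lit 0) (nat_lit 0) (nat_lit 0) (nat_lit 0) (nat_lit 0) (nat_lit 0) (nat_lit 1) (nat_lit 0) (nat_lit 1) (nat_lit 0) (nat_lit 412)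 (nat_lit 438) (nat_lit 170)) (XT.lf (nat_lit 0) (nat_lit 128071367107) (nat_lit 0) (nat_lit 0) (nat_lit 0) (nat_lit 0) (nat_lit 0) (nat_lit 0) (nat_lit 1) (nat_lit 0) (nat_lit 1) (nat_lit 0) (nat_lit 413) (nat_lit 438) (nat_lit 169)))) (XT.nd (nat_lit 78) (nat_lit 0) (nat_lit 0) (XT.lf (nat_lit 0) (nat_lit 128071354936) (nat_lit 0) (nat_lit 0) (nat_lit 0) (nat_lit 0) (nat_lit 0) (nat_lit 0) (nat_lit 1) (nat_lit 0) (nat_lit 1) (nat_lit 0) (nat_lit 414) (nat_lit 438) (nat_lit 168)) (XT.nd (nat_lit 78) (nat_lit 0) (nat_lit 0) (XT.lf (nat_lit 0) (nat_lit 128071343345) (nat_lit 0) (nat_lit 0) (nat_lit 0) (nat_lit 0) (nat_lit 0) (nat_lit 0) (nat_lit 1) (nat_lit 0) (nat_lit 1) (nat_lit 0) (nat_lit 415) (nat_lit 438) (nat_lit 167)) (XT.lf (nat_lit 0) (nat_lit 128071332306) (nat_lit 0) (nat_lit 0) (nat_lit 0) (nat_lit 0) (nat_lit 0) (nat_lit 0) (nat_lit 1) (nat_lit 0) (nat_lit 1) (nat_lit 0) (nat_lit 416)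 (nat_lit 438) (nat_lit 166))))) (XT.nd (nat_lit 234) (nat_lit 0) (nat_lit 0) (XT.nd (nat_lit 78) (nat_lit 0) (nat_lit 0) (XT.lf (nat_lit 0) (nat_lit 128071321793) (nat_lit 0) (nat_lit 0) (nat_lit 0) (nat_lit 0) (nat_lit 0) (nat_lit 0) (nat_lit 1) (nat_lit 0) (nat_lit 1) (nat_lit 0) (nat_lit 417) (nat_lit 438) (nat_lit 165)) (XT.nd (nat_lit 78) (nat_lit 0) (nat_lit 0) (XT.lf (nat_lit 0) (nat_lit 128071311780) (nat_lit 0) (nat_lit 0) (nat_lit 0) (nat_lit 0) (nat_lit 0) (nat_lit 0) (nat_lit 1) (nat_lit 0) (nat_lit 1) (nat_lit 0) (nat_lit 418) (nat_lit 438) (nat_lit 164)) (XT.lf (nat_lit 0) (nat_lit 128071302244) (nat_lit 0) (nat_lit 0) (nat_lit 0) (nat_lit 0) (nat_lit 0) (nat_lit 0) (nat_lit 1) (nat_lit 0) (nat_lit 1) (nat_lit 0) (nat_lit 419) (nat_lit 438) (nat_lit 163)))) (XT.nd (nat_lit 156) (nat_lit 0) (nat_lit 0) (XT.nd (nat_lit 78) (nat_lit 0) (nat_lit 0) (XT.lf (nat_lit 0) (nat_lit 128071293162)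 (nat_lit 0) (nat_lit 0) (nat_lit 0) (nat_lit 0) (nat_lit 0) (nat_lit 0) (nat_lit 1) (nat_lit 0) (nat_lit 1) (nat_lit 0) (nat_lit 420) (nat_lit 438) (nat_lit 162)) (XT.lf (nat_lit 0) (nat_lit 128071284513) (nat_lit 0) (nat_lit 0) (nat_lit 0) (nat_lit 0) (nat_lit 0) (nat_lit 0) (nat_lit 1) (nat_lit 0) (nat_lit 1) (nat_lit 0) (nat_lit 421) (nat_lit 438) (nat_lit 161))) (XT.nd (nat_lit 78) (nat_lit 0) (nat_lit 0) (XT.lf (nat_lit 0) (nat_lit 128071276275) (nat_lit 0) (nat_lit 0) (nat_lit 0) (nat_lit 0) (nat_lit 0) (nat_lit 0) (nat_lit 1) (nat_lit 0) (nat_lit 1) (nat_lit 0) (nat_lit 422) (nat_lit 438) (nat_lit 160)) (XT.lf (nat_lit 0) (nat_lit 128071268430) (nat_lit 0) (nat_lit 0) (nat_lit 0) (nat_lit 0) (nat_lit 0) (nat_lit 0) (nat_lit 1) (nat_lit 0) (nat_lit 1) (nat_lit 0) (nat_lit 423) (nat_lit 438) (nat_lit 159))))))) (XT.nd (nat_lit 32370) (nat_lit 0) (nat_lit 18392) (XT.nd (nat_lit 468) (nat_lit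 0) (nat_lit 0) (XT.nd (nat_lit 234) (nat_lit 0) (nat_lit 0) (XT.nd (nat_lit 78) (nat_lit 0) (nat_lit 0) (XT.lf (nat_lit 0) (nat_lit 128071260958) (nat_lit 0) (nat_lit 0) (nat_lit 0) (nat_lit 0) (nat_lit 0) (nat_lit 0) (nat_lit 1) (nat_lit 0) (nat_lit 1) (nat_lit 0) (nat_lit 424) (nat_lit 438) (nat_lit 158)) (XT.nd (nat_lit 78) (nat_lit 0) (nat_lit 0) (XT.lf (nat_lit 0) (nat_lit 128071253842) (nat_lit 0) (nat_lit 0) (nat_lit 0) (nat_lit 0) (nat_lit 0) (nat_lit 0) (nat_lit 1) (nat_lit 0) (nat_lit 1) (nat_lit 0) (nat_lit 425) (nat_lit 438) (nat_lit 157)) (XT.lf (nat_lit 0) (nat_lit 128071247065) (nat_lit 0) (nat_lit 0) (nat_lit 0) (nat_lit 0) (nat_lit 0) (nat_lit 0) (nat_lit 1) (nat_lit 0) (nat_lit 1) (nat_lit 0) (nat_lit 426) (nat_lit 438) (nat_lit 156)))) (XT.nd (nat_lit 78) (nat_lit 0) (nat_lit 0) (XT.lf (nat_lit 0) (nat_lit 128071240611) (nat_lit 0) (nat_lit 0) (nat_lit 0) (nat_lit 0) (nat_lit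 0) (nat_lit 0) (nat_lit 1) (nat_lit 0) (nat_lit 1) (nat_lit 0) (nat_lit 427) (nat_lit 438) (nat_lit 155)) (XT.nd (nat_lit 78) (nat_lit 0) (nat_lit 0) (XT.lf (nat_lit 0) (nat_lit 128071234464) (nat_lit 0) (nat_lit 0) (nat_lit 0) (nat_lit 0) (nat_lit 0) (nat_lit 0) (nat_lit 1) (nat_lit 0) (nat_lit 1) (nat_lit 0) (nat_lit 428) (nat_lit 438) (nat_lit 154)) (XT.lf (nat_lit 0) (nat_lit 128071228610) (nat_lit 0) (nat_lit 0) (nat_lit 0) (nat_lit 0) (nat_lit 0) (nat_lit 0) (nat_lit 1) (nat_lit 0) (nat_lit 1) (nat_lit 0) (nat_lit 429) (nat_lit 438) (nat_lit 153))))) (XT.nd (nat_lit 31590) (nat_lit 0) (nat_lit 20900) (XT.nd (nat_lit 78) (nat_lit 0) (nat_lit 0) (XT.lf (nat_lit 0) (nat_lit 128071223034) (nat_lit 0) (nat_lit 0) (nat_lit 0) (nat_lit 0) (nat_lit 0) (nat_lit 0) (nat_lit 1) (nat_lit 0) (nat_lit 1) (nat_lit 0) (nat_lit 430) (nat_lit 438) (nat_lit 152)) (XT.nd (nat_lit 31434) (nat_lit 0) (nat_lit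 21812) (XT.lf (nat_lit 0) (nat_lit 128071217724) (nat_lit 0) (nat_lit 0) (nat_lit 0) (nat_lit 0) (nat_lit 0) (nat_lit 0) (nat_lit 1) (nat_lit 0) (nat_lit 1) (nat_lit 0) (nat_lit 431) (nat_lit 438) (nat_lit 151)) (XT.lf (nat_lit 836) (nat_lit 15429749615) (nat_lit 0) (nat_lit 188889153272) (nat_lit 760) (nat_lit 188889153272) (nat_lit 298) (nat_lit 1) (nat_lit 287) (nat_lit 1) (nat_lit 297) (nat_lit 1) (nat_lit 153) (nat_lit 439) (nat_lit 428)))) (XT.nd (nat_lit 156) (nat_lit 380) (nat_lit 0) (XT.nd (nat_lit 78) (nat_lit 0) (nat_lit 0) (XT.lf (nat_lit 532) (nat_lit 366167390095) (nat_lit 0) (nat_lit 9243044734) (nat_lit 456) (nat_lit 9243044734) (nat_lit 287) (nat_lit 1) (nat_lit 280) (nat_lit 1) (nat_lit 286) (nat_lit 1) (nat_lit 154) (nat_lit 439) (nat_lit 427)) (XT.lf (nat_lit 76) (nat_lit 160087745657) (nat_lit 0) (nat_lit 56033455978) (nat_lit 532) (nat_lit 160087745657) (nat_lit 281) (nat_lit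 1) (nat_lit 280) (nat_lit 1) (nat_lit 287) (nat_lit 1) (nat_lit 155) (nat_lit 439) (nat_lit 426))) (XT.nd (nat_lit 78) (nat_lit 0) (nat_lit 0) (XT.lf (nat_lit 456) (nat_lit 275469917534) (nat_lit 0) (nat_lit 46326790812) (nat_lit 380) (nat_lit 46326790812) (nat_lit 281) (nat_lit 1) (nat_lit 275) (nat_lit 1) (nat_lit 280) (nat_lit 1) (nat_lit 156) (nat_lit 439) (nat_lit 425)) (XT.lf (nat_lit 76) (nat_lit 114188640156) (nat_lit 0) (nat_lit 131830749180) (nat_lit 456) (nat_lit 114188640156) (nat_lit 276) (nat_lit 1) (nat_lit 275) (nat_lit 1) (nat_lit 281) (nat_lit 1) (nat_lit 157) (nat_lit 439) (nat_lit 424)))))) (XT.nd (nat_lit 468) (nat_lit 1140) (nat_lit 0) (XT.nd (nat_lit 234) (nat_lit 684) (nat_lit 0) (XT.nd (nat_lit 78) (nat_lit 304) (nat_lit 0) (XT.lf (nat_lit 456) (nat_lit 181400847219) (nat_lit 0) (nat_lit 85583693619) (nat_lit 380) (nat_lit 85583693619) (nat_lit 276) (nat_lit 1) (nat_lit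 270) (nat_lit 1) (nat_lit 275) (nat_lit 1) (nat_lit 158) (nat_lit 439) (nat_lit 423)) (XT.nd (nat_lit 78) (nat_lit 304) (nat_lit 0) (XT.lf (nat_lit 76) (nat_lit 66843801374) (nat_lit 0) (nat_lit 211463027658) (nat_lit 456) (nat_lit 66843801374) (nat_lit 271) (nat_lit 1) (nat_lit 270) (nat_lit 1) (nat_lit 276) (nat_lit 1) (nat_lit 159) (nat_lit 439) (nat_lit 422)) (XT.lf (nat_lit 380) (nat_lit 84835723545) (nat_lit 0) (nat_lit 126544054026) (nat_lit 304) (nat_lit 126544054026) (nat_lit 271) (nat_lit 1) (nat_lit 266) (nat_lit 1) (nat_lit 270) (nat_lit 1) (nat_lit 160) (nat_lit 439) (nat_lit 421)))) (XT.nd (nat_lit 78) (nat_lit 684) (nat_lit 0) (XT.lf (nat_lit 76) (nat_lit 18459687369) (nat_lit 0) (nat_lit 294055565157) (nat_lit 380) (nat_lit 18459687369) (nat_lit 267) (nat_lit 1) (nat_lit 266) (nat_lit 1) (nat_lit 271) (nat_lit 1) (nat_lit 161) (nat_lit 439) (nat_lit 420)) (XT.nd (nat_lit 78) (nat_lit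 304) (nat_lit 0) (XT.lf (nat_lit 76) (nat_lit 155546630164) (nat_lit 0) (nat_lit 13027332427) (nat_lit 380) (nat_lit 155546630164) (nat_lit 262) (nat_lit 1) (nat_lit 261) (nat_lit 1) (nat_lit 266) (nat_lit 1) (nat_lit 162) (nat_lit 439) (nat_lit 419)) (XT.lf (nat_lit 380) (nat_lit 257298656251) (nat_lit 0) (nat_lit 30114309853) (nat_lit 304) (nat_lit 30114309853) (nat_lit 262) (nat_lit 1) (nat_lit 257) (nat_lit 1) (nat_lit 261) (nat_lit 1) (nat_lit 163) (nat_lit 439) (nat_lit 418))))) (XT.nd (nat_lit 234) (nat_lit 836) (nat_lit 0) (XT.nd (nat_lit 78) (nat_lit 304) (nat_lit 0) (XT.lf (nat_lit 76) (nat_lit 100923844614) (nat_lit 0) (nat_lit 109199379743) (nat_lit 380) (nat_lit 100923844614) (nat_lit 258) (nat_lit 1) (nat_lit 257) (nat_lit 1) (nat_lit 262) (nat_lit 1) (nat_lit 164) (nat_lit 439) (nat_lit 417)) (XT.nd (nat_lit 78) (nat_lit 0) (nat_lit 0) (XT.lf (nat_lit 380) (nat_lit 147275964127)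 (nat_lit 0) (nat_lit 78757804326) (nat_lit 304) (nat_lit 78757804326) (nat_lit 258) (nat_lit 1) (nat_lit 253) (nat_lit 1) (nat_lit 257) (nat_lit 1) (nat_lit 165) (nat_lit 439) (nat_lit 416)) (XT.lf (nat_lit 76) (nat_lit 46444266267) (nat_lit 0) (nat_lit 205830455298) (nat_lit 380) (nat_lit 46444266267) (nat_lit 254) (nat_lit 1) (nat_lit 253) (nat_lit 1) (nat_lit 258) (nat_lit 1) (nat_lit 166) (nat_lit 439) (nat_lit 415)))) (XT.nd (nat_lit 156) (nat_lit 228) (nat_lit 0) (XT.nd (nat_lit 78) (nat_lit 380) (nat_lit 0) (XT.lf (nat_lit 304) (nat_lit 37771132583) (nat_lit 0) (nat_lit 127503176552) (nat_lit 228) (nat_lit 127503176552) (nat_lit 254) (nat_lit 1) (nat_lit 250) (nat_lit 1) (nat_lit 253) (nat_lit 1) (nat_lit 167) (nat_lit 439) (nat_lit 414)) (XT.lf (nat_lit 380) (nat_lit 271971876955) (nat_lit 0) (nat_lit 7546697728) (nat_lit 304) (nat_lit 7546697728) (nat_lit 250) (nat_lit 1) (nat_lit 245)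 (nat_lit 1) (nat_lit 249) (nat_lit 1) (nat_lit 168) (nat_lit 439) (nat_lit 413))) (XT.nd (nat_lit 78) (nat_lit 228) (nat_lit 0) (XT.lf (nat_lit 76) (nat_lit 106424606106) (nat_lit 0) (nat_lit 68535463335) (nat_lit 380) (nat_lit 106424606106) (nat_lit 246) (nat_lit 1) (nat_lit 245) (nat_lit 1) (nat_lit 250) (nat_lit 1) (nat_lit 169) (nat_lit 439) (nat_lit 412)) (XT.lf (nat_lit 304) (nat_lit 155436501759) (nat_lit 0) (nat_lit 60242721466) (nat_lit 228) (nat_lit 60242721466) (nat_lit 246) (nat_lit 1) (nat_lit 242) (nat_lit 1) (nat_lit 245) (nat_lit 1) (nat_lit 170) (nat_lit 439) (nat_lit 411))))))))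
noncomputable def ec456 : XT := (XT.nd (nat_lit 1950) (nat_lit 2128) (nat_lit 0) (XT.nd (nat_lit 936) (nat_lit 1292) (nat_lit 0) (XT.nd (nat_lit 468) (nat_lit 836) (nat_lit 0) (XT.nd (nat_lit 234) (nat_lit 228) (nat_lit 0) (XT.nd (nat_lit 78) (nat_lit 532) (nat_lit 0) (XT.lf (nat_lit 76) (nat_lit 49104795262) (nat_lit 0) (nat_lit 172388413381) (nat_lit 304) (nat_lit 49104795262) (nat_lit 243) (nat_lit 1) (nat_lit 242) (nat_lit 1) (nat_lit 246) (nat_lit 1) (nat_lit 171) (nat_lit 439) (nat_lit 410)) (XT.nd (nat_lit 78) (nat_lit 304) (nat_lit 0) (XT.lf (nat_lit 304) (nat_lit 40927312022) (nat_lit 0) (nat_lit 112233934656) (nat_lit 228) (nat_lit 112233934656) (nat_lit 243) (nat_lit 1) (nat_lit 239) (nat_lit 1) (nat_lit 242) (nat_lit 1) (nat_lit 172) (nat_lit 439) (nat_lit 409)) (XT.lf (nat_lit 304) (nat_lit 246318087534) (nat_lit 0) (nat_lit 7033781346) (nat_lit 228) (nat_lit 7033781346) (nat_lit 239)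 (nat_lit 1) (nat_lit 235) (nat_lit 1) (nat_lit 238) (nat_lit 1) (nat_lit 173) (nat_lit 439) (nat_lit 408)))) (XT.nd (nat_lit 78) (nat_lit 228) (nat_lit 0) (XT.lf (nat_lit 76) (nat_lit 93175078408) (nat_lit 0) (nat_lit 69041797519) (nat_lit 304) (nat_lit 93175078408) (nat_lit 236) (nat_lit 1) (nat_lit 235) (nat_lit 1) (nat_lit 239) (nat_lit 1) (nat_lit 174) (nat_lit 439) (nat_lit 407)) (XT.nd (nat_lit 78) (nat_lit 0) (nat_lit 0) (XT.lf (nat_lit 304) (nat_lit 128124264469) (nat_lit 0) (nat_lit 61229380763) (nat_lit 228) (nat_lit 61229380763) (nat_lit 236) (nat_lit 1) (nat_lit 232) (nat_lit 1) (nat_lit 235) (nat_lit 1) (nat_lit 175) (nat_lit 439) (nat_lit 406)) (XT.lf (nat_lit 76) (nat_lit 35285317941) (nat_lit 0) (nat_lit 175332439416) (nat_lit 304) (nat_lit 35285317941) (nat_lit 233) (nat_lit 1) (nat_lit 232) (nat_lit 1) (nat_lit 236) (nat_lit 1) (nat_lit 176) (nat_lit 439) (nat_lit 405))))) (XT.nd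 (nat_lit 234) (nat_lit 380) (nat_lit 0) (XT.nd (nat_lit 78) (nat_lit 304) (nat_lit 0) (XT.lf (nat_lit 228) (nat_lit 12929713707) (nat_lit 0) (nat_lit 114190800880) (nat_lit 152) (nat_lit 114190800880) (nat_lit 233) (nat_lit 1) (nat_lit 230) (nat_lit 1) (nat_lit 232) (nat_lit 1) (nat_lit 177) (nat_lit 439) (nat_lit 404)) (XT.nd (nat_lit 78) (nat_lit 0) (nat_lit 0) (XT.lf (nat_lit 304) (nat_lit 195363638585) (nat_lit 0) (nat_lit 20749034479) (nat_lit 228) (nat_lit 20749034479) (nat_lit 230) (nat_lit 1) (nat_lit 226) (nat_lit 1) (nat_lit 229) (nat_lit 1) (nat_lit 178) (nat_lit 439) (nat_lit 403)) (XT.lf (nat_lit 76) (nat_lit 68235881584) (nat_lit 0) (nat_lit 95990101034) (nat_lit 304) (nat_lit 68235881584) (nat_lit 227) (nat_lit 1) (nat_lit 226) (nat_lit 1) (nat_lit 230) (nat_lit 1) (nat_lit 179) (nat_lit 439) (nat_lit 402)))) (XT.nd (nat_lit 78) (nat_lit 228) (nat_lit 0) (XT.lf (nat_lit 228) (nat_lit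 78836035337) (nat_lit 0) (nat_lit 74680888380) (nat_lit 152) (nat_lit 74680888380) (nat_lit 227) (nat_lit 1) (nat_lit 224) (nat_lit 1) (nat_lit 226) (nat_lit 1) (nat_lit 180) (nat_lit 439) (nat_lit 401)) (XT.nd (nat_lit 78) (nat_lit 228) (nat_lit 0) (XT.lf (nat_lit 76) (nat_lit 11326235975) (nat_lit 0) (nat_lit 201422795567) (nat_lit 228) (nat_lit 11326235975) (nat_lit 225) (nat_lit 1) (nat_lit 224) (nat_lit 1) (nat_lit 227) (nat_lit 1) (nat_lit 181) (nat_lit 439) (nat_lit 400)) (XT.lf (nat_lit 76) (nat_lit 93477412640) (nat_lit 0) (nat_lit 33012883405) (nat_lit 228) (nat_lit 93477412640) (nat_lit 222) (nat_lit 1) (nat_lit 221) (nat_lit 1) (nat_lit 224) (nat_lit 1) (nat_lit 182) (nat_lit 439) (nat_lit 399)))))) (XT.nd (nat_lit 468) (nat_lit 608) (nat_lit 0) (XT.nd (nat_lit 234) (nat_lit 380) (nat_lit 0) (XT.nd (nat_lit 78) (nat_lit 152) (nat_lit 0) (XT.lf (nat_lit 228) (nat_lit 129809770776) (nat_lit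 0) (nat_lit 43093326830) (nat_lit 152) (nat_lit 43093326830) (nat_lit 222) (nat_lit 1) (nat_lit 219) (nat_lit 1) (nat_lit 221) (nat_lit 1) (nat_lit 183) (nat_lit 439) (nat_lit 398)) (XT.nd (nat_lit 78) (nat_lit 152) (nat_lit 0) (XT.lf (nat_lit 76) (nat_lit 36628940158) (nat_lit 0) (nat_lit 138855033930) (nat_lit 228) (nat_lit 36628940158) (nat_lit 220) (nat_lit 1) (nat_lit 219) (nat_lit 1) (nat_lit 222) (nat_lit 1) (nat_lit 184) (nat_lit 439) (nat_lit 397)) (XT.lf (nat_lit 228) (nat_lit 17159339698) (nat_lit 0) (nat_lit 95574172961) (nat_lit 152) (nat_lit 95574172961) (nat_lit 220) (nat_lit 1) (nat_lit 217) (nat_lit 1) (nat_lit 219) (nat_lit 1) (nat_lit 185) (nat_lit 439) (nat_lit 396)))) (XT.nd (nat_lit 78) (nat_lit 152) (nat_lit 0) (XT.lf (nat_lit 228) (nat_lit 168653076243) (nat_lit 0) (nat_lit 17979820097) (nat_lit 152) (nat_lit 17979820097) (nat_lit 217) (nat_lit 1) (nat_lit 214) (nat_lit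 1) (nat_lit 216) (nat_lit 1) (nat_lit 186) (nat_lit 439) (nat_lit 395)) (XT.nd (nat_lit 78) (nat_lit 152) (nat_lit 0) (XT.lf (nat_lit 76) (nat_lit 56145022374) (nat_lit 0) (nat_lit 88659238659) (nat_lit 228) (nat_lit 56145022374) (nat_lit 215) (nat_lit 1) (nat_lit 214) (nat_lit 1) (nat_lit 217) (nat_lit 1) (nat_lit 187) (nat_lit 439) (nat_lit 394)) (XT.lf (nat_lit 228) (nat_lit 57180979416) (nat_lit 0) (nat_lit 70105612751) (nat_lit 152) (nat_lit 70105612751) (nat_lit 215) (nat_lit 1) (nat_lit 212) (nat_lit 1) (nat_lit 214) (nat_lit 1) (nat_lit 188) (nat_lit 439) (nat_lit 393))))) (XT.nd (nat_lit 234) (nat_lit 304) (nat_lit 0) (XT.nd (nat_lit 78) (nat_lit 304) (nat_lit 0) (XT.lf (nat_lit 76) (nat_lit 1879381092) (nat_lit 0) (nat_lit 190201111169) (nat_lit 228) (nat_lit 1879381092) (nat_lit 213) (nat_lit 1) (nat_lit 212) (nat_lit 1) (nat_lit 215) (nat_lit 1) (nat_lit 189) (nat_lit 439) (nat_lit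 392)) (XT.nd (nat_lit 78) (nat_lit 152) (nat_lit 0) (XT.lf (nat_lit 76) (nat_lit 70962365672) (nat_lit 0) (nat_lit 48580992780) (nat_lit 152) (nat_lit 70962365672) (nat_lit 211) (nat_lit 1) (nat_lit 210) (nat_lit 1) (nat_lit 212) (nat_lit 1) (nat_lit 190) (nat_lit 439) (nat_lit 391)) (XT.lf (nat_lit 228) (nat_lit 88056217258) (nat_lit 0) (nat_lit 49558445993) (nat_lit 152) (nat_lit 49558445993) (nat_lit 211) (nat_lit 1) (nat_lit 208) (nat_lit 1) (nat_lit 210) (nat_lit 1) (nat_lit 191) (nat_lit 439) (nat_lit 390)))) (XT.nd (nat_lit 156) (nat_lit 152) (nat_lit 0) (XT.nd (nat_lit 78) (nat_lit 152) (nat_lit 0) (XT.lf (nat_lit 76) (nat_lit 17654662982) (nat_lit 0) (nat_lit 148621124132) (nat_lit 228) (nat_lit 17654662982) (nat_lit 209) (nat_lit 1) (nat_lit 208) (nat_lit 1) (nat_lit 211) (nat_lit 1) (nat_lit 192) (nat_lit 439) (nat_lit 389)) (XT.lf (nat_lit 76) (nat_lit 81973025109) (nat_lit 0) (nat_lit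 16768481770) (nat_lit 152) (nat_lit 81973025109) (nat_lit 207) (nat_lit 1) (nat_lit 206) (nat_lit 1) (nat_lit 208) (nat_lit 1) (nat_lit 193) (nat_lit 439) (nat_lit 388))) (XT.nd (nat_lit 78) (nat_lit 0) (nat_lit 0) (XT.lf (nat_lit 228) (nat_lit 111504338317) (nat_lit 0) (nat_lit 33040794152) (nat_lit 152) (nat_lit 33040794152) (nat_lit 207) (nat_lit 1) (nat_lit 204) (nat_lit 1) (nat_lit 206) (nat_lit 1) (nat_lit 194) (nat_lit 439) (nat_lit 387)) (XT.lf (nat_lit 76) (nat_lit 29865955409) (nat_lit 0) (nat_lit 114787346882) (nat_lit 228) (nat_lit 29865955409) (nat_lit 205) (nat_lit 1) (nat_lit 204) (nat_lit 1) (nat_lit 207) (nat_lit 1) (nat_lit 195) (nat_lit 439) (nat_lit 386))))))) (XT.nd (nat_lit 936) (nat_lit 988) (nat_lit 0) (XT.nd (nat_lit 468) (nat_lit 532) (nat_lit 0) (XT.nd (nat_lit 234) (nat_lit 304) (nat_lit 0) (XT.nd (nat_lit 78) (nat_lit 228) (nat_lit 0) (XT.lf (nat_lit 152) (nat_lit 8573428190)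 (nat_lit 0) (nat_lit 81468515059) (nat_lit 76) (nat_lit 81468515059) (nat_lit 205) (nat_lit 1) (nat_lit 203) (nat_lit 1) (nat_lit 204) (nat_lit 1) (nat_lit 196) (nat_lit 439) (nat_lit 385)) (XT.nd (nat_lit 78) (nat_lit 0) (nat_lit 0) (XT.lf (nat_lit 228) (nat_lit 128935152663) (nat_lit 0) (nat_lit 19819826914) (nat_lit 152) (nat_lit 19819826914) (nat_lit 203) (nat_lit 1) (nat_lit 200) (nat_lit 1) (nat_lit 202) (nat_lit 1) (nat_lit 197) (nat_lit 439) (nat_lit 384)) (XT.lf (nat_lit 76) (nat_lit 39181672077) (nat_lit 0) (nat_lit 87308577452) (nat_lit 228) (nat_lit 39181672077) (nat_lit 201) (nat_lit 1) (nat_lit 200) (nat_lit 1) (nat_lit 203) (nat_lit 1) (nat_lit 198) (nat_lit 439) (nat_lit 383)))) (XT.nd (nat_lit 78) (nat_lit 228) (nat_lit 0) (XT.lf (nat_lit 152) (nat_lit 28791514142) (nat_lit 0) (nat_lit 67024348956) (nat_lit 76) (nat_lit 67024348956) (nat_lit 201) (nat_lit 1) (nat_lit 199) (nat_lit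 1) (nat_lit 200) (nat_lit 1) (nat_lit 199) (nat_lit 439) (nat_lit 382)) (XT.nd (nat_lit 78) (nat_lit 0) (nat_lit 0) (XT.lf (nat_lit 228) (nat_lit 141504085926) (nat_lit 0) (nat_lit 9293519506) (nat_lit 152) (nat_lit 9293519506) (nat_lit 199) (nat_lit 1) (nat_lit 196) (nat_lit 1) (nat_lit 198) (nat_lit 1) (nat_lit 200) (nat_lit 439) (nat_lit 381)) (XT.lf (nat_lit 76) (nat_lit 46149979203) (nat_lit 0) (nat_lit 65041119023) (nat_lit 228) (nat_lit 46149979203) (nat_lit 197) (nat_lit 1) (nat_lit 196) (nat_lit 1) (nat_lit 199) (nat_lit 1) (nat_lit 201) (nat_lit 439) (nat_lit 380))))) (XT.nd (nat_lit 234) (nat_lit 228) (nat_lit 0) (XT.nd (nat_lit 78) (nat_lit 228) (nat_lit 0) (XT.lf (nat_lit 152) (nat_lit 44389834273) (nat_lit 0) (nat_lit 55141097758) (nat_lit 76) (nat_lit 55141097758) (nat_lit 197) (nat_lit 1) (nat_lit 195) (nat_lit 1) (nat_lit 196) (nat_lit 1) (nat_lit 202) (nat_lit 439) (nat_lit 379))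 (XT.nd (nat_lit 78) (nat_lit 0) (nat_lit 0) (XT.lf (nat_lit 228) (nat_lit 150157491915) (nat_lit 0) (nat_lit 967419454) (nat_lit 152) (nat_lit 967419454) (nat_lit 195) (nat_lit 1) (nat_lit 192) (nat_lit 1) (nat_lit 194) (nat_lit 1) (nat_lit 203) (nat_lit 439) (nat_lit 378)) (XT.lf (nat_lit 76) (nat_lit 51220197930) (nat_lit 0) (nat_lit 47044857473) (nat_lit 228) (nat_lit 51220197930) (nat_lit 193) (nat_lit 1) (nat_lit 192) (nat_lit 1) (nat_lit 195) (nat_lit 1) (nat_lit 204) (nat_lit 439) (nat_lit 377)))) (XT.nd (nat_lit 78) (nat_lit 152) (nat_lit 0) (XT.lf (nat_lit 152) (nat_lit 56236754451) (nat_lit 0) (nat_lit 45364717588) (nat_lit 76) (nat_lit 45364717588) (nat_lit 193) (nat_lit 1) (nat_lit 191) (nat_lit 1) (nat_lit 192) (nat_lit 1) (nat_lit 205) (nat_lit 439) (nat_lit 376)) (XT.nd (nat_lit 78) (nat_lit 152) (nat_lit 0) (XT.lf (nat_lit 0) (nat_lit 5655686217) (nat_lit 0) (nat_lit 133211808235)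 (nat_lit 152) (nat_lit 5655686217) (nat_lit 191) (nat_lit 3) (nat_lit 191) (nat_lit 1) (nat_lit 193) (nat_lit 1) (nat_lit 206) (nat_lit 439) (nat_lit 375)) (XT.lf (nat_lit 76) (nat_lit 54760408194) (nat_lit 0) (nat_lit 32547128182) (nat_lit 152) (nat_lit 54760408194) (nat_lit 190) (nat_lit 1) (nat_lit 189) (nat_lit 1) (nat_lit 191) (nat_lit 1) (nat_lit 207) (nat_lit 439) (nat_lit 374)))))) (XT.nd (nat_lit 468) (nat_lit 532) (nat_lit 0) (XT.nd (nat_lit 234) (nat_lit 228) (nat_lit 0) (XT.nd (nat_lit 78) (nat_lit 152) (nat_lit 0) (XT.lf (nat_lit 152) (nat_lit 65044334146) (nat_lit 0) (nat_lit 37321665428) (nat_lit 76) (nat_lit 37321665428) (nat_lit 190) (nat_lit 1) (nat_lit 188) (nat_lit 1) (nat_lit 189) (nat_lit 1) (nat_lit 208) (nat_lit 439) (nat_lit 373)) (XT.nd (nat_lit 78) (nat_lit 152) (nat_lit 0) (XT.lf (nat_lit 0) (nat_lit 10809739534) (nat_lit 0) (nat_lit 115750476793) (nat_lit 152) (nat_lit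 10809739534) (nat_lit 188) (nat_lit 3) (nat_lit 188) (nat_lit 1) (nat_lit 190) (nat_lit 1) (nat_lit 209) (nat_lit 439) (nat_lit 372)) (XT.lf (nat_lit 76) (nat_lit 57071927721) (nat_lit 0) (nat_lit 20912991011) (nat_lit 152) (nat_lit 57071927721) (nat_lit 187) (nat_lit 1) (nat_lit 186) (nat_lit 1) (nat_lit 188) (nat_lit 1) (nat_lit 210) (nat_lit 439) (nat_lit 371)))) (XT.nd (nat_lit 78) (nat_lit 152) (nat_lit 0) (XT.lf (nat_lit 152) (nat_lit 71396150944) (nat_lit 0) (nat_lit 30704626511) (nat_lit 76) (nat_lit 30704626511) (nat_lit 187) (nat_lit 1) (nat_lit 185) (nat_lit 1) (nat_lit 186) (nat_lit 1) (nat_lit 211) (nat_lit 439) (nat_lit 370)) (XT.nd (nat_lit 78) (nat_lit 152) (nat_lit 0) (XT.lf (nat_lit 0) (nat_lit 14756811359) (nat_lit 0) (nat_lit 101091815608) (nat_lit 152) (nat_lit 14756811359) (nat_lit 185) (nat_lit 3) (nat_lit 185) (nat_lit 1) (nat_lit 187) (nat_lit 1) (nat_lit 212) (nat_lit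 439) (nat_lit 369)) (XT.lf (nat_lit 76) (nat_lit 58401220347) (nat_lit 0) (nat_lit 11620777181) (nat_lit 152) (nat_lit 58401220347) (nat_lit 184) (nat_lit 1) (nat_lit 183) (nat_lit 1) (nat_lit 185) (nat_lit 1) (nat_lit 213) (nat_lit 439) (nat_lit 368))))) (XT.nd (nat_lit 234) (nat_lit 304) (nat_lit 0) (XT.nd (nat_lit 78) (nat_lit 152) (nat_lit 0) (XT.lf (nat_lit 152) (nat_lit 75770186521) (nat_lit 0) (nat_lit 25260772218) (nat_lit 76) (nat_lit 25260772218) (nat_lit 184) (nat_lit 1) (nat_lit 182) (nat_lit 1) (nat_lit 183) (nat_lit 1) (nat_lit 214) (nat_lit 439) (nat_lit 367)) (XT.nd (nat_lit 78) (nat_lit 152) (nat_lit 0) (XT.lf (nat_lit 0) (nat_lit 17724857503) (nat_lit 0) (nat_lit 88752879160) (nat_lit 152) (nat_lit 17724857503) (nat_lit 182) (nat_lit 3) (nat_lit 182) (nat_lit 1) (nat_lit 184) (nat_lit 1) (nat_lit 215) (nat_lit 439) (nat_lit 366)) (XT.lf (nat_lit 76) (nat_lit 58949689625) (nat_lit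 0) (nat_lit 4241973310) (nat_lit 152) (nat_lit 58949689625) (nat_lit 181) (nat_lit 1) (nat_lit 180) (nat_lit 1) (nat_lit 182) (nat_lit 1) (nat_lit 216) (nat_lit 439) (nat_lit 365)))) (XT.nd (nat_lit 156) (nat_lit 228) (nat_lit 0) (XT.nd (nat_lit 78) (nat_lit 0) (nat_lit 0) (XT.lf (nat_lit 152) (nat_lit 78557649917) (nat_lit 0) (nat_lit 20782099819) (nat_lit 76) (nat_lit 20782099819) (nat_lit 181) (nat_lit 1) (nat_lit 179) (nat_lit 1) (nat_lit 180) (nat_lit 1) (nat_lit 217) (nat_lit 439) (nat_lit 364)) (XT.lf (nat_lit 0) (nat_lit 19900752969) (nat_lit 0) (nat_lit 78335682166) (nat_lit 152) (nat_lit 19900752969) (nat_lit 179) (nat_lit 3) (nat_lit 179) (nat_lit 1) (nat_lit 181) (nat_lit 1) (nat_lit 218) (nat_lit 439) (nat_lit 363))) (XT.nd (nat_lit 78) (nat_lit 152) (nat_lit 0) (XT.lf (nat_lit 76) (nat_lit 1627413883) (nat_lit 0) (nat_lit 57279727403) (nat_lit 76) (nat_lit 57279727403) (nat_lit 179)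 (nat_lit 3) (nat_lit 178) (nat_lit 1) (nat_lit 179) (nat_lit 1) (nat_lit 219) (nat_lit 439) (nat_lit 362)) (XT.lf (nat_lit 152) (nat_lit 80078458668) (nat_lit 0) (nat_lit 17097484952) (nat_lit 76) (nat_lit 17097484952) (nat_lit 178) (nat_lit 1) (nat_lit 176) (nat_lit 1) (nat_lit 177) (nat_lit 1) (nat_lit 220) (nat_lit 439) (nat_lit 361))))))))
noncomputable def ec457 : XT := (XT.nd (nat_lit 1950) (nat_lit 2052) (nat_lit 0) (XT.nd (nat_lit 936) (nat_lit 912) (nat_lit 0) (XT.nd (nat_lit 468) (nat_lit 456) (nat_lit 0) (XT.nd (nat_lit 234) (nat_lit 228) (nat_lit 0) (XT.nd (nat_lit 78) (nat_lit 228) (nat_lit 0) (XT.lf (nat_lit 0) (nat_lit 21437607134) (nat_lit 0) (nat_lit 69512167998) (nat_lit 152) (nat_lit 21437607134) (nat_lit 176) (nat_lit 3) (nat_lit 176) (nat_lit 1) (nat_lit 178) (nat_lit 1) (nat_lit 221) (nat_lit 439) (nat_lit 360)) (XT.nd (nat_lit 78) (nat_lit 152) (nat_lit 0) (XT.lf (nat_lit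 76) (nat_lit 6322388934) (nat_lit 0) (nat_lit 52107684996) (nat_lit 76) (nat_lit 52107684996) (nat_lit 176) (nat_lit 3) (nat_lit 175) (nat_lit 1) (nat_lit 176) (nat_lit 1) (nat_lit 222) (nat_lit 439) (nat_lit 359)) (XT.lf (nat_lit 152) (nat_lit 80593970569) (nat_lit 0) (nat_lit 14066143183) (nat_lit 76) (nat_lit 14066143183) (nat_lit 175) (nat_lit 1) (nat_lit 173) (nat_lit 1) (nat_lit 174) (nat_lit 1) (nat_lit 223) (nat_lit 439) (nat_lit 358)))) (XT.nd (nat_lit 78) (nat_lit 228) (nat_lit 0) (XT.lf (nat_lit 0) (nat_lit 22460780457) (nat_lit 0) (nat_lit 62011840655) (nat_lit 152) (nat_lit 22460780457) (nat_lit 173) (nat_lit 3) (nat_lit 173) (nat_lit 1) (nat_lit 175) (nat_lit 1) (nat_lit 224) (nat_lit 439) (nat_lit 357)) (XT.nd (nat_lit 78) (nat_lit 152) (nat_lit 0) (XT.lf (nat_lit 76) (nat_lit 9947646457) (nat_lit 0) (nat_lit 47615322835) (nat_lit 76) (nat_lit 47615322835) (nat_lit 173) (nat_lit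 3) (nat_lit 172) (nat_lit 1) (nat_lit 173) (nat_lit 1) (nat_lit 225) (nat_lit 439) (nat_lit 356)) (XT.lf (nat_lit 152) (nat_lit 80317453750) (nat_lit 0) (nat_lit 11572250807) (nat_lit 76) (nat_lit 11572250807) (nat_lit 172) (nat_lit 1) (nat_lit 170) (nat_lit 1) (nat_lit 171) (nat_lit 1) (nat_lit 226) (nat_lit 439) (nat_lit 355))))) (XT.nd (nat_lit 234) (nat_lit 228) (nat_lit 0) (XT.nd (nat_lit 78) (nat_lit 228) (nat_lit 0) (XT.lf (nat_lit 0) (nat_lit 23072833015) (nat_lit 0) (nat_lit 55611588121) (nat_lit 152) (nat_lit 23072833015) (nat_lit 170) (nat_lit 3) (nat_lit 170) (nat_lit 1) (nat_lit 172) (nat_lit 1) (nat_lit 227) (nat_lit 439) (nat_lit 354)) (XT.nd (nat_lit 78) (nat_lit 152) (nat_lit 0) (XT.lf (nat_lit 76) (nat_lit 12704145200) (nat_lit 0) (nat_lit 43693435777) (nat_lit 76) (nat_lit 43693435777) (nat_lit 170) (nat_lit 3) (nat_lit 169) (nat_lit 1) (nat_lit 170) (nat_lit 1) (nat_lit 228)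 (nat_lit 439) (nat_lit 353)) (XT.lf (nat_lit 152) (nat_lit 79422696264) (nat_lit 0) (nat_lit 9520519378) (nat_lit 76) (nat_lit 9520519378) (nat_lit 169) (nat_lit 1) (nat_lit 167) (nat_lit 1) (nat_lit 168) (nat_lit 1) (nat_lit 229) (nat_lit 439) (nat_lit 352)))) (XT.nd (nat_lit 78) (nat_lit 228) (nat_lit 0) (XT.lf (nat_lit 0) (nat_lit 23357594296) (nat_lit 0) (nat_lit 50127308648) (nat_lit 152) (nat_lit 23357594296) (nat_lit 167) (nat_lit 3) (nat_lit 167) (nat_lit 1) (nat_lit 169) (nat_lit 1) (nat_lit 230) (nat_lit 439) (nat_lit 351)) (XT.nd (nat_lit 78) (nat_lit 152) (nat_lit 0) (XT.lf (nat_lit 76) (nat_lit 14756676308) (nat_lit 0) (nat_lit 40251642357) (nat_lit 76) (nat_lit 40251642357) (nat_lit 167) (nat_lit 3) (nat_lit 166) (nat_lit 1) (nat_lit 167) (nat_lit 1) (nat_lit 231) (nat_lit 439) (nat_lit 350)) (XT.lf (nat_lit 152) (nat_lit 78051085243) (nat_lit 0) (nat_lit 7832554853) (nat_lit 76)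 (nat_lit 7832554853) (nat_lit 166) (nat_lit 1) (nat_lit 164) (nat_lit 1) (nat_lit 165) (nat_lit 1) (nat_lit 232) (nat_lit 439) (nat_lit 349)))))) (XT.nd (nat_lit 468) (nat_lit 456) (nat_lit 0) (XT.nd (nat_lit 234) (nat_lit 228) (nat_lit 0) (XT.nd (nat_lit 78) (nat_lit 228) (nat_lit 0) (XT.lf (nat_lit 0) (nat_lit 23383510131) (nat_lit 0) (nat_lit 45407020378) (nat_lit 152) (nat_lit 23383510131) (nat_lit 164) (nat_lit 3) (nat_lit 164) (nat_lit 1) (nat_lit 166) (nat_lit 1) (nat_lit 233) (nat_lit 439) (nat_lit 348)) (XT.nd (nat_lit 78) (nat_lit 152) (nat_lit 0) (XT.lf (nat_lit 76) (nat_lit 16240301367) (nat_lit 0) (nat_lit 37215073030) (nat_lit 76) (nat_lit 37215073030) (nat_lit 164) (nat_lit 3) (nat_lit 163) (nat_lit 1) (nat_lit 164) (nat_lit 1) (nat_lit 234) (nat_lit 439) (nat_lit 347)) (XT.lf (nat_lit 152) (nat_lit 76317427153) (nat_lit 0) (nat_lit 6443862262) (nat_lit 76) (nat_lit 6443862262) (nat_lit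 163) (nat_lit 1) (nat_lit 161) (nat_lit 1) (nat_lit 162) (nat_lit 1) (nat_lit 235) (nat_lit 439) (nat_lit 346)))) (XT.nd (nat_lit 78) (nat_lit 228) (nat_lit 0) (XT.lf (nat_lit 0) (nat_lit 23206394986) (nat_lit 0) (nat_lit 41325191370) (nat_lit 152) (nat_lit 23206394986) (nat_lit 161) (nat_lit 3) (nat_lit 161) (nat_lit 1) (nat_lit 163) (nat_lit 1) (nat_lit 236) (nat_lit 439) (nat_lit 345)) (XT.nd (nat_lit 78) (nat_lit 152) (nat_lit 0) (XT.lf (nat_lit 76) (nat_lit 17265647791) (nat_lit 0) (nat_lit 34521644347) (nat_lit 76) (nat_lit 34521644347) (nat_lit 161) (nat_lit 3) (nat_lit 160) (nat_lit 1) (nat_lit 161) (nat_lit 1) (nat_lit 237) (nat_lit 439) (nat_lit 344)) (XT.lf (nat_lit 152) (nat_lit 74314732534) (nat_lit 0) (nat_lit 5301381430) (nat_lit 76) (nat_lit 5301381430) (nat_lit 160) (nat_lit 1) (nat_lit 158) (nat_lit 1) (nat_lit 159) (nat_lit 1) (nat_lit 238) (nat_lit 439) (nat_lit 343))))) (XT.nd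 (nat_lit 234) (nat_lit 228) (nat_lit 0) (XT.nd (nat_lit 78) (nat_lit 228) (nat_lit 0) (XT.lf (nat_lit 0) (nat_lit 22871695093) (nat_lit 0) (nat_lit 37778073718) (nat_lit 152) (nat_lit 22871695093) (nat_lit 158) (nat_lit 3) (nat_lit 158) (nat_lit 1) (nat_lit 160) (nat_lit 1) (nat_lit 239) (nat_lit 439) (nat_lit 342)) (XT.nd (nat_lit 78) (nat_lit 152) (nat_lit 0) (XT.lf (nat_lit 76) (nat_lit 17923264182) (nat_lit 0) (nat_lit 32119815253) (nat_lit 76) (nat_lit 32119815253) (nat_lit 158) (nat_lit 3) (nat_lit 157) (nat_lit 1) (nat_lit 158) (nat_lit 1) (nat_lit 240) (nat_lit 439) (nat_lit 341)) (XT.lf (nat_lit 152) (nat_lit 72118148985) (nat_lit 0) (nat_lit 4361459622) (nat_lit 76) (nat_lit 4361459622) (nat_lit 157) (nat_lit 1) (nat_lit 155) (nat_lit 1) (nat_lit 156) (nat_lit 1) (nat_lit 241) (nat_lit 439) (nat_lit 340)))) (XT.nd (nat_lit 156) (nat_lit 152) (nat_lit 0) (XT.nd (nat_lit 78) (nat_lit 76)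 (nat_lit 0) (XT.lf (nat_lit 0) (nat_lit 22416349210) (nat_lit 0) (nat_lit 34679863795) (nat_lit 152) (nat_lit 22416349210) (nat_lit 155) (nat_lit 3) (nat_lit 155) (nat_lit 1) (nat_lit 157) (nat_lit 1) (nat_lit 242) (nat_lit 439) (nat_lit 339)) (XT.lf (nat_lit 76) (nat_lit 18287202384) (nat_lit 0) (nat_lit 29966740084) (nat_lit 76) (nat_lit 29966740084) (nat_lit 155) (nat_lit 3) (nat_lit 154) (nat_lit 1) (nat_lit 155) (nat_lit 1) (nat_lit 243) (nat_lit 439) (nat_lit 338))) (XT.nd (nat_lit 78) (nat_lit 0) (nat_lit 0) (XT.lf (nat_lit 152) (nat_lit 69788193566) (nat_lit 0) (nat_lit 3588183625) (nat_lit 76) (nat_lit 3588183625) (nat_lit 154) (nat_lit 1) (nat_lit 152) (nat_lit 1) (nat_lit 153) (nat_lit 1) (nat_lit 244) (nat_lit 439) (nat_lit 337)) (XT.lf (nat_lit 0) (nat_lit 21870318403) (nat_lit 0) (nat_lit 31959542202) (nat_lit 152) (nat_lit 21870318403) (nat_lit 152) (nat_lit 3) (nat_lit 152) (nat_lit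 1) (nat_lit 154) (nat_lit 1) (nat_lit 245) (nat_lit 439) (nat_lit 336))))))) (XT.nd (nat_lit 1014) (nat_lit 1064) (nat_lit 0) (XT.nd (nat_lit 468) (nat_lit 532) (nat_lit 0) (XT.nd (nat_lit 234) (nat_lit 228) (nat_lit 0) (XT.nd (nat_lit 78) (nat_lit 152) (nat_lit 0) (XT.lf (nat_lit 76) (nat_lit 18417963406) (nat_lit 0) (nat_lit 28026747977) (nat_lit 76) (nat_lit 28026747977) (nat_lit 152) (nat_lit 3) (nat_lit 151) (nat_lit 1) (nat_lit 152) (nat_lit 1) (nat_lit 246) (nat_lit 439) (nat_lit 335)) (XT.nd (nat_lit 78) (nat_lit 0) (nat_lit 0) (XT.lf (nat_lit 152) (nat_lit 67373409005) (nat_lit 0) (nat_lit 2952007548) (nat_lit 76) (nat_lit 2952007548) (nat_lit 151) (nat_lit 1) (nat_lit 149) (nat_lit 1) (nat_lit 150) (nat_lit 1) (nat_lit 247) (nat_lit 439) (nat_lit 334)) (XT.lf (nat_lit 0) (nat_lit 21257843582) (nat_lit 0) (nat_lit 29558272970) (nat_lit 152) (nat_lit 21257843582) (nat_lit 149) (nat_lit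 3) (nat_lit 149) (nat_lit 1) (nat_lit 151) (nat_lit 1) (nat_lit 248) (nat_lit 439) (nat_lit 333)))) (XT.nd (nat_lit 78) (nat_lit 152) (nat_lit 0) (XT.lf (nat_lit 76) (nat_lit 18364920026) (nat_lit 0) (nat_lit 26270090871) (nat_lit 76) (nat_lit 26270090871) (nat_lit 149) (nat_lit 3) (nat_lit 148) (nat_lit 1) (nat_lit 149) (nat_lit 1) (nat_lit 249) (nat_lit 439) (nat_lit 332)) (XT.nd (nat_lit 78) (nat_lit 0) (nat_lit 0) (XT.lf (nat_lit 152) (nat_lit 64912545988) (nat_lit 0) (nat_lit 2428623915) (nat_lit 76) (nat_lit 2428623915) (nat_lit 148) (nat_lit 1) (nat_lit 146) (nat_lit 1) (nat_lit 147) (nat_lit 1) (nat_lit 250) (nat_lit 439) (nat_lit 331)) (XT.lf (nat_lit 0) (nat_lit 20598479102) (nat_lit 0) (nat_lit 27427262901) (nat_lit 152) (nat_lit 20598479102) (nat_lit 146) (nat_lit 3) (nat_lit 146) (nat_lit 1) (nat_lit 148) (nat_lit 1) (nat_lit 251) (nat_lit 439) (nat_lit 330))))) (XT.nd (nat_lit 234)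 (nat_lit 304) (nat_lit 0) (XT.nd (nat_lit 78) (nat_lit 152) (nat_lit 0) (XT.lf (nat_lit 76) (nat_lit 18168308917) (nat_lit 0) (nat_lit 24671912535) (nat_lit 76) (nat_lit 24671912535) (nat_lit 146) (nat_lit 3) (nat_lit 145) (nat_lit 1) (nat_lit 146) (nat_lit 1) (nat_lit 252) (nat_lit 439) (nat_lit 329)) (XT.nd (nat_lit 78) (nat_lit 0) (nat_lit 0) (XT.lf (nat_lit 152) (nat_lit 62436355718) (nat_lit 0) (nat_lit 1998034905) (nat_lit 76) (nat_lit 1998034905) (nat_lit 145) (nat_lit 1) (nat_lit 143) (nat_lit 1) (nat_lit 144) (nat_lit 1) (nat_lit 253) (nat_lit 439) (nat_lit 328)) (XT.lf (nat_lit 0) (nat_lit 19907942190) (nat_lit 0) (nat_lit 25525999521) (nat_lit 152) (nat_lit 19907942190) (nat_lit 143) (nat_lit 3) (nat_lit 143) (nat_lit 1) (nat_lit 145) (nat_lit 1) (nat_lit 254) (nat_lit 439) (nat_lit 327)))) (XT.nd (nat_lit 156) (nat_lit 76) (nat_lit 0) (XT.nd (nat_lit 78) (nat_lit 152) (nat_lit 0) (XT.lf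 (nat_lit 76) (nat_lit 17860868673) (nat_lit 0) (nat_lit 23211399465) (nat_lit 76) (nat_lit 23211399465) (nat_lit 143) (nat_lit 3) (nat_lit 142) (nat_lit 1) (nat_lit 143) (nat_lit 1) (nat_lit 255) (nat_lit 439) (nat_lit 326)) (XT.lf (nat_lit 152) (nat_lit 59969061975) (nat_lit 0) (nat_lit 1643788261) (nat_lit 76) (nat_lit 1643788261) (nat_lit 142) (nat_lit 1) (nat_lit 140) (nat_lit 1) (nat_lit 141) (nat_lit 1) (nat_lit 256) (nat_lit 439) (nat_lit 325))) (XT.nd (nat_lit 78) (nat_lit 76) (nat_lit 0) (XT.lf (nat_lit 0) (nat_lit 19198810884) (nat_lit 0) (nat_lit 23820800554) (nat_lit 152) (nat_lit 19198810884) (nat_lit 140) (nat_lit 3) (nat_lit 140) (nat_lit 1) (nat_lit 142) (nat_lit 1) (nat_lit 257) (nat_lit 439) (nat_lit 324)) (XT.lf (nat_lit 76) (nat_lit 17469186539) (nat_lit 0) (nat_lit 21871081463) (nat_lit 76) (nat_lit 21871081463) (nat_lit 140) (nat_lit 3) (nat_lit 139) (nat_lit 1) (nat_lit 140)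 (nat_lit 1) (nat_lit 258) (nat_lit 439) (nat_lit 323)))))) (XT.nd (nat_lit 468) (nat_lit 608) (nat_lit 0) (XT.nd (nat_lit 234) (nat_lit 228) (nat_lit 0) (XT.nd (nat_lit 78) (nat_lit 76) (nat_lit 0) (XT.lf (nat_lit 152) (nat_lit 57529569611) (nat_lit 0) (nat_lit 1352348670) (nat_lit 76) (nat_lit 1352348670) (nat_lit 139) (nat_lit 1) (nat_lit 137) (nat_lit 1) (nat_lit 138) (nat_lit 1) (nat_lit 259) (nat_lit 439) (nat_lit 322)) (XT.nd (nat_lit 78) (nat_lit 76) (nat_lit 0) (XT.lf (nat_lit 0) (nat_lit 18481097395) (nat_lit 0) (nat_lit 22283619736) (nat_lit 152) (nat_lit 18481097395) (nat_lit 137) (nat_lit 3) (nat_lit 137) (nat_lit 1) (nat_lit 139) (nat_lit 1) (nat_lit 260) (nat_lit 439) (nat_lit 321)) (XT.lf (nat_lit 76) (nat_lit 17014805551) (nat_lit 0) (nat_lit 20636255399) (nat_lit 76) (nat_lit 20636255399) (nat_lit 137) (nat_lit 3) (nat_lit 136) (nat_lit 1) (nat_lit 137) (nat_lit 1) (nat_lit 261)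 (nat_lit 439) (nat_lit 320)))) (XT.nd (nat_lit 78) (nat_lit 76) (nat_lit 0) (XT.lf (nat_lit 152) (nat_lit 55132456353) (nat_lit 0) (nat_lit 1112580598) (nat_lit 76) (nat_lit 1112580598) (nat_lit 136) (nat_lit 1) (nat_lit 134) (nat_lit 1) (nat_lit 135) (nat_lit 1) (nat_lit 262) (nat_lit 439) (nat_lit 319)) (XT.nd (nat_lit 78) (nat_lit 76) (nat_lit 0) (XT.lf (nat_lit 0) (nat_lit 17762719010) (nat_lit 0) (nat_lit 20891063550) (nat_lit 152) (nat_lit 17762719010) (nat_lit 134) (nat_lit 3) (nat_lit 134) (nat_lit 1) (nat_lit 136) (nat_lit 1) (nat_lit 263) (nat_lit 439) (nat_lit 318)) (XT.lf (nat_lit 76) (nat_lit 16515134590) (nat_lit 0) (nat_lit 19494510342) (nat_lit 76) (nat_lit 19494510342) (nat_lit 134) (nat_lit 3) (nat_lit 133) (nat_lit 1) (nat_lit 134) (nat_lit 1) (nat_lit 264) (nat_lit 439) (nat_lit 317))))) (XT.nd (nat_lit 234) (nat_lit 380) (nat_lit 0) (XT.nd (nat_lit 78) (nat_lit 76) (nat_lit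 0) (XT.lf (nat_lit 152) (nat_lit 52788786435) (nat_lit 0) (nat_lit 915322811) (nat_lit 76) (nat_lit 915322811) (nat_lit 133) (nat_lit 1) (nat_lit 131) (nat_lit 1) (nat_lit 132) (nat_lit 1) (nat_lit 265) (nat_lit 439) (nat_lit 316)) (XT.nd (nat_lit 78) (nat_lit 76) (nat_lit 0) (XT.lf (nat_lit 0) (nat_lit 17049884742) (nat_lit 0) (nat_lit 19623581537) (nat_lit 152) (nat_lit 17049884742) (nat_lit 131) (nat_lit 3) (nat_lit 131) (nat_lit 1) (nat_lit 133) (nat_lit 1) (nat_lit 266) (nat_lit 439) (nat_lit 315)) (XT.lf (nat_lit 76) (nat_lit 15984196341) (nat_lit 0) (nat_lit 18435336146) (nat_lit 76) (nat_lit 18435336146) (nat_lit 131) (nat_lit 3) (nat_lit 130) (nat_lit 1) (nat_lit 131) (nat_lit 1) (nat_lit 267) (nat_lit 439) (nat_lit 314)))) (XT.nd (nat_lit 156) (nat_lit 228) (nat_lit 0) (XT.nd (nat_lit 78) (nat_lit 0) (nat_lit 0) (XT.lf (nat_lit 152) (nat_lit 50506777768) (nat_lit 0) (nat_lit 753038342)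 (nat_lit 76) (nat_lit 753038342) (nat_lit 130) (nat_lit 1) (nat_lit 128) (nat_lit 1) (nat_lit 129) (nat_lit 1) (nat_lit 268) (nat_lit 439) (nat_lit 313)) (XT.lf (nat_lit 0) (nat_lit 16347412708) (nat_lit 0) (nat_lit 18464799431) (nat_lit 152) (nat_lit 16347412708) (nat_lit 128) (nat_lit 3) (nat_lit 128) (nat_lit 1) (nat_lit 130) (nat_lit 1) (nat_lit 269) (nat_lit 439) (nat_lit 312))) (XT.nd (nat_lit 78) (nat_lit 152) (nat_lit 0) (XT.lf (nat_lit 76) (nat_lit 15433241928) (nat_lit 0) (nat_lit 17449800711) (nat_lit 76) (nat_lit 17449800711) (nat_lit 128) (nat_lit 3) (nat_lit 127) (nat_lit 1) (nat_lit 128) (nat_lit 1) (nat_lit 270) (nat_lit 439) (nat_lit 311)) (XT.lf (nat_lit 152) (nat_lit 48292348707) (nat_lit 0) (nat_lit 619526507) (nat_lit 76) (nat_lit 619526507) (nat_lit 127) (nat_lit 1) (nat_lit 125) (nat_lit 1) (nat_lit 126) (nat_lit 1) (nat_lit 271) (nat_lit 439) (nat_lit 310))))))))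
noncomputable def ec458 : XT := (XT.nd (nat_lit 1950) (nat_lit 1900) (nat_lit 0) (XT.nd (nat_lit 936) (nat_lit 912) (nat_lit 0) (XT.nd (nat_lit 468) (nat_lit 456) (nat_lit 0) (XT.nd (nat_lit 234) (nat_lit 228) (nat_lit 0) (XT.nd (nat_lit 78) (nat_lit 228) (nat_lit 0) (XT.lf (nat_lit 0) (nat_lit 15658990545) (nat_lit 0) (nat_lit 17400969842) (nat_lit 152) (nat_lit 15658990545) (nat_lit 125) (nat_lit 3) (nat_lit 125) (nat_lit 1) (nat_lit 127) (nat_lit 1) (nat_lit 272) (nat_lit 439) (nat_lit 309)) (XT.nd (nat_lit 78) (nat_lit 152) (nat_lit 0) (XT.lf (nat_lit 76) (nat_lit 14871255891) (nat_lit 0) (nat_lit 16530283792) (nat_lit 76) (nat_lit 16530283792) (nat_lit 125) (nat_lit 3) (nat_lit 124) (nat_lit 1) (nat_lit 125) (nat_lit 1) (nat_lit 273) (nat_lit 439) (nat_lit 308)) (XT.lf (nat_lit 152) (nat_lit 46149565885) (nat_lit 0) (nat_lit 509685991) (nat_lit 76) (nat_lit 509685991) (nat_lit 124) (nat_lit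 1) (nat_lit 122) (nat_lit 1) (nat_lit 123) (nat_lit 1) (nat_lit 274) (nat_lit 439) (nat_lit 307)))) (XT.nd (nat_lit 78) (nat_lit 228) (nat_lit 0) (XT.lf (nat_lit 0) (nat_lit 14987388992) (nat_lit 0) (nat_lit 16420519671) (nat_lit 152) (nat_lit 14987388992) (nat_lit 122) (nat_lit 3) (nat_lit 122) (nat_lit 1) (nat_lit 124) (nat_lit 1) (nat_lit 275) (nat_lit 439) (nat_lit 306)) (XT.nd (nat_lit 78) (nat_lit 152) (nat_lit 0) (XT.lf (nat_lit 76) (nat_lit 14305370989) (nat_lit 0) (nat_lit 15670257349) (nat_lit 76) (nat_lit 15670257349) (nat_lit 122) (nat_lit 3) (nat_lit 121) (nat_lit 1) (nat_lit 122) (nat_lit 1) (nat_lit 276) (nat_lit 439) (nat_lit 305)) (XT.lf (nat_lit 152) (nat_lit 44081010721) (nat_lit 0) (nat_lit 419319926) (nat_lit 76) (nat_lit 419319926) (nat_lit 121) (nat_lit 1) (nat_lit 119) (nat_lit 1) (nat_lit 120) (nat_lit 1) (nat_lit 277) (nat_lit 439) (nat_lit 304))))) (XT.nd (nat_lit 234)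 (nat_lit 228) (nat_lit 0) (XT.nd (nat_lit 78) (nat_lit 228) (nat_lit 0) (XT.lf (nat_lit 0) (nat_lit 14334636984) (nat_lit 0) (nat_lit 15513677140) (nat_lit 152) (nat_lit 14334636984) (nat_lit 119) (nat_lit 3) (nat_lit 119) (nat_lit 1) (nat_lit 121) (nat_lit 1) (nat_lit 278) (nat_lit 439) (nat_lit 303)) (XT.nd (nat_lit 78) (nat_lit 152) (nat_lit 0) (XT.lf (nat_lit 76) (nat_lit 13741208843) (nat_lit 0) (nat_lit 14864104230) (nat_lit 76) (nat_lit 14864104230) (nat_lit 119) (nat_lit 3) (nat_lit 118) (nat_lit 1) (nat_lit 119) (nat_lit 1) (nat_lit 279) (nat_lit 439) (nat_lit 302)) (XT.lf (nat_lit 152) (nat_lit 42088079141) (nat_lit 0) (nat_lit 344975541) (nat_lit 76) (nat_lit 344975541) (nat_lit 118) (nat_lit 1) (nat_lit 116) (nat_lit 1) (nat_lit 117) (nat_lit 1) (nat_lit 280) (nat_lit 439) (nat_lit 301)))) (XT.nd (nat_lit 78) (nat_lit 228) (nat_lit 0) (XT.lf (nat_lit 0) (nat_lit 13702165102) (nat_lit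 0) (nat_lit 14672164356) (nat_lit 152) (nat_lit 13702165102) (nat_lit 116) (nat_lit 3) (nat_lit 116) (nat_lit 1) (nat_lit 118) (nat_lit 1) (nat_lit 281) (nat_lit 439) (nat_lit 300)) (XT.nd (nat_lit 78) (nat_lit 152) (nat_lit 0) (XT.lf (nat_lit 76) (nat_lit 13183159596) (nat_lit 0) (nat_lit 14106968410) (nat_lit 76) (nat_lit 14106968410) (nat_lit 116) (nat_lit 3) (nat_lit 115) (nat_lit 1) (nat_lit 116) (nat_lit 1) (nat_lit 282) (nat_lit 439) (nat_lit 299)) (XT.lf (nat_lit 152) (nat_lit 40171226421) (nat_lit 0) (nat_lit 283812231) (nat_lit 76) (nat_lit 283812231) (nat_lit 115) (nat_lit 1) (nat_lit 113) (nat_lit 1) (nat_lit 114) (nat_lit 1) (nat_lit 283) (nat_lit 439) (nat_lit 298)))))) (XT.nd (nat_lit 468) (nat_lit 456) (nat_lit 0) (XT.nd (nat_lit 234) (nat_lit 228) (nat_lit 0) (XT.nd (nat_lit 78) (nat_lit 228) (nat_lit 0) (XT.lf (nat_lit 0) (nat_lit 13090923026) (nat_lit 0) (nat_lit 13888943812)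 (nat_lit 152) (nat_lit 13090923026) (nat_lit 113) (nat_lit 3) (nat_lit 113) (nat_lit 1) (nat_lit 115) (nat_lit 1) (nat_lit 284) (nat_lit 439) (nat_lit 297)) (XT.nd (nat_lit 78) (nat_lit 152) (nat_lit 0) (XT.lf (nat_lit 76) (nat_lit 12634611429) (nat_lit 0) (nat_lit 13394631226) (nat_lit 76) (nat_lit 13394631226) (nat_lit 113) (nat_lit 3) (nat_lit 112) (nat_lit 1) (nat_lit 113) (nat_lit 1) (nat_lit 285) (nat_lit 439) (nat_lit 296)) (XT.lf (nat_lit 152) (nat_lit 38330166966) (nat_lit 0) (nat_lit 233493025) (nat_lit 76) (nat_lit 233493025) (nat_lit 112) (nat_lit 1) (nat_lit 110) (nat_lit 1) (nat_lit 111) (nat_lit 1) (nat_lit 286) (nat_lit 439) (nat_lit 295)))) (XT.nd (nat_lit 78) (nat_lit 228) (nat_lit 0) (XT.lf (nat_lit 0) (nat_lit 12501475614) (nat_lit 0) (nat_lit 13158009291) (nat_lit 152) (nat_lit 12501475614) (nat_lit 110) (nat_lit 3) (nat_lit 110) (nat_lit 1) (nat_lit 112) (nat_lit 1) (nat_lit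 287) (nat_lit 439) (nat_lit 294)) (XT.nd (nat_lit 78) (nat_lit 152) (nat_lit 0) (XT.lf (nat_lit 76) (nat_lit 12098138857) (nat_lit 0) (nat_lit 12723409025) (nat_lit 76) (nat_lit 12723409025) (nat_lit 110) (nat_lit 3) (nat_lit 109) (nat_lit 1) (nat_lit 110) (nat_lit 1) (nat_lit 288) (nat_lit 439) (nat_lit 293)) (XT.lf (nat_lit 152) (nat_lit 36564037102) (nat_lit 0) (nat_lit 192095289) (nat_lit 76) (nat_lit 192095289) (nat_lit 109) (nat_lit 1) (nat_lit 107) (nat_lit 1) (nat_lit 108) (nat_lit 1) (nat_lit 289) (nat_lit 439) (nat_lit 292))))) (XT.nd (nat_lit 234) (nat_lit 228) (nat_lit 0) (XT.nd (nat_lit 78) (nat_lit 228) (nat_lit 0) (XT.lf (nat_lit 0) (nat_lit 11934081444) (nat_lit 0) (nat_lit 12474213325) (nat_lit 152) (nat_lit 11934081444) (nat_lit 107) (nat_lit 3) (nat_lit 107) (nat_lit 1) (nat_lit 109) (nat_lit 1) (nat_lit 290) (nat_lit 439) (nat_lit 291)) (XT.nd (nat_lit 78) (nat_lit 152) (nat_lit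 0) (XT.lf (nat_lit 76) (nat_lit 11575657126) (nat_lit 0) (nat_lit 12090068441) (nat_lit 76) (nat_lit 12090068441) (nat_lit 107) (nat_lit 3) (nat_lit 106) (nat_lit 1) (nat_lit 107) (nat_lit 1) (nat_lit 291) (nat_lit 439) (nat_lit 290)) (XT.lf (nat_lit 152) (nat_lit 34871527507) (nat_lit 0) (nat_lit 158037270) (nat_lit 76) (nat_lit 158037270) (nat_lit 106) (nat_lit 1) (nat_lit 104) (nat_lit 1) (nat_lit 105) (nat_lit 1) (nat_lit 292) (nat_lit 439) (nat_lit 289)))) (XT.nd (nat_lit 156) (nat_lit 152) (nat_lit 0) (XT.nd (nat_lit 78) (nat_lit 76) (nat_lit 0) (XT.lf (nat_lit 0) (nat_lit 11388756927) (nat_lit 0) (nat_lit 11833124762) (nat_lit 152) (nat_lit 11388756927) (nat_lit 104) (nat_lit 3) (nat_lit 104) (nat_lit 1) (nat_lit 106) (nat_lit 1) (nat_lit 293) (nat_lit 439) (nat_lit 288)) (XT.lf (nat_lit 76) (nat_lit 11068548763) (nat_lit 0) (nat_lit 11491756225) (nat_lit 76) (nat_lit 11491756225) (nat_lit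 104) (nat_lit 3) (nat_lit 103) (nat_lit 1) (nat_lit 104) (nat_lit 1) (nat_lit 294) (nat_lit 439) (nat_lit 287))) (XT.nd (nat_lit 78) (nat_lit 0) (nat_lit 0) (XT.lf (nat_lit 152) (nat_lit 33250990737) (nat_lit 0) (nat_lit 130017653) (nat_lit 76) (nat_lit 130017653) (nat_lit 103) (nat_lit 1) (nat_lit 101) (nat_lit 1) (nat_lit 102) (nat_lit 1) (nat_lit 295) (nat_lit 439) (nat_lit 286)) (XT.lf (nat_lit 0) (nat_lit 10865328593) (nat_lit 0) (nat_lit 11230911110) (nat_lit 152) (nat_lit 10865328593) (nat_lit 101) (nat_lit 3) (nat_lit 101) (nat_lit 1) (nat_lit 103) (nat_lit 1) (nat_lit 296) (nat_lit 439) (nat_lit 285))))))) (XT.nd (nat_lit 936) (nat_lit 988) (nat_lit 0) (XT.nd (nat_lit 468) (nat_lit 456) (nat_lit 0) (XT.nd (nat_lit 234) (nat_lit 228) (nat_lit 0) (XT.nd (nat_lit 78) (nat_lit 152) (nat_lit 0) (XT.lf (nat_lit 76) (nat_lit 10577767220) (nat_lit 0) (nat_lit 10925941046) (nat_lit 76) (nat_lit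 10925941046) (nat_lit 101) (nat_lit 3) (nat_lit 100) (nat_lit 1) (nat_lit 101) (nat_lit 1) (nat_lit 297) (nat_lit 439) (nat_lit 284)) (XT.nd (nat_lit 78) (nat_lit 0) (nat_lit 0) (XT.lf (nat_lit 152) (nat_lit 31700528328) (nat_lit 0) (nat_lit 106965845) (nat_lit 76) (nat_lit 106965845) (nat_lit 100) (nat_lit 1) (nat_lit 98) (nat_lit 1) (nat_lit 99) (nat_lit 1) (nat_lit 298) (nat_lit 439) (nat_lit 283)) (XT.lf (nat_lit 0) (nat_lit 10363475660) (nat_lit 0) (nat_lit 10664241302) (nat_lit 152) (nat_lit 10363475660) (nat_lit 98) (nat_lit 3) (nat_lit 98) (nat_lit 1) (nat_lit 100) (nat_lit 1) (nat_lit 299) (nat_lit 439) (nat_lit 282)))) (XT.nd (nat_lit 78) (nat_lit 152) (nat_lit 0) (XT.lf (nat_lit 76) (nat_lit 10103921708) (nat_lit 0) (nat_lit 10390365177) (nat_lit 76) (nat_lit 10390365177) (nat_lit 98) (nat_lit 3) (nat_lit 97) (nat_lit 1) (nat_lit 98) (nat_lit 1) (nat_lit 300) (nat_lit 439) (nat_lit 281))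 (XT.nd (nat_lit 78) (nat_lit 0) (nat_lit 0) (XT.lf (nat_lit 152) (nat_lit 30218061164) (nat_lit 0) (nat_lit 88001065) (nat_lit 76) (nat_lit 88001065) (nat_lit 97) (nat_lit 1) (nat_lit 95) (nat_lit 1) (nat_lit 96) (nat_lit 1) (nat_lit 301) (nat_lit 439) (nat_lit 280)) (XT.lf (nat_lit 0) (nat_lit 9882764633) (nat_lit 0) (nat_lit 10130205270) (nat_lit 152) (nat_lit 9882764633) (nat_lit 95) (nat_lit 3) (nat_lit 95) (nat_lit 1) (nat_lit 97) (nat_lit 1) (nat_lit 302) (nat_lit 439) (nat_lit 279))))) (XT.nd (nat_lit 234) (nat_lit 228) (nat_lit 0) (XT.nd (nat_lit 78) (nat_lit 152) (nat_lit 0) (XT.lf (nat_lit 76) (nat_lit 9647346574) (nat_lit 0) (nat_lit 9883004324) (nat_lit 76) (nat_lit 9883004324) (nat_lit 95) (nat_lit 3) (nat_lit 94) (nat_lit 1) (nat_lit 95) (nat_lit 1) (nat_lit 303) (nat_lit 439) (nat_lit 278)) (XT.nd (nat_lit 78) (nat_lit 0) (nat_lit 0) (XT.lf (nat_lit 152) (nat_lit 28801386138) (nat_lit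 0) (nat_lit 72398694) (nat_lit 76) (nat_lit 72398694) (nat_lit 94) (nat_lit 1) (nat_lit 92) (nat_lit 1) (nat_lit 93) (nat_lit 1) (nat_lit 304) (nat_lit 439) (nat_lit 277)) (XT.lf (nat_lit 0) (nat_lit 9422677359) (nat_lit 0) (nat_lit 9626247384) (nat_lit 152) (nat_lit 9422677359) (nat_lit 92) (nat_lit 3) (nat_lit 92) (nat_lit 1) (nat_lit 94) (nat_lit 1) (nat_lit 305) (nat_lit 439) (nat_lit 276)))) (XT.nd (nat_lit 78) (nat_lit 152) (nat_lit 0) (XT.lf (nat_lit 76) (nat_lit 9208157977) (nat_lit 0) (nat_lit 9402034192) (nat_lit 76) (nat_lit 9402034192) (nat_lit 92) (nat_lit 3) (nat_lit 91) (nat_lit 1) (nat_lit 92) (nat_lit 1) (nat_lit 306) (nat_lit 439) (nat_lit 275)) (XT.nd (nat_lit 78) (nat_lit 0) (nat_lit 0) (XT.lf (nat_lit 152) (nat_lit 27448221591) (nat_lit 0) (nat_lit 59562585) (nat_lit 76) (nat_lit 59562585) (nat_lit 91) (nat_lit 1) (nat_lit 89) (nat_lit 1) (nat_lit 90) (nat_lit 1) (nat_lit 307)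 (nat_lit 439) (nat_lit 274)) (XT.lf (nat_lit 0) (nat_lit 8982633732) (nat_lit 0) (nat_lit 9150111295) (nat_lit 152) (nat_lit 8982633732) (nat_lit 89) (nat_lit 3) (nat_lit 89) (nat_lit 1) (nat_lit 91) (nat_lit 1) (nat_lit 308) (nat_lit 439) (nat_lit 273)))))) (XT.nd (nat_lit 468) (nat_lit 532) (nat_lit 0) (XT.nd (nat_lit 234) (nat_lit 228) (nat_lit 0) (XT.nd (nat_lit 78) (nat_lit 152) (nat_lit 0) (XT.lf (nat_lit 76) (nat_lit 8786300142) (nat_lit 0) (nat_lit 8945802584) (nat_lit 76) (nat_lit 8945802584) (nat_lit 89) (nat_lit 3) (nat_lit 88) (nat_lit 1) (nat_lit 89) (nat_lit 1) (nat_lit 309) (nat_lit 439) (nat_lit 272)) (XT.nd (nat_lit 78) (nat_lit 0) (nat_lit 0) (XT.lf (nat_lit 152) (nat_lit 26156243582) (nat_lit 0) (nat_lit 49002286) (nat_lit 76) (nat_lit 49002286) (nat_lit 88) (nat_lit 1) (nat_lit 86) (nat_lit 1) (nat_lit 87) (nat_lit 1) (nat_lit 310) (nat_lit 439) (nat_lit 271)) (XT.lf (nat_lit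 0) (nat_lit 8562010002) (nat_lit 0) (nat_lit 8699794207) (nat_lit 152) (nat_lit 8562010002) (nat_lit 86) (nat_lit 3) (nat_lit 86) (nat_lit 1) (nat_lit 88) (nat_lit 1) (nat_lit 311) (nat_lit 439) (nat_lit 270)))) (XT.nd (nat_lit 78) (nat_lit 152) (nat_lit 0) (XT.lf (nat_lit 76) (nat_lit 8381583049) (nat_lit 0) (nat_lit 8512806102) (nat_lit 76) (nat_lit 8512806102) (nat_lit 86) (nat_lit 3) (nat_lit 85) (nat_lit 1) (nat_lit 86) (nat_lit 1) (nat_lit 312) (nat_lit 439) (nat_lit 269)) (XT.nd (nat_lit 78) (nat_lit 0) (nat_lit 0) (XT.lf (nat_lit 152) (nat_lit 24923114659) (nat_lit 0) (nat_lit 40314302) (nat_lit 76) (nat_lit 40314302) (nat_lit 85) (nat_lit 1) (nat_lit 83) (nat_lit 1) (nat_lit 84) (nat_lit 1) (nat_lit 313) (nat_lit 439) (nat_lit 268)) (XT.lf (nat_lit 0) (nat_lit 8160153484) (nat_lit 0) (nat_lit 8273508891) (nat_lit 152) (nat_lit 8160153484) (nat_lit 83) (nat_lit 3) (nat_lit 83) (nat_lit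 1) (nat_lit 85) (nat_lit 1) (nat_lit 314) (nat_lit 439) (nat_lit 267))))) (XT.nd (nat_lit 234) (nat_lit 304) (nat_lit 0) (XT.nd (nat_lit 78) (nat_lit 152) (nat_lit 0) (XT.lf (nat_lit 76) (nat_lit 7993713096) (nat_lit 0) (nat_lit 8101670626) (nat_lit 76) (nat_lit 8101670626) (nat_lit 83) (nat_lit 3) (nat_lit 82) (nat_lit 1) (nat_lit 83) (nat_lit 1) (nat_lit 315) (nat_lit 439) (nat_lit 266)) (XT.nd (nat_lit 78) (nat_lit 0) (nat_lit 0) (XT.lf (nat_lit 152) (nat_lit 23746506523) (nat_lit 0) (nat_lit 33166676) (nat_lit 76) (nat_lit 33166676) (nat_lit 82) (nat_lit 1) (nat_lit 80) (nat_lit 1) (nat_lit 81) (nat_lit 1) (nat_lit 316) (nat_lit 439) (nat_lit 265)) (XT.lf (nat_lit 0) (nat_lit 7776394339) (nat_lit 0) (nat_lit 7869652113) (nat_lit 152) (nat_lit 7776394339) (nat_lit 80) (nat_lit 3) (nat_lit 80) (nat_lit 1) (nat_lit 82) (nat_lit 1) (nat_lit 317) (nat_lit 439) (nat_lit 264)))) (XT.nd (nat_lit 156)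 (nat_lit 76) (nat_lit 0) (XT.nd (nat_lit 78) (nat_lit 152) (nat_lit 0) (XT.lf (nat_lit 76) (nat_lit 7622318002) (nat_lit 0) (nat_lit 7711134930) (nat_lit 76) (nat_lit 7711134930) (nat_lit 80) (nat_lit 3) (nat_lit 79) (nat_lit 1) (nat_lit 80) (nat_lit 1) (nat_lit 318) (nat_lit 439) (nat_lit 263)) (XT.lf (nat_lit 152) (nat_lit 22624117696) (nat_lit 0) (nat_lit 27286306) (nat_lit 76) (nat_lit 27286306) (nat_lit 79) (nat_lit 1) (nat_lit 77) (nat_lit 1) (nat_lit 78) (nat_lit 1) (nat_lit 319) (nat_lit 439) (nat_lit 262))) (XT.nd (nat_lit 78) (nat_lit 76) (nat_lit 0) (XT.lf (nat_lit 0) (nat_lit 7410054937) (nat_lit 0) (nat_lit 7486778339) (nat_lit 152) (nat_lit 7410054937) (nat_lit 77) (nat_lit 3) (nat_lit 77) (nat_lit 1) (nat_lit 79) (nat_lit 1) (nat_lit 320) (nat_lit 439) (nat_lit 261)) (XT.lf (nat_lit 76) (nat_lit 7266966985) (nat_lit 0) (nat_lit 7340036891) (nat_lit 76) (nat_lit 7340036891) (nat_lit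 77) (nat_lit 3) (nat_lit 76) (nat_lit 1) (nat_lit 77) (nat_lit 1) (nat_lit 321) (nat_lit 439) (nat_lit 260))))))))
noncomputable def ec459 : XT := (XT.nd (nat_lit 1950) (nat_lit 1900) (nat_lit 0) (XT.nd (nat_lit 936) (nat_lit 1064) (nat_lit 0) (XT.nd (nat_lit 468) (nat_lit 456) (nat_lit 0) (XT.nd (nat_lit 234) (nat_lit 228) (nat_lit 0) (XT.nd (nat_lit 78) (nat_lit 76) (nat_lit 0) (XT.lf (nat_lit 152) (nat_lit 21553687154) (nat_lit 0) (nat_lit 22448511) (nat_lit 76) (nat_lit 22448511) (nat_lit 76) (nat_lit 1) (nat_lit 74) (nat_lit 1) (nat_lit 75) (nat_lit 1) (nat_lit 322) (nat_lit 439) (nat_lit 259)) (XT.nd (nat_lit 78) (nat_lit 76) (nat_lit 0) (XT.lf (nat_lit 0) (nat_lit 7060457268) (nat_lit 0) (nat_lit 7123577800) (nat_lit 152) (nat_lit 7060457268) (nat_lit 74) (nat_lit 3) (nat_lit 74) (nat_lit 1) (nat_lit 76) (nat_lit 1) (nat_lit 323) (nat_lit 439) (nat_lit 258)) (XT.lf (nat_lit 76) (nat_lit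 6927187057) (nat_lit 0) (nat_lit 6987301849) (nat_lit 76) (nat_lit 6987301849) (nat_lit 74) (nat_lit 3) (nat_lit 73) (nat_lit 1) (nat_lit 74) (nat_lit 1) (nat_lit 324) (nat_lit 439) (nat_lit 257)))) (XT.nd (nat_lit 78) (nat_lit 76) (nat_lit 0) (XT.lf (nat_lit 152) (nat_lit 20533004654) (nat_lit 0) (nat_lit 18468446) (nat_lit 76) (nat_lit 18468446) (nat_lit 73) (nat_lit 1) (nat_lit 71) (nat_lit 1) (nat_lit 72) (nat_lit 1) (nat_lit 325) (nat_lit 439) (nat_lit 256)) (XT.nd (nat_lit 78) (nat_lit 76) (nat_lit 0) (XT.lf (nat_lit 0) (nat_lit 6726928747) (nat_lit 0) (nat_lit 6778858165) (nat_lit 152) (nat_lit 6726928747) (nat_lit 71) (nat_lit 3) (nat_lit 71) (nat_lit 1) (nat_lit 73) (nat_lit 1) (nat_lit 326) (nat_lit 439) (nat_lit 255)) (XT.lf (nat_lit 76) (nat_lit 6602476158) (nat_lit 0) (nat_lit 6651932746) (nat_lit 76) (nat_lit 6651932746) (nat_lit 71) (nat_lit 3) (nat_lit 70) (nat_lit 1) (nat_lit 71)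 (nat_lit 1) (nat_lit 327) (nat_lit 439) (nat_lit 254))))) (XT.nd (nat_lit 234) (nat_lit 228) (nat_lit 0) (XT.nd (nat_lit 78) (nat_lit 76) (nat_lit 0) (XT.lf (nat_lit 152) (nat_lit 19559918402) (nat_lit 0) (nat_lit 15194036) (nat_lit 76) (nat_lit 15194036) (nat_lit 70) (nat_lit 1) (nat_lit 68) (nat_lit 1) (nat_lit 69) (nat_lit 1) (nat_lit 328) (nat_lit 439) (nat_lit 253)) (XT.nd (nat_lit 78) (nat_lit 76) (nat_lit 0) (XT.lf (nat_lit 0) (nat_lit 6408806717) (nat_lit 0) (nat_lit 6451529178) (nat_lit 152) (nat_lit 6408806717) (nat_lit 68) (nat_lit 3) (nat_lit 68) (nat_lit 1) (nat_lit 70) (nat_lit 1) (nat_lit 329) (nat_lit 439) (nat_lit 252)) (XT.lf (nat_lit 76) (nat_lit 6292313687) (nat_lit 0) (nat_lit 6333001745) (nat_lit 76) (nat_lit 6333001745) (nat_lit 68) (nat_lit 3) (nat_lit 67) (nat_lit 1) (nat_lit 68) (nat_lit 1) (nat_lit 330) (nat_lit 439) (nat_lit 251)))) (XT.nd (nat_lit 78) (nat_lit 76) (nat_lit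 0) (XT.lf (nat_lit 152) (nat_lit 18632340569) (nat_lit 0) (nat_lit 12500171) (nat_lit 76) (nat_lit 12500171) (nat_lit 67) (nat_lit 1) (nat_lit 65) (nat_lit 1) (nat_lit 66) (nat_lit 1) (nat_lit 331) (nat_lit 439) (nat_lit 250)) (XT.nd (nat_lit 78) (nat_lit 76) (nat_lit 0) (XT.lf (nat_lit 0) (nat_lit 6105441898) (nat_lit 0) (nat_lit 6140589773) (nat_lit 152) (nat_lit 6105441898) (nat_lit 65) (nat_lit 3) (nat_lit 65) (nat_lit 1) (nat_lit 67) (nat_lit 1) (nat_lit 332) (nat_lit 439) (nat_lit 249)) (XT.lf (nat_lit 76) (nat_lit 5996168911) (nat_lit 0) (nat_lit 6029643077) (nat_lit 76) (nat_lit 6029643077) (nat_lit 65) (nat_lit 3) (nat_lit 64) (nat_lit 1) (nat_lit 65) (nat_lit 1) (nat_lit 333) (nat_lit 439) (nat_lit 248)))))) (XT.nd (nat_lit 468) (nat_lit 608) (nat_lit 0) (XT.nd (nat_lit 234) (nat_lit 228) (nat_lit 0) (XT.nd (nat_lit 78) (nat_lit 76) (nat_lit 0) (XT.lf (nat_lit 152) (nat_lit 17748251072)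 (nat_lit 0) (nat_lit 10283921) (nat_lit 76) (nat_lit 10283921) (nat_lit 64) (nat_lit 1) (nat_lit 62) (nat_lit 1) (nat_lit 63) (nat_lit 1) (nat_lit 334) (nat_lit 439) (nat_lit 247)) (XT.nd (nat_lit 78) (nat_lit 76) (nat_lit 0) (XT.lf (nat_lit 0) (nat_lit 5816200971) (nat_lit 0) (nat_lit 5845117214) (nat_lit 152) (nat_lit 5816200971) (nat_lit 62) (nat_lit 3) (nat_lit 62) (nat_lit 1) (nat_lit 64) (nat_lit 1) (nat_lit 335) (nat_lit 439) (nat_lit 246)) (XT.lf (nat_lit 76) (nat_lit 5713507639) (nat_lit 0) (nat_lit 5741046919) (nat_lit 76) (nat_lit 5741046919) (nat_lit 62) (nat_lit 3) (nat_lit 61) (nat_lit 1) (nat_lit 62) (nat_lit 1) (nat_lit 336) (nat_lit 439) (nat_lit 245)))) (XT.nd (nat_lit 78) (nat_lit 76) (nat_lit 0) (XT.lf (nat_lit 152) (nat_lit 16905699961) (nat_lit 0) (nat_lit 8460608) (nat_lit 76) (nat_lit 8460608) (nat_lit 61) (nat_lit 1) (nat_lit 59) (nat_lit 1) (nat_lit 60) (nat_lit 1) (nat_lit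 337) (nat_lit 439) (nat_lit 244)) (XT.nd (nat_lit 78) (nat_lit 76) (nat_lit 0) (XT.lf (nat_lit 0) (nat_lit 5540468467) (nat_lit 0) (nat_lit 5564257932) (nat_lit 152) (nat_lit 5540468467) (nat_lit 59) (nat_lit 3) (nat_lit 59) (nat_lit 1) (nat_lit 61) (nat_lit 1) (nat_lit 338) (nat_lit 439) (nat_lit 243)) (XT.lf (nat_lit 76) (nat_lit 5443797481) (nat_lit 0) (nat_lit 5466454114) (nat_lit 76) (nat_lit 5466454114) (nat_lit 59) (nat_lit 3) (nat_lit 58) (nat_lit 1) (nat_lit 59) (nat_lit 1) (nat_lit 339) (nat_lit 439) (nat_lit 242))))) (XT.nd (nat_lit 234) (nat_lit 380) (nat_lit 0) (XT.nd (nat_lit 78) (nat_lit 76) (nat_lit 0) (XT.lf (nat_lit 152) (nat_lit 16102808701) (nat_lit 0) (nat_lit 6960563) (nat_lit 76) (nat_lit 6960563) (nat_lit 58) (nat_lit 1) (nat_lit 56) (nat_lit 1) (nat_lit 57) (nat_lit 1) (nat_lit 340) (nat_lit 439) (nat_lit 241)) (XT.nd (nat_lit 78) (nat_lit 76) (nat_lit 0) (XT.lf (nat_lit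 0) (nat_lit 5277648105) (nat_lit 0) (nat_lit 5297219756) (nat_lit 152) (nat_lit 5277648105) (nat_lit 56) (nat_lit 3) (nat_lit 56) (nat_lit 1) (nat_lit 58) (nat_lit 1) (nat_lit 341) (nat_lit 439) (nat_lit 240)) (XT.lf (nat_lit 76) (nat_lit 5186511952) (nat_lit 0) (nat_lit 5205151620) (nat_lit 76) (nat_lit 5205151620) (nat_lit 56) (nat_lit 3) (nat_lit 55) (nat_lit 1) (nat_lit 56) (nat_lit 1) (nat_lit 342) (nat_lit 439) (nat_lit 239)))) (XT.nd (nat_lit 156) (nat_lit 228) (nat_lit 0) (XT.nd (nat_lit 78) (nat_lit 0) (nat_lit 0) (XT.lf (nat_lit 152) (nat_lit 15337770575) (nat_lit 0) (nat_lit 5726472) (nat_lit 76) (nat_lit 5726472) (nat_lit 55) (nat_lit 1) (nat_lit 53) (nat_lit 1) (nat_lit 54) (nat_lit 1) (nat_lit 343) (nat_lit 439) (nat_lit 238)) (XT.lf (nat_lit 0) (nat_lit 5027163667) (nat_lit 0) (nat_lit 5043265313) (nat_lit 152) (nat_lit 5027163667) (nat_lit 53) (nat_lit 3) (nat_lit 53) (nat_lit 1)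 (nat_lit 55) (nat_lit 1) (nat_lit 344) (nat_lit 439) (nat_lit 237))) (XT.nd (nat_lit 78) (nat_lit 152) (nat_lit 0) (XT.lf (nat_lit 76) (nat_lit 4941133639) (nat_lit 0) (nat_lit 4956468541) (nat_lit 76) (nat_lit 4956468541) (nat_lit 53) (nat_lit 3) (nat_lit 52) (nat_lit 1) (nat_lit 53) (nat_lit 1) (nat_lit 345) (nat_lit 439) (nat_lit 236)) (XT.lf (nat_lit 152) (nat_lit 14608850386) (nat_lit 0) (nat_lit 4711183) (nat_lit 76) (nat_lit 4711183) (nat_lit 52) (nat_lit 1) (nat_lit 50) (nat_lit 1) (nat_lit 51) (nat_lit 1) (nat_lit 346) (nat_lit 439) (nat_lit 235))))))) (XT.nd (nat_lit 1014) (nat_lit 988) (nat_lit 0) (XT.nd (nat_lit 468) (nat_lit 456) (nat_lit 0) (XT.nd (nat_lit 234) (nat_lit 228) (nat_lit 0) (XT.nd (nat_lit 78) (nat_lit 228) (nat_lit 0) (XT.lf (nat_lit 0) (nat_lit 4788459523) (nat_lit 0) (nat_lit 4801706387) (nat_lit 152) (nat_lit 4788459523) (nat_lit 50) (nat_lit 3) (nat_lit 50) (nat_lit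 1) (nat_lit 52) (nat_lit 1) (nat_lit 347) (nat_lit 439) (nat_lit 234)) (XT.nd (nat_lit 78) (nat_lit 152) (nat_lit 0) (XT.lf (nat_lit 76) (nat_lit 4707156608) (nat_lit 0) (nat_lit 4719772669) (nat_lit 76) (nat_lit 4719772669) (nat_lit 50) (nat_lit 3) (nat_lit 49) (nat_lit 1) (nat_lit 50) (nat_lit 1) (nat_lit 348) (nat_lit 439) (nat_lit 233)) (XT.lf (nat_lit 152) (nat_lit 13914383629) (nat_lit 0) (nat_lit 3875902) (nat_lit 76) (nat_lit 3875902) (nat_lit 49) (nat_lit 1) (nat_lit 47) (nat_lit 1) (nat_lit 48) (nat_lit 1) (nat_lit 349) (nat_lit 439) (nat_lit 232)))) (XT.nd (nat_lit 78) (nat_lit 228) (nat_lit 0) (XT.lf (nat_lit 0) (nat_lit 4561000865) (nat_lit 0) (nat_lit 4571899093) (nat_lit 152) (nat_lit 4561000865) (nat_lit 47) (nat_lit 3) (nat_lit 47) (nat_lit 1) (nat_lit 49) (nat_lit 1) (nat_lit 350) (nat_lit 439) (nat_lit 231)) (XT.nd (nat_lit 78) (nat_lit 152) (nat_lit 0) (XT.lf (nat_lit 76) (nat_lit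 4484088185) (nat_lit 0) (nat_lit 4494467450) (nat_lit 76) (nat_lit 4494467450) (nat_lit 47) (nat_lit 3) (nat_lit 46) (nat_lit 1) (nat_lit 47) (nat_lit 1) (nat_lit 351) (nat_lit 439) (nat_lit 230)) (XT.lf (nat_lit 152) (nat_lit 13252775241) (nat_lit 0) (nat_lit 3188714) (nat_lit 76) (nat_lit 3188714) (nat_lit 46) (nat_lit 1) (nat_lit 44) (nat_lit 1) (nat_lit 45) (nat_lit 1) (nat_lit 352) (nat_lit 439) (nat_lit 229))))) (XT.nd (nat_lit 234) (nat_lit 228) (nat_lit 0) (XT.nd (nat_lit 78) (nat_lit 228) (nat_lit 0) (XT.lf (nat_lit 0) (nat_lit 4344273713) (nat_lit 0) (nat_lit 4353239712) (nat_lit 152) (nat_lit 4344273713) (nat_lit 44) (nat_lit 3) (nat_lit 44) (nat_lit 1) (nat_lit 46) (nat_lit 1) (nat_lit 353) (nat_lit 439) (nat_lit 228)) (XT.nd (nat_lit 78) (nat_lit 152) (nat_lit 0) (XT.lf (nat_lit 76) (nat_lit 4271450251) (nat_lit 0) (nat_lit 4279989298) (nat_lit 76) (nat_lit 4279989298) (nat_lit 44)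 (nat_lit 3) (nat_lit 43) (nat_lit 1) (nat_lit 44) (nat_lit 1) (nat_lit 354) (nat_lit 439) (nat_lit 227)) (XT.lf (nat_lit 152) (nat_lit 12622498030) (nat_lit 0) (nat_lit 2623363) (nat_lit 76) (nat_lit 2623363) (nat_lit 43) (nat_lit 1) (nat_lit 41) (nat_lit 1) (nat_lit 42) (nat_lit 1) (nat_lit 355) (nat_lit 439) (nat_lit 226)))) (XT.nd (nat_lit 156) (nat_lit 152) (nat_lit 0) (XT.nd (nat_lit 78) (nat_lit 76) (nat_lit 0) (XT.lf (nat_lit 0) (nat_lit 4137784749) (nat_lit 0) (nat_lit 4145161098) (nat_lit 152) (nat_lit 4137784749) (nat_lit 41) (nat_lit 3) (nat_lit 41) (nat_lit 1) (nat_lit 43) (nat_lit 1) (nat_lit 356) (nat_lit 439) (nat_lit 225)) (XT.lf (nat_lit 76) (nat_lit 4068780125) (nat_lit 0) (nat_lit 4075805220) (nat_lit 76) (nat_lit 4075805220) (nat_lit 41) (nat_lit 3) (nat_lit 40) (nat_lit 1) (nat_lit 41) (nat_lit 1) (nat_lit 357) (nat_lit 439) (nat_lit 224))) (XT.nd (nat_lit 78) (nat_lit 0) (nat_lit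 0) (XT.lf (nat_lit 152) (nat_lit 12022090883) (nat_lit 0) (nat_lit 2158247) (nat_lit 76) (nat_lit 2158247) (nat_lit 40) (nat_lit 1) (nat_lit 38) (nat_lit 1) (nat_lit 39) (nat_lit 1) (nat_lit 358) (nat_lit 439) (nat_lit 223)) (XT.lf (nat_lit 0) (nat_lit 3941061004) (nat_lit 0) (nat_lit 3947129545) (nat_lit 152) (nat_lit 3941061004) (nat_lit 38) (nat_lit 3) (nat_lit 38) (nat_lit 1) (nat_lit 40) (nat_lit 1) (nat_lit 359) (nat_lit 439) (nat_lit 222)))))) (XT.nd (nat_lit 468) (nat_lit 532) (nat_lit 0) (XT.nd (nat_lit 234) (nat_lit 228) (nat_lit 0) (XT.nd (nat_lit 78) (nat_lit 152) (nat_lit 0) (XT.lf (nat_lit 76) (nat_lit 3875631129) (nat_lit 0) (nat_lit 3881410691) (nat_lit 76) (nat_lit 3881410691) (nat_lit 38) (nat_lit 3) (nat_lit 37) (nat_lit 1) (nat_lit 38) (nat_lit 1) (nat_lit 360) (nat_lit 439) (nat_lit 221)) (XT.nd (nat_lit 78) (nat_lit 0) (nat_lit 0) (XT.lf (nat_lit 152) (nat_lit 11450156793)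 (nat_lit 0) (nat_lit 1775595) (nat_lit 76) (nat_lit 1775595) (nat_lit 37) (nat_lit 1) (nat_lit 35) (nat_lit 1) (nat_lit 36) (nat_lit 1) (nat_lit 361) (nat_lit 439) (nat_lit 220)) (XT.lf (nat_lit 0) (nat_lit 3753649452) (nat_lit 0) (nat_lit 3758642055) (nat_lit 152) (nat_lit 3753649452) (nat_lit 35) (nat_lit 3) (nat_lit 35) (nat_lit 1) (nat_lit 37) (nat_lit 1) (nat_lit 362) (nat_lit 439) (nat_lit 219)))) (XT.nd (nat_lit 78) (nat_lit 152) (nat_lit 0) (XT.lf (nat_lit 76) (nat_lit 3691572892) (nat_lit 0) (nat_lit 3696327753) (nat_lit 76) (nat_lit 3696327753) (nat_lit 35) (nat_lit 3) (nat_lit 34) (nat_lit 1) (nat_lit 35) (nat_lit 1) (nat_lit 363) (nat_lit 439) (nat_lit 218)) (XT.nd (nat_lit 78) (nat_lit 0) (nat_lit 0) (XT.lf (nat_lit 152) (nat_lit 10905360780) (nat_lit 0) (nat_lit 1460786) (nat_lit 76) (nat_lit 1460786) (nat_lit 34) (nat_lit 1) (nat_lit 32) (nat_lit 1) (nat_lit 33) (nat_lit 1) (nat_lit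 364) (nat_lit 439) (nat_lit 217)) (XT.lf (nat_lit 0) (nat_lit 3575116513) (nat_lit 0) (nat_lit 3579223940) (nat_lit 152) (nat_lit 3575116513) (nat_lit 32) (nat_lit 3) (nat_lit 32) (nat_lit 1) (nat_lit 34) (nat_lit 1) (nat_lit 365) (nat_lit 439) (nat_lit 216))))) (XT.nd (nat_lit 234) (nat_lit 304) (nat_lit 0) (XT.nd (nat_lit 78) (nat_lit 152) (nat_lit 0) (XT.lf (nat_lit 76) (nat_lit 3516191461) (nat_lit 0) (nat_lit 3520103296) (nat_lit 76) (nat_lit 3520103296) (nat_lit 32) (nat_lit 3) (nat_lit 31) (nat_lit 1) (nat_lit 32) (nat_lit 1) (nat_lit 366) (nat_lit 439) (nat_lit 215)) (XT.nd (nat_lit 78) (nat_lit 0) (nat_lit 0) (XT.lf (nat_lit 152) (nat_lit 10386427730) (nat_lit 0) (nat_lit 1201792) (nat_lit 76) (nat_lit 1201792) (nat_lit 31) (nat_lit 1) (nat_lit 29) (nat_lit 1) (nat_lit 30) (nat_lit 1) (nat_lit 367) (nat_lit 439) (nat_lit 214)) (XT.lf (nat_lit 0) (nat_lit 3405047507) (nat_lit 0) (nat_lit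 3408426698) (nat_lit 152) (nat_lit 3405047507) (nat_lit 29) (nat_lit 3) (nat_lit 29) (nat_lit 1) (nat_lit 31) (nat_lit 1) (nat_lit 368) (nat_lit 439) (nat_lit 213)))) (XT.nd (nat_lit 156) (nat_lit 76) (nat_lit 0) (XT.nd (nat_lit 78) (nat_lit 152) (nat_lit 0) (XT.lf (nat_lit 76) (nat_lit 3349089232) (nat_lit 0) (nat_lit 3352307509) (nat_lit 76) (nat_lit 3352307509) (nat_lit 29) (nat_lit 3) (nat_lit 28) (nat_lit 1) (nat_lit 29) (nat_lit 1) (nat_lit 369) (nat_lit 439) (nat_lit 212)) (XT.lf (nat_lit 152) (nat_lit 9892140206) (nat_lit 0) (nat_lit 988717) (nat_lit 76) (nat_lit 988717) (nat_lit 28) (nat_lit 1) (nat_lit 26) (nat_lit 1) (nat_lit 27) (nat_lit 1) (nat_lit 370) (nat_lit 439) (nat_lit 211))) (XT.nd (nat_lit 78) (nat_lit 76) (nat_lit 0) (XT.lf (nat_lit 0) (nat_lit 3243046062) (nat_lit 0) (nat_lit 3245826131) (nat_lit 152) (nat_lit 3243046062) (nat_lit 26) (nat_lit 3) (nat_lit 26) (nat_lit 1)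 (nat_lit 28) (nat_lit 1) (nat_lit 371) (nat_lit 439) (nat_lit 210)) (XT.lf (nat_lit 76) (nat_lit 3189884776) (nat_lit 0) (nat_lit 3192532460) (nat_lit 76) (nat_lit 3192532460) (nat_lit 26) (nat_lit 3) (nat_lit 25) (nat_lit 1) (nat_lit 26) (nat_lit 1) (nat_lit 372) (nat_lit 439) (nat_lit 209))))))))
noncomputable def ec460 : XT := (XT.nd (nat_lit 1950) (nat_lit 0) (nat_lit 0) (XT.nd (nat_lit 936) (nat_lit 988) (nat_lit 0) (XT.nd (nat_lit 468) (nat_lit 456) (nat_lit 0) (XT.nd (nat_lit 234) (nat_lit 228) (nat_lit 0) (XT.nd (nat_lit 78) (nat_lit 76) (nat_lit 0) (XT.lf (nat_lit 152) (nat_lit 9421336236) (nat_lit 0) (nat_lit 813420) (nat_lit 76) (nat_lit 813420) (nat_lit 25) (nat_lit 1) (nat_lit 23) (nat_lit 1) (nat_lit 24) (nat_lit 1) (nat_lit 373) (nat_lit 439) (nat_lit 208)) (XT.nd (nat_lit 78) (nat_lit 76) (nat_lit 0) (XT.lf (nat_lit 0) (nat_lit 3088733499) (nat_lit 0) (nat_lit 3091020668) (nat_lit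 152) (nat_lit 3088733499) (nat_lit 23) (nat_lit 3) (nat_lit 23) (nat_lit 1) (nat_lit 25) (nat_lit 1) (nat_lit 374) (nat_lit 439) (nat_lit 207)) (XT.lf (nat_lit 76) (nat_lit 3038212553) (nat_lit 0) (nat_lit 3040390810) (nat_lit 76) (nat_lit 3040390810) (nat_lit 23) (nat_lit 3) (nat_lit 22) (nat_lit 1) (nat_lit 23) (nat_lit 1) (nat_lit 375) (nat_lit 439) (nat_lit 206)))) (XT.nd (nat_lit 78) (nat_lit 76) (nat_lit 0) (XT.lf (nat_lit 152) (nat_lit 8972907120) (nat_lit 0) (nat_lit 669203) (nat_lit 76) (nat_lit 669203) (nat_lit 22) (nat_lit 1) (nat_lit 20) (nat_lit 1) (nat_lit 21) (nat_lit 1) (nat_lit 376) (nat_lit 439) (nat_lit 205)) (XT.nd (nat_lit 78) (nat_lit 76) (nat_lit 0) (XT.lf (nat_lit 0) (nat_lit 2941748196) (nat_lit 0) (nat_lit 2943629856) (nat_lit 152) (nat_lit 2941748196) (nat_lit 20) (nat_lit 3) (nat_lit 20) (nat_lit 1) (nat_lit 22) (nat_lit 1) (nat_lit 377) (nat_lit 439) (nat_lit 204))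 (XT.lf (nat_lit 76) (nat_lit 2893722562) (nat_lit 0) (nat_lit 2895514619) (nat_lit 76) (nat_lit 2895514619) (nat_lit 20) (nat_lit 3) (nat_lit 19) (nat_lit 1) (nat_lit 20) (nat_lit 1) (nat_lit 378) (nat_lit 439) (nat_lit 203))))) (XT.nd (nat_lit 234) (nat_lit 228) (nat_lit 0) (XT.nd (nat_lit 78) (nat_lit 76) (nat_lit 0) (XT.lf (nat_lit 152) (nat_lit 8545795259) (nat_lit 0) (nat_lit 550555) (nat_lit 76) (nat_lit 550555) (nat_lit 19) (nat_lit 1) (nat_lit 17) (nat_lit 1) (nat_lit 18) (nat_lit 1) (nat_lit 379) (nat_lit 439) (nat_lit 202)) (XT.nd (nat_lit 78) (nat_lit 76) (nat_lit 0) (XT.lf (nat_lit 0) (nat_lit 2801744952) (nat_lit 0) (nat_lit 2803292999) (nat_lit 152) (nat_lit 2801744952) (nat_lit 17) (nat_lit 3) (nat_lit 17) (nat_lit 1) (nat_lit 19) (nat_lit 1) (nat_lit 380) (nat_lit 439) (nat_lit 201)) (XT.lf (nat_lit 76) (nat_lit 2756079927) (nat_lit 0) (nat_lit 2757554257) (nat_lit 76) (nat_lit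 2757554257) (nat_lit 17) (nat_lit 3) (nat_lit 16) (nat_lit 1) (nat_lit 17) (nat_lit 1) (nat_lit 381) (nat_lit 439) (nat_lit 200)))) (XT.nd (nat_lit 78) (nat_lit 76) (nat_lit 0) (XT.lf (nat_lit 152) (nat_lit 8138992018) (nat_lit 0) (nat_lit 452943) (nat_lit 76) (nat_lit 452943) (nat_lit 16) (nat_lit 1) (nat_lit 14) (nat_lit 1) (nat_lit 15) (nat_lit 1) (nat_lit 382) (nat_lit 439) (nat_lit 199)) (XT.nd (nat_lit 78) (nat_lit 76) (nat_lit 0) (XT.lf (nat_lit 0) (nat_lit 2668394345) (nat_lit 0) (nat_lit 2669667927) (nat_lit 152) (nat_lit 2668394345) (nat_lit 14) (nat_lit 3) (nat_lit 14) (nat_lit 1) (nat_lit 16) (nat_lit 1) (nat_lit 383) (nat_lit 439) (nat_lit 198)) (XT.lf (nat_lit 76) (nat_lit 2624964457) (nat_lit 0) (nat_lit 2626177392) (nat_lit 76) (nat_lit 2626177392) (nat_lit 14) (nat_lit 3) (nat_lit 13) (nat_lit 1) (nat_lit 14) (nat_lit 1) (nat_lit 384) (nat_lit 439) (nat_lit 197)))))) (XT.nd (nat_lit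 468) (nat_lit 532) (nat_lit 0) (XT.nd (nat_lit 234) (nat_lit 228) (nat_lit 0) (XT.nd (nat_lit 78) (nat_lit 76) (nat_lit 0) (XT.lf (nat_lit 152) (nat_lit 7751535646) (nat_lit 0) (nat_lit 372637) (nat_lit 76) (nat_lit 372637) (nat_lit 13) (nat_lit 1) (nat_lit 11) (nat_lit 1) (nat_lit 12) (nat_lit 1) (nat_lit 385) (nat_lit 439) (nat_lit 196)) (XT.nd (nat_lit 78) (nat_lit 76) (nat_lit 0) (XT.lf (nat_lit 0) (nat_lit 2541382097) (nat_lit 0) (nat_lit 2542429876) (nat_lit 152) (nat_lit 2541382097) (nat_lit 11) (nat_lit 3) (nat_lit 11) (nat_lit 1) (nat_lit 13) (nat_lit 1) (nat_lit 386) (nat_lit 439) (nat_lit 195)) (XT.lf (nat_lit 76) (nat_lit 2500070165) (nat_lit 0) (nat_lit 2501068050) (nat_lit 76) (nat_lit 2501068050) (nat_lit 11) (nat_lit 3) (nat_lit 10) (nat_lit 1) (nat_lit 11) (nat_lit 1) (nat_lit 387) (nat_lit 439) (nat_lit 194)))) (XT.nd (nat_lit 78) (nat_lit 76) (nat_lit 0) (XT.lf (nat_lit 152)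 (nat_lit 7382509246) (nat_lit 0) (nat_lit 306569) (nat_lit 76) (nat_lit 306569) (nat_lit 10) (nat_lit 1) (nat_lit 8) (nat_lit 1) (nat_lit 9) (nat_lit 1) (nat_lit 388) (nat_lit 439) (nat_lit 193)) (XT.nd (nat_lit 78) (nat_lit 76) (nat_lit 0) (XT.lf (nat_lit 0) (nat_lit 2420408451) (nat_lit 0) (nat_lit 2421270461) (nat_lit 152) (nat_lit 2420408451) (nat_lit 8) (nat_lit 3) (nat_lit 8) (nat_lit 1) (nat_lit 10) (nat_lit 1) (nat_lit 389) (nat_lit 439) (nat_lit 192)) (XT.lf (nat_lit 76) (nat_lit 2381104779) (nat_lit 0) (nat_lit 2381925741) (nat_lit 76) (nat_lit 2381925741) (nat_lit 8) (nat_lit 3) (nat_lit 7) (nat_lit 1) (nat_lit 8) (nat_lit 1) (nat_lit 390) (nat_lit 439) (nat_lit 191))))) (XT.nd (nat_lit 234) (nat_lit 304) (nat_lit 0) (XT.nd (nat_lit 78) (nat_lit 76) (nat_lit 0) (XT.lf (nat_lit 152) (nat_lit 7031038805) (nat_lit 0) (nat_lit 252215) (nat_lit 76) (nat_lit 252215) (nat_lit 7) (nat_lit 1)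 (nat_lit 5) (nat_lit 1) (nat_lit 6) (nat_lit 1) (nat_lit 391) (nat_lit 439) (nat_lit 190)) (XT.nd (nat_lit 78) (nat_lit 76) (nat_lit 0) (XT.lf (nat_lit 0) (nat_lit 2305187556) (nat_lit 0) (nat_lit 2305896734) (nat_lit 152) (nat_lit 2305187556) (nat_lit 5) (nat_lit 3) (nat_lit 5) (nat_lit 1) (nat_lit 7) (nat_lit 1) (nat_lit 392) (nat_lit 439) (nat_lit 189)) (XT.lf (nat_lit 76) (nat_lit 2267789239) (nat_lit 0) (nat_lit 2268464646) (nat_lit 76) (nat_lit 2268464646) (nat_lit 5) (nat_lit 3) (nat_lit 4) (nat_lit 1) (nat_lit 5) (nat_lit 1) (nat_lit 393) (nat_lit 439) (nat_lit 188)))) (XT.nd (nat_lit 156) (nat_lit 152) (nat_lit 0) (XT.nd (nat_lit 78) (nat_lit 0) (nat_lit 0) (XT.lf (nat_lit 152) (nat_lit 6696291289) (nat_lit 0) (nat_lit 207498) (nat_lit 76) (nat_lit 207498) (nat_lit 4) (nat_lit 1) (nat_lit 2) (nat_lit 1) (nat_lit 3) (nat_lit 1) (nat_lit 394) (nat_lit 439) (nat_lit 187)) (XT.lf (nat_lit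 0) (nat_lit 2195446873) (nat_lit 0) (nat_lit 2196030315) (nat_lit 152) (nat_lit 2195446873) (nat_lit 2) (nat_lit 3) (nat_lit 2) (nat_lit 1) (nat_lit 4) (nat_lit 1) (nat_lit 395) (nat_lit 439) (nat_lit 186))) (XT.nd (nat_lit 78) (nat_lit 76) (nat_lit 0) (XT.lf (nat_lit 76) (nat_lit 2159857194) (nat_lit 0) (nat_lit 2160412854) (nat_lit 76) (nat_lit 2160412854) (nat_lit 2) (nat_lit 3) (nat_lit 1) (nat_lit 1) (nat_lit 2) (nat_lit 1) (nat_lit 396) (nat_lit 439) (nat_lit 185)) (XT.lf (nat_lit 0) (nat_lit 134475198437) (nat_lit 0) (nat_lit 0) (nat_lit 0) (nat_lit 0) (nat_lit 0) (nat_lit 0) (nat_lit 1) (nat_lit 0) (nat_lit 1) (nat_lit 0) (nat_lit 397) (nat_lit 439) (nat_lit 184))))))) (XT.nd (nat_lit 936) (nat_lit 0) (nat_lit 0) (XT.nd (nat_lit 468) (nat_lit 0) (nat_lit 0) (XT.nd (nat_lit 234) (nat_lit 0) (nat_lit 0) (XT.nd (nat_lit 78) (nat_lit 0) (nat_lit 0) (XT.lf (nat_lit 0) (nat_lit 134475173135)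 (nat_lit 0) (nat_lit 0) (nat_lit 0) (nat_lit 0) (nat_lit 0) (nat_lit 0) (nat_lit 1) (nat_lit 0) (nat_lit 1) (nat_lit 0) (nat_lit 398) (nat_lit 439) (nat_lit 183)) (XT.nd (nat_lit 78) (nat_lit 0) (nat_lit 0) (XT.lf (nat_lit 0) (nat_lit 134475149039) (nat_lit 0) (nat_lit 0) (nat_lit 0) (nat_lit 0) (nat_lit 0) (nat_lit 0) (nat_lit 1) (nat_lit 0) (nat_lit 1) (nat_lit 0) (nat_lit 399) (nat_lit 439) (nat_lit 182)) (XT.lf (nat_lit 0) (nat_lit 134475126089) (nat_lit 0) (nat_lit 0) (nat_lit 0) (nat_lit 0) (nat_lit 0) (nat_lit 0) (nat_lit 1) (nat_lit 0) (nat_lit 1) (nat_lit 0) (nat_lit 400) (nat_lit 439) (nat_lit 181)))) (XT.nd (nat_lit 78) (nat_lit 0) (nat_lit 0) (XT.lf (nat_lit 0) (nat_lit 134475104233) (nat_lit 0) (nat_lit 0) (nat_lit 0) (nat_lit 0) (nat_lit 0) (nat_lit 0) (nat_lit 1) (nat_lit 0) (nat_lit 1) (nat_lit 0) (nat_lit 401) (nat_lit 439) (nat_lit 180)) (XT.nd (nat_lit 78) (nat_lit 0) (nat_lit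 0) (XT.lf (nat_lit 0) (nat_lit 134475083417) (nat_lit 0) (nat_lit 0) (nat_lit 0) (nat_lit 0) (nat_lit 0) (nat_lit 0) (nat_lit 1) (nat_lit 0) (nat_lit 1) (nat_lit 0) (nat_lit 402) (nat_lit 439) (nat_lit 179)) (XT.lf (nat_lit 0) (nat_lit 134475063592) (nat_lit 0) (nat_lit 0) (nat_lit 0) (nat_lit 0) (nat_lit 0) (nat_lit 0) (nat_lit 1) (nat_lit 0) (nat_lit 1) (nat_lit 0) (nat_lit 403) (nat_lit 439) (nat_lit 178))))) (XT.nd (nat_lit 234) (nat_lit 0) (nat_lit 0) (XT.nd (nat_lit 78) (nat_lit 0) (nat_lit 0) (XT.lf (nat_lit 0) (nat_lit 134475044712) (nat_lit 0) (nat_lit 0) (nat_lit 0) (nat_lit 0) (nat_lit 0) (nat_lit 0) (nat_lit 1) (nat_lit 0) (nat_lit 1) (nat_lit 0) (nat_lit 404) (nat_lit 439) (nat_lit 177)) (XT.nd (nat_lit 78) (nat_lit 0) (nat_lit 0) (XT.lf (nat_lit 0) (nat_lit 134475026730) (nat_lit 0) (nat_lit 0) (nat_lit 0) (nat_lit 0) (nat_lit 0) (nat_lit 0) (nat_lit 1) (nat_lit 0) (nat_lit 1) (nat_lit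 0) (nat_lit 405) (nat_lit 439) (nat_lit 176)) (XT.lf (nat_lit 0) (nat_lit 134475009605) (nat_lit 0) (nat_lit 0) (nat_lit 0) (nat_lit 0) (nat_lit 0) (nat_lit 0) (nat_lit 1) (nat_lit 0) (nat_lit 1) (nat_lit 0) (nat_lit 406) (nat_lit 439) (nat_lit 175)))) (XT.nd (nat_lit 78) (nat_lit 0) (nat_lit 0) (XT.lf (nat_lit 0) (nat_lit 134474993295) (nat_lit 0) (nat_lit 0) (nat_lit 0) (nat_lit 0) (nat_lit 0) (nat_lit 0) (nat_lit 1) (nat_lit 0) (nat_lit 1) (nat_lit 0) (nat_lit 407) (nat_lit 439) (nat_lit 174)) (XT.nd (nat_lit 78) (nat_lit 0) (nat_lit 0) (XT.lf (nat_lit 0) (nat_lit 134474977762) (nat_lit 0) (nat_lit 0) (nat_lit 0) (nat_lit 0) (nat_lit 0) (nat_lit 0) (nat_lit 1) (nat_lit 0) (nat_lit 1) (nat_lit 0) (nat_lit 408) (nat_lit 439) (nat_lit 173)) (XT.lf (nat_lit 0) (nat_lit 134474962969) (nat_lit 0) (nat_lit 0) (nat_lit 0) (nat_lit 0) (nat_lit 0) (nat_lit 0) (nat_lit 1) (nat_lit 0) (nat_lit 1) (nat_lit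 0) (nat_lit 409) (nat_lit 439) (nat_lit 172)))))) (XT.nd (nat_lit 468) (nat_lit 0) (nat_lit 0) (XT.nd (nat_lit 234) (nat_lit 0) (nat_lit 0) (XT.nd (nat_lit 78) (nat_lit 0) (nat_lit 0) (XT.lf (nat_lit 0) (nat_lit 134474948880) (nat_lit 0) (nat_lit 0) (nat_lit 0) (nat_lit 0) (nat_lit 0) (nat_lit 0) (nat_lit 1) (nat_lit 0) (nat_lit 1) (nat_lit 0) (nat_lit 410) (nat_lit 439) (nat_lit 171)) (XT.nd (nat_lit 78) (nat_lit 0) (nat_lit 0) (XT.lf (nat_lit 0) (nat_lit 134474935462) (nat_lit 0) (nat_lit 0) (nat_lit 0) (nat_lit 0) (nat_lit 0) (nat_lit 0) (nat_lit 1) (nat_lit 0) (nat_lit 1) (nat_lit 0) (nat_lit 411) (nat_lit 439) (nat_lit 170)) (XT.lf (nat_lit 0) (nat_lit 134474922683) (nat_lit 0) (nat_lit 0) (nat_lit 0) (nat_lit 0) (nat_lit 0) (nat_lit 0) (nat_lit 1) (nat_lit 0) (nat_lit 1) (nat_lit 0) (nat_lit 412) (nat_lit 439) (nat_lit 169)))) (XT.nd (nat_lit 78) (nat_lit 0) (nat_lit 0) (XT.lf (nat_lit 0)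 (nat_lit 134474910512) (nat_lit 0) (nat_lit 0) (nat_lit 0) (nat_lit 0) (nat_lit 0) (nat_lit 0) (nat_lit 1) (nat_lit 0) (nat_lit 1) (nat_lit 0) (nat_lit 413) (nat_lit 439) (nat_lit 168)) (XT.nd (nat_lit 78) (nat_lit 0) (nat_lit 0) (XT.lf (nat_lit 0) (nat_lit 134474898921) (nat_lit 0) (nat_lit 0) (nat_lit 0) (nat_lit 0) (nat_lit 0) (nat_lit 0) (nat_lit 1) (nat_lit 0) (nat_lit 1) (nat_lit 0) (nat_lit 414) (nat_lit 439) (nat_lit 167)) (XT.lf (nat_lit 0) (nat_lit 134474887882) (nat_lit 0) (nat_lit 0) (nat_lit 0) (nat_lit 0) (nat_lit 0) (nat_lit 0) (nat_lit 1) (nat_lit 0) (nat_lit 1) (nat_lit 0) (nat_lit 415) (nat_lit 439) (nat_lit 166))))) (XT.nd (nat_lit 234) (nat_lit 0) (nat_lit 0) (XT.nd (nat_lit 78) (nat_lit 0) (nat_lit 0) (XT.lf (nat_lit 0) (nat_lit 134474877369) (nat_lit 0) (nat_lit 0) (nat_lit 0) (nat_lit 0) (nat_lit 0) (nat_lit 0) (nat_lit 1) (nat_lit 0) (nat_lit 1) (nat_lit 0) (nat_lit 416)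 (nat_lit 439) (nat_lit 165)) (XT.nd (nat_lit 78) (nat_lit 0) (nat_lit 0) (XT.lf (nat_lit 0) (nat_lit 134474867356) (nat_lit 0) (nat_lit 0) (nat_lit 0) (nat_lit 0) (nat_lit 0) (nat_lit 0) (nat_lit 1) (nat_lit 0) (nat_lit 1) (nat_lit 0) (nat_lit 417) (nat_lit 439) (nat_lit 164)) (XT.lf (nat_lit 0) (nat_lit 134474857820) (nat_lit 0) (nat_lit 0) (nat_lit 0) (nat_lit 0) (nat_lit 0) (nat_lit 0) (nat_lit 1) (nat_lit 0) (nat_lit 1) (nat_lit 0) (nat_lit 418) (nat_lit 439) (nat_lit 163)))) (XT.nd (nat_lit 156) (nat_lit 0) (nat_lit 0) (XT.nd (nat_lit 78) (nat_lit 0) (nat_lit 0) (XT.lf (nat_lit 0) (nat_lit 134474848738) (nat_lit 0) (nat_lit 0) (nat_lit 0) (nat_lit 0) (nat_lit 0) (nat_lit 0) (nat_lit 1) (nat_lit 0) (nat_lit 1) (nat_lit 0) (nat_lit 419) (nat_lit 439) (nat_lit 162)) (XT.lf (nat_lit 0) (nat_lit 134474840089) (nat_lit 0) (nat_lit 0) (nat_lit 0) (nat_lit 0) (nat_lit 0) (nat_lit 0) (nat_lit 1) (nat_lit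 0) (nat_lit 1) (nat_lit 0) (nat_lit 420) (nat_lit 439) (nat_lit 161))) (XT.nd (nat_lit 78) (nat_lit 0) (nat_lit 0) (XT.lf (nat_lit 0) (nat_lit 134474831851) (nat_lit 0) (nat_lit 0) (nat_lit 0) (nat_lit 0) (nat_lit 0) (nat_lit 0) (nat_lit 1) (nat_lit 0) (nat_lit 1) (nat_lit 0) (nat_lit 421) (nat_lit 439) (nat_lit 160)) (XT.lf (nat_lit 0) (nat_lit 134474824006) (nat_lit 0) (nat_lit 0) (nat_lit 0) (nat_lit 0) (nat_lit 0) (nat_lit 0) (nat_lit 1) (nat_lit 0) (nat_lit 1) (nat_lit 0) (nat_lit 422) (nat_lit 439) (nat_lit 159))))))))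
noncomputable def ec461 : XT := (XT.nd (nat_lit 33774) (nat_lit 0) (nat_lit 14820) (XT.nd (nat_lit 32760) (nat_lit 0) (nat_lit 17632) (XT.nd (nat_lit 32292) (nat_lit 0) (nat_lit 19532) (XT.nd (nat_lit 234) (nat_lit 0) (nat_lit 0) (XT.nd (nat_lit 78) (nat_lit 0) (nat_lit 0) (XT.lf (nat_lit 0) (nat_lit 134474816535) (nat_lit 0) (nat_lit 0) (nat_lit 0) (nat_lit 0) (nat_lit 0) (nat_lit 0) (nat_lit 1) (nat_lit 0) (nat_lit 1) (nat_lit 0) (nat_lit 423) (nat_lit 439) (nat_lit 158)) (XT.nd (nat_lit 78) (nat_lit 0) (nat_lit 0) (XT.lf (nat_lit 0) (nat_lit 134474809419) (nat_lit 0) (nat_lit 0) (nat_lit 0) (nat_lit 0) (nat_lit 0) (nat_lit 0) (nat_lit 1) (nat_lit 0) (nat_lit 1) (nat_lit 0) (nat_lit 424) (nat_lit 439) (nat_lit 157)) (XT.lf (nat_lit 0) (nat_lit 134474802642) (nat_lit 0) (nat_lit 0) (nat_lit 0) (nat_lit 0) (nat_lit 0) (nat_lit 0) (nat_lit 1) (nat_lit 0) (nat_lit 1) (nat_lit 0) (nat_lit 425) (nat_lit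 439) (nat_lit 156)))) (XT.nd (nat_lit 78) (nat_lit 0) (nat_lit 0) (XT.lf (nat_lit 0) (nat_lit 134474796187) (nat_lit 0) (nat_lit 0) (nat_lit 0) (nat_lit 0) (nat_lit 0) (nat_lit 0) (nat_lit 1) (nat_lit 0) (nat_lit 1) (nat_lit 0) (nat_lit 426) (nat_lit 439) (nat_lit 155)) (XT.nd (nat_lit 78) (nat_lit 0) (nat_lit 0) (XT.lf (nat_lit 0) (nat_lit 134474790040) (nat_lit 0) (nat_lit 0) (nat_lit 0) (nat_lit 0) (nat_lit 0) (nat_lit 0) (nat_lit 1) (nat_lit 0) (nat_lit 1) (nat_lit 0) (nat_lit 427) (nat_lit 439) (nat_lit 154)) (XT.lf (nat_lit 0) (nat_lit 134474784186) (nat_lit 0) (nat_lit 0) (nat_lit 0) (nat_lit 0) (nat_lit 0) (nat_lit 0) (nat_lit 1) (nat_lit 0) (nat_lit 1) (nat_lit 0) (nat_lit 428) (nat_lit 439) (nat_lit 153))))) (XT.nd (nat_lit 234) (nat_lit 684) (nat_lit 0) (XT.nd (nat_lit 78) (nat_lit 304) (nat_lit 0) (XT.lf (nat_lit 456) (nat_lit 190470889580) (nat_lit 0) (nat_lit 89862878300) (nat_lit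 380) (nat_lit 89862878300) (nat_lit 276) (nat_lit 1) (nat_lit 270) (nat_lit 1) (nat_lit 275) (nat_lit 1) (nat_lit 156) (nat_lit 440) (nat_lit 424)) (XT.nd (nat_lit 78) (nat_lit 304) (nat_lit 0) (XT.lf (nat_lit 76) (nat_lit 70185991443) (nat_lit 0) (nat_lit 222036179041) (nat_lit 456) (nat_lit 70185991443) (nat_lit 271) (nat_lit 1) (nat_lit 270) (nat_lit 1) (nat_lit 276) (nat_lit 1) (nat_lit 157) (nat_lit 440) (nat_lit 423)) (XT.lf (nat_lit 380) (nat_lit 89077509723) (nat_lit 0) (nat_lit 132871256727) (nat_lit 304) (nat_lit 132871256727) (nat_lit 271) (nat_lit 1) (nat_lit 266) (nat_lit 1) (nat_lit 270) (nat_lit 1) (nat_lit 158) (nat_lit 440) (nat_lit 422)))) (XT.nd (nat_lit 78) (nat_lit 684) (nat_lit 0) (XT.lf (nat_lit 76) (nat_lit 19382671737) (nat_lit 0) (nat_lit 308758343415) (nat_lit 380) (nat_lit 19382671737) (nat_lit 267) (nat_lit 1) (nat_lit 266) (nat_lit 1) (nat_lit 271) (nat_lit 1) (nat_lit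 159) (nat_lit 440) (nat_lit 421)) (XT.nd (nat_lit 78) (nat_lit 304) (nat_lit 0) (XT.lf (nat_lit 76) (nat_lit 163323961672) (nat_lit 0) (nat_lit 13678699048) (nat_lit 380) (nat_lit 163323961672) (nat_lit 262) (nat_lit 1) (nat_lit 261) (nat_lit 1) (nat_lit 266) (nat_lit 1) (nat_lit 160) (nat_lit 440) (nat_lit 420)) (XT.lf (nat_lit 380) (nat_lit 270163589064) (nat_lit 0) (nat_lit 31620025346) (nat_lit 304) (nat_lit 31620025346) (nat_lit 262) (nat_lit 1) (nat_lit 257) (nat_lit 1) (nat_lit 261) (nat_lit 1) (nat_lit 161) (nat_lit 440) (nat_lit 419)))))) (XT.nd (nat_lit 468) (nat_lit 988) (nat_lit 0) (XT.nd (nat_lit 234) (nat_lit 608) (nat_lit 0) (XT.nd (nat_lit 78) (nat_lit 304) (nat_lit 0) (XT.lf (nat_lit 76) (nat_lit 105970036845) (nat_lit 0) (nat_lit 114659348730) (nat_lit 380) (nat_lit 105970036845) (nat_lit 258) (nat_lit 1) (nat_lit 257) (nat_lit 1) (nat_lit 262) (nat_lit 1) (nat_lit 162) (nat_lit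 440) (nat_lit 418)) (XT.nd (nat_lit 78) (nat_lit 0) (nat_lit 0) (XT.lf (nat_lit 380) (nat_lit 154639762334) (nat_lit 0) (nat_lit 82695694542) (nat_lit 304) (nat_lit 82695694542) (nat_lit 258) (nat_lit 1) (nat_lit 253) (nat_lit 1) (nat_lit 257) (nat_lit 1) (nat_lit 163) (nat_lit 440) (nat_lit 417)) (XT.lf (nat_lit 76) (nat_lit 48766479580) (nat_lit 0) (nat_lit 216121978063) (nat_lit 380) (nat_lit 48766479580) (nat_lit 254) (nat_lit 1) (nat_lit 253) (nat_lit 1) (nat_lit 258) (nat_lit 1) (nat_lit 164) (nat_lit 440) (nat_lit 416)))) (XT.nd (nat_lit 78) (nat_lit 380) (nat_lit 0) (XT.lf (nat_lit 304) (nat_lit 39659689213) (nat_lit 0) (nat_lit 133878335380) (nat_lit 228) (nat_lit 133878335380) (nat_lit 254) (nat_lit 1) (nat_lit 250) (nat_lit 1) (nat_lit 253) (nat_lit 1) (nat_lit 165) (nat_lit 440) (nat_lit 415)) (XT.nd (nat_lit 78) (nat_lit 0) (nat_lit 0) (XT.lf (nat_lit 380) (nat_lit 285570470803) (nat_lit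 0) (nat_lit 7924032614) (nat_lit 304) (nat_lit 7924032614) (nat_lit 250) (nat_lit 1) (nat_lit 245) (nat_lit 1) (nat_lit 249) (nat_lit 1) (nat_lit 166) (nat_lit 440) (nat_lit 414)) (XT.lf (nat_lit 76) (nat_lit 111745836411) (nat_lit 0) (nat_lit 71962236502) (nat_lit 380) (nat_lit 111745836411) (nat_lit 246) (nat_lit 1) (nat_lit 245) (nat_lit 1) (nat_lit 250) (nat_lit 1) (nat_lit 167) (nat_lit 440) (nat_lit 413))))) (XT.nd (nat_lit 234) (nat_lit 532) (nat_lit 0) (XT.nd (nat_lit 78) (nat_lit 228) (nat_lit 0) (XT.lf (nat_lit 304) (nat_lit 163208326847) (nat_lit 0) (nat_lit 63254857539) (nat_lit 228) (nat_lit 63254857539) (nat_lit 246) (nat_lit 1) (nat_lit 242) (nat_lit 1) (nat_lit 245) (nat_lit 1) (nat_lit 168) (nat_lit 440) (nat_lit 412)) (XT.nd (nat_lit 78) (nat_lit 228) (nat_lit 0) (XT.lf (nat_lit 76) (nat_lit 51560035025) (nat_lit 0) (nat_lit 181007834050) (nat_lit 304) (nat_lit 51560035025) (nat_lit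 243) (nat_lit 1) (nat_lit 242) (nat_lit 1) (nat_lit 246) (nat_lit 1) (nat_lit 169) (nat_lit 440) (nat_lit 411)) (XT.lf (nat_lit 304) (nat_lit 42973677623) (nat_lit 0) (nat_lit 117845631389) (nat_lit 228) (nat_lit 117845631389) (nat_lit 243) (nat_lit 1) (nat_lit 239) (nat_lit 1) (nat_lit 242) (nat_lit 1) (nat_lit 170) (nat_lit 440) (nat_lit 410)))) (XT.nd (nat_lit 156) (nat_lit 228) (nat_lit 0) (XT.nd (nat_lit 78) (nat_lit 0) (nat_lit 0) (XT.lf (nat_lit 304) (nat_lit 258633991910) (nat_lit 0) (nat_lit 7385470413) (nat_lit 228) (nat_lit 7385470413) (nat_lit 239) (nat_lit 1) (nat_lit 235) (nat_lit 1) (nat_lit 238) (nat_lit 1) (nat_lit 171) (nat_lit 440) (nat_lit 409)) (XT.lf (nat_lit 76) (nat_lit 97833832329) (nat_lit 0) (nat_lit 72493887395) (nat_lit 304) (nat_lit 97833832329) (nat_lit 236) (nat_lit 1) (nat_lit 235) (nat_lit 1) (nat_lit 239) (nat_lit 1) (nat_lit 172) (nat_lit 440) (nat_lit 408)))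 (XT.nd (nat_lit 78) (nat_lit 0) (nat_lit 0) (XT.lf (nat_lit 304) (nat_lit 134530477692) (nat_lit 0) (nat_lit 64290849801) (nat_lit 228) (nat_lit 64290849801) (nat_lit 236) (nat_lit 1) (nat_lit 232) (nat_lit 1) (nat_lit 235) (nat_lit 1) (nat_lit 173) (nat_lit 440) (nat_lit 407)) (XT.lf (nat_lit 76) (nat_lit 37049583838) (nat_lit 0) (nat_lit 184099061387) (nat_lit 304) (nat_lit 37049583838) (nat_lit 233) (nat_lit 1) (nat_lit 232) (nat_lit 1) (nat_lit 236) (nat_lit 1) (nat_lit 174) (nat_lit 440) (nat_lit 406))))))) (XT.nd (nat_lit 1014) (nat_lit 1292) (nat_lit 0) (XT.nd (nat_lit 468) (nat_lit 684) (nat_lit 0) (XT.nd (nat_lit 234) (nat_lit 380) (nat_lit 0) (XT.nd (nat_lit 78) (nat_lit 304) (nat_lit 0) (XT.lf (nat_lit 228) (nat_lit 13576199392) (nat_lit 0) (nat_lit 119900340924) (nat_lit 152) (nat_lit 119900340924) (nat_lit 233) (nat_lit 1) (nat_lit 230) (nat_lit 1) (nat_lit 232) (nat_lit 1) (nat_lit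 175) (nat_lit 440) (nat_lit 405)) (XT.nd (nat_lit 78) (nat_lit 0) (nat_lit 0) (XT.lf (nat_lit 304) (nat_lit 205131820514) (nat_lit 0) (nat_lit 21786486203) (nat_lit 228) (nat_lit 21786486203) (nat_lit 230) (nat_lit 1) (nat_lit 226) (nat_lit 1) (nat_lit 229) (nat_lit 1) (nat_lit 176) (nat_lit 440) (nat_lit 404)) (XT.lf (nat_lit 76) (nat_lit 71647675664) (nat_lit 0) (nat_lit 100789606086) (nat_lit 304) (nat_lit 71647675664) (nat_lit 227) (nat_lit 1) (nat_lit 226) (nat_lit 1) (nat_lit 230) (nat_lit 1) (nat_lit 177) (nat_lit 440) (nat_lit 403)))) (XT.nd (nat_lit 78) (nat_lit 228) (nat_lit 0) (XT.lf (nat_lit 228) (nat_lit 82777837104) (nat_lit 0) (nat_lit 78414932799) (nat_lit 152) (nat_lit 78414932799) (nat_lit 227) (nat_lit 1) (nat_lit 224) (nat_lit 1) (nat_lit 226) (nat_lit 1) (nat_lit 178) (nat_lit 440) (nat_lit 402)) (XT.nd (nat_lit 78) (nat_lit 228) (nat_lit 0) (XT.lf (nat_lit 76) (nat_lit 11892547774)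 (nat_lit 0) (nat_lit 211493935345) (nat_lit 228) (nat_lit 11892547774) (nat_lit 225) (nat_lit 1) (nat_lit 224) (nat_lit 1) (nat_lit 227) (nat_lit 1) (nat_lit 179) (nat_lit 440) (nat_lit 401)) (XT.lf (nat_lit 76) (nat_lit 98151283272) (nat_lit 0) (nat_lit 34663527575) (nat_lit 228) (nat_lit 98151283272) (nat_lit 222) (nat_lit 1) (nat_lit 221) (nat_lit 1) (nat_lit 224) (nat_lit 1) (nat_lit 180) (nat_lit 440) (nat_lit 400))))) (XT.nd (nat_lit 234) (nat_lit 380) (nat_lit 0) (XT.nd (nat_lit 78) (nat_lit 152) (nat_lit 0) (XT.lf (nat_lit 228) (nat_lit 136300259315) (nat_lit 0) (nat_lit 45247993171) (nat_lit 152) (nat_lit 45247993171) (nat_lit 222) (nat_lit 1) (nat_lit 219) (nat_lit 1) (nat_lit 221) (nat_lit 1) (nat_lit 181) (nat_lit 440) (nat_lit 399)) (XT.nd (nat_lit 78) (nat_lit 152) (nat_lit 0) (XT.lf (nat_lit 76) (nat_lit 38460387166) (nat_lit 0) (nat_lit 145797785627) (nat_lit 228) (nat_lit 38460387166)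 (nat_lit 220) (nat_lit 1) (nat_lit 219) (nat_lit 1) (nat_lit 222) (nat_lit 1) (nat_lit 182) (nat_lit 440) (nat_lit 398)) (XT.lf (nat_lit 228) (nat_lit 18017306683) (nat_lit 0) (nat_lit 100352881609) (nat_lit 152) (nat_lit 100352881609) (nat_lit 220) (nat_lit 1) (nat_lit 217) (nat_lit 1) (nat_lit 219) (nat_lit 1) (nat_lit 183) (nat_lit 440) (nat_lit 397)))) (XT.nd (nat_lit 156) (nat_lit 152) (nat_lit 0) (XT.nd (nat_lit 78) (nat_lit 0) (nat_lit 0) (XT.lf (nat_lit 228) (nat_lit 177085730055) (nat_lit 0) (nat_lit 18878811101) (nat_lit 152) (nat_lit 18878811101) (nat_lit 217) (nat_lit 1) (nat_lit 214) (nat_lit 1) (nat_lit 216) (nat_lit 1) (nat_lit 184) (nat_lit 440) (nat_lit 396)) (XT.lf (nat_lit 76) (nat_lit 58952273493) (nat_lit 0) (nat_lit 93092200592) (nat_lit 228) (nat_lit 58952273493) (nat_lit 215) (nat_lit 1) (nat_lit 214) (nat_lit 1) (nat_lit 217) (nat_lit 1) (nat_lit 185) (nat_lit 440) (nat_lit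 395))) (XT.nd (nat_lit 78) (nat_lit 0) (nat_lit 0) (XT.lf (nat_lit 228) (nat_lit 60040028387) (nat_lit 0) (nat_lit 73610893389) (nat_lit 152) (nat_lit 73610893389) (nat_lit 215) (nat_lit 1) (nat_lit 212) (nat_lit 1) (nat_lit 214) (nat_lit 1) (nat_lit 186) (nat_lit 440) (nat_lit 394)) (XT.lf (nat_lit 76) (nat_lit 1973350146) (nat_lit 0) (nat_lit 199711166727) (nat_lit 228) (nat_lit 1973350146) (nat_lit 213) (nat_lit 1) (nat_lit 212) (nat_lit 1) (nat_lit 215) (nat_lit 1) (nat_lit 187) (nat_lit 440) (nat_lit 393)))))) (XT.nd (nat_lit 468) (nat_lit 684) (nat_lit 0) (XT.nd (nat_lit 234) (nat_lit 304) (nat_lit 0) (XT.nd (nat_lit 78) (nat_lit 152) (nat_lit 0) (XT.lf (nat_lit 76) (nat_lit 74510483955) (nat_lit 0) (nat_lit 51010042419) (nat_lit 152) (nat_lit 74510483955) (nat_lit 211) (nat_lit 1) (nat_lit 210) (nat_lit 1) (nat_lit 212) (nat_lit 1) (nat_lit 188) (nat_lit 440) (nat_lit 392)) (XT.nd (nat_lit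 78) (nat_lit 0) (nat_lit 0) (XT.lf (nat_lit 228) (nat_lit 92459028121) (nat_lit 0) (nat_lit 52036368293) (nat_lit 152) (nat_lit 52036368293) (nat_lit 211) (nat_lit 1) (nat_lit 208) (nat_lit 1) (nat_lit 210) (nat_lit 1) (nat_lit 189) (nat_lit 440) (nat_lit 391)) (XT.lf (nat_lit 76) (nat_lit 18537396131) (nat_lit 0) (nat_lit 156052180338) (nat_lit 228) (nat_lit 18537396131) (nat_lit 209) (nat_lit 1) (nat_lit 208) (nat_lit 1) (nat_lit 211) (nat_lit 1) (nat_lit 190) (nat_lit 440) (nat_lit 390)))) (XT.nd (nat_lit 78) (nat_lit 152) (nat_lit 0) (XT.lf (nat_lit 76) (nat_lit 86071676365) (nat_lit 0) (nat_lit 17606905858) (nat_lit 152) (nat_lit 86071676365) (nat_lit 207) (nat_lit 1) (nat_lit 206) (nat_lit 1) (nat_lit 208) (nat_lit 1) (nat_lit 191) (nat_lit 440) (nat_lit 389)) (XT.nd (nat_lit 78) (nat_lit 0) (nat_lit 0) (XT.lf (nat_lit 228) (nat_lit 117079555233) (nat_lit 0) (nat_lit 34692833859) (nat_lit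 152) (nat_lit 34692833859) (nat_lit 207) (nat_lit 1) (nat_lit 204) (nat_lit 1) (nat_lit 206) (nat_lit 1) (nat_lit 192) (nat_lit 440) (nat_lit 388)) (XT.lf (nat_lit 76) (nat_lit 31359253180) (nat_lit 0) (nat_lit 120526714226) (nat_lit 228) (nat_lit 31359253180) (nat_lit 205) (nat_lit 1) (nat_lit 204) (nat_lit 1) (nat_lit 207) (nat_lit 1) (nat_lit 193) (nat_lit 440) (nat_lit 387))))) (XT.nd (nat_lit 234) (nat_lit 380) (nat_lit 0) (XT.nd (nat_lit 78) (nat_lit 228) (nat_lit 0) (XT.lf (nat_lit 152) (nat_lit 9002099600) (nat_lit 0) (nat_lit 85541940812) (nat_lit 76) (nat_lit 85541940812) (nat_lit 205) (nat_lit 1) (nat_lit 203) (nat_lit 1) (nat_lit 204) (nat_lit 1) (nat_lit 194) (nat_lit 440) (nat_lit 386)) (XT.nd (nat_lit 78) (nat_lit 0) (nat_lit 0) (XT.lf (nat_lit 228) (nat_lit 135381910296) (nat_lit 0) (nat_lit 20810818260) (nat_lit 152) (nat_lit 20810818260) (nat_lit 203) (nat_lit 1) (nat_lit 200)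 (nat_lit 1) (nat_lit 202) (nat_lit 1) (nat_lit 195) (nat_lit 440) (nat_lit 385)) (XT.lf (nat_lit 76) (nat_lit 41140755681) (nat_lit 0) (nat_lit 91674006324) (nat_lit 228) (nat_lit 41140755681) (nat_lit 201) (nat_lit 1) (nat_lit 200) (nat_lit 1) (nat_lit 203) (nat_lit 1) (nat_lit 196) (nat_lit 440) (nat_lit 384)))) (XT.nd (nat_lit 156) (nat_lit 76) (nat_lit 0) (XT.nd (nat_lit 78) (nat_lit 228) (nat_lit 0) (XT.lf (nat_lit 152) (nat_lit 30231089849) (nat_lit 0) (nat_lit 70375566404) (nat_lit 76) (nat_lit 70375566404) (nat_lit 201) (nat_lit 1) (nat_lit 199) (nat_lit 1) (nat_lit 200) (nat_lit 1) (nat_lit 197) (nat_lit 440) (nat_lit 383)) (XT.lf (nat_lit 228) (nat_lit 148579290222) (nat_lit 0) (nat_lit 9758195482) (nat_lit 152) (nat_lit 9758195482) (nat_lit 199) (nat_lit 1) (nat_lit 196) (nat_lit 1) (nat_lit 198) (nat_lit 1) (nat_lit 198) (nat_lit 440) (nat_lit 382))) (XT.nd (nat_lit 78) (nat_lit 76)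 (nat_lit 0) (XT.lf (nat_lit 76) (nat_lit 48457478164) (nat_lit 0) (nat_lit 68293174975) (nat_lit 228) (nat_lit 48457478164) (nat_lit 197) (nat_lit 1) (nat_lit 196) (nat_lit 1) (nat_lit 199) (nat_lit 1) (nat_lit 199) (nat_lit 440) (nat_lit 381)) (XT.lf (nat_lit 152) (nat_lit 46609325987) (nat_lit 0) (nat_lit 57898152646) (nat_lit 76) (nat_lit 57898152646) (nat_lit 197) (nat_lit 1) (nat_lit 195) (nat_lit 1) (nat_lit 196) (nat_lit 1) (nat_lit 200) (nat_lit 440) (nat_lit 380))))))))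
noncomputable def ec462 : XT := (XT.nd (nat_lit 1950) (nat_lit 1900) (nat_lit 0) (XT.nd (nat_lit 936) (nat_lit 912) (nat_lit 0) (XT.nd (nat_lit 468) (nat_lit 456) (nat_lit 0) (XT.nd (nat_lit 234) (nat_lit 228) (nat_lit 0) (XT.nd (nat_lit 78) (nat_lit 76) (nat_lit 0) (XT.lf (nat_lit 228) (nat_lit 157665366511) (nat_lit 0) (nat_lit 1015790426) (nat_lit 152) (nat_lit 1015790426) (nat_lit 195) (nat_lit 1) (nat_lit 192) (nat_lit 1) (nat_lit 194) (nat_lit 1) (nat_lit 201) (nat_lit 440) (nat_lit 379)) (XT.nd (nat_lit 78) (nat_lit 76) (nat_lit 0) (XT.lf (nat_lit 76) (nat_lit 53781207826) (nat_lit 0) (nat_lit 49397100346) (nat_lit 228) (nat_lit 53781207826) (nat_lit 193) (nat_lit 1) (nat_lit 192) (nat_lit 1) (nat_lit 195) (nat_lit 1) (nat_lit 202) (nat_lit 440) (nat_lit 378)) (XT.lf (nat_lit 152) (nat_lit 59048592174) (nat_lit 0) (nat_lit 47632953467) (nat_lit 76) (nat_lit 47632953467) (nat_lit 193) (nat_lit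 1) (nat_lit 191) (nat_lit 1) (nat_lit 192) (nat_lit 1) (nat_lit 203) (nat_lit 440) (nat_lit 377)))) (XT.nd (nat_lit 78) (nat_lit 228) (nat_lit 0) (XT.lf (nat_lit 0) (nat_lit 5938470528) (nat_lit 0) (nat_lit 139872398646) (nat_lit 152) (nat_lit 5938470528) (nat_lit 191) (nat_lit 3) (nat_lit 191) (nat_lit 1) (nat_lit 193) (nat_lit 1) (nat_lit 204) (nat_lit 440) (nat_lit 376)) (XT.nd (nat_lit 78) (nat_lit 76) (nat_lit 0) (XT.lf (nat_lit 76) (nat_lit 57498428604) (nat_lit 0) (nat_lit 34174484591) (nat_lit 152) (nat_lit 57498428604) (nat_lit 190) (nat_lit 1) (nat_lit 189) (nat_lit 1) (nat_lit 191) (nat_lit 1) (nat_lit 205) (nat_lit 440) (nat_lit 375)) (XT.lf (nat_lit 152) (nat_lit 68296550853) (nat_lit 0) (nat_lit 39187748699) (nat_lit 76) (nat_lit 39187748699) (nat_lit 190) (nat_lit 1) (nat_lit 188) (nat_lit 1) (nat_lit 189) (nat_lit 1) (nat_lit 206) (nat_lit 440) (nat_lit 374))))) (XT.nd (nat_lit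 234) (nat_lit 228) (nat_lit 0) (XT.nd (nat_lit 78) (nat_lit 228) (nat_lit 0) (XT.lf (nat_lit 0) (nat_lit 11350226511) (nat_lit 0) (nat_lit 121538000632) (nat_lit 152) (nat_lit 11350226511) (nat_lit 188) (nat_lit 3) (nat_lit 188) (nat_lit 1) (nat_lit 190) (nat_lit 1) (nat_lit 207) (nat_lit 440) (nat_lit 373)) (XT.nd (nat_lit 78) (nat_lit 76) (nat_lit 0) (XT.lf (nat_lit 76) (nat_lit 59925524107) (nat_lit 0) (nat_lit 21958640561) (nat_lit 152) (nat_lit 59925524107) (nat_lit 187) (nat_lit 1) (nat_lit 186) (nat_lit 1) (nat_lit 188) (nat_lit 1) (nat_lit 208) (nat_lit 440) (nat_lit 372)) (XT.lf (nat_lit 152) (nat_lit 74965958491) (nat_lit 0) (nat_lit 32239857836) (nat_lit 76) (nat_lit 32239857836) (nat_lit 187) (nat_lit 1) (nat_lit 185) (nat_lit 1) (nat_lit 186) (nat_lit 1) (nat_lit 209) (nat_lit 440) (nat_lit 371)))) (XT.nd (nat_lit 78) (nat_lit 228) (nat_lit 0) (XT.lf (nat_lit 0) (nat_lit 15494651927)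 (nat_lit 0) (nat_lit 106146406388) (nat_lit 152) (nat_lit 15494651927) (nat_lit 185) (nat_lit 3) (nat_lit 185) (nat_lit 1) (nat_lit 187) (nat_lit 1) (nat_lit 210) (nat_lit 440) (nat_lit 370)) (XT.nd (nat_lit 78) (nat_lit 76) (nat_lit 0) (XT.lf (nat_lit 76) (nat_lit 61321281365) (nat_lit 0) (nat_lit 12201816040) (nat_lit 152) (nat_lit 61321281365) (nat_lit 184) (nat_lit 1) (nat_lit 183) (nat_lit 1) (nat_lit 185) (nat_lit 1) (nat_lit 211) (nat_lit 440) (nat_lit 369)) (XT.lf (nat_lit 152) (nat_lit 79558695847) (nat_lit 0) (nat_lit 26523810829) (nat_lit 76) (nat_lit 26523810829) (nat_lit 184) (nat_lit 1) (nat_lit 182) (nat_lit 1) (nat_lit 183) (nat_lit 1) (nat_lit 212) (nat_lit 440) (nat_lit 368)))))) (XT.nd (nat_lit 468) (nat_lit 456) (nat_lit 0) (XT.nd (nat_lit 234) (nat_lit 228) (nat_lit 0) (XT.nd (nat_lit 78) (nat_lit 228) (nat_lit 0) (XT.lf (nat_lit 0) (nat_lit 18611100378) (nat_lit 0) (nat_lit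 93190523118) (nat_lit 152) (nat_lit 18611100378) (nat_lit 182) (nat_lit 3) (nat_lit 182) (nat_lit 1) (nat_lit 184) (nat_lit 1) (nat_lit 213) (nat_lit 440) (nat_lit 367)) (XT.nd (nat_lit 78) (nat_lit 76) (nat_lit 0) (XT.lf (nat_lit 76) (nat_lit 61897174106) (nat_lit 0) (nat_lit 4454071975) (nat_lit 152) (nat_lit 61897174106) (nat_lit 181) (nat_lit 1) (nat_lit 180) (nat_lit 1) (nat_lit 182) (nat_lit 1) (nat_lit 214) (nat_lit 440) (nat_lit 366)) (XT.lf (nat_lit 152) (nat_lit 82485532413) (nat_lit 0) (nat_lit 21821204810) (nat_lit 76) (nat_lit 21821204810) (nat_lit 181) (nat_lit 1) (nat_lit 179) (nat_lit 1) (nat_lit 180) (nat_lit 1) (nat_lit 215) (nat_lit 440) (nat_lit 365)))) (XT.nd (nat_lit 78) (nat_lit 228) (nat_lit 0) (XT.lf (nat_lit 0) (nat_lit 20895790618) (nat_lit 0) (nat_lit 82252466274) (nat_lit 152) (nat_lit 20895790618) (nat_lit 179) (nat_lit 3) (nat_lit 179) (nat_lit 1) (nat_lit 181) (nat_lit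 1) (nat_lit 216) (nat_lit 440) (nat_lit 364)) (XT.nd (nat_lit 78) (nat_lit 152) (nat_lit 0) (XT.lf (nat_lit 76) (nat_lit 1708784577) (nat_lit 0) (nat_lit 60143713773) (nat_lit 76) (nat_lit 60143713773) (nat_lit 179) (nat_lit 3) (nat_lit 178) (nat_lit 1) (nat_lit 179) (nat_lit 1) (nat_lit 217) (nat_lit 440) (nat_lit 363)) (XT.lf (nat_lit 152) (nat_lit 84082381601) (nat_lit 0) (nat_lit 17952359200) (nat_lit 76) (nat_lit 17952359200) (nat_lit 178) (nat_lit 1) (nat_lit 176) (nat_lit 1) (nat_lit 177) (nat_lit 1) (nat_lit 218) (nat_lit 440) (nat_lit 362))))) (XT.nd (nat_lit 234) (nat_lit 228) (nat_lit 0) (XT.nd (nat_lit 78) (nat_lit 228) (nat_lit 0) (XT.lf (nat_lit 0) (nat_lit 22509487490) (nat_lit 0) (nat_lit 72987776398) (nat_lit 152) (nat_lit 22509487490) (nat_lit 176) (nat_lit 3) (nat_lit 176) (nat_lit 1) (nat_lit 178) (nat_lit 1) (nat_lit 219) (nat_lit 440) (nat_lit 361)) (XT.nd (nat_lit 78) (nat_lit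 152) (nat_lit 0) (XT.lf (nat_lit 76) (nat_lit 6638508381) (nat_lit 0) (nat_lit 54713069245) (nat_lit 76) (nat_lit 54713069245) (nat_lit 176) (nat_lit 3) (nat_lit 175) (nat_lit 1) (nat_lit 176) (nat_lit 1) (nat_lit 220) (nat_lit 440) (nat_lit 360)) (XT.lf (nat_lit 152) (nat_lit 84623669098) (nat_lit 0) (nat_lit 14769450342) (nat_lit 76) (nat_lit 14769450342) (nat_lit 175) (nat_lit 1) (nat_lit 173) (nat_lit 1) (nat_lit 174) (nat_lit 1) (nat_lit 221) (nat_lit 440) (nat_lit 359)))) (XT.nd (nat_lit 156) (nat_lit 152) (nat_lit 0) (XT.nd (nat_lit 78) (nat_lit 76) (nat_lit 0) (XT.lf (nat_lit 0) (nat_lit 23583819480) (nat_lit 0) (nat_lit 65112432688) (nat_lit 152) (nat_lit 23583819480) (nat_lit 173) (nat_lit 3) (nat_lit 173) (nat_lit 1) (nat_lit 175) (nat_lit 1) (nat_lit 222) (nat_lit 440) (nat_lit 358)) (XT.lf (nat_lit 76) (nat_lit 10445028780) (nat_lit 0) (nat_lit 49996088977) (nat_lit 76) (nat_lit 49996088977)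 (nat_lit 173) (nat_lit 3) (nat_lit 172) (nat_lit 1) (nat_lit 173) (nat_lit 1) (nat_lit 223) (nat_lit 440) (nat_lit 357))) (XT.nd (nat_lit 78) (nat_lit 0) (nat_lit 0) (XT.lf (nat_lit 152) (nat_lit 84333326438) (nat_lit 0) (nat_lit 12150863347) (nat_lit 76) (nat_lit 12150863347) (nat_lit 172) (nat_lit 1) (nat_lit 170) (nat_lit 1) (nat_lit 171) (nat_lit 1) (nat_lit 224) (nat_lit 440) (nat_lit 356)) (XT.lf (nat_lit 0) (nat_lit 24226474666) (nat_lit 0) (nat_lit 58392167527) (nat_lit 152) (nat_lit 24226474666) (nat_lit 170) (nat_lit 3) (nat_lit 170) (nat_lit 1) (nat_lit 172) (nat_lit 1) (nat_lit 225) (nat_lit 440) (nat_lit 355))))))) (XT.nd (nat_lit 936) (nat_lit 988) (nat_lit 0) (XT.nd (nat_lit 468) (nat_lit 456) (nat_lit 0) (XT.nd (nat_lit 234) (nat_lit 228) (nat_lit 0) (XT.nd (nat_lit 78) (nat_lit 152) (nat_lit 0) (XT.lf (nat_lit 76) (nat_lit 13339352460) (nat_lit 0) (nat_lit 45878107565) (nat_lit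 76) (nat_lit 45878107565) (nat_lit 170) (nat_lit 3) (nat_lit 169) (nat_lit 1) (nat_lit 170) (nat_lit 1) (nat_lit 226) (nat_lit 440) (nat_lit 354)) (XT.nd (nat_lit 78) (nat_lit 0) (nat_lit 0) (XT.lf (nat_lit 152) (nat_lit 83393831078) (nat_lit 0) (nat_lit 9996545347) (nat_lit 76) (nat_lit 9996545347) (nat_lit 169) (nat_lit 1) (nat_lit 167) (nat_lit 1) (nat_lit 168) (nat_lit 1) (nat_lit 227) (nat_lit 440) (nat_lit 353)) (XT.lf (nat_lit 0) (nat_lit 24525474011) (nat_lit 0) (nat_lit 52633674080) (nat_lit 152) (nat_lit 24525474011) (nat_lit 167) (nat_lit 3) (nat_lit 167) (nat_lit 1) (nat_lit 169) (nat_lit 1) (nat_lit 228) (nat_lit 440) (nat_lit 352)))) (XT.nd (nat_lit 78) (nat_lit 152) (nat_lit 0) (XT.lf (nat_lit 76) (nat_lit 15494510123) (nat_lit 0) (nat_lit 42264224475) (nat_lit 76) (nat_lit 42264224475) (nat_lit 167) (nat_lit 3) (nat_lit 166) (nat_lit 1) (nat_lit 167) (nat_lit 1) (nat_lit 229) (nat_lit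 440) (nat_lit 351)) (XT.nd (nat_lit 78) (nat_lit 0) (nat_lit 0) (XT.lf (nat_lit 152) (nat_lit 81953639505) (nat_lit 0) (nat_lit 8224182596) (nat_lit 76) (nat_lit 8224182596) (nat_lit 166) (nat_lit 1) (nat_lit 164) (nat_lit 1) (nat_lit 165) (nat_lit 1) (nat_lit 230) (nat_lit 440) (nat_lit 350)) (XT.lf (nat_lit 0) (nat_lit 24552685638) (nat_lit 0) (nat_lit 47677371397) (nat_lit 152) (nat_lit 24552685638) (nat_lit 164) (nat_lit 3) (nat_lit 164) (nat_lit 1) (nat_lit 166) (nat_lit 1) (nat_lit 231) (nat_lit 440) (nat_lit 349))))) (XT.nd (nat_lit 234) (nat_lit 228) (nat_lit 0) (XT.nd (nat_lit 78) (nat_lit 152) (nat_lit 0) (XT.lf (nat_lit 76) (nat_lit 17052316435) (nat_lit 0) (nat_lit 39075826682) (nat_lit 76) (nat_lit 39075826682) (nat_lit 164) (nat_lit 3) (nat_lit 163) (nat_lit 1) (nat_lit 164) (nat_lit 1) (nat_lit 232) (nat_lit 440) (nat_lit 348)) (XT.nd (nat_lit 78) (nat_lit 0) (nat_lit 0) (XT.lf (nat_lit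 152) (nat_lit 80133298510) (nat_lit 0) (nat_lit 6766055375) (nat_lit 76) (nat_lit 6766055375) (nat_lit 163) (nat_lit 1) (nat_lit 161) (nat_lit 1) (nat_lit 162) (nat_lit 1) (nat_lit 233) (nat_lit 440) (nat_lit 347)) (XT.lf (nat_lit 0) (nat_lit 24366714736) (nat_lit 0) (nat_lit 43391450939) (nat_lit 152) (nat_lit 24366714736) (nat_lit 161) (nat_lit 3) (nat_lit 161) (nat_lit 1) (nat_lit 163) (nat_lit 1) (nat_lit 234) (nat_lit 440) (nat_lit 346)))) (XT.nd (nat_lit 78) (nat_lit 152) (nat_lit 0) (XT.lf (nat_lit 76) (nat_lit 18128930181) (nat_lit 0) (nat_lit 36247726564) (nat_lit 76) (nat_lit 36247726564) (nat_lit 161) (nat_lit 3) (nat_lit 160) (nat_lit 1) (nat_lit 161) (nat_lit 1) (nat_lit 235) (nat_lit 440) (nat_lit 345)) (XT.nd (nat_lit 78) (nat_lit 0) (nat_lit 0) (XT.lf (nat_lit 152) (nat_lit 78030469161) (nat_lit 0) (nat_lit 5566450501) (nat_lit 76) (nat_lit 5566450501) (nat_lit 160) (nat_lit 1)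 (nat_lit 158) (nat_lit 1) (nat_lit 159) (nat_lit 1) (nat_lit 236) (nat_lit 440) (nat_lit 344)) (XT.lf (nat_lit 0) (nat_lit 24015279848) (nat_lit 0) (nat_lit 39666977404) (nat_lit 152) (nat_lit 24015279848) (nat_lit 158) (nat_lit 3) (nat_lit 158) (nat_lit 1) (nat_lit 160) (nat_lit 1) (nat_lit 237) (nat_lit 440) (nat_lit 343)))))) (XT.nd (nat_lit 468) (nat_lit 532) (nat_lit 0) (XT.nd (nat_lit 234) (nat_lit 228) (nat_lit 0) (XT.nd (nat_lit 78) (nat_lit 152) (nat_lit 0) (XT.lf (nat_lit 76) (nat_lit 18819427391) (nat_lit 0) (nat_lit 33725806016) (nat_lit 76) (nat_lit 33725806016) (nat_lit 158) (nat_lit 3) (nat_lit 157) (nat_lit 1) (nat_lit 158) (nat_lit 1) (nat_lit 238) (nat_lit 440) (nat_lit 342)) (XT.nd (nat_lit 78) (nat_lit 0) (nat_lit 0) (XT.lf (nat_lit 152) (nat_lit 75724056434) (nat_lit 0) (nat_lit 4579532603) (nat_lit 76) (nat_lit 4579532603) (nat_lit 157) (nat_lit 1) (nat_lit 155) (nat_lit 1)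 (nat_lit 156) (nat_lit 1) (nat_lit 239) (nat_lit 440) (nat_lit 341)) (XT.lf (nat_lit 0) (nat_lit 23537166671) (nat_lit 0) (nat_lit 36413856985) (nat_lit 152) (nat_lit 23537166671) (nat_lit 155) (nat_lit 3) (nat_lit 155) (nat_lit 1) (nat_lit 157) (nat_lit 1) (nat_lit 240) (nat_lit 440) (nat_lit 340)))) (XT.nd (nat_lit 78) (nat_lit 152) (nat_lit 0) (XT.lf (nat_lit 76) (nat_lit 19201562503) (nat_lit 0) (nat_lit 31465077088) (nat_lit 76) (nat_lit 31465077088) (nat_lit 155) (nat_lit 3) (nat_lit 154) (nat_lit 1) (nat_lit 155) (nat_lit 1) (nat_lit 241) (nat_lit 440) (nat_lit 339)) (XT.nd (nat_lit 78) (nat_lit 0) (nat_lit 0) (XT.lf (nat_lit 152) (nat_lit 73277603245) (nat_lit 0) (nat_lit 3767592806) (nat_lit 76) (nat_lit 3767592806) (nat_lit 154) (nat_lit 1) (nat_lit 152) (nat_lit 1) (nat_lit 153) (nat_lit 1) (nat_lit 242) (nat_lit 440) (nat_lit 338)) (XT.lf (nat_lit 0) (nat_lit 22963834324) (nat_lit 0)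 (nat_lit 33557519312) (nat_lit 152) (nat_lit 22963834324) (nat_lit 152) (nat_lit 3) (nat_lit 152) (nat_lit 1) (nat_lit 154) (nat_lit 1) (nat_lit 243) (nat_lit 440) (nat_lit 337))))) (XT.nd (nat_lit 234) (nat_lit 304) (nat_lit 0) (XT.nd (nat_lit 78) (nat_lit 152) (nat_lit 0) (XT.lf (nat_lit 76) (nat_lit 19338861577) (nat_lit 0) (nat_lit 29428085375) (nat_lit 76) (nat_lit 29428085375) (nat_lit 152) (nat_lit 3) (nat_lit 151) (nat_lit 1) (nat_lit 152) (nat_lit 1) (nat_lit 244) (nat_lit 440) (nat_lit 336)) (XT.nd (nat_lit 78) (nat_lit 0) (nat_lit 0) (XT.lf (nat_lit 152) (nat_lit 70742079456) (nat_lit 0) (nat_lit 3099607925) (nat_lit 76) (nat_lit 3099607925) (nat_lit 151) (nat_lit 1) (nat_lit 149) (nat_lit 1) (nat_lit 150) (nat_lit 1) (nat_lit 245) (nat_lit 440) (nat_lit 335)) (XT.lf (nat_lit 0) (nat_lit 22320735761) (nat_lit 0) (nat_lit 31036186618) (nat_lit 152) (nat_lit 22320735761) (nat_lit 149)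 (nat_lit 3) (nat_lit 149) (nat_lit 1) (nat_lit 151) (nat_lit 1) (nat_lit 246) (nat_lit 440) (nat_lit 334)))) (XT.nd (nat_lit 156) (nat_lit 76) (nat_lit 0) (XT.nd (nat_lit 78) (nat_lit 152) (nat_lit 0) (XT.lf (nat_lit 76) (nat_lit 19283166027) (nat_lit 0) (nat_lit 27583595415) (nat_lit 76) (nat_lit 27583595415) (nat_lit 149) (nat_lit 3) (nat_lit 148) (nat_lit 1) (nat_lit 149) (nat_lit 1) (nat_lit 247) (nat_lit 440) (nat_lit 333)) (XT.lf (nat_lit 152) (nat_lit 68158173287) (nat_lit 0) (nat_lit 2550055111) (nat_lit 76) (nat_lit 2550055111) (nat_lit 148) (nat_lit 1) (nat_lit 146) (nat_lit 1) (nat_lit 147) (nat_lit 1) (nat_lit 248) (nat_lit 440) (nat_lit 332))) (XT.nd (nat_lit 78) (nat_lit 76) (nat_lit 0) (XT.lf (nat_lit 0) (nat_lit 21628403057) (nat_lit 0) (nat_lit 28798626046) (nat_lit 152) (nat_lit 21628403057) (nat_lit 146) (nat_lit 3) (nat_lit 146) (nat_lit 1) (nat_lit 148) (nat_lit 1) (nat_lit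 249) (nat_lit 440) (nat_lit 331)) (XT.lf (nat_lit 76) (nat_lit 19076724363) (nat_lit 0) (nat_lit 25905508162) (nat_lit 76) (nat_lit 25905508162) (nat_lit 146) (nat_lit 3) (nat_lit 145) (nat_lit 1) (nat_lit 146) (nat_lit 1) (nat_lit 250) (nat_lit 440) (nat_lit 330))))))))
noncomputable def ec463 : XT := (XT.nd (nat_lit 1950) (nat_lit 1900) (nat_lit 0) (XT.nd (nat_lit 936) (nat_lit 1064) (nat_lit 0) (XT.nd (nat_lit 468) (nat_lit 456) (nat_lit 0) (XT.nd (nat_lit 234) (nat_lit 228) (nat_lit 0) (XT.nd (nat_lit 78) (nat_lit 76) (nat_lit 0) (XT.lf (nat_lit 152) (nat_lit 65558173504) (nat_lit 0) (nat_lit 2097936651) (nat_lit 76) (nat_lit 2097936651) (nat_lit 145) (nat_lit 1) (nat_lit 143) (nat_lit 1) (nat_lit 144) (nat_lit 1) (nat_lit 251) (nat_lit 440) (nat_lit 329)) (XT.nd (nat_lit 78) (nat_lit 76) (nat_lit 0) (XT.lf (nat_lit 0) (nat_lit 20903339299) (nat_lit 0) (nat_lit 26802299497) (nat_lit 152) (nat_lit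 20903339299) (nat_lit 143) (nat_lit 3) (nat_lit 143) (nat_lit 1) (nat_lit 145) (nat_lit 1) (nat_lit 252) (nat_lit 440) (nat_lit 328)) (XT.lf (nat_lit 76) (nat_lit 18753912107) (nat_lit 0) (nat_lit 24371969438) (nat_lit 76) (nat_lit 24371969438) (nat_lit 143) (nat_lit 3) (nat_lit 142) (nat_lit 1) (nat_lit 143) (nat_lit 1) (nat_lit 253) (nat_lit 440) (nat_lit 327)))) (XT.nd (nat_lit 78) (nat_lit 76) (nat_lit 0) (XT.lf (nat_lit 152) (nat_lit 62967515074) (nat_lit 0) (nat_lit 1725977674) (nat_lit 76) (nat_lit 1725977674) (nat_lit 142) (nat_lit 1) (nat_lit 140) (nat_lit 1) (nat_lit 141) (nat_lit 1) (nat_lit 254) (nat_lit 440) (nat_lit 326)) (XT.nd (nat_lit 78) (nat_lit 76) (nat_lit 0) (XT.lf (nat_lit 0) (nat_lit 20158751428) (nat_lit 0) (nat_lit 25011840582) (nat_lit 152) (nat_lit 20158751428) (nat_lit 140) (nat_lit 3) (nat_lit 140) (nat_lit 1) (nat_lit 142) (nat_lit 1) (nat_lit 255) (nat_lit 440) (nat_lit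 325)) (XT.lf (nat_lit 76) (nat_lit 18342645866) (nat_lit 0) (nat_lit 22964635536) (nat_lit 76) (nat_lit 22964635536) (nat_lit 140) (nat_lit 3) (nat_lit 139) (nat_lit 1) (nat_lit 140) (nat_lit 1) (nat_lit 256) (nat_lit 440) (nat_lit 324))))) (XT.nd (nat_lit 234) (nat_lit 228) (nat_lit 0) (XT.nd (nat_lit 78) (nat_lit 76) (nat_lit 0) (XT.lf (nat_lit 152) (nat_lit 60406048092) (nat_lit 0) (nat_lit 1419966104) (nat_lit 76) (nat_lit 1419966104) (nat_lit 139) (nat_lit 1) (nat_lit 137) (nat_lit 1) (nat_lit 138) (nat_lit 1) (nat_lit 257) (nat_lit 440) (nat_lit 323)) (XT.nd (nat_lit 78) (nat_lit 76) (nat_lit 0) (XT.lf (nat_lit 0) (nat_lit 19405152265) (nat_lit 0) (nat_lit 23397800722) (nat_lit 152) (nat_lit 19405152265) (nat_lit 137) (nat_lit 3) (nat_lit 137) (nat_lit 1) (nat_lit 139) (nat_lit 1) (nat_lit 258) (nat_lit 440) (nat_lit 322)) (XT.lf (nat_lit 76) (nat_lit 17865545829) (nat_lit 0) (nat_lit 21668068169)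 (nat_lit 76) (nat_lit 21668068169) (nat_lit 137) (nat_lit 3) (nat_lit 136) (nat_lit 1) (nat_lit 137) (nat_lit 1) (nat_lit 259) (nat_lit 440) (nat_lit 321)))) (XT.nd (nat_lit 78) (nat_lit 76) (nat_lit 0) (XT.lf (nat_lit 152) (nat_lit 57889079171) (nat_lit 0) (nat_lit 1168209628) (nat_lit 76) (nat_lit 1168209628) (nat_lit 136) (nat_lit 1) (nat_lit 134) (nat_lit 1) (nat_lit 135) (nat_lit 1) (nat_lit 260) (nat_lit 440) (nat_lit 320)) (XT.nd (nat_lit 78) (nat_lit 76) (nat_lit 0) (XT.lf (nat_lit 0) (nat_lit 18650854961) (nat_lit 0) (nat_lit 21935616727) (nat_lit 152) (nat_lit 18650854961) (nat_lit 134) (nat_lit 3) (nat_lit 134) (nat_lit 1) (nat_lit 136) (nat_lit 1) (nat_lit 261) (nat_lit 440) (nat_lit 319)) (XT.lf (nat_lit 76) (nat_lit 17340891319) (nat_lit 0) (nat_lit 20469235859) (nat_lit 76) (nat_lit 20469235859) (nat_lit 134) (nat_lit 3) (nat_lit 133) (nat_lit 1) (nat_lit 134) (nat_lit 1) (nat_lit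 262) (nat_lit 440) (nat_lit 318)))))) (XT.nd (nat_lit 468) (nat_lit 608) (nat_lit 0) (XT.nd (nat_lit 234) (nat_lit 228) (nat_lit 0) (XT.nd (nat_lit 78) (nat_lit 76) (nat_lit 0) (XT.lf (nat_lit 152) (nat_lit 55428225757) (nat_lit 0) (nat_lit 961088952) (nat_lit 76) (nat_lit 961088952) (nat_lit 133) (nat_lit 1) (nat_lit 131) (nat_lit 1) (nat_lit 132) (nat_lit 1) (nat_lit 263) (nat_lit 440) (nat_lit 317)) (XT.nd (nat_lit 78) (nat_lit 76) (nat_lit 0) (XT.lf (nat_lit 0) (nat_lit 17902378979) (nat_lit 0) (nat_lit 20604760613) (nat_lit 152) (nat_lit 17902378979) (nat_lit 131) (nat_lit 3) (nat_lit 131) (nat_lit 1) (nat_lit 133) (nat_lit 1) (nat_lit 264) (nat_lit 440) (nat_lit 316)) (XT.lf (nat_lit 76) (nat_lit 16783406158) (nat_lit 0) (nat_lit 19357102953) (nat_lit 76) (nat_lit 19357102953) (nat_lit 131) (nat_lit 3) (nat_lit 130) (nat_lit 1) (nat_lit 131) (nat_lit 1) (nat_lit 265) (nat_lit 440) (nat_lit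 315)))) (XT.nd (nat_lit 78) (nat_lit 76) (nat_lit 0) (XT.lf (nat_lit 152) (nat_lit 53032116656) (nat_lit 0) (nat_lit 790690259) (nat_lit 76) (nat_lit 790690259) (nat_lit 130) (nat_lit 1) (nat_lit 128) (nat_lit 1) (nat_lit 129) (nat_lit 1) (nat_lit 266) (nat_lit 440) (nat_lit 314)) (XT.nd (nat_lit 78) (nat_lit 76) (nat_lit 0) (XT.lf (nat_lit 0) (nat_lit 17164783344) (nat_lit 0) (nat_lit 19388039402) (nat_lit 152) (nat_lit 17164783344) (nat_lit 128) (nat_lit 3) (nat_lit 128) (nat_lit 1) (nat_lit 130) (nat_lit 1) (nat_lit 267) (nat_lit 440) (nat_lit 313)) (XT.lf (nat_lit 76) (nat_lit 16204904025) (nat_lit 0) (nat_lit 18322290747) (nat_lit 76) (nat_lit 18322290747) (nat_lit 128) (nat_lit 3) (nat_lit 127) (nat_lit 1) (nat_lit 128) (nat_lit 1) (nat_lit 268) (nat_lit 440) (nat_lit 312))))) (XT.nd (nat_lit 234) (nat_lit 380) (nat_lit 0) (XT.nd (nat_lit 78) (nat_lit 76) (nat_lit 0) (XT.lf (nat_lit 152)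 (nat_lit 50706966143) (nat_lit 0) (nat_lit 650502833) (nat_lit 76) (nat_lit 650502833) (nat_lit 127) (nat_lit 1) (nat_lit 125) (nat_lit 1) (nat_lit 126) (nat_lit 1) (nat_lit 269) (nat_lit 440) (nat_lit 311)) (XT.nd (nat_lit 78) (nat_lit 76) (nat_lit 0) (XT.lf (nat_lit 0) (nat_lit 16441940073) (nat_lit 0) (nat_lit 18271018334) (nat_lit 152) (nat_lit 16441940073) (nat_lit 125) (nat_lit 3) (nat_lit 125) (nat_lit 1) (nat_lit 127) (nat_lit 1) (nat_lit 270) (nat_lit 440) (nat_lit 310)) (XT.lf (nat_lit 76) (nat_lit 15614818685) (nat_lit 0) (nat_lit 17356797982) (nat_lit 76) (nat_lit 17356797982) (nat_lit 125) (nat_lit 3) (nat_lit 124) (nat_lit 1) (nat_lit 125) (nat_lit 1) (nat_lit 271) (nat_lit 440) (nat_lit 309)))) (XT.nd (nat_lit 156) (nat_lit 228) (nat_lit 0) (XT.nd (nat_lit 78) (nat_lit 0) (nat_lit 0) (XT.lf (nat_lit 152) (nat_lit 48457044179) (nat_lit 0) (nat_lit 535170290) (nat_lit 76) (nat_lit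 535170290) (nat_lit 124) (nat_lit 1) (nat_lit 122) (nat_lit 1) (nat_lit 123) (nat_lit 1) (nat_lit 272) (nat_lit 440) (nat_lit 308)) (XT.lf (nat_lit 0) (nat_lit 15736758442) (nat_lit 0) (nat_lit 17241545654) (nat_lit 152) (nat_lit 15736758442) (nat_lit 122) (nat_lit 3) (nat_lit 122) (nat_lit 1) (nat_lit 124) (nat_lit 1) (nat_lit 273) (nat_lit 440) (nat_lit 307))) (XT.nd (nat_lit 78) (nat_lit 152) (nat_lit 0) (XT.lf (nat_lit 76) (nat_lit 15020639538) (nat_lit 0) (nat_lit 16453770217) (nat_lit 76) (nat_lit 16453770217) (nat_lit 122) (nat_lit 3) (nat_lit 121) (nat_lit 1) (nat_lit 122) (nat_lit 1) (nat_lit 274) (nat_lit 440) (nat_lit 306)) (XT.lf (nat_lit 152) (nat_lit 46285061257) (nat_lit 0) (nat_lit 440285922) (nat_lit 76) (nat_lit 440285922) (nat_lit 121) (nat_lit 1) (nat_lit 119) (nat_lit 1) (nat_lit 120) (nat_lit 1) (nat_lit 275) (nat_lit 440) (nat_lit 305))))))) (XT.nd (nat_lit 1014) (nat_lit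 988) (nat_lit 0) (XT.nd (nat_lit 468) (nat_lit 456) (nat_lit 0) (XT.nd (nat_lit 234) (nat_lit 228) (nat_lit 0) (XT.nd (nat_lit 78) (nat_lit 228) (nat_lit 0) (XT.lf (nat_lit 0) (nat_lit 15051368833) (nat_lit 0) (nat_lit 16289360997) (nat_lit 152) (nat_lit 15051368833) (nat_lit 119) (nat_lit 3) (nat_lit 119) (nat_lit 1) (nat_lit 121) (nat_lit 1) (nat_lit 276) (nat_lit 440) (nat_lit 304)) (XT.nd (nat_lit 78) (nat_lit 152) (nat_lit 0) (XT.lf (nat_lit 76) (nat_lit 14428269286) (nat_lit 0) (nat_lit 15607309441) (nat_lit 76) (nat_lit 15607309441) (nat_lit 119) (nat_lit 3) (nat_lit 118) (nat_lit 1) (nat_lit 119) (nat_lit 1) (nat_lit 277) (nat_lit 440) (nat_lit 303)) (XT.lf (nat_lit 152) (nat_lit 44192483098) (nat_lit 0) (nat_lit 362224318) (nat_lit 76) (nat_lit 362224318) (nat_lit 118) (nat_lit 1) (nat_lit 116) (nat_lit 1) (nat_lit 117) (nat_lit 1) (nat_lit 278) (nat_lit 440) (nat_lit 302)))) (XT.nd (nat_lit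 78) (nat_lit 228) (nat_lit 0) (XT.lf (nat_lit 0) (nat_lit 14387273357) (nat_lit 0) (nat_lit 15405772574) (nat_lit 152) (nat_lit 14387273357) (nat_lit 116) (nat_lit 3) (nat_lit 116) (nat_lit 1) (nat_lit 118) (nat_lit 1) (nat_lit 279) (nat_lit 440) (nat_lit 301)) (XT.nd (nat_lit 78) (nat_lit 152) (nat_lit 0) (XT.lf (nat_lit 76) (nat_lit 13842317576) (nat_lit 0) (nat_lit 14812316830) (nat_lit 76) (nat_lit 14812316830) (nat_lit 116) (nat_lit 3) (nat_lit 115) (nat_lit 1) (nat_lit 116) (nat_lit 1) (nat_lit 280) (nat_lit 440) (nat_lit 300)) (XT.lf (nat_lit 152) (nat_lit 42179787742) (nat_lit 0) (nat_lit 298002843) (nat_lit 76) (nat_lit 298002843) (nat_lit 115) (nat_lit 1) (nat_lit 113) (nat_lit 1) (nat_lit 114) (nat_lit 1) (nat_lit 281) (nat_lit 440) (nat_lit 299))))) (XT.nd (nat_lit 234) (nat_lit 228) (nat_lit 0) (XT.nd (nat_lit 78) (nat_lit 228) (nat_lit 0) (XT.lf (nat_lit 0) (nat_lit 13745469177) (nat_lit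 0) (nat_lit 14583391003) (nat_lit 152) (nat_lit 13745469177) (nat_lit 113) (nat_lit 3) (nat_lit 113) (nat_lit 1) (nat_lit 115) (nat_lit 1) (nat_lit 282) (nat_lit 440) (nat_lit 298)) (XT.nd (nat_lit 78) (nat_lit 152) (nat_lit 0) (XT.lf (nat_lit 76) (nat_lit 13266342001) (nat_lit 0) (nat_lit 14064362788) (nat_lit 76) (nat_lit 14064362788) (nat_lit 113) (nat_lit 3) (nat_lit 112) (nat_lit 1) (nat_lit 113) (nat_lit 1) (nat_lit 283) (nat_lit 440) (nat_lit 297)) (XT.lf (nat_lit 152) (nat_lit 40246675314) (nat_lit 0) (nat_lit 245167676) (nat_lit 76) (nat_lit 245167676) (nat_lit 112) (nat_lit 1) (nat_lit 110) (nat_lit 1) (nat_lit 111) (nat_lit 1) (nat_lit 284) (nat_lit 440) (nat_lit 296)))) (XT.nd (nat_lit 156) (nat_lit 152) (nat_lit 0) (XT.nd (nat_lit 78) (nat_lit 76) (nat_lit 0) (XT.lf (nat_lit 0) (nat_lit 13126549395) (nat_lit 0) (nat_lit 13815909755) (nat_lit 152) (nat_lit 13126549395) (nat_lit 110)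 (nat_lit 3) (nat_lit 110) (nat_lit 1) (nat_lit 112) (nat_lit 1) (nat_lit 285) (nat_lit 440) (nat_lit 295)) (XT.lf (nat_lit 76) (nat_lit 12703045800) (nat_lit 0) (nat_lit 13359579476) (nat_lit 76) (nat_lit 13359579476) (nat_lit 110) (nat_lit 3) (nat_lit 109) (nat_lit 1) (nat_lit 110) (nat_lit 1) (nat_lit 286) (nat_lit 440) (nat_lit 294))) (XT.nd (nat_lit 78) (nat_lit 0) (nat_lit 0) (XT.lf (nat_lit 152) (nat_lit 38392238957) (nat_lit 0) (nat_lit 201700054) (nat_lit 76) (nat_lit 201700054) (nat_lit 109) (nat_lit 1) (nat_lit 107) (nat_lit 1) (nat_lit 108) (nat_lit 1) (nat_lit 287) (nat_lit 440) (nat_lit 293)) (XT.lf (nat_lit 0) (nat_lit 12530785517) (nat_lit 0) (nat_lit 13097923991) (nat_lit 152) (nat_lit 12530785517) (nat_lit 107) (nat_lit 3) (nat_lit 107) (nat_lit 1) (nat_lit 109) (nat_lit 1) (nat_lit 288) (nat_lit 440) (nat_lit 292)))))) (XT.nd (nat_lit 468) (nat_lit 532) (nat_lit 0) (XT.nd (nat_lit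 234) (nat_lit 228) (nat_lit 0) (XT.nd (nat_lit 78) (nat_lit 152) (nat_lit 0) (XT.lf (nat_lit 76) (nat_lit 12154439982) (nat_lit 0) (nat_lit 12694571863) (nat_lit 76) (nat_lit 12694571863) (nat_lit 107) (nat_lit 3) (nat_lit 106) (nat_lit 1) (nat_lit 107) (nat_lit 1) (nat_lit 289) (nat_lit 440) (nat_lit 291)) (XT.nd (nat_lit 78) (nat_lit 0) (nat_lit 0) (XT.lf (nat_lit 152) (nat_lit 36615103883) (nat_lit 0) (nat_lit 165939133) (nat_lit 76) (nat_lit 165939133) (nat_lit 106) (nat_lit 1) (nat_lit 104) (nat_lit 1) (nat_lit 105) (nat_lit 1) (nat_lit 290) (nat_lit 440) (nat_lit 290)) (XT.lf (nat_lit 0) (nat_lit 11958194774) (nat_lit 0) (nat_lit 12424781000) (nat_lit 152) (nat_lit 11958194774) (nat_lit 104) (nat_lit 3) (nat_lit 104) (nat_lit 1) (nat_lit 106) (nat_lit 1) (nat_lit 291) (nat_lit 440) (nat_lit 289)))) (XT.nd (nat_lit 78) (nat_lit 152) (nat_lit 0) (XT.lf (nat_lit 76) (nat_lit 11621976201) (nat_lit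 0) (nat_lit 12066344036) (nat_lit 76) (nat_lit 12066344036) (nat_lit 104) (nat_lit 3) (nat_lit 103) (nat_lit 1) (nat_lit 104) (nat_lit 1) (nat_lit 292) (nat_lit 440) (nat_lit 288)) (XT.nd (nat_lit 78) (nat_lit 0) (nat_lit 0) (XT.lf (nat_lit 152) (nat_lit 34913540274) (nat_lit 0) (nat_lit 136518535) (nat_lit 76) (nat_lit 136518535) (nat_lit 103) (nat_lit 1) (nat_lit 101) (nat_lit 1) (nat_lit 102) (nat_lit 1) (nat_lit 293) (nat_lit 440) (nat_lit 287)) (XT.lf (nat_lit 0) (nat_lit 11408595023) (nat_lit 0) (nat_lit 11792456666) (nat_lit 152) (nat_lit 11408595023) (nat_lit 101) (nat_lit 3) (nat_lit 101) (nat_lit 1) (nat_lit 103) (nat_lit 1) (nat_lit 294) (nat_lit 440) (nat_lit 286))))) (XT.nd (nat_lit 234) (nat_lit 304) (nat_lit 0) (XT.nd (nat_lit 78) (nat_lit 152) (nat_lit 0) (XT.lf (nat_lit 76) (nat_lit 11106655581) (nat_lit 0) (nat_lit 11472238099) (nat_lit 76) (nat_lit 11472238099) (nat_lit 101)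 (nat_lit 3) (nat_lit 100) (nat_lit 1) (nat_lit 101) (nat_lit 1) (nat_lit 295) (nat_lit 440) (nat_lit 285)) (XT.nd (nat_lit 78) (nat_lit 0) (nat_lit 0) (XT.lf (nat_lit 152) (nat_lit 33285554744) (nat_lit 0) (nat_lit 112314137) (nat_lit 76) (nat_lit 112314137) (nat_lit 100) (nat_lit 1) (nat_lit 98) (nat_lit 1) (nat_lit 99) (nat_lit 1) (nat_lit 296) (nat_lit 440) (nat_lit 284)) (XT.lf (nat_lit 0) (nat_lit 10881649443) (nat_lit 0) (nat_lit 11197453367) (nat_lit 152) (nat_lit 10881649443) (nat_lit 98) (nat_lit 3) (nat_lit 98) (nat_lit 1) (nat_lit 100) (nat_lit 1) (nat_lit 297) (nat_lit 440) (nat_lit 283)))) (XT.nd (nat_lit 156) (nat_lit 76) (nat_lit 0) (XT.nd (nat_lit 78) (nat_lit 152) (nat_lit 0) (XT.lf (nat_lit 76) (nat_lit 10609117794) (nat_lit 0) (nat_lit 10909883435) (nat_lit 76) (nat_lit 10909883435) (nat_lit 98) (nat_lit 3) (nat_lit 97) (nat_lit 1) (nat_lit 98) (nat_lit 1) (nat_lit 298) (nat_lit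 440) (nat_lit 282)) (XT.lf (nat_lit 152) (nat_lit 31728964222) (nat_lit 0) (nat_lit 92401118) (nat_lit 76) (nat_lit 92401118) (nat_lit 97) (nat_lit 1) (nat_lit 95) (nat_lit 1) (nat_lit 96) (nat_lit 1) (nat_lit 299) (nat_lit 440) (nat_lit 281))) (XT.nd (nat_lit 78) (nat_lit 76) (nat_lit 0) (XT.lf (nat_lit 0) (nat_lit 10376902864) (nat_lit 0) (nat_lit 10636715534) (nat_lit 152) (nat_lit 10376902864) (nat_lit 95) (nat_lit 3) (nat_lit 95) (nat_lit 1) (nat_lit 97) (nat_lit 1) (nat_lit 300) (nat_lit 440) (nat_lit 280)) (XT.lf (nat_lit 76) (nat_lit 10129713903) (nat_lit 0) (nat_lit 10377154540) (nat_lit 76) (nat_lit 10377154540) (nat_lit 95) (nat_lit 3) (nat_lit 94) (nat_lit 1) (nat_lit 95) (nat_lit 1) (nat_lit 301) (nat_lit 440) (nat_lit 279))))))))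
noncomputable def ec464 : XT := (XT.nd (nat_lit 1950) (nat_lit 1824) (nat_lit 0) (XT.nd (nat_lit 936) (nat_lit 1064) (nat_lit 0) (XT.nd (nat_lit 468) (nat_lit 456) (nat_lit 0) (XT.nd (nat_lit 234) (nat_lit 228) (nat_lit 0) (XT.nd (nat_lit 78) (nat_lit 76) (nat_lit 0) (XT.lf (nat_lit 152) (nat_lit 30241455445) (nat_lit 0) (nat_lit 76018629) (nat_lit 76) (nat_lit 76018629) (nat_lit 94) (nat_lit 1) (nat_lit 92) (nat_lit 1) (nat_lit 93) (nat_lit 1) (nat_lit 302) (nat_lit 440) (nat_lit 278)) (XT.nd (nat_lit 78) (nat_lit 76) (nat_lit 0) (XT.lf (nat_lit 0) (nat_lit 9893811227) (nat_lit 0) (nat_lit 10107559753) (nat_lit 152) (nat_lit 9893811227) (nat_lit 92) (nat_lit 3) (nat_lit 92) (nat_lit 1) (nat_lit 94) (nat_lit 1) (nat_lit 303) (nat_lit 440) (nat_lit 277)) (XT.lf (nat_lit 76) (nat_lit 9668565876) (nat_lit 0) (nat_lit 9872135901) (nat_lit 76) (nat_lit 9872135901) (nat_lit 92) (nat_lit 3) (nat_lit 91)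 (nat_lit 1) (nat_lit 92) (nat_lit 1) (nat_lit 304) (nat_lit 440) (nat_lit 276)))) (XT.nd (nat_lit 78) (nat_lit 76) (nat_lit 0) (XT.lf (nat_lit 152) (nat_lit 28820632670) (nat_lit 0) (nat_lit 62540714) (nat_lit 76) (nat_lit 62540714) (nat_lit 91) (nat_lit 1) (nat_lit 89) (nat_lit 1) (nat_lit 90) (nat_lit 1) (nat_lit 305) (nat_lit 440) (nat_lit 275)) (XT.nd (nat_lit 78) (nat_lit 76) (nat_lit 0) (XT.lf (nat_lit 0) (nat_lit 9431765419) (nat_lit 0) (nat_lit 9607616860) (nat_lit 152) (nat_lit 9431765419) (nat_lit 89) (nat_lit 3) (nat_lit 89) (nat_lit 1) (nat_lit 91) (nat_lit 1) (nat_lit 306) (nat_lit 440) (nat_lit 274)) (XT.lf (nat_lit 76) (nat_lit 9225615150) (nat_lit 0) (nat_lit 9393092713) (nat_lit 76) (nat_lit 9393092713) (nat_lit 89) (nat_lit 3) (nat_lit 88) (nat_lit 1) (nat_lit 89) (nat_lit 1) (nat_lit 307) (nat_lit 440) (nat_lit 273))))) (XT.nd (nat_lit 234) (nat_lit 228) (nat_lit 0) (XT.nd (nat_lit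 78) (nat_lit 76) (nat_lit 0) (XT.lf (nat_lit 152) (nat_lit 27464055761) (nat_lit 0) (nat_lit 51452400) (nat_lit 76) (nat_lit 51452400) (nat_lit 88) (nat_lit 1) (nat_lit 86) (nat_lit 1) (nat_lit 87) (nat_lit 1) (nat_lit 308) (nat_lit 440) (nat_lit 272)) (XT.nd (nat_lit 78) (nat_lit 76) (nat_lit 0) (XT.lf (nat_lit 0) (nat_lit 8990110502) (nat_lit 0) (nat_lit 9134783918) (nat_lit 152) (nat_lit 8990110502) (nat_lit 86) (nat_lit 3) (nat_lit 86) (nat_lit 1) (nat_lit 88) (nat_lit 1) (nat_lit 309) (nat_lit 440) (nat_lit 271)) (XT.lf (nat_lit 76) (nat_lit 8800662201) (nat_lit 0) (nat_lit 8938446407) (nat_lit 76) (nat_lit 8938446407) (nat_lit 86) (nat_lit 3) (nat_lit 85) (nat_lit 1) (nat_lit 86) (nat_lit 1) (nat_lit 310) (nat_lit 440) (nat_lit 270)))) (XT.nd (nat_lit 78) (nat_lit 76) (nat_lit 0) (XT.lf (nat_lit 152) (nat_lit 26169270392) (nat_lit 0) (nat_lit 42330017) (nat_lit 76) (nat_lit 42330017) (nat_lit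 85) (nat_lit 1) (nat_lit 83) (nat_lit 1) (nat_lit 84) (nat_lit 1) (nat_lit 311) (nat_lit 440) (nat_lit 269)) (XT.nd (nat_lit 78) (nat_lit 76) (nat_lit 0) (XT.lf (nat_lit 0) (nat_lit 8568161158) (nat_lit 0) (nat_lit 8687184336) (nat_lit 152) (nat_lit 8568161158) (nat_lit 83) (nat_lit 3) (nat_lit 83) (nat_lit 1) (nat_lit 85) (nat_lit 1) (nat_lit 312) (nat_lit 440) (nat_lit 268)) (XT.lf (nat_lit 76) (nat_lit 8393398750) (nat_lit 0) (nat_lit 8506754157) (nat_lit 76) (nat_lit 8506754157) (nat_lit 83) (nat_lit 3) (nat_lit 82) (nat_lit 1) (nat_lit 83) (nat_lit 1) (nat_lit 313) (nat_lit 440) (nat_lit 267)))))) (XT.nd (nat_lit 468) (nat_lit 608) (nat_lit 0) (XT.nd (nat_lit 234) (nat_lit 228) (nat_lit 0) (XT.nd (nat_lit 78) (nat_lit 76) (nat_lit 0) (XT.lf (nat_lit 152) (nat_lit 24933831849) (nat_lit 0) (nat_lit 34825009) (nat_lit 76) (nat_lit 34825009) (nat_lit 82) (nat_lit 1) (nat_lit 80) (nat_lit 1) (nat_lit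 81) (nat_lit 1) (nat_lit 314) (nat_lit 440) (nat_lit 266)) (XT.nd (nat_lit 78) (nat_lit 76) (nat_lit 0) (XT.lf (nat_lit 0) (nat_lit 8165214056) (nat_lit 0) (nat_lit 8263134719) (nat_lit 152) (nat_lit 8165214056) (nat_lit 80) (nat_lit 3) (nat_lit 80) (nat_lit 1) (nat_lit 82) (nat_lit 1) (nat_lit 315) (nat_lit 440) (nat_lit 265)) (XT.lf (nat_lit 76) (nat_lit 8003433902) (nat_lit 0) (nat_lit 8096691676) (nat_lit 76) (nat_lit 8096691676) (nat_lit 80) (nat_lit 3) (nat_lit 79) (nat_lit 1) (nat_lit 80) (nat_lit 1) (nat_lit 316) (nat_lit 440) (nat_lit 264)))) (XT.nd (nat_lit 78) (nat_lit 76) (nat_lit 0) (XT.lf (nat_lit 152) (nat_lit 23755323581) (nat_lit 0) (nat_lit 28650621) (nat_lit 76) (nat_lit 28650621) (nat_lit 79) (nat_lit 1) (nat_lit 77) (nat_lit 1) (nat_lit 78) (nat_lit 1) (nat_lit 317) (nat_lit 440) (nat_lit 263)) (XT.nd (nat_lit 78) (nat_lit 76) (nat_lit 0) (XT.lf (nat_lit 0) (nat_lit 7780557684)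 (nat_lit 0) (nat_lit 7861117256) (nat_lit 152) (nat_lit 7780557684) (nat_lit 77) (nat_lit 3) (nat_lit 77) (nat_lit 1) (nat_lit 79) (nat_lit 1) (nat_lit 318) (nat_lit 440) (nat_lit 262)) (XT.lf (nat_lit 76) (nat_lit 7630315334) (nat_lit 0) (nat_lit 7707038735) (nat_lit 76) (nat_lit 7707038735) (nat_lit 77) (nat_lit 3) (nat_lit 76) (nat_lit 1) (nat_lit 77) (nat_lit 1) (nat_lit 319) (nat_lit 440) (nat_lit 261))))) (XT.nd (nat_lit 234) (nat_lit 380) (nat_lit 0) (XT.nd (nat_lit 78) (nat_lit 76) (nat_lit 0) (XT.lf (nat_lit 152) (nat_lit 22631371512) (nat_lit 0) (nat_lit 23570937) (nat_lit 76) (nat_lit 23570937) (nat_lit 76) (nat_lit 1) (nat_lit 74) (nat_lit 1) (nat_lit 75) (nat_lit 1) (nat_lit 320) (nat_lit 440) (nat_lit 260)) (XT.nd (nat_lit 78) (nat_lit 76) (nat_lit 0) (XT.lf (nat_lit 0) (nat_lit 7413480132) (nat_lit 0) (nat_lit 7479756690) (nat_lit 152) (nat_lit 7413480132) (nat_lit 74) (nat_lit 3)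 (nat_lit 74) (nat_lit 1) (nat_lit 76) (nat_lit 1) (nat_lit 321) (nat_lit 440) (nat_lit 259)) (XT.lf (nat_lit 76) (nat_lit 7273546409) (nat_lit 0) (nat_lit 7336666942) (nat_lit 76) (nat_lit 7336666942) (nat_lit 74) (nat_lit 3) (nat_lit 73) (nat_lit 1) (nat_lit 74) (nat_lit 1) (nat_lit 322) (nat_lit 440) (nat_lit 258)))) (XT.nd (nat_lit 156) (nat_lit 228) (nat_lit 0) (XT.nd (nat_lit 78) (nat_lit 0) (nat_lit 0) (XT.lf (nat_lit 152) (nat_lit 21559654886) (nat_lit 0) (nat_lit 19391868) (nat_lit 76) (nat_lit 19391868) (nat_lit 73) (nat_lit 1) (nat_lit 71) (nat_lit 1) (nat_lit 72) (nat_lit 1) (nat_lit 323) (nat_lit 440) (nat_lit 257)) (XT.lf (nat_lit 0) (nat_lit 7063275184) (nat_lit 0) (nat_lit 7117801073) (nat_lit 152) (nat_lit 7063275184) (nat_lit 71) (nat_lit 3) (nat_lit 71) (nat_lit 1) (nat_lit 73) (nat_lit 1) (nat_lit 324) (nat_lit 440) (nat_lit 256))) (XT.nd (nat_lit 78) (nat_lit 152) (nat_lit 0)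 (XT.lf (nat_lit 76) (nat_lit 6932599966) (nat_lit 0) (nat_lit 6984529384) (nat_lit 76) (nat_lit 6984529384) (nat_lit 71) (nat_lit 3) (nat_lit 70) (nat_lit 1) (nat_lit 71) (nat_lit 1) (nat_lit 325) (nat_lit 440) (nat_lit 255)) (XT.lf (nat_lit 152) (nat_lit 20537914322) (nat_lit 0) (nat_lit 15953738) (nat_lit 76) (nat_lit 15953738) (nat_lit 70) (nat_lit 1) (nat_lit 68) (nat_lit 1) (nat_lit 69) (nat_lit 1) (nat_lit 326) (nat_lit 440) (nat_lit 254))))))) (XT.nd (nat_lit 936) (nat_lit 912) (nat_lit 0) (XT.nd (nat_lit 468) (nat_lit 456) (nat_lit 0) (XT.nd (nat_lit 234) (nat_lit 228) (nat_lit 0) (XT.nd (nat_lit 78) (nat_lit 228) (nat_lit 0) (XT.lf (nat_lit 0) (nat_lit 6729247053) (nat_lit 0) (nat_lit 6774105637) (nat_lit 152) (nat_lit 6729247053) (nat_lit 68) (nat_lit 3) (nat_lit 68) (nat_lit 1) (nat_lit 70) (nat_lit 1) (nat_lit 327) (nat_lit 440) (nat_lit 253)) (XT.nd (nat_lit 78) (nat_lit 152) (nat_lit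 0) (XT.lf (nat_lit 76) (nat_lit 6606929371) (nat_lit 0) (nat_lit 6649651832) (nat_lit 76) (nat_lit 6649651832) (nat_lit 68) (nat_lit 3) (nat_lit 67) (nat_lit 1) (nat_lit 68) (nat_lit 1) (nat_lit 328) (nat_lit 440) (nat_lit 252)) (XT.lf (nat_lit 152) (nat_lit 19563957598) (nat_lit 0) (nat_lit 13125179) (nat_lit 76) (nat_lit 13125179) (nat_lit 67) (nat_lit 1) (nat_lit 65) (nat_lit 1) (nat_lit 66) (nat_lit 1) (nat_lit 329) (nat_lit 440) (nat_lit 251)))) (XT.nd (nat_lit 78) (nat_lit 228) (nat_lit 0) (XT.lf (nat_lit 0) (nat_lit 6410713993) (nat_lit 0) (nat_lit 6447619261) (nat_lit 152) (nat_lit 6410713993) (nat_lit 65) (nat_lit 3) (nat_lit 65) (nat_lit 1) (nat_lit 67) (nat_lit 1) (nat_lit 330) (nat_lit 440) (nat_lit 250)) (XT.nd (nat_lit 78) (nat_lit 152) (nat_lit 0) (XT.lf (nat_lit 76) (nat_lit 6295977357) (nat_lit 0) (nat_lit 6331125231) (nat_lit 76) (nat_lit 6331125231) (nat_lit 65) (nat_lit 3) (nat_lit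 64) (nat_lit 1) (nat_lit 65) (nat_lit 1) (nat_lit 331) (nat_lit 440) (nat_lit 249)) (XT.lf (nat_lit 152) (nat_lit 18635663626) (nat_lit 0) (nat_lit 10798118) (nat_lit 76) (nat_lit 10798118) (nat_lit 64) (nat_lit 1) (nat_lit 62) (nat_lit 1) (nat_lit 63) (nat_lit 1) (nat_lit 332) (nat_lit 440) (nat_lit 248))))) (XT.nd (nat_lit 234) (nat_lit 228) (nat_lit 0) (XT.nd (nat_lit 78) (nat_lit 228) (nat_lit 0) (XT.lf (nat_lit 0) (nat_lit 6107011019) (nat_lit 0) (nat_lit 6137373075) (nat_lit 152) (nat_lit 6107011019) (nat_lit 62) (nat_lit 3) (nat_lit 62) (nat_lit 1) (nat_lit 64) (nat_lit 1) (nat_lit 333) (nat_lit 440) (nat_lit 247)) (XT.nd (nat_lit 78) (nat_lit 152) (nat_lit 0) (XT.lf (nat_lit 76) (nat_lit 5999183021) (nat_lit 0) (nat_lit 6028099264) (nat_lit 76) (nat_lit 6028099264) (nat_lit 62) (nat_lit 3) (nat_lit 61) (nat_lit 1) (nat_lit 62) (nat_lit 1) (nat_lit 334) (nat_lit 440) (nat_lit 246)) (XT.lf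 (nat_lit 152) (nat_lit 17750984959) (nat_lit 0) (nat_lit 8883638) (nat_lit 76) (nat_lit 8883638) (nat_lit 61) (nat_lit 1) (nat_lit 59) (nat_lit 1) (nat_lit 60) (nat_lit 1) (nat_lit 335) (nat_lit 440) (nat_lit 245)))) (XT.nd (nat_lit 78) (nat_lit 228) (nat_lit 0) (XT.lf (nat_lit 0) (nat_lit 5817491891) (nat_lit 0) (nat_lit 5842470829) (nat_lit 152) (nat_lit 5817491891) (nat_lit 59) (nat_lit 3) (nat_lit 59) (nat_lit 1) (nat_lit 61) (nat_lit 1) (nat_lit 336) (nat_lit 440) (nat_lit 244)) (XT.nd (nat_lit 78) (nat_lit 152) (nat_lit 0) (XT.lf (nat_lit 76) (nat_lit 5715987355) (nat_lit 0) (nat_lit 5739776820) (nat_lit 76) (nat_lit 5739776820) (nat_lit 59) (nat_lit 3) (nat_lit 58) (nat_lit 1) (nat_lit 59) (nat_lit 1) (nat_lit 337) (nat_lit 440) (nat_lit 243)) (XT.lf (nat_lit 152) (nat_lit 16907949136) (nat_lit 0) (nat_lit 7308591) (nat_lit 76) (nat_lit 7308591) (nat_lit 58) (nat_lit 1) (nat_lit 56) (nat_lit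 1) (nat_lit 57) (nat_lit 1) (nat_lit 338) (nat_lit 440) (nat_lit 242)))))) (XT.nd (nat_lit 468) (nat_lit 456) (nat_lit 0) (XT.nd (nat_lit 234) (nat_lit 228) (nat_lit 0) (XT.nd (nat_lit 78) (nat_lit 228) (nat_lit 0) (XT.lf (nat_lit 0) (nat_lit 5541530510) (nat_lit 0) (nat_lit 5562080744) (nat_lit 152) (nat_lit 5541530510) (nat_lit 56) (nat_lit 3) (nat_lit 56) (nat_lit 1) (nat_lit 58) (nat_lit 1) (nat_lit 339) (nat_lit 440) (nat_lit 241)) (XT.nd (nat_lit 78) (nat_lit 152) (nat_lit 0) (XT.lf (nat_lit 76) (nat_lit 5445837550) (nat_lit 0) (nat_lit 5465409201) (nat_lit 76) (nat_lit 5465409201) (nat_lit 56) (nat_lit 3) (nat_lit 55) (nat_lit 1) (nat_lit 56) (nat_lit 1) (nat_lit 340) (nat_lit 440) (nat_lit 240)) (XT.lf (nat_lit 152) (nat_lit 16104659103) (nat_lit 0) (nat_lit 6012796) (nat_lit 76) (nat_lit 6012796) (nat_lit 55) (nat_lit 1) (nat_lit 53) (nat_lit 1) (nat_lit 54) (nat_lit 1) (nat_lit 341) (nat_lit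 440) (nat_lit 239)))) (XT.nd (nat_lit 78) (nat_lit 228) (nat_lit 0) (XT.lf (nat_lit 0) (nat_lit 5278521850) (nat_lit 0) (nat_lit 5295428579) (nat_lit 152) (nat_lit 5278521850) (nat_lit 53) (nat_lit 3) (nat_lit 53) (nat_lit 1) (nat_lit 55) (nat_lit 1) (nat_lit 342) (nat_lit 440) (nat_lit 238)) (XT.nd (nat_lit 78) (nat_lit 152) (nat_lit 0) (XT.lf (nat_lit 76) (nat_lit 5188190321) (nat_lit 0) (nat_lit 5204291968) (nat_lit 76) (nat_lit 5204291968) (nat_lit 53) (nat_lit 3) (nat_lit 52) (nat_lit 1) (nat_lit 53) (nat_lit 1) (nat_lit 343) (nat_lit 440) (nat_lit 237)) (XT.lf (nat_lit 152) (nat_lit 15339292905) (nat_lit 0) (nat_lit 4946742) (nat_lit 76) (nat_lit 4946742) (nat_lit 52) (nat_lit 1) (nat_lit 50) (nat_lit 1) (nat_lit 51) (nat_lit 1) (nat_lit 344) (nat_lit 440) (nat_lit 236))))) (XT.nd (nat_lit 234) (nat_lit 228) (nat_lit 0) (XT.nd (nat_lit 78) (nat_lit 228) (nat_lit 0) (XT.lf (nat_lit 0) (nat_lit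 5027882499) (nat_lit 0) (nat_lit 5041791706) (nat_lit 152) (nat_lit 5027882499) (nat_lit 50) (nat_lit 3) (nat_lit 50) (nat_lit 1) (nat_lit 52) (nat_lit 1) (nat_lit 345) (nat_lit 440) (nat_lit 235)) (XT.nd (nat_lit 78) (nat_lit 152) (nat_lit 0) (XT.lf (nat_lit 76) (nat_lit 4942514438) (nat_lit 0) (nat_lit 4955761302) (nat_lit 76) (nat_lit 4955761302) (nat_lit 50) (nat_lit 3) (nat_lit 49) (nat_lit 1) (nat_lit 50) (nat_lit 1) (nat_lit 346) (nat_lit 440) (nat_lit 234)) (XT.lf (nat_lit 152) (nat_lit 14610102811) (nat_lit 0) (nat_lit 4069697) (nat_lit 76) (nat_lit 4069697) (nat_lit 49) (nat_lit 1) (nat_lit 47) (nat_lit 1) (nat_lit 48) (nat_lit 1) (nat_lit 347) (nat_lit 440) (nat_lit 233)))) (XT.nd (nat_lit 156) (nat_lit 152) (nat_lit 0) (XT.nd (nat_lit 78) (nat_lit 76) (nat_lit 0) (XT.lf (nat_lit 0) (nat_lit 4789050908) (nat_lit 0) (nat_lit 4800494047) (nat_lit 152) (nat_lit 4789050908) (nat_lit 47)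 (nat_lit 3) (nat_lit 47) (nat_lit 1) (nat_lit 49) (nat_lit 1) (nat_lit 348) (nat_lit 440) (nat_lit 232)) (XT.lf (nat_lit 76) (nat_lit 4708292594) (nat_lit 0) (nat_lit 4719190822) (nat_lit 76) (nat_lit 4719190822) (nat_lit 47) (nat_lit 3) (nat_lit 46) (nat_lit 1) (nat_lit 47) (nat_lit 1) (nat_lit 349) (nat_lit 440) (nat_lit 231))) (XT.nd (nat_lit 78) (nat_lit 0) (nat_lit 0) (XT.lf (nat_lit 152) (nat_lit 13915414003) (nat_lit 0) (nat_lit 3348149) (nat_lit 76) (nat_lit 3348149) (nat_lit 46) (nat_lit 1) (nat_lit 44) (nat_lit 1) (nat_lit 45) (nat_lit 1) (nat_lit 350) (nat_lit 440) (nat_lit 230)) (XT.lf (nat_lit 0) (nat_lit 4561487399) (nat_lit 0) (nat_lit 4570901698) (nat_lit 152) (nat_lit 4561487399) (nat_lit 44) (nat_lit 3) (nat_lit 44) (nat_lit 1) (nat_lit 46) (nat_lit 1) (nat_lit 351) (nat_lit 440) (nat_lit 229))))))))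
noncomputable def ec465 : XT := (XT.nd (nat_lit 1950) (nat_lit 1444) (nat_lit 0) (XT.nd (nat_lit 936) (nat_lit 988) (nat_lit 0) (XT.nd (nat_lit 468) (nat_lit 456) (nat_lit 0) (XT.nd (nat_lit 234) (nat_lit 228) (nat_lit 0) (XT.nd (nat_lit 78) (nat_lit 152) (nat_lit 0) (XT.lf (nat_lit 76) (nat_lit 4485022764) (nat_lit 0) (nat_lit 4493988763) (nat_lit 76) (nat_lit 4493988763) (nat_lit 44) (nat_lit 3) (nat_lit 43) (nat_lit 1) (nat_lit 44) (nat_lit 1) (nat_lit 352) (nat_lit 440) (nat_lit 228)) (XT.nd (nat_lit 78) (nat_lit 0) (nat_lit 0) (XT.lf (nat_lit 152) (nat_lit 13253622931) (nat_lit 0) (nat_lit 2754531) (nat_lit 76) (nat_lit 2754531) (nat_lit 43) (nat_lit 1) (nat_lit 41) (nat_lit 1) (nat_lit 42) (nat_lit 1) (nat_lit 353) (nat_lit 440) (nat_lit 227)) (XT.lf (nat_lit 0) (nat_lit 4344673986) (nat_lit 0) (nat_lit 4352419153) (nat_lit 152) (nat_lit 4344673986) (nat_lit 41) (nat_lit 3) (nat_lit 41) (nat_lit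 1) (nat_lit 43) (nat_lit 1) (nat_lit 354) (nat_lit 440) (nat_lit 226)))) (XT.nd (nat_lit 78) (nat_lit 152) (nat_lit 0) (XT.lf (nat_lit 76) (nat_lit 4272219131) (nat_lit 0) (nat_lit 4279595481) (nat_lit 76) (nat_lit 4279595481) (nat_lit 41) (nat_lit 3) (nat_lit 40) (nat_lit 1) (nat_lit 41) (nat_lit 1) (nat_lit 355) (nat_lit 440) (nat_lit 225)) (XT.nd (nat_lit 78) (nat_lit 0) (nat_lit 0) (XT.lf (nat_lit 152) (nat_lit 12623195427) (nat_lit 0) (nat_lit 2266159) (nat_lit 76) (nat_lit 2266159) (nat_lit 40) (nat_lit 1) (nat_lit 38) (nat_lit 1) (nat_lit 39) (nat_lit 1) (nat_lit 356) (nat_lit 440) (nat_lit 224)) (XT.lf (nat_lit 0) (nat_lit 4138114054) (nat_lit 0) (nat_lit 4144486022) (nat_lit 152) (nat_lit 4138114054) (nat_lit 38) (nat_lit 3) (nat_lit 38) (nat_lit 1) (nat_lit 40) (nat_lit 1) (nat_lit 357) (nat_lit 440) (nat_lit 223))))) (XT.nd (nat_lit 234) (nat_lit 228) (nat_lit 0) (XT.nd (nat_lit 78)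 (nat_lit 152) (nat_lit 0) (XT.lf (nat_lit 76) (nat_lit 4069412685) (nat_lit 0) (nat_lit 4075481226) (nat_lit 76) (nat_lit 4075481226) (nat_lit 38) (nat_lit 3) (nat_lit 37) (nat_lit 1) (nat_lit 38) (nat_lit 1) (nat_lit 358) (nat_lit 440) (nat_lit 222)) (XT.nd (nat_lit 78) (nat_lit 0) (nat_lit 0) (XT.lf (nat_lit 152) (nat_lit 12022664633) (nat_lit 0) (nat_lit 1864375) (nat_lit 76) (nat_lit 1864375) (nat_lit 37) (nat_lit 1) (nat_lit 35) (nat_lit 1) (nat_lit 36) (nat_lit 1) (nat_lit 359) (nat_lit 440) (nat_lit 221)) (XT.lf (nat_lit 0) (nat_lit 3941331924) (nat_lit 0) (nat_lit 3946574158) (nat_lit 152) (nat_lit 3941331924) (nat_lit 35) (nat_lit 3) (nat_lit 35) (nat_lit 1) (nat_lit 37) (nat_lit 1) (nat_lit 360) (nat_lit 440) (nat_lit 220)))) (XT.nd (nat_lit 78) (nat_lit 152) (nat_lit 0) (XT.lf (nat_lit 76) (nat_lit 3876151537) (nat_lit 0) (nat_lit 3881144141) (nat_lit 76) (nat_lit 3881144141) (nat_lit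 35) (nat_lit 3) (nat_lit 34) (nat_lit 1) (nat_lit 35) (nat_lit 1) (nat_lit 361) (nat_lit 440) (nat_lit 219)) (XT.nd (nat_lit 78) (nat_lit 0) (nat_lit 0) (XT.lf (nat_lit 152) (nat_lit 11450628819) (nat_lit 0) (nat_lit 1533826) (nat_lit 76) (nat_lit 1533826) (nat_lit 34) (nat_lit 1) (nat_lit 32) (nat_lit 1) (nat_lit 33) (nat_lit 1) (nat_lit 362) (nat_lit 440) (nat_lit 218)) (XT.lf (nat_lit 0) (nat_lit 3753872338) (nat_lit 0) (nat_lit 3758185137) (nat_lit 152) (nat_lit 3753872338) (nat_lit 32) (nat_lit 3) (nat_lit 32) (nat_lit 1) (nat_lit 34) (nat_lit 1) (nat_lit 363) (nat_lit 440) (nat_lit 217)))))) (XT.nd (nat_lit 468) (nat_lit 532) (nat_lit 0) (XT.nd (nat_lit 234) (nat_lit 228) (nat_lit 0) (XT.nd (nat_lit 78) (nat_lit 152) (nat_lit 0) (XT.lf (nat_lit 76) (nat_lit 3692001034) (nat_lit 0) (nat_lit 3696108461) (nat_lit 76) (nat_lit 3696108461) (nat_lit 32) (nat_lit 3) (nat_lit 31) (nat_lit 1) (nat_lit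 32) (nat_lit 1) (nat_lit 364) (nat_lit 440) (nat_lit 216)) (XT.nd (nat_lit 78) (nat_lit 0) (nat_lit 0) (XT.lf (nat_lit 152) (nat_lit 10905749117) (nat_lit 0) (nat_lit 1261882) (nat_lit 76) (nat_lit 1261882) (nat_lit 31) (nat_lit 1) (nat_lit 29) (nat_lit 1) (nat_lit 30) (nat_lit 1) (nat_lit 365) (nat_lit 440) (nat_lit 215)) (XT.lf (nat_lit 0) (nat_lit 3575299882) (nat_lit 0) (nat_lit 3578848033) (nat_lit 152) (nat_lit 3575299882) (nat_lit 29) (nat_lit 3) (nat_lit 29) (nat_lit 1) (nat_lit 31) (nat_lit 1) (nat_lit 366) (nat_lit 440) (nat_lit 214)))) (XT.nd (nat_lit 78) (nat_lit 152) (nat_lit 0) (XT.lf (nat_lit 76) (nat_lit 3516543694) (nat_lit 0) (nat_lit 3519922884) (nat_lit 76) (nat_lit 3519922884) (nat_lit 29) (nat_lit 3) (nat_lit 28) (nat_lit 1) (nat_lit 29) (nat_lit 1) (nat_lit 367) (nat_lit 440) (nat_lit 213)) (XT.nd (nat_lit 78) (nat_lit 0) (nat_lit 0) (XT.lf (nat_lit 152) (nat_lit 10386747216)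 (nat_lit 0) (nat_lit 1038153) (nat_lit 76) (nat_lit 1038153) (nat_lit 28) (nat_lit 1) (nat_lit 26) (nat_lit 1) (nat_lit 27) (nat_lit 1) (nat_lit 368) (nat_lit 440) (nat_lit 212)) (XT.lf (nat_lit 0) (nat_lit 3405198366) (nat_lit 0) (nat_lit 3408117438) (nat_lit 152) (nat_lit 3405198366) (nat_lit 26) (nat_lit 3) (nat_lit 26) (nat_lit 1) (nat_lit 28) (nat_lit 1) (nat_lit 369) (nat_lit 440) (nat_lit 211))))) (XT.nd (nat_lit 234) (nat_lit 304) (nat_lit 0) (XT.nd (nat_lit 78) (nat_lit 152) (nat_lit 0) (XT.lf (nat_lit 76) (nat_lit 3349379015) (nat_lit 0) (nat_lit 3352159083) (nat_lit 76) (nat_lit 3352159083) (nat_lit 26) (nat_lit 3) (nat_lit 25) (nat_lit 1) (nat_lit 26) (nat_lit 1) (nat_lit 370) (nat_lit 440) (nat_lit 210)) (XT.nd (nat_lit 78) (nat_lit 0) (nat_lit 0) (XT.lf (nat_lit 152) (nat_lit 9892403047) (nat_lit 0) (nat_lit 854091) (nat_lit 76) (nat_lit 854091) (nat_lit 25) (nat_lit 1) (nat_lit 23)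 (nat_lit 1) (nat_lit 24) (nat_lit 1) (nat_lit 371) (nat_lit 440) (nat_lit 209)) (XT.lf (nat_lit 0) (nat_lit 3243170174) (nat_lit 0) (nat_lit 3245571702) (nat_lit 152) (nat_lit 3243170174) (nat_lit 23) (nat_lit 3) (nat_lit 23) (nat_lit 1) (nat_lit 25) (nat_lit 1) (nat_lit 372) (nat_lit 440) (nat_lit 208)))) (XT.nd (nat_lit 156) (nat_lit 76) (nat_lit 0) (XT.nd (nat_lit 78) (nat_lit 152) (nat_lit 0) (XT.lf (nat_lit 76) (nat_lit 3190123181) (nat_lit 0) (nat_lit 3192410350) (nat_lit 76) (nat_lit 3192410350) (nat_lit 23) (nat_lit 3) (nat_lit 22) (nat_lit 1) (nat_lit 23) (nat_lit 1) (nat_lit 373) (nat_lit 440) (nat_lit 207)) (XT.lf (nat_lit 152) (nat_lit 9421552476) (nat_lit 0) (nat_lit 702663) (nat_lit 76) (nat_lit 702663) (nat_lit 22) (nat_lit 1) (nat_lit 20) (nat_lit 1) (nat_lit 21) (nat_lit 1) (nat_lit 374) (nat_lit 440) (nat_lit 206))) (XT.nd (nat_lit 78) (nat_lit 76) (nat_lit 0) (XT.lf (nat_lit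 0) (nat_lit 3088835606) (nat_lit 0) (nat_lit 3090811349) (nat_lit 152) (nat_lit 3088835606) (nat_lit 20) (nat_lit 3) (nat_lit 20) (nat_lit 1) (nat_lit 22) (nat_lit 1) (nat_lit 375) (nat_lit 440) (nat_lit 205)) (XT.lf (nat_lit 76) (nat_lit 3038408690) (nat_lit 0) (nat_lit 3040290350) (nat_lit 76) (nat_lit 3040290350) (nat_lit 20) (nat_lit 3) (nat_lit 19) (nat_lit 1) (nat_lit 20) (nat_lit 1) (nat_lit 376) (nat_lit 440) (nat_lit 204))))))) (XT.nd (nat_lit 936) (nat_lit 532) (nat_lit 0) (XT.nd (nat_lit 468) (nat_lit 456) (nat_lit 0) (XT.nd (nat_lit 234) (nat_lit 228) (nat_lit 0) (XT.nd (nat_lit 78) (nat_lit 76) (nat_lit 0) (XT.lf (nat_lit 152) (nat_lit 8973085022) (nat_lit 0) (nat_lit 578082) (nat_lit 76) (nat_lit 578082) (nat_lit 19) (nat_lit 1) (nat_lit 17) (nat_lit 1) (nat_lit 18) (nat_lit 1) (nat_lit 377) (nat_lit 440) (nat_lit 203)) (XT.nd (nat_lit 78) (nat_lit 76) (nat_lit 0) (XT.lf (nat_lit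 0) (nat_lit 2941832200) (nat_lit 0) (nat_lit 2943457649) (nat_lit 152) (nat_lit 2941832200) (nat_lit 17) (nat_lit 3) (nat_lit 17) (nat_lit 1) (nat_lit 19) (nat_lit 1) (nat_lit 378) (nat_lit 440) (nat_lit 202)) (XT.lf (nat_lit 76) (nat_lit 2893883924) (nat_lit 0) (nat_lit 2895431970) (nat_lit 76) (nat_lit 2895431970) (nat_lit 17) (nat_lit 3) (nat_lit 16) (nat_lit 1) (nat_lit 17) (nat_lit 1) (nat_lit 379) (nat_lit 440) (nat_lit 201)))) (XT.nd (nat_lit 78) (nat_lit 76) (nat_lit 0) (XT.lf (nat_lit 152) (nat_lit 8545941619) (nat_lit 0) (nat_lit 475590) (nat_lit 76) (nat_lit 475590) (nat_lit 16) (nat_lit 1) (nat_lit 14) (nat_lit 1) (nat_lit 15) (nat_lit 1) (nat_lit 380) (nat_lit 440) (nat_lit 200)) (XT.nd (nat_lit 78) (nat_lit 76) (nat_lit 0) (XT.lf (nat_lit 0) (nat_lit 2801814062) (nat_lit 0) (nat_lit 2803151323) (nat_lit 152) (nat_lit 2801814062) (nat_lit 14) (nat_lit 3) (nat_lit 14) (nat_lit 1) (nat_lit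 16) (nat_lit 1) (nat_lit 381) (nat_lit 440) (nat_lit 199)) (XT.lf (nat_lit 76) (nat_lit 2756212680) (nat_lit 0) (nat_lit 2757486262) (nat_lit 76) (nat_lit 2757486262) (nat_lit 14) (nat_lit 3) (nat_lit 13) (nat_lit 1) (nat_lit 14) (nat_lit 1) (nat_lit 382) (nat_lit 440) (nat_lit 198))))) (XT.nd (nat_lit 234) (nat_lit 228) (nat_lit 0) (XT.nd (nat_lit 78) (nat_lit 76) (nat_lit 0) (XT.lf (nat_lit 152) (nat_lit 8139112429) (nat_lit 0) (nat_lit 391269) (nat_lit 76) (nat_lit 391269) (nat_lit 13) (nat_lit 1) (nat_lit 11) (nat_lit 1) (nat_lit 12) (nat_lit 1) (nat_lit 383) (nat_lit 440) (nat_lit 197)) (XT.nd (nat_lit 78) (nat_lit 76) (nat_lit 0) (XT.lf (nat_lit 0) (nat_lit 2668451202) (nat_lit 0) (nat_lit 2669551370) (nat_lit 152) (nat_lit 2668451202) (nat_lit 11) (nat_lit 3) (nat_lit 11) (nat_lit 1) (nat_lit 13) (nat_lit 1) (nat_lit 384) (nat_lit 440) (nat_lit 196)) (XT.lf (nat_lit 76) (nat_lit 2625073674)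 (nat_lit 0) (nat_lit 2626121452) (nat_lit 76) (nat_lit 2626121452) (nat_lit 11) (nat_lit 3) (nat_lit 10) (nat_lit 1) (nat_lit 11) (nat_lit 1) (nat_lit 385) (nat_lit 440) (nat_lit 195)))) (XT.nd (nat_lit 78) (nat_lit 76) (nat_lit 0) (XT.lf (nat_lit 152) (nat_lit 7751634708) (nat_lit 0) (nat_lit 321898) (nat_lit 76) (nat_lit 321898) (nat_lit 10) (nat_lit 1) (nat_lit 8) (nat_lit 1) (nat_lit 9) (nat_lit 1) (nat_lit 386) (nat_lit 440) (nat_lit 194)) (XT.nd (nat_lit 78) (nat_lit 76) (nat_lit 0) (XT.lf (nat_lit 0) (nat_lit 2541428874) (nat_lit 0) (nat_lit 2542333984) (nat_lit 152) (nat_lit 2541428874) (nat_lit 8) (nat_lit 3) (nat_lit 8) (nat_lit 1) (nat_lit 10) (nat_lit 1) (nat_lit 387) (nat_lit 440) (nat_lit 193)) (XT.lf (nat_lit 76) (nat_lit 2500160018) (nat_lit 0) (nat_lit 2501022028) (nat_lit 76) (nat_lit 2501022028) (nat_lit 8) (nat_lit 3) (nat_lit 7) (nat_lit 1) (nat_lit 8) (nat_lit 1) (nat_lit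 388) (nat_lit 440) (nat_lit 192)))))) (XT.nd (nat_lit 468) (nat_lit 76) (nat_lit 0) (XT.nd (nat_lit 234) (nat_lit 228) (nat_lit 0) (XT.nd (nat_lit 78) (nat_lit 76) (nat_lit 0) (XT.lf (nat_lit 152) (nat_lit 7382590745) (nat_lit 0) (nat_lit 264826) (nat_lit 76) (nat_lit 264826) (nat_lit 7) (nat_lit 1) (nat_lit 5) (nat_lit 1) (nat_lit 6) (nat_lit 1) (nat_lit 389) (nat_lit 440) (nat_lit 191)) (XT.nd (nat_lit 78) (nat_lit 76) (nat_lit 0) (XT.lf (nat_lit 0) (nat_lit 2420446934) (nat_lit 0) (nat_lit 2421191571) (nat_lit 152) (nat_lit 2420446934) (nat_lit 5) (nat_lit 3) (nat_lit 5) (nat_lit 1) (nat_lit 7) (nat_lit 1) (nat_lit 390) (nat_lit 440) (nat_lit 190)) (XT.lf (nat_lit 76) (nat_lit 2381178700) (nat_lit 0) (nat_lit 2381887878) (nat_lit 76) (nat_lit 2381887878) (nat_lit 5) (nat_lit 3) (nat_lit 4) (nat_lit 1) (nat_lit 5) (nat_lit 1) (nat_lit 391) (nat_lit 440) (nat_lit 189)))) (XT.nd (nat_lit 78) (nat_lit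 76) (nat_lit 0) (XT.lf (nat_lit 152) (nat_lit 7031105854) (nat_lit 0) (nat_lit 217873) (nat_lit 76) (nat_lit 217873) (nat_lit 4) (nat_lit 1) (nat_lit 2) (nat_lit 1) (nat_lit 3) (nat_lit 1) (nat_lit 392) (nat_lit 440) (nat_lit 188)) (XT.nd (nat_lit 78) (nat_lit 76) (nat_lit 0) (XT.lf (nat_lit 0) (nat_lit 2305219216) (nat_lit 0) (nat_lit 2305831831) (nat_lit 152) (nat_lit 2305219216) (nat_lit 2) (nat_lit 3) (nat_lit 2) (nat_lit 1) (nat_lit 4) (nat_lit 1) (nat_lit 393) (nat_lit 440) (nat_lit 187)) (XT.lf (nat_lit 76) (nat_lit 2267850054) (nat_lit 0) (nat_lit 2268433496) (nat_lit 76) (nat_lit 2268433496) (nat_lit 2) (nat_lit 3) (nat_lit 1) (nat_lit 1) (nat_lit 2) (nat_lit 1) (nat_lit 394) (nat_lit 440) (nat_lit 186))))) (XT.nd (nat_lit 234) (nat_lit 0) (nat_lit 0) (XT.nd (nat_lit 78) (nat_lit 0) (nat_lit 0) (XT.lf (nat_lit 0) (nat_lit 141198958359) (nat_lit 0) (nat_lit 0) (nat_lit 0) (nat_lit 0) (nat_lit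 0) (nat_lit 0) (nat_lit 1) (nat_lit 0) (nat_lit 1) (nat_lit 0) (nat_lit 395) (nat_lit 440) (nat_lit 185)) (XT.nd (nat_lit 78) (nat_lit 0) (nat_lit 0) (XT.lf (nat_lit 0) (nat_lit 141198931792) (nat_lit 0) (nat_lit 0) (nat_lit 0) (nat_lit 0) (nat_lit 0) (nat_lit 0) (nat_lit 1) (nat_lit 0) (nat_lit 1) (nat_lit 0) (nat_lit 396) (nat_lit 440) (nat_lit 184)) (XT.lf (nat_lit 0) (nat_lit 141198906491) (nat_lit 0) (nat_lit 0) (nat_lit 0) (nat_lit 0) (nat_lit 0) (nat_lit 0) (nat_lit 1) (nat_lit 0) (nat_lit 1) (nat_lit 0) (nat_lit 397) (nat_lit 440) (nat_lit 183)))) (XT.nd (nat_lit 156) (nat_lit 0) (nat_lit 0) (XT.nd (nat_lit 78) (nat_lit 0) (nat_lit 0) (XT.lf (nat_lit 0) (nat_lit 141198882394) (nat_lit 0) (nat_lit 0) (nat_lit 0) (nat_lit 0) (nat_lit 0) (nat_lit 0) (nat_lit 1) (nat_lit 0) (nat_lit 1) (nat_lit 0) (nat_lit 398) (nat_lit 440) (nat_lit 182)) (XT.lf (nat_lit 0) (nat_lit 141198859444) (nat_lit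 0) (nat_lit 0) (nat_lit 0) (nat_lit 0) (nat_lit 0) (nat_lit 0) (nat_lit 1) (nat_lit 0) (nat_lit 1) (nat_lit 0) (nat_lit 399) (nat_lit 440) (nat_lit 181))) (XT.nd (nat_lit 78) (nat_lit 0) (nat_lit 0) (XT.lf (nat_lit 0) (nat_lit 141198837588) (nat_lit 0) (nat_lit 0) (nat_lit 0) (nat_lit 0) (nat_lit 0) (nat_lit 0) (nat_lit 1) (nat_lit 0) (nat_lit 1) (nat_lit 0) (nat_lit 400) (nat_lit 440) (nat_lit 180)) (XT.lf (nat_lit 0) (nat_lit 141198816772) (nat_lit 0) (nat_lit 0) (nat_lit 0) (nat_lit 0) (nat_lit 0) (nat_lit 0) (nat_lit 1) (nat_lit 0) (nat_lit 1) (nat_lit 0) (nat_lit 401) (nat_lit 440) (nat_lit 179))))))))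
noncomputable def ec466 : XT := (XT.nd (nat_lit 34398) (nat_lit 0) (nat_lit 15960) (XT.nd (nat_lit 936) (nat_lit 0) (nat_lit 0) (XT.nd (nat_lit 468) (nat_lit 0) (nat_lit 0) (XT.nd (nat_lit 234) (nat_lit 0) (nat_lit 0) (XT.nd (nat_lit 78) (nat_lit 0) (nat_lit 0) (XT.lf (nat_lit 0) (nat_lit 141198796947) (nat_lit 0) (nat_lit 0) (nat_lit 0) (nat_lit 0) (nat_lit 0) (nat_lit 0) (nat_lit 1) (nat_lit 0) (nat_lit 1) (nat_lit 0) (nat_lit 402) (nat_lit 440) (nat_lit 178)) (XT.nd (nat_lit 78) (nat_lit 0) (nat_lit 0) (XT.lf (nat_lit 0) (nat_lit 141198778067) (nat_lit 0) (nat_lit 0) (nat_lit 0) (nat_lit 0) (nat_lit 0) (nat_lit 0) (nat_lit 1) (nat_lit 0) (nat_lit 1) (nat_lit 0) (nat_lit 403) (nat_lit 440) (nat_lit 177)) (XT.lf (nat_lit 0) (nat_lit 141198760085) (nat_lit 0) (nat_lit 0) (nat_lit 0) (nat_lit 0) (nat_lit 0) (nat_lit 0) (nat_lit 1) (nat_lit 0) (nat_lit 1) (nat_lit 0) (nat_lit 404) (nat_lit 440) (nat_lit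 176)))) (XT.nd (nat_lit 78) (nat_lit 0) (nat_lit 0) (XT.lf (nat_lit 0) (nat_lit 141198742960) (nat_lit 0) (nat_lit 0) (nat_lit 0) (nat_lit 0) (nat_lit 0) (nat_lit 0) (nat_lit 1) (nat_lit 0) (nat_lit 1) (nat_lit 0) (nat_lit 405) (nat_lit 440) (nat_lit 175)) (XT.nd (nat_lit 78) (nat_lit 0) (nat_lit 0) (XT.lf (nat_lit 0) (nat_lit 141198726650) (nat_lit 0) (nat_lit 0) (nat_lit 0) (nat_lit 0) (nat_lit 0) (nat_lit 0) (nat_lit 1) (nat_lit 0) (nat_lit 1) (nat_lit 0) (nat_lit 406) (nat_lit 440) (nat_lit 174)) (XT.lf (nat_lit 0) (nat_lit 141198711117) (nat_lit 0) (nat_lit 0) (nat_lit 0) (nat_lit 0) (nat_lit 0) (nat_lit 0) (nat_lit 1) (nat_lit 0) (nat_lit 1) (nat_lit 0) (nat_lit 407) (nat_lit 440) (nat_lit 173))))) (XT.nd (nat_lit 234) (nat_lit 0) (nat_lit 0) (XT.nd (nat_lit 78) (nat_lit 0) (nat_lit 0) (XT.lf (nat_lit 0) (nat_lit 141198696324) (nat_lit 0) (nat_lit 0) (nat_lit 0) (nat_lit 0) (nat_lit 0) (nat_lit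 0) (nat_lit 1) (nat_lit 0) (nat_lit 1) (nat_lit 0) (nat_lit 408) (nat_lit 440) (nat_lit 172)) (XT.nd (nat_lit 78) (nat_lit 0) (nat_lit 0) (XT.lf (nat_lit 0) (nat_lit 141198682235) (nat_lit 0) (nat_lit 0) (nat_lit 0) (nat_lit 0) (nat_lit 0) (nat_lit 0) (nat_lit 1) (nat_lit 0) (nat_lit 1) (nat_lit 0) (nat_lit 409) (nat_lit 440) (nat_lit 171)) (XT.lf (nat_lit 0) (nat_lit 141198668817) (nat_lit 0) (nat_lit 0) (nat_lit 0) (nat_lit 0) (nat_lit 0) (nat_lit 0) (nat_lit 1) (nat_lit 0) (nat_lit 1) (nat_lit 0) (nat_lit 410) (nat_lit 440) (nat_lit 170)))) (XT.nd (nat_lit 78) (nat_lit 0) (nat_lit 0) (XT.lf (nat_lit 0) (nat_lit 141198656038) (nat_lit 0) (nat_lit 0) (nat_lit 0) (nat_lit 0) (nat_lit 0) (nat_lit 0) (nat_lit 1) (nat_lit 0) (nat_lit 1) (nat_lit 0) (nat_lit 411) (nat_lit 440) (nat_lit 169)) (XT.nd (nat_lit 78) (nat_lit 0) (nat_lit 0) (XT.lf (nat_lit 0) (nat_lit 141198643867) (nat_lit 0) (nat_lit 0)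 (nat_lit 0) (nat_lit 0) (nat_lit 0) (nat_lit 0) (nat_lit 1) (nat_lit 0) (nat_lit 1) (nat_lit 0) (nat_lit 412) (nat_lit 440) (nat_lit 168)) (XT.lf (nat_lit 0) (nat_lit 141198632276) (nat_lit 0) (nat_lit 0) (nat_lit 0) (nat_lit 0) (nat_lit 0) (nat_lit 0) (nat_lit 1) (nat_lit 0) (nat_lit 1) (nat_lit 0) (nat_lit 413) (nat_lit 440) (nat_lit 167)))))) (XT.nd (nat_lit 468) (nat_lit 0) (nat_lit 0) (XT.nd (nat_lit 234) (nat_lit 0) (nat_lit 0) (XT.nd (nat_lit 78) (nat_lit 0) (nat_lit 0) (XT.lf (nat_lit 0) (nat_lit 141198621237) (nat_lit 0) (nat_lit 0) (nat_lit 0) (nat_lit 0) (nat_lit 0) (nat_lit 0) (nat_lit 1) (nat_lit 0) (nat_lit 1) (nat_lit 0) (nat_lit 414) (nat_lit 440) (nat_lit 166)) (XT.nd (nat_lit 78) (nat_lit 0) (nat_lit 0) (XT.lf (nat_lit 0) (nat_lit 141198610724) (nat_lit 0) (nat_lit 0) (nat_lit 0) (nat_lit 0) (nat_lit 0) (nat_lit 0) (nat_lit 1) (nat_lit 0) (nat_lit 1) (nat_lit 0) (nat_lit 415)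 (nat_lit 440) (nat_lit 165)) (XT.lf (nat_lit 0) (nat_lit 141198600711) (nat_lit 0) (nat_lit 0) (nat_lit 0) (nat_lit 0) (nat_lit 0) (nat_lit 0) (nat_lit 1) (nat_lit 0) (nat_lit 1) (nat_lit 0) (nat_lit 416) (nat_lit 440) (nat_lit 164)))) (XT.nd (nat_lit 78) (nat_lit 0) (nat_lit 0) (XT.lf (nat_lit 0) (nat_lit 141198591175) (nat_lit 0) (nat_lit 0) (nat_lit 0) (nat_lit 0) (nat_lit 0) (nat_lit 0) (nat_lit 1) (nat_lit 0) (nat_lit 1) (nat_lit 0) (nat_lit 417) (nat_lit 440) (nat_lit 163)) (XT.nd (nat_lit 78) (nat_lit 0) (nat_lit 0) (XT.lf (nat_lit 0) (nat_lit 141198582093) (nat_lit 0) (nat_lit 0) (nat_lit 0) (nat_lit 0) (nat_lit 0) (nat_lit 0) (nat_lit 1) (nat_lit 0) (nat_lit 1) (nat_lit 0) (nat_lit 418) (nat_lit 440) (nat_lit 162)) (XT.lf (nat_lit 0) (nat_lit 141198573444) (nat_lit 0) (nat_lit 0) (nat_lit 0) (nat_lit 0) (nat_lit 0) (nat_lit 0) (nat_lit 1) (nat_lit 0) (nat_lit 1) (nat_lit 0) (nat_lit 419)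 (nat_lit 440) (nat_lit 161))))) (XT.nd (nat_lit 234) (nat_lit 0) (nat_lit 0) (XT.nd (nat_lit 78) (nat_lit 0) (nat_lit 0) (XT.lf (nat_lit 0) (nat_lit 141198565207) (nat_lit 0) (nat_lit 0) (nat_lit 0) (nat_lit 0) (nat_lit 0) (nat_lit 0) (nat_lit 1) (nat_lit 0) (nat_lit 1) (nat_lit 0) (nat_lit 420) (nat_lit 440) (nat_lit 160)) (XT.nd (nat_lit 78) (nat_lit 0) (nat_lit 0) (XT.lf (nat_lit 0) (nat_lit 141198557361) (nat_lit 0) (nat_lit 0) (nat_lit 0) (nat_lit 0) (nat_lit 0) (nat_lit 0) (nat_lit 1) (nat_lit 0) (nat_lit 1) (nat_lit 0) (nat_lit 421) (nat_lit 440) (nat_lit 159)) (XT.lf (nat_lit 0) (nat_lit 141198549890) (nat_lit 0) (nat_lit 0) (nat_lit 0) (nat_lit 0) (nat_lit 0) (nat_lit 0) (nat_lit 1) (nat_lit 0) (nat_lit 1) (nat_lit 0) (nat_lit 422) (nat_lit 440) (nat_lit 158)))) (XT.nd (nat_lit 32604) (nat_lit 0) (nat_lit 19228) (XT.nd (nat_lit 78) (nat_lit 0) (nat_lit 0) (XT.lf (nat_lit 0) (nat_lit 141198542774)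 (nat_lit 0) (nat_lit 0) (nat_lit 0) (nat_lit 0) (nat_lit 0) (nat_lit 0) (nat_lit 1) (nat_lit 0) (nat_lit 1) (nat_lit 0) (nat_lit 423) (nat_lit 440) (nat_lit 157)) (XT.lf (nat_lit 0) (nat_lit 141198535997) (nat_lit 0) (nat_lit 0) (nat_lit 0) (nat_lit 0) (nat_lit 0) (nat_lit 0) (nat_lit 1) (nat_lit 0) (nat_lit 1) (nat_lit 0) (nat_lit 424) (nat_lit 440) (nat_lit 156))) (XT.nd (nat_lit 78) (nat_lit 304) (nat_lit 0) (XT.lf (nat_lit 76) (nat_lit 111268538687) (nat_lit 0) (nat_lit 120392316167) (nat_lit 380) (nat_lit 111268538687) (nat_lit 258) (nat_lit 1) (nat_lit 257) (nat_lit 1) (nat_lit 262) (nat_lit 1) (nat_lit 160) (nat_lit 441) (nat_lit 419)) (XT.lf (nat_lit 380) (nat_lit 162371750451) (nat_lit 0) (nat_lit 86830479270) (nat_lit 304) (nat_lit 86830479270) (nat_lit 258) (nat_lit 1) (nat_lit 253) (nat_lit 1) (nat_lit 257) (nat_lit 1) (nat_lit 161) (nat_lit 441) (nat_lit 418))))))) (XT.nd (nat_lit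 936) (nat_lit 1520) (nat_lit 0) (XT.nd (nat_lit 468) (nat_lit 912) (nat_lit 0) (XT.nd (nat_lit 234) (nat_lit 228) (nat_lit 0) (XT.nd (nat_lit 78) (nat_lit 608) (nat_lit 0) (XT.lf (nat_lit 76) (nat_lit 51204803559) (nat_lit 0) (nat_lit 226928076966) (nat_lit 380) (nat_lit 51204803559) (nat_lit 254) (nat_lit 1) (nat_lit 253) (nat_lit 1) (nat_lit 258) (nat_lit 1) (nat_lit 162) (nat_lit 441) (nat_lit 417)) (XT.nd (nat_lit 78) (nat_lit 380) (nat_lit 0) (XT.lf (nat_lit 304) (nat_lit 41642673673) (nat_lit 0) (nat_lit 140572252149) (nat_lit 228) (nat_lit 140572252149) (nat_lit 254) (nat_lit 1) (nat_lit 250) (nat_lit 1) (nat_lit 253) (nat_lit 1) (nat_lit 163) (nat_lit 441) (nat_lit 416)) (XT.lf (nat_lit 380) (nat_lit 299848994343) (nat_lit 0) (nat_lit 8320234245) (nat_lit 304) (nat_lit 8320234245) (nat_lit 250) (nat_lit 1) (nat_lit 245) (nat_lit 1) (nat_lit 249) (nat_lit 1) (nat_lit 164) (nat_lit 441) (nat_lit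 415)))) (XT.nd (nat_lit 78) (nat_lit 228) (nat_lit 0) (XT.lf (nat_lit 76) (nat_lit 117333128232) (nat_lit 0) (nat_lit 75560348327) (nat_lit 380) (nat_lit 117333128232) (nat_lit 246) (nat_lit 1) (nat_lit 245) (nat_lit 1) (nat_lit 250) (nat_lit 1) (nat_lit 165) (nat_lit 441) (nat_lit 414)) (XT.nd (nat_lit 78) (nat_lit 0) (nat_lit 0) (XT.lf (nat_lit 304) (nat_lit 171368743189) (nat_lit 0) (nat_lit 66417600416) (nat_lit 228) (nat_lit 66417600416) (nat_lit 246) (nat_lit 1) (nat_lit 242) (nat_lit 1) (nat_lit 245) (nat_lit 1) (nat_lit 166) (nat_lit 441) (nat_lit 413)) (XT.lf (nat_lit 76) (nat_lit 54138036777) (nat_lit 0) (nat_lit 190058225753) (nat_lit 304) (nat_lit 54138036777) (nat_lit 243) (nat_lit 1) (nat_lit 242) (nat_lit 1) (nat_lit 246) (nat_lit 1) (nat_lit 167) (nat_lit 441) (nat_lit 412))))) (XT.nd (nat_lit 234) (nat_lit 380) (nat_lit 0) (XT.nd (nat_lit 78) (nat_lit 304) (nat_lit 0) (XT.lf (nat_lit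 304) (nat_lit 45122361504) (nat_lit 0) (nat_lit 123737912959) (nat_lit 228) (nat_lit 123737912959) (nat_lit 243) (nat_lit 1) (nat_lit 239) (nat_lit 1) (nat_lit 242) (nat_lit 1) (nat_lit 168) (nat_lit 441) (nat_lit 411)) (XT.nd (nat_lit 78) (nat_lit 0) (nat_lit 0) (XT.lf (nat_lit 304) (nat_lit 271565691506) (nat_lit 0) (nat_lit 7754743934) (nat_lit 228) (nat_lit 7754743934) (nat_lit 239) (nat_lit 1) (nat_lit 235) (nat_lit 1) (nat_lit 238) (nat_lit 1) (nat_lit 169) (nat_lit 441) (nat_lit 410)) (XT.lf (nat_lit 76) (nat_lit 102725523945) (nat_lit 0) (nat_lit 76118581765) (nat_lit 304) (nat_lit 102725523945) (nat_lit 236) (nat_lit 1) (nat_lit 235) (nat_lit 1) (nat_lit 239) (nat_lit 1) (nat_lit 170) (nat_lit 441) (nat_lit 409)))) (XT.nd (nat_lit 78) (nat_lit 152) (nat_lit 0) (XT.lf (nat_lit 304) (nat_lit 141257001577) (nat_lit 0) (nat_lit 67505392291) (nat_lit 228) (nat_lit 67505392291) (nat_lit 236)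 (nat_lit 1) (nat_lit 232) (nat_lit 1) (nat_lit 235) (nat_lit 1) (nat_lit 171) (nat_lit 441) (nat_lit 408)) (XT.nd (nat_lit 78) (nat_lit 152) (nat_lit 0) (XT.lf (nat_lit 76) (nat_lit 38902063030) (nat_lit 0) (nat_lit 193304014456) (nat_lit 304) (nat_lit 38902063030) (nat_lit 233) (nat_lit 1) (nat_lit 232) (nat_lit 1) (nat_lit 236) (nat_lit 1) (nat_lit 172) (nat_lit 441) (nat_lit 407)) (XT.lf (nat_lit 228) (nat_lit 14255009362) (nat_lit 0) (nat_lit 125895357970) (nat_lit 152) (nat_lit 125895357970) (nat_lit 233) (nat_lit 1) (nat_lit 230) (nat_lit 1) (nat_lit 232) (nat_lit 1) (nat_lit 173) (nat_lit 441) (nat_lit 406)))))) (XT.nd (nat_lit 468) (nat_lit 684) (nat_lit 0) (XT.nd (nat_lit 234) (nat_lit 380) (nat_lit 0) (XT.nd (nat_lit 78) (nat_lit 152) (nat_lit 0) (XT.lf (nat_lit 304) (nat_lit 215388411540) (nat_lit 0) (nat_lit 22875810513) (nat_lit 228) (nat_lit 22875810513) (nat_lit 230) (nat_lit 1)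 (nat_lit 226) (nat_lit 1) (nat_lit 229) (nat_lit 1) (nat_lit 174) (nat_lit 441) (nat_lit 405)) (XT.nd (nat_lit 78) (nat_lit 152) (nat_lit 0) (XT.lf (nat_lit 76) (nat_lit 75230059447) (nat_lit 0) (nat_lit 105829086390) (nat_lit 304) (nat_lit 75230059447) (nat_lit 227) (nat_lit 1) (nat_lit 226) (nat_lit 1) (nat_lit 230) (nat_lit 1) (nat_lit 175) (nat_lit 441) (nat_lit 404)) (XT.lf (nat_lit 228) (nat_lit 86916728959) (nat_lit 0) (nat_lit 82335679439) (nat_lit 152) (nat_lit 82335679439) (nat_lit 227) (nat_lit 1) (nat_lit 224) (nat_lit 1) (nat_lit 226) (nat_lit 1) (nat_lit 176) (nat_lit 441) (nat_lit 403)))) (XT.nd (nat_lit 78) (nat_lit 380) (nat_lit 0) (XT.lf (nat_lit 76) (nat_lit 12487175163) (nat_lit 0) (nat_lit 222068632112) (nat_lit 228) (nat_lit 12487175163) (nat_lit 225) (nat_lit 1) (nat_lit 224) (nat_lit 1) (nat_lit 227) (nat_lit 1) (nat_lit 177) (nat_lit 441) (nat_lit 402)) (XT.nd (nat_lit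 78) (nat_lit 152) (nat_lit 0) (XT.lf (nat_lit 76) (nat_lit 103058847435) (nat_lit 0) (nat_lit 36396703954) (nat_lit 228) (nat_lit 103058847435) (nat_lit 222) (nat_lit 1) (nat_lit 221) (nat_lit 1) (nat_lit 224) (nat_lit 1) (nat_lit 178) (nat_lit 441) (nat_lit 401)) (XT.lf (nat_lit 228) (nat_lit 143115272281) (nat_lit 0) (nat_lit 47510392830) (nat_lit 152) (nat_lit 47510392830) (nat_lit 222) (nat_lit 1) (nat_lit 219) (nat_lit 1) (nat_lit 221) (nat_lit 1) (nat_lit 179) (nat_lit 441) (nat_lit 400))))) (XT.nd (nat_lit 234) (nat_lit 304) (nat_lit 0) (XT.nd (nat_lit 78) (nat_lit 380) (nat_lit 0) (XT.lf (nat_lit 76) (nat_lit 40383406524) (nat_lit 0) (nat_lit 153087674908) (nat_lit 228) (nat_lit 40383406524) (nat_lit 220) (nat_lit 1) (nat_lit 219) (nat_lit 1) (nat_lit 222) (nat_lit 1) (nat_lit 180) (nat_lit 441) (nat_lit 399)) (XT.nd (nat_lit 78) (nat_lit 228) (nat_lit 0) (XT.lf (nat_lit 228) (nat_lit 18918172017)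 (nat_lit 0) (nat_lit 105370525690) (nat_lit 152) (nat_lit 105370525690) (nat_lit 220) (nat_lit 1) (nat_lit 217) (nat_lit 1) (nat_lit 219) (nat_lit 1) (nat_lit 181) (nat_lit 441) (nat_lit 398)) (XT.lf (nat_lit 228) (nat_lit 185940016558) (nat_lit 0) (nat_lit 19822751656) (nat_lit 152) (nat_lit 19822751656) (nat_lit 217) (nat_lit 1) (nat_lit 214) (nat_lit 1) (nat_lit 216) (nat_lit 1) (nat_lit 182) (nat_lit 441) (nat_lit 397)))) (XT.nd (nat_lit 156) (nat_lit 152) (nat_lit 0) (XT.nd (nat_lit 78) (nat_lit 152) (nat_lit 0) (XT.lf (nat_lit 76) (nat_lit 61899887168) (nat_lit 0) (nat_lit 97746810622) (nat_lit 228) (nat_lit 61899887168) (nat_lit 215) (nat_lit 1) (nat_lit 214) (nat_lit 1) (nat_lit 217) (nat_lit 1) (nat_lit 183) (nat_lit 441) (nat_lit 396)) (XT.lf (nat_lit 228) (nat_lit 63042029806) (nat_lit 0) (nat_lit 77291438058) (nat_lit 152) (nat_lit 77291438058) (nat_lit 215) (nat_lit 1) (nat_lit 212)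 (nat_lit 1) (nat_lit 214) (nat_lit 1) (nat_lit 184) (nat_lit 441) (nat_lit 395))) (XT.nd (nat_lit 78) (nat_lit 152) (nat_lit 0) (XT.lf (nat_lit 76) (nat_lit 2072017654) (nat_lit 0) (nat_lit 209696725064) (nat_lit 228) (nat_lit 2072017654) (nat_lit 213) (nat_lit 1) (nat_lit 212) (nat_lit 1) (nat_lit 215) (nat_lit 1) (nat_lit 185) (nat_lit 441) (nat_lit 394)) (XT.lf (nat_lit 76) (nat_lit 78236008153) (nat_lit 0) (nat_lit 53560544540) (nat_lit 152) (nat_lit 78236008153) (nat_lit 211) (nat_lit 1) (nat_lit 210) (nat_lit 1) (nat_lit 212) (nat_lit 1) (nat_lit 186) (nat_lit 441) (nat_lit 393))))))))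
noncomputable def ec467 : XT := (XT.nd (nat_lit 1950) (nat_lit 2052) (nat_lit 0) (XT.nd (nat_lit 936) (nat_lit 988) (nat_lit 0) (XT.nd (nat_lit 468) (nat_lit 608) (nat_lit 0) (XT.nd (nat_lit 234) (nat_lit 228) (nat_lit 0) (XT.nd (nat_lit 78) (nat_lit 152) (nat_lit 0) (XT.lf (nat_lit 228) (nat_lit 97081979527) (nat_lit 0) (nat_lit 54638186707) (nat_lit 152) (nat_lit 54638186707) (nat_lit 211) (nat_lit 1) (nat_lit 208) (nat_lit 1) (nat_lit 210) (nat_lit 1) (nat_lit 187) (nat_lit 441) (nat_lit 392)) (XT.nd (nat_lit 78) (nat_lit 152) (nat_lit 0) (XT.lf (nat_lit 76) (nat_lit 19464265937) (nat_lit 0) (nat_lit 163854789355) (nat_lit 228) (nat_lit 19464265937) (nat_lit 209) (nat_lit 1) (nat_lit 208) (nat_lit 1) (nat_lit 211) (nat_lit 1) (nat_lit 188) (nat_lit 441) (nat_lit 391)) (XT.lf (nat_lit 76) (nat_lit 90375260183) (nat_lit 0) (nat_lit 18487251151) (nat_lit 152) (nat_lit 90375260183) (nat_lit 207)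 (nat_lit 1) (nat_lit 206) (nat_lit 1) (nat_lit 208) (nat_lit 1) (nat_lit 189) (nat_lit 441) (nat_lit 390)))) (XT.nd (nat_lit 78) (nat_lit 76) (nat_lit 0) (XT.lf (nat_lit 228) (nat_lit 122933532995) (nat_lit 0) (nat_lit 36427475552) (nat_lit 152) (nat_lit 36427475552) (nat_lit 207) (nat_lit 1) (nat_lit 204) (nat_lit 1) (nat_lit 206) (nat_lit 1) (nat_lit 190) (nat_lit 441) (nat_lit 389)) (XT.nd (nat_lit 78) (nat_lit 76) (nat_lit 0) (XT.lf (nat_lit 76) (nat_lit 32927215839) (nat_lit 0) (nat_lit 126553049937) (nat_lit 228) (nat_lit 32927215839) (nat_lit 205) (nat_lit 1) (nat_lit 204) (nat_lit 1) (nat_lit 207) (nat_lit 1) (nat_lit 191) (nat_lit 441) (nat_lit 388)) (XT.lf (nat_lit 152) (nat_lit 9452204580) (nat_lit 0) (nat_lit 89819037852) (nat_lit 76) (nat_lit 89819037852) (nat_lit 205) (nat_lit 1) (nat_lit 203) (nat_lit 1) (nat_lit 204) (nat_lit 1) (nat_lit 192) (nat_lit 441) (nat_lit 387))))) (XT.nd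 (nat_lit 234) (nat_lit 304) (nat_lit 0) (XT.nd (nat_lit 78) (nat_lit 76) (nat_lit 0) (XT.lf (nat_lit 228) (nat_lit 142151005811) (nat_lit 0) (nat_lit 21851359173) (nat_lit 152) (nat_lit 21851359173) (nat_lit 203) (nat_lit 1) (nat_lit 200) (nat_lit 1) (nat_lit 202) (nat_lit 1) (nat_lit 193) (nat_lit 441) (nat_lit 386)) (XT.nd (nat_lit 78) (nat_lit 76) (nat_lit 0) (XT.lf (nat_lit 76) (nat_lit 43197793465) (nat_lit 0) (nat_lit 96257706641) (nat_lit 228) (nat_lit 43197793465) (nat_lit 201) (nat_lit 1) (nat_lit 200) (nat_lit 1) (nat_lit 203) (nat_lit 1) (nat_lit 194) (nat_lit 441) (nat_lit 385)) (XT.lf (nat_lit 152) (nat_lit 31742644342) (nat_lit 0) (nat_lit 73894344725) (nat_lit 76) (nat_lit 73894344725) (nat_lit 201) (nat_lit 1) (nat_lit 199) (nat_lit 1) (nat_lit 200) (nat_lit 1) (nat_lit 195) (nat_lit 441) (nat_lit 384)))) (XT.nd (nat_lit 78) (nat_lit 76) (nat_lit 0) (XT.lf (nat_lit 228) (nat_lit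 156008254733) (nat_lit 0) (nat_lit 10246105256) (nat_lit 152) (nat_lit 10246105256) (nat_lit 199) (nat_lit 1) (nat_lit 196) (nat_lit 1) (nat_lit 198) (nat_lit 1) (nat_lit 196) (nat_lit 441) (nat_lit 383)) (XT.nd (nat_lit 78) (nat_lit 76) (nat_lit 0) (XT.lf (nat_lit 76) (nat_lit 50880352072) (nat_lit 0) (nat_lit 71707833723) (nat_lit 228) (nat_lit 50880352072) (nat_lit 197) (nat_lit 1) (nat_lit 196) (nat_lit 1) (nat_lit 199) (nat_lit 1) (nat_lit 197) (nat_lit 441) (nat_lit 382)) (XT.lf (nat_lit 152) (nat_lit 48939792286) (nat_lit 0) (nat_lit 60793060278) (nat_lit 76) (nat_lit 60793060278) (nat_lit 197) (nat_lit 1) (nat_lit 195) (nat_lit 1) (nat_lit 196) (nat_lit 1) (nat_lit 198) (nat_lit 441) (nat_lit 381)))))) (XT.nd (nat_lit 468) (nat_lit 456) (nat_lit 0) (XT.nd (nat_lit 234) (nat_lit 228) (nat_lit 0) (XT.nd (nat_lit 78) (nat_lit 76) (nat_lit 0) (XT.lf (nat_lit 228) (nat_lit 165548634836) (nat_lit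 0) (nat_lit 1066579948) (nat_lit 152) (nat_lit 1066579948) (nat_lit 195) (nat_lit 1) (nat_lit 192) (nat_lit 1) (nat_lit 194) (nat_lit 1) (nat_lit 199) (nat_lit 441) (nat_lit 380)) (XT.nd (nat_lit 78) (nat_lit 76) (nat_lit 0) (XT.lf (nat_lit 76) (nat_lit 56470268218) (nat_lit 0) (nat_lit 51866955364) (nat_lit 228) (nat_lit 56470268218) (nat_lit 193) (nat_lit 1) (nat_lit 192) (nat_lit 1) (nat_lit 195) (nat_lit 1) (nat_lit 200) (nat_lit 441) (nat_lit 379)) (XT.lf (nat_lit 152) (nat_lit 62001021782) (nat_lit 0) (nat_lit 50014601141) (nat_lit 76) (nat_lit 50014601141) (nat_lit 193) (nat_lit 1) (nat_lit 191) (nat_lit 1) (nat_lit 192) (nat_lit 1) (nat_lit 201) (nat_lit 441) (nat_lit 378)))) (XT.nd (nat_lit 78) (nat_lit 228) (nat_lit 0) (XT.lf (nat_lit 0) (nat_lit 6235394055) (nat_lit 0) (nat_lit 146866018579) (nat_lit 152) (nat_lit 6235394055) (nat_lit 191) (nat_lit 3) (nat_lit 191) (nat_lit 1) (nat_lit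 193) (nat_lit 1) (nat_lit 202) (nat_lit 441) (nat_lit 377)) (XT.nd (nat_lit 78) (nat_lit 76) (nat_lit 0) (XT.lf (nat_lit 76) (nat_lit 60373350034) (nat_lit 0) (nat_lit 35883208821) (nat_lit 152) (nat_lit 60373350034) (nat_lit 190) (nat_lit 1) (nat_lit 189) (nat_lit 1) (nat_lit 191) (nat_lit 1) (nat_lit 203) (nat_lit 441) (nat_lit 376)) (XT.lf (nat_lit 152) (nat_lit 71711378396) (nat_lit 0) (nat_lit 41147136134) (nat_lit 76) (nat_lit 41147136134) (nat_lit 190) (nat_lit 1) (nat_lit 188) (nat_lit 1) (nat_lit 189) (nat_lit 1) (nat_lit 204) (nat_lit 441) (nat_lit 375))))) (XT.nd (nat_lit 234) (nat_lit 228) (nat_lit 0) (XT.nd (nat_lit 78) (nat_lit 228) (nat_lit 0) (XT.lf (nat_lit 0) (nat_lit 11917737837) (nat_lit 0) (nat_lit 127614900664) (nat_lit 152) (nat_lit 11917737837) (nat_lit 188) (nat_lit 3) (nat_lit 188) (nat_lit 1) (nat_lit 190) (nat_lit 1) (nat_lit 205) (nat_lit 441) (nat_lit 374)) (XT.nd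 (nat_lit 78) (nat_lit 76) (nat_lit 0) (XT.lf (nat_lit 76) (nat_lit 62921800312) (nat_lit 0) (nat_lit 23056572589) (nat_lit 152) (nat_lit 62921800312) (nat_lit 187) (nat_lit 1) (nat_lit 186) (nat_lit 1) (nat_lit 188) (nat_lit 1) (nat_lit 206) (nat_lit 441) (nat_lit 373)) (XT.lf (nat_lit 152) (nat_lit 78714256416) (nat_lit 0) (nat_lit 33851850728) (nat_lit 76) (nat_lit 33851850728) (nat_lit 187) (nat_lit 1) (nat_lit 185) (nat_lit 1) (nat_lit 186) (nat_lit 1) (nat_lit 207) (nat_lit 441) (nat_lit 372)))) (XT.nd (nat_lit 156) (nat_lit 76) (nat_lit 0) (XT.nd (nat_lit 78) (nat_lit 152) (nat_lit 0) (XT.lf (nat_lit 0) (nat_lit 16269384523) (nat_lit 0) (nat_lit 111453726708) (nat_lit 152) (nat_lit 16269384523) (nat_lit 185) (nat_lit 3) (nat_lit 185) (nat_lit 1) (nat_lit 187) (nat_lit 1) (nat_lit 208) (nat_lit 441) (nat_lit 371)) (XT.lf (nat_lit 76) (nat_lit 64387345433) (nat_lit 0) (nat_lit 12811906843)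 (nat_lit 152) (nat_lit 64387345433) (nat_lit 184) (nat_lit 1) (nat_lit 183) (nat_lit 1) (nat_lit 185) (nat_lit 1) (nat_lit 209) (nat_lit 441) (nat_lit 370))) (XT.nd (nat_lit 78) (nat_lit 0) (nat_lit 0) (XT.lf (nat_lit 152) (nat_lit 83536630639) (nat_lit 0) (nat_lit 27850001370) (nat_lit 76) (nat_lit 27850001370) (nat_lit 184) (nat_lit 1) (nat_lit 182) (nat_lit 1) (nat_lit 183) (nat_lit 1) (nat_lit 210) (nat_lit 441) (nat_lit 369)) (XT.lf (nat_lit 0) (nat_lit 19541655397) (nat_lit 0) (nat_lit 97850049274) (nat_lit 152) (nat_lit 19541655397) (nat_lit 182) (nat_lit 3) (nat_lit 182) (nat_lit 1) (nat_lit 184) (nat_lit 1) (nat_lit 211) (nat_lit 441) (nat_lit 368))))))) (XT.nd (nat_lit 1014) (nat_lit 1064) (nat_lit 0) (XT.nd (nat_lit 468) (nat_lit 532) (nat_lit 0) (XT.nd (nat_lit 234) (nat_lit 228) (nat_lit 0) (XT.nd (nat_lit 78) (nat_lit 76) (nat_lit 0) (XT.lf (nat_lit 76) (nat_lit 64992032812) (nat_lit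 0) (nat_lit 4676775574) (nat_lit 152) (nat_lit 64992032812) (nat_lit 181) (nat_lit 1) (nat_lit 180) (nat_lit 1) (nat_lit 182) (nat_lit 1) (nat_lit 212) (nat_lit 441) (nat_lit 367)) (XT.nd (nat_lit 78) (nat_lit 0) (nat_lit 0) (XT.lf (nat_lit 152) (nat_lit 86609809033) (nat_lit 0) (nat_lit 22912265050) (nat_lit 76) (nat_lit 22912265050) (nat_lit 181) (nat_lit 1) (nat_lit 179) (nat_lit 1) (nat_lit 180) (nat_lit 1) (nat_lit 213) (nat_lit 441) (nat_lit 366)) (XT.lf (nat_lit 0) (nat_lit 21940580149) (nat_lit 0) (nat_lit 86365089588) (nat_lit 152) (nat_lit 21940580149) (nat_lit 179) (nat_lit 3) (nat_lit 179) (nat_lit 1) (nat_lit 181) (nat_lit 1) (nat_lit 214) (nat_lit 441) (nat_lit 365)))) (XT.nd (nat_lit 78) (nat_lit 152) (nat_lit 0) (XT.lf (nat_lit 76) (nat_lit 1794223806) (nat_lit 0) (nat_lit 63150899462) (nat_lit 76) (nat_lit 63150899462) (nat_lit 179) (nat_lit 3) (nat_lit 178) (nat_lit 1) (nat_lit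 179) (nat_lit 1) (nat_lit 215) (nat_lit 441) (nat_lit 364)) (XT.nd (nat_lit 78) (nat_lit 0) (nat_lit 0) (XT.lf (nat_lit 152) (nat_lit 88286500682) (nat_lit 0) (nat_lit 18849977160) (nat_lit 76) (nat_lit 18849977160) (nat_lit 178) (nat_lit 1) (nat_lit 176) (nat_lit 1) (nat_lit 177) (nat_lit 1) (nat_lit 216) (nat_lit 441) (nat_lit 363)) (XT.lf (nat_lit 0) (nat_lit 23634961865) (nat_lit 0) (nat_lit 76637165218) (nat_lit 152) (nat_lit 23634961865) (nat_lit 176) (nat_lit 3) (nat_lit 176) (nat_lit 1) (nat_lit 178) (nat_lit 1) (nat_lit 217) (nat_lit 441) (nat_lit 362))))) (XT.nd (nat_lit 234) (nat_lit 304) (nat_lit 0) (XT.nd (nat_lit 78) (nat_lit 152) (nat_lit 0) (XT.lf (nat_lit 76) (nat_lit 6970433800) (nat_lit 0) (nat_lit 57448722708) (nat_lit 76) (nat_lit 57448722708) (nat_lit 176) (nat_lit 3) (nat_lit 175) (nat_lit 1) (nat_lit 176) (nat_lit 1) (nat_lit 218) (nat_lit 441) (nat_lit 361)) (XT.nd (nat_lit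 78) (nat_lit 0) (nat_lit 0) (XT.lf (nat_lit 152) (nat_lit 88854852552) (nat_lit 0) (nat_lit 15507922859) (nat_lit 76) (nat_lit 15507922859) (nat_lit 175) (nat_lit 1) (nat_lit 173) (nat_lit 1) (nat_lit 174) (nat_lit 1) (nat_lit 219) (nat_lit 441) (nat_lit 360)) (XT.lf (nat_lit 0) (nat_lit 24763010454) (nat_lit 0) (nat_lit 68368054322) (nat_lit 152) (nat_lit 24763010454) (nat_lit 173) (nat_lit 3) (nat_lit 173) (nat_lit 1) (nat_lit 175) (nat_lit 1) (nat_lit 220) (nat_lit 441) (nat_lit 359)))) (XT.nd (nat_lit 156) (nat_lit 76) (nat_lit 0) (XT.nd (nat_lit 78) (nat_lit 152) (nat_lit 0) (XT.lf (nat_lit 76) (nat_lit 10967280219) (nat_lit 0) (nat_lit 52495893426) (nat_lit 76) (nat_lit 52495893426) (nat_lit 173) (nat_lit 3) (nat_lit 172) (nat_lit 1) (nat_lit 173) (nat_lit 1) (nat_lit 221) (nat_lit 441) (nat_lit 358)) (XT.lf (nat_lit 152) (nat_lit 88549992760) (nat_lit 0) (nat_lit 12758406515) (nat_lit 76)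 (nat_lit 12758406515) (nat_lit 172) (nat_lit 1) (nat_lit 170) (nat_lit 1) (nat_lit 171) (nat_lit 1) (nat_lit 222) (nat_lit 441) (nat_lit 357))) (XT.nd (nat_lit 78) (nat_lit 76) (nat_lit 0) (XT.lf (nat_lit 0) (nat_lit 25437798400) (nat_lit 0) (nat_lit 61311775903) (nat_lit 152) (nat_lit 25437798400) (nat_lit 170) (nat_lit 3) (nat_lit 170) (nat_lit 1) (nat_lit 172) (nat_lit 1) (nat_lit 223) (nat_lit 441) (nat_lit 356)) (XT.lf (nat_lit 76) (nat_lit 14006320083) (nat_lit 0) (nat_lit 48172012944) (nat_lit 76) (nat_lit 48172012944) (nat_lit 170) (nat_lit 3) (nat_lit 169) (nat_lit 1) (nat_lit 170) (nat_lit 1) (nat_lit 224) (nat_lit 441) (nat_lit 355)))))) (XT.nd (nat_lit 468) (nat_lit 608) (nat_lit 0) (XT.nd (nat_lit 234) (nat_lit 228) (nat_lit 0) (XT.nd (nat_lit 78) (nat_lit 76) (nat_lit 0) (XT.lf (nat_lit 152) (nat_lit 87563522632) (nat_lit 0) (nat_lit 10496372614) (nat_lit 76) (nat_lit 10496372614)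 (nat_lit 169) (nat_lit 1) (nat_lit 167) (nat_lit 1) (nat_lit 168) (nat_lit 1) (nat_lit 225) (nat_lit 441) (nat_lit 354)) (XT.nd (nat_lit 78) (nat_lit 76) (nat_lit 0) (XT.lf (nat_lit 0) (nat_lit 25751747711) (nat_lit 0) (nat_lit 55265357784) (nat_lit 152) (nat_lit 25751747711) (nat_lit 167) (nat_lit 3) (nat_lit 167) (nat_lit 1) (nat_lit 169) (nat_lit 1) (nat_lit 226) (nat_lit 441) (nat_lit 353)) (XT.lf (nat_lit 76) (nat_lit 16269235629) (nat_lit 0) (nat_lit 44377435698) (nat_lit 76) (nat_lit 44377435698) (nat_lit 167) (nat_lit 3) (nat_lit 166) (nat_lit 1) (nat_lit 167) (nat_lit 1) (nat_lit 227) (nat_lit 441) (nat_lit 352)))) (XT.nd (nat_lit 78) (nat_lit 76) (nat_lit 0) (XT.lf (nat_lit 152) (nat_lit 86051321480) (nat_lit 0) (nat_lit 8635391726) (nat_lit 76) (nat_lit 8635391726) (nat_lit 166) (nat_lit 1) (nat_lit 164) (nat_lit 1) (nat_lit 165) (nat_lit 1) (nat_lit 228) (nat_lit 441) (nat_lit 351))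 (XT.nd (nat_lit 78) (nat_lit 76) (nat_lit 0) (XT.lf (nat_lit 0) (nat_lit 25780319920) (nat_lit 0) (nat_lit 50061239967) (nat_lit 152) (nat_lit 25780319920) (nat_lit 164) (nat_lit 3) (nat_lit 164) (nat_lit 1) (nat_lit 166) (nat_lit 1) (nat_lit 229) (nat_lit 441) (nat_lit 350)) (XT.lf (nat_lit 76) (nat_lit 17904932257) (nat_lit 0) (nat_lit 41029618016) (nat_lit 76) (nat_lit 41029618016) (nat_lit 164) (nat_lit 3) (nat_lit 163) (nat_lit 1) (nat_lit 164) (nat_lit 1) (nat_lit 230) (nat_lit 441) (nat_lit 349))))) (XT.nd (nat_lit 234) (nat_lit 380) (nat_lit 0) (XT.nd (nat_lit 78) (nat_lit 76) (nat_lit 0) (XT.lf (nat_lit 152) (nat_lit 84139963436) (nat_lit 0) (nat_lit 7104358144) (nat_lit 76) (nat_lit 7104358144) (nat_lit 163) (nat_lit 1) (nat_lit 161) (nat_lit 1) (nat_lit 162) (nat_lit 1) (nat_lit 231) (nat_lit 441) (nat_lit 348)) (XT.nd (nat_lit 78) (nat_lit 76) (nat_lit 0) (XT.lf (nat_lit 0) (nat_lit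 25585050473) (nat_lit 0) (nat_lit 45561023485) (nat_lit 152) (nat_lit 25585050473) (nat_lit 161) (nat_lit 3) (nat_lit 161) (nat_lit 1) (nat_lit 163) (nat_lit 1) (nat_lit 232) (nat_lit 441) (nat_lit 347)) (XT.lf (nat_lit 76) (nat_lit 19035376690) (nat_lit 0) (nat_lit 38060112893) (nat_lit 76) (nat_lit 38060112893) (nat_lit 161) (nat_lit 3) (nat_lit 160) (nat_lit 1) (nat_lit 161) (nat_lit 1) (nat_lit 233) (nat_lit 441) (nat_lit 346)))) (XT.nd (nat_lit 156) (nat_lit 228) (nat_lit 0) (XT.nd (nat_lit 78) (nat_lit 0) (nat_lit 0) (XT.lf (nat_lit 152) (nat_lit 81931992619) (nat_lit 0) (nat_lit 5844773026) (nat_lit 76) (nat_lit 5844773026) (nat_lit 160) (nat_lit 1) (nat_lit 158) (nat_lit 1) (nat_lit 159) (nat_lit 1) (nat_lit 234) (nat_lit 441) (nat_lit 345)) (XT.lf (nat_lit 0) (nat_lit 25216043840) (nat_lit 0) (nat_lit 41650326274) (nat_lit 152) (nat_lit 25216043840) (nat_lit 158) (nat_lit 3) (nat_lit 158)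 (nat_lit 1) (nat_lit 160) (nat_lit 1) (nat_lit 235) (nat_lit 441) (nat_lit 344))) (XT.nd (nat_lit 78) (nat_lit 152) (nat_lit 0) (XT.lf (nat_lit 76) (nat_lit 19760398760) (nat_lit 0) (nat_lit 35412096316) (nat_lit 76) (nat_lit 35412096316) (nat_lit 158) (nat_lit 3) (nat_lit 157) (nat_lit 1) (nat_lit 158) (nat_lit 1) (nat_lit 236) (nat_lit 441) (nat_lit 343)) (XT.lf (nat_lit 152) (nat_lit 79510259256) (nat_lit 0) (nat_lit 4808509233) (nat_lit 76) (nat_lit 4808509233) (nat_lit 157) (nat_lit 1) (nat_lit 155) (nat_lit 1) (nat_lit 156) (nat_lit 1) (nat_lit 237) (nat_lit 441) (nat_lit 342))))))))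
noncomputable def ec468 : XT := (XT.nd (nat_lit 1950) (nat_lit 1900) (nat_lit 0) (XT.nd (nat_lit 936) (nat_lit 912) (nat_lit 0) (XT.nd (nat_lit 468) (nat_lit 456) (nat_lit 0) (XT.nd (nat_lit 234) (nat_lit 228) (nat_lit 0) (XT.nd (nat_lit 78) (nat_lit 228) (nat_lit 0) (XT.lf (nat_lit 0) (nat_lit 24714025004) (nat_lit 0) (nat_lit 38234549834) (nat_lit 152) (nat_lit 24714025004) (nat_lit 155) (nat_lit 3) (nat_lit 155) (nat_lit 1) (nat_lit 157) (nat_lit 1) (nat_lit 238) (nat_lit 441) (nat_lit 341)) (XT.nd (nat_lit 78) (nat_lit 152) (nat_lit 0) (XT.lf (nat_lit 76) (nat_lit 20161640628) (nat_lit 0) (nat_lit 33038330943) (nat_lit 76) (nat_lit 33038330943) (nat_lit 155) (nat_lit 3) (nat_lit 154) (nat_lit 1) (nat_lit 155) (nat_lit 1) (nat_lit 239) (nat_lit 441) (nat_lit 340)) (XT.lf (nat_lit 152) (nat_lit 76941483407) (nat_lit 0) (nat_lit 3955972446) (nat_lit 76) (nat_lit 3955972446) (nat_lit 154) (nat_lit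 1) (nat_lit 152) (nat_lit 1) (nat_lit 153) (nat_lit 1) (nat_lit 240) (nat_lit 441) (nat_lit 339)))) (XT.nd (nat_lit 78) (nat_lit 228) (nat_lit 0) (XT.lf (nat_lit 0) (nat_lit 24112026040) (nat_lit 0) (nat_lit 35235395278) (nat_lit 152) (nat_lit 24112026040) (nat_lit 152) (nat_lit 3) (nat_lit 152) (nat_lit 1) (nat_lit 154) (nat_lit 1) (nat_lit 241) (nat_lit 441) (nat_lit 338)) (XT.nd (nat_lit 78) (nat_lit 152) (nat_lit 0) (XT.lf (nat_lit 76) (nat_lit 20305804656) (nat_lit 0) (nat_lit 30899489644) (nat_lit 76) (nat_lit 30899489644) (nat_lit 152) (nat_lit 3) (nat_lit 151) (nat_lit 1) (nat_lit 152) (nat_lit 1) (nat_lit 242) (nat_lit 441) (nat_lit 337)) (XT.lf (nat_lit 152) (nat_lit 74279183428) (nat_lit 0) (nat_lit 3254588322) (nat_lit 76) (nat_lit 3254588322) (nat_lit 151) (nat_lit 1) (nat_lit 149) (nat_lit 1) (nat_lit 150) (nat_lit 1) (nat_lit 243) (nat_lit 441) (nat_lit 336))))) (XT.nd (nat_lit 234)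 (nat_lit 228) (nat_lit 0) (XT.nd (nat_lit 78) (nat_lit 228) (nat_lit 0) (XT.lf (nat_lit 0) (nat_lit 23436772549) (nat_lit 0) (nat_lit 32587995949) (nat_lit 152) (nat_lit 23436772549) (nat_lit 149) (nat_lit 3) (nat_lit 149) (nat_lit 1) (nat_lit 151) (nat_lit 1) (nat_lit 244) (nat_lit 441) (nat_lit 335)) (XT.nd (nat_lit 78) (nat_lit 152) (nat_lit 0) (XT.lf (nat_lit 76) (nat_lit 20247324328) (nat_lit 0) (nat_lit 28962775186) (nat_lit 76) (nat_lit 28962775186) (nat_lit 149) (nat_lit 3) (nat_lit 148) (nat_lit 1) (nat_lit 149) (nat_lit 1) (nat_lit 245) (nat_lit 441) (nat_lit 334)) (XT.lf (nat_lit 152) (nat_lit 71566081951) (nat_lit 0) (nat_lit 2677557867) (nat_lit 76) (nat_lit 2677557867) (nat_lit 148) (nat_lit 1) (nat_lit 146) (nat_lit 1) (nat_lit 147) (nat_lit 1) (nat_lit 246) (nat_lit 441) (nat_lit 333)))) (XT.nd (nat_lit 78) (nat_lit 228) (nat_lit 0) (XT.lf (nat_lit 0) (nat_lit 22709823210) (nat_lit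 0) (nat_lit 30238557349) (nat_lit 152) (nat_lit 22709823210) (nat_lit 146) (nat_lit 3) (nat_lit 146) (nat_lit 1) (nat_lit 148) (nat_lit 1) (nat_lit 247) (nat_lit 441) (nat_lit 332)) (XT.nd (nat_lit 78) (nat_lit 152) (nat_lit 0) (XT.lf (nat_lit 76) (nat_lit 20030560581) (nat_lit 0) (nat_lit 27200783570) (nat_lit 76) (nat_lit 27200783570) (nat_lit 146) (nat_lit 3) (nat_lit 145) (nat_lit 1) (nat_lit 146) (nat_lit 1) (nat_lit 248) (nat_lit 441) (nat_lit 331)) (XT.lf (nat_lit 152) (nat_lit 68836082179) (nat_lit 0) (nat_lit 2202833483) (nat_lit 76) (nat_lit 2202833483) (nat_lit 145) (nat_lit 1) (nat_lit 143) (nat_lit 1) (nat_lit 144) (nat_lit 1) (nat_lit 249) (nat_lit 441) (nat_lit 330)))))) (XT.nd (nat_lit 468) (nat_lit 456) (nat_lit 0) (XT.nd (nat_lit 234) (nat_lit 228) (nat_lit 0) (XT.nd (nat_lit 78) (nat_lit 228) (nat_lit 0) (XT.lf (nat_lit 0) (nat_lit 21948506264) (nat_lit 0) (nat_lit 28142414472)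 (nat_lit 152) (nat_lit 21948506264) (nat_lit 143) (nat_lit 3) (nat_lit 143) (nat_lit 1) (nat_lit 145) (nat_lit 1) (nat_lit 250) (nat_lit 441) (nat_lit 329)) (XT.nd (nat_lit 78) (nat_lit 152) (nat_lit 0) (XT.lf (nat_lit 76) (nat_lit 19691607712) (nat_lit 0) (nat_lit 25590567910) (nat_lit 76) (nat_lit 25590567910) (nat_lit 143) (nat_lit 3) (nat_lit 142) (nat_lit 1) (nat_lit 143) (nat_lit 1) (nat_lit 251) (nat_lit 441) (nat_lit 328)) (XT.lf (nat_lit 152) (nat_lit 66115890828) (nat_lit 0) (nat_lit 1812276558) (nat_lit 76) (nat_lit 1812276558) (nat_lit 142) (nat_lit 1) (nat_lit 140) (nat_lit 1) (nat_lit 141) (nat_lit 1) (nat_lit 252) (nat_lit 441) (nat_lit 327)))) (XT.nd (nat_lit 78) (nat_lit 228) (nat_lit 0) (XT.lf (nat_lit 0) (nat_lit 21166689000) (nat_lit 0) (nat_lit 26262432611) (nat_lit 152) (nat_lit 21166689000) (nat_lit 140) (nat_lit 3) (nat_lit 140) (nat_lit 1) (nat_lit 142) (nat_lit 1) (nat_lit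 253) (nat_lit 441) (nat_lit 326)) (XT.nd (nat_lit 78) (nat_lit 152) (nat_lit 0) (XT.lf (nat_lit 76) (nat_lit 19259778160) (nat_lit 0) (nat_lit 24112867313) (nat_lit 76) (nat_lit 24112867313) (nat_lit 140) (nat_lit 3) (nat_lit 139) (nat_lit 1) (nat_lit 140) (nat_lit 1) (nat_lit 254) (nat_lit 441) (nat_lit 325)) (XT.lf (nat_lit 152) (nat_lit 63426350496) (nat_lit 0) (nat_lit 1490964409) (nat_lit 76) (nat_lit 1490964409) (nat_lit 139) (nat_lit 1) (nat_lit 137) (nat_lit 1) (nat_lit 138) (nat_lit 1) (nat_lit 255) (nat_lit 441) (nat_lit 324))))) (XT.nd (nat_lit 234) (nat_lit 228) (nat_lit 0) (XT.nd (nat_lit 78) (nat_lit 228) (nat_lit 0) (XT.lf (nat_lit 0) (nat_lit 20375409879) (nat_lit 0) (nat_lit 24567690758) (nat_lit 152) (nat_lit 20375409879) (nat_lit 137) (nat_lit 3) (nat_lit 137) (nat_lit 1) (nat_lit 139) (nat_lit 1) (nat_lit 256) (nat_lit 441) (nat_lit 323)) (XT.nd (nat_lit 78) (nat_lit 152) (nat_lit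 0) (XT.lf (nat_lit 76) (nat_lit 18758823120) (nat_lit 0) (nat_lit 22751471577) (nat_lit 76) (nat_lit 22751471577) (nat_lit 137) (nat_lit 3) (nat_lit 136) (nat_lit 1) (nat_lit 137) (nat_lit 1) (nat_lit 257) (nat_lit 441) (nat_lit 322)) (XT.lf (nat_lit 152) (nat_lit 60783533129) (nat_lit 0) (nat_lit 1226620109) (nat_lit 76) (nat_lit 1226620109) (nat_lit 136) (nat_lit 1) (nat_lit 134) (nat_lit 1) (nat_lit 135) (nat_lit 1) (nat_lit 258) (nat_lit 441) (nat_lit 321)))) (XT.nd (nat_lit 156) (nat_lit 152) (nat_lit 0) (XT.nd (nat_lit 78) (nat_lit 76) (nat_lit 0) (XT.lf (nat_lit 0) (nat_lit 19583397709) (nat_lit 0) (nat_lit 23032397564) (nat_lit 152) (nat_lit 19583397709) (nat_lit 134) (nat_lit 3) (nat_lit 134) (nat_lit 1) (nat_lit 136) (nat_lit 1) (nat_lit 259) (nat_lit 441) (nat_lit 320)) (XT.lf (nat_lit 76) (nat_lit 18207935885) (nat_lit 0) (nat_lit 21492697652) (nat_lit 76) (nat_lit 21492697652) (nat_lit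 134) (nat_lit 3) (nat_lit 133) (nat_lit 1) (nat_lit 134) (nat_lit 1) (nat_lit 260) (nat_lit 441) (nat_lit 319))) (XT.nd (nat_lit 78) (nat_lit 0) (nat_lit 0) (XT.lf (nat_lit 152) (nat_lit 58199637045) (nat_lit 0) (nat_lit 1009143399) (nat_lit 76) (nat_lit 1009143399) (nat_lit 133) (nat_lit 1) (nat_lit 131) (nat_lit 1) (nat_lit 132) (nat_lit 1) (nat_lit 261) (nat_lit 441) (nat_lit 318)) (XT.lf (nat_lit 0) (nat_lit 18797497928) (nat_lit 0) (nat_lit 21634998644) (nat_lit 152) (nat_lit 18797497928) (nat_lit 131) (nat_lit 3) (nat_lit 131) (nat_lit 1) (nat_lit 133) (nat_lit 1) (nat_lit 262) (nat_lit 441) (nat_lit 317))))))) (XT.nd (nat_lit 936) (nat_lit 988) (nat_lit 0) (XT.nd (nat_lit 468) (nat_lit 456) (nat_lit 0) (XT.nd (nat_lit 234) (nat_lit 228) (nat_lit 0) (XT.nd (nat_lit 78) (nat_lit 152) (nat_lit 0) (XT.lf (nat_lit 76) (nat_lit 17622576466) (nat_lit 0) (nat_lit 20324958101) (nat_lit 76) (nat_lit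 20324958101) (nat_lit 131) (nat_lit 3) (nat_lit 130) (nat_lit 1) (nat_lit 131) (nat_lit 1) (nat_lit 263) (nat_lit 441) (nat_lit 316)) (XT.nd (nat_lit 78) (nat_lit 0) (nat_lit 0) (XT.lf (nat_lit 152) (nat_lit 55683722489) (nat_lit 0) (nat_lit 830224772) (nat_lit 76) (nat_lit 830224772) (nat_lit 130) (nat_lit 1) (nat_lit 128) (nat_lit 1) (nat_lit 129) (nat_lit 1) (nat_lit 264) (nat_lit 441) (nat_lit 315)) (XT.lf (nat_lit 0) (nat_lit 18023022511) (nat_lit 0) (nat_lit 20357441373) (nat_lit 152) (nat_lit 18023022511) (nat_lit 128) (nat_lit 3) (nat_lit 128) (nat_lit 1) (nat_lit 130) (nat_lit 1) (nat_lit 265) (nat_lit 441) (nat_lit 314)))) (XT.nd (nat_lit 78) (nat_lit 152) (nat_lit 0) (XT.lf (nat_lit 76) (nat_lit 17015149226) (nat_lit 0) (nat_lit 19238405284) (nat_lit 76) (nat_lit 19238405284) (nat_lit 128) (nat_lit 3) (nat_lit 127) (nat_lit 1) (nat_lit 128) (nat_lit 1) (nat_lit 266) (nat_lit 441) (nat_lit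 313)) (XT.nd (nat_lit 78) (nat_lit 0) (nat_lit 0) (XT.lf (nat_lit 152) (nat_lit 53242314450) (nat_lit 0) (nat_lit 683027974) (nat_lit 76) (nat_lit 683027974) (nat_lit 127) (nat_lit 1) (nat_lit 125) (nat_lit 1) (nat_lit 126) (nat_lit 1) (nat_lit 267) (nat_lit 441) (nat_lit 312)) (XT.lf (nat_lit 0) (nat_lit 17264037076) (nat_lit 0) (nat_lit 19184569251) (nat_lit 152) (nat_lit 17264037076) (nat_lit 125) (nat_lit 3) (nat_lit 125) (nat_lit 1) (nat_lit 127) (nat_lit 1) (nat_lit 268) (nat_lit 441) (nat_lit 311))))) (XT.nd (nat_lit 234) (nat_lit 228) (nat_lit 0) (XT.nd (nat_lit 78) (nat_lit 152) (nat_lit 0) (XT.lf (nat_lit 76) (nat_lit 16395559620) (nat_lit 0) (nat_lit 18224637881) (nat_lit 76) (nat_lit 18224637881) (nat_lit 125) (nat_lit 3) (nat_lit 124) (nat_lit 1) (nat_lit 125) (nat_lit 1) (nat_lit 269) (nat_lit 441) (nat_lit 310)) (XT.nd (nat_lit 78) (nat_lit 0) (nat_lit 0) (XT.lf (nat_lit 152) (nat_lit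 50879896388) (nat_lit 0) (nat_lit 561928805) (nat_lit 76) (nat_lit 561928805) (nat_lit 124) (nat_lit 1) (nat_lit 122) (nat_lit 1) (nat_lit 123) (nat_lit 1) (nat_lit 270) (nat_lit 441) (nat_lit 309)) (XT.lf (nat_lit 0) (nat_lit 16523596364) (nat_lit 0) (nat_lit 18103622937) (nat_lit 152) (nat_lit 16523596364) (nat_lit 122) (nat_lit 3) (nat_lit 122) (nat_lit 1) (nat_lit 124) (nat_lit 1) (nat_lit 271) (nat_lit 441) (nat_lit 308)))) (XT.nd (nat_lit 78) (nat_lit 152) (nat_lit 0) (XT.lf (nat_lit 76) (nat_lit 15771671515) (nat_lit 0) (nat_lit 17276458728) (nat_lit 76) (nat_lit 17276458728) (nat_lit 122) (nat_lit 3) (nat_lit 121) (nat_lit 1) (nat_lit 122) (nat_lit 1) (nat_lit 272) (nat_lit 441) (nat_lit 307)) (XT.nd (nat_lit 78) (nat_lit 0) (nat_lit 0) (XT.lf (nat_lit 152) (nat_lit 48599314319) (nat_lit 0) (nat_lit 462300218) (nat_lit 76) (nat_lit 462300218) (nat_lit 121) (nat_lit 1) (nat_lit 119) (nat_lit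 1) (nat_lit 120) (nat_lit 1) (nat_lit 273) (nat_lit 441) (nat_lit 306)) (XT.lf (nat_lit 0) (nat_lit 15803937275) (nat_lit 0) (nat_lit 17103829047) (nat_lit 152) (nat_lit 15803937275) (nat_lit 119) (nat_lit 3) (nat_lit 119) (nat_lit 1) (nat_lit 121) (nat_lit 1) (nat_lit 274) (nat_lit 441) (nat_lit 305)))))) (XT.nd (nat_lit 468) (nat_lit 532) (nat_lit 0) (XT.nd (nat_lit 234) (nat_lit 228) (nat_lit 0) (XT.nd (nat_lit 78) (nat_lit 152) (nat_lit 0) (XT.lf (nat_lit 76) (nat_lit 15149682750) (nat_lit 0) (nat_lit 16387674913) (nat_lit 76) (nat_lit 16387674913) (nat_lit 119) (nat_lit 3) (nat_lit 118) (nat_lit 1) (nat_lit 119) (nat_lit 1) (nat_lit 275) (nat_lit 441) (nat_lit 304)) (XT.nd (nat_lit 78) (nat_lit 0) (nat_lit 0) (XT.lf (nat_lit 152) (nat_lit 46402107253) (nat_lit 0) (nat_lit 380335534) (nat_lit 76) (nat_lit 380335534) (nat_lit 118) (nat_lit 1) (nat_lit 116) (nat_lit 1) (nat_lit 117) (nat_lit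 1) (nat_lit 276) (nat_lit 441) (nat_lit 303)) (XT.lf (nat_lit 0) (nat_lit 15106637025) (nat_lit 0) (nat_lit 16176061203) (nat_lit 152) (nat_lit 15106637025) (nat_lit 116) (nat_lit 3) (nat_lit 116) (nat_lit 1) (nat_lit 118) (nat_lit 1) (nat_lit 277) (nat_lit 441) (nat_lit 302)))) (XT.nd (nat_lit 78) (nat_lit 152) (nat_lit 0) (XT.lf (nat_lit 76) (nat_lit 14534433455) (nat_lit 0) (nat_lit 15552932672) (nat_lit 76) (nat_lit 15552932672) (nat_lit 116) (nat_lit 3) (nat_lit 115) (nat_lit 1) (nat_lit 116) (nat_lit 1) (nat_lit 278) (nat_lit 441) (nat_lit 301)) (XT.nd (nat_lit 78) (nat_lit 0) (nat_lit 0) (XT.lf (nat_lit 152) (nat_lit 44288777130) (nat_lit 0) (nat_lit 312902985) (nat_lit 76) (nat_lit 312902985) (nat_lit 115) (nat_lit 1) (nat_lit 113) (nat_lit 1) (nat_lit 114) (nat_lit 1) (nat_lit 279) (nat_lit 441) (nat_lit 300)) (XT.lf (nat_lit 0) (nat_lit 14432742636) (nat_lit 0) (nat_lit 15312560553) (nat_lit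 152) (nat_lit 14432742636) (nat_lit 113) (nat_lit 3) (nat_lit 113) (nat_lit 1) (nat_lit 115) (nat_lit 1) (nat_lit 280) (nat_lit 441) (nat_lit 299))))) (XT.nd (nat_lit 234) (nat_lit 304) (nat_lit 0) (XT.nd (nat_lit 78) (nat_lit 152) (nat_lit 0) (XT.lf (nat_lit 76) (nat_lit 13929659101) (nat_lit 0) (nat_lit 14767580927) (nat_lit 76) (nat_lit 14767580927) (nat_lit 113) (nat_lit 3) (nat_lit 112) (nat_lit 1) (nat_lit 113) (nat_lit 1) (nat_lit 281) (nat_lit 441) (nat_lit 298)) (XT.nd (nat_lit 78) (nat_lit 0) (nat_lit 0) (XT.lf (nat_lit 152) (nat_lit 42259009080) (nat_lit 0) (nat_lit 257426060) (nat_lit 76) (nat_lit 257426060) (nat_lit 112) (nat_lit 1) (nat_lit 110) (nat_lit 1) (nat_lit 111) (nat_lit 1) (nat_lit 282) (nat_lit 441) (nat_lit 297)) (XT.lf (nat_lit 0) (nat_lit 13782876865) (nat_lit 0) (nat_lit 14506705243) (nat_lit 152) (nat_lit 13782876865) (nat_lit 110) (nat_lit 3) (nat_lit 110) (nat_lit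 1) (nat_lit 112) (nat_lit 1) (nat_lit 283) (nat_lit 441) (nat_lit 296)))) (XT.nd (nat_lit 156) (nat_lit 76) (nat_lit 0) (XT.nd (nat_lit 78) (nat_lit 152) (nat_lit 0) (XT.lf (nat_lit 76) (nat_lit 13338198090) (nat_lit 0) (nat_lit 14027558450) (nat_lit 76) (nat_lit 14027558450) (nat_lit 110) (nat_lit 3) (nat_lit 109) (nat_lit 1) (nat_lit 110) (nat_lit 1) (nat_lit 284) (nat_lit 441) (nat_lit 295)) (XT.lf (nat_lit 152) (nat_lit 40311850905) (nat_lit 0) (nat_lit 211785056) (nat_lit 76) (nat_lit 211785056) (nat_lit 109) (nat_lit 1) (nat_lit 107) (nat_lit 1) (nat_lit 108) (nat_lit 1) (nat_lit 285) (nat_lit 441) (nat_lit 294))) (XT.nd (nat_lit 78) (nat_lit 76) (nat_lit 0) (XT.lf (nat_lit 0) (nat_lit 13157324792) (nat_lit 0) (nat_lit 13752820190) (nat_lit 152) (nat_lit 13157324792) (nat_lit 107) (nat_lit 3) (nat_lit 107) (nat_lit 1) (nat_lit 109) (nat_lit 1) (nat_lit 286) (nat_lit 441) (nat_lit 293)) (XT.lf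 (nat_lit 76) (nat_lit 12762161982) (nat_lit 0) (nat_lit 13329300456) (nat_lit 76) (nat_lit 13329300456) (nat_lit 107) (nat_lit 3) (nat_lit 106) (nat_lit 1) (nat_lit 107) (nat_lit 1) (nat_lit 287) (nat_lit 441) (nat_lit 292))))))))
noncomputable def ec469 : XT := (XT.nd (nat_lit 1950) (nat_lit 1900) (nat_lit 0) (XT.nd (nat_lit 936) (nat_lit 1064) (nat_lit 0) (XT.nd (nat_lit 468) (nat_lit 456) (nat_lit 0) (XT.nd (nat_lit 234) (nat_lit 228) (nat_lit 0) (XT.nd (nat_lit 78) (nat_lit 76) (nat_lit 0) (XT.lf (nat_lit 152) (nat_lit 38445859077) (nat_lit 0) (nat_lit 174236090) (nat_lit 76) (nat_lit 174236090) (nat_lit 106) (nat_lit 1) (nat_lit 104) (nat_lit 1) (nat_lit 105) (nat_lit 1) (nat_lit 288) (nat_lit 441) (nat_lit 291)) (XT.nd (nat_lit 78) (nat_lit 76) (nat_lit 0) (XT.lf (nat_lit 0) (nat_lit 12556104512) (nat_lit 0) (nat_lit 13046020050) (nat_lit 152) (nat_lit 12556104512) (nat_lit 104) (nat_lit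 3) (nat_lit 104) (nat_lit 1) (nat_lit 106) (nat_lit 1) (nat_lit 289) (nat_lit 441) (nat_lit 290)) (XT.lf (nat_lit 76) (nat_lit 12203075012) (nat_lit 0) (nat_lit 12669661238) (nat_lit 76) (nat_lit 12669661238) (nat_lit 104) (nat_lit 3) (nat_lit 103) (nat_lit 1) (nat_lit 104) (nat_lit 1) (nat_lit 290) (nat_lit 441) (nat_lit 289)))) (XT.nd (nat_lit 78) (nat_lit 76) (nat_lit 0) (XT.lf (nat_lit 152) (nat_lit 36659217288) (nat_lit 0) (nat_lit 143344462) (nat_lit 76) (nat_lit 143344462) (nat_lit 103) (nat_lit 1) (nat_lit 101) (nat_lit 1) (nat_lit 102) (nat_lit 1) (nat_lit 291) (nat_lit 441) (nat_lit 288)) (XT.nd (nat_lit 78) (nat_lit 76) (nat_lit 0) (XT.lf (nat_lit 0) (nat_lit 11979024774) (nat_lit 0) (nat_lit 12382079499) (nat_lit 152) (nat_lit 11979024774) (nat_lit 101) (nat_lit 3) (nat_lit 101) (nat_lit 1) (nat_lit 103) (nat_lit 1) (nat_lit 292) (nat_lit 441) (nat_lit 287)) (XT.lf (nat_lit 76) (nat_lit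 11661988360) (nat_lit 0) (nat_lit 12045850003) (nat_lit 76) (nat_lit 12045850003) (nat_lit 101) (nat_lit 3) (nat_lit 100) (nat_lit 1) (nat_lit 101) (nat_lit 1) (nat_lit 293) (nat_lit 441) (nat_lit 286))))) (XT.nd (nat_lit 234) (nat_lit 228) (nat_lit 0) (XT.nd (nat_lit 78) (nat_lit 76) (nat_lit 0) (XT.lf (nat_lit 152) (nat_lit 34949832482) (nat_lit 0) (nat_lit 117929844) (nat_lit 76) (nat_lit 117929844) (nat_lit 100) (nat_lit 1) (nat_lit 98) (nat_lit 1) (nat_lit 99) (nat_lit 1) (nat_lit 294) (nat_lit 441) (nat_lit 285)) (XT.nd (nat_lit 78) (nat_lit 76) (nat_lit 0) (XT.lf (nat_lit 0) (nat_lit 11425731916) (nat_lit 0) (nat_lit 11757326036) (nat_lit 152) (nat_lit 11425731916) (nat_lit 98) (nat_lit 3) (nat_lit 98) (nat_lit 1) (nat_lit 100) (nat_lit 1) (nat_lit 295) (nat_lit 441) (nat_lit 284)) (XT.lf (nat_lit 76) (nat_lit 11139573683) (nat_lit 0) (nat_lit 11455377607) (nat_lit 76) (nat_lit 11455377607)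 (nat_lit 98) (nat_lit 3) (nat_lit 97) (nat_lit 1) (nat_lit 98) (nat_lit 1) (nat_lit 296) (nat_lit 441) (nat_lit 283)))) (XT.nd (nat_lit 78) (nat_lit 76) (nat_lit 0) (XT.lf (nat_lit 152) (nat_lit 33315412434) (nat_lit 0) (nat_lit 97021174) (nat_lit 76) (nat_lit 97021174) (nat_lit 97) (nat_lit 1) (nat_lit 95) (nat_lit 1) (nat_lit 96) (nat_lit 1) (nat_lit 297) (nat_lit 441) (nat_lit 282)) (XT.nd (nat_lit 78) (nat_lit 76) (nat_lit 0) (XT.lf (nat_lit 0) (nat_lit 10895748008) (nat_lit 0) (nat_lit 11168551311) (nat_lit 152) (nat_lit 10895748008) (nat_lit 95) (nat_lit 3) (nat_lit 95) (nat_lit 1) (nat_lit 97) (nat_lit 1) (nat_lit 298) (nat_lit 441) (nat_lit 281)) (XT.lf (nat_lit 76) (nat_lit 10636199598) (nat_lit 0) (nat_lit 10896012267) (nat_lit 76) (nat_lit 10896012267) (nat_lit 95) (nat_lit 3) (nat_lit 94) (nat_lit 1) (nat_lit 95) (nat_lit 1) (nat_lit 299) (nat_lit 441) (nat_lit 280)))))) (XT.nd (nat_lit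 468) (nat_lit 608) (nat_lit 0) (XT.nd (nat_lit 234) (nat_lit 228) (nat_lit 0) (XT.nd (nat_lit 78) (nat_lit 76) (nat_lit 0) (XT.lf (nat_lit 152) (nat_lit 31753528217) (nat_lit 0) (nat_lit 79819560) (nat_lit 76) (nat_lit 79819560) (nat_lit 94) (nat_lit 1) (nat_lit 92) (nat_lit 1) (nat_lit 93) (nat_lit 1) (nat_lit 300) (nat_lit 441) (nat_lit 279)) (XT.nd (nat_lit 78) (nat_lit 76) (nat_lit 0) (XT.lf (nat_lit 0) (nat_lit 10388501788) (nat_lit 0) (nat_lit 10612937740) (nat_lit 152) (nat_lit 10388501788) (nat_lit 92) (nat_lit 3) (nat_lit 92) (nat_lit 1) (nat_lit 94) (nat_lit 1) (nat_lit 301) (nat_lit 441) (nat_lit 278)) (XT.lf (nat_lit 76) (nat_lit 10151994170) (nat_lit 0) (nat_lit 10365742696) (nat_lit 76) (nat_lit 10365742696) (nat_lit 92) (nat_lit 3) (nat_lit 91) (nat_lit 1) (nat_lit 92) (nat_lit 1) (nat_lit 302) (nat_lit 441) (nat_lit 277)))) (XT.nd (nat_lit 78) (nat_lit 76) (nat_lit 0) (XT.lf (nat_lit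 152) (nat_lit 30261664304) (nat_lit 0) (nat_lit 65667750) (nat_lit 76) (nat_lit 65667750) (nat_lit 91) (nat_lit 1) (nat_lit 89) (nat_lit 1) (nat_lit 90) (nat_lit 1) (nat_lit 303) (nat_lit 441) (nat_lit 276)) (XT.nd (nat_lit 78) (nat_lit 76) (nat_lit 0) (XT.lf (nat_lit 0) (nat_lit 9903353690) (nat_lit 0) (nat_lit 10087997703) (nat_lit 152) (nat_lit 9903353690) (nat_lit 89) (nat_lit 3) (nat_lit 89) (nat_lit 1) (nat_lit 91) (nat_lit 1) (nat_lit 304) (nat_lit 441) (nat_lit 275)) (XT.lf (nat_lit 76) (nat_lit 9686895907) (nat_lit 0) (nat_lit 9862747349) (nat_lit 76) (nat_lit 9862747349) (nat_lit 89) (nat_lit 3) (nat_lit 88) (nat_lit 1) (nat_lit 89) (nat_lit 1) (nat_lit 305) (nat_lit 441) (nat_lit 274))))) (XT.nd (nat_lit 234) (nat_lit 380) (nat_lit 0) (XT.nd (nat_lit 78) (nat_lit 76) (nat_lit 0) (XT.lf (nat_lit 152) (nat_lit 28837258549) (nat_lit 0) (nat_lit 54025020) (nat_lit 76) (nat_lit 54025020)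 (nat_lit 88) (nat_lit 1) (nat_lit 86) (nat_lit 1) (nat_lit 87) (nat_lit 1) (nat_lit 306) (nat_lit 441) (nat_lit 273)) (XT.nd (nat_lit 78) (nat_lit 76) (nat_lit 0) (XT.lf (nat_lit 0) (nat_lit 9439616027) (nat_lit 0) (nat_lit 9591523114) (nat_lit 152) (nat_lit 9439616027) (nat_lit 86) (nat_lit 3) (nat_lit 86) (nat_lit 1) (nat_lit 88) (nat_lit 1) (nat_lit 307) (nat_lit 441) (nat_lit 272)) (XT.lf (nat_lit 76) (nat_lit 9240695311) (nat_lit 0) (nat_lit 9385368728) (nat_lit 76) (nat_lit 9385368728) (nat_lit 86) (nat_lit 3) (nat_lit 85) (nat_lit 1) (nat_lit 86) (nat_lit 1) (nat_lit 308) (nat_lit 441) (nat_lit 271)))) (XT.nd (nat_lit 156) (nat_lit 228) (nat_lit 0) (XT.nd (nat_lit 78) (nat_lit 0) (nat_lit 0) (XT.lf (nat_lit 152) (nat_lit 27477733912) (nat_lit 0) (nat_lit 44446518) (nat_lit 76) (nat_lit 44446518) (nat_lit 85) (nat_lit 1) (nat_lit 83) (nat_lit 1) (nat_lit 84) (nat_lit 1) (nat_lit 309) (nat_lit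 441) (nat_lit 270)) (XT.lf (nat_lit 0) (nat_lit 8996569216) (nat_lit 0) (nat_lit 9121543553) (nat_lit 152) (nat_lit 8996569216) (nat_lit 83) (nat_lit 3) (nat_lit 83) (nat_lit 1) (nat_lit 85) (nat_lit 1) (nat_lit 310) (nat_lit 441) (nat_lit 269))) (XT.nd (nat_lit 78) (nat_lit 152) (nat_lit 0) (XT.lf (nat_lit 76) (nat_lit 8813068688) (nat_lit 0) (nat_lit 8932091865) (nat_lit 76) (nat_lit 8932091865) (nat_lit 83) (nat_lit 3) (nat_lit 82) (nat_lit 1) (nat_lit 83) (nat_lit 1) (nat_lit 311) (nat_lit 441) (nat_lit 268)) (XT.lf (nat_lit 152) (nat_lit 26180523441) (nat_lit 0) (nat_lit 36566260) (nat_lit 76) (nat_lit 36566260) (nat_lit 82) (nat_lit 1) (nat_lit 80) (nat_lit 1) (nat_lit 81) (nat_lit 1) (nat_lit 312) (nat_lit 441) (nat_lit 267))))))) (XT.nd (nat_lit 1014) (nat_lit 988) (nat_lit 0) (XT.nd (nat_lit 468) (nat_lit 456) (nat_lit 0) (XT.nd (nat_lit 234) (nat_lit 228) (nat_lit 0) (XT.nd (nat_lit 78)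 (nat_lit 228) (nat_lit 0) (XT.lf (nat_lit 0) (nat_lit 8573474759) (nat_lit 0) (nat_lit 8676291455) (nat_lit 152) (nat_lit 8573474759) (nat_lit 80) (nat_lit 3) (nat_lit 80) (nat_lit 1) (nat_lit 82) (nat_lit 1) (nat_lit 313) (nat_lit 441) (nat_lit 266)) (XT.nd (nat_lit 78) (nat_lit 152) (nat_lit 0) (XT.lf (nat_lit 76) (nat_lit 8403605597) (nat_lit 0) (nat_lit 8501526260) (nat_lit 76) (nat_lit 8501526260) (nat_lit 80) (nat_lit 3) (nat_lit 79) (nat_lit 1) (nat_lit 80) (nat_lit 1) (nat_lit 314) (nat_lit 441) (nat_lit 265)) (XT.lf (nat_lit 152) (nat_lit 24943089760) (nat_lit 0) (nat_lit 30083152) (nat_lit 76) (nat_lit 30083152) (nat_lit 79) (nat_lit 1) (nat_lit 77) (nat_lit 1) (nat_lit 78) (nat_lit 1) (nat_lit 315) (nat_lit 441) (nat_lit 264)))) (XT.nd (nat_lit 78) (nat_lit 228) (nat_lit 0) (XT.lf (nat_lit 0) (nat_lit 8169585568) (nat_lit 0) (nat_lit 8254173119) (nat_lit 152) (nat_lit 8169585568) (nat_lit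 77) (nat_lit 3) (nat_lit 77) (nat_lit 1) (nat_lit 79) (nat_lit 1) (nat_lit 316) (nat_lit 441) (nat_lit 263)) (XT.nd (nat_lit 78) (nat_lit 152) (nat_lit 0) (XT.lf (nat_lit 76) (nat_lit 8011831101) (nat_lit 0) (nat_lit 8092390672) (nat_lit 76) (nat_lit 8092390672) (nat_lit 77) (nat_lit 3) (nat_lit 76) (nat_lit 1) (nat_lit 77) (nat_lit 1) (nat_lit 317) (nat_lit 441) (nat_lit 262)) (XT.lf (nat_lit 152) (nat_lit 23762940088) (nat_lit 0) (nat_lit 24749484) (nat_lit 76) (nat_lit 24749484) (nat_lit 76) (nat_lit 1) (nat_lit 74) (nat_lit 1) (nat_lit 75) (nat_lit 1) (nat_lit 318) (nat_lit 441) (nat_lit 261))))) (XT.nd (nat_lit 234) (nat_lit 228) (nat_lit 0) (XT.nd (nat_lit 78) (nat_lit 228) (nat_lit 0) (XT.lf (nat_lit 0) (nat_lit 7784154138) (nat_lit 0) (nat_lit 7853744525) (nat_lit 152) (nat_lit 7784154138) (nat_lit 74) (nat_lit 3) (nat_lit 74) (nat_lit 1) (nat_lit 76) (nat_lit 1) (nat_lit 319) (nat_lit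 441) (nat_lit 260)) (XT.nd (nat_lit 78) (nat_lit 152) (nat_lit 0) (XT.lf (nat_lit 76) (nat_lit 7637223730) (nat_lit 0) (nat_lit 7703500289) (nat_lit 76) (nat_lit 7703500289) (nat_lit 74) (nat_lit 3) (nat_lit 73) (nat_lit 1) (nat_lit 74) (nat_lit 1) (nat_lit 320) (nat_lit 441) (nat_lit 259)) (XT.lf (nat_lit 152) (nat_lit 22637637631) (nat_lit 0) (nat_lit 20361462) (nat_lit 76) (nat_lit 20361462) (nat_lit 73) (nat_lit 1) (nat_lit 71) (nat_lit 1) (nat_lit 72) (nat_lit 1) (nat_lit 321) (nat_lit 441) (nat_lit 258)))) (XT.nd (nat_lit 156) (nat_lit 152) (nat_lit 0) (XT.nd (nat_lit 78) (nat_lit 76) (nat_lit 0) (XT.lf (nat_lit 0) (nat_lit 7416438943) (nat_lit 0) (nat_lit 7473691127) (nat_lit 152) (nat_lit 7416438943) (nat_lit 71) (nat_lit 3) (nat_lit 71) (nat_lit 1) (nat_lit 73) (nat_lit 1) (nat_lit 322) (nat_lit 441) (nat_lit 257)) (XT.lf (nat_lit 76) (nat_lit 7279229964) (nat_lit 0) (nat_lit 7333755853)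 (nat_lit 76) (nat_lit 7333755853) (nat_lit 71) (nat_lit 3) (nat_lit 70) (nat_lit 1) (nat_lit 71) (nat_lit 1) (nat_lit 323) (nat_lit 441) (nat_lit 256))) (XT.nd (nat_lit 78) (nat_lit 0) (nat_lit 0) (XT.lf (nat_lit 152) (nat_lit 21564810038) (nat_lit 0) (nat_lit 16751425) (nat_lit 76) (nat_lit 16751425) (nat_lit 70) (nat_lit 1) (nat_lit 68) (nat_lit 1) (nat_lit 69) (nat_lit 1) (nat_lit 324) (nat_lit 441) (nat_lit 255)) (XT.lf (nat_lit 0) (nat_lit 7065709406) (nat_lit 0) (nat_lit 7112810919) (nat_lit 152) (nat_lit 7065709406) (nat_lit 68) (nat_lit 3) (nat_lit 68) (nat_lit 1) (nat_lit 70) (nat_lit 1) (nat_lit 325) (nat_lit 441) (nat_lit 254)))))) (XT.nd (nat_lit 468) (nat_lit 532) (nat_lit 0) (XT.nd (nat_lit 234) (nat_lit 228) (nat_lit 0) (XT.nd (nat_lit 78) (nat_lit 152) (nat_lit 0) (XT.lf (nat_lit 76) (nat_lit 6937275840) (nat_lit 0) (nat_lit 6982134424) (nat_lit 76) (nat_lit 6982134424) (nat_lit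 68) (nat_lit 3) (nat_lit 67) (nat_lit 1) (nat_lit 68) (nat_lit 1) (nat_lit 326) (nat_lit 441) (nat_lit 253)) (XT.nd (nat_lit 78) (nat_lit 0) (nat_lit 0) (XT.lf (nat_lit 152) (nat_lit 20542155477) (nat_lit 0) (nat_lit 13781438) (nat_lit 76) (nat_lit 13781438) (nat_lit 67) (nat_lit 1) (nat_lit 65) (nat_lit 1) (nat_lit 66) (nat_lit 1) (nat_lit 327) (nat_lit 441) (nat_lit 252)) (XT.lf (nat_lit 0) (nat_lit 6731249693) (nat_lit 0) (nat_lit 6770000224) (nat_lit 152) (nat_lit 6731249693) (nat_lit 65) (nat_lit 3) (nat_lit 65) (nat_lit 1) (nat_lit 67) (nat_lit 1) (nat_lit 328) (nat_lit 441) (nat_lit 251)))) (XT.nd (nat_lit 78) (nat_lit 152) (nat_lit 0) (XT.lf (nat_lit 76) (nat_lit 6610776225) (nat_lit 0) (nat_lit 6647681492) (nat_lit 76) (nat_lit 6647681492) (nat_lit 65) (nat_lit 3) (nat_lit 64) (nat_lit 1) (nat_lit 65) (nat_lit 1) (nat_lit 329) (nat_lit 441) (nat_lit 250)) (XT.nd (nat_lit 78) (nat_lit 0)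 (nat_lit 0) (XT.lf (nat_lit 152) (nat_lit 19567446807) (nat_lit 0) (nat_lit 11338023) (nat_lit 76) (nat_lit 11338023) (nat_lit 64) (nat_lit 1) (nat_lit 62) (nat_lit 1) (nat_lit 63) (nat_lit 1) (nat_lit 330) (nat_lit 441) (nat_lit 249)) (XT.lf (nat_lit 0) (nat_lit 6412361570) (nat_lit 0) (nat_lit 6444241728) (nat_lit 152) (nat_lit 6412361570) (nat_lit 62) (nat_lit 3) (nat_lit 62) (nat_lit 1) (nat_lit 64) (nat_lit 1) (nat_lit 331) (nat_lit 441) (nat_lit 248))))) (XT.nd (nat_lit 234) (nat_lit 304) (nat_lit 0) (XT.nd (nat_lit 78) (nat_lit 152) (nat_lit 0) (XT.lf (nat_lit 76) (nat_lit 6299142172) (nat_lit 0) (nat_lit 6329504228) (nat_lit 76) (nat_lit 6329504228) (nat_lit 62) (nat_lit 3) (nat_lit 61) (nat_lit 1) (nat_lit 62) (nat_lit 1) (nat_lit 332) (nat_lit 441) (nat_lit 247)) (XT.nd (nat_lit 78) (nat_lit 0) (nat_lit 0) (XT.lf (nat_lit 152) (nat_lit 18638534207) (nat_lit 0) (nat_lit 9327820) (nat_lit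 76) (nat_lit 9327820) (nat_lit 61) (nat_lit 1) (nat_lit 59) (nat_lit 1) (nat_lit 60) (nat_lit 1) (nat_lit 333) (nat_lit 441) (nat_lit 246)) (XT.lf (nat_lit 0) (nat_lit 6108366485) (nat_lit 0) (nat_lit 6134594370) (nat_lit 152) (nat_lit 6108366485) (nat_lit 59) (nat_lit 3) (nat_lit 59) (nat_lit 1) (nat_lit 61) (nat_lit 1) (nat_lit 334) (nat_lit 441) (nat_lit 245)))) (XT.nd (nat_lit 156) (nat_lit 76) (nat_lit 0) (XT.nd (nat_lit 78) (nat_lit 152) (nat_lit 0) (XT.lf (nat_lit 76) (nat_lit 6001786723) (nat_lit 0) (nat_lit 6026765661) (nat_lit 76) (nat_lit 6026765661) (nat_lit 59) (nat_lit 3) (nat_lit 58) (nat_lit 1) (nat_lit 59) (nat_lit 1) (nat_lit 335) (nat_lit 441) (nat_lit 244)) (XT.lf (nat_lit 152) (nat_lit 17753346593) (nat_lit 0) (nat_lit 7674020) (nat_lit 76) (nat_lit 7674020) (nat_lit 58) (nat_lit 1) (nat_lit 56) (nat_lit 1) (nat_lit 57) (nat_lit 1) (nat_lit 336) (nat_lit 441) (nat_lit 243)))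 (XT.nd (nat_lit 78) (nat_lit 76) (nat_lit 0) (XT.lf (nat_lit 0) (nat_lit 5818607036) (nat_lit 0) (nat_lit 5840184781) (nat_lit 152) (nat_lit 5818607036) (nat_lit 56) (nat_lit 3) (nat_lit 56) (nat_lit 1) (nat_lit 58) (nat_lit 1) (nat_lit 337) (nat_lit 441) (nat_lit 242)) (XT.lf (nat_lit 76) (nat_lit 5718129427) (nat_lit 0) (nat_lit 5738679661) (nat_lit 76) (nat_lit 5738679661) (nat_lit 56) (nat_lit 3) (nat_lit 55) (nat_lit 1) (nat_lit 56) (nat_lit 1) (nat_lit 338) (nat_lit 441) (nat_lit 241))))))))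
noncomputable def ec470 : XT := (XT.nd (nat_lit 1950) (nat_lit 1824) (nat_lit 0) (XT.nd (nat_lit 936) (nat_lit 1064) (nat_lit 0) (XT.nd (nat_lit 468) (nat_lit 456) (nat_lit 0) (XT.nd (nat_lit 234) (nat_lit 228) (nat_lit 0) (XT.nd (nat_lit 78) (nat_lit 76) (nat_lit 0) (XT.lf (nat_lit 152) (nat_lit 16909892059) (nat_lit 0) (nat_lit 6313435) (nat_lit 76) (nat_lit 6313435) (nat_lit 55) (nat_lit 1) (nat_lit 53) (nat_lit 1) (nat_lit 54) (nat_lit 1) (nat_lit 339) (nat_lit 441) (nat_lit 240)) (XT.nd (nat_lit 78) (nat_lit 76) (nat_lit 0) (XT.lf (nat_lit 0) (nat_lit 5542447943) (nat_lit 0) (nat_lit 5560200007) (nat_lit 152) (nat_lit 5542447943) (nat_lit 53) (nat_lit 3) (nat_lit 53) (nat_lit 1) (nat_lit 55) (nat_lit 1) (nat_lit 340) (nat_lit 441) (nat_lit 239)) (XT.lf (nat_lit 76) (nat_lit 5447599838) (nat_lit 0) (nat_lit 5464506566) (nat_lit 76) (nat_lit 5464506566) (nat_lit 53) (nat_lit 3) (nat_lit 52)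 (nat_lit 1) (nat_lit 53) (nat_lit 1) (nat_lit 341) (nat_lit 441) (nat_lit 238)))) (XT.nd (nat_lit 78) (nat_lit 76) (nat_lit 0) (XT.lf (nat_lit 152) (nat_lit 16106257550) (nat_lit 0) (nat_lit 5194079) (nat_lit 76) (nat_lit 5194079) (nat_lit 52) (nat_lit 1) (nat_lit 50) (nat_lit 1) (nat_lit 51) (nat_lit 1) (nat_lit 342) (nat_lit 441) (nat_lit 237)) (XT.nd (nat_lit 78) (nat_lit 76) (nat_lit 0) (XT.lf (nat_lit 0) (nat_lit 5279276624) (nat_lit 0) (nat_lit 5293881292) (nat_lit 152) (nat_lit 5279276624) (nat_lit 50) (nat_lit 3) (nat_lit 50) (nat_lit 1) (nat_lit 52) (nat_lit 1) (nat_lit 343) (nat_lit 441) (nat_lit 236)) (XT.lf (nat_lit 76) (nat_lit 5189640160) (nat_lit 0) (nat_lit 5203549367) (nat_lit 76) (nat_lit 5203549367) (nat_lit 50) (nat_lit 3) (nat_lit 49) (nat_lit 1) (nat_lit 50) (nat_lit 1) (nat_lit 344) (nat_lit 441) (nat_lit 235))))) (XT.nd (nat_lit 234) (nat_lit 228) (nat_lit 0) (XT.nd (nat_lit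 78) (nat_lit 76) (nat_lit 0) (XT.lf (nat_lit 152) (nat_lit 15340607951) (nat_lit 0) (nat_lit 4273181) (nat_lit 76) (nat_lit 4273181) (nat_lit 49) (nat_lit 1) (nat_lit 47) (nat_lit 1) (nat_lit 48) (nat_lit 1) (nat_lit 345) (nat_lit 441) (nat_lit 234)) (XT.nd (nat_lit 78) (nat_lit 76) (nat_lit 0) (XT.lf (nat_lit 0) (nat_lit 5028503454) (nat_lit 0) (nat_lit 5040518750) (nat_lit 152) (nat_lit 5028503454) (nat_lit 47) (nat_lit 3) (nat_lit 47) (nat_lit 1) (nat_lit 49) (nat_lit 1) (nat_lit 346) (nat_lit 441) (nat_lit 233)) (XT.lf (nat_lit 76) (nat_lit 4943707224) (nat_lit 0) (nat_lit 4955150363) (nat_lit 76) (nat_lit 4955150363) (nat_lit 47) (nat_lit 3) (nat_lit 46) (nat_lit 1) (nat_lit 47) (nat_lit 1) (nat_lit 347) (nat_lit 441) (nat_lit 232)))) (XT.nd (nat_lit 78) (nat_lit 76) (nat_lit 0) (XT.lf (nat_lit 152) (nat_lit 14611184703) (nat_lit 0) (nat_lit 3515557) (nat_lit 76) (nat_lit 3515557) (nat_lit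 46) (nat_lit 1) (nat_lit 44) (nat_lit 1) (nat_lit 45) (nat_lit 1) (nat_lit 348) (nat_lit 441) (nat_lit 231)) (XT.nd (nat_lit 78) (nat_lit 76) (nat_lit 0) (XT.lf (nat_lit 0) (nat_lit 4789561769) (nat_lit 0) (nat_lit 4799446783) (nat_lit 152) (nat_lit 4789561769) (nat_lit 44) (nat_lit 3) (nat_lit 44) (nat_lit 1) (nat_lit 46) (nat_lit 1) (nat_lit 349) (nat_lit 441) (nat_lit 230)) (XT.lf (nat_lit 76) (nat_lit 4709273902) (nat_lit 0) (nat_lit 4718688201) (nat_lit 76) (nat_lit 4718688201) (nat_lit 44) (nat_lit 3) (nat_lit 43) (nat_lit 1) (nat_lit 44) (nat_lit 1) (nat_lit 350) (nat_lit 441) (nat_lit 229)))))) (XT.nd (nat_lit 468) (nat_lit 608) (nat_lit 0) (XT.nd (nat_lit 234) (nat_lit 228) (nat_lit 0) (XT.nd (nat_lit 78) (nat_lit 76) (nat_lit 0) (XT.lf (nat_lit 152) (nat_lit 13916304078) (nat_lit 0) (nat_lit 2892257) (nat_lit 76) (nat_lit 2892257) (nat_lit 43) (nat_lit 1) (nat_lit 41) (nat_lit 1) (nat_lit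 42) (nat_lit 1) (nat_lit 351) (nat_lit 441) (nat_lit 228)) (XT.nd (nat_lit 78) (nat_lit 76) (nat_lit 0) (XT.lf (nat_lit 0) (nat_lit 4561907685) (nat_lit 0) (nat_lit 4570040111) (nat_lit 152) (nat_lit 4561907685) (nat_lit 41) (nat_lit 3) (nat_lit 41) (nat_lit 1) (nat_lit 43) (nat_lit 1) (nat_lit 352) (nat_lit 441) (nat_lit 227)) (XT.lf (nat_lit 76) (nat_lit 4485830088) (nat_lit 0) (nat_lit 4493575255) (nat_lit 76) (nat_lit 4493575255) (nat_lit 41) (nat_lit 3) (nat_lit 40) (nat_lit 1) (nat_lit 41) (nat_lit 1) (nat_lit 353) (nat_lit 441) (nat_lit 226)))) (XT.nd (nat_lit 78) (nat_lit 76) (nat_lit 0) (XT.lf (nat_lit 152) (nat_lit 13254355198) (nat_lit 0) (nat_lit 2379467) (nat_lit 76) (nat_lit 2379467) (nat_lit 40) (nat_lit 1) (nat_lit 38) (nat_lit 1) (nat_lit 39) (nat_lit 1) (nat_lit 354) (nat_lit 441) (nat_lit 225)) (XT.nd (nat_lit 78) (nat_lit 76) (nat_lit 0) (XT.lf (nat_lit 0) (nat_lit 4345019757)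 (nat_lit 0) (nat_lit 4351710323) (nat_lit 152) (nat_lit 4345019757) (nat_lit 38) (nat_lit 3) (nat_lit 38) (nat_lit 1) (nat_lit 40) (nat_lit 1) (nat_lit 355) (nat_lit 441) (nat_lit 224)) (XT.lf (nat_lit 76) (nat_lit 4272883319) (nat_lit 0) (nat_lit 4279255287) (nat_lit 76) (nat_lit 4279255287) (nat_lit 38) (nat_lit 3) (nat_lit 37) (nat_lit 1) (nat_lit 38) (nat_lit 1) (nat_lit 356) (nat_lit 441) (nat_lit 223))))) (XT.nd (nat_lit 234) (nat_lit 380) (nat_lit 0) (XT.nd (nat_lit 78) (nat_lit 76) (nat_lit 0) (XT.lf (nat_lit 152) (nat_lit 12623797865) (nat_lit 0) (nat_lit 1957593) (nat_lit 76) (nat_lit 1957593) (nat_lit 37) (nat_lit 1) (nat_lit 35) (nat_lit 1) (nat_lit 36) (nat_lit 1) (nat_lit 357) (nat_lit 441) (nat_lit 222)) (XT.nd (nat_lit 78) (nat_lit 76) (nat_lit 0) (XT.lf (nat_lit 0) (nat_lit 4138398520) (nat_lit 0) (nat_lit 4143902866) (nat_lit 152) (nat_lit 4138398520) (nat_lit 35) (nat_lit 3)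 (nat_lit 35) (nat_lit 1) (nat_lit 37) (nat_lit 1) (nat_lit 358) (nat_lit 441) (nat_lit 221)) (XT.lf (nat_lit 76) (nat_lit 4069959114) (nat_lit 0) (nat_lit 4075201348) (nat_lit 76) (nat_lit 4075201348) (nat_lit 35) (nat_lit 3) (nat_lit 34) (nat_lit 1) (nat_lit 35) (nat_lit 1) (nat_lit 359) (nat_lit 441) (nat_lit 220)))) (XT.nd (nat_lit 156) (nat_lit 228) (nat_lit 0) (XT.nd (nat_lit 78) (nat_lit 0) (nat_lit 0) (XT.lf (nat_lit 152) (nat_lit 12023160260) (nat_lit 0) (nat_lit 1610517) (nat_lit 76) (nat_lit 1610517) (nat_lit 34) (nat_lit 1) (nat_lit 32) (nat_lit 1) (nat_lit 33) (nat_lit 1) (nat_lit 360) (nat_lit 441) (nat_lit 219)) (XT.lf (nat_lit 0) (nat_lit 3941565955) (nat_lit 0) (nat_lit 3946094394) (nat_lit 152) (nat_lit 3941565955) (nat_lit 32) (nat_lit 3) (nat_lit 32) (nat_lit 1) (nat_lit 34) (nat_lit 1) (nat_lit 361) (nat_lit 441) (nat_lit 218))) (XT.nd (nat_lit 78) (nat_lit 152) (nat_lit 0)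 (XT.lf (nat_lit 76) (nat_lit 3876601085) (nat_lit 0) (nat_lit 3880913884) (nat_lit 76) (nat_lit 3880913884) (nat_lit 32) (nat_lit 3) (nat_lit 31) (nat_lit 1) (nat_lit 32) (nat_lit 1) (nat_lit 362) (nat_lit 441) (nat_lit 217)) (XT.lf (nat_lit 152) (nat_lit 11451036573) (nat_lit 0) (nat_lit 1324976) (nat_lit 76) (nat_lit 1324976) (nat_lit 31) (nat_lit 1) (nat_lit 29) (nat_lit 1) (nat_lit 30) (nat_lit 1) (nat_lit 363) (nat_lit 441) (nat_lit 216))))))) (XT.nd (nat_lit 936) (nat_lit 912) (nat_lit 0) (XT.nd (nat_lit 468) (nat_lit 456) (nat_lit 0) (XT.nd (nat_lit 234) (nat_lit 228) (nat_lit 0) (XT.nd (nat_lit 78) (nat_lit 228) (nat_lit 0) (XT.lf (nat_lit 0) (nat_lit 3754064876) (nat_lit 0) (nat_lit 3757790434) (nat_lit 152) (nat_lit 3754064876) (nat_lit 29) (nat_lit 3) (nat_lit 29) (nat_lit 1) (nat_lit 31) (nat_lit 1) (nat_lit 364) (nat_lit 441) (nat_lit 215)) (XT.nd (nat_lit 78) (nat_lit 152) (nat_lit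 0) (XT.lf (nat_lit 76) (nat_lit 3692370878) (nat_lit 0) (nat_lit 3695919029) (nat_lit 76) (nat_lit 3695919029) (nat_lit 29) (nat_lit 3) (nat_lit 28) (nat_lit 1) (nat_lit 29) (nat_lit 1) (nat_lit 365) (nat_lit 441) (nat_lit 214)) (XT.lf (nat_lit 152) (nat_lit 10906084577) (nat_lit 0) (nat_lit 1090061) (nat_lit 76) (nat_lit 1090061) (nat_lit 28) (nat_lit 1) (nat_lit 26) (nat_lit 1) (nat_lit 27) (nat_lit 1) (nat_lit 366) (nat_lit 441) (nat_lit 213)))) (XT.nd (nat_lit 78) (nat_lit 228) (nat_lit 0) (XT.lf (nat_lit 0) (nat_lit 3575458284) (nat_lit 0) (nat_lit 3578523309) (nat_lit 152) (nat_lit 3575458284) (nat_lit 26) (nat_lit 3) (nat_lit 26) (nat_lit 1) (nat_lit 28) (nat_lit 1) (nat_lit 367) (nat_lit 441) (nat_lit 212)) (XT.nd (nat_lit 78) (nat_lit 152) (nat_lit 0) (XT.lf (nat_lit 76) (nat_lit 3516847966) (nat_lit 0) (nat_lit 3519767038) (nat_lit 76) (nat_lit 3519767038) (nat_lit 26) (nat_lit 3) (nat_lit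 25) (nat_lit 1) (nat_lit 26) (nat_lit 1) (nat_lit 368) (nat_lit 441) (nat_lit 211)) (XT.lf (nat_lit 152) (nat_lit 10387023200) (nat_lit 0) (nat_lit 896796) (nat_lit 76) (nat_lit 896796) (nat_lit 25) (nat_lit 1) (nat_lit 23) (nat_lit 1) (nat_lit 24) (nat_lit 1) (nat_lit 369) (nat_lit 441) (nat_lit 210))))) (XT.nd (nat_lit 234) (nat_lit 228) (nat_lit 0) (XT.nd (nat_lit 78) (nat_lit 228) (nat_lit 0) (XT.lf (nat_lit 0) (nat_lit 3405328683) (nat_lit 0) (nat_lit 3407850287) (nat_lit 152) (nat_lit 3405328683) (nat_lit 23) (nat_lit 3) (nat_lit 23) (nat_lit 1) (nat_lit 25) (nat_lit 1) (nat_lit 370) (nat_lit 441) (nat_lit 209)) (XT.nd (nat_lit 78) (nat_lit 152) (nat_lit 0) (XT.lf (nat_lit 76) (nat_lit 3349629340) (nat_lit 0) (nat_lit 3352030868) (nat_lit 76) (nat_lit 3352030868) (nat_lit 23) (nat_lit 3) (nat_lit 22) (nat_lit 1) (nat_lit 23) (nat_lit 1) (nat_lit 371) (nat_lit 441) (nat_lit 208)) (XT.lf (nat_lit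 152) (nat_lit 9892630100) (nat_lit 0) (nat_lit 737796) (nat_lit 76) (nat_lit 737796) (nat_lit 22) (nat_lit 1) (nat_lit 20) (nat_lit 1) (nat_lit 21) (nat_lit 1) (nat_lit 372) (nat_lit 441) (nat_lit 207)))) (XT.nd (nat_lit 78) (nat_lit 228) (nat_lit 0) (XT.lf (nat_lit 0) (nat_lit 3243277386) (nat_lit 0) (nat_lit 3245351916) (nat_lit 152) (nat_lit 3243277386) (nat_lit 20) (nat_lit 3) (nat_lit 20) (nat_lit 1) (nat_lit 22) (nat_lit 1) (nat_lit 373) (nat_lit 441) (nat_lit 206)) (XT.nd (nat_lit 78) (nat_lit 152) (nat_lit 0) (XT.lf (nat_lit 76) (nat_lit 3190329124) (nat_lit 0) (nat_lit 3192304867) (nat_lit 76) (nat_lit 3192304867) (nat_lit 20) (nat_lit 3) (nat_lit 19) (nat_lit 1) (nat_lit 20) (nat_lit 1) (nat_lit 374) (nat_lit 441) (nat_lit 205)) (XT.lf (nat_lit 152) (nat_lit 9421739273) (nat_lit 0) (nat_lit 606987) (nat_lit 76) (nat_lit 606987) (nat_lit 19) (nat_lit 1) (nat_lit 17) (nat_lit 1) (nat_lit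 18) (nat_lit 1) (nat_lit 375) (nat_lit 441) (nat_lit 204)))))) (XT.nd (nat_lit 468) (nat_lit 456) (nat_lit 0) (XT.nd (nat_lit 234) (nat_lit 228) (nat_lit 0) (XT.nd (nat_lit 78) (nat_lit 228) (nat_lit 0) (XT.lf (nat_lit 0) (nat_lit 3088923810) (nat_lit 0) (nat_lit 3090630531) (nat_lit 152) (nat_lit 3088923810) (nat_lit 17) (nat_lit 3) (nat_lit 17) (nat_lit 1) (nat_lit 19) (nat_lit 1) (nat_lit 376) (nat_lit 441) (nat_lit 203)) (XT.nd (nat_lit 78) (nat_lit 152) (nat_lit 0) (XT.lf (nat_lit 76) (nat_lit 3038578120) (nat_lit 0) (nat_lit 3040203569) (nat_lit 76) (nat_lit 3040203569) (nat_lit 17) (nat_lit 3) (nat_lit 16) (nat_lit 1) (nat_lit 17) (nat_lit 1) (nat_lit 377) (nat_lit 441) (nat_lit 202)) (XT.lf (nat_lit 152) (nat_lit 8973238700) (nat_lit 0) (nat_lit 499369) (nat_lit 76) (nat_lit 499369) (nat_lit 16) (nat_lit 1) (nat_lit 14) (nat_lit 1) (nat_lit 15) (nat_lit 1) (nat_lit 378) (nat_lit 441) (nat_lit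 201)))) (XT.nd (nat_lit 78) (nat_lit 228) (nat_lit 0) (XT.lf (nat_lit 0) (nat_lit 2941904766) (nat_lit 0) (nat_lit 2943308889) (nat_lit 152) (nat_lit 2941904766) (nat_lit 14) (nat_lit 3) (nat_lit 14) (nat_lit 1) (nat_lit 16) (nat_lit 1) (nat_lit 379) (nat_lit 441) (nat_lit 200)) (XT.nd (nat_lit 78) (nat_lit 152) (nat_lit 0) (XT.lf (nat_lit 76) (nat_lit 2894023314) (nat_lit 0) (nat_lit 2895360575) (nat_lit 76) (nat_lit 2895360575) (nat_lit 14) (nat_lit 3) (nat_lit 13) (nat_lit 1) (nat_lit 14) (nat_lit 1) (nat_lit 380) (nat_lit 441) (nat_lit 199)) (XT.lf (nat_lit 152) (nat_lit 8546068050) (nat_lit 0) (nat_lit 410832) (nat_lit 76) (nat_lit 410832) (nat_lit 13) (nat_lit 1) (nat_lit 11) (nat_lit 1) (nat_lit 12) (nat_lit 1) (nat_lit 381) (nat_lit 441) (nat_lit 198))))) (XT.nd (nat_lit 234) (nat_lit 228) (nat_lit 0) (XT.nd (nat_lit 78) (nat_lit 228) (nat_lit 0) (XT.lf (nat_lit 0) (nat_lit 2801873762)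 (nat_lit 0) (nat_lit 2803028938) (nat_lit 152) (nat_lit 2801873762) (nat_lit 11) (nat_lit 3) (nat_lit 11) (nat_lit 1) (nat_lit 13) (nat_lit 1) (nat_lit 382) (nat_lit 441) (nat_lit 197)) (XT.nd (nat_lit 78) (nat_lit 152) (nat_lit 0) (XT.lf (nat_lit 76) (nat_lit 2756327357) (nat_lit 0) (nat_lit 2757427525) (nat_lit 76) (nat_lit 2757427525) (nat_lit 11) (nat_lit 3) (nat_lit 10) (nat_lit 1) (nat_lit 11) (nat_lit 1) (nat_lit 383) (nat_lit 441) (nat_lit 196)) (XT.lf (nat_lit 152) (nat_lit 8139216444) (nat_lit 0) (nat_lit 337993) (nat_lit 76) (nat_lit 337993) (nat_lit 10) (nat_lit 1) (nat_lit 8) (nat_lit 1) (nat_lit 9) (nat_lit 1) (nat_lit 384) (nat_lit 441) (nat_lit 195)))) (XT.nd (nat_lit 156) (nat_lit 152) (nat_lit 0) (XT.nd (nat_lit 78) (nat_lit 76) (nat_lit 0) (XT.lf (nat_lit 0) (nat_lit 2668500317) (nat_lit 0) (nat_lit 2669450684) (nat_lit 152) (nat_lit 2668500317) (nat_lit 8) (nat_lit 3) (nat_lit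 8) (nat_lit 1) (nat_lit 10) (nat_lit 1) (nat_lit 385) (nat_lit 441) (nat_lit 194)) (XT.lf (nat_lit 76) (nat_lit 2625168019) (nat_lit 0) (nat_lit 2626073129) (nat_lit 76) (nat_lit 2626073129) (nat_lit 8) (nat_lit 3) (nat_lit 7) (nat_lit 1) (nat_lit 8) (nat_lit 1) (nat_lit 386) (nat_lit 441) (nat_lit 193))) (XT.nd (nat_lit 78) (nat_lit 0) (nat_lit 0) (XT.lf (nat_lit 152) (nat_lit 7751720282) (nat_lit 0) (nat_lit 278067) (nat_lit 76) (nat_lit 278067) (nat_lit 7) (nat_lit 1) (nat_lit 5) (nat_lit 1) (nat_lit 6) (nat_lit 1) (nat_lit 387) (nat_lit 441) (nat_lit 192)) (XT.lf (nat_lit 0) (nat_lit 2541469281) (nat_lit 0) (nat_lit 2542251149) (nat_lit 152) (nat_lit 2541469281) (nat_lit 5) (nat_lit 3) (nat_lit 5) (nat_lit 1) (nat_lit 7) (nat_lit 1) (nat_lit 388) (nat_lit 441) (nat_lit 191))))))))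
noncomputable def ec471 : XT := (XT.nd (nat_lit 1950) (nat_lit 0) (nat_lit 0) (XT.nd (nat_lit 936) (nat_lit 0) (nat_lit 0) (XT.nd (nat_lit 468) (nat_lit 0) (nat_lit 0) (XT.nd (nat_lit 234) (nat_lit 152) (nat_lit 0) (XT.nd (nat_lit 78) (nat_lit 152) (nat_lit 0) (XT.lf (nat_lit 76) (nat_lit 2500237636) (nat_lit 0) (nat_lit 2500982272) (nat_lit 76) (nat_lit 2500982272) (nat_lit 5) (nat_lit 3) (nat_lit 4) (nat_lit 1) (nat_lit 5) (nat_lit 1) (nat_lit 389) (nat_lit 441) (nat_lit 190)) (XT.nd (nat_lit 78) (nat_lit 0) (nat_lit 0) (XT.lf (nat_lit 152) (nat_lit 7382661147) (nat_lit 0) (nat_lit 228767) (nat_lit 76) (nat_lit 228767) (nat_lit 4) (nat_lit 1) (nat_lit 2) (nat_lit 1) (nat_lit 3) (nat_lit 1) (nat_lit 390) (nat_lit 441) (nat_lit 189)) (XT.lf (nat_lit 0) (nat_lit 2420480177) (nat_lit 0) (nat_lit 2421123422) (nat_lit 152) (nat_lit 2420480177) (nat_lit 2) (nat_lit 3) (nat_lit 2) (nat_lit 1) (nat_lit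 4) (nat_lit 1) (nat_lit 391) (nat_lit 441) (nat_lit 188)))) (XT.nd (nat_lit 78) (nat_lit 76) (nat_lit 0) (XT.lf (nat_lit 76) (nat_lit 2381242557) (nat_lit 0) (nat_lit 2381855171) (nat_lit 76) (nat_lit 2381855171) (nat_lit 2) (nat_lit 3) (nat_lit 1) (nat_lit 1) (nat_lit 2) (nat_lit 1) (nat_lit 392) (nat_lit 441) (nat_lit 187)) (XT.nd (nat_lit 78) (nat_lit 0) (nat_lit 0) (XT.lf (nat_lit 0) (nat_lit 148258906277) (nat_lit 0) (nat_lit 0) (nat_lit 0) (nat_lit 0) (nat_lit 0) (nat_lit 0) (nat_lit 1) (nat_lit 0) (nat_lit 1) (nat_lit 0) (nat_lit 393) (nat_lit 441) (nat_lit 186)) (XT.lf (nat_lit 0) (nat_lit 148258878382) (nat_lit 0) (nat_lit 0) (nat_lit 0) (nat_lit 0) (nat_lit 0) (nat_lit 0) (nat_lit 1) (nat_lit 0) (nat_lit 1) (nat_lit 0) (nat_lit 394) (nat_lit 441) (nat_lit 185))))) (XT.nd (nat_lit 234) (nat_lit 0) (nat_lit 0) (XT.nd (nat_lit 78) (nat_lit 0) (nat_lit 0) (XT.lf (nat_lit 0) (nat_lit 148258851815)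 (nat_lit 0) (nat_lit 0) (nat_lit 0) (nat_lit 0) (nat_lit 0) (nat_lit 0) (nat_lit 1) (nat_lit 0) (nat_lit 1) (nat_lit 0) (nat_lit 395) (nat_lit 441) (nat_lit 184)) (XT.nd (nat_lit 78) (nat_lit 0) (nat_lit 0) (XT.lf (nat_lit 0) (nat_lit 148258826513) (nat_lit 0) (nat_lit 0) (nat_lit 0) (nat_lit 0) (nat_lit 0) (nat_lit 0) (nat_lit 1) (nat_lit 0) (nat_lit 1) (nat_lit 0) (nat_lit 396) (nat_lit 441) (nat_lit 183)) (XT.lf (nat_lit 0) (nat_lit 148258802416) (nat_lit 0) (nat_lit 0) (nat_lit 0) (nat_lit 0) (nat_lit 0) (nat_lit 0) (nat_lit 1) (nat_lit 0) (nat_lit 1) (nat_lit 0) (nat_lit 397) (nat_lit 441) (nat_lit 182)))) (XT.nd (nat_lit 78) (nat_lit 0) (nat_lit 0) (XT.lf (nat_lit 0) (nat_lit 148258779467) (nat_lit 0) (nat_lit 0) (nat_lit 0) (nat_lit 0) (nat_lit 0) (nat_lit 0) (nat_lit 1) (nat_lit 0) (nat_lit 1) (nat_lit 0) (nat_lit 398) (nat_lit 441) (nat_lit 181)) (XT.nd (nat_lit 78) (nat_lit 0) (nat_lit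 0) (XT.lf (nat_lit 0) (nat_lit 148258757611) (nat_lit 0) (nat_lit 0) (nat_lit 0) (nat_lit 0) (nat_lit 0) (nat_lit 0) (nat_lit 1) (nat_lit 0) (nat_lit 1) (nat_lit 0) (nat_lit 399) (nat_lit 441) (nat_lit 180)) (XT.lf (nat_lit 0) (nat_lit 148258736795) (nat_lit 0) (nat_lit 0) (nat_lit 0) (nat_lit 0) (nat_lit 0) (nat_lit 0) (nat_lit 1) (nat_lit 0) (nat_lit 1) (nat_lit 0) (nat_lit 400) (nat_lit 441) (nat_lit 179)))))) (XT.nd (nat_lit 468) (nat_lit 0) (nat_lit 0) (XT.nd (nat_lit 234) (nat_lit 0) (nat_lit 0) (XT.nd (nat_lit 78) (nat_lit 0) (nat_lit 0) (XT.lf (nat_lit 0) (nat_lit 148258716970) (nat_lit 0) (nat_lit 0) (nat_lit 0) (nat_lit 0) (nat_lit 0) (nat_lit 0) (nat_lit 1) (nat_lit 0) (nat_lit 1) (nat_lit 0) (nat_lit 401) (nat_lit 441) (nat_lit 178)) (XT.nd (nat_lit 78) (nat_lit 0) (nat_lit 0) (XT.lf (nat_lit 0) (nat_lit 148258698090) (nat_lit 0) (nat_lit 0) (nat_lit 0) (nat_lit 0) (nat_lit 0) (nat_lit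 0) (nat_lit 1) (nat_lit 0) (nat_lit 1) (nat_lit 0) (nat_lit 402) (nat_lit 441) (nat_lit 177)) (XT.lf (nat_lit 0) (nat_lit 148258680108) (nat_lit 0) (nat_lit 0) (nat_lit 0) (nat_lit 0) (nat_lit 0) (nat_lit 0) (nat_lit 1) (nat_lit 0) (nat_lit 1) (nat_lit 0) (nat_lit 403) (nat_lit 441) (nat_lit 176)))) (XT.nd (nat_lit 78) (nat_lit 0) (nat_lit 0) (XT.lf (nat_lit 0) (nat_lit 148258662983) (nat_lit 0) (nat_lit 0) (nat_lit 0) (nat_lit 0) (nat_lit 0) (nat_lit 0) (nat_lit 1) (nat_lit 0) (nat_lit 1) (nat_lit 0) (nat_lit 404) (nat_lit 441) (nat_lit 175)) (XT.nd (nat_lit 78) (nat_lit 0) (nat_lit 0) (XT.lf (nat_lit 0) (nat_lit 148258646673) (nat_lit 0) (nat_lit 0) (nat_lit 0) (nat_lit 0) (nat_lit 0) (nat_lit 0) (nat_lit 1) (nat_lit 0) (nat_lit 1) (nat_lit 0) (nat_lit 405) (nat_lit 441) (nat_lit 174)) (XT.lf (nat_lit 0) (nat_lit 148258631140) (nat_lit 0) (nat_lit 0) (nat_lit 0) (nat_lit 0) (nat_lit 0) (nat_lit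 0) (nat_lit 1) (nat_lit 0) (nat_lit 1) (nat_lit 0) (nat_lit 406) (nat_lit 441) (nat_lit 173))))) (XT.nd (nat_lit 234) (nat_lit 0) (nat_lit 0) (XT.nd (nat_lit 78) (nat_lit 0) (nat_lit 0) (XT.lf (nat_lit 0) (nat_lit 148258616347) (nat_lit 0) (nat_lit 0) (nat_lit 0) (nat_lit 0) (nat_lit 0) (nat_lit 0) (nat_lit 1) (nat_lit 0) (nat_lit 1) (nat_lit 0) (nat_lit 407) (nat_lit 441) (nat_lit 172)) (XT.nd (nat_lit 78) (nat_lit 0) (nat_lit 0) (XT.lf (nat_lit 0) (nat_lit 148258602258) (nat_lit 0) (nat_lit 0) (nat_lit 0) (nat_lit 0) (nat_lit 0) (nat_lit 0) (nat_lit 1) (nat_lit 0) (nat_lit 1) (nat_lit 0) (nat_lit 408) (nat_lit 441) (nat_lit 171)) (XT.lf (nat_lit 0) (nat_lit 148258588840) (nat_lit 0) (nat_lit 0) (nat_lit 0) (nat_lit 0) (nat_lit 0) (nat_lit 0) (nat_lit 1) (nat_lit 0) (nat_lit 1) (nat_lit 0) (nat_lit 409) (nat_lit 441) (nat_lit 170)))) (XT.nd (nat_lit 156) (nat_lit 0) (nat_lit 0) (XT.nd (nat_lit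 78) (nat_lit 0) (nat_lit 0) (XT.lf (nat_lit 0) (nat_lit 148258576061) (nat_lit 0) (nat_lit 0) (nat_lit 0) (nat_lit 0) (nat_lit 0) (nat_lit 0) (nat_lit 1) (nat_lit 0) (nat_lit 1) (nat_lit 0) (nat_lit 410) (nat_lit 441) (nat_lit 169)) (XT.lf (nat_lit 0) (nat_lit 148258563890) (nat_lit 0) (nat_lit 0) (nat_lit 0) (nat_lit 0) (nat_lit 0) (nat_lit 0) (nat_lit 1) (nat_lit 0) (nat_lit 1) (nat_lit 0) (nat_lit 411) (nat_lit 441) (nat_lit 168))) (XT.nd (nat_lit 78) (nat_lit 0) (nat_lit 0) (XT.lf (nat_lit 0) (nat_lit 148258552299) (nat_lit 0) (nat_lit 0) (nat_lit 0) (nat_lit 0) (nat_lit 0) (nat_lit 0) (nat_lit 1) (nat_lit 0) (nat_lit 1) (nat_lit 0) (nat_lit 412) (nat_lit 441) (nat_lit 167)) (XT.lf (nat_lit 0) (nat_lit 148258541260) (nat_lit 0) (nat_lit 0) (nat_lit 0) (nat_lit 0) (nat_lit 0) (nat_lit 0) (nat_lit 1) (nat_lit 0) (nat_lit 1) (nat_lit 0) (nat_lit 413) (nat_lit 441) (nat_lit 166))))))) (XT.nd (nat_lit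 34164) (nat_lit 0) (nat_lit 16112) (XT.nd (nat_lit 33618) (nat_lit 0) (nat_lit 17632) (XT.nd (nat_lit 234) (nat_lit 0) (nat_lit 0) (XT.nd (nat_lit 78) (nat_lit 0) (nat_lit 0) (XT.lf (nat_lit 0) (nat_lit 148258530747) (nat_lit 0) (nat_lit 0) (nat_lit 0) (nat_lit 0) (nat_lit 0) (nat_lit 0) (nat_lit 1) (nat_lit 0) (nat_lit 1) (nat_lit 0) (nat_lit 414) (nat_lit 441) (nat_lit 165)) (XT.nd (nat_lit 78) (nat_lit 0) (nat_lit 0) (XT.lf (nat_lit 0) (nat_lit 148258520734) (nat_lit 0) (nat_lit 0) (nat_lit 0) (nat_lit 0) (nat_lit 0) (nat_lit 0) (nat_lit 1) (nat_lit 0) (nat_lit 1) (nat_lit 0) (nat_lit 415) (nat_lit 441) (nat_lit 164)) (XT.lf (nat_lit 0) (nat_lit 148258511198) (nat_lit 0) (nat_lit 0) (nat_lit 0) (nat_lit 0) (nat_lit 0) (nat_lit 0) (nat_lit 1) (nat_lit 0) (nat_lit 1) (nat_lit 0) (nat_lit 416) (nat_lit 441) (nat_lit 163)))) (XT.nd (nat_lit 78) (nat_lit 0) (nat_lit 0) (XT.lf (nat_lit 0) (nat_lit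 148258502116) (nat_lit 0) (nat_lit 0) (nat_lit 0) (nat_lit 0) (nat_lit 0) (nat_lit 0) (nat_lit 1) (nat_lit 0) (nat_lit 1) (nat_lit 0) (nat_lit 417) (nat_lit 441) (nat_lit 162)) (XT.nd (nat_lit 78) (nat_lit 0) (nat_lit 0) (XT.lf (nat_lit 0) (nat_lit 148258493467) (nat_lit 0) (nat_lit 0) (nat_lit 0) (nat_lit 0) (nat_lit 0) (nat_lit 0) (nat_lit 1) (nat_lit 0) (nat_lit 1) (nat_lit 0) (nat_lit 418) (nat_lit 441) (nat_lit 161)) (XT.lf (nat_lit 0) (nat_lit 148258485229) (nat_lit 0) (nat_lit 0) (nat_lit 0) (nat_lit 0) (nat_lit 0) (nat_lit 0) (nat_lit 1) (nat_lit 0) (nat_lit 1) (nat_lit 0) (nat_lit 419) (nat_lit 441) (nat_lit 160))))) (XT.nd (nat_lit 234) (nat_lit 532) (nat_lit 0) (XT.nd (nat_lit 78) (nat_lit 228) (nat_lit 0) (XT.lf (nat_lit 304) (nat_lit 179937180349) (nat_lit 0) (nat_lit 69738480437) (nat_lit 228) (nat_lit 69738480437) (nat_lit 246) (nat_lit 1) (nat_lit 242) (nat_lit 1) (nat_lit 245)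 (nat_lit 1) (nat_lit 164) (nat_lit 442) (nat_lit 414)) (XT.nd (nat_lit 78) (nat_lit 228) (nat_lit 0) (XT.lf (nat_lit 76) (nat_lit 56844938616) (nat_lit 0) (nat_lit 199561137040) (nat_lit 304) (nat_lit 56844938616) (nat_lit 243) (nat_lit 1) (nat_lit 242) (nat_lit 1) (nat_lit 246) (nat_lit 1) (nat_lit 165) (nat_lit 442) (nat_lit 413)) (XT.lf (nat_lit 304) (nat_lit 47378479580) (nat_lit 0) (nat_lit 129924808607) (nat_lit 228) (nat_lit 129924808607) (nat_lit 243) (nat_lit 1) (nat_lit 239) (nat_lit 1) (nat_lit 242) (nat_lit 1) (nat_lit 166) (nat_lit 442) (nat_lit 412)))) (XT.nd (nat_lit 156) (nat_lit 228) (nat_lit 0) (XT.nd (nat_lit 78) (nat_lit 0) (nat_lit 0) (XT.lf (nat_lit 304) (nat_lit 285143976081) (nat_lit 0) (nat_lit 8142481130) (nat_lit 228) (nat_lit 8142481130) (nat_lit 239) (nat_lit 1) (nat_lit 235) (nat_lit 1) (nat_lit 238) (nat_lit 1) (nat_lit 167) (nat_lit 442) (nat_lit 411)) (XT.lf (nat_lit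 76) (nat_lit 107861800142) (nat_lit 0) (nat_lit 79924510853) (nat_lit 304) (nat_lit 107861800142) (nat_lit 236) (nat_lit 1) (nat_lit 235) (nat_lit 1) (nat_lit 239) (nat_lit 1) (nat_lit 168) (nat_lit 442) (nat_lit 410))) (XT.nd (nat_lit 78) (nat_lit 0) (nat_lit 0) (XT.lf (nat_lit 304) (nat_lit 148319851656) (nat_lit 0) (nat_lit 70880661906) (nat_lit 228) (nat_lit 70880661906) (nat_lit 236) (nat_lit 1) (nat_lit 232) (nat_lit 1) (nat_lit 235) (nat_lit 1) (nat_lit 169) (nat_lit 442) (nat_lit 409)) (XT.lf (nat_lit 76) (nat_lit 40847166182) (nat_lit 0) (nat_lit 202969215179) (nat_lit 304) (nat_lit 40847166182) (nat_lit 233) (nat_lit 1) (nat_lit 232) (nat_lit 1) (nat_lit 236) (nat_lit 1) (nat_lit 170) (nat_lit 442) (nat_lit 408)))))) (XT.nd (nat_lit 468) (nat_lit 684) (nat_lit 0) (XT.nd (nat_lit 234) (nat_lit 380) (nat_lit 0) (XT.nd (nat_lit 78) (nat_lit 304) (nat_lit 0) (XT.lf (nat_lit 228) (nat_lit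 14967759830) (nat_lit 0) (nat_lit 132190125869) (nat_lit 152) (nat_lit 132190125869) (nat_lit 233) (nat_lit 1) (nat_lit 230) (nat_lit 1) (nat_lit 232) (nat_lit 1) (nat_lit 171) (nat_lit 442) (nat_lit 407)) (XT.nd (nat_lit 78) (nat_lit 0) (nat_lit 0) (XT.lf (nat_lit 304) (nat_lit 226157832117) (nat_lit 0) (nat_lit 24019601039) (nat_lit 228) (nat_lit 24019601039) (nat_lit 230) (nat_lit 1) (nat_lit 226) (nat_lit 1) (nat_lit 229) (nat_lit 1) (nat_lit 172) (nat_lit 442) (nat_lit 406)) (XT.lf (nat_lit 76) (nat_lit 78991562419) (nat_lit 0) (nat_lit 111120540710) (nat_lit 304) (nat_lit 78991562419) (nat_lit 227) (nat_lit 1) (nat_lit 226) (nat_lit 1) (nat_lit 230) (nat_lit 1) (nat_lit 173) (nat_lit 442) (nat_lit 405)))) (XT.nd (nat_lit 78) (nat_lit 228) (nat_lit 0) (XT.lf (nat_lit 228) (nat_lit 91262565407) (nat_lit 0) (nat_lit 86452463411) (nat_lit 152) (nat_lit 86452463411) (nat_lit 227) (nat_lit 1) (nat_lit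 224) (nat_lit 1) (nat_lit 226) (nat_lit 1) (nat_lit 174) (nat_lit 442) (nat_lit 404)) (XT.nd (nat_lit 78) (nat_lit 228) (nat_lit 0) (XT.lf (nat_lit 76) (nat_lit 13111533921) (nat_lit 0) (nat_lit 233172063718) (nat_lit 228) (nat_lit 13111533921) (nat_lit 225) (nat_lit 1) (nat_lit 224) (nat_lit 1) (nat_lit 227) (nat_lit 1) (nat_lit 175) (nat_lit 442) (nat_lit 403)) (XT.lf (nat_lit 76) (nat_lit 108211789807) (nat_lit 0) (nat_lit 38216539152) (nat_lit 228) (nat_lit 108211789807) (nat_lit 222) (nat_lit 1) (nat_lit 221) (nat_lit 1) (nat_lit 224) (nat_lit 1) (nat_lit 176) (nat_lit 442) (nat_lit 402))))) (XT.nd (nat_lit 234) (nat_lit 380) (nat_lit 0) (XT.nd (nat_lit 78) (nat_lit 152) (nat_lit 0) (XT.lf (nat_lit 228) (nat_lit 150271035895) (nat_lit 0) (nat_lit 49885912471) (nat_lit 152) (nat_lit 49885912471) (nat_lit 222) (nat_lit 1) (nat_lit 219) (nat_lit 1) (nat_lit 221) (nat_lit 1) (nat_lit 177) (nat_lit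 442) (nat_lit 401)) (XT.nd (nat_lit 78) (nat_lit 152) (nat_lit 0) (XT.lf (nat_lit 76) (nat_lit 42402576850) (nat_lit 0) (nat_lit 160742058654) (nat_lit 228) (nat_lit 42402576850) (nat_lit 220) (nat_lit 1) (nat_lit 219) (nat_lit 1) (nat_lit 222) (nat_lit 1) (nat_lit 178) (nat_lit 442) (nat_lit 400)) (XT.lf (nat_lit 228) (nat_lit 19864080618) (nat_lit 0) (nat_lit 110639051974) (nat_lit 152) (nat_lit 110639051974) (nat_lit 220) (nat_lit 1) (nat_lit 217) (nat_lit 1) (nat_lit 219) (nat_lit 1) (nat_lit 179) (nat_lit 442) (nat_lit 399)))) (XT.nd (nat_lit 156) (nat_lit 152) (nat_lit 0) (XT.nd (nat_lit 78) (nat_lit 0) (nat_lit 0) (XT.lf (nat_lit 228) (nat_lit 195237017386) (nat_lit 0) (nat_lit 20813889239) (nat_lit 152) (nat_lit 20813889239) (nat_lit 217) (nat_lit 1) (nat_lit 214) (nat_lit 1) (nat_lit 216) (nat_lit 1) (nat_lit 180) (nat_lit 442) (nat_lit 398)) (XT.lf (nat_lit 76) (nat_lit 64994881526) (nat_lit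 0) (nat_lit 102634151153) (nat_lit 228) (nat_lit 64994881526) (nat_lit 215) (nat_lit 1) (nat_lit 214) (nat_lit 1) (nat_lit 217) (nat_lit 1) (nat_lit 181) (nat_lit 442) (nat_lit 397))) (XT.nd (nat_lit 78) (nat_lit 0) (nat_lit 0) (XT.lf (nat_lit 228) (nat_lit 66194131296) (nat_lit 0) (nat_lit 81156009961) (nat_lit 152) (nat_lit 81156009961) (nat_lit 215) (nat_lit 1) (nat_lit 212) (nat_lit 1) (nat_lit 214) (nat_lit 1) (nat_lit 182) (nat_lit 442) (nat_lit 396)) (XT.lf (nat_lit 76) (nat_lit 2175618536) (nat_lit 0) (nat_lit 220181561317) (nat_lit 228) (nat_lit 2175618536) (nat_lit 213) (nat_lit 1) (nat_lit 212) (nat_lit 1) (nat_lit 215) (nat_lit 1) (nat_lit 183) (nat_lit 442) (nat_lit 395))))))))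
noncomputable def ec472 : XT := (XT.nd (nat_lit 1950) (nat_lit 1824) (nat_lit 0) (XT.nd (nat_lit 936) (nat_lit 1064) (nat_lit 0) (XT.nd (nat_lit 468) (nat_lit 608) (nat_lit 0) (XT.nd (nat_lit 234) (nat_lit 304) (nat_lit 0) (XT.nd (nat_lit 78) (nat_lit 152) (nat_lit 0) (XT.lf (nat_lit 76) (nat_lit 82147808561) (nat_lit 0) (nat_lit 56238571767) (nat_lit 152) (nat_lit 82147808561) (nat_lit 211) (nat_lit 1) (nat_lit 210) (nat_lit 1) (nat_lit 212) (nat_lit 1) (nat_lit 184) (nat_lit 442) (nat_lit 394)) (XT.nd (nat_lit 78) (nat_lit 0) (nat_lit 0) (XT.lf (nat_lit 228) (nat_lit 101936078503) (nat_lit 0) (nat_lit 57370096043) (nat_lit 152) (nat_lit 57370096043) (nat_lit 211) (nat_lit 1) (nat_lit 208) (nat_lit 1) (nat_lit 210) (nat_lit 1) (nat_lit 185) (nat_lit 442) (nat_lit 393)) (XT.lf (nat_lit 76) (nat_lit 20437479234) (nat_lit 0) (nat_lit 172047528823) (nat_lit 228) (nat_lit 20437479234) (nat_lit 209)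 (nat_lit 1) (nat_lit 208) (nat_lit 1) (nat_lit 211) (nat_lit 1) (nat_lit 186) (nat_lit 442) (nat_lit 392)))) (XT.nd (nat_lit 78) (nat_lit 152) (nat_lit 0) (XT.lf (nat_lit 76) (nat_lit 94894023192) (nat_lit 0) (nat_lit 19411613709) (nat_lit 152) (nat_lit 94894023192) (nat_lit 207) (nat_lit 1) (nat_lit 206) (nat_lit 1) (nat_lit 208) (nat_lit 1) (nat_lit 187) (nat_lit 442) (nat_lit 391)) (XT.nd (nat_lit 78) (nat_lit 0) (nat_lit 0) (XT.lf (nat_lit 228) (nat_lit 129080209644) (nat_lit 0) (nat_lit 38248849330) (nat_lit 152) (nat_lit 38248849330) (nat_lit 207) (nat_lit 1) (nat_lit 204) (nat_lit 1) (nat_lit 206) (nat_lit 1) (nat_lit 188) (nat_lit 442) (nat_lit 390)) (XT.lf (nat_lit 76) (nat_lit 34573576631) (nat_lit 0) (nat_lit 132880702434) (nat_lit 228) (nat_lit 34573576631) (nat_lit 205) (nat_lit 1) (nat_lit 204) (nat_lit 1) (nat_lit 207) (nat_lit 1) (nat_lit 189) (nat_lit 442) (nat_lit 389))))) (XT.nd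 (nat_lit 234) (nat_lit 304) (nat_lit 0) (XT.nd (nat_lit 78) (nat_lit 228) (nat_lit 0) (XT.lf (nat_lit 152) (nat_lit 9924814809) (nat_lit 0) (nat_lit 94309989745) (nat_lit 76) (nat_lit 94309989745) (nat_lit 205) (nat_lit 1) (nat_lit 203) (nat_lit 1) (nat_lit 204) (nat_lit 1) (nat_lit 190) (nat_lit 442) (nat_lit 388)) (XT.nd (nat_lit 78) (nat_lit 0) (nat_lit 0) (XT.lf (nat_lit 228) (nat_lit 149258556101) (nat_lit 0) (nat_lit 22943927132) (nat_lit 152) (nat_lit 22943927132) (nat_lit 203) (nat_lit 1) (nat_lit 200) (nat_lit 1) (nat_lit 202) (nat_lit 1) (nat_lit 191) (nat_lit 442) (nat_lit 387)) (XT.lf (nat_lit 76) (nat_lit 45357683138) (nat_lit 0) (nat_lit 101070591973) (nat_lit 228) (nat_lit 45357683138) (nat_lit 201) (nat_lit 1) (nat_lit 200) (nat_lit 1) (nat_lit 203) (nat_lit 1) (nat_lit 192) (nat_lit 442) (nat_lit 386)))) (XT.nd (nat_lit 78) (nat_lit 228) (nat_lit 0) (XT.lf (nat_lit 152) (nat_lit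 33329776559) (nat_lit 0) (nat_lit 77589061961) (nat_lit 76) (nat_lit 77589061961) (nat_lit 201) (nat_lit 1) (nat_lit 199) (nat_lit 1) (nat_lit 200) (nat_lit 1) (nat_lit 193) (nat_lit 442) (nat_lit 385)) (XT.nd (nat_lit 78) (nat_lit 0) (nat_lit 0) (XT.lf (nat_lit 228) (nat_lit 163808667470) (nat_lit 0) (nat_lit 10758410519) (nat_lit 152) (nat_lit 10758410519) (nat_lit 199) (nat_lit 1) (nat_lit 196) (nat_lit 1) (nat_lit 198) (nat_lit 1) (nat_lit 194) (nat_lit 442) (nat_lit 384)) (XT.lf (nat_lit 76) (nat_lit 53424369675) (nat_lit 0) (nat_lit 75293225410) (nat_lit 228) (nat_lit 53424369675) (nat_lit 197) (nat_lit 1) (nat_lit 196) (nat_lit 1) (nat_lit 199) (nat_lit 1) (nat_lit 195) (nat_lit 442) (nat_lit 383)))))) (XT.nd (nat_lit 468) (nat_lit 532) (nat_lit 0) (XT.nd (nat_lit 234) (nat_lit 228) (nat_lit 0) (XT.nd (nat_lit 78) (nat_lit 228) (nat_lit 0) (XT.lf (nat_lit 152) (nat_lit 51386781901) (nat_lit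 0) (nat_lit 63832713292) (nat_lit 76) (nat_lit 63832713292) (nat_lit 197) (nat_lit 1) (nat_lit 195) (nat_lit 1) (nat_lit 196) (nat_lit 1) (nat_lit 196) (nat_lit 442) (nat_lit 382)) (XT.nd (nat_lit 78) (nat_lit 0) (nat_lit 0) (XT.lf (nat_lit 228) (nat_lit 173826066578) (nat_lit 0) (nat_lit 1119908945) (nat_lit 152) (nat_lit 1119908945) (nat_lit 195) (nat_lit 1) (nat_lit 192) (nat_lit 1) (nat_lit 194) (nat_lit 1) (nat_lit 197) (nat_lit 442) (nat_lit 381)) (XT.lf (nat_lit 76) (nat_lit 59293781629) (nat_lit 0) (nat_lit 54460303132) (nat_lit 228) (nat_lit 59293781629) (nat_lit 193) (nat_lit 1) (nat_lit 192) (nat_lit 1) (nat_lit 195) (nat_lit 1) (nat_lit 198) (nat_lit 442) (nat_lit 380)))) (XT.nd (nat_lit 78) (nat_lit 152) (nat_lit 0) (XT.lf (nat_lit 152) (nat_lit 65101072871) (nat_lit 0) (nat_lit 52515331198) (nat_lit 76) (nat_lit 52515331198) (nat_lit 193) (nat_lit 1) (nat_lit 191) (nat_lit 1) (nat_lit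 192) (nat_lit 1) (nat_lit 199) (nat_lit 442) (nat_lit 379)) (XT.nd (nat_lit 78) (nat_lit 152) (nat_lit 0) (XT.lf (nat_lit 0) (nat_lit 6547163757) (nat_lit 0) (nat_lit 154209319508) (nat_lit 152) (nat_lit 6547163757) (nat_lit 191) (nat_lit 3) (nat_lit 191) (nat_lit 1) (nat_lit 193) (nat_lit 1) (nat_lit 200) (nat_lit 442) (nat_lit 378)) (XT.lf (nat_lit 76) (nat_lit 63392017536) (nat_lit 0) (nat_lit 37677369262) (nat_lit 152) (nat_lit 63392017536) (nat_lit 190) (nat_lit 1) (nat_lit 189) (nat_lit 1) (nat_lit 191) (nat_lit 1) (nat_lit 201) (nat_lit 442) (nat_lit 377))))) (XT.nd (nat_lit 234) (nat_lit 304) (nat_lit 0) (XT.nd (nat_lit 78) (nat_lit 152) (nat_lit 0) (XT.lf (nat_lit 152) (nat_lit 75296947315) (nat_lit 0) (nat_lit 43204492941) (nat_lit 76) (nat_lit 43204492941) (nat_lit 190) (nat_lit 1) (nat_lit 188) (nat_lit 1) (nat_lit 189) (nat_lit 1) (nat_lit 202) (nat_lit 442) (nat_lit 376)) (XT.nd (nat_lit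 78) (nat_lit 152) (nat_lit 0) (XT.lf (nat_lit 0) (nat_lit 12513624728) (nat_lit 0) (nat_lit 133995645697) (nat_lit 152) (nat_lit 12513624728) (nat_lit 188) (nat_lit 3) (nat_lit 188) (nat_lit 1) (nat_lit 190) (nat_lit 1) (nat_lit 203) (nat_lit 442) (nat_lit 375)) (XT.lf (nat_lit 76) (nat_lit 66067890328) (nat_lit 0) (nat_lit 24209401219) (nat_lit 152) (nat_lit 66067890328) (nat_lit 187) (nat_lit 1) (nat_lit 186) (nat_lit 1) (nat_lit 188) (nat_lit 1) (nat_lit 204) (nat_lit 442) (nat_lit 374)))) (XT.nd (nat_lit 156) (nat_lit 228) (nat_lit 0) (XT.nd (nat_lit 78) (nat_lit 0) (nat_lit 0) (XT.lf (nat_lit 152) (nat_lit 82649969236) (nat_lit 0) (nat_lit 35544443264) (nat_lit 76) (nat_lit 35544443264) (nat_lit 187) (nat_lit 1) (nat_lit 185) (nat_lit 1) (nat_lit 186) (nat_lit 1) (nat_lit 205) (nat_lit 442) (nat_lit 373)) (XT.lf (nat_lit 0) (nat_lit 17082853749) (nat_lit 0) (nat_lit 117026413043) (nat_lit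 152) (nat_lit 17082853749) (nat_lit 185) (nat_lit 3) (nat_lit 185) (nat_lit 1) (nat_lit 187) (nat_lit 1) (nat_lit 206) (nat_lit 442) (nat_lit 372))) (XT.nd (nat_lit 78) (nat_lit 76) (nat_lit 0) (XT.lf (nat_lit 76) (nat_lit 67606712704) (nat_lit 0) (nat_lit 13452502185) (nat_lit 152) (nat_lit 67606712704) (nat_lit 184) (nat_lit 1) (nat_lit 183) (nat_lit 1) (nat_lit 185) (nat_lit 1) (nat_lit 207) (nat_lit 442) (nat_lit 371)) (XT.lf (nat_lit 152) (nat_lit 87713462171) (nat_lit 0) (nat_lit 29242501439) (nat_lit 76) (nat_lit 29242501439) (nat_lit 184) (nat_lit 1) (nat_lit 182) (nat_lit 1) (nat_lit 183) (nat_lit 1) (nat_lit 208) (nat_lit 442) (nat_lit 370))))))) (XT.nd (nat_lit 936) (nat_lit 912) (nat_lit 0) (XT.nd (nat_lit 468) (nat_lit 456) (nat_lit 0) (XT.nd (nat_lit 234) (nat_lit 228) (nat_lit 0) (XT.nd (nat_lit 78) (nat_lit 228) (nat_lit 0) (XT.lf (nat_lit 0) (nat_lit 20518738167) (nat_lit 0) (nat_lit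 102742551738) (nat_lit 152) (nat_lit 20518738167) (nat_lit 182) (nat_lit 3) (nat_lit 182) (nat_lit 1) (nat_lit 184) (nat_lit 1) (nat_lit 209) (nat_lit 442) (nat_lit 369)) (XT.nd (nat_lit 78) (nat_lit 76) (nat_lit 0) (XT.lf (nat_lit 76) (nat_lit 68241634452) (nat_lit 0) (nat_lit 4910614353) (nat_lit 152) (nat_lit 68241634452) (nat_lit 181) (nat_lit 1) (nat_lit 180) (nat_lit 1) (nat_lit 182) (nat_lit 1) (nat_lit 210) (nat_lit 442) (nat_lit 368)) (XT.lf (nat_lit 152) (nat_lit 90940299485) (nat_lit 0) (nat_lit 24057878303) (nat_lit 76) (nat_lit 24057878303) (nat_lit 181) (nat_lit 1) (nat_lit 179) (nat_lit 1) (nat_lit 180) (nat_lit 1) (nat_lit 211) (nat_lit 442) (nat_lit 367)))) (XT.nd (nat_lit 78) (nat_lit 228) (nat_lit 0) (XT.lf (nat_lit 0) (nat_lit 23037609156) (nat_lit 0) (nat_lit 90683344068) (nat_lit 152) (nat_lit 23037609156) (nat_lit 179) (nat_lit 3) (nat_lit 179) (nat_lit 1) (nat_lit 181) (nat_lit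 1) (nat_lit 212) (nat_lit 442) (nat_lit 366)) (XT.nd (nat_lit 78) (nat_lit 152) (nat_lit 0) (XT.lf (nat_lit 76) (nat_lit 1883934996) (nat_lit 0) (nat_lit 66308444435) (nat_lit 76) (nat_lit 66308444435) (nat_lit 179) (nat_lit 3) (nat_lit 178) (nat_lit 1) (nat_lit 179) (nat_lit 1) (nat_lit 213) (nat_lit 442) (nat_lit 365)) (XT.lf (nat_lit 152) (nat_lit 92700825716) (nat_lit 0) (nat_lit 19792476018) (nat_lit 76) (nat_lit 19792476018) (nat_lit 178) (nat_lit 1) (nat_lit 176) (nat_lit 1) (nat_lit 177) (nat_lit 1) (nat_lit 214) (nat_lit 442) (nat_lit 364))))) (XT.nd (nat_lit 234) (nat_lit 228) (nat_lit 0) (XT.nd (nat_lit 78) (nat_lit 228) (nat_lit 0) (XT.lf (nat_lit 0) (nat_lit 24816709958) (nat_lit 0) (nat_lit 80469023479) (nat_lit 152) (nat_lit 24816709958) (nat_lit 176) (nat_lit 3) (nat_lit 176) (nat_lit 1) (nat_lit 178) (nat_lit 1) (nat_lit 215) (nat_lit 442) (nat_lit 363)) (XT.nd (nat_lit 78) (nat_lit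 152) (nat_lit 0) (XT.lf (nat_lit 76) (nat_lit 7318955490) (nat_lit 0) (nat_lit 60321158843) (nat_lit 76) (nat_lit 60321158843) (nat_lit 176) (nat_lit 3) (nat_lit 175) (nat_lit 1) (nat_lit 176) (nat_lit 1) (nat_lit 216) (nat_lit 442) (nat_lit 362)) (XT.lf (nat_lit 152) (nat_lit 93297595180) (nat_lit 0) (nat_lit 16283319002) (nat_lit 76) (nat_lit 16283319002) (nat_lit 175) (nat_lit 1) (nat_lit 173) (nat_lit 1) (nat_lit 174) (nat_lit 1) (nat_lit 217) (nat_lit 442) (nat_lit 361)))) (XT.nd (nat_lit 78) (nat_lit 228) (nat_lit 0) (XT.lf (nat_lit 0) (nat_lit 26001160977) (nat_lit 0) (nat_lit 71786457038) (nat_lit 152) (nat_lit 26001160977) (nat_lit 173) (nat_lit 3) (nat_lit 173) (nat_lit 1) (nat_lit 175) (nat_lit 1) (nat_lit 218) (nat_lit 442) (nat_lit 360)) (XT.nd (nat_lit 78) (nat_lit 152) (nat_lit 0) (XT.lf (nat_lit 76) (nat_lit 11515644230) (nat_lit 0) (nat_lit 55120688098) (nat_lit 76) (nat_lit 55120688098)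 (nat_lit 173) (nat_lit 3) (nat_lit 172) (nat_lit 1) (nat_lit 173) (nat_lit 1) (nat_lit 219) (nat_lit 442) (nat_lit 359)) (XT.lf (nat_lit 152) (nat_lit 92977492398) (nat_lit 0) (nat_lit 13396326841) (nat_lit 76) (nat_lit 13396326841) (nat_lit 172) (nat_lit 1) (nat_lit 170) (nat_lit 1) (nat_lit 171) (nat_lit 1) (nat_lit 220) (nat_lit 442) (nat_lit 358)))))) (XT.nd (nat_lit 468) (nat_lit 456) (nat_lit 0) (XT.nd (nat_lit 234) (nat_lit 228) (nat_lit 0) (XT.nd (nat_lit 78) (nat_lit 228) (nat_lit 0) (XT.lf (nat_lit 0) (nat_lit 26709688320) (nat_lit 0) (nat_lit 64377364698) (nat_lit 152) (nat_lit 26709688320) (nat_lit 170) (nat_lit 3) (nat_lit 170) (nat_lit 1) (nat_lit 172) (nat_lit 1) (nat_lit 221) (nat_lit 442) (nat_lit 357)) (XT.nd (nat_lit 78) (nat_lit 152) (nat_lit 0) (XT.lf (nat_lit 76) (nat_lit 14706636087) (nat_lit 0) (nat_lit 50580613591) (nat_lit 76) (nat_lit 50580613591) (nat_lit 170) (nat_lit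 3) (nat_lit 169) (nat_lit 1) (nat_lit 170) (nat_lit 1) (nat_lit 222) (nat_lit 442) (nat_lit 356)) (XT.lf (nat_lit 152) (nat_lit 91941698763) (nat_lit 0) (nat_lit 11021191245) (nat_lit 76) (nat_lit 11021191245) (nat_lit 169) (nat_lit 1) (nat_lit 167) (nat_lit 1) (nat_lit 168) (nat_lit 1) (nat_lit 223) (nat_lit 442) (nat_lit 355)))) (XT.nd (nat_lit 78) (nat_lit 228) (nat_lit 0) (XT.lf (nat_lit 0) (nat_lit 27039335097) (nat_lit 0) (nat_lit 58028625673) (nat_lit 152) (nat_lit 27039335097) (nat_lit 167) (nat_lit 3) (nat_lit 167) (nat_lit 1) (nat_lit 169) (nat_lit 1) (nat_lit 224) (nat_lit 442) (nat_lit 354)) (XT.nd (nat_lit 78) (nat_lit 152) (nat_lit 0) (XT.lf (nat_lit 76) (nat_lit 17082697411) (nat_lit 0) (nat_lit 46596307483) (nat_lit 76) (nat_lit 46596307483) (nat_lit 167) (nat_lit 3) (nat_lit 166) (nat_lit 1) (nat_lit 167) (nat_lit 1) (nat_lit 225) (nat_lit 442) (nat_lit 353)) (XT.lf (nat_lit 152)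 (nat_lit 90353887554) (nat_lit 0) (nat_lit 9067161312) (nat_lit 76) (nat_lit 9067161312) (nat_lit 166) (nat_lit 1) (nat_lit 164) (nat_lit 1) (nat_lit 165) (nat_lit 1) (nat_lit 226) (nat_lit 442) (nat_lit 352))))) (XT.nd (nat_lit 234) (nat_lit 228) (nat_lit 0) (XT.nd (nat_lit 78) (nat_lit 228) (nat_lit 0) (XT.lf (nat_lit 0) (nat_lit 27069335916) (nat_lit 0) (nat_lit 52564301965) (nat_lit 152) (nat_lit 27069335916) (nat_lit 164) (nat_lit 3) (nat_lit 164) (nat_lit 1) (nat_lit 166) (nat_lit 1) (nat_lit 227) (nat_lit 442) (nat_lit 351)) (XT.nd (nat_lit 78) (nat_lit 152) (nat_lit 0) (XT.lf (nat_lit 76) (nat_lit 18800178870) (nat_lit 0) (nat_lit 43081098917) (nat_lit 76) (nat_lit 43081098917) (nat_lit 164) (nat_lit 3) (nat_lit 163) (nat_lit 1) (nat_lit 164) (nat_lit 1) (nat_lit 228) (nat_lit 442) (nat_lit 350)) (XT.lf (nat_lit 152) (nat_lit 88346961608) (nat_lit 0) (nat_lit 7459576051) (nat_lit 76) (nat_lit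 7459576051) (nat_lit 163) (nat_lit 1) (nat_lit 161) (nat_lit 1) (nat_lit 162) (nat_lit 1) (nat_lit 229) (nat_lit 442) (nat_lit 349)))) (XT.nd (nat_lit 156) (nat_lit 152) (nat_lit 0) (XT.nd (nat_lit 78) (nat_lit 76) (nat_lit 0) (XT.lf (nat_lit 0) (nat_lit 26864302996) (nat_lit 0) (nat_lit 47839074660) (nat_lit 152) (nat_lit 26864302996) (nat_lit 161) (nat_lit 3) (nat_lit 161) (nat_lit 1) (nat_lit 163) (nat_lit 1) (nat_lit 230) (nat_lit 442) (nat_lit 348)) (XT.lf (nat_lit 76) (nat_lit 19987145524) (nat_lit 0) (nat_lit 39963118537) (nat_lit 76) (nat_lit 39963118537) (nat_lit 161) (nat_lit 3) (nat_lit 160) (nat_lit 1) (nat_lit 161) (nat_lit 1) (nat_lit 231) (nat_lit 442) (nat_lit 347))) (XT.nd (nat_lit 78) (nat_lit 0) (nat_lit 0) (XT.lf (nat_lit 152) (nat_lit 86028592250) (nat_lit 0) (nat_lit 6137011678) (nat_lit 76) (nat_lit 6137011678) (nat_lit 160) (nat_lit 1) (nat_lit 158) (nat_lit 1) (nat_lit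 159) (nat_lit 1) (nat_lit 232) (nat_lit 442) (nat_lit 346)) (XT.lf (nat_lit 0) (nat_lit 26476846032) (nat_lit 0) (nat_lit 43732842588) (nat_lit 152) (nat_lit 26476846032) (nat_lit 158) (nat_lit 3) (nat_lit 158) (nat_lit 1) (nat_lit 160) (nat_lit 1) (nat_lit 233) (nat_lit 442) (nat_lit 345))))))))
noncomputable def ec473 : XT := (XT.nd (nat_lit 1950) (nat_lit 1976) (nat_lit 0) (XT.nd (nat_lit 936) (nat_lit 988) (nat_lit 0) (XT.nd (nat_lit 468) (nat_lit 456) (nat_lit 0) (XT.nd (nat_lit 234) (nat_lit 228) (nat_lit 0) (XT.nd (nat_lit 78) (nat_lit 152) (nat_lit 0) (XT.lf (nat_lit 76) (nat_lit 20748418698) (nat_lit 0) (nat_lit 37182701132) (nat_lit 76) (nat_lit 37182701132) (nat_lit 158) (nat_lit 3) (nat_lit 157) (nat_lit 1) (nat_lit 158) (nat_lit 1) (nat_lit 234) (nat_lit 442) (nat_lit 344)) (XT.nd (nat_lit 78) (nat_lit 0) (nat_lit 0) (XT.lf (nat_lit 152) (nat_lit 83485772219) (nat_lit 0) (nat_lit 5048934695)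 (nat_lit 76) (nat_lit 5048934695) (nat_lit 157) (nat_lit 1) (nat_lit 155) (nat_lit 1) (nat_lit 156) (nat_lit 1) (nat_lit 235) (nat_lit 442) (nat_lit 343)) (XT.lf (nat_lit 0) (nat_lit 25949726254) (nat_lit 0) (nat_lit 40146277326) (nat_lit 152) (nat_lit 25949726254) (nat_lit 155) (nat_lit 3) (nat_lit 155) (nat_lit 1) (nat_lit 157) (nat_lit 1) (nat_lit 236) (nat_lit 442) (nat_lit 342)))) (XT.nd (nat_lit 78) (nat_lit 152) (nat_lit 0) (XT.lf (nat_lit 76) (nat_lit 21169722660) (nat_lit 0) (nat_lit 34690247490) (nat_lit 76) (nat_lit 34690247490) (nat_lit 155) (nat_lit 3) (nat_lit 154) (nat_lit 1) (nat_lit 155) (nat_lit 1) (nat_lit 237) (nat_lit 442) (nat_lit 341)) (XT.nd (nat_lit 78) (nat_lit 0) (nat_lit 0) (XT.lf (nat_lit 152) (nat_lit 80788557577) (nat_lit 0) (nat_lit 4153771069) (nat_lit 76) (nat_lit 4153771069) (nat_lit 154) (nat_lit 1) (nat_lit 152) (nat_lit 1) (nat_lit 153) (nat_lit 1) (nat_lit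 238) (nat_lit 442) (nat_lit 340)) (XT.lf (nat_lit 0) (nat_lit 25317627342) (nat_lit 0) (nat_lit 36997165042) (nat_lit 152) (nat_lit 25317627342) (nat_lit 152) (nat_lit 3) (nat_lit 152) (nat_lit 1) (nat_lit 154) (nat_lit 1) (nat_lit 239) (nat_lit 442) (nat_lit 339))))) (XT.nd (nat_lit 234) (nat_lit 228) (nat_lit 0) (XT.nd (nat_lit 78) (nat_lit 152) (nat_lit 0) (XT.lf (nat_lit 76) (nat_lit 21321094888) (nat_lit 0) (nat_lit 32444464127) (nat_lit 76) (nat_lit 32444464127) (nat_lit 152) (nat_lit 3) (nat_lit 151) (nat_lit 1) (nat_lit 152) (nat_lit 1) (nat_lit 240) (nat_lit 442) (nat_lit 338)) (XT.nd (nat_lit 78) (nat_lit 0) (nat_lit 0) (XT.lf (nat_lit 152) (nat_lit 77993142600) (nat_lit 0) (nat_lit 3417317738) (nat_lit 76) (nat_lit 3417317738) (nat_lit 151) (nat_lit 1) (nat_lit 149) (nat_lit 1) (nat_lit 150) (nat_lit 1) (nat_lit 241) (nat_lit 442) (nat_lit 337)) (XT.lf (nat_lit 0) (nat_lit 24608611177)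 (nat_lit 0) (nat_lit 34217395747) (nat_lit 152) (nat_lit 24608611177) (nat_lit 149) (nat_lit 3) (nat_lit 149) (nat_lit 1) (nat_lit 151) (nat_lit 1) (nat_lit 242) (nat_lit 442) (nat_lit 336)))) (XT.nd (nat_lit 78) (nat_lit 152) (nat_lit 0) (XT.lf (nat_lit 76) (nat_lit 21259690545) (nat_lit 0) (nat_lit 30410913945) (nat_lit 76) (nat_lit 30410913945) (nat_lit 149) (nat_lit 3) (nat_lit 148) (nat_lit 1) (nat_lit 149) (nat_lit 1) (nat_lit 243) (nat_lit 442) (nat_lit 335)) (XT.nd (nat_lit 78) (nat_lit 0) (nat_lit 0) (XT.lf (nat_lit 152) (nat_lit 75144386049) (nat_lit 0) (nat_lit 2811435760) (nat_lit 76) (nat_lit 2811435760) (nat_lit 148) (nat_lit 1) (nat_lit 146) (nat_lit 1) (nat_lit 147) (nat_lit 1) (nat_lit 244) (nat_lit 442) (nat_lit 334)) (XT.lf (nat_lit 0) (nat_lit 23845314370) (nat_lit 0) (nat_lit 31750485216) (nat_lit 152) (nat_lit 23845314370) (nat_lit 146) (nat_lit 3) (nat_lit 146) (nat_lit 1)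 (nat_lit 148) (nat_lit 1) (nat_lit 245) (nat_lit 442) (nat_lit 333)))))) (XT.nd (nat_lit 468) (nat_lit 532) (nat_lit 0) (XT.nd (nat_lit 234) (nat_lit 228) (nat_lit 0) (XT.nd (nat_lit 78) (nat_lit 152) (nat_lit 0) (XT.lf (nat_lit 76) (nat_lit 21032088610) (nat_lit 0) (nat_lit 28560822749) (nat_lit 76) (nat_lit 28560822749) (nat_lit 146) (nat_lit 3) (nat_lit 145) (nat_lit 1) (nat_lit 146) (nat_lit 1) (nat_lit 246) (nat_lit 442) (nat_lit 332)) (XT.nd (nat_lit 78) (nat_lit 0) (nat_lit 0) (XT.lf (nat_lit 152) (nat_lit 72277886288) (nat_lit 0) (nat_lit 2312975157) (nat_lit 76) (nat_lit 2312975157) (nat_lit 145) (nat_lit 1) (nat_lit 143) (nat_lit 1) (nat_lit 144) (nat_lit 1) (nat_lit 247) (nat_lit 442) (nat_lit 331)) (XT.lf (nat_lit 0) (nat_lit 23045931577) (nat_lit 0) (nat_lit 29549535196) (nat_lit 152) (nat_lit 23045931577) (nat_lit 143) (nat_lit 3) (nat_lit 143) (nat_lit 1) (nat_lit 145) (nat_lit 1)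 (nat_lit 248) (nat_lit 442) (nat_lit 330)))) (XT.nd (nat_lit 78) (nat_lit 152) (nat_lit 0) (XT.lf (nat_lit 76) (nat_lit 20676188098) (nat_lit 0) (nat_lit 26870096306) (nat_lit 76) (nat_lit 26870096306) (nat_lit 143) (nat_lit 3) (nat_lit 142) (nat_lit 1) (nat_lit 143) (nat_lit 1) (nat_lit 249) (nat_lit 442) (nat_lit 329)) (XT.nd (nat_lit 78) (nat_lit 0) (nat_lit 0) (XT.lf (nat_lit 152) (nat_lit 69421685369) (nat_lit 0) (nat_lit 1902890386) (nat_lit 76) (nat_lit 1902890386) (nat_lit 142) (nat_lit 1) (nat_lit 140) (nat_lit 1) (nat_lit 141) (nat_lit 1) (nat_lit 250) (nat_lit 442) (nat_lit 328)) (XT.lf (nat_lit 0) (nat_lit 22225023450) (nat_lit 0) (nat_lit 27575554241) (nat_lit 152) (nat_lit 22225023450) (nat_lit 140) (nat_lit 3) (nat_lit 140) (nat_lit 1) (nat_lit 142) (nat_lit 1) (nat_lit 251) (nat_lit 442) (nat_lit 327))))) (XT.nd (nat_lit 234) (nat_lit 304) (nat_lit 0) (XT.nd (nat_lit 78) (nat_lit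 152) (nat_lit 0) (XT.lf (nat_lit 76) (nat_lit 20222767068) (nat_lit 0) (nat_lit 25318510679) (nat_lit 76) (nat_lit 25318510679) (nat_lit 140) (nat_lit 3) (nat_lit 139) (nat_lit 1) (nat_lit 140) (nat_lit 1) (nat_lit 252) (nat_lit 442) (nat_lit 326)) (XT.nd (nat_lit 78) (nat_lit 0) (nat_lit 0) (XT.lf (nat_lit 152) (nat_lit 66597668021) (nat_lit 0) (nat_lit 1565512630) (nat_lit 76) (nat_lit 1565512630) (nat_lit 139) (nat_lit 1) (nat_lit 137) (nat_lit 1) (nat_lit 138) (nat_lit 1) (nat_lit 253) (nat_lit 442) (nat_lit 325)) (XT.lf (nat_lit 0) (nat_lit 21394180373) (nat_lit 0) (nat_lit 25796075296) (nat_lit 152) (nat_lit 21394180373) (nat_lit 137) (nat_lit 3) (nat_lit 137) (nat_lit 1) (nat_lit 139) (nat_lit 1) (nat_lit 254) (nat_lit 442) (nat_lit 324)))) (XT.nd (nat_lit 156) (nat_lit 76) (nat_lit 0) (XT.nd (nat_lit 78) (nat_lit 152) (nat_lit 0) (XT.lf (nat_lit 76) (nat_lit 19696764276) (nat_lit 0) (nat_lit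 23889045156) (nat_lit 76) (nat_lit 23889045156) (nat_lit 137) (nat_lit 3) (nat_lit 136) (nat_lit 1) (nat_lit 137) (nat_lit 1) (nat_lit 255) (nat_lit 442) (nat_lit 323)) (XT.lf (nat_lit 152) (nat_lit 63822709786) (nat_lit 0) (nat_lit 1287951115) (nat_lit 76) (nat_lit 1287951115) (nat_lit 136) (nat_lit 1) (nat_lit 134) (nat_lit 1) (nat_lit 135) (nat_lit 1) (nat_lit 256) (nat_lit 442) (nat_lit 322))) (XT.nd (nat_lit 78) (nat_lit 76) (nat_lit 0) (XT.lf (nat_lit 0) (nat_lit 20562567594) (nat_lit 0) (nat_lit 24184017442) (nat_lit 152) (nat_lit 20562567594) (nat_lit 134) (nat_lit 3) (nat_lit 134) (nat_lit 1) (nat_lit 136) (nat_lit 1) (nat_lit 257) (nat_lit 442) (nat_lit 321)) (XT.lf (nat_lit 76) (nat_lit 19118332680) (nat_lit 0) (nat_lit 22567332535) (nat_lit 76) (nat_lit 22567332535) (nat_lit 134) (nat_lit 3) (nat_lit 133) (nat_lit 1) (nat_lit 134) (nat_lit 1) (nat_lit 258) (nat_lit 442) (nat_lit 320)))))))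 (XT.nd (nat_lit 1014) (nat_lit 912) (nat_lit 0) (XT.nd (nat_lit 468) (nat_lit 608) (nat_lit 0) (XT.nd (nat_lit 234) (nat_lit 228) (nat_lit 0) (XT.nd (nat_lit 78) (nat_lit 76) (nat_lit 0) (XT.lf (nat_lit 152) (nat_lit 61109618897) (nat_lit 0) (nat_lit 1059600569) (nat_lit 76) (nat_lit 1059600569) (nat_lit 133) (nat_lit 1) (nat_lit 131) (nat_lit 1) (nat_lit 132) (nat_lit 1) (nat_lit 259) (nat_lit 442) (nat_lit 319)) (XT.nd (nat_lit 78) (nat_lit 76) (nat_lit 0) (XT.lf (nat_lit 0) (nat_lit 19737372824) (nat_lit 0) (nat_lit 22716748576) (nat_lit 152) (nat_lit 19737372824) (nat_lit 131) (nat_lit 3) (nat_lit 131) (nat_lit 1) (nat_lit 133) (nat_lit 1) (nat_lit 260) (nat_lit 442) (nat_lit 318)) (XT.lf (nat_lit 76) (nat_lit 18503705290) (nat_lit 0) (nat_lit 21341206006) (nat_lit 76) (nat_lit 21341206006) (nat_lit 131) (nat_lit 3) (nat_lit 130) (nat_lit 1) (nat_lit 131) (nat_lit 1) (nat_lit 261) (nat_lit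 442) (nat_lit 317)))) (XT.nd (nat_lit 78) (nat_lit 76) (nat_lit 0) (XT.lf (nat_lit 152) (nat_lit 58467908614) (nat_lit 0) (nat_lit 871736011) (nat_lit 76) (nat_lit 871736011) (nat_lit 130) (nat_lit 1) (nat_lit 128) (nat_lit 1) (nat_lit 129) (nat_lit 1) (nat_lit 262) (nat_lit 442) (nat_lit 316)) (XT.nd (nat_lit 78) (nat_lit 76) (nat_lit 0) (XT.lf (nat_lit 0) (nat_lit 18924173637) (nat_lit 0) (nat_lit 21375313441) (nat_lit 152) (nat_lit 18924173637) (nat_lit 128) (nat_lit 3) (nat_lit 128) (nat_lit 1) (nat_lit 130) (nat_lit 1) (nat_lit 263) (nat_lit 442) (nat_lit 315)) (XT.lf (nat_lit 76) (nat_lit 17865906687) (nat_lit 0) (nat_lit 20200325549) (nat_lit 76) (nat_lit 20200325549) (nat_lit 128) (nat_lit 3) (nat_lit 127) (nat_lit 1) (nat_lit 128) (nat_lit 1) (nat_lit 264) (nat_lit 442) (nat_lit 314))))) (XT.nd (nat_lit 234) (nat_lit 380) (nat_lit 0) (XT.nd (nat_lit 78) (nat_lit 76) (nat_lit 0) (XT.lf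 (nat_lit 152) (nat_lit 55904430172) (nat_lit 0) (nat_lit 717179373) (nat_lit 76) (nat_lit 717179373) (nat_lit 127) (nat_lit 1) (nat_lit 125) (nat_lit 1) (nat_lit 126) (nat_lit 1) (nat_lit 265) (nat_lit 442) (nat_lit 313)) (XT.nd (nat_lit 78) (nat_lit 76) (nat_lit 0) (XT.lf (nat_lit 0) (nat_lit 18127238930) (nat_lit 0) (nat_lit 20143797713) (nat_lit 152) (nat_lit 18127238930) (nat_lit 125) (nat_lit 3) (nat_lit 125) (nat_lit 1) (nat_lit 127) (nat_lit 1) (nat_lit 266) (nat_lit 442) (nat_lit 312)) (XT.lf (nat_lit 76) (nat_lit 17215337601) (nat_lit 0) (nat_lit 19135869775) (nat_lit 76) (nat_lit 19135869775) (nat_lit 125) (nat_lit 3) (nat_lit 124) (nat_lit 1) (nat_lit 125) (nat_lit 1) (nat_lit 267) (nat_lit 442) (nat_lit 311)))) (XT.nd (nat_lit 156) (nat_lit 228) (nat_lit 0) (XT.nd (nat_lit 78) (nat_lit 0) (nat_lit 0) (XT.lf (nat_lit 152) (nat_lit 53423891207) (nat_lit 0) (nat_lit 590025245) (nat_lit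 76) (nat_lit 590025245) (nat_lit 124) (nat_lit 1) (nat_lit 122) (nat_lit 1) (nat_lit 123) (nat_lit 1) (nat_lit 268) (nat_lit 442) (nat_lit 310)) (XT.lf (nat_lit 0) (nat_lit 17349776182) (nat_lit 0) (nat_lit 19008804084) (nat_lit 152) (nat_lit 17349776182) (nat_lit 122) (nat_lit 3) (nat_lit 122) (nat_lit 1) (nat_lit 124) (nat_lit 1) (nat_lit 269) (nat_lit 442) (nat_lit 309))) (XT.nd (nat_lit 78) (nat_lit 152) (nat_lit 0) (XT.lf (nat_lit 76) (nat_lit 16560255091) (nat_lit 0) (nat_lit 18140281664) (nat_lit 76) (nat_lit 18140281664) (nat_lit 122) (nat_lit 3) (nat_lit 121) (nat_lit 1) (nat_lit 122) (nat_lit 1) (nat_lit 270) (nat_lit 442) (nat_lit 308)) (XT.lf (nat_lit 152) (nat_lit 51029280035) (nat_lit 0) (nat_lit 485415229) (nat_lit 76) (nat_lit 485415229) (nat_lit 121) (nat_lit 1) (nat_lit 119) (nat_lit 1) (nat_lit 120) (nat_lit 1) (nat_lit 271) (nat_lit 442) (nat_lit 307)))))) (XT.nd (nat_lit 468)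 (nat_lit 456) (nat_lit 0) (XT.nd (nat_lit 234) (nat_lit 228) (nat_lit 0) (XT.nd (nat_lit 78) (nat_lit 228) (nat_lit 0) (XT.lf (nat_lit 0) (nat_lit 16594134139) (nat_lit 0) (nat_lit 17959020499) (nat_lit 152) (nat_lit 16594134139) (nat_lit 119) (nat_lit 3) (nat_lit 119) (nat_lit 1) (nat_lit 121) (nat_lit 1) (nat_lit 272) (nat_lit 442) (nat_lit 306)) (XT.nd (nat_lit 78) (nat_lit 152) (nat_lit 0) (XT.lf (nat_lit 76) (nat_lit 15907166887) (nat_lit 0) (nat_lit 17207058659) (nat_lit 76) (nat_lit 17207058659) (nat_lit 119) (nat_lit 3) (nat_lit 118) (nat_lit 1) (nat_lit 119) (nat_lit 1) (nat_lit 273) (nat_lit 442) (nat_lit 305)) (XT.lf (nat_lit 152) (nat_lit 48722212616) (nat_lit 0) (nat_lit 399352310) (nat_lit 76) (nat_lit 399352310) (nat_lit 118) (nat_lit 1) (nat_lit 116) (nat_lit 1) (nat_lit 117) (nat_lit 1) (nat_lit 274) (nat_lit 442) (nat_lit 304)))) (XT.nd (nat_lit 78) (nat_lit 228) (nat_lit 0) (XT.lf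 (nat_lit 0) (nat_lit 15861968877) (nat_lit 0) (nat_lit 16984864263) (nat_lit 152) (nat_lit 15861968877) (nat_lit 116) (nat_lit 3) (nat_lit 116) (nat_lit 1) (nat_lit 118) (nat_lit 1) (nat_lit 275) (nat_lit 442) (nat_lit 303)) (XT.nd (nat_lit 78) (nat_lit 152) (nat_lit 0) (XT.lf (nat_lit 76) (nat_lit 15261155128) (nat_lit 0) (nat_lit 16330579305) (nat_lit 76) (nat_lit 16330579305) (nat_lit 116) (nat_lit 3) (nat_lit 115) (nat_lit 1) (nat_lit 116) (nat_lit 1) (nat_lit 276) (nat_lit 442) (nat_lit 302)) (XT.lf (nat_lit 152) (nat_lit 46503215986) (nat_lit 0) (nat_lit 328548134) (nat_lit 76) (nat_lit 328548134) (nat_lit 115) (nat_lit 1) (nat_lit 113) (nat_lit 1) (nat_lit 114) (nat_lit 1) (nat_lit 277) (nat_lit 442) (nat_lit 301))))) (XT.nd (nat_lit 234) (nat_lit 228) (nat_lit 0) (XT.nd (nat_lit 78) (nat_lit 228) (nat_lit 0) (XT.lf (nat_lit 0) (nat_lit 15154379768) (nat_lit 0) (nat_lit 16078188581) (nat_lit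 152) (nat_lit 15154379768) (nat_lit 113) (nat_lit 3) (nat_lit 113) (nat_lit 1) (nat_lit 115) (nat_lit 1) (nat_lit 278) (nat_lit 442) (nat_lit 300)) (XT.nd (nat_lit 78) (nat_lit 152) (nat_lit 0) (XT.lf (nat_lit 76) (nat_lit 14626142056) (nat_lit 0) (nat_lit 15505959974) (nat_lit 76) (nat_lit 15505959974) (nat_lit 113) (nat_lit 3) (nat_lit 112) (nat_lit 1) (nat_lit 113) (nat_lit 1) (nat_lit 279) (nat_lit 442) (nat_lit 299)) (XT.lf (nat_lit 152) (nat_lit 44371959534) (nat_lit 0) (nat_lit 270297363) (nat_lit 76) (nat_lit 270297363) (nat_lit 112) (nat_lit 1) (nat_lit 110) (nat_lit 1) (nat_lit 111) (nat_lit 1) (nat_lit 280) (nat_lit 442) (nat_lit 298)))) (XT.nd (nat_lit 156) (nat_lit 152) (nat_lit 0) (XT.nd (nat_lit 78) (nat_lit 76) (nat_lit 0) (XT.lf (nat_lit 0) (nat_lit 14472020708) (nat_lit 0) (nat_lit 15232040505) (nat_lit 152) (nat_lit 14472020708) (nat_lit 110) (nat_lit 3) (nat_lit 110) (nat_lit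 1) (nat_lit 112) (nat_lit 1) (nat_lit 281) (nat_lit 442) (nat_lit 297)) (XT.lf (nat_lit 76) (nat_lit 14005107994) (nat_lit 0) (nat_lit 14728936372) (nat_lit 76) (nat_lit 14728936372) (nat_lit 110) (nat_lit 3) (nat_lit 109) (nat_lit 1) (nat_lit 110) (nat_lit 1) (nat_lit 282) (nat_lit 442) (nat_lit 296))) (XT.nd (nat_lit 78) (nat_lit 0) (nat_lit 0) (XT.lf (nat_lit 152) (nat_lit 42327443450) (nat_lit 0) (nat_lit 222374309) (nat_lit 76) (nat_lit 222374309) (nat_lit 109) (nat_lit 1) (nat_lit 107) (nat_lit 1) (nat_lit 108) (nat_lit 1) (nat_lit 283) (nat_lit 442) (nat_lit 295)) (XT.lf (nat_lit 0) (nat_lit 13815191032) (nat_lit 0) (nat_lit 14440461200) (nat_lit 152) (nat_lit 13815191032) (nat_lit 107) (nat_lit 3) (nat_lit 107) (nat_lit 1) (nat_lit 109) (nat_lit 1) (nat_lit 284) (nat_lit 442) (nat_lit 294))))))))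
noncomputable def ec474 : XT := (XT.nd (nat_lit 1950) (nat_lit 1976) (nat_lit 0) (XT.nd (nat_lit 936) (nat_lit 988) (nat_lit 0) (XT.nd (nat_lit 468) (nat_lit 456) (nat_lit 0) (XT.nd (nat_lit 234) (nat_lit 228) (nat_lit 0) (XT.nd (nat_lit 78) (nat_lit 152) (nat_lit 0) (XT.lf (nat_lit 76) (nat_lit 13400270081) (nat_lit 0) (nat_lit 13995765479) (nat_lit 76) (nat_lit 13995765479) (nat_lit 107) (nat_lit 3) (nat_lit 106) (nat_lit 1) (nat_lit 107) (nat_lit 1) (nat_lit 285) (nat_lit 442) (nat_lit 293)) (XT.nd (nat_lit 78) (nat_lit 0) (nat_lit 0) (XT.lf (nat_lit 152) (nat_lit 40368152031) (nat_lit 0) (nat_lit 182947894) (nat_lit 76) (nat_lit 182947894) (nat_lit 106) (nat_lit 1) (nat_lit 104) (nat_lit 1) (nat_lit 105) (nat_lit 1) (nat_lit 286) (nat_lit 442) (nat_lit 292)) (XT.lf (nat_lit 0) (nat_lit 13183909738) (nat_lit 0) (nat_lit 13698321052) (nat_lit 152) (nat_lit 13183909738) (nat_lit 104) (nat_lit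 3) (nat_lit 104) (nat_lit 1) (nat_lit 106) (nat_lit 1) (nat_lit 287) (nat_lit 442) (nat_lit 291)))) (XT.nd (nat_lit 78) (nat_lit 152) (nat_lit 0) (XT.lf (nat_lit 76) (nat_lit 12813228762) (nat_lit 0) (nat_lit 13303144300) (nat_lit 76) (nat_lit 13303144300) (nat_lit 104) (nat_lit 3) (nat_lit 103) (nat_lit 1) (nat_lit 104) (nat_lit 1) (nat_lit 288) (nat_lit 442) (nat_lit 290)) (XT.nd (nat_lit 78) (nat_lit 0) (nat_lit 0) (XT.lf (nat_lit 152) (nat_lit 38492178152) (nat_lit 0) (nat_lit 150511685) (nat_lit 76) (nat_lit 150511685) (nat_lit 103) (nat_lit 1) (nat_lit 101) (nat_lit 1) (nat_lit 102) (nat_lit 1) (nat_lit 289) (nat_lit 442) (nat_lit 289)) (XT.lf (nat_lit 0) (nat_lit 12577976013) (nat_lit 0) (nat_lit 13001183474) (nat_lit 152) (nat_lit 12577976013) (nat_lit 101) (nat_lit 3) (nat_lit 101) (nat_lit 1) (nat_lit 103) (nat_lit 1) (nat_lit 290) (nat_lit 442) (nat_lit 288))))) (XT.nd (nat_lit 234)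 (nat_lit 228) (nat_lit 0) (XT.nd (nat_lit 78) (nat_lit 152) (nat_lit 0) (XT.lf (nat_lit 76) (nat_lit 12245087778) (nat_lit 0) (nat_lit 12648142504) (nat_lit 76) (nat_lit 12648142504) (nat_lit 101) (nat_lit 3) (nat_lit 100) (nat_lit 1) (nat_lit 101) (nat_lit 1) (nat_lit 291) (nat_lit 442) (nat_lit 287)) (XT.nd (nat_lit 78) (nat_lit 0) (nat_lit 0) (XT.lf (nat_lit 152) (nat_lit 36697324106) (nat_lit 0) (nat_lit 123826336) (nat_lit 76) (nat_lit 123826336) (nat_lit 100) (nat_lit 1) (nat_lit 98) (nat_lit 1) (nat_lit 99) (nat_lit 1) (nat_lit 292) (nat_lit 442) (nat_lit 286)) (XT.lf (nat_lit 0) (nat_lit 11997018511) (nat_lit 0) (nat_lit 12345192337) (nat_lit 152) (nat_lit 11997018511) (nat_lit 98) (nat_lit 3) (nat_lit 98) (nat_lit 1) (nat_lit 100) (nat_lit 1) (nat_lit 293) (nat_lit 442) (nat_lit 285)))) (XT.nd (nat_lit 78) (nat_lit 152) (nat_lit 0) (XT.lf (nat_lit 76) (nat_lit 11696552368) (nat_lit 0)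 (nat_lit 12028146488) (nat_lit 76) (nat_lit 12028146488) (nat_lit 98) (nat_lit 3) (nat_lit 97) (nat_lit 1) (nat_lit 98) (nat_lit 1) (nat_lit 294) (nat_lit 442) (nat_lit 284)) (XT.nd (nat_lit 78) (nat_lit 0) (nat_lit 0) (XT.lf (nat_lit 152) (nat_lit 34981183055) (nat_lit 0) (nat_lit 101872233) (nat_lit 76) (nat_lit 101872233) (nat_lit 97) (nat_lit 1) (nat_lit 95) (nat_lit 1) (nat_lit 96) (nat_lit 1) (nat_lit 295) (nat_lit 442) (nat_lit 283)) (XT.lf (nat_lit 0) (nat_lit 11440535408) (nat_lit 0) (nat_lit 11726978876) (nat_lit 152) (nat_lit 11440535408) (nat_lit 95) (nat_lit 3) (nat_lit 95) (nat_lit 1) (nat_lit 97) (nat_lit 1) (nat_lit 296) (nat_lit 442) (nat_lit 282)))))) (XT.nd (nat_lit 468) (nat_lit 532) (nat_lit 0) (XT.nd (nat_lit 234) (nat_lit 228) (nat_lit 0) (XT.nd (nat_lit 78) (nat_lit 152) (nat_lit 0) (XT.lf (nat_lit 76) (nat_lit 11168009578) (nat_lit 0) (nat_lit 11440812881) (nat_lit 76)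 (nat_lit 11440812881) (nat_lit 95) (nat_lit 3) (nat_lit 94) (nat_lit 1) (nat_lit 95) (nat_lit 1) (nat_lit 297) (nat_lit 442) (nat_lit 281)) (XT.nd (nat_lit 78) (nat_lit 0) (nat_lit 0) (XT.lf (nat_lit 152) (nat_lit 33341204628) (nat_lit 0) (nat_lit 83810538) (nat_lit 76) (nat_lit 83810538) (nat_lit 94) (nat_lit 1) (nat_lit 92) (nat_lit 1) (nat_lit 93) (nat_lit 1) (nat_lit 298) (nat_lit 442) (nat_lit 280)) (XT.lf (nat_lit 0) (nat_lit 10907926877) (nat_lit 0) (nat_lit 11143584628) (nat_lit 152) (nat_lit 10907926877) (nat_lit 92) (nat_lit 3) (nat_lit 92) (nat_lit 1) (nat_lit 94) (nat_lit 1) (nat_lit 299) (nat_lit 442) (nat_lit 279)))) (XT.nd (nat_lit 78) (nat_lit 152) (nat_lit 0) (XT.lf (nat_lit 76) (nat_lit 10659593878) (nat_lit 0) (nat_lit 10884029831) (nat_lit 76) (nat_lit 10884029831) (nat_lit 92) (nat_lit 3) (nat_lit 91) (nat_lit 1) (nat_lit 92) (nat_lit 1) (nat_lit 300) (nat_lit 442) (nat_lit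 278)) (XT.nd (nat_lit 78) (nat_lit 0) (nat_lit 0) (XT.lf (nat_lit 152) (nat_lit 31774747519) (nat_lit 0) (nat_lit 68951137) (nat_lit 76) (nat_lit 68951137) (nat_lit 91) (nat_lit 1) (nat_lit 89) (nat_lit 1) (nat_lit 90) (nat_lit 1) (nat_lit 301) (nat_lit 442) (nat_lit 277)) (XT.lf (nat_lit 0) (nat_lit 10398521374) (nat_lit 0) (nat_lit 10592397589) (nat_lit 152) (nat_lit 10398521374) (nat_lit 89) (nat_lit 3) (nat_lit 89) (nat_lit 1) (nat_lit 91) (nat_lit 1) (nat_lit 302) (nat_lit 442) (nat_lit 276))))) (XT.nd (nat_lit 234) (nat_lit 304) (nat_lit 0) (XT.nd (nat_lit 78) (nat_lit 152) (nat_lit 0) (XT.lf (nat_lit 76) (nat_lit 10171240702) (nat_lit 0) (nat_lit 10355884716) (nat_lit 76) (nat_lit 10355884716) (nat_lit 89) (nat_lit 3) (nat_lit 88) (nat_lit 1) (nat_lit 89) (nat_lit 1) (nat_lit 303) (nat_lit 442) (nat_lit 275)) (XT.nd (nat_lit 78) (nat_lit 0) (nat_lit 0) (XT.lf (nat_lit 152) (nat_lit 30279121476)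 (nat_lit 0) (nat_lit 56726271) (nat_lit 76) (nat_lit 56726271) (nat_lit 88) (nat_lit 1) (nat_lit 86) (nat_lit 1) (nat_lit 87) (nat_lit 1) (nat_lit 304) (nat_lit 442) (nat_lit 274)) (XT.lf (nat_lit 0) (nat_lit 9911596828) (nat_lit 0) (nat_lit 10071099269) (nat_lit 152) (nat_lit 9911596828) (nat_lit 86) (nat_lit 3) (nat_lit 86) (nat_lit 1) (nat_lit 88) (nat_lit 1) (nat_lit 305) (nat_lit 442) (nat_lit 273)))) (XT.nd (nat_lit 156) (nat_lit 76) (nat_lit 0) (XT.nd (nat_lit 78) (nat_lit 152) (nat_lit 0) (XT.lf (nat_lit 76) (nat_lit 9702730077) (nat_lit 0) (nat_lit 9854637164) (nat_lit 76) (nat_lit 9854637164) (nat_lit 86) (nat_lit 3) (nat_lit 85) (nat_lit 1) (nat_lit 86) (nat_lit 1) (nat_lit 306) (nat_lit 442) (nat_lit 272)) (XT.lf (nat_lit 152) (nat_lit 28851620608) (nat_lit 0) (nat_lit 46668843) (nat_lit 76) (nat_lit 46668843) (nat_lit 85) (nat_lit 1) (nat_lit 83) (nat_lit 1) (nat_lit 84) (nat_lit 1)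 (nat_lit 307) (nat_lit 442) (nat_lit 271))) (XT.nd (nat_lit 78) (nat_lit 76) (nat_lit 0) (XT.lf (nat_lit 0) (nat_lit 9446397677) (nat_lit 0) (nat_lit 9577620730) (nat_lit 152) (nat_lit 9446397677) (nat_lit 83) (nat_lit 3) (nat_lit 83) (nat_lit 1) (nat_lit 85) (nat_lit 1) (nat_lit 308) (nat_lit 442) (nat_lit 270)) (XT.lf (nat_lit 76) (nat_lit 9253722122) (nat_lit 0) (nat_lit 9378696459) (nat_lit 76) (nat_lit 9378696459) (nat_lit 83) (nat_lit 3) (nat_lit 82) (nat_lit 1) (nat_lit 83) (nat_lit 1) (nat_lit 309) (nat_lit 442) (nat_lit 269))))))) (XT.nd (nat_lit 936) (nat_lit 1064) (nat_lit 0) (XT.nd (nat_lit 468) (nat_lit 456) (nat_lit 0) (XT.nd (nat_lit 234) (nat_lit 228) (nat_lit 0) (XT.nd (nat_lit 78) (nat_lit 76) (nat_lit 0) (XT.lf (nat_lit 152) (nat_lit 27489549614) (nat_lit 0) (nat_lit 38394573) (nat_lit 76) (nat_lit 38394573) (nat_lit 82) (nat_lit 1) (nat_lit 80) (nat_lit 1) (nat_lit 81) (nat_lit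 1) (nat_lit 310) (nat_lit 442) (nat_lit 268)) (XT.nd (nat_lit 78) (nat_lit 76) (nat_lit 0) (XT.lf (nat_lit 0) (nat_lit 9002148497) (nat_lit 0) (nat_lit 9110106028) (nat_lit 152) (nat_lit 9002148497) (nat_lit 80) (nat_lit 3) (nat_lit 80) (nat_lit 1) (nat_lit 82) (nat_lit 1) (nat_lit 311) (nat_lit 442) (nat_lit 267)) (XT.lf (nat_lit 76) (nat_lit 8823785877) (nat_lit 0) (nat_lit 8926602573) (nat_lit 76) (nat_lit 8926602573) (nat_lit 80) (nat_lit 3) (nat_lit 79) (nat_lit 1) (nat_lit 80) (nat_lit 1) (nat_lit 312) (nat_lit 442) (nat_lit 266)))) (XT.nd (nat_lit 78) (nat_lit 76) (nat_lit 0) (XT.lf (nat_lit 152) (nat_lit 26190244248) (nat_lit 0) (nat_lit 31587310) (nat_lit 76) (nat_lit 31587310) (nat_lit 79) (nat_lit 1) (nat_lit 77) (nat_lit 1) (nat_lit 78) (nat_lit 1) (nat_lit 313) (nat_lit 442) (nat_lit 265)) (XT.nd (nat_lit 78) (nat_lit 76) (nat_lit 0) (XT.lf (nat_lit 0) (nat_lit 8578064847) (nat_lit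 0) (nat_lit 8666881775) (nat_lit 152) (nat_lit 8578064847) (nat_lit 77) (nat_lit 3) (nat_lit 77) (nat_lit 1) (nat_lit 79) (nat_lit 1) (nat_lit 314) (nat_lit 442) (nat_lit 264)) (XT.lf (nat_lit 76) (nat_lit 8412422656) (nat_lit 0) (nat_lit 8497010206) (nat_lit 76) (nat_lit 8497010206) (nat_lit 77) (nat_lit 3) (nat_lit 76) (nat_lit 1) (nat_lit 77) (nat_lit 1) (nat_lit 315) (nat_lit 442) (nat_lit 263))))) (XT.nd (nat_lit 234) (nat_lit 228) (nat_lit 0) (XT.nd (nat_lit 78) (nat_lit 76) (nat_lit 0) (XT.lf (nat_lit 152) (nat_lit 24951087092) (nat_lit 0) (nat_lit 25986958) (nat_lit 76) (nat_lit 25986958) (nat_lit 76) (nat_lit 1) (nat_lit 74) (nat_lit 1) (nat_lit 75) (nat_lit 1) (nat_lit 316) (nat_lit 442) (nat_lit 262)) (XT.nd (nat_lit 78) (nat_lit 76) (nat_lit 0) (XT.lf (nat_lit 0) (nat_lit 8173361845) (nat_lit 0) (nat_lit 8246431751) (nat_lit 152) (nat_lit 8173361845) (nat_lit 74) (nat_lit 3) (nat_lit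 74) (nat_lit 1) (nat_lit 76) (nat_lit 1) (nat_lit 317) (nat_lit 442) (nat_lit 261)) (XT.lf (nat_lit 76) (nat_lit 8019084916) (nat_lit 0) (nat_lit 8088675303) (nat_lit 76) (nat_lit 8088675303) (nat_lit 74) (nat_lit 3) (nat_lit 73) (nat_lit 1) (nat_lit 74) (nat_lit 1) (nat_lit 318) (nat_lit 442) (nat_lit 260)))) (XT.nd (nat_lit 78) (nat_lit 76) (nat_lit 0) (XT.lf (nat_lit 152) (nat_lit 23769519512) (nat_lit 0) (nat_lit 21379535) (nat_lit 76) (nat_lit 21379535) (nat_lit 73) (nat_lit 1) (nat_lit 71) (nat_lit 1) (nat_lit 72) (nat_lit 1) (nat_lit 319) (nat_lit 442) (nat_lit 259)) (XT.nd (nat_lit 78) (nat_lit 76) (nat_lit 0) (XT.lf (nat_lit 0) (nat_lit 7787260890) (nat_lit 0) (nat_lit 7847375683) (nat_lit 152) (nat_lit 7787260890) (nat_lit 71) (nat_lit 3) (nat_lit 71) (nat_lit 1) (nat_lit 73) (nat_lit 1) (nat_lit 320) (nat_lit 442) (nat_lit 258)) (XT.lf (nat_lit 76) (nat_lit 7643191462) (nat_lit 0) (nat_lit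 7700443645) (nat_lit 76) (nat_lit 7700443645) (nat_lit 71) (nat_lit 3) (nat_lit 70) (nat_lit 1) (nat_lit 71) (nat_lit 1) (nat_lit 321) (nat_lit 442) (nat_lit 257)))))) (XT.nd (nat_lit 468) (nat_lit 608) (nat_lit 0) (XT.nd (nat_lit 234) (nat_lit 228) (nat_lit 0) (XT.nd (nat_lit 78) (nat_lit 76) (nat_lit 0) (XT.lf (nat_lit 152) (nat_lit 22643050540) (nat_lit 0) (nat_lit 17588996) (nat_lit 76) (nat_lit 17588996) (nat_lit 70) (nat_lit 1) (nat_lit 68) (nat_lit 1) (nat_lit 69) (nat_lit 1) (nat_lit 322) (nat_lit 442) (nat_lit 256)) (XT.nd (nat_lit 78) (nat_lit 76) (nat_lit 0) (XT.lf (nat_lit 0) (nat_lit 7418994876) (nat_lit 0) (nat_lit 7468451465) (nat_lit 152) (nat_lit 7418994876) (nat_lit 68) (nat_lit 3) (nat_lit 68) (nat_lit 1) (nat_lit 70) (nat_lit 1) (nat_lit 323) (nat_lit 442) (nat_lit 255)) (XT.lf (nat_lit 76) (nat_lit 7284139632) (nat_lit 0) (nat_lit 7331241145) (nat_lit 76) (nat_lit 7331241145)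 (nat_lit 68) (nat_lit 3) (nat_lit 67) (nat_lit 1) (nat_lit 68) (nat_lit 1) (nat_lit 324) (nat_lit 442) (nat_lit 254)))) (XT.nd (nat_lit 78) (nat_lit 76) (nat_lit 0) (XT.lf (nat_lit 152) (nat_lit 21569263251) (nat_lit 0) (nat_lit 14470510) (nat_lit 76) (nat_lit 14470510) (nat_lit 67) (nat_lit 1) (nat_lit 65) (nat_lit 1) (nat_lit 66) (nat_lit 1) (nat_lit 325) (nat_lit 442) (nat_lit 253)) (XT.nd (nat_lit 78) (nat_lit 76) (nat_lit 0) (XT.lf (nat_lit 0) (nat_lit 7067812178) (nat_lit 0) (nat_lit 7108500236) (nat_lit 152) (nat_lit 7067812178) (nat_lit 65) (nat_lit 3) (nat_lit 65) (nat_lit 1) (nat_lit 67) (nat_lit 1) (nat_lit 326) (nat_lit 442) (nat_lit 252)) (XT.lf (nat_lit 76) (nat_lit 6941315036) (nat_lit 0) (nat_lit 6980065567) (nat_lit 76) (nat_lit 6980065567) (nat_lit 65) (nat_lit 3) (nat_lit 64) (nat_lit 1) (nat_lit 65) (nat_lit 1) (nat_lit 327) (nat_lit 442) (nat_lit 251))))) (XT.nd (nat_lit 234)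 (nat_lit 380) (nat_lit 0) (XT.nd (nat_lit 78) (nat_lit 76) (nat_lit 0) (XT.lf (nat_lit 152) (nat_lit 20545819147) (nat_lit 0) (nat_lit 11904925) (nat_lit 76) (nat_lit 11904925) (nat_lit 64) (nat_lit 1) (nat_lit 62) (nat_lit 1) (nat_lit 63) (nat_lit 1) (nat_lit 328) (nat_lit 442) (nat_lit 250)) (XT.nd (nat_lit 78) (nat_lit 76) (nat_lit 0) (XT.lf (nat_lit 0) (nat_lit 6732979649) (nat_lit 0) (nat_lit 6766453815) (nat_lit 152) (nat_lit 6732979649) (nat_lit 62) (nat_lit 3) (nat_lit 62) (nat_lit 1) (nat_lit 64) (nat_lit 1) (nat_lit 329) (nat_lit 442) (nat_lit 249)) (XT.lf (nat_lit 76) (nat_lit 6614099281) (nat_lit 0) (nat_lit 6645979439) (nat_lit 76) (nat_lit 6645979439) (nat_lit 62) (nat_lit 3) (nat_lit 61) (nat_lit 1) (nat_lit 62) (nat_lit 1) (nat_lit 330) (nat_lit 442) (nat_lit 248)))) (XT.nd (nat_lit 156) (nat_lit 228) (nat_lit 0) (XT.nd (nat_lit 78) (nat_lit 0) (nat_lit 0) (XT.lf (nat_lit 152) (nat_lit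 19570460917) (nat_lit 0) (nat_lit 9794211) (nat_lit 76) (nat_lit 9794211) (nat_lit 61) (nat_lit 1) (nat_lit 59) (nat_lit 1) (nat_lit 60) (nat_lit 1) (nat_lit 331) (nat_lit 442) (nat_lit 247)) (XT.lf (nat_lit 0) (nat_lit 6413784809) (nat_lit 0) (nat_lit 6441324089) (nat_lit 152) (nat_lit 6413784809) (nat_lit 59) (nat_lit 3) (nat_lit 59) (nat_lit 1) (nat_lit 61) (nat_lit 1) (nat_lit 332) (nat_lit 442) (nat_lit 246))) (XT.nd (nat_lit 78) (nat_lit 152) (nat_lit 0) (XT.lf (nat_lit 76) (nat_lit 6301876059) (nat_lit 0) (nat_lit 6328103944) (nat_lit 76) (nat_lit 6328103944) (nat_lit 59) (nat_lit 3) (nat_lit 58) (nat_lit 1) (nat_lit 59) (nat_lit 1) (nat_lit 333) (nat_lit 442) (nat_lit 245)) (XT.lf (nat_lit 152) (nat_lit 18641013923) (nat_lit 0) (nat_lit 8057721) (nat_lit 76) (nat_lit 8057721) (nat_lit 58) (nat_lit 1) (nat_lit 56) (nat_lit 1) (nat_lit 57) (nat_lit 1) (nat_lit 334) (nat_lit 442) (nat_lit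 244))))))))
noncomputable def ec475 : XT := (XT.nd (nat_lit 1950) (nat_lit 2052) (nat_lit 0) (XT.nd (nat_lit 936) (nat_lit 912) (nat_lit 0) (XT.nd (nat_lit 468) (nat_lit 456) (nat_lit 0) (XT.nd (nat_lit 234) (nat_lit 228) (nat_lit 0) (XT.nd (nat_lit 78) (nat_lit 228) (nat_lit 0) (XT.lf (nat_lit 0) (nat_lit 6109537387) (nat_lit 0) (nat_lit 6132194020) (nat_lit 152) (nat_lit 6109537387) (nat_lit 56) (nat_lit 3) (nat_lit 56) (nat_lit 1) (nat_lit 58) (nat_lit 1) (nat_lit 335) (nat_lit 442) (nat_lit 243)) (XT.nd (nat_lit 78) (nat_lit 152) (nat_lit 0) (XT.lf (nat_lit 76) (nat_lit 6004035899) (nat_lit 0) (nat_lit 6025613644) (nat_lit 76) (nat_lit 6025613644) (nat_lit 56) (nat_lit 3) (nat_lit 55) (nat_lit 1) (nat_lit 56) (nat_lit 1) (nat_lit 336) (nat_lit 442) (nat_lit 242)) (XT.lf (nat_lit 152) (nat_lit 17755386662) (nat_lit 0) (nat_lit 6629107) (nat_lit 76) (nat_lit 6629107) (nat_lit 55) (nat_lit 1)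 (nat_lit 53) (nat_lit 1) (nat_lit 54) (nat_lit 1) (nat_lit 337) (nat_lit 442) (nat_lit 241)))) (XT.nd (nat_lit 78) (nat_lit 228) (nat_lit 0) (XT.lf (nat_lit 0) (nat_lit 5819570340) (nat_lit 0) (nat_lit 5838210008) (nat_lit 152) (nat_lit 5819570340) (nat_lit 53) (nat_lit 3) (nat_lit 53) (nat_lit 1) (nat_lit 55) (nat_lit 1) (nat_lit 338) (nat_lit 442) (nat_lit 240)) (XT.nd (nat_lit 78) (nat_lit 152) (nat_lit 0) (XT.lf (nat_lit 76) (nat_lit 5719979829) (nat_lit 0) (nat_lit 5737731894) (nat_lit 76) (nat_lit 5737731894) (nat_lit 53) (nat_lit 3) (nat_lit 52) (nat_lit 1) (nat_lit 53) (nat_lit 1) (nat_lit 339) (nat_lit 442) (nat_lit 239)) (XT.lf (nat_lit 152) (nat_lit 16911570428) (nat_lit 0) (nat_lit 5453783) (nat_lit 76) (nat_lit 5453783) (nat_lit 52) (nat_lit 1) (nat_lit 50) (nat_lit 1) (nat_lit 51) (nat_lit 1) (nat_lit 340) (nat_lit 442) (nat_lit 238))))) (XT.nd (nat_lit 234) (nat_lit 228) (nat_lit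 0) (XT.nd (nat_lit 78) (nat_lit 228) (nat_lit 0) (XT.lf (nat_lit 0) (nat_lit 5543240455) (nat_lit 0) (nat_lit 5558575356) (nat_lit 152) (nat_lit 5543240455) (nat_lit 50) (nat_lit 3) (nat_lit 50) (nat_lit 1) (nat_lit 52) (nat_lit 1) (nat_lit 341) (nat_lit 442) (nat_lit 237)) (XT.nd (nat_lit 78) (nat_lit 152) (nat_lit 0) (XT.lf (nat_lit 76) (nat_lit 5449122168) (nat_lit 0) (nat_lit 5463726836) (nat_lit 76) (nat_lit 5463726836) (nat_lit 50) (nat_lit 3) (nat_lit 49) (nat_lit 1) (nat_lit 50) (nat_lit 1) (nat_lit 342) (nat_lit 442) (nat_lit 236)) (XT.lf (nat_lit 152) (nat_lit 16107638349) (nat_lit 0) (nat_lit 4486841) (nat_lit 76) (nat_lit 4486841) (nat_lit 49) (nat_lit 1) (nat_lit 47) (nat_lit 1) (nat_lit 48) (nat_lit 1) (nat_lit 343) (nat_lit 442) (nat_lit 235)))) (XT.nd (nat_lit 78) (nat_lit 228) (nat_lit 0) (XT.lf (nat_lit 0) (nat_lit 5279928626) (nat_lit 0) (nat_lit 5292544687) (nat_lit 152) (nat_lit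 5279928626) (nat_lit 47) (nat_lit 3) (nat_lit 47) (nat_lit 1) (nat_lit 49) (nat_lit 1) (nat_lit 344) (nat_lit 442) (nat_lit 234)) (XT.nd (nat_lit 78) (nat_lit 152) (nat_lit 0) (XT.lf (nat_lit 76) (nat_lit 5190892585) (nat_lit 0) (nat_lit 5202907881) (nat_lit 76) (nat_lit 5202907881) (nat_lit 47) (nat_lit 3) (nat_lit 46) (nat_lit 1) (nat_lit 47) (nat_lit 1) (nat_lit 345) (nat_lit 442) (nat_lit 233)) (XT.lf (nat_lit 152) (nat_lit 15341743938) (nat_lit 0) (nat_lit 3691335) (nat_lit 76) (nat_lit 3691335) (nat_lit 46) (nat_lit 1) (nat_lit 44) (nat_lit 1) (nat_lit 45) (nat_lit 1) (nat_lit 346) (nat_lit 442) (nat_lit 232)))))) (XT.nd (nat_lit 468) (nat_lit 456) (nat_lit 0) (XT.nd (nat_lit 234) (nat_lit 228) (nat_lit 0) (XT.nd (nat_lit 78) (nat_lit 228) (nat_lit 0) (XT.lf (nat_lit 0) (nat_lit 5029039857) (nat_lit 0) (nat_lit 5039419122) (nat_lit 152) (nat_lit 5029039857) (nat_lit 44) (nat_lit 3) (nat_lit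 44) (nat_lit 1) (nat_lit 46) (nat_lit 1) (nat_lit 347) (nat_lit 442) (nat_lit 231)) (XT.nd (nat_lit 78) (nat_lit 152) (nat_lit 0) (XT.lf (nat_lit 76) (nat_lit 4944737597) (nat_lit 0) (nat_lit 4954622611) (nat_lit 76) (nat_lit 4954622611) (nat_lit 44) (nat_lit 3) (nat_lit 43) (nat_lit 1) (nat_lit 44) (nat_lit 1) (nat_lit 348) (nat_lit 442) (nat_lit 230)) (XT.lf (nat_lit 152) (nat_lit 14612119282) (nat_lit 0) (nat_lit 3036870) (nat_lit 76) (nat_lit 3036870) (nat_lit 43) (nat_lit 1) (nat_lit 41) (nat_lit 1) (nat_lit 42) (nat_lit 1) (nat_lit 349) (nat_lit 442) (nat_lit 229)))) (XT.nd (nat_lit 78) (nat_lit 228) (nat_lit 0) (XT.lf (nat_lit 0) (nat_lit 4790003070) (nat_lit 0) (nat_lit 4798542116) (nat_lit 152) (nat_lit 4790003070) (nat_lit 41) (nat_lit 3) (nat_lit 41) (nat_lit 1) (nat_lit 43) (nat_lit 1) (nat_lit 350) (nat_lit 442) (nat_lit 228)) (XT.nd (nat_lit 78) (nat_lit 152) (nat_lit 0) (XT.lf (nat_lit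 76) (nat_lit 4710121593) (nat_lit 0) (nat_lit 4718254018) (nat_lit 76) (nat_lit 4718254018) (nat_lit 41) (nat_lit 3) (nat_lit 40) (nat_lit 1) (nat_lit 41) (nat_lit 1) (nat_lit 351) (nat_lit 442) (nat_lit 227)) (XT.lf (nat_lit 152) (nat_lit 13917072958) (nat_lit 0) (nat_lit 2498441) (nat_lit 76) (nat_lit 2498441) (nat_lit 40) (nat_lit 1) (nat_lit 38) (nat_lit 1) (nat_lit 39) (nat_lit 1) (nat_lit 352) (nat_lit 442) (nat_lit 226))))) (XT.nd (nat_lit 234) (nat_lit 228) (nat_lit 0) (XT.nd (nat_lit 78) (nat_lit 228) (nat_lit 0) (XT.lf (nat_lit 0) (nat_lit 4562270745) (nat_lit 0) (nat_lit 4569295839) (nat_lit 152) (nat_lit 4562270745) (nat_lit 38) (nat_lit 3) (nat_lit 38) (nat_lit 1) (nat_lit 40) (nat_lit 1) (nat_lit 353) (nat_lit 442) (nat_lit 225)) (XT.nd (nat_lit 78) (nat_lit 152) (nat_lit 0) (XT.lf (nat_lit 76) (nat_lit 4486527485) (nat_lit 0) (nat_lit 4493218052) (nat_lit 76) (nat_lit 4493218052)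 (nat_lit 38) (nat_lit 3) (nat_lit 37) (nat_lit 1) (nat_lit 38) (nat_lit 1) (nat_lit 354) (nat_lit 442) (nat_lit 224)) (XT.lf (nat_lit 152) (nat_lit 13254987758) (nat_lit 0) (nat_lit 2055473) (nat_lit 76) (nat_lit 2055473) (nat_lit 37) (nat_lit 1) (nat_lit 35) (nat_lit 1) (nat_lit 36) (nat_lit 1) (nat_lit 355) (nat_lit 442) (nat_lit 223)))) (XT.nd (nat_lit 156) (nat_lit 152) (nat_lit 0) (XT.nd (nat_lit 78) (nat_lit 76) (nat_lit 0) (XT.lf (nat_lit 0) (nat_lit 4345318446) (nat_lit 0) (nat_lit 4351098009) (nat_lit 152) (nat_lit 4345318446) (nat_lit 35) (nat_lit 3) (nat_lit 35) (nat_lit 1) (nat_lit 37) (nat_lit 1) (nat_lit 356) (nat_lit 442) (nat_lit 222)) (XT.lf (nat_lit 76) (nat_lit 4273457070) (nat_lit 0) (nat_lit 4278961415) (nat_lit 76) (nat_lit 4278961415) (nat_lit 35) (nat_lit 3) (nat_lit 34) (nat_lit 1) (nat_lit 35) (nat_lit 1) (nat_lit 357) (nat_lit 442) (nat_lit 221))) (XT.nd (nat_lit 78)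 (nat_lit 0) (nat_lit 0) (XT.lf (nat_lit 152) (nat_lit 12624318273) (nat_lit 0) (nat_lit 1691043) (nat_lit 76) (nat_lit 1691043) (nat_lit 34) (nat_lit 1) (nat_lit 32) (nat_lit 1) (nat_lit 33) (nat_lit 1) (nat_lit 358) (nat_lit 442) (nat_lit 220)) (XT.lf (nat_lit 0) (nat_lit 4138644253) (nat_lit 0) (nat_lit 4143399114) (nat_lit 152) (nat_lit 4138644253) (nat_lit 32) (nat_lit 3) (nat_lit 32) (nat_lit 1) (nat_lit 34) (nat_lit 1) (nat_lit 359) (nat_lit 442) (nat_lit 219))))))) (XT.nd (nat_lit 1014) (nat_lit 1064) (nat_lit 0) (XT.nd (nat_lit 468) (nat_lit 532) (nat_lit 0) (XT.nd (nat_lit 234) (nat_lit 228) (nat_lit 0) (XT.nd (nat_lit 78) (nat_lit 152) (nat_lit 0) (XT.lf (nat_lit 76) (nat_lit 4070431140) (nat_lit 0) (nat_lit 4074959579) (nat_lit 76) (nat_lit 4074959579) (nat_lit 32) (nat_lit 3) (nat_lit 31) (nat_lit 1) (nat_lit 32) (nat_lit 1) (nat_lit 360) (nat_lit 442) (nat_lit 218)) (XT.nd (nat_lit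 78) (nat_lit 0) (nat_lit 0) (XT.lf (nat_lit 152) (nat_lit 12023588401) (nat_lit 0) (nat_lit 1391225) (nat_lit 76) (nat_lit 1391225) (nat_lit 31) (nat_lit 1) (nat_lit 29) (nat_lit 1) (nat_lit 30) (nat_lit 1) (nat_lit 361) (nat_lit 442) (nat_lit 217)) (XT.lf (nat_lit 0) (nat_lit 3941768120) (nat_lit 0) (nat_lit 3945679956) (nat_lit 152) (nat_lit 3941768120) (nat_lit 29) (nat_lit 3) (nat_lit 29) (nat_lit 1) (nat_lit 31) (nat_lit 1) (nat_lit 362) (nat_lit 442) (nat_lit 216)))) (XT.nd (nat_lit 78) (nat_lit 152) (nat_lit 0) (XT.lf (nat_lit 76) (nat_lit 3876989422) (nat_lit 0) (nat_lit 3880714980) (nat_lit 76) (nat_lit 3880714980) (nat_lit 29) (nat_lit 3) (nat_lit 28) (nat_lit 1) (nat_lit 29) (nat_lit 1) (nat_lit 363) (nat_lit 442) (nat_lit 215)) (XT.nd (nat_lit 78) (nat_lit 0) (nat_lit 0) (XT.lf (nat_lit 152) (nat_lit 11451388806) (nat_lit 0) (nat_lit 1144564) (nat_lit 76) (nat_lit 1144564) (nat_lit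 28) (nat_lit 1) (nat_lit 26) (nat_lit 1) (nat_lit 27) (nat_lit 1) (nat_lit 364) (nat_lit 442) (nat_lit 214)) (XT.lf (nat_lit 0) (nat_lit 3754231198) (nat_lit 0) (nat_lit 3757449475) (nat_lit 152) (nat_lit 3754231198) (nat_lit 26) (nat_lit 3) (nat_lit 26) (nat_lit 1) (nat_lit 28) (nat_lit 1) (nat_lit 365) (nat_lit 442) (nat_lit 213))))) (XT.nd (nat_lit 234) (nat_lit 304) (nat_lit 0) (XT.nd (nat_lit 78) (nat_lit 152) (nat_lit 0) (XT.lf (nat_lit 76) (nat_lit 3692690364) (nat_lit 0) (nat_lit 3695755390) (nat_lit 76) (nat_lit 3695755390) (nat_lit 26) (nat_lit 3) (nat_lit 25) (nat_lit 1) (nat_lit 26) (nat_lit 1) (nat_lit 366) (nat_lit 442) (nat_lit 212)) (XT.nd (nat_lit 78) (nat_lit 0) (nat_lit 0) (XT.lf (nat_lit 152) (nat_lit 10906374360) (nat_lit 0) (nat_lit 941636) (nat_lit 76) (nat_lit 941636) (nat_lit 25) (nat_lit 1) (nat_lit 23) (nat_lit 1) (nat_lit 24) (nat_lit 1) (nat_lit 367) (nat_lit 442) (nat_lit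 211)) (XT.lf (nat_lit 0) (nat_lit 3575595117) (nat_lit 0) (nat_lit 3578242801) (nat_lit 152) (nat_lit 3575595117) (nat_lit 23) (nat_lit 3) (nat_lit 23) (nat_lit 1) (nat_lit 25) (nat_lit 1) (nat_lit 368) (nat_lit 442) (nat_lit 210)))) (XT.nd (nat_lit 156) (nat_lit 76) (nat_lit 0) (XT.nd (nat_lit 78) (nat_lit 152) (nat_lit 0) (XT.lf (nat_lit 76) (nat_lit 3517110807) (nat_lit 0) (nat_lit 3519632411) (nat_lit 76) (nat_lit 3519632411) (nat_lit 23) (nat_lit 3) (nat_lit 22) (nat_lit 1) (nat_lit 23) (nat_lit 1) (nat_lit 369) (nat_lit 442) (nat_lit 209)) (XT.lf (nat_lit 152) (nat_lit 10387261605) (nat_lit 0) (nat_lit 774686) (nat_lit 76) (nat_lit 774686) (nat_lit 22) (nat_lit 1) (nat_lit 20) (nat_lit 1) (nat_lit 21) (nat_lit 1) (nat_lit 370) (nat_lit 442) (nat_lit 208))) (XT.nd (nat_lit 78) (nat_lit 76) (nat_lit 0) (XT.lf (nat_lit 0) (nat_lit 3405441256) (nat_lit 0) (nat_lit 3407619512) (nat_lit 152) (nat_lit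 3405441256) (nat_lit 20) (nat_lit 3) (nat_lit 20) (nat_lit 1) (nat_lit 22) (nat_lit 1) (nat_lit 371) (nat_lit 442) (nat_lit 207)) (XT.lf (nat_lit 76) (nat_lit 3349845581) (nat_lit 0) (nat_lit 3351920111) (nat_lit 76) (nat_lit 3351920111) (nat_lit 20) (nat_lit 3) (nat_lit 19) (nat_lit 1) (nat_lit 20) (nat_lit 1) (nat_lit 372) (nat_lit 442) (nat_lit 206)))))) (XT.nd (nat_lit 468) (nat_lit 608) (nat_lit 0) (XT.nd (nat_lit 234) (nat_lit 228) (nat_lit 0) (XT.nd (nat_lit 78) (nat_lit 76) (nat_lit 0) (XT.lf (nat_lit 152) (nat_lit 9892826236) (nat_lit 0) (nat_lit 637336) (nat_lit 76) (nat_lit 637336) (nat_lit 19) (nat_lit 1) (nat_lit 17) (nat_lit 1) (nat_lit 18) (nat_lit 1) (nat_lit 373) (nat_lit 442) (nat_lit 205)) (XT.nd (nat_lit 78) (nat_lit 76) (nat_lit 0) (XT.lf (nat_lit 0) (nat_lit 3243370001) (nat_lit 0) (nat_lit 3245162058) (nat_lit 152) (nat_lit 3243370001) (nat_lit 17) (nat_lit 3) (nat_lit 17)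 (nat_lit 1) (nat_lit 19) (nat_lit 1) (nat_lit 374) (nat_lit 442) (nat_lit 204)) (XT.lf (nat_lit 76) (nat_lit 3190507026) (nat_lit 0) (nat_lit 3192213747) (nat_lit 76) (nat_lit 3192213747) (nat_lit 17) (nat_lit 3) (nat_lit 16) (nat_lit 1) (nat_lit 17) (nat_lit 1) (nat_lit 375) (nat_lit 442) (nat_lit 203)))) (XT.nd (nat_lit 78) (nat_lit 76) (nat_lit 0) (XT.lf (nat_lit 152) (nat_lit 9421900635) (nat_lit 0) (nat_lit 524338) (nat_lit 76) (nat_lit 524338) (nat_lit 16) (nat_lit 1) (nat_lit 14) (nat_lit 1) (nat_lit 15) (nat_lit 1) (nat_lit 376) (nat_lit 442) (nat_lit 202)) (XT.nd (nat_lit 78) (nat_lit 76) (nat_lit 0) (XT.lf (nat_lit 0) (nat_lit 3089000004) (nat_lit 0) (nat_lit 3090474334) (nat_lit 152) (nat_lit 3089000004) (nat_lit 14) (nat_lit 3) (nat_lit 14) (nat_lit 1) (nat_lit 16) (nat_lit 1) (nat_lit 377) (nat_lit 442) (nat_lit 201)) (XT.lf (nat_lit 76) (nat_lit 3038724480) (nat_lit 0) (nat_lit 3040128604)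 (nat_lit 76) (nat_lit 3040128604) (nat_lit 14) (nat_lit 3) (nat_lit 13) (nat_lit 1) (nat_lit 14) (nat_lit 1) (nat_lit 378) (nat_lit 442) (nat_lit 200))))) (XT.nd (nat_lit 234) (nat_lit 380) (nat_lit 0) (XT.nd (nat_lit 78) (nat_lit 76) (nat_lit 0) (XT.lf (nat_lit 152) (nat_lit 8973371453) (nat_lit 0) (nat_lit 431374) (nat_lit 76) (nat_lit 431374) (nat_lit 13) (nat_lit 1) (nat_lit 11) (nat_lit 1) (nat_lit 12) (nat_lit 1) (nat_lit 379) (nat_lit 442) (nat_lit 199)) (XT.nd (nat_lit 78) (nat_lit 76) (nat_lit 0) (XT.lf (nat_lit 0) (nat_lit 2941967450) (nat_lit 0) (nat_lit 2943180385) (nat_lit 152) (nat_lit 2941967450) (nat_lit 11) (nat_lit 3) (nat_lit 11) (nat_lit 1) (nat_lit 13) (nat_lit 1) (nat_lit 380) (nat_lit 442) (nat_lit 198)) (XT.lf (nat_lit 76) (nat_lit 2894143725) (nat_lit 0) (nat_lit 2895298901) (nat_lit 76) (nat_lit 2895298901) (nat_lit 11) (nat_lit 3) (nat_lit 10) (nat_lit 1) (nat_lit 11)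 (nat_lit 1) (nat_lit 381) (nat_lit 442) (nat_lit 197)))) (XT.nd (nat_lit 156) (nat_lit 228) (nat_lit 0) (XT.nd (nat_lit 78) (nat_lit 0) (nat_lit 0) (XT.lf (nat_lit 152) (nat_lit 8546177266) (nat_lit 0) (nat_lit 354892) (nat_lit 76) (nat_lit 354892) (nat_lit 10) (nat_lit 1) (nat_lit 8) (nat_lit 1) (nat_lit 9) (nat_lit 1) (nat_lit 382) (nat_lit 442) (nat_lit 196)) (XT.lf (nat_lit 0) (nat_lit 2801925333) (nat_lit 0) (nat_lit 2802923218) (nat_lit 152) (nat_lit 2801925333) (nat_lit 8) (nat_lit 3) (nat_lit 8) (nat_lit 1) (nat_lit 10) (nat_lit 1) (nat_lit 383) (nat_lit 442) (nat_lit 195))) (XT.nd (nat_lit 78) (nat_lit 152) (nat_lit 0) (XT.lf (nat_lit 76) (nat_lit 2756426420) (nat_lit 0) (nat_lit 2757376786) (nat_lit 76) (nat_lit 2757376786) (nat_lit 8) (nat_lit 3) (nat_lit 7) (nat_lit 1) (nat_lit 8) (nat_lit 1) (nat_lit 384) (nat_lit 442) (nat_lit 194)) (XT.lf (nat_lit 152) (nat_lit 8139306296) (nat_lit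 0) (nat_lit 291971) (nat_lit 76) (nat_lit 291971) (nat_lit 7) (nat_lit 1) (nat_lit 5) (nat_lit 1) (nat_lit 6) (nat_lit 1) (nat_lit 385) (nat_lit 442) (nat_lit 193))))))))
noncomputable def ec476 : XT := (XT.nd (nat_lit 1950) (nat_lit 0) (nat_lit 0) (XT.nd (nat_lit 936) (nat_lit 0) (nat_lit 0) (XT.nd (nat_lit 468) (nat_lit 0) (nat_lit 0) (XT.nd (nat_lit 234) (nat_lit 152) (nat_lit 0) (XT.nd (nat_lit 78) (nat_lit 228) (nat_lit 0) (XT.lf (nat_lit 0) (nat_lit 2668542745) (nat_lit 0) (nat_lit 2669363707) (nat_lit 152) (nat_lit 2668542745) (nat_lit 5) (nat_lit 3) (nat_lit 5) (nat_lit 1) (nat_lit 7) (nat_lit 1) (nat_lit 386) (nat_lit 442) (nat_lit 192)) (XT.nd (nat_lit 78) (nat_lit 152) (nat_lit 0) (XT.lf (nat_lit 76) (nat_lit 2625249517) (nat_lit 0) (nat_lit 2626031386) (nat_lit 76) (nat_lit 2626031386) (nat_lit 5) (nat_lit 3) (nat_lit 4) (nat_lit 1) (nat_lit 5) (nat_lit 1) (nat_lit 387) (nat_lit 442)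 (nat_lit 191)) (XT.lf (nat_lit 152) (nat_lit 7751794204) (nat_lit 0) (nat_lit 240205) (nat_lit 76) (nat_lit 240205) (nat_lit 4) (nat_lit 1) (nat_lit 2) (nat_lit 1) (nat_lit 3) (nat_lit 1) (nat_lit 388) (nat_lit 442) (nat_lit 190)))) (XT.nd (nat_lit 78) (nat_lit 152) (nat_lit 0) (XT.lf (nat_lit 0) (nat_lit 2541504186) (nat_lit 0) (nat_lit 2542179594) (nat_lit 152) (nat_lit 2541504186) (nat_lit 2) (nat_lit 3) (nat_lit 2) (nat_lit 1) (nat_lit 4) (nat_lit 1) (nat_lit 389) (nat_lit 442) (nat_lit 189)) (XT.nd (nat_lit 78) (nat_lit 76) (nat_lit 0) (XT.lf (nat_lit 76) (nat_lit 2500304685) (nat_lit 0) (nat_lit 2500947930) (nat_lit 76) (nat_lit 2500947930) (nat_lit 2) (nat_lit 3) (nat_lit 1) (nat_lit 1) (nat_lit 2) (nat_lit 1) (nat_lit 390) (nat_lit 442) (nat_lit 188)) (XT.lf (nat_lit 0) (nat_lit 155671851591) (nat_lit 0) (nat_lit 0) (nat_lit 0) (nat_lit 0) (nat_lit 0) (nat_lit 0) (nat_lit 1) (nat_lit 0)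 (nat_lit 1) (nat_lit 0) (nat_lit 391) (nat_lit 442) (nat_lit 187))))) (XT.nd (nat_lit 234) (nat_lit 0) (nat_lit 0) (XT.nd (nat_lit 78) (nat_lit 0) (nat_lit 0) (XT.lf (nat_lit 0) (nat_lit 155671822301) (nat_lit 0) (nat_lit 0) (nat_lit 0) (nat_lit 0) (nat_lit 0) (nat_lit 0) (nat_lit 1) (nat_lit 0) (nat_lit 1) (nat_lit 0) (nat_lit 392) (nat_lit 442) (nat_lit 186)) (XT.nd (nat_lit 78) (nat_lit 0) (nat_lit 0) (XT.lf (nat_lit 0) (nat_lit 155671794406) (nat_lit 0) (nat_lit 0) (nat_lit 0) (nat_lit 0) (nat_lit 0) (nat_lit 0) (nat_lit 1) (nat_lit 0) (nat_lit 1) (nat_lit 0) (nat_lit 393) (nat_lit 442) (nat_lit 185)) (XT.lf (nat_lit 0) (nat_lit 155671767839) (nat_lit 0) (nat_lit 0) (nat_lit 0) (nat_lit 0) (nat_lit 0) (nat_lit 0) (nat_lit 1) (nat_lit 0) (nat_lit 1) (nat_lit 0) (nat_lit 394) (nat_lit 442) (nat_lit 184)))) (XT.nd (nat_lit 78) (nat_lit 0) (nat_lit 0) (XT.lf (nat_lit 0) (nat_lit 155671742537) (nat_lit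 0) (nat_lit 0) (nat_lit 0) (nat_lit 0) (nat_lit 0) (nat_lit 0) (nat_lit 1) (nat_lit 0) (nat_lit 1) (nat_lit 0) (nat_lit 395) (nat_lit 442) (nat_lit 183)) (XT.nd (nat_lit 78) (nat_lit 0) (nat_lit 0) (XT.lf (nat_lit 0) (nat_lit 155671718440) (nat_lit 0) (nat_lit 0) (nat_lit 0) (nat_lit 0) (nat_lit 0) (nat_lit 0) (nat_lit 1) (nat_lit 0) (nat_lit 1) (nat_lit 0) (nat_lit 396) (nat_lit 442) (nat_lit 182)) (XT.lf (nat_lit 0) (nat_lit 155671695491) (nat_lit 0) (nat_lit 0) (nat_lit 0) (nat_lit 0) (nat_lit 0) (nat_lit 0) (nat_lit 1) (nat_lit 0) (nat_lit 1) (nat_lit 0) (nat_lit 397) (nat_lit 442) (nat_lit 181)))))) (XT.nd (nat_lit 468) (nat_lit 0) (nat_lit 0) (XT.nd (nat_lit 234) (nat_lit 0) (nat_lit 0) (XT.nd (nat_lit 78) (nat_lit 0) (nat_lit 0) (XT.lf (nat_lit 0) (nat_lit 155671673635) (nat_lit 0) (nat_lit 0) (nat_lit 0) (nat_lit 0) (nat_lit 0) (nat_lit 0) (nat_lit 1) (nat_lit 0) (nat_lit 1) (nat_lit 0)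 (nat_lit 398) (nat_lit 442) (nat_lit 180)) (XT.nd (nat_lit 78) (nat_lit 0) (nat_lit 0) (XT.lf (nat_lit 0) (nat_lit 155671652819) (nat_lit 0) (nat_lit 0) (nat_lit 0) (nat_lit 0) (nat_lit 0) (nat_lit 0) (nat_lit 1) (nat_lit 0) (nat_lit 1) (nat_lit 0) (nat_lit 399) (nat_lit 442) (nat_lit 179)) (XT.lf (nat_lit 0) (nat_lit 155671632994) (nat_lit 0) (nat_lit 0) (nat_lit 0) (nat_lit 0) (nat_lit 0) (nat_lit 0) (nat_lit 1) (nat_lit 0) (nat_lit 1) (nat_lit 0) (nat_lit 400) (nat_lit 442) (nat_lit 178)))) (XT.nd (nat_lit 78) (nat_lit 0) (nat_lit 0) (XT.lf (nat_lit 0) (nat_lit 155671614114) (nat_lit 0) (nat_lit 0) (nat_lit 0) (nat_lit 0) (nat_lit 0) (nat_lit 0) (nat_lit 1) (nat_lit 0) (nat_lit 1) (nat_lit 0) (nat_lit 401) (nat_lit 442) (nat_lit 177)) (XT.nd (nat_lit 78) (nat_lit 0) (nat_lit 0) (XT.lf (nat_lit 0) (nat_lit 155671596132) (nat_lit 0) (nat_lit 0) (nat_lit 0) (nat_lit 0) (nat_lit 0) (nat_lit 0) (nat_lit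 1) (nat_lit 0) (nat_lit 1) (nat_lit 0) (nat_lit 402) (nat_lit 442) (nat_lit 176)) (XT.lf (nat_lit 0) (nat_lit 155671579007) (nat_lit 0) (nat_lit 0) (nat_lit 0) (nat_lit 0) (nat_lit 0) (nat_lit 0) (nat_lit 1) (nat_lit 0) (nat_lit 1) (nat_lit 0) (nat_lit 403) (nat_lit 442) (nat_lit 175))))) (XT.nd (nat_lit 234) (nat_lit 0) (nat_lit 0) (XT.nd (nat_lit 78) (nat_lit 0) (nat_lit 0) (XT.lf (nat_lit 0) (nat_lit 155671562697) (nat_lit 0) (nat_lit 0) (nat_lit 0) (nat_lit 0) (nat_lit 0) (nat_lit 0) (nat_lit 1) (nat_lit 0) (nat_lit 1) (nat_lit 0) (nat_lit 404) (nat_lit 442) (nat_lit 174)) (XT.nd (nat_lit 78) (nat_lit 0) (nat_lit 0) (XT.lf (nat_lit 0) (nat_lit 155671547164) (nat_lit 0) (nat_lit 0) (nat_lit 0) (nat_lit 0) (nat_lit 0) (nat_lit 0) (nat_lit 1) (nat_lit 0) (nat_lit 1) (nat_lit 0) (nat_lit 405) (nat_lit 442) (nat_lit 173)) (XT.lf (nat_lit 0) (nat_lit 155671532371) (nat_lit 0) (nat_lit 0) (nat_lit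 0) (nat_lit 0) (nat_lit 0) (nat_lit 0) (nat_lit 1) (nat_lit 0) (nat_lit 1) (nat_lit 0) (nat_lit 406) (nat_lit 442) (nat_lit 172)))) (XT.nd (nat_lit 156) (nat_lit 0) (nat_lit 0) (XT.nd (nat_lit 78) (nat_lit 0) (nat_lit 0) (XT.lf (nat_lit 0) (nat_lit 155671518282) (nat_lit 0) (nat_lit 0) (nat_lit 0) (nat_lit 0) (nat_lit 0) (nat_lit 0) (nat_lit 1) (nat_lit 0) (nat_lit 1) (nat_lit 0) (nat_lit 407) (nat_lit 442) (nat_lit 171)) (XT.lf (nat_lit 0) (nat_lit 155671504864) (nat_lit 0) (nat_lit 0) (nat_lit 0) (nat_lit 0) (nat_lit 0) (nat_lit 0) (nat_lit 1) (nat_lit 0) (nat_lit 1) (nat_lit 0) (nat_lit 408) (nat_lit 442) (nat_lit 170))) (XT.nd (nat_lit 78) (nat_lit 0) (nat_lit 0) (XT.lf (nat_lit 0) (nat_lit 155671492085) (nat_lit 0) (nat_lit 0) (nat_lit 0) (nat_lit 0) (nat_lit 0) (nat_lit 0) (nat_lit 1) (nat_lit 0) (nat_lit 1) (nat_lit 0) (nat_lit 409) (nat_lit 442) (nat_lit 169)) (XT.lf (nat_lit 0) (nat_lit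 155671479914) (nat_lit 0) (nat_lit 0) (nat_lit 0) (nat_lit 0) (nat_lit 0) (nat_lit 0) (nat_lit 1) (nat_lit 0) (nat_lit 1) (nat_lit 0) (nat_lit 410) (nat_lit 442) (nat_lit 168))))))) (XT.nd (nat_lit 34788) (nat_lit 0) (nat_lit 15428) (XT.nd (nat_lit 34320) (nat_lit 0) (nat_lit 16644) (XT.nd (nat_lit 234) (nat_lit 0) (nat_lit 0) (XT.nd (nat_lit 78) (nat_lit 0) (nat_lit 0) (XT.lf (nat_lit 0) (nat_lit 155671468323) (nat_lit 0) (nat_lit 0) (nat_lit 0) (nat_lit 0) (nat_lit 0) (nat_lit 0) (nat_lit 1) (nat_lit 0) (nat_lit 1) (nat_lit 0) (nat_lit 411) (nat_lit 442) (nat_lit 167)) (XT.nd (nat_lit 78) (nat_lit 0) (nat_lit 0) (XT.lf (nat_lit 0) (nat_lit 155671457284) (nat_lit 0) (nat_lit 0) (nat_lit 0) (nat_lit 0) (nat_lit 0) (nat_lit 0) (nat_lit 1) (nat_lit 0) (nat_lit 1) (nat_lit 0) (nat_lit 412) (nat_lit 442) (nat_lit 166)) (XT.lf (nat_lit 0) (nat_lit 155671446771) (nat_lit 0) (nat_lit 0) (nat_lit 0) (nat_lit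 0) (nat_lit 0) (nat_lit 0) (nat_lit 1) (nat_lit 0) (nat_lit 1) (nat_lit 0) (nat_lit 413) (nat_lit 442) (nat_lit 165)))) (XT.nd (nat_lit 33930) (nat_lit 0) (nat_lit 17480) (XT.lf (nat_lit 0) (nat_lit 155671436758) (nat_lit 0) (nat_lit 0) (nat_lit 0) (nat_lit 0) (nat_lit 0) (nat_lit 0) (nat_lit 1) (nat_lit 0) (nat_lit 1) (nat_lit 0) (nat_lit 414) (nat_lit 442) (nat_lit 164)) (XT.nd (nat_lit 78) (nat_lit 152) (nat_lit 0) (XT.lf (nat_lit 76) (nat_lit 42889524491) (nat_lit 0) (nat_lit 213117675938) (nat_lit 304) (nat_lit 42889524491) (nat_lit 233) (nat_lit 1) (nat_lit 232) (nat_lit 1) (nat_lit 236) (nat_lit 1) (nat_lit 168) (nat_lit 443) (nat_lit 409)) (XT.lf (nat_lit 228) (nat_lit 15716147821) (nat_lit 0) (nat_lit 138799632162) (nat_lit 152) (nat_lit 138799632162) (nat_lit 233) (nat_lit 1) (nat_lit 230) (nat_lit 1) (nat_lit 232) (nat_lit 1) (nat_lit 169) (nat_lit 443) (nat_lit 408))))) (XT.nd (nat_lit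 234) (nat_lit 380) (nat_lit 0) (XT.nd (nat_lit 78) (nat_lit 152) (nat_lit 0) (XT.lf (nat_lit 304) (nat_lit 237465723723) (nat_lit 0) (nat_lit 25220581091) (nat_lit 228) (nat_lit 25220581091) (nat_lit 230) (nat_lit 1) (nat_lit 226) (nat_lit 1) (nat_lit 229) (nat_lit 1) (nat_lit 170) (nat_lit 443) (nat_lit 407)) (XT.nd (nat_lit 78) (nat_lit 152) (nat_lit 0) (XT.lf (nat_lit 76) (nat_lit 82941140540) (nat_lit 0) (nat_lit 116676567745) (nat_lit 304) (nat_lit 82941140540) (nat_lit 227) (nat_lit 1) (nat_lit 226) (nat_lit 1) (nat_lit 230) (nat_lit 1) (nat_lit 171) (nat_lit 443) (nat_lit 406)) (XT.lf (nat_lit 228) (nat_lit 95825693677) (nat_lit 0) (nat_lit 90775086581) (nat_lit 152) (nat_lit 90775086581) (nat_lit 227) (nat_lit 1) (nat_lit 224) (nat_lit 1) (nat_lit 226) (nat_lit 1) (nat_lit 172) (nat_lit 443) (nat_lit 405)))) (XT.nd (nat_lit 78) (nat_lit 380) (nat_lit 0) (XT.lf (nat_lit 76) (nat_lit 13767110617)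 (nat_lit 0) (nat_lit 244830666904) (nat_lit 228) (nat_lit 13767110617) (nat_lit 225) (nat_lit 1) (nat_lit 224) (nat_lit 1) (nat_lit 227) (nat_lit 1) (nat_lit 173) (nat_lit 443) (nat_lit 404)) (XT.nd (nat_lit 78) (nat_lit 152) (nat_lit 0) (XT.lf (nat_lit 76) (nat_lit 113622379297) (nat_lit 0) (nat_lit 40127366109) (nat_lit 228) (nat_lit 113622379297) (nat_lit 222) (nat_lit 1) (nat_lit 221) (nat_lit 1) (nat_lit 224) (nat_lit 1) (nat_lit 174) (nat_lit 443) (nat_lit 403)) (XT.lf (nat_lit 228) (nat_lit 157784587690) (nat_lit 0) (nat_lit 52380208095) (nat_lit 152) (nat_lit 52380208095) (nat_lit 222) (nat_lit 1) (nat_lit 219) (nat_lit 1) (nat_lit 221) (nat_lit 1) (nat_lit 175) (nat_lit 443) (nat_lit 402)))))) (XT.nd (nat_lit 468) (nat_lit 684) (nat_lit 0) (XT.nd (nat_lit 234) (nat_lit 152) (nat_lit 0) (XT.nd (nat_lit 78) (nat_lit 380) (nat_lit 0) (XT.lf (nat_lit 76) (nat_lit 44522705693) (nat_lit 0) (nat_lit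 168779161586) (nat_lit 228) (nat_lit 44522705693) (nat_lit 220) (nat_lit 1) (nat_lit 219) (nat_lit 1) (nat_lit 222) (nat_lit 1) (nat_lit 176) (nat_lit 443) (nat_lit 401)) (XT.nd (nat_lit 78) (nat_lit 228) (nat_lit 0) (XT.lf (nat_lit 228) (nat_lit 20857284649) (nat_lit 0) (nat_lit 116171004573) (nat_lit 152) (nat_lit 116171004573) (nat_lit 220) (nat_lit 1) (nat_lit 217) (nat_lit 1) (nat_lit 219) (nat_lit 1) (nat_lit 177) (nat_lit 443) (nat_lit 400)) (XT.lf (nat_lit 228) (nat_lit 204998868255) (nat_lit 0) (nat_lit 21854583701) (nat_lit 152) (nat_lit 21854583701) (nat_lit 217) (nat_lit 1) (nat_lit 214) (nat_lit 1) (nat_lit 216) (nat_lit 1) (nat_lit 178) (nat_lit 443) (nat_lit 399)))) (XT.nd (nat_lit 78) (nat_lit 152) (nat_lit 0) (XT.lf (nat_lit 76) (nat_lit 68244625603) (nat_lit 0) (nat_lit 107765858711) (nat_lit 228) (nat_lit 68244625603) (nat_lit 215) (nat_lit 1) (nat_lit 214) (nat_lit 1) (nat_lit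 217) (nat_lit 1) (nat_lit 179) (nat_lit 443) (nat_lit 398)) (XT.nd (nat_lit 78) (nat_lit 0) (nat_lit 0) (XT.lf (nat_lit 228) (nat_lit 69503837861) (nat_lit 0) (nat_lit 85213810459) (nat_lit 152) (nat_lit 85213810459) (nat_lit 215) (nat_lit 1) (nat_lit 212) (nat_lit 1) (nat_lit 214) (nat_lit 1) (nat_lit 180) (nat_lit 443) (nat_lit 397)) (XT.lf (nat_lit 76) (nat_lit 2284399463) (nat_lit 0) (nat_lit 231190639383) (nat_lit 228) (nat_lit 2284399463) (nat_lit 213) (nat_lit 1) (nat_lit 212) (nat_lit 1) (nat_lit 215) (nat_lit 1) (nat_lit 181) (nat_lit 443) (nat_lit 396))))) (XT.nd (nat_lit 234) (nat_lit 380) (nat_lit 0) (XT.nd (nat_lit 78) (nat_lit 152) (nat_lit 0) (XT.lf (nat_lit 76) (nat_lit 86255198989) (nat_lit 0) (nat_lit 59050500355) (nat_lit 152) (nat_lit 86255198989) (nat_lit 211) (nat_lit 1) (nat_lit 210) (nat_lit 1) (nat_lit 212) (nat_lit 1) (nat_lit 182) (nat_lit 443) (nat_lit 395)) (XT.nd (nat_lit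 78) (nat_lit 0) (nat_lit 0) (XT.lf (nat_lit 228) (nat_lit 107032882428) (nat_lit 0) (nat_lit 60238600845) (nat_lit 152) (nat_lit 60238600845) (nat_lit 211) (nat_lit 1) (nat_lit 208) (nat_lit 1) (nat_lit 210) (nat_lit 1) (nat_lit 183) (nat_lit 443) (nat_lit 394)) (XT.lf (nat_lit 76) (nat_lit 21459353196) (nat_lit 0) (nat_lit 180649905264) (nat_lit 228) (nat_lit 21459353196) (nat_lit 209) (nat_lit 1) (nat_lit 208) (nat_lit 1) (nat_lit 211) (nat_lit 1) (nat_lit 184) (nat_lit 443) (nat_lit 393)))) (XT.nd (nat_lit 156) (nat_lit 76) (nat_lit 0) (XT.nd (nat_lit 78) (nat_lit 152) (nat_lit 0) (XT.lf (nat_lit 76) (nat_lit 99638724352) (nat_lit 0) (nat_lit 20382194395) (nat_lit 152) (nat_lit 99638724352) (nat_lit 207) (nat_lit 1) (nat_lit 206) (nat_lit 1) (nat_lit 208) (nat_lit 1) (nat_lit 185) (nat_lit 443) (nat_lit 392)) (XT.lf (nat_lit 228) (nat_lit 135534220127) (nat_lit 0) (nat_lit 40161291797) (nat_lit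 152) (nat_lit 40161291797) (nat_lit 207) (nat_lit 1) (nat_lit 204) (nat_lit 1) (nat_lit 206) (nat_lit 1) (nat_lit 186) (nat_lit 443) (nat_lit 391))) (XT.nd (nat_lit 78) (nat_lit 76) (nat_lit 0) (XT.lf (nat_lit 76) (nat_lit 36302255462) (nat_lit 0) (nat_lit 139524737556) (nat_lit 228) (nat_lit 36302255462) (nat_lit 205) (nat_lit 1) (nat_lit 204) (nat_lit 1) (nat_lit 207) (nat_lit 1) (nat_lit 187) (nat_lit 443) (nat_lit 390)) (XT.lf (nat_lit 152) (nat_lit 10421055549) (nat_lit 0) (nat_lit 99025489232) (nat_lit 76) (nat_lit 99025489232) (nat_lit 205) (nat_lit 1) (nat_lit 203) (nat_lit 1) (nat_lit 204) (nat_lit 1) (nat_lit 188) (nat_lit 443) (nat_lit 389))))))))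
noncomputable def ec477 : XT := (XT.nd (nat_lit 1950) (nat_lit 2052) (nat_lit 0) (XT.nd (nat_lit 936) (nat_lit 912) (nat_lit 0) (XT.nd (nat_lit 468) (nat_lit 532) (nat_lit 0) (XT.nd (nat_lit 234) (nat_lit 304) (nat_lit 0) (XT.nd (nat_lit 78) (nat_lit 76) (nat_lit 0) (XT.lf (nat_lit 228) (nat_lit 156721483907) (nat_lit 0) (nat_lit 24091123488) (nat_lit 152) (nat_lit 24091123488) (nat_lit 203) (nat_lit 1) (nat_lit 200) (nat_lit 1) (nat_lit 202) (nat_lit 1) (nat_lit 189) (nat_lit 443) (nat_lit 388)) (XT.nd (nat_lit 78) (nat_lit 76) (nat_lit 0) (XT.lf (nat_lit 76) (nat_lit 47625567295) (nat_lit 0) (nat_lit 106124121571) (nat_lit 228) (nat_lit 47625567295) (nat_lit 201) (nat_lit 1) (nat_lit 200) (nat_lit 1) (nat_lit 203) (nat_lit 1) (nat_lit 190) (nat_lit 443) (nat_lit 387)) (XT.lf (nat_lit 152) (nat_lit 34996265387) (nat_lit 0) (nat_lit 81468515059) (nat_lit 76) (nat_lit 81468515059) (nat_lit 201)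 (nat_lit 1) (nat_lit 199) (nat_lit 1) (nat_lit 200) (nat_lit 1) (nat_lit 191) (nat_lit 443) (nat_lit 386)))) (XT.nd (nat_lit 78) (nat_lit 76) (nat_lit 0) (XT.lf (nat_lit 228) (nat_lit 171999100843) (nat_lit 0) (nat_lit 11296331045) (nat_lit 152) (nat_lit 11296331045) (nat_lit 199) (nat_lit 1) (nat_lit 196) (nat_lit 1) (nat_lit 198) (nat_lit 1) (nat_lit 192) (nat_lit 443) (nat_lit 385)) (XT.nd (nat_lit 78) (nat_lit 76) (nat_lit 0) (XT.lf (nat_lit 76) (nat_lit 56095588159) (nat_lit 0) (nat_lit 79057886680) (nat_lit 228) (nat_lit 56095588159) (nat_lit 197) (nat_lit 1) (nat_lit 196) (nat_lit 1) (nat_lit 199) (nat_lit 1) (nat_lit 193) (nat_lit 443) (nat_lit 384)) (XT.lf (nat_lit 152) (nat_lit 53956120996) (nat_lit 0) (nat_lit 67024348956) (nat_lit 76) (nat_lit 67024348956) (nat_lit 197) (nat_lit 1) (nat_lit 195) (nat_lit 1) (nat_lit 196) (nat_lit 1) (nat_lit 194) (nat_lit 443) (nat_lit 383))))) (XT.nd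 (nat_lit 234) (nat_lit 228) (nat_lit 0) (XT.nd (nat_lit 78) (nat_lit 76) (nat_lit 0) (XT.lf (nat_lit 228) (nat_lit 182517369907) (nat_lit 0) (nat_lit 1175904392) (nat_lit 152) (nat_lit 1175904392) (nat_lit 195) (nat_lit 1) (nat_lit 192) (nat_lit 1) (nat_lit 194) (nat_lit 1) (nat_lit 195) (nat_lit 443) (nat_lit 382)) (XT.nd (nat_lit 78) (nat_lit 76) (nat_lit 0) (XT.lf (nat_lit 76) (nat_lit 62258470710) (nat_lit 0) (nat_lit 57183318288) (nat_lit 228) (nat_lit 62258470710) (nat_lit 193) (nat_lit 1) (nat_lit 192) (nat_lit 1) (nat_lit 195) (nat_lit 1) (nat_lit 196) (nat_lit 443) (nat_lit 381)) (XT.lf (nat_lit 152) (nat_lit 68356126515) (nat_lit 0) (nat_lit 55141097758) (nat_lit 76) (nat_lit 55141097758) (nat_lit 193) (nat_lit 1) (nat_lit 191) (nat_lit 1) (nat_lit 192) (nat_lit 1) (nat_lit 197) (nat_lit 443) (nat_lit 380)))) (XT.nd (nat_lit 78) (nat_lit 228) (nat_lit 0) (XT.lf (nat_lit 0) (nat_lit 6874521945)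 (nat_lit 0) (nat_lit 161919785483) (nat_lit 152) (nat_lit 6874521945) (nat_lit 191) (nat_lit 3) (nat_lit 191) (nat_lit 1) (nat_lit 193) (nat_lit 1) (nat_lit 198) (nat_lit 443) (nat_lit 379)) (XT.nd (nat_lit 78) (nat_lit 76) (nat_lit 0) (XT.lf (nat_lit 76) (nat_lit 66561618412) (nat_lit 0) (nat_lit 39561237725) (nat_lit 152) (nat_lit 66561618412) (nat_lit 190) (nat_lit 1) (nat_lit 189) (nat_lit 1) (nat_lit 191) (nat_lit 1) (nat_lit 199) (nat_lit 443) (nat_lit 378)) (XT.lf (nat_lit 152) (nat_lit 79061794681) (nat_lit 0) (nat_lit 45364717588) (nat_lit 76) (nat_lit 45364717588) (nat_lit 190) (nat_lit 1) (nat_lit 188) (nat_lit 1) (nat_lit 189) (nat_lit 1) (nat_lit 200) (nat_lit 443) (nat_lit 377)))))) (XT.nd (nat_lit 468) (nat_lit 456) (nat_lit 0) (XT.nd (nat_lit 234) (nat_lit 228) (nat_lit 0) (XT.nd (nat_lit 78) (nat_lit 228) (nat_lit 0) (XT.lf (nat_lit 0) (nat_lit 13139305965) (nat_lit 0) (nat_lit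 140695427982) (nat_lit 152) (nat_lit 13139305965) (nat_lit 188) (nat_lit 3) (nat_lit 188) (nat_lit 1) (nat_lit 190) (nat_lit 1) (nat_lit 201) (nat_lit 443) (nat_lit 376)) (XT.nd (nat_lit 78) (nat_lit 76) (nat_lit 0) (XT.lf (nat_lit 76) (nat_lit 69371284844) (nat_lit 0) (nat_lit 25419871280) (nat_lit 152) (nat_lit 69371284844) (nat_lit 187) (nat_lit 1) (nat_lit 186) (nat_lit 1) (nat_lit 188) (nat_lit 1) (nat_lit 202) (nat_lit 443) (nat_lit 375)) (XT.lf (nat_lit 152) (nat_lit 86782467698) (nat_lit 0) (nat_lit 37321665428) (nat_lit 76) (nat_lit 37321665428) (nat_lit 187) (nat_lit 1) (nat_lit 185) (nat_lit 1) (nat_lit 186) (nat_lit 1) (nat_lit 203) (nat_lit 443) (nat_lit 374)))) (XT.nd (nat_lit 78) (nat_lit 228) (nat_lit 0) (XT.lf (nat_lit 0) (nat_lit 17936996437) (nat_lit 0) (nat_lit 122877733695) (nat_lit 152) (nat_lit 17936996437) (nat_lit 185) (nat_lit 3) (nat_lit 185) (nat_lit 1) (nat_lit 187)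 (nat_lit 1) (nat_lit 204) (nat_lit 443) (nat_lit 373)) (XT.nd (nat_lit 78) (nat_lit 76) (nat_lit 0) (XT.lf (nat_lit 76) (nat_lit 70987048340) (nat_lit 0) (nat_lit 14125127294) (nat_lit 152) (nat_lit 70987048340) (nat_lit 184) (nat_lit 1) (nat_lit 183) (nat_lit 1) (nat_lit 185) (nat_lit 1) (nat_lit 205) (nat_lit 443) (nat_lit 372)) (XT.lf (nat_lit 152) (nat_lit 92099135280) (nat_lit 0) (nat_lit 30704626511) (nat_lit 76) (nat_lit 30704626511) (nat_lit 184) (nat_lit 1) (nat_lit 182) (nat_lit 1) (nat_lit 183) (nat_lit 1) (nat_lit 206) (nat_lit 443) (nat_lit 371))))) (XT.nd (nat_lit 234) (nat_lit 228) (nat_lit 0) (XT.nd (nat_lit 78) (nat_lit 228) (nat_lit 0) (XT.lf (nat_lit 0) (nat_lit 21544675075) (nat_lit 0) (nat_lit 107879679324) (nat_lit 152) (nat_lit 21544675075) (nat_lit 182) (nat_lit 3) (nat_lit 182) (nat_lit 1) (nat_lit 184) (nat_lit 1) (nat_lit 207) (nat_lit 443) (nat_lit 370)) (XT.nd (nat_lit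 78) (nat_lit 76) (nat_lit 0) (XT.lf (nat_lit 76) (nat_lit 71653716175) (nat_lit 0) (nat_lit 5156145070) (nat_lit 152) (nat_lit 71653716175) (nat_lit 181) (nat_lit 1) (nat_lit 180) (nat_lit 1) (nat_lit 182) (nat_lit 1) (nat_lit 208) (nat_lit 443) (nat_lit 369)) (XT.lf (nat_lit 152) (nat_lit 95487314459) (nat_lit 0) (nat_lit 25260772218) (nat_lit 76) (nat_lit 25260772218) (nat_lit 181) (nat_lit 1) (nat_lit 179) (nat_lit 1) (nat_lit 180) (nat_lit 1) (nat_lit 209) (nat_lit 443) (nat_lit 368)))) (XT.nd (nat_lit 156) (nat_lit 152) (nat_lit 0) (XT.nd (nat_lit 78) (nat_lit 76) (nat_lit 0) (XT.lf (nat_lit 0) (nat_lit 24189489614) (nat_lit 0) (nat_lit 95217511271) (nat_lit 152) (nat_lit 24189489614) (nat_lit 179) (nat_lit 3) (nat_lit 179) (nat_lit 1) (nat_lit 181) (nat_lit 1) (nat_lit 210) (nat_lit 443) (nat_lit 367)) (XT.lf (nat_lit 76) (nat_lit 1978131746) (nat_lit 0) (nat_lit 69623866657) (nat_lit 76)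 (nat_lit 69623866657) (nat_lit 179) (nat_lit 3) (nat_lit 178) (nat_lit 1) (nat_lit 179) (nat_lit 1) (nat_lit 211) (nat_lit 443) (nat_lit 366))) (XT.nd (nat_lit 78) (nat_lit 0) (nat_lit 0) (XT.lf (nat_lit 152) (nat_lit 97335867002) (nat_lit 0) (nat_lit 20782099819) (nat_lit 76) (nat_lit 20782099819) (nat_lit 178) (nat_lit 1) (nat_lit 176) (nat_lit 1) (nat_lit 177) (nat_lit 1) (nat_lit 212) (nat_lit 443) (nat_lit 365)) (XT.lf (nat_lit 0) (nat_lit 26057545456) (nat_lit 0) (nat_lit 84492474653) (nat_lit 152) (nat_lit 26057545456) (nat_lit 176) (nat_lit 3) (nat_lit 176) (nat_lit 1) (nat_lit 178) (nat_lit 1) (nat_lit 213) (nat_lit 443) (nat_lit 364))))))) (XT.nd (nat_lit 1014) (nat_lit 1064) (nat_lit 0) (XT.nd (nat_lit 468) (nat_lit 532) (nat_lit 0) (XT.nd (nat_lit 234) (nat_lit 228) (nat_lit 0) (XT.nd (nat_lit 78) (nat_lit 152) (nat_lit 0) (XT.lf (nat_lit 76) (nat_lit 7684903265) (nat_lit 0) (nat_lit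 63337216785) (nat_lit 76) (nat_lit 63337216785) (nat_lit 176) (nat_lit 3) (nat_lit 175) (nat_lit 1) (nat_lit 176) (nat_lit 1) (nat_lit 214) (nat_lit 443) (nat_lit 363)) (XT.nd (nat_lit 78) (nat_lit 0) (nat_lit 0) (XT.lf (nat_lit 152) (nat_lit 97962474939) (nat_lit 0) (nat_lit 17097484952) (nat_lit 76) (nat_lit 17097484952) (nat_lit 175) (nat_lit 1) (nat_lit 173) (nat_lit 1) (nat_lit 174) (nat_lit 1) (nat_lit 215) (nat_lit 443) (nat_lit 362)) (XT.lf (nat_lit 0) (nat_lit 27301219026) (nat_lit 0) (nat_lit 75375779890) (nat_lit 152) (nat_lit 27301219026) (nat_lit 173) (nat_lit 3) (nat_lit 173) (nat_lit 1) (nat_lit 175) (nat_lit 1) (nat_lit 216) (nat_lit 443) (nat_lit 361)))) (XT.nd (nat_lit 78) (nat_lit 152) (nat_lit 0) (XT.lf (nat_lit 76) (nat_lit 12091426441) (nat_lit 0) (nat_lit 57876722502) (nat_lit 76) (nat_lit 57876722502) (nat_lit 173) (nat_lit 3) (nat_lit 172) (nat_lit 1) (nat_lit 173) (nat_lit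 1) (nat_lit 217) (nat_lit 443) (nat_lit 360)) (XT.nd (nat_lit 78) (nat_lit 0) (nat_lit 0) (XT.lf (nat_lit 152) (nat_lit 97626367018) (nat_lit 0) (nat_lit 14066143183) (nat_lit 76) (nat_lit 14066143183) (nat_lit 172) (nat_lit 1) (nat_lit 170) (nat_lit 1) (nat_lit 171) (nat_lit 1) (nat_lit 218) (nat_lit 443) (nat_lit 359)) (XT.lf (nat_lit 0) (nat_lit 28045172736) (nat_lit 0) (nat_lit 67596232933) (nat_lit 152) (nat_lit 28045172736) (nat_lit 170) (nat_lit 3) (nat_lit 170) (nat_lit 1) (nat_lit 172) (nat_lit 1) (nat_lit 219) (nat_lit 443) (nat_lit 358))))) (XT.nd (nat_lit 234) (nat_lit 304) (nat_lit 0) (XT.nd (nat_lit 78) (nat_lit 152) (nat_lit 0) (XT.lf (nat_lit 76) (nat_lit 15441967892) (nat_lit 0) (nat_lit 53109644271) (nat_lit 76) (nat_lit 53109644271) (nat_lit 170) (nat_lit 3) (nat_lit 169) (nat_lit 1) (nat_lit 170) (nat_lit 1) (nat_lit 220) (nat_lit 443) (nat_lit 357)) (XT.nd (nat_lit 78) (nat_lit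 0) (nat_lit 0) (XT.lf (nat_lit 152) (nat_lit 96538783701) (nat_lit 0) (nat_lit 11572250807) (nat_lit 76) (nat_lit 11572250807) (nat_lit 169) (nat_lit 1) (nat_lit 167) (nat_lit 1) (nat_lit 168) (nat_lit 1) (nat_lit 221) (nat_lit 443) (nat_lit 356)) (XT.lf (nat_lit 0) (nat_lit 28391301852) (nat_lit 0) (nat_lit 60930056957) (nat_lit 152) (nat_lit 28391301852) (nat_lit 167) (nat_lit 3) (nat_lit 167) (nat_lit 1) (nat_lit 169) (nat_lit 1) (nat_lit 222) (nat_lit 443) (nat_lit 355)))) (XT.nd (nat_lit 156) (nat_lit 76) (nat_lit 0) (XT.nd (nat_lit 78) (nat_lit 152) (nat_lit 0) (XT.lf (nat_lit 76) (nat_lit 17936832281) (nat_lit 0) (nat_lit 48926122858) (nat_lit 76) (nat_lit 48926122858) (nat_lit 167) (nat_lit 3) (nat_lit 166) (nat_lit 1) (nat_lit 167) (nat_lit 1) (nat_lit 223) (nat_lit 443) (nat_lit 354)) (XT.lf (nat_lit 152) (nat_lit 94871581932) (nat_lit 0) (nat_lit 9520519378) (nat_lit 76) (nat_lit 9520519378)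 (nat_lit 166) (nat_lit 1) (nat_lit 164) (nat_lit 1) (nat_lit 165) (nat_lit 1) (nat_lit 224) (nat_lit 443) (nat_lit 353))) (XT.nd (nat_lit 78) (nat_lit 76) (nat_lit 0) (XT.lf (nat_lit 0) (nat_lit 28422802712) (nat_lit 0) (nat_lit 55192517063) (nat_lit 152) (nat_lit 28422802712) (nat_lit 164) (nat_lit 3) (nat_lit 164) (nat_lit 1) (nat_lit 166) (nat_lit 1) (nat_lit 225) (nat_lit 443) (nat_lit 352)) (XT.lf (nat_lit 76) (nat_lit 19740187813) (nat_lit 0) (nat_lit 45235153863) (nat_lit 76) (nat_lit 45235153863) (nat_lit 164) (nat_lit 3) (nat_lit 163) (nat_lit 1) (nat_lit 164) (nat_lit 1) (nat_lit 226) (nat_lit 443) (nat_lit 351)))))) (XT.nd (nat_lit 468) (nat_lit 608) (nat_lit 0) (XT.nd (nat_lit 234) (nat_lit 228) (nat_lit 0) (XT.nd (nat_lit 78) (nat_lit 76) (nat_lit 0) (XT.lf (nat_lit 152) (nat_lit 92764309688) (nat_lit 0) (nat_lit 7832554853) (nat_lit 76) (nat_lit 7832554853) (nat_lit 163) (nat_lit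 1) (nat_lit 161) (nat_lit 1) (nat_lit 162) (nat_lit 1) (nat_lit 227) (nat_lit 443) (nat_lit 350)) (XT.nd (nat_lit 78) (nat_lit 76) (nat_lit 0) (XT.lf (nat_lit 0) (nat_lit 28207518146) (nat_lit 0) (nat_lit 50231028393) (nat_lit 152) (nat_lit 28207518146) (nat_lit 161) (nat_lit 3) (nat_lit 161) (nat_lit 1) (nat_lit 163) (nat_lit 1) (nat_lit 228) (nat_lit 443) (nat_lit 349)) (XT.lf (nat_lit 76) (nat_lit 20986502801) (nat_lit 0) (nat_lit 41961274464) (nat_lit 76) (nat_lit 41961274464) (nat_lit 161) (nat_lit 3) (nat_lit 160) (nat_lit 1) (nat_lit 161) (nat_lit 1) (nat_lit 229) (nat_lit 443) (nat_lit 348)))) (XT.nd (nat_lit 78) (nat_lit 76) (nat_lit 0) (XT.lf (nat_lit 152) (nat_lit 90330021863) (nat_lit 0) (nat_lit 6443862262) (nat_lit 76) (nat_lit 6443862262) (nat_lit 160) (nat_lit 1) (nat_lit 158) (nat_lit 1) (nat_lit 159) (nat_lit 1) (nat_lit 230) (nat_lit 443) (nat_lit 347)) (XT.nd (nat_lit 78) (nat_lit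 76) (nat_lit 0) (XT.lf (nat_lit 0) (nat_lit 27800688334) (nat_lit 0) (nat_lit 45919484718) (nat_lit 152) (nat_lit 27800688334) (nat_lit 158) (nat_lit 3) (nat_lit 158) (nat_lit 1) (nat_lit 160) (nat_lit 1) (nat_lit 231) (nat_lit 443) (nat_lit 346)) (XT.lf (nat_lit 76) (nat_lit 21785839633) (nat_lit 0) (nat_lit 39041836189) (nat_lit 76) (nat_lit 39041836189) (nat_lit 158) (nat_lit 3) (nat_lit 157) (nat_lit 1) (nat_lit 158) (nat_lit 1) (nat_lit 232) (nat_lit 443) (nat_lit 345))))) (XT.nd (nat_lit 234) (nat_lit 380) (nat_lit 0) (XT.nd (nat_lit 78) (nat_lit 76) (nat_lit 0) (XT.lf (nat_lit 152) (nat_lit 87660060830) (nat_lit 0) (nat_lit 5301381430) (nat_lit 76) (nat_lit 5301381430) (nat_lit 157) (nat_lit 1) (nat_lit 155) (nat_lit 1) (nat_lit 156) (nat_lit 1) (nat_lit 233) (nat_lit 443) (nat_lit 344)) (XT.nd (nat_lit 78) (nat_lit 76) (nat_lit 0) (XT.lf (nat_lit 0) (nat_lit 27247212567) (nat_lit 0) (nat_lit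 42153591192) (nat_lit 152) (nat_lit 27247212567) (nat_lit 155) (nat_lit 3) (nat_lit 155) (nat_lit 1) (nat_lit 157) (nat_lit 1) (nat_lit 234) (nat_lit 443) (nat_lit 343)) (XT.lf (nat_lit 76) (nat_lit 22228208793) (nat_lit 0) (nat_lit 36424759864) (nat_lit 76) (nat_lit 36424759864) (nat_lit 155) (nat_lit 3) (nat_lit 154) (nat_lit 1) (nat_lit 155) (nat_lit 1) (nat_lit 235) (nat_lit 443) (nat_lit 342)))) (XT.nd (nat_lit 156) (nat_lit 228) (nat_lit 0) (XT.nd (nat_lit 78) (nat_lit 0) (nat_lit 0) (XT.lf (nat_lit 152) (nat_lit 84827985456) (nat_lit 0) (nat_lit 4361459622) (nat_lit 76) (nat_lit 4361459622) (nat_lit 154) (nat_lit 1) (nat_lit 152) (nat_lit 1) (nat_lit 153) (nat_lit 1) (nat_lit 236) (nat_lit 443) (nat_lit 341)) (XT.lf (nat_lit 0) (nat_lit 26583508709) (nat_lit 0) (nat_lit 38847023294) (nat_lit 152) (nat_lit 26583508709) (nat_lit 152) (nat_lit 3) (nat_lit 152) (nat_lit 1) (nat_lit 154) (nat_lit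 1) (nat_lit 237) (nat_lit 443) (nat_lit 340))) (XT.nd (nat_lit 78) (nat_lit 152) (nat_lit 0) (XT.lf (nat_lit 76) (nat_lit 22387149633) (nat_lit 0) (nat_lit 34066687333) (nat_lit 76) (nat_lit 34066687333) (nat_lit 152) (nat_lit 3) (nat_lit 151) (nat_lit 1) (nat_lit 152) (nat_lit 1) (nat_lit 238) (nat_lit 443) (nat_lit 339)) (XT.lf (nat_lit 152) (nat_lit 81892799730) (nat_lit 0) (nat_lit 3588183625) (nat_lit 76) (nat_lit 3588183625) (nat_lit 151) (nat_lit 1) (nat_lit 149) (nat_lit 1) (nat_lit 150) (nat_lit 1) (nat_lit 239) (nat_lit 443) (nat_lit 338))))))))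
noncomputable def ec478 : XT := (XT.nd (nat_lit 1950) (nat_lit 1900) (nat_lit 0) (XT.nd (nat_lit 936) (nat_lit 912) (nat_lit 0) (XT.nd (nat_lit 468) (nat_lit 456) (nat_lit 0) (XT.nd (nat_lit 234) (nat_lit 228) (nat_lit 0) (XT.nd (nat_lit 78) (nat_lit 228) (nat_lit 0) (XT.lf (nat_lit 0) (nat_lit 25839041736) (nat_lit 0) (nat_lit 35928265534) (nat_lit 152) (nat_lit 25839041736) (nat_lit 149) (nat_lit 3) (nat_lit 149) (nat_lit 1) (nat_lit 151) (nat_lit 1) (nat_lit 240) (nat_lit 443) (nat_lit 337)) (XT.nd (nat_lit 78) (nat_lit 152) (nat_lit 0) (XT.lf (nat_lit 76) (nat_lit 22322675072) (nat_lit 0) (nat_lit 31931459642) (nat_lit 76) (nat_lit 31931459642) (nat_lit 149) (nat_lit 3) (nat_lit 148) (nat_lit 1) (nat_lit 149) (nat_lit 1) (nat_lit 241) (nat_lit 443) (nat_lit 336)) (XT.lf (nat_lit 152) (nat_lit 78901605351) (nat_lit 0) (nat_lit 2952007548) (nat_lit 76) (nat_lit 2952007548) (nat_lit 148) (nat_lit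 1) (nat_lit 146) (nat_lit 1) (nat_lit 147) (nat_lit 1) (nat_lit 242) (nat_lit 443) (nat_lit 335)))) (XT.nd (nat_lit 78) (nat_lit 228) (nat_lit 0) (XT.lf (nat_lit 0) (nat_lit 25037580089) (nat_lit 0) (nat_lit 33338009477) (nat_lit 152) (nat_lit 25037580089) (nat_lit 146) (nat_lit 3) (nat_lit 146) (nat_lit 1) (nat_lit 148) (nat_lit 1) (nat_lit 243) (nat_lit 443) (nat_lit 334)) (XT.nd (nat_lit 78) (nat_lit 152) (nat_lit 0) (XT.lf (nat_lit 76) (nat_lit 22083693041) (nat_lit 0) (nat_lit 29988863886) (nat_lit 76) (nat_lit 29988863886) (nat_lit 146) (nat_lit 3) (nat_lit 145) (nat_lit 1) (nat_lit 146) (nat_lit 1) (nat_lit 244) (nat_lit 443) (nat_lit 333)) (XT.lf (nat_lit 152) (nat_lit 75891780603) (nat_lit 0) (nat_lit 2428623915) (nat_lit 76) (nat_lit 2428623915) (nat_lit 145) (nat_lit 1) (nat_lit 143) (nat_lit 1) (nat_lit 144) (nat_lit 1) (nat_lit 245) (nat_lit 443) (nat_lit 332))))) (XT.nd (nat_lit 234)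 (nat_lit 228) (nat_lit 0) (XT.nd (nat_lit 78) (nat_lit 228) (nat_lit 0) (XT.lf (nat_lit 0) (nat_lit 24198228156) (nat_lit 0) (nat_lit 31027011955) (nat_lit 152) (nat_lit 24198228156) (nat_lit 143) (nat_lit 3) (nat_lit 143) (nat_lit 1) (nat_lit 145) (nat_lit 1) (nat_lit 246) (nat_lit 443) (nat_lit 331)) (XT.nd (nat_lit 78) (nat_lit 152) (nat_lit 0) (XT.lf (nat_lit 76) (nat_lit 21709997503) (nat_lit 0) (nat_lit 28213601121) (nat_lit 76) (nat_lit 28213601121) (nat_lit 143) (nat_lit 3) (nat_lit 142) (nat_lit 1) (nat_lit 143) (nat_lit 1) (nat_lit 247) (nat_lit 443) (nat_lit 330)) (XT.lf (nat_lit 152) (nat_lit 72892769638) (nat_lit 0) (nat_lit 1998034905) (nat_lit 76) (nat_lit 1998034905) (nat_lit 142) (nat_lit 1) (nat_lit 140) (nat_lit 1) (nat_lit 141) (nat_lit 1) (nat_lit 248) (nat_lit 443) (nat_lit 329)))) (XT.nd (nat_lit 78) (nat_lit 228) (nat_lit 0) (XT.lf (nat_lit 0) (nat_lit 23336274622) (nat_lit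 0) (nat_lit 28954331954) (nat_lit 152) (nat_lit 23336274622) (nat_lit 140) (nat_lit 3) (nat_lit 140) (nat_lit 1) (nat_lit 142) (nat_lit 1) (nat_lit 249) (nat_lit 443) (nat_lit 328)) (XT.nd (nat_lit 78) (nat_lit 152) (nat_lit 0) (XT.lf (nat_lit 76) (nat_lit 21233905421) (nat_lit 0) (nat_lit 26584436213) (nat_lit 76) (nat_lit 26584436213) (nat_lit 140) (nat_lit 3) (nat_lit 139) (nat_lit 1) (nat_lit 140) (nat_lit 1) (nat_lit 250) (nat_lit 443) (nat_lit 327)) (XT.lf (nat_lit 152) (nat_lit 69927551422) (nat_lit 0) (nat_lit 1643788261) (nat_lit 76) (nat_lit 1643788261) (nat_lit 139) (nat_lit 1) (nat_lit 137) (nat_lit 1) (nat_lit 138) (nat_lit 1) (nat_lit 251) (nat_lit 443) (nat_lit 326)))))) (XT.nd (nat_lit 468) (nat_lit 456) (nat_lit 0) (XT.nd (nat_lit 234) (nat_lit 228) (nat_lit 0) (XT.nd (nat_lit 78) (nat_lit 228) (nat_lit 0) (XT.lf (nat_lit 0) (nat_lit 22463889391) (nat_lit 0) (nat_lit 27085879061)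 (nat_lit 152) (nat_lit 22463889391) (nat_lit 137) (nat_lit 3) (nat_lit 137) (nat_lit 1) (nat_lit 139) (nat_lit 1) (nat_lit 252) (nat_lit 443) (nat_lit 325)) (XT.nd (nat_lit 78) (nat_lit 152) (nat_lit 0) (XT.lf (nat_lit 76) (nat_lit 20681602490) (nat_lit 0) (nat_lit 25083497414) (nat_lit 76) (nat_lit 25083497414) (nat_lit 137) (nat_lit 3) (nat_lit 136) (nat_lit 1) (nat_lit 137) (nat_lit 1) (nat_lit 253) (nat_lit 443) (nat_lit 324)) (XT.lf (nat_lit 152) (nat_lit 67013845275) (nat_lit 0) (nat_lit 1352348670) (nat_lit 76) (nat_lit 1352348670) (nat_lit 136) (nat_lit 1) (nat_lit 134) (nat_lit 1) (nat_lit 135) (nat_lit 1) (nat_lit 254) (nat_lit 443) (nat_lit 323)))) (XT.nd (nat_lit 78) (nat_lit 228) (nat_lit 0) (XT.lf (nat_lit 0) (nat_lit 21590695974) (nat_lit 0) (nat_lit 25393218314) (nat_lit 152) (nat_lit 21590695974) (nat_lit 134) (nat_lit 3) (nat_lit 134) (nat_lit 1) (nat_lit 136) (nat_lit 1) (nat_lit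 255) (nat_lit 443) (nat_lit 322)) (XT.nd (nat_lit 78) (nat_lit 152) (nat_lit 0) (XT.lf (nat_lit 76) (nat_lit 20074249314) (nat_lit 0) (nat_lit 23695699161) (nat_lit 76) (nat_lit 23695699161) (nat_lit 134) (nat_lit 3) (nat_lit 133) (nat_lit 1) (nat_lit 134) (nat_lit 1) (nat_lit 256) (nat_lit 443) (nat_lit 321)) (XT.lf (nat_lit 152) (nat_lit 64165099842) (nat_lit 0) (nat_lit 1112580598) (nat_lit 76) (nat_lit 1112580598) (nat_lit 133) (nat_lit 1) (nat_lit 131) (nat_lit 1) (nat_lit 132) (nat_lit 1) (nat_lit 257) (nat_lit 443) (nat_lit 320))))) (XT.nd (nat_lit 234) (nat_lit 228) (nat_lit 0) (XT.nd (nat_lit 78) (nat_lit 228) (nat_lit 0) (XT.lf (nat_lit 0) (nat_lit 20724241466) (nat_lit 0) (nat_lit 23852586005) (nat_lit 152) (nat_lit 20724241466) (nat_lit 131) (nat_lit 3) (nat_lit 131) (nat_lit 1) (nat_lit 133) (nat_lit 1) (nat_lit 258) (nat_lit 443) (nat_lit 319)) (XT.nd (nat_lit 78) (nat_lit 152) (nat_lit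 0) (XT.lf (nat_lit 76) (nat_lit 19428890554) (nat_lit 0) (nat_lit 22408266306) (nat_lit 76) (nat_lit 22408266306) (nat_lit 131) (nat_lit 3) (nat_lit 130) (nat_lit 1) (nat_lit 131) (nat_lit 1) (nat_lit 259) (nat_lit 443) (nat_lit 318)) (XT.lf (nat_lit 152) (nat_lit 61391304044) (nat_lit 0) (nat_lit 915322811) (nat_lit 76) (nat_lit 915322811) (nat_lit 130) (nat_lit 1) (nat_lit 128) (nat_lit 1) (nat_lit 129) (nat_lit 1) (nat_lit 260) (nat_lit 443) (nat_lit 317)))) (XT.nd (nat_lit 156) (nat_lit 152) (nat_lit 0) (XT.nd (nat_lit 78) (nat_lit 76) (nat_lit 0) (XT.lf (nat_lit 0) (nat_lit 19870382318) (nat_lit 0) (nat_lit 22444079113) (nat_lit 152) (nat_lit 19870382318) (nat_lit 128) (nat_lit 3) (nat_lit 128) (nat_lit 1) (nat_lit 130) (nat_lit 1) (nat_lit 261) (nat_lit 443) (nat_lit 316)) (XT.lf (nat_lit 76) (nat_lit 18759202022) (nat_lit 0) (nat_lit 21210341826) (nat_lit 76) (nat_lit 21210341826) (nat_lit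 128) (nat_lit 3) (nat_lit 127) (nat_lit 1) (nat_lit 128) (nat_lit 1) (nat_lit 262) (nat_lit 443) (nat_lit 315))) (XT.nd (nat_lit 78) (nat_lit 0) (nat_lit 0) (XT.lf (nat_lit 152) (nat_lit 58699651681) (nat_lit 0) (nat_lit 753038342) (nat_lit 76) (nat_lit 753038342) (nat_lit 127) (nat_lit 1) (nat_lit 125) (nat_lit 1) (nat_lit 126) (nat_lit 1) (nat_lit 263) (nat_lit 443) (nat_lit 314)) (XT.lf (nat_lit 0) (nat_lit 19033600877) (nat_lit 0) (nat_lit 21150987599) (nat_lit 152) (nat_lit 19033600877) (nat_lit 125) (nat_lit 3) (nat_lit 125) (nat_lit 1) (nat_lit 127) (nat_lit 1) (nat_lit 264) (nat_lit 443) (nat_lit 313))))))) (XT.nd (nat_lit 936) (nat_lit 988) (nat_lit 0) (XT.nd (nat_lit 468) (nat_lit 456) (nat_lit 0) (XT.nd (nat_lit 234) (nat_lit 228) (nat_lit 0) (XT.nd (nat_lit 78) (nat_lit 152) (nat_lit 0) (XT.lf (nat_lit 76) (nat_lit 18076104481) (nat_lit 0) (nat_lit 20092663264) (nat_lit 76) (nat_lit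 20092663264) (nat_lit 125) (nat_lit 3) (nat_lit 124) (nat_lit 1) (nat_lit 125) (nat_lit 1) (nat_lit 265) (nat_lit 443) (nat_lit 312)) (XT.nd (nat_lit 78) (nat_lit 0) (nat_lit 0) (XT.lf (nat_lit 152) (nat_lit 56095085768) (nat_lit 0) (nat_lit 619526507) (nat_lit 76) (nat_lit 619526507) (nat_lit 124) (nat_lit 1) (nat_lit 122) (nat_lit 1) (nat_lit 123) (nat_lit 1) (nat_lit 266) (nat_lit 443) (nat_lit 311)) (XT.lf (nat_lit 0) (nat_lit 18217264991) (nat_lit 0) (nat_lit 19959244288) (nat_lit 152) (nat_lit 18217264991) (nat_lit 122) (nat_lit 3) (nat_lit 122) (nat_lit 1) (nat_lit 124) (nat_lit 1) (nat_lit 267) (nat_lit 443) (nat_lit 310)))) (XT.nd (nat_lit 78) (nat_lit 152) (nat_lit 0) (XT.lf (nat_lit 76) (nat_lit 17388267846) (nat_lit 0) (nat_lit 19047295747) (nat_lit 76) (nat_lit 19047295747) (nat_lit 122) (nat_lit 3) (nat_lit 121) (nat_lit 1) (nat_lit 122) (nat_lit 1) (nat_lit 268) (nat_lit 443) (nat_lit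 309)) (XT.nd (nat_lit 78) (nat_lit 0) (nat_lit 0) (XT.lf (nat_lit 152) (nat_lit 53580744037) (nat_lit 0) (nat_lit 509685991) (nat_lit 76) (nat_lit 509685991) (nat_lit 121) (nat_lit 1) (nat_lit 119) (nat_lit 1) (nat_lit 120) (nat_lit 1) (nat_lit 269) (nat_lit 443) (nat_lit 308)) (XT.lf (nat_lit 0) (nat_lit 17423840846) (nat_lit 0) (nat_lit 18856971524) (nat_lit 152) (nat_lit 17423840846) (nat_lit 119) (nat_lit 3) (nat_lit 119) (nat_lit 1) (nat_lit 121) (nat_lit 1) (nat_lit 270) (nat_lit 443) (nat_lit 307))))) (XT.nd (nat_lit 234) (nat_lit 228) (nat_lit 0) (XT.nd (nat_lit 78) (nat_lit 152) (nat_lit 0) (XT.lf (nat_lit 76) (nat_lit 16702525232) (nat_lit 0) (nat_lit 18067411592) (nat_lit 76) (nat_lit 18067411592) (nat_lit 119) (nat_lit 3) (nat_lit 118) (nat_lit 1) (nat_lit 119) (nat_lit 1) (nat_lit 271) (nat_lit 443) (nat_lit 306)) (XT.nd (nat_lit 78) (nat_lit 0) (nat_lit 0) (XT.lf (nat_lit 152) (nat_lit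 51158323247) (nat_lit 0) (nat_lit 419319926) (nat_lit 76) (nat_lit 419319926) (nat_lit 118) (nat_lit 1) (nat_lit 116) (nat_lit 1) (nat_lit 117) (nat_lit 1) (nat_lit 272) (nat_lit 443) (nat_lit 305)) (XT.lf (nat_lit 0) (nat_lit 16655067320) (nat_lit 0) (nat_lit 17834107476) (nat_lit 152) (nat_lit 16655067320) (nat_lit 116) (nat_lit 3) (nat_lit 116) (nat_lit 1) (nat_lit 118) (nat_lit 1) (nat_lit 273) (nat_lit 443) (nat_lit 304)))) (XT.nd (nat_lit 78) (nat_lit 152) (nat_lit 0) (XT.lf (nat_lit 76) (nat_lit 16024212884) (nat_lit 0) (nat_lit 17147108271) (nat_lit 76) (nat_lit 17147108271) (nat_lit 116) (nat_lit 3) (nat_lit 115) (nat_lit 1) (nat_lit 116) (nat_lit 1) (nat_lit 274) (nat_lit 443) (nat_lit 303)) (XT.nd (nat_lit 78) (nat_lit 0) (nat_lit 0) (XT.lf (nat_lit 152) (nat_lit 48828376785) (nat_lit 0) (nat_lit 344975541) (nat_lit 76) (nat_lit 344975541) (nat_lit 115) (nat_lit 1) (nat_lit 113) (nat_lit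 1) (nat_lit 114) (nat_lit 1) (nat_lit 275) (nat_lit 443) (nat_lit 302)) (XT.lf (nat_lit 0) (nat_lit 15912098756) (nat_lit 0) (nat_lit 16882098010) (nat_lit 152) (nat_lit 15912098756) (nat_lit 113) (nat_lit 3) (nat_lit 113) (nat_lit 1) (nat_lit 115) (nat_lit 1) (nat_lit 276) (nat_lit 443) (nat_lit 301)))))) (XT.nd (nat_lit 468) (nat_lit 532) (nat_lit 0) (XT.nd (nat_lit 234) (nat_lit 228) (nat_lit 0) (XT.nd (nat_lit 78) (nat_lit 152) (nat_lit 0) (XT.lf (nat_lit 76) (nat_lit 15357449159) (nat_lit 0) (nat_lit 16281257972) (nat_lit 76) (nat_lit 16281257972) (nat_lit 113) (nat_lit 3) (nat_lit 112) (nat_lit 1) (nat_lit 113) (nat_lit 1) (nat_lit 277) (nat_lit 443) (nat_lit 300)) (XT.nd (nat_lit 78) (nat_lit 0) (nat_lit 0) (XT.lf (nat_lit 152) (nat_lit 46590557511) (nat_lit 0) (nat_lit 283812231) (nat_lit 76) (nat_lit 283812231) (nat_lit 112) (nat_lit 1) (nat_lit 110) (nat_lit 1) (nat_lit 111) (nat_lit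 1) (nat_lit 278) (nat_lit 443) (nat_lit 299)) (XT.lf (nat_lit 0) (nat_lit 15195621744) (nat_lit 0) (nat_lit 15993642530) (nat_lit 152) (nat_lit 15195621744) (nat_lit 110) (nat_lit 3) (nat_lit 110) (nat_lit 1) (nat_lit 112) (nat_lit 1) (nat_lit 279) (nat_lit 443) (nat_lit 298)))) (XT.nd (nat_lit 78) (nat_lit 152) (nat_lit 0) (XT.lf (nat_lit 76) (nat_lit 14705363394) (nat_lit 0) (nat_lit 15465383191) (nat_lit 76) (nat_lit 15465383191) (nat_lit 110) (nat_lit 3) (nat_lit 109) (nat_lit 1) (nat_lit 110) (nat_lit 1) (nat_lit 280) (nat_lit 443) (nat_lit 297)) (XT.nd (nat_lit 78) (nat_lit 0) (nat_lit 0) (XT.lf (nat_lit 152) (nat_lit 44443815623) (nat_lit 0) (nat_lit 233493025) (nat_lit 76) (nat_lit 233493025) (nat_lit 109) (nat_lit 1) (nat_lit 107) (nat_lit 1) (nat_lit 108) (nat_lit 1) (nat_lit 281) (nat_lit 443) (nat_lit 296)) (XT.lf (nat_lit 0) (nat_lit 14505950584) (nat_lit 0) (nat_lit 15162484260) (nat_lit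 152) (nat_lit 14505950584) (nat_lit 107) (nat_lit 3) (nat_lit 107) (nat_lit 1) (nat_lit 109) (nat_lit 1) (nat_lit 282) (nat_lit 443) (nat_lit 295))))) (XT.nd (nat_lit 234) (nat_lit 304) (nat_lit 0) (XT.nd (nat_lit 78) (nat_lit 152) (nat_lit 0) (XT.lf (nat_lit 76) (nat_lit 14070283585) (nat_lit 0) (nat_lit 14695553753) (nat_lit 76) (nat_lit 14695553753) (nat_lit 107) (nat_lit 3) (nat_lit 106) (nat_lit 1) (nat_lit 107) (nat_lit 1) (nat_lit 283) (nat_lit 443) (nat_lit 294)) (XT.nd (nat_lit 78) (nat_lit 0) (nat_lit 0) (XT.lf (nat_lit 152) (nat_lit 42386559632) (nat_lit 0) (nat_lit 192095289) (nat_lit 76) (nat_lit 192095289) (nat_lit 106) (nat_lit 1) (nat_lit 104) (nat_lit 1) (nat_lit 105) (nat_lit 1) (nat_lit 284) (nat_lit 443) (nat_lit 293)) (XT.lf (nat_lit 0) (nat_lit 13843105225) (nat_lit 0) (nat_lit 14383237105) (nat_lit 152) (nat_lit 13843105225) (nat_lit 104) (nat_lit 3) (nat_lit 104) (nat_lit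 1) (nat_lit 106) (nat_lit 1) (nat_lit 285) (nat_lit 443) (nat_lit 292)))) (XT.nd (nat_lit 156) (nat_lit 76) (nat_lit 0) (XT.nd (nat_lit 78) (nat_lit 152) (nat_lit 0) (XT.lf (nat_lit 76) (nat_lit 13453890200) (nat_lit 0) (nat_lit 13968301515) (nat_lit 76) (nat_lit 13968301515) (nat_lit 104) (nat_lit 3) (nat_lit 103) (nat_lit 1) (nat_lit 104) (nat_lit 1) (nat_lit 286) (nat_lit 443) (nat_lit 291)) (XT.lf (nat_lit 152) (nat_lit 40416787060) (nat_lit 0) (nat_lit 158037270) (nat_lit 76) (nat_lit 158037270) (nat_lit 103) (nat_lit 1) (nat_lit 101) (nat_lit 1) (nat_lit 102) (nat_lit 1) (nat_lit 287) (nat_lit 443) (nat_lit 290))) (XT.nd (nat_lit 78) (nat_lit 76) (nat_lit 0) (XT.lf (nat_lit 0) (nat_lit 13206874813) (nat_lit 0) (nat_lit 13651242648) (nat_lit 152) (nat_lit 13206874813) (nat_lit 101) (nat_lit 3) (nat_lit 101) (nat_lit 1) (nat_lit 103) (nat_lit 1) (nat_lit 288) (nat_lit 443) (nat_lit 289)) (XT.lf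 (nat_lit 76) (nat_lit 12857342167) (nat_lit 0) (nat_lit 13280549629) (nat_lit 76) (nat_lit 13280549629) (nat_lit 101) (nat_lit 3) (nat_lit 100) (nat_lit 1) (nat_lit 101) (nat_lit 1) (nat_lit 289) (nat_lit 443) (nat_lit 288))))))))
noncomputable def ec479 : XT := (XT.nd (nat_lit 1950) (nat_lit 1900) (nat_lit 0) (XT.nd (nat_lit 936) (nat_lit 1064) (nat_lit 0) (XT.nd (nat_lit 468) (nat_lit 456) (nat_lit 0) (XT.nd (nat_lit 234) (nat_lit 228) (nat_lit 0) (XT.nd (nat_lit 78) (nat_lit 76) (nat_lit 0) (XT.lf (nat_lit 152) (nat_lit 38532190311) (nat_lit 0) (nat_lit 130017653) (nat_lit 76) (nat_lit 130017653) (nat_lit 100) (nat_lit 1) (nat_lit 98) (nat_lit 1) (nat_lit 99) (nat_lit 1) (nat_lit 290) (nat_lit 443) (nat_lit 287)) (XT.nd (nat_lit 78) (nat_lit 76) (nat_lit 0) (XT.lf (nat_lit 0) (nat_lit 12596869437) (nat_lit 0) (nat_lit 12962451954) (nat_lit 152) (nat_lit 12596869437) (nat_lit 98) (nat_lit 3)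 (nat_lit 98) (nat_lit 1) (nat_lit 100) (nat_lit 1) (nat_lit 291) (nat_lit 443) (nat_lit 286)) (XT.lf (nat_lit 76) (nat_lit 12281379986) (nat_lit 0) (nat_lit 12629553812) (nat_lit 76) (nat_lit 12629553812) (nat_lit 98) (nat_lit 3) (nat_lit 97) (nat_lit 1) (nat_lit 98) (nat_lit 1) (nat_lit 292) (nat_lit 443) (nat_lit 285)))) (XT.nd (nat_lit 78) (nat_lit 76) (nat_lit 0) (XT.lf (nat_lit 152) (nat_lit 36730242208) (nat_lit 0) (nat_lit 106965845) (nat_lit 76) (nat_lit 106965845) (nat_lit 97) (nat_lit 1) (nat_lit 95) (nat_lit 1) (nat_lit 96) (nat_lit 1) (nat_lit 293) (nat_lit 443) (nat_lit 284)) (XT.nd (nat_lit 78) (nat_lit 76) (nat_lit 0) (XT.lf (nat_lit 0) (nat_lit 12012562178) (nat_lit 0) (nat_lit 12313327820) (nat_lit 152) (nat_lit 12012562178) (nat_lit 95) (nat_lit 3) (nat_lit 95) (nat_lit 1) (nat_lit 97) (nat_lit 1) (nat_lit 294) (nat_lit 443) (nat_lit 283)) (XT.lf (nat_lit 76) (nat_lit 11726410057)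 (nat_lit 0) (nat_lit 12012853525) (nat_lit 76) (nat_lit 12012853525) (nat_lit 95) (nat_lit 3) (nat_lit 94) (nat_lit 1) (nat_lit 95) (nat_lit 1) (nat_lit 295) (nat_lit 443) (nat_lit 282))))) (XT.nd (nat_lit 234) (nat_lit 228) (nat_lit 0) (XT.nd (nat_lit 78) (nat_lit 76) (nat_lit 0) (XT.lf (nat_lit 152) (nat_lit 35008264859) (nat_lit 0) (nat_lit 88001065) (nat_lit 76) (nat_lit 88001065) (nat_lit 94) (nat_lit 1) (nat_lit 92) (nat_lit 1) (nat_lit 93) (nat_lit 1) (nat_lit 296) (nat_lit 443) (nat_lit 281)) (XT.nd (nat_lit 78) (nat_lit 76) (nat_lit 0) (XT.lf (nat_lit 0) (nat_lit 11453323221) (nat_lit 0) (nat_lit 11700763859) (nat_lit 152) (nat_lit 11453323221) (nat_lit 92) (nat_lit 3) (nat_lit 92) (nat_lit 1) (nat_lit 94) (nat_lit 1) (nat_lit 297) (nat_lit 443) (nat_lit 280)) (XT.lf (nat_lit 76) (nat_lit 11192573572) (nat_lit 0) (nat_lit 11428231323) (nat_lit 76) (nat_lit 11428231323) (nat_lit 92) (nat_lit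 3) (nat_lit 91) (nat_lit 1) (nat_lit 92) (nat_lit 1) (nat_lit 298) (nat_lit 443) (nat_lit 279)))) (XT.nd (nat_lit 78) (nat_lit 76) (nat_lit 0) (XT.lf (nat_lit 152) (nat_lit 33363484895) (nat_lit 0) (nat_lit 72398694) (nat_lit 76) (nat_lit 72398694) (nat_lit 91) (nat_lit 1) (nat_lit 89) (nat_lit 1) (nat_lit 90) (nat_lit 1) (nat_lit 299) (nat_lit 443) (nat_lit 278)) (XT.nd (nat_lit 78) (nat_lit 76) (nat_lit 0) (XT.lf (nat_lit 0) (nat_lit 10918447443) (nat_lit 0) (nat_lit 11122017468) (nat_lit 152) (nat_lit 10918447443) (nat_lit 89) (nat_lit 3) (nat_lit 89) (nat_lit 1) (nat_lit 91) (nat_lit 1) (nat_lit 300) (nat_lit 443) (nat_lit 277)) (XT.lf (nat_lit 76) (nat_lit 10679802738) (nat_lit 0) (nat_lit 10873678952) (nat_lit 76) (nat_lit 10873678952) (nat_lit 89) (nat_lit 3) (nat_lit 88) (nat_lit 1) (nat_lit 89) (nat_lit 1) (nat_lit 301) (nat_lit 443) (nat_lit 276)))))) (XT.nd (nat_lit 468) (nat_lit 608)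 (nat_lit 0) (XT.nd (nat_lit 234) (nat_lit 228) (nat_lit 0) (XT.nd (nat_lit 78) (nat_lit 76) (nat_lit 0) (XT.lf (nat_lit 152) (nat_lit 31793077550) (nat_lit 0) (nat_lit 59562585) (nat_lit 76) (nat_lit 59562585) (nat_lit 88) (nat_lit 1) (nat_lit 86) (nat_lit 1) (nat_lit 87) (nat_lit 1) (nat_lit 302) (nat_lit 443) (nat_lit 275)) (XT.nd (nat_lit 78) (nat_lit 76) (nat_lit 0) (XT.lf (nat_lit 0) (nat_lit 10407176670) (nat_lit 0) (nat_lit 10574654233) (nat_lit 152) (nat_lit 10407176670) (nat_lit 86) (nat_lit 3) (nat_lit 86) (nat_lit 1) (nat_lit 88) (nat_lit 1) (nat_lit 303) (nat_lit 443) (nat_lit 274)) (XT.lf (nat_lit 76) (nat_lit 10187866581) (nat_lit 0) (nat_lit 10347369022) (nat_lit 76) (nat_lit 10347369022) (nat_lit 86) (nat_lit 3) (nat_lit 85) (nat_lit 1) (nat_lit 86) (nat_lit 1) (nat_lit 304) (nat_lit 443) (nat_lit 273)))) (XT.nd (nat_lit 78) (nat_lit 76) (nat_lit 0) (XT.lf (nat_lit 152) (nat_lit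 30294201638) (nat_lit 0) (nat_lit 49002286) (nat_lit 76) (nat_lit 49002286) (nat_lit 85) (nat_lit 1) (nat_lit 83) (nat_lit 1) (nat_lit 84) (nat_lit 1) (nat_lit 305) (nat_lit 443) (nat_lit 272)) (XT.nd (nat_lit 78) (nat_lit 76) (nat_lit 0) (XT.lf (nat_lit 0) (nat_lit 9918717561) (nat_lit 0) (nat_lit 10056501767) (nat_lit 152) (nat_lit 9918717561) (nat_lit 83) (nat_lit 3) (nat_lit 83) (nat_lit 1) (nat_lit 85) (nat_lit 1) (nat_lit 306) (nat_lit 443) (nat_lit 271)) (XT.lf (nat_lit 76) (nat_lit 9716408228) (nat_lit 0) (nat_lit 9847631282) (nat_lit 76) (nat_lit 9847631282) (nat_lit 83) (nat_lit 3) (nat_lit 82) (nat_lit 1) (nat_lit 83) (nat_lit 1) (nat_lit 307) (nat_lit 443) (nat_lit 270))))) (XT.nd (nat_lit 234) (nat_lit 380) (nat_lit 0) (XT.nd (nat_lit 78) (nat_lit 76) (nat_lit 0) (XT.lf (nat_lit 152) (nat_lit 28864027094) (nat_lit 0) (nat_lit 40314302) (nat_lit 76) (nat_lit 40314302) (nat_lit 82) (nat_lit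 1) (nat_lit 80) (nat_lit 1) (nat_lit 81) (nat_lit 1) (nat_lit 308) (nat_lit 443) (nat_lit 269)) (XT.nd (nat_lit 78) (nat_lit 76) (nat_lit 0) (XT.lf (nat_lit 0) (nat_lit 9452255922) (nat_lit 0) (nat_lit 9565611329) (nat_lit 152) (nat_lit 9452255922) (nat_lit 80) (nat_lit 3) (nat_lit 80) (nat_lit 1) (nat_lit 82) (nat_lit 1) (nat_lit 309) (nat_lit 443) (nat_lit 268)) (XT.lf (nat_lit 76) (nat_lit 9264975171) (nat_lit 0) (nat_lit 9372932702) (nat_lit 76) (nat_lit 9372932702) (nat_lit 80) (nat_lit 3) (nat_lit 79) (nat_lit 1) (nat_lit 80) (nat_lit 1) (nat_lit 310) (nat_lit 443) (nat_lit 267)))) (XT.nd (nat_lit 156) (nat_lit 228) (nat_lit 0) (XT.nd (nat_lit 78) (nat_lit 0) (nat_lit 0) (XT.lf (nat_lit 152) (nat_lit 27499756461) (nat_lit 0) (nat_lit 33166676) (nat_lit 76) (nat_lit 33166676) (nat_lit 79) (nat_lit 1) (nat_lit 77) (nat_lit 1) (nat_lit 78) (nat_lit 1) (nat_lit 311) (nat_lit 443) (nat_lit 266))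 (XT.lf (nat_lit 0) (nat_lit 9006968089) (nat_lit 0) (nat_lit 9100225863) (nat_lit 152) (nat_lit 9006968089) (nat_lit 77) (nat_lit 3) (nat_lit 77) (nat_lit 1) (nat_lit 79) (nat_lit 1) (nat_lit 312) (nat_lit 443) (nat_lit 265))) (XT.nd (nat_lit 78) (nat_lit 152) (nat_lit 0) (XT.lf (nat_lit 76) (nat_lit 8833043789) (nat_lit 0) (nat_lit 8921860716) (nat_lit 76) (nat_lit 8921860716) (nat_lit 77) (nat_lit 3) (nat_lit 76) (nat_lit 1) (nat_lit 77) (nat_lit 1) (nat_lit 313) (nat_lit 443) (nat_lit 264)) (XT.lf (nat_lit 152) (nat_lit 26198641447) (nat_lit 0) (nat_lit 27286306) (nat_lit 76) (nat_lit 27286306) (nat_lit 76) (nat_lit 1) (nat_lit 74) (nat_lit 1) (nat_lit 75) (nat_lit 1) (nat_lit 314) (nat_lit 443) (nat_lit 263))))))) (XT.nd (nat_lit 1014) (nat_lit 988) (nat_lit 0) (XT.nd (nat_lit 468) (nat_lit 456) (nat_lit 0) (XT.nd (nat_lit 234) (nat_lit 228) (nat_lit 0) (XT.nd (nat_lit 78) (nat_lit 228) (nat_lit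 0) (XT.lf (nat_lit 0) (nat_lit 8582029937) (nat_lit 0) (nat_lit 8658753339) (nat_lit 152) (nat_lit 8582029937) (nat_lit 74) (nat_lit 3) (nat_lit 74) (nat_lit 1) (nat_lit 76) (nat_lit 1) (nat_lit 315) (nat_lit 443) (nat_lit 262)) (XT.nd (nat_lit 78) (nat_lit 152) (nat_lit 0) (XT.lf (nat_lit 76) (nat_lit 8420039162) (nat_lit 0) (nat_lit 8493109068) (nat_lit 76) (nat_lit 8493109068) (nat_lit 74) (nat_lit 3) (nat_lit 73) (nat_lit 1) (nat_lit 74) (nat_lit 1) (nat_lit 316) (nat_lit 443) (nat_lit 261)) (XT.lf (nat_lit 152) (nat_lit 24957995488) (nat_lit 0) (nat_lit 22448511) (nat_lit 76) (nat_lit 22448511) (nat_lit 73) (nat_lit 1) (nat_lit 71) (nat_lit 1) (nat_lit 72) (nat_lit 1) (nat_lit 317) (nat_lit 443) (nat_lit 260)))) (XT.nd (nat_lit 78) (nat_lit 228) (nat_lit 0) (XT.lf (nat_lit 0) (nat_lit 8176623935) (nat_lit 0) (nat_lit 8239744467) (nat_lit 152) (nat_lit 8176623935) (nat_lit 71) (nat_lit 3) (nat_lit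 71) (nat_lit 1) (nat_lit 73) (nat_lit 1) (nat_lit 318) (nat_lit 443) (nat_lit 259)) (XT.nd (nat_lit 78) (nat_lit 152) (nat_lit 0) (XT.lf (nat_lit 76) (nat_lit 8025351035) (nat_lit 0) (nat_lit 8085465828) (nat_lit 76) (nat_lit 8085465828) (nat_lit 71) (nat_lit 3) (nat_lit 70) (nat_lit 1) (nat_lit 71) (nat_lit 1) (nat_lit 319) (nat_lit 443) (nat_lit 258)) (XT.lf (nat_lit 152) (nat_lit 23775203067) (nat_lit 0) (nat_lit 18468446) (nat_lit 76) (nat_lit 18468446) (nat_lit 70) (nat_lit 1) (nat_lit 68) (nat_lit 1) (nat_lit 69) (nat_lit 1) (nat_lit 320) (nat_lit 443) (nat_lit 257))))) (XT.nd (nat_lit 234) (nat_lit 228) (nat_lit 0) (XT.nd (nat_lit 78) (nat_lit 228) (nat_lit 0) (XT.lf (nat_lit 0) (nat_lit 7789944620) (nat_lit 0) (nat_lit 7841874038) (nat_lit 152) (nat_lit 7789944620) (nat_lit 68) (nat_lit 3) (nat_lit 68) (nat_lit 1) (nat_lit 70) (nat_lit 1) (nat_lit 321) (nat_lit 443) (nat_lit 256)) (XT.nd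 (nat_lit 78) (nat_lit 152) (nat_lit 0) (XT.lf (nat_lit 76) (nat_lit 7648346613) (nat_lit 0) (nat_lit 7697803202) (nat_lit 76) (nat_lit 7697803202) (nat_lit 68) (nat_lit 3) (nat_lit 67) (nat_lit 1) (nat_lit 68) (nat_lit 1) (nat_lit 322) (nat_lit 443) (nat_lit 255)) (XT.lf (nat_lit 152) (nat_lit 22647726414) (nat_lit 0) (nat_lit 15194036) (nat_lit 76) (nat_lit 15194036) (nat_lit 67) (nat_lit 1) (nat_lit 65) (nat_lit 1) (nat_lit 66) (nat_lit 1) (nat_lit 323) (nat_lit 443) (nat_lit 254)))) (XT.nd (nat_lit 156) (nat_lit 152) (nat_lit 0) (XT.nd (nat_lit 78) (nat_lit 76) (nat_lit 0) (XT.lf (nat_lit 0) (nat_lit 7421202787) (nat_lit 0) (nat_lit 7463925248) (nat_lit 152) (nat_lit 7421202787) (nat_lit 65) (nat_lit 3) (nat_lit 65) (nat_lit 1) (nat_lit 67) (nat_lit 1) (nat_lit 324) (nat_lit 443) (nat_lit 253)) (XT.lf (nat_lit 76) (nat_lit 7288380788) (nat_lit 0) (nat_lit 7329068846) (nat_lit 76) (nat_lit 7329068846)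 (nat_lit 65) (nat_lit 3) (nat_lit 64) (nat_lit 1) (nat_lit 65) (nat_lit 1) (nat_lit 325) (nat_lit 443) (nat_lit 252))) (XT.nd (nat_lit 78) (nat_lit 0) (nat_lit 0) (XT.lf (nat_lit 152) (nat_lit 21573110105) (nat_lit 0) (nat_lit 12500171) (nat_lit 76) (nat_lit 12500171) (nat_lit 64) (nat_lit 1) (nat_lit 62) (nat_lit 1) (nat_lit 63) (nat_lit 1) (nat_lit 326) (nat_lit 443) (nat_lit 251)) (XT.lf (nat_lit 0) (nat_lit 7069628631) (nat_lit 0) (nat_lit 7104776506) (nat_lit 152) (nat_lit 7069628631) (nat_lit 62) (nat_lit 3) (nat_lit 62) (nat_lit 1) (nat_lit 64) (nat_lit 1) (nat_lit 327) (nat_lit 443) (nat_lit 250)))))) (XT.nd (nat_lit 468) (nat_lit 532) (nat_lit 0) (XT.nd (nat_lit 234) (nat_lit 228) (nat_lit 0) (XT.nd (nat_lit 78) (nat_lit 152) (nat_lit 0) (XT.lf (nat_lit 76) (nat_lit 6944804245) (nat_lit 0) (nat_lit 6978278411) (nat_lit 76) (nat_lit 6978278411) (nat_lit 62) (nat_lit 3) (nat_lit 61) (nat_lit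 1) (nat_lit 62) (nat_lit 1) (nat_lit 328) (nat_lit 443) (nat_lit 249)) (XT.nd (nat_lit 78) (nat_lit 0) (nat_lit 0) (XT.lf (nat_lit 152) (nat_lit 20548983963) (nat_lit 0) (nat_lit 10283921) (nat_lit 76) (nat_lit 10283921) (nat_lit 61) (nat_lit 1) (nat_lit 59) (nat_lit 1) (nat_lit 60) (nat_lit 1) (nat_lit 329) (nat_lit 443) (nat_lit 248)) (XT.lf (nat_lit 0) (nat_lit 6734474050) (nat_lit 0) (nat_lit 6763390293) (nat_lit 152) (nat_lit 6734474050) (nat_lit 59) (nat_lit 3) (nat_lit 59) (nat_lit 1) (nat_lit 61) (nat_lit 1) (nat_lit 330) (nat_lit 443) (nat_lit 247)))) (XT.nd (nat_lit 78) (nat_lit 152) (nat_lit 0) (XT.lf (nat_lit 76) (nat_lit 6616969862) (nat_lit 0) (nat_lit 6644509141) (nat_lit 76) (nat_lit 6644509141) (nat_lit 59) (nat_lit 3) (nat_lit 58) (nat_lit 1) (nat_lit 59) (nat_lit 1) (nat_lit 331) (nat_lit 443) (nat_lit 246)) (XT.nd (nat_lit 78) (nat_lit 0) (nat_lit 0) (XT.lf (nat_lit 152) (nat_lit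 19573064619) (nat_lit 0) (nat_lit 8460608) (nat_lit 76) (nat_lit 8460608) (nat_lit 58) (nat_lit 1) (nat_lit 56) (nat_lit 1) (nat_lit 57) (nat_lit 1) (nat_lit 332) (nat_lit 443) (nat_lit 245)) (XT.lf (nat_lit 0) (nat_lit 6415014257) (nat_lit 0) (nat_lit 6438803722) (nat_lit 152) (nat_lit 6415014257) (nat_lit 56) (nat_lit 3) (nat_lit 56) (nat_lit 1) (nat_lit 58) (nat_lit 1) (nat_lit 333) (nat_lit 443) (nat_lit 244))))) (XT.nd (nat_lit 234) (nat_lit 304) (nat_lit 0) (XT.nd (nat_lit 78) (nat_lit 152) (nat_lit 0) (XT.lf (nat_lit 76) (nat_lit 6304237694) (nat_lit 0) (nat_lit 6326894327) (nat_lit 76) (nat_lit 6326894327) (nat_lit 56) (nat_lit 3) (nat_lit 55) (nat_lit 1) (nat_lit 56) (nat_lit 1) (nat_lit 334) (nat_lit 443) (nat_lit 243)) (XT.nd (nat_lit 78) (nat_lit 0) (nat_lit 0) (XT.lf (nat_lit 152) (nat_lit 18643155995) (nat_lit 0) (nat_lit 6960563) (nat_lit 76) (nat_lit 6960563) (nat_lit 55) (nat_lit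 1) (nat_lit 53) (nat_lit 1) (nat_lit 54) (nat_lit 1) (nat_lit 335) (nat_lit 443) (nat_lit 242)) (XT.lf (nat_lit 0) (nat_lit 6110548857) (nat_lit 0) (nat_lit 6130120508) (nat_lit 152) (nat_lit 6110548857) (nat_lit 53) (nat_lit 3) (nat_lit 53) (nat_lit 1) (nat_lit 55) (nat_lit 1) (nat_lit 336) (nat_lit 443) (nat_lit 241)))) (XT.nd (nat_lit 156) (nat_lit 76) (nat_lit 0) (XT.nd (nat_lit 78) (nat_lit 152) (nat_lit 0) (XT.lf (nat_lit 76) (nat_lit 6005978821) (nat_lit 0) (nat_lit 6024618489) (nat_lit 76) (nat_lit 6024618489) (nat_lit 53) (nat_lit 3) (nat_lit 52) (nat_lit 1) (nat_lit 53) (nat_lit 1) (nat_lit 337) (nat_lit 443) (nat_lit 240)) (XT.lf (nat_lit 152) (nat_lit 17757148949) (nat_lit 0) (nat_lit 5726472) (nat_lit 76) (nat_lit 5726472) (nat_lit 52) (nat_lit 1) (nat_lit 50) (nat_lit 1) (nat_lit 51) (nat_lit 1) (nat_lit 338) (nat_lit 443) (nat_lit 239))) (XT.nd (nat_lit 78) (nat_lit 76) (nat_lit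 0) (XT.lf (nat_lit 0) (nat_lit 5820402478) (nat_lit 0) (nat_lit 5836504124) (nat_lit 152) (nat_lit 5820402478) (nat_lit 50) (nat_lit 3) (nat_lit 50) (nat_lit 1) (nat_lit 52) (nat_lit 1) (nat_lit 339) (nat_lit 443) (nat_lit 238)) (XT.lf (nat_lit 76) (nat_lit 5721578276) (nat_lit 0) (nat_lit 5736913178) (nat_lit 76) (nat_lit 5736913178) (nat_lit 50) (nat_lit 3) (nat_lit 49) (nat_lit 1) (nat_lit 50) (nat_lit 1) (nat_lit 340) (nat_lit 443) (nat_lit 237))))))))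
noncomputable def ec480 : XT := (XT.nd (nat_lit 1950) (nat_lit 1748) (nat_lit 0) (XT.nd (nat_lit 936) (nat_lit 1064) (nat_lit 0) (XT.nd (nat_lit 468) (nat_lit 456) (nat_lit 0) (XT.nd (nat_lit 234) (nat_lit 228) (nat_lit 0) (XT.nd (nat_lit 78) (nat_lit 76) (nat_lit 0) (XT.lf (nat_lit 152) (nat_lit 16913020267) (nat_lit 0) (nat_lit 4711183) (nat_lit 76) (nat_lit 4711183) (nat_lit 49) (nat_lit 1) (nat_lit 47) (nat_lit 1) (nat_lit 48) (nat_lit 1) (nat_lit 341) (nat_lit 443) (nat_lit 236)) (XT.nd (nat_lit 78) (nat_lit 76) (nat_lit 0) (XT.lf (nat_lit 0) (nat_lit 5543925058) (nat_lit 0) (nat_lit 5557171922) (nat_lit 152) (nat_lit 5543925058) (nat_lit 47) (nat_lit 3) (nat_lit 47) (nat_lit 1) (nat_lit 49) (nat_lit 1) (nat_lit 342) (nat_lit 443) (nat_lit 235)) (XT.lf (nat_lit 76) (nat_lit 5450437214) (nat_lit 0) (nat_lit 5463053275) (nat_lit 76) (nat_lit 5463053275) (nat_lit 47) (nat_lit 3) (nat_lit 46)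 (nat_lit 1) (nat_lit 47) (nat_lit 1) (nat_lit 343) (nat_lit 443) (nat_lit 234)))) (XT.nd (nat_lit 78) (nat_lit 76) (nat_lit 0) (XT.lf (nat_lit 152) (nat_lit 16108831135) (nat_lit 0) (nat_lit 3875902) (nat_lit 76) (nat_lit 3875902) (nat_lit 46) (nat_lit 1) (nat_lit 44) (nat_lit 1) (nat_lit 45) (nat_lit 1) (nat_lit 344) (nat_lit 443) (nat_lit 233)) (XT.nd (nat_lit 78) (nat_lit 76) (nat_lit 0) (XT.lf (nat_lit 0) (nat_lit 5280491850) (nat_lit 0) (nat_lit 5291390078) (nat_lit 152) (nat_lit 5280491850) (nat_lit 44) (nat_lit 3) (nat_lit 44) (nat_lit 1) (nat_lit 46) (nat_lit 1) (nat_lit 345) (nat_lit 443) (nat_lit 232)) (XT.lf (nat_lit 76) (nat_lit 5191974477) (nat_lit 0) (nat_lit 5202353742) (nat_lit 76) (nat_lit 5202353742) (nat_lit 44) (nat_lit 3) (nat_lit 43) (nat_lit 1) (nat_lit 44) (nat_lit 1) (nat_lit 346) (nat_lit 443) (nat_lit 231))))) (XT.nd (nat_lit 234) (nat_lit 228) (nat_lit 0) (XT.nd (nat_lit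 78) (nat_lit 76) (nat_lit 0) (XT.lf (nat_lit 152) (nat_lit 15342725246) (nat_lit 0) (nat_lit 3188714) (nat_lit 76) (nat_lit 3188714) (nat_lit 43) (nat_lit 1) (nat_lit 41) (nat_lit 1) (nat_lit 42) (nat_lit 1) (nat_lit 347) (nat_lit 443) (nat_lit 230)) (XT.nd (nat_lit 78) (nat_lit 76) (nat_lit 0) (XT.lf (nat_lit 0) (nat_lit 5029503223) (nat_lit 0) (nat_lit 5038469222) (nat_lit 152) (nat_lit 5029503223) (nat_lit 41) (nat_lit 3) (nat_lit 41) (nat_lit 1) (nat_lit 43) (nat_lit 1) (nat_lit 348) (nat_lit 443) (nat_lit 229)) (XT.lf (nat_lit 76) (nat_lit 4945627672) (nat_lit 0) (nat_lit 4954166719) (nat_lit 76) (nat_lit 4954166719) (nat_lit 41) (nat_lit 3) (nat_lit 40) (nat_lit 1) (nat_lit 41) (nat_lit 1) (nat_lit 349) (nat_lit 443) (nat_lit 228)))) (XT.nd (nat_lit 78) (nat_lit 76) (nat_lit 0) (XT.lf (nat_lit 152) (nat_lit 14612926606) (nat_lit 0) (nat_lit 2623363) (nat_lit 76) (nat_lit 2623363) (nat_lit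 40) (nat_lit 1) (nat_lit 38) (nat_lit 1) (nat_lit 39) (nat_lit 1) (nat_lit 350) (nat_lit 443) (nat_lit 227)) (XT.nd (nat_lit 78) (nat_lit 76) (nat_lit 0) (XT.lf (nat_lit 0) (nat_lit 4790384282) (nat_lit 0) (nat_lit 4797760631) (nat_lit 152) (nat_lit 4790384282) (nat_lit 38) (nat_lit 3) (nat_lit 38) (nat_lit 1) (nat_lit 40) (nat_lit 1) (nat_lit 351) (nat_lit 443) (nat_lit 226)) (XT.lf (nat_lit 76) (nat_lit 4710853860) (nat_lit 0) (nat_lit 4717878954) (nat_lit 76) (nat_lit 4717878954) (nat_lit 38) (nat_lit 3) (nat_lit 37) (nat_lit 1) (nat_lit 38) (nat_lit 1) (nat_lit 352) (nat_lit 443) (nat_lit 225)))))) (XT.nd (nat_lit 468) (nat_lit 608) (nat_lit 0) (XT.nd (nat_lit 234) (nat_lit 228) (nat_lit 0) (XT.nd (nat_lit 78) (nat_lit 76) (nat_lit 0) (XT.lf (nat_lit 152) (nat_lit 13917737146) (nat_lit 0) (nat_lit 2158247) (nat_lit 76) (nat_lit 2158247) (nat_lit 37) (nat_lit 1) (nat_lit 35) (nat_lit 1) (nat_lit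 36) (nat_lit 1) (nat_lit 353) (nat_lit 443) (nat_lit 224)) (XT.nd (nat_lit 78) (nat_lit 76) (nat_lit 0) (XT.lf (nat_lit 0) (nat_lit 4562584369) (nat_lit 0) (nat_lit 4568652910) (nat_lit 152) (nat_lit 4562584369) (nat_lit 35) (nat_lit 3) (nat_lit 35) (nat_lit 1) (nat_lit 37) (nat_lit 1) (nat_lit 354) (nat_lit 443) (nat_lit 223)) (XT.lf (nat_lit 76) (nat_lit 4487129923) (nat_lit 0) (nat_lit 4492909486) (nat_lit 76) (nat_lit 4492909486) (nat_lit 35) (nat_lit 3) (nat_lit 34) (nat_lit 1) (nat_lit 35) (nat_lit 1) (nat_lit 355) (nat_lit 443) (nat_lit 222)))) (XT.nd (nat_lit 78) (nat_lit 76) (nat_lit 0) (XT.lf (nat_lit 152) (nat_lit 13255534187) (nat_lit 0) (nat_lit 1775595) (nat_lit 76) (nat_lit 1775595) (nat_lit 34) (nat_lit 1) (nat_lit 32) (nat_lit 1) (nat_lit 33) (nat_lit 1) (nat_lit 356) (nat_lit 443) (nat_lit 221)) (XT.nd (nat_lit 78) (nat_lit 76) (nat_lit 0) (XT.lf (nat_lit 0) (nat_lit 4345576466)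 (nat_lit 0) (nat_lit 4350569070) (nat_lit 152) (nat_lit 4345576466) (nat_lit 32) (nat_lit 3) (nat_lit 32) (nat_lit 1) (nat_lit 34) (nat_lit 1) (nat_lit 357) (nat_lit 443) (nat_lit 220)) (XT.lf (nat_lit 76) (nat_lit 4273952697) (nat_lit 0) (nat_lit 4278707557) (nat_lit 76) (nat_lit 4278707557) (nat_lit 32) (nat_lit 3) (nat_lit 31) (nat_lit 1) (nat_lit 32) (nat_lit 1) (nat_lit 358) (nat_lit 443) (nat_lit 219))))) (XT.nd (nat_lit 234) (nat_lit 380) (nat_lit 0) (XT.nd (nat_lit 78) (nat_lit 76) (nat_lit 0) (XT.lf (nat_lit 152) (nat_lit 12624767822) (nat_lit 0) (nat_lit 1460786) (nat_lit 76) (nat_lit 1460786) (nat_lit 31) (nat_lit 1) (nat_lit 29) (nat_lit 1) (nat_lit 30) (nat_lit 1) (nat_lit 359) (nat_lit 443) (nat_lit 218)) (XT.nd (nat_lit 78) (nat_lit 76) (nat_lit 0) (XT.lf (nat_lit 0) (nat_lit 4138856526) (nat_lit 0) (nat_lit 4142963954) (nat_lit 152) (nat_lit 4138856526) (nat_lit 29) (nat_lit 3)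 (nat_lit 29) (nat_lit 1) (nat_lit 31) (nat_lit 1) (nat_lit 360) (nat_lit 443) (nat_lit 217)) (XT.lf (nat_lit 76) (nat_lit 4070838893) (nat_lit 0) (nat_lit 4074750729) (nat_lit 76) (nat_lit 4074750729) (nat_lit 29) (nat_lit 3) (nat_lit 28) (nat_lit 1) (nat_lit 29) (nat_lit 1) (nat_lit 361) (nat_lit 443) (nat_lit 216)))) (XT.nd (nat_lit 156) (nat_lit 228) (nat_lit 0) (XT.nd (nat_lit 78) (nat_lit 0) (nat_lit 0) (XT.lf (nat_lit 152) (nat_lit 12023958246) (nat_lit 0) (nat_lit 1201792) (nat_lit 76) (nat_lit 1201792) (nat_lit 28) (nat_lit 1) (nat_lit 26) (nat_lit 1) (nat_lit 27) (nat_lit 1) (nat_lit 362) (nat_lit 443) (nat_lit 215)) (XT.lf (nat_lit 0) (nat_lit 3941942758) (nat_lit 0) (nat_lit 3945321949) (nat_lit 152) (nat_lit 3941942758) (nat_lit 26) (nat_lit 3) (nat_lit 26) (nat_lit 1) (nat_lit 28) (nat_lit 1) (nat_lit 363) (nat_lit 443) (nat_lit 214))) (XT.nd (nat_lit 78) (nat_lit 152) (nat_lit 0)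 (XT.lf (nat_lit 76) (nat_lit 3877324882) (nat_lit 0) (nat_lit 3880543159) (nat_lit 76) (nat_lit 3880543159) (nat_lit 26) (nat_lit 3) (nat_lit 25) (nat_lit 1) (nat_lit 26) (nat_lit 1) (nat_lit 364) (nat_lit 443) (nat_lit 213)) (XT.lf (nat_lit 152) (nat_lit 11451693078) (nat_lit 0) (nat_lit 988717) (nat_lit 76) (nat_lit 988717) (nat_lit 25) (nat_lit 1) (nat_lit 23) (nat_lit 1) (nat_lit 24) (nat_lit 1) (nat_lit 365) (nat_lit 443) (nat_lit 212))))))) (XT.nd (nat_lit 936) (nat_lit 836) (nat_lit 0) (XT.nd (nat_lit 468) (nat_lit 456) (nat_lit 0) (XT.nd (nat_lit 234) (nat_lit 228) (nat_lit 0) (XT.nd (nat_lit 78) (nat_lit 228) (nat_lit 0) (XT.lf (nat_lit 0) (nat_lit 3754374873) (nat_lit 0) (nat_lit 3757154941) (nat_lit 152) (nat_lit 3754374873) (nat_lit 23) (nat_lit 3) (nat_lit 23) (nat_lit 1) (nat_lit 25) (nat_lit 1) (nat_lit 366) (nat_lit 443) (nat_lit 211)) (XT.nd (nat_lit 78) (nat_lit 152) (nat_lit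 0) (XT.lf (nat_lit 76) (nat_lit 3692966348) (nat_lit 0) (nat_lit 3695614032) (nat_lit 76) (nat_lit 3695614032) (nat_lit 23) (nat_lit 3) (nat_lit 22) (nat_lit 1) (nat_lit 23) (nat_lit 1) (nat_lit 367) (nat_lit 443) (nat_lit 210)) (XT.lf (nat_lit 152) (nat_lit 10906624685) (nat_lit 0) (nat_lit 813420) (nat_lit 76) (nat_lit 813420) (nat_lit 22) (nat_lit 1) (nat_lit 20) (nat_lit 1) (nat_lit 21) (nat_lit 1) (nat_lit 368) (nat_lit 443) (nat_lit 209)))) (XT.nd (nat_lit 78) (nat_lit 228) (nat_lit 0) (XT.lf (nat_lit 0) (nat_lit 3575713319) (nat_lit 0) (nat_lit 3578000488) (nat_lit 152) (nat_lit 3575713319) (nat_lit 20) (nat_lit 3) (nat_lit 20) (nat_lit 1) (nat_lit 22) (nat_lit 1) (nat_lit 369) (nat_lit 443) (nat_lit 208)) (XT.nd (nat_lit 78) (nat_lit 152) (nat_lit 0) (XT.lf (nat_lit 76) (nat_lit 3517337860) (nat_lit 0) (nat_lit 3519516116) (nat_lit 76) (nat_lit 3519516116) (nat_lit 20) (nat_lit 3) (nat_lit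 19) (nat_lit 1) (nat_lit 20) (nat_lit 1) (nat_lit 370) (nat_lit 443) (nat_lit 207)) (XT.lf (nat_lit 152) (nat_lit 10387467548) (nat_lit 0) (nat_lit 669203) (nat_lit 76) (nat_lit 669203) (nat_lit 19) (nat_lit 1) (nat_lit 17) (nat_lit 1) (nat_lit 18) (nat_lit 1) (nat_lit 371) (nat_lit 443) (nat_lit 206))))) (XT.nd (nat_lit 234) (nat_lit 228) (nat_lit 0) (XT.nd (nat_lit 78) (nat_lit 228) (nat_lit 0) (XT.lf (nat_lit 0) (nat_lit 3405538501) (nat_lit 0) (nat_lit 3407420160) (nat_lit 152) (nat_lit 3405538501) (nat_lit 17) (nat_lit 3) (nat_lit 17) (nat_lit 1) (nat_lit 19) (nat_lit 1) (nat_lit 372) (nat_lit 443) (nat_lit 205)) (XT.nd (nat_lit 78) (nat_lit 152) (nat_lit 0) (XT.lf (nat_lit 76) (nat_lit 3350032377) (nat_lit 0) (nat_lit 3351824434) (nat_lit 76) (nat_lit 3351824434) (nat_lit 17) (nat_lit 3) (nat_lit 16) (nat_lit 1) (nat_lit 17) (nat_lit 1) (nat_lit 373) (nat_lit 443) (nat_lit 204)) (XT.lf (nat_lit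 152) (nat_lit 9892995666) (nat_lit 0) (nat_lit 550555) (nat_lit 76) (nat_lit 550555) (nat_lit 16) (nat_lit 1) (nat_lit 14) (nat_lit 1) (nat_lit 15) (nat_lit 1) (nat_lit 374) (nat_lit 443) (nat_lit 203)))) (XT.nd (nat_lit 78) (nat_lit 228) (nat_lit 0) (XT.lf (nat_lit 0) (nat_lit 3243450004) (nat_lit 0) (nat_lit 3244998050) (nat_lit 152) (nat_lit 3243450004) (nat_lit 14) (nat_lit 3) (nat_lit 14) (nat_lit 1) (nat_lit 16) (nat_lit 1) (nat_lit 375) (nat_lit 443) (nat_lit 202)) (XT.nd (nat_lit 78) (nat_lit 152) (nat_lit 0) (XT.lf (nat_lit 76) (nat_lit 3190660704) (nat_lit 0) (nat_lit 3192135034) (nat_lit 76) (nat_lit 3192135034) (nat_lit 14) (nat_lit 3) (nat_lit 13) (nat_lit 1) (nat_lit 14) (nat_lit 1) (nat_lit 376) (nat_lit 443) (nat_lit 201)) (XT.lf (nat_lit 152) (nat_lit 9422040025) (nat_lit 0) (nat_lit 452943) (nat_lit 76) (nat_lit 452943) (nat_lit 13) (nat_lit 1) (nat_lit 11) (nat_lit 1) (nat_lit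 12) (nat_lit 1) (nat_lit 377) (nat_lit 443) (nat_lit 200)))))) (XT.nd (nat_lit 468) (nat_lit 380) (nat_lit 0) (XT.nd (nat_lit 234) (nat_lit 228) (nat_lit 0) (XT.nd (nat_lit 78) (nat_lit 228) (nat_lit 0) (XT.lf (nat_lit 0) (nat_lit 3089065823) (nat_lit 0) (nat_lit 3090339404) (nat_lit 152) (nat_lit 3089065823) (nat_lit 11) (nat_lit 3) (nat_lit 11) (nat_lit 1) (nat_lit 13) (nat_lit 1) (nat_lit 378) (nat_lit 443) (nat_lit 199)) (XT.nd (nat_lit 78) (nat_lit 152) (nat_lit 0) (XT.lf (nat_lit 76) (nat_lit 3038850911) (nat_lit 0) (nat_lit 3040063846) (nat_lit 76) (nat_lit 3040063846) (nat_lit 11) (nat_lit 3) (nat_lit 10) (nat_lit 1) (nat_lit 11) (nat_lit 1) (nat_lit 379) (nat_lit 443) (nat_lit 198)) (XT.lf (nat_lit 152) (nat_lit 8973486129) (nat_lit 0) (nat_lit 372637) (nat_lit 76) (nat_lit 372637) (nat_lit 10) (nat_lit 1) (nat_lit 8) (nat_lit 1) (nat_lit 9) (nat_lit 1) (nat_lit 380) (nat_lit 443) (nat_lit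 197)))) (XT.nd (nat_lit 78) (nat_lit 228) (nat_lit 0) (XT.lf (nat_lit 0) (nat_lit 2942021600) (nat_lit 0) (nat_lit 2943069379) (nat_lit 152) (nat_lit 2942021600) (nat_lit 8) (nat_lit 3) (nat_lit 8) (nat_lit 1) (nat_lit 10) (nat_lit 1) (nat_lit 381) (nat_lit 443) (nat_lit 196)) (XT.nd (nat_lit 78) (nat_lit 152) (nat_lit 0) (XT.lf (nat_lit 76) (nat_lit 2894247741) (nat_lit 0) (nat_lit 2895245625) (nat_lit 76) (nat_lit 2895245625) (nat_lit 8) (nat_lit 3) (nat_lit 7) (nat_lit 1) (nat_lit 8) (nat_lit 1) (nat_lit 382) (nat_lit 443) (nat_lit 195)) (XT.lf (nat_lit 152) (nat_lit 8546271611) (nat_lit 0) (nat_lit 306569) (nat_lit 76) (nat_lit 306569) (nat_lit 7) (nat_lit 1) (nat_lit 5) (nat_lit 1) (nat_lit 6) (nat_lit 1) (nat_lit 383) (nat_lit 443) (nat_lit 194))))) (XT.nd (nat_lit 234) (nat_lit 152) (nat_lit 0) (XT.nd (nat_lit 78) (nat_lit 228) (nat_lit 0) (XT.lf (nat_lit 0) (nat_lit 2801969882) (nat_lit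 0) (nat_lit 2802831892) (nat_lit 152) (nat_lit 2801969882) (nat_lit 5) (nat_lit 3) (nat_lit 5) (nat_lit 1) (nat_lit 7) (nat_lit 1) (nat_lit 384) (nat_lit 443) (nat_lit 193)) (XT.nd (nat_lit 78) (nat_lit 152) (nat_lit 0) (XT.lf (nat_lit 76) (nat_lit 2756511993) (nat_lit 0) (nat_lit 2757332955) (nat_lit 76) (nat_lit 2757332955) (nat_lit 5) (nat_lit 3) (nat_lit 4) (nat_lit 1) (nat_lit 5) (nat_lit 1) (nat_lit 385) (nat_lit 443) (nat_lit 192)) (XT.lf (nat_lit 152) (nat_lit 8139383914) (nat_lit 0) (nat_lit 252215) (nat_lit 76) (nat_lit 252215) (nat_lit 4) (nat_lit 1) (nat_lit 2) (nat_lit 1) (nat_lit 3) (nat_lit 1) (nat_lit 386) (nat_lit 443) (nat_lit 191)))) (XT.nd (nat_lit 156) (nat_lit 76) (nat_lit 0) (XT.nd (nat_lit 78) (nat_lit 76) (nat_lit 0) (XT.lf (nat_lit 0) (nat_lit 2668579396) (nat_lit 0) (nat_lit 2669288573) (nat_lit 152) (nat_lit 2668579396) (nat_lit 2) (nat_lit 3) (nat_lit 2) (nat_lit 1)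 (nat_lit 4) (nat_lit 1) (nat_lit 387) (nat_lit 443) (nat_lit 190)) (XT.lf (nat_lit 76) (nat_lit 2625319919) (nat_lit 0) (nat_lit 2625995326) (nat_lit 76) (nat_lit 2625995326) (nat_lit 2) (nat_lit 3) (nat_lit 1) (nat_lit 1) (nat_lit 2) (nat_lit 1) (nat_lit 388) (nat_lit 443) (nat_lit 189))) (XT.nd (nat_lit 78) (nat_lit 0) (nat_lit 0) (XT.lf (nat_lit 0) (nat_lit 163455444170) (nat_lit 0) (nat_lit 0) (nat_lit 0) (nat_lit 0) (nat_lit 0) (nat_lit 0) (nat_lit 1) (nat_lit 0) (nat_lit 1) (nat_lit 0) (nat_lit 389) (nat_lit 443) (nat_lit 188)) (XT.lf (nat_lit 0) (nat_lit 163455413416) (nat_lit 0) (nat_lit 0) (nat_lit 0) (nat_lit 0) (nat_lit 0) (nat_lit 0) (nat_lit 1) (nat_lit 0) (nat_lit 1) (nat_lit 0) (nat_lit 390) (nat_lit 443) (nat_lit 187))))))))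
noncomputable def ec481 : XT := (XT.nd (nat_lit 36348) (nat_lit 0) (nat_lit 14136) (XT.nd (nat_lit 936) (nat_lit 0) (nat_lit 0) (XT.nd (nat_lit 468) (nat_lit 0) (nat_lit 0) (XT.nd (nat_lit 234) (nat_lit 0) (nat_lit 0) (XT.nd (nat_lit 78) (nat_lit 0) (nat_lit 0) (XT.lf (nat_lit 0) (nat_lit 163455384126) (nat_lit 0) (nat_lit 0) (nat_lit 0) (nat_lit 0) (nat_lit 0) (nat_lit 0) (nat_lit 1) (nat_lit 0) (nat_lit 1) (nat_lit 0) (nat_lit 391) (nat_lit 443) (nat_lit 186)) (XT.nd (nat_lit 78) (nat_lit 0) (nat_lit 0) (XT.lf (nat_lit 0) (nat_lit 163455356231) (nat_lit 0) (nat_lit 0) (nat_lit 0) (nat_lit 0) (nat_lit 0) (nat_lit 0) (nat_lit 1) (nat_lit 0) (nat_lit 1) (nat_lit 0) (nat_lit 392) (nat_lit 443) (nat_lit 185)) (XT.lf (nat_lit 0) (nat_lit 163455329664) (nat_lit 0) (nat_lit 0) (nat_lit 0) (nat_lit 0) (nat_lit 0) (nat_lit 0) (nat_lit 1) (nat_lit 0) (nat_lit 1) (nat_lit 0) (nat_lit 393) (nat_lit 443) (nat_lit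 184)))) (XT.nd (nat_lit 78) (nat_lit 0) (nat_lit 0) (XT.lf (nat_lit 0) (nat_lit 163455304363) (nat_lit 0) (nat_lit 0) (nat_lit 0) (nat_lit 0) (nat_lit 0) (nat_lit 0) (nat_lit 1) (nat_lit 0) (nat_lit 1) (nat_lit 0) (nat_lit 394) (nat_lit 443) (nat_lit 183)) (XT.nd (nat_lit 78) (nat_lit 0) (nat_lit 0) (XT.lf (nat_lit 0) (nat_lit 163455280266) (nat_lit 0) (nat_lit 0) (nat_lit 0) (nat_lit 0) (nat_lit 0) (nat_lit 0) (nat_lit 1) (nat_lit 0) (nat_lit 1) (nat_lit 0) (nat_lit 395) (nat_lit 443) (nat_lit 182)) (XT.lf (nat_lit 0) (nat_lit 163455257316) (nat_lit 0) (nat_lit 0) (nat_lit 0) (nat_lit 0) (nat_lit 0) (nat_lit 0) (nat_lit 1) (nat_lit 0) (nat_lit 1) (nat_lit 0) (nat_lit 396) (nat_lit 443) (nat_lit 181))))) (XT.nd (nat_lit 234) (nat_lit 0) (nat_lit 0) (XT.nd (nat_lit 78) (nat_lit 0) (nat_lit 0) (XT.lf (nat_lit 0) (nat_lit 163455235460) (nat_lit 0) (nat_lit 0) (nat_lit 0) (nat_lit 0) (nat_lit 0) (nat_lit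 0) (nat_lit 1) (nat_lit 0) (nat_lit 1) (nat_lit 0) (nat_lit 397) (nat_lit 443) (nat_lit 180)) (XT.nd (nat_lit 78) (nat_lit 0) (nat_lit 0) (XT.lf (nat_lit 0) (nat_lit 163455214644) (nat_lit 0) (nat_lit 0) (nat_lit 0) (nat_lit 0) (nat_lit 0) (nat_lit 0) (nat_lit 1) (nat_lit 0) (nat_lit 1) (nat_lit 0) (nat_lit 398) (nat_lit 443) (nat_lit 179)) (XT.lf (nat_lit 0) (nat_lit 163455194819) (nat_lit 0) (nat_lit 0) (nat_lit 0) (nat_lit 0) (nat_lit 0) (nat_lit 0) (nat_lit 1) (nat_lit 0) (nat_lit 1) (nat_lit 0) (nat_lit 399) (nat_lit 443) (nat_lit 178)))) (XT.nd (nat_lit 78) (nat_lit 0) (nat_lit 0) (XT.lf (nat_lit 0) (nat_lit 163455175939) (nat_lit 0) (nat_lit 0) (nat_lit 0) (nat_lit 0) (nat_lit 0) (nat_lit 0) (nat_lit 1) (nat_lit 0) (nat_lit 1) (nat_lit 0) (nat_lit 400) (nat_lit 443) (nat_lit 177)) (XT.nd (nat_lit 78) (nat_lit 0) (nat_lit 0) (XT.lf (nat_lit 0) (nat_lit 163455157957) (nat_lit 0) (nat_lit 0)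 (nat_lit 0) (nat_lit 0) (nat_lit 0) (nat_lit 0) (nat_lit 1) (nat_lit 0) (nat_lit 1) (nat_lit 0) (nat_lit 401) (nat_lit 443) (nat_lit 176)) (XT.lf (nat_lit 0) (nat_lit 163455140832) (nat_lit 0) (nat_lit 0) (nat_lit 0) (nat_lit 0) (nat_lit 0) (nat_lit 0) (nat_lit 1) (nat_lit 0) (nat_lit 1) (nat_lit 0) (nat_lit 402) (nat_lit 443) (nat_lit 175)))))) (XT.nd (nat_lit 468) (nat_lit 0) (nat_lit 0) (XT.nd (nat_lit 234) (nat_lit 0) (nat_lit 0) (XT.nd (nat_lit 78) (nat_lit 0) (nat_lit 0) (XT.lf (nat_lit 0) (nat_lit 163455124522) (nat_lit 0) (nat_lit 0) (nat_lit 0) (nat_lit 0) (nat_lit 0) (nat_lit 0) (nat_lit 1) (nat_lit 0) (nat_lit 1) (nat_lit 0) (nat_lit 403) (nat_lit 443) (nat_lit 174)) (XT.nd (nat_lit 78) (nat_lit 0) (nat_lit 0) (XT.lf (nat_lit 0) (nat_lit 163455108989) (nat_lit 0) (nat_lit 0) (nat_lit 0) (nat_lit 0) (nat_lit 0) (nat_lit 0) (nat_lit 1) (nat_lit 0) (nat_lit 1) (nat_lit 0) (nat_lit 404)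 (nat_lit 443) (nat_lit 173)) (XT.lf (nat_lit 0) (nat_lit 163455094196) (nat_lit 0) (nat_lit 0) (nat_lit 0) (nat_lit 0) (nat_lit 0) (nat_lit 0) (nat_lit 1) (nat_lit 0) (nat_lit 1) (nat_lit 0) (nat_lit 405) (nat_lit 443) (nat_lit 172)))) (XT.nd (nat_lit 78) (nat_lit 0) (nat_lit 0) (XT.lf (nat_lit 0) (nat_lit 163455080107) (nat_lit 0) (nat_lit 0) (nat_lit 0) (nat_lit 0) (nat_lit 0) (nat_lit 0) (nat_lit 1) (nat_lit 0) (nat_lit 1) (nat_lit 0) (nat_lit 406) (nat_lit 443) (nat_lit 171)) (XT.nd (nat_lit 78) (nat_lit 0) (nat_lit 0) (XT.lf (nat_lit 0) (nat_lit 163455066689) (nat_lit 0) (nat_lit 0) (nat_lit 0) (nat_lit 0) (nat_lit 0) (nat_lit 0) (nat_lit 1) (nat_lit 0) (nat_lit 1) (nat_lit 0) (nat_lit 407) (nat_lit 443) (nat_lit 170)) (XT.lf (nat_lit 0) (nat_lit 163455053910) (nat_lit 0) (nat_lit 0) (nat_lit 0) (nat_lit 0) (nat_lit 0) (nat_lit 0) (nat_lit 1) (nat_lit 0) (nat_lit 1) (nat_lit 0) (nat_lit 408)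 (nat_lit 443) (nat_lit 169))))) (XT.nd (nat_lit 34632) (nat_lit 0) (nat_lit 16492) (XT.nd (nat_lit 34476) (nat_lit 0) (nat_lit 17024) (XT.lf (nat_lit 0) (nat_lit 163455041739) (nat_lit 0) (nat_lit 0) (nat_lit 0) (nat_lit 0) (nat_lit 0) (nat_lit 0) (nat_lit 1) (nat_lit 0) (nat_lit 1) (nat_lit 0) (nat_lit 409) (nat_lit 443) (nat_lit 168)) (XT.nd (nat_lit 78) (nat_lit 0) (nat_lit 0) (XT.lf (nat_lit 228) (nat_lit 100616978361) (nat_lit 0) (nat_lit 95313840910) (nat_lit 152) (nat_lit 95313840910) (nat_lit 227) (nat_lit 1) (nat_lit 224) (nat_lit 1) (nat_lit 226) (nat_lit 1) (nat_lit 170) (nat_lit 444) (nat_lit 406)) (XT.lf (nat_lit 76) (nat_lit 14455466148) (nat_lit 0) (nat_lit 257072200249) (nat_lit 228) (nat_lit 14455466148) (nat_lit 225) (nat_lit 1) (nat_lit 224) (nat_lit 1) (nat_lit 227) (nat_lit 1) (nat_lit 171) (nat_lit 444) (nat_lit 405)))) (XT.nd (nat_lit 156) (nat_lit 152) (nat_lit 0) (XT.nd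 (nat_lit 78) (nat_lit 152) (nat_lit 0) (XT.lf (nat_lit 76) (nat_lit 119303498262) (nat_lit 0) (nat_lit 42133734415) (nat_lit 228) (nat_lit 119303498262) (nat_lit 222) (nat_lit 1) (nat_lit 221) (nat_lit 1) (nat_lit 224) (nat_lit 1) (nat_lit 172) (nat_lit 444) (nat_lit 404)) (XT.lf (nat_lit 228) (nat_lit 165673817074) (nat_lit 0) (nat_lit 54999218500) (nat_lit 152) (nat_lit 54999218500) (nat_lit 222) (nat_lit 1) (nat_lit 219) (nat_lit 1) (nat_lit 221) (nat_lit 1) (nat_lit 173) (nat_lit 444) (nat_lit 403))) (XT.nd (nat_lit 78) (nat_lit 152) (nat_lit 0) (XT.lf (nat_lit 76) (nat_lit 46748840977) (nat_lit 0) (nat_lit 177218119666) (nat_lit 228) (nat_lit 46748840977) (nat_lit 220) (nat_lit 1) (nat_lit 219) (nat_lit 1) (nat_lit 222) (nat_lit 1) (nat_lit 174) (nat_lit 444) (nat_lit 402)) (XT.lf (nat_lit 228) (nat_lit 21900148882) (nat_lit 0) (nat_lit 121979554801) (nat_lit 152) (nat_lit 121979554801) (nat_lit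 220) (nat_lit 1) (nat_lit 217) (nat_lit 1) (nat_lit 219) (nat_lit 1) (nat_lit 175) (nat_lit 444) (nat_lit 401))))))) (XT.nd (nat_lit 936) (nat_lit 1064) (nat_lit 0) (XT.nd (nat_lit 468) (nat_lit 608) (nat_lit 0) (XT.nd (nat_lit 234) (nat_lit 304) (nat_lit 0) (XT.nd (nat_lit 78) (nat_lit 152) (nat_lit 0) (XT.lf (nat_lit 228) (nat_lit 215248811668) (nat_lit 0) (nat_lit 22947312886) (nat_lit 152) (nat_lit 22947312886) (nat_lit 217) (nat_lit 1) (nat_lit 214) (nat_lit 1) (nat_lit 216) (nat_lit 1) (nat_lit 176) (nat_lit 444) (nat_lit 400)) (XT.nd (nat_lit 78) (nat_lit 152) (nat_lit 0) (XT.lf (nat_lit 76) (nat_lit 71656856883) (nat_lit 0) (nat_lit 113154151646) (nat_lit 228) (nat_lit 71656856883) (nat_lit 215) (nat_lit 1) (nat_lit 214) (nat_lit 1) (nat_lit 217) (nat_lit 1) (nat_lit 177) (nat_lit 444) (nat_lit 399)) (XT.lf (nat_lit 228) (nat_lit 72979029754) (nat_lit 0) (nat_lit 89474500982) (nat_lit 152)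 (nat_lit 89474500982) (nat_lit 215) (nat_lit 1) (nat_lit 212) (nat_lit 1) (nat_lit 214) (nat_lit 1) (nat_lit 178) (nat_lit 444) (nat_lit 398)))) (XT.nd (nat_lit 78) (nat_lit 304) (nat_lit 0) (XT.lf (nat_lit 76) (nat_lit 2398619436) (nat_lit 0) (nat_lit 242750171352) (nat_lit 228) (nat_lit 2398619436) (nat_lit 213) (nat_lit 1) (nat_lit 212) (nat_lit 1) (nat_lit 215) (nat_lit 1) (nat_lit 179) (nat_lit 444) (nat_lit 397)) (XT.nd (nat_lit 78) (nat_lit 152) (nat_lit 0) (XT.lf (nat_lit 76) (nat_lit 90567958938) (nat_lit 0) (nat_lit 62003025373) (nat_lit 152) (nat_lit 90567958938) (nat_lit 211) (nat_lit 1) (nat_lit 210) (nat_lit 1) (nat_lit 212) (nat_lit 1) (nat_lit 180) (nat_lit 444) (nat_lit 396)) (XT.lf (nat_lit 228) (nat_lit 112384526550) (nat_lit 0) (nat_lit 63250530887) (nat_lit 152) (nat_lit 63250530887) (nat_lit 211) (nat_lit 1) (nat_lit 208) (nat_lit 1) (nat_lit 210) (nat_lit 1) (nat_lit 181)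 (nat_lit 444) (nat_lit 395))))) (XT.nd (nat_lit 234) (nat_lit 304) (nat_lit 0) (XT.nd (nat_lit 78) (nat_lit 304) (nat_lit 0) (XT.lf (nat_lit 76) (nat_lit 22532320856) (nat_lit 0) (nat_lit 189682400527) (nat_lit 228) (nat_lit 22532320856) (nat_lit 209) (nat_lit 1) (nat_lit 208) (nat_lit 1) (nat_lit 211) (nat_lit 1) (nat_lit 182) (nat_lit 444) (nat_lit 394)) (XT.nd (nat_lit 78) (nat_lit 152) (nat_lit 0) (XT.lf (nat_lit 76) (nat_lit 104620660570) (nat_lit 0) (nat_lit 21401304114) (nat_lit 152) (nat_lit 104620660570) (nat_lit 207) (nat_lit 1) (nat_lit 206) (nat_lit 1) (nat_lit 208) (nat_lit 1) (nat_lit 183) (nat_lit 444) (nat_lit 393)) (XT.lf (nat_lit 228) (nat_lit 142310931133) (nat_lit 0) (nat_lit 42169356386) (nat_lit 152) (nat_lit 42169356386) (nat_lit 207) (nat_lit 1) (nat_lit 204) (nat_lit 1) (nat_lit 206) (nat_lit 1) (nat_lit 184) (nat_lit 444) (nat_lit 392)))) (XT.nd (nat_lit 78) (nat_lit 304)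 (nat_lit 0) (XT.lf (nat_lit 76) (nat_lit 38117368235) (nat_lit 0) (nat_lit 146500974434) (nat_lit 228) (nat_lit 38117368235) (nat_lit 205) (nat_lit 1) (nat_lit 204) (nat_lit 1) (nat_lit 207) (nat_lit 1) (nat_lit 185) (nat_lit 444) (nat_lit 391)) (XT.nd (nat_lit 78) (nat_lit 228) (nat_lit 0) (XT.lf (nat_lit 152) (nat_lit 10942108327) (nat_lit 0) (nat_lit 103976763694) (nat_lit 76) (nat_lit 103976763694) (nat_lit 205) (nat_lit 1) (nat_lit 203) (nat_lit 1) (nat_lit 204) (nat_lit 1) (nat_lit 186) (nat_lit 444) (nat_lit 390)) (XT.lf (nat_lit 228) (nat_lit 164557558102) (nat_lit 0) (nat_lit 25295679663) (nat_lit 152) (nat_lit 25295679663) (nat_lit 203) (nat_lit 1) (nat_lit 200) (nat_lit 1) (nat_lit 202) (nat_lit 1) (nat_lit 187) (nat_lit 444) (nat_lit 389)))))) (XT.nd (nat_lit 468) (nat_lit 456) (nat_lit 0) (XT.nd (nat_lit 234) (nat_lit 304) (nat_lit 0) (XT.nd (nat_lit 78) (nat_lit 304) (nat_lit 0) (XT.lf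 (nat_lit 76) (nat_lit 50006845660) (nat_lit 0) (nat_lit 111430327650) (nat_lit 228) (nat_lit 50006845660) (nat_lit 201) (nat_lit 1) (nat_lit 200) (nat_lit 1) (nat_lit 203) (nat_lit 1) (nat_lit 188) (nat_lit 444) (nat_lit 388)) (XT.nd (nat_lit 78) (nat_lit 228) (nat_lit 0) (XT.lf (nat_lit 152) (nat_lit 36746078656) (nat_lit 0) (nat_lit 85541940812) (nat_lit 76) (nat_lit 85541940812) (nat_lit 201) (nat_lit 1) (nat_lit 199) (nat_lit 1) (nat_lit 200) (nat_lit 1) (nat_lit 189) (nat_lit 444) (nat_lit 387)) (XT.lf (nat_lit 228) (nat_lit 180599055886) (nat_lit 0) (nat_lit 11861147597) (nat_lit 152) (nat_lit 11861147597) (nat_lit 199) (nat_lit 1) (nat_lit 196) (nat_lit 1) (nat_lit 198) (nat_lit 1) (nat_lit 190) (nat_lit 444) (nat_lit 386)))) (XT.nd (nat_lit 78) (nat_lit 304) (nat_lit 0) (XT.lf (nat_lit 76) (nat_lit 58900367567) (nat_lit 0) (nat_lit 83010781014) (nat_lit 228) (nat_lit 58900367567) (nat_lit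 197) (nat_lit 1) (nat_lit 196) (nat_lit 1) (nat_lit 199) (nat_lit 1) (nat_lit 191) (nat_lit 444) (nat_lit 385)) (XT.nd (nat_lit 78) (nat_lit 228) (nat_lit 0) (XT.lf (nat_lit 152) (nat_lit 56653927046) (nat_lit 0) (nat_lit 70375566404) (nat_lit 76) (nat_lit 70375566404) (nat_lit 197) (nat_lit 1) (nat_lit 195) (nat_lit 1) (nat_lit 196) (nat_lit 1) (nat_lit 192) (nat_lit 444) (nat_lit 384)) (XT.lf (nat_lit 228) (nat_lit 191643238402) (nat_lit 0) (nat_lit 1234699612) (nat_lit 152) (nat_lit 1234699612) (nat_lit 195) (nat_lit 1) (nat_lit 192) (nat_lit 1) (nat_lit 194) (nat_lit 1) (nat_lit 193) (nat_lit 444) (nat_lit 383))))) (XT.nd (nat_lit 234) (nat_lit 380) (nat_lit 0) (XT.nd (nat_lit 78) (nat_lit 76) (nat_lit 0) (XT.lf (nat_lit 76) (nat_lit 65371394246) (nat_lit 0) (nat_lit 60042484203) (nat_lit 228) (nat_lit 65371394246) (nat_lit 193) (nat_lit 1) (nat_lit 192) (nat_lit 1) (nat_lit 195) (nat_lit 1)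 (nat_lit 194) (nat_lit 444) (nat_lit 382)) (XT.nd (nat_lit 78) (nat_lit 0) (nat_lit 0) (XT.lf (nat_lit 152) (nat_lit 71773932841) (nat_lit 0) (nat_lit 57898152646) (nat_lit 76) (nat_lit 57898152646) (nat_lit 193) (nat_lit 1) (nat_lit 191) (nat_lit 1) (nat_lit 192) (nat_lit 1) (nat_lit 195) (nat_lit 444) (nat_lit 381)) (XT.lf (nat_lit 0) (nat_lit 7218248042) (nat_lit 0) (nat_lit 170015774757) (nat_lit 152) (nat_lit 7218248042) (nat_lit 191) (nat_lit 3) (nat_lit 191) (nat_lit 1) (nat_lit 193) (nat_lit 1) (nat_lit 196) (nat_lit 444) (nat_lit 380)))) (XT.nd (nat_lit 156) (nat_lit 152) (nat_lit 0) (XT.nd (nat_lit 78) (nat_lit 76) (nat_lit 0) (XT.lf (nat_lit 76) (nat_lit 69889699333) (nat_lit 0) (nat_lit 41539299611) (nat_lit 152) (nat_lit 69889699333) (nat_lit 190) (nat_lit 1) (nat_lit 189) (nat_lit 1) (nat_lit 191) (nat_lit 1) (nat_lit 197) (nat_lit 444) (nat_lit 379)) (XT.lf (nat_lit 152) (nat_lit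 83014884415) (nat_lit 0) (nat_lit 47632953467) (nat_lit 76) (nat_lit 47632953467) (nat_lit 190) (nat_lit 1) (nat_lit 188) (nat_lit 1) (nat_lit 189) (nat_lit 1) (nat_lit 198) (nat_lit 444) (nat_lit 378))) (XT.nd (nat_lit 78) (nat_lit 152) (nat_lit 0) (XT.lf (nat_lit 0) (nat_lit 13796271263) (nat_lit 0) (nat_lit 147730199381) (nat_lit 152) (nat_lit 13796271263) (nat_lit 188) (nat_lit 3) (nat_lit 188) (nat_lit 1) (nat_lit 190) (nat_lit 1) (nat_lit 199) (nat_lit 444) (nat_lit 377)) (XT.lf (nat_lit 76) (nat_lit 72839849086) (nat_lit 0) (nat_lit 26690864844) (nat_lit 152) (nat_lit 72839849086) (nat_lit 187) (nat_lit 1) (nat_lit 186) (nat_lit 1) (nat_lit 188) (nat_lit 1) (nat_lit 200) (nat_lit 444) (nat_lit 376))))))))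
noncomputable def ec482 : XT := (XT.nd (nat_lit 1950) (nat_lit 1824) (nat_lit 0) (XT.nd (nat_lit 936) (nat_lit 1064) (nat_lit 0) (XT.nd (nat_lit 468) (nat_lit 380) (nat_lit 0) (XT.nd (nat_lit 234) (nat_lit 228) (nat_lit 0) (XT.nd (nat_lit 78) (nat_lit 152) (nat_lit 0) (XT.lf (nat_lit 152) (nat_lit 91121591083) (nat_lit 0) (nat_lit 39187748699) (nat_lit 76) (nat_lit 39187748699) (nat_lit 187) (nat_lit 1) (nat_lit 185) (nat_lit 1) (nat_lit 186) (nat_lit 1) (nat_lit 201) (nat_lit 444) (nat_lit 375)) (XT.nd (nat_lit 78) (nat_lit 152) (nat_lit 0) (XT.lf (nat_lit 0) (nat_lit 18833846259) (nat_lit 0) (nat_lit 129021620380) (nat_lit 152) (nat_lit 18833846259) (nat_lit 185) (nat_lit 3) (nat_lit 185) (nat_lit 1) (nat_lit 187) (nat_lit 1) (nat_lit 202) (nat_lit 444) (nat_lit 374)) (XT.lf (nat_lit 76) (nat_lit 74536400757) (nat_lit 0) (nat_lit 14831383659) (nat_lit 152) (nat_lit 74536400757) (nat_lit 184)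 (nat_lit 1) (nat_lit 183) (nat_lit 1) (nat_lit 185) (nat_lit 1) (nat_lit 203) (nat_lit 444) (nat_lit 373)))) (XT.nd (nat_lit 78) (nat_lit 152) (nat_lit 0) (XT.lf (nat_lit 152) (nat_lit 96704092044) (nat_lit 0) (nat_lit 32239857836) (nat_lit 76) (nat_lit 32239857836) (nat_lit 184) (nat_lit 1) (nat_lit 182) (nat_lit 1) (nat_lit 183) (nat_lit 1) (nat_lit 204) (nat_lit 444) (nat_lit 372)) (XT.nd (nat_lit 78) (nat_lit 152) (nat_lit 0) (XT.lf (nat_lit 0) (nat_lit 22621908829) (nat_lit 0) (nat_lit 113273663291) (nat_lit 152) (nat_lit 22621908829) (nat_lit 182) (nat_lit 3) (nat_lit 182) (nat_lit 1) (nat_lit 184) (nat_lit 1) (nat_lit 205) (nat_lit 444) (nat_lit 371)) (XT.lf (nat_lit 76) (nat_lit 75236401984) (nat_lit 0) (nat_lit 5413952324) (nat_lit 152) (nat_lit 75236401984) (nat_lit 181) (nat_lit 1) (nat_lit 180) (nat_lit 1) (nat_lit 182) (nat_lit 1) (nat_lit 206) (nat_lit 444) (nat_lit 370))))) (XT.nd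 (nat_lit 234) (nat_lit 228) (nat_lit 0) (XT.nd (nat_lit 78) (nat_lit 76) (nat_lit 0) (XT.lf (nat_lit 152) (nat_lit 100261680182) (nat_lit 0) (nat_lit 26523810829) (nat_lit 76) (nat_lit 26523810829) (nat_lit 181) (nat_lit 1) (nat_lit 179) (nat_lit 1) (nat_lit 180) (nat_lit 1) (nat_lit 207) (nat_lit 444) (nat_lit 369)) (XT.nd (nat_lit 78) (nat_lit 76) (nat_lit 0) (XT.lf (nat_lit 0) (nat_lit 25398964095) (nat_lit 0) (nat_lit 99978386835) (nat_lit 152) (nat_lit 25398964095) (nat_lit 179) (nat_lit 3) (nat_lit 179) (nat_lit 1) (nat_lit 181) (nat_lit 1) (nat_lit 208) (nat_lit 444) (nat_lit 368)) (XT.lf (nat_lit 76) (nat_lit 2077038333) (nat_lit 0) (nat_lit 73105059990) (nat_lit 76) (nat_lit 73105059990) (nat_lit 179) (nat_lit 3) (nat_lit 178) (nat_lit 1) (nat_lit 179) (nat_lit 1) (nat_lit 209) (nat_lit 444) (nat_lit 367)))) (XT.nd (nat_lit 78) (nat_lit 76) (nat_lit 0) (XT.lf (nat_lit 152) (nat_lit 102202660352)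 (nat_lit 0) (nat_lit 21821204810) (nat_lit 76) (nat_lit 21821204810) (nat_lit 178) (nat_lit 1) (nat_lit 176) (nat_lit 1) (nat_lit 177) (nat_lit 1) (nat_lit 210) (nat_lit 444) (nat_lit 366)) (XT.nd (nat_lit 78) (nat_lit 76) (nat_lit 0) (XT.lf (nat_lit 0) (nat_lit 27360422729) (nat_lit 0) (nat_lit 88717098385) (nat_lit 152) (nat_lit 27360422729) (nat_lit 176) (nat_lit 3) (nat_lit 176) (nat_lit 1) (nat_lit 178) (nat_lit 1) (nat_lit 211) (nat_lit 444) (nat_lit 365)) (XT.lf (nat_lit 76) (nat_lit 8069148428) (nat_lit 0) (nat_lit 66504077625) (nat_lit 76) (nat_lit 66504077625) (nat_lit 176) (nat_lit 3) (nat_lit 175) (nat_lit 1) (nat_lit 176) (nat_lit 1) (nat_lit 212) (nat_lit 444) (nat_lit 364)))))) (XT.nd (nat_lit 468) (nat_lit 608) (nat_lit 0) (XT.nd (nat_lit 234) (nat_lit 228) (nat_lit 0) (XT.nd (nat_lit 78) (nat_lit 76) (nat_lit 0) (XT.lf (nat_lit 152) (nat_lit 102860598686) (nat_lit 0) (nat_lit 17952359200)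 (nat_lit 76) (nat_lit 17952359200) (nat_lit 175) (nat_lit 1) (nat_lit 173) (nat_lit 1) (nat_lit 174) (nat_lit 1) (nat_lit 213) (nat_lit 444) (nat_lit 363)) (XT.nd (nat_lit 78) (nat_lit 76) (nat_lit 0) (XT.lf (nat_lit 0) (nat_lit 28666279977) (nat_lit 0) (nat_lit 79144568885) (nat_lit 152) (nat_lit 28666279977) (nat_lit 173) (nat_lit 3) (nat_lit 173) (nat_lit 1) (nat_lit 175) (nat_lit 1) (nat_lit 214) (nat_lit 444) (nat_lit 362)) (XT.lf (nat_lit 76) (nat_lit 12695997763) (nat_lit 0) (nat_lit 60770558628) (nat_lit 76) (nat_lit 60770558628) (nat_lit 173) (nat_lit 3) (nat_lit 172) (nat_lit 1) (nat_lit 173) (nat_lit 1) (nat_lit 215) (nat_lit 444) (nat_lit 361)))) (XT.nd (nat_lit 78) (nat_lit 76) (nat_lit 0) (XT.lf (nat_lit 152) (nat_lit 102507685369) (nat_lit 0) (nat_lit 14769450342) (nat_lit 76) (nat_lit 14769450342) (nat_lit 172) (nat_lit 1) (nat_lit 170) (nat_lit 1) (nat_lit 171) (nat_lit 1) (nat_lit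 216) (nat_lit 444) (nat_lit 360)) (XT.nd (nat_lit 78) (nat_lit 76) (nat_lit 0) (XT.lf (nat_lit 0) (nat_lit 29447431372) (nat_lit 0) (nat_lit 70976044580) (nat_lit 152) (nat_lit 29447431372) (nat_lit 170) (nat_lit 3) (nat_lit 170) (nat_lit 1) (nat_lit 172) (nat_lit 1) (nat_lit 217) (nat_lit 444) (nat_lit 359)) (XT.lf (nat_lit 76) (nat_lit 16214066286) (nat_lit 0) (nat_lit 55765126484) (nat_lit 76) (nat_lit 55765126484) (nat_lit 170) (nat_lit 3) (nat_lit 169) (nat_lit 1) (nat_lit 170) (nat_lit 1) (nat_lit 218) (nat_lit 444) (nat_lit 358))))) (XT.nd (nat_lit 234) (nat_lit 380) (nat_lit 0) (XT.nd (nat_lit 78) (nat_lit 76) (nat_lit 0) (XT.lf (nat_lit 152) (nat_lit 101365722886) (nat_lit 0) (nat_lit 12150863347) (nat_lit 76) (nat_lit 12150863347) (nat_lit 169) (nat_lit 1) (nat_lit 167) (nat_lit 1) (nat_lit 168) (nat_lit 1) (nat_lit 219) (nat_lit 444) (nat_lit 357)) (XT.nd (nat_lit 78) (nat_lit 76) (nat_lit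 0) (XT.lf (nat_lit 0) (nat_lit 29810866944) (nat_lit 0) (nat_lit 63976559805) (nat_lit 152) (nat_lit 29810866944) (nat_lit 167) (nat_lit 3) (nat_lit 167) (nat_lit 1) (nat_lit 169) (nat_lit 1) (nat_lit 220) (nat_lit 444) (nat_lit 356)) (XT.lf (nat_lit 76) (nat_lit 18833673895) (nat_lit 0) (nat_lit 51372429000) (nat_lit 76) (nat_lit 51372429000) (nat_lit 167) (nat_lit 3) (nat_lit 166) (nat_lit 1) (nat_lit 167) (nat_lit 1) (nat_lit 221) (nat_lit 444) (nat_lit 355)))) (XT.nd (nat_lit 156) (nat_lit 228) (nat_lit 0) (XT.nd (nat_lit 78) (nat_lit 0) (nat_lit 0) (XT.lf (nat_lit 152) (nat_lit 99615161029) (nat_lit 0) (nat_lit 9996545347) (nat_lit 76) (nat_lit 9996545347) (nat_lit 166) (nat_lit 1) (nat_lit 164) (nat_lit 1) (nat_lit 165) (nat_lit 1) (nat_lit 222) (nat_lit 444) (nat_lit 354)) (XT.lf (nat_lit 0) (nat_lit 29843942847) (nat_lit 0) (nat_lit 57952142917) (nat_lit 152) (nat_lit 29843942847) (nat_lit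 164) (nat_lit 3) (nat_lit 164) (nat_lit 1) (nat_lit 166) (nat_lit 1) (nat_lit 223) (nat_lit 444) (nat_lit 353))) (XT.nd (nat_lit 78) (nat_lit 152) (nat_lit 0) (XT.lf (nat_lit 76) (nat_lit 20727197204) (nat_lit 0) (nat_lit 47496911556) (nat_lit 76) (nat_lit 47496911556) (nat_lit 164) (nat_lit 3) (nat_lit 163) (nat_lit 1) (nat_lit 164) (nat_lit 1) (nat_lit 224) (nat_lit 444) (nat_lit 352)) (XT.lf (nat_lit 152) (nat_lit 97402525173) (nat_lit 0) (nat_lit 8224182596) (nat_lit 76) (nat_lit 8224182596) (nat_lit 163) (nat_lit 1) (nat_lit 161) (nat_lit 1) (nat_lit 162) (nat_lit 1) (nat_lit 225) (nat_lit 444) (nat_lit 351))))))) (XT.nd (nat_lit 936) (nat_lit 912) (nat_lit 0) (XT.nd (nat_lit 468) (nat_lit 456) (nat_lit 0) (XT.nd (nat_lit 234) (nat_lit 228) (nat_lit 0) (XT.nd (nat_lit 78) (nat_lit 228) (nat_lit 0) (XT.lf (nat_lit 0) (nat_lit 29617894053) (nat_lit 0) (nat_lit 52742579812) (nat_lit 152) (nat_lit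 29617894053) (nat_lit 161) (nat_lit 3) (nat_lit 161) (nat_lit 1) (nat_lit 163) (nat_lit 1) (nat_lit 226) (nat_lit 444) (nat_lit 350)) (XT.nd (nat_lit 78) (nat_lit 152) (nat_lit 0) (XT.lf (nat_lit 76) (nat_lit 22035827941) (nat_lit 0) (nat_lit 44059338187) (nat_lit 76) (nat_lit 44059338187) (nat_lit 161) (nat_lit 3) (nat_lit 160) (nat_lit 1) (nat_lit 161) (nat_lit 1) (nat_lit 227) (nat_lit 444) (nat_lit 349)) (XT.lf (nat_lit 152) (nat_lit 94846522956) (nat_lit 0) (nat_lit 6766055375) (nat_lit 76) (nat_lit 6766055375) (nat_lit 160) (nat_lit 1) (nat_lit 158) (nat_lit 1) (nat_lit 159) (nat_lit 1) (nat_lit 228) (nat_lit 444) (nat_lit 348)))) (XT.nd (nat_lit 78) (nat_lit 228) (nat_lit 0) (XT.lf (nat_lit 0) (nat_lit 29190722751) (nat_lit 0) (nat_lit 48215458953) (nat_lit 152) (nat_lit 29190722751) (nat_lit 158) (nat_lit 3) (nat_lit 158) (nat_lit 1) (nat_lit 160) (nat_lit 1) (nat_lit 229) (nat_lit 444)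 (nat_lit 347)) (XT.nd (nat_lit 78) (nat_lit 152) (nat_lit 0) (XT.lf (nat_lit 76) (nat_lit 22875131615) (nat_lit 0) (nat_lit 40993927998) (nat_lit 76) (nat_lit 40993927998) (nat_lit 158) (nat_lit 3) (nat_lit 157) (nat_lit 1) (nat_lit 158) (nat_lit 1) (nat_lit 230) (nat_lit 444) (nat_lit 346)) (XT.lf (nat_lit 152) (nat_lit 92043063871) (nat_lit 0) (nat_lit 5566450501) (nat_lit 76) (nat_lit 5566450501) (nat_lit 157) (nat_lit 1) (nat_lit 155) (nat_lit 1) (nat_lit 156) (nat_lit 1) (nat_lit 231) (nat_lit 444) (nat_lit 345))))) (XT.nd (nat_lit 234) (nat_lit 228) (nat_lit 0) (XT.nd (nat_lit 78) (nat_lit 228) (nat_lit 0) (XT.lf (nat_lit 0) (nat_lit 28609573195) (nat_lit 0) (nat_lit 44261270752) (nat_lit 152) (nat_lit 28609573195) (nat_lit 155) (nat_lit 3) (nat_lit 155) (nat_lit 1) (nat_lit 157) (nat_lit 1) (nat_lit 232) (nat_lit 444) (nat_lit 344)) (XT.nd (nat_lit 78) (nat_lit 152) (nat_lit 0) (XT.lf (nat_lit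 76) (nat_lit 23339619233) (nat_lit 0) (nat_lit 38245997858) (nat_lit 76) (nat_lit 38245997858) (nat_lit 155) (nat_lit 3) (nat_lit 154) (nat_lit 1) (nat_lit 155) (nat_lit 1) (nat_lit 233) (nat_lit 444) (nat_lit 343)) (XT.lf (nat_lit 152) (nat_lit 89069384729) (nat_lit 0) (nat_lit 4579532603) (nat_lit 76) (nat_lit 4579532603) (nat_lit 154) (nat_lit 1) (nat_lit 152) (nat_lit 1) (nat_lit 153) (nat_lit 1) (nat_lit 234) (nat_lit 444) (nat_lit 342)))) (XT.nd (nat_lit 78) (nat_lit 228) (nat_lit 0) (XT.lf (nat_lit 0) (nat_lit 27912684144) (nat_lit 0) (nat_lit 40789374459) (nat_lit 152) (nat_lit 27912684144) (nat_lit 152) (nat_lit 3) (nat_lit 152) (nat_lit 1) (nat_lit 154) (nat_lit 1) (nat_lit 235) (nat_lit 444) (nat_lit 341)) (XT.nd (nat_lit 78) (nat_lit 152) (nat_lit 0) (XT.lf (nat_lit 76) (nat_lit 23506507115) (nat_lit 0) (nat_lit 35770021700) (nat_lit 76) (nat_lit 35770021700) (nat_lit 152) (nat_lit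 3) (nat_lit 151) (nat_lit 1) (nat_lit 152) (nat_lit 1) (nat_lit 236) (nat_lit 444) (nat_lit 340)) (XT.lf (nat_lit 152) (nat_lit 85987439716) (nat_lit 0) (nat_lit 3767592806) (nat_lit 76) (nat_lit 3767592806) (nat_lit 151) (nat_lit 1) (nat_lit 149) (nat_lit 1) (nat_lit 150) (nat_lit 1) (nat_lit 237) (nat_lit 444) (nat_lit 339)))))) (XT.nd (nat_lit 468) (nat_lit 456) (nat_lit 0) (XT.nd (nat_lit 234) (nat_lit 228) (nat_lit 0) (XT.nd (nat_lit 78) (nat_lit 228) (nat_lit 0) (XT.lf (nat_lit 0) (nat_lit 27130993822) (nat_lit 0) (nat_lit 37724678811) (nat_lit 152) (nat_lit 27130993822) (nat_lit 149) (nat_lit 3) (nat_lit 149) (nat_lit 1) (nat_lit 151) (nat_lit 1) (nat_lit 238) (nat_lit 444) (nat_lit 338)) (XT.nd (nat_lit 78) (nat_lit 152) (nat_lit 0) (XT.lf (nat_lit 76) (nat_lit 23438808826) (nat_lit 0) (nat_lit 33528032624) (nat_lit 76) (nat_lit 33528032624) (nat_lit 149) (nat_lit 3) (nat_lit 148) (nat_lit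 1) (nat_lit 149) (nat_lit 1) (nat_lit 239) (nat_lit 444) (nat_lit 337)) (XT.lf (nat_lit 152) (nat_lit 82846685619) (nat_lit 0) (nat_lit 3099607925) (nat_lit 76) (nat_lit 3099607925) (nat_lit 148) (nat_lit 1) (nat_lit 146) (nat_lit 1) (nat_lit 147) (nat_lit 1) (nat_lit 240) (nat_lit 444) (nat_lit 336)))) (XT.nd (nat_lit 78) (nat_lit 228) (nat_lit 0) (XT.lf (nat_lit 0) (nat_lit 26289459093) (nat_lit 0) (nat_lit 35004909951) (nat_lit 152) (nat_lit 26289459093) (nat_lit 146) (nat_lit 3) (nat_lit 146) (nat_lit 1) (nat_lit 148) (nat_lit 1) (nat_lit 241) (nat_lit 444) (nat_lit 335)) (XT.nd (nat_lit 78) (nat_lit 152) (nat_lit 0) (XT.lf (nat_lit 76) (nat_lit 23187877693) (nat_lit 0) (nat_lit 31488307081) (nat_lit 76) (nat_lit 31488307081) (nat_lit 146) (nat_lit 3) (nat_lit 145) (nat_lit 1) (nat_lit 146) (nat_lit 1) (nat_lit 242) (nat_lit 444) (nat_lit 334)) (XT.lf (nat_lit 152) (nat_lit 79686369633) (nat_lit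 0) (nat_lit 2550055111) (nat_lit 76) (nat_lit 2550055111) (nat_lit 145) (nat_lit 1) (nat_lit 143) (nat_lit 1) (nat_lit 144) (nat_lit 1) (nat_lit 243) (nat_lit 444) (nat_lit 333))))) (XT.nd (nat_lit 234) (nat_lit 228) (nat_lit 0) (XT.nd (nat_lit 78) (nat_lit 228) (nat_lit 0) (XT.lf (nat_lit 0) (nat_lit 25408139564) (nat_lit 0) (nat_lit 32578362553) (nat_lit 152) (nat_lit 25408139564) (nat_lit 143) (nat_lit 3) (nat_lit 143) (nat_lit 1) (nat_lit 145) (nat_lit 1) (nat_lit 244) (nat_lit 444) (nat_lit 332)) (XT.nd (nat_lit 78) (nat_lit 152) (nat_lit 0) (XT.lf (nat_lit 76) (nat_lit 22795497378) (nat_lit 0) (nat_lit 29624281177) (nat_lit 76) (nat_lit 29624281177) (nat_lit 143) (nat_lit 3) (nat_lit 142) (nat_lit 1) (nat_lit 143) (nat_lit 1) (nat_lit 245) (nat_lit 444) (nat_lit 331)) (XT.lf (nat_lit 152) (nat_lit 76537408120) (nat_lit 0) (nat_lit 2097936651) (nat_lit 76) (nat_lit 2097936651) (nat_lit 142)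 (nat_lit 1) (nat_lit 140) (nat_lit 1) (nat_lit 141) (nat_lit 1) (nat_lit 246) (nat_lit 444) (nat_lit 330)))) (XT.nd (nat_lit 156) (nat_lit 152) (nat_lit 0) (XT.nd (nat_lit 78) (nat_lit 76) (nat_lit 0) (XT.lf (nat_lit 0) (nat_lit 24503088353) (nat_lit 0) (nat_lit 30402048551) (nat_lit 152) (nat_lit 24503088353) (nat_lit 140) (nat_lit 3) (nat_lit 140) (nat_lit 1) (nat_lit 142) (nat_lit 1) (nat_lit 247) (nat_lit 444) (nat_lit 329)) (XT.lf (nat_lit 76) (nat_lit 22295600692) (nat_lit 0) (nat_lit 27913658024) (nat_lit 76) (nat_lit 27913658024) (nat_lit 140) (nat_lit 3) (nat_lit 139) (nat_lit 1) (nat_lit 140) (nat_lit 1) (nat_lit 248) (nat_lit 444) (nat_lit 328))) (XT.nd (nat_lit 78) (nat_lit 0) (nat_lit 0) (XT.lf (nat_lit 152) (nat_lit 73423928993) (nat_lit 0) (nat_lit 1725977674) (nat_lit 76) (nat_lit 1725977674) (nat_lit 139) (nat_lit 1) (nat_lit 137) (nat_lit 1) (nat_lit 138) (nat_lit 1) (nat_lit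 249) (nat_lit 444) (nat_lit 327)) (XT.lf (nat_lit 0) (nat_lit 23587083861) (nat_lit 0) (nat_lit 28440173014) (nat_lit 152) (nat_lit 23587083861) (nat_lit 137) (nat_lit 3) (nat_lit 137) (nat_lit 1) (nat_lit 139) (nat_lit 1) (nat_lit 250) (nat_lit 444) (nat_lit 326))))))))
noncomputable def ec483 : XT := (XT.nd (nat_lit 1950) (nat_lit 1976) (nat_lit 0) (XT.nd (nat_lit 936) (nat_lit 988) (nat_lit 0) (XT.nd (nat_lit 468) (nat_lit 456) (nat_lit 0) (XT.nd (nat_lit 234) (nat_lit 228) (nat_lit 0) (XT.nd (nat_lit 78) (nat_lit 152) (nat_lit 0) (XT.lf (nat_lit 76) (nat_lit 21715682615) (nat_lit 0) (nat_lit 26337672285) (nat_lit 76) (nat_lit 26337672285) (nat_lit 137) (nat_lit 3) (nat_lit 136) (nat_lit 1) (nat_lit 137) (nat_lit 1) (nat_lit 251) (nat_lit 444) (nat_lit 325)) (XT.nd (nat_lit 78) (nat_lit 0) (nat_lit 0) (XT.lf (nat_lit 152) (nat_lit 70364537539) (nat_lit 0) (nat_lit 1419966104) (nat_lit 76) (nat_lit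 1419966104) (nat_lit 136) (nat_lit 1) (nat_lit 134) (nat_lit 1) (nat_lit 135) (nat_lit 1) (nat_lit 252) (nat_lit 444) (nat_lit 324)) (XT.lf (nat_lit 0) (nat_lit 22670230772) (nat_lit 0) (nat_lit 26662879230) (nat_lit 152) (nat_lit 22670230772) (nat_lit 134) (nat_lit 3) (nat_lit 134) (nat_lit 1) (nat_lit 136) (nat_lit 1) (nat_lit 253) (nat_lit 444) (nat_lit 323)))) (XT.nd (nat_lit 78) (nat_lit 152) (nat_lit 0) (XT.lf (nat_lit 76) (nat_lit 21077961779) (nat_lit 0) (nat_lit 24880484119) (nat_lit 76) (nat_lit 24880484119) (nat_lit 134) (nat_lit 3) (nat_lit 133) (nat_lit 1) (nat_lit 134) (nat_lit 1) (nat_lit 254) (nat_lit 444) (nat_lit 322)) (XT.nd (nat_lit 78) (nat_lit 0) (nat_lit 0) (XT.lf (nat_lit 152) (nat_lit 67373354834) (nat_lit 0) (nat_lit 1168209628) (nat_lit 76) (nat_lit 1168209628) (nat_lit 133) (nat_lit 1) (nat_lit 131) (nat_lit 1) (nat_lit 132) (nat_lit 1) (nat_lit 255) (nat_lit 444) (nat_lit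 321)) (XT.lf (nat_lit 0) (nat_lit 21760453539) (nat_lit 0) (nat_lit 25045215305) (nat_lit 152) (nat_lit 21760453539) (nat_lit 131) (nat_lit 3) (nat_lit 131) (nat_lit 1) (nat_lit 133) (nat_lit 1) (nat_lit 256) (nat_lit 444) (nat_lit 320))))) (XT.nd (nat_lit 234) (nat_lit 228) (nat_lit 0) (XT.nd (nat_lit 78) (nat_lit 152) (nat_lit 0) (XT.lf (nat_lit 76) (nat_lit 20400335082) (nat_lit 0) (nat_lit 23528679622) (nat_lit 76) (nat_lit 23528679622) (nat_lit 131) (nat_lit 3) (nat_lit 130) (nat_lit 1) (nat_lit 131) (nat_lit 1) (nat_lit 257) (nat_lit 444) (nat_lit 319)) (XT.nd (nat_lit 78) (nat_lit 0) (nat_lit 0) (XT.lf (nat_lit 152) (nat_lit 64460869247) (nat_lit 0) (nat_lit 961088952) (nat_lit 76) (nat_lit 961088952) (nat_lit 130) (nat_lit 1) (nat_lit 128) (nat_lit 1) (nat_lit 129) (nat_lit 1) (nat_lit 258) (nat_lit 444) (nat_lit 318)) (XT.lf (nat_lit 0) (nat_lit 20863901434) (nat_lit 0) (nat_lit 23566283069)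 (nat_lit 152) (nat_lit 20863901434) (nat_lit 128) (nat_lit 3) (nat_lit 128) (nat_lit 1) (nat_lit 130) (nat_lit 1) (nat_lit 259) (nat_lit 444) (nat_lit 317)))) (XT.nd (nat_lit 78) (nat_lit 152) (nat_lit 0) (XT.lf (nat_lit 76) (nat_lit 19697162123) (nat_lit 0) (nat_lit 22270858917) (nat_lit 76) (nat_lit 22270858917) (nat_lit 128) (nat_lit 3) (nat_lit 127) (nat_lit 1) (nat_lit 128) (nat_lit 1) (nat_lit 260) (nat_lit 444) (nat_lit 316)) (XT.nd (nat_lit 78) (nat_lit 0) (nat_lit 0) (XT.lf (nat_lit 152) (nat_lit 61634634265) (nat_lit 0) (nat_lit 790690259) (nat_lit 76) (nat_lit 790690259) (nat_lit 127) (nat_lit 1) (nat_lit 125) (nat_lit 1) (nat_lit 126) (nat_lit 1) (nat_lit 261) (nat_lit 444) (nat_lit 315)) (XT.lf (nat_lit 0) (nat_lit 19985280921) (nat_lit 0) (nat_lit 22208536979) (nat_lit 152) (nat_lit 19985280921) (nat_lit 125) (nat_lit 3) (nat_lit 125) (nat_lit 1) (nat_lit 127) (nat_lit 1) (nat_lit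 262) (nat_lit 444) (nat_lit 314)))))) (XT.nd (nat_lit 468) (nat_lit 532) (nat_lit 0) (XT.nd (nat_lit 234) (nat_lit 228) (nat_lit 0) (XT.nd (nat_lit 78) (nat_lit 152) (nat_lit 0) (XT.lf (nat_lit 76) (nat_lit 18979909705) (nat_lit 0) (nat_lit 21097296427) (nat_lit 76) (nat_lit 21097296427) (nat_lit 125) (nat_lit 3) (nat_lit 124) (nat_lit 1) (nat_lit 125) (nat_lit 1) (nat_lit 263) (nat_lit 444) (nat_lit 313)) (XT.nd (nat_lit 78) (nat_lit 0) (nat_lit 0) (XT.lf (nat_lit 152) (nat_lit 58899840056) (nat_lit 0) (nat_lit 650502833) (nat_lit 76) (nat_lit 650502833) (nat_lit 124) (nat_lit 1) (nat_lit 122) (nat_lit 1) (nat_lit 123) (nat_lit 1) (nat_lit 264) (nat_lit 444) (nat_lit 312)) (XT.lf (nat_lit 0) (nat_lit 19128128241) (nat_lit 0) (nat_lit 20957206502) (nat_lit 152) (nat_lit 19128128241) (nat_lit 122) (nat_lit 3) (nat_lit 122) (nat_lit 1) (nat_lit 124) (nat_lit 1) (nat_lit 265) (nat_lit 444) (nat_lit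 311)))) (XT.nd (nat_lit 78) (nat_lit 152) (nat_lit 0) (XT.lf (nat_lit 76) (nat_lit 18257681238) (nat_lit 0) (nat_lit 19999660535) (nat_lit 76) (nat_lit 19999660535) (nat_lit 122) (nat_lit 3) (nat_lit 121) (nat_lit 1) (nat_lit 122) (nat_lit 1) (nat_lit 266) (nat_lit 444) (nat_lit 310)) (XT.nd (nat_lit 78) (nat_lit 0) (nat_lit 0) (XT.lf (nat_lit 152) (nat_lit 56259781239) (nat_lit 0) (nat_lit 535170290) (nat_lit 76) (nat_lit 535170290) (nat_lit 121) (nat_lit 1) (nat_lit 119) (nat_lit 1) (nat_lit 120) (nat_lit 1) (nat_lit 267) (nat_lit 444) (nat_lit 309)) (XT.lf (nat_lit 0) (nat_lit 18295032888) (nat_lit 0) (nat_lit 19799820100) (nat_lit 152) (nat_lit 18295032888) (nat_lit 119) (nat_lit 3) (nat_lit 119) (nat_lit 1) (nat_lit 121) (nat_lit 1) (nat_lit 268) (nat_lit 444) (nat_lit 308))))) (XT.nd (nat_lit 234) (nat_lit 304) (nat_lit 0) (XT.nd (nat_lit 78) (nat_lit 152) (nat_lit 0) (XT.lf (nat_lit 76)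 (nat_lit 17537651493) (nat_lit 0) (nat_lit 18970782172) (nat_lit 76) (nat_lit 18970782172) (nat_lit 119) (nat_lit 3) (nat_lit 118) (nat_lit 1) (nat_lit 119) (nat_lit 1) (nat_lit 269) (nat_lit 444) (nat_lit 307)) (XT.nd (nat_lit 78) (nat_lit 0) (nat_lit 0) (XT.lf (nat_lit 152) (nat_lit 53716239409) (nat_lit 0) (nat_lit 440285922) (nat_lit 76) (nat_lit 440285922) (nat_lit 118) (nat_lit 1) (nat_lit 116) (nat_lit 1) (nat_lit 117) (nat_lit 1) (nat_lit 270) (nat_lit 444) (nat_lit 306)) (XT.lf (nat_lit 0) (nat_lit 17487820686) (nat_lit 0) (nat_lit 18725812850) (nat_lit 152) (nat_lit 17487820686) (nat_lit 116) (nat_lit 3) (nat_lit 116) (nat_lit 1) (nat_lit 118) (nat_lit 1) (nat_lit 271) (nat_lit 444) (nat_lit 305)))) (XT.nd (nat_lit 156) (nat_lit 76) (nat_lit 0) (XT.nd (nat_lit 78) (nat_lit 152) (nat_lit 0) (XT.lf (nat_lit 76) (nat_lit 16825423528) (nat_lit 0) (nat_lit 18004463684) (nat_lit 76) (nat_lit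 18004463684) (nat_lit 116) (nat_lit 3) (nat_lit 115) (nat_lit 1) (nat_lit 116) (nat_lit 1) (nat_lit 272) (nat_lit 444) (nat_lit 304)) (XT.lf (nat_lit 152) (nat_lit 51269795625) (nat_lit 0) (nat_lit 362224318) (nat_lit 76) (nat_lit 362224318) (nat_lit 115) (nat_lit 1) (nat_lit 113) (nat_lit 1) (nat_lit 114) (nat_lit 1) (nat_lit 273) (nat_lit 444) (nat_lit 303))) (XT.nd (nat_lit 78) (nat_lit 76) (nat_lit 0) (XT.lf (nat_lit 0) (nat_lit 16707703694) (nat_lit 0) (nat_lit 17726202911) (nat_lit 152) (nat_lit 16707703694) (nat_lit 113) (nat_lit 3) (nat_lit 113) (nat_lit 1) (nat_lit 115) (nat_lit 1) (nat_lit 274) (nat_lit 444) (nat_lit 302)) (XT.lf (nat_lit 76) (nat_lit 16125321617) (nat_lit 0) (nat_lit 17095320871) (nat_lit 76) (nat_lit 17095320871) (nat_lit 113) (nat_lit 3) (nat_lit 112) (nat_lit 1) (nat_lit 113) (nat_lit 1) (nat_lit 275) (nat_lit 444) (nat_lit 301))))))) (XT.nd (nat_lit 1014) (nat_lit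 912) (nat_lit 0) (XT.nd (nat_lit 468) (nat_lit 608) (nat_lit 0) (XT.nd (nat_lit 234) (nat_lit 228) (nat_lit 0) (XT.nd (nat_lit 78) (nat_lit 76) (nat_lit 0) (XT.lf (nat_lit 152) (nat_lit 48920085386) (nat_lit 0) (nat_lit 298002843) (nat_lit 76) (nat_lit 298002843) (nat_lit 112) (nat_lit 1) (nat_lit 110) (nat_lit 1) (nat_lit 111) (nat_lit 1) (nat_lit 276) (nat_lit 444) (nat_lit 300)) (XT.nd (nat_lit 78) (nat_lit 76) (nat_lit 0) (XT.lf (nat_lit 0) (nat_lit 15955402831) (nat_lit 0) (nat_lit 16793324657) (nat_lit 152) (nat_lit 15955402831) (nat_lit 110) (nat_lit 3) (nat_lit 110) (nat_lit 1) (nat_lit 112) (nat_lit 1) (nat_lit 277) (nat_lit 444) (nat_lit 299)) (XT.lf (nat_lit 76) (nat_lit 15440631564) (nat_lit 0) (nat_lit 16238652350) (nat_lit 76) (nat_lit 16238652350) (nat_lit 110) (nat_lit 3) (nat_lit 109) (nat_lit 1) (nat_lit 110) (nat_lit 1) (nat_lit 278) (nat_lit 444) (nat_lit 298)))) (XT.nd (nat_lit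 78) (nat_lit 76) (nat_lit 0) (XT.lf (nat_lit 152) (nat_lit 46666006404) (nat_lit 0) (nat_lit 245167676) (nat_lit 76) (nat_lit 245167676) (nat_lit 109) (nat_lit 1) (nat_lit 107) (nat_lit 1) (nat_lit 108) (nat_lit 1) (nat_lit 279) (nat_lit 444) (nat_lit 297)) (XT.nd (nat_lit 78) (nat_lit 76) (nat_lit 0) (XT.lf (nat_lit 0) (nat_lit 15231248113) (nat_lit 0) (nat_lit 15920608473) (nat_lit 152) (nat_lit 15231248113) (nat_lit 107) (nat_lit 3) (nat_lit 107) (nat_lit 1) (nat_lit 109) (nat_lit 1) (nat_lit 280) (nat_lit 444) (nat_lit 296)) (XT.lf (nat_lit 76) (nat_lit 14773797764) (nat_lit 0) (nat_lit 15430331440) (nat_lit 76) (nat_lit 15430331440) (nat_lit 107) (nat_lit 3) (nat_lit 106) (nat_lit 1) (nat_lit 107) (nat_lit 1) (nat_lit 281) (nat_lit 444) (nat_lit 295))))) (XT.nd (nat_lit 234) (nat_lit 380) (nat_lit 0) (XT.nd (nat_lit 78) (nat_lit 76) (nat_lit 0) (XT.lf (nat_lit 152) (nat_lit 44505887614) (nat_lit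 0) (nat_lit 201700054) (nat_lit 76) (nat_lit 201700054) (nat_lit 106) (nat_lit 1) (nat_lit 104) (nat_lit 1) (nat_lit 105) (nat_lit 1) (nat_lit 282) (nat_lit 444) (nat_lit 294)) (XT.nd (nat_lit 78) (nat_lit 76) (nat_lit 0) (XT.lf (nat_lit 0) (nat_lit 14535260486) (nat_lit 0) (nat_lit 15102398960) (nat_lit 152) (nat_lit 14535260486) (nat_lit 104) (nat_lit 3) (nat_lit 104) (nat_lit 1) (nat_lit 106) (nat_lit 1) (nat_lit 283) (nat_lit 444) (nat_lit 293)) (XT.lf (nat_lit 76) (nat_lit 14126584710) (nat_lit 0) (nat_lit 14666716591) (nat_lit 76) (nat_lit 14666716591) (nat_lit 104) (nat_lit 3) (nat_lit 103) (nat_lit 1) (nat_lit 104) (nat_lit 1) (nat_lit 284) (nat_lit 444) (nat_lit 292)))) (XT.nd (nat_lit 156) (nat_lit 228) (nat_lit 0) (XT.nd (nat_lit 78) (nat_lit 0) (nat_lit 0) (XT.lf (nat_lit 152) (nat_lit 42437626413) (nat_lit 0) (nat_lit 165939133) (nat_lit 76) (nat_lit 165939133) (nat_lit 103) (nat_lit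 1) (nat_lit 101) (nat_lit 1) (nat_lit 102) (nat_lit 1) (nat_lit 285) (nat_lit 444) (nat_lit 291)) (XT.lf (nat_lit 0) (nat_lit 13867218554) (nat_lit 0) (nat_lit 14333804780) (nat_lit 152) (nat_lit 13867218554) (nat_lit 101) (nat_lit 3) (nat_lit 101) (nat_lit 1) (nat_lit 103) (nat_lit 1) (nat_lit 286) (nat_lit 444) (nat_lit 290))) (XT.nd (nat_lit 78) (nat_lit 152) (nat_lit 0) (XT.lf (nat_lit 76) (nat_lit 13500209276) (nat_lit 0) (nat_lit 13944577110) (nat_lit 76) (nat_lit 13944577110) (nat_lit 101) (nat_lit 3) (nat_lit 100) (nat_lit 1) (nat_lit 101) (nat_lit 1) (nat_lit 287) (nat_lit 444) (nat_lit 289)) (XT.lf (nat_lit 152) (nat_lit 40458799827) (nat_lit 0) (nat_lit 136518535) (nat_lit 76) (nat_lit 136518535) (nat_lit 100) (nat_lit 1) (nat_lit 98) (nat_lit 1) (nat_lit 99) (nat_lit 1) (nat_lit 288) (nat_lit 444) (nat_lit 288)))))) (XT.nd (nat_lit 468) (nat_lit 456) (nat_lit 0) (XT.nd (nat_lit 234)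 (nat_lit 228) (nat_lit 0) (XT.nd (nat_lit 78) (nat_lit 228) (nat_lit 0) (XT.lf (nat_lit 0) (nat_lit 13226712909) (nat_lit 0) (nat_lit 13610574552) (nat_lit 152) (nat_lit 13226712909) (nat_lit 98) (nat_lit 3) (nat_lit 98) (nat_lit 1) (nat_lit 100) (nat_lit 1) (nat_lit 289) (nat_lit 444) (nat_lit 287)) (XT.nd (nat_lit 78) (nat_lit 152) (nat_lit 0) (XT.lf (nat_lit 76) (nat_lit 12895448985) (nat_lit 0) (nat_lit 13261031503) (nat_lit 76) (nat_lit 13261031503) (nat_lit 98) (nat_lit 3) (nat_lit 97) (nat_lit 1) (nat_lit 98) (nat_lit 1) (nat_lit 290) (nat_lit 444) (nat_lit 286)) (XT.lf (nat_lit 152) (nat_lit 38566754318) (nat_lit 0) (nat_lit 112314137) (nat_lit 76) (nat_lit 112314137) (nat_lit 97) (nat_lit 1) (nat_lit 95) (nat_lit 1) (nat_lit 96) (nat_lit 1) (nat_lit 291) (nat_lit 444) (nat_lit 285)))) (XT.nd (nat_lit 78) (nat_lit 228) (nat_lit 0) (XT.lf (nat_lit 0) (nat_lit 12613190287) (nat_lit 0) (nat_lit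 12928994211) (nat_lit 152) (nat_lit 12613190287) (nat_lit 95) (nat_lit 3) (nat_lit 95) (nat_lit 1) (nat_lit 97) (nat_lit 1) (nat_lit 292) (nat_lit 444) (nat_lit 284)) (XT.nd (nat_lit 78) (nat_lit 152) (nat_lit 0) (XT.lf (nat_lit 76) (nat_lit 12312730560) (nat_lit 0) (nat_lit 12613496201) (nat_lit 76) (nat_lit 12613496201) (nat_lit 95) (nat_lit 3) (nat_lit 94) (nat_lit 1) (nat_lit 95) (nat_lit 1) (nat_lit 293) (nat_lit 444) (nat_lit 283)) (XT.lf (nat_lit 152) (nat_lit 36758678102) (nat_lit 0) (nat_lit 92401118) (nat_lit 76) (nat_lit 92401118) (nat_lit 94) (nat_lit 1) (nat_lit 92) (nat_lit 1) (nat_lit 93) (nat_lit 1) (nat_lit 294) (nat_lit 444) (nat_lit 282))))) (XT.nd (nat_lit 234) (nat_lit 228) (nat_lit 0) (XT.nd (nat_lit 78) (nat_lit 228) (nat_lit 0) (XT.lf (nat_lit 0) (nat_lit 12025989382) (nat_lit 0) (nat_lit 12285802052) (nat_lit 152) (nat_lit 12025989382) (nat_lit 92) (nat_lit 3) (nat_lit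 92) (nat_lit 1) (nat_lit 94) (nat_lit 1) (nat_lit 295) (nat_lit 444) (nat_lit 281)) (XT.nd (nat_lit 78) (nat_lit 152) (nat_lit 0) (XT.lf (nat_lit 76) (nat_lit 11752202251) (nat_lit 0) (nat_lit 11999642889) (nat_lit 76) (nat_lit 11999642889) (nat_lit 92) (nat_lit 3) (nat_lit 91) (nat_lit 1) (nat_lit 92) (nat_lit 1) (nat_lit 296) (nat_lit 444) (nat_lit 280)) (XT.lf (nat_lit 152) (nat_lit 35031659140) (nat_lit 0) (nat_lit 76018629) (nat_lit 76) (nat_lit 76018629) (nat_lit 91) (nat_lit 1) (nat_lit 89) (nat_lit 1) (nat_lit 90) (nat_lit 1) (nat_lit 297) (nat_lit 444) (nat_lit 279)))) (XT.nd (nat_lit 156) (nat_lit 152) (nat_lit 0) (XT.nd (nat_lit 78) (nat_lit 76) (nat_lit 0) (XT.lf (nat_lit 0) (nat_lit 11464369815) (nat_lit 0) (nat_lit 11678118341) (nat_lit 152) (nat_lit 11464369815) (nat_lit 89) (nat_lit 3) (nat_lit 89) (nat_lit 1) (nat_lit 91) (nat_lit 1) (nat_lit 298) (nat_lit 444) (nat_lit 278)) (XT.lf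 (nat_lit 76) (nat_lit 11213792875) (nat_lit 0) (nat_lit 11417362900) (nat_lit 76) (nat_lit 11417362900) (nat_lit 89) (nat_lit 3) (nat_lit 88) (nat_lit 1) (nat_lit 89) (nat_lit 1) (nat_lit 299) (nat_lit 444) (nat_lit 277))) (XT.nd (nat_lit 78) (nat_lit 0) (nat_lit 0) (XT.lf (nat_lit 152) (nat_lit 33382731428) (nat_lit 0) (nat_lit 62540714) (nat_lit 76) (nat_lit 62540714) (nat_lit 88) (nat_lit 1) (nat_lit 86) (nat_lit 1) (nat_lit 87) (nat_lit 1) (nat_lit 300) (nat_lit 444) (nat_lit 276)) (XT.lf (nat_lit 0) (nat_lit 10927535503) (nat_lit 0) (nat_lit 11103386945) (nat_lit 152) (nat_lit 10927535503) (nat_lit 86) (nat_lit 3) (nat_lit 86) (nat_lit 1) (nat_lit 88) (nat_lit 1) (nat_lit 301) (nat_lit 444) (nat_lit 275))))))))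
noncomputable def ec484 : XT := (XT.nd (nat_lit 1950) (nat_lit 1976) (nat_lit 0) (XT.nd (nat_lit 936) (nat_lit 988) (nat_lit 0) (XT.nd (nat_lit 468) (nat_lit 456) (nat_lit 0) (XT.nd (nat_lit 234) (nat_lit 228) (nat_lit 0) (XT.nd (nat_lit 78) (nat_lit 152) (nat_lit 0) (XT.lf (nat_lit 76) (nat_lit 10697259910) (nat_lit 0) (nat_lit 10864737473) (nat_lit 76) (nat_lit 10864737473) (nat_lit 86) (nat_lit 3) (nat_lit 85) (nat_lit 1) (nat_lit 86) (nat_lit 1) (nat_lit 302) (nat_lit 444) (nat_lit 274)) (XT.nd (nat_lit 78) (nat_lit 0) (nat_lit 0) (XT.lf (nat_lit 152) (nat_lit 31808911720) (nat_lit 0) (nat_lit 51452400) (nat_lit 76) (nat_lit 51452400) (nat_lit 85) (nat_lit 1) (nat_lit 83) (nat_lit 1) (nat_lit 84) (nat_lit 1) (nat_lit 303) (nat_lit 444) (nat_lit 273)) (XT.lf (nat_lit 0) (nat_lit 10414653439) (nat_lit 0) (nat_lit 10559326855) (nat_lit 152) (nat_lit 10414653439) (nat_lit 83) (nat_lit 3) (nat_lit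 83) (nat_lit 1) (nat_lit 85) (nat_lit 1) (nat_lit 304) (nat_lit 444) (nat_lit 272)))) (XT.nd (nat_lit 78) (nat_lit 152) (nat_lit 0) (XT.lf (nat_lit 76) (nat_lit 10202228640) (nat_lit 0) (nat_lit 10340012846) (nat_lit 76) (nat_lit 10340012846) (nat_lit 83) (nat_lit 3) (nat_lit 82) (nat_lit 1) (nat_lit 83) (nat_lit 1) (nat_lit 305) (nat_lit 444) (nat_lit 271)) (XT.nd (nat_lit 78) (nat_lit 0) (nat_lit 0) (XT.lf (nat_lit 152) (nat_lit 30307228449) (nat_lit 0) (nat_lit 42330017) (nat_lit 76) (nat_lit 42330017) (nat_lit 82) (nat_lit 1) (nat_lit 80) (nat_lit 1) (nat_lit 81) (nat_lit 1) (nat_lit 306) (nat_lit 444) (nat_lit 270)) (XT.lf (nat_lit 0) (nat_lit 9924868718) (nat_lit 0) (nat_lit 10043891895) (nat_lit 152) (nat_lit 9924868718) (nat_lit 80) (nat_lit 3) (nat_lit 80) (nat_lit 1) (nat_lit 82) (nat_lit 1) (nat_lit 307) (nat_lit 444) (nat_lit 269))))) (XT.nd (nat_lit 234) (nat_lit 228) (nat_lit 0) (XT.nd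 (nat_lit 78) (nat_lit 152) (nat_lit 0) (XT.lf (nat_lit 76) (nat_lit 9728223930) (nat_lit 0) (nat_lit 9841579337) (nat_lit 76) (nat_lit 9841579337) (nat_lit 80) (nat_lit 3) (nat_lit 79) (nat_lit 1) (nat_lit 80) (nat_lit 1) (nat_lit 308) (nat_lit 444) (nat_lit 268)) (XT.nd (nat_lit 78) (nat_lit 0) (nat_lit 0) (XT.lf (nat_lit 152) (nat_lit 28874744284) (nat_lit 0) (nat_lit 34825009) (nat_lit 76) (nat_lit 34825009) (nat_lit 79) (nat_lit 1) (nat_lit 77) (nat_lit 1) (nat_lit 78) (nat_lit 1) (nat_lit 309) (nat_lit 444) (nat_lit 267)) (XT.lf (nat_lit 0) (nat_lit 9457316494) (nat_lit 0) (nat_lit 9555237156) (nat_lit 152) (nat_lit 9457316494) (nat_lit 77) (nat_lit 3) (nat_lit 77) (nat_lit 1) (nat_lit 79) (nat_lit 1) (nat_lit 310) (nat_lit 444) (nat_lit 266)))) (XT.nd (nat_lit 78) (nat_lit 152) (nat_lit 0) (XT.lf (nat_lit 76) (nat_lit 9274695978) (nat_lit 0) (nat_lit 9367953752) (nat_lit 76) (nat_lit 9367953752)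 (nat_lit 77) (nat_lit 3) (nat_lit 76) (nat_lit 1) (nat_lit 77) (nat_lit 1) (nat_lit 311) (nat_lit 444) (nat_lit 265)) (XT.nd (nat_lit 78) (nat_lit 0) (nat_lit 0) (XT.lf (nat_lit 152) (nat_lit 27508573519) (nat_lit 0) (nat_lit 28650621) (nat_lit 76) (nat_lit 28650621) (nat_lit 76) (nat_lit 1) (nat_lit 74) (nat_lit 1) (nat_lit 75) (nat_lit 1) (nat_lit 312) (nat_lit 444) (nat_lit 264)) (XT.lf (nat_lit 0) (nat_lit 9011131434) (nat_lit 0) (nat_lit 9091691006) (nat_lit 152) (nat_lit 9011131434) (nat_lit 74) (nat_lit 3) (nat_lit 74) (nat_lit 1) (nat_lit 76) (nat_lit 1) (nat_lit 313) (nat_lit 444) (nat_lit 263)))))) (XT.nd (nat_lit 468) (nat_lit 532) (nat_lit 0) (XT.nd (nat_lit 234) (nat_lit 228) (nat_lit 0) (XT.nd (nat_lit 78) (nat_lit 152) (nat_lit 0) (XT.lf (nat_lit 76) (nat_lit 8841041120) (nat_lit 0) (nat_lit 8917764522) (nat_lit 76) (nat_lit 8917764522) (nat_lit 74) (nat_lit 3) (nat_lit 73) (nat_lit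 1) (nat_lit 74) (nat_lit 1) (nat_lit 314) (nat_lit 444) (nat_lit 262)) (XT.nd (nat_lit 78) (nat_lit 0) (nat_lit 0) (XT.lf (nat_lit 152) (nat_lit 26205895262) (nat_lit 0) (nat_lit 23570937) (nat_lit 76) (nat_lit 23570937) (nat_lit 73) (nat_lit 1) (nat_lit 71) (nat_lit 1) (nat_lit 72) (nat_lit 1) (nat_lit 315) (nat_lit 444) (nat_lit 261)) (XT.lf (nat_lit 0) (nat_lit 8585455132) (nat_lit 0) (nat_lit 8651731691) (nat_lit 152) (nat_lit 8585455132) (nat_lit 71) (nat_lit 3) (nat_lit 71) (nat_lit 1) (nat_lit 73) (nat_lit 1) (nat_lit 316) (nat_lit 444) (nat_lit 260)))) (XT.nd (nat_lit 78) (nat_lit 152) (nat_lit 0) (XT.lf (nat_lit 76) (nat_lit 8426618587) (nat_lit 0) (nat_lit 8489739119) (nat_lit 76) (nat_lit 8489739119) (nat_lit 71) (nat_lit 3) (nat_lit 70) (nat_lit 1) (nat_lit 71) (nat_lit 1) (nat_lit 317) (nat_lit 444) (nat_lit 259)) (XT.nd (nat_lit 78) (nat_lit 0) (nat_lit 0) (XT.lf (nat_lit 152) (nat_lit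 24963963220) (nat_lit 0) (nat_lit 19391868) (nat_lit 76) (nat_lit 19391868) (nat_lit 70) (nat_lit 1) (nat_lit 68) (nat_lit 1) (nat_lit 69) (nat_lit 1) (nat_lit 318) (nat_lit 444) (nat_lit 258)) (XT.lf (nat_lit 0) (nat_lit 8179441851) (nat_lit 0) (nat_lit 8233967740) (nat_lit 152) (nat_lit 8179441851) (nat_lit 68) (nat_lit 3) (nat_lit 68) (nat_lit 1) (nat_lit 70) (nat_lit 1) (nat_lit 319) (nat_lit 444) (nat_lit 257))))) (XT.nd (nat_lit 234) (nat_lit 304) (nat_lit 0) (XT.nd (nat_lit 78) (nat_lit 152) (nat_lit 0) (XT.lf (nat_lit 76) (nat_lit 8030763944) (nat_lit 0) (nat_lit 8082693362) (nat_lit 76) (nat_lit 8082693362) (nat_lit 68) (nat_lit 3) (nat_lit 67) (nat_lit 1) (nat_lit 68) (nat_lit 1) (nat_lit 320) (nat_lit 444) (nat_lit 256)) (XT.nd (nat_lit 78) (nat_lit 0) (nat_lit 0) (XT.lf (nat_lit 152) (nat_lit 23780112735) (nat_lit 0) (nat_lit 15953738) (nat_lit 76) (nat_lit 15953738) (nat_lit 67) (nat_lit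 1) (nat_lit 65) (nat_lit 1) (nat_lit 66) (nat_lit 1) (nat_lit 321) (nat_lit 444) (nat_lit 255)) (XT.lf (nat_lit 0) (nat_lit 7792262926) (nat_lit 0) (nat_lit 7837121510) (nat_lit 152) (nat_lit 7792262926) (nat_lit 65) (nat_lit 3) (nat_lit 65) (nat_lit 1) (nat_lit 67) (nat_lit 1) (nat_lit 322) (nat_lit 444) (nat_lit 254)))) (XT.nd (nat_lit 156) (nat_lit 76) (nat_lit 0) (XT.nd (nat_lit 78) (nat_lit 152) (nat_lit 0) (XT.lf (nat_lit 76) (nat_lit 7652799827) (nat_lit 0) (nat_lit 7695522288) (nat_lit 76) (nat_lit 7695522288) (nat_lit 65) (nat_lit 3) (nat_lit 64) (nat_lit 1) (nat_lit 65) (nat_lit 1) (nat_lit 323) (nat_lit 444) (nat_lit 253)) (XT.lf (nat_lit 152) (nat_lit 22651765610) (nat_lit 0) (nat_lit 13125179) (nat_lit 76) (nat_lit 13125179) (nat_lit 64) (nat_lit 1) (nat_lit 62) (nat_lit 1) (nat_lit 63) (nat_lit 1) (nat_lit 324) (nat_lit 444) (nat_lit 252))) (XT.nd (nat_lit 78) (nat_lit 76) (nat_lit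 0) (XT.lf (nat_lit 0) (nat_lit 7423110063) (nat_lit 0) (nat_lit 7460015331) (nat_lit 152) (nat_lit 7423110063) (nat_lit 62) (nat_lit 3) (nat_lit 62) (nat_lit 1) (nat_lit 64) (nat_lit 1) (nat_lit 325) (nat_lit 444) (nat_lit 251)) (XT.lf (nat_lit 76) (nat_lit 7292044457) (nat_lit 0) (nat_lit 7327192332) (nat_lit 76) (nat_lit 7327192332) (nat_lit 62) (nat_lit 3) (nat_lit 61) (nat_lit 1) (nat_lit 62) (nat_lit 1) (nat_lit 326) (nat_lit 444) (nat_lit 250))))))) (XT.nd (nat_lit 936) (nat_lit 1064) (nat_lit 0) (XT.nd (nat_lit 468) (nat_lit 456) (nat_lit 0) (XT.nd (nat_lit 234) (nat_lit 228) (nat_lit 0) (XT.nd (nat_lit 78) (nat_lit 76) (nat_lit 0) (XT.lf (nat_lit 152) (nat_lit 21576433161) (nat_lit 0) (nat_lit 10798118) (nat_lit 76) (nat_lit 10798118) (nat_lit 61) (nat_lit 1) (nat_lit 59) (nat_lit 1) (nat_lit 60) (nat_lit 1) (nat_lit 327) (nat_lit 444) (nat_lit 249)) (XT.nd (nat_lit 78) (nat_lit 76) (nat_lit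 0) (XT.lf (nat_lit 0) (nat_lit 7071197752) (nat_lit 0) (nat_lit 7101559808) (nat_lit 152) (nat_lit 7071197752) (nat_lit 59) (nat_lit 3) (nat_lit 59) (nat_lit 1) (nat_lit 61) (nat_lit 1) (nat_lit 328) (nat_lit 444) (nat_lit 248)) (XT.lf (nat_lit 76) (nat_lit 6947818355) (nat_lit 0) (nat_lit 6976734599) (nat_lit 76) (nat_lit 6976734599) (nat_lit 59) (nat_lit 3) (nat_lit 58) (nat_lit 1) (nat_lit 59) (nat_lit 1) (nat_lit 329) (nat_lit 444) (nat_lit 247)))) (XT.nd (nat_lit 78) (nat_lit 76) (nat_lit 0) (XT.lf (nat_lit 152) (nat_lit 20551717850) (nat_lit 0) (nat_lit 8883638) (nat_lit 76) (nat_lit 8883638) (nat_lit 58) (nat_lit 1) (nat_lit 56) (nat_lit 1) (nat_lit 57) (nat_lit 1) (nat_lit 330) (nat_lit 444) (nat_lit 246)) (XT.nd (nat_lit 78) (nat_lit 76) (nat_lit 0) (XT.lf (nat_lit 0) (nat_lit 6735764970) (nat_lit 0) (nat_lit 6760743908) (nat_lit 152) (nat_lit 6735764970) (nat_lit 56) (nat_lit 3) (nat_lit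 56) (nat_lit 1) (nat_lit 58) (nat_lit 1) (nat_lit 331) (nat_lit 444) (nat_lit 245)) (XT.lf (nat_lit 76) (nat_lit 6619449578) (nat_lit 0) (nat_lit 6643239043) (nat_lit 76) (nat_lit 6643239043) (nat_lit 56) (nat_lit 3) (nat_lit 55) (nat_lit 1) (nat_lit 56) (nat_lit 1) (nat_lit 332) (nat_lit 444) (nat_lit 244))))) (XT.nd (nat_lit 234) (nat_lit 228) (nat_lit 0) (XT.nd (nat_lit 78) (nat_lit 76) (nat_lit 0) (XT.lf (nat_lit 152) (nat_lit 19575313794) (nat_lit 0) (nat_lit 7308591) (nat_lit 76) (nat_lit 7308591) (nat_lit 55) (nat_lit 1) (nat_lit 53) (nat_lit 1) (nat_lit 54) (nat_lit 1) (nat_lit 333) (nat_lit 444) (nat_lit 243)) (XT.nd (nat_lit 78) (nat_lit 76) (nat_lit 0) (XT.lf (nat_lit 0) (nat_lit 6416076300) (nat_lit 0) (nat_lit 6436626534) (nat_lit 152) (nat_lit 6416076300) (nat_lit 53) (nat_lit 3) (nat_lit 53) (nat_lit 1) (nat_lit 55) (nat_lit 1) (nat_lit 334) (nat_lit 444) (nat_lit 242)) (XT.lf (nat_lit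 76) (nat_lit 6306277762) (nat_lit 0) (nat_lit 6325849414) (nat_lit 76) (nat_lit 6325849414) (nat_lit 53) (nat_lit 3) (nat_lit 52) (nat_lit 1) (nat_lit 53) (nat_lit 1) (nat_lit 335) (nat_lit 444) (nat_lit 241)))) (XT.nd (nat_lit 78) (nat_lit 76) (nat_lit 0) (XT.lf (nat_lit 152) (nat_lit 18645006397) (nat_lit 0) (nat_lit 6012796) (nat_lit 76) (nat_lit 6012796) (nat_lit 52) (nat_lit 1) (nat_lit 50) (nat_lit 1) (nat_lit 51) (nat_lit 1) (nat_lit 336) (nat_lit 444) (nat_lit 240)) (XT.nd (nat_lit 78) (nat_lit 76) (nat_lit 0) (XT.lf (nat_lit 0) (nat_lit 6111422602) (nat_lit 0) (nat_lit 6128329330) (nat_lit 152) (nat_lit 6111422602) (nat_lit 50) (nat_lit 3) (nat_lit 50) (nat_lit 1) (nat_lit 52) (nat_lit 1) (nat_lit 337) (nat_lit 444) (nat_lit 239)) (XT.lf (nat_lit 76) (nat_lit 6007657190) (nat_lit 0) (nat_lit 6023758836) (nat_lit 76) (nat_lit 6023758836) (nat_lit 50) (nat_lit 3) (nat_lit 49) (nat_lit 1)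 (nat_lit 50) (nat_lit 1) (nat_lit 338) (nat_lit 444) (nat_lit 238)))))) (XT.nd (nat_lit 468) (nat_lit 608) (nat_lit 0) (XT.nd (nat_lit 234) (nat_lit 228) (nat_lit 0) (XT.nd (nat_lit 78) (nat_lit 76) (nat_lit 0) (XT.lf (nat_lit 152) (nat_lit 17758671280) (nat_lit 0) (nat_lit 4946742) (nat_lit 76) (nat_lit 4946742) (nat_lit 49) (nat_lit 1) (nat_lit 47) (nat_lit 1) (nat_lit 48) (nat_lit 1) (nat_lit 339) (nat_lit 444) (nat_lit 237)) (XT.nd (nat_lit 78) (nat_lit 76) (nat_lit 0) (XT.lf (nat_lit 0) (nat_lit 5821121310) (nat_lit 0) (nat_lit 5835030518) (nat_lit 152) (nat_lit 5821121310) (nat_lit 47) (nat_lit 3) (nat_lit 47) (nat_lit 1) (nat_lit 49) (nat_lit 1) (nat_lit 340) (nat_lit 444) (nat_lit 236)) (XT.lf (nat_lit 76) (nat_lit 5722959075) (nat_lit 0) (nat_lit 5736205939) (nat_lit 76) (nat_lit 5736205939) (nat_lit 47) (nat_lit 3) (nat_lit 46) (nat_lit 1) (nat_lit 47) (nat_lit 1) (nat_lit 341) (nat_lit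 444) (nat_lit 235)))) (XT.nd (nat_lit 78) (nat_lit 76) (nat_lit 0) (XT.lf (nat_lit 152) (nat_lit 16914272692) (nat_lit 0) (nat_lit 4069697) (nat_lit 76) (nat_lit 4069697) (nat_lit 46) (nat_lit 1) (nat_lit 44) (nat_lit 1) (nat_lit 45) (nat_lit 1) (nat_lit 342) (nat_lit 444) (nat_lit 234)) (XT.nd (nat_lit 78) (nat_lit 76) (nat_lit 0) (XT.lf (nat_lit 0) (nat_lit 5544516443) (nat_lit 0) (nat_lit 5555959582) (nat_lit 152) (nat_lit 5544516443) (nat_lit 44) (nat_lit 3) (nat_lit 44) (nat_lit 1) (nat_lit 46) (nat_lit 1) (nat_lit 343) (nat_lit 444) (nat_lit 233)) (XT.lf (nat_lit 76) (nat_lit 5451573201) (nat_lit 0) (nat_lit 5462471429) (nat_lit 76) (nat_lit 5462471429) (nat_lit 44) (nat_lit 3) (nat_lit 43) (nat_lit 1) (nat_lit 44) (nat_lit 1) (nat_lit 344) (nat_lit 444) (nat_lit 232))))) (XT.nd (nat_lit 234) (nat_lit 380) (nat_lit 0) (XT.nd (nat_lit 78) (nat_lit 76) (nat_lit 0) (XT.lf (nat_lit 152) (nat_lit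 16109861508) (nat_lit 0) (nat_lit 3348149) (nat_lit 76) (nat_lit 3348149) (nat_lit 43) (nat_lit 1) (nat_lit 41) (nat_lit 1) (nat_lit 42) (nat_lit 1) (nat_lit 345) (nat_lit 444) (nat_lit 231)) (XT.nd (nat_lit 78) (nat_lit 76) (nat_lit 0) (XT.lf (nat_lit 0) (nat_lit 5280978384) (nat_lit 0) (nat_lit 5290392683) (nat_lit 152) (nat_lit 5280978384) (nat_lit 41) (nat_lit 3) (nat_lit 41) (nat_lit 1) (nat_lit 43) (nat_lit 1) (nat_lit 346) (nat_lit 444) (nat_lit 230)) (XT.lf (nat_lit 76) (nat_lit 5192909056) (nat_lit 0) (nat_lit 5201875055) (nat_lit 76) (nat_lit 5201875055) (nat_lit 41) (nat_lit 3) (nat_lit 40) (nat_lit 1) (nat_lit 41) (nat_lit 1) (nat_lit 347) (nat_lit 444) (nat_lit 229)))) (XT.nd (nat_lit 156) (nat_lit 228) (nat_lit 0) (XT.nd (nat_lit 78) (nat_lit 0) (nat_lit 0) (XT.lf (nat_lit 152) (nat_lit 15343572936) (nat_lit 0) (nat_lit 2754531) (nat_lit 76) (nat_lit 2754531) (nat_lit 40) (nat_lit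 1) (nat_lit 38) (nat_lit 1) (nat_lit 39) (nat_lit 1) (nat_lit 348) (nat_lit 444) (nat_lit 228)) (XT.lf (nat_lit 0) (nat_lit 5029903496) (nat_lit 0) (nat_lit 5037648663) (nat_lit 152) (nat_lit 5029903496) (nat_lit 38) (nat_lit 3) (nat_lit 38) (nat_lit 1) (nat_lit 40) (nat_lit 1) (nat_lit 349) (nat_lit 444) (nat_lit 227))) (XT.nd (nat_lit 78) (nat_lit 152) (nat_lit 0) (XT.lf (nat_lit 76) (nat_lit 4946396553) (nat_lit 0) (nat_lit 4953772902) (nat_lit 76) (nat_lit 4953772902) (nat_lit 38) (nat_lit 3) (nat_lit 37) (nat_lit 1) (nat_lit 38) (nat_lit 1) (nat_lit 350) (nat_lit 444) (nat_lit 226)) (XT.lf (nat_lit 152) (nat_lit 14613624003) (nat_lit 0) (nat_lit 2266159) (nat_lit 76) (nat_lit 2266159) (nat_lit 37) (nat_lit 1) (nat_lit 35) (nat_lit 1) (nat_lit 36) (nat_lit 1) (nat_lit 351) (nat_lit 444) (nat_lit 225))))))))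
noncomputable def ec485 : XT := (XT.nd (nat_lit 1950) (nat_lit 836) (nat_lit 0) (XT.nd (nat_lit 936) (nat_lit 912) (nat_lit 0) (XT.nd (nat_lit 468) (nat_lit 456) (nat_lit 0) (XT.nd (nat_lit 234) (nat_lit 228) (nat_lit 0) (XT.nd (nat_lit 78) (nat_lit 228) (nat_lit 0) (XT.lf (nat_lit 0) (nat_lit 4790713587) (nat_lit 0) (nat_lit 4797085555) (nat_lit 152) (nat_lit 4790713587) (nat_lit 35) (nat_lit 3) (nat_lit 35) (nat_lit 1) (nat_lit 37) (nat_lit 1) (nat_lit 352) (nat_lit 444) (nat_lit 224)) (XT.nd (nat_lit 78) (nat_lit 152) (nat_lit 0) (XT.lf (nat_lit 76) (nat_lit 4711486419) (nat_lit 0) (nat_lit 4717554960) (nat_lit 76) (nat_lit 4717554960) (nat_lit 35) (nat_lit 3) (nat_lit 34) (nat_lit 1) (nat_lit 35) (nat_lit 1) (nat_lit 353) (nat_lit 444) (nat_lit 223)) (XT.lf (nat_lit 152) (nat_lit 13918310896) (nat_lit 0) (nat_lit 1864375) (nat_lit 76) (nat_lit 1864375) (nat_lit 34) (nat_lit 1) (nat_lit 32)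 (nat_lit 1) (nat_lit 33) (nat_lit 1) (nat_lit 354) (nat_lit 444) (nat_lit 222)))) (XT.nd (nat_lit 78) (nat_lit 228) (nat_lit 0) (XT.lf (nat_lit 0) (nat_lit 4562855289) (nat_lit 0) (nat_lit 4568097523) (nat_lit 152) (nat_lit 4562855289) (nat_lit 32) (nat_lit 3) (nat_lit 32) (nat_lit 1) (nat_lit 34) (nat_lit 1) (nat_lit 355) (nat_lit 444) (nat_lit 221)) (XT.nd (nat_lit 78) (nat_lit 152) (nat_lit 0) (XT.lf (nat_lit 76) (nat_lit 4487650332) (nat_lit 0) (nat_lit 4492642935) (nat_lit 76) (nat_lit 4492642935) (nat_lit 32) (nat_lit 3) (nat_lit 31) (nat_lit 1) (nat_lit 32) (nat_lit 1) (nat_lit 356) (nat_lit 444) (nat_lit 220)) (XT.lf (nat_lit 152) (nat_lit 13256006213) (nat_lit 0) (nat_lit 1533826) (nat_lit 76) (nat_lit 1533826) (nat_lit 31) (nat_lit 1) (nat_lit 29) (nat_lit 1) (nat_lit 30) (nat_lit 1) (nat_lit 357) (nat_lit 444) (nat_lit 219))))) (XT.nd (nat_lit 234) (nat_lit 228) (nat_lit 0) (XT.nd (nat_lit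 78) (nat_lit 228) (nat_lit 0) (XT.lf (nat_lit 0) (nat_lit 4345799353) (nat_lit 0) (nat_lit 4350112151) (nat_lit 152) (nat_lit 4345799353) (nat_lit 29) (nat_lit 3) (nat_lit 29) (nat_lit 1) (nat_lit 31) (nat_lit 1) (nat_lit 358) (nat_lit 444) (nat_lit 218)) (XT.nd (nat_lit 78) (nat_lit 152) (nat_lit 0) (XT.lf (nat_lit 76) (nat_lit 4274380838) (nat_lit 0) (nat_lit 4278488266) (nat_lit 76) (nat_lit 4278488266) (nat_lit 29) (nat_lit 3) (nat_lit 28) (nat_lit 1) (nat_lit 29) (nat_lit 1) (nat_lit 359) (nat_lit 444) (nat_lit 217)) (XT.lf (nat_lit 152) (nat_lit 12625156158) (nat_lit 0) (nat_lit 1261882) (nat_lit 76) (nat_lit 1261882) (nat_lit 28) (nat_lit 1) (nat_lit 26) (nat_lit 1) (nat_lit 27) (nat_lit 1) (nat_lit 360) (nat_lit 444) (nat_lit 216)))) (XT.nd (nat_lit 78) (nat_lit 228) (nat_lit 0) (XT.lf (nat_lit 0) (nat_lit 4139039896) (nat_lit 0) (nat_lit 4142588046) (nat_lit 152) (nat_lit 4139039896) (nat_lit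 26) (nat_lit 3) (nat_lit 26) (nat_lit 1) (nat_lit 28) (nat_lit 1) (nat_lit 361) (nat_lit 444) (nat_lit 215)) (XT.nd (nat_lit 78) (nat_lit 152) (nat_lit 0) (XT.lf (nat_lit 76) (nat_lit 4071191126) (nat_lit 0) (nat_lit 4074570317) (nat_lit 76) (nat_lit 4074570317) (nat_lit 26) (nat_lit 3) (nat_lit 25) (nat_lit 1) (nat_lit 26) (nat_lit 1) (nat_lit 362) (nat_lit 444) (nat_lit 214)) (XT.lf (nat_lit 152) (nat_lit 12024277732) (nat_lit 0) (nat_lit 1038153) (nat_lit 76) (nat_lit 1038153) (nat_lit 25) (nat_lit 1) (nat_lit 23) (nat_lit 1) (nat_lit 24) (nat_lit 1) (nat_lit 363) (nat_lit 444) (nat_lit 213)))))) (XT.nd (nat_lit 468) (nat_lit 456) (nat_lit 0) (XT.nd (nat_lit 234) (nat_lit 228) (nat_lit 0) (XT.nd (nat_lit 78) (nat_lit 228) (nat_lit 0) (XT.lf (nat_lit 0) (nat_lit 3942093617) (nat_lit 0) (nat_lit 3945012689) (nat_lit 152) (nat_lit 3942093617) (nat_lit 23) (nat_lit 3) (nat_lit 23) (nat_lit 1) (nat_lit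 25) (nat_lit 1) (nat_lit 364) (nat_lit 444) (nat_lit 212)) (XT.nd (nat_lit 78) (nat_lit 152) (nat_lit 0) (XT.lf (nat_lit 76) (nat_lit 3877614665) (nat_lit 0) (nat_lit 3880394734) (nat_lit 76) (nat_lit 3880394734) (nat_lit 23) (nat_lit 3) (nat_lit 22) (nat_lit 1) (nat_lit 23) (nat_lit 1) (nat_lit 365) (nat_lit 444) (nat_lit 211)) (XT.lf (nat_lit 152) (nat_lit 11451955919) (nat_lit 0) (nat_lit 854091) (nat_lit 76) (nat_lit 854091) (nat_lit 22) (nat_lit 1) (nat_lit 20) (nat_lit 1) (nat_lit 21) (nat_lit 1) (nat_lit 366) (nat_lit 444) (nat_lit 210)))) (XT.nd (nat_lit 78) (nat_lit 228) (nat_lit 0) (XT.lf (nat_lit 0) (nat_lit 3754498985) (nat_lit 0) (nat_lit 3756900512) (nat_lit 152) (nat_lit 3754498985) (nat_lit 20) (nat_lit 3) (nat_lit 20) (nat_lit 1) (nat_lit 22) (nat_lit 1) (nat_lit 367) (nat_lit 444) (nat_lit 209)) (XT.nd (nat_lit 78) (nat_lit 152) (nat_lit 0) (XT.lf (nat_lit 76) (nat_lit 3693204753)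 (nat_lit 0) (nat_lit 3695491922) (nat_lit 76) (nat_lit 3695491922) (nat_lit 20) (nat_lit 3) (nat_lit 19) (nat_lit 1) (nat_lit 20) (nat_lit 1) (nat_lit 368) (nat_lit 444) (nat_lit 208)) (XT.lf (nat_lit 152) (nat_lit 10906840926) (nat_lit 0) (nat_lit 702663) (nat_lit 76) (nat_lit 702663) (nat_lit 19) (nat_lit 1) (nat_lit 17) (nat_lit 1) (nat_lit 18) (nat_lit 1) (nat_lit 369) (nat_lit 444) (nat_lit 207))))) (XT.nd (nat_lit 234) (nat_lit 228) (nat_lit 0) (XT.nd (nat_lit 78) (nat_lit 228) (nat_lit 0) (XT.lf (nat_lit 0) (nat_lit 3575815426) (nat_lit 0) (nat_lit 3577791169) (nat_lit 152) (nat_lit 3575815426) (nat_lit 17) (nat_lit 3) (nat_lit 17) (nat_lit 1) (nat_lit 19) (nat_lit 1) (nat_lit 370) (nat_lit 444) (nat_lit 206)) (XT.nd (nat_lit 78) (nat_lit 152) (nat_lit 0) (XT.lf (nat_lit 76) (nat_lit 3517533996) (nat_lit 0) (nat_lit 3519415656) (nat_lit 76) (nat_lit 3519415656) (nat_lit 17) (nat_lit 3) (nat_lit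 16) (nat_lit 1) (nat_lit 17) (nat_lit 1) (nat_lit 371) (nat_lit 444) (nat_lit 205)) (XT.lf (nat_lit 152) (nat_lit 10387645450) (nat_lit 0) (nat_lit 578082) (nat_lit 76) (nat_lit 578082) (nat_lit 16) (nat_lit 1) (nat_lit 14) (nat_lit 1) (nat_lit 15) (nat_lit 1) (nat_lit 372) (nat_lit 444) (nat_lit 204)))) (XT.nd (nat_lit 156) (nat_lit 152) (nat_lit 0) (XT.nd (nat_lit 78) (nat_lit 76) (nat_lit 0) (XT.lf (nat_lit 0) (nat_lit 3405622504) (nat_lit 0) (nat_lit 3407247953) (nat_lit 152) (nat_lit 3405622504) (nat_lit 14) (nat_lit 3) (nat_lit 14) (nat_lit 1) (nat_lit 16) (nat_lit 1) (nat_lit 373) (nat_lit 444) (nat_lit 203)) (XT.lf (nat_lit 76) (nat_lit 3350193739) (nat_lit 0) (nat_lit 3351741786) (nat_lit 76) (nat_lit 3351741786) (nat_lit 14) (nat_lit 3) (nat_lit 13) (nat_lit 1) (nat_lit 14) (nat_lit 1) (nat_lit 374) (nat_lit 444) (nat_lit 202))) (XT.nd (nat_lit 78) (nat_lit 0) (nat_lit 0) (XT.lf (nat_lit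 152) (nat_lit 9893142026) (nat_lit 0) (nat_lit 475590) (nat_lit 76) (nat_lit 475590) (nat_lit 13) (nat_lit 1) (nat_lit 11) (nat_lit 1) (nat_lit 12) (nat_lit 1) (nat_lit 375) (nat_lit 444) (nat_lit 201)) (XT.lf (nat_lit 0) (nat_lit 3243519114) (nat_lit 0) (nat_lit 3244856375) (nat_lit 152) (nat_lit 3243519114) (nat_lit 11) (nat_lit 3) (nat_lit 11) (nat_lit 1) (nat_lit 13) (nat_lit 1) (nat_lit 376) (nat_lit 444) (nat_lit 200))))))) (XT.nd (nat_lit 1014) (nat_lit 0) (nat_lit 0) (XT.nd (nat_lit 468) (nat_lit 380) (nat_lit 0) (XT.nd (nat_lit 234) (nat_lit 228) (nat_lit 0) (XT.nd (nat_lit 78) (nat_lit 152) (nat_lit 0) (XT.lf (nat_lit 76) (nat_lit 3190793457) (nat_lit 0) (nat_lit 3192067038) (nat_lit 76) (nat_lit 3192067038) (nat_lit 11) (nat_lit 3) (nat_lit 10) (nat_lit 1) (nat_lit 11) (nat_lit 1) (nat_lit 377) (nat_lit 444) (nat_lit 199)) (XT.nd (nat_lit 78) (nat_lit 0) (nat_lit 0) (XT.lf (nat_lit 152)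 (nat_lit 9422160436) (nat_lit 0) (nat_lit 391269) (nat_lit 76) (nat_lit 391269) (nat_lit 10) (nat_lit 1) (nat_lit 8) (nat_lit 1) (nat_lit 9) (nat_lit 1) (nat_lit 378) (nat_lit 444) (nat_lit 198)) (XT.lf (nat_lit 0) (nat_lit 3089122680) (nat_lit 0) (nat_lit 3090222848) (nat_lit 152) (nat_lit 3089122680) (nat_lit 8) (nat_lit 3) (nat_lit 8) (nat_lit 1) (nat_lit 10) (nat_lit 1) (nat_lit 379) (nat_lit 444) (nat_lit 197)))) (XT.nd (nat_lit 78) (nat_lit 152) (nat_lit 0) (XT.lf (nat_lit 76) (nat_lit 3038960128) (nat_lit 0) (nat_lit 3040007906) (nat_lit 76) (nat_lit 3040007906) (nat_lit 8) (nat_lit 3) (nat_lit 7) (nat_lit 1) (nat_lit 8) (nat_lit 1) (nat_lit 380) (nat_lit 444) (nat_lit 196)) (XT.nd (nat_lit 78) (nat_lit 0) (nat_lit 0) (XT.lf (nat_lit 152) (nat_lit 8973585192) (nat_lit 0) (nat_lit 321898) (nat_lit 76) (nat_lit 321898) (nat_lit 7) (nat_lit 1) (nat_lit 5) (nat_lit 1) (nat_lit 6) (nat_lit 1)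 (nat_lit 381) (nat_lit 444) (nat_lit 195)) (XT.lf (nat_lit 0) (nat_lit 2942068376) (nat_lit 0) (nat_lit 2942973487) (nat_lit 152) (nat_lit 2942068376) (nat_lit 5) (nat_lit 3) (nat_lit 5) (nat_lit 1) (nat_lit 7) (nat_lit 1) (nat_lit 382) (nat_lit 444) (nat_lit 194))))) (XT.nd (nat_lit 234) (nat_lit 152) (nat_lit 0) (XT.nd (nat_lit 78) (nat_lit 152) (nat_lit 0) (XT.lf (nat_lit 76) (nat_lit 2894337593) (nat_lit 0) (nat_lit 2895199603) (nat_lit 76) (nat_lit 2895199603) (nat_lit 5) (nat_lit 3) (nat_lit 4) (nat_lit 1) (nat_lit 5) (nat_lit 1) (nat_lit 383) (nat_lit 444) (nat_lit 193)) (XT.nd (nat_lit 78) (nat_lit 0) (nat_lit 0) (XT.lf (nat_lit 152) (nat_lit 8546353110) (nat_lit 0) (nat_lit 264826) (nat_lit 76) (nat_lit 264826) (nat_lit 4) (nat_lit 1) (nat_lit 2) (nat_lit 1) (nat_lit 3) (nat_lit 1) (nat_lit 384) (nat_lit 444) (nat_lit 192)) (XT.lf (nat_lit 0) (nat_lit 2802008365) (nat_lit 0) (nat_lit 2802753002)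 (nat_lit 152) (nat_lit 2802008365) (nat_lit 2) (nat_lit 3) (nat_lit 2) (nat_lit 1) (nat_lit 4) (nat_lit 1) (nat_lit 385) (nat_lit 444) (nat_lit 191)))) (XT.nd (nat_lit 156) (nat_lit 0) (nat_lit 0) (XT.nd (nat_lit 78) (nat_lit 76) (nat_lit 0) (XT.lf (nat_lit 76) (nat_lit 2756585915) (nat_lit 0) (nat_lit 2757295093) (nat_lit 76) (nat_lit 2757295093) (nat_lit 2) (nat_lit 3) (nat_lit 1) (nat_lit 1) (nat_lit 2) (nat_lit 1) (nat_lit 386) (nat_lit 444) (nat_lit 190)) (XT.lf (nat_lit 0) (nat_lit 171628216379) (nat_lit 0) (nat_lit 0) (nat_lit 0) (nat_lit 0) (nat_lit 0) (nat_lit 0) (nat_lit 1) (nat_lit 0) (nat_lit 1) (nat_lit 0) (nat_lit 387) (nat_lit 444) (nat_lit 189))) (XT.nd (nat_lit 78) (nat_lit 0) (nat_lit 0) (XT.lf (nat_lit 0) (nat_lit 171628184087) (nat_lit 0) (nat_lit 0) (nat_lit 0) (nat_lit 0) (nat_lit 0) (nat_lit 0) (nat_lit 1) (nat_lit 0) (nat_lit 1) (nat_lit 0) (nat_lit 388) (nat_lit 444) (nat_lit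 188)) (XT.lf (nat_lit 0) (nat_lit 171628153333) (nat_lit 0) (nat_lit 0) (nat_lit 0) (nat_lit 0) (nat_lit 0) (nat_lit 0) (nat_lit 1) (nat_lit 0) (nat_lit 1) (nat_lit 0) (nat_lit 389) (nat_lit 444) (nat_lit 187)))))) (XT.nd (nat_lit 468) (nat_lit 0) (nat_lit 0) (XT.nd (nat_lit 234) (nat_lit 0) (nat_lit 0) (XT.nd (nat_lit 78) (nat_lit 0) (nat_lit 0) (XT.lf (nat_lit 0) (nat_lit 171628124043) (nat_lit 0) (nat_lit 0) (nat_lit 0) (nat_lit 0) (nat_lit 0) (nat_lit 0) (nat_lit 1) (nat_lit 0) (nat_lit 1) (nat_lit 0) (nat_lit 390) (nat_lit 444) (nat_lit 186)) (XT.nd (nat_lit 78) (nat_lit 0) (nat_lit 0) (XT.lf (nat_lit 0) (nat_lit 171628096147) (nat_lit 0) (nat_lit 0) (nat_lit 0) (nat_lit 0) (nat_lit 0) (nat_lit 0) (nat_lit 1) (nat_lit 0) (nat_lit 1) (nat_lit 0) (nat_lit 391) (nat_lit 444) (nat_lit 185)) (XT.lf (nat_lit 0) (nat_lit 171628069581) (nat_lit 0) (nat_lit 0) (nat_lit 0) (nat_lit 0) (nat_lit 0) (nat_lit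 0) (nat_lit 1) (nat_lit 0) (nat_lit 1) (nat_lit 0) (nat_lit 392) (nat_lit 444) (nat_lit 184)))) (XT.nd (nat_lit 78) (nat_lit 0) (nat_lit 0) (XT.lf (nat_lit 0) (nat_lit 171628044279) (nat_lit 0) (nat_lit 0) (nat_lit 0) (nat_lit 0) (nat_lit 0) (nat_lit 0) (nat_lit 1) (nat_lit 0) (nat_lit 1) (nat_lit 0) (nat_lit 393) (nat_lit 444) (nat_lit 183)) (XT.nd (nat_lit 78) (nat_lit 0) (nat_lit 0) (XT.lf (nat_lit 0) (nat_lit 171628020182) (nat_lit 0) (nat_lit 0) (nat_lit 0) (nat_lit 0) (nat_lit 0) (nat_lit 0) (nat_lit 1) (nat_lit 0) (nat_lit 1) (nat_lit 0) (nat_lit 394) (nat_lit 444) (nat_lit 182)) (XT.lf (nat_lit 0) (nat_lit 171627997233) (nat_lit 0) (nat_lit 0) (nat_lit 0) (nat_lit 0) (nat_lit 0) (nat_lit 0) (nat_lit 1) (nat_lit 0) (nat_lit 1) (nat_lit 0) (nat_lit 395) (nat_lit 444) (nat_lit 181))))) (XT.nd (nat_lit 234) (nat_lit 0) (nat_lit 0) (XT.nd (nat_lit 78) (nat_lit 0) (nat_lit 0) (XT.lf (nat_lit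 0) (nat_lit 171627975376) (nat_lit 0) (nat_lit 0) (nat_lit 0) (nat_lit 0) (nat_lit 0) (nat_lit 0) (nat_lit 1) (nat_lit 0) (nat_lit 1) (nat_lit 0) (nat_lit 396) (nat_lit 444) (nat_lit 180)) (XT.nd (nat_lit 78) (nat_lit 0) (nat_lit 0) (XT.lf (nat_lit 0) (nat_lit 171627954560) (nat_lit 0) (nat_lit 0) (nat_lit 0) (nat_lit 0) (nat_lit 0) (nat_lit 0) (nat_lit 1) (nat_lit 0) (nat_lit 1) (nat_lit 0) (nat_lit 397) (nat_lit 444) (nat_lit 179)) (XT.lf (nat_lit 0) (nat_lit 171627934736) (nat_lit 0) (nat_lit 0) (nat_lit 0) (nat_lit 0) (nat_lit 0) (nat_lit 0) (nat_lit 1) (nat_lit 0) (nat_lit 1) (nat_lit 0) (nat_lit 398) (nat_lit 444) (nat_lit 178)))) (XT.nd (nat_lit 156) (nat_lit 0) (nat_lit 0) (XT.nd (nat_lit 78) (nat_lit 0) (nat_lit 0) (XT.lf (nat_lit 0) (nat_lit 171627915855) (nat_lit 0) (nat_lit 0) (nat_lit 0) (nat_lit 0) (nat_lit 0) (nat_lit 0) (nat_lit 1) (nat_lit 0) (nat_lit 1) (nat_lit 0) (nat_lit 399)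 (nat_lit 444) (nat_lit 177)) (XT.lf (nat_lit 0) (nat_lit 171627897874) (nat_lit 0) (nat_lit 0) (nat_lit 0) (nat_lit 0) (nat_lit 0) (nat_lit 0) (nat_lit 1) (nat_lit 0) (nat_lit 1) (nat_lit 0) (nat_lit 400) (nat_lit 444) (nat_lit 176))) (XT.nd (nat_lit 78) (nat_lit 0) (nat_lit 0) (XT.lf (nat_lit 0) (nat_lit 171627880749) (nat_lit 0) (nat_lit 0) (nat_lit 0) (nat_lit 0) (nat_lit 0) (nat_lit 0) (nat_lit 1) (nat_lit 0) (nat_lit 1) (nat_lit 0) (nat_lit 401) (nat_lit 444) (nat_lit 175)) (XT.lf (nat_lit 0) (nat_lit 171627864439) (nat_lit 0) (nat_lit 0) (nat_lit 0) (nat_lit 0) (nat_lit 0) (nat_lit 0) (nat_lit 1) (nat_lit 0) (nat_lit 1) (nat_lit 0) (nat_lit 402) (nat_lit 444) (nat_lit 174))))))))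
noncomputable def ec486 : XT := (XT.nd (nat_lit 36738) (nat_lit 0) (nat_lit 12692) (XT.nd (nat_lit 35724) (nat_lit 0) (nat_lit 14592) (XT.nd (nat_lit 35256) (nat_lit 0) (nat_lit 15808) (XT.nd (nat_lit 234) (nat_lit 0) (nat_lit 0) (XT.nd (nat_lit 78) (nat_lit 0) (nat_lit 0) (XT.lf (nat_lit 0) (nat_lit 171627848906) (nat_lit 0) (nat_lit 0) (nat_lit 0) (nat_lit 0) (nat_lit 0) (nat_lit 0) (nat_lit 1) (nat_lit 0) (nat_lit 1) (nat_lit 0) (nat_lit 403) (nat_lit 444) (nat_lit 173)) (XT.nd (nat_lit 78) (nat_lit 0) (nat_lit 0) (XT.lf (nat_lit 0) (nat_lit 171627834112) (nat_lit 0) (nat_lit 0) (nat_lit 0) (nat_lit 0) (nat_lit 0) (nat_lit 0) (nat_lit 1) (nat_lit 0) (nat_lit 1) (nat_lit 0) (nat_lit 404) (nat_lit 444) (nat_lit 172)) (XT.lf (nat_lit 0) (nat_lit 171627820024) (nat_lit 0) (nat_lit 0) (nat_lit 0) (nat_lit 0) (nat_lit 0) (nat_lit 0) (nat_lit 1) (nat_lit 0) (nat_lit 1) (nat_lit 0) (nat_lit 405) (nat_lit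 444) (nat_lit 171)))) (XT.nd (nat_lit 34866) (nat_lit 0) (nat_lit 16492) (XT.lf (nat_lit 0) (nat_lit 171627806605) (nat_lit 0) (nat_lit 0) (nat_lit 0) (nat_lit 0) (nat_lit 0) (nat_lit 0) (nat_lit 1) (nat_lit 0) (nat_lit 1) (nat_lit 0) (nat_lit 406) (nat_lit 444) (nat_lit 170)) (XT.nd (nat_lit 78) (nat_lit 152) (nat_lit 0) (XT.lf (nat_lit 76) (nat_lit 49086283026) (nat_lit 0) (nat_lit 186079025649) (nat_lit 228) (nat_lit 49086283026) (nat_lit 220) (nat_lit 1) (nat_lit 219) (nat_lit 1) (nat_lit 222) (nat_lit 1) (nat_lit 172) (nat_lit 445) (nat_lit 403)) (XT.lf (nat_lit 228) (nat_lit 22995156326) (nat_lit 0) (nat_lit 128078532542) (nat_lit 152) (nat_lit 128078532542) (nat_lit 220) (nat_lit 1) (nat_lit 217) (nat_lit 1) (nat_lit 219) (nat_lit 1) (nat_lit 173) (nat_lit 445) (nat_lit 402))))) (XT.nd (nat_lit 234) (nat_lit 304) (nat_lit 0) (XT.nd (nat_lit 78) (nat_lit 152) (nat_lit 0) (XT.lf (nat_lit 228)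 (nat_lit 226011252252) (nat_lit 0) (nat_lit 24094678531) (nat_lit 152) (nat_lit 24094678531) (nat_lit 217) (nat_lit 1) (nat_lit 214) (nat_lit 1) (nat_lit 216) (nat_lit 1) (nat_lit 174) (nat_lit 445) (nat_lit 401)) (XT.nd (nat_lit 78) (nat_lit 152) (nat_lit 0) (XT.lf (nat_lit 76) (nat_lit 75239699727) (nat_lit 0) (nat_lit 118811859229) (nat_lit 228) (nat_lit 75239699727) (nat_lit 215) (nat_lit 1) (nat_lit 214) (nat_lit 1) (nat_lit 217) (nat_lit 1) (nat_lit 175) (nat_lit 445) (nat_lit 400)) (XT.lf (nat_lit 228) (nat_lit 76627981242) (nat_lit 0) (nat_lit 93948226032) (nat_lit 152) (nat_lit 93948226032) (nat_lit 215) (nat_lit 1) (nat_lit 212) (nat_lit 1) (nat_lit 214) (nat_lit 1) (nat_lit 176) (nat_lit 445) (nat_lit 399)))) (XT.nd (nat_lit 78) (nat_lit 304) (nat_lit 0) (XT.lf (nat_lit 76) (nat_lit 2518550408) (nat_lit 0) (nat_lit 254887679919) (nat_lit 228) (nat_lit 2518550408) (nat_lit 213) (nat_lit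 1) (nat_lit 212) (nat_lit 1) (nat_lit 215) (nat_lit 1) (nat_lit 177) (nat_lit 445) (nat_lit 398)) (XT.nd (nat_lit 78) (nat_lit 152) (nat_lit 0) (XT.lf (nat_lit 76) (nat_lit 95096356885) (nat_lit 0) (nat_lit 65103176641) (nat_lit 152) (nat_lit 95096356885) (nat_lit 211) (nat_lit 1) (nat_lit 210) (nat_lit 1) (nat_lit 212) (nat_lit 1) (nat_lit 178) (nat_lit 445) (nat_lit 397)) (XT.lf (nat_lit 228) (nat_lit 118003752877) (nat_lit 0) (nat_lit 66413057432) (nat_lit 152) (nat_lit 66413057432) (nat_lit 211) (nat_lit 1) (nat_lit 208) (nat_lit 1) (nat_lit 210) (nat_lit 1) (nat_lit 179) (nat_lit 445) (nat_lit 396)))))) (XT.nd (nat_lit 468) (nat_lit 608) (nat_lit 0) (XT.nd (nat_lit 234) (nat_lit 304) (nat_lit 0) (XT.nd (nat_lit 78) (nat_lit 304) (nat_lit 0) (XT.lf (nat_lit 76) (nat_lit 23658936899) (nat_lit 0) (nat_lit 199166520554) (nat_lit 228) (nat_lit 23658936899) (nat_lit 209) (nat_lit 1) (nat_lit 208)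 (nat_lit 1) (nat_lit 211) (nat_lit 1) (nat_lit 180) (nat_lit 445) (nat_lit 395)) (XT.nd (nat_lit 78) (nat_lit 152) (nat_lit 0) (XT.lf (nat_lit 76) (nat_lit 109851693598) (nat_lit 0) (nat_lit 22471369320) (nat_lit 152) (nat_lit 109851693598) (nat_lit 207) (nat_lit 1) (nat_lit 206) (nat_lit 1) (nat_lit 208) (nat_lit 1) (nat_lit 181) (nat_lit 445) (nat_lit 394)) (XT.lf (nat_lit 228) (nat_lit 149426477690) (nat_lit 0) (nat_lit 44277824206) (nat_lit 152) (nat_lit 44277824206) (nat_lit 207) (nat_lit 1) (nat_lit 204) (nat_lit 1) (nat_lit 206) (nat_lit 1) (nat_lit 182) (nat_lit 445) (nat_lit 393)))) (XT.nd (nat_lit 78) (nat_lit 304) (nat_lit 0) (XT.lf (nat_lit 76) (nat_lit 40023236647) (nat_lit 0) (nat_lit 153826023155) (nat_lit 228) (nat_lit 40023236647) (nat_lit 205) (nat_lit 1) (nat_lit 204) (nat_lit 1) (nat_lit 207) (nat_lit 1) (nat_lit 183) (nat_lit 445) (nat_lit 392)) (XT.nd (nat_lit 78) (nat_lit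 228) (nat_lit 0) (XT.lf (nat_lit 152) (nat_lit 11489213743) (nat_lit 0) (nat_lit 109175601879) (nat_lit 76) (nat_lit 109175601879) (nat_lit 205) (nat_lit 1) (nat_lit 203) (nat_lit 1) (nat_lit 204) (nat_lit 1) (nat_lit 184) (nat_lit 445) (nat_lit 391)) (XT.lf (nat_lit 228) (nat_lit 172785436007) (nat_lit 0) (nat_lit 26560463646) (nat_lit 152) (nat_lit 26560463646) (nat_lit 203) (nat_lit 1) (nat_lit 200) (nat_lit 1) (nat_lit 202) (nat_lit 1) (nat_lit 185) (nat_lit 445) (nat_lit 390))))) (XT.nd (nat_lit 234) (nat_lit 304) (nat_lit 0) (XT.nd (nat_lit 78) (nat_lit 304) (nat_lit 0) (XT.lf (nat_lit 76) (nat_lit 52507187943) (nat_lit 0) (nat_lit 117001844033) (nat_lit 228) (nat_lit 52507187943) (nat_lit 201) (nat_lit 1) (nat_lit 200) (nat_lit 1) (nat_lit 203) (nat_lit 1) (nat_lit 186) (nat_lit 445) (nat_lit 389)) (XT.nd (nat_lit 78) (nat_lit 228) (nat_lit 0) (XT.lf (nat_lit 152) (nat_lit 38583382589) (nat_lit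 0) (nat_lit 89819037852) (nat_lit 76) (nat_lit 89819037852) (nat_lit 201) (nat_lit 1) (nat_lit 199) (nat_lit 1) (nat_lit 200) (nat_lit 1) (nat_lit 187) (nat_lit 445) (nat_lit 388)) (XT.lf (nat_lit 228) (nat_lit 189629008680) (nat_lit 0) (nat_lit 12454204977) (nat_lit 152) (nat_lit 12454204977) (nat_lit 199) (nat_lit 1) (nat_lit 196) (nat_lit 1) (nat_lit 198) (nat_lit 1) (nat_lit 188) (nat_lit 445) (nat_lit 387)))) (XT.nd (nat_lit 156) (nat_lit 228) (nat_lit 0) (XT.nd (nat_lit 78) (nat_lit 76) (nat_lit 0) (XT.lf (nat_lit 76) (nat_lit 61845385946) (nat_lit 0) (nat_lit 87161320065) (nat_lit 228) (nat_lit 61845385946) (nat_lit 197) (nat_lit 1) (nat_lit 196) (nat_lit 1) (nat_lit 199) (nat_lit 1) (nat_lit 189) (nat_lit 445) (nat_lit 386)) (XT.lf (nat_lit 152) (nat_lit 59486623398) (nat_lit 0) (nat_lit 73894344725) (nat_lit 76) (nat_lit 73894344725) (nat_lit 197) (nat_lit 1) (nat_lit 195) (nat_lit 1)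 (nat_lit 196) (nat_lit 1) (nat_lit 190) (nat_lit 445) (nat_lit 385))) (XT.nd (nat_lit 78) (nat_lit 0) (nat_lit 0) (XT.lf (nat_lit 228) (nat_lit 201225400323) (nat_lit 0) (nat_lit 1296434592) (nat_lit 152) (nat_lit 1296434592) (nat_lit 195) (nat_lit 1) (nat_lit 192) (nat_lit 1) (nat_lit 194) (nat_lit 1) (nat_lit 191) (nat_lit 445) (nat_lit 384)) (XT.lf (nat_lit 76) (nat_lit 68639963958) (nat_lit 0) (nat_lit 63044608413) (nat_lit 228) (nat_lit 68639963958) (nat_lit 193) (nat_lit 1) (nat_lit 192) (nat_lit 1) (nat_lit 195) (nat_lit 1) (nat_lit 192) (nat_lit 445) (nat_lit 383))))))) (XT.nd (nat_lit 936) (nat_lit 988) (nat_lit 0) (XT.nd (nat_lit 468) (nat_lit 456) (nat_lit 0) (XT.nd (nat_lit 234) (nat_lit 228) (nat_lit 0) (XT.nd (nat_lit 78) (nat_lit 152) (nat_lit 0) (XT.lf (nat_lit 152) (nat_lit 75362629483) (nat_lit 0) (nat_lit 60793060278) (nat_lit 76) (nat_lit 60793060278) (nat_lit 193) (nat_lit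 1) (nat_lit 191) (nat_lit 1) (nat_lit 192) (nat_lit 1) (nat_lit 193) (nat_lit 445) (nat_lit 382)) (XT.nd (nat_lit 78) (nat_lit 152) (nat_lit 0) (XT.lf (nat_lit 0) (nat_lit 7579160445) (nat_lit 0) (nat_lit 178516563495) (nat_lit 152) (nat_lit 7579160445) (nat_lit 191) (nat_lit 3) (nat_lit 191) (nat_lit 1) (nat_lit 193) (nat_lit 1) (nat_lit 194) (nat_lit 445) (nat_lit 381)) (XT.lf (nat_lit 76) (nat_lit 73384184300) (nat_lit 0) (nat_lit 43616264592) (nat_lit 152) (nat_lit 73384184300) (nat_lit 190) (nat_lit 1) (nat_lit 189) (nat_lit 1) (nat_lit 191) (nat_lit 1) (nat_lit 195) (nat_lit 445) (nat_lit 380)))) (XT.nd (nat_lit 78) (nat_lit 152) (nat_lit 0) (XT.lf (nat_lit 152) (nat_lit 87165628636) (nat_lit 0) (nat_lit 50014601141) (nat_lit 76) (nat_lit 50014601141) (nat_lit 190) (nat_lit 1) (nat_lit 188) (nat_lit 1) (nat_lit 189) (nat_lit 1) (nat_lit 196) (nat_lit 445) (nat_lit 379)) (XT.nd (nat_lit 78)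 (nat_lit 152) (nat_lit 0) (XT.lf (nat_lit 0) (nat_lit 14486084826) (nat_lit 0) (nat_lit 155116709350) (nat_lit 152) (nat_lit 14486084826) (nat_lit 188) (nat_lit 3) (nat_lit 188) (nat_lit 1) (nat_lit 190) (nat_lit 1) (nat_lit 197) (nat_lit 445) (nat_lit 378)) (XT.lf (nat_lit 76) (nat_lit 76481841541) (nat_lit 0) (nat_lit 28025408086) (nat_lit 152) (nat_lit 76481841541) (nat_lit 187) (nat_lit 1) (nat_lit 186) (nat_lit 1) (nat_lit 188) (nat_lit 1) (nat_lit 198) (nat_lit 445) (nat_lit 377))))) (XT.nd (nat_lit 234) (nat_lit 228) (nat_lit 0) (XT.nd (nat_lit 78) (nat_lit 152) (nat_lit 0) (XT.lf (nat_lit 152) (nat_lit 95677670637) (nat_lit 0) (nat_lit 41147136134) (nat_lit 76) (nat_lit 41147136134) (nat_lit 187) (nat_lit 1) (nat_lit 185) (nat_lit 1) (nat_lit 186) (nat_lit 1) (nat_lit 199) (nat_lit 445) (nat_lit 376)) (XT.nd (nat_lit 78) (nat_lit 152) (nat_lit 0) (XT.lf (nat_lit 0) (nat_lit 19775538571)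 (nat_lit 0) (nat_lit 135472701399) (nat_lit 152) (nat_lit 19775538571) (nat_lit 185) (nat_lit 3) (nat_lit 185) (nat_lit 1) (nat_lit 187) (nat_lit 1) (nat_lit 200) (nat_lit 445) (nat_lit 375)) (XT.lf (nat_lit 76) (nat_lit 78263220795) (nat_lit 0) (nat_lit 15572952842) (nat_lit 152) (nat_lit 78263220795) (nat_lit 184) (nat_lit 1) (nat_lit 183) (nat_lit 1) (nat_lit 185) (nat_lit 1) (nat_lit 201) (nat_lit 445) (nat_lit 374)))) (XT.nd (nat_lit 78) (nat_lit 152) (nat_lit 0) (XT.lf (nat_lit 152) (nat_lit 101539296646) (nat_lit 0) (nat_lit 33851850728) (nat_lit 76) (nat_lit 33851850728) (nat_lit 184) (nat_lit 1) (nat_lit 182) (nat_lit 1) (nat_lit 183) (nat_lit 1) (nat_lit 202) (nat_lit 445) (nat_lit 373)) (XT.nd (nat_lit 78) (nat_lit 152) (nat_lit 0) (XT.lf (nat_lit 0) (nat_lit 23753004271) (nat_lit 0) (nat_lit 118937346455) (nat_lit 152) (nat_lit 23753004271) (nat_lit 182) (nat_lit 3) (nat_lit 182) (nat_lit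 1) (nat_lit 184) (nat_lit 1) (nat_lit 203) (nat_lit 445) (nat_lit 372)) (XT.lf (nat_lit 76) (nat_lit 78998222083) (nat_lit 0) (nat_lit 5684649940) (nat_lit 152) (nat_lit 78998222083) (nat_lit 181) (nat_lit 1) (nat_lit 180) (nat_lit 1) (nat_lit 182) (nat_lit 1) (nat_lit 204) (nat_lit 445) (nat_lit 371)))))) (XT.nd (nat_lit 468) (nat_lit 608) (nat_lit 0) (XT.nd (nat_lit 234) (nat_lit 228) (nat_lit 0) (XT.nd (nat_lit 78) (nat_lit 76) (nat_lit 0) (XT.lf (nat_lit 152) (nat_lit 105274764192) (nat_lit 0) (nat_lit 27850001370) (nat_lit 76) (nat_lit 27850001370) (nat_lit 181) (nat_lit 1) (nat_lit 179) (nat_lit 1) (nat_lit 180) (nat_lit 1) (nat_lit 205) (nat_lit 445) (nat_lit 370)) (XT.nd (nat_lit 78) (nat_lit 76) (nat_lit 0) (XT.lf (nat_lit 0) (nat_lit 26668912300) (nat_lit 0) (nat_lit 104977306176) (nat_lit 152) (nat_lit 26668912300) (nat_lit 179) (nat_lit 3) (nat_lit 179) (nat_lit 1) (nat_lit 181) (nat_lit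 1) (nat_lit 206) (nat_lit 445) (nat_lit 369)) (XT.lf (nat_lit 76) (nat_lit 2180890250) (nat_lit 0) (nat_lit 76760312989) (nat_lit 76) (nat_lit 76760312989) (nat_lit 179) (nat_lit 3) (nat_lit 178) (nat_lit 1) (nat_lit 179) (nat_lit 1) (nat_lit 207) (nat_lit 445) (nat_lit 368)))) (XT.nd (nat_lit 78) (nat_lit 76) (nat_lit 0) (XT.lf (nat_lit 152) (nat_lit 107312793369) (nat_lit 0) (nat_lit 22912265050) (nat_lit 76) (nat_lit 22912265050) (nat_lit 178) (nat_lit 1) (nat_lit 176) (nat_lit 1) (nat_lit 177) (nat_lit 1) (nat_lit 208) (nat_lit 445) (nat_lit 367)) (XT.nd (nat_lit 78) (nat_lit 76) (nat_lit 0) (XT.lf (nat_lit 0) (nat_lit 28728443865) (nat_lit 0) (nat_lit 93152953305) (nat_lit 152) (nat_lit 28728443865) (nat_lit 176) (nat_lit 3) (nat_lit 176) (nat_lit 1) (nat_lit 178) (nat_lit 1) (nat_lit 209) (nat_lit 445) (nat_lit 366)) (XT.lf (nat_lit 76) (nat_lit 8472605849) (nat_lit 0) (nat_lit 69829281506)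 (nat_lit 76) (nat_lit 69829281506) (nat_lit 176) (nat_lit 3) (nat_lit 175) (nat_lit 1) (nat_lit 176) (nat_lit 1) (nat_lit 210) (nat_lit 445) (nat_lit 365))))) (XT.nd (nat_lit 234) (nat_lit 380) (nat_lit 0) (XT.nd (nat_lit 78) (nat_lit 76) (nat_lit 0) (XT.lf (nat_lit 152) (nat_lit 108003628620) (nat_lit 0) (nat_lit 18849977160) (nat_lit 76) (nat_lit 18849977160) (nat_lit 175) (nat_lit 1) (nat_lit 173) (nat_lit 1) (nat_lit 174) (nat_lit 1) (nat_lit 211) (nat_lit 445) (nat_lit 364)) (XT.nd (nat_lit 78) (nat_lit 76) (nat_lit 0) (XT.lf (nat_lit 0) (nat_lit 30099593976) (nat_lit 0) (nat_lit 83101797329) (nat_lit 152) (nat_lit 30099593976) (nat_lit 173) (nat_lit 3) (nat_lit 173) (nat_lit 1) (nat_lit 175) (nat_lit 1) (nat_lit 212) (nat_lit 445) (nat_lit 363)) (XT.lf (nat_lit 76) (nat_lit 13330797651) (nat_lit 0) (nat_lit 63809086559) (nat_lit 76) (nat_lit 63809086559) (nat_lit 173) (nat_lit 3) (nat_lit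 172) (nat_lit 1) (nat_lit 173) (nat_lit 1) (nat_lit 213) (nat_lit 445) (nat_lit 362)))) (XT.nd (nat_lit 156) (nat_lit 228) (nat_lit 0) (XT.nd (nat_lit 78) (nat_lit 0) (nat_lit 0) (XT.lf (nat_lit 152) (nat_lit 107633069637) (nat_lit 0) (nat_lit 15507922859) (nat_lit 76) (nat_lit 15507922859) (nat_lit 172) (nat_lit 1) (nat_lit 170) (nat_lit 1) (nat_lit 171) (nat_lit 1) (nat_lit 214) (nat_lit 445) (nat_lit 361)) (XT.lf (nat_lit 0) (nat_lit 30919802941) (nat_lit 0) (nat_lit 74524846809) (nat_lit 152) (nat_lit 30919802941) (nat_lit 170) (nat_lit 3) (nat_lit 170) (nat_lit 1) (nat_lit 172) (nat_lit 1) (nat_lit 215) (nat_lit 445) (nat_lit 360))) (XT.nd (nat_lit 78) (nat_lit 152) (nat_lit 0) (XT.lf (nat_lit 76) (nat_lit 17024769601) (nat_lit 0) (nat_lit 58553382808) (nat_lit 76) (nat_lit 58553382808) (nat_lit 170) (nat_lit 3) (nat_lit 169) (nat_lit 1) (nat_lit 170) (nat_lit 1) (nat_lit 216) (nat_lit 445)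 (nat_lit 359)) (XT.lf (nat_lit 152) (nat_lit 106434009031) (nat_lit 0) (nat_lit 12758406515) (nat_lit 76) (nat_lit 12758406515) (nat_lit 169) (nat_lit 1) (nat_lit 167) (nat_lit 1) (nat_lit 168) (nat_lit 1) (nat_lit 217) (nat_lit 445) (nat_lit 358))))))))
noncomputable def ec487 : XT := (XT.nd (nat_lit 1950) (nat_lit 2052) (nat_lit 0) (XT.nd (nat_lit 936) (nat_lit 912) (nat_lit 0) (XT.nd (nat_lit 468) (nat_lit 456) (nat_lit 0) (XT.nd (nat_lit 234) (nat_lit 228) (nat_lit 0) (XT.nd (nat_lit 78) (nat_lit 228) (nat_lit 0) (XT.lf (nat_lit 0) (nat_lit 31301410292) (nat_lit 0) (nat_lit 67175387795) (nat_lit 152) (nat_lit 31301410292) (nat_lit 167) (nat_lit 3) (nat_lit 167) (nat_lit 1) (nat_lit 169) (nat_lit 1) (nat_lit 218) (nat_lit 445) (nat_lit 357)) (XT.nd (nat_lit 78) (nat_lit 152) (nat_lit 0) (XT.lf (nat_lit 76) (nat_lit 19775357590) (nat_lit 0) (nat_lit 53941050451) (nat_lit 76) (nat_lit 53941050451)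 (nat_lit 167) (nat_lit 3) (nat_lit 166) (nat_lit 1) (nat_lit 167) (nat_lit 1) (nat_lit 219) (nat_lit 445) (nat_lit 356)) (XT.lf (nat_lit 152) (nat_lit 104595919080) (nat_lit 0) (nat_lit 10496372614) (nat_lit 76) (nat_lit 10496372614) (nat_lit 166) (nat_lit 1) (nat_lit 164) (nat_lit 1) (nat_lit 165) (nat_lit 1) (nat_lit 220) (nat_lit 445) (nat_lit 355)))) (XT.nd (nat_lit 78) (nat_lit 228) (nat_lit 0) (XT.lf (nat_lit 0) (nat_lit 31336139990) (nat_lit 0) (nat_lit 60849750062) (nat_lit 152) (nat_lit 31336139990) (nat_lit 164) (nat_lit 3) (nat_lit 164) (nat_lit 1) (nat_lit 166) (nat_lit 1) (nat_lit 221) (nat_lit 445) (nat_lit 354)) (XT.nd (nat_lit 78) (nat_lit 152) (nat_lit 0) (XT.lf (nat_lit 76) (nat_lit 21763557064) (nat_lit 0) (nat_lit 49871757133) (nat_lit 76) (nat_lit 49871757133) (nat_lit 164) (nat_lit 3) (nat_lit 163) (nat_lit 1) (nat_lit 164) (nat_lit 1) (nat_lit 222) (nat_lit 445) (nat_lit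 353)) (XT.lf (nat_lit 152) (nat_lit 102272651431) (nat_lit 0) (nat_lit 8635391726) (nat_lit 76) (nat_lit 8635391726) (nat_lit 163) (nat_lit 1) (nat_lit 161) (nat_lit 1) (nat_lit 162) (nat_lit 1) (nat_lit 223) (nat_lit 445) (nat_lit 352))))) (XT.nd (nat_lit 234) (nat_lit 228) (nat_lit 0) (XT.nd (nat_lit 78) (nat_lit 228) (nat_lit 0) (XT.lf (nat_lit 0) (nat_lit 31098788756) (nat_lit 0) (nat_lit 55379708803) (nat_lit 152) (nat_lit 31098788756) (nat_lit 161) (nat_lit 3) (nat_lit 161) (nat_lit 1) (nat_lit 163) (nat_lit 1) (nat_lit 224) (nat_lit 445) (nat_lit 351)) (XT.nd (nat_lit 78) (nat_lit 152) (nat_lit 0) (XT.lf (nat_lit 76) (nat_lit 23137619338) (nat_lit 0) (nat_lit 46262305097) (nat_lit 76) (nat_lit 46262305097) (nat_lit 161) (nat_lit 3) (nat_lit 160) (nat_lit 1) (nat_lit 161) (nat_lit 1) (nat_lit 225) (nat_lit 445) (nat_lit 350)) (XT.lf (nat_lit 152) (nat_lit 99588849104) (nat_lit 0) (nat_lit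 7104358144) (nat_lit 76) (nat_lit 7104358144) (nat_lit 160) (nat_lit 1) (nat_lit 158) (nat_lit 1) (nat_lit 159) (nat_lit 1) (nat_lit 226) (nat_lit 445) (nat_lit 349)))) (XT.nd (nat_lit 78) (nat_lit 228) (nat_lit 0) (XT.lf (nat_lit 0) (nat_lit 30650258888) (nat_lit 0) (nat_lit 50626231901) (nat_lit 152) (nat_lit 30650258888) (nat_lit 158) (nat_lit 3) (nat_lit 158) (nat_lit 1) (nat_lit 160) (nat_lit 1) (nat_lit 227) (nat_lit 445) (nat_lit 348)) (XT.nd (nat_lit 78) (nat_lit 152) (nat_lit 0) (XT.lf (nat_lit 76) (nat_lit 24018888196) (nat_lit 0) (nat_lit 43043624398) (nat_lit 76) (nat_lit 43043624398) (nat_lit 158) (nat_lit 3) (nat_lit 157) (nat_lit 1) (nat_lit 158) (nat_lit 1) (nat_lit 228) (nat_lit 445) (nat_lit 347)) (XT.lf (nat_lit 152) (nat_lit 96645217065) (nat_lit 0) (nat_lit 5844773026) (nat_lit 76) (nat_lit 5844773026) (nat_lit 157) (nat_lit 1) (nat_lit 155) (nat_lit 1) (nat_lit 156) (nat_lit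 1) (nat_lit 229) (nat_lit 445) (nat_lit 346)))))) (XT.nd (nat_lit 468) (nat_lit 456) (nat_lit 0) (XT.nd (nat_lit 234) (nat_lit 228) (nat_lit 0) (XT.nd (nat_lit 78) (nat_lit 228) (nat_lit 0) (XT.lf (nat_lit 0) (nat_lit 30040051855) (nat_lit 0) (nat_lit 46474334289) (nat_lit 152) (nat_lit 30040051855) (nat_lit 155) (nat_lit 3) (nat_lit 155) (nat_lit 1) (nat_lit 157) (nat_lit 1) (nat_lit 230) (nat_lit 445) (nat_lit 345)) (XT.nd (nat_lit 78) (nat_lit 152) (nat_lit 0) (XT.lf (nat_lit 76) (nat_lit 24506600194) (nat_lit 0) (nat_lit 40158297750) (nat_lit 76) (nat_lit 40158297750) (nat_lit 155) (nat_lit 3) (nat_lit 154) (nat_lit 1) (nat_lit 155) (nat_lit 1) (nat_lit 231) (nat_lit 445) (nat_lit 344)) (XT.lf (nat_lit 152) (nat_lit 93522853966) (nat_lit 0) (nat_lit 4808509233) (nat_lit 76) (nat_lit 4808509233) (nat_lit 154) (nat_lit 1) (nat_lit 152) (nat_lit 1) (nat_lit 153) (nat_lit 1) (nat_lit 232) (nat_lit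 445) (nat_lit 343)))) (XT.nd (nat_lit 78) (nat_lit 228) (nat_lit 0) (XT.lf (nat_lit 0) (nat_lit 29308318352) (nat_lit 0) (nat_lit 42828843181) (nat_lit 152) (nat_lit 29308318352) (nat_lit 152) (nat_lit 3) (nat_lit 152) (nat_lit 1) (nat_lit 154) (nat_lit 1) (nat_lit 233) (nat_lit 445) (nat_lit 342)) (XT.nd (nat_lit 78) (nat_lit 152) (nat_lit 0) (XT.lf (nat_lit 76) (nat_lit 24681832470) (nat_lit 0) (nat_lit 37558522785) (nat_lit 76) (nat_lit 37558522785) (nat_lit 152) (nat_lit 3) (nat_lit 151) (nat_lit 1) (nat_lit 152) (nat_lit 1) (nat_lit 234) (nat_lit 445) (nat_lit 341)) (XT.lf (nat_lit 152) (nat_lit 90286811702) (nat_lit 0) (nat_lit 3955972446) (nat_lit 76) (nat_lit 3955972446) (nat_lit 151) (nat_lit 1) (nat_lit 149) (nat_lit 1) (nat_lit 150) (nat_lit 1) (nat_lit 235) (nat_lit 445) (nat_lit 340))))) (XT.nd (nat_lit 234) (nat_lit 228) (nat_lit 0) (XT.nd (nat_lit 78) (nat_lit 228) (nat_lit 0) (XT.lf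 (nat_lit 0) (nat_lit 28487543514) (nat_lit 0) (nat_lit 39610912752) (nat_lit 152) (nat_lit 28487543514) (nat_lit 149) (nat_lit 3) (nat_lit 149) (nat_lit 1) (nat_lit 151) (nat_lit 1) (nat_lit 236) (nat_lit 445) (nat_lit 339)) (XT.nd (nat_lit 78) (nat_lit 152) (nat_lit 0) (XT.lf (nat_lit 76) (nat_lit 24610749267) (nat_lit 0) (nat_lit 35204434256) (nat_lit 76) (nat_lit 35204434256) (nat_lit 149) (nat_lit 3) (nat_lit 148) (nat_lit 1) (nat_lit 149) (nat_lit 1) (nat_lit 237) (nat_lit 445) (nat_lit 338)) (XT.lf (nat_lit 152) (nat_lit 86989019900) (nat_lit 0) (nat_lit 3254588322) (nat_lit 76) (nat_lit 3254588322) (nat_lit 148) (nat_lit 1) (nat_lit 146) (nat_lit 1) (nat_lit 147) (nat_lit 1) (nat_lit 238) (nat_lit 445) (nat_lit 337)))) (XT.nd (nat_lit 156) (nat_lit 152) (nat_lit 0) (XT.nd (nat_lit 78) (nat_lit 76) (nat_lit 0) (XT.lf (nat_lit 0) (nat_lit 27603932048) (nat_lit 0) (nat_lit 36755155448) (nat_lit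 152) (nat_lit 27603932048) (nat_lit 146) (nat_lit 3) (nat_lit 146) (nat_lit 1) (nat_lit 148) (nat_lit 1) (nat_lit 239) (nat_lit 445) (nat_lit 336)) (XT.lf (nat_lit 76) (nat_lit 24347271577) (nat_lit 0) (nat_lit 33062722435) (nat_lit 76) (nat_lit 33062722435) (nat_lit 146) (nat_lit 3) (nat_lit 145) (nat_lit 1) (nat_lit 146) (nat_lit 1) (nat_lit 240) (nat_lit 445) (nat_lit 335))) (XT.nd (nat_lit 78) (nat_lit 0) (nat_lit 0) (XT.lf (nat_lit 152) (nat_lit 83670688115) (nat_lit 0) (nat_lit 2677557867) (nat_lit 76) (nat_lit 2677557867) (nat_lit 145) (nat_lit 1) (nat_lit 143) (nat_lit 1) (nat_lit 144) (nat_lit 1) (nat_lit 241) (nat_lit 445) (nat_lit 334)) (XT.lf (nat_lit 0) (nat_lit 26678546542) (nat_lit 0) (nat_lit 34207280681) (nat_lit 152) (nat_lit 26678546542) (nat_lit 143) (nat_lit 3) (nat_lit 143) (nat_lit 1) (nat_lit 145) (nat_lit 1) (nat_lit 242) (nat_lit 445) (nat_lit 333))))))) (XT.nd (nat_lit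 1014) (nat_lit 1064) (nat_lit 0) (XT.nd (nat_lit 468) (nat_lit 532) (nat_lit 0) (XT.nd (nat_lit 234) (nat_lit 228) (nat_lit 0) (XT.nd (nat_lit 78) (nat_lit 152) (nat_lit 0) (XT.lf (nat_lit 76) (nat_lit 23935272247) (nat_lit 0) (nat_lit 31105495236) (nat_lit 76) (nat_lit 31105495236) (nat_lit 143) (nat_lit 3) (nat_lit 142) (nat_lit 1) (nat_lit 143) (nat_lit 1) (nat_lit 243) (nat_lit 445) (nat_lit 332)) (XT.nd (nat_lit 78) (nat_lit 0) (nat_lit 0) (XT.lf (nat_lit 152) (nat_lit 80364278526) (nat_lit 0) (nat_lit 2202833483) (nat_lit 76) (nat_lit 2202833483) (nat_lit 142) (nat_lit 1) (nat_lit 140) (nat_lit 1) (nat_lit 141) (nat_lit 1) (nat_lit 244) (nat_lit 445) (nat_lit 331)) (XT.lf (nat_lit 0) (nat_lit 25728242771) (nat_lit 0) (nat_lit 31922150979) (nat_lit 152) (nat_lit 25728242771) (nat_lit 140) (nat_lit 3) (nat_lit 140) (nat_lit 1) (nat_lit 142) (nat_lit 1) (nat_lit 245) (nat_lit 445) (nat_lit 330))))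 (XT.nd (nat_lit 78) (nat_lit 152) (nat_lit 0) (XT.lf (nat_lit 76) (nat_lit 23410380727) (nat_lit 0) (nat_lit 29309340925) (nat_lit 76) (nat_lit 29309340925) (nat_lit 140) (nat_lit 3) (nat_lit 139) (nat_lit 1) (nat_lit 140) (nat_lit 1) (nat_lit 246) (nat_lit 445) (nat_lit 329)) (XT.nd (nat_lit 78) (nat_lit 0) (nat_lit 0) (XT.lf (nat_lit 152) (nat_lit 77095125443) (nat_lit 0) (nat_lit 1812276558) (nat_lit 76) (nat_lit 1812276558) (nat_lit 139) (nat_lit 1) (nat_lit 137) (nat_lit 1) (nat_lit 138) (nat_lit 1) (nat_lit 247) (nat_lit 445) (nat_lit 328)) (XT.lf (nat_lit 0) (nat_lit 24766438054) (nat_lit 0) (nat_lit 29862181665) (nat_lit 152) (nat_lit 24766438054) (nat_lit 137) (nat_lit 3) (nat_lit 137) (nat_lit 1) (nat_lit 139) (nat_lit 1) (nat_lit 248) (nat_lit 445) (nat_lit 327))))) (XT.nd (nat_lit 234) (nat_lit 304) (nat_lit 0) (XT.nd (nat_lit 78) (nat_lit 152) (nat_lit 0) (XT.lf (nat_lit 76) (nat_lit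 22801466745) (nat_lit 0) (nat_lit 27654555899) (nat_lit 76) (nat_lit 27654555899) (nat_lit 137) (nat_lit 3) (nat_lit 136) (nat_lit 1) (nat_lit 137) (nat_lit 1) (nat_lit 249) (nat_lit 445) (nat_lit 326)) (XT.nd (nat_lit 78) (nat_lit 0) (nat_lit 0) (XT.lf (nat_lit 152) (nat_lit 73882764416) (nat_lit 0) (nat_lit 1490964409) (nat_lit 76) (nat_lit 1490964409) (nat_lit 136) (nat_lit 1) (nat_lit 134) (nat_lit 1) (nat_lit 135) (nat_lit 1) (nat_lit 250) (nat_lit 445) (nat_lit 325)) (XT.lf (nat_lit 0) (nat_lit 23803742311) (nat_lit 0) (nat_lit 27996023191) (nat_lit 152) (nat_lit 23803742311) (nat_lit 134) (nat_lit 3) (nat_lit 134) (nat_lit 1) (nat_lit 136) (nat_lit 1) (nat_lit 251) (nat_lit 445) (nat_lit 324)))) (XT.nd (nat_lit 156) (nat_lit 76) (nat_lit 0) (XT.nd (nat_lit 78) (nat_lit 152) (nat_lit 0) (XT.lf (nat_lit 76) (nat_lit 22131859868) (nat_lit 0) (nat_lit 26124508325) (nat_lit 76) (nat_lit 26124508325)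 (nat_lit 134) (nat_lit 3) (nat_lit 133) (nat_lit 1) (nat_lit 134) (nat_lit 1) (nat_lit 252) (nat_lit 445) (nat_lit 323)) (XT.lf (nat_lit 152) (nat_lit 70742022576) (nat_lit 0) (nat_lit 1226620109) (nat_lit 76) (nat_lit 1226620109) (nat_lit 133) (nat_lit 1) (nat_lit 131) (nat_lit 1) (nat_lit 132) (nat_lit 1) (nat_lit 253) (nat_lit 445) (nat_lit 322))) (XT.nd (nat_lit 78) (nat_lit 76) (nat_lit 0) (XT.lf (nat_lit 0) (nat_lit 22848476216) (nat_lit 0) (nat_lit 26297476071) (nat_lit 152) (nat_lit 22848476216) (nat_lit 131) (nat_lit 3) (nat_lit 131) (nat_lit 1) (nat_lit 133) (nat_lit 1) (nat_lit 254) (nat_lit 445) (nat_lit 321)) (XT.lf (nat_lit 76) (nat_lit 21420351836) (nat_lit 0) (nat_lit 24705113603) (nat_lit 76) (nat_lit 24705113603) (nat_lit 131) (nat_lit 3) (nat_lit 130) (nat_lit 1) (nat_lit 131) (nat_lit 1) (nat_lit 255) (nat_lit 445) (nat_lit 320)))))) (XT.nd (nat_lit 468) (nat_lit 608) (nat_lit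 0) (XT.nd (nat_lit 234) (nat_lit 228) (nat_lit 0) (XT.nd (nat_lit 78) (nat_lit 76) (nat_lit 0) (XT.lf (nat_lit 152) (nat_lit 67683912709) (nat_lit 0) (nat_lit 1009143399) (nat_lit 76) (nat_lit 1009143399) (nat_lit 130) (nat_lit 1) (nat_lit 128) (nat_lit 1) (nat_lit 129) (nat_lit 1) (nat_lit 256) (nat_lit 445) (nat_lit 319)) (XT.nd (nat_lit 78) (nat_lit 76) (nat_lit 0) (XT.lf (nat_lit 0) (nat_lit 21907096506) (nat_lit 0) (nat_lit 24744597222) (nat_lit 152) (nat_lit 21907096506) (nat_lit 128) (nat_lit 3) (nat_lit 128) (nat_lit 1) (nat_lit 130) (nat_lit 1) (nat_lit 257) (nat_lit 445) (nat_lit 318)) (XT.lf (nat_lit 76) (nat_lit 20682020229) (nat_lit 0) (nat_lit 23384401863) (nat_lit 76) (nat_lit 23384401863) (nat_lit 128) (nat_lit 3) (nat_lit 127) (nat_lit 1) (nat_lit 128) (nat_lit 1) (nat_lit 258) (nat_lit 445) (nat_lit 317)))) (XT.nd (nat_lit 78) (nat_lit 76) (nat_lit 0) (XT.lf (nat_lit 152) (nat_lit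 64716365979) (nat_lit 0) (nat_lit 830224772) (nat_lit 76) (nat_lit 830224772) (nat_lit 127) (nat_lit 1) (nat_lit 125) (nat_lit 1) (nat_lit 126) (nat_lit 1) (nat_lit 259) (nat_lit 445) (nat_lit 316)) (XT.nd (nat_lit 78) (nat_lit 76) (nat_lit 0) (XT.lf (nat_lit 0) (nat_lit 20984544967) (nat_lit 0) (nat_lit 23318963828) (nat_lit 152) (nat_lit 20984544967) (nat_lit 125) (nat_lit 3) (nat_lit 125) (nat_lit 1) (nat_lit 127) (nat_lit 1) (nat_lit 260) (nat_lit 445) (nat_lit 315)) (XT.lf (nat_lit 76) (nat_lit 19928905190) (nat_lit 0) (nat_lit 22152161249) (nat_lit 76) (nat_lit 22152161249) (nat_lit 125) (nat_lit 3) (nat_lit 124) (nat_lit 1) (nat_lit 125) (nat_lit 1) (nat_lit 261) (nat_lit 445) (nat_lit 314))))) (XT.nd (nat_lit 234) (nat_lit 380) (nat_lit 0) (XT.nd (nat_lit 78) (nat_lit 76) (nat_lit 0) (XT.lf (nat_lit 152) (nat_lit 61844832059) (nat_lit 0) (nat_lit 683027974) (nat_lit 76) (nat_lit 683027974)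 (nat_lit 124) (nat_lit 1) (nat_lit 122) (nat_lit 1) (nat_lit 123) (nat_lit 1) (nat_lit 262) (nat_lit 445) (nat_lit 313)) (XT.nd (nat_lit 78) (nat_lit 76) (nat_lit 0) (XT.lf (nat_lit 0) (nat_lit 20084534653) (nat_lit 0) (nat_lit 22005066828) (nat_lit 152) (nat_lit 20084534653) (nat_lit 122) (nat_lit 3) (nat_lit 122) (nat_lit 1) (nat_lit 124) (nat_lit 1) (nat_lit 263) (nat_lit 445) (nat_lit 312)) (XT.lf (nat_lit 76) (nat_lit 19170565300) (nat_lit 0) (nat_lit 20999643561) (nat_lit 76) (nat_lit 20999643561) (nat_lit 122) (nat_lit 3) (nat_lit 121) (nat_lit 1) (nat_lit 122) (nat_lit 1) (nat_lit 264) (nat_lit 445) (nat_lit 311)))) (XT.nd (nat_lit 156) (nat_lit 228) (nat_lit 0) (XT.nd (nat_lit 78) (nat_lit 0) (nat_lit 0) (XT.lf (nat_lit 152) (nat_lit 59072770301) (nat_lit 0) (nat_lit 561928805) (nat_lit 76) (nat_lit 561928805) (nat_lit 121) (nat_lit 1) (nat_lit 119) (nat_lit 1) (nat_lit 120) (nat_lit 1)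 (nat_lit 265) (nat_lit 445) (nat_lit 310)) (XT.lf (nat_lit 0) (nat_lit 19209784532) (nat_lit 0) (nat_lit 20789811105) (nat_lit 152) (nat_lit 19209784532) (nat_lit 119) (nat_lit 3) (nat_lit 119) (nat_lit 1) (nat_lit 121) (nat_lit 1) (nat_lit 266) (nat_lit 445) (nat_lit 309))) (XT.nd (nat_lit 78) (nat_lit 152) (nat_lit 0) (XT.lf (nat_lit 76) (nat_lit 18414534068) (nat_lit 0) (nat_lit 19919321280) (nat_lit 76) (nat_lit 19919321280) (nat_lit 119) (nat_lit 3) (nat_lit 118) (nat_lit 1) (nat_lit 119) (nat_lit 1) (nat_lit 267) (nat_lit 445) (nat_lit 308)) (XT.lf (nat_lit 152) (nat_lit 56402051380) (nat_lit 0) (nat_lit 462300218) (nat_lit 76) (nat_lit 462300218) (nat_lit 118) (nat_lit 1) (nat_lit 116) (nat_lit 1) (nat_lit 117) (nat_lit 1) (nat_lit 268) (nat_lit 445) (nat_lit 307))))))))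
noncomputable def ec488 : XT := (XT.nd (nat_lit 1950) (nat_lit 1900) (nat_lit 0) (XT.nd (nat_lit 936) (nat_lit 912) (nat_lit 0) (XT.nd (nat_lit 468) (nat_lit 456) (nat_lit 0) (XT.nd (nat_lit 234) (nat_lit 228) (nat_lit 0) (XT.nd (nat_lit 78) (nat_lit 228) (nat_lit 0) (XT.lf (nat_lit 0) (nat_lit 18362211721) (nat_lit 0) (nat_lit 19662103493) (nat_lit 152) (nat_lit 18362211721) (nat_lit 116) (nat_lit 3) (nat_lit 116) (nat_lit 1) (nat_lit 118) (nat_lit 1) (nat_lit 269) (nat_lit 445) (nat_lit 306)) (XT.nd (nat_lit 78) (nat_lit 152) (nat_lit 0) (XT.lf (nat_lit 76) (nat_lit 17666694705) (nat_lit 0) (nat_lit 18904686868) (nat_lit 76) (nat_lit 18904686868) (nat_lit 116) (nat_lit 3) (nat_lit 115) (nat_lit 1) (nat_lit 116) (nat_lit 1) (nat_lit 270) (nat_lit 445) (nat_lit 305)) (XT.lf (nat_lit 152) (nat_lit 53833285406) (nat_lit 0) (nat_lit 380335534) (nat_lit 76) (nat_lit 380335534) (nat_lit 115) (nat_lit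 1) (nat_lit 113) (nat_lit 1) (nat_lit 114) (nat_lit 1) (nat_lit 271) (nat_lit 445) (nat_lit 304)))) (XT.nd (nat_lit 78) (nat_lit 228) (nat_lit 0) (XT.lf (nat_lit 0) (nat_lit 17543088879) (nat_lit 0) (nat_lit 18612513056) (nat_lit 152) (nat_lit 17543088879) (nat_lit 113) (nat_lit 3) (nat_lit 113) (nat_lit 1) (nat_lit 115) (nat_lit 1) (nat_lit 272) (nat_lit 445) (nat_lit 303)) (XT.nd (nat_lit 78) (nat_lit 152) (nat_lit 0) (XT.lf (nat_lit 76) (nat_lit 16931587698) (nat_lit 0) (nat_lit 17950086914) (nat_lit 76) (nat_lit 17950086914) (nat_lit 113) (nat_lit 3) (nat_lit 112) (nat_lit 1) (nat_lit 113) (nat_lit 1) (nat_lit 273) (nat_lit 445) (nat_lit 302)) (XT.lf (nat_lit 152) (nat_lit 51366089656) (nat_lit 0) (nat_lit 312902985) (nat_lit 76) (nat_lit 312902985) (nat_lit 112) (nat_lit 1) (nat_lit 110) (nat_lit 1) (nat_lit 111) (nat_lit 1) (nat_lit 274) (nat_lit 445) (nat_lit 301))))) (XT.nd (nat_lit 234)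 (nat_lit 228) (nat_lit 0) (XT.nd (nat_lit 78) (nat_lit 228) (nat_lit 0) (XT.lf (nat_lit 0) (nat_lit 16753172972) (nat_lit 0) (nat_lit 17632990890) (nat_lit 152) (nat_lit 16753172972) (nat_lit 110) (nat_lit 3) (nat_lit 110) (nat_lit 1) (nat_lit 112) (nat_lit 1) (nat_lit 275) (nat_lit 445) (nat_lit 300)) (XT.nd (nat_lit 78) (nat_lit 152) (nat_lit 0) (XT.lf (nat_lit 76) (nat_lit 16212663142) (nat_lit 0) (nat_lit 17050584968) (nat_lit 76) (nat_lit 17050584968) (nat_lit 110) (nat_lit 3) (nat_lit 109) (nat_lit 1) (nat_lit 110) (nat_lit 1) (nat_lit 276) (nat_lit 445) (nat_lit 299)) (XT.lf (nat_lit 152) (nat_lit 48999306724) (nat_lit 0) (nat_lit 257426060) (nat_lit 76) (nat_lit 257426060) (nat_lit 109) (nat_lit 1) (nat_lit 107) (nat_lit 1) (nat_lit 108) (nat_lit 1) (nat_lit 277) (nat_lit 445) (nat_lit 298)))) (XT.nd (nat_lit 78) (nat_lit 228) (nat_lit 0) (XT.lf (nat_lit 0) (nat_lit 15992810519) (nat_lit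 0) (nat_lit 16716638897) (nat_lit 152) (nat_lit 15992810519) (nat_lit 107) (nat_lit 3) (nat_lit 107) (nat_lit 1) (nat_lit 109) (nat_lit 1) (nat_lit 278) (nat_lit 445) (nat_lit 297)) (XT.nd (nat_lit 78) (nat_lit 152) (nat_lit 0) (XT.lf (nat_lit 76) (nat_lit 15512487652) (nat_lit 0) (nat_lit 16201848012) (nat_lit 76) (nat_lit 16201848012) (nat_lit 107) (nat_lit 3) (nat_lit 106) (nat_lit 1) (nat_lit 107) (nat_lit 1) (nat_lit 279) (nat_lit 445) (nat_lit 296)) (XT.lf (nat_lit 152) (nat_lit 46731181995) (nat_lit 0) (nat_lit 211785056) (nat_lit 76) (nat_lit 211785056) (nat_lit 106) (nat_lit 1) (nat_lit 104) (nat_lit 1) (nat_lit 105) (nat_lit 1) (nat_lit 280) (nat_lit 445) (nat_lit 295)))))) (XT.nd (nat_lit 468) (nat_lit 456) (nat_lit 0) (XT.nd (nat_lit 234) (nat_lit 228) (nat_lit 0) (XT.nd (nat_lit 78) (nat_lit 228) (nat_lit 0) (XT.lf (nat_lit 0) (nat_lit 15262023510) (nat_lit 0) (nat_lit 15857518908)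 (nat_lit 152) (nat_lit 15262023510) (nat_lit 104) (nat_lit 3) (nat_lit 104) (nat_lit 1) (nat_lit 106) (nat_lit 1) (nat_lit 281) (nat_lit 445) (nat_lit 294)) (XT.nd (nat_lit 78) (nat_lit 152) (nat_lit 0) (XT.lf (nat_lit 76) (nat_lit 14832913946) (nat_lit 0) (nat_lit 15400052420) (nat_lit 76) (nat_lit 15400052420) (nat_lit 104) (nat_lit 3) (nat_lit 103) (nat_lit 1) (nat_lit 104) (nat_lit 1) (nat_lit 282) (nat_lit 445) (nat_lit 293)) (XT.lf (nat_lit 152) (nat_lit 44559507734) (nat_lit 0) (nat_lit 174236090) (nat_lit 76) (nat_lit 174236090) (nat_lit 103) (nat_lit 1) (nat_lit 101) (nat_lit 1) (nat_lit 102) (nat_lit 1) (nat_lit 283) (nat_lit 445) (nat_lit 292)))) (XT.nd (nat_lit 78) (nat_lit 228) (nat_lit 0) (XT.lf (nat_lit 0) (nat_lit 14560579482) (nat_lit 0) (nat_lit 15050495019) (nat_lit 152) (nat_lit 14560579482) (nat_lit 101) (nat_lit 3) (nat_lit 101) (nat_lit 1) (nat_lit 103) (nat_lit 1) (nat_lit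 284) (nat_lit 445) (nat_lit 291)) (XT.nd (nat_lit 78) (nat_lit 152) (nat_lit 0) (XT.lf (nat_lit 76) (nat_lit 14175219740) (nat_lit 0) (nat_lit 14641805966) (nat_lit 76) (nat_lit 14641805966) (nat_lit 101) (nat_lit 3) (nat_lit 100) (nat_lit 1) (nat_lit 101) (nat_lit 1) (nat_lit 285) (nat_lit 445) (nat_lit 290)) (XT.lf (nat_lit 152) (nat_lit 42481739818) (nat_lit 0) (nat_lit 143344462) (nat_lit 76) (nat_lit 143344462) (nat_lit 100) (nat_lit 1) (nat_lit 98) (nat_lit 1) (nat_lit 99) (nat_lit 1) (nat_lit 286) (nat_lit 445) (nat_lit 289))))) (XT.nd (nat_lit 234) (nat_lit 228) (nat_lit 0) (XT.nd (nat_lit 78) (nat_lit 228) (nat_lit 0) (XT.lf (nat_lit 0) (nat_lit 13888048554) (nat_lit 0) (nat_lit 14291103280) (nat_lit 152) (nat_lit 13888048554) (nat_lit 98) (nat_lit 3) (nat_lit 98) (nat_lit 1) (nat_lit 100) (nat_lit 1) (nat_lit 287) (nat_lit 445) (nat_lit 288)) (XT.nd (nat_lit 78) (nat_lit 152) (nat_lit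 0) (XT.lf (nat_lit 76) (nat_lit 13540221435) (nat_lit 0) (nat_lit 13924083078) (nat_lit 76) (nat_lit 13924083078) (nat_lit 98) (nat_lit 3) (nat_lit 97) (nat_lit 1) (nat_lit 98) (nat_lit 1) (nat_lit 288) (nat_lit 445) (nat_lit 287)) (XT.lf (nat_lit 152) (nat_lit 40495092034) (nat_lit 0) (nat_lit 117929844) (nat_lit 76) (nat_lit 117929844) (nat_lit 97) (nat_lit 1) (nat_lit 95) (nat_lit 1) (nat_lit 96) (nat_lit 1) (nat_lit 289) (nat_lit 445) (nat_lit 286)))) (XT.nd (nat_lit 156) (nat_lit 152) (nat_lit 0) (XT.nd (nat_lit 78) (nat_lit 76) (nat_lit 0) (XT.lf (nat_lit 0) (nat_lit 13243849802) (nat_lit 0) (nat_lit 13575443922) (nat_lit 152) (nat_lit 13243849802) (nat_lit 95) (nat_lit 3) (nat_lit 95) (nat_lit 1) (nat_lit 97) (nat_lit 1) (nat_lit 290) (nat_lit 445) (nat_lit 285)) (XT.lf (nat_lit 76) (nat_lit 12928367088) (nat_lit 0) (nat_lit 13244171011) (nat_lit 76) (nat_lit 13244171011) (nat_lit 95) (nat_lit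 3) (nat_lit 94) (nat_lit 1) (nat_lit 95) (nat_lit 1) (nat_lit 291) (nat_lit 445) (nat_lit 284))) (XT.nd (nat_lit 78) (nat_lit 0) (nat_lit 0) (XT.lf (nat_lit 152) (nat_lit 38596612007) (nat_lit 0) (nat_lit 97021174) (nat_lit 76) (nat_lit 97021174) (nat_lit 94) (nat_lit 1) (nat_lit 92) (nat_lit 1) (nat_lit 93) (nat_lit 1) (nat_lit 292) (nat_lit 445) (nat_lit 283)) (XT.lf (nat_lit 0) (nat_lit 12627288851) (nat_lit 0) (nat_lit 12900092155) (nat_lit 152) (nat_lit 12627288851) (nat_lit 92) (nat_lit 3) (nat_lit 92) (nat_lit 1) (nat_lit 94) (nat_lit 1) (nat_lit 293) (nat_lit 445) (nat_lit 282))))))) (XT.nd (nat_lit 936) (nat_lit 988) (nat_lit 0) (XT.nd (nat_lit 468) (nat_lit 456) (nat_lit 0) (XT.nd (nat_lit 234) (nat_lit 228) (nat_lit 0) (XT.nd (nat_lit 78) (nat_lit 152) (nat_lit 0) (XT.lf (nat_lit 76) (nat_lit 12339812364) (nat_lit 0) (nat_lit 12599625033) (nat_lit 76) (nat_lit 12599625033) (nat_lit 92)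 (nat_lit 3) (nat_lit 91) (nat_lit 1) (nat_lit 92) (nat_lit 1) (nat_lit 294) (nat_lit 445) (nat_lit 281)) (XT.nd (nat_lit 78) (nat_lit 0) (nat_lit 0) (XT.lf (nat_lit 152) (nat_lit 36783242097) (nat_lit 0) (nat_lit 79819560) (nat_lit 76) (nat_lit 79819560) (nat_lit 91) (nat_lit 1) (nat_lit 89) (nat_lit 1) (nat_lit 90) (nat_lit 1) (nat_lit 295) (nat_lit 445) (nat_lit 280)) (XT.lf (nat_lit 0) (nat_lit 12037588306) (nat_lit 0) (nat_lit 12262024258) (nat_lit 152) (nat_lit 12037588306) (nat_lit 89) (nat_lit 3) (nat_lit 89) (nat_lit 1) (nat_lit 91) (nat_lit 1) (nat_lit 296) (nat_lit 445) (nat_lit 279)))) (XT.nd (nat_lit 78) (nat_lit 152) (nat_lit 0) (XT.lf (nat_lit 76) (nat_lit 11774482518) (nat_lit 0) (nat_lit 11988231045) (nat_lit 76) (nat_lit 11988231045) (nat_lit 89) (nat_lit 3) (nat_lit 88) (nat_lit 1) (nat_lit 89) (nat_lit 1) (nat_lit 297) (nat_lit 445) (nat_lit 278)) (XT.nd (nat_lit 78) (nat_lit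 0) (nat_lit 0) (XT.lf (nat_lit 152) (nat_lit 35051867999) (nat_lit 0) (nat_lit 65667750) (nat_lit 76) (nat_lit 65667750) (nat_lit 88) (nat_lit 1) (nat_lit 86) (nat_lit 1) (nat_lit 87) (nat_lit 1) (nat_lit 298) (nat_lit 445) (nat_lit 277)) (XT.lf (nat_lit 0) (nat_lit 11473912278) (nat_lit 0) (nat_lit 11658556292) (nat_lit 152) (nat_lit 11473912278) (nat_lit 86) (nat_lit 3) (nat_lit 86) (nat_lit 1) (nat_lit 88) (nat_lit 1) (nat_lit 299) (nat_lit 445) (nat_lit 276))))) (XT.nd (nat_lit 234) (nat_lit 228) (nat_lit 0) (XT.nd (nat_lit 78) (nat_lit 152) (nat_lit 0) (XT.lf (nat_lit 76) (nat_lit 11232122906) (nat_lit 0) (nat_lit 11407974347) (nat_lit 76) (nat_lit 11407974347) (nat_lit 86) (nat_lit 3) (nat_lit 85) (nat_lit 1) (nat_lit 86) (nat_lit 1) (nat_lit 300) (nat_lit 445) (nat_lit 275)) (XT.nd (nat_lit 78) (nat_lit 0) (nat_lit 0) (XT.lf (nat_lit 152) (nat_lit 33399357306) (nat_lit 0) (nat_lit 54025020)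 (nat_lit 76) (nat_lit 54025020) (nat_lit 85) (nat_lit 1) (nat_lit 83) (nat_lit 1) (nat_lit 84) (nat_lit 1) (nat_lit 301) (nat_lit 445) (nat_lit 274)) (XT.lf (nat_lit 0) (nat_lit 10935386111) (nat_lit 0) (nat_lit 11087293198) (nat_lit 152) (nat_lit 10935386111) (nat_lit 83) (nat_lit 3) (nat_lit 83) (nat_lit 1) (nat_lit 85) (nat_lit 1) (nat_lit 302) (nat_lit 445) (nat_lit 273)))) (XT.nd (nat_lit 78) (nat_lit 152) (nat_lit 0) (XT.lf (nat_lit 76) (nat_lit 10712340072) (nat_lit 0) (nat_lit 10857013488) (nat_lit 76) (nat_lit 10857013488) (nat_lit 83) (nat_lit 3) (nat_lit 82) (nat_lit 1) (nat_lit 83) (nat_lit 1) (nat_lit 303) (nat_lit 445) (nat_lit 272)) (XT.nd (nat_lit 78) (nat_lit 0) (nat_lit 0) (XT.lf (nat_lit 152) (nat_lit 31822589871) (nat_lit 0) (nat_lit 44446518) (nat_lit 76) (nat_lit 44446518) (nat_lit 82) (nat_lit 1) (nat_lit 80) (nat_lit 1) (nat_lit 81) (nat_lit 1) (nat_lit 304) (nat_lit 445)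 (nat_lit 271)) (XT.lf (nat_lit 0) (nat_lit 10421112154) (nat_lit 0) (nat_lit 10546086490) (nat_lit 152) (nat_lit 10421112154) (nat_lit 80) (nat_lit 3) (nat_lit 80) (nat_lit 1) (nat_lit 82) (nat_lit 1) (nat_lit 305) (nat_lit 445) (nat_lit 270)))))) (XT.nd (nat_lit 468) (nat_lit 532) (nat_lit 0) (XT.nd (nat_lit 234) (nat_lit 228) (nat_lit 0) (XT.nd (nat_lit 78) (nat_lit 152) (nat_lit 0) (XT.lf (nat_lit 76) (nat_lit 10214635126) (nat_lit 0) (nat_lit 10333658304) (nat_lit 76) (nat_lit 10333658304) (nat_lit 80) (nat_lit 3) (nat_lit 79) (nat_lit 1) (nat_lit 80) (nat_lit 1) (nat_lit 306) (nat_lit 445) (nat_lit 269)) (XT.nd (nat_lit 78) (nat_lit 0) (nat_lit 0) (XT.lf (nat_lit 152) (nat_lit 30318481498) (nat_lit 0) (nat_lit 36566260) (nat_lit 76) (nat_lit 36566260) (nat_lit 79) (nat_lit 1) (nat_lit 77) (nat_lit 1) (nat_lit 78) (nat_lit 1) (nat_lit 307) (nat_lit 445) (nat_lit 268)) (XT.lf (nat_lit 0) (nat_lit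 9930182318) (nat_lit 0) (nat_lit 10032999014) (nat_lit 152) (nat_lit 9930182318) (nat_lit 77) (nat_lit 3) (nat_lit 77) (nat_lit 1) (nat_lit 79) (nat_lit 1) (nat_lit 308) (nat_lit 445) (nat_lit 267)))) (XT.nd (nat_lit 78) (nat_lit 152) (nat_lit 0) (XT.lf (nat_lit 76) (nat_lit 9738430777) (nat_lit 0) (nat_lit 9836351440) (nat_lit 76) (nat_lit 9836351440) (nat_lit 77) (nat_lit 3) (nat_lit 76) (nat_lit 1) (nat_lit 77) (nat_lit 1) (nat_lit 309) (nat_lit 445) (nat_lit 266)) (XT.nd (nat_lit 78) (nat_lit 0) (nat_lit 0) (XT.lf (nat_lit 152) (nat_lit 28884002195) (nat_lit 0) (nat_lit 30083152) (nat_lit 76) (nat_lit 30083152) (nat_lit 76) (nat_lit 1) (nat_lit 74) (nat_lit 1) (nat_lit 75) (nat_lit 1) (nat_lit 310) (nat_lit 445) (nat_lit 265)) (XT.lf (nat_lit 0) (nat_lit 9461688006) (nat_lit 0) (nat_lit 9546275556) (nat_lit 152) (nat_lit 9461688006) (nat_lit 74) (nat_lit 3) (nat_lit 74) (nat_lit 1) (nat_lit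 76) (nat_lit 1) (nat_lit 311) (nat_lit 445) (nat_lit 264))))) (XT.nd (nat_lit 234) (nat_lit 304) (nat_lit 0) (XT.nd (nat_lit 78) (nat_lit 152) (nat_lit 0) (XT.lf (nat_lit 76) (nat_lit 9283093176) (nat_lit 0) (nat_lit 9363652748) (nat_lit 76) (nat_lit 9363652748) (nat_lit 74) (nat_lit 3) (nat_lit 73) (nat_lit 1) (nat_lit 74) (nat_lit 1) (nat_lit 312) (nat_lit 445) (nat_lit 263)) (XT.nd (nat_lit 78) (nat_lit 0) (nat_lit 0) (XT.lf (nat_lit 152) (nat_lit 27516190026) (nat_lit 0) (nat_lit 24749484) (nat_lit 76) (nat_lit 24749484) (nat_lit 73) (nat_lit 1) (nat_lit 71) (nat_lit 1) (nat_lit 72) (nat_lit 1) (nat_lit 313) (nat_lit 445) (nat_lit 262)) (XT.lf (nat_lit 0) (nat_lit 9014727888) (nat_lit 0) (nat_lit 9084318275) (nat_lit 152) (nat_lit 9014727888) (nat_lit 71) (nat_lit 3) (nat_lit 71) (nat_lit 1) (nat_lit 73) (nat_lit 1) (nat_lit 314) (nat_lit 445) (nat_lit 261)))) (XT.nd (nat_lit 156) (nat_lit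 76) (nat_lit 0) (XT.nd (nat_lit 78) (nat_lit 152) (nat_lit 0) (XT.lf (nat_lit 76) (nat_lit 8847949516) (nat_lit 0) (nat_lit 8914226075) (nat_lit 76) (nat_lit 8914226075) (nat_lit 71) (nat_lit 3) (nat_lit 70) (nat_lit 1) (nat_lit 71) (nat_lit 1) (nat_lit 315) (nat_lit 445) (nat_lit 260)) (XT.lf (nat_lit 152) (nat_lit 26212161381) (nat_lit 0) (nat_lit 20361462) (nat_lit 76) (nat_lit 20361462) (nat_lit 70) (nat_lit 1) (nat_lit 68) (nat_lit 1) (nat_lit 69) (nat_lit 1) (nat_lit 316) (nat_lit 445) (nat_lit 259))) (XT.nd (nat_lit 78) (nat_lit 76) (nat_lit 0) (XT.lf (nat_lit 0) (nat_lit 8588413943) (nat_lit 0) (nat_lit 8645666127) (nat_lit 152) (nat_lit 8588413943) (nat_lit 68) (nat_lit 3) (nat_lit 68) (nat_lit 1) (nat_lit 70) (nat_lit 1) (nat_lit 317) (nat_lit 445) (nat_lit 258)) (XT.lf (nat_lit 76) (nat_lit 8432302141) (nat_lit 0) (nat_lit 8486828030) (nat_lit 76) (nat_lit 8486828030) (nat_lit 68) (nat_lit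 3) (nat_lit 67) (nat_lit 1) (nat_lit 68) (nat_lit 1) (nat_lit 318) (nat_lit 445) (nat_lit 257))))))))
noncomputable def ec489 : XT := (XT.nd (nat_lit 1950) (nat_lit 1900) (nat_lit 0) (XT.nd (nat_lit 936) (nat_lit 1064) (nat_lit 0) (XT.nd (nat_lit 468) (nat_lit 456) (nat_lit 0) (XT.nd (nat_lit 234) (nat_lit 228) (nat_lit 0) (XT.nd (nat_lit 78) (nat_lit 76) (nat_lit 0) (XT.lf (nat_lit 152) (nat_lit 24969118371) (nat_lit 0) (nat_lit 16751425) (nat_lit 76) (nat_lit 16751425) (nat_lit 67) (nat_lit 1) (nat_lit 65) (nat_lit 1) (nat_lit 66) (nat_lit 1) (nat_lit 319) (nat_lit 445) (nat_lit 256)) (XT.nd (nat_lit 78) (nat_lit 76) (nat_lit 0) (XT.lf (nat_lit 0) (nat_lit 8181876072) (nat_lit 0) (nat_lit 8228977585) (nat_lit 152) (nat_lit 8181876072) (nat_lit 65) (nat_lit 3) (nat_lit 65) (nat_lit 1) (nat_lit 67) (nat_lit 1) (nat_lit 320) (nat_lit 445) (nat_lit 255)) (XT.lf (nat_lit 76) (nat_lit 8035439818) (nat_lit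 0) (nat_lit 8080298402) (nat_lit 76) (nat_lit 8080298402) (nat_lit 65) (nat_lit 3) (nat_lit 64) (nat_lit 1) (nat_lit 65) (nat_lit 1) (nat_lit 321) (nat_lit 445) (nat_lit 254)))) (XT.nd (nat_lit 78) (nat_lit 76) (nat_lit 0) (XT.lf (nat_lit 152) (nat_lit 23784353891) (nat_lit 0) (nat_lit 13781438) (nat_lit 76) (nat_lit 13781438) (nat_lit 64) (nat_lit 1) (nat_lit 62) (nat_lit 1) (nat_lit 63) (nat_lit 1) (nat_lit 322) (nat_lit 445) (nat_lit 253)) (XT.nd (nat_lit 78) (nat_lit 76) (nat_lit 0) (XT.lf (nat_lit 0) (nat_lit 7794265566) (nat_lit 0) (nat_lit 7833016098) (nat_lit 152) (nat_lit 7794265566) (nat_lit 62) (nat_lit 3) (nat_lit 62) (nat_lit 1) (nat_lit 64) (nat_lit 1) (nat_lit 323) (nat_lit 445) (nat_lit 252)) (XT.lf (nat_lit 76) (nat_lit 7656646680) (nat_lit 0) (nat_lit 7693551948) (nat_lit 76) (nat_lit 7693551948) (nat_lit 62) (nat_lit 3) (nat_lit 61) (nat_lit 1) (nat_lit 62) (nat_lit 1) (nat_lit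 324) (nat_lit 445) (nat_lit 251))))) (XT.nd (nat_lit 234) (nat_lit 228) (nat_lit 0) (XT.nd (nat_lit 78) (nat_lit 76) (nat_lit 0) (XT.lf (nat_lit 152) (nat_lit 22655254819) (nat_lit 0) (nat_lit 11338023) (nat_lit 76) (nat_lit 11338023) (nat_lit 61) (nat_lit 1) (nat_lit 59) (nat_lit 1) (nat_lit 60) (nat_lit 1) (nat_lit 325) (nat_lit 445) (nat_lit 250)) (XT.nd (nat_lit 78) (nat_lit 76) (nat_lit 0) (XT.lf (nat_lit 0) (nat_lit 7424757640) (nat_lit 0) (nat_lit 7456637798) (nat_lit 152) (nat_lit 7424757640) (nat_lit 59) (nat_lit 3) (nat_lit 59) (nat_lit 1) (nat_lit 61) (nat_lit 1) (nat_lit 326) (nat_lit 445) (nat_lit 249)) (XT.lf (nat_lit 76) (nat_lit 7295209273) (nat_lit 0) (nat_lit 7325571328) (nat_lit 76) (nat_lit 7325571328) (nat_lit 59) (nat_lit 3) (nat_lit 58) (nat_lit 1) (nat_lit 59) (nat_lit 1) (nat_lit 327) (nat_lit 445) (nat_lit 248)))) (XT.nd (nat_lit 78) (nat_lit 76) (nat_lit 0) (XT.lf (nat_lit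 152) (nat_lit 21579303742) (nat_lit 0) (nat_lit 9327820) (nat_lit 76) (nat_lit 9327820) (nat_lit 58) (nat_lit 1) (nat_lit 56) (nat_lit 1) (nat_lit 57) (nat_lit 1) (nat_lit 328) (nat_lit 445) (nat_lit 247)) (XT.nd (nat_lit 78) (nat_lit 76) (nat_lit 0) (XT.lf (nat_lit 0) (nat_lit 7072553218) (nat_lit 0) (nat_lit 7098781103) (nat_lit 152) (nat_lit 7072553218) (nat_lit 56) (nat_lit 3) (nat_lit 56) (nat_lit 1) (nat_lit 58) (nat_lit 1) (nat_lit 329) (nat_lit 445) (nat_lit 246)) (XT.lf (nat_lit 76) (nat_lit 6950422057) (nat_lit 0) (nat_lit 6975400995) (nat_lit 76) (nat_lit 6975400995) (nat_lit 56) (nat_lit 3) (nat_lit 55) (nat_lit 1) (nat_lit 56) (nat_lit 1) (nat_lit 330) (nat_lit 445) (nat_lit 245)))))) (XT.nd (nat_lit 468) (nat_lit 608) (nat_lit 0) (XT.nd (nat_lit 234) (nat_lit 228) (nat_lit 0) (XT.nd (nat_lit 78) (nat_lit 76) (nat_lit 0) (XT.lf (nat_lit 152) (nat_lit 20554079484) (nat_lit 0) (nat_lit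 7674020) (nat_lit 76) (nat_lit 7674020) (nat_lit 55) (nat_lit 1) (nat_lit 53) (nat_lit 1) (nat_lit 54) (nat_lit 1) (nat_lit 331) (nat_lit 445) (nat_lit 244)) (XT.nd (nat_lit 78) (nat_lit 76) (nat_lit 0) (XT.lf (nat_lit 0) (nat_lit 6736880115) (nat_lit 0) (nat_lit 6758457860) (nat_lit 152) (nat_lit 6736880115) (nat_lit 53) (nat_lit 3) (nat_lit 53) (nat_lit 1) (nat_lit 55) (nat_lit 1) (nat_lit 332) (nat_lit 445) (nat_lit 243)) (XT.lf (nat_lit 76) (nat_lit 6621591650) (nat_lit 0) (nat_lit 6642141884) (nat_lit 76) (nat_lit 6642141884) (nat_lit 53) (nat_lit 3) (nat_lit 52) (nat_lit 1) (nat_lit 53) (nat_lit 1) (nat_lit 333) (nat_lit 445) (nat_lit 242)))) (XT.nd (nat_lit 78) (nat_lit 76) (nat_lit 0) (XT.lf (nat_lit 152) (nat_lit 19577256717) (nat_lit 0) (nat_lit 6313435) (nat_lit 76) (nat_lit 6313435) (nat_lit 52) (nat_lit 1) (nat_lit 50) (nat_lit 1) (nat_lit 51) (nat_lit 1) (nat_lit 334) (nat_lit 445)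 (nat_lit 241)) (XT.nd (nat_lit 78) (nat_lit 76) (nat_lit 0) (XT.lf (nat_lit 0) (nat_lit 6416993732) (nat_lit 0) (nat_lit 6434745797) (nat_lit 152) (nat_lit 6416993732) (nat_lit 50) (nat_lit 3) (nat_lit 50) (nat_lit 1) (nat_lit 52) (nat_lit 1) (nat_lit 335) (nat_lit 445) (nat_lit 240)) (XT.lf (nat_lit 76) (nat_lit 6308040050) (nat_lit 0) (nat_lit 6324946778) (nat_lit 76) (nat_lit 6324946778) (nat_lit 50) (nat_lit 3) (nat_lit 49) (nat_lit 1) (nat_lit 50) (nat_lit 1) (nat_lit 336) (nat_lit 445) (nat_lit 239))))) (XT.nd (nat_lit 234) (nat_lit 380) (nat_lit 0) (XT.nd (nat_lit 78) (nat_lit 76) (nat_lit 0) (XT.lf (nat_lit 152) (nat_lit 18646604844) (nat_lit 0) (nat_lit 5194079) (nat_lit 76) (nat_lit 5194079) (nat_lit 49) (nat_lit 1) (nat_lit 47) (nat_lit 1) (nat_lit 48) (nat_lit 1) (nat_lit 337) (nat_lit 445) (nat_lit 238)) (XT.nd (nat_lit 78) (nat_lit 76) (nat_lit 0) (XT.lf (nat_lit 0) (nat_lit 6112177376)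 (nat_lit 0) (nat_lit 6126782044) (nat_lit 152) (nat_lit 6112177376) (nat_lit 47) (nat_lit 3) (nat_lit 47) (nat_lit 1) (nat_lit 49) (nat_lit 1) (nat_lit 338) (nat_lit 445) (nat_lit 237)) (XT.lf (nat_lit 76) (nat_lit 6009107029) (nat_lit 0) (nat_lit 6023016236) (nat_lit 76) (nat_lit 6023016236) (nat_lit 47) (nat_lit 3) (nat_lit 46) (nat_lit 1) (nat_lit 47) (nat_lit 1) (nat_lit 339) (nat_lit 445) (nat_lit 236)))) (XT.nd (nat_lit 156) (nat_lit 228) (nat_lit 0) (XT.nd (nat_lit 78) (nat_lit 0) (nat_lit 0) (XT.lf (nat_lit 152) (nat_lit 17759986326) (nat_lit 0) (nat_lit 4273181) (nat_lit 76) (nat_lit 4273181) (nat_lit 46) (nat_lit 1) (nat_lit 44) (nat_lit 1) (nat_lit 45) (nat_lit 1) (nat_lit 340) (nat_lit 445) (nat_lit 235)) (XT.lf (nat_lit 0) (nat_lit 5821742265) (nat_lit 0) (nat_lit 5833757561) (nat_lit 152) (nat_lit 5821742265) (nat_lit 44) (nat_lit 3) (nat_lit 44) (nat_lit 1) (nat_lit 46) (nat_lit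 1) (nat_lit 341) (nat_lit 445) (nat_lit 234))) (XT.nd (nat_lit 78) (nat_lit 152) (nat_lit 0) (XT.lf (nat_lit 76) (nat_lit 5724151861) (nat_lit 0) (nat_lit 5735595000) (nat_lit 76) (nat_lit 5735595000) (nat_lit 44) (nat_lit 3) (nat_lit 43) (nat_lit 1) (nat_lit 44) (nat_lit 1) (nat_lit 342) (nat_lit 445) (nat_lit 233)) (XT.lf (nat_lit 152) (nat_lit 16915354584) (nat_lit 0) (nat_lit 3515557) (nat_lit 76) (nat_lit 3515557) (nat_lit 43) (nat_lit 1) (nat_lit 41) (nat_lit 1) (nat_lit 42) (nat_lit 1) (nat_lit 343) (nat_lit 445) (nat_lit 232))))))) (XT.nd (nat_lit 1014) (nat_lit 988) (nat_lit 0) (XT.nd (nat_lit 468) (nat_lit 456) (nat_lit 0) (XT.nd (nat_lit 234) (nat_lit 228) (nat_lit 0) (XT.nd (nat_lit 78) (nat_lit 228) (nat_lit 0) (XT.lf (nat_lit 0) (nat_lit 5545027304) (nat_lit 0) (nat_lit 5554912318) (nat_lit 152) (nat_lit 5545027304) (nat_lit 41) (nat_lit 3) (nat_lit 41) (nat_lit 1) (nat_lit 43) (nat_lit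 1) (nat_lit 344) (nat_lit 445) (nat_lit 231)) (XT.nd (nat_lit 78) (nat_lit 152) (nat_lit 0) (XT.lf (nat_lit 76) (nat_lit 5452554509) (nat_lit 0) (nat_lit 5461968808) (nat_lit 76) (nat_lit 5461968808) (nat_lit 41) (nat_lit 3) (nat_lit 40) (nat_lit 1) (nat_lit 41) (nat_lit 1) (nat_lit 345) (nat_lit 445) (nat_lit 230)) (XT.lf (nat_lit 152) (nat_lit 16110751583) (nat_lit 0) (nat_lit 2892257) (nat_lit 76) (nat_lit 2892257) (nat_lit 40) (nat_lit 1) (nat_lit 38) (nat_lit 1) (nat_lit 39) (nat_lit 1) (nat_lit 346) (nat_lit 445) (nat_lit 229)))) (XT.nd (nat_lit 78) (nat_lit 228) (nat_lit 0) (XT.lf (nat_lit 0) (nat_lit 5281398671) (nat_lit 0) (nat_lit 5289531096) (nat_lit 152) (nat_lit 5281398671) (nat_lit 38) (nat_lit 3) (nat_lit 38) (nat_lit 1) (nat_lit 40) (nat_lit 1) (nat_lit 347) (nat_lit 445) (nat_lit 228)) (XT.nd (nat_lit 78) (nat_lit 152) (nat_lit 0) (XT.lf (nat_lit 76) (nat_lit 5193716380) (nat_lit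 0) (nat_lit 5201461547) (nat_lit 76) (nat_lit 5201461547) (nat_lit 38) (nat_lit 3) (nat_lit 37) (nat_lit 1) (nat_lit 38) (nat_lit 1) (nat_lit 348) (nat_lit 445) (nat_lit 227)) (XT.lf (nat_lit 152) (nat_lit 15344305203) (nat_lit 0) (nat_lit 2379467) (nat_lit 76) (nat_lit 2379467) (nat_lit 37) (nat_lit 1) (nat_lit 35) (nat_lit 1) (nat_lit 36) (nat_lit 1) (nat_lit 349) (nat_lit 445) (nat_lit 226))))) (XT.nd (nat_lit 234) (nat_lit 228) (nat_lit 0) (XT.nd (nat_lit 78) (nat_lit 228) (nat_lit 0) (XT.lf (nat_lit 0) (nat_lit 5030249267) (nat_lit 0) (nat_lit 5036939833) (nat_lit 152) (nat_lit 5030249267) (nat_lit 35) (nat_lit 3) (nat_lit 35) (nat_lit 1) (nat_lit 37) (nat_lit 1) (nat_lit 350) (nat_lit 445) (nat_lit 225)) (XT.nd (nat_lit 78) (nat_lit 152) (nat_lit 0) (XT.lf (nat_lit 76) (nat_lit 4947060740) (nat_lit 0) (nat_lit 4953432708) (nat_lit 76) (nat_lit 4953432708) (nat_lit 35) (nat_lit 3) (nat_lit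 34) (nat_lit 1) (nat_lit 35) (nat_lit 1) (nat_lit 351) (nat_lit 445) (nat_lit 224)) (XT.lf (nat_lit 152) (nat_lit 14614226441) (nat_lit 0) (nat_lit 1957593) (nat_lit 76) (nat_lit 1957593) (nat_lit 34) (nat_lit 1) (nat_lit 32) (nat_lit 1) (nat_lit 33) (nat_lit 1) (nat_lit 352) (nat_lit 445) (nat_lit 223)))) (XT.nd (nat_lit 156) (nat_lit 152) (nat_lit 0) (XT.nd (nat_lit 78) (nat_lit 76) (nat_lit 0) (XT.lf (nat_lit 0) (nat_lit 4790998054) (nat_lit 0) (nat_lit 4796502399) (nat_lit 152) (nat_lit 4790998054) (nat_lit 32) (nat_lit 3) (nat_lit 32) (nat_lit 1) (nat_lit 34) (nat_lit 1) (nat_lit 353) (nat_lit 445) (nat_lit 222)) (XT.lf (nat_lit 76) (nat_lit 4712032848) (nat_lit 0) (nat_lit 4717275082) (nat_lit 76) (nat_lit 4717275082) (nat_lit 32) (nat_lit 3) (nat_lit 31) (nat_lit 1) (nat_lit 32) (nat_lit 1) (nat_lit 354) (nat_lit 445) (nat_lit 221))) (XT.nd (nat_lit 78) (nat_lit 0) (nat_lit 0) (XT.lf (nat_lit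 152) (nat_lit 13918806523) (nat_lit 0) (nat_lit 1610517) (nat_lit 76) (nat_lit 1610517) (nat_lit 31) (nat_lit 1) (nat_lit 29) (nat_lit 1) (nat_lit 30) (nat_lit 1) (nat_lit 355) (nat_lit 445) (nat_lit 220)) (XT.lf (nat_lit 0) (nat_lit 4563089320) (nat_lit 0) (nat_lit 4567617759) (nat_lit 152) (nat_lit 4563089320) (nat_lit 29) (nat_lit 3) (nat_lit 29) (nat_lit 1) (nat_lit 31) (nat_lit 1) (nat_lit 356) (nat_lit 445) (nat_lit 219)))))) (XT.nd (nat_lit 468) (nat_lit 532) (nat_lit 0) (XT.nd (nat_lit 234) (nat_lit 228) (nat_lit 0) (XT.nd (nat_lit 78) (nat_lit 152) (nat_lit 0) (XT.lf (nat_lit 76) (nat_lit 4488099880) (nat_lit 0) (nat_lit 4492412679) (nat_lit 76) (nat_lit 4492412679) (nat_lit 29) (nat_lit 3) (nat_lit 28) (nat_lit 1) (nat_lit 29) (nat_lit 1) (nat_lit 357) (nat_lit 445) (nat_lit 218)) (XT.nd (nat_lit 78) (nat_lit 0) (nat_lit 0) (XT.lf (nat_lit 152) (nat_lit 13256413966) (nat_lit 0) (nat_lit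 1324976) (nat_lit 76) (nat_lit 1324976) (nat_lit 28) (nat_lit 1) (nat_lit 26) (nat_lit 1) (nat_lit 27) (nat_lit 1) (nat_lit 358) (nat_lit 445) (nat_lit 217)) (XT.lf (nat_lit 0) (nat_lit 4345991891) (nat_lit 0) (nat_lit 4349717448) (nat_lit 152) (nat_lit 4345991891) (nat_lit 26) (nat_lit 3) (nat_lit 26) (nat_lit 1) (nat_lit 28) (nat_lit 1) (nat_lit 359) (nat_lit 445) (nat_lit 216)))) (XT.nd (nat_lit 78) (nat_lit 152) (nat_lit 0) (XT.lf (nat_lit 76) (nat_lit 4274750683) (nat_lit 0) (nat_lit 4278298833) (nat_lit 76) (nat_lit 4278298833) (nat_lit 26) (nat_lit 3) (nat_lit 25) (nat_lit 1) (nat_lit 26) (nat_lit 1) (nat_lit 360) (nat_lit 445) (nat_lit 215)) (XT.nd (nat_lit 78) (nat_lit 0) (nat_lit 0) (XT.lf (nat_lit 152) (nat_lit 12625491618) (nat_lit 0) (nat_lit 1090061) (nat_lit 76) (nat_lit 1090061) (nat_lit 25) (nat_lit 1) (nat_lit 23) (nat_lit 1) (nat_lit 24) (nat_lit 1) (nat_lit 361) (nat_lit 445)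 (nat_lit 214)) (XT.lf (nat_lit 0) (nat_lit 4139198297) (nat_lit 0) (nat_lit 4142263323) (nat_lit 152) (nat_lit 4139198297) (nat_lit 23) (nat_lit 3) (nat_lit 23) (nat_lit 1) (nat_lit 25) (nat_lit 1) (nat_lit 362) (nat_lit 445) (nat_lit 213))))) (XT.nd (nat_lit 234) (nat_lit 304) (nat_lit 0) (XT.nd (nat_lit 78) (nat_lit 152) (nat_lit 0) (XT.lf (nat_lit 76) (nat_lit 4071495398) (nat_lit 0) (nat_lit 4074414470) (nat_lit 76) (nat_lit 4074414470) (nat_lit 23) (nat_lit 3) (nat_lit 22) (nat_lit 1) (nat_lit 23) (nat_lit 1) (nat_lit 363) (nat_lit 445) (nat_lit 212)) (XT.nd (nat_lit 78) (nat_lit 0) (nat_lit 0) (XT.lf (nat_lit 152) (nat_lit 12024553715) (nat_lit 0) (nat_lit 896796) (nat_lit 76) (nat_lit 896796) (nat_lit 22) (nat_lit 1) (nat_lit 20) (nat_lit 1) (nat_lit 21) (nat_lit 1) (nat_lit 364) (nat_lit 445) (nat_lit 211)) (XT.lf (nat_lit 0) (nat_lit 3942223934) (nat_lit 0) (nat_lit 3944745538) (nat_lit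 152) (nat_lit 3942223934) (nat_lit 20) (nat_lit 3) (nat_lit 20) (nat_lit 1) (nat_lit 22) (nat_lit 1) (nat_lit 365) (nat_lit 445) (nat_lit 210)))) (XT.nd (nat_lit 156) (nat_lit 76) (nat_lit 0) (XT.nd (nat_lit 78) (nat_lit 152) (nat_lit 0) (XT.lf (nat_lit 76) (nat_lit 3877864990) (nat_lit 0) (nat_lit 3880266518) (nat_lit 76) (nat_lit 3880266518) (nat_lit 20) (nat_lit 3) (nat_lit 19) (nat_lit 1) (nat_lit 20) (nat_lit 1) (nat_lit 366) (nat_lit 445) (nat_lit 209)) (XT.lf (nat_lit 152) (nat_lit 11452182972) (nat_lit 0) (nat_lit 737796) (nat_lit 76) (nat_lit 737796) (nat_lit 19) (nat_lit 1) (nat_lit 17) (nat_lit 1) (nat_lit 18) (nat_lit 1) (nat_lit 367) (nat_lit 445) (nat_lit 208))) (XT.nd (nat_lit 78) (nat_lit 76) (nat_lit 0) (XT.lf (nat_lit 0) (nat_lit 3754606197) (nat_lit 0) (nat_lit 3756680727) (nat_lit 152) (nat_lit 3754606197) (nat_lit 17) (nat_lit 3) (nat_lit 17) (nat_lit 1) (nat_lit 19) (nat_lit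 1) (nat_lit 368) (nat_lit 445) (nat_lit 207)) (XT.lf (nat_lit 76) (nat_lit 3693410696) (nat_lit 0) (nat_lit 3695386439) (nat_lit 76) (nat_lit 3695386439) (nat_lit 17) (nat_lit 3) (nat_lit 16) (nat_lit 1) (nat_lit 17) (nat_lit 1) (nat_lit 369) (nat_lit 445) (nat_lit 206))))))))
noncomputable def ec490 : XT := (XT.nd (nat_lit 1950) (nat_lit 0) (nat_lit 0) (XT.nd (nat_lit 936) (nat_lit 304) (nat_lit 0) (XT.nd (nat_lit 468) (nat_lit 456) (nat_lit 0) (XT.nd (nat_lit 234) (nat_lit 228) (nat_lit 0) (XT.nd (nat_lit 78) (nat_lit 76) (nat_lit 0) (XT.lf (nat_lit 152) (nat_lit 10907027722) (nat_lit 0) (nat_lit 606987) (nat_lit 76) (nat_lit 606987) (nat_lit 16) (nat_lit 1) (nat_lit 14) (nat_lit 1) (nat_lit 15) (nat_lit 1) (nat_lit 370) (nat_lit 445) (nat_lit 205)) (XT.nd (nat_lit 78) (nat_lit 76) (nat_lit 0) (XT.lf (nat_lit 0) (nat_lit 3575903630) (nat_lit 0) (nat_lit 3577610351) (nat_lit 152) (nat_lit 3575903630)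 (nat_lit 14) (nat_lit 3) (nat_lit 14) (nat_lit 1) (nat_lit 16) (nat_lit 1) (nat_lit 371) (nat_lit 445) (nat_lit 204)) (XT.lf (nat_lit 76) (nat_lit 3517703426) (nat_lit 0) (nat_lit 3519328875) (nat_lit 76) (nat_lit 3519328875) (nat_lit 14) (nat_lit 3) (nat_lit 13) (nat_lit 1) (nat_lit 14) (nat_lit 1) (nat_lit 372) (nat_lit 445) (nat_lit 203)))) (XT.nd (nat_lit 78) (nat_lit 76) (nat_lit 0) (XT.lf (nat_lit 152) (nat_lit 10387799128) (nat_lit 0) (nat_lit 499369) (nat_lit 76) (nat_lit 499369) (nat_lit 13) (nat_lit 1) (nat_lit 11) (nat_lit 1) (nat_lit 12) (nat_lit 1) (nat_lit 373) (nat_lit 445) (nat_lit 202)) (XT.nd (nat_lit 78) (nat_lit 76) (nat_lit 0) (XT.lf (nat_lit 0) (nat_lit 3405695070) (nat_lit 0) (nat_lit 3407099193) (nat_lit 152) (nat_lit 3405695070) (nat_lit 11) (nat_lit 3) (nat_lit 11) (nat_lit 1) (nat_lit 13) (nat_lit 1) (nat_lit 374) (nat_lit 445) (nat_lit 201)) (XT.lf (nat_lit 76) (nat_lit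 3350333130) (nat_lit 0) (nat_lit 3351670390) (nat_lit 76) (nat_lit 3351670390) (nat_lit 11) (nat_lit 3) (nat_lit 10) (nat_lit 1) (nat_lit 11) (nat_lit 1) (nat_lit 375) (nat_lit 445) (nat_lit 200))))) (XT.nd (nat_lit 234) (nat_lit 228) (nat_lit 0) (XT.nd (nat_lit 78) (nat_lit 76) (nat_lit 0) (XT.lf (nat_lit 152) (nat_lit 9893268458) (nat_lit 0) (nat_lit 410832) (nat_lit 76) (nat_lit 410832) (nat_lit 10) (nat_lit 1) (nat_lit 8) (nat_lit 1) (nat_lit 9) (nat_lit 1) (nat_lit 376) (nat_lit 445) (nat_lit 199)) (XT.nd (nat_lit 78) (nat_lit 76) (nat_lit 0) (XT.lf (nat_lit 0) (nat_lit 3243578814) (nat_lit 0) (nat_lit 3244733990) (nat_lit 152) (nat_lit 3243578814) (nat_lit 8) (nat_lit 3) (nat_lit 8) (nat_lit 1) (nat_lit 10) (nat_lit 1) (nat_lit 377) (nat_lit 445) (nat_lit 198)) (XT.lf (nat_lit 76) (nat_lit 3190908134) (nat_lit 0) (nat_lit 3192008302) (nat_lit 76) (nat_lit 3192008302) (nat_lit 8) (nat_lit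 3) (nat_lit 7) (nat_lit 1) (nat_lit 8) (nat_lit 1) (nat_lit 378) (nat_lit 445) (nat_lit 197)))) (XT.nd (nat_lit 78) (nat_lit 76) (nat_lit 0) (XT.lf (nat_lit 152) (nat_lit 9422264451) (nat_lit 0) (nat_lit 337993) (nat_lit 76) (nat_lit 337993) (nat_lit 7) (nat_lit 1) (nat_lit 5) (nat_lit 1) (nat_lit 6) (nat_lit 1) (nat_lit 379) (nat_lit 445) (nat_lit 196)) (XT.nd (nat_lit 78) (nat_lit 76) (nat_lit 0) (XT.lf (nat_lit 0) (nat_lit 3089171795) (nat_lit 0) (nat_lit 3090122161) (nat_lit 152) (nat_lit 3089171795) (nat_lit 5) (nat_lit 3) (nat_lit 5) (nat_lit 1) (nat_lit 7) (nat_lit 1) (nat_lit 380) (nat_lit 445) (nat_lit 195)) (XT.lf (nat_lit 76) (nat_lit 3039054473) (nat_lit 0) (nat_lit 3039959583) (nat_lit 76) (nat_lit 3039959583) (nat_lit 5) (nat_lit 3) (nat_lit 4) (nat_lit 1) (nat_lit 5) (nat_lit 1) (nat_lit 381) (nat_lit 445) (nat_lit 194)))))) (XT.nd (nat_lit 468) (nat_lit 0) (nat_lit 0) (XT.nd (nat_lit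 234) (nat_lit 76) (nat_lit 0) (XT.nd (nat_lit 78) (nat_lit 76) (nat_lit 0) (XT.lf (nat_lit 152) (nat_lit 8973670765) (nat_lit 0) (nat_lit 278067) (nat_lit 76) (nat_lit 278067) (nat_lit 4) (nat_lit 1) (nat_lit 2) (nat_lit 1) (nat_lit 3) (nat_lit 1) (nat_lit 382) (nat_lit 445) (nat_lit 193)) (XT.nd (nat_lit 78) (nat_lit 76) (nat_lit 0) (XT.lf (nat_lit 0) (nat_lit 2942108784) (nat_lit 0) (nat_lit 2942890652) (nat_lit 152) (nat_lit 2942108784) (nat_lit 2) (nat_lit 3) (nat_lit 2) (nat_lit 1) (nat_lit 4) (nat_lit 1) (nat_lit 383) (nat_lit 445) (nat_lit 192)) (XT.lf (nat_lit 76) (nat_lit 2894415211) (nat_lit 0) (nat_lit 2895159847) (nat_lit 76) (nat_lit 2895159847) (nat_lit 2) (nat_lit 3) (nat_lit 1) (nat_lit 1) (nat_lit 2) (nat_lit 1) (nat_lit 384) (nat_lit 445) (nat_lit 191)))) (XT.nd (nat_lit 78) (nat_lit 0) (nat_lit 0) (XT.lf (nat_lit 0) (nat_lit 180209627198) (nat_lit 0) (nat_lit 0) (nat_lit 0) (nat_lit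 0) (nat_lit 0) (nat_lit 0) (nat_lit 1) (nat_lit 0) (nat_lit 1) (nat_lit 0) (nat_lit 385) (nat_lit 445) (nat_lit 190)) (XT.nd (nat_lit 78) (nat_lit 0) (nat_lit 0) (XT.lf (nat_lit 0) (nat_lit 180209593291) (nat_lit 0) (nat_lit 0) (nat_lit 0) (nat_lit 0) (nat_lit 0) (nat_lit 0) (nat_lit 1) (nat_lit 0) (nat_lit 1) (nat_lit 0) (nat_lit 386) (nat_lit 445) (nat_lit 189)) (XT.lf (nat_lit 0) (nat_lit 180209560999) (nat_lit 0) (nat_lit 0) (nat_lit 0) (nat_lit 0) (nat_lit 0) (nat_lit 0) (nat_lit 1) (nat_lit 0) (nat_lit 1) (nat_lit 0) (nat_lit 387) (nat_lit 445) (nat_lit 188))))) (XT.nd (nat_lit 234) (nat_lit 0) (nat_lit 0) (XT.nd (nat_lit 78) (nat_lit 0) (nat_lit 0) (XT.lf (nat_lit 0) (nat_lit 180209530245) (nat_lit 0) (nat_lit 0) (nat_lit 0) (nat_lit 0) (nat_lit 0) (nat_lit 0) (nat_lit 1) (nat_lit 0) (nat_lit 1) (nat_lit 0) (nat_lit 388) (nat_lit 445) (nat_lit 187)) (XT.nd (nat_lit 78) (nat_lit 0) (nat_lit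 0) (XT.lf (nat_lit 0) (nat_lit 180209500955) (nat_lit 0) (nat_lit 0) (nat_lit 0) (nat_lit 0) (nat_lit 0) (nat_lit 0) (nat_lit 1) (nat_lit 0) (nat_lit 1) (nat_lit 0) (nat_lit 389) (nat_lit 445) (nat_lit 186)) (XT.lf (nat_lit 0) (nat_lit 180209473060) (nat_lit 0) (nat_lit 0) (nat_lit 0) (nat_lit 0) (nat_lit 0) (nat_lit 0) (nat_lit 1) (nat_lit 0) (nat_lit 1) (nat_lit 0) (nat_lit 390) (nat_lit 445) (nat_lit 185)))) (XT.nd (nat_lit 156) (nat_lit 0) (nat_lit 0) (XT.nd (nat_lit 78) (nat_lit 0) (nat_lit 0) (XT.lf (nat_lit 0) (nat_lit 180209446493) (nat_lit 0) (nat_lit 0) (nat_lit 0) (nat_lit 0) (nat_lit 0) (nat_lit 0) (nat_lit 1) (nat_lit 0) (nat_lit 1) (nat_lit 0) (nat_lit 391) (nat_lit 445) (nat_lit 184)) (XT.lf (nat_lit 0) (nat_lit 180209421191) (nat_lit 0) (nat_lit 0) (nat_lit 0) (nat_lit 0) (nat_lit 0) (nat_lit 0) (nat_lit 1) (nat_lit 0) (nat_lit 1) (nat_lit 0) (nat_lit 392) (nat_lit 445) (nat_lit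 183))) (XT.nd (nat_lit 78) (nat_lit 0) (nat_lit 0) (XT.lf (nat_lit 0) (nat_lit 180209397094) (nat_lit 0) (nat_lit 0) (nat_lit 0) (nat_lit 0) (nat_lit 0) (nat_lit 0) (nat_lit 1) (nat_lit 0) (nat_lit 1) (nat_lit 0) (nat_lit 393) (nat_lit 445) (nat_lit 182)) (XT.lf (nat_lit 0) (nat_lit 180209374145) (nat_lit 0) (nat_lit 0) (nat_lit 0) (nat_lit 0) (nat_lit 0) (nat_lit 0) (nat_lit 1) (nat_lit 0) (nat_lit 1) (nat_lit 0) (nat_lit 394) (nat_lit 445) (nat_lit 181))))))) (XT.nd (nat_lit 36426) (nat_lit 0) (nat_lit 14364) (XT.nd (nat_lit 468) (nat_lit 0) (nat_lit 0) (XT.nd (nat_lit 234) (nat_lit 0) (nat_lit 0) (XT.nd (nat_lit 78) (nat_lit 0) (nat_lit 0) (XT.lf (nat_lit 0) (nat_lit 180209352288) (nat_lit 0) (nat_lit 0) (nat_lit 0) (nat_lit 0) (nat_lit 0) (nat_lit 0) (nat_lit 1) (nat_lit 0) (nat_lit 1) (nat_lit 0) (nat_lit 395) (nat_lit 445) (nat_lit 180)) (XT.nd (nat_lit 78) (nat_lit 0) (nat_lit 0) (XT.lf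 (nat_lit 0) (nat_lit 180209331473) (nat_lit 0) (nat_lit 0) (nat_lit 0) (nat_lit 0) (nat_lit 0) (nat_lit 0) (nat_lit 1) (nat_lit 0) (nat_lit 1) (nat_lit 0) (nat_lit 396) (nat_lit 445) (nat_lit 179)) (XT.lf (nat_lit 0) (nat_lit 180209311648) (nat_lit 0) (nat_lit 0) (nat_lit 0) (nat_lit 0) (nat_lit 0) (nat_lit 0) (nat_lit 1) (nat_lit 0) (nat_lit 1) (nat_lit 0) (nat_lit 397) (nat_lit 445) (nat_lit 178)))) (XT.nd (nat_lit 78) (nat_lit 0) (nat_lit 0) (XT.lf (nat_lit 0) (nat_lit 180209292768) (nat_lit 0) (nat_lit 0) (nat_lit 0) (nat_lit 0) (nat_lit 0) (nat_lit 0) (nat_lit 1) (nat_lit 0) (nat_lit 1) (nat_lit 0) (nat_lit 398) (nat_lit 445) (nat_lit 177)) (XT.nd (nat_lit 78) (nat_lit 0) (nat_lit 0) (XT.lf (nat_lit 0) (nat_lit 180209274786) (nat_lit 0) (nat_lit 0) (nat_lit 0) (nat_lit 0) (nat_lit 0) (nat_lit 0) (nat_lit 1) (nat_lit 0) (nat_lit 1) (nat_lit 0) (nat_lit 399) (nat_lit 445) (nat_lit 176)) (XT.lf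 (nat_lit 0) (nat_lit 180209257661) (nat_lit 0) (nat_lit 0) (nat_lit 0) (nat_lit 0) (nat_lit 0) (nat_lit 0) (nat_lit 1) (nat_lit 0) (nat_lit 1) (nat_lit 0) (nat_lit 400) (nat_lit 445) (nat_lit 175))))) (XT.nd (nat_lit 35724) (nat_lit 0) (nat_lit 15504) (XT.nd (nat_lit 78) (nat_lit 0) (nat_lit 0) (XT.lf (nat_lit 0) (nat_lit 180209241351) (nat_lit 0) (nat_lit 0) (nat_lit 0) (nat_lit 0) (nat_lit 0) (nat_lit 0) (nat_lit 1) (nat_lit 0) (nat_lit 1) (nat_lit 0) (nat_lit 401) (nat_lit 445) (nat_lit 174)) (XT.nd (nat_lit 78) (nat_lit 0) (nat_lit 0) (XT.lf (nat_lit 0) (nat_lit 180209225818) (nat_lit 0) (nat_lit 0) (nat_lit 0) (nat_lit 0) (nat_lit 0) (nat_lit 0) (nat_lit 1) (nat_lit 0) (nat_lit 1) (nat_lit 0) (nat_lit 402) (nat_lit 445) (nat_lit 173)) (XT.lf (nat_lit 0) (nat_lit 180209211025) (nat_lit 0) (nat_lit 0) (nat_lit 0) (nat_lit 0) (nat_lit 0) (nat_lit 0) (nat_lit 1) (nat_lit 0) (nat_lit 1) (nat_lit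 0) (nat_lit 403) (nat_lit 445) (nat_lit 172)))) (XT.nd (nat_lit 78) (nat_lit 304) (nat_lit 0) (XT.lf (nat_lit 76) (nat_lit 24841883744) (nat_lit 0) (nat_lit 209124846581) (nat_lit 228) (nat_lit 24841883744) (nat_lit 209) (nat_lit 1) (nat_lit 208) (nat_lit 1) (nat_lit 211) (nat_lit 1) (nat_lit 178) (nat_lit 446) (nat_lit 396)) (XT.nd (nat_lit 78) (nat_lit 152) (nat_lit 0) (XT.lf (nat_lit 76) (nat_lit 115344278278) (nat_lit 0) (nat_lit 23594937786) (nat_lit 152) (nat_lit 115344278278) (nat_lit 207) (nat_lit 1) (nat_lit 206) (nat_lit 1) (nat_lit 208) (nat_lit 1) (nat_lit 179) (nat_lit 446) (nat_lit 395)) (XT.lf (nat_lit 228) (nat_lit 156897801574) (nat_lit 0) (nat_lit 46491715416) (nat_lit 152) (nat_lit 46491715416) (nat_lit 207) (nat_lit 1) (nat_lit 204) (nat_lit 1) (nat_lit 206) (nat_lit 1) (nat_lit 180) (nat_lit 446) (nat_lit 394)))))) (XT.nd (nat_lit 468) (nat_lit 532) (nat_lit 0) (XT.nd (nat_lit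 234) (nat_lit 304) (nat_lit 0) (XT.nd (nat_lit 78) (nat_lit 304) (nat_lit 0) (XT.lf (nat_lit 76) (nat_lit 42024398479) (nat_lit 0) (nat_lit 161517324313) (nat_lit 228) (nat_lit 42024398479) (nat_lit 205) (nat_lit 1) (nat_lit 204) (nat_lit 1) (nat_lit 207) (nat_lit 1) (nat_lit 181) (nat_lit 446) (nat_lit 393)) (XT.nd (nat_lit 78) (nat_lit 228) (nat_lit 0) (XT.lf (nat_lit 152) (nat_lit 12063674430) (nat_lit 0) (nat_lit 114634381973) (nat_lit 76) (nat_lit 114634381973) (nat_lit 205) (nat_lit 1) (nat_lit 203) (nat_lit 1) (nat_lit 204) (nat_lit 1) (nat_lit 182) (nat_lit 446) (nat_lit 392)) (XT.lf (nat_lit 228) (nat_lit 181424707807) (nat_lit 0) (nat_lit 27888486828) (nat_lit 152) (nat_lit 27888486828) (nat_lit 203) (nat_lit 1) (nat_lit 200) (nat_lit 1) (nat_lit 202) (nat_lit 1) (nat_lit 183) (nat_lit 446) (nat_lit 391)))) (XT.nd (nat_lit 78) (nat_lit 304) (nat_lit 0) (XT.lf (nat_lit 76) (nat_lit 55132547340)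 (nat_lit 0) (nat_lit 122851936234) (nat_lit 228) (nat_lit 55132547340) (nat_lit 201) (nat_lit 1) (nat_lit 200) (nat_lit 1) (nat_lit 203) (nat_lit 1) (nat_lit 184) (nat_lit 446) (nat_lit 390)) (XT.nd (nat_lit 78) (nat_lit 228) (nat_lit 0) (XT.lf (nat_lit 152) (nat_lit 40512551718) (nat_lit 0) (nat_lit 94309989745) (nat_lit 76) (nat_lit 94309989745) (nat_lit 201) (nat_lit 1) (nat_lit 199) (nat_lit 1) (nat_lit 200) (nat_lit 1) (nat_lit 185) (nat_lit 446) (nat_lit 389)) (XT.lf (nat_lit 228) (nat_lit 199110459114) (nat_lit 0) (nat_lit 13076915226) (nat_lit 152) (nat_lit 13076915226) (nat_lit 199) (nat_lit 1) (nat_lit 196) (nat_lit 1) (nat_lit 198) (nat_lit 1) (nat_lit 186) (nat_lit 446) (nat_lit 388))))) (XT.nd (nat_lit 234) (nat_lit 228) (nat_lit 0) (XT.nd (nat_lit 78) (nat_lit 304) (nat_lit 0) (XT.lf (nat_lit 76) (nat_lit 64937655243) (nat_lit 0) (nat_lit 91519386068) (nat_lit 228) (nat_lit 64937655243)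 (nat_lit 197) (nat_lit 1) (nat_lit 196) (nat_lit 1) (nat_lit 199) (nat_lit 1) (nat_lit 187) (nat_lit 446) (nat_lit 387)) (XT.nd (nat_lit 78) (nat_lit 228) (nat_lit 0) (XT.lf (nat_lit 152) (nat_lit 62460954568) (nat_lit 0) (nat_lit 77589061961) (nat_lit 76) (nat_lit 77589061961) (nat_lit 197) (nat_lit 1) (nat_lit 195) (nat_lit 1) (nat_lit 196) (nat_lit 1) (nat_lit 188) (nat_lit 446) (nat_lit 386)) (XT.lf (nat_lit 228) (nat_lit 211286670339) (nat_lit 0) (nat_lit 1361256322) (nat_lit 152) (nat_lit 1361256322) (nat_lit 195) (nat_lit 1) (nat_lit 192) (nat_lit 1) (nat_lit 194) (nat_lit 1) (nat_lit 189) (nat_lit 446) (nat_lit 385)))) (XT.nd (nat_lit 156) (nat_lit 152) (nat_lit 0) (XT.nd (nat_lit 78) (nat_lit 76) (nat_lit 0) (XT.lf (nat_lit 76) (nat_lit 72071962156) (nat_lit 0) (nat_lit 66196838834) (nat_lit 228) (nat_lit 72071962156) (nat_lit 193) (nat_lit 1) (nat_lit 192) (nat_lit 1) (nat_lit 195) (nat_lit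 1) (nat_lit 190) (nat_lit 446) (nat_lit 384)) (XT.lf (nat_lit 152) (nat_lit 79130760957) (nat_lit 0) (nat_lit 63832713292) (nat_lit 76) (nat_lit 63832713292) (nat_lit 193) (nat_lit 1) (nat_lit 191) (nat_lit 1) (nat_lit 192) (nat_lit 1) (nat_lit 191) (nat_lit 446) (nat_lit 383))) (XT.nd (nat_lit 78) (nat_lit 152) (nat_lit 0) (XT.lf (nat_lit 0) (nat_lit 7958118467) (nat_lit 0) (nat_lit 187442391670) (nat_lit 152) (nat_lit 7958118467) (nat_lit 191) (nat_lit 3) (nat_lit 191) (nat_lit 1) (nat_lit 193) (nat_lit 1) (nat_lit 192) (nat_lit 446) (nat_lit 382)) (XT.lf (nat_lit 76) (nat_lit 77053393515) (nat_lit 0) (nat_lit 45797077822) (nat_lit 152) (nat_lit 77053393515) (nat_lit 190) (nat_lit 1) (nat_lit 189) (nat_lit 1) (nat_lit 191) (nat_lit 1) (nat_lit 193) (nat_lit 446) (nat_lit 381))))))))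
noncomputable def ec491 : XT := (XT.nd (nat_lit 1950) (nat_lit 1900) (nat_lit 0) (XT.nd (nat_lit 936) (nat_lit 1064) (nat_lit 0) (XT.nd (nat_lit 468) (nat_lit 380) (nat_lit 0) (XT.nd (nat_lit 234) (nat_lit 228) (nat_lit 0) (XT.nd (nat_lit 78) (nat_lit 152) (nat_lit 0) (XT.lf (nat_lit 152) (nat_lit 91523910068) (nat_lit 0) (nat_lit 52515331198) (nat_lit 76) (nat_lit 52515331198) (nat_lit 190) (nat_lit 1) (nat_lit 188) (nat_lit 1) (nat_lit 189) (nat_lit 1) (nat_lit 194) (nat_lit 446) (nat_lit 380)) (XT.nd (nat_lit 78) (nat_lit 152) (nat_lit 0) (XT.lf (nat_lit 0) (nat_lit 15210389068) (nat_lit 0) (nat_lit 162872544818) (nat_lit 152) (nat_lit 15210389068) (nat_lit 188) (nat_lit 3) (nat_lit 188) (nat_lit 1) (nat_lit 190) (nat_lit 1) (nat_lit 195) (nat_lit 446) (nat_lit 379)) (XT.lf (nat_lit 76) (nat_lit 80305933618) (nat_lit 0) (nat_lit 29426678490) (nat_lit 152) (nat_lit 80305933618) (nat_lit 187)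 (nat_lit 1) (nat_lit 186) (nat_lit 1) (nat_lit 188) (nat_lit 1) (nat_lit 196) (nat_lit 446) (nat_lit 378)))) (XT.nd (nat_lit 78) (nat_lit 152) (nat_lit 0) (XT.lf (nat_lit 152) (nat_lit 100461554169) (nat_lit 0) (nat_lit 43204492941) (nat_lit 76) (nat_lit 43204492941) (nat_lit 187) (nat_lit 1) (nat_lit 185) (nat_lit 1) (nat_lit 186) (nat_lit 1) (nat_lit 197) (nat_lit 446) (nat_lit 377)) (XT.nd (nat_lit 78) (nat_lit 152) (nat_lit 0) (XT.lf (nat_lit 0) (nat_lit 20764315500) (nat_lit 0) (nat_lit 142246336469) (nat_lit 152) (nat_lit 20764315500) (nat_lit 185) (nat_lit 3) (nat_lit 185) (nat_lit 1) (nat_lit 187) (nat_lit 1) (nat_lit 198) (nat_lit 446) (nat_lit 376)) (XT.lf (nat_lit 76) (nat_lit 82176381834) (nat_lit 0) (nat_lit 16351600484) (nat_lit 152) (nat_lit 82176381834) (nat_lit 184) (nat_lit 1) (nat_lit 183) (nat_lit 1) (nat_lit 185) (nat_lit 1) (nat_lit 199) (nat_lit 446) (nat_lit 375))))) (XT.nd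 (nat_lit 234) (nat_lit 152) (nat_lit 0) (XT.nd (nat_lit 78) (nat_lit 152) (nat_lit 0) (XT.lf (nat_lit 152) (nat_lit 106616261478) (nat_lit 0) (nat_lit 35544443264) (nat_lit 76) (nat_lit 35544443264) (nat_lit 184) (nat_lit 1) (nat_lit 182) (nat_lit 1) (nat_lit 183) (nat_lit 1) (nat_lit 200) (nat_lit 446) (nat_lit 374)) (XT.nd (nat_lit 78) (nat_lit 152) (nat_lit 0) (XT.lf (nat_lit 0) (nat_lit 24940654484) (nat_lit 0) (nat_lit 124884213778) (nat_lit 152) (nat_lit 24940654484) (nat_lit 182) (nat_lit 3) (nat_lit 182) (nat_lit 1) (nat_lit 184) (nat_lit 1) (nat_lit 201) (nat_lit 446) (nat_lit 373)) (XT.lf (nat_lit 76) (nat_lit 82948133187) (nat_lit 0) (nat_lit 5968882437) (nat_lit 152) (nat_lit 82948133187) (nat_lit 181) (nat_lit 1) (nat_lit 180) (nat_lit 1) (nat_lit 182) (nat_lit 1) (nat_lit 202) (nat_lit 446) (nat_lit 372)))) (XT.nd (nat_lit 78) (nat_lit 76) (nat_lit 0) (XT.lf (nat_lit 152) (nat_lit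 110538502401) (nat_lit 0) (nat_lit 29242501439) (nat_lit 76) (nat_lit 29242501439) (nat_lit 181) (nat_lit 1) (nat_lit 179) (nat_lit 1) (nat_lit 180) (nat_lit 1) (nat_lit 203) (nat_lit 446) (nat_lit 371)) (XT.nd (nat_lit 78) (nat_lit 76) (nat_lit 0) (XT.lf (nat_lit 0) (nat_lit 28002357915) (nat_lit 0) (nat_lit 110226171485) (nat_lit 152) (nat_lit 28002357915) (nat_lit 179) (nat_lit 3) (nat_lit 179) (nat_lit 1) (nat_lit 181) (nat_lit 1) (nat_lit 204) (nat_lit 446) (nat_lit 370)) (XT.lf (nat_lit 76) (nat_lit 2289934762) (nat_lit 0) (nat_lit 80598328639) (nat_lit 76) (nat_lit 80598328639) (nat_lit 179) (nat_lit 3) (nat_lit 178) (nat_lit 1) (nat_lit 179) (nat_lit 1) (nat_lit 205) (nat_lit 446) (nat_lit 369)))))) (XT.nd (nat_lit 468) (nat_lit 608) (nat_lit 0) (XT.nd (nat_lit 234) (nat_lit 228) (nat_lit 0) (XT.nd (nat_lit 78) (nat_lit 76) (nat_lit 0) (XT.lf (nat_lit 152) (nat_lit 112678433038) (nat_lit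 0) (nat_lit 24057878303) (nat_lit 76) (nat_lit 24057878303) (nat_lit 178) (nat_lit 1) (nat_lit 176) (nat_lit 1) (nat_lit 177) (nat_lit 1) (nat_lit 206) (nat_lit 446) (nat_lit 368)) (XT.nd (nat_lit 78) (nat_lit 76) (nat_lit 0) (XT.lf (nat_lit 0) (nat_lit 30164866059) (nat_lit 0) (nat_lit 97810600970) (nat_lit 152) (nat_lit 30164866059) (nat_lit 176) (nat_lit 3) (nat_lit 176) (nat_lit 1) (nat_lit 178) (nat_lit 1) (nat_lit 207) (nat_lit 446) (nat_lit 367)) (XT.lf (nat_lit 76) (nat_lit 8896236142) (nat_lit 0) (nat_lit 73320745581) (nat_lit 76) (nat_lit 73320745581) (nat_lit 176) (nat_lit 3) (nat_lit 175) (nat_lit 1) (nat_lit 176) (nat_lit 1) (nat_lit 208) (nat_lit 446) (nat_lit 366)))) (XT.nd (nat_lit 78) (nat_lit 76) (nat_lit 0) (XT.lf (nat_lit 152) (nat_lit 113403810051) (nat_lit 0) (nat_lit 19792476018) (nat_lit 76) (nat_lit 19792476018) (nat_lit 175) (nat_lit 1) (nat_lit 173) (nat_lit 1) (nat_lit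 174) (nat_lit 1) (nat_lit 209) (nat_lit 446) (nat_lit 365)) (XT.nd (nat_lit 78) (nat_lit 76) (nat_lit 0) (XT.lf (nat_lit 0) (nat_lit 31604573675) (nat_lit 0) (nat_lit 87256887195) (nat_lit 152) (nat_lit 31604573675) (nat_lit 173) (nat_lit 3) (nat_lit 173) (nat_lit 1) (nat_lit 175) (nat_lit 1) (nat_lit 210) (nat_lit 446) (nat_lit 364)) (XT.lf (nat_lit 76) (nat_lit 13997337534) (nat_lit 0) (nat_lit 66999540887) (nat_lit 76) (nat_lit 66999540887) (nat_lit 173) (nat_lit 3) (nat_lit 172) (nat_lit 1) (nat_lit 173) (nat_lit 1) (nat_lit 211) (nat_lit 446) (nat_lit 363))))) (XT.nd (nat_lit 234) (nat_lit 380) (nat_lit 0) (XT.nd (nat_lit 78) (nat_lit 76) (nat_lit 0) (XT.lf (nat_lit 152) (nat_lit 113014723119) (nat_lit 0) (nat_lit 16283319002) (nat_lit 76) (nat_lit 16283319002) (nat_lit 172) (nat_lit 1) (nat_lit 170) (nat_lit 1) (nat_lit 171) (nat_lit 1) (nat_lit 212) (nat_lit 446) (nat_lit 362)) (XT.nd (nat_lit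 78) (nat_lit 76) (nat_lit 0) (XT.lf (nat_lit 0) (nat_lit 32465793088) (nat_lit 0) (nat_lit 78251089149) (nat_lit 152) (nat_lit 32465793088) (nat_lit 170) (nat_lit 3) (nat_lit 170) (nat_lit 1) (nat_lit 172) (nat_lit 1) (nat_lit 213) (nat_lit 446) (nat_lit 361)) (XT.lf (nat_lit 76) (nat_lit 17876008081) (nat_lit 0) (nat_lit 61481051949) (nat_lit 76) (nat_lit 61481051949) (nat_lit 170) (nat_lit 3) (nat_lit 169) (nat_lit 1) (nat_lit 170) (nat_lit 1) (nat_lit 214) (nat_lit 446) (nat_lit 360)))) (XT.nd (nat_lit 156) (nat_lit 228) (nat_lit 0) (XT.nd (nat_lit 78) (nat_lit 0) (nat_lit 0) (XT.lf (nat_lit 152) (nat_lit 111755709482) (nat_lit 0) (nat_lit 13396326841) (nat_lit 76) (nat_lit 13396326841) (nat_lit 169) (nat_lit 1) (nat_lit 167) (nat_lit 1) (nat_lit 168) (nat_lit 1) (nat_lit 215) (nat_lit 446) (nat_lit 359)) (XT.lf (nat_lit 0) (nat_lit 32866480806) (nat_lit 0) (nat_lit 70534157185) (nat_lit 152)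 (nat_lit 32866480806) (nat_lit 167) (nat_lit 3) (nat_lit 167) (nat_lit 1) (nat_lit 169) (nat_lit 1) (nat_lit 216) (nat_lit 446) (nat_lit 358))) (XT.nd (nat_lit 78) (nat_lit 152) (nat_lit 0) (XT.lf (nat_lit 76) (nat_lit 20764125470) (nat_lit 0) (nat_lit 56638102973) (nat_lit 76) (nat_lit 56638102973) (nat_lit 167) (nat_lit 3) (nat_lit 166) (nat_lit 1) (nat_lit 167) (nat_lit 1) (nat_lit 217) (nat_lit 446) (nat_lit 357)) (XT.lf (nat_lit 152) (nat_lit 109825715034) (nat_lit 0) (nat_lit 11021191245) (nat_lit 76) (nat_lit 11021191245) (nat_lit 166) (nat_lit 1) (nat_lit 164) (nat_lit 1) (nat_lit 165) (nat_lit 1) (nat_lit 218) (nat_lit 446) (nat_lit 356))))))) (XT.nd (nat_lit 1014) (nat_lit 988) (nat_lit 0) (XT.nd (nat_lit 468) (nat_lit 456) (nat_lit 0) (XT.nd (nat_lit 234) (nat_lit 228) (nat_lit 0) (XT.nd (nat_lit 78) (nat_lit 228) (nat_lit 0) (XT.lf (nat_lit 0) (nat_lit 32902946989) (nat_lit 0) (nat_lit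 63892237566) (nat_lit 152) (nat_lit 32902946989) (nat_lit 164) (nat_lit 3) (nat_lit 164) (nat_lit 1) (nat_lit 166) (nat_lit 1) (nat_lit 219) (nat_lit 446) (nat_lit 355)) (XT.nd (nat_lit 78) (nat_lit 152) (nat_lit 0) (XT.lf (nat_lit 76) (nat_lit 22851734917) (nat_lit 0) (nat_lit 52365344990) (nat_lit 76) (nat_lit 52365344990) (nat_lit 164) (nat_lit 3) (nat_lit 163) (nat_lit 1) (nat_lit 164) (nat_lit 1) (nat_lit 220) (nat_lit 446) (nat_lit 354)) (XT.lf (nat_lit 152) (nat_lit 107386284003) (nat_lit 0) (nat_lit 9067161312) (nat_lit 76) (nat_lit 9067161312) (nat_lit 163) (nat_lit 1) (nat_lit 161) (nat_lit 1) (nat_lit 162) (nat_lit 1) (nat_lit 221) (nat_lit 446) (nat_lit 353)))) (XT.nd (nat_lit 78) (nat_lit 228) (nat_lit 0) (XT.lf (nat_lit 0) (nat_lit 32653728194) (nat_lit 0) (nat_lit 58148694243) (nat_lit 152) (nat_lit 32653728194) (nat_lit 161) (nat_lit 3) (nat_lit 161) (nat_lit 1) (nat_lit 163) (nat_lit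 1) (nat_lit 222) (nat_lit 446) (nat_lit 352)) (XT.nd (nat_lit 78) (nat_lit 152) (nat_lit 0) (XT.lf (nat_lit 76) (nat_lit 24294500305) (nat_lit 0) (nat_lit 48575420352) (nat_lit 76) (nat_lit 48575420352) (nat_lit 161) (nat_lit 3) (nat_lit 160) (nat_lit 1) (nat_lit 161) (nat_lit 1) (nat_lit 223) (nat_lit 446) (nat_lit 351)) (XT.lf (nat_lit 152) (nat_lit 104568291559) (nat_lit 0) (nat_lit 7459576051) (nat_lit 76) (nat_lit 7459576051) (nat_lit 160) (nat_lit 1) (nat_lit 158) (nat_lit 1) (nat_lit 159) (nat_lit 1) (nat_lit 224) (nat_lit 446) (nat_lit 350))))) (XT.nd (nat_lit 234) (nat_lit 228) (nat_lit 0) (XT.nd (nat_lit 78) (nat_lit 228) (nat_lit 0) (XT.lf (nat_lit 0) (nat_lit 32182771833) (nat_lit 0) (nat_lit 53157543496) (nat_lit 152) (nat_lit 32182771833) (nat_lit 158) (nat_lit 3) (nat_lit 158) (nat_lit 1) (nat_lit 160) (nat_lit 1) (nat_lit 225) (nat_lit 446) (nat_lit 349)) (XT.nd (nat_lit 78) (nat_lit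 152) (nat_lit 0) (XT.lf (nat_lit 76) (nat_lit 25219832605) (nat_lit 0) (nat_lit 45195805618) (nat_lit 76) (nat_lit 45195805618) (nat_lit 158) (nat_lit 3) (nat_lit 157) (nat_lit 1) (nat_lit 158) (nat_lit 1) (nat_lit 226) (nat_lit 446) (nat_lit 348)) (XT.lf (nat_lit 152) (nat_lit 101477477918) (nat_lit 0) (nat_lit 6137011678) (nat_lit 76) (nat_lit 6137011678) (nat_lit 157) (nat_lit 1) (nat_lit 155) (nat_lit 1) (nat_lit 156) (nat_lit 1) (nat_lit 227) (nat_lit 446) (nat_lit 347)))) (XT.nd (nat_lit 156) (nat_lit 152) (nat_lit 0) (XT.nd (nat_lit 78) (nat_lit 76) (nat_lit 0) (XT.lf (nat_lit 0) (nat_lit 31542054448) (nat_lit 0) (nat_lit 48798051004) (nat_lit 152) (nat_lit 31542054448) (nat_lit 155) (nat_lit 3) (nat_lit 155) (nat_lit 1) (nat_lit 157) (nat_lit 1) (nat_lit 228) (nat_lit 446) (nat_lit 346)) (XT.lf (nat_lit 76) (nat_lit 25731930204) (nat_lit 0) (nat_lit 42166212638) (nat_lit 76) (nat_lit 42166212638)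 (nat_lit 155) (nat_lit 3) (nat_lit 154) (nat_lit 1) (nat_lit 155) (nat_lit 1) (nat_lit 229) (nat_lit 446) (nat_lit 345))) (XT.nd (nat_lit 78) (nat_lit 0) (nat_lit 0) (XT.lf (nat_lit 152) (nat_lit 98198996664) (nat_lit 0) (nat_lit 5048934695) (nat_lit 76) (nat_lit 5048934695) (nat_lit 154) (nat_lit 1) (nat_lit 152) (nat_lit 1) (nat_lit 153) (nat_lit 1) (nat_lit 230) (nat_lit 446) (nat_lit 344)) (XT.lf (nat_lit 0) (nat_lit 30773734269) (nat_lit 0) (nat_lit 44970285341) (nat_lit 152) (nat_lit 30773734269) (nat_lit 152) (nat_lit 3) (nat_lit 152) (nat_lit 1) (nat_lit 154) (nat_lit 1) (nat_lit 231) (nat_lit 446) (nat_lit 343)))))) (XT.nd (nat_lit 468) (nat_lit 532) (nat_lit 0) (XT.nd (nat_lit 234) (nat_lit 228) (nat_lit 0) (XT.nd (nat_lit 78) (nat_lit 152) (nat_lit 0) (XT.lf (nat_lit 76) (nat_lit 25915924094) (nat_lit 0) (nat_lit 39436448924) (nat_lit 76) (nat_lit 39436448924) (nat_lit 152) (nat_lit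 3) (nat_lit 151) (nat_lit 1) (nat_lit 152) (nat_lit 1) (nat_lit 232) (nat_lit 446) (nat_lit 342)) (XT.nd (nat_lit 78) (nat_lit 0) (nat_lit 0) (XT.lf (nat_lit 152) (nat_lit 94801152287) (nat_lit 0) (nat_lit 4153771069) (nat_lit 76) (nat_lit 4153771069) (nat_lit 151) (nat_lit 1) (nat_lit 149) (nat_lit 1) (nat_lit 150) (nat_lit 1) (nat_lit 233) (nat_lit 446) (nat_lit 341)) (XT.lf (nat_lit 0) (nat_lit 29911920689) (nat_lit 0) (nat_lit 41591458389) (nat_lit 152) (nat_lit 29911920689) (nat_lit 149) (nat_lit 3) (nat_lit 149) (nat_lit 1) (nat_lit 151) (nat_lit 1) (nat_lit 234) (nat_lit 446) (nat_lit 340)))) (XT.nd (nat_lit 78) (nat_lit 152) (nat_lit 0) (XT.lf (nat_lit 76) (nat_lit 25841286730) (nat_lit 0) (nat_lit 36964655968) (nat_lit 76) (nat_lit 36964655968) (nat_lit 149) (nat_lit 3) (nat_lit 148) (nat_lit 1) (nat_lit 149) (nat_lit 1) (nat_lit 235) (nat_lit 446) (nat_lit 339)) (XT.nd (nat_lit 78) (nat_lit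 0) (nat_lit 0) (XT.lf (nat_lit 152) (nat_lit 91338470895) (nat_lit 0) (nat_lit 3417317738) (nat_lit 76) (nat_lit 3417317738) (nat_lit 148) (nat_lit 1) (nat_lit 146) (nat_lit 1) (nat_lit 147) (nat_lit 1) (nat_lit 236) (nat_lit 446) (nat_lit 338)) (XT.lf (nat_lit 0) (nat_lit 28984128651) (nat_lit 0) (nat_lit 38592913221) (nat_lit 152) (nat_lit 28984128651) (nat_lit 146) (nat_lit 3) (nat_lit 146) (nat_lit 1) (nat_lit 148) (nat_lit 1) (nat_lit 237) (nat_lit 446) (nat_lit 337))))) (XT.nd (nat_lit 234) (nat_lit 304) (nat_lit 0) (XT.nd (nat_lit 78) (nat_lit 152) (nat_lit 0) (XT.lf (nat_lit 76) (nat_lit 25564635156) (nat_lit 0) (nat_lit 34715858556) (nat_lit 76) (nat_lit 34715858556) (nat_lit 146) (nat_lit 3) (nat_lit 145) (nat_lit 1) (nat_lit 146) (nat_lit 1) (nat_lit 238) (nat_lit 446) (nat_lit 336)) (XT.nd (nat_lit 78) (nat_lit 0) (nat_lit 0) (XT.lf (nat_lit 152) (nat_lit 87854222521) (nat_lit 0) (nat_lit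 2811435760) (nat_lit 76) (nat_lit 2811435760) (nat_lit 145) (nat_lit 1) (nat_lit 143) (nat_lit 1) (nat_lit 144) (nat_lit 1) (nat_lit 239) (nat_lit 446) (nat_lit 335)) (XT.lf (nat_lit 0) (nat_lit 28012473869) (nat_lit 0) (nat_lit 35917644715) (nat_lit 152) (nat_lit 28012473869) (nat_lit 143) (nat_lit 3) (nat_lit 143) (nat_lit 1) (nat_lit 145) (nat_lit 1) (nat_lit 240) (nat_lit 446) (nat_lit 334)))) (XT.nd (nat_lit 156) (nat_lit 76) (nat_lit 0) (XT.nd (nat_lit 78) (nat_lit 152) (nat_lit 0) (XT.lf (nat_lit 76) (nat_lit 25132035859) (nat_lit 0) (nat_lit 32660769998) (nat_lit 76) (nat_lit 32660769998) (nat_lit 143) (nat_lit 3) (nat_lit 142) (nat_lit 1) (nat_lit 143) (nat_lit 1) (nat_lit 241) (nat_lit 446) (nat_lit 333)) (XT.lf (nat_lit 152) (nat_lit 84382492452) (nat_lit 0) (nat_lit 2312975157) (nat_lit 76) (nat_lit 2312975157) (nat_lit 142) (nat_lit 1) (nat_lit 140) (nat_lit 1) (nat_lit 141) (nat_lit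 1) (nat_lit 242) (nat_lit 446) (nat_lit 332))) (XT.nd (nat_lit 78) (nat_lit 76) (nat_lit 0) (XT.lf (nat_lit 0) (nat_lit 27014654909) (nat_lit 0) (nat_lit 33518258528) (nat_lit 152) (nat_lit 27014654909) (nat_lit 140) (nat_lit 3) (nat_lit 140) (nat_lit 1) (nat_lit 142) (nat_lit 1) (nat_lit 243) (nat_lit 446) (nat_lit 331)) (XT.lf (nat_lit 76) (nat_lit 24580899763) (nat_lit 0) (nat_lit 30774807971) (nat_lit 76) (nat_lit 30774807971) (nat_lit 140) (nat_lit 3) (nat_lit 139) (nat_lit 1) (nat_lit 140) (nat_lit 1) (nat_lit 244) (nat_lit 446) (nat_lit 330))))))))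
noncomputable def ec492 : XT := (XT.nd (nat_lit 1950) (nat_lit 1824) (nat_lit 0) (XT.nd (nat_lit 936) (nat_lit 1064) (nat_lit 0) (XT.nd (nat_lit 468) (nat_lit 456) (nat_lit 0) (XT.nd (nat_lit 234) (nat_lit 228) (nat_lit 0) (XT.nd (nat_lit 78) (nat_lit 76) (nat_lit 0) (XT.lf (nat_lit 152) (nat_lit 80949881715) (nat_lit 0) (nat_lit 1902890386) (nat_lit 76) (nat_lit 1902890386) (nat_lit 139) (nat_lit 1) (nat_lit 137) (nat_lit 1) (nat_lit 138) (nat_lit 1) (nat_lit 245) (nat_lit 446) (nat_lit 329)) (XT.nd (nat_lit 78) (nat_lit 76) (nat_lit 0) (XT.lf (nat_lit 0) (nat_lit 26004759957) (nat_lit 0) (nat_lit 31355290748) (nat_lit 152) (nat_lit 26004759957) (nat_lit 137) (nat_lit 3) (nat_lit 137) (nat_lit 1) (nat_lit 139) (nat_lit 1) (nat_lit 246) (nat_lit 446) (nat_lit 328)) (XT.lf (nat_lit 76) (nat_lit 23941540083) (nat_lit 0) (nat_lit 29037283694) (nat_lit 76) (nat_lit 29037283694) (nat_lit 137) (nat_lit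 3) (nat_lit 136) (nat_lit 1) (nat_lit 137) (nat_lit 1) (nat_lit 247) (nat_lit 446) (nat_lit 327)))) (XT.nd (nat_lit 78) (nat_lit 76) (nat_lit 0) (XT.lf (nat_lit 152) (nat_lit 77576902637) (nat_lit 0) (nat_lit 1565512630) (nat_lit 76) (nat_lit 1565512630) (nat_lit 136) (nat_lit 1) (nat_lit 134) (nat_lit 1) (nat_lit 135) (nat_lit 1) (nat_lit 248) (nat_lit 446) (nat_lit 326)) (XT.nd (nat_lit 78) (nat_lit 76) (nat_lit 0) (XT.lf (nat_lit 0) (nat_lit 24993929427) (nat_lit 0) (nat_lit 29395824351) (nat_lit 152) (nat_lit 24993929427) (nat_lit 134) (nat_lit 3) (nat_lit 134) (nat_lit 1) (nat_lit 136) (nat_lit 1) (nat_lit 249) (nat_lit 446) (nat_lit 325)) (XT.lf (nat_lit 76) (nat_lit 23238452862) (nat_lit 0) (nat_lit 27430733742) (nat_lit 76) (nat_lit 27430733742) (nat_lit 134) (nat_lit 3) (nat_lit 133) (nat_lit 1) (nat_lit 134) (nat_lit 1) (nat_lit 250) (nat_lit 446) (nat_lit 324))))) (XT.nd (nat_lit 234)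 (nat_lit 228) (nat_lit 0) (XT.nd (nat_lit 78) (nat_lit 76) (nat_lit 0) (XT.lf (nat_lit 152) (nat_lit 74279123705) (nat_lit 0) (nat_lit 1287951115) (nat_lit 76) (nat_lit 1287951115) (nat_lit 133) (nat_lit 1) (nat_lit 131) (nat_lit 1) (nat_lit 132) (nat_lit 1) (nat_lit 251) (nat_lit 446) (nat_lit 323)) (XT.nd (nat_lit 78) (nat_lit 76) (nat_lit 0) (XT.lf (nat_lit 0) (nat_lit 23990900027) (nat_lit 0) (nat_lit 27612349874) (nat_lit 152) (nat_lit 23990900027) (nat_lit 131) (nat_lit 3) (nat_lit 131) (nat_lit 1) (nat_lit 133) (nat_lit 1) (nat_lit 252) (nat_lit 446) (nat_lit 322)) (XT.lf (nat_lit 76) (nat_lit 22491369428) (nat_lit 0) (nat_lit 25940369283) (nat_lit 76) (nat_lit 25940369283) (nat_lit 131) (nat_lit 3) (nat_lit 130) (nat_lit 1) (nat_lit 131) (nat_lit 1) (nat_lit 253) (nat_lit 446) (nat_lit 321)))) (XT.nd (nat_lit 78) (nat_lit 76) (nat_lit 0) (XT.lf (nat_lit 152) (nat_lit 71068108344) (nat_lit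 0) (nat_lit 1059600569) (nat_lit 76) (nat_lit 1059600569) (nat_lit 130) (nat_lit 1) (nat_lit 128) (nat_lit 1) (nat_lit 129) (nat_lit 1) (nat_lit 254) (nat_lit 446) (nat_lit 320)) (XT.nd (nat_lit 78) (nat_lit 76) (nat_lit 0) (XT.lf (nat_lit 0) (nat_lit 23002451332) (nat_lit 0) (nat_lit 25981827084) (nat_lit 152) (nat_lit 23002451332) (nat_lit 128) (nat_lit 3) (nat_lit 128) (nat_lit 1) (nat_lit 130) (nat_lit 1) (nat_lit 255) (nat_lit 446) (nat_lit 319)) (XT.lf (nat_lit 76) (nat_lit 21716121240) (nat_lit 0) (nat_lit 24553621957) (nat_lit 76) (nat_lit 24553621957) (nat_lit 128) (nat_lit 3) (nat_lit 127) (nat_lit 1) (nat_lit 128) (nat_lit 1) (nat_lit 256) (nat_lit 446) (nat_lit 318)))))) (XT.nd (nat_lit 468) (nat_lit 608) (nat_lit 0) (XT.nd (nat_lit 234) (nat_lit 228) (nat_lit 0) (XT.nd (nat_lit 78) (nat_lit 76) (nat_lit 0) (XT.lf (nat_lit 152) (nat_lit 67952184277) (nat_lit 0) (nat_lit 871736011) (nat_lit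 76) (nat_lit 871736011) (nat_lit 127) (nat_lit 1) (nat_lit 125) (nat_lit 1) (nat_lit 126) (nat_lit 1) (nat_lit 257) (nat_lit 446) (nat_lit 317)) (XT.nd (nat_lit 78) (nat_lit 76) (nat_lit 0) (XT.lf (nat_lit 0) (nat_lit 22033772215) (nat_lit 0) (nat_lit 24484912019) (nat_lit 152) (nat_lit 22033772215) (nat_lit 125) (nat_lit 3) (nat_lit 125) (nat_lit 1) (nat_lit 127) (nat_lit 1) (nat_lit 258) (nat_lit 446) (nat_lit 316)) (XT.lf (nat_lit 76) (nat_lit 20925350450) (nat_lit 0) (nat_lit 23259769311) (nat_lit 76) (nat_lit 23259769311) (nat_lit 125) (nat_lit 3) (nat_lit 124) (nat_lit 1) (nat_lit 125) (nat_lit 1) (nat_lit 259) (nat_lit 446) (nat_lit 315)))) (XT.nd (nat_lit 78) (nat_lit 76) (nat_lit 0) (XT.lf (nat_lit 152) (nat_lit 64937073662) (nat_lit 0) (nat_lit 717179373) (nat_lit 76) (nat_lit 717179373) (nat_lit 124) (nat_lit 1) (nat_lit 122) (nat_lit 1) (nat_lit 123) (nat_lit 1) (nat_lit 260) (nat_lit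 446) (nat_lit 314)) (XT.nd (nat_lit 78) (nat_lit 76) (nat_lit 0) (XT.lf (nat_lit 0) (nat_lit 21088761386) (nat_lit 0) (nat_lit 23105320169) (nat_lit 152) (nat_lit 21088761386) (nat_lit 122) (nat_lit 3) (nat_lit 122) (nat_lit 1) (nat_lit 124) (nat_lit 1) (nat_lit 261) (nat_lit 446) (nat_lit 313)) (XT.lf (nat_lit 76) (nat_lit 20129093565) (nat_lit 0) (nat_lit 22049625740) (nat_lit 76) (nat_lit 22049625740) (nat_lit 122) (nat_lit 3) (nat_lit 121) (nat_lit 1) (nat_lit 122) (nat_lit 1) (nat_lit 262) (nat_lit 446) (nat_lit 312))))) (XT.nd (nat_lit 234) (nat_lit 380) (nat_lit 0) (XT.nd (nat_lit 78) (nat_lit 76) (nat_lit 0) (XT.lf (nat_lit 152) (nat_lit 62026408816) (nat_lit 0) (nat_lit 590025245) (nat_lit 76) (nat_lit 590025245) (nat_lit 121) (nat_lit 1) (nat_lit 119) (nat_lit 1) (nat_lit 120) (nat_lit 1) (nat_lit 263) (nat_lit 446) (nat_lit 311)) (XT.nd (nat_lit 78) (nat_lit 76) (nat_lit 0) (XT.lf (nat_lit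 0) (nat_lit 20170273759) (nat_lit 0) (nat_lit 21829301660) (nat_lit 152) (nat_lit 20170273759) (nat_lit 119) (nat_lit 3) (nat_lit 119) (nat_lit 1) (nat_lit 121) (nat_lit 1) (nat_lit 264) (nat_lit 446) (nat_lit 310)) (XT.lf (nat_lit 76) (nat_lit 19335260772) (nat_lit 0) (nat_lit 20915287344) (nat_lit 76) (nat_lit 20915287344) (nat_lit 119) (nat_lit 3) (nat_lit 118) (nat_lit 1) (nat_lit 119) (nat_lit 1) (nat_lit 265) (nat_lit 446) (nat_lit 309)))) (XT.nd (nat_lit 156) (nat_lit 228) (nat_lit 0) (XT.nd (nat_lit 78) (nat_lit 0) (nat_lit 0) (XT.lf (nat_lit 152) (nat_lit 59222153949) (nat_lit 0) (nat_lit 485415229) (nat_lit 76) (nat_lit 485415229) (nat_lit 118) (nat_lit 1) (nat_lit 116) (nat_lit 1) (nat_lit 117) (nat_lit 1) (nat_lit 266) (nat_lit 446) (nat_lit 308)) (XT.lf (nat_lit 0) (nat_lit 19280322307) (nat_lit 0) (nat_lit 20645208667) (nat_lit 152) (nat_lit 19280322307) (nat_lit 116) (nat_lit 3)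 (nat_lit 116) (nat_lit 1) (nat_lit 118) (nat_lit 1) (nat_lit 267) (nat_lit 446) (nat_lit 307))) (XT.nd (nat_lit 78) (nat_lit 152) (nat_lit 0) (XT.lf (nat_lit 76) (nat_lit 18550029440) (nat_lit 0) (nat_lit 19849921212) (nat_lit 76) (nat_lit 19849921212) (nat_lit 116) (nat_lit 3) (nat_lit 115) (nat_lit 1) (nat_lit 116) (nat_lit 1) (nat_lit 268) (nat_lit 446) (nat_lit 306)) (XT.lf (nat_lit 152) (nat_lit 56524949676) (nat_lit 0) (nat_lit 399352310) (nat_lit 76) (nat_lit 399352310) (nat_lit 115) (nat_lit 1) (nat_lit 113) (nat_lit 1) (nat_lit 114) (nat_lit 1) (nat_lit 269) (nat_lit 446) (nat_lit 305))))))) (XT.nd (nat_lit 936) (nat_lit 912) (nat_lit 0) (XT.nd (nat_lit 468) (nat_lit 456) (nat_lit 0) (XT.nd (nat_lit 234) (nat_lit 228) (nat_lit 0) (XT.nd (nat_lit 78) (nat_lit 228) (nat_lit 0) (XT.lf (nat_lit 0) (nat_lit 18420243323) (nat_lit 0) (nat_lit 19543138709) (nat_lit 152) (nat_lit 18420243323) (nat_lit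 113) (nat_lit 3) (nat_lit 113) (nat_lit 1) (nat_lit 115) (nat_lit 1) (nat_lit 270) (nat_lit 446) (nat_lit 304)) (XT.nd (nat_lit 78) (nat_lit 152) (nat_lit 0) (XT.lf (nat_lit 76) (nat_lit 17778167083) (nat_lit 0) (nat_lit 18847591260) (nat_lit 76) (nat_lit 18847591260) (nat_lit 113) (nat_lit 3) (nat_lit 112) (nat_lit 1) (nat_lit 113) (nat_lit 1) (nat_lit 271) (nat_lit 446) (nat_lit 303)) (XT.lf (nat_lit 152) (nat_lit 53934394139) (nat_lit 0) (nat_lit 328548134) (nat_lit 76) (nat_lit 328548134) (nat_lit 112) (nat_lit 1) (nat_lit 110) (nat_lit 1) (nat_lit 111) (nat_lit 1) (nat_lit 272) (nat_lit 446) (nat_lit 302)))) (XT.nd (nat_lit 78) (nat_lit 228) (nat_lit 0) (XT.lf (nat_lit 0) (nat_lit 17590831621) (nat_lit 0) (nat_lit 18514640434) (nat_lit 152) (nat_lit 17590831621) (nat_lit 110) (nat_lit 3) (nat_lit 110) (nat_lit 1) (nat_lit 112) (nat_lit 1) (nat_lit 273) (nat_lit 446) (nat_lit 301)) (XT.nd (nat_lit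 78) (nat_lit 152) (nat_lit 0) (XT.lf (nat_lit 76) (nat_lit 17023296299) (nat_lit 0) (nat_lit 17903114216) (nat_lit 76) (nat_lit 17903114216) (nat_lit 110) (nat_lit 3) (nat_lit 109) (nat_lit 1) (nat_lit 110) (nat_lit 1) (nat_lit 274) (nat_lit 446) (nat_lit 300)) (XT.lf (nat_lit 152) (nat_lit 51449272060) (nat_lit 0) (nat_lit 270297363) (nat_lit 76) (nat_lit 270297363) (nat_lit 109) (nat_lit 1) (nat_lit 107) (nat_lit 1) (nat_lit 108) (nat_lit 1) (nat_lit 275) (nat_lit 446) (nat_lit 299))))) (XT.nd (nat_lit 234) (nat_lit 228) (nat_lit 0) (XT.nd (nat_lit 78) (nat_lit 228) (nat_lit 0) (XT.lf (nat_lit 0) (nat_lit 16792451045) (nat_lit 0) (nat_lit 17552470842) (nat_lit 152) (nat_lit 16792451045) (nat_lit 107) (nat_lit 3) (nat_lit 107) (nat_lit 1) (nat_lit 109) (nat_lit 1) (nat_lit 276) (nat_lit 446) (nat_lit 298)) (XT.nd (nat_lit 78) (nat_lit 152) (nat_lit 0) (XT.lf (nat_lit 76) (nat_lit 16288112035)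 (nat_lit 0) (nat_lit 17011940413) (nat_lit 76) (nat_lit 17011940413) (nat_lit 107) (nat_lit 3) (nat_lit 106) (nat_lit 1) (nat_lit 107) (nat_lit 1) (nat_lit 277) (nat_lit 446) (nat_lit 297)) (XT.lf (nat_lit 152) (nat_lit 49067741094) (nat_lit 0) (nat_lit 222374309) (nat_lit 76) (nat_lit 222374309) (nat_lit 106) (nat_lit 1) (nat_lit 104) (nat_lit 1) (nat_lit 105) (nat_lit 1) (nat_lit 278) (nat_lit 446) (nat_lit 296)))) (XT.nd (nat_lit 78) (nat_lit 228) (nat_lit 0) (XT.lf (nat_lit 0) (nat_lit 16025124686) (nat_lit 0) (nat_lit 16650394854) (nat_lit 152) (nat_lit 16025124686) (nat_lit 104) (nat_lit 3) (nat_lit 104) (nat_lit 1) (nat_lit 106) (nat_lit 1) (nat_lit 279) (nat_lit 446) (nat_lit 295)) (XT.nd (nat_lit 78) (nat_lit 152) (nat_lit 0) (XT.lf (nat_lit 76) (nat_lit 15574559643) (nat_lit 0) (nat_lit 16170055041) (nat_lit 76) (nat_lit 16170055041) (nat_lit 104) (nat_lit 3) (nat_lit 103) (nat_lit 1)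 (nat_lit 104) (nat_lit 1) (nat_lit 280) (nat_lit 446) (nat_lit 294)) (XT.lf (nat_lit 152) (nat_lit 46787483120) (nat_lit 0) (nat_lit 182947894) (nat_lit 76) (nat_lit 182947894) (nat_lit 103) (nat_lit 1) (nat_lit 101) (nat_lit 1) (nat_lit 102) (nat_lit 1) (nat_lit 281) (nat_lit 446) (nat_lit 293)))))) (XT.nd (nat_lit 468) (nat_lit 456) (nat_lit 0) (XT.nd (nat_lit 234) (nat_lit 228) (nat_lit 0) (XT.nd (nat_lit 78) (nat_lit 228) (nat_lit 0) (XT.lf (nat_lit 0) (nat_lit 15288608456) (nat_lit 0) (nat_lit 15803019770) (nat_lit 152) (nat_lit 15288608456) (nat_lit 101) (nat_lit 3) (nat_lit 101) (nat_lit 1) (nat_lit 103) (nat_lit 1) (nat_lit 282) (nat_lit 446) (nat_lit 292)) (XT.nd (nat_lit 78) (nat_lit 152) (nat_lit 0) (XT.lf (nat_lit 76) (nat_lit 14883980727) (nat_lit 0) (nat_lit 15373896264) (nat_lit 76) (nat_lit 15373896264) (nat_lit 101) (nat_lit 3) (nat_lit 100) (nat_lit 1) (nat_lit 101) (nat_lit 1)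 (nat_lit 283) (nat_lit 446) (nat_lit 291)) (XT.lf (nat_lit 152) (nat_lit 44605826809) (nat_lit 0) (nat_lit 150511685) (nat_lit 76) (nat_lit 150511685) (nat_lit 100) (nat_lit 1) (nat_lit 98) (nat_lit 1) (nat_lit 99) (nat_lit 1) (nat_lit 284) (nat_lit 446) (nat_lit 290)))) (XT.nd (nat_lit 78) (nat_lit 228) (nat_lit 0) (XT.lf (nat_lit 0) (nat_lit 14582450982) (nat_lit 0) (nat_lit 15005658444) (nat_lit 152) (nat_lit 14582450982) (nat_lit 98) (nat_lit 3) (nat_lit 98) (nat_lit 1) (nat_lit 100) (nat_lit 1) (nat_lit 285) (nat_lit 446) (nat_lit 289)) (XT.nd (nat_lit 78) (nat_lit 152) (nat_lit 0) (XT.lf (nat_lit 76) (nat_lit 14217232506) (nat_lit 0) (nat_lit 14620287232) (nat_lit 76) (nat_lit 14620287232) (nat_lit 98) (nat_lit 3) (nat_lit 97) (nat_lit 1) (nat_lit 98) (nat_lit 1) (nat_lit 286) (nat_lit 446) (nat_lit 288)) (XT.lf (nat_lit 152) (nat_lit 42519846636) (nat_lit 0) (nat_lit 123826336) (nat_lit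 76) (nat_lit 123826336) (nat_lit 97) (nat_lit 1) (nat_lit 95) (nat_lit 1) (nat_lit 96) (nat_lit 1) (nat_lit 287) (nat_lit 446) (nat_lit 287))))) (XT.nd (nat_lit 234) (nat_lit 228) (nat_lit 0) (XT.nd (nat_lit 78) (nat_lit 228) (nat_lit 0) (XT.lf (nat_lit 0) (nat_lit 13906042292) (nat_lit 0) (nat_lit 14254216118) (nat_lit 152) (nat_lit 13906042292) (nat_lit 95) (nat_lit 3) (nat_lit 95) (nat_lit 1) (nat_lit 97) (nat_lit 1) (nat_lit 288) (nat_lit 446) (nat_lit 286)) (XT.nd (nat_lit 78) (nat_lit 152) (nat_lit 0) (XT.lf (nat_lit 76) (nat_lit 13574785442) (nat_lit 0) (nat_lit 13906379562) (nat_lit 76) (nat_lit 13906379562) (nat_lit 95) (nat_lit 3) (nat_lit 94) (nat_lit 1) (nat_lit 95) (nat_lit 1) (nat_lit 289) (nat_lit 446) (nat_lit 285)) (XT.lf (nat_lit 152) (nat_lit 40526442608) (nat_lit 0) (nat_lit 101872233) (nat_lit 76) (nat_lit 101872233) (nat_lit 94) (nat_lit 1) (nat_lit 92) (nat_lit 1) (nat_lit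 93) (nat_lit 1) (nat_lit 290) (nat_lit 446) (nat_lit 284)))) (XT.nd (nat_lit 156) (nat_lit 152) (nat_lit 0) (XT.nd (nat_lit 78) (nat_lit 76) (nat_lit 0) (XT.lf (nat_lit 0) (nat_lit 13258653294) (nat_lit 0) (nat_lit 13545096762) (nat_lit 152) (nat_lit 13258653294) (nat_lit 92) (nat_lit 3) (nat_lit 92) (nat_lit 1) (nat_lit 94) (nat_lit 1) (nat_lit 291) (nat_lit 446) (nat_lit 283)) (XT.lf (nat_lit 76) (nat_lit 12956802982) (nat_lit 0) (nat_lit 13229606285) (nat_lit 76) (nat_lit 13229606285) (nat_lit 92) (nat_lit 3) (nat_lit 91) (nat_lit 1) (nat_lit 92) (nat_lit 1) (nat_lit 292) (nat_lit 446) (nat_lit 282))) (XT.nd (nat_lit 78) (nat_lit 0) (nat_lit 0) (XT.lf (nat_lit 152) (nat_lit 38622404202) (nat_lit 0) (nat_lit 83810538) (nat_lit 76) (nat_lit 83810538) (nat_lit 91) (nat_lit 1) (nat_lit 89) (nat_lit 1) (nat_lit 90) (nat_lit 1) (nat_lit 293) (nat_lit 446) (nat_lit 281)) (XT.lf (nat_lit 0) (nat_lit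 12639467721) (nat_lit 0) (nat_lit 12875125471) (nat_lit 152) (nat_lit 12639467721) (nat_lit 89) (nat_lit 3) (nat_lit 89) (nat_lit 1) (nat_lit 91) (nat_lit 1) (nat_lit 294) (nat_lit 446) (nat_lit 280))))))))
noncomputable def ec493 : XT := (XT.nd (nat_lit 1950) (nat_lit 1976) (nat_lit 0) (XT.nd (nat_lit 936) (nat_lit 988) (nat_lit 0) (XT.nd (nat_lit 468) (nat_lit 456) (nat_lit 0) (XT.nd (nat_lit 234) (nat_lit 228) (nat_lit 0) (XT.nd (nat_lit 78) (nat_lit 152) (nat_lit 0) (XT.lf (nat_lit 76) (nat_lit 12363206644) (nat_lit 0) (nat_lit 12587642597) (nat_lit 76) (nat_lit 12587642597) (nat_lit 89) (nat_lit 3) (nat_lit 88) (nat_lit 1) (nat_lit 89) (nat_lit 1) (nat_lit 295) (nat_lit 446) (nat_lit 279)) (XT.nd (nat_lit 78) (nat_lit 0) (nat_lit 0) (XT.lf (nat_lit 152) (nat_lit 36804461399) (nat_lit 0) (nat_lit 68951137) (nat_lit 76) (nat_lit 68951137) (nat_lit 88) (nat_lit 1) (nat_lit 86) (nat_lit 1) (nat_lit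 87) (nat_lit 1) (nat_lit 296) (nat_lit 446) (nat_lit 278)) (XT.lf (nat_lit 0) (nat_lit 12047607892) (nat_lit 0) (nat_lit 12241484107) (nat_lit 152) (nat_lit 12047607892) (nat_lit 86) (nat_lit 3) (nat_lit 86) (nat_lit 1) (nat_lit 88) (nat_lit 1) (nat_lit 297) (nat_lit 446) (nat_lit 277)))) (XT.nd (nat_lit 78) (nat_lit 152) (nat_lit 0) (XT.lf (nat_lit 76) (nat_lit 11793729051) (nat_lit 0) (nat_lit 11978373064) (nat_lit 76) (nat_lit 11978373064) (nat_lit 86) (nat_lit 3) (nat_lit 85) (nat_lit 1) (nat_lit 86) (nat_lit 1) (nat_lit 298) (nat_lit 446) (nat_lit 276)) (XT.nd (nat_lit 78) (nat_lit 0) (nat_lit 0) (XT.lf (nat_lit 152) (nat_lit 35069325171) (nat_lit 0) (nat_lit 56726271) (nat_lit 76) (nat_lit 56726271) (nat_lit 85) (nat_lit 1) (nat_lit 83) (nat_lit 1) (nat_lit 84) (nat_lit 1) (nat_lit 299) (nat_lit 446) (nat_lit 275)) (XT.lf (nat_lit 0) (nat_lit 11482155417) (nat_lit 0) (nat_lit 11641657858)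 (nat_lit 152) (nat_lit 11482155417) (nat_lit 83) (nat_lit 3) (nat_lit 83) (nat_lit 1) (nat_lit 85) (nat_lit 1) (nat_lit 300) (nat_lit 446) (nat_lit 274))))) (XT.nd (nat_lit 234) (nat_lit 228) (nat_lit 0) (XT.nd (nat_lit 78) (nat_lit 152) (nat_lit 0) (XT.lf (nat_lit 76) (nat_lit 11247957076) (nat_lit 0) (nat_lit 11399864162) (nat_lit 76) (nat_lit 11399864162) (nat_lit 83) (nat_lit 3) (nat_lit 82) (nat_lit 1) (nat_lit 83) (nat_lit 1) (nat_lit 301) (nat_lit 446) (nat_lit 273)) (XT.nd (nat_lit 78) (nat_lit 0) (nat_lit 0) (XT.lf (nat_lit 152) (nat_lit 33413719365) (nat_lit 0) (nat_lit 46668843) (nat_lit 76) (nat_lit 46668843) (nat_lit 82) (nat_lit 1) (nat_lit 80) (nat_lit 1) (nat_lit 81) (nat_lit 1) (nat_lit 302) (nat_lit 446) (nat_lit 272)) (XT.lf (nat_lit 0) (nat_lit 10942167762) (nat_lit 0) (nat_lit 11073390815) (nat_lit 152) (nat_lit 10942167762) (nat_lit 80) (nat_lit 3) (nat_lit 80) (nat_lit 1)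 (nat_lit 82) (nat_lit 1) (nat_lit 303) (nat_lit 446) (nat_lit 271)))) (XT.nd (nat_lit 78) (nat_lit 152) (nat_lit 0) (XT.lf (nat_lit 76) (nat_lit 10725366883) (nat_lit 0) (nat_lit 10850341219) (nat_lit 76) (nat_lit 10850341219) (nat_lit 80) (nat_lit 3) (nat_lit 79) (nat_lit 1) (nat_lit 80) (nat_lit 1) (nat_lit 304) (nat_lit 446) (nat_lit 270)) (XT.nd (nat_lit 78) (nat_lit 0) (nat_lit 0) (XT.lf (nat_lit 152) (nat_lit 31834405573) (nat_lit 0) (nat_lit 38394573) (nat_lit 76) (nat_lit 38394573) (nat_lit 79) (nat_lit 1) (nat_lit 77) (nat_lit 1) (nat_lit 78) (nat_lit 1) (nat_lit 305) (nat_lit 446) (nat_lit 269)) (XT.lf (nat_lit 0) (nat_lit 10426691434) (nat_lit 0) (nat_lit 10534648965) (nat_lit 152) (nat_lit 10426691434) (nat_lit 77) (nat_lit 3) (nat_lit 77) (nat_lit 1) (nat_lit 79) (nat_lit 1) (nat_lit 306) (nat_lit 446) (nat_lit 268)))))) (XT.nd (nat_lit 468) (nat_lit 532) (nat_lit 0) (XT.nd (nat_lit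 234) (nat_lit 228) (nat_lit 0) (XT.nd (nat_lit 78) (nat_lit 152) (nat_lit 0) (XT.lf (nat_lit 76) (nat_lit 10225352316) (nat_lit 0) (nat_lit 10328169012) (nat_lit 76) (nat_lit 10328169012) (nat_lit 77) (nat_lit 3) (nat_lit 76) (nat_lit 1) (nat_lit 77) (nat_lit 1) (nat_lit 307) (nat_lit 446) (nat_lit 267)) (XT.nd (nat_lit 78) (nat_lit 0) (nat_lit 0) (XT.lf (nat_lit 152) (nat_lit 30328202305) (nat_lit 0) (nat_lit 31587310) (nat_lit 76) (nat_lit 31587310) (nat_lit 76) (nat_lit 1) (nat_lit 74) (nat_lit 1) (nat_lit 75) (nat_lit 1) (nat_lit 308) (nat_lit 446) (nat_lit 266)) (XT.lf (nat_lit 0) (nat_lit 9934772406) (nat_lit 0) (nat_lit 10023589334) (nat_lit 152) (nat_lit 9934772406) (nat_lit 74) (nat_lit 3) (nat_lit 74) (nat_lit 1) (nat_lit 76) (nat_lit 1) (nat_lit 309) (nat_lit 446) (nat_lit 265)))) (XT.nd (nat_lit 78) (nat_lit 152) (nat_lit 0) (XT.lf (nat_lit 76) (nat_lit 9747247835) (nat_lit 0) (nat_lit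 9831835385) (nat_lit 76) (nat_lit 9831835385) (nat_lit 74) (nat_lit 3) (nat_lit 73) (nat_lit 1) (nat_lit 74) (nat_lit 1) (nat_lit 310) (nat_lit 446) (nat_lit 264)) (XT.nd (nat_lit 78) (nat_lit 0) (nat_lit 0) (XT.lf (nat_lit 152) (nat_lit 28891999527) (nat_lit 0) (nat_lit 25986958) (nat_lit 76) (nat_lit 25986958) (nat_lit 73) (nat_lit 1) (nat_lit 71) (nat_lit 1) (nat_lit 72) (nat_lit 1) (nat_lit 311) (nat_lit 446) (nat_lit 263)) (XT.lf (nat_lit 0) (nat_lit 9465464283) (nat_lit 0) (nat_lit 9538534189) (nat_lit 152) (nat_lit 9465464283) (nat_lit 71) (nat_lit 3) (nat_lit 71) (nat_lit 1) (nat_lit 73) (nat_lit 1) (nat_lit 312) (nat_lit 446) (nat_lit 262))))) (XT.nd (nat_lit 234) (nat_lit 304) (nat_lit 0) (XT.nd (nat_lit 78) (nat_lit 152) (nat_lit 0) (XT.lf (nat_lit 76) (nat_lit 9290346992) (nat_lit 0) (nat_lit 9359937379) (nat_lit 76) (nat_lit 9359937379) (nat_lit 71) (nat_lit 3) (nat_lit 70) (nat_lit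 1) (nat_lit 71) (nat_lit 1) (nat_lit 313) (nat_lit 446) (nat_lit 261)) (XT.nd (nat_lit 78) (nat_lit 0) (nat_lit 0) (XT.lf (nat_lit 152) (nat_lit 27522769450) (nat_lit 0) (nat_lit 21379535) (nat_lit 76) (nat_lit 21379535) (nat_lit 70) (nat_lit 1) (nat_lit 68) (nat_lit 1) (nat_lit 69) (nat_lit 1) (nat_lit 314) (nat_lit 446) (nat_lit 260)) (XT.lf (nat_lit 0) (nat_lit 9017834641) (nat_lit 0) (nat_lit 9077949433) (nat_lit 152) (nat_lit 9017834641) (nat_lit 68) (nat_lit 3) (nat_lit 68) (nat_lit 1) (nat_lit 70) (nat_lit 1) (nat_lit 315) (nat_lit 446) (nat_lit 259)))) (XT.nd (nat_lit 156) (nat_lit 76) (nat_lit 0) (XT.nd (nat_lit 78) (nat_lit 152) (nat_lit 0) (XT.lf (nat_lit 76) (nat_lit 8853917248) (nat_lit 0) (nat_lit 8911169432) (nat_lit 76) (nat_lit 8911169432) (nat_lit 68) (nat_lit 3) (nat_lit 67) (nat_lit 1) (nat_lit 68) (nat_lit 1) (nat_lit 316) (nat_lit 446) (nat_lit 258)) (XT.lf (nat_lit 152) (nat_lit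 26217574290) (nat_lit 0) (nat_lit 17588996) (nat_lit 76) (nat_lit 17588996) (nat_lit 67) (nat_lit 1) (nat_lit 65) (nat_lit 1) (nat_lit 66) (nat_lit 1) (nat_lit 317) (nat_lit 446) (nat_lit 257))) (XT.nd (nat_lit 78) (nat_lit 76) (nat_lit 0) (XT.lf (nat_lit 0) (nat_lit 8590969876) (nat_lit 0) (nat_lit 8640426465) (nat_lit 152) (nat_lit 8590969876) (nat_lit 65) (nat_lit 3) (nat_lit 65) (nat_lit 1) (nat_lit 67) (nat_lit 1) (nat_lit 318) (nat_lit 446) (nat_lit 256)) (XT.lf (nat_lit 76) (nat_lit 8437211809) (nat_lit 0) (nat_lit 8484313322) (nat_lit 76) (nat_lit 8484313322) (nat_lit 65) (nat_lit 3) (nat_lit 64) (nat_lit 1) (nat_lit 65) (nat_lit 1) (nat_lit 319) (nat_lit 446) (nat_lit 255))))))) (XT.nd (nat_lit 1014) (nat_lit 912) (nat_lit 0) (XT.nd (nat_lit 468) (nat_lit 608) (nat_lit 0) (XT.nd (nat_lit 234) (nat_lit 228) (nat_lit 0) (XT.nd (nat_lit 78) (nat_lit 76) (nat_lit 0) (XT.lf (nat_lit 152) (nat_lit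 24973571585) (nat_lit 0) (nat_lit 14470510) (nat_lit 76) (nat_lit 14470510) (nat_lit 64) (nat_lit 1) (nat_lit 62) (nat_lit 1) (nat_lit 63) (nat_lit 1) (nat_lit 320) (nat_lit 446) (nat_lit 254)) (XT.nd (nat_lit 78) (nat_lit 76) (nat_lit 0) (XT.lf (nat_lit 0) (nat_lit 8183978845) (nat_lit 0) (nat_lit 8224666902) (nat_lit 152) (nat_lit 8183978845) (nat_lit 62) (nat_lit 3) (nat_lit 62) (nat_lit 1) (nat_lit 64) (nat_lit 1) (nat_lit 321) (nat_lit 446) (nat_lit 253)) (XT.lf (nat_lit 76) (nat_lit 8039479014) (nat_lit 0) (nat_lit 8078229546) (nat_lit 76) (nat_lit 8078229546) (nat_lit 62) (nat_lit 3) (nat_lit 61) (nat_lit 1) (nat_lit 62) (nat_lit 1) (nat_lit 322) (nat_lit 446) (nat_lit 252)))) (XT.nd (nat_lit 78) (nat_lit 76) (nat_lit 0) (XT.lf (nat_lit 152) (nat_lit 23788017560) (nat_lit 0) (nat_lit 11904925) (nat_lit 76) (nat_lit 11904925) (nat_lit 61) (nat_lit 1) (nat_lit 59) (nat_lit 1) (nat_lit 60)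 (nat_lit 1) (nat_lit 323) (nat_lit 446) (nat_lit 251)) (XT.nd (nat_lit 78) (nat_lit 76) (nat_lit 0) (XT.lf (nat_lit 0) (nat_lit 7795995522) (nat_lit 0) (nat_lit 7829469688) (nat_lit 152) (nat_lit 7795995522) (nat_lit 59) (nat_lit 3) (nat_lit 59) (nat_lit 1) (nat_lit 61) (nat_lit 1) (nat_lit 324) (nat_lit 446) (nat_lit 250)) (XT.lf (nat_lit 76) (nat_lit 7659969737) (nat_lit 0) (nat_lit 7691849895) (nat_lit 76) (nat_lit 7691849895) (nat_lit 59) (nat_lit 3) (nat_lit 58) (nat_lit 1) (nat_lit 59) (nat_lit 1) (nat_lit 325) (nat_lit 446) (nat_lit 249))))) (XT.nd (nat_lit 234) (nat_lit 380) (nat_lit 0) (XT.nd (nat_lit 78) (nat_lit 76) (nat_lit 0) (XT.lf (nat_lit 152) (nat_lit 22658268930) (nat_lit 0) (nat_lit 9794211) (nat_lit 76) (nat_lit 9794211) (nat_lit 58) (nat_lit 1) (nat_lit 56) (nat_lit 1) (nat_lit 57) (nat_lit 1) (nat_lit 326) (nat_lit 446) (nat_lit 248)) (XT.nd (nat_lit 78) (nat_lit 76) (nat_lit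 0) (XT.lf (nat_lit 0) (nat_lit 7426180879) (nat_lit 0) (nat_lit 7453720158) (nat_lit 152) (nat_lit 7426180879) (nat_lit 56) (nat_lit 3) (nat_lit 56) (nat_lit 1) (nat_lit 58) (nat_lit 1) (nat_lit 327) (nat_lit 446) (nat_lit 247)) (XT.lf (nat_lit 76) (nat_lit 7297943160) (nat_lit 0) (nat_lit 7324171045) (nat_lit 76) (nat_lit 7324171045) (nat_lit 56) (nat_lit 3) (nat_lit 55) (nat_lit 1) (nat_lit 56) (nat_lit 1) (nat_lit 328) (nat_lit 446) (nat_lit 246)))) (XT.nd (nat_lit 156) (nat_lit 228) (nat_lit 0) (XT.nd (nat_lit 78) (nat_lit 0) (nat_lit 0) (XT.lf (nat_lit 152) (nat_lit 21581783458) (nat_lit 0) (nat_lit 8057721) (nat_lit 76) (nat_lit 8057721) (nat_lit 55) (nat_lit 1) (nat_lit 53) (nat_lit 1) (nat_lit 54) (nat_lit 1) (nat_lit 329) (nat_lit 446) (nat_lit 245)) (XT.lf (nat_lit 0) (nat_lit 7073724120) (nat_lit 0) (nat_lit 7096380753) (nat_lit 152) (nat_lit 7073724120) (nat_lit 53) (nat_lit 3) (nat_lit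 53) (nat_lit 1) (nat_lit 55) (nat_lit 1) (nat_lit 330) (nat_lit 446) (nat_lit 244))) (XT.nd (nat_lit 78) (nat_lit 152) (nat_lit 0) (XT.lf (nat_lit 76) (nat_lit 6952671233) (nat_lit 0) (nat_lit 6974248978) (nat_lit 76) (nat_lit 6974248978) (nat_lit 53) (nat_lit 3) (nat_lit 52) (nat_lit 1) (nat_lit 53) (nat_lit 1) (nat_lit 331) (nat_lit 446) (nat_lit 243)) (XT.lf (nat_lit 152) (nat_lit 20556119553) (nat_lit 0) (nat_lit 6629107) (nat_lit 76) (nat_lit 6629107) (nat_lit 52) (nat_lit 1) (nat_lit 50) (nat_lit 1) (nat_lit 51) (nat_lit 1) (nat_lit 332) (nat_lit 446) (nat_lit 242)))))) (XT.nd (nat_lit 468) (nat_lit 456) (nat_lit 0) (XT.nd (nat_lit 234) (nat_lit 228) (nat_lit 0) (XT.nd (nat_lit 78) (nat_lit 228) (nat_lit 0) (XT.lf (nat_lit 0) (nat_lit 6737843419) (nat_lit 0) (nat_lit 6756483087) (nat_lit 152) (nat_lit 6737843419) (nat_lit 50) (nat_lit 3) (nat_lit 50) (nat_lit 1) (nat_lit 52) (nat_lit 1) (nat_lit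 333) (nat_lit 446) (nat_lit 241)) (XT.nd (nat_lit 78) (nat_lit 152) (nat_lit 0) (XT.lf (nat_lit 76) (nat_lit 6623442052) (nat_lit 0) (nat_lit 6641194117) (nat_lit 76) (nat_lit 6641194117) (nat_lit 50) (nat_lit 3) (nat_lit 49) (nat_lit 1) (nat_lit 50) (nat_lit 1) (nat_lit 334) (nat_lit 446) (nat_lit 240)) (XT.lf (nat_lit 152) (nat_lit 19578935086) (nat_lit 0) (nat_lit 5453783) (nat_lit 76) (nat_lit 5453783) (nat_lit 49) (nat_lit 1) (nat_lit 47) (nat_lit 1) (nat_lit 48) (nat_lit 1) (nat_lit 335) (nat_lit 446) (nat_lit 239)))) (XT.nd (nat_lit 78) (nat_lit 228) (nat_lit 0) (XT.lf (nat_lit 0) (nat_lit 6417786245) (nat_lit 0) (nat_lit 6433121146) (nat_lit 152) (nat_lit 6417786245) (nat_lit 47) (nat_lit 3) (nat_lit 47) (nat_lit 1) (nat_lit 49) (nat_lit 1) (nat_lit 336) (nat_lit 446) (nat_lit 238)) (XT.nd (nat_lit 78) (nat_lit 152) (nat_lit 0) (XT.lf (nat_lit 76) (nat_lit 6309562380) (nat_lit 0) (nat_lit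 6324167048) (nat_lit 76) (nat_lit 6324167048) (nat_lit 47) (nat_lit 3) (nat_lit 46) (nat_lit 1) (nat_lit 47) (nat_lit 1) (nat_lit 337) (nat_lit 446) (nat_lit 237)) (XT.lf (nat_lit 152) (nat_lit 18647985643) (nat_lit 0) (nat_lit 4486841) (nat_lit 76) (nat_lit 4486841) (nat_lit 46) (nat_lit 1) (nat_lit 44) (nat_lit 1) (nat_lit 45) (nat_lit 1) (nat_lit 338) (nat_lit 446) (nat_lit 236))))) (XT.nd (nat_lit 234) (nat_lit 228) (nat_lit 0) (XT.nd (nat_lit 78) (nat_lit 228) (nat_lit 0) (XT.lf (nat_lit 0) (nat_lit 6112829378) (nat_lit 0) (nat_lit 6125445439) (nat_lit 152) (nat_lit 6112829378) (nat_lit 44) (nat_lit 3) (nat_lit 44) (nat_lit 1) (nat_lit 46) (nat_lit 1) (nat_lit 339) (nat_lit 446) (nat_lit 235)) (XT.nd (nat_lit 78) (nat_lit 152) (nat_lit 0) (XT.lf (nat_lit 76) (nat_lit 6010359454) (nat_lit 0) (nat_lit 6022374750) (nat_lit 76) (nat_lit 6022374750) (nat_lit 44) (nat_lit 3) (nat_lit 43) (nat_lit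 1) (nat_lit 44) (nat_lit 1) (nat_lit 340) (nat_lit 446) (nat_lit 234)) (XT.lf (nat_lit 152) (nat_lit 17761122313) (nat_lit 0) (nat_lit 3691335) (nat_lit 76) (nat_lit 3691335) (nat_lit 43) (nat_lit 1) (nat_lit 41) (nat_lit 1) (nat_lit 42) (nat_lit 1) (nat_lit 341) (nat_lit 446) (nat_lit 233)))) (XT.nd (nat_lit 156) (nat_lit 152) (nat_lit 0) (XT.nd (nat_lit 78) (nat_lit 76) (nat_lit 0) (XT.lf (nat_lit 0) (nat_lit 5822278669) (nat_lit 0) (nat_lit 5832657933) (nat_lit 152) (nat_lit 5822278669) (nat_lit 41) (nat_lit 3) (nat_lit 41) (nat_lit 1) (nat_lit 43) (nat_lit 1) (nat_lit 342) (nat_lit 446) (nat_lit 232)) (XT.lf (nat_lit 76) (nat_lit 5725182234) (nat_lit 0) (nat_lit 5735067248) (nat_lit 76) (nat_lit 5735067248) (nat_lit 41) (nat_lit 3) (nat_lit 40) (nat_lit 1) (nat_lit 41) (nat_lit 1) (nat_lit 343) (nat_lit 446) (nat_lit 231))) (XT.nd (nat_lit 78) (nat_lit 0) (nat_lit 0) (XT.lf (nat_lit 152) (nat_lit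 16916289162) (nat_lit 0) (nat_lit 3036870) (nat_lit 76) (nat_lit 3036870) (nat_lit 40) (nat_lit 1) (nat_lit 38) (nat_lit 1) (nat_lit 39) (nat_lit 1) (nat_lit 344) (nat_lit 446) (nat_lit 230)) (XT.lf (nat_lit 0) (nat_lit 5545468604) (nat_lit 0) (nat_lit 5554007651) (nat_lit 152) (nat_lit 5545468604) (nat_lit 38) (nat_lit 3) (nat_lit 38) (nat_lit 1) (nat_lit 40) (nat_lit 1) (nat_lit 345) (nat_lit 446) (nat_lit 229))))))))
noncomputable def ec494 : XT := (XT.nd (nat_lit 1950) (nat_lit 988) (nat_lit 0) (XT.nd (nat_lit 936) (nat_lit 988) (nat_lit 0) (XT.nd (nat_lit 468) (nat_lit 456) (nat_lit 0) (XT.nd (nat_lit 234) (nat_lit 228) (nat_lit 0) (XT.nd (nat_lit 78) (nat_lit 152) (nat_lit 0) (XT.lf (nat_lit 76) (nat_lit 5453402199) (nat_lit 0) (nat_lit 5461534625) (nat_lit 76) (nat_lit 5461534625) (nat_lit 38) (nat_lit 3) (nat_lit 37) (nat_lit 1) (nat_lit 38) (nat_lit 1) (nat_lit 346) (nat_lit 446) (nat_lit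 228)) (XT.nd (nat_lit 78) (nat_lit 0) (nat_lit 0) (XT.lf (nat_lit 152) (nat_lit 16111520464) (nat_lit 0) (nat_lit 2498441) (nat_lit 76) (nat_lit 2498441) (nat_lit 37) (nat_lit 1) (nat_lit 35) (nat_lit 1) (nat_lit 36) (nat_lit 1) (nat_lit 347) (nat_lit 446) (nat_lit 227)) (XT.lf (nat_lit 0) (nat_lit 5281761730) (nat_lit 0) (nat_lit 5288786825) (nat_lit 152) (nat_lit 5281761730) (nat_lit 35) (nat_lit 3) (nat_lit 35) (nat_lit 1) (nat_lit 37) (nat_lit 1) (nat_lit 348) (nat_lit 446) (nat_lit 226)))) (XT.nd (nat_lit 78) (nat_lit 152) (nat_lit 0) (XT.lf (nat_lit 76) (nat_lit 5194413777) (nat_lit 0) (nat_lit 5201104344) (nat_lit 76) (nat_lit 5201104344) (nat_lit 35) (nat_lit 3) (nat_lit 34) (nat_lit 1) (nat_lit 35) (nat_lit 1) (nat_lit 349) (nat_lit 446) (nat_lit 225)) (XT.nd (nat_lit 78) (nat_lit 0) (nat_lit 0) (XT.lf (nat_lit 152) (nat_lit 15344937763) (nat_lit 0) (nat_lit 2055473) (nat_lit 76) (nat_lit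 2055473) (nat_lit 34) (nat_lit 1) (nat_lit 32) (nat_lit 1) (nat_lit 33) (nat_lit 1) (nat_lit 350) (nat_lit 446) (nat_lit 224)) (XT.lf (nat_lit 0) (nat_lit 5030547956) (nat_lit 0) (nat_lit 5036327519) (nat_lit 152) (nat_lit 5030547956) (nat_lit 32) (nat_lit 3) (nat_lit 32) (nat_lit 1) (nat_lit 34) (nat_lit 1) (nat_lit 351) (nat_lit 446) (nat_lit 223))))) (XT.nd (nat_lit 234) (nat_lit 228) (nat_lit 0) (XT.nd (nat_lit 78) (nat_lit 152) (nat_lit 0) (XT.lf (nat_lit 76) (nat_lit 4947634491) (nat_lit 0) (nat_lit 4953138836) (nat_lit 76) (nat_lit 4953138836) (nat_lit 32) (nat_lit 3) (nat_lit 31) (nat_lit 1) (nat_lit 32) (nat_lit 1) (nat_lit 352) (nat_lit 446) (nat_lit 222)) (XT.nd (nat_lit 78) (nat_lit 0) (nat_lit 0) (XT.lf (nat_lit 152) (nat_lit 14614746850) (nat_lit 0) (nat_lit 1691043) (nat_lit 76) (nat_lit 1691043) (nat_lit 31) (nat_lit 1) (nat_lit 29) (nat_lit 1) (nat_lit 30) (nat_lit 1) (nat_lit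 353) (nat_lit 446) (nat_lit 221)) (XT.lf (nat_lit 0) (nat_lit 4791243786) (nat_lit 0) (nat_lit 4795998647) (nat_lit 152) (nat_lit 4791243786) (nat_lit 29) (nat_lit 3) (nat_lit 29) (nat_lit 1) (nat_lit 31) (nat_lit 1) (nat_lit 354) (nat_lit 446) (nat_lit 220)))) (XT.nd (nat_lit 78) (nat_lit 152) (nat_lit 0) (XT.lf (nat_lit 76) (nat_lit 4712504874) (nat_lit 0) (nat_lit 4717033313) (nat_lit 76) (nat_lit 4717033313) (nat_lit 29) (nat_lit 3) (nat_lit 28) (nat_lit 1) (nat_lit 29) (nat_lit 1) (nat_lit 355) (nat_lit 446) (nat_lit 219)) (XT.nd (nat_lit 78) (nat_lit 0) (nat_lit 0) (XT.lf (nat_lit 152) (nat_lit 13919234665) (nat_lit 0) (nat_lit 1391225) (nat_lit 76) (nat_lit 1391225) (nat_lit 28) (nat_lit 1) (nat_lit 26) (nat_lit 1) (nat_lit 27) (nat_lit 1) (nat_lit 356) (nat_lit 446) (nat_lit 218)) (XT.lf (nat_lit 0) (nat_lit 4563291485) (nat_lit 0) (nat_lit 4567203321) (nat_lit 152) (nat_lit 4563291485)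 (nat_lit 26) (nat_lit 3) (nat_lit 26) (nat_lit 1) (nat_lit 28) (nat_lit 1) (nat_lit 357) (nat_lit 446) (nat_lit 217)))))) (XT.nd (nat_lit 468) (nat_lit 532) (nat_lit 0) (XT.nd (nat_lit 234) (nat_lit 228) (nat_lit 0) (XT.nd (nat_lit 78) (nat_lit 152) (nat_lit 0) (XT.lf (nat_lit 76) (nat_lit 4488488217) (nat_lit 0) (nat_lit 4492213775) (nat_lit 76) (nat_lit 4492213775) (nat_lit 26) (nat_lit 3) (nat_lit 25) (nat_lit 1) (nat_lit 26) (nat_lit 1) (nat_lit 358) (nat_lit 446) (nat_lit 216)) (XT.nd (nat_lit 78) (nat_lit 0) (nat_lit 0) (XT.lf (nat_lit 152) (nat_lit 13256766199) (nat_lit 0) (nat_lit 1144564) (nat_lit 76) (nat_lit 1144564) (nat_lit 25) (nat_lit 1) (nat_lit 23) (nat_lit 1) (nat_lit 24) (nat_lit 1) (nat_lit 359) (nat_lit 446) (nat_lit 215)) (XT.lf (nat_lit 0) (nat_lit 4346158212) (nat_lit 0) (nat_lit 4349376489) (nat_lit 152) (nat_lit 4346158212) (nat_lit 23) (nat_lit 3) (nat_lit 23) (nat_lit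 1) (nat_lit 25) (nat_lit 1) (nat_lit 360) (nat_lit 446) (nat_lit 214)))) (XT.nd (nat_lit 78) (nat_lit 152) (nat_lit 0) (XT.lf (nat_lit 76) (nat_lit 4275070168) (nat_lit 0) (nat_lit 4278135194) (nat_lit 76) (nat_lit 4278135194) (nat_lit 23) (nat_lit 3) (nat_lit 22) (nat_lit 1) (nat_lit 23) (nat_lit 1) (nat_lit 361) (nat_lit 446) (nat_lit 213)) (XT.nd (nat_lit 78) (nat_lit 0) (nat_lit 0) (XT.lf (nat_lit 152) (nat_lit 12625781401) (nat_lit 0) (nat_lit 941636) (nat_lit 76) (nat_lit 941636) (nat_lit 22) (nat_lit 1) (nat_lit 20) (nat_lit 1) (nat_lit 21) (nat_lit 1) (nat_lit 362) (nat_lit 446) (nat_lit 212)) (XT.lf (nat_lit 0) (nat_lit 4139335131) (nat_lit 0) (nat_lit 4141982815) (nat_lit 152) (nat_lit 4139335131) (nat_lit 20) (nat_lit 3) (nat_lit 20) (nat_lit 1) (nat_lit 22) (nat_lit 1) (nat_lit 363) (nat_lit 446) (nat_lit 211))))) (XT.nd (nat_lit 234) (nat_lit 304) (nat_lit 0) (XT.nd (nat_lit 78) (nat_lit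 152) (nat_lit 0) (XT.lf (nat_lit 76) (nat_lit 4071758240) (nat_lit 0) (nat_lit 4074279844) (nat_lit 76) (nat_lit 4074279844) (nat_lit 20) (nat_lit 3) (nat_lit 19) (nat_lit 1) (nat_lit 20) (nat_lit 1) (nat_lit 364) (nat_lit 446) (nat_lit 210)) (XT.nd (nat_lit 78) (nat_lit 0) (nat_lit 0) (XT.lf (nat_lit 152) (nat_lit 12024792121) (nat_lit 0) (nat_lit 774686) (nat_lit 76) (nat_lit 774686) (nat_lit 19) (nat_lit 1) (nat_lit 17) (nat_lit 1) (nat_lit 18) (nat_lit 1) (nat_lit 365) (nat_lit 446) (nat_lit 209)) (XT.lf (nat_lit 0) (nat_lit 3942336507) (nat_lit 0) (nat_lit 3944514763) (nat_lit 152) (nat_lit 3942336507) (nat_lit 17) (nat_lit 3) (nat_lit 17) (nat_lit 1) (nat_lit 19) (nat_lit 1) (nat_lit 366) (nat_lit 446) (nat_lit 208)))) (XT.nd (nat_lit 156) (nat_lit 76) (nat_lit 0) (XT.nd (nat_lit 78) (nat_lit 152) (nat_lit 0) (XT.lf (nat_lit 76) (nat_lit 3878081231) (nat_lit 0) (nat_lit 3880155761) (nat_lit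 76) (nat_lit 3880155761) (nat_lit 17) (nat_lit 3) (nat_lit 16) (nat_lit 1) (nat_lit 17) (nat_lit 1) (nat_lit 367) (nat_lit 446) (nat_lit 207)) (XT.lf (nat_lit 152) (nat_lit 11452379108) (nat_lit 0) (nat_lit 637336) (nat_lit 76) (nat_lit 637336) (nat_lit 16) (nat_lit 1) (nat_lit 14) (nat_lit 1) (nat_lit 15) (nat_lit 1) (nat_lit 368) (nat_lit 446) (nat_lit 206))) (XT.nd (nat_lit 78) (nat_lit 76) (nat_lit 0) (XT.lf (nat_lit 0) (nat_lit 3754698811) (nat_lit 0) (nat_lit 3756490868) (nat_lit 152) (nat_lit 3754698811) (nat_lit 14) (nat_lit 3) (nat_lit 14) (nat_lit 1) (nat_lit 16) (nat_lit 1) (nat_lit 369) (nat_lit 446) (nat_lit 205)) (XT.lf (nat_lit 76) (nat_lit 3693588598) (nat_lit 0) (nat_lit 3695295319) (nat_lit 76) (nat_lit 3695295319) (nat_lit 14) (nat_lit 3) (nat_lit 13) (nat_lit 1) (nat_lit 14) (nat_lit 1) (nat_lit 370) (nat_lit 446) (nat_lit 204))))))) (XT.nd (nat_lit 936) (nat_lit 76) (nat_lit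 0) (XT.nd (nat_lit 468) (nat_lit 456) (nat_lit 0) (XT.nd (nat_lit 234) (nat_lit 228) (nat_lit 0) (XT.nd (nat_lit 78) (nat_lit 76) (nat_lit 0) (XT.lf (nat_lit 152) (nat_lit 10907189084) (nat_lit 0) (nat_lit 524338) (nat_lit 76) (nat_lit 524338) (nat_lit 13) (nat_lit 1) (nat_lit 11) (nat_lit 1) (nat_lit 12) (nat_lit 1) (nat_lit 371) (nat_lit 446) (nat_lit 203)) (XT.nd (nat_lit 78) (nat_lit 76) (nat_lit 0) (XT.lf (nat_lit 0) (nat_lit 3575979823) (nat_lit 0) (nat_lit 3577454153) (nat_lit 152) (nat_lit 3575979823) (nat_lit 11) (nat_lit 3) (nat_lit 11) (nat_lit 1) (nat_lit 13) (nat_lit 1) (nat_lit 372) (nat_lit 446) (nat_lit 202)) (XT.lf (nat_lit 76) (nat_lit 3517849786) (nat_lit 0) (nat_lit 3519253910) (nat_lit 76) (nat_lit 3519253910) (nat_lit 11) (nat_lit 3) (nat_lit 10) (nat_lit 1) (nat_lit 11) (nat_lit 1) (nat_lit 373) (nat_lit 446) (nat_lit 201)))) (XT.nd (nat_lit 78) (nat_lit 76) (nat_lit 0) (XT.lf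 (nat_lit 152) (nat_lit 10387931881) (nat_lit 0) (nat_lit 431374) (nat_lit 76) (nat_lit 431374) (nat_lit 10) (nat_lit 1) (nat_lit 8) (nat_lit 1) (nat_lit 9) (nat_lit 1) (nat_lit 374) (nat_lit 446) (nat_lit 200)) (XT.nd (nat_lit 78) (nat_lit 76) (nat_lit 0) (XT.lf (nat_lit 0) (nat_lit 3405757755) (nat_lit 0) (nat_lit 3406970690) (nat_lit 152) (nat_lit 3405757755) (nat_lit 8) (nat_lit 3) (nat_lit 8) (nat_lit 1) (nat_lit 10) (nat_lit 1) (nat_lit 375) (nat_lit 446) (nat_lit 199)) (XT.lf (nat_lit 76) (nat_lit 3350453541) (nat_lit 0) (nat_lit 3351608717) (nat_lit 76) (nat_lit 3351608717) (nat_lit 8) (nat_lit 3) (nat_lit 7) (nat_lit 1) (nat_lit 8) (nat_lit 1) (nat_lit 376) (nat_lit 446) (nat_lit 198))))) (XT.nd (nat_lit 234) (nat_lit 228) (nat_lit 0) (XT.nd (nat_lit 78) (nat_lit 76) (nat_lit 0) (XT.lf (nat_lit 152) (nat_lit 9893377674) (nat_lit 0) (nat_lit 354892) (nat_lit 76) (nat_lit 354892) (nat_lit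 7) (nat_lit 1) (nat_lit 5) (nat_lit 1) (nat_lit 6) (nat_lit 1) (nat_lit 377) (nat_lit 446) (nat_lit 197)) (XT.nd (nat_lit 78) (nat_lit 76) (nat_lit 0) (XT.lf (nat_lit 0) (nat_lit 3243630385) (nat_lit 0) (nat_lit 3244628269) (nat_lit 152) (nat_lit 3243630385) (nat_lit 5) (nat_lit 3) (nat_lit 5) (nat_lit 1) (nat_lit 7) (nat_lit 1) (nat_lit 378) (nat_lit 446) (nat_lit 196)) (XT.lf (nat_lit 76) (nat_lit 3191007196) (nat_lit 0) (nat_lit 3191957562) (nat_lit 76) (nat_lit 3191957562) (nat_lit 5) (nat_lit 3) (nat_lit 4) (nat_lit 1) (nat_lit 5) (nat_lit 1) (nat_lit 379) (nat_lit 446) (nat_lit 195)))) (XT.nd (nat_lit 78) (nat_lit 76) (nat_lit 0) (XT.lf (nat_lit 152) (nat_lit 9422354304) (nat_lit 0) (nat_lit 291971) (nat_lit 76) (nat_lit 291971) (nat_lit 4) (nat_lit 1) (nat_lit 2) (nat_lit 1) (nat_lit 3) (nat_lit 1) (nat_lit 380) (nat_lit 446) (nat_lit 194)) (XT.nd (nat_lit 78) (nat_lit 76) (nat_lit 0) (XT.lf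 (nat_lit 0) (nat_lit 3089214223) (nat_lit 0) (nat_lit 3090035185) (nat_lit 152) (nat_lit 3089214223) (nat_lit 2) (nat_lit 3) (nat_lit 2) (nat_lit 1) (nat_lit 4) (nat_lit 1) (nat_lit 381) (nat_lit 446) (nat_lit 193)) (XT.lf (nat_lit 76) (nat_lit 3039135971) (nat_lit 0) (nat_lit 3039917840) (nat_lit 76) (nat_lit 3039917840) (nat_lit 2) (nat_lit 3) (nat_lit 1) (nat_lit 1) (nat_lit 2) (nat_lit 1) (nat_lit 382) (nat_lit 446) (nat_lit 192)))))) (XT.nd (nat_lit 468) (nat_lit 0) (nat_lit 0) (XT.nd (nat_lit 234) (nat_lit 0) (nat_lit 0) (XT.nd (nat_lit 78) (nat_lit 0) (nat_lit 0) (XT.lf (nat_lit 0) (nat_lit 189220108558) (nat_lit 0) (nat_lit 0) (nat_lit 0) (nat_lit 0) (nat_lit 0) (nat_lit 0) (nat_lit 1) (nat_lit 0) (nat_lit 1) (nat_lit 0) (nat_lit 383) (nat_lit 446) (nat_lit 191)) (XT.nd (nat_lit 78) (nat_lit 0) (nat_lit 0) (XT.lf (nat_lit 0) (nat_lit 189220072956) (nat_lit 0) (nat_lit 0) (nat_lit 0) (nat_lit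 0) (nat_lit 0) (nat_lit 0) (nat_lit 1) (nat_lit 0) (nat_lit 1) (nat_lit 0) (nat_lit 384) (nat_lit 446) (nat_lit 190)) (XT.lf (nat_lit 0) (nat_lit 189220039049) (nat_lit 0) (nat_lit 0) (nat_lit 0) (nat_lit 0) (nat_lit 0) (nat_lit 0) (nat_lit 1) (nat_lit 0) (nat_lit 1) (nat_lit 0) (nat_lit 385) (nat_lit 446) (nat_lit 189)))) (XT.nd (nat_lit 78) (nat_lit 0) (nat_lit 0) (XT.lf (nat_lit 0) (nat_lit 189220006757) (nat_lit 0) (nat_lit 0) (nat_lit 0) (nat_lit 0) (nat_lit 0) (nat_lit 0) (nat_lit 1) (nat_lit 0) (nat_lit 1) (nat_lit 0) (nat_lit 386) (nat_lit 446) (nat_lit 188)) (XT.nd (nat_lit 78) (nat_lit 0) (nat_lit 0) (XT.lf (nat_lit 0) (nat_lit 189219976003) (nat_lit 0) (nat_lit 0) (nat_lit 0) (nat_lit 0) (nat_lit 0) (nat_lit 0) (nat_lit 1) (nat_lit 0) (nat_lit 1) (nat_lit 0) (nat_lit 387) (nat_lit 446) (nat_lit 187)) (XT.lf (nat_lit 0) (nat_lit 189219946713) (nat_lit 0) (nat_lit 0) (nat_lit 0) (nat_lit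 0) (nat_lit 0) (nat_lit 0) (nat_lit 1) (nat_lit 0) (nat_lit 1) (nat_lit 0) (nat_lit 388) (nat_lit 446) (nat_lit 186))))) (XT.nd (nat_lit 234) (nat_lit 0) (nat_lit 0) (XT.nd (nat_lit 78) (nat_lit 0) (nat_lit 0) (XT.lf (nat_lit 0) (nat_lit 189219918818) (nat_lit 0) (nat_lit 0) (nat_lit 0) (nat_lit 0) (nat_lit 0) (nat_lit 0) (nat_lit 1) (nat_lit 0) (nat_lit 1) (nat_lit 0) (nat_lit 389) (nat_lit 446) (nat_lit 185)) (XT.nd (nat_lit 78) (nat_lit 0) (nat_lit 0) (XT.lf (nat_lit 0) (nat_lit 189219892251) (nat_lit 0) (nat_lit 0) (nat_lit 0) (nat_lit 0) (nat_lit 0) (nat_lit 0) (nat_lit 1) (nat_lit 0) (nat_lit 1) (nat_lit 0) (nat_lit 390) (nat_lit 446) (nat_lit 184)) (XT.lf (nat_lit 0) (nat_lit 189219866949) (nat_lit 0) (nat_lit 0) (nat_lit 0) (nat_lit 0) (nat_lit 0) (nat_lit 0) (nat_lit 1) (nat_lit 0) (nat_lit 1) (nat_lit 0) (nat_lit 391) (nat_lit 446) (nat_lit 183)))) (XT.nd (nat_lit 156) (nat_lit 0) (nat_lit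 0) (XT.nd (nat_lit 78) (nat_lit 0) (nat_lit 0) (XT.lf (nat_lit 0) (nat_lit 189219842852) (nat_lit 0) (nat_lit 0) (nat_lit 0) (nat_lit 0) (nat_lit 0) (nat_lit 0) (nat_lit 1) (nat_lit 0) (nat_lit 1) (nat_lit 0) (nat_lit 392) (nat_lit 446) (nat_lit 182)) (XT.lf (nat_lit 0) (nat_lit 189219819903) (nat_lit 0) (nat_lit 0) (nat_lit 0) (nat_lit 0) (nat_lit 0) (nat_lit 0) (nat_lit 1) (nat_lit 0) (nat_lit 1) (nat_lit 0) (nat_lit 393) (nat_lit 446) (nat_lit 181))) (XT.nd (nat_lit 78) (nat_lit 0) (nat_lit 0) (XT.lf (nat_lit 0) (nat_lit 189219798046) (nat_lit 0) (nat_lit 0) (nat_lit 0) (nat_lit 0) (nat_lit 0) (nat_lit 0) (nat_lit 1) (nat_lit 0) (nat_lit 1) (nat_lit 0) (nat_lit 394) (nat_lit 446) (nat_lit 180)) (XT.lf (nat_lit 0) (nat_lit 189219777230) (nat_lit 0) (nat_lit 0) (nat_lit 0) (nat_lit 0) (nat_lit 0) (nat_lit 0) (nat_lit 1) (nat_lit 0) (nat_lit 1) (nat_lit 0) (nat_lit 395) (nat_lit 446) (nat_lit 179))))))))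
noncomputable def ec495 : XT := (XT.nd (nat_lit 38532) (nat_lit 0) (nat_lit 11096) (XT.nd (nat_lit 37518) (nat_lit 0) (nat_lit 13148) (XT.nd (nat_lit 37050) (nat_lit 0) (nat_lit 14060) (XT.nd (nat_lit 36816) (nat_lit 0) (nat_lit 14516) (XT.nd (nat_lit 36660) (nat_lit 0) (nat_lit 14820) (XT.lf (nat_lit 0) (nat_lit 189219757406) (nat_lit 0) (nat_lit 0) (nat_lit 0) (nat_lit 0) (nat_lit 0) (nat_lit 0) (nat_lit 1) (nat_lit 0) (nat_lit 1) (nat_lit 0) (nat_lit 396) (nat_lit 446) (nat_lit 178)) (XT.nd (nat_lit 78) (nat_lit 76) (nat_lit 0) (XT.lf (nat_lit 76) (nat_lit 68184538005) (nat_lit 0) (nat_lit 96095355372) (nat_lit 228) (nat_lit 68184538005) (nat_lit 197) (nat_lit 1) (nat_lit 196) (nat_lit 1) (nat_lit 199) (nat_lit 1) (nat_lit 185) (nat_lit 447) (nat_lit 388)) (XT.lf (nat_lit 152) (nat_lit 65584002296) (nat_lit 0) (nat_lit 81468515059) (nat_lit 76) (nat_lit 81468515059) (nat_lit 197) (nat_lit 1)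 (nat_lit 195) (nat_lit 1) (nat_lit 196) (nat_lit 1) (nat_lit 186) (nat_lit 447) (nat_lit 387)))) (XT.nd (nat_lit 78) (nat_lit 76) (nat_lit 0) (XT.lf (nat_lit 228) (nat_lit 221851003856) (nat_lit 0) (nat_lit 1429319138) (nat_lit 152) (nat_lit 1429319138) (nat_lit 195) (nat_lit 1) (nat_lit 192) (nat_lit 1) (nat_lit 194) (nat_lit 1) (nat_lit 187) (nat_lit 447) (nat_lit 386)) (XT.nd (nat_lit 78) (nat_lit 76) (nat_lit 0) (XT.lf (nat_lit 76) (nat_lit 75675560264) (nat_lit 0) (nat_lit 69506680775) (nat_lit 228) (nat_lit 75675560264) (nat_lit 193) (nat_lit 1) (nat_lit 192) (nat_lit 1) (nat_lit 195) (nat_lit 1) (nat_lit 188) (nat_lit 447) (nat_lit 385)) (XT.lf (nat_lit 152) (nat_lit 83087299005) (nat_lit 0) (nat_lit 67024348956) (nat_lit 76) (nat_lit 67024348956) (nat_lit 193) (nat_lit 1) (nat_lit 191) (nat_lit 1) (nat_lit 192) (nat_lit 1) (nat_lit 189) (nat_lit 447) (nat_lit 384))))) (XT.nd (nat_lit 234)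 (nat_lit 228) (nat_lit 0) (XT.nd (nat_lit 78) (nat_lit 228) (nat_lit 0) (XT.lf (nat_lit 0) (nat_lit 8356024390) (nat_lit 0) (nat_lit 196814511253) (nat_lit 152) (nat_lit 8356024390) (nat_lit 191) (nat_lit 3) (nat_lit 191) (nat_lit 1) (nat_lit 193) (nat_lit 1) (nat_lit 190) (nat_lit 447) (nat_lit 383)) (XT.nd (nat_lit 78) (nat_lit 76) (nat_lit 0) (XT.lf (nat_lit 76) (nat_lit 80906063191) (nat_lit 0) (nat_lit 48086931713) (nat_lit 152) (nat_lit 80906063191) (nat_lit 190) (nat_lit 1) (nat_lit 189) (nat_lit 1) (nat_lit 191) (nat_lit 1) (nat_lit 191) (nat_lit 447) (nat_lit 382)) (XT.lf (nat_lit 152) (nat_lit 96100105571) (nat_lit 0) (nat_lit 55141097758) (nat_lit 76) (nat_lit 55141097758) (nat_lit 190) (nat_lit 1) (nat_lit 188) (nat_lit 1) (nat_lit 189) (nat_lit 1) (nat_lit 192) (nat_lit 447) (nat_lit 381)))) (XT.nd (nat_lit 78) (nat_lit 228) (nat_lit 0) (XT.lf (nat_lit 0) (nat_lit 15970908521) (nat_lit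 0) (nat_lit 171016172059) (nat_lit 152) (nat_lit 15970908521) (nat_lit 188) (nat_lit 3) (nat_lit 188) (nat_lit 1) (nat_lit 190) (nat_lit 1) (nat_lit 193) (nat_lit 447) (nat_lit 380)) (XT.nd (nat_lit 78) (nat_lit 76) (nat_lit 0) (XT.lf (nat_lit 76) (nat_lit 84321230299) (nat_lit 0) (nat_lit 30898012415) (nat_lit 152) (nat_lit 84321230299) (nat_lit 187) (nat_lit 1) (nat_lit 186) (nat_lit 1) (nat_lit 188) (nat_lit 1) (nat_lit 194) (nat_lit 447) (nat_lit 379)) (XT.lf (nat_lit 152) (nat_lit 105484631878) (nat_lit 0) (nat_lit 45364717588) (nat_lit 76) (nat_lit 45364717588) (nat_lit 187) (nat_lit 1) (nat_lit 185) (nat_lit 1) (nat_lit 186) (nat_lit 1) (nat_lit 195) (nat_lit 447) (nat_lit 378)))))) (XT.nd (nat_lit 468) (nat_lit 456) (nat_lit 0) (XT.nd (nat_lit 234) (nat_lit 228) (nat_lit 0) (XT.nd (nat_lit 78) (nat_lit 228) (nat_lit 0) (XT.lf (nat_lit 0) (nat_lit 21802531275) (nat_lit 0) (nat_lit 149358653292)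 (nat_lit 152) (nat_lit 21802531275) (nat_lit 185) (nat_lit 3) (nat_lit 185) (nat_lit 1) (nat_lit 187) (nat_lit 1) (nat_lit 196) (nat_lit 447) (nat_lit 377)) (XT.nd (nat_lit 78) (nat_lit 76) (nat_lit 0) (XT.lf (nat_lit 76) (nat_lit 86285200926) (nat_lit 0) (nat_lit 17169180508) (nat_lit 152) (nat_lit 86285200926) (nat_lit 184) (nat_lit 1) (nat_lit 183) (nat_lit 1) (nat_lit 185) (nat_lit 1) (nat_lit 197) (nat_lit 447) (nat_lit 376)) (XT.lf (nat_lit 152) (nat_lit 111947074552) (nat_lit 0) (nat_lit 37321665428) (nat_lit 76) (nat_lit 37321665428) (nat_lit 184) (nat_lit 1) (nat_lit 182) (nat_lit 1) (nat_lit 183) (nat_lit 1) (nat_lit 198) (nat_lit 447) (nat_lit 375)))) (XT.nd (nat_lit 78) (nat_lit 228) (nat_lit 0) (XT.lf (nat_lit 0) (nat_lit 26187687208) (nat_lit 0) (nat_lit 131128424467) (nat_lit 152) (nat_lit 26187687208) (nat_lit 182) (nat_lit 3) (nat_lit 182) (nat_lit 1) (nat_lit 184) (nat_lit 1)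 (nat_lit 199) (nat_lit 447) (nat_lit 374)) (XT.nd (nat_lit 78) (nat_lit 76) (nat_lit 0) (XT.lf (nat_lit 76) (nat_lit 87095539846) (nat_lit 0) (nat_lit 6267326559) (nat_lit 152) (nat_lit 87095539846) (nat_lit 181) (nat_lit 1) (nat_lit 180) (nat_lit 1) (nat_lit 182) (nat_lit 1) (nat_lit 200) (nat_lit 447) (nat_lit 373)) (XT.lf (nat_lit 152) (nat_lit 116065427521) (nat_lit 0) (nat_lit 30704626511) (nat_lit 76) (nat_lit 30704626511) (nat_lit 181) (nat_lit 1) (nat_lit 179) (nat_lit 1) (nat_lit 180) (nat_lit 1) (nat_lit 201) (nat_lit 447) (nat_lit 372))))) (XT.nd (nat_lit 234) (nat_lit 228) (nat_lit 0) (XT.nd (nat_lit 78) (nat_lit 228) (nat_lit 0) (XT.lf (nat_lit 0) (nat_lit 29402475810) (nat_lit 0) (nat_lit 115737480059) (nat_lit 152) (nat_lit 29402475810) (nat_lit 179) (nat_lit 3) (nat_lit 179) (nat_lit 1) (nat_lit 181) (nat_lit 1) (nat_lit 202) (nat_lit 447) (nat_lit 371)) (XT.nd (nat_lit 78) (nat_lit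 152) (nat_lit 0) (XT.lf (nat_lit 76) (nat_lit 2404431500) (nat_lit 0) (nat_lit 84628245071) (nat_lit 76) (nat_lit 84628245071) (nat_lit 179) (nat_lit 3) (nat_lit 178) (nat_lit 1) (nat_lit 179) (nat_lit 1) (nat_lit 203) (nat_lit 447) (nat_lit 370)) (XT.lf (nat_lit 152) (nat_lit 118312354690) (nat_lit 0) (nat_lit 25260772218) (nat_lit 76) (nat_lit 25260772218) (nat_lit 178) (nat_lit 1) (nat_lit 176) (nat_lit 1) (nat_lit 177) (nat_lit 1) (nat_lit 204) (nat_lit 447) (nat_lit 369)))) (XT.nd (nat_lit 156) (nat_lit 152) (nat_lit 0) (XT.nd (nat_lit 78) (nat_lit 76) (nat_lit 0) (XT.lf (nat_lit 0) (nat_lit 31673109362) (nat_lit 0) (nat_lit 102701131019) (nat_lit 152) (nat_lit 31673109362) (nat_lit 176) (nat_lit 3) (nat_lit 176) (nat_lit 1) (nat_lit 178) (nat_lit 1) (nat_lit 205) (nat_lit 447) (nat_lit 368)) (XT.lf (nat_lit 76) (nat_lit 9341047949) (nat_lit 0) (nat_lit 76986782860) (nat_lit 76) (nat_lit 76986782860)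 (nat_lit 176) (nat_lit 3) (nat_lit 175) (nat_lit 1) (nat_lit 176) (nat_lit 1) (nat_lit 206) (nat_lit 447) (nat_lit 367))) (XT.nd (nat_lit 78) (nat_lit 0) (nat_lit 0) (XT.lf (nat_lit 152) (nat_lit 119074000554) (nat_lit 0) (nat_lit 20782099819) (nat_lit 76) (nat_lit 20782099819) (nat_lit 175) (nat_lit 1) (nat_lit 173) (nat_lit 1) (nat_lit 174) (nat_lit 1) (nat_lit 207) (nat_lit 447) (nat_lit 366)) (XT.lf (nat_lit 0) (nat_lit 33184802359) (nat_lit 0) (nat_lit 91619731555) (nat_lit 152) (nat_lit 33184802359) (nat_lit 173) (nat_lit 3) (nat_lit 173) (nat_lit 1) (nat_lit 175) (nat_lit 1) (nat_lit 208) (nat_lit 447) (nat_lit 365))))))) (XT.nd (nat_lit 1014) (nat_lit 1064) (nat_lit 0) (XT.nd (nat_lit 468) (nat_lit 532) (nat_lit 0) (XT.nd (nat_lit 234) (nat_lit 228) (nat_lit 0) (XT.nd (nat_lit 78) (nat_lit 152) (nat_lit 0) (XT.lf (nat_lit 76) (nat_lit 14697204411) (nat_lit 0) (nat_lit 70349517931) (nat_lit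 76) (nat_lit 70349517931) (nat_lit 173) (nat_lit 3) (nat_lit 172) (nat_lit 1) (nat_lit 173) (nat_lit 1) (nat_lit 209) (nat_lit 447) (nat_lit 364)) (XT.nd (nat_lit 78) (nat_lit 0) (nat_lit 0) (XT.lf (nat_lit 152) (nat_lit 118665459275) (nat_lit 0) (nat_lit 17097484952) (nat_lit 76) (nat_lit 17097484952) (nat_lit 172) (nat_lit 1) (nat_lit 170) (nat_lit 1) (nat_lit 171) (nat_lit 1) (nat_lit 210) (nat_lit 447) (nat_lit 363)) (XT.lf (nat_lit 0) (nat_lit 34089082742) (nat_lit 0) (nat_lit 82163643607) (nat_lit 152) (nat_lit 34089082742) (nat_lit 170) (nat_lit 3) (nat_lit 170) (nat_lit 1) (nat_lit 172) (nat_lit 1) (nat_lit 211) (nat_lit 447) (nat_lit 362)))) (XT.nd (nat_lit 78) (nat_lit 152) (nat_lit 0) (XT.lf (nat_lit 76) (nat_lit 18769808485) (nat_lit 0) (nat_lit 64555104546) (nat_lit 76) (nat_lit 64555104546) (nat_lit 170) (nat_lit 3) (nat_lit 169) (nat_lit 1) (nat_lit 170) (nat_lit 1) (nat_lit 212)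 (nat_lit 447) (nat_lit 361)) (XT.nd (nat_lit 78) (nat_lit 0) (nat_lit 0) (XT.lf (nat_lit 152) (nat_lit 117343494956) (nat_lit 0) (nat_lit 14066143183) (nat_lit 76) (nat_lit 14066143183) (nat_lit 169) (nat_lit 1) (nat_lit 167) (nat_lit 1) (nat_lit 168) (nat_lit 1) (nat_lit 213) (nat_lit 447) (nat_lit 360)) (XT.lf (nat_lit 0) (nat_lit 34509804847) (nat_lit 0) (nat_lit 74060865044) (nat_lit 152) (nat_lit 34509804847) (nat_lit 167) (nat_lit 3) (nat_lit 167) (nat_lit 1) (nat_lit 169) (nat_lit 1) (nat_lit 214) (nat_lit 447) (nat_lit 359))))) (XT.nd (nat_lit 234) (nat_lit 304) (nat_lit 0) (XT.nd (nat_lit 78) (nat_lit 152) (nat_lit 0) (XT.lf (nat_lit 76) (nat_lit 21802331743) (nat_lit 0) (nat_lit 59470008122) (nat_lit 76) (nat_lit 59470008122) (nat_lit 167) (nat_lit 3) (nat_lit 166) (nat_lit 1) (nat_lit 167) (nat_lit 1) (nat_lit 215) (nat_lit 447) (nat_lit 358)) (XT.nd (nat_lit 78) (nat_lit 0) (nat_lit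 0) (XT.lf (nat_lit 152) (nat_lit 115317000786) (nat_lit 0) (nat_lit 11572250807) (nat_lit 76) (nat_lit 11572250807) (nat_lit 166) (nat_lit 1) (nat_lit 164) (nat_lit 1) (nat_lit 165) (nat_lit 1) (nat_lit 216) (nat_lit 447) (nat_lit 357)) (XT.lf (nat_lit 0) (nat_lit 34548094339) (nat_lit 0) (nat_lit 67086849444) (nat_lit 152) (nat_lit 34548094339) (nat_lit 164) (nat_lit 3) (nat_lit 164) (nat_lit 1) (nat_lit 166) (nat_lit 1) (nat_lit 217) (nat_lit 447) (nat_lit 356)))) (XT.nd (nat_lit 156) (nat_lit 76) (nat_lit 0) (XT.nd (nat_lit 78) (nat_lit 152) (nat_lit 0) (XT.lf (nat_lit 76) (nat_lit 23994321663) (nat_lit 0) (nat_lit 54983612240) (nat_lit 76) (nat_lit 54983612240) (nat_lit 164) (nat_lit 3) (nat_lit 163) (nat_lit 1) (nat_lit 164) (nat_lit 1) (nat_lit 218) (nat_lit 447) (nat_lit 355)) (XT.lf (nat_lit 152) (nat_lit 112755598203) (nat_lit 0) (nat_lit 9520519378) (nat_lit 76) (nat_lit 9520519378) (nat_lit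 163) (nat_lit 1) (nat_lit 161) (nat_lit 1) (nat_lit 162) (nat_lit 1) (nat_lit 219) (nat_lit 447) (nat_lit 354))) (XT.nd (nat_lit 78) (nat_lit 76) (nat_lit 0) (XT.lf (nat_lit 0) (nat_lit 34286414604) (nat_lit 0) (nat_lit 61056128955) (nat_lit 152) (nat_lit 34286414604) (nat_lit 161) (nat_lit 3) (nat_lit 161) (nat_lit 1) (nat_lit 163) (nat_lit 1) (nat_lit 220) (nat_lit 447) (nat_lit 353)) (XT.lf (nat_lit 76) (nat_lit 25509225320) (nat_lit 0) (nat_lit 51004191369) (nat_lit 76) (nat_lit 51004191369) (nat_lit 161) (nat_lit 3) (nat_lit 160) (nat_lit 1) (nat_lit 161) (nat_lit 1) (nat_lit 221) (nat_lit 447) (nat_lit 352)))))) (XT.nd (nat_lit 468) (nat_lit 608) (nat_lit 0) (XT.nd (nat_lit 234) (nat_lit 228) (nat_lit 0) (XT.nd (nat_lit 78) (nat_lit 76) (nat_lit 0) (XT.lf (nat_lit 152) (nat_lit 109796706137) (nat_lit 0) (nat_lit 7832554853) (nat_lit 76) (nat_lit 7832554853) (nat_lit 160) (nat_lit 1) (nat_lit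 158) (nat_lit 1) (nat_lit 159) (nat_lit 1) (nat_lit 222) (nat_lit 447) (nat_lit 351)) (XT.nd (nat_lit 78) (nat_lit 76) (nat_lit 0) (XT.lf (nat_lit 0) (nat_lit 33791910424) (nat_lit 0) (nat_lit 55815420671) (nat_lit 152) (nat_lit 33791910424) (nat_lit 158) (nat_lit 3) (nat_lit 158) (nat_lit 1) (nat_lit 160) (nat_lit 1) (nat_lit 223) (nat_lit 447) (nat_lit 350)) (XT.lf (nat_lit 76) (nat_lit 26480824236) (nat_lit 0) (nat_lit 47455595899) (nat_lit 76) (nat_lit 47455595899) (nat_lit 158) (nat_lit 3) (nat_lit 157) (nat_lit 1) (nat_lit 158) (nat_lit 1) (nat_lit 224) (nat_lit 447) (nat_lit 349)))) (XT.nd (nat_lit 78) (nat_lit 76) (nat_lit 0) (XT.lf (nat_lit 152) (nat_lit 106551351814) (nat_lit 0) (nat_lit 6443862262) (nat_lit 76) (nat_lit 6443862262) (nat_lit 157) (nat_lit 1) (nat_lit 155) (nat_lit 1) (nat_lit 156) (nat_lit 1) (nat_lit 225) (nat_lit 447) (nat_lit 348)) (XT.nd (nat_lit 78) (nat_lit 76)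 (nat_lit 0) (XT.lf (nat_lit 0) (nat_lit 33119157170) (nat_lit 0) (nat_lit 51237953554) (nat_lit 152) (nat_lit 33119157170) (nat_lit 155) (nat_lit 3) (nat_lit 155) (nat_lit 1) (nat_lit 157) (nat_lit 1) (nat_lit 226) (nat_lit 447) (nat_lit 347)) (XT.lf (nat_lit 76) (nat_lit 27018526714) (nat_lit 0) (nat_lit 44274523270) (nat_lit 76) (nat_lit 44274523270) (nat_lit 155) (nat_lit 3) (nat_lit 154) (nat_lit 1) (nat_lit 155) (nat_lit 1) (nat_lit 227) (nat_lit 447) (nat_lit 346))))) (XT.nd (nat_lit 234) (nat_lit 380) (nat_lit 0) (XT.nd (nat_lit 78) (nat_lit 76) (nat_lit 0) (XT.lf (nat_lit 152) (nat_lit 103108946497) (nat_lit 0) (nat_lit 5301381430) (nat_lit 76) (nat_lit 5301381430) (nat_lit 154) (nat_lit 1) (nat_lit 152) (nat_lit 1) (nat_lit 153) (nat_lit 1) (nat_lit 228) (nat_lit 447) (nat_lit 345)) (XT.nd (nat_lit 78) (nat_lit 76) (nat_lit 0) (XT.lf (nat_lit 0) (nat_lit 32312420983) (nat_lit 0) (nat_lit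 47218799608) (nat_lit 152) (nat_lit 32312420983) (nat_lit 152) (nat_lit 3) (nat_lit 152) (nat_lit 1) (nat_lit 154) (nat_lit 1) (nat_lit 229) (nat_lit 447) (nat_lit 344)) (XT.lf (nat_lit 76) (nat_lit 27211720299) (nat_lit 0) (nat_lit 41408271370) (nat_lit 76) (nat_lit 41408271370) (nat_lit 152) (nat_lit 3) (nat_lit 151) (nat_lit 1) (nat_lit 152) (nat_lit 1) (nat_lit 230) (nat_lit 447) (nat_lit 343)))) (XT.nd (nat_lit 156) (nat_lit 228) (nat_lit 0) (XT.nd (nat_lit 78) (nat_lit 0) (nat_lit 0) (XT.lf (nat_lit 152) (nat_lit 99541209902) (nat_lit 0) (nat_lit 4361459622) (nat_lit 76) (nat_lit 4361459622) (nat_lit 151) (nat_lit 1) (nat_lit 149) (nat_lit 1) (nat_lit 150) (nat_lit 1) (nat_lit 231) (nat_lit 447) (nat_lit 342)) (XT.lf (nat_lit 0) (nat_lit 31407516724) (nat_lit 0) (nat_lit 43671031309) (nat_lit 152) (nat_lit 31407516724) (nat_lit 149) (nat_lit 3) (nat_lit 149) (nat_lit 1) (nat_lit 151) (nat_lit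 1) (nat_lit 232) (nat_lit 447) (nat_lit 341))) (XT.nd (nat_lit 78) (nat_lit 152) (nat_lit 0) (XT.lf (nat_lit 76) (nat_lit 27133351067) (nat_lit 0) (nat_lit 38812888767) (nat_lit 76) (nat_lit 38812888767) (nat_lit 149) (nat_lit 3) (nat_lit 148) (nat_lit 1) (nat_lit 149) (nat_lit 1) (nat_lit 233) (nat_lit 447) (nat_lit 340)) (XT.lf (nat_lit 152) (nat_lit 95905394440) (nat_lit 0) (nat_lit 3588183625) (nat_lit 76) (nat_lit 3588183625) (nat_lit 148) (nat_lit 1) (nat_lit 146) (nat_lit 1) (nat_lit 147) (nat_lit 1) (nat_lit 234) (nat_lit 447) (nat_lit 339))))))))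
noncomputable def ec496 : XT := (XT.nd (nat_lit 1950) (nat_lit 1900) (nat_lit 0) (XT.nd (nat_lit 936) (nat_lit 912) (nat_lit 0) (XT.nd (nat_lit 468) (nat_lit 456) (nat_lit 0) (XT.nd (nat_lit 234) (nat_lit 228) (nat_lit 0) (XT.nd (nat_lit 78) (nat_lit 228) (nat_lit 0) (XT.lf (nat_lit 0) (nat_lit 30433335083) (nat_lit 0) (nat_lit 40522558882) (nat_lit 152) (nat_lit 30433335083) (nat_lit 146) (nat_lit 3) (nat_lit 146) (nat_lit 1) (nat_lit 148) (nat_lit 1) (nat_lit 235) (nat_lit 447) (nat_lit 338)) (XT.nd (nat_lit 78) (nat_lit 152) (nat_lit 0) (XT.lf (nat_lit 76) (nat_lit 26842866914) (nat_lit 0) (nat_lit 36451651484) (nat_lit 76) (nat_lit 36451651484) (nat_lit 146) (nat_lit 3) (nat_lit 145) (nat_lit 1) (nat_lit 146) (nat_lit 1) (nat_lit 236) (nat_lit 447) (nat_lit 337)) (XT.lf (nat_lit 152) (nat_lit 92246933647) (nat_lit 0) (nat_lit 2952007548) (nat_lit 76) (nat_lit 2952007548) (nat_lit 145) (nat_lit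 1) (nat_lit 143) (nat_lit 1) (nat_lit 144) (nat_lit 1) (nat_lit 237) (nat_lit 447) (nat_lit 336)))) (XT.nd (nat_lit 78) (nat_lit 228) (nat_lit 0) (XT.lf (nat_lit 0) (nat_lit 29413097563) (nat_lit 0) (nat_lit 37713526951) (nat_lit 152) (nat_lit 29413097563) (nat_lit 143) (nat_lit 3) (nat_lit 143) (nat_lit 1) (nat_lit 145) (nat_lit 1) (nat_lit 238) (nat_lit 447) (nat_lit 335)) (XT.nd (nat_lit 78) (nat_lit 152) (nat_lit 0) (XT.lf (nat_lit 76) (nat_lit 26388637652) (nat_lit 0) (nat_lit 34293808498) (nat_lit 76) (nat_lit 34293808498) (nat_lit 143) (nat_lit 3) (nat_lit 142) (nat_lit 1) (nat_lit 143) (nat_lit 1) (nat_lit 239) (nat_lit 447) (nat_lit 334)) (XT.lf (nat_lit 152) (nat_lit 88601617074) (nat_lit 0) (nat_lit 2428623915) (nat_lit 76) (nat_lit 2428623915) (nat_lit 142) (nat_lit 1) (nat_lit 140) (nat_lit 1) (nat_lit 141) (nat_lit 1) (nat_lit 240) (nat_lit 447) (nat_lit 333))))) (XT.nd (nat_lit 234)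 (nat_lit 228) (nat_lit 0) (XT.nd (nat_lit 78) (nat_lit 228) (nat_lit 0) (XT.lf (nat_lit 0) (nat_lit 28365387655) (nat_lit 0) (nat_lit 35194171454) (nat_lit 152) (nat_lit 28365387655) (nat_lit 140) (nat_lit 3) (nat_lit 140) (nat_lit 1) (nat_lit 142) (nat_lit 1) (nat_lit 241) (nat_lit 447) (nat_lit 332)) (XT.nd (nat_lit 78) (nat_lit 152) (nat_lit 0) (XT.lf (nat_lit 76) (nat_lit 25809944751) (nat_lit 0) (nat_lit 32313548370) (nat_lit 76) (nat_lit 32313548370) (nat_lit 140) (nat_lit 3) (nat_lit 139) (nat_lit 1) (nat_lit 140) (nat_lit 1) (nat_lit 242) (nat_lit 447) (nat_lit 331)) (XT.lf (nat_lit 152) (nat_lit 84997375801) (nat_lit 0) (nat_lit 1998034905) (nat_lit 76) (nat_lit 1998034905) (nat_lit 139) (nat_lit 1) (nat_lit 137) (nat_lit 1) (nat_lit 138) (nat_lit 1) (nat_lit 243) (nat_lit 447) (nat_lit 330)))) (XT.nd (nat_lit 78) (nat_lit 228) (nat_lit 0) (XT.lf (nat_lit 0) (nat_lit 27304997954) (nat_lit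 0) (nat_lit 32923055286) (nat_lit 152) (nat_lit 27304997954) (nat_lit 137) (nat_lit 3) (nat_lit 137) (nat_lit 1) (nat_lit 139) (nat_lit 1) (nat_lit 244) (nat_lit 447) (nat_lit 329)) (XT.nd (nat_lit 78) (nat_lit 152) (nat_lit 0) (XT.lf (nat_lit 76) (nat_lit 25138617087) (nat_lit 0) (nat_lit 30489147879) (nat_lit 76) (nat_lit 30489147879) (nat_lit 137) (nat_lit 3) (nat_lit 136) (nat_lit 1) (nat_lit 137) (nat_lit 1) (nat_lit 245) (nat_lit 447) (nat_lit 328)) (XT.lf (nat_lit 152) (nat_lit 81455747768) (nat_lit 0) (nat_lit 1643788261) (nat_lit 76) (nat_lit 1643788261) (nat_lit 136) (nat_lit 1) (nat_lit 134) (nat_lit 1) (nat_lit 135) (nat_lit 1) (nat_lit 246) (nat_lit 447) (nat_lit 327)))))) (XT.nd (nat_lit 468) (nat_lit 456) (nat_lit 0) (XT.nd (nat_lit 234) (nat_lit 228) (nat_lit 0) (XT.nd (nat_lit 78) (nat_lit 228) (nat_lit 0) (XT.lf (nat_lit 0) (nat_lit 26243625898) (nat_lit 0) (nat_lit 30865615568)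 (nat_lit 152) (nat_lit 26243625898) (nat_lit 134) (nat_lit 3) (nat_lit 134) (nat_lit 1) (nat_lit 136) (nat_lit 1) (nat_lit 247) (nat_lit 447) (nat_lit 326)) (XT.nd (nat_lit 78) (nat_lit 152) (nat_lit 0) (XT.lf (nat_lit 76) (nat_lit 24400375505) (nat_lit 0) (nat_lit 28802270429) (nat_lit 76) (nat_lit 28802270429) (nat_lit 134) (nat_lit 3) (nat_lit 133) (nat_lit 1) (nat_lit 134) (nat_lit 1) (nat_lit 248) (nat_lit 447) (nat_lit 325)) (XT.lf (nat_lit 152) (nat_lit 77993079890) (nat_lit 0) (nat_lit 1352348670) (nat_lit 76) (nat_lit 1352348670) (nat_lit 133) (nat_lit 1) (nat_lit 131) (nat_lit 1) (nat_lit 132) (nat_lit 1) (nat_lit 249) (nat_lit 447) (nat_lit 324)))) (XT.nd (nat_lit 78) (nat_lit 228) (nat_lit 0) (XT.lf (nat_lit 0) (nat_lit 25190445028) (nat_lit 0) (nat_lit 28992967368) (nat_lit 152) (nat_lit 25190445028) (nat_lit 131) (nat_lit 3) (nat_lit 131) (nat_lit 1) (nat_lit 133) (nat_lit 1) (nat_lit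 250) (nat_lit 447) (nat_lit 323)) (XT.nd (nat_lit 78) (nat_lit 152) (nat_lit 0) (XT.lf (nat_lit 76) (nat_lit 23615937899) (nat_lit 0) (nat_lit 27237387747) (nat_lit 76) (nat_lit 27237387747) (nat_lit 131) (nat_lit 3) (nat_lit 130) (nat_lit 1) (nat_lit 131) (nat_lit 1) (nat_lit 251) (nat_lit 447) (nat_lit 322)) (XT.lf (nat_lit 152) (nat_lit 74621513762) (nat_lit 0) (nat_lit 1112580598) (nat_lit 76) (nat_lit 1112580598) (nat_lit 130) (nat_lit 1) (nat_lit 128) (nat_lit 1) (nat_lit 129) (nat_lit 1) (nat_lit 252) (nat_lit 447) (nat_lit 321))))) (XT.nd (nat_lit 234) (nat_lit 228) (nat_lit 0) (XT.nd (nat_lit 78) (nat_lit 228) (nat_lit 0) (XT.lf (nat_lit 0) (nat_lit 24152573898) (nat_lit 0) (nat_lit 27280918438) (nat_lit 152) (nat_lit 24152573898) (nat_lit 128) (nat_lit 3) (nat_lit 128) (nat_lit 1) (nat_lit 130) (nat_lit 1) (nat_lit 253) (nat_lit 447) (nat_lit 320)) (XT.nd (nat_lit 78) (nat_lit 152) (nat_lit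 0) (XT.lf (nat_lit 76) (nat_lit 22801927302) (nat_lit 0) (nat_lit 25781303054) (nat_lit 76) (nat_lit 25781303054) (nat_lit 128) (nat_lit 3) (nat_lit 127) (nat_lit 1) (nat_lit 128) (nat_lit 1) (nat_lit 254) (nat_lit 447) (nat_lit 319)) (XT.lf (nat_lit 152) (nat_lit 71349793491) (nat_lit 0) (nat_lit 915322811) (nat_lit 76) (nat_lit 915322811) (nat_lit 127) (nat_lit 1) (nat_lit 125) (nat_lit 1) (nat_lit 126) (nat_lit 1) (nat_lit 255) (nat_lit 447) (nat_lit 318)))) (XT.nd (nat_lit 156) (nat_lit 152) (nat_lit 0) (XT.nd (nat_lit 78) (nat_lit 76) (nat_lit 0) (XT.lf (nat_lit 0) (nat_lit 23135460826) (nat_lit 0) (nat_lit 25709157620) (nat_lit 152) (nat_lit 23135460826) (nat_lit 125) (nat_lit 3) (nat_lit 125) (nat_lit 1) (nat_lit 127) (nat_lit 1) (nat_lit 256) (nat_lit 447) (nat_lit 317)) (XT.lf (nat_lit 76) (nat_lit 21971617972) (nat_lit 0) (nat_lit 24422757777) (nat_lit 76) (nat_lit 24422757777) (nat_lit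 125) (nat_lit 3) (nat_lit 124) (nat_lit 1) (nat_lit 125) (nat_lit 1) (nat_lit 257) (nat_lit 447) (nat_lit 316))) (XT.nd (nat_lit 78) (nat_lit 0) (nat_lit 0) (XT.lf (nat_lit 152) (nat_lit 68183927345) (nat_lit 0) (nat_lit 753038342) (nat_lit 76) (nat_lit 753038342) (nat_lit 124) (nat_lit 1) (nat_lit 122) (nat_lit 1) (nat_lit 123) (nat_lit 1) (nat_lit 258) (nat_lit 447) (nat_lit 315)) (XT.lf (nat_lit 0) (nat_lit 22143199455) (nat_lit 0) (nat_lit 24260586177) (nat_lit 152) (nat_lit 22143199455) (nat_lit 122) (nat_lit 3) (nat_lit 122) (nat_lit 1) (nat_lit 124) (nat_lit 1) (nat_lit 259) (nat_lit 447) (nat_lit 314))))))) (XT.nd (nat_lit 936) (nat_lit 988) (nat_lit 0) (XT.nd (nat_lit 468) (nat_lit 456) (nat_lit 0) (XT.nd (nat_lit 234) (nat_lit 228) (nat_lit 0) (XT.nd (nat_lit 78) (nat_lit 152) (nat_lit 0) (XT.lf (nat_lit 76) (nat_lit 21135548243) (nat_lit 0) (nat_lit 23152107027) (nat_lit 76) (nat_lit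 23152107027) (nat_lit 122) (nat_lit 3) (nat_lit 121) (nat_lit 1) (nat_lit 122) (nat_lit 1) (nat_lit 260) (nat_lit 447) (nat_lit 313)) (XT.nd (nat_lit 78) (nat_lit 0) (nat_lit 0) (XT.lf (nat_lit 152) (nat_lit 65127729257) (nat_lit 0) (nat_lit 619526507) (nat_lit 76) (nat_lit 619526507) (nat_lit 121) (nat_lit 1) (nat_lit 119) (nat_lit 1) (nat_lit 120) (nat_lit 1) (nat_lit 261) (nat_lit 447) (nat_lit 312)) (XT.lf (nat_lit 0) (nat_lit 21178787447) (nat_lit 0) (nat_lit 22920766743) (nat_lit 152) (nat_lit 21178787447) (nat_lit 119) (nat_lit 3) (nat_lit 119) (nat_lit 1) (nat_lit 121) (nat_lit 1) (nat_lit 262) (nat_lit 447) (nat_lit 311)))) (XT.nd (nat_lit 78) (nat_lit 152) (nat_lit 0) (XT.lf (nat_lit 76) (nat_lit 20302023810) (nat_lit 0) (nat_lit 21961051712) (nat_lit 76) (nat_lit 21961051712) (nat_lit 119) (nat_lit 3) (nat_lit 118) (nat_lit 1) (nat_lit 119) (nat_lit 1) (nat_lit 263) (nat_lit 447) (nat_lit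 310)) (XT.nd (nat_lit 78) (nat_lit 0) (nat_lit 0) (XT.lf (nat_lit 152) (nat_lit 62183261646) (nat_lit 0) (nat_lit 509685991) (nat_lit 76) (nat_lit 509685991) (nat_lit 118) (nat_lit 1) (nat_lit 116) (nat_lit 1) (nat_lit 117) (nat_lit 1) (nat_lit 264) (nat_lit 447) (nat_lit 309)) (XT.lf (nat_lit 0) (nat_lit 20244338422) (nat_lit 0) (nat_lit 21677469101) (nat_lit 152) (nat_lit 20244338422) (nat_lit 116) (nat_lit 3) (nat_lit 116) (nat_lit 1) (nat_lit 118) (nat_lit 1) (nat_lit 265) (nat_lit 447) (nat_lit 308))))) (XT.nd (nat_lit 234) (nat_lit 228) (nat_lit 0) (XT.nd (nat_lit 78) (nat_lit 152) (nat_lit 0) (XT.lf (nat_lit 76) (nat_lit 19477530912) (nat_lit 0) (nat_lit 20842417272) (nat_lit 76) (nat_lit 20842417272) (nat_lit 116) (nat_lit 3) (nat_lit 115) (nat_lit 1) (nat_lit 116) (nat_lit 1) (nat_lit 266) (nat_lit 447) (nat_lit 307)) (XT.nd (nat_lit 78) (nat_lit 0) (nat_lit 0) (XT.lf (nat_lit 152) (nat_lit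 59351197160) (nat_lit 0) (nat_lit 419319926) (nat_lit 76) (nat_lit 419319926) (nat_lit 115) (nat_lit 1) (nat_lit 113) (nat_lit 1) (nat_lit 114) (nat_lit 1) (nat_lit 267) (nat_lit 447) (nat_lit 306)) (XT.lf (nat_lit 0) (nat_lit 19341255489) (nat_lit 0) (nat_lit 20520295644) (nat_lit 152) (nat_lit 19341255489) (nat_lit 113) (nat_lit 3) (nat_lit 113) (nat_lit 1) (nat_lit 115) (nat_lit 1) (nat_lit 268) (nat_lit 447) (nat_lit 305)))) (XT.nd (nat_lit 78) (nat_lit 152) (nat_lit 0) (XT.lf (nat_lit 76) (nat_lit 18667075437) (nat_lit 0) (nat_lit 19789970823) (nat_lit 76) (nat_lit 19789970823) (nat_lit 113) (nat_lit 3) (nat_lit 112) (nat_lit 1) (nat_lit 113) (nat_lit 1) (nat_lit 269) (nat_lit 447) (nat_lit 304)) (XT.nd (nat_lit 78) (nat_lit 0) (nat_lit 0) (XT.lf (nat_lit 152) (nat_lit 56631113846) (nat_lit 0) (nat_lit 344975541) (nat_lit 76) (nat_lit 344975541) (nat_lit 112) (nat_lit 1) (nat_lit 110) (nat_lit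 1) (nat_lit 111) (nat_lit 1) (nat_lit 270) (nat_lit 447) (nat_lit 303)) (XT.lf (nat_lit 0) (nat_lit 18470373202) (nat_lit 0) (nat_lit 19440372456) (nat_lit 152) (nat_lit 18470373202) (nat_lit 110) (nat_lit 3) (nat_lit 110) (nat_lit 1) (nat_lit 112) (nat_lit 1) (nat_lit 271) (nat_lit 447) (nat_lit 302)))))) (XT.nd (nat_lit 468) (nat_lit 532) (nat_lit 0) (XT.nd (nat_lit 234) (nat_lit 228) (nat_lit 0) (XT.nd (nat_lit 78) (nat_lit 152) (nat_lit 0) (XT.lf (nat_lit 76) (nat_lit 17874461114) (nat_lit 0) (nat_lit 18798269927) (nat_lit 76) (nat_lit 18798269927) (nat_lit 110) (nat_lit 3) (nat_lit 109) (nat_lit 1) (nat_lit 110) (nat_lit 1) (nat_lit 272) (nat_lit 447) (nat_lit 301)) (XT.nd (nat_lit 78) (nat_lit 0) (nat_lit 0) (XT.lf (nat_lit 152) (nat_lit 54021735664) (nat_lit 0) (nat_lit 283812231) (nat_lit 76) (nat_lit 283812231) (nat_lit 109) (nat_lit 1) (nat_lit 107) (nat_lit 1) (nat_lit 108) (nat_lit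 1) (nat_lit 273) (nat_lit 447) (nat_lit 300)) (XT.lf (nat_lit 0) (nat_lit 17632073597) (nat_lit 0) (nat_lit 18430094384) (nat_lit 152) (nat_lit 17632073597) (nat_lit 107) (nat_lit 3) (nat_lit 107) (nat_lit 1) (nat_lit 109) (nat_lit 1) (nat_lit 274) (nat_lit 447) (nat_lit 299)))) (XT.nd (nat_lit 78) (nat_lit 152) (nat_lit 0) (XT.lf (nat_lit 76) (nat_lit 17102517637) (nat_lit 0) (nat_lit 17862537434) (nat_lit 76) (nat_lit 17862537434) (nat_lit 107) (nat_lit 3) (nat_lit 106) (nat_lit 1) (nat_lit 107) (nat_lit 1) (nat_lit 275) (nat_lit 447) (nat_lit 298)) (XT.nd (nat_lit 78) (nat_lit 0) (nat_lit 0) (XT.lf (nat_lit 152) (nat_lit 51521128149) (nat_lit 0) (nat_lit 233493025) (nat_lit 76) (nat_lit 233493025) (nat_lit 106) (nat_lit 1) (nat_lit 104) (nat_lit 1) (nat_lit 105) (nat_lit 1) (nat_lit 276) (nat_lit 447) (nat_lit 297)) (XT.lf (nat_lit 0) (nat_lit 16826380920) (nat_lit 0) (nat_lit 17482914597) (nat_lit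 152) (nat_lit 16826380920) (nat_lit 104) (nat_lit 3) (nat_lit 104) (nat_lit 1) (nat_lit 106) (nat_lit 1) (nat_lit 277) (nat_lit 447) (nat_lit 296))))) (XT.nd (nat_lit 234) (nat_lit 304) (nat_lit 0) (XT.nd (nat_lit 78) (nat_lit 152) (nat_lit 0) (XT.lf (nat_lit 76) (nat_lit 16353287625) (nat_lit 0) (nat_lit 16978557793) (nat_lit 76) (nat_lit 16978557793) (nat_lit 104) (nat_lit 3) (nat_lit 103) (nat_lit 1) (nat_lit 104) (nat_lit 1) (nat_lit 278) (nat_lit 447) (nat_lit 295)) (XT.nd (nat_lit 78) (nat_lit 0) (nat_lit 0) (XT.lf (nat_lit 152) (nat_lit 49126857276) (nat_lit 0) (nat_lit 192095289) (nat_lit 76) (nat_lit 192095289) (nat_lit 103) (nat_lit 1) (nat_lit 101) (nat_lit 1) (nat_lit 102) (nat_lit 1) (nat_lit 279) (nat_lit 447) (nat_lit 294)) (XT.lf (nat_lit 0) (nat_lit 16053038879) (nat_lit 0) (nat_lit 16593170759) (nat_lit 152) (nat_lit 16053038879) (nat_lit 101) (nat_lit 3) (nat_lit 101) (nat_lit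 1) (nat_lit 103) (nat_lit 1) (nat_lit 280) (nat_lit 447) (nat_lit 293)))) (XT.nd (nat_lit 156) (nat_lit 76) (nat_lit 0) (XT.nd (nat_lit 78) (nat_lit 152) (nat_lit 0) (XT.lf (nat_lit 76) (nat_lit 15628179763) (nat_lit 0) (nat_lit 16142591077) (nat_lit 76) (nat_lit 16142591077) (nat_lit 101) (nat_lit 3) (nat_lit 100) (nat_lit 1) (nat_lit 101) (nat_lit 1) (nat_lit 281) (nat_lit 447) (nat_lit 292)) (XT.lf (nat_lit 152) (nat_lit 46836118150) (nat_lit 0) (nat_lit 158037270) (nat_lit 76) (nat_lit 158037270) (nat_lit 100) (nat_lit 1) (nat_lit 98) (nat_lit 1) (nat_lit 99) (nat_lit 1) (nat_lit 282) (nat_lit 447) (nat_lit 291))) (XT.nd (nat_lit 78) (nat_lit 76) (nat_lit 0) (XT.lf (nat_lit 0) (nat_lit 15311573531) (nat_lit 0) (nat_lit 15755941366) (nat_lit 152) (nat_lit 15311573531) (nat_lit 98) (nat_lit 3) (nat_lit 98) (nat_lit 1) (nat_lit 100) (nat_lit 1) (nat_lit 283) (nat_lit 447) (nat_lit 290)) (XT.lf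 (nat_lit 76) (nat_lit 14928094132) (nat_lit 0) (nat_lit 15351301593) (nat_lit 76) (nat_lit 15351301593) (nat_lit 98) (nat_lit 3) (nat_lit 97) (nat_lit 1) (nat_lit 98) (nat_lit 1) (nat_lit 284) (nat_lit 447) (nat_lit 289))))))))
noncomputable def ec497 : XT := (XT.nd (nat_lit 1950) (nat_lit 1824) (nat_lit 0) (XT.nd (nat_lit 936) (nat_lit 1064) (nat_lit 0) (XT.nd (nat_lit 468) (nat_lit 456) (nat_lit 0) (XT.nd (nat_lit 234) (nat_lit 228) (nat_lit 0) (XT.nd (nat_lit 78) (nat_lit 76) (nat_lit 0) (XT.lf (nat_lit 152) (nat_lit 44645838968) (nat_lit 0) (nat_lit 130017653) (nat_lit 76) (nat_lit 130017653) (nat_lit 97) (nat_lit 1) (nat_lit 95) (nat_lit 1) (nat_lit 96) (nat_lit 1) (nat_lit 285) (nat_lit 447) (nat_lit 288)) (XT.nd (nat_lit 78) (nat_lit 76) (nat_lit 0) (XT.lf (nat_lit 0) (nat_lit 14601344406) (nat_lit 0) (nat_lit 14966926924) (nat_lit 152) (nat_lit 14601344406) (nat_lit 95) (nat_lit 3) (nat_lit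 95) (nat_lit 1) (nat_lit 97) (nat_lit 1) (nat_lit 286) (nat_lit 447) (nat_lit 287)) (XT.lf (nat_lit 76) (nat_lit 14253524714) (nat_lit 0) (nat_lit 14601698540) (nat_lit 76) (nat_lit 14601698540) (nat_lit 95) (nat_lit 3) (nat_lit 94) (nat_lit 1) (nat_lit 95) (nat_lit 1) (nat_lit 287) (nat_lit 447) (nat_lit 286)))) (XT.nd (nat_lit 78) (nat_lit 76) (nat_lit 0) (XT.lf (nat_lit 152) (nat_lit 42552764738) (nat_lit 0) (nat_lit 106965845) (nat_lit 76) (nat_lit 106965845) (nat_lit 94) (nat_lit 1) (nat_lit 92) (nat_lit 1) (nat_lit 93) (nat_lit 1) (nat_lit 288) (nat_lit 447) (nat_lit 285)) (XT.nd (nat_lit 78) (nat_lit 76) (nat_lit 0) (XT.lf (nat_lit 0) (nat_lit 13921585959) (nat_lit 0) (nat_lit 14222351600) (nat_lit 152) (nat_lit 13921585959) (nat_lit 92) (nat_lit 3) (nat_lit 92) (nat_lit 1) (nat_lit 94) (nat_lit 1) (nat_lit 289) (nat_lit 447) (nat_lit 284)) (XT.lf (nat_lit 76) (nat_lit 13604643131) (nat_lit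 0) (nat_lit 13891086599) (nat_lit 76) (nat_lit 13891086599) (nat_lit 92) (nat_lit 3) (nat_lit 91) (nat_lit 1) (nat_lit 92) (nat_lit 1) (nat_lit 290) (nat_lit 447) (nat_lit 283))))) (XT.nd (nat_lit 234) (nat_lit 228) (nat_lit 0) (XT.nd (nat_lit 78) (nat_lit 76) (nat_lit 0) (XT.lf (nat_lit 152) (nat_lit 40553524412) (nat_lit 0) (nat_lit 88001065) (nat_lit 76) (nat_lit 88001065) (nat_lit 91) (nat_lit 1) (nat_lit 89) (nat_lit 1) (nat_lit 90) (nat_lit 1) (nat_lit 291) (nat_lit 447) (nat_lit 282)) (XT.nd (nat_lit 78) (nat_lit 76) (nat_lit 0) (XT.lf (nat_lit 0) (nat_lit 13271441107) (nat_lit 0) (nat_lit 13518881745) (nat_lit 152) (nat_lit 13271441107) (nat_lit 89) (nat_lit 3) (nat_lit 89) (nat_lit 1) (nat_lit 91) (nat_lit 1) (nat_lit 292) (nat_lit 447) (nat_lit 281)) (XT.lf (nat_lit 76) (nat_lit 12981366976) (nat_lit 0) (nat_lit 13217024727) (nat_lit 76) (nat_lit 13217024727) (nat_lit 89) (nat_lit 3)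 (nat_lit 88) (nat_lit 1) (nat_lit 89) (nat_lit 1) (nat_lit 293) (nat_lit 447) (nat_lit 280)))) (XT.nd (nat_lit 78) (nat_lit 76) (nat_lit 0) (XT.lf (nat_lit 152) (nat_lit 38644684469) (nat_lit 0) (nat_lit 72398694) (nat_lit 76) (nat_lit 72398694) (nat_lit 88) (nat_lit 1) (nat_lit 86) (nat_lit 1) (nat_lit 87) (nat_lit 1) (nat_lit 294) (nat_lit 447) (nat_lit 279)) (XT.nd (nat_lit 78) (nat_lit 76) (nat_lit 0) (XT.lf (nat_lit 0) (nat_lit 12649988287) (nat_lit 0) (nat_lit 12853558312) (nat_lit 152) (nat_lit 12649988287) (nat_lit 86) (nat_lit 3) (nat_lit 86) (nat_lit 1) (nat_lit 88) (nat_lit 1) (nat_lit 295) (nat_lit 447) (nat_lit 278)) (XT.lf (nat_lit 76) (nat_lit 12383415503) (nat_lit 0) (nat_lit 12577291718) (nat_lit 76) (nat_lit 12577291718) (nat_lit 86) (nat_lit 3) (nat_lit 85) (nat_lit 1) (nat_lit 86) (nat_lit 1) (nat_lit 296) (nat_lit 447) (nat_lit 277)))))) (XT.nd (nat_lit 468) (nat_lit 608) (nat_lit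 0) (XT.nd (nat_lit 234) (nat_lit 228) (nat_lit 0) (XT.nd (nat_lit 78) (nat_lit 76) (nat_lit 0) (XT.lf (nat_lit 152) (nat_lit 36822791430) (nat_lit 0) (nat_lit 59562585) (nat_lit 76) (nat_lit 59562585) (nat_lit 85) (nat_lit 1) (nat_lit 83) (nat_lit 1) (nat_lit 84) (nat_lit 1) (nat_lit 297) (nat_lit 447) (nat_lit 276)) (XT.nd (nat_lit 78) (nat_lit 76) (nat_lit 0) (XT.lf (nat_lit 0) (nat_lit 12056263188) (nat_lit 0) (nat_lit 12223740751) (nat_lit 152) (nat_lit 12056263188) (nat_lit 83) (nat_lit 3) (nat_lit 83) (nat_lit 1) (nat_lit 85) (nat_lit 1) (nat_lit 298) (nat_lit 447) (nat_lit 275)) (XT.lf (nat_lit 76) (nat_lit 11810354929) (nat_lit 0) (nat_lit 11969857371) (nat_lit 76) (nat_lit 11969857371) (nat_lit 83) (nat_lit 3) (nat_lit 82) (nat_lit 1) (nat_lit 83) (nat_lit 1) (nat_lit 299) (nat_lit 447) (nat_lit 274)))) (XT.nd (nat_lit 78) (nat_lit 76) (nat_lit 0) (XT.lf (nat_lit 152) (nat_lit 35084405333)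 (nat_lit 0) (nat_lit 49002286) (nat_lit 76) (nat_lit 49002286) (nat_lit 82) (nat_lit 1) (nat_lit 80) (nat_lit 1) (nat_lit 81) (nat_lit 1) (nat_lit 300) (nat_lit 447) (nat_lit 273)) (XT.nd (nat_lit 78) (nat_lit 76) (nat_lit 0) (XT.lf (nat_lit 0) (nat_lit 11489276150) (nat_lit 0) (nat_lit 11627060356) (nat_lit 152) (nat_lit 11489276150) (nat_lit 80) (nat_lit 3) (nat_lit 80) (nat_lit 1) (nat_lit 82) (nat_lit 1) (nat_lit 301) (nat_lit 447) (nat_lit 272)) (XT.lf (nat_lit 76) (nat_lit 11261635227) (nat_lit 0) (nat_lit 11392858280) (nat_lit 76) (nat_lit 11392858280) (nat_lit 80) (nat_lit 3) (nat_lit 79) (nat_lit 1) (nat_lit 80) (nat_lit 1) (nat_lit 302) (nat_lit 447) (nat_lit 271))))) (XT.nd (nat_lit 234) (nat_lit 380) (nat_lit 0) (XT.nd (nat_lit 78) (nat_lit 76) (nat_lit 0) (XT.lf (nat_lit 152) (nat_lit 33426125852) (nat_lit 0) (nat_lit 40314302) (nat_lit 76) (nat_lit 40314302) (nat_lit 79) (nat_lit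 1) (nat_lit 77) (nat_lit 1) (nat_lit 78) (nat_lit 1) (nat_lit 303) (nat_lit 447) (nat_lit 270)) (XT.nd (nat_lit 78) (nat_lit 76) (nat_lit 0) (XT.lf (nat_lit 0) (nat_lit 10948026006) (nat_lit 0) (nat_lit 11061381413) (nat_lit 152) (nat_lit 10948026006) (nat_lit 77) (nat_lit 3) (nat_lit 77) (nat_lit 1) (nat_lit 79) (nat_lit 1) (nat_lit 304) (nat_lit 447) (nat_lit 269)) (XT.lf (nat_lit 76) (nat_lit 10736619932) (nat_lit 0) (nat_lit 10844577462) (nat_lit 76) (nat_lit 10844577462) (nat_lit 77) (nat_lit 3) (nat_lit 76) (nat_lit 1) (nat_lit 77) (nat_lit 1) (nat_lit 305) (nat_lit 447) (nat_lit 268)))) (XT.nd (nat_lit 156) (nat_lit 228) (nat_lit 0) (XT.nd (nat_lit 78) (nat_lit 0) (nat_lit 0) (XT.lf (nat_lit 152) (nat_lit 31844612420) (nat_lit 0) (nat_lit 33166676) (nat_lit 76) (nat_lit 33166676) (nat_lit 76) (nat_lit 1) (nat_lit 74) (nat_lit 1) (nat_lit 75) (nat_lit 1) (nat_lit 306) (nat_lit 447) (nat_lit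 267)) (XT.lf (nat_lit 0) (nat_lit 10431511027) (nat_lit 0) (nat_lit 10524768801) (nat_lit 152) (nat_lit 10431511027) (nat_lit 74) (nat_lit 3) (nat_lit 74) (nat_lit 1) (nat_lit 76) (nat_lit 1) (nat_lit 307) (nat_lit 447) (nat_lit 266))) (XT.nd (nat_lit 78) (nat_lit 152) (nat_lit 0) (XT.lf (nat_lit 76) (nat_lit 10234610227) (nat_lit 0) (nat_lit 10323427155) (nat_lit 76) (nat_lit 10323427155) (nat_lit 74) (nat_lit 3) (nat_lit 73) (nat_lit 1) (nat_lit 74) (nat_lit 1) (nat_lit 308) (nat_lit 447) (nat_lit 265)) (XT.lf (nat_lit 152) (nat_lit 30336599503) (nat_lit 0) (nat_lit 27286306) (nat_lit 76) (nat_lit 27286306) (nat_lit 73) (nat_lit 1) (nat_lit 71) (nat_lit 1) (nat_lit 72) (nat_lit 1) (nat_lit 309) (nat_lit 447) (nat_lit 264))))))) (XT.nd (nat_lit 936) (nat_lit 912) (nat_lit 0) (XT.nd (nat_lit 468) (nat_lit 456) (nat_lit 0) (XT.nd (nat_lit 234) (nat_lit 228) (nat_lit 0) (XT.nd (nat_lit 78) (nat_lit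 228) (nat_lit 0) (XT.lf (nat_lit 0) (nat_lit 9938737497) (nat_lit 0) (nat_lit 10015460898) (nat_lit 152) (nat_lit 9938737497) (nat_lit 71) (nat_lit 3) (nat_lit 71) (nat_lit 1) (nat_lit 73) (nat_lit 1) (nat_lit 310) (nat_lit 447) (nat_lit 263)) (XT.nd (nat_lit 78) (nat_lit 152) (nat_lit 0) (XT.lf (nat_lit 76) (nat_lit 9754864342) (nat_lit 0) (nat_lit 9827934248) (nat_lit 76) (nat_lit 9827934248) (nat_lit 71) (nat_lit 3) (nat_lit 70) (nat_lit 1) (nat_lit 71) (nat_lit 1) (nat_lit 311) (nat_lit 447) (nat_lit 262)) (XT.lf (nat_lit 152) (nat_lit 28898907923) (nat_lit 0) (nat_lit 22448511) (nat_lit 76) (nat_lit 22448511) (nat_lit 70) (nat_lit 1) (nat_lit 68) (nat_lit 1) (nat_lit 69) (nat_lit 1) (nat_lit 312) (nat_lit 447) (nat_lit 261)))) (XT.nd (nat_lit 78) (nat_lit 228) (nat_lit 0) (XT.lf (nat_lit 0) (nat_lit 9468726373) (nat_lit 0) (nat_lit 9531846905) (nat_lit 152) (nat_lit 9468726373) (nat_lit 68)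 (nat_lit 3) (nat_lit 68) (nat_lit 1) (nat_lit 70) (nat_lit 1) (nat_lit 313) (nat_lit 447) (nat_lit 260)) (XT.nd (nat_lit 78) (nat_lit 152) (nat_lit 0) (XT.lf (nat_lit 76) (nat_lit 9296613111) (nat_lit 0) (nat_lit 9356727904) (nat_lit 76) (nat_lit 9356727904) (nat_lit 68) (nat_lit 3) (nat_lit 67) (nat_lit 1) (nat_lit 68) (nat_lit 1) (nat_lit 314) (nat_lit 447) (nat_lit 259)) (XT.lf (nat_lit 152) (nat_lit 27528453005) (nat_lit 0) (nat_lit 18468446) (nat_lit 76) (nat_lit 18468446) (nat_lit 67) (nat_lit 1) (nat_lit 65) (nat_lit 1) (nat_lit 66) (nat_lit 1) (nat_lit 315) (nat_lit 447) (nat_lit 258))))) (XT.nd (nat_lit 234) (nat_lit 228) (nat_lit 0) (XT.nd (nat_lit 78) (nat_lit 228) (nat_lit 0) (XT.lf (nat_lit 0) (nat_lit 9020518370) (nat_lit 0) (nat_lit 9072447788) (nat_lit 152) (nat_lit 9020518370) (nat_lit 65) (nat_lit 3) (nat_lit 65) (nat_lit 1) (nat_lit 67) (nat_lit 1) (nat_lit 316) (nat_lit 447)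 (nat_lit 257)) (XT.nd (nat_lit 78) (nat_lit 152) (nat_lit 0) (XT.lf (nat_lit 76) (nat_lit 8859072400) (nat_lit 0) (nat_lit 8908528989) (nat_lit 76) (nat_lit 8908528989) (nat_lit 65) (nat_lit 3) (nat_lit 64) (nat_lit 1) (nat_lit 65) (nat_lit 1) (nat_lit 317) (nat_lit 447) (nat_lit 256)) (XT.lf (nat_lit 152) (nat_lit 26222250164) (nat_lit 0) (nat_lit 15194036) (nat_lit 76) (nat_lit 15194036) (nat_lit 64) (nat_lit 1) (nat_lit 62) (nat_lit 1) (nat_lit 63) (nat_lit 1) (nat_lit 318) (nat_lit 447) (nat_lit 255)))) (XT.nd (nat_lit 78) (nat_lit 228) (nat_lit 0) (XT.lf (nat_lit 0) (nat_lit 8593177787) (nat_lit 0) (nat_lit 8635900248) (nat_lit 152) (nat_lit 8593177787) (nat_lit 62) (nat_lit 3) (nat_lit 62) (nat_lit 1) (nat_lit 64) (nat_lit 1) (nat_lit 319) (nat_lit 447) (nat_lit 254)) (XT.nd (nat_lit 78) (nat_lit 152) (nat_lit 0) (XT.lf (nat_lit 76) (nat_lit 8441452965) (nat_lit 0) (nat_lit 8482141023) (nat_lit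 76) (nat_lit 8482141023) (nat_lit 62) (nat_lit 3) (nat_lit 61) (nat_lit 1) (nat_lit 62) (nat_lit 1) (nat_lit 320) (nat_lit 447) (nat_lit 253)) (XT.lf (nat_lit 152) (nat_lit 24977418438) (nat_lit 0) (nat_lit 12500171) (nat_lit 76) (nat_lit 12500171) (nat_lit 61) (nat_lit 1) (nat_lit 59) (nat_lit 1) (nat_lit 60) (nat_lit 1) (nat_lit 321) (nat_lit 447) (nat_lit 252)))))) (XT.nd (nat_lit 468) (nat_lit 456) (nat_lit 0) (XT.nd (nat_lit 234) (nat_lit 228) (nat_lit 0) (XT.nd (nat_lit 78) (nat_lit 228) (nat_lit 0) (XT.lf (nat_lit 0) (nat_lit 8185795298) (nat_lit 0) (nat_lit 8220943172) (nat_lit 152) (nat_lit 8185795298) (nat_lit 59) (nat_lit 3) (nat_lit 59) (nat_lit 1) (nat_lit 61) (nat_lit 1) (nat_lit 322) (nat_lit 447) (nat_lit 251)) (XT.nd (nat_lit 78) (nat_lit 152) (nat_lit 0) (XT.lf (nat_lit 76) (nat_lit 8042968224) (nat_lit 0) (nat_lit 8076442390) (nat_lit 76) (nat_lit 8076442390) (nat_lit 59) (nat_lit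 3) (nat_lit 58) (nat_lit 1) (nat_lit 59) (nat_lit 1) (nat_lit 323) (nat_lit 447) (nat_lit 250)) (XT.lf (nat_lit 152) (nat_lit 23791182376) (nat_lit 0) (nat_lit 10283921) (nat_lit 76) (nat_lit 10283921) (nat_lit 58) (nat_lit 1) (nat_lit 56) (nat_lit 1) (nat_lit 57) (nat_lit 1) (nat_lit 324) (nat_lit 447) (nat_lit 249)))) (XT.nd (nat_lit 78) (nat_lit 228) (nat_lit 0) (XT.lf (nat_lit 0) (nat_lit 7797489923) (nat_lit 0) (nat_lit 7826406166) (nat_lit 152) (nat_lit 7797489923) (nat_lit 56) (nat_lit 3) (nat_lit 56) (nat_lit 1) (nat_lit 58) (nat_lit 1) (nat_lit 325) (nat_lit 447) (nat_lit 248)) (XT.nd (nat_lit 78) (nat_lit 152) (nat_lit 0) (XT.lf (nat_lit 76) (nat_lit 7662840318) (nat_lit 0) (nat_lit 7690379597) (nat_lit 76) (nat_lit 7690379597) (nat_lit 56) (nat_lit 3) (nat_lit 55) (nat_lit 1) (nat_lit 56) (nat_lit 1) (nat_lit 326) (nat_lit 447) (nat_lit 247)) (XT.lf (nat_lit 152) (nat_lit 22660872631)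 (nat_lit 0) (nat_lit 8460608) (nat_lit 76) (nat_lit 8460608) (nat_lit 55) (nat_lit 1) (nat_lit 53) (nat_lit 1) (nat_lit 54) (nat_lit 1) (nat_lit 327) (nat_lit 447) (nat_lit 246))))) (XT.nd (nat_lit 234) (nat_lit 228) (nat_lit 0) (XT.nd (nat_lit 78) (nat_lit 228) (nat_lit 0) (XT.lf (nat_lit 0) (nat_lit 7427410326) (nat_lit 0) (nat_lit 7451199791) (nat_lit 152) (nat_lit 7427410326) (nat_lit 53) (nat_lit 3) (nat_lit 53) (nat_lit 1) (nat_lit 55) (nat_lit 1) (nat_lit 328) (nat_lit 447) (nat_lit 245)) (XT.nd (nat_lit 78) (nat_lit 152) (nat_lit 0) (XT.lf (nat_lit 76) (nat_lit 7300304794) (nat_lit 0) (nat_lit 7322961427) (nat_lit 76) (nat_lit 7322961427) (nat_lit 53) (nat_lit 3) (nat_lit 52) (nat_lit 1) (nat_lit 53) (nat_lit 1) (nat_lit 329) (nat_lit 447) (nat_lit 244)) (XT.lf (nat_lit 152) (nat_lit 21583925530) (nat_lit 0) (nat_lit 6960563) (nat_lit 76) (nat_lit 6960563) (nat_lit 52) (nat_lit 1) (nat_lit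 50) (nat_lit 1) (nat_lit 51) (nat_lit 1) (nat_lit 330) (nat_lit 447) (nat_lit 243)))) (XT.nd (nat_lit 156) (nat_lit 152) (nat_lit 0) (XT.nd (nat_lit 78) (nat_lit 76) (nat_lit 0) (XT.lf (nat_lit 0) (nat_lit 7074735590) (nat_lit 0) (nat_lit 7094307241) (nat_lit 152) (nat_lit 7074735590) (nat_lit 50) (nat_lit 3) (nat_lit 50) (nat_lit 1) (nat_lit 52) (nat_lit 1) (nat_lit 331) (nat_lit 447) (nat_lit 242)) (XT.lf (nat_lit 76) (nat_lit 6954614155) (nat_lit 0) (nat_lit 6973253823) (nat_lit 76) (nat_lit 6973253823) (nat_lit 50) (nat_lit 3) (nat_lit 49) (nat_lit 1) (nat_lit 50) (nat_lit 1) (nat_lit 332) (nat_lit 447) (nat_lit 241))) (XT.nd (nat_lit 78) (nat_lit 0) (nat_lit 0) (XT.lf (nat_lit 152) (nat_lit 20557881841) (nat_lit 0) (nat_lit 5726472) (nat_lit 76) (nat_lit 5726472) (nat_lit 49) (nat_lit 1) (nat_lit 47) (nat_lit 1) (nat_lit 48) (nat_lit 1) (nat_lit 333) (nat_lit 447) (nat_lit 240)) (XT.lf (nat_lit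 0) (nat_lit 6738675557) (nat_lit 0) (nat_lit 6754777203) (nat_lit 152) (nat_lit 6738675557) (nat_lit 47) (nat_lit 3) (nat_lit 47) (nat_lit 1) (nat_lit 49) (nat_lit 1) (nat_lit 334) (nat_lit 447) (nat_lit 239))))))))
noncomputable def ec498 : XT := (XT.nd (nat_lit 1950) (nat_lit 1672) (nat_lit 0) (XT.nd (nat_lit 936) (nat_lit 988) (nat_lit 0) (XT.nd (nat_lit 468) (nat_lit 456) (nat_lit 0) (XT.nd (nat_lit 234) (nat_lit 228) (nat_lit 0) (XT.nd (nat_lit 78) (nat_lit 152) (nat_lit 0) (XT.lf (nat_lit 76) (nat_lit 6625040499) (nat_lit 0) (nat_lit 6640375400) (nat_lit 76) (nat_lit 6640375400) (nat_lit 47) (nat_lit 3) (nat_lit 46) (nat_lit 1) (nat_lit 47) (nat_lit 1) (nat_lit 335) (nat_lit 447) (nat_lit 238)) (XT.nd (nat_lit 78) (nat_lit 0) (nat_lit 0) (XT.lf (nat_lit 152) (nat_lit 19580384925) (nat_lit 0) (nat_lit 4711183) (nat_lit 76) (nat_lit 4711183) (nat_lit 46) (nat_lit 1) (nat_lit 44) (nat_lit 1)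 (nat_lit 45) (nat_lit 1) (nat_lit 336) (nat_lit 447) (nat_lit 237)) (XT.lf (nat_lit 0) (nat_lit 6418470847) (nat_lit 0) (nat_lit 6431717711) (nat_lit 152) (nat_lit 6418470847) (nat_lit 44) (nat_lit 3) (nat_lit 44) (nat_lit 1) (nat_lit 46) (nat_lit 1) (nat_lit 337) (nat_lit 447) (nat_lit 236)))) (XT.nd (nat_lit 78) (nat_lit 152) (nat_lit 0) (XT.lf (nat_lit 76) (nat_lit 6310877427) (nat_lit 0) (nat_lit 6323493488) (nat_lit 76) (nat_lit 6323493488) (nat_lit 44) (nat_lit 3) (nat_lit 43) (nat_lit 1) (nat_lit 44) (nat_lit 1) (nat_lit 338) (nat_lit 447) (nat_lit 235)) (XT.nd (nat_lit 78) (nat_lit 0) (nat_lit 0) (XT.lf (nat_lit 152) (nat_lit 18649178428) (nat_lit 0) (nat_lit 3875902) (nat_lit 76) (nat_lit 3875902) (nat_lit 43) (nat_lit 1) (nat_lit 41) (nat_lit 1) (nat_lit 42) (nat_lit 1) (nat_lit 339) (nat_lit 447) (nat_lit 234)) (XT.lf (nat_lit 0) (nat_lit 6113392602) (nat_lit 0) (nat_lit 6124290830)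 (nat_lit 152) (nat_lit 6113392602) (nat_lit 41) (nat_lit 3) (nat_lit 41) (nat_lit 1) (nat_lit 43) (nat_lit 1) (nat_lit 340) (nat_lit 447) (nat_lit 233))))) (XT.nd (nat_lit 234) (nat_lit 228) (nat_lit 0) (XT.nd (nat_lit 78) (nat_lit 152) (nat_lit 0) (XT.lf (nat_lit 76) (nat_lit 6011441346) (nat_lit 0) (nat_lit 6021820610) (nat_lit 76) (nat_lit 6021820610) (nat_lit 41) (nat_lit 3) (nat_lit 40) (nat_lit 1) (nat_lit 41) (nat_lit 1) (nat_lit 341) (nat_lit 447) (nat_lit 232)) (XT.nd (nat_lit 78) (nat_lit 0) (nat_lit 0) (XT.lf (nat_lit 152) (nat_lit 17762103621) (nat_lit 0) (nat_lit 3188714) (nat_lit 76) (nat_lit 3188714) (nat_lit 40) (nat_lit 1) (nat_lit 38) (nat_lit 1) (nat_lit 39) (nat_lit 1) (nat_lit 342) (nat_lit 447) (nat_lit 231)) (XT.lf (nat_lit 0) (nat_lit 5822742035) (nat_lit 0) (nat_lit 5831708034) (nat_lit 152) (nat_lit 5822742035) (nat_lit 38) (nat_lit 3) (nat_lit 38) (nat_lit 1) (nat_lit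 40) (nat_lit 1) (nat_lit 343) (nat_lit 447) (nat_lit 230)))) (XT.nd (nat_lit 78) (nat_lit 152) (nat_lit 0) (XT.lf (nat_lit 76) (nat_lit 5726072309) (nat_lit 0) (nat_lit 5734611356) (nat_lit 76) (nat_lit 5734611356) (nat_lit 38) (nat_lit 3) (nat_lit 37) (nat_lit 1) (nat_lit 38) (nat_lit 1) (nat_lit 344) (nat_lit 447) (nat_lit 229)) (XT.nd (nat_lit 78) (nat_lit 0) (nat_lit 0) (XT.lf (nat_lit 152) (nat_lit 16917096487) (nat_lit 0) (nat_lit 2623363) (nat_lit 76) (nat_lit 2623363) (nat_lit 37) (nat_lit 1) (nat_lit 35) (nat_lit 1) (nat_lit 36) (nat_lit 1) (nat_lit 345) (nat_lit 447) (nat_lit 228)) (XT.lf (nat_lit 0) (nat_lit 5545849816) (nat_lit 0) (nat_lit 5553226166) (nat_lit 152) (nat_lit 5545849816) (nat_lit 35) (nat_lit 3) (nat_lit 35) (nat_lit 1) (nat_lit 37) (nat_lit 1) (nat_lit 346) (nat_lit 447) (nat_lit 227)))))) (XT.nd (nat_lit 468) (nat_lit 532) (nat_lit 0) (XT.nd (nat_lit 234) (nat_lit 228)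 (nat_lit 0) (XT.nd (nat_lit 78) (nat_lit 152) (nat_lit 0) (XT.lf (nat_lit 76) (nat_lit 5454134466) (nat_lit 0) (nat_lit 5461159561) (nat_lit 76) (nat_lit 5461159561) (nat_lit 35) (nat_lit 3) (nat_lit 34) (nat_lit 1) (nat_lit 35) (nat_lit 1) (nat_lit 347) (nat_lit 447) (nat_lit 226)) (XT.nd (nat_lit 78) (nat_lit 0) (nat_lit 0) (XT.lf (nat_lit 152) (nat_lit 16112184651) (nat_lit 0) (nat_lit 2158247) (nat_lit 76) (nat_lit 2158247) (nat_lit 34) (nat_lit 1) (nat_lit 32) (nat_lit 1) (nat_lit 33) (nat_lit 1) (nat_lit 348) (nat_lit 447) (nat_lit 225)) (XT.lf (nat_lit 0) (nat_lit 5282075354) (nat_lit 0) (nat_lit 5288143895) (nat_lit 152) (nat_lit 5282075354) (nat_lit 32) (nat_lit 3) (nat_lit 32) (nat_lit 1) (nat_lit 34) (nat_lit 1) (nat_lit 349) (nat_lit 447) (nat_lit 224)))) (XT.nd (nat_lit 78) (nat_lit 152) (nat_lit 0) (XT.lf (nat_lit 76) (nat_lit 5195016215) (nat_lit 0) (nat_lit 5200795778) (nat_lit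 76) (nat_lit 5200795778) (nat_lit 32) (nat_lit 3) (nat_lit 31) (nat_lit 1) (nat_lit 32) (nat_lit 1) (nat_lit 350) (nat_lit 447) (nat_lit 223)) (XT.nd (nat_lit 78) (nat_lit 0) (nat_lit 0) (XT.lf (nat_lit 152) (nat_lit 15345484192) (nat_lit 0) (nat_lit 1775595) (nat_lit 76) (nat_lit 1775595) (nat_lit 31) (nat_lit 1) (nat_lit 29) (nat_lit 1) (nat_lit 30) (nat_lit 1) (nat_lit 351) (nat_lit 447) (nat_lit 222)) (XT.lf (nat_lit 0) (nat_lit 5030805976) (nat_lit 0) (nat_lit 5035798579) (nat_lit 152) (nat_lit 5030805976) (nat_lit 29) (nat_lit 3) (nat_lit 29) (nat_lit 1) (nat_lit 31) (nat_lit 1) (nat_lit 352) (nat_lit 447) (nat_lit 221))))) (XT.nd (nat_lit 234) (nat_lit 304) (nat_lit 0) (XT.nd (nat_lit 78) (nat_lit 152) (nat_lit 0) (XT.lf (nat_lit 76) (nat_lit 4948130118) (nat_lit 0) (nat_lit 4952884978) (nat_lit 76) (nat_lit 4952884978) (nat_lit 29) (nat_lit 3) (nat_lit 28) (nat_lit 1) (nat_lit 29) (nat_lit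 1) (nat_lit 353) (nat_lit 447) (nat_lit 220)) (XT.nd (nat_lit 78) (nat_lit 0) (nat_lit 0) (XT.lf (nat_lit 152) (nat_lit 14615196398) (nat_lit 0) (nat_lit 1460786) (nat_lit 76) (nat_lit 1460786) (nat_lit 28) (nat_lit 1) (nat_lit 26) (nat_lit 1) (nat_lit 27) (nat_lit 1) (nat_lit 354) (nat_lit 447) (nat_lit 219)) (XT.lf (nat_lit 0) (nat_lit 4791456060) (nat_lit 0) (nat_lit 4795563487) (nat_lit 152) (nat_lit 4791456060) (nat_lit 26) (nat_lit 3) (nat_lit 26) (nat_lit 1) (nat_lit 28) (nat_lit 1) (nat_lit 355) (nat_lit 447) (nat_lit 218)))) (XT.nd (nat_lit 156) (nat_lit 76) (nat_lit 0) (XT.nd (nat_lit 78) (nat_lit 152) (nat_lit 0) (XT.lf (nat_lit 76) (nat_lit 4712912628) (nat_lit 0) (nat_lit 4716824463) (nat_lit 76) (nat_lit 4716824463) (nat_lit 26) (nat_lit 3) (nat_lit 25) (nat_lit 1) (nat_lit 26) (nat_lit 1) (nat_lit 356) (nat_lit 447) (nat_lit 217)) (XT.lf (nat_lit 152) (nat_lit 13919604509) (nat_lit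 0) (nat_lit 1201792) (nat_lit 76) (nat_lit 1201792) (nat_lit 25) (nat_lit 1) (nat_lit 23) (nat_lit 1) (nat_lit 24) (nat_lit 1) (nat_lit 357) (nat_lit 447) (nat_lit 216))) (XT.nd (nat_lit 78) (nat_lit 76) (nat_lit 0) (XT.lf (nat_lit 0) (nat_lit 4563466123) (nat_lit 0) (nat_lit 4566845314) (nat_lit 152) (nat_lit 4563466123) (nat_lit 23) (nat_lit 3) (nat_lit 23) (nat_lit 1) (nat_lit 25) (nat_lit 1) (nat_lit 358) (nat_lit 447) (nat_lit 215)) (XT.lf (nat_lit 76) (nat_lit 4488823677) (nat_lit 0) (nat_lit 4492041954) (nat_lit 76) (nat_lit 4492041954) (nat_lit 23) (nat_lit 3) (nat_lit 22) (nat_lit 1) (nat_lit 23) (nat_lit 1) (nat_lit 359) (nat_lit 447) (nat_lit 214))))))) (XT.nd (nat_lit 936) (nat_lit 760) (nat_lit 0) (XT.nd (nat_lit 468) (nat_lit 456) (nat_lit 0) (XT.nd (nat_lit 234) (nat_lit 228) (nat_lit 0) (XT.nd (nat_lit 78) (nat_lit 76) (nat_lit 0) (XT.lf (nat_lit 152) (nat_lit 13257070471) (nat_lit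 0) (nat_lit 988717) (nat_lit 76) (nat_lit 988717) (nat_lit 22) (nat_lit 1) (nat_lit 20) (nat_lit 1) (nat_lit 21) (nat_lit 1) (nat_lit 360) (nat_lit 447) (nat_lit 213)) (XT.nd (nat_lit 78) (nat_lit 76) (nat_lit 0) (XT.lf (nat_lit 0) (nat_lit 4346301887) (nat_lit 0) (nat_lit 4349081956) (nat_lit 152) (nat_lit 4346301887) (nat_lit 20) (nat_lit 3) (nat_lit 20) (nat_lit 1) (nat_lit 22) (nat_lit 1) (nat_lit 361) (nat_lit 447) (nat_lit 212)) (XT.lf (nat_lit 76) (nat_lit 4275346152) (nat_lit 0) (nat_lit 4277993836) (nat_lit 76) (nat_lit 4277993836) (nat_lit 20) (nat_lit 3) (nat_lit 19) (nat_lit 1) (nat_lit 20) (nat_lit 1) (nat_lit 362) (nat_lit 447) (nat_lit 211)))) (XT.nd (nat_lit 78) (nat_lit 76) (nat_lit 0) (XT.lf (nat_lit 152) (nat_lit 12626031727) (nat_lit 0) (nat_lit 813420) (nat_lit 76) (nat_lit 813420) (nat_lit 19) (nat_lit 1) (nat_lit 17) (nat_lit 1) (nat_lit 18) (nat_lit 1) (nat_lit 363) (nat_lit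 447) (nat_lit 210)) (XT.nd (nat_lit 78) (nat_lit 76) (nat_lit 0) (XT.lf (nat_lit 0) (nat_lit 4139453332) (nat_lit 0) (nat_lit 4141740502) (nat_lit 152) (nat_lit 4139453332) (nat_lit 17) (nat_lit 3) (nat_lit 17) (nat_lit 1) (nat_lit 19) (nat_lit 1) (nat_lit 364) (nat_lit 447) (nat_lit 209)) (XT.lf (nat_lit 76) (nat_lit 4071985293) (nat_lit 0) (nat_lit 4074163549) (nat_lit 76) (nat_lit 4074163549) (nat_lit 17) (nat_lit 3) (nat_lit 16) (nat_lit 1) (nat_lit 17) (nat_lit 1) (nat_lit 365) (nat_lit 447) (nat_lit 208))))) (XT.nd (nat_lit 234) (nat_lit 228) (nat_lit 0) (XT.nd (nat_lit 78) (nat_lit 76) (nat_lit 0) (XT.lf (nat_lit 152) (nat_lit 12024998064) (nat_lit 0) (nat_lit 669203) (nat_lit 76) (nat_lit 669203) (nat_lit 16) (nat_lit 1) (nat_lit 14) (nat_lit 1) (nat_lit 15) (nat_lit 1) (nat_lit 366) (nat_lit 447) (nat_lit 207)) (XT.nd (nat_lit 78) (nat_lit 76) (nat_lit 0) (XT.lf (nat_lit 0) (nat_lit 3942433752)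 (nat_lit 0) (nat_lit 3944315412) (nat_lit 152) (nat_lit 3942433752) (nat_lit 14) (nat_lit 3) (nat_lit 14) (nat_lit 1) (nat_lit 16) (nat_lit 1) (nat_lit 367) (nat_lit 447) (nat_lit 206)) (XT.lf (nat_lit 76) (nat_lit 3878268028) (nat_lit 0) (nat_lit 3880060085) (nat_lit 76) (nat_lit 3880060085) (nat_lit 14) (nat_lit 3) (nat_lit 13) (nat_lit 1) (nat_lit 14) (nat_lit 1) (nat_lit 368) (nat_lit 447) (nat_lit 205)))) (XT.nd (nat_lit 78) (nat_lit 76) (nat_lit 0) (XT.lf (nat_lit 152) (nat_lit 11452548539) (nat_lit 0) (nat_lit 550555) (nat_lit 76) (nat_lit 550555) (nat_lit 13) (nat_lit 1) (nat_lit 11) (nat_lit 1) (nat_lit 12) (nat_lit 1) (nat_lit 369) (nat_lit 447) (nat_lit 204)) (XT.nd (nat_lit 78) (nat_lit 76) (nat_lit 0) (XT.lf (nat_lit 0) (nat_lit 3754778815) (nat_lit 0) (nat_lit 3756326861) (nat_lit 152) (nat_lit 3754778815) (nat_lit 11) (nat_lit 3) (nat_lit 11) (nat_lit 1) (nat_lit 13) (nat_lit 1)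 (nat_lit 370) (nat_lit 447) (nat_lit 203)) (XT.lf (nat_lit 76) (nat_lit 3693742276) (nat_lit 0) (nat_lit 3695216606) (nat_lit 76) (nat_lit 3695216606) (nat_lit 11) (nat_lit 3) (nat_lit 10) (nat_lit 1) (nat_lit 11) (nat_lit 1) (nat_lit 371) (nat_lit 447) (nat_lit 202)))))) (XT.nd (nat_lit 468) (nat_lit 304) (nat_lit 0) (XT.nd (nat_lit 234) (nat_lit 228) (nat_lit 0) (XT.nd (nat_lit 78) (nat_lit 76) (nat_lit 0) (XT.lf (nat_lit 152) (nat_lit 10907328475) (nat_lit 0) (nat_lit 452943) (nat_lit 76) (nat_lit 452943) (nat_lit 10) (nat_lit 1) (nat_lit 8) (nat_lit 1) (nat_lit 9) (nat_lit 1) (nat_lit 372) (nat_lit 447) (nat_lit 201)) (XT.nd (nat_lit 78) (nat_lit 76) (nat_lit 0) (XT.lf (nat_lit 0) (nat_lit 3576045643) (nat_lit 0) (nat_lit 3577319224) (nat_lit 152) (nat_lit 3576045643) (nat_lit 8) (nat_lit 3) (nat_lit 8) (nat_lit 1) (nat_lit 10) (nat_lit 1) (nat_lit 373) (nat_lit 447) (nat_lit 200)) (XT.lf (nat_lit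 76) (nat_lit 3517976218) (nat_lit 0) (nat_lit 3519189152) (nat_lit 76) (nat_lit 3519189152) (nat_lit 8) (nat_lit 3) (nat_lit 7) (nat_lit 1) (nat_lit 8) (nat_lit 1) (nat_lit 374) (nat_lit 447) (nat_lit 199)))) (XT.nd (nat_lit 78) (nat_lit 76) (nat_lit 0) (XT.lf (nat_lit 152) (nat_lit 10388046558) (nat_lit 0) (nat_lit 372637) (nat_lit 76) (nat_lit 372637) (nat_lit 7) (nat_lit 1) (nat_lit 5) (nat_lit 1) (nat_lit 6) (nat_lit 1) (nat_lit 375) (nat_lit 447) (nat_lit 198)) (XT.nd (nat_lit 78) (nat_lit 76) (nat_lit 0) (XT.lf (nat_lit 0) (nat_lit 3405811904) (nat_lit 0) (nat_lit 3406859683) (nat_lit 152) (nat_lit 3405811904) (nat_lit 5) (nat_lit 3) (nat_lit 5) (nat_lit 1) (nat_lit 7) (nat_lit 1) (nat_lit 376) (nat_lit 447) (nat_lit 197)) (XT.lf (nat_lit 76) (nat_lit 3350557556) (nat_lit 0) (nat_lit 3351555440) (nat_lit 76) (nat_lit 3351555440) (nat_lit 5) (nat_lit 3) (nat_lit 4) (nat_lit 1) (nat_lit 5)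 (nat_lit 1) (nat_lit 377) (nat_lit 447) (nat_lit 196))))) (XT.nd (nat_lit 234) (nat_lit 76) (nat_lit 0) (XT.nd (nat_lit 78) (nat_lit 76) (nat_lit 0) (XT.lf (nat_lit 152) (nat_lit 9893472019) (nat_lit 0) (nat_lit 306569) (nat_lit 76) (nat_lit 306569) (nat_lit 4) (nat_lit 1) (nat_lit 2) (nat_lit 1) (nat_lit 3) (nat_lit 1) (nat_lit 378) (nat_lit 447) (nat_lit 195)) (XT.nd (nat_lit 78) (nat_lit 76) (nat_lit 0) (XT.lf (nat_lit 0) (nat_lit 3243674934) (nat_lit 0) (nat_lit 3244536944) (nat_lit 152) (nat_lit 3243674934) (nat_lit 2) (nat_lit 3) (nat_lit 2) (nat_lit 1) (nat_lit 4) (nat_lit 1) (nat_lit 379) (nat_lit 447) (nat_lit 194)) (XT.lf (nat_lit 76) (nat_lit 3191092770) (nat_lit 0) (nat_lit 3191913732) (nat_lit 76) (nat_lit 3191913732) (nat_lit 2) (nat_lit 3) (nat_lit 1) (nat_lit 1) (nat_lit 2) (nat_lit 1) (nat_lit 380) (nat_lit 447) (nat_lit 193)))) (XT.nd (nat_lit 156) (nat_lit 0) (nat_lit 0) (XT.nd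 (nat_lit 78) (nat_lit 0) (nat_lit 0) (XT.lf (nat_lit 0) (nat_lit 198681113986) (nat_lit 0) (nat_lit 0) (nat_lit 0) (nat_lit 0) (nat_lit 0) (nat_lit 0) (nat_lit 1) (nat_lit 0) (nat_lit 1) (nat_lit 0) (nat_lit 381) (nat_lit 447) (nat_lit 192)) (XT.lf (nat_lit 0) (nat_lit 198681076604) (nat_lit 0) (nat_lit 0) (nat_lit 0) (nat_lit 0) (nat_lit 0) (nat_lit 0) (nat_lit 1) (nat_lit 0) (nat_lit 1) (nat_lit 0) (nat_lit 382) (nat_lit 447) (nat_lit 191))) (XT.nd (nat_lit 78) (nat_lit 0) (nat_lit 0) (XT.lf (nat_lit 0) (nat_lit 198681041002) (nat_lit 0) (nat_lit 0) (nat_lit 0) (nat_lit 0) (nat_lit 0) (nat_lit 0) (nat_lit 1) (nat_lit 0) (nat_lit 1) (nat_lit 0) (nat_lit 383) (nat_lit 447) (nat_lit 190)) (XT.lf (nat_lit 0) (nat_lit 198681007095) (nat_lit 0) (nat_lit 0) (nat_lit 0) (nat_lit 0) (nat_lit 0) (nat_lit 0) (nat_lit 1) (nat_lit 0) (nat_lit 1) (nat_lit 0) (nat_lit 384) (nat_lit 447) (nat_lit 189))))))))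
noncomputable def ec499 : XT := (XT.nd (nat_lit 39702) (nat_lit 0) (nat_lit 10640) (XT.nd (nat_lit 38688) (nat_lit 0) (nat_lit 12692) (XT.nd (nat_lit 38220) (nat_lit 0) (nat_lit 13604) (XT.nd (nat_lit 234) (nat_lit 0) (nat_lit 0) (XT.nd (nat_lit 78) (nat_lit 0) (nat_lit 0) (XT.lf (nat_lit 0) (nat_lit 198680974803) (nat_lit 0) (nat_lit 0) (nat_lit 0) (nat_lit 0) (nat_lit 0) (nat_lit 0) (nat_lit 1) (nat_lit 0) (nat_lit 1) (nat_lit 0) (nat_lit 385) (nat_lit 447) (nat_lit 188)) (XT.nd (nat_lit 78) (nat_lit 0) (nat_lit 0) (XT.lf (nat_lit 0) (nat_lit 198680944048) (nat_lit 0) (nat_lit 0) (nat_lit 0) (nat_lit 0) (nat_lit 0) (nat_lit 0) (nat_lit 1) (nat_lit 0) (nat_lit 1) (nat_lit 0) (nat_lit 386) (nat_lit 447) (nat_lit 187)) (XT.lf (nat_lit 0) (nat_lit 198680914759) (nat_lit 0) (nat_lit 0) (nat_lit 0) (nat_lit 0) (nat_lit 0) (nat_lit 0) (nat_lit 1) (nat_lit 0) (nat_lit 1) (nat_lit 0) (nat_lit 387) (nat_lit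 447) (nat_lit 186)))) (XT.nd (nat_lit 37830) (nat_lit 0) (nat_lit 14060) (XT.lf (nat_lit 0) (nat_lit 198680886863) (nat_lit 0) (nat_lit 0) (nat_lit 0) (nat_lit 0) (nat_lit 0) (nat_lit 0) (nat_lit 1) (nat_lit 0) (nat_lit 1) (nat_lit 0) (nat_lit 388) (nat_lit 447) (nat_lit 185)) (XT.nd (nat_lit 78) (nat_lit 76) (nat_lit 0) (XT.lf (nat_lit 76) (nat_lit 88537291814) (nat_lit 0) (nat_lit 32442913036) (nat_lit 152) (nat_lit 88537291814) (nat_lit 187) (nat_lit 1) (nat_lit 186) (nat_lit 1) (nat_lit 188) (nat_lit 1) (nat_lit 192) (nat_lit 448) (nat_lit 380)) (XT.lf (nat_lit 152) (nat_lit 110758863472) (nat_lit 0) (nat_lit 47632953467) (nat_lit 76) (nat_lit 47632953467) (nat_lit 187) (nat_lit 1) (nat_lit 185) (nat_lit 1) (nat_lit 186) (nat_lit 1) (nat_lit 193) (nat_lit 448) (nat_lit 379))))) (XT.nd (nat_lit 234) (nat_lit 228) (nat_lit 0) (XT.nd (nat_lit 78) (nat_lit 228) (nat_lit 0) (XT.lf (nat_lit 0) (nat_lit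 22892657839) (nat_lit 0) (nat_lit 156826585957) (nat_lit 152) (nat_lit 22892657839) (nat_lit 185) (nat_lit 3) (nat_lit 185) (nat_lit 1) (nat_lit 187) (nat_lit 1) (nat_lit 194) (nat_lit 448) (nat_lit 378)) (XT.nd (nat_lit 78) (nat_lit 76) (nat_lit 0) (XT.lf (nat_lit 76) (nat_lit 90599460972) (nat_lit 0) (nat_lit 18027639533) (nat_lit 152) (nat_lit 90599460972) (nat_lit 184) (nat_lit 1) (nat_lit 183) (nat_lit 1) (nat_lit 185) (nat_lit 1) (nat_lit 195) (nat_lit 448) (nat_lit 377)) (XT.lf (nat_lit 152) (nat_lit 117544428280) (nat_lit 0) (nat_lit 39187748699) (nat_lit 76) (nat_lit 39187748699) (nat_lit 184) (nat_lit 1) (nat_lit 182) (nat_lit 1) (nat_lit 183) (nat_lit 1) (nat_lit 196) (nat_lit 448) (nat_lit 376)))) (XT.nd (nat_lit 78) (nat_lit 228) (nat_lit 0) (XT.lf (nat_lit 0) (nat_lit 27497071569) (nat_lit 0) (nat_lit 137684845690) (nat_lit 152) (nat_lit 27497071569) (nat_lit 182) (nat_lit 3) (nat_lit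 182) (nat_lit 1) (nat_lit 184) (nat_lit 1) (nat_lit 197) (nat_lit 448) (nat_lit 375)) (XT.nd (nat_lit 78) (nat_lit 76) (nat_lit 0) (XT.lf (nat_lit 76) (nat_lit 91450316839) (nat_lit 0) (nat_lit 6580692887) (nat_lit 152) (nat_lit 91450316839) (nat_lit 181) (nat_lit 1) (nat_lit 180) (nat_lit 1) (nat_lit 182) (nat_lit 1) (nat_lit 198) (nat_lit 448) (nat_lit 374)) (XT.lf (nat_lit 152) (nat_lit 121868698897) (nat_lit 0) (nat_lit 32239857836) (nat_lit 76) (nat_lit 32239857836) (nat_lit 181) (nat_lit 1) (nat_lit 179) (nat_lit 1) (nat_lit 180) (nat_lit 1) (nat_lit 199) (nat_lit 448) (nat_lit 373)))))) (XT.nd (nat_lit 468) (nat_lit 456) (nat_lit 0) (XT.nd (nat_lit 234) (nat_lit 228) (nat_lit 0) (XT.nd (nat_lit 78) (nat_lit 228) (nat_lit 0) (XT.lf (nat_lit 0) (nat_lit 30872599601) (nat_lit 0) (nat_lit 121524354062) (nat_lit 152) (nat_lit 30872599601) (nat_lit 179) (nat_lit 3) (nat_lit 179) (nat_lit 1) (nat_lit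 181) (nat_lit 1) (nat_lit 200) (nat_lit 448) (nat_lit 372)) (XT.nd (nat_lit 78) (nat_lit 152) (nat_lit 0) (XT.lf (nat_lit 76) (nat_lit 2524653075) (nat_lit 0) (nat_lit 88859657324) (nat_lit 76) (nat_lit 88859657324) (nat_lit 179) (nat_lit 3) (nat_lit 178) (nat_lit 1) (nat_lit 179) (nat_lit 1) (nat_lit 201) (nat_lit 448) (nat_lit 371)) (XT.lf (nat_lit 152) (nat_lit 124227972424) (nat_lit 0) (nat_lit 26523810829) (nat_lit 76) (nat_lit 26523810829) (nat_lit 178) (nat_lit 1) (nat_lit 176) (nat_lit 1) (nat_lit 177) (nat_lit 1) (nat_lit 202) (nat_lit 448) (nat_lit 370)))) (XT.nd (nat_lit 78) (nat_lit 228) (nat_lit 0) (XT.lf (nat_lit 0) (nat_lit 33256764830) (nat_lit 0) (nat_lit 107836187570) (nat_lit 152) (nat_lit 33256764830) (nat_lit 176) (nat_lit 3) (nat_lit 176) (nat_lit 1) (nat_lit 178) (nat_lit 1) (nat_lit 203) (nat_lit 448) (nat_lit 369)) (XT.nd (nat_lit 78) (nat_lit 152) (nat_lit 0) (XT.lf (nat_lit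 76) (nat_lit 9808100346) (nat_lit 0) (nat_lit 80836122003) (nat_lit 76) (nat_lit 80836122003) (nat_lit 176) (nat_lit 3) (nat_lit 175) (nat_lit 1) (nat_lit 176) (nat_lit 1) (nat_lit 204) (nat_lit 448) (nat_lit 368)) (XT.lf (nat_lit 152) (nat_lit 125027700582) (nat_lit 0) (nat_lit 21821204810) (nat_lit 76) (nat_lit 21821204810) (nat_lit 175) (nat_lit 1) (nat_lit 173) (nat_lit 1) (nat_lit 174) (nat_lit 1) (nat_lit 205) (nat_lit 448) (nat_lit 367))))) (XT.nd (nat_lit 234) (nat_lit 228) (nat_lit 0) (XT.nd (nat_lit 78) (nat_lit 228) (nat_lit 0) (XT.lf (nat_lit 0) (nat_lit 34844042477) (nat_lit 0) (nat_lit 96200718133) (nat_lit 152) (nat_lit 34844042477) (nat_lit 173) (nat_lit 3) (nat_lit 173) (nat_lit 1) (nat_lit 175) (nat_lit 1) (nat_lit 206) (nat_lit 448) (nat_lit 366)) (XT.nd (nat_lit 78) (nat_lit 152) (nat_lit 0) (XT.lf (nat_lit 76) (nat_lit 15432064631) (nat_lit 0) (nat_lit 73866993828) (nat_lit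 76) (nat_lit 73866993828) (nat_lit 173) (nat_lit 3) (nat_lit 172) (nat_lit 1) (nat_lit 173) (nat_lit 1) (nat_lit 207) (nat_lit 448) (nat_lit 365)) (XT.lf (nat_lit 152) (nat_lit 124598732239) (nat_lit 0) (nat_lit 17952359200) (nat_lit 76) (nat_lit 17952359200) (nat_lit 172) (nat_lit 1) (nat_lit 170) (nat_lit 1) (nat_lit 171) (nat_lit 1) (nat_lit 208) (nat_lit 448) (nat_lit 364)))) (XT.nd (nat_lit 156) (nat_lit 152) (nat_lit 0) (XT.nd (nat_lit 78) (nat_lit 76) (nat_lit 0) (XT.lf (nat_lit 0) (nat_lit 35793536880) (nat_lit 0) (nat_lit 86271825787) (nat_lit 152) (nat_lit 35793536880) (nat_lit 170) (nat_lit 3) (nat_lit 170) (nat_lit 1) (nat_lit 172) (nat_lit 1) (nat_lit 209) (nat_lit 448) (nat_lit 363)) (XT.lf (nat_lit 76) (nat_lit 19708298909) (nat_lit 0) (nat_lit 67782859774) (nat_lit 76) (nat_lit 67782859774) (nat_lit 170) (nat_lit 3) (nat_lit 169) (nat_lit 1) (nat_lit 170) (nat_lit 1) (nat_lit 210)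 (nat_lit 448) (nat_lit 362))) (XT.nd (nat_lit 78) (nat_lit 0) (nat_lit 0) (XT.lf (nat_lit 152) (nat_lit 123210669704) (nat_lit 0) (nat_lit 14769450342) (nat_lit 76) (nat_lit 14769450342) (nat_lit 169) (nat_lit 1) (nat_lit 167) (nat_lit 1) (nat_lit 168) (nat_lit 1) (nat_lit 211) (nat_lit 448) (nat_lit 361)) (XT.lf (nat_lit 0) (nat_lit 36235295089) (nat_lit 0) (nat_lit 77763908297) (nat_lit 152) (nat_lit 36235295089) (nat_lit 167) (nat_lit 3) (nat_lit 167) (nat_lit 1) (nat_lit 169) (nat_lit 1) (nat_lit 212) (nat_lit 448) (nat_lit 360))))))) (XT.nd (nat_lit 1014) (nat_lit 1064) (nat_lit 0) (XT.nd (nat_lit 468) (nat_lit 532) (nat_lit 0) (XT.nd (nat_lit 234) (nat_lit 228) (nat_lit 0) (XT.nd (nat_lit 78) (nat_lit 152) (nat_lit 0) (XT.lf (nat_lit 76) (nat_lit 22892448330) (nat_lit 0) (nat_lit 62443508528) (nat_lit 76) (nat_lit 62443508528) (nat_lit 167) (nat_lit 3) (nat_lit 166) (nat_lit 1) (nat_lit 167)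 (nat_lit 1) (nat_lit 213) (nat_lit 448) (nat_lit 359)) (XT.nd (nat_lit 78) (nat_lit 0) (nat_lit 0) (XT.lf (nat_lit 152) (nat_lit 121082850825) (nat_lit 0) (nat_lit 12150863347) (nat_lit 76) (nat_lit 12150863347) (nat_lit 166) (nat_lit 1) (nat_lit 164) (nat_lit 1) (nat_lit 165) (nat_lit 1) (nat_lit 214) (nat_lit 448) (nat_lit 358)) (XT.lf (nat_lit 0) (nat_lit 36275499056) (nat_lit 0) (nat_lit 70441191916) (nat_lit 152) (nat_lit 36275499056) (nat_lit 164) (nat_lit 3) (nat_lit 164) (nat_lit 1) (nat_lit 166) (nat_lit 1) (nat_lit 215) (nat_lit 448) (nat_lit 357)))) (XT.nd (nat_lit 78) (nat_lit 152) (nat_lit 0) (XT.lf (nat_lit 76) (nat_lit 25194037746) (nat_lit 0) (nat_lit 57732792852) (nat_lit 76) (nat_lit 57732792852) (nat_lit 164) (nat_lit 3) (nat_lit 163) (nat_lit 1) (nat_lit 164) (nat_lit 1) (nat_lit 216) (nat_lit 448) (nat_lit 356)) (XT.nd (nat_lit 78) (nat_lit 0) (nat_lit 0) (XT.lf (nat_lit 152)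 (nat_lit 118393378113) (nat_lit 0) (nat_lit 9996545347) (nat_lit 76) (nat_lit 9996545347) (nat_lit 163) (nat_lit 1) (nat_lit 161) (nat_lit 1) (nat_lit 162) (nat_lit 1) (nat_lit 217) (nat_lit 448) (nat_lit 355)) (XT.lf (nat_lit 0) (nat_lit 36000735334) (nat_lit 0) (nat_lit 64108935403) (nat_lit 152) (nat_lit 36000735334) (nat_lit 161) (nat_lit 3) (nat_lit 161) (nat_lit 1) (nat_lit 163) (nat_lit 1) (nat_lit 218) (nat_lit 448) (nat_lit 354))))) (XT.nd (nat_lit 234) (nat_lit 304) (nat_lit 0) (XT.nd (nat_lit 78) (nat_lit 152) (nat_lit 0) (XT.lf (nat_lit 76) (nat_lit 26784686586) (nat_lit 0) (nat_lit 53554400938) (nat_lit 76) (nat_lit 53554400938) (nat_lit 161) (nat_lit 3) (nat_lit 160) (nat_lit 1) (nat_lit 161) (nat_lit 1) (nat_lit 219) (nat_lit 448) (nat_lit 353)) (XT.nd (nat_lit 78) (nat_lit 0) (nat_lit 0) (XT.lf (nat_lit 152) (nat_lit 115286541444) (nat_lit 0) (nat_lit 8224182596) (nat_lit 76) (nat_lit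 8224182596) (nat_lit 160) (nat_lit 1) (nat_lit 158) (nat_lit 1) (nat_lit 159) (nat_lit 1) (nat_lit 220) (nat_lit 448) (nat_lit 352)) (XT.lf (nat_lit 0) (nat_lit 35481505946) (nat_lit 0) (nat_lit 58606191705) (nat_lit 152) (nat_lit 35481505946) (nat_lit 158) (nat_lit 3) (nat_lit 158) (nat_lit 1) (nat_lit 160) (nat_lit 1) (nat_lit 221) (nat_lit 448) (nat_lit 351)))) (XT.nd (nat_lit 156) (nat_lit 76) (nat_lit 0) (XT.nd (nat_lit 78) (nat_lit 152) (nat_lit 0) (XT.lf (nat_lit 76) (nat_lit 27804865448) (nat_lit 0) (nat_lit 49828375694) (nat_lit 76) (nat_lit 49828375694) (nat_lit 158) (nat_lit 3) (nat_lit 157) (nat_lit 1) (nat_lit 158) (nat_lit 1) (nat_lit 222) (nat_lit 448) (nat_lit 350)) (XT.lf (nat_lit 152) (nat_lit 111878919405) (nat_lit 0) (nat_lit 6766055375) (nat_lit 76) (nat_lit 6766055375) (nat_lit 157) (nat_lit 1) (nat_lit 155) (nat_lit 1) (nat_lit 156) (nat_lit 1) (nat_lit 223) (nat_lit 448)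 (nat_lit 349))) (XT.nd (nat_lit 78) (nat_lit 76) (nat_lit 0) (XT.lf (nat_lit 0) (nat_lit 34775115029) (nat_lit 0) (nat_lit 53799851232) (nat_lit 152) (nat_lit 34775115029) (nat_lit 155) (nat_lit 3) (nat_lit 155) (nat_lit 1) (nat_lit 157) (nat_lit 1) (nat_lit 224) (nat_lit 448) (nat_lit 348)) (XT.lf (nat_lit 76) (nat_lit 28369453050) (nat_lit 0) (nat_lit 46488249433) (nat_lit 76) (nat_lit 46488249433) (nat_lit 155) (nat_lit 3) (nat_lit 154) (nat_lit 1) (nat_lit 155) (nat_lit 1) (nat_lit 225) (nat_lit 448) (nat_lit 347)))))) (XT.nd (nat_lit 468) (nat_lit 608) (nat_lit 0) (XT.nd (nat_lit 234) (nat_lit 228) (nat_lit 0) (XT.nd (nat_lit 78) (nat_lit 76) (nat_lit 0) (XT.lf (nat_lit 152) (nat_lit 108264393822) (nat_lit 0) (nat_lit 5566450501) (nat_lit 76) (nat_lit 5566450501) (nat_lit 154) (nat_lit 1) (nat_lit 152) (nat_lit 1) (nat_lit 153) (nat_lit 1) (nat_lit 226) (nat_lit 448) (nat_lit 346)) (XT.nd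 (nat_lit 78) (nat_lit 76) (nat_lit 0) (XT.lf (nat_lit 0) (nat_lit 33928042032) (nat_lit 0) (nat_lit 49579739588) (nat_lit 152) (nat_lit 33928042032) (nat_lit 152) (nat_lit 3) (nat_lit 152) (nat_lit 1) (nat_lit 154) (nat_lit 1) (nat_lit 227) (nat_lit 448) (nat_lit 345)) (XT.lf (nat_lit 76) (nat_lit 28572306314) (nat_lit 0) (nat_lit 43478684939) (nat_lit 76) (nat_lit 43478684939) (nat_lit 152) (nat_lit 3) (nat_lit 151) (nat_lit 1) (nat_lit 152) (nat_lit 1) (nat_lit 228) (nat_lit 448) (nat_lit 344)))) (XT.nd (nat_lit 78) (nat_lit 76) (nat_lit 0) (XT.lf (nat_lit 152) (nat_lit 104518270397) (nat_lit 0) (nat_lit 4579532603) (nat_lit 76) (nat_lit 4579532603) (nat_lit 151) (nat_lit 1) (nat_lit 149) (nat_lit 1) (nat_lit 150) (nat_lit 1) (nat_lit 229) (nat_lit 448) (nat_lit 343)) (XT.nd (nat_lit 78) (nat_lit 76) (nat_lit 0) (XT.lf (nat_lit 0) (nat_lit 32977892560) (nat_lit 0) (nat_lit 45854582874) (nat_lit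 152) (nat_lit 32977892560) (nat_lit 149) (nat_lit 3) (nat_lit 149) (nat_lit 1) (nat_lit 151) (nat_lit 1) (nat_lit 230) (nat_lit 448) (nat_lit 342)) (XT.lf (nat_lit 76) (nat_lit 28490018620) (nat_lit 0) (nat_lit 40753533205) (nat_lit 76) (nat_lit 40753533205) (nat_lit 149) (nat_lit 3) (nat_lit 148) (nat_lit 1) (nat_lit 149) (nat_lit 1) (nat_lit 231) (nat_lit 448) (nat_lit 341))))) (XT.nd (nat_lit 234) (nat_lit 380) (nat_lit 0) (XT.nd (nat_lit 78) (nat_lit 76) (nat_lit 0) (XT.lf (nat_lit 152) (nat_lit 100700664162) (nat_lit 0) (nat_lit 3767592806) (nat_lit 76) (nat_lit 3767592806) (nat_lit 148) (nat_lit 1) (nat_lit 146) (nat_lit 1) (nat_lit 147) (nat_lit 1) (nat_lit 232) (nat_lit 448) (nat_lit 340)) (XT.nd (nat_lit 78) (nat_lit 76) (nat_lit 0) (XT.lf (nat_lit 0) (nat_lit 31955001837) (nat_lit 0) (nat_lit 42548686826) (nat_lit 152) (nat_lit 31955001837) (nat_lit 146) (nat_lit 3) (nat_lit 146) (nat_lit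 1) (nat_lit 148) (nat_lit 1) (nat_lit 233) (nat_lit 448) (nat_lit 339)) (XT.lf (nat_lit 76) (nat_lit 28185010260) (nat_lit 0) (nat_lit 38274234058) (nat_lit 76) (nat_lit 38274234058) (nat_lit 146) (nat_lit 3) (nat_lit 145) (nat_lit 1) (nat_lit 146) (nat_lit 1) (nat_lit 234) (nat_lit 448) (nat_lit 338)))) (XT.nd (nat_lit 156) (nat_lit 228) (nat_lit 0) (XT.nd (nat_lit 78) (nat_lit 0) (nat_lit 0) (XT.lf (nat_lit 152) (nat_lit 96859280329) (nat_lit 0) (nat_lit 3099607925) (nat_lit 76) (nat_lit 3099607925) (nat_lit 145) (nat_lit 1) (nat_lit 143) (nat_lit 1) (nat_lit 144) (nat_lit 1) (nat_lit 235) (nat_lit 448) (nat_lit 337)) (XT.lf (nat_lit 0) (nat_lit 30883752441) (nat_lit 0) (nat_lit 39599203298) (nat_lit 152) (nat_lit 30883752441) (nat_lit 143) (nat_lit 3) (nat_lit 143) (nat_lit 1) (nat_lit 145) (nat_lit 1) (nat_lit 236) (nat_lit 448) (nat_lit 336))) (XT.nd (nat_lit 78) (nat_lit 152) (nat_lit 0)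 (XT.lf (nat_lit 76) (nat_lit 27708069535) (nat_lit 0) (nat_lit 36008498922) (nat_lit 76) (nat_lit 36008498922) (nat_lit 143) (nat_lit 3) (nat_lit 142) (nat_lit 1) (nat_lit 143) (nat_lit 1) (nat_lit 237) (nat_lit 448) (nat_lit 335)) (XT.lf (nat_lit 152) (nat_lit 93031697928) (nat_lit 0) (nat_lit 2550055111) (nat_lit 76) (nat_lit 2550055111) (nat_lit 142) (nat_lit 1) (nat_lit 140) (nat_lit 1) (nat_lit 141) (nat_lit 1) (nat_lit 238) (nat_lit 448) (nat_lit 334))))))))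
noncomputable def ec500 : XT := (XT.nd (nat_lit 1950) (nat_lit 1900) (nat_lit 0) (XT.nd (nat_lit 936) (nat_lit 912) (nat_lit 0) (XT.nd (nat_lit 468) (nat_lit 456) (nat_lit 0) (XT.nd (nat_lit 234) (nat_lit 228) (nat_lit 0) (XT.nd (nat_lit 78) (nat_lit 228) (nat_lit 0) (XT.lf (nat_lit 0) (nat_lit 29783657038) (nat_lit 0) (nat_lit 36953880027) (nat_lit 152) (nat_lit 29783657038) (nat_lit 140) (nat_lit 3) (nat_lit 140) (nat_lit 1) (nat_lit 142) (nat_lit 1) (nat_lit 239) (nat_lit 448) (nat_lit 333)) (XT.nd (nat_lit 78) (nat_lit 152) (nat_lit 0) (XT.lf (nat_lit 76) (nat_lit 27100441989) (nat_lit 0) (nat_lit 33929225788) (nat_lit 76) (nat_lit 33929225788) (nat_lit 140) (nat_lit 3) (nat_lit 139) (nat_lit 1) (nat_lit 140) (nat_lit 1) (nat_lit 240) (nat_lit 448) (nat_lit 332)) (XT.lf (nat_lit 152) (nat_lit 89247244591) (nat_lit 0) (nat_lit 2097936651) (nat_lit 76) (nat_lit 2097936651) (nat_lit 139) (nat_lit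 1) (nat_lit 137) (nat_lit 1) (nat_lit 138) (nat_lit 1) (nat_lit 241) (nat_lit 448) (nat_lit 331)))) (XT.nd (nat_lit 78) (nat_lit 228) (nat_lit 0) (XT.lf (nat_lit 0) (nat_lit 28670247852) (nat_lit 0) (nat_lit 34569208050) (nat_lit 152) (nat_lit 28670247852) (nat_lit 137) (nat_lit 3) (nat_lit 137) (nat_lit 1) (nat_lit 139) (nat_lit 1) (nat_lit 242) (nat_lit 448) (nat_lit 330)) (XT.nd (nat_lit 78) (nat_lit 152) (nat_lit 0) (XT.lf (nat_lit 76) (nat_lit 26395547941) (nat_lit 0) (nat_lit 32013605273) (nat_lit 76) (nat_lit 32013605273) (nat_lit 137) (nat_lit 3) (nat_lit 136) (nat_lit 1) (nat_lit 137) (nat_lit 1) (nat_lit 243) (nat_lit 448) (nat_lit 329)) (XT.lf (nat_lit 152) (nat_lit 85528535157) (nat_lit 0) (nat_lit 1725977674) (nat_lit 76) (nat_lit 1725977674) (nat_lit 136) (nat_lit 1) (nat_lit 134) (nat_lit 1) (nat_lit 135) (nat_lit 1) (nat_lit 244) (nat_lit 448) (nat_lit 328))))) (XT.nd (nat_lit 234)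 (nat_lit 228) (nat_lit 0) (XT.nd (nat_lit 78) (nat_lit 228) (nat_lit 0) (XT.lf (nat_lit 0) (nat_lit 27555807193) (nat_lit 0) (nat_lit 32408896347) (nat_lit 152) (nat_lit 27555807193) (nat_lit 134) (nat_lit 3) (nat_lit 134) (nat_lit 1) (nat_lit 136) (nat_lit 1) (nat_lit 245) (nat_lit 448) (nat_lit 327)) (XT.nd (nat_lit 78) (nat_lit 152) (nat_lit 0) (XT.lf (nat_lit 76) (nat_lit 25620394280) (nat_lit 0) (nat_lit 30242383950) (nat_lit 76) (nat_lit 30242383950) (nat_lit 134) (nat_lit 3) (nat_lit 133) (nat_lit 1) (nat_lit 134) (nat_lit 1) (nat_lit 246) (nat_lit 448) (nat_lit 326)) (XT.lf (nat_lit 152) (nat_lit 81892733885) (nat_lit 0) (nat_lit 1419966104) (nat_lit 76) (nat_lit 1419966104) (nat_lit 133) (nat_lit 1) (nat_lit 131) (nat_lit 1) (nat_lit 132) (nat_lit 1) (nat_lit 247) (nat_lit 448) (nat_lit 325)))) (XT.nd (nat_lit 78) (nat_lit 228) (nat_lit 0) (XT.lf (nat_lit 0) (nat_lit 26449967279) (nat_lit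 0) (nat_lit 30442615736) (nat_lit 152) (nat_lit 26449967279) (nat_lit 131) (nat_lit 3) (nat_lit 131) (nat_lit 1) (nat_lit 133) (nat_lit 1) (nat_lit 248) (nat_lit 448) (nat_lit 324)) (XT.nd (nat_lit 78) (nat_lit 152) (nat_lit 0) (XT.lf (nat_lit 76) (nat_lit 24796734794) (nat_lit 0) (nat_lit 28599257134) (nat_lit 76) (nat_lit 28599257134) (nat_lit 131) (nat_lit 3) (nat_lit 130) (nat_lit 1) (nat_lit 131) (nat_lit 1) (nat_lit 249) (nat_lit 448) (nat_lit 323)) (XT.lf (nat_lit 152) (nat_lit 78352589450) (nat_lit 0) (nat_lit 1168209628) (nat_lit 76) (nat_lit 1168209628) (nat_lit 130) (nat_lit 1) (nat_lit 128) (nat_lit 1) (nat_lit 129) (nat_lit 1) (nat_lit 250) (nat_lit 448) (nat_lit 322)))))) (XT.nd (nat_lit 468) (nat_lit 456) (nat_lit 0) (XT.nd (nat_lit 234) (nat_lit 228) (nat_lit 0) (XT.nd (nat_lit 78) (nat_lit 228) (nat_lit 0) (XT.lf (nat_lit 0) (nat_lit 25360202593) (nat_lit 0) (nat_lit 28644964360)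 (nat_lit 152) (nat_lit 25360202593) (nat_lit 128) (nat_lit 3) (nat_lit 128) (nat_lit 1) (nat_lit 130) (nat_lit 1) (nat_lit 251) (nat_lit 448) (nat_lit 321)) (XT.nd (nat_lit 78) (nat_lit 152) (nat_lit 0) (XT.lf (nat_lit 76) (nat_lit 23942023667) (nat_lit 0) (nat_lit 27070368207) (nat_lit 76) (nat_lit 27070368207) (nat_lit 128) (nat_lit 3) (nat_lit 127) (nat_lit 1) (nat_lit 128) (nat_lit 1) (nat_lit 252) (nat_lit 448) (nat_lit 320)) (XT.lf (nat_lit 152) (nat_lit 74917283166) (nat_lit 0) (nat_lit 961088952) (nat_lit 76) (nat_lit 961088952) (nat_lit 127) (nat_lit 1) (nat_lit 125) (nat_lit 1) (nat_lit 126) (nat_lit 1) (nat_lit 253) (nat_lit 448) (nat_lit 319)))) (XT.nd (nat_lit 78) (nat_lit 228) (nat_lit 0) (XT.lf (nat_lit 0) (nat_lit 24292233867) (nat_lit 0) (nat_lit 26994615502) (nat_lit 152) (nat_lit 24292233867) (nat_lit 125) (nat_lit 3) (nat_lit 125) (nat_lit 1) (nat_lit 127) (nat_lit 1) (nat_lit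 254) (nat_lit 448) (nat_lit 318)) (XT.nd (nat_lit 78) (nat_lit 152) (nat_lit 0) (XT.lf (nat_lit 76) (nat_lit 23070198871) (nat_lit 0) (nat_lit 25643895666) (nat_lit 76) (nat_lit 25643895666) (nat_lit 125) (nat_lit 3) (nat_lit 124) (nat_lit 1) (nat_lit 125) (nat_lit 1) (nat_lit 255) (nat_lit 448) (nat_lit 317)) (XT.lf (nat_lit 152) (nat_lit 71593123712) (nat_lit 0) (nat_lit 790690259) (nat_lit 76) (nat_lit 790690259) (nat_lit 124) (nat_lit 1) (nat_lit 122) (nat_lit 1) (nat_lit 123) (nat_lit 1) (nat_lit 256) (nat_lit 448) (nat_lit 316))))) (XT.nd (nat_lit 234) (nat_lit 228) (nat_lit 0) (XT.nd (nat_lit 78) (nat_lit 228) (nat_lit 0) (XT.lf (nat_lit 0) (nat_lit 23250359428) (nat_lit 0) (nat_lit 25473615486) (nat_lit 152) (nat_lit 23250359428) (nat_lit 122) (nat_lit 3) (nat_lit 122) (nat_lit 1) (nat_lit 124) (nat_lit 1) (nat_lit 257) (nat_lit 448) (nat_lit 315)) (XT.nd (nat_lit 78) (nat_lit 152) (nat_lit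 0) (XT.lf (nat_lit 76) (nat_lit 22192325656) (nat_lit 0) (nat_lit 24309712378) (nat_lit 76) (nat_lit 24309712378) (nat_lit 122) (nat_lit 3) (nat_lit 121) (nat_lit 1) (nat_lit 122) (nat_lit 1) (nat_lit 258) (nat_lit 448) (nat_lit 314)) (XT.lf (nat_lit 152) (nat_lit 68384115720) (nat_lit 0) (nat_lit 650502833) (nat_lit 76) (nat_lit 650502833) (nat_lit 121) (nat_lit 1) (nat_lit 119) (nat_lit 1) (nat_lit 120) (nat_lit 1) (nat_lit 259) (nat_lit 448) (nat_lit 313)))) (XT.nd (nat_lit 156) (nat_lit 152) (nat_lit 0) (XT.nd (nat_lit 78) (nat_lit 76) (nat_lit 0) (XT.lf (nat_lit 0) (nat_lit 22237726819) (nat_lit 0) (nat_lit 24066805081) (nat_lit 152) (nat_lit 22237726819) (nat_lit 119) (nat_lit 3) (nat_lit 119) (nat_lit 1) (nat_lit 121) (nat_lit 1) (nat_lit 260) (nat_lit 448) (nat_lit 312)) (XT.lf (nat_lit 76) (nat_lit 21317125001) (nat_lit 0) (nat_lit 23059104297) (nat_lit 76) (nat_lit 23059104297) (nat_lit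 119) (nat_lit 3) (nat_lit 118) (nat_lit 1) (nat_lit 119) (nat_lit 1) (nat_lit 261) (nat_lit 448) (nat_lit 311))) (XT.nd (nat_lit 78) (nat_lit 0) (nat_lit 0) (XT.lf (nat_lit 152) (nat_lit 65292424728) (nat_lit 0) (nat_lit 535170290) (nat_lit 76) (nat_lit 535170290) (nat_lit 118) (nat_lit 1) (nat_lit 116) (nat_lit 1) (nat_lit 117) (nat_lit 1) (nat_lit 262) (nat_lit 448) (nat_lit 310)) (XT.lf (nat_lit 0) (nat_lit 21256555343) (nat_lit 0) (nat_lit 22761342556) (nat_lit 152) (nat_lit 21256555343) (nat_lit 116) (nat_lit 3) (nat_lit 116) (nat_lit 1) (nat_lit 118) (nat_lit 1) (nat_lit 263) (nat_lit 448) (nat_lit 309))))))) (XT.nd (nat_lit 936) (nat_lit 988) (nat_lit 0) (XT.nd (nat_lit 468) (nat_lit 456) (nat_lit 0) (XT.nd (nat_lit 234) (nat_lit 228) (nat_lit 0) (XT.nd (nat_lit 78) (nat_lit 152) (nat_lit 0) (XT.lf (nat_lit 76) (nat_lit 20451407458) (nat_lit 0) (nat_lit 21884538136) (nat_lit 76) (nat_lit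 21884538136) (nat_lit 116) (nat_lit 3) (nat_lit 115) (nat_lit 1) (nat_lit 116) (nat_lit 1) (nat_lit 264) (nat_lit 448) (nat_lit 308)) (XT.nd (nat_lit 78) (nat_lit 0) (nat_lit 0) (XT.lf (nat_lit 152) (nat_lit 62318757018) (nat_lit 0) (nat_lit 440285922) (nat_lit 76) (nat_lit 440285922) (nat_lit 115) (nat_lit 1) (nat_lit 113) (nat_lit 1) (nat_lit 114) (nat_lit 1) (nat_lit 265) (nat_lit 448) (nat_lit 307)) (XT.lf (nat_lit 0) (nat_lit 20308318263) (nat_lit 0) (nat_lit 21546310427) (nat_lit 152) (nat_lit 20308318263) (nat_lit 113) (nat_lit 3) (nat_lit 113) (nat_lit 1) (nat_lit 115) (nat_lit 1) (nat_lit 266) (nat_lit 448) (nat_lit 306)))) (XT.nd (nat_lit 78) (nat_lit 152) (nat_lit 0) (XT.lf (nat_lit 76) (nat_lit 19600429209) (nat_lit 0) (nat_lit 20779469364) (nat_lit 76) (nat_lit 20779469364) (nat_lit 113) (nat_lit 3) (nat_lit 112) (nat_lit 1) (nat_lit 113) (nat_lit 1) (nat_lit 267) (nat_lit 448) (nat_lit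 305)) (XT.nd (nat_lit 78) (nat_lit 0) (nat_lit 0) (XT.lf (nat_lit 152) (nat_lit 59462669538) (nat_lit 0) (nat_lit 362224318) (nat_lit 76) (nat_lit 362224318) (nat_lit 112) (nat_lit 1) (nat_lit 110) (nat_lit 1) (nat_lit 111) (nat_lit 1) (nat_lit 268) (nat_lit 448) (nat_lit 304)) (XT.lf (nat_lit 0) (nat_lit 19393891862) (nat_lit 0) (nat_lit 20412391079) (nat_lit 152) (nat_lit 19393891862) (nat_lit 110) (nat_lit 3) (nat_lit 110) (nat_lit 1) (nat_lit 112) (nat_lit 1) (nat_lit 269) (nat_lit 448) (nat_lit 303))))) (XT.nd (nat_lit 234) (nat_lit 228) (nat_lit 0) (XT.nd (nat_lit 78) (nat_lit 152) (nat_lit 0) (XT.lf (nat_lit 76) (nat_lit 18768184169) (nat_lit 0) (nat_lit 19738183424) (nat_lit 76) (nat_lit 19738183424) (nat_lit 110) (nat_lit 3) (nat_lit 109) (nat_lit 1) (nat_lit 110) (nat_lit 1) (nat_lit 270) (nat_lit 448) (nat_lit 302)) (XT.nd (nat_lit 78) (nat_lit 0) (nat_lit 0) (XT.lf (nat_lit 152) (nat_lit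 56722822447) (nat_lit 0) (nat_lit 298002843) (nat_lit 76) (nat_lit 298002843) (nat_lit 109) (nat_lit 1) (nat_lit 107) (nat_lit 1) (nat_lit 108) (nat_lit 1) (nat_lit 271) (nat_lit 448) (nat_lit 301)) (XT.lf (nat_lit 0) (nat_lit 18513677277) (nat_lit 0) (nat_lit 19351599103) (nat_lit 152) (nat_lit 18513677277) (nat_lit 107) (nat_lit 3) (nat_lit 107) (nat_lit 1) (nat_lit 109) (nat_lit 1) (nat_lit 272) (nat_lit 448) (nat_lit 300)))) (XT.nd (nat_lit 78) (nat_lit 152) (nat_lit 0) (XT.lf (nat_lit 76) (nat_lit 17957643518) (nat_lit 0) (nat_lit 18755664305) (nat_lit 76) (nat_lit 18755664305) (nat_lit 107) (nat_lit 3) (nat_lit 106) (nat_lit 1) (nat_lit 107) (nat_lit 1) (nat_lit 273) (nat_lit 448) (nat_lit 299)) (XT.nd (nat_lit 78) (nat_lit 0) (nat_lit 0) (XT.lf (nat_lit 152) (nat_lit 54097184557) (nat_lit 0) (nat_lit 245167676) (nat_lit 76) (nat_lit 245167676) (nat_lit 106) (nat_lit 1) (nat_lit 104) (nat_lit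 1) (nat_lit 105) (nat_lit 1) (nat_lit 274) (nat_lit 448) (nat_lit 298)) (XT.lf (nat_lit 0) (nat_lit 17667699966) (nat_lit 0) (nat_lit 18357060326) (nat_lit 152) (nat_lit 17667699966) (nat_lit 104) (nat_lit 3) (nat_lit 104) (nat_lit 1) (nat_lit 106) (nat_lit 1) (nat_lit 275) (nat_lit 448) (nat_lit 297)))))) (XT.nd (nat_lit 468) (nat_lit 532) (nat_lit 0) (XT.nd (nat_lit 234) (nat_lit 228) (nat_lit 0) (XT.nd (nat_lit 78) (nat_lit 152) (nat_lit 0) (XT.lf (nat_lit 76) (nat_lit 17170952007) (nat_lit 0) (nat_lit 17827485683) (nat_lit 76) (nat_lit 17827485683) (nat_lit 104) (nat_lit 3) (nat_lit 103) (nat_lit 1) (nat_lit 104) (nat_lit 1) (nat_lit 276) (nat_lit 448) (nat_lit 296)) (XT.nd (nat_lit 78) (nat_lit 0) (nat_lit 0) (XT.lf (nat_lit 152) (nat_lit 51583200140) (nat_lit 0) (nat_lit 201700054) (nat_lit 76) (nat_lit 201700054) (nat_lit 103) (nat_lit 1) (nat_lit 101) (nat_lit 1) (nat_lit 102) (nat_lit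 1) (nat_lit 277) (nat_lit 448) (nat_lit 295)) (XT.lf (nat_lit 0) (nat_lit 16855690823) (nat_lit 0) (nat_lit 17422829297) (nat_lit 152) (nat_lit 16855690823) (nat_lit 101) (nat_lit 3) (nat_lit 101) (nat_lit 1) (nat_lit 103) (nat_lit 1) (nat_lit 278) (nat_lit 448) (nat_lit 294)))) (XT.nd (nat_lit 78) (nat_lit 152) (nat_lit 0) (XT.lf (nat_lit 76) (nat_lit 16409588751) (nat_lit 0) (nat_lit 16949720631) (nat_lit 76) (nat_lit 16949720631) (nat_lit 101) (nat_lit 3) (nat_lit 100) (nat_lit 1) (nat_lit 101) (nat_lit 1) (nat_lit 279) (nat_lit 448) (nat_lit 293)) (XT.nd (nat_lit 78) (nat_lit 0) (nat_lit 0) (XT.lf (nat_lit 152) (nat_lit 49177924057) (nat_lit 0) (nat_lit 165939133) (nat_lit 76) (nat_lit 165939133) (nat_lit 100) (nat_lit 1) (nat_lit 98) (nat_lit 1) (nat_lit 99) (nat_lit 1) (nat_lit 280) (nat_lit 448) (nat_lit 292)) (XT.lf (nat_lit 0) (nat_lit 16077152208) (nat_lit 0) (nat_lit 16543738434) (nat_lit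 152) (nat_lit 16077152208) (nat_lit 98) (nat_lit 3) (nat_lit 98) (nat_lit 1) (nat_lit 100) (nat_lit 1) (nat_lit 281) (nat_lit 448) (nat_lit 291))))) (XT.nd (nat_lit 234) (nat_lit 304) (nat_lit 0) (XT.nd (nat_lit 78) (nat_lit 152) (nat_lit 0) (XT.lf (nat_lit 76) (nat_lit 15674498838) (nat_lit 0) (nat_lit 16118866673) (nat_lit 76) (nat_lit 16118866673) (nat_lit 98) (nat_lit 3) (nat_lit 97) (nat_lit 1) (nat_lit 98) (nat_lit 1) (nat_lit 282) (nat_lit 448) (nat_lit 290)) (XT.nd (nat_lit 78) (nat_lit 0) (nat_lit 0) (XT.lf (nat_lit 152) (nat_lit 46878130916) (nat_lit 0) (nat_lit 136518535) (nat_lit 76) (nat_lit 136518535) (nat_lit 97) (nat_lit 1) (nat_lit 95) (nat_lit 1) (nat_lit 96) (nat_lit 1) (nat_lit 283) (nat_lit 448) (nat_lit 289)) (XT.lf (nat_lit 0) (nat_lit 15331411627) (nat_lit 0) (nat_lit 15715273270) (nat_lit 152) (nat_lit 15331411627) (nat_lit 95) (nat_lit 3) (nat_lit 95) (nat_lit 1) (nat_lit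 97) (nat_lit 1) (nat_lit 284) (nat_lit 448) (nat_lit 288)))) (XT.nd (nat_lit 156) (nat_lit 76) (nat_lit 0) (XT.nd (nat_lit 78) (nat_lit 152) (nat_lit 0) (XT.lf (nat_lit 76) (nat_lit 14966200950) (nat_lit 0) (nat_lit 15331783467) (nat_lit 76) (nat_lit 15331783467) (nat_lit 95) (nat_lit 3) (nat_lit 94) (nat_lit 1) (nat_lit 95) (nat_lit 1) (nat_lit 285) (nat_lit 448) (nat_lit 287)) (XT.lf (nat_lit 152) (nat_lit 44680402975) (nat_lit 0) (nat_lit 112314137) (nat_lit 76) (nat_lit 112314137) (nat_lit 94) (nat_lit 1) (nat_lit 92) (nat_lit 1) (nat_lit 93) (nat_lit 1) (nat_lit 286) (nat_lit 448) (nat_lit 286))) (XT.nd (nat_lit 78) (nat_lit 76) (nat_lit 0) (XT.lf (nat_lit 0) (nat_lit 14617665257) (nat_lit 0) (nat_lit 14933469180) (nat_lit 152) (nat_lit 14617665257) (nat_lit 92) (nat_lit 3) (nat_lit 92) (nat_lit 1) (nat_lit 94) (nat_lit 1) (nat_lit 287) (nat_lit 448) (nat_lit 285)) (XT.lf (nat_lit 76) (nat_lit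 14284875287) (nat_lit 0) (nat_lit 14585640929) (nat_lit 76) (nat_lit 14585640929) (nat_lit 92) (nat_lit 3) (nat_lit 91) (nat_lit 1) (nat_lit 92) (nat_lit 1) (nat_lit 288) (nat_lit 448) (nat_lit 284))))))))
noncomputable def ec501 : XT := (XT.nd (nat_lit 1950) (nat_lit 1900) (nat_lit 0) (XT.nd (nat_lit 936) (nat_lit 1064) (nat_lit 0) (XT.nd (nat_lit 468) (nat_lit 456) (nat_lit 0) (XT.nd (nat_lit 234) (nat_lit 228) (nat_lit 0) (XT.nd (nat_lit 78) (nat_lit 76) (nat_lit 0) (XT.lf (nat_lit 152) (nat_lit 42581200633) (nat_lit 0) (nat_lit 92401118) (nat_lit 76) (nat_lit 92401118) (nat_lit 91) (nat_lit 1) (nat_lit 89) (nat_lit 1) (nat_lit 90) (nat_lit 1) (nat_lit 289) (nat_lit 448) (nat_lit 283)) (XT.nd (nat_lit 78) (nat_lit 76) (nat_lit 0) (XT.lf (nat_lit 0) (nat_lit 13935013163) (nat_lit 0) (nat_lit 14194825832) (nat_lit 152) (nat_lit 13935013163) (nat_lit 89) (nat_lit 3) (nat_lit 89) (nat_lit 1) (nat_lit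 91) (nat_lit 1) (nat_lit 290) (nat_lit 448) (nat_lit 282)) (XT.lf (nat_lit 76) (nat_lit 13630435325) (nat_lit 0) (nat_lit 13877875963) (nat_lit 76) (nat_lit 13877875963) (nat_lit 89) (nat_lit 3) (nat_lit 88) (nat_lit 1) (nat_lit 89) (nat_lit 1) (nat_lit 291) (nat_lit 448) (nat_lit 281)))) (XT.nd (nat_lit 78) (nat_lit 76) (nat_lit 0) (XT.lf (nat_lit 152) (nat_lit 40576918693) (nat_lit 0) (nat_lit 76018629) (nat_lit 76) (nat_lit 76018629) (nat_lit 88) (nat_lit 1) (nat_lit 86) (nat_lit 1) (nat_lit 87) (nat_lit 1) (nat_lit 292) (nat_lit 448) (nat_lit 280)) (XT.nd (nat_lit 78) (nat_lit 76) (nat_lit 0) (XT.lf (nat_lit 0) (nat_lit 13282487701) (nat_lit 0) (nat_lit 13496236228) (nat_lit 152) (nat_lit 13282487701) (nat_lit 86) (nat_lit 3) (nat_lit 86) (nat_lit 1) (nat_lit 88) (nat_lit 1) (nat_lit 293) (nat_lit 448) (nat_lit 279)) (XT.lf (nat_lit 76) (nat_lit 13002586279) (nat_lit 0) (nat_lit 13206156304)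 (nat_lit 76) (nat_lit 13206156304) (nat_lit 86) (nat_lit 3) (nat_lit 85) (nat_lit 1) (nat_lit 86) (nat_lit 1) (nat_lit 294) (nat_lit 448) (nat_lit 278))))) (XT.nd (nat_lit 234) (nat_lit 228) (nat_lit 0) (XT.nd (nat_lit 78) (nat_lit 76) (nat_lit 0) (XT.lf (nat_lit 152) (nat_lit 38663931002) (nat_lit 0) (nat_lit 62540714) (nat_lit 76) (nat_lit 62540714) (nat_lit 85) (nat_lit 1) (nat_lit 83) (nat_lit 1) (nat_lit 84) (nat_lit 1) (nat_lit 295) (nat_lit 448) (nat_lit 277)) (XT.nd (nat_lit 78) (nat_lit 76) (nat_lit 0) (XT.lf (nat_lit 0) (nat_lit 12659076347) (nat_lit 0) (nat_lit 12834927789) (nat_lit 152) (nat_lit 12659076347) (nat_lit 83) (nat_lit 3) (nat_lit 83) (nat_lit 1) (nat_lit 85) (nat_lit 1) (nat_lit 296) (nat_lit 448) (nat_lit 276)) (XT.lf (nat_lit 76) (nat_lit 12400872676) (nat_lit 0) (nat_lit 12568350239) (nat_lit 76) (nat_lit 12568350239) (nat_lit 83) (nat_lit 3) (nat_lit 82) (nat_lit 1)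 (nat_lit 83) (nat_lit 1) (nat_lit 297) (nat_lit 448) (nat_lit 275)))) (XT.nd (nat_lit 78) (nat_lit 76) (nat_lit 0) (XT.lf (nat_lit 152) (nat_lit 36838625600) (nat_lit 0) (nat_lit 51452400) (nat_lit 76) (nat_lit 51452400) (nat_lit 82) (nat_lit 1) (nat_lit 80) (nat_lit 1) (nat_lit 81) (nat_lit 1) (nat_lit 298) (nat_lit 448) (nat_lit 274)) (XT.nd (nat_lit 78) (nat_lit 76) (nat_lit 0) (XT.lf (nat_lit 0) (nat_lit 12063739957) (nat_lit 0) (nat_lit 12208413373) (nat_lit 152) (nat_lit 12063739957) (nat_lit 80) (nat_lit 3) (nat_lit 80) (nat_lit 1) (nat_lit 82) (nat_lit 1) (nat_lit 299) (nat_lit 448) (nat_lit 273)) (XT.lf (nat_lit 76) (nat_lit 11824716988) (nat_lit 0) (nat_lit 11962501194) (nat_lit 76) (nat_lit 11962501194) (nat_lit 80) (nat_lit 3) (nat_lit 79) (nat_lit 1) (nat_lit 80) (nat_lit 1) (nat_lit 300) (nat_lit 448) (nat_lit 272)))))) (XT.nd (nat_lit 468) (nat_lit 608) (nat_lit 0) (XT.nd (nat_lit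 234) (nat_lit 228) (nat_lit 0) (XT.nd (nat_lit 78) (nat_lit 76) (nat_lit 0) (XT.lf (nat_lit 152) (nat_lit 35097432144) (nat_lit 0) (nat_lit 42330017) (nat_lit 76) (nat_lit 42330017) (nat_lit 79) (nat_lit 1) (nat_lit 77) (nat_lit 1) (nat_lit 78) (nat_lit 1) (nat_lit 301) (nat_lit 448) (nat_lit 271)) (XT.nd (nat_lit 78) (nat_lit 76) (nat_lit 0) (XT.lf (nat_lit 0) (nat_lit 11495427307) (nat_lit 0) (nat_lit 11614450484) (nat_lit 152) (nat_lit 11495427307) (nat_lit 77) (nat_lit 3) (nat_lit 77) (nat_lit 1) (nat_lit 79) (nat_lit 1) (nat_lit 302) (nat_lit 448) (nat_lit 270)) (XT.lf (nat_lit 76) (nat_lit 11273450928) (nat_lit 0) (nat_lit 11386806335) (nat_lit 76) (nat_lit 11386806335) (nat_lit 77) (nat_lit 3) (nat_lit 76) (nat_lit 1) (nat_lit 77) (nat_lit 1) (nat_lit 303) (nat_lit 448) (nat_lit 269)))) (XT.nd (nat_lit 78) (nat_lit 76) (nat_lit 0) (XT.lf (nat_lit 152) (nat_lit 33436843041) (nat_lit 0) (nat_lit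 34825009) (nat_lit 76) (nat_lit 34825009) (nat_lit 76) (nat_lit 1) (nat_lit 74) (nat_lit 1) (nat_lit 75) (nat_lit 1) (nat_lit 304) (nat_lit 448) (nat_lit 268)) (XT.nd (nat_lit 78) (nat_lit 76) (nat_lit 0) (XT.lf (nat_lit 0) (nat_lit 10953086578) (nat_lit 0) (nat_lit 11051007241) (nat_lit 152) (nat_lit 10953086578) (nat_lit 74) (nat_lit 3) (nat_lit 74) (nat_lit 1) (nat_lit 76) (nat_lit 1) (nat_lit 305) (nat_lit 448) (nat_lit 267)) (XT.lf (nat_lit 76) (nat_lit 10746340738) (nat_lit 0) (nat_lit 10839598512) (nat_lit 76) (nat_lit 10839598512) (nat_lit 74) (nat_lit 3) (nat_lit 73) (nat_lit 1) (nat_lit 74) (nat_lit 1) (nat_lit 306) (nat_lit 448) (nat_lit 266))))) (XT.nd (nat_lit 234) (nat_lit 380) (nat_lit 0) (XT.nd (nat_lit 78) (nat_lit 76) (nat_lit 0) (XT.lf (nat_lit 152) (nat_lit 31853429478) (nat_lit 0) (nat_lit 28650621) (nat_lit 76) (nat_lit 28650621) (nat_lit 73) (nat_lit 1) (nat_lit 71) (nat_lit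 1) (nat_lit 72) (nat_lit 1) (nat_lit 307) (nat_lit 448) (nat_lit 265)) (XT.nd (nat_lit 78) (nat_lit 76) (nat_lit 0) (XT.lf (nat_lit 0) (nat_lit 10435674372) (nat_lit 0) (nat_lit 10516233943) (nat_lit 152) (nat_lit 10435674372) (nat_lit 71) (nat_lit 3) (nat_lit 71) (nat_lit 1) (nat_lit 73) (nat_lit 1) (nat_lit 308) (nat_lit 448) (nat_lit 264)) (XT.lf (nat_lit 76) (nat_lit 10242607559) (nat_lit 0) (nat_lit 10319330960) (nat_lit 76) (nat_lit 10319330960) (nat_lit 71) (nat_lit 3) (nat_lit 70) (nat_lit 1) (nat_lit 71) (nat_lit 1) (nat_lit 309) (nat_lit 448) (nat_lit 263)))) (XT.nd (nat_lit 156) (nat_lit 228) (nat_lit 0) (XT.nd (nat_lit 78) (nat_lit 0) (nat_lit 0) (XT.lf (nat_lit 152) (nat_lit 30343853319) (nat_lit 0) (nat_lit 23570937) (nat_lit 76) (nat_lit 23570937) (nat_lit 70) (nat_lit 1) (nat_lit 68) (nat_lit 1) (nat_lit 69) (nat_lit 1) (nat_lit 310) (nat_lit 448) (nat_lit 262)) (XT.lf (nat_lit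 0) (nat_lit 9942162691) (nat_lit 0) (nat_lit 10008439250) (nat_lit 152) (nat_lit 9942162691) (nat_lit 68) (nat_lit 3) (nat_lit 68) (nat_lit 1) (nat_lit 70) (nat_lit 1) (nat_lit 311) (nat_lit 448) (nat_lit 261))) (XT.nd (nat_lit 78) (nat_lit 152) (nat_lit 0) (XT.lf (nat_lit 76) (nat_lit 9761443766) (nat_lit 0) (nat_lit 9824564299) (nat_lit 76) (nat_lit 9824564299) (nat_lit 68) (nat_lit 3) (nat_lit 67) (nat_lit 1) (nat_lit 68) (nat_lit 1) (nat_lit 312) (nat_lit 448) (nat_lit 260)) (XT.lf (nat_lit 152) (nat_lit 28904875655) (nat_lit 0) (nat_lit 19391868) (nat_lit 76) (nat_lit 19391868) (nat_lit 67) (nat_lit 1) (nat_lit 65) (nat_lit 1) (nat_lit 66) (nat_lit 1) (nat_lit 313) (nat_lit 448) (nat_lit 259))))))) (XT.nd (nat_lit 1014) (nat_lit 988) (nat_lit 0) (XT.nd (nat_lit 468) (nat_lit 456) (nat_lit 0) (XT.nd (nat_lit 234) (nat_lit 228) (nat_lit 0) (XT.nd (nat_lit 78) (nat_lit 228) (nat_lit 0) (XT.lf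 (nat_lit 0) (nat_lit 9471544288) (nat_lit 0) (nat_lit 9526070177) (nat_lit 152) (nat_lit 9471544288) (nat_lit 65) (nat_lit 3) (nat_lit 65) (nat_lit 1) (nat_lit 67) (nat_lit 1) (nat_lit 314) (nat_lit 448) (nat_lit 258)) (XT.nd (nat_lit 78) (nat_lit 152) (nat_lit 0) (XT.lf (nat_lit 76) (nat_lit 9302026020) (nat_lit 0) (nat_lit 9353955438) (nat_lit 76) (nat_lit 9353955438) (nat_lit 65) (nat_lit 3) (nat_lit 64) (nat_lit 1) (nat_lit 65) (nat_lit 1) (nat_lit 315) (nat_lit 448) (nat_lit 257)) (XT.lf (nat_lit 152) (nat_lit 27533362673) (nat_lit 0) (nat_lit 15953738) (nat_lit 76) (nat_lit 15953738) (nat_lit 64) (nat_lit 1) (nat_lit 62) (nat_lit 1) (nat_lit 63) (nat_lit 1) (nat_lit 316) (nat_lit 448) (nat_lit 256)))) (XT.nd (nat_lit 78) (nat_lit 228) (nat_lit 0) (XT.lf (nat_lit 0) (nat_lit 9022836676) (nat_lit 0) (nat_lit 9067695260) (nat_lit 152) (nat_lit 9022836676) (nat_lit 62) (nat_lit 3) (nat_lit 62)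 (nat_lit 1) (nat_lit 64) (nat_lit 1) (nat_lit 317) (nat_lit 448) (nat_lit 255)) (XT.nd (nat_lit 78) (nat_lit 152) (nat_lit 0) (XT.lf (nat_lit 76) (nat_lit 8863525613) (nat_lit 0) (nat_lit 8906248074) (nat_lit 76) (nat_lit 8906248074) (nat_lit 62) (nat_lit 3) (nat_lit 61) (nat_lit 1) (nat_lit 62) (nat_lit 1) (nat_lit 318) (nat_lit 448) (nat_lit 254)) (XT.lf (nat_lit 152) (nat_lit 26226289360) (nat_lit 0) (nat_lit 13125179) (nat_lit 76) (nat_lit 13125179) (nat_lit 61) (nat_lit 1) (nat_lit 59) (nat_lit 1) (nat_lit 60) (nat_lit 1) (nat_lit 319) (nat_lit 448) (nat_lit 253))))) (XT.nd (nat_lit 234) (nat_lit 228) (nat_lit 0) (XT.nd (nat_lit 78) (nat_lit 228) (nat_lit 0) (XT.lf (nat_lit 0) (nat_lit 8595085063) (nat_lit 0) (nat_lit 8631990331) (nat_lit 152) (nat_lit 8595085063) (nat_lit 59) (nat_lit 3) (nat_lit 59) (nat_lit 1) (nat_lit 61) (nat_lit 1) (nat_lit 320) (nat_lit 448) (nat_lit 252)) (XT.nd (nat_lit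 78) (nat_lit 152) (nat_lit 0) (XT.lf (nat_lit 76) (nat_lit 8445116635) (nat_lit 0) (nat_lit 8480264509) (nat_lit 76) (nat_lit 8480264509) (nat_lit 59) (nat_lit 3) (nat_lit 58) (nat_lit 1) (nat_lit 59) (nat_lit 1) (nat_lit 321) (nat_lit 448) (nat_lit 251)) (XT.lf (nat_lit 152) (nat_lit 24980741495) (nat_lit 0) (nat_lit 10798118) (nat_lit 76) (nat_lit 10798118) (nat_lit 58) (nat_lit 1) (nat_lit 56) (nat_lit 1) (nat_lit 57) (nat_lit 1) (nat_lit 322) (nat_lit 448) (nat_lit 250)))) (XT.nd (nat_lit 156) (nat_lit 152) (nat_lit 0) (XT.nd (nat_lit 78) (nat_lit 76) (nat_lit 0) (XT.lf (nat_lit 0) (nat_lit 8187364419) (nat_lit 0) (nat_lit 8217726474) (nat_lit 152) (nat_lit 8187364419) (nat_lit 56) (nat_lit 3) (nat_lit 56) (nat_lit 1) (nat_lit 58) (nat_lit 1) (nat_lit 323) (nat_lit 448) (nat_lit 249)) (XT.lf (nat_lit 76) (nat_lit 8045982334) (nat_lit 0) (nat_lit 8074898577) (nat_lit 76) (nat_lit 8074898577)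 (nat_lit 56) (nat_lit 3) (nat_lit 55) (nat_lit 1) (nat_lit 56) (nat_lit 1) (nat_lit 324) (nat_lit 448) (nat_lit 248))) (XT.nd (nat_lit 78) (nat_lit 0) (nat_lit 0) (XT.lf (nat_lit 152) (nat_lit 23793916263) (nat_lit 0) (nat_lit 8883638) (nat_lit 76) (nat_lit 8883638) (nat_lit 55) (nat_lit 1) (nat_lit 53) (nat_lit 1) (nat_lit 54) (nat_lit 1) (nat_lit 325) (nat_lit 448) (nat_lit 247)) (XT.lf (nat_lit 0) (nat_lit 7798780843) (nat_lit 0) (nat_lit 7823759781) (nat_lit 152) (nat_lit 7798780843) (nat_lit 53) (nat_lit 3) (nat_lit 53) (nat_lit 1) (nat_lit 55) (nat_lit 1) (nat_lit 326) (nat_lit 448) (nat_lit 246)))))) (XT.nd (nat_lit 468) (nat_lit 532) (nat_lit 0) (XT.nd (nat_lit 234) (nat_lit 228) (nat_lit 0) (XT.nd (nat_lit 78) (nat_lit 152) (nat_lit 0) (XT.lf (nat_lit 76) (nat_lit 7665320034) (nat_lit 0) (nat_lit 7689109499) (nat_lit 76) (nat_lit 7689109499) (nat_lit 53) (nat_lit 3) (nat_lit 52) (nat_lit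 1) (nat_lit 53) (nat_lit 1) (nat_lit 327) (nat_lit 448) (nat_lit 245)) (XT.nd (nat_lit 78) (nat_lit 0) (nat_lit 0) (XT.lf (nat_lit 152) (nat_lit 22663121807) (nat_lit 0) (nat_lit 7308591) (nat_lit 76) (nat_lit 7308591) (nat_lit 52) (nat_lit 1) (nat_lit 50) (nat_lit 1) (nat_lit 51) (nat_lit 1) (nat_lit 328) (nat_lit 448) (nat_lit 244)) (XT.lf (nat_lit 0) (nat_lit 7428472369) (nat_lit 0) (nat_lit 7449022603) (nat_lit 152) (nat_lit 7428472369) (nat_lit 50) (nat_lit 3) (nat_lit 50) (nat_lit 1) (nat_lit 52) (nat_lit 1) (nat_lit 329) (nat_lit 448) (nat_lit 243)))) (XT.nd (nat_lit 78) (nat_lit 152) (nat_lit 0) (XT.lf (nat_lit 76) (nat_lit 7302344863) (nat_lit 0) (nat_lit 7321916514) (nat_lit 76) (nat_lit 7321916514) (nat_lit 50) (nat_lit 3) (nat_lit 49) (nat_lit 1) (nat_lit 50) (nat_lit 1) (nat_lit 330) (nat_lit 448) (nat_lit 242)) (XT.nd (nat_lit 78) (nat_lit 0) (nat_lit 0) (XT.lf (nat_lit 152) (nat_lit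 21585775933) (nat_lit 0) (nat_lit 6012796) (nat_lit 76) (nat_lit 6012796) (nat_lit 49) (nat_lit 1) (nat_lit 47) (nat_lit 1) (nat_lit 48) (nat_lit 1) (nat_lit 331) (nat_lit 448) (nat_lit 241)) (XT.lf (nat_lit 0) (nat_lit 7075609335) (nat_lit 0) (nat_lit 7092516063) (nat_lit 152) (nat_lit 7075609335) (nat_lit 47) (nat_lit 3) (nat_lit 47) (nat_lit 1) (nat_lit 49) (nat_lit 1) (nat_lit 332) (nat_lit 448) (nat_lit 240))))) (XT.nd (nat_lit 234) (nat_lit 304) (nat_lit 0) (XT.nd (nat_lit 78) (nat_lit 152) (nat_lit 0) (XT.lf (nat_lit 76) (nat_lit 6956292524) (nat_lit 0) (nat_lit 6972394171) (nat_lit 76) (nat_lit 6972394171) (nat_lit 47) (nat_lit 3) (nat_lit 46) (nat_lit 1) (nat_lit 47) (nat_lit 1) (nat_lit 333) (nat_lit 448) (nat_lit 239)) (XT.nd (nat_lit 78) (nat_lit 0) (nat_lit 0) (XT.lf (nat_lit 152) (nat_lit 20559404171) (nat_lit 0) (nat_lit 4946742) (nat_lit 76) (nat_lit 4946742) (nat_lit 46) (nat_lit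 1) (nat_lit 44) (nat_lit 1) (nat_lit 45) (nat_lit 1) (nat_lit 334) (nat_lit 448) (nat_lit 238)) (XT.lf (nat_lit 0) (nat_lit 6739394390) (nat_lit 0) (nat_lit 6753303597) (nat_lit 152) (nat_lit 6739394390) (nat_lit 44) (nat_lit 3) (nat_lit 44) (nat_lit 1) (nat_lit 46) (nat_lit 1) (nat_lit 335) (nat_lit 448) (nat_lit 237)))) (XT.nd (nat_lit 156) (nat_lit 76) (nat_lit 0) (XT.nd (nat_lit 78) (nat_lit 152) (nat_lit 0) (XT.lf (nat_lit 76) (nat_lit 6626421298) (nat_lit 0) (nat_lit 6639668162) (nat_lit 76) (nat_lit 6639668162) (nat_lit 44) (nat_lit 3) (nat_lit 43) (nat_lit 1) (nat_lit 44) (nat_lit 1) (nat_lit 336) (nat_lit 448) (nat_lit 236)) (XT.lf (nat_lit 152) (nat_lit 19581637350) (nat_lit 0) (nat_lit 4069697) (nat_lit 76) (nat_lit 4069697) (nat_lit 43) (nat_lit 1) (nat_lit 41) (nat_lit 1) (nat_lit 42) (nat_lit 1) (nat_lit 337) (nat_lit 448) (nat_lit 235))) (XT.nd (nat_lit 78) (nat_lit 76) (nat_lit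 0) (XT.lf (nat_lit 0) (nat_lit 6419062232) (nat_lit 0) (nat_lit 6430505372) (nat_lit 152) (nat_lit 6419062232) (nat_lit 41) (nat_lit 3) (nat_lit 41) (nat_lit 1) (nat_lit 43) (nat_lit 1) (nat_lit 338) (nat_lit 448) (nat_lit 234)) (XT.lf (nat_lit 76) (nat_lit 6312013413) (nat_lit 0) (nat_lit 6322911641) (nat_lit 76) (nat_lit 6322911641) (nat_lit 41) (nat_lit 3) (nat_lit 40) (nat_lit 1) (nat_lit 41) (nat_lit 1) (nat_lit 339) (nat_lit 448) (nat_lit 233))))))))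
noncomputable def ec502 : XT := (XT.nd (nat_lit 1950) (nat_lit 1064) (nat_lit 0) (XT.nd (nat_lit 936) (nat_lit 1064) (nat_lit 0) (XT.nd (nat_lit 468) (nat_lit 456) (nat_lit 0) (XT.nd (nat_lit 234) (nat_lit 228) (nat_lit 0) (XT.nd (nat_lit 78) (nat_lit 76) (nat_lit 0) (XT.lf (nat_lit 152) (nat_lit 18650208802) (nat_lit 0) (nat_lit 3348149) (nat_lit 76) (nat_lit 3348149) (nat_lit 40) (nat_lit 1) (nat_lit 38) (nat_lit 1) (nat_lit 39) (nat_lit 1) (nat_lit 340) (nat_lit 448) (nat_lit 232)) (XT.nd (nat_lit 78) (nat_lit 76) (nat_lit 0) (XT.lf (nat_lit 0) (nat_lit 6113879136) (nat_lit 0) (nat_lit 6123293435) (nat_lit 152) (nat_lit 6113879136) (nat_lit 38) (nat_lit 3) (nat_lit 38) (nat_lit 1) (nat_lit 40) (nat_lit 1) (nat_lit 341) (nat_lit 448) (nat_lit 231)) (XT.lf (nat_lit 76) (nat_lit 6012375925) (nat_lit 0) (nat_lit 6021341924) (nat_lit 76) (nat_lit 6021341924) (nat_lit 38) (nat_lit 3) (nat_lit 37)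 (nat_lit 1) (nat_lit 38) (nat_lit 1) (nat_lit 342) (nat_lit 448) (nat_lit 230)))) (XT.nd (nat_lit 78) (nat_lit 76) (nat_lit 0) (XT.lf (nat_lit 152) (nat_lit 17762951311) (nat_lit 0) (nat_lit 2754531) (nat_lit 76) (nat_lit 2754531) (nat_lit 37) (nat_lit 1) (nat_lit 35) (nat_lit 1) (nat_lit 36) (nat_lit 1) (nat_lit 343) (nat_lit 448) (nat_lit 229)) (XT.nd (nat_lit 78) (nat_lit 76) (nat_lit 0) (XT.lf (nat_lit 0) (nat_lit 5823142307) (nat_lit 0) (nat_lit 5830887474) (nat_lit 152) (nat_lit 5823142307) (nat_lit 35) (nat_lit 3) (nat_lit 35) (nat_lit 1) (nat_lit 37) (nat_lit 1) (nat_lit 344) (nat_lit 448) (nat_lit 228)) (XT.lf (nat_lit 76) (nat_lit 5726841190) (nat_lit 0) (nat_lit 5734217539) (nat_lit 76) (nat_lit 5734217539) (nat_lit 35) (nat_lit 3) (nat_lit 34) (nat_lit 1) (nat_lit 35) (nat_lit 1) (nat_lit 345) (nat_lit 448) (nat_lit 227))))) (XT.nd (nat_lit 234) (nat_lit 228) (nat_lit 0) (XT.nd (nat_lit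 78) (nat_lit 76) (nat_lit 0) (XT.lf (nat_lit 152) (nat_lit 16917793884) (nat_lit 0) (nat_lit 2266159) (nat_lit 76) (nat_lit 2266159) (nat_lit 34) (nat_lit 1) (nat_lit 32) (nat_lit 1) (nat_lit 33) (nat_lit 1) (nat_lit 346) (nat_lit 448) (nat_lit 226)) (XT.nd (nat_lit 78) (nat_lit 76) (nat_lit 0) (XT.lf (nat_lit 0) (nat_lit 5546179122) (nat_lit 0) (nat_lit 5552551090) (nat_lit 152) (nat_lit 5546179122) (nat_lit 32) (nat_lit 3) (nat_lit 32) (nat_lit 1) (nat_lit 34) (nat_lit 1) (nat_lit 347) (nat_lit 448) (nat_lit 225)) (XT.lf (nat_lit 76) (nat_lit 5454767026) (nat_lit 0) (nat_lit 5460835567) (nat_lit 76) (nat_lit 5460835567) (nat_lit 32) (nat_lit 3) (nat_lit 31) (nat_lit 1) (nat_lit 32) (nat_lit 1) (nat_lit 348) (nat_lit 448) (nat_lit 224)))) (XT.nd (nat_lit 78) (nat_lit 76) (nat_lit 0) (XT.lf (nat_lit 152) (nat_lit 16112758402) (nat_lit 0) (nat_lit 1864375) (nat_lit 76) (nat_lit 1864375) (nat_lit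 31) (nat_lit 1) (nat_lit 29) (nat_lit 1) (nat_lit 30) (nat_lit 1) (nat_lit 349) (nat_lit 448) (nat_lit 223)) (XT.nd (nat_lit 78) (nat_lit 76) (nat_lit 0) (XT.lf (nat_lit 0) (nat_lit 5282346274) (nat_lit 0) (nat_lit 5287588508) (nat_lit 152) (nat_lit 5282346274) (nat_lit 29) (nat_lit 3) (nat_lit 29) (nat_lit 1) (nat_lit 31) (nat_lit 1) (nat_lit 350) (nat_lit 448) (nat_lit 222)) (XT.lf (nat_lit 76) (nat_lit 5195536624) (nat_lit 0) (nat_lit 5200529227) (nat_lit 76) (nat_lit 5200529227) (nat_lit 29) (nat_lit 3) (nat_lit 28) (nat_lit 1) (nat_lit 29) (nat_lit 1) (nat_lit 351) (nat_lit 448) (nat_lit 221)))))) (XT.nd (nat_lit 468) (nat_lit 608) (nat_lit 0) (XT.nd (nat_lit 234) (nat_lit 228) (nat_lit 0) (XT.nd (nat_lit 78) (nat_lit 76) (nat_lit 0) (XT.lf (nat_lit 152) (nat_lit 15345956218) (nat_lit 0) (nat_lit 1533826) (nat_lit 76) (nat_lit 1533826) (nat_lit 28) (nat_lit 1) (nat_lit 26) (nat_lit 1) (nat_lit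 27) (nat_lit 1) (nat_lit 352) (nat_lit 448) (nat_lit 220)) (XT.nd (nat_lit 78) (nat_lit 76) (nat_lit 0) (XT.lf (nat_lit 0) (nat_lit 5031028863) (nat_lit 0) (nat_lit 5035341661) (nat_lit 152) (nat_lit 5031028863) (nat_lit 26) (nat_lit 3) (nat_lit 26) (nat_lit 1) (nat_lit 28) (nat_lit 1) (nat_lit 353) (nat_lit 448) (nat_lit 219)) (XT.lf (nat_lit 76) (nat_lit 4948558259) (nat_lit 0) (nat_lit 4952665687) (nat_lit 76) (nat_lit 4952665687) (nat_lit 26) (nat_lit 3) (nat_lit 25) (nat_lit 1) (nat_lit 26) (nat_lit 1) (nat_lit 354) (nat_lit 448) (nat_lit 218)))) (XT.nd (nat_lit 78) (nat_lit 76) (nat_lit 0) (XT.lf (nat_lit 152) (nat_lit 14615584735) (nat_lit 0) (nat_lit 1261882) (nat_lit 76) (nat_lit 1261882) (nat_lit 25) (nat_lit 1) (nat_lit 23) (nat_lit 1) (nat_lit 24) (nat_lit 1) (nat_lit 355) (nat_lit 448) (nat_lit 217)) (XT.nd (nat_lit 78) (nat_lit 76) (nat_lit 0) (XT.lf (nat_lit 0) (nat_lit 4791639429)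 (nat_lit 0) (nat_lit 4795187579) (nat_lit 152) (nat_lit 4791639429) (nat_lit 23) (nat_lit 3) (nat_lit 23) (nat_lit 1) (nat_lit 25) (nat_lit 1) (nat_lit 356) (nat_lit 448) (nat_lit 216)) (XT.lf (nat_lit 76) (nat_lit 4713264861) (nat_lit 0) (nat_lit 4716644051) (nat_lit 76) (nat_lit 4716644051) (nat_lit 23) (nat_lit 3) (nat_lit 22) (nat_lit 1) (nat_lit 23) (nat_lit 1) (nat_lit 357) (nat_lit 448) (nat_lit 215))))) (XT.nd (nat_lit 234) (nat_lit 380) (nat_lit 0) (XT.nd (nat_lit 78) (nat_lit 76) (nat_lit 0) (XT.lf (nat_lit 152) (nat_lit 13919923995) (nat_lit 0) (nat_lit 1038153) (nat_lit 76) (nat_lit 1038153) (nat_lit 22) (nat_lit 1) (nat_lit 20) (nat_lit 1) (nat_lit 21) (nat_lit 1) (nat_lit 358) (nat_lit 448) (nat_lit 214)) (XT.nd (nat_lit 78) (nat_lit 76) (nat_lit 0) (XT.lf (nat_lit 0) (nat_lit 4563616982) (nat_lit 0) (nat_lit 4566536054) (nat_lit 152) (nat_lit 4563616982) (nat_lit 20) (nat_lit 3)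 (nat_lit 20) (nat_lit 1) (nat_lit 22) (nat_lit 1) (nat_lit 359) (nat_lit 448) (nat_lit 213)) (XT.lf (nat_lit 76) (nat_lit 4489113460) (nat_lit 0) (nat_lit 4491893528) (nat_lit 76) (nat_lit 4491893528) (nat_lit 20) (nat_lit 3) (nat_lit 19) (nat_lit 1) (nat_lit 20) (nat_lit 1) (nat_lit 360) (nat_lit 448) (nat_lit 212)))) (XT.nd (nat_lit 156) (nat_lit 228) (nat_lit 0) (XT.nd (nat_lit 78) (nat_lit 0) (nat_lit 0) (XT.lf (nat_lit 152) (nat_lit 13257333313) (nat_lit 0) (nat_lit 854091) (nat_lit 76) (nat_lit 854091) (nat_lit 19) (nat_lit 1) (nat_lit 17) (nat_lit 1) (nat_lit 18) (nat_lit 1) (nat_lit 361) (nat_lit 448) (nat_lit 211)) (XT.lf (nat_lit 0) (nat_lit 4346425999) (nat_lit 0) (nat_lit 4348827527) (nat_lit 152) (nat_lit 4346425999) (nat_lit 17) (nat_lit 3) (nat_lit 17) (nat_lit 1) (nat_lit 19) (nat_lit 1) (nat_lit 362) (nat_lit 448) (nat_lit 210))) (XT.nd (nat_lit 78) (nat_lit 152) (nat_lit 0) (XT.lf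 (nat_lit 76) (nat_lit 4275584557) (nat_lit 0) (nat_lit 4277871726) (nat_lit 76) (nat_lit 4277871726) (nat_lit 17) (nat_lit 3) (nat_lit 16) (nat_lit 1) (nat_lit 17) (nat_lit 1) (nat_lit 363) (nat_lit 448) (nat_lit 209)) (XT.lf (nat_lit 152) (nat_lit 12626247967) (nat_lit 0) (nat_lit 702663) (nat_lit 76) (nat_lit 702663) (nat_lit 16) (nat_lit 1) (nat_lit 14) (nat_lit 1) (nat_lit 15) (nat_lit 1) (nat_lit 364) (nat_lit 448) (nat_lit 208))))))) (XT.nd (nat_lit 936) (nat_lit 152) (nat_lit 0) (XT.nd (nat_lit 468) (nat_lit 456) (nat_lit 0) (XT.nd (nat_lit 234) (nat_lit 228) (nat_lit 0) (XT.nd (nat_lit 78) (nat_lit 228) (nat_lit 0) (XT.lf (nat_lit 0) (nat_lit 4139555439) (nat_lit 0) (nat_lit 4141531182) (nat_lit 152) (nat_lit 4139555439) (nat_lit 14) (nat_lit 3) (nat_lit 14) (nat_lit 1) (nat_lit 16) (nat_lit 1) (nat_lit 365) (nat_lit 448) (nat_lit 207)) (XT.nd (nat_lit 78) (nat_lit 152) (nat_lit 0) (XT.lf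 (nat_lit 76) (nat_lit 4072181429) (nat_lit 0) (nat_lit 4074063089) (nat_lit 76) (nat_lit 4074063089) (nat_lit 14) (nat_lit 3) (nat_lit 13) (nat_lit 1) (nat_lit 14) (nat_lit 1) (nat_lit 366) (nat_lit 448) (nat_lit 206)) (XT.lf (nat_lit 152) (nat_lit 12025175965) (nat_lit 0) (nat_lit 578082) (nat_lit 76) (nat_lit 578082) (nat_lit 13) (nat_lit 1) (nat_lit 11) (nat_lit 1) (nat_lit 12) (nat_lit 1) (nat_lit 367) (nat_lit 448) (nat_lit 205)))) (XT.nd (nat_lit 78) (nat_lit 228) (nat_lit 0) (XT.lf (nat_lit 0) (nat_lit 3942517755) (nat_lit 0) (nat_lit 3944143204) (nat_lit 152) (nat_lit 3942517755) (nat_lit 11) (nat_lit 3) (nat_lit 11) (nat_lit 1) (nat_lit 13) (nat_lit 1) (nat_lit 368) (nat_lit 448) (nat_lit 204)) (XT.nd (nat_lit 78) (nat_lit 152) (nat_lit 0) (XT.lf (nat_lit 76) (nat_lit 3878429390) (nat_lit 0) (nat_lit 3879977436) (nat_lit 76) (nat_lit 3879977436) (nat_lit 11) (nat_lit 3) (nat_lit 10) (nat_lit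 1) (nat_lit 11) (nat_lit 1) (nat_lit 369) (nat_lit 448) (nat_lit 203)) (XT.lf (nat_lit 152) (nat_lit 11452694899) (nat_lit 0) (nat_lit 475590) (nat_lit 76) (nat_lit 475590) (nat_lit 10) (nat_lit 1) (nat_lit 8) (nat_lit 1) (nat_lit 9) (nat_lit 1) (nat_lit 370) (nat_lit 448) (nat_lit 202))))) (XT.nd (nat_lit 234) (nat_lit 228) (nat_lit 0) (XT.nd (nat_lit 78) (nat_lit 228) (nat_lit 0) (XT.lf (nat_lit 0) (nat_lit 3754847925) (nat_lit 0) (nat_lit 3756185185) (nat_lit 152) (nat_lit 3754847925) (nat_lit 8) (nat_lit 3) (nat_lit 8) (nat_lit 1) (nat_lit 10) (nat_lit 1) (nat_lit 371) (nat_lit 448) (nat_lit 201)) (XT.nd (nat_lit 78) (nat_lit 152) (nat_lit 0) (XT.lf (nat_lit 76) (nat_lit 3693875029) (nat_lit 0) (nat_lit 3695148610) (nat_lit 76) (nat_lit 3695148610) (nat_lit 8) (nat_lit 3) (nat_lit 7) (nat_lit 1) (nat_lit 8) (nat_lit 1) (nat_lit 372) (nat_lit 448) (nat_lit 200)) (XT.lf (nat_lit 152) (nat_lit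 10907448886) (nat_lit 0) (nat_lit 391269) (nat_lit 76) (nat_lit 391269) (nat_lit 7) (nat_lit 1) (nat_lit 5) (nat_lit 1) (nat_lit 6) (nat_lit 1) (nat_lit 373) (nat_lit 448) (nat_lit 199)))) (XT.nd (nat_lit 78) (nat_lit 228) (nat_lit 0) (XT.lf (nat_lit 0) (nat_lit 3576102500) (nat_lit 0) (nat_lit 3577202667) (nat_lit 152) (nat_lit 3576102500) (nat_lit 5) (nat_lit 3) (nat_lit 5) (nat_lit 1) (nat_lit 7) (nat_lit 1) (nat_lit 374) (nat_lit 448) (nat_lit 198)) (XT.nd (nat_lit 78) (nat_lit 152) (nat_lit 0) (XT.lf (nat_lit 76) (nat_lit 3518085434) (nat_lit 0) (nat_lit 3519133212) (nat_lit 76) (nat_lit 3519133212) (nat_lit 5) (nat_lit 3) (nat_lit 4) (nat_lit 1) (nat_lit 5) (nat_lit 1) (nat_lit 375) (nat_lit 448) (nat_lit 197)) (XT.lf (nat_lit 152) (nat_lit 10388145620) (nat_lit 0) (nat_lit 321898) (nat_lit 76) (nat_lit 321898) (nat_lit 4) (nat_lit 1) (nat_lit 2) (nat_lit 1) (nat_lit 3) (nat_lit 1) (nat_lit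 376) (nat_lit 448) (nat_lit 196)))))) (XT.nd (nat_lit 39546) (nat_lit 0) (nat_lit 12692) (XT.nd (nat_lit 234) (nat_lit 0) (nat_lit 0) (XT.nd (nat_lit 78) (nat_lit 152) (nat_lit 0) (XT.lf (nat_lit 0) (nat_lit 3405858681) (nat_lit 0) (nat_lit 3406763791) (nat_lit 152) (nat_lit 3405858681) (nat_lit 2) (nat_lit 3) (nat_lit 2) (nat_lit 1) (nat_lit 4) (nat_lit 1) (nat_lit 377) (nat_lit 448) (nat_lit 195)) (XT.nd (nat_lit 78) (nat_lit 76) (nat_lit 0) (XT.lf (nat_lit 76) (nat_lit 3350647408) (nat_lit 0) (nat_lit 3351509418) (nat_lit 76) (nat_lit 3351509418) (nat_lit 2) (nat_lit 3) (nat_lit 1) (nat_lit 1) (nat_lit 2) (nat_lit 1) (nat_lit 378) (nat_lit 448) (nat_lit 194)) (XT.lf (nat_lit 0) (nat_lit 208615169685) (nat_lit 0) (nat_lit 0) (nat_lit 0) (nat_lit 0) (nat_lit 0) (nat_lit 0) (nat_lit 1) (nat_lit 0) (nat_lit 1) (nat_lit 0) (nat_lit 379) (nat_lit 448) (nat_lit 193)))) (XT.nd (nat_lit 39156) (nat_lit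 0) (nat_lit 13300) (XT.lf (nat_lit 0) (nat_lit 208615130434) (nat_lit 0) (nat_lit 0) (nat_lit 0) (nat_lit 0) (nat_lit 0) (nat_lit 0) (nat_lit 1) (nat_lit 0) (nat_lit 1) (nat_lit 0) (nat_lit 380) (nat_lit 448) (nat_lit 192)) (XT.nd (nat_lit 78) (nat_lit 76) (nat_lit 0) (XT.lf (nat_lit 0) (nat_lit 34919603071) (nat_lit 0) (nat_lit 113227996948) (nat_lit 152) (nat_lit 34919603071) (nat_lit 176) (nat_lit 3) (nat_lit 176) (nat_lit 1) (nat_lit 178) (nat_lit 1) (nat_lit 201) (nat_lit 449) (nat_lit 370)) (XT.lf (nat_lit 76) (nat_lit 10298505364) (nat_lit 0) (nat_lit 84877928104) (nat_lit 76) (nat_lit 84877928104) (nat_lit 176) (nat_lit 3) (nat_lit 175) (nat_lit 1) (nat_lit 176) (nat_lit 1) (nat_lit 202) (nat_lit 449) (nat_lit 369))))) (XT.nd (nat_lit 234) (nat_lit 380) (nat_lit 0) (XT.nd (nat_lit 78) (nat_lit 76) (nat_lit 0) (XT.lf (nat_lit 152) (nat_lit 131279085611) (nat_lit 0) (nat_lit 22912265050)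 (nat_lit 76) (nat_lit 22912265050) (nat_lit 175) (nat_lit 1) (nat_lit 173) (nat_lit 1) (nat_lit 174) (nat_lit 1) (nat_lit 203) (nat_lit 449) (nat_lit 368)) (XT.nd (nat_lit 78) (nat_lit 76) (nat_lit 0) (XT.lf (nat_lit 0) (nat_lit 36586244600) (nat_lit 0) (nat_lit 101010754040) (nat_lit 152) (nat_lit 36586244600) (nat_lit 173) (nat_lit 3) (nat_lit 173) (nat_lit 1) (nat_lit 175) (nat_lit 1) (nat_lit 204) (nat_lit 449) (nat_lit 367)) (XT.lf (nat_lit 76) (nat_lit 16203667863) (nat_lit 0) (nat_lit 77560343519) (nat_lit 76) (nat_lit 77560343519) (nat_lit 173) (nat_lit 3) (nat_lit 172) (nat_lit 1) (nat_lit 173) (nat_lit 1) (nat_lit 205) (nat_lit 449) (nat_lit 366)))) (XT.nd (nat_lit 156) (nat_lit 228) (nat_lit 0) (XT.nd (nat_lit 78) (nat_lit 0) (nat_lit 0) (XT.lf (nat_lit 152) (nat_lit 130828668851) (nat_lit 0) (nat_lit 18849977160) (nat_lit 76) (nat_lit 18849977160) (nat_lit 172) (nat_lit 1) (nat_lit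 170) (nat_lit 1) (nat_lit 171) (nat_lit 1) (nat_lit 206) (nat_lit 449) (nat_lit 365)) (XT.lf (nat_lit 0) (nat_lit 37583213724) (nat_lit 0) (nat_lit 90585417077) (nat_lit 152) (nat_lit 37583213724) (nat_lit 170) (nat_lit 3) (nat_lit 170) (nat_lit 1) (nat_lit 172) (nat_lit 1) (nat_lit 207) (nat_lit 449) (nat_lit 364))) (XT.nd (nat_lit 78) (nat_lit 152) (nat_lit 0) (XT.lf (nat_lit 76) (nat_lit 20693713855) (nat_lit 0) (nat_lit 71172002762) (nat_lit 76) (nat_lit 71172002762) (nat_lit 170) (nat_lit 3) (nat_lit 169) (nat_lit 1) (nat_lit 170) (nat_lit 1) (nat_lit 208) (nat_lit 449) (nat_lit 363)) (XT.lf (nat_lit 152) (nat_lit 129371203190) (nat_lit 0) (nat_lit 15507922859) (nat_lit 76) (nat_lit 15507922859) (nat_lit 169) (nat_lit 1) (nat_lit 167) (nat_lit 1) (nat_lit 168) (nat_lit 1) (nat_lit 209) (nat_lit 449) (nat_lit 362))))))))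
noncomputable def ec503 : XT := (XT.nd (nat_lit 1950) (nat_lit 2052) (nat_lit 0) (XT.nd (nat_lit 936) (nat_lit 912) (nat_lit 0) (XT.nd (nat_lit 468) (nat_lit 456) (nat_lit 0) (XT.nd (nat_lit 234) (nat_lit 228) (nat_lit 0) (XT.nd (nat_lit 78) (nat_lit 228) (nat_lit 0) (XT.lf (nat_lit 0) (nat_lit 38047059843) (nat_lit 0) (nat_lit 81652103711) (nat_lit 152) (nat_lit 38047059843) (nat_lit 167) (nat_lit 3) (nat_lit 167) (nat_lit 1) (nat_lit 169) (nat_lit 1) (nat_lit 210) (nat_lit 449) (nat_lit 361)) (XT.nd (nat_lit 78) (nat_lit 152) (nat_lit 0) (XT.lf (nat_lit 76) (nat_lit 24037070747) (nat_lit 0) (nat_lit 65565683954) (nat_lit 76) (nat_lit 65565683954) (nat_lit 167) (nat_lit 3) (nat_lit 166) (nat_lit 1) (nat_lit 167) (nat_lit 1) (nat_lit 211) (nat_lit 449) (nat_lit 360)) (XT.lf (nat_lit 152) (nat_lit 127136993367) (nat_lit 0) (nat_lit 12758406515) (nat_lit 76) (nat_lit 12758406515) (nat_lit 166) (nat_lit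 1) (nat_lit 164) (nat_lit 1) (nat_lit 165) (nat_lit 1) (nat_lit 212) (nat_lit 449) (nat_lit 359)))) (XT.nd (nat_lit 78) (nat_lit 228) (nat_lit 0) (XT.lf (nat_lit 0) (nat_lit 38089274008) (nat_lit 0) (nat_lit 73963251512) (nat_lit 152) (nat_lit 38089274008) (nat_lit 164) (nat_lit 3) (nat_lit 164) (nat_lit 1) (nat_lit 166) (nat_lit 1) (nat_lit 213) (nat_lit 449) (nat_lit 358)) (XT.nd (nat_lit 78) (nat_lit 152) (nat_lit 0) (XT.lf (nat_lit 76) (nat_lit 26453739634) (nat_lit 0) (nat_lit 60619432494) (nat_lit 76) (nat_lit 60619432494) (nat_lit 164) (nat_lit 3) (nat_lit 163) (nat_lit 1) (nat_lit 164) (nat_lit 1) (nat_lit 214) (nat_lit 449) (nat_lit 357)) (XT.lf (nat_lit 152) (nat_lit 124313047019) (nat_lit 0) (nat_lit 10496372614) (nat_lit 76) (nat_lit 10496372614) (nat_lit 163) (nat_lit 1) (nat_lit 161) (nat_lit 1) (nat_lit 162) (nat_lit 1) (nat_lit 215) (nat_lit 449) (nat_lit 356))))) (XT.nd (nat_lit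 234) (nat_lit 228) (nat_lit 0) (XT.nd (nat_lit 78) (nat_lit 228) (nat_lit 0) (XT.lf (nat_lit 0) (nat_lit 37800772101) (nat_lit 0) (nat_lit 67314382173) (nat_lit 152) (nat_lit 37800772101) (nat_lit 161) (nat_lit 3) (nat_lit 161) (nat_lit 1) (nat_lit 163) (nat_lit 1) (nat_lit 216) (nat_lit 449) (nat_lit 355)) (XT.nd (nat_lit 78) (nat_lit 152) (nat_lit 0) (XT.lf (nat_lit 76) (nat_lit 28123920915) (nat_lit 0) (nat_lit 56232120985) (nat_lit 76) (nat_lit 56232120985) (nat_lit 161) (nat_lit 3) (nat_lit 160) (nat_lit 1) (nat_lit 161) (nat_lit 1) (nat_lit 217) (nat_lit 449) (nat_lit 354)) (XT.lf (nat_lit 152) (nat_lit 121050868516) (nat_lit 0) (nat_lit 8635391726) (nat_lit 76) (nat_lit 8635391726) (nat_lit 160) (nat_lit 1) (nat_lit 158) (nat_lit 1) (nat_lit 159) (nat_lit 1) (nat_lit 218) (nat_lit 449) (nat_lit 353)))) (XT.nd (nat_lit 78) (nat_lit 228) (nat_lit 0) (XT.lf (nat_lit 0) (nat_lit 37255581243)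 (nat_lit 0) (nat_lit 61536501290) (nat_lit 152) (nat_lit 37255581243) (nat_lit 158) (nat_lit 3) (nat_lit 158) (nat_lit 1) (nat_lit 160) (nat_lit 1) (nat_lit 219) (nat_lit 449) (nat_lit 352)) (XT.nd (nat_lit 78) (nat_lit 152) (nat_lit 0) (XT.lf (nat_lit 76) (nat_lit 29195108720) (nat_lit 0) (nat_lit 52319794479) (nat_lit 76) (nat_lit 52319794479) (nat_lit 158) (nat_lit 3) (nat_lit 157) (nat_lit 1) (nat_lit 158) (nat_lit 1) (nat_lit 220) (nat_lit 449) (nat_lit 351)) (XT.lf (nat_lit 152) (nat_lit 117472865375) (nat_lit 0) (nat_lit 7104358144) (nat_lit 76) (nat_lit 7104358144) (nat_lit 157) (nat_lit 1) (nat_lit 155) (nat_lit 1) (nat_lit 156) (nat_lit 1) (nat_lit 221) (nat_lit 449) (nat_lit 350)))))) (XT.nd (nat_lit 468) (nat_lit 456) (nat_lit 0) (XT.nd (nat_lit 234) (nat_lit 228) (nat_lit 0) (XT.nd (nat_lit 78) (nat_lit 228) (nat_lit 0) (XT.lf (nat_lit 0) (nat_lit 36513870780) (nat_lit 0) (nat_lit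 56489843793) (nat_lit 152) (nat_lit 36513870780) (nat_lit 155) (nat_lit 3) (nat_lit 155) (nat_lit 1) (nat_lit 157) (nat_lit 1) (nat_lit 222) (nat_lit 449) (nat_lit 349)) (XT.nd (nat_lit 78) (nat_lit 152) (nat_lit 0) (XT.lf (nat_lit 76) (nat_lit 29787925702) (nat_lit 0) (nat_lit 48812661905) (nat_lit 76) (nat_lit 48812661905) (nat_lit 155) (nat_lit 3) (nat_lit 154) (nat_lit 1) (nat_lit 155) (nat_lit 1) (nat_lit 223) (nat_lit 449) (nat_lit 348)) (XT.lf (nat_lit 152) (nat_lit 113677613513) (nat_lit 0) (nat_lit 5844773026) (nat_lit 76) (nat_lit 5844773026) (nat_lit 154) (nat_lit 1) (nat_lit 152) (nat_lit 1) (nat_lit 153) (nat_lit 1) (nat_lit 224) (nat_lit 449) (nat_lit 347)))) (XT.nd (nat_lit 78) (nat_lit 228) (nat_lit 0) (XT.lf (nat_lit 0) (nat_lit 35624444133) (nat_lit 0) (nat_lit 52058726567) (nat_lit 152) (nat_lit 35624444133) (nat_lit 152) (nat_lit 3) (nat_lit 152) (nat_lit 1) (nat_lit 154) (nat_lit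 1) (nat_lit 225) (nat_lit 449) (nat_lit 346)) (XT.nd (nat_lit 78) (nat_lit 152) (nat_lit 0) (XT.lf (nat_lit 76) (nat_lit 30000921629) (nat_lit 0) (nat_lit 45652619185) (nat_lit 76) (nat_lit 45652619185) (nat_lit 152) (nat_lit 3) (nat_lit 151) (nat_lit 1) (nat_lit 152) (nat_lit 1) (nat_lit 226) (nat_lit 449) (nat_lit 345)) (XT.lf (nat_lit 152) (nat_lit 109744183917) (nat_lit 0) (nat_lit 4808509233) (nat_lit 76) (nat_lit 4808509233) (nat_lit 151) (nat_lit 1) (nat_lit 149) (nat_lit 1) (nat_lit 150) (nat_lit 1) (nat_lit 227) (nat_lit 449) (nat_lit 344))))) (XT.nd (nat_lit 234) (nat_lit 228) (nat_lit 0) (XT.nd (nat_lit 78) (nat_lit 228) (nat_lit 0) (XT.lf (nat_lit 0) (nat_lit 34626787188) (nat_lit 0) (nat_lit 48147312018) (nat_lit 152) (nat_lit 34626787188) (nat_lit 149) (nat_lit 3) (nat_lit 149) (nat_lit 1) (nat_lit 151) (nat_lit 1) (nat_lit 228) (nat_lit 449) (nat_lit 343)) (XT.nd (nat_lit 78) (nat_lit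 152) (nat_lit 0) (XT.lf (nat_lit 76) (nat_lit 29914519551) (nat_lit 0) (nat_lit 42791209866) (nat_lit 76) (nat_lit 42791209866) (nat_lit 149) (nat_lit 3) (nat_lit 148) (nat_lit 1) (nat_lit 149) (nat_lit 1) (nat_lit 229) (nat_lit 449) (nat_lit 342)) (XT.lf (nat_lit 152) (nat_lit 105735697370) (nat_lit 0) (nat_lit 3955972446) (nat_lit 76) (nat_lit 3955972446) (nat_lit 148) (nat_lit 1) (nat_lit 146) (nat_lit 1) (nat_lit 147) (nat_lit 1) (nat_lit 230) (nat_lit 449) (nat_lit 341)))) (XT.nd (nat_lit 156) (nat_lit 152) (nat_lit 0) (XT.nd (nat_lit 78) (nat_lit 76) (nat_lit 0) (XT.lf (nat_lit 0) (nat_lit 33552751929) (nat_lit 0) (nat_lit 44676121167) (nat_lit 152) (nat_lit 33552751929) (nat_lit 146) (nat_lit 3) (nat_lit 146) (nat_lit 1) (nat_lit 148) (nat_lit 1) (nat_lit 231) (nat_lit 449) (nat_lit 340)) (XT.lf (nat_lit 76) (nat_lit 29594260773) (nat_lit 0) (nat_lit 40187945761) (nat_lit 76) (nat_lit 40187945761)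 (nat_lit 146) (nat_lit 3) (nat_lit 145) (nat_lit 1) (nat_lit 146) (nat_lit 1) (nat_lit 232) (nat_lit 449) (nat_lit 339))) (XT.nd (nat_lit 78) (nat_lit 0) (nat_lit 0) (XT.lf (nat_lit 152) (nat_lit 101702244345) (nat_lit 0) (nat_lit 3254588322) (nat_lit 76) (nat_lit 3254588322) (nat_lit 145) (nat_lit 1) (nat_lit 143) (nat_lit 1) (nat_lit 144) (nat_lit 1) (nat_lit 233) (nat_lit 449) (nat_lit 338)) (XT.lf (nat_lit 0) (nat_lit 32427940063) (nat_lit 0) (nat_lit 41579163463) (nat_lit 152) (nat_lit 32427940063) (nat_lit 143) (nat_lit 3) (nat_lit 143) (nat_lit 1) (nat_lit 145) (nat_lit 1) (nat_lit 234) (nat_lit 449) (nat_lit 337))))))) (XT.nd (nat_lit 1014) (nat_lit 1064) (nat_lit 0) (XT.nd (nat_lit 468) (nat_lit 532) (nat_lit 0) (XT.nd (nat_lit 234) (nat_lit 228) (nat_lit 0) (XT.nd (nat_lit 78) (nat_lit 152) (nat_lit 0) (XT.lf (nat_lit 76) (nat_lit 29093473011) (nat_lit 0) (nat_lit 37808923869) (nat_lit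 76) (nat_lit 37808923869) (nat_lit 143) (nat_lit 3) (nat_lit 142) (nat_lit 1) (nat_lit 143) (nat_lit 1) (nat_lit 235) (nat_lit 449) (nat_lit 336)) (XT.nd (nat_lit 78) (nat_lit 0) (nat_lit 0) (XT.lf (nat_lit 152) (nat_lit 97683282825) (nat_lit 0) (nat_lit 2677557867) (nat_lit 76) (nat_lit 2677557867) (nat_lit 142) (nat_lit 1) (nat_lit 140) (nat_lit 1) (nat_lit 141) (nat_lit 1) (nat_lit 236) (nat_lit 449) (nat_lit 335)) (XT.lf (nat_lit 0) (nat_lit 31272839890) (nat_lit 0) (nat_lit 38801574028) (nat_lit 152) (nat_lit 31272839890) (nat_lit 140) (nat_lit 3) (nat_lit 140) (nat_lit 1) (nat_lit 142) (nat_lit 1) (nat_lit 237) (nat_lit 449) (nat_lit 334)))) (XT.nd (nat_lit 78) (nat_lit 152) (nat_lit 0) (XT.lf (nat_lit 76) (nat_lit 28455464088) (nat_lit 0) (nat_lit 35625687078) (nat_lit 76) (nat_lit 35625687078) (nat_lit 140) (nat_lit 3) (nat_lit 139) (nat_lit 1) (nat_lit 140) (nat_lit 1) (nat_lit 238) (nat_lit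 449) (nat_lit 333)) (XT.nd (nat_lit 78) (nat_lit 0) (nat_lit 0) (XT.lf (nat_lit 152) (nat_lit 93709606821) (nat_lit 0) (nat_lit 2202833483) (nat_lit 76) (nat_lit 2202833483) (nat_lit 139) (nat_lit 1) (nat_lit 137) (nat_lit 1) (nat_lit 138) (nat_lit 1) (nat_lit 239) (nat_lit 449) (nat_lit 332)) (XT.lf (nat_lit 0) (nat_lit 30103760245) (nat_lit 0) (nat_lit 36297668453) (nat_lit 152) (nat_lit 30103760245) (nat_lit 137) (nat_lit 3) (nat_lit 137) (nat_lit 1) (nat_lit 139) (nat_lit 1) (nat_lit 240) (nat_lit 449) (nat_lit 331))))) (XT.nd (nat_lit 234) (nat_lit 304) (nat_lit 0) (XT.nd (nat_lit 78) (nat_lit 152) (nat_lit 0) (XT.lf (nat_lit 76) (nat_lit 27715325338) (nat_lit 0) (nat_lit 33614285536) (nat_lit 76) (nat_lit 33614285536) (nat_lit 137) (nat_lit 3) (nat_lit 136) (nat_lit 1) (nat_lit 137) (nat_lit 1) (nat_lit 241) (nat_lit 449) (nat_lit 330)) (XT.nd (nat_lit 78) (nat_lit 0) (nat_lit 0) (XT.lf (nat_lit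 152) (nat_lit 89804961915) (nat_lit 0) (nat_lit 1812276558) (nat_lit 76) (nat_lit 1812276558) (nat_lit 136) (nat_lit 1) (nat_lit 134) (nat_lit 1) (nat_lit 135) (nat_lit 1) (nat_lit 242) (nat_lit 449) (nat_lit 329)) (XT.lf (nat_lit 0) (nat_lit 28933597553) (nat_lit 0) (nat_lit 34029341164) (nat_lit 152) (nat_lit 28933597553) (nat_lit 134) (nat_lit 3) (nat_lit 134) (nat_lit 1) (nat_lit 136) (nat_lit 1) (nat_lit 243) (nat_lit 449) (nat_lit 328)))) (XT.nd (nat_lit 156) (nat_lit 76) (nat_lit 0) (XT.nd (nat_lit 78) (nat_lit 152) (nat_lit 0) (XT.lf (nat_lit 76) (nat_lit 26901413994) (nat_lit 0) (nat_lit 31754503148) (nat_lit 76) (nat_lit 31754503148) (nat_lit 134) (nat_lit 3) (nat_lit 133) (nat_lit 1) (nat_lit 134) (nat_lit 1) (nat_lit 244) (nat_lit 449) (nat_lit 327)) (XT.lf (nat_lit 152) (nat_lit 85987370579) (nat_lit 0) (nat_lit 1490964409) (nat_lit 76) (nat_lit 1490964409) (nat_lit 133) (nat_lit 1)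 (nat_lit 131) (nat_lit 1) (nat_lit 132) (nat_lit 1) (nat_lit 245) (nat_lit 449) (nat_lit 326))) (XT.nd (nat_lit 78) (nat_lit 76) (nat_lit 0) (XT.lf (nat_lit 0) (nat_lit 27772465643) (nat_lit 0) (nat_lit 31964746523) (nat_lit 152) (nat_lit 27772465643) (nat_lit 131) (nat_lit 3) (nat_lit 131) (nat_lit 1) (nat_lit 133) (nat_lit 1) (nat_lit 246) (nat_lit 449) (nat_lit 325)) (XT.lf (nat_lit 76) (nat_lit 26036571534) (nat_lit 0) (nat_lit 30029219991) (nat_lit 76) (nat_lit 30029219991) (nat_lit 131) (nat_lit 3) (nat_lit 130) (nat_lit 1) (nat_lit 131) (nat_lit 1) (nat_lit 247) (nat_lit 449) (nat_lit 324)))))) (XT.nd (nat_lit 468) (nat_lit 608) (nat_lit 0) (XT.nd (nat_lit 234) (nat_lit 228) (nat_lit 0) (XT.nd (nat_lit 78) (nat_lit 76) (nat_lit 0) (XT.lf (nat_lit 152) (nat_lit 82270218922) (nat_lit 0) (nat_lit 1226620109) (nat_lit 76) (nat_lit 1226620109) (nat_lit 130) (nat_lit 1) (nat_lit 128) (nat_lit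 1) (nat_lit 129) (nat_lit 1) (nat_lit 248) (nat_lit 449) (nat_lit 323)) (XT.nd (nat_lit 78) (nat_lit 76) (nat_lit 0) (XT.lf (nat_lit 0) (nat_lit 26628212723) (nat_lit 0) (nat_lit 30077212578) (nat_lit 152) (nat_lit 26628212723) (nat_lit 128) (nat_lit 3) (nat_lit 128) (nat_lit 1) (nat_lit 130) (nat_lit 1) (nat_lit 249) (nat_lit 449) (nat_lit 322)) (XT.lf (nat_lit 76) (nat_lit 25139124851) (nat_lit 0) (nat_lit 28423886617) (nat_lit 76) (nat_lit 28423886617) (nat_lit 128) (nat_lit 3) (nat_lit 127) (nat_lit 1) (nat_lit 128) (nat_lit 1) (nat_lit 250) (nat_lit 449) (nat_lit 321)))) (XT.nd (nat_lit 78) (nat_lit 76) (nat_lit 0) (XT.lf (nat_lit 152) (nat_lit 78663147324) (nat_lit 0) (nat_lit 1009143399) (nat_lit 76) (nat_lit 1009143399) (nat_lit 127) (nat_lit 1) (nat_lit 125) (nat_lit 1) (nat_lit 126) (nat_lit 1) (nat_lit 251) (nat_lit 449) (nat_lit 320)) (XT.nd (nat_lit 78) (nat_lit 76) (nat_lit 0) (XT.lf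 (nat_lit 0) (nat_lit 25506845560) (nat_lit 0) (nat_lit 28344346277) (nat_lit 152) (nat_lit 25506845560) (nat_lit 125) (nat_lit 3) (nat_lit 125) (nat_lit 1) (nat_lit 127) (nat_lit 1) (nat_lit 252) (nat_lit 449) (nat_lit 319)) (XT.lf (nat_lit 76) (nat_lit 24223708814) (nat_lit 0) (nat_lit 26926090449) (nat_lit 76) (nat_lit 26926090449) (nat_lit 125) (nat_lit 3) (nat_lit 124) (nat_lit 1) (nat_lit 125) (nat_lit 1) (nat_lit 253) (nat_lit 449) (nat_lit 318))))) (XT.nd (nat_lit 234) (nat_lit 380) (nat_lit 0) (XT.nd (nat_lit 78) (nat_lit 76) (nat_lit 0) (XT.lf (nat_lit 152) (nat_lit 75172779898) (nat_lit 0) (nat_lit 830224772) (nat_lit 76) (nat_lit 830224772) (nat_lit 124) (nat_lit 1) (nat_lit 122) (nat_lit 1) (nat_lit 123) (nat_lit 1) (nat_lit 254) (nat_lit 449) (nat_lit 317)) (XT.nd (nat_lit 78) (nat_lit 76) (nat_lit 0) (XT.lf (nat_lit 0) (nat_lit 24412877399) (nat_lit 0) (nat_lit 26747296261) (nat_lit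 152) (nat_lit 24412877399) (nat_lit 122) (nat_lit 3) (nat_lit 122) (nat_lit 1) (nat_lit 124) (nat_lit 1) (nat_lit 255) (nat_lit 449) (nat_lit 316)) (XT.lf (nat_lit 76) (nat_lit 23301941938) (nat_lit 0) (nat_lit 25525197997) (nat_lit 76) (nat_lit 25525197997) (nat_lit 122) (nat_lit 3) (nat_lit 121) (nat_lit 1) (nat_lit 122) (nat_lit 1) (nat_lit 256) (nat_lit 449) (nat_lit 315)))) (XT.nd (nat_lit 156) (nat_lit 228) (nat_lit 0) (XT.nd (nat_lit 78) (nat_lit 0) (nat_lit 0) (XT.lf (nat_lit 152) (nat_lit 71803321506) (nat_lit 0) (nat_lit 683027974) (nat_lit 76) (nat_lit 683027974) (nat_lit 121) (nat_lit 1) (nat_lit 119) (nat_lit 1) (nat_lit 120) (nat_lit 1) (nat_lit 257) (nat_lit 449) (nat_lit 314)) (XT.lf (nat_lit 0) (nat_lit 23349613160) (nat_lit 0) (nat_lit 25270145335) (nat_lit 152) (nat_lit 23349613160) (nat_lit 119) (nat_lit 3) (nat_lit 119) (nat_lit 1) (nat_lit 121) (nat_lit 1) (nat_lit 258) (nat_lit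 449) (nat_lit 313))) (XT.nd (nat_lit 78) (nat_lit 152) (nat_lit 0) (XT.lf (nat_lit 76) (nat_lit 22382981251) (nat_lit 0) (nat_lit 24212059512) (nat_lit 76) (nat_lit 24212059512) (nat_lit 119) (nat_lit 3) (nat_lit 118) (nat_lit 1) (nat_lit 119) (nat_lit 1) (nat_lit 259) (nat_lit 449) (nat_lit 312)) (XT.lf (nat_lit 152) (nat_lit 68557045965) (nat_lit 0) (nat_lit 561928805) (nat_lit 76) (nat_lit 561928805) (nat_lit 118) (nat_lit 1) (nat_lit 116) (nat_lit 1) (nat_lit 117) (nat_lit 1) (nat_lit 260) (nat_lit 449) (nat_lit 311))))))))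
noncomputable def ec504 : XT := (XT.nd (nat_lit 1950) (nat_lit 1900) (nat_lit 0) (XT.nd (nat_lit 936) (nat_lit 912) (nat_lit 0) (XT.nd (nat_lit 468) (nat_lit 456) (nat_lit 0) (XT.nd (nat_lit 234) (nat_lit 228) (nat_lit 0) (XT.nd (nat_lit 78) (nat_lit 228) (nat_lit 0) (XT.lf (nat_lit 0) (nat_lit 22319383111) (nat_lit 0) (nat_lit 23899409683) (nat_lit 152) (nat_lit 22319383111) (nat_lit 116) (nat_lit 3) (nat_lit 116) (nat_lit 1) (nat_lit 118) (nat_lit 1) (nat_lit 261) (nat_lit 449) (nat_lit 310)) (XT.nd (nat_lit 78) (nat_lit 152) (nat_lit 0) (XT.lf (nat_lit 76) (nat_lit 21473977831) (nat_lit 0) (nat_lit 22978765043) (nat_lit 76) (nat_lit 22978765043) (nat_lit 116) (nat_lit 3) (nat_lit 115) (nat_lit 1) (nat_lit 116) (nat_lit 1) (nat_lit 262) (nat_lit 449) (nat_lit 309)) (XT.lf (nat_lit 152) (nat_lit 65434694869) (nat_lit 0) (nat_lit 462300218) (nat_lit 76) (nat_lit 462300218) (nat_lit 115) (nat_lit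 1) (nat_lit 113) (nat_lit 1) (nat_lit 114) (nat_lit 1) (nat_lit 263) (nat_lit 449) (nat_lit 308)))) (XT.nd (nat_lit 78) (nat_lit 228) (nat_lit 0) (XT.lf (nat_lit 0) (nat_lit 21323734176) (nat_lit 0) (nat_lit 22623625948) (nat_lit 152) (nat_lit 21323734176) (nat_lit 113) (nat_lit 3) (nat_lit 113) (nat_lit 1) (nat_lit 115) (nat_lit 1) (nat_lit 264) (nat_lit 449) (nat_lit 307)) (XT.nd (nat_lit 78) (nat_lit 152) (nat_lit 0) (XT.lf (nat_lit 76) (nat_lit 20580450669) (nat_lit 0) (nat_lit 21818442833) (nat_lit 76) (nat_lit 21818442833) (nat_lit 113) (nat_lit 3) (nat_lit 112) (nat_lit 1) (nat_lit 113) (nat_lit 1) (nat_lit 265) (nat_lit 449) (nat_lit 306)) (XT.lf (nat_lit 152) (nat_lit 62435803015) (nat_lit 0) (nat_lit 380335534) (nat_lit 76) (nat_lit 380335534) (nat_lit 112) (nat_lit 1) (nat_lit 110) (nat_lit 1) (nat_lit 111) (nat_lit 1) (nat_lit 266) (nat_lit 449) (nat_lit 305))))) (XT.nd (nat_lit 234)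 (nat_lit 228) (nat_lit 0) (XT.nd (nat_lit 78) (nat_lit 228) (nat_lit 0) (XT.lf (nat_lit 0) (nat_lit 20363586455) (nat_lit 0) (nat_lit 21433010633) (nat_lit 152) (nat_lit 20363586455) (nat_lit 110) (nat_lit 3) (nat_lit 110) (nat_lit 1) (nat_lit 112) (nat_lit 1) (nat_lit 267) (nat_lit 449) (nat_lit 304)) (XT.nd (nat_lit 78) (nat_lit 152) (nat_lit 0) (XT.lf (nat_lit 76) (nat_lit 19706593378) (nat_lit 0) (nat_lit 20725092595) (nat_lit 76) (nat_lit 20725092595) (nat_lit 110) (nat_lit 3) (nat_lit 109) (nat_lit 1) (nat_lit 110) (nat_lit 1) (nat_lit 268) (nat_lit 449) (nat_lit 303)) (XT.lf (nat_lit 152) (nat_lit 59558963569) (nat_lit 0) (nat_lit 312902985) (nat_lit 76) (nat_lit 312902985) (nat_lit 109) (nat_lit 1) (nat_lit 107) (nat_lit 1) (nat_lit 108) (nat_lit 1) (nat_lit 269) (nat_lit 449) (nat_lit 302)))) (XT.nd (nat_lit 78) (nat_lit 228) (nat_lit 0) (XT.lf (nat_lit 0) (nat_lit 19439361141) (nat_lit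 0) (nat_lit 20319179058) (nat_lit 152) (nat_lit 19439361141) (nat_lit 107) (nat_lit 3) (nat_lit 107) (nat_lit 1) (nat_lit 109) (nat_lit 1) (nat_lit 270) (nat_lit 449) (nat_lit 301)) (XT.nd (nat_lit 78) (nat_lit 152) (nat_lit 0) (XT.lf (nat_lit 76) (nat_lit 18855525694) (nat_lit 0) (nat_lit 19693447521) (nat_lit 76) (nat_lit 19693447521) (nat_lit 107) (nat_lit 3) (nat_lit 106) (nat_lit 1) (nat_lit 107) (nat_lit 1) (nat_lit 271) (nat_lit 449) (nat_lit 300)) (XT.lf (nat_lit 152) (nat_lit 56802043784) (nat_lit 0) (nat_lit 257426060) (nat_lit 76) (nat_lit 257426060) (nat_lit 106) (nat_lit 1) (nat_lit 104) (nat_lit 1) (nat_lit 105) (nat_lit 1) (nat_lit 272) (nat_lit 449) (nat_lit 299)))))) (XT.nd (nat_lit 468) (nat_lit 456) (nat_lit 0) (XT.nd (nat_lit 234) (nat_lit 228) (nat_lit 0) (XT.nd (nat_lit 78) (nat_lit 228) (nat_lit 0) (XT.lf (nat_lit 0) (nat_lit 18551084965) (nat_lit 0) (nat_lit 19274913343)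 (nat_lit 152) (nat_lit 18551084965) (nat_lit 104) (nat_lit 3) (nat_lit 104) (nat_lit 1) (nat_lit 106) (nat_lit 1) (nat_lit 273) (nat_lit 449) (nat_lit 298)) (XT.nd (nat_lit 78) (nat_lit 152) (nat_lit 0) (XT.lf (nat_lit 76) (nat_lit 18029499607) (nat_lit 0) (nat_lit 18718859967) (nat_lit 76) (nat_lit 18718859967) (nat_lit 104) (nat_lit 3) (nat_lit 103) (nat_lit 1) (nat_lit 104) (nat_lit 1) (nat_lit 274) (nat_lit 449) (nat_lit 297)) (XT.lf (nat_lit 152) (nat_lit 54162360147) (nat_lit 0) (nat_lit 211785056) (nat_lit 76) (nat_lit 211785056) (nat_lit 103) (nat_lit 1) (nat_lit 101) (nat_lit 1) (nat_lit 102) (nat_lit 1) (nat_lit 275) (nat_lit 449) (nat_lit 296)))) (XT.nd (nat_lit 78) (nat_lit 228) (nat_lit 0) (XT.lf (nat_lit 0) (nat_lit 17698475364) (nat_lit 0) (nat_lit 18293970762) (nat_lit 152) (nat_lit 17698475364) (nat_lit 101) (nat_lit 3) (nat_lit 101) (nat_lit 1) (nat_lit 103) (nat_lit 1) (nat_lit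 276) (nat_lit 449) (nat_lit 295)) (XT.nd (nat_lit 78) (nat_lit 152) (nat_lit 0) (XT.lf (nat_lit 76) (nat_lit 17230068189) (nat_lit 0) (nat_lit 17797206663) (nat_lit 76) (nat_lit 17797206663) (nat_lit 101) (nat_lit 3) (nat_lit 100) (nat_lit 1) (nat_lit 101) (nat_lit 1) (nat_lit 277) (nat_lit 449) (nat_lit 294)) (XT.lf (nat_lit 152) (nat_lit 51636820260) (nat_lit 0) (nat_lit 174236090) (nat_lit 76) (nat_lit 174236090) (nat_lit 100) (nat_lit 1) (nat_lit 98) (nat_lit 1) (nat_lit 99) (nat_lit 1) (nat_lit 278) (nat_lit 449) (nat_lit 293))))) (XT.nd (nat_lit 234) (nat_lit 228) (nat_lit 0) (XT.nd (nat_lit 78) (nat_lit 228) (nat_lit 0) (XT.lf (nat_lit 0) (nat_lit 16881009818) (nat_lit 0) (nat_lit 17370925356) (nat_lit 152) (nat_lit 16881009818) (nat_lit 98) (nat_lit 3) (nat_lit 98) (nat_lit 1) (nat_lit 100) (nat_lit 1) (nat_lit 279) (nat_lit 449) (nat_lit 292)) (XT.nd (nat_lit 78) (nat_lit 152) (nat_lit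 0) (XT.lf (nat_lit 76) (nat_lit 16458223780) (nat_lit 0) (nat_lit 16924810007) (nat_lit 76) (nat_lit 16924810007) (nat_lit 98) (nat_lit 3) (nat_lit 97) (nat_lit 1) (nat_lit 98) (nat_lit 1) (nat_lit 280) (nat_lit 449) (nat_lit 291)) (XT.lf (nat_lit 152) (nat_lit 49222037462) (nat_lit 0) (nat_lit 143344462) (nat_lit 76) (nat_lit 143344462) (nat_lit 97) (nat_lit 1) (nat_lit 95) (nat_lit 1) (nat_lit 96) (nat_lit 1) (nat_lit 281) (nat_lit 449) (nat_lit 290)))) (XT.nd (nat_lit 156) (nat_lit 152) (nat_lit 0) (XT.nd (nat_lit 78) (nat_lit 76) (nat_lit 0) (XT.lf (nat_lit 0) (nat_lit 16097982208) (nat_lit 0) (nat_lit 16501036933) (nat_lit 152) (nat_lit 16097982208) (nat_lit 95) (nat_lit 3) (nat_lit 95) (nat_lit 1) (nat_lit 97) (nat_lit 1) (nat_lit 282) (nat_lit 449) (nat_lit 289)) (XT.lf (nat_lit 76) (nat_lit 15714510997) (nat_lit 0) (nat_lit 16098372640) (nat_lit 76) (nat_lit 16098372640) (nat_lit 95) (nat_lit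 3) (nat_lit 94) (nat_lit 1) (nat_lit 95) (nat_lit 1) (nat_lit 283) (nat_lit 449) (nat_lit 288))) (XT.nd (nat_lit 78) (nat_lit 0) (nat_lit 0) (XT.lf (nat_lit 152) (nat_lit 46914423124) (nat_lit 0) (nat_lit 117929844) (nat_lit 76) (nat_lit 117929844) (nat_lit 94) (nat_lit 1) (nat_lit 92) (nat_lit 1) (nat_lit 93) (nat_lit 1) (nat_lit 284) (nat_lit 449) (nat_lit 287)) (XT.lf (nat_lit 0) (nat_lit 15348548520) (nat_lit 0) (nat_lit 15680142640) (nat_lit 152) (nat_lit 15348548520) (nat_lit 92) (nat_lit 3) (nat_lit 92) (nat_lit 1) (nat_lit 94) (nat_lit 1) (nat_lit 285) (nat_lit 449) (nat_lit 286))))))) (XT.nd (nat_lit 936) (nat_lit 988) (nat_lit 0) (XT.nd (nat_lit 468) (nat_lit 456) (nat_lit 0) (XT.nd (nat_lit 234) (nat_lit 228) (nat_lit 0) (XT.nd (nat_lit 78) (nat_lit 152) (nat_lit 0) (XT.lf (nat_lit 76) (nat_lit 14999119052) (nat_lit 0) (nat_lit 15314922976) (nat_lit 76) (nat_lit 15314922976) (nat_lit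 92) (nat_lit 3) (nat_lit 91) (nat_lit 1) (nat_lit 92) (nat_lit 1) (nat_lit 286) (nat_lit 449) (nat_lit 285)) (XT.nd (nat_lit 78) (nat_lit 0) (nat_lit 0) (XT.lf (nat_lit 152) (nat_lit 44710260664) (nat_lit 0) (nat_lit 97021174) (nat_lit 76) (nat_lit 97021174) (nat_lit 91) (nat_lit 1) (nat_lit 89) (nat_lit 1) (nat_lit 90) (nat_lit 1) (nat_lit 287) (nat_lit 449) (nat_lit 284)) (XT.lf (nat_lit 0) (nat_lit 14631763821) (nat_lit 0) (nat_lit 14904567124) (nat_lit 152) (nat_lit 14631763821) (nat_lit 89) (nat_lit 3) (nat_lit 89) (nat_lit 1) (nat_lit 91) (nat_lit 1) (nat_lit 288) (nat_lit 449) (nat_lit 283)))) (XT.nd (nat_lit 78) (nat_lit 152) (nat_lit 0) (XT.lf (nat_lit 76) (nat_lit 14311957092) (nat_lit 0) (nat_lit 14571769761) (nat_lit 76) (nat_lit 14571769761) (nat_lit 89) (nat_lit 3) (nat_lit 88) (nat_lit 1) (nat_lit 89) (nat_lit 1) (nat_lit 289) (nat_lit 449) (nat_lit 282)) (XT.nd (nat_lit 78) (nat_lit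 0) (nat_lit 0) (XT.lf (nat_lit 152) (nat_lit 42605764627) (nat_lit 0) (nat_lit 79819560) (nat_lit 76) (nat_lit 79819560) (nat_lit 88) (nat_lit 1) (nat_lit 86) (nat_lit 1) (nat_lit 87) (nat_lit 1) (nat_lit 290) (nat_lit 449) (nat_lit 281)) (XT.lf (nat_lit 0) (nat_lit 13946612086) (nat_lit 0) (nat_lit 14171048039) (nat_lit 152) (nat_lit 13946612086) (nat_lit 86) (nat_lit 3) (nat_lit 86) (nat_lit 1) (nat_lit 88) (nat_lit 1) (nat_lit 291) (nat_lit 449) (nat_lit 280))))) (XT.nd (nat_lit 234) (nat_lit 228) (nat_lit 0) (XT.nd (nat_lit 78) (nat_lit 152) (nat_lit 0) (XT.lf (nat_lit 76) (nat_lit 13652715593) (nat_lit 0) (nat_lit 13866464119) (nat_lit 76) (nat_lit 13866464119) (nat_lit 86) (nat_lit 3) (nat_lit 85) (nat_lit 1) (nat_lit 86) (nat_lit 1) (nat_lit 292) (nat_lit 449) (nat_lit 279)) (XT.nd (nat_lit 78) (nat_lit 0) (nat_lit 0) (XT.lf (nat_lit 152) (nat_lit 40597127552) (nat_lit 0) (nat_lit 65667750)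 (nat_lit 76) (nat_lit 65667750) (nat_lit 85) (nat_lit 1) (nat_lit 83) (nat_lit 1) (nat_lit 84) (nat_lit 1) (nat_lit 293) (nat_lit 449) (nat_lit 278)) (XT.lf (nat_lit 0) (nat_lit 13292030164) (nat_lit 0) (nat_lit 13476674178) (nat_lit 152) (nat_lit 13292030164) (nat_lit 83) (nat_lit 3) (nat_lit 83) (nat_lit 1) (nat_lit 85) (nat_lit 1) (nat_lit 294) (nat_lit 449) (nat_lit 277)))) (XT.nd (nat_lit 78) (nat_lit 152) (nat_lit 0) (XT.lf (nat_lit 76) (nat_lit 13020916310) (nat_lit 0) (nat_lit 13196767751) (nat_lit 76) (nat_lit 13196767751) (nat_lit 83) (nat_lit 3) (nat_lit 82) (nat_lit 1) (nat_lit 83) (nat_lit 1) (nat_lit 295) (nat_lit 449) (nat_lit 276)) (XT.nd (nat_lit 78) (nat_lit 0) (nat_lit 0) (XT.lf (nat_lit 152) (nat_lit 38680556880) (nat_lit 0) (nat_lit 54025020) (nat_lit 76) (nat_lit 54025020) (nat_lit 82) (nat_lit 1) (nat_lit 80) (nat_lit 1) (nat_lit 81) (nat_lit 1) (nat_lit 296) (nat_lit 449)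 (nat_lit 275)) (XT.lf (nat_lit 0) (nat_lit 12666926955) (nat_lit 0) (nat_lit 12818834042) (nat_lit 152) (nat_lit 12666926955) (nat_lit 80) (nat_lit 3) (nat_lit 80) (nat_lit 1) (nat_lit 82) (nat_lit 1) (nat_lit 297) (nat_lit 449) (nat_lit 274)))))) (XT.nd (nat_lit 468) (nat_lit 532) (nat_lit 0) (XT.nd (nat_lit 234) (nat_lit 228) (nat_lit 0) (XT.nd (nat_lit 78) (nat_lit 152) (nat_lit 0) (XT.lf (nat_lit 76) (nat_lit 12415952838) (nat_lit 0) (nat_lit 12560626254) (nat_lit 76) (nat_lit 12560626254) (nat_lit 80) (nat_lit 3) (nat_lit 79) (nat_lit 1) (nat_lit 80) (nat_lit 1) (nat_lit 298) (nat_lit 449) (nat_lit 273)) (XT.nd (nat_lit 78) (nat_lit 0) (nat_lit 0) (XT.lf (nat_lit 152) (nat_lit 36852303751) (nat_lit 0) (nat_lit 44446518) (nat_lit 76) (nat_lit 44446518) (nat_lit 79) (nat_lit 1) (nat_lit 77) (nat_lit 1) (nat_lit 78) (nat_lit 1) (nat_lit 299) (nat_lit 449) (nat_lit 272)) (XT.lf (nat_lit 0) (nat_lit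 12070198672) (nat_lit 0) (nat_lit 12195173008) (nat_lit 152) (nat_lit 12070198672) (nat_lit 77) (nat_lit 3) (nat_lit 77) (nat_lit 1) (nat_lit 79) (nat_lit 1) (nat_lit 300) (nat_lit 449) (nat_lit 271)))) (XT.nd (nat_lit 78) (nat_lit 152) (nat_lit 0) (XT.lf (nat_lit 76) (nat_lit 11837123475) (nat_lit 0) (nat_lit 11956146652) (nat_lit 76) (nat_lit 11956146652) (nat_lit 77) (nat_lit 3) (nat_lit 76) (nat_lit 1) (nat_lit 77) (nat_lit 1) (nat_lit 301) (nat_lit 449) (nat_lit 270)) (XT.nd (nat_lit 78) (nat_lit 0) (nat_lit 0) (XT.lf (nat_lit 152) (nat_lit 35108685193) (nat_lit 0) (nat_lit 36566260) (nat_lit 76) (nat_lit 36566260) (nat_lit 76) (nat_lit 1) (nat_lit 74) (nat_lit 1) (nat_lit 75) (nat_lit 1) (nat_lit 302) (nat_lit 449) (nat_lit 269)) (XT.lf (nat_lit 0) (nat_lit 11500740907) (nat_lit 0) (nat_lit 11603557603) (nat_lit 152) (nat_lit 11500740907) (nat_lit 74) (nat_lit 3) (nat_lit 74) (nat_lit 1)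 (nat_lit 76) (nat_lit 1) (nat_lit 303) (nat_lit 449) (nat_lit 268))))) (XT.nd (nat_lit 234) (nat_lit 304) (nat_lit 0) (XT.nd (nat_lit 78) (nat_lit 152) (nat_lit 0) (XT.lf (nat_lit 76) (nat_lit 11283657775) (nat_lit 0) (nat_lit 11381578438) (nat_lit 76) (nat_lit 11381578438) (nat_lit 74) (nat_lit 3) (nat_lit 73) (nat_lit 1) (nat_lit 74) (nat_lit 1) (nat_lit 304) (nat_lit 449) (nat_lit 267)) (XT.nd (nat_lit 78) (nat_lit 0) (nat_lit 0) (XT.lf (nat_lit 152) (nat_lit 33446100952) (nat_lit 0) (nat_lit 30083152) (nat_lit 76) (nat_lit 30083152) (nat_lit 73) (nat_lit 1) (nat_lit 71) (nat_lit 1) (nat_lit 72) (nat_lit 1) (nat_lit 305) (nat_lit 449) (nat_lit 266)) (XT.lf (nat_lit 0) (nat_lit 10957458090) (nat_lit 0) (nat_lit 11042045641) (nat_lit 152) (nat_lit 10957458090) (nat_lit 71) (nat_lit 3) (nat_lit 71) (nat_lit 1) (nat_lit 73) (nat_lit 1) (nat_lit 306) (nat_lit 449) (nat_lit 265)))) (XT.nd (nat_lit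 156) (nat_lit 76) (nat_lit 0) (XT.nd (nat_lit 78) (nat_lit 152) (nat_lit 0) (XT.lf (nat_lit 76) (nat_lit 10754737937) (nat_lit 0) (nat_lit 10835297508) (nat_lit 76) (nat_lit 10835297508) (nat_lit 71) (nat_lit 3) (nat_lit 70) (nat_lit 1) (nat_lit 71) (nat_lit 1) (nat_lit 307) (nat_lit 449) (nat_lit 264)) (XT.lf (nat_lit 152) (nat_lit 31861045985) (nat_lit 0) (nat_lit 24749484) (nat_lit 76) (nat_lit 24749484) (nat_lit 70) (nat_lit 1) (nat_lit 68) (nat_lit 1) (nat_lit 69) (nat_lit 1) (nat_lit 308) (nat_lit 449) (nat_lit 263))) (XT.nd (nat_lit 78) (nat_lit 76) (nat_lit 0) (XT.lf (nat_lit 0) (nat_lit 10439270826) (nat_lit 0) (nat_lit 10508861213) (nat_lit 152) (nat_lit 10439270826) (nat_lit 68) (nat_lit 3) (nat_lit 68) (nat_lit 1) (nat_lit 70) (nat_lit 1) (nat_lit 309) (nat_lit 449) (nat_lit 262)) (XT.lf (nat_lit 76) (nat_lit 10249515955) (nat_lit 0) (nat_lit 10315792514) (nat_lit 76) (nat_lit 10315792514)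 (nat_lit 68) (nat_lit 3) (nat_lit 67) (nat_lit 1) (nat_lit 68) (nat_lit 1) (nat_lit 310) (nat_lit 449) (nat_lit 261))))))))
noncomputable def ec505 : XT := (XT.nd (nat_lit 1950) (nat_lit 1900) (nat_lit 0) (XT.nd (nat_lit 936) (nat_lit 1064) (nat_lit 0) (XT.nd (nat_lit 468) (nat_lit 456) (nat_lit 0) (XT.nd (nat_lit 234) (nat_lit 228) (nat_lit 0) (XT.nd (nat_lit 78) (nat_lit 76) (nat_lit 0) (XT.lf (nat_lit 152) (nat_lit 30350119438) (nat_lit 0) (nat_lit 20361462) (nat_lit 76) (nat_lit 20361462) (nat_lit 67) (nat_lit 1) (nat_lit 65) (nat_lit 1) (nat_lit 66) (nat_lit 1) (nat_lit 311) (nat_lit 449) (nat_lit 260)) (XT.nd (nat_lit 78) (nat_lit 76) (nat_lit 0) (XT.lf (nat_lit 0) (nat_lit 9945121503) (nat_lit 0) (nat_lit 10002373686) (nat_lit 152) (nat_lit 9945121503) (nat_lit 65) (nat_lit 3) (nat_lit 65) (nat_lit 1) (nat_lit 67) (nat_lit 1) (nat_lit 312) (nat_lit 449) (nat_lit 259)) (XT.lf (nat_lit 76)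 (nat_lit 9767127321) (nat_lit 0) (nat_lit 9821653210) (nat_lit 76) (nat_lit 9821653210) (nat_lit 65) (nat_lit 3) (nat_lit 64) (nat_lit 1) (nat_lit 65) (nat_lit 1) (nat_lit 313) (nat_lit 449) (nat_lit 258)))) (XT.nd (nat_lit 78) (nat_lit 76) (nat_lit 0) (XT.lf (nat_lit 152) (nat_lit 28910030806) (nat_lit 0) (nat_lit 16751425) (nat_lit 76) (nat_lit 16751425) (nat_lit 64) (nat_lit 1) (nat_lit 62) (nat_lit 1) (nat_lit 63) (nat_lit 1) (nat_lit 314) (nat_lit 449) (nat_lit 257)) (XT.nd (nat_lit 78) (nat_lit 76) (nat_lit 0) (XT.lf (nat_lit 0) (nat_lit 9473978510) (nat_lit 0) (nat_lit 9521080023) (nat_lit 152) (nat_lit 9473978510) (nat_lit 62) (nat_lit 3) (nat_lit 62) (nat_lit 1) (nat_lit 64) (nat_lit 1) (nat_lit 315) (nat_lit 449) (nat_lit 256)) (XT.lf (nat_lit 76) (nat_lit 9306701894) (nat_lit 0) (nat_lit 9351560478) (nat_lit 76) (nat_lit 9351560478) (nat_lit 62) (nat_lit 3) (nat_lit 61) (nat_lit 1) (nat_lit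 62) (nat_lit 1) (nat_lit 316) (nat_lit 449) (nat_lit 255))))) (XT.nd (nat_lit 234) (nat_lit 228) (nat_lit 0) (XT.nd (nat_lit 78) (nat_lit 76) (nat_lit 0) (XT.lf (nat_lit 152) (nat_lit 27537603828) (nat_lit 0) (nat_lit 13781438) (nat_lit 76) (nat_lit 13781438) (nat_lit 61) (nat_lit 1) (nat_lit 59) (nat_lit 1) (nat_lit 60) (nat_lit 1) (nat_lit 317) (nat_lit 449) (nat_lit 254)) (XT.nd (nat_lit 78) (nat_lit 76) (nat_lit 0) (XT.lf (nat_lit 0) (nat_lit 9024839316) (nat_lit 0) (nat_lit 9063589848) (nat_lit 152) (nat_lit 9024839316) (nat_lit 59) (nat_lit 3) (nat_lit 59) (nat_lit 1) (nat_lit 61) (nat_lit 1) (nat_lit 318) (nat_lit 449) (nat_lit 253)) (XT.lf (nat_lit 76) (nat_lit 8867372467) (nat_lit 0) (nat_lit 8904277735) (nat_lit 76) (nat_lit 8904277735) (nat_lit 59) (nat_lit 3) (nat_lit 58) (nat_lit 1) (nat_lit 59) (nat_lit 1) (nat_lit 319) (nat_lit 449) (nat_lit 252)))) (XT.nd (nat_lit 78) (nat_lit 76)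 (nat_lit 0) (XT.lf (nat_lit 152) (nat_lit 26229778570) (nat_lit 0) (nat_lit 11338023) (nat_lit 76) (nat_lit 11338023) (nat_lit 58) (nat_lit 1) (nat_lit 56) (nat_lit 1) (nat_lit 57) (nat_lit 1) (nat_lit 320) (nat_lit 449) (nat_lit 251)) (XT.nd (nat_lit 78) (nat_lit 76) (nat_lit 0) (XT.lf (nat_lit 0) (nat_lit 8596732640) (nat_lit 0) (nat_lit 8628612798) (nat_lit 152) (nat_lit 8596732640) (nat_lit 56) (nat_lit 3) (nat_lit 56) (nat_lit 1) (nat_lit 58) (nat_lit 1) (nat_lit 321) (nat_lit 449) (nat_lit 250)) (XT.lf (nat_lit 76) (nat_lit 8448281451) (nat_lit 0) (nat_lit 8478643506) (nat_lit 76) (nat_lit 8478643506) (nat_lit 56) (nat_lit 3) (nat_lit 55) (nat_lit 1) (nat_lit 56) (nat_lit 1) (nat_lit 322) (nat_lit 449) (nat_lit 249)))))) (XT.nd (nat_lit 468) (nat_lit 608) (nat_lit 0) (XT.nd (nat_lit 234) (nat_lit 228) (nat_lit 0) (XT.nd (nat_lit 78) (nat_lit 76) (nat_lit 0) (XT.lf (nat_lit 152) (nat_lit 24983612076)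 (nat_lit 0) (nat_lit 9327820) (nat_lit 76) (nat_lit 9327820) (nat_lit 55) (nat_lit 1) (nat_lit 53) (nat_lit 1) (nat_lit 54) (nat_lit 1) (nat_lit 323) (nat_lit 449) (nat_lit 248)) (XT.nd (nat_lit 78) (nat_lit 76) (nat_lit 0) (XT.lf (nat_lit 0) (nat_lit 8188719885) (nat_lit 0) (nat_lit 8214947770) (nat_lit 152) (nat_lit 8188719885) (nat_lit 53) (nat_lit 3) (nat_lit 53) (nat_lit 1) (nat_lit 55) (nat_lit 1) (nat_lit 324) (nat_lit 449) (nat_lit 247)) (XT.lf (nat_lit 76) (nat_lit 8048586036) (nat_lit 0) (nat_lit 8073564974) (nat_lit 76) (nat_lit 8073564974) (nat_lit 53) (nat_lit 3) (nat_lit 52) (nat_lit 1) (nat_lit 53) (nat_lit 1) (nat_lit 325) (nat_lit 449) (nat_lit 246)))) (XT.nd (nat_lit 78) (nat_lit 76) (nat_lit 0) (XT.lf (nat_lit 152) (nat_lit 23796277897) (nat_lit 0) (nat_lit 7674020) (nat_lit 76) (nat_lit 7674020) (nat_lit 52) (nat_lit 1) (nat_lit 50) (nat_lit 1) (nat_lit 51) (nat_lit 1) (nat_lit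 326) (nat_lit 449) (nat_lit 245)) (XT.nd (nat_lit 78) (nat_lit 76) (nat_lit 0) (XT.lf (nat_lit 0) (nat_lit 7799895988) (nat_lit 0) (nat_lit 7821473734) (nat_lit 152) (nat_lit 7799895988) (nat_lit 50) (nat_lit 3) (nat_lit 50) (nat_lit 1) (nat_lit 52) (nat_lit 1) (nat_lit 327) (nat_lit 449) (nat_lit 244)) (XT.lf (nat_lit 76) (nat_lit 7667462106) (nat_lit 0) (nat_lit 7688012340) (nat_lit 76) (nat_lit 7688012340) (nat_lit 50) (nat_lit 3) (nat_lit 49) (nat_lit 1) (nat_lit 50) (nat_lit 1) (nat_lit 328) (nat_lit 449) (nat_lit 243))))) (XT.nd (nat_lit 234) (nat_lit 380) (nat_lit 0) (XT.nd (nat_lit 78) (nat_lit 76) (nat_lit 0) (XT.lf (nat_lit 152) (nat_lit 22665064729) (nat_lit 0) (nat_lit 6313435) (nat_lit 76) (nat_lit 6313435) (nat_lit 49) (nat_lit 1) (nat_lit 47) (nat_lit 1) (nat_lit 48) (nat_lit 1) (nat_lit 329) (nat_lit 449) (nat_lit 242)) (XT.nd (nat_lit 78) (nat_lit 76) (nat_lit 0) (XT.lf (nat_lit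 0) (nat_lit 7429389802) (nat_lit 0) (nat_lit 7447141867) (nat_lit 152) (nat_lit 7429389802) (nat_lit 47) (nat_lit 3) (nat_lit 47) (nat_lit 1) (nat_lit 49) (nat_lit 1) (nat_lit 330) (nat_lit 449) (nat_lit 241)) (XT.lf (nat_lit 76) (nat_lit 7304107151) (nat_lit 0) (nat_lit 7321013879) (nat_lit 76) (nat_lit 7321013879) (nat_lit 47) (nat_lit 3) (nat_lit 46) (nat_lit 1) (nat_lit 47) (nat_lit 1) (nat_lit 331) (nat_lit 449) (nat_lit 240)))) (XT.nd (nat_lit 156) (nat_lit 228) (nat_lit 0) (XT.nd (nat_lit 78) (nat_lit 0) (nat_lit 0) (XT.lf (nat_lit 152) (nat_lit 21587374380) (nat_lit 0) (nat_lit 5194079) (nat_lit 76) (nat_lit 5194079) (nat_lit 46) (nat_lit 1) (nat_lit 44) (nat_lit 1) (nat_lit 45) (nat_lit 1) (nat_lit 332) (nat_lit 449) (nat_lit 239)) (XT.lf (nat_lit 0) (nat_lit 7076364109) (nat_lit 0) (nat_lit 7090968777) (nat_lit 152) (nat_lit 7076364109) (nat_lit 44) (nat_lit 3) (nat_lit 44) (nat_lit 1)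 (nat_lit 46) (nat_lit 1) (nat_lit 333) (nat_lit 449) (nat_lit 238))) (XT.nd (nat_lit 78) (nat_lit 152) (nat_lit 0) (XT.lf (nat_lit 76) (nat_lit 6957742363) (nat_lit 0) (nat_lit 6971651570) (nat_lit 76) (nat_lit 6971651570) (nat_lit 44) (nat_lit 3) (nat_lit 43) (nat_lit 1) (nat_lit 44) (nat_lit 1) (nat_lit 334) (nat_lit 449) (nat_lit 237)) (XT.lf (nat_lit 152) (nat_lit 20560719217) (nat_lit 0) (nat_lit 4273181) (nat_lit 76) (nat_lit 4273181) (nat_lit 43) (nat_lit 1) (nat_lit 41) (nat_lit 1) (nat_lit 42) (nat_lit 1) (nat_lit 335) (nat_lit 449) (nat_lit 236))))))) (XT.nd (nat_lit 1014) (nat_lit 988) (nat_lit 0) (XT.nd (nat_lit 468) (nat_lit 456) (nat_lit 0) (XT.nd (nat_lit 234) (nat_lit 228) (nat_lit 0) (XT.nd (nat_lit 78) (nat_lit 228) (nat_lit 0) (XT.lf (nat_lit 0) (nat_lit 6740015344) (nat_lit 0) (nat_lit 6752030640) (nat_lit 152) (nat_lit 6740015344) (nat_lit 41) (nat_lit 3) (nat_lit 41) (nat_lit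 1) (nat_lit 43) (nat_lit 1) (nat_lit 336) (nat_lit 449) (nat_lit 235)) (XT.nd (nat_lit 78) (nat_lit 152) (nat_lit 0) (XT.lf (nat_lit 76) (nat_lit 6627614084) (nat_lit 0) (nat_lit 6639057223) (nat_lit 76) (nat_lit 6639057223) (nat_lit 41) (nat_lit 3) (nat_lit 40) (nat_lit 1) (nat_lit 41) (nat_lit 1) (nat_lit 337) (nat_lit 449) (nat_lit 234)) (XT.lf (nat_lit 152) (nat_lit 19582719242) (nat_lit 0) (nat_lit 3515557) (nat_lit 76) (nat_lit 3515557) (nat_lit 40) (nat_lit 1) (nat_lit 38) (nat_lit 1) (nat_lit 39) (nat_lit 1) (nat_lit 338) (nat_lit 449) (nat_lit 233)))) (XT.nd (nat_lit 78) (nat_lit 228) (nat_lit 0) (XT.lf (nat_lit 0) (nat_lit 6419573093) (nat_lit 0) (nat_lit 6429458107) (nat_lit 152) (nat_lit 6419573093) (nat_lit 38) (nat_lit 3) (nat_lit 38) (nat_lit 1) (nat_lit 40) (nat_lit 1) (nat_lit 339) (nat_lit 449) (nat_lit 232)) (XT.nd (nat_lit 78) (nat_lit 152) (nat_lit 0) (XT.lf (nat_lit 76) (nat_lit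 6312994721) (nat_lit 0) (nat_lit 6322409020) (nat_lit 76) (nat_lit 6322409020) (nat_lit 38) (nat_lit 3) (nat_lit 37) (nat_lit 1) (nat_lit 38) (nat_lit 1) (nat_lit 340) (nat_lit 449) (nat_lit 231)) (XT.lf (nat_lit 152) (nat_lit 18651098877) (nat_lit 0) (nat_lit 2892257) (nat_lit 76) (nat_lit 2892257) (nat_lit 37) (nat_lit 1) (nat_lit 35) (nat_lit 1) (nat_lit 36) (nat_lit 1) (nat_lit 341) (nat_lit 449) (nat_lit 230))))) (XT.nd (nat_lit 234) (nat_lit 228) (nat_lit 0) (XT.nd (nat_lit 78) (nat_lit 228) (nat_lit 0) (XT.lf (nat_lit 0) (nat_lit 6114299423) (nat_lit 0) (nat_lit 6122431848) (nat_lit 152) (nat_lit 6114299423) (nat_lit 35) (nat_lit 3) (nat_lit 35) (nat_lit 1) (nat_lit 37) (nat_lit 1) (nat_lit 342) (nat_lit 449) (nat_lit 229)) (XT.nd (nat_lit 78) (nat_lit 152) (nat_lit 0) (XT.lf (nat_lit 76) (nat_lit 6013183249) (nat_lit 0) (nat_lit 6020928416) (nat_lit 76) (nat_lit 6020928416) (nat_lit 35)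 (nat_lit 3) (nat_lit 34) (nat_lit 1) (nat_lit 35) (nat_lit 1) (nat_lit 343) (nat_lit 449) (nat_lit 228)) (XT.lf (nat_lit 152) (nat_lit 17763683578) (nat_lit 0) (nat_lit 2379467) (nat_lit 76) (nat_lit 2379467) (nat_lit 34) (nat_lit 1) (nat_lit 32) (nat_lit 1) (nat_lit 33) (nat_lit 1) (nat_lit 344) (nat_lit 449) (nat_lit 227)))) (XT.nd (nat_lit 156) (nat_lit 152) (nat_lit 0) (XT.nd (nat_lit 78) (nat_lit 76) (nat_lit 0) (XT.lf (nat_lit 0) (nat_lit 5823488078) (nat_lit 0) (nat_lit 5830178645) (nat_lit 152) (nat_lit 5823488078) (nat_lit 32) (nat_lit 3) (nat_lit 32) (nat_lit 1) (nat_lit 34) (nat_lit 1) (nat_lit 345) (nat_lit 449) (nat_lit 226)) (XT.lf (nat_lit 76) (nat_lit 5727505377) (nat_lit 0) (nat_lit 5733877345) (nat_lit 76) (nat_lit 5733877345) (nat_lit 32) (nat_lit 3) (nat_lit 31) (nat_lit 1) (nat_lit 32) (nat_lit 1) (nat_lit 346) (nat_lit 449) (nat_lit 225))) (XT.nd (nat_lit 78) (nat_lit 0) (nat_lit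 0) (XT.lf (nat_lit 152) (nat_lit 16918396322) (nat_lit 0) (nat_lit 1957593) (nat_lit 76) (nat_lit 1957593) (nat_lit 31) (nat_lit 1) (nat_lit 29) (nat_lit 1) (nat_lit 30) (nat_lit 1) (nat_lit 347) (nat_lit 449) (nat_lit 224)) (XT.lf (nat_lit 0) (nat_lit 5546463588) (nat_lit 0) (nat_lit 5551967934) (nat_lit 152) (nat_lit 5546463588) (nat_lit 29) (nat_lit 3) (nat_lit 29) (nat_lit 1) (nat_lit 31) (nat_lit 1) (nat_lit 348) (nat_lit 449) (nat_lit 223)))))) (XT.nd (nat_lit 468) (nat_lit 532) (nat_lit 0) (XT.nd (nat_lit 234) (nat_lit 228) (nat_lit 0) (XT.nd (nat_lit 78) (nat_lit 152) (nat_lit 0) (XT.lf (nat_lit 76) (nat_lit 5455313455) (nat_lit 0) (nat_lit 5460555689) (nat_lit 76) (nat_lit 5460555689) (nat_lit 29) (nat_lit 3) (nat_lit 28) (nat_lit 1) (nat_lit 29) (nat_lit 1) (nat_lit 349) (nat_lit 449) (nat_lit 222)) (XT.nd (nat_lit 78) (nat_lit 0) (nat_lit 0) (XT.lf (nat_lit 152) (nat_lit 16113254029)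 (nat_lit 0) (nat_lit 1610517) (nat_lit 76) (nat_lit 1610517) (nat_lit 28) (nat_lit 1) (nat_lit 26) (nat_lit 1) (nat_lit 27) (nat_lit 1) (nat_lit 350) (nat_lit 449) (nat_lit 221)) (XT.lf (nat_lit 0) (nat_lit 5282580306) (nat_lit 0) (nat_lit 5287108744) (nat_lit 152) (nat_lit 5282580306) (nat_lit 26) (nat_lit 3) (nat_lit 26) (nat_lit 1) (nat_lit 28) (nat_lit 1) (nat_lit 351) (nat_lit 449) (nat_lit 220)))) (XT.nd (nat_lit 78) (nat_lit 152) (nat_lit 0) (XT.lf (nat_lit 76) (nat_lit 5195986172) (nat_lit 0) (nat_lit 5200298971) (nat_lit 76) (nat_lit 5200298971) (nat_lit 26) (nat_lit 3) (nat_lit 25) (nat_lit 1) (nat_lit 26) (nat_lit 1) (nat_lit 352) (nat_lit 449) (nat_lit 219)) (XT.nd (nat_lit 78) (nat_lit 0) (nat_lit 0) (XT.lf (nat_lit 152) (nat_lit 15346363972) (nat_lit 0) (nat_lit 1324976) (nat_lit 76) (nat_lit 1324976) (nat_lit 25) (nat_lit 1) (nat_lit 23) (nat_lit 1) (nat_lit 24) (nat_lit 1) (nat_lit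 353) (nat_lit 449) (nat_lit 218)) (XT.lf (nat_lit 0) (nat_lit 5031221401) (nat_lit 0) (nat_lit 5034946958) (nat_lit 152) (nat_lit 5031221401) (nat_lit 23) (nat_lit 3) (nat_lit 23) (nat_lit 1) (nat_lit 25) (nat_lit 1) (nat_lit 354) (nat_lit 449) (nat_lit 217))))) (XT.nd (nat_lit 234) (nat_lit 304) (nat_lit 0) (XT.nd (nat_lit 78) (nat_lit 152) (nat_lit 0) (XT.lf (nat_lit 76) (nat_lit 4948928104) (nat_lit 0) (nat_lit 4952476254) (nat_lit 76) (nat_lit 4952476254) (nat_lit 23) (nat_lit 3) (nat_lit 22) (nat_lit 1) (nat_lit 23) (nat_lit 1) (nat_lit 355) (nat_lit 449) (nat_lit 216)) (XT.nd (nat_lit 78) (nat_lit 0) (nat_lit 0) (XT.lf (nat_lit 152) (nat_lit 14615920195) (nat_lit 0) (nat_lit 1090061) (nat_lit 76) (nat_lit 1090061) (nat_lit 22) (nat_lit 1) (nat_lit 20) (nat_lit 1) (nat_lit 21) (nat_lit 1) (nat_lit 356) (nat_lit 449) (nat_lit 215)) (XT.lf (nat_lit 0) (nat_lit 4791797831) (nat_lit 0) (nat_lit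 4794862856) (nat_lit 152) (nat_lit 4791797831) (nat_lit 20) (nat_lit 3) (nat_lit 20) (nat_lit 1) (nat_lit 22) (nat_lit 1) (nat_lit 357) (nat_lit 449) (nat_lit 214)))) (XT.nd (nat_lit 156) (nat_lit 76) (nat_lit 0) (XT.nd (nat_lit 78) (nat_lit 152) (nat_lit 0) (XT.lf (nat_lit 76) (nat_lit 4713569133) (nat_lit 0) (nat_lit 4716488205) (nat_lit 76) (nat_lit 4716488205) (nat_lit 20) (nat_lit 3) (nat_lit 19) (nat_lit 1) (nat_lit 20) (nat_lit 1) (nat_lit 358) (nat_lit 449) (nat_lit 213)) (XT.lf (nat_lit 152) (nat_lit 13920199979) (nat_lit 0) (nat_lit 896796) (nat_lit 76) (nat_lit 896796) (nat_lit 19) (nat_lit 1) (nat_lit 17) (nat_lit 1) (nat_lit 18) (nat_lit 1) (nat_lit 359) (nat_lit 449) (nat_lit 212))) (XT.nd (nat_lit 78) (nat_lit 76) (nat_lit 0) (XT.lf (nat_lit 0) (nat_lit 4563747299) (nat_lit 0) (nat_lit 4566268903) (nat_lit 152) (nat_lit 4563747299) (nat_lit 17) (nat_lit 3) (nat_lit 17) (nat_lit 1)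 (nat_lit 19) (nat_lit 1) (nat_lit 360) (nat_lit 449) (nat_lit 211)) (XT.lf (nat_lit 76) (nat_lit 4489363785) (nat_lit 0) (nat_lit 4491765313) (nat_lit 76) (nat_lit 4491765313) (nat_lit 17) (nat_lit 3) (nat_lit 16) (nat_lit 1) (nat_lit 17) (nat_lit 1) (nat_lit 361) (nat_lit 449) (nat_lit 210))))))))
noncomputable def ec506 : XT := (XT.nd (nat_lit 42900) (nat_lit 0) (nat_lit 8512) (XT.nd (nat_lit 41886) (nat_lit 0) (nat_lit 10488) (XT.nd (nat_lit 468) (nat_lit 228) (nat_lit 0) (XT.nd (nat_lit 234) (nat_lit 228) (nat_lit 0) (XT.nd (nat_lit 78) (nat_lit 76) (nat_lit 0) (XT.lf (nat_lit 152) (nat_lit 13257560365) (nat_lit 0) (nat_lit 737796) (nat_lit 76) (nat_lit 737796) (nat_lit 16) (nat_lit 1) (nat_lit 14) (nat_lit 1) (nat_lit 15) (nat_lit 1) (nat_lit 362) (nat_lit 449) (nat_lit 209)) (XT.nd (nat_lit 78) (nat_lit 76) (nat_lit 0) (XT.lf (nat_lit 0) (nat_lit 4346533211) (nat_lit 0) (nat_lit 4348607741)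 (nat_lit 152) (nat_lit 4346533211) (nat_lit 14) (nat_lit 3) (nat_lit 14) (nat_lit 1) (nat_lit 16) (nat_lit 1) (nat_lit 363) (nat_lit 449) (nat_lit 208)) (XT.lf (nat_lit 76) (nat_lit 4275790500) (nat_lit 0) (nat_lit 4277766243) (nat_lit 76) (nat_lit 4277766243) (nat_lit 14) (nat_lit 3) (nat_lit 13) (nat_lit 1) (nat_lit 14) (nat_lit 1) (nat_lit 364) (nat_lit 449) (nat_lit 207)))) (XT.nd (nat_lit 78) (nat_lit 76) (nat_lit 0) (XT.lf (nat_lit 152) (nat_lit 12626434764) (nat_lit 0) (nat_lit 606987) (nat_lit 76) (nat_lit 606987) (nat_lit 13) (nat_lit 1) (nat_lit 11) (nat_lit 1) (nat_lit 12) (nat_lit 1) (nat_lit 365) (nat_lit 449) (nat_lit 206)) (XT.nd (nat_lit 78) (nat_lit 76) (nat_lit 0) (XT.lf (nat_lit 0) (nat_lit 4139643643) (nat_lit 0) (nat_lit 4141350364) (nat_lit 152) (nat_lit 4139643643) (nat_lit 11) (nat_lit 3) (nat_lit 11) (nat_lit 1) (nat_lit 13) (nat_lit 1) (nat_lit 366) (nat_lit 449) (nat_lit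 205)) (XT.lf (nat_lit 76) (nat_lit 4072350859) (nat_lit 0) (nat_lit 4073976308) (nat_lit 76) (nat_lit 4073976308) (nat_lit 11) (nat_lit 3) (nat_lit 10) (nat_lit 1) (nat_lit 11) (nat_lit 1) (nat_lit 367) (nat_lit 449) (nat_lit 204))))) (XT.nd (nat_lit 41184) (nat_lit 0) (nat_lit 11476) (XT.nd (nat_lit 78) (nat_lit 76) (nat_lit 0) (XT.lf (nat_lit 152) (nat_lit 12025329644) (nat_lit 0) (nat_lit 499369) (nat_lit 76) (nat_lit 499369) (nat_lit 10) (nat_lit 1) (nat_lit 8) (nat_lit 1) (nat_lit 9) (nat_lit 1) (nat_lit 368) (nat_lit 449) (nat_lit 203)) (XT.nd (nat_lit 78) (nat_lit 76) (nat_lit 0) (XT.lf (nat_lit 0) (nat_lit 3942590321) (nat_lit 0) (nat_lit 3943994445) (nat_lit 152) (nat_lit 3942590321) (nat_lit 8) (nat_lit 3) (nat_lit 8) (nat_lit 1) (nat_lit 10) (nat_lit 1) (nat_lit 369) (nat_lit 449) (nat_lit 202)) (XT.lf (nat_lit 76) (nat_lit 3878568780) (nat_lit 0) (nat_lit 3879906041) (nat_lit 76) (nat_lit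 3879906041) (nat_lit 8) (nat_lit 3) (nat_lit 7) (nat_lit 1) (nat_lit 8) (nat_lit 1) (nat_lit 370) (nat_lit 449) (nat_lit 201)))) (XT.nd (nat_lit 78) (nat_lit 152) (nat_lit 0) (XT.lf (nat_lit 76) (nat_lit 29530116961) (nat_lit 0) (nat_lit 59043727034) (nat_lit 76) (nat_lit 59043727034) (nat_lit 161) (nat_lit 3) (nat_lit 160) (nat_lit 1) (nat_lit 161) (nat_lit 1) (nat_lit 215) (nat_lit 450) (nat_lit 355)) (XT.nd (nat_lit 78) (nat_lit 0) (nat_lit 0) (XT.lf (nat_lit 152) (nat_lit 127103411942) (nat_lit 0) (nat_lit 9067161312) (nat_lit 76) (nat_lit 9067161312) (nat_lit 160) (nat_lit 1) (nat_lit 158) (nat_lit 1) (nat_lit 159) (nat_lit 1) (nat_lit 216) (nat_lit 450) (nat_lit 354)) (XT.lf (nat_lit 0) (nat_lit 39118360305) (nat_lit 0) (nat_lit 64613326354) (nat_lit 152) (nat_lit 39118360305) (nat_lit 158) (nat_lit 3) (nat_lit 158) (nat_lit 1) (nat_lit 160) (nat_lit 1) (nat_lit 217) (nat_lit 450) (nat_lit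 353)))))) (XT.nd (nat_lit 468) (nat_lit 532) (nat_lit 0) (XT.nd (nat_lit 234) (nat_lit 228) (nat_lit 0) (XT.nd (nat_lit 78) (nat_lit 152) (nat_lit 0) (XT.lf (nat_lit 76) (nat_lit 30654864156) (nat_lit 0) (nat_lit 54935784203) (nat_lit 76) (nat_lit 54935784203) (nat_lit 158) (nat_lit 3) (nat_lit 157) (nat_lit 1) (nat_lit 158) (nat_lit 1) (nat_lit 218) (nat_lit 450) (nat_lit 352)) (XT.nd (nat_lit 78) (nat_lit 0) (nat_lit 0) (XT.lf (nat_lit 152) (nat_lit 123346508644) (nat_lit 0) (nat_lit 7459576051) (nat_lit 76) (nat_lit 7459576051) (nat_lit 157) (nat_lit 1) (nat_lit 155) (nat_lit 1) (nat_lit 156) (nat_lit 1) (nat_lit 219) (nat_lit 450) (nat_lit 351)) (XT.lf (nat_lit 0) (nat_lit 38339564319) (nat_lit 0) (nat_lit 59314335983) (nat_lit 152) (nat_lit 38339564319) (nat_lit 155) (nat_lit 3) (nat_lit 155) (nat_lit 1) (nat_lit 157) (nat_lit 1) (nat_lit 220) (nat_lit 450) (nat_lit 350)))) (XT.nd (nat_lit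 78) (nat_lit 152) (nat_lit 0) (XT.lf (nat_lit 76) (nat_lit 31277321988) (nat_lit 0) (nat_lit 51253295000) (nat_lit 76) (nat_lit 51253295000) (nat_lit 155) (nat_lit 3) (nat_lit 154) (nat_lit 1) (nat_lit 155) (nat_lit 1) (nat_lit 221) (nat_lit 450) (nat_lit 349)) (XT.nd (nat_lit 78) (nat_lit 0) (nat_lit 0) (XT.lf (nat_lit 152) (nat_lit 119361494189) (nat_lit 0) (nat_lit 6137011678) (nat_lit 76) (nat_lit 6137011678) (nat_lit 154) (nat_lit 1) (nat_lit 152) (nat_lit 1) (nat_lit 153) (nat_lit 1) (nat_lit 222) (nat_lit 450) (nat_lit 348)) (XT.lf (nat_lit 0) (nat_lit 37405666340) (nat_lit 0) (nat_lit 54661662896) (nat_lit 152) (nat_lit 37405666340) (nat_lit 152) (nat_lit 3) (nat_lit 152) (nat_lit 1) (nat_lit 154) (nat_lit 1) (nat_lit 223) (nat_lit 450) (nat_lit 347))))) (XT.nd (nat_lit 234) (nat_lit 304) (nat_lit 0) (XT.nd (nat_lit 78) (nat_lit 152) (nat_lit 0) (XT.lf (nat_lit 76) (nat_lit 31500967711)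 (nat_lit 0) (nat_lit 47935250145) (nat_lit 76) (nat_lit 47935250145) (nat_lit 152) (nat_lit 3) (nat_lit 151) (nat_lit 1) (nat_lit 152) (nat_lit 1) (nat_lit 224) (nat_lit 450) (nat_lit 346)) (XT.nd (nat_lit 78) (nat_lit 0) (nat_lit 0) (XT.lf (nat_lit 152) (nat_lit 115231393113) (nat_lit 0) (nat_lit 5048934695) (nat_lit 76) (nat_lit 5048934695) (nat_lit 151) (nat_lit 1) (nat_lit 149) (nat_lit 1) (nat_lit 150) (nat_lit 1) (nat_lit 225) (nat_lit 450) (nat_lit 345)) (XT.lf (nat_lit 0) (nat_lit 36358126547) (nat_lit 0) (nat_lit 50554677619) (nat_lit 152) (nat_lit 36358126547) (nat_lit 149) (nat_lit 3) (nat_lit 149) (nat_lit 1) (nat_lit 151) (nat_lit 1) (nat_lit 226) (nat_lit 450) (nat_lit 344)))) (XT.nd (nat_lit 156) (nat_lit 76) (nat_lit 0) (XT.nd (nat_lit 78) (nat_lit 152) (nat_lit 0) (XT.lf (nat_lit 76) (nat_lit 31410245529) (nat_lit 0) (nat_lit 44930770359) (nat_lit 76) (nat_lit 44930770359) (nat_lit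 149) (nat_lit 3) (nat_lit 148) (nat_lit 1) (nat_lit 149) (nat_lit 1) (nat_lit 227) (nat_lit 450) (nat_lit 343)) (XT.lf (nat_lit 152) (nat_lit 111022482238) (nat_lit 0) (nat_lit 4153771069) (nat_lit 76) (nat_lit 4153771069) (nat_lit 148) (nat_lit 1) (nat_lit 146) (nat_lit 1) (nat_lit 147) (nat_lit 1) (nat_lit 228) (nat_lit 450) (nat_lit 342))) (XT.nd (nat_lit 78) (nat_lit 76) (nat_lit 0) (XT.lf (nat_lit 0) (nat_lit 35230389526) (nat_lit 0) (nat_lit 46909927226) (nat_lit 152) (nat_lit 35230389526) (nat_lit 146) (nat_lit 3) (nat_lit 146) (nat_lit 1) (nat_lit 148) (nat_lit 1) (nat_lit 229) (nat_lit 450) (nat_lit 341)) (XT.lf (nat_lit 76) (nat_lit 31073973811) (nat_lit 0) (nat_lit 42197343049) (nat_lit 76) (nat_lit 42197343049) (nat_lit 146) (nat_lit 3) (nat_lit 145) (nat_lit 1) (nat_lit 146) (nat_lit 1) (nat_lit 230) (nat_lit 450) (nat_lit 340))))))) (XT.nd (nat_lit 936) (nat_lit 1064) (nat_lit 0)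 (XT.nd (nat_lit 468) (nat_lit 456) (nat_lit 0) (XT.nd (nat_lit 234) (nat_lit 228) (nat_lit 0) (XT.nd (nat_lit 78) (nat_lit 76) (nat_lit 0) (XT.lf (nat_lit 152) (nat_lit 106787356563) (nat_lit 0) (nat_lit 3417317738) (nat_lit 76) (nat_lit 3417317738) (nat_lit 145) (nat_lit 1) (nat_lit 143) (nat_lit 1) (nat_lit 144) (nat_lit 1) (nat_lit 231) (nat_lit 450) (nat_lit 339)) (XT.nd (nat_lit 78) (nat_lit 76) (nat_lit 0) (XT.lf (nat_lit 0) (nat_lit 34049337066) (nat_lit 0) (nat_lit 43658121636) (nat_lit 152) (nat_lit 34049337066) (nat_lit 143) (nat_lit 3) (nat_lit 143) (nat_lit 1) (nat_lit 145) (nat_lit 1) (nat_lit 232) (nat_lit 450) (nat_lit 338)) (XT.lf (nat_lit 76) (nat_lit 30548146662) (nat_lit 0) (nat_lit 39699370062) (nat_lit 76) (nat_lit 39699370062) (nat_lit 143) (nat_lit 3) (nat_lit 142) (nat_lit 1) (nat_lit 143) (nat_lit 1) (nat_lit 233) (nat_lit 450) (nat_lit 337)))) (XT.nd (nat_lit 78) (nat_lit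 76) (nat_lit 0) (XT.lf (nat_lit 152) (nat_lit 102567446966) (nat_lit 0) (nat_lit 2811435760) (nat_lit 76) (nat_lit 2811435760) (nat_lit 142) (nat_lit 1) (nat_lit 140) (nat_lit 1) (nat_lit 141) (nat_lit 1) (nat_lit 234) (nat_lit 450) (nat_lit 336)) (XT.nd (nat_lit 78) (nat_lit 76) (nat_lit 0) (XT.lf (nat_lit 0) (nat_lit 32836481884) (nat_lit 0) (nat_lit 40741652730) (nat_lit 152) (nat_lit 32836481884) (nat_lit 140) (nat_lit 3) (nat_lit 140) (nat_lit 1) (nat_lit 142) (nat_lit 1) (nat_lit 235) (nat_lit 450) (nat_lit 335)) (XT.lf (nat_lit 76) (nat_lit 29878237293) (nat_lit 0) (nat_lit 37406971432) (nat_lit 76) (nat_lit 37406971432) (nat_lit 140) (nat_lit 3) (nat_lit 139) (nat_lit 1) (nat_lit 140) (nat_lit 1) (nat_lit 236) (nat_lit 450) (nat_lit 334))))) (XT.nd (nat_lit 234) (nat_lit 228) (nat_lit 0) (XT.nd (nat_lit 78) (nat_lit 76) (nat_lit 0) (XT.lf (nat_lit 152) (nat_lit 98395087162) (nat_lit 0)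 (nat_lit 2312975157) (nat_lit 76) (nat_lit 2312975157) (nat_lit 139) (nat_lit 1) (nat_lit 137) (nat_lit 1) (nat_lit 138) (nat_lit 1) (nat_lit 237) (nat_lit 450) (nat_lit 333)) (XT.nd (nat_lit 78) (nat_lit 76) (nat_lit 0) (XT.lf (nat_lit 0) (nat_lit 31608948257) (nat_lit 0) (nat_lit 38112551875) (nat_lit 152) (nat_lit 31608948257) (nat_lit 137) (nat_lit 3) (nat_lit 137) (nat_lit 1) (nat_lit 139) (nat_lit 1) (nat_lit 238) (nat_lit 450) (nat_lit 332)) (XT.lf (nat_lit 76) (nat_lit 29101091605) (nat_lit 0) (nat_lit 35294999813) (nat_lit 76) (nat_lit 35294999813) (nat_lit 137) (nat_lit 3) (nat_lit 136) (nat_lit 1) (nat_lit 137) (nat_lit 1) (nat_lit 239) (nat_lit 450) (nat_lit 331)))) (XT.nd (nat_lit 78) (nat_lit 76) (nat_lit 0) (XT.lf (nat_lit 152) (nat_lit 94295210010) (nat_lit 0) (nat_lit 1902890386) (nat_lit 76) (nat_lit 1902890386) (nat_lit 136) (nat_lit 1) (nat_lit 134) (nat_lit 1) (nat_lit 135)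 (nat_lit 1) (nat_lit 240) (nat_lit 450) (nat_lit 330)) (XT.nd (nat_lit 78) (nat_lit 76) (nat_lit 0) (XT.lf (nat_lit 0) (nat_lit 30380277430) (nat_lit 0) (nat_lit 35730808222) (nat_lit 152) (nat_lit 30380277430) (nat_lit 134) (nat_lit 3) (nat_lit 134) (nat_lit 1) (nat_lit 136) (nat_lit 1) (nat_lit 241) (nat_lit 450) (nat_lit 329)) (XT.lf (nat_lit 76) (nat_lit 28246484694) (nat_lit 0) (nat_lit 33342228305) (nat_lit 76) (nat_lit 33342228305) (nat_lit 134) (nat_lit 3) (nat_lit 133) (nat_lit 1) (nat_lit 134) (nat_lit 1) (nat_lit 242) (nat_lit 450) (nat_lit 328)))))) (XT.nd (nat_lit 468) (nat_lit 608) (nat_lit 0) (XT.nd (nat_lit 234) (nat_lit 228) (nat_lit 0) (XT.nd (nat_lit 78) (nat_lit 76) (nat_lit 0) (XT.lf (nat_lit 152) (nat_lit 90286739108) (nat_lit 0) (nat_lit 1565512630) (nat_lit 76) (nat_lit 1565512630) (nat_lit 133) (nat_lit 1) (nat_lit 131) (nat_lit 1) (nat_lit 132) (nat_lit 1) (nat_lit 243)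 (nat_lit 450) (nat_lit 327)) (XT.nd (nat_lit 78) (nat_lit 76) (nat_lit 0) (XT.lf (nat_lit 0) (nat_lit 29161088926) (nat_lit 0) (nat_lit 33562983850) (nat_lit 152) (nat_lit 29161088926) (nat_lit 131) (nat_lit 3) (nat_lit 131) (nat_lit 1) (nat_lit 133) (nat_lit 1) (nat_lit 244) (nat_lit 450) (nat_lit 326)) (XT.lf (nat_lit 76) (nat_lit 27338400111) (nat_lit 0) (nat_lit 31530680991) (nat_lit 76) (nat_lit 31530680991) (nat_lit 131) (nat_lit 3) (nat_lit 130) (nat_lit 1) (nat_lit 131) (nat_lit 1) (nat_lit 245) (nat_lit 450) (nat_lit 325)))) (XT.nd (nat_lit 78) (nat_lit 76) (nat_lit 0) (XT.lf (nat_lit 152) (nat_lit 86383729868) (nat_lit 0) (nat_lit 1287951115) (nat_lit 76) (nat_lit 1287951115) (nat_lit 130) (nat_lit 1) (nat_lit 128) (nat_lit 1) (nat_lit 129) (nat_lit 1) (nat_lit 246) (nat_lit 450) (nat_lit 324)) (XT.nd (nat_lit 78) (nat_lit 76) (nat_lit 0) (XT.lf (nat_lit 0) (nat_lit 27959623359) (nat_lit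 0) (nat_lit 31581073207) (nat_lit 152) (nat_lit 27959623359) (nat_lit 128) (nat_lit 3) (nat_lit 128) (nat_lit 1) (nat_lit 130) (nat_lit 1) (nat_lit 247) (nat_lit 450) (nat_lit 323)) (XT.lf (nat_lit 76) (nat_lit 26396081093) (nat_lit 0) (nat_lit 29845080948) (nat_lit 76) (nat_lit 29845080948) (nat_lit 128) (nat_lit 3) (nat_lit 127) (nat_lit 1) (nat_lit 128) (nat_lit 1) (nat_lit 248) (nat_lit 450) (nat_lit 322))))) (XT.nd (nat_lit 234) (nat_lit 380) (nat_lit 0) (XT.nd (nat_lit 78) (nat_lit 76) (nat_lit 0) (XT.lf (nat_lit 152) (nat_lit 82596304691) (nat_lit 0) (nat_lit 1059600569) (nat_lit 76) (nat_lit 1059600569) (nat_lit 127) (nat_lit 1) (nat_lit 125) (nat_lit 1) (nat_lit 126) (nat_lit 1) (nat_lit 249) (nat_lit 450) (nat_lit 321)) (XT.nd (nat_lit 78) (nat_lit 76) (nat_lit 0) (XT.lf (nat_lit 0) (nat_lit 26782187838) (nat_lit 0) (nat_lit 29761563590) (nat_lit 152) (nat_lit 26782187838) (nat_lit 125)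 (nat_lit 3) (nat_lit 125) (nat_lit 1) (nat_lit 127) (nat_lit 1) (nat_lit 250) (nat_lit 450) (nat_lit 320)) (XT.lf (nat_lit 76) (nat_lit 25434894255) (nat_lit 0) (nat_lit 28272394971) (nat_lit 76) (nat_lit 28272394971) (nat_lit 125) (nat_lit 3) (nat_lit 124) (nat_lit 1) (nat_lit 125) (nat_lit 1) (nat_lit 251) (nat_lit 450) (nat_lit 319)))) (XT.nd (nat_lit 156) (nat_lit 228) (nat_lit 0) (XT.nd (nat_lit 78) (nat_lit 0) (nat_lit 0) (XT.lf (nat_lit 152) (nat_lit 78931418893) (nat_lit 0) (nat_lit 871736011) (nat_lit 76) (nat_lit 871736011) (nat_lit 124) (nat_lit 1) (nat_lit 122) (nat_lit 1) (nat_lit 123) (nat_lit 1) (nat_lit 252) (nat_lit 450) (nat_lit 318)) (XT.lf (nat_lit 0) (nat_lit 25633521269) (nat_lit 0) (nat_lit 28084661074) (nat_lit 152) (nat_lit 25633521269) (nat_lit 122) (nat_lit 3) (nat_lit 122) (nat_lit 1) (nat_lit 124) (nat_lit 1) (nat_lit 253) (nat_lit 450) (nat_lit 317))) (XT.nd (nat_lit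 78) (nat_lit 152) (nat_lit 0) (XT.lf (nat_lit 76) (nat_lit 24467039035) (nat_lit 0) (nat_lit 26801457897) (nat_lit 76) (nat_lit 26801457897) (nat_lit 122) (nat_lit 3) (nat_lit 121) (nat_lit 1) (nat_lit 122) (nat_lit 1) (nat_lit 254) (nat_lit 450) (nat_lit 316)) (XT.lf (nat_lit 152) (nat_lit 75393487581) (nat_lit 0) (nat_lit 717179373) (nat_lit 76) (nat_lit 717179373) (nat_lit 121) (nat_lit 1) (nat_lit 119) (nat_lit 1) (nat_lit 120) (nat_lit 1) (nat_lit 255) (nat_lit 450) (nat_lit 315))))))))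
noncomputable def ec507 : XT := (XT.nd (nat_lit 1950) (nat_lit 2052) (nat_lit 0) (XT.nd (nat_lit 936) (nat_lit 912) (nat_lit 0) (XT.nd (nat_lit 468) (nat_lit 456) (nat_lit 0) (XT.nd (nat_lit 234) (nat_lit 228) (nat_lit 0) (XT.nd (nat_lit 78) (nat_lit 228) (nat_lit 0) (XT.lf (nat_lit 0) (nat_lit 24517093818) (nat_lit 0) (nat_lit 26533652601) (nat_lit 152) (nat_lit 24517093818) (nat_lit 119) (nat_lit 3) (nat_lit 119) (nat_lit 1) (nat_lit 121) (nat_lit 1) (nat_lit 256) (nat_lit 450) (nat_lit 314)) (XT.nd (nat_lit 78) (nat_lit 152) (nat_lit 0) (XT.lf (nat_lit 76) (nat_lit 23502130313) (nat_lit 0) (nat_lit 25422662488) (nat_lit 76) (nat_lit 25422662488) (nat_lit 119) (nat_lit 3) (nat_lit 118) (nat_lit 1) (nat_lit 119) (nat_lit 1) (nat_lit 257) (nat_lit 450) (nat_lit 313)) (XT.lf (nat_lit 152) (nat_lit 71984898263) (nat_lit 0) (nat_lit 590025245) (nat_lit 76) (nat_lit 590025245) (nat_lit 118) (nat_lit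 1) (nat_lit 116) (nat_lit 1) (nat_lit 117) (nat_lit 1) (nat_lit 258) (nat_lit 450) (nat_lit 312)))) (XT.nd (nat_lit 78) (nat_lit 228) (nat_lit 0) (XT.lf (nat_lit 0) (nat_lit 23435352266) (nat_lit 0) (nat_lit 25094380168) (nat_lit 152) (nat_lit 23435352266) (nat_lit 116) (nat_lit 3) (nat_lit 116) (nat_lit 1) (nat_lit 118) (nat_lit 1) (nat_lit 259) (nat_lit 450) (nat_lit 311)) (XT.nd (nat_lit 78) (nat_lit 152) (nat_lit 0) (XT.lf (nat_lit 76) (nat_lit 22547676722) (nat_lit 0) (nat_lit 24127703295) (nat_lit 76) (nat_lit 24127703295) (nat_lit 116) (nat_lit 3) (nat_lit 115) (nat_lit 1) (nat_lit 116) (nat_lit 1) (nat_lit 260) (nat_lit 450) (nat_lit 310)) (XT.lf (nat_lit 152) (nat_lit 68706429612) (nat_lit 0) (nat_lit 485415229) (nat_lit 76) (nat_lit 485415229) (nat_lit 115) (nat_lit 1) (nat_lit 113) (nat_lit 1) (nat_lit 114) (nat_lit 1) (nat_lit 261) (nat_lit 450) (nat_lit 309))))) (XT.nd (nat_lit 234)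 (nat_lit 228) (nat_lit 0) (XT.nd (nat_lit 78) (nat_lit 228) (nat_lit 0) (XT.lf (nat_lit 0) (nat_lit 22389920885) (nat_lit 0) (nat_lit 23754807246) (nat_lit 152) (nat_lit 22389920885) (nat_lit 113) (nat_lit 3) (nat_lit 113) (nat_lit 1) (nat_lit 115) (nat_lit 1) (nat_lit 262) (nat_lit 450) (nat_lit 308)) (XT.nd (nat_lit 78) (nat_lit 152) (nat_lit 0) (XT.lf (nat_lit 76) (nat_lit 21609473203) (nat_lit 0) (nat_lit 22909364974) (nat_lit 76) (nat_lit 22909364974) (nat_lit 113) (nat_lit 3) (nat_lit 112) (nat_lit 1) (nat_lit 113) (nat_lit 1) (nat_lit 263) (nat_lit 450) (nat_lit 307)) (XT.lf (nat_lit 152) (nat_lit 65557593166) (nat_lit 0) (nat_lit 399352310) (nat_lit 76) (nat_lit 399352310) (nat_lit 112) (nat_lit 1) (nat_lit 110) (nat_lit 1) (nat_lit 111) (nat_lit 1) (nat_lit 264) (nat_lit 450) (nat_lit 306)))) (XT.nd (nat_lit 78) (nat_lit 228) (nat_lit 0) (XT.lf (nat_lit 0) (nat_lit 21381765778) (nat_lit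 0) (nat_lit 22504661165) (nat_lit 152) (nat_lit 21381765778) (nat_lit 110) (nat_lit 3) (nat_lit 110) (nat_lit 1) (nat_lit 112) (nat_lit 1) (nat_lit 265) (nat_lit 450) (nat_lit 305)) (XT.nd (nat_lit 78) (nat_lit 152) (nat_lit 0) (XT.lf (nat_lit 76) (nat_lit 20691923047) (nat_lit 0) (nat_lit 21761347225) (nat_lit 76) (nat_lit 21761347225) (nat_lit 110) (nat_lit 3) (nat_lit 109) (nat_lit 1) (nat_lit 110) (nat_lit 1) (nat_lit 266) (nat_lit 450) (nat_lit 304)) (XT.lf (nat_lit 152) (nat_lit 62536911748) (nat_lit 0) (nat_lit 328548134) (nat_lit 76) (nat_lit 328548134) (nat_lit 109) (nat_lit 1) (nat_lit 107) (nat_lit 1) (nat_lit 108) (nat_lit 1) (nat_lit 267) (nat_lit 450) (nat_lit 303)))))) (XT.nd (nat_lit 468) (nat_lit 456) (nat_lit 0) (XT.nd (nat_lit 234) (nat_lit 228) (nat_lit 0) (XT.nd (nat_lit 78) (nat_lit 228) (nat_lit 0) (XT.lf (nat_lit 0) (nat_lit 20411329198) (nat_lit 0) (nat_lit 21335138011)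 (nat_lit 152) (nat_lit 20411329198) (nat_lit 107) (nat_lit 3) (nat_lit 107) (nat_lit 1) (nat_lit 109) (nat_lit 1) (nat_lit 268) (nat_lit 450) (nat_lit 302)) (XT.nd (nat_lit 78) (nat_lit 152) (nat_lit 0) (XT.lf (nat_lit 76) (nat_lit 19798301979) (nat_lit 0) (nat_lit 20678119897) (nat_lit 76) (nat_lit 20678119897) (nat_lit 107) (nat_lit 3) (nat_lit 106) (nat_lit 1) (nat_lit 107) (nat_lit 1) (nat_lit 269) (nat_lit 450) (nat_lit 301)) (XT.lf (nat_lit 152) (nat_lit 59642145974) (nat_lit 0) (nat_lit 270297363) (nat_lit 76) (nat_lit 270297363) (nat_lit 106) (nat_lit 1) (nat_lit 104) (nat_lit 1) (nat_lit 105) (nat_lit 1) (nat_lit 270) (nat_lit 450) (nat_lit 300)))) (XT.nd (nat_lit 78) (nat_lit 228) (nat_lit 0) (XT.lf (nat_lit 0) (nat_lit 19478639213) (nat_lit 0) (nat_lit 20238659010) (nat_lit 152) (nat_lit 19478639213) (nat_lit 104) (nat_lit 3) (nat_lit 104) (nat_lit 1) (nat_lit 106) (nat_lit 1) (nat_lit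 271) (nat_lit 450) (nat_lit 299)) (XT.nd (nat_lit 78) (nat_lit 152) (nat_lit 0) (XT.lf (nat_lit 76) (nat_lit 18930974587) (nat_lit 0) (nat_lit 19654802966) (nat_lit 76) (nat_lit 19654802966) (nat_lit 104) (nat_lit 3) (nat_lit 103) (nat_lit 1) (nat_lit 104) (nat_lit 1) (nat_lit 272) (nat_lit 450) (nat_lit 298)) (XT.lf (nat_lit 152) (nat_lit 56870478155) (nat_lit 0) (nat_lit 222374309) (nat_lit 76) (nat_lit 222374309) (nat_lit 103) (nat_lit 1) (nat_lit 101) (nat_lit 1) (nat_lit 102) (nat_lit 1) (nat_lit 273) (nat_lit 450) (nat_lit 297))))) (XT.nd (nat_lit 234) (nat_lit 228) (nat_lit 0) (XT.nd (nat_lit 78) (nat_lit 228) (nat_lit 0) (XT.lf (nat_lit 0) (nat_lit 18583399132) (nat_lit 0) (nat_lit 19208669300) (nat_lit 152) (nat_lit 18583399132) (nat_lit 101) (nat_lit 3) (nat_lit 101) (nat_lit 1) (nat_lit 103) (nat_lit 1) (nat_lit 274) (nat_lit 450) (nat_lit 296)) (XT.nd (nat_lit 78) (nat_lit 152) (nat_lit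 0) (XT.lf (nat_lit 76) (nat_lit 18091571598) (nat_lit 0) (nat_lit 18687066996) (nat_lit 76) (nat_lit 18687066996) (nat_lit 101) (nat_lit 3) (nat_lit 100) (nat_lit 1) (nat_lit 101) (nat_lit 1) (nat_lit 275) (nat_lit 450) (nat_lit 295)) (XT.lf (nat_lit 152) (nat_lit 54218661273) (nat_lit 0) (nat_lit 182947894) (nat_lit 76) (nat_lit 182947894) (nat_lit 100) (nat_lit 1) (nat_lit 98) (nat_lit 1) (nat_lit 99) (nat_lit 1) (nat_lit 276) (nat_lit 450) (nat_lit 294)))) (XT.nd (nat_lit 156) (nat_lit 152) (nat_lit 0) (XT.nd (nat_lit 78) (nat_lit 76) (nat_lit 0) (XT.lf (nat_lit 0) (nat_lit 17725060309) (nat_lit 0) (nat_lit 18239471624) (nat_lit 152) (nat_lit 17725060309) (nat_lit 98) (nat_lit 3) (nat_lit 98) (nat_lit 1) (nat_lit 100) (nat_lit 1) (nat_lit 277) (nat_lit 450) (nat_lit 293)) (XT.lf (nat_lit 76) (nat_lit 17281134969) (nat_lit 0) (nat_lit 17771050507) (nat_lit 76) (nat_lit 17771050507) (nat_lit 98)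 (nat_lit 3) (nat_lit 97) (nat_lit 1) (nat_lit 98) (nat_lit 1) (nat_lit 278) (nat_lit 450) (nat_lit 292))) (XT.nd (nat_lit 78) (nat_lit 0) (nat_lit 0) (XT.lf (nat_lit 152) (nat_lit 51683139335) (nat_lit 0) (nat_lit 150511685) (nat_lit 76) (nat_lit 150511685) (nat_lit 97) (nat_lit 1) (nat_lit 95) (nat_lit 1) (nat_lit 96) (nat_lit 1) (nat_lit 279) (nat_lit 450) (nat_lit 291)) (XT.lf (nat_lit 0) (nat_lit 16902881319) (nat_lit 0) (nat_lit 17326088780) (nat_lit 152) (nat_lit 16902881319) (nat_lit 95) (nat_lit 3) (nat_lit 95) (nat_lit 1) (nat_lit 97) (nat_lit 1) (nat_lit 280) (nat_lit 450) (nat_lit 290))))))) (XT.nd (nat_lit 1014) (nat_lit 1064) (nat_lit 0) (XT.nd (nat_lit 468) (nat_lit 532) (nat_lit 0) (XT.nd (nat_lit 234) (nat_lit 228) (nat_lit 0) (XT.nd (nat_lit 78) (nat_lit 152) (nat_lit 0) (XT.lf (nat_lit 76) (nat_lit 16500236547) (nat_lit 0) (nat_lit 16903291272) (nat_lit 76) (nat_lit 16903291272)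 (nat_lit 95) (nat_lit 3) (nat_lit 94) (nat_lit 1) (nat_lit 95) (nat_lit 1) (nat_lit 281) (nat_lit 450) (nat_lit 289)) (XT.nd (nat_lit 78) (nat_lit 0) (nat_lit 0) (XT.lf (nat_lit 152) (nat_lit 49260144280) (nat_lit 0) (nat_lit 123826336) (nat_lit 76) (nat_lit 123826336) (nat_lit 94) (nat_lit 1) (nat_lit 92) (nat_lit 1) (nat_lit 93) (nat_lit 1) (nat_lit 282) (nat_lit 450) (nat_lit 288)) (XT.lf (nat_lit 0) (nat_lit 16115975946) (nat_lit 0) (nat_lit 16464149772) (nat_lit 152) (nat_lit 16115975946) (nat_lit 92) (nat_lit 3) (nat_lit 92) (nat_lit 1) (nat_lit 94) (nat_lit 1) (nat_lit 283) (nat_lit 450) (nat_lit 287)))) (XT.nd (nat_lit 78) (nat_lit 152) (nat_lit 0) (XT.lf (nat_lit 76) (nat_lit 15749075005) (nat_lit 0) (nat_lit 16080669124) (nat_lit 76) (nat_lit 16080669124) (nat_lit 92) (nat_lit 3) (nat_lit 91) (nat_lit 1) (nat_lit 92) (nat_lit 1) (nat_lit 284) (nat_lit 450) (nat_lit 286)) (XT.nd (nat_lit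 78) (nat_lit 0) (nat_lit 0) (XT.lf (nat_lit 152) (nat_lit 46945773697) (nat_lit 0) (nat_lit 101872233) (nat_lit 76) (nat_lit 101872233) (nat_lit 91) (nat_lit 1) (nat_lit 89) (nat_lit 1) (nat_lit 90) (nat_lit 1) (nat_lit 285) (nat_lit 450) (nat_lit 285)) (XT.lf (nat_lit 0) (nat_lit 15363352012) (nat_lit 0) (nat_lit 15649795480) (nat_lit 152) (nat_lit 15363352012) (nat_lit 89) (nat_lit 3) (nat_lit 89) (nat_lit 1) (nat_lit 91) (nat_lit 1) (nat_lit 286) (nat_lit 450) (nat_lit 284))))) (XT.nd (nat_lit 234) (nat_lit 304) (nat_lit 0) (XT.nd (nat_lit 78) (nat_lit 152) (nat_lit 0) (XT.lf (nat_lit 76) (nat_lit 15027554946) (nat_lit 0) (nat_lit 15300358249) (nat_lit 76) (nat_lit 15300358249) (nat_lit 89) (nat_lit 3) (nat_lit 88) (nat_lit 1) (nat_lit 89) (nat_lit 1) (nat_lit 287) (nat_lit 450) (nat_lit 283)) (XT.nd (nat_lit 78) (nat_lit 0) (nat_lit 0) (XT.lf (nat_lit 152) (nat_lit 44736052859) (nat_lit 0)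 (nat_lit 83810538) (nat_lit 76) (nat_lit 83810538) (nat_lit 88) (nat_lit 1) (nat_lit 86) (nat_lit 1) (nat_lit 87) (nat_lit 1) (nat_lit 288) (nat_lit 450) (nat_lit 282)) (XT.lf (nat_lit 0) (nat_lit 14643942691) (nat_lit 0) (nat_lit 14879600441) (nat_lit 152) (nat_lit 14643942691) (nat_lit 86) (nat_lit 3) (nat_lit 86) (nat_lit 1) (nat_lit 88) (nat_lit 1) (nat_lit 289) (nat_lit 450) (nat_lit 281)))) (XT.nd (nat_lit 156) (nat_lit 76) (nat_lit 0) (XT.nd (nat_lit 78) (nat_lit 152) (nat_lit 0) (XT.lf (nat_lit 76) (nat_lit 14335351372) (nat_lit 0) (nat_lit 14559787325) (nat_lit 76) (nat_lit 14559787325) (nat_lit 86) (nat_lit 3) (nat_lit 85) (nat_lit 1) (nat_lit 86) (nat_lit 1) (nat_lit 290) (nat_lit 450) (nat_lit 280)) (XT.lf (nat_lit 152) (nat_lit 42626983929) (nat_lit 0) (nat_lit 68951137) (nat_lit 76) (nat_lit 68951137) (nat_lit 85) (nat_lit 1) (nat_lit 83) (nat_lit 1) (nat_lit 84) (nat_lit 1) (nat_lit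 291) (nat_lit 450) (nat_lit 279))) (XT.nd (nat_lit 78) (nat_lit 76) (nat_lit 0) (XT.lf (nat_lit 0) (nat_lit 13956631673) (nat_lit 0) (nat_lit 14150507887) (nat_lit 152) (nat_lit 13956631673) (nat_lit 83) (nat_lit 3) (nat_lit 83) (nat_lit 1) (nat_lit 85) (nat_lit 1) (nat_lit 292) (nat_lit 450) (nat_lit 278)) (XT.lf (nat_lit 76) (nat_lit 13671962125) (nat_lit 0) (nat_lit 13856606139) (nat_lit 76) (nat_lit 13856606139) (nat_lit 83) (nat_lit 3) (nat_lit 82) (nat_lit 1) (nat_lit 83) (nat_lit 1) (nat_lit 293) (nat_lit 450) (nat_lit 277)))))) (XT.nd (nat_lit 468) (nat_lit 608) (nat_lit 0) (XT.nd (nat_lit 234) (nat_lit 228) (nat_lit 0) (XT.nd (nat_lit 78) (nat_lit 76) (nat_lit 0) (XT.lf (nat_lit 152) (nat_lit 40614584724) (nat_lit 0) (nat_lit 56726271) (nat_lit 76) (nat_lit 56726271) (nat_lit 82) (nat_lit 1) (nat_lit 80) (nat_lit 1) (nat_lit 81) (nat_lit 1) (nat_lit 294) (nat_lit 450) (nat_lit 276)) (XT.nd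 (nat_lit 78) (nat_lit 76) (nat_lit 0) (XT.lf (nat_lit 0) (nat_lit 13300273303) (nat_lit 0) (nat_lit 13459775744) (nat_lit 152) (nat_lit 13300273303) (nat_lit 80) (nat_lit 3) (nat_lit 80) (nat_lit 1) (nat_lit 82) (nat_lit 1) (nat_lit 295) (nat_lit 450) (nat_lit 275)) (XT.lf (nat_lit 76) (nat_lit 13036750480) (nat_lit 0) (nat_lit 13188657567) (nat_lit 76) (nat_lit 13188657567) (nat_lit 80) (nat_lit 3) (nat_lit 79) (nat_lit 1) (nat_lit 80) (nat_lit 1) (nat_lit 296) (nat_lit 450) (nat_lit 274)))) (XT.nd (nat_lit 78) (nat_lit 76) (nat_lit 0) (XT.lf (nat_lit 152) (nat_lit 38694918939) (nat_lit 0) (nat_lit 46668843) (nat_lit 76) (nat_lit 46668843) (nat_lit 79) (nat_lit 1) (nat_lit 77) (nat_lit 1) (nat_lit 78) (nat_lit 1) (nat_lit 297) (nat_lit 450) (nat_lit 273)) (XT.nd (nat_lit 78) (nat_lit 76) (nat_lit 0) (XT.lf (nat_lit 0) (nat_lit 12673708605) (nat_lit 0) (nat_lit 12804931659) (nat_lit 152) (nat_lit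 12673708605) (nat_lit 77) (nat_lit 3) (nat_lit 77) (nat_lit 1) (nat_lit 79) (nat_lit 1) (nat_lit 298) (nat_lit 450) (nat_lit 272)) (XT.lf (nat_lit 76) (nat_lit 12428979648) (nat_lit 0) (nat_lit 12553953985) (nat_lit 76) (nat_lit 12553953985) (nat_lit 77) (nat_lit 3) (nat_lit 76) (nat_lit 1) (nat_lit 77) (nat_lit 1) (nat_lit 299) (nat_lit 450) (nat_lit 271))))) (XT.nd (nat_lit 234) (nat_lit 380) (nat_lit 0) (XT.nd (nat_lit 78) (nat_lit 76) (nat_lit 0) (XT.lf (nat_lit 152) (nat_lit 36864119453) (nat_lit 0) (nat_lit 38394573) (nat_lit 76) (nat_lit 38394573) (nat_lit 76) (nat_lit 1) (nat_lit 74) (nat_lit 1) (nat_lit 75) (nat_lit 1) (nat_lit 300) (nat_lit 450) (nat_lit 270)) (XT.nd (nat_lit 78) (nat_lit 76) (nat_lit 0) (XT.lf (nat_lit 0) (nat_lit 12075777952) (nat_lit 0) (nat_lit 12183735483) (nat_lit 152) (nat_lit 12075777952) (nat_lit 74) (nat_lit 3) (nat_lit 74) (nat_lit 1) (nat_lit 76) (nat_lit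 1) (nat_lit 301) (nat_lit 450) (nat_lit 269)) (XT.lf (nat_lit 76) (nat_lit 11847840664) (nat_lit 0) (nat_lit 11950657360) (nat_lit 76) (nat_lit 11950657360) (nat_lit 74) (nat_lit 3) (nat_lit 73) (nat_lit 1) (nat_lit 74) (nat_lit 1) (nat_lit 302) (nat_lit 450) (nat_lit 268)))) (XT.nd (nat_lit 156) (nat_lit 228) (nat_lit 0) (XT.nd (nat_lit 78) (nat_lit 0) (nat_lit 0) (XT.lf (nat_lit 152) (nat_lit 35118406000) (nat_lit 0) (nat_lit 31587310) (nat_lit 76) (nat_lit 31587310) (nat_lit 73) (nat_lit 1) (nat_lit 71) (nat_lit 1) (nat_lit 72) (nat_lit 1) (nat_lit 303) (nat_lit 450) (nat_lit 267)) (XT.lf (nat_lit 0) (nat_lit 11505330995) (nat_lit 0) (nat_lit 11594147923) (nat_lit 152) (nat_lit 11505330995) (nat_lit 71) (nat_lit 3) (nat_lit 71) (nat_lit 1) (nat_lit 73) (nat_lit 1) (nat_lit 304) (nat_lit 450) (nat_lit 266))) (XT.nd (nat_lit 78) (nat_lit 152) (nat_lit 0) (XT.lf (nat_lit 76) (nat_lit 11292474834)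 (nat_lit 0) (nat_lit 11377062384) (nat_lit 76) (nat_lit 11377062384) (nat_lit 71) (nat_lit 3) (nat_lit 70) (nat_lit 1) (nat_lit 71) (nat_lit 1) (nat_lit 305) (nat_lit 450) (nat_lit 265)) (XT.lf (nat_lit 152) (nat_lit 33454098284) (nat_lit 0) (nat_lit 25986958) (nat_lit 76) (nat_lit 25986958) (nat_lit 70) (nat_lit 1) (nat_lit 68) (nat_lit 1) (nat_lit 69) (nat_lit 1) (nat_lit 306) (nat_lit 450) (nat_lit 264))))))))
noncomputable def ec508 : XT := (XT.nd (nat_lit 1950) (nat_lit 1824) (nat_lit 0) (XT.nd (nat_lit 936) (nat_lit 912) (nat_lit 0) (XT.nd (nat_lit 468) (nat_lit 456) (nat_lit 0) (XT.nd (nat_lit 234) (nat_lit 228) (nat_lit 0) (XT.nd (nat_lit 78) (nat_lit 228) (nat_lit 0) (XT.lf (nat_lit 0) (nat_lit 10961234367) (nat_lit 0) (nat_lit 11034304273) (nat_lit 152) (nat_lit 10961234367) (nat_lit 68) (nat_lit 3) (nat_lit 68) (nat_lit 1) (nat_lit 70) (nat_lit 1) (nat_lit 307) (nat_lit 450) (nat_lit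 263)) (XT.nd (nat_lit 78) (nat_lit 152) (nat_lit 0) (XT.lf (nat_lit 76) (nat_lit 10761991753) (nat_lit 0) (nat_lit 10831582139) (nat_lit 76) (nat_lit 10831582139) (nat_lit 68) (nat_lit 3) (nat_lit 67) (nat_lit 1) (nat_lit 68) (nat_lit 1) (nat_lit 308) (nat_lit 450) (nat_lit 262)) (XT.lf (nat_lit 152) (nat_lit 31867625410) (nat_lit 0) (nat_lit 21379535) (nat_lit 76) (nat_lit 21379535) (nat_lit 67) (nat_lit 1) (nat_lit 65) (nat_lit 1) (nat_lit 66) (nat_lit 1) (nat_lit 309) (nat_lit 450) (nat_lit 261)))) (XT.nd (nat_lit 78) (nat_lit 228) (nat_lit 0) (XT.lf (nat_lit 0) (nat_lit 10442377578) (nat_lit 0) (nat_lit 10502492371) (nat_lit 152) (nat_lit 10442377578) (nat_lit 65) (nat_lit 3) (nat_lit 65) (nat_lit 1) (nat_lit 67) (nat_lit 1) (nat_lit 310) (nat_lit 450) (nat_lit 260)) (XT.nd (nat_lit 78) (nat_lit 152) (nat_lit 0) (XT.lf (nat_lit 76) (nat_lit 10255483687) (nat_lit 0) (nat_lit 10312735870) (nat_lit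 76) (nat_lit 10312735870) (nat_lit 65) (nat_lit 3) (nat_lit 64) (nat_lit 1) (nat_lit 65) (nat_lit 1) (nat_lit 311) (nat_lit 450) (nat_lit 259)) (XT.lf (nat_lit 152) (nat_lit 30355532347) (nat_lit 0) (nat_lit 17588996) (nat_lit 76) (nat_lit 17588996) (nat_lit 64) (nat_lit 1) (nat_lit 62) (nat_lit 1) (nat_lit 63) (nat_lit 1) (nat_lit 312) (nat_lit 450) (nat_lit 258))))) (XT.nd (nat_lit 234) (nat_lit 228) (nat_lit 0) (XT.nd (nat_lit 78) (nat_lit 228) (nat_lit 0) (XT.lf (nat_lit 0) (nat_lit 9947677436) (nat_lit 0) (nat_lit 9997134024) (nat_lit 152) (nat_lit 9947677436) (nat_lit 62) (nat_lit 3) (nat_lit 62) (nat_lit 1) (nat_lit 64) (nat_lit 1) (nat_lit 313) (nat_lit 450) (nat_lit 257)) (XT.nd (nat_lit 78) (nat_lit 152) (nat_lit 0) (XT.lf (nat_lit 76) (nat_lit 9772036989) (nat_lit 0) (nat_lit 9819138502) (nat_lit 76) (nat_lit 9819138502) (nat_lit 62) (nat_lit 3) (nat_lit 61) (nat_lit 1) (nat_lit 62)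 (nat_lit 1) (nat_lit 314) (nat_lit 450) (nat_lit 256)) (XT.lf (nat_lit 152) (nat_lit 28914484020) (nat_lit 0) (nat_lit 14470510) (nat_lit 76) (nat_lit 14470510) (nat_lit 61) (nat_lit 1) (nat_lit 59) (nat_lit 1) (nat_lit 60) (nat_lit 1) (nat_lit 315) (nat_lit 450) (nat_lit 255)))) (XT.nd (nat_lit 78) (nat_lit 228) (nat_lit 0) (XT.lf (nat_lit 0) (nat_lit 9476081282) (nat_lit 0) (nat_lit 9516769340) (nat_lit 152) (nat_lit 9476081282) (nat_lit 59) (nat_lit 3) (nat_lit 59) (nat_lit 1) (nat_lit 61) (nat_lit 1) (nat_lit 316) (nat_lit 450) (nat_lit 254)) (XT.nd (nat_lit 78) (nat_lit 152) (nat_lit 0) (XT.lf (nat_lit 76) (nat_lit 9310741090) (nat_lit 0) (nat_lit 9349491621) (nat_lit 76) (nat_lit 9349491621) (nat_lit 59) (nat_lit 3) (nat_lit 58) (nat_lit 1) (nat_lit 59) (nat_lit 1) (nat_lit 317) (nat_lit 450) (nat_lit 253)) (XT.lf (nat_lit 152) (nat_lit 27541267498) (nat_lit 0) (nat_lit 11904925) (nat_lit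 76) (nat_lit 11904925) (nat_lit 58) (nat_lit 1) (nat_lit 56) (nat_lit 1) (nat_lit 57) (nat_lit 1) (nat_lit 318) (nat_lit 450) (nat_lit 252)))))) (XT.nd (nat_lit 468) (nat_lit 456) (nat_lit 0) (XT.nd (nat_lit 234) (nat_lit 228) (nat_lit 0) (XT.nd (nat_lit 78) (nat_lit 228) (nat_lit 0) (XT.lf (nat_lit 0) (nat_lit 9026569272) (nat_lit 0) (nat_lit 9060043438) (nat_lit 152) (nat_lit 9026569272) (nat_lit 56) (nat_lit 3) (nat_lit 56) (nat_lit 1) (nat_lit 58) (nat_lit 1) (nat_lit 319) (nat_lit 450) (nat_lit 251)) (XT.nd (nat_lit 78) (nat_lit 152) (nat_lit 0) (XT.lf (nat_lit 76) (nat_lit 8870695523) (nat_lit 0) (nat_lit 8902575681) (nat_lit 76) (nat_lit 8902575681) (nat_lit 56) (nat_lit 3) (nat_lit 55) (nat_lit 1) (nat_lit 56) (nat_lit 1) (nat_lit 320) (nat_lit 450) (nat_lit 250)) (XT.lf (nat_lit 152) (nat_lit 26232792680) (nat_lit 0) (nat_lit 9794211) (nat_lit 76) (nat_lit 9794211) (nat_lit 55) (nat_lit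 1) (nat_lit 53) (nat_lit 1) (nat_lit 54) (nat_lit 1) (nat_lit 321) (nat_lit 450) (nat_lit 249)))) (XT.nd (nat_lit 78) (nat_lit 228) (nat_lit 0) (XT.lf (nat_lit 0) (nat_lit 8598155879) (nat_lit 0) (nat_lit 8625695158) (nat_lit 152) (nat_lit 8598155879) (nat_lit 53) (nat_lit 3) (nat_lit 53) (nat_lit 1) (nat_lit 55) (nat_lit 1) (nat_lit 322) (nat_lit 450) (nat_lit 248)) (XT.nd (nat_lit 78) (nat_lit 152) (nat_lit 0) (XT.lf (nat_lit 76) (nat_lit 8451015338) (nat_lit 0) (nat_lit 8477243223) (nat_lit 76) (nat_lit 8477243223) (nat_lit 53) (nat_lit 3) (nat_lit 52) (nat_lit 1) (nat_lit 53) (nat_lit 1) (nat_lit 323) (nat_lit 450) (nat_lit 247)) (XT.lf (nat_lit 152) (nat_lit 24986091792) (nat_lit 0) (nat_lit 8057721) (nat_lit 76) (nat_lit 8057721) (nat_lit 52) (nat_lit 1) (nat_lit 50) (nat_lit 1) (nat_lit 51) (nat_lit 1) (nat_lit 324) (nat_lit 450) (nat_lit 246))))) (XT.nd (nat_lit 234) (nat_lit 228) (nat_lit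 0) (XT.nd (nat_lit 78) (nat_lit 228) (nat_lit 0) (XT.lf (nat_lit 0) (nat_lit 8189890787) (nat_lit 0) (nat_lit 8212547420) (nat_lit 152) (nat_lit 8189890787) (nat_lit 50) (nat_lit 3) (nat_lit 50) (nat_lit 1) (nat_lit 52) (nat_lit 1) (nat_lit 325) (nat_lit 450) (nat_lit 245)) (XT.nd (nat_lit 78) (nat_lit 152) (nat_lit 0) (XT.lf (nat_lit 76) (nat_lit 8050835211) (nat_lit 0) (nat_lit 8072412957) (nat_lit 76) (nat_lit 8072412957) (nat_lit 50) (nat_lit 3) (nat_lit 49) (nat_lit 1) (nat_lit 50) (nat_lit 1) (nat_lit 326) (nat_lit 450) (nat_lit 244)) (XT.lf (nat_lit 152) (nat_lit 23798317966) (nat_lit 0) (nat_lit 6629107) (nat_lit 76) (nat_lit 6629107) (nat_lit 49) (nat_lit 1) (nat_lit 47) (nat_lit 1) (nat_lit 48) (nat_lit 1) (nat_lit 327) (nat_lit 450) (nat_lit 243)))) (XT.nd (nat_lit 156) (nat_lit 152) (nat_lit 0) (XT.nd (nat_lit 78) (nat_lit 76) (nat_lit 0) (XT.lf (nat_lit 0) (nat_lit 7800859292) (nat_lit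 0) (nat_lit 7819498960) (nat_lit 152) (nat_lit 7800859292) (nat_lit 47) (nat_lit 3) (nat_lit 47) (nat_lit 1) (nat_lit 49) (nat_lit 1) (nat_lit 328) (nat_lit 450) (nat_lit 242)) (XT.lf (nat_lit 76) (nat_lit 7669312508) (nat_lit 0) (nat_lit 7687064573) (nat_lit 76) (nat_lit 7687064573) (nat_lit 47) (nat_lit 3) (nat_lit 46) (nat_lit 1) (nat_lit 47) (nat_lit 1) (nat_lit 329) (nat_lit 450) (nat_lit 241))) (XT.nd (nat_lit 78) (nat_lit 0) (nat_lit 0) (XT.lf (nat_lit 152) (nat_lit 22666743099) (nat_lit 0) (nat_lit 5453783) (nat_lit 76) (nat_lit 5453783) (nat_lit 46) (nat_lit 1) (nat_lit 44) (nat_lit 1) (nat_lit 45) (nat_lit 1) (nat_lit 330) (nat_lit 450) (nat_lit 240)) (XT.lf (nat_lit 0) (nat_lit 7430182315) (nat_lit 0) (nat_lit 7445517216) (nat_lit 152) (nat_lit 7430182315) (nat_lit 44) (nat_lit 3) (nat_lit 44) (nat_lit 1) (nat_lit 46) (nat_lit 1) (nat_lit 331) (nat_lit 450) (nat_lit 239))))))) (XT.nd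 (nat_lit 936) (nat_lit 912) (nat_lit 0) (XT.nd (nat_lit 468) (nat_lit 456) (nat_lit 0) (XT.nd (nat_lit 234) (nat_lit 228) (nat_lit 0) (XT.nd (nat_lit 78) (nat_lit 152) (nat_lit 0) (XT.lf (nat_lit 76) (nat_lit 7305629481) (nat_lit 0) (nat_lit 7320234149) (nat_lit 76) (nat_lit 7320234149) (nat_lit 44) (nat_lit 3) (nat_lit 43) (nat_lit 1) (nat_lit 44) (nat_lit 1) (nat_lit 332) (nat_lit 450) (nat_lit 238)) (XT.nd (nat_lit 78) (nat_lit 0) (nat_lit 0) (XT.lf (nat_lit 152) (nat_lit 21588755178) (nat_lit 0) (nat_lit 4486841) (nat_lit 76) (nat_lit 4486841) (nat_lit 43) (nat_lit 1) (nat_lit 41) (nat_lit 1) (nat_lit 42) (nat_lit 1) (nat_lit 333) (nat_lit 450) (nat_lit 237)) (XT.lf (nat_lit 0) (nat_lit 7077016111) (nat_lit 0) (nat_lit 7089632172) (nat_lit 152) (nat_lit 7077016111) (nat_lit 41) (nat_lit 3) (nat_lit 41) (nat_lit 1) (nat_lit 43) (nat_lit 1) (nat_lit 334) (nat_lit 450) (nat_lit 236)))) (XT.nd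 (nat_lit 78) (nat_lit 152) (nat_lit 0) (XT.lf (nat_lit 76) (nat_lit 6958994788) (nat_lit 0) (nat_lit 6971010084) (nat_lit 76) (nat_lit 6971010084) (nat_lit 41) (nat_lit 3) (nat_lit 40) (nat_lit 1) (nat_lit 41) (nat_lit 1) (nat_lit 335) (nat_lit 450) (nat_lit 235)) (XT.nd (nat_lit 78) (nat_lit 0) (nat_lit 0) (XT.lf (nat_lit 152) (nat_lit 20561855204) (nat_lit 0) (nat_lit 3691335) (nat_lit 76) (nat_lit 3691335) (nat_lit 40) (nat_lit 1) (nat_lit 38) (nat_lit 1) (nat_lit 39) (nat_lit 1) (nat_lit 336) (nat_lit 450) (nat_lit 234)) (XT.lf (nat_lit 0) (nat_lit 6740551748) (nat_lit 0) (nat_lit 6750931012) (nat_lit 152) (nat_lit 6740551748) (nat_lit 38) (nat_lit 3) (nat_lit 38) (nat_lit 1) (nat_lit 40) (nat_lit 1) (nat_lit 337) (nat_lit 450) (nat_lit 233))))) (XT.nd (nat_lit 234) (nat_lit 228) (nat_lit 0) (XT.nd (nat_lit 78) (nat_lit 152) (nat_lit 0) (XT.lf (nat_lit 76) (nat_lit 6628644457) (nat_lit 0) (nat_lit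 6638529471) (nat_lit 76) (nat_lit 6638529471) (nat_lit 38) (nat_lit 3) (nat_lit 37) (nat_lit 1) (nat_lit 38) (nat_lit 1) (nat_lit 338) (nat_lit 450) (nat_lit 232)) (XT.nd (nat_lit 78) (nat_lit 0) (nat_lit 0) (XT.lf (nat_lit 152) (nat_lit 19583653821) (nat_lit 0) (nat_lit 3036870) (nat_lit 76) (nat_lit 3036870) (nat_lit 37) (nat_lit 1) (nat_lit 35) (nat_lit 1) (nat_lit 36) (nat_lit 1) (nat_lit 339) (nat_lit 450) (nat_lit 231)) (XT.lf (nat_lit 0) (nat_lit 6420014394) (nat_lit 0) (nat_lit 6428553441) (nat_lit 152) (nat_lit 6420014394) (nat_lit 35) (nat_lit 3) (nat_lit 35) (nat_lit 1) (nat_lit 37) (nat_lit 1) (nat_lit 340) (nat_lit 450) (nat_lit 230)))) (XT.nd (nat_lit 78) (nat_lit 152) (nat_lit 0) (XT.lf (nat_lit 76) (nat_lit 6313842412) (nat_lit 0) (nat_lit 6321974837) (nat_lit 76) (nat_lit 6321974837) (nat_lit 35) (nat_lit 3) (nat_lit 34) (nat_lit 1) (nat_lit 35) (nat_lit 1) (nat_lit 341) (nat_lit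 450) (nat_lit 229)) (XT.nd (nat_lit 78) (nat_lit 0) (nat_lit 0) (XT.lf (nat_lit 152) (nat_lit 18651867757) (nat_lit 0) (nat_lit 2498441) (nat_lit 76) (nat_lit 2498441) (nat_lit 34) (nat_lit 1) (nat_lit 32) (nat_lit 1) (nat_lit 33) (nat_lit 1) (nat_lit 342) (nat_lit 450) (nat_lit 228)) (XT.lf (nat_lit 0) (nat_lit 6114662482) (nat_lit 0) (nat_lit 6121687577) (nat_lit 152) (nat_lit 6114662482) (nat_lit 32) (nat_lit 3) (nat_lit 32) (nat_lit 1) (nat_lit 34) (nat_lit 1) (nat_lit 343) (nat_lit 450) (nat_lit 227)))))) (XT.nd (nat_lit 468) (nat_lit 456) (nat_lit 0) (XT.nd (nat_lit 234) (nat_lit 228) (nat_lit 0) (XT.nd (nat_lit 78) (nat_lit 152) (nat_lit 0) (XT.lf (nat_lit 76) (nat_lit 6013880646) (nat_lit 0) (nat_lit 6020571213) (nat_lit 76) (nat_lit 6020571213) (nat_lit 32) (nat_lit 3) (nat_lit 31) (nat_lit 1) (nat_lit 32) (nat_lit 1) (nat_lit 344) (nat_lit 450) (nat_lit 226)) (XT.nd (nat_lit 78) (nat_lit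 0) (nat_lit 0) (XT.lf (nat_lit 152) (nat_lit 17764316138) (nat_lit 0) (nat_lit 2055473) (nat_lit 76) (nat_lit 2055473) (nat_lit 31) (nat_lit 1) (nat_lit 29) (nat_lit 1) (nat_lit 30) (nat_lit 1) (nat_lit 345) (nat_lit 450) (nat_lit 225)) (XT.lf (nat_lit 0) (nat_lit 5823786768) (nat_lit 0) (nat_lit 5829566331) (nat_lit 152) (nat_lit 5823786768) (nat_lit 29) (nat_lit 3) (nat_lit 29) (nat_lit 1) (nat_lit 31) (nat_lit 1) (nat_lit 346) (nat_lit 450) (nat_lit 224)))) (XT.nd (nat_lit 78) (nat_lit 152) (nat_lit 0) (XT.lf (nat_lit 76) (nat_lit 5728079128) (nat_lit 0) (nat_lit 5733583473) (nat_lit 76) (nat_lit 5733583473) (nat_lit 29) (nat_lit 3) (nat_lit 28) (nat_lit 1) (nat_lit 29) (nat_lit 1) (nat_lit 347) (nat_lit 450) (nat_lit 223)) (XT.nd (nat_lit 78) (nat_lit 0) (nat_lit 0) (XT.lf (nat_lit 152) (nat_lit 16918916730) (nat_lit 0) (nat_lit 1691043) (nat_lit 76) (nat_lit 1691043) (nat_lit 28) (nat_lit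 1) (nat_lit 26) (nat_lit 1) (nat_lit 27) (nat_lit 1) (nat_lit 348) (nat_lit 450) (nat_lit 222)) (XT.lf (nat_lit 0) (nat_lit 5546709321) (nat_lit 0) (nat_lit 5551464182) (nat_lit 152) (nat_lit 5546709321) (nat_lit 26) (nat_lit 3) (nat_lit 26) (nat_lit 1) (nat_lit 28) (nat_lit 1) (nat_lit 349) (nat_lit 450) (nat_lit 221))))) (XT.nd (nat_lit 234) (nat_lit 228) (nat_lit 0) (XT.nd (nat_lit 78) (nat_lit 152) (nat_lit 0) (XT.lf (nat_lit 76) (nat_lit 5455785481) (nat_lit 0) (nat_lit 5460313920) (nat_lit 76) (nat_lit 5460313920) (nat_lit 26) (nat_lit 3) (nat_lit 25) (nat_lit 1) (nat_lit 26) (nat_lit 1) (nat_lit 350) (nat_lit 450) (nat_lit 220)) (XT.nd (nat_lit 78) (nat_lit 0) (nat_lit 0) (XT.lf (nat_lit 152) (nat_lit 16113682170) (nat_lit 0) (nat_lit 1391225) (nat_lit 76) (nat_lit 1391225) (nat_lit 25) (nat_lit 1) (nat_lit 23) (nat_lit 1) (nat_lit 24) (nat_lit 1) (nat_lit 351) (nat_lit 450) (nat_lit 219))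 (XT.lf (nat_lit 0) (nat_lit 5282782471) (nat_lit 0) (nat_lit 5286694306) (nat_lit 152) (nat_lit 5282782471) (nat_lit 23) (nat_lit 3) (nat_lit 23) (nat_lit 1) (nat_lit 25) (nat_lit 1) (nat_lit 352) (nat_lit 450) (nat_lit 218)))) (XT.nd (nat_lit 156) (nat_lit 0) (nat_lit 0) (XT.nd (nat_lit 78) (nat_lit 152) (nat_lit 0) (XT.lf (nat_lit 76) (nat_lit 5196374509) (nat_lit 0) (nat_lit 5200100067) (nat_lit 76) (nat_lit 5200100067) (nat_lit 23) (nat_lit 3) (nat_lit 22) (nat_lit 1) (nat_lit 23) (nat_lit 1) (nat_lit 353) (nat_lit 450) (nat_lit 217)) (XT.lf (nat_lit 152) (nat_lit 15346716204) (nat_lit 0) (nat_lit 1144564) (nat_lit 76) (nat_lit 1144564) (nat_lit 22) (nat_lit 1) (nat_lit 20) (nat_lit 1) (nat_lit 21) (nat_lit 1) (nat_lit 354) (nat_lit 450) (nat_lit 216))) (XT.nd (nat_lit 43524) (nat_lit 0) (nat_lit 9120) (XT.lf (nat_lit 0) (nat_lit 5031387722) (nat_lit 0) (nat_lit 5034605999) (nat_lit 152) (nat_lit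 5031387722) (nat_lit 20) (nat_lit 3) (nat_lit 20) (nat_lit 1) (nat_lit 22) (nat_lit 1) (nat_lit 355) (nat_lit 450) (nat_lit 215)) (XT.lf (nat_lit 152) (nat_lit 107695819314) (nat_lit 0) (nat_lit 2952007548) (nat_lit 76) (nat_lit 2952007548) (nat_lit 142) (nat_lit 1) (nat_lit 140) (nat_lit 1) (nat_lit 141) (nat_lit 1) (nat_lit 232) (nat_lit 451) (nat_lit 337))))))))
noncomputable def ec509 : XT := (XT.nd (nat_lit 1950) (nat_lit 2052) (nat_lit 0) (XT.nd (nat_lit 936) (nat_lit 912) (nat_lit 0) (XT.nd (nat_lit 468) (nat_lit 456) (nat_lit 0) (XT.nd (nat_lit 234) (nat_lit 228) (nat_lit 0) (XT.nd (nat_lit 78) (nat_lit 228) (nat_lit 0) (XT.lf (nat_lit 0) (nat_lit 34478305978) (nat_lit 0) (nat_lit 42778735366) (nat_lit 152) (nat_lit 34478305978) (nat_lit 140) (nat_lit 3) (nat_lit 140) (nat_lit 1) (nat_lit 142) (nat_lit 1) (nat_lit 233) (nat_lit 451) (nat_lit 336)) (XT.nd (nat_lit 78) (nat_lit 152) (nat_lit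 0) (XT.lf (nat_lit 76) (nat_lit 31372149158) (nat_lit 0) (nat_lit 39277320003) (nat_lit 76) (nat_lit 39277320003) (nat_lit 140) (nat_lit 3) (nat_lit 139) (nat_lit 1) (nat_lit 140) (nat_lit 1) (nat_lit 234) (nat_lit 451) (nat_lit 335)) (XT.lf (nat_lit 152) (nat_lit 103314841520) (nat_lit 0) (nat_lit 2428623915) (nat_lit 76) (nat_lit 2428623915) (nat_lit 139) (nat_lit 1) (nat_lit 137) (nat_lit 1) (nat_lit 138) (nat_lit 1) (nat_lit 235) (nat_lit 451) (nat_lit 334)))) (XT.nd (nat_lit 78) (nat_lit 228) (nat_lit 0) (XT.lf (nat_lit 0) (nat_lit 33189395670) (nat_lit 0) (nat_lit 40018179469) (nat_lit 152) (nat_lit 33189395670) (nat_lit 137) (nat_lit 3) (nat_lit 137) (nat_lit 1) (nat_lit 139) (nat_lit 1) (nat_lit 236) (nat_lit 451) (nat_lit 333)) (XT.nd (nat_lit 78) (nat_lit 152) (nat_lit 0) (XT.lf (nat_lit 76) (nat_lit 30556146185) (nat_lit 0) (nat_lit 37059749804) (nat_lit 76) (nat_lit 37059749804) (nat_lit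 137) (nat_lit 3) (nat_lit 136) (nat_lit 1) (nat_lit 137) (nat_lit 1) (nat_lit 237) (nat_lit 451) (nat_lit 332)) (XT.lf (nat_lit 152) (nat_lit 99009970511) (nat_lit 0) (nat_lit 1998034905) (nat_lit 76) (nat_lit 1998034905) (nat_lit 136) (nat_lit 1) (nat_lit 134) (nat_lit 1) (nat_lit 135) (nat_lit 1) (nat_lit 238) (nat_lit 451) (nat_lit 331))))) (XT.nd (nat_lit 234) (nat_lit 228) (nat_lit 0) (XT.nd (nat_lit 78) (nat_lit 228) (nat_lit 0) (XT.lf (nat_lit 0) (nat_lit 31899291302) (nat_lit 0) (nat_lit 37517348633) (nat_lit 152) (nat_lit 31899291302) (nat_lit 134) (nat_lit 3) (nat_lit 134) (nat_lit 1) (nat_lit 136) (nat_lit 1) (nat_lit 239) (nat_lit 451) (nat_lit 330)) (XT.nd (nat_lit 78) (nat_lit 152) (nat_lit 0) (XT.lf (nat_lit 76) (nat_lit 29658808929) (nat_lit 0) (nat_lit 35009339721) (nat_lit 76) (nat_lit 35009339721) (nat_lit 134) (nat_lit 3) (nat_lit 133) (nat_lit 1) (nat_lit 134) (nat_lit 1) (nat_lit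 240) (nat_lit 451) (nat_lit 329)) (XT.lf (nat_lit 152) (nat_lit 94801076064) (nat_lit 0) (nat_lit 1643788261) (nat_lit 76) (nat_lit 1643788261) (nat_lit 133) (nat_lit 1) (nat_lit 131) (nat_lit 1) (nat_lit 132) (nat_lit 1) (nat_lit 241) (nat_lit 451) (nat_lit 328)))) (XT.nd (nat_lit 78) (nat_lit 228) (nat_lit 0) (XT.lf (nat_lit 0) (nat_lit 30619143372) (nat_lit 0) (nat_lit 35241133042) (nat_lit 152) (nat_lit 30619143372) (nat_lit 131) (nat_lit 3) (nat_lit 131) (nat_lit 1) (nat_lit 133) (nat_lit 1) (nat_lit 242) (nat_lit 451) (nat_lit 327)) (XT.nd (nat_lit 78) (nat_lit 152) (nat_lit 0) (XT.lf (nat_lit 76) (nat_lit 28705320116) (nat_lit 0) (nat_lit 33107215040) (nat_lit 76) (nat_lit 33107215040) (nat_lit 131) (nat_lit 3) (nat_lit 130) (nat_lit 1) (nat_lit 131) (nat_lit 1) (nat_lit 243) (nat_lit 451) (nat_lit 326)) (XT.lf (nat_lit 152) (nat_lit 90702916362) (nat_lit 0) (nat_lit 1352348670) (nat_lit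 76) (nat_lit 1352348670) (nat_lit 130) (nat_lit 1) (nat_lit 128) (nat_lit 1) (nat_lit 129) (nat_lit 1) (nat_lit 244) (nat_lit 451) (nat_lit 325)))))) (XT.nd (nat_lit 468) (nat_lit 456) (nat_lit 0) (XT.nd (nat_lit 234) (nat_lit 228) (nat_lit 0) (XT.nd (nat_lit 78) (nat_lit 228) (nat_lit 0) (XT.lf (nat_lit 0) (nat_lit 29357604527) (nat_lit 0) (nat_lit 33160126867) (nat_lit 152) (nat_lit 29357604527) (nat_lit 128) (nat_lit 3) (nat_lit 128) (nat_lit 1) (nat_lit 130) (nat_lit 1) (nat_lit 245) (nat_lit 451) (nat_lit 324)) (XT.nd (nat_lit 78) (nat_lit 152) (nat_lit 0) (XT.lf (nat_lit 76) (nat_lit 27715885148) (nat_lit 0) (nat_lit 31337334996) (nat_lit 76) (nat_lit 31337334996) (nat_lit 128) (nat_lit 3) (nat_lit 127) (nat_lit 1) (nat_lit 128) (nat_lit 1) (nat_lit 246) (nat_lit 451) (nat_lit 323)) (XT.lf (nat_lit 152) (nat_lit 86726119925) (nat_lit 0) (nat_lit 1112580598) (nat_lit 76) (nat_lit 1112580598)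 (nat_lit 127) (nat_lit 1) (nat_lit 125) (nat_lit 1) (nat_lit 126) (nat_lit 1) (nat_lit 247) (nat_lit 451) (nat_lit 322)))) (XT.nd (nat_lit 78) (nat_lit 228) (nat_lit 0) (XT.lf (nat_lit 0) (nat_lit 28121297230) (nat_lit 0) (nat_lit 31249641770) (nat_lit 152) (nat_lit 28121297230) (nat_lit 125) (nat_lit 3) (nat_lit 125) (nat_lit 1) (nat_lit 127) (nat_lit 1) (nat_lit 248) (nat_lit 451) (nat_lit 321)) (XT.nd (nat_lit 78) (nat_lit 152) (nat_lit 0) (XT.lf (nat_lit 76) (nat_lit 26706638968) (nat_lit 0) (nat_lit 29686014720) (nat_lit 76) (nat_lit 29686014720) (nat_lit 125) (nat_lit 3) (nat_lit 124) (nat_lit 1) (nat_lit 125) (nat_lit 1) (nat_lit 249) (nat_lit 451) (nat_lit 320)) (XT.lf (nat_lit 152) (nat_lit 82877989837) (nat_lit 0) (nat_lit 915322811) (nat_lit 76) (nat_lit 915322811) (nat_lit 124) (nat_lit 1) (nat_lit 122) (nat_lit 1) (nat_lit 123) (nat_lit 1) (nat_lit 250) (nat_lit 451) (nat_lit 319)))))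 (XT.nd (nat_lit 234) (nat_lit 228) (nat_lit 0) (XT.nd (nat_lit 78) (nat_lit 228) (nat_lit 0) (XT.lf (nat_lit 0) (nat_lit 26915197333) (nat_lit 0) (nat_lit 29488894127) (nat_lit 152) (nat_lit 26915197333) (nat_lit 122) (nat_lit 3) (nat_lit 122) (nat_lit 1) (nat_lit 124) (nat_lit 1) (nat_lit 251) (nat_lit 451) (nat_lit 318)) (XT.nd (nat_lit 78) (nat_lit 152) (nat_lit 0) (XT.lf (nat_lit 76) (nat_lit 25690390987) (nat_lit 0) (nat_lit 28141530792) (nat_lit 76) (nat_lit 28141530792) (nat_lit 122) (nat_lit 3) (nat_lit 121) (nat_lit 1) (nat_lit 122) (nat_lit 1) (nat_lit 252) (nat_lit 451) (nat_lit 317)) (XT.lf (nat_lit 152) (nat_lit 79163161960) (nat_lit 0) (nat_lit 753038342) (nat_lit 76) (nat_lit 753038342) (nat_lit 121) (nat_lit 1) (nat_lit 119) (nat_lit 1) (nat_lit 120) (nat_lit 1) (nat_lit 253) (nat_lit 451) (nat_lit 316)))) (XT.nd (nat_lit 156) (nat_lit 152) (nat_lit 0) (XT.nd (nat_lit 78) (nat_lit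 76) (nat_lit 0) (XT.lf (nat_lit 0) (nat_lit 25742948509) (nat_lit 0) (nat_lit 27860335232) (nat_lit 152) (nat_lit 25742948509) (nat_lit 119) (nat_lit 3) (nat_lit 119) (nat_lit 1) (nat_lit 121) (nat_lit 1) (nat_lit 254) (nat_lit 451) (nat_lit 315)) (XT.lf (nat_lit 76) (nat_lit 24677236829) (nat_lit 0) (nat_lit 26693795612) (nat_lit 76) (nat_lit 26693795612) (nat_lit 119) (nat_lit 3) (nat_lit 118) (nat_lit 1) (nat_lit 119) (nat_lit 1) (nat_lit 255) (nat_lit 451) (nat_lit 314))) (XT.nd (nat_lit 78) (nat_lit 0) (nat_lit 0) (XT.lf (nat_lit 152) (nat_lit 75584143176) (nat_lit 0) (nat_lit 619526507) (nat_lit 76) (nat_lit 619526507) (nat_lit 118) (nat_lit 1) (nat_lit 116) (nat_lit 1) (nat_lit 117) (nat_lit 1) (nat_lit 256) (nat_lit 451) (nat_lit 313)) (XT.lf (nat_lit 0) (nat_lit 24607119879) (nat_lit 0) (nat_lit 26349099176) (nat_lit 152) (nat_lit 24607119879) (nat_lit 116) (nat_lit 3) (nat_lit 116) (nat_lit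 1) (nat_lit 118) (nat_lit 1) (nat_lit 257) (nat_lit 451) (nat_lit 312))))))) (XT.nd (nat_lit 1014) (nat_lit 1064) (nat_lit 0) (XT.nd (nat_lit 468) (nat_lit 532) (nat_lit 0) (XT.nd (nat_lit 234) (nat_lit 228) (nat_lit 0) (XT.nd (nat_lit 78) (nat_lit 152) (nat_lit 0) (XT.lf (nat_lit 76) (nat_lit 23675060558) (nat_lit 0) (nat_lit 25334088460) (nat_lit 76) (nat_lit 25334088460) (nat_lit 116) (nat_lit 3) (nat_lit 115) (nat_lit 1) (nat_lit 116) (nat_lit 1) (nat_lit 258) (nat_lit 451) (nat_lit 311)) (XT.nd (nat_lit 78) (nat_lit 0) (nat_lit 0) (XT.lf (nat_lit 152) (nat_lit 72141751093) (nat_lit 0) (nat_lit 509685991) (nat_lit 76) (nat_lit 509685991) (nat_lit 115) (nat_lit 1) (nat_lit 113) (nat_lit 1) (nat_lit 114) (nat_lit 1) (nat_lit 259) (nat_lit 451) (nat_lit 310)) (XT.lf (nat_lit 0) (nat_lit 23509416929) (nat_lit 0) (nat_lit 24942547608) (nat_lit 152) (nat_lit 23509416929) (nat_lit 113) (nat_lit 3)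 (nat_lit 113) (nat_lit 1) (nat_lit 115) (nat_lit 1) (nat_lit 260) (nat_lit 451) (nat_lit 309)))) (XT.nd (nat_lit 78) (nat_lit 152) (nat_lit 0) (XT.lf (nat_lit 76) (nat_lit 22689946863) (nat_lit 0) (nat_lit 24054833223) (nat_lit 76) (nat_lit 24054833223) (nat_lit 113) (nat_lit 3) (nat_lit 112) (nat_lit 1) (nat_lit 113) (nat_lit 1) (nat_lit 261) (nat_lit 451) (nat_lit 308)) (XT.nd (nat_lit 78) (nat_lit 0) (nat_lit 0) (XT.lf (nat_lit 152) (nat_lit 68835472824) (nat_lit 0) (nat_lit 419319926) (nat_lit 76) (nat_lit 419319926) (nat_lit 112) (nat_lit 1) (nat_lit 110) (nat_lit 1) (nat_lit 111) (nat_lit 1) (nat_lit 262) (nat_lit 451) (nat_lit 307)) (XT.lf (nat_lit 0) (nat_lit 22450854067) (nat_lit 0) (nat_lit 23629894223) (nat_lit 152) (nat_lit 22450854067) (nat_lit 110) (nat_lit 3) (nat_lit 110) (nat_lit 1) (nat_lit 112) (nat_lit 1) (nat_lit 263) (nat_lit 451) (nat_lit 306))))) (XT.nd (nat_lit 234) (nat_lit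 304) (nat_lit 0) (XT.nd (nat_lit 78) (nat_lit 152) (nat_lit 0) (XT.lf (nat_lit 76) (nat_lit 21726519199) (nat_lit 0) (nat_lit 22849414586) (nat_lit 76) (nat_lit 22849414586) (nat_lit 110) (nat_lit 3) (nat_lit 109) (nat_lit 1) (nat_lit 110) (nat_lit 1) (nat_lit 264) (nat_lit 451) (nat_lit 305)) (XT.nd (nat_lit 78) (nat_lit 0) (nat_lit 0) (XT.lf (nat_lit 152) (nat_lit 65663757335) (nat_lit 0) (nat_lit 344975541) (nat_lit 76) (nat_lit 344975541) (nat_lit 109) (nat_lit 1) (nat_lit 107) (nat_lit 1) (nat_lit 108) (nat_lit 1) (nat_lit 265) (nat_lit 451) (nat_lit 304)) (XT.lf (nat_lit 0) (nat_lit 21431895658) (nat_lit 0) (nat_lit 22401894912) (nat_lit 152) (nat_lit 21431895658) (nat_lit 107) (nat_lit 3) (nat_lit 107) (nat_lit 1) (nat_lit 109) (nat_lit 1) (nat_lit 266) (nat_lit 451) (nat_lit 303)))) (XT.nd (nat_lit 156) (nat_lit 76) (nat_lit 0) (XT.nd (nat_lit 78) (nat_lit 152) (nat_lit 0) (XT.lf (nat_lit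 76) (nat_lit 20788217078) (nat_lit 0) (nat_lit 21712025891) (nat_lit 76) (nat_lit 21712025891) (nat_lit 107) (nat_lit 3) (nat_lit 106) (nat_lit 1) (nat_lit 107) (nat_lit 1) (nat_lit 267) (nat_lit 451) (nat_lit 302)) (XT.lf (nat_lit 152) (nat_lit 62624253272) (nat_lit 0) (nat_lit 283812231) (nat_lit 76) (nat_lit 283812231) (nat_lit 106) (nat_lit 1) (nat_lit 104) (nat_lit 1) (nat_lit 105) (nat_lit 1) (nat_lit 268) (nat_lit 451) (nat_lit 301))) (XT.nd (nat_lit 78) (nat_lit 76) (nat_lit 0) (XT.lf (nat_lit 0) (nat_lit 20452571174) (nat_lit 0) (nat_lit 21250591960) (nat_lit 152) (nat_lit 20452571174) (nat_lit 104) (nat_lit 3) (nat_lit 104) (nat_lit 1) (nat_lit 106) (nat_lit 1) (nat_lit 269) (nat_lit 451) (nat_lit 300)) (XT.lf (nat_lit 76) (nat_lit 19877523317) (nat_lit 0) (nat_lit 20637543114) (nat_lit 76) (nat_lit 20637543114) (nat_lit 104) (nat_lit 3) (nat_lit 103) (nat_lit 1) (nat_lit 104) (nat_lit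 1) (nat_lit 270) (nat_lit 451) (nat_lit 299)))))) (XT.nd (nat_lit 468) (nat_lit 608) (nat_lit 0) (XT.nd (nat_lit 234) (nat_lit 228) (nat_lit 0) (XT.nd (nat_lit 78) (nat_lit 76) (nat_lit 0) (XT.lf (nat_lit 152) (nat_lit 59714002062) (nat_lit 0) (nat_lit 233493025) (nat_lit 76) (nat_lit 233493025) (nat_lit 103) (nat_lit 1) (nat_lit 101) (nat_lit 1) (nat_lit 102) (nat_lit 1) (nat_lit 271) (nat_lit 451) (nat_lit 298)) (XT.nd (nat_lit 78) (nat_lit 76) (nat_lit 0) (XT.lf (nat_lit 0) (nat_lit 19512569089) (nat_lit 0) (nat_lit 20169102765) (nat_lit 152) (nat_lit 19512569089) (nat_lit 101) (nat_lit 3) (nat_lit 101) (nat_lit 1) (nat_lit 103) (nat_lit 1) (nat_lit 272) (nat_lit 451) (nat_lit 297)) (XT.lf (nat_lit 76) (nat_lit 18996150178) (nat_lit 0) (nat_lit 19621420346) (nat_lit 76) (nat_lit 19621420346) (nat_lit 101) (nat_lit 3) (nat_lit 100) (nat_lit 1) (nat_lit 101) (nat_lit 1) (nat_lit 273) (nat_lit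 451) (nat_lit 296)))) (XT.nd (nat_lit 78) (nat_lit 76) (nat_lit 0) (XT.lf (nat_lit 152) (nat_lit 56929594337) (nat_lit 0) (nat_lit 192095289) (nat_lit 76) (nat_lit 192095289) (nat_lit 100) (nat_lit 1) (nat_lit 98) (nat_lit 1) (nat_lit 99) (nat_lit 1) (nat_lit 274) (nat_lit 451) (nat_lit 295)) (XT.nd (nat_lit 78) (nat_lit 76) (nat_lit 0) (XT.lf (nat_lit 0) (nat_lit 18611313325) (nat_lit 0) (nat_lit 19151445205) (nat_lit 152) (nat_lit 18611313325) (nat_lit 98) (nat_lit 3) (nat_lit 98) (nat_lit 1) (nat_lit 100) (nat_lit 1) (nat_lit 275) (nat_lit 451) (nat_lit 294)) (XT.lf (nat_lit 76) (nat_lit 18145191718) (nat_lit 0) (nat_lit 18659603032) (nat_lit 76) (nat_lit 18659603032) (nat_lit 98) (nat_lit 3) (nat_lit 97) (nat_lit 1) (nat_lit 98) (nat_lit 1) (nat_lit 276) (nat_lit 451) (nat_lit 293))))) (XT.nd (nat_lit 234) (nat_lit 380) (nat_lit 0) (XT.nd (nat_lit 78) (nat_lit 76) (nat_lit 0) (XT.lf (nat_lit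 152) (nat_lit 54267296302) (nat_lit 0) (nat_lit 158037270) (nat_lit 76) (nat_lit 158037270) (nat_lit 97) (nat_lit 1) (nat_lit 95) (nat_lit 1) (nat_lit 96) (nat_lit 1) (nat_lit 277) (nat_lit 451) (nat_lit 292)) (XT.nd (nat_lit 78) (nat_lit 76) (nat_lit 0) (XT.lf (nat_lit 0) (nat_lit 17748025384) (nat_lit 0) (nat_lit 18192393219) (nat_lit 152) (nat_lit 17748025384) (nat_lit 95) (nat_lit 3) (nat_lit 95) (nat_lit 1) (nat_lit 97) (nat_lit 1) (nat_lit 278) (nat_lit 451) (nat_lit 291)) (XT.lf (nat_lit 76) (nat_lit 17325248375) (nat_lit 0) (nat_lit 17748455836) (nat_lit 76) (nat_lit 17748455836) (nat_lit 95) (nat_lit 3) (nat_lit 94) (nat_lit 1) (nat_lit 95) (nat_lit 1) (nat_lit 279) (nat_lit 451) (nat_lit 290)))) (XT.nd (nat_lit 156) (nat_lit 228) (nat_lit 0) (XT.nd (nat_lit 78) (nat_lit 0) (nat_lit 0) (XT.lf (nat_lit 152) (nat_lit 51723151494) (nat_lit 0) (nat_lit 130017653) (nat_lit 76) (nat_lit 130017653)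 (nat_lit 94) (nat_lit 1) (nat_lit 92) (nat_lit 1) (nat_lit 93) (nat_lit 1) (nat_lit 280) (nat_lit 451) (nat_lit 289)) (XT.lf (nat_lit 0) (nat_lit 16921774743) (nat_lit 0) (nat_lit 17287357260) (nat_lit 152) (nat_lit 16921774743) (nat_lit 92) (nat_lit 3) (nat_lit 92) (nat_lit 1) (nat_lit 94) (nat_lit 1) (nat_lit 281) (nat_lit 451) (nat_lit 288))) (XT.nd (nat_lit 78) (nat_lit 152) (nat_lit 0) (XT.lf (nat_lit 76) (nat_lit 16536528755) (nat_lit 0) (nat_lit 16884702581) (nat_lit 76) (nat_lit 16884702581) (nat_lit 92) (nat_lit 3) (nat_lit 91) (nat_lit 1) (nat_lit 92) (nat_lit 1) (nat_lit 282) (nat_lit 451) (nat_lit 287)) (XT.lf (nat_lit 152) (nat_lit 49293062382) (nat_lit 0) (nat_lit 106965845) (nat_lit 76) (nat_lit 106965845) (nat_lit 91) (nat_lit 1) (nat_lit 89) (nat_lit 1) (nat_lit 90) (nat_lit 1) (nat_lit 283) (nat_lit 451) (nat_lit 286))))))))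
noncomputable def ec510 : XT := (XT.nd (nat_lit 1950) (nat_lit 1900) (nat_lit 0) (XT.nd (nat_lit 936) (nat_lit 912) (nat_lit 0) (XT.nd (nat_lit 468) (nat_lit 456) (nat_lit 0) (XT.nd (nat_lit 234) (nat_lit 228) (nat_lit 0) (XT.nd (nat_lit 78) (nat_lit 228) (nat_lit 0) (XT.lf (nat_lit 0) (nat_lit 16131519613) (nat_lit 0) (nat_lit 16432285254) (nat_lit 152) (nat_lit 16131519613) (nat_lit 89) (nat_lit 3) (nat_lit 89) (nat_lit 1) (nat_lit 91) (nat_lit 1) (nat_lit 284) (nat_lit 451) (nat_lit 285)) (XT.nd (nat_lit 78) (nat_lit 152) (nat_lit 0) (XT.lf (nat_lit 76) (nat_lit 15778932694) (nat_lit 0) (nat_lit 16065376162) (nat_lit 76) (nat_lit 16065376162) (nat_lit 89) (nat_lit 3) (nat_lit 88) (nat_lit 1) (nat_lit 89) (nat_lit 1) (nat_lit 285) (nat_lit 451) (nat_lit 284)) (XT.lf (nat_lit 152) (nat_lit 46972855502) (nat_lit 0) (nat_lit 88001065) (nat_lit 76) (nat_lit 88001065) (nat_lit 88) (nat_lit 1) (nat_lit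 86) (nat_lit 1) (nat_lit 87) (nat_lit 1) (nat_lit 286) (nat_lit 451) (nat_lit 283)))) (XT.nd (nat_lit 78) (nat_lit 228) (nat_lit 0) (XT.lf (nat_lit 0) (nat_lit 15376139825) (nat_lit 0) (nat_lit 15623580463) (nat_lit 152) (nat_lit 15376139825) (nat_lit 86) (nat_lit 3) (nat_lit 86) (nat_lit 1) (nat_lit 88) (nat_lit 1) (nat_lit 287) (nat_lit 451) (nat_lit 282)) (XT.nd (nat_lit 78) (nat_lit 152) (nat_lit 0) (XT.lf (nat_lit 76) (nat_lit 15052118941) (nat_lit 0) (nat_lit 15287776691) (nat_lit 76) (nat_lit 15287776691) (nat_lit 86) (nat_lit 3) (nat_lit 85) (nat_lit 1) (nat_lit 86) (nat_lit 1) (nat_lit 288) (nat_lit 451) (nat_lit 281)) (XT.lf (nat_lit 152) (nat_lit 44758333126) (nat_lit 0) (nat_lit 72398694) (nat_lit 76) (nat_lit 72398694) (nat_lit 85) (nat_lit 1) (nat_lit 83) (nat_lit 1) (nat_lit 84) (nat_lit 1) (nat_lit 289) (nat_lit 451) (nat_lit 280))))) (XT.nd (nat_lit 234) (nat_lit 228) (nat_lit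 0) (XT.nd (nat_lit 78) (nat_lit 228) (nat_lit 0) (XT.lf (nat_lit 0) (nat_lit 14654463256) (nat_lit 0) (nat_lit 14858033281) (nat_lit 152) (nat_lit 14654463256) (nat_lit 83) (nat_lit 3) (nat_lit 83) (nat_lit 1) (nat_lit 85) (nat_lit 1) (nat_lit 290) (nat_lit 451) (nat_lit 279)) (XT.nd (nat_lit 78) (nat_lit 152) (nat_lit 0) (XT.lf (nat_lit 76) (nat_lit 14355560231) (nat_lit 0) (nat_lit 14549436446) (nat_lit 76) (nat_lit 14549436446) (nat_lit 83) (nat_lit 3) (nat_lit 82) (nat_lit 1) (nat_lit 83) (nat_lit 1) (nat_lit 291) (nat_lit 451) (nat_lit 278)) (XT.lf (nat_lit 152) (nat_lit 42645313960) (nat_lit 0) (nat_lit 59562585) (nat_lit 76) (nat_lit 59562585) (nat_lit 82) (nat_lit 1) (nat_lit 80) (nat_lit 1) (nat_lit 81) (nat_lit 1) (nat_lit 292) (nat_lit 451) (nat_lit 277)))) (XT.nd (nat_lit 78) (nat_lit 228) (nat_lit 0) (XT.lf (nat_lit 0) (nat_lit 13965286968) (nat_lit 0) (nat_lit 14132764531) (nat_lit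 152) (nat_lit 13965286968) (nat_lit 80) (nat_lit 3) (nat_lit 80) (nat_lit 1) (nat_lit 82) (nat_lit 1) (nat_lit 293) (nat_lit 451) (nat_lit 276)) (XT.nd (nat_lit 78) (nat_lit 152) (nat_lit 0) (XT.lf (nat_lit 76) (nat_lit 13688588004) (nat_lit 0) (nat_lit 13848090445) (nat_lit 76) (nat_lit 13848090445) (nat_lit 80) (nat_lit 3) (nat_lit 79) (nat_lit 1) (nat_lit 80) (nat_lit 1) (nat_lit 294) (nat_lit 451) (nat_lit 275)) (XT.lf (nat_lit 152) (nat_lit 40629664886) (nat_lit 0) (nat_lit 49002286) (nat_lit 76) (nat_lit 49002286) (nat_lit 79) (nat_lit 1) (nat_lit 77) (nat_lit 1) (nat_lit 78) (nat_lit 1) (nat_lit 295) (nat_lit 451) (nat_lit 274)))))) (XT.nd (nat_lit 468) (nat_lit 456) (nat_lit 0) (XT.nd (nat_lit 234) (nat_lit 228) (nat_lit 0) (XT.nd (nat_lit 78) (nat_lit 228) (nat_lit 0) (XT.lf (nat_lit 0) (nat_lit 13307394036) (nat_lit 0) (nat_lit 13445178242) (nat_lit 152) (nat_lit 13307394036) (nat_lit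 77) (nat_lit 3) (nat_lit 77) (nat_lit 1) (nat_lit 79) (nat_lit 1) (nat_lit 296) (nat_lit 451) (nat_lit 273)) (XT.nd (nat_lit 78) (nat_lit 152) (nat_lit 0) (XT.lf (nat_lit 76) (nat_lit 13050428631) (nat_lit 0) (nat_lit 13181651684) (nat_lit 76) (nat_lit 13181651684) (nat_lit 77) (nat_lit 3) (nat_lit 76) (nat_lit 1) (nat_lit 77) (nat_lit 1) (nat_lit 297) (nat_lit 451) (nat_lit 272)) (XT.lf (nat_lit 152) (nat_lit 38707325426) (nat_lit 0) (nat_lit 40314302) (nat_lit 76) (nat_lit 40314302) (nat_lit 76) (nat_lit 1) (nat_lit 74) (nat_lit 1) (nat_lit 75) (nat_lit 1) (nat_lit 298) (nat_lit 451) (nat_lit 271)))) (XT.nd (nat_lit 78) (nat_lit 228) (nat_lit 0) (XT.lf (nat_lit 0) (nat_lit 12679566850) (nat_lit 0) (nat_lit 12792922257) (nat_lit 152) (nat_lit 12679566850) (nat_lit 74) (nat_lit 3) (nat_lit 74) (nat_lit 1) (nat_lit 76) (nat_lit 1) (nat_lit 299) (nat_lit 451) (nat_lit 270)) (XT.nd (nat_lit 78) (nat_lit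 152) (nat_lit 0) (XT.lf (nat_lit 76) (nat_lit 12440232697) (nat_lit 0) (nat_lit 12548190228) (nat_lit 76) (nat_lit 12548190228) (nat_lit 74) (nat_lit 3) (nat_lit 73) (nat_lit 1) (nat_lit 74) (nat_lit 1) (nat_lit 300) (nat_lit 451) (nat_lit 269)) (XT.lf (nat_lit 152) (nat_lit 36874326300) (nat_lit 0) (nat_lit 33166676) (nat_lit 76) (nat_lit 33166676) (nat_lit 73) (nat_lit 1) (nat_lit 71) (nat_lit 1) (nat_lit 72) (nat_lit 1) (nat_lit 301) (nat_lit 451) (nat_lit 268))))) (XT.nd (nat_lit 234) (nat_lit 228) (nat_lit 0) (XT.nd (nat_lit 78) (nat_lit 228) (nat_lit 0) (XT.lf (nat_lit 0) (nat_lit 12080597545) (nat_lit 0) (nat_lit 12173855319) (nat_lit 152) (nat_lit 12080597545) (nat_lit 71) (nat_lit 3) (nat_lit 71) (nat_lit 1) (nat_lit 73) (nat_lit 1) (nat_lit 302) (nat_lit 451) (nat_lit 267)) (XT.nd (nat_lit 78) (nat_lit 152) (nat_lit 0) (XT.lf (nat_lit 76) (nat_lit 11857098575) (nat_lit 0) (nat_lit 11945915503)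 (nat_lit 76) (nat_lit 11945915503) (nat_lit 71) (nat_lit 3) (nat_lit 70) (nat_lit 1) (nat_lit 71) (nat_lit 1) (nat_lit 303) (nat_lit 451) (nat_lit 266)) (XT.lf (nat_lit 152) (nat_lit 35126803198) (nat_lit 0) (nat_lit 27286306) (nat_lit 76) (nat_lit 27286306) (nat_lit 70) (nat_lit 1) (nat_lit 68) (nat_lit 1) (nat_lit 69) (nat_lit 1) (nat_lit 304) (nat_lit 451) (nat_lit 265)))) (XT.nd (nat_lit 156) (nat_lit 152) (nat_lit 0) (XT.nd (nat_lit 78) (nat_lit 76) (nat_lit 0) (XT.lf (nat_lit 0) (nat_lit 11509296086) (nat_lit 0) (nat_lit 11586019487) (nat_lit 152) (nat_lit 11509296086) (nat_lit 68) (nat_lit 3) (nat_lit 68) (nat_lit 1) (nat_lit 70) (nat_lit 1) (nat_lit 305) (nat_lit 451) (nat_lit 264)) (XT.lf (nat_lit 76) (nat_lit 11300091340) (nat_lit 0) (nat_lit 11373161246) (nat_lit 76) (nat_lit 11373161246) (nat_lit 68) (nat_lit 3) (nat_lit 67) (nat_lit 1) (nat_lit 68) (nat_lit 1) (nat_lit 306) (nat_lit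 451) (nat_lit 263))) (XT.nd (nat_lit 78) (nat_lit 0) (nat_lit 0) (XT.lf (nat_lit 152) (nat_lit 33461006680) (nat_lit 0) (nat_lit 22448511) (nat_lit 76) (nat_lit 22448511) (nat_lit 67) (nat_lit 1) (nat_lit 65) (nat_lit 1) (nat_lit 66) (nat_lit 1) (nat_lit 307) (nat_lit 451) (nat_lit 262)) (XT.lf (nat_lit 0) (nat_lit 10964496457) (nat_lit 0) (nat_lit 11027616989) (nat_lit 152) (nat_lit 10964496457) (nat_lit 65) (nat_lit 3) (nat_lit 65) (nat_lit 1) (nat_lit 67) (nat_lit 1) (nat_lit 308) (nat_lit 451) (nat_lit 261))))))) (XT.nd (nat_lit 936) (nat_lit 988) (nat_lit 0) (XT.nd (nat_lit 468) (nat_lit 456) (nat_lit 0) (XT.nd (nat_lit 234) (nat_lit 228) (nat_lit 0) (XT.nd (nat_lit 78) (nat_lit 152) (nat_lit 0) (XT.lf (nat_lit 76) (nat_lit 10768257871) (nat_lit 0) (nat_lit 10828372664) (nat_lit 76) (nat_lit 10828372664) (nat_lit 65) (nat_lit 3) (nat_lit 64) (nat_lit 1) (nat_lit 65) (nat_lit 1) (nat_lit 309)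 (nat_lit 451) (nat_lit 260)) (XT.nd (nat_lit 78) (nat_lit 0) (nat_lit 0) (XT.lf (nat_lit 152) (nat_lit 31873308964) (nat_lit 0) (nat_lit 18468446) (nat_lit 76) (nat_lit 18468446) (nat_lit 64) (nat_lit 1) (nat_lit 62) (nat_lit 1) (nat_lit 63) (nat_lit 1) (nat_lit 310) (nat_lit 451) (nat_lit 259)) (XT.lf (nat_lit 0) (nat_lit 10445061307) (nat_lit 0) (nat_lit 10496990725) (nat_lit 152) (nat_lit 10445061307) (nat_lit 62) (nat_lit 3) (nat_lit 62) (nat_lit 1) (nat_lit 64) (nat_lit 1) (nat_lit 311) (nat_lit 451) (nat_lit 258)))) (XT.nd (nat_lit 78) (nat_lit 152) (nat_lit 0) (XT.lf (nat_lit 76) (nat_lit 10260638838) (nat_lit 0) (nat_lit 10310095427) (nat_lit 76) (nat_lit 10310095427) (nat_lit 62) (nat_lit 3) (nat_lit 61) (nat_lit 1) (nat_lit 62) (nat_lit 1) (nat_lit 312) (nat_lit 451) (nat_lit 257)) (XT.nd (nat_lit 78) (nat_lit 0) (nat_lit 0) (XT.lf (nat_lit 152) (nat_lit 30360208221) (nat_lit 0) (nat_lit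 15194036) (nat_lit 76) (nat_lit 15194036) (nat_lit 61) (nat_lit 1) (nat_lit 59) (nat_lit 1) (nat_lit 60) (nat_lit 1) (nat_lit 313) (nat_lit 451) (nat_lit 256)) (XT.lf (nat_lit 0) (nat_lit 9949885346) (nat_lit 0) (nat_lit 9992607807) (nat_lit 152) (nat_lit 9949885346) (nat_lit 59) (nat_lit 3) (nat_lit 59) (nat_lit 1) (nat_lit 61) (nat_lit 1) (nat_lit 314) (nat_lit 451) (nat_lit 255))))) (XT.nd (nat_lit 234) (nat_lit 228) (nat_lit 0) (XT.nd (nat_lit 78) (nat_lit 152) (nat_lit 0) (XT.lf (nat_lit 76) (nat_lit 9776278145) (nat_lit 0) (nat_lit 9816966203) (nat_lit 76) (nat_lit 9816966203) (nat_lit 59) (nat_lit 3) (nat_lit 58) (nat_lit 1) (nat_lit 59) (nat_lit 1) (nat_lit 315) (nat_lit 451) (nat_lit 254)) (XT.nd (nat_lit 78) (nat_lit 0) (nat_lit 0) (XT.lf (nat_lit 152) (nat_lit 28918330873) (nat_lit 0) (nat_lit 12500171) (nat_lit 76) (nat_lit 12500171) (nat_lit 58) (nat_lit 1) (nat_lit 56) (nat_lit 1)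 (nat_lit 57) (nat_lit 1) (nat_lit 316) (nat_lit 451) (nat_lit 253)) (XT.lf (nat_lit 0) (nat_lit 9477897736) (nat_lit 0) (nat_lit 9513045610) (nat_lit 152) (nat_lit 9477897736) (nat_lit 56) (nat_lit 3) (nat_lit 56) (nat_lit 1) (nat_lit 58) (nat_lit 1) (nat_lit 317) (nat_lit 451) (nat_lit 252)))) (XT.nd (nat_lit 78) (nat_lit 152) (nat_lit 0) (XT.lf (nat_lit 76) (nat_lit 9314230300) (nat_lit 0) (nat_lit 9347704465) (nat_lit 76) (nat_lit 9347704465) (nat_lit 56) (nat_lit 3) (nat_lit 55) (nat_lit 1) (nat_lit 56) (nat_lit 1) (nat_lit 318) (nat_lit 451) (nat_lit 251)) (XT.nd (nat_lit 78) (nat_lit 0) (nat_lit 0) (XT.lf (nat_lit 152) (nat_lit 27544432314) (nat_lit 0) (nat_lit 10283921) (nat_lit 76) (nat_lit 10283921) (nat_lit 55) (nat_lit 1) (nat_lit 53) (nat_lit 1) (nat_lit 54) (nat_lit 1) (nat_lit 319) (nat_lit 451) (nat_lit 250)) (XT.lf (nat_lit 0) (nat_lit 9028063673) (nat_lit 0) (nat_lit 9056979916)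 (nat_lit 152) (nat_lit 9028063673) (nat_lit 53) (nat_lit 3) (nat_lit 53) (nat_lit 1) (nat_lit 55) (nat_lit 1) (nat_lit 320) (nat_lit 451) (nat_lit 249)))))) (XT.nd (nat_lit 468) (nat_lit 532) (nat_lit 0) (XT.nd (nat_lit 234) (nat_lit 228) (nat_lit 0) (XT.nd (nat_lit 78) (nat_lit 152) (nat_lit 0) (XT.lf (nat_lit 76) (nat_lit 8873566105) (nat_lit 0) (nat_lit 8901105384) (nat_lit 76) (nat_lit 8901105384) (nat_lit 53) (nat_lit 3) (nat_lit 52) (nat_lit 1) (nat_lit 53) (nat_lit 1) (nat_lit 321) (nat_lit 451) (nat_lit 248)) (XT.nd (nat_lit 78) (nat_lit 0) (nat_lit 0) (XT.lf (nat_lit 152) (nat_lit 26235396382) (nat_lit 0) (nat_lit 8460608) (nat_lit 76) (nat_lit 8460608) (nat_lit 52) (nat_lit 1) (nat_lit 50) (nat_lit 1) (nat_lit 51) (nat_lit 1) (nat_lit 322) (nat_lit 451) (nat_lit 247)) (XT.lf (nat_lit 0) (nat_lit 8599385327) (nat_lit 0) (nat_lit 8623174791) (nat_lit 152) (nat_lit 8599385327) (nat_lit 50)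 (nat_lit 3) (nat_lit 50) (nat_lit 1) (nat_lit 52) (nat_lit 1) (nat_lit 323) (nat_lit 451) (nat_lit 246)))) (XT.nd (nat_lit 78) (nat_lit 152) (nat_lit 0) (XT.lf (nat_lit 76) (nat_lit 8453376972) (nat_lit 0) (nat_lit 8476033605) (nat_lit 76) (nat_lit 8476033605) (nat_lit 50) (nat_lit 3) (nat_lit 49) (nat_lit 1) (nat_lit 50) (nat_lit 1) (nat_lit 324) (nat_lit 451) (nat_lit 245)) (XT.nd (nat_lit 78) (nat_lit 0) (nat_lit 0) (XT.lf (nat_lit 152) (nat_lit 24988233864) (nat_lit 0) (nat_lit 6960563) (nat_lit 76) (nat_lit 6960563) (nat_lit 49) (nat_lit 1) (nat_lit 47) (nat_lit 1) (nat_lit 48) (nat_lit 1) (nat_lit 325) (nat_lit 451) (nat_lit 244)) (XT.lf (nat_lit 0) (nat_lit 8190902257) (nat_lit 0) (nat_lit 8210473908) (nat_lit 152) (nat_lit 8190902257) (nat_lit 47) (nat_lit 3) (nat_lit 47) (nat_lit 1) (nat_lit 49) (nat_lit 1) (nat_lit 326) (nat_lit 451) (nat_lit 243))))) (XT.nd (nat_lit 234) (nat_lit 304)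 (nat_lit 0) (XT.nd (nat_lit 78) (nat_lit 152) (nat_lit 0) (XT.lf (nat_lit 76) (nat_lit 8052778134) (nat_lit 0) (nat_lit 8071417802) (nat_lit 76) (nat_lit 8071417802) (nat_lit 47) (nat_lit 3) (nat_lit 46) (nat_lit 1) (nat_lit 47) (nat_lit 1) (nat_lit 327) (nat_lit 451) (nat_lit 242)) (XT.nd (nat_lit 78) (nat_lit 0) (nat_lit 0) (XT.lf (nat_lit 152) (nat_lit 23800080254) (nat_lit 0) (nat_lit 5726472) (nat_lit 76) (nat_lit 5726472) (nat_lit 46) (nat_lit 1) (nat_lit 44) (nat_lit 1) (nat_lit 45) (nat_lit 1) (nat_lit 328) (nat_lit 451) (nat_lit 241)) (XT.lf (nat_lit 0) (nat_lit 7801691430) (nat_lit 0) (nat_lit 7817793076) (nat_lit 152) (nat_lit 7801691430) (nat_lit 44) (nat_lit 3) (nat_lit 44) (nat_lit 1) (nat_lit 46) (nat_lit 1) (nat_lit 329) (nat_lit 451) (nat_lit 240)))) (XT.nd (nat_lit 156) (nat_lit 76) (nat_lit 0) (XT.nd (nat_lit 78) (nat_lit 152) (nat_lit 0) (XT.lf (nat_lit 76) (nat_lit 7670910955)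 (nat_lit 0) (nat_lit 7686245856) (nat_lit 76) (nat_lit 7686245856) (nat_lit 44) (nat_lit 3) (nat_lit 43) (nat_lit 1) (nat_lit 44) (nat_lit 1) (nat_lit 330) (nat_lit 451) (nat_lit 239)) (XT.lf (nat_lit 152) (nat_lit 22668192937) (nat_lit 0) (nat_lit 4711183) (nat_lit 76) (nat_lit 4711183) (nat_lit 43) (nat_lit 1) (nat_lit 41) (nat_lit 1) (nat_lit 42) (nat_lit 1) (nat_lit 331) (nat_lit 451) (nat_lit 238))) (XT.nd (nat_lit 78) (nat_lit 76) (nat_lit 0) (XT.lf (nat_lit 0) (nat_lit 7430866917) (nat_lit 0) (nat_lit 7444113781) (nat_lit 152) (nat_lit 7430866917) (nat_lit 41) (nat_lit 3) (nat_lit 41) (nat_lit 1) (nat_lit 43) (nat_lit 1) (nat_lit 332) (nat_lit 451) (nat_lit 237)) (XT.lf (nat_lit 76) (nat_lit 7306944527) (nat_lit 0) (nat_lit 7319560589) (nat_lit 76) (nat_lit 7319560589) (nat_lit 41) (nat_lit 3) (nat_lit 40) (nat_lit 1) (nat_lit 41) (nat_lit 1) (nat_lit 333) (nat_lit 451) (nat_lit 236))))))))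
noncomputable def ec511 : XT := (XT.nd (nat_lit 49062) (nat_lit 0) (nat_lit 2204) (XT.nd (nat_lit 48048) (nat_lit 0) (nat_lit 4104) (XT.nd (nat_lit 47580) (nat_lit 0) (nat_lit 5168) (XT.nd (nat_lit 234) (nat_lit 152) (nat_lit 0) (XT.nd (nat_lit 78) (nat_lit 76) (nat_lit 0) (XT.lf (nat_lit 152) (nat_lit 21589947964) (nat_lit 0) (nat_lit 3875902) (nat_lit 76) (nat_lit 3875902) (nat_lit 40) (nat_lit 1) (nat_lit 38) (nat_lit 1) (nat_lit 39) (nat_lit 1) (nat_lit 334) (nat_lit 451) (nat_lit 235)) (XT.nd (nat_lit 78) (nat_lit 76) (nat_lit 0) (XT.lf (nat_lit 0) (nat_lit 7077579335) (nat_lit 0) (nat_lit 7088477563) (nat_lit 152) (nat_lit 7077579335) (nat_lit 38) (nat_lit 3) (nat_lit 38) (nat_lit 1) (nat_lit 40) (nat_lit 1) (nat_lit 335) (nat_lit 451) (nat_lit 234)) (XT.lf (nat_lit 76) (nat_lit 6960076680) (nat_lit 0) (nat_lit 6970455945) (nat_lit 76) (nat_lit 6970455945) (nat_lit 38) (nat_lit 3) (nat_lit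 37) (nat_lit 1) (nat_lit 38) (nat_lit 1) (nat_lit 336) (nat_lit 451) (nat_lit 233)))) (XT.nd (nat_lit 47190) (nat_lit 0) (nat_lit 5624) (XT.lf (nat_lit 152) (nat_lit 20562836512) (nat_lit 0) (nat_lit 3188714) (nat_lit 76) (nat_lit 3188714) (nat_lit 37) (nat_lit 1) (nat_lit 35) (nat_lit 1) (nat_lit 36) (nat_lit 1) (nat_lit 337) (nat_lit 451) (nat_lit 232)) (XT.nd (nat_lit 78) (nat_lit 76) (nat_lit 0) (XT.lf (nat_lit 0) (nat_lit 23573396770) (nat_lit 0) (nat_lit 24811388934) (nat_lit 152) (nat_lit 23573396770) (nat_lit 110) (nat_lit 3) (nat_lit 110) (nat_lit 1) (nat_lit 112) (nat_lit 1) (nat_lit 261) (nat_lit 452) (nat_lit 307)) (XT.lf (nat_lit 76) (nat_lit 22812845159) (nat_lit 0) (nat_lit 23991885315) (nat_lit 76) (nat_lit 23991885315) (nat_lit 110) (nat_lit 3) (nat_lit 109) (nat_lit 1) (nat_lit 110) (nat_lit 1) (nat_lit 262) (nat_lit 452) (nat_lit 306))))) (XT.nd (nat_lit 234) (nat_lit 228) (nat_lit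 0) (XT.nd (nat_lit 78) (nat_lit 76) (nat_lit 0) (XT.lf (nat_lit 152) (nat_lit 68946945202) (nat_lit 0) (nat_lit 362224318) (nat_lit 76) (nat_lit 362224318) (nat_lit 109) (nat_lit 1) (nat_lit 107) (nat_lit 1) (nat_lit 108) (nat_lit 1) (nat_lit 263) (nat_lit 452) (nat_lit 305)) (XT.nd (nat_lit 78) (nat_lit 76) (nat_lit 0) (XT.lf (nat_lit 0) (nat_lit 22503490440) (nat_lit 0) (nat_lit 23521989657) (nat_lit 152) (nat_lit 22503490440) (nat_lit 107) (nat_lit 3) (nat_lit 107) (nat_lit 1) (nat_lit 109) (nat_lit 1) (nat_lit 264) (nat_lit 452) (nat_lit 304)) (XT.lf (nat_lit 76) (nat_lit 21827627932) (nat_lit 0) (nat_lit 22797627186) (nat_lit 76) (nat_lit 22797627186) (nat_lit 107) (nat_lit 3) (nat_lit 106) (nat_lit 1) (nat_lit 107) (nat_lit 1) (nat_lit 265) (nat_lit 452) (nat_lit 303)))) (XT.nd (nat_lit 78) (nat_lit 76) (nat_lit 0) (XT.lf (nat_lit 152) (nat_lit 65755465936) (nat_lit 0) (nat_lit 298002843)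 (nat_lit 76) (nat_lit 298002843) (nat_lit 106) (nat_lit 1) (nat_lit 104) (nat_lit 1) (nat_lit 105) (nat_lit 1) (nat_lit 266) (nat_lit 452) (nat_lit 302)) (XT.nd (nat_lit 78) (nat_lit 76) (nat_lit 0) (XT.lf (nat_lit 0) (nat_lit 21475199732) (nat_lit 0) (nat_lit 22313121558) (nat_lit 152) (nat_lit 21475199732) (nat_lit 104) (nat_lit 3) (nat_lit 104) (nat_lit 1) (nat_lit 106) (nat_lit 1) (nat_lit 267) (nat_lit 452) (nat_lit 301)) (XT.lf (nat_lit 76) (nat_lit 20871399483) (nat_lit 0) (nat_lit 21669420270) (nat_lit 76) (nat_lit 21669420270) (nat_lit 104) (nat_lit 3) (nat_lit 103) (nat_lit 1) (nat_lit 104) (nat_lit 1) (nat_lit 268) (nat_lit 452) (nat_lit 300)))))) (XT.nd (nat_lit 468) (nat_lit 608) (nat_lit 0) (XT.nd (nat_lit 234) (nat_lit 228) (nat_lit 0) (XT.nd (nat_lit 78) (nat_lit 76) (nat_lit 0) (XT.lf (nat_lit 152) (nat_lit 62699702166) (nat_lit 0) (nat_lit 245167676) (nat_lit 76) (nat_lit 245167676)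 (nat_lit 103) (nat_lit 1) (nat_lit 101) (nat_lit 1) (nat_lit 102) (nat_lit 1) (nat_lit 269) (nat_lit 452) (nat_lit 299)) (XT.nd (nat_lit 78) (nat_lit 76) (nat_lit 0) (XT.lf (nat_lit 0) (nat_lit 20488197543) (nat_lit 0) (nat_lit 21177557903) (nat_lit 152) (nat_lit 20488197543) (nat_lit 101) (nat_lit 3) (nat_lit 101) (nat_lit 1) (nat_lit 103) (nat_lit 1) (nat_lit 270) (nat_lit 452) (nat_lit 298)) (XT.lf (nat_lit 76) (nat_lit 19945957687) (nat_lit 0) (nat_lit 20602491363) (nat_lit 76) (nat_lit 20602491363) (nat_lit 101) (nat_lit 3) (nat_lit 100) (nat_lit 1) (nat_lit 101) (nat_lit 1) (nat_lit 271) (nat_lit 452) (nat_lit 297)))) (XT.nd (nat_lit 78) (nat_lit 76) (nat_lit 0) (XT.lf (nat_lit 152) (nat_lit 59776074053) (nat_lit 0) (nat_lit 201700054) (nat_lit 76) (nat_lit 201700054) (nat_lit 100) (nat_lit 1) (nat_lit 98) (nat_lit 1) (nat_lit 99) (nat_lit 1) (nat_lit 272) (nat_lit 452) (nat_lit 296)) (XT.nd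 (nat_lit 78) (nat_lit 76) (nat_lit 0) (XT.lf (nat_lit 0) (nat_lit 19541878991) (nat_lit 0) (nat_lit 20109017465) (nat_lit 152) (nat_lit 19541878991) (nat_lit 98) (nat_lit 3) (nat_lit 98) (nat_lit 1) (nat_lit 100) (nat_lit 1) (nat_lit 273) (nat_lit 452) (nat_lit 295)) (XT.lf (nat_lit 76) (nat_lit 19052451304) (nat_lit 0) (nat_lit 19592583184) (nat_lit 76) (nat_lit 19592583184) (nat_lit 98) (nat_lit 3) (nat_lit 97) (nat_lit 1) (nat_lit 98) (nat_lit 1) (nat_lit 274) (nat_lit 452) (nat_lit 294))))) (XT.nd (nat_lit 234) (nat_lit 380) (nat_lit 0) (XT.nd (nat_lit 78) (nat_lit 76) (nat_lit 0) (XT.lf (nat_lit 152) (nat_lit 56980661117) (nat_lit 0) (nat_lit 165939133) (nat_lit 76) (nat_lit 165939133) (nat_lit 97) (nat_lit 1) (nat_lit 95) (nat_lit 1) (nat_lit 96) (nat_lit 1) (nat_lit 275) (nat_lit 452) (nat_lit 293)) (XT.nd (nat_lit 78) (nat_lit 76) (nat_lit 0) (XT.lf (nat_lit 0) (nat_lit 18635426654) (nat_lit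 0) (nat_lit 19102012880) (nat_lit 152) (nat_lit 18635426654) (nat_lit 95) (nat_lit 3) (nat_lit 95) (nat_lit 1) (nat_lit 97) (nat_lit 1) (nat_lit 276) (nat_lit 452) (nat_lit 292)) (XT.lf (nat_lit 76) (nat_lit 18191510793) (nat_lit 0) (nat_lit 18635878628) (nat_lit 76) (nat_lit 18635878628) (nat_lit 95) (nat_lit 3) (nat_lit 94) (nat_lit 1) (nat_lit 95) (nat_lit 1) (nat_lit 277) (nat_lit 452) (nat_lit 291)))) (XT.nd (nat_lit 156) (nat_lit 228) (nat_lit 0) (XT.nd (nat_lit 78) (nat_lit 0) (nat_lit 0) (XT.lf (nat_lit 152) (nat_lit 54309309069) (nat_lit 0) (nat_lit 136518535) (nat_lit 76) (nat_lit 136518535) (nat_lit 94) (nat_lit 1) (nat_lit 92) (nat_lit 1) (nat_lit 93) (nat_lit 1) (nat_lit 278) (nat_lit 452) (nat_lit 290)) (XT.lf (nat_lit 0) (nat_lit 17767863480) (nat_lit 0) (nat_lit 18151725123) (nat_lit 152) (nat_lit 17767863480) (nat_lit 92) (nat_lit 3) (nat_lit 92) (nat_lit 1) (nat_lit 94) (nat_lit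 1) (nat_lit 279) (nat_lit 452) (nat_lit 289))) (XT.nd (nat_lit 78) (nat_lit 152) (nat_lit 0) (XT.lf (nat_lit 76) (nat_lit 17363355193) (nat_lit 0) (nat_lit 17728937710) (nat_lit 76) (nat_lit 17728937710) (nat_lit 92) (nat_lit 3) (nat_lit 91) (nat_lit 1) (nat_lit 92) (nat_lit 1) (nat_lit 280) (nat_lit 452) (nat_lit 288)) (XT.lf (nat_lit 152) (nat_lit 51757715501) (nat_lit 0) (nat_lit 112314137) (nat_lit 76) (nat_lit 112314137) (nat_lit 91) (nat_lit 1) (nat_lit 89) (nat_lit 1) (nat_lit 90) (nat_lit 1) (nat_lit 281) (nat_lit 452) (nat_lit 287))))))) (XT.nd (nat_lit 1014) (nat_lit 988) (nat_lit 0) (XT.nd (nat_lit 468) (nat_lit 456) (nat_lit 0) (XT.nd (nat_lit 234) (nat_lit 228) (nat_lit 0) (XT.nd (nat_lit 78) (nat_lit 228) (nat_lit 0) (XT.lf (nat_lit 0) (nat_lit 16938095593) (nat_lit 0) (nat_lit 17253899517) (nat_lit 152) (nat_lit 16938095593) (nat_lit 89) (nat_lit 3) (nat_lit 89) (nat_lit 1) (nat_lit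 91) (nat_lit 1) (nat_lit 282) (nat_lit 452) (nat_lit 286)) (XT.nd (nat_lit 78) (nat_lit 152) (nat_lit 0) (XT.lf (nat_lit 76) (nat_lit 16567879328) (nat_lit 0) (nat_lit 16868644970) (nat_lit 76) (nat_lit 16868644970) (nat_lit 89) (nat_lit 3) (nat_lit 88) (nat_lit 1) (nat_lit 89) (nat_lit 1) (nat_lit 283) (nat_lit 452) (nat_lit 285)) (XT.lf (nat_lit 152) (nat_lit 49321498277) (nat_lit 0) (nat_lit 92401118) (nat_lit 76) (nat_lit 92401118) (nat_lit 88) (nat_lit 1) (nat_lit 86) (nat_lit 1) (nat_lit 87) (nat_lit 1) (nat_lit 284) (nat_lit 452) (nat_lit 284)))) (XT.nd (nat_lit 78) (nat_lit 228) (nat_lit 0) (XT.lf (nat_lit 0) (nat_lit 16144946816) (nat_lit 0) (nat_lit 16404759486) (nat_lit 152) (nat_lit 16144946816) (nat_lit 86) (nat_lit 3) (nat_lit 86) (nat_lit 1) (nat_lit 88) (nat_lit 1) (nat_lit 285) (nat_lit 452) (nat_lit 283)) (XT.nd (nat_lit 78) (nat_lit 152) (nat_lit 0) (XT.lf (nat_lit 76) (nat_lit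 15804724888) (nat_lit 0) (nat_lit 16052165526) (nat_lit 76) (nat_lit 16052165526) (nat_lit 86) (nat_lit 3) (nat_lit 85) (nat_lit 1) (nat_lit 86) (nat_lit 1) (nat_lit 286) (nat_lit 452) (nat_lit 282)) (XT.lf (nat_lit 152) (nat_lit 46996249782) (nat_lit 0) (nat_lit 76018629) (nat_lit 76) (nat_lit 76018629) (nat_lit 85) (nat_lit 1) (nat_lit 83) (nat_lit 1) (nat_lit 84) (nat_lit 1) (nat_lit 287) (nat_lit 452) (nat_lit 281))))) (XT.nd (nat_lit 234) (nat_lit 228) (nat_lit 0) (XT.nd (nat_lit 78) (nat_lit 228) (nat_lit 0) (XT.lf (nat_lit 0) (nat_lit 15387186419) (nat_lit 0) (nat_lit 15600934945) (nat_lit 152) (nat_lit 15387186419) (nat_lit 83) (nat_lit 3) (nat_lit 83) (nat_lit 1) (nat_lit 85) (nat_lit 1) (nat_lit 288) (nat_lit 452) (nat_lit 280)) (XT.nd (nat_lit 78) (nat_lit 152) (nat_lit 0) (XT.lf (nat_lit 76) (nat_lit 15073338243) (nat_lit 0) (nat_lit 15276908268) (nat_lit 76) (nat_lit 15276908268) (nat_lit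 83) (nat_lit 3) (nat_lit 82) (nat_lit 1) (nat_lit 83) (nat_lit 1) (nat_lit 289) (nat_lit 452) (nat_lit 279)) (XT.lf (nat_lit 152) (nat_lit 44777579658) (nat_lit 0) (nat_lit 62540714) (nat_lit 76) (nat_lit 62540714) (nat_lit 82) (nat_lit 1) (nat_lit 80) (nat_lit 1) (nat_lit 81) (nat_lit 1) (nat_lit 290) (nat_lit 452) (nat_lit 278)))) (XT.nd (nat_lit 156) (nat_lit 152) (nat_lit 0) (XT.nd (nat_lit 78) (nat_lit 76) (nat_lit 0) (XT.lf (nat_lit 0) (nat_lit 14663551316) (nat_lit 0) (nat_lit 14839402758) (nat_lit 152) (nat_lit 14663551316) (nat_lit 80) (nat_lit 3) (nat_lit 80) (nat_lit 1) (nat_lit 82) (nat_lit 1) (nat_lit 291) (nat_lit 452) (nat_lit 277)) (XT.lf (nat_lit 76) (nat_lit 14373017404) (nat_lit 0) (nat_lit 14540494967) (nat_lit 76) (nat_lit 14540494967) (nat_lit 80) (nat_lit 3) (nat_lit 79) (nat_lit 1) (nat_lit 80) (nat_lit 1) (nat_lit 292) (nat_lit 452) (nat_lit 276))) (XT.nd (nat_lit 78) (nat_lit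 0) (nat_lit 0) (XT.lf (nat_lit 152) (nat_lit 42661148130) (nat_lit 0) (nat_lit 51452400) (nat_lit 76) (nat_lit 51452400) (nat_lit 79) (nat_lit 1) (nat_lit 77) (nat_lit 1) (nat_lit 78) (nat_lit 1) (nat_lit 293) (nat_lit 452) (nat_lit 275)) (XT.lf (nat_lit 0) (nat_lit 13972763738) (nat_lit 0) (nat_lit 14117437154) (nat_lit 152) (nat_lit 13972763738) (nat_lit 77) (nat_lit 3) (nat_lit 77) (nat_lit 1) (nat_lit 79) (nat_lit 1) (nat_lit 294) (nat_lit 452) (nat_lit 274)))))) (XT.nd (nat_lit 468) (nat_lit 532) (nat_lit 0) (XT.nd (nat_lit 234) (nat_lit 228) (nat_lit 0) (XT.nd (nat_lit 78) (nat_lit 152) (nat_lit 0) (XT.lf (nat_lit 76) (nat_lit 13702950063) (nat_lit 0) (nat_lit 13840734268) (nat_lit 76) (nat_lit 13840734268) (nat_lit 77) (nat_lit 3) (nat_lit 76) (nat_lit 1) (nat_lit 77) (nat_lit 1) (nat_lit 295) (nat_lit 452) (nat_lit 273)) (XT.nd (nat_lit 78) (nat_lit 0) (nat_lit 0) (XT.lf (nat_lit 152) (nat_lit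 40642691697) (nat_lit 0) (nat_lit 42330017) (nat_lit 76) (nat_lit 42330017) (nat_lit 76) (nat_lit 1) (nat_lit 74) (nat_lit 1) (nat_lit 75) (nat_lit 1) (nat_lit 296) (nat_lit 452) (nat_lit 272)) (XT.lf (nat_lit 0) (nat_lit 13313545193) (nat_lit 0) (nat_lit 13432568370) (nat_lit 152) (nat_lit 13313545193) (nat_lit 74) (nat_lit 3) (nat_lit 74) (nat_lit 1) (nat_lit 76) (nat_lit 1) (nat_lit 297) (nat_lit 452) (nat_lit 271)))) (XT.nd (nat_lit 78) (nat_lit 152) (nat_lit 0) (XT.lf (nat_lit 76) (nat_lit 13062244332) (nat_lit 0) (nat_lit 13175599740) (nat_lit 76) (nat_lit 13175599740) (nat_lit 74) (nat_lit 3) (nat_lit 73) (nat_lit 1) (nat_lit 74) (nat_lit 1) (nat_lit 298) (nat_lit 452) (nat_lit 270)) (XT.nd (nat_lit 78) (nat_lit 0) (nat_lit 0) (XT.lf (nat_lit 152) (nat_lit 38718042615) (nat_lit 0) (nat_lit 34825009) (nat_lit 76) (nat_lit 34825009) (nat_lit 73) (nat_lit 1) (nat_lit 71) (nat_lit 1) (nat_lit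 72) (nat_lit 1) (nat_lit 299) (nat_lit 452) (nat_lit 269)) (XT.lf (nat_lit 0) (nat_lit 12684627422) (nat_lit 0) (nat_lit 12782548085) (nat_lit 152) (nat_lit 12684627422) (nat_lit 71) (nat_lit 3) (nat_lit 71) (nat_lit 1) (nat_lit 73) (nat_lit 1) (nat_lit 300) (nat_lit 452) (nat_lit 268))))) (XT.nd (nat_lit 234) (nat_lit 304) (nat_lit 0) (XT.nd (nat_lit 78) (nat_lit 152) (nat_lit 0) (XT.lf (nat_lit 76) (nat_lit 12449953504) (nat_lit 0) (nat_lit 12543211278) (nat_lit 76) (nat_lit 12543211278) (nat_lit 71) (nat_lit 3) (nat_lit 70) (nat_lit 1) (nat_lit 71) (nat_lit 1) (nat_lit 301) (nat_lit 452) (nat_lit 267)) (XT.nd (nat_lit 78) (nat_lit 0) (nat_lit 0) (XT.lf (nat_lit 152) (nat_lit 36883143358) (nat_lit 0) (nat_lit 28650621) (nat_lit 76) (nat_lit 28650621) (nat_lit 70) (nat_lit 1) (nat_lit 68) (nat_lit 1) (nat_lit 69) (nat_lit 1) (nat_lit 302) (nat_lit 452) (nat_lit 266)) (XT.lf (nat_lit 0) (nat_lit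 12084760890) (nat_lit 0) (nat_lit 12165320461) (nat_lit 152) (nat_lit 12084760890) (nat_lit 68) (nat_lit 3) (nat_lit 68) (nat_lit 1) (nat_lit 70) (nat_lit 1) (nat_lit 303) (nat_lit 452) (nat_lit 265)))) (XT.nd (nat_lit 156) (nat_lit 76) (nat_lit 0) (XT.nd (nat_lit 78) (nat_lit 152) (nat_lit 0) (XT.lf (nat_lit 76) (nat_lit 11865095907) (nat_lit 0) (nat_lit 11941819309) (nat_lit 76) (nat_lit 11941819309) (nat_lit 68) (nat_lit 3) (nat_lit 67) (nat_lit 1) (nat_lit 68) (nat_lit 1) (nat_lit 304) (nat_lit 452) (nat_lit 264)) (XT.lf (nat_lit 152) (nat_lit 35134057014) (nat_lit 0) (nat_lit 23570937) (nat_lit 76) (nat_lit 23570937) (nat_lit 67) (nat_lit 1) (nat_lit 65) (nat_lit 1) (nat_lit 66) (nat_lit 1) (nat_lit 305) (nat_lit 452) (nat_lit 263))) (XT.nd (nat_lit 78) (nat_lit 76) (nat_lit 0) (XT.lf (nat_lit 0) (nat_lit 11512721280) (nat_lit 0) (nat_lit 11578997839) (nat_lit 152) (nat_lit 11512721280) (nat_lit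 65) (nat_lit 3) (nat_lit 65) (nat_lit 1) (nat_lit 67) (nat_lit 1) (nat_lit 306) (nat_lit 452) (nat_lit 262)) (XT.lf (nat_lit 76) (nat_lit 11306670765) (nat_lit 0) (nat_lit 11369791297) (nat_lit 76) (nat_lit 11369791297) (nat_lit 65) (nat_lit 3) (nat_lit 64) (nat_lit 1) (nat_lit 65) (nat_lit 1) (nat_lit 307) (nat_lit 452) (nat_lit 261))))))))

set_option maxRecDepth 10000000 in
noncomputable def Tp : PT := (PT.nd (nat_lit 9468108) (PT.nd (nat_lit 8300448) (PT.nd (nat_lit 5327868) (PT.nd (nat_lit 3045432) (PT.nd (nat_lit 1930656) pc0 pc1) (PT.nd (nat_lit 1167660) pc2 pc3)) (PT.nd (nat_lit 2070042) (PT.nd (nat_lit 1167660) pc4 pc5) (PT.nd (nat_lit 530946) pc6 pc7))) (PT.nd (nat_lit 795366) (PT.nd (nat_lit 477516) (PT.nd (nat_lit 265356) pc8 pc9) (PT.nd (nat_lit 159354) pc10 pc11)) (PT.nd (nat_lit 212394) (PT.nd (nat_lit 106470) pc12 pc13) (PT.nd (nat_lit 54834) pc14 pc15)))) (PT.nd (nat_lit 1428882)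 (PT.nd (nat_lit 422448) (PT.nd (nat_lit 158418) (PT.nd (nat_lit 54366) pc16 pc17) (PT.nd (nat_lit 105612) pc18 pc19)) (PT.nd (nat_lit 423930) (PT.nd (nat_lit 163410) pc20 pc21) (PT.nd (nat_lit 271518) pc22 pc23))) (PT.nd (nat_lit 1125462) (PT.nd (nat_lit 582426) (PT.nd (nat_lit 274092) pc24 pc25) (PT.nd (nat_lit 265122) pc26 pc27)) (PT.nd (nat_lit 585078) (PT.nd (nat_lit 304590) pc28 pc29) (PT.nd (nat_lit 478608) pc30 pc31)))))

set_option maxRecDepth 10000000 in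
noncomputable def Tx : XT := (XT.nd (nat_lit 13955604) (nat_lit 0) (nat_lit 2584) XT.nil (XT.nd (nat_lit 11046672) (nat_lit 0) (nat_lit 0) (XT.nd (nat_lit 4886388) (nat_lit 0) (nat_lit 6232) (XT.nd (nat_lit 3391830) (nat_lit 0) (nat_lit 4104) (XT.nd (nat_lit 2384928) (nat_lit 0) (nat_lit 2508) (XT.nd (nat_lit 1646112) (nat_lit 0) (nat_lit 1444) (XT.nd (nat_lit 1166490) (nat_lit 0) (nat_lit 912) (XT.nd (nat_lit 795834) (nat_lit 0) (nat_lit 456) (XT.nd (nat_lit 531024) (nat_lit 0) (nat_lit 228) (XT.nd (nat_lit 371358) (nat_lit 0) (nat_lit 76) xc0 xc1) (XT.nd (nat_lit 158262) (nat_lit 0) (nat_lit 76) xc2 (XT.nd (nat_lit 53274) (nat_lit 0) (nat_lit 152) xc3 xc4))) (XT.nd (nat_lit 211302) (nat_lit 0) (nat_lit 228) (XT.nd (nat_lit 105924) (nat_lit 0) (nat_lit 76) xc5 (XT.nd (nat_lit 52728) (nat_lit 0) (nat_lit 152) xc6 xc7)) (XT.nd (nat_lit 54912) (nat_lit 0) (nat_lit 76) xc8 (XT.nd (nat_lit 52260) (nat_lit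 0) (nat_lit 0) xc9 xc10)))) (XT.nd (nat_lit 265746) (nat_lit 0) (nat_lit 228) (XT.nd (nat_lit 157872) (nat_lit 0) (nat_lit 76) (XT.nd (nat_lit 54444) (nat_lit 0) (nat_lit 0) xc11 xc12) (XT.nd (nat_lit 53976) (nat_lit 0) (nat_lit 152) xc13 (XT.nd (nat_lit 2496) (nat_lit 304) (nat_lit 0) xc14 xc15))) (XT.nd (nat_lit 107250) (nat_lit 0) (nat_lit 228) (XT.nd (nat_lit 53664) (nat_lit 0) (nat_lit 76) xc16 (XT.nd (nat_lit 51012) (nat_lit 0) (nat_lit 1140) xc17 xc18)) (XT.nd (nat_lit 53352) (nat_lit 0) (nat_lit 0) xc19 (XT.nd (nat_lit 50700) (nat_lit 0) (nat_lit 684) xc20 xc21))))) (XT.nd (nat_lit 420186) (nat_lit 0) (nat_lit 608) (XT.nd (nat_lit 211302) (nat_lit 0) (nat_lit 228) (XT.nd (nat_lit 105924) (nat_lit 0) (nat_lit 152) (XT.nd (nat_lit 53040) (nat_lit 0) (nat_lit 0) xc22 xc23) (XT.nd (nat_lit 52728) (nat_lit 0) (nat_lit 76) xc24 (XT.nd (nat_lit 50076) (nat_lit 0) (nat_lit 1824) xc25 xc26))) (XT.nd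 (nat_lit 104754) (nat_lit 0) (nat_lit 228) (XT.nd (nat_lit 52416) (nat_lit 0) (nat_lit 152) xc27 (XT.nd (nat_lit 49764) (nat_lit 0) (nat_lit 3496) xc28 xc29)) (XT.nd (nat_lit 52104) (nat_lit 0) (nat_lit 0) xc30 (XT.nd (nat_lit 2496) (nat_lit 1824) (nat_lit 0) xc31 xc32)))) (XT.nd (nat_lit 159978) (nat_lit 0) (nat_lit 228) (XT.nd (nat_lit 56784) (nat_lit 0) (nat_lit 0) (XT.nd (nat_lit 4992) (nat_lit 304) (nat_lit 0) xc33 xc34) (XT.nd (nat_lit 51636) (nat_lit 0) (nat_lit 76) xc35 (XT.nd (nat_lit 2496) (nat_lit 684) (nat_lit 0) xc36 xc37))) (XT.nd (nat_lit 56394) (nat_lit 0) (nat_lit 0) (XT.nd (nat_lit 51324) (nat_lit 0) (nat_lit 1444) xc38 (XT.nd (nat_lit 2496) (nat_lit 2736) (nat_lit 0) xc39 xc40)) (XT.nd (nat_lit 51168) (nat_lit 0) (nat_lit 76) xc41 (XT.nd (nat_lit 2496) (nat_lit 912) (nat_lit 0) xc42 xc43)))))) (XT.nd (nat_lit 532584) (nat_lit 0) (nat_lit 760) (XT.nd (nat_lit 268164) (nat_lit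 0) (nat_lit 456) (XT.nd (nat_lit 157248) (nat_lit 0) (nat_lit 228) (XT.nd (nat_lit 55848) (nat_lit 0) (nat_lit 0) (XT.nd (nat_lit 4992) (nat_lit 456) (nat_lit 0) xc44 xc45) (XT.nd (nat_lit 50700) (nat_lit 0) (nat_lit 228) xc46 (XT.nd (nat_lit 2496) (nat_lit 2508) (nat_lit 0) xc47 xc48))) (XT.nd (nat_lit 55536) (nat_lit 0) (nat_lit 76) (XT.nd (nat_lit 4992) (nat_lit 2508) (nat_lit 0) xc49 (XT.nd (nat_lit 47970) (nat_lit 0) (nat_lit 5320) xc50 xc51)) (XT.nd (nat_lit 4992) (nat_lit 152) (nat_lit 0) xc52 (XT.nd (nat_lit 47814) (nat_lit 0) (nat_lit 2888) xc53 xc54)))) (XT.nd (nat_lit 155064) (nat_lit 0) (nat_lit 228) (XT.nd (nat_lit 55146) (nat_lit 0) (nat_lit 0) (XT.nd (nat_lit 50154) (nat_lit 0) (nat_lit 760) xc55 xc56) (XT.nd (nat_lit 49998) (nat_lit 0) (nat_lit 76) xc57 (XT.nd (nat_lit 2496) (nat_lit 1368) (nat_lit 0) xc58 xc59))) (XT.nd (nat_lit 54756) (nat_lit 0) (nat_lit 0) (XT.nd (nat_lit 4992)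 (nat_lit 2052) (nat_lit 0) xc60 (XT.nd (nat_lit 47190) (nat_lit 0) (nat_lit 5548) xc61 xc62)) (XT.nd (nat_lit 4992) (nat_lit 456) (nat_lit 0) xc63 (XT.nd (nat_lit 47034) (nat_lit 0) (nat_lit 4104) xc64 xc65))))) (XT.nd (nat_lit 260520) (nat_lit 0) (nat_lit 380) (XT.nd (nat_lit 108654) (nat_lit 0) (nat_lit 152) (XT.nd (nat_lit 54366) (nat_lit 0) (nat_lit 152) (XT.nd (nat_lit 49374) (nat_lit 0) (nat_lit 2736) xc66 xc67) (XT.nd (nat_lit 49218) (nat_lit 0) (nat_lit 1596) xc68 (XT.nd (nat_lit 2496) (nat_lit 2508) (nat_lit 0) xc69 xc70))) (XT.nd (nat_lit 54132) (nat_lit 0) (nat_lit 76) (XT.nd (nat_lit 49062) (nat_lit 0) (nat_lit 684) xc71 (XT.nd (nat_lit 2496) (nat_lit 2508) (nat_lit 0) xc72 xc73)) (XT.nd (nat_lit 48906) (nat_lit 0) (nat_lit 152) xc74 (XT.nd (nat_lit 2496) (nat_lit 2128) (nat_lit 0) xc75 xc76)))) (XT.nd (nat_lit 107094) (nat_lit 0) (nat_lit 228) (XT.nd (nat_lit 53586) (nat_lit 0) (nat_lit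 76) (XT.nd (nat_lit 4992) (nat_lit 3952) (nat_lit 0) xc77 xc78) (XT.nd (nat_lit 4992) (nat_lit 3572) (nat_lit 0) xc79 (XT.nd (nat_lit 2496) (nat_lit 1064) (nat_lit 0) xc80 xc81))) (XT.nd (nat_lit 53430) (nat_lit 0) (nat_lit 76) (XT.nd (nat_lit 4992) (nat_lit 3040) (nat_lit 0) xc82 (XT.nd (nat_lit 2496) (nat_lit 684) (nat_lit 0) xc83 xc84)) (XT.nd (nat_lit 4992) (nat_lit 2736) (nat_lit 0) xc85 (XT.nd (nat_lit 2496) (nat_lit 380) (nat_lit 0) xc86 xc87))))))) (XT.nd (nat_lit 749580) (nat_lit 0) (nat_lit 1064) (XT.nd (nat_lit 378456) (nat_lit 0) (nat_lit 456) (XT.nd (nat_lit 211458) (nat_lit 0) (nat_lit 228) (XT.nd (nat_lit 106002) (nat_lit 0) (nat_lit 76) (XT.nd (nat_lit 53040) (nat_lit 0) (nat_lit 0) (XT.nd (nat_lit 4992) (nat_lit 2508) (nat_lit 0) xc88 xc89) (XT.nd (nat_lit 4992) (nat_lit 2736) (nat_lit 0) xc90 (XT.nd (nat_lit 2496) (nat_lit 228) (nat_lit 0) xc91 xc92))) (XT.nd (nat_lit 52806) (nat_lit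 0) (nat_lit 152) (XT.nd (nat_lit 4992) (nat_lit 2888) (nat_lit 0) xc93 (XT.nd (nat_lit 2496) (nat_lit 380) (nat_lit 0) xc94 xc95)) (XT.nd (nat_lit 4992) (nat_lit 3040) (nat_lit 0) xc96 (XT.nd (nat_lit 2496) (nat_lit 684) (nat_lit 0) xc97 xc98)))) (XT.nd (nat_lit 104754) (nat_lit 0) (nat_lit 228) (XT.nd (nat_lit 52416) (nat_lit 0) (nat_lit 76) (XT.nd (nat_lit 4992) (nat_lit 3648) (nat_lit 0) xc99 xc100) (XT.nd (nat_lit 4992) (nat_lit 4256) (nat_lit 0) xc101 (XT.nd (nat_lit 2496) (nat_lit 1824) (nat_lit 0) xc102 xc103))) (XT.nd (nat_lit 10062) (nat_lit 0) (nat_lit 0) (XT.nd (nat_lit 4992) (nat_lit 5016) (nat_lit 0) xc104 (XT.nd (nat_lit 2496) (nat_lit 2508) (nat_lit 0) xc105 xc106)) (XT.nd (nat_lit 47112) (nat_lit 0) (nat_lit 988) xc107 (XT.nd (nat_lit 2496) (nat_lit 2508) (nat_lit 0) xc108 xc109))))) (XT.nd (nat_lit 207168) (nat_lit 0) (nat_lit 380) (XT.nd (nat_lit 103818) (nat_lit 0) (nat_lit 228)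 (XT.nd (nat_lit 51948) (nat_lit 0) (nat_lit 76) (XT.nd (nat_lit 46956) (nat_lit 0) (nat_lit 2280) xc110 xc111) (XT.nd (nat_lit 46800) (nat_lit 0) (nat_lit 3420) xc112 (XT.nd (nat_lit 2496) (nat_lit 2508) (nat_lit 0) xc113 xc114))) (XT.nd (nat_lit 51714) (nat_lit 0) (nat_lit 76) (XT.nd (nat_lit 46644) (nat_lit 0) (nat_lit 4712) xc115 (XT.nd (nat_lit 2496) (nat_lit 2508) (nat_lit 0) xc116 xc117)) (XT.nd (nat_lit 46566) (nat_lit 0) (nat_lit 6156) xc118 (XT.nd (nat_lit 2496) (nat_lit 3268) (nat_lit 0) xc119 xc120)))) (XT.nd (nat_lit 102726) (nat_lit 0) (nat_lit 152) (XT.nd (nat_lit 51402) (nat_lit 0) (nat_lit 76) (XT.nd (nat_lit 4992) (nat_lit 1216) (nat_lit 0) xc121 xc122) (XT.nd (nat_lit 4992) (nat_lit 2888) (nat_lit 0) xc123 (XT.nd (nat_lit 2496) (nat_lit 456) (nat_lit 0) xc124 xc125))) (XT.nd (nat_lit 51168) (nat_lit 0) (nat_lit 1672) (XT.nd (nat_lit 4992) (nat_lit 4636) (nat_lit 0) xc126 (XT.nd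 (nat_lit 2496) (nat_lit 2204) (nat_lit 0) xc127 xc128)) (XT.nd (nat_lit 4992) (nat_lit 4940) (nat_lit 0) xc129 (XT.nd (nat_lit 2496) (nat_lit 2508) (nat_lit 0) xc130 xc131)))))) (XT.nd (nat_lit 370344) (nat_lit 0) (nat_lit 608) (XT.nd (nat_lit 205374) (nat_lit 0) (nat_lit 304) (XT.nd (nat_lit 102492) (nat_lit 0) (nat_lit 152) (XT.nd (nat_lit 51168) (nat_lit 0) (nat_lit 76) (XT.nd (nat_lit 46176) (nat_lit 0) (nat_lit 3572) xc132 xc133) (XT.nd (nat_lit 46254) (nat_lit 0) (nat_lit 5320) xc134 (XT.nd (nat_lit 2496) (nat_lit 2812) (nat_lit 0) xc135 xc136))) (XT.nd (nat_lit 51402) (nat_lit 0) (nat_lit 76) (XT.nd (nat_lit 4992) (nat_lit 380) (nat_lit 0) xc137 (XT.nd (nat_lit 43836) (nat_lit 0) (nat_lit 6992) xc138 xc139)) (XT.nd (nat_lit 4992) (nat_lit 2052) (nat_lit 0) xc140 (XT.nd (nat_lit 43914) (nat_lit 0) (nat_lit 9500) xc141 xc142)))) (XT.nd (nat_lit 61542) (nat_lit 0) (nat_lit 76) (XT.nd (nat_lit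 51480) (nat_lit 0) (nat_lit 304) (XT.nd (nat_lit 4992) (nat_lit 3648) (nat_lit 0) xc143 xc144) (XT.nd (nat_lit 4992) (nat_lit 5016) (nat_lit 0) xc145 (XT.nd (nat_lit 2496) (nat_lit 2508) (nat_lit 0) xc146 xc147))) (XT.nd (nat_lit 51636) (nat_lit 0) (nat_lit 152) (XT.nd (nat_lit 46566) (nat_lit 0) (nat_lit 1824) xc148 (XT.nd (nat_lit 2496) (nat_lit 2508) (nat_lit 0) xc149 xc150)) (XT.nd (nat_lit 46722) (nat_lit 0) (nat_lit 3040) xc151 (XT.nd (nat_lit 2496) (nat_lit 2508) (nat_lit 0) xc152 xc153))))) (XT.nd (nat_lit 207870) (nat_lit 0) (nat_lit 228) (XT.nd (nat_lit 103740) (nat_lit 0) (nat_lit 152) (XT.nd (nat_lit 51792) (nat_lit 0) (nat_lit 0) (XT.nd (nat_lit 46800) (nat_lit 0) (nat_lit 4332) xc154 xc155) (XT.nd (nat_lit 46878) (nat_lit 0) (nat_lit 5472) xc156 (XT.nd (nat_lit 2496) (nat_lit 3192) (nat_lit 0) xc157 xc158))) (XT.nd (nat_lit 52026) (nat_lit 0) (nat_lit 76) (XT.nd (nat_lit 4992) (nat_lit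 532) (nat_lit 0) xc159 (XT.nd (nat_lit 44460) (nat_lit 0) (nat_lit 6612) xc160 xc161)) (XT.nd (nat_lit 4992) (nat_lit 1596) (nat_lit 0) xc162 (XT.nd (nat_lit 44538) (nat_lit 0) (nat_lit 7904) xc163 xc164)))) (XT.nd (nat_lit 104364) (nat_lit 0) (nat_lit 228) (XT.nd (nat_lit 52104) (nat_lit 0) (nat_lit 152) (XT.nd (nat_lit 4992) (nat_lit 2660) (nat_lit 0) xc165 xc166) (XT.nd (nat_lit 4992) (nat_lit 3496) (nat_lit 0) xc167 (XT.nd (nat_lit 2496) (nat_lit 1140) (nat_lit 0) xc168 xc169))) (XT.nd (nat_lit 52338) (nat_lit 0) (nat_lit 228) (XT.nd (nat_lit 4992) (nat_lit 4332) (nat_lit 0) xc170 (XT.nd (nat_lit 2496) (nat_lit 1976) (nat_lit 0) xc171 xc172)) (XT.nd (nat_lit 4992) (nat_lit 5016) (nat_lit 0) xc173 (XT.nd (nat_lit 2496) (nat_lit 2508) (nat_lit 0) xc174 xc175)))))))) (XT.nd (nat_lit 1855932) (nat_lit 0) (nat_lit 2964) (XT.nd (nat_lit 848952) (nat_lit 0) (nat_lit 1368) (XT.nd (nat_lit 421746) (nat_lit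 0) (nat_lit 684) (XT.nd (nat_lit 210132) (nat_lit 0) (nat_lit 456) (XT.nd (nat_lit 104832) (nat_lit 0) (nat_lit 228) (XT.nd (nat_lit 52338) (nat_lit 0) (nat_lit 152) (XT.nd (nat_lit 47346) (nat_lit 0) (nat_lit 1140) xc176 xc177) (XT.nd (nat_lit 47424) (nat_lit 0) (nat_lit 1672) xc178 (XT.nd (nat_lit 2496) (nat_lit 2508) (nat_lit 0) xc179 xc180))) (XT.nd (nat_lit 52572) (nat_lit 0) (nat_lit 152) (XT.nd (nat_lit 47502) (nat_lit 0) (nat_lit 2204) xc181 (XT.nd (nat_lit 2496) (nat_lit 2432) (nat_lit 0) xc182 xc183)) (XT.nd (nat_lit 47658) (nat_lit 0) (nat_lit 2508) xc184 (XT.nd (nat_lit 2496) (nat_lit 2432) (nat_lit 0) xc185 xc186)))) (XT.nd (nat_lit 105612) (nat_lit 0) (nat_lit 152) (XT.nd (nat_lit 52728) (nat_lit 0) (nat_lit 0) (XT.nd (nat_lit 47736) (nat_lit 0) (nat_lit 2888) xc187 xc188) (XT.nd (nat_lit 47814) (nat_lit 0) (nat_lit 3192) xc189 (XT.nd (nat_lit 2496) (nat_lit 2432) (nat_lit 0) xc190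 xc191))) (XT.nd (nat_lit 52962) (nat_lit 0) (nat_lit 76) (XT.nd (nat_lit 47892) (nat_lit 0) (nat_lit 3268) xc192 (XT.nd (nat_lit 2496) (nat_lit 2508) (nat_lit 0) xc193 xc194)) (XT.nd (nat_lit 47970) (nat_lit 0) (nat_lit 3344) xc195 (XT.nd (nat_lit 2496) (nat_lit 2660) (nat_lit 0) xc196 xc197))))) (XT.nd (nat_lit 212862) (nat_lit 0) (nat_lit 380) (XT.nd (nat_lit 106236) (nat_lit 0) (nat_lit 228) (XT.nd (nat_lit 53040) (nat_lit 0) (nat_lit 152) (XT.nd (nat_lit 48048) (nat_lit 0) (nat_lit 3420) xc198 xc199) (XT.nd (nat_lit 48126) (nat_lit 0) (nat_lit 3268) xc200 (XT.nd (nat_lit 2496) (nat_lit 2736) (nat_lit 0) xc201 xc202))) (XT.nd (nat_lit 53274) (nat_lit 0) (nat_lit 0) (XT.nd (nat_lit 48204) (nat_lit 0) (nat_lit 3192) xc203 (XT.nd (nat_lit 2496) (nat_lit 2584) (nat_lit 0) xc204 xc205)) (XT.nd (nat_lit 48282) (nat_lit 0) (nat_lit 2964) xc206 (XT.nd (nat_lit 2496) (nat_lit 2736) (nat_lit 0) xc207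 xc208)))) (XT.nd (nat_lit 106938) (nat_lit 0) (nat_lit 228) (XT.nd (nat_lit 53352) (nat_lit 0) (nat_lit 76) (XT.nd (nat_lit 48360) (nat_lit 0) (nat_lit 2736) xc209 xc210) (XT.nd (nat_lit 48516) (nat_lit 0) (nat_lit 2280) xc211 (XT.nd (nat_lit 2496) (nat_lit 2508) (nat_lit 0) xc212 xc213))) (XT.nd (nat_lit 53664) (nat_lit 0) (nat_lit 76) (XT.nd (nat_lit 48594) (nat_lit 0) (nat_lit 1672) xc214 (XT.nd (nat_lit 2496) (nat_lit 2508) (nat_lit 0) xc215 xc216)) (XT.nd (nat_lit 48672) (nat_lit 0) (nat_lit 1064) xc217 (XT.nd (nat_lit 2496) (nat_lit 2432) (nat_lit 0) xc218 xc219)))))) (XT.nd (nat_lit 477282) (nat_lit 0) (nat_lit 836) (XT.nd (nat_lit 259740) (nat_lit 0) (nat_lit 456) (XT.nd (nat_lit 151554) (nat_lit 0) (nat_lit 228) (XT.nd (nat_lit 53742) (nat_lit 0) (nat_lit 152) (XT.nd (nat_lit 48750) (nat_lit 0) (nat_lit 456) xc220 xc221) (XT.nd (nat_lit 48828) (nat_lit 0) (nat_lit 76) xc222 (XT.nd (nat_lit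 2496) (nat_lit 2052) (nat_lit 0) xc223 xc224))) (XT.nd (nat_lit 54054) (nat_lit 0) (nat_lit 152) (XT.nd (nat_lit 4992) (nat_lit 3724) (nat_lit 0) xc225 (XT.nd (nat_lit 2496) (nat_lit 1368) (nat_lit 0) xc226 xc227)) (XT.nd (nat_lit 4992) (nat_lit 2812) (nat_lit 0) xc228 (XT.nd (nat_lit 2496) (nat_lit 304) (nat_lit 0) xc229 xc230)))) (XT.nd (nat_lit 108576) (nat_lit 0) (nat_lit 228) (XT.nd (nat_lit 54210) (nat_lit 0) (nat_lit 152) (XT.nd (nat_lit 4992) (nat_lit 1824) (nat_lit 0) xc231 xc232) (XT.nd (nat_lit 4992) (nat_lit 684) (nat_lit 0) xc233 (XT.nd (nat_lit 46800) (nat_lit 0) (nat_lit 4408) xc234 xc235))) (XT.nd (nat_lit 54444) (nat_lit 0) (nat_lit 0) (XT.nd (nat_lit 49374) (nat_lit 0) (nat_lit 3040) xc236 (XT.nd (nat_lit 2496) (nat_lit 3116) (nat_lit 0) xc237 xc238)) (XT.nd (nat_lit 49452) (nat_lit 0) (nat_lit 1824) xc239 (XT.nd (nat_lit 2496) (nat_lit 2508) (nat_lit 0) xc240 xc241))))) (XT.nd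 (nat_lit 263718) (nat_lit 0) (nat_lit 456) (XT.nd (nat_lit 153894) (nat_lit 0) (nat_lit 228) (XT.nd (nat_lit 54522) (nat_lit 0) (nat_lit 76) (XT.nd (nat_lit 49530) (nat_lit 0) (nat_lit 304) xc242 xc243) (XT.nd (nat_lit 49608) (nat_lit 0) (nat_lit 0) xc244 (XT.nd (nat_lit 2496) (nat_lit 1368) (nat_lit 0) xc245 xc246))) (XT.nd (nat_lit 54834) (nat_lit 0) (nat_lit 76) (XT.nd (nat_lit 4992) (nat_lit 2128) (nat_lit 0) xc247 (XT.nd (nat_lit 47268) (nat_lit 0) (nat_lit 5928) xc248 xc249)) (XT.nd (nat_lit 4992) (nat_lit 456) (nat_lit 0) xc250 (XT.nd (nat_lit 47424) (nat_lit 0) (nat_lit 3572) xc251 xc252)))) (XT.nd (nat_lit 155298) (nat_lit 0) (nat_lit 228) (XT.nd (nat_lit 54990) (nat_lit 0) (nat_lit 76) (XT.nd (nat_lit 49998) (nat_lit 0) (nat_lit 1672) xc253 xc254) (XT.nd (nat_lit 50076) (nat_lit 0) (nat_lit 0) xc255 (XT.nd (nat_lit 2496) (nat_lit 2128) (nat_lit 0) xc256 xc257))) (XT.nd (nat_lit 55302)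 (nat_lit 0) (nat_lit 76) (XT.nd (nat_lit 4992) (nat_lit 2432) (nat_lit 0) xc258 (XT.nd (nat_lit 2496) (nat_lit 76) (nat_lit 0) xc259 xc260)) (XT.nd (nat_lit 4992) (nat_lit 380) (nat_lit 0) xc261 (XT.nd (nat_lit 47814) (nat_lit 0) (nat_lit 3116) xc262 xc263))))))) (XT.nd (nat_lit 1276080) (nat_lit 0) (nat_lit 2280) (XT.nd (nat_lit 585078) (nat_lit 0) (nat_lit 1064) (XT.nd (nat_lit 268242) (nat_lit 0) (nat_lit 456) (XT.nd (nat_lit 156624) (nat_lit 0) (nat_lit 380) (XT.nd (nat_lit 55380) (nat_lit 0) (nat_lit 228) (XT.nd (nat_lit 50388) (nat_lit 0) (nat_lit 912) xc264 xc265) (XT.nd (nat_lit 50544) (nat_lit 0) (nat_lit 0) xc266 (XT.nd (nat_lit 2496) (nat_lit 912) (nat_lit 0) xc267 xc268))) (XT.nd (nat_lit 55770) (nat_lit 0) (nat_lit 76) (XT.nd (nat_lit 4992) (nat_lit 760) (nat_lit 0) xc269 (XT.nd (nat_lit 48204) (nat_lit 0) (nat_lit 3268) xc270 xc271)) (XT.nd (nat_lit 50778) (nat_lit 0) (nat_lit 456)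 xc272 (XT.nd (nat_lit 2496) (nat_lit 2508) (nat_lit 0) xc273 xc274)))) (XT.nd (nat_lit 157950) (nat_lit 0) (nat_lit 380) (XT.nd (nat_lit 101790) (nat_lit 0) (nat_lit 228) (XT.nd (nat_lit 50856) (nat_lit 0) (nat_lit 152) xc275 xc276) (XT.nd (nat_lit 51090) (nat_lit 0) (nat_lit 1824) xc277 (XT.nd (nat_lit 2496) (nat_lit 3344) (nat_lit 0) xc278 xc279))) (XT.nd (nat_lit 102492) (nat_lit 0) (nat_lit 76) (XT.nd (nat_lit 51168) (nat_lit 0) (nat_lit 76) xc280 (XT.nd (nat_lit 2496) (nat_lit 1140) (nat_lit 0) xc281 xc282)) (XT.nd (nat_lit 4992) (nat_lit 456) (nat_lit 0) xc283 (XT.nd (nat_lit 48828) (nat_lit 0) (nat_lit 2204) xc284 xc285))))) (XT.nd (nat_lit 320112) (nat_lit 0) (nat_lit 532) (XT.nd (nat_lit 159588) (nat_lit 0) (nat_lit 304) (XT.nd (nat_lit 102882) (nat_lit 0) (nat_lit 228) (XT.nd (nat_lit 51402) (nat_lit 0) (nat_lit 76) xc286 xc287) (XT.nd (nat_lit 4992) (nat_lit 456) (nat_lit 0) xc288 (XT.nd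 (nat_lit 49140) (nat_lit 0) (nat_lit 1824) xc289 xc290))) (XT.nd (nat_lit 103584) (nat_lit 0) (nat_lit 152) (XT.nd (nat_lit 51714) (nat_lit 0) (nat_lit 0) xc291 (XT.nd (nat_lit 2496) (nat_lit 760) (nat_lit 0) xc292 xc293)) (XT.nd (nat_lit 51870) (nat_lit 0) (nat_lit 760) xc294 (XT.nd (nat_lit 2496) (nat_lit 3116) (nat_lit 0) xc295 xc296)))) (XT.nd (nat_lit 208494) (nat_lit 0) (nat_lit 304) (XT.nd (nat_lit 103974) (nat_lit 0) (nat_lit 228) (XT.nd (nat_lit 51948) (nat_lit 0) (nat_lit 0) xc297 xc298) (XT.nd (nat_lit 52182) (nat_lit 0) (nat_lit 0) xc299 (XT.nd (nat_lit 2496) (nat_lit 1292) (nat_lit 0) xc300 xc301))) (XT.nd (nat_lit 57408) (nat_lit 0) (nat_lit 152) (XT.nd (nat_lit 52338) (nat_lit 0) (nat_lit 380) xc302 (XT.nd (nat_lit 2496) (nat_lit 3116) (nat_lit 0) xc303 xc304)) (XT.nd (nat_lit 52416) (nat_lit 0) (nat_lit 0) xc305 (XT.nd (nat_lit 49998) (nat_lit 0) (nat_lit 1824) xc306 xc307))))))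 (XT.nd (nat_lit 902772) (nat_lit 0) (nat_lit 1748) (XT.nd (nat_lit 423852) (nat_lit 0) (nat_lit 532) (XT.nd (nat_lit 211146) (nat_lit 0) (nat_lit 228) (XT.nd (nat_lit 105378) (nat_lit 0) (nat_lit 76) (XT.nd (nat_lit 52650) (nat_lit 0) (nat_lit 0) xc308 xc309) (XT.nd (nat_lit 52806) (nat_lit 0) (nat_lit 152) xc310 (XT.nd (nat_lit 2496) (nat_lit 76) (nat_lit 0) xc311 xc312))) (XT.nd (nat_lit 106158) (nat_lit 0) (nat_lit 228) (XT.nd (nat_lit 52962) (nat_lit 0) (nat_lit 228) xc313 (XT.nd (nat_lit 2496) (nat_lit 380) (nat_lit 0) xc314 xc315)) (XT.nd (nat_lit 53196) (nat_lit 0) (nat_lit 76) xc316 (XT.nd (nat_lit 2496) (nat_lit 304) (nat_lit 0) xc317 xc318)))) (XT.nd (nat_lit 214110) (nat_lit 0) (nat_lit 608) (XT.nd (nat_lit 106782) (nat_lit 0) (nat_lit 304) (XT.nd (nat_lit 53352) (nat_lit 0) (nat_lit 228) xc319 xc320) (XT.nd (nat_lit 53586) (nat_lit 0) (nat_lit 228) xc321 (XT.nd (nat_lit 51168) (nat_lit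 0) (nat_lit 988) xc322 xc323))) (XT.nd (nat_lit 156546) (nat_lit 0) (nat_lit 304) (XT.nd (nat_lit 53742) (nat_lit 0) (nat_lit 0) xc324 (XT.nd (nat_lit 51324) (nat_lit 0) (nat_lit 228) xc325 xc326)) (XT.nd (nat_lit 54054) (nat_lit 0) (nat_lit 152) xc327 (XT.nd (nat_lit 2496) (nat_lit 152) (nat_lit 0) xc328 xc329))))) (XT.nd (nat_lit 637338) (nat_lit 0) (nat_lit 1672) (XT.nd (nat_lit 316836) (nat_lit 0) (nat_lit 684) (XT.nd (nat_lit 157872) (nat_lit 0) (nat_lit 304) (XT.nd (nat_lit 54210) (nat_lit 0) (nat_lit 0) xc330 xc331) (XT.nd (nat_lit 54522) (nat_lit 0) (nat_lit 152) xc332 (XT.nd (nat_lit 52104) (nat_lit 0) (nat_lit 0) xc333 xc334))) (XT.nd (nat_lit 159822) (nat_lit 0) (nat_lit 532) (XT.nd (nat_lit 54834) (nat_lit 0) (nat_lit 152) xc335 (XT.nd (nat_lit 52416) (nat_lit 0) (nat_lit 152) xc336 xc337)) (XT.nd (nat_lit 55068) (nat_lit 0) (nat_lit 0) xc338 (XT.nd (nat_lit 52728) (nat_lit 0) (nat_lit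 152) xc339 xc340)))) (XT.nd (nat_lit 477360) (nat_lit 0) (nat_lit 1748) (XT.nd (nat_lit 212316) (nat_lit 0) (nat_lit 684) (XT.nd (nat_lit 106002) (nat_lit 0) (nat_lit 152) xc341 xc342) (XT.nd (nat_lit 106782) (nat_lit 0) (nat_lit 228) xc343 (XT.nd (nat_lit 53430) (nat_lit 0) (nat_lit 228) xc344 xc345))) (XT.nd (nat_lit 267150) (nat_lit 0) (nat_lit 988) (XT.nd (nat_lit 107562) (nat_lit 0) (nat_lit 304) xc346 (XT.nd (nat_lit 105378) (nat_lit 0) (nat_lit 684) xc347 xc348)) (XT.nd (nat_lit 212472) (nat_lit 0) (nat_lit 1064) xc349 (XT.nd (nat_lit 159120) (nat_lit 0) (nat_lit 912) xc350 xc351))))))))) XT.nil))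

set_option maxRecDepth 10000000 in
noncomputable def Te : XT := (XT.nd (nat_lit 15438618) (nat_lit 0) (nat_lit 0) XT.nil (XT.nd (nat_lit 8594742) (nat_lit 0) (nat_lit 0) (XT.nd (nat_lit 5829174) (nat_lit 2432) (nat_lit 0) (XT.nd (nat_lit 4037202) (nat_lit 4788) (nat_lit 0) (XT.nd (nat_lit 2815878) (nat_lit 3420) (nat_lit 0) (XT.nd (nat_lit 1965678) (nat_lit 2736) (nat_lit 0) (XT.nd (nat_lit 1379742) (nat_lit 1824) (nat_lit 0) (XT.nd (nat_lit 955032) (nat_lit 1824) (nat_lit 0) (XT.nd (nat_lit 637260) (nat_lit 1976) (nat_lit 0) (XT.nd (nat_lit 424710) (nat_lit 1520) (nat_lit 0) (XT.nd (nat_lit 265668) (nat_lit 1292) (nat_lit 0) ec0 ec1) (XT.nd (nat_lit 106548) (nat_lit 532) (nat_lit 0) ec2 ec3)) (XT.nd (nat_lit 159666) (nat_lit 836) (nat_lit 0) (XT.nd (nat_lit 105300) (nat_lit 532) (nat_lit 0) ec4 ec5) (XT.nd (nat_lit 104208) (nat_lit 152) (nat_lit 0) ec6 ec7))) (XT.nd (nat_lit 213798) (nat_lit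 912) (nat_lit 0) (XT.nd (nat_lit 107172) (nat_lit 532) (nat_lit 0) (XT.nd (nat_lit 53664) (nat_lit 152) (nat_lit 0) ec8 ec9) (XT.nd (nat_lit 53352) (nat_lit 152) (nat_lit 0) ec10 ec11)) (XT.nd (nat_lit 105690) (nat_lit 304) (nat_lit 0) (XT.nd (nat_lit 52884) (nat_lit 304) (nat_lit 0) ec12 ec13) (XT.nd (nat_lit 52650) (nat_lit 304) (nat_lit 0) ec14 ec15)))) (XT.nd (nat_lit 319410) (nat_lit 684) (nat_lit 0) (XT.nd (nat_lit 160524) (nat_lit 532) (nat_lit 0) (XT.nd (nat_lit 104520) (nat_lit 304) (nat_lit 0) (XT.nd (nat_lit 52338) (nat_lit 228) (nat_lit 0) ec16 ec17) (XT.nd (nat_lit 52026) (nat_lit 0) (nat_lit 608) ec18 ec19)) (XT.nd (nat_lit 103584) (nat_lit 228) (nat_lit 0) (XT.nd (nat_lit 51870) (nat_lit 228) (nat_lit 0) ec20 ec21) (XT.nd (nat_lit 51324) (nat_lit 0) (nat_lit 1140) ec22 ec23))) (XT.nd (nat_lit 157170) (nat_lit 228) (nat_lit 0) (XT.nd (nat_lit 102258) (nat_lit 76) (nat_lit 0) (XT.nd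 (nat_lit 51168) (nat_lit 152) (nat_lit 0) ec24 ec25) (XT.nd (nat_lit 3900) (nat_lit 1292) (nat_lit 0) ec26 ec27)) (XT.nd (nat_lit 54756) (nat_lit 152) (nat_lit 0) (XT.nd (nat_lit 50778) (nat_lit 0) (nat_lit 1596) ec28 ec29) (XT.nd (nat_lit 50622) (nat_lit 0) (nat_lit 0) ec30 ec31))))) (XT.nd (nat_lit 476190) (nat_lit 1140) (nat_lit 0) (XT.nd (nat_lit 262704) (nat_lit 836) (nat_lit 0) (XT.nd (nat_lit 154908) (nat_lit 304) (nat_lit 0) (XT.nd (nat_lit 100776) (nat_lit 152) (nat_lit 0) (XT.nd (nat_lit 50466) (nat_lit 76) (nat_lit 0) ec32 ec33) (XT.nd (nat_lit 3900) (nat_lit 1672) (nat_lit 0) ec34 ec35)) (XT.nd (nat_lit 53976) (nat_lit 76) (nat_lit 0) (XT.nd (nat_lit 3900) (nat_lit 836) (nat_lit 0) ec36 ec37) (XT.nd (nat_lit 49842) (nat_lit 0) (nat_lit 3040) ec38 ec39))) (XT.nd (nat_lit 107172) (nat_lit 456) (nat_lit 0) (XT.nd (nat_lit 53664) (nat_lit 228) (nat_lit 0) (XT.nd (nat_lit 49686) (nat_lit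 0) (nat_lit 2356) ec40 ec41) (XT.nd (nat_lit 49530) (nat_lit 0) (nat_lit 2052) ec42 ec43)) (XT.nd (nat_lit 53352) (nat_lit 380) (nat_lit 0) (XT.nd (nat_lit 49374) (nat_lit 0) (nat_lit 1672) ec44 ec45) (XT.nd (nat_lit 48984) (nat_lit 0) (nat_lit 2052) ec46 ec47)))) (XT.nd (nat_lit 210054) (nat_lit 456) (nat_lit 0) (XT.nd (nat_lit 105222) (nat_lit 228) (nat_lit 0) (XT.nd (nat_lit 52650) (nat_lit 228) (nat_lit 0) (XT.nd (nat_lit 48750) (nat_lit 0) (nat_lit 2584) ec48 ec49) (XT.nd (nat_lit 48594) (nat_lit 0) (nat_lit 3192) ec50 ec51)) (XT.nd (nat_lit 52494) (nat_lit 228) (nat_lit 0) (XT.nd (nat_lit 48516) (nat_lit 0) (nat_lit 3800) ec52 ec53) (XT.nd (nat_lit 3900) (nat_lit 152) (nat_lit 0) ec54 ec55))) (XT.nd (nat_lit 104208) (nat_lit 228) (nat_lit 0) (XT.nd (nat_lit 52182) (nat_lit 152) (nat_lit 0) (XT.nd (nat_lit 3900) (nat_lit 760) (nat_lit 0) ec56 ec57) (XT.nd (nat_lit 3900) (nat_lit 1748) (nat_lit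 0) ec58 ec59)) (XT.nd (nat_lit 51870) (nat_lit 0) (nat_lit 0) (XT.nd (nat_lit 3900) (nat_lit 2888) (nat_lit 0) ec60 ec61) (XT.nd (nat_lit 3900) (nat_lit 3876) (nat_lit 0) ec62 ec63)))))) (XT.nd (nat_lit 683592) (nat_lit 1520) (nat_lit 0) (XT.nd (nat_lit 366522) (nat_lit 912) (nat_lit 0) (XT.nd (nat_lit 205842) (nat_lit 456) (nat_lit 0) (XT.nd (nat_lit 103194) (nat_lit 304) (nat_lit 0) (XT.nd (nat_lit 51636) (nat_lit 152) (nat_lit 0) (XT.nd (nat_lit 47736) (nat_lit 0) (nat_lit 1444) ec64 ec65) (XT.nd (nat_lit 47580) (nat_lit 0) (nat_lit 2964) ec66 ec67)) (XT.nd (nat_lit 51402) (nat_lit 76) (nat_lit 0) (XT.nd (nat_lit 47424) (nat_lit 0) (nat_lit 4712) ec68 ec69) (XT.nd (nat_lit 3900) (nat_lit 988) (nat_lit 0) ec70 ec71))) (XT.nd (nat_lit 58968) (nat_lit 304) (nat_lit 0) (XT.nd (nat_lit 51090) (nat_lit 0) (nat_lit 684) (XT.nd (nat_lit 3900) (nat_lit 2736) (nat_lit 0) ec72 ec73) (XT.nd (nat_lit 3900)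 (nat_lit 3876) (nat_lit 0) ec74 ec75)) (XT.nd (nat_lit 50934) (nat_lit 76) (nat_lit 0) (XT.nd (nat_lit 46956) (nat_lit 0) (nat_lit 2964) ec76 ec77) (XT.nd (nat_lit 46800) (nat_lit 0) (nat_lit 5168) ec78 ec79)))) (XT.nd (nat_lit 159198) (nat_lit 456) (nat_lit 0) (XT.nd (nat_lit 58422) (nat_lit 304) (nat_lit 0) (XT.nd (nat_lit 50544) (nat_lit 0) (nat_lit 0) (XT.nd (nat_lit 3900) (nat_lit 1520) (nat_lit 0) ec80 ec81) (XT.nd (nat_lit 3900) (nat_lit 3876) (nat_lit 0) ec82 ec83)) (XT.nd (nat_lit 50466) (nat_lit 76) (nat_lit 0) (XT.nd (nat_lit 46488) (nat_lit 0) (nat_lit 2660) ec84 ec85) (XT.nd (nat_lit 46332) (nat_lit 0) (nat_lit 5320) ec86 ec87))) (XT.nd (nat_lit 58032) (nat_lit 304) (nat_lit 0) (XT.nd (nat_lit 50154) (nat_lit 0) (nat_lit 456) (XT.nd (nat_lit 3900) (nat_lit 1596) (nat_lit 0) ec88 ec89) (XT.nd (nat_lit 3900) (nat_lit 3876) (nat_lit 0) ec90 ec91)) (XT.nd (nat_lit 49998) (nat_lit 76) (nat_lit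 0) (XT.nd (nat_lit 46020) (nat_lit 0) (nat_lit 3648) ec92 ec93) (XT.nd (nat_lit 45864) (nat_lit 0) (nat_lit 6916) ec94 ec95))))) (XT.nd (nat_lit 270816) (nat_lit 836) (nat_lit 0) (XT.nd (nat_lit 156624) (nat_lit 304) (nat_lit 0) (XT.nd (nat_lit 57564) (nat_lit 228) (nat_lit 0) (XT.nd (nat_lit 49686) (nat_lit 0) (nat_lit 2432) (XT.nd (nat_lit 3900) (nat_lit 3116) (nat_lit 0) ec96 ec97) (XT.nd (nat_lit 3900) (nat_lit 3876) (nat_lit 0) ec98 ec99)) (XT.nd (nat_lit 49608) (nat_lit 152) (nat_lit 0) (XT.nd (nat_lit 45630) (nat_lit 0) (nat_lit 5776) ec100 ec101) (XT.nd (nat_lit 3900) (nat_lit 2052) (nat_lit 0) ec102 ec103))) (XT.nd (nat_lit 57174) (nat_lit 76) (nat_lit 0) (XT.nd (nat_lit 7878) (nat_lit 1824) (nat_lit 0) (XT.nd (nat_lit 3900) (nat_lit 3876) (nat_lit 0) ec104 ec105) (XT.nd (nat_lit 45318) (nat_lit 0) (nat_lit 5472) ec106 ec107)) (XT.nd (nat_lit 49140) (nat_lit 0) (nat_lit 1596) (XT.nd (nat_lit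 3900) (nat_lit 1672) (nat_lit 0) ec108 ec109) (XT.nd (nat_lit 3900) (nat_lit 3876) (nat_lit 0) ec110 ec111)))) (XT.nd (nat_lit 154284) (nat_lit 380) (nat_lit 0) (XT.nd (nat_lit 97734) (nat_lit 76) (nat_lit 0) (XT.nd (nat_lit 48906) (nat_lit 228) (nat_lit 0) (XT.nd (nat_lit 45006) (nat_lit 0) (nat_lit 5700) ec112 ec113) (XT.nd (nat_lit 3900) (nat_lit 2052) (nat_lit 0) ec114 ec115)) (XT.nd (nat_lit 7878) (nat_lit 2356) (nat_lit 0) (XT.nd (nat_lit 3900) (nat_lit 3876) (nat_lit 0) ec116 ec117) (XT.nd (nat_lit 44694) (nat_lit 0) (nat_lit 6460) ec118 ec119))) (XT.nd (nat_lit 56394) (nat_lit 228) (nat_lit 0) (XT.nd (nat_lit 48516) (nat_lit 0) (nat_lit 3344) (XT.nd (nat_lit 3900) (nat_lit 2888) (nat_lit 0) ec120 ec121) (XT.nd (nat_lit 3900) (nat_lit 3800) (nat_lit 0) ec122 ec123)) (XT.nd (nat_lit 48360) (nat_lit 0) (nat_lit 380) (XT.nd (nat_lit 44382) (nat_lit 0) (nat_lit 8208) ec124 ec125) (XT.nd (nat_lit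 3900) (nat_lit 3876) (nat_lit 0) ec126 ec127))))))) (XT.nd (nat_lit 955032) (nat_lit 2280) (nat_lit 0) (XT.nd (nat_lit 522522) (nat_lit 1140) (nat_lit 0) (XT.nd (nat_lit 263016) (nat_lit 684) (nat_lit 0) (XT.nd (nat_lit 151944) (nat_lit 228) (nat_lit 0) (XT.nd (nat_lit 96174) (nat_lit 228) (nat_lit 0) (XT.nd (nat_lit 48126) (nat_lit 152) (nat_lit 0) (XT.nd (nat_lit 44226) (nat_lit 0) (nat_lit 5092) ec128 ec129) (XT.nd (nat_lit 3900) (nat_lit 1520) (nat_lit 0) ec130 ec131)) (XT.nd (nat_lit 7878) (nat_lit 2660) (nat_lit 0) (XT.nd (nat_lit 3900) (nat_lit 3876) (nat_lit 0) ec132 ec133) (XT.nd (nat_lit 43914) (nat_lit 0) (nat_lit 7524) ec134 ec135))) (XT.nd (nat_lit 55614) (nat_lit 152) (nat_lit 0) (XT.nd (nat_lit 47736) (nat_lit 0) (nat_lit 5092) (XT.nd (nat_lit 3900) (nat_lit 3876) (nat_lit 0) ec136 ec137) (XT.nd (nat_lit 3900) (nat_lit 4028) (nat_lit 0) ec138 ec139)) (XT.nd (nat_lit 47580) (nat_lit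 0) (nat_lit 2736) (XT.nd (nat_lit 3900) (nat_lit 1368) (nat_lit 0) ec140 ec141) (XT.nd (nat_lit 3900) (nat_lit 3876) (nat_lit 0) ec142 ec143)))) (XT.nd (nat_lit 149838) (nat_lit 228) (nat_lit 0) (XT.nd (nat_lit 55302) (nat_lit 380) (nat_lit 0) (XT.nd (nat_lit 47424) (nat_lit 0) (nat_lit 532) (XT.nd (nat_lit 43524) (nat_lit 0) (nat_lit 8132) ec144 ec145) (XT.nd (nat_lit 3900) (nat_lit 3876) (nat_lit 0) ec146 ec147)) (XT.nd (nat_lit 47346) (nat_lit 228) (nat_lit 0) (XT.nd (nat_lit 43368) (nat_lit 0) (nat_lit 6156) ec148 ec149) (XT.nd (nat_lit 3900) (nat_lit 2660) (nat_lit 0) ec150 ec151))) (XT.nd (nat_lit 54912) (nat_lit 152) (nat_lit 0) (XT.nd (nat_lit 7878) (nat_lit 4408) (nat_lit 0) (XT.nd (nat_lit 3900) (nat_lit 3876) (nat_lit 0) ec152 ec153) (XT.nd (nat_lit 3900) (nat_lit 684) (nat_lit 0) ec154 ec155)) (XT.nd (nat_lit 7878) (nat_lit 2736) (nat_lit 0) (XT.nd (nat_lit 3900) (nat_lit 3876) (nat_lit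 0) ec156 ec157) (XT.nd (nat_lit 42900) (nat_lit 0) (nat_lit 8664) ec158 ec159))))) (XT.nd (nat_lit 217386) (nat_lit 456) (nat_lit 0) (XT.nd (nat_lit 108966) (nat_lit 380) (nat_lit 0) (XT.nd (nat_lit 54522) (nat_lit 76) (nat_lit 0) (XT.nd (nat_lit 7800) (nat_lit 1292) (nat_lit 0) (XT.nd (nat_lit 3900) (nat_lit 3724) (nat_lit 0) ec160 ec161) (XT.nd (nat_lit 42744) (nat_lit 0) (nat_lit 7296) ec162 ec163)) (XT.nd (nat_lit 46566) (nat_lit 0) (nat_lit 6004) (XT.nd (nat_lit 3900) (nat_lit 3648) (nat_lit 0) ec164 ec165) (XT.nd (nat_lit 3900) (nat_lit 3952) (nat_lit 0) ec166 ec167))) (XT.nd (nat_lit 54288) (nat_lit 228) (nat_lit 0) (XT.nd (nat_lit 46410) (nat_lit 0) (nat_lit 4788) (XT.nd (nat_lit 3900) (nat_lit 2280) (nat_lit 0) ec168 ec169) (XT.nd (nat_lit 3900) (nat_lit 3876) (nat_lit 0) ec170 ec171)) (XT.nd (nat_lit 46254) (nat_lit 0) (nat_lit 3876) (XT.nd (nat_lit 3900) (nat_lit 1292) (nat_lit 0) ec172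 ec173) (XT.nd (nat_lit 3900) (nat_lit 3876) (nat_lit 0) ec174 ec175)))) (XT.nd (nat_lit 107796) (nat_lit 228) (nat_lit 0) (XT.nd (nat_lit 53898) (nat_lit 152) (nat_lit 0) (XT.nd (nat_lit 46020) (nat_lit 0) (nat_lit 3040) (XT.nd (nat_lit 3900) (nat_lit 228) (nat_lit 0) ec176 ec177) (XT.nd (nat_lit 3900) (nat_lit 3876) (nat_lit 0) ec178 ec179)) (XT.nd (nat_lit 46020) (nat_lit 0) (nat_lit 2280) (XT.nd (nat_lit 42042) (nat_lit 0) (nat_lit 9956) ec180 ec181) (XT.nd (nat_lit 3900) (nat_lit 3876) (nat_lit 0) ec182 ec183))) (XT.nd (nat_lit 53742) (nat_lit 152) (nat_lit 0) (XT.nd (nat_lit 45864) (nat_lit 0) (nat_lit 1672) (XT.nd (nat_lit 41886) (nat_lit 0) (nat_lit 9272) ec184 ec185) (XT.nd (nat_lit 3900) (nat_lit 3876) (nat_lit 0) ec186 ec187)) (XT.nd (nat_lit 45708) (nat_lit 0) (nat_lit 1140) (XT.nd (nat_lit 41730) (nat_lit 0) (nat_lit 8892) ec188 ec189) (XT.nd (nat_lit 3900) (nat_lit 3876) (nat_lit 0)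 ec190 ec191)))))) (XT.nd (nat_lit 423150) (nat_lit 1140) (nat_lit 0) (XT.nd (nat_lit 212706) (nat_lit 456) (nat_lit 0) (XT.nd (nat_lit 106626) (nat_lit 380) (nat_lit 0) (XT.nd (nat_lit 53352) (nat_lit 76) (nat_lit 0) (XT.nd (nat_lit 45474) (nat_lit 0) (nat_lit 1064) (XT.nd (nat_lit 41574) (nat_lit 0) (nat_lit 8664) ec192 ec193) (XT.nd (nat_lit 3900) (nat_lit 3876) (nat_lit 0) ec194 ec195)) (XT.nd (nat_lit 45396) (nat_lit 0) (nat_lit 760) (XT.nd (nat_lit 41418) (nat_lit 0) (nat_lit 8512) ec196 ec197) (XT.nd (nat_lit 3900) (nat_lit 3876) (nat_lit 0) ec198 ec199))) (XT.nd (nat_lit 53118) (nat_lit 228) (nat_lit 0) (XT.nd (nat_lit 45240) (nat_lit 0) (nat_lit 836) (XT.nd (nat_lit 41262) (nat_lit 0) (nat_lit 8436) ec200 ec201) (XT.nd (nat_lit 3900) (nat_lit 3876) (nat_lit 0) ec202 ec203)) (XT.nd (nat_lit 45084) (nat_lit 0) (nat_lit 1064) (XT.nd (nat_lit 41106) (nat_lit 0) (nat_lit 8664) ec204 ec205) (XT.nd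 (nat_lit 3900) (nat_lit 3876) (nat_lit 0) ec206 ec207)))) (XT.nd (nat_lit 105456) (nat_lit 228) (nat_lit 0) (XT.nd (nat_lit 52728) (nat_lit 152) (nat_lit 0) (XT.nd (nat_lit 44850) (nat_lit 0) (nat_lit 1368) (XT.nd (nat_lit 40950) (nat_lit 0) (nat_lit 8968) ec208 ec209) (XT.nd (nat_lit 3900) (nat_lit 3876) (nat_lit 0) ec210 ec211)) (XT.nd (nat_lit 44850) (nat_lit 0) (nat_lit 1748) (XT.nd (nat_lit 40872) (nat_lit 0) (nat_lit 9348) ec212 ec213) (XT.nd (nat_lit 3900) (nat_lit 3876) (nat_lit 0) ec214 ec215))) (XT.nd (nat_lit 52572) (nat_lit 152) (nat_lit 0) (XT.nd (nat_lit 44694) (nat_lit 0) (nat_lit 2128) (XT.nd (nat_lit 40716) (nat_lit 0) (nat_lit 9880) ec216 ec217) (XT.nd (nat_lit 3900) (nat_lit 3876) (nat_lit 0) ec218 ec219)) (XT.nd (nat_lit 44538) (nat_lit 0) (nat_lit 2888) (XT.nd (nat_lit 40560) (nat_lit 0) (nat_lit 10488) ec220 ec221) (XT.nd (nat_lit 3900) (nat_lit 3876) (nat_lit 0) ec222 ec223)))))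 (XT.nd (nat_lit 208026) (nat_lit 456) (nat_lit 0) (XT.nd (nat_lit 104286) (nat_lit 380) (nat_lit 0) (XT.nd (nat_lit 52182) (nat_lit 76) (nat_lit 0) (XT.nd (nat_lit 44304) (nat_lit 0) (nat_lit 3876) (XT.nd (nat_lit 40404) (nat_lit 0) (nat_lit 11552) ec224 ec225) (XT.nd (nat_lit 3900) (nat_lit 3876) (nat_lit 0) ec226 ec227)) (XT.nd (nat_lit 44226) (nat_lit 0) (nat_lit 4788) (XT.nd (nat_lit 3900) (nat_lit 76) (nat_lit 0) ec228 ec229) (XT.nd (nat_lit 3900) (nat_lit 3876) (nat_lit 0) ec230 ec231))) (XT.nd (nat_lit 51948) (nat_lit 228) (nat_lit 0) (XT.nd (nat_lit 44070) (nat_lit 0) (nat_lit 5928) (XT.nd (nat_lit 3900) (nat_lit 1140) (nat_lit 0) ec232 ec233) (XT.nd (nat_lit 3900) (nat_lit 3876) (nat_lit 0) ec234 ec235)) (XT.nd (nat_lit 43914) (nat_lit 0) (nat_lit 7296) (XT.nd (nat_lit 3900) (nat_lit 2280) (nat_lit 0) ec236 ec237) (XT.nd (nat_lit 3900) (nat_lit 3876) (nat_lit 0) ec238 ec239)))) (XT.nd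 (nat_lit 103116) (nat_lit 228) (nat_lit 0) (XT.nd (nat_lit 51558) (nat_lit 152) (nat_lit 0) (XT.nd (nat_lit 43680) (nat_lit 0) (nat_lit 8740) (XT.nd (nat_lit 3900) (nat_lit 3496) (nat_lit 0) ec240 ec241) (XT.nd (nat_lit 3900) (nat_lit 3952) (nat_lit 0) ec242 ec243)) (XT.nd (nat_lit 7878) (nat_lit 1140) (nat_lit 0) (XT.nd (nat_lit 3900) (nat_lit 3876) (nat_lit 0) ec244 ec245) (XT.nd (nat_lit 39702) (nat_lit 0) (nat_lit 10260) ec246 ec247))) (XT.nd (nat_lit 51402) (nat_lit 152) (nat_lit 0) (XT.nd (nat_lit 7878) (nat_lit 2584) (nat_lit 0) (XT.nd (nat_lit 3900) (nat_lit 3876) (nat_lit 0) ec248 ec249) (XT.nd (nat_lit 39546) (nat_lit 0) (nat_lit 11780) ec250 ec251)) (XT.nd (nat_lit 7878) (nat_lit 4332) (nat_lit 0) (XT.nd (nat_lit 3900) (nat_lit 3876) (nat_lit 0) ec252 ec253) (XT.nd (nat_lit 3900) (nat_lit 456) (nat_lit 0) ec254 ec255)))))))) (XT.nd (nat_lit 1377402) (nat_lit 0) (nat_lit 0) (XT.nd (nat_lit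 700362) (nat_lit 608) (nat_lit 0) (XT.nd (nat_lit 370188) (nat_lit 836) (nat_lit 0) (XT.nd (nat_lit 168480) (nat_lit 532) (nat_lit 0) (XT.nd (nat_lit 66768) (nat_lit 228) (nat_lit 0) (XT.nd (nat_lit 51012) (nat_lit 0) (nat_lit 456) (XT.nd (nat_lit 7800) (nat_lit 6308) (nat_lit 0) (XT.nd (nat_lit 3900) (nat_lit 3724) (nat_lit 0) ec256 ec257) (XT.nd (nat_lit 3900) (nat_lit 2508) (nat_lit 0) ec258 ec259)) (XT.nd (nat_lit 7878) (nat_lit 7676) (nat_lit 0) (XT.nd (nat_lit 3900) (nat_lit 3800) (nat_lit 0) ec260 ec261) (XT.nd (nat_lit 3900) (nat_lit 3876) (nat_lit 0) ec262 ec263))) (XT.nd (nat_lit 50934) (nat_lit 152) (nat_lit 0) (XT.nd (nat_lit 43056) (nat_lit 0) (nat_lit 2508) (XT.nd (nat_lit 39078) (nat_lit 0) (nat_lit 10108) ec264 ec265) (XT.nd (nat_lit 3900) (nat_lit 3876) (nat_lit 0) ec266 ec267)) (XT.nd (nat_lit 42900) (nat_lit 0) (nat_lit 4788) (XT.nd (nat_lit 38922) (nat_lit 0) (nat_lit 12388)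 ec268 ec269) (XT.nd (nat_lit 3900) (nat_lit 3876) (nat_lit 0) ec270 ec271)))) (XT.nd (nat_lit 101088) (nat_lit 304) (nat_lit 0) (XT.nd (nat_lit 50544) (nat_lit 0) (nat_lit 0) (XT.nd (nat_lit 42666) (nat_lit 0) (nat_lit 7296) (XT.nd (nat_lit 3900) (nat_lit 1140) (nat_lit 0) ec272 ec273) (XT.nd (nat_lit 3900) (nat_lit 3876) (nat_lit 0) ec274 ec275)) (XT.nd (nat_lit 42666) (nat_lit 0) (nat_lit 9728) (XT.nd (nat_lit 3900) (nat_lit 3572) (nat_lit 0) ec276 ec277) (XT.nd (nat_lit 3900) (nat_lit 4028) (nat_lit 0) ec278 ec279))) (XT.nd (nat_lit 50388) (nat_lit 76) (nat_lit 0) (XT.nd (nat_lit 7878) (nat_lit 2280) (nat_lit 0) (XT.nd (nat_lit 3900) (nat_lit 3876) (nat_lit 0) ec280 ec281) (XT.nd (nat_lit 38532) (nat_lit 0) (nat_lit 12388) ec282 ec283)) (XT.nd (nat_lit 7878) (nat_lit 4864) (nat_lit 0) (XT.nd (nat_lit 3900) (nat_lit 3876) (nat_lit 0) ec284 ec285) (XT.nd (nat_lit 3900) (nat_lit 988) (nat_lit 0)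 ec286 ec287))))) (XT.nd (nat_lit 165672) (nat_lit 456) (nat_lit 0) (XT.nd (nat_lit 65832) (nat_lit 228) (nat_lit 0) (XT.nd (nat_lit 50076) (nat_lit 0) (nat_lit 2736) (XT.nd (nat_lit 7800) (nat_lit 7752) (nat_lit 0) (XT.nd (nat_lit 3900) (nat_lit 3800) (nat_lit 0) ec288 ec289) (XT.nd (nat_lit 3900) (nat_lit 3876) (nat_lit 0) ec290 ec291)) (XT.nd (nat_lit 7878) (nat_lit 7752) (nat_lit 0) (XT.nd (nat_lit 3900) (nat_lit 4028) (nat_lit 0) ec292 ec293) (XT.nd (nat_lit 3900) (nat_lit 3876) (nat_lit 0) ec294 ec295))) (XT.nd (nat_lit 49998) (nat_lit 152) (nat_lit 0) (XT.nd (nat_lit 42120) (nat_lit 0) (nat_lit 5776) (XT.nd (nat_lit 38142) (nat_lit 0) (nat_lit 13376) ec296 ec297) (XT.nd (nat_lit 3900) (nat_lit 3876) (nat_lit 0) ec298 ec299)) (XT.nd (nat_lit 41964) (nat_lit 0) (nat_lit 8892) (XT.nd (nat_lit 3900) (nat_lit 2052) (nat_lit 0) ec300 ec301) (XT.nd (nat_lit 3900) (nat_lit 3876) (nat_lit 0) ec302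 ec303)))) (XT.nd (nat_lit 99294) (nat_lit 228) (nat_lit 0) (XT.nd (nat_lit 49686) (nat_lit 152) (nat_lit 0) (XT.nd (nat_lit 7800) (nat_lit 1444) (nat_lit 0) (XT.nd (nat_lit 3900) (nat_lit 3800) (nat_lit 0) ec304 ec305) (XT.nd (nat_lit 37908) (nat_lit 0) (nat_lit 12160) ec306 ec307)) (XT.nd (nat_lit 7878) (nat_lit 4712) (nat_lit 0) (XT.nd (nat_lit 3900) (nat_lit 3876) (nat_lit 0) ec308 ec309) (XT.nd (nat_lit 3900) (nat_lit 912) (nat_lit 0) ec310 ec311))) (XT.nd (nat_lit 15756) (nat_lit 456) (nat_lit 0) (XT.nd (nat_lit 7878) (nat_lit 7752) (nat_lit 0) (XT.nd (nat_lit 3900) (nat_lit 3876) (nat_lit 0) ec312 ec313) (XT.nd (nat_lit 3900) (nat_lit 3876) (nat_lit 0) ec314 ec315)) (XT.nd (nat_lit 41574) (nat_lit 0) (nat_lit 3876) (XT.nd (nat_lit 37596) (nat_lit 0) (nat_lit 11628) ec316 ec317) (XT.nd (nat_lit 3900) (nat_lit 3876) (nat_lit 0) ec318 ec319)))))) (XT.nd (nat_lit 357786) (nat_lit 0) (nat_lit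 0) (XT.nd (nat_lit 163176) (nat_lit 304) (nat_lit 0) (XT.nd (nat_lit 98358) (nat_lit 76) (nat_lit 0) (XT.nd (nat_lit 49218) (nat_lit 152) (nat_lit 0) (XT.nd (nat_lit 41340) (nat_lit 0) (nat_lit 7600) (XT.nd (nat_lit 3900) (nat_lit 228) (nat_lit 0) ec320 ec321) (XT.nd (nat_lit 3900) (nat_lit 3876) (nat_lit 0) ec322 ec323)) (XT.nd (nat_lit 7878) (nat_lit 152) (nat_lit 0) (XT.nd (nat_lit 3900) (nat_lit 3876) (nat_lit 0) ec324 ec325) (XT.nd (nat_lit 37284) (nat_lit 0) (nat_lit 11552) ec326 ec327))) (XT.nd (nat_lit 49062) (nat_lit 0) (nat_lit 76) (XT.nd (nat_lit 7878) (nat_lit 3952) (nat_lit 0) (XT.nd (nat_lit 3900) (nat_lit 3876) (nat_lit 0) ec328 ec329) (XT.nd (nat_lit 3900) (nat_lit 76) (nat_lit 0) ec330 ec331)) (XT.nd (nat_lit 7878) (nat_lit 7676) (nat_lit 0) (XT.nd (nat_lit 3900) (nat_lit 3876) (nat_lit 0) ec332 ec333) (XT.nd (nat_lit 3900) (nat_lit 3876) (nat_lit 0) ec334 ec335)))) (XT.nd (nat_lit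 97578) (nat_lit 0) (nat_lit 0) (XT.nd (nat_lit 48828) (nat_lit 152) (nat_lit 0) (XT.nd (nat_lit 40950) (nat_lit 0) (nat_lit 4256) (XT.nd (nat_lit 37050) (nat_lit 0) (nat_lit 11856) ec336 ec337) (XT.nd (nat_lit 3900) (nat_lit 3876) (nat_lit 0) ec338 ec339)) (XT.nd (nat_lit 40872) (nat_lit 0) (nat_lit 8512) (XT.nd (nat_lit 3900) (nat_lit 608) (nat_lit 0) ec340 ec341) (XT.nd (nat_lit 3900) (nat_lit 3876) (nat_lit 0) ec342 ec343))) (XT.nd (nat_lit 48594) (nat_lit 0) (nat_lit 0) (XT.nd (nat_lit 7878) (nat_lit 836) (nat_lit 0) (XT.nd (nat_lit 3900) (nat_lit 3876) (nat_lit 0) ec344 ec345) (XT.nd (nat_lit 36738) (nat_lit 0) (nat_lit 12692) ec346 ec347)) (XT.nd (nat_lit 7878) (nat_lit 5092) (nat_lit 0) (XT.nd (nat_lit 3900) (nat_lit 3876) (nat_lit 0) ec348 ec349) (XT.nd (nat_lit 3900) (nat_lit 1292) (nat_lit 0) ec350 ec351))))) (XT.nd (nat_lit 160290) (nat_lit 0) (nat_lit 0) (XT.nd (nat_lit 64038) (nat_lit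 0) (nat_lit 0) (XT.nd (nat_lit 15678) (nat_lit 1900) (nat_lit 0) (XT.nd (nat_lit 7800) (nat_lit 7600) (nat_lit 0) (XT.nd (nat_lit 3900) (nat_lit 3876) (nat_lit 0) ec352 ec353) (XT.nd (nat_lit 3900) (nat_lit 3876) (nat_lit 0) ec354 ec355)) (XT.nd (nat_lit 40482) (nat_lit 0) (nat_lit 6308) (XT.nd (nat_lit 36504) (nat_lit 0) (nat_lit 14060) ec356 ec357) (XT.nd (nat_lit 3900) (nat_lit 3876) (nat_lit 0) ec358 ec359))) (XT.nd (nat_lit 48204) (nat_lit 0) (nat_lit 0) (XT.nd (nat_lit 40326) (nat_lit 0) (nat_lit 11020) (XT.nd (nat_lit 3900) (nat_lit 2584) (nat_lit 0) ec360 ec361) (XT.nd (nat_lit 3900) (nat_lit 3876) (nat_lit 0) ec362 ec363)) (XT.nd (nat_lit 7878) (nat_lit 3344) (nat_lit 0) (XT.nd (nat_lit 3900) (nat_lit 3876) (nat_lit 0) ec364 ec365) (XT.nd (nat_lit 3900) (nat_lit 0) (nat_lit 0) ec366 ec367)))) (XT.nd (nat_lit 63570) (nat_lit 0) (nat_lit 0) (XT.nd (nat_lit 15678) (nat_lit 532) (nat_lit 0)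 (XT.nd (nat_lit 7800) (nat_lit 7600) (nat_lit 0) (XT.nd (nat_lit 3900) (nat_lit 3876) (nat_lit 0) ec368 ec369) (XT.nd (nat_lit 3900) (nat_lit 3876) (nat_lit 0) ec370 ec371)) (XT.nd (nat_lit 40014) (nat_lit 0) (nat_lit 5396) (XT.nd (nat_lit 36036) (nat_lit 0) (nat_lit 13148) ec372 ec373) (XT.nd (nat_lit 3900) (nat_lit 3876) (nat_lit 0) ec374 ec375))) (XT.nd (nat_lit 47736) (nat_lit 0) (nat_lit 0) (XT.nd (nat_lit 39858) (nat_lit 0) (nat_lit 10564) (XT.nd (nat_lit 3900) (nat_lit 1672) (nat_lit 0) ec376 ec377) (XT.nd (nat_lit 3900) (nat_lit 3800) (nat_lit 0) ec378 ec379)) (XT.nd (nat_lit 7878) (nat_lit 2888) (nat_lit 0) (XT.nd (nat_lit 3900) (nat_lit 3876) (nat_lit 0) ec380 ec381) (XT.nd (nat_lit 3900) (nat_lit 0) (nat_lit 0) ec382 ec383))))))) (XT.nd (nat_lit 593424) (nat_lit 0) (nat_lit 0) (XT.nd (nat_lit 314262) (nat_lit 0) (nat_lit 0) (XT.nd (nat_lit 157716) (nat_lit 0) (nat_lit 0) (XT.nd (nat_lit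 63180) (nat_lit 0) (nat_lit 0) (XT.nd (nat_lit 15678) (nat_lit 380) (nat_lit 0) (XT.nd (nat_lit 7800) (nat_lit 7752) (nat_lit 0) (XT.nd (nat_lit 3900) (nat_lit 3800) (nat_lit 0) ec384 ec385) (XT.nd (nat_lit 3900) (nat_lit 3876) (nat_lit 0) ec386 ec387)) (XT.nd (nat_lit 39624) (nat_lit 0) (nat_lit 5776) (XT.nd (nat_lit 35646) (nat_lit 0) (nat_lit 13376) ec388 ec389) (XT.nd (nat_lit 3900) (nat_lit 3876) (nat_lit 0) ec390 ec391))) (XT.nd (nat_lit 47346) (nat_lit 0) (nat_lit 0) (XT.nd (nat_lit 39468) (nat_lit 0) (nat_lit 11248) (XT.nd (nat_lit 3900) (nat_lit 1976) (nat_lit 0) ec392 ec393) (XT.nd (nat_lit 3900) (nat_lit 3952) (nat_lit 0) ec394 ec395)) (XT.nd (nat_lit 7878) (nat_lit 3572) (nat_lit 0) (XT.nd (nat_lit 3900) (nat_lit 3876) (nat_lit 0) ec396 ec397) (XT.nd (nat_lit 3900) (nat_lit 0) (nat_lit 0) ec398 ec399)))) (XT.nd (nat_lit 62790) (nat_lit 0) (nat_lit 0) (XT.nd (nat_lit 15678) (nat_lit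 1520) (nat_lit 0) (XT.nd (nat_lit 7800) (nat_lit 7752) (nat_lit 0) (XT.nd (nat_lit 3900) (nat_lit 3800) (nat_lit 0) ec400 ec401) (XT.nd (nat_lit 3900) (nat_lit 3876) (nat_lit 0) ec402 ec403)) (XT.nd (nat_lit 39234) (nat_lit 0) (nat_lit 7220) (XT.nd (nat_lit 35256) (nat_lit 0) (nat_lit 14896) ec404 ec405) (XT.nd (nat_lit 3900) (nat_lit 3876) (nat_lit 0) ec406 ec407))) (XT.nd (nat_lit 46956) (nat_lit 0) (nat_lit 0) (XT.nd (nat_lit 7878) (nat_lit 0) (nat_lit 0) (XT.nd (nat_lit 3900) (nat_lit 3496) (nat_lit 0) ec408 ec409) (XT.nd (nat_lit 35100) (nat_lit 0) (nat_lit 13148) ec410 ec411)) (XT.nd (nat_lit 7878) (nat_lit 5396) (nat_lit 0) (XT.nd (nat_lit 3900) (nat_lit 3876) (nat_lit 0) ec412 ec413) (XT.nd (nat_lit 3900) (nat_lit 1672) (nat_lit 0) ec414 ec415))))) (XT.nd (nat_lit 124722) (nat_lit 0) (nat_lit 0) (XT.nd (nat_lit 62400) (nat_lit 0) (nat_lit 0) (XT.nd (nat_lit 15678) (nat_lit 3800) (nat_lit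 0) (XT.nd (nat_lit 7800) (nat_lit 7752) (nat_lit 0) (XT.nd (nat_lit 3900) (nat_lit 3952) (nat_lit 0) ec416 ec417) (XT.nd (nat_lit 3900) (nat_lit 3876) (nat_lit 0) ec418 ec419)) (XT.nd (nat_lit 38844) (nat_lit 0) (nat_lit 9956) (XT.nd (nat_lit 3900) (nat_lit 76) (nat_lit 0) ec420 ec421) (XT.nd (nat_lit 3900) (nat_lit 3876) (nat_lit 0) ec422 ec423))) (XT.nd (nat_lit 46566) (nat_lit 0) (nat_lit 836) (XT.nd (nat_lit 7878) (nat_lit 2204) (nat_lit 0) (XT.nd (nat_lit 3900) (nat_lit 3876) (nat_lit 0) ec424 ec425) (XT.nd (nat_lit 3900) (nat_lit 0) (nat_lit 0) ec426 ec427)) (XT.nd (nat_lit 7878) (nat_lit 7676) (nat_lit 0) (XT.nd (nat_lit 3900) (nat_lit 3876) (nat_lit 0) ec428 ec429) (XT.nd (nat_lit 3900) (nat_lit 3876) (nat_lit 0) ec430 ec431)))) (XT.nd (nat_lit 92586) (nat_lit 0) (nat_lit 0) (XT.nd (nat_lit 46332) (nat_lit 0) (nat_lit 0) (XT.nd (nat_lit 38454) (nat_lit 0) (nat_lit 7220) (XT.nd (nat_lit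 34554) (nat_lit 0) (nat_lit 14896) ec432 ec433) (XT.nd (nat_lit 3900) (nat_lit 3876) (nat_lit 0) ec434 ec435)) (XT.nd (nat_lit 7878) (nat_lit 0) (nat_lit 0) (XT.nd (nat_lit 3900) (nat_lit 3496) (nat_lit 0) ec436 ec437) (XT.nd (nat_lit 34398) (nat_lit 0) (nat_lit 13832) ec438 ec439))) (XT.nd (nat_lit 15756) (nat_lit 0) (nat_lit 0) (XT.nd (nat_lit 7878) (nat_lit 6080) (nat_lit 0) (XT.nd (nat_lit 3900) (nat_lit 3876) (nat_lit 0) ec440 ec441) (XT.nd (nat_lit 3900) (nat_lit 2356) (nat_lit 0) ec442 ec443)) (XT.nd (nat_lit 38220) (nat_lit 0) (nat_lit 5168) (XT.nd (nat_lit 34242) (nat_lit 0) (nat_lit 12844) ec444 ec445) (XT.nd (nat_lit 3900) (nat_lit 3876) (nat_lit 0) ec446 ec447)))))) (XT.nd (nat_lit 319254) (nat_lit 0) (nat_lit 0) (XT.nd (nat_lit 156858) (nat_lit 0) (nat_lit 0) (XT.nd (nat_lit 93522) (nat_lit 0) (nat_lit 0) (XT.nd (nat_lit 46410) (nat_lit 0) (nat_lit 0) (XT.nd (nat_lit 7800) (nat_lit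 0) (nat_lit 0) (XT.nd (nat_lit 3900) (nat_lit 1292) (nat_lit 0) ec448 ec449) (XT.nd (nat_lit 34632) (nat_lit 0) (nat_lit 11552) ec450 ec451)) (XT.nd (nat_lit 7878) (nat_lit 3800) (nat_lit 0) (XT.nd (nat_lit 3900) (nat_lit 3876) (nat_lit 0) ec452 ec453) (XT.nd (nat_lit 3900) (nat_lit 76) (nat_lit 0) ec454 ec455))) (XT.nd (nat_lit 15756) (nat_lit 1900) (nat_lit 0) (XT.nd (nat_lit 7878) (nat_lit 7600) (nat_lit 0) (XT.nd (nat_lit 3900) (nat_lit 3876) (nat_lit 0) ec456 ec457) (XT.nd (nat_lit 3900) (nat_lit 3876) (nat_lit 0) ec458 ec459)) (XT.nd (nat_lit 39702) (nat_lit 0) (nat_lit 7144) (XT.nd (nat_lit 3900) (nat_lit 0) (nat_lit 0) ec460 ec461) (XT.nd (nat_lit 3900) (nat_lit 3876) (nat_lit 0) ec462 ec463)))) (XT.nd (nat_lit 97032) (nat_lit 0) (nat_lit 0) (XT.nd (nat_lit 48126) (nat_lit 0) (nat_lit 0) (XT.nd (nat_lit 7800) (nat_lit 0) (nat_lit 0) (XT.nd (nat_lit 3900) (nat_lit 3344) (nat_lit 0) ec464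 ec465) (XT.nd (nat_lit 36348) (nat_lit 0) (nat_lit 11780) ec466 ec467)) (XT.nd (nat_lit 7878) (nat_lit 4180) (nat_lit 0) (XT.nd (nat_lit 3900) (nat_lit 3876) (nat_lit 0) ec468 ec469) (XT.nd (nat_lit 3900) (nat_lit 380) (nat_lit 0) ec470 ec471))) (XT.nd (nat_lit 15756) (nat_lit 380) (nat_lit 0) (XT.nd (nat_lit 7878) (nat_lit 7752) (nat_lit 0) (XT.nd (nat_lit 3900) (nat_lit 3876) (nat_lit 0) ec472 ec473) (XT.nd (nat_lit 3900) (nat_lit 3876) (nat_lit 0) ec474 ec475)) (XT.nd (nat_lit 41730) (nat_lit 0) (nat_lit 3724) (XT.nd (nat_lit 37752) (nat_lit 0) (nat_lit 11324) ec476 ec477) (XT.nd (nat_lit 3900) (nat_lit 3876) (nat_lit 0) ec478 ec479))))) (XT.nd (nat_lit 204204) (nat_lit 0) (nat_lit 0) (XT.nd (nat_lit 100620) (nat_lit 0) (nat_lit 0) (XT.nd (nat_lit 50076) (nat_lit 0) (nat_lit 0) (XT.nd (nat_lit 42198) (nat_lit 0) (nat_lit 6536) (XT.nd (nat_lit 3900) (nat_lit 0) (nat_lit 0) ec480 ec481) (XT.nd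 (nat_lit 3900) (nat_lit 3876) (nat_lit 0) ec482 ec483)) (XT.nd (nat_lit 7878) (nat_lit 0) (nat_lit 0) (XT.nd (nat_lit 3900) (nat_lit 2660) (nat_lit 0) ec484 ec485) (XT.nd (nat_lit 38688) (nat_lit 0) (nat_lit 8816) ec486 ec487))) (XT.nd (nat_lit 51246) (nat_lit 0) (nat_lit 0) (XT.nd (nat_lit 7878) (nat_lit 1216) (nat_lit 0) (XT.nd (nat_lit 3900) (nat_lit 3876) (nat_lit 0) ec488 ec489) (XT.nd (nat_lit 39390) (nat_lit 0) (nat_lit 10564) ec490 ec491)) (XT.nd (nat_lit 7878) (nat_lit 2888) (nat_lit 0) (XT.nd (nat_lit 3900) (nat_lit 3876) (nat_lit 0) ec492 ec493) (XT.nd (nat_lit 3900) (nat_lit 0) (nat_lit 0) ec494 ec495)))) (XT.nd (nat_lit 108264) (nat_lit 0) (nat_lit 532) (XT.nd (nat_lit 53430) (nat_lit 0) (nat_lit 0) (XT.nd (nat_lit 7800) (nat_lit 3572) (nat_lit 0) (XT.nd (nat_lit 3900) (nat_lit 3800) (nat_lit 0) ec496 ec497) (XT.nd (nat_lit 3900) (nat_lit 0) (nat_lit 0) ec498 ec499)) (XT.nd (nat_lit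 7878) (nat_lit 3040) (nat_lit 0) (XT.nd (nat_lit 3900) (nat_lit 3876) (nat_lit 0) ec500 ec501) (XT.nd (nat_lit 42978) (nat_lit 0) (nat_lit 8816) ec502 ec503))) (XT.nd (nat_lit 56706) (nat_lit 0) (nat_lit 988) (XT.nd (nat_lit 7878) (nat_lit 684) (nat_lit 0) (XT.nd (nat_lit 3900) (nat_lit 3876) (nat_lit 0) ec504 ec505) (XT.nd (nat_lit 44850) (nat_lit 0) (nat_lit 4636) ec506 ec507)) (XT.nd (nat_lit 51324) (nat_lit 0) (nat_lit 1140) (XT.nd (nat_lit 47346) (nat_lit 0) (nat_lit 5244) ec508 ec509) (XT.nd (nat_lit 3900) (nat_lit 380) (nat_lit 0) ec510 ec511))))))))) XT.nil))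

set_option maxRecDepth 10000000 in
noncomputable def Tz : ZL := (ZL.cons (nat_lit 76) (nat_lit 3) (nat_lit 2333678349481753372620) (ZL.cons (nat_lit 152) (nat_lit 6) (nat_lit 4556229839095281258438) (ZL.cons (nat_lit 304) (nat_lit 3) (nat_lit 2222551501139535158520) (ZL.cons (nat_lit 380) (nat_lit 6) (nat_lit 4339267966853594476642) (ZL.cons (nat_lit 532) (nat_lit 3) (nat_lit 2116716478421482336275) (ZL.cons (nat_lit 608) (nat_lit 6) (nat_lit 4132637761314227804988) (ZL.cons (nat_lit 760) (nat_lit 3) (nat_lit 2015921296902679346226) (ZL.cons (nat_lit 836) (nat_lit 6) (nat_lit 3935847253618593197370) (ZL.cons (nat_lit 988) (nat_lit 3) (nat_lit 1919925972161865951102) (ZL.cons (nat_lit 1064) (nat_lit 6) (nat_lit 3748427903561791421406) (ZL.cons (nat_lit 1216) (nat_lit 3) (nat_lit 1828501948429087660509) (ZL.cons (nat_lit 1292) (nat_lit 6) (nat_lit 3569933484102867824296) (ZL.cons (nat_lit 1444)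 (nat_lit 3) (nat_lit 1741431554448431478488) (ZL.cons (nat_lit 1520) (nat_lit 6) (nat_lit 3399939019010071568854) (ZL.cons (nat_lit 1672) (nat_lit 3) (nat_lit 1658507485260693164823) (ZL.cons (nat_lit 1748) (nat_lit 6) (nat_lit 3238039771112565611870) (ZL.cons (nat_lit 1900) (nat_lit 3) (nat_lit 1579532308672578461636) (ZL.cons (nat_lit 1976) (nat_lit 6) (nat_lit 3083850278750614736808) (ZL.cons (nat_lit 2128) (nat_lit 3) (nat_lit 1504317995237864656257) (ZL.cons (nat_lit 2204) (nat_lit 6) (nat_lit 2937003438131134794684) (ZL.cons (nat_lit 2356) (nat_lit 3) (nat_lit 1432685470631980928573) (ZL.cons (nat_lit 2432) (nat_lit 6) (nat_lit 2797149629404892346712) (ZL.cons (nat_lit 2584) (nat_lit 3) (nat_lit 1364464189354840064276) (ZL.cons (nat_lit 2660) (nat_lit 6) (nat_lit 2663955884385861655656) (ZL.cons (nat_lit 2812) (nat_lit 3) (nat_lit 1299491728747597923745) (ZL.cons (nat_lit 2888) (nat_lit 6)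 (nat_lit 2537105093932524707174) (ZL.cons (nat_lit 3040) (nat_lit 3) (nat_lit 1237613402357452189862) (ZL.cons (nat_lit 3116) (nat_lit 6) (nat_lit 2416295253105477281862) (ZL.cons (nat_lit 3268) (nat_lit 3) (nat_lit 1178681891730734352593) (ZL.cons (nat_lit 3344) (nat_lit 6) (nat_lit 2301238742305806600592) (ZL.cons (nat_lit 3496) (nat_lit 3) (nat_lit 1122556895758509207802) (ZL.cons (nat_lit 3572) (nat_lit 6) (nat_lit 2191661642684549774616) (ZL.cons (nat_lit 3724) (nat_lit 3) (nat_lit 1069104796740779814998) (ZL.cons (nat_lit 3800) (nat_lit 6) (nat_lit 2087303084195333266956) (ZL.cons (nat_lit 3952) (nat_lit 3) (nat_lit 1018198342375303473080) (ZL.cons (nat_lit 4028) (nat_lit 6) (nat_lit 1987914624740228393906) (ZL.cons (nat_lit 4104) (nat_lit 6) (nat_lit 1941741470687982423166) (ZL.cons (nat_lit 4180) (nat_lit 3) (nat_lit 969716342915051819113) (ZL.cons (nat_lit 4256) (nat_lit 6) (nat_lit 1893259658933124153888)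 (ZL.cons (nat_lit 4332) (nat_lit 6) (nat_lit 1849285608270963799262) (ZL.cons (nat_lit 4408) (nat_lit 3) (nat_lit 923543382774587240136) (ZL.cons (nat_lit 4484) (nat_lit 6) (nat_lit 1803112855075695426906) (ZL.cons (nat_lit 4560) (nat_lit 6) (nat_lit 1761233227725845376994) (ZL.cons (nat_lit 4636) (nat_lit 3) (nat_lit 879569545900165869930) (ZL.cons (nat_lit 4712) (nat_lit 6) (nat_lit 1717259619008502824586) (ZL.cons (nat_lit 4788) (nat_lit 6) (nat_lit 1677374723669751945572) (ZL.cons (nat_lit 4864) (nat_lit 3) (nat_lit 837690154251298050342) (ZL.cons (nat_lit 4940) (nat_lit 6) (nat_lit 1635495583564063522606) (ZL.cons (nat_lit 5016) (nat_lit 6) (nat_lit 1597510480562099060408) (ZL.cons (nat_lit 5092) (nat_lit 3) (nat_lit 797805518772880080257) (ZL.cons (nat_lit 5168) (nat_lit 6) (nat_lit 1557626122410036375100) (ZL.cons (nat_lit 5244) (nat_lit 6) (nat_lit 1521450397882759490684) (ZL.cons (nat_lit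 5320) (nat_lit 3) (nat_lit 759820702266932650154) (ZL.cons (nat_lit 5396) (nat_lit 6) (nat_lit 1483465887129118762048) (ZL.cons (nat_lit 5472) (nat_lit 6) (nat_lit 1449013438011499744750) (ZL.cons (nat_lit 5548) (nat_lit 3) (nat_lit 723645293601514543625) (ZL.cons (nat_lit 5624) (nat_lit 6) (nat_lit 1412838366437999776588) (ZL.cons (nat_lit 5700) (nat_lit 6) (nat_lit 1380027195736971236466) (ZL.cons (nat_lit 5776) (nat_lit 3) (nat_lit 689193192721594828947) (ZL.cons (nat_lit 5852) (nat_lit 6) (nat_lit 1345575466500891269336) (ZL.cons (nat_lit 5928) (nat_lit 6) (nat_lit 1314327488375527709992) (ZL.cons (nat_lit 6004) (nat_lit 3) (nat_lit 656382405952629769962) (ZL.cons (nat_lit 6080) (nat_lit 6) (nat_lit 1281517111343895972680) (ZL.cons (nat_lit 6156) (nat_lit 6) (nat_lit 1251757965529749701970) (ZL.cons (nat_lit 6232) (nat_lit 3) (nat_lit 625134851112366198571) (ZL.cons (nat_lit 6308) (nat_lit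 6) (nat_lit 1220510862424896117724) (ZL.cons (nat_lit 6384) (nat_lit 6) (nat_lit 1192169737563911333758) (ZL.cons (nat_lit 6460) (nat_lit 3) (nat_lit 595376171970042664581) (ZL.cons (nat_lit 6536) (nat_lit 6) (nat_lit 1162411556459877310594) (ZL.cons (nat_lit 6612) (nat_lit 6) (nat_lit 1135421021918842995312) (ZL.cons (nat_lit 6688) (nat_lit 3) (nat_lit 567035561614742447848) (ZL.cons (nat_lit 6764) (nat_lit 6) (nat_lit 1107080960650756964264) (ZL.cons (nat_lit 6840) (nat_lit 6) (nat_lit 1081376806431839402182) (ZL.cons (nat_lit 6916) (nat_lit 3) (nat_lit 540045594316225367940) (ZL.cons (nat_lit 6992) (nat_lit 6) (nat_lit 1054387444501975961994) (ZL.cons (nat_lit 7068) (nat_lit 6) (nat_lit 1029908528868545797906) (ZL.cons (nat_lit 7144) (nat_lit 3) (nat_lit 514342065482183057857) (ZL.cons (nat_lit 7220) (nat_lit 6) (nat_lit 1004205667453444125614) (ZL.cons (nat_lit 7296) (nat_lit 6) (nat_lit 980893771913231606002)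 (ZL.cons (nat_lit 7372) (nat_lit 3) (nat_lit 489863839335577859100) (ZL.cons (nat_lit 7448) (nat_lit 6) (nat_lit 956416281596008460410) (ZL.cons (nat_lit 7524) (nat_lit 6) (nat_lit 934215972901632954010) (ZL.cons (nat_lit 7600) (nat_lit 3) (nat_lit 466552703954589863766) (ZL.cons (nat_lit 7676) (nat_lit 6) (nat_lit 910905648772538672290) (ZL.cons (nat_lit 7752) (nat_lit 6) (nat_lit 889764147616712339790) (ZL.cons (nat_lit 7828) (nat_lit 3) (nat_lit 444353233335759395382) (ZL.cons (nat_lit 7904) (nat_lit 6) (nat_lit 867565571403094690664) (ZL.cons (nat_lit 7980) (nat_lit 6) (nat_lit 847432627502341552706) (ZL.cons (nat_lit 8056) (nat_lit 3) (nat_lit 423212656158221467293) (ZL.cons (nat_lit 8132) (nat_lit 6) (nat_lit 826293036406550757850) (ZL.cons (nat_lit 8208) (nat_lit 6) (nat_lit 807120809683156512416) (ZL.cons (nat_lit 8284) (nat_lit 3) (nat_lit 403080730943531295199) (ZL.cons (nat_lit 8360)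 (nat_lit 6) (nat_lit 786989971623592554712) (ZL.cons (nat_lit 8436) (nat_lit 6) (nat_lit 768732919210751436424) (ZL.cons (nat_lit 8512) (nat_lit 3) (nat_lit 383909627321521469630) (ZL.cons (nat_lit 8588) (nat_lit 6) (nat_lit 749563014177268262220) (ZL.cons (nat_lit 8664) (nat_lit 6) (nat_lit 732177782987064298166) (ZL.cons (nat_lit 8740) (nat_lit 3) (nat_lit 365653813127956674245) (ZL.cons (nat_lit 8816) (nat_lit 6) (nat_lit 713923290237350135910) (ZL.cons (nat_lit 8892) (nat_lit 6) (nat_lit 697368614845343950166) (ZL.cons (nat_lit 8968) (nat_lit 3) (nat_lit 348269947074504856189) (ZL.cons (nat_lit 9044) (nat_lit 6) (nat_lit 679986205683737455136) (ZL.cons (nat_lit 9120) (nat_lit 6) (nat_lit 664222811297568430238) (ZL.cons (nat_lit 9196) (nat_lit 3) (nat_lit 331716776745767911410) (ZL.cons (nat_lit 9272) (nat_lit 6) (nat_lit 647671247192090954094) (ZL.cons (nat_lit 9348) (nat_lit 6) (nat_lit 632661757484689884984)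 (ZL.cons (nat_lit 9424) (nat_lit 3) (nat_lit 315955041691853224674) (ZL.cons (nat_lit 9500) (nat_lit 6) (nat_lit 616901793291918762418) (ZL.cons (nat_lit 9576) (nat_lit 6) (nat_lit 602610642892699827382) (ZL.cons (nat_lit 9652) (nat_lit 3) (nat_lit 300947381398262563389) (ZL.cons (nat_lit 9728) (nat_lit 6) (nat_lit 587604934973519945594) (ZL.cons (nat_lit 9804) (nat_lit 6) (nat_lit 573998286423324635106) (ZL.cons (nat_lit 9880) (nat_lit 3) (nat_lit 286658247927769602979) (ZL.cons (nat_lit 9956) (nat_lit 6) (nat_lit 559711305445619559092) (ZL.cons (nat_lit 10032) (nat_lit 6) (nat_lit 546756970433261196314) (ZL.cons (nat_lit 10108) (nat_lit 3) (nat_lit 273053823041494679515) (ZL.cons (nat_lit 10184) (nat_lit 6) (nat_lit 533154918670284915398) (ZL.cons (nat_lit 10260) (nat_lit 6) (nat_lit 520822283380333122376) (ZL.cons (nat_lit 10336) (nat_lit 3) (nat_lit 260101939618608543434) (ZL.cons (nat_lit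 10412) (nat_lit 6) (nat_lit 507873016325883739702) (ZL.cons (nat_lit 10488) (nat_lit 6) (nat_lit 496132970738876937360) (ZL.cons (nat_lit 10564) (nat_lit 3) (nat_lit 247772007206049880343) (ZL.cons (nat_lit 10640) (nat_lit 6) (nat_lit 483805922872519794902) (ZL.cons (nat_lit 10716) (nat_lit 6) (nat_lit 472630793870144842432) (ZL.cons (nat_lit 10792) (nat_lit 3) (nat_lit 236034941541369003752) (ZL.cons (nat_lit 10868) (nat_lit 6) (nat_lit 460896908417651142338) (ZL.cons (nat_lit 10944) (nat_lit 6) (nat_lit 450260396556628040200) (ZL.cons (nat_lit 11020) (nat_lit 3) (nat_lit 224863097903358384420) (ZL.cons (nat_lit 11096) (nat_lit 6) (nat_lit 439092059102553782958) (ZL.cons (nat_lit 11172) (nat_lit 6) (nat_lit 428969178932057034722) (ZL.cons (nat_lit 11248) (nat_lit 3) (nat_lit 214230208156546959570) (ZL.cons (nat_lit 11324) (nat_lit 6) (nat_lit 418340154753035449074) (ZL.cons (nat_lit 11400) (nat_lit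 6) (nat_lit 408707178561521090686) (ZL.cons (nat_lit 11476) (nat_lit 3) (nat_lit 204111321366968585543) (ZL.cons (nat_lit 11552) (nat_lit 6) (nat_lit 398592553560431014380) (ZL.cons (nat_lit 11628) (nat_lit 6) (nat_lit 389426958448770535726) (ZL.cons (nat_lit 11704) (nat_lit 3) (nat_lit 194482747877916734719) (ZL.cons (nat_lit 11780) (nat_lit 6) (nat_lit 379803083581527033140) (ZL.cons (nat_lit 11856) (nat_lit 6) (nat_lit 371083501770430023488) (ZL.cons (nat_lit 11932) (nat_lit 3) (nat_lit 185322006745721170656) (ZL.cons (nat_lit 12008) (nat_lit 6) (nat_lit 361927940868778163356) (ZL.cons (nat_lit 12084) (nat_lit 6) (nat_lit 353634113159671013136) (ZL.cons (nat_lit 12160) (nat_lit 3) (nat_lit 176607776446984229340) (ZL.cons (nat_lit 12236) (nat_lit 6) (nat_lit 344925594065108505402) (ZL.cons (nat_lit 12312) (nat_lit 6) (nat_lit 337038326384986732208) (ZL.cons (nat_lit 12388) (nat_lit 3) (nat_lit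 168319848780254054459) (ZL.cons (nat_lit 12464) (nat_lit 6) (nat_lit 328756695320858870354) (ZL.cons (nat_lit 12540) (nat_lit 6) (nat_lit 321257818293209243906) (ZL.cons (nat_lit 12616) (nat_lit 3) (nat_lit 160439085896852896576) (ZL.cons (nat_lit 12692) (nat_lit 6) (nat_lit 313383997414177136134) (ZL.cons (nat_lit 12768) (nat_lit 6) (nat_lit 306256328909940688210) (ZL.cons (nat_lit 12844) (nat_lit 3) (nat_lit 152947380407587748509) (ZL.cons (nat_lit 12920) (nat_lit 6) (nat_lit 298772276980492417892) (ZL.cons (nat_lit 12996) (nat_lit 6) (nat_lit 291999587615283415234) (ZL.cons (nat_lit 13072) (nat_lit 3) (nat_lit 145827618524420188001) (ZL.cons (nat_lit 13148) (nat_lit 6) (nat_lit 284888263781813962442) (ZL.cons (nat_lit 13224) (nat_lit 6) (nat_lit 278455245338301209562) (ZL.cons (nat_lit 13300) (nat_lit 3) (nat_lit 139063646208939633718) (ZL.cons (nat_lit 13376) (nat_lit 6) (nat_lit 271700575972612819038)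 (ZL.cons (nat_lit 13452) (nat_lit 6) (nat_lit 265592812740192554274) (ZL.cons (nat_lit 13528) (nat_lit 3) (nat_lit 132640238312752495173) (ZL.cons (nat_lit 13604) (nat_lit 6) (nat_lit 259179661346151276272) (ZL.cons (nat_lit 13680) (nat_lit 6) (nat_lit 253383604383886548926) (ZL.cons (nat_lit 13756) (nat_lit 3) (nat_lit 126543070708758720211) (ZL.cons (nat_lit 13832) (nat_lit 6) (nat_lit 247297744573508585214) (ZL.cons (nat_lit 13908) (nat_lit 6) (nat_lit 241800688916877070514) (ZL.cons (nat_lit 13984) (nat_lit 3) (nat_lit 120758695426834197874) (ZL.cons (nat_lit 14060) (nat_lit 6) (nat_lit 236028780477413980080) (ZL.cons (nat_lit 14136) (nat_lit 6) (nat_lit 230818845324801875310) (ZL.cons (nat_lit 14212) (nat_lit 3) (nat_lit 115274518822777759196) (ZL.cons (nat_lit 14288) (nat_lit 6) (nat_lit 225348413414559165306) (ZL.cons (nat_lit 14364) (nat_lit 6) (nat_lit 220414525345779691406) (ZL.cons (nat_lit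 14440) (nat_lit 3) (nat_lit 110078782825629675741) (ZL.cons (nat_lit 14516) (nat_lit 6) (nat_lit 215233942873561243812) (ZL.cons (nat_lit 14592) (nat_lit 6) (nat_lit 210565822170089370610) (ZL.cons (nat_lit 14668) (nat_lit 3) (nat_lit 105160549325749285341) (ZL.cons (nat_lit 14744) (nat_lit 6) (nat_lit 206142088967740227412) (ZL.cons (nat_lit 14820) (nat_lit 6) (nat_lit 205664295431443903746) (ZL.cons (nat_lit 14896) (nat_lit 6) (nat_lit 201252445586682827128) (ZL.cons (nat_lit 14972) (nat_lit 3) (nat_lit 100509687784488651695) (ZL.cons (nat_lit 15048) (nat_lit 6) (nat_lit 197075044712823052554) (ZL.cons (nat_lit 15124) (nat_lit 6) (nat_lit 196620003249683696682) (ZL.cons (nat_lit 15200) (nat_lit 6) (nat_lit 192455703777564765512) (ZL.cons (nat_lit 15276) (nat_lit 3) (nat_lit 96116866166065466689) (ZL.cons (nat_lit 15352) (nat_lit 6) (nat_lit 188516562153877369568) (ZL.cons (nat_lit 15428) (nat_lit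 6) (nat_lit 188083189331839887782) (ZL.cons (nat_lit 15504) (nat_lit 6) (nat_lit 184158492003571771692) (ZL.cons (nat_lit 15580) (nat_lit 3) (nat_lit 91973545313484061020) (ZL.cons (nat_lit 15656) (nat_lit 6) (nat_lit 180450295829878327688) (ZL.cons (nat_lit 15732) (nat_lit 6) (nat_lit 180037559808890249798) (ZL.cons (nat_lit 15808) (nat_lit 6) (nat_lit 176345288470896561830) (ZL.cons (nat_lit 15884) (nat_lit 3) (nat_lit 88071976913256066796) (ZL.cons (nat_lit 15960) (nat_lit 6) (nat_lit 172861485490753739836) (ZL.cons (nat_lit 16036) (nat_lit 6) (nat_lit 172468403566003189466) (ZL.cons (nat_lit 16112) (nat_lit 6) (nat_lit 169002157717219348504) (ZL.cons (nat_lit 16188) (nat_lit 3) (nat_lit 84405205218426613186) (ZL.cons (nat_lit 16264) (nat_lit 6) (nat_lit 165736963313853982514) (ZL.cons (nat_lit 16340) (nat_lit 6) (nat_lit 165362599575996315494) (ZL.cons (nat_lit 16416) (nat_lit 6) (nat_lit 162665046083518126338)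 (ZL.cons (nat_lit 16492) (nat_lit 6) (nat_lit 162116761909954226092) (ZL.cons (nat_lit 16568) (nat_lit 3) (nat_lit 80967072726231340602) (ZL.cons (nat_lit 16644) (nat_lit 6) (nat_lit 159065169253807810334) (ZL.cons (nat_lit 16720) (nat_lit 6) (nat_lit 158708632360610032220) (ZL.cons (nat_lit 16796) (nat_lit 6) (nat_lit 156200555910756719614) (ZL.cons (nat_lit 16872) (nat_lit 6) (nat_lit 155678380507362528902) (ZL.cons (nat_lit 16948) (nat_lit 3) (nat_lit 77752230035828147838) (ZL.cons (nat_lit 17024) (nat_lit 6) (nat_lit 152836175007355296240) (ZL.cons (nat_lit 17100) (nat_lit 6) (nat_lit 152496616061452650416) (ZL.cons (nat_lit 17176) (nat_lit 6) (nat_lit 150175248704635936062) (ZL.cons (nat_lit 17252) (nat_lit 6) (nat_lit 149677938796641468720) (ZL.cons (nat_lit 17328) (nat_lit 3) (nat_lit 74756150143222528061) (ZL.cons (nat_lit 17404) (nat_lit 6) (nat_lit 147689266060388449892) (ZL.cons (nat_lit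 17480) (nat_lit 6) (nat_lit 147041717140877962052) (ZL.cons (nat_lit 17556) (nat_lit 6) (nat_lit 146718327668589727936) (ZL.cons (nat_lit 17632) (nat_lit 6) (nat_lit 144581674375934122070) (ZL.cons (nat_lit 17708) (nat_lit 6) (nat_lit 144108045892129867456) (ZL.cons (nat_lit 17784) (nat_lit 3) (nat_lit 71975147465019022969) (ZL.cons (nat_lit 17860) (nat_lit 6) (nat_lit 142291953257131511056) (ZL.cons (nat_lit 17936) (nat_lit 6) (nat_lit 141675240000454855970) (ZL.cons (nat_lit 18012) (nat_lit 6) (nat_lit 141367250026847013954) (ZL.cons (nat_lit 18088) (nat_lit 6) (nat_lit 140167102067520598986) (ZL.cons (nat_lit 18164) (nat_lit 6) (nat_lit 139414117598584514880) (ZL.cons (nat_lit 18240) (nat_lit 6) (nat_lit 138963042852104272392) (ZL.cons (nat_lit 18316) (nat_lit 3) (nat_lit 69406401920294125947) (ZL.cons (nat_lit 18392) (nat_lit 6) (nat_lit 137319295061752486226) (ZL.cons (nat_lit 18468) (nat_lit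 6) (nat_lit 136731949103012814718) (ZL.cons (nat_lit 18544) (nat_lit 6) (nat_lit 136438625318624393748) (ZL.cons (nat_lit 18620) (nat_lit 6) (nat_lit 135385784717252027086) (ZL.cons (nat_lit 18696) (nat_lit 6) (nat_lit 134668656651598613652) (ZL.cons (nat_lit 18772) (nat_lit 6) (nat_lit 134239061654950763662) (ZL.cons (nat_lit 18848) (nat_lit 3) (nat_lit 67047988441039181595) (ZL.cons (nat_lit 18924) (nat_lit 6) (nat_lit 133608982969024803034) (ZL.cons (nat_lit 19000) (nat_lit 6) (nat_lit 132768252896786873480) (ZL.cons (nat_lit 19076) (nat_lit 6) (nat_lit 132208875793225281564) (ZL.cons (nat_lit 19152) (nat_lit 6) (nat_lit 131929519808093452072) (ZL.cons (nat_lit 19228) (nat_lit 6) (nat_lit 131026213067732804344) (ZL.cons (nat_lit 19304) (nat_lit 6) (nat_lit 130343233957586696308) (ZL.cons (nat_lit 19380) (nat_lit 6) (nat_lit 129934095865541124890) (ZL.cons (nat_lit 19456) (nat_lit 3) (nat_lit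 64898912326640847935) (ZL.cons (nat_lit 19532) (nat_lit 6) (nat_lit 129438389450557706076) (ZL.cons (nat_lit 19608) (nat_lit 6) (nat_lit 128637694143664439834) (ZL.cons (nat_lit 19684) (nat_lit 6) (nat_lit 128104954045034352296) (ZL.cons (nat_lit 19760) (nat_lit 6) (nat_lit 127838900725861181350) (ZL.cons (nat_lit 19836) (nat_lit 6) (nat_lit 128001001512839733208) (ZL.cons (nat_lit 19912) (nat_lit 6) (nat_lit 127088195542377744862) (ZL.cons (nat_lit 19988) (nat_lit 6) (nat_lit 126437739247000499118) (ZL.cons (nat_lit 20064) (nat_lit 6) (nat_lit 126048083921242812052) (ZL.cons (nat_lit 20140) (nat_lit 3) (nat_lit 62959150907164535063) (ZL.cons (nat_lit 20216) (nat_lit 6) (nat_lit 125691048871342595454) (ZL.cons (nat_lit 20292) (nat_lit 6) (nat_lit 124928481912396627606) (ZL.cons (nat_lit 20368) (nat_lit 6) (nat_lit 124421110389891782334) (ZL.cons (nat_lit 20444) (nat_lit 6) (nat_lit 124167726276393524288)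 (ZL.cons (nat_lit 20520) (nat_lit 6) (nat_lit 124442927590866050780) (ZL.cons (nat_lit 20596) (nat_lit 6) (nat_lit 123573588571378442832) (ZL.cons (nat_lit 20672) (nat_lit 6) (nat_lit 122954106385304875456) (ZL.cons (nat_lit 20748) (nat_lit 6) (nat_lit 122583006075059459204) (ZL.cons (nat_lit 20824) (nat_lit 3) (nat_lit 61229702034237471542) (ZL.cons (nat_lit 20900) (nat_lit 6) (nat_lit 123340859983613642870) (ZL.cons (nat_lit 20976) (nat_lit 6) (nat_lit 122369833287419711020) (ZL.cons (nat_lit 21052) (nat_lit 6) (nat_lit 121643579040804503544) (ZL.cons (nat_lit 21128) (nat_lit 6) (nat_lit 121160368066990365188) (ZL.cons (nat_lit 21204) (nat_lit 6) (nat_lit 120919049863658690862) (ZL.cons (nat_lit 21280) (nat_lit 6) (nat_lit 122382222079091913616) (ZL.cons (nat_lit 21356) (nat_lit 6) (nat_lit 121314349976511006620) (ZL.cons (nat_lit 21432) (nat_lit 6) (nat_lit 120486408053189475242) (ZL.cons (nat_lit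 21508) (nat_lit 6) (nat_lit 119896425018833696786) (ZL.cons (nat_lit 21584) (nat_lit 6) (nat_lit 119542996151933300356) (ZL.cons (nat_lit 21660) (nat_lit 3) (nat_lit 59712639977593071075) (ZL.cons (nat_lit 21736) (nat_lit 6) (nat_lit 121564731406099620804) (ZL.cons (nat_lit 21812) (nat_lit 6) (nat_lit 120404625583150166048) (ZL.cons (nat_lit 21888) (nat_lit 6) (nat_lit 119479838253441659524) (ZL.cons (nat_lit 21964) (nat_lit 6) (nat_lit 118788167542379557166) (ZL.cons (nat_lit 22040) (nat_lit 6) (nat_lit 118327966614937520636) (ZL.cons (nat_lit 22116) (nat_lit 6) (nat_lit 118098139754621640326) (ZL.cons (nat_lit 22192) (nat_lit 3) (nat_lit 58954815639000919652) (ZL.cons (nat_lit 22268) (nat_lit 6) (nat_lit 117978457500229926972) (ZL.cons (nat_lit 22344) (nat_lit 6) (nat_lit 118185100038871875900) (ZL.cons (nat_lit 22420) (nat_lit 6) (nat_lit 118530050899972071678) (ZL.cons (nat_lit 22496) (nat_lit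 6) (nat_lit 119014131395104562392) (ZL.cons (nat_lit 22572) (nat_lit 6) (nat_lit 119638494096876806356) (ZL.cons (nat_lit 22648) (nat_lit 6) (nat_lit 118621473046799752072) (ZL.cons (nat_lit 22724) (nat_lit 6) (nat_lit 117832956929350674568) (ZL.cons (nat_lit 22800) (nat_lit 6) (nat_lit 117271068325202314136) (ZL.cons (nat_lit 22876) (nat_lit 6) (nat_lit 116934469404344793726) (ZL.cons (nat_lit 22952) (nat_lit 3) (nat_lit 58411179370388035811) (ZL.cons (nat_lit 23028) (nat_lit 6) (nat_lit 116493286487343670884) (ZL.cons (nat_lit 23104) (nat_lit 6) (nat_lit 116634380242911250604) (ZL.cons (nat_lit 23180) (nat_lit 6) (nat_lit 116916903691559666186) (ZL.cons (nat_lit 23256) (nat_lit 6) (nat_lit 117341529508166651950) (ZL.cons (nat_lit 23332) (nat_lit 6) (nat_lit 117909268706581272150) (ZL.cons (nat_lit 23408) (nat_lit 6) (nat_lit 117028518868763646886) (ZL.cons (nat_lit 23484) (nat_lit 6) (nat_lit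 116369784858228311308) (ZL.cons (nat_lit 23560) (nat_lit 6) (nat_lit 115931498260664466996) (ZL.cons (nat_lit 23636) (nat_lit 6) (nat_lit 115712615536554104792) (ZL.cons (nat_lit 23712) (nat_lit 3) (nat_lit 57606606454472465742) (ZL.cons (nat_lit 23788) (nat_lit 6) (nat_lit 115285480442284423536) (ZL.cons (nat_lit 23864) (nat_lit 6) (nat_lit 115502455107858469910) (ZL.cons (nat_lit 23940) (nat_lit 6) (nat_lit 115864653512013675478) (ZL.cons (nat_lit 24016) (nat_lit 6) (nat_lit 116372938031902790728) (ZL.cons (nat_lit 24092) (nat_lit 6) (nat_lit 115621970300998907390) (ZL.cons (nat_lit 24168) (nat_lit 6) (nat_lit 115086838297048087932) (ZL.cons (nat_lit 24244) (nat_lit 6) (nat_lit 114766267896231401826) (ZL.cons (nat_lit 24320) (nat_lit 3) (nat_lit 57329747917844880863) (ZL.cons (nat_lit 24396) (nat_lit 6) (nat_lit 114135188970799426062) (ZL.cons (nat_lit 24472) (nat_lit 6) (nat_lit 114283337414145384768)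 (ZL.cons (nat_lit 24548) (nat_lit 6) (nat_lit 114579987035226221128) (ZL.cons (nat_lit 24624) (nat_lit 6) (nat_lit 115025844142663556182) (ZL.cons (nat_lit 24700) (nat_lit 6) (nat_lit 114398478418344188964) (ZL.cons (nat_lit 24776) (nat_lit 6) (nat_lit 113981062611140527712) (ZL.cons (nat_lit 24852) (nat_lit 6) (nat_lit 113772602873892563710) (ZL.cons (nat_lit 24928) (nat_lit 3) (nat_lit 56590383519619218380) (ZL.cons (nat_lit 25004) (nat_lit 6) (nat_lit 113256647949244903414) (ZL.cons (nat_lit 25080) (nat_lit 6) (nat_lit 113484471348097652106) (ZL.cons (nat_lit 25156) (nat_lit 6) (nat_lit 113864779672460617952) (ZL.cons (nat_lit 25232) (nat_lit 6) (nat_lit 113355130144888408940) (ZL.cons (nat_lit 25308) (nat_lit 6) (nat_lit 113049825001253469792) (ZL.cons (nat_lit 25384) (nat_lit 3) (nat_lit 56474068662273572945) (ZL.cons (nat_lit 25460) (nat_lit 6) (nat_lit 112419942214431072318) (ZL.cons (nat_lit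 25536) (nat_lit 6) (nat_lit 112575498079944328958) (ZL.cons (nat_lit 25612) (nat_lit 6) (nat_lit 112886980182079207136) (ZL.cons (nat_lit 25688) (nat_lit 6) (nat_lit 112489441318075720228) (ZL.cons (nat_lit 25764) (nat_lit 6) (nat_lit 112290908234982421180) (ZL.cons (nat_lit 25840) (nat_lit 3) (nat_lit 55885614026596214990) (ZL.cons (nat_lit 25916) (nat_lit 6) (nat_lit 111850903008699219966) (ZL.cons (nat_lit 25992) (nat_lit 6) (nat_lit 112090117577494606092) (ZL.cons (nat_lit 26068) (nat_lit 6) (nat_lit 111799350774032759284) (ZL.cons (nat_lit 26144) (nat_lit 3) (nat_lit 55851252683822892069) (ZL.cons (nat_lit 26220) (nat_lit 6) (nat_lit 111308960908002217728) (ZL.cons (nat_lit 26296) (nat_lit 6) (nat_lit 111472294566791137200) (ZL.cons (nat_lit 26372) (nat_lit 6) (nat_lit 111283215440035614294) (ZL.cons (nat_lit 26448) (nat_lit 3) (nat_lit 55474190719759164689) (ZL.cons (nat_lit 26524) (nat_lit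 6) (nat_lit 111032040142800458864) (ZL.cons (nat_lit 26600) (nat_lit 3) (nat_lit 55469903211215955552) (ZL.cons (nat_lit 26676) (nat_lit 6) (nat_lit 110768306080703545660) (ZL.cons (nat_lit 26752) (nat_lit 1) (nat_lit 18446744073709551617) ZL.nil)))))))))))))))))))))))))))))))))))))))))))))))))))))))))))))))))))))))))))))))))))))))))))))))))))))))))))))))))))))))))))))))))))))))))))))))))))))))))))))))))))))))))))))))))))))))))))))))))))))))))))))))))))))))))))))))))))))))))))))))))))))))))))))))))))))))))))))))))))))))))))))))))))))))))))))))))))))))))))))))))))))))))))))))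

noncomputable def vl : XL := ⟨(nat_lit 0), (nat_lit 0), (nat_lit 536870912), (nat_lit 0), (nat_lit 0), (nat_lit 0), (nat_lit 0), (nat_lit 0), (nat_lit 0), (nat_lit 1), (nat_lit 0), (nat_lit 1), (nat_lit 0), (nat_lit 0), (nat_lit 0), (nat_lit 0)⟩

noncomputable def cp0 : Nat := (nat_lit 895409601137786646974102956681820297407648613021481438308789186497093674433788287657451434490598740795203474010313630163603185514586368344434509574875640266793044977787776326305267664296068827920899341395297080535690122643647966883337293517953272821191811684402911323298804541540597007705211166497561785345380246173191352144917894938830640423824113448832878684989002355663179717211622160904870316291469163177976976692245775966256635005281847073847589324329397188610513132125744306273800689590905786176416399978969967539428221283041998133080625978857256774051698041888390343425632207481541407051922565524895331998491800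2655905913149465943031724278372656227439179576530784379801111809918212573262408981933449659038414816805205256849308832911288186535554120672757982915724858801880418727156743692286138447121075637538106765504424009054943872352540766858916783170120874625319116915638606308968634776341262422859095672542026566003584216883232536095558686041712343887044001569989009830248859093204032870301595904290633605622428065305826919787316483632933167040732970853880266285217947821114061417062244314937196931998726879935400778957155352241430466418384620942008600605957947303898727862238442847949050429608954206335530101107943545440016547621161248160274661944646032719943244523179899423908733121299432738660971891465131344265261614235351716725238107016034683304342004619082368999990350520151296354504081660201719092713691582746768797781938091897535588067122043316201080965655156557530504439487730945958528750742732882230375238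6635915771220414935404089289582313842687862191379651774373922137734988328923537031660963821161045367786757527899632928803226284783599822965589979272391475972997233069841183773837704025265434774667034299098767544755309391007879743654758120577638636186459559608155786718109485811490465716445896916796094207061984583017603339544467471738813673682848318602558143905344456436129814016246134118814610118475515206993974944966861888721210846435514094352138667315601060821859278533156866878470592474490547624631202499489602870870309194517850378704123696156615770466694548411279686639906714115152682205922982219192840611501644157430354972540722979467079807825024359820316424549044221067320877716598013694580613522791371135916705298992530373252385351834605521570991791997041619361538887320107755206553613569756670834620764281291103289449636865023527764795542235691627289661768195260434291384728379924556991178076275515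6282717517999976012068854387407949427584245892070852452874609023063602352328655739378783164504419680866337291091178606219018128551876948722418836232615146127338744702373111038332837577231543748638120312926200109953164620156752320702284105589050242305820815661461613724594787692939247384057422197294455025659441192193235228103634253333270784702092179321540528397278987816241515164554432989364941147634933166007557449348777810636839238414359603062541777288500667385302393554323839846922250364840595735213397726894981130505863555233377743453942132250317924577697063105909636522577371499464023824967360406492662923662694834012124279734685258812839804350311901318384640663878289041088475549208885014517206712837554355953938306527656652304122427327441968394560182901174699421358071529116658569582240999079428590405781721525853745486459131946801759028235696645352958664203823163048710329911707622361845849770892823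0403192344285203276110205043730231438006198500449235784164923398492210395140400775164270711203416146391887656659480229916801988184904805039498698969622988543223625945220327987339676517238806084224523493459599226971417386451538505297565065806911589942746869577018710006620735745133300139045346561208828356490351501014068465755979495574227537954100894165046493587068899567942276346161049460910464238704258155614303159315831810616253892378259712914447396906135848392765557759879370837508179823009432120022782279500644093753466228713318982636295303716149499979927477341050919539061167044011954906251503999101271838413752535250877975474184908902700393195832970727200469161156622518778376423697253272047054345718701953681616917194704914330625083773932358856079221346278860724783010276021776482908611120721330883943250660406616501191209226519325878011464457936799440824155429022346457770015310299916348838765898400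3039485543123823397013666494065441522206549607769769297953536462723615738387928486522568107181850359136139907664468348844782220407224769792680417015724666743865251737181505703289925709971786598635974638997415248976781561500470883090263715090716976417045651991913281553518916247276361989283807170699710117840726215491303301653100566975395794726407938918856880541461158005040522655452030983265700552353698416991235814877595974926319127060223838265754394454789256502413064412740554671879816101766407406357378466701343531292975466465799504939843473189414560213414415448475645246968827306911291484511117754153386003515380021827897064718119163198241381090478080870110987183078771431760004613351579421574991596527325017118035326546589694590265237385271910463236343261469267486008948699034429059461275133081065452745943800502402521649724479595275476415288384257506032535213854833331710304344268078521815898186744342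4086792580722640347750954546114028513898523846128672453551605323321162854817131785045261280335249846031405118426948095361466646217845019471129417954055603753871983275849160795817536077886388547490963990556510686697908258382387996132157712155909035961755916557364787262562201926040875383041947737332560080818783200543943848501231253872768647875704532986202642088120710696261356494124037906150014139118719395459407745867817445699820783546752860116391644992951803894074040452776757444015363359309510359830363656510673968867815200737173812296285467718195602419763256587970457183285936309807361805131133775837132115293953785895837971082138811668210913679472133076462068592140221851829816083506711048240108855496276847763674675632207990952296600772717296474795688826618931106474806319728986352032245488687696500356309957879331269117705068325844008698251591747679924452770062435488047504109867164806092795485555626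3385113037555381463555369389663924928280618309279997378154953371614379807654611008779785554069067348466881307809985172665925524597782073315157700428130605532365335878218816160491865037535574206974066782327119392063851899594084000351354308309956776144645824708577462284778853898268616117400635158158873456126975806306707393819189961657012872750540019121516070376664948381587260410848261032912054607293636787681694251751578951773947704735905374538725440994764950558656986049176409644185833535200629031600250111517758137643976489600226037203845998255595263935631461766151493016964272152140991737573801362009562914557151849762336571807372514053563870758200786112764644307874397044054136167341883987328660996668166455387723253613974820680925350317440871901915978483461596249869777912083425432645061887926120411095579200559787282646165639945177721654893931867022273272077177106634693872884719807583561809961060041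7861142442638716742970146154297114955784507312396605916567925046597867197209910701559118720735011764354654408126721738922404159298705540756377329751322391142631089981132224131906145490325072863569487022872347073006809874506398069511704235094651999442387832837101489021654125627533027525155839888594035440724060725562444783383737573790565313361904265585721109388855197788557988496985952101823685459023648594020646054343392733697641118923721568271784717608820693235527223232026367318542223867283748889064450709422299344749972175635477093206159712363643297357445256639579923706086031289356106235846431608263778051044214207203413293151611453995648280980245070084876360149553316446042077370244288853504225943663901404334318253543612496431008493372676111430210096101759907081516301105182730908683591441400751694301134979086295253000168915881240528055030210218961732073402545728081812338155011458656103303245349791135340796020498272762506789417624857567079494014112176181553431744751048400704565969649304863419791390992257849865896895820797990961358947435467126259249208059437316335354194456786190095495999496207)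

noncomputable def cp1 : Nat := (nat_lit 1003007034801352213157463278901884652030057775371801438612513408674915006205274418809854760849448875139632595512602669286304746582761972585470850727474717053756301118739790237910326888876629853690389192660184937832269373347574328289429329808486632842844380127012957288734794621332404231844303610193508077985112853491895270840444897890382318373250160682634853373739061827476793970525701746362537861321786499741568575486825264760555796002473270893052494081582869761142331628567694891423947672351080322642447663950248972779561056402643903563705009478750657965314292187285247186133369127910015098756840006592394985326094965727780327057384775252317751720585547836126918291003272075353351064186173382845558330282049856637448296771466863852582827941014731621860676959826289364779835412413454748137320856683615900126878369357818613486181984724547352956462454116930250639896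5052344494916234236998113981565500354978518935015237198826211702382995451376245652097964463493171463466242786777710999751972956748778231832822928273817896317737112544640153303056405359502408614533448724892323840728431371649230592268093847079501035720846061418010394895425336429965667901413542266755885567849917222613644740617524424825000354028569796153846400076902337064762669757140979231082625555134034658077803645392281360705285700933116823091957802804755457829023163847214248395011645218384679106929092627950933159683383027063602180894057468490519975004337416339277097259689278296976489237561190027485349772419012509381350835146439886052169602992579527313575486239174669544238155718507007815257459536755004279259069174188136066554190899872339445347093805639080174212955814882285887805051264437003451498424554872497884374943201319111988476646679041778363280326749451901281419663204088417758102898631160117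3993628167834590578046283828941252477175817415014841147807887283963850714997683479324594630184449196509906413104250649417522668806864338391269648891035484894225431316396490382883718047946503375067776144107389356650889745911559578739820385154948117929974857250755264845080359338209789127136693247835179589928129568697092559901517478666993965364810686673980520986745186546378965778533438287120270128265551800186222485683901572269643619025347361596091299270129679722778302963212269077849877253079870084039175277630564698196127141253562807296429517330448178540903449374452415317888991699141190934660982277574017962711226044275265432637220551419864003667431432058073503943483348103163357969031388711887322098223536783706686362768708511525345674753381796137402789372734907276833998690501176355585754620112041069215669395764801030983310514485017236906867257454447653903975625389938287315698338039903666028544073749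9023487229437199362150388230770848661527661366514102552034870120360410377039504268764487232576522949218198213494066504115709862460193595589492892838892703761678891274966400936888771938823705665840840923523825435993987731560122039780382626159297471638441527148229198457697568055296825940194972348870992816278305326229951098751811669209729848364403385358571015382598638874367917182466429183184514597101713354035117211468732530948265942045889388816861760713123435363774927234466297788445282694848719883223556937931495559820220606268747503842247911802415866485046868123353194447662054861046795388652002913822705141165996901954703467039038634936805287161073839164340961964833279566907400305150841010387627789480103055664520415609255644995746505062291567997960127652462778449908184362538427941105435490888266366143107454413690928161700074807483428878074188235654217874791372181675422998221383741243253753109975094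0844570347891968391263283317637081520469179164697941232320515971371242186372007979656214642209140684457707950423842502583880092154574008299119144516051272258815107472935334045668333217375054980383104846908851631497145682751863911133405091596509048844356898373004465497535969826697439424289856722539996766087222875760895588511853989794680795370547823843031207744523595193422744665238984099525199094142142320915145344809804667947705879341236404432603939053729972399638320739251025492947220602745089891398954107802826509906353982238800126302429026434747840754331530951255239913991246649805037133184833152845448251957046919207538100186226772356609521289304880704820717464977111316797674824534215067131861639506808411241309565793883139381281943962559510042048562527341154824433998341617543172357259682439145488520126394446775265543905362382058670829606824520235948625279695679185447360188584971083721972972574432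8934873940254215393866323826476819951118903740216109138545824595485796672673189495120979847406958703244298129171839641921428466752519330017490634656482380012900395342509090407558523997626034011062458715753213804230199605459877668779405151652258464983405556923471434112741404975189338348958758536342888527984721452940601867830583540919313681765550680843344841927647285361925067562781978590281214687217650160204271113936546127053847281614495480810434475355848764448890020635788004134655151833171905409978143305212777345086981677431590595600914585661659345308876199596327986060693797943354744021814891508201604008786499645617066046978365211501937706463623406979944037285085220238888018942919964618107838996406017072998329670561691203126949234874583195234497152460258929929828057051540950009515686422862809137140205830763643803220261018611177186878119897964067670197416529121831572462725050225888829251554946201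3951462080745633714861329574413054498545870284079085608855688632106121125490953483624203843629487179901957311415924406300910097116441823754274961414445482545041364219512544534703798399405060603033305493599491042469513934431189668010417272473856970667240543014651411892576200169312333844873253310399978026692677253683397759451550378139357191331292588308046077795439903795553541312277504152177934999787955492326584440522056182024744906546286100697834913025911299334869228008629365803062345672469678186976446028537380490129189384269547477737498225106471749883274574125496564342848435466430643106835243107514697635307320066032600361495845255345934809848840240098724098235500672116220627603150537515562290005916286483670709266760802028755718406954472506526675838904036059712070500241007167576848835356765311315513447391448960600190772323019476247773405555588896388423326747545654583202521515137770430930731275312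7512303985924305373879420425019959568246610130018187735598058605586781535032160913340074435381365178851204176109291929289243596954513308656918224898108888463262023751845518792100842036674968652829020660545589770031847353652798171542186234985978841318567687655796784524817214823390686355360679484781037825130087146203132666818963539319318639335326560292629508352571537171288917438943301898569023250608941008358625726643412787232213473148483820728532232195304248584260468725157719408741079584288735354651396145221061551096285025932987955831601526786956283317552839061984463433150035591113863790914101999752914500659363923326360994737955809291949038302324364888342002575018590974369907748809947578914354196712216313135041405354376031935670916890918551943217929397194501989480972192507700717928704111260921072850241947448859072985612376301292739266970901499602318696903227111281333585724940281158031756877259921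5070540950165835819397206089661421181812287161131737641572379146856403016482004729455525086599761806329893754374290986094932481503485654815228916628681348834011842995331016076077320931945220448617206024048063760351464532189069331970887085388822339855624363301347042962225956889301313609902318501714381589413186062580326318061856272427534443583505193776862336750416417117166771951334355547401462368566352956174359717183000638547310837484777114336612569888618744979827633341981883072814142910597300305626817879023130608762187545500225776255721542806925622235404799129779569203308820022253221709016889704898598812810278831398058098147489352511133934846230710867724542944918677622362305510761123404119229777330457766640804338921278874105960703679304118054171733423846196648004132805280421179481313655512032289404322823473400642982194978141441657878316289594753024)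

noncomputable def rc0 : Nat := (nat_lit 8839945197842802648538614583084033497207205552224305403651184667479655310570623121162119348679497680128661641374861275492230682794225896122989965396768516832959866216837249145378468151755365965843288651259634944206479325154595061360979411244943638476559620253424075525645242797615926485565175881727722614677161777127098426056874129495953156404394791191045267485608467420605691383035451847420633623140162787202995076030977253937999143638737214796240332451835289500239075553253603625675708971163292655682696613462670163085989920054314827132201022002908123554998218464168928505111267260183042132948571157710638491407515756498895731246888992257924083903109398960692240143888904280947493260774650877621691612805422287750059228749321510415610993348281201335343544419471564166859734329962091439908588911355147647633289104068155305294401925019293043239938232314983975650478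4957420139116147623774655018441443463635214437045709205449579744600622113751639120258544501794586806806894068908375465914118843443605064618828551803294928181813948455208352814522649590048903448024508717188020246585666653739178425242014580140002908843768469203154601243351613567824372269576291211595089287979705099220520619400102846969464472515050176358619059526711454000518760908936898730204771296242419930325053371560312895543523423737169379152245677223807954716351704702295763936182561984672566557277949552122012320761122940016375313422892165431361218464712889623721420639391994029433645991291389378945875255600611533077259498975332131215666832963655693418429712028285061587781852379724401727800582528395114508754225299399355221046995460488503651059859169328520563121527298595717556516797598980981221957930643128741377164969005118654684172936016959626156495325833051771625376029465648744431107090792761392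5222452111686167023582605171711767605910345117250076919042022216653526057469152131084812932119255113719509546378175475048983087255393977986225396379072087558807763110946738456333240831898258593841184456932862341318291131175927377482434334902674823577926956788002171858584212516111304494373967230930742431587655507613675179938850100909950133264242655976577326331415160974432545552811860836419488963110135950752634949447865312930742252574336148969396357026040086837208029950637020936015217777633748013443223552242464331266751726069645285821186392618668957579955081995787979548157298691911098441659496173429347134622912454597157757823188268319242894011264717621548720083039834314434143766524999321474890489450621179115092332569117441696661855376325523034331815352079895876899052257100516851231917122764919051276348575201486234492233443487351991279099198107047228685554483078329247642710895900124535986583554579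1034076055691182424723512774554727004661129581184725457217749636008759417630026042637801620663418507280836299779362549083817297693280094005353539876819523235533344459700330244863762868428266513279582108063534048427666948005063072804109906647735093641848152401239733796358562548528876373273538545215744079259643545947397214238446129848356861929841557866146725523909362387620817162015743220038192255996649047813681627106782417051281276727945048709666553503287012909591656621816001118630424442540955261633993199097155617268849659683407145718710360129680345697545962776914783238391853776776705546691033174269127376136764484169718088945350834479158161110419485701586678156755517485827245199012032973107851247764854410092292628303191310897916474090305620592844442614655215810365669474528787693850276275019832985327834481118702958103957169204410903995522961261844659863543100659002433788998010464004823622151995771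3520686572718919219217882787547633290004510365052725766351342695210014892292112756391538205990331308811087870043776163471286262301703237080867562671547934717643654279629900023809515404884546930888374842873961625888396009421557151743316936443814423331770927695052197839756798922797090986834771770873971394085288237556324356064760861407942185429309284123233819400758180791114682858887755357870079665383757947356990162036820467139724326570168016754727988365884694953495350327970527106123843187788308855533577142337892537910204598304499245920497729135306270185353905105467011186122138296638948944936119955521988683231224325364950073566004259496383675760435097797129281360841217411804738804481037649656823802457237795465705585688088013131614036117081795213416942298941745751679749601804931646787632401574295862563601682077262496090394010776834850288710587055814525114139841315361025058891533952964329558341177167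1583961603939466085647040647756070339180953108446726485268683971010853624170788989091964767079252290712372002355053111437899498093339218429506976159368720213690353316458197085465933329648621431388231261260268134621114859658250988563973137150518636384266789832597027740946114538829108930725212398612172615472545151275975224598712800765338268621828930166045519819081985960969827507757479135463942720613712584574901931866593636823711203391467041093527684237559507572858124408987043120603068263611607534411049940460269763706541817637612325881752955744226865908203559504364242678310132938275963519518418135444270117959906688986261404852522546456098893014446702965210058434733652476905745179953865487718792820337138285873206304499520988675445354910449607694406015040331475184561064356118437313307526815703691666421400846889828518813926869129666995754466833050910913586506015989073862281424141774988811603878074526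1441478293154988567805530548604967267093275090272036174764841436323342538685582640097596866997853215303433636269493068900263353749875274935030526684465681303792243010774822617396001965132298906005507394868167583938528083275191886239326181166445187615257866185216564556228186432991000054545182980991486451268631166864808488439855832227873125609748675545123915948956611815543894819897689682285883931732617034168496754480773878923821329711591881800793135926830264486542996248772074131936763284526141058791057409603987571388412328663055902264969133539465573839965756461519370506198085081954541693618625408838738268968200152423890289171367864939479377022966382371046989366357621124167579801302015663562626647145277852198803978124322318177452157056238634149614698643965032940390658447212522449796238125551595803532011200285524731846248797619822066959059704269757683907064047405382267721620579482528749799662066682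3028310336508676565593366096514259093403776172619871787148409523125341134363693003768499703239249054555006433431795842660583378992597265315563273357053644893461674661405580277723498501426145303514516927666038566985006153760813521131892962054430209643055767746209739876511883934194761021895749083232395849897492310701288516900401400184145403565147932600418036770620097531091574201358389676940031606517052228892499559883459896371865881750500606112093092254480958332973427945571827065084607382341530368961850746317145605376919538816580921795320602893457340393364815015910906934841060748461800722103302880501843618094076861735195783724555603645908971819765255806730444723406546835991105691411164072771957577700218343985495087140247715238412094963639313543788163220492322089226500874748413540960185102515421733399217167240658564418539329328103133866828392283794511144704846618792570044469223479541316843456359113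109589939709047745508023982476799746740094029694266337186400458489944864117202142158895929919019679942670561534728668985451425136138797741493111395894859974247773202227341763825216382849372571837797889046533786101118431329757541991339092792819360561505461095517857176144022923127403667546422076976425900187643655639224176535443640858784356759216038265752678486384471299947699519596769730067622930070061036094971950150724258571875668599951803151755098648515863945180235323735080696651901938169767866514271619702673895672728164048679645369116737354710215912699199524034347386086613908260169978405170112480692193403161438395728527091417298494101257276580269226737694216720569630058764699437994883332233176030024277389902540032841431938567887541328100650237386718770016708205176125480621945168421230367026783187174930561495992646264344602960539963318880369750946)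

noncomputable def rc1 : Nat := (nat_lit 8892805072808387949314883696078047791649873707747238182249826194509234097364258375469193971368689518100947597863320253120021482063110154650255153414801599323122440302341997146718781006300771093260477880607355194292558937916865758920358360651486491878393819314081560352471806499877037973556341492300414939934902534715550408623781491968506010813526818049381506224176093019771690483276155140834056603472870572968760343776219907067431376705502014538584376555251130193543810670070627354416665149431130017086088786966613781945715576451968442859749226328442973041374876377271167344936684527708469927754905571085781338860607687942256808377870462497808766181135247209555408661800667031871915162650224565077192379363111493258241704988405053735422100791707519261742263102708461040345327512560925381082405996050113636633174129812426739644076718233151606972431138223550538043818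1827394553212528088539219480141811080301395920496690943195338963767897875522465444132509676018394149317289418129600735361163104546553458700741488477184076913736181826575572680936240799434730267907969204432393212243893564883839560389905962497424528522482009283412549824260389191646588123721399485548424759760800960360600031148775519195595507057284494590997902215962520377764685164283642088450854783743445136963766665438269146929300594459393643234701743646006915839590033443722808146681781399115317274920442279615109699660076291424791327667473661883349153438084268808243044303142905001172570917374332764229447228818060136948835063200425473555841403576527890896981640535483721598930055845065450173711912355564754163594553225191055090306807790367932250952876011958430084789443152658737652522995576086637114427720014772655133944890152763947265977263944215764301995591716182231622945916354220052744575598536917181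8917403007408729803046250235297040699478192671985142522106024356141716002046615297107277667152411847535560078533347243172594622504396846915376248003392558416920854316061970753069813753514842703824474828561085017409331697302713594538272313185007526731911555490758861098745948462900175147359223998910554865877666616814198113208901061121080323150044235937021706048845341491965527509903794662996342309253757010012767212663784602133748842788735609648434330245932055003039849497724267630425628415614901605294203106798895945616906509476379735313050800917004787373540049316857984421923018347685711052121764035264268942933392640058600036926890901336526586488959679295785834131928959207365805433424349477250373503779575564613635185159010129107040960765926130204873921231802299702335423003259091773375587471299163001644340899798693028018040726018368403027275137630323606105397493560042671436880352235607917919178862445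9701567813282356495766108584999428500093661666761904601636969606910371741921129115051467610842751879168645408535448510910743640091468843822495338293389301245307553009052758481486300475237899434836771009071216227990102398104555356586662303096884669272303289620211317008701807267157398902436811835548210137379647921042559147891366699366188157692236006943734281510511595505176311251122036292154491125735776925362963017947128279627115364010143028788838443813895426367249832743157466938829050600428886293107477088805725893237849583466522122878603452096485922770603235977686482191754805931976967279837922952175424258010218501242047393238626158828739686254429563992856201091166065813089352312484064915107848284830196848751669510558781597380587419160605272033517625786631637193650482013554960638724319378335896270677239678668927696320539349583887889876791636176951015462123390253126009485293817603128255422966575151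2149035757101201422423799995904900921519029458347114331403537443320229251128592371799936482253037426914294454947446870824391739755084328528532200955069700768867210524157144120073741756640755784702751764724159413799343011802873183553848920655894887611992008181169269287773080045163792852561730811809127471389730805760177880445010036741179334537209753920012858126976759208950691676192125300881325849007945843287681043487584114969007013890623733408089864932499229143015853033854017283563105475792560580951663269735671372548700621388276436749302388225505078939029158183437239885121098591284611957448900303854880231618858283636715277590596784649299363952051816945098352616321704805704207158534555205598167781814790721826219683973199407491925112032396536721518514017006627553801519605839165946995520739778377952941325436503650775241497188900331915546809074917702706700475070696183381588555739531528012548960745592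0753214131718299369552837385026891286067804856600741328189178172429002271981668145591407981941605281272878514879682195594684905753308732439307443582444986576845884318987608433027316759220675462133633815163583705586267780161575113824032438884916744836022674719887343973853937799446440622543409092914867426906109284398015644476358090095110575570753279801666456143314238446638151367476215522280328143163246382522348645665773575163186690670335267133351087073453006103897439462336709680876612304459082597077765229291254440361921289443821683271492895551233298506391749887399705648616409733507821454191227488977025591176943881630737371319431180897890229661060015157758437077500528402119296295439602428665391744946160043803697020615705656096031130931003098977772002182245992193313080020234409974852106554022950582814404012478992154859115733359870235278304742469876720802854589703385567346378352469513439061266177127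2733609866462237219970277663974980678103349757125877219242025519925440642184576445141363358735782144346691572395380327099631857492694640076053090540861399995280707078790171489332595941635611735428712468635166034882813202250442148767592929948019270731538725059812507783816907056424591926438630047640469129625202265434612256433760852709836134347588846654231498882681369320209236029228042023786588933707501197316408357342887031405621646923753925024711570811236582088277177671710902529854219647848542024773594311540989100238455687949360079481084857640771221842069537310238917567062203545254015613236834116330110361955541312049949962290976964474515934974931127678030709473318511961591313693313378723716657931607021078302491584153012998999493288921695733722203368607966275380108464521389755385577642458227410159497897547447347330983730095762906219794427197734235383752877375862273078962170579161391394830499090767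2390762101995785401919565780415228287407084145579675434750042082981381124272089574500454525594439619227214391617870570820366135409298334798995623869889417710311912049779326611520593629270837539944013086036783325037146653879217545469497174664911150539128341646549740206223536179178433861047648515772229722571770179036577153112287119333700597189810658727480142769731119974999161421369172966341222425001533581876091173473806850946865775676093593951210309085754413236349102845479921007426996595584236917381016580125904691015241120211121576339580927864254374194730269400244205351992692748460083483284744333434768258122001599450020765282925774055986669236043230263470597484940931346947447669103324792677097732763087580476150339410407122093558603943206782047298439345629331514218672195028469350194039840290209875293056250543921386875099195648806343410635653726420527188429304956738074906279496352601612121819706153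363236815595360423862012802601801847516290621668982523463025413333093154566704789940236120871483457297042602996668534286153274496865501132097204359717944909020994507707333473762398709264327470403238118267615502183460139593064472259348946801523052677127600711001718203919898558609184457704777235172772633739099943359131354241805032782603960591917581909854948917020327676742424429308189254085937990999608219521554373974228193257809576686937333677795664937394347353515190570671312148843645508395897156359592556418430919073953700375748502237368133379460283028277483252813995898713887813675117956631407648738357397038314208414777674745993573594181543745901147022286408795972354688541743801119892734600047130150491678635716552476086350773014353482826691006381731808115352099460924917842843121079390612323760858979407588014000847063527390754527222136313140625094947)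

noncomputable def rc2 : Nat := (nat_lit 8956520558432844503503806834284376208275945515801796477288540324073327833217816630266095928028801844825414296198721579639695754712610636734685046262398040242922046927026839071975284303493464308619748797215322665853226802929145579236378773165880483099906165335344571376457424089169353709692809100876349682360080372081658259575172229577034657028057589109751322632827506521095192980346661560883267305871669413283526235076951046253862698923109266509480480605804812111860628603709648081945652627709231999030495927752825642961874019872007554822400597154319295702508985367081287554664306964434151158620644652789259087034612873074654115768762207856393682599472499769004027178986886820670364407744268259333135314557897487473992964336186264639362140064207397664322051547542882413505735715535843062500422462192396823026461298739868898527656515787816843625747649585575918659620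3684501980668472773148313626625855784208202630990340100395310622024414296846955650720801957557212804792217359518197203531224876632312012046338515629340580036413321173269719361653446108345169076861526737593653635023168420124461652026852712867719434467311489563257614409644240186936848091554341984616070713525896798678035644449957935111110651901960021784243356311586788398370923437891636142892390637513672052701977169036424121492702869852775055694898366143342759862135659325842849135026448274601464770634184895408607851429101458786067126536040541430601499962896710487925699200487498587263253250214960592995802884892605503684449391287259077134606835525684316722987513323465660536712198079877640419639938559140243258645560781160375849166350555176661951390530207515149883218567228253769244795020535608231992821920817044201909925496649441060069717660179915897057251643098027800160513686581560856529607366854197691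7291172688998905933337713078150955103742590794019560104430245758847012150641461285946215227098753354332780459583462844586875407043016381662750923507303112646747517290679905612490659078842565615622739030896141528926582170167386738540360967380009762099265823221870335599231105685296325749132241471824300062000939156936504643620899359276404457715150069870761891441965288265999332256532905188569889779138075769145302124247749622953437356595587155658541299386854336604894862903639211047039455587360842189185344906213167709145672624964765393080918297791986060811923754979782288526779457220616005908165520984854117622695809671639000723024971639524989617431128808265340617536224085838910345515359789444981392706581003393362142303418822319020814596358438165342331541749787389107150875462462245555162034229853498701239793935051791699053042160365596969470202118631747751283384536078755195527704965499041530123831509767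6468034652445684783405580199616428917247935423423294230900176105924569832861653637455201740907032511377144738999950185882250459610133410824583463917707465632300708226133222900887413377925320119968831423974524218587204333834130613591902480509103954734557521572583553358070936082885937734228377689556078314615781172624321320950093248933269698248749441703963236855867933818341696048222490030884531266314305282742294352181399142585030491414195896993341191010240758975307941829614062319155867462322968724623158109904302688642215972579435736330573652015131443109843475982123249804409712518378979006239902449781892132009147695093659105307251994286219841899772314024898611012096339400797630623279070118036189348651834902671561049337596778917113422684396944553899784874429774080642410138787390768329188432149773626797551895808548855442700984845463614645520948116658270813479450696370854581823979969928226359346000576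3830346519755160656110464151834834882992426769817687166344509449257403459937727647285470539356790117705544163495331428246456573135403891056131626236957049065840744456509340966368443902032446778276880182069580776831634414940198560544733728299995792727082987787294081417939884674503445391287964263197603006061050428299287476292606704362472001396083649093376460333518841283956040576250788770990564992150513477156534799491906006578763274242824473685400957764629688492353847913627304072896026625912501477484144171651573352837181687454451581765997228166493553892880292590909130831416031240524305962166805243872562860134425247510045881851490328943050816909925928219940790299009116339262319315140600237306325296975175662685235193113852846147401195819990228121307209612419856447623698243703178774407687465921293754037697229573586777007047010646924889084535900639033418929810014634553624104177323295879754016154536015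5027260339933959911981966882345811093525579416989140877818550612510099926240619230173104307604967959608626352387022181660943519940247027166436280387737799943386324418049054319626913813343702330423098848489893414664974407965988873849331596753498017330993938723097563550841209319773476816716087592642664419217753924305064803560774047812824415910410436420174509488197286191405096520036379983651925508410366899577777061611334156456159705671582645482024846716133196049411973091788858738729250561918753024363682988310140077307523589542373053289949978721277473238692054628838777608235775474161214122287725510021711718982270190981382457963730307563954736867564112194176390608734043528317664446964278297391431608276615242773033347630508861834342374024620080582620332993917604293912890096505169606253211240486048197071270143276293642044866499422034086800324634443273022055121415587974961112754369132834366430141928271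8201504289732436700195478374379131815825944045125555619929189677218498010676781002771001941866077282434866589016287749504535233125211830054042228827687057755338869467046332930103663222080667131936612202208498877080364949334647358955886682279288592236752635905601757070421449942174592575517487140669676447497415297177340220256317702535513539716298864659057534991415863102388745297265952623245671698425455114884330350016767474161246327043025734667635306521989445152248964111204339611583538009584124148972363294560129067418928264404134005621743095505006572112852513453507141973712498050809997246706954177094153896538090298946145697650262242410985679654393523422193420636735309471440264626052101439401229769902817204922700002738984256830264513289617836849265473097813349591725123765556411004041911811459039823684713577670265245225691216171156586498365093563289425224365669803766028887833333379347263963962327268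8574069454495141312696570005338448823177065389897460630472726599564707910179071651544167287574499618436663392602433557900675481650296770169190393129266945383215200206503511365018794463502747843462205328291205610551746105483854781523831838934138519718215489464866574206987403206464549623066645059745073256772110692112787463516598671145464790110394685765015469926831374504390655546965660573364183949976620885735078842335854400820347466353723451282153174605105176087482708338201640803467311855148614936330379184575555161454295496602396508270952293093472451614926190805954110755636697576193716711073595091637120254854718692108725075450626845990445226723515983736804343920902041099577865855881712064585007093292912641869169471764987470729433941983743167003169631749865219989444907689421310168805844567141591544966451302245744862464957569673583509011378655026210295777493860364194301379875294237385631962773598548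787075439475348658744037139221908595122887363482713208985001745365774808266045658336326737370218578206836345713889487820802000178139745350260401459204531021671541022940146373136982705746418441402695124062451531049755566873976946508275230702413860654215844129570722779826156865195871570480081514274003731767552756667230081966152127817966055216777291946178022104758987341338022785135862233477299300854364841908674851487126508750745978079660335319125758837691104274447693917326309849729389007773249601957589180424122793763004600839165979175699994172937995575773643453374392843218973144974357575461076276517803300605213381282585349179146387396984940103265605353122113764046099666185418824726588854756871291348381473587823343428871065019863314234785380523118609620987028073223823874108275461749964381029287482509570841042775418157179314317637795148551950628022349)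

noncomputable def rc3 : Nat := (nat_lit 9023602258554422471953075883652063634960105162150216088857496237645354030695175394582494402503680330533108647526340810261672176890669164308075133581483105378478388589079134600024051505449461265121542702492690876681850941153507789702275771092941786459796388248527539827344135677100296843827763222022606617013780839384219736976945466507248821440313439945454325564609621249685046296832833243735010078496987364061620008077676061167284239382433868504498177467111440362022017722934092300479138321915435560306934946048847075885545089607600945956915894526636866104320964250073468290240271017909697450982206889304185435263833474197218913435057565675450402160042788684749316835134249748002755644299728342090664183856231902378764998002086945379237628341289687488162008908364065311061618353598811814483693291876893853737634652987211701612646540792285035240334123507097450848746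7484088734442875847520943716947798225596751857202490860719075921729777097895871301083892733253253647353005670921728980747524378620844991173437543599385057022241078407370884998105021236897314960007461505144087214816133039642506425154634213194554244515723667972277122065619137102845131278140264596409600500513654227651015733164599199347678341554392567438319947565595887769704794228099990694193772375459575869599306706511901102240559875519206998392017823584711187241325777167956125334846748742304812180398593846389156443396076430997556752071314518882410249220042062579772571058576916120602419343439648991350187809805889240091262112448659975228407595255199588407087571533519374477688957694662317722676142622455475164729220671586591531565982962662907333211264399856182797330379090167619849245039361983757974570858996889098145258758772322184704929549923009095174167274196601967092715151604746686127148383780973599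8159267644779740003688730586457906630871502763692643443906618960357831952115430161743096060796453898988217993609357555703904852904050849884230621732980185525391902436748617346762200552901964458276470621001857758048821644716234822795694724215853064060263757753658045664960801491575744662895068992737119540286721216694593640347491691073647737957598100697810196955199382769750073728385659730671319044049571373883427964723343224966089985338602783823077065995320311389356664722984337714800024133035411807558734415192758799141678154745669439825216953386924031990587046157430834265035494020986788568428928355871237348973770681547617575798523315326023409504432723303392630321441158217361444419456752533405105302549121532085562688131799149937039104479677126784812905659784323289069533104537036112306429133388906168061260495962755606480442250944227072829239898743517300066426158937909320535230114243140093963599356651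2470378017967352733243549840695491491601310967968091322781682085611885295191356284991162485337723907280583642486425234374200581475813537565080355974255017809530225883162190049560440285479469858112938115039018554701092924620843535976802244544091406350054090262572633291876839943293951383886291081187903135523294837889124900284724405741663426393953760967832396026376894228467307186347532296977938115028562311462230331032807676228429007895774353662745313112511444024512088552978942624721066887603168088517051602414261835926619921983197306552104526433882726161028948943149026256684418967539589999843441373070311131988645254406682964602042681114926301270823806060185052995521605070385132375617018358826332190284672757790704952503494931747818297194926814755755833193278889126706232443595872035719132938776448427089861781626755836769090701480815602156691031117499192047167374912408547089293323994962567253998367678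3889756011597057109532619063913495305390040592339667112932553059373575471143992239303746495683912607530148306072527068385556117557674001427931960379592015126322968273789802936866860429288624691625840961959789258747354090297551678005218349988444456225911024502431774508945664553764035296522500366576181673766379471812725701896194866979329155110866397800353300005528576653018323924283594857240514187836705286999442454917402362429691776180228096531285099691514315764354431672112796827982920134736747188270547640843372001409928534850460887137054079296674231284420175727830433679401818176434757773295723884057226093720503764256767467649586041141581419383376335444874487300580438728327447168714032020758675679663969825841486288025272801271575357865952486328139714707864923915483019006333583931689837327115011581673834112097414368601253072349017856017333469169009991228237335873433590828386615842484202742884710391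7429864375110543823379612491868580702025424160959777378297558613987241726674959812517025610051539900739012044086485746766358401939863116317854966303028494037682092459068529912374100026398815675555803436191361292706790905067295306844599018188509333404524017255883877862994655727676571834852468134122267212123831180365433722603115359266416669346957904148208588930203625103379087974013701221190395783578901686556700469184683406710641511169789509373964474563096397941067563348830045473261237400129960088376024229681397821310413856353203839709146653438540366203794684120246187004689504488486776643514175149210566591886546669624499096848448377747279392790437843345456953223415551143083711464312280374065511453398537240497423008349170444429557717243510517920389085254884058748069221794147327528644367977349071340521085682779228190381492691651449315010994254280551663414146478373360337611128504652974996601114049216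2644156787520218339198088704015971487952404962433363960202883629800399258348108388482483306120315351670421594188858650930612049566837915589173933416473329962832561228182126538431204619798486582073928831265363581557888034745030536276108382794905398617376997026503249222182567514758076165577049227867663201396276446971956373626190359374247318602416943875682563737018558615628143418983985840413922424578945001178812553899699997398369404044998455842678153348098897554823526842583474727682773369751384318504861810739338665234678139603716223201265690662264764036750304607542892483871854243156819419484346762489942344009645946663038086465326075143806680372575078973203469167883092259367599196221923300960120140440792533448833144347610689566302474692636778757072528223209291149900917199147572854750738769956236261313631987915765235793322669988597042274395140040952291784940925552127186599710024856563614312280505236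3697390809896339966041049134737607462445892788131326134909023804313598545834672302797894085727247000474785455102838003085584176695340063810569374563045251936237103552071825283123338305064831806242354296129802371755056247069845875271499411194063683497578446910244690569398625289388945464170103470028812723756186788353479893937071495487064050089163129687441706112609074697558672591983461935893361507581276570598196190406243096476619787952327613191009471952870378192944467521535248383746031700970816658161385512443176416532698480796379486715665568121517677096897024405025651876682623593872104670624772711458805289149782044032189040358277488736482042876243397596660262856690058637279805029616485612177022543202735388899490132315863579707933935366837763401457343750173909193031038145992768479027896260968394095459244298877588261774234595758164769508655639629140792954491339879704104255733994362025360393848382006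042846676813614838544699341143345640374825019932470581350845102899833738259440412881952158658185625863211798263233933618879631459520751786148534212908418381428089548126611599638840056695867786456845319269718655393076500789443224461408135461084153597572638717945141176580478864359926747864389491772859690216112824347127516792803576300229018532287012485084535470658272963072769311413299167907792073877462396311930115605558422668968127693989896038880563202666208296188581946871077301941782753416337621742882368958040204476373472873827782322749762660212276836403360017195387516425406859246512310885042080417803459383585701972500215397404453108652605847969993039374222297103450666543220154930651394131407780277754293931280768179982141489513034130156830325278365250207227933089916755104576078926997898352613456677520938645959481175387388494487433681301465425401350)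

noncomputable def rc4 : Nat := (nat_lit 9094452648594950365435003364870671266849230394428784099850836627270648383471446996380292357523448100635565639471029625762555203753023294661142007367776149360007286414971367858323844027050916737592755627929439311288757611154165529965985735589318427113439996655637467328137142923719884894641820906781605279033385887599460770605593268719338549484380157108230634642900218173213510037049808818318034007233409487076329752991328752826552865583789882470630290459641965775276721535206531478920819487116883555550884375352624757718464502573567368564039275631788851528022117462831806763507789485192304201998071154562313986376089883653687301373829002510467629579334197537017553675155203796544686274684235915830046703251331469969096083684371630027676450757540181725560062041641060482700129225314512552237471649405275796161918371759677196056170345098894061781779036195769321750890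6510470134551729815405328676379115543651033758243570385865226339507999553455563342871636550848768023428072797343140716246221366040531972406043246066066169742404016561343125528958378679995473704555871870958013494825599719890319584234922053256375821803125219003268063273993575938350743026672983219679194287487409268887574980557044435553008360199050036574718778376679865108157395523126106248580160173348962064752369274354828035149626700154017177541950270806746368230489984662021949227354053948131587646079965376457806987568506595758567239003846502717236194104587491957783678642035458076647372929296539520678345507345548737837247157806749673162487069297912524119575379791108517390065510929292359177233984256425458652420966362870324199114824010580648638744864655275623019569598225771562006464343137397700407958624914112359473926751882327837830319830463945962522547627285355864485696023440187666840755020950252325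6654390805983010575557776608007587956975169707252579543808711731961653978537512990569145537557185643243621726575366532443030460272975249721860445840711545646102864080238350748817105488870729278966537841888831303088368606018288533643618124065457114036138500137688935606364442282985334962024841911467220998906253317389849003840557999739328005016154346868618796408914763670292963583320244184965689327473692789307164881655885256737351816695678373326875358025638501799624316237354680352510116883868014012993840996589497818150384961588922639299743135795155080335947300169244136126160277048874508917389841589249124912911199603581835276365860537938199212235210394506419225528226776405313048080806776751497875543806506865364725167380182044690736305431579201778887097689031240927975665586699291179081952017849073155523121840387527180547745120763720576969409462482419184174677546730907956587584640299409931391550109902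1793551973538201982110826540688623768507887368529890970561745871570562171364479893292907341632243444890540354391507010614806682493011548318595773223658158631748372953858763177126565781555302252383977980087352583893880361175659291763485278468087274718218057730233900021927439064088454091071006523325602644259227820991950214967415450227491521635045891778720783531339702511981945101737884867074002109272577695322103523130371025998340277966529323159034152649463570938926871548772243961158567080408007845489358235100408986697375307358792285052022832904575966320846643945059370186535954797321937003269319586528667649420032723699886660982398876645193777845409764095145122069898783291126541509583423085324199591404869257003426503491371134287711288438673659009323960111376682915080862340986541366594003596703516136960266196908792058747515104958218780169476758400049352803488417361828302272655580678782915470317238454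9889314487330562020917887638549849598379473449574209816891720563319523105821604024530310631977508195369778987198487600633694377648881637787208558067628339171443360724077995361949147835788012579927891347709263787142307589369087975001959707539860131072946856310695139155517594991164686068637295595608427998337196679444288407788236389572325070477988706927891067934673393528693746629365052712773283982518233490779335732990759439656903955487981830442136944628225018748469350699415192323715511931488790737660595589505037916132560377885134313364700837211094712362568602906918107461973855235565084747271252224526779976822039670206947263890910336522355302719208110576683397824732732854798517164213796550476486497412595729842978379806391804998093680186768611251638697302484580633802073123767117352828381721905830036777383708150090030852801504916047800903955223357121236526443564592584180915265543700974732138210314921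6121234279221560113650703874078694863416739789004606135015528162714779447886003036839537409971751316287366910594607860496033839624773544465977391351049557431236345614807382822767888815115295930308730001763851042120866840996321823777158179973267081125320579652396515179447715575565832388338623906427783771161691237465320430923465474115501459387429579983636434058369418327750737584287611435982695947302684016347655638145301047159480080913384956634153288061037080022534379720383928855247443024972373524692652920900236129807518467368083929125238304784765753552589879570878832002907381291094454354022202294948203441992693950929698009861773151922178475570387756032165756981517249394605035683095803185853863016556130646235902450791683295161116569085033394361337964933685838320655765117583211436807833610644988418926735594727931777477953941329446495941792220619656250707141009008896538797857070808445506892469260550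6616932207308733888708384076663705110401257208103340112666206348922700148261286551319895610723177193478698960489141170433012065776527931134470378022897553295888515528507986311376744310021598546421191452308457095992101500404381396566800112227580533291948161773215175184040079596895038682937384061895331652386283212108174281125023186059935072643414550484482006604412749759981932318710744021277534570170406493668628377263767943575987779784872216208792621809861109430256410870989441017396747039655109717070655733623162007507143209851618597799933289370453031921790093294885843348646081313732096644402701870780690211128492967776976281545969928217763817376421621231275413885626850515706645401891355002636903317804328979266102628933114663594629045039061537700309312276442539462787132438339267757717860557300640428950212550415385065192616263966214001388390340987428287341316675779748259872727645154317009606407422751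9552205519692071133338171073415715744600348258208453892004788081488433635676408946974648617323793051682610471017299424366333703337387668643664036054702429018292672123592438073117821914016304730556039295676095950713371058719977621197334688474023121373568010025613647745258622017285297058929220742063158009984649306919662400410405124528075842274390786593116217257562940658037855034042940128724993325188007699549763614225043606532568601513373463528726420397619345197562727545260189467799422461303975867877501094795596703380295296205309354227733207563808554332822637496603544132424425763492033508277660623460107720249124519229432611407992868200526567825919534953294866452448680095762506322182093994976088654776972064932980505897910844848504071749730178532072481624334541358107907226245764902385537130275635368640554331469987550552541245136434123376517643073394778141081073948768043865236267764587805768860266548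440397837070362887531418919113751456538466891562826670779003890168718927255547968068801564950777544198604486088457406297973679995269600166741322880970837519099202229258166943726819908341901174313893958117491581343020241495630584088632872055062595611084270811624502792141818135008416024128469626625577412966388830070899737209735622391721232908786713150468718779931366470780577146204346073808924104725625374296867045317357449584730649071585657936057592017102182910655759664291024583369842039492570742072102738506185283544336698926332992875479036192492265491289298933614590205303827155804484792941504067389496642514330180496793974812970329931869318134385839804161944890907833178515570445595227762546319641583990742459172395908725172180741149547892203962161066298189401643678231638269596858390797477530792007159193937547109936220516910679455104056731632947513319)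

noncomputable def rc5 : Nat := (nat_lit 9169864683296792102844053755075939479830423761823180206214613495148233587918509103885375703023327831958725648366027526968406657281193828454649368571642677013745467837112798022277785380289712299725539246613100448691293309306052076275249438618879084844997396725248924961269159486700850635884135283125829749285207133008141637103470932358318495670771874513679921832131242509560999829934491727008959251397333955142398852995266660984610622804847012189094222802578295231535021757475803941508277217647658140024717840743833828262698800608516627220356825346000527206063743922233136797490904345693108126413241003459179220130579652241072450872907099091234905551507405927894817627943893066329018634532694469201156608144939635824259497187731199157522824429296269540440818508627872264522496909894901636915239928778234386001907726466956262881495603436856231170655392746025163868694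2337852782844104587098912588024733963061300829936568149964517059163285989330565777041474193304229578153329954928820204888735793814397694957900104222105462557728488334766754086459471483845046261615077365431657108084145657860674675579746692712311632634832331446445181641636299790313975645625695546649523155518743048983128551389105936136423425501397751199628083337708121048735870310940712099048275906686990407125298501474667154701268068443136016928469723863129716061427234252241763608902205904082358163872079057327211348780334374366081705028155988141835662542636816597989493412665706781852357875544545007123546428301912451277485870034161644064167841770384497000828260227736156863009986260107543312635958319569546545856834273649342267985759921101667947147461331928558019547935446843224496849273802483730668647807069622569818628378586665715969694345381613238463188772341595071282275656224390616320322226989761917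4294881637153243256621344008088103851978804783055294151982968485781015677374644172440878526185860527932756414386982346443284167763608227909980687892307952840395572612409332106328983610426844987706718133210466609396044859152041330957781496106314944459083013824751783088909886268272630117186744033828459431875556264981750763067426913654413915223842952848522217371413797168800993666801350000293095649816711343190097522101275033136689084458529999952241644710241693097546672132490416449119676090110680791520038641564033164509662108769426874571488812388471347601574644488733101304460535406798949136461435395307625691885517499484838150186434533161640570795322789705727303669705765017800855747585318070689780049975452933802177924190684487670551412495088174725292999736329959079258829514877359475679401957938722635229678002868857585788620256401403777770182190673519633116362496830867915130775849493520584226591419855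3597006392604764312916051880179890799915057059841231824053723217801669461871185453621987511900592766962754212536899482746067876528129919455638022311784844919943705173980898377865918546158212724621183938361661398733417400732805261251300098692344966379554758322997485583593980060638554591151005403765342388461496534822087132758890235016335736150142503846126874563062711406179852874580130855664079731196953457668624497490806877486381283751890864529199121681503262121132002700694894204912009236139871112130687626358294653431393365727730811944453900024226718506135593940034586719041259983210785876821421124956240869654943425723765811985085885014450656280895996993333521125323540975205660883115392397636498411523092133356565375674236345808457334665753075270334181138751035825633983744584122177571635292610428324247133076868896558264676875117358442541602751847963237599942596493970001233323619726416093823760828173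3324460883442729015037424726299394512199151535227802742149621435673864634729570947801916776680203131178857400525827513122906626717984631660857130100096397463211910459257548234489440031233084256269372845255126598974296482724844061015123652495828833106997663847385397267639844208749666605236781672054541276387852745748079057012422663925179374461276003365742046770061597883169096997637319806114830920063286596112384591006241777890722430150198129426512960069599143660740838687595647914953341505113384564159812650639429139141242904632959363030726523787095791079242313561198463452503393890646935736867854590691994363216429754033212505994346493294968415537496160674528943015339772076686949504115878334107327362964833968306535607958466134986961967429360723483049076262122355762754036024791682290039638524629578981810458428619931436854769612071486181485250716727217562679479983905333404670375256865428923606776525532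9899214185412080743901636318249403429280464659548422715080801226994577859698415050165665132037511143744041797723053707358264954002040503470860990472100707897661370609928518105837242403341545984710238966102007780154800480846438887357797492920889871274755073371309158412035517742944639133545938281756855399931531152983611161980841887512112288516700771116997909098941998931026398396448261464730403509221000055928911587965242946275558398527425641842132261235740562184293358284573566217713272877386086854088364657008020347500453515753434738189872718243840957562693002794367100196924960340070547044016486952432091931162023950248930746264625373250524230998672405136702919491659439786392643677044957956489422252130234992082387923129482644163549564128259442447373943883641366728276305153996414248787755208389295944727766598350533377124151605681997681931046033389556043291681138291620352180028430268681501711933162575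0735885694164497613371089206077218848662981122737034650023072879472083995478869905620828742055567645445921629616662944930093315176525918834179669951972205664166026480109433413266043877871734088025029722187459571038344472917866972722618789955212970895321926251680362267801365380829235366104482710884665643689544091654539898299876203643500733232545254350448784179132825578080402195161623858640836386880184928218939037876464123174005373267344102525333356907797294356071149267764100920844709553897735945869100458202319043337633009288637656544941165501831214142106297970358817992460178668730486881695646593184122797818849452323983942094460347563802588039431022984417730928574834517033360120023718061182051273391604671382350343075674385871854878976508006264998838238886109354570888551790633401983600563644851743195718262590751515856059779364856852015319900233453299469981443375450760435532360700051612168693913728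3496181640227318821944646683579534419828192087768216127664164088733001529941286404206502315953712661731257898015707793623436173655980235866641031117521971217160326923203399805260729479217096935874909805314759165329254308834083870495931385062794808086663843732370637365998655047984269624056449874039654422028448447185960695068110495838500591527081179975834841817571620265934977476677669792414994315860013009737559641546035921176389992578692226600415865303601411719136339609258067305637958010131745122479914282229237066151204075337351226968173702976053604932376487671459829358252182793226658592101558510881675208988191434512469495478810544507945894259995238230763566589199011218176710217013527303726498401376454928149261515833421093813114360993909503417399418174161306709146618925796512961806557086328830098608665589220251385922435806767616634552507927252785371587386026695916576681613817273740920120042673080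875214676958642861275766325885492939346244823803217416578790075052663184022034038839438574906668929380817507511718301274148734657482743451058150106102588583650386992329424904577109072447761188319659032362352556263942268378182064776786705403707524173856873893919563267909806285114743192786024113621120024494442103574983935877718251331327281499066766774891386297046141896253207816092341309732735206634660420072180429429440773400735687679900022915443015429163534297670262657129866479943837684627068934934304070778346795955519059964218036047361093505788690175912947967408461787911245698379330262462684348115241891356030973125728373178858931919275909607180371015379989180378176587230524929027051721303393501890253555497513171444142103240781783351063342082043323655710368300027884915662422583437346726244296812794401355511480823727054364172185358321938708046020608)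

noncomputable def rc6 : Nat := (nat_lit 9334800684083199376645865190908239229331726903489358929278860691740759029520038408287400628130052375276889488307287171176355185524417505526502386563945446023477467017869610659794107790314405718557804403825655007694598492918420993648549036603811930412468215863826423589979328635772654970016619002963932442450855760610416450643258670734719393339570485392747918943947153914226179701843282211137405920830444887366369415808997327553004574195740333564805072302488276845691875881331644751836504180350490066842288059223643574538427200752546479786808648485504456300480513460822501606410157562608194903770569706344794752041666782845682822926121034308929755284872361895246493519796525139621387052400841005665064818957050305307025352210080688987608331137977574599425498647431466011804324058140787824834968397211362633790959321237131339234797012497287571484555780644435881929403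1023991517538776275061595036127593257350488099179779304959141475303496556854822982578618559705780103122829672465082371891283690886781596123228574091968351344542229332523358185931340586082028957790981865221670646598523709228624060441909725564213664369543860014237130285627384067130800479254267729184745628455989754321746071384850563085519125188500338696519814495379864792788587918140102023137595527658089764542463795982095706798939341017863844516869823213987139406885395895105371332316221267198645946809517574629264908387697508387891266318129631608667795299052576607922048048338908804185383394715155311469006658571943398029387243926502946213197762223427047904773117812139033899220472828670628193604746300447808375476864986436710603183617819473835077409359413607022840704816949715211379984038505182148111394623604429919552079274375277049142287134790370783966503551396085793511404800168408912188540337664111784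2025133177026535741259865457365053706946128746572601759933484063906442674720162192872744717576462325018584712775820918501780852006985415475093509842601330063424309371150859454781960177108760557488213936940341325843709721487593598026519996749472280634152683006387397496731503242986674767203503328093303758022793564559281652143982043584602318835331022607123918272453363196720003606082122998683813290437436870373972623251672756046736081748620393727968053303585136632193131707977247412504259671729689315053699719333315820319563085262900268451099853531270970674022444652567387385602289143896361714903237330994491005417375003616634441716088348797950223656046419434098788415785633314292796064906578327982190507264775935707100270053471457792760136607269702805187610459452176490509124384718782509696556662795154624318437715868956256899208690043538053999573666284725753835019571950632804591384944911004862549494115984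1332189862616101255737584753490626876410202335695173227734414897354652372390528866965001558443283281850290643081889838112922560892301717493316866734081060355410673324075752506085087567792480133654530732069498165378367710255389848811223645500314263294528095185494485994578197909416663947468740083698278769963400012918170399055128822373021711385024426944781549427589026214001137727113531363637779261582918576647079897681350937563384630144082556883831051801634408715789663001275246784177035137405278051503745480568037524820570214087359844960701263028111306629928438157827598981750133048055064644939261373517304826227804500474246501547075024350105735507925823982038218479456085436228156695859013263883697041106976142681428647353980901100832210856562663499614473548802324930257929741054874822760881134330657534573272576645762915404656006576503504013191977814140301934589233232030635471147418553628710423988522846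7867818777820608018569426580628055602377972129549813799675547956551051321074605505856584121602372730244161216408728436312949650768888211042139508812460457559400944491525684856426770376135969501548693511721087187616181522934557966808047263877210995657063481455492716010279246827562505288161982845647366455724128121809734640281361216957282984986107739925321456925309864920500355733075301845224330238284004951469916005200929883363130135751103122753195803862949136616289399820053281932650620619234085917208836325162309554467626593107357601339653381711635684067018890292862620473072190418049768801052058095999414248473697822143557108132193706093821325723635842800546246212130502229355108434028976769662315982208492493389504980883347570945261398234242093368518800897057446475841802413524114784371309347742342103766565976718854603647404511447611593248763883791409404873455000802378000728787326815881202572468259795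2874250370894522708433786597976079720393747857302443849118164168333534874773867528919685717265872970928476811845219151198076354972016067001338127197650173452819260844821563900840691396114927911505311500111350268458221535961654860434047620292679586596037721743131350951603888522056642815700583560503289047213588664333416322288673961675363284234104079955350555263923158611276564072675062085655057083950305414473562756314739801795113824106190863091762033603181497265608193369050638045336991977121253571904266320641487954930470179780926299554978918105355634706182125756264197622286273816113030291087067730772638996334024764647121585344808710073717369683308778841170939232130105125440648348906941617543058492678892606270220179333343682339981038171099822551077996509089243271744415569817398412504646484874889069361778676973093911822076347015170699395382280691968904084508864691673145225446607189739631586257357189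0702542369128998644087247783951012165513998184672964640191186027051850622211359862030100371262952797605208953205444234976030412196533007858743325333809228202849692097297696098862065758669618097401876174903940949018205905156362297863654082482619394455310102147996969424776002256251757457382980531790340655381205853624368681694759867577433397411675712481397599844493764384920037526293909009898153529663378076768736144449173969125252708885747594584269522717900446549268950775802911953383208197046732759526829377098581786535746216359795884494405090717567085821379096091617472835484637597841895195659887597531585106960189157415418233123249645545303682270609291599823789005524842139640575937290390299976843949880954039964662415382828918331266699634018929082249806903004257068796572360082113461184867153514419286767620062796681385650625681115465193083534466596983441673663575704805833057279887190936700848359718229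1843545184693864950974261262036556367265907578633735424118996274377229361125886044974953432428768279883670056844587807423768146440725363633643284718776445726188544294164306824205526842017489217460115603052366178764268316328260796117589196341468048007932953301819605800553304142640766651259114036323207046142467985116549655345267875676628064549621822295192084431541710000081994661515704177155536067540604106632983849514328631958386354714353339006653916235042609612280653075027102769784814056530608345774399014050069725279252980466233238133387028125683349075155345467814881729080012166992141691554349749766446331006348942351569975559539562072073755520131646905753231046498386163998582121533776980372221453946180198320790362411557375580653771992149251996982146638228550179097945426043838417875947279107217265195998205293302362942720452895547653199046858065143926651218711944872391866972472596478298994461011156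780543197373447765464016306003953800046918042411063996387745889463283274851402935601084003186300735915832765769262735339847014512978902474285949589791986567903430459180008715672871354982437886830885775892822059345085467362119575390638872432327479561960101130153105538429801480602103174593050977352809840629240355933752983176271669014883399827312027422764040048146814675928251751008476337358701213799479655574918286103602864974327839527585093146769048588324656882154790033079425465569020207080054446649082269403626448955937206377175417141890077269235176489992988340742819126102813844462827815142829721842162605161291600297360305078987555256237457630323554752393670920025452138718023835978939614432105779202872297695131216957555426691387138868161602996509344807538717862094464124406802499770680246970265902526149279817748040109300940507870501339443034058653696)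

noncomputable def rc7 : Nat := (nat_lit 9516799298083154076647250247635446320761611546772242505012221059064623215370210978760542431548916394426148767288621692245287092632692525129501639589972249985801048891532934973541724114378778379460029980834328737735533790479271892474223883677440980290624448815065858782748058303234371887847669321864400340649049200723457786635482222578845005670163941936794087945710507499982594032065922418184359074717189376825506078927691887954023972949760353735485094233963184141546923836076112927465968491197843590329209904212602448414504123956405742672584636642055108564806072565485264331506400895765619422604714103934974976831298507146997871459404397393401430515618941155290694882418323135516547948462836734908116858689017257295464403422236506559528927803148520696598057002752426759019616808113150442880979802104815688396522506847929451126103759515097236879418497032757256406591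6791490864626404880923152904113423464391204326503352947699001499386601378181627673510561183919859099483358191736780489351972381831065687908181059673315768101448437627491818098729086038915434742262278352312855519435383741462024227644875926832174154955505219203384784737154799107408943730294226149711759783822941485042421070659324608523947827969476922122942965969632523640896116905130248572518453564859715046151388111034823709943897558323938278646633068583018205090562633432417353860928912856423355151680648644926553238985818666132437522313086602880020789686077936074381295872340236667598017355728057661168778275994099395346635361219091099438544571767932986743643061212613171504431105927981168130896820991448269196745266044087452369498700369936073752078401721648480048244556320172344986284471102657839872254588315330897358216511533462621832139688679143645232110272177530247869640777967617688669035885164078674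4528763309845759147797716400941135683699156327273865878514438405201492643199774946699312403408139820610577905745057632160166881031440612318552502085914352018447327048337162872990999925153176283260886064668282855848787604858783868613278439890509533103566010191096535698840792408563481789814495701921301818741854626977807312221244840450247009612338559046273504942824078412243275901493138106489591562957047054187821864439287632911838461624570535930901835018726341892075757750967285964642302857897647166693389516919866948847880993194177001542619562324559972728915835802399430127196865788560400914067256310171250599095942894068803170714498070290746175383231446817307841884470597388935539767609589837721922003201630354278880161004863835633097131425312074901239254403218498176579614475732997665322780489161792288607501364955025471794708705931240502584085723037629607774017101745208223400749604743855034540793579844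2098005518745712403946064417959246324669848282144263472667490411586849608654721213729439733702276398096503161219967373061789748489781502657302521237562857035174545552681440414762103771827695603696407842862324175010891436341977694409041431745107820607590083981887991380981550277225375396612015582660587523626449874669291423603790363614682741567765643611269986860535646477276933364075788667908130607090929975826531966571181603386008933635942966909812560235688078731060476984887970007814237381779359218996782982880686921118653933389971771382658021611590897602781698639029704062271539440992324300935629175022349293101314293588192719373761567915599601052185120704243042681716282223950648850900269421403229971498234568762742223400429515831087293115772457999077430997075092566723298513243504450216353830675702261070586761457483386425036387927022549382545989814861792910401601252510232348877585337006449312435918524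2215160276348241580838818576624387021918632919985952818831926001882428199471123456660168608080102020698713134370969599823173062699921487720075451514041086042497541036219077349671364712405789191010373151756086222930957148279092216078898283058871664116532259288932712132433575980359471956172505327294679651173780028274653384085205770778852209928062742784503820262590375396625272430385635637601532865230504231633127553806307831272131719710600910821516797319931152486216745202127344358256661383274483375133761394377857052326937020008202545414429015084793217840811696010585518863907909458924783691261453105610200966385259834879062396921116045318294255720586313804436100759902453884062229474628745312266398405734501878325356075599914078119189408023974409544044675159248019870804142052711898081372131057046664848627867379180131924985391723799516374710232787689335126121726244640637761437595110247693326284489777975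1168487841002762853238470756601384738740926703997178335113577333463398703295953261819294102213299365494603741931941135346731077268539846912742216680895944694616301095214419593747932637106411440518135190099865005832286104549875709689076782268925859902966664192395892789098061414550820670707653214558384159970578566880063664328432200007651323814639343564824451753964880634649557194803443233703917576433787349694322045718213121438834797251624126939392684947341758860551501362775453145010605788503895485843091707095234103772958161045502253443659455798631767812559449494904327483498429714681532546934482213776299686046179132390960013063816109018913357765127959113684371307110324885776075058705631343446420948504839076349955815379815746350993734737727513466635665180739326483886834335182345199681485568644964394474172524895449846827334405034491292744760611074358901237316689897326809711367610002922027551932198586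6460859888814064058099726938444903796103489988813304498107861148023760248755693275238025482892852324105318100894267116834882900430494016453057740343614438588732116876790643738896335484655652078728857591990887931551897711046415227136342091449965495630336947854291658257242648655011389864655324697402086920778405320157973049593397392505147956331638417157856093200466708511911404552742205124120544486271152984779792040514457857738551171797555814645676921227948782606053585644488572819155000595950801547466476815174671936947128317086308999214034250016318728558779239574495850651040258121662668770482857896267341834122197147056328310520503441552326450747461820600924581554489847566757212512236908219395778479906936021269156342438424588714970379842213113021853360291223383760018036366455687236248786635468113662133063018685698500231404431006565535951379558809742375060945999260225815345820575529940930180443075834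8406709163725469780845975033728511116713515029617173964852143504492824592952819297937988005389038835820817284055604124864588918703604422404063338530114366843672911883471165384768660571563467154481237937917814229860892829059468244214822932939659557613732265849142944511826866540131616566071586770730757947502150720531065716324966422488553638442363146550693661863377990352161094676308164518802595864943007129726725199144069211902944184982793956710173542933576320574850473667198732256005473674189121333495824129476909559715561696275011194099385912218006756689433442556238195739238385455106976739712659624577644506643058250219629808197901521399866902979509430151329089067036526357181509188808784933767544664363296855947973557322026838081785817857841227864001724681263282578131738748308038060951545108777808256782975926107927065423309691555937550179730194439813318761177451299604570428576880999820905103250776912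694661753905796144153064771696496911320461203238523585500887517311916796271806401085638986600703103068520832612486123632015628260535204397909128928882290879030100534708959934388536047506954415480712921286372962880501875067401004778676236514055950264422406101682151043507621933250312782923373026631882684240230483131245857443376765795241897739840957187580413540091719957479280167696542345640353605792137894429434186642336290703046592637009775378171319362851258793029977791961507373991173150513744589058091760530948636025323156534204895611047409279854778702663023261801026123619748042342548637056411615701448364277905977868988297967941908963945498243780948081342700164349633180955724899689245993979857089243303080543476992975741655447375302920688680758278860873238661546377706331930182697721693624081338340506881743748815933011463354632333001269269797864996864)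

noncomputable def rc8 : Nat := (nat_lit 9713210032050954296623855388537423001330126171855312590622989482758723549837465810431941818406820163559641684955193027113755280917934853387055192000022809641785406488388175827303321905727006902922864848845406966934611583353858375819779357350953021840972928666518490870593549583111865082232142699380484697816960815776367348431558750029048644028255371006057428241517518882215779882585361305828310504362448715149623784479365547237302249515526731087720858142163575207647813400213447804004037357391304068994925520109526980329995000970410909271585143338137852333684906726744528793150777277282997725614100186919329853269296155252905271202349017070215442041716008906331230976349019273887789802075251128728830103018341821012047285917039389515509627883359424601686863091359571337893209849035111712703062288132775655378712001516953289053224014681240231670579684367077071670041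5795692118368214343861560237064871514413657430686655165573013320823816751406521062304351635133449829896025402728287766848961935900286177117339856614574515616480233344062335078154249324850259639455131619547723840367836302313294765615647109253636021166324132678328367697444634794818865985709774314980669706889805920456074945336380438707288357078555464918875499523728987316352513041394637335498580100713442992439650122321377163488837307929209836757245685435777831334676682656655374464694679894659223695521782897931540738820958439694897510734237710218975440294949974671336365192756064707186456279758188750813929046093476743125595113242334466758552041772580585201041246765065373022877008540284661821104731982260673028928554183096389122427525200452652189610989192206395183771546113081361924025038609388076539726157596304935621857451451789325192701057537914670002142183483464063058178360029350595427972342595007402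6648233199489865779636587342777989634790260827509322160345322412786107038708952422827356136708090187683964974378489212966059070825155618146050634521250407145909689248164650416113462727431195732176192378815537243374421288453967997102418309836657599629987889901588216072983962278740642556039124273993978451618238457951244819045945954433346734349572167783536824566090694719334222217038601616805149460548800313548416276690536211176409607777366425928486436507616848825029560648102262437346674268593042526488788935354481836265754125168105653962502648817588573389302563267344766067927720744719274013503235621552095332023100503188950461950611496520827230390782901038777915431703960551629980944325512600582066850729898485403443395378226860410042829918833593452716692244360082889691586029346649572577327515375441382222934297324871858077297719309677897703028541608329204869337642382754684419659206977654569271837566165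4279074052211830509604811369631072618022615681358367091449656703330530465458226014028385038916955911562253601827659328316161826531072766186831314150244016266062476800193712168542219165481891786044582164262408261577160771523253296202675711719802117217650146692132349336289355352646926224104816349394833764838670916937204127470922960051423232071622145324793299815824269992047197905137940718353684986092123617387705758428693069107112423850996070009131371918124711131120470288417130411232407374235150257653387704607031462110988186669748042796903575929959241793578445293575941778058256951355884756486726856302168876914017710956153592363580603281437449113901537557836708108431224703882297255139868366669152871986940328153988588298021671414969444567934014070377007012555379810353169577337886452859360804908948433827723612747486488808344490891102948450718158974568968830038297280747907180835569518857283441643253833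9085160871647003470025225738881004389256324262507993658240510239672463568046094458665087940509850536523657779930613509775684611919814266962085077879517654377438697350394064717529112239051116804325871470372263443911648317395262726767745901548362949871186261114955564808973655553095522175554200272039708603334832566736846797799693432146752855586904053009676821493642525553721500192725651710031496074231943527587256823188869867961314557737510364939112169986974228163764957327623125685807221289478801109960401883011949913928976653275546551589399474077123981428775315229490952767154359728339245793135522395751898141785233021508099527239184091025966564991954271555710121674400679240640639900750797940292566450079819471159796422741178332240387141987164027678714584626805326121602413133959122960376022900738451602248179104605375509176168518036018166667454167597134607472881599522137239366527093425768111225960147471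8083415573877025833969528242643891427967084111910384374380845403611533491605024817232258925324960402000316658800994375619984069465086816490162319727775593280189973027324902683768968927868595938052704211185608332850972854528010715679270541576547614198462299355180760080961916739795020420219571096936738781471835298388974488124477371034390321058817654108734701300136525690479058531303402135358162166430582920350427004625640504675974183885048961302754131212943828228428555902780458365740264017907738409626863581173675932090887609615806605146768536613812084512445210986296316210538595836677724926069489252792628330104166699826536284192183281364081569737924717802862011913018534394385836307613896748872530663313508796925706638648606588014097013983508078583997322626694521211822592823598612393595817591926331646092955867233094445543356175409945854383324286887994461933440089865961561192231333767776662521899100833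3654836276229099325503481249444130406657120553892078198588550655735329136542537799910010516675261345317525556903519844611876696507689068150080862345847523763950192629049259160544811343412401569758650978694980339736184290320027384886103896738596642405837243799860317563933826923850214248039379546783169684392485557312416096126578453803466874233507905044040535066521096962794854911546237365414284919578213196104671256312437605961264517683214055391882231991038842863527404104069218748695130378475589197784085046075130912855010628282852418177288283932776940758231106543908252586304527702983288619016264258812979986114310444315617284563853316617186467429004891478414658723416353642692738708331462273807488152333436023180839893642608086639241892133874189252998096475872756855167712195401074255432671361122876685462755215528509792367224598487849407679828292205636572175308963212028624657043607973922769750177516992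8221222200542406199952057208758978350276419619284969879545835475390621908055363216115337362010563325949868542313547566386372229264907682736304200619411950833023358109751794966413260426535146218148055332869337282278793480379812065524699317249356629800344934526162832259472101219690121147063330624204237168117438444457662682221093651458369614330989077663695154382219908746570277966226553517982969719092802544534544846048131772703490459902565001034869825469663842931761282227176727248407014491374444183083097593836445946866347901031564288754878032763064188984493188394314295960414989741890769453793068558938513212865666504887094209082021668351072763801579502992109041008704891228141649567400222087121886432412322817161333488596689527604569182351598153896115965370913155702868967738580945189005483854101593740526381496194165208346346823634937934084926308878618341622086553922051756403646120942051523237623248649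599275336861562923383658558171702256711789081286233626394898639179750905640554627266132466730081850223713073976269621158931730275753148628820969161784373201969561925419580503678338015262226132776917828285387161393635392999485624796043983329691257448785688201169447297029989509473082412998331158791808820194588259362456958538510752646206642691728587653637991348069552933279412469042008049195423585355331146649915443809357274504551158188430911428225563470649879090588464298275132252908480450495754326888000250154278949296950968064569807081301336714627885506104434207240084874772146334734110620920202458485624545345557177437205911536598977405101719579583549556142539840633352981462831124367747880241497838866115272522142043406665476345210906274417320364545179284926004075844985623812450262483325340988860040035666848460019660894115609120056521754482598930808832)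

noncomputable def rc9 : Nat := (nat_lit 9921790246736477801275789085921922556091948445439939935449010480730388225992451086219119828148171936363410959600764236391194168794353548796733219032415283882052926598341043562496340693314690950143153861115474680389368866428340444679112630778718016074203050791248390175488507075331086998767425346489072032097896922699634525993783026255124030476385730924797242752469203815629388601676934392163205558942338193080504987382530384264825831727057519229347237841850605732967995909632225820881537941002984498271069181479635612474433515754830029972130787316462444626363471544385878905275885810461534943187055113470673976428128199572267826895670071024111015129619460850240348085483292878137348971490220027070618626192396008323374674159983740269808558608511954045283317136056252878434496651350287370977550974773832570411605691374116168974623476874471610184868387005052694748559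7036085295883730213812046277727928317148379440526008384293935855898705282555520717748345331620017564456188176491607356810358924197736113022661823245255627097375159465116399615109295582569703909510552975585764684863486767681011188685837224743137337183944481322663936206785687919079953644656445708559929768529194436549321860051575338601379904117731487526548127590061159848500619184522926981837192727346519335121142051011219815755925168593762480952238446170799125624617595609662144124083453093330296015112146798195802949795032436715639371443752344050835032745401883012780958397002406445996054223521690241387270914633482243691435070751297105924905182170087445787906830503212505009349380783140066912750065372347706670176875609012884854368984069505634719734247792564936651454240821796646499278507897587839202501978260758321922955672980291145222630305865283066376513343556477813790079692432921733729533325483332828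4820635820809647496031787828611403492289046937191932288884557153814711098054917651437764265089898235884896382760376473544803689257689972907444174663688959794493542609116824800901219001251846594782638241142478556547771002166395754222087874270472499186409296351701644744173117238778986095270844042106312652583653164357916833588602615983147886119383221888439763528301072143474042992732654549759786935001712359474593430413256891490280147885762173876617474776450385637142955033051755903711495653323105302902644236160477904375198842991095109197584892353515798677619398373960017700931354610762321280298215720671783897138366357114369795415827503234806166428703299410630101768345148065137796977101897462424484302013976735485380565696765633598810280071275302904456240501472666443824150798894724270918406125330039774334604314680060086035640035562019270199001154422804468218362406449810718225214219799254410955680049999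0133782923467297517316488860241696862028814052638713796223210261547478558517367629888311189456937057859400698320765575177189041288838605707627371565273337735468681903434936305865178559203156812614540315187749330177798987621242632813454214781440757308021369140931434136528433502642726925068825296678687508737478480086307008148935692862895739945702572948137929916707437776321364222880075449125711163054761486887768988144399385226897120157239347518430636282690569821729294769793215331417819663558231104207834787046633057730559092471456711691895467121220988436409132978671133985565344439653590160135129050345130197468343369810581784774048970780490071892001393847534293450649227515605550287719181909863524025624481677271791951028889539894995364338942408862650494896030277627802861441571404615317398701595417758196916792588530439122738995873848872465188775894233423565254466238906823889504301514372801557648501771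1884747074431485145747491791321098914324071151447927679922826886925747164056262812707426581149122863412220991325455686860933371310756730742626265095899780239993180189149102169329777279152323143866137880654652063914466121397200702486603798209467174651502711953329443767762177565735955279130357337340614150279039761494340764765192920569101065371161774938168759324959419420911392050703966946371541951451279643163365203615077010338515573012212818834124761196652879151146346490185238677198308532559986419726351782411186659431203939228674793608602440677963117040880827547976774942412410956524368748357757010992379445271315122427024876179455037182957326437170557741277796968521718954246630314433645901181564429174560688341722676767824889870171069528621087383690771279427407130045484681091932272239839636806371122728874828728886699444783539946926554529704948053405798017253728077994375280044797663652594269462895126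7730662348957504696050564269807655079747381622719670686630706405168242858835243728295688419482184520902538249575543564533392730924749010903156425073187707561360032260156127728524356822694993852429318017383692172516410198006343929882846419530783197857030660065713613235704921449835107844350971162461351835555547423322367352951945334375534817059768522245420488067389350319779139305503067875660628346170995058569115972730549751362255973523912023720451388976023973062097807872472356231959536655456749209850218156238938919229571119315368637193790588577414920816930285551510887982998486844579726345659547609438501169294166338596027781615951049763824984980154363559109580980178962742329313353380423767654256294317467667075283261593594234946535239394574499265648452316281794235253030931207288720713797928408465075217419804181417108415095857127056034116405532260253230129937568250632763597172073392812359776958813647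4821224684871533294249651397901042572810917062112981024566001602153678544347316119470812330040994455172844718008506974965122348216834430160460705310512444567357551466708680706255857872801537636734597579097325023015453680550155752311603345465667237936284972957816771564461388935004353772721455369747063187437693509950580809589053972851285614523935788486942326163169056781966952958116683999822416730836048286460393334312714979219567162325076267542372187506432716029383004443623010245951631295067537442892338299310808214599106543772863362878345639031630453703669321586123666154897546249812269490379500452175869862788184474215254877943591683497228642728140595675117195349391946126559382764669377772397692203624693617059279529065907094602187288510410614705430060241784953316312059823309444019213476301033612572634499709136105073466594657566039516290842059792358725919426852938941949297723063463337913267657825138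7598211033760625611586970981308597034001895784244200897852341472040006864497433165136450208574698869963015369050859672289430123989028900115591947247893769621478317307699435832628073150302498913102038791604213404106931798449742440693665811747784886777694460681065710944515434068430139053450936431486088468871241471759560282643963928593695224268598734913141987624923199851202094025167493850418246013768265521533005115535645612005045051301911993011751700945156230720685069091405571252950053275124446822179398367836219778849798153005431214682277383680512981842454394351853741672970715618464828592522290322012734289710514558287679921990985464527527875235513348073073443175926747518378404134685694314635090382217112130747727981465171656331962890388977162955049163250813079738663156989116136441906518402782925545040438212488825858493594162345080008348074153056649514011466249913672905940636672670033782845127548057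296430779013522814104698522235449054795901077225986718379367352331463521983549211822085953196058905500654946620118893947015581252041773497587469146859565359844152573099459698112799024646893112714826815725168250689740837384637001258693894464883578754560749408573557719398815607648351061879080210210098784914447925766939305587661540445575511797190644883118310152229277628773750395403838308737249349152844112464121208225388417954099580964675188085495244067670713098902299963385274705313823866252245407440937192730490946075983225023491538883072203308411443725821395778120636962120049076033343932880651870070295731912747913901550483942824222800342879730791295253456696686304998576217417942929835483656147060226193811874915217539454821174716813616235129981569183801759325465833298738309787808875441533154387246082157462670891885479388250724676551709764164264132608)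

noncomputable def rc10 : Nat := (nat_lit 100300703480135221315746327890188465203005777537180143861251340867491500620527441880985476084944887513963259551260266928630474658276197258547085072747471705375630111873979023791032688887662985369038919266018493783226937334757432828942932980848663284284438012701295728873479462133240423184430361019350807798511285349189527084044489789038231837325016068263485337373906182747679397052570174636253786132178649974156857548682526476055579600247327089305249408158286976114233162856769489142394767235108032264244766395024897277956105640264390356370500947875065796531429218728524718613336912791001509875684000659239498532609496572778032705738477525231775172058554783612691829100327207535335106418617338284555833028204985663744829677146686385258282794101473162186067695982628936477983541241345474813732085668361590012687836935781861348618198472454735295646245411693025063989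6505234449491623423699811398156550035497851893501523719882621170238299545137624565209796446349317146346624278677771099975197295674877823183282292827381789631773711254464015330305640535950240861453344872489232384072843137164923059226809384707950103572084606141801039489542533642996566790141354226675588556784991722261364474061752442482500035402856979615384640007690233706476266975714097923108262555513403465807780364539228136070528570093311682309195780280475545782902316384721424839501164521838467910692909262795093315968338302706360218089405746849051997500433741633927709725968927829697648923756119002748534977241901250938135083514643988605216960299257952731357548623917466954423815571850700781525745953675500427925906917418813606655419089987233944534709380563908017421295581488228588780505126443700345149842455487249788437494320131911198847664667904177836328032674945190128141966320408841775810289863116011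7399362816783459057804628382894125247717581741501484114780788728396385071499768347932459463018444919650990641310425064941752266880686433839126964889103548489422543131639649038288371804794650337506777614410738935665088974591155957873982038515494811792997485725075526484508035933820978912713669324783517958992812956869709255990151747866699396536481068667398052098674518654637896577853343828712027012826555180018622248568390157226964361902534736159609129927012967972277830296321226907784987725307987008403917527763056469819612714125356280729642951733044817854090344937445241531788899169914119093466098227757401796271122604427526543263722055141986400366743143205807350394348334810316335796903138871188732209822353678370668636276870851152534567475338179613740278937273490727683399869050117635558575462011204106921566939576480103098331051448501723690686725745444765390397562538993828731569833803990366602854407374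9902348722943719936215038823077084866152766136651410255203487012036041037703950426876448723257652294921819821349406650411570986246019359558949289283889270376167889127496640093688877193882370566584084092352382543599398773156012203978038262615929747163844152714822919845769756805529682594019497234887099281627830532622995109875181166920972984836440338535857101538259863887436791718246642918318451459710171335403511721146873253094826594204588938881686176071312343536377492723446629778844528269484871988322355693793149555982022060626874750384224791180241586648504686812335319444766205486104679538865200291382270514116599690195470346703903863493680528716107383916434096196483327956690740030515084101038762778948010305566452041560925564499574650506229156799796012765246277844990818436253842794110543549088826636614310745441369092816170007480748342887807418823565421787479137218167542299822138374124325375310997509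4084457034789196839126328331763708152046917916469794123232051597137124218637200797965621464220914068445770795042384250258388009215457400829911914451605127225881510747293533404566833321737505498038310484690885163149714568275186391113340509159650904884435689837300446549753596982669743942428985672253999676608722287576089558851185398979468079537054782384303120774452359519342274466523898409952519909414214232091514534480980466794770587934123640443260393905372997239963832073925102549294722060274508989139895410780282650990635398223880012630242902643474784075433153095125523991399124664980503713318483315284544825195704691920753810018622677235660952128930488070482071746497711131679767482453421506713186163950680841124130956579388313938128194396255951004204856252734115482443399834161754317235725968243914548852012639444677526554390536238205867082960682452023594862527969567918544736018858497108372197297257443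2893487394025421539386632382647681995111890374021610913854582459548579667267318949512097984740695870324429812917183964192142846675251933001749063465648238001290039534250909040755852399762603401106245871575321380423019960545987766877940515165225846498340555692347143411274140497518933834895875853634288852798472145294060186783058354091931368176555068084334484192764728536192506756278197859028121468721765016020427111393654612705384728161449548081043447535584876444889002063578800413465515183317190540997814330521277734508698167743159059560091458566165934530887619959632798606069379794335474402181489150820160400878649964561706604697836521150193770646362340697994403728508522023888801894291996461810783899640601707299832967056169120312694923487458319523449715246025892992982805705154095000951568642286280913714020583076364380322026101861117718687811989796406767019741652912183157246272505022588882925155494620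1395146208074563371486132957441305449854587028407908560885568863210612112549095348362420384362948717990195731141592440630091009711644182375427496141444548254504136421951254453470379839940506060303330549359949104246951393443118966801041727247385697066724054301465141189257620016931233384487325331039997802669267725368339775945155037813935719133129258830804607779543990379555354131227750415217793499978795549232658444052205618202474490654628610069783491302591129933486922800862936580306234567246967818697644602853738049012918938426954747773749822510647174988327457412549656434284843546643064310683524310751469763530732006603260036149584525534593480984884024009872409823550067211622062760315053751556229000591628648367070926676080202875571840695447250652667583890403605971207050024100716757684883535676531131551344739144896060019077232301947624777340555558889638842332674754565458320252151513777043093073127531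2751230398592430537387942042501995956824661013001818773559805860558678153503216091334007443538136517885120417610929192928924359695451330865691822489810888846326202375184551879210084203667496865282902066054558977003184735365279817154218623498597884131856768765579678452481721482339068635536067948478103782513008714620313266681896353931931863933532656029262950835257153717128891743894330189856902325060894100835862572664341278723221347314848382072853223219530424858426046872515771940874107958428873535465139614522106155109628502593298795583160152678695628331755283906198446343315003559111386379091410199975291450065936392332636099473795580929194903830232436488834200257501859097436990774880994757891435419671221631313504140535437603193567091689091855194321792939719450198948097219250770071792870411126092107285024194744885907298561237630129273926697090149960231869690322711128133358572494028115803175687725992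15070540950165835819397206089661421181812287161131737641572379146856403016482004729455525086599761806329893754374290986094932481503485654815228916628681348834011842995331016076077320931945220448617206024048063760351464532189069331970887085388822339855624363301347042962225956889301313609902318501714381589413186062580326318061856272427534443583505193776862336750416417117166771951334355547401462368566352956174359717183000638547310837484777114336612569888618744979827633341981883072814142910597300305626817879023130608762187545500225776255721542806925622235404799129779569203308820022253221709016889704898598812810278831398058098147489352511133934846230710867724542944918677622362305510761123404119229777330457766640804338921278874105960703679304118054171733423846196648004132805280421179481313655512032289404322823473400642982194978141441657878316289594753024)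

end Vale.Agent.Lib.P154.PChain.BA.S4
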